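import Vale.Agent.P098.CkDefs

namespace Vale.Agent.P098.Ck

noncomputable def S372_401_216_364_0 : EL := (EL.cons 0 (TM.mk (P.cons (P.lf 3984603821 0 0) (P.cons (P.lf 0 506360443 0) (P.cons (P.lf 40320479 0 0) (P.cons (P.lf 1649728 0 0) (P.cons (P.lf 0 335571 0) (P.cons (P.lf 13014 0 0) P.nil)))))) 1861)
 (EL.cons 1 (TM.mk (P.cons (P.lf 1579171841 0 0) (P.cons (P.lf 0 165450982 0) (P.cons (P.lf 0 24357408 0) (P.cons (P.lf 2583976 0 0) (P.cons (P.lf 0 21706 0) (P.cons (P.lf 0 11396 0) P.nil)))))) 1057)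
 (EL.cons 5 (TM.mk (P.cons (P.lf 5884696382 0 0) (P.cons (P.lf 180039266 0 0) (P.cons (P.lf 0 14336174 0) (P.cons (P.lf 0 586566 0) (P.cons (P.lf 119316 0 0) (P.cons (P.lf 0 4630 0) P.nil)))))) 385)
 (EL.cons 9 (TM.mk (P.lf 6442450944 0 0) 2)
 EL.nil))))
noncomputable def S372_401_216_364_1 : EL := (EL.cons 0 (TM.mk (P.cons (P.cons (P.lf 3562121939 0 0) (P.cons (P.lf 117964743 0 0) (P.cons (P.lf 50867716 0 0) (P.lf 0 5651954 0)))) (P.cons (P.cons (P.lf 111341360 0 0) (P.cons (P.lf 0 31776583 0) (P.cons (P.lf 0 13702413 0) (P.lf 1522476 0 0)))) (P.cons (P.cons (P.lf 0 186131984 0) (P.cons (P.lf 0 5130140 0) (P.cons (P.lf 0 2212177 0) (P.lf 245813 0 0)))) (P.cons (P.cons (P.lf 10723308 0 0) (P.cons (P.lf 2561604 0 0) (P.cons (P.lf 1104591 0 0) P.nil))) (P.cons (P.cons (P.lf 3994533 0 0) (P.cons (P.lf 0 232188 0) P.nil)) (P.cons (P.cons (P.lf 0 499510 0) P.nil) P.nil))))))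 673868)
 (EL.cons 1 (TM.mk (P.cons (P.cons (P.lf 1260175455 0 0) (P.cons (P.lf 35076096 0 0) (P.cons (P.lf 15125214 0 0) (P.lf 0 1680583 0)))) (P.cons (P.cons (P.lf 381113046 0 0) (P.cons (P.lf 16173996 0 0) (P.cons (P.lf 6974406 0 0) (P.lf 0 774924 0)))) (P.cons (P.cons (P.lf 0 52274250 0) (P.cons (P.lf 0 8775219 0) (P.cons (P.lf 0 3783966 0) (P.lf 420431 0 0)))) (P.cons (P.cons (P.lf 0 18471540 0) (P.cons (P.lf 653854 0 0) (P.cons (P.lf 281944 0 0) P.nil))) (P.cons (P.cons (P.lf 2122470 0 0) (P.cons (P.lf 142352 0 0) P.nil)) (P.cons (P.cons (P.lf 160333 0 0) P.nil) P.nil)))))) 306460)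
 (EL.cons 5 (TM.mk (P.cons (P.cons (P.lf 1268983613 0 0) (P.cons (P.lf 0 133292824 0) (P.cons (P.lf 0 57477366 0) (P.lf 6386368 0 0)))) (P.cons (P.cons (P.lf 534566448 0 0) (P.cons (P.lf 55528956 0 0) (P.cons (P.lf 23944706 0 0) (P.lf 0 2660516 0)))) (P.cons (P.cons (P.lf 77169800 0 0) (P.cons (P.lf 0 5267280 0) (P.cons (P.lf 0 2271310 0) (P.lf 252360 0 0)))) (P.cons (P.cons (P.lf 0 14590590 0) (P.cons (P.lf 0 678484 0) (P.cons (P.lf 0 292566 0) P.nil))) (P.cons (P.cons (P.lf 0 898301 0) (P.cons (P.lf 135120 0 0) P.nil)) (P.cons (P.cons (P.lf 228365 0 0) P.nil) P.nil)))))) 218940)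
 (EL.cons 9 (TM.mk (P.cons (P.cons (P.lf 2237219865 0 0) (P.cons (P.lf 0 80602764 0) (P.cons (P.lf 0 34756818 0) (P.lf 3861864 0 0)))) (P.cons (P.cons (P.lf 506606904 0 0) (P.cons (P.lf 39027006 0 0) (P.cons (P.lf 16828884 0 0) (P.lf 0 1869870 0)))) (P.cons (P.cons (P.lf 9696658 0 0) (P.cons (P.lf 0 6257052 0) (P.cons (P.lf 0 2698110 0) (P.lf 299784 0 0)))) (P.cons (P.cons (P.lf 0 9509866 0) (P.cons (P.lf 204978 0 0) (P.cons (P.lf 88386 0 0) P.nil))) (P.cons (P.cons (P.lf 460558 0 0) (P.cons (P.lf 46380 0 0) P.nil)) (P.cons (P.cons (P.lf 44787 0 0) P.nil) P.nil)))))) 61748)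
 (EL.cons 2 (TM.mk (P.cons (P.cons (P.lf 0 238424312 0) (P.cons (P.lf 0 222114304 0) (P.cons (P.lf 22796150 0 0) (P.cons (P.lf 4740963 0 0) (P.lf 0 395077 0))))) (P.cons (P.cons (P.lf 63460735 0 0) (P.cons (P.lf 59119545 0 0) (P.cons (P.lf 0 6067586 0) (P.cons (P.lf 0 1261887 0) (P.lf 105153 0 0))))) (P.cons (P.cons (P.lf 0 312986 0) (P.cons (P.lf 0 291574 0) (P.cons (P.lf 29922 0 0) (P.cons (P.lf 6221 0 0) P.nil)))) (P.cons (P.cons (P.lf 0 1106701 0) (P.cons (P.lf 0 1030995 0) (P.cons (P.lf 105811 0 0) P.nil))) (P.cons (P.cons (P.lf 84389 0 0) (P.cons (P.lf 78615 0 0) P.nil)) (P.cons (P.cons (P.lf 2438 0 0) P.nil) P.nil)))))) 68016)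
 (EL.cons 6 (TM.mk (P.cons (P.cons (P.lf 84210117 0 0) (P.cons (P.lf 78449517 0 0) (P.cons (P.lf 0 8051469 0) (P.cons (P.lf 0 1674480 0) (P.lf 139539 0 0))))) (P.cons (P.cons (P.lf 0 40773654 0) (P.cons (P.lf 0 37984431 0) (P.cons (P.lf 3898437 0 0) (P.cons (P.lf 810765 0 0) (P.lf 0 67563 0))))) (P.cons (P.cons (P.lf 6537087 0 0) (P.cons (P.lf 6089901 0 0) (P.cons (P.lf 0 625020 0) (P.cons (P.lf 0 129984 0) P.nil)))) (P.cons (P.cons (P.lf 0 214152 0) (P.cons (P.lf 0 199503 0) (P.cons (P.lf 20475 0 0) P.nil))) (P.cons (P.cons (P.lf 0 48456 0) (P.cons (P.lf 0 45141 0) P.nil)) (P.cons (P.cons (P.lf 5385 0 0) P.nil) P.nil)))))) 33423)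
 EL.nil))))))
noncomputable def S372_401_216_364_2 : EL := (EL.cons 0 (TM.mk (P.cons (P.cons (P.lf 1993473220 0 0) (P.cons (P.lf 27420127 0 0) (P.cons (P.lf 8248390 0 0) (P.cons (P.lf 0 4397313 0) (P.cons (P.lf 0 322208 0) (P.cons (P.lf 147736 0 0) P.nil)))))) (P.cons (P.cons (P.lf 480995095 0 0) (P.cons (P.lf 23530043 0 0) (P.cons (P.lf 13054005 0 0) (P.cons (P.lf 1380177 0 0) (P.cons (P.lf 262021 0 0) P.nil))))) (P.cons (P.cons (P.lf 0 107051640 0) (P.cons (P.lf 0 8592195 0) (P.cons (P.lf 0 4516938 0) (P.cons (P.lf 0 288509 0) P.nil)))) (P.cons (P.cons (P.lf 0 27605511 0) (P.cons (P.lf 0 1638087 0) (P.cons (P.lf 0 676579 0) P.nil))) (P.cons (P.cons (P.lf 4058862 0 0) (P.cons (P.lf 782375 0 0) P.nil)) (P.cons (P.cons (P.lf 827551 0 0) P.nil) P.nil)))))) 3587244)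
 (EL.cons 1 (TM.mk (P.cons (P.cons (P.lf 684788672 0 0) (P.cons (P.lf 6550557 0 0) (P.cons (P.lf 1699800 0 0) (P.cons (P.lf 0 1283976 0) (P.cons (P.lf 0 101370 0) (P.cons (P.lf 46484 0 0) P.nil)))))) (P.cons (P.cons (P.lf 396588306 0 0) (P.cons (P.lf 17506678 0 0) (P.cons (P.lf 7834600 0 0) (P.cons (P.lf 0 592533 0) (P.cons (P.lf 25737 0 0) P.nil))))) (P.cons (P.cons (P.lf 27983480 0 0) (P.cons (P.lf 0 188622 0) (P.cons (P.lf 148469 0 0) (P.cons (P.lf 207219 0 0) P.nil)))) (P.cons (P.cons (P.lf 0 20163435 0) (P.cons (P.lf 0 1576072 0) (P.cons (P.lf 0 805647 0) P.nil))) (P.cons (P.cons (P.lf 0 2341511 0) (P.cons (P.lf 6870 0 0) P.nil)) (P.cons (P.cons (P.lf 532380 0 0) P.nil) P.nil)))))) 1535191)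
 (EL.cons 5 (TM.mk (P.cons (P.cons (P.lf 171698410 0 0) (P.cons (P.lf 0 73194047 0) (P.cons (P.lf 0 29147927 0) (P.cons (P.lf 5588929 0 0) (P.cons (P.lf 217555 0 0) (P.cons (P.lf 0 99742 0) P.nil)))))) (P.cons (P.cons (P.lf 227743856 0 0) (P.cons (P.lf 7986299 0 0) (P.cons (P.lf 1303216 0 0) (P.cons (P.lf 0 2228701 0) (P.cons (P.lf 0 192891 0) P.nil))))) (P.cons (P.cons (P.lf 90844370 0 0) (P.cons (P.lf 4811119 0 0) (P.cons (P.lf 2808655 0 0) (P.cons (P.lf 402548 0 0) P.nil)))) (P.cons (P.cons (P.lf 4058145 0 0) (P.cons (P.lf 31340 0 0) (P.cons (P.lf 0 88804 0) P.nil))) (P.cons (P.cons (P.lf 0 2759138 0) (P.cons (P.lf 0 370113 0) P.nil)) (P.cons (P.cons (P.lf 0 209326 0) P.nil) P.nil)))))) 1457248)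
 (EL.cons 9 (TM.mk (P.cons (P.cons (P.lf 776901952 0 0) (P.cons (P.lf 0 55980589 0) (P.cons (P.lf 0 23131023 0) (P.cons (P.lf 3551857 0 0) (P.cons (P.lf 90877 0 0) (P.cons (P.lf 0 41668 0) P.nil)))))) (P.cons (P.cons (P.lf 351850882 0 0) (P.cons (P.lf 14428693 0 0) (P.cons (P.lf 5245266 0 0) (P.cons (P.lf 0 1533507 0) (P.cons (P.lf 0 88005 0) P.nil))))) (P.cons (P.cons (P.lf 46571974 0 0) (P.cons (P.lf 1549525 0 0) (P.cons (P.lf 1061157 0 0) (P.cons (P.lf 264672 0 0) P.nil)))) (P.cons (P.cons (P.lf 0 5079826 0) (P.cons (P.lf 0 486252 0) (P.cons (P.lf 0 290616 0) P.nil))) (P.cons (P.cons (P.lf 0 1161166 0) (P.cons (P.lf 0 81127 0) P.nil)) (P.cons (P.cons (P.lf 74910 0 0) P.nil) P.nil)))))) 568058)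
 (EL.cons 2 (TM.mk (P.cons (P.cons (P.lf 0 165591517 0) (P.cons (P.lf 0 148297871 0) (P.cons (P.lf 23962893 0 0) (P.cons (P.lf 4833056 0 0) (P.cons (P.lf 0 905276 0) (P.cons (P.lf 0 13938 0) P.nil)))))) (P.cons (P.cons (P.lf 6577683 0 0) (P.cons (P.lf 1651134 0 0) (P.cons (P.lf 0 6729609 0) (P.cons (P.lf 0 1286595 0) (P.cons (P.lf 484284 0 0) P.nil))))) (P.cons (P.cons (P.lf 9045472 0 0) (P.cons (P.lf 9666511 0 0) (P.cons (P.lf 824776 0 0) (P.cons (P.lf 140242 0 0) P.nil)))) (P.cons (P.cons (P.lf 77062 0 0) (P.cons (P.lf 0 42744 0) (P.cons (P.lf 0 163462 0) P.nil))) (P.cons (P.cons (P.lf 0 337820 0) (P.cons (P.lf 0 329017 0) P.nil)) (P.cons (P.cons (P.lf 18315 0 0) P.nil) P.nil)))))) 649298)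
 (EL.cons 6 (TM.mk (P.cons (P.cons (P.lf 58485984 0 0) (P.cons (P.lf 52377966 0 0) (P.cons (P.lf 0 8463558 0) (P.cons (P.lf 0 1707006 0) (P.cons (P.lf 319734 0 0) (P.cons (P.lf 4920 0 0) P.nil)))))) (P.cons (P.cons (P.lf 0 15074448 0) (P.cons (P.lf 0 12002730 0) (P.cons (P.lf 4222104 0 0) (P.cons (P.lf 826584 0 0) (P.cons (P.lf 0 240756 0) P.nil))))) (P.cons (P.cons (P.lf 0 1618866 0) (P.cons (P.lf 0 2329266 0) (P.cons (P.lf 0 964272 0) (P.cons (P.lf 0 179814 0) P.nil)))) (P.cons (P.cons (P.lf 508008 0 0) (P.cons (P.lf 642378 0 0) (P.cons (P.lf 181902 0 0) P.nil))) (P.cons (P.cons (P.lf 84756 0 0) (P.cons (P.lf 63492 0 0) P.nil)) (P.cons (P.cons (P.lf 0 28476 0) P.nil) P.nil)))))) 362220)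
 EL.nil))))))
noncomputable def S372_401_216_364_3 : EL := (EL.cons 0 (TM.mk (P.cons (P.lf 4471113042 0 0) (P.cons (P.lf 506360443 0 0) (P.cons (P.lf 0 40320479 0) (P.cons (P.lf 0 1649728 0) (P.cons (P.lf 335571 0 0) (P.cons (P.lf 0 13014 0) P.nil)))))) 1861)
 (EL.cons 1 (TM.mk (P.cons (P.lf 0 1579171841 0) (P.cons (P.lf 165450982 0 0) (P.cons (P.lf 24357408 0 0) (P.cons (P.lf 0 2583976 0) (P.cons (P.lf 21706 0 0) (P.cons (P.lf 11396 0 0) P.nil)))))) 1057)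
 (EL.cons 5 (TM.mk (P.cons (P.lf 557754562 0 0) (P.cons (P.lf 0 180039266 0) (P.cons (P.lf 14336174 0 0) (P.cons (P.lf 586566 0 0) (P.cons (P.lf 0 119316 0) (P.cons (P.lf 4630 0 0) P.nil)))))) 378)
 EL.nil)))
noncomputable def S372_401_216_364_4 : EL := (EL.cons 0 (TM.mk (P.cons (P.cons (P.lf 1552648674 0 0) (P.cons (P.lf 0 55938969 0) (P.cons (P.lf 0 24121511 0) (P.lf 2680163 0 0)))) (P.cons (P.cons (P.lf 527429142 0 0) (P.cons (P.lf 20749881 0 0) (P.cons (P.lf 8947582 0 0) (P.lf 0 994171 0)))) (P.cons (P.cons (P.lf 32545807 0 0) (P.cons (P.lf 0 770561 0) (P.cons (P.lf 0 332274 0) (P.lf 36914 0 0)))) (P.cons (P.cons (P.lf 0 9581308 0) (P.cons (P.lf 0 573143 0) (P.cons (P.lf 0 247148 0) P.nil))) (P.cons (P.cons (P.lf 0 501702 0) (P.cons (P.lf 73265 0 0) P.nil)) (P.cons (P.cons (P.lf 146183 0 0) P.nil) P.nil)))))) 141211)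
 (EL.cons 1 (TM.mk (P.cons (P.cons (P.lf 0 548386730 0) (P.cons (P.lf 19757326 0 0) (P.cons (P.lf 8519580 0 0) (P.lf 0 946618 0)))) (P.cons (P.cons (P.lf 0 66724470 0) (P.cons (P.lf 0 11636278 0) (P.cons (P.lf 0 5017693 0) (P.lf 557518 0 0)))) (P.cons (P.cons (P.lf 19091925 0 0) (P.cons (P.lf 2231251 0 0) (P.cons (P.lf 962139 0 0) (P.lf 0 106901 0)))) (P.cons (P.cons (P.lf 3598123 0 0) (P.cons (P.lf 0 31051 0) (P.cons (P.lf 0 13389 0) P.nil))) (P.cons (P.cons (P.lf 0 516112 0) (P.cons (P.lf 0 45684 0) P.nil)) (P.cons (P.cons (P.lf 0 33328 0) P.nil) P.nil)))))) 67676)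
 (EL.cons 5 (TM.mk (P.cons (P.cons (P.lf 193687090 0 0) (P.cons (P.lf 0 6978176 0) (P.cons (P.lf 0 3009066 0) (P.lf 334340 0 0)))) (P.cons (P.cons (P.lf 0 18661392 0) (P.cons (P.lf 5631264 0 0) (P.cons (P.lf 2428264 0 0) (P.lf 0 269806 0)))) (P.cons (P.cons (P.lf 0 8339620 0) (P.cons (P.lf 0 1811706 0) (P.cons (P.lf 0 781226 0) (P.lf 86802 0 0)))) (P.cons (P.cons (P.lf 236732 0 0) (P.cons (P.lf 272110 0 0) (P.cons (P.lf 117336 0 0) P.nil))) (P.cons (P.cons (P.lf 331900 0 0) (P.cons (P.lf 0 10590 0) P.nil)) (P.cons (P.cons (P.lf 0 37046 0) P.nil) P.nil)))))) 37468)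
 EL.nil)))
noncomputable def S372_401_216_364_5 : EL := (EL.cons 0 (TM.mk (P.cons (P.cons (P.lf 539176236 0 0) (P.cons (P.lf 0 38850980 0) (P.cons (P.lf 0 16053115 0) (P.cons (P.lf 2465017 0 0) (P.cons (P.lf 63068 0 0) (P.cons (P.lf 0 28917 0) P.nil)))))) (P.cons (P.cons (P.lf 305249895 0 0) (P.cons (P.lf 5613695 0 0) (P.cons (P.lf 1822215 0 0) (P.cons (P.lf 0 785098 0) (P.cons (P.lf 0 53933 0) P.nil))))) (P.cons (P.cons (P.lf 55113630 0 0) (P.cons (P.lf 2559798 0 0) (P.cons (P.lf 1293482 0 0) (P.cons (P.lf 40923 0 0) P.nil)))) (P.cons (P.cons (P.lf 0 2266022 0) (P.cons (P.lf 0 291640 0) (P.cons (P.lf 0 145190 0) P.nil))) (P.cons (P.cons (P.lf 0 1546224 0) (P.cons (P.lf 0 110828 0) P.nil)) (P.cons (P.cons (P.lf 0 2650 0) P.nil) P.nil)))))) 553277)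
 (EL.cons 1 (TM.mk (P.cons (P.cons (P.lf 0 190433996 0) (P.cons (P.lf 13721945 0 0) (P.cons (P.lf 5669868 0 0) (P.cons (P.lf 0 870630 0) (P.cons (P.lf 0 22275 0) (P.cons (P.lf 10213 0 0) P.nil)))))) (P.cons (P.cons (P.lf 0 66293683 0) (P.cons (P.lf 0 4974414 0) (P.cons (P.lf 0 1879753 0) (P.cons (P.lf 467107 0 0) (P.cons (P.lf 23904 0 0) P.nil))))) (P.cons (P.cons (P.lf 557589 0 0) (P.cons (P.lf 0 220920 0) (P.cons (P.lf 0 212855 0) (P.cons (P.lf 0 90828 0) P.nil)))) (P.cons (P.cons (P.lf 3459858 0 0) (P.cons (P.lf 235987 0 0) (P.cons (P.lf 127595 0 0) P.nil))) (P.cons (P.cons (P.lf 191739 0 0) (P.cons (P.lf 7278 0 0) P.nil)) (P.cons (P.cons (P.lf 0 83506 0) P.nil) P.nil)))))) 227838)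
 (EL.cons 5 (TM.mk (P.cons (P.cons (P.lf 67260210 0 0) (P.cons (P.lf 0 4846514 0) (P.cons (P.lf 0 2002564 0) (P.cons (P.lf 307500 0 0) (P.cons (P.lf 7866 0 0) (P.cons (P.lf 0 3606 0) P.nil)))))) (P.cons (P.cons (P.lf 8750330 0 0) (P.cons (P.lf 2813582 0 0) (P.cons (P.lf 1100522 0 0) (P.cons (P.lf 0 232022 0) (P.cons (P.lf 0 10158 0) P.nil))))) (P.cons (P.cons (P.lf 0 4071964 0) (P.cons (P.lf 0 393642 0) (P.cons (P.lf 0 106186 0) (P.cons (P.lf 73672 0 0) P.nil)))) (P.cons (P.cons (P.lf 0 887576 0) (P.cons (P.lf 0 58388 0) (P.cons (P.lf 0 45248 0) P.nil))) (P.cons (P.cons (P.lf 162712 0 0) (P.cons (P.lf 12362 0 0) P.nil)) (P.cons (P.cons (P.lf 25912 0 0) P.nil) P.nil)))))) 102890)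
 EL.nil)))
noncomputable def S372_401_216_364_6 : EL := (EL.cons 12 (TM.mk (P.lf 8589934592 0 0) 0)
 (EL.cons 3 (TM.mk (P.cons (P.lf 3098651666 0 0) (P.cons (P.lf 175463538 0 0) (P.cons (P.lf 0 18939693 0) (P.cons (P.lf 500812 0 0) (P.cons (P.lf 30041 0 0) (P.cons (P.lf 0 3150 0) P.nil)))))) 205)
 (EL.cons 7 (TM.mk (P.cons (P.lf 0 1094426245 0) (P.cons (P.lf 176636564 0 0) (P.cons (P.lf 189038 0 0) (P.cons (P.lf 0 544971 0) (P.cons (P.lf 29121 0 0) (P.cons (P.lf 63 0 0) P.nil)))))) 165)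
 EL.nil)))
noncomputable def S372_401_216_364_7 : EL := (EL.cons 12 (TM.mk (P.cons (P.cons (P.lf 2982959820 0 0) (P.cons (P.lf 0 107470352 0) (P.cons (P.lf 0 46342424 0) (P.lf 5149152 0 0)))) (P.cons (P.cons (P.lf 675475872 0 0) (P.cons (P.lf 52036008 0 0) (P.cons (P.lf 22438512 0 0) (P.lf 0 2493160 0)))) (P.cons (P.cons (P.lf 12928878 0 0) (P.cons (P.lf 0 8342736 0) (P.cons (P.lf 0 3597480 0) (P.lf 399712 0 0)))) (P.cons (P.cons (P.lf 0 12679822 0) (P.cons (P.lf 273304 0 0) (P.cons (P.lf 117848 0 0) P.nil))) (P.cons (P.cons (P.lf 614078 0 0) (P.cons (P.lf 61840 0 0) P.nil)) (P.cons (P.cons (P.lf 59716 0 0) P.nil) P.nil)))))) 82306)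
 (EL.cons 3 (TM.mk (P.cons (P.cons (P.lf 2585772410 0 0) (P.cons (P.lf 77535672 0 0) (P.cons (P.lf 33434252 0 0) (P.lf 0 3714910 0)))) (P.cons (P.cons (P.lf 200983451 0 0) (P.cons (P.lf 0 33151436 0) (P.cons (P.lf 0 14295270 0) (P.lf 1588356 0 0)))) (P.cons (P.cons (P.lf 0 88281781 0) (P.cons (P.lf 3419198 0 0) (P.cons (P.lf 1474394 0 0) (P.lf 0 163814 0)))) (P.cons (P.cons (P.lf 8611094 0 0) (P.cons (P.lf 385646 0 0) (P.cons (P.lf 166296 0 0) P.nil))) (P.cons (P.cons (P.lf 569278 0 0) (P.cons (P.lf 0 97884 0) P.nil)) (P.cons (P.cons (P.lf 0 148954 0) P.nil) P.nil)))))) 265660)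
 (EL.cons 7 (TM.mk (P.cons (P.cons (P.lf 1139767805 0 0) (P.cons (P.lf 130773622 0 0) (P.cons (P.lf 56391061 0 0) (P.lf 0 6265674 0)))) (P.cons (P.cons (P.lf 202327086 0 0) (P.cons (P.lf 0 33373071 0) (P.cons (P.lf 0 14390844 0) (P.lf 1598985 0 0)))) (P.cons (P.cons (P.lf 0 66816065 0) (P.cons (P.lf 0 195973 0) (P.cons (P.lf 0 84504 0) (P.lf 9388 0 0)))) (P.cons (P.cons (P.lf 0 2276111 0) (P.cons (P.lf 563148 0 0) (P.cons (P.lf 242833 0 0) P.nil))) (P.cons (P.cons (P.lf 914535 0 0) (P.cons (P.lf 0 21615 0) P.nil)) (P.cons (P.cons (P.lf 0 28914 0) P.nil) P.nil)))))) 146784)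
 (EL.cons 10 (TM.mk (P.cons (P.cons (P.lf 0 330474267 0) (P.cons (P.lf 0 307867353 0) (P.cons (P.lf 31597203 0 0) (P.cons (P.lf 6571338 0 0) (P.lf 0 547611 0))))) (P.cons (P.cons (P.lf 106674777 0 0) (P.cons (P.lf 99377424 0 0) (P.cons (P.lf 0 10199355 0) (P.cons (P.lf 0 2121180 0) (P.lf 176763 0 0))))) (P.cons (P.cons (P.lf 0 8494302 0) (P.cons (P.lf 0 7913229 0) (P.cons (P.lf 812154 0 0) (P.cons (P.lf 168903 0 0) P.nil)))) (P.cons (P.cons (P.lf 0 347544 0) (P.cons (P.lf 0 323769 0) (P.cons (P.lf 33228 0 0) P.nil))) (P.cons (P.cons (P.lf 70695 0 0) (P.cons (P.lf 65859 0 0) P.nil)) (P.cons (P.cons (P.lf 0 2742 0) P.nil) P.nil)))))) 33279)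
 EL.nil))))
noncomputable def S372_401_216_364_8 : EL := (EL.cons 12 (TM.mk (P.cons (P.cons (P.lf 1035869270 0 0) (P.cons (P.lf 0 74640786 0) (P.cons (P.lf 0 30841364 0) (P.cons (P.lf 4735810 0 0) (P.cons (P.lf 121170 0 0) (P.cons (P.lf 0 55558 0) P.nil)))))) (P.cons (P.cons (P.lf 469134510 0 0) (P.cons (P.lf 19238258 0 0) (P.cons (P.lf 6993688 0 0) (P.cons (P.lf 0 2044676 0) (P.cons (P.lf 0 117340 0) P.nil))))) (P.cons (P.cons (P.lf 62095966 0 0) (P.cons (P.lf 2066034 0 0) (P.cons (P.lf 1414876 0 0) (P.cons (P.lf 352896 0 0) P.nil)))) (P.cons (P.cons (P.lf 0 6773102 0) (P.cons (P.lf 0 648336 0) (P.cons (P.lf 0 387488 0) P.nil))) (P.cons (P.cons (P.lf 0 1548222 0) (P.cons (P.lf 0 108170 0) P.nil)) (P.cons (P.cons (P.lf 99880 0 0) P.nil) P.nil)))))) 757382)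
 (EL.cons 3 (TM.mk (P.cons (P.cons (P.lf 1422212499 0 0) (P.cons (P.lf 16073418 0 0) (P.cons (P.lf 4505875 0 0) (P.cons (P.lf 0 2861622 0) (P.cons (P.lf 0 218551 0) (P.cons (P.lf 100206 0 0) P.nil)))))) (P.cons (P.cons (P.lf 355865703 0 0) (P.cons (P.lf 10053537 0 0) (P.cons (P.lf 6546342 0 0) (P.cons (P.lf 1425248 0 0) (P.cons (P.lf 199266 0 0) P.nil))))) (P.cons (P.cons (P.lf 0 51619894 0) (P.cons (P.lf 0 4287151 0) (P.cons (P.lf 0 2645936 0) (P.cons (P.lf 0 482171 0) P.nil)))) (P.cons (P.cons (P.lf 0 12783587 0) (P.cons (P.lf 0 795583 0) (P.cons (P.lf 0 216685 0) P.nil))) (P.cons (P.cons (P.lf 2063035 0 0) (P.cons (P.lf 479459 0 0) P.nil)) (P.cons (P.cons (P.lf 313095 0 0) P.nil) P.nil)))))) 1960667)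
 (EL.cons 7 (TM.mk (P.cons (P.cons (P.lf 923574626 0 0) (P.cons (P.lf 52795926 0 0) (P.cons (P.lf 19665239 0 0) (P.cons (P.lf 0 5203916 0) (P.cons (P.lf 0 279450 0) (P.cons (P.lf 128128 0 0) P.nil)))))) (P.cons (P.cons (P.lf 358244772 0 0) (P.cons (P.lf 10120741 0 0) (P.cons (P.lf 6590106 0 0) (P.cons (P.lf 1434783 0 0) (P.cons (P.lf 200591 0 0) P.nil))))) (P.cons (P.cons (P.lf 0 12912316 0) (P.cons (P.lf 0 3212532 0) (P.cons (P.lf 0 1945222 0) (P.cons (P.lf 0 328990 0) P.nil)))) (P.cons (P.cons (P.lf 0 16929346 0) (P.cons (P.lf 0 1329524 0) (P.cons (P.lf 0 541038 0) P.nil))) (P.cons (P.cons (P.lf 0 391382 0) (P.cons (P.lf 299778 0 0) P.nil)) (P.cons (P.cons (P.lf 405978 0 0) P.nil) P.nil)))))) 1176678)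
 (EL.cons 10 (TM.mk (P.cons (P.cons (P.lf 0 229522458 0) (P.cons (P.lf 0 205552146 0) (P.cons (P.lf 33214398 0 0) (P.cons (P.lf 6698982 0 0) (P.cons (P.lf 0 1254786 0) (P.cons (P.lf 0 19320 0) P.nil)))))) (P.cons (P.cons (P.lf 22114062 0 0) (P.cons (P.lf 13928148 0 0) (P.cons (P.lf 0 11208546 0) (P.cons (P.lf 0 2162658 0) (P.cons (P.lf 742314 0 0) P.nil))))) (P.cons (P.cons (P.lf 9882588 0 0) (P.cons (P.lf 11353446 0 0) (P.cons (P.lf 1980912 0 0) (P.cons (P.lf 357792 0 0) P.nil)))) (P.cons (P.cons (P.lf 0 280524 0) (P.cons (P.lf 0 583794 0) (P.cons (P.lf 0 412620 0) P.nil))) (P.cons (P.cons (P.lf 0 393306 0) (P.cons (P.lf 0 353850 0) P.nil)) (P.cons (P.cons (P.lf 43902 0 0) P.nil) P.nil)))))) 935052)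
 EL.nil))))
noncomputable def S372_401_216_364_9 : EL := (EL.cons 3 (TM.mk (P.cons (P.lf 3098651666 0 0) (P.cons (P.lf 175463538 0 0) (P.cons (P.lf 0 18939693 0) (P.cons (P.lf 500812 0 0) (P.cons (P.lf 30041 0 0) (P.cons (P.lf 0 3150 0) P.nil)))))) 205)
 (EL.cons 7 (TM.mk (P.cons (P.lf 0 1094426245 0) (P.cons (P.lf 176636564 0 0) (P.cons (P.lf 189038 0 0) (P.cons (P.lf 0 544971 0) (P.cons (P.lf 29121 0 0) (P.cons (P.lf 63 0 0) P.nil)))))) 165)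
 EL.nil))
noncomputable def S372_401_216_364_10 : EL := (EL.cons 3 (TM.mk (P.cons (P.cons (P.lf 1076044679 0 0) (P.cons (P.lf 0 38767836 0) (P.cons (P.lf 0 16717126 0) (P.lf 1857455 0 0)))) (P.cons (P.cons (P.lf 304596629 0 0) (P.cons (P.lf 16575718 0 0) (P.cons (P.lf 7147635 0 0) (P.lf 0 794178 0)))) (P.cons (P.cons (P.lf 11884505 0 0) (P.cons (P.lf 0 1709599 0) (P.cons (P.lf 0 737197 0) (P.lf 81907 0 0)))) (P.cons (P.cons (P.lf 0 5625328 0) (P.cons (P.lf 0 192823 0) (P.cons (P.lf 0 83148 0) P.nil))) (P.cons (P.cons (P.lf 0 16181 0) (P.cons (P.lf 48942 0 0) P.nil)) (P.cons (P.cons (P.lf 64064 0 0) P.nil) P.nil)))))) 65748)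
 (EL.cons 7 (TM.mk (P.cons (P.cons (P.lf 0 380052895 0) (P.cons (P.lf 13692580 0 0) (P.cons (P.lf 5904394 0 0) (P.lf 0 656043 0)))) (P.cons (P.cons (P.lf 0 24721812 0) (P.cons (P.lf 0 8839737 0) (P.cons (P.lf 0 3811794 0) (P.lf 423531 0 0)))) (P.cons (P.cons (P.lf 12308350 0 0) (P.cons (P.lf 2130593 0 0) (P.cons (P.lf 918735 0 0) (P.lf 0 102080 0)))) (P.cons (P.cons (P.lf 1706986 0 0) (P.cons (P.lf 0 198411 0) (P.cons (P.lf 0 85556 0) P.nil))) (P.cons (P.cons (P.lf 0 371433 0) (P.cons (P.lf 0 6108 0) P.nil)) (P.cons (P.cons (P.lf 6231 0 0) P.nil) P.nil)))))) 29732)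
 EL.nil))
noncomputable def S372_401_216_364_11 : EL := (EL.cons 3 (TM.mk (P.cons (P.cons (P.lf 373669671 0 0) (P.cons (P.lf 0 26925210 0) (P.cons (P.lf 0 11125421 0) (P.cons (P.lf 1708350 0 0) (P.cons (P.lf 43709 0 0) (P.cons (P.lf 0 20040 0) P.nil)))))) (P.cons (P.cons (P.lf 190390473 0 0) (P.cons (P.lf 5415165 0 0) (P.cons (P.lf 1892850 0 0) (P.cons (P.lf 0 640840 0) (P.cons (P.lf 0 39852 0) P.nil))))) (P.cons (P.cons (P.lf 29698796 0 0) (P.cons (P.lf 1302827 0 0) (P.cons (P.lf 721246 0 0) (P.cons (P.lf 75091 0 0) P.nil)))) (P.cons (P.cons (P.lf 0 2148839 0) (P.cons (P.lf 0 238441 0) (P.cons (P.lf 0 128095 0) P.nil))) (P.cons (P.cons (P.lf 0 802781 0) (P.cons (P.lf 0 55957 0) P.nil)) (P.cons (P.cons (P.lf 24219 0 0) P.nil) P.nil)))))) 330937)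
 (EL.cons 7 (TM.mk (P.cons (P.cons (P.lf 0 131978014 0) (P.cons (P.lf 9509832 0 0) (P.cons (P.lf 3929435 0 0) (P.cons (P.lf 0 603380 0) (P.cons (P.lf 0 15438 0) (P.cons (P.lf 7078 0 0) P.nil)))))) (P.cons (P.cons (P.lf 0 38470692 0) (P.cons (P.lf 0 3985961 0) (P.cons (P.lf 0 1525248 0) (P.cons (P.lf 357891 0 0) (P.cons (P.lf 17441 0 0) P.nil))))) (P.cons (P.cons (P.lf 1758182 0 0) (P.cons (P.lf 130728 0 0) (P.cons (P.lf 0 37132 0) (P.cons (P.lf 0 86902 0) P.nil)))) (P.cons (P.cons (P.lf 2084444 0 0) (P.cons (P.lf 130246 0 0) (P.cons (P.lf 80574 0 0) P.nil))) (P.cons (P.cons (P.lf 33094 0 0) (P.cons (P.lf 0 978 0) P.nil)) (P.cons (P.cons (P.lf 0 47052 0) P.nil) P.nil)))))) 137624)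
 EL.nil))
noncomputable def S372_401_216_364_12 : EL := (EL.cons 4 (TM.mk (P.cons (P.lf 0 3098651666 0) (P.cons (P.lf 0 175463538 0) (P.cons (P.lf 18939693 0 0) (P.cons (P.lf 0 500812 0) (P.cons (P.lf 0 30041 0) (P.cons (P.lf 3150 0 0) P.nil)))))) 205)
 (EL.cons 8 (TM.mk (P.cons (P.lf 1094426245 0 0) (P.cons (P.lf 0 176636564 0) (P.cons (P.lf 0 189038 0) (P.cons (P.lf 544971 0 0) (P.cons (P.lf 0 29121 0) (P.cons (P.lf 0 63 0) P.nil)))))) 165)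
 EL.nil))
noncomputable def S372_401_216_364_13 : EL := (EL.cons 4 (TM.mk (P.cons (P.cons (P.lf 0 1076044679 0) (P.cons (P.lf 38767836 0 0) (P.cons (P.lf 16717126 0 0) (P.lf 0 1857455 0)))) (P.cons (P.cons (P.lf 0 304596629 0) (P.cons (P.lf 0 16575718 0) (P.cons (P.lf 0 7147635 0) (P.lf 794178 0 0)))) (P.cons (P.cons (P.lf 0 11884505 0) (P.cons (P.lf 1709599 0 0) (P.cons (P.lf 737197 0 0) (P.lf 0 81907 0)))) (P.cons (P.cons (P.lf 5625328 0 0) (P.cons (P.lf 192823 0 0) (P.cons (P.lf 83148 0 0) P.nil))) (P.cons (P.cons (P.lf 16181 0 0) (P.cons (P.lf 0 48942 0) P.nil)) (P.cons (P.cons (P.lf 0 64064 0) P.nil) P.nil)))))) 65748)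
 (EL.cons 8 (TM.mk (P.cons (P.cons (P.lf 380052895 0 0) (P.cons (P.lf 0 13692580 0) (P.cons (P.lf 0 5904394 0) (P.lf 656043 0 0)))) (P.cons (P.cons (P.lf 24721812 0 0) (P.cons (P.lf 8839737 0 0) (P.cons (P.lf 3811794 0 0) (P.lf 0 423531 0)))) (P.cons (P.cons (P.lf 0 12308350 0) (P.cons (P.lf 0 2130593 0) (P.cons (P.lf 0 918735 0) (P.lf 102080 0 0)))) (P.cons (P.cons (P.lf 0 1706986 0) (P.cons (P.lf 198411 0 0) (P.cons (P.lf 85556 0 0) P.nil))) (P.cons (P.cons (P.lf 371433 0 0) (P.cons (P.lf 6108 0 0) P.nil)) (P.cons (P.cons (P.lf 0 6231 0) P.nil) P.nil)))))) 29732)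
 EL.nil))
noncomputable def S372_401_216_364_14 : EL := (EL.cons 4 (TM.mk (P.cons (P.cons (P.lf 0 373669671 0) (P.cons (P.lf 26925210 0 0) (P.cons (P.lf 11125421 0 0) (P.cons (P.lf 0 1708350 0) (P.cons (P.lf 0 43709 0) (P.cons (P.lf 20040 0 0) P.nil)))))) (P.cons (P.cons (P.lf 0 190390473 0) (P.cons (P.lf 0 5415165 0) (P.cons (P.lf 0 1892850 0) (P.cons (P.lf 640840 0 0) (P.cons (P.lf 39852 0 0) P.nil))))) (P.cons (P.cons (P.lf 0 29698796 0) (P.cons (P.lf 0 1302827 0) (P.cons (P.lf 0 721246 0) (P.cons (P.lf 0 75091 0) P.nil)))) (P.cons (P.cons (P.lf 2148839 0 0) (P.cons (P.lf 238441 0 0) (P.cons (P.lf 128095 0 0) P.nil))) (P.cons (P.cons (P.lf 802781 0 0) (P.cons (P.lf 55957 0 0) P.nil)) (P.cons (P.cons (P.lf 0 24219 0) P.nil) P.nil)))))) 330937)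
 (EL.cons 8 (TM.mk (P.cons (P.cons (P.lf 131978014 0 0) (P.cons (P.lf 0 9509832 0) (P.cons (P.lf 0 3929435 0) (P.cons (P.lf 603380 0 0) (P.cons (P.lf 15438 0 0) (P.cons (P.lf 0 7078 0) P.nil)))))) (P.cons (P.cons (P.lf 38470692 0 0) (P.cons (P.lf 3985961 0 0) (P.cons (P.lf 1525248 0 0) (P.cons (P.lf 0 357891 0) (P.cons (P.lf 0 17441 0) P.nil))))) (P.cons (P.cons (P.lf 0 1758182 0) (P.cons (P.lf 0 130728 0) (P.cons (P.lf 37132 0 0) (P.cons (P.lf 86902 0 0) P.nil)))) (P.cons (P.cons (P.lf 0 2084444 0) (P.cons (P.lf 0 130246 0) (P.cons (P.lf 0 80574 0) P.nil))) (P.cons (P.cons (P.lf 0 33094 0) (P.cons (P.lf 978 0 0) P.nil)) (P.cons (P.cons (P.lf 47052 0 0) P.nil) P.nil)))))) 137624)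
 EL.nil))
noncomputable def S372_401_216_364_15 : EL := (EL.cons 4 (TM.mk (P.cons (P.lf 0 2384593622 0) (P.cons (P.lf 0 270058903 0) (P.cons (P.lf 21504255 0 0) (P.cons (P.lf 879855 0 0) (P.cons (P.lf 0 178971 0) (P.cons (P.lf 6941 0 0) P.nil)))))) 996)
 (EL.cons 8 (TM.mk (P.cons (P.lf 842224982 0 0) (P.cons (P.lf 0 88240524 0) (P.cons (P.lf 0 12990618 0) (P.cons (P.lf 1378121 0 0) (P.cons (P.lf 0 11577 0) (P.cons (P.lf 0 6078 0) P.nil)))))) 560)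
 EL.nil))
noncomputable def S372_401_216_364_16 : EL := (EL.cons 4 (TM.mk (P.cons (P.cons (P.lf 0 828079292 0) (P.cons (P.lf 29834116 0 0) (P.cons (P.lf 12864806 0 0) (P.lf 0 1429420 0)))) (P.cons (P.cons (P.lf 0 281295542 0) (P.cons (P.lf 0 11066603 0) (P.cons (P.lf 0 4772043 0) (P.lf 530224 0 0)))) (P.cons (P.cons (P.lf 0 17357763 0) (P.cons (P.lf 410966 0 0) (P.cons (P.lf 177212 0 0) (P.lf 0 19687 0)))) (P.cons (P.cons (P.lf 5110031 0 0) (P.cons (P.lf 305676 0 0) (P.cons (P.lf 131812 0 0) P.nil))) (P.cons (P.cons (P.lf 267574 0 0) (P.cons (P.lf 0 39075 0) P.nil)) (P.cons (P.cons (P.lf 0 77964 0) P.nil) P.nil)))))) 75321)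
 (EL.cons 8 (TM.mk (P.cons (P.cons (P.lf 292472923 0 0) (P.cons (P.lf 0 10537241 0) (P.cons (P.lf 0 4543776 0) (P.lf 504863 0 0)))) (P.cons (P.cons (P.lf 35586384 0 0) (P.cons (P.lf 6206015 0 0) (P.cons (P.lf 2676103 0 0) (P.lf 0 297343 0)))) (P.cons (P.cons (P.lf 0 10182360 0) (P.cons (P.lf 0 1190001 0) (P.cons (P.lf 0 513141 0) (P.lf 57014 0 0)))) (P.cons (P.cons (P.lf 0 1918999 0) (P.cons (P.lf 16561 0 0) (P.cons (P.lf 7141 0 0) P.nil))) (P.cons (P.cons (P.lf 275260 0 0) (P.cons (P.lf 24365 0 0) P.nil)) (P.cons (P.cons (P.lf 17775 0 0) P.nil) P.nil)))))) 36084)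
 EL.nil))
noncomputable def S372_401_216_364_17 : EL := (EL.cons 4 (TM.mk (P.cons (P.cons (P.lf 0 287560659 0) (P.cons (P.lf 20720522 0 0) (P.cons (P.lf 8561661 0 0) (P.cons (P.lf 0 1314675 0) (P.cons (P.lf 0 33636 0) (P.cons (P.lf 15422 0 0) P.nil)))))) (P.cons (P.cons (P.lf 0 162799944 0) (P.cons (P.lf 0 2993970 0) (P.cons (P.lf 0 971848 0) (P.cons (P.lf 418719 0 0) (P.cons (P.lf 28764 0 0) P.nil))))) (P.cons (P.cons (P.lf 0 29393936 0) (P.cons (P.lf 0 1365225 0) (P.cons (P.lf 0 689857 0) (P.cons (P.lf 0 21825 0) P.nil)))) (P.cons (P.cons (P.lf 1208545 0 0) (P.cons (P.lf 155541 0 0) (P.cons (P.lf 77434 0 0) P.nil))) (P.cons (P.cons (P.lf 824653 0 0) (P.cons (P.lf 59108 0 0) P.nil)) (P.cons (P.cons (P.lf 1413 0 0) P.nil) P.nil)))))) 295091)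
 (EL.cons 8 (TM.mk (P.cons (P.cons (P.lf 101564798 0 0) (P.cons (P.lf 0 7318371 0) (P.cons (P.lf 0 3023930 0) (P.cons (P.lf 464336 0 0) (P.cons (P.lf 11880 0 0) (P.cons (P.lf 0 5447 0) P.nil)))))) (P.cons (P.cons (P.lf 35356631 0 0) (P.cons (P.lf 2653021 0 0) (P.cons (P.lf 1002535 0 0) (P.cons (P.lf 0 249124 0) (P.cons (P.lf 0 12749 0) P.nil))))) (P.cons (P.cons (P.lf 0 297381 0) (P.cons (P.lf 117824 0 0) (P.cons (P.lf 113523 0 0) (P.cons (P.lf 48442 0 0) P.nil)))) (P.cons (P.cons (P.lf 0 1845258 0) (P.cons (P.lf 0 125860 0) (P.cons (P.lf 0 68051 0) P.nil))) (P.cons (P.cons (P.lf 0 102261 0) (P.cons (P.lf 0 3882 0) P.nil)) (P.cons (P.cons (P.lf 44537 0 0) P.nil) P.nil)))))) 121502)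
 EL.nil))
noncomputable def S372_401_216_364_18 : EL := (EL.cons 4 (TM.mk (P.cons (P.lf 0 1835084209 0) (P.cons (P.lf 0 311739172 0) (P.cons (P.lf 15996937 0 0) (P.cons (P.lf 2587877 0 0) (P.cons (P.lf 0 251917 0) (P.cons (P.lf 0 4069 0) P.nil)))))) 2661)
 (EL.cons 8 (TM.mk (P.cons (P.lf 648141365 0 0) (P.cons (P.lf 0 31204738 0) (P.cons (P.lf 0 17803876 0) (P.cons (P.lf 1014268 0 0) (P.cons (P.lf 107557 0 0) (P.cons (P.lf 0 14597 0) P.nil)))))) 1054)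
 EL.nil))
noncomputable def S372_401_216_364_19 : EL := (EL.cons 4 (TM.mk (P.cons (P.cons (P.lf 0 637255429 0) (P.cons (P.lf 22959097 0 0) (P.cons (P.lf 9900220 0 0) (P.lf 0 1100023 0)))) (P.cons (P.cons (P.lf 0 252558445 0) (P.cons (P.lf 0 7216321 0) (P.cons (P.lf 0 3111759 0) (P.lf 345749 0 0)))) (P.cons (P.cons (P.lf 0 21720729 0) (P.cons (P.lf 0 306315 0) (P.cons (P.lf 0 132087 0) (P.lf 14677 0 0)))) (P.cons (P.cons (P.lf 4396213 0 0) (P.cons (P.lf 308910 0 0) (P.cons (P.lf 133205 0 0) P.nil))) (P.cons (P.cons (P.lf 469074 0 0) (P.cons (P.lf 0 19837 0) P.nil)) (P.cons (P.cons (P.lf 0 75983 0) P.nil) P.nil)))))) 81685)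
 (EL.cons 8 (TM.mk (P.cons (P.cons (P.lf 225075014 0 0) (P.cons (P.lf 0 8109023 0) (P.cons (P.lf 0 3496701 0) (P.lf 388521 0 0)))) (P.cons (P.cons (P.lf 40130849 0 0) (P.cons (P.lf 4316711 0 0) (P.cons (P.lf 1861414 0 0) (P.lf 0 206823 0)))) (P.cons (P.cons (P.lf 0 7660891 0) (P.cons (P.lf 0 595773 0) (P.cons (P.lf 0 256903 0) (P.lf 28544 0 0)))) (P.cons (P.cons (P.lf 0 2051508 0) (P.cons (P.lf 0 69613 0) (P.cons (P.lf 0 30018 0) P.nil))) (P.cons (P.cons (P.lf 182708 0 0) (P.cons (P.lf 25763 0 0) P.nil)) (P.cons (P.cons (P.lf 33470 0 0) P.nil) P.nil)))))) 37902)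
 EL.nil))
noncomputable def S372_401_216_364_20 : EL := (EL.cons 4 (TM.mk (P.cons (P.cons (P.lf 0 221294739 0) (P.cons (P.lf 15945653 0 0) (P.cons (P.lf 6588699 0 0) (P.cons (P.lf 0 1011720 0) (P.cons (P.lf 0 25885 0) (P.cons (P.lf 11868 0 0) P.nil)))))) (P.cons (P.cons (P.lf 0 137815060 0) (P.cons (P.lf 0 1401100 0) (P.cons (P.lf 0 374804 0) (P.cons (P.lf 264939 0 0) (P.cons (P.lf 20670 0 0) P.nil))))) (P.cons (P.cons (P.lf 0 28362054 0) (P.cons (P.lf 0 1278553 0) (P.cons (P.lf 0 613507 0) (P.cons (P.lf 7633 0 0) P.nil)))) (P.cons (P.cons (P.lf 379151 0 0) (P.cons (P.lf 76866 0 0) (P.cons (P.lf 35164 0 0) P.nil))) (P.cons (P.cons (P.lf 803150 0 0) (P.cons (P.lf 58469 0 0) P.nil)) (P.cons (P.cons (P.lf 26693 0 0) P.nil) P.nil)))))) 257757)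
 (EL.cons 8 (TM.mk (P.cons (P.cons (P.lf 78160050 0 0) (P.cons (P.lf 0 5631914 0) (P.cons (P.lf 0 2327091 0) (P.cons (P.lf 357333 0 0) (P.cons (P.lf 9142 0 0) (P.cons (P.lf 0 4191 0) P.nil)))))) (P.cons (P.cons (P.lf 31634868 0 0) (P.cons (P.lf 1722743 0 0) (P.cons (P.lf 639736 0 0) (P.cons (P.lf 0 171481 0) (P.cons (P.lf 0 9293 0) P.nil))))) (P.cons (P.cons (P.lf 834145 0 0) (P.cons (P.lf 240706 0 0) (P.cons (P.lf 145274 0 0) (P.cons (P.lf 24239 0 0) P.nil)))) (P.cons (P.cons (P.lf 0 1586668 0) (P.cons (P.lf 0 105111 0) (P.cons (P.lf 0 52514 0) P.nil))) (P.cons (P.cons (P.lf 0 152552 0) (P.cons (P.lf 0 8751 0) P.nil)) (P.cons (P.cons (P.lf 38644 0 0) P.nil) P.nil)))))) 103625)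
 EL.nil))
noncomputable def S372_401_216_364_21 : EL := (EL.cons 4 (TM.mk (P.cons (P.cons (P.lf 0 1509727731 0) (P.cons (P.lf 0 116303508 0) (P.cons (P.lf 0 50151378 0) (P.lf 5572365 0 0)))) (P.cons (P.cons (P.lf 103613178 0 0) (P.cons (P.lf 49727154 0 0) (P.cons (P.lf 21442905 0 0) (P.lf 0 2382534 0)))) (P.cons (P.cons (P.lf 100166286 0 0) (P.cons (P.lf 0 5128797 0) (P.cons (P.lf 0 2211591 0) (P.lf 245721 0 0)))) (P.cons (P.cons (P.lf 0 14236422 0) (P.cons (P.lf 0 578469 0) (P.cons (P.lf 0 249444 0) P.nil))) (P.cons (P.cons (P.lf 0 585459 0) (P.cons (P.lf 146826 0 0) P.nil)) (P.cons (P.cons (P.lf 213018 0 0) P.nil) P.nil)))))) 199893)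
 (EL.cons 8 (TM.mk (P.cons (P.cons (P.lf 0 1519820700 0) (P.cons (P.lf 0 117081042 0) (P.cons (P.lf 0 50486667 0) (P.lf 5609631 0 0)))) (P.cons (P.cons (P.lf 0 227048898 0) (P.cons (P.lf 24533334 0 0) (P.cons (P.lf 10579050 0 0) (P.lf 0 1175454 0)))) (P.cons (P.cons (P.lf 79124415 0 0) (P.cons (P.lf 2326566 0 0) (P.cons (P.lf 1003239 0 0) (P.lf 0 111468 0)))) (P.cons (P.cons (P.lf 3983097 0 0) (P.cons (P.lf 0 761559 0) (P.cons (P.lf 0 328389 0) P.nil))) (P.cons (P.cons (P.lf 0 1285968 0) (P.cons (P.lf 15507 0 0) P.nil)) (P.cons (P.cons (P.lf 35145 0 0) P.nil) P.nil)))))) 117033)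
 (EL.cons 11 (TM.mk (P.cons (P.cons (P.lf 330474267 0 0) (P.cons (P.lf 307867353 0 0) (P.cons (P.lf 0 31597203 0) (P.cons (P.lf 0 6571338 0) (P.lf 547611 0 0))))) (P.cons (P.cons (P.lf 0 106674777 0) (P.cons (P.lf 0 99377424 0) (P.cons (P.lf 10199355 0 0) (P.cons (P.lf 2121180 0 0) (P.lf 0 176763 0))))) (P.cons (P.cons (P.lf 8494302 0 0) (P.cons (P.lf 7913229 0 0) (P.cons (P.lf 0 812154 0) (P.cons (P.lf 0 168903 0) P.nil)))) (P.cons (P.cons (P.lf 347544 0 0) (P.cons (P.lf 323769 0 0) (P.cons (P.lf 0 33228 0) P.nil))) (P.cons (P.cons (P.lf 0 70695 0) (P.cons (P.lf 0 65859 0) P.nil)) (P.cons (P.cons (P.lf 2742 0 0) P.nil) P.nil)))))) 33279)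
 EL.nil)))
noncomputable def S372_401_216_364_22 : EL := (EL.cons 4 (TM.mk (P.cons (P.cons (P.lf 0 524271414 0) (P.cons (P.lf 0 21499314 0) (P.cons (P.lf 0 7815648 0) (P.cons (P.lf 2284986 0 0) (P.cons (P.lf 131130 0 0) (P.cons (P.lf 0 60123 0) P.nil)))))) (P.cons (P.cons (P.lf 0 82737615 0) (P.cons (P.lf 0 2319186 0) (P.cons (P.lf 0 2326746 0) (P.cons (P.lf 0 1033044 0) (P.cons (P.lf 0 119559 0) P.nil))))) (P.cons (P.cons (P.lf 40659345 0 0) (P.cons (P.lf 2794989 0 0) (P.cons (P.lf 1683591 0 0) (P.cons (P.lf 278631 0 0) P.nil)))) (P.cons (P.cons (P.lf 5317374 0 0) (P.cons (P.lf 278571 0 0) (P.cons (P.lf 44295 0 0) P.nil))) (P.cons (P.cons (P.lf 0 1432908 0) (P.cons (P.lf 0 267708 0) P.nil)) (P.cons (P.cons (P.lf 0 144438 0) P.nil) P.nil)))))) 814854)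
 (EL.cons 8 (TM.mk (P.cons (P.cons (P.lf 0 527776320 0) (P.cons (P.lf 0 21643047 0) (P.cons (P.lf 0 7867902 0) (P.cons (P.lf 2300268 0 0) (P.cons (P.lf 132006 0 0) (P.cons (P.lf 0 60525 0) P.nil)))))) (P.cons (P.cons (P.lf 0 198357732 0) (P.cons (P.lf 0 7053351 0) (P.cons (P.lf 0 4057677 0) (P.cons (P.lf 0 538446 0) (P.cons (P.lf 0 91575 0) P.nil))))) (P.cons (P.cons (P.lf 7335249 0 0) (P.cons (P.lf 1671630 0 0) (P.cons (P.lf 954045 0 0) (P.cons (P.lf 121044 0 0) P.nil)))) (P.cons (P.cons (P.lf 9506895 0 0) (P.cons (P.lf 729885 0 0) (P.cons (P.lf 310806 0 0) P.nil))) (P.cons (P.cons (P.lf 212238 0 0) (P.cons (P.lf 0 150378 0) P.nil)) (P.cons (P.cons (P.lf 0 226515 0) P.nil) P.nil)))))) 519516)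
 (EL.cons 11 (TM.mk (P.cons (P.cons (P.lf 114761229 0 0) (P.cons (P.lf 102776073 0 0) (P.cons (P.lf 0 16607199 0) (P.cons (P.lf 0 3349491 0) (P.cons (P.lf 627393 0 0) (P.cons (P.lf 9660 0 0) P.nil)))))) (P.cons (P.cons (P.lf 0 11057031 0) (P.cons (P.lf 0 6964074 0) (P.cons (P.lf 5604273 0 0) (P.cons (P.lf 1081329 0 0) (P.cons (P.lf 0 371157 0) P.nil))))) (P.cons (P.cons (P.lf 0 4941294 0) (P.cons (P.lf 0 5676723 0) (P.cons (P.lf 0 990456 0) (P.cons (P.lf 0 178896 0) P.nil)))) (P.cons (P.cons (P.lf 140262 0 0) (P.cons (P.lf 291897 0 0) (P.cons (P.lf 206310 0 0) P.nil))) (P.cons (P.cons (P.lf 196653 0 0) (P.cons (P.lf 176925 0 0) P.nil)) (P.cons (P.cons (P.lf 0 21951 0) P.nil) P.nil)))))) 467526)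
 EL.nil)))
noncomputable def S372_401_216_364_23 : EL := (EL.cons 4 (TM.mk (P.cons (P.cons (P.lf 0 1161823755 0) (P.cons (P.lf 0 89502348 0) (P.cons (P.lf 0 38594415 0) (P.lf 4288260 0 0)))) (P.cons (P.cons (P.lf 13947231 0 0) (P.cons (P.lf 33199812 0 0) (P.cons (P.lf 14316129 0 0) (P.lf 0 1590672 0)))) (P.cons (P.cons (P.lf 88700289 0 0) (P.cons (P.lf 0 1232895 0) (P.cons (P.lf 0 531636 0) (P.lf 59061 0 0)))) (P.cons (P.cons (P.lf 0 7265973 0) (P.cons (P.lf 0 917028 0) (P.cons (P.lf 0 395433 0) P.nil))) (P.cons (P.cons (P.lf 0 1540452 0) (P.cons (P.lf 117225 0 0) P.nil)) (P.cons (P.cons (P.lf 219792 0 0) P.nil) P.nil)))))) 240873)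
 (EL.cons 8 (TM.mk (P.cons (P.cons (P.lf 0 1169590884 0) (P.cons (P.lf 0 90100707 0) (P.cons (P.lf 0 38852442 0) (P.lf 4316937 0 0)))) (P.cons (P.cons (P.lf 0 240956385 0) (P.cons (P.lf 13777812 0 0) (P.cons (P.lf 5941146 0 0) (P.lf 0 660129 0)))) (P.cons (P.cons (P.lf 58145604 0 0) (P.cons (P.lf 3410229 0 0) (P.cons (P.lf 1470525 0 0) (P.lf 0 163389 0)))) (P.cons (P.cons (P.lf 7392159 0 0) (P.cons (P.lf 0 614640 0) (P.cons (P.lf 0 265035 0) P.nil))) (P.cons (P.cons (P.lf 0 1227813 0) (P.cons (P.lf 0 30018 0) P.nil)) (P.cons (P.cons (P.lf 0 38391 0) P.nil) P.nil)))))) 144597)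
 (EL.cons 11 (TM.mk (P.cons (P.cons (P.lf 254319267 0 0) (P.cons (P.lf 236921925 0 0) (P.cons (P.lf 0 24315894 0) (P.cons (P.lf 0 5057028 0) (P.lf 421416 0 0))))) (P.cons (P.cons (P.lf 0 67691451 0) (P.cons (P.lf 0 63060849 0) (P.cons (P.lf 6472092 0 0) (P.cons (P.lf 1346013 0 0) (P.lf 0 112164 0))))) (P.cons (P.cons (P.lf 333852 0 0) (P.cons (P.lf 311013 0 0) (P.cons (P.lf 0 31917 0) (P.cons (P.lf 0 6636 0) P.nil)))) (P.cons (P.cons (P.lf 1180482 0 0) (P.cons (P.lf 1099728 0 0) (P.cons (P.lf 0 112866 0) P.nil))) (P.cons (P.cons (P.lf 0 90015 0) (P.cons (P.lf 0 83856 0) P.nil)) (P.cons (P.cons (P.lf 0 2601 0) P.nil) P.nil)))))) 72528)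
 EL.nil)))
noncomputable def S372_401_216_364_24 : EL := (EL.cons 4 (TM.mk (P.cons (P.cons (P.lf 0 403457505 0) (P.cons (P.lf 0 16544979 0) (P.cons (P.lf 0 6014598 0) (P.cons (P.lf 1758429 0 0) (P.cons (P.lf 100911 0 0) (P.cons (P.lf 0 46269 0) P.nil)))))) (P.cons (P.cons (P.lf 0 86517522 0) (P.cons (P.lf 0 2721621 0) (P.cons (P.lf 0 2131149 0) (P.cons (P.lf 0 695415 0) (P.cons (P.lf 0 86292 0) P.nil))))) (P.cons (P.cons (P.lf 30150327 0 0) (P.cons (P.lf 2150973 0 0) (P.cons (P.lf 1230993 0 0) (P.cons (P.lf 158658 0 0) P.nil)))) (P.cons (P.cons (P.lf 6187803 0 0) (P.cons (P.lf 344406 0 0) (P.cons (P.lf 117423 0 0) P.nil))) (P.cons (P.cons (P.lf 0 1076445 0) (P.cons (P.lf 0 207474 0) P.nil)) (P.cons (P.cons (P.lf 0 193755 0) P.nil) P.nil)))))) 610245)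
 (EL.cons 8 (TM.mk (P.cons (P.cons (P.lf 0 406154736 0) (P.cons (P.lf 0 16655592 0) (P.cons (P.lf 0 6054810 0) (P.cons (P.lf 1770189 0 0) (P.cons (P.lf 101586 0 0) (P.cons (P.lf 0 46578 0) P.nil)))))) (P.cons (P.cons (P.lf 0 175646697 0) (P.cons (P.lf 0 6371103 0) (P.cons (P.lf 0 3465477 0) (P.cons (P.lf 0 314127 0) (P.cons (P.lf 0 64722 0) P.nil))))) (P.cons (P.cons (P.lf 0 516384 0) (P.cons (P.lf 1080858 0 0) (P.cons (P.lf 594381 0 0) (P.cons (P.lf 58866 0 0) P.nil)))) (P.cons (P.cons (P.lf 8503134 0 0) (P.cons (P.lf 665019 0 0) (P.cons (P.lf 298863 0 0) P.nil))) (P.cons (P.cons (P.lf 514497 0 0) (P.cons (P.lf 0 92820 0) P.nil)) (P.cons (P.cons (P.lf 0 209940 0) P.nil) P.nil)))))) 396426)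
 (EL.cons 11 (TM.mk (P.cons (P.cons (P.lf 88315476 0 0) (P.cons (P.lf 79092198 0 0) (P.cons (P.lf 0 12780210 0) (P.cons (P.lf 0 2577630 0) (P.cons (P.lf 482814 0 0) (P.cons (P.lf 7434 0 0) P.nil)))))) (P.cons (P.cons (P.lf 0 3508098 0) (P.cons (P.lf 0 880605 0) (P.cons (P.lf 3589125 0 0) (P.cons (P.lf 686184 0 0) (P.cons (P.lf 0 258285 0) P.nil))))) (P.cons (P.cons (P.lf 0 4824252 0) (P.cons (P.lf 0 5155473 0) (P.cons (P.lf 0 439881 0) (P.cons (P.lf 0 74796 0) P.nil)))) (P.cons (P.cons (P.lf 0 41100 0) (P.cons (P.lf 22797 0 0) (P.cons (P.lf 87180 0 0) P.nil))) (P.cons (P.cons (P.lf 180171 0 0) (P.cons (P.lf 175476 0 0) P.nil)) (P.cons (P.cons (P.lf 0 9768 0) P.nil) P.nil)))))) 346281)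
 EL.nil)))
noncomputable def S372_401_216_364_25 : EL := (EL.cons 4 (TM.mk (P.cons (P.cons (P.lf 0 894091305 0) (P.cons (P.lf 0 68877288 0) (P.cons (P.lf 0 29700660 0) (P.lf 3300066 0 0)))) (P.cons (P.cons (P.lf 0 39895398 0) (P.cons (P.lf 21648966 0 0) (P.cons (P.lf 9335274 0 0) (P.lf 0 1037247 0)))) (P.cons (P.cons (P.lf 74332731 0 0) (P.cons (P.lf 918948 0 0) (P.cons (P.lf 396264 0 0) (P.lf 0 44034 0)))) (P.cons (P.cons (P.lf 0 1936422 0) (P.cons (P.lf 0 926727 0) (P.cons (P.lf 0 399615 0) P.nil))) (P.cons (P.cons (P.lf 0 1926252 0) (P.cons (P.lf 59508 0 0) P.nil)) (P.cons (P.cons (P.lf 148236 0 0) P.nil) P.nil)))))) 249756)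
 (EL.cons 8 (TM.mk (P.cons (P.cons (P.lf 0 900068568 0) (P.cons (P.lf 0 69337761 0) (P.cons (P.lf 0 29899224 0) (P.lf 3322134 0 0)))) (P.cons (P.cons (P.lf 0 236397102 0) (P.cons (P.lf 6676527 0 0) (P.cons (P.lf 2878992 0 0) (P.lf 0 319890 0)))) (P.cons (P.cons (P.lf 39747756 0 0) (P.cons (P.lf 3648573 0 0) (P.cons (P.lf 1573302 0 0) (P.lf 0 174810 0)))) (P.cons (P.cons (P.lf 9210420 0 0) (P.cons (P.lf 0 400407 0) (P.cons (P.lf 0 172656 0) P.nil))) (P.cons (P.cons (P.lf 0 934944 0) (P.cons (P.lf 0 64884 0) P.nil)) (P.cons (P.cons (P.lf 0 111468 0) P.nil) P.nil)))))) 151374)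
 (EL.cons 11 (TM.mk (P.cons (P.cons (P.lf 195713547 0 0) (P.cons (P.lf 182325273 0 0) (P.cons (P.lf 0 18712500 0) (P.cons (P.lf 0 3891678 0) (P.lf 324306 0 0))))) (P.cons (P.cons (P.lf 0 41010099 0) (P.cons (P.lf 0 38204700 0) (P.cons (P.lf 3921042 0 0) (P.cons (P.lf 815466 0 0) (P.lf 0 67953 0))))) (P.cons (P.cons (P.lf 0 3889107 0) (P.cons (P.lf 0 3623061 0) (P.cons (P.lf 371844 0 0) (P.cons (P.lf 77334 0 0) P.nil)))) (P.cons (P.cons (P.lf 1273032 0 0) (P.cons (P.lf 1185945 0 0) (P.cons (P.lf 0 121713 0) P.nil))) (P.cons (P.cons (P.lf 0 25923 0) (P.cons (P.lf 0 24150 0) P.nil)) (P.cons (P.cons (P.lf 0 12141 0) P.nil) P.nil)))))) 90438)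
 EL.nil)))
noncomputable def S372_401_216_364_26 : EL := (EL.cons 4 (TM.mk (P.cons (P.cons (P.lf 0 310484139 0) (P.cons (P.lf 0 12732330 0) (P.cons (P.lf 0 4628586 0) (P.cons (P.lf 1353216 0 0) (P.cons (P.lf 77658 0 0) (P.cons (P.lf 0 35607 0) P.nil)))))) (P.cons (P.cons (P.lf 0 84161697 0) (P.cons (P.lf 0 2815422 0) (P.cons (P.lf 0 1902141 0) (P.cons (P.lf 0 458535 0) (P.cons (P.lf 0 62010 0) P.nil))))) (P.cons (P.cons (P.lf 21330030 0 0) (P.cons (P.lf 1614522 0 0) (P.cons (P.lf 882741 0 0) (P.cons (P.lf 83520 0 0) P.nil)))) (P.cons (P.cons (P.lf 6432504 0 0) (P.cons (P.lf 369516 0 0) (P.cons (P.lf 153282 0 0) P.nil))) (P.cons (P.cons (P.lf 0 714333 0) (P.cons (P.lf 0 155235 0) P.nil)) (P.cons (P.cons (P.lf 0 221700 0) P.nil) P.nil)))))) 496596)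
 (EL.cons 8 (TM.mk (P.cons (P.cons (P.lf 0 312559815 0) (P.cons (P.lf 0 12817449 0) (P.cons (P.lf 0 4659531 0) (P.cons (P.lf 1362264 0 0) (P.cons (P.lf 78177 0 0) (P.cons (P.lf 0 35844 0) P.nil)))))) (P.cons (P.cons (P.lf 0 152869341 0) (P.cons (P.lf 0 5628732 0) (P.cons (P.lf 0 2930736 0) (P.cons (P.lf 0 164601 0) (P.cons (P.lf 0 45378 0) P.nil))))) (P.cons (P.cons (P.lf 0 6141075 0) (P.cons (P.lf 632493 0 0) (P.cons (P.lf 334875 0 0) (P.cons (P.lf 23286 0 0) P.nil)))) (P.cons (P.cons (P.lf 7296834 0 0) (P.cons (P.lf 586767 0 0) (P.cons (P.lf 271443 0 0) P.nil))) (P.cons (P.cons (P.lf 744027 0 0) (P.cons (P.lf 0 48450 0) P.nil)) (P.cons (P.cons (P.lf 0 180195 0) P.nil) P.nil)))))) 331245)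
 (EL.cons 11 (TM.mk (P.cons (P.cons (P.lf 67963920 0 0) (P.cons (P.lf 60866070 0 0) (P.cons (P.lf 0 9835119 0) (P.cons (P.lf 0 1983636 0) (P.cons (P.lf 371553 0 0) (P.cons (P.lf 5721 0 0) P.nil)))))) (P.cons (P.cons (P.lf 1148820 0 0) (P.cons (P.lf 2768907 0 0) (P.cons (P.lf 2205120 0 0) (P.cons (P.lf 415734 0 0) (P.cons (P.lf 0 177726 0) P.nil))))) (P.cons (P.cons (P.lf 0 4280826 0) (P.cons (P.lf 0 4377840 0) (P.cons (P.lf 0 121995 0) (P.cons (P.lf 0 15531 0) P.nil)))) (P.cons (P.cons (P.lf 0 214368 0) (P.cons (P.lf 0 193134 0) (P.cons (P.lf 29448 0 0) P.nil))) (P.cons (P.cons (P.lf 159777 0 0) (P.cons (P.lf 160764 0 0) P.nil)) (P.cons (P.cons (P.lf 0 168 0) P.nil) P.nil)))))) 283989)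
 EL.nil)))
noncomputable def S372_401_216_364_27 : EL := (EL.cons 13 (TM.mk (P.lf 0 4294967296 0) 0)
 EL.nil)
noncomputable def S372_401_216_364_28 : EL := (EL.cons 13 (TM.mk (P.cons (P.cons (P.lf 0 1491479910 0) (P.cons (P.lf 53735176 0 0) (P.cons (P.lf 23171212 0 0) (P.lf 0 2574576 0)))) (P.cons (P.cons (P.lf 0 337737936 0) (P.cons (P.lf 0 26018004 0) (P.cons (P.lf 0 11219256 0) (P.lf 1246580 0 0)))) (P.cons (P.cons (P.lf 0 6464439 0) (P.cons (P.lf 4171368 0 0) (P.cons (P.lf 1798740 0 0) (P.lf 0 199856 0)))) (P.cons (P.cons (P.lf 6339911 0 0) (P.cons (P.lf 0 136652 0) (P.cons (P.lf 0 58924 0) P.nil))) (P.cons (P.cons (P.lf 0 307039 0) (P.cons (P.lf 0 30920 0) P.nil)) (P.cons (P.cons (P.lf 0 29858 0) P.nil) P.nil)))))) 41153)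
 EL.nil)
noncomputable def S372_401_216_364_29 : EL := (EL.cons 13 (TM.mk (P.cons (P.cons (P.lf 0 517934635 0) (P.cons (P.lf 37320393 0 0) (P.cons (P.lf 15420682 0 0) (P.cons (P.lf 0 2367905 0) (P.cons (P.lf 0 60585 0) (P.cons (P.lf 27779 0 0) P.nil)))))) (P.cons (P.cons (P.lf 0 234567255 0) (P.cons (P.lf 0 9619129 0) (P.cons (P.lf 0 3496844 0) (P.cons (P.lf 1022338 0 0) (P.cons (P.lf 58670 0 0) P.nil))))) (P.cons (P.cons (P.lf 0 31047983 0) (P.cons (P.lf 0 1033017 0) (P.cons (P.lf 0 707438 0) (P.cons (P.lf 0 176448 0) P.nil)))) (P.cons (P.cons (P.lf 3386551 0 0) (P.cons (P.lf 324168 0 0) (P.cons (P.lf 193744 0 0) P.nil))) (P.cons (P.cons (P.lf 774111 0 0) (P.cons (P.lf 54085 0 0) P.nil)) (P.cons (P.cons (P.lf 0 49940 0) P.nil) P.nil)))))) 378691)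
 EL.nil)
noncomputable def S372_401_216_364_30 : EL := (EL.cons 13 (TM.mk (P.cons (P.lf 0 3305228444 0) (P.cons (P.lf 0 187161108 0) (P.cons (P.lf 20202340 0 0) (P.cons (P.lf 0 534200 0) (P.cons (P.lf 0 32044 0) (P.cons (P.lf 3360 0 0) P.nil)))))) 212)
 EL.nil)
noncomputable def S372_401_216_364_31 : EL := (EL.cons 13 (TM.mk (P.cons (P.cons (P.lf 0 1147780991 0) (P.cons (P.lf 41352359 0 0) (P.cons (P.lf 17831602 0 0) (P.lf 0 1981286 0)))) (P.cons (P.cons (P.lf 0 324903071 0) (P.cons (P.lf 0 17680766 0) (P.cons (P.lf 0 7624145 0) (P.lf 847124 0 0)))) (P.cons (P.cons (P.lf 0 12676806 0) (P.cons (P.lf 1823573 0 0) (P.cons (P.lf 786344 0 0) (P.lf 0 87368 0)))) (P.cons (P.cons (P.lf 6000350 0 0) (P.cons (P.lf 205678 0 0) (P.cons (P.lf 88692 0 0) P.nil))) (P.cons (P.cons (P.lf 17260 0 0) (P.cons (P.lf 0 52205 0) P.nil)) (P.cons (P.cons (P.lf 0 68335 0) P.nil) P.nil)))))) 70111)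
 EL.nil)
noncomputable def S372_401_216_364_32 : EL := (EL.cons 13 (TM.mk (P.cons (P.cons (P.lf 0 398580983 0) (P.cons (P.lf 28720224 0 0) (P.cons (P.lf 11867116 0 0) (P.cons (P.lf 0 1822241 0) (P.cons (P.lf 0 46623 0) (P.cons (P.lf 21377 0 0) P.nil)))))) (P.cons (P.cons (P.lf 0 203083172 0) (P.cons (P.lf 0 5776177 0) (P.cons (P.lf 0 2019041 0) (P.cons (P.lf 683563 0 0) (P.cons (P.lf 42509 0 0) P.nil))))) (P.cons (P.cons (P.lf 0 31678716 0) (P.cons (P.lf 0 1389683 0) (P.cons (P.lf 0 769330 0) (P.cons (P.lf 0 80098 0) P.nil)))) (P.cons (P.cons (P.lf 2292095 0 0) (P.cons (P.lf 254338 0 0) (P.cons (P.lf 136635 0 0) P.nil))) (P.cons (P.cons (P.lf 856300 0 0) (P.cons (P.lf 59688 0 0) P.nil)) (P.cons (P.cons (P.lf 0 25834 0) P.nil) P.nil)))))) 352976)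
 EL.nil)
noncomputable def S372_401_216_364_33 : EL := (EL.cons 14 (TM.mk (P.lf 8589934592 0 0) 0)
 EL.nil)
noncomputable def S372_401_216_364_34 : EL := (EL.cons 14 (TM.mk (P.cons (P.cons (P.lf 2982959820 0 0) (P.cons (P.lf 0 107470352 0) (P.cons (P.lf 0 46342424 0) (P.lf 5149152 0 0)))) (P.cons (P.cons (P.lf 675475872 0 0) (P.cons (P.lf 52036008 0 0) (P.cons (P.lf 22438512 0 0) (P.lf 0 2493160 0)))) (P.cons (P.cons (P.lf 12928878 0 0) (P.cons (P.lf 0 8342736 0) (P.cons (P.lf 0 3597480 0) (P.lf 399712 0 0)))) (P.cons (P.cons (P.lf 0 12679822 0) (P.cons (P.lf 273304 0 0) (P.cons (P.lf 117848 0 0) P.nil))) (P.cons (P.cons (P.lf 614078 0 0) (P.cons (P.lf 61840 0 0) P.nil)) (P.cons (P.cons (P.lf 59716 0 0) P.nil) P.nil)))))) 82306)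
 EL.nil)
noncomputable def S372_401_216_364_35 : EL := (EL.cons 14 (TM.mk (P.cons (P.cons (P.lf 1035869270 0 0) (P.cons (P.lf 0 74640786 0) (P.cons (P.lf 0 30841364 0) (P.cons (P.lf 4735810 0 0) (P.cons (P.lf 121170 0 0) (P.cons (P.lf 0 55558 0) P.nil)))))) (P.cons (P.cons (P.lf 469134510 0 0) (P.cons (P.lf 19238258 0 0) (P.cons (P.lf 6993688 0 0) (P.cons (P.lf 0 2044676 0) (P.cons (P.lf 0 117340 0) P.nil))))) (P.cons (P.cons (P.lf 62095966 0 0) (P.cons (P.lf 2066034 0 0) (P.cons (P.lf 1414876 0 0) (P.cons (P.lf 352896 0 0) P.nil)))) (P.cons (P.cons (P.lf 0 6773102 0) (P.cons (P.lf 0 648336 0) (P.cons (P.lf 0 387488 0) P.nil))) (P.cons (P.cons (P.lf 0 1548222 0) (P.cons (P.lf 0 108170 0) P.nil)) (P.cons (P.cons (P.lf 99880 0 0) P.nil) P.nil)))))) 757382)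
 EL.nil)
noncomputable def S372_401_216_364_36 : EL := (EL.cons 14 (TM.mk (P.cons (P.lf 6610456888 0 0) (P.cons (P.lf 374322216 0 0) (P.cons (P.lf 0 40404680 0) (P.cons (P.lf 1068400 0 0) (P.cons (P.lf 64088 0 0) (P.cons (P.lf 0 6720 0) P.nil)))))) 424)
 EL.nil)
noncomputable def S372_401_216_364_37 : EL := (EL.cons 14 (TM.mk (P.cons (P.cons (P.lf 2295561982 0 0) (P.cons (P.lf 0 82704718 0) (P.cons (P.lf 0 35663204 0) (P.lf 3962572 0 0)))) (P.cons (P.cons (P.lf 649806142 0 0) (P.cons (P.lf 35361532 0 0) (P.cons (P.lf 15248290 0 0) (P.lf 0 1694248 0)))) (P.cons (P.cons (P.lf 25353612 0 0) (P.cons (P.lf 0 3647146 0) (P.cons (P.lf 0 1572688 0) (P.lf 174736 0 0)))) (P.cons (P.cons (P.lf 0 12000700 0) (P.cons (P.lf 0 411356 0) (P.cons (P.lf 0 177384 0) P.nil))) (P.cons (P.cons (P.lf 0 34520 0) (P.cons (P.lf 104410 0 0) P.nil)) (P.cons (P.cons (P.lf 136670 0 0) P.nil) P.nil))))))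 140222)
 EL.nil)
noncomputable def S372_401_216_364_38 : EL := (EL.cons 14 (TM.mk (P.cons (P.cons (P.lf 797161966 0 0) (P.cons (P.lf 0 57440448 0) (P.cons (P.lf 0 23734232 0) (P.cons (P.lf 3644482 0 0) (P.cons (P.lf 93246 0 0) (P.cons (P.lf 0 42754 0) P.nil)))))) (P.cons (P.cons (P.lf 406166344 0 0) (P.cons (P.lf 11552354 0 0) (P.cons (P.lf 4038082 0 0) (P.cons (P.lf 0 1367126 0) (P.cons (P.lf 0 85018 0) P.nil))))) (P.cons (P.cons (P.lf 63357432 0 0) (P.cons (P.lf 2779366 0 0) (P.cons (P.lf 1538660 0 0) (P.cons (P.lf 160196 0 0) P.nil)))) (P.cons (P.cons (P.lf 0 4584190 0) (P.cons (P.lf 0 508676 0) (P.cons (P.lf 0 273270 0) P.nil))) (P.cons (P.cons (P.lf 0 1712600 0) (P.cons (P.lf 0 119376 0) P.nil)) (P.cons (P.cons (P.lf 51668 0 0) P.nil) P.nil)))))) 705952)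
 EL.nil)
noncomputable def S372_401_216_364_39 : EL := (EL.cons 14 (TM.mk (P.cons (P.lf 5087133062 0 0) (P.cons (P.lf 576125660 0 0) (P.cons (P.lf 0 45875746 0) (P.cons (P.lf 0 1877024 0) (P.cons (P.lf 381806 0 0) (P.cons (P.lf 0 14808 0) P.nil)))))) 2110)
 EL.nil)
noncomputable def S372_401_216_364_40 : EL := (EL.cons 14 (TM.mk (P.cons (P.cons (P.lf 1766569158 0 0) (P.cons (P.lf 0 63646116 0) (P.cons (P.lf 0 27444920 0) (P.lf 3049430 0 0)))) (P.cons (P.cons (P.lf 600097158 0 0) (P.cons (P.lf 23608754 0 0) (P.cons (P.lf 10180360 0 0) (P.lf 0 1131146 0)))) (P.cons (P.cons (P.lf 37029896 0 0) (P.cons (P.lf 0 876728 0) (P.cons (P.lf 0 378054 0) (P.lf 42000 0 0)))) (P.cons (P.cons (P.lf 0 10901400 0) (P.cons (P.lf 0 652110 0) (P.cons (P.lf 0 281200 0) P.nil))) (P.cons (P.cons (P.lf 0 570826 0) (P.cons (P.lf 83360 0 0) P.nil)) (P.cons (P.cons (P.lf 166324 0 0) P.nil) P.nil))))))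 160646)
 EL.nil)
noncomputable def S372_401_216_364_41 : EL := (EL.cons 14 (TM.mk (P.cons (P.cons (P.lf 613462740 0 0) (P.cons (P.lf 0 44203782 0) (P.cons (P.lf 0 18264878 0) (P.cons (P.lf 2804642 0 0) (P.cons (P.lf 71758 0 0) (P.cons (P.lf 0 32902 0) P.nil)))))) (P.cons (P.cons (P.lf 347306548 0 0) (P.cons (P.lf 6387138 0 0) (P.cons (P.lf 2073276 0 0) (P.cons (P.lf 0 893268 0) (P.cons (P.lf 0 61364 0) P.nil))))) (P.cons (P.cons (P.lf 62707064 0 0) (P.cons (P.lf 2912482 0 0) (P.cons (P.lf 1471696 0 0) (P.cons (P.lf 46562 0 0) P.nil)))) (P.cons (P.cons (P.lf 0 2578230 0) (P.cons (P.lf 0 331822 0) (P.cons (P.lf 0 165194 0) P.nil))) (P.cons (P.cons (P.lf 0 1759260 0) (P.cons (P.lf 0 126098 0) P.nil)) (P.cons (P.cons (P.lf 0 3016 0) P.nil) P.nil)))))) 629482)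
 EL.nil)
noncomputable def S372_401_216_364_42 : EL := (EL.cons 14 (TM.mk (P.cons (P.lf 3914846314 0 0) (P.cons (P.lf 665043568 0 0) (P.cons (P.lf 0 34126800 0) (P.cons (P.lf 0 5520806 0) (P.cons (P.lf 537424 0 0) (P.cons (P.lf 8682 0 0) P.nil)))))) 5662)
 EL.nil)
noncomputable def S372_401_216_364_43 : EL := (EL.cons 14 (TM.mk (P.cons (P.cons (P.lf 1359478250 0 0) (P.cons (P.lf 0 48979408 0) (P.cons (P.lf 0 21120470 0) (P.lf 2346716 0 0)))) (P.cons (P.cons (P.lf 538791350 0 0) (P.cons (P.lf 15394820 0 0) (P.cons (P.lf 6638420 0 0) (P.lf 0 737598 0)))) (P.cons (P.cons (P.lf 46337556 0 0) (P.cons (P.lf 653474 0 0) (P.cons (P.lf 281786 0 0) (P.lf 0 31312 0)))) (P.cons (P.cons (P.lf 0 9378588 0) (P.cons (P.lf 0 659008 0) (P.cons (P.lf 0 284172 0) P.nil))) (P.cons (P.cons (P.lf 0 1000692 0) (P.cons (P.lf 42320 0 0) P.nil)) (P.cons (P.cons (P.lf 162098 0 0) P.nil) P.nil))))))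 174222)
 EL.nil)
noncomputable def S372_401_216_364_44 : EL := (EL.cons 14 (TM.mk (P.cons (P.cons (P.lf 472095444 0 0) (P.cons (P.lf 0 34017394 0) (P.cons (P.lf 0 14055892 0) (P.cons (P.lf 2158336 0 0) (P.cons (P.lf 55222 0 0) (P.cons (P.lf 0 25320 0) P.nil)))))) (P.cons (P.cons (P.lf 294005462 0 0) (P.cons (P.lf 2989014 0 0) (P.cons (P.lf 799582 0 0) (P.cons (P.lf 0 565204 0) (P.cons (P.lf 0 44096 0) P.nil))))) (P.cons (P.cons (P.lf 60505716 0 0) (P.cons (P.lf 2727580 0 0) (P.cons (P.lf 1308816 0 0) (P.cons (P.lf 0 16284 0) P.nil)))) (P.cons (P.cons (P.lf 0 808856 0) (P.cons (P.lf 0 163982 0) (P.cons (P.lf 0 75018 0) P.nil))) (P.cons (P.cons (P.lf 0 1713388 0) (P.cons (P.lf 0 124734 0) P.nil)) (P.cons (P.cons (P.lf 0 56946 0) P.nil) P.nil)))))) 549836)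
 EL.nil)
noncomputable def S372_401_216_364_45 : EL := (EL.cons 14 (TM.mk (P.cons (P.cons (P.lf 359718270 0 0) (P.cons (P.lf 0 38879888 0) (P.cons (P.lf 0 15364676 0) (P.cons (P.lf 3054056 0 0) (P.cons (P.lf 104472 0 0) (P.cons (P.lf 0 64846 0) P.nil)))))) (P.cons (P.cons (P.lf 244369042 0 0) (P.cons (P.lf 1216930 0 0) (P.cons (P.lf 0 514522 0) (P.cons (P.lf 0 930164 0) (P.cons (P.lf 0 62046 0) P.nil))))) (P.cons (P.cons (P.lf 60013430 0 0) (P.cons (P.lf 3176890 0 0) (P.cons (P.lf 1614688 0 0) (P.cons (P.lf 43138 0 0) P.nil)))) (P.cons (P.cons (P.lf 1707950 0 0) (P.cons (P.lf 114684 0 0) (P.cons (P.lf 48802 0 0) P.nil))) (P.cons (P.cons (P.lf 0 1595234 0) (P.cons (P.lf 0 178754 0) P.nil)) (P.cons (P.cons (P.lf 0 148178 0) P.nil) P.nil)))))) 874660)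
 EL.nil)
noncomputable def S372_401_216_364_46 : EL := (EL.cons 15 (TM.mk (P.lf 4294967296 0 0) 0)
 EL.nil)
noncomputable def S372_401_216_364_47 : EL := (EL.cons 15 (TM.mk (P.cons (P.cons (P.lf 1491479910 0 0) (P.cons (P.lf 0 53735176 0) (P.cons (P.lf 0 23171212 0) (P.lf 2574576 0 0)))) (P.cons (P.cons (P.lf 337737936 0 0) (P.cons (P.lf 26018004 0 0) (P.cons (P.lf 11219256 0 0) (P.lf 0 1246580 0)))) (P.cons (P.cons (P.lf 6464439 0 0) (P.cons (P.lf 0 4171368 0) (P.cons (P.lf 0 1798740 0) (P.lf 199856 0 0)))) (P.cons (P.cons (P.lf 0 6339911 0) (P.cons (P.lf 136652 0 0) (P.cons (P.lf 58924 0 0) P.nil))) (P.cons (P.cons (P.lf 307039 0 0) (P.cons (P.lf 30920 0 0) P.nil)) (P.cons (P.cons (P.lf 29858 0 0) P.nil) P.nil)))))) 41153)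
 EL.nil)
noncomputable def S372_401_216_364_48 : EL := (EL.cons 15 (TM.mk (P.cons (P.cons (P.lf 517934635 0 0) (P.cons (P.lf 0 37320393 0) (P.cons (P.lf 0 15420682 0) (P.cons (P.lf 2367905 0 0) (P.cons (P.lf 60585 0 0) (P.cons (P.lf 0 27779 0) P.nil)))))) (P.cons (P.cons (P.lf 234567255 0 0) (P.cons (P.lf 9619129 0 0) (P.cons (P.lf 3496844 0 0) (P.cons (P.lf 0 1022338 0) (P.cons (P.lf 0 58670 0) P.nil))))) (P.cons (P.cons (P.lf 31047983 0 0) (P.cons (P.lf 1033017 0 0) (P.cons (P.lf 707438 0 0) (P.cons (P.lf 176448 0 0) P.nil)))) (P.cons (P.cons (P.lf 0 3386551 0) (P.cons (P.lf 0 324168 0) (P.cons (P.lf 0 193744 0) P.nil))) (P.cons (P.cons (P.lf 0 774111 0) (P.cons (P.lf 0 54085 0) P.nil)) (P.cons (P.cons (P.lf 49940 0 0) P.nil) P.nil)))))) 378691)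
 EL.nil)
noncomputable def S372_401_216_364 : SL := (SL.cons S372_401_216_364_0 (SL.cons S372_401_216_364_1 (SL.cons S372_401_216_364_2 (SL.cons S372_401_216_364_3 (SL.cons S372_401_216_364_4 (SL.cons S372_401_216_364_5 (SL.cons S372_401_216_364_6 (SL.cons S372_401_216_364_7 (SL.cons S372_401_216_364_8 (SL.cons S372_401_216_364_9 (SL.cons S372_401_216_364_10 (SL.cons S372_401_216_364_11 (SL.cons S372_401_216_364_12 (SL.cons S372_401_216_364_13 (SL.cons S372_401_216_364_14 (SL.cons S372_401_216_364_15 (SL.cons S372_401_216_364_16 (SL.cons S372_401_216_364_17 (SL.cons S372_401_216_364_18 (SL.cons S372_401_216_364_19 (SL.cons S372_401_216_364_20 (SL.cons S372_401_216_364_21 (SL.cons S372_401_216_364_22 (SL.cons S372_401_216_364_23 (SL.cons S372_401_216_364_24 (SL.cons S372_401_216_364_25 (SL.cons S372_401_216_364_26 (SL.cons S372_401_216_364_27 (SL.cons S372_401_216_364_28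 (SL.cons S372_401_216_364_29 (SL.cons S372_401_216_364_30 (SL.cons S372_401_216_364_31 (SL.cons S372_401_216_364_32 (SL.cons S372_401_216_364_33 (SL.cons S372_401_216_364_34 (SL.cons S372_401_216_364_35 (SL.cons S372_401_216_364_36 (SL.cons S372_401_216_364_37 (SL.cons S372_401_216_364_38 (SL.cons S372_401_216_364_39 (SL.cons S372_401_216_364_40 (SL.cons S372_401_216_364_41 (SL.cons S372_401_216_364_42 (SL.cons S372_401_216_364_43 (SL.cons S372_401_216_364_44 (SL.cons S372_401_216_364_45 (SL.cons S372_401_216_364_46 (SL.cons S372_401_216_364_47 (SL.cons S372_401_216_364_48 SL.nil)))))))))))))))))))))))))))))))))))))))))))))))))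
noncomputable def S372_401_364_512_0 : EL := (EL.cons 0 (TM.mk (P.cons (P.lf 3984603821 0 0) (P.cons (P.lf 0 506360443 0) (P.cons (P.lf 40320479 0 0) (P.cons (P.lf 1649728 0 0) (P.cons (P.lf 0 335571 0) (P.cons (P.lf 13014 0 0) P.nil)))))) 1861)
 (EL.cons 1 (TM.mk (P.cons (P.lf 1579171841 0 0) (P.cons (P.lf 0 165450982 0) (P.cons (P.lf 0 24357408 0) (P.cons (P.lf 2583976 0 0) (P.cons (P.lf 0 21706 0) (P.cons (P.lf 0 11396 0) P.nil)))))) 1057)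
 (EL.cons 5 (TM.mk (P.cons (P.lf 5884696382 0 0) (P.cons (P.lf 180039266 0 0) (P.cons (P.lf 0 14336174 0) (P.cons (P.lf 0 586566 0) (P.cons (P.lf 119316 0 0) (P.cons (P.lf 0 4630 0) P.nil)))))) 385)
 (EL.cons 9 (TM.mk (P.lf 6442450944 0 0) 2)
 EL.nil))))
noncomputable def S372_401_364_512_1 : EL := (EL.cons 0 (TM.mk (P.cons (P.cons (P.lf 3956306622 0 0) (P.cons (P.lf 253612025 0 0) (P.cons (P.lf 16955898 0 0) (P.lf 0 5651954 0)))) (P.cons (P.cons (P.lf 5158391 0 0) (P.cons (P.lf 0 68316383 0) (P.cons (P.lf 0 4567464 0) (P.lf 1522476 0 0)))) (P.cons (P.cons (P.lf 0 203274546 0) (P.cons (P.lf 0 11029252 0) (P.cons (P.lf 0 737401 0) (P.lf 245813 0 0)))) (P.cons (P.cons (P.lf 19283058 0 0) (P.cons (P.lf 5507200 0 0) (P.cons (P.lf 368195 0 0) P.nil))) (P.cons (P.cons (P.lf 3218636 0 0) (P.cons (P.lf 0 499186 0) P.nil)) (P.cons (P.cons (P.lf 0 556635 0) P.nil) P.nil)))))) 582262)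
 (EL.cons 1 (TM.mk (P.cons (P.cons (P.lf 1377383831 0 0) (P.cons (P.lf 75409979 0 0) (P.cons (P.lf 5041743 0 0) (P.lf 0 1680583 0)))) (P.cons (P.cons (P.lf 435159223 0 0) (P.cons (P.lf 34772428 0 0) (P.cons (P.lf 2324799 0 0) (P.lf 0 774924 0)))) (P.cons (P.cons (P.lf 0 81597086 0) (P.cons (P.lf 0 18865825 0) (P.cons (P.lf 0 1261321 0) (P.lf 420431 0 0)))) (P.cons (P.cons (P.lf 0 16286634 0) (P.cons (P.lf 1405724 0 0) (P.cons (P.lf 93978 0 0) P.nil))) (P.cons (P.cons (P.lf 2598161 0 0) (P.cons (P.lf 306044 0 0) P.nil)) (P.cons (P.cons (P.lf 79859 0 0) P.nil) P.nil)))))) 266937)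
 (EL.cons 5 (TM.mk (P.cons (P.cons (P.lf 823579471 0 0) (P.cons (P.lf 0 286565808 0) (P.cons (P.lf 0 19159120 0) (P.lf 6386368 0 0)))) (P.cons (P.cons (P.lf 720119040 0 0) (P.cons (P.lf 119381524 0 0) (P.cons (P.lf 7981570 0 0) (P.lf 0 2660516 0)))) (P.cons (P.cons (P.lf 59568926 0 0) (P.cons (P.lf 0 11324116 0) (P.cons (P.lf 0 757102 0) (P.lf 252360 0 0)))) (P.cons (P.cons (P.lf 0 16857782 0) (P.cons (P.lf 0 1458670 0) (P.cons (P.lf 0 97520 0) P.nil))) (P.cons (P.cons (P.lf 0 446773 0) (P.cons (P.lf 290500 0 0) P.nil)) (P.cons (P.cons (P.lf 229149 0 0) P.nil) P.nil)))))) 177144)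
 (EL.cons 9 (TM.mk (P.cons (P.cons (P.lf 1967881995 0 0) (P.cons (P.lf 0 173287620 0) (P.cons (P.lf 0 11585604 0) (P.lf 3861864 0 0)))) (P.cons (P.cons (P.lf 637017474 0 0) (P.cons (P.lf 83904042 0 0) (P.cons (P.lf 5609628 0 0) (P.lf 0 1869870 0)))) (P.cons (P.cons (P.lf 0 11211582 0) (P.cons (P.lf 0 13452018 0) (P.cons (P.lf 0 899370 0) (P.lf 299784 0 0)))) (P.cons (P.cons (P.lf 0 8824918 0) (P.cons (P.lf 440682 0 0) (P.cons (P.lf 29460 0 0) P.nil))) (P.cons (P.cons (P.lf 615550 0 0) (P.cons (P.lf 99714 0 0) P.nil)) (P.cons (P.cons (P.lf 27555 0 0) P.nil) P.nil)))))) 52142)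
 (EL.cons 2 (TM.mk (P.cons (P.cons (P.lf 0 559861875 0) (P.cons (P.lf 0 86680676 0) (P.cons (P.lf 41760014 0 0) (P.cons (P.lf 1580318 0 0) (P.lf 0 395077 0))))) (P.cons (P.cons (P.lf 149016881 0 0) (P.cons (P.lf 23071553 0 0) (P.cons (P.lf 0 11115143 0) (P.cons (P.lf 0 420626 0) (P.lf 105153 0 0))))) (P.cons (P.cons (P.lf 0 734948 0) (P.cons (P.lf 0 113788 0) (P.cons (P.lf 54815 0 0) (P.cons (P.lf 2072 0 0) P.nil)))) (P.cons (P.cons (P.lf 0 2598730 0) (P.cons (P.lf 0 402347 0) (P.cons (P.lf 193834 0 0) P.nil))) (P.cons (P.cons (P.lf 198163 0 0) (P.cons (P.lf 30678 0 0) P.nil)) (P.cons (P.cons (P.lf 5729 0 0) P.nil) P.nil)))))) 57623)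
 (EL.cons 6 (TM.mk (P.cons (P.cons (P.lf 197740047 0 0) (P.cons (P.lf 30615123 0 0) (P.cons (P.lf 0 14749401 0) (P.cons (P.lf 0 558159 0) (P.lf 139539 0 0))))) (P.cons (P.cons (P.lf 0 95743653 0) (P.cons (P.lf 0 14823519 0) (P.cons (P.lf 7141503 0 0) (P.cons (P.lf 270252 0 0) (P.lf 0 67563 0))))) (P.cons (P.cons (P.lf 15350223 0 0) (P.cons (P.lf 2376600 0 0) (P.cons (P.lf 0 1144968 0) (P.cons (P.lf 0 43326 0) P.nil)))) (P.cons (P.cons (P.lf 0 502866 0) (P.cons (P.lf 0 77856 0) (P.cons (P.lf 37509 0 0) P.nil))) (P.cons (P.cons (P.lf 0 113787 0) (P.cons (P.lf 0 17616 0) P.nil)) (P.cons (P.cons (P.lf 12648 0 0) P.nil) P.nil)))))) 27756)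
 EL.nil))))))
noncomputable def S372_401_364_512_2 : EL := (EL.cons 0 (TM.mk (P.cons (P.cons (P.lf 2045175420 0 0) (P.cons (P.lf 7578254 0 0) (P.cons (P.lf 0 16019351 0) (P.cons (P.lf 0 2378659 0) (P.cons (P.lf 662713 0 0) (P.cons (P.lf 49245 0 0) P.nil)))))) (P.cons (P.cons (P.lf 592087737 0 0) (P.cons (P.lf 92363239 0 0) (P.cons (P.lf 19614209 0 0) (P.cons (P.lf 0 261400 0) (P.cons (P.lf 0 538918 0) P.nil))))) (P.cons (P.cons (P.lf 0 144828335 0) (P.cons (P.lf 0 30137479 0) (P.cons (P.lf 0 5767503 0) (P.cons (P.lf 169853 0 0) P.nil)))) (P.cons (P.cons (P.lf 0 32746771 0) (P.cons (P.lf 0 3093873 0) (P.cons (P.lf 0 69225 0) P.nil))) (P.cons (P.cons (P.lf 7046071 0 0) (P.cons (P.lf 2161807 0 0) P.nil)) (P.cons (P.cons (P.lf 662577 0 0) P.nil) P.nil)))))) 3317905)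
 (EL.cons 1 (TM.mk (P.cons (P.cons (P.lf 694117337 0 0) (P.cons (P.lf 0 2079162 0) (P.cons (P.lf 0 5338240 0) (P.cons (P.lf 0 648889 0) (P.cons (P.lf 208500 0 0) (P.cons (P.lf 15494 0 0) P.nil)))))) (P.cons (P.cons (P.lf 458275869 0 0) (P.cons (P.lf 41739974 0 0) (P.cons (P.lf 4110348 0 0) (P.cons (P.lf 0 753731 0) (P.cons (P.lf 0 52922 0) P.nil))))) (P.cons (P.cons (P.lf 29919187 0 0) (P.cons (P.lf 2896332 0 0) (P.cons (P.lf 1255820 0 0) (P.cons (P.lf 77468 0 0) P.nil)))) (P.cons (P.cons (P.lf 0 26837205 0) (P.cons (P.lf 0 5199170 0) (P.cons (P.lf 0 930111 0) P.nil))) (P.cons (P.cons (P.lf 0 2084886 0) (P.cons (P.lf 315457 0 0) P.nil)) (P.cons (P.cons (P.lf 812695 0 0) P.nil) P.nil)))))) 1406992)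
 (EL.cons 5 (TM.mk (P.cons (P.cons (P.lf 0 45926406 0) (P.cons (P.lf 0 122672900 0) (P.cons (P.lf 2956813 0 0) (P.cons (P.lf 4225918 0 0) (P.cons (P.lf 0 447467 0) (P.cons (P.lf 0 33242 0) P.nil)))))) (P.cons (P.cons (P.lf 230529020 0 0) (P.cons (P.lf 0 13585835 0) (P.cons (P.lf 0 10802118 0) (P.cons (P.lf 0 1020171 0) (P.cons (P.lf 396753 0 0) P.nil))))) (P.cons (P.cons (P.lf 115117367 0 0) (P.cons (P.lf 20890260 0 0) (P.cons (P.lf 4789500 0 0) (P.cons (P.lf 0 11871 0) P.nil)))) (P.cons (P.cons (P.lf 3020427 0 0) (P.cons (P.lf 0 1402696 0) (P.cons (P.lf 0 566695 0) P.nil))) (P.cons (P.cons (P.lf 0 4034835 0) (P.cons (P.lf 0 845808 0) P.nil)) (P.cons (P.cons (P.lf 0 43718 0) P.nil) P.nil)))))) 1300189)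
 (EL.cons 9 (TM.mk (P.cons (P.cons (P.lf 601100353 0 0) (P.cons (P.lf 0 105863308 0) (P.cons (P.lf 0 2416720 0) (P.cons (P.lf 2982508 0 0) (P.cons (P.lf 0 186915 0) (P.cons (P.lf 0 13888 0) P.nil)))))) (P.cons (P.cons (P.lf 389160966 0 0) (P.cons (P.lf 16989189 0 0) (P.cons (P.lf 0 3377806 0) (P.cons (P.lf 0 982161 0) (P.cons (P.lf 181005 0 0) P.nil))))) (P.cons (P.cons (P.lf 56137815 0 0) (P.cons (P.lf 8977696 0 0) (P.cons (P.lf 2416620 0 0) (P.cons (P.lf 42801 0 0) P.nil)))) (P.cons (P.cons (P.lf 0 7608399 0) (P.cons (P.lf 0 2208292 0) (P.cons (P.lf 0 521737 0) P.nil))) (P.cons (P.cons (P.lf 0 1349625 0) (P.cons (P.lf 0 68094 0) P.nil)) (P.cons (P.cons (P.lf 169278 0 0) P.nil) P.nil)))))) 505499)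
 (EL.cons 2 (TM.mk (P.cons (P.cons (P.lf 0 342025762 0) (P.cons (P.lf 0 22836093 0) (P.cons (P.lf 32188308 0 0) (P.cons (P.lf 0 1640514 0) (P.cons (P.lf 0 580483 0) (P.cons (P.lf 65632 0 0) P.nil)))))) (P.cons (P.cons (P.lf 0 19680136 0) (P.cons (P.lf 0 25646281 0) (P.cons (P.lf 0 3541933 0) (P.cons (P.lf 2010943 0 0) (P.cons (P.lf 240575 0 0) P.nil))))) (P.cons (P.cons (P.lf 30968645 0 0) (P.cons (P.lf 11053749 0 0) (P.cons (P.lf 0 922426 0) (P.cons (P.lf 0 628970 0) P.nil)))) (P.cons (P.cons (P.lf 0 717783 0) (P.cons (P.lf 0 689366 0) (P.cons (P.lf 0 74643 0) P.nil))) (P.cons (P.cons (P.lf 0 905529 0) (P.cons (P.lf 0 212422 0) P.nil)) (P.cons (P.cons (P.lf 77428 0 0) P.nil) P.nil)))))) 555997)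
 (EL.cons 6 (TM.mk (P.cons (P.cons (P.lf 120801564 0 0) (P.cons (P.lf 8065578 0 0) (P.cons (P.lf 0 11368728 0) (P.cons (P.lf 579420 0 0) (P.cons (P.lf 205020 0 0) (P.cons (P.lf 0 23178 0) P.nil)))))) (P.cons (P.cons (P.lf 0 19386516 0) (P.cons (P.lf 7299642 0 0) (P.cons (P.lf 3729624 0 0) (P.cons (P.lf 0 836574 0) (P.cons (P.lf 0 129666 0) P.nil))))) (P.cons (P.cons (P.lf 0 10244520 0) (P.cons (P.lf 0 5731512 0) (P.cons (P.lf 0 154824 0) (P.cons (P.lf 387594 0 0) P.nil)))) (P.cons (P.cons (P.lf 2519898 0 0) (P.cons (P.lf 1243908 0 0) (P.cons (P.lf 1302 0 0) P.nil))) (P.cons (P.cons (P.lf 77700 0 0) (P.cons (P.lf 0 66024 0) P.nil)) (P.cons (P.cons (P.lf 0 71676 0) P.nil) P.nil)))))) 308856)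
 EL.nil))))))
noncomputable def S372_401_364_512_3 : EL := (EL.cons 0 (TM.mk (P.cons (P.lf 4471113042 0 0) (P.cons (P.lf 506360443 0 0) (P.cons (P.lf 0 40320479 0) (P.cons (P.lf 0 1649728 0) (P.cons (P.lf 335571 0 0) (P.cons (P.lf 0 13014 0) P.nil)))))) 1861)
 (EL.cons 1 (TM.mk (P.cons (P.lf 0 1579171841 0) (P.cons (P.lf 165450982 0 0) (P.cons (P.lf 24357408 0 0) (P.cons (P.lf 0 2583976 0) (P.cons (P.lf 21706 0 0) (P.cons (P.lf 11396 0 0) P.nil)))))) 1057)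
 (EL.cons 5 (TM.mk (P.cons (P.lf 557754562 0 0) (P.cons (P.lf 0 180039266 0) (P.cons (P.lf 14336174 0 0) (P.cons (P.lf 586566 0 0) (P.cons (P.lf 0 119316 0) (P.cons (P.lf 4630 0 0) P.nil)))))) 378)
 EL.nil)))
noncomputable def S372_401_364_512_4 : EL := (EL.cons 0 (TM.mk (P.cons (P.cons (P.lf 1365726014 0 0) (P.cons (P.lf 0 120263008 0) (P.cons (P.lf 0 8040501 0) (P.lf 2680163 0 0)))) (P.cons (P.cons (P.lf 596765852 0 0) (P.cons (P.lf 44610111 0 0) (P.cons (P.lf 2982526 0 0) (P.lf 0 994171 0)))) (P.cons (P.cons (P.lf 29970929 0 0) (P.cons (P.lf 0 1656631 0) (P.cons (P.lf 0 110758 0) (P.lf 36914 0 0)))) (P.cons (P.cons (P.lf 0 11496498 0) (P.cons (P.lf 0 1232201 0) (P.cons (P.lf 0 82383 0) P.nil))) (P.cons (P.cons (P.lf 0 256869 0) (P.cons (P.lf 157515 0 0) P.nil)) (P.cons (P.cons (P.lf 154810 0 0) P.nil) P.nil)))))) 122772)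
 (EL.cons 1 (TM.mk (P.cons (P.cons (P.lf 0 482366703 0) (P.cons (P.lf 42476214 0 0) (P.cons (P.lf 2839858 0 0) (P.lf 0 946618 0)))) (P.cons (P.cons (P.lf 0 105607638 0) (P.cons (P.lf 0 25016799 0) (P.cons (P.lf 0 1672563 0) (P.lf 557518 0 0)))) (P.cons (P.cons (P.lf 26547766 0 0) (P.cons (P.lf 4796964 0 0) (P.cons (P.lf 320713 0 0) (P.lf 0 106901 0)))) (P.cons (P.cons (P.lf 3494356 0 0) (P.cons (P.lf 0 66759 0) (P.cons (P.lf 0 4462 0) P.nil))) (P.cons (P.cons (P.lf 0 668775 0) (P.cons (P.lf 0 98218 0) P.nil)) (P.cons (P.cons (P.lf 0 14186 0) P.nil) P.nil)))))) 60641)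
 (EL.cons 5 (TM.mk (P.cons (P.cons (P.lf 170369192 0 0) (P.cons (P.lf 0 15002358 0) (P.cons (P.lf 0 1003022 0) (P.lf 334340 0 0)))) (P.cons (P.cons (P.lf 155742 0 0) (P.cons (P.lf 12106640 0 0) (P.cons (P.lf 809420 0 0) (P.lf 0 269806 0)))) (P.cons (P.cons (P.lf 0 14393522 0) (P.cons (P.lf 0 3894980 0) (P.cons (P.lf 0 260408 0) (P.lf 86802 0 0)))) (P.cons (P.cons (P.lf 1146004 0 0) (P.cons (P.lf 585010 0 0) (P.cons (P.lf 39110 0 0) P.nil))) (P.cons (P.cons (P.lf 296514 0 0) (P.cons (P.lf 0 22768 0) P.nil)) (P.cons (P.cons (P.lf 0 45858 0) P.nil) P.nil)))))) 32200)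
 EL.nil)))
noncomputable def S372_401_364_512_5 : EL := (EL.cons 0 (TM.mk (P.cons (P.cons (P.lf 417168504 0 0) (P.cons (P.lf 0 73469991 0) (P.cons (P.lf 0 1677222 0) (P.cons (P.lf 2069883 0 0) (P.cons (P.lf 0 129719 0) (P.cons (P.lf 0 9638 0) P.nil)))))) (P.cons (P.cons (P.lf 317325832 0 0) (P.cons (P.lf 3470043 0 0) (P.cons (P.lf 0 2534171 0) (P.cons (P.lf 0 447208 0) (P.cons (P.lf 110926 0 0) P.nil))))) (P.cons (P.cons (P.lf 65785146 0 0) (P.cons (P.lf 8228452 0 0) (P.cons (P.lf 1426791 0 0) (P.cons (P.lf 0 66157 0) P.nil)))) (P.cons (P.cons (P.lf 0 3457511 0) (P.cons (P.lf 0 906166 0) (P.cons (P.lf 0 150389 0) P.nil))) (P.cons (P.cons (P.lf 0 1954335 0) (P.cons (P.lf 0 286875 0) P.nil)) (P.cons (P.cons (P.lf 63701 0 0) P.nil) P.nil)))))) 538285)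
 (EL.cons 1 (TM.mk (P.cons (P.cons (P.lf 0 147341555 0) (P.cons (P.lf 25949184 0 0) (P.cons (P.lf 592383 0 0) (P.cons (P.lf 0 731070 0) (P.cons (P.lf 45815 0 0) (P.cons (P.lf 3403 0 0) P.nil)))))) (P.cons (P.cons (P.lf 0 79953948 0) (P.cons (P.lf 0 6883098 0) (P.cons (P.lf 765901 0 0) (P.cons (P.lf 317340 0 0) (P.cons (P.lf 0 49166 0) P.nil))))) (P.cons (P.cons (P.lf 0 1493675 0) (P.cons (P.lf 0 2164548 0) (P.cons (P.lf 0 688243 0) (P.cons (P.lf 0 24438 0) P.nil)))) (P.cons (P.cons (P.lf 4536898 0 0) (P.cons (P.lf 878546 0 0) (P.cons (P.lf 178147 0 0) P.nil))) (P.cons (P.cons (P.lf 193606 0 0) (P.cons (P.lf 0 13248 0) P.nil)) (P.cons (P.cons (P.lf 0 125058 0) P.nil) P.nil)))))) 229049)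
 (EL.cons 5 (TM.mk (P.cons (P.cons (P.lf 52040204 0 0) (P.cons (P.lf 0 9165104 0) (P.cons (P.lf 0 209226 0) (P.cons (P.lf 258210 0 0) (P.cons (P.lf 0 16180 0) (P.cons (P.lf 0 1202 0) P.nil)))))) (P.cons (P.cons (P.lf 16893358 0 0) (P.cons (P.lf 4429268 0 0) (P.cons (P.lf 0 224896 0) (P.cons (P.lf 0 168378 0) (P.cons (P.lf 20892 0 0) P.nil))))) (P.cons (P.cons (P.lf 0 4677668 0) (P.cons (P.lf 66892 0 0) (P.cons (P.lf 298236 0 0) (P.cons (P.lf 37788 0 0) P.nil)))) (P.cons (P.cons (P.lf 0 1306794 0) (P.cons (P.lf 0 413904 0) (P.cons (P.lf 0 120438 0) P.nil))) (P.cons (P.cons (P.lf 244998 0 0) (P.cons (P.lf 79302 0 0) P.nil)) (P.cons (P.cons (P.lf 33776 0 0) P.nil) P.nil)))))) 107930)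
 EL.nil)))
noncomputable def S372_401_364_512_6 : EL := (EL.cons 12 (TM.mk (P.lf 8589934592 0 0) 0)
 (EL.cons 3 (TM.mk (P.cons (P.lf 3098651666 0 0) (P.cons (P.lf 175463538 0 0) (P.cons (P.lf 0 18939693 0) (P.cons (P.lf 500812 0 0) (P.cons (P.lf 30041 0 0) (P.cons (P.lf 0 3150 0) P.nil)))))) 205)
 (EL.cons 7 (TM.mk (P.cons (P.lf 0 1094426245 0) (P.cons (P.lf 176636564 0 0) (P.cons (P.lf 189038 0 0) (P.cons (P.lf 0 544971 0) (P.cons (P.lf 29121 0 0) (P.cons (P.lf 63 0 0) P.nil)))))) 165)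
 EL.nil)))
noncomputable def S372_401_364_512_7 : EL := (EL.cons 12 (TM.mk (P.cons (P.cons (P.lf 2623842660 0 0) (P.cons (P.lf 0 231050160 0) (P.cons (P.lf 0 15447472 0) (P.lf 5149152 0 0)))) (P.cons (P.cons (P.lf 849356632 0 0) (P.cons (P.lf 111872056 0 0) (P.cons (P.lf 7479504 0 0) (P.lf 0 2493160 0)))) (P.cons (P.cons (P.lf 0 14948776 0) (P.cons (P.lf 0 17936024 0) (P.cons (P.lf 0 1199160 0) (P.lf 399712 0 0)))) (P.cons (P.cons (P.lf 0 11766558 0) (P.cons (P.lf 587576 0 0) (P.cons (P.lf 39280 0 0) P.nil))) (P.cons (P.cons (P.lf 820734 0 0) (P.cons (P.lf 132952 0 0) P.nil)) (P.cons (P.cons (P.lf 36740 0 0) P.nil) P.nil)))))) 69498)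
 (EL.cons 3 (TM.mk (P.cons (P.cons (P.lf 2844861455 0 0) (P.cons (P.lf 166693692 0 0) (P.cons (P.lf 11144748 0 0) (P.lf 0 3714910 0)))) (P.cons (P.cons (P.lf 90206370 0 0) (P.cons (P.lf 0 71272170 0) (P.cons (P.lf 0 4765088 0) (P.lf 1588356 0 0)))) (P.cons (P.cons (P.lf 0 76856355 0) (P.cons (P.lf 7350930 0 0) (P.cons (P.lf 491462 0 0) (P.lf 0 163814 0)))) (P.cons (P.cons (P.lf 9899748 0 0) (P.cons (P.lf 829100 0 0) (P.cons (P.lf 55434 0 0) P.nil))) (P.cons (P.cons (P.lf 242179 0 0) (P.cons (P.lf 0 210444 0) P.nil)) (P.cons (P.cons (P.lf 0 135022 0) P.nil) P.nil)))))) 225580)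
 (EL.cons 7 (TM.mk (P.cons (P.cons (P.lf 1576753902 0 0) (P.cons (P.lf 281149784 0 0) (P.cons (P.lf 18797021 0 0) (P.lf 0 6265674 0)))) (P.cons (P.cons (P.lf 90809428 0 0) (P.cons (P.lf 0 71748655 0) (P.cons (P.lf 0 4796948 0) (P.lf 1598985 0 0)))) (P.cons (P.cons (P.lf 0 67470922 0) (P.cons (P.lf 0 421321 0) (P.cons (P.lf 0 28168 0) (P.lf 9388 0 0)))) (P.cons (P.cons (P.lf 0 394316 0) (P.cons (P.lf 1210714 0 0) (P.cons (P.lf 80943 0 0) P.nil))) (P.cons (P.cons (P.lf 842301 0 0) (P.cons (P.lf 0 46474 0) P.nil)) (P.cons (P.cons (P.lf 0 43631 0) P.nil) P.nil)))))) 125909)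
 (EL.cons 10 (TM.mk (P.cons (P.cons (P.lf 0 776011218 0) (P.cons (P.lf 0 120146022 0) (P.cons (P.lf 57882564 0 0) (P.cons (P.lf 2190444 0 0) (P.lf 0 547611 0))))) (P.cons (P.cons (P.lf 250490985 0 0) (P.cons (P.lf 38782293 0 0) (P.cons (P.lf 0 18684084 0) (P.cons (P.lf 0 707058 0) (P.lf 176763 0 0))))) (P.cons (P.cons (P.lf 0 19946106 0) (P.cons (P.lf 0 3088158 0) (P.cons (P.lf 1487775 0 0) (P.cons (P.lf 56301 0 0) P.nil)))) (P.cons (P.cons (P.lf 0 816096 0) (P.cons (P.lf 0 126351 0) (P.cons (P.lf 60870 0 0) P.nil))) (P.cons (P.cons (P.lf 166005 0 0) (P.cons (P.lf 25701 0 0) P.nil)) (P.cons (P.cons (P.lf 0 6441 0) P.nil) P.nil)))))) 32172)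
 EL.nil))))
noncomputable def S372_401_364_512_8 : EL := (EL.cons 12 (TM.mk (P.cons (P.cons (P.lf 801467138 0 0) (P.cons (P.lf 0 141151078 0) (P.cons (P.lf 0 3222294 0) (P.cons (P.lf 3976678 0 0) (P.cons (P.lf 0 249220 0) (P.cons (P.lf 0 18518 0) P.nil)))))) (P.cons (P.cons (P.lf 518881288 0 0) (P.cons (P.lf 22652252 0 0) (P.cons (P.lf 0 4503742 0) (P.cons (P.lf 0 1309548 0) (P.cons (P.lf 241340 0 0) P.nil))))) (P.cons (P.cons (P.lf 74850420 0 0) (P.cons (P.lf 11970262 0 0) (P.cons (P.lf 3222160 0 0) (P.cons (P.lf 57068 0 0) P.nil)))) (P.cons (P.cons (P.lf 0 10144532 0) (P.cons (P.lf 0 2944390 0) (P.cons (P.lf 0 695650 0) P.nil))) (P.cons (P.cons (P.lf 0 1799500 0) (P.cons (P.lf 0 90792 0) P.nil)) (P.cons (P.cons (P.lf 225704 0 0) P.nil) P.nil)))))) 673970)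
 (EL.cons 3 (TM.mk (P.cons (P.cons (P.lf 1448843417 0 0) (P.cons (P.lf 0 288398 0) (P.cons (P.lf 0 11228507 0) (P.cons (P.lf 0 1492411 0) (P.cons (P.lf 449506 0 0) (P.cons (P.lf 33401 0 0) P.nil)))))) (P.cons (P.cons (P.lf 414149586 0 0) (P.cons (P.lf 53383743 0 0) (P.cons (P.lf 13789159 0 0) (P.cons (P.lf 176869 0 0) (P.cons (P.lf 0 409841 0) P.nil))))) (P.cons (P.cons (P.lf 0 74847851 0) (P.cons (P.lf 0 20672045 0) (P.cons (P.lf 0 5067101 0) (P.cons (P.lf 0 32042 0) P.nil)))) (P.cons (P.cons (P.lf 0 14030909 0) (P.cons (P.lf 105405 0 0) (P.cons (P.lf 591185 0 0) P.nil))) (P.cons (P.cons (P.lf 3658019 0 0) (P.cons (P.lf 1021576 0 0) P.nil)) (P.cons (P.cons (P.lf 110166 0 0) P.nil) P.nil)))))) 1750063)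
 (EL.cons 7 (TM.mk (P.cons (P.cons (P.lf 1065369575 0 0) (P.cons (P.lf 68951356 0 0) (P.cons (P.lf 0 9722873 0) (P.cons (P.lf 0 3453158 0) (P.cons (P.lf 574770 0 0) (P.cons (P.lf 42709 0 0) P.nil)))))) (P.cons (P.cons (P.lf 416918303 0 0) (P.cons (P.lf 53740627 0 0) (P.cons (P.lf 13881342 0 0) (P.cons (P.lf 178060 0 0) (P.cons (P.lf 0 412577 0) P.nil))))) (P.cons (P.cons (P.lf 0 29899493 0) (P.cons (P.lf 0 14951912 0) (P.cons (P.lf 0 3587751 0) (P.cons (P.lf 0 12859 0) P.nil)))) (P.cons (P.cons (P.lf 0 21011678 0) (P.cons (P.lf 0 2394671 0) (P.cons (P.lf 0 10942 0) P.nil))) (P.cons (P.cons (P.lf 731834 0 0) (P.cons (P.lf 800830 0 0) P.nil)) (P.cons (P.cons (P.lf 425937 0 0) P.nil) P.nil)))))) 986197)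
 (EL.cons 10 (TM.mk (P.cons (P.cons (P.lf 0 474073770 0) (P.cons (P.lf 0 31652562 0) (P.cons (P.lf 44615448 0 0) (P.cons (P.lf 0 2273880 0) (P.cons (P.lf 0 804600 0) (P.cons (P.lf 90972 0 0) P.nil)))))) (P.cons (P.cons (P.lf 0 433374 0) (P.cons (P.lf 0 33755352 0) (P.cons (P.lf 0 7435776 0) (P.cons (P.lf 2916078 0 0) (P.cons (P.lf 379020 0 0) P.nil))))) (P.cons (P.cons (P.lf 40051794 0 0) (P.cons (P.lf 17039298 0 0) (P.cons (P.lf 0 584796 0) (P.cons (P.lf 0 1050828 0) P.nil)))) (P.cons (P.cons (P.lf 0 3188898 0) (P.cons (P.lf 0 2121582 0) (P.cons (P.lf 0 123006 0) P.nil))) (P.cons (P.cons (P.lf 0 825084 0) (P.cons (P.lf 0 64386 0) P.nil)) (P.cons (P.cons (P.lf 127602 0 0) P.nil) P.nil)))))) 765840)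
 EL.nil))))
noncomputable def S372_401_364_512_9 : EL := (EL.cons 3 (TM.mk (P.cons (P.lf 3098651666 0 0) (P.cons (P.lf 175463538 0 0) (P.cons (P.lf 0 18939693 0) (P.cons (P.lf 500812 0 0) (P.cons (P.lf 30041 0 0) (P.cons (P.lf 0 3150 0) P.nil)))))) 205)
 (EL.cons 7 (TM.mk (P.cons (P.lf 0 1094426245 0) (P.cons (P.lf 176636564 0 0) (P.cons (P.lf 189038 0 0) (P.cons (P.lf 0 544971 0) (P.cons (P.lf 29121 0 0) (P.cons (P.lf 63 0 0) P.nil)))))) 165)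
 EL.nil))
noncomputable def S372_401_364_512_10 : EL := (EL.cons 3 (TM.mk (P.cons (P.cons (P.lf 946500155 0 0) (P.cons (P.lf 0 83346846 0) (P.cons (P.lf 0 5572374 0) (P.lf 1857455 0 0)))) (P.cons (P.cons (P.lf 359985168 0 0) (P.cons (P.lf 35636085 0 0) (P.cons (P.lf 2382544 0 0) (P.lf 0 794178 0)))) (P.cons (P.cons (P.lf 6171792 0 0) (P.cons (P.lf 0 3675465 0) (P.cons (P.lf 0 245731 0) (P.lf 81907 0 0)))) (P.cons (P.cons (P.lf 0 6269655 0) (P.cons (P.lf 0 414550 0) (P.cons (P.lf 0 27717 0) P.nil))) (P.cons (P.cons (P.lf 147367 0 0) (P.cons (P.lf 105222 0 0) P.nil)) (P.cons (P.cons (P.lf 57098 0 0) P.nil) P.nil)))))) 55728)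
 (EL.cons 7 (TM.mk (P.cons (P.cons (P.lf 0 334298502 0) (P.cons (P.lf 29437634 0 0) (P.cons (P.lf 1968131 0 0) (P.lf 0 656043 0)))) (P.cons (P.cons (P.lf 0 54260207 0) (P.cons (P.lf 0 19004524 0) (P.cons (P.lf 0 1270598 0) (P.lf 423531 0 0)))) (P.cons (P.cons (P.lf 19427828 0 0) (P.cons (P.lf 4580555 0 0) (P.cons (P.lf 306245 0 0) (P.lf 0 102080 0)))) (P.cons (P.cons (P.lf 1043986 0 0) (P.cons (P.lf 0 426563 0) (P.cons (P.lf 0 28518 0) P.nil))) (P.cons (P.cons (P.lf 0 391845 0) (P.cons (P.lf 0 13132 0) P.nil)) (P.cons (P.cons (P.lf 15784 0 0) P.nil) P.nil)))))) 26728)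
 EL.nil))
noncomputable def S372_401_364_512_11 : EL := (EL.cons 3 (TM.mk (P.cons (P.cons (P.lf 289113665 0 0) (P.cons (P.lf 0 50917502 0) (P.cons (P.lf 0 1162379 0) (P.cons (P.lf 1434509 0 0) (P.cons (P.lf 0 89900 0) (P.cons (P.lf 0 6679 0) P.nil)))))) (P.cons (P.cons (P.lf 203547606 0 0) (P.cons (P.lf 5288115 0 0) (P.cons (P.lf 0 1690457 0) (P.cons (P.lf 0 391163 0) (P.cons (P.lf 81967 0 0) P.nil))))) (P.cons (P.cons (P.lf 35832703 0 0) (P.cons (P.lf 5091967 0 0) (P.cons (P.lf 1077439 0 0) (P.cons (P.lf 0 14930 0) P.nil)))) (P.cons (P.cons (P.lf 0 3227837 0) (P.cons (P.lf 0 875793 0) (P.cons (P.lf 0 175381 0) P.nil))) (P.cons (P.cons (P.lf 0 988333 0) (P.cons (P.lf 0 118460 0) P.nil)) (P.cons (P.cons (P.lf 72912 0 0) P.nil) P.nil)))))) 312783)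
 (EL.cons 7 (TM.mk (P.cons (P.cons (P.lf 0 102113311 0) (P.cons (P.lf 17983774 0 0) (P.cons (P.lf 410545 0 0) (P.cons (P.lf 0 506660 0) (P.cons (P.lf 31752 0 0) (P.cons (P.lf 2359 0 0) P.nil)))))) (P.cons (P.cons (P.lf 0 49628887 0) (P.cons (P.lf 0 5788595 0) (P.cons (P.lf 507552 0 0) (P.cons (P.lf 248620 0 0) (P.cons (P.lf 0 35873 0) P.nil))))) (P.cons (P.cons (P.lf 1150957 0 0) (P.cons (P.lf 0 1062410 0) (P.cons (P.lf 0 503211 0) (P.cons (P.lf 0 34111 0) P.nil)))) (P.cons (P.cons (P.lf 2792230 0 0) (P.cons (P.lf 630739 0 0) (P.cons (P.lf 154994 0 0) P.nil))) (P.cons (P.cons (P.lf 0 7888 0) (P.cons (P.lf 0 50630 0) P.nil)) (P.cons (P.cons (P.lf 0 68967 0) P.nil) P.nil)))))) 130527)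
 EL.nil))
noncomputable def S372_401_364_512_12 : EL := (EL.cons 4 (TM.mk (P.cons (P.lf 0 3098651666 0) (P.cons (P.lf 0 175463538 0) (P.cons (P.lf 18939693 0 0) (P.cons (P.lf 0 500812 0) (P.cons (P.lf 0 30041 0) (P.cons (P.lf 3150 0 0) P.nil)))))) 205)
 (EL.cons 8 (TM.mk (P.cons (P.lf 1094426245 0 0) (P.cons (P.lf 0 176636564 0) (P.cons (P.lf 0 189038 0) (P.cons (P.lf 544971 0 0) (P.cons (P.lf 0 29121 0) (P.cons (P.lf 0 63 0) P.nil)))))) 165)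
 EL.nil))
noncomputable def S372_401_364_512_13 : EL := (EL.cons 4 (TM.mk (P.cons (P.cons (P.lf 0 946500155 0) (P.cons (P.lf 83346846 0 0) (P.cons (P.lf 5572374 0 0) (P.lf 0 1857455 0)))) (P.cons (P.cons (P.lf 0 359985168 0) (P.cons (P.lf 0 35636085 0) (P.cons (P.lf 0 2382544 0) (P.lf 794178 0 0)))) (P.cons (P.cons (P.lf 0 6171792 0) (P.cons (P.lf 3675465 0 0) (P.cons (P.lf 245731 0 0) (P.lf 0 81907 0)))) (P.cons (P.cons (P.lf 6269655 0 0) (P.cons (P.lf 414550 0 0) (P.cons (P.lf 27717 0 0) P.nil))) (P.cons (P.cons (P.lf 0 147367 0) (P.cons (P.lf 0 105222 0) P.nil)) (P.cons (P.cons (P.lf 0 57098 0) P.nil) P.nil)))))) 55728)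
 (EL.cons 8 (TM.mk (P.cons (P.cons (P.lf 334298502 0 0) (P.cons (P.lf 0 29437634 0) (P.cons (P.lf 0 1968131 0) (P.lf 656043 0 0)))) (P.cons (P.cons (P.lf 54260207 0 0) (P.cons (P.lf 19004524 0 0) (P.cons (P.lf 1270598 0 0) (P.lf 0 423531 0)))) (P.cons (P.cons (P.lf 0 19427828 0) (P.cons (P.lf 0 4580555 0) (P.cons (P.lf 0 306245 0) (P.lf 102080 0 0)))) (P.cons (P.cons (P.lf 0 1043986 0) (P.cons (P.lf 426563 0 0) (P.cons (P.lf 28518 0 0) P.nil))) (P.cons (P.cons (P.lf 391845 0 0) (P.cons (P.lf 13132 0 0) P.nil)) (P.cons (P.cons (P.lf 0 15784 0) P.nil) P.nil)))))) 26728)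
 EL.nil))
noncomputable def S372_401_364_512_14 : EL := (EL.cons 4 (TM.mk (P.cons (P.cons (P.lf 0 289113665 0) (P.cons (P.lf 50917502 0 0) (P.cons (P.lf 1162379 0 0) (P.cons (P.lf 0 1434509 0) (P.cons (P.lf 89900 0 0) (P.cons (P.lf 6679 0 0) P.nil)))))) (P.cons (P.cons (P.lf 0 203547606 0) (P.cons (P.lf 0 5288115 0) (P.cons (P.lf 1690457 0 0) (P.cons (P.lf 391163 0 0) (P.cons (P.lf 0 81967 0) P.nil))))) (P.cons (P.cons (P.lf 0 35832703 0) (P.cons (P.lf 0 5091967 0) (P.cons (P.lf 0 1077439 0) (P.cons (P.lf 14930 0 0) P.nil)))) (P.cons (P.cons (P.lf 3227837 0 0) (P.cons (P.lf 875793 0 0) (P.cons (P.lf 175381 0 0) P.nil))) (P.cons (P.cons (P.lf 988333 0 0) (P.cons (P.lf 118460 0 0) P.nil)) (P.cons (P.cons (P.lf 0 72912 0) P.nil) P.nil)))))) 312783)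
 (EL.cons 8 (TM.mk (P.cons (P.cons (P.lf 102113311 0 0) (P.cons (P.lf 0 17983774 0) (P.cons (P.lf 0 410545 0) (P.cons (P.lf 506660 0 0) (P.cons (P.lf 0 31752 0) (P.cons (P.lf 0 2359 0) P.nil)))))) (P.cons (P.cons (P.lf 49628887 0 0) (P.cons (P.lf 5788595 0 0) (P.cons (P.lf 0 507552 0) (P.cons (P.lf 0 248620 0) (P.cons (P.lf 35873 0 0) P.nil))))) (P.cons (P.cons (P.lf 0 1150957 0) (P.cons (P.lf 1062410 0 0) (P.cons (P.lf 503211 0 0) (P.cons (P.lf 34111 0 0) P.nil)))) (P.cons (P.cons (P.lf 0 2792230 0) (P.cons (P.lf 0 630739 0) (P.cons (P.lf 0 154994 0) P.nil))) (P.cons (P.cons (P.lf 7888 0 0) (P.cons (P.lf 50630 0 0) P.nil)) (P.cons (P.cons (P.lf 68967 0 0) P.nil) P.nil)))))) 130527)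
 EL.nil))
noncomputable def S372_401_364_512_15 : EL := (EL.cons 4 (TM.mk (P.cons (P.lf 0 2384593622 0) (P.cons (P.lf 0 270058903 0) (P.cons (P.lf 21504255 0 0) (P.cons (P.lf 879855 0 0) (P.cons (P.lf 0 178971 0) (P.cons (P.lf 6941 0 0) P.nil)))))) 996)
 (EL.cons 8 (TM.mk (P.cons (P.lf 842224982 0 0) (P.cons (P.lf 0 88240524 0) (P.cons (P.lf 0 12990618 0) (P.cons (P.lf 1378121 0 0) (P.cons (P.lf 0 11577 0) (P.cons (P.lf 0 6078 0) P.nil)))))) 560)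
 EL.nil))
noncomputable def S372_401_364_512_16 : EL := (EL.cons 4 (TM.mk (P.cons (P.cons (P.lf 0 728387207 0) (P.cons (P.lf 64140270 0 0) (P.cons (P.lf 4288267 0 0) (P.lf 0 1429420 0)))) (P.cons (P.cons (P.lf 0 318275121 0) (P.cons (P.lf 0 23792059 0) (P.cons (P.lf 0 1590680 0) (P.lf 530224 0 0)))) (P.cons (P.cons (P.lf 0 15984495 0) (P.cons (P.lf 883536 0 0) (P.cons (P.lf 59070 0 0) (P.lf 0 19687 0)))) (P.cons (P.cons (P.lf 6131465 0 0) (P.cons (P.lf 657174 0 0) (P.cons (P.lf 43937 0 0) P.nil))) (P.cons (P.cons (P.lf 136996 0 0) (P.cons (P.lf 0 84008 0) P.nil)) (P.cons (P.cons (P.lf 0 82565 0) P.nil) P.nil)))))) 65487)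
 (EL.cons 8 (TM.mk (P.cons (P.cons (P.lf 257262242 0 0) (P.cons (P.lf 0 22653981 0) (P.cons (P.lf 0 1514591 0) (P.lf 504863 0 0)))) (P.cons (P.cons (P.lf 56324074 0 0) (P.cons (P.lf 13342293 0 0) (P.cons (P.lf 892034 0 0) (P.lf 0 297343 0)))) (P.cons (P.cons (P.lf 0 14158809 0) (P.cons (P.lf 0 2558381 0) (P.cons (P.lf 0 171047 0) (P.lf 57014 0 0)))) (P.cons (P.cons (P.lf 0 1863657 0) (P.cons (P.lf 35605 0 0) (P.cons (P.lf 2380 0 0) P.nil))) (P.cons (P.cons (P.lf 356680 0 0) (P.cons (P.lf 52383 0 0) P.nil)) (P.cons (P.cons (P.lf 7566 0 0) P.nil) P.nil)))))) 32332)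
 EL.nil))
noncomputable def S372_401_364_512_17 : EL := (EL.cons 4 (TM.mk (P.cons (P.cons (P.lf 0 222489869 0) (P.cons (P.lf 39183995 0 0) (P.cons (P.lf 894518 0 0) (P.cons (P.lf 0 1103938 0) (P.cons (P.lf 69183 0 0) (P.cons (P.lf 5140 0 0) P.nil)))))) (P.cons (P.cons (P.lf 0 169240443 0) (P.cons (P.lf 0 1850689 0) (P.cons (P.lf 1351558 0 0) (P.cons (P.lf 238511 0 0) (P.cons (P.lf 0 59160 0) P.nil))))) (P.cons (P.cons (P.lf 0 35085411 0) (P.cons (P.lf 0 4388507 0) (P.cons (P.lf 0 760955 0) (P.cons (P.lf 35283 0 0) P.nil)))) (P.cons (P.cons (P.lf 1844006 0 0) (P.cons (P.lf 483288 0 0) (P.cons (P.lf 80207 0 0) P.nil))) (P.cons (P.cons (P.lf 1042312 0 0) (P.cons (P.lf 153000 0 0) P.nil)) (P.cons (P.cons (P.lf 0 33974 0) P.nil) P.nil)))))) 287095)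
 (EL.cons 8 (TM.mk (P.cons (P.cons (P.lf 78582163 0 0) (P.cons (P.lf 0 13839565 0) (P.cons (P.lf 0 315938 0) (P.cons (P.lf 389904 0 0) (P.cons (P.lf 0 24435 0) (P.cons (P.lf 0 1815 0) P.nil)))))) (P.cons (P.cons (P.lf 42642106 0 0) (P.cons (P.lf 3670986 0 0) (P.cons (P.lf 0 408481 0) (P.cons (P.lf 0 169248 0) (P.cons (P.lf 26222 0 0) P.nil))))) (P.cons (P.cons (P.lf 796627 0 0) (P.cons (P.lf 1154426 0 0) (P.cons (P.lf 367063 0 0) (P.cons (P.lf 13034 0 0) P.nil)))) (P.cons (P.cons (P.lf 0 2419679 0) (P.cons (P.lf 0 468558 0) (P.cons (P.lf 0 95012 0) P.nil))) (P.cons (P.cons (P.lf 0 103257 0) (P.cons (P.lf 7066 0 0) P.nil)) (P.cons (P.cons (P.lf 66698 0 0) P.nil) P.nil)))))) 122148)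
 EL.nil))
noncomputable def S372_401_364_512_18 : EL := (EL.cons 4 (TM.mk (P.cons (P.lf 0 1835084209 0) (P.cons (P.lf 0 311739172 0) (P.cons (P.lf 15996937 0 0) (P.cons (P.lf 2587877 0 0) (P.cons (P.lf 0 251917 0) (P.cons (P.lf 0 4069 0) P.nil)))))) 2661)
 (EL.cons 8 (TM.mk (P.cons (P.lf 648141365 0 0) (P.cons (P.lf 0 31204738 0) (P.cons (P.lf 0 17803876 0) (P.cons (P.lf 1014268 0 0) (P.cons (P.lf 107557 0 0) (P.cons (P.lf 0 14597 0) P.nil)))))) 1054)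
 EL.nil))
noncomputable def S372_401_364_512_19 : EL := (EL.cons 4 (TM.mk (P.cons (P.cons (P.lf 0 560536542 0) (P.cons (P.lf 49359688 0 0) (P.cons (P.lf 3300072 0 0) (P.lf 0 1100023 0)))) (P.cons (P.cons (P.lf 0 276672127 0) (P.cons (P.lf 0 15514350 0) (P.cons (P.lf 0 1037252 0) (P.lf 345749 0 0)))) (P.cons (P.cons (P.lf 0 22744296 0) (P.cons (P.lf 0 658547 0) (P.cons (P.lf 0 44028 0) (P.lf 14677 0 0)))) (P.cons (P.cons (P.lf 5428449 0 0) (P.cons (P.lf 664125 0 0) (P.cons (P.lf 44401 0 0) P.nil))) (P.cons (P.cons (P.lf 402782 0 0) (P.cons (P.lf 0 42648 0) P.nil)) (P.cons (P.cons (P.lf 0 90202 0) P.nil) P.nil)))))) 72139)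
 (EL.cons 8 (TM.mk (P.cons (P.cons (P.lf 197978336 0 0) (P.cons (P.lf 0 17433562 0) (P.cons (P.lf 0 1165566 0) (P.lf 388521 0 0)))) (P.cons (P.cons (P.lf 54555344 0 0) (P.cons (P.lf 9280485 0 0) (P.cons (P.lf 620471 0 0) (P.lf 0 206823 0)))) (P.cons (P.cons (P.lf 0 9651696 0) (P.cons (P.lf 0 1280851 0) (P.cons (P.lf 0 85634 0) (P.lf 28544 0 0)))) (P.cons (P.cons (P.lf 0 2284124 0) (P.cons (P.lf 0 149661 0) (P.cons (P.lf 0 10006 0) P.nil))) (P.cons (P.cons (P.lf 268798 0 0) (P.cons (P.lf 55388 0 0) P.nil)) (P.cons (P.cons (P.lf 28589 0 0) P.nil) P.nil)))))) 32906)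
 EL.nil))
noncomputable def S372_401_364_512_20 : EL := (EL.cons 4 (TM.mk (P.cons (P.cons (P.lf 0 171218962 0) (P.cons (P.lf 30154375 0 0) (P.cons (P.lf 688384 0 0) (P.cons (P.lf 0 849544 0) (P.cons (P.lf 53240 0 0) (P.cons (P.lf 3955 0 0) P.nil)))))) (P.cons (P.cons (P.lf 0 139935822 0) (P.cons (P.lf 283299 0 0) (P.cons (P.lf 1079083 0 0) (P.cons (P.lf 135442 0 0) (P.cons (P.lf 0 42512 0) P.nil))))) (P.cons (P.cons (P.lf 0 33328708 0) (P.cons (P.lf 0 3642171 0) (P.cons (P.lf 0 530910 0) (P.cons (P.lf 42738 0 0) P.nil)))) (P.cons (P.cons (P.lf 658545 0 0) (P.cons (P.lf 194260 0 0) (P.cons (P.lf 22318 0 0) P.nil))) (P.cons (P.cons (P.lf 1024799 0 0) (P.cons (P.lf 159507 0 0) P.nil)) (P.cons (P.cons (P.lf 5148 0 0) P.nil) P.nil)))))) 255940)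
 (EL.cons 8 (TM.mk (P.cons (P.cons (P.lf 60473569 0 0) (P.cons (P.lf 0 10650354 0) (P.cons (P.lf 0 243133 0) (P.cons (P.lf 300054 0 0) (P.cons (P.lf 0 18804 0) (P.cons (P.lf 0 1397 0) P.nil)))))) (P.cons (P.cons (P.lf 36239956 0 0) (P.cons (P.lf 2221954 0 0) (P.cons (P.lf 0 328117 0) (P.cons (P.lf 0 113255 0) (P.cons (P.lf 19115 0 0) P.nil))))) (P.cons (P.cons (P.lf 2101631 0 0) (P.cons (P.lf 1113465 0 0) (P.cons (P.lf 266162 0 0) (P.cons (P.lf 820 0 0) P.nil)))) (P.cons (P.cons (P.lf 0 2018172 0) (P.cons (P.lf 0 329265 0) (P.cons (P.lf 0 55240 0) P.nil))) (P.cons (P.cons (P.lf 0 182761 0) (P.cons (P.lf 0 20057 0) P.nil)) (P.cons (P.cons (P.lf 58566 0 0) P.nil) P.nil)))))) 108884)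
 EL.nil))
noncomputable def S372_401_364_512_21 : EL := (EL.cons 4 (TM.mk (P.cons (P.cons (P.lf 0 1898361300 0) (P.cons (P.lf 0 250040538 0) (P.cons (P.lf 0 16717122 0) (P.lf 5572365 0 0)))) (P.cons (P.cons (P.lf 269778798 0 0) (P.cons (P.lf 106908255 0 0) (P.cons (P.lf 7147632 0 0) (P.lf 0 2382534 0)))) (P.cons (P.cons (P.lf 83028147 0 0) (P.cons (P.lf 0 11026395 0) (P.cons (P.lf 0 737193 0) (P.lf 245721 0 0)))) (P.cons (P.cons (P.lf 0 16169403 0) (P.cons (P.lf 0 1243650 0) (P.cons (P.lf 0 83151 0) P.nil))) (P.cons (P.cons (P.lf 0 94812 0) (P.cons (P.lf 315666 0 0) P.nil)) (P.cons (P.cons (P.lf 192120 0 0) P.nil) P.nil)))))) 169833)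
 (EL.cons 8 (TM.mk (P.cons (P.cons (P.lf 0 1911052404 0) (P.cons (P.lf 0 251712150 0) (P.cons (P.lf 0 16828890 0) (P.lf 5609631 0 0)))) (P.cons (P.cons (P.lf 0 145069635 0) (P.cons (P.lf 52744131 0 0) (P.cons (P.lf 3526350 0 0) (P.lf 0 1175454 0)))) (P.cons (P.cons (P.lf 86898750 0 0) (P.cons (P.lf 5001876 0 0) (P.cons (P.lf 334413 0 0) (P.lf 0 111468 0)))) (P.cons (P.cons (P.lf 1438302 0 0) (P.cons (P.lf 0 1637277 0) (P.cons (P.lf 0 109461 0) P.nil))) (P.cons (P.cons (P.lf 0 1234146 0) (P.cons (P.lf 33342 0 0) P.nil)) (P.cons (P.cons (P.lf 59415 0 0) P.nil) P.nil)))))) 99162)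
 (EL.cons 11 (TM.mk (P.cons (P.cons (P.lf 776011218 0 0) (P.cons (P.lf 120146022 0 0) (P.cons (P.lf 0 57882564 0) (P.cons (P.lf 0 2190444 0) (P.lf 547611 0 0))))) (P.cons (P.cons (P.lf 0 250490985 0) (P.cons (P.lf 0 38782293 0) (P.cons (P.lf 18684084 0 0) (P.cons (P.lf 707058 0 0) (P.lf 0 176763 0))))) (P.cons (P.cons (P.lf 19946106 0 0) (P.cons (P.lf 3088158 0 0) (P.cons (P.lf 0 1487775 0) (P.cons (P.lf 0 56301 0) P.nil)))) (P.cons (P.cons (P.lf 816096 0 0) (P.cons (P.lf 126351 0 0) (P.cons (P.lf 0 60870 0) P.nil))) (P.cons (P.cons (P.lf 0 166005 0) (P.cons (P.lf 0 25701 0) P.nil)) (P.cons (P.cons (P.lf 6441 0 0) P.nil) P.nil)))))) 32172)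
 EL.nil)))
noncomputable def S372_401_364_512_22 : EL := (EL.cons 4 (TM.mk (P.cons (P.cons (P.lf 0 579864876 0) (P.cons (P.lf 0 25314552 0) (P.cons (P.lf 5033064 0 0) (P.cons (P.lf 1463460 0 0) (P.cons (P.lf 0 269703 0) (P.cons (P.lf 0 20040 0) P.nil)))))) (P.cons (P.cons (P.lf 0 105300990 0) (P.cons (P.lf 0 24047814 0) (P.cons (P.lf 0 7739808 0) (P.cons (P.lf 0 284016 0) (P.cons (P.lf 245904 0 0) P.nil))))) (P.cons (P.cons (P.lf 55340277 0 0) (P.cons (P.lf 12882006 0 0) (P.cons (P.lf 3072270 0 0) (P.cons (P.lf 8556 0 0) P.nil)))) (P.cons (P.cons (P.lf 5401536 0 0) (P.cons (P.lf 0 490599 0) (P.cons (P.lf 0 383283 0) P.nil))) (P.cons (P.cons (P.lf 0 2323176 0) (P.cons (P.lf 0 570018 0) P.nil)) (P.cons (P.cons (P.lf 0 18627 0) P.nil) P.nil)))))) 718629)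
 (EL.cons 8 (TM.mk (P.cons (P.cons (P.lf 0 583741443 0) (P.cons (P.lf 0 25483791 0) (P.cons (P.lf 5066709 0 0) (P.cons (P.lf 1473249 0 0) (P.cons (P.lf 0 271509 0) (P.cons (P.lf 0 20175 0) P.nil)))))) (P.cons (P.cons (P.lf 0 233273595 0) (P.cons (P.lf 0 29764611 0) (P.cons (P.lf 0 6686895 0) (P.cons (P.lf 35280 0 0) (P.cons (P.lf 188352 0 0) P.nil))))) (P.cons (P.cons (P.lf 15525225 0 0) (P.cons (P.lf 6944751 0 0) (P.cons (P.lf 1542270 0 0) (P.cons (P.lf 0 10626 0) P.nil)))) (P.cons (P.cons (P.lf 11901954 0 0) (P.cons (P.lf 1512705 0 0) (P.cons (P.lf 82968 0 0) P.nil))) (P.cons (P.cons (P.lf 0 369861 0) (P.cons (P.lf 0 425730 0) P.nil)) (P.cons (P.cons (P.lf 0 247452 0) P.nil) P.nil)))))) 427824)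
 (EL.cons 11 (TM.mk (P.cons (P.cons (P.lf 237036885 0 0) (P.cons (P.lf 15826281 0 0) (P.cons (P.lf 0 22307724 0) (P.cons (P.lf 1136940 0 0) (P.cons (P.lf 402300 0 0) (P.cons (P.lf 0 45486 0) P.nil)))))) (P.cons (P.cons (P.lf 216687 0 0) (P.cons (P.lf 16877676 0 0) (P.cons (P.lf 3717888 0 0) (P.cons (P.lf 0 1458039 0) (P.cons (P.lf 0 189510 0) P.nil))))) (P.cons (P.cons (P.lf 0 20025897 0) (P.cons (P.lf 0 8519649 0) (P.cons (P.lf 292398 0 0) (P.cons (P.lf 525414 0 0) P.nil)))) (P.cons (P.cons (P.lf 1594449 0 0) (P.cons (P.lf 1060791 0 0) (P.cons (P.lf 61503 0 0) P.nil))) (P.cons (P.cons (P.lf 412542 0 0) (P.cons (P.lf 32193 0 0) P.nil)) (P.cons (P.cons (P.lf 0 63801 0) P.nil) P.nil)))))) 382920)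
 EL.nil)))
noncomputable def S372_401_364_512_23 : EL := (EL.cons 4 (TM.mk (P.cons (P.cons (P.lf 0 1460900010 0) (P.cons (P.lf 0 192420810 0) (P.cons (P.lf 0 12864801 0) (P.lf 4288260 0 0)))) (P.cons (P.cons (P.lf 124885968 0 0) (P.cons (P.lf 71376174 0 0) (P.cons (P.lf 4772040 0 0) (P.lf 0 1590672 0)))) (P.cons (P.cons (P.lf 84580488 0 0) (P.cons (P.lf 0 2650608 0) (P.cons (P.lf 0 177207 0) (P.lf 59061 0 0)))) (P.cons (P.cons (P.lf 0 10330275 0) (P.cons (P.lf 0 1971522 0) (P.cons (P.lf 0 131811 0) P.nil))) (P.cons (P.cons (P.lf 0 1148724 0) (P.cons (P.lf 252024 0 0) P.nil)) (P.cons (P.cons (P.lf 233595 0 0) P.nil) P.nil)))))) 208575)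
 (EL.cons 8 (TM.mk (P.cons (P.cons (P.lf 0 1470666555 0) (P.cons (P.lf 0 193707216 0) (P.cons (P.lf 0 12950814 0) (P.lf 4316937 0 0)))) (P.cons (P.cons (P.lf 0 194917191 0) (P.cons (P.lf 29620872 0 0) (P.cons (P.lf 1980381 0 0) (P.lf 0 660129 0)))) (P.cons (P.cons (P.lf 69541053 0 0) (P.cons (P.lf 7331643 0 0) (P.cons (P.lf 490176 0 0) (P.lf 0 163389 0)))) (P.cons (P.cons (P.lf 5338302 0 0) (P.cons (P.lf 0 1321413 0) (P.cons (P.lf 0 88344 0) P.nil))) (P.cons (P.cons (P.lf 0 1328118 0) (P.cons (P.lf 0 64533 0) P.nil)) (P.cons (P.cons (P.lf 0 3600 0) P.nil) P.nil)))))) 121332)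
 (EL.cons 11 (TM.mk (P.cons (P.cons (P.lf 597186000 0 0) (P.cons (P.lf 92459388 0 0) (P.cons (P.lf 0 44544015 0) (P.cons (P.lf 0 1685673 0) (P.lf 421416 0 0))))) (P.cons (P.cons (P.lf 0 158951340 0) (P.cons (P.lf 0 24609657 0) (P.cons (P.lf 11856153 0 0) (P.cons (P.lf 448668 0 0) (P.lf 0 112164 0))))) (P.cons (P.cons (P.lf 783945 0 0) (P.cons (P.lf 121374 0 0) (P.cons (P.lf 0 58470 0) (P.cons (P.lf 0 2211 0) P.nil)))) (P.cons (P.cons (P.lf 2771979 0 0) (P.cons (P.lf 429171 0 0) (P.cons (P.lf 0 206757 0) P.nil))) (P.cons (P.cons (P.lf 0 211374 0) (P.cons (P.lf 0 32724 0) P.nil)) (P.cons (P.cons (P.lf 0 6111 0) P.nil) P.nil)))))) 61443)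
 EL.nil)))
noncomputable def S372_401_364_512_24 : EL := (EL.cons 4 (TM.mk (P.cons (P.cons (P.lf 0 446239923 0) (P.cons (P.lf 0 19481028 0) (P.cons (P.lf 3873234 0 0) (P.cons (P.lf 1126218 0 0) (P.cons (P.lf 0 207552 0) (P.cons (P.lf 0 15423 0) P.nil)))))) (P.cons (P.cons (P.lf 0 106303947 0) (P.cons (P.lf 0 19609326 0) (P.cons (P.lf 0 5736909 0) (P.cons (P.lf 0 154794 0) (P.cons (P.lf 177483 0 0) P.nil))))) (P.cons (P.cons (P.lf 40726419 0 0) (P.cons (P.lf 8984601 0 0) (P.cons (P.lf 2003340 0 0) (P.cons (P.lf 0 12672 0) P.nil)))) (P.cons (P.cons (P.lf 6991536 0 0) (P.cons (P.lf 293775 0 0) (P.cons (P.lf 0 124044 0) P.nil))) (P.cons (P.cons (P.lf 0 1830165 0) (P.cons (P.lf 0 523815 0) P.nil)) (P.cons (P.cons (P.lf 0 134427 0) P.nil) P.nil)))))) 564315)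
 (EL.cons 8 (TM.mk (P.cons (P.cons (P.lf 0 449223168 0) (P.cons (P.lf 0 19611267 0) (P.cons (P.lf 3899127 0 0) (P.cons (P.lf 1133751 0 0) (P.cons (P.lf 0 208941 0) (P.cons (P.lf 0 15525 0) P.nil)))))) (P.cons (P.cons (P.lf 0 204955278 0) (P.cons (P.lf 0 24016113 0) (P.cons (P.lf 0 4925166 0) (P.cons (P.lf 91347 0 0) (P.cons (P.lf 133116 0 0) P.nil))))) (P.cons (P.cons (P.lf 4528002 0 0) (P.cons (P.lf 4167213 0 0) (P.cons (P.lf 871641 0 0) (P.cons (P.lf 0 13569 0) P.nil)))) (P.cons (P.cons (P.lf 10860441 0 0) (P.cons (P.lf 1603581 0 0) (P.cons (P.lf 163140 0 0) P.nil))) (P.cons (P.cons (P.lf 127623 0 0) (P.cons (P.lf 0 298263 0) P.nil)) (P.cons (P.cons (P.lf 0 261882 0) P.nil) P.nil)))))) 340476)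
 (EL.cons 11 (TM.mk (P.cons (P.cons (P.lf 182413740 0 0) (P.cons (P.lf 12179250 0 0) (P.cons (P.lf 0 17167098 0) (P.cons (P.lf 874941 0 0) (P.cons (P.lf 309591 0 0) (P.cons (P.lf 0 35004 0) P.nil)))))) (P.cons (P.cons (P.lf 10496073 0 0) (P.cons (P.lf 13678017 0 0) (P.cons (P.lf 1889031 0 0) (P.cons (P.lf 0 1072503 0) (P.cons (P.lf 0 128307 0) P.nil))))) (P.cons (P.cons (P.lf 0 16516611 0) (P.cons (P.lf 0 5895333 0) (P.cons (P.lf 491961 0 0) (P.cons (P.lf 335451 0 0) P.nil)))) (P.cons (P.cons (P.lf 382818 0 0) (P.cons (P.lf 367662 0 0) (P.cons (P.lf 39810 0 0) P.nil))) (P.cons (P.cons (P.lf 482949 0 0) (P.cons (P.lf 113292 0 0) P.nil)) (P.cons (P.cons (P.lf 0 41295 0) P.nil) P.nil)))))) 296520)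
 EL.nil)))
noncomputable def S372_401_364_512_25 : EL := (EL.cons 4 (TM.mk (P.cons (P.cons (P.lf 0 1124247969 0) (P.cons (P.lf 0 148079064 0) (P.cons (P.lf 0 9900216 0) (P.lf 3300066 0 0)))) (P.cons (P.cons (P.lf 32445645 0 0) (P.cons (P.lf 46543047 0 0) (P.cons (P.lf 3111756 0 0) (P.lf 0 1037247 0)))) (P.cons (P.cons (P.lf 77403435 0 0) (P.cons (P.lf 1975641 0 0) (P.cons (P.lf 132090 0 0) (P.lf 0 44034 0)))) (P.cons (P.cons (P.lf 0 5033133 0) (P.cons (P.lf 0 1992372 0) (P.cons (P.lf 0 133206 0) P.nil))) (P.cons (P.cons (P.lf 0 1727379 0) (P.cons (P.lf 127944 0 0) P.nil)) (P.cons (P.cons (P.lf 190893 0 0) P.nil) P.nil)))))) 220428)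
 (EL.cons 8 (TM.mk (P.cons (P.cons (P.lf 0 1131763899 0) (P.cons (P.lf 0 149069028 0) (P.cons (P.lf 0 9966408 0) (P.lf 3322134 0 0)))) (P.cons (P.cons (P.lf 0 214087176 0) (P.cons (P.lf 14353842 0 0) (P.cons (P.lf 959664 0 0) (P.lf 0 319890 0)))) (P.cons (P.cons (P.lf 51939639 0 0) (P.cons (P.lf 7844055 0 0) (P.cons (P.lf 524433 0 0) (P.lf 0 174810 0)))) (P.cons (P.cons (P.lf 7872435 0 0) (P.cons (P.lf 0 860838 0) (P.cons (P.lf 0 57549 0) P.nil))) (P.cons (P.cons (P.lf 0 1151757 0) (P.cons (P.lf 0 139491 0) P.nil)) (P.cons (P.cons (P.lf 0 77409 0) P.nil) P.nil)))))) 125985)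
 (EL.cons 11 (TM.mk (P.cons (P.cons (P.lf 459569544 0 0) (P.cons (P.lf 71152905 0 0) (P.cons (P.lf 0 34279224 0) (P.cons (P.lf 0 1297224 0) (P.lf 324306 0 0))))) (P.cons (P.cons (P.lf 0 96298869 0) (P.cons (P.lf 0 14909481 0) (P.cons (P.lf 7182915 0 0) (P.cons (P.lf 271821 0 0) (P.lf 0 67953 0))))) (P.cons (P.cons (P.lf 0 9132300 0) (P.cons (P.lf 0 1413909 0) (P.cons (P.lf 681177 0 0) (P.cons (P.lf 25776 0 0) P.nil)))) (P.cons (P.cons (P.lf 2989302 0 0) (P.cons (P.lf 462816 0 0) (P.cons (P.lf 0 222969 0) P.nil))) (P.cons (P.cons (P.lf 0 60870 0) (P.cons (P.lf 0 9423 0) P.nil)) (P.cons (P.cons (P.lf 0 28506 0) P.nil) P.nil)))))) 75060)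
 EL.nil)))
noncomputable def S372_401_364_512_26 : EL := (EL.cons 4 (TM.mk (P.cons (P.cons (P.lf 0 343407711 0) (P.cons (P.lf 0 14991789 0) (P.cons (P.lf 2980680 0 0) (P.cons (P.lf 866691 0 0) (P.cons (P.lf 0 159723 0) (P.cons (P.lf 0 11868 0) P.nil)))))) (P.cons (P.cons (P.lf 0 101252829 0) (P.cons (P.lf 0 15939444 0) (P.cons (P.lf 0 4246104 0) (P.cons (P.lf 0 70047 0) (P.cons (P.lf 127539 0 0) P.nil))))) (P.cons (P.cons (P.lf 28807959 0 0) (P.cons (P.lf 6151296 0 0) (P.cons (P.lf 1273473 0 0) (P.cons (P.lf 0 21795 0) P.nil)))) (P.cons (P.cons (P.lf 7599645 0 0) (P.cons (P.lf 707412 0 0) (P.cons (P.lf 19302 0 0) P.nil))) (P.cons (P.cons (P.lf 0 1311867 0) (P.cons (P.lf 0 435150 0) P.nil)) (P.cons (P.cons (P.lf 0 211467 0) P.nil) P.nil)))))) 473418)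
 (EL.cons 8 (TM.mk (P.cons (P.cons (P.lf 0 345703491 0) (P.cons (P.lf 0 15092016 0) (P.cons (P.lf 3000606 0 0) (P.cons (P.lf 872487 0 0) (P.cons (P.lf 0 160791 0) (P.cons (P.lf 0 11946 0) P.nil)))))) (P.cons (P.cons (P.lf 0 177300795 0) (P.cons (P.lf 0 19336398 0) (P.cons (P.lf 0 3620289 0) (P.cons (P.lf 119703 0 0) (P.cons (P.lf 93336 0 0) P.nil))))) (P.cons (P.cons (P.lf 0 3333717 0) (P.cons (P.lf 2252613 0 0) (P.cons (P.lf 437814 0 0) (P.cons (P.lf 0 11793 0) P.nil)))) (P.cons (P.cons (P.lf 9463239 0 0) (P.cons (P.lf 1526169 0 0) (P.cons (P.lf 187179 0 0) P.nil))) (P.cons (P.cons (P.lf 521334 0 0) (P.cons (P.lf 0 182385 0) P.nil)) (P.cons (P.cons (P.lf 0 247671 0) P.nil) P.nil)))))) 294399)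
 (EL.cons 11 (TM.mk (P.cons (P.cons (P.lf 140378037 0 0) (P.cons (P.lf 9372645 0 0) (P.cons (P.lf 0 13211085 0) (P.cons (P.lf 673317 0 0) (P.cons (P.lf 238248 0 0) (P.cons (P.lf 0 26937 0) P.nil)))))) (P.cons (P.cons (P.lf 16026354 0 0) (P.cons (P.lf 11056767 0 0) (P.cons (P.lf 705633 0 0) (P.cons (P.lf 0 787224 0) (P.cons (P.lf 0 85248 0) P.nil))))) (P.cons (P.cons (P.lf 0 13111137 0) (P.cons (P.lf 0 3998046 0) (P.cons (P.lf 541659 0 0) (P.cons (P.lf 207297 0 0) P.nil)))) (P.cons (P.cons (P.lf 0 451821 0) (P.cons (P.lf 0 36783 0) (P.cons (P.lf 41052 0 0) P.nil))) (P.cons (P.cons (P.lf 468696 0 0) (P.cons (P.lf 132729 0 0) P.nil)) (P.cons (P.cons (P.lf 0 14655 0) P.nil) P.nil)))))) 247461)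
 EL.nil)))
noncomputable def S372_401_364_512_27 : EL := (EL.cons 13 (TM.mk (P.lf 0 4294967296 0) 0)
 EL.nil)
noncomputable def S372_401_364_512_28 : EL := (EL.cons 13 (TM.mk (P.cons (P.cons (P.lf 0 1311921330 0) (P.cons (P.lf 115525080 0 0) (P.cons (P.lf 7723736 0 0) (P.lf 0 2574576 0)))) (P.cons (P.cons (P.lf 0 424678316 0) (P.cons (P.lf 0 55936028 0) (P.cons (P.lf 0 3739752 0) (P.lf 1246580 0 0)))) (P.cons (P.cons (P.lf 7474388 0 0) (P.cons (P.lf 8968012 0 0) (P.cons (P.lf 599580 0 0) (P.lf 0 199856 0)))) (P.cons (P.cons (P.lf 5883279 0 0) (P.cons (P.lf 0 293788 0) (P.cons (P.lf 0 19640 0) P.nil))) (P.cons (P.cons (P.lf 0 410367 0) (P.cons (P.lf 0 66476 0) P.nil)) (P.cons (P.cons (P.lf 0 18370 0) P.nil) P.nil)))))) 34749)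
 EL.nil)
noncomputable def S372_401_364_512_29 : EL := (EL.cons 13 (TM.mk (P.cons (P.cons (P.lf 0 400733569 0) (P.cons (P.lf 70575539 0 0) (P.cons (P.lf 1611147 0 0) (P.cons (P.lf 0 1988339 0) (P.cons (P.lf 124610 0 0) (P.cons (P.lf 9259 0 0) P.nil)))))) (P.cons (P.cons (P.lf 0 259440644 0) (P.cons (P.lf 0 11326126 0) (P.cons (P.lf 2251871 0 0) (P.cons (P.lf 654774 0 0) (P.cons (P.lf 0 120670 0) P.nil))))) (P.cons (P.cons (P.lf 0 37425210 0) (P.cons (P.lf 0 5985131 0) (P.cons (P.lf 0 1611080 0) (P.cons (P.lf 0 28534 0) P.nil)))) (P.cons (P.cons (P.lf 5072266 0 0) (P.cons (P.lf 1472195 0 0) (P.cons (P.lf 347825 0 0) P.nil))) (P.cons (P.cons (P.lf 899750 0 0) (P.cons (P.lf 45396 0 0) P.nil)) (P.cons (P.cons (P.lf 0 112852 0) P.nil) P.nil)))))) 336985)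
 EL.nil)
noncomputable def S372_401_364_512_30 : EL := (EL.cons 13 (TM.mk (P.cons (P.lf 0 3305228444 0) (P.cons (P.lf 0 187161108 0) (P.cons (P.lf 20202340 0 0) (P.cons (P.lf 0 534200 0) (P.cons (P.lf 0 32044 0) (P.cons (P.lf 3360 0 0) P.nil)))))) 212)
 EL.nil)
noncomputable def S372_401_364_512_31 : EL := (EL.cons 13 (TM.mk (P.cons (P.cons (P.lf 0 1009600166 0) (P.cons (P.lf 88903303 0 0) (P.cons (P.lf 5943866 0 0) (P.lf 0 1981286 0)))) (P.cons (P.cons (P.lf 0 383984180 0) (P.cons (P.lf 0 38011825 0) (P.cons (P.lf 0 2541381 0) (P.lf 847124 0 0)))) (P.cons (P.cons (P.lf 0 6583245 0) (P.cons (P.lf 3920496 0 0) (P.cons (P.lf 262114 0 0) (P.lf 0 87368 0)))) (P.cons (P.cons (P.lf 6687632 0 0) (P.cons (P.lf 442187 0 0) (P.cons (P.lf 29565 0 0) P.nil))) (P.cons (P.cons (P.lf 0 157192 0) (P.cons (P.lf 0 112237 0) P.nil)) (P.cons (P.cons (P.lf 0 60905 0) P.nil) P.nil)))))) 59423)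
 EL.nil)
noncomputable def S372_401_364_512_32 : EL := (EL.cons 13 (TM.mk (P.cons (P.cons (P.lf 0 308387910 0) (P.cons (P.lf 54312003 0 0) (P.cons (P.lf 1239871 0 0) (P.cons (P.lf 0 1530143 0) (P.cons (P.lf 95894 0 0) (P.cons (P.lf 7125 0 0) P.nil)))))) (P.cons (P.cons (P.lf 0 217117447 0) (P.cons (P.lf 0 5640657 0) (P.cons (P.lf 1803155 0 0) (P.cons (P.lf 417241 0 0) (P.cons (P.lf 0 87432 0) P.nil))))) (P.cons (P.cons (P.lf 0 38221550 0) (P.cons (P.lf 0 5431432 0) (P.cons (P.lf 0 1149269 0) (P.cons (P.lf 15926 0 0) P.nil)))) (P.cons (P.cons (P.lf 3443027 0 0) (P.cons (P.lf 934180 0 0) (P.cons (P.lf 187074 0 0) P.nil))) (P.cons (P.cons (P.lf 1054222 0 0) (P.cons (P.lf 126358 0 0) P.nil)) (P.cons (P.cons (P.lf 0 77773 0) P.nil) P.nil)))))) 333612)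
 EL.nil)
noncomputable def S372_401_364_512_33 : EL := (EL.cons 14 (TM.mk (P.lf 8589934592 0 0) 0)
 EL.nil)
noncomputable def S372_401_364_512_34 : EL := (EL.cons 14 (TM.mk (P.cons (P.cons (P.lf 2623842660 0 0) (P.cons (P.lf 0 231050160 0) (P.cons (P.lf 0 15447472 0) (P.lf 5149152 0 0)))) (P.cons (P.cons (P.lf 849356632 0 0) (P.cons (P.lf 111872056 0 0) (P.cons (P.lf 7479504 0 0) (P.lf 0 2493160 0)))) (P.cons (P.cons (P.lf 0 14948776 0) (P.cons (P.lf 0 17936024 0) (P.cons (P.lf 0 1199160 0) (P.lf 399712 0 0)))) (P.cons (P.cons (P.lf 0 11766558 0) (P.cons (P.lf 587576 0 0) (P.cons (P.lf 39280 0 0) P.nil))) (P.cons (P.cons (P.lf 820734 0 0) (P.cons (P.lf 132952 0 0) P.nil)) (P.cons (P.cons (P.lf 36740 0 0) P.nil) P.nil)))))) 69498)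
 EL.nil)
noncomputable def S372_401_364_512_35 : EL := (EL.cons 14 (TM.mk (P.cons (P.cons (P.lf 801467138 0 0) (P.cons (P.lf 0 141151078 0) (P.cons (P.lf 0 3222294 0) (P.cons (P.lf 3976678 0 0) (P.cons (P.lf 0 249220 0) (P.cons (P.lf 0 18518 0) P.nil)))))) (P.cons (P.cons (P.lf 518881288 0 0) (P.cons (P.lf 22652252 0 0) (P.cons (P.lf 0 4503742 0) (P.cons (P.lf 0 1309548 0) (P.cons (P.lf 241340 0 0) P.nil))))) (P.cons (P.cons (P.lf 74850420 0 0) (P.cons (P.lf 11970262 0 0) (P.cons (P.lf 3222160 0 0) (P.cons (P.lf 57068 0 0) P.nil)))) (P.cons (P.cons (P.lf 0 10144532 0) (P.cons (P.lf 0 2944390 0) (P.cons (P.lf 0 695650 0) P.nil))) (P.cons (P.cons (P.lf 0 1799500 0) (P.cons (P.lf 0 90792 0) P.nil)) (P.cons (P.cons (P.lf 225704 0 0) P.nil) P.nil)))))) 673970)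
 EL.nil)
noncomputable def S372_401_364_512_36 : EL := (EL.cons 14 (TM.mk (P.cons (P.lf 6610456888 0 0) (P.cons (P.lf 374322216 0 0) (P.cons (P.lf 0 40404680 0) (P.cons (P.lf 1068400 0 0) (P.cons (P.lf 64088 0 0) (P.cons (P.lf 0 6720 0) P.nil)))))) 424)
 EL.nil)
noncomputable def S372_401_364_512_37 : EL := (EL.cons 14 (TM.mk (P.cons (P.cons (P.lf 2019200332 0 0) (P.cons (P.lf 0 177806606 0) (P.cons (P.lf 0 11887732 0) (P.lf 3962572 0 0)))) (P.cons (P.cons (P.lf 767968360 0 0) (P.cons (P.lf 76023650 0 0) (P.cons (P.lf 5082762 0 0) (P.lf 0 1694248 0)))) (P.cons (P.cons (P.lf 13166490 0 0) (P.cons (P.lf 0 7840992 0) (P.cons (P.lf 0 524228 0) (P.lf 174736 0 0)))) (P.cons (P.cons (P.lf 0 13375264 0) (P.cons (P.lf 0 884374 0) (P.cons (P.lf 0 59130 0) P.nil))) (P.cons (P.cons (P.lf 314384 0 0) (P.cons (P.lf 224474 0 0) P.nil)) (P.cons (P.cons (P.lf 121810 0 0) P.nil) P.nil))))))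 118846)
 EL.nil)
noncomputable def S372_401_364_512_38 : EL := (EL.cons 14 (TM.mk (P.cons (P.cons (P.lf 616775820 0 0) (P.cons (P.lf 0 108624006 0) (P.cons (P.lf 0 2479742 0) (P.cons (P.lf 3060286 0 0) (P.cons (P.lf 0 191788 0) (P.cons (P.lf 0 14250 0) P.nil)))))) (P.cons (P.cons (P.lf 434234894 0 0) (P.cons (P.lf 11281314 0 0) (P.cons (P.lf 0 3606310 0) (P.cons (P.lf 0 834482 0) (P.cons (P.lf 174864 0 0) P.nil))))) (P.cons (P.cons (P.lf 76443100 0 0) (P.cons (P.lf 10862864 0 0) (P.cons (P.lf 2298538 0 0) (P.cons (P.lf 0 31852 0) P.nil)))) (P.cons (P.cons (P.lf 0 6886054 0) (P.cons (P.lf 0 1868360 0) (P.cons (P.lf 0 374148 0) P.nil))) (P.cons (P.cons (P.lf 0 2108444 0) (P.cons (P.lf 0 252716 0) P.nil)) (P.cons (P.cons (P.lf 155546 0 0) P.nil) P.nil)))))) 667224)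
 EL.nil)
noncomputable def S372_401_364_512_39 : EL := (EL.cons 14 (TM.mk (P.cons (P.lf 5087133062 0 0) (P.cons (P.lf 576125660 0 0) (P.cons (P.lf 0 45875746 0) (P.cons (P.lf 0 1877024 0) (P.cons (P.lf 381806 0 0) (P.cons (P.lf 0 14808 0) P.nil)))))) 2110)
 EL.nil)
noncomputable def S372_401_364_512_40 : EL := (EL.cons 14 (TM.mk (P.cons (P.cons (P.lf 1553892710 0 0) (P.cons (P.lf 0 136832578 0) (P.cons (P.lf 0 9148304 0) (P.lf 3049430 0 0)))) (P.cons (P.cons (P.lf 678986926 0 0) (P.cons (P.lf 50756394 0 0) (P.cons (P.lf 3393452 0 0) (P.lf 0 1131146 0)))) (P.cons (P.cons (P.lf 34100258 0 0) (P.cons (P.lf 0 1884878 0) (P.cons (P.lf 0 126018 0) (P.lf 42000 0 0)))) (P.cons (P.cons (P.lf 0 13080460 0) (P.cons (P.lf 0 1401972 0) (P.cons (P.lf 0 93734 0) P.nil))) (P.cons (P.cons (P.lf 0 292260 0) (P.cons (P.lf 179218 0 0) P.nil)) (P.cons (P.cons (P.lf 176140 0 0) P.nil) P.nil))))))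 139666)
 EL.nil)
noncomputable def S372_401_364_512_41 : EL := (EL.cons 14 (TM.mk (P.cons (P.cons (P.lf 474645054 0 0) (P.cons (P.lf 0 83592524 0) (P.cons (P.lf 0 1908306 0) (P.cons (P.lf 2355068 0 0) (P.cons (P.lf 0 147592 0) (P.cons (P.lf 0 10966 0) P.nil)))))) (P.cons (P.cons (P.lf 361046280 0 0) (P.cons (P.lf 3948138 0 0) (P.cons (P.lf 0 2883324 0) (P.cons (P.lf 0 508824 0) (P.cons (P.lf 126210 0 0) P.nil))))) (P.cons (P.cons (P.lf 74848878 0 0) (P.cons (P.lf 9362150 0 0) (P.cons (P.lf 1623372 0 0) (P.cons (P.lf 0 75272 0) P.nil)))) (P.cons (P.cons (P.lf 0 3933880 0) (P.cons (P.lf 0 1031016 0) (P.cons (P.lf 0 171110 0) P.nil))) (P.cons (P.cons (P.lf 0 2223600 0) (P.cons (P.lf 0 326400 0) P.nil)) (P.cons (P.cons (P.lf 72478 0 0) P.nil) P.nil)))))) 612424)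
 EL.nil)
noncomputable def S372_401_364_512_42 : EL := (EL.cons 14 (TM.mk (P.cons (P.lf 3914846314 0 0) (P.cons (P.lf 665043568 0 0) (P.cons (P.lf 0 34126800 0) (P.cons (P.lf 0 5520806 0) (P.cons (P.lf 537424 0 0) (P.cons (P.lf 8682 0 0) P.nil)))))) 5662)
 EL.nil)
noncomputable def S372_401_364_512_43 : EL := (EL.cons 14 (TM.mk (P.cons (P.cons (P.lf 1195811290 0 0) (P.cons (P.lf 0 105300668 0) (P.cons (P.lf 0 7040154 0) (P.lf 2346716 0 0)))) (P.cons (P.cons (P.lf 590233872 0 0) (P.cons (P.lf 33097280 0 0) (P.cons (P.lf 2212806 0 0) (P.lf 0 737598 0)))) (P.cons (P.cons (P.lf 48521166 0 0) (P.cons (P.lf 1404902 0 0) (P.cons (P.lf 93928 0 0) (P.lf 0 31312 0)))) (P.cons (P.cons (P.lf 0 11580692 0) (P.cons (P.lf 0 1416800 0) (P.cons (P.lf 0 94724 0) P.nil))) (P.cons (P.cons (P.lf 0 859270 0) (P.cons (P.lf 90984 0 0) P.nil)) (P.cons (P.cons (P.lf 192432 0 0) P.nil) P.nil))))))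 153858)
 EL.nil)
noncomputable def S372_401_364_512_44 : EL := (EL.cons 14 (TM.mk (P.cons (P.cons (P.lf 365267120 0 0) (P.cons (P.lf 0 64329334 0) (P.cons (P.lf 0 1468554 0) (P.cons (P.lf 1812362 0 0) (P.cons (P.lf 0 113580 0) (P.cons (P.lf 0 8438 0) P.nil)))))) (P.cons (P.cons (P.lf 298529754 0 0) (P.cons (P.lf 0 604372 0) (P.cons (P.lf 0 2302044 0) (P.cons (P.lf 0 288944 0) (P.cons (P.lf 90694 0 0) P.nil))))) (P.cons (P.cons (P.lf 71101244 0 0) (P.cons (P.lf 7769966 0 0) (P.cons (P.lf 1132608 0 0) (P.cons (P.lf 0 91176 0) P.nil)))) (P.cons (P.cons (P.lf 0 1404898 0) (P.cons (P.lf 0 414422 0) (P.cons (P.lf 0 47612 0) P.nil))) (P.cons (P.cons (P.lf 0 2186238 0) (P.cons (P.lf 0 340282 0) P.nil)) (P.cons (P.cons (P.lf 0 10984 0) P.nil) P.nil)))))) 545960)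
 EL.nil)
noncomputable def S372_401_364_512_45 : EL := (EL.cons 14 (TM.mk (P.cons (P.cons (P.lf 244812534 0 0) (P.cons (P.lf 0 64673056 0) (P.cons (P.lf 1371086 0 0) (P.cons (P.lf 2035636 0 0) (P.cons (P.lf 0 261906 0) (P.cons (P.lf 0 8034 0) P.nil)))))) (P.cons (P.cons (P.lf 237742704 0 0) (P.cons (P.lf 0 10556248 0) (P.cons (P.lf 0 4377154 0) (P.cons (P.lf 0 12848 0) (P.cons (P.lf 195930 0 0) P.nil))))) (P.cons (P.cons (P.lf 72774714 0 0) (P.cons (P.lf 9212752 0 0) (P.cons (P.lf 1017594 0 0) (P.cons (P.lf 0 308106 0) P.nil)))) (P.cons (P.cons (P.lf 2301518 0 0) (P.cons (P.lf 657218 0 0) (P.cons (P.lf 311148 0 0) P.nil))) (P.cons (P.cons (P.lf 0 2317188 0) (P.cons (P.lf 0 576322 0) P.nil)) (P.cons (P.cons (P.lf 0 140860 0) P.nil) P.nil)))))) 1011050)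
 EL.nil)
noncomputable def S372_401_364_512_46 : EL := (EL.cons 15 (TM.mk (P.lf 4294967296 0 0) 0)
 EL.nil)
noncomputable def S372_401_364_512_47 : EL := (EL.cons 15 (TM.mk (P.cons (P.cons (P.lf 1311921330 0 0) (P.cons (P.lf 0 115525080 0) (P.cons (P.lf 0 7723736 0) (P.lf 2574576 0 0)))) (P.cons (P.cons (P.lf 424678316 0 0) (P.cons (P.lf 55936028 0 0) (P.cons (P.lf 3739752 0 0) (P.lf 0 1246580 0)))) (P.cons (P.cons (P.lf 0 7474388 0) (P.cons (P.lf 0 8968012 0) (P.cons (P.lf 0 599580 0) (P.lf 199856 0 0)))) (P.cons (P.cons (P.lf 0 5883279 0) (P.cons (P.lf 293788 0 0) (P.cons (P.lf 19640 0 0) P.nil))) (P.cons (P.cons (P.lf 410367 0 0) (P.cons (P.lf 66476 0 0) P.nil)) (P.cons (P.cons (P.lf 18370 0 0) P.nil) P.nil)))))) 34749)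
 EL.nil)
noncomputable def S372_401_364_512_48 : EL := (EL.cons 15 (TM.mk (P.cons (P.cons (P.lf 400733569 0 0) (P.cons (P.lf 0 70575539 0) (P.cons (P.lf 0 1611147 0) (P.cons (P.lf 1988339 0 0) (P.cons (P.lf 0 124610 0) (P.cons (P.lf 0 9259 0) P.nil)))))) (P.cons (P.cons (P.lf 259440644 0 0) (P.cons (P.lf 11326126 0 0) (P.cons (P.lf 0 2251871 0) (P.cons (P.lf 0 654774 0) (P.cons (P.lf 120670 0 0) P.nil))))) (P.cons (P.cons (P.lf 37425210 0 0) (P.cons (P.lf 5985131 0 0) (P.cons (P.lf 1611080 0 0) (P.cons (P.lf 28534 0 0) P.nil)))) (P.cons (P.cons (P.lf 0 5072266 0) (P.cons (P.lf 0 1472195 0) (P.cons (P.lf 0 347825 0) P.nil))) (P.cons (P.cons (P.lf 0 899750 0) (P.cons (P.lf 0 45396 0) P.nil)) (P.cons (P.cons (P.lf 112852 0 0) P.nil) P.nil)))))) 336985)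
 EL.nil)
noncomputable def S372_401_364_512 : SL := (SL.cons S372_401_364_512_0 (SL.cons S372_401_364_512_1 (SL.cons S372_401_364_512_2 (SL.cons S372_401_364_512_3 (SL.cons S372_401_364_512_4 (SL.cons S372_401_364_512_5 (SL.cons S372_401_364_512_6 (SL.cons S372_401_364_512_7 (SL.cons S372_401_364_512_8 (SL.cons S372_401_364_512_9 (SL.cons S372_401_364_512_10 (SL.cons S372_401_364_512_11 (SL.cons S372_401_364_512_12 (SL.cons S372_401_364_512_13 (SL.cons S372_401_364_512_14 (SL.cons S372_401_364_512_15 (SL.cons S372_401_364_512_16 (SL.cons S372_401_364_512_17 (SL.cons S372_401_364_512_18 (SL.cons S372_401_364_512_19 (SL.cons S372_401_364_512_20 (SL.cons S372_401_364_512_21 (SL.cons S372_401_364_512_22 (SL.cons S372_401_364_512_23 (SL.cons S372_401_364_512_24 (SL.cons S372_401_364_512_25 (SL.cons S372_401_364_512_26 (SL.cons S372_401_364_512_27 (SL.cons S372_401_364_512_28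 (SL.cons S372_401_364_512_29 (SL.cons S372_401_364_512_30 (SL.cons S372_401_364_512_31 (SL.cons S372_401_364_512_32 (SL.cons S372_401_364_512_33 (SL.cons S372_401_364_512_34 (SL.cons S372_401_364_512_35 (SL.cons S372_401_364_512_36 (SL.cons S372_401_364_512_37 (SL.cons S372_401_364_512_38 (SL.cons S372_401_364_512_39 (SL.cons S372_401_364_512_40 (SL.cons S372_401_364_512_41 (SL.cons S372_401_364_512_42 (SL.cons S372_401_364_512_43 (SL.cons S372_401_364_512_44 (SL.cons S372_401_364_512_45 (SL.cons S372_401_364_512_46 (SL.cons S372_401_364_512_47 (SL.cons S372_401_364_512_48 SL.nil)))))))))))))))))))))))))))))))))))))))))))))))))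
noncomputable def S372_401_512_660_0 : EL := (EL.cons 0 (TM.mk (P.cons (P.lf 3984603821 0 0) (P.cons (P.lf 0 506360443 0) (P.cons (P.lf 40320479 0 0) (P.cons (P.lf 1649728 0 0) (P.cons (P.lf 0 335571 0) (P.cons (P.lf 13014 0 0) P.nil)))))) 1861)
 (EL.cons 1 (TM.mk (P.cons (P.lf 1579171841 0 0) (P.cons (P.lf 0 165450982 0) (P.cons (P.lf 0 24357408 0) (P.cons (P.lf 2583976 0 0) (P.cons (P.lf 0 21706 0) (P.cons (P.lf 0 11396 0) P.nil)))))) 1057)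
 (EL.cons 5 (TM.mk (P.cons (P.lf 5884696382 0 0) (P.cons (P.lf 180039266 0 0) (P.cons (P.lf 0 14336174 0) (P.cons (P.lf 0 586566 0) (P.cons (P.lf 119316 0 0) (P.cons (P.lf 0 4630 0) P.nil)))))) 385)
 (EL.cons 9 (TM.mk (P.lf 6442450944 0 0) 2)
 EL.nil))))
noncomputable def S372_401_512_660_1 : EL := (EL.cons 0 (TM.mk (P.cons (P.cons (P.lf 4486138580 0 0) (P.cons (P.lf 253612025 0 0) (P.cons (P.lf 0 16955898 0) (P.lf 0 5651954 0)))) (P.cons (P.cons (P.lf 0 137564359 0) (P.cons (P.lf 0 68316383 0) (P.cons (P.lf 4567464 0 0) (P.lf 1522476 0 0)))) (P.cons (P.cons (P.lf 0 226316214 0) (P.cons (P.lf 0 11029252 0) (P.cons (P.lf 737401 0 0) (P.lf 245813 0 0)))) (P.cons (P.cons (P.lf 30788418 0 0) (P.cons (P.lf 5507200 0 0) (P.cons (P.lf 0 368195 0) P.nil))) (P.cons (P.cons (P.lf 2175763 0 0) (P.cons (P.lf 0 499186 0) P.nil)) (P.cons (P.cons (P.lf 0 633433 0) P.nil) P.nil))))))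 585957)
 (EL.cons 1 (TM.mk (P.cons (P.cons (P.lf 1534926096 0 0) (P.cons (P.lf 75409979 0 0) (P.cons (P.lf 0 5041743 0) (P.lf 0 1680583 0)))) (P.cons (P.cons (P.lf 507803830 0 0) (P.cons (P.lf 34772428 0 0) (P.cons (P.lf 0 2324799 0) (P.lf 0 774924 0)))) (P.cons (P.cons (P.lf 0 121010519 0) (P.cons (P.lf 0 18865825 0) (P.cons (P.lf 1261321 0 0) (P.lf 420431 0 0)))) (P.cons (P.cons (P.lf 0 13349866 0) (P.cons (P.lf 1405724 0 0) (P.cons (P.lf 0 93978 0) P.nil))) (P.cons (P.cons (P.lf 3237543 0 0) (P.cons (P.lf 306044 0 0) P.nil)) (P.cons (P.cons (P.lf 0 28287 0) P.nil) P.nil)))))) 265606)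
 (EL.cons 5 (TM.mk (P.cons (P.cons (P.lf 224902353 0 0) (P.cons (P.lf 0 286565808 0) (P.cons (P.lf 19159120 0 0) (P.lf 6386368 0 0)))) (P.cons (P.cons (P.lf 969524188 0 0) (P.cons (P.lf 119381524 0 0) (P.cons (P.lf 0 7981570 0) (P.lf 0 2660516 0)))) (P.cons (P.cons (P.lf 35911216 0 0) (P.cons (P.lf 0 11324116 0) (P.cons (P.lf 757102 0 0) (P.lf 252360 0 0)))) (P.cons (P.cons (P.lf 0 19905170 0) (P.cons (P.lf 0 1458670 0) (P.cons (P.lf 97520 0 0) P.nil))) (P.cons (P.cons (P.lf 160120 0 0) (P.cons (P.lf 290500 0 0) P.nil)) (P.cons (P.cons (P.lf 230207 0 0) P.nil) P.nil)))))) 179742)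
 (EL.cons 9 (TM.mk (P.cons (P.cons (P.lf 1605859275 0 0) (P.cons (P.lf 0 173287620 0) (P.cons (P.lf 11585604 0 0) (P.lf 3861864 0 0)))) (P.cons (P.cons (P.lf 812305062 0 0) (P.cons (P.lf 83904042 0 0) (P.cons (P.lf 0 5609628 0) (P.lf 0 1869870 0)))) (P.cons (P.cons (P.lf 0 39314790 0) (P.cons (P.lf 0 13452018 0) (P.cons (P.lf 899370 0 0) (P.lf 299784 0 0)))) (P.cons (P.cons (P.lf 0 7904278 0) (P.cons (P.lf 440682 0 0) (P.cons (P.lf 0 29460 0) P.nil))) (P.cons (P.cons (P.lf 823858 0 0) (P.cons (P.lf 99714 0 0) P.nil)) (P.cons (P.cons (P.lf 4407 0 0) P.nil) P.nil)))))) 52142)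
 (EL.cons 2 (TM.mk (P.cons (P.cons (P.lf 0 559861875 0) (P.cons (P.lf 86680676 0 0) (P.cons (P.lf 41760014 0 0) (P.cons (P.lf 0 1580318 0) (P.lf 0 395077 0))))) (P.cons (P.cons (P.lf 149016881 0 0) (P.cons (P.lf 0 23071553 0) (P.cons (P.lf 0 11115143 0) (P.cons (P.lf 420626 0 0) (P.lf 105153 0 0))))) (P.cons (P.cons (P.lf 0 734948 0) (P.cons (P.lf 113788 0 0) (P.cons (P.lf 54815 0 0) (P.cons (P.lf 0 2072 0) P.nil)))) (P.cons (P.cons (P.lf 0 2598730 0) (P.cons (P.lf 402347 0 0) (P.cons (P.lf 193834 0 0) P.nil))) (P.cons (P.cons (P.lf 198163 0 0) (P.cons (P.lf 0 30678 0) P.nil)) (P.cons (P.cons (P.lf 5729 0 0) P.nil) P.nil)))))) 57623)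
 (EL.cons 6 (TM.mk (P.cons (P.cons (P.lf 197740047 0 0) (P.cons (P.lf 0 30615123 0) (P.cons (P.lf 0 14749401 0) (P.cons (P.lf 558159 0 0) (P.lf 139539 0 0))))) (P.cons (P.cons (P.lf 0 95743653 0) (P.cons (P.lf 14823519 0 0) (P.cons (P.lf 7141503 0 0) (P.cons (P.lf 0 270252 0) (P.lf 0 67563 0))))) (P.cons (P.cons (P.lf 15350223 0 0) (P.cons (P.lf 0 2376600 0) (P.cons (P.lf 0 1144968 0) (P.cons (P.lf 43326 0 0) P.nil)))) (P.cons (P.cons (P.lf 0 502866 0) (P.cons (P.lf 77856 0 0) (P.cons (P.lf 37509 0 0) P.nil))) (P.cons (P.cons (P.lf 0 113787 0) (P.cons (P.lf 17616 0 0) P.nil)) (P.cons (P.cons (P.lf 12648 0 0) P.nil) P.nil)))))) 27756)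
 EL.nil))))))
noncomputable def S372_401_512_660_2 : EL := (EL.cons 0 (TM.mk (P.cons (P.cons (P.lf 1988879311 0 0) (P.cons (P.lf 0 61472210 0) (P.cons (P.lf 0 12416126 0) (P.cons (P.lf 3579740 0 0) (P.cons (P.lf 662713 0 0) (P.cons (P.lf 0 49245 0) P.nil)))))) (P.cons (P.cons (P.lf 843702727 0 0) (P.cons (P.lf 148515339 0 0) (P.cons (P.lf 3509632 0 0) (P.cons (P.lf 0 5106784 0) (P.cons (P.lf 0 538918 0) P.nil))))) (P.cons (P.cons (P.lf 0 224168117 0) (P.cons (P.lf 0 45816863 0) (P.cons (P.lf 0 689373 0) (P.cons (P.lf 1522838 0 0) P.nil)))) (P.cons (P.cons (P.lf 0 38609601 0) (P.cons (P.lf 0 2518792 0) (P.cons (P.lf 306033 0 0) P.nil))) (P.cons (P.cons (P.lf 12236032 0 0) (P.cons (P.lf 2806676 0 0) P.nil)) (P.cons (P.cons (P.lf 174148 0 0) P.nil) P.nil)))))) 3656170)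
 (EL.cons 1 (TM.mk (P.cons (P.cons (P.lf 667081489 0 0) (P.cons (P.lf 0 23803066 0) (P.cons (P.lf 0 3607827 0) (P.cons (P.lf 1225687 0 0) (P.cons (P.lf 208500 0 0) (P.cons (P.lf 0 15494 0) P.nil)))))) (P.cons (P.cons (P.lf 551236559 0 0) (P.cons (P.lf 47254098 0 0) (P.cons (P.lf 0 1839584 0) (P.cons (P.lf 0 1229563 0) (P.cons (P.lf 0 52922 0) P.nil))))) (P.cons (P.cons (P.lf 40605940 0 0) (P.cons (P.lf 7334419 0 0) (P.cons (P.lf 571809 0 0) (P.cons (P.lf 0 305484 0) P.nil)))) (P.cons (P.cons (P.lf 0 40241420 0) (P.cons (P.lf 0 7633065 0) (P.cons (P.lf 0 72174 0) P.nil))) (P.cons (P.cons (P.lf 0 1003683 0) (P.cons (P.lf 719613 0 0) P.nil)) (P.cons (P.cons (P.lf 1201034 0 0) P.nil) P.nil)))))) 1591972)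
 (EL.cons 5 (TM.mk (P.cons (P.cons (P.lf 0 253506461 0) (P.cons (P.lf 0 76049730 0) (P.cons (P.lf 16242949 0 0) (P.cons (P.lf 202789 0 0) (P.cons (P.lf 0 447467 0) (P.cons (P.lf 33242 0 0) P.nil)))))) (P.cons (P.cons (P.lf 158964505 0 0) (P.cons (P.lf 0 54925005 0) (P.cons (P.lf 0 6221636 0) (P.cons (P.lf 2547000 0 0) (P.cons (P.lf 396753 0 0) P.nil))))) (P.cons (P.cons (P.lf 173568228 0 0) (P.cons (P.lf 35066498 0 0) (P.cons (P.lf 1048366 0 0) (P.cons (P.lf 0 1235157 0) P.nil)))) (P.cons (P.cons (P.lf 0 1974017 0) (P.cons (P.lf 0 3378647 0) (P.cons (P.lf 0 247014 0) P.nil))) (P.cons (P.cons (P.lf 0 5872208 0) (P.cons (P.lf 0 913131 0) P.nil)) (P.cons (P.cons (P.lf 285355 0 0) P.nil) P.nil)))))) 1507712)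
 (EL.cons 9 (TM.mk (P.cons (P.cons (P.lf 400279960 0 0) (P.cons (P.lf 0 86388094 0) (P.cons (P.lf 10436757 0 0) (P.cons (P.lf 1301979 0 0) (P.cons (P.lf 0 186915 0) (P.cons (P.lf 13888 0 0) P.nil)))))) (P.cons (P.cons (P.lf 404953837 0 0) (P.cons (P.lf 0 1870197 0) (P.cons (P.lf 0 4388626 0) (P.cons (P.lf 645226 0 0) (P.cons (P.lf 181005 0 0) P.nil))))) (P.cons (P.cons (P.lf 82821192 0 0) (P.cons (P.lf 16567108 0 0) (P.cons (P.lf 708754 0 0) (P.cons (P.lf 0 612093 0) P.nil)))) (P.cons (P.cons (P.lf 0 13854591 0) (P.cons (P.lf 0 3771367 0) (P.cons (P.lf 0 121948 0) P.nil))) (P.cons (P.cons (P.lf 0 1342612 0) (P.cons (P.lf 74812 0 0) P.nil)) (P.cons (P.cons (P.lf 306421 0 0) P.nil) P.nil)))))) 557644)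
 (EL.cons 2 (TM.mk (P.cons (P.cons (P.lf 0 279104765 0) (P.cons (P.lf 73330503 0 0) (P.cons (P.lf 14141722 0 0) (P.cons (P.lf 0 3393776 0) (P.cons (P.lf 142171 0 0) (P.cons (P.lf 65632 0 0) P.nil)))))) (P.cons (P.cons (P.lf 0 66893326 0) (P.cons (P.lf 0 12242531 0) (P.cons (P.lf 9999438 0 0) (P.cons (P.lf 1766570 0 0) (P.cons (P.lf 0 301668 0) P.nil))))) (P.cons (P.cons (P.lf 44044661 0 0) (P.cons (P.lf 0 560188 0) (P.cons (P.lf 0 4672800 0) (P.cons (P.lf 0 417228 0) P.nil)))) (P.cons (P.cons (P.lf 0 1925808 0) (P.cons (P.lf 0 280074 0) (P.cons (P.lf 271828 0 0) P.nil))) (P.cons (P.cons (P.lf 0 1056414 0) (P.cons (P.lf 91333 0 0) P.nil)) (P.cons (P.cons (P.lf 123693 0 0) P.nil) P.nil)))))) 582417)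
 (EL.cons 6 (TM.mk (P.cons (P.cons (P.lf 98578224 0 0) (P.cons (P.lf 0 25899918 0) (P.cons (P.lf 0 4994772 0) (P.cons (P.lf 1198662 0 0) (P.cons (P.lf 0 50208 0) (P.cons (P.lf 0 23178 0) P.nil)))))) (P.cons (P.cons (P.lf 2134092 0 0) (P.cons (P.lf 9970752 0 0) (P.cons (P.lf 0 2442768 0) (P.cons (P.lf 0 885276 0) (P.cons (P.lf 117492 0 0) P.nil))))) (P.cons (P.cons (P.lf 0 18904872 0) (P.cons (P.lf 0 1218450 0) (P.cons (P.lf 2329074 0 0) (P.cons (P.lf 305310 0 0) P.nil)))) (P.cons (P.cons (P.lf 4303536 0 0) (P.cons (P.lf 187464 0 0) (P.cons (P.lf 0 510258 0) P.nil))) (P.cons (P.cons (P.lf 0 85368 0) (P.cons (P.lf 0 64836 0) P.nil)) (P.cons (P.cons (P.lf 0 78126 0) P.nil) P.nil)))))) 347580)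
 EL.nil))))))
noncomputable def S372_401_512_660_3 : EL := (EL.cons 0 (TM.mk (P.cons (P.lf 4471113042 0 0) (P.cons (P.lf 506360443 0 0) (P.cons (P.lf 0 40320479 0) (P.cons (P.lf 0 1649728 0) (P.cons (P.lf 335571 0 0) (P.cons (P.lf 0 13014 0) P.nil)))))) 1861)
 (EL.cons 1 (TM.mk (P.cons (P.lf 0 1579171841 0) (P.cons (P.lf 165450982 0 0) (P.cons (P.lf 24357408 0 0) (P.cons (P.lf 0 2583976 0) (P.cons (P.lf 21706 0 0) (P.cons (P.lf 11396 0 0) P.nil)))))) 1057)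
 (EL.cons 5 (TM.mk (P.cons (P.lf 557754562 0 0) (P.cons (P.lf 0 180039266 0) (P.cons (P.lf 14336174 0 0) (P.cons (P.lf 586566 0 0) (P.cons (P.lf 0 119316 0) (P.cons (P.lf 4630 0 0) P.nil)))))) 378)
 EL.nil)))
noncomputable def S372_401_512_660_4 : EL := (EL.cons 0 (TM.mk (P.cons (P.cons (P.lf 1114479319 0 0) (P.cons (P.lf 0 120263008 0) (P.cons (P.lf 8040501 0 0) (P.lf 2680163 0 0)))) (P.cons (P.cons (P.lf 689962781 0 0) (P.cons (P.lf 44610111 0 0) (P.cons (P.lf 0 2982526 0) (P.lf 0 994171 0)))) (P.cons (P.cons (P.lf 26509981 0 0) (P.cons (P.lf 0 1656631 0) (P.cons (P.lf 110758 0 0) (P.lf 36914 0 0)))) (P.cons (P.cons (P.lf 0 14070752 0) (P.cons (P.lf 0 1232201 0) (P.cons (P.lf 82383 0 0) P.nil))) (P.cons (P.cons (P.lf 72198 0 0) (P.cons (P.lf 157515 0 0) P.nil)) (P.cons (P.cons (P.lf 166413 0 0) P.nil) P.nil)))))) 123710)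
 (EL.cons 1 (TM.mk (P.cons (P.cons (P.lf 0 393627793 0) (P.cons (P.lf 42476214 0 0) (P.cons (P.lf 0 2839858 0) (P.lf 0 946618 0)))) (P.cons (P.cons (P.lf 0 157871326 0) (P.cons (P.lf 0 25016799 0) (P.cons (P.lf 1672563 0 0) (P.lf 557518 0 0)))) (P.cons (P.cons (P.lf 36569319 0 0) (P.cons (P.lf 4796964 0 0) (P.cons (P.lf 0 320713 0) (P.lf 0 106901 0)))) (P.cons (P.cons (P.lf 3354885 0 0) (P.cons (P.lf 0 66759 0) (P.cons (P.lf 4462 0 0) P.nil))) (P.cons (P.cons (P.lf 0 873969 0) (P.cons (P.lf 0 98218 0) P.nil)) (P.cons (P.cons (P.lf 11538 0 0) P.nil) P.nil)))))) 60155)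
 (EL.cons 5 (TM.mk (P.cons (P.cons (P.lf 139027110 0 0) (P.cons (P.lf 0 15002358 0) (P.cons (P.lf 1003022 0 0) (P.lf 334340 0 0)))) (P.cons (P.cons (P.lf 25448252 0 0) (P.cons (P.lf 12106640 0 0) (P.cons (P.lf 0 809420 0) (P.lf 0 269806 0)))) (P.cons (P.cons (P.lf 0 22530700 0) (P.cons (P.lf 0 3894980 0) (P.cons (P.lf 260408 0 0) (P.lf 86802 0 0)))) (P.cons (P.cons (P.lf 2368174 0 0) (P.cons (P.lf 585010 0 0) (P.cons (P.lf 0 39110 0) P.nil))) (P.cons (P.cons (P.lf 248946 0 0) (P.cons (P.lf 0 22768 0) P.nil)) (P.cons (P.cons (P.lf 0 57698 0) P.nil) P.nil)))))) 32824)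
 EL.nil)))
noncomputable def S372_401_512_660_5 : EL := (EL.cons 0 (TM.mk (P.cons (P.cons (P.lf 277797527 0 0) (P.cons (P.lf 0 59954034 0) (P.cons (P.lf 7243192 0 0) (P.cons (P.lf 903582 0 0) (P.cons (P.lf 0 129719 0) (P.cons (P.lf 9638 0 0) P.nil)))))) (P.cons (P.cons (P.lf 312502234 0 0) (P.cons (P.lf 0 8087818 0) (P.cons (P.lf 0 2225438 0) (P.cons (P.lf 550123 0 0) (P.cons (P.lf 110926 0 0) P.nil))))) (P.cons (P.cons (P.lf 86801751 0 0) (P.cons (P.lf 11891378 0 0) (P.cons (P.lf 81625 0 0) (P.cons (P.lf 0 382232 0) P.nil)))) (P.cons (P.cons (P.lf 0 5742588 0) (P.cons (P.lf 0 1281399 0) (P.cons (P.lf 0 4132 0) P.nil))) (P.cons (P.cons (P.lf 0 2621907 0) (P.cons (P.lf 0 352205 0) P.nil)) (P.cons (P.cons (P.lf 192918 0 0) P.nil) P.nil)))))) 607478)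
 (EL.cons 1 (TM.mk (P.cons (P.cons (P.lf 0 98116515 0) (P.cons (P.lf 21175425 0 0) (P.cons (P.lf 0 2558253 0) (P.cons (P.lf 0 319140 0) (P.cons (P.lf 45815 0 0) (P.cons (P.lf 0 3403 0) P.nil)))))) (P.cons (P.cons (P.lf 0 88982435 0) (P.cons (P.lf 0 1760141 0) (P.cons (P.lf 1343767 0 0) (P.cons (P.lf 0 124719 0) (P.cons (P.lf 0 49166 0) P.nil))))) (P.cons (P.cons (P.lf 0 8387971 0) (P.cons (P.lf 0 4435567 0) (P.cons (P.lf 0 246975 0) (P.cons (P.lf 171526 0 0) P.nil)))) (P.cons (P.cons (P.lf 6893484 0 0) (P.cons (P.lf 1377480 0 0) (P.cons (P.lf 27313 0 0) P.nil))) (P.cons (P.cons (P.lf 125349 0 0) (P.cons (P.lf 0 52095 0) P.nil)) (P.cons (P.cons (P.lf 0 193115 0) P.nil) P.nil)))))) 268229)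
 (EL.cons 5 (TM.mk (P.cons (P.cons (P.lf 34654198 0 0) (P.cons (P.lf 0 7479040 0) (P.cons (P.lf 903560 0 0) (P.cons (P.lf 112718 0 0) (P.cons (P.lf 0 16180 0) (P.cons (P.lf 1202 0 0) P.nil)))))) (P.cons (P.cons (P.lf 23872704 0 0) (P.cons (P.lf 2252268 0 0) (P.cons (P.lf 0 671606 0) (P.cons (P.lf 19474 0 0) (P.cons (P.lf 20892 0 0) P.nil))))) (P.cons (P.cons (P.lf 0 3255780 0) (P.cons (P.lf 1294322 0 0) (P.cons (P.lf 207228 0 0) (P.cons (P.lf 0 68124 0) P.nil)))) (P.cons (P.cons (P.lf 0 2576386 0) (P.cons (P.lf 0 801512 0) (P.cons (P.lf 0 39178 0) P.nil))) (P.cons (P.cons (P.lf 484696 0 0) (P.cons (P.lf 150164 0 0) P.nil)) (P.cons (P.cons (P.lf 33546 0 0) P.nil) P.nil)))))) 126100)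
 EL.nil)))
noncomputable def S372_401_512_660_6 : EL := (EL.cons 12 (TM.mk (P.lf 8589934592 0 0) 0)
 (EL.cons 3 (TM.mk (P.cons (P.lf 3098651666 0 0) (P.cons (P.lf 175463538 0 0) (P.cons (P.lf 0 18939693 0) (P.cons (P.lf 500812 0 0) (P.cons (P.lf 30041 0 0) (P.cons (P.lf 0 3150 0) P.nil)))))) 205)
 (EL.cons 7 (TM.mk (P.cons (P.lf 0 1094426245 0) (P.cons (P.lf 176636564 0 0) (P.cons (P.lf 189038 0 0) (P.cons (P.lf 0 544971 0) (P.cons (P.lf 29121 0 0) (P.cons (P.lf 63 0 0) P.nil)))))) 165)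
 EL.nil)))
noncomputable def S372_401_512_660_7 : EL := (EL.cons 12 (TM.mk (P.cons (P.cons (P.lf 2141145700 0 0) (P.cons (P.lf 0 231050160 0) (P.cons (P.lf 15447472 0 0) (P.lf 5149152 0 0)))) (P.cons (P.cons (P.lf 1083073416 0 0) (P.cons (P.lf 111872056 0 0) (P.cons (P.lf 0 7479504 0) (P.lf 0 2493160 0)))) (P.cons (P.cons (P.lf 0 52419720 0) (P.cons (P.lf 0 17936024 0) (P.cons (P.lf 1199160 0 0) (P.lf 399712 0 0)))) (P.cons (P.cons (P.lf 0 10539038 0) (P.cons (P.lf 587576 0 0) (P.cons (P.lf 0 39280 0) P.nil))) (P.cons (P.cons (P.lf 1098478 0 0) (P.cons (P.lf 132952 0 0) P.nil)) (P.cons (P.cons (P.lf 5876 0 0) P.nil) P.nil)))))) 69498)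
 (EL.cons 3 (TM.mk (P.cons (P.cons (P.lf 3193108518 0 0) (P.cons (P.lf 166693692 0 0) (P.cons (P.lf 0 11144748 0) (P.lf 0 3714910 0)))) (P.cons (P.cons (P.lf 0 58691432 0) (P.cons (P.lf 0 71272170 0) (P.cons (P.lf 4765088 0 0) (P.lf 1588356 0 0)))) (P.cons (P.cons (P.lf 0 61499196 0) (P.cons (P.lf 7350930 0 0) (P.cons (P.lf 0 491462 0) (P.lf 0 163814 0)))) (P.cons (P.cons (P.lf 11631869 0 0) (P.cons (P.lf 829100 0 0) (P.cons (P.lf 0 55434 0) P.nil))) (P.cons (P.cons (P.lf 0 197462 0) (P.cons (P.lf 0 210444 0) P.nil)) (P.cons (P.cons (P.lf 0 116308 0) P.nil) P.nil)))))) 225891)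
 (EL.cons 7 (TM.mk (P.cons (P.cons (P.lf 2164116160 0 0) (P.cons (P.lf 281149784 0 0) (P.cons (P.lf 0 18797021 0) (P.lf 0 6265674 0)))) (P.cons (P.cons (P.lf 0 59083812 0) (P.cons (P.lf 0 71748655 0) (P.cons (P.lf 4796948 0 0) (P.lf 1598985 0 0)))) (P.cons (P.cons (P.lf 0 68351124 0) (P.cons (P.lf 0 421321 0) (P.cons (P.lf 28168 0 0) (P.lf 9388 0 0)))) (P.cons (P.cons (P.lf 2135039 0 0) (P.cons (P.lf 1210714 0 0) (P.cons (P.lf 0 80943 0) P.nil))) (P.cons (P.cons (P.lf 745213 0 0) (P.cons (P.lf 0 46474 0) P.nil)) (P.cons (P.cons (P.lf 0 63411 0) P.nil) P.nil)))))) 123629)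
 (EL.cons 10 (TM.mk (P.cons (P.cons (P.lf 0 776011218 0) (P.cons (P.lf 120146022 0 0) (P.cons (P.lf 57882564 0 0) (P.cons (P.lf 0 2190444 0) (P.lf 0 547611 0))))) (P.cons (P.cons (P.lf 250490985 0 0) (P.cons (P.lf 0 38782293 0) (P.cons (P.lf 0 18684084 0) (P.cons (P.lf 707058 0 0) (P.lf 176763 0 0))))) (P.cons (P.cons (P.lf 0 19946106 0) (P.cons (P.lf 3088158 0 0) (P.cons (P.lf 1487775 0 0) (P.cons (P.lf 0 56301 0) P.nil)))) (P.cons (P.cons (P.lf 0 816096 0) (P.cons (P.lf 126351 0 0) (P.cons (P.lf 60870 0 0) P.nil))) (P.cons (P.cons (P.lf 166005 0 0) (P.cons (P.lf 0 25701 0) P.nil)) (P.cons (P.cons (P.lf 0 6441 0) P.nil) P.nil)))))) 32172)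
 EL.nil))))
noncomputable def S372_401_512_660_8 : EL := (EL.cons 12 (TM.mk (P.cons (P.cons (P.lf 533706614 0 0) (P.cons (P.lf 0 115184126 0) (P.cons (P.lf 13915676 0 0) (P.cons (P.lf 1735972 0 0) (P.cons (P.lf 0 249220 0) (P.cons (P.lf 18518 0 0) P.nil)))))) (P.cons (P.cons (P.lf 539938450 0 0) (P.cons (P.lf 0 2493596 0) (P.cons (P.lf 0 5851502 0) (P.cons (P.lf 860302 0 0) (P.cons (P.lf 241340 0 0) P.nil))))) (P.cons (P.cons (P.lf 110428256 0 0) (P.cons (P.lf 22089478 0 0) (P.cons (P.lf 945006 0 0) (P.cons (P.lf 0 816124 0) P.nil)))) (P.cons (P.cons (P.lf 0 18472788 0) (P.cons (P.lf 0 5028490 0) (P.cons (P.lf 0 162598 0) P.nil))) (P.cons (P.cons (P.lf 0 1790150 0) (P.cons (P.lf 99750 0 0) P.nil)) (P.cons (P.cons (P.lf 408562 0 0) P.nil) P.nil)))))) 743496)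
 (EL.cons 3 (TM.mk (P.cons (P.cons (P.lf 1399318015 0 0) (P.cons (P.lf 0 47123758 0) (P.cons (P.lf 0 8058637 0) (P.cons (P.lf 2549037 0 0) (P.cons (P.lf 449506 0 0) (P.cons (P.lf 0 33401 0) P.nil)))))) (P.cons (P.cons (P.lf 570281506 0 0) (P.cons (P.lf 96086035 0 0) (P.cons (P.lf 3795958 0 0) (P.cons (P.lf 0 3507932 0) (P.cons (P.lf 0 409841 0) P.nil))))) (P.cons (P.cons (P.lf 0 134118065 0) (P.cons (P.lf 0 36069105 0) (P.cons (P.lf 0 1273516 0) (P.cons (P.lf 1296572 0 0) P.nil)))) (P.cons (P.cons (P.lf 0 11261205 0) (P.cons (P.lf 2546105 0 0) (P.cons (P.lf 413912 0 0) P.nil))) (P.cons (P.cons (P.lf 5779310 0 0) (P.cons (P.lf 1009190 0 0) P.nil)) (P.cons (P.cons (P.lf 0 269152 0) P.nil) P.nil)))))) 1920305)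
 (EL.cons 7 (TM.mk (P.cons (P.cons (P.lf 1146863043 0 0) (P.cons (P.lf 9064801 0 0) (P.cons (P.lf 0 14938852 0) (P.cons (P.lf 1714490 0 0) (P.cons (P.lf 574770 0 0) (P.cons (P.lf 0 42709 0) P.nil)))))) (P.cons (P.cons (P.lf 574094005 0 0) (P.cons (P.lf 96728398 0 0) (P.cons (P.lf 3821330 0 0) (P.cons (P.lf 0 3531382 0) (P.cons (P.lf 0 412577 0) P.nil))))) (P.cons (P.cons (P.lf 0 72432042 0) (P.cons (P.lf 0 25765765 0) (P.cons (P.lf 0 865464 0) (P.cons (P.lf 920273 0 0) P.nil)))) (P.cons (P.cons (P.lf 0 25363493 0) (P.cons (P.lf 0 1771440 0) (P.cons (P.lf 267593 0 0) P.nil))) (P.cons (P.cons (P.lf 2624392 0 0) (P.cons (P.lf 1010974 0 0) P.nil)) (P.cons (P.cons (P.lf 380265 0 0) P.nil) P.nil)))))) 1080047)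
 (EL.cons 10 (TM.mk (P.cons (P.cons (P.lf 0 386860470 0) (P.cons (P.lf 101641668 0 0) (P.cons (P.lf 19601502 0 0) (P.cons (P.lf 0 4704036 0) (P.cons (P.lf 197058 0 0) (P.cons (P.lf 90972 0 0) P.nil)))))) (P.cons (P.cons (P.lf 0 70812978 0) (P.cons (P.lf 0 22724622 0) (P.cons (P.lf 12750036 0 0) (P.cons (P.lf 2714970 0 0) (P.cons (P.lf 0 429300 0) P.nil))))) (P.cons (P.cons (P.lf 62694516 0 0) (P.cons (P.lf 1131588 0 0) (P.cons (P.lf 0 7079034 0) (P.cons (P.lf 0 760806 0) P.nil)))) (P.cons (P.cons (P.lf 0 6589740 0) (P.cons (P.lf 0 607608 0) (P.cons (P.lf 852390 0 0) P.nil))) (P.cons (P.cons (P.lf 0 692724 0) (P.cons (P.lf 170604 0 0) P.nil)) (P.cons (P.cons (P.lf 160554 0 0) P.nil) P.nil)))))) 808926)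
 EL.nil))))
noncomputable def S372_401_512_660_9 : EL := (EL.cons 3 (TM.mk (P.cons (P.lf 3098651666 0 0) (P.cons (P.lf 175463538 0 0) (P.cons (P.lf 0 18939693 0) (P.cons (P.lf 500812 0 0) (P.cons (P.lf 30041 0 0) (P.cons (P.lf 0 3150 0) P.nil)))))) 205)
 (EL.cons 7 (TM.mk (P.cons (P.lf 0 1094426245 0) (P.cons (P.lf 176636564 0 0) (P.cons (P.lf 189038 0 0) (P.cons (P.lf 0 544971 0) (P.cons (P.lf 29121 0 0) (P.cons (P.lf 63 0 0) P.nil)))))) 165)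
 EL.nil))
noncomputable def S372_401_512_660_10 : EL := (EL.cons 3 (TM.mk (P.cons (P.cons (P.lf 772376625 0 0) (P.cons (P.lf 0 83346846 0) (P.cons (P.lf 5572374 0 0) (P.lf 1857455 0 0)))) (P.cons (P.cons (P.lf 434434069 0 0) (P.cons (P.lf 35636085 0 0) (P.cons (P.lf 0 2382544 0) (P.lf 0 794178 0)))) (P.cons (P.cons (P.lf 0 1506786 0) (P.cons (P.lf 0 3675465 0) (P.cons (P.lf 245731 0 0) (P.lf 81907 0 0)))) (P.cons (P.cons (P.lf 0 7135714 0) (P.cons (P.lf 0 414550 0) (P.cons (P.lf 27717 0 0) P.nil))) (P.cons (P.cons (P.lf 367189 0 0) (P.cons (P.lf 105222 0 0) P.nil)) (P.cons (P.cons (P.lf 47741 0 0) P.nil) P.nil)))))) 55805)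
 (EL.cons 7 (TM.mk (P.cons (P.cons (P.lf 0 272799056 0) (P.cons (P.lf 29437634 0 0) (P.cons (P.lf 0 1968131 0) (P.lf 0 656043 0)))) (P.cons (P.cons (P.lf 0 93963387 0) (P.cons (P.lf 0 19004524 0) (P.cons (P.lf 1270598 0 0) (P.lf 423531 0 0)))) (P.cons (P.cons (P.lf 28997268 0 0) (P.cons (P.lf 4580555 0 0) (P.cons (P.lf 0 306245 0) (P.lf 0 102080 0)))) (P.cons (P.cons (P.lf 152834 0 0) (P.cons (P.lf 0 426563 0) (P.cons (P.lf 28518 0 0) P.nil))) (P.cons (P.cons (P.lf 0 419279 0) (P.cons (P.lf 0 13132 0) P.nil)) (P.cons (P.cons (P.lf 28620 0 0) P.nil) P.nil)))))) 26158)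
 EL.nil))
noncomputable def S372_401_512_660_11 : EL := (EL.cons 3 (TM.mk (P.cons (P.cons (P.lf 192524269 0 0) (P.cons (P.lf 0 41550430 0) (P.cons (P.lf 5019809 0 0) (P.cons (P.lf 626217 0 0) (P.cons (P.lf 0 89900 0) (P.cons (P.lf 6679 0 0) P.nil)))))) (P.cons (P.cons (P.lf 205674118 0 0) (P.cons (P.lf 0 3252341 0) (P.cons (P.lf 0 1826564 0) (P.cons (P.lf 345796 0 0) (P.cons (P.lf 81967 0 0) P.nil))))) (P.cons (P.cons (P.lf 49687219 0 0) (P.cons (P.lf 8171379 0 0) (P.cons (P.lf 190682 0 0) (P.cons (P.lf 0 280654 0) P.nil)))) (P.cons (P.cons (P.lf 0 5567397 0) (P.cons (P.lf 0 1363933 0) (P.cons (P.lf 0 25636 0) P.nil))) (P.cons (P.cons (P.lf 0 1233232 0) (P.cons (P.lf 0 115984 0) P.nil)) (P.cons (P.cons (P.lf 159674 0 0) P.nil) P.nil)))))) 348631)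
 (EL.cons 7 (TM.mk (P.cons (P.cons (P.lf 0 67998483 0) (P.cons (P.lf 14675377 0 0) (P.cons (P.lf 0 1772968 0) (P.cons (P.lf 0 221176 0) (P.cons (P.lf 31752 0 0) (P.cons (P.lf 0 2359 0) P.nil)))))) (P.cons (P.cons (P.lf 0 57817751 0) (P.cons (P.lf 0 2050850 0) (P.cons (P.lf 1031678 0 0) (P.cons (P.lf 0 73912 0) (P.cons (P.lf 0 35873 0) P.nil))))) (P.cons (P.cons (P.lf 0 2954832 0) (P.cons (P.lf 0 2868187 0) (P.cons (P.lf 0 240420 0) (P.cons (P.lf 121709 0 0) P.nil)))) (P.cons (P.cons (P.lf 4602361 0 0) (P.cons (P.lf 1102152 0 0) (P.cons (P.lf 39137 0 0) P.nil))) (P.cons (P.cons (P.lf 0 181796 0) (P.cons (P.lf 0 115856 0) P.nil)) (P.cons (P.cons (P.lf 0 94443 0) P.nil) P.nil)))))) 150649)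
 EL.nil))
noncomputable def S372_401_512_660_12 : EL := (EL.cons 4 (TM.mk (P.cons (P.lf 0 3098651666 0) (P.cons (P.lf 0 175463538 0) (P.cons (P.lf 18939693 0 0) (P.cons (P.lf 0 500812 0) (P.cons (P.lf 0 30041 0) (P.cons (P.lf 3150 0 0) P.nil)))))) 205)
 (EL.cons 8 (TM.mk (P.cons (P.lf 1094426245 0 0) (P.cons (P.lf 0 176636564 0) (P.cons (P.lf 0 189038 0) (P.cons (P.lf 544971 0 0) (P.cons (P.lf 0 29121 0) (P.cons (P.lf 0 63 0) P.nil)))))) 165)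
 EL.nil))
noncomputable def S372_401_512_660_13 : EL := (EL.cons 4 (TM.mk (P.cons (P.cons (P.lf 0 772376625 0) (P.cons (P.lf 83346846 0 0) (P.cons (P.lf 0 5572374 0) (P.lf 0 1857455 0)))) (P.cons (P.cons (P.lf 0 434434069 0) (P.cons (P.lf 0 35636085 0) (P.cons (P.lf 2382544 0 0) (P.lf 794178 0 0)))) (P.cons (P.cons (P.lf 1506786 0 0) (P.cons (P.lf 3675465 0 0) (P.cons (P.lf 0 245731 0) (P.lf 0 81907 0)))) (P.cons (P.cons (P.lf 7135714 0 0) (P.cons (P.lf 414550 0 0) (P.cons (P.lf 0 27717 0) P.nil))) (P.cons (P.cons (P.lf 0 367189 0) (P.cons (P.lf 0 105222 0) P.nil)) (P.cons (P.cons (P.lf 0 47741 0) P.nil) P.nil)))))) 55805)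
 (EL.cons 8 (TM.mk (P.cons (P.cons (P.lf 272799056 0 0) (P.cons (P.lf 0 29437634 0) (P.cons (P.lf 1968131 0 0) (P.lf 656043 0 0)))) (P.cons (P.cons (P.lf 93963387 0 0) (P.cons (P.lf 19004524 0 0) (P.cons (P.lf 0 1270598 0) (P.lf 0 423531 0)))) (P.cons (P.cons (P.lf 0 28997268 0) (P.cons (P.lf 0 4580555 0) (P.cons (P.lf 306245 0 0) (P.lf 102080 0 0)))) (P.cons (P.cons (P.lf 0 152834 0) (P.cons (P.lf 426563 0 0) (P.cons (P.lf 0 28518 0) P.nil))) (P.cons (P.cons (P.lf 419279 0 0) (P.cons (P.lf 13132 0 0) P.nil)) (P.cons (P.cons (P.lf 0 28620 0) P.nil) P.nil)))))) 26158)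
 EL.nil))
noncomputable def S372_401_512_660_14 : EL := (EL.cons 4 (TM.mk (P.cons (P.cons (P.lf 0 192524269 0) (P.cons (P.lf 41550430 0 0) (P.cons (P.lf 0 5019809 0) (P.cons (P.lf 0 626217 0) (P.cons (P.lf 89900 0 0) (P.cons (P.lf 0 6679 0) P.nil)))))) (P.cons (P.cons (P.lf 0 205674118 0) (P.cons (P.lf 3252341 0 0) (P.cons (P.lf 1826564 0 0) (P.cons (P.lf 0 345796 0) (P.cons (P.lf 0 81967 0) P.nil))))) (P.cons (P.cons (P.lf 0 49687219 0) (P.cons (P.lf 0 8171379 0) (P.cons (P.lf 0 190682 0) (P.cons (P.lf 280654 0 0) P.nil)))) (P.cons (P.cons (P.lf 5567397 0 0) (P.cons (P.lf 1363933 0 0) (P.cons (P.lf 25636 0 0) P.nil))) (P.cons (P.cons (P.lf 1233232 0 0) (P.cons (P.lf 115984 0 0) P.nil)) (P.cons (P.cons (P.lf 0 159674 0) P.nil) P.nil)))))) 348631)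
 (EL.cons 8 (TM.mk (P.cons (P.cons (P.lf 67998483 0 0) (P.cons (P.lf 0 14675377 0) (P.cons (P.lf 1772968 0 0) (P.cons (P.lf 221176 0 0) (P.cons (P.lf 0 31752 0) (P.cons (P.lf 2359 0 0) P.nil)))))) (P.cons (P.cons (P.lf 57817751 0 0) (P.cons (P.lf 2050850 0 0) (P.cons (P.lf 0 1031678 0) (P.cons (P.lf 73912 0 0) (P.cons (P.lf 35873 0 0) P.nil))))) (P.cons (P.cons (P.lf 2954832 0 0) (P.cons (P.lf 2868187 0 0) (P.cons (P.lf 240420 0 0) (P.cons (P.lf 0 121709 0) P.nil)))) (P.cons (P.cons (P.lf 0 4602361 0) (P.cons (P.lf 0 1102152 0) (P.cons (P.lf 0 39137 0) P.nil))) (P.cons (P.cons (P.lf 181796 0 0) (P.cons (P.lf 115856 0 0) P.nil)) (P.cons (P.cons (P.lf 94443 0 0) P.nil) P.nil)))))) 150649)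
 EL.nil))
noncomputable def S372_401_512_660_15 : EL := (EL.cons 4 (TM.mk (P.cons (P.lf 0 2384593622 0) (P.cons (P.lf 0 270058903 0) (P.cons (P.lf 21504255 0 0) (P.cons (P.lf 879855 0 0) (P.cons (P.lf 0 178971 0) (P.cons (P.lf 6941 0 0) P.nil)))))) 996)
 (EL.cons 8 (TM.mk (P.cons (P.lf 842224982 0 0) (P.cons (P.lf 0 88240524 0) (P.cons (P.lf 0 12990618 0) (P.cons (P.lf 1378121 0 0) (P.cons (P.lf 0 11577 0) (P.cons (P.lf 0 6078 0) P.nil)))))) 560)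
 EL.nil))
noncomputable def S372_401_512_660_16 : EL := (EL.cons 4 (TM.mk (P.cons (P.cons (P.lf 0 594388970 0) (P.cons (P.lf 64140270 0 0) (P.cons (P.lf 0 4288267 0) (P.lf 0 1429420 0)))) (P.cons (P.cons (P.lf 0 367980150 0) (P.cons (P.lf 0 23792059 0) (P.cons (P.lf 1590680 0 0) (P.lf 530224 0 0)))) (P.cons (P.cons (P.lf 0 14138656 0) (P.cons (P.lf 883536 0 0) (P.cons (P.lf 0 59070 0) (P.lf 0 19687 0)))) (P.cons (P.cons (P.lf 7504401 0 0) (P.cons (P.lf 657174 0 0) (P.cons (P.lf 0 43937 0) P.nil))) (P.cons (P.cons (P.lf 0 38505 0) (P.cons (P.lf 0 84008 0) P.nil)) (P.cons (P.cons (P.lf 0 88754 0) P.nil) P.nil)))))) 65988)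
 (EL.cons 8 (TM.mk (P.cons (P.cons (P.lf 209934823 0 0) (P.cons (P.lf 0 22653981 0) (P.cons (P.lf 1514591 0 0) (P.lf 504863 0 0)))) (P.cons (P.cons (P.lf 84198041 0 0) (P.cons (P.lf 13342293 0 0) (P.cons (P.lf 0 892034 0) (P.lf 0 297343 0)))) (P.cons (P.cons (P.lf 0 19503637 0) (P.cons (P.lf 0 2558381 0) (P.cons (P.lf 171047 0 0) (P.lf 57014 0 0)))) (P.cons (P.cons (P.lf 0 1789272 0) (P.cons (P.lf 35605 0 0) (P.cons (P.lf 0 2380 0) P.nil))) (P.cons (P.cons (P.lf 466117 0 0) (P.cons (P.lf 52383 0 0) P.nil)) (P.cons (P.cons (P.lf 0 6154 0) P.nil) P.nil)))))) 32073)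
 EL.nil))
noncomputable def S372_401_512_660_17 : EL := (EL.cons 4 (TM.mk (P.cons (P.cons (P.lf 0 148158681 0) (P.cons (P.lf 31975485 0 0) (P.cons (P.lf 0 3863036 0) (P.cons (P.lf 0 481910 0) (P.cons (P.lf 69183 0 0) (P.cons (P.lf 0 5140 0) P.nil)))))) (P.cons (P.cons (P.lf 0 166667858 0) (P.cons (P.lf 4313503 0 0) (P.cons (P.lf 1186900 0 0) (P.cons (P.lf 0 293399 0) (P.cons (P.lf 0 59160 0) P.nil))))) (P.cons (P.cons (P.lf 0 46294267 0) (P.cons (P.lf 0 6342068 0) (P.cons (P.lf 0 43533 0) (P.cons (P.lf 203857 0 0) P.nil)))) (P.cons (P.cons (P.lf 3062714 0 0) (P.cons (P.lf 683413 0 0) (P.cons (P.lf 2204 0 0) P.nil))) (P.cons (P.cons (P.lf 1398350 0 0) (P.cons (P.lf 187843 0 0) P.nil)) (P.cons (P.cons (P.lf 0 102889 0) P.nil) P.nil)))))) 323998)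
 (EL.cons 8 (TM.mk (P.cons (P.cons (P.lf 52328808 0 0) (P.cons (P.lf 0 11293560 0) (P.cons (P.lf 1364402 0 0) (P.cons (P.lf 170208 0 0) (P.cons (P.lf 0 24435 0) (P.cons (P.lf 1815 0 0) P.nil)))))) (P.cons (P.cons (P.lf 47457299 0 0) (P.cons (P.lf 938742 0 0) (P.cons (P.lf 0 716676 0) (P.cons (P.lf 66517 0 0) (P.cons (P.lf 26222 0 0) P.nil))))) (P.cons (P.cons (P.lf 4473585 0 0) (P.cons (P.lf 2365636 0 0) (P.cons (P.lf 131720 0 0) (P.cons (P.lf 0 91481 0) P.nil)))) (P.cons (P.cons (P.lf 0 3676525 0) (P.cons (P.lf 0 734656 0) (P.cons (P.lf 0 14567 0) P.nil))) (P.cons (P.cons (P.lf 0 66853 0) (P.cons (P.lf 27784 0 0) P.nil)) (P.cons (P.cons (P.lf 102995 0 0) P.nil) P.nil)))))) 143044)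
 EL.nil))
noncomputable def S372_401_512_660_18 : EL := (EL.cons 4 (TM.mk (P.cons (P.lf 0 1835084209 0) (P.cons (P.lf 0 311739172 0) (P.cons (P.lf 15996937 0 0) (P.cons (P.lf 2587877 0 0) (P.cons (P.lf 0 251917 0) (P.cons (P.lf 0 4069 0) P.nil)))))) 2661)
 (EL.cons 8 (TM.mk (P.cons (P.lf 648141365 0 0) (P.cons (P.lf 0 31204738 0) (P.cons (P.lf 0 17803876 0) (P.cons (P.lf 1014268 0 0) (P.cons (P.lf 107557 0 0) (P.cons (P.lf 0 14597 0) P.nil)))))) 1054)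
 EL.nil))
noncomputable def S372_401_512_660_19 : EL := (EL.cons 4 (TM.mk (P.cons (P.cons (P.lf 0 457417064 0) (P.cons (P.lf 49359688 0 0) (P.cons (P.lf 0 3300072 0) (P.lf 0 1100023 0)))) (P.cons (P.cons (P.lf 0 309083833 0) (P.cons (P.lf 0 15514350 0) (P.cons (P.lf 1037252 0 0) (P.lf 345749 0 0)))) (P.cons (P.cons (P.lf 0 24120094 0) (P.cons (P.lf 0 658547 0) (P.cons (P.lf 44028 0 0) (P.lf 14677 0 0)))) (P.cons (P.cons (P.lf 6815905 0 0) (P.cons (P.lf 664125 0 0) (P.cons (P.lf 0 44401 0) P.nil))) (P.cons (P.cons (P.lf 313685 0 0) (P.cons (P.lf 0 42648 0) P.nil)) (P.cons (P.cons (P.lf 0 109317 0) P.nil) P.nil)))))) 72316)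
 (EL.cons 8 (TM.mk (P.cons (P.cons (P.lf 161557120 0 0) (P.cons (P.lf 0 17433562 0) (P.cons (P.lf 1165566 0 0) (P.lf 388521 0 0)))) (P.cons (P.cons (P.lf 73943612 0 0) (P.cons (P.lf 9280485 0 0) (P.cons (P.lf 0 620471 0) (P.lf 0 206823 0)))) (P.cons (P.cons (P.lf 0 12327580 0) (P.cons (P.lf 0 1280851 0) (P.cons (P.lf 85634 0 0) (P.lf 28544 0 0)))) (P.cons (P.cons (P.lf 0 2596789 0) (P.cons (P.lf 0 149661 0) (P.cons (P.lf 10006 0 0) P.nil))) (P.cons (P.cons (P.lf 384512 0 0) (P.cons (P.lf 55388 0 0) P.nil)) (P.cons (P.cons (P.lf 22029 0 0) P.nil) P.nil)))))) 33498)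
 EL.nil))
noncomputable def S372_401_512_660_20 : EL := (EL.cons 4 (TM.mk (P.cons (P.cons (P.lf 0 114016767 0) (P.cons (P.lf 24607005 0 0) (P.cons (P.lf 0 2972832 0) (P.cons (P.lf 0 370858 0) (P.cons (P.lf 53240 0 0) (P.cons (P.lf 0 3955 0) P.nil)))))) (P.cons (P.cons (P.lf 0 134716949 0) (P.cons (P.lf 4712882 0 0) (P.cons (P.lf 745050 0 0) (P.cons (P.lf 0 246788 0) (P.cons (P.lf 0 42512 0) P.nil))))) (P.cons (P.cons (P.lf 0 42192106 0) (P.cons (P.lf 0 4843027 0) (P.cons (P.lf 36389 0 0) (P.cons (P.lf 146361 0 0) P.nil)))) (P.cons (P.cons (P.lf 1105110 0 0) (P.cons (P.lf 233246 0 0) (P.cons (P.lf 0 6263 0) P.nil))) (P.cons (P.cons (P.lf 1405496 0 0) (P.cons (P.lf 204943 0 0) P.nil)) (P.cons (P.cons (P.lf 0 39535 0) P.nil) P.nil)))))) 294636)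
 (EL.cons 8 (TM.mk (P.cons (P.cons (P.lf 40270077 0 0) (P.cons (P.lf 0 8691055 0) (P.cons (P.lf 1049987 0 0) (P.cons (P.lf 130985 0 0) (P.cons (P.lf 0 18804 0) (P.cons (P.lf 1397 0 0) P.nil)))))) (P.cons (P.cons (P.lf 38801490 0 0) (P.cons (P.lf 230279 0 0) (P.cons (P.lf 0 492068 0) (P.cons (P.lf 58606 0 0) (P.cons (P.lf 19115 0 0) P.nil))))) (P.cons (P.cons (P.lf 5264584 0 0) (P.cons (P.lf 1914524 0 0) (P.cons (P.lf 63718 0 0) (P.cons (P.lf 0 68302 0) P.nil)))) (P.cons (P.cons (P.lf 0 2851073 0) (P.cons (P.lf 0 468094 0) (P.cons (P.lf 0 1930 0) P.nil))) (P.cons (P.cons (P.lf 0 226408 0) (P.cons (P.lf 0 21726 0) P.nil)) (P.cons (P.cons (P.lf 94510 0 0) P.nil) P.nil)))))) 129539)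
 EL.nil))
noncomputable def S372_401_512_660_21 : EL := (EL.cons 4 (TM.mk (P.cons (P.cons (P.lf 0 2420731893 0) (P.cons (P.lf 0 250040538 0) (P.cons (P.lf 16717122 0 0) (P.lf 5572365 0 0)))) (P.cons (P.cons (P.lf 493125501 0 0) (P.cons (P.lf 106908255 0 0) (P.cons (P.lf 0 7147632 0) (P.lf 0 2382534 0)))) (P.cons (P.cons (P.lf 59992410 0 0) (P.cons (P.lf 0 11026395 0) (P.cons (P.lf 737193 0 0) (P.lf 245721 0 0)))) (P.cons (P.cons (P.lf 0 18767583 0) (P.cons (P.lf 0 1243650 0) (P.cons (P.lf 83151 0 0) P.nil))) (P.cons (P.cons (P.lf 564651 0 0) (P.cons (P.lf 315666 0 0) P.nil)) (P.cons (P.cons (P.lf 164049 0 0) P.nil) P.nil)))))) 170067)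
 (EL.cons 8 (TM.mk (P.cons (P.cons (P.lf 0 2436915216 0) (P.cons (P.lf 0 251712150 0) (P.cons (P.lf 16828890 0 0) (P.lf 5609631 0 0)))) (P.cons (P.cons (P.lf 0 34879575 0) (P.cons (P.lf 52744131 0 0) (P.cons (P.lf 0 3526350 0) (P.lf 0 1175454 0)))) (P.cons (P.cons (P.lf 97348392 0 0) (P.cons (P.lf 5001876 0 0) (P.cons (P.lf 0 334413 0) (P.lf 0 111468 0)))) (P.cons (P.cons (P.lf 0 1982205 0) (P.cons (P.lf 0 1637277 0) (P.cons (P.lf 109461 0 0) P.nil))) (P.cons (P.cons (P.lf 0 1164492 0) (P.cons (P.lf 33342 0 0) P.nil)) (P.cons (P.cons (P.lf 92031 0 0) P.nil) P.nil)))))) 97452)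
 (EL.cons 11 (TM.mk (P.cons (P.cons (P.lf 776011218 0 0) (P.cons (P.lf 0 120146022 0) (P.cons (P.lf 0 57882564 0) (P.cons (P.lf 2190444 0 0) (P.lf 547611 0 0))))) (P.cons (P.cons (P.lf 0 250490985 0) (P.cons (P.lf 38782293 0 0) (P.cons (P.lf 18684084 0 0) (P.cons (P.lf 0 707058 0) (P.lf 0 176763 0))))) (P.cons (P.cons (P.lf 19946106 0 0) (P.cons (P.lf 0 3088158 0) (P.cons (P.lf 0 1487775 0) (P.cons (P.lf 56301 0 0) P.nil)))) (P.cons (P.cons (P.lf 816096 0 0) (P.cons (P.lf 0 126351 0) (P.cons (P.lf 0 60870 0) P.nil))) (P.cons (P.cons (P.lf 0 166005 0) (P.cons (P.lf 25701 0 0) P.nil)) (P.cons (P.cons (P.lf 6441 0 0) P.nil) P.nil)))))) 32172)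
 EL.nil)))
noncomputable def S372_401_512_660_22 : EL := (EL.cons 4 (TM.mk (P.cons (P.cons (P.lf 0 603396873 0) (P.cons (P.lf 2786664 0 0) (P.cons (P.lf 6539223 0 0) (P.cons (P.lf 0 961410 0) (P.cons (P.lf 0 269703 0) (P.cons (P.lf 20040 0 0) P.nil)))))) (P.cons (P.cons (P.lf 0 182303694 0) (P.cons (P.lf 0 49669188 0) (P.cons (P.lf 0 2811261 0) (P.cons (P.lf 1926864 0 0) (P.cons (P.lf 245904 0 0) P.nil))))) (P.cons (P.cons (P.lf 91902642 0 0) (P.cons (P.lf 22120242 0 0) (P.cons (P.lf 732099 0 0) (P.cons (P.lf 0 788613 0) P.nil)))) (P.cons (P.cons (P.lf 2846904 0 0) (P.cons (P.lf 0 1955019 0) (P.cons (P.lf 0 219774 0) P.nil))) (P.cons (P.cons (P.lf 0 3506271 0) (P.cons (P.lf 0 562587 0) P.nil)) (P.cons (P.cons (P.lf 214413 0 0) P.nil) P.nil)))))) 785826)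
 (EL.cons 8 (TM.mk (P.cons (P.cons (P.lf 0 607430763 0) (P.cons (P.lf 2805288 0 0) (P.cons (P.lf 6582942 0 0) (P.cons (P.lf 0 967833 0) (P.cons (P.lf 0 271509 0) (P.cons (P.lf 20175 0 0) P.nil)))))) (P.cons (P.cons (P.lf 0 315955878 0) (P.cons (P.lf 0 49389624 0) (P.cons (P.lf 0 1394826 0) (P.cons (P.lf 1728735 0 0) (P.cons (P.lf 188352 0 0) P.nil))))) (P.cons (P.cons (P.lf 34738605 0 0) (P.cons (P.lf 11448789 0 0) (P.cons (P.lf 312522 0 0) (P.cons (P.lf 0 399282 0) P.nil)))) (P.cons (P.cons (P.lf 14982927 0 0) (P.cons (P.lf 1436796 0 0) (P.cons (P.lf 0 114228 0) P.nil))) (P.cons (P.cons (P.lf 0 1403094 0) (P.cons (P.lf 0 563415 0) P.nil)) (P.cons (P.cons (P.lf 0 237354 0) P.nil) P.nil)))))) 464688)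
 (EL.cons 11 (TM.mk (P.cons (P.cons (P.lf 193430235 0 0) (P.cons (P.lf 0 50820834 0) (P.cons (P.lf 0 9800751 0) (P.cons (P.lf 2352018 0 0) (P.cons (P.lf 0 98529 0) (P.cons (P.lf 0 45486 0) P.nil)))))) (P.cons (P.cons (P.lf 35406489 0 0) (P.cons (P.lf 11362311 0 0) (P.cons (P.lf 0 6375018 0) (P.cons (P.lf 0 1357485 0) (P.cons (P.lf 214650 0 0) P.nil))))) (P.cons (P.cons (P.lf 0 31347258 0) (P.cons (P.lf 0 565794 0) (P.cons (P.lf 3539517 0 0) (P.cons (P.lf 380403 0 0) P.nil)))) (P.cons (P.cons (P.lf 3294870 0 0) (P.cons (P.lf 303804 0 0) (P.cons (P.lf 0 426195 0) P.nil))) (P.cons (P.cons (P.lf 346362 0 0) (P.cons (P.lf 0 85302 0) P.nil)) (P.cons (P.cons (P.lf 0 80277 0) P.nil) P.nil)))))) 404463)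
 EL.nil)))
noncomputable def S372_401_512_660_23 : EL := (EL.cons 4 (TM.mk (P.cons (P.cons (P.lf 0 1862894721 0) (P.cons (P.lf 0 192420810 0) (P.cons (P.lf 12864801 0 0) (P.lf 4288260 0 0)))) (P.cons (P.cons (P.lf 274001052 0 0) (P.cons (P.lf 71376174 0 0) (P.cons (P.lf 0 4772040 0) (P.lf 0 1590672 0)))) (P.cons (P.cons (P.lf 79042971 0 0) (P.cons (P.lf 0 2650608 0) (P.cons (P.lf 177207 0 0) (P.lf 59061 0 0)))) (P.cons (P.cons (P.lf 0 14449083 0) (P.cons (P.lf 0 1971522 0) (P.cons (P.lf 131811 0 0) P.nil))) (P.cons (P.cons (P.lf 0 622212 0) (P.cons (P.lf 252024 0 0) P.nil)) (P.cons (P.cons (P.lf 252162 0 0) P.nil) P.nil)))))) 210045)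
 (EL.cons 8 (TM.mk (P.cons (P.cons (P.lf 0 1875348735 0) (P.cons (P.lf 0 193707216 0) (P.cons (P.lf 12950814 0 0) (P.lf 4316937 0 0)))) (P.cons (P.cons (P.lf 0 133034937 0) (P.cons (P.lf 29620872 0 0) (P.cons (P.lf 0 1980381 0) (P.lf 0 660129 0)))) (P.cons (P.cons (P.lf 84857913 0 0) (P.cons (P.lf 7331643 0 0) (P.cons (P.lf 0 490176 0) (P.lf 0 163389 0)))) (P.cons (P.cons (P.lf 2577675 0 0) (P.cons (P.lf 0 1321413 0) (P.cons (P.lf 88344 0 0) P.nil))) (P.cons (P.cons (P.lf 0 1462941 0) (P.cons (P.lf 0 64533 0) P.nil)) (P.cons (P.cons (P.lf 43155 0 0) P.nil) P.nil)))))) 121269)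
 (EL.cons 11 (TM.mk (P.cons (P.cons (P.lf 597186000 0 0) (P.cons (P.lf 0 92459388 0) (P.cons (P.lf 0 44544015 0) (P.cons (P.lf 1685673 0 0) (P.lf 421416 0 0))))) (P.cons (P.cons (P.lf 0 158951340 0) (P.cons (P.lf 24609657 0 0) (P.cons (P.lf 11856153 0 0) (P.cons (P.lf 0 448668 0) (P.lf 0 112164 0))))) (P.cons (P.cons (P.lf 783945 0 0) (P.cons (P.lf 0 121374 0) (P.cons (P.lf 0 58470 0) (P.cons (P.lf 2211 0 0) P.nil)))) (P.cons (P.cons (P.lf 2771979 0 0) (P.cons (P.lf 0 429171 0) (P.cons (P.lf 0 206757 0) P.nil))) (P.cons (P.cons (P.lf 0 211374 0) (P.cons (P.lf 32724 0 0) P.nil)) (P.cons (P.cons (P.lf 0 6111 0) P.nil) P.nil)))))) 61443)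
 EL.nil)))
noncomputable def S372_401_512_660_24 : EL := (EL.cons 4 (TM.mk (P.cons (P.cons (P.lf 0 464349171 0) (P.cons (P.lf 2144499 0 0) (P.cons (P.lf 5032314 0 0) (P.cons (P.lf 0 739860 0) (P.cons (P.lf 0 207552 0) (P.cons (P.lf 15423 0 0) P.nil)))))) (P.cons (P.cons (P.lf 0 166587480 0) (P.cons (P.lf 0 38101908 0) (P.cons (P.lf 0 1878471 0) (P.cons (P.lf 1440939 0 0) (P.cons (P.lf 177483 0 0) P.nil))))) (P.cons (P.cons (P.lf 65618448 0 0) (P.cons (P.lf 14845284 0 0) (P.cons (P.lf 410130 0 0) (P.cons (P.lf 0 518394 0) P.nil)))) (P.cons (P.cons (P.lf 6978144 0 0) (P.cons (P.lf 0 306594 0) (P.cons (P.lf 0 123189 0) P.nil))) (P.cons (P.cons (P.lf 0 3033681 0) (P.cons (P.lf 0 628341 0) P.nil)) (P.cons (P.cons (P.lf 9363 0 0) P.nil) P.nil)))))) 617817)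
 (EL.cons 8 (TM.mk (P.cons (P.cons (P.lf 0 467453487 0) (P.cons (P.lf 2158833 0 0) (P.cons (P.lf 5065959 0 0) (P.cons (P.lf 0 744804 0) (P.cons (P.lf 0 208941 0) (P.cons (P.lf 15525 0 0) P.nil)))))) (P.cons (P.cons (P.lf 0 269616435 0) (P.cons (P.lf 0 37885956 0) (P.cons (P.lf 0 786537 0) (P.cons (P.lf 1288188 0 0) (P.cons (P.lf 133116 0 0) P.nil))))) (P.cons (P.cons (P.lf 15822216 0 0) (P.cons (P.lf 6645072 0 0) (P.cons (P.lf 148758 0 0) (P.cons (P.lf 0 227385 0) P.nil)))) (P.cons (P.cons (P.lf 14454657 0 0) (P.cons (P.lf 1837266 0 0) (P.cons (P.lf 0 66906 0) P.nil))) (P.cons (P.cons (P.lf 0 634083 0) (P.cons (P.lf 0 430941 0) P.nil)) (P.cons (P.cons (P.lf 0 311835 0) P.nil) P.nil)))))) 360534)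
 (EL.cons 11 (TM.mk (P.cons (P.cons (P.lf 148855875 0 0) (P.cons (P.lf 0 39109602 0) (P.cons (P.lf 0 7542252 0) (P.cons (P.lf 1810014 0 0) (P.cons (P.lf 0 75825 0) (P.cons (P.lf 0 35004 0) P.nil)))))) (P.cons (P.cons (P.lf 35676441 0 0) (P.cons (P.lf 6529350 0 0) (P.cons (P.lf 0 5333034 0) (P.cons (P.lf 0 942171 0) (P.cons (P.lf 160890 0 0) P.nil))))) (P.cons (P.cons (P.lf 0 23490486 0) (P.cons (P.lf 298767 0 0) (P.cons (P.lf 2492160 0 0) (P.cons (P.lf 222522 0 0) P.nil)))) (P.cons (P.cons (P.lf 1027098 0 0) (P.cons (P.lf 149373 0 0) (P.cons (P.lf 0 144975 0) P.nil))) (P.cons (P.cons (P.lf 563421 0 0) (P.cons (P.lf 0 48711 0) P.nil)) (P.cons (P.cons (P.lf 0 65970 0) P.nil) P.nil)))))) 310611)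
 EL.nil)))
noncomputable def S372_401_512_660_25 : EL := (EL.cons 4 (TM.mk (P.cons (P.cons (P.lf 0 1433606403 0) (P.cons (P.lf 0 148079064 0) (P.cons (P.lf 9900216 0 0) (P.lf 3300066 0 0)))) (P.cons (P.cons (P.lf 129680763 0 0) (P.cons (P.lf 46543047 0 0) (P.cons (P.lf 0 3111756 0) (P.lf 0 1037247 0)))) (P.cons (P.cons (P.lf 81530829 0 0) (P.cons (P.lf 1975641 0 0) (P.cons (P.lf 0 132090 0) (P.lf 0 44034 0)))) (P.cons (P.cons (P.lf 0 9195501 0) (P.cons (P.lf 0 1992372 0) (P.cons (P.lf 133206 0 0) P.nil))) (P.cons (P.cons (P.lf 0 1460091 0) (P.cons (P.lf 127944 0 0) P.nil)) (P.cons (P.cons (P.lf 248235 0 0) P.nil) P.nil)))))) 221367)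
 (EL.cons 8 (TM.mk (P.cons (P.cons (P.lf 0 1443190494 0) (P.cons (P.lf 0 149069028 0) (P.cons (P.lf 9966408 0 0) (P.lf 3322134 0 0)))) (P.cons (P.cons (P.lf 0 184099938 0) (P.cons (P.lf 14353842 0 0) (P.cons (P.lf 0 959664 0) (P.lf 0 319890 0)))) (P.cons (P.cons (P.lf 68327004 0 0) (P.cons (P.lf 7844055 0 0) (P.cons (P.lf 0 524433 0) (P.lf 0 174810 0)))) (P.cons (P.cons (P.lf 6074019 0 0) (P.cons (P.lf 0 860838 0) (P.cons (P.lf 57549 0 0) P.nil))) (P.cons (P.cons (P.lf 0 1443177 0) (P.cons (P.lf 0 139491 0) P.nil)) (P.cons (P.cons (P.lf 0 31632 0) P.nil) P.nil)))))) 127371)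
 (EL.cons 11 (TM.mk (P.cons (P.cons (P.lf 459569544 0 0) (P.cons (P.lf 0 71152905 0) (P.cons (P.lf 0 34279224 0) (P.cons (P.lf 1297224 0 0) (P.lf 324306 0 0))))) (P.cons (P.cons (P.lf 0 96298869 0) (P.cons (P.lf 14909481 0 0) (P.cons (P.lf 7182915 0 0) (P.cons (P.lf 0 271821 0) (P.lf 0 67953 0))))) (P.cons (P.cons (P.lf 0 9132300 0) (P.cons (P.lf 1413909 0 0) (P.cons (P.lf 681177 0 0) (P.cons (P.lf 0 25776 0) P.nil)))) (P.cons (P.cons (P.lf 2989302 0 0) (P.cons (P.lf 0 462816 0) (P.cons (P.lf 0 222969 0) P.nil))) (P.cons (P.cons (P.lf 0 60870 0) (P.cons (P.lf 9423 0 0) P.nil)) (P.cons (P.cons (P.lf 0 28506 0) P.nil) P.nil)))))) 75060)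
 EL.nil)))
noncomputable def S372_401_512_660_26 : EL := (EL.cons 4 (TM.mk (P.cons (P.cons (P.lf 0 357343836 0) (P.cons (P.lf 1650318 0 0) (P.cons (P.lf 3872661 0 0) (P.cons (P.lf 0 569364 0) (P.cons (P.lf 0 159723 0) (P.cons (P.lf 11868 0 0) P.nil)))))) (P.cons (P.cons (P.lf 0 148433676 0) (P.cons (P.lf 0 29228196 0) (P.cons (P.lf 0 1226301 0) (P.cons (P.lf 1076646 0 0) (P.cons (P.lf 127539 0 0) P.nil))))) (P.cons (P.cons (P.lf 45422046 0 0) (P.cons (P.lf 9753867 0 0) (P.cons (P.lf 210090 0 0) (P.cons (P.lf 0 332661 0) P.nil)))) (P.cons (P.cons (P.lf 8955360 0 0) (P.cons (P.lf 590454 0 0) (P.cons (P.lf 0 67467 0) P.nil))) (P.cons (P.cons (P.lf 0 2363343 0) (P.cons (P.lf 0 571455 0) P.nil)) (P.cons (P.cons (P.lf 0 150531 0) P.nil) P.nil)))))) 516255)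
 (EL.cons 8 (TM.mk (P.cons (P.cons (P.lf 0 359732787 0) (P.cons (P.lf 1661349 0 0) (P.cons (P.lf 3898551 0 0) (P.cons (P.lf 0 573171 0) (P.cons (P.lf 0 160791 0) (P.cons (P.lf 11946 0 0) P.nil)))))) (P.cons (P.cons (P.lf 0 227855757 0) (P.cons (P.lf 0 29061384 0) (P.cons (P.lf 0 384528 0) (P.cons (P.lf 958878 0 0) (P.cons (P.lf 93336 0 0) P.nil))))) (P.cons (P.cons (P.lf 2625858 0 0) (P.cons (P.lf 3452667 0 0) (P.cons (P.lf 56373 0 0) (P.cons (P.lf 0 115347 0) P.nil)))) (P.cons (P.cons (P.lf 13023246 0 0) (P.cons (P.lf 1881927 0 0) (P.cons (P.lf 0 40677 0) P.nil))) (P.cons (P.cons (P.lf 30477 0 0) (P.cons (P.lf 0 287526 0) P.nil)) (P.cons (P.cons (P.lf 0 335277 0) P.nil) P.nil)))))) 306558)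
 (EL.cons 11 (TM.mk (P.cons (P.cons (P.lf 114553299 0 0) (P.cons (P.lf 0 30097125 0) (P.cons (P.lf 0 5804202 0) (P.cons (P.lf 1392912 0 0) (P.cons (P.lf 0 58350 0) (P.cons (P.lf 0 26937 0) P.nil)))))) (P.cons (P.cons (P.lf 33941775 0 0) (P.cons (P.lf 3320445 0 0) (P.cons (P.lf 0 4432749 0) (P.cons (P.lf 0 646179 0) (P.cons (P.lf 120510 0 0) P.nil))))) (P.cons (P.cons (P.lf 0 17222811 0) (P.cons (P.lf 698406 0 0) (P.cons (P.lf 1720944 0 0) (P.cons (P.lf 121674 0 0) P.nil)))) (P.cons (P.cons (P.lf 0 382524 0) (P.cons (P.lf 92394 0 0) (P.cons (P.lf 21180 0 0) P.nil))) (P.cons (P.cons (P.lf 594384 0 0) (P.cons (P.lf 0 31860 0) P.nil)) (P.cons (P.cons (P.lf 0 33819 0) P.nil) P.nil)))))) 256275)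
 EL.nil)))
noncomputable def S372_401_512_660_27 : EL := (EL.cons 13 (TM.mk (P.lf 0 4294967296 0) 0)
 EL.nil)
noncomputable def S372_401_512_660_28 : EL := (EL.cons 13 (TM.mk (P.cons (P.cons (P.lf 0 1070572850 0) (P.cons (P.lf 115525080 0 0) (P.cons (P.lf 0 7723736 0) (P.lf 0 2574576 0)))) (P.cons (P.cons (P.lf 0 541536708 0) (P.cons (P.lf 0 55936028 0) (P.cons (P.lf 3739752 0 0) (P.lf 1246580 0 0)))) (P.cons (P.cons (P.lf 26209860 0 0) (P.cons (P.lf 8968012 0 0) (P.cons (P.lf 0 599580 0) (P.lf 0 199856 0)))) (P.cons (P.cons (P.lf 5269519 0 0) (P.cons (P.lf 0 293788 0) (P.cons (P.lf 19640 0 0) P.nil))) (P.cons (P.cons (P.lf 0 549239 0) (P.cons (P.lf 0 66476 0) P.nil)) (P.cons (P.cons (P.lf 0 2938 0) P.nil) P.nil)))))) 34749)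
 EL.nil)
noncomputable def S372_401_512_660_29 : EL := (EL.cons 13 (TM.mk (P.cons (P.cons (P.lf 0 266853307 0) (P.cons (P.lf 57592063 0 0) (P.cons (P.lf 0 6957838 0) (P.cons (P.lf 0 867986 0) (P.cons (P.lf 124610 0 0) (P.cons (P.lf 0 9259 0) P.nil)))))) (P.cons (P.cons (P.lf 0 269969225 0) (P.cons (P.lf 1246798 0 0) (P.cons (P.lf 2925751 0 0) (P.cons (P.lf 0 430151 0) (P.cons (P.lf 0 120670 0) P.nil))))) (P.cons (P.cons (P.lf 0 55214128 0) (P.cons (P.lf 0 11044739 0) (P.cons (P.lf 0 472503 0) (P.cons (P.lf 408062 0 0) P.nil)))) (P.cons (P.cons (P.lf 9236394 0 0) (P.cons (P.lf 2514245 0 0) (P.cons (P.lf 81299 0 0) P.nil))) (P.cons (P.cons (P.lf 895075 0 0) (P.cons (P.lf 0 49875 0) P.nil)) (P.cons (P.cons (P.lf 0 204281 0) P.nil) P.nil)))))) 371748)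
 EL.nil)
noncomputable def S372_401_512_660_30 : EL := (EL.cons 13 (TM.mk (P.cons (P.lf 0 3305228444 0) (P.cons (P.lf 0 187161108 0) (P.cons (P.lf 20202340 0 0) (P.cons (P.lf 0 534200 0) (P.cons (P.lf 0 32044 0) (P.cons (P.lf 3360 0 0) P.nil)))))) 212)
 EL.nil)
noncomputable def S372_401_512_660_31 : EL := (EL.cons 13 (TM.mk (P.cons (P.cons (P.lf 0 823868400 0) (P.cons (P.lf 88903303 0 0) (P.cons (P.lf 0 5943866 0) (P.lf 0 1981286 0)))) (P.cons (P.cons (P.lf 0 463396341 0) (P.cons (P.lf 0 38011825 0) (P.cons (P.lf 2541381 0 0) (P.lf 847124 0 0)))) (P.cons (P.cons (P.lf 1607239 0 0) (P.cons (P.lf 3920496 0 0) (P.cons (P.lf 0 262114 0) (P.lf 0 87368 0)))) (P.cons (P.cons (P.lf 7611429 0 0) (P.cons (P.lf 442187 0 0) (P.cons (P.lf 0 29565 0) P.nil))) (P.cons (P.cons (P.lf 0 391669 0) (P.cons (P.lf 0 112237 0) P.nil)) (P.cons (P.cons (P.lf 0 50924 0) P.nil) P.nil)))))) 59506)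
 EL.nil)
noncomputable def S372_401_512_660_32 : EL := (EL.cons 13 (TM.mk (P.cons (P.cons (P.lf 0 205359221 0) (P.cons (P.lf 44320459 0 0) (P.cons (P.lf 0 5354463 0) (P.cons (P.lf 0 667965 0) (P.cons (P.lf 95894 0 0) (P.cons (P.lf 0 7125 0) P.nil)))))) (P.cons (P.cons (P.lf 0 219385726 0) (P.cons (P.lf 3469164 0 0) (P.cons (P.lf 1948335 0 0) (P.cons (P.lf 0 368850 0) (P.cons (P.lf 0 87432 0) P.nil))))) (P.cons (P.cons (P.lf 0 52999701 0) (P.cons (P.lf 0 8716138 0) (P.cons (P.lf 0 203395 0) (P.cons (P.lf 299365 0 0) P.nil)))) (P.cons (P.cons (P.lf 5938557 0 0) (P.cons (P.lf 1454862 0 0) (P.cons (P.lf 27346 0 0) P.nil))) (P.cons (P.cons (P.lf 1315448 0 0) (P.cons (P.lf 123717 0 0) P.nil)) (P.cons (P.cons (P.lf 0 170319 0) P.nil) P.nil)))))) 371850)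
 EL.nil)
noncomputable def S372_401_512_660_33 : EL := (EL.cons 14 (TM.mk (P.lf 8589934592 0 0) 0)
 EL.nil)
noncomputable def S372_401_512_660_34 : EL := (EL.cons 14 (TM.mk (P.cons (P.cons (P.lf 2141145700 0 0) (P.cons (P.lf 0 231050160 0) (P.cons (P.lf 15447472 0 0) (P.lf 5149152 0 0)))) (P.cons (P.cons (P.lf 1083073416 0 0) (P.cons (P.lf 111872056 0 0) (P.cons (P.lf 0 7479504 0) (P.lf 0 2493160 0)))) (P.cons (P.cons (P.lf 0 52419720 0) (P.cons (P.lf 0 17936024 0) (P.cons (P.lf 1199160 0 0) (P.lf 399712 0 0)))) (P.cons (P.cons (P.lf 0 10539038 0) (P.cons (P.lf 587576 0 0) (P.cons (P.lf 0 39280 0) P.nil))) (P.cons (P.cons (P.lf 1098478 0 0) (P.cons (P.lf 132952 0 0) P.nil)) (P.cons (P.cons (P.lf 5876 0 0) P.nil) P.nil)))))) 69498)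
 EL.nil)
noncomputable def S372_401_512_660_35 : EL := (EL.cons 14 (TM.mk (P.cons (P.cons (P.lf 533706614 0 0) (P.cons (P.lf 0 115184126 0) (P.cons (P.lf 13915676 0 0) (P.cons (P.lf 1735972 0 0) (P.cons (P.lf 0 249220 0) (P.cons (P.lf 18518 0 0) P.nil)))))) (P.cons (P.cons (P.lf 539938450 0 0) (P.cons (P.lf 0 2493596 0) (P.cons (P.lf 0 5851502 0) (P.cons (P.lf 860302 0 0) (P.cons (P.lf 241340 0 0) P.nil))))) (P.cons (P.cons (P.lf 110428256 0 0) (P.cons (P.lf 22089478 0 0) (P.cons (P.lf 945006 0 0) (P.cons (P.lf 0 816124 0) P.nil)))) (P.cons (P.cons (P.lf 0 18472788 0) (P.cons (P.lf 0 5028490 0) (P.cons (P.lf 0 162598 0) P.nil))) (P.cons (P.cons (P.lf 0 1790150 0) (P.cons (P.lf 99750 0 0) P.nil)) (P.cons (P.cons (P.lf 408562 0 0) P.nil) P.nil)))))) 743496)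
 EL.nil)
noncomputable def S372_401_512_660_36 : EL := (EL.cons 14 (TM.mk (P.cons (P.lf 6610456888 0 0) (P.cons (P.lf 374322216 0 0) (P.cons (P.lf 0 40404680 0) (P.cons (P.lf 1068400 0 0) (P.cons (P.lf 64088 0 0) (P.cons (P.lf 0 6720 0) P.nil)))))) 424)
 EL.nil)
noncomputable def S372_401_512_660_37 : EL := (EL.cons 14 (TM.mk (P.cons (P.cons (P.lf 1647736800 0 0) (P.cons (P.lf 0 177806606 0) (P.cons (P.lf 11887732 0 0) (P.lf 3962572 0 0)))) (P.cons (P.cons (P.lf 926792682 0 0) (P.cons (P.lf 76023650 0 0) (P.cons (P.lf 0 5082762 0) (P.lf 0 1694248 0)))) (P.cons (P.cons (P.lf 0 3214478 0) (P.cons (P.lf 0 7840992 0) (P.cons (P.lf 524228 0 0) (P.lf 174736 0 0)))) (P.cons (P.cons (P.lf 0 15222858 0) (P.cons (P.lf 0 884374 0) (P.cons (P.lf 59130 0 0) P.nil))) (P.cons (P.cons (P.lf 783338 0 0) (P.cons (P.lf 224474 0 0) P.nil)) (P.cons (P.cons (P.lf 101848 0 0) P.nil) P.nil))))))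 119012)
 EL.nil)
noncomputable def S372_401_512_660_38 : EL := (EL.cons 14 (TM.mk (P.cons (P.cons (P.lf 410718442 0 0) (P.cons (P.lf 0 88640918 0) (P.cons (P.lf 10708926 0 0) (P.cons (P.lf 1335930 0 0) (P.cons (P.lf 0 191788 0) (P.cons (P.lf 14250 0 0) P.nil)))))) (P.cons (P.cons (P.lf 438771452 0 0) (P.cons (P.lf 0 6938328 0) (P.cons (P.lf 0 3896670 0) (P.cons (P.lf 737700 0 0) (P.cons (P.lf 174864 0 0) P.nil))))) (P.cons (P.cons (P.lf 105999402 0 0) (P.cons (P.lf 17432276 0 0) (P.cons (P.lf 406790 0 0) (P.cons (P.lf 0 598730 0) P.nil)))) (P.cons (P.cons (P.lf 0 11877114 0) (P.cons (P.lf 0 2909724 0) (P.cons (P.lf 0 54692 0) P.nil))) (P.cons (P.cons (P.lf 0 2630896 0) (P.cons (P.lf 0 247434 0) P.nil)) (P.cons (P.cons (P.lf 340638 0 0) P.nil) P.nil)))))) 743700)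
 EL.nil)
noncomputable def S372_401_512_660_39 : EL := (EL.cons 14 (TM.mk (P.cons (P.lf 5087133062 0 0) (P.cons (P.lf 576125660 0 0) (P.cons (P.lf 0 45875746 0) (P.cons (P.lf 0 1877024 0) (P.cons (P.lf 381806 0 0) (P.cons (P.lf 0 14808 0) P.nil)))))) 2110)
 EL.nil)
noncomputable def S372_401_512_660_40 : EL := (EL.cons 14 (TM.mk (P.cons (P.cons (P.lf 1268029804 0 0) (P.cons (P.lf 0 136832578 0) (P.cons (P.lf 9148304 0 0) (P.lf 3049430 0 0)))) (P.cons (P.cons (P.lf 785024320 0 0) (P.cons (P.lf 50756394 0 0) (P.cons (P.lf 0 3393452 0) (P.lf 0 1131146 0)))) (P.cons (P.cons (P.lf 30162468 0 0) (P.cons (P.lf 0 1884878 0) (P.cons (P.lf 126018 0 0) (P.lf 42000 0 0)))) (P.cons (P.cons (P.lf 0 16009390 0) (P.cons (P.lf 0 1401972 0) (P.cons (P.lf 93734 0 0) P.nil))) (P.cons (P.cons (P.lf 82146 0 0) (P.cons (P.lf 179218 0 0) P.nil)) (P.cons (P.cons (P.lf 189342 0 0) P.nil) P.nil))))))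 140734)
 EL.nil)
noncomputable def S372_401_512_660_41 : EL := (EL.cons 14 (TM.mk (P.cons (P.cons (P.lf 316071854 0 0) (P.cons (P.lf 0 68214368 0) (P.cons (P.lf 8241144 0 0) (P.cons (P.lf 1028076 0 0) (P.cons (P.lf 0 147592 0) (P.cons (P.lf 10966 0 0) P.nil)))))) (P.cons (P.cons (P.lf 355558098 0 0) (P.cons (P.lf 0 9202140 0) (P.cons (P.lf 0 2532054 0) (P.cons (P.lf 625918 0 0) (P.cons (P.lf 126210 0 0) P.nil))))) (P.cons (P.cons (P.lf 98761104 0 0) (P.cons (P.lf 13529746 0 0) (P.cons (P.lf 92872 0 0) (P.cons (P.lf 0 434896 0) P.nil)))) (P.cons (P.cons (P.lf 0 6533790 0) (P.cons (P.lf 0 1457948 0) (P.cons (P.lf 0 4702 0) P.nil))) (P.cons (P.cons (P.lf 0 2983148 0) (P.cons (P.lf 0 400732 0) P.nil)) (P.cons (P.cons (P.lf 219498 0 0) P.nil) P.nil)))))) 691150)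
 EL.nil)
noncomputable def S372_401_512_660_42 : EL := (EL.cons 14 (TM.mk (P.cons (P.lf 3914846314 0 0) (P.cons (P.lf 665043568 0 0) (P.cons (P.lf 0 34126800 0) (P.cons (P.lf 0 5520806 0) (P.cons (P.lf 537424 0 0) (P.cons (P.lf 8682 0 0) P.nil)))))) 5662)
 EL.nil)
noncomputable def S372_401_512_660_43 : EL := (EL.cons 14 (TM.mk (P.cons (P.cons (P.lf 975823070 0 0) (P.cons (P.lf 0 105300668 0) (P.cons (P.lf 7040154 0 0) (P.lf 2346716 0 0)))) (P.cons (P.cons (P.lf 659378844 0 0) (P.cons (P.lf 33097280 0 0) (P.cons (P.lf 0 2212806 0) (P.lf 0 737598 0)))) (P.cons (P.cons (P.lf 51456202 0 0) (P.cons (P.lf 1404902 0 0) (P.cons (P.lf 0 93928 0) (P.lf 0 31312 0)))) (P.cons (P.cons (P.lf 0 14540598 0) (P.cons (P.lf 0 1416800 0) (P.cons (P.lf 94724 0 0) P.nil))) (P.cons (P.cons (P.lf 0 669196 0) (P.cons (P.lf 90984 0 0) P.nil)) (P.cons (P.cons (P.lf 233210 0 0) P.nil) P.nil))))))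 154234)
 EL.nil)
noncomputable def S372_401_512_660_44 : EL := (EL.cons 14 (TM.mk (P.cons (P.cons (P.lf 243235770 0 0) (P.cons (P.lf 0 52494944 0) (P.cons (P.lf 6342042 0 0) (P.cons (P.lf 791164 0 0) (P.cons (P.lf 0 113580 0) (P.cons (P.lf 8438 0 0) P.nil)))))) (P.cons (P.cons (P.lf 287396158 0 0) (P.cons (P.lf 0 10054150 0) (P.cons (P.lf 0 1589440 0) (P.cons (P.lf 526482 0 0) (P.cons (P.lf 90694 0 0) P.nil))))) (P.cons (P.cons (P.lf 90009828 0 0) (P.cons (P.lf 10331792 0 0) (P.cons (P.lf 0 77630 0) (P.cons (P.lf 0 312238 0) P.nil)))) (P.cons (P.cons (P.lf 0 2357570 0) (P.cons (P.lf 0 497592 0) (P.cons (P.lf 13362 0 0) P.nil))) (P.cons (P.cons (P.lf 0 2998392 0) (P.cons (P.lf 0 437212 0) P.nil)) (P.cons (P.cons (P.lf 84342 0 0) P.nil) P.nil)))))) 628510)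
 EL.nil)
noncomputable def S372_401_512_660_45 : EL := (EL.cons 14 (TM.mk (P.cons (P.cons (P.lf 133032866 0 0) (P.cons (P.lf 0 43066566 0) (P.cons (P.lf 7526624 0 0) (P.cons (P.lf 171198 0 0) (P.cons (P.lf 0 152836 0) (P.cons (P.lf 22782 0 0) P.nil)))))) (P.cons (P.cons (P.lf 201879340 0 0) (P.cons (P.lf 0 22717056 0) (P.cons (P.lf 0 630752 0) (P.cons (P.lf 1036514 0 0) (P.cons (P.lf 37498 0 0) P.nil))))) (P.cons (P.cons (P.lf 92347526 0 0) (P.cons (P.lf 8841852 0 0) (P.cons (P.lf 0 1170334 0) (P.cons (P.lf 0 276100 0) P.nil)))) (P.cons (P.cons (P.lf 5369166 0 0) (P.cons (P.lf 2532458 0 0) (P.cons (P.lf 461088 0 0) P.nil))) (P.cons (P.cons (P.lf 0 4043468 0) (P.cons (P.lf 0 1133444 0) P.nil)) (P.cons (P.cons (P.lf 0 77216 0) P.nil) P.nil)))))) 1273320)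
 EL.nil)
noncomputable def S372_401_512_660_46 : EL := (EL.cons 15 (TM.mk (P.lf 4294967296 0 0) 0)
 EL.nil)
noncomputable def S372_401_512_660_47 : EL := (EL.cons 15 (TM.mk (P.cons (P.cons (P.lf 1070572850 0 0) (P.cons (P.lf 0 115525080 0) (P.cons (P.lf 7723736 0 0) (P.lf 2574576 0 0)))) (P.cons (P.cons (P.lf 541536708 0 0) (P.cons (P.lf 55936028 0 0) (P.cons (P.lf 0 3739752 0) (P.lf 0 1246580 0)))) (P.cons (P.cons (P.lf 0 26209860 0) (P.cons (P.lf 0 8968012 0) (P.cons (P.lf 599580 0 0) (P.lf 199856 0 0)))) (P.cons (P.cons (P.lf 0 5269519 0) (P.cons (P.lf 293788 0 0) (P.cons (P.lf 0 19640 0) P.nil))) (P.cons (P.cons (P.lf 549239 0 0) (P.cons (P.lf 66476 0 0) P.nil)) (P.cons (P.cons (P.lf 2938 0 0) P.nil) P.nil)))))) 34749)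
 EL.nil)
noncomputable def S372_401_512_660_48 : EL := (EL.cons 15 (TM.mk (P.cons (P.cons (P.lf 266853307 0 0) (P.cons (P.lf 0 57592063 0) (P.cons (P.lf 6957838 0 0) (P.cons (P.lf 867986 0 0) (P.cons (P.lf 0 124610 0) (P.cons (P.lf 9259 0 0) P.nil)))))) (P.cons (P.cons (P.lf 269969225 0 0) (P.cons (P.lf 0 1246798 0) (P.cons (P.lf 0 2925751 0) (P.cons (P.lf 430151 0 0) (P.cons (P.lf 120670 0 0) P.nil))))) (P.cons (P.cons (P.lf 55214128 0 0) (P.cons (P.lf 11044739 0 0) (P.cons (P.lf 472503 0 0) (P.cons (P.lf 0 408062 0) P.nil)))) (P.cons (P.cons (P.lf 0 9236394 0) (P.cons (P.lf 0 2514245 0) (P.cons (P.lf 0 81299 0) P.nil))) (P.cons (P.cons (P.lf 0 895075 0) (P.cons (P.lf 49875 0 0) P.nil)) (P.cons (P.cons (P.lf 204281 0 0) P.nil) P.nil)))))) 371748)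
 EL.nil)
noncomputable def S372_401_512_660 : SL := (SL.cons S372_401_512_660_0 (SL.cons S372_401_512_660_1 (SL.cons S372_401_512_660_2 (SL.cons S372_401_512_660_3 (SL.cons S372_401_512_660_4 (SL.cons S372_401_512_660_5 (SL.cons S372_401_512_660_6 (SL.cons S372_401_512_660_7 (SL.cons S372_401_512_660_8 (SL.cons S372_401_512_660_9 (SL.cons S372_401_512_660_10 (SL.cons S372_401_512_660_11 (SL.cons S372_401_512_660_12 (SL.cons S372_401_512_660_13 (SL.cons S372_401_512_660_14 (SL.cons S372_401_512_660_15 (SL.cons S372_401_512_660_16 (SL.cons S372_401_512_660_17 (SL.cons S372_401_512_660_18 (SL.cons S372_401_512_660_19 (SL.cons S372_401_512_660_20 (SL.cons S372_401_512_660_21 (SL.cons S372_401_512_660_22 (SL.cons S372_401_512_660_23 (SL.cons S372_401_512_660_24 (SL.cons S372_401_512_660_25 (SL.cons S372_401_512_660_26 (SL.cons S372_401_512_660_27 (SL.cons S372_401_512_660_28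 (SL.cons S372_401_512_660_29 (SL.cons S372_401_512_660_30 (SL.cons S372_401_512_660_31 (SL.cons S372_401_512_660_32 (SL.cons S372_401_512_660_33 (SL.cons S372_401_512_660_34 (SL.cons S372_401_512_660_35 (SL.cons S372_401_512_660_36 (SL.cons S372_401_512_660_37 (SL.cons S372_401_512_660_38 (SL.cons S372_401_512_660_39 (SL.cons S372_401_512_660_40 (SL.cons S372_401_512_660_41 (SL.cons S372_401_512_660_42 (SL.cons S372_401_512_660_43 (SL.cons S372_401_512_660_44 (SL.cons S372_401_512_660_45 (SL.cons S372_401_512_660_46 (SL.cons S372_401_512_660_47 (SL.cons S372_401_512_660_48 SL.nil)))))))))))))))))))))))))))))))))))))))))))))))))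
noncomputable def S372_401_586_660_0 : EL := (EL.cons 0 (TM.mk (P.cons (P.lf 3984603821 0 0) (P.cons (P.lf 0 506360443 0) (P.cons (P.lf 40320479 0 0) (P.cons (P.lf 1649728 0 0) (P.cons (P.lf 0 335571 0) (P.cons (P.lf 13014 0 0) P.nil)))))) 1861)
 (EL.cons 1 (TM.mk (P.cons (P.lf 1579171841 0 0) (P.cons (P.lf 0 165450982 0) (P.cons (P.lf 0 24357408 0) (P.cons (P.lf 2583976 0 0) (P.cons (P.lf 0 21706 0) (P.cons (P.lf 0 11396 0) P.nil)))))) 1057)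
 (EL.cons 5 (TM.mk (P.cons (P.lf 5884696382 0 0) (P.cons (P.lf 180039266 0 0) (P.cons (P.lf 0 14336174 0) (P.cons (P.lf 0 586566 0) (P.cons (P.lf 119316 0 0) (P.cons (P.lf 0 4630 0) P.nil)))))) 385)
 (EL.cons 9 (TM.mk (P.lf 6442450944 0 0) 2)
 EL.nil))))
noncomputable def S372_401_586_660_1 : EL := (EL.cons 0 (TM.mk (P.cons (P.cons (P.lf 4607999119 0 0) (P.cons (P.lf 116208569 0 0) (P.cons (P.lf 0 6358455 0) (P.lf 0 706487 0)))) (P.cons (P.cons (P.lf 0 170390388 0) (P.cons (P.lf 0 31303513 0) (P.cons (P.lf 1712784 0 0) (P.lf 190300 0 0)))) (P.cons (P.cons (P.lf 0 231615768 0) (P.cons (P.lf 0 5053766 0) (P.cons (P.lf 276533 0 0) (P.lf 30735 0 0)))) (P.cons (P.cons (P.lf 33434618 0 0) (P.cons (P.lf 2523471 0 0) (P.cons (P.lf 0 138068 0) P.nil))) (P.cons (P.cons (P.lf 1935898 0 0) (P.cons (P.lf 0 228716 0) P.nil)) (P.cons (P.cons (P.lf 0 651097 0) P.nil) P.nil)))))) 230366)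
 (EL.cons 1 (TM.mk (P.cons (P.cons (P.lf 1571160572 0 0) (P.cons (P.lf 34553903 0 0) (P.cons (P.lf 0 1890656 0) (P.lf 0 210078 0)))) (P.cons (P.cons (P.lf 524511980 0 0) (P.cons (P.lf 15933211 0 0) (P.cons (P.lf 0 871793 0) (P.lf 0 96862 0)))) (P.cons (P.cons (P.lf 0 130075550 0) (P.cons (P.lf 0 8644579 0) (P.cons (P.lf 472986 0 0) (P.lf 52545 0 0)))) (P.cons (P.cons (P.lf 0 12674410 0) (P.cons (P.lf 644117 0 0) (P.cons (P.lf 0 35236 0) P.nil))) (P.cons (P.cons (P.lf 3384603 0 0) (P.cons (P.lf 140226 0 0) P.nil)) (P.cons (P.cons (P.lf 0 53164 0) P.nil) P.nil)))))) 107951)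
 (EL.cons 5 (TM.mk (P.cons (P.cons (P.lf 87207529 0 0) (P.cons (P.lf 0 131308452 0) (P.cons (P.lf 7184666 0 0) (P.lf 798294 0 0)))) (P.cons (P.cons (P.lf 1026886996 0 0) (P.cons (P.lf 54702278 0 0) (P.cons (P.lf 0 2993084 0) (P.lf 0 332564 0)))) (P.cons (P.cons (P.lf 30469984 0 0) (P.cons (P.lf 0 5188868 0) (P.cons (P.lf 283912 0 0) (P.lf 31542 0 0)))) (P.cons (P.cons (P.lf 0 20606064 0) (P.cons (P.lf 0 668384 0) (P.cons (P.lf 36566 0 0) P.nil))) (P.cons (P.cons (P.lf 299712 0 0) (P.cons (P.lf 133102 0 0) P.nil)) (P.cons (P.cons (P.lf 230454 0 0) P.nil) P.nil)))))) 69238)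
 (EL.cons 9 (TM.mk (P.cons (P.cons (P.lf 1522594599 0 0) (P.cons (P.lf 0 79402806 0) (P.cons (P.lf 4344600 0 0) (P.lf 482730 0 0)))) (P.cons (P.cons (P.lf 852620946 0 0) (P.cons (P.lf 38446002 0 0) (P.cons (P.lf 0 2103606 0) (P.lf 0 233730 0)))) (P.cons (P.cons (P.lf 0 45778482 0) (P.cons (P.lf 0 6163902 0) (P.cons (P.lf 337260 0 0) (P.lf 37470 0 0)))) (P.cons (P.cons (P.lf 0 7692526 0) (P.cons (P.lf 201924 0 0) (P.cons (P.lf 0 11046 0) P.nil))) (P.cons (P.cons (P.lf 871774 0 0) (P.cons (P.lf 45684 0 0) P.nil)) (P.cons (P.cons (P.lf 0 919 0) P.nil) P.nil)))))) 19778)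
 (EL.cons 2 (TM.mk (P.cons (P.cons (P.lf 0 506303766 0) (P.cons (P.lf 63528955 0 0) (P.cons (P.lf 9699224 0 0) (P.cons (P.lf 0 296308 0) (P.lf 0 24690 0))))) (P.cons (P.cons (P.lf 134761466 0 0) (P.cons (P.lf 0 16909323 0) (P.cons (P.lf 0 2581613 0) (P.cons (P.lf 78865 0 0) (P.lf 6570 0 0))))) (P.cons (P.cons (P.lf 0 664638 0) (P.cons (P.lf 83393 0 0) (P.cons (P.lf 12729 0 0) (P.cons (P.lf 0 385 0) P.nil)))) (P.cons (P.cons (P.lf 0 2350127 0) (P.cons (P.lf 294882 0 0) (P.cons (P.lf 45016 0 0) P.nil))) (P.cons (P.cons (P.lf 179204 0 0) (P.cons (P.lf 0 22485 0) P.nil)) (P.cons (P.cons (P.lf 5180 0 0) P.nil) P.nil)))))) 12404)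
 (EL.cons 6 (TM.mk (P.cons (P.cons (P.lf 178823625 0 0) (P.cons (P.lf 0 22438065 0) (P.cons (P.lf 0 3425709 0) (P.cons (P.lf 104652 0 0) (P.lf 8718 0 0))))) (P.cons (P.cons (P.lf 0 86584521 0) (P.cons (P.lf 10864275 0 0) (P.cons (P.lf 1658691 0 0) (P.cons (P.lf 0 50670 0) (P.lf 0 4221 0))))) (P.cons (P.cons (P.lf 13881774 0 0) (P.cons (P.lf 0 1741827 0) (P.cons (P.lf 0 265929 0) (P.cons (P.lf 8121 0 0) P.nil)))) (P.cons (P.cons (P.lf 0 454761 0) (P.cons (P.lf 57060 0 0) (P.cons (P.lf 8712 0 0) P.nil))) (P.cons (P.cons (P.lf 0 102900 0) (P.cons (P.lf 12909 0 0) P.nil)) (P.cons (P.cons (P.lf 11439 0 0) P.nil) P.nil)))))) 5901)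
 EL.nil))))))
noncomputable def S372_401_586_660_2 : EL := (EL.cons 0 (TM.mk (P.cons (P.cons (P.lf 1955526388 0 0) (P.cons (P.lf 0 35444543 0) (P.cons (P.lf 0 1530409 0) (P.cons (P.lf 595188 0 0) (P.cons (P.lf 31790 0 0) (P.cons (P.lf 0 2297 0) P.nil)))))) (P.cons (P.cons (P.lf 918167137 0 0) (P.cons (P.lf 73969587 0 0) (P.cons (P.lf 0 1225652 0) (P.cons (P.lf 0 758470 0) (P.cons (P.lf 0 25849 0) P.nil))))) (P.cons (P.cons (P.lf 0 247049522 0) (P.cons (P.lf 0 22646344 0) (P.cons (P.lf 451209 0 0) (P.cons (P.lf 223884 0 0) P.nil)))) (P.cons (P.cons (P.lf 0 39788095 0) (P.cons (P.lf 0 1093542 0) (P.cons (P.lf 88732 0 0) P.nil))) (P.cons (P.cons (P.lf 13620269 0 0) (P.cons (P.lf 1354011 0 0) P.nil)) (P.cons (P.cons (P.lf 18549 0 0) P.nil) P.nil)))))) 1200240)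
 (EL.cons 1 (TM.mk (P.cons (P.cons (P.lf 654443719 0 0) (P.cons (P.lf 0 13196352 0) (P.cons (P.lf 0 369583 0) (P.cons (P.lf 199682 0 0) (P.cons (P.lf 10007 0 0) (P.cons (P.lf 0 729 0) P.nil)))))) (P.cons (P.cons (P.lf 574246842 0 0) (P.cons (P.lf 22233613 0 0) (P.cons (P.lf 0 939434 0) (P.cons (P.lf 0 165495 0) (P.cons (P.lf 0 2542 0) P.nil))))) (P.cons (P.cons (P.lf 44375371 0 0) (P.cons (P.lf 3828458 0 0) (P.cons (P.lf 13537 0 0) (P.cons (P.lf 0 47680 0) P.nil)))) (P.cons (P.cons (P.lf 0 44043590 0) (P.cons (P.lf 0 3754071 0) (P.cons (P.lf 83097 0 0) P.nil))) (P.cons (P.cons (P.lf 0 635569 0) (P.cons (P.lf 372327 0 0) P.nil)) (P.cons (P.cons (P.lf 1292237 0 0) P.nil) P.nil)))))) 515034)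
 (EL.cons 5 (TM.mk (P.cons (P.cons (P.lf 0 287472081 0) (P.cons (P.lf 0 29933501 0) (P.cons (P.lf 3980664 0 0) (P.cons (P.lf 0 74394 0) (P.cons (P.lf 0 21464 0) (P.cons (P.lf 1555 0 0) P.nil)))))) (P.cons (P.cons (P.lf 130288756 0 0) (P.cons (P.lf 0 29524071 0) (P.cons (P.lf 0 461870 0) (P.cons (P.lf 406806 0 0) (P.cons (P.lf 19035 0 0) P.nil))))) (P.cons (P.cons (P.lf 191201018 0 0) (P.cons (P.lf 17561965 0 0) (P.cons (P.lf 0 248550 0) (P.cons (P.lf 0 184712 0) P.nil)))) (P.cons (P.cons (P.lf 0 3706640 0) (P.cons (P.lf 0 1756380 0) (P.cons (P.lf 0 3186 0) P.nil))) (P.cons (P.cons (P.lf 0 6314686 0) (P.cons (P.lf 0 425505 0) P.nil)) (P.cons (P.cons (P.lf 378322 0 0) P.nil) P.nil)))))) 471705)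
 (EL.cons 9 (TM.mk (P.cons (P.cons (P.lf 359846637 0 0) (P.cons (P.lf 0 37531765 0) (P.cons (P.lf 3032220 0 0) (P.cons (P.lf 121080 0 0) (P.cons (P.lf 0 8968 0) (P.cons (P.lf 651 0 0) P.nil)))))) (P.cons (P.cons (P.lf 403013094 0 0) (P.cons (P.lf 0 2844513 0) (P.cons (P.lf 0 792046 0) (P.cons (P.lf 121000 0 0) (P.cons (P.lf 8685 0 0) P.nil))))) (P.cons (P.cons (P.lf 91201056 0 0) (P.cons (P.lf 8391117 0 0) (P.cons (P.lf 0 77758 0) (P.cons (P.lf 0 92748 0) P.nil)))) (P.cons (P.cons (P.lf 0 15753100 0) (P.cons (P.lf 0 1892824 0) (P.cons (P.lf 25021 0 0) P.nil))) (P.cons (P.cons (P.lf 0 1298764 0) (P.cons (P.lf 49336 0 0) P.nil)) (P.cons (P.cons (P.lf 339636 0 0) P.nil) P.nil)))))) 142441)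
 (EL.cons 2 (TM.mk (P.cons (P.cons (P.lf 0 239317419 0) (P.cons (P.lf 42508906 0 0) (P.cons (P.lf 2335730 0 0) (P.cons (P.lf 0 369331 0) (P.cons (P.lf 18230 0 0) (P.cons (P.lf 1659 0 0) P.nil)))))) (P.cons (P.cons (P.lf 0 70314266 0) (P.cons (P.lf 0 541940 0) (P.cons (P.lf 3034445 0 0) (P.cons (P.lf 130882 0 0) (P.cons (P.lf 0 25869 0) P.nil))))) (P.cons (P.cons (P.lf 42550970 0 0) (P.cons (P.lf 0 2745506 0) (P.cons (P.lf 0 1282488 0) (P.cons (P.lf 0 22741 0) P.nil)))) (P.cons (P.cons (P.lf 0 1992841 0) (P.cons (P.lf 10440 0 0) (P.cons (P.lf 81348 0 0) P.nil))) (P.cons (P.cons (P.lf 0 986743 0) (P.cons (P.lf 93881 0 0) P.nil)) (P.cons (P.cons (P.lf 121483 0 0) P.nil) P.nil)))))) 122174)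
 (EL.cons 6 (TM.mk (P.cons (P.cons (P.lf 84525558 0 0) (P.cons (P.lf 0 15013902 0) (P.cons (P.lf 0 824964 0) (P.cons (P.lf 130440 0 0) (P.cons (P.lf 0 6438 0) (P.cons (P.lf 0 582 0) P.nil)))))) (P.cons (P.cons (P.lf 6406146 0 0) (P.cons (P.lf 3464772 0 0) (P.cons (P.lf 0 891882 0) (P.cons (P.lf 0 74664 0) (P.cons (P.lf 10536 0 0) P.nil))))) (P.cons (P.cons (P.lf 0 18897690 0) (P.cons (P.lf 653430 0 0) (P.cons (P.lf 671544 0 0) (P.cons (P.lf 20496 0 0) P.nil)))) (P.cons (P.cons (P.lf 4262838 0 0) (P.cons (P.lf 0 181098 0) (P.cons (P.lf 0 145410 0) P.nil))) (P.cons (P.cons (P.lf 0 111120 0) (P.cons (P.lf 0 18396 0) P.nil)) (P.cons (P.cons (P.lf 0 72000 0) P.nil) P.nil)))))) 69240)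
 EL.nil))))))
noncomputable def S372_401_586_660_3 : EL := (EL.cons 0 (TM.mk (P.cons (P.lf 4471113042 0 0) (P.cons (P.lf 506360443 0 0) (P.cons (P.lf 0 40320479 0) (P.cons (P.lf 0 1649728 0) (P.cons (P.lf 335571 0 0) (P.cons (P.lf 0 13014 0) P.nil)))))) 1861)
 (EL.cons 1 (TM.mk (P.cons (P.lf 0 1579171841 0) (P.cons (P.lf 165450982 0 0) (P.cons (P.lf 24357408 0 0) (P.cons (P.lf 0 2583976 0) (P.cons (P.lf 21706 0 0) (P.cons (P.lf 11396 0 0) P.nil)))))) 1057)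
 (EL.cons 5 (TM.mk (P.cons (P.lf 557754562 0 0) (P.cons (P.lf 0 180039266 0) (P.cons (P.lf 14336174 0 0) (P.cons (P.lf 586566 0 0) (P.cons (P.lf 0 119316 0) (P.cons (P.lf 4630 0 0) P.nil)))))) 378)
 EL.nil)))
noncomputable def S372_401_586_660_4 : EL := (EL.cons 0 (TM.mk (P.cons (P.cons (P.lf 1056692961 0 0) (P.cons (P.lf 0 55106187 0) (P.cons (P.lf 3015186 0 0) (P.lf 335017 0 0)))) (P.cons (P.cons (P.lf 711397935 0 0) (P.cons (P.lf 20440974 0 0) (P.cons (P.lf 0 1118443 0) (P.lf 0 124268 0)))) (P.cons (P.cons (P.lf 25713972 0 0) (P.cons (P.lf 0 759090 0) (P.cons (P.lf 41531 0 0) (P.lf 4612 0 0)))) (P.cons (P.cons (P.lf 0 14662822 0) (P.cons (P.lf 0 564612 0) (P.cons (P.lf 30893 0 0) P.nil))) (P.cons (P.cons (P.lf 147888 0 0) (P.cons (P.lf 72170 0 0) P.nil)) (P.cons (P.cons (P.lf 169082 0 0) P.nil) P.nil)))))) 46864)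
 (EL.cons 1 (TM.mk (P.cons (P.cons (P.lf 0 373217977 0) (P.cons (P.lf 19463193 0 0) (P.cons (P.lf 0 1064945 0) (P.lf 0 118325 0)))) (P.cons (P.cons (P.lf 0 169891895 0) (P.cons (P.lf 0 11463045 0) (P.cons (P.lf 627210 0 0) (P.lf 69688 0 0)))) (P.cons (P.cons (P.lf 38874260 0 0) (P.cons (P.lf 2198034 0 0) (P.cons (P.lf 0 120266 0) (P.lf 0 13361 0)))) (P.cons (P.cons (P.lf 3322803 0 0) (P.cons (P.lf 0 30588 0) (P.cons (P.lf 1672 0 0) P.nil))) (P.cons (P.cons (P.lf 0 921165 0) (P.cons (P.lf 0 45003 0) P.nil)) (P.cons (P.cons (P.lf 17456 0 0) P.nil) P.nil)))))) 24943)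
 (EL.cons 5 (TM.mk (P.cons (P.cons (P.lf 131818478 0 0) (P.cons (P.lf 0 6874290 0) (P.cons (P.lf 376132 0 0) (P.lf 41790 0 0)))) (P.cons (P.cons (P.lf 31265492 0 0) (P.cons (P.lf 5547430 0 0) (P.cons (P.lf 0 303532 0) (P.lf 0 33724 0)))) (P.cons (P.cons (P.lf 0 24402238 0) (P.cons (P.lf 0 1784734 0) (P.cons (P.lf 97652 0 0) (P.lf 10848 0 0)))) (P.cons (P.cons (P.lf 2649272 0 0) (P.cons (P.lf 268058 0 0) (P.cons (P.lf 0 14666 0) P.nil))) (P.cons (P.cons (P.lf 238006 0 0) (P.cons (P.lf 0 10432 0) P.nil)) (P.cons (P.cons (P.lf 0 60422 0) P.nil) P.nil)))))) 11810)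
 EL.nil)))
noncomputable def S372_401_586_660_5 : EL := (EL.cons 0 (TM.mk (P.cons (P.cons (P.lf 249736475 0 0) (P.cons (P.lf 0 26047348 0) (P.cons (P.lf 2104384 0 0) (P.cons (P.lf 84030 0 0) (P.cons (P.lf 0 6222 0) (P.cons (P.lf 451 0 0) P.nil)))))) (P.cons (P.cons (P.lf 307977386 0 0) (P.cons (P.lf 0 4924016 0) (P.cons (P.lf 0 311361 0) (P.cons (P.lf 93491 0 0) (P.cons (P.lf 5320 0 0) P.nil))))) (P.cons (P.cons (P.lf 92717963 0 0) (P.cons (P.lf 5834824 0 0) (P.cons (P.lf 0 135195 0) (P.cons (P.lf 0 55613 0) P.nil)))) (P.cons (P.cons (P.lf 0 6379033 0) (P.cons (P.lf 0 626700 0) (P.cons (P.lf 15433 0 0) P.nil))) (P.cons (P.cons (P.lf 0 2794749 0) (P.cons (P.lf 0 168273 0) P.nil)) (P.cons (P.cons (P.lf 229132 0 0) P.nil) P.nil)))))) 191491)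
 (EL.cons 1 (TM.mk (P.cons (P.cons (P.lf 0 88205508 0) (P.cons (P.lf 9199775 0 0) (P.cons (P.lf 0 743255 0) (P.cons (P.lf 0 29677 0) (P.cons (P.lf 2197 0 0) (P.cons (P.lf 0 157 0) P.nil)))))) (P.cons (P.cons (P.lf 0 89545104 0) (P.cons (P.lf 0 266621 0) (P.cons (P.lf 272017 0 0) (P.cons (P.lf 0 26548 0) (P.cons (P.lf 0 2358 0) P.nil))))) (P.cons (P.cons (P.lf 0 10644751 0) (P.cons (P.lf 0 2271776 0) (P.cons (P.lf 10183 0 0) (P.cons (P.lf 26298 0 0) P.nil)))) (P.cons (P.cons (P.lf 7582931 0 0) (P.cons (P.lf 683761 0 0) (P.cons (P.lf 0 12339 0) P.nil))) (P.cons (P.cons (P.lf 98169 0 0) (P.cons (P.lf 0 27963 0) P.nil)) (P.cons (P.cons (P.lf 0 210748 0) P.nil) P.nil)))))) 88942)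
 (EL.cons 5 (TM.mk (P.cons (P.cons (P.lf 31153686 0 0) (P.cons (P.lf 0 3249308 0) (P.cons (P.lf 262512 0 0) (P.cons (P.lf 10482 0 0) (P.cons (P.lf 0 776 0) (P.cons (P.lf 56 0 0) P.nil)))))) (P.cons (P.cons (P.lf 24834626 0 0) (P.cons (P.lf 802590 0 0) (P.cons (P.lf 0 153308 0) (P.cons (P.lf 7090 0 0) (P.cons (P.lf 1002 0 0) P.nil))))) (P.cons (P.cons (P.lf 0 2566034 0) (P.cons (P.lf 722432 0 0) (P.cons (P.lf 22148 0 0) (P.cons (P.lf 0 11140 0) P.nil)))) (P.cons (P.cons (P.lf 0 2982932 0) (P.cons (P.lf 0 408112 0) (P.cons (P.lf 2852 0 0) P.nil))) (P.cons (P.cons (P.lf 560766 0 0) (P.cons (P.lf 76274 0 0) P.nil)) (P.cons (P.cons (P.lf 31742 0 0) P.nil) P.nil)))))) 44648)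
 EL.nil)))
noncomputable def S372_401_586_660_6 : EL := (EL.cons 12 (TM.mk (P.lf 8589934592 0 0) 0)
 (EL.cons 3 (TM.mk (P.cons (P.lf 3098651666 0 0) (P.cons (P.lf 175463538 0 0) (P.cons (P.lf 0 18939693 0) (P.cons (P.lf 500812 0 0) (P.cons (P.lf 30041 0 0) (P.cons (P.lf 0 3150 0) P.nil)))))) 205)
 (EL.cons 7 (TM.mk (P.cons (P.lf 0 1094426245 0) (P.cons (P.lf 176636564 0 0) (P.cons (P.lf 189038 0 0) (P.cons (P.lf 0 544971 0) (P.cons (P.lf 29121 0 0) (P.cons (P.lf 63 0 0) P.nil)))))) 165)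
 EL.nil)))
noncomputable def S372_401_586_660_7 : EL := (EL.cons 12 (TM.mk (P.cons (P.cons (P.lf 2030126132 0 0) (P.cons (P.lf 0 105870408 0) (P.cons (P.lf 5792800 0 0) (P.lf 643640 0 0)))) (P.cons (P.cons (P.lf 1136827928 0 0) (P.cons (P.lf 51261336 0 0) (P.cons (P.lf 0 2804808 0) (P.lf 0 311640 0)))) (P.cons (P.cons (P.lf 0 61037976 0) (P.cons (P.lf 0 8218536 0) (P.cons (P.lf 449680 0 0) (P.lf 49960 0 0)))) (P.cons (P.cons (P.lf 0 10256702 0) (P.cons (P.lf 269232 0 0) (P.cons (P.lf 0 14728 0) P.nil))) (P.cons (P.cons (P.lf 1162366 0 0) (P.cons (P.lf 60912 0 0) P.nil)) (P.cons (P.cons (P.lf 0 1226 0) P.nil) P.nil)))))) 26346)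
 (EL.cons 3 (TM.mk (P.cons (P.cons (P.lf 3273204811 0 0) (P.cons (P.lf 76381376 0 0) (P.cons (P.lf 0 4179278 0) (P.lf 0 464360 0)))) (P.cons (P.cons (P.lf 0 92937706 0) (P.cons (P.lf 0 32657902 0) (P.cons (P.lf 1786902 0 0) (P.lf 198540 0 0)))) (P.cons (P.cons (P.lf 0 57967076 0) (P.cons (P.lf 3368296 0 0) (P.cons (P.lf 0 184294 0) (P.lf 0 20472 0)))) (P.cons (P.cons (P.lf 12030244 0 0) (P.cons (P.lf 379906 0 0) (P.cons (P.lf 0 20788 0) P.nil))) (P.cons (P.cons (P.lf 0 298584 0) (P.cons (P.lf 0 96420 0) P.nil)) (P.cons (P.cons (P.lf 0 112003 0) P.nil) P.nil)))))) 84032)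
 (EL.cons 7 (TM.mk (P.cons (P.cons (P.lf 2299208586 0 0) (P.cons (P.lf 128826753 0 0) (P.cons (P.lf 0 7048884 0) (P.lf 0 783212 0)))) (P.cons (P.cons (P.lf 0 93559031 0) (P.cons (P.lf 0 32876234 0) (P.cons (P.lf 1798858 0 0) (P.lf 199874 0 0)))) (P.cons (P.cons (P.lf 0 68553572 0) (P.cons (P.lf 0 193054 0) (P.cons (P.lf 10562 0 0) (P.lf 1173 0 0)))) (P.cons (P.cons (P.lf 2716787 0 0) (P.cons (P.lf 554763 0 0) (P.cons (P.lf 0 30352 0) P.nil))) (P.cons (P.cons (P.lf 722880 0 0) (P.cons (P.lf 0 21295 0) P.nil)) (P.cons (P.cons (P.lf 0 67961 0) P.nil) P.nil)))))) 40536)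
 (EL.cons 10 (TM.mk (P.cons (P.cons (P.lf 0 701775597 0) (P.cons (P.lf 88055973 0 0) (P.cons (P.lf 13443867 0 0) (P.cons (P.lf 0 410706 0) (P.lf 0 34224 0))))) (P.cons (P.cons (P.lf 226528245 0 0) (P.cons (P.lf 0 28423851 0) (P.cons (P.lf 0 4339584 0) (P.cons (P.lf 132573 0 0) (P.lf 11046 0 0))))) (P.cons (P.cons (P.lf 0 18037998 0) (P.cons (P.lf 2263335 0 0) (P.cons (P.lf 345552 0 0) (P.cons (P.lf 0 10554 0) P.nil)))) (P.cons (P.cons (P.lf 0 738024 0) (P.cons (P.lf 92604 0 0) (P.cons (P.lf 14136 0 0) P.nil))) (P.cons (P.cons (P.lf 150123 0 0) (P.cons (P.lf 0 18837 0) P.nil)) (P.cons (P.cons (P.lf 0 5823 0) P.nil) P.nil)))))) 5808)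
 EL.nil))))
noncomputable def S372_401_586_660_8 : EL := (EL.cons 12 (TM.mk (P.cons (P.cons (P.lf 479795516 0 0) (P.cons (P.lf 0 50042354 0) (P.cons (P.lf 4042960 0 0) (P.cons (P.lf 161440 0 0) (P.cons (P.lf 0 11958 0) (P.cons (P.lf 868 0 0) P.nil)))))) (P.cons (P.cons (P.lf 537350792 0 0) (P.cons (P.lf 0 3792684 0) (P.cons (P.lf 0 1056062 0) (P.cons (P.lf 161334 0 0) (P.cons (P.lf 11580 0 0) P.nil))))) (P.cons (P.cons (P.lf 121601408 0 0) (P.cons (P.lf 11188156 0 0) (P.cons (P.lf 0 103678 0) (P.cons (P.lf 0 123664 0) P.nil)))) (P.cons (P.cons (P.lf 0 21004134 0) (P.cons (P.lf 0 2523766 0) (P.cons (P.lf 33362 0 0) P.nil))) (P.cons (P.cons (P.lf 0 1731686 0) (P.cons (P.lf 65782 0 0) P.nil)) (P.cons (P.cons (P.lf 452848 0 0) P.nil) P.nil)))))) 189892)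
 (EL.cons 3 (TM.mk (P.cons (P.cons (P.lf 1374087068 0 0) (P.cons (P.lf 0 26528670 0) (P.cons (P.lf 0 901945 0) (P.cons (P.lf 418823 0 0) (P.cons (P.lf 21571 0 0) (P.cons (P.lf 0 1566 0) P.nil)))))) (P.cons (P.cons (P.lf 618810438 0 0) (P.cons (P.lf 48528295 0 0) (P.cons (P.lf 0 509467 0) (P.cons (P.lf 0 529847 0) (P.cons (P.lf 0 19666 0) P.nil))))) (P.cons (P.cons (P.lf 0 152300068 0) (P.cons (P.lf 0 18150042 0) (P.cons (P.lf 219389 0 0) (P.cons (P.lf 195007 0 0) P.nil)))) (P.cons (P.cons (P.lf 0 9902934 0) (P.cons (P.lf 1423877 0 0) (P.cons (P.lf 44736 0 0) P.nil))) (P.cons (P.cons (P.lf 6263538 0 0) (P.cons (P.lf 461116 0 0) P.nil)) (P.cons (P.cons (P.lf 0 373683 0) P.nil) P.nil)))))) 587639)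
 (EL.cons 7 (TM.mk (P.cons (P.cons (P.lf 1147909515 0 0) (P.cons (P.lf 0 2157741 0) (P.cons (P.lf 0 2891255 0) (P.cons (P.lf 342426 0 0) (P.cons (P.lf 27575 0 0) (P.cons (P.lf 0 2000 0) P.nil)))))) (P.cons (P.cons (P.lf 622947372 0 0) (P.cons (P.lf 48852716 0 0) (P.cons (P.lf 0 512874 0) (P.cons (P.lf 0 533385 0) (P.cons (P.lf 0 19793 0) P.nil))))) (P.cons (P.cons (P.lf 0 85410032 0) (P.cons (P.lf 0 12945885 0) (P.cons (P.lf 164941 0 0) (P.cons (P.lf 138164 0 0) P.nil)))) (P.cons (P.cons (P.lf 0 26180234 0) (P.cons (P.lf 0 746019 0) (P.cons (P.lf 72136 0 0) P.nil))) (P.cons (P.cons (P.lf 3121774 0 0) (P.cons (P.lf 485380 0 0) P.nil)) (P.cons (P.cons (P.lf 357993 0 0) P.nil) P.nil)))))) 328949)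
 (EL.cons 10 (TM.mk (P.cons (P.cons (P.lf 0 331712178 0) (P.cons (P.lf 58920588 0 0) (P.cons (P.lf 3237504 0 0) (P.cons (P.lf 0 511920 0) (P.cons (P.lf 25272 0 0) (P.cons (P.lf 2304 0 0) P.nil)))))) (P.cons (P.cons (P.lf 0 78677472 0) (P.cons (P.lf 0 4087596 0) (P.cons (P.lf 4022646 0 0) (P.cons (P.lf 210402 0 0) (P.cons (P.lf 0 37284 0) P.nil))))) (P.cons (P.cons (P.lf 61406562 0 0) (P.cons (P.lf 0 3213882 0) (P.cons (P.lf 0 1985628 0) (P.cons (P.lf 0 46566 0) P.nil)))) (P.cons (P.cons (P.lf 0 6666708 0) (P.cons (P.lf 161952 0 0) (P.cons (P.lf 249258 0 0) P.nil))) (P.cons (P.cons (P.lf 0 598926 0) (P.cons (P.lf 101400 0 0) P.nil)) (P.cons (P.cons (P.lf 152052 0 0) P.nil) P.nil)))))) 141300)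
 EL.nil))))
noncomputable def S372_401_586_660_9 : EL := (EL.cons 3 (TM.mk (P.cons (P.lf 3098651666 0 0) (P.cons (P.lf 175463538 0 0) (P.cons (P.lf 0 18939693 0) (P.cons (P.lf 500812 0 0) (P.cons (P.lf 30041 0 0) (P.cons (P.lf 0 3150 0) P.nil)))))) 205)
 (EL.cons 7 (TM.mk (P.cons (P.lf 0 1094426245 0) (P.cons (P.lf 176636564 0 0) (P.cons (P.lf 189038 0 0) (P.cons (P.lf 0 544971 0) (P.cons (P.lf 29121 0 0) (P.cons (P.lf 63 0 0) P.nil)))))) 165)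
 EL.nil))
noncomputable def S372_401_586_660_10 : EL := (EL.cons 3 (TM.mk (P.cons (P.cons (P.lf 732328477 0 0) (P.cons (P.lf 0 38190688 0) (P.cons (P.lf 2089639 0 0) (P.lf 232180 0 0)))) (P.cons (P.cons (P.lf 451557206 0 0) (P.cons (P.lf 16328951 0 0) (P.cons (P.lf 0 893451 0) (P.lf 0 99270 0)))) (P.cons (P.cons (P.lf 0 3272846 0) (P.cons (P.lf 0 1684148 0) (P.cons (P.lf 92147 0 0) (P.lf 10236 0 0)))) (P.cons (P.cons (P.lf 0 7334903 0) (P.cons (P.lf 0 189953 0) (P.cons (P.lf 10394 0 0) P.nil))) (P.cons (P.cons (P.lf 417750 0 0) (P.cons (P.lf 48210 0 0) P.nil)) (P.cons (P.cons (P.lf 45587 0 0) P.nil) P.nil)))))) 20341)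
 (EL.cons 7 (TM.mk (P.cons (P.cons (P.lf 0 258654276 0) (P.cons (P.lf 13488735 0 0) (P.cons (P.lf 0 738048 0) (P.lf 0 82004 0)))) (P.cons (P.cons (P.lf 0 103095059 0) (P.cons (P.lf 0 8708138 0) (P.cons (P.lf 476473 0 0) (P.lf 52940 0 0)))) (P.cons (P.cons (P.lf 31198225 0 0) (P.cons (P.lf 2098874 0 0) (P.cons (P.lf 0 114841 0) (P.lf 0 12759 0)))) (P.cons (P.cons (P.lf 0 52129 0) (P.cons (P.lf 0 195456 0) (P.cons (P.lf 10694 0 0) P.nil))) (P.cons (P.cons (P.lf 0 425589 0) (P.cons (P.lf 0 6016 0) P.nil)) (P.cons (P.cons (P.lf 31573 0 0) P.nil) P.nil)))))) 8675)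
 EL.nil))
noncomputable def S372_401_586_660_11 : EL := (EL.cons 3 (TM.mk (P.cons (P.cons (P.lf 173076890 0 0) (P.cons (P.lf 0 18051804 0) (P.cons (P.lf 1458419 0 0) (P.cons (P.lf 58235 0 0) (P.cons (P.lf 0 4313 0) (P.cons (P.lf 312 0 0) P.nil)))))) (P.cons (P.cons (P.lf 203639448 0 0) (P.cons (P.lf 0 2390333 0) (P.cons (P.lf 0 298369 0) (P.cons (P.lf 61495 0 0) (P.cons (P.lf 3932 0 0) P.nil))))) (P.cons (P.cons (P.lf 53783726 0 0) (P.cons (P.lf 4068774 0 0) (P.cons (P.lf 0 67885 0) (P.cons (P.lf 0 41669 0) P.nil)))) (P.cons (P.cons (P.lf 0 6249738 0) (P.cons (P.lf 0 676417 0) (P.cons (P.lf 12480 0 0) P.nil))) (P.cons (P.cons (P.lf 0 1288824 0) (P.cons (P.lf 0 52886 0) P.nil)) (P.cons (P.cons (P.lf 183087 0 0) P.nil) P.nil)))))) 101563)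
 (EL.cons 7 (TM.mk (P.cons (P.cons (P.lf 0 61129779 0) (P.cons (P.lf 6375795 0 0) (P.cons (P.lf 0 515105 0) (P.cons (P.lf 0 20568 0) (P.cons (P.lf 1523 0 0) (P.cons (P.lf 0 110 0) P.nil)))))) (P.cons (P.cons (P.lf 0 58596648 0) (P.cons (P.lf 0 545812 0) (P.cons (P.lf 217686 0 0) (P.cons (P.lf 0 17235 0) (P.cons (P.lf 0 1721 0) P.nil))))) (P.cons (P.cons (P.lf 0 4432778 0) (P.cons (P.lf 0 1504551 0) (P.cons (P.lf 0 8417 0) (P.cons (P.lf 19076 0 0) P.nil)))) (P.cons (P.cons (P.lf 5157994 0 0) (P.cons (P.lf 554703 0 0) (P.cons (P.lf 0 6662 0) P.nil))) (P.cons (P.cons (P.lf 0 241070 0) (P.cons (P.lf 0 59960 0) P.nil)) (P.cons (P.cons (P.lf 0 99657 0) P.nil) P.nil)))))) 45451)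
 EL.nil))
noncomputable def S372_401_586_660_12 : EL := (EL.cons 4 (TM.mk (P.cons (P.lf 0 3098651666 0) (P.cons (P.lf 0 175463538 0) (P.cons (P.lf 18939693 0 0) (P.cons (P.lf 0 500812 0) (P.cons (P.lf 0 30041 0) (P.cons (P.lf 3150 0 0) P.nil)))))) 205)
 (EL.cons 8 (TM.mk (P.cons (P.lf 1094426245 0 0) (P.cons (P.lf 0 176636564 0) (P.cons (P.lf 0 189038 0) (P.cons (P.lf 544971 0 0) (P.cons (P.lf 0 29121 0) (P.cons (P.lf 0 63 0) P.nil)))))) 165)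
 EL.nil))
noncomputable def S372_401_586_660_13 : EL := (EL.cons 4 (TM.mk (P.cons (P.cons (P.lf 0 732328477 0) (P.cons (P.lf 38190688 0 0) (P.cons (P.lf 0 2089639 0) (P.lf 0 232180 0)))) (P.cons (P.cons (P.lf 0 451557206 0) (P.cons (P.lf 0 16328951 0) (P.cons (P.lf 893451 0 0) (P.lf 99270 0 0)))) (P.cons (P.cons (P.lf 3272846 0 0) (P.cons (P.lf 1684148 0 0) (P.cons (P.lf 0 92147 0) (P.lf 0 10236 0)))) (P.cons (P.cons (P.lf 7334903 0 0) (P.cons (P.lf 189953 0 0) (P.cons (P.lf 0 10394 0) P.nil))) (P.cons (P.cons (P.lf 0 417750 0) (P.cons (P.lf 0 48210 0) P.nil)) (P.cons (P.cons (P.lf 0 45587 0) P.nil) P.nil)))))) 20341)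
 (EL.cons 8 (TM.mk (P.cons (P.cons (P.lf 258654276 0 0) (P.cons (P.lf 0 13488735 0) (P.cons (P.lf 738048 0 0) (P.lf 82004 0 0)))) (P.cons (P.cons (P.lf 103095059 0 0) (P.cons (P.lf 8708138 0 0) (P.cons (P.lf 0 476473 0) (P.lf 0 52940 0)))) (P.cons (P.cons (P.lf 0 31198225 0) (P.cons (P.lf 0 2098874 0) (P.cons (P.lf 114841 0 0) (P.lf 12759 0 0)))) (P.cons (P.cons (P.lf 52129 0 0) (P.cons (P.lf 195456 0 0) (P.cons (P.lf 0 10694 0) P.nil))) (P.cons (P.cons (P.lf 425589 0 0) (P.cons (P.lf 6016 0 0) P.nil)) (P.cons (P.cons (P.lf 0 31573 0) P.nil) P.nil)))))) 8675)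
 EL.nil))
noncomputable def S372_401_586_660_14 : EL := (EL.cons 4 (TM.mk (P.cons (P.cons (P.lf 0 173076890 0) (P.cons (P.lf 18051804 0 0) (P.cons (P.lf 0 1458419 0) (P.cons (P.lf 0 58235 0) (P.cons (P.lf 4313 0 0) (P.cons (P.lf 0 312 0) P.nil)))))) (P.cons (P.cons (P.lf 0 203639448 0) (P.cons (P.lf 2390333 0 0) (P.cons (P.lf 298369 0 0) (P.cons (P.lf 0 61495 0) (P.cons (P.lf 0 3932 0) P.nil))))) (P.cons (P.cons (P.lf 0 53783726 0) (P.cons (P.lf 0 4068774 0) (P.cons (P.lf 67885 0 0) (P.cons (P.lf 41669 0 0) P.nil)))) (P.cons (P.cons (P.lf 6249738 0 0) (P.cons (P.lf 676417 0 0) (P.cons (P.lf 0 12480 0) P.nil))) (P.cons (P.cons (P.lf 1288824 0 0) (P.cons (P.lf 52886 0 0) P.nil)) (P.cons (P.cons (P.lf 0 183087 0) P.nil) P.nil)))))) 101563)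
 (EL.cons 8 (TM.mk (P.cons (P.cons (P.lf 61129779 0 0) (P.cons (P.lf 0 6375795 0) (P.cons (P.lf 515105 0 0) (P.cons (P.lf 20568 0 0) (P.cons (P.lf 0 1523 0) (P.cons (P.lf 110 0 0) P.nil)))))) (P.cons (P.cons (P.lf 58596648 0 0) (P.cons (P.lf 545812 0 0) (P.cons (P.lf 0 217686 0) (P.cons (P.lf 17235 0 0) (P.cons (P.lf 1721 0 0) P.nil))))) (P.cons (P.cons (P.lf 4432778 0 0) (P.cons (P.lf 1504551 0 0) (P.cons (P.lf 8417 0 0) (P.cons (P.lf 0 19076 0) P.nil)))) (P.cons (P.cons (P.lf 0 5157994 0) (P.cons (P.lf 0 554703 0) (P.cons (P.lf 6662 0 0) P.nil))) (P.cons (P.cons (P.lf 241070 0 0) (P.cons (P.lf 59960 0 0) P.nil)) (P.cons (P.cons (P.lf 99657 0 0) P.nil) P.nil)))))) 45451)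
 EL.nil))
noncomputable def S372_401_586_660_15 : EL := (EL.cons 4 (TM.mk (P.cons (P.lf 0 2384593622 0) (P.cons (P.lf 0 270058903 0) (P.cons (P.lf 21504255 0 0) (P.cons (P.lf 879855 0 0) (P.cons (P.lf 0 178971 0) (P.cons (P.lf 6941 0 0) P.nil)))))) 996)
 (EL.cons 8 (TM.mk (P.cons (P.lf 842224982 0 0) (P.cons (P.lf 0 88240524 0) (P.cons (P.lf 0 12990618 0) (P.cons (P.lf 1378121 0 0) (P.cons (P.lf 0 11577 0) (P.cons (P.lf 0 6078 0) P.nil)))))) 560)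
 EL.nil))
noncomputable def S372_401_586_660_16 : EL := (EL.cons 4 (TM.mk (P.cons (P.cons (P.lf 0 563569579 0) (P.cons (P.lf 29389966 0 0) (P.cons (P.lf 0 1608099 0) (P.lf 0 178676 0)))) (P.cons (P.cons (P.lf 0 379412232 0) (P.cons (P.lf 0 10901852 0) (P.cons (P.lf 596503 0 0) (P.lf 66276 0 0)))) (P.cons (P.cons (P.lf 0 13714118 0) (P.cons (P.lf 404848 0 0) (P.cons (P.lf 0 22150 0) (P.lf 0 2460 0)))) (P.cons (P.cons (P.lf 7820172 0 0) (P.cons (P.lf 301126 0 0) (P.cons (P.lf 0 16476 0) P.nil))) (P.cons (P.cons (P.lf 0 78873 0) (P.cons (P.lf 0 38490 0) P.nil)) (P.cons (P.cons (P.lf 0 90177 0) P.nil) P.nil)))))) 25003)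
 (EL.cons 8 (TM.mk (P.cons (P.cons (P.lf 199049588 0 0) (P.cons (P.lf 0 10380370 0) (P.cons (P.lf 567971 0 0) (P.lf 63107 0 0)))) (P.cons (P.cons (P.lf 90609011 0 0) (P.cons (P.lf 6113624 0 0) (P.cons (P.lf 0 334512 0) (P.lf 0 37167 0)))) (P.cons (P.cons (P.lf 0 20732939 0) (P.cons (P.lf 0 1172285 0) (P.cons (P.lf 64142 0 0) (P.lf 7126 0 0)))) (P.cons (P.cons (P.lf 0 1772162 0) (P.cons (P.lf 16314 0 0) (P.cons (P.lf 0 892 0) P.nil))) (P.cons (P.cons (P.lf 491288 0 0) (P.cons (P.lf 24002 0 0) P.nil)) (P.cons (P.cons (P.lf 0 9310 0) P.nil) P.nil)))))) 13293)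
 EL.nil))
noncomputable def S372_401_586_660_17 : EL := (EL.cons 4 (TM.mk (P.cons (P.cons (P.lf 0 133192786 0) (P.cons (P.lf 13891919 0 0) (P.cons (P.lf 0 1122338 0) (P.cons (P.lf 0 44816 0) (P.cons (P.lf 3318 0 0) (P.cons (P.lf 0 240 0) P.nil)))))) (P.cons (P.cons (P.lf 0 164254605 0) (P.cons (P.lf 2626141 0 0) (P.cons (P.lf 166059 0 0) (P.cons (P.lf 0 49861 0) (P.cons (P.lf 0 2837 0) P.nil))))) (P.cons (P.cons (P.lf 0 49449580 0) (P.cons (P.lf 0 3111906 0) (P.cons (P.lf 72104 0 0) (P.cons (P.lf 29660 0 0) P.nil)))) (P.cons (P.cons (P.lf 3402150 0 0) (P.cons (P.lf 334240 0 0) (P.cons (P.lf 0 8231 0) P.nil))) (P.cons (P.cons (P.lf 1490533 0 0) (P.cons (P.lf 89745 0 0) P.nil)) (P.cons (P.cons (P.lf 0 122204 0) P.nil) P.nil)))))) 102139)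
 (EL.cons 8 (TM.mk (P.cons (P.cons (P.lf 47042938 0 0) (P.cons (P.lf 0 4906547 0) (P.cons (P.lf 396403 0 0) (P.cons (P.lf 15828 0 0) (P.cons (P.lf 0 1172 0) (P.cons (P.lf 84 0 0) P.nil)))))) (P.cons (P.cons (P.lf 47757389 0 0) (P.cons (P.lf 142198 0 0) (P.cons (P.lf 0 145076 0) (P.cons (P.lf 14159 0 0) (P.cons (P.lf 1258 0 0) P.nil))))) (P.cons (P.cons (P.lf 5677201 0 0) (P.cons (P.lf 1211614 0 0) (P.cons (P.lf 0 5431 0) (P.cons (P.lf 0 14026 0) P.nil)))) (P.cons (P.cons (P.lf 0 4044230 0) (P.cons (P.lf 0 364673 0) (P.cons (P.lf 6581 0 0) P.nil))) (P.cons (P.cons (P.lf 0 52357 0) (P.cons (P.lf 14914 0 0) P.nil)) (P.cons (P.cons (P.lf 112399 0 0) P.nil) P.nil)))))) 47424)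
 EL.nil))
noncomputable def S372_401_586_660_18 : EL := (EL.cons 4 (TM.mk (P.cons (P.lf 0 1835084209 0) (P.cons (P.lf 0 311739172 0) (P.cons (P.lf 15996937 0 0) (P.cons (P.lf 2587877 0 0) (P.cons (P.lf 0 251917 0) (P.cons (P.lf 0 4069 0) P.nil)))))) 2661)
 (EL.cons 8 (TM.mk (P.cons (P.lf 648141365 0 0) (P.cons (P.lf 0 31204738 0) (P.cons (P.lf 0 17803876 0) (P.cons (P.lf 1014268 0 0) (P.cons (P.lf 107557 0 0) (P.cons (P.lf 0 14597 0) P.nil)))))) 1054)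
 EL.nil))
noncomputable def S372_401_586_660_19 : EL := (EL.cons 4 (TM.mk (P.cons (P.cons (P.lf 0 433699740 0) (P.cons (P.lf 22617298 0 0) (P.cons (P.lf 0 1237526 0) (P.lf 0 137501 0)))) (P.cons (P.cons (P.lf 0 316538477 0) (P.cons (P.lf 0 7108890 0) (P.cons (P.lf 388968 0 0) (P.lf 43216 0 0)))) (P.cons (P.cons (P.lf 0 24436527 0) (P.cons (P.lf 0 301755 0) (P.cons (P.lf 16511 0 0) (P.lf 1834 0 0)))) (P.cons (P.cons (P.lf 7135016 0 0) (P.cons (P.lf 304311 0 0) (P.cons (P.lf 0 16650 0) P.nil))) (P.cons (P.cons (P.lf 293191 0 0) (P.cons (P.lf 0 19540 0) P.nil)) (P.cons (P.cons (P.lf 0 113713 0) P.nil) P.nil)))))) 28790)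
 (EL.cons 8 (TM.mk (P.cons (P.cons (P.lf 153180295 0 0) (P.cons (P.lf 0 7988301 0) (P.cons (P.lf 437087 0 0) (P.lf 48564 0 0)))) (P.cons (P.cons (P.lf 78402884 0 0) (P.cons (P.lf 4252447 0 0) (P.cons (P.lf 0 232676 0) (P.lf 0 25852 0)))) (P.cons (P.cons (P.lf 0 12943028 0) (P.cons (P.lf 0 586903 0) (P.cons (P.lf 32112 0 0) (P.lf 3567 0 0)))) (P.cons (P.cons (P.lf 0 2668701 0) (P.cons (P.lf 0 68577 0) (P.cons (P.lf 3752 0 0) P.nil))) (P.cons (P.cons (P.lf 411126 0 0) (P.cons (P.lf 25378 0 0) P.nil)) (P.cons (P.cons (P.lf 20520 0 0) P.nil) P.nil)))))) 16023)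
 EL.nil))
noncomputable def S372_401_586_660_20 : EL := (EL.cons 4 (TM.mk (P.cons (P.cons (P.lf 0 102499635 0) (P.cons (P.lf 10690643 0 0) (P.cons (P.lf 0 863704 0) (P.cons (P.lf 0 34487 0) (P.cons (P.lf 2553 0 0) (P.cons (P.lf 0 184 0) P.nil)))))) (P.cons (P.cons (P.lf 0 132207643 0) (P.cons (P.lf 2626335 0 0) (P.cons (P.lf 78884 0 0) (P.cons (P.lf 0 40324 0) (P.cons (P.lf 0 2039 0) P.nil))))) (P.cons (P.cons (P.lf 0 44585537 0) (P.cons (P.lf 0 2345699 0) (P.cons (P.lf 68003 0 0) (P.cons (P.lf 20864 0 0) P.nil)))) (P.cons (P.cons (P.lf 1219339 0 0) (P.cons (P.lf 110985 0 0) (P.cons (P.lf 0 4112 0) P.nil))) (P.cons (P.cons (P.lf 1506480 0 0) (P.cons (P.lf 98697 0 0) P.nil)) (P.cons (P.cons (P.lf 0 52365 0) P.nil) P.nil)))))) 99918)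
 (EL.cons 8 (TM.mk (P.cons (P.cons (P.lf 36202292 0 0) (P.cons (P.lf 0 3775874 0) (P.cons (P.lf 305055 0 0) (P.cons (P.lf 12181 0 0) (P.cons (P.lf 0 902 0) (P.cons (P.lf 65 0 0) P.nil)))))) (P.cons (P.cons (P.lf 38802086 0 0) (P.cons (P.lf 0 104382 0) (P.cons (P.lf 0 94370 0) (P.cons (P.lf 11586 0 0) (P.cons (P.lf 916 0 0) P.nil))))) (P.cons (P.cons (P.lf 6228777 0 0) (P.cons (P.lf 961683 0 0) (P.cons (P.lf 0 12366 0) (P.cons (P.lf 0 10251 0) P.nil)))) (P.cons (P.cons (P.lf 0 3083664 0) (P.cons (P.lf 0 229118 0) (P.cons (P.lf 5560 0 0) P.nil))) (P.cons (P.cons (P.lf 0 236940 0) (P.cons (P.lf 0 10131 0) P.nil)) (P.cons (P.cons (P.lf 104264 0 0) P.nil) P.nil)))))) 45152)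
 EL.nil))
noncomputable def S372_401_586_660_21 : EL := (EL.cons 4 (TM.mk (P.cons (P.cons (P.lf 0 2540876334 0) (P.cons (P.lf 0 114572064 0) (P.cons (P.lf 6268917 0 0) (P.lf 696540 0 0)))) (P.cons (P.cons (P.lf 544494912 0 0) (P.cons (P.lf 48986853 0 0) (P.cons (P.lf 0 2680353 0) (P.lf 0 297810 0)))) (P.cons (P.cons (P.lf 54694230 0 0) (P.cons (P.lf 0 5052444 0) (P.cons (P.lf 276441 0 0) (P.lf 30708 0 0)))) (P.cons (P.cons (P.lf 0 19365147 0) (P.cons (P.lf 0 569859 0) (P.cons (P.lf 31182 0 0) P.nil))) (P.cons (P.cons (P.lf 716334 0 0) (P.cons (P.lf 144630 0 0) P.nil)) (P.cons (P.cons (P.lf 157590 0 0) P.nil) P.nil)))))) 63672)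
 (EL.cons 8 (TM.mk (P.cons (P.cons (P.lf 0 2557862862 0) (P.cons (P.lf 0 115338018 0) (P.cons (P.lf 6310836 0 0) (P.lf 701208 0 0)))) (P.cons (P.cons (P.lf 0 9536028 0) (P.cons (P.lf 24168096 0 0) (P.cons (P.lf 0 1322385 0) (P.lf 0 146934 0)))) (P.cons (P.cons (P.lf 99751797 0 0) (P.cons (P.lf 2291928 0 0) (P.cons (P.lf 0 125403 0) (P.lf 0 13932 0)))) (P.cons (P.cons (P.lf 0 2768916 0) (P.cons (P.lf 0 750219 0) (P.cons (P.lf 41046 0 0) P.nil))) (P.cons (P.cons (P.lf 0 1148469 0) (P.cons (P.lf 15279 0 0) P.nil)) (P.cons (P.cons (P.lf 99534 0 0) P.nil) P.nil)))))) 31842)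
 (EL.cons 11 (TM.mk (P.cons (P.cons (P.lf 701775597 0 0) (P.cons (P.lf 0 88055973 0) (P.cons (P.lf 0 13443867 0) (P.cons (P.lf 410706 0 0) (P.lf 34224 0 0))))) (P.cons (P.cons (P.lf 0 226528245 0) (P.cons (P.lf 28423851 0 0) (P.cons (P.lf 4339584 0 0) (P.cons (P.lf 0 132573 0) (P.lf 0 11046 0))))) (P.cons (P.cons (P.lf 18037998 0 0) (P.cons (P.lf 0 2263335 0) (P.cons (P.lf 0 345552 0) (P.cons (P.lf 10554 0 0) P.nil)))) (P.cons (P.cons (P.lf 738024 0 0) (P.cons (P.lf 0 92604 0) (P.cons (P.lf 0 14136 0) P.nil))) (P.cons (P.cons (P.lf 0 150123 0) (P.cons (P.lf 18837 0 0) P.nil)) (P.cons (P.cons (P.lf 5823 0 0) P.nil) P.nil)))))) 5808)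
 EL.nil)))
noncomputable def S372_401_586_660_22 : EL := (EL.cons 4 (TM.mk (P.cons (P.cons (P.lf 0 600505089 0) (P.cons (P.lf 4238433 0 0) (P.cons (P.lf 1180182 0 0) (P.cons (P.lf 0 180294 0) (P.cons (P.lf 0 12942 0) (P.cons (P.lf 939 0 0) P.nil)))))) (P.cons (P.cons (P.lf 0 207585495 0) (P.cons (P.lf 0 25459314 0) (P.cons (P.lf 105549 0 0) (P.cons (P.lf 295671 0 0) (P.cons (P.lf 11799 0 0) P.nil))))) (P.cons (P.cons (P.lf 103041897 0 0) (P.cons (P.lf 11109408 0 0) (P.cons (P.lf 0 143637 0) (P.cons (P.lf 0 118338 0) P.nil)))) (P.cons (P.cons (P.lf 1826598 0 0) (P.cons (P.lf 0 1050147 0) (P.cons (P.lf 0 16128 0) P.nil))) (P.cons (P.cons (P.lf 0 3776181 0) (P.cons (P.lf 0 257001 0) P.nil)) (P.cons (P.cons (P.lf 278385 0 0) P.nil) P.nil)))))) 243027)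
 (EL.cons 8 (TM.mk (P.cons (P.cons (P.lf 0 604519647 0) (P.cons (P.lf 4266768 0 0) (P.cons (P.lf 1188075 0 0) (P.cons (P.lf 0 181497 0) (P.cons (P.lf 0 13026 0) (P.cons (P.lf 945 0 0) P.nil)))))) (P.cons (P.cons (P.lf 0 340772010 0) (P.cons (P.lf 0 24699264 0) (P.cons (P.lf 365280 0 0) (P.cons (P.lf 258075 0 0) (P.cons (P.lf 9036 0 0) P.nil))))) (P.cons (P.cons (P.lf 40488627 0 0) (P.cons (P.lf 5720667 0 0) (P.cons (P.lf 0 86679 0) (P.cons (P.lf 0 59544 0) P.nil)))) (P.cons (P.cons (P.lf 15669114 0 0) (P.cons (P.lf 650361 0 0) (P.cons (P.lf 0 39399 0) P.nil))) (P.cons (P.cons (P.lf 0 1681422 0) (P.cons (P.lf 0 272670 0) P.nil)) (P.cons (P.cons (P.lf 0 228825 0) P.nil) P.nil)))))) 141738)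
 (EL.cons 11 (TM.mk (P.cons (P.cons (P.lf 165856089 0 0) (P.cons (P.lf 0 29460294 0) (P.cons (P.lf 0 1618752 0) (P.cons (P.lf 255960 0 0) (P.cons (P.lf 0 12636 0) (P.cons (P.lf 0 1152 0) P.nil)))))) (P.cons (P.cons (P.lf 39338736 0 0) (P.cons (P.lf 2043798 0 0) (P.cons (P.lf 0 2011323 0) (P.cons (P.lf 0 105201 0) (P.cons (P.lf 18642 0 0) P.nil))))) (P.cons (P.cons (P.lf 0 30703281 0) (P.cons (P.lf 1606941 0 0) (P.cons (P.lf 992814 0 0) (P.cons (P.lf 23283 0 0) P.nil)))) (P.cons (P.cons (P.lf 3333354 0 0) (P.cons (P.lf 0 80976 0) (P.cons (P.lf 0 124629 0) P.nil))) (P.cons (P.cons (P.lf 299463 0 0) (P.cons (P.lf 0 50700 0) P.nil)) (P.cons (P.cons (P.lf 0 76026 0) P.nil) P.nil)))))) 70650)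
 EL.nil)))
noncomputable def S372_401_586_660_23 : EL := (EL.cons 4 (TM.mk (P.cons (P.cons (P.lf 0 1955352891 0) (P.cons (P.lf 0 88169901 0) (P.cons (P.lf 4824297 0 0) (P.lf 536028 0 0)))) (P.cons (P.cons (P.lf 308297304 0 0) (P.cons (P.lf 32705556 0 0) (P.cons (P.lf 0 1789506 0) (P.lf 0 198828 0)))) (P.cons (P.cons (P.lf 77769354 0 0) (P.cons (P.lf 0 1214541 0) (P.cons (P.lf 66447 0 0) (P.lf 7377 0 0)))) (P.cons (P.cons (P.lf 0 15396393 0) (P.cons (P.lf 0 903378 0) (P.cons (P.lf 49428 0 0) P.nil))) (P.cons (P.cons (P.lf 0 501111 0) (P.cons (P.lf 115470 0 0) P.nil)) (P.cons (P.cons (P.lf 256431 0 0) P.nil) P.nil)))))) 84036)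
 (EL.cons 8 (TM.mk (P.cons (P.cons (P.lf 0 1968425019 0) (P.cons (P.lf 0 88759347 0) (P.cons (P.lf 4856556 0 0) (P.lf 539619 0 0)))) (P.cons (P.cons (P.lf 0 118802112 0) (P.cons (P.lf 13572696 0 0) (P.cons (P.lf 0 742644 0) (P.lf 0 82515 0)))) (P.cons (P.cons (P.lf 88380768 0 0) (P.cons (P.lf 3359460 0 0) (P.cons (P.lf 0 183813 0) (P.lf 0 20421 0)))) (P.cons (P.cons (P.lf 1942737 0 0) (P.cons (P.lf 0 605487 0) (P.cons (P.lf 33126 0 0) P.nil))) (P.cons (P.cons (P.lf 0 1493949 0) (P.cons (P.lf 0 29568 0) P.nil)) (P.cons (P.cons (P.lf 53910 0 0) P.nil) P.nil)))))) 47070)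
 (EL.cons 11 (TM.mk (P.cons (P.cons (P.lf 540057351 0 0) (P.cons (P.lf 0 67764219 0) (P.cons (P.lf 0 10345839 0) (P.cons (P.lf 316062 0 0) (P.lf 26337 0 0))))) (P.cons (P.cons (P.lf 0 143745564 0) (P.cons (P.lf 18036612 0 0) (P.cons (P.lf 2753721 0 0) (P.cons (P.lf 0 84123 0) (P.lf 0 7008 0))))) (P.cons (P.cons (P.lf 708948 0 0) (P.cons (P.lf 0 88953 0) (P.cons (P.lf 0 13578 0) (P.cons (P.lf 411 0 0) P.nil)))) (P.cons (P.cons (P.lf 2506803 0 0) (P.cons (P.lf 0 314541 0) (P.cons (P.lf 0 48018 0) P.nil))) (P.cons (P.cons (P.lf 0 191151 0) (P.cons (P.lf 23985 0 0) P.nil)) (P.cons (P.cons (P.lf 0 5526 0) P.nil) P.nil)))))) 13209)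
 EL.nil)))
noncomputable def S372_401_586_660_24 : EL := (EL.cons 4 (TM.mk (P.cons (P.cons (P.lf 0 462123774 0) (P.cons (P.lf 3261720 0 0) (P.cons (P.lf 908217 0 0) (P.cons (P.lf 0 138747 0) (P.cons (P.lf 0 9957 0) (P.cons (P.lf 720 0 0) P.nil)))))) (P.cons (P.cons (P.lf 0 185917290 0) (P.cons (P.lf 0 19407732 0) (P.cons (P.lf 132654 0 0) (P.cons (P.lf 219678 0 0) (P.cons (P.lf 8514 0 0) P.nil))))) (P.cons (P.cons (P.lf 73075452 0 0) (P.cons (P.lf 7419963 0 0) (P.cons (P.lf 0 111486 0) (P.cons (P.lf 0 77334 0) P.nil)))) (P.cons (P.cons (P.lf 6797649 0 0) (P.cons (P.lf 0 203757 0) (P.cons (P.lf 0 19020 0) P.nil))) (P.cons (P.cons (P.lf 0 3341373 0) (P.cons (P.lf 0 298929 0) P.nil)) (P.cons (P.cons (P.lf 52824 0 0) P.nil) P.nil)))))) 219153)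
 (EL.cons 8 (TM.mk (P.cons (P.cons (P.lf 0 465213213 0) (P.cons (P.lf 3283527 0 0) (P.cons (P.lf 914292 0 0) (P.cons (P.lf 0 139671 0) (P.cons (P.lf 0 10026 0) (P.cons (P.lf 726 0 0) P.nil)))))) (P.cons (P.cons (P.lf 0 288587040 0) (P.cons (P.lf 0 18821595 0) (P.cons (P.lf 332874 0 0) (P.cons (P.lf 190695 0 0) (P.cons (P.lf 6387 0 0) P.nil))))) (P.cons (P.cons (P.lf 19152090 0 0) (P.cons (P.lf 3306000 0 0) (P.cons (P.lf 0 56376 0) (P.cons (P.lf 0 33723 0) P.nil)))) (P.cons (P.cons (P.lf 15350373 0 0) (P.cons (P.lf 866487 0 0) (P.cons (P.lf 0 35667 0) P.nil))) (P.cons (P.cons (P.lf 0 848484 0) (P.cons (P.lf 0 211443 0) P.nil)) (P.cons (P.cons (P.lf 0 320103 0) P.nil) P.nil)))))) 116475)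
 (EL.cons 11 (TM.mk (P.cons (P.cons (P.lf 127635957 0 0) (P.cons (P.lf 0 22671417 0) (P.cons (P.lf 0 1245723 0) (P.cons (P.lf 196977 0 0) (P.cons (P.lf 0 9723 0) (P.cons (P.lf 0 885 0) P.nil)))))) (P.cons (P.cons (P.lf 37500942 0 0) (P.cons (P.lf 289035 0 0) (P.cons (P.lf 0 1618371 0) (P.cons (P.lf 0 69804 0) (P.cons (P.lf 13797 0 0) P.nil))))) (P.cons (P.cons (P.lf 0 22693851 0) (P.cons (P.lf 1464270 0 0) (P.cons (P.lf 683994 0 0) (P.cons (P.lf 12129 0 0) P.nil)))) (P.cons (P.cons (P.lf 1062849 0 0) (P.cons (P.lf 0 5568 0) (P.cons (P.lf 0 43386 0) P.nil))) (P.cons (P.cons (P.lf 526263 0 0) (P.cons (P.lf 0 50070 0) P.nil)) (P.cons (P.cons (P.lf 0 64791 0) P.nil) P.nil)))))) 65148)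
 EL.nil)))
noncomputable def S372_401_586_660_25 : EL := (EL.cons 4 (TM.mk (P.cons (P.cons (P.lf 0 1504758372 0) (P.cons (P.lf 0 67851894 0) (P.cons (P.lf 3712578 0 0) (P.lf 412503 0 0)))) (P.cons (P.cons (P.lf 152044698 0 0) (P.cons (P.lf 21326673 0 0) (P.cons (P.lf 0 1166901 0) (P.lf 0 129651 0)))) (P.cons (P.cons (P.lf 82480128 0 0) (P.cons (P.lf 905268 0 0) (P.cons (P.lf 0 49536 0) (P.lf 0 5508 0)))) (P.cons (P.cons (P.lf 0 10152831 0) (P.cons (P.lf 0 912933 0) (P.cons (P.lf 49950 0 0) P.nil))) (P.cons (P.cons (P.lf 0 1398609 0) (P.cons (P.lf 58617 0 0) P.nil)) (P.cons (P.cons (P.lf 261423 0 0) P.nil) P.nil)))))) 93672)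
 (EL.cons 8 (TM.mk (P.cons (P.cons (P.lf 0 1514818137 0) (P.cons (P.lf 0 68305506 0) (P.cons (P.lf 3737403 0 0) (P.lf 415269 0 0)))) (P.cons (P.cons (P.lf 0 177202917 0) (P.cons (P.lf 6577131 0 0) (P.cons (P.lf 0 359874 0) (P.lf 0 39987 0)))) (P.cons (P.cons (P.lf 72096075 0 0) (P.cons (P.lf 3594255 0 0) (P.cons (P.lf 0 196662 0) (P.lf 0 21849 0)))) (P.cons (P.cons (P.lf 5660388 0 0) (P.cons (P.lf 0 394443 0) (P.cons (P.lf 21579 0 0) P.nil))) (P.cons (P.cons (P.lf 0 1510203 0) (P.cons (P.lf 0 63915 0) P.nil)) (P.cons (P.cons (P.lf 0 21105 0) P.nil) P.nil)))))) 54534)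
 (EL.cons 11 (TM.mk (P.cons (P.cons (P.lf 415605705 0 0) (P.cons (P.lf 0 52148526 0) (P.cons (P.lf 0 7961730 0) (P.cons (P.lf 243228 0 0) (P.lf 20268 0 0))))) (P.cons (P.cons (P.lf 0 87086622 0) (P.cons (P.lf 10927278 0 0) (P.cons (P.lf 1668309 0 0) (P.cons (P.lf 0 50964 0) (P.lf 0 4245 0))))) (P.cons (P.cons (P.lf 0 8258679 0) (P.cons (P.lf 1036263 0 0) (P.cons (P.lf 158211 0 0) (P.cons (P.lf 0 4833 0) P.nil)))) (P.cons (P.cons (P.lf 2703336 0 0) (P.cons (P.lf 0 339201 0) (P.cons (P.lf 0 51786 0) P.nil))) (P.cons (P.cons (P.lf 0 55047 0) (P.cons (P.lf 6906 0 0) P.nil)) (P.cons (P.cons (P.lf 0 25779 0) P.nil) P.nil)))))) 18171)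
 EL.nil)))
noncomputable def S372_401_586_660_26 : EL := (EL.cons 4 (TM.mk (P.cons (P.cons (P.lf 0 355631262 0) (P.cons (P.lf 2510085 0 0) (P.cons (P.lf 698928 0 0) (P.cons (P.lf 0 106773 0) (P.cons (P.lf 0 7662 0) (P.cons (P.lf 555 0 0) P.nil)))))) (P.cons (P.cons (P.lf 0 163212117 0) (P.cons (P.lf 0 14793249 0) (P.cons (P.lf 141663 0 0) (P.cons (P.lf 163008 0 0) (P.cons (P.lf 6120 0 0) P.nil))))) (P.cons (P.cons (P.lf 50307846 0 0) (P.cons (P.lf 4849026 0 0) (P.cons (P.lf 0 84288 0) (P.cons (P.lf 0 49287 0) P.nil)))) (P.cons (P.cons (P.lf 9232611 0 0) (P.cons (P.lf 258228 0 0) (P.cons (P.lf 0 20007 0) P.nil))) (P.cons (P.cons (P.lf 0 2645460 0) (P.cons (P.lf 0 276213 0) P.nil)) (P.cons (P.cons (P.lf 0 128862 0) P.nil) P.nil)))))) 200862)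
 (EL.cons 8 (TM.mk (P.cons (P.cons (P.lf 0 358008765 0) (P.cons (P.lf 2526864 0 0) (P.cons (P.lf 703602 0 0) (P.cons (P.lf 0 107487 0) (P.cons (P.lf 0 7713 0) (P.cons (P.lf 558 0 0) P.nil)))))) (P.cons (P.cons (P.lf 0 242357121 0) (P.cons (P.lf 0 14341233 0) (P.cons (P.lf 296007 0 0) (P.cons (P.lf 140664 0 0) (P.cons (P.lf 4476 0 0) P.nil))))) (P.cons (P.cons (P.lf 4351176 0 0) (P.cons (P.lf 1708530 0 0) (P.cons (P.lf 0 33180 0) (P.cons (P.lf 0 16983 0) P.nil)))) (P.cons (P.cons (P.lf 13947168 0 0) (P.cons (P.lf 899817 0 0) (P.cons (P.lf 0 31356 0) P.nil))) (P.cons (P.cons (P.lf 0 113487 0) (P.cons (P.lf 0 142824 0) P.nil)) (P.cons (P.cons (P.lf 0 354921 0) P.nil) P.nil)))))) 105045)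
 (EL.cons 11 (TM.mk (P.cons (P.cons (P.lf 98223333 0 0) (P.cons (P.lf 0 17446980 0) (P.cons (P.lf 0 958656 0) (P.cons (P.lf 151584 0 0) (P.cons (P.lf 0 7482 0) (P.cons (P.lf 0 681 0) P.nil)))))) (P.cons (P.cons (P.lf 34421139 0 0) (P.cons (P.lf 0 765516 0) (P.cons (P.lf 0 1299714 0) (P.cons (P.lf 0 45135 0) (P.cons (P.lf 10191 0 0) P.nil))))) (P.cons (P.cons (P.lf 0 16430439 0) (P.cons (P.lf 1246077 0 0) (P.cons (P.lf 461709 0 0) (P.cons (P.lf 5364 0 0) P.nil)))) (P.cons (P.cons (P.lf 0 331518 0) (P.cons (P.lf 55341 0 0) (P.cons (P.lf 3873 0 0) P.nil))) (P.cons (P.cons (P.lf 563667 0 0) (P.cons (P.lf 0 45795 0) P.nil)) (P.cons (P.cons (P.lf 0 34569 0) P.nil) P.nil)))))) 60849)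
 EL.nil)))
noncomputable def S372_401_586_660_27 : EL := (EL.cons 13 (TM.mk (P.lf 0 4294967296 0) 0)
 EL.nil)
noncomputable def S372_401_586_660_28 : EL := (EL.cons 13 (TM.mk (P.cons (P.cons (P.lf 0 1015063066 0) (P.cons (P.lf 52935204 0 0) (P.cons (P.lf 0 2896400 0) (P.lf 0 321820 0)))) (P.cons (P.cons (P.lf 0 568413964 0) (P.cons (P.lf 0 25630668 0) (P.cons (P.lf 1402404 0 0) (P.lf 155820 0 0)))) (P.cons (P.cons (P.lf 30518988 0 0) (P.cons (P.lf 4109268 0 0) (P.cons (P.lf 0 224840 0) (P.lf 0 24980 0)))) (P.cons (P.cons (P.lf 5128351 0 0) (P.cons (P.lf 0 134616 0) (P.cons (P.lf 7364 0 0) P.nil))) (P.cons (P.cons (P.lf 0 581183 0) (P.cons (P.lf 0 30456 0) P.nil)) (P.cons (P.cons (P.lf 613 0 0) P.nil) P.nil)))))) 13173)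
 EL.nil)
noncomputable def S372_401_586_660_29 : EL := (EL.cons 13 (TM.mk (P.cons (P.cons (P.lf 0 239897758 0) (P.cons (P.lf 25021177 0 0) (P.cons (P.lf 0 2021480 0) (P.cons (P.lf 0 80720 0) (P.cons (P.lf 5979 0 0) (P.cons (P.lf 0 434 0) P.nil)))))) (P.cons (P.cons (P.lf 0 268675396 0) (P.cons (P.lf 1896342 0 0) (P.cons (P.lf 528031 0 0) (P.cons (P.lf 0 80667 0) (P.cons (P.lf 0 5790 0) P.nil))))) (P.cons (P.cons (P.lf 0 60800704 0) (P.cons (P.lf 0 5594078 0) (P.cons (P.lf 51839 0 0) (P.cons (P.lf 61832 0 0) P.nil)))) (P.cons (P.cons (P.lf 10502067 0 0) (P.cons (P.lf 1261883 0 0) (P.cons (P.lf 0 16681 0) P.nil))) (P.cons (P.cons (P.lf 865843 0 0) (P.cons (P.lf 0 32891 0) P.nil)) (P.cons (P.cons (P.lf 0 226424 0) P.nil) P.nil)))))) 94946)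
 EL.nil)
noncomputable def S372_401_586_660_30 : EL := (EL.cons 13 (TM.mk (P.cons (P.lf 0 3305228444 0) (P.cons (P.lf 0 187161108 0) (P.cons (P.lf 20202340 0 0) (P.cons (P.lf 0 534200 0) (P.cons (P.lf 0 32044 0) (P.cons (P.lf 3360 0 0) P.nil)))))) 212)
 EL.nil)
noncomputable def S372_401_586_660_31 : EL := (EL.cons 13 (TM.mk (P.cons (P.cons (P.lf 0 781150376 0) (P.cons (P.lf 40736734 0 0) (P.cons (P.lf 0 2228949 0) (P.lf 0 247659 0)))) (P.cons (P.cons (P.lf 0 481661020 0) (P.cons (P.lf 0 17417548 0) (P.cons (P.lf 953015 0 0) (P.lf 105888 0 0)))) (P.cons (P.cons (P.lf 3491036 0 0) (P.cons (P.lf 1796425 0 0) (P.cons (P.lf 0 98291 0) (P.lf 0 10919 0)))) (P.cons (P.cons (P.lf 7823897 0 0) (P.cons (P.lf 202617 0 0) (P.cons (P.lf 0 11087 0) P.nil))) (P.cons (P.cons (P.lf 0 445601 0) (P.cons (P.lf 0 51425 0) P.nil)) (P.cons (P.cons (P.lf 0 48627 0) P.nil) P.nil)))))) 21677)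
 EL.nil)
noncomputable def S372_401_586_660_32 : EL := (EL.cons 13 (TM.mk (P.cons (P.cons (P.lf 0 184615350 0) (P.cons (P.lf 19255258 0 0) (P.cons (P.lf 0 1555647 0) (P.cons (P.lf 0 62118 0) (P.cons (P.lf 4601 0 0) (P.cons (P.lf 0 333 0) P.nil)))))) (P.cons (P.cons (P.lf 0 217215412 0) (P.cons (P.lf 2549689 0 0) (P.cons (P.lf 318261 0 0) (P.cons (P.lf 0 65595 0) (P.cons (P.lf 0 4195 0) P.nil))))) (P.cons (P.cons (P.lf 0 57369308 0) (P.cons (P.lf 0 4340026 0) (P.cons (P.lf 72411 0 0) (P.cons (P.lf 44447 0 0) P.nil)))) (P.cons (P.cons (P.lf 6666388 0 0) (P.cons (P.lf 721512 0 0) (P.cons (P.lf 0 13313 0) P.nil))) (P.cons (P.cons (P.lf 1374746 0 0) (P.cons (P.lf 56412 0 0) P.nil)) (P.cons (P.cons (P.lf 0 195293 0) P.nil) P.nil)))))) 108311)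
 EL.nil)
noncomputable def S372_401_586_660_33 : EL := (EL.cons 14 (TM.mk (P.lf 8589934592 0 0) 0)
 EL.nil)
noncomputable def S372_401_586_660_34 : EL := (EL.cons 14 (TM.mk (P.cons (P.cons (P.lf 2030126132 0 0) (P.cons (P.lf 0 105870408 0) (P.cons (P.lf 5792800 0 0) (P.lf 643640 0 0)))) (P.cons (P.cons (P.lf 1136827928 0 0) (P.cons (P.lf 51261336 0 0) (P.cons (P.lf 0 2804808 0) (P.lf 0 311640 0)))) (P.cons (P.cons (P.lf 0 61037976 0) (P.cons (P.lf 0 8218536 0) (P.cons (P.lf 449680 0 0) (P.lf 49960 0 0)))) (P.cons (P.cons (P.lf 0 10256702 0) (P.cons (P.lf 269232 0 0) (P.cons (P.lf 0 14728 0) P.nil))) (P.cons (P.cons (P.lf 1162366 0 0) (P.cons (P.lf 60912 0 0) P.nil)) (P.cons (P.cons (P.lf 0 1226 0) P.nil) P.nil)))))) 26346)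
 EL.nil)
noncomputable def S372_401_586_660_35 : EL := (EL.cons 14 (TM.mk (P.cons (P.cons (P.lf 479795516 0 0) (P.cons (P.lf 0 50042354 0) (P.cons (P.lf 4042960 0 0) (P.cons (P.lf 161440 0 0) (P.cons (P.lf 0 11958 0) (P.cons (P.lf 868 0 0) P.nil)))))) (P.cons (P.cons (P.lf 537350792 0 0) (P.cons (P.lf 0 3792684 0) (P.cons (P.lf 0 1056062 0) (P.cons (P.lf 161334 0 0) (P.cons (P.lf 11580 0 0) P.nil))))) (P.cons (P.cons (P.lf 121601408 0 0) (P.cons (P.lf 11188156 0 0) (P.cons (P.lf 0 103678 0) (P.cons (P.lf 0 123664 0) P.nil)))) (P.cons (P.cons (P.lf 0 21004134 0) (P.cons (P.lf 0 2523766 0) (P.cons (P.lf 33362 0 0) P.nil))) (P.cons (P.cons (P.lf 0 1731686 0) (P.cons (P.lf 65782 0 0) P.nil)) (P.cons (P.cons (P.lf 452848 0 0) P.nil) P.nil)))))) 189892)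
 EL.nil)
noncomputable def S372_401_586_660_36 : EL := (EL.cons 14 (TM.mk (P.cons (P.lf 6610456888 0 0) (P.cons (P.lf 374322216 0 0) (P.cons (P.lf 0 40404680 0) (P.cons (P.lf 1068400 0 0) (P.cons (P.lf 64088 0 0) (P.cons (P.lf 0 6720 0) P.nil)))))) 424)
 EL.nil)
noncomputable def S372_401_586_660_37 : EL := (EL.cons 14 (TM.mk (P.cons (P.cons (P.lf 1562300752 0 0) (P.cons (P.lf 0 81473468 0) (P.cons (P.lf 4457898 0 0) (P.lf 495318 0 0)))) (P.cons (P.cons (P.lf 963322040 0 0) (P.cons (P.lf 34835096 0 0) (P.cons (P.lf 0 1906030 0) (P.lf 0 211776 0)))) (P.cons (P.cons (P.lf 0 6982072 0) (P.cons (P.lf 0 3592850 0) (P.cons (P.lf 196582 0 0) (P.lf 21838 0 0)))) (P.cons (P.cons (P.lf 0 15647794 0) (P.cons (P.lf 0 405234 0) (P.cons (P.lf 22174 0 0) P.nil))) (P.cons (P.cons (P.lf 891202 0 0) (P.cons (P.lf 102850 0 0) P.nil)) (P.cons (P.cons (P.lf 97254 0 0) P.nil) P.nil)))))) 43354)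
 EL.nil)
noncomputable def S372_401_586_660_38 : EL := (EL.cons 14 (TM.mk (P.cons (P.cons (P.lf 369230700 0 0) (P.cons (P.lf 0 38510516 0) (P.cons (P.lf 3111294 0 0) (P.cons (P.lf 124236 0 0) (P.cons (P.lf 0 9202 0) (P.cons (P.lf 666 0 0) P.nil)))))) (P.cons (P.cons (P.lf 434430824 0 0) (P.cons (P.lf 0 5099378 0) (P.cons (P.lf 0 636522 0) (P.cons (P.lf 131190 0 0) (P.cons (P.lf 8390 0 0) P.nil))))) (P.cons (P.cons (P.lf 114738616 0 0) (P.cons (P.lf 8680052 0 0) (P.cons (P.lf 0 144822 0) (P.cons (P.lf 0 88894 0) P.nil)))) (P.cons (P.cons (P.lf 0 13332776 0) (P.cons (P.lf 0 1443024 0) (P.cons (P.lf 26626 0 0) P.nil))) (P.cons (P.cons (P.lf 0 2749492 0) (P.cons (P.lf 0 112824 0) P.nil)) (P.cons (P.cons (P.lf 390586 0 0) P.nil) P.nil)))))) 216622)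
 EL.nil)
noncomputable def S372_401_586_660_39 : EL := (EL.cons 14 (TM.mk (P.cons (P.lf 5087133062 0 0) (P.cons (P.lf 576125660 0 0) (P.cons (P.lf 0 45875746 0) (P.cons (P.lf 0 1877024 0) (P.cons (P.lf 381806 0 0) (P.cons (P.lf 0 14808 0) P.nil)))))) 2110)
 EL.nil)
noncomputable def S372_401_586_660_40 : EL := (EL.cons 14 (TM.mk (P.cons (P.cons (P.lf 1202281770 0 0) (P.cons (P.lf 0 62698596 0) (P.cons (P.lf 3430612 0 0) (P.lf 381176 0 0)))) (P.cons (P.cons (P.lf 809412762 0 0) (P.cons (P.lf 23257286 0 0) (P.cons (P.lf 0 1272540 0) (P.lf 0 141390 0)))) (P.cons (P.cons (P.lf 29256786 0 0) (P.cons (P.lf 0 863676 0) (P.cons (P.lf 47254 0 0) (P.lf 5248 0 0)))) (P.cons (P.cons (P.lf 0 16683034 0) (P.cons (P.lf 0 642404 0) (P.cons (P.lf 35150 0 0) P.nil))) (P.cons (P.cons (P.lf 168264 0 0) (P.cons (P.lf 82114 0 0) P.nil)) (P.cons (P.cons (P.lf 192378 0 0) P.nil) P.nil))))))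 53300)
 EL.nil)
noncomputable def S372_401_586_660_41 : EL := (EL.cons 14 (TM.mk (P.cons (P.cons (P.lf 284144612 0 0) (P.cons (P.lf 0 29636094 0) (P.cons (P.lf 2394322 0 0) (P.cons (P.lf 95608 0 0) (P.cons (P.lf 0 7080 0) (P.cons (P.lf 514 0 0) P.nil)))))) (P.cons (P.cons (P.lf 350409826 0 0) (P.cons (P.lf 0 5602436 0) (P.cons (P.lf 0 354260 0) (P.cons (P.lf 106372 0 0) (P.cons (P.lf 6054 0 0) P.nil))))) (P.cons (P.cons (P.lf 105492438 0 0) (P.cons (P.lf 6638734 0 0) (P.cons (P.lf 0 153822 0) (P.cons (P.lf 0 63276 0) P.nil)))) (P.cons (P.cons (P.lf 0 7257922 0) (P.cons (P.lf 0 713046 0) (P.cons (P.lf 17560 0 0) P.nil))) (P.cons (P.cons (P.lf 0 3179804 0) (P.cons (P.lf 0 191458 0) P.nil)) (P.cons (P.cons (P.lf 260702 0 0) P.nil) P.nil)))))) 217850)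
 EL.nil)
noncomputable def S372_401_586_660_42 : EL := (EL.cons 14 (TM.mk (P.cons (P.lf 3914846314 0 0) (P.cons (P.lf 665043568 0 0) (P.cons (P.lf 0 34126800 0) (P.cons (P.lf 0 5520806 0) (P.cons (P.lf 537424 0 0) (P.cons (P.lf 8682 0 0) P.nil)))))) 5662)
 EL.nil)
noncomputable def S372_401_586_660_43 : EL := (EL.cons 14 (TM.mk (P.cons (P.cons (P.lf 925226114 0 0) (P.cons (P.lf 0 48250236 0) (P.cons (P.lf 2640056 0 0) (P.lf 293336 0 0)))) (P.cons (P.cons (P.lf 675282086 0 0) (P.cons (P.lf 15165634 0 0) (P.cons (P.lf 0 829800 0) (P.lf 0 92196 0)))) (P.cons (P.cons (P.lf 52131258 0 0) (P.cons (P.lf 643744 0 0) (P.cons (P.lf 0 35224 0) (P.lf 0 3914 0)))) (P.cons (P.cons (P.lf 0 15221368 0) (P.cons (P.lf 0 649198 0) (P.cons (P.lf 35522 0 0) P.nil))) (P.cons (P.cons (P.lf 0 625476 0) (P.cons (P.lf 41686 0 0) P.nil)) (P.cons (P.cons (P.lf 242588 0 0) P.nil) P.nil)))))) 61380)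
 EL.nil)
noncomputable def S372_401_586_660_44 : EL := (EL.cons 14 (TM.mk (P.cons (P.cons (P.lf 218665890 0 0) (P.cons (P.lf 0 22806706 0) (P.cons (P.lf 1842570 0 0) (P.cons (P.lf 73574 0 0) (P.cons (P.lf 0 5448 0) (P.cons (P.lf 394 0 0) P.nil)))))) (P.cons (P.cons (P.lf 282042972 0 0) (P.cons (P.lf 0 5602850 0) (P.cons (P.lf 0 168286 0) (P.cons (P.lf 86026 0 0) (P.cons (P.lf 4350 0 0) P.nil))))) (P.cons (P.cons (P.lf 95115814 0 0) (P.cons (P.lf 5004158 0 0) (P.cons (P.lf 0 145074 0) (P.cons (P.lf 0 44510 0) P.nil)))) (P.cons (P.cons (P.lf 0 2601258 0) (P.cons (P.lf 0 236768 0) (P.cons (P.lf 8774 0 0) P.nil))) (P.cons (P.cons (P.lf 0 3213826 0) (P.cons (P.lf 0 210554 0) P.nil)) (P.cons (P.cons (P.lf 111712 0 0) P.nil) P.nil)))))) 213112)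
 EL.nil)
noncomputable def S372_401_586_660_45 : EL := (EL.cons 14 (TM.mk (P.cons (P.cons (P.lf 113393810 0 0) (P.cons (P.lf 0 17740348 0) (P.cons (P.lf 1895832 0 0) (P.cons (P.lf 0 9470 0) (P.cons (P.lf 0 5838 0) (P.cons (P.lf 764 0 0) P.nil)))))) (P.cons (P.cons (P.lf 190494444 0 0) (P.cons (P.lf 0 11278754 0) (P.cons (P.lf 239296 0 0) (P.cons (P.lf 133276 0 0) (P.cons (P.lf 0 370 0) P.nil))))) (P.cons (P.cons (P.lf 96444952 0 0) (P.cons (P.lf 3746748 0 0) (P.cons (P.lf 0 373978 0) (P.cons (P.lf 0 19342 0) P.nil)))) (P.cons (P.cons (P.lf 6737992 0 0) (P.cons (P.lf 1456392 0 0) (P.cons (P.lf 70208 0 0) P.nil))) (P.cons (P.cons (P.lf 0 4629800 0) (P.cons (P.lf 0 600302 0) P.nil)) (P.cons (P.cons (P.lf 0 45454 0) P.nil) P.nil)))))) 403300)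
 EL.nil)
noncomputable def S372_401_586_660_46 : EL := (EL.cons 15 (TM.mk (P.lf 4294967296 0 0) 0)
 EL.nil)
noncomputable def S372_401_586_660_47 : EL := (EL.cons 15 (TM.mk (P.cons (P.cons (P.lf 1015063066 0 0) (P.cons (P.lf 0 52935204 0) (P.cons (P.lf 2896400 0 0) (P.lf 321820 0 0)))) (P.cons (P.cons (P.lf 568413964 0 0) (P.cons (P.lf 25630668 0 0) (P.cons (P.lf 0 1402404 0) (P.lf 0 155820 0)))) (P.cons (P.cons (P.lf 0 30518988 0) (P.cons (P.lf 0 4109268 0) (P.cons (P.lf 224840 0 0) (P.lf 24980 0 0)))) (P.cons (P.cons (P.lf 0 5128351 0) (P.cons (P.lf 134616 0 0) (P.cons (P.lf 0 7364 0) P.nil))) (P.cons (P.cons (P.lf 581183 0 0) (P.cons (P.lf 30456 0 0) P.nil)) (P.cons (P.cons (P.lf 0 613 0) P.nil) P.nil)))))) 13173)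
 EL.nil)
noncomputable def S372_401_586_660_48 : EL := (EL.cons 15 (TM.mk (P.cons (P.cons (P.lf 239897758 0 0) (P.cons (P.lf 0 25021177 0) (P.cons (P.lf 2021480 0 0) (P.cons (P.lf 80720 0 0) (P.cons (P.lf 0 5979 0) (P.cons (P.lf 434 0 0) P.nil)))))) (P.cons (P.cons (P.lf 268675396 0 0) (P.cons (P.lf 0 1896342 0) (P.cons (P.lf 0 528031 0) (P.cons (P.lf 80667 0 0) (P.cons (P.lf 5790 0 0) P.nil))))) (P.cons (P.cons (P.lf 60800704 0 0) (P.cons (P.lf 5594078 0 0) (P.cons (P.lf 0 51839 0) (P.cons (P.lf 0 61832 0) P.nil)))) (P.cons (P.cons (P.lf 0 10502067 0) (P.cons (P.lf 0 1261883 0) (P.cons (P.lf 16681 0 0) P.nil))) (P.cons (P.cons (P.lf 0 865843 0) (P.cons (P.lf 32891 0 0) P.nil)) (P.cons (P.cons (P.lf 226424 0 0) P.nil) P.nil)))))) 94946)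
 EL.nil)
noncomputable def S372_401_586_660 : SL := (SL.cons S372_401_586_660_0 (SL.cons S372_401_586_660_1 (SL.cons S372_401_586_660_2 (SL.cons S372_401_586_660_3 (SL.cons S372_401_586_660_4 (SL.cons S372_401_586_660_5 (SL.cons S372_401_586_660_6 (SL.cons S372_401_586_660_7 (SL.cons S372_401_586_660_8 (SL.cons S372_401_586_660_9 (SL.cons S372_401_586_660_10 (SL.cons S372_401_586_660_11 (SL.cons S372_401_586_660_12 (SL.cons S372_401_586_660_13 (SL.cons S372_401_586_660_14 (SL.cons S372_401_586_660_15 (SL.cons S372_401_586_660_16 (SL.cons S372_401_586_660_17 (SL.cons S372_401_586_660_18 (SL.cons S372_401_586_660_19 (SL.cons S372_401_586_660_20 (SL.cons S372_401_586_660_21 (SL.cons S372_401_586_660_22 (SL.cons S372_401_586_660_23 (SL.cons S372_401_586_660_24 (SL.cons S372_401_586_660_25 (SL.cons S372_401_586_660_26 (SL.cons S372_401_586_660_27 (SL.cons S372_401_586_660_28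 (SL.cons S372_401_586_660_29 (SL.cons S372_401_586_660_30 (SL.cons S372_401_586_660_31 (SL.cons S372_401_586_660_32 (SL.cons S372_401_586_660_33 (SL.cons S372_401_586_660_34 (SL.cons S372_401_586_660_35 (SL.cons S372_401_586_660_36 (SL.cons S372_401_586_660_37 (SL.cons S372_401_586_660_38 (SL.cons S372_401_586_660_39 (SL.cons S372_401_586_660_40 (SL.cons S372_401_586_660_41 (SL.cons S372_401_586_660_42 (SL.cons S372_401_586_660_43 (SL.cons S372_401_586_660_44 (SL.cons S372_401_586_660_45 (SL.cons S372_401_586_660_46 (SL.cons S372_401_586_660_47 (SL.cons S372_401_586_660_48 SL.nil)))))))))))))))))))))))))))))))))))))))))))))))))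
noncomputable def S372_401_660_808_0 : EL := (EL.cons 0 (TM.mk (P.cons (P.lf 3984603821 0 0) (P.cons (P.lf 0 506360443 0) (P.cons (P.lf 40320479 0 0) (P.cons (P.lf 1649728 0 0) (P.cons (P.lf 0 335571 0) (P.cons (P.lf 13014 0 0) P.nil)))))) 1861)
 (EL.cons 1 (TM.mk (P.cons (P.lf 1579171841 0 0) (P.cons (P.lf 0 165450982 0) (P.cons (P.lf 0 24357408 0) (P.cons (P.lf 2583976 0 0) (P.cons (P.lf 0 21706 0) (P.cons (P.lf 0 11396 0) P.nil)))))) 1057)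
 (EL.cons 5 (TM.mk (P.cons (P.lf 5884696382 0 0) (P.cons (P.lf 180039266 0 0) (P.cons (P.lf 0 14336174 0) (P.cons (P.lf 0 586566 0) (P.cons (P.lf 119316 0 0) (P.cons (P.lf 0 4630 0) P.nil)))))) 385)
 (EL.cons 9 (TM.mk (P.lf 6442450944 0 0) 2)
 EL.nil))))
noncomputable def S372_401_660_808_1 : EL := (EL.cons 0 (TM.mk (P.cons (P.cons (P.lf 4880323263 0 0) (P.cons (P.lf 117964743 0 0) (P.cons (P.lf 0 50867716 0) (P.lf 0 5651954 0)))) (P.cons (P.cons (P.lf 0 243747334 0) (P.cons (P.lf 0 31776583 0) (P.cons (P.lf 13702413 0 0) (P.lf 1522476 0 0)))) (P.cons (P.cons (P.lf 0 243458772 0) (P.cons (P.lf 0 5130140 0) (P.cons (P.lf 2212177 0 0) (P.lf 245813 0 0)))) (P.cons (P.cons (P.lf 39348166 0 0) (P.cons (P.lf 2561604 0 0) (P.cons (P.lf 0 1104591 0) P.nil))) (P.cons (P.cons (P.lf 1399861 0 0) (P.cons (P.lf 0 232188 0) P.nil)) (P.cons (P.cons (P.lf 0 690558 0) P.nil) P.nil))))))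 680963)
 (EL.cons 1 (TM.mk (P.cons (P.cons (P.lf 1652134469 0 0) (P.cons (P.lf 35076096 0 0) (P.cons (P.lf 0 15125214 0) (P.lf 0 1680583 0)))) (P.cons (P.cons (P.lf 561850014 0 0) (P.cons (P.lf 16173996 0 0) (P.cons (P.lf 0 6974406 0) (P.lf 0 774924 0)))) (P.cons (P.cons (P.lf 0 150333356 0) (P.cons (P.lf 0 8775219 0) (P.cons (P.lf 3783966 0 0) (P.lf 420431 0 0)))) (P.cons (P.cons (P.lf 0 11164961 0) (P.cons (P.lf 653854 0 0) (P.cons (P.lf 0 281944 0) P.nil))) (P.cons (P.cons (P.lf 3713238 0 0) (P.cons (P.lf 142352 0 0) P.nil)) (P.cons (P.cons (P.lf 0 108755 0) P.nil) P.nil)))))) 305502)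
 (EL.cons 5 (TM.mk (P.cons (P.cons (P.lf 0 220501787 0) (P.cons (P.lf 0 133292824 0) (P.cons (P.lf 57477366 0 0) (P.lf 6386368 0 0)))) (P.cons (P.cons (P.lf 1155076770 0 0) (P.cons (P.lf 55528956 0 0) (P.cons (P.lf 0 23944706 0) (P.lf 0 2660516 0)))) (P.cons (P.cons (P.lf 18310338 0 0) (P.cons (P.lf 0 5267280 0) (P.cons (P.lf 2271310 0 0) (P.lf 252360 0 0)))) (P.cons (P.cons (P.lf 0 22172368 0) (P.cons (P.lf 0 678484 0) (P.cons (P.lf 292566 0 0) P.nil))) (P.cons (P.cons (P.lf 611650 0 0) (P.cons (P.lf 135120 0 0) P.nil)) (P.cons (P.cons (P.lf 230992 0 0) P.nil) P.nil)))))) 226936)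
 (EL.cons 9 (TM.mk (P.cons (P.cons (P.lf 1336521405 0 0) (P.cons (P.lf 0 80602764 0) (P.cons (P.lf 34756818 0 0) (P.lf 3861864 0 0)))) (P.cons (P.cons (P.lf 942715632 0 0) (P.cons (P.lf 39027006 0 0) (P.cons (P.lf 0 16828884 0) (P.lf 0 1869870 0)))) (P.cons (P.cons (P.lf 0 60223032 0) (P.cons (P.lf 0 6257052 0) (P.cons (P.lf 2698110 0 0) (P.lf 299784 0 0)))) (P.cons (P.cons (P.lf 0 7219330 0) (P.cons (P.lf 204978 0 0) (P.cons (P.lf 0 88386 0) P.nil))) (P.cons (P.cons (P.lf 978850 0 0) (P.cons (P.lf 46380 0 0) P.nil)) (P.cons (P.cons (P.lf 0 12823 0) P.nil) P.nil)))))) 61748)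
 (EL.cons 2 (TM.mk (P.cons (P.cons (P.lf 0 238424312 0) (P.cons (P.lf 222114304 0 0) (P.cons (P.lf 22796150 0 0) (P.cons (P.lf 0 4740963 0) (P.lf 0 395077 0))))) (P.cons (P.cons (P.lf 63460735 0 0) (P.cons (P.lf 0 59119545 0) (P.cons (P.lf 0 6067586 0) (P.cons (P.lf 1261887 0 0) (P.lf 105153 0 0))))) (P.cons (P.cons (P.lf 0 312986 0) (P.cons (P.lf 291574 0 0) (P.cons (P.lf 29922 0 0) (P.cons (P.lf 0 6221 0) P.nil)))) (P.cons (P.cons (P.lf 0 1106701 0) (P.cons (P.lf 1030995 0 0) (P.cons (P.lf 105811 0 0) P.nil))) (P.cons (P.cons (P.lf 84389 0 0) (P.cons (P.lf 0 78615 0) P.nil)) (P.cons (P.cons (P.lf 2438 0 0) P.nil) P.nil)))))) 68016)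
 (EL.cons 6 (TM.mk (P.cons (P.cons (P.lf 84210117 0 0) (P.cons (P.lf 0 78449517 0) (P.cons (P.lf 0 8051469 0) (P.cons (P.lf 1674480 0 0) (P.lf 139539 0 0))))) (P.cons (P.cons (P.lf 0 40773654 0) (P.cons (P.lf 37984431 0 0) (P.cons (P.lf 3898437 0 0) (P.cons (P.lf 0 810765 0) (P.lf 0 67563 0))))) (P.cons (P.cons (P.lf 6537087 0 0) (P.cons (P.lf 0 6089901 0) (P.cons (P.lf 0 625020 0) (P.cons (P.lf 129984 0 0) P.nil)))) (P.cons (P.cons (P.lf 0 214152 0) (P.cons (P.lf 199503 0 0) (P.cons (P.lf 20475 0 0) P.nil))) (P.cons (P.cons (P.lf 0 48456 0) (P.cons (P.lf 45141 0 0) P.nil)) (P.cons (P.cons (P.lf 5385 0 0) P.nil) P.nil)))))) 33423)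
 EL.nil))))))
noncomputable def S372_401_660_808_2 : EL := (EL.cons 0 (TM.mk (P.cons (P.cons (P.lf 1853410681 0 0) (P.cons (P.lf 0 52488301 0) (P.cons (P.lf 19058075 0 0) (P.cons (P.lf 5598392 0 0) (P.cons (P.lf 0 322208 0) (P.cons (P.lf 0 147736 0) P.nil)))))) (P.cons (P.cons (P.lf 1107003402 0 0) (P.cons (P.lf 88511884 0 0) (P.cons (P.lf 0 35259728 0) (P.cons (P.lf 0 6748362 0) (P.cons (P.lf 262021 0 0) P.nil))))) (P.cons (P.cons (P.lf 0 304445957 0) (P.cons (P.lf 0 26737097 0) (P.cons (P.lf 10717446 0 0) (P.cons (P.lf 1981211 0 0) P.nil)))) (P.cons (P.cons (P.lf 0 42191986 0) (P.cons (P.lf 0 972586 0) (P.cons (P.lf 449170 0 0) P.nil))) (P.cons (P.cons (P.lf 16971270 0 0) (P.cons (P.lf 1528651 0 0) P.nil)) (P.cons (P.cons (P.lf 0 387652 0) P.nil) P.nil)))))) 4553625)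
 (EL.cons 1 (TM.mk (P.cons (P.cons (P.lf 617524509 0 0) (P.cons (P.lf 0 18589374 0) (P.cons (P.lf 6891067 0 0) (P.cons (P.lf 1860768 0 0) (P.cons (P.lf 0 101370 0) (P.cons (P.lf 0 46484 0) P.nil)))))) (P.cons (P.cons (P.lf 627870912 0 0) (P.cons (P.lf 23887895 0 0) (P.cons (P.lf 0 10015209 0) (P.cons (P.lf 0 1390767 0) (P.cons (P.lf 25737 0 0) P.nil))))) (P.cons (P.cons (P.lf 54571702 0 0) (P.cons (P.lf 4947339 0 0) (P.cons (P.lf 0 1903542 0) (P.cons (P.lf 0 435232 0) P.nil)))) (P.cons (P.cons (P.lf 0 53512579 0) (P.cons (P.lf 0 4392685 0) (P.cons (P.lf 1768138 0 0) P.nil))) (P.cons (P.cons (P.lf 348496 0 0) (P.cons (P.lf 474579 0 0) P.nil)) (P.cons (P.cons (P.lf 1498559 0 0) P.nil) P.nil)))))) 2043016)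
 (EL.cons 5 (TM.mk (P.cons (P.cons (P.lf 0 344752694 0) (P.cons (P.lf 0 19239524 0) (P.cons (P.lf 10710483 0 0) (P.cons (P.lf 0 1160220 0) (P.cons (P.lf 217555 0 0) (P.cons (P.lf 99742 0 0) P.nil)))))) (P.cons (P.cons (P.lf 49694130 0 0) (P.cons (P.lf 0 39853324 0) (P.cons (P.lf 15044630 0 0) (P.cons (P.lf 3755529 0 0) (P.cons (P.lf 0 192891 0) P.nil))))) (P.cons (P.cons (P.lf 236267854 0 0) (P.cons (P.lf 21216513 0 0) (P.cons (P.lf 0 8414737 0) (P.cons (P.lf 0 1649589 0) P.nil)))) (P.cons (P.cons (P.lf 0 8367852 0) (P.cons (P.lf 0 2255329 0) (P.cons (P.lf 870197 0 0) P.nil))) (P.cons (P.cons (P.lf 0 7330417 0) (P.cons (P.lf 0 448034 0) P.nil)) (P.cons (P.cons (P.lf 609428 0 0) P.nil) P.nil)))))) 1890207)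
 (EL.cons 9 (TM.mk (P.cons (P.cons (P.lf 277268616 0 0) (P.cons (P.lf 0 33442960 0) (P.cons (P.lf 15429417 0 0) (P.cons (P.lf 732630 0 0) (P.cons (P.lf 90877 0 0) (P.cons (P.lf 41668 0 0) P.nil)))))) (P.cons (P.cons (P.lf 391142946 0 0) (P.cons (P.lf 0 7396270 0) (P.cons (P.lf 2212806 0 0) (P.cons (P.lf 1196571 0 0) (P.cons (P.lf 0 88005 0) P.nil))))) (P.cons (P.cons (P.lf 112959186 0 0) (P.cons (P.lf 10332349 0 0) (P.cons (P.lf 0 4062441 0) (P.cons (P.lf 0 833965 0) P.nil)))) (P.cons (P.cons (P.lf 0 20620096 0) (P.cons (P.lf 0 2295117 0) (P.cons (P.lf 908743 0 0) P.nil))) (P.cons (P.cons (P.lf 0 1143699 0) (P.cons (P.lf 84252 0 0) P.nil)) (P.cons (P.cons (P.lf 416116 0 0) P.nil) P.nil)))))) 701555)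
 (EL.cons 2 (TM.mk (P.cons (P.cons (P.lf 0 98924833 0) (P.cons (P.lf 98123580 0 0) (P.cons (P.lf 1327955 0 0) (P.cons (P.lf 0 426729 0) (P.cons (P.lf 466959 0 0) (P.cons (P.lf 0 13938 0) P.nil)))))) (P.cons (P.cons (P.lf 0 43446099 0) (P.cons (P.lf 35997474 0 0) (P.cons (P.lf 10254661 0 0) (P.cons (P.lf 0 2019712 0) (P.cons (P.lf 0 545383 0) P.nil))))) (P.cons (P.cons (P.lf 22899898 0 0) (P.cons (P.lf 0 20093551 0) (P.cons (P.lf 0 3879129 0) (P.cons (P.lf 775462 0 0) P.nil)))) (P.cons (P.cons (P.lf 0 1202872 0) (P.cons (P.lf 1006042 0 0) (P.cons (P.lf 271102 0 0) P.nil))) (P.cons (P.cons (P.lf 0 497694 0) (P.cons (P.lf 449341 0 0) P.nil)) (P.cons (P.cons (P.lf 67331 0 0) P.nil) P.nil)))))) 738578)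
 (EL.cons 6 (TM.mk (P.cons (P.cons (P.lf 34939692 0 0) (P.cons (P.lf 0 34656690 0) (P.cons (P.lf 0 469020 0) (P.cons (P.lf 150720 0 0) (P.cons (P.lf 0 164928 0) (P.cons (P.lf 4920 0 0) P.nil)))))) (P.cons (P.cons (P.lf 7727280 0 0) (P.cons (P.lf 0 5158170 0) (P.cons (P.lf 0 3519630 0) (P.cons (P.lf 680490 0 0) (P.cons (P.lf 228582 0 0) P.nil))))) (P.cons (P.cons (P.lf 0 10794768 0) (P.cons (P.lf 9235182 0 0) (P.cons (P.lf 2151162 0 0) (P.cons (P.lf 0 426654 0) P.nil)))) (P.cons (P.cons (P.lf 2397834 0 0) (P.cons (P.lf 0 2064684 0) (P.cons (P.lf 0 459732 0) P.nil))) (P.cons (P.cons (P.lf 0 88020 0) (P.cons (P.lf 66540 0 0) P.nil)) (P.cons (P.cons (P.lf 0 35316 0) P.nil) P.nil)))))) 454464)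
 EL.nil))))))
noncomputable def S372_401_660_808_3 : EL := (EL.cons 0 (TM.mk (P.cons (P.lf 4471113042 0 0) (P.cons (P.lf 506360443 0 0) (P.cons (P.lf 0 40320479 0) (P.cons (P.lf 0 1649728 0) (P.cons (P.lf 335571 0 0) (P.cons (P.lf 0 13014 0) P.nil)))))) 1861)
 (EL.cons 1 (TM.mk (P.cons (P.lf 0 1579171841 0) (P.cons (P.lf 165450982 0 0) (P.cons (P.lf 24357408 0 0) (P.cons (P.lf 0 2583976 0) (P.cons (P.lf 21706 0 0) (P.cons (P.lf 11396 0 0) P.nil)))))) 1057)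
 (EL.cons 5 (TM.mk (P.cons (P.lf 557754562 0 0) (P.cons (P.lf 0 180039266 0) (P.cons (P.lf 14336174 0 0) (P.cons (P.lf 586566 0 0) (P.cons (P.lf 0 119316 0) (P.cons (P.lf 4630 0 0) P.nil)))))) 378)
 EL.nil)))
noncomputable def S372_401_660_808_4 : EL := (EL.cons 0 (TM.mk (P.cons (P.cons (P.lf 927556660 0 0) (P.cons (P.lf 0 55938969 0) (P.cons (P.lf 24121511 0 0) (P.lf 2680163 0 0)))) (P.cons (P.cons (P.lf 759299491 0 0) (P.cons (P.lf 20749881 0 0) (P.cons (P.lf 0 8947582 0) (P.lf 0 994171 0)))) (P.cons (P.cons (P.lf 23935104 0 0) (P.cons (P.lf 0 770561 0) (P.cons (P.lf 332274 0 0) (P.lf 36914 0 0)))) (P.cons (P.cons (P.lf 0 15985940 0) (P.cons (P.lf 0 573143 0) (P.cons (P.lf 247148 0 0) P.nil))) (P.cons (P.cons (P.lf 317032 0 0) (P.cons (P.lf 73265 0 0) P.nil)) (P.cons (P.cons (P.lf 175042 0 0) P.nil) P.nil)))))) 144678)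
 (EL.cons 1 (TM.mk (P.cons (P.cons (P.lf 0 327607766 0) (P.cons (P.lf 19757326 0 0) (P.cons (P.lf 0 8519580 0) (P.lf 0 946618 0)))) (P.cons (P.cons (P.lf 0 196754497 0) (P.cons (P.lf 0 11636278 0) (P.cons (P.lf 5017693 0 0) (P.lf 557518 0 0)))) (P.cons (P.cons (P.lf 44025159 0 0) (P.cons (P.lf 2231251 0 0) (P.cons (P.lf 0 962139 0) (P.lf 0 106901 0)))) (P.cons (P.cons (P.lf 3251116 0 0) (P.cons (P.lf 0 31051 0) (P.cons (P.lf 13389 0 0) P.nil))) (P.cons (P.cons (P.lf 0 1026631 0) (P.cons (P.lf 0 45684 0) P.nil)) (P.cons (P.cons (P.lf 30682 0 0) P.nil) P.nil)))))) 66949)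
 (EL.cons 5 (TM.mk (P.cons (P.cons (P.lf 115709210 0 0) (P.cons (P.lf 0 6978176 0) (P.cons (P.lf 3009066 0 0) (P.lf 334340 0 0)))) (P.cons (P.cons (P.lf 44265390 0 0) (P.cons (P.lf 5631264 0 0) (P.cons (P.lf 0 2428264 0) (P.lf 0 269806 0)))) (P.cons (P.cons (P.lf 0 28584600 0) (P.cons (P.lf 0 1811706 0) (P.cons (P.lf 781226 0 0) (P.lf 86802 0 0)))) (P.cons (P.cons (P.lf 3277446 0 0) (P.cons (P.lf 272110 0 0) (P.cons (P.lf 0 117336 0) P.nil))) (P.cons (P.cons (P.lf 213558 0 0) (P.cons (P.lf 0 10590 0) P.nil)) (P.cons (P.cons (P.lf 0 66510 0) P.nil) P.nil)))))) 39662)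
 EL.nil)))
noncomputable def S372_401_660_808_5 : EL := (EL.cons 0 (TM.mk (P.cons (P.cons (P.lf 192426660 0 0) (P.cons (P.lf 0 23209683 0) (P.cons (P.lf 10708138 0 0) (P.cons (P.lf 508450 0 0) (P.cons (P.lf 63068 0 0) (P.cons (P.lf 28917 0 0) P.nil)))))) (P.cons (P.cons (P.lf 293248982 0 0) (P.cons (P.lf 0 7761603 0) (P.cons (P.lf 2748417 0 0) (P.cons (P.lf 888011 0 0) (P.cons (P.lf 0 53933 0) P.nil))))) (P.cons (P.cons (P.lf 107402136 0 0) (P.cons (P.lf 6798708 0 0) (P.cons (P.lf 0 2742011 0) (P.cons (P.lf 0 489315 0) P.nil)))) (P.cons (P.cons (P.lf 0 7951197 0) (P.cons (P.lf 0 725878 0) (P.cons (P.lf 293577 0 0) P.nil))) (P.cons (P.cons (P.lf 0 3207104 0) (P.cons (P.lf 0 186431 0) P.nil)) (P.cons (P.cons (P.lf 318835 0 0) P.nil) P.nil)))))) 825459)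
 (EL.cons 1 (TM.mk (P.cons (P.cons (P.lf 0 67964008 0) (P.cons (P.lf 8197528 0 0) (P.cons (P.lf 0 3782053 0) (P.cons (P.lf 0 179580 0) (P.cons (P.lf 0 22275 0) (P.cons (P.lf 0 10213 0) P.nil)))))) (P.cons (P.cons (P.lf 0 88756213 0) (P.cons (P.lf 954110 0 0) (P.cons (P.lf 0 146152 0) (P.cons (P.lf 0 274486 0) (P.cons (P.lf 23904 0 0) P.nil))))) (P.cons (P.cons (P.lf 0 16595148 0) (P.cons (P.lf 0 2849047 0) (P.cons (P.lf 1110946 0 0) (P.cons (P.lf 237920 0 0) P.nil)))) (P.cons (P.cons (P.lf 9322950 0 0) (P.cons (P.lf 813376 0 0) (P.cons (P.lf 0 324901 0) P.nil))) (P.cons (P.cons (P.lf 21915 0 0) (P.cons (P.lf 0 37674 0) P.nil)) (P.cons (P.cons (P.lf 0 252826 0) P.nil) P.nil)))))) 365965)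
 (EL.cons 5 (TM.mk (P.cons (P.cons (P.lf 24004502 0 0) (P.cons (P.lf 0 2895320 0) (P.cons (P.lf 1335798 0 0) (P.cons (P.lf 63426 0 0) (P.cons (P.lf 7866 0 0) (P.cons (P.lf 3606 0 0) P.nil)))))) (P.cons (P.cons (P.lf 26114676 0 0) (P.cons (P.lf 294258 0 0) (P.cons (P.lf 0 239612 0) (P.cons (P.lf 83118 0 0) (P.cons (P.lf 0 10158 0) P.nil))))) (P.cons (P.cons (P.lf 0 534364 0) (P.cons (P.lf 1026796 0 0) (P.cons (P.lf 0 379208 0) (P.cons (P.lf 0 104008 0) P.nil)))) (P.cons (P.cons (P.lf 0 4046272 0) (P.cons (P.lf 0 506948 0) (P.cons (P.lf 198530 0 0) P.nil))) (P.cons (P.cons (P.lf 759070 0 0) (P.cons (P.lf 94370 0 0) P.nil)) (P.cons (P.cons (P.lf 25340 0 0) P.nil) P.nil)))))) 180712)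
 EL.nil)))
noncomputable def S372_401_660_808_6 : EL := (EL.cons 12 (TM.mk (P.lf 8589934592 0 0) 0)
 (EL.cons 3 (TM.mk (P.cons (P.lf 3098651666 0 0) (P.cons (P.lf 175463538 0 0) (P.cons (P.lf 0 18939693 0) (P.cons (P.lf 500812 0 0) (P.cons (P.lf 30041 0 0) (P.cons (P.lf 0 3150 0) P.nil)))))) 205)
 (EL.cons 7 (TM.mk (P.cons (P.lf 0 1094426245 0) (P.cons (P.lf 176636564 0 0) (P.cons (P.lf 189038 0 0) (P.cons (P.lf 0 544971 0) (P.cons (P.lf 29121 0 0) (P.cons (P.lf 63 0 0) P.nil)))))) 165)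
 EL.nil)))
noncomputable def S372_401_660_808_7 : EL := (EL.cons 12 (TM.mk (P.cons (P.cons (P.lf 1782028540 0 0) (P.cons (P.lf 0 107470352 0) (P.cons (P.lf 46342424 0 0) (P.lf 5149152 0 0)))) (P.cons (P.cons (P.lf 1256954176 0 0) (P.cons (P.lf 52036008 0 0) (P.cons (P.lf 0 22438512 0) (P.lf 0 2493160 0)))) (P.cons (P.cons (P.lf 0 80297376 0) (P.cons (P.lf 0 8342736 0) (P.cons (P.lf 3597480 0 0) (P.lf 399712 0 0)))) (P.cons (P.cons (P.lf 0 9625774 0) (P.cons (P.lf 273304 0 0) (P.cons (P.lf 0 117848 0) P.nil))) (P.cons (P.cons (P.lf 1305134 0 0) (P.cons (P.lf 61840 0 0) P.nil)) (P.cons (P.cons (P.lf 0 17098 0) P.nil) P.nil)))))) 82306)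
 (EL.cons 3 (TM.mk (P.cons (P.cons (P.lf 3452197565 0 0) (P.cons (P.lf 77535672 0 0) (P.cons (P.lf 0 33434252 0) (P.lf 0 3714910 0)))) (P.cons (P.cons (P.lf 0 169468514 0) (P.cons (P.lf 0 33151436 0) (P.cons (P.lf 14295270 0 0) (P.lf 1588356 0 0)))) (P.cons (P.cons (P.lf 0 50073768 0) (P.cons (P.lf 3419198 0 0) (P.cons (P.lf 0 1474394 0) (P.lf 0 163814 0)))) (P.cons (P.cons (P.lf 12920521 0 0) (P.cons (P.lf 385646 0 0) (P.cons (P.lf 0 166296 0) P.nil))) (P.cons (P.cons (P.lf 0 524562 0) (P.cons (P.lf 0 97884 0) P.nil)) (P.cons (P.cons (P.lf 0 102376 0) P.nil) P.nil)))))) 269140)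
 (EL.cons 7 (TM.mk (P.cons (P.cons (P.lf 2601102255 0 0) (P.cons (P.lf 130773622 0 0) (P.cons (P.lf 0 56391061 0) (P.lf 0 6265674 0)))) (P.cons (P.cons (P.lf 0 170601468 0) (P.cons (P.lf 0 33373071 0) (P.cons (P.lf 14390844 0 0) (P.lf 1598985 0 0)))) (P.cons (P.cons (P.lf 0 69005981 0) (P.cons (P.lf 0 195973 0) (P.cons (P.lf 84504 0 0) (P.lf 9388 0 0)))) (P.cons (P.cons (P.lf 4016834 0 0) (P.cons (P.lf 563148 0 0) (P.cons (P.lf 0 242833 0) P.nil))) (P.cons (P.cons (P.lf 672979 0 0) (P.cons (P.lf 0 21615 0) P.nil)) (P.cons (P.cons (P.lf 0 78126 0) P.nil) P.nil)))))) 143584)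
 (EL.cons 10 (TM.mk (P.cons (P.cons (P.lf 0 330474267 0) (P.cons (P.lf 307867353 0 0) (P.cons (P.lf 31597203 0 0) (P.cons (P.lf 0 6571338 0) (P.lf 0 547611 0))))) (P.cons (P.cons (P.lf 106674777 0 0) (P.cons (P.lf 0 99377424 0) (P.cons (P.lf 0 10199355 0) (P.cons (P.lf 2121180 0 0) (P.lf 176763 0 0))))) (P.cons (P.cons (P.lf 0 8494302 0) (P.cons (P.lf 7913229 0 0) (P.cons (P.lf 812154 0 0) (P.cons (P.lf 0 168903 0) P.nil)))) (P.cons (P.cons (P.lf 0 347544 0) (P.cons (P.lf 323769 0 0) (P.cons (P.lf 33228 0 0) P.nil))) (P.cons (P.cons (P.lf 70695 0 0) (P.cons (P.lf 0 65859 0) P.nil)) (P.cons (P.cons (P.lf 0 2742 0) P.nil) P.nil)))))) 33279)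
 EL.nil))))
noncomputable def S372_401_660_808_8 : EL := (EL.cons 12 (TM.mk (P.cons (P.cons (P.lf 369691488 0 0) (P.cons (P.lf 0 44590614 0) (P.cons (P.lf 20572556 0 0) (P.cons (P.lf 976840 0 0) (P.cons (P.lf 121170 0 0) (P.cons (P.lf 55558 0 0) P.nil)))))) (P.cons (P.cons (P.lf 521523928 0 0) (P.cons (P.lf 0 9861694 0) (P.cons (P.lf 2950408 0 0) (P.cons (P.lf 1595428 0 0) (P.cons (P.lf 0 117340 0) P.nil))))) (P.cons (P.cons (P.lf 150612248 0 0) (P.cons (P.lf 13776466 0 0) (P.cons (P.lf 0 5416588 0) (P.cons (P.lf 0 1111954 0) P.nil)))) (P.cons (P.cons (P.lf 0 27493462 0) (P.cons (P.lf 0 3060156 0) (P.cons (P.lf 1211658 0 0) P.nil))) (P.cons (P.cons (P.lf 0 1524932 0) (P.cons (P.lf 112336 0 0) P.nil)) (P.cons (P.cons (P.lf 554822 0 0) P.nil) P.nil)))))) 935378)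
 (EL.cons 3 (TM.mk (P.cons (P.cons (P.lf 1298995224 0 0) (P.cons (P.lf 0 38126645 0) (P.cons (P.lf 14015478 0 0) (P.cons (P.lf 3918247 0 0) (P.cons (P.lf 0 218551 0) (P.cons (P.lf 0 100206 0) P.nil)))))) (P.cons (P.cons (P.lf 744315849 0 0) (P.cons (P.lf 59470624 0 0) (P.cons (P.lf 0 23433254 0) (P.cons (P.lf 0 4756312 0) (P.cons (P.lf 199266 0 0) P.nil))))) (P.cons (P.cons (P.lf 0 199081883 0) (P.cons (P.lf 0 22105346 0) (P.cons (P.lf 8734806 0 0) (P.cons (P.lf 1746690 0 0) P.nil)))) (P.cons (P.cons (P.lf 0 5892678 0) (P.cons (P.lf 2028900 0 0) (P.cons (P.lf 0 748499 0) P.nil))) (P.cons (P.cons (P.lf 7340718 0 0) (P.cons (P.lf 465129 0 0) P.nil)) (P.cons (P.cons (P.lf 0 630646 0) P.nil) P.nil)))))) 2366517)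
 (EL.cons 7 (TM.mk (P.cons (P.cons (P.lf 1126327197 0 0) (P.cons (P.lf 0 16507598 0) (P.cons (P.lf 4017299 0 0) (P.cons (P.lf 3465247 0 0) (P.cons (P.lf 0 279450 0) (P.cons (P.lf 0 128128 0) P.nil)))))) (P.cons (P.cons (P.lf 749291823 0 0) (P.cons (P.lf 59868202 0 0) (P.cons (P.lf 0 23589910 0) (P.cons (P.lf 0 4788111 0) (P.cons (P.lf 200591 0 0) P.nil))))) (P.cons (P.cons (P.lf 0 118731650 0) (P.cons (P.lf 0 15726823 0) (P.cons (P.lf 6221631 0 0) (P.cons (P.lf 1236410 0 0) P.nil)))) (P.cons (P.cons (P.lf 0 27756477 0) (P.cons (P.lf 0 608296 0) (P.cons (P.lf 294579 0 0) P.nil))) (P.cons (P.cons (P.lf 4317238 0 0) (P.cons (P.lf 542961 0 0) P.nil)) (P.cons (P.cons (P.lf 292333 0 0) P.nil) P.nil)))))) 1450396)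
 (EL.cons 10 (TM.mk (P.cons (P.cons (P.lf 0 137117358 0) (P.cons (P.lf 136006758 0 0) (P.cons (P.lf 1840644 0 0) (P.cons (P.lf 0 591486 0) (P.cons (P.lf 647244 0 0) (P.cons (P.lf 0 19320 0) P.nil)))))) (P.cons (P.cons (P.lf 0 52455228 0) (P.cons (P.lf 42193758 0 0) (P.cons (P.lf 14109516 0 0) (P.cons (P.lf 0 2765982 0) (P.cons (P.lf 0 792588 0) P.nil))))) (P.cons (P.cons (P.lf 33873234 0 0) (P.cons (P.lf 0 29409144 0) (P.cons (P.lf 0 6164478 0) (P.cons (P.lf 1227858 0 0) P.nil)))) (P.cons (P.cons (P.lf 0 3883824 0) (P.cons (P.lf 3295686 0 0) (P.cons (P.lf 810780 0 0) P.nil))) (P.cons (P.cons (P.lf 0 253068 0) (P.cons (P.lf 248304 0 0) P.nil)) (P.cons (P.cons (P.lf 78816 0 0) P.nil) P.nil)))))) 1059648)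
 EL.nil))))
noncomputable def S372_401_660_808_9 : EL := (EL.cons 3 (TM.mk (P.cons (P.lf 3098651666 0 0) (P.cons (P.lf 175463538 0 0) (P.cons (P.lf 0 18939693 0) (P.cons (P.lf 500812 0 0) (P.cons (P.lf 30041 0 0) (P.cons (P.lf 0 3150 0) P.nil)))))) 205)
 (EL.cons 7 (TM.mk (P.cons (P.lf 0 1094426245 0) (P.cons (P.lf 176636564 0 0) (P.cons (P.lf 189038 0 0) (P.cons (P.lf 0 544971 0) (P.cons (P.lf 29121 0 0) (P.cons (P.lf 63 0 0) P.nil)))))) 165)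
 EL.nil))
noncomputable def S372_401_660_808_10 : EL := (EL.cons 3 (TM.mk (P.cons (P.cons (P.lf 642832100 0 0) (P.cons (P.lf 0 38767836 0) (P.cons (P.lf 16717126 0 0) (P.lf 1857455 0 0)))) (P.cons (P.cons (P.lf 489822610 0 0) (P.cons (P.lf 16575718 0 0) (P.cons (P.lf 0 7147635 0) (P.lf 0 794178 0)))) (P.cons (P.cons (P.lf 0 7219500 0) (P.cons (P.lf 0 1709599 0) (P.cons (P.lf 737197 0 0) (P.lf 81907 0 0)))) (P.cons (P.cons (P.lf 0 7780040 0) (P.cons (P.lf 0 192823 0) (P.cons (P.lf 83148 0 0) P.nil))) (P.cons (P.cons (P.lf 530739 0 0) (P.cons (P.lf 48942 0 0) P.nil)) (P.cons (P.cons (P.lf 40775 0 0) P.nil) P.nil)))))) 66618)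
 (EL.cons 7 (TM.mk (P.cons (P.cons (P.lf 0 227044662 0) (P.cons (P.lf 13692580 0 0) (P.cons (P.lf 0 5904394 0) (P.lf 0 656043 0)))) (P.cons (P.cons (P.lf 0 123501783 0) (P.cons (P.lf 0 8839737 0) (P.cons (P.lf 3811794 0 0) (P.lf 423531 0 0)))) (P.cons (P.cons (P.lf 36116746 0 0) (P.cons (P.lf 2130593 0 0) (P.cons (P.lf 0 918735 0) (P.lf 0 102080 0)))) (P.cons (P.cons (P.lf 0 510166 0) (P.cons (P.lf 0 198411 0) (P.cons (P.lf 85556 0 0) P.nil))) (P.cons (P.cons (P.lf 0 439691 0) (P.cons (P.lf 0 6108 0) P.nil)) (P.cons (P.cons (P.lf 38172 0 0) P.nil) P.nil)))))) 28932)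
 EL.nil))
noncomputable def S372_401_660_808_11 : EL := (EL.cons 3 (TM.mk (P.cons (P.cons (P.lf 133359006 0 0) (P.cons (P.lf 0 16085195 0) (P.cons (P.lf 7421148 0 0) (P.cons (P.lf 352375 0 0) (P.cons (P.lf 43709 0 0) (P.cons (P.lf 20040 0 0) P.nil)))))) (P.cons (P.cons (P.lf 195681159 0 0) (P.cons (P.lf 0 4468250 0) (P.cons (P.lf 1484530 0 0) (P.cons (P.lf 595472 0 0) (P.cons (P.lf 0 39852 0) P.nil))))) (P.cons (P.cons (P.lf 64168297 0 0) (P.cons (P.lf 4866466 0 0) (P.cons (P.lf 0 1939020 0) (P.cons (P.lf 0 370680 0) P.nil)))) (P.cons (P.cons (P.lf 0 7969566 0) (P.cons (P.lf 0 803340 0) (P.cons (P.lf 321133 0 0) P.nil))) (P.cons (P.cons (P.lf 0 1412070 0) (P.cons (P.lf 0 53091 0) P.nil)) (P.cons (P.cons (P.lf 240080 0 0) P.nil) P.nil)))))) 460793)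
 (EL.cons 7 (TM.mk (P.cons (P.cons (P.lf 0 47101647 0) (P.cons (P.lf 5681200 0 0) (P.cons (P.lf 0 2621107 0) (P.cons (P.lf 0 124457 0) (P.cons (P.lf 0 15438 0) (P.cons (P.lf 0 7078 0) P.nil)))))) (P.cons (P.cons (P.lf 0 58844271 0) (P.cons (P.lf 339532 0 0) (P.cons (P.lf 47132 0 0) (P.cons (P.lf 0 183183 0) (P.cons (P.lf 17441 0 0) P.nil))))) (P.cons (P.cons (P.lf 0 8456864 0) (P.cons (P.lf 0 1959001 0) (P.cons (P.lf 751239 0 0) (P.cons (P.lf 174500 0 0) P.nil)))) (P.cons (P.cons (P.lf 6587979 0 0) (P.cons (P.lf 675788 0 0) (P.cons (P.lf 0 266997 0) P.nil))) (P.cons (P.cons (P.lf 0 399584 0) (P.cons (P.lf 0 76461 0) P.nil)) (P.cons (P.cons (P.lf 0 110435 0) P.nil) P.nil)))))) 208554)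
 EL.nil))
noncomputable def S372_401_660_808_12 : EL := (EL.cons 4 (TM.mk (P.cons (P.lf 0 3098651666 0) (P.cons (P.lf 0 175463538 0) (P.cons (P.lf 18939693 0 0) (P.cons (P.lf 0 500812 0) (P.cons (P.lf 0 30041 0) (P.cons (P.lf 3150 0 0) P.nil)))))) 205)
 (EL.cons 8 (TM.mk (P.cons (P.lf 1094426245 0 0) (P.cons (P.lf 0 176636564 0) (P.cons (P.lf 0 189038 0) (P.cons (P.lf 544971 0 0) (P.cons (P.lf 0 29121 0) (P.cons (P.lf 0 63 0) P.nil)))))) 165)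
 EL.nil))
noncomputable def S372_401_660_808_13 : EL := (EL.cons 4 (TM.mk (P.cons (P.cons (P.lf 0 642832100 0) (P.cons (P.lf 38767836 0 0) (P.cons (P.lf 0 16717126 0) (P.lf 0 1857455 0)))) (P.cons (P.cons (P.lf 0 489822610 0) (P.cons (P.lf 0 16575718 0) (P.cons (P.lf 7147635 0 0) (P.lf 794178 0 0)))) (P.cons (P.cons (P.lf 7219500 0 0) (P.cons (P.lf 1709599 0 0) (P.cons (P.lf 0 737197 0) (P.lf 0 81907 0)))) (P.cons (P.cons (P.lf 7780040 0 0) (P.cons (P.lf 192823 0 0) (P.cons (P.lf 0 83148 0) P.nil))) (P.cons (P.cons (P.lf 0 530739 0) (P.cons (P.lf 0 48942 0) P.nil)) (P.cons (P.cons (P.lf 0 40775 0) P.nil) P.nil)))))) 66618)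
 (EL.cons 8 (TM.mk (P.cons (P.cons (P.lf 227044662 0 0) (P.cons (P.lf 0 13692580 0) (P.cons (P.lf 5904394 0 0) (P.lf 656043 0 0)))) (P.cons (P.cons (P.lf 123501783 0 0) (P.cons (P.lf 8839737 0 0) (P.cons (P.lf 0 3811794 0) (P.lf 0 423531 0)))) (P.cons (P.cons (P.lf 0 36116746 0) (P.cons (P.lf 0 2130593 0) (P.cons (P.lf 918735 0 0) (P.lf 102080 0 0)))) (P.cons (P.cons (P.lf 510166 0 0) (P.cons (P.lf 198411 0 0) (P.cons (P.lf 0 85556 0) P.nil))) (P.cons (P.cons (P.lf 439691 0 0) (P.cons (P.lf 6108 0 0) P.nil)) (P.cons (P.cons (P.lf 0 38172 0) P.nil) P.nil)))))) 28932)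
 EL.nil))
noncomputable def S372_401_660_808_14 : EL := (EL.cons 4 (TM.mk (P.cons (P.cons (P.lf 0 133359006 0) (P.cons (P.lf 16085195 0 0) (P.cons (P.lf 0 7421148 0) (P.cons (P.lf 0 352375 0) (P.cons (P.lf 0 43709 0) (P.cons (P.lf 0 20040 0) P.nil)))))) (P.cons (P.cons (P.lf 0 195681159 0) (P.cons (P.lf 4468250 0 0) (P.cons (P.lf 0 1484530 0) (P.cons (P.lf 0 595472 0) (P.cons (P.lf 39852 0 0) P.nil))))) (P.cons (P.cons (P.lf 0 64168297 0) (P.cons (P.lf 0 4866466 0) (P.cons (P.lf 1939020 0 0) (P.cons (P.lf 370680 0 0) P.nil)))) (P.cons (P.cons (P.lf 7969566 0 0) (P.cons (P.lf 803340 0 0) (P.cons (P.lf 0 321133 0) P.nil))) (P.cons (P.cons (P.lf 1412070 0 0) (P.cons (P.lf 53091 0 0) P.nil)) (P.cons (P.cons (P.lf 0 240080 0) P.nil) P.nil)))))) 460793)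
 (EL.cons 8 (TM.mk (P.cons (P.cons (P.lf 47101647 0 0) (P.cons (P.lf 0 5681200 0) (P.cons (P.lf 2621107 0 0) (P.cons (P.lf 124457 0 0) (P.cons (P.lf 15438 0 0) (P.cons (P.lf 7078 0 0) P.nil)))))) (P.cons (P.cons (P.lf 58844271 0 0) (P.cons (P.lf 0 339532 0) (P.cons (P.lf 0 47132 0) (P.cons (P.lf 183183 0 0) (P.cons (P.lf 0 17441 0) P.nil))))) (P.cons (P.cons (P.lf 8456864 0 0) (P.cons (P.lf 1959001 0 0) (P.cons (P.lf 0 751239 0) (P.cons (P.lf 0 174500 0) P.nil)))) (P.cons (P.cons (P.lf 0 6587979 0) (P.cons (P.lf 0 675788 0) (P.cons (P.lf 266997 0 0) P.nil))) (P.cons (P.cons (P.lf 399584 0 0) (P.cons (P.lf 76461 0 0) P.nil)) (P.cons (P.cons (P.lf 110435 0 0) P.nil) P.nil)))))) 208554)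
 EL.nil))
noncomputable def S372_401_660_808_15 : EL := (EL.cons 4 (TM.mk (P.cons (P.lf 0 2384593622 0) (P.cons (P.lf 0 270058903 0) (P.cons (P.lf 21504255 0 0) (P.cons (P.lf 879855 0 0) (P.cons (P.lf 0 178971 0) (P.cons (P.lf 6941 0 0) P.nil)))))) 996)
 (EL.cons 8 (TM.mk (P.cons (P.lf 842224982 0 0) (P.cons (P.lf 0 88240524 0) (P.cons (P.lf 0 12990618 0) (P.cons (P.lf 1378121 0 0) (P.cons (P.lf 0 11577 0) (P.cons (P.lf 0 6078 0) P.nil)))))) 560)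
 EL.nil))
noncomputable def S372_401_660_808_16 : EL := (EL.cons 4 (TM.mk (P.cons (P.cons (P.lf 0 494696885 0) (P.cons (P.lf 29834116 0 0) (P.cons (P.lf 0 12864806 0) (P.lf 0 1429420 0)))) (P.cons (P.cons (P.lf 0 404959728 0) (P.cons (P.lf 0 11066603 0) (P.cons (P.lf 4772043 0 0) (P.lf 530224 0 0)))) (P.cons (P.cons (P.lf 0 12765389 0) (P.cons (P.lf 410966 0 0) (P.cons (P.lf 0 177212 0) (P.lf 0 19687 0)))) (P.cons (P.cons (P.lf 8525835 0 0) (P.cons (P.lf 305676 0 0) (P.cons (P.lf 0 131812 0) P.nil))) (P.cons (P.cons (P.lf 0 169083 0) (P.cons (P.lf 0 39075 0) P.nil)) (P.cons (P.cons (P.lf 0 93356 0) P.nil) P.nil)))))) 77170)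
 (EL.cons 8 (TM.mk (P.cons (P.cons (P.lf 174724142 0 0) (P.cons (P.lf 0 10537241 0) (P.cons (P.lf 4543776 0 0) (P.lf 504863 0 0)))) (P.cons (P.cons (P.lf 104935732 0 0) (P.cons (P.lf 6206015 0 0) (P.cons (P.lf 0 2676103 0) (P.lf 0 297343 0)))) (P.cons (P.cons (P.lf 0 23480085 0) (P.cons (P.lf 0 1190001 0) (P.cons (P.lf 513141 0 0) (P.lf 57014 0 0)))) (P.cons (P.cons (P.lf 0 1733929 0) (P.cons (P.lf 16561 0 0) (P.cons (P.lf 0 7141 0) P.nil))) (P.cons (P.cons (P.lf 547537 0 0) (P.cons (P.lf 24365 0 0) P.nil)) (P.cons (P.cons (P.lf 0 16364 0) P.nil) P.nil)))))) 35696)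
 EL.nil))
noncomputable def S372_401_660_808_17 : EL := (EL.cons 4 (TM.mk (P.cons (P.cons (P.lf 0 102627552 0) (P.cons (P.lf 12378497 0 0) (P.cons (P.lf 0 5711007 0) (P.cons (P.lf 0 271173 0) (P.cons (P.lf 0 33636 0) (P.cons (P.lf 0 15422 0) P.nil)))))) (P.cons (P.cons (P.lf 0 156399457 0) (P.cons (P.lf 4139521 0 0) (P.cons (P.lf 0 1465822 0) (P.cons (P.lf 0 473606 0) (P.cons (P.lf 28764 0 0) P.nil))))) (P.cons (P.cons (P.lf 0 57281139 0) (P.cons (P.lf 0 3625978 0) (P.cons (P.lf 1462406 0 0) (P.cons (P.lf 260968 0 0) P.nil)))) (P.cons (P.cons (P.lf 4240638 0 0) (P.cons (P.lf 387135 0 0) (P.cons (P.lf 0 156574 0) P.nil))) (P.cons (P.cons (P.lf 1710455 0 0) (P.cons (P.lf 99430 0 0) P.nil)) (P.cons (P.cons (P.lf 0 170045 0) P.nil) P.nil)))))) 440255)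
 (EL.cons 8 (TM.mk (P.cons (P.cons (P.lf 36247471 0 0) (P.cons (P.lf 0 4372015 0) (P.cons (P.lf 2017095 0 0) (P.cons (P.lf 95776 0 0) (P.cons (P.lf 11880 0 0) (P.cons (P.lf 5447 0 0) P.nil)))))) (P.cons (P.cons (P.lf 47336647 0 0) (P.cons (P.lf 0 508859 0) (P.cons (P.lf 77948 0 0) (P.cons (P.lf 146393 0 0) (P.cons (P.lf 0 12749 0) P.nil))))) (P.cons (P.cons (P.lf 8850746 0 0) (P.cons (P.lf 1519492 0 0) (P.cons (P.lf 0 592505 0) (P.cons (P.lf 0 126891 0) P.nil)))) (P.cons (P.cons (P.lf 0 4972240 0) (P.cons (P.lf 0 433801 0) (P.cons (P.lf 173281 0 0) P.nil))) (P.cons (P.cons (P.lf 0 11688 0) (P.cons (P.lf 20093 0 0) P.nil)) (P.cons (P.cons (P.lf 134841 0 0) P.nil) P.nil)))))) 195170)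
 EL.nil))
noncomputable def S372_401_660_808_18 : EL := (EL.cons 4 (TM.mk (P.cons (P.lf 0 1835084209 0) (P.cons (P.lf 0 311739172 0) (P.cons (P.lf 15996937 0 0) (P.cons (P.lf 2587877 0 0) (P.cons (P.lf 0 251917 0) (P.cons (P.lf 0 4069 0) P.nil)))))) 2661)
 (EL.cons 8 (TM.mk (P.cons (P.lf 648141365 0 0) (P.cons (P.lf 0 31204738 0) (P.cons (P.lf 0 17803876 0) (P.cons (P.lf 1014268 0 0) (P.cons (P.lf 107557 0 0) (P.cons (P.lf 0 14597 0) P.nil)))))) 1054)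
 EL.nil))
noncomputable def S372_401_660_808_19 : EL := (EL.cons 4 (TM.mk (P.cons (P.cons (P.lf 0 380698175 0) (P.cons (P.lf 22959097 0 0) (P.cons (P.lf 0 9900220 0) (P.lf 0 1100023 0)))) (P.cons (P.cons (P.lf 0 333197515 0) (P.cons (P.lf 0 7216321 0) (P.cons (P.lf 3111759 0 0) (P.lf 345749 0 0)))) (P.cons (P.cons (P.lf 0 25143660 0) (P.cons (P.lf 0 306315 0) (P.cons (P.lf 132087 0 0) (P.lf 14677 0 0)))) (P.cons (P.cons (P.lf 7848142 0 0) (P.cons (P.lf 308910 0 0) (P.cons (P.lf 0 133205 0) P.nil))) (P.cons (P.cons (P.lf 247395 0 0) (P.cons (P.lf 0 19837 0) P.nil)) (P.cons (P.cons (P.lf 0 123536 0) P.nil) P.nil)))))) 82661)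
 (EL.cons 8 (TM.mk (P.cons (P.cons (P.lf 134460442 0 0) (P.cons (P.lf 0 8109023 0) (P.cons (P.lf 3496701 0 0) (P.lf 388521 0 0)))) (P.cons (P.cons (P.lf 88368107 0 0) (P.cons (P.lf 4316711 0 0) (P.cons (P.lf 0 1861414 0) (P.lf 0 206823 0)))) (P.cons (P.cons (P.lf 0 14318385 0) (P.cons (P.lf 0 595773 0) (P.cons (P.lf 256903 0 0) (P.lf 28544 0 0)))) (P.cons (P.cons (P.lf 0 2829405 0) (P.cons (P.lf 0 69613 0) (P.cons (P.lf 30018 0 0) P.nil))) (P.cons (P.cons (P.lf 470602 0 0) (P.cons (P.lf 25763 0 0) P.nil)) (P.cons (P.cons (P.lf 17148 0 0) P.nil) P.nil)))))) 39593)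
 EL.nil))
noncomputable def S372_401_660_808_20 : EL := (EL.cons 4 (TM.mk (P.cons (P.cons (P.lf 0 78977901 0) (P.cons (P.lf 9525977 0 0) (P.cons (P.lf 0 4394954 0) (P.cons (P.lf 0 208683 0) (P.cons (P.lf 0 25885 0) (P.cons (P.lf 0 11868 0) P.nil)))))) (P.cons (P.cons (P.lf 0 124830710 0) (P.cons (P.lf 3725019 0 0) (P.cons (P.lf 0 1376904 0) (P.cons (P.lf 0 376284 0) (P.cons (P.lf 20670 0 0) P.nil))))) (P.cons (P.cons (P.lf 0 50413848 0) (P.cons (P.lf 0 2668240 0) (P.cons (P.lf 1088393 0 0) (P.cons (P.lf 181467 0 0) P.nil)))) (P.cons (P.cons (P.lf 1490183 0 0) (P.cons (P.lf 121982 0 0) (P.cons (P.lf 0 50581 0) P.nil))) (P.cons (P.cons (P.lf 1750305 0 0) (P.cons (P.lf 111050 0 0) P.nil)) (P.cons (P.cons (P.lf 0 84481 0) P.nil) P.nil)))))) 404312)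
 (EL.cons 8 (TM.mk (P.cons (P.cons (P.lf 27894548 0 0) (P.cons (P.lf 0 3364521 0) (P.cons (P.lf 1552272 0 0) (P.cons (P.lf 73706 0 0) (P.cons (P.lf 9142 0 0) (P.cons (P.lf 4191 0 0) P.nil)))))) (P.cons (P.cons (P.lf 38007868 0 0) (P.cons (P.lf 0 582115 0) (P.cons (P.lf 147884 0 0) (P.cons (P.lf 116832 0 0) (P.cons (P.lf 0 9293 0) P.nil))))) (P.cons (P.cons (P.lf 8703450 0 0) (P.cons (P.lf 1167728 0 0) (P.cons (P.lf 0 462058 0) (P.cons (P.lf 0 91721 0) P.nil)))) (P.cons (P.cons (P.lf 0 3658892 0) (P.cons (P.lf 0 265770 0) (P.cons (P.lf 107414 0 0) P.nil))) (P.cons (P.cons (P.lf 0 261142 0) (P.cons (P.lf 0 10683 0) P.nil)) (P.cons (P.cons (P.lf 128072 0 0) P.nil) P.nil)))))) 173933)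
 EL.nil))
noncomputable def S372_401_660_808_21 : EL := (EL.cons 4 (TM.mk (P.cons (P.cons (P.lf 0 2809365465 0) (P.cons (P.lf 0 116303508 0) (P.cons (P.lf 50151378 0 0) (P.lf 5572365 0 0)))) (P.cons (P.cons (P.lf 659291124 0 0) (P.cons (P.lf 49727154 0 0) (P.cons (P.lf 0 21442905 0) (P.lf 0 2382534 0)))) (P.cons (P.cons (P.lf 42854268 0 0) (P.cons (P.lf 0 5128797 0) (P.cons (P.lf 2211591 0 0) (P.lf 245721 0 0)))) (P.cons (P.cons (P.lf 0 20700561 0) (P.cons (P.lf 0 578469 0) (P.cons (P.lf 249444 0 0) P.nil))) (P.cons (P.cons (P.lf 1055301 0 0) (P.cons (P.lf 146826 0 0) P.nil)) (P.cons (P.cons (P.lf 143151 0 0) P.nil) P.nil)))))) 202503)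
 (EL.cons 8 (TM.mk (P.cons (P.cons (P.lf 0 2828146917 0) (P.cons (P.lf 0 117081042 0) (P.cons (P.lf 50486667 0 0) (P.lf 5609631 0 0)))) (P.cons (P.cons (P.lf 47099685 0 0) (P.cons (P.lf 24533334 0 0) (P.cons (P.lf 0 10579050 0) (P.lf 0 1175454 0)))) (P.cons (P.cons (P.lf 105122727 0 0) (P.cons (P.lf 2326566 0 0) (P.cons (P.lf 0 1003239 0) (P.lf 0 111468 0)))) (P.cons (P.cons (P.lf 0 4527000 0) (P.cons (P.lf 0 761559 0) (P.cons (P.lf 328389 0 0) P.nil))) (P.cons (P.cons (P.lf 0 1112670 0) (P.cons (P.lf 15507 0 0) P.nil)) (P.cons (P.cons (P.lf 116298 0 0) P.nil) P.nil)))))) 114633)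
 (EL.cons 11 (TM.mk (P.cons (P.cons (P.lf 330474267 0 0) (P.cons (P.lf 0 307867353 0) (P.cons (P.lf 0 31597203 0) (P.cons (P.lf 6571338 0 0) (P.lf 547611 0 0))))) (P.cons (P.cons (P.lf 0 106674777 0) (P.cons (P.lf 99377424 0 0) (P.cons (P.lf 10199355 0 0) (P.cons (P.lf 0 2121180 0) (P.lf 0 176763 0))))) (P.cons (P.cons (P.lf 8494302 0 0) (P.cons (P.lf 0 7913229 0) (P.cons (P.lf 0 812154 0) (P.cons (P.lf 168903 0 0) P.nil)))) (P.cons (P.cons (P.lf 347544 0 0) (P.cons (P.lf 0 323769 0) (P.cons (P.lf 0 33228 0) P.nil))) (P.cons (P.cons (P.lf 0 70695 0) (P.cons (P.lf 65859 0 0) P.nil)) (P.cons (P.cons (P.lf 2742 0 0) P.nil) P.nil)))))) 33279)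
 EL.nil)))
noncomputable def S372_401_660_808_22 : EL := (EL.cons 4 (TM.mk (P.cons (P.cons (P.lf 0 582818109 0) (P.cons (P.lf 11020725 0 0) (P.cons (P.lf 0 3297165 0) (P.cons (P.lf 0 1782936 0) (P.cons (P.lf 131130 0 0) (P.cons (P.lf 60123 0 0) P.nil)))))) (P.cons (P.cons (P.lf 0 274317345 0) (P.cons (P.lf 0 31969437 0) (P.cons (P.lf 12458892 0 0) (P.cons (P.lf 2675892 0 0) (P.cons (P.lf 0 119559 0) P.nil))))) (P.cons (P.cons (P.lf 131625090 0 0) (P.cons (P.lf 13485906 0 0) (P.cons (P.lf 0 5336913 0) (P.cons (P.lf 0 1058685 0) P.nil)))) (P.cons (P.cons (P.lf 0 1038444 0) (P.cons (P.lf 0 1416120 0) (P.cons (P.lf 534816 0 0) P.nil))) (P.cons (P.cons (P.lf 0 4376394 0) (P.cons (P.lf 0 259110 0) P.nil)) (P.cons (P.cons (P.lf 435363 0 0) P.nil) P.nil)))))) 952851)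
 (EL.cons 8 (TM.mk (P.cons (P.cons (P.lf 0 586714422 0) (P.cons (P.lf 11094399 0 0) (P.cons (P.lf 0 3319203 0) (P.cons (P.lf 0 1794852 0) (P.cons (P.lf 132006 0 0) (P.cons (P.lf 60525 0 0) P.nil)))))) (P.cons (P.cons (P.lf 0 404068047 0) (P.cons (P.lf 0 29764335 0) (P.cons (P.lf 11818521 0 0) (P.cons (P.lf 2302464 0 0) (P.cons (P.lf 0 91575 0) P.nil))))) (P.cons (P.cons (P.lf 55137393 0 0) (P.cons (P.lf 6883911 0 0) (P.cons (P.lf 0 2735196 0) (P.cons (P.lf 0 530955 0) P.nil)))) (P.cons (P.cons (P.lf 17172228 0 0) (P.cons (P.lf 642042 0 0) (P.cons (P.lf 0 280788 0) P.nil))) (P.cons (P.cons (P.lf 0 2358411 0) (P.cons (P.lf 0 309711 0) P.nil)) (P.cons (P.cons (P.lf 0 201384 0) P.nil) P.nil)))))) 620910)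
 (EL.cons 11 (TM.mk (P.cons (P.cons (P.lf 68558679 0 0) (P.cons (P.lf 0 68003379 0) (P.cons (P.lf 0 920322 0) (P.cons (P.lf 295743 0 0) (P.cons (P.lf 0 323622 0) (P.cons (P.lf 9660 0 0) P.nil)))))) (P.cons (P.cons (P.lf 26227614 0 0) (P.cons (P.lf 0 21096879 0) (P.cons (P.lf 0 7054758 0) (P.cons (P.lf 1382991 0 0) (P.cons (P.lf 396294 0 0) P.nil))))) (P.cons (P.cons (P.lf 0 16936617 0) (P.cons (P.lf 14704572 0 0) (P.cons (P.lf 3082239 0 0) (P.cons (P.lf 0 613929 0) P.nil)))) (P.cons (P.cons (P.lf 1941912 0 0) (P.cons (P.lf 0 1647843 0) (P.cons (P.lf 0 405390 0) P.nil))) (P.cons (P.cons (P.lf 126534 0 0) (P.cons (P.lf 0 124152 0) P.nil)) (P.cons (P.cons (P.lf 0 39408 0) P.nil) P.nil)))))) 529824)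
 EL.nil)))
noncomputable def S372_401_660_808_23 : EL := (EL.cons 4 (TM.mk (P.cons (P.cons (P.lf 0 2161970976 0) (P.cons (P.lf 0 89502348 0) (P.cons (P.lf 38594415 0 0) (P.lf 4288260 0 0)))) (P.cons (P.cons (P.lf 384939792 0 0) (P.cons (P.lf 33199812 0 0) (P.cons (P.lf 0 14316129 0) (P.lf 0 1590672 0)))) (P.cons (P.cons (P.lf 74923167 0 0) (P.cons (P.lf 0 1232895 0) (P.cons (P.lf 531636 0 0) (P.lf 59061 0 0)))) (P.cons (P.cons (P.lf 0 17513385 0) (P.cons (P.lf 0 917028 0) (P.cons (P.lf 395433 0 0) P.nil))) (P.cons (P.cons (P.lf 0 230481 0) (P.cons (P.lf 117225 0 0) P.nil)) (P.cons (P.cons (P.lf 265965 0 0) P.nil) P.nil)))))) 242808)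
 (EL.cons 8 (TM.mk (P.cons (P.cons (P.lf 0 2176424403 0) (P.cons (P.lf 0 90100707 0) (P.cons (P.lf 38852442 0 0) (P.lf 4316937 0 0)))) (P.cons (P.cons (P.lf 0 86995746 0) (P.cons (P.lf 13777812 0 0) (P.cons (P.lf 0 5941146 0) (P.lf 0 660129 0)))) (P.cons (P.cons (P.lf 96253362 0 0) (P.cons (P.lf 3410229 0 0) (P.cons (P.lf 0 1470525 0) (P.lf 0 163389 0)))) (P.cons (P.cons (P.lf 523821 0 0) (P.cons (P.lf 0 614640 0) (P.cons (P.lf 265035 0 0) P.nil))) (P.cons (P.cons (P.lf 0 1563246 0) (P.cons (P.lf 0 30018 0) P.nil)) (P.cons (P.cons (P.lf 77943 0 0) P.nil) P.nil)))))) 145926)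
 (EL.cons 11 (TM.mk (P.cons (P.cons (P.lf 254319267 0 0) (P.cons (P.lf 0 236921925 0) (P.cons (P.lf 0 24315894 0) (P.cons (P.lf 5057028 0 0) (P.lf 421416 0 0))))) (P.cons (P.cons (P.lf 0 67691451 0) (P.cons (P.lf 63060849 0 0) (P.cons (P.lf 6472092 0 0) (P.cons (P.lf 0 1346013 0) (P.lf 0 112164 0))))) (P.cons (P.cons (P.lf 333852 0 0) (P.cons (P.lf 0 311013 0) (P.cons (P.lf 0 31917 0) (P.cons (P.lf 6636 0 0) P.nil)))) (P.cons (P.cons (P.lf 1180482 0 0) (P.cons (P.lf 0 1099728 0) (P.cons (P.lf 0 112866 0) P.nil))) (P.cons (P.cons (P.lf 0 90015 0) (P.cons (P.lf 83856 0 0) P.nil)) (P.cons (P.cons (P.lf 0 2601 0) P.nil) P.nil)))))) 72528)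
 EL.nil)))
noncomputable def S372_401_660_808_24 : EL := (EL.cons 4 (TM.mk (P.cons (P.cons (P.lf 0 448512609 0) (P.cons (P.lf 8481093 0 0) (P.cons (P.lf 0 2537361 0) (P.cons (P.lf 0 1372071 0) (P.cons (P.lf 100911 0 0) (P.cons (P.lf 46269 0 0) P.nil)))))) (P.cons (P.cons (P.lf 0 236500605 0) (P.cons (P.lf 0 24122103 0) (P.cons (P.lf 9444165 0 0) (P.cons (P.lf 1981560 0 0) (P.cons (P.lf 0 86292 0) P.nil))))) (P.cons (P.cons (P.lf 92080734 0 0) (P.cons (P.lf 8933226 0 0) (P.cons (P.lf 0 3548637 0) (P.cons (P.lf 0 689727 0) P.nil)))) (P.cons (P.cons (P.lf 6154482 0 0) (P.cons (P.lf 0 350367 0) (P.cons (P.lf 119994 0 0) P.nil))) (P.cons (P.cons (P.lf 0 4070739 0) (P.cons (P.lf 0 328437 0) P.nil)) (P.cons (P.cons (P.lf 163992 0 0) P.nil) P.nil)))))) 748641)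
 (EL.cons 8 (TM.mk (P.cons (P.cons (P.lf 0 451511049 0) (P.cons (P.lf 8537790 0 0) (P.cons (P.lf 0 2554320 0) (P.cons (P.lf 0 1381242 0) (P.cons (P.lf 101586 0 0) (P.cons (P.lf 46578 0 0) P.nil)))))) (P.cons (P.cons (P.lf 0 336521145 0) (P.cons (P.lf 0 22421937 0) (P.cons (P.lf 8950404 0 0) (P.cons (P.lf 1693665 0 0) (P.cons (P.lf 0 64722 0) P.nil))))) (P.cons (P.cons (P.lf 27583182 0 0) (P.cons (P.lf 3948351 0 0) (P.cons (P.lf 0 1574268 0) (P.cons (P.lf 0 299823 0) P.nil)))) (P.cons (P.cons (P.lf 17445396 0 0) (P.cons (P.lf 935451 0 0) (P.cons (P.lf 0 391275 0) P.nil))) (P.cons (P.cons (P.lf 0 1380609 0) (P.cons (P.lf 0 246360 0) P.nil)) (P.cons (P.cons (P.lf 0 334218 0) P.nil) P.nil)))))) 476667)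
 (EL.cons 11 (TM.mk (P.cons (P.cons (P.lf 52759911 0 0) (P.cons (P.lf 0 52332576 0) (P.cons (P.lf 0 708243 0) (P.cons (P.lf 227589 0 0) (P.cons (P.lf 0 249045 0) (P.cons (P.lf 7434 0 0) P.nil)))))) (P.cons (P.cons (P.lf 23171253 0 0) (P.cons (P.lf 0 19198653 0) (P.cons (P.lf 0 5469153 0) (P.cons (P.lf 1077180 0 0) (P.cons (P.lf 290871 0 0) P.nil))))) (P.cons (P.cons (P.lf 0 12213279 0) (P.cons (P.lf 10716561 0 0) (P.cons (P.lf 2068869 0 0) (P.cons (P.lf 0 413580 0) P.nil)))) (P.cons (P.cons (P.lf 641532 0 0) (P.cons (P.lf 0 536556 0) (P.cons (P.lf 0 144588 0) P.nil))) (P.cons (P.cons (P.lf 265437 0 0) (P.cons (P.lf 0 239649 0) P.nil)) (P.cons (P.cons (P.lf 0 35910 0) P.nil) P.nil)))))) 393897)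
 EL.nil)))
noncomputable def S372_401_660_808_25 : EL := (EL.cons 4 (TM.mk (P.cons (P.cons (P.lf 0 1663763067 0) (P.cons (P.lf 0 68877288 0) (P.cons (P.lf 29700660 0 0) (P.lf 3300066 0 0)))) (P.cons (P.cons (P.lf 202021809 0 0) (P.cons (P.lf 21648966 0 0) (P.cons (P.lf 0 9335274 0) (P.lf 0 1037247 0)))) (P.cons (P.cons (P.lf 84601530 0 0) (P.cons (P.lf 918948 0 0) (P.cons (P.lf 0 396264 0) (P.lf 0 44034 0)))) (P.cons (P.cons (P.lf 0 12292209 0) (P.cons (P.lf 0 926727 0) (P.cons (P.lf 399615 0 0) P.nil))) (P.cons (P.cons (P.lf 0 1261215 0) (P.cons (P.lf 59508 0 0) P.nil)) (P.cons (P.cons (P.lf 290892 0 0) P.nil) P.nil)))))) 249513)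
 (EL.cons 8 (TM.mk (P.cons (P.cons (P.lf 0 1674885822 0) (P.cons (P.lf 0 69337761 0) (P.cons (P.lf 29899224 0 0) (P.lf 3322134 0 0)))) (P.cons (P.cons (P.lf 0 161790012 0) (P.cons (P.lf 6676527 0 0) (P.cons (P.lf 0 2878992 0) (P.lf 0 319890 0)))) (P.cons (P.cons (P.lf 80518887 0 0) (P.cons (P.lf 3648573 0 0) (P.cons (P.lf 0 1573302 0) (P.lf 0 174810 0)))) (P.cons (P.cons (P.lf 4736031 0 0) (P.cons (P.lf 0 400407 0) (P.cons (P.lf 172656 0 0) P.nil))) (P.cons (P.cons (P.lf 0 1659990 0) (P.cons (P.lf 0 64884 0) P.nil)) (P.cons (P.cons (P.lf 2421 0 0) P.nil) P.nil)))))) 156024)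
 (EL.cons 11 (TM.mk (P.cons (P.cons (P.lf 195713547 0 0) (P.cons (P.lf 0 182325273 0) (P.cons (P.lf 0 18712500 0) (P.cons (P.lf 3891678 0 0) (P.lf 324306 0 0))))) (P.cons (P.cons (P.lf 0 41010099 0) (P.cons (P.lf 38204700 0 0) (P.cons (P.lf 3921042 0 0) (P.cons (P.lf 0 815466 0) (P.lf 0 67953 0))))) (P.cons (P.cons (P.lf 0 3889107 0) (P.cons (P.lf 3623061 0 0) (P.cons (P.lf 371844 0 0) (P.cons (P.lf 0 77334 0) P.nil)))) (P.cons (P.cons (P.lf 1273032 0 0) (P.cons (P.lf 0 1185945 0) (P.cons (P.lf 0 121713 0) P.nil))) (P.cons (P.cons (P.lf 0 25923 0) (P.cons (P.lf 24150 0 0) P.nil)) (P.cons (P.cons (P.lf 0 12141 0) P.nil) P.nil)))))) 90438)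
 EL.nil)))
noncomputable def S372_401_660_808_26 : EL := (EL.cons 4 (TM.mk (P.cons (P.cons (P.lf 0 345156675 0) (P.cons (P.lf 6526695 0 0) (P.cons (P.lf 0 1952646 0) (P.cons (P.lf 0 1055889 0) (P.cons (P.lf 77658 0 0) (P.cons (P.lf 35607 0 0) P.nil)))))) (P.cons (P.cons (P.lf 0 201545805 0) (P.cons (P.lf 0 18193788 0) (P.cons (P.lf 7157265 0 0) (P.cons (P.lf 1465137 0 0) (P.cons (P.lf 0 62010 0) P.nil))))) (P.cons (P.cons (P.lf 62665239 0 0) (P.cons (P.lf 5783583 0 0) (P.cons (P.lf 0 2307402 0) (P.cons (P.lf 0 437979 0) P.nil)))) (P.cons (P.cons (P.lf 9805470 0 0) (P.cons (P.lf 234168 0 0) (P.cons (P.lf 0 107034 0) P.nil))) (P.cons (P.cons (P.lf 0 3330363 0) (P.cons (P.lf 0 312975 0) P.nil)) (P.cons (P.cons (P.lf 0 70095 0) P.nil) P.nil)))))) 624264)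
 (EL.cons 8 (TM.mk (P.cons (P.cons (P.lf 0 347464152 0) (P.cons (P.lf 6570327 0 0) (P.cons (P.lf 0 1965699 0) (P.cons (P.lf 0 1062945 0) (P.cons (P.lf 78177 0 0) (P.cons (P.lf 35844 0 0) P.nil)))))) (P.cons (P.cons (P.lf 0 278648121 0) (P.cons (P.lf 0 16882941 0) (P.cons (P.lf 6776547 0 0) (P.cons (P.lf 1243185 0 0) (P.cons (P.lf 0 45378 0) P.nil))))) (P.cons (P.cons (P.lf 8686125 0 0) (P.cons (P.lf 2021250 0 0) (P.cons (P.lf 0 809445 0) (P.cons (P.lf 0 150429 0) P.nil)))) (P.cons (P.cons (P.lf 16153983 0 0) (P.cons (P.lf 998469 0 0) (P.cons (P.lf 0 412128 0) P.nil))) (P.cons (P.cons (P.lf 0 477210 0) (P.cons (P.lf 0 170121 0) P.nil)) (P.cons (P.cons (P.lf 0 398148 0) P.nil) P.nil)))))) 384501)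
 (EL.cons 11 (TM.mk (P.cons (P.cons (P.lf 40601835 0 0) (P.cons (P.lf 0 40272978 0) (P.cons (P.lf 0 545034 0) (P.cons (P.lf 175143 0 0) (P.cons (P.lf 0 191655 0) (P.cons (P.lf 5721 0 0) P.nil)))))) (P.cons (P.cons (P.lf 20130744 0 0) (P.cons (P.lf 0 17054973 0) (P.cons (P.lf 0 4239696 0) (P.cons (P.lf 838869 0 0) (P.cons (P.lf 212988 0 0) P.nil))))) (P.cons (P.cons (P.lf 0 8637270 0) (P.cons (P.lf 7656561 0 0) (P.cons (P.lf 1357119 0 0) (P.cons (P.lf 0 272403 0) P.nil)))) (P.cons (P.cons (P.lf 0 140946 0) (P.cons (P.lf 137877 0 0) (P.cons (P.lf 4521 0 0) P.nil))) (P.cons (P.cons (P.lf 292947 0 0) (P.cons (P.lf 0 260991 0) P.nil)) (P.cons (P.cons (P.lf 0 20472 0) P.nil) P.nil)))))) 314481)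
 EL.nil)))
noncomputable def S372_401_660_808_27 : EL := (EL.cons 13 (TM.mk (P.lf 0 4294967296 0) 0)
 EL.nil)
noncomputable def S372_401_660_808_28 : EL := (EL.cons 13 (TM.mk (P.cons (P.cons (P.lf 0 891014270 0) (P.cons (P.lf 53735176 0 0) (P.cons (P.lf 0 23171212 0) (P.lf 0 2574576 0)))) (P.cons (P.cons (P.lf 0 628477088 0) (P.cons (P.lf 0 26018004 0) (P.cons (P.lf 11219256 0 0) (P.lf 1246580 0 0)))) (P.cons (P.cons (P.lf 40148688 0 0) (P.cons (P.lf 4171368 0 0) (P.cons (P.lf 0 1798740 0) (P.lf 0 199856 0)))) (P.cons (P.cons (P.lf 4812887 0 0) (P.cons (P.lf 0 136652 0) (P.cons (P.lf 58924 0 0) P.nil))) (P.cons (P.cons (P.lf 0 652567 0) (P.cons (P.lf 0 30920 0) P.nil)) (P.cons (P.cons (P.lf 8549 0 0) P.nil) P.nil)))))) 41153)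
 EL.nil)
noncomputable def S372_401_660_808_29 : EL := (EL.cons 13 (TM.mk (P.cons (P.cons (P.lf 0 184845744 0) (P.cons (P.lf 22295307 0 0) (P.cons (P.lf 0 10286278 0) (P.cons (P.lf 0 488420 0) (P.cons (P.lf 0 60585 0) (P.cons (P.lf 0 27779 0) P.nil)))))) (P.cons (P.cons (P.lf 0 260761964 0) (P.cons (P.lf 4930847 0 0) (P.cons (P.lf 0 1475204 0) (P.cons (P.lf 0 797714 0) (P.cons (P.lf 58670 0 0) P.nil))))) (P.cons (P.cons (P.lf 0 75306124 0) (P.cons (P.lf 0 6888233 0) (P.cons (P.lf 2708294 0 0) (P.cons (P.lf 555977 0 0) P.nil)))) (P.cons (P.cons (P.lf 13746731 0 0) (P.cons (P.lf 1530078 0 0) (P.cons (P.lf 0 605829 0) P.nil))) (P.cons (P.cons (P.lf 762466 0 0) (P.cons (P.lf 0 56168 0) P.nil)) (P.cons (P.cons (P.lf 0 277411 0) P.nil) P.nil)))))) 467689)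
 EL.nil)
noncomputable def S372_401_660_808_30 : EL := (EL.cons 13 (TM.mk (P.cons (P.lf 0 3305228444 0) (P.cons (P.lf 0 187161108 0) (P.cons (P.lf 20202340 0 0) (P.cons (P.lf 0 534200 0) (P.cons (P.lf 0 32044 0) (P.cons (P.lf 3360 0 0) P.nil)))))) 212)
 EL.nil)
noncomputable def S372_401_660_808_31 : EL := (EL.cons 13 (TM.mk (P.cons (P.cons (P.lf 0 685687574 0) (P.cons (P.lf 41352359 0 0) (P.cons (P.lf 0 17831602 0) (P.lf 0 1981286 0)))) (P.cons (P.cons (P.lf 0 522477451 0) (P.cons (P.lf 0 17680766 0) (P.cons (P.lf 7624145 0 0) (P.lf 847124 0 0)))) (P.cons (P.cons (P.lf 7700801 0 0) (P.cons (P.lf 1823573 0 0) (P.cons (P.lf 0 786344 0) (P.lf 0 87368 0)))) (P.cons (P.cons (P.lf 8298710 0 0) (P.cons (P.lf 205678 0 0) (P.cons (P.lf 0 88692 0) P.nil))) (P.cons (P.cons (P.lf 0 566122 0) (P.cons (P.lf 0 52205 0) P.nil)) (P.cons (P.cons (P.lf 0 43494 0) P.nil) P.nil)))))) 71039)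
 EL.nil)
noncomputable def S372_401_660_808_32 : EL := (EL.cons 13 (TM.mk (P.cons (P.cons (P.lf 0 142249607 0) (P.cons (P.lf 17157542 0 0) (P.cons (P.lf 0 7915892 0) (P.cons (P.lf 0 375867 0) (P.cons (P.lf 0 46623 0) (P.cons (P.lf 0 21377 0) P.nil)))))) (P.cons (P.cons (P.lf 0 208726570 0) (P.cons (P.lf 4766134 0 0) (P.cons (P.lf 0 1583499 0) (P.cons (P.lf 0 635171 0) (P.cons (P.lf 42509 0 0) P.nil))))) (P.cons (P.cons (P.lf 0 68446184 0) (P.cons (P.lf 0 5190898 0) (P.cons (P.lf 2068289 0 0) (P.cons (P.lf 395392 0 0) P.nil)))) (P.cons (P.cons (P.lf 8500871 0 0) (P.cons (P.lf 856896 0 0) (P.cons (P.lf 0 342542 0) P.nil))) (P.cons (P.cons (P.lf 1506208 0 0) (P.cons (P.lf 56631 0 0) P.nil)) (P.cons (P.cons (P.lf 0 256086 0) P.nil) P.nil)))))) 491490)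
 EL.nil)
noncomputable def S372_401_660_808_33 : EL := (EL.cons 14 (TM.mk (P.lf 8589934592 0 0) 0)
 EL.nil)
noncomputable def S372_401_660_808_34 : EL := (EL.cons 14 (TM.mk (P.cons (P.cons (P.lf 1782028540 0 0) (P.cons (P.lf 0 107470352 0) (P.cons (P.lf 46342424 0 0) (P.lf 5149152 0 0)))) (P.cons (P.cons (P.lf 1256954176 0 0) (P.cons (P.lf 52036008 0 0) (P.cons (P.lf 0 22438512 0) (P.lf 0 2493160 0)))) (P.cons (P.cons (P.lf 0 80297376 0) (P.cons (P.lf 0 8342736 0) (P.cons (P.lf 3597480 0 0) (P.lf 399712 0 0)))) (P.cons (P.cons (P.lf 0 9625774 0) (P.cons (P.lf 273304 0 0) (P.cons (P.lf 0 117848 0) P.nil))) (P.cons (P.cons (P.lf 1305134 0 0) (P.cons (P.lf 61840 0 0) P.nil)) (P.cons (P.cons (P.lf 0 17098 0) P.nil) P.nil)))))) 82306)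
 EL.nil)
noncomputable def S372_401_660_808_35 : EL := (EL.cons 14 (TM.mk (P.cons (P.cons (P.lf 369691488 0 0) (P.cons (P.lf 0 44590614 0) (P.cons (P.lf 20572556 0 0) (P.cons (P.lf 976840 0 0) (P.cons (P.lf 121170 0 0) (P.cons (P.lf 55558 0 0) P.nil)))))) (P.cons (P.cons (P.lf 521523928 0 0) (P.cons (P.lf 0 9861694 0) (P.cons (P.lf 2950408 0 0) (P.cons (P.lf 1595428 0 0) (P.cons (P.lf 0 117340 0) P.nil))))) (P.cons (P.cons (P.lf 150612248 0 0) (P.cons (P.lf 13776466 0 0) (P.cons (P.lf 0 5416588 0) (P.cons (P.lf 0 1111954 0) P.nil)))) (P.cons (P.cons (P.lf 0 27493462 0) (P.cons (P.lf 0 3060156 0) (P.cons (P.lf 1211658 0 0) P.nil))) (P.cons (P.cons (P.lf 0 1524932 0) (P.cons (P.lf 112336 0 0) P.nil)) (P.cons (P.cons (P.lf 554822 0 0) P.nil) P.nil)))))) 935378)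
 EL.nil)
noncomputable def S372_401_660_808_36 : EL := (EL.cons 14 (TM.mk (P.cons (P.lf 6610456888 0 0) (P.cons (P.lf 374322216 0 0) (P.cons (P.lf 0 40404680 0) (P.cons (P.lf 1068400 0 0) (P.cons (P.lf 64088 0 0) (P.cons (P.lf 0 6720 0) P.nil)))))) 424)
 EL.nil)
noncomputable def S372_401_660_808_37 : EL := (EL.cons 14 (TM.mk (P.cons (P.cons (P.lf 1371375148 0 0) (P.cons (P.lf 0 82704718 0) (P.cons (P.lf 35663204 0 0) (P.lf 3962572 0 0)))) (P.cons (P.cons (P.lf 1044954902 0 0) (P.cons (P.lf 35361532 0 0) (P.cons (P.lf 0 15248290 0) (P.lf 0 1694248 0)))) (P.cons (P.cons (P.lf 0 15401602 0) (P.cons (P.lf 0 3647146 0) (P.cons (P.lf 1572688 0 0) (P.lf 174736 0 0)))) (P.cons (P.cons (P.lf 0 16597420 0) (P.cons (P.lf 0 411356 0) (P.cons (P.lf 177384 0 0) P.nil))) (P.cons (P.cons (P.lf 1132244 0 0) (P.cons (P.lf 104410 0 0) P.nil)) (P.cons (P.cons (P.lf 86988 0 0) P.nil) P.nil))))))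 142078)
 EL.nil)
noncomputable def S372_401_660_808_38 : EL := (EL.cons 14 (TM.mk (P.cons (P.cons (P.lf 284499214 0 0) (P.cons (P.lf 0 34315084 0) (P.cons (P.lf 15831784 0 0) (P.cons (P.lf 751734 0 0) (P.cons (P.lf 93246 0 0) (P.cons (P.lf 42754 0 0) P.nil)))))) (P.cons (P.cons (P.lf 417453140 0 0) (P.cons (P.lf 0 9532268 0) (P.cons (P.lf 3166998 0 0) (P.cons (P.lf 1270342 0 0) (P.cons (P.lf 0 85018 0) P.nil))))) (P.cons (P.cons (P.lf 136892368 0 0) (P.cons (P.lf 10381796 0 0) (P.cons (P.lf 0 4136578 0) (P.cons (P.lf 0 790784 0) P.nil)))) (P.cons (P.cons (P.lf 0 17001742 0) (P.cons (P.lf 0 1713792 0) (P.cons (P.lf 685084 0 0) P.nil))) (P.cons (P.cons (P.lf 0 3012416 0) (P.cons (P.lf 0 113262 0) P.nil)) (P.cons (P.cons (P.lf 512172 0 0) P.nil) P.nil)))))) 982980)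
 EL.nil)
noncomputable def S372_401_660_808_39 : EL := (EL.cons 14 (TM.mk (P.cons (P.lf 5087133062 0 0) (P.cons (P.lf 576125660 0 0) (P.cons (P.lf 0 45875746 0) (P.cons (P.lf 0 1877024 0) (P.cons (P.lf 381806 0 0) (P.cons (P.lf 0 14808 0) P.nil)))))) 2110)
 EL.nil)
noncomputable def S372_401_660_808_40 : EL := (EL.cons 14 (TM.mk (P.cons (P.cons (P.lf 1055353356 0 0) (P.cons (P.lf 0 63646116 0) (P.cons (P.lf 27444920 0 0) (P.lf 3049430 0 0)))) (P.cons (P.cons (P.lf 863914088 0 0) (P.cons (P.lf 23608754 0 0) (P.cons (P.lf 0 10180360 0) (P.lf 0 1131146 0)))) (P.cons (P.cons (P.lf 27232830 0 0) (P.cons (P.lf 0 876728 0) (P.cons (P.lf 378054 0 0) (P.lf 42000 0 0)))) (P.cons (P.cons (P.lf 0 18188448 0) (P.cons (P.lf 0 652110 0) (P.cons (P.lf 281200 0 0) P.nil))) (P.cons (P.cons (P.lf 360712 0 0) (P.cons (P.lf 83360 0 0) P.nil)) (P.cons (P.cons (P.lf 199160 0 0) P.nil) P.nil))))))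 164590)
 EL.nil)
noncomputable def S372_401_660_808_41 : EL := (EL.cons 14 (TM.mk (P.cons (P.cons (P.lf 218938778 0 0) (P.cons (P.lf 0 26407462 0) (P.cons (P.lf 12183482 0 0) (P.cons (P.lf 578504 0 0) (P.cons (P.lf 71758 0 0) (P.cons (P.lf 32902 0 0) P.nil)))))) (P.cons (P.cons (P.lf 333652176 0 0) (P.cons (P.lf 0 8830980 0) (P.cons (P.lf 3127088 0 0) (P.cons (P.lf 1010360 0 0) (P.cons (P.lf 0 61364 0) P.nil))))) (P.cons (P.cons (P.lf 122199764 0 0) (P.cons (P.lf 7735420 0 0) (P.cons (P.lf 0 3119800 0) (P.cons (P.lf 0 556732 0) P.nil)))) (P.cons (P.cons (P.lf 0 9046696 0) (P.cons (P.lf 0 825888 0) (P.cons (P.lf 334026 0 0) P.nil))) (P.cons (P.cons (P.lf 0 3648972 0) (P.cons (P.lf 0 212118 0) P.nil)) (P.cons (P.cons (P.lf 362764 0 0) P.nil) P.nil)))))) 939164)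
 EL.nil)
noncomputable def S372_401_660_808_42 : EL := (EL.cons 14 (TM.mk (P.cons (P.lf 3914846314 0 0) (P.cons (P.lf 665043568 0 0) (P.cons (P.lf 0 34126800 0) (P.cons (P.lf 0 5520806 0) (P.cons (P.lf 537424 0 0) (P.cons (P.lf 8682 0 0) P.nil)))))) 5662)
 EL.nil)
noncomputable def S372_401_660_808_43 : EL := (EL.cons 14 (TM.mk (P.cons (P.cons (P.lf 812156108 0 0) (P.cons (P.lf 0 48979408 0) (P.cons (P.lf 21120470 0 0) (P.lf 2346716 0 0)))) (P.cons (P.cons (P.lf 710821366 0 0) (P.cons (P.lf 15394820 0 0) (P.cons (P.lf 0 6638420 0) (P.lf 0 737598 0)))) (P.cons (P.cons (P.lf 53639810 0 0) (P.cons (P.lf 653474 0 0) (P.cons (P.lf 0 281786 0) (P.lf 0 31312 0)))) (P.cons (P.cons (P.lf 0 16742704 0) (P.cons (P.lf 0 659008 0) (P.cons (P.lf 284172 0 0) P.nil))) (P.cons (P.cons (P.lf 0 527776 0) (P.cons (P.lf 42320 0 0) P.nil)) (P.cons (P.cons (P.lf 263544 0 0) P.nil) P.nil))))))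 176304)
 EL.nil)
noncomputable def S372_401_660_808_44 : EL := (EL.cons 14 (TM.mk (P.cons (P.cons (P.lf 168486190 0 0) (P.cons (P.lf 0 20322086 0) (P.cons (P.lf 9375902 0 0) (P.cons (P.lf 445192 0 0) (P.cons (P.lf 55222 0 0) (P.cons (P.lf 25320 0 0) P.nil)))))) (P.cons (P.cons (P.lf 266305516 0 0) (P.cons (P.lf 0 7946708 0) (P.cons (P.lf 2937396 0 0) (P.cons (P.lf 802740 0 0) (P.cons (P.lf 0 44096 0) P.nil))))) (P.cons (P.cons (P.lf 107549544 0 0) (P.cons (P.lf 5692246 0 0) (P.cons (P.lf 0 2321906 0) (P.cons (P.lf 0 387130 0) P.nil)))) (P.cons (P.cons (P.lf 0 3179058 0) (P.cons (P.lf 0 260230 0) (P.cons (P.lf 107908 0 0) P.nil))) (P.cons (P.cons (P.lf 0 3733984 0) (P.cons (P.lf 0 236908 0) P.nil)) (P.cons (P.cons (P.lf 180228 0 0) P.nil) P.nil)))))) 862486)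
 EL.nil)
noncomputable def S372_401_660_808_45 : EL := (EL.cons 14 (TM.mk (P.cons (P.cons (P.lf 76694504 0 0) (P.cons (P.lf 0 13875846 0) (P.cons (P.lf 6820244 0 0) (P.cons (P.lf 0 73692 0) (P.cons (P.lf 97174 0 0) (P.cons (P.lf 27610 0 0) P.nil)))))) (P.cons (P.cons (P.lf 162289452 0 0) (P.cons (P.lf 0 12856124 0) (P.cons (P.lf 5323596 0 0) (P.cons (P.lf 830228 0 0) (P.cons (P.lf 0 51446 0) P.nil))))) (P.cons (P.cons (P.lf 104103440 0 0) (P.cons (P.lf 2747668 0 0) (P.cons (P.lf 0 1468014 0) (P.cons (P.lf 96832 0 0) P.nil)))) (P.cons (P.cons (P.lf 11045832 0 0) (P.cons (P.lf 2284798 0 0) (P.cons (P.lf 0 790380 0) P.nil))) (P.cons (P.cons (P.lf 0 6275580 0) (P.cons (P.lf 0 823482 0) P.nil)) (P.cons (P.cons (P.lf 58692 0 0) P.nil) P.nil)))))) 1781300)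
 EL.nil)
noncomputable def S372_401_660_808_46 : EL := (EL.cons 15 (TM.mk (P.lf 4294967296 0 0) 0)
 EL.nil)
noncomputable def S372_401_660_808_47 : EL := (EL.cons 15 (TM.mk (P.cons (P.cons (P.lf 891014270 0 0) (P.cons (P.lf 0 53735176 0) (P.cons (P.lf 23171212 0 0) (P.lf 2574576 0 0)))) (P.cons (P.cons (P.lf 628477088 0 0) (P.cons (P.lf 26018004 0 0) (P.cons (P.lf 0 11219256 0) (P.lf 0 1246580 0)))) (P.cons (P.cons (P.lf 0 40148688 0) (P.cons (P.lf 0 4171368 0) (P.cons (P.lf 1798740 0 0) (P.lf 199856 0 0)))) (P.cons (P.cons (P.lf 0 4812887 0) (P.cons (P.lf 136652 0 0) (P.cons (P.lf 0 58924 0) P.nil))) (P.cons (P.cons (P.lf 652567 0 0) (P.cons (P.lf 30920 0 0) P.nil)) (P.cons (P.cons (P.lf 0 8549 0) P.nil) P.nil)))))) 41153)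
 EL.nil)
noncomputable def S372_401_660_808_48 : EL := (EL.cons 15 (TM.mk (P.cons (P.cons (P.lf 184845744 0 0) (P.cons (P.lf 0 22295307 0) (P.cons (P.lf 10286278 0 0) (P.cons (P.lf 488420 0 0) (P.cons (P.lf 60585 0 0) (P.cons (P.lf 27779 0 0) P.nil)))))) (P.cons (P.cons (P.lf 260761964 0 0) (P.cons (P.lf 0 4930847 0) (P.cons (P.lf 1475204 0 0) (P.cons (P.lf 797714 0 0) (P.cons (P.lf 0 58670 0) P.nil))))) (P.cons (P.cons (P.lf 75306124 0 0) (P.cons (P.lf 6888233 0 0) (P.cons (P.lf 0 2708294 0) (P.cons (P.lf 0 555977 0) P.nil)))) (P.cons (P.cons (P.lf 0 13746731 0) (P.cons (P.lf 0 1530078 0) (P.cons (P.lf 605829 0 0) P.nil))) (P.cons (P.cons (P.lf 0 762466 0) (P.cons (P.lf 56168 0 0) P.nil)) (P.cons (P.cons (P.lf 277411 0 0) P.nil) P.nil)))))) 467689)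
 EL.nil)
noncomputable def S372_401_660_808 : SL := (SL.cons S372_401_660_808_0 (SL.cons S372_401_660_808_1 (SL.cons S372_401_660_808_2 (SL.cons S372_401_660_808_3 (SL.cons S372_401_660_808_4 (SL.cons S372_401_660_808_5 (SL.cons S372_401_660_808_6 (SL.cons S372_401_660_808_7 (SL.cons S372_401_660_808_8 (SL.cons S372_401_660_808_9 (SL.cons S372_401_660_808_10 (SL.cons S372_401_660_808_11 (SL.cons S372_401_660_808_12 (SL.cons S372_401_660_808_13 (SL.cons S372_401_660_808_14 (SL.cons S372_401_660_808_15 (SL.cons S372_401_660_808_16 (SL.cons S372_401_660_808_17 (SL.cons S372_401_660_808_18 (SL.cons S372_401_660_808_19 (SL.cons S372_401_660_808_20 (SL.cons S372_401_660_808_21 (SL.cons S372_401_660_808_22 (SL.cons S372_401_660_808_23 (SL.cons S372_401_660_808_24 (SL.cons S372_401_660_808_25 (SL.cons S372_401_660_808_26 (SL.cons S372_401_660_808_27 (SL.cons S372_401_660_808_28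 (SL.cons S372_401_660_808_29 (SL.cons S372_401_660_808_30 (SL.cons S372_401_660_808_31 (SL.cons S372_401_660_808_32 (SL.cons S372_401_660_808_33 (SL.cons S372_401_660_808_34 (SL.cons S372_401_660_808_35 (SL.cons S372_401_660_808_36 (SL.cons S372_401_660_808_37 (SL.cons S372_401_660_808_38 (SL.cons S372_401_660_808_39 (SL.cons S372_401_660_808_40 (SL.cons S372_401_660_808_41 (SL.cons S372_401_660_808_42 (SL.cons S372_401_660_808_43 (SL.cons S372_401_660_808_44 (SL.cons S372_401_660_808_45 (SL.cons S372_401_660_808_46 (SL.cons S372_401_660_808_47 (SL.cons S372_401_660_808_48 SL.nil)))))))))))))))))))))))))))))))))))))))))))))))))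
noncomputable def S372_430_216_364_0 : EL := (EL.cons 0 (TM.mk (P.cons (P.lf 3519891639 0 0) (P.cons (P.lf 0 844087942 0) (P.cons (P.lf 173579589 0 0) (P.cons (P.lf 3586566 0 0) (P.cons (P.lf 0 4211423 0) (P.cons (P.lf 490783 0 0) P.nil)))))) 104301)
 (EL.cons 1 (TM.mk (P.cons (P.lf 1391915122 0 0) (P.cons (P.lf 0 413105733 0) (P.cons (P.lf 0 67350723 0) (P.cons (P.lf 19192974 0 0) (P.cons (P.lf 0 1069213 0) (P.cons (P.lf 0 215523 0) P.nil)))))) 64748)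
 (EL.cons 5 (TM.mk (P.cons (P.lf 6049927380 0 0) (P.cons (P.lf 300120158 0 0) (P.cons (P.lf 0 61717188 0) (P.cons (P.lf 0 1275220 0) (P.cons (P.lf 1497396 0 0) (P.cons (P.lf 0 174500 0) P.nil)))))) 24617)
 (EL.cons 9 (TM.mk (P.lf 6442450944 0 0) 2)
 EL.nil))))
noncomputable def S372_430_216_364_1 : EL := (EL.cons 0 (TM.mk (P.cons (P.cons (P.lf 3501544329 0 0) (P.cons (P.lf 83374574 0 0) (P.cons (P.lf 35952049 0 0) (P.lf 0 3994659 0)))) (P.cons (P.cons (P.lf 0 430597465 0) (P.cons (P.lf 0 70682156 0) (P.cons (P.lf 0 30478936 0) (P.lf 3386538 0 0)))) (P.cons (P.cons (P.lf 0 540154878 0) (P.cons (P.lf 4210673 0 0) (P.cons (P.lf 1815678 0 0) (P.lf 0 201734 0)))) (P.cons (P.cons (P.lf 173407521 0 0) (P.cons (P.lf 12343073 0 0) (P.cons (P.lf 5322469 0 0) P.nil))) (P.cons (P.cons (P.lf 24249750 0 0) (P.cons (P.lf 0 4146799 0) P.nil)) (P.cons (P.cons (P.lf 0 14757751 0) P.nil)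 P.nil)))))) 12602220)
 (EL.cons 1 (TM.mk (P.cons (P.cons (P.lf 1572789221 0 0) (P.cons (P.lf 43247536 0 0) (P.cons (P.lf 18648829 0 0) (P.lf 0 2072097 0)))) (P.cons (P.cons (P.lf 460450595 0 0) (P.cons (P.lf 2075027 0 0) (P.cons (P.lf 894770 0 0) (P.lf 0 99411 0)))) (P.cons (P.cons (P.lf 0 375541945 0) (P.cons (P.lf 0 24765226 0) (P.cons (P.lf 0 10679040 0) (P.lf 1186556 0 0)))) (P.cons (P.cons (P.lf 0 72637775 0) (P.cons (P.lf 7964934 0 0) (P.cons (P.lf 3434564 0 0) P.nil))) (P.cons (P.cons (P.lf 38612561 0 0) (P.cons (P.lf 530097 0 0) P.nil)) (P.cons (P.cons (P.lf 0 995578 0) P.nil) P.nil)))))) 5737592)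
 (EL.cons 5 (TM.mk (P.cons (P.cons (P.lf 1865454513 0 0) (P.cons (P.lf 0 83575672 0) (P.cons (P.lf 0 36038774 0) (P.lf 4004304 0 0)))) (P.cons (P.cons (P.lf 1285304543 0 0) (P.cons (P.lf 86984638 0 0) (P.cons (P.lf 37508758 0 0) (P.lf 0 4167636 0)))) (P.cons (P.cons (P.lf 120838910 0 0) (P.cons (P.lf 0 26039826 0) (P.cons (P.lf 0 11228666 0) (P.lf 1247626 0 0)))) (P.cons (P.cons (P.lf 0 128163192 0) (P.cons (P.lf 0 1295458 0) (P.cons (P.lf 0 558614 0) P.nil))) (P.cons (P.cons (P.lf 2250480 0 0) (P.cons (P.lf 1881010 0 0) P.nil)) (P.cons (P.cons (P.lf 5694770 0 0) P.nil) P.nil)))))) 4034884)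
 (EL.cons 9 (TM.mk (P.cons (P.cons (P.lf 2744512977 0 0) (P.cons (P.lf 0 47586504 0) (P.cons (P.lf 0 20519838 0) (P.lf 2279976 0 0)))) (P.cons (P.cons (P.lf 999002841 0 0) (P.cons (P.lf 54576354 0 0) (P.cons (P.lf 23533938 0 0) (P.lf 0 2614878 0)))) (P.cons (P.cons (P.lf 0 62837785 0) (P.cons (P.lf 0 21655320 0) (P.cons (P.lf 0 9338016 0) (P.lf 1037556 0 0)))) (P.cons (P.cons (P.lf 0 58682808 0) (P.cons (P.lf 2729280 0 0) (P.cons (P.lf 1176894 0 0) P.nil))) (P.cons (P.cons (P.lf 9593478 0 0) (P.cons (P.lf 358758 0 0) P.nil)) (P.cons (P.cons (P.lf 394918 0 0) P.nil) P.nil)))))) 1105360)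
 (EL.cons 2 (TM.mk (P.cons (P.cons (P.lf 0 176297115 0) (P.cons (P.lf 0 164237070 0) (P.cons (P.lf 16856063 0 0) (P.cons (P.lf 3505590 0 0) (P.lf 0 292128 0))))) (P.cons (P.cons (P.lf 119720756 0 0) (P.cons (P.lf 111530958 0 0) (P.cons (P.lf 0 11446703 0) (P.cons (P.lf 0 2380592 0) (P.lf 198379 0 0))))) (P.cons (P.cons (P.lf 0 12449244 0) (P.cons (P.lf 0 11597622 0) (P.cons (P.lf 1190292 0 0) (P.cons (P.lf 247545 0 0) P.nil)))) (P.cons (P.cons (P.lf 0 6062017 0) (P.cons (P.lf 0 5647328 0) (P.cons (P.lf 579597 0 0) P.nil))) (P.cons (P.cons (P.lf 1394583 0 0) (P.cons (P.lf 1299183 0 0) P.nil)) (P.cons (P.cons (P.lf 0 34129 0) P.nil) P.nil)))))) 684771)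
 (EL.cons 6 (TM.mk (P.cons (P.cons (P.lf 49716228 0 0) (P.cons (P.lf 46315266 0 0) (P.cons (P.lf 0 4753452 0) (P.cons (P.lf 0 988584 0) (P.lf 82380 0 0))))) (P.cons (P.cons (P.lf 0 57018903 0) (P.cons (P.lf 0 53118384 0) (P.cons (P.lf 5451672 0 0) (P.cons (P.lf 1133796 0 0) (P.lf 0 94482 0))))) (P.cons (P.cons (P.lf 22624500 0 0) (P.cons (P.lf 21076815 0 0) (P.cons (P.lf 0 2163165 0) (P.cons (P.lf 0 449877 0) P.nil)))) (P.cons (P.cons (P.lf 0 2851431 0) (P.cons (P.lf 0 2656371 0) (P.cons (P.lf 272628 0 0) P.nil))) (P.cons (P.cons (P.lf 0 374814 0) (P.cons (P.lf 0 349176 0) P.nil)) (P.cons (P.cons (P.lf 144126 0 0) P.nil) P.nil)))))) 362217)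
 EL.nil))))))
noncomputable def S372_430_216_364_2 : EL := (EL.cons 0 (TM.mk (P.cons (P.cons (P.lf 2344557856 0 0) (P.cons (P.lf 41459942 0 0) (P.cons (P.lf 16454269 0 0) (P.cons (P.lf 0 3214274 0) (P.cons (P.lf 0 128301 0) (P.cons (P.lf 58821 0 0) P.nil)))))) (P.cons (P.cons (P.lf 407211851 0 0) (P.cons (P.lf 8667761 0 0) (P.cons (P.lf 6680955 0 0) (P.cons (P.lf 2123090 0 0) (P.cons (P.lf 265245 0 0) P.nil))))) (P.cons (P.cons (P.lf 0 637433063 0) (P.cons (P.lf 0 37238360 0) (P.cons (P.lf 0 18420344 0) (P.cons (P.lf 0 253497 0) P.nil)))) (P.cons (P.cons (P.lf 0 47501352 0) (P.cons (P.lf 7426470 0 0) (P.cons (P.lf 3983690 0 0) P.nil))) (P.cons (P.cons (P.lf 96847701 0 0) (P.cons (P.lf 7115988 0 0) P.nil)) (P.cons (P.cons (P.lf 0 833692 0) P.nil) P.nil)))))) 50508222)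
 (EL.cons 1 (TM.mk (P.cons (P.cons (P.lf 1087426011 0 0) (P.cons (P.lf 22372509 0 0) (P.cons (P.lf 8932455 0 0) (P.cons (P.lf 0 1688405 0) (P.cons (P.lf 0 64420 0) (P.cons (P.lf 29541 0 0) P.nil)))))) (P.cons (P.cons (P.lf 771153450 0 0) (P.cons (P.lf 25567898 0 0) (P.cons (P.lf 11923968 0 0) (P.cons (P.lf 0 449861 0) (P.cons (P.lf 81002 0 0) P.nil))))) (P.cons (P.cons (P.lf 0 162946728 0) (P.cons (P.lf 0 16784263 0) (P.cons (P.lf 0 7344325 0) (P.cons (P.lf 712086 0 0) P.nil)))) (P.cons (P.cons (P.lf 0 189061812 0) (P.cons (P.lf 0 7369419 0) (P.cons (P.lf 0 3563673 0) P.nil))) (P.cons (P.cons (P.lf 10288789 0 0) (P.cons (P.lf 4288286 0 0) P.nil)) (P.cons (P.cons (P.lf 18534817 0 0) P.nil) P.nil)))))) 21029234)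
 (EL.cons 5 (TM.mk (P.cons (P.cons (P.lf 491444245 0 0) (P.cons (P.lf 0 60691325 0) (P.cons (P.lf 0 25266211 0) (P.cons (P.lf 3687975 0 0) (P.cons (P.lf 81515 0 0) (P.cons (P.lf 0 37375 0) P.nil)))))) (P.cons (P.cons (P.lf 819860862 0 0) (P.cons (P.lf 32891809 0 0) (P.cons (P.lf 12223053 0 0) (P.cons (P.lf 0 3266493 0) (P.cons (P.lf 0 176651 0) P.nil))))) (P.cons (P.cons (P.lf 341531885 0 0) (P.cons (P.lf 12564376 0 0) (P.cons (P.lf 7144528 0 0) (P.cons (P.lf 887086 0 0) P.nil)))) (P.cons (P.cons (P.lf 0 61861717 0) (P.cons (P.lf 0 7840652 0) (P.cons (P.lf 0 4120299 0) P.nil))) (P.cons (P.cons (P.lf 0 45102510 0) (P.cons (P.lf 0 2033078 0) P.nil)) (P.cons (P.cons (P.lf 5347075 0 0) P.nil) P.nil)))))) 18330763)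
 (EL.cons 9 (TM.mk (P.cons (P.cons (P.lf 1169174829 0 0) (P.cons (P.lf 0 40544127 0) (P.cons (P.lf 0 17131593 0) (P.cons (P.lf 2245695 0 0) (P.cons (P.lf 31675 0 0) (P.cons (P.lf 0 14523 0) P.nil)))))) (P.cons (P.cons (P.lf 851159374 0 0) (P.cons (P.lf 31741477 0 0) (P.cons (P.lf 12881035 0 0) (P.cons (P.lf 0 2216131 0) (P.cons (P.lf 0 72657 0) P.nil))))) (P.cons (P.cons (P.lf 101372667 0 0) (P.cons (P.lf 0 596400 0) (P.cons (P.lf 525072 0 0) (P.cons (P.lf 703200 0 0) P.nil)))) (P.cons (P.cons (P.lf 0 69486241 0) (P.cons (P.lf 0 4588356 0) (P.cons (P.lf 0 2385771 0) P.nil))) (P.cons (P.cons (P.lf 0 9412744 0) (P.cons (P.lf 438570 0 0) P.nil)) (P.cons (P.cons (P.lf 4456461 0 0) P.nil) P.nil)))))) 6287245)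
 (EL.cons 2 (TM.mk (P.cons (P.cons (P.lf 0 150206720 0) (P.cons (P.lf 0 137327056 0) (P.cons (P.lf 17910804 0 0) (P.cons (P.lf 3659220 0 0) (P.cons (P.lf 0 524306 0) (P.cons (P.lf 0 6080 0) P.nil)))))) (P.cons (P.cons (P.lf 47327900 0 0) (P.cons (P.lf 39334753 0 0) (P.cons (P.lf 0 11005998 0) (P.cons (P.lf 0 2168926 0) (P.cons (P.lf 581315 0 0) P.nil))))) (P.cons (P.cons (P.lf 29961382 0 0) (P.cons (P.lf 31309301 0 0) (P.cons (P.lf 1765462 0 0) (P.cons (P.lf 281424 0 0) P.nil)))) (P.cons (P.cons (P.lf 0 8149533 0) (P.cons (P.lf 0 8667635 0) (P.cons (P.lf 0 686626 0) P.nil))) (P.cons (P.cons (P.lf 0 3155034 0) (P.cons (P.lf 0 2897021 0) P.nil)) (P.cons (P.cons (P.lf 1083408 0 0) P.nil) P.nil)))))) 5536259)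
 (EL.cons 6 (TM.mk (P.cons (P.cons (P.lf 42358668 0 0) (P.cons (P.lf 38726574 0 0) (P.cons (P.lf 0 5050890 0) (P.cons (P.lf 0 1031904 0) (P.cons (P.lf 147852 0 0) (P.cons (P.lf 1710 0 0) P.nil)))))) (P.cons (P.cons (P.lf 0 33162054 0) (P.cons (P.lf 0 29208864 0) (P.cons (P.lf 5466534 0 0) (P.cons (P.lf 1094370 0 0) (P.cons (P.lf 0 233094 0) P.nil))))) (P.cons (P.cons (P.lf 623094 0 0) (P.cons (P.lf 0 1054038 0) (P.cons (P.lf 0 2287086 0) (P.cons (P.lf 0 434400 0) P.nil)))) (P.cons (P.cons (P.lf 4793700 0 0) (P.cons (P.lf 5316666 0 0) (P.cons (P.lf 701256 0 0) P.nil))) (P.cons (P.cons (P.lf 0 458196 0) (P.cons (P.lf 0 664500 0) P.nil)) (P.cons (P.cons (P.lf 0 513696 0) P.nil) P.nil)))))) 2745414)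
 EL.nil))))))
noncomputable def S372_430_216_364_3 : EL := (EL.cons 0 (TM.mk (P.cons (P.lf 4935825225 0 0) (P.cons (P.lf 844087942 0 0) (P.cons (P.lf 0 173579589 0) (P.cons (P.lf 0 3586566 0) (P.cons (P.lf 4211423 0 0) (P.cons (P.lf 0 490783 0) P.nil)))))) 104301)
 (EL.cons 1 (TM.mk (P.cons (P.lf 0 1391915122 0) (P.cons (P.lf 413105733 0 0) (P.cons (P.lf 67350723 0 0) (P.cons (P.lf 0 19192974 0) (P.cons (P.lf 1069213 0 0) (P.cons (P.lf 215523 0 0) P.nil)))))) 64748)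
 (EL.cons 5 (TM.mk (P.cons (P.lf 392523564 0 0) (P.cons (P.lf 0 300120158 0) (P.cons (P.lf 61717188 0 0) (P.cons (P.lf 1275220 0 0) (P.cons (P.lf 0 1497396 0) (P.cons (P.lf 174500 0 0) P.nil)))))) 24610)
 EL.nil)))
noncomputable def S372_430_216_364_4 : EL := (EL.cons 0 (TM.mk (P.cons (P.cons (P.lf 2102683666 0 0) (P.cons (P.lf 0 36457966 0) (P.cons (P.lf 0 15721085 0) (P.lf 1746782 0 0)))) (P.cons (P.cons (P.lf 1124962191 0 0) (P.cons (P.lf 35578408 0 0) (P.cons (P.lf 15341809 0 0) (P.lf 0 1704642 0)))) (P.cons (P.cons (P.lf 8800762 0 0) (P.cons (P.lf 0 8158320 0) (P.cons (P.lf 0 3517957 0) (P.lf 390883 0 0)))) (P.cons (P.cons (P.lf 0 81636412 0) (P.cons (P.lf 0 2190223 0) (P.cons (P.lf 0 944449 0) P.nil))) (P.cons (P.cons (P.lf 2592328 0 0) (P.cons (P.lf 1154418 0 0) P.nil)) (P.cons (P.cons (P.lf 3619546 0 0) P.nil) P.nil)))))) 2563649)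
 (EL.cons 1 (TM.mk (P.cons (P.cons (P.lf 0 592962080 0) (P.cons (P.lf 10281238 0 0) (P.cons (P.lf 4433385 0 0) (P.lf 0 492596 0)))) (P.cons (P.cons (P.lf 0 39853327 0) (P.cons (P.lf 0 14842783 0) (P.cons (P.lf 0 6400374 0) (P.lf 711150 0 0)))) (P.cons (P.cons (P.lf 106326551 0 0) (P.cons (P.lf 7680800 0 0) (P.cons (P.lf 3312046 0 0) (P.lf 0 368004 0)))) (P.cons (P.cons (P.lf 10916812 0 0) (P.cons (P.lf 0 1265941 0) (P.cons (P.lf 0 545887 0) P.nil))) (P.cons (P.cons (P.lf 0 9013190 0) (P.cons (P.lf 0 299379 0) P.nil)) (P.cons (P.cons (P.lf 361166 0 0) P.nil) P.nil)))))) 1246333)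
 (EL.cons 5 (TM.mk (P.cons (P.cons (P.lf 167216796 0 0) (P.cons (P.lf 0 2899334 0) (P.cons (P.lf 0 1250224 0) (P.lf 138912 0 0)))) (P.cons (P.cons (P.lf 0 66985610 0) (P.cons (P.lf 5542016 0 0) (P.cons (P.lf 2389778 0 0) (P.lf 0 265530 0)))) (P.cons (P.cons (P.lf 0 24075088 0) (P.cons (P.lf 0 4317702 0) (P.cons (P.lf 0 1861840 0) (P.lf 206870 0 0)))) (P.cons (P.cons (P.lf 9465342 0 0) (P.cons (P.lf 1688506 0 0) (P.cons (P.lf 728102 0 0) P.nil))) (P.cons (P.cons (P.lf 2276106 0 0) (P.cons (P.lf 0 290872 0) P.nil)) (P.cons (P.cons (P.lf 0 1155310 0) P.nil) P.nil)))))) 661290)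
 EL.nil)))
noncomputable def S372_430_216_364_5 : EL := (EL.cons 0 (TM.mk (P.cons (P.cons (P.lf 895752666 0 0) (P.cons (P.lf 0 31062513 0) (P.cons (P.lf 0 13125213 0) (P.cons (P.lf 1720518 0 0) (P.cons (P.lf 24266 0 0) (P.cons (P.lf 0 11125 0) P.nil)))))) (P.cons (P.cons (P.lf 805292943 0 0) (P.cons (P.lf 19006365 0 0) (P.cons (P.lf 7624110 0 0) (P.cons (P.lf 0 1403637 0) (P.cons (P.lf 0 51514 0) P.nil))))) (P.cons (P.cons (P.lf 157683193 0 0) (P.cons (P.lf 4794215 0 0) (P.cons (P.lf 2551526 0 0) (P.cons (P.lf 187887 0 0) P.nil)))) (P.cons (P.cons (P.lf 0 63538196 0) (P.cons (P.lf 0 4426108 0) (P.cons (P.lf 0 2096558 0) P.nil))) (P.cons (P.cons (P.lf 0 18756406 0) (P.cons (P.lf 0 293262 0) P.nil)) (P.cons (P.cons (P.lf 4464094 0 0) P.nil) P.nil)))))) 7901948)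
 (EL.cons 1 (TM.mk (P.cons (P.cons (P.lf 0 252604503 0) (P.cons (P.lf 8759705 0 0) (P.cons (P.lf 3701341 0 0) (P.cons (P.lf 0 485190 0) (P.cons (P.lf 0 6841 0) (P.cons (P.lf 3136 0 0) P.nil)))))) (P.cons (P.cons (P.lf 0 108925745 0) (P.cons (P.lf 0 9457650 0) (P.cons (P.lf 0 3881514 0) (P.cons (P.lf 622801 0 0) (P.cons (P.lf 17728 0 0) P.nil))))) (P.cons (P.cons (P.lf 44899284 0 0) (P.cons (P.lf 1740337 0 0) (P.cons (P.lf 533422 0 0) (P.cons (P.lf 0 270555 0) P.nil)))) (P.cons (P.cons (P.lf 26928078 0 0) (P.cons (P.lf 1405706 0 0) (P.cons (P.lf 734820 0 0) P.nil))) (P.cons (P.cons (P.lf 0 3703882 0) (P.cons (P.lf 0 496496 0) P.nil)) (P.cons (P.cons (P.lf 0 2414452 0) P.nil) P.nil)))))) 3426871)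
 (EL.cons 5 (TM.mk (P.cons (P.cons (P.lf 71235104 0 0) (P.cons (P.lf 0 2470258 0) (P.cons (P.lf 0 1043786 0) (P.cons (P.lf 136824 0 0) (P.cons (P.lf 1928 0 0) (P.cons (P.lf 0 884 0) P.nil)))))) (P.cons (P.cons (P.lf 0 2606588 0) (P.cons (P.lf 3822672 0 0) (P.cons (P.lf 1582882 0 0) (P.cons (P.lf 0 239638 0) (P.cons (P.lf 0 5902 0) P.nil))))) (P.cons (P.cons (P.lf 0 22274246 0) (P.cons (P.lf 0 1903408 0) (P.cons (P.lf 0 732184 0) (P.cons (P.lf 167594 0 0) P.nil)))) (P.cons (P.cons (P.lf 0 570720 0) (P.cons (P.lf 44276 0 0) (P.cons (P.lf 0 49812 0) P.nil))) (P.cons (P.cons (P.lf 3531362 0 0) (P.cons (P.lf 250460 0 0) P.nil)) (P.cons (P.cons (P.lf 0 101746 0) P.nil) P.nil)))))) 1468758)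
 EL.nil)))
noncomputable def S372_430_216_364_6 : EL := (EL.cons 12 (TM.mk (P.lf 8589934592 0 0) 0)
 (EL.cons 3 (TM.mk (P.cons (P.lf 3255703297 0 0) (P.cons (P.lf 278383023 0 0) (P.cons (P.lf 0 69148875 0) (P.cons (P.lf 4729800 0 0) (P.cons (P.lf 250177 0 0) (P.cons (P.lf 0 82796 0) P.nil)))))) 14718)
 (EL.cons 7 (TM.mk (P.cons (P.lf 0 918116516 0) (P.cons (P.lf 350992016 0 0) (P.cons (P.lf 0 5087185 0) (P.cons (P.lf 0 3436187 0) (P.cons (P.lf 451667 0 0) (P.cons (P.lf 0 12370 0) P.nil)))))) 9470)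
 EL.nil)))
noncomputable def S372_430_216_364_7 : EL := (EL.cons 12 (TM.mk (P.cons (P.cons (P.lf 3659350636 0 0) (P.cons (P.lf 0 63448672 0) (P.cons (P.lf 0 27359784 0) (P.lf 3039968 0 0)))) (P.cons (P.cons (P.lf 1332003788 0 0) (P.cons (P.lf 72768472 0 0) (P.cons (P.lf 31378584 0 0) (P.lf 0 3486504 0)))) (P.cons (P.cons (P.lf 0 83783714 0) (P.cons (P.lf 0 28873760 0) (P.cons (P.lf 0 12450688 0) (P.lf 1383408 0 0)))) (P.cons (P.cons (P.lf 0 78243744 0) (P.cons (P.lf 3639040 0 0) (P.cons (P.lf 1569192 0 0) P.nil))) (P.cons (P.cons (P.lf 12791304 0 0) (P.cons (P.lf 478344 0 0) P.nil)) (P.cons (P.cons (P.lf 526558 0 0) P.nil) P.nil)))))) 1473788)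
 (EL.cons 3 (TM.mk (P.cons (P.cons (P.lf 2707512864 0 0) (P.cons (P.lf 48095836 0 0) (P.cons (P.lf 20739466 0 0) (P.lf 0 2304378 0)))) (P.cons (P.cons (P.lf 103660384 0 0) (P.cons (P.lf 0 51048004 0) (P.cons (P.lf 0 22012472 0) (P.lf 2445826 0 0)))) (P.cons (P.cons (P.lf 0 241636813 0) (P.cons (P.lf 16149012 0 0) (P.cons (P.lf 6963632 0 0) (P.lf 0 773734 0)))) (P.cons (P.cons (P.lf 76418336 0 0) (P.cons (P.lf 354434 0 0) (P.cons (P.lf 152836 0 0) P.nil))) (P.cons (P.cons (P.lf 0 915356 0) (P.cons (P.lf 0 1139770 0) P.nil)) (P.cons (P.cons (P.lf 0 3187978 0) P.nil) P.nil)))))) 4850760)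
 (EL.cons 7 (TM.mk (P.cons (P.cons (P.lf 1273882990 0 0) (P.cons (P.lf 97742170 0 0) (P.cons (P.lf 42147527 0 0) (P.lf 0 4683059 0)))) (P.cons (P.cons (P.lf 130697505 0 0) (P.cons (P.lf 0 64362559 0) (P.cons (P.lf 0 27753863 0) (P.lf 3083763 0 0)))) (P.cons (P.cons (P.lf 0 274091236 0) (P.cons (P.lf 5306602 0 0) (P.cons (P.lf 2288266 0 0) (P.lf 0 254252 0)))) (P.cons (P.cons (P.lf 7960472 0 0) (P.cons (P.lf 3534547 0 0) (P.cons (P.lf 1524134 0 0) P.nil))) (P.cons (P.cons (P.lf 11227179 0 0) (P.cons (P.lf 0 589047 0) P.nil)) (P.cons (P.cons (P.lf 0 1670897 0) P.nil) P.nil)))))) 2399989)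
 (EL.cons 10 (TM.mk (P.cons (P.cons (P.lf 0 232573512 0) (P.cons (P.lf 0 216663741 0) (P.cons (P.lf 22236747 0 0) (P.cons (P.lf 4624623 0 0) (P.lf 0 385383 0))))) (P.cons (P.cons (P.lf 177823716 0 0) (P.cons (P.lf 165659241 0 0) (P.cons (P.lf 0 17002026 0) (P.cons (P.lf 0 3535947 0) (P.lf 294660 0 0))))) (P.cons (P.cons (P.lf 0 36567951 0) (P.cons (P.lf 0 34066431 0) (P.cons (P.lf 3496323 0 0) (P.cons (P.lf 727137 0 0) P.nil)))) (P.cons (P.cons (P.lf 0 755577 0) (P.cons (P.lf 0 703890 0) (P.cons (P.lf 72240 0 0) P.nil))) (P.cons (P.cons (P.lf 887217 0 0) (P.cons (P.lf 826527 0 0) P.nil)) (P.cons (P.cons (P.lf 0 103392 0) P.nil) P.nil)))))) 319218)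
 EL.nil))))
noncomputable def S372_430_216_364_8 : EL := (EL.cons 12 (TM.mk (P.cons (P.cons (P.lf 1558899772 0 0) (P.cons (P.lf 0 54058836 0) (P.cons (P.lf 0 22842124 0) (P.cons (P.lf 2994260 0 0) (P.cons (P.lf 42234 0 0) (P.cons (P.lf 0 19364 0) P.nil)))))) (P.cons (P.cons (P.lf 1134879166 0 0) (P.cons (P.lf 42321970 0 0) (P.cons (P.lf 17174714 0 0) (P.cons (P.lf 0 2954842 0) (P.cons (P.lf 0 96876 0) P.nil))))) (P.cons (P.cons (P.lf 135163556 0 0) (P.cons (P.lf 0 795200 0) (P.cons (P.lf 700096 0 0) (P.cons (P.lf 937600 0 0) P.nil)))) (P.cons (P.cons (P.lf 0 92648322 0) (P.cons (P.lf 0 6117808 0) (P.cons (P.lf 0 3181028 0) P.nil))) (P.cons (P.cons (P.lf 0 12550326 0) (P.cons (P.lf 584760 0 0) P.nil)) (P.cons (P.cons (P.lf 5941948 0 0) P.nil) P.nil)))))) 8382964)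
 (EL.cons 3 (TM.mk (P.cons (P.cons (P.lf 1715980781 0 0) (P.cons (P.lf 21469589 0 0) (P.cons (P.lf 8369790 0 0) (P.cons (P.lf 0 1794605 0) (P.cons (P.lf 0 80036 0) (P.cons (P.lf 36696 0 0) P.nil)))))) (P.cons (P.cons (P.lf 447348355 0 0) (P.cons (P.lf 1475306 0 0) (P.cons (P.lf 2597421 0 0) (P.cons (P.lf 1620737 0 0) (P.cons (P.lf 176740 0 0) P.nil))))) (P.cons (P.cons (P.lf 0 302003922 0) (P.cons (P.lf 0 17391899 0) (P.cons (P.lf 0 9283073 0) (P.cons (P.lf 0 704834 0) P.nil)))) (P.cons (P.cons (P.lf 0 22164408 0) (P.cons (P.lf 4519126 0 0) (P.cons (P.lf 2764070 0 0) P.nil))) (P.cons (P.cons (P.lf 41985708 0 0) (P.cons (P.lf 3167595 0 0) P.nil)) (P.cons (P.cons (P.lf 0 2131720 0) P.nil) P.nil)))))) 25149449)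
 (EL.cons 7 (TM.mk (P.cons (P.cons (P.lf 1251979342 0 0) (P.cons (P.lf 58680429 0 0) (P.cons (P.lf 23909826 0 0) (P.cons (P.lf 0 4013592 0) (P.cons (P.lf 0 125606 0) (P.cons (P.lf 57593 0 0) P.nil)))))) (P.cons (P.cons (P.lf 564027557 0 0) (P.cons (P.lf 1860099 0 0) (P.cons (P.lf 3274878 0 0) (P.cons (P.lf 2043463 0 0) (P.cons (P.lf 222842 0 0) P.nil))))) (P.cons (P.cons (P.lf 0 248847204 0) (P.cons (P.lf 0 21493051 0) (P.cons (P.lf 0 10938322 0) (P.cons (P.lf 0 410703 0) P.nil)))) (P.cons (P.cons (P.lf 0 118108168 0) (P.cons (P.lf 0 1046576 0) (P.cons (P.lf 801 0 0) P.nil))) (P.cons (P.cons (P.lf 21690491 0 0) (P.cons (P.lf 4350446 0 0) P.nil)) (P.cons (P.cons (P.lf 8531361 0 0) P.nil) P.nil)))))) 14375760)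
 (EL.cons 10 (TM.mk (P.cons (P.cons (P.lf 0 198154716 0) (P.cons (P.lf 0 181163688 0) (P.cons (P.lf 23628174 0 0) (P.cons (P.lf 4827294 0 0) (P.cons (P.lf 0 691674 0) (P.cons (P.lf 0 8022 0) P.nil)))))) (P.cons (P.cons (P.lf 79379070 0 0) (P.cons (P.lf 67381566 0 0) (P.cons (P.lf 0 16539618 0) (P.cons (P.lf 0 3274044 0) (P.cons (P.lf 826020 0 0) P.nil))))) (P.cons (P.cons (P.lf 28529382 0 0) (P.cons (P.lf 31694310 0 0) (P.cons (P.lf 4245108 0 0) (P.cons (P.lf 753738 0 0) P.nil)))) (P.cons (P.cons (P.lf 0 11216586 0) (P.cons (P.lf 0 12450198 0) (P.cons (P.lf 0 1654410 0) P.nil))) (P.cons (P.cons (P.lf 0 2697228 0) (P.cons (P.lf 0 2168022 0) P.nil)) (P.cons (P.cons (P.lf 1369062 0 0) P.nil) P.nil)))))) 6904608)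
 EL.nil))))
noncomputable def S372_430_216_364_9 : EL := (EL.cons 3 (TM.mk (P.cons (P.lf 3255703297 0 0) (P.cons (P.lf 278383023 0 0) (P.cons (P.lf 0 69148875 0) (P.cons (P.lf 4729800 0 0) (P.cons (P.lf 250177 0 0) (P.cons (P.lf 0 82796 0) P.nil)))))) 14718)
 (EL.cons 7 (TM.mk (P.cons (P.lf 0 918116516 0) (P.cons (P.lf 350992016 0 0) (P.cons (P.lf 0 5087185 0) (P.cons (P.lf 0 3436187 0) (P.cons (P.lf 451667 0 0) (P.cons (P.lf 0 12370 0) P.nil)))))) 9470)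
 EL.nil))
noncomputable def S372_430_216_364_10 : EL := (EL.cons 3 (TM.mk (P.cons (P.cons (P.lf 1386944196 0 0) (P.cons (P.lf 0 24047918 0) (P.cons (P.lf 0 10369733 0) (P.lf 1152189 0 0)))) (P.cons (P.cons (P.lf 623440162 0 0) (P.cons (P.lf 25524002 0 0) (P.cons (P.lf 11006236 0 0) (P.lf 0 1222913 0)))) (P.cons (P.cons (P.lf 0 18045265 0) (P.cons (P.lf 0 8074506 0) (P.cons (P.lf 0 3481816 0) (P.lf 386867 0 0)))) (P.cons (P.cons (P.lf 0 41078419 0) (P.cons (P.lf 0 177217 0) (P.cons (P.lf 0 76418 0) P.nil))) (P.cons (P.cons (P.lf 3826816 0 0) (P.cons (P.lf 569885 0 0) P.nil)) (P.cons (P.cons (P.lf 1201364 0 0) P.nil) P.nil)))))) 1174475)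
 (EL.cons 7 (TM.mk (P.cons (P.cons (P.lf 0 391121750 0) (P.cons (P.lf 6781573 0 0) (P.cons (P.lf 2924291 0 0) (P.lf 0 324920 0)))) (P.cons (P.cons (P.lf 7155837 0 0) (P.cons (P.lf 0 10370266 0) (P.cons (P.lf 0 4471775 0) (P.lf 496863 0 0)))) (P.cons (P.cons (P.lf 61214681 0 0) (P.cons (P.lf 6097066 0 0) (P.cons (P.lf 2629123 0 0) (P.lf 0 292124 0)))) (P.cons (P.cons (P.lf 2686760 0 0) (P.cons (P.lf 0 1586471 0) (P.cons (P.lf 0 684103 0) P.nil))) (P.cons (P.cons (P.lf 0 4855080 0) (P.cons (P.lf 82221 0 0) P.nil)) (P.cons (P.cons (P.lf 611005 0 0) P.nil) P.nil)))))) 501198)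
 EL.nil))
noncomputable def S372_430_216_364_11 : EL := (EL.cons 3 (TM.mk (P.cons (P.cons (P.lf 590844443 0 0) (P.cons (P.lf 0 20489041 0) (P.cons (P.lf 0 8657478 0) (P.cons (P.lf 1134865 0 0) (P.cons (P.lf 16006 0 0) (P.cons (P.lf 0 7338 0) P.nil)))))) (P.cons (P.cons (P.lf 480655705 0 0) (P.cons (P.lf 14288666 0 0) (P.cons (P.lf 5769183 0 0) (P.cons (P.lf 0 1022887 0) (P.cons (P.lf 0 35348 0) P.nil))))) (P.cons (P.cons (P.lf 75458940 0 0) (P.cons (P.lf 1505353 0 0) (P.cons (P.lf 1005823 0 0) (P.cons (P.lf 235498 0 0) P.nil)))) (P.cons (P.cons (P.lf 0 39012000 0) (P.cons (P.lf 0 2714960 0) (P.cons (P.lf 0 1333798 0) P.nil))) (P.cons (P.cons (P.lf 0 8177070 0) (P.cons (P.lf 51495 0 0) P.nil)) (P.cons (P.cons (P.lf 2683616 0 0) P.nil) P.nil)))))) 4247857)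
 (EL.cons 7 (TM.mk (P.cons (P.cons (P.lf 0 166619618 0) (P.cons (P.lf 5777961 0 0) (P.cons (P.lf 2441430 0 0) (P.cons (P.lf 0 320034 0) (P.cons (P.lf 0 4514 0) (P.cons (P.lf 2069 0 0) P.nil)))))) (P.cons (P.cons (P.lf 0 57601129 0) (P.cons (P.lf 0 6732381 0) (P.cons (P.lf 0 2769030 0) (P.cons (P.lf 438169 0 0) (P.cons (P.lf 12080 0 0) P.nil))))) (P.cons (P.cons (P.lf 31002240 0 0) (P.cons (P.lf 1846319 0 0) (P.cons (P.lf 640472 0 0) (P.cons (P.lf 0 222723 0) P.nil)))) (P.cons (P.cons (P.lf 14129708 0 0) (P.cons (P.lf 617956 0 0) (P.cons (P.lf 367569 0 0) P.nil))) (P.cons (P.cons (P.lf 0 2896333 0) (P.cons (P.lf 0 331780 0) P.nil)) (P.cons (P.cons (P.lf 0 1089681 0) P.nil) P.nil)))))) 1789250)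
 EL.nil))
noncomputable def S372_430_216_364_12 : EL := (EL.cons 4 (TM.mk (P.cons (P.lf 0 3255703297 0) (P.cons (P.lf 0 278383023 0) (P.cons (P.lf 69148875 0 0) (P.cons (P.lf 0 4729800 0) (P.cons (P.lf 0 250177 0) (P.cons (P.lf 82796 0 0) P.nil)))))) 14718)
 (EL.cons 8 (TM.mk (P.cons (P.lf 918116516 0 0) (P.cons (P.lf 0 350992016 0) (P.cons (P.lf 5087185 0 0) (P.cons (P.lf 3436187 0 0) (P.cons (P.lf 0 451667 0) (P.cons (P.lf 12370 0 0) P.nil)))))) 9470)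
 EL.nil))
noncomputable def S372_430_216_364_13 : EL := (EL.cons 4 (TM.mk (P.cons (P.cons (P.lf 0 1386944196 0) (P.cons (P.lf 24047918 0 0) (P.cons (P.lf 10369733 0 0) (P.lf 0 1152189 0)))) (P.cons (P.cons (P.lf 0 623440162 0) (P.cons (P.lf 0 25524002 0) (P.cons (P.lf 0 11006236 0) (P.lf 1222913 0 0)))) (P.cons (P.cons (P.lf 18045265 0 0) (P.cons (P.lf 8074506 0 0) (P.cons (P.lf 3481816 0 0) (P.lf 0 386867 0)))) (P.cons (P.cons (P.lf 41078419 0 0) (P.cons (P.lf 177217 0 0) (P.cons (P.lf 76418 0 0) P.nil))) (P.cons (P.cons (P.lf 0 3826816 0) (P.cons (P.lf 0 569885 0) P.nil)) (P.cons (P.cons (P.lf 0 1201364 0) P.nil) P.nil)))))) 1174475)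
 (EL.cons 8 (TM.mk (P.cons (P.cons (P.lf 391121750 0 0) (P.cons (P.lf 0 6781573 0) (P.cons (P.lf 0 2924291 0) (P.lf 324920 0 0)))) (P.cons (P.cons (P.lf 0 7155837 0) (P.cons (P.lf 10370266 0 0) (P.cons (P.lf 4471775 0 0) (P.lf 0 496863 0)))) (P.cons (P.cons (P.lf 0 61214681 0) (P.cons (P.lf 0 6097066 0) (P.cons (P.lf 0 2629123 0) (P.lf 292124 0 0)))) (P.cons (P.cons (P.lf 0 2686760 0) (P.cons (P.lf 1586471 0 0) (P.cons (P.lf 684103 0 0) P.nil))) (P.cons (P.cons (P.lf 4855080 0 0) (P.cons (P.lf 0 82221 0) P.nil)) (P.cons (P.cons (P.lf 0 611005 0) P.nil) P.nil)))))) 501198)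
 EL.nil))
noncomputable def S372_430_216_364_14 : EL := (EL.cons 4 (TM.mk (P.cons (P.cons (P.lf 0 590844443 0) (P.cons (P.lf 20489041 0 0) (P.cons (P.lf 8657478 0 0) (P.cons (P.lf 0 1134865 0) (P.cons (P.lf 0 16006 0) (P.cons (P.lf 7338 0 0) P.nil)))))) (P.cons (P.cons (P.lf 0 480655705 0) (P.cons (P.lf 0 14288666 0) (P.cons (P.lf 0 5769183 0) (P.cons (P.lf 1022887 0 0) (P.cons (P.lf 35348 0 0) P.nil))))) (P.cons (P.cons (P.lf 0 75458940 0) (P.cons (P.lf 0 1505353 0) (P.cons (P.lf 0 1005823 0) (P.cons (P.lf 0 235498 0) P.nil)))) (P.cons (P.cons (P.lf 39012000 0 0) (P.cons (P.lf 2714960 0 0) (P.cons (P.lf 1333798 0 0) P.nil))) (P.cons (P.cons (P.lf 8177070 0 0) (P.cons (P.lf 0 51495 0) P.nil)) (P.cons (P.cons (P.lf 0 2683616 0) P.nil) P.nil)))))) 4247857)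
 (EL.cons 8 (TM.mk (P.cons (P.cons (P.lf 166619618 0 0) (P.cons (P.lf 0 5777961 0) (P.cons (P.lf 0 2441430 0) (P.cons (P.lf 320034 0 0) (P.cons (P.lf 4514 0 0) (P.cons (P.lf 0 2069 0) P.nil)))))) (P.cons (P.cons (P.lf 57601129 0 0) (P.cons (P.lf 6732381 0 0) (P.cons (P.lf 2769030 0 0) (P.cons (P.lf 0 438169 0) (P.cons (P.lf 0 12080 0) P.nil))))) (P.cons (P.cons (P.lf 0 31002240 0) (P.cons (P.lf 0 1846319 0) (P.cons (P.lf 0 640472 0) (P.cons (P.lf 222723 0 0) P.nil)))) (P.cons (P.cons (P.lf 0 14129708 0) (P.cons (P.lf 0 617956 0) (P.cons (P.lf 0 367569 0) P.nil))) (P.cons (P.cons (P.lf 2896333 0 0) (P.cons (P.lf 331780 0 0) P.nil)) (P.cons (P.cons (P.lf 1089681 0 0) P.nil) P.nil)))))) 1789250)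
 EL.nil))
noncomputable def S372_430_216_364_15 : EL := (EL.cons 4 (TM.mk (P.cons (P.lf 0 2632440120 0) (P.cons (P.lf 0 450180236 0) (P.cons (P.lf 92575781 0 0) (P.cons (P.lf 1912835 0 0) (P.cons (P.lf 0 2246092 0) (P.cons (P.lf 261750 0 0) P.nil)))))) 55630)
 (EL.cons 8 (TM.mk (P.cons (P.lf 742354732 0 0) (P.cons (P.lf 0 220323058 0) (P.cons (P.lf 0 35920386 0) (P.cons (P.lf 10236253 0 0) (P.cons (P.lf 0 570247 0) (P.cons (P.lf 0 114946 0) P.nil)))))) 34529)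
 EL.nil))
noncomputable def S372_430_216_364_16 : EL := (EL.cons 4 (TM.mk (P.cons (P.cons (P.lf 0 1121431289 0) (P.cons (P.lf 19444248 0 0) (P.cons (P.lf 8384579 0 0) (P.lf 0 931617 0)))) (P.cons (P.cons (P.lf 0 599979835 0) (P.cons (P.lf 0 18975150 0) (P.cons (P.lf 0 8182298 0) (P.lf 909142 0 0)))) (P.cons (P.cons (P.lf 0 4693740 0) (P.cons (P.lf 4351104 0 0) (P.cons (P.lf 1876244 0 0) (P.lf 0 208470 0)))) (P.cons (P.cons (P.lf 43539420 0 0) (P.cons (P.lf 1168119 0 0) (P.cons (P.lf 503706 0 0) P.nil))) (P.cons (P.cons (P.lf 0 1382575 0) (P.cons (P.lf 0 615690 0) P.nil)) (P.cons (P.cons (P.lf 0 1930425 0) P.nil) P.nil)))))) 1367288)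
 (EL.cons 8 (TM.mk (P.cons (P.cons (P.lf 316246443 0 0) (P.cons (P.lf 0 5483327 0) (P.cons (P.lf 0 2364472 0) (P.lf 262718 0 0)))) (P.cons (P.cons (P.lf 21255108 0 0) (P.cons (P.lf 7916151 0 0) (P.cons (P.lf 3413533 0 0) (P.lf 0 379280 0)))) (P.cons (P.cons (P.lf 0 56707494 0) (P.cons (P.lf 0 4096427 0) (P.cons (P.lf 0 1766425 0) (P.lf 196269 0 0)))) (P.cons (P.cons (P.lf 0 5822300 0) (P.cons (P.lf 675169 0 0) (P.cons (P.lf 291140 0 0) P.nil))) (P.cons (P.cons (P.lf 4807035 0 0) (P.cons (P.lf 159669 0 0) P.nil)) (P.cons (P.cons (P.lf 0 192622 0) P.nil) P.nil)))))) 664701)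
 EL.nil))
noncomputable def S372_430_216_364_17 : EL := (EL.cons 4 (TM.mk (P.cons (P.cons (P.lf 0 477734755 0) (P.cons (P.lf 16566674 0 0) (P.cons (P.lf 7000113 0 0) (P.cons (P.lf 0 917610 0) (P.cons (P.lf 0 12942 0) (P.cons (P.lf 5933 0 0) P.nil)))))) (P.cons (P.cons (P.lf 0 429489570 0) (P.cons (P.lf 0 10136728 0) (P.cons (P.lf 0 4066192 0) (P.cons (P.lf 748606 0 0) (P.cons (P.lf 27474 0 0) P.nil))))) (P.cons (P.cons (P.lf 0 84097703 0) (P.cons (P.lf 0 2556915 0) (P.cons (P.lf 0 1360814 0) (P.cons (P.lf 0 100206 0) P.nil)))) (P.cons (P.cons (P.lf 33887038 0 0) (P.cons (P.lf 2360591 0 0) (P.cons (P.lf 1118164 0 0) P.nil))) (P.cons (P.cons (P.lf 10003416 0 0) (P.cons (P.lf 156406 0 0) P.nil)) (P.cons (P.cons (P.lf 0 2380850 0) P.nil) P.nil)))))) 4214382)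
 (EL.cons 8 (TM.mk (P.cons (P.cons (P.lf 134722402 0 0) (P.cons (P.lf 0 4671843 0) (P.cons (P.lf 0 1974049 0) (P.cons (P.lf 258768 0 0) (P.cons (P.lf 3649 0 0) (P.cons (P.lf 0 1673 0) P.nil)))))) (P.cons (P.cons (P.lf 58093731 0 0) (P.cons (P.lf 5044080 0 0) (P.cons (P.lf 2070141 0 0) (P.cons (P.lf 0 332161 0) (P.cons (P.lf 0 9455 0) P.nil))))) (P.cons (P.cons (P.lf 0 23946285 0) (P.cons (P.lf 0 928180 0) (P.cons (P.lf 0 284492 0) (P.cons (P.lf 144296 0 0) P.nil)))) (P.cons (P.cons (P.lf 0 14361642 0) (P.cons (P.lf 0 749710 0) (P.cons (P.lf 0 391904 0) P.nil))) (P.cons (P.cons (P.lf 1975404 0 0) (P.cons (P.lf 264798 0 0) P.nil)) (P.cons (P.cons (P.lf 1287708 0 0) P.nil) P.nil)))))) 1827653)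
 EL.nil))
noncomputable def S372_430_216_364_18 : EL := (EL.cons 4 (TM.mk (P.cons (P.lf 0 2128492786 0) (P.cons (P.lf 0 545998394 0) (P.cons (P.lf 88936838 0 0) (P.cons (P.lf 12585940 0 0) (P.cons (P.lf 0 3966058 0) (P.cons (P.lf 158407 0 0) P.nil)))))) 145112)
 (EL.cons 8 (TM.mk (P.cons (P.lf 600240317 0 0) (P.cons (P.lf 0 126820692 0) (P.cons (P.lf 0 57025083 0) (P.cons (P.lf 10448908 0 0) (P.cons (P.lf 650816 0 0) (P.cons (P.lf 0 379305 0) P.nil)))))) 67460)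
 EL.nil))
noncomputable def S372_430_216_364_19 : EL := (EL.cons 4 (TM.mk (P.cons (P.cons (P.lf 0 906747466 0) (P.cons (P.lf 15721893 0 0) (P.cons (P.lf 6779458 0 0) (P.lf 0 753270 0)))) (P.cons (P.cons (P.lf 0 562653879 0) (P.cons (P.lf 0 13998277 0) (P.cons (P.lf 0 6036214 0) (P.lf 670689 0 0)))) (P.cons (P.cons (P.lf 0 26017406 0) (P.cons (P.lf 1872330 0 0) (P.cons (P.lf 807369 0 0) (P.lf 0 89707 0)))) (P.cons (P.cons (P.lf 43866176 0 0) (P.cons (P.lf 1594027 0 0) (P.cons (P.lf 687362 0 0) P.nil))) (P.cons (P.cons (P.lf 1198451 0 0) (P.cons (P.lf 0 512867 0) P.nil)) (P.cons (P.cons (P.lf 0 2423905 0) P.nil) P.nil)))))) 1656238)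
 (EL.cons 8 (TM.mk (P.cons (P.cons (P.lf 255705065 0 0) (P.cons (P.lf 0 4433613 0) (P.cons (P.lf 0 1911824 0) (P.lf 212424 0 0)))) (P.cons (P.cons (P.lf 39050471 0 0) (P.cons (P.lf 6021602 0 0) (P.cons (P.lf 2596582 0 0) (P.lf 0 288508 0)))) (P.cons (P.cons (P.lf 0 49813042 0) (P.cons (P.lf 0 2670750 0) (P.cons (P.lf 0 1151657 0) (P.lf 127961 0 0)))) (P.cons (P.cons (P.lf 0 8621829 0) (P.cons (P.lf 120314 0 0) (P.cons (P.lf 51880 0 0) P.nil))) (P.cons (P.cons (P.lf 4502723 0 0) (P.cons (P.lf 255089 0 0) P.nil)) (P.cons (P.cons (P.lf 204791 0 0) P.nil) P.nil)))))) 802363)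
 EL.nil))
noncomputable def S372_430_216_364_20 : EL := (EL.cons 4 (TM.mk (P.cons (P.cons (P.lf 0 386278484 0) (P.cons (P.lf 13395194 0 0) (P.cons (P.lf 5660030 0 0) (P.cons (P.lf 0 741945 0) (P.cons (P.lf 0 10464 0) (P.cons (P.lf 4798 0 0) P.nil)))))) (P.cons (P.cons (P.lf 0 380298458 0) (P.cons (P.lf 0 7050806 0) (P.cons (P.lf 0 2803803 0) (P.cons (P.lf 541854 0 0) (P.cons (P.lf 21319 0 0) P.nil))))) (P.cons (P.cons (P.lf 0 89487670 0) (P.cons (P.lf 0 3052755 0) (P.cons (P.lf 0 1501643 0) (P.cons (P.lf 0 13507 0) P.nil)))) (P.cons (P.cons (P.lf 28400097 0 0) (P.cons (P.lf 1925449 0 0) (P.cons (P.lf 888075 0 0) P.nil))) (P.cons (P.cons (P.lf 11341292 0 0) (P.cons (P.lf 322702 0 0) P.nil)) (P.cons (P.cons (P.lf 0 1931059 0) P.nil) P.nil)))))) 4196204)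
 (EL.cons 8 (TM.mk (P.cons (P.cons (P.lf 108931503 0 0) (P.cons (P.lf 0 3777478 0) (P.cons (P.lf 0 1596142 0) (P.cons (P.lf 209230 0 0) (P.cons (P.lf 2951 0 0) (P.cons (P.lf 0 1352 0) P.nil)))))) (P.cons (P.cons (P.lf 56286747 0 0) (P.cons (P.lf 3755457 0 0) (P.cons (P.lf 1537358 0 0) (P.cons (P.lf 0 250682 0) (P.cons (P.lf 0 7392 0) P.nil))))) (P.cons (P.cons (P.lf 0 17659265 0) (P.cons (P.lf 0 321527 0) (P.cons (P.lf 0 53004 0) (P.cons (P.lf 89264 0 0) P.nil)))) (P.cons (P.cons (P.lf 0 14107275 0) (P.cons (P.lf 0 762470 0) (P.cons (P.lf 0 374418 0) P.nil))) (P.cons (P.cons (P.lf 1092162 0 0) (P.cons (P.lf 183848 0 0) P.nil)) (P.cons (P.cons (P.lf 1397114 0 0) P.nil) P.nil)))))) 1764545)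
 EL.nil))
noncomputable def S372_430_216_364_21 : EL := (EL.cons 4 (TM.mk (P.cons (P.cons (P.lf 0 1320568668 0) (P.cons (P.lf 0 72143754 0) (P.cons (P.lf 0 31109199 0) (P.lf 3456567 0 0)))) (P.cons (P.cons (P.lf 519779778 0 0) (P.cons (P.lf 76572006 0 0) (P.cons (P.lf 33018708 0 0) (P.lf 0 3668739 0)))) (P.cons (P.cons (P.lf 223591548 0 0) (P.cons (P.lf 0 24223518 0) (P.cons (P.lf 0 10445448 0) (P.lf 1160601 0 0)))) (P.cons (P.cons (P.lf 0 117496755 0) (P.cons (P.lf 0 531651 0) (P.cons (P.lf 0 229254 0) P.nil))) (P.cons (P.cons (P.lf 4742172 0 0) (P.cons (P.lf 1709655 0 0) P.nil)) (P.cons (P.cons (P.lf 4389342 0 0) P.nil) P.nil)))))) 3676266)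
 (EL.cons 8 (TM.mk (P.cons (P.cons (P.lf 0 1665004740 0) (P.cons (P.lf 0 90960597 0) (P.cons (P.lf 0 39223236 0) (P.lf 4358139 0 0)))) (P.cons (P.cons (P.lf 0 123541668 0) (P.cons (P.lf 53992293 0 0) (P.cons (P.lf 23282088 0 0) (P.lf 0 2586900 0)))) (P.cons (P.cons (P.lf 335305917 0 0) (P.cons (P.lf 790464 0 0) (P.cons (P.lf 340857 0 0) (P.lf 0 37872 0)))) (P.cons (P.cons (P.lf 0 5273712 0) (P.cons (P.lf 0 5121018 0) (P.cons (P.lf 0 2208237 0) P.nil))) (P.cons (P.cons (P.lf 0 16082259 0) (P.cons (P.lf 671268 0 0) P.nil)) (P.cons (P.cons (P.lf 2281902 0 0) P.nil) P.nil)))))) 1898772)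
 (EL.cons 11 (TM.mk (P.cons (P.cons (P.lf 232573512 0 0) (P.cons (P.lf 216663741 0 0) (P.cons (P.lf 0 22236747 0) (P.cons (P.lf 0 4624623 0) (P.lf 385383 0 0))))) (P.cons (P.cons (P.lf 0 177823716 0) (P.cons (P.lf 0 165659241 0) (P.cons (P.lf 17002026 0 0) (P.cons (P.lf 3535947 0 0) (P.lf 0 294660 0))))) (P.cons (P.cons (P.lf 36567951 0 0) (P.cons (P.lf 34066431 0 0) (P.cons (P.lf 0 3496323 0) (P.cons (P.lf 0 727137 0) P.nil)))) (P.cons (P.cons (P.lf 755577 0 0) (P.cons (P.lf 703890 0 0) (P.cons (P.lf 0 72240 0) P.nil))) (P.cons (P.cons (P.lf 0 887217 0) (P.cons (P.lf 0 826527 0) P.nil)) (P.cons (P.cons (P.lf 103392 0 0) P.nil) P.nil)))))) 319218)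
 EL.nil)))
noncomputable def S372_430_216_364_22 : EL := (EL.cons 4 (TM.mk (P.cons (P.cons (P.lf 0 562568169 0) (P.cons (P.lf 0 20979315 0) (P.cons (P.lf 0 8513634 0) (P.cons (P.lf 1464735 0 0) (P.cons (P.lf 48021 0 0) (P.cons (P.lf 0 22017 0) P.nil)))))) (P.cons (P.cons (P.lf 16653675 0 0) (P.cons (P.lf 6406680 0 0) (P.cons (P.lf 1585881 0 0) (P.cons (P.lf 0 1321812 0) (P.cons (P.lf 0 106044 0) P.nil))))) (P.cons (P.cons (P.lf 188731431 0 0) (P.cons (P.lf 9448626 0 0) (P.cons (P.lf 5144448 0 0) (P.cons (P.lf 470166 0 0) P.nil)))) (P.cons (P.cons (P.lf 0 8423796 0) (P.cons (P.lf 0 3617043 0) (P.cons (P.lf 0 2048934 0) P.nil))) (P.cons (P.cons (P.lf 0 25081389 0) (P.cons (P.lf 0 1558050 0) P.nil)) (P.cons (P.cons (P.lf 2407668 0 0) P.nil) P.nil)))))) 10450785)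
 (EL.cons 8 (TM.mk (P.cons (P.cons (P.lf 0 709299480 0) (P.cons (P.lf 0 26451234 0) (P.cons (P.lf 0 10734198 0) (P.cons (P.lf 1846779 0 0) (P.cons (P.lf 60546 0 0) (P.cons (P.lf 0 27762 0) P.nil)))))) (P.cons (P.cons (P.lf 0 310814343 0) (P.cons (P.lf 0 4296240 0) (P.cons (P.lf 0 3021954 0) (P.cons (P.lf 0 802647 0) (P.cons (P.lf 0 105381 0) P.nil))))) (P.cons (P.cons (P.lf 139924722 0 0) (P.cons (P.lf 11669685 0 0) (P.cons (P.lf 5789397 0 0) (P.cons (P.lf 93990 0 0) P.nil)))) (P.cons (P.cons (P.lf 66118938 0 0) (P.cons (P.lf 832266 0 0) (P.cons (P.lf 183384 0 0) P.nil))) (P.cons (P.cons (P.lf 0 12293412 0) (P.cons (P.lf 0 2341113 0) P.nil)) (P.cons (P.cons (P.lf 0 4810521 0) P.nil) P.nil)))))) 6293244)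
 (EL.cons 11 (TM.mk (P.cons (P.cons (P.lf 99077358 0 0) (P.cons (P.lf 90581844 0 0) (P.cons (P.lf 0 11814087 0) (P.cons (P.lf 0 2413647 0) (P.cons (P.lf 345837 0 0) (P.cons (P.lf 4011 0 0) P.nil)))))) (P.cons (P.cons (P.lf 0 39689535 0) (P.cons (P.lf 0 33690783 0) (P.cons (P.lf 8269809 0 0) (P.cons (P.lf 1637022 0 0) (P.cons (P.lf 0 413010 0) P.nil))))) (P.cons (P.cons (P.lf 0 14264691 0) (P.cons (P.lf 0 15847155 0) (P.cons (P.lf 0 2122554 0) (P.cons (P.lf 0 376869 0) P.nil)))) (P.cons (P.cons (P.lf 5608293 0 0) (P.cons (P.lf 6225099 0 0) (P.cons (P.lf 827205 0 0) P.nil))) (P.cons (P.cons (P.lf 1348614 0 0) (P.cons (P.lf 1084011 0 0) P.nil)) (P.cons (P.cons (P.lf 0 684531 0) P.nil) P.nil)))))) 3452304)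
 EL.nil)))
noncomputable def S372_430_216_364_23 : EL := (EL.cons 4 (TM.mk (P.cons (P.cons (P.lf 0 1067762514 0) (P.cons (P.lf 0 58332744 0) (P.cons (P.lf 0 25153734 0) (P.lf 2794851 0 0)))) (P.cons (P.cons (P.lf 328974135 0 0) (P.cons (P.lf 56925447 0 0) (P.cons (P.lf 24546891 0 0) (P.lf 0 2727426 0)))) (P.cons (P.cons (P.lf 239402412 0 0) (P.cons (P.lf 0 13053312 0) (P.cons (P.lf 0 5628729 0) (P.lf 625410 0 0)))) (P.cons (P.cons (P.lf 0 90022557 0) (P.cons (P.lf 0 3504357 0) (P.cons (P.lf 0 1511118 0) P.nil))) (P.cons (P.cons (P.lf 0 7600341 0) (P.cons (P.lf 1847067 0 0) P.nil)) (P.cons (P.cons (P.lf 6216819 0 0) P.nil) P.nil)))))) 4580166)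
 (EL.cons 8 (TM.mk (P.cons (P.cons (P.lf 0 1346260662 0) (P.cons (P.lf 0 73547340 0) (P.cons (P.lf 0 31714443 0) (P.lf 3523827 0 0)))) (P.cons (P.cons (P.lf 0 215004897 0) (P.cons (P.lf 37367391 0 0) (P.cons (P.lf 16113243 0 0) (P.lf 0 1790361 0)))) (P.cons (P.cons (P.lf 291168162 0 0) (P.cons (P.lf 5934108 0 0) (P.cons (P.lf 2558853 0 0) (P.lf 0 284316 0)))) (P.cons (P.cons (P.lf 19083783 0 0) (P.cons (P.lf 0 5120085 0) (P.cons (P.lf 0 2207835 0) P.nil))) (P.cons (P.cons (P.lf 0 19375005 0) (P.cons (P.lf 232905 0 0) P.nil)) (P.cons (P.cons (P.lf 1244175 0 0) P.nil) P.nil)))))) 2692539)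
 (EL.cons 11 (TM.mk (P.cons (P.cons (P.lf 188050257 0 0) (P.cons (P.lf 175186209 0 0) (P.cons (P.lf 0 17979801 0) (P.cons (P.lf 0 3739296 0) (P.lf 311604 0 0))))) (P.cons (P.cons (P.lf 0 127702140 0) (P.cons (P.lf 0 118966356 0) (P.cons (P.lf 12209817 0 0) (P.cons (P.lf 2539299 0 0) (P.lf 0 211605 0))))) (P.cons (P.cons (P.lf 13279194 0 0) (P.cons (P.lf 12370797 0 0) (P.cons (P.lf 0 1269645 0) (P.cons (P.lf 0 264048 0) P.nil)))) (P.cons (P.cons (P.lf 6466152 0 0) (P.cons (P.lf 6023817 0 0) (P.cons (P.lf 0 618237 0) P.nil))) (P.cons (P.cons (P.lf 0 1487556 0) (P.cons (P.lf 0 1385796 0) P.nil)) (P.cons (P.cons (P.lf 36405 0 0) P.nil) P.nil)))))) 730401)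
 EL.nil)))
noncomputable def S372_430_216_364_24 : EL := (EL.cons 4 (TM.mk (P.cons (P.cons (P.lf 0 454871616 0) (P.cons (P.lf 0 16963092 0) (P.cons (P.lf 0 6883806 0) (P.cons (P.lf 1184328 0 0) (P.cons (P.lf 38829 0 0) (P.cons (P.lf 0 17802 0) P.nil)))))) (P.cons (P.cons (P.lf 0 25428831 0) (P.cons (P.lf 3729750 0 0) (P.cons (P.lf 693678 0 0) (P.cons (P.lf 0 967500 0) (P.cons (P.lf 0 82425 0) P.nil))))) (P.cons (P.cons (P.lf 163413732 0 0) (P.cons (P.lf 8443032 0 0) (P.cons (P.lf 4415460 0 0) (P.cons (P.lf 263616 0 0) P.nil)))) (P.cons (P.cons (P.lf 5290362 0 0) (P.cons (P.lf 0 2406021 0) (P.cons (P.lf 0 1338255 0) P.nil))) (P.cons (P.cons (P.lf 0 24118806 0) (P.cons (P.lf 0 1665894 0) P.nil)) (P.cons (P.cons (P.lf 591654 0 0) P.nil) P.nil)))))) 9161145)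
 (EL.cons 8 (TM.mk (P.cons (P.cons (P.lf 0 573513075 0) (P.cons (P.lf 0 21387480 0) (P.cons (P.lf 0 8679273 0) (P.cons (P.lf 1493235 0 0) (P.cons (P.lf 48954 0 0) (P.cons (P.lf 0 22446 0) P.nil)))))) (P.cons (P.cons (P.lf 0 300351834 0) (P.cons (P.lf 0 5302542 0) (P.cons (P.lf 0 3185571 0) (P.cons (P.lf 0 521310 0) (P.cons (P.lf 0 81021 0) P.nil))))) (P.cons (P.cons (P.lf 103830099 0 0) (P.cons (P.lf 9592896 0 0) (P.cons (P.lf 4656504 0 0) (P.cons (P.lf 0 11208 0) P.nil)))) (P.cons (P.cons (P.lf 67639830 0 0) (P.cons (P.lf 1522458 0 0) (P.cons (P.lf 587829 0 0) P.nil))) (P.cons (P.cons (P.lf 0 8180859 0) (P.cons (P.lf 0 2042493 0) P.nil)) (P.cons (P.cons (P.lf 0 5715381 0) P.nil) P.nil)))))) 5354871)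
 (EL.cons 11 (TM.mk (P.cons (P.cons (P.lf 80110251 0 0) (P.cons (P.lf 73241097 0 0) (P.cons (P.lf 0 9552429 0) (P.cons (P.lf 0 1951584 0) (P.cons (P.lf 279630 0 0) (P.cons (P.lf 3243 0 0) P.nil)))))) (P.cons (P.cons (P.lf 0 25241547 0) (P.cons (P.lf 0 20978535 0) (P.cons (P.lf 5869866 0 0) (P.cons (P.lf 1156761 0 0) (P.cons (P.lf 0 310035 0) P.nil))))) (P.cons (P.cons (P.lf 0 15979404 0) (P.cons (P.lf 0 16698294 0) (P.cons (P.lf 0 941580 0) (P.cons (P.lf 0 150093 0) P.nil)))) (P.cons (P.cons (P.lf 4346418 0 0) (P.cons (P.lf 4622739 0 0) (P.cons (P.lf 366201 0 0) P.nil))) (P.cons (P.cons (P.lf 1682685 0 0) (P.cons (P.lf 1545078 0 0) P.nil)) (P.cons (P.cons (P.lf 0 577818 0) P.nil) P.nil)))))) 2952660)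
 EL.nil)))
noncomputable def S372_430_216_364_25 : EL := (EL.cons 4 (TM.mk (P.cons (P.cons (P.lf 0 863352900 0) (P.cons (P.lf 0 47165679 0) (P.cons (P.lf 0 20338371 0) (P.lf 2259810 0 0)))) (P.cons (P.cons (P.lf 192174123 0 0) (P.cons (P.lf 41994831 0 0) (P.cons (P.lf 18108642 0 0) (P.lf 0 2012067 0)))) (P.cons (P.cons (P.lf 234653208 0 0) (P.cons (P.lf 0 5616990 0) (P.cons (P.lf 0 2422104 0) (P.lf 269121 0 0)))) (P.cons (P.cons (P.lf 0 63141102 0) (P.cons (P.lf 0 4782081 0) (P.cons (P.lf 0 2062086 0) P.nil))) (P.cons (P.cons (P.lf 0 16160499 0) (P.cons (P.lf 1538598 0 0) P.nil)) (P.cons (P.cons (P.lf 6370818 0 0) P.nil) P.nil)))))) 4862127)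
 (EL.cons 8 (TM.mk (P.cons (P.cons (P.lf 0 1088536101 0) (P.cons (P.lf 0 59467632 0) (P.cons (P.lf 0 25643115 0) (P.lf 2849235 0 0)))) (P.cons (P.cons (P.lf 0 266921586 0) (P.cons (P.lf 25129023 0 0) (P.cons (P.lf 10835919 0 0) (P.lf 0 1203990 0)))) (P.cons (P.cons (P.lf 243682623 0 0) (P.cons (P.lf 8644623 0 0) (P.cons (P.lf 3727659 0 0) (P.lf 0 414183 0)))) (P.cons (P.cons (P.lf 37671924 0 0) (P.cons (P.lf 0 4457757 0) (P.cons (P.lf 0 1922232 0) P.nil))) (P.cons (P.cons (P.lf 0 19683030 0) (P.cons (P.lf 0 228252 0) P.nil)) (P.cons (P.cons (P.lf 0 304920 0) P.nil) P.nil)))))) 3137922)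
 (EL.cons 11 (TM.mk (P.cons (P.cons (P.lf 152050416 0 0) (P.cons (P.lf 141649026 0 0) (P.cons (P.lf 0 14537796 0) (P.cons (P.lf 0 3023454 0) (P.lf 251952 0 0))))) (P.cons (P.cons (P.lf 0 90253920 0) (P.cons (P.lf 0 84079875 0) (P.cons (P.lf 8629329 0 0) (P.cons (P.lf 1794657 0 0) (P.lf 0 149553 0))))) (P.cons (P.cons (P.lf 0 1321347 0) (P.cons (P.lf 0 1230957 0) (P.cons (P.lf 126336 0 0) (P.cons (P.lf 26274 0 0) P.nil)))) (P.cons (P.cons (P.lf 8560338 0 0) (P.cons (P.lf 7974747 0 0) (P.cons (P.lf 0 818466 0) P.nil))) (P.cons (P.cons (P.lf 0 1122099 0) (P.cons (P.lf 0 1045341 0) P.nil)) (P.cons (P.cons (P.lf 0 180654 0) P.nil) P.nil)))))) 984315)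
 EL.nil)))
noncomputable def S372_430_216_364_26 : EL := (EL.cons 4 (TM.mk (P.cons (P.cons (P.lf 0 367792203 0) (P.cons (P.lf 0 13715721 0) (P.cons (P.lf 0 5565987 0) (P.cons (P.lf 957603 0 0) (P.cons (P.lf 31395 0 0) (P.cons (P.lf 0 14394 0) P.nil)))))) (P.cons (P.cons (P.lf 0 52009338 0) (P.cons (P.lf 1842957 0 0) (P.cons (P.lf 84954 0 0) (P.cons (P.lf 0 700401 0) (P.cons (P.lf 0 63960 0) P.nil))))) (P.cons (P.cons (P.lf 138183816 0 0) (P.cons (P.lf 7375896 0 0) (P.cons (P.lf 3736353 0 0) (P.cons (P.lf 125922 0 0) P.nil)))) (P.cons (P.cons (P.lf 15477930 0 0) (P.cons (P.lf 0 1445670 0) (P.cons (P.lf 0 796788 0) P.nil))) (P.cons (P.cons (P.lf 0 22000290 0) (P.cons (P.lf 0 1654992 0) P.nil)) (P.cons (P.cons (P.lf 0 1080237 0) P.nil) P.nil)))))) 8404470)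
 (EL.cons 8 (TM.mk (P.cons (P.cons (P.lf 0 463721256 0) (P.cons (P.lf 0 17293116 0) (P.cons (P.lf 0 7017735 0) (P.cons (P.lf 1207374 0 0) (P.cons (P.lf 39582 0 0) (P.cons (P.lf 0 18150 0) P.nil)))))) (P.cons (P.cons (P.lf 0 282504348 0) (P.cons (P.lf 0 5766108 0) (P.cons (P.lf 0 3175794 0) (P.cons (P.lf 0 318273 0) (P.cons (P.lf 0 62124 0) P.nil))))) (P.cons (P.cons (P.lf 73036782 0 0) (P.cons (P.lf 7757148 0 0) (P.cons (P.lf 3693885 0 0) (P.cons (P.lf 0 70749 0) P.nil)))) (P.cons (P.cons (P.lf 66353913 0 0) (P.cons (P.lf 1960167 0 0) (P.cons (P.lf 841746 0 0) P.nil))) (P.cons (P.cons (P.lf 0 4109862 0) (P.cons (P.lf 0 1718523 0) P.nil)) (P.cons (P.cons (P.lf 0 6233349 0) P.nil) P.nil)))))) 4821303)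
 (EL.cons 11 (TM.mk (P.cons (P.cons (P.lf 64774158 0 0) (P.cons (P.lf 59220015 0 0) (P.cons (P.lf 0 7723737 0) (P.cons (P.lf 0 1577979 0) (P.cons (P.lf 226098 0 0) (P.cons (P.lf 2622 0 0) P.nil)))))) (P.cons (P.cons (P.lf 0 14870778 0) (P.cons (P.lf 0 11898777 0) (P.cons (P.lf 4085727 0 0) (P.cons (P.lf 800388 0 0) (P.cons (P.lf 0 231348 0) P.nil))))) (P.cons (P.cons (P.lf 0 16041237 0) (P.cons (P.lf 0 16209804 0) (P.cons (P.lf 0 191454 0) (P.cons (P.lf 0 7869 0) P.nil)))) (P.cons (P.cons (P.lf 2937162 0 0) (P.cons (P.lf 3029604 0 0) (P.cons (P.lf 118971 0 0) P.nil))) (P.cons (P.cons (P.lf 1910802 0 0) (P.cons (P.lf 1835568 0 0) P.nil)) (P.cons (P.cons (P.lf 0 447495 0) P.nil) P.nil)))))) 2754882)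
 EL.nil)))
noncomputable def S372_430_216_364_27 : EL := (EL.cons 13 (TM.mk (P.lf 0 4294967296 0) 0)
 EL.nil)
noncomputable def S372_430_216_364_28 : EL := (EL.cons 13 (TM.mk (P.cons (P.cons (P.lf 0 1829675318 0) (P.cons (P.lf 31724336 0 0) (P.cons (P.lf 13679892 0 0) (P.lf 0 1519984 0)))) (P.cons (P.cons (P.lf 0 666001894 0) (P.cons (P.lf 0 36384236 0) (P.cons (P.lf 0 15689292 0) (P.lf 1743252 0 0)))) (P.cons (P.cons (P.lf 41891857 0 0) (P.cons (P.lf 14436880 0 0) (P.cons (P.lf 6225344 0 0) (P.lf 0 691704 0)))) (P.cons (P.cons (P.lf 39121872 0 0) (P.cons (P.lf 0 1819520 0) (P.cons (P.lf 0 784596 0) P.nil))) (P.cons (P.cons (P.lf 0 6395652 0) (P.cons (P.lf 0 239172 0) P.nil)) (P.cons (P.cons (P.lf 0 263279 0) P.nil) P.nil)))))) 736894)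
 EL.nil)
noncomputable def S372_430_216_364_29 : EL := (EL.cons 13 (TM.mk (P.cons (P.cons (P.lf 0 779449886 0) (P.cons (P.lf 27029418 0 0) (P.cons (P.lf 11421062 0 0) (P.cons (P.lf 0 1497130 0) (P.cons (P.lf 0 21117 0) (P.cons (P.lf 9682 0 0) P.nil)))))) (P.cons (P.cons (P.lf 0 567439583 0) (P.cons (P.lf 0 21160985 0) (P.cons (P.lf 0 8587357 0) (P.cons (P.lf 1477421 0 0) (P.cons (P.lf 48438 0 0) P.nil))))) (P.cons (P.cons (P.lf 0 67581778 0) (P.cons (P.lf 397600 0 0) (P.cons (P.lf 0 350048 0) (P.cons (P.lf 0 468800 0) P.nil)))) (P.cons (P.cons (P.lf 46324161 0 0) (P.cons (P.lf 3058904 0 0) (P.cons (P.lf 1590514 0 0) P.nil))) (P.cons (P.cons (P.lf 6275163 0 0) (P.cons (P.lf 0 292380 0) P.nil)) (P.cons (P.cons (P.lf 0 2970974 0) P.nil) P.nil)))))) 4191482)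
 EL.nil)
noncomputable def S372_430_216_364_30 : EL := (EL.cons 13 (TM.mk (P.cons (P.lf 0 3472750184 0) (P.cons (P.lf 0 296941892 0) (P.cons (P.lf 73758800 0 0) (P.cons (P.lf 0 5045120 0) (P.cons (P.lf 0 266856 0) (P.cons (P.lf 88316 0 0) P.nil)))))) 15692)
 EL.nil)
noncomputable def S372_430_216_364_31 : EL := (EL.cons 13 (TM.mk (P.cons (P.cons (P.lf 0 1479407143 0) (P.cons (P.lf 25651113 0 0) (P.cons (P.lf 11061049 0 0) (P.lf 0 1229002 0)))) (P.cons (P.cons (P.lf 0 665002840 0) (P.cons (P.lf 0 27225603 0) (P.cons (P.lf 0 11739986 0) (P.lf 1304441 0 0)))) (P.cons (P.cons (P.lf 19248283 0 0) (P.cons (P.lf 8612807 0 0) (P.cons (P.lf 3713938 0 0) (P.lf 0 412659 0)))) (P.cons (P.cons (P.lf 43816981 0 0) (P.cons (P.lf 189032 0 0) (P.cons (P.lf 81513 0 0) P.nil))) (P.cons (P.cons (P.lf 0 4081938 0) (P.cons (P.lf 0 607878 0) P.nil)) (P.cons (P.cons (P.lf 0 1281455 0) P.nil)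 P.nil)))))) 1252754)
 EL.nil)
noncomputable def S372_430_216_364_32 : EL := (EL.cons 13 (TM.mk (P.cons (P.cons (P.lf 0 630234073 0) (P.cons (P.lf 21854978 0 0) (P.cons (P.lf 9234644 0 0) (P.cons (P.lf 0 1210523 0) (P.cons (P.lf 0 17074 0) (P.cons (P.lf 7828 0 0) P.nil)))))) (P.cons (P.cons (P.lf 0 512699419 0) (P.cons (P.lf 0 15241244 0) (P.cons (P.lf 0 6153796 0) (P.cons (P.lf 1091080 0 0) (P.cons (P.lf 37705 0 0) P.nil))))) (P.cons (P.cons (P.lf 0 80489536 0) (P.cons (P.lf 0 1605710 0) (P.cons (P.lf 0 1072878 0) (P.cons (P.lf 0 251198 0) P.nil)))) (P.cons (P.cons (P.lf 41612801 0 0) (P.cons (P.lf 2895958 0 0) (P.cons (P.lf 1422718 0 0) P.nil))) (P.cons (P.cons (P.lf 8722209 0 0) (P.cons (P.lf 0 54929 0) P.nil)) (P.cons (P.cons (P.lf 0 2862524 0) P.nil) P.nil)))))) 4531025)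
 EL.nil)
noncomputable def S372_430_216_364_33 : EL := (EL.cons 14 (TM.mk (P.lf 8589934592 0 0) 0)
 EL.nil)
noncomputable def S372_430_216_364_34 : EL := (EL.cons 14 (TM.mk (P.cons (P.cons (P.lf 3659350636 0 0) (P.cons (P.lf 0 63448672 0) (P.cons (P.lf 0 27359784 0) (P.lf 3039968 0 0)))) (P.cons (P.cons (P.lf 1332003788 0 0) (P.cons (P.lf 72768472 0 0) (P.cons (P.lf 31378584 0 0) (P.lf 0 3486504 0)))) (P.cons (P.cons (P.lf 0 83783714 0) (P.cons (P.lf 0 28873760 0) (P.cons (P.lf 0 12450688 0) (P.lf 1383408 0 0)))) (P.cons (P.cons (P.lf 0 78243744 0) (P.cons (P.lf 3639040 0 0) (P.cons (P.lf 1569192 0 0) P.nil))) (P.cons (P.cons (P.lf 12791304 0 0) (P.cons (P.lf 478344 0 0) P.nil)) (P.cons (P.cons (P.lf 526558 0 0) P.nil) P.nil)))))) 1473788)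
 EL.nil)
noncomputable def S372_430_216_364_35 : EL := (EL.cons 14 (TM.mk (P.cons (P.cons (P.lf 1558899772 0 0) (P.cons (P.lf 0 54058836 0) (P.cons (P.lf 0 22842124 0) (P.cons (P.lf 2994260 0 0) (P.cons (P.lf 42234 0 0) (P.cons (P.lf 0 19364 0) P.nil)))))) (P.cons (P.cons (P.lf 1134879166 0 0) (P.cons (P.lf 42321970 0 0) (P.cons (P.lf 17174714 0 0) (P.cons (P.lf 0 2954842 0) (P.cons (P.lf 0 96876 0) P.nil))))) (P.cons (P.cons (P.lf 135163556 0 0) (P.cons (P.lf 0 795200 0) (P.cons (P.lf 700096 0 0) (P.cons (P.lf 937600 0 0) P.nil)))) (P.cons (P.cons (P.lf 0 92648322 0) (P.cons (P.lf 0 6117808 0) (P.cons (P.lf 0 3181028 0) P.nil))) (P.cons (P.cons (P.lf 0 12550326 0) (P.cons (P.lf 584760 0 0) P.nil)) (P.cons (P.cons (P.lf 5941948 0 0) P.nil) P.nil)))))) 8382964)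
 EL.nil)
noncomputable def S372_430_216_364_36 : EL := (EL.cons 14 (TM.mk (P.cons (P.lf 6945500368 0 0) (P.cons (P.lf 593883784 0 0) (P.cons (P.lf 0 147517600 0) (P.cons (P.lf 10090240 0 0) (P.cons (P.lf 533712 0 0) (P.cons (P.lf 0 176632 0) P.nil)))))) 31384)
 EL.nil)
noncomputable def S372_430_216_364_37 : EL := (EL.cons 14 (TM.mk (P.cons (P.cons (P.lf 2958814286 0 0) (P.cons (P.lf 0 51302226 0) (P.cons (P.lf 0 22122098 0) (P.lf 2458004 0 0)))) (P.cons (P.cons (P.lf 1330005680 0 0) (P.cons (P.lf 54451206 0 0) (P.cons (P.lf 23479972 0 0) (P.lf 0 2608882 0)))) (P.cons (P.cons (P.lf 0 38496566 0) (P.cons (P.lf 0 17225614 0) (P.cons (P.lf 0 7427876 0) (P.lf 825318 0 0)))) (P.cons (P.cons (P.lf 0 87633962 0) (P.cons (P.lf 0 378064 0) (P.cons (P.lf 0 163026 0) P.nil))) (P.cons (P.cons (P.lf 8163876 0 0) (P.cons (P.lf 1215756 0 0) P.nil)) (P.cons (P.cons (P.lf 2562910 0 0)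 P.nil) P.nil)))))) 2505508)
 EL.nil)
noncomputable def S372_430_216_364_38 : EL := (EL.cons 14 (TM.mk (P.cons (P.cons (P.lf 1260468146 0 0) (P.cons (P.lf 0 43709956 0) (P.cons (P.lf 0 18469288 0) (P.cons (P.lf 2421046 0 0) (P.cons (P.lf 34148 0 0) (P.cons (P.lf 0 15656 0) P.nil)))))) (P.cons (P.cons (P.lf 1025398838 0 0) (P.cons (P.lf 30482488 0 0) (P.cons (P.lf 12307592 0 0) (P.cons (P.lf 0 2182160 0) (P.cons (P.lf 0 75410 0) P.nil))))) (P.cons (P.cons (P.lf 160979072 0 0) (P.cons (P.lf 3211420 0 0) (P.cons (P.lf 2145756 0 0) (P.cons (P.lf 502396 0 0) P.nil)))) (P.cons (P.cons (P.lf 0 83225602 0) (P.cons (P.lf 0 5791916 0) (P.cons (P.lf 0 2845436 0) P.nil))) (P.cons (P.cons (P.lf 0 17444418 0) (P.cons (P.lf 109858 0 0) P.nil)) (P.cons (P.cons (P.lf 5725048 0 0) P.nil) P.nil)))))) 9062050)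
 EL.nil)
noncomputable def S372_430_216_364_39 : EL := (EL.cons 14 (TM.mk (P.cons (P.lf 5615872256 0 0) (P.cons (P.lf 960384504 0 0) (P.cons (P.lf 0 197495000 0) (P.cons (P.lf 0 4080716 0) (P.cons (P.lf 4791664 0 0) (P.cons (P.lf 0 558402 0) P.nil)))))) 118664)
 EL.nil)
noncomputable def S372_430_216_364_40 : EL := (EL.cons 14 (TM.mk (P.cons (P.cons (P.lf 2392386750 0 0) (P.cons (P.lf 0 41481064 0) (P.cons (P.lf 0 17887102 0) (P.lf 1987450 0 0)))) (P.cons (P.cons (P.lf 1279956982 0 0) (P.cons (P.lf 40480322 0 0) (P.cons (P.lf 17455570 0 0) (P.lf 0 1939504 0)))) (P.cons (P.cons (P.lf 10013312 0 0) (P.cons (P.lf 0 9282356 0) (P.cons (P.lf 0 4002654 0) (P.lf 444738 0 0)))) (P.cons (P.cons (P.lf 0 92884096 0) (P.cons (P.lf 0 2491988 0) (P.cons (P.lf 0 1074574 0) P.nil))) (P.cons (P.cons (P.lf 2949494 0 0) (P.cons (P.lf 1313472 0 0) P.nil)) (P.cons (P.cons (P.lf 4118240 0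 0) P.nil) P.nil)))))) 2916842)
 EL.nil)
noncomputable def S372_430_216_364_41 : EL := (EL.cons 14 (TM.mk (P.cons (P.cons (P.lf 1019167478 0 0) (P.cons (P.lf 0 35342238 0) (P.cons (P.lf 0 14933576 0) (P.cons (P.lf 1957568 0 0) (P.cons (P.lf 27610 0 0) (P.cons (P.lf 0 12658 0) P.nil)))))) (P.cons (P.cons (P.lf 916244416 0 0) (P.cons (P.lf 21625020 0 0) (P.cons (P.lf 8674544 0 0) (P.cons (P.lf 0 1597028 0) (P.cons (P.lf 0 58612 0) P.nil))))) (P.cons (P.cons (P.lf 179408434 0 0) (P.cons (P.lf 5454752 0 0) (P.cons (P.lf 2903070 0 0) (P.cons (P.lf 213774 0 0) P.nil)))) (P.cons (P.cons (P.lf 0 72292348 0) (P.cons (P.lf 0 5035928 0) (P.cons (P.lf 0 2385418 0) P.nil))) (P.cons (P.cons (P.lf 0 21340622 0) (P.cons (P.lf 0 333668 0) P.nil)) (P.cons (P.cons (P.lf 5079148 0 0) P.nil) P.nil)))))) 8990636)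
 EL.nil)
noncomputable def S372_430_216_364_42 : EL := (EL.cons 14 (TM.mk (P.cons (P.lf 4540784612 0 0) (P.cons (P.lf 1164796574 0 0) (P.cons (P.lf 0 189731922 0) (P.cons (P.lf 0 26850006 0) (P.cons (P.lf 8460924 0 0) (P.cons (P.lf 0 337936 0) P.nil)))))) 309558)
 EL.nil)
noncomputable def S372_430_216_364_43 : EL := (EL.cons 14 (TM.mk (P.cons (P.cons (P.lf 1934394596 0 0) (P.cons (P.lf 0 33540040 0) (P.cons (P.lf 0 14462844 0) (P.lf 1606978 0 0)))) (P.cons (P.cons (P.lf 1200328276 0 0) (P.cons (P.lf 29862992 0 0) (P.cons (P.lf 12877258 0 0) (P.lf 0 1430804 0)))) (P.cons (P.cons (P.lf 55503800 0 0) (P.cons (P.lf 0 3994304 0) (P.cons (P.lf 0 1722388 0) (P.lf 191376 0 0)))) (P.cons (P.cons (P.lf 0 93581176 0) (P.cons (P.lf 0 3400592 0) (P.cons (P.lf 0 1466374 0) P.nil))) (P.cons (P.cons (P.lf 0 2556696 0) (P.cons (P.lf 1094118 0 0) P.nil)) (P.cons (P.cons (P.lf 5170998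 0 0) P.nil) P.nil)))))) 3533268)
 EL.nil)
noncomputable def S372_430_216_364_44 : EL := (EL.cons 14 (TM.mk (P.cons (P.cons (P.lf 824060766 0 0) (P.cons (P.lf 0 28576414 0) (P.cons (P.lf 0 12074732 0) (P.cons (P.lf 1582816 0 0) (P.cons (P.lf 22324 0 0) (P.cons (P.lf 0 10236 0) P.nil)))))) (P.cons (P.cons (P.lf 811303378 0 0) (P.cons (P.lf 15041720 0 0) (P.cons (P.lf 5981448 0 0) (P.cons (P.lf 0 1155956 0) (P.cons (P.lf 0 45482 0) P.nil))))) (P.cons (P.cons (P.lf 190907030 0 0) (P.cons (P.lf 6512544 0 0) (P.cons (P.lf 3203506 0 0) (P.cons (P.lf 28816 0 0) P.nil)))) (P.cons (P.cons (P.lf 0 60586874 0) (P.cons (P.lf 0 4107626 0) (P.cons (P.lf 0 1894562 0) P.nil))) (P.cons (P.cons (P.lf 0 24194758 0) (P.cons (P.lf 0 688432 0) P.nil)) (P.cons (P.cons (P.lf 4119594 0 0) P.nil) P.nil)))))) 8951856)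
 EL.nil)
noncomputable def S372_430_216_364_45 : EL := (EL.cons 14 (TM.mk (P.cons (P.cons (P.lf 664098288 0 0) (P.cons (P.lf 0 34543958 0) (P.cons (P.lf 0 14296794 0) (P.cons (P.lf 2168164 0 0) (P.cons (P.lf 49498 0 0) (P.cons (P.lf 0 26180 0) P.nil)))))) (P.cons (P.cons (P.lf 725195416 0 0) (P.cons (P.lf 14470020 0 0) (P.cons (P.lf 5083794 0 0) (P.cons (P.lf 0 1678202 0) (P.cons (P.lf 0 88754 0) P.nil))))) (P.cons (P.cons (P.lf 218356002 0 0) (P.cons (P.lf 10126798 0 0) (P.cons (P.lf 5185952 0 0) (P.cons (P.lf 202880 0 0) P.nil)))) (P.cons (P.cons (P.lf 0 43778316 0) (P.cons (P.lf 0 3974862 0) (P.cons (P.lf 0 1904068 0) P.nil))) (P.cons (P.cons (P.lf 0 29047402 0) (P.cons (P.lf 0 1736692 0) P.nil)) (P.cons (P.cons (P.lf 2043174 0 0) P.nil) P.nil)))))) 12709292)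
 EL.nil)
noncomputable def S372_430_216_364_46 : EL := (EL.cons 15 (TM.mk (P.lf 4294967296 0 0) 0)
 EL.nil)
noncomputable def S372_430_216_364_47 : EL := (EL.cons 15 (TM.mk (P.cons (P.cons (P.lf 1829675318 0 0) (P.cons (P.lf 0 31724336 0) (P.cons (P.lf 0 13679892 0) (P.lf 1519984 0 0)))) (P.cons (P.cons (P.lf 666001894 0 0) (P.cons (P.lf 36384236 0 0) (P.cons (P.lf 15689292 0 0) (P.lf 0 1743252 0)))) (P.cons (P.cons (P.lf 0 41891857 0) (P.cons (P.lf 0 14436880 0) (P.cons (P.lf 0 6225344 0) (P.lf 691704 0 0)))) (P.cons (P.cons (P.lf 0 39121872 0) (P.cons (P.lf 1819520 0 0) (P.cons (P.lf 784596 0 0) P.nil))) (P.cons (P.cons (P.lf 6395652 0 0) (P.cons (P.lf 239172 0 0) P.nil)) (P.cons (P.cons (P.lf 263279 0 0) P.nil) P.nil)))))) 736894)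
 EL.nil)
noncomputable def S372_430_216_364_48 : EL := (EL.cons 15 (TM.mk (P.cons (P.cons (P.lf 779449886 0 0) (P.cons (P.lf 0 27029418 0) (P.cons (P.lf 0 11421062 0) (P.cons (P.lf 1497130 0 0) (P.cons (P.lf 21117 0 0) (P.cons (P.lf 0 9682 0) P.nil)))))) (P.cons (P.cons (P.lf 567439583 0 0) (P.cons (P.lf 21160985 0 0) (P.cons (P.lf 8587357 0 0) (P.cons (P.lf 0 1477421 0) (P.cons (P.lf 0 48438 0) P.nil))))) (P.cons (P.cons (P.lf 67581778 0 0) (P.cons (P.lf 0 397600 0) (P.cons (P.lf 350048 0 0) (P.cons (P.lf 468800 0 0) P.nil)))) (P.cons (P.cons (P.lf 0 46324161 0) (P.cons (P.lf 0 3058904 0) (P.cons (P.lf 0 1590514 0) P.nil))) (P.cons (P.cons (P.lf 0 6275163 0) (P.cons (P.lf 292380 0 0) P.nil)) (P.cons (P.cons (P.lf 2970974 0 0) P.nil) P.nil)))))) 4191482)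
 EL.nil)
noncomputable def S372_430_216_364 : SL := (SL.cons S372_430_216_364_0 (SL.cons S372_430_216_364_1 (SL.cons S372_430_216_364_2 (SL.cons S372_430_216_364_3 (SL.cons S372_430_216_364_4 (SL.cons S372_430_216_364_5 (SL.cons S372_430_216_364_6 (SL.cons S372_430_216_364_7 (SL.cons S372_430_216_364_8 (SL.cons S372_430_216_364_9 (SL.cons S372_430_216_364_10 (SL.cons S372_430_216_364_11 (SL.cons S372_430_216_364_12 (SL.cons S372_430_216_364_13 (SL.cons S372_430_216_364_14 (SL.cons S372_430_216_364_15 (SL.cons S372_430_216_364_16 (SL.cons S372_430_216_364_17 (SL.cons S372_430_216_364_18 (SL.cons S372_430_216_364_19 (SL.cons S372_430_216_364_20 (SL.cons S372_430_216_364_21 (SL.cons S372_430_216_364_22 (SL.cons S372_430_216_364_23 (SL.cons S372_430_216_364_24 (SL.cons S372_430_216_364_25 (SL.cons S372_430_216_364_26 (SL.cons S372_430_216_364_27 (SL.cons S372_430_216_364_28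 (SL.cons S372_430_216_364_29 (SL.cons S372_430_216_364_30 (SL.cons S372_430_216_364_31 (SL.cons S372_430_216_364_32 (SL.cons S372_430_216_364_33 (SL.cons S372_430_216_364_34 (SL.cons S372_430_216_364_35 (SL.cons S372_430_216_364_36 (SL.cons S372_430_216_364_37 (SL.cons S372_430_216_364_38 (SL.cons S372_430_216_364_39 (SL.cons S372_430_216_364_40 (SL.cons S372_430_216_364_41 (SL.cons S372_430_216_364_42 (SL.cons S372_430_216_364_43 (SL.cons S372_430_216_364_44 (SL.cons S372_430_216_364_45 (SL.cons S372_430_216_364_46 (SL.cons S372_430_216_364_47 (SL.cons S372_430_216_364_48 SL.nil)))))))))))))))))))))))))))))))))))))))))))))))))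
theorem S372_401_216_364_ok : band (seq (shp 5 372 401 216 364) S372_401_216_364) (sok S372_401_216_364) = true := by decide +kernel

theorem S372_401_364_512_ok : band (seq (shp 5 372 401 364 512) S372_401_364_512) (sok S372_401_364_512) = true := by decide +kernel

theorem S372_401_512_660_ok : band (seq (shp 5 372 401 512 660) S372_401_512_660) (sok S372_401_512_660) = true := by decide +kernel

theorem S372_401_586_660_ok : band (seq (shp 5 372 401 586 660) S372_401_586_660) (sok S372_401_586_660) = true := by decide +kernel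

theorem S372_401_660_808_ok : band (seq (shp 5 372 401 660 808) S372_401_660_808) (sok S372_401_660_808) = true := by decide +kernel

theorem S372_430_216_364_ok : band (seq (shp 5 372 430 216 364) S372_430_216_364) (sok S372_430_216_364) = true := by decide +kernel

end Vale.Agent.P098.Ck
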