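import Vale.Agent.P098.CkDefs

namespace Vale.Agent.P098.Ck

noncomputable def S372_430_364_512_0 : EL := (EL.cons 0 (TM.mk (P.cons (P.lf 3519891639 0 0) (P.cons (P.lf 0 844087942 0) (P.cons (P.lf 173579589 0 0) (P.cons (P.lf 3586566 0 0) (P.cons (P.lf 0 4211423 0) (P.cons (P.lf 490783 0 0) P.nil)))))) 104301)
 (EL.cons 1 (TM.mk (P.cons (P.lf 1391915122 0 0) (P.cons (P.lf 0 413105733 0) (P.cons (P.lf 0 67350723 0) (P.cons (P.lf 19192974 0 0) (P.cons (P.lf 0 1069213 0) (P.cons (P.lf 0 215523 0) P.nil)))))) 64748)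
 (EL.cons 5 (TM.mk (P.cons (P.lf 6049927380 0 0) (P.cons (P.lf 300120158 0 0) (P.cons (P.lf 0 61717188 0) (P.cons (P.lf 0 1275220 0) (P.cons (P.lf 1497396 0 0) (P.cons (P.lf 0 174500 0) P.nil)))))) 24617)
 (EL.cons 9 (TM.mk (P.lf 6442450944 0 0) 2)
 EL.nil))))
noncomputable def S372_430_364_512_1 : EL := (EL.cons 0 (TM.mk (P.cons (P.cons (P.lf 3780144388 0 0) (P.cons (P.lf 179246748 0 0) (P.cons (P.lf 11984013 0 0) (P.lf 0 3994659 0)))) (P.cons (P.cons (P.lf 0 666785205 0) (P.cons (P.lf 0 151959358 0) (P.cons (P.lf 0 10159642 0) (P.lf 3386538 0 0)))) (P.cons (P.cons (P.lf 0 526084698 0) (P.cons (P.lf 9052519 0 0) (P.cons (P.lf 605214 0 0) (P.lf 0 201734 0)))) (P.cons (P.cons (P.lf 214652476 0 0) (P.cons (P.lf 26536331 0 0) (P.cons (P.lf 1774149 0 0) P.nil))) (P.cons (P.cons (P.lf 10392984 0 0) (P.cons (P.lf 0 8915209 0) P.nil)) (P.cons (P.cons (P.lf 0 14281924 0)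 P.nil) P.nil)))))) 12150574)
 (EL.cons 1 (TM.mk (P.cons (P.cons (P.lf 1717302846 0 0) (P.cons (P.lf 92977736 0 0) (P.cons (P.lf 6216278 0 0) (P.lf 0 2072097 0)))) (P.cons (P.cons (P.lf 467384411 0 0) (P.cons (P.lf 4461100 0 0) (P.cons (P.lf 298257 0 0) (P.lf 0 99411 0)))) (P.cons (P.cons (P.lf 0 458296115 0) (P.cons (P.lf 0 53242689 0) (P.cons (P.lf 0 3559672 0) (P.lf 1186556 0 0)))) (P.cons (P.cons (P.lf 0 46022543 0) (P.cons (P.lf 17123804 0 0) (P.cons (P.lf 1144849 0 0) P.nil))) (P.cons (P.cons (P.lf 40383912 0 0) (P.cons (P.lf 1139662 0 0) P.nil)) (P.cons (P.cons (P.lf 0 2990327 0) P.nil) P.nil)))))) 5602059)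
 (EL.cons 5 (TM.mk (P.cons (P.cons (P.lf 1586182523 0 0) (P.cons (P.lf 0 179679070 0) (P.cons (P.lf 0 12012926 0) (P.lf 4004304 0 0)))) (P.cons (P.cons (P.lf 1575967747 0 0) (P.cons (P.lf 187008000 0 0) (P.cons (P.lf 12502918 0 0) (P.lf 0 4167636 0)))) (P.cons (P.cons (P.lf 33825610 0 0) (P.cons (P.lf 0 55982942 0) (P.cons (P.lf 0 3742888 0) (P.lf 1247626 0 0)))) (P.cons (P.cons (P.lf 0 132492034 0) (P.cons (P.lf 0 2785104 0) (P.cons (P.lf 0 186198 0) P.nil))) (P.cons (P.cons (P.lf 8535984 0 0) (P.cons (P.lf 4043986 0 0) P.nil)) (P.cons (P.cons (P.lf 5003146 0 0) P.nil) P.nil)))))) 3769718)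
 (EL.cons 9 (TM.mk (P.cons (P.cons (P.lf 2585500455 0 0) (P.cons (P.lf 0 102306078 0) (P.cons (P.lf 0 6839946 0) (P.lf 2279976 0 0)))) (P.cons (P.cons (P.lf 1181372259 0 0) (P.cons (P.lf 117333528 0 0) (P.cons (P.lf 7844646 0 0) (P.lf 0 2614878 0)))) (P.cons (P.cons (P.lf 0 135200047 0) (P.cons (P.lf 0 46556706 0) (P.cons (P.lf 0 3112668 0) (P.lf 1037556 0 0)))) (P.cons (P.cons (P.lf 0 49562784 0) (P.cons (P.lf 5867676 0 0) (P.cons (P.lf 392298 0 0) P.nil))) (P.cons (P.cons (P.lf 10792290 0 0) (P.cons (P.lf 771294 0 0) P.nil)) (P.cons (P.cons (P.lf 0 66060 0) P.nil) P.nil)))))) 1047532)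
 (EL.cons 2 (TM.mk (P.cons (P.cons (P.lf 0 413976375 0) (P.cons (P.lf 0 64093938 0) (P.cons (P.lf 30878437 0 0) (P.cons (P.lf 1168529 0 0) (P.lf 0 292128 0))))) (P.cons (P.cons (P.lf 281125220 0 0) (P.cons (P.lf 43525243 0 0) (P.cons (P.lf 0 20969085 0) (P.cons (P.lf 0 793530 0) (P.lf 198379 0 0))))) (P.cons (P.cons (P.lf 0 29232998 0) (P.cons (P.lf 0 4526001 0) (P.cons (P.lf 2180483 0 0) (P.cons (P.lf 82513 0 0) P.nil)))) (P.cons (P.cons (P.lf 0 14234675 0) (P.cons (P.lf 0 2203883 0) (P.cons (P.lf 1061760 0 0) P.nil))) (P.cons (P.cons (P.lf 3274728 0 0) (P.cons (P.lf 507009 0 0) P.nil)) (P.cons (P.cons (P.lf 0 80147 0) P.nil) P.nil)))))) 641085)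
 (EL.cons 6 (TM.mk (P.cons (P.cons (P.lf 116742378 0 0) (P.cons (P.lf 18074649 0 0) (P.cons (P.lf 0 8707797 0) (P.cons (P.lf 0 329526 0) (P.lf 82380 0 0))))) (P.cons (P.cons (P.lf 0 133890336 0) (P.cons (P.lf 0 20729586 0) (P.cons (P.lf 9986859 0 0) (P.cons (P.lf 377931 0 0) (P.lf 0 94482 0))))) (P.cons (P.cons (P.lf 53126271 0 0) (P.cons (P.lf 8225280 0 0) (P.cons (P.lf 0 3962679 0) (P.cons (P.lf 0 149958 0) P.nil)))) (P.cons (P.cons (P.lf 0 6695658 0) (P.cons (P.lf 0 1036656 0) (P.cons (P.lf 499428 0 0) P.nil))) (P.cons (P.cons (P.lf 0 880134 0) (P.cons (P.lf 0 136266 0) P.nil)) (P.cons (P.cons (P.lf 338436 0 0) P.nil) P.nil)))))) 291246)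
 EL.nil))))))
noncomputable def S372_430_364_512_2 : EL := (EL.cons 0 (TM.mk (P.cons (P.cons (P.lf 2467201073 0 0) (P.cons (P.lf 68678695 0 0) (P.cons (P.lf 0 1988814 0) (P.cons (P.lf 0 2410468 0) (P.cons (P.lf 263879 0 0) (P.cons (P.lf 19606 0 0) P.nil)))))) (P.cons (P.cons (P.lf 469040447 0 0) (P.cons (P.lf 60924245 0 0) (P.cons (P.lf 17677426 0 0) (P.cons (P.lf 461338 0 0) (P.cons (P.lf 0 545541 0) P.nil))))) (P.cons (P.cons (P.lf 0 788249036 0) (P.cons (P.lf 0 114006465 0) (P.cons (P.lf 0 18542944 0) (P.cons (P.lf 1080457 0 0) P.nil)))) (P.cons (P.cons (P.lf 0 13961267 0) (P.cons (P.lf 27192126 0 0) (P.cons (P.lf 5429292 0 0) P.nil))) (P.cons (P.cons (P.lf 121246775 0 0) (P.cons (P.lf 16097292 0 0) P.nil)) (P.cons (P.cons (P.lf 0 12134574 0) P.nil) P.nil)))))) 57624872)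
 (EL.cons 1 (TM.mk (P.cons (P.cons (P.lf 1154203025 0 0) (P.cons (P.lf 37827947 0 0) (P.cons (P.lf 0 774882 0) (P.cons (P.lf 0 1284826 0) (P.cons (P.lf 132499 0 0) (P.cons (P.lf 9852 0 0) P.nil)))))) (P.cons (P.cons (P.lf 866625825 0 0) (P.cons (P.lf 67882398 0 0) (P.cons (P.lf 8692800 0 0) (P.cons (P.lf 0 957313 0) (P.cons (P.lf 0 166596 0) P.nil))))) (P.cons (P.cons (P.lf 0 220224235 0) (P.cons (P.lf 0 37618393 0) (P.cons (P.lf 0 3008538 0) (P.cons (P.lf 772368 0 0) P.nil)))) (P.cons (P.cons (P.lf 0 217995983 0) (P.cons (P.lf 0 21388044 0) (P.cons (P.lf 0 3213591 0) P.nil))) (P.cons (P.cons (P.lf 27522946 0 0) (P.cons (P.lf 12956972 0 0) P.nil)) (P.cons (P.cons (P.lf 20138737 0 0) P.nil) P.nil)))))) 24779252)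
 (EL.cons 5 (TM.mk (P.cons (P.cons (P.lf 298741706 0 0) (P.cons (P.lf 0 117483282 0) (P.cons (P.lf 0 3673682 0) (P.cons (P.lf 3177270 0 0) (P.cons (P.lf 0 167657 0) (P.cons (P.lf 0 12454 0) P.nil)))))) (P.cons (P.cons (P.lf 907882259 0 0) (P.cons (P.lf 42549092 0 0) (P.cons (P.lf 0 6215682 0) (P.cons (P.lf 0 2159753 0) (P.cons (P.lf 363333 0 0) P.nil))))) (P.cons (P.cons (P.lf 402795826 0 0) (P.cons (P.lf 51820310 0 0) (P.cons (P.lf 11445174 0 0) (P.cons (P.lf 0 87719 0) P.nil)))) (P.cons (P.cons (P.lf 0 96316807 0) (P.cons (P.lf 0 27479091 0) (P.cons (P.lf 0 5254344 0) P.nil))) (P.cons (P.cons (P.lf 0 50677560 0) (P.cons (P.lf 0 2802888 0) P.nil)) (P.cons (P.cons (P.lf 11097784 0 0) P.nil) P.nil)))))) 21527784)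
 (EL.cons 9 (TM.mk (P.cons (P.cons (P.lf 1037619480 0 0) (P.cons (P.lf 0 82115458 0) (P.cons (P.lf 0 3865428 0) (P.cons (P.lf 2047246 0 0) (P.cons (P.lf 0 65149 0) (P.cons (P.lf 0 4840 0) P.nil)))))) (P.cons (P.cons (P.lf 948222513 0 0) (P.cons (P.lf 56656800 0 0) (P.cons (P.lf 61429 0 0) (P.cons (P.lf 0 1760937 0) (P.cons (P.lf 149439 0 0) P.nil))))) (P.cons (P.cons (P.lf 108114264 0 0) (P.cons (P.lf 9957072 0 0) (P.cons (P.lf 4281294 0 0) (P.cons (P.lf 261556 0 0) P.nil)))) (P.cons (P.cons (P.lf 0 89365425 0) (P.cons (P.lf 0 15715399 0) (P.cons (P.lf 0 2932884 0) P.nil))) (P.cons (P.cons (P.lf 0 6677302 0) (P.cons (P.lf 2576989 0 0) P.nil)) (P.cons (P.cons (P.lf 5985238 0 0) P.nil) P.nil)))))) 6933682)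
 (EL.cons 2 (TM.mk (P.cons (P.cons (P.lf 0 332276056 0) (P.cons (P.lf 0 38296794 0) (P.cons (P.lf 27699080 0 0) (P.cons (P.lf 0 199693 0) (P.cons (P.lf 0 382522 0) (P.cons (P.lf 28648 0 0) P.nil)))))) (P.cons (P.cons (P.lf 73819473 0 0) (P.cons (P.lf 0 12578563 0) (P.cons (P.lf 0 10828265 0) (P.cons (P.lf 1868878 0 0) (P.cons (P.lf 322413 0 0) P.nil))))) (P.cons (P.cons (P.lf 97013148 0 0) (P.cons (P.lf 32171771 0 0) (P.cons (P.lf 0 3433955 0) (P.cons (P.lf 0 1757880 0) P.nil)))) (P.cons (P.cons (P.lf 0 27576191 0) (P.cons (P.lf 0 9699423 0) (P.cons (P.lf 853177 0 0) P.nil))) (P.cons (P.cons (P.lf 0 7077560 0) (P.cons (P.lf 0 882815 0) P.nil)) (P.cons (P.cons (P.lf 3134266 0 0) P.nil) P.nil)))))) 5634500)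
 (EL.cons 6 (TM.mk (P.cons (P.cons (P.lf 93702678 0 0) (P.cons (P.lf 10799790 0 0) (P.cons (P.lf 0 7811208 0) (P.cons (P.lf 56310 0 0) (P.cons (P.lf 107868 0 0) (P.cons (P.lf 0 8076 0) P.nil)))))) (P.cons (P.cons (P.lf 0 64651578 0) (P.cons (P.lf 0 1504974 0) (P.cons (P.lf 6707694 0 0) (P.cons (P.lf 0 553368 0) (P.cons (P.lf 0 141384 0) P.nil))))) (P.cons (P.cons (P.lf 0 11362098 0) (P.cons (P.lf 0 10010688 0) (P.cons (P.lf 0 981726 0) (P.cons (P.lf 746028 0 0) P.nil)))) (P.cons (P.cons (P.lf 17932980 0 0) (P.cons (P.lf 7072044 0 0) (P.cons (P.lf 0 385362 0) P.nil))) (P.cons (P.cons (P.lf 0 2940630 0) (P.cons (P.lf 0 1654992 0) P.nil)) (P.cons (P.cons (P.lf 0 1038504 0) P.nil) P.nil)))))) 2814036)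
 EL.nil))))))
noncomputable def S372_430_364_512_3 : EL := (EL.cons 0 (TM.mk (P.cons (P.lf 4935825225 0 0) (P.cons (P.lf 844087942 0 0) (P.cons (P.lf 0 173579589 0) (P.cons (P.lf 0 3586566 0) (P.cons (P.lf 4211423 0 0) (P.cons (P.lf 0 490783 0) P.nil)))))) 104301)
 (EL.cons 1 (TM.mk (P.cons (P.lf 0 1391915122 0) (P.cons (P.lf 413105733 0 0) (P.cons (P.lf 67350723 0 0) (P.cons (P.lf 0 19192974 0) (P.cons (P.lf 1069213 0 0) (P.cons (P.lf 215523 0 0) P.nil)))))) 64748)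
 (EL.cons 5 (TM.mk (P.cons (P.lf 392523564 0 0) (P.cons (P.lf 0 300120158 0) (P.cons (P.lf 61717188 0 0) (P.cons (P.lf 1275220 0 0) (P.cons (P.lf 0 1497396 0) (P.cons (P.lf 174500 0 0) P.nil)))))) 24610)
 EL.nil)))
noncomputable def S372_430_364_512_4 : EL := (EL.cons 0 (TM.mk (P.cons (P.cons (P.lf 1980857668 0 0) (P.cons (P.lf 0 78380869 0) (P.cons (P.lf 0 5240360 0) (P.lf 1746782 0 0)))) (P.cons (P.cons (P.lf 1243849090 0 0) (P.cons (P.lf 76489904 0 0) (P.cons (P.lf 5113935 0 0) (P.lf 0 1704642 0)))) (P.cons (P.cons (P.lf 0 18460648 0) (P.cons (P.lf 0 17539549 0) (P.cons (P.lf 0 1172649 0) (P.lf 390883 0 0)))) (P.cons (P.cons (P.lf 0 88955143 0) (P.cons (P.lf 0 4708752 0) (P.cons (P.lf 0 314815 0) P.nil))) (P.cons (P.cons (P.lf 6449879 0 0) (P.cons (P.lf 2481883 0 0) P.nil)) (P.cons (P.cons (P.lf 3349332 0 0) P.nil) P.nil)))))) 2455219)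
 (EL.cons 1 (TM.mk (P.cons (P.cons (P.lf 0 558606841 0) (P.cons (P.lf 22103602 0 0) (P.cons (P.lf 1477794 0 0) (P.lf 0 492596 0)))) (P.cons (P.cons (P.lf 0 89451180 0) (P.cons (P.lf 0 31910454 0) (P.cons (P.lf 0 2133457 0) (P.lf 711150 0 0)))) (P.cons (P.cons (P.lf 131992306 0 0) (P.cons (P.lf 16512930 0 0) (P.cons (P.lf 1104013 0 0) (P.lf 0 368004 0)))) (P.cons (P.cons (P.lf 6686600 0 0) (P.cons (P.lf 0 2721648 0) (P.cons (P.lf 0 181961 0) P.nil))) (P.cons (P.cons (P.lf 0 10013585 0) (P.cons (P.lf 0 643636 0) P.nil)) (P.cons (P.cons (P.lf 873500 0 0) P.nil) P.nil)))))) 1259720)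
 (EL.cons 5 (TM.mk (P.cons (P.cons (P.lf 157528534 0 0) (P.cons (P.lf 0 6233270 0) (P.cons (P.lf 0 416740 0) (P.lf 138912 0 0)))) (P.cons (P.cons (P.lf 0 48466702 0) (P.cons (P.lf 11914764 0 0) (P.cons (P.lf 796592 0 0) (P.lf 0 265530 0)))) (P.cons (P.cons (P.lf 0 38502894 0) (P.cons (P.lf 0 9282616 0) (P.cons (P.lf 0 620612 0) (P.lf 206870 0 0)))) (P.cons (P.cons (P.lf 15107566 0 0) (P.cons (P.lf 3630114 0 0) (P.cons (P.lf 242700 0 0) P.nil))) (P.cons (P.cons (P.lf 1304136 0 0) (P.cons (P.lf 0 625348 0) P.nil)) (P.cons (P.cons (P.lf 0 1212892 0) P.nil) P.nil)))))) 617314)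
 EL.nil)))
noncomputable def S372_430_364_512_5 : EL := (EL.cons 0 (TM.mk (P.cons (P.cons (P.lf 794962731 0 0) (P.cons (P.lf 0 62912010 0) (P.cons (P.lf 0 2961462 0) (P.cons (P.lf 1568478 0 0) (P.cons (P.lf 0 49913 0) (P.cons (P.lf 0 3707 0) P.nil)))))) (P.cons (P.cons (P.lf 862420642 0 0) (P.cons (P.lf 32648349 0 0) (P.cons (P.lf 0 459383 0) (P.cons (P.lf 0 1080894 0) (P.cons (P.lf 105953 0 0) P.nil))))) (P.cons (P.cons (P.lf 179109898 0 0) (P.cons (P.lf 17264119 0 0) (P.cons (P.lf 3392268 0 0) (P.cons (P.lf 0 85485 0) P.nil)))) (P.cons (P.cons (P.lf 0 80427113 0) (P.cons (P.lf 0 12216433 0) (P.cons (P.lf 0 1685571 0) P.nil))) (P.cons (P.cons (P.lf 0 19586910 0) (P.cons (P.lf 0 438183 0) P.nil)) (P.cons (P.cons (P.lf 6599077 0 0) P.nil) P.nil)))))) 9488451)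
 (EL.cons 1 (TM.mk (P.cons (P.cons (P.lf 0 224181487 0) (P.cons (P.lf 17741343 0 0) (P.cons (P.lf 835138 0 0) (P.cons (P.lf 0 442314 0) (P.cons (P.lf 14075 0 0) (P.cons (P.lf 1044 0 0) P.nil)))))) (P.cons (P.cons (P.lf 0 138332242 0) (P.cons (P.lf 0 17506351 0) (P.cons (P.lf 0 261131 0) (P.cons (P.lf 511730 0 0) (P.cons (P.lf 0 36463 0) P.nil))))) (P.cons (P.cons (P.lf 48291356 0 0) (P.cons (P.lf 623257 0 0) (P.cons (P.lf 0 961458 0) (P.cons (P.lf 0 148021 0) P.nil)))) (P.cons (P.cons (P.lf 33061978 0 0) (P.cons (P.lf 4870775 0 0) (P.cons (P.lf 920343 0 0) P.nil))) (P.cons (P.cons (P.lf 0 5810105 0) (P.cons (P.lf 0 1642800 0) P.nil)) (P.cons (P.cons (P.lf 0 2785545 0) P.nil) P.nil)))))) 4144467)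
 (EL.cons 5 (TM.mk (P.cons (P.cons (P.lf 63219742 0 0) (P.cons (P.lf 0 5003104 0) (P.cons (P.lf 0 235510 0) (P.cons (P.lf 124732 0 0) (P.cons (P.lf 0 3968 0) (P.cons (P.lf 0 294 0) P.nil)))))) (P.cons (P.cons (P.lf 9435718 0 0) (P.cons (P.lf 7277296 0 0) (P.cons (P.lf 183812 0 0) (P.cons (P.lf 0 202660 0) (P.cons (P.lf 12138 0 0) P.nil))))) (P.cons (P.cons (P.lf 0 27645430 0) (P.cons (P.lf 0 2819330 0) (P.cons (P.lf 220956 0 0) (P.cons (P.lf 117580 0 0) P.nil)))) (P.cons (P.cons (P.lf 0 1192166 0) (P.cons (P.lf 0 894844 0) (P.cons (P.lf 0 378312 0) P.nil))) (P.cons (P.cons (P.lf 4738466 0 0) (P.cons (P.lf 1014794 0 0) P.nil)) (P.cons (P.cons (P.lf 0 351258 0) P.nil) P.nil)))))) 1907570)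
 EL.nil)))
noncomputable def S372_430_364_512_6 : EL := (EL.cons 12 (TM.mk (P.lf 8589934592 0 0) 0)
 (EL.cons 3 (TM.mk (P.cons (P.lf 3255703297 0 0) (P.cons (P.lf 278383023 0 0) (P.cons (P.lf 0 69148875 0) (P.cons (P.lf 4729800 0 0) (P.cons (P.lf 250177 0 0) (P.cons (P.lf 0 82796 0) P.nil)))))) 14718)
 (EL.cons 7 (TM.mk (P.cons (P.lf 0 918116516 0) (P.cons (P.lf 350992016 0 0) (P.cons (P.lf 0 5087185 0) (P.cons (P.lf 0 3436187 0) (P.cons (P.lf 451667 0 0) (P.cons (P.lf 0 12370 0) P.nil)))))) 9470)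
 EL.nil)))
noncomputable def S372_430_364_512_7 : EL := (EL.cons 12 (TM.mk (P.cons (P.cons (P.lf 3447333940 0 0) (P.cons (P.lf 0 136408104 0) (P.cons (P.lf 0 9119928 0) (P.lf 3039968 0 0)))) (P.cons (P.cons (P.lf 1575163012 0 0) (P.cons (P.lf 156444704 0 0) (P.cons (P.lf 10459528 0 0) (P.lf 0 3486504 0)))) (P.cons (P.cons (P.lf 0 180266730 0) (P.cons (P.lf 0 62075608 0) (P.cons (P.lf 0 4150224 0) (P.lf 1383408 0 0)))) (P.cons (P.cons (P.lf 0 66083712 0) (P.cons (P.lf 7823568 0 0) (P.cons (P.lf 523064 0 0) P.nil))) (P.cons (P.cons (P.lf 14389720 0 0) (P.cons (P.lf 1028392 0 0) P.nil)) (P.cons (P.cons (P.lf 0 88080 0) P.nil) P.nil)))))) 1396684)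
 (EL.cons 3 (TM.mk (P.cons (P.cons (P.lf 2868227351 0 0) (P.cons (P.lf 103401090 0 0) (P.cons (P.lf 6913154 0 0) (P.lf 0 2304378 0)))) (P.cons (P.cons (P.lf 0 66918898 0) (P.cons (P.lf 0 109747944 0) (P.cons (P.lf 0 7337490 0) (P.lf 2445826 0 0)))) (P.cons (P.cons (P.lf 0 187674131 0) (P.cons (P.lf 34718712 0 0) (P.cons (P.lf 2321206 0 0) (P.lf 0 773734 0)))) (P.cons (P.cons (P.lf 77602689 0 0) (P.cons (P.lf 761992 0 0) (P.cons (P.lf 50944 0 0) P.nil))) (P.cons (P.cons (P.lf 0 4723965 0) (P.cons (P.lf 0 2450396 0) P.nil)) (P.cons (P.cons (P.lf 0 2541892 0) P.nil) P.nil)))))) 4520145)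
 (EL.cons 7 (TM.mk (P.cons (P.cons (P.lf 1600492966 0 0) (P.cons (P.lf 210135575 0 0) (P.cons (P.lf 14049177 0 0) (P.lf 0 4683059 0)))) (P.cons (P.cons (P.lf 0 84372963 0) (P.cons (P.lf 0 138372857 0) (P.cons (P.lf 0 9251288 0) (P.lf 3083763 0 0)))) (P.cons (P.cons (P.lf 0 256358981 0) (P.cons (P.lf 11408645 0 0) (P.cons (P.lf 762757 0 0) (P.lf 0 254252 0)))) (P.cons (P.cons (P.lf 19771332 0 0) (P.cons (P.lf 7598916 0 0) (P.cons (P.lf 508043 0 0) P.nil))) (P.cons (P.cons (P.lf 9258839 0 0) (P.cons (P.lf 0 1266394 0) P.nil)) (P.cons (P.cons (P.lf 0 1856533 0) P.nil) P.nil)))))) 2128403)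
 (EL.cons 10 (TM.mk (P.cons (P.cons (P.lf 0 546123168 0) (P.cons (P.lf 0 84553581 0) (P.cons (P.lf 40735248 0 0) (P.cons (P.lf 1541541 0 0) (P.lf 0 385383 0))))) (P.cons (P.cons (P.lf 417561102 0 0) (P.cons (P.lf 64648944 0 0) (P.cons (P.lf 0 31145820 0) (P.cons (P.lf 0 1178649 0) (P.lf 294660 0 0))))) (P.cons (P.cons (P.lf 0 85867929 0) (P.cons (P.lf 0 13294512 0) (P.cons (P.lf 6404874 0 0) (P.cons (P.lf 242379 0 0) P.nil)))) (P.cons (P.cons (P.lf 0 1774230 0) (P.cons (P.lf 0 274695 0) (P.cons (P.lf 132339 0 0) P.nil))) (P.cons (P.cons (P.lf 2083344 0 0) (P.cons (P.lf 322554 0 0) P.nil)) (P.cons (P.cons (P.lf 0 242784 0) P.nil) P.nil)))))) 328473)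
 EL.nil))))
noncomputable def S372_430_364_512_8 : EL := (EL.cons 12 (TM.mk (P.cons (P.cons (P.lf 1383492640 0 0) (P.cons (P.lf 0 109487278 0) (P.cons (P.lf 0 5153904 0) (P.cons (P.lf 2729662 0 0) (P.cons (P.lf 0 86866 0) (P.cons (P.lf 0 6454 0) P.nil)))))) (P.cons (P.cons (P.lf 1264296684 0 0) (P.cons (P.lf 75542400 0 0) (P.cons (P.lf 81906 0 0) (P.cons (P.lf 0 2347916 0) (P.cons (P.lf 199252 0 0) P.nil))))) (P.cons (P.cons (P.lf 144152352 0 0) (P.cons (P.lf 13276096 0 0) (P.cons (P.lf 5708392 0 0) (P.cons (P.lf 348742 0 0) P.nil)))) (P.cons (P.cons (P.lf 0 119153900 0) (P.cons (P.lf 0 20953866 0) (P.cons (P.lf 0 3910512 0) P.nil))) (P.cons (P.cons (P.lf 0 8903070 0) (P.cons (P.lf 3435986 0 0) P.nil)) (P.cons (P.cons (P.lf 7980318 0 0) P.nil) P.nil)))))) 9244880)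
 (EL.cons 3 (TM.mk (P.cons (P.cons (P.lf 1777805550 0 0) (P.cons (P.lf 33396683 0 0) (P.cons (P.lf 0 1872202 0) (P.cons (P.lf 0 1293175 0) (P.cons (P.lf 164615 0 0) (P.cons (P.lf 12231 0 0) P.nil)))))) (P.cons (P.cons (P.lf 474177294 0 0) (P.cons (P.lf 31350854 0 0) (P.cons (P.lf 11161032 0 0) (P.cons (P.lf 513447 0 0) (P.cons (P.lf 0 363520 0) P.nil))))) (P.cons (P.cons (P.lf 0 380034111 0) (P.cons (P.lf 0 63015921 0) (P.cons (P.lf 0 12456491 0) (P.cons (P.lf 302096 0 0) P.nil)))) (P.cons (P.cons (P.lf 2040940 0 0) (P.cons (P.lf 21430991 0 0) (P.cons (P.lf 5201546 0 0) P.nil))) (P.cons (P.cons (P.lf 50844976 0 0) (P.cons (P.lf 4589823 0 0) P.nil)) (P.cons (P.cons (P.lf 0 8223417 0) P.nil) P.nil)))))) 27727154)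
 (EL.cons 7 (TM.mk (P.cons (P.cons (P.lf 1432499250 0 0) (P.cons (P.lf 106130316 0 0) (P.cons (P.lf 653247 0 0) (P.cons (P.lf 0 3226653 0) (P.cons (P.lf 258350 0 0) (P.cons (P.lf 19193 0 0) P.nil)))))) (P.cons (P.cons (P.lf 597854131 0 0) (P.cons (P.lf 39527908 0 0) (P.cons (P.lf 14072095 0 0) (P.cons (P.lf 647368 0 0) (P.cons (P.lf 0 458334 0) P.nil))))) (P.cons (P.cons (P.lf 0 339317475 0) (P.cons (P.lf 0 70206369 0) (P.cons (P.lf 0 12413956 0) (P.cons (P.lf 532306 0 0) P.nil)))) (P.cons (P.cons (P.lf 0 116557254 0) (P.cons (P.lf 4245698 0 0) (P.cons (P.lf 2373477 0 0) P.nil))) (P.cons (P.cons (P.lf 36538367 0 0) (P.cons (P.lf 9752754 0 0) P.nil)) (P.cons (P.cons (P.lf 5843946 0 0) P.nil) P.nil)))))) 16354026)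
 (EL.cons 10 (TM.mk (P.cons (P.cons (P.lf 0 438343014 0) (P.cons (P.lf 0 50521638 0) (P.cons (P.lf 36540996 0 0) (P.cons (P.lf 0 263442 0) (P.cons (P.lf 0 504624 0) (P.cons (P.lf 37794 0 0) P.nil)))))) (P.cons (P.cons (P.lf 134864712 0 0) (P.cons (P.lf 0 12273888 0) (P.cons (P.lf 0 17409282 0) (P.cons (P.lf 2487978 0 0) (P.cons (P.lf 468486 0 0) P.nil))))) (P.cons (P.cons (P.lf 107139162 0 0) (P.cons (P.lf 42417882 0 0) (P.cons (P.lf 0 2265414 0) (P.cons (P.lf 0 2537352 0) P.nil)))) (P.cons (P.cons (P.lf 0 42038706 0) (P.cons (P.lf 0 16609896 0) (P.cons (P.lf 896382 0 0) P.nil))) (P.cons (P.cons (P.lf 0 3628926 0) (P.cons (P.lf 1178262 0 0) P.nil)) (P.cons (P.cons (P.lf 3375030 0 0) P.nil) P.nil)))))) 6507600)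
 EL.nil))))
noncomputable def S372_430_364_512_9 : EL := (EL.cons 3 (TM.mk (P.cons (P.lf 3255703297 0 0) (P.cons (P.lf 278383023 0 0) (P.cons (P.lf 0 69148875 0) (P.cons (P.lf 4729800 0 0) (P.cons (P.lf 250177 0 0) (P.cons (P.lf 0 82796 0) P.nil)))))) 14718)
 (EL.cons 7 (TM.mk (P.cons (P.lf 0 918116516 0) (P.cons (P.lf 350992016 0 0) (P.cons (P.lf 0 5087185 0) (P.cons (P.lf 0 3436187 0) (P.cons (P.lf 451667 0 0) (P.cons (P.lf 0 12370 0) P.nil)))))) 9470)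
 EL.nil))
noncomputable def S372_430_364_512_10 : EL := (EL.cons 3 (TM.mk (P.cons (P.cons (P.lf 1306586954 0 0) (P.cons (P.lf 0 51700545 0) (P.cons (P.lf 0 3456577 0) (P.lf 1152189 0 0)))) (P.cons (P.cons (P.lf 708729803 0 0) (P.cons (P.lf 54873972 0 0) (P.cons (P.lf 3668745 0 0) (P.lf 0 1222913 0)))) (P.cons (P.cons (P.lf 0 45026606 0) (P.cons (P.lf 0 17359356 0) (P.cons (P.lf 0 1160603 0) (P.lf 386867 0 0)))) (P.cons (P.cons (P.lf 0 41670597 0) (P.cons (P.lf 0 380996 0) (P.cons (P.lf 0 25472 0) P.nil))) (P.cons (P.cons (P.lf 5731122 0 0) (P.cons (P.lf 1225198 0 0) P.nil)) (P.cons (P.cons (P.lf 878321 0 0) P.nil) P.nil)))))) 1091822)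
 (EL.cons 7 (TM.mk (P.cons (P.cons (P.lf 0 368460806 0) (P.cons (P.lf 14579684 0 0) (P.cons (P.lf 974763 0 0) (P.lf 0 324920 0)))) (P.cons (P.cons (P.lf 0 27496890 0) (P.cons (P.lf 0 22295003 0) (P.cons (P.lf 0 1490591 0) (P.lf 496863 0 0)))) (P.cons (P.cons (P.lf 81588313 0 0) (P.cons (P.lf 13108064 0 0) (P.cons (P.lf 876373 0 0) (P.lf 0 292124 0)))) (P.cons (P.cons (P.lf 0 2614509 0) (P.cons (P.lf 0 3410751 0) (P.cons (P.lf 0 228034 0) P.nil))) (P.cons (P.cons (P.lf 0 4580332 0) (P.cons (P.lf 176768 0 0) P.nil)) (P.cons (P.cons (P.lf 786497 0 0) P.nil) P.nil)))))) 457474)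
 EL.nil))
noncomputable def S372_430_364_512_11 : EL := (EL.cons 3 (TM.mk (P.cons (P.cons (P.lf 524362728 0 0) (P.cons (P.lf 0 41497183 0) (P.cons (P.lf 0 1953400 0) (P.cons (P.lf 1034579 0 0) (P.cons (P.lf 0 32923 0) (P.cons (P.lf 0 2445 0) P.nil)))))) (P.cons (P.cons (P.lf 524022120 0 0) (P.cons (P.lf 25083338 0 0) (P.cons (P.lf 0 135984 0) (P.cons (P.lf 0 801429 0) (P.cons (P.lf 72704 0 0) P.nil))))) (P.cons (P.cons (P.lf 84472011 0 0) (P.cons (P.lf 8361375 0 0) (P.cons (P.lf 2207701 0 0) (P.cons (P.lf 34112 0 0) P.nil)))) (P.cons (P.cons (P.lf 0 49905062 0) (P.cons (P.lf 0 8179951 0) (P.cons (P.lf 0 1300636 0) P.nil))) (P.cons (P.cons (P.lf 0 7659914 0) (P.cons (P.lf 554745 0 0) P.nil)) (P.cons (P.cons (P.lf 3798165 0 0) P.nil) P.nil)))))) 4970752)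
 (EL.cons 7 (TM.mk (P.cons (P.cons (P.lf 0 147871608 0) (P.cons (P.lf 11702310 0 0) (P.cons (P.lf 550863 0 0) (P.cons (P.lf 0 291753 0) (P.cons (P.lf 9284 0 0) (P.cons (P.lf 689 0 0) P.nil)))))) (P.cons (P.cons (P.lf 0 78600923 0) (P.cons (P.lf 0 12547928 0) (P.cons (P.lf 0 219347 0) (P.cons (P.lf 362488 0 0) (P.cons (P.lf 0 24846 0) P.nil))))) (P.cons (P.cons (P.lf 35433483 0 0) (P.cons (P.lf 1732581 0 0) (P.cons (P.lf 0 603730 0) (P.cons (P.lf 0 134828 0) P.nil)))) (P.cons (P.cons (P.lf 17323512 0 0) (P.cons (P.lf 2781140 0 0) (P.cons (P.lf 653229 0 0) P.nil))) (P.cons (P.cons (P.lf 0 4435519 0) (P.cons (P.lf 0 1267278 0) P.nil)) (P.cons (P.cons (P.lf 0 1139358 0) P.nil) P.nil)))))) 2159900)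
 EL.nil))
noncomputable def S372_430_364_512_12 : EL := (EL.cons 4 (TM.mk (P.cons (P.lf 0 3255703297 0) (P.cons (P.lf 0 278383023 0) (P.cons (P.lf 69148875 0 0) (P.cons (P.lf 0 4729800 0) (P.cons (P.lf 0 250177 0) (P.cons (P.lf 82796 0 0) P.nil)))))) 14718)
 (EL.cons 8 (TM.mk (P.cons (P.lf 918116516 0 0) (P.cons (P.lf 0 350992016 0) (P.cons (P.lf 5087185 0 0) (P.cons (P.lf 3436187 0 0) (P.cons (P.lf 0 451667 0) (P.cons (P.lf 12370 0 0) P.nil)))))) 9470)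
 EL.nil))
noncomputable def S372_430_364_512_13 : EL := (EL.cons 4 (TM.mk (P.cons (P.cons (P.lf 0 1306586954 0) (P.cons (P.lf 51700545 0 0) (P.cons (P.lf 3456577 0 0) (P.lf 0 1152189 0)))) (P.cons (P.cons (P.lf 0 708729803 0) (P.cons (P.lf 0 54873972 0) (P.cons (P.lf 0 3668745 0) (P.lf 1222913 0 0)))) (P.cons (P.cons (P.lf 45026606 0 0) (P.cons (P.lf 17359356 0 0) (P.cons (P.lf 1160603 0 0) (P.lf 0 386867 0)))) (P.cons (P.cons (P.lf 41670597 0 0) (P.cons (P.lf 380996 0 0) (P.cons (P.lf 25472 0 0) P.nil))) (P.cons (P.cons (P.lf 0 5731122 0) (P.cons (P.lf 0 1225198 0) P.nil)) (P.cons (P.cons (P.lf 0 878321 0) P.nil) P.nil)))))) 1091822)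
 (EL.cons 8 (TM.mk (P.cons (P.cons (P.lf 368460806 0 0) (P.cons (P.lf 0 14579684 0) (P.cons (P.lf 0 974763 0) (P.lf 324920 0 0)))) (P.cons (P.cons (P.lf 27496890 0 0) (P.cons (P.lf 22295003 0 0) (P.cons (P.lf 1490591 0 0) (P.lf 0 496863 0)))) (P.cons (P.cons (P.lf 0 81588313 0) (P.cons (P.lf 0 13108064 0) (P.cons (P.lf 0 876373 0) (P.lf 292124 0 0)))) (P.cons (P.cons (P.lf 2614509 0 0) (P.cons (P.lf 3410751 0 0) (P.cons (P.lf 228034 0 0) P.nil))) (P.cons (P.cons (P.lf 4580332 0 0) (P.cons (P.lf 0 176768 0) P.nil)) (P.cons (P.cons (P.lf 0 786497 0) P.nil) P.nil)))))) 457474)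
 EL.nil))
noncomputable def S372_430_364_512_14 : EL := (EL.cons 4 (TM.mk (P.cons (P.cons (P.lf 0 524362728 0) (P.cons (P.lf 41497183 0 0) (P.cons (P.lf 1953400 0 0) (P.cons (P.lf 0 1034579 0) (P.cons (P.lf 32923 0 0) (P.cons (P.lf 2445 0 0) P.nil)))))) (P.cons (P.cons (P.lf 0 524022120 0) (P.cons (P.lf 0 25083338 0) (P.cons (P.lf 135984 0 0) (P.cons (P.lf 801429 0 0) (P.cons (P.lf 0 72704 0) P.nil))))) (P.cons (P.cons (P.lf 0 84472011 0) (P.cons (P.lf 0 8361375 0) (P.cons (P.lf 0 2207701 0) (P.cons (P.lf 0 34112 0) P.nil)))) (P.cons (P.cons (P.lf 49905062 0 0) (P.cons (P.lf 8179951 0 0) (P.cons (P.lf 1300636 0 0) P.nil))) (P.cons (P.cons (P.lf 7659914 0 0) (P.cons (P.lf 0 554745 0) P.nil)) (P.cons (P.cons (P.lf 0 3798165 0) P.nil) P.nil)))))) 4970752)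
 (EL.cons 8 (TM.mk (P.cons (P.cons (P.lf 147871608 0 0) (P.cons (P.lf 0 11702310 0) (P.cons (P.lf 0 550863 0) (P.cons (P.lf 291753 0 0) (P.cons (P.lf 0 9284 0) (P.cons (P.lf 0 689 0) P.nil)))))) (P.cons (P.cons (P.lf 78600923 0 0) (P.cons (P.lf 12547928 0 0) (P.cons (P.lf 219347 0 0) (P.cons (P.lf 0 362488 0) (P.cons (P.lf 24846 0 0) P.nil))))) (P.cons (P.cons (P.lf 0 35433483 0) (P.cons (P.lf 0 1732581 0) (P.cons (P.lf 603730 0 0) (P.cons (P.lf 134828 0 0) P.nil)))) (P.cons (P.cons (P.lf 0 17323512 0) (P.cons (P.lf 0 2781140 0) (P.cons (P.lf 0 653229 0) P.nil))) (P.cons (P.cons (P.lf 4435519 0 0) (P.cons (P.lf 1267278 0 0) P.nil)) (P.cons (P.cons (P.lf 1139358 0 0) P.nil) P.nil)))))) 2159900)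
 EL.nil))
noncomputable def S372_430_364_512_15 : EL := (EL.cons 4 (TM.mk (P.cons (P.lf 0 2632440120 0) (P.cons (P.lf 0 450180236 0) (P.cons (P.lf 92575781 0 0) (P.cons (P.lf 1912835 0 0) (P.cons (P.lf 0 2246092 0) (P.cons (P.lf 261750 0 0) P.nil)))))) 55630)
 (EL.cons 8 (TM.mk (P.cons (P.lf 742354732 0 0) (P.cons (P.lf 0 220323058 0) (P.cons (P.lf 0 35920386 0) (P.cons (P.lf 10236253 0 0) (P.cons (P.lf 0 570247 0) (P.cons (P.lf 0 114946 0) P.nil)))))) 34529)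
 EL.nil))
noncomputable def S372_430_364_512_16 : EL := (EL.cons 4 (TM.mk (P.cons (P.cons (P.lf 0 1056457423 0) (P.cons (P.lf 41803130 0 0) (P.cons (P.lf 2794859 0 0) (P.lf 0 931617 0)))) (P.cons (P.cons (P.lf 0 663386181 0) (P.cons (P.lf 0 40794615 0) (P.cons (P.lf 0 2727432 0) (P.lf 909142 0 0)))) (P.cons (P.cons (P.lf 9845679 0 0) (P.cons (P.lf 9354426 0 0) (P.cons (P.lf 625412 0 0) (P.lf 0 208470 0)))) (P.cons (P.cons (P.lf 47442743 0 0) (P.cons (P.lf 2511334 0 0) (P.cons (P.lf 167901 0 0) P.nil))) (P.cons (P.cons (P.lf 0 3439935 0) (P.cons (P.lf 0 1323671 0) P.nil)) (P.cons (P.cons (P.lf 0 1786310 0) P.nil) P.nil)))))) 1309459)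
 (EL.cons 8 (TM.mk (P.cons (P.cons (P.lf 297923649 0 0) (P.cons (P.lf 0 11788588 0) (P.cons (P.lf 0 788157 0) (P.lf 262718 0 0)))) (P.cons (P.cons (P.lf 47707296 0 0) (P.cons (P.lf 17018909 0 0) (P.cons (P.lf 1137844 0 0) (P.lf 0 379280 0)))) (P.cons (P.cons (P.lf 0 70395897 0) (P.cons (P.lf 0 8806896 0) (P.cons (P.lf 0 588807 0) (P.lf 196269 0 0)))) (P.cons (P.cons (P.lf 0 3566187 0) (P.cons (P.lf 1451546 0 0) (P.cons (P.lf 97046 0 0) P.nil))) (P.cons (P.cons (P.lf 5340579 0 0) (P.cons (P.lf 343273 0 0) P.nil)) (P.cons (P.cons (P.lf 0 465867 0) P.nil) P.nil)))))) 671841)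
 EL.nil))
noncomputable def S372_430_364_512_17 : EL := (EL.cons 4 (TM.mk (P.cons (P.cons (P.lf 0 423980123 0) (P.cons (P.lf 33553072 0 0) (P.cons (P.lf 1579446 0 0) (P.cons (P.lf 0 836521 0) (P.cons (P.lf 26620 0 0) (P.cons (P.lf 1977 0 0) P.nil)))))) (P.cons (P.cons (P.lf 0 459957675 0) (P.cons (P.lf 0 17412452 0) (P.cons (P.lf 245004 0 0) (P.cons (P.lf 576477 0 0) (P.cons (P.lf 0 56508 0) P.nil))))) (P.cons (P.cons (P.lf 0 95525279 0) (P.cons (P.lf 0 9207530 0) (P.cons (P.lf 0 1809210 0) (P.cons (P.lf 45592 0 0) P.nil)))) (P.cons (P.cons (P.lf 42894460 0 0) (P.cons (P.lf 6515430 0 0) (P.cons (P.lf 898971 0 0) P.nil))) (P.cons (P.cons (P.lf 10446352 0 0) (P.cons (P.lf 233698 0 0) P.nil)) (P.cons (P.cons (P.lf 0 3519508 0) P.nil) P.nil)))))) 5060517)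
 (EL.cons 8 (TM.mk (P.cons (P.cons (P.lf 119563460 0 0) (P.cons (P.lf 0 9462050 0) (P.cons (P.lf 0 445407 0) (P.cons (P.lf 235901 0 0) (P.cons (P.lf 0 7507 0) (P.cons (P.lf 0 557 0) P.nil)))))) (P.cons (P.cons (P.lf 73777196 0 0) (P.cons (P.lf 9336721 0 0) (P.cons (P.lf 139270 0 0) (P.cons (P.lf 0 272923 0) (P.cons (P.lf 19447 0 0) P.nil))))) (P.cons (P.cons (P.lf 0 25755390 0) (P.cons (P.lf 0 332404 0) (P.cons (P.lf 512778 0 0) (P.cons (P.lf 78945 0 0) P.nil)))) (P.cons (P.cons (P.lf 0 17633055 0) (P.cons (P.lf 0 2597747 0) (P.cons (P.lf 0 490850 0) P.nil))) (P.cons (P.cons (P.lf 3098723 0 0) (P.cons (P.lf 876160 0 0) P.nil)) (P.cons (P.cons (P.lf 1485624 0 0) P.nil) P.nil)))))) 2210371)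
 EL.nil))
noncomputable def S372_430_364_512_18 : EL := (EL.cons 4 (TM.mk (P.cons (P.lf 0 2128492786 0) (P.cons (P.lf 0 545998394 0) (P.cons (P.lf 88936838 0 0) (P.cons (P.lf 12585940 0 0) (P.cons (P.lf 0 3966058 0) (P.cons (P.lf 158407 0 0) P.nil)))))) 145112)
 (EL.cons 8 (TM.mk (P.cons (P.lf 600240317 0 0) (P.cons (P.lf 0 126820692 0) (P.cons (P.lf 0 57025083 0) (P.cons (P.lf 10448908 0 0) (P.cons (P.lf 650816 0 0) (P.cons (P.lf 0 379305 0) P.nil)))))) 67460)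
 EL.nil))
noncomputable def S372_430_364_512_19 : EL := (EL.cons 4 (TM.mk (P.cons (P.cons (P.lf 0 854212024 0) (P.cons (P.lf 33800450 0 0) (P.cons (P.lf 2259819 0 0) (P.lf 0 753270 0)))) (P.cons (P.cons (P.lf 0 609429774 0) (P.cons (P.lf 0 30094852 0) (P.cons (P.lf 0 2012070 0) (P.lf 670689 0 0)))) (P.cons (P.cons (P.lf 0 19760925 0) (P.cons (P.lf 4025317 0 0) (P.cons (P.lf 269121 0 0) (P.lf 0 89707 0)))) (P.cons (P.cons (P.lf 49192691 0 0) (P.cons (P.lf 3426992 0 0) (P.cons (P.lf 229120 0 0) P.nil))) (P.cons (P.cons (P.lf 0 515322 0) (P.cons (P.lf 0 1102613 0) P.nil)) (P.cons (P.cons (P.lf 0 2504849 0) P.nil) P.nil)))))) 1617674)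
 (EL.cons 8 (TM.mk (P.cons (P.cons (P.lf 240889938 0 0) (P.cons (P.lf 0 9531812 0) (P.cons (P.lf 0 637274 0) (P.lf 212424 0 0)))) (P.cons (P.cons (P.lf 59171937 0 0) (P.cons (P.lf 12945824 0 0) (P.cons (P.lf 865527 0 0) (P.lf 0 288508 0)))) (P.cons (P.cons (P.lf 0 58737481 0) (P.cons (P.lf 0 5741839 0) (P.cons (P.lf 0 383885 0) (P.lf 127961 0 0)))) (P.cons (P.cons (P.lf 0 8219792 0) (P.cons (P.lf 258663 0 0) (P.cons (P.lf 17293 0 0) P.nil))) (P.cons (P.cons (P.lf 5355117 0 0) (P.cons (P.lf 548415 0 0) P.nil)) (P.cons (P.cons (P.lf 0 32060 0) P.nil) P.nil)))))) 815379)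
 EL.nil))
noncomputable def S372_430_364_512_20 : EL := (EL.cons 4 (TM.mk (P.cons (P.cons (P.lf 0 342814496 0) (P.cons (P.lf 27129761 0 0) (P.cons (P.lf 1277081 0 0) (P.cons (P.lf 0 676380 0) (P.cons (P.lf 21524 0 0) (P.cons (P.lf 1598 0 0) P.nil)))))) (P.cons (P.cons (P.lf 0 401217389 0) (P.cons (P.lf 0 11759295 0) (P.cons (P.lf 307299 0 0) (P.cons (P.lf 408283 0 0) (P.cons (P.lf 0 43850 0) P.nil))))) (P.cons (P.cons (P.lf 0 101757205 0) (P.cons (P.lf 0 9224930 0) (P.cons (P.lf 0 1473045 0) (P.cons (P.lf 91086 0 0) P.nil)))) (P.cons (P.cons (P.lf 35479474 0 0) (P.cons (P.lf 4969994 0 0) (P.cons (P.lf 599438 0 0) P.nil))) (P.cons (P.cons (P.lf 12485981 0 0) (P.cons (P.lf 779172 0 0) P.nil)) (P.cons (P.cons (P.lf 0 2992220 0) P.nil) P.nil)))))) 5114407)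
 (EL.cons 8 (TM.mk (P.cons (P.cons (P.lf 96674550 0 0) (P.cons (P.lf 0 7650660 0) (P.cons (P.lf 0 360140 0) (P.cons (P.lf 190740 0 0) (P.cons (P.lf 0 6069 0) (P.cons (P.lf 0 450 0) P.nil)))))) (P.cons (P.cons (P.lf 67919766 0 0) (P.cons (P.lf 6895145 0 0) (P.cons (P.lf 81814 0 0) (P.cons (P.lf 0 204365 0) (P.cons (P.lf 15205 0 0) P.nil))))) (P.cons (P.cons (P.lf 0 17777400 0) (P.cons (P.lf 539239 0 0) (P.cons (P.lf 431891 0 0) (P.cons (P.lf 40912 0 0) P.nil)))) (P.cons (P.cons (P.lf 0 17164637 0) (P.cons (P.lf 0 2294880 0) (P.cons (P.lf 0 364346 0) P.nil))) (P.cons (P.cons (P.lf 1822809 0 0) (P.cons (P.lf 544918 0 0) P.nil)) (P.cons (P.cons (P.lf 1690147 0 0) P.nil) P.nil)))))) 2143629)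
 EL.nil))
noncomputable def S372_430_364_512_21 : EL := (EL.cons 4 (TM.mk (P.cons (P.cons (P.lf 0 1561640397 0) (P.cons (P.lf 0 155101635 0) (P.cons (P.lf 0 10369731 0) (P.lf 3456567 0 0)))) (P.cons (P.cons (P.lf 775648701 0 0) (P.cons (P.lf 164621916 0 0) (P.cons (P.lf 11006235 0 0) (P.lf 0 3668739 0)))) (P.cons (P.cons (P.lf 142647525 0 0) (P.cons (P.lf 0 52078068 0) (P.cons (P.lf 0 3481809 0) (P.lf 1160601 0 0)))) (P.cons (P.cons (P.lf 0 119273286 0) (P.cons (P.lf 0 1142988 0) (P.cons (P.lf 0 76416 0) P.nil))) (P.cons (P.cons (P.lf 10455087 0 0) (P.cons (P.lf 3675594 0 0) P.nil)) (P.cons (P.cons (P.lf 3420213 0 0) P.nil) P.nil)))))) 3428304)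
 (EL.cons 8 (TM.mk (P.cons (P.cons (P.lf 0 1968953772 0) (P.cons (P.lf 0 195555891 0) (P.cons (P.lf 0 13074414 0) (P.lf 4358139 0 0)))) (P.cons (P.cons (P.lf 56876073 0 0) (P.cons (P.lf 116077854 0 0) (P.cons (P.lf 7760697 0 0) (P.lf 0 2586900 0)))) (P.cons (P.cons (P.lf 337947294 0 0) (P.cons (P.lf 1699419 0 0) (P.cons (P.lf 113616 0 0) (P.lf 0 37872 0)))) (P.cons (P.cons (P.lf 0 22385841 0) (P.cons (P.lf 0 11009667 0) (P.cons (P.lf 0 736077 0) P.nil))) (P.cons (P.cons (P.lf 0 13839171 0) (P.cons (P.lf 1443162 0 0) P.nil)) (P.cons (P.cons (P.lf 2643030 0 0) P.nil) P.nil)))))) 1670910)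
 (EL.cons 11 (TM.mk (P.cons (P.cons (P.lf 546123168 0 0) (P.cons (P.lf 84553581 0 0) (P.cons (P.lf 0 40735248 0) (P.cons (P.lf 0 1541541 0) (P.lf 385383 0 0))))) (P.cons (P.cons (P.lf 0 417561102 0) (P.cons (P.lf 0 64648944 0) (P.cons (P.lf 31145820 0 0) (P.cons (P.lf 1178649 0 0) (P.lf 0 294660 0))))) (P.cons (P.cons (P.lf 85867929 0 0) (P.cons (P.lf 13294512 0 0) (P.cons (P.lf 0 6404874 0) (P.cons (P.lf 0 242379 0) P.nil)))) (P.cons (P.cons (P.lf 1774230 0 0) (P.cons (P.lf 274695 0 0) (P.cons (P.lf 0 132339 0) P.nil))) (P.cons (P.cons (P.lf 0 2083344 0) (P.cons (P.lf 0 322554 0) P.nil)) (P.cons (P.cons (P.lf 242784 0 0) P.nil) P.nil)))))) 328473)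
 EL.nil)))
noncomputable def S372_430_364_512_22 : EL := (EL.cons 4 (TM.mk (P.cons (P.cons (P.lf 0 626721411 0) (P.cons (P.lf 0 37446933 0) (P.cons (P.lf 0 40599 0) (P.cons (P.lf 1163877 0 0) (P.cons (P.lf 0 98769 0) (P.cons (P.lf 0 7338 0) P.nil)))))) (P.cons (P.cons (P.lf 24922413 0 0) (P.cons (P.lf 0 3133758 0) (P.cons (P.lf 0 5648508 0) (P.cons (P.lf 0 657438 0) (P.cons (P.lf 218112 0 0) P.nil))))) (P.cons (P.cons (P.lf 232253061 0 0) (P.cons (P.lf 35688648 0 0) (P.cons (P.lf 7332096 0 0) (P.cons (P.lf 0 133992 0) P.nil)))) (P.cons (P.cons (P.lf 0 25973001 0) (P.cons (P.lf 0 14805471 0) (P.cons (P.lf 0 3251091 0) P.nil))) (P.cons (P.cons (P.lf 0 29252445 0) (P.cons (P.lf 0 2017539 0) P.nil)) (P.cons (P.cons (P.lf 6010791 0 0) P.nil) P.nil)))))) 11378190)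
 (EL.cons 8 (TM.mk (P.cons (P.cons (P.lf 0 790185429 0) (P.cons (P.lf 0 47214003 0) (P.cons (P.lf 0 51192 0) (P.cons (P.lf 1467450 0 0) (P.cons (P.lf 0 124533 0) (P.cons (P.lf 0 9252 0) P.nil)))))) (P.cons (P.cons (P.lf 0 338227527 0) (P.cons (P.lf 0 26037918 0) (P.cons (P.lf 0 7145721 0) (P.cons (P.lf 0 142440 0) (P.cons (P.lf 216744 0 0) P.nil))))) (P.cons (P.cons (P.lf 187375479 0 0) (P.cons (P.lf 35969475 0 0) (P.cons (P.lf 5905113 0 0) (P.cons (P.lf 0 333567 0) P.nil)))) (P.cons (P.cons (P.lf 66940383 0 0) (P.cons (P.lf 0 732279 0) (P.cons (P.lf 0 860124 0) P.nil))) (P.cons (P.cons (P.lf 0 20486943 0) (P.cons (P.lf 0 5510016 0) P.nil)) (P.cons (P.cons (P.lf 0 3491652 0) P.nil) P.nil)))))) 7097052)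
 (EL.cons 11 (TM.mk (P.cons (P.cons (P.lf 219171507 0 0) (P.cons (P.lf 25260819 0 0) (P.cons (P.lf 0 18270498 0) (P.cons (P.lf 131721 0 0) (P.cons (P.lf 252312 0 0) (P.cons (P.lf 0 18897 0) P.nil)))))) (P.cons (P.cons (P.lf 0 67432356 0) (P.cons (P.lf 6136944 0 0) (P.cons (P.lf 8704641 0 0) (P.cons (P.lf 0 1243989 0) (P.cons (P.lf 0 234243 0) P.nil))))) (P.cons (P.cons (P.lf 0 53569581 0) (P.cons (P.lf 0 21208941 0) (P.cons (P.lf 1132707 0 0) (P.cons (P.lf 1268676 0 0) P.nil)))) (P.cons (P.cons (P.lf 21019353 0 0) (P.cons (P.lf 8304948 0 0) (P.cons (P.lf 0 448191 0) P.nil))) (P.cons (P.cons (P.lf 1814463 0 0) (P.cons (P.lf 0 589131 0) P.nil)) (P.cons (P.cons (P.lf 0 1687515 0) P.nil) P.nil)))))) 3253800)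
 EL.nil)))
noncomputable def S372_430_364_512_23 : EL := (EL.cons 4 (TM.mk (P.cons (P.cons (P.lf 0 1262684112 0) (P.cons (P.lf 0 125409390 0) (P.cons (P.lf 0 8384577 0) (P.lf 2794851 0 0)))) (P.cons (P.cons (P.lf 519193176 0 0) (P.cons (P.lf 122383845 0 0) (P.cons (P.lf 8182296 0 0) (P.lf 0 2727426 0)))) (P.cons (P.cons (P.lf 195784152 0 0) (P.cons (P.lf 0 28063278 0) (P.cons (P.lf 0 1876236 0) (P.lf 625410 0 0)))) (P.cons (P.cons (P.lf 0 101732526 0) (P.cons (P.lf 0 7534002 0) (P.cons (P.lf 0 503703 0) P.nil))) (P.cons (P.cons (P.lf 0 1428258 0) (P.cons (P.lf 3971013 0 0) P.nil)) (P.cons (P.cons (P.lf 5784474 0 0) P.nil) P.nil)))))) 4437597)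
 (EL.cons 8 (TM.mk (P.cons (P.cons (P.lf 0 1592022498 0) (P.cons (P.lf 0 158119191 0) (P.cons (P.lf 0 10571481 0) (P.lf 3523827 0 0)))) (P.cons (P.cons (P.lf 0 90140025 0) (P.cons (P.lf 80336037 0 0) (P.cons (P.lf 5371080 0 0) (P.lf 0 1790361 0)))) (P.cons (P.cons (P.lf 310997265 0 0) (P.cons (P.lf 12757722 0 0) (P.cons (P.lf 852948 0 0) (P.lf 0 284316 0)))) (P.cons (P.cons (P.lf 1974765 0 0) (P.cons (P.lf 0 11007663 0) (P.cons (P.lf 0 735942 0) P.nil))) (P.cons (P.cons (P.lf 0 18596727 0) (P.cons (P.lf 500724 0 0) P.nil)) (P.cons (P.cons (P.lf 2005686 0 0) P.nil) P.nil)))))) 2530173)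
 (EL.cons 11 (TM.mk (P.cons (P.cons (P.lf 441574800 0 0) (P.cons (P.lf 68366868 0 0) (P.cons (P.lf 0 32937000 0) (P.cons (P.lf 0 1246431 0) (P.lf 311604 0 0))))) (P.cons (P.cons (P.lf 0 299866902 0) (P.cons (P.lf 0 46426926 0) (P.cons (P.lf 22367025 0 0) (P.cons (P.lf 846432 0 0) (P.lf 0 211605 0))))) (P.cons (P.cons (P.lf 31181865 0 0) (P.cons (P.lf 4827735 0 0) (P.cons (P.lf 0 2325849 0) (P.cons (P.lf 0 88014 0) P.nil)))) (P.cons (P.cons (P.lf 15183654 0 0) (P.cons (P.lf 2350809 0 0) (P.cons (P.lf 0 1132545 0) P.nil))) (P.cons (P.cons (P.lf 0 3493044 0) (P.cons (P.lf 0 540810 0) P.nil)) (P.cons (P.cons (P.lf 85491 0 0) P.nil) P.nil)))))) 683802)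
 EL.nil)))
noncomputable def S372_430_364_512_24 : EL := (EL.cons 4 (TM.mk (P.cons (P.cons (P.lf 0 506743530 0) (P.cons (P.lf 0 30278193 0) (P.cons (P.lf 0 32826 0) (P.cons (P.lf 941067 0 0) (P.cons (P.lf 0 79860 0) (P.cons (P.lf 0 5934 0) P.nil)))))) (P.cons (P.cons (P.lf 0 23178411 0) (P.cons (P.lf 0 5122812 0) (P.cons (P.lf 0 4569978 0) (P.cons (P.lf 0 451113 0) (P.cons (P.lf 169527 0 0) P.nil))))) (P.cons (P.cons (P.lf 200277096 0 0) (P.cons (P.lf 29282934 0 0) (P.cons (P.lf 5538633 0 0) (P.cons (P.lf 0 173781 0) P.nil)))) (P.cons (P.cons (P.lf 0 6107664 0) (P.cons (P.lf 0 9493908 0) (P.cons (P.lf 0 2024835 0) P.nil))) (P.cons (P.cons (P.lf 0 29446353 0) (P.cons (P.lf 0 3273816 0) P.nil)) (P.cons (P.cons (P.lf 3570966 0 0) P.nil) P.nil)))))) 10409598)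
 (EL.cons 8 (TM.mk (P.cons (P.cons (P.lf 0 638914434 0) (P.cons (P.lf 0 38175480 0) (P.cons (P.lf 0 41391 0) (P.cons (P.lf 1186524 0 0) (P.cons (P.lf 0 100692 0) (P.cons (P.lf 0 7482 0) P.nil)))))) (P.cons (P.cons (P.lf 0 328109334 0) (P.cons (P.lf 0 24317532 0) (P.cons (P.lf 0 5781303 0) (P.cons (P.lf 0 13716 0) (P.cons (P.lf 166641 0 0) P.nil))))) (P.cons (P.cons (P.lf 141690819 0 0) (P.cons (P.lf 28094205 0 0) (P.cons (P.lf 4281498 0 0) (P.cons (P.lf 0 304761 0) P.nil)))) (P.cons (P.cons (P.lf 71960391 0 0) (P.cons (P.lf 2286429 0 0) (P.cons (P.lf 0 164544 0) P.nil))) (P.cons (P.cons (P.lf 0 15601164 0) (P.cons (P.lf 0 5157054 0) P.nil)) (P.cons (P.cons (P.lf 0 5173881 0) P.nil) P.nil)))))) 6140412)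
 (EL.cons 11 (TM.mk (P.cons (P.cons (P.lf 177213897 0 0) (P.cons (P.lf 20424957 0 0) (P.cons (P.lf 0 14772843 0) (P.cons (P.lf 106503 0 0) (P.cons (P.lf 204012 0 0) (P.cons (P.lf 0 15279 0) P.nil)))))) (P.cons (P.cons (P.lf 0 39370386 0) (P.cons (P.lf 6708567 0 0) (P.cons (P.lf 5775075 0 0) (P.cons (P.lf 0 996735 0) (P.cons (P.lf 0 171954 0) P.nil))))) (P.cons (P.cons (P.lf 0 51740346 0) (P.cons (P.lf 0 17158278 0) (P.cons (P.lf 1831443 0 0) (P.cons (P.lf 937536 0 0) P.nil)))) (P.cons (P.cons (P.lf 14707302 0 0) (P.cons (P.lf 5173026 0 0) (P.cons (P.lf 0 455028 0) P.nil))) (P.cons (P.cons (P.lf 3774699 0 0) (P.cons (P.lf 470835 0 0) P.nil)) (P.cons (P.cons (P.lf 0 1671609 0) P.nil) P.nil)))))) 3005055)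
 EL.nil)))
noncomputable def S372_430_364_512_25 : EL := (EL.cons 4 (TM.mk (P.cons (P.cons (P.lf 0 1020959226 0) (P.cons (P.lf 0 101401350 0) (P.cons (P.lf 0 6779454 0) (P.lf 2259810 0 0)))) (P.cons (P.cons (P.lf 332501805 0 0) (P.cons (P.lf 90284556 0 0) (P.cons (P.lf 6036213 0 0) (P.lf 0 2012067 0)))) (P.cons (P.cons (P.lf 215883765 0 0) (P.cons (P.lf 0 12075951 0) (P.cons (P.lf 0 807363 0) (P.lf 269121 0 0)))) (P.cons (P.cons (P.lf 0 79120647 0) (P.cons (P.lf 0 10280976 0) (P.cons (P.lf 0 687360 0) P.nil))) (P.cons (P.cons (P.lf 0 11019177 0) (P.cons (P.lf 3307839 0 0) P.nil)) (P.cons (P.cons (P.lf 6613650 0 0) P.nil) P.nil)))))) 4795434)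
 (EL.cons 8 (TM.mk (P.cons (P.cons (P.lf 0 1287249948 0) (P.cons (P.lf 0 127849272 0) (P.cons (P.lf 0 8547705 0) (P.lf 2849235 0 0)))) (P.cons (P.cons (P.lf 0 182951790 0) (P.cons (P.lf 54024804 0 0) (P.cons (P.lf 3611973 0 0) (P.lf 0 1203990 0)))) (P.cons (P.cons (P.lf 272569041 0 0) (P.cons (P.lf 18585054 0 0) (P.cons (P.lf 1242549 0 0) (P.lf 0 414183 0)))) (P.cons (P.cons (P.lf 22776111 0 0) (P.cons (P.lf 0 9583725 0) (P.cons (P.lf 0 640743 0) P.nil))) (P.cons (P.cons (P.lf 0 20445741 0) (P.cons (P.lf 0 490719 0) P.nil)) (P.cons (P.cons (P.lf 694533 0 0) P.nil) P.nil)))))) 3028812)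
 (EL.cons 11 (TM.mk (P.cons (P.cons (P.lf 357040896 0 0) (P.cons (P.lf 55278897 0 0) (P.cons (P.lf 0 26631627 0) (P.cons (P.lf 0 1007817 0) (P.lf 251952 0 0))))) (P.cons (P.cons (P.lf 0 211931949 0) (P.cons (P.lf 0 32812386 0) (P.cons (P.lf 15807969 0 0) (P.cons (P.lf 598218 0 0) (P.lf 0 149553 0))))) (P.cons (P.cons (P.lf 0 3102756 0) (P.cons (P.lf 0 480384 0) (P.cons (P.lf 231435 0 0) (P.cons (P.lf 8757 0 0) P.nil)))) (P.cons (P.cons (P.lf 20101167 0 0) (P.cons (P.lf 3112164 0 0) (P.cons (P.lf 0 1499340 0) P.nil))) (P.cons (P.cons (P.lf 0 2634891 0) (P.cons (P.lf 0 407946 0) P.nil)) (P.cons (P.cons (P.lf 0 424209 0) P.nil) P.nil)))))) 898140)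
 EL.nil)))
noncomputable def S372_430_364_512_26 : EL := (EL.cons 4 (TM.mk (P.cons (P.cons (P.lf 0 409733898 0) (P.cons (P.lf 0 24481815 0) (P.cons (P.lf 0 26544 0) (P.cons (P.lf 760911 0 0) (P.cons (P.lf 0 64572 0) (P.cons (P.lf 0 4797 0) P.nil)))))) (P.cons (P.cons (P.lf 0 53776011 0) (P.cons (P.lf 0 6235464 0) (P.cons (P.lf 0 3697383 0) (P.cons (P.lf 0 299688 0) (P.cons (P.lf 131553 0 0) P.nil))))) (P.cons (P.cons (P.lf 169036554 0 0) (P.cons (P.lf 23842887 0 0) (P.cons (P.lf 4162941 0 0) (P.cons (P.lf 0 187863 0) P.nil)))) (P.cons (P.cons (P.lf 8710959 0 0) (P.cons (P.lf 0 5599470 0) (P.cons (P.lf 0 1175838 0) P.nil))) (P.cons (P.cons (P.lf 0 27729621 0) (P.cons (P.lf 0 3814251 0) P.nil)) (P.cons (P.cons (P.lf 1200639 0 0) P.nil) P.nil)))))) 9857328)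
 (EL.cons 8 (TM.mk (P.cons (P.cons (P.lf 0 516602352 0) (P.cons (P.lf 0 30867267 0) (P.cons (P.lf 0 33468 0) (P.cons (P.lf 959379 0 0) (P.cons (P.lf 0 81414 0) (P.cons (P.lf 0 6048 0) P.nil)))))) (P.cons (P.cons (P.lf 0 309469692 0) (P.cons (P.lf 0 22301592 0) (P.cons (P.lf 0 4677408 0) (P.cons (P.lf 70941 0 0) (P.cons (P.lf 127779 0 0) P.nil))))) (P.cons (P.cons (P.lf 102853629 0 0) (P.cons (P.lf 21690279 0 0) (P.cons (P.lf 3062868 0 0) (P.cons (P.lf 0 267741 0) P.nil)))) (P.cons (P.cons (P.lf 72864804 0 0) (P.cons (P.lf 4163844 0 0) (P.cons (P.lf 262200 0 0) P.nil))) (P.cons (P.cons (P.lf 0 10497792 0) (P.cons (P.lf 0 4525131 0) P.nil)) (P.cons (P.cons (P.lf 0 6338634 0) P.nil) P.nil)))))) 5669928)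
 (EL.cons 11 (TM.mk (P.cons (P.cons (P.lf 143288541 0 0) (P.cons (P.lf 16514856 0 0) (P.cons (P.lf 0 11944770 0) (P.cons (P.lf 86115 0 0) (P.cons (P.lf 164955 0 0) (P.cons (P.lf 0 12354 0) P.nil)))))) (P.cons (P.cons (P.lf 0 19581357 0) (P.cons (P.lf 6836418 0 0) (P.cons (P.lf 3648159 0 0) (P.cons (P.lf 0 798558 0) (P.cons (P.lf 0 124932 0) P.nil))))) (P.cons (P.cons (P.lf 0 47600616 0) (P.cons (P.lf 0 13760496 0) (P.cons (P.lf 2133810 0 0) (P.cons (P.lf 687315 0 0) P.nil)))) (P.cons (P.cons (P.lf 9198879 0 0) (P.cons (P.lf 2905224 0 0) (P.cons (P.lf 0 357828 0) P.nil))) (P.cons (P.cons (P.lf 4922220 0 0) (P.cons (P.lf 1042161 0 0) P.nil)) (P.cons (P.cons (P.lf 0 1410066 0) P.nil) P.nil)))))) 2954292)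
 EL.nil)))
noncomputable def S372_430_364_512_27 : EL := (EL.cons 13 (TM.mk (P.lf 0 4294967296 0) 0)
 EL.nil)
noncomputable def S372_430_364_512_28 : EL := (EL.cons 13 (TM.mk (P.cons (P.cons (P.lf 0 1723666970 0) (P.cons (P.lf 68204052 0 0) (P.cons (P.lf 4559964 0 0) (P.lf 0 1519984 0)))) (P.cons (P.cons (P.lf 0 787581506 0) (P.cons (P.lf 0 78222352 0) (P.cons (P.lf 0 5229764 0) (P.lf 1743252 0 0)))) (P.cons (P.cons (P.lf 90133365 0 0) (P.cons (P.lf 31037804 0 0) (P.cons (P.lf 2075112 0 0) (P.lf 0 691704 0)))) (P.cons (P.cons (P.lf 33041856 0 0) (P.cons (P.lf 0 3911784 0) (P.cons (P.lf 0 261532 0) P.nil))) (P.cons (P.cons (P.lf 0 7194860 0) (P.cons (P.lf 0 514196 0) P.nil)) (P.cons (P.cons (P.lf 44040 0 0) P.nil) P.nil)))))) 698342)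
 EL.nil)
noncomputable def S372_430_364_512_29 : EL := (EL.cons 13 (TM.mk (P.cons (P.cons (P.lf 0 691746320 0) (P.cons (P.lf 54743639 0 0) (P.cons (P.lf 2576952 0 0) (P.cons (P.lf 0 1364831 0) (P.cons (P.lf 43433 0 0) (P.cons (P.lf 3227 0 0) P.nil)))))) (P.cons (P.cons (P.lf 0 632148342 0) (P.cons (P.lf 0 37771200 0) (P.cons (P.lf 0 40953 0) (P.cons (P.lf 1173958 0 0) (P.cons (P.lf 0 99626 0) P.nil))))) (P.cons (P.cons (P.lf 0 72076176 0) (P.cons (P.lf 0 6638048 0) (P.cons (P.lf 0 2854196 0) (P.cons (P.lf 0 174371 0) P.nil)))) (P.cons (P.cons (P.lf 59576950 0 0) (P.cons (P.lf 10476933 0 0) (P.cons (P.lf 1955256 0 0) P.nil))) (P.cons (P.cons (P.lf 4451535 0 0) (P.cons (P.lf 0 1717993 0) P.nil)) (P.cons (P.cons (P.lf 0 3990159 0) P.nil) P.nil)))))) 4622440)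
 EL.nil)
noncomputable def S372_430_364_512_30 : EL := (EL.cons 13 (TM.mk (P.cons (P.lf 0 3472750184 0) (P.cons (P.lf 0 296941892 0) (P.cons (P.lf 73758800 0 0) (P.cons (P.lf 0 5045120 0) (P.cons (P.lf 0 266856 0) (P.cons (P.lf 88316 0 0) P.nil)))))) 15692)
 EL.nil)
noncomputable def S372_430_364_512_31 : EL := (EL.cons 13 (TM.mk (P.cons (P.cons (P.lf 0 1393692751 0) (P.cons (P.lf 55147249 0 0) (P.cons (P.lf 3687016 0 0) (P.lf 0 1229002 0)))) (P.cons (P.cons (P.lf 0 755978457 0) (P.cons (P.lf 0 58532237 0) (P.cons (P.lf 0 3913328 0) (P.lf 1304441 0 0)))) (P.cons (P.cons (P.lf 48028380 0 0) (P.cons (P.lf 18516647 0 0) (P.cons (P.lf 1237977 0 0) (P.lf 0 412659 0)))) (P.cons (P.cons (P.lf 44448637 0 0) (P.cons (P.lf 406396 0 0) (P.cons (P.lf 27171 0 0) P.nil))) (P.cons (P.cons (P.lf 0 6113197 0) (P.cons (P.lf 0 1306878 0) P.nil)) (P.cons (P.cons (P.lf 0 936876 0) P.nil)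 P.nil)))))) 1164590)
 EL.nil)
noncomputable def S372_430_364_512_32 : EL := (EL.cons 13 (TM.mk (P.cons (P.cons (P.lf 0 559320244 0) (P.cons (P.lf 44263662 0 0) (P.cons (P.lf 2083627 0 0) (P.cons (P.lf 0 1103551 0) (P.cons (P.lf 35118 0 0) (P.cons (P.lf 2609 0 0) P.nil)))))) (P.cons (P.cons (P.lf 0 558956929 0) (P.cons (P.lf 0 26755561 0) (P.cons (P.lf 145050 0 0) (P.cons (P.lf 854858 0 0) (P.cons (P.lf 0 77551 0) P.nil))))) (P.cons (P.cons (P.lf 0 90103479 0) (P.cons (P.lf 0 8918801 0) (P.cons (P.lf 0 2354882 0) (P.cons (P.lf 0 36387 0) P.nil)))) (P.cons (P.cons (P.lf 53232067 0 0) (P.cons (P.lf 8725282 0 0) (P.cons (P.lf 1387346 0 0) P.nil))) (P.cons (P.cons (P.lf 8170575 0 0) (P.cons (P.lf 0 591729 0) P.nil)) (P.cons (P.cons (P.lf 0 4051377 0) P.nil) P.nil)))))) 5302113)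
 EL.nil)
noncomputable def S372_430_364_512_33 : EL := (EL.cons 14 (TM.mk (P.lf 8589934592 0 0) 0)
 EL.nil)
noncomputable def S372_430_364_512_34 : EL := (EL.cons 14 (TM.mk (P.cons (P.cons (P.lf 3447333940 0 0) (P.cons (P.lf 0 136408104 0) (P.cons (P.lf 0 9119928 0) (P.lf 3039968 0 0)))) (P.cons (P.cons (P.lf 1575163012 0 0) (P.cons (P.lf 156444704 0 0) (P.cons (P.lf 10459528 0 0) (P.lf 0 3486504 0)))) (P.cons (P.cons (P.lf 0 180266730 0) (P.cons (P.lf 0 62075608 0) (P.cons (P.lf 0 4150224 0) (P.lf 1383408 0 0)))) (P.cons (P.cons (P.lf 0 66083712 0) (P.cons (P.lf 7823568 0 0) (P.cons (P.lf 523064 0 0) P.nil))) (P.cons (P.cons (P.lf 14389720 0 0) (P.cons (P.lf 1028392 0 0) P.nil)) (P.cons (P.cons (P.lf 0 88080 0) P.nil) P.nil)))))) 1396684)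
 EL.nil)
noncomputable def S372_430_364_512_35 : EL := (EL.cons 14 (TM.mk (P.cons (P.cons (P.lf 1383492640 0 0) (P.cons (P.lf 0 109487278 0) (P.cons (P.lf 0 5153904 0) (P.cons (P.lf 2729662 0 0) (P.cons (P.lf 0 86866 0) (P.cons (P.lf 0 6454 0) P.nil)))))) (P.cons (P.cons (P.lf 1264296684 0 0) (P.cons (P.lf 75542400 0 0) (P.cons (P.lf 81906 0 0) (P.cons (P.lf 0 2347916 0) (P.cons (P.lf 199252 0 0) P.nil))))) (P.cons (P.cons (P.lf 144152352 0 0) (P.cons (P.lf 13276096 0 0) (P.cons (P.lf 5708392 0 0) (P.cons (P.lf 348742 0 0) P.nil)))) (P.cons (P.cons (P.lf 0 119153900 0) (P.cons (P.lf 0 20953866 0) (P.cons (P.lf 0 3910512 0) P.nil))) (P.cons (P.cons (P.lf 0 8903070 0) (P.cons (P.lf 3435986 0 0) P.nil)) (P.cons (P.cons (P.lf 7980318 0 0) P.nil) P.nil)))))) 9244880)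
 EL.nil)
noncomputable def S372_430_364_512_36 : EL := (EL.cons 14 (TM.mk (P.cons (P.lf 6945500368 0 0) (P.cons (P.lf 593883784 0 0) (P.cons (P.lf 0 147517600 0) (P.cons (P.lf 10090240 0 0) (P.cons (P.lf 533712 0 0) (P.cons (P.lf 0 176632 0) P.nil)))))) 31384)
 EL.nil)
noncomputable def S372_430_364_512_37 : EL := (EL.cons 14 (TM.mk (P.cons (P.cons (P.lf 2787385502 0 0) (P.cons (P.lf 0 110294498 0) (P.cons (P.lf 0 7374032 0) (P.lf 2458004 0 0)))) (P.cons (P.cons (P.lf 1511956914 0 0) (P.cons (P.lf 117064474 0 0) (P.cons (P.lf 7826656 0 0) (P.lf 0 2608882 0)))) (P.cons (P.cons (P.lf 0 96056760 0) (P.cons (P.lf 0 37033294 0) (P.cons (P.lf 0 2475954 0) (P.lf 825318 0 0)))) (P.cons (P.cons (P.lf 0 88897274 0) (P.cons (P.lf 0 812792 0) (P.cons (P.lf 0 54342 0) P.nil))) (P.cons (P.cons (P.lf 12226394 0 0) (P.cons (P.lf 2613756 0 0) P.nil)) (P.cons (P.cons (P.lf 1873752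 0 0) P.nil) P.nil)))))) 2329180)
 EL.nil)
noncomputable def S372_430_364_512_38 : EL := (EL.cons 14 (TM.mk (P.cons (P.cons (P.lf 1118640488 0 0) (P.cons (P.lf 0 88527324 0) (P.cons (P.lf 0 4167254 0) (P.cons (P.lf 2207102 0 0) (P.cons (P.lf 0 70236 0) (P.cons (P.lf 0 5218 0) P.nil)))))) (P.cons (P.cons (P.lf 1117913858 0 0) (P.cons (P.lf 53511122 0 0) (P.cons (P.lf 0 290100 0) (P.cons (P.lf 0 1709716 0) (P.cons (P.lf 155102 0 0) P.nil))))) (P.cons (P.cons (P.lf 180206958 0 0) (P.cons (P.lf 17837602 0 0) (P.cons (P.lf 4709764 0 0) (P.cons (P.lf 72774 0 0) P.nil)))) (P.cons (P.cons (P.lf 0 106464134 0) (P.cons (P.lf 0 17450564 0) (P.cons (P.lf 0 2774692 0) P.nil))) (P.cons (P.cons (P.lf 0 16341150 0) (P.cons (P.lf 1183458 0 0) P.nil)) (P.cons (P.cons (P.lf 8102754 0 0) P.nil) P.nil)))))) 10604226)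
 EL.nil)
noncomputable def S372_430_364_512_39 : EL := (EL.cons 14 (TM.mk (P.cons (P.lf 5615872256 0 0) (P.cons (P.lf 960384504 0 0) (P.cons (P.lf 0 197495000 0) (P.cons (P.lf 0 4080716 0) (P.cons (P.lf 4791664 0 0) (P.cons (P.lf 0 558402 0) P.nil)))))) 118664)
 EL.nil)
noncomputable def S372_430_364_512_40 : EL := (EL.cons 14 (TM.mk (P.cons (P.cons (P.lf 2253775836 0 0) (P.cons (P.lf 0 89180012 0) (P.cons (P.lf 0 5962366 0) (P.lf 1987450 0 0)))) (P.cons (P.cons (P.lf 1415223854 0 0) (P.cons (P.lf 87028514 0 0) (P.cons (P.lf 5818522 0 0) (P.lf 0 1939504 0)))) (P.cons (P.cons (P.lf 0 21004116 0) (P.cons (P.lf 0 19956110 0) (P.cons (P.lf 0 1334214 0) (P.lf 444738 0 0)))) (P.cons (P.cons (P.lf 0 101211186 0) (P.cons (P.lf 0 5357514 0) (P.cons (P.lf 0 358190 0) P.nil))) (P.cons (P.cons (P.lf 7338530 0 0) (P.cons (P.lf 2823832 0 0) P.nil)) (P.cons (P.cons (P.lf 3810796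 0 0) P.nil) P.nil)))))) 2793472)
 EL.nil)
noncomputable def S372_430_364_512_41 : EL := (EL.cons 14 (TM.mk (P.cons (P.cons (P.lf 904490930 0 0) (P.cons (P.lf 0 71579888 0) (P.cons (P.lf 0 3369486 0) (P.cons (P.lf 1784580 0 0) (P.cons (P.lf 0 56790 0) (P.cons (P.lf 0 4218 0) P.nil)))))) (P.cons (P.cons (P.lf 981243042 0 0) (P.cons (P.lf 37146566 0 0) (P.cons (P.lf 0 522676 0) (P.cons (P.lf 0 1229818 0) (P.cons (P.lf 120552 0 0) P.nil))))) (P.cons (P.cons (P.lf 203787262 0 0) (P.cons (P.lf 19642732 0 0) (P.cons (P.lf 3859648 0 0) (P.cons (P.lf 0 97264 0) P.nil)))) (P.cons (P.cons (P.lf 0 91508182 0) (P.cons (P.lf 0 13899586 0) (P.cons (P.lf 0 1917806 0) P.nil))) (P.cons (P.cons (P.lf 0 22285552 0) (P.cons (P.lf 0 498556 0) P.nil)) (P.cons (P.cons (P.lf 7508284 0 0) P.nil) P.nil)))))) 10795724)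
 EL.nil)
noncomputable def S372_430_364_512_42 : EL := (EL.cons 14 (TM.mk (P.cons (P.lf 4540784612 0 0) (P.cons (P.lf 1164796574 0 0) (P.cons (P.lf 0 189731922 0) (P.cons (P.lf 0 26850006 0) (P.cons (P.lf 8460924 0 0) (P.cons (P.lf 0 337936 0) P.nil)))))) 309558)
 EL.nil)
noncomputable def S372_430_364_512_43 : EL := (EL.cons 14 (TM.mk (P.cons (P.cons (P.lf 1822318986 0 0) (P.cons (P.lf 0 72107628 0) (P.cons (P.lf 0 4820948 0) (P.lf 1606978 0 0)))) (P.cons (P.cons (P.lf 1300116852 0 0) (P.cons (P.lf 64202352 0 0) (P.cons (P.lf 4292418 0 0) (P.lf 0 1430804 0)))) (P.cons (P.cons (P.lf 42156640 0 0) (P.cons (P.lf 0 8587344 0) (P.cons (P.lf 0 574126 0) (P.lf 191376 0 0)))) (P.cons (P.cons (P.lf 0 104944408 0) (P.cons (P.lf 0 7310918 0) (P.cons (P.lf 0 488790 0) P.nil))) (P.cons (P.cons (P.lf 1099354 0 0) (P.cons (P.lf 2352242 0 0) P.nil)) (P.cons (P.cons (P.lf 5343678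 0 0) P.nil) P.nil)))))) 3450998)
 EL.nil)
noncomputable def S372_430_364_512_44 : EL := (EL.cons 14 (TM.mk (P.cons (P.cons (P.lf 731337592 0 0) (P.cons (P.lf 0 57876824 0) (P.cons (P.lf 0 2724440 0) (P.cons (P.lf 1442944 0 0) (P.cons (P.lf 0 45918 0) (P.cons (P.lf 0 3410 0) P.nil)))))) (P.cons (P.cons (P.lf 855930430 0 0) (P.cons (P.lf 25086496 0 0) (P.cons (P.lf 0 655572 0) (P.cons (P.lf 0 871004 0) (P.cons (P.lf 93548 0 0) P.nil))))) (P.cons (P.cons (P.lf 217082038 0 0) (P.cons (P.lf 19679852 0 0) (P.cons (P.lf 3142496 0 0) (P.cons (P.lf 0 194318 0) P.nil)))) (P.cons (P.cons (P.lf 0 75689546 0) (P.cons (P.lf 0 10602654 0) (P.cons (P.lf 0 1278802 0) P.nil))) (P.cons (P.cons (P.lf 0 26636760 0) (P.cons (P.lf 0 1662234 0) P.nil)) (P.cons (P.cons (P.lf 6383404 0 0) P.nil) P.nil)))))) 10910688)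
 EL.nil)
noncomputable def S372_430_364_512_45 : EL := (EL.cons 14 (TM.mk (P.cons (P.cons (P.lf 555226710 0 0) (P.cons (P.lf 0 65909560 0) (P.cons (P.lf 0 1798572 0) (P.cons (P.lf 1783176 0 0) (P.cons (P.lf 0 111482 0) (P.cons (P.lf 0 5932 0) P.nil)))))) (P.cons (P.cons (P.lf 761086040 0 0) (P.cons (P.lf 15359762 0 0) (P.cons (P.lf 0 3763566 0) (P.cons (P.lf 0 864514 0) (P.cons (P.lf 215844 0 0) P.nil))))) (P.cons (P.cons (P.lf 260655880 0 0) (P.cons (P.lf 32217178 0 0) (P.cons (P.lf 5088284 0 0) (P.cons (P.lf 0 508324 0) P.nil)))) (P.cons (P.cons (P.lf 0 58561188 0) (P.cons (P.lf 0 10076690 0) (P.cons (P.lf 0 780338 0) P.nil))) (P.cons (P.cons (P.lf 0 35856604 0) (P.cons (P.lf 0 5259926 0) P.nil)) (P.cons (P.cons (P.lf 5065394 0 0) P.nil) P.nil)))))) 17149690)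
 EL.nil)
noncomputable def S372_430_364_512_46 : EL := (EL.cons 15 (TM.mk (P.lf 4294967296 0 0) 0)
 EL.nil)
noncomputable def S372_430_364_512_47 : EL := (EL.cons 15 (TM.mk (P.cons (P.cons (P.lf 1723666970 0 0) (P.cons (P.lf 0 68204052 0) (P.cons (P.lf 0 4559964 0) (P.lf 1519984 0 0)))) (P.cons (P.cons (P.lf 787581506 0 0) (P.cons (P.lf 78222352 0 0) (P.cons (P.lf 5229764 0 0) (P.lf 0 1743252 0)))) (P.cons (P.cons (P.lf 0 90133365 0) (P.cons (P.lf 0 31037804 0) (P.cons (P.lf 0 2075112 0) (P.lf 691704 0 0)))) (P.cons (P.cons (P.lf 0 33041856 0) (P.cons (P.lf 3911784 0 0) (P.cons (P.lf 261532 0 0) P.nil))) (P.cons (P.cons (P.lf 7194860 0 0) (P.cons (P.lf 514196 0 0) P.nil)) (P.cons (P.cons (P.lf 0 44040 0) P.nil) P.nil)))))) 698342)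
 EL.nil)
noncomputable def S372_430_364_512_48 : EL := (EL.cons 15 (TM.mk (P.cons (P.cons (P.lf 691746320 0 0) (P.cons (P.lf 0 54743639 0) (P.cons (P.lf 0 2576952 0) (P.cons (P.lf 1364831 0 0) (P.cons (P.lf 0 43433 0) (P.cons (P.lf 0 3227 0) P.nil)))))) (P.cons (P.cons (P.lf 632148342 0 0) (P.cons (P.lf 37771200 0 0) (P.cons (P.lf 40953 0 0) (P.cons (P.lf 0 1173958 0) (P.cons (P.lf 99626 0 0) P.nil))))) (P.cons (P.cons (P.lf 72076176 0 0) (P.cons (P.lf 6638048 0 0) (P.cons (P.lf 2854196 0 0) (P.cons (P.lf 174371 0 0) P.nil)))) (P.cons (P.cons (P.lf 0 59576950 0) (P.cons (P.lf 0 10476933 0) (P.cons (P.lf 0 1955256 0) P.nil))) (P.cons (P.cons (P.lf 0 4451535 0) (P.cons (P.lf 1717993 0 0) P.nil)) (P.cons (P.cons (P.lf 3990159 0 0) P.nil) P.nil)))))) 4622440)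
 EL.nil)
noncomputable def S372_430_364_512 : SL := (SL.cons S372_430_364_512_0 (SL.cons S372_430_364_512_1 (SL.cons S372_430_364_512_2 (SL.cons S372_430_364_512_3 (SL.cons S372_430_364_512_4 (SL.cons S372_430_364_512_5 (SL.cons S372_430_364_512_6 (SL.cons S372_430_364_512_7 (SL.cons S372_430_364_512_8 (SL.cons S372_430_364_512_9 (SL.cons S372_430_364_512_10 (SL.cons S372_430_364_512_11 (SL.cons S372_430_364_512_12 (SL.cons S372_430_364_512_13 (SL.cons S372_430_364_512_14 (SL.cons S372_430_364_512_15 (SL.cons S372_430_364_512_16 (SL.cons S372_430_364_512_17 (SL.cons S372_430_364_512_18 (SL.cons S372_430_364_512_19 (SL.cons S372_430_364_512_20 (SL.cons S372_430_364_512_21 (SL.cons S372_430_364_512_22 (SL.cons S372_430_364_512_23 (SL.cons S372_430_364_512_24 (SL.cons S372_430_364_512_25 (SL.cons S372_430_364_512_26 (SL.cons S372_430_364_512_27 (SL.cons S372_430_364_512_28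 (SL.cons S372_430_364_512_29 (SL.cons S372_430_364_512_30 (SL.cons S372_430_364_512_31 (SL.cons S372_430_364_512_32 (SL.cons S372_430_364_512_33 (SL.cons S372_430_364_512_34 (SL.cons S372_430_364_512_35 (SL.cons S372_430_364_512_36 (SL.cons S372_430_364_512_37 (SL.cons S372_430_364_512_38 (SL.cons S372_430_364_512_39 (SL.cons S372_430_364_512_40 (SL.cons S372_430_364_512_41 (SL.cons S372_430_364_512_42 (SL.cons S372_430_364_512_43 (SL.cons S372_430_364_512_44 (SL.cons S372_430_364_512_45 (SL.cons S372_430_364_512_46 (SL.cons S372_430_364_512_47 (SL.cons S372_430_364_512_48 SL.nil)))))))))))))))))))))))))))))))))))))))))))))))))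
noncomputable def S372_430_512_660_0 : EL := (EL.cons 0 (TM.mk (P.cons (P.lf 3519891639 0 0) (P.cons (P.lf 0 844087942 0) (P.cons (P.lf 173579589 0 0) (P.cons (P.lf 3586566 0 0) (P.cons (P.lf 0 4211423 0) (P.cons (P.lf 490783 0 0) P.nil)))))) 104301)
 (EL.cons 1 (TM.mk (P.cons (P.lf 1391915122 0 0) (P.cons (P.lf 0 413105733 0) (P.cons (P.lf 0 67350723 0) (P.cons (P.lf 19192974 0 0) (P.cons (P.lf 0 1069213 0) (P.cons (P.lf 0 215523 0) P.nil)))))) 64748)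
 (EL.cons 5 (TM.mk (P.cons (P.lf 6049927380 0 0) (P.cons (P.lf 300120158 0 0) (P.cons (P.lf 0 61717188 0) (P.cons (P.lf 0 1275220 0) (P.cons (P.lf 1497396 0 0) (P.cons (P.lf 0 174500 0) P.nil)))))) 24617)
 (EL.cons 9 (TM.mk (P.lf 6442450944 0 0) 2)
 EL.nil))))
noncomputable def S372_430_512_660_1 : EL := (EL.cons 0 (TM.mk (P.cons (P.cons (P.lf 4154616601 0 0) (P.cons (P.lf 179246748 0 0) (P.cons (P.lf 0 11984013 0) (P.lf 0 3994659 0)))) (P.cons (P.cons (P.lf 0 984250145 0) (P.cons (P.lf 0 151959358 0) (P.cons (P.lf 10159642 0 0) (P.lf 3386538 0 0)))) (P.cons (P.cons (P.lf 0 507172673 0) (P.cons (P.lf 9052519 0 0) (P.cons (P.lf 0 605214 0) (P.lf 0 201734 0)))) (P.cons (P.cons (P.lf 270090685 0 0) (P.cons (P.lf 26536331 0 0) (P.cons (P.lf 0 1774149 0) P.nil))) (P.cons (P.cons (P.lf 0 8232182 0) (P.cons (P.lf 0 8915209 0) P.nil)) (P.cons (P.cons (P.lf 0 13642363 0) P.nil)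 P.nil)))))) 12686469)
 (EL.cons 1 (TM.mk (P.cons (P.cons (P.lf 1911546681 0 0) (P.cons (P.lf 92977736 0 0) (P.cons (P.lf 0 6216278 0) (P.lf 0 2072097 0)))) (P.cons (P.cons (P.lf 476704303 0 0) (P.cons (P.lf 4461100 0 0) (P.cons (P.lf 0 298257 0) (P.lf 0 99411 0)))) (P.cons (P.cons (P.lf 0 569527744 0) (P.cons (P.lf 0 53242689 0) (P.cons (P.lf 3559672 0 0) (P.lf 1186556 0 0)))) (P.cons (P.cons (P.lf 0 10248446 0) (P.cons (P.lf 17123804 0 0) (P.cons (P.lf 0 1144849 0) P.nil))) (P.cons (P.cons (P.lf 42764824 0 0) (P.cons (P.lf 1139662 0 0) P.nil)) (P.cons (P.cons (P.lf 0 5671514 0) P.nil) P.nil)))))) 5641618)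
 (EL.cons 5 (TM.mk (P.cons (P.cons (P.lf 1210807143 0 0) (P.cons (P.lf 0 179679070 0) (P.cons (P.lf 12012926 0 0) (P.lf 4004304 0 0)))) (P.cons (P.cons (P.lf 1966654307 0 0) (P.cons (P.lf 187008000 0 0) (P.cons (P.lf 0 12502918 0) (P.lf 0 4167636 0)))) (P.cons (P.cons (P.lf 0 83130787 0) (P.cons (P.lf 0 55982942 0) (P.cons (P.lf 3742888 0 0) (P.lf 1247626 0 0)))) (P.cons (P.cons (P.lf 0 138310522 0) (P.cons (P.lf 0 2785104 0) (P.cons (P.lf 186198 0 0) P.nil))) (P.cons (P.cons (P.lf 16984460 0 0) (P.cons (P.lf 4043986 0 0) P.nil)) (P.cons (P.cons (P.lf 4073518 0 0) P.nil) P.nil)))))) 4031046)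
 (EL.cons 9 (TM.mk (P.cons (P.cons (P.lf 2371768371 0 0) (P.cons (P.lf 0 102306078 0) (P.cons (P.lf 6839946 0 0) (P.lf 2279976 0 0)))) (P.cons (P.cons (P.lf 1426498851 0 0) (P.cons (P.lf 117333528 0 0) (P.cons (P.lf 0 7844646 0) (P.lf 0 2614878 0)))) (P.cons (P.cons (P.lf 0 232463683 0) (P.cons (P.lf 0 46556706 0) (P.cons (P.lf 3112668 0 0) (P.lf 1037556 0 0)))) (P.cons (P.cons (P.lf 0 37304364 0) (P.cons (P.lf 5867676 0 0) (P.cons (P.lf 0 392298 0) P.nil))) (P.cons (P.cons (P.lf 12403638 0 0) (P.cons (P.lf 771294 0 0) P.nil)) (P.cons (P.cons (P.lf 0 685668 0) P.nil) P.nil)))))) 1047532)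
 (EL.cons 2 (TM.mk (P.cons (P.cons (P.lf 0 413976375 0) (P.cons (P.lf 64093938 0 0) (P.cons (P.lf 30878437 0 0) (P.cons (P.lf 0 1168529 0) (P.lf 0 292128 0))))) (P.cons (P.cons (P.lf 281125220 0 0) (P.cons (P.lf 0 43525243 0) (P.cons (P.lf 0 20969085 0) (P.cons (P.lf 793530 0 0) (P.lf 198379 0 0))))) (P.cons (P.cons (P.lf 0 29232998 0) (P.cons (P.lf 4526001 0 0) (P.cons (P.lf 2180483 0 0) (P.cons (P.lf 0 82513 0) P.nil)))) (P.cons (P.cons (P.lf 0 14234675 0) (P.cons (P.lf 2203883 0 0) (P.cons (P.lf 1061760 0 0) P.nil))) (P.cons (P.cons (P.lf 3274728 0 0) (P.cons (P.lf 0 507009 0) P.nil)) (P.cons (P.cons (P.lf 0 80147 0) P.nil) P.nil)))))) 641085)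
 (EL.cons 6 (TM.mk (P.cons (P.cons (P.lf 116742378 0 0) (P.cons (P.lf 0 18074649 0) (P.cons (P.lf 0 8707797 0) (P.cons (P.lf 329526 0 0) (P.lf 82380 0 0))))) (P.cons (P.cons (P.lf 0 133890336 0) (P.cons (P.lf 20729586 0 0) (P.cons (P.lf 9986859 0 0) (P.cons (P.lf 0 377931 0) (P.lf 0 94482 0))))) (P.cons (P.cons (P.lf 53126271 0 0) (P.cons (P.lf 0 8225280 0) (P.cons (P.lf 0 3962679 0) (P.cons (P.lf 149958 0 0) P.nil)))) (P.cons (P.cons (P.lf 0 6695658 0) (P.cons (P.lf 1036656 0 0) (P.cons (P.lf 499428 0 0) P.nil))) (P.cons (P.cons (P.lf 0 880134 0) (P.cons (P.lf 136266 0 0) P.nil)) (P.cons (P.cons (P.lf 338436 0 0) P.nil) P.nil)))))) 291246)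
 EL.nil))))))
noncomputable def S372_430_512_660_2 : EL := (EL.cons 0 (TM.mk (P.cons (P.cons (P.lf 2581960018 0 0) (P.cons (P.lf 41183471 0 0) (P.cons (P.lf 0 9333923 0) (P.cons (P.lf 0 37891 0) (P.cons (P.lf 263879 0 0) (P.cons (P.lf 0 19606 0) P.nil)))))) (P.cons (P.cons (P.lf 655695701 0 0) (P.cons (P.lf 117766435 0 0) (P.cons (P.lf 5730591 0 0) (P.cons (P.lf 0 4443602 0) (P.cons (P.lf 0 545541 0) P.nil))))) (P.cons (P.cons (P.lf 0 1074088764 0) (P.cons (P.lf 0 159636473 0) (P.cons (P.lf 0 247814 0) (P.cons (P.lf 5017897 0 0) P.nil)))) (P.cons (P.cons (P.lf 58608626 0 0) (P.cons (P.lf 42281197 0 0) (P.cons (P.lf 784489 0 0) P.nil))) (P.cons (P.cons (P.lf 155997676 0 0) (P.cons (P.lf 17170784 0 0) P.nil)) (P.cons (P.cons (P.lf 0 31994382 0) P.nil) P.nil)))))) 64083073)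
 (EL.cons 1 (TM.mk (P.cons (P.cons (P.lf 1218810745 0 0) (P.cons (P.lf 24022984 0 0) (P.cons (P.lf 0 4910101 0) (P.cons (P.lf 0 93586 0) (P.cons (P.lf 132499 0 0) (P.cons (P.lf 0 9852 0) P.nil)))))) (P.cons (P.cons (P.lf 1026573630 0 0) (P.cons (P.lf 85240430 0 0) (P.cons (P.lf 0 1544634 0) (P.cons (P.lf 0 2455156 0) (P.cons (P.lf 0 166596 0) P.nil))))) (P.cons (P.cons (P.lf 0 300968191 0) (P.cons (P.lf 0 39680228 0) (P.cons (P.lf 2159451 0 0) (P.cons (P.lf 950298 0 0) P.nil)))) (P.cons (P.cons (P.lf 0 270463428 0) (P.cons (P.lf 0 28840599 0) (P.cons (P.lf 144580 0 0) P.nil))) (P.cons (P.cons (P.lf 59839653 0 0) (P.cons (P.lf 17980761 0 0) P.nil)) (P.cons (P.cons (P.lf 20340042 0 0) P.nil) P.nil)))))) 29530405)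
 (EL.cons 5 (TM.mk (P.cons (P.cons (P.lf 71550189 0 0) (P.cons (P.lf 0 100013985 0) (P.cons (P.lf 10867669 0 0) (P.cons (P.lf 1669835 0 0) (P.cons (P.lf 0 167657 0) (P.cons (P.lf 12454 0 0) P.nil)))))) (P.cons (P.cons (P.lf 957229004 0 0) (P.cons (P.lf 4692051 0 0) (P.cons (P.lf 0 9374121 0) (P.cons (P.lf 1106940 0 0) (P.cons (P.lf 363333 0 0) P.nil))))) (P.cons (P.cons (P.lf 545887381 0 0) (P.cons (P.lf 85165518 0 0) (P.cons (P.lf 2286610 0 0) (P.cons (P.lf 0 2965106 0) P.nil)))) (P.cons (P.cons (P.lf 0 168638904 0) (P.cons (P.lf 0 41757005 0) (P.cons (P.lf 0 625390 0) P.nil))) (P.cons (P.cons (P.lf 0 54331655 0) (P.cons (P.lf 0 695282 0) P.nil)) (P.cons (P.cons (P.lf 20079926 0 0) P.nil) P.nil)))))) 24399027)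
 (EL.cons 9 (TM.mk (P.cons (P.cons (P.lf 873159183 0 0) (P.cons (P.lf 0 75327331 0) (P.cons (P.lf 6660829 0 0) (P.cons (P.lf 1461495 0 0) (P.cons (P.lf 0 65149 0) (P.cons (P.lf 4840 0 0) P.nil)))))) (P.cons (P.cons (P.lf 1050322270 0 0) (P.cons (P.lf 41086365 0 0) (P.cons (P.lf 0 6473449 0) (P.cons (P.lf 0 417354 0) (P.cons (P.lf 149439 0 0) P.nil))))) (P.cons (P.cons (P.lf 144696319 0 0) (P.cons (P.lf 25064022 0 0) (P.cons (P.lf 1939858 0 0) (P.cons (P.lf 0 1042030 0) P.nil)))) (P.cons (P.cons (P.lf 0 130412008 0) (P.cons (P.lf 0 23579733 0) (P.cons (P.lf 0 305706 0) P.nil))) (P.cons (P.cons (P.lf 1000738 0 0) (P.cons (P.lf 4773427 0 0) P.nil)) (P.cons (P.cons (P.lf 7680132 0 0) P.nil) P.nil)))))) 8038423)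
 (EL.cons 2 (TM.mk (P.cons (P.cons (P.lf 0 304808242 0) (P.cons (P.lf 60339853 0 0) (P.cons (P.lf 19820941 0 0) (P.cons (P.lf 0 1997994 0) (P.cons (P.lf 0 67044 0) (P.cons (P.lf 28648 0 0) P.nil)))))) (P.cons (P.cons (P.lf 23663998 0 0) (P.cons (P.lf 0 27671450 0) (P.cons (P.lf 3556991 0 0) (P.cons (P.lf 2144041 0 0) (P.cons (P.lf 0 253625 0) P.nil))))) (P.cons (P.cons (P.lf 132845518 0 0) (P.cons (P.lf 0 3416118 0) (P.cons (P.lf 0 13711162 0) (P.cons (P.lf 0 1109058 0) P.nil)))) (P.cons (P.cons (P.lf 0 38920117 0) (P.cons (P.lf 595867 0 0) (P.cons (P.lf 4106767 0 0) P.nil))) (P.cons (P.cons (P.lf 0 6632645 0) (P.cons (P.lf 1239862 0 0) P.nil)) (P.cons (P.cons (P.lf 3927600 0 0) P.nil) P.nil)))))) 6102151)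
 (EL.cons 6 (TM.mk (P.cons (P.cons (P.lf 85956690 0 0) (P.cons (P.lf 0 17015988 0) (P.cons (P.lf 0 5589552 0) (P.cons (P.lf 563436 0 0) (P.cons (P.lf 18906 0 0) (P.cons (P.lf 0 8076 0) P.nil)))))) (P.cons (P.cons (P.lf 0 46884012 0) (P.cons (P.lf 15763530 0 0) (P.cons (P.lf 1611720 0 0) (P.cons (P.lf 0 868200 0) (P.cons (P.lf 62676 0 0) P.nil))))) (P.cons (P.cons (P.lf 0 28600776 0) (P.cons (P.lf 0 3823428 0) (P.cons (P.lf 3962550 0 0) (P.cons (P.lf 633228 0 0) P.nil)))) (P.cons (P.cons (P.lf 26907042 0 0) (P.cons (P.lf 129678 0 0) (P.cons (P.lf 0 2959242 0) P.nil))) (P.cons (P.cons (P.lf 0 5447004 0) (P.cons (P.lf 0 356376 0) P.nil)) (P.cons (P.cons (P.lf 0 813018 0) P.nil) P.nil)))))) 3428664)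
 EL.nil))))))
noncomputable def S372_430_512_660_3 : EL := (EL.cons 0 (TM.mk (P.cons (P.lf 4935825225 0 0) (P.cons (P.lf 844087942 0 0) (P.cons (P.lf 0 173579589 0) (P.cons (P.lf 0 3586566 0) (P.cons (P.lf 4211423 0 0) (P.cons (P.lf 0 490783 0) P.nil)))))) 104301)
 (EL.cons 1 (TM.mk (P.cons (P.lf 0 1391915122 0) (P.cons (P.lf 413105733 0 0) (P.cons (P.lf 67350723 0 0) (P.cons (P.lf 0 19192974 0) (P.cons (P.lf 1069213 0 0) (P.cons (P.lf 215523 0 0) P.nil)))))) 64748)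
 (EL.cons 5 (TM.mk (P.cons (P.lf 392523564 0 0) (P.cons (P.lf 0 300120158 0) (P.cons (P.lf 61717188 0 0) (P.cons (P.lf 1275220 0 0) (P.cons (P.lf 0 1497396 0) (P.cons (P.lf 174500 0 0) P.nil)))))) 24610)
 EL.nil)))
noncomputable def S372_430_512_660_4 : EL := (EL.cons 0 (TM.mk (P.cons (P.cons (P.lf 1817108775 0 0) (P.cons (P.lf 0 78380869 0) (P.cons (P.lf 5240360 0 0) (P.lf 1746782 0 0)))) (P.cons (P.cons (P.lf 1403647490 0 0) (P.cons (P.lf 76489904 0 0) (P.cons (P.lf 0 5113935 0) (P.lf 0 1704642 0)))) (P.cons (P.cons (P.lf 0 55103283 0) (P.cons (P.lf 0 17539549 0) (P.cons (P.lf 1172649 0 0) (P.lf 390883 0 0)))) (P.cons (P.cons (P.lf 0 98792400 0) (P.cons (P.lf 0 4708752 0) (P.cons (P.lf 314815 0 0) P.nil))) (P.cons (P.cons (P.lf 11634897 0 0) (P.cons (P.lf 2481883 0 0) P.nil)) (P.cons (P.cons (P.lf 2986131 0 0) P.nil) P.nil)))))) 2675191)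
 (EL.cons 1 (TM.mk (P.cons (P.cons (P.lf 0 512429242 0) (P.cons (P.lf 22103602 0 0) (P.cons (P.lf 0 1477794 0) (P.lf 0 492596 0)))) (P.cons (P.cons (P.lf 0 156116703 0) (P.cons (P.lf 0 31910454 0) (P.cons (P.lf 2133457 0 0) (P.lf 711150 0 0)))) (P.cons (P.cons (P.lf 166490190 0 0) (P.cons (P.lf 16512930 0 0) (P.cons (P.lf 0 1104013 0) (P.lf 0 368004 0)))) (P.cons (P.cons (P.lf 1000683 0 0) (P.cons (P.lf 0 2721648 0) (P.cons (P.lf 181961 0 0) P.nil))) (P.cons (P.cons (P.lf 0 11358236 0) (P.cons (P.lf 0 643636 0) P.nil)) (P.cons (P.cons (P.lf 1562139 0 0) P.nil) P.nil)))))) 1238315)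
 (EL.cons 5 (TM.mk (P.cons (P.cons (P.lf 144506334 0 0) (P.cons (P.lf 0 6233270 0) (P.cons (P.lf 416740 0 0) (P.lf 138912 0 0)))) (P.cons (P.cons (P.lf 0 23575046 0) (P.cons (P.lf 11914764 0 0) (P.cons (P.lf 0 796592 0) (P.lf 0 265530 0)))) (P.cons (P.cons (P.lf 0 57895614 0) (P.cons (P.lf 0 9282616 0) (P.cons (P.lf 620612 0 0) (P.lf 206870 0 0)))) (P.cons (P.cons (P.lf 22691398 0 0) (P.cons (P.lf 3630114 0 0) (P.cons (P.lf 0 242700 0) P.nil))) (P.cons (P.cons (P.lf 0 2306 0) (P.cons (P.lf 0 625348 0) P.nil)) (P.cons (P.cons (P.lf 0 1290292 0) P.nil) P.nil)))))) 696740)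
 EL.nil)))
noncomputable def S372_430_512_660_5 : EL := (EL.cons 0 (TM.mk (P.cons (P.cons (P.lf 668962970 0 0) (P.cons (P.lf 0 57711348 0) (P.cons (P.lf 5103133 0 0) (P.cons (P.lf 1119710 0 0) (P.cons (P.lf 0 49913 0) (P.cons (P.lf 3707 0 0) P.nil)))))) (P.cons (P.cons (P.lf 919095906 0 0) (P.cons (P.lf 21608579 0 0) (P.cons (P.lf 0 4086873 0) (P.cons (P.lf 0 128265 0) (P.cons (P.lf 105953 0 0) P.nil))))) (P.cons (P.cons (P.lf 224945056 0 0) (P.cons (P.lf 26615246 0 0) (P.cons (P.lf 458592 0 0) (P.cons (P.lf 0 892400 0) P.nil)))) (P.cons (P.cons (P.lf 0 109740937 0) (P.cons (P.lf 0 15846575 0) (P.cons (P.lf 190652 0 0) P.nil))) (P.cons (P.cons (P.lf 0 20232341 0) (P.cons (P.lf 0 179708 0) P.nil)) (P.cons (P.cons (P.lf 10068407 0 0) P.nil) P.nil)))))) 10898782)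
 (EL.cons 1 (TM.mk (P.cons (P.cons (P.lf 0 188649238 0) (P.cons (P.lf 16274745 0 0) (P.cons (P.lf 0 1439096 0) (P.cons (P.lf 0 315759 0) (P.cons (P.lf 14075 0 0) (P.cons (P.lf 0 1044 0) P.nil)))))) (P.cons (P.cons (P.lf 0 170936866 0) (P.cons (P.lf 0 13707031 0) (P.cons (P.lf 1825719 0 0) (P.cons (P.lf 183885 0 0) (P.cons (P.lf 0 36463 0) P.nil))))) (P.cons (P.cons (P.lf 45215253 0 0) (P.cons (P.lf 0 3568102 0) (P.cons (P.lf 0 764572 0) (P.cons (P.lf 213650 0 0) P.nil)))) (P.cons (P.cons (P.lf 45833295 0 0) (P.cons (P.lf 7355589 0 0) (P.cons (P.lf 102918 0 0) P.nil))) (P.cons (P.cons (P.lf 0 10050011 0) (P.cons (P.lf 0 2416185 0) P.nil)) (P.cons (P.cons (P.lf 0 3186048 0) P.nil) P.nil)))))) 4903747)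
 (EL.cons 5 (TM.mk (P.cons (P.cons (P.lf 53199558 0 0) (P.cons (P.lf 0 4589518 0) (P.cons (P.lf 405828 0 0) (P.cons (P.lf 89044 0 0) (P.cons (P.lf 0 3968 0) (P.cons (P.lf 294 0 0) P.nil)))))) (P.cons (P.cons (P.lf 23317766 0 0) (P.cons (P.lf 6012402 0 0) (P.cons (P.lf 0 704704 0) (P.cons (P.lf 0 93510 0) (P.cons (P.lf 12138 0 0) P.nil))))) (P.cons (P.cons (P.lf 0 31748358 0) (P.cons (P.lf 0 1108524 0) (P.cons (P.lf 483564 0 0) (P.cons (P.lf 0 30044 0) P.nil)))) (P.cons (P.cons (P.lf 0 4451668 0) (P.cons (P.lf 0 2225572 0) (P.cons (P.lf 0 169688 0) P.nil))) (P.cons (P.cons (P.lf 7527298 0 0) (P.cons (P.lf 1655038 0 0) P.nil)) (P.cons (P.cons (P.lf 0 1019834 0) P.nil) P.nil)))))) 2170796)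
 EL.nil)))
noncomputable def S372_430_512_660_6 : EL := (EL.cons 12 (TM.mk (P.lf 8589934592 0 0) 0)
 (EL.cons 3 (TM.mk (P.cons (P.lf 3255703297 0 0) (P.cons (P.lf 278383023 0 0) (P.cons (P.lf 0 69148875 0) (P.cons (P.lf 4729800 0 0) (P.cons (P.lf 250177 0 0) (P.cons (P.lf 0 82796 0) P.nil)))))) 14718)
 (EL.cons 7 (TM.mk (P.cons (P.lf 0 918116516 0) (P.cons (P.lf 350992016 0 0) (P.cons (P.lf 0 5087185 0) (P.cons (P.lf 0 3436187 0) (P.cons (P.lf 451667 0 0) (P.cons (P.lf 0 12370 0) P.nil)))))) 9470)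
 EL.nil)))
noncomputable def S372_430_512_660_7 : EL := (EL.cons 12 (TM.mk (P.cons (P.cons (P.lf 3162357828 0 0) (P.cons (P.lf 0 136408104 0) (P.cons (P.lf 9119928 0 0) (P.lf 3039968 0 0)))) (P.cons (P.cons (P.lf 1901998468 0 0) (P.cons (P.lf 156444704 0 0) (P.cons (P.lf 0 10459528 0) (P.lf 0 3486504 0)))) (P.cons (P.cons (P.lf 0 309951578 0) (P.cons (P.lf 0 62075608 0) (P.cons (P.lf 4150224 0 0) (P.lf 1383408 0 0)))) (P.cons (P.cons (P.lf 0 49739152 0) (P.cons (P.lf 7823568 0 0) (P.cons (P.lf 0 523064 0) P.nil))) (P.cons (P.cons (P.lf 16538184 0 0) (P.cons (P.lf 1028392 0 0) P.nil)) (P.cons (P.cons (P.lf 0 914224 0) P.nil) P.nil)))))) 1396684)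
 (EL.cons 3 (TM.mk (P.cons (P.cons (P.lf 3084247078 0 0) (P.cons (P.lf 103401090 0 0) (P.cons (P.lf 0 6913154 0) (P.lf 0 2304378 0)))) (P.cons (P.cons (P.lf 0 296198120 0) (P.cons (P.lf 0 109747944 0) (P.cons (P.lf 7337490 0 0) (P.lf 2445826 0 0)))) (P.cons (P.cons (P.lf 0 115141756 0) (P.cons (P.lf 34718712 0 0) (P.cons (P.lf 0 2321206 0) (P.lf 0 773734 0)))) (P.cons (P.cons (P.lf 79194602 0 0) (P.cons (P.lf 761992 0 0) (P.cons (P.lf 0 50944 0) P.nil))) (P.cons (P.cons (P.lf 0 9843199 0) (P.cons (P.lf 0 2450396 0) P.nil)) (P.cons (P.cons (P.lf 0 1673479 0) P.nil) P.nil)))))) 4725293)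
 (EL.cons 7 (TM.mk (P.cons (P.cons (P.lf 2039496348 0 0) (P.cons (P.lf 210135575 0 0) (P.cons (P.lf 0 14049177 0) (P.lf 0 4683059 0)))) (P.cons (P.cons (P.lf 0 373453723 0) (P.cons (P.lf 0 138372857 0) (P.cons (P.lf 9251288 0 0) (P.lf 3083763 0 0)))) (P.cons (P.cons (P.lf 0 232524685 0) (P.cons (P.lf 11408645 0 0) (P.cons (P.lf 0 762757 0) (P.lf 0 254252 0)))) (P.cons (P.cons (P.lf 35646558 0 0) (P.cons (P.lf 7598916 0 0) (P.cons (P.lf 0 508043 0) P.nil))) (P.cons (P.cons (P.lf 6613155 0 0) (P.cons (P.lf 0 1266394 0) P.nil)) (P.cons (P.cons (P.lf 0 2106057 0) P.nil) P.nil)))))) 2276799)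
 (EL.cons 10 (TM.mk (P.cons (P.cons (P.lf 0 546123168 0) (P.cons (P.lf 84553581 0 0) (P.cons (P.lf 40735248 0 0) (P.cons (P.lf 0 1541541 0) (P.lf 0 385383 0))))) (P.cons (P.cons (P.lf 417561102 0 0) (P.cons (P.lf 0 64648944 0) (P.cons (P.lf 0 31145820 0) (P.cons (P.lf 1178649 0 0) (P.lf 294660 0 0))))) (P.cons (P.cons (P.lf 0 85867929 0) (P.cons (P.lf 13294512 0 0) (P.cons (P.lf 6404874 0 0) (P.cons (P.lf 0 242379 0) P.nil)))) (P.cons (P.cons (P.lf 0 1774230 0) (P.cons (P.lf 274695 0 0) (P.cons (P.lf 132339 0 0) P.nil))) (P.cons (P.cons (P.lf 2083344 0 0) (P.cons (P.lf 0 322554 0) P.nil)) (P.cons (P.cons (P.lf 0 242784 0) P.nil) P.nil)))))) 328473)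
 EL.nil))))
noncomputable def S372_430_512_660_8 : EL := (EL.cons 12 (TM.mk (P.cons (P.cons (P.lf 1164212244 0 0) (P.cons (P.lf 0 100436442 0) (P.cons (P.lf 8881106 0 0) (P.cons (P.lf 1948660 0 0) (P.cons (P.lf 0 86866 0) (P.cons (P.lf 6454 0 0) P.nil)))))) (P.cons (P.cons (P.lf 1400429694 0 0) (P.cons (P.lf 54781820 0 0) (P.cons (P.lf 0 8631266 0) (P.cons (P.lf 0 556472 0) (P.cons (P.lf 199252 0 0) P.nil))))) (P.cons (P.cons (P.lf 192928426 0 0) (P.cons (P.lf 33418696 0 0) (P.cons (P.lf 2586478 0 0) (P.cons (P.lf 0 1389374 0) P.nil)))) (P.cons (P.cons (P.lf 0 173882678 0) (P.cons (P.lf 0 31439644 0) (P.cons (P.lf 0 407608 0) P.nil))) (P.cons (P.cons (P.lf 1334318 0 0) (P.cons (P.lf 6364570 0 0) P.nil)) (P.cons (P.cons (P.lf 10240176 0 0) P.nil) P.nil)))))) 10717868)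
 (EL.cons 3 (TM.mk (P.cons (P.cons (P.lf 1829659578 0 0) (P.cons (P.lf 16244723 0 0) (P.cons (P.lf 0 5191104 0) (P.cons (P.lf 186880 0 0) (P.cons (P.lf 164615 0 0) (P.cons (P.lf 0 12231 0) P.nil)))))) (P.cons (P.cons (P.lf 579238057 0 0) (P.cons (P.lf 69226973 0 0) (P.cons (P.lf 4436634 0 0) (P.cons (P.lf 0 2754907 0) (P.cons (P.lf 0 363520 0) P.nil))))) (P.cons (P.cons (P.lf 0 547661880 0) (P.cons (P.lf 0 97459186 0) (P.cons (P.lf 0 1727495 0) (P.cons (P.lf 3274229 0 0) P.nil)))) (P.cons (P.cons (P.lf 63262060 0 0) (P.cons (P.lf 37177821 0 0) (P.cons (P.lf 1283109 0 0) P.nil))) (P.cons (P.cons (P.lf 57316605 0 0) (P.cons (P.lf 1605654 0 0) P.nil)) (P.cons (P.cons (P.lf 0 17229918 0) P.nil) P.nil)))))) 30016683)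
 (EL.cons 7 (TM.mk (P.cons (P.cons (P.lf 1626102830 0 0) (P.cons (P.lf 79212211 0 0) (P.cons (P.lf 0 11738323 0) (P.cons (P.lf 0 903870 0) (P.cons (P.lf 258350 0 0) (P.cons (P.lf 0 19193 0) P.nil)))))) (P.cons (P.cons (P.lf 730317280 0 0) (P.cons (P.lf 87283038 0 0) (P.cons (P.lf 5593813 0 0) (P.cons (P.lf 0 3473457 0) (P.cons (P.lf 0 458334 0) P.nil))))) (P.cons (P.cons (P.lf 0 519683334 0) (P.cons (P.lf 0 102463294 0) (P.cons (P.lf 0 869674 0) (P.cons (P.lf 3315780 0 0) P.nil)))) (P.cons (P.cons (P.lf 0 98567170 0) (P.cons (P.lf 12976744 0 0) (P.cons (P.lf 1222026 0 0) P.nil))) (P.cons (P.cons (P.lf 57474529 0 0) (P.cons (P.lf 10290056 0 0) P.nil)) (P.cons (P.cons (P.lf 568332 0 0) P.nil) P.nil)))))) 19629492)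
 (EL.cons 10 (TM.mk (P.cons (P.cons (P.lf 0 402107106 0) (P.cons (P.lf 79601142 0 0) (P.cons (P.lf 26148048 0 0) (P.cons (P.lf 0 2635776 0) (P.cons (P.lf 0 88446 0) (P.cons (P.lf 37794 0 0) P.nil)))))) (P.cons (P.cons (P.lf 65600538 0 0) (P.cons (P.lf 0 43310946 0) (P.cons (P.lf 2456610 0 0) (P.cons (P.lf 3053826 0 0) (P.cons (P.lf 0 327024 0) P.nil))))) (P.cons (P.cons (P.lf 161101854 0 0) (P.cons (P.lf 887436 0 0) (P.cons (P.lf 0 17742636 0) (P.cons (P.lf 0 1780188 0) P.nil)))) (P.cons (P.cons (P.lf 0 63141672 0) (P.cons (P.lf 0 325332 0) (P.cons (P.lf 6948996 0 0) P.nil))) (P.cons (P.cons (P.lf 6420 0 0) (P.cons (P.lf 1739118 0 0) P.nil)) (P.cons (P.cons (P.lf 3590400 0 0) P.nil) P.nil)))))) 7007142)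
 EL.nil))))
noncomputable def S372_430_512_660_9 : EL := (EL.cons 3 (TM.mk (P.cons (P.lf 3255703297 0 0) (P.cons (P.lf 278383023 0 0) (P.cons (P.lf 0 69148875 0) (P.cons (P.lf 4729800 0 0) (P.cons (P.lf 250177 0 0) (P.cons (P.lf 0 82796 0) P.nil)))))) 14718)
 (EL.cons 7 (TM.mk (P.cons (P.lf 0 918116516 0) (P.cons (P.lf 350992016 0 0) (P.cons (P.lf 0 5087185 0) (P.cons (P.lf 0 3436187 0) (P.cons (P.lf 451667 0 0) (P.cons (P.lf 0 12370 0) P.nil)))))) 9470)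
 EL.nil))
noncomputable def S372_430_512_660_10 : EL := (EL.cons 3 (TM.mk (P.cons (P.cons (P.lf 1198577089 0 0) (P.cons (P.lf 0 51700545 0) (P.cons (P.lf 3456577 0 0) (P.lf 1152189 0 0)))) (P.cons (P.cons (P.lf 823369414 0 0) (P.cons (P.lf 54873972 0 0) (P.cons (P.lf 0 3668745 0) (P.lf 0 1222913 0)))) (P.cons (P.cons (P.lf 0 81292792 0) (P.cons (P.lf 0 17359356 0) (P.cons (P.lf 1160603 0 0) (P.lf 386867 0 0)))) (P.cons (P.cons (P.lf 0 42466552 0) (P.cons (P.lf 0 380996 0) (P.cons (P.lf 25472 0 0) P.nil))) (P.cons (P.cons (P.lf 8290739 0 0) (P.cons (P.lf 1225198 0 0) P.nil)) (P.cons (P.cons (P.lf 444113 0 0) P.nil) P.nil)))))) 1143109)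
 (EL.cons 7 (TM.mk (P.cons (P.cons (P.lf 0 338001753 0) (P.cons (P.lf 14579684 0 0) (P.cons (P.lf 0 974763 0) (P.lf 0 324920 0)))) (P.cons (P.cons (P.lf 0 74074354 0) (P.cons (P.lf 0 22295003 0) (P.cons (P.lf 1490591 0 0) (P.lf 496863 0 0)))) (P.cons (P.cons (P.lf 108972941 0 0) (P.cons (P.lf 13108064 0 0) (P.cons (P.lf 0 876373 0) (P.lf 0 292124 0)))) (P.cons (P.cons (P.lf 0 9740058 0) (P.cons (P.lf 0 3410751 0) (P.cons (P.lf 228034 0 0) P.nil))) (P.cons (P.cons (P.lf 0 4211037 0) (P.cons (P.lf 176768 0 0) P.nil)) (P.cons (P.cons (P.lf 1022379 0 0) P.nil) P.nil)))))) 494573)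
 EL.nil))
noncomputable def S372_430_512_660_11 : EL := (EL.cons 3 (TM.mk (P.cons (P.cons (P.lf 441252444 0 0) (P.cons (P.lf 0 38066791 0) (P.cons (P.lf 3366060 0 0) (P.cons (P.lf 738568 0 0) (P.cons (P.lf 0 32923 0) (P.cons (P.lf 2445 0 0) P.nil)))))) (P.cons (P.cons (P.lf 568511953 0 0) (P.cons (P.lf 17508113 0 0) (P.cons (P.lf 0 2983548 0) (P.cons (P.lf 0 147757 0) (P.cons (P.lf 72704 0 0) P.nil))))) (P.cons (P.cons (P.lf 109135824 0 0) (P.cons (P.lf 15250028 0 0) (P.cons (P.lf 629095 0 0) (P.cons (P.lf 0 560311 0) P.nil)))) (P.cons (P.cons (P.lf 0 70283894 0) (P.cons (P.lf 0 11329317 0) (P.cons (P.lf 3705 0 0) P.nil))) (P.cons (P.cons (P.lf 0 5877531 0) (P.cons (P.lf 1151580 0 0) P.nil)) (P.cons (P.cons (P.lf 5459958 0 0) P.nil) P.nil)))))) 5735357)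
 (EL.cons 7 (TM.mk (P.cons (P.cons (P.lf 0 124434298 0) (P.cons (P.lf 10734931 0 0) (P.cons (P.lf 0 949237 0) (P.cons (P.lf 0 208278 0) (P.cons (P.lf 9284 0 0) (P.cons (P.lf 0 689 0) P.nil)))))) (P.cons (P.cons (P.lf 0 102111188 0) (P.cons (P.lf 0 9959154 0) (P.cons (P.lf 1285423 0 0) (P.cons (P.lf 139101 0 0) (P.cons (P.lf 0 24846 0) P.nil))))) (P.cons (P.cons (P.lf 35912532 0 0) (P.cons (P.lf 0 1273972 0) (P.cons (P.lf 0 634390 0) (P.cons (P.lf 124608 0 0) P.nil)))) (P.cons (P.cons (P.lf 25173206 0 0) (P.cons (P.lf 4733608 0 0) (P.cons (P.lf 150810 0 0) P.nil))) (P.cons (P.cons (P.lf 0 7860857 0) (P.cons (P.lf 0 2011900 0) P.nil)) (P.cons (P.cons (P.lf 0 942216 0) P.nil) P.nil)))))) 2530670)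
 EL.nil))
noncomputable def S372_430_512_660_12 : EL := (EL.cons 4 (TM.mk (P.cons (P.lf 0 3255703297 0) (P.cons (P.lf 0 278383023 0) (P.cons (P.lf 69148875 0 0) (P.cons (P.lf 0 4729800 0) (P.cons (P.lf 0 250177 0) (P.cons (P.lf 82796 0 0) P.nil)))))) 14718)
 (EL.cons 8 (TM.mk (P.cons (P.lf 918116516 0 0) (P.cons (P.lf 0 350992016 0) (P.cons (P.lf 5087185 0 0) (P.cons (P.lf 3436187 0 0) (P.cons (P.lf 0 451667 0) (P.cons (P.lf 12370 0 0) P.nil)))))) 9470)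
 EL.nil))
noncomputable def S372_430_512_660_13 : EL := (EL.cons 4 (TM.mk (P.cons (P.cons (P.lf 0 1198577089 0) (P.cons (P.lf 51700545 0 0) (P.cons (P.lf 0 3456577 0) (P.lf 0 1152189 0)))) (P.cons (P.cons (P.lf 0 823369414 0) (P.cons (P.lf 0 54873972 0) (P.cons (P.lf 3668745 0 0) (P.lf 1222913 0 0)))) (P.cons (P.cons (P.lf 81292792 0 0) (P.cons (P.lf 17359356 0 0) (P.cons (P.lf 0 1160603 0) (P.lf 0 386867 0)))) (P.cons (P.cons (P.lf 42466552 0 0) (P.cons (P.lf 380996 0 0) (P.cons (P.lf 0 25472 0) P.nil))) (P.cons (P.cons (P.lf 0 8290739 0) (P.cons (P.lf 0 1225198 0) P.nil)) (P.cons (P.cons (P.lf 0 444113 0) P.nil) P.nil)))))) 1143109)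
 (EL.cons 8 (TM.mk (P.cons (P.cons (P.lf 338001753 0 0) (P.cons (P.lf 0 14579684 0) (P.cons (P.lf 974763 0 0) (P.lf 324920 0 0)))) (P.cons (P.cons (P.lf 74074354 0 0) (P.cons (P.lf 22295003 0 0) (P.cons (P.lf 0 1490591 0) (P.lf 0 496863 0)))) (P.cons (P.cons (P.lf 0 108972941 0) (P.cons (P.lf 0 13108064 0) (P.cons (P.lf 876373 0 0) (P.lf 292124 0 0)))) (P.cons (P.cons (P.lf 9740058 0 0) (P.cons (P.lf 3410751 0 0) (P.cons (P.lf 0 228034 0) P.nil))) (P.cons (P.cons (P.lf 4211037 0 0) (P.cons (P.lf 0 176768 0) P.nil)) (P.cons (P.cons (P.lf 0 1022379 0) P.nil) P.nil)))))) 494573)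
 EL.nil))
noncomputable def S372_430_512_660_14 : EL := (EL.cons 4 (TM.mk (P.cons (P.cons (P.lf 0 441252444 0) (P.cons (P.lf 38066791 0 0) (P.cons (P.lf 0 3366060 0) (P.cons (P.lf 0 738568 0) (P.cons (P.lf 32923 0 0) (P.cons (P.lf 0 2445 0) P.nil)))))) (P.cons (P.cons (P.lf 0 568511953 0) (P.cons (P.lf 0 17508113 0) (P.cons (P.lf 2983548 0 0) (P.cons (P.lf 147757 0 0) (P.cons (P.lf 0 72704 0) P.nil))))) (P.cons (P.cons (P.lf 0 109135824 0) (P.cons (P.lf 0 15250028 0) (P.cons (P.lf 0 629095 0) (P.cons (P.lf 560311 0 0) P.nil)))) (P.cons (P.cons (P.lf 70283894 0 0) (P.cons (P.lf 11329317 0 0) (P.cons (P.lf 0 3705 0) P.nil))) (P.cons (P.cons (P.lf 5877531 0 0) (P.cons (P.lf 0 1151580 0) P.nil)) (P.cons (P.cons (P.lf 0 5459958 0) P.nil) P.nil)))))) 5735357)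
 (EL.cons 8 (TM.mk (P.cons (P.cons (P.lf 124434298 0 0) (P.cons (P.lf 0 10734931 0) (P.cons (P.lf 949237 0 0) (P.cons (P.lf 208278 0 0) (P.cons (P.lf 0 9284 0) (P.cons (P.lf 689 0 0) P.nil)))))) (P.cons (P.cons (P.lf 102111188 0 0) (P.cons (P.lf 9959154 0 0) (P.cons (P.lf 0 1285423 0) (P.cons (P.lf 0 139101 0) (P.cons (P.lf 24846 0 0) P.nil))))) (P.cons (P.cons (P.lf 0 35912532 0) (P.cons (P.lf 1273972 0 0) (P.cons (P.lf 634390 0 0) (P.cons (P.lf 0 124608 0) P.nil)))) (P.cons (P.cons (P.lf 0 25173206 0) (P.cons (P.lf 0 4733608 0) (P.cons (P.lf 0 150810 0) P.nil))) (P.cons (P.cons (P.lf 7860857 0 0) (P.cons (P.lf 2011900 0 0) P.nil)) (P.cons (P.cons (P.lf 942216 0 0) P.nil) P.nil)))))) 2530670)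
 EL.nil))
noncomputable def S372_430_512_660_15 : EL := (EL.cons 4 (TM.mk (P.cons (P.lf 0 2632440120 0) (P.cons (P.lf 0 450180236 0) (P.cons (P.lf 92575781 0 0) (P.cons (P.lf 1912835 0 0) (P.cons (P.lf 0 2246092 0) (P.cons (P.lf 261750 0 0) P.nil)))))) 55630)
 (EL.cons 8 (TM.mk (P.cons (P.lf 742354732 0 0) (P.cons (P.lf 0 220323058 0) (P.cons (P.lf 0 35920386 0) (P.cons (P.lf 10236253 0 0) (P.cons (P.lf 0 570247 0) (P.cons (P.lf 0 114946 0) P.nil)))))) 34529)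
 EL.nil))
noncomputable def S372_430_512_660_16 : EL := (EL.cons 4 (TM.mk (P.cons (P.cons (P.lf 0 969124680 0) (P.cons (P.lf 41803130 0 0) (P.cons (P.lf 0 2794859 0) (P.lf 0 931617 0)))) (P.cons (P.cons (P.lf 0 748611994 0) (P.cons (P.lf 0 40794615 0) (P.cons (P.lf 2727432 0 0) (P.lf 909142 0 0)))) (P.cons (P.cons (P.lf 29388418 0 0) (P.cons (P.lf 9354426 0 0) (P.cons (P.lf 0 625412 0) (P.lf 0 208470 0)))) (P.cons (P.cons (P.lf 52689280 0 0) (P.cons (P.lf 2511334 0 0) (P.cons (P.lf 0 167901 0) P.nil))) (P.cons (P.cons (P.lf 0 6205278 0) (P.cons (P.lf 0 1323671 0) P.nil)) (P.cons (P.cons (P.lf 0 1592603 0) P.nil) P.nil)))))) 1426777)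
 (EL.cons 8 (TM.mk (P.cons (P.cons (P.lf 273295596 0 0) (P.cons (P.lf 0 11788588 0) (P.cons (P.lf 788157 0 0) (P.lf 262718 0 0)))) (P.cons (P.cons (P.lf 83262242 0 0) (P.cons (P.lf 17018909 0 0) (P.cons (P.lf 0 1137844 0) (P.lf 0 379280 0)))) (P.cons (P.cons (P.lf 0 88794768 0) (P.cons (P.lf 0 8806896 0) (P.cons (P.lf 588807 0 0) (P.lf 196269 0 0)))) (P.cons (P.cons (P.lf 0 533698 0) (P.cons (P.lf 1451546 0 0) (P.cons (P.lf 0 97046 0) P.nil))) (P.cons (P.cons (P.lf 6057726 0 0) (P.cons (P.lf 343273 0 0) P.nil)) (P.cons (P.cons (P.lf 0 833141 0) P.nil) P.nil)))))) 660425)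
 EL.nil))
noncomputable def S372_430_512_660_17 : EL := (EL.cons 4 (TM.mk (P.cons (P.cons (P.lf 0 356780250 0) (P.cons (P.lf 30779385 0 0) (P.cons (P.lf 0 2721671 0) (P.cons (P.lf 0 597179 0) (P.cons (P.lf 26620 0 0) (P.cons (P.lf 0 1977 0) P.nil)))))) (P.cons (P.cons (P.lf 0 490184483 0) (P.cons (P.lf 0 11524575 0) (P.cons (P.lf 2179665 0 0) (P.cons (P.lf 68408 0 0) (P.cons (P.lf 0 56508 0) P.nil))))) (P.cons (P.cons (P.lf 0 119970696 0) (P.cons (P.lf 0 14194798 0) (P.cons (P.lf 0 244582 0) (P.cons (P.lf 475947 0 0) P.nil)))) (P.cons (P.cons (P.lf 58528500 0 0) (P.cons (P.lf 8451507 0 0) (P.cons (P.lf 0 101681 0) P.nil))) (P.cons (P.cons (P.lf 10790581 0 0) (P.cons (P.lf 95844 0 0) P.nil)) (P.cons (P.cons (P.lf 0 5369817 0) P.nil) P.nil)))))) 5812694)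
 (EL.cons 8 (TM.mk (P.cons (P.cons (P.lf 100612927 0 0) (P.cons (P.lf 0 8679864 0) (P.cons (P.lf 767518 0 0) (P.cons (P.lf 168405 0 0) (P.cons (P.lf 0 7507 0) (P.cons (P.lf 557 0 0) P.nil)))))) (P.cons (P.cons (P.lf 91166329 0 0) (P.cons (P.lf 7310417 0 0) (P.cons (P.lf 0 973717 0) (P.cons (P.lf 0 98072 0) (P.cons (P.lf 19447 0 0) P.nil))))) (P.cons (P.cons (P.lf 0 24114802 0) (P.cons (P.lf 1902988 0 0) (P.cons (P.lf 407772 0 0) (P.cons (P.lf 0 113947 0) P.nil)))) (P.cons (P.cons (P.lf 0 24444424 0) (P.cons (P.lf 0 3922981 0) (P.cons (P.lf 0 54890 0) P.nil))) (P.cons (P.cons (P.lf 5360006 0 0) (P.cons (P.lf 1288632 0 0) P.nil)) (P.cons (P.cons (P.lf 1699226 0 0) P.nil) P.nil)))))) 2615320)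
 EL.nil))
noncomputable def S372_430_512_660_18 : EL := (EL.cons 4 (TM.mk (P.cons (P.lf 0 2128492786 0) (P.cons (P.lf 0 545998394 0) (P.cons (P.lf 88936838 0 0) (P.cons (P.lf 12585940 0 0) (P.cons (P.lf 0 3966058 0) (P.cons (P.lf 158407 0 0) P.nil)))))) 145112)
 (EL.cons 8 (TM.mk (P.cons (P.lf 600240317 0 0) (P.cons (P.lf 0 126820692 0) (P.cons (P.lf 0 57025083 0) (P.cons (P.lf 10448908 0 0) (P.cons (P.lf 650816 0 0) (P.cons (P.lf 0 379305 0) P.nil)))))) 67460)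
 EL.nil))
noncomputable def S372_430_512_660_19 : EL := (EL.cons 4 (TM.mk (P.cons (P.cons (P.lf 0 783598029 0) (P.cons (P.lf 33800450 0 0) (P.cons (P.lf 0 2259819 0) (P.lf 0 753270 0)))) (P.cons (P.cons (P.lf 0 672302245 0) (P.cons (P.lf 0 30094852 0) (P.cons (P.lf 2012070 0 0) (P.lf 670689 0 0)))) (P.cons (P.cons (P.lf 0 11351460 0) (P.cons (P.lf 4025317 0 0) (P.cons (P.lf 0 269121 0) (P.lf 0 89707 0)))) (P.cons (P.cons (P.lf 56352170 0 0) (P.cons (P.lf 3426992 0 0) (P.cons (P.lf 0 229120 0) P.nil))) (P.cons (P.cons (P.lf 0 2818842 0) (P.cons (P.lf 0 1102613 0) P.nil)) (P.cons (P.cons (P.lf 0 2613648 0) P.nil) P.nil)))))) 1745942)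
 (EL.cons 8 (TM.mk (P.cons (P.cons (P.lf 220976614 0 0) (P.cons (P.lf 0 9531812 0) (P.cons (P.lf 637274 0 0) (P.lf 212424 0 0)))) (P.cons (P.cons (P.lf 86217624 0 0) (P.cons (P.lf 12945824 0 0) (P.cons (P.lf 0 865527 0) (P.lf 0 288508 0)))) (P.cons (P.cons (P.lf 0 70733007 0) (P.cons (P.lf 0 5741839 0) (P.cons (P.lf 383885 0 0) (P.lf 127961 0 0)))) (P.cons (P.cons (P.lf 0 7679407 0) (P.cons (P.lf 258663 0 0) (P.cons (P.lf 0 17293 0) P.nil))) (P.cons (P.cons (P.lf 6500837 0 0) (P.cons (P.lf 548415 0 0) P.nil)) (P.cons (P.cons (P.lf 0 350417 0) P.nil) P.nil)))))) 849128)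
 EL.nil))
noncomputable def S372_430_512_660_20 : EL := (EL.cons 4 (TM.mk (P.cons (P.cons (P.lf 0 288479188 0) (P.cons (P.lf 24887062 0 0) (P.cons (P.lf 0 2200641 0) (P.cons (P.lf 0 482856 0) (P.cons (P.lf 21524 0 0) (P.cons (P.lf 0 1598 0) P.nil)))))) (P.cons (P.cons (P.lf 0 421011647 0) (P.cons (P.lf 0 7190341 0) (P.cons (P.lf 1574227 0 0) (P.cons (P.lf 14025 0 0) (P.cons (P.lf 0 43850 0) P.nil))))) (P.cons (P.cons (P.lf 0 124766697 0) (P.cons (P.lf 0 12802743 0) (P.cons (P.lf 0 323 0) (P.cons (P.lf 399817 0 0) P.nil)))) (P.cons (P.cons (P.lf 47028519 0 0) (P.cons (P.lf 6086254 0 0) (P.cons (P.lf 0 139754 0) P.nil))) (P.cons (P.cons (P.lf 14233682 0 0) (P.cons (P.lf 893955 0 0) P.nil)) (P.cons (P.cons (P.lf 0 4764975 0) P.nil) P.nil)))))) 5952158)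
 (EL.cons 8 (TM.mk (P.cons (P.cons (P.lf 81351856 0 0) (P.cons (P.lf 0 7018214 0) (P.cons (P.lf 620586 0 0) (P.cons (P.lf 136166 0 0) (P.cons (P.lf 0 6069 0) (P.cons (P.lf 450 0 0) P.nil)))))) (P.cons (P.cons (P.lf 80669783 0 0) (P.cons (P.lf 5310829 0 0) (P.cons (P.lf 0 734247 0) (P.cons (P.lf 0 67654 0) (P.cons (P.lf 15205 0 0) P.nil))))) (P.cons (P.cons (P.lf 0 14923203 0) (P.cons (P.lf 2193168 0 0) (P.cons (P.lf 249208 0 0) (P.cons (P.lf 0 101806 0) P.nil)))) (P.cons (P.cons (P.lf 0 22879520 0) (P.cons (P.lf 0 3176149 0) (P.cons (P.lf 1433 0 0) P.nil))) (P.cons (P.cons (P.lf 3171353 0 0) (P.cons (P.lf 746083 0 0) P.nil)) (P.cons (P.cons (P.lf 2139567 0 0) P.nil) P.nil)))))) 2527121)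
 EL.nil))
noncomputable def S372_430_512_660_21 : EL := (EL.cons 4 (TM.mk (P.cons (P.cons (P.lf 0 1885669989 0) (P.cons (P.lf 0 155101635 0) (P.cons (P.lf 10369731 0 0) (P.lf 3456567 0 0)))) (P.cons (P.cons (P.lf 1119567534 0 0) (P.cons (P.lf 164621916 0 0) (P.cons (P.lf 0 11006235 0) (P.lf 0 3668739 0)))) (P.cons (P.cons (P.lf 33848964 0 0) (P.cons (P.lf 0 52078068 0) (P.cons (P.lf 3481809 0 0) (P.lf 1160601 0 0)))) (P.cons (P.cons (P.lf 0 121661154 0) (P.cons (P.lf 0 1142988 0) (P.cons (P.lf 76416 0 0) P.nil))) (P.cons (P.cons (P.lf 18133938 0 0) (P.cons (P.lf 3675594 0 0) P.nil)) (P.cons (P.cons (P.lf 2117592 0 0) P.nil) P.nil)))))) 3582165)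
 (EL.cons 8 (TM.mk (P.cons (P.cons (P.lf 0 2377498101 0) (P.cons (P.lf 0 195555891 0) (P.cons (P.lf 13074414 0 0) (P.lf 4358139 0 0)))) (P.cons (P.cons (P.lf 299379369 0 0) (P.cons (P.lf 116077854 0 0) (P.cons (P.lf 0 7760697 0) (P.lf 0 2586900 0)))) (P.cons (P.cons (P.lf 341497626 0 0) (P.cons (P.lf 1699419 0 0) (P.cons (P.lf 0 113616 0) (P.lf 0 37872 0)))) (P.cons (P.cons (P.lf 0 45386616 0) (P.cons (P.lf 0 11009667 0) (P.cons (P.lf 736077 0 0) P.nil))) (P.cons (P.cons (P.lf 0 10824192 0) (P.cons (P.lf 1443162 0 0) P.nil)) (P.cons (P.cons (P.lf 3128436 0 0) P.nil) P.nil)))))) 1782207)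
 (EL.cons 11 (TM.mk (P.cons (P.cons (P.lf 546123168 0 0) (P.cons (P.lf 0 84553581 0) (P.cons (P.lf 0 40735248 0) (P.cons (P.lf 1541541 0 0) (P.lf 385383 0 0))))) (P.cons (P.cons (P.lf 0 417561102 0) (P.cons (P.lf 64648944 0 0) (P.cons (P.lf 31145820 0 0) (P.cons (P.lf 0 1178649 0) (P.lf 0 294660 0))))) (P.cons (P.cons (P.lf 85867929 0 0) (P.cons (P.lf 0 13294512 0) (P.cons (P.lf 0 6404874 0) (P.cons (P.lf 242379 0 0) P.nil)))) (P.cons (P.cons (P.lf 1774230 0 0) (P.cons (P.lf 0 274695 0) (P.cons (P.lf 0 132339 0) P.nil))) (P.cons (P.cons (P.lf 0 2083344 0) (P.cons (P.lf 322554 0 0) P.nil)) (P.cons (P.cons (P.lf 242784 0 0) P.nil) P.nil)))))) 328473)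
 EL.nil)))
noncomputable def S372_430_512_660_22 : EL := (EL.cons 4 (TM.mk (P.cons (P.cons (P.lf 0 694203567 0) (P.cons (P.lf 0 27155757 0) (P.cons (P.lf 4278582 0 0) (P.cons (P.lf 275844 0 0) (P.cons (P.lf 0 98769 0) (P.cons (P.lf 7338 0 0) P.nil)))))) (P.cons (P.cons (P.lf 0 5363052 0) (P.cons (P.lf 0 25859430 0) (P.cons (P.lf 0 3710091 0) (P.cons (P.lf 1303575 0 0) (P.cons (P.lf 218112 0 0) P.nil))))) (P.cons (P.cons (P.lf 328398852 0 0) (P.cons (P.lf 56354607 0 0) (P.cons (P.lf 1178295 0 0) (P.cons (P.lf 0 1917270 0) P.nil)))) (P.cons (P.cons (P.lf 0 66772977 0) (P.cons (P.lf 0 24253569 0) (P.cons (P.lf 0 639702 0) P.nil))) (P.cons (P.cons (P.lf 0 31597068 0) (P.cons (P.lf 0 227037 0) P.nil)) (P.cons (P.cons (P.lf 11344938 0 0) P.nil) P.nil)))))) 12140652)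
 (EL.cons 8 (TM.mk (P.cons (P.cons (P.lf 0 875268564 0) (P.cons (P.lf 0 34238640 0) (P.cons (P.lf 5394543 0 0) (P.cons (P.lf 347796 0 0) (P.cons (P.lf 0 124533 0) (P.cons (P.lf 9252 0 0) P.nil)))))) (P.cons (P.cons (P.lf 0 416214234 0) (P.cons (P.lf 0 48621096 0) (P.cons (P.lf 0 2154195 0) (P.cons (P.lf 1806279 0 0) (P.cons (P.lf 216744 0 0) P.nil))))) (P.cons (P.cons (P.lf 277797933 0 0) (P.cons (P.lf 50594661 0 0) (P.cons (P.lf 117642 0 0) (P.cons (P.lf 0 1595586 0) P.nil)))) (P.cons (P.cons (P.lf 61870188 0 0) (P.cons (P.lf 0 4121568 0) (P.cons (P.lf 0 535608 0) P.nil))) (P.cons (P.cons (P.lf 0 32667693 0) (P.cons (P.lf 0 6150978 0) P.nil)) (P.cons (P.cons (P.lf 0 755274 0) P.nil) P.nil)))))) 8549400)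
 (EL.cons 11 (TM.mk (P.cons (P.cons (P.lf 201053553 0 0) (P.cons (P.lf 0 39800571 0) (P.cons (P.lf 0 13074024 0) (P.cons (P.lf 1317888 0 0) (P.cons (P.lf 44223 0 0) (P.cons (P.lf 0 18897 0) P.nil)))))) (P.cons (P.cons (P.lf 0 32800269 0) (P.cons (P.lf 21655473 0 0) (P.cons (P.lf 0 1228305 0) (P.cons (P.lf 0 1526913 0) (P.cons (P.lf 163512 0 0) P.nil))))) (P.cons (P.cons (P.lf 0 80550927 0) (P.cons (P.lf 0 443718 0) (P.cons (P.lf 8871318 0 0) (P.cons (P.lf 890094 0 0) P.nil)))) (P.cons (P.cons (P.lf 31570836 0 0) (P.cons (P.lf 162666 0 0) (P.cons (P.lf 0 3474498 0) P.nil))) (P.cons (P.cons (P.lf 0 3210 0) (P.cons (P.lf 0 869559 0) P.nil)) (P.cons (P.cons (P.lf 0 1795200 0) P.nil) P.nil)))))) 3503571)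
 EL.nil)))
noncomputable def S372_430_512_660_23 : EL := (EL.cons 4 (TM.mk (P.cons (P.cons (P.lf 0 1524682341 0) (P.cons (P.lf 0 125409390 0) (P.cons (P.lf 8384577 0 0) (P.lf 2794851 0 0)))) (P.cons (P.cons (P.lf 774870612 0 0) (P.cons (P.lf 122383845 0 0) (P.cons (P.lf 0 8182296 0) (P.lf 0 2727426 0)))) (P.cons (P.cons (P.lf 137155932 0 0) (P.cons (P.lf 0 28063278 0) (P.cons (P.lf 1876236 0 0) (P.lf 625410 0 0)))) (P.cons (P.cons (P.lf 0 117472140 0) (P.cons (P.lf 0 7534002 0) (P.cons (P.lf 503703 0 0) P.nil))) (P.cons (P.cons (P.lf 6867765 0 0) (P.cons (P.lf 3971013 0 0) P.nil)) (P.cons (P.cons (P.lf 5203356 0 0) P.nil) P.nil)))))) 4606089)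
 (EL.cons 8 (TM.mk (P.cons (P.cons (P.lf 0 1922356188 0) (P.cons (P.lf 0 158119191 0) (P.cons (P.lf 10571481 0 0) (P.lf 3523827 0 0)))) (P.cons (P.cons (P.lf 77693484 0 0) (P.cons (P.lf 80336037 0 0) (P.cons (P.lf 0 5371080 0) (P.lf 0 1790361 0)))) (P.cons (P.cons (P.lf 337649979 0 0) (P.cons (P.lf 12757722 0 0) (P.cons (P.lf 0 852948 0) (P.lf 0 284316 0)))) (P.cons (P.cons (P.lf 0 21021825 0) (P.cons (P.lf 0 11007663 0) (P.cons (P.lf 735942 0 0) P.nil))) (P.cons (P.cons (P.lf 0 17550633 0) (P.cons (P.lf 500724 0 0) P.nil)) (P.cons (P.cons (P.lf 3029250 0 0) P.nil) P.nil)))))) 2653515)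
 (EL.cons 11 (TM.mk (P.cons (P.cons (P.lf 441574800 0 0) (P.cons (P.lf 0 68366868 0) (P.cons (P.lf 0 32937000 0) (P.cons (P.lf 1246431 0 0) (P.lf 311604 0 0))))) (P.cons (P.cons (P.lf 0 299866902 0) (P.cons (P.lf 46426926 0 0) (P.cons (P.lf 22367025 0 0) (P.cons (P.lf 0 846432 0) (P.lf 0 211605 0))))) (P.cons (P.cons (P.lf 31181865 0 0) (P.cons (P.lf 0 4827735 0) (P.cons (P.lf 0 2325849 0) (P.cons (P.lf 88014 0 0) P.nil)))) (P.cons (P.cons (P.lf 15183654 0 0) (P.cons (P.lf 0 2350809 0) (P.cons (P.lf 0 1132545 0) P.nil))) (P.cons (P.cons (P.lf 0 3493044 0) (P.cons (P.lf 540810 0 0) P.nil)) (P.cons (P.cons (P.lf 85491 0 0) P.nil) P.nil)))))) 683802)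
 EL.nil)))
noncomputable def S372_430_512_660_24 : EL := (EL.cons 4 (TM.mk (P.cons (P.cons (P.lf 0 561307083 0) (P.cons (P.lf 0 21957132 0) (P.cons (P.lf 3459501 0 0) (P.cons (P.lf 223038 0 0) (P.cons (P.lf 0 79860 0) (P.cons (P.lf 5934 0 0) P.nil)))))) (P.cons (P.cons (P.lf 0 52331634 0) (P.cons (P.lf 0 22786443 0) (P.cons (P.lf 0 2704032 0) (P.cons (P.lf 1073091 0 0) (P.cons (P.lf 169527 0 0) P.nil))))) (P.cons (P.cons (P.lf 277082034 0 0) (P.cons (P.lf 44244735 0 0) (P.cons (P.lf 622743 0 0) (P.cons (P.lf 0 1464843 0) P.nil)))) (P.cons (P.cons (P.lf 0 32008920 0) (P.cons (P.lf 0 15302139 0) (P.cons (P.lf 0 367035 0) P.nil))) (P.cons (P.cons (P.lf 0 35853831 0) (P.cons (P.lf 0 2860254 0) P.nil)) (P.cons (P.cons (P.lf 8534973 0 0) P.nil) P.nil)))))) 11369037)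
 (EL.cons 8 (TM.mk (P.cons (P.cons (P.lf 0 707709477 0) (P.cons (P.lf 0 27684087 0) (P.cons (P.lf 4361826 0 0) (P.cons (P.lf 281214 0 0) (P.cons (P.lf 0 100692 0) (P.cons (P.lf 7482 0 0) P.nil)))))) (P.cons (P.cons (P.lf 0 397048881 0) (P.cons (P.lf 0 41680365 0) (P.cons (P.lf 0 1368837 0) (P.cons (P.lf 1484535 0 0) (P.cons (P.lf 166641 0 0) P.nil))))) (P.cons (P.cons (P.lf 210872418 0 0) (P.cons (P.lf 38135418 0 0) (P.cons (P.lf 0 146454 0) (P.cons (P.lf 0 1171224 0) P.nil)))) (P.cons (P.cons (P.lf 75351720 0 0) (P.cons (P.lf 960189 0 0) (P.cons (P.lf 0 381609 0) P.nil))) (P.cons (P.cons (P.lf 0 27450348 0) (P.cons (P.lf 0 6186522 0) P.nil)) (P.cons (P.cons (P.lf 0 3613296 0) P.nil) P.nil)))))) 7699152)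
 (EL.cons 11 (TM.mk (P.cons (P.cons (P.lf 162564396 0 0) (P.cons (P.lf 0 32181255 0) (P.cons (P.lf 0 10571169 0) (P.cons (P.lf 1065597 0 0) (P.cons (P.lf 35757 0 0) (P.cons (P.lf 0 15279 0) P.nil)))))) (P.cons (P.cons (P.lf 0 12620799 0) (P.cons (P.lf 14758107 0 0) (P.cons (P.lf 0 1897062 0) (P.cons (P.lf 0 1143489 0) (P.cons (P.lf 135267 0 0) P.nil))))) (P.cons (P.cons (P.lf 0 70850943 0) (P.cons (P.lf 1821930 0 0) (P.cons (P.lf 7312620 0 0) (P.cons (P.lf 591498 0 0) P.nil)))) (P.cons (P.cons (P.lf 20757396 0 0) (P.cons (P.lf 0 317796 0) (P.cons (P.lf 0 2190276 0) P.nil))) (P.cons (P.cons (P.lf 3537411 0 0) (P.cons (P.lf 0 661260 0) P.nil)) (P.cons (P.cons (P.lf 0 2094720 0) P.nil) P.nil)))))) 3254469)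
 EL.nil)))
noncomputable def S372_430_512_660_25 : EL := (EL.cons 4 (TM.mk (P.cons (P.cons (P.lf 0 1232801211 0) (P.cons (P.lf 0 101401350 0) (P.cons (P.lf 6779454 0 0) (P.lf 2259810 0 0)))) (P.cons (P.cons (P.lf 521119218 0 0) (P.cons (P.lf 90284556 0 0) (P.cons (P.lf 0 6036213 0) (P.lf 0 2012067 0)))) (P.cons (P.cons (P.lf 190655370 0 0) (P.cons (P.lf 0 12075951 0) (P.cons (P.lf 807363 0 0) (P.lf 269121 0 0)))) (P.cons (P.cons (P.lf 0 100599087 0) (P.cons (P.lf 0 10280976 0) (P.cons (P.lf 687360 0 0) P.nil))) (P.cons (P.cons (P.lf 0 4108614 0) (P.cons (P.lf 3307839 0 0) P.nil)) (P.cons (P.cons (P.lf 6940047 0 0) P.nil) P.nil)))))) 4889958)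
 (EL.cons 8 (TM.mk (P.cons (P.cons (P.lf 0 1554345435 0) (P.cons (P.lf 0 127849272 0) (P.cons (P.lf 8547705 0 0) (P.lf 2849235 0 0)))) (P.cons (P.cons (P.lf 0 70086219 0) (P.cons (P.lf 54024804 0 0) (P.cons (P.lf 0 3611973 0) (P.lf 0 1203990 0)))) (P.cons (P.cons (P.lf 311395890 0 0) (P.cons (P.lf 18585054 0 0) (P.cons (P.lf 0 1242549 0) (P.lf 0 414183 0)))) (P.cons (P.cons (P.lf 2754333 0 0) (P.cons (P.lf 0 9583725 0) (P.cons (P.lf 640743 0 0) P.nil))) (P.cons (P.cons (P.lf 0 21470919 0) (P.cons (P.lf 0 490719 0) P.nil)) (P.cons (P.cons (P.lf 2037930 0 0) P.nil) P.nil)))))) 3162588)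
 (EL.cons 11 (TM.mk (P.cons (P.cons (P.lf 357040896 0 0) (P.cons (P.lf 0 55278897 0) (P.cons (P.lf 0 26631627 0) (P.cons (P.lf 1007817 0 0) (P.lf 251952 0 0))))) (P.cons (P.cons (P.lf 0 211931949 0) (P.cons (P.lf 32812386 0 0) (P.cons (P.lf 15807969 0 0) (P.cons (P.lf 0 598218 0) (P.lf 0 149553 0))))) (P.cons (P.cons (P.lf 0 3102756 0) (P.cons (P.lf 480384 0 0) (P.cons (P.lf 231435 0 0) (P.cons (P.lf 0 8757 0) P.nil)))) (P.cons (P.cons (P.lf 20101167 0 0) (P.cons (P.lf 0 3112164 0) (P.cons (P.lf 0 1499340 0) P.nil))) (P.cons (P.cons (P.lf 0 2634891 0) (P.cons (P.lf 407946 0 0) P.nil)) (P.cons (P.cons (P.lf 0 424209 0) P.nil) P.nil)))))) 898140)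
 EL.nil)))
noncomputable def S372_430_512_660_26 : EL := (EL.cons 4 (TM.mk (P.cons (P.cons (P.lf 0 453851949 0) (P.cons (P.lf 0 17753718 0) (P.cons (P.lf 2797224 0 0) (P.cons (P.lf 180339 0 0) (P.cons (P.lf 0 64572 0) (P.cons (P.lf 4797 0 0) P.nil)))))) (P.cons (P.cons (P.lf 0 81120591 0) (P.cons (P.lf 0 19942320 0) (P.cons (P.lf 0 1947198 0) (P.cons (P.lf 883080 0 0) (P.cons (P.lf 131553 0 0) P.nil))))) (P.cons (P.cons (P.lf 230059626 0 0) (P.cons (P.lf 34576326 0 0) (P.cons (P.lf 257166 0 0) (P.cons (P.lf 0 1114059 0) P.nil)))) (P.cons (P.cons (P.lf 0 6485184 0) (P.cons (P.lf 0 8948256 0) (P.cons (P.lf 0 203214 0) P.nil))) (P.cons (P.cons (P.lf 0 36057837 0) (P.cons (P.lf 0 4158600 0) P.nil)) (P.cons (P.cons (P.lf 5305692 0 0) P.nil) P.nil)))))) 11068245)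
 (EL.cons 8 (TM.mk (P.cons (P.cons (P.lf 0 572227458 0) (P.cons (P.lf 0 22384317 0) (P.cons (P.lf 3526809 0 0) (P.cons (P.lf 227379 0 0) (P.cons (P.lf 0 81414 0) (P.cons (P.lf 6048 0 0) P.nil)))))) (P.cons (P.cons (P.lf 0 369967932 0) (P.cons (P.lf 0 35615187 0) (P.cons (P.lf 0 805227 0) (P.cons (P.lf 1219782 0 0) (P.cons (P.lf 127779 0 0) P.nil))))) (P.cons (P.cons (P.lf 155206437 0 0) (P.cons (P.lf 28428639 0 0) (P.cons (P.lf 0 287961 0) (P.cons (P.lf 0 849201 0) P.nil)))) (P.cons (P.cons (P.lf 81493035 0 0) (P.cons (P.lf 4096218 0 0) (P.cons (P.lf 0 290046 0) P.nil))) (P.cons (P.cons (P.lf 0 21117465 0) (P.cons (P.lf 0 5641398 0) P.nil)) (P.cons (P.cons (P.lf 0 5875869 0) P.nil) P.nil)))))) 7395030)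
 (EL.cons 11 (TM.mk (P.cons (P.cons (P.lf 131443500 0 0) (P.cons (P.lf 0 26020560 0) (P.cons (P.lf 0 8547453 0) (P.cons (P.lf 861600 0 0) (P.cons (P.lf 28911 0 0) (P.cons (P.lf 0 12354 0) P.nil)))))) (P.cons (P.cons (P.lf 1034532 0 0) (P.cons (P.lf 9707934 0 0) (P.cons (P.lf 0 2264754 0) (P.cons (P.lf 0 850911 0) (P.cons (P.lf 111843 0 0) P.nil))))) (P.cons (P.cons (P.lf 0 60951762 0) (P.cons (P.lf 3046137 0 0) (P.cons (P.lf 5963094 0 0) (P.cons (P.lf 380904 0 0) P.nil)))) (P.cons (P.cons (P.lf 12292920 0 0) (P.cons (P.lf 0 422244 0) (P.cons (P.lf 0 1245240 0) P.nil))) (P.cons (P.cons (P.lf 5507346 0 0) (P.cons (P.lf 0 572595 0) P.nil)) (P.cons (P.cons (P.lf 0 1892970 0) P.nil) P.nil)))))) 3289620)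
 EL.nil)))
noncomputable def S372_430_512_660_27 : EL := (EL.cons 13 (TM.mk (P.lf 0 4294967296 0) 0)
 EL.nil)
noncomputable def S372_430_512_660_28 : EL := (EL.cons 13 (TM.mk (P.cons (P.cons (P.lf 0 1581178914 0) (P.cons (P.lf 68204052 0 0) (P.cons (P.lf 0 4559964 0) (P.lf 0 1519984 0)))) (P.cons (P.cons (P.lf 0 950999234 0) (P.cons (P.lf 0 78222352 0) (P.cons (P.lf 5229764 0 0) (P.lf 1743252 0 0)))) (P.cons (P.cons (P.lf 154975789 0 0) (P.cons (P.lf 31037804 0 0) (P.cons (P.lf 0 2075112 0) (P.lf 0 691704 0)))) (P.cons (P.cons (P.lf 24869576 0 0) (P.cons (P.lf 0 3911784 0) (P.cons (P.lf 261532 0 0) P.nil))) (P.cons (P.cons (P.lf 0 8269092 0) (P.cons (P.lf 0 514196 0) P.nil)) (P.cons (P.cons (P.lf 457112 0 0) P.nil) P.nil)))))) 698342)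
 EL.nil)
noncomputable def S372_430_512_660_29 : EL := (EL.cons 13 (TM.mk (P.cons (P.cons (P.lf 0 582106122 0) (P.cons (P.lf 50218221 0 0) (P.cons (P.lf 0 4440553 0) (P.cons (P.lf 0 974330 0) (P.cons (P.lf 43433 0 0) (P.cons (P.lf 0 3227 0) P.nil)))))) (P.cons (P.cons (P.lf 0 700214847 0) (P.cons (P.lf 0 27390910 0) (P.cons (P.lf 4315633 0 0) (P.cons (P.lf 278236 0 0) (P.cons (P.lf 0 99626 0) P.nil))))) (P.cons (P.cons (P.lf 0 96464213 0) (P.cons (P.lf 0 16709348 0) (P.cons (P.lf 0 1293239 0) (P.cons (P.lf 694687 0 0) P.nil)))) (P.cons (P.cons (P.lf 86941339 0 0) (P.cons (P.lf 15719822 0 0) (P.cons (P.lf 203804 0 0) P.nil))) (P.cons (P.cons (P.lf 0 667159 0) (P.cons (P.lf 0 3182285 0) P.nil)) (P.cons (P.cons (P.lf 0 5120088 0) P.nil) P.nil)))))) 5358934)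
 EL.nil)
noncomputable def S372_430_512_660_30 : EL := (EL.cons 13 (TM.mk (P.cons (P.lf 0 3472750184 0) (P.cons (P.lf 0 296941892 0) (P.cons (P.lf 73758800 0 0) (P.cons (P.lf 0 5045120 0) (P.cons (P.lf 0 266856 0) (P.cons (P.lf 88316 0 0) P.nil)))))) 15692)
 EL.nil)
noncomputable def S372_430_512_660_31 : EL := (EL.cons 13 (TM.mk (P.cons (P.cons (P.lf 0 1278482229 0) (P.cons (P.lf 55147249 0 0) (P.cons (P.lf 0 3687016 0) (P.lf 0 1229002 0)))) (P.cons (P.cons (P.lf 0 878260709 0) (P.cons (P.lf 0 58532237 0) (P.cons (P.lf 3913328 0 0) (P.lf 1304441 0 0)))) (P.cons (P.cons (P.lf 86712312 0 0) (P.cons (P.lf 18516647 0 0) (P.cons (P.lf 0 1237977 0) (P.lf 0 412659 0)))) (P.cons (P.cons (P.lf 45297656 0 0) (P.cons (P.lf 406396 0 0) (P.cons (P.lf 0 27171 0) P.nil))) (P.cons (P.cons (P.lf 0 8843455 0) (P.cons (P.lf 0 1306878 0) P.nil)) (P.cons (P.cons (P.lf 0 473721 0) P.nil)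 P.nil)))))) 1219296)
 EL.nil)
noncomputable def S372_430_512_660_32 : EL := (EL.cons 13 (TM.mk (P.cons (P.cons (P.lf 0 470669274 0) (P.cons (P.lf 40604578 0 0) (P.cons (P.lf 0 3590465 0) (P.cons (P.lf 0 787806 0) (P.cons (P.lf 35118 0 0) (P.cons (P.lf 0 2609 0) P.nil)))))) (P.cons (P.cons (P.lf 0 606412750 0) (P.cons (P.lf 0 18675321 0) (P.cons (P.lf 3182452 0 0) (P.cons (P.lf 157608 0 0) (P.cons (P.lf 0 77551 0) P.nil))))) (P.cons (P.cons (P.lf 0 116411546 0) (P.cons (P.lf 0 16266697 0) (P.cons (P.lf 0 671035 0) (P.cons (P.lf 597666 0 0) P.nil)))) (P.cons (P.cons (P.lf 74969487 0 0) (P.cons (P.lf 12084605 0 0) (P.cons (P.lf 0 3952 0) P.nil))) (P.cons (P.cons (P.lf 6269367 0 0) (P.cons (P.lf 0 1228352 0) P.nil)) (P.cons (P.cons (P.lf 0 5823956 0) P.nil) P.nil)))))) 6117691)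
 EL.nil)
noncomputable def S372_430_512_660_33 : EL := (EL.cons 14 (TM.mk (P.lf 8589934592 0 0) 0)
 EL.nil)
noncomputable def S372_430_512_660_34 : EL := (EL.cons 14 (TM.mk (P.cons (P.cons (P.lf 3162357828 0 0) (P.cons (P.lf 0 136408104 0) (P.cons (P.lf 9119928 0 0) (P.lf 3039968 0 0)))) (P.cons (P.cons (P.lf 1901998468 0 0) (P.cons (P.lf 156444704 0 0) (P.cons (P.lf 0 10459528 0) (P.lf 0 3486504 0)))) (P.cons (P.cons (P.lf 0 309951578 0) (P.cons (P.lf 0 62075608 0) (P.cons (P.lf 4150224 0 0) (P.lf 1383408 0 0)))) (P.cons (P.cons (P.lf 0 49739152 0) (P.cons (P.lf 7823568 0 0) (P.cons (P.lf 0 523064 0) P.nil))) (P.cons (P.cons (P.lf 16538184 0 0) (P.cons (P.lf 1028392 0 0) P.nil)) (P.cons (P.cons (P.lf 0 914224 0) P.nil) P.nil)))))) 1396684)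
 EL.nil)
noncomputable def S372_430_512_660_35 : EL := (EL.cons 14 (TM.mk (P.cons (P.cons (P.lf 1164212244 0 0) (P.cons (P.lf 0 100436442 0) (P.cons (P.lf 8881106 0 0) (P.cons (P.lf 1948660 0 0) (P.cons (P.lf 0 86866 0) (P.cons (P.lf 6454 0 0) P.nil)))))) (P.cons (P.cons (P.lf 1400429694 0 0) (P.cons (P.lf 54781820 0 0) (P.cons (P.lf 0 8631266 0) (P.cons (P.lf 0 556472 0) (P.cons (P.lf 199252 0 0) P.nil))))) (P.cons (P.cons (P.lf 192928426 0 0) (P.cons (P.lf 33418696 0 0) (P.cons (P.lf 2586478 0 0) (P.cons (P.lf 0 1389374 0) P.nil)))) (P.cons (P.cons (P.lf 0 173882678 0) (P.cons (P.lf 0 31439644 0) (P.cons (P.lf 0 407608 0) P.nil))) (P.cons (P.cons (P.lf 1334318 0 0) (P.cons (P.lf 6364570 0 0) P.nil)) (P.cons (P.cons (P.lf 10240176 0 0) P.nil) P.nil)))))) 10717868)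
 EL.nil)
noncomputable def S372_430_512_660_36 : EL := (EL.cons 14 (TM.mk (P.cons (P.lf 6945500368 0 0) (P.cons (P.lf 593883784 0 0) (P.cons (P.lf 0 147517600 0) (P.cons (P.lf 10090240 0 0) (P.cons (P.lf 533712 0 0) (P.cons (P.lf 0 176632 0) P.nil)))))) 31384)
 EL.nil)
noncomputable def S372_430_512_660_37 : EL := (EL.cons 14 (TM.mk (P.cons (P.cons (P.lf 2556964458 0 0) (P.cons (P.lf 0 110294498 0) (P.cons (P.lf 7374032 0 0) (P.lf 2458004 0 0)))) (P.cons (P.cons (P.lf 1756521418 0 0) (P.cons (P.lf 117064474 0 0) (P.cons (P.lf 0 7826656 0) (P.lf 0 2608882 0)))) (P.cons (P.cons (P.lf 0 173424624 0) (P.cons (P.lf 0 37033294 0) (P.cons (P.lf 2475954 0 0) (P.lf 825318 0 0)))) (P.cons (P.cons (P.lf 0 90595312 0) (P.cons (P.lf 0 812792 0) (P.cons (P.lf 54342 0 0) P.nil))) (P.cons (P.cons (P.lf 17686910 0 0) (P.cons (P.lf 2613756 0 0) P.nil)) (P.cons (P.cons (P.lf 947442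 0 0) P.nil) P.nil)))))) 2438592)
 EL.nil)
noncomputable def S372_430_512_660_38 : EL := (EL.cons 14 (TM.mk (P.cons (P.cons (P.lf 941338548 0 0) (P.cons (P.lf 0 81209156 0) (P.cons (P.lf 7180930 0 0) (P.cons (P.lf 1575612 0 0) (P.cons (P.lf 0 70236 0) (P.cons (P.lf 5218 0 0) P.nil)))))) (P.cons (P.cons (P.lf 1212825500 0 0) (P.cons (P.lf 37350642 0 0) (P.cons (P.lf 0 6364904 0) (P.cons (P.lf 0 315216 0) (P.cons (P.lf 155102 0 0) P.nil))))) (P.cons (P.cons (P.lf 232823092 0 0) (P.cons (P.lf 32533394 0 0) (P.cons (P.lf 1342070 0 0) (P.cons (P.lf 0 1195332 0) P.nil)))) (P.cons (P.cons (P.lf 0 149938974 0) (P.cons (P.lf 0 24169210 0) (P.cons (P.lf 7904 0 0) P.nil))) (P.cons (P.cons (P.lf 0 12538734 0) (P.cons (P.lf 2456704 0 0) P.nil)) (P.cons (P.cons (P.lf 11647912 0 0) P.nil) P.nil)))))) 12235382)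
 EL.nil)
noncomputable def S372_430_512_660_39 : EL := (EL.cons 14 (TM.mk (P.cons (P.lf 5615872256 0 0) (P.cons (P.lf 960384504 0 0) (P.cons (P.lf 0 197495000 0) (P.cons (P.lf 0 4080716 0) (P.cons (P.lf 4791664 0 0) (P.cons (P.lf 0 558402 0) P.nil)))))) 118664)
 EL.nil)
noncomputable def S372_430_512_660_40 : EL := (EL.cons 14 (TM.mk (P.cons (P.cons (P.lf 2067465984 0 0) (P.cons (P.lf 0 89180012 0) (P.cons (P.lf 5962366 0 0) (P.lf 1987450 0 0)))) (P.cons (P.cons (P.lf 1597038922 0 0) (P.cons (P.lf 87028514 0 0) (P.cons (P.lf 0 5818522 0) (P.lf 0 1939504 0)))) (P.cons (P.cons (P.lf 0 62695292 0) (P.cons (P.lf 0 19956110 0) (P.cons (P.lf 1334214 0 0) (P.lf 444738 0 0)))) (P.cons (P.cons (P.lf 0 112403798 0) (P.cons (P.lf 0 5357514 0) (P.cons (P.lf 358190 0 0) P.nil))) (P.cons (P.cons (P.lf 13237928 0 0) (P.cons (P.lf 2823832 0 0) P.nil)) (P.cons (P.cons (P.lf 3397554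 0 0) P.nil) P.nil)))))) 3043752)
 EL.nil)
noncomputable def S372_430_512_660_41 : EL := (EL.cons 14 (TM.mk (P.cons (P.cons (P.lf 761131202 0 0) (P.cons (P.lf 0 65662690 0) (P.cons (P.lf 5806232 0 0) (P.cons (P.lf 1273982 0 0) (P.cons (P.lf 0 56790 0) (P.cons (P.lf 4218 0 0) P.nil)))))) (P.cons (P.cons (P.lf 1045726898 0 0) (P.cons (P.lf 24585762 0 0) (P.cons (P.lf 0 4649954 0) (P.cons (P.lf 0 145938 0) (P.cons (P.lf 120552 0 0) P.nil))))) (P.cons (P.cons (P.lf 255937486 0 0) (P.cons (P.lf 30282236 0 0) (P.cons (P.lf 521776 0 0) (P.cons (P.lf 0 1015354 0) P.nil)))) (P.cons (P.cons (P.lf 0 124860800 0) (P.cons (P.lf 0 18029882 0) (P.cons (P.lf 216920 0 0) P.nil))) (P.cons (P.cons (P.lf 0 23019908 0) (P.cons (P.lf 0 204468 0) P.nil)) (P.cons (P.cons (P.lf 11455610 0 0) P.nil) P.nil)))))) 12400368)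
 EL.nil)
noncomputable def S372_430_512_660_42 : EL := (EL.cons 14 (TM.mk (P.cons (P.lf 4540784612 0 0) (P.cons (P.lf 1164796574 0 0) (P.cons (P.lf 0 189731922 0) (P.cons (P.lf 0 26850006 0) (P.cons (P.lf 8460924 0 0) (P.cons (P.lf 0 337936 0) P.nil)))))) 309558)
 EL.nil)
noncomputable def S372_430_512_660_43 : EL := (EL.cons 14 (TM.mk (P.cons (P.cons (P.lf 1671675796 0 0) (P.cons (P.lf 0 72107628 0) (P.cons (P.lf 4820948 0 0) (P.lf 1606978 0 0)))) (P.cons (P.cons (P.lf 1434244790 0 0) (P.cons (P.lf 64202352 0 0) (P.cons (P.lf 0 4292418 0) (P.lf 0 1430804 0)))) (P.cons (P.cons (P.lf 24216448 0 0) (P.cons (P.lf 0 8587344 0) (P.cons (P.lf 574126 0 0) (P.lf 191376 0 0)))) (P.cons (P.cons (P.lf 0 120217964 0) (P.cons (P.lf 0 7310918 0) (P.cons (P.lf 488790 0 0) P.nil))) (P.cons (P.cons (P.lf 6013530 0 0) (P.cons (P.lf 2352242 0 0) P.nil)) (P.cons (P.cons (P.lf 5575784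 0 0) P.nil) P.nil)))))) 3724636)
 EL.nil)
noncomputable def S372_430_512_660_44 : EL := (EL.cons 14 (TM.mk (P.cons (P.cons (P.lf 615422268 0 0) (P.cons (P.lf 0 53092400 0) (P.cons (P.lf 4694702 0 0) (P.cons (P.lf 1030094 0 0) (P.cons (P.lf 0 45918 0) (P.cons (P.lf 3410 0 0) P.nil)))))) (P.cons (P.cons (P.lf 898158182 0 0) (P.cons (P.lf 15339396 0 0) (P.cons (P.lf 0 3358352 0) (P.cons (P.lf 0 29920 0) (P.cons (P.lf 93548 0 0) P.nil))))) (P.cons (P.cons (P.lf 266168954 0 0) (P.cons (P.lf 27312520 0 0) (P.cons (P.lf 690 0 0) (P.cons (P.lf 0 852944 0) P.nil)))) (P.cons (P.cons (P.lf 0 100327508 0) (P.cons (P.lf 0 12984010 0) (P.cons (P.lf 298142 0 0) P.nil))) (P.cons (P.cons (P.lf 0 30365190 0) (P.cons (P.lf 0 1907106 0) P.nil)) (P.cons (P.cons (P.lf 10165282 0 0) P.nil) P.nil)))))) 12697892)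
 EL.nil)
noncomputable def S372_430_512_660_45 : EL := (EL.cons 14 (TM.mk (P.cons (P.cons (P.lf 428601132 0 0) (P.cons (P.lf 0 55463046 0) (P.cons (P.lf 6100524 0 0) (P.cons (P.lf 881740 0 0) (P.cons (P.lf 0 89038 0) (P.cons (P.lf 8966 0 0) P.nil)))))) (P.cons (P.cons (P.lf 773345784 0 0) (P.cons (P.lf 0 3106584 0) (P.cons (P.lf 0 3841010 0) (P.cons (P.lf 728958 0 0) (P.cons (P.lf 138620 0 0) P.nil))))) (P.cons (P.cons (P.lf 339103214 0 0) (P.cons (P.lf 42085404 0 0) (P.cons (P.lf 0 1024478 0) (P.cons (P.lf 0 1359858 0) P.nil)))) (P.cons (P.cons (P.lf 0 78568932 0) (P.cons (P.lf 0 8354868 0) (P.cons (P.lf 1489396 0 0) P.nil))) (P.cons (P.cons (P.lf 0 50839234 0) (P.cons (P.lf 0 9502130 0) P.nil)) (P.cons (P.cons (P.lf 11794768 0 0) P.nil) P.nil)))))) 22099130)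
 EL.nil)
noncomputable def S372_430_512_660_46 : EL := (EL.cons 15 (TM.mk (P.lf 4294967296 0 0) 0)
 EL.nil)
noncomputable def S372_430_512_660_47 : EL := (EL.cons 15 (TM.mk (P.cons (P.cons (P.lf 1581178914 0 0) (P.cons (P.lf 0 68204052 0) (P.cons (P.lf 4559964 0 0) (P.lf 1519984 0 0)))) (P.cons (P.cons (P.lf 950999234 0 0) (P.cons (P.lf 78222352 0 0) (P.cons (P.lf 0 5229764 0) (P.lf 0 1743252 0)))) (P.cons (P.cons (P.lf 0 154975789 0) (P.cons (P.lf 0 31037804 0) (P.cons (P.lf 2075112 0 0) (P.lf 691704 0 0)))) (P.cons (P.cons (P.lf 0 24869576 0) (P.cons (P.lf 3911784 0 0) (P.cons (P.lf 0 261532 0) P.nil))) (P.cons (P.cons (P.lf 8269092 0 0) (P.cons (P.lf 514196 0 0) P.nil)) (P.cons (P.cons (P.lf 0 457112 0) P.nil) P.nil)))))) 698342)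
 EL.nil)
noncomputable def S372_430_512_660_48 : EL := (EL.cons 15 (TM.mk (P.cons (P.cons (P.lf 582106122 0 0) (P.cons (P.lf 0 50218221 0) (P.cons (P.lf 4440553 0 0) (P.cons (P.lf 974330 0 0) (P.cons (P.lf 0 43433 0) (P.cons (P.lf 3227 0 0) P.nil)))))) (P.cons (P.cons (P.lf 700214847 0 0) (P.cons (P.lf 27390910 0 0) (P.cons (P.lf 0 4315633 0) (P.cons (P.lf 0 278236 0) (P.cons (P.lf 99626 0 0) P.nil))))) (P.cons (P.cons (P.lf 96464213 0 0) (P.cons (P.lf 16709348 0 0) (P.cons (P.lf 1293239 0 0) (P.cons (P.lf 0 694687 0) P.nil)))) (P.cons (P.cons (P.lf 0 86941339 0) (P.cons (P.lf 0 15719822 0) (P.cons (P.lf 0 203804 0) P.nil))) (P.cons (P.cons (P.lf 667159 0 0) (P.cons (P.lf 3182285 0 0) P.nil)) (P.cons (P.cons (P.lf 5120088 0 0) P.nil) P.nil)))))) 5358934)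
 EL.nil)
noncomputable def S372_430_512_660 : SL := (SL.cons S372_430_512_660_0 (SL.cons S372_430_512_660_1 (SL.cons S372_430_512_660_2 (SL.cons S372_430_512_660_3 (SL.cons S372_430_512_660_4 (SL.cons S372_430_512_660_5 (SL.cons S372_430_512_660_6 (SL.cons S372_430_512_660_7 (SL.cons S372_430_512_660_8 (SL.cons S372_430_512_660_9 (SL.cons S372_430_512_660_10 (SL.cons S372_430_512_660_11 (SL.cons S372_430_512_660_12 (SL.cons S372_430_512_660_13 (SL.cons S372_430_512_660_14 (SL.cons S372_430_512_660_15 (SL.cons S372_430_512_660_16 (SL.cons S372_430_512_660_17 (SL.cons S372_430_512_660_18 (SL.cons S372_430_512_660_19 (SL.cons S372_430_512_660_20 (SL.cons S372_430_512_660_21 (SL.cons S372_430_512_660_22 (SL.cons S372_430_512_660_23 (SL.cons S372_430_512_660_24 (SL.cons S372_430_512_660_25 (SL.cons S372_430_512_660_26 (SL.cons S372_430_512_660_27 (SL.cons S372_430_512_660_28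 (SL.cons S372_430_512_660_29 (SL.cons S372_430_512_660_30 (SL.cons S372_430_512_660_31 (SL.cons S372_430_512_660_32 (SL.cons S372_430_512_660_33 (SL.cons S372_430_512_660_34 (SL.cons S372_430_512_660_35 (SL.cons S372_430_512_660_36 (SL.cons S372_430_512_660_37 (SL.cons S372_430_512_660_38 (SL.cons S372_430_512_660_39 (SL.cons S372_430_512_660_40 (SL.cons S372_430_512_660_41 (SL.cons S372_430_512_660_42 (SL.cons S372_430_512_660_43 (SL.cons S372_430_512_660_44 (SL.cons S372_430_512_660_45 (SL.cons S372_430_512_660_46 (SL.cons S372_430_512_660_47 (SL.cons S372_430_512_660_48 SL.nil)))))))))))))))))))))))))))))))))))))))))))))))))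
noncomputable def S372_430_660_808_0 : EL := (EL.cons 0 (TM.mk (P.cons (P.lf 3519891639 0 0) (P.cons (P.lf 0 844087942 0) (P.cons (P.lf 173579589 0 0) (P.cons (P.lf 3586566 0 0) (P.cons (P.lf 0 4211423 0) (P.cons (P.lf 490783 0 0) P.nil)))))) 104301)
 (EL.cons 1 (TM.mk (P.cons (P.lf 1391915122 0 0) (P.cons (P.lf 0 413105733 0) (P.cons (P.lf 0 67350723 0) (P.cons (P.lf 19192974 0 0) (P.cons (P.lf 0 1069213 0) (P.cons (P.lf 0 215523 0) P.nil)))))) 64748)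
 (EL.cons 5 (TM.mk (P.cons (P.lf 6049927380 0 0) (P.cons (P.lf 300120158 0 0) (P.cons (P.lf 0 61717188 0) (P.cons (P.lf 0 1275220 0) (P.cons (P.lf 1497396 0 0) (P.cons (P.lf 0 174500 0) P.nil)))))) 24617)
 (EL.cons 9 (TM.mk (P.lf 6442450944 0 0) 2)
 EL.nil))))
noncomputable def S372_430_660_808_1 : EL := (EL.cons 0 (TM.mk (P.cons (P.cons (P.lf 4433216659 0 0) (P.cons (P.lf 83374574 0 0) (P.cons (P.lf 0 35952049 0) (P.lf 0 3994659 0)))) (P.cons (P.cons (P.lf 0 1220437885 0) (P.cons (P.lf 0 70682156 0) (P.cons (P.lf 30478936 0 0) (P.lf 3386538 0 0)))) (P.cons (P.cons (P.lf 0 493102495 0) (P.cons (P.lf 4210673 0 0) (P.cons (P.lf 0 1815678 0) (P.lf 0 201734 0)))) (P.cons (P.cons (P.lf 311335640 0 0) (P.cons (P.lf 12343073 0 0) (P.cons (P.lf 0 5322469 0) P.nil))) (P.cons (P.cons (P.lf 0 22088949 0) (P.cons (P.lf 0 4146799 0) P.nil)) (P.cons (P.cons (P.lf 0 13166530 0)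 P.nil) P.nil)))))) 13607055)
 (EL.cons 1 (TM.mk (P.cons (P.cons (P.lf 2056060309 0 0) (P.cons (P.lf 43247536 0 0) (P.cons (P.lf 0 18648829 0) (P.lf 0 2072097 0)))) (P.cons (P.cons (P.lf 483638122 0 0) (P.cons (P.lf 2075027 0 0) (P.cons (P.lf 0 894770 0) (P.lf 0 99411 0)))) (P.cons (P.cons (P.lf 0 652281915 0) (P.cons (P.lf 0 24765226 0) (P.cons (P.lf 10679040 0 0) (P.lf 1186556 0 0)))) (P.cons (P.cons (P.lf 16366782 0 0) (P.cons (P.lf 7964934 0 0) (P.cons (P.lf 0 3434564 0) P.nil))) (P.cons (P.cons (P.lf 44536176 0 0) (P.cons (P.lf 530097 0 0) P.nil)) (P.cons (P.cons (P.lf 0 7666269 0) P.nil) P.nil)))))) 5665232)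
 (EL.cons 5 (TM.mk (P.cons (P.cons (P.lf 931535155 0 0) (P.cons (P.lf 0 83575672 0) (P.cons (P.lf 36038774 0 0) (P.lf 4004304 0 0)))) (P.cons (P.cons (P.lf 2257317511 0 0) (P.cons (P.lf 86984638 0 0) (P.cons (P.lf 0 37508758 0) (P.lf 0 4167636 0)))) (P.cons (P.cons (P.lf 0 170144087 0) (P.cons (P.lf 0 26039826 0) (P.cons (P.lf 11228666 0 0) (P.lf 1247626 0 0)))) (P.cons (P.cons (P.lf 0 142639364 0) (P.cons (P.lf 0 1295458 0) (P.cons (P.lf 558614 0 0) P.nil))) (P.cons (P.cons (P.lf 23269972 0 0) (P.cons (P.lf 1881010 0 0) P.nil)) (P.cons (P.cons (P.lf 3381892 0 0) P.nil) P.nil)))))) 4567544)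
 (EL.cons 9 (TM.mk (P.cons (P.cons (P.lf 2212755849 0 0) (P.cons (P.lf 0 47586504 0) (P.cons (P.lf 20519838 0 0) (P.lf 2279976 0 0)))) (P.cons (P.cons (P.lf 1608868269 0 0) (P.cons (P.lf 54576354 0 0) (P.cons (P.lf 0 23533938 0) (P.lf 0 2614878 0)))) (P.cons (P.cons (P.lf 0 304825945 0) (P.cons (P.lf 0 21655320 0) (P.cons (P.lf 9338016 0 0) (P.lf 1037556 0 0)))) (P.cons (P.cons (P.lf 0 28184340 0) (P.cons (P.lf 2729280 0 0) (P.cons (P.lf 0 1176894 0) P.nil))) (P.cons (P.cons (P.lf 13602450 0 0) (P.cons (P.lf 358758 0 0) P.nil)) (P.cons (P.cons (P.lf 0 1146648 0) P.nil) P.nil)))))) 1105360)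
 (EL.cons 2 (TM.mk (P.cons (P.cons (P.lf 0 176297115 0) (P.cons (P.lf 164237070 0 0) (P.cons (P.lf 16856063 0 0) (P.cons (P.lf 0 3505590 0) (P.lf 0 292128 0))))) (P.cons (P.cons (P.lf 119720756 0 0) (P.cons (P.lf 0 111530958 0) (P.cons (P.lf 0 11446703 0) (P.cons (P.lf 2380592 0 0) (P.lf 198379 0 0))))) (P.cons (P.cons (P.lf 0 12449244 0) (P.cons (P.lf 11597622 0 0) (P.cons (P.lf 1190292 0 0) (P.cons (P.lf 0 247545 0) P.nil)))) (P.cons (P.cons (P.lf 0 6062017 0) (P.cons (P.lf 5647328 0 0) (P.cons (P.lf 579597 0 0) P.nil))) (P.cons (P.cons (P.lf 1394583 0 0) (P.cons (P.lf 0 1299183 0) P.nil)) (P.cons (P.cons (P.lf 0 34129 0) P.nil) P.nil)))))) 684771)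
 (EL.cons 6 (TM.mk (P.cons (P.cons (P.lf 49716228 0 0) (P.cons (P.lf 0 46315266 0) (P.cons (P.lf 0 4753452 0) (P.cons (P.lf 988584 0 0) (P.lf 82380 0 0))))) (P.cons (P.cons (P.lf 0 57018903 0) (P.cons (P.lf 53118384 0 0) (P.cons (P.lf 5451672 0 0) (P.cons (P.lf 0 1133796 0) (P.lf 0 94482 0))))) (P.cons (P.cons (P.lf 22624500 0 0) (P.cons (P.lf 0 21076815 0) (P.cons (P.lf 0 2163165 0) (P.cons (P.lf 449877 0 0) P.nil)))) (P.cons (P.cons (P.lf 0 2851431 0) (P.cons (P.lf 2656371 0 0) (P.cons (P.lf 272628 0 0) P.nil))) (P.cons (P.cons (P.lf 0 374814 0) (P.cons (P.lf 349176 0 0) P.nil)) (P.cons (P.cons (P.lf 144126 0 0) P.nil) P.nil)))))) 362217)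
 EL.nil))))))
noncomputable def S372_430_660_808_2 : EL := (EL.cons 0 (TM.mk (P.cons (P.cons (P.lf 2630073643 0 0) (P.cons (P.lf 9641187 0 0) (P.cons (P.lf 0 5581102 0) (P.cons (P.lf 765914 0 0) (P.cons (P.lf 0 128301 0) (P.cons (P.lf 0 58821 0) P.nil)))))) (P.cons (P.cons (P.lf 871602892 0 0) (P.cons (P.lf 74448172 0 0) (P.cons (P.lf 0 29159574 0) (P.cons (P.lf 0 6105352 0) (P.cons (P.lf 265245 0 0) P.nil))))) (P.cons (P.cons (P.lf 0 1348591176 0) (P.cons (P.lf 0 90043533 0) (P.cons (P.lf 36465034 0 0) (P.cons (P.lf 6351874 0 0) P.nil)))) (P.cons (P.cons (P.lf 133049713 0 0) (P.cons (P.lf 24888240 0 0) (P.cons (P.lf 0 9950758 0) P.nil))) (P.cons (P.cons (P.lf 183306609 0 0) (P.cons (P.lf 8358285 0 0) P.nil)) (P.cons (P.cons (P.lf 0 50244113 0) P.nil) P.nil)))))) 67559971)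
 (EL.cons 1 (TM.mk (P.cons (P.cons (P.lf 1248167497 0 0) (P.cons (P.lf 6396759 0 0) (P.cons (P.lf 0 3473181 0) (P.cons (P.lf 309989 0 0) (P.cons (P.lf 0 64420 0) (P.cons (P.lf 0 29541 0) P.nil)))))) (P.cons (P.cons (P.lf 1169097347 0 0) (P.cons (P.lf 45655437 0 0) (P.cons (P.lf 0 18788327 0) (P.cons (P.lf 0 2962613 0) (P.cons (P.lf 81002 0 0) P.nil))))) (P.cons (P.cons (P.lf 0 363834563 0) (P.cons (P.lf 0 19170307 0) (P.cons (P.lf 8159691 0 0) (P.cons (P.lf 1010577 0 0) P.nil)))) (P.cons (P.cons (P.lf 0 319598774 0) (P.cons (P.lf 0 15993864 0) (P.cons (P.lf 6510833 0 0) P.nil))) (P.cons (P.cons (P.lf 90691480 0 0) (P.cons (P.lf 10102041 0 0) P.nil)) (P.cons (P.cons (P.lf 19035670 0 0) P.nil) P.nil)))))) 34706239)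
 (EL.cons 5 (TM.mk (P.cons (P.cons (P.lf 0 73799434 0) (P.cons (P.lf 0 40475042 0) (P.cons (P.lf 18357865 0 0) (P.cons (P.lf 1159142 0 0) (P.cons (P.lf 81515 0 0) (P.cons (P.lf 37375 0 0) P.nil)))))) (P.cons (P.cons (P.lf 942633641 0 0) (P.cons (P.lf 0 10918122 0) (P.cons (P.lf 2747754 0 0) (P.cons (P.lf 2213667 0 0) (P.cons (P.lf 0 176651 0) P.nil))))) (P.cons (P.cons (P.lf 697538120 0 0) (P.cons (P.lf 51153019 0 0) (P.cons (P.lf 0 20331116 0) (P.cons (P.lf 0 3939937 0) P.nil)))) (P.cons (P.cons (P.lf 0 241796270 0) (P.cons (P.lf 0 24363728 0) (P.cons (P.lf 9766587 0 0) P.nil))) (P.cons (P.cons (P.lf 0 54193745 0) (P.cons (P.lf 405945 0 0) P.nil)) (P.cons (P.cons (P.lf 27694290 0 0) P.nil) P.nil)))))) 26542054)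
 (EL.cons 9 (TM.mk (P.cons (P.cons (P.lf 760003993 0 0) (P.cons (P.lf 0 32688588 0) (P.cons (P.lf 14447181 0 0) (P.cons (P.lf 1263048 0 0) (P.cons (P.lf 31675 0 0) (P.cons (P.lf 14523 0 0) P.nil)))))) (P.cons (P.cons (P.lf 1105179597 0 0) (P.cons (P.lf 13722643 0 0) (P.cons (P.lf 0 6723601 0) (P.cons (P.lf 37839 0 0) (P.cons (P.lf 0 72657 0) P.nil))))) (P.cons (P.cons (P.lf 192387388 0 0) (P.cons (P.lf 16886067 0 0) (P.cons (P.lf 0 6499216 0) (P.cons (P.lf 0 1483675 0) P.nil)))) (P.cons (P.cons (P.lf 0 171608556 0) (P.cons (P.lf 0 13689330 0) (P.cons (P.lf 5495773 0 0) P.nil))) (P.cons (P.cons (P.lf 9689926 0 0) (P.cons (P.lf 2980389 0 0) P.nil)) (P.cons (P.cons (P.lf 8673286 0 0) P.nil) P.nil)))))) 8981872)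
 (EL.cons 2 (TM.mk (P.cons (P.cons (P.lf 0 121103746 0) (P.cons (P.lf 115423740 0 0) (P.cons (P.lf 8029642 0 0) (P.cons (P.lf 0 1735661 0) (P.cons (P.lf 74733 0 0) (P.cons (P.lf 0 6080 0) P.nil)))))) (P.cons (P.cons (P.lf 0 5813319 0) (P.cons (P.lf 660082 0 0) (P.cons (P.lf 7036723 0 0) (P.cons (P.lf 0 1343430 0) (P.cons (P.lf 0 512521 0) P.nil))))) (P.cons (P.cons (P.lf 67926853 0 0) (P.cons (P.lf 0 59882647 0) (P.cons (P.lf 0 11124720 0) (P.cons (P.lf 2227888 0 0) P.nil)))) (P.cons (P.cons (P.lf 0 20168758 0) (P.cons (P.lf 17713473 0 0) (P.cons (P.lf 3394186 0 0) P.nil))) (P.cons (P.cons (P.lf 0 2683631 0) (P.cons (P.lf 2542235 0 0) P.nil)) (P.cons (P.cons (P.lf 1923969 0 0) P.nil) P.nil)))))) 6904349)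
 (EL.cons 6 (TM.mk (P.cons (P.cons (P.lf 34151556 0 0) (P.cons (P.lf 0 32549784 0) (P.cons (P.lf 0 2264376 0) (P.cons (P.lf 489462 0 0) (P.cons (P.lf 0 21072 0) (P.cons (P.lf 1710 0 0) P.nil)))))) (P.cons (P.cons (P.lf 0 14336790 0) (P.cons (P.lf 15040704 0 0) (P.cons (P.lf 0 925086 0) (P.cons (P.lf 149874 0 0) (P.cons (P.lf 154392 0 0) P.nil))))) (P.cons (P.cons (P.lf 0 17641794 0) (P.cons (P.lf 14800452 0 0) (P.cons (P.lf 3914274 0 0) (P.cons (P.lf 0 772806 0) P.nil)))) (P.cons (P.cons (P.lf 14301990 0 0) (P.cons (P.lf 0 12472734 0) (P.cons (P.lf 0 2527026 0) P.nil))) (P.cons (P.cons (P.lf 0 3113778 0) (P.cons (P.lf 2663124 0 0) P.nil)) (P.cons (P.cons (P.lf 0 274794 0) P.nil) P.nil)))))) 3614640)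
 EL.nil))))))
noncomputable def S372_430_660_808_3 : EL := (EL.cons 0 (TM.mk (P.cons (P.lf 4935825225 0 0) (P.cons (P.lf 844087942 0 0) (P.cons (P.lf 0 173579589 0) (P.cons (P.lf 0 3586566 0) (P.cons (P.lf 4211423 0 0) (P.cons (P.lf 0 490783 0) P.nil)))))) 104301)
 (EL.cons 1 (TM.mk (P.cons (P.lf 0 1391915122 0) (P.cons (P.lf 413105733 0 0) (P.cons (P.lf 67350723 0 0) (P.cons (P.lf 0 19192974 0) (P.cons (P.lf 1069213 0 0) (P.cons (P.lf 215523 0 0) P.nil)))))) 64748)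
 (EL.cons 5 (TM.mk (P.cons (P.lf 392523564 0 0) (P.cons (P.lf 0 300120158 0) (P.cons (P.lf 61717188 0 0) (P.cons (P.lf 1275220 0 0) (P.cons (P.lf 0 1497396 0) (P.cons (P.lf 174500 0 0) P.nil)))))) 24610)
 EL.nil)))
noncomputable def S372_430_660_808_4 : EL := (EL.cons 0 (TM.mk (P.cons (P.cons (P.lf 1695282778 0 0) (P.cons (P.lf 0 36457966 0) (P.cons (P.lf 15721085 0 0) (P.lf 1746782 0 0)))) (P.cons (P.cons (P.lf 1522534389 0 0) (P.cons (P.lf 35578408 0 0) (P.cons (P.lf 0 15341809 0) (P.lf 0 1704642 0)))) (P.cons (P.cons (P.lf 0 82364698 0) (P.cons (P.lf 0 8158320 0) (P.cons (P.lf 3517957 0 0) (P.lf 390883 0 0)))) (P.cons (P.cons (P.lf 0 106111132 0) (P.cons (P.lf 0 2190223 0) (P.cons (P.lf 944449 0 0) P.nil))) (P.cons (P.cons (P.lf 15492450 0 0) (P.cons (P.lf 1154418 0 0) P.nil)) (P.cons (P.cons (P.lf 2715915 0 0) P.nil) P.nil)))))) 2985143)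
 (EL.cons 1 (TM.mk (P.cons (P.cons (P.lf 0 478074005 0) (P.cons (P.lf 10281238 0 0) (P.cons (P.lf 0 4433385 0) (P.lf 0 492596 0)))) (P.cons (P.cons (P.lf 0 205714556 0) (P.cons (P.lf 0 14842783 0) (P.cons (P.lf 6400374 0 0) (P.lf 711150 0 0)))) (P.cons (P.cons (P.lf 192155945 0 0) (P.cons (P.lf 7680800 0 0) (P.cons (P.lf 0 3312046 0) (P.lf 0 368004 0)))) (P.cons (P.cons (P.lf 0 3229526 0) (P.cons (P.lf 0 1265941 0) (P.cons (P.lf 545887 0 0) P.nil))) (P.cons (P.cons (P.lf 0 12358629 0) (P.cons (P.lf 0 299379 0) P.nil)) (P.cons (P.cons (P.lf 2074473 0 0) P.nil) P.nil)))))) 1167350)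
 (EL.cons 5 (TM.mk (P.cons (P.cons (P.lf 134818070 0 0) (P.cons (P.lf 0 2899334 0) (P.cons (P.lf 1250224 0 0) (P.lf 138912 0 0)))) (P.cons (P.cons (P.lf 0 5056138 0) (P.cons (P.lf 5542016 0 0) (P.cons (P.lf 0 2389778 0) (P.lf 0 265530 0)))) (P.cons (P.cons (P.lf 0 72323420 0) (P.cons (P.lf 0 4317702 0) (P.cons (P.lf 1861840 0 0) (P.lf 206870 0 0)))) (P.cons (P.cons (P.lf 28333622 0 0) (P.cons (P.lf 1688506 0 0) (P.cons (P.lf 0 728102 0) P.nil))) (P.cons (P.cons (P.lf 0 974278 0) (P.cons (P.lf 0 290872 0) P.nil)) (P.cons (P.cons (P.lf 0 1347874 0) P.nil) P.nil)))))) 822700)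
 EL.nil)))
noncomputable def S372_430_660_808_5 : EL := (EL.cons 0 (TM.mk (P.cons (P.cons (P.lf 582270150 0 0) (P.cons (P.lf 0 25044064 0) (P.cons (P.lf 11068576 0 0) (P.cons (P.lf 967672 0 0) (P.cons (P.lf 24266 0 0) (P.cons (P.lf 11125 0 0) P.nil)))))) (P.cons (P.cons (P.lf 946298789 0 0) (P.cons (P.lf 6230629 0 0) (P.cons (P.lf 0 3258360 0) (P.cons (P.lf 194473 0 0) (P.cons (P.lf 0 51514 0) P.nil))))) (P.cons (P.cons (P.lf 271719275 0 0) (P.cons (P.lf 15615773 0 0) (P.cons (P.lf 0 6249491 0) (P.cons (P.lf 0 1165775 0) P.nil)))) (P.cons (P.cons (P.lf 0 136469861 0) (P.cons (P.lf 0 8627080 0) (P.cons (P.lf 3532122 0 0) P.nil))) (P.cons (P.cons (P.lf 0 20362211 0) (P.cons (P.lf 5853 0 0) P.nil)) (P.cons (P.cons (P.lf 13095650 0 0) P.nil) P.nil)))))) 12677256)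
 (EL.cons 1 (TM.mk (P.cons (P.cons (P.lf 0 164201645 0) (P.cons (P.lf 7062487 0 0) (P.cons (P.lf 0 3121365 0) (P.cons (P.lf 0 272885 0) (P.cons (P.lf 0 6841 0) (P.cons (P.lf 0 3136 0) P.nil)))))) (P.cons (P.cons (P.lf 0 190044781 0) (P.cons (P.lf 0 5060898 0) (P.cons (P.lf 2379046 0 0) (P.cons (P.lf 72813 0 0) (P.cons (P.lf 17728 0 0) P.nil))))) (P.cons (P.cons (P.lf 37246061 0 0) (P.cons (P.lf 0 3110100 0) (P.cons (P.lf 1124079 0 0) (P.cons (P.lf 336181 0 0) P.nil)))) (P.cons (P.cons (P.lf 58702623 0 0) (P.cons (P.lf 4281247 0 0) (P.cons (P.lf 0 1717456 0) P.nil))) (P.cons (P.cons (P.lf 0 14252600 0) (P.cons (P.lf 0 1391491 0) P.nil)) (P.cons (P.cons (P.lf 0 3410887 0) P.nil) P.nil)))))) 6040345)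
 (EL.cons 5 (TM.mk (P.cons (P.cons (P.lf 46305276 0 0) (P.cons (P.lf 0 1991638 0) (P.cons (P.lf 880232 0 0) (P.cons (P.lf 76954 0 0) (P.cons (P.lf 1928 0 0) (P.cons (P.lf 884 0 0) P.nil)))))) (P.cons (P.cons (P.lf 31931404 0 0) (P.cons (P.lf 2358878 0 0) (P.cons (P.lf 0 1082672 0) (P.cons (P.lf 0 56532 0) (P.cons (P.lf 0 5902 0) P.nil))))) (P.cons (P.cons (P.lf 0 32482168 0) (P.cons (P.lf 76412 0 0) (P.cons (P.lf 55636 0 0) (P.cons (P.lf 0 80058 0) P.nil)))) (P.cons (P.cons (P.lf 0 8680234 0) (P.cons (P.lf 0 1495702 0) (P.cons (P.lf 576058 0 0) P.nil))) (P.cons (P.cons (P.lf 10469872 0 0) (P.cons (P.lf 991380 0 0) P.nil)) (P.cons (P.cons (P.lf 0 1765136 0) P.nil) P.nil)))))) 2461482)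
 EL.nil)))
noncomputable def S372_430_660_808_6 : EL := (EL.cons 12 (TM.mk (P.lf 8589934592 0 0) 0)
 (EL.cons 3 (TM.mk (P.cons (P.lf 3255703297 0 0) (P.cons (P.lf 278383023 0 0) (P.cons (P.lf 0 69148875 0) (P.cons (P.lf 4729800 0 0) (P.cons (P.lf 250177 0 0) (P.cons (P.lf 0 82796 0) P.nil)))))) 14718)
 (EL.cons 7 (TM.mk (P.cons (P.lf 0 918116516 0) (P.cons (P.lf 350992016 0 0) (P.cons (P.lf 0 5087185 0) (P.cons (P.lf 0 3436187 0) (P.cons (P.lf 451667 0 0) (P.cons (P.lf 0 12370 0) P.nil)))))) 9470)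
 EL.nil)))
noncomputable def S372_430_660_808_7 : EL := (EL.cons 12 (TM.mk (P.cons (P.cons (P.lf 2950341132 0 0) (P.cons (P.lf 0 63448672 0) (P.cons (P.lf 27359784 0 0) (P.lf 3039968 0 0)))) (P.cons (P.cons (P.lf 2145157692 0 0) (P.cons (P.lf 72768472 0 0) (P.cons (P.lf 0 31378584 0) (P.lf 0 3486504 0)))) (P.cons (P.cons (P.lf 0 406434594 0) (P.cons (P.lf 0 28873760 0) (P.cons (P.lf 12450688 0 0) (P.lf 1383408 0 0)))) (P.cons (P.cons (P.lf 0 37579120 0) (P.cons (P.lf 3639040 0 0) (P.cons (P.lf 0 1569192 0) P.nil))) (P.cons (P.cons (P.lf 18136600 0 0) (P.cons (P.lf 478344 0 0) P.nil)) (P.cons (P.cons (P.lf 0 1528864 0) P.nil) P.nil)))))) 1473788)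
 (EL.cons 3 (TM.mk (P.cons (P.cons (P.lf 3244961565 0 0) (P.cons (P.lf 48095836 0 0) (P.cons (P.lf 0 20739466 0) (P.lf 0 2304378 0)))) (P.cons (P.cons (P.lf 0 466777402 0) (P.cons (P.lf 0 51048004 0) (P.cons (P.lf 22012472 0 0) (P.lf 2445826 0 0)))) (P.cons (P.cons (P.lf 0 61179078 0) (P.cons (P.lf 16149012 0 0) (P.cons (P.lf 0 6963632 0) (P.lf 0 773734 0)))) (P.cons (P.cons (P.lf 80378953 0 0) (P.cons (P.lf 354434 0 0) (P.cons (P.lf 0 152836 0) P.nil))) (P.cons (P.cons (P.lf 0 13651809 0) (P.cons (P.lf 0 1139770 0) P.nil)) (P.cons (P.cons (P.lf 0 1027391 0) P.nil) P.nil)))))) 5188245)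
 (EL.cons 7 (TM.mk (P.cons (P.cons (P.lf 2366106322 0 0) (P.cons (P.lf 97742170 0 0) (P.cons (P.lf 0 42147527 0) (P.lf 0 4683059 0)))) (P.cons (P.cons (P.lf 0 588524189 0) (P.cons (P.lf 0 64362559 0) (P.cons (P.lf 27753863 0 0) (P.lf 3083763 0 0)))) (P.cons (P.cons (P.lf 0 214792430 0) (P.cons (P.lf 5306602 0 0) (P.cons (P.lf 0 2288266 0) (P.lf 0 254252 0)))) (P.cons (P.cons (P.lf 47457420 0 0) (P.cons (P.lf 3534547 0 0) (P.cons (P.lf 0 1524134 0) P.nil))) (P.cons (P.cons (P.lf 4644815 0 0) (P.cons (P.lf 0 589047 0) P.nil)) (P.cons (P.cons (P.lf 0 2291693 0) P.nil) P.nil)))))) 2592653)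
 (EL.cons 10 (TM.mk (P.cons (P.cons (P.lf 0 232573512 0) (P.cons (P.lf 216663741 0 0) (P.cons (P.lf 22236747 0 0) (P.cons (P.lf 0 4624623 0) (P.lf 0 385383 0))))) (P.cons (P.cons (P.lf 177823716 0 0) (P.cons (P.lf 0 165659241 0) (P.cons (P.lf 0 17002026 0) (P.cons (P.lf 3535947 0 0) (P.lf 294660 0 0))))) (P.cons (P.cons (P.lf 0 36567951 0) (P.cons (P.lf 34066431 0 0) (P.cons (P.lf 3496323 0 0) (P.cons (P.lf 0 727137 0) P.nil)))) (P.cons (P.cons (P.lf 0 755577 0) (P.cons (P.lf 703890 0 0) (P.cons (P.lf 72240 0 0) P.nil))) (P.cons (P.cons (P.lf 887217 0 0) (P.cons (P.lf 0 826527 0) P.nil)) (P.cons (P.cons (P.lf 0 103392 0) P.nil) P.nil)))))) 319218)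
 EL.nil))))
noncomputable def S372_430_660_808_8 : EL := (EL.cons 12 (TM.mk (P.cons (P.cons (P.lf 1013338658 0 0) (P.cons (P.lf 0 43584784 0) (P.cons (P.lf 19262908 0 0) (P.cons (P.lf 1684064 0 0) (P.cons (P.lf 42234 0 0) (P.cons (P.lf 19364 0 0) P.nil)))))) (P.cons (P.cons (P.lf 1473572796 0 0) (P.cons (P.lf 18296858 0 0) (P.cons (P.lf 0 8964802 0) (P.cons (P.lf 50452 0 0) (P.cons (P.lf 0 96876 0) P.nil))))) (P.cons (P.cons (P.lf 256516518 0 0) (P.cons (P.lf 22514756 0 0) (P.cons (P.lf 0 8665622 0) (P.cons (P.lf 0 1978234 0) P.nil)))) (P.cons (P.cons (P.lf 0 228811408 0) (P.cons (P.lf 0 18252440 0) (P.cons (P.lf 7327698 0 0) P.nil))) (P.cons (P.cons (P.lf 12919902 0 0) (P.cons (P.lf 3973852 0 0) P.nil)) (P.cons (P.cons (P.lf 11564382 0 0) P.nil) P.nil)))))) 11975800)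
 (EL.cons 3 (TM.mk (P.cons (P.cons (P.lf 1844991593 0 0) (P.cons (P.lf 1620545 0 0) (P.cons (P.lf 0 1586930 0) (P.cons (P.lf 688304 0 0) (P.cons (P.lf 0 80036 0) (P.cons (P.lf 0 36696 0) P.nil)))))) (P.cons (P.cons (P.lf 708735461 0 0) (P.cons (P.lf 45307326 0 0) (P.cons (P.lf 0 17575779 0) (P.cons (P.lf 0 3862194 0) (P.cons (P.lf 176740 0 0) P.nil))))) (P.cons (P.cons (P.lf 0 719055293 0) (P.cons (P.lf 0 57251260 0) (P.cons (P.lf 22903899 0 0) (P.cons (P.lf 4281163 0 0) P.nil)))) (P.cons (P.cons (P.lf 130151363 0 0) (P.cons (P.lf 22742091 0 0) (P.cons (P.lf 0 8991261 0) P.nil))) (P.cons (P.cons (P.lf 58086870 0 0) (P.cons (P.lf 0 285825 0) P.nil)) (P.cons (P.cons (P.lf 0 24539536 0) P.nil) P.nil)))))) 31276961)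
 (EL.cons 7 (TM.mk (P.cons (P.cons (P.lf 1733657501 0 0) (P.cons (P.lf 27529541 0 0) (P.cons (P.lf 0 13264882 0) (P.cons (P.lf 0 116937 0) (P.cons (P.lf 0 125606 0) (P.cons (P.lf 0 57593 0) P.nil)))))) (P.cons (P.cons (P.lf 893590718 0 0) (P.cons (P.lf 57124565 0 0) (P.cons (P.lf 0 22159966 0) (P.cons (P.lf 0 4869553 0) (P.cons (P.lf 222842 0 0) P.nil))))) (P.cons (P.cons (P.lf 0 697590451 0) (P.cons (P.lf 0 58822273 0) (P.cons (P.lf 23694544 0 0) (P.cons (P.lf 4258795 0 0) P.nil)))) (P.cons (P.cons (P.lf 0 73349536 0) (P.cons (P.lf 9057395 0 0) (P.cons (P.lf 0 3453544 0) P.nil))) (P.cons (P.cons (P.lf 73778833 0 0) (P.cons (P.lf 4972235 0 0) P.nil)) (P.cons (P.cons (P.lf 0 4594159 0) P.nil) P.nil)))))) 21904839)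
 (EL.cons 10 (TM.mk (P.cons (P.cons (P.lf 0 159761676 0) (P.cons (P.lf 152268546 0 0) (P.cons (P.lf 10592814 0 0) (P.cons (P.lf 0 2289714 0) (P.cons (P.lf 98592 0 0) (P.cons (P.lf 0 8022 0) P.nil)))))) (P.cons (P.cons (P.lf 5991606 0 0) (P.cons (P.lf 0 12149118 0) (P.cons (P.lf 8377182 0 0) (P.cons (P.lf 0 1576482 0) (P.cons (P.lf 0 684558 0) P.nil))))) (P.cons (P.cons (P.lf 85704468 0 0) (P.cons (P.lf 0 74725086 0) (P.cons (P.lf 0 15167202 0) (P.cons (P.lf 3025230 0 0) P.nil)))) (P.cons (P.cons (P.lf 0 33575814 0) (P.cons (P.lf 29278068 0 0) (P.cons (P.lf 5937084 0 0) P.nil))) (P.cons (P.cons (P.lf 1154532 0 0) (P.cons (P.lf 0 730866 0) P.nil)) (P.cons (P.cons (P.lf 1597248 0 0) P.nil) P.nil)))))) 8030394)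
 EL.nil))))
noncomputable def S372_430_660_808_9 : EL := (EL.cons 3 (TM.mk (P.cons (P.lf 3255703297 0 0) (P.cons (P.lf 278383023 0 0) (P.cons (P.lf 0 69148875 0) (P.cons (P.lf 4729800 0 0) (P.cons (P.lf 250177 0 0) (P.cons (P.lf 0 82796 0) P.nil)))))) 14718)
 (EL.cons 7 (TM.mk (P.cons (P.lf 0 918116516 0) (P.cons (P.lf 350992016 0 0) (P.cons (P.lf 0 5087185 0) (P.cons (P.lf 0 3436187 0) (P.cons (P.lf 451667 0 0) (P.cons (P.lf 0 12370 0) P.nil)))))) 9470)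
 EL.nil))
noncomputable def S372_430_660_808_10 : EL := (EL.cons 3 (TM.mk (P.cons (P.cons (P.lf 1118219847 0 0) (P.cons (P.lf 0 24047918 0) (P.cons (P.lf 10369733 0 0) (P.lf 1152189 0 0)))) (P.cons (P.cons (P.lf 908659055 0 0) (P.cons (P.lf 25524002 0 0) (P.cons (P.lf 0 11006236 0) (P.lf 0 1222913 0)))) (P.cons (P.cons (P.lf 0 108274134 0) (P.cons (P.lf 0 8074506 0) (P.cons (P.lf 3481816 0 0) (P.lf 386867 0 0)))) (P.cons (P.cons (P.lf 0 43058729 0) (P.cons (P.lf 0 177217 0) (P.cons (P.lf 76418 0 0) P.nil))) (P.cons (P.cons (P.lf 10195044 0 0) (P.cons (P.lf 569885 0 0) P.nil)) (P.cons (P.cons (P.lf 121069 0 0) P.nil) P.nil)))))) 1258847)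
 (EL.cons 7 (TM.mk (P.cons (P.cons (P.lf 0 315340808 0) (P.cons (P.lf 6781573 0 0) (P.cons (P.lf 0 2924291 0) (P.lf 0 324920 0)))) (P.cons (P.cons (P.lf 0 108727082 0) (P.cons (P.lf 0 10370266 0) (P.cons (P.lf 4471775 0 0) (P.lf 496863 0 0)))) (P.cons (P.cons (P.lf 129346573 0 0) (P.cons (P.lf 6097066 0 0) (P.cons (P.lf 0 2629123 0) (P.lf 0 292124 0)))) (P.cons (P.cons (P.lf 0 15041328 0) (P.cons (P.lf 0 1586471 0) (P.cons (P.lf 684103 0 0) P.nil))) (P.cons (P.cons (P.lf 0 3936289 0) (P.cons (P.lf 82221 0 0) P.nil)) (P.cons (P.cons (P.lf 1197871 0 0) P.nil) P.nil)))))) 549364)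
 EL.nil))
noncomputable def S372_430_660_808_11 : EL := (EL.cons 3 (TM.mk (P.cons (P.cons (P.lf 384069281 0 0) (P.cons (P.lf 0 16519231 0) (P.cons (P.lf 7300906 0 0) (P.cons (P.lf 638282 0 0) (P.cons (P.lf 16006 0 0) (P.cons (P.lf 7338 0 0) P.nil)))))) (P.cons (P.cons (P.lf 591344675 0 0) (P.cons (P.lf 5522262 0 0) (P.cons (P.lf 0 2773509 0) (P.cons (P.lf 73698 0 0) (P.cons (P.lf 0 35348 0) P.nil))))) (P.cons (P.cons (P.lf 136821541 0 0) (P.cons (P.lf 9477224 0 0) (P.cons (P.lf 0 3729987 0) (P.cons (P.lf 0 761699 0) P.nil)))) (P.cons (P.cons (P.lf 0 89713747 0) (P.cons (P.lf 0 6359553 0) (P.cons (P.lf 2579235 0 0) P.nil))) (P.cons (P.cons (P.lf 0 3742572 0) (P.cons (P.lf 742179 0 0) P.nil)) (P.cons (P.cons (P.lf 6818090 0 0) P.nil) P.nil)))))) 6585991)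
 (EL.cons 7 (TM.mk (P.cons (P.cons (P.lf 0 108308503 0) (P.cons (P.lf 4658465 0 0) (P.cons (P.lf 0 2058874 0) (P.cons (P.lf 0 179997 0) (P.cons (P.lf 0 4514 0) (P.cons (P.lf 0 2069 0) P.nil)))))) (P.cons (P.cons (P.lf 0 116093752 0) (P.cons (P.lf 0 3736531 0) (P.cons (P.lf 1745282 0 0) (P.cons (P.lf 63419 0 0) (P.cons (P.lf 12080 0 0) P.nil))))) (P.cons (P.cons (P.lf 32194097 0 0) (P.cons (P.lf 0 1633003 0) (P.cons (P.lf 548488 0 0) (P.cons (P.lf 212503 0 0) P.nil)))) (P.cons (P.cons (P.lf 33659444 0 0) (P.cons (P.lf 2877443 0 0) (P.cons (P.lf 0 1139686 0) P.nil))) (P.cons (P.cons (P.lf 0 11418443 0) (P.cons (P.lf 0 1193491 0) P.nil)) (P.cons (P.cons (P.lf 0 599197 0) P.nil) P.nil)))))) 3010205)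
 EL.nil))
noncomputable def S372_430_660_808_12 : EL := (EL.cons 4 (TM.mk (P.cons (P.lf 0 3255703297 0) (P.cons (P.lf 0 278383023 0) (P.cons (P.lf 69148875 0 0) (P.cons (P.lf 0 4729800 0) (P.cons (P.lf 0 250177 0) (P.cons (P.lf 82796 0 0) P.nil)))))) 14718)
 (EL.cons 8 (TM.mk (P.cons (P.lf 918116516 0 0) (P.cons (P.lf 0 350992016 0) (P.cons (P.lf 5087185 0 0) (P.cons (P.lf 3436187 0 0) (P.cons (P.lf 0 451667 0) (P.cons (P.lf 12370 0 0) P.nil)))))) 9470)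
 EL.nil))
noncomputable def S372_430_660_808_13 : EL := (EL.cons 4 (TM.mk (P.cons (P.cons (P.lf 0 1118219847 0) (P.cons (P.lf 24047918 0 0) (P.cons (P.lf 0 10369733 0) (P.lf 0 1152189 0)))) (P.cons (P.cons (P.lf 0 908659055 0) (P.cons (P.lf 0 25524002 0) (P.cons (P.lf 11006236 0 0) (P.lf 1222913 0 0)))) (P.cons (P.cons (P.lf 108274134 0 0) (P.cons (P.lf 8074506 0 0) (P.cons (P.lf 0 3481816 0) (P.lf 0 386867 0)))) (P.cons (P.cons (P.lf 43058729 0 0) (P.cons (P.lf 177217 0 0) (P.cons (P.lf 0 76418 0) P.nil))) (P.cons (P.cons (P.lf 0 10195044 0) (P.cons (P.lf 0 569885 0) P.nil)) (P.cons (P.cons (P.lf 0 121069 0) P.nil) P.nil)))))) 1258847)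
 (EL.cons 8 (TM.mk (P.cons (P.cons (P.lf 315340808 0 0) (P.cons (P.lf 0 6781573 0) (P.cons (P.lf 2924291 0 0) (P.lf 324920 0 0)))) (P.cons (P.cons (P.lf 108727082 0 0) (P.cons (P.lf 10370266 0 0) (P.cons (P.lf 0 4471775 0) (P.lf 0 496863 0)))) (P.cons (P.cons (P.lf 0 129346573 0) (P.cons (P.lf 0 6097066 0) (P.cons (P.lf 2629123 0 0) (P.lf 292124 0 0)))) (P.cons (P.cons (P.lf 15041328 0 0) (P.cons (P.lf 1586471 0 0) (P.cons (P.lf 0 684103 0) P.nil))) (P.cons (P.cons (P.lf 3936289 0 0) (P.cons (P.lf 0 82221 0) P.nil)) (P.cons (P.cons (P.lf 0 1197871 0) P.nil) P.nil)))))) 549364)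
 EL.nil))
noncomputable def S372_430_660_808_14 : EL := (EL.cons 4 (TM.mk (P.cons (P.cons (P.lf 0 384069281 0) (P.cons (P.lf 16519231 0 0) (P.cons (P.lf 0 7300906 0) (P.cons (P.lf 0 638282 0) (P.cons (P.lf 0 16006 0) (P.cons (P.lf 0 7338 0) P.nil)))))) (P.cons (P.cons (P.lf 0 591344675 0) (P.cons (P.lf 0 5522262 0) (P.cons (P.lf 2773509 0 0) (P.cons (P.lf 0 73698 0) (P.cons (P.lf 35348 0 0) P.nil))))) (P.cons (P.cons (P.lf 0 136821541 0) (P.cons (P.lf 0 9477224 0) (P.cons (P.lf 3729987 0 0) (P.cons (P.lf 761699 0 0) P.nil)))) (P.cons (P.cons (P.lf 89713747 0 0) (P.cons (P.lf 6359553 0 0) (P.cons (P.lf 0 2579235 0) P.nil))) (P.cons (P.cons (P.lf 3742572 0 0) (P.cons (P.lf 0 742179 0) P.nil)) (P.cons (P.cons (P.lf 0 6818090 0) P.nil) P.nil)))))) 6585991)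
 (EL.cons 8 (TM.mk (P.cons (P.cons (P.lf 108308503 0 0) (P.cons (P.lf 0 4658465 0) (P.cons (P.lf 2058874 0 0) (P.cons (P.lf 179997 0 0) (P.cons (P.lf 4514 0 0) (P.cons (P.lf 2069 0 0) P.nil)))))) (P.cons (P.cons (P.lf 116093752 0 0) (P.cons (P.lf 3736531 0 0) (P.cons (P.lf 0 1745282 0) (P.cons (P.lf 0 63419 0) (P.cons (P.lf 0 12080 0) P.nil))))) (P.cons (P.cons (P.lf 0 32194097 0) (P.cons (P.lf 1633003 0 0) (P.cons (P.lf 0 548488 0) (P.cons (P.lf 0 212503 0) P.nil)))) (P.cons (P.cons (P.lf 0 33659444 0) (P.cons (P.lf 0 2877443 0) (P.cons (P.lf 1139686 0 0) P.nil))) (P.cons (P.cons (P.lf 11418443 0 0) (P.cons (P.lf 1193491 0 0) P.nil)) (P.cons (P.cons (P.lf 599197 0 0) P.nil) P.nil)))))) 3010205)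
 EL.nil))
noncomputable def S372_430_660_808_15 : EL := (EL.cons 4 (TM.mk (P.cons (P.lf 0 2632440120 0) (P.cons (P.lf 0 450180236 0) (P.cons (P.lf 92575781 0 0) (P.cons (P.lf 1912835 0 0) (P.cons (P.lf 0 2246092 0) (P.cons (P.lf 261750 0 0) P.nil)))))) 55630)
 (EL.cons 8 (TM.mk (P.cons (P.lf 742354732 0 0) (P.cons (P.lf 0 220323058 0) (P.cons (P.lf 0 35920386 0) (P.cons (P.lf 10236253 0 0) (P.cons (P.lf 0 570247 0) (P.cons (P.lf 0 114946 0) P.nil)))))) 34529)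
 EL.nil))
noncomputable def S372_430_660_808_16 : EL := (EL.cons 4 (TM.mk (P.cons (P.cons (P.lf 0 904150815 0) (P.cons (P.lf 19444248 0 0) (P.cons (P.lf 0 8384579 0) (P.lf 0 931617 0)))) (P.cons (P.cons (P.lf 0 812018340 0) (P.cons (P.lf 0 18975150 0) (P.cons (P.lf 8182298 0 0) (P.lf 909142 0 0)))) (P.cons (P.cons (P.lf 43927839 0 0) (P.cons (P.lf 4351104 0 0) (P.cons (P.lf 0 1876244 0) (P.lf 0 208470 0)))) (P.cons (P.cons (P.lf 56592603 0 0) (P.cons (P.lf 1168119 0 0) (P.cons (P.lf 0 503706 0) P.nil))) (P.cons (P.cons (P.lf 0 8262640 0) (P.cons (P.lf 0 615690 0) P.nil)) (P.cons (P.cons (P.lf 0 1448488 0) P.nil) P.nil)))))) 1592085)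
 (EL.cons 8 (TM.mk (P.cons (P.cons (P.lf 254972803 0 0) (P.cons (P.lf 0 5483327 0) (P.cons (P.lf 2364472 0 0) (P.lf 262718 0 0)))) (P.cons (P.cons (P.lf 109714430 0 0) (P.cons (P.lf 7916151 0 0) (P.cons (P.lf 0 3413533 0) (P.lf 0 379280 0)))) (P.cons (P.cons (P.lf 0 102483171 0) (P.cons (P.lf 0 4096427 0) (P.cons (P.lf 1766425 0 0) (P.lf 196269 0 0)))) (P.cons (P.cons (P.lf 1722414 0 0) (P.cons (P.lf 675169 0 0) (P.cons (P.lf 0 291140 0) P.nil))) (P.cons (P.cons (P.lf 6591269 0 0) (P.cons (P.lf 159669 0 0) P.nil)) (P.cons (P.cons (P.lf 0 1106386 0) P.nil) P.nil)))))) 622577)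
 EL.nil))
noncomputable def S372_430_660_808_17 : EL := (EL.cons 4 (TM.mk (P.cons (P.cons (P.lf 0 310544080 0) (P.cons (P.lf 13356834 0 0) (P.cons (P.lf 0 5903240 0) (P.cons (P.lf 0 516091 0) (P.cons (P.lf 0 12942 0) (P.cons (P.lf 0 5933 0) P.nil)))))) (P.cons (P.cons (P.lf 0 504692687 0) (P.cons (P.lf 0 3323002 0) (P.cons (P.lf 1737792 0 0) (P.cons (P.lf 0 103719 0) (P.cons (P.lf 27474 0 0) P.nil))))) (P.cons (P.cons (P.lf 0 144916947 0) (P.cons (P.lf 0 8328412 0) (P.cons (P.lf 3333061 0 0) (P.cons (P.lf 621747 0 0) P.nil)))) (P.cons (P.cons (P.lf 72783926 0 0) (P.cons (P.lf 4601109 0 0) (P.cons (P.lf 0 1883798 0) P.nil))) (P.cons (P.cons (P.lf 10859846 0 0) (P.cons (P.lf 0 3121 0) P.nil)) (P.cons (P.cons (P.lf 0 6984346 0) P.nil) P.nil)))))) 6761213)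
 (EL.cons 8 (TM.mk (P.cons (P.cons (P.lf 87574211 0 0) (P.cons (P.lf 0 3766660 0) (P.cons (P.lf 1664728 0 0) (P.cons (P.lf 145539 0 0) (P.cons (P.lf 3649 0 0) (P.cons (P.lf 1673 0 0) P.nil)))))) (P.cons (P.cons (P.lf 101357217 0 0) (P.cons (P.lf 2699146 0 0) (P.cons (P.lf 0 1268825 0) (P.cons (P.lf 0 38834 0) (P.cons (P.lf 0 9455 0) P.nil))))) (P.cons (P.cons (P.lf 0 19864566 0) (P.cons (P.lf 1658720 0 0) (P.cons (P.lf 0 599509 0) (P.cons (P.lf 0 179297 0) P.nil)))) (P.cons (P.cons (P.lf 0 31308066 0) (P.cons (P.lf 0 2283332 0) (P.cons (P.lf 915977 0 0) P.nil))) (P.cons (P.cons (P.lf 7601387 0 0) (P.cons (P.lf 742129 0 0) P.nil)) (P.cons (P.cons (P.lf 1819140 0 0) P.nil) P.nil)))))) 3221506)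
 EL.nil))
noncomputable def S372_430_660_808_18 : EL := (EL.cons 4 (TM.mk (P.cons (P.lf 0 2128492786 0) (P.cons (P.lf 0 545998394 0) (P.cons (P.lf 88936838 0 0) (P.cons (P.lf 12585940 0 0) (P.cons (P.lf 0 3966058 0) (P.cons (P.lf 158407 0 0) P.nil)))))) 145112)
 (EL.cons 8 (TM.mk (P.cons (P.lf 600240317 0 0) (P.cons (P.lf 0 126820692 0) (P.cons (P.lf 0 57025083 0) (P.cons (P.lf 10448908 0 0) (P.cons (P.lf 650816 0 0) (P.cons (P.lf 0 379305 0) P.nil)))))) 67460)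
 EL.nil))
noncomputable def S372_430_660_808_19 : EL := (EL.cons 4 (TM.mk (P.cons (P.cons (P.lf 0 731062588 0) (P.cons (P.lf 15721893 0 0) (P.cons (P.lf 0 6779458 0) (P.lf 0 753270 0)))) (P.cons (P.cons (P.lf 0 719078140 0) (P.cons (P.lf 0 13998277 0) (P.cons (P.lf 6036214 0 0) (P.lf 670689 0 0)))) (P.cons (P.cons (P.lf 0 5094978 0) (P.cons (P.lf 1872330 0 0) (P.cons (P.lf 0 807369 0) (P.lf 0 89707 0)))) (P.cons (P.cons (P.lf 61678685 0 0) (P.cons (P.lf 1594027 0 0) (P.cons (P.lf 0 687362 0) P.nil))) (P.cons (P.cons (P.lf 0 4532617 0) (P.cons (P.lf 0 512867 0) P.nil)) (P.cons (P.cons (P.lf 0 2694591 0) P.nil) P.nil)))))) 1895455)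
 (EL.cons 8 (TM.mk (P.cons (P.cons (P.lf 206161488 0 0) (P.cons (P.lf 0 4433613 0) (P.cons (P.lf 1911824 0 0) (P.lf 212424 0 0)))) (P.cons (P.cons (P.lf 106339090 0 0) (P.cons (P.lf 6021602 0 0) (P.cons (P.lf 0 2596582 0) (P.lf 0 288508 0)))) (P.cons (P.cons (P.lf 0 79657447 0) (P.cons (P.lf 0 2670750 0) (P.cons (P.lf 1151657 0 0) (P.lf 127961 0 0)))) (P.cons (P.cons (P.lf 0 7277370 0) (P.cons (P.lf 120314 0 0) (P.cons (P.lf 0 51880 0) P.nil))) (P.cons (P.cons (P.lf 7353231 0 0) (P.cons (P.lf 255089 0 0) P.nil)) (P.cons (P.cons (P.lf 0 587269 0) P.nil) P.nil)))))) 863932)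
 EL.nil))
noncomputable def S372_430_660_808_20 : EL := (EL.cons 4 (TM.mk (P.cons (P.cons (P.lf 0 251094347 0) (P.cons (P.lf 10799836 0 0) (P.cons (P.lf 0 4773139 0) (P.cons (P.lf 0 417292 0) (P.cons (P.lf 0 10464 0) (P.cons (P.lf 0 4798 0) P.nil)))))) (P.cons (P.cons (P.lf 0 429545802 0) (P.cons (P.lf 0 1763401 0) (P.cons (P.lf 996980 0 0) (P.cons (P.lf 0 119544 0) (P.cons (P.lf 21319 0 0) P.nil))))) (P.cons (P.cons (P.lf 0 146734388 0) (P.cons (P.lf 0 7193167 0) (P.cons (P.lf 2916513 0 0) (P.cons (P.lf 504413 0 0) P.nil)))) (P.cons (P.cons (P.lf 57133677 0 0) (P.cons (P.lf 3217238 0 0) (P.cons (P.lf 0 1329509 0) P.nil))) (P.cons (P.cons (P.lf 15689507 0 0) (P.cons (P.lf 455535 0 0) P.nil)) (P.cons (P.cons (P.lf 0 6341603 0) P.nil) P.nil)))))) 6992907)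
 (EL.cons 8 (TM.mk (P.cons (P.cons (P.lf 70809237 0 0) (P.cons (P.lf 0 3045581 0) (P.cons (P.lf 1346037 0 0) (P.cons (P.lf 117677 0 0) (P.cons (P.lf 2951 0 0) (P.cons (P.lf 1352 0 0) P.nil)))))) (P.cons (P.cons (P.lf 88008294 0 0) (P.cons (P.lf 1922012 0 0) (P.cons (P.lf 0 910830 0) (P.cons (P.lf 0 21337 0) (P.cons (P.lf 0 7392 0) P.nil))))) (P.cons (P.cons (P.lf 0 10558134 0) (P.cons (P.lf 1592476 0 0) (P.cons (P.lf 0 601052 0) (P.cons (P.lf 0 150157 0) P.nil)))) (P.cons (P.cons (P.lf 0 28325682 0) (P.cons (P.lf 0 1782316 0) (P.cons (P.lf 722922 0 0) P.nil))) (P.cons (P.cons (P.lf 4447288 0 0) (P.cons (P.lf 416645 0 0) P.nil)) (P.cons (P.cons (P.lf 2515253 0 0) P.nil) P.nil)))))) 3142736)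
 EL.nil))
noncomputable def S372_430_660_808_21 : EL := (EL.cons 4 (TM.mk (P.cons (P.cons (P.lf 0 2126741718 0) (P.cons (P.lf 0 72143754 0) (P.cons (P.lf 31109199 0 0) (P.lf 3456567 0 0)))) (P.cons (P.cons (P.lf 1375436457 0 0) (P.cons (P.lf 76572006 0 0) (P.cons (P.lf 0 33018708 0) (P.lf 0 3668739 0)))) (P.cons (P.cons (P.lf 0 47095056 0) (P.cons (P.lf 0 24223518 0) (P.cons (P.lf 10445448 0 0) (P.lf 1160601 0 0)))) (P.cons (P.cons (P.lf 0 123437682 0) (P.cons (P.lf 0 531651 0) (P.cons (P.lf 229254 0 0) P.nil))) (P.cons (P.cons (P.lf 23846853 0 0) (P.cons (P.lf 1709655 0 0) P.nil)) (P.cons (P.cons (P.lf 1148460 0 0) P.nil) P.nil)))))) 3929379)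
 (EL.cons 8 (TM.mk (P.cons (P.cons (P.lf 0 2681447130 0) (P.cons (P.lf 0 90960597 0) (P.cons (P.lf 39223236 0 0) (P.lf 4358139 0 0)))) (P.cons (P.cons (P.lf 479797107 0 0) (P.cons (P.lf 53992293 0 0) (P.cons (P.lf 0 23282088 0) (P.lf 0 2586900 0)))) (P.cons (P.cons (P.lf 344139003 0 0) (P.cons (P.lf 790464 0 0) (P.cons (P.lf 0 340857 0) (P.lf 0 37872 0)))) (P.cons (P.cons (P.lf 0 62498748 0) (P.cons (P.lf 0 5121018 0) (P.cons (P.lf 2208237 0 0) P.nil))) (P.cons (P.cons (P.lf 0 8581104 0) (P.cons (P.lf 671268 0 0) P.nil)) (P.cons (P.cons (P.lf 3489564 0 0) P.nil) P.nil)))))) 2043270)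
 (EL.cons 11 (TM.mk (P.cons (P.cons (P.lf 232573512 0 0) (P.cons (P.lf 0 216663741 0) (P.cons (P.lf 0 22236747 0) (P.cons (P.lf 4624623 0 0) (P.lf 385383 0 0))))) (P.cons (P.cons (P.lf 0 177823716 0) (P.cons (P.lf 165659241 0 0) (P.cons (P.lf 17002026 0 0) (P.cons (P.lf 0 3535947 0) (P.lf 0 294660 0))))) (P.cons (P.cons (P.lf 36567951 0 0) (P.cons (P.lf 0 34066431 0) (P.cons (P.lf 0 3496323 0) (P.cons (P.lf 727137 0 0) P.nil)))) (P.cons (P.cons (P.lf 755577 0 0) (P.cons (P.lf 0 703890 0) (P.cons (P.lf 0 72240 0) P.nil))) (P.cons (P.cons (P.lf 0 887217 0) (P.cons (P.lf 826527 0 0) P.nil)) (P.cons (P.cons (P.lf 103392 0 0) P.nil) P.nil)))))) 319218)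
 EL.nil)))
noncomputable def S372_430_660_808_22 : EL := (EL.cons 4 (TM.mk (P.cons (P.cons (P.lf 0 730461156 0) (P.cons (P.lf 0 9069888 0) (P.cons (P.lf 4443918 0 0) (P.cons (P.lf 0 25011 0) (P.cons (P.lf 48021 0 0) (P.cons (P.lf 22017 0 0) P.nil)))))) (P.cons (P.cons (P.lf 0 58695393 0) (P.cons (P.lf 0 19892532 0) (P.cons (P.lf 7401135 0 0) (P.cons (P.lf 1967946 0 0) (P.cons (P.lf 0 106044 0) P.nil))))) (P.cons (P.cons (P.lf 427938417 0 0) (P.cons (P.lf 33364242 0 0) (P.cons (P.lf 0 13316943 0) (P.cons (P.lf 0 2521431 0) P.nil)))) (P.cons (P.cons (P.lf 0 109932555 0) (P.cons (P.lf 0 14550822 0) (P.cons (P.lf 5785248 0 0) P.nil))) (P.cons (P.cons (P.lf 0 30914721 0) (P.cons (P.lf 514002 0 0) P.nil)) (P.cons (P.cons (P.lf 15678813 0 0) P.nil) P.nil)))))) 12345474)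
 (EL.cons 8 (TM.mk (P.cons (P.cons (P.lf 0 920983002 0) (P.cons (P.lf 0 11435538 0) (P.cons (P.lf 5603004 0 0) (P.cons (P.lf 0 31530 0) (P.cons (P.lf 60546 0 0) (P.cons (P.lf 27762 0 0) P.nil)))))) (P.cons (P.cons (P.lf 0 504842235 0) (P.cons (P.lf 0 30430548 0) (P.cons (P.lf 11952624 0 0) (P.cons (P.lf 2466486 0 0) (P.cons (P.lf 0 105381 0) P.nil))))) (P.cons (P.cons (P.lf 364892274 0 0) (P.cons (P.lf 28594635 0 0) (P.cons (P.lf 0 11573028 0) (P.cons (P.lf 0 2023146 0) P.nil)))) (P.cons (P.cons (P.lf 53504490 0 0) (P.cons (P.lf 0 3089976 0) (P.cons (P.lf 1156929 0 0) P.nil))) (P.cons (P.cons (P.lf 0 42598638 0) (P.cons (P.lf 0 3082863 0) P.nil)) (P.cons (P.cons (P.lf 1997481 0 0) P.nil) P.nil)))))) 9447306)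
 (EL.cons 11 (TM.mk (P.cons (P.cons (P.lf 79880838 0 0) (P.cons (P.lf 0 76134273 0) (P.cons (P.lf 0 5296407 0) (P.cons (P.lf 1144857 0 0) (P.cons (P.lf 0 49296 0) (P.cons (P.lf 4011 0 0) P.nil)))))) (P.cons (P.cons (P.lf 0 2995803 0) (P.cons (P.lf 6074559 0 0) (P.cons (P.lf 0 4188591 0) (P.cons (P.lf 788241 0 0) (P.cons (P.lf 342279 0 0) P.nil))))) (P.cons (P.cons (P.lf 0 42852234 0) (P.cons (P.lf 37362543 0 0) (P.cons (P.lf 7583601 0 0) (P.cons (P.lf 0 1512615 0) P.nil)))) (P.cons (P.cons (P.lf 16787907 0 0) (P.cons (P.lf 0 14639034 0) (P.cons (P.lf 0 2968542 0) P.nil))) (P.cons (P.cons (P.lf 0 577266 0) (P.cons (P.lf 365433 0 0) P.nil)) (P.cons (P.cons (P.lf 0 798624 0) P.nil) P.nil)))))) 4015197)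
 EL.nil)))
noncomputable def S372_430_660_808_23 : EL := (EL.cons 4 (TM.mk (P.cons (P.cons (P.lf 0 1719603939 0) (P.cons (P.lf 0 58332744 0) (P.cons (P.lf 25153734 0 0) (P.lf 2794851 0 0)))) (P.cons (P.cons (P.lf 965089653 0 0) (P.cons (P.lf 56925447 0 0) (P.cons (P.lf 0 24546891 0) (P.lf 0 2727426 0)))) (P.cons (P.cons (P.lf 93537675 0 0) (P.cons (P.lf 0 13053312 0) (P.cons (P.lf 5628729 0 0) (P.lf 625410 0 0)))) (P.cons (P.cons (P.lf 0 129182109 0) (P.cons (P.lf 0 3504357 0) (P.cons (P.lf 1511118 0 0) P.nil))) (P.cons (P.cons (P.lf 13039848 0 0) (P.cons (P.lf 1847067 0 0) P.nil)) (P.cons (P.cons (P.lf 4771008 0 0) P.nil) P.nil)))))) 4891281)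
 (EL.cons 8 (TM.mk (P.cons (P.cons (P.lf 0 2168118024 0) (P.cons (P.lf 0 73547340 0) (P.cons (P.lf 31714443 0 0) (P.lf 3523827 0 0)))) (P.cons (P.cons (P.lf 202558353 0 0) (P.cons (P.lf 37367391 0 0) (P.cons (P.lf 0 16113243 0) (P.lf 0 1790361 0)))) (P.cons (P.cons (P.lf 357479082 0 0) (P.cons (P.lf 5934108 0 0) (P.cons (P.lf 0 2558853 0) (P.lf 0 284316 0)))) (P.cons (P.cons (P.lf 0 38130843 0) (P.cons (P.lf 0 5120085 0) (P.cons (P.lf 2207835 0 0) P.nil))) (P.cons (P.cons (P.lf 0 16772358 0) (P.cons (P.lf 232905 0 0) P.nil)) (P.cons (P.cons (P.lf 3790761 0 0) P.nil) P.nil)))))) 2874771)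
 (EL.cons 11 (TM.mk (P.cons (P.cons (P.lf 188050257 0 0) (P.cons (P.lf 0 175186209 0) (P.cons (P.lf 0 17979801 0) (P.cons (P.lf 3739296 0 0) (P.lf 311604 0 0))))) (P.cons (P.cons (P.lf 0 127702140 0) (P.cons (P.lf 118966356 0 0) (P.cons (P.lf 12209817 0 0) (P.cons (P.lf 0 2539299 0) (P.lf 0 211605 0))))) (P.cons (P.cons (P.lf 13279194 0 0) (P.cons (P.lf 0 12370797 0) (P.cons (P.lf 0 1269645 0) (P.cons (P.lf 264048 0 0) P.nil)))) (P.cons (P.cons (P.lf 6466152 0 0) (P.cons (P.lf 0 6023817 0) (P.cons (P.lf 0 618237 0) P.nil))) (P.cons (P.cons (P.lf 0 1487556 0) (P.cons (P.lf 1385796 0 0) P.nil)) (P.cons (P.cons (P.lf 36405 0 0) P.nil) P.nil)))))) 730401)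
 EL.nil)))
noncomputable def S372_430_660_808_24 : EL := (EL.cons 4 (TM.mk (P.cons (P.cons (P.lf 0 590623614 0) (P.cons (P.lf 0 7333572 0) (P.cons (P.lf 3593187 0 0) (P.cons (P.lf 0 20223 0) (P.cons (P.lf 38829 0 0) (P.cons (P.lf 17802 0 0) P.nil)))))) (P.cons (P.cons (P.lf 0 97960923 0) (P.cons (P.lf 0 16711422 0) (P.cons (P.lf 6291522 0 0) (P.cons (P.lf 1589478 0 0) (P.cons (P.lf 0 82425 0) P.nil))))) (P.cons (P.cons (P.lf 354501426 0 0) (P.cons (P.lf 25757526 0 0) (P.cons (P.lf 0 10332204 0) (P.cons (P.lf 0 1902246 0) P.nil)))) (P.cons (P.cons (P.lf 0 59150955 0) (P.cons (P.lf 0 9127575 0) (P.cons (P.lf 3635157 0 0) P.nil))) (P.cons (P.cons (P.lf 0 40060365 0) (P.cons (P.lf 0 1187301 0) P.nil)) (P.cons (P.cons (P.lf 12941907 0 0) P.nil) P.nil)))))) 11491743)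
 (EL.cons 8 (TM.mk (P.cons (P.cons (P.lf 0 744672465 0) (P.cons (P.lf 0 9246348 0) (P.cons (P.lf 4530378 0 0) (P.cons (P.lf 0 25491 0) (P.cons (P.lf 48954 0 0) (P.cons (P.lf 22446 0 0) P.nil)))))) (P.cons (P.cons (P.lf 0 471870741 0) (P.cons (P.lf 0 25395627 0) (P.cons (P.lf 10051821 0 0) (P.cons (P.lf 1992129 0 0) (P.cons (P.lf 0 81021 0) P.nil))))) (P.cons (P.cons (P.lf 275951229 0 0) (P.cons (P.lf 21213057 0 0) (P.cons (P.lf 0 8627370 0) (P.cons (P.lf 0 1464774 0) P.nil)))) (P.cons (P.cons (P.lf 76077324 0 0) (P.cons (P.lf 0 12327 0) (P.cons (P.lf 0 63357 0) P.nil))) (P.cons (P.cons (P.lf 0 37661166 0) (P.cons (P.lf 0 3233841 0) P.nil)) (P.cons (P.cons (P.lf 0 1832712 0) P.nil) P.nil)))))) 8830419)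
 (EL.cons 11 (TM.mk (P.cons (P.cons (P.lf 64588665 0 0) (P.cons (P.lf 0 61559328 0) (P.cons (P.lf 0 4282476 0) (P.cons (P.lf 925686 0 0) (P.cons (P.lf 0 39858 0) (P.cons (P.lf 3243 0 0) P.nil)))))) (P.cons (P.cons (P.lf 3100437 0 0) (P.cons (P.lf 0 352044 0) (P.cons (P.lf 0 3752919 0) (P.cons (P.lf 716496 0 0) (P.cons (P.lf 273345 0 0) P.nil))))) (P.cons (P.cons (P.lf 0 36227655 0) (P.cons (P.lf 31937412 0 0) (P.cons (P.lf 5933184 0 0) (P.cons (P.lf 0 1188207 0) P.nil)))) (P.cons (P.cons (P.lf 10756671 0 0) (P.cons (P.lf 0 9447186 0) (P.cons (P.lf 0 1810233 0) P.nil))) (P.cons (P.cons (P.lf 1431270 0 0) (P.cons (P.lf 0 1355859 0) P.nil)) (P.cons (P.cons (P.lf 0 1026117 0) P.nil) P.nil)))))) 3682308)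
 EL.nil)))
noncomputable def S372_430_660_808_25 : EL := (EL.cons 4 (TM.mk (P.cons (P.cons (P.lf 0 1390407537 0) (P.cons (P.lf 0 47165679 0) (P.cons (P.lf 20338371 0 0) (P.lf 2259810 0 0)))) (P.cons (P.cons (P.lf 661446903 0 0) (P.cons (P.lf 41994831 0 0) (P.cons (P.lf 0 18108642 0) (P.lf 0 2012067 0)))) (P.cons (P.cons (P.lf 171885930 0 0) (P.cons (P.lf 0 5616990 0) (P.cons (P.lf 2422104 0 0) (P.lf 269121 0 0)))) (P.cons (P.cons (P.lf 0 116578629 0) (P.cons (P.lf 0 4782081 0) (P.cons (P.lf 2062086 0 0) P.nil))) (P.cons (P.cons (P.lf 1032705 0 0) (P.cons (P.lf 1538598 0 0) P.nil)) (P.cons (P.cons (P.lf 7182879 0 0) P.nil) P.nil)))))) 5054853)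
 (EL.cons 8 (TM.mk (P.cons (P.cons (P.lf 0 1753059279 0) (P.cons (P.lf 0 59467632 0) (P.cons (P.lf 25643115 0 0) (P.lf 2849235 0 0)))) (P.cons (P.cons (P.lf 13883571 0 0) (P.cons (P.lf 25129023 0 0) (P.cons (P.lf 0 10835919 0) (P.lf 0 1203990 0)))) (P.cons (P.cons (P.lf 340282308 0 0) (P.cons (P.lf 8644623 0 0) (P.cons (P.lf 0 3727659 0) (P.lf 0 414183 0)))) (P.cons (P.cons (P.lf 0 12141480 0) (P.cons (P.lf 0 4457757 0) (P.cons (P.lf 1922232 0 0) P.nil))) (P.cons (P.cons (P.lf 0 22233633 0) (P.cons (P.lf 0 228252 0) P.nil)) (P.cons (P.cons (P.lf 3037389 0 0) P.nil) P.nil)))))) 3346719)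
 (EL.cons 11 (TM.mk (P.cons (P.cons (P.lf 152050416 0 0) (P.cons (P.lf 0 141649026 0) (P.cons (P.lf 0 14537796 0) (P.cons (P.lf 3023454 0 0) (P.lf 251952 0 0))))) (P.cons (P.cons (P.lf 0 90253920 0) (P.cons (P.lf 84079875 0 0) (P.cons (P.lf 8629329 0 0) (P.cons (P.lf 0 1794657 0) (P.lf 0 149553 0))))) (P.cons (P.cons (P.lf 0 1321347 0) (P.cons (P.lf 1230957 0 0) (P.cons (P.lf 126336 0 0) (P.cons (P.lf 0 26274 0) P.nil)))) (P.cons (P.cons (P.lf 8560338 0 0) (P.cons (P.lf 0 7974747 0) (P.cons (P.lf 0 818466 0) P.nil))) (P.cons (P.cons (P.lf 0 1122099 0) (P.cons (P.lf 1045341 0 0) P.nil)) (P.cons (P.cons (P.lf 0 180654 0) P.nil) P.nil)))))) 984315)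
 EL.nil)))
noncomputable def S372_430_660_808_26 : EL := (EL.cons 4 (TM.mk (P.cons (P.cons (P.lf 0 477556203 0) (P.cons (P.lf 0 5929653 0) (P.cons (P.lf 2905317 0 0) (P.cons (P.lf 0 16350 0) (P.cons (P.lf 31395 0 0) (P.cons (P.lf 14394 0 0) P.nil)))))) (P.cons (P.cons (P.lf 0 120041589 0) (P.cons (P.lf 0 14019255 0) (P.cons (P.lf 5335512 0 0) (P.cons (P.lf 1283793 0 0) (P.cons (P.lf 0 63960 0) P.nil))))) (P.cons (P.cons (P.lf 290006835 0 0) (P.cons (P.lf 19797135 0 0) (P.cons (P.lf 0 7980963 0) (P.cons (P.lf 0 1427844 0) P.nil)))) (P.cons (P.cons (P.lf 0 22329495 0) (P.cons (P.lf 0 5321037 0) (P.cons (P.lf 2121087 0 0) P.nil))) (P.cons (P.cons (P.lf 0 42720573 0) (P.cons (P.lf 0 2053491 0) P.nil)) (P.cons (P.cons (P.lf 9132975 0 0) P.nil) P.nil)))))) 11412600)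
 (EL.cons 8 (TM.mk (P.cons (P.cons (P.lf 0 602114349 0) (P.cons (P.lf 0 7476252 0) (P.cons (P.lf 3663096 0 0) (P.cons (P.lf 0 20613 0) (P.cons (P.lf 39582 0 0) (P.cons (P.lf 18150 0 0) P.nil)))))) (P.cons (P.cons (P.lf 0 433021611 0) (P.cons (P.lf 0 21173220 0) (P.cons (P.lf 8440746 0 0) (P.cons (P.lf 1608996 0 0) (P.cons (P.lf 0 62124 0) P.nil))))) (P.cons (P.cons (P.lf 203288541 0 0) (P.cons (P.lf 15555093 0 0) (P.cons (P.lf 0 6358614 0) (P.cons (P.lf 0 1046193 0) P.nil)))) (P.cons (P.cons (P.lf 87820617 0 0) (P.cons (P.lf 1881906 0 0) (P.cons (P.lf 0 815001 0) P.nil))) (P.cons (P.cons (P.lf 0 30531192 0) (P.cons (P.lf 0 3010320 0) P.nil)) (P.cons (P.cons (P.lf 0 5082006 0) P.nil) P.nil)))))) 8624946)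
 (EL.cons 11 (TM.mk (P.cons (P.cons (P.lf 52223982 0 0) (P.cons (P.lf 0 49774575 0) (P.cons (P.lf 0 3462651 0) (P.cons (P.lf 748476 0 0) (P.cons (P.lf 0 32229 0) (P.cons (P.lf 2622 0 0) P.nil)))))) (P.cons (P.cons (P.lf 6972375 0 0) (P.cons (P.lf 0 4540686 0) (P.cons (P.lf 0 3330546 0) (P.cons (P.lf 643329 0 0) (P.cons (P.lf 218262 0 0) P.nil))))) (P.cons (P.cons (P.lf 0 30187176 0) (P.cons (P.lf 26856237 0 0) (P.cons (P.lf 4611429 0 0) (P.cons (P.lf 0 927102 0) P.nil)))) (P.cons (P.cons (P.lf 6215391 0 0) (P.cons (P.lf 0 5496846 0) (P.cons (P.lf 0 994062 0) P.nil))) (P.cons (P.cons (P.lf 2530761 0 0) (P.cons (P.lf 0 2302158 0) P.nil)) (P.cons (P.cons (P.lf 0 959145 0) P.nil) P.nil)))))) 3659970)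
 EL.nil)))
noncomputable def S372_430_660_808_27 : EL := (EL.cons 13 (TM.mk (P.lf 0 4294967296 0) 0)
 EL.nil)
noncomputable def S372_430_660_808_28 : EL := (EL.cons 13 (TM.mk (P.cons (P.cons (P.lf 0 1475170566 0) (P.cons (P.lf 31724336 0 0) (P.cons (P.lf 0 13679892 0) (P.lf 0 1519984 0)))) (P.cons (P.cons (P.lf 0 1072578846 0) (P.cons (P.lf 0 36384236 0) (P.cons (P.lf 15689292 0 0) (P.lf 1743252 0 0)))) (P.cons (P.cons (P.lf 203217297 0 0) (P.cons (P.lf 14436880 0 0) (P.cons (P.lf 0 6225344 0) (P.lf 0 691704 0)))) (P.cons (P.cons (P.lf 18789560 0 0) (P.cons (P.lf 0 1819520 0) (P.cons (P.lf 784596 0 0) P.nil))) (P.cons (P.cons (P.lf 0 9068300 0) (P.cons (P.lf 0 239172 0) P.nil)) (P.cons (P.cons (P.lf 764432 0 0) P.nil) P.nil)))))) 736894)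
 EL.nil)
noncomputable def S372_430_660_808_29 : EL := (EL.cons 13 (TM.mk (P.cons (P.cons (P.lf 0 506669329 0) (P.cons (P.lf 21792392 0 0) (P.cons (P.lf 0 9631454 0) (P.cons (P.lf 0 842032 0) (P.cons (P.lf 0 21117 0) (P.cons (P.lf 0 9682 0) P.nil)))))) (P.cons (P.cons (P.lf 0 736786398 0) (P.cons (P.lf 0 9148429 0) (P.cons (P.lf 4482401 0 0) (P.cons (P.lf 0 25226 0) (P.cons (P.lf 48438 0 0) P.nil))))) (P.cons (P.cons (P.lf 0 128258259 0) (P.cons (P.lf 0 11257378 0) (P.cons (P.lf 4332811 0 0) (P.cons (P.lf 989117 0 0) P.nil)))) (P.cons (P.cons (P.lf 114405704 0 0) (P.cons (P.lf 9126220 0 0) (P.cons (P.lf 0 3663849 0) P.nil))) (P.cons (P.cons (P.lf 0 6459951 0) (P.cons (P.lf 0 1986926 0) P.nil)) (P.cons (P.cons (P.lf 0 5782191 0) P.nil) P.nil)))))) 5987900)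
 EL.nil)
noncomputable def S372_430_660_808_30 : EL := (EL.cons 13 (TM.mk (P.cons (P.lf 0 3472750184 0) (P.cons (P.lf 0 296941892 0) (P.cons (P.lf 73758800 0 0) (P.cons (P.lf 0 5045120 0) (P.cons (P.lf 0 266856 0) (P.cons (P.lf 88316 0 0) P.nil)))))) 15692)
 EL.nil)
noncomputable def S372_430_660_808_31 : EL := (EL.cons 13 (TM.mk (P.cons (P.cons (P.lf 0 1192767837 0) (P.cons (P.lf 25651113 0 0) (P.cons (P.lf 0 11061049 0) (P.lf 0 1229002 0)))) (P.cons (P.cons (P.lf 0 969236326 0) (P.cons (P.lf 0 27225603 0) (P.cons (P.lf 11739986 0 0) (P.lf 1304441 0 0)))) (P.cons (P.cons (P.lf 115492410 0 0) (P.cons (P.lf 8612807 0 0) (P.cons (P.lf 0 3713938 0) (P.lf 0 412659 0)))) (P.cons (P.cons (P.lf 45929311 0 0) (P.cons (P.lf 189032 0 0) (P.cons (P.lf 0 81513 0) P.nil))) (P.cons (P.cons (P.lf 0 10874714 0) (P.cons (P.lf 0 607878 0) P.nil)) (P.cons (P.cons (P.lf 0 129141 0) P.nil)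 P.nil)))))) 1342750)
 EL.nil)
noncomputable def S372_430_660_808_32 : EL := (EL.cons 13 (TM.mk (P.cons (P.cons (P.lf 0 409673900 0) (P.cons (P.lf 17620514 0 0) (P.cons (P.lf 0 7787634 0) (P.cons (P.lf 0 680835 0) (P.cons (P.lf 0 17074 0) (P.cons (P.lf 0 7828 0) P.nil)))))) (P.cons (P.cons (P.lf 0 630767654 0) (P.cons (P.lf 0 5890413 0) (P.cons (P.lf 2958410 0 0) (P.cons (P.lf 0 78612 0) (P.cons (P.lf 37705 0 0) P.nil))))) (P.cons (P.cons (P.lf 0 145942978 0) (P.cons (P.lf 0 10109039 0) (P.cons (P.lf 3978653 0 0) (P.cons (P.lf 812479 0 0) P.nil)))) (P.cons (P.cons (P.lf 95694664 0 0) (P.cons (P.lf 6783524 0 0) (P.cons (P.lf 0 2751184 0) P.nil))) (P.cons (P.cons (P.lf 3992077 0 0) (P.cons (P.lf 0 791658 0) P.nil)) (P.cons (P.cons (P.lf 0 7272630 0) P.nil) P.nil)))))) 7025034)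
 EL.nil)
noncomputable def S372_430_660_808_33 : EL := (EL.cons 14 (TM.mk (P.lf 8589934592 0 0) 0)
 EL.nil)
noncomputable def S372_430_660_808_34 : EL := (EL.cons 14 (TM.mk (P.cons (P.cons (P.lf 2950341132 0 0) (P.cons (P.lf 0 63448672 0) (P.cons (P.lf 27359784 0 0) (P.lf 3039968 0 0)))) (P.cons (P.cons (P.lf 2145157692 0 0) (P.cons (P.lf 72768472 0 0) (P.cons (P.lf 0 31378584 0) (P.lf 0 3486504 0)))) (P.cons (P.cons (P.lf 0 406434594 0) (P.cons (P.lf 0 28873760 0) (P.cons (P.lf 12450688 0 0) (P.lf 1383408 0 0)))) (P.cons (P.cons (P.lf 0 37579120 0) (P.cons (P.lf 3639040 0 0) (P.cons (P.lf 0 1569192 0) P.nil))) (P.cons (P.cons (P.lf 18136600 0 0) (P.cons (P.lf 478344 0 0) P.nil)) (P.cons (P.cons (P.lf 0 1528864 0) P.nil) P.nil)))))) 1473788)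
 EL.nil)
noncomputable def S372_430_660_808_35 : EL := (EL.cons 14 (TM.mk (P.cons (P.cons (P.lf 1013338658 0 0) (P.cons (P.lf 0 43584784 0) (P.cons (P.lf 19262908 0 0) (P.cons (P.lf 1684064 0 0) (P.cons (P.lf 42234 0 0) (P.cons (P.lf 19364 0 0) P.nil)))))) (P.cons (P.cons (P.lf 1473572796 0 0) (P.cons (P.lf 18296858 0 0) (P.cons (P.lf 0 8964802 0) (P.cons (P.lf 50452 0 0) (P.cons (P.lf 0 96876 0) P.nil))))) (P.cons (P.cons (P.lf 256516518 0 0) (P.cons (P.lf 22514756 0 0) (P.cons (P.lf 0 8665622 0) (P.cons (P.lf 0 1978234 0) P.nil)))) (P.cons (P.cons (P.lf 0 228811408 0) (P.cons (P.lf 0 18252440 0) (P.cons (P.lf 7327698 0 0) P.nil))) (P.cons (P.cons (P.lf 12919902 0 0) (P.cons (P.lf 3973852 0 0) P.nil)) (P.cons (P.cons (P.lf 11564382 0 0) P.nil) P.nil)))))) 11975800)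
 EL.nil)
noncomputable def S372_430_660_808_36 : EL := (EL.cons 14 (TM.mk (P.cons (P.lf 6945500368 0 0) (P.cons (P.lf 593883784 0 0) (P.cons (P.lf 0 147517600 0) (P.cons (P.lf 10090240 0 0) (P.cons (P.lf 533712 0 0) (P.cons (P.lf 0 176632 0) P.nil)))))) 31384)
 EL.nil)
noncomputable def S372_430_660_808_37 : EL := (EL.cons 14 (TM.mk (P.cons (P.cons (P.lf 2385535674 0 0) (P.cons (P.lf 0 51302226 0) (P.cons (P.lf 22122098 0 0) (P.lf 2458004 0 0)))) (P.cons (P.cons (P.lf 1938472652 0 0) (P.cons (P.lf 54451206 0 0) (P.cons (P.lf 0 23479972 0) (P.lf 0 2608882 0)))) (P.cons (P.cons (P.lf 0 230984820 0) (P.cons (P.lf 0 17225614 0) (P.cons (P.lf 7427876 0 0) (P.lf 825318 0 0)))) (P.cons (P.cons (P.lf 0 91858622 0) (P.cons (P.lf 0 378064 0) (P.cons (P.lf 163026 0 0) P.nil))) (P.cons (P.cons (P.lf 21749428 0 0) (P.cons (P.lf 1215756 0 0) P.nil)) (P.cons (P.cons (P.lf 258282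 0 0) P.nil) P.nil)))))) 2685500)
 EL.nil)
noncomputable def S372_430_660_808_38 : EL := (EL.cons 14 (TM.mk (P.cons (P.cons (P.lf 819347800 0 0) (P.cons (P.lf 0 35241028 0) (P.cons (P.lf 15575268 0 0) (P.cons (P.lf 1361670 0 0) (P.cons (P.lf 34148 0 0) (P.cons (P.lf 15656 0 0) P.nil)))))) (P.cons (P.cons (P.lf 1261535308 0 0) (P.cons (P.lf 11780826 0 0) (P.cons (P.lf 0 5916820 0) (P.cons (P.lf 157224 0 0) (P.cons (P.lf 0 75410 0) P.nil))))) (P.cons (P.cons (P.lf 291885956 0 0) (P.cons (P.lf 20218078 0 0) (P.cons (P.lf 0 7957306 0) (P.cons (P.lf 0 1624958 0) P.nil)))) (P.cons (P.cons (P.lf 0 191389328 0) (P.cons (P.lf 0 13567048 0) (P.cons (P.lf 5502368 0 0) P.nil))) (P.cons (P.cons (P.lf 0 7984154 0) (P.cons (P.lf 1583316 0 0) P.nil)) (P.cons (P.cons (P.lf 14545260 0 0) P.nil) P.nil)))))) 14050068)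
 EL.nil)
noncomputable def S372_430_660_808_39 : EL := (EL.cons 14 (TM.mk (P.cons (P.lf 5615872256 0 0) (P.cons (P.lf 960384504 0 0) (P.cons (P.lf 0 197495000 0) (P.cons (P.lf 0 4080716 0) (P.cons (P.lf 4791664 0 0) (P.cons (P.lf 0 558402 0) P.nil)))))) 118664)
 EL.nil)
noncomputable def S372_430_660_808_40 : EL := (EL.cons 14 (TM.mk (P.cons (P.cons (P.lf 1928855072 0 0) (P.cons (P.lf 0 41481064 0) (P.cons (P.lf 17887102 0 0) (P.lf 1987450 0 0)))) (P.cons (P.cons (P.lf 1732305794 0 0) (P.cons (P.lf 40480322 0 0) (P.cons (P.lf 0 17455570 0) (P.lf 0 1939504 0)))) (P.cons (P.cons (P.lf 0 93712724 0) (P.cons (P.lf 0 9282356 0) (P.cons (P.lf 4002654 0 0) (P.lf 444738 0 0)))) (P.cons (P.cons (P.lf 0 120730888 0) (P.cons (P.lf 0 2491988 0) (P.cons (P.lf 1074574 0 0) P.nil))) (P.cons (P.cons (P.lf 17626966 0 0) (P.cons (P.lf 1313472 0 0) P.nil)) (P.cons (P.cons (P.lf 3090108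 0 0) P.nil) P.nil)))))) 3396408)
 EL.nil)
noncomputable def S372_430_660_808_41 : EL := (EL.cons 14 (TM.mk (P.cons (P.cons (P.lf 662494038 0 0) (P.cons (P.lf 0 28494580 0) (P.cons (P.lf 12593580 0 0) (P.cons (P.lf 1100996 0 0) (P.cons (P.lf 27610 0 0) (P.cons (P.lf 12658 0 0) P.nil)))))) (P.cons (P.cons (P.lf 1076677734 0 0) (P.cons (P.lf 7089072 0 0) (P.cons (P.lf 0 3707290 0) (P.cons (P.lf 221268 0 0) (P.cons (P.lf 0 58612 0) P.nil))))) (P.cons (P.cons (P.lf 309156154 0 0) (P.cons (P.lf 17767280 0 0) (P.cons (P.lf 0 7110532 0) (P.cons (P.lf 0 1326394 0) P.nil)))) (P.cons (P.cons (P.lf 0 155272376 0) (P.cons (P.lf 0 9815700 0) (P.cons (P.lf 4018770 0 0) P.nil))) (P.cons (P.cons (P.lf 0 23167672 0) (P.cons (P.lf 6660 0 0) P.nil)) (P.cons (P.cons (P.lf 14899940 0 0) P.nil) P.nil)))))) 14423876)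
 EL.nil)
noncomputable def S372_430_660_808_42 : EL := (EL.cons 14 (TM.mk (P.cons (P.lf 4540784612 0 0) (P.cons (P.lf 1164796574 0 0) (P.cons (P.lf 0 189731922 0) (P.cons (P.lf 0 26850006 0) (P.cons (P.lf 8460924 0 0) (P.cons (P.lf 0 337936 0) P.nil)))))) 309558)
 EL.nil)
noncomputable def S372_430_660_808_43 : EL := (EL.cons 14 (TM.mk (P.cons (P.cons (P.lf 1559600188 0 0) (P.cons (P.lf 0 33540040 0) (P.cons (P.lf 14462844 0 0) (P.lf 1606978 0 0)))) (P.cons (P.cons (P.lf 1534033366 0 0) (P.cons (P.lf 29862992 0 0) (P.cons (P.lf 0 12877258 0) (P.lf 0 1430804 0)))) (P.cons (P.cons (P.lf 10869288 0 0) (P.cons (P.lf 0 3994304 0) (P.cons (P.lf 1722388 0 0) (P.lf 191376 0 0)))) (P.cons (P.cons (P.lf 0 131581196 0) (P.cons (P.lf 0 3400592 0) (P.cons (P.lf 1466374 0 0) P.nil))) (P.cons (P.cons (P.lf 9669584 0 0) (P.cons (P.lf 1094118 0 0) P.nil)) (P.cons (P.cons (P.lf 5748462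 0 0) P.nil) P.nil)))))) 4043598)
 EL.nil)
noncomputable def S372_430_660_808_44 : EL := (EL.cons 14 (TM.mk (P.cons (P.cons (P.lf 535667942 0 0) (P.cons (P.lf 0 23039652 0) (P.cons (P.lf 10182698 0 0) (P.cons (P.lf 890224 0 0) (P.cons (P.lf 22324 0 0) (P.cons (P.lf 10236 0 0) P.nil)))))) (P.cons (P.cons (P.lf 916364378 0 0) (P.cons (P.lf 3761924 0 0) (P.cons (P.lf 0 2126892 0) (P.cons (P.lf 255028 0 0) (P.cons (P.lf 0 45482 0) P.nil))))) (P.cons (P.cons (P.lf 313033362 0 0) (P.cons (P.lf 15345424 0 0) (P.cons (P.lf 0 6221896 0) (P.cons (P.lf 0 1076082 0) P.nil)))) (P.cons (P.cons (P.lf 0 121885178 0) (P.cons (P.lf 0 6863442 0) (P.cons (P.lf 2836286 0 0) P.nil))) (P.cons (P.cons (P.lf 0 33470950 0) (P.cons (P.lf 0 971808 0) P.nil)) (P.cons (P.cons (P.lf 13528754 0 0) P.nil) P.nil)))))) 14918156)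
 EL.nil)
noncomputable def S372_430_660_808_45 : EL := (EL.cons 14 (TM.mk (P.cons (P.cons (P.lf 348046272 0 0) (P.cons (P.lf 0 22454766 0) (P.cons (P.lf 10165650 0 0) (P.cons (P.lf 655930 0 0) (P.cons (P.lf 47996 0 0) (P.cons (P.lf 18518 0 0) P.nil)))))) (P.cons (P.cons (P.lf 759180826 0 0) (P.cons (P.lf 0 6900098 0) (P.cons (P.lf 2218846 0 0) (P.cons (P.lf 994978 0 0) (P.cons (P.lf 0 83586 0) P.nil))))) (P.cons (P.cons (P.lf 408152276 0 0) (P.cons (P.lf 21546768 0 0) (P.cons (P.lf 0 9088408 0) (P.cons (P.lf 0 1225640 0) P.nil)))) (P.cons (P.cons (P.lf 0 88684570 0) (P.cons (P.lf 0 1982288 0) (P.cons (P.lf 1223160 0 0) P.nil))) (P.cons (P.cons (P.lf 0 69147518 0) (P.cons (P.lf 0 6645972 0) P.nil)) (P.cons (P.cons (P.lf 19833404 0 0) P.nil) P.nil)))))) 26685100)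
 EL.nil)
noncomputable def S372_430_660_808_46 : EL := (EL.cons 15 (TM.mk (P.lf 4294967296 0 0) 0)
 EL.nil)
noncomputable def S372_430_660_808_47 : EL := (EL.cons 15 (TM.mk (P.cons (P.cons (P.lf 1475170566 0 0) (P.cons (P.lf 0 31724336 0) (P.cons (P.lf 13679892 0 0) (P.lf 1519984 0 0)))) (P.cons (P.cons (P.lf 1072578846 0 0) (P.cons (P.lf 36384236 0 0) (P.cons (P.lf 0 15689292 0) (P.lf 0 1743252 0)))) (P.cons (P.cons (P.lf 0 203217297 0) (P.cons (P.lf 0 14436880 0) (P.cons (P.lf 6225344 0 0) (P.lf 691704 0 0)))) (P.cons (P.cons (P.lf 0 18789560 0) (P.cons (P.lf 1819520 0 0) (P.cons (P.lf 0 784596 0) P.nil))) (P.cons (P.cons (P.lf 9068300 0 0) (P.cons (P.lf 239172 0 0) P.nil)) (P.cons (P.cons (P.lf 0 764432 0) P.nil) P.nil)))))) 736894)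
 EL.nil)
noncomputable def S372_430_660_808_48 : EL := (EL.cons 15 (TM.mk (P.cons (P.cons (P.lf 506669329 0 0) (P.cons (P.lf 0 21792392 0) (P.cons (P.lf 9631454 0 0) (P.cons (P.lf 842032 0 0) (P.cons (P.lf 21117 0 0) (P.cons (P.lf 9682 0 0) P.nil)))))) (P.cons (P.cons (P.lf 736786398 0 0) (P.cons (P.lf 9148429 0 0) (P.cons (P.lf 0 4482401 0) (P.cons (P.lf 25226 0 0) (P.cons (P.lf 0 48438 0) P.nil))))) (P.cons (P.cons (P.lf 128258259 0 0) (P.cons (P.lf 11257378 0 0) (P.cons (P.lf 0 4332811 0) (P.cons (P.lf 0 989117 0) P.nil)))) (P.cons (P.cons (P.lf 0 114405704 0) (P.cons (P.lf 0 9126220 0) (P.cons (P.lf 3663849 0 0) P.nil))) (P.cons (P.cons (P.lf 6459951 0 0) (P.cons (P.lf 1986926 0 0) P.nil)) (P.cons (P.cons (P.lf 5782191 0 0) P.nil) P.nil)))))) 5987900)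
 EL.nil)
noncomputable def S372_430_660_808 : SL := (SL.cons S372_430_660_808_0 (SL.cons S372_430_660_808_1 (SL.cons S372_430_660_808_2 (SL.cons S372_430_660_808_3 (SL.cons S372_430_660_808_4 (SL.cons S372_430_660_808_5 (SL.cons S372_430_660_808_6 (SL.cons S372_430_660_808_7 (SL.cons S372_430_660_808_8 (SL.cons S372_430_660_808_9 (SL.cons S372_430_660_808_10 (SL.cons S372_430_660_808_11 (SL.cons S372_430_660_808_12 (SL.cons S372_430_660_808_13 (SL.cons S372_430_660_808_14 (SL.cons S372_430_660_808_15 (SL.cons S372_430_660_808_16 (SL.cons S372_430_660_808_17 (SL.cons S372_430_660_808_18 (SL.cons S372_430_660_808_19 (SL.cons S372_430_660_808_20 (SL.cons S372_430_660_808_21 (SL.cons S372_430_660_808_22 (SL.cons S372_430_660_808_23 (SL.cons S372_430_660_808_24 (SL.cons S372_430_660_808_25 (SL.cons S372_430_660_808_26 (SL.cons S372_430_660_808_27 (SL.cons S372_430_660_808_28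 (SL.cons S372_430_660_808_29 (SL.cons S372_430_660_808_30 (SL.cons S372_430_660_808_31 (SL.cons S372_430_660_808_32 (SL.cons S372_430_660_808_33 (SL.cons S372_430_660_808_34 (SL.cons S372_430_660_808_35 (SL.cons S372_430_660_808_36 (SL.cons S372_430_660_808_37 (SL.cons S372_430_660_808_38 (SL.cons S372_430_660_808_39 (SL.cons S372_430_660_808_40 (SL.cons S372_430_660_808_41 (SL.cons S372_430_660_808_42 (SL.cons S372_430_660_808_43 (SL.cons S372_430_660_808_44 (SL.cons S372_430_660_808_45 (SL.cons S372_430_660_808_46 (SL.cons S372_430_660_808_47 (SL.cons S372_430_660_808_48 SL.nil)))))))))))))))))))))))))))))))))))))))))))))))))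
noncomputable def S386_401_216_364_0 : EL := (EL.cons 0 (TM.mk (P.cons (P.lf 3749718611 0 0) (P.cons (P.lf 0 241253933 0) (P.cons (P.lf 11305019 0 0) (P.cons (P.lf 143017 0 0) (P.cons (P.lf 0 21610 0) (P.cons (P.lf 532 0 0) P.nil)))))) 242)
 (EL.cons 1 (TM.mk (P.cons (P.lf 1493911567 0 0) (P.cons (P.lf 0 96814440 0) (P.cons (P.lf 0 5526710 0) (P.cons (P.lf 348346 0 0) (P.cons (P.lf 0 3322 0) (P.cons (P.lf 0 335 0) P.nil)))))) 136)
 (EL.cons 5 (TM.mk (P.cons (P.lf 5968211122 0 0) (P.cons (P.lf 85779174 0 0) (P.cons (P.lf 0 4019562 0) (P.cons (P.lf 0 50846 0) (P.cons (P.lf 7688 0 0) (P.cons (P.lf 0 190 0) P.nil)))))) 71)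
 (EL.cons 9 (TM.mk (P.lf 6442450944 0 0) 2)
 EL.nil))))
noncomputable def S386_401_216_364_1 : EL := (EL.cons 0 (TM.mk (P.cons (P.cons (P.lf 3573904016 0 0) (P.cons (P.lf 101703907 0 0) (P.cons (P.lf 43855866 0 0) (P.lf 0 4872864 0)))) (P.cons (P.cons (P.lf 0 30627957 0) (P.cons (P.lf 0 18127888 0) (P.cons (P.lf 0 7816943 0) (P.lf 868538 0 0)))) (P.cons (P.cons (P.lf 0 44300022 0) (P.cons (P.lf 0 471046 0) (P.cons (P.lf 0 203123 0) (P.lf 22589 0 0)))) (P.cons (P.cons (P.lf 2388322 0 0) (P.cons (P.lf 288255 0 0) (P.cons (P.lf 124288 0 0) P.nil))) (P.cons (P.cons (P.lf 198468 0 0) (P.cons (P.lf 0 18501 0) P.nil)) (P.cons (P.cons (P.lf 0 18648 0) P.nil) P.nil)))))) 52576)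
 (EL.cons 1 (TM.mk (P.cons (P.cons (P.lf 1430019029 0 0) (P.cons (P.lf 40919787 0 0) (P.cons (P.lf 17645073 0 0) (P.lf 0 1960566 0)))) (P.cons (P.cons (P.lf 164854947 0 0) (P.cons (P.lf 4249713 0 0) (P.cons (P.lf 1832520 0 0) (P.lf 0 203609 0)))) (P.cons (P.cons (P.lf 0 20308265 0) (P.cons (P.lf 0 2048238 0) (P.cons (P.lf 0 883223 0) (P.lf 98121 0 0)))) (P.cons (P.cons (P.lf 0 1948617 0) (P.cons (P.lf 120903 0 0) (P.cons (P.lf 52133 0 0) P.nil))) (P.cons (P.cons (P.lf 170567 0 0) (P.cons (P.lf 6161 0 0) P.nil)) (P.cons (P.cons (P.lf 2159 0 0) P.nil) P.nil)))))) 21742)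
 (EL.cons 5 (TM.mk (P.cons (P.cons (P.lf 1543350624 0 0) (P.cons (P.lf 0 107782318 0) (P.cons (P.lf 0 46476954 0) (P.lf 5164104 0 0)))) (P.cons (P.cons (P.lf 309585026 0 0) (P.cons (P.lf 25877360 0 0) (P.cons (P.lf 11158608 0 0) (P.lf 0 1239838 0)))) (P.cons (P.cons (P.lf 14724227 0 0) (P.cons (P.lf 0 1621778 0) (P.cons (P.lf 0 699326 0) (P.lf 77696 0 0)))) (P.cons (P.cons (P.lf 0 2186894 0) (P.cons (P.lf 0 58146 0) (P.cons (P.lf 0 25064 0) P.nil))) (P.cons (P.cons (P.lf 0 26110 0) (P.cons (P.lf 9358 0 0) P.nil)) (P.cons (P.cons (P.lf 7804 0 0) P.nil) P.nil)))))) 16576)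
 (EL.cons 9 (TM.mk (P.cons (P.cons (P.lf 2483004742 0 0) (P.cons (P.lf 0 63194934 0) (P.cons (P.lf 0 27250368 0) (P.lf 3027816 0 0)))) (P.cons (P.cons (P.lf 263554494 0 0) (P.cons (P.lf 17145780 0 0) (P.cons (P.lf 7393452 0 0) (P.lf 0 821490 0)))) (P.cons (P.cons (P.lf 0 906082 0) (P.cons (P.lf 0 1578756 0) (P.cons (P.lf 0 680778 0) (P.lf 75636 0 0)))) (P.cons (P.cons (P.lf 0 1180330 0) (P.cons (P.lf 39120 0 0) (P.cons (P.lf 16872 0 0) P.nil))) (P.cons (P.cons (P.lf 39216 0 0) (P.cons (P.lf 2448 0 0) P.nil)) (P.cons (P.cons (P.lf 1036 0 0) P.nil) P.nil)))))) 5216)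
 (EL.cons 2 (TM.mk (P.cons (P.cons (P.lf 0 207980915 0) (P.cons (P.lf 0 193753462 0) (P.cons (P.lf 19885404 0 0) (P.cons (P.lf 4135609 0 0) (P.lf 0 344632 0))))) (P.cons (P.cons (P.lf 32287913 0 0) (P.cons (P.lf 30079178 0 0) (P.cons (P.lf 0 3087098 0) (P.cons (P.lf 0 642029 0) (P.lf 53502 0 0))))) (P.cons (P.cons (P.lf 0 480391 0) (P.cons (P.lf 0 447530 0) (P.cons (P.lf 45928 0 0) (P.cons (P.lf 9548 0 0) P.nil)))) (P.cons (P.cons (P.lf 0 130019 0) (P.cons (P.lf 0 121125 0) (P.cons (P.lf 12431 0 0) P.nil))) (P.cons (P.cons (P.lf 6291 0 0) (P.cons (P.lf 5861 0 0) P.nil)) (P.cons (P.cons (P.lf 19 0 0) P.nil) P.nil)))))) 9271)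
 (EL.cons 6 (TM.mk (P.cons (P.cons (P.lf 66023205 0 0) (P.cons (P.lf 61506723 0 0) (P.cons (P.lf 0 6312588 0) (P.cons (P.lf 0 1312842 0) (P.lf 109401 0 0))))) (P.cons (P.cons (P.lf 0 17913138 0) (P.cons (P.lf 0 16687746 0) (P.cons (P.lf 1712703 0 0) (P.cons (P.lf 356193 0 0) (P.lf 0 29682 0))))) (P.cons (P.cons (P.lf 1649418 0 0) (P.cons (P.lf 1536585 0 0) (P.cons (P.lf 0 157701 0) (P.cons (P.lf 0 32796 0) P.nil)))) (P.cons (P.cons (P.lf 0 40875 0) (P.cons (P.lf 0 38079 0) (P.cons (P.lf 3906 0 0) P.nil))) (P.cons (P.cons (P.lf 0 2562 0) (P.cons (P.lf 0 2385 0) P.nil)) (P.cons (P.cons (P.lf 186 0 0) P.nil) P.nil)))))) 4746)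
 EL.nil))))))
noncomputable def S386_401_216_364_2 : EL := (EL.cons 0 (TM.mk (P.cons (P.cons (P.lf 2197863270 0 0) (P.cons (P.lf 36634313 0 0) (P.cons (P.lf 13441075 0 0) (P.cons (P.lf 0 3787133 0) (P.cons (P.lf 0 212319 0) (P.cons (P.lf 97344 0 0) P.nil)))))) (P.cons (P.cons (P.lf 186395051 0 0) (P.cons (P.lf 7464481 0 0) (P.cons (P.lf 4334742 0 0) (P.cons (P.lf 604789 0 0) (P.cons (P.lf 100561 0 0) P.nil))))) (P.cons (P.cons (P.lf 0 37599294 0) (P.cons (P.lf 0 2652180 0) (P.cons (P.lf 0 1339009 0) (P.cons (P.lf 0 41397 0) P.nil)))) (P.cons (P.cons (P.lf 0 2511937 0) (P.cons (P.lf 0 31200 0) (P.cons (P.lf 0 2725 0) P.nil))) (P.cons (P.cons (P.lf 398281 0 0) (P.cons (P.lf 47363 0 0) P.nil)) (P.cons (P.cons (P.lf 15298 0 0) P.nil) P.nil)))))) 431429)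
 (EL.cons 1 (TM.mk (P.cons (P.cons (P.lf 880385578 0 0) (P.cons (P.lf 14783196 0 0) (P.cons (P.lf 5428165 0 0) (P.cons (P.lf 0 1524601 0) (P.cons (P.lf 0 85300 0) (P.cons (P.lf 39112 0 0) P.nil)))))) (P.cons (P.cons (P.lf 211348395 0 0) (P.cons (P.lf 8403462 0 0) (P.cons (P.lf 3845406 0 0) (P.cons (P.lf 0 211383 0) (P.cons (P.lf 19986 0 0) P.nil))))) (P.cons (P.cons (P.lf 0 1032568 0) (P.cons (P.lf 0 635722 0) (P.cons (P.lf 0 253670 0) (P.cons (P.lf 48097 0 0) P.nil)))) (P.cons (P.cons (P.lf 0 3231757 0) (P.cons (P.lf 0 192556 0) (P.cons (P.lf 0 94930 0) P.nil))) (P.cons (P.cons (P.lf 0 66510 0) (P.cons (P.lf 12339 0 0) P.nil)) (P.cons (P.cons (P.lf 22836 0 0) P.nil) P.nil)))))) 175755)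
 (EL.cons 5 (TM.mk (P.cons (P.cons (P.lf 303117637 0 0) (P.cons (P.lf 0 68232811 0) (P.cons (P.lf 0 27882510 0) (P.cons (P.lf 4597529 0 0) (P.cons (P.lf 138801 0 0) (P.cons (P.lf 0 63642 0) P.nil)))))) (P.cons (P.cons (P.lf 163968182 0 0) (P.cons (P.lf 6464684 0 0) (P.cons (P.lf 2009644 0 0) (P.cons (P.lf 0 980701 0) (P.cons (P.lf 0 70106 0) P.nil))))) (P.cons (P.cons (P.lf 24796404 0 0) (P.cons (P.lf 1173812 0 0) (P.cons (P.lf 662431 0 0) (P.cons (P.lf 78538 0 0) P.nil)))) (P.cons (P.cons (P.lf 0 222036 0) (P.cons (P.lf 0 80340 0) (P.cons (P.lf 0 48849 0) P.nil))) (P.cons (P.cons (P.lf 0 216650 0) (P.cons (P.lf 0 18545 0) P.nil)) (P.cons (P.cons (P.lf 0 516 0) P.nil) P.nil)))))) 165161)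
 (EL.cons 9 (TM.mk (P.cons (P.cons (P.lf 956982459 0 0) (P.cons (P.lf 0 48712305 0) (P.cons (P.lf 0 20385406 0) (P.cons (P.lf 2868525 0 0) (P.cons (P.lf 55863 0 0) (P.cons (P.lf 0 25614 0) P.nil)))))) (P.cons (P.cons (P.lf 203154688 0 0) (P.cons (P.lf 8045926 0 0) (P.cons (P.lf 3133122 0 0) (P.cons (P.lf 0 675589 0) (P.cons (P.lf 0 30312 0) P.nil))))) (P.cons (P.cons (P.lf 10083328 0 0) (P.cons (P.lf 203664 0 0) (P.cons (P.lf 164425 0 0) (P.cons (P.lf 56302 0 0) P.nil)))) (P.cons (P.cons (P.lf 0 983962 0) (P.cons (P.lf 0 80682 0) (P.cons (P.lf 0 43959 0) P.nil))) (P.cons (P.cons (P.lf 0 66216 0) (P.cons (P.lf 0 1519 0) P.nil)) (P.cons (P.cons (P.lf 4339 0 0) P.nil) P.nil)))))) 72263)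
 (EL.cons 2 (TM.mk (P.cons (P.cons (P.lf 0 160317123 0) (P.cons (P.lf 0 145270001 0) (P.cons (P.lf 20888741 0 0) (P.cons (P.lf 4241306 0 0) (P.cons (P.lf 0 697128 0) (P.cons (P.lf 0 9528 0) P.nil)))))) (P.cons (P.cons (P.lf 7871765 0 0) (P.cons (P.lf 5592813 0 0) (P.cons (P.lf 0 3124541 0) (P.cons (P.lf 0 605891 0) (P.cons (P.lf 197094 0 0) P.nil))))) (P.cons (P.cons (P.lf 2329936 0 0) (P.cons (P.lf 2453765 0 0) (P.cons (P.lf 163198 0 0) (P.cons (P.lf 26791 0 0) P.nil)))) (P.cons (P.cons (P.lf 0 72399 0) (P.cons (P.lf 0 85803 0) (P.cons (P.lf 0 18090 0) P.nil))) (P.cons (P.cons (P.lf 0 20013 0) (P.cons (P.lf 0 18990 0) P.nil)) (P.cons (P.cons (P.lf 1068 0 0) P.nil) P.nil)))))) 111217)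
 (EL.cons 6 (TM.mk (P.cons (P.cons (P.lf 50892408 0 0) (P.cons (P.lf 46115724 0 0) (P.cons (P.lf 0 6631092 0) (P.cons (P.lf 0 1346394 0) (P.cons (P.lf 221298 0 0) (P.cons (P.lf 3024 0 0) P.nil)))))) (P.cons (P.cons (P.lf 0 8406018 0) (P.cons (P.lf 0 7128138 0) (P.cons (P.lf 1761558 0 0) (P.cons (P.lf 348612 0 0) (P.cons (P.lf 0 88248 0) P.nil))))) (P.cons (P.cons (P.lf 0 212772 0) (P.cons (P.lf 0 358284 0) (P.cons (P.lf 0 197790 0) (P.cons (P.lf 0 37092 0) P.nil)))) (P.cons (P.cons (P.lf 84288 0 0) (P.cons (P.lf 97680 0 0) (P.cons (P.lf 18054 0 0) P.nil))) (P.cons (P.cons (P.lf 1578 0 0) (P.cons (P.lf 330 0 0) P.nil)) (P.cons (P.cons (P.lf 0 852 0) P.nil) P.nil)))))) 51516)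
 EL.nil))))))
noncomputable def S386_401_216_364_3 : EL := (EL.cons 0 (TM.mk (P.cons (P.lf 4705998252 0 0) (P.cons (P.lf 241253933 0 0) (P.cons (P.lf 0 11305019 0) (P.cons (P.lf 0 143017 0) (P.cons (P.lf 21610 0 0) (P.cons (P.lf 0 532 0) P.nil)))))) 242)
 (EL.cons 1 (TM.mk (P.cons (P.lf 0 1493911567 0) (P.cons (P.lf 96814440 0 0) (P.cons (P.lf 5526710 0 0) (P.cons (P.lf 0 348346 0) (P.cons (P.lf 3322 0 0) (P.cons (P.lf 335 0 0) P.nil)))))) 136)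
 (EL.cons 5 (TM.mk (P.cons (P.lf 474239822 0 0) (P.cons (P.lf 0 85779174 0) (P.cons (P.lf 4019562 0 0) (P.cons (P.lf 50846 0 0) (P.cons (P.lf 0 7688 0) (P.cons (P.lf 190 0 0) P.nil)))))) 64)
 EL.nil)))
noncomputable def S386_401_216_364_4 : EL := (EL.cons 0 (TM.mk (P.cons (P.cons (P.lf 1813753193 0 0) (P.cons (P.lf 0 46161817 0) (P.cons (P.lf 0 19905495 0) (P.lf 2211718 0 0)))) (P.cons (P.cons (P.lf 285500293 0 0) (P.cons (P.lf 10157932 0 0) (P.cons (P.lf 4380213 0 0) (P.lf 0 486685 0)))) (P.cons (P.cons (P.lf 4850500 0 0) (P.cons (P.lf 0 400267 0) (P.cons (P.lf 0 172599 0) (P.lf 19172 0 0)))) (P.cons (P.cons (P.lf 0 1413720 0) (P.cons (P.lf 0 59227 0) (P.cons (P.lf 0 25537 0) P.nil))) (P.cons (P.cons (P.lf 0 11485 0) (P.cons (P.lf 5429 0 0) P.nil)) (P.cons (P.cons (P.lf 4995 0 0) P.nil) P.nil)))))) 11256)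
 (EL.cons 1 (TM.mk (P.cons (P.cons (P.lf 0 575773031 0) (P.cons (P.lf 14653993 0 0) (P.cons (P.lf 6318967 0 0) (P.lf 0 702105 0)))) (P.cons (P.cons (P.lf 0 23800940 0) (P.cons (P.lf 0 4925525 0) (P.cons (P.lf 0 2123940 0) (P.lf 235991 0 0)))) (P.cons (P.cons (P.lf 6300759 0 0) (P.cons (P.lf 569536 0 0) (P.cons (P.lf 245589 0 0) (P.lf 0 27285 0)))) (P.cons (P.cons (P.lf 351918 0 0) (P.cons (P.lf 0 14670 0) (P.cons (P.lf 0 6326 0) P.nil))) (P.cons (P.cons (P.lf 0 40576 0) (P.cons (P.lf 0 2293 0) P.nil)) (P.cons (P.cons (P.lf 0 348 0) P.nil) P.nil)))))) 4639)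
 (EL.cons 5 (TM.mk (P.cons (P.cons (P.lf 182778220 0 0) (P.cons (P.lf 0 4651886 0) (P.cons (P.lf 0 2005944 0) (P.lf 222882 0 0)))) (P.cons (P.cons (P.lf 0 13659716 0) (P.cons (P.lf 2103550 0 0) (P.cons (P.lf 907074 0 0) (P.lf 0 100784 0)))) (P.cons (P.cons (P.lf 0 2026648 0) (P.cons (P.lf 0 383932 0) (P.cons (P.lf 0 165556 0) (P.lf 18394 0 0)))) (P.cons (P.cons (P.lf 109210 0 0) (P.cons (P.lf 34098 0 0) (P.cons (P.lf 14702 0 0) P.nil))) (P.cons (P.cons (P.lf 17152 0 0) (P.cons (P.lf 0 1114 0) P.nil)) (P.cons (P.cons (P.lf 0 1428 0) P.nil) P.nil)))))) 3014)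
 EL.nil)))
noncomputable def S386_401_216_364_5 : EL := (EL.cons 0 (TM.mk (P.cons (P.cons (P.lf 699044169 0 0) (P.cons (P.lf 0 35582733 0) (P.cons (P.lf 0 14890867 0) (P.cons (P.lf 2095361 0 0) (P.cons (P.lf 40805 0 0) (P.cons (P.lf 0 18710 0) P.nil)))))) (P.cons (P.cons (P.lf 184234447 0 0) (P.cons (P.lf 4053127 0 0) (P.cons (P.lf 1525257 0 0) (P.cons (P.lf 0 386075 0) (P.cons (P.lf 0 20049 0) P.nil))))) (P.cons (P.cons (P.lf 13293898 0 0) (P.cons (P.lf 535547 0 0) (P.cons (P.lf 273206 0 0) (P.cons (P.lf 10792 0 0) P.nil)))) (P.cons (P.cons (P.lf 0 718889 0) (P.cons (P.lf 0 64344 0) (P.cons (P.lf 0 30997 0) P.nil))) (P.cons (P.cons (P.lf 0 104208 0) (P.cons (P.lf 0 4830 0) P.nil)) (P.cons (P.cons (P.lf 2794 0 0) P.nil) P.nil)))))) 64261)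
 (EL.cons 1 (TM.mk (P.cons (P.cons (P.lf 0 221910446 0) (P.cons (P.lf 11295680 0 0) (P.cons (P.lf 4727081 0 0) (P.cons (P.lf 0 665169 0) (P.cons (P.lf 0 12952 0) (P.cons (P.lf 5938 0 0) P.nil)))))) (P.cons (P.cons (P.lf 0 32727515 0) (P.cons (P.lf 0 2597761 0) (P.cons (P.lf 0 1032868 0) (P.cons (P.lf 199764 0 0) (P.cons (P.lf 7867 0 0) P.nil))))) (P.cons (P.cons (P.lf 1535700 0 0) (P.cons (P.lf 31895 0 0) (P.cons (P.lf 0 8531 0) (P.cons (P.lf 0 20746 0) P.nil)))) (P.cons (P.cons (P.lf 502226 0 0) (P.cons (P.lf 31305 0 0) (P.cons (P.lf 16453 0 0) P.nil))) (P.cons (P.cons (P.lf 0 1273 0) (P.cons (P.lf 0 1145 0) P.nil)) (P.cons (P.cons (P.lf 0 3234 0) P.nil) P.nil)))))) 23615)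
 (EL.cons 5 (TM.mk (P.cons (P.cons (P.lf 70445114 0 0) (P.cons (P.lf 0 3585794 0) (P.cons (P.lf 0 1500604 0) (P.cons (P.lf 211156 0 0) (P.cons (P.lf 4110 0 0) (P.cons (P.lf 0 1884 0) P.nil)))))) (P.cons (P.cons (P.lf 2212646 0 0) (P.cons (P.lf 1240862 0 0) (P.cons (P.lf 502058 0 0) (P.cons (P.lf 0 87924 0) (P.cons (P.lf 0 2974 0) P.nil))))) (P.cons (P.cons (P.lf 0 1365608 0) (P.cons (P.lf 0 122528 0) (P.cons (P.lf 0 42330 0) (P.cons (P.lf 14928 0 0) P.nil)))) (P.cons (P.cons (P.lf 0 72382 0) (P.cons (P.lf 0 4014 0) (P.cons (P.lf 0 3630 0) P.nil))) (P.cons (P.cons (P.lf 14978 0 0) (P.cons (P.lf 1210 0 0) P.nil)) (P.cons (P.cons (P.lf 452 0 0) P.nil) P.nil)))))) 9414)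
 EL.nil)))
noncomputable def S386_401_216_364_6 : EL := (EL.cons 12 (TM.mk (P.lf 8589934592 0 0) 0)
 (EL.cons 3 (TM.mk (P.cons (P.lf 3179002091 0 0) (P.cons (P.lf 81486086 0 0) (P.cons (P.lf 0 4862741 0) (P.cons (P.lf 76338 0 0) (P.cons (P.lf 1623 0 0) (P.cons (P.lf 0 105 0) P.nil)))))) 74)
 (EL.cons 7 (TM.mk (P.cons (P.lf 0 1009169096 0) (P.cons (P.lf 91267844 0 0) (P.cons (P.lf 0 149690 0) (P.cons (P.lf 0 67638 0) (P.cons (P.lf 2074 0 0) (P.cons (P.lf 0 6 0) P.nil)))))) 46)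
 EL.nil)))
noncomputable def S386_401_216_364_7 : EL := (EL.cons 12 (TM.mk (P.cons (P.cons (P.lf 3310672990 0 0) (P.cons (P.lf 0 84259912 0) (P.cons (P.lf 0 36333824 0) (P.lf 4037088 0 0)))) (P.cons (P.cons (P.lf 351405992 0 0) (P.cons (P.lf 22861040 0 0) (P.cons (P.lf 9857936 0 0) (P.lf 0 1095320 0)))) (P.cons (P.cons (P.lf 0 1208110 0) (P.cons (P.lf 0 2105008 0) (P.cons (P.lf 0 907704 0) (P.lf 100848 0 0)))) (P.cons (P.cons (P.lf 0 1573774 0) (P.cons (P.lf 52160 0 0) (P.cons (P.lf 22496 0 0) P.nil))) (P.cons (P.cons (P.lf 52288 0 0) (P.cons (P.lf 3264 0 0) P.nil)) (P.cons (P.cons (P.lf 1382 0 0) P.nil) P.nil)))))) 6930)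
 (EL.cons 3 (TM.mk (P.cons (P.cons (P.lf 2663220245 0 0) (P.cons (P.lf 62366580 0 0) (P.cons (P.lf 26893172 0 0) (P.lf 0 2988126 0)))) (P.cons (P.cons (P.lf 63094829 0 0) (P.cons (P.lf 0 15322416 0) (P.cons (P.lf 0 6607196 0) (P.lf 734128 0 0)))) (P.cons (P.cons (P.lf 0 20112532 0) (P.cons (P.lf 1028932 0 0) (P.cons (P.lf 443686 0 0) (P.lf 0 49290 0)))) (P.cons (P.cons (P.lf 1297972 0 0) (P.cons (P.lf 28710 0 0) (P.cons (P.lf 12376 0 0) P.nil))) (P.cons (P.cons (P.lf 16872 0 0) (P.cons (P.lf 0 6162 0) P.nil)) (P.cons (P.cons (P.lf 0 4678 0) P.nil) P.nil)))))) 21881)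
 (EL.cons 7 (TM.mk (P.cons (P.cons (P.lf 1221663827 0 0) (P.cons (P.lf 114678888 0 0) (P.cons (P.lf 49450829 0 0) (P.lf 0 5494536 0)))) (P.cons (P.cons (P.lf 70668864 0 0) (P.cons (P.lf 0 17161758 0) (P.cons (P.lf 0 7400345 0) (P.lf 822260 0 0)))) (P.cons (P.cons (P.lf 0 18425575 0) (P.cons (P.lf 156463 0 0) (P.cons (P.lf 67467 0 0) (P.lf 0 7499 0)))) (P.cons (P.cons (P.lf 0 81601 0) (P.cons (P.lf 70874 0 0) (P.cons (P.lf 30560 0 0) P.nil))) (P.cons (P.cons (P.lf 59142 0 0) (P.cons (P.lf 0 2192 0) P.nil)) (P.cons (P.cons (P.lf 0 1591 0) P.nil) P.nil)))))) 12190)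
 (EL.cons 10 (TM.mk (P.cons (P.cons (P.lf 0 280991082 0) (P.cons (P.lf 0 261769188 0) (P.cons (P.lf 26866032 0 0) (P.cons (P.lf 5587386 0 0) (P.lf 0 465615 0))))) (P.cons (P.cons (P.lf 50824881 0 0) (P.cons (P.lf 47348079 0 0) (P.cons (P.lf 0 4859451 0) (P.cons (P.lf 0 1010631 0) (P.lf 84219 0 0))))) (P.cons (P.cons (P.lf 0 2381622 0) (P.cons (P.lf 0 2218701 0) (P.cons (P.lf 227709 0 0) (P.cons (P.lf 47355 0 0) P.nil)))) (P.cons (P.cons (P.lf 0 30126 0) (P.cons (P.lf 0 28065 0) (P.cons (P.lf 2880 0 0) P.nil))) (P.cons (P.cons (P.lf 4554 0 0) (P.cons (P.lf 4242 0 0) P.nil)) (P.cons (P.cons (P.lf 0 111 0) P.nil) P.nil)))))) 5421)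
 EL.nil))))
noncomputable def S386_401_216_364_8 : EL := (EL.cons 12 (TM.mk (P.cons (P.cons (P.lf 1275976612 0 0) (P.cons (P.lf 0 64949740 0) (P.cons (P.lf 0 27180542 0) (P.cons (P.lf 3824700 0 0) (P.cons (P.lf 74484 0 0) (P.cons (P.lf 0 34152 0) P.nil)))))) (P.cons (P.cons (P.lf 270872918 0 0) (P.cons (P.lf 10727902 0 0) (P.cons (P.lf 4177496 0 0) (P.cons (P.lf 0 900786 0) (P.cons (P.lf 0 40416 0) P.nil))))) (P.cons (P.cons (P.lf 13444438 0 0) (P.cons (P.lf 271552 0 0) (P.cons (P.lf 219234 0 0) (P.cons (P.lf 75070 0 0) P.nil)))) (P.cons (P.cons (P.lf 0 1311950 0) (P.cons (P.lf 0 107576 0) (P.cons (P.lf 0 58612 0) P.nil))) (P.cons (P.cons (P.lf 0 88288 0) (P.cons (P.lf 0 2026 0) P.nil)) (P.cons (P.cons (P.lf 5786 0 0) P.nil) P.nil)))))) 96322)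
 (EL.cons 3 (TM.mk (P.cons (P.cons (P.lf 1580660503 0 0) (P.cons (P.lf 19862855 0 0) (P.cons (P.lf 7035676 0 0) (P.cons (P.lf 0 2270669 0) (P.cons (P.lf 0 137825 0) (P.cons (P.lf 63196 0 0) P.nil)))))) (P.cons (P.cons (P.lf 154184626 0 0) (P.cons (P.lf 2875542 0 0) (P.cons (P.lf 2030661 0 0) (P.cons (P.lf 544140 0 0) (P.cons (P.lf 71256 0 0) P.nil))))) (P.cons (P.cons (P.lf 0 17912901 0) (P.cons (P.lf 0 1291959 0) (P.cons (P.lf 0 722492 0) (P.cons (P.lf 0 80729 0) P.nil)))) (P.cons (P.cons (P.lf 0 1138671 0) (P.cons (P.lf 562 0 0) (P.cons (P.lf 16717 0 0) P.nil))) (P.cons (P.cons (P.lf 184243 0 0) (P.cons (P.lf 24746 0 0) P.nil)) (P.cons (P.cons (P.lf 4199 0 0) P.nil) P.nil)))))) 237024)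
 (EL.cons 7 (TM.mk (P.cons (P.cons (P.lf 1091595625 0 0) (P.cons (P.lf 56800053 0 0) (P.cons (P.lf 22340120 0 0) (P.cons (P.lf 0 4577960 0) (P.cons (P.lf 0 193994 0) (P.cons (P.lf 88948 0 0) P.nil)))))) (P.cons (P.cons (P.lf 172693273 0 0) (P.cons (P.lf 3220716 0 0) (P.cons (P.lf 2274424 0 0) (P.cons (P.lf 609466 0 0) (P.cons (P.lf 79807 0 0) P.nil))))) (P.cons (P.cons (P.lf 0 10040847 0) (P.cons (P.lf 0 1260122 0) (P.cons (P.lf 0 677221 0) (P.cons (P.lf 0 55056 0) P.nil)))) (P.cons (P.cons (P.lf 0 2320176 0) (P.cons (P.lf 0 101878 0) (P.cons (P.lf 0 37210 0) P.nil))) (P.cons (P.cons (P.lf 38696 0 0) (P.cons (P.lf 21977 0 0) P.nil)) (P.cons (P.cons (P.lf 13274 0 0) P.nil) P.nil)))))) 152762)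
 (EL.cons 10 (TM.mk (P.cons (P.cons (P.lf 0 216595266 0) (P.cons (P.lf 0 196265958 0) (P.cons (P.lf 28221582 0 0) (P.cons (P.lf 5730186 0 0) (P.cons (P.lf 0 941850 0) (P.cons (P.lf 0 12876 0) P.nil)))))) (P.cons (P.cons (P.lf 16186992 0 0) (P.cons (P.lf 12586938 0 0) (P.cons (P.lf 0 4944780 0) (P.cons (P.lf 0 965466 0) (P.cons (P.lf 290424 0 0) P.nil))))) (P.cons (P.cons (P.lf 2401614 0 0) (P.cons (P.lf 2692296 0 0) (P.cons (P.lf 390408 0 0) (P.cons (P.lf 69708 0 0) P.nil)))) (P.cons (P.cons (P.lf 0 129414 0) (P.cons (P.lf 0 160968 0) (P.cons (P.lf 0 42690 0) P.nil))) (P.cons (P.cons (P.lf 0 20328 0) (P.cons (P.lf 0 17616 0) P.nil)) (P.cons (P.cons (P.lf 1692 0 0) P.nil) P.nil)))))) 162906)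
 EL.nil))))
noncomputable def S386_401_216_364_9 : EL := (EL.cons 3 (TM.mk (P.cons (P.lf 3179002091 0 0) (P.cons (P.lf 81486086 0 0) (P.cons (P.lf 0 4862741 0) (P.cons (P.lf 76338 0 0) (P.cons (P.lf 1623 0 0) (P.cons (P.lf 0 105 0) P.nil)))))) 74)
 (EL.cons 7 (TM.mk (P.cons (P.lf 0 1009169096 0) (P.cons (P.lf 91267844 0 0) (P.cons (P.lf 0 149690 0) (P.cons (P.lf 0 67638 0) (P.cons (P.lf 2074 0 0) (P.cons (P.lf 0 6 0) P.nil)))))) 46)
 EL.nil))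
noncomputable def S386_401_216_364_10 : EL := (EL.cons 3 (TM.mk (P.cons (P.cons (P.lf 1225228928 0 0) (P.cons (P.lf 0 31183290 0) (P.cons (P.lf 0 13446586 0) (P.lf 1494063 0 0)))) (P.cons (P.cons (P.lf 161455730 0 0) (P.cons (P.lf 7661208 0 0) (P.cons (P.lf 3303598 0 0) (P.lf 0 367064 0)))) (P.cons (P.cons (P.lf 1012250 0 0) (P.cons (P.lf 0 514466 0) (P.cons (P.lf 0 221843 0) (P.lf 24645 0 0)))) (P.cons (P.cons (P.lf 0 763397 0) (P.cons (P.lf 0 14355 0) (P.cons (P.lf 0 6188 0) P.nil))) (P.cons (P.cons (P.lf 8853 0 0) (P.cons (P.lf 3081 0 0) P.nil)) (P.cons (P.cons (P.lf 1913 0 0) P.nil) P.nil)))))) 5377)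
 (EL.cons 7 (TM.mk (P.cons (P.cons (P.lf 0 388946950 0) (P.cons (P.lf 9899085 0 0) (P.cons (P.lf 4268597 0 0) (P.lf 0 474288 0)))) (P.cons (P.cons (P.lf 0 6108321 0) (P.cons (P.lf 0 3581037 0) (P.cons (P.lf 0 1544183 0) (P.lf 171575 0 0)))) (P.cons (P.cons (P.lf 3817919 0 0) (P.cons (P.lf 491668 0 0) (P.cons (P.lf 212013 0 0) (P.lf 0 23555 0)))) (P.cons (P.cons (P.lf 139862 0 0) (P.cons (P.lf 0 28228 0) (P.cons (P.lf 0 12172 0) P.nil))) (P.cons (P.cons (P.lf 0 24810 0) (P.cons (P.lf 7 0 0) P.nil)) (P.cons (P.cons (P.lf 512 0 0) P.nil) P.nil)))))) 2502)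
 EL.nil))
noncomputable def S386_401_216_364_11 : EL := (EL.cons 3 (TM.mk (P.cons (P.cons (P.lf 472219231 0 0) (P.cons (P.lf 0 24036895 0) (P.cons (P.lf 0 10059098 0) (P.cons (P.lf 1415461 0 0) (P.cons (P.lf 27565 0 0) (P.cons (P.lf 0 12638 0) P.nil)))))) (P.cons (P.cons (P.lf 112350088 0 0) (P.cons (P.lf 3354102 0 0) (P.cons (P.lf 1288185 0 0) (P.cons (P.lf 0 297084 0) (P.cons (P.lf 0 14250 0) P.nil))))) (P.cons (P.cons (P.lf 6822813 0 0) (P.cons (P.lf 239031 0 0) (P.cons (P.lf 136150 0 0) (P.cons (P.lf 17071 0 0) P.nil)))) (P.cons (P.cons (P.lf 0 499995 0) (P.cons (P.lf 0 43886 0) (P.cons (P.lf 0 22217 0) P.nil))) (P.cons (P.cons (P.lf 0 50081 0) (P.cons (P.lf 0 1840 0) P.nil)) (P.cons (P.cons (P.lf 2201 0 0) P.nil) P.nil)))))) 39746)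
 (EL.cons 7 (TM.mk (P.cons (P.cons (P.lf 0 149905235 0) (P.cons (P.lf 7630473 0 0) (P.cons (P.lf 3193244 0 0) (P.cons (P.lf 0 449336 0) (P.cons (P.lf 0 8750 0) (P.cons (P.lf 4012 0 0) P.nil)))))) (P.cons (P.cons (P.lf 0 18265673 0) (P.cons (P.lf 0 1950432 0) (P.cons (P.lf 0 779576 0) (P.cons (P.lf 146464 0 0) (P.cons (P.lf 5539 0 0) P.nil))))) (P.cons (P.cons (P.lf 1276293 0 0) (P.cons (P.lf 83212 0 0) (P.cons (P.lf 19103 0 0) (P.cons (P.lf 0 18456 0) P.nil)))) (P.cons (P.cons (P.lf 282210 0 0) (P.cons (P.lf 15848 0 0) (P.cons (P.lf 9356 0 0) P.nil))) (P.cons (P.cons (P.lf 0 5626 0) (P.cons (P.lf 0 1009 0) P.nil)) (P.cons (P.cons (P.lf 0 1636 0) P.nil) P.nil)))))) 14800)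
 EL.nil))
noncomputable def S386_401_216_364_12 : EL := (EL.cons 4 (TM.mk (P.cons (P.lf 0 3179002091 0) (P.cons (P.lf 0 81486086 0) (P.cons (P.lf 4862741 0 0) (P.cons (P.lf 0 76338 0) (P.cons (P.lf 0 1623 0) (P.cons (P.lf 105 0 0) P.nil)))))) 74)
 (EL.cons 8 (TM.mk (P.cons (P.lf 1009169096 0 0) (P.cons (P.lf 0 91267844 0) (P.cons (P.lf 149690 0 0) (P.cons (P.lf 67638 0 0) (P.cons (P.lf 0 2074 0) (P.cons (P.lf 6 0 0) P.nil)))))) 46)
 EL.nil))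
noncomputable def S386_401_216_364_13 : EL := (EL.cons 4 (TM.mk (P.cons (P.cons (P.lf 0 1225228928 0) (P.cons (P.lf 31183290 0 0) (P.cons (P.lf 13446586 0 0) (P.lf 0 1494063 0)))) (P.cons (P.cons (P.lf 0 161455730 0) (P.cons (P.lf 0 7661208 0) (P.cons (P.lf 0 3303598 0) (P.lf 367064 0 0)))) (P.cons (P.cons (P.lf 0 1012250 0) (P.cons (P.lf 514466 0 0) (P.cons (P.lf 221843 0 0) (P.lf 0 24645 0)))) (P.cons (P.cons (P.lf 763397 0 0) (P.cons (P.lf 14355 0 0) (P.cons (P.lf 6188 0 0) P.nil))) (P.cons (P.cons (P.lf 0 8853 0) (P.cons (P.lf 0 3081 0) P.nil)) (P.cons (P.cons (P.lf 0 1913 0) P.nil) P.nil)))))) 5377)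
 (EL.cons 8 (TM.mk (P.cons (P.cons (P.lf 388946950 0 0) (P.cons (P.lf 0 9899085 0) (P.cons (P.lf 0 4268597 0) (P.lf 474288 0 0)))) (P.cons (P.cons (P.lf 6108321 0 0) (P.cons (P.lf 3581037 0 0) (P.cons (P.lf 1544183 0 0) (P.lf 0 171575 0)))) (P.cons (P.cons (P.lf 0 3817919 0) (P.cons (P.lf 0 491668 0) (P.cons (P.lf 0 212013 0) (P.lf 23555 0 0)))) (P.cons (P.cons (P.lf 0 139862 0) (P.cons (P.lf 28228 0 0) (P.cons (P.lf 12172 0 0) P.nil))) (P.cons (P.cons (P.lf 24810 0 0) (P.cons (P.lf 0 7 0) P.nil)) (P.cons (P.cons (P.lf 0 512 0) P.nil) P.nil)))))) 2502)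
 EL.nil))
noncomputable def S386_401_216_364_14 : EL := (EL.cons 4 (TM.mk (P.cons (P.cons (P.lf 0 472219231 0) (P.cons (P.lf 24036895 0 0) (P.cons (P.lf 10059098 0 0) (P.cons (P.lf 0 1415461 0) (P.cons (P.lf 0 27565 0) (P.cons (P.lf 12638 0 0) P.nil)))))) (P.cons (P.cons (P.lf 0 112350088 0) (P.cons (P.lf 0 3354102 0) (P.cons (P.lf 0 1288185 0) (P.cons (P.lf 297084 0 0) (P.cons (P.lf 14250 0 0) P.nil))))) (P.cons (P.cons (P.lf 0 6822813 0) (P.cons (P.lf 0 239031 0) (P.cons (P.lf 0 136150 0) (P.cons (P.lf 0 17071 0) P.nil)))) (P.cons (P.cons (P.lf 499995 0 0) (P.cons (P.lf 43886 0 0) (P.cons (P.lf 22217 0 0) P.nil))) (P.cons (P.cons (P.lf 50081 0 0) (P.cons (P.lf 1840 0 0) P.nil)) (P.cons (P.cons (P.lf 0 2201 0) P.nil) P.nil)))))) 39746)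
 (EL.cons 8 (TM.mk (P.cons (P.cons (P.lf 149905235 0 0) (P.cons (P.lf 0 7630473 0) (P.cons (P.lf 0 3193244 0) (P.cons (P.lf 449336 0 0) (P.cons (P.lf 8750 0 0) (P.cons (P.lf 0 4012 0) P.nil)))))) (P.cons (P.cons (P.lf 18265673 0 0) (P.cons (P.lf 1950432 0 0) (P.cons (P.lf 779576 0 0) (P.cons (P.lf 0 146464 0) (P.cons (P.lf 0 5539 0) P.nil))))) (P.cons (P.cons (P.lf 0 1276293 0) (P.cons (P.lf 0 83212 0) (P.cons (P.lf 0 19103 0) (P.cons (P.lf 18456 0 0) P.nil)))) (P.cons (P.cons (P.lf 0 282210 0) (P.cons (P.lf 0 15848 0) (P.cons (P.lf 0 9356 0) P.nil))) (P.cons (P.cons (P.lf 5626 0 0) (P.cons (P.lf 1009 0 0) P.nil)) (P.cons (P.cons (P.lf 1636 0 0) P.nil) P.nil)))))) 14800)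
 EL.nil))
noncomputable def S386_401_216_364_15 : EL := (EL.cons 4 (TM.mk (P.cons (P.lf 0 2509865734 0) (P.cons (P.lf 0 128668764 0) (P.cons (P.lf 6029343 0 0) (P.cons (P.lf 76275 0 0) (P.cons (P.lf 0 11525 0) (P.cons (P.lf 284 0 0) P.nil)))))) 132)
 (EL.cons 8 (TM.mk (P.cons (P.lf 796752836 0 0) (P.cons (P.lf 0 51634368 0) (P.cons (P.lf 0 2947579 0) (P.cons (P.lf 185785 0 0) (P.cons (P.lf 0 1772 0) (P.cons (P.lf 0 179 0) P.nil)))))) 69)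
 EL.nil))
noncomputable def S386_401_216_364_16 : EL := (EL.cons 4 (TM.mk (P.cons (P.cons (P.lf 0 967335036 0) (P.cons (P.lf 24619635 0 0) (P.cons (P.lf 10616264 0 0) (P.lf 0 1179583 0)))) (P.cons (P.cons (P.lf 0 152266823 0) (P.cons (P.lf 0 5417564 0) (P.cons (P.lf 0 2336114 0) (P.lf 259565 0 0)))) (P.cons (P.cons (P.lf 0 2586933 0) (P.cons (P.lf 213476 0 0) (P.cons (P.lf 92053 0 0) (P.lf 0 10225 0)))) (P.cons (P.cons (P.lf 753984 0 0) (P.cons (P.lf 31588 0 0) (P.cons (P.lf 13620 0 0) P.nil))) (P.cons (P.cons (P.lf 6125 0 0) (P.cons (P.lf 0 2895 0) P.nil)) (P.cons (P.cons (P.lf 0 2664 0) P.nil) P.nil)))))) 6012)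
 (EL.cons 8 (TM.mk (P.cons (P.cons (P.lf 307078950 0 0) (P.cons (P.lf 0 7815463 0) (P.cons (P.lf 0 3370116 0) (P.lf 374456 0 0)))) (P.cons (P.cons (P.lf 12693835 0 0) (P.cons (P.lf 2626947 0 0) (P.cons (P.lf 1132768 0 0) (P.lf 0 125862 0)))) (P.cons (P.cons (P.lf 0 3360405 0) (P.cons (P.lf 0 303753 0) (P.cons (P.lf 0 130981 0) (P.lf 14552 0 0)))) (P.cons (P.cons (P.lf 0 187690 0) (P.cons (P.lf 7824 0 0) (P.cons (P.lf 3374 0 0) P.nil))) (P.cons (P.cons (P.lf 21641 0 0) (P.cons (P.lf 1223 0 0) P.nil)) (P.cons (P.cons (P.lf 186 0 0) P.nil) P.nil)))))) 2464)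
 EL.nil))
noncomputable def S386_401_216_364_17 : EL := (EL.cons 4 (TM.mk (P.cons (P.cons (P.lf 0 372823557 0) (P.cons (P.lf 18977458 0 0) (P.cons (P.lf 7941795 0 0) (P.cons (P.lf 0 1117526 0) (P.cons (P.lf 0 21763 0) (P.cons (P.lf 9978 0 0) P.nil)))))) (P.cons (P.cons (P.lf 0 98258371 0) (P.cons (P.lf 0 2161667 0) (P.cons (P.lf 0 813470 0) (P.cons (P.lf 205906 0 0) (P.cons (P.lf 10693 0 0) P.nil))))) (P.cons (P.cons (P.lf 0 7090079 0) (P.cons (P.lf 0 285625 0) (P.cons (P.lf 0 145710 0) (P.cons (P.lf 0 5756 0) P.nil)))) (P.cons (P.cons (P.lf 383407 0 0) (P.cons (P.lf 34317 0 0) (P.cons (P.lf 16531 0 0) P.nil))) (P.cons (P.cons (P.lf 55577 0 0) (P.cons (P.lf 2576 0 0) P.nil)) (P.cons (P.cons (P.lf 0 1490 0) P.nil) P.nil)))))) 34282)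
 (EL.cons 8 (TM.mk (P.cons (P.cons (P.lf 118352238 0 0) (P.cons (P.lf 0 6024363 0) (P.cons (P.lf 0 2521110 0) (P.cons (P.lf 354757 0 0) (P.cons (P.lf 6908 0 0) (P.cons (P.lf 0 3167 0) P.nil)))))) (P.cons (P.cons (P.lf 17454675 0 0) (P.cons (P.lf 1385473 0 0) (P.cons (P.lf 550863 0 0) (P.cons (P.lf 0 106541 0) (P.cons (P.lf 0 4196 0) P.nil))))) (P.cons (P.cons (P.lf 0 819040 0) (P.cons (P.lf 0 17011 0) (P.cons (P.lf 4550 0 0) (P.cons (P.lf 11065 0 0) P.nil)))) (P.cons (P.cons (P.lf 0 267854 0) (P.cons (P.lf 0 16696 0) (P.cons (P.lf 0 8775 0) P.nil))) (P.cons (P.cons (P.lf 679 0 0) (P.cons (P.lf 611 0 0) P.nil)) (P.cons (P.cons (P.lf 1725 0 0) P.nil) P.nil)))))) 12583)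
 EL.nil))
noncomputable def S386_401_216_364_18 : EL := (EL.cons 4 (TM.mk (P.cons (P.lf 0 1981573407 0) (P.cons (P.lf 0 152378629 0) (P.cons (P.lf 5187444 0 0) (P.cons (P.lf 290043 0 0) (P.cons (P.lf 0 18288 0) (P.cons (P.lf 26 0 0) P.nil)))))) 187)
 (EL.cons 8 (TM.mk (P.cons (P.lf 629047288 0 0) (P.cons (P.lf 0 24641924 0) (P.cons (P.lf 0 4334312 0) (P.cons (P.lf 164492 0 0) (P.cons (P.lf 5262 0 0) (P.cons (P.lf 0 499 0) P.nil)))))) 83)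
 EL.nil))
noncomputable def S386_401_216_364_19 : EL := (EL.cons 4 (TM.mk (P.cons (P.cons (P.lf 0 763724273 0) (P.cons (P.lf 19437540 0 0) (P.cons (P.lf 8381685 0 0) (P.lf 0 931297 0)))) (P.cons (P.cons (P.lf 0 139792982 0) (P.cons (P.lf 0 3779006 0) (P.cons (P.lf 0 1629549 0) (P.lf 181059 0 0)))) (P.cons (P.cons (P.lf 0 3955661 0) (P.cons (P.lf 29173 0 0) (P.cons (P.lf 12579 0 0) (P.lf 0 1395 0)))) (P.cons (P.cons (P.lf 708477 0 0) (P.cons (P.lf 36269 0 0) (P.cons (P.lf 15638 0 0) P.nil))) (P.cons (P.cons (P.lf 19942 0 0) (P.cons (P.lf 0 1997 0) P.nil)) (P.cons (P.cons (P.lf 0 2974 0) P.nil) P.nil)))))) 6304)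
 (EL.cons 8 (TM.mk (P.cons (P.cons (P.lf 242443041 0 0) (P.cons (P.lf 0 6170415 0) (P.cons (P.lf 0 2660752 0) (P.lf 295638 0 0)))) (P.cons (P.cons (P.lf 16236401 0 0) (P.cons (P.lf 1915847 0 0) (P.cons (P.lf 826134 0 0) (P.lf 0 91792 0)))) (P.cons (P.cons (P.lf 0 2767048 0) (P.cons (P.lf 0 177216 0) (P.cons (P.lf 0 76417 0) (P.lf 8490 0 0)))) (P.cons (P.cons (P.lf 0 225697 0) (P.cons (P.lf 0 3290 0) (P.cons (P.lf 0 1418 0) P.nil))) (P.cons (P.cons (P.lf 17710 0 0) (P.cons (P.lf 1537 0 0) P.nil)) (P.cons (P.cons (P.lf 745 0 0) P.nil) P.nil)))))) 2447)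
 EL.nil))
noncomputable def S386_401_216_364_20 : EL := (EL.cons 4 (TM.mk (P.cons (P.cons (P.lf 0 294349309 0) (P.cons (P.lf 14982962 0 0) (P.cons (P.lf 6270156 0 0) (P.cons (P.lf 0 882302 0) (P.cons (P.lf 0 17181 0) (P.cons (P.lf 7877 0 0) P.nil)))))) (P.cons (P.cons (P.lf 0 85121268 0) (P.cons (P.lf 0 1322613 0) (P.cons (P.lf 0 481526 0) (P.cons (P.lf 139950 0 0) (P.cons (P.lf 8001 0 0) P.nil))))) (P.cons (P.cons (P.lf 0 7135947 0) (P.cons (P.lf 0 292170 0) (P.cons (P.lf 0 141093 0) (P.cons (P.lf 971 0 0) P.nil)))) (P.cons (P.cons (P.lf 270817 0 0) (P.cons (P.lf 24284 0 0) (P.cons (P.lf 11236 0 0) P.nil))) (P.cons (P.cons (P.lf 58187 0 0) (P.cons (P.lf 3039 0 0) P.nil)) (P.cons (P.cons (P.lf 0 679 0) P.nil) P.nil)))))) 29382)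
 (EL.cons 8 (TM.mk (P.cons (P.cons (P.lf 93440714 0 0) (P.cons (P.lf 0 4756317 0) (P.cons (P.lf 0 1990451 0) (P.cons (P.lf 280085 0 0) (P.cons (P.lf 5454 0 0) (P.cons (P.lf 0 2500 0) P.nil)))))) (P.cons (P.cons (P.lf 16175833 0 0) (P.cons (P.lf 971933 0 0) (P.cons (P.lf 383893 0 0) (P.cons (P.lf 0 76936 0) (P.cons (P.lf 0 3173 0) P.nil))))) (P.cons (P.cons (P.lf 0 436339 0) (P.cons (P.lf 21883 0 0) (P.cons (P.lf 17785 0 0) (P.cons (P.lf 6151 0 0) P.nil)))) (P.cons (P.cons (P.lf 0 246885 0) (P.cons (P.lf 0 15313 0) (P.cons (P.lf 0 7549 0) P.nil))) (P.cons (P.cons (P.lf 0 3516 0) (P.cons (P.lf 188 0 0) P.nil)) (P.cons (P.cons (P.lf 1688 0 0) P.nil) P.nil)))))) 10540)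
 EL.nil))
noncomputable def S386_401_216_364_21 : EL := (EL.cons 4 (TM.mk (P.cons (P.cons (P.lf 0 1437991317 0) (P.cons (P.lf 0 93549870 0) (P.cons (P.lf 0 40339758 0) (P.lf 4482189 0 0)))) (P.cons (P.cons (P.lf 98360901 0 0) (P.cons (P.lf 22983624 0 0) (P.cons (P.lf 9910794 0 0) (P.lf 0 1101192 0)))) (P.cons (P.cons (P.lf 21124782 0 0) (P.cons (P.lf 0 1543398 0) (P.cons (P.lf 0 665529 0) (P.lf 73935 0 0)))) (P.cons (P.cons (P.lf 0 2061369 0) (P.cons (P.lf 0 43065 0) (P.cons (P.lf 0 18564 0) P.nil))) (P.cons (P.cons (P.lf 0 8019 0) (P.cons (P.lf 9243 0 0) P.nil)) (P.cons (P.cons (P.lf 6591 0 0) P.nil) P.nil)))))) 16485)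
 (EL.cons 8 (TM.mk (P.cons (P.cons (P.lf 0 1610610777 0) (P.cons (P.lf 0 104779803 0) (P.cons (P.lf 0 45182232 0) (P.lf 5020248 0 0)))) (P.cons (P.cons (P.lf 0 76777185 0) (P.cons (P.lf 13580721 0 0) (P.cons (P.lf 5856162 0 0) (P.lf 0 650685 0)))) (P.cons (P.cons (P.lf 22243494 0 0) (P.cons (P.lf 335205 0 0) (P.cons (P.lf 144546 0 0) (P.lf 0 16056 0)))) (P.cons (P.cons (P.lf 221463 0 0) (P.cons (P.lf 0 99102 0) (P.cons (P.lf 0 42732 0) P.nil))) (P.cons (P.cons (P.lf 0 83952 0) (P.cons (P.lf 2199 0 0) P.nil)) (P.cons (P.cons (P.lf 2103 0 0) P.nil) P.nil)))))) 9669)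
 (EL.cons 11 (TM.mk (P.cons (P.cons (P.lf 280991082 0 0) (P.cons (P.lf 261769188 0 0) (P.cons (P.lf 0 26866032 0) (P.cons (P.lf 0 5587386 0) (P.lf 465615 0 0))))) (P.cons (P.cons (P.lf 0 50824881 0) (P.cons (P.lf 0 47348079 0) (P.cons (P.lf 4859451 0 0) (P.cons (P.lf 1010631 0 0) (P.lf 0 84219 0))))) (P.cons (P.cons (P.lf 2381622 0 0) (P.cons (P.lf 2218701 0 0) (P.cons (P.lf 0 227709 0) (P.cons (P.lf 0 47355 0) P.nil)))) (P.cons (P.cons (P.lf 30126 0 0) (P.cons (P.lf 28065 0 0) (P.cons (P.lf 0 2880 0) P.nil))) (P.cons (P.cons (P.lf 0 4554 0) (P.cons (P.lf 0 4242 0) P.nil)) (P.cons (P.cons (P.lf 111 0 0) P.nil) P.nil)))))) 5421)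
 EL.nil)))
noncomputable def S386_401_216_364_22 : EL := (EL.cons 4 (TM.mk (P.cons (P.cons (P.lf 0 554220636 0) (P.cons (P.lf 0 21949875 0) (P.cons (P.lf 0 8547387 0) (P.cons (P.lf 1843065 0 0) (P.cons (P.lf 82695 0 0) (P.cons (P.lf 0 37917 0) P.nil)))))) (P.cons (P.cons (P.lf 0 20917269 0) (P.cons (P.lf 239280 0 0) (P.cons (P.lf 0 371238 0) (P.cons (P.lf 0 420612 0) (P.cons (P.lf 0 42753 0) P.nil))))) (P.cons (P.cons (P.lf 12367857 0 0) (P.cons (P.lf 765495 0 0) (P.cons (P.lf 429321 0 0) (P.cons (P.lf 48900 0 0) P.nil)))) (P.cons (P.cons (P.lf 319338 0 0) (P.cons (P.lf 0 22224 0) (P.cons (P.lf 0 19467 0) P.nil))) (P.cons (P.cons (P.lf 0 117162 0) (P.cons (P.lf 0 13293 0) P.nil)) (P.cons (P.cons (P.lf 0 999 0) P.nil) P.nil)))))) 98628)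
 (EL.cons 8 (TM.mk (P.cons (P.cons (P.lf 0 620750430 0) (P.cons (P.lf 0 24584790 0) (P.cons (P.lf 0 9573438 0) (P.cons (P.lf 2064312 0 0) (P.cons (P.lf 92622 0 0) (P.cons (P.lf 0 42468 0) P.nil)))))) (P.cons (P.cons (P.lf 0 95479473 0) (P.cons (P.lf 0 2585574 0) (P.cons (P.lf 0 1527000 0) (P.cons (P.lf 0 231501 0) (P.cons (P.lf 0 37134 0) P.nil))))) (P.cons (P.cons (P.lf 5658570 0 0) (P.cons (P.lf 671667 0 0) (P.cons (P.lf 348162 0 0) (P.cons (P.lf 18300 0 0) P.nil)))) (P.cons (P.cons (P.lf 1301193 0 0) (P.cons (P.lf 58863 0 0) (P.cons (P.lf 23283 0 0) P.nil))) (P.cons (P.cons (P.lf 0 22161 0) (P.cons (P.lf 0 11493 0) P.nil)) (P.cons (P.cons (P.lf 0 7455 0) P.nil) P.nil)))))) 68970)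
 (EL.cons 11 (TM.mk (P.cons (P.cons (P.lf 108297633 0 0) (P.cons (P.lf 98132979 0 0) (P.cons (P.lf 0 14110791 0) (P.cons (P.lf 0 2865093 0) (P.cons (P.lf 470925 0 0) (P.cons (P.lf 6438 0 0) P.nil)))))) (P.cons (P.cons (P.lf 0 8093496 0) (P.cons (P.lf 0 6293469 0) (P.cons (P.lf 2472390 0 0) (P.cons (P.lf 482733 0 0) (P.cons (P.lf 0 145212 0) P.nil))))) (P.cons (P.cons (P.lf 0 1200807 0) (P.cons (P.lf 0 1346148 0) (P.cons (P.lf 0 195204 0) (P.cons (P.lf 0 34854 0) P.nil)))) (P.cons (P.cons (P.lf 64707 0 0) (P.cons (P.lf 80484 0 0) (P.cons (P.lf 21345 0 0) P.nil))) (P.cons (P.cons (P.lf 10164 0 0) (P.cons (P.lf 8808 0 0) P.nil)) (P.cons (P.cons (P.lf 0 846 0) P.nil) P.nil)))))) 81453)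
 EL.nil)))
noncomputable def S386_401_216_364_23 : EL := (EL.cons 4 (TM.mk (P.cons (P.cons (P.lf 0 1135313859 0) (P.cons (P.lf 0 73858902 0) (P.cons (P.lf 0 31848789 0) (P.lf 3538749 0 0)))) (P.cons (P.cons (P.lf 48556233 0 0) (P.cons (P.lf 16252689 0 0) (P.cons (P.lf 7008339 0 0) (P.lf 0 778698 0)))) (P.cons (P.cons (P.lf 20405487 0 0) (P.cons (P.lf 0 640428 0) (P.cons (P.lf 0 276159 0) (P.lf 30672 0 0)))) (P.cons (P.cons (P.lf 0 1346019 0) (P.cons (P.lf 0 94764 0) (P.cons (P.lf 0 40857 0) P.nil))) (P.cons (P.cons (P.lf 0 72273 0) (P.cons (P.lf 8685 0 0) P.nil)) (P.cons (P.cons (P.lf 8007 0 0) P.nil) P.nil)))))) 18399)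
 (EL.cons 8 (TM.mk (P.cons (P.cons (P.lf 0 1271599287 0) (P.cons (P.lf 0 82725090 0) (P.cons (P.lf 0 35671989 0) (P.lf 3963552 0 0)))) (P.cons (P.cons (P.lf 0 93211035 0) (P.cons (P.lf 8601705 0 0) (P.cons (P.lf 3709152 0 0) (P.lf 0 412128 0)))) (P.cons (P.cons (P.lf 17952873 0 0) (P.cons (P.lf 666024 0 0) (P.cons (P.lf 287199 0 0) (P.lf 0 31905 0)))) (P.cons (P.cons (P.lf 687180 0 0) (P.cons (P.lf 0 89844 0) (P.cons (P.lf 0 38739 0) P.nil))) (P.cons (P.cons (P.lf 0 90765 0) (P.cons (P.lf 0 459 0) P.nil)) (P.cons (P.cons (P.lf 126 0 0) P.nil) P.nil)))))) 10743)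
 (EL.cons 11 (TM.mk (P.cons (P.cons (P.lf 221846310 0 0) (P.cons (P.lf 206670360 0 0) (P.cons (P.lf 0 21211098 0) (P.cons (P.lf 0 4411317 0) (P.lf 367608 0 0))))) (P.cons (P.cons (P.lf 0 34440441 0) (P.cons (P.lf 0 32084457 0) (P.cons (P.lf 3292905 0 0) (P.cons (P.lf 684831 0 0) (P.lf 0 57069 0))))) (P.cons (P.cons (P.lf 512418 0 0) (P.cons (P.lf 477366 0 0) (P.cons (P.lf 0 48990 0) (P.cons (P.lf 0 10185 0) P.nil)))) (P.cons (P.cons (P.lf 138687 0 0) (P.cons (P.lf 129201 0 0) (P.cons (P.lf 0 13260 0) P.nil))) (P.cons (P.cons (P.lf 0 6711 0) (P.cons (P.lf 0 6252 0) P.nil)) (P.cons (P.cons (P.lf 0 21 0) P.nil) P.nil)))))) 9867)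
 EL.nil)))
noncomputable def S386_401_216_364_24 : EL := (EL.cons 4 (TM.mk (P.cons (P.cons (P.lf 0 437564790 0) (P.cons (P.lf 0 17329728 0) (P.cons (P.lf 0 6748281 0) (P.cons (P.lf 1455123 0 0) (P.cons (P.lf 65289 0 0) (P.cons (P.lf 0 29934 0) P.nil)))))) (P.cons (P.cons (P.lf 0 27730392 0) (P.cons (P.lf 0 255288 0) (P.cons (P.lf 0 466074 0) (P.cons (P.lf 0 294780 0) (P.cons (P.lf 0 32079 0) P.nil))))) (P.cons (P.cons (P.lf 10010604 0 0) (P.cons (P.lf 635718 0 0) (P.cons (P.lf 341763 0 0) (P.cons (P.lf 27867 0 0) P.nil)))) (P.cons (P.cons (P.lf 517167 0 0) (P.cons (P.lf 0 2760 0) (P.cons (P.lf 0 6393 0) P.nil))) (P.cons (P.cons (P.lf 0 101595 0) (P.cons (P.lf 0 11874 0) P.nil)) (P.cons (P.cons (P.lf 0 3306 0) P.nil) P.nil)))))) 72627)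
 (EL.cons 8 (TM.mk (P.cons (P.cons (P.lf 0 490090974 0) (P.cons (P.lf 0 19410027 0) (P.cons (P.lf 0 7558359 0) (P.cons (P.lf 1629804 0 0) (P.cons (P.lf 73125 0 0) (P.cons (P.lf 0 33528 0) P.nil)))))) (P.cons (P.cons (P.lf 0 87944658 0) (P.cons (P.lf 0 2538876 0) (P.cons (P.lf 0 1399326 0) (P.cons (P.lf 0 140997 0) (P.cons (P.lf 0 27444 0) P.nil))))) (P.cons (P.cons (P.lf 3284937 0 0) (P.cons (P.lf 507657 0 0) (P.cons (P.lf 255537 0 0) (P.cons (P.lf 7269 0 0) P.nil)))) (P.cons (P.cons (P.lf 1245363 0 0) (P.cons (P.lf 62721 0 0) (P.cons (P.lf 27090 0 0) P.nil))) (P.cons (P.cons (P.lf 0 57 0) (P.cons (P.lf 0 8754 0) P.nil)) (P.cons (P.cons (P.lf 0 7821 0) P.nil) P.nil)))))) 50268)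
 (EL.cons 11 (TM.mk (P.cons (P.cons (P.lf 85502466 0 0) (P.cons (P.lf 77477334 0 0) (P.cons (P.lf 0 11140662 0) (P.cons (P.lf 0 2262030 0) (P.cons (P.lf 371802 0 0) (P.cons (P.lf 5082 0 0) P.nil)))))) (P.cons (P.cons (P.lf 0 4198275 0) (P.cons (P.lf 0 2982834 0) (P.cons (P.lf 1666422 0 0) (P.cons (P.lf 323142 0 0) (P.cons (P.lf 0 105117 0) P.nil))))) (P.cons (P.cons (P.lf 0 1242633 0) (P.cons (P.lf 0 1308675 0) (P.cons (P.lf 0 87039 0) (P.cons (P.lf 0 14289 0) P.nil)))) (P.cons (P.cons (P.lf 38613 0 0) (P.cons (P.lf 45762 0 0) (P.cons (P.lf 9648 0 0) P.nil))) (P.cons (P.cons (P.lf 10674 0 0) (P.cons (P.lf 10128 0 0) P.nil)) (P.cons (P.cons (P.lf 0 570 0) P.nil) P.nil)))))) 59304)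
 EL.nil)))
noncomputable def S386_401_216_364_25 : EL := (EL.cons 4 (TM.mk (P.cons (P.cons (P.lf 0 896345856 0) (P.cons (P.lf 0 58312617 0) (P.cons (P.lf 0 25145055 0) (P.lf 2793891 0 0)))) (P.cons (P.cons (P.lf 15360138 0 0) (P.cons (P.lf 11337018 0 0) (P.cons (P.lf 4888647 0 0) (P.lf 0 543177 0)))) (P.cons (P.cons (P.lf 18464148 0 0) (P.cons (P.lf 0 87519 0) (P.cons (P.lf 0 37737 0) (P.lf 4185 0 0)))) (P.cons (P.cons (P.lf 0 729915 0) (P.cons (P.lf 0 108807 0) (P.cons (P.lf 0 46914 0) P.nil))) (P.cons (P.cons (P.lf 0 108480 0) (P.cons (P.lf 5991 0 0) P.nil)) (P.cons (P.cons (P.lf 6921 0 0) P.nil) P.nil)))))) 17979)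
 (EL.cons 8 (TM.mk (P.cons (P.cons (P.lf 0 1003945071 0) (P.cons (P.lf 0 65312592 0) (P.cons (P.lf 0 28163526 0) (P.lf 3129279 0 0)))) (P.cons (P.cons (P.lf 0 99325110 0) (P.cons (P.lf 5117031 0 0) (P.cons (P.lf 2206521 0 0) (P.lf 0 245169 0)))) (P.cons (P.cons (P.lf 13823379 0 0) (P.cons (P.lf 799815 0 0) (P.cons (P.lf 344889 0 0) (P.lf 0 38316 0)))) (P.cons (P.cons (P.lf 994317 0 0) (P.cons (P.lf 0 69411 0) (P.cons (P.lf 0 29928 0) P.nil))) (P.cons (P.cons (P.lf 0 81714 0) (P.cons (P.lf 0 2853 0) P.nil)) (P.cons (P.cons (P.lf 0 2229 0) P.nil) P.nil)))))) 10563)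
 (EL.cons 11 (TM.mk (P.cons (P.cons (P.lf 175150704 0 0) (P.cons (P.lf 163169082 0 0) (P.cons (P.lf 0 16746453 0) (P.cons (P.lf 0 3482793 0) (P.lf 290232 0 0))))) (P.cons (P.cons (P.lf 0 22701633 0) (P.cons (P.lf 0 21148671 0) (P.cons (P.lf 2170539 0 0) (P.cons (P.lf 451410 0 0) (P.lf 0 37617 0))))) (P.cons (P.cons (P.lf 0 560337 0) (P.cons (P.lf 0 522003 0) (P.cons (P.lf 53574 0 0) (P.cons (P.lf 11142 0 0) P.nil)))) (P.cons (P.cons (P.lf 165666 0 0) (P.cons (P.lf 154332 0 0) (P.cons (P.lf 0 15837 0) P.nil))) (P.cons (P.cons (P.lf 0 3675 0) (P.cons (P.lf 0 3423 0) P.nil)) (P.cons (P.cons (P.lf 0 330 0) P.nil) P.nil)))))) 11454)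
 EL.nil)))
noncomputable def S386_401_216_364_26 : EL := (EL.cons 4 (TM.mk (P.cons (P.cons (P.lf 0 345463398 0) (P.cons (P.lf 0 13682058 0) (P.cons (P.lf 0 5327859 0) (P.cons (P.lf 1148841 0 0) (P.cons (P.lf 51546 0 0) (P.cons (P.lf 0 23634 0) P.nil)))))) (P.cons (P.cons (P.lf 0 30748650 0) (P.cons (P.lf 0 552258 0) (P.cons (P.lf 0 504540 0) (P.cons (P.lf 0 203286 0) (P.cons (P.lf 0 24006 0) P.nil))))) (P.cons (P.cons (P.lf 7870755 0 0) (P.cons (P.lf 517671 0 0) (P.cons (P.lf 268545 0 0) (P.cons (P.lf 14280 0 0) P.nil)))) (P.cons (P.cons (P.lf 636090 0 0) (P.cons (P.lf 10665 0 0) (P.cons (P.lf 2301 0 0) P.nil))) (P.cons (P.cons (P.lf 0 82536 0) (P.cons (P.lf 0 10209 0) P.nil)) (P.cons (P.cons (P.lf 0 5100 0) P.nil) P.nil)))))) 55533)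
 (EL.cons 8 (TM.mk (P.cons (P.cons (P.lf 0 386933541 0) (P.cons (P.lf 0 15324483 0) (P.cons (P.lf 0 5967429 0) (P.cons (P.lf 1286751 0 0) (P.cons (P.lf 57735 0 0) (P.cons (P.lf 0 26472 0) P.nil)))))) (P.cons (P.cons (P.lf 0 79351623 0) (P.cons (P.lf 0 2397282 0) (P.cons (P.lf 0 1257750 0) (P.cons (P.lf 0 78336 0) (P.cons (P.lf 0 20187 0) P.nil))))) (P.cons (P.cons (P.lf 1405614 0 0) (P.cons (P.lf 372861 0 0) (P.cons (P.lf 182559 0 0) (P.cons (P.lf 918 0 0) P.nil)))) (P.cons (P.cons (P.lf 1146627 0 0) (P.cons (P.lf 62490 0 0) (P.cons (P.lf 28104 0 0) P.nil))) (P.cons (P.cons (P.lf 19323 0 0) (P.cons (P.lf 0 6309 0) P.nil)) (P.cons (P.cons (P.lf 0 7641 0) P.nil) P.nil)))))) 38199)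
 (EL.cons 11 (TM.mk (P.cons (P.cons (P.lf 67505367 0 0) (P.cons (P.lf 61169415 0 0) (P.cons (P.lf 0 8795706 0) (P.cons (P.lf 0 1785903 0) (P.cons (P.lf 293541 0 0) (P.cons (P.lf 4014 0 0) P.nil)))))) (P.cons (P.cons (P.lf 0 1584258 0) (P.cons (P.lf 0 787056 0) (P.cons (P.lf 1090206 0 0) (P.cons (P.lf 209349 0 0) (P.cons (P.lf 0 75465 0) P.nil))))) (P.cons (P.cons (P.lf 0 1169295 0) (P.cons (P.lf 0 1187151 0) (P.cons (P.lf 0 21540 0) (P.cons (P.lf 0 2010 0) P.nil)))) (P.cons (P.cons (P.lf 12030 0 0) (P.cons (P.lf 14715 0 0) (P.cons (P.lf 3633 0 0) P.nil))) (P.cons (P.cons (P.lf 10665 0 0) (P.cons (P.lf 10476 0 0) P.nil)) (P.cons (P.cons (P.lf 0 306 0) P.nil) P.nil)))))) 45414)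
 EL.nil)))
noncomputable def S386_401_216_364_27 : EL := (EL.cons 13 (TM.mk (P.lf 0 4294967296 0) 0)
 EL.nil)
noncomputable def S386_401_216_364_28 : EL := (EL.cons 13 (TM.mk (P.cons (P.cons (P.lf 0 1655336495 0) (P.cons (P.lf 42129956 0 0) (P.cons (P.lf 18166912 0 0) (P.lf 0 2018544 0)))) (P.cons (P.cons (P.lf 0 175702996 0) (P.cons (P.lf 0 11430520 0) (P.cons (P.lf 0 4928968 0) (P.lf 547660 0 0)))) (P.cons (P.cons (P.lf 604055 0 0) (P.cons (P.lf 1052504 0 0) (P.cons (P.lf 453852 0 0) (P.lf 0 50424 0)))) (P.cons (P.cons (P.lf 786887 0 0) (P.cons (P.lf 0 26080 0) (P.cons (P.lf 0 11248 0) P.nil))) (P.cons (P.cons (P.lf 0 26144 0) (P.cons (P.lf 0 1632 0) P.nil)) (P.cons (P.cons (P.lf 0 691 0) P.nil) P.nil)))))) 3465)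
 EL.nil)
noncomputable def S386_401_216_364_29 : EL := (EL.cons 13 (TM.mk (P.cons (P.cons (P.lf 0 637988306 0) (P.cons (P.lf 32474870 0 0) (P.cons (P.lf 13590271 0 0) (P.cons (P.lf 0 1912350 0) (P.cons (P.lf 0 37242 0) (P.cons (P.lf 17076 0 0) P.nil)))))) (P.cons (P.cons (P.lf 0 135436459 0) (P.cons (P.lf 0 5363951 0) (P.cons (P.lf 0 2088748 0) (P.cons (P.lf 450393 0 0) (P.cons (P.lf 20208 0 0) P.nil))))) (P.cons (P.cons (P.lf 0 6722219 0) (P.cons (P.lf 0 135776 0) (P.cons (P.lf 0 109617 0) (P.cons (P.lf 0 37535 0) P.nil)))) (P.cons (P.cons (P.lf 655975 0 0) (P.cons (P.lf 53788 0 0) (P.cons (P.lf 29306 0 0) P.nil))) (P.cons (P.cons (P.lf 44144 0 0) (P.cons (P.lf 1013 0 0) P.nil)) (P.cons (P.cons (P.lf 0 2893 0) P.nil) P.nil)))))) 48161)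
 EL.nil)
noncomputable def S386_401_216_364_30 : EL := (EL.cons 13 (TM.mk (P.cons (P.lf 0 3390935564 0) (P.cons (P.lf 0 86918492 0) (P.cons (P.lf 5186924 0 0) (P.cons (P.lf 0 81428 0) (P.cons (P.lf 0 1732 0) (P.cons (P.lf 112 0 0) P.nil)))))) 72)
 EL.nil)
noncomputable def S386_401_216_364_31 : EL := (EL.cons 13 (TM.mk (P.cons (P.cons (P.lf 0 1306910857 0) (P.cons (P.lf 33262177 0 0) (P.cons (P.lf 14343026 0 0) (P.lf 0 1593668 0)))) (P.cons (P.cons (P.lf 0 172219446 0) (P.cons (P.lf 0 8171956 0) (P.cons (P.lf 0 3523838 0) (P.lf 391535 0 0)))) (P.cons (P.cons (P.lf 0 1079734 0) (P.cons (P.lf 548764 0 0) (P.cons (P.lf 236633 0 0) (P.lf 0 26289 0)))) (P.cons (P.cons (P.lf 814291 0 0) (P.cons (P.lf 15312 0 0) (P.cons (P.lf 6601 0 0) P.nil))) (P.cons (P.cons (P.lf 0 9444 0) (P.cons (P.lf 0 3287 0) P.nil)) (P.cons (P.cons (P.lf 0 2041 0) P.nil) P.nil)))))) 5716)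
 EL.nil)
noncomputable def S386_401_216_364_32 : EL := (EL.cons 13 (TM.mk (P.cons (P.cons (P.lf 0 503700514 0) (P.cons (P.lf 25639355 0 0) (P.cons (P.lf 10729705 0 0) (P.cons (P.lf 0 1509826 0) (P.cons (P.lf 0 29403 0) (P.cons (P.lf 13481 0 0) P.nil)))))) (P.cons (P.cons (P.lf 0 119840094 0) (P.cons (P.lf 0 3577709 0) (P.cons (P.lf 0 1374064 0) (P.cons (P.lf 316890 0 0) (P.cons (P.lf 15200 0 0) P.nil))))) (P.cons (P.cons (P.lf 0 7277668 0) (P.cons (P.lf 0 254967 0) (P.cons (P.lf 0 145227 0) (P.cons (P.lf 0 18210 0) P.nil)))) (P.cons (P.cons (P.lf 533329 0 0) (P.cons (P.lf 46812 0 0) (P.cons (P.lf 23699 0 0) P.nil))) (P.cons (P.cons (P.lf 53420 0 0) (P.cons (P.lf 1963 0 0) P.nil)) (P.cons (P.cons (P.lf 0 2348 0) P.nil) P.nil)))))) 42373)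
 EL.nil)
noncomputable def S386_401_216_364_33 : EL := (EL.cons 14 (TM.mk (P.lf 8589934592 0 0) 0)
 EL.nil)
noncomputable def S386_401_216_364_34 : EL := (EL.cons 14 (TM.mk (P.cons (P.cons (P.lf 3310672990 0 0) (P.cons (P.lf 0 84259912 0) (P.cons (P.lf 0 36333824 0) (P.lf 4037088 0 0)))) (P.cons (P.cons (P.lf 351405992 0 0) (P.cons (P.lf 22861040 0 0) (P.cons (P.lf 9857936 0 0) (P.lf 0 1095320 0)))) (P.cons (P.cons (P.lf 0 1208110 0) (P.cons (P.lf 0 2105008 0) (P.cons (P.lf 0 907704 0) (P.lf 100848 0 0)))) (P.cons (P.cons (P.lf 0 1573774 0) (P.cons (P.lf 52160 0 0) (P.cons (P.lf 22496 0 0) P.nil))) (P.cons (P.cons (P.lf 52288 0 0) (P.cons (P.lf 3264 0 0) P.nil)) (P.cons (P.cons (P.lf 1382 0 0) P.nil) P.nil)))))) 6930)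
 EL.nil)
noncomputable def S386_401_216_364_35 : EL := (EL.cons 14 (TM.mk (P.cons (P.cons (P.lf 1275976612 0 0) (P.cons (P.lf 0 64949740 0) (P.cons (P.lf 0 27180542 0) (P.cons (P.lf 3824700 0 0) (P.cons (P.lf 74484 0 0) (P.cons (P.lf 0 34152 0) P.nil)))))) (P.cons (P.cons (P.lf 270872918 0 0) (P.cons (P.lf 10727902 0 0) (P.cons (P.lf 4177496 0 0) (P.cons (P.lf 0 900786 0) (P.cons (P.lf 0 40416 0) P.nil))))) (P.cons (P.cons (P.lf 13444438 0 0) (P.cons (P.lf 271552 0 0) (P.cons (P.lf 219234 0 0) (P.cons (P.lf 75070 0 0) P.nil)))) (P.cons (P.cons (P.lf 0 1311950 0) (P.cons (P.lf 0 107576 0) (P.cons (P.lf 0 58612 0) P.nil))) (P.cons (P.cons (P.lf 0 88288 0) (P.cons (P.lf 0 2026 0) P.nil)) (P.cons (P.cons (P.lf 5786 0 0) P.nil) P.nil)))))) 96322)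
 EL.nil)
noncomputable def S386_401_216_364_36 : EL := (EL.cons 14 (TM.mk (P.cons (P.lf 6781871128 0 0) (P.cons (P.lf 173836984 0 0) (P.cons (P.lf 0 10373848 0) (P.cons (P.lf 162856 0 0) (P.cons (P.lf 3464 0 0) (P.cons (P.lf 0 224 0) P.nil)))))) 144)
 EL.nil)
noncomputable def S386_401_216_364_37 : EL := (EL.cons 14 (TM.mk (P.cons (P.cons (P.lf 2613821714 0 0) (P.cons (P.lf 0 66524354 0) (P.cons (P.lf 0 28686052 0) (P.lf 3187336 0 0)))) (P.cons (P.cons (P.lf 344438892 0 0) (P.cons (P.lf 16343912 0 0) (P.cons (P.lf 7047676 0 0) (P.lf 0 783070 0)))) (P.cons (P.cons (P.lf 2159468 0 0) (P.cons (P.lf 0 1097528 0) (P.cons (P.lf 0 473266 0) (P.lf 52578 0 0)))) (P.cons (P.cons (P.lf 0 1628582 0) (P.cons (P.lf 0 30624 0) (P.cons (P.lf 0 13202 0) P.nil))) (P.cons (P.cons (P.lf 18888 0 0) (P.cons (P.lf 6574 0 0) P.nil)) (P.cons (P.cons (P.lf 4082 0 0) P.nil) P.nil)))))) 11432)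
 EL.nil)
noncomputable def S386_401_216_364_38 : EL := (EL.cons 14 (TM.mk (P.cons (P.cons (P.lf 1007401028 0 0) (P.cons (P.lf 0 51278710 0) (P.cons (P.lf 0 21459410 0) (P.cons (P.lf 3019652 0 0) (P.cons (P.lf 58806 0 0) (P.cons (P.lf 0 26962 0) P.nil)))))) (P.cons (P.cons (P.lf 239680188 0 0) (P.cons (P.lf 7155418 0 0) (P.cons (P.lf 2748128 0 0) (P.cons (P.lf 0 633780 0) (P.cons (P.lf 0 30400 0) P.nil))))) (P.cons (P.cons (P.lf 14555336 0 0) (P.cons (P.lf 509934 0 0) (P.cons (P.lf 290454 0 0) (P.cons (P.lf 36420 0 0) P.nil)))) (P.cons (P.cons (P.lf 0 1066658 0) (P.cons (P.lf 0 93624 0) (P.cons (P.lf 0 47398 0) P.nil))) (P.cons (P.cons (P.lf 0 106840 0) (P.cons (P.lf 0 3926 0) P.nil)) (P.cons (P.cons (P.lf 4696 0 0) P.nil) P.nil)))))) 84746)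
 EL.nil)
noncomputable def S386_401_216_364_39 : EL := (EL.cons 14 (TM.mk (P.cons (P.lf 5354380234 0 0) (P.cons (P.lf 274493364 0 0) (P.cons (P.lf 0 12862600 0) (P.cons (P.lf 0 162722 0) (P.cons (P.lf 24588 0 0) (P.cons (P.lf 0 606 0) P.nil)))))) 268)
 EL.nil)
noncomputable def S386_401_216_364_40 : EL := (EL.cons 14 (TM.mk (P.cons (P.cons (P.lf 2063648078 0 0) (P.cons (P.lf 0 52521890 0) (P.cons (P.lf 0 22648030 0) (P.lf 2516444 0 0)))) (P.cons (P.cons (P.lf 324835890 0 0) (P.cons (P.lf 11557470 0 0) (P.cons (P.lf 4983710 0 0) (P.lf 0 553740 0)))) (P.cons (P.cons (P.lf 5518792 0 0) (P.cons (P.lf 0 455416 0) (P.cons (P.lf 0 196380 0) (P.lf 21814 0 0)))) (P.cons (P.cons (P.lf 0 1608500 0) (P.cons (P.lf 0 67388 0) (P.cons (P.lf 0 29056 0) P.nil))) (P.cons (P.cons (P.lf 0 13068 0) (P.cons (P.lf 6178 0 0) P.nil)) (P.cons (P.cons (P.lf 5684 0 0) P.nil) P.nil)))))) 12786)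
 EL.nil)
noncomputable def S386_401_216_364_41 : EL := (EL.cons 14 (TM.mk (P.cons (P.cons (P.lf 795356922 0 0) (P.cons (P.lf 0 40485244 0) (P.cons (P.lf 0 16942498 0) (P.cons (P.lf 2384056 0 0) (P.cons (P.lf 46428 0 0) (P.cons (P.lf 0 21288 0) P.nil)))))) (P.cons (P.cons (P.lf 209617860 0 0) (P.cons (P.lf 4611558 0 0) (P.cons (P.lf 1735404 0 0) (P.cons (P.lf 0 439268 0) (P.cons (P.lf 0 22812 0) P.nil))))) (P.cons (P.cons (P.lf 15125502 0 0) (P.cons (P.lf 609334 0 0) (P.cons (P.lf 310848 0 0) (P.cons (P.lf 12280 0 0) P.nil)))) (P.cons (P.cons (P.lf 0 817936 0) (P.cons (P.lf 0 73210 0) (P.cons (P.lf 0 35268 0) P.nil))) (P.cons (P.cons (P.lf 0 118566 0) (P.cons (P.lf 0 5496 0) P.nil)) (P.cons (P.cons (P.lf 3180 0 0) P.nil) P.nil)))))) 73090)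
 EL.nil)
noncomputable def S386_401_216_364_42 : EL := (EL.cons 14 (TM.mk (P.cons (P.lf 4227356602 0 0) (P.cons (P.lf 325074410 0 0) (P.cons (P.lf 0 11066548 0) (P.cons (P.lf 0 618760 0) (P.cons (P.lf 39016 0 0) (P.cons (P.lf 0 56 0) P.nil)))))) 384)
 EL.nil)
noncomputable def S386_401_216_364_43 : EL := (EL.cons 14 (TM.mk (P.cons (P.cons (P.lf 1629278450 0 0) (P.cons (P.lf 0 41466752 0) (P.cons (P.lf 0 17880930 0) (P.lf 1986768 0 0)))) (P.cons (P.cons (P.lf 298225030 0 0) (P.cons (P.lf 8061880 0 0) (P.cons (P.lf 3476372 0 0) (P.lf 0 386260 0)))) (P.cons (P.cons (P.lf 8438744 0 0) (P.cons (P.lf 0 62236 0) (P.cons (P.lf 0 26836 0) (P.lf 2978 0 0)))) (P.cons (P.cons (P.lf 0 1511418 0) (P.cons (P.lf 0 77374 0) (P.cons (P.lf 0 33362 0) P.nil))) (P.cons (P.cons (P.lf 0 42544 0) (P.cons (P.lf 4262 0 0) P.nil)) (P.cons (P.cons (P.lf 6346 0 0) P.nil) P.nil)))))) 13408)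
 EL.nil)
noncomputable def S386_401_216_364_44 : EL := (EL.cons 14 (TM.mk (P.cons (P.cons (P.lf 627945194 0 0) (P.cons (P.lf 0 31963654 0) (P.cons (P.lf 0 13376334 0) (P.cons (P.lf 1882246 0 0) (P.cons (P.lf 36654 0 0) (P.cons (P.lf 0 16806 0) P.nil)))))) (P.cons (P.cons (P.lf 181592040 0 0) (P.cons (P.lf 2821576 0 0) (P.cons (P.lf 1027256 0 0) (P.cons (P.lf 0 298562 0) (P.cons (P.lf 0 17070 0) P.nil))))) (P.cons (P.cons (P.lf 15223354 0 0) (P.cons (P.lf 623296 0 0) (P.cons (P.lf 301000 0 0) (P.cons (P.lf 0 2072 0) P.nil)))) (P.cons (P.cons (P.lf 0 577744 0) (P.cons (P.lf 0 51806 0) (P.cons (P.lf 0 23972 0) P.nil))) (P.cons (P.cons (P.lf 0 124134 0) (P.cons (P.lf 0 6484 0) P.nil)) (P.cons (P.cons (P.lf 1450 0 0) P.nil) P.nil)))))) 62636)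
 EL.nil)
noncomputable def S386_401_216_364_45 : EL := (EL.cons 14 (TM.mk (P.cons (P.cons (P.lf 491778052 0 0) (P.cons (P.lf 0 37548716 0) (P.cons (P.lf 0 15235778 0) (P.cons (P.lf 2615114 0 0) (P.cons (P.lf 75632 0 0) (P.cons (P.lf 0 42844 0) P.nil)))))) (P.cons (P.cons (P.lf 156596940 0 0) (P.cons (P.lf 2216462 0 0) (P.cons (P.lf 538632 0 0) (P.cons (P.lf 0 459336 0) (P.cons (P.lf 0 29052 0) P.nil))))) (P.cons (P.cons (P.lf 16083356 0 0) (P.cons (P.lf 828992 0 0) (P.cons (P.lf 420176 0 0) (P.cons (P.lf 11958 0 0) P.nil)))) (P.cons (P.cons (P.lf 0 227512 0) (P.cons (P.lf 0 29942 0) (P.cons (P.lf 0 14776 0) P.nil))) (P.cons (P.cons (P.lf 0 131448 0) (P.cons (P.lf 0 11370 0) P.nil)) (P.cons (P.cons (P.lf 0 1806 0) P.nil) P.nil)))))) 110734)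
 EL.nil)
noncomputable def S386_401_216_364_46 : EL := (EL.cons 15 (TM.mk (P.lf 4294967296 0 0) 0)
 EL.nil)
noncomputable def S386_401_216_364_47 : EL := (EL.cons 15 (TM.mk (P.cons (P.cons (P.lf 1655336495 0 0) (P.cons (P.lf 0 42129956 0) (P.cons (P.lf 0 18166912 0) (P.lf 2018544 0 0)))) (P.cons (P.cons (P.lf 175702996 0 0) (P.cons (P.lf 11430520 0 0) (P.cons (P.lf 4928968 0 0) (P.lf 0 547660 0)))) (P.cons (P.cons (P.lf 0 604055 0) (P.cons (P.lf 0 1052504 0) (P.cons (P.lf 0 453852 0) (P.lf 50424 0 0)))) (P.cons (P.cons (P.lf 0 786887 0) (P.cons (P.lf 26080 0 0) (P.cons (P.lf 11248 0 0) P.nil))) (P.cons (P.cons (P.lf 26144 0 0) (P.cons (P.lf 1632 0 0) P.nil)) (P.cons (P.cons (P.lf 691 0 0) P.nil) P.nil)))))) 3465)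
 EL.nil)
noncomputable def S386_401_216_364_48 : EL := (EL.cons 15 (TM.mk (P.cons (P.cons (P.lf 637988306 0 0) (P.cons (P.lf 0 32474870 0) (P.cons (P.lf 0 13590271 0) (P.cons (P.lf 1912350 0 0) (P.cons (P.lf 37242 0 0) (P.cons (P.lf 0 17076 0) P.nil)))))) (P.cons (P.cons (P.lf 135436459 0 0) (P.cons (P.lf 5363951 0 0) (P.cons (P.lf 2088748 0 0) (P.cons (P.lf 0 450393 0) (P.cons (P.lf 0 20208 0) P.nil))))) (P.cons (P.cons (P.lf 6722219 0 0) (P.cons (P.lf 135776 0 0) (P.cons (P.lf 109617 0 0) (P.cons (P.lf 37535 0 0) P.nil)))) (P.cons (P.cons (P.lf 0 655975 0) (P.cons (P.lf 0 53788 0) (P.cons (P.lf 0 29306 0) P.nil))) (P.cons (P.cons (P.lf 0 44144 0) (P.cons (P.lf 0 1013 0) P.nil)) (P.cons (P.cons (P.lf 2893 0 0) P.nil) P.nil)))))) 48161)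
 EL.nil)
noncomputable def S386_401_216_364 : SL := (SL.cons S386_401_216_364_0 (SL.cons S386_401_216_364_1 (SL.cons S386_401_216_364_2 (SL.cons S386_401_216_364_3 (SL.cons S386_401_216_364_4 (SL.cons S386_401_216_364_5 (SL.cons S386_401_216_364_6 (SL.cons S386_401_216_364_7 (SL.cons S386_401_216_364_8 (SL.cons S386_401_216_364_9 (SL.cons S386_401_216_364_10 (SL.cons S386_401_216_364_11 (SL.cons S386_401_216_364_12 (SL.cons S386_401_216_364_13 (SL.cons S386_401_216_364_14 (SL.cons S386_401_216_364_15 (SL.cons S386_401_216_364_16 (SL.cons S386_401_216_364_17 (SL.cons S386_401_216_364_18 (SL.cons S386_401_216_364_19 (SL.cons S386_401_216_364_20 (SL.cons S386_401_216_364_21 (SL.cons S386_401_216_364_22 (SL.cons S386_401_216_364_23 (SL.cons S386_401_216_364_24 (SL.cons S386_401_216_364_25 (SL.cons S386_401_216_364_26 (SL.cons S386_401_216_364_27 (SL.cons S386_401_216_364_28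 (SL.cons S386_401_216_364_29 (SL.cons S386_401_216_364_30 (SL.cons S386_401_216_364_31 (SL.cons S386_401_216_364_32 (SL.cons S386_401_216_364_33 (SL.cons S386_401_216_364_34 (SL.cons S386_401_216_364_35 (SL.cons S386_401_216_364_36 (SL.cons S386_401_216_364_37 (SL.cons S386_401_216_364_38 (SL.cons S386_401_216_364_39 (SL.cons S386_401_216_364_40 (SL.cons S386_401_216_364_41 (SL.cons S386_401_216_364_42 (SL.cons S386_401_216_364_43 (SL.cons S386_401_216_364_44 (SL.cons S386_401_216_364_45 (SL.cons S386_401_216_364_46 (SL.cons S386_401_216_364_47 (SL.cons S386_401_216_364_48 SL.nil)))))))))))))))))))))))))))))))))))))))))))))))))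
noncomputable def S386_401_364_512_0 : EL := (EL.cons 0 (TM.mk (P.cons (P.lf 3749718611 0 0) (P.cons (P.lf 0 241253933 0) (P.cons (P.lf 11305019 0 0) (P.cons (P.lf 143017 0 0) (P.cons (P.lf 0 21610 0) (P.cons (P.lf 532 0 0) P.nil)))))) 242)
 (EL.cons 1 (TM.mk (P.cons (P.lf 1493911567 0 0) (P.cons (P.lf 0 96814440 0) (P.cons (P.lf 0 5526710 0) (P.cons (P.lf 348346 0 0) (P.cons (P.lf 0 3322 0) (P.cons (P.lf 0 335 0) P.nil)))))) 136)
 (EL.cons 5 (TM.mk (P.cons (P.lf 5968211122 0 0) (P.cons (P.lf 85779174 0 0) (P.cons (P.lf 0 4019562 0) (P.cons (P.lf 0 50846 0) (P.cons (P.lf 7688 0 0) (P.cons (P.lf 0 190 0) P.nil)))))) 71)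
 (EL.cons 9 (TM.mk (P.lf 6442450944 0 0) 2)
 EL.nil))))
noncomputable def S386_401_364_512_1 : EL := (EL.cons 0 (TM.mk (P.cons (P.cons (P.lf 3913752385 0 0) (P.cons (P.lf 218652922 0 0) (P.cons (P.lf 14618616 0 0) (P.lf 0 4872864 0)))) (P.cons (P.cons (P.lf 0 91203177 0) (P.cons (P.lf 0 38973103 0) (P.cons (P.lf 0 2605635 0) (P.lf 868538 0 0)))) (P.cons (P.cons (P.lf 0 45873996 0) (P.cons (P.lf 0 1012683 0) (P.cons (P.lf 0 67723 0) (P.lf 22589 0 0)))) (P.cons (P.cons (P.lf 3351527 0 0) (P.cons (P.lf 619703 0 0) (P.cons (P.lf 41429 0 0) P.nil))) (P.cons (P.cons (P.lf 136589 0 0) (P.cons (P.lf 0 39811 0) P.nil)) (P.cons (P.cons (P.lf 0 19299 0) P.nil) P.nil)))))) 45391)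
 (EL.cons 1 (TM.mk (P.cons (P.cons (P.lf 1566754377 0 0) (P.cons (P.lf 87973314 0 0) (P.cons (P.lf 5881695 0 0) (P.lf 0 1960566 0)))) (P.cons (P.cons (P.lf 179055575 0 0) (P.cons (P.lf 9136453 0 0) (P.cons (P.lf 610836 0 0) (P.lf 0 203609 0)))) (P.cons (P.cons (P.lf 0 27152582 0) (P.cons (P.lf 0 4403515 0) (P.cons (P.lf 0 294397 0) (P.lf 98121 0 0)))) (P.cons (P.cons (P.lf 0 1544581 0) (P.cons (P.lf 259942 0 0) (P.cons (P.lf 17371 0 0) P.nil))) (P.cons (P.cons (P.lf 191175 0 0) (P.cons (P.lf 13256 0 0) P.nil)) (P.cons (P.cons (P.lf 0 583 0) P.nil) P.nil)))))) 18793)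
 (EL.cons 5 (TM.mk (P.cons (P.cons (P.lf 1183191008 0 0) (P.cons (P.lf 0 231720864 0) (P.cons (P.lf 0 15492316 0) (P.lf 5164104 0 0)))) (P.cons (P.cons (P.lf 396055444 0 0) (P.cons (P.lf 55633662 0 0) (P.cons (P.lf 3719534 0 0) (P.lf 0 1239838 0)))) (P.cons (P.cons (P.lf 9304953 0 0) (P.cons (P.lf 0 3486668 0) (P.cons (P.lf 0 233104 0) (P.lf 77696 0 0)))) (P.cons (P.cons (P.lf 0 2381192 0) (P.cons (P.lf 0 125004 0) (P.cons (P.lf 0 8356 0) P.nil))) (P.cons (P.cons (P.lf 5184 0 0) (P.cons (P.lf 20132 0 0) P.nil)) (P.cons (P.cons (P.lf 7356 0 0) P.nil) P.nil)))))) 13466)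
 (EL.cons 9 (TM.mk (P.cons (P.cons (P.lf 2271835942 0 0) (P.cons (P.lf 0 135862584 0) (P.cons (P.lf 0 9083454 0) (P.lf 3027816 0 0)))) (P.cons (P.cons (P.lf 320847924 0 0) (P.cons (P.lf 36861666 0 0) (P.cons (P.lf 2464482 0 0) (P.lf 0 821490 0)))) (P.cons (P.cons (P.lf 0 6181588 0) (P.cons (P.lf 0 3394170 0) (P.cons (P.lf 0 226920 0) (P.lf 75636 0 0)))) (P.cons (P.cons (P.lf 0 1049590 0) (P.cons (P.lf 84114 0 0) (P.cons (P.lf 5622 0 0) P.nil))) (P.cons (P.cons (P.lf 47412 0 0) (P.cons (P.lf 5274 0 0) P.nil)) (P.cons (P.cons (P.lf 436 0 0) P.nil) P.nil)))))) 4574)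
 (EL.cons 2 (TM.mk (P.cons (P.cons (P.lf 0 488375465 0) (P.cons (P.lf 0 75612785 0) (P.cons (P.lf 36427854 0 0) (P.cons (P.lf 1378532 0 0) (P.lf 0 344632 0))))) (P.cons (P.cons (P.lf 75817653 0 0) (P.cons (P.lf 11738475 0 0) (P.cons (P.lf 0 5655225 0) (P.cons (P.lf 0 214008 0) (P.lf 53502 0 0))))) (P.cons (P.cons (P.lf 0 1128048 0) (P.cons (P.lf 0 174647 0) (P.cons (P.lf 84138 0 0) (P.cons (P.lf 3180 0 0) P.nil)))) (P.cons (P.cons (P.lf 0 305310 0) (P.cons (P.lf 0 47266 0) (P.cons (P.lf 22770 0 0) P.nil))) (P.cons (P.cons (P.lf 14776 0 0) (P.cons (P.lf 2286 0 0) P.nil)) (P.cons (P.cons (P.lf 47 0 0) P.nil) P.nil)))))) 7957)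
 (EL.cons 6 (TM.mk (P.cons (P.cons (P.lf 155034003 0 0) (P.cons (P.lf 24003156 0 0) (P.cons (P.lf 0 11563962 0) (P.cons (P.lf 0 437613 0) (P.lf 109401 0 0))))) (P.cons (P.cons (P.lf 0 42063174 0) (P.cons (P.lf 0 6512433 0) (P.cons (P.lf 3137484 0 0) (P.cons (P.lf 118731 0 0) (P.lf 0 29682 0))))) (P.cons (P.cons (P.lf 3873123 0 0) (P.cons (P.lf 599655 0 0) (P.cons (P.lf 0 288894 0) (P.cons (P.lf 0 10929 0) P.nil)))) (P.cons (P.cons (P.lf 0 95985 0) (P.cons (P.lf 0 14859 0) (P.cons (P.lf 7158 0 0) P.nil))) (P.cons (P.cons (P.lf 0 6018 0) (P.cons (P.lf 0 930 0) P.nil)) (P.cons (P.cons (P.lf 438 0 0) P.nil) P.nil)))))) 4002)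
 EL.nil))))))
noncomputable def S386_401_364_512_2 : EL := (EL.cons 0 (TM.mk (P.cons (P.cons (P.lf 2293971029 0 0) (P.cons (P.lf 44908341 0 0) (P.cons (P.lf 0 7887331 0) (P.cons (P.lf 0 2456940 0) (P.cons (P.lf 436696 0 0) (P.cons (P.lf 32448 0 0) P.nil)))))) (P.cons (P.cons (P.lf 223798867 0 0) (P.cons (P.lf 32082153 0 0) (P.cons (P.lf 7303031 0 0) (P.cons (P.lf 0 25275 0) (P.cons (P.lf 0 206841 0) P.nil))))) (P.cons (P.cons (P.lf 0 48643131 0) (P.cons (P.lf 0 8508933 0) (P.cons (P.lf 0 1471873 0) (P.cons (P.lf 68880 0 0) P.nil)))) (P.cons (P.cons (P.lf 0 2496265 0) (P.cons (P.lf 87232 0 0) (P.cons (P.lf 55470 0 0) P.nil))) (P.cons (P.cons (P.lf 569942 0 0) (P.cons (P.lf 119047 0 0) P.nil)) (P.cons (P.cons (P.lf 3963 0 0) P.nil) P.nil)))))) 331156)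
 (EL.cons 1 (TM.mk (P.cons (P.cons (P.lf 919215526 0 0) (P.cons (P.lf 18182793 0 0) (P.cons (P.lf 0 3159207 0) (P.cons (P.lf 0 990208 0) (P.cons (P.lf 175441 0 0) (P.cons (P.lf 13041 0 0) P.nil)))))) (P.cons (P.cons (P.lf 241905022 0 0) (P.cons (P.lf 21252669 0 0) (P.cons (P.lf 2445838 0 0) (P.cons (P.lf 0 336573 0) (P.cons (P.lf 0 41105 0) P.nil))))) (P.cons (P.cons (P.lf 0 2928411 0) (P.cons (P.lf 0 1072757 0) (P.cons (P.lf 22858 0 0) (P.cons (P.lf 36541 0 0) P.nil)))) (P.cons (P.cons (P.lf 0 4008132 0) (P.cons (P.lf 0 585020 0) (P.cons (P.lf 0 94128 0) P.nil))) (P.cons (P.cons (P.lf 0 9307 0) (P.cons (P.lf 47068 0 0) P.nil)) (P.cons (P.cons (P.lf 29037 0 0) P.nil) P.nil)))))) 132867)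
 (EL.cons 5 (TM.mk (P.cons (P.cons (P.lf 92312811 0 0) (P.cons (P.lf 0 124563297 0) (P.cons (P.lf 0 1208907 0) (P.cons (P.lf 3727935 0 0) (P.cons (P.lf 0 285481 0) (P.cons (P.lf 0 21206 0) P.nil)))))) (P.cons (P.cons (P.lf 176883003 0 0) (P.cons (P.lf 2719977 0 0) (P.cons (P.lf 0 3414150 0) (P.cons (P.lf 0 541459 0) (P.cons (P.lf 144200 0 0) P.nil))))) (P.cons (P.cons (P.lf 30463787 0 0) (P.cons (P.lf 4769012 0 0) (P.cons (P.lf 1041185 0 0) (P.cons (P.lf 0 9685 0) P.nil)))) (P.cons (P.cons (P.lf 0 649208 0) (P.cons (P.lf 0 376930 0) (P.cons (P.lf 0 90886 0) P.nil))) (P.cons (P.cons (P.lf 0 276491 0) (P.cons (P.lf 0 37105 0) P.nil)) (P.cons (P.cons (P.lf 6588 0 0) P.nil) P.nil)))))) 127411)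
 (EL.cons 9 (TM.mk (P.cons (P.cons (P.lf 801129661 0 0) (P.cons (P.lf 0 95819899 0) (P.cons (P.lf 0 3541135 0) (P.cons (P.lf 2518545 0 0) (P.cons (P.lf 0 114897 0) (P.cons (P.lf 0 8538 0) P.nil)))))) (P.cons (P.cons (P.lf 226284639 0 0) (P.cons (P.lf 12464953 0 0) (P.cons (P.lf 0 721348 0) (P.cons (P.lf 0 485679 0) (P.cons (P.lf 62346 0 0) P.nil))))) (P.cons (P.cons (P.lf 11619223 0 0) (P.cons (P.lf 1538494 0 0) (P.cons (P.lf 456931 0 0) (P.cons (P.lf 13053 0 0) P.nil)))) (P.cons (P.cons (P.lf 0 1355958 0) (P.cons (P.lf 0 305220 0) (P.cons (P.lf 0 62794 0) P.nil))) (P.cons (P.cons (P.lf 0 65173 0) (P.cons (P.lf 4600 0 0) P.nil)) (P.cons (P.cons (P.lf 7044 0 0) P.nil) P.nil)))))) 56315)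
 (EL.cons 2 (TM.mk (P.cons (P.cons (P.lf 0 344436901 0) (P.cons (P.lf 0 32729124 0) (P.cons (P.lf 30257797 0 0) (P.cons (P.lf 0 810016 0) (P.cons (P.lf 0 474997 0) (P.cons (P.lf 44887 0 0) P.nil)))))) (P.cons (P.cons (P.lf 4827667 0 0) (P.cons (P.lf 0 8038996 0) (P.cons (P.lf 0 2307892 0) (P.cons (P.lf 746611 0 0) (P.cons (P.lf 102341 0 0) P.nil))))) (P.cons (P.cons (P.lf 7693380 0 0) (P.cons (P.lf 2620906 0 0) (P.cons (P.lf 0 256888 0) (P.cons (P.lf 0 145423 0) P.nil)))) (P.cons (P.cons (P.lf 0 314049 0) (P.cons (P.lf 0 141294 0) (P.cons (P.lf 2880 0 0) P.nil))) (P.cons (P.cons (P.lf 0 49713 0) (P.cons (P.lf 0 9444 0) P.nil)) (P.cons (P.cons (P.lf 3504 0 0) P.nil) P.nil)))))) 84115)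
 (EL.cons 6 (TM.mk (P.cons (P.cons (P.lf 109340940 0 0) (P.cons (P.lf 10389804 0 0) (P.cons (P.lf 0 9605286 0) (P.cons (P.lf 257136 0 0) (P.cons (P.lf 150786 0 0) (P.cons (P.lf 0 14244 0) P.nil)))))) (P.cons (P.cons (P.lf 0 14223870 0) (P.cons (P.lf 1346004 0 0) (P.cons (P.lf 1847532 0 0) (P.cons (P.lf 0 266856 0) (P.cons (P.lf 0 49986 0) P.nil))))) (P.cons (P.cons (P.lf 0 1755582 0) (P.cons (P.lf 0 1079862 0) (P.cons (P.lf 0 48180 0) (P.cons (P.lf 74868 0 0) P.nil)))) (P.cons (P.cons (P.lf 348282 0 0) (P.cons (P.lf 150660 0 0) (P.cons (P.lf 0 4530 0) P.nil))) (P.cons (P.cons (P.lf 0 5250 0) (P.cons (P.lf 0 6582 0) P.nil)) (P.cons (P.cons (P.lf 0 1962 0) P.nil) P.nil)))))) 41544)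
 EL.nil))))))
noncomputable def S386_401_364_512_3 : EL := (EL.cons 0 (TM.mk (P.cons (P.lf 4705998252 0 0) (P.cons (P.lf 241253933 0 0) (P.cons (P.lf 0 11305019 0) (P.cons (P.lf 0 143017 0) (P.cons (P.lf 21610 0 0) (P.cons (P.lf 0 532 0) P.nil)))))) 242)
 (EL.cons 1 (TM.mk (P.cons (P.lf 0 1493911567 0) (P.cons (P.lf 96814440 0 0) (P.cons (P.lf 5526710 0 0) (P.cons (P.lf 0 348346 0) (P.cons (P.lf 3322 0 0) (P.cons (P.lf 335 0 0) P.nil)))))) 136)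
 (EL.cons 5 (TM.mk (P.cons (P.lf 474239822 0 0) (P.cons (P.lf 0 85779174 0) (P.cons (P.lf 4019562 0 0) (P.cons (P.lf 50846 0 0) (P.cons (P.lf 0 7688 0) (P.cons (P.lf 190 0 0) P.nil)))))) 64)
 EL.nil)))
noncomputable def S386_401_364_512_4 : EL := (EL.cons 0 (TM.mk (P.cons (P.cons (P.lf 1659501339 0 0) (P.cons (P.lf 0 99243142 0) (P.cons (P.lf 0 6635163 0) (P.lf 2211718 0 0)))) (P.cons (P.cons (P.lf 319443507 0 0) (P.cons (P.lf 21838512 0 0) (P.cons (P.lf 1460068 0 0) (P.lf 0 486685 0)))) (P.cons (P.cons (P.lf 3512967 0 0) (P.cons (P.lf 0 860542 0) (P.cons (P.lf 0 57527 0) (P.lf 19172 0 0)))) (P.cons (P.cons (P.lf 0 1611622 0) (P.cons (P.lf 0 127327 0) (P.cons (P.lf 0 8513 0) P.nil))) (P.cons (P.cons (P.lf 6672 0 0) (P.cons (P.lf 11684 0 0) P.nil)) (P.cons (P.cons (P.lf 4960 0 0) P.nil) P.nil)))))) 9644)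
 (EL.cons 1 (TM.mk (P.cons (P.cons (P.lf 0 526806028 0) (P.cons (P.lf 31504575 0 0) (P.cons (P.lf 2106320 0 0) (P.lf 0 702105 0)))) (P.cons (P.cons (P.lf 0 40259816 0) (P.cons (P.lf 0 10589373 0) (P.cons (P.lf 0 707979 0) (P.lf 235991 0 0)))) (P.cons (P.cons (P.lf 8203901 0 0) (P.cons (P.lf 1224448 0 0) (P.cons (P.lf 81860 0 0) (P.lf 0 27285 0)))) (P.cons (P.cons (P.lf 302891 0 0) (P.cons (P.lf 0 31541 0) (P.cons (P.lf 0 2107 0) P.nil))) (P.cons (P.cons (P.lf 0 48245 0) (P.cons (P.lf 0 4933 0) P.nil)) (P.cons (P.cons (P.lf 328 0 0) P.nil) P.nil)))))) 4130)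
 (EL.cons 5 (TM.mk (P.cons (P.cons (P.lf 167233724 0 0) (P.cons (P.lf 0 10001076 0) (P.cons (P.lf 0 668648 0) (P.lf 222882 0 0)))) (P.cons (P.cons (P.lf 0 6630604 0) (P.cons (P.lf 4522416 0 0) (P.cons (P.lf 302356 0 0) (P.lf 0 100784 0)))) (P.cons (P.cons (P.lf 0 3309584 0) (P.cons (P.lf 0 825418 0) (P.cons (P.lf 0 55184 0) (P.lf 18394 0 0)))) (P.cons (P.cons (P.lf 223156 0 0) (P.cons (P.lf 73308 0 0) (P.cons (P.lf 4900 0 0) P.nil))) (P.cons (P.cons (P.lf 13428 0 0) (P.cons (P.lf 0 2396 0) P.nil)) (P.cons (P.cons (P.lf 0 1616 0) P.nil) P.nil)))))) 2508)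
 EL.nil)))
noncomputable def S386_401_364_512_5 : EL := (EL.cons 0 (TM.mk (P.cons (P.cons (P.lf 585198834 0 0) (P.cons (P.lf 0 69993279 0) (P.cons (P.lf 0 2586682 0) (P.cons (P.lf 1839712 0 0) (P.cons (P.lf 0 83926 0) (P.cons (P.lf 0 6236 0) P.nil)))))) (P.cons (P.cons (P.lf 195293810 0 0) (P.cons (P.lf 5517017 0 0) (P.cons (P.lf 0 659527 0) (P.cons (P.lf 0 260458 0) (P.cons (P.lf 41238 0 0) P.nil))))) (P.cons (P.cons (P.lf 15555464 0 0) (P.cons (P.lf 1758742 0 0) (P.cons (P.lf 312973 0 0) (P.cons (P.lf 0 13071 0) P.nil)))) (P.cons (P.cons (P.lf 0 970231 0) (P.cons (P.lf 0 185085 0) (P.cons (P.lf 0 27413 0) P.nil))) (P.cons (P.cons (P.lf 0 121108 0) (P.cons (P.lf 0 11366 0) P.nil)) (P.cons (P.cons (P.lf 5517 0 0) P.nil) P.nil)))))) 52464)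
 (EL.cons 1 (TM.mk (P.cons (P.cons (P.lf 0 185770426 0) (P.cons (P.lf 22219252 0 0) (P.cons (P.lf 821137 0 0) (P.cons (P.lf 0 584013 0) (P.cons (P.lf 26641 0 0) (P.cons (P.lf 1978 0 0) P.nil)))))) (P.cons (P.cons (P.lf 0 40433107 0) (P.cons (P.lf 0 4330383 0) (P.cons (P.lf 114054 0 0) (P.cons (P.lf 150468 0 0) (P.cons (P.lf 0 16183 0) P.nil))))) (P.cons (P.cons (P.lf 1393434 0 0) (P.cons (P.lf 0 251636 0) (P.cons (P.lf 0 119833 0) (P.cons (P.lf 0 8163 0) P.nil)))) (P.cons (P.cons (P.lf 639838 0 0) (P.cons (P.lf 109768 0 0) (P.cons (P.lf 21000 0 0) P.nil))) (P.cons (P.cons (P.lf 0 7117 0) (P.cons (P.lf 0 5056 0) P.nil)) (P.cons (P.cons (P.lf 0 4245 0) P.nil) P.nil)))))) 19426)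
 (EL.cons 5 (TM.mk (P.cons (P.cons (P.lf 58972522 0 0) (P.cons (P.lf 0 7053466 0) (P.cons (P.lf 0 260668 0) (P.cons (P.lf 185394 0 0) (P.cons (P.lf 0 8456 0) (P.cons (P.lf 0 628 0) P.nil)))))) (P.cons (P.cons (P.lf 5990412 0 0) (P.cons (P.lf 2193376 0 0) (P.cons (P.lf 0 5950 0) (P.cons (P.lf 0 69284 0) (P.cons (P.lf 6118 0 0) P.nil))))) (P.cons (P.cons (P.lf 0 1657756 0) (P.cons (P.lf 0 112498 0) (P.cons (P.lf 41030 0 0) (P.cons (P.lf 8998 0 0) P.nil)))) (P.cons (P.cons (P.lf 0 107014 0) (P.cons (P.lf 0 35930 0) (P.cons (P.lf 0 11184 0) P.nil))) (P.cons (P.cons (P.lf 21334 0 0) (P.cons (P.lf 5574 0 0) P.nil)) (P.cons (P.cons (P.lf 384 0 0) P.nil) P.nil)))))) 8204)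
 EL.nil)))
noncomputable def S386_401_364_512_6 : EL := (EL.cons 12 (TM.mk (P.lf 8589934592 0 0) 0)
 (EL.cons 3 (TM.mk (P.cons (P.lf 3179002091 0 0) (P.cons (P.lf 81486086 0 0) (P.cons (P.lf 0 4862741 0) (P.cons (P.lf 76338 0 0) (P.cons (P.lf 1623 0 0) (P.cons (P.lf 0 105 0) P.nil)))))) 74)
 (EL.cons 7 (TM.mk (P.cons (P.lf 0 1009169096 0) (P.cons (P.lf 91267844 0 0) (P.cons (P.lf 0 149690 0) (P.cons (P.lf 0 67638 0) (P.cons (P.lf 2074 0 0) (P.cons (P.lf 0 6 0) P.nil)))))) 46)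
 EL.nil)))
noncomputable def S386_401_364_512_7 : EL := (EL.cons 12 (TM.mk (P.cons (P.cons (P.lf 3029114590 0 0) (P.cons (P.lf 0 181150112 0) (P.cons (P.lf 0 12111272 0) (P.lf 4037088 0 0)))) (P.cons (P.cons (P.lf 427797232 0 0) (P.cons (P.lf 49148888 0 0) (P.cons (P.lf 3285976 0 0) (P.lf 0 1095320 0)))) (P.cons (P.cons (P.lf 0 8242118 0) (P.cons (P.lf 0 4525560 0) (P.cons (P.lf 0 302560 0) (P.lf 100848 0 0)))) (P.cons (P.cons (P.lf 0 1399454 0) (P.cons (P.lf 112152 0 0) (P.cons (P.lf 7496 0 0) P.nil))) (P.cons (P.cons (P.lf 63216 0 0) (P.cons (P.lf 7032 0 0) P.nil)) (P.cons (P.cons (P.lf 582 0 0) P.nil) P.nil)))))) 6074)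
 (EL.cons 3 (TM.mk (P.cons (P.cons (P.lf 2871621075 0 0) (P.cons (P.lf 134081714 0 0) (P.cons (P.lf 8964388 0 0) (P.lf 0 2988126 0)))) (P.cons (P.cons (P.lf 11894249 0 0) (P.cons (P.lf 0 32941622 0) (P.cons (P.lf 0 2202394 0) (P.lf 734128 0 0)))) (P.cons (P.cons (P.lf 0 16674285 0) (P.cons (P.lf 2212106 0 0) (P.cons (P.lf 147888 0 0) (P.lf 0 49290 0)))) (P.cons (P.cons (P.lf 1393892 0 0) (P.cons (P.lf 61712 0 0) (P.cons (P.lf 4126 0 0) P.nil))) (P.cons (P.cons (P.lf 0 3737 0) (P.cons (P.lf 0 13260 0) P.nil)) (P.cons (P.cons (P.lf 0 4009 0) P.nil) P.nil)))))) 18725)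
 (EL.cons 7 (TM.mk (P.cons (P.cons (P.lf 1604868630 0 0) (P.cons (P.lf 246547767 0 0) (P.cons (P.lf 16483609 0 0) (P.lf 0 5494536 0)))) (P.cons (P.cons (P.lf 13322056 0 0) (P.cons (P.lf 0 36896010 0) (P.cons (P.lf 0 2466782 0) (P.lf 822260 0 0)))) (P.cons (P.cons (P.lf 0 17902749 0) (P.cons (P.lf 336377 0 0) (P.cons (P.lf 22490 0 0) (P.lf 0 7499 0)))) (P.cons (P.cons (P.lf 155236 0 0) (P.cons (P.lf 152374 0 0) (P.cons (P.lf 10184 0 0) P.nil))) (P.cons (P.cons (P.lf 51813 0 0) (P.cons (P.lf 0 4712 0) P.nil)) (P.cons (P.cons (P.lf 0 1973 0) P.nil) P.nil)))))) 10423)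
 (EL.cons 10 (TM.mk (P.cons (P.cons (P.lf 0 659816067 0) (P.cons (P.lf 0 102156096 0) (P.cons (P.lf 49215585 0 0) (P.cons (P.lf 1862460 0 0) (P.lf 0 465615 0))))) (P.cons (P.cons (P.lf 119345685 0 0) (P.cons (P.lf 18477708 0 0) (P.cons (P.lf 0 8901975 0) (P.cons (P.lf 0 336876 0) (P.lf 84219 0 0))))) (P.cons (P.cons (P.lf 0 5592468 0) (P.cons (P.lf 0 865854 0) (P.cons (P.lf 417141 0 0) (P.cons (P.lf 15783 0 0) P.nil)))) (P.cons (P.cons (P.lf 0 70740 0) (P.cons (P.lf 0 10950 0) (P.cons (P.lf 5274 0 0) P.nil))) (P.cons (P.cons (P.lf 10695 0 0) (P.cons (P.lf 1656 0 0) P.nil)) (P.cons (P.cons (P.lf 0 264 0) P.nil) P.nil)))))) 5301)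
 EL.nil))))
noncomputable def S386_401_364_512_8 : EL := (EL.cons 12 (TM.mk (P.cons (P.cons (P.lf 1068172882 0 0) (P.cons (P.lf 0 127759866 0) (P.cons (P.lf 0 4721514 0) (P.cons (P.lf 3358060 0 0) (P.cons (P.lf 0 153196 0) (P.cons (P.lf 0 11384 0) P.nil)))))) (P.cons (P.cons (P.lf 301712852 0 0) (P.cons (P.lf 16619938 0 0) (P.cons (P.lf 0 961798 0) (P.cons (P.lf 0 647572 0) (P.cons (P.lf 83128 0 0) P.nil))))) (P.cons (P.cons (P.lf 15492298 0 0) (P.cons (P.lf 2051326 0 0) (P.cons (P.lf 609242 0 0) (P.cons (P.lf 17404 0 0) P.nil)))) (P.cons (P.cons (P.lf 0 1807944 0) (P.cons (P.lf 0 406960 0) (P.cons (P.lf 0 83726 0) P.nil))) (P.cons (P.cons (P.lf 0 86898 0) (P.cons (P.lf 6134 0 0) P.nil)) (P.cons (P.cons (P.lf 9392 0 0) P.nil) P.nil)))))) 75058)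
 (EL.cons 3 (TM.mk (P.cons (P.cons (P.lf 1629955917 0 0) (P.cons (P.lf 20728637 0 0) (P.cons (P.lf 0 5683137 0) (P.cons (P.lf 0 1407189 0) (P.cons (P.lf 283475 0 0) (P.cons (P.lf 21066 0 0) P.nil)))))) (P.cons (P.cons (P.lf 172622283 0 0) (P.cons (P.lf 17542878 0 0) (P.cons (P.lf 4827545 0 0) (P.cons (P.lf 97726 0 0) (P.cons (P.lf 0 146556 0) P.nil))))) (P.cons (P.cons (P.lf 0 24076743 0) (P.cons (P.lf 0 5153856 0) (P.cons (P.lf 0 1109003 0) (P.cons (P.lf 12642 0 0) P.nil)))) (P.cons (P.cons (P.lf 0 952822 0) (P.cons (P.lf 237927 0 0) (P.cons (P.lf 92057 0 0) P.nil))) (P.cons (P.cons (P.lf 261790 0 0) (P.cons (P.lf 46573 0 0) P.nil)) (P.cons (P.cons (P.lf 0 3735 0) P.nil) P.nil)))))) 180200)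
 (EL.cons 7 (TM.mk (P.cons (P.cons (P.lf 1257358700 0 0) (P.cons (P.lf 91184313 0 0) (P.cons (P.lf 0 3853534 0) (P.cons (P.lf 0 3362576 0) (P.cons (P.lf 399003 0 0) (P.cons (P.lf 29645 0 0) P.nil)))))) (P.cons (P.cons (P.lf 193344223 0 0) (P.cons (P.lf 19648753 0 0) (P.cons (P.lf 5407046 0 0) (P.cons (P.lf 109465 0 0) (P.cons (P.lf 0 164147 0) P.nil))))) (P.cons (P.cons (P.lf 0 15746117 0) (P.cons (P.lf 0 4632202 0) (P.cons (P.lf 0 928324 0) (P.cons (P.lf 20507 0 0) P.nil)))) (P.cons (P.cons (P.lf 0 2585530 0) (P.cons (P.lf 0 122428 0) (P.cons (P.lf 22885 0 0) P.nil))) (P.cons (P.cons (P.lf 117024 0 0) (P.cons (P.lf 53528 0 0) P.nil)) (P.cons (P.cons (P.lf 11761 0 0) P.nil) P.nil)))))) 108708)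
 (EL.cons 10 (TM.mk (P.cons (P.cons (P.lf 0 465348936 0) (P.cons (P.lf 0 44218440 0) (P.cons (P.lf 40879572 0 0) (P.cons (P.lf 0 1094370 0) (P.cons (P.lf 0 641742 0) (P.cons (P.lf 60642 0 0) P.nil)))))) (P.cons (P.cons (P.lf 18450492 0 0) (P.cons (P.lf 0 9727596 0) (P.cons (P.lf 0 4165914 0) (P.cons (P.lf 1036758 0 0) (P.cons (P.lf 154716 0 0) P.nil))))) (P.cons (P.cons (P.lf 9209334 0 0) (P.cons (P.lf 3722664 0 0) (P.cons (P.lf 0 177756 0) (P.cons (P.lf 0 224724 0) P.nil)))) (P.cons (P.cons (P.lf 0 620958 0) (P.cons (P.lf 0 300132 0) (P.cons (P.lf 1092 0 0) P.nil))) (P.cons (P.cons (P.lf 0 37368 0) (P.cons (P.lf 882 0 0) P.nil)) (P.cons (P.cons (P.lf 4500 0 0) P.nil) P.nil)))))) 123300)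
 EL.nil))))
noncomputable def S386_401_364_512_9 : EL := (EL.cons 3 (TM.mk (P.cons (P.lf 3179002091 0 0) (P.cons (P.lf 81486086 0 0) (P.cons (P.lf 0 4862741 0) (P.cons (P.lf 76338 0 0) (P.cons (P.lf 1623 0 0) (P.cons (P.lf 0 105 0) P.nil)))))) 74)
 (EL.cons 7 (TM.mk (P.cons (P.lf 0 1009169096 0) (P.cons (P.lf 91267844 0 0) (P.cons (P.lf 0 149690 0) (P.cons (P.lf 0 67638 0) (P.cons (P.lf 2074 0 0) (P.cons (P.lf 0 6 0) P.nil)))))) 46)
 EL.nil))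
noncomputable def S386_401_364_512_10 : EL := (EL.cons 3 (TM.mk (P.cons (P.cons (P.lf 1121028513 0 0) (P.cons (P.lf 0 67040857 0) (P.cons (P.lf 0 4482194 0) (P.lf 1494063 0 0)))) (P.cons (P.cons (P.lf 187056020 0 0) (P.cons (P.lf 16470811 0 0) (P.cons (P.lf 1101197 0 0) (P.lf 0 367064 0)))) (P.cons (P.cons (P.lf 0 706872 0) (P.cons (P.lf 0 1106053 0) (P.cons (P.lf 0 73944 0) (P.lf 24645 0 0)))) (P.cons (P.cons (P.lf 0 811357 0) (P.cons (P.lf 0 30856 0) (P.cons (P.lf 0 2063 0) P.nil))) (P.cons (P.cons (P.lf 19159 0 0) (P.cons (P.lf 6630 0 0) P.nil)) (P.cons (P.cons (P.lf 1577 0 0) P.nil) P.nil)))))) 4588)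
 (EL.cons 7 (TM.mk (P.cons (P.cons (P.lf 0 355868697 0) (P.cons (P.lf 21282012 0 0) (P.cons (P.lf 1422865 0 0) (P.lf 0 474288 0)))) (P.cons (P.cons (P.lf 0 18074525 0) (P.cons (P.lf 0 7698861 0) (P.cons (P.lf 0 514727 0) (P.lf 171575 0 0)))) (P.cons (P.cons (P.lf 5460855 0 0) (P.cons (P.lf 1057037 0 0) (P.cons (P.lf 70670 0 0) (P.lf 0 23555 0)))) (P.cons (P.cons (P.lf 45532 0 0) (P.cons (P.lf 0 60689 0) (P.cons (P.lf 0 4057 0) P.nil))) (P.cons (P.cons (P.lf 0 24789 0) (P.cons (P.lf 13 0 0) P.nil)) (P.cons (P.cons (P.lf 793 0 0) P.nil) P.nil)))))) 2217)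
 EL.nil))
noncomputable def S386_401_364_512_11 : EL := (EL.cons 3 (TM.mk (P.cons (P.cons (P.lf 395314281 0 0) (P.cons (P.lf 0 47281951 0) (P.cons (P.lf 0 1747359 0) (P.cons (P.lf 1242765 0 0) (P.cons (P.lf 0 56695 0) (P.cons (P.lf 0 4212 0) P.nil)))))) (P.cons (P.cons (P.lf 121792197 0 0) (P.cons (P.lf 4938822 0 0) (P.cons (P.lf 0 400735 0) (P.cons (P.lf 0 207800 0) (P.cons (P.lf 29310 0 0) P.nil))))) (P.cons (P.cons (P.lf 7990887 0 0) (P.cons (P.lf 989148 0 0) (P.cons (P.lf 219019 0 0) (P.cons (P.lf 0 1602 0) P.nil)))) (P.cons (P.cons (P.lf 0 683434 0) (P.cons (P.lf 0 141693 0) (P.cons (P.lf 0 24703 0) P.nil))) (P.cons (P.cons (P.lf 0 55196 0) (P.cons (P.lf 0 2627 0) P.nil)) (P.cons (P.cons (P.lf 3855 0 0) P.nil) P.nil)))))) 31894)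
 (EL.cons 7 (TM.mk (P.cons (P.cons (P.lf 0 125491882 0) (P.cons (P.lf 15009579 0 0) (P.cons (P.lf 554696 0 0) (P.cons (P.lf 0 394514 0) (P.cons (P.lf 17997 0 0) (P.cons (P.lf 1337 0 0) P.nil)))))) (P.cons (P.cons (P.lf 0 24096743 0) (P.cons (P.lf 0 3310001 0) (P.cons (P.lf 62828 0 0) (P.cons (P.lf 111757 0 0) (P.cons (P.lf 0 11393 0) P.nil))))) (P.cons (P.cons (P.lf 1366999 0 0) (P.cons (P.lf 0 62182 0) (P.cons (P.lf 0 81712 0) (P.cons (P.lf 0 8983 0) P.nil)))) (P.cons (P.cons (P.lf 363338 0 0) (P.cons (P.lf 70322 0 0) (P.cons (P.lf 16363 0 0) P.nil))) (P.cons (P.cons (P.lf 0 11388 0) (P.cons (P.lf 0 5242 0) P.nil)) (P.cons (P.cons (P.lf 0 2045 0) P.nil) P.nil)))))) 12020)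
 EL.nil))
noncomputable def S386_401_364_512_12 : EL := (EL.cons 4 (TM.mk (P.cons (P.lf 0 3179002091 0) (P.cons (P.lf 0 81486086 0) (P.cons (P.lf 4862741 0 0) (P.cons (P.lf 0 76338 0) (P.cons (P.lf 0 1623 0) (P.cons (P.lf 105 0 0) P.nil)))))) 74)
 (EL.cons 8 (TM.mk (P.cons (P.lf 1009169096 0 0) (P.cons (P.lf 0 91267844 0) (P.cons (P.lf 149690 0 0) (P.cons (P.lf 67638 0 0) (P.cons (P.lf 0 2074 0) (P.cons (P.lf 6 0 0) P.nil)))))) 46)
 EL.nil))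
noncomputable def S386_401_364_512_13 : EL := (EL.cons 4 (TM.mk (P.cons (P.cons (P.lf 0 1121028513 0) (P.cons (P.lf 67040857 0 0) (P.cons (P.lf 4482194 0 0) (P.lf 0 1494063 0)))) (P.cons (P.cons (P.lf 0 187056020 0) (P.cons (P.lf 0 16470811 0) (P.cons (P.lf 0 1101197 0) (P.lf 367064 0 0)))) (P.cons (P.cons (P.lf 706872 0 0) (P.cons (P.lf 1106053 0 0) (P.cons (P.lf 73944 0 0) (P.lf 0 24645 0)))) (P.cons (P.cons (P.lf 811357 0 0) (P.cons (P.lf 30856 0 0) (P.cons (P.lf 2063 0 0) P.nil))) (P.cons (P.cons (P.lf 0 19159 0) (P.cons (P.lf 0 6630 0) P.nil)) (P.cons (P.cons (P.lf 0 1577 0) P.nil) P.nil)))))) 4588)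
 (EL.cons 8 (TM.mk (P.cons (P.cons (P.lf 355868697 0 0) (P.cons (P.lf 0 21282012 0) (P.cons (P.lf 0 1422865 0) (P.lf 474288 0 0)))) (P.cons (P.cons (P.lf 18074525 0 0) (P.cons (P.lf 7698861 0 0) (P.cons (P.lf 514727 0 0) (P.lf 0 171575 0)))) (P.cons (P.cons (P.lf 0 5460855 0) (P.cons (P.lf 0 1057037 0) (P.cons (P.lf 0 70670 0) (P.lf 23555 0 0)))) (P.cons (P.cons (P.lf 0 45532 0) (P.cons (P.lf 60689 0 0) (P.cons (P.lf 4057 0 0) P.nil))) (P.cons (P.cons (P.lf 24789 0 0) (P.cons (P.lf 0 13 0) P.nil)) (P.cons (P.cons (P.lf 0 793 0) P.nil) P.nil)))))) 2217)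
 EL.nil))
noncomputable def S386_401_364_512_14 : EL := (EL.cons 4 (TM.mk (P.cons (P.cons (P.lf 0 395314281 0) (P.cons (P.lf 47281951 0 0) (P.cons (P.lf 1747359 0 0) (P.cons (P.lf 0 1242765 0) (P.cons (P.lf 56695 0 0) (P.cons (P.lf 4212 0 0) P.nil)))))) (P.cons (P.cons (P.lf 0 121792197 0) (P.cons (P.lf 0 4938822 0) (P.cons (P.lf 400735 0 0) (P.cons (P.lf 207800 0 0) (P.cons (P.lf 0 29310 0) P.nil))))) (P.cons (P.cons (P.lf 0 7990887 0) (P.cons (P.lf 0 989148 0) (P.cons (P.lf 0 219019 0) (P.cons (P.lf 1602 0 0) P.nil)))) (P.cons (P.cons (P.lf 683434 0 0) (P.cons (P.lf 141693 0 0) (P.cons (P.lf 24703 0 0) P.nil))) (P.cons (P.cons (P.lf 55196 0 0) (P.cons (P.lf 2627 0 0) P.nil)) (P.cons (P.cons (P.lf 0 3855 0) P.nil) P.nil)))))) 31894)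
 (EL.cons 8 (TM.mk (P.cons (P.cons (P.lf 125491882 0 0) (P.cons (P.lf 0 15009579 0) (P.cons (P.lf 0 554696 0) (P.cons (P.lf 394514 0 0) (P.cons (P.lf 0 17997 0) (P.cons (P.lf 0 1337 0) P.nil)))))) (P.cons (P.cons (P.lf 24096743 0 0) (P.cons (P.lf 3310001 0 0) (P.cons (P.lf 0 62828 0) (P.cons (P.lf 0 111757 0) (P.cons (P.lf 11393 0 0) P.nil))))) (P.cons (P.cons (P.lf 0 1366999 0) (P.cons (P.lf 62182 0 0) (P.cons (P.lf 81712 0 0) (P.cons (P.lf 8983 0 0) P.nil)))) (P.cons (P.cons (P.lf 0 363338 0) (P.cons (P.lf 0 70322 0) (P.cons (P.lf 0 16363 0) P.nil))) (P.cons (P.cons (P.lf 11388 0 0) (P.cons (P.lf 5242 0 0) P.nil)) (P.cons (P.cons (P.lf 2045 0 0) P.nil) P.nil)))))) 12020)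
 EL.nil))
noncomputable def S386_401_364_512_15 : EL := (EL.cons 4 (TM.mk (P.cons (P.lf 0 2509865734 0) (P.cons (P.lf 0 128668764 0) (P.cons (P.lf 6029343 0 0) (P.cons (P.lf 76275 0 0) (P.cons (P.lf 0 11525 0) (P.cons (P.lf 284 0 0) P.nil)))))) 132)
 (EL.cons 8 (TM.mk (P.cons (P.lf 796752836 0 0) (P.cons (P.lf 0 51634368 0) (P.cons (P.lf 0 2947579 0) (P.cons (P.lf 185785 0 0) (P.cons (P.lf 0 1772 0) (P.cons (P.lf 0 179 0) P.nil)))))) 69)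
 EL.nil))
noncomputable def S386_401_364_512_16 : EL := (EL.cons 4 (TM.mk (P.cons (P.cons (P.lf 0 885067380 0) (P.cons (P.lf 52929675 0 0) (P.cons (P.lf 3538754 0 0) (P.lf 0 1179583 0)))) (P.cons (P.cons (P.lf 0 170369870 0) (P.cons (P.lf 0 11647206 0) (P.cons (P.lf 0 778703 0) (P.lf 259565 0 0)))) (P.cons (P.cons (P.lf 0 1873582 0) (P.cons (P.lf 458955 0 0) (P.cons (P.lf 30681 0 0) (P.lf 0 10225 0)))) (P.cons (P.cons (P.lf 859531 0 0) (P.cons (P.lf 67907 0 0) (P.cons (P.lf 4540 0 0) P.nil))) (P.cons (P.cons (P.lf 0 3558 0) (P.cons (P.lf 0 6231 0) P.nil)) (P.cons (P.cons (P.lf 0 2645 0) P.nil) P.nil)))))) 5152)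
 (EL.cons 8 (TM.mk (P.cons (P.cons (P.lf 280963215 0 0) (P.cons (P.lf 0 16802440 0) (P.cons (P.lf 0 1123371 0) (P.lf 374456 0 0)))) (P.cons (P.cons (P.lf 21471902 0 0) (P.cons (P.lf 5647666 0 0) (P.cons (P.lf 377589 0 0) (P.lf 0 125862 0)))) (P.cons (P.cons (P.lf 0 4375414 0) (P.cons (P.lf 0 653039 0) (P.cons (P.lf 0 43659 0) (P.lf 14552 0 0)))) (P.cons (P.cons (P.lf 0 161542 0) (P.cons (P.lf 16822 0 0) (P.cons (P.lf 1124 0 0) P.nil))) (P.cons (P.cons (P.lf 25731 0 0) (P.cons (P.lf 2631 0 0) P.nil)) (P.cons (P.cons (P.lf 0 175 0) P.nil) P.nil)))))) 2193)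
 EL.nil))
noncomputable def S386_401_364_512_17 : EL := (EL.cons 4 (TM.mk (P.cons (P.cons (P.lf 0 312106045 0) (P.cons (P.lf 37329749 0 0) (P.cons (P.lf 1379564 0 0) (P.cons (P.lf 0 981180 0) (P.cons (P.lf 44760 0 0) (P.cons (P.lf 3326 0 0) P.nil)))))) (P.cons (P.cons (P.lf 0 104156699 0) (P.cons (P.lf 0 2942409 0) (P.cons (P.lf 351748 0 0) (P.cons (P.lf 138911 0 0) (P.cons (P.lf 0 21993 0) P.nil))))) (P.cons (P.cons (P.lf 0 8296247 0) (P.cons (P.lf 0 937995 0) (P.cons (P.lf 0 166919 0) (P.cons (P.lf 6971 0 0) P.nil)))) (P.cons (P.cons (P.lf 517456 0 0) (P.cons (P.lf 98712 0 0) (P.cons (P.lf 14620 0 0) P.nil))) (P.cons (P.cons (P.lf 64590 0 0) (P.cons (P.lf 6061 0 0) P.nil)) (P.cons (P.cons (P.lf 0 2942 0) P.nil) P.nil)))))) 27991)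
 (EL.cons 8 (TM.mk (P.cons (P.cons (P.lf 99077561 0 0) (P.cons (P.lf 0 11850268 0) (P.cons (P.lf 0 437940 0) (P.cons (P.lf 311474 0 0) (P.cons (P.lf 0 14209 0) (P.cons (P.lf 0 1055 0) P.nil)))))) (P.cons (P.cons (P.lf 21564324 0 0) (P.cons (P.lf 2309538 0 0) (P.cons (P.lf 0 60829 0) (P.cons (P.lf 0 80250 0) (P.cons (P.lf 8631 0 0) P.nil))))) (P.cons (P.cons (P.lf 0 743165 0) (P.cons (P.lf 134206 0 0) (P.cons (P.lf 63911 0 0) (P.cons (P.lf 4354 0 0) P.nil)))) (P.cons (P.cons (P.lf 0 341247 0) (P.cons (P.lf 0 58543 0) (P.cons (P.lf 0 11200 0) P.nil))) (P.cons (P.cons (P.lf 3796 0 0) (P.cons (P.lf 2697 0 0) P.nil)) (P.cons (P.cons (P.lf 2264 0 0) P.nil) P.nil)))))) 10349)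
 EL.nil))
noncomputable def S386_401_364_512_18 : EL := (EL.cons 4 (TM.mk (P.cons (P.lf 0 1981573407 0) (P.cons (P.lf 0 152378629 0) (P.cons (P.lf 5187444 0 0) (P.cons (P.lf 290043 0 0) (P.cons (P.lf 0 18288 0) (P.cons (P.lf 26 0 0) P.nil)))))) 187)
 (EL.cons 8 (TM.mk (P.cons (P.lf 629047288 0 0) (P.cons (P.lf 0 24641924 0) (P.cons (P.lf 0 4334312 0) (P.cons (P.lf 164492 0 0) (P.cons (P.lf 5262 0 0) (P.cons (P.lf 0 499 0) P.nil)))))) 83)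
 EL.nil))
noncomputable def S386_401_364_512_19 : EL := (EL.cons 4 (TM.mk (P.cons (P.cons (P.lf 0 698772831 0) (P.cons (P.lf 41788704 0 0) (P.cons (P.lf 2793894 0 0) (P.lf 0 931297 0)))) (P.cons (P.cons (P.lf 0 152420712 0) (P.cons (P.lf 0 8124476 0) (P.cons (P.lf 0 543181 0) (P.lf 181059 0 0)))) (P.cons (P.cons (P.lf 0 3858169 0) (P.cons (P.lf 62722 0 0) (P.cons (P.lf 4191 0 0) (P.lf 0 1395 0)))) (P.cons (P.cons (P.lf 829667 0 0) (P.cons (P.lf 77971 0 0) (P.cons (P.lf 5212 0 0) P.nil))) (P.cons (P.cons (P.lf 13260 0 0) (P.cons (P.lf 0 4299 0) P.nil)) (P.cons (P.cons (P.lf 0 3280 0) P.nil) P.nil)))))) 5390)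
 (EL.cons 8 (TM.mk (P.cons (P.cons (P.lf 221824310 0 0) (P.cons (P.lf 0 13265757 0) (P.cons (P.lf 0 886917 0) (P.lf 295638 0 0)))) (P.cons (P.cons (P.lf 22638295 0 0) (P.cons (P.lf 4118874 0 0) (P.cons (P.lf 275377 0 0) (P.lf 0 91792 0)))) (P.cons (P.cons (P.lf 0 3359229 0) (P.cons (P.lf 0 380998 0) (P.cons (P.lf 0 25471 0) (P.lf 8490 0 0)))) (P.cons (P.cons (P.lf 0 236691 0) (P.cons (P.lf 0 7072 0) (P.cons (P.lf 0 472 0) P.nil))) (P.cons (P.cons (P.lf 22850 0 0) (P.cons (P.lf 3306 0 0) P.nil)) (P.cons (P.cons (P.lf 495 0 0) P.nil) P.nil)))))) 2057)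
 EL.nil))
noncomputable def S386_401_364_512_20 : EL := (EL.cons 4 (TM.mk (P.cons (P.cons (P.lf 0 246412001 0) (P.cons (P.lf 29472348 0 0) (P.cons (P.lf 1089184 0 0) (P.cons (P.lf 0 774655 0) (P.cons (P.lf 35340 0 0) (P.cons (P.lf 2625 0 0) P.nil)))))) (P.cons (P.cons (P.lf 0 88549321 0) (P.cons (P.lf 0 1567620 0) (P.cons (P.lf 305628 0 0) (P.cons (P.lf 89815 0 0) (P.cons (P.lf 0 16458 0) P.nil))))) (P.cons (P.cons (P.lf 0 8280927 0) (P.cons (P.lf 0 845189 0) (P.cons (P.lf 0 126332 0) (P.cons (P.lf 9499 0 0) P.nil)))) (P.cons (P.cons (P.lf 360516 0 0) (P.cons (P.lf 63212 0 0) (P.cons (P.lf 7766 0 0) P.nil))) (P.cons (P.cons (P.lf 69386 0 0) (P.cons (P.lf 7875 0 0) P.nil)) (P.cons (P.cons (P.lf 0 1832 0) P.nil) P.nil)))))) 24241)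
 (EL.cons 8 (TM.mk (P.cons (P.cons (P.lf 78223093 0 0) (P.cons (P.lf 0 9355949 0) (P.cons (P.lf 0 345759 0) (P.cons (P.lf 245913 0 0) (P.cons (P.lf 0 11218 0) (P.cons (P.lf 0 833 0) P.nil)))))) (P.cons (P.cons (P.lf 19030391 0 0) (P.cons (P.lf 1583594 0 0) (P.cons (P.lf 0 56888 0) (P.cons (P.lf 0 57055 0) (P.cons (P.lf 6526 0 0) P.nil))))) (P.cons (P.cons (P.lf 0 269989 0) (P.cons (P.lf 167007 0 0) (P.cons (P.lf 49756 0 0) (P.cons (P.lf 1437 0 0) P.nil)))) (P.cons (P.cons (P.lf 0 308623 0) (P.cons (P.lf 0 46519 0) (P.cons (P.lf 0 7484 0) P.nil))) (P.cons (P.cons (P.lf 0 2562 0) (P.cons (P.lf 821 0 0) P.nil)) (P.cons (P.cons (P.lf 2268 0 0) P.nil) P.nil)))))) 9026)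
 EL.nil))
noncomputable def S386_401_364_512_21 : EL := (EL.cons 4 (TM.mk (P.cons (P.cons (P.lf 0 1750592562 0) (P.cons (P.lf 0 201122571 0) (P.cons (P.lf 0 13446582 0) (P.lf 4482189 0 0)))) (P.cons (P.cons (P.lf 175161771 0 0) (P.cons (P.lf 49412433 0 0) (P.cons (P.lf 3303591 0 0) (P.lf 0 1101192 0)))) (P.cons (P.cons (P.lf 15967413 0 0) (P.cons (P.lf 0 3318159 0) (P.cons (P.lf 0 221832 0) (P.lf 73935 0 0)))) (P.cons (P.cons (P.lf 0 2205249 0) (P.cons (P.lf 0 92568 0) (P.cons (P.lf 0 6189 0) P.nil))) (P.cons (P.cons (P.lf 22896 0 0) (P.cons (P.lf 19890 0 0) P.nil)) (P.cons (P.cons (P.lf 5586 0 0) P.nil) P.nil)))))) 14118)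
 (EL.cons 8 (TM.mk (P.cons (P.cons (P.lf 0 1960737327 0) (P.cons (P.lf 0 225265755 0) (P.cons (P.lf 0 15060744 0) (P.lf 5020248 0 0)))) (P.cons (P.cons (P.lf 0 31396581 0) (P.cons (P.lf 29197149 0 0) (P.cons (P.lf 1952055 0 0) (P.lf 0 650685 0)))) (P.cons (P.cons (P.lf 23363604 0 0) (P.cons (P.lf 720660 0 0) (P.cons (P.lf 48180 0 0) (P.lf 0 16056 0)))) (P.cons (P.cons (P.lf 0 109704 0) (P.cons (P.lf 0 213063 0) (P.cons (P.lf 0 14241 0) P.nil))) (P.cons (P.cons (P.lf 0 76602 0) (P.cons (P.lf 4725 0 0) P.nil)) (P.cons (P.cons (P.lf 2766 0 0) P.nil) P.nil)))))) 8187)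
 (EL.cons 11 (TM.mk (P.cons (P.cons (P.lf 659816067 0 0) (P.cons (P.lf 102156096 0 0) (P.cons (P.lf 0 49215585 0) (P.cons (P.lf 0 1862460 0) (P.lf 465615 0 0))))) (P.cons (P.cons (P.lf 0 119345685 0) (P.cons (P.lf 0 18477708 0) (P.cons (P.lf 8901975 0 0) (P.cons (P.lf 336876 0 0) (P.lf 0 84219 0))))) (P.cons (P.cons (P.lf 5592468 0 0) (P.cons (P.lf 865854 0 0) (P.cons (P.lf 0 417141 0) (P.cons (P.lf 0 15783 0) P.nil)))) (P.cons (P.cons (P.lf 70740 0 0) (P.cons (P.lf 10950 0 0) (P.cons (P.lf 0 5274 0) P.nil))) (P.cons (P.cons (P.lf 0 10695 0) (P.cons (P.lf 0 1656 0) P.nil)) (P.cons (P.cons (P.lf 264 0 0) P.nil) P.nil)))))) 5301)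
 EL.nil)))
noncomputable def S386_401_364_512_22 : EL := (EL.cons 4 (TM.mk (P.cons (P.cons (P.lf 0 617320818 0) (P.cons (P.lf 0 34005294 0) (P.cons (P.lf 1967889 0 0) (P.cons (P.lf 1324977 0 0) (P.cons (P.lf 0 170085 0) (P.cons (P.lf 0 12639 0) P.nil)))))) (P.cons (P.cons (P.lf 0 25415043 0) (P.cons (P.lf 0 6302028 0) (P.cons (P.lf 0 2614140 0) (P.cons (P.lf 0 152763 0) (P.cons (P.lf 87933 0 0) P.nil))))) (P.cons (P.cons (P.lf 16033815 0 0) (P.cons (P.lf 3071502 0 0) (P.cons (P.lf 664011 0 0) (P.cons (P.lf 0 7122 0) P.nil)))) (P.cons (P.cons (P.lf 134694 0 0) (P.cons (P.lf 0 189810 0) (P.cons (P.lf 0 58380 0) P.nil))) (P.cons (P.cons (P.lf 0 158493 0) (P.cons (P.lf 0 24600 0) P.nil)) (P.cons (P.cons (P.lf 3795 0 0) P.nil) P.nil)))))) 74142)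
 (EL.cons 8 (TM.mk (P.cons (P.cons (P.lf 0 691425291 0) (P.cons (P.lf 0 38087367 0) (P.cons (P.lf 2204115 0 0) (P.cons (P.lf 1484031 0 0) (P.cons (P.lf 0 190503 0) (P.cons (P.lf 0 14154 0) P.nil)))))) (P.cons (P.cons (P.lf 0 108720483 0) (P.cons (P.lf 0 11479377 0) (P.cons (P.lf 0 2672109 0) (P.cons (P.lf 1146 0 0) (P.cons (P.lf 76377 0 0) P.nil))))) (P.cons (P.cons (P.lf 8556558 0 0) (P.cons (P.lf 2285010 0 0) (P.cons (P.lf 423306 0 0) (P.cons (P.lf 0 14745 0) P.nil)))) (P.cons (P.cons (P.lf 1474434 0 0) (P.cons (P.lf 96375 0 0) (P.cons (P.lf 0 3261 0) P.nil))) (P.cons (P.cons (P.lf 0 64206 0) (P.cons (P.lf 0 29385 0) P.nil)) (P.cons (P.cons (P.lf 0 6903 0) P.nil) P.nil)))))) 48333)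
 (EL.cons 11 (TM.mk (P.cons (P.cons (P.lf 232674468 0 0) (P.cons (P.lf 22109220 0 0) (P.cons (P.lf 0 20439786 0) (P.cons (P.lf 547185 0 0) (P.cons (P.lf 320871 0 0) (P.cons (P.lf 0 30321 0) P.nil)))))) (P.cons (P.cons (P.lf 0 9225246 0) (P.cons (P.lf 4863798 0 0) (P.cons (P.lf 2082957 0 0) (P.cons (P.lf 0 518379 0) (P.cons (P.lf 0 77358 0) P.nil))))) (P.cons (P.cons (P.lf 0 4604667 0) (P.cons (P.lf 0 1861332 0) (P.cons (P.lf 88878 0 0) (P.cons (P.lf 112362 0 0) P.nil)))) (P.cons (P.cons (P.lf 310479 0 0) (P.cons (P.lf 150066 0 0) (P.cons (P.lf 0 546 0) P.nil))) (P.cons (P.cons (P.lf 18684 0 0) (P.cons (P.lf 0 441 0) P.nil)) (P.cons (P.cons (P.lf 0 2250 0) P.nil) P.nil)))))) 61650)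
 EL.nil)))
noncomputable def S386_401_364_512_23 : EL := (EL.cons 4 (TM.mk (P.cons (P.cons (P.lf 0 1382116827 0) (P.cons (P.lf 0 158789025 0) (P.cons (P.lf 0 10616259 0) (P.lf 3538749 0 0)))) (P.cons (P.cons (P.lf 102865371 0 0) (P.cons (P.lf 34941615 0 0) (P.cons (P.lf 2336106 0 0) (P.lf 0 778698 0)))) (P.cons (P.cons (P.lf 18265437 0 0) (P.cons (P.lf 0 1376865 0) (P.cons (P.lf 0 92043 0) (P.lf 30672 0 0)))) (P.cons (P.cons (P.lf 0 1662663 0) (P.cons (P.lf 0 203721 0) (P.cons (P.lf 0 13620 0) P.nil))) (P.cons (P.cons (P.lf 0 43218 0) (P.cons (P.lf 18693 0 0) P.nil)) (P.cons (P.cons (P.lf 7953 0 0) P.nil) P.nil)))))) 15876)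
 (EL.cons 8 (TM.mk (P.cons (P.cons (P.lf 0 1548029001 0) (P.cons (P.lf 0 177850401 0) (P.cons (P.lf 0 11890662 0) (P.lf 3963552 0 0)))) (P.cons (P.cons (P.lf 0 64468035 0) (P.cons (P.lf 18492780 0 0) (P.cons (P.lf 1236384 0 0) (P.lf 0 412128 0)))) (P.cons (P.cons (P.lf 20178435 0 0) (P.cons (P.lf 1431888 0 0) (P.cons (P.lf 95730 0 0) (P.lf 0 31905 0)))) (P.cons (P.cons (P.lf 386946 0 0) (P.cons (P.lf 0 193161 0) (P.cons (P.lf 0 12909 0) P.nil))) (P.cons (P.cons (P.lf 0 92298 0) (P.cons (P.lf 0 987 0) P.nil)) (P.cons (P.cons (P.lf 1245 0 0) P.nil) P.nil)))))) 8946)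
 (EL.cons 11 (TM.mk (P.cons (P.cons (P.lf 520933830 0 0) (P.cons (P.lf 80653638 0 0) (P.cons (P.lf 0 38856378 0) (P.cons (P.lf 0 1470435 0) (P.lf 367608 0 0))))) (P.cons (P.cons (P.lf 0 80872164 0) (P.cons (P.lf 0 12521040 0) (P.cons (P.lf 6032241 0 0) (P.cons (P.lf 228276 0 0) (P.lf 0 57069 0))))) (P.cons (P.cons (P.lf 1203252 0 0) (P.cons (P.lf 186291 0 0) (P.cons (P.lf 0 89748 0) (P.cons (P.lf 0 3393 0) P.nil)))) (P.cons (P.cons (P.lf 325665 0 0) (P.cons (P.lf 50418 0 0) (P.cons (P.lf 0 24288 0) P.nil))) (P.cons (P.cons (P.lf 0 15762 0) (P.cons (P.lf 0 2439 0) P.nil)) (P.cons (P.cons (P.lf 0 51 0) P.nil) P.nil)))))) 8466)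
 EL.nil)))
noncomputable def S386_401_364_512_24 : EL := (EL.cons 4 (TM.mk (P.cons (P.cons (P.lf 0 487383249 0) (P.cons (P.lf 0 26847648 0) (P.cons (P.lf 1553673 0 0) (P.cons (P.lf 1046085 0 0) (P.cons (P.lf 0 134286 0) (P.cons (P.lf 0 9978 0) P.nil)))))) (P.cons (P.cons (P.lf 0 32558424 0) (P.cons (P.lf 0 5663712 0) (P.cons (P.lf 0 2024073 0) (P.cons (P.lf 0 93792 0) (P.cons (P.lf 65982 0 0) P.nil))))) (P.cons (P.cons (P.lf 12890106 0 0) (P.cons (P.lf 2338524 0 0) (P.cons (P.lf 468966 0 0) (P.cons (P.lf 0 10314 0) P.nil)))) (P.cons (P.cons (P.lf 449814 0 0) (P.cons (P.lf 0 80733 0) (P.cons (P.lf 0 29460 0) P.nil))) (P.cons (P.cons (P.lf 0 142500 0) (P.cons (P.lf 0 27105 0) P.nil)) (P.cons (P.cons (P.lf 0 63 0) P.nil) P.nil)))))) 54615)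
 (EL.cons 8 (TM.mk (P.cons (P.cons (P.lf 0 545889747 0) (P.cons (P.lf 0 30070497 0) (P.cons (P.lf 1740180 0 0) (P.cons (P.lf 1171662 0 0) (P.cons (P.lf 0 150405 0) (P.cons (P.lf 0 11175 0) P.nil)))))) (P.cons (P.cons (P.lf 0 99828885 0) (P.cons (P.lf 0 9833910 0) (P.cons (P.lf 0 2065062 0) (P.cons (P.lf 30939 0 0) (P.cons (P.lf 56445 0 0) P.nil))))) (P.cons (P.cons (P.lf 5390328 0 0) (P.cons (P.lf 1617732 0 0) (P.cons (P.lf 277467 0 0) (P.cons (P.lf 0 13410 0) P.nil)))) (P.cons (P.cons (P.lf 1455438 0 0) (P.cons (P.lf 135471 0 0) (P.cons (P.lf 9258 0 0) P.nil))) (P.cons (P.cons (P.lf 0 33528 0) (P.cons (P.lf 0 24243 0) P.nil)) (P.cons (P.cons (P.lf 0 8394 0) P.nil) P.nil)))))) 35529)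
 (EL.cons 11 (TM.mk (P.cons (P.cons (P.lf 183699681 0 0) (P.cons (P.lf 17455533 0 0) (P.cons (P.lf 0 16137492 0) (P.cons (P.lf 432009 0 0) (P.cons (P.lf 253332 0 0) (P.cons (P.lf 0 23940 0) P.nil)))))) (P.cons (P.cons (P.lf 0 2574756 0) (P.cons (P.lf 4287465 0 0) (P.cons (P.lf 1230876 0 0) (P.cons (P.lf 0 398193 0) (P.cons (P.lf 0 54582 0) P.nil))))) (P.cons (P.cons (P.lf 0 4103136 0) (P.cons (P.lf 0 1397817 0) (P.cons (P.lf 137007 0 0) (P.cons (P.lf 77559 0 0) P.nil)))) (P.cons (P.cons (P.lf 167493 0 0) (P.cons (P.lf 75357 0 0) (P.cons (P.lf 0 1536 0) P.nil))) (P.cons (P.cons (P.lf 26514 0 0) (P.cons (P.lf 5037 0 0) P.nil)) (P.cons (P.cons (P.lf 0 1869 0) P.nil) P.nil)))))) 44850)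
 EL.nil)))
noncomputable def S386_401_364_512_25 : EL := (EL.cons 4 (TM.mk (P.cons (P.cons (P.lf 0 1091200182 0) (P.cons (P.lf 0 125366112 0) (P.cons (P.lf 0 8381682 0) (P.lf 2793891 0 0)))) (P.cons (P.cons (P.lf 53243325 0 0) (P.cons (P.lf 24373425 0 0) (P.cons (P.lf 1629543 0 0) (P.lf 0 543177 0)))) (P.cons (P.cons (P.lf 18171675 0 0) (P.cons (P.lf 0 188166 0) (P.cons (P.lf 0 12570 0) (P.lf 4185 0 0)))) (P.cons (P.cons (P.lf 0 1093485 0) (P.cons (P.lf 0 233913 0) (P.cons (P.lf 0 15636 0) P.nil))) (P.cons (P.cons (P.lf 0 88434 0) (P.cons (P.lf 12894 0 0) P.nil)) (P.cons (P.cons (P.lf 7836 0 0) P.nil) P.nil)))))) 15666)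
 (EL.cons 8 (TM.mk (P.cons (P.cons (P.lf 0 1222190118 0) (P.cons (P.lf 0 140415330 0) (P.cons (P.lf 0 9387840 0) (P.lf 3129279 0 0)))) (P.cons (P.cons (P.lf 0 82226307 0) (P.cons (P.lf 11001093 0 0) (P.cons (P.lf 735507 0 0) (P.lf 0 245169 0)))) (P.cons (P.cons (P.lf 16496007 0 0) (P.cons (P.lf 1719525 0 0) (P.cons (P.lf 114960 0 0) (P.lf 0 38316 0)))) (P.cons (P.cons (P.lf 762363 0 0) (P.cons (P.lf 0 149232 0) (P.cons (P.lf 0 9972 0) P.nil))) (P.cons (P.cons (P.lf 0 91254 0) (P.cons (P.lf 0 6138 0) P.nil)) (P.cons (P.cons (P.lf 0 951 0) P.nil) P.nil)))))) 8658)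
 (EL.cons 11 (TM.mk (P.cons (P.cons (P.lf 411284400 0 0) (P.cons (P.lf 63677151 0 0) (P.cons (P.lf 0 30677643 0) (P.cons (P.lf 0 1160928 0) (P.lf 290232 0 0))))) (P.cons (P.cons (P.lf 0 53307396 0) (P.cons (P.lf 0 8253321 0) (P.cons (P.lf 3976188 0 0) (P.cons (P.lf 150468 0 0) (P.lf 0 37617 0))))) (P.cons (P.cons (P.lf 0 1315764 0) (P.cons (P.lf 0 203712 0) (P.cons (P.lf 98142 0 0) (P.cons (P.lf 3714 0 0) P.nil)))) (P.cons (P.cons (P.lf 389010 0 0) (P.cons (P.lf 60225 0 0) (P.cons (P.lf 0 29013 0) P.nil))) (P.cons (P.cons (P.lf 0 8628 0) (P.cons (P.lf 0 1335 0) P.nil)) (P.cons (P.cons (P.lf 0 777 0) P.nil) P.nil)))))) 9534)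
 EL.nil)))
noncomputable def S386_401_364_512_26 : EL := (EL.cons 4 (TM.mk (P.cons (P.cons (P.lf 0 384795756 0) (P.cons (P.lf 0 21196584 0) (P.cons (P.lf 1226646 0 0) (P.cons (P.lf 825900 0 0) (P.cons (P.lf 0 106020 0) (P.cons (P.lf 0 7878 0) P.nil)))))) (P.cons (P.cons (P.lf 0 35568639 0) (P.cons (P.lf 0 5014902 0) (P.cons (P.lf 0 1566591 0) (P.cons (P.lf 0 52881 0) (P.cons (P.lf 49377 0 0) P.nil))))) (P.cons (P.cons (P.lf 10106622 0 0) (P.cons (P.lf 1764102 0 0) (P.cons (P.lf 327417 0 0) (P.cons (P.lf 0 11304 0) P.nil)))) (P.cons (P.cons (P.lf 646074 0 0) (P.cons (P.lf 0 10083 0) (P.cons (P.lf 0 11295 0) P.nil))) (P.cons (P.cons (P.lf 0 119784 0) (P.cons (P.lf 0 25977 0) P.nil)) (P.cons (P.cons (P.lf 0 3231 0) P.nil) P.nil)))))) 42516)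
 (EL.cons 8 (TM.mk (P.cons (P.cons (P.lf 0 430987440 0) (P.cons (P.lf 0 23741070 0) (P.cons (P.lf 1373895 0 0) (P.cons (P.lf 925044 0 0) (P.cons (P.lf 0 118746 0) (P.cons (P.lf 0 8823 0) P.nil)))))) (P.cons (P.cons (P.lf 0 89863599 0) (P.cons (P.lf 0 8372553 0) (P.cons (P.lf 0 1595178 0) (P.cons (P.lf 48138 0 0) (P.cons (P.lf 41520 0 0) P.nil))))) (P.cons (P.cons (P.lf 2894730 0 0) (P.cons (P.lf 1114524 0 0) (P.cons (P.lf 175170 0 0) (P.cons (P.lf 0 11376 0) P.nil)))) (P.cons (P.cons (P.lf 1368384 0 0) (P.cons (P.lf 151002 0 0) (P.cons (P.lf 15453 0 0) P.nil))) (P.cons (P.cons (P.lf 0 5637 0) (P.cons (P.lf 0 18549 0) P.nil)) (P.cons (P.cons (P.lf 0 8985 0) P.nil) P.nil)))))) 27738)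
 (EL.cons 11 (TM.mk (P.cons (P.cons (P.lf 145033416 0 0) (P.cons (P.lf 13781382 0 0) (P.cons (P.lf 0 12740772 0) (P.cons (P.lf 341076 0 0) (P.cons (P.lf 200007 0 0) (P.cons (P.lf 0 18900 0) P.nil)))))) (P.cons (P.cons (P.lf 1684776 0 0) (P.cons (P.lf 3738264 0 0) (P.cons (P.lf 645216 0 0) (P.cons (P.lf 0 305637 0) (P.cons (P.lf 0 37965 0) P.nil))))) (P.cons (P.cons (P.lf 0 3513438 0) (P.cons (P.lf 0 1037910 0) (P.cons (P.lf 152568 0 0) (P.cons (P.lf 52653 0 0) P.nil)))) (P.cons (P.cons (P.lf 55794 0 0) (P.cons (P.lf 26358 0 0) (P.cons (P.lf 0 231 0) P.nil))) (P.cons (P.cons (P.lf 29304 0 0) (P.cons (P.lf 7278 0 0) P.nil)) (P.cons (P.cons (P.lf 0 1227 0) P.nil) P.nil)))))) 34626)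
 EL.nil)))
noncomputable def S386_401_364_512_27 : EL := (EL.cons 13 (TM.mk (P.lf 0 4294967296 0) 0)
 EL.nil)
noncomputable def S386_401_364_512_28 : EL := (EL.cons 13 (TM.mk (P.cons (P.cons (P.lf 0 1514557295 0) (P.cons (P.lf 90575056 0 0) (P.cons (P.lf 6055636 0 0) (P.lf 0 2018544 0)))) (P.cons (P.cons (P.lf 0 213898616 0) (P.cons (P.lf 0 24574444 0) (P.cons (P.lf 0 1642988 0) (P.lf 547660 0 0)))) (P.cons (P.cons (P.lf 4121059 0 0) (P.cons (P.lf 2262780 0 0) (P.cons (P.lf 151280 0 0) (P.lf 0 50424 0)))) (P.cons (P.cons (P.lf 699727 0 0) (P.cons (P.lf 0 56076 0) (P.cons (P.lf 0 3748 0) P.nil))) (P.cons (P.cons (P.lf 0 31608 0) (P.cons (P.lf 0 3516 0) P.nil)) (P.cons (P.cons (P.lf 0 291 0) P.nil) P.nil)))))) 3037)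
 EL.nil)
noncomputable def S386_401_364_512_29 : EL := (EL.cons 13 (TM.mk (P.cons (P.cons (P.lf 0 534086441 0) (P.cons (P.lf 63879933 0 0) (P.cons (P.lf 2360757 0 0) (P.cons (P.lf 0 1679030 0) (P.cons (P.lf 76598 0 0) (P.cons (P.lf 5692 0 0) P.nil)))))) (P.cons (P.cons (P.lf 0 150856426 0) (P.cons (P.lf 0 8309969 0) (P.cons (P.lf 480899 0 0) (P.cons (P.lf 323786 0 0) (P.cons (P.lf 0 41564 0) P.nil))))) (P.cons (P.cons (P.lf 0 7746149 0) (P.cons (P.lf 0 1025663 0) (P.cons (P.lf 0 304621 0) (P.cons (P.lf 0 8702 0) P.nil)))) (P.cons (P.cons (P.lf 903972 0 0) (P.cons (P.lf 203480 0 0) (P.cons (P.lf 41863 0 0) P.nil))) (P.cons (P.cons (P.lf 43449 0 0) (P.cons (P.lf 0 3067 0) P.nil)) (P.cons (P.cons (P.lf 0 4696 0) P.nil) P.nil)))))) 37529)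
 EL.nil)
noncomputable def S386_401_364_512_30 : EL := (EL.cons 13 (TM.mk (P.cons (P.lf 0 3390935564 0) (P.cons (P.lf 0 86918492 0) (P.cons (P.lf 5186924 0 0) (P.cons (P.lf 0 81428 0) (P.cons (P.lf 0 1732 0) (P.cons (P.lf 112 0 0) P.nil)))))) 72)
 EL.nil)
noncomputable def S386_401_364_512_31 : EL := (EL.cons 13 (TM.mk (P.cons (P.cons (P.lf 0 1195763748 0) (P.cons (P.lf 71510248 0 0) (P.cons (P.lf 4781007 0 0) (P.lf 0 1593668 0)))) (P.cons (P.cons (P.lf 0 199526422 0) (P.cons (P.lf 0 17568866 0) (P.cons (P.lf 0 1174611 0) (P.lf 391535 0 0)))) (P.cons (P.cons (P.lf 753997 0 0) (P.cons (P.lf 1179790 0 0) (P.cons (P.lf 78874 0 0) (P.lf 0 26289 0)))) (P.cons (P.cons (P.lf 865448 0 0) (P.cons (P.lf 32914 0 0) (P.cons (P.lf 2201 0 0) P.nil))) (P.cons (P.cons (P.lf 0 20437 0) (P.cons (P.lf 0 7072 0) P.nil)) (P.cons (P.cons (P.lf 0 1683 0) P.nil) P.nil)))))) 4874)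
 EL.nil)
noncomputable def S386_401_364_512_32 : EL := (EL.cons 13 (TM.mk (P.cons (P.cons (P.lf 0 421668567 0) (P.cons (P.lf 50434082 0 0) (P.cons (P.lf 1863850 0 0) (P.cons (P.lf 0 1325617 0) (P.cons (P.lf 60475 0 0) (P.cons (P.lf 4493 0 0) P.nil)))))) (P.cons (P.cons (P.lf 0 129911677 0) (P.cons (P.lf 0 5268077 0) (P.cons (P.lf 427451 0 0) (P.cons (P.lf 221654 0 0) (P.cons (P.lf 0 31265 0) P.nil))))) (P.cons (P.cons (P.lf 0 8523613 0) (P.cons (P.lf 0 1055092 0) (P.cons (P.lf 0 233621 0) (P.cons (P.lf 1709 0 0) P.nil)))) (P.cons (P.cons (P.lf 728997 0 0) (P.cons (P.lf 151140 0 0) (P.cons (P.lf 26350 0 0) P.nil))) (P.cons (P.cons (P.lf 58876 0 0) (P.cons (P.lf 2803 0 0) P.nil)) (P.cons (P.cons (P.lf 0 4113 0) P.nil) P.nil)))))) 33997)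
 EL.nil)
noncomputable def S386_401_364_512_33 : EL := (EL.cons 14 (TM.mk (P.lf 8589934592 0 0) 0)
 EL.nil)
noncomputable def S386_401_364_512_34 : EL := (EL.cons 14 (TM.mk (P.cons (P.cons (P.lf 3029114590 0 0) (P.cons (P.lf 0 181150112 0) (P.cons (P.lf 0 12111272 0) (P.lf 4037088 0 0)))) (P.cons (P.cons (P.lf 427797232 0 0) (P.cons (P.lf 49148888 0 0) (P.cons (P.lf 3285976 0 0) (P.lf 0 1095320 0)))) (P.cons (P.cons (P.lf 0 8242118 0) (P.cons (P.lf 0 4525560 0) (P.cons (P.lf 0 302560 0) (P.lf 100848 0 0)))) (P.cons (P.cons (P.lf 0 1399454 0) (P.cons (P.lf 112152 0 0) (P.cons (P.lf 7496 0 0) P.nil))) (P.cons (P.cons (P.lf 63216 0 0) (P.cons (P.lf 7032 0 0) P.nil)) (P.cons (P.cons (P.lf 582 0 0) P.nil) P.nil)))))) 6074)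
 EL.nil)
noncomputable def S386_401_364_512_35 : EL := (EL.cons 14 (TM.mk (P.cons (P.cons (P.lf 1068172882 0 0) (P.cons (P.lf 0 127759866 0) (P.cons (P.lf 0 4721514 0) (P.cons (P.lf 3358060 0 0) (P.cons (P.lf 0 153196 0) (P.cons (P.lf 0 11384 0) P.nil)))))) (P.cons (P.cons (P.lf 301712852 0 0) (P.cons (P.lf 16619938 0 0) (P.cons (P.lf 0 961798 0) (P.cons (P.lf 0 647572 0) (P.cons (P.lf 83128 0 0) P.nil))))) (P.cons (P.cons (P.lf 15492298 0 0) (P.cons (P.lf 2051326 0 0) (P.cons (P.lf 609242 0 0) (P.cons (P.lf 17404 0 0) P.nil)))) (P.cons (P.cons (P.lf 0 1807944 0) (P.cons (P.lf 0 406960 0) (P.cons (P.lf 0 83726 0) P.nil))) (P.cons (P.cons (P.lf 0 86898 0) (P.cons (P.lf 6134 0 0) P.nil)) (P.cons (P.cons (P.lf 9392 0 0) P.nil) P.nil)))))) 75058)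
 EL.nil)
noncomputable def S386_401_364_512_36 : EL := (EL.cons 14 (TM.mk (P.cons (P.lf 6781871128 0 0) (P.cons (P.lf 173836984 0 0) (P.cons (P.lf 0 10373848 0) (P.cons (P.lf 162856 0 0) (P.cons (P.lf 3464 0 0) (P.cons (P.lf 0 224 0) P.nil)))))) 144)
 EL.nil)
noncomputable def S386_401_364_512_37 : EL := (EL.cons 14 (TM.mk (P.cons (P.cons (P.lf 2391527496 0 0) (P.cons (P.lf 0 143020496 0) (P.cons (P.lf 0 9562014 0) (P.lf 3187336 0 0)))) (P.cons (P.cons (P.lf 399052844 0 0) (P.cons (P.lf 35137732 0 0) (P.cons (P.lf 2349222 0 0) (P.lf 0 783070 0)))) (P.cons (P.cons (P.lf 0 1507994 0) (P.cons (P.lf 0 2359580 0) (P.cons (P.lf 0 157748 0) (P.lf 52578 0 0)))) (P.cons (P.cons (P.lf 0 1730896 0) (P.cons (P.lf 0 65828 0) (P.cons (P.lf 0 4402 0) P.nil))) (P.cons (P.cons (P.lf 40874 0 0) (P.cons (P.lf 14144 0 0) P.nil)) (P.cons (P.cons (P.lf 3366 0 0) P.nil) P.nil)))))) 9748)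
 EL.nil)
noncomputable def S386_401_364_512_38 : EL := (EL.cons 14 (TM.mk (P.cons (P.cons (P.lf 843337134 0 0) (P.cons (P.lf 0 100868164 0) (P.cons (P.lf 0 3727700 0) (P.cons (P.lf 2651234 0 0) (P.cons (P.lf 0 120950 0) (P.cons (P.lf 0 8986 0) P.nil)))))) (P.cons (P.cons (P.lf 259823354 0 0) (P.cons (P.lf 10536154 0 0) (P.cons (P.lf 0 854902 0) (P.cons (P.lf 0 443308 0) (P.cons (P.lf 62530 0 0) P.nil))))) (P.cons (P.cons (P.lf 17047226 0 0) (P.cons (P.lf 2110184 0 0) (P.cons (P.lf 467242 0 0) (P.cons (P.lf 0 3418 0) P.nil)))) (P.cons (P.cons (P.lf 0 1457994 0) (P.cons (P.lf 0 302280 0) (P.cons (P.lf 0 52700 0) P.nil))) (P.cons (P.cons (P.lf 0 117752 0) (P.cons (P.lf 0 5606 0) P.nil)) (P.cons (P.cons (P.lf 8226 0 0) P.nil) P.nil)))))) 67994)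
 EL.nil)
noncomputable def S386_401_364_512_39 : EL := (EL.cons 14 (TM.mk (P.cons (P.lf 5354380234 0 0) (P.cons (P.lf 274493364 0 0) (P.cons (P.lf 0 12862600 0) (P.cons (P.lf 0 162722 0) (P.cons (P.lf 24588 0 0) (P.cons (P.lf 0 606 0) P.nil)))))) 268)
 EL.nil)
noncomputable def S386_401_364_512_40 : EL := (EL.cons 14 (TM.mk (P.cons (P.cons (P.lf 1888143746 0 0) (P.cons (P.lf 0 112916642 0) (P.cons (P.lf 0 7549342 0) (P.lf 2516444 0 0)))) (P.cons (P.cons (P.lf 363455724 0 0) (P.cons (P.lf 24847374 0 0) (P.cons (P.lf 1661234 0 0) (P.lf 0 553740 0)))) (P.cons (P.cons (P.lf 3996976 0 0) (P.cons (P.lf 0 979106 0) (P.cons (P.lf 0 65454 0) (P.lf 21814 0 0)))) (P.cons (P.cons (P.lf 0 1833668 0) (P.cons (P.lf 0 144870 0) (P.cons (P.lf 0 9686 0) P.nil))) (P.cons (P.cons (P.lf 7592 0 0) (P.cons (P.lf 13294 0 0) P.nil)) (P.cons (P.cons (P.lf 5644 0 0) P.nil) P.nil)))))) 10952)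
 EL.nil)
noncomputable def S386_401_364_512_41 : EL := (EL.cons 14 (TM.mk (P.cons (P.cons (P.lf 665826230 0 0) (P.cons (P.lf 0 79636798 0) (P.cons (P.lf 0 2943070 0) (P.cons (P.lf 2093184 0 0) (P.cons (P.lf 0 95490 0) (P.cons (P.lf 0 7096 0) P.nil)))))) (P.cons (P.cons (P.lf 222200958 0 0) (P.cons (P.lf 6277140 0 0) (P.cons (P.lf 0 750396 0) (P.cons (P.lf 0 296344 0) (P.cons (P.lf 46920 0 0) P.nil))))) (P.cons (P.cons (P.lf 17698662 0 0) (P.cons (P.lf 2001058 0 0) (P.cons (P.lf 356094 0 0) (P.cons (P.lf 0 14872 0) P.nil)))) (P.cons (P.cons (P.lf 0 1103908 0) (P.cons (P.lf 0 210586 0) (P.cons (P.lf 0 31190 0) P.nil))) (P.cons (P.cons (P.lf 0 137794 0) (P.cons (P.lf 0 12932 0) P.nil)) (P.cons (P.cons (P.lf 6278 0 0) P.nil) P.nil)))))) 59668)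
 EL.nil)
noncomputable def S386_401_364_512_42 : EL := (EL.cons 14 (TM.mk (P.cons (P.lf 4227356602 0 0) (P.cons (P.lf 325074410 0 0) (P.cons (P.lf 0 11066548 0) (P.cons (P.lf 0 618760 0) (P.cons (P.lf 39016 0 0) (P.cons (P.lf 0 56 0) P.nil)))))) 384)
 EL.nil)
noncomputable def S386_401_364_512_43 : EL := (EL.cons 14 (TM.mk (P.cons (P.cons (P.lf 1490715374 0 0) (P.cons (P.lf 0 89149236 0) (P.cons (P.lf 0 5960308 0) (P.lf 1986768 0 0)))) (P.cons (P.cons (P.lf 325164186 0 0) (P.cons (P.lf 17332216 0 0) (P.cons (P.lf 1158788 0 0) (P.lf 0 386260 0)))) (P.cons (P.cons (P.lf 8230762 0 0) (P.cons (P.lf 0 133808 0) (P.cons (P.lf 0 8942 0) (P.lf 2978 0 0)))) (P.cons (P.cons (P.lf 0 1769958 0) (P.cons (P.lf 0 166340 0) (P.cons (P.lf 0 11120 0) P.nil))) (P.cons (P.cons (P.lf 0 28288 0) (P.cons (P.lf 9172 0 0) P.nil)) (P.cons (P.cons (P.lf 6998 0 0) P.nil) P.nil)))))) 11460)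
 EL.nil)
noncomputable def S386_401_364_512_44 : EL := (EL.cons 14 (TM.mk (P.cons (P.cons (P.lf 525678936 0 0) (P.cons (P.lf 0 62874344 0) (P.cons (P.lf 0 2323594 0) (P.cons (P.lf 1652598 0 0) (P.cons (P.lf 0 75392 0) (P.cons (P.lf 0 5602 0) P.nil)))))) (P.cons (P.cons (P.lf 188905220 0 0) (P.cons (P.lf 3344256 0 0) (P.cons (P.lf 0 652008 0) (P.cons (P.lf 0 191606 0) (P.cons (P.lf 35112 0 0) P.nil))))) (P.cons (P.cons (P.lf 17665978 0 0) (P.cons (P.lf 1803070 0 0) (P.cons (P.lf 269510 0 0) (P.cons (P.lf 0 20266 0) P.nil)))) (P.cons (P.cons (P.lf 0 769102 0) (P.cons (P.lf 0 134854 0) (P.cons (P.lf 0 16568 0) P.nil))) (P.cons (P.cons (P.lf 0 148024 0) (P.cons (P.lf 0 16802 0) P.nil)) (P.cons (P.cons (P.lf 3910 0 0) P.nil) P.nil)))))) 51668)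
 EL.nil)
noncomputable def S386_401_364_512_45 : EL := (EL.cons 14 (TM.mk (P.cons (P.cons (P.lf 376675516 0 0) (P.cons (P.lf 0 67578966 0) (P.cons (P.lf 0 476746 0) (P.cons (P.lf 1965892 0 0) (P.cons (P.lf 0 178226 0) (P.cons (P.lf 0 7736 0) P.nil)))))) (P.cons (P.cons (P.lf 159591924 0 0) (P.cons (P.lf 0 752906 0) (P.cons (P.lf 0 1672578 0) (P.cons (P.lf 0 134562 0) (P.cons (P.lf 78206 0 0) P.nil))))) (P.cons (P.cons (P.lf 19464160 0 0) (P.cons (P.lf 2510498 0 0) (P.cons (P.lf 346564 0 0) (P.cons (P.lf 0 55882 0) P.nil)))) (P.cons (P.cons (P.lf 0 329514 0) (P.cons (P.lf 0 54720 0) (P.cons (P.lf 11184 0 0) P.nil))) (P.cons (P.cons (P.lf 0 176840 0) (P.cons (P.lf 0 35580 0) P.nil)) (P.cons (P.cons (P.lf 486 0 0) P.nil) P.nil)))))) 96686)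
 EL.nil)
noncomputable def S386_401_364_512_46 : EL := (EL.cons 15 (TM.mk (P.lf 4294967296 0 0) 0)
 EL.nil)
noncomputable def S386_401_364_512_47 : EL := (EL.cons 15 (TM.mk (P.cons (P.cons (P.lf 1514557295 0 0) (P.cons (P.lf 0 90575056 0) (P.cons (P.lf 0 6055636 0) (P.lf 2018544 0 0)))) (P.cons (P.cons (P.lf 213898616 0 0) (P.cons (P.lf 24574444 0 0) (P.cons (P.lf 1642988 0 0) (P.lf 0 547660 0)))) (P.cons (P.cons (P.lf 0 4121059 0) (P.cons (P.lf 0 2262780 0) (P.cons (P.lf 0 151280 0) (P.lf 50424 0 0)))) (P.cons (P.cons (P.lf 0 699727 0) (P.cons (P.lf 56076 0 0) (P.cons (P.lf 3748 0 0) P.nil))) (P.cons (P.cons (P.lf 31608 0 0) (P.cons (P.lf 3516 0 0) P.nil)) (P.cons (P.cons (P.lf 291 0 0) P.nil) P.nil)))))) 3037)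
 EL.nil)
noncomputable def S386_401_364_512_48 : EL := (EL.cons 15 (TM.mk (P.cons (P.cons (P.lf 534086441 0 0) (P.cons (P.lf 0 63879933 0) (P.cons (P.lf 0 2360757 0) (P.cons (P.lf 1679030 0 0) (P.cons (P.lf 0 76598 0) (P.cons (P.lf 0 5692 0) P.nil)))))) (P.cons (P.cons (P.lf 150856426 0 0) (P.cons (P.lf 8309969 0 0) (P.cons (P.lf 0 480899 0) (P.cons (P.lf 0 323786 0) (P.cons (P.lf 41564 0 0) P.nil))))) (P.cons (P.cons (P.lf 7746149 0 0) (P.cons (P.lf 1025663 0 0) (P.cons (P.lf 304621 0 0) (P.cons (P.lf 8702 0 0) P.nil)))) (P.cons (P.cons (P.lf 0 903972 0) (P.cons (P.lf 0 203480 0) (P.cons (P.lf 0 41863 0) P.nil))) (P.cons (P.cons (P.lf 0 43449 0) (P.cons (P.lf 3067 0 0) P.nil)) (P.cons (P.cons (P.lf 4696 0 0) P.nil) P.nil)))))) 37529)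
 EL.nil)
noncomputable def S386_401_364_512 : SL := (SL.cons S386_401_364_512_0 (SL.cons S386_401_364_512_1 (SL.cons S386_401_364_512_2 (SL.cons S386_401_364_512_3 (SL.cons S386_401_364_512_4 (SL.cons S386_401_364_512_5 (SL.cons S386_401_364_512_6 (SL.cons S386_401_364_512_7 (SL.cons S386_401_364_512_8 (SL.cons S386_401_364_512_9 (SL.cons S386_401_364_512_10 (SL.cons S386_401_364_512_11 (SL.cons S386_401_364_512_12 (SL.cons S386_401_364_512_13 (SL.cons S386_401_364_512_14 (SL.cons S386_401_364_512_15 (SL.cons S386_401_364_512_16 (SL.cons S386_401_364_512_17 (SL.cons S386_401_364_512_18 (SL.cons S386_401_364_512_19 (SL.cons S386_401_364_512_20 (SL.cons S386_401_364_512_21 (SL.cons S386_401_364_512_22 (SL.cons S386_401_364_512_23 (SL.cons S386_401_364_512_24 (SL.cons S386_401_364_512_25 (SL.cons S386_401_364_512_26 (SL.cons S386_401_364_512_27 (SL.cons S386_401_364_512_28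 (SL.cons S386_401_364_512_29 (SL.cons S386_401_364_512_30 (SL.cons S386_401_364_512_31 (SL.cons S386_401_364_512_32 (SL.cons S386_401_364_512_33 (SL.cons S386_401_364_512_34 (SL.cons S386_401_364_512_35 (SL.cons S386_401_364_512_36 (SL.cons S386_401_364_512_37 (SL.cons S386_401_364_512_38 (SL.cons S386_401_364_512_39 (SL.cons S386_401_364_512_40 (SL.cons S386_401_364_512_41 (SL.cons S386_401_364_512_42 (SL.cons S386_401_364_512_43 (SL.cons S386_401_364_512_44 (SL.cons S386_401_364_512_45 (SL.cons S386_401_364_512_46 (SL.cons S386_401_364_512_47 (SL.cons S386_401_364_512_48 SL.nil)))))))))))))))))))))))))))))))))))))))))))))))))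
noncomputable def S386_401_512_586_0 : EL := (EL.cons 0 (TM.mk (P.cons (P.lf 3749718611 0 0) (P.cons (P.lf 0 241253933 0) (P.cons (P.lf 11305019 0 0) (P.cons (P.lf 143017 0 0) (P.cons (P.lf 0 21610 0) (P.cons (P.lf 532 0 0) P.nil)))))) 242)
 (EL.cons 1 (TM.mk (P.cons (P.lf 1493911567 0 0) (P.cons (P.lf 0 96814440 0) (P.cons (P.lf 0 5526710 0) (P.cons (P.lf 348346 0 0) (P.cons (P.lf 0 3322 0) (P.cons (P.lf 0 335 0) P.nil)))))) 136)
 (EL.cons 5 (TM.mk (P.cons (P.lf 5968211122 0 0) (P.cons (P.lf 85779174 0 0) (P.cons (P.lf 0 4019562 0) (P.cons (P.lf 0 50846 0) (P.cons (P.lf 7688 0 0) (P.cons (P.lf 0 190 0) P.nil)))))) 71)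
 (EL.cons 9 (TM.mk (P.lf 6442450944 0 0) 2)
 EL.nil))))
noncomputable def S386_401_512_586_1 : EL := (EL.cons 0 (TM.mk (P.cons (P.cons (P.lf 4258177732 0 0) (P.cons (P.lf 114808441 0 0) (P.cons (P.lf 0 1827311 0) (P.lf 0 609092 0)))) (P.cons (P.cons (P.lf 0 152594206 0) (P.cons (P.lf 0 20463662 0) (P.cons (P.lf 325695 0 0) (P.lf 108557 0 0)))) (P.cons (P.cons (P.lf 0 47469177 0) (P.cons (P.lf 0 531737 0) (P.cons (P.lf 8482 0 0) (P.lf 2838 0 0)))) (P.cons (P.cons (P.lf 4327707 0 0) (P.cons (P.lf 325382 0 0) (P.cons (P.lf 0 5168 0) P.nil))) (P.cons (P.cons (P.lf 73882 0 0) (P.cons (P.lf 0 20894 0) P.nil)) (P.cons (P.cons (P.lf 0 19986 0) P.nil) P.nil)))))) 11756)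
 (EL.cons 1 (TM.mk (P.cons (P.cons (P.lf 1705331242 0 0) (P.cons (P.lf 46192293 0 0) (P.cons (P.lf 0 735219 0) (P.lf 0 245077 0)))) (P.cons (P.cons (P.lf 193447454 0 0) (P.cons (P.lf 4797287 0 0) (P.cons (P.lf 0 76351 0) (P.lf 0 25445 0)))) (P.cons (P.cons (P.lf 0 34089078 0) (P.cons (P.lf 0 2312160 0) (P.cons (P.lf 36791 0 0) (P.lf 12255 0 0)))) (P.cons (P.cons (P.lf 0 1135108 0) (P.cons (P.lf 136489 0 0) (P.cons (P.lf 0 2163 0) P.nil))) (P.cons (P.cons (P.lf 212062 0 0) (P.cons (P.lf 6957 0 0) P.nil)) (P.cons (P.cons (P.lf 0 3353 0) P.nil) P.nil)))))) 4904)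
 (EL.cons 5 (TM.mk (P.cons (P.cons (P.lf 818180856 0 0) (P.cons (P.lf 0 121670050 0) (P.cons (P.lf 1936536 0 0) (P.lf 645510 0 0)))) (P.cons (P.cons (P.lf 483690418 0 0) (P.cons (P.lf 29211652 0 0) (P.cons (P.lf 0 464940 0) (P.lf 0 154978 0)))) (P.cons (P.cons (P.lf 3812703 0 0) (P.cons (P.lf 0 1830746 0) (P.cons (P.lf 29134 0 0) (P.lf 9708 0 0)))) (P.cons (P.cons (P.lf 0 2578104 0) (P.cons (P.lf 0 65636 0) (P.cons (P.lf 1038 0 0) P.nil))) (P.cons (P.cons (P.lf 36894 0 0) (P.cons (P.lf 10564 0 0) P.nil)) (P.cons (P.cons (P.lf 6918 0 0) P.nil) P.nil)))))) 3564)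
 (EL.cons 9 (TM.mk (P.cons (P.cons (P.lf 2057823178 0 0) (P.cons (P.lf 0 71337588 0) (P.cons (P.lf 1135428 0 0) (P.lf 378474 0 0)))) (P.cons (P.cons (P.lf 378912966 0 0) (P.cons (P.lf 19355010 0 0) (P.cons (P.lf 0 308058 0) (P.lf 0 102684 0)))) (P.cons (P.cons (P.lf 0 11528134 0) (P.cons (P.lf 0 1782180 0) (P.cons (P.lf 28362 0 0) (P.lf 9450 0 0)))) (P.cons (P.cons (P.lf 0 917092 0) (P.cons (P.lf 44166 0 0) (P.cons (P.lf 0 702 0) P.nil))) (P.cons (P.cons (P.lf 55716 0 0) (P.cons (P.lf 2766 0 0) P.nil)) (P.cons (P.cons (P.lf 0 156 0) P.nil) P.nil)))))) 1322)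
 (EL.cons 2 (TM.mk (P.cons (P.cons (P.lf 0 516924118 0) (P.cons (P.lf 19161669 0 0) (P.cons (P.lf 9494673 0 0) (P.cons (P.lf 0 86155 0) (P.lf 0 21538 0))))) (P.cons (P.cons (P.lf 80249678 0 0) (P.cons (P.lf 0 2974741 0) (P.cons (P.lf 0 1473994 0) (P.cons (P.lf 13373 0 0) (P.lf 3341 0 0))))) (P.cons (P.cons (P.lf 0 1193990 0) (P.cons (P.lf 44257 0 0) (P.cons (P.lf 21929 0 0) (P.cons (P.lf 0 196 0) P.nil)))) (P.cons (P.cons (P.lf 0 323159 0) (P.cons (P.lf 11978 0 0) (P.cons (P.lf 5934 0 0) P.nil))) (P.cons (P.cons (P.lf 15640 0 0) (P.cons (P.lf 0 576 0) P.nil)) (P.cons (P.cons (P.lf 50 0 0) P.nil) P.nil)))))) 1041)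
 (EL.cons 6 (TM.mk (P.cons (P.cons (P.lf 164096727 0 0) (P.cons (P.lf 0 6082839 0) (P.cons (P.lf 0 3014067 0) (P.cons (P.lf 27348 0 0) (P.lf 6837 0 0))))) (P.cons (P.cons (P.lf 0 44522034 0) (P.cons (P.lf 1650369 0 0) (P.cons (P.lf 817764 0 0) (P.cons (P.lf 0 7419 0) (P.lf 0 1854 0))))) (P.cons (P.cons (P.lf 4099530 0 0) (P.cons (P.lf 0 151962 0) (P.cons (P.lf 0 75297 0) (P.cons (P.lf 681 0 0) P.nil)))) (P.cons (P.cons (P.lf 0 101595 0) (P.cons (P.lf 3765 0 0) (P.cons (P.lf 1866 0 0) P.nil))) (P.cons (P.cons (P.lf 0 6369 0) (P.cons (P.lf 234 0 0) P.nil)) (P.cons (P.cons (P.lf 462 0 0) P.nil) P.nil)))))) 489)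
 EL.nil))))))
noncomputable def S386_401_512_586_2 : EL := (EL.cons 0 (TM.mk (P.cons (P.cons (P.lf 2337690423 0 0) (P.cons (P.lf 5566158 0 0) (P.cons (P.lf 0 3090909 0) (P.cons (P.lf 66048 0 0) (P.cons (P.lf 31090 0 0) (P.cons (P.lf 0 495 0) P.nil)))))) (P.cons (P.cons (P.lf 287133960 0 0) (P.cons (P.lf 25377955 0 0) (P.cons (P.lf 1018162 0 0) (P.cons (P.lf 0 179905 0) (P.cons (P.lf 0 14727 0) P.nil))))) (P.cons (P.cons (P.lf 0 64287130 0) (P.cons (P.lf 0 5961523 0) (P.cons (P.lf 0 154064 0) (P.cons (P.lf 39545 0 0) P.nil)))) (P.cons (P.cons (P.lf 0 2235656 0) (P.cons (P.lf 127925 0 0) (P.cons (P.lf 11646 0 0) P.nil))) (P.cons (P.cons (P.lf 771227 0 0) (P.cons (P.lf 71671 0 0) P.nil)) (P.cons (P.cons (P.lf 0 12658 0) P.nil) P.nil)))))) 50001)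
 (EL.cons 1 (TM.mk (P.cons (P.cons (P.lf 937001958 0 0) (P.cons (P.lf 2310361 0 0) (P.cons (P.lf 0 1242934 0) (P.cons (P.lf 26129 0 0) (P.cons (P.lf 12497 0 0) (P.cons (P.lf 0 206 0) P.nil)))))) (P.cons (P.cons (P.lf 277925719 0 0) (P.cons (P.lf 12854617 0 0) (P.cons (P.lf 77986 0 0) (P.cons (P.lf 0 77191 0) (P.cons (P.lf 0 2924 0) P.nil))))) (P.cons (P.cons (P.lf 0 4383565 0) (P.cons (P.lf 0 406824 0) (P.cons (P.lf 32545 0 0) (P.cons (P.lf 1321 0 0) P.nil)))) (P.cons (P.cons (P.lf 0 5066213 0) (P.cons (P.lf 0 398193 0) (P.cons (P.lf 0 8833 0) P.nil))) (P.cons (P.cons (P.lf 81213 0 0) (P.cons (P.lf 35628 0 0) P.nil)) (P.cons (P.cons (P.lf 34474 0 0) P.nil) P.nil)))))) 20759)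
 (EL.cons 5 (TM.mk (P.cons (P.cons (P.lf 0 86236486 0) (P.cons (P.lf 0 53628201 0) (P.cons (P.lf 2816299 0 0) (P.cons (P.lf 222038 0 0) (P.cons (P.lf 0 20325 0) (P.cons (P.lf 328 0 0) P.nil)))))) (P.cons (P.cons (P.lf 172244732 0 0) (P.cons (P.lf 0 4520343 0) (P.cons (P.lf 0 919464 0) (P.cons (P.lf 55529 0 0) (P.cons (P.lf 10256 0 0) P.nil))))) (P.cons (P.cons (P.lf 39768368 0 0) (P.cons (P.lf 3698969 0 0) (P.cons (P.lf 140267 0 0) (P.cons (P.lf 0 25961 0) P.nil)))) (P.cons (P.cons (P.lf 0 1405950 0) (P.cons (P.lf 0 306584 0) (P.cons (P.lf 0 13223 0) P.nil))) (P.cons (P.cons (P.lf 0 332747 0) (P.cons (P.lf 0 17998 0) P.nil)) (P.cons (P.cons (P.lf 15527 0 0) P.nil) P.nil)))))) 19789)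
 (EL.cons 9 (TM.mk (P.cons (P.cons (P.lf 657302052 0 0) (P.cons (P.lf 0 45572761 0) (P.cons (P.lf 1515271 0 0) (P.cons (P.lf 216636 0 0) (P.cons (P.lf 0 8181 0) (P.cons (P.lf 132 0 0) P.nil)))))) (P.cons (P.cons (P.lf 242061876 0 0) (P.cons (P.lf 3973161 0 0) (P.cons (P.lf 0 491874 0) (P.cons (P.lf 0 7432 0) (P.cons (P.lf 4438 0 0) P.nil))))) (P.cons (P.cons (P.lf 14921232 0 0) (P.cons (P.lf 1393519 0 0) (P.cons (P.lf 75433 0 0) (P.cons (P.lf 0 10503 0) P.nil)))) (P.cons (P.cons (P.lf 0 1941922 0) (P.cons (P.lf 0 230380 0) (P.cons (P.lf 0 8019 0) P.nil))) (P.cons (P.cons (P.lf 0 51655 0) (P.cons (P.lf 6595 0 0) P.nil)) (P.cons (P.cons (P.lf 9735 0 0) P.nil) P.nil)))))) 7381)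
 (EL.cons 2 (TM.mk (P.cons (P.cons (P.lf 0 330227870 0) (P.cons (P.lf 23688945 0 0) (P.cons (P.lf 5458938 0 0) (P.cons (P.lf 0 319286 0) (P.cons (P.lf 0 6249 0) (P.cons (P.lf 1558 0 0) P.nil)))))) (P.cons (P.cons (P.lf 0 9539718 0) (P.cons (P.lf 0 4529570 0) (P.cons (P.lf 433957 0 0) (P.cons (P.lf 111127 0 0) (P.cons (P.lf 0 3600 0) P.nil))))) (P.cons (P.cons (P.lf 10526979 0 0) (P.cons (P.lf 404398 0 0) (P.cons (P.lf 0 235456 0) (P.cons (P.lf 0 16582 0) P.nil)))) (P.cons (P.cons (P.lf 0 486922 0) (P.cons (P.lf 0 33451 0) (P.cons (P.lf 11666 0 0) P.nil))) (P.cons (P.cons (P.lf 0 55535 0) (P.cons (P.lf 1085 0 0) P.nil)) (P.cons (P.cons (P.lf 4781 0 0) P.nil) P.nil)))))) 7250)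
 (EL.cons 6 (TM.mk (P.cons (P.cons (P.lf 104830302 0 0) (P.cons (P.lf 0 7520016 0) (P.cons (P.lf 0 1732926 0) (P.cons (P.lf 101358 0 0) (P.cons (P.lf 1980 0 0) (P.cons (P.lf 0 492 0) P.nil)))))) (P.cons (P.cons (P.lf 0 9139410 0) (P.cons (P.lf 2310762 0 0) (P.cons (P.lf 63384 0 0) (P.cons (P.lf 0 47040 0) (P.cons (P.lf 906 0 0) P.nil))))) (P.cons (P.cons (P.lf 0 3205482 0) (P.cons (P.lf 0 330264 0) (P.cons (P.lf 82668 0 0) (P.cons (P.lf 9828 0 0) P.nil)))) (P.cons (P.cons (P.lf 529938 0 0) (P.cons (P.lf 34116 0 0) (P.cons (P.lf 0 12576 0) P.nil))) (P.cons (P.cons (P.lf 0 15174 0) (P.cons (P.lf 0 2640 0) P.nil)) (P.cons (P.cons (P.lf 0 2028 0) P.nil) P.nil)))))) 4152)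
 EL.nil))))))
noncomputable def S386_401_512_586_3 : EL := (EL.cons 0 (TM.mk (P.cons (P.lf 4705998252 0 0) (P.cons (P.lf 241253933 0 0) (P.cons (P.lf 0 11305019 0) (P.cons (P.lf 0 143017 0) (P.cons (P.lf 21610 0 0) (P.cons (P.lf 0 532 0) P.nil)))))) 242)
 (EL.cons 1 (TM.mk (P.cons (P.lf 0 1493911567 0) (P.cons (P.lf 96814440 0 0) (P.cons (P.lf 5526710 0 0) (P.cons (P.lf 0 348346 0) (P.cons (P.lf 3322 0 0) (P.cons (P.lf 335 0 0) P.nil)))))) 136)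
 (EL.cons 5 (TM.mk (P.cons (P.lf 474239822 0 0) (P.cons (P.lf 0 85779174 0) (P.cons (P.lf 4019562 0 0) (P.cons (P.lf 50846 0 0) (P.cons (P.lf 0 7688 0) (P.cons (P.lf 190 0 0) P.nil)))))) 64)
 EL.nil)))
noncomputable def S386_401_512_586_4 : EL := (EL.cons 0 (TM.mk (P.cons (P.cons (P.lf 1503172063 0 0) (P.cons (P.lf 0 52109757 0) (P.cons (P.lf 829392 0 0) (P.lf 276461 0 0)))) (P.cons (P.cons (P.lf 353843855 0 0) (P.cons (P.lf 11466778 0 0) (P.cons (P.lf 0 182506 0) (P.lf 0 60832 0)))) (P.cons (P.cons (P.lf 2157428 0 0) (P.cons (P.lf 0 451843 0) (P.cons (P.lf 7187 0 0) (P.lf 2392 0 0)))) (P.cons (P.cons (P.lf 0 1812192 0) (P.cons (P.lf 0 66854 0) (P.cons (P.lf 1063 0 0) P.nil))) (P.cons (P.cons (P.lf 25075 0 0) (P.cons (P.lf 6131 0 0) P.nil)) (P.cons (P.cons (P.lf 4937 0 0) P.nil) P.nil)))))) 2305)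
 (EL.cons 1 (TM.mk (P.cons (P.cons (P.lf 0 477179550 0) (P.cons (P.lf 16542157 0 0) (P.cons (P.lf 0 263287 0) (P.lf 0 87761 0)))) (P.cons (P.cons (P.lf 0 56940356 0) (P.cons (P.lf 0 5560177 0) (P.cons (P.lf 88496 0 0) (P.lf 29497 0 0)))) (P.cons (P.cons (P.lf 10132672 0 0) (P.cons (P.lf 642922 0 0) (P.cons (P.lf 0 10230 0) (P.lf 0 3408 0)))) (P.cons (P.cons (P.lf 253205 0 0) (P.cons (P.lf 0 16561 0) (P.cons (P.lf 262 0 0) P.nil))) (P.cons (P.cons (P.lf 0 56015 0) (P.cons (P.lf 0 2589 0) P.nil)) (P.cons (P.cons (P.lf 1012 0 0) P.nil) P.nil)))))) 1074)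
 (EL.cons 5 (TM.mk (P.cons (P.cons (P.lf 151479880 0 0) (P.cons (P.lf 0 5251280 0) (P.cons (P.lf 83580 0 0) (P.lf 27858 0 0)))) (P.cons (P.cons (P.lf 493172 0 0) (P.cons (P.lf 2374592 0 0) (P.cons (P.lf 0 37794 0) (P.lf 0 12596 0)))) (P.cons (P.cons (P.lf 0 4609796 0) (P.cons (P.lf 0 433402 0) (P.cons (P.lf 6896 0 0) (P.lf 2298 0 0)))) (P.cons (P.cons (P.lf 338636 0 0) (P.cons (P.lf 38492 0 0) (P.cons (P.lf 0 612 0) P.nil))) (P.cons (P.cons (P.lf 9654 0 0) (P.cons (P.lf 0 1258 0) P.nil)) (P.cons (P.cons (P.lf 0 1806 0) P.nil) P.nil)))))) 538)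
 EL.nil)))
noncomputable def S386_401_512_586_5 : EL := (EL.cons 0 (TM.mk (P.cons (P.cons (P.lf 480137501 0 0) (P.cons (P.lf 0 33289400 0) (P.cons (P.lf 1106855 0 0) (P.cons (P.lf 158245 0 0) (P.cons (P.lf 0 5974 0) (P.cons (P.lf 94 0 0) P.nil)))))) (P.cons (P.cons (P.lf 201432571 0 0) (P.cons (P.lf 1195674 0 0) (P.cons (P.lf 0 302552 0) (P.cons (P.lf 2682 0 0) (P.cons (P.lf 2935 0 0) P.nil))))) (P.cons (P.cons (P.lf 18810675 0 0) (P.cons (P.lf 1246674 0 0) (P.cons (P.lf 34022 0 0) (P.cons (P.lf 0 8330 0) P.nil)))) (P.cons (P.cons (P.lf 0 1299100 0) (P.cons (P.lf 0 122060 0) (P.cons (P.lf 0 2202 0) P.nil))) (P.cons (P.cons (P.lf 0 139804 0) (P.cons (P.lf 0 6495 0) P.nil)) (P.cons (P.cons (P.lf 9010 0 0) P.nil) P.nil)))))) 8167)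
 (EL.cons 1 (TM.mk (P.cons (P.cons (P.lf 0 152418875 0) (P.cons (P.lf 10567666 0 0) (P.cons (P.lf 0 351367 0) (P.cons (P.lf 0 50233 0) (P.cons (P.lf 1895 0 0) (P.cons (P.lf 0 30 0) P.nil)))))) (P.cons (P.cons (P.lf 0 46253002 0) (P.cons (P.lf 0 1606166 0) (P.cons (P.lf 136828 0 0) (P.cons (P.lf 4978 0 0) (P.cons (P.lf 0 1151 0) P.nil))))) (P.cons (P.cons (P.lf 741457 0 0) (P.cons (P.lf 0 302523 0) (P.cons (P.lf 0 23581 0) (P.cons (P.lf 2508 0 0) P.nil)))) (P.cons (P.cons (P.lf 846646 0 0) (P.cons (P.lf 80235 0 0) (P.cons (P.lf 2488 0 0) P.nil))) (P.cons (P.cons (P.lf 0 17152 0) (P.cons (P.lf 0 4033 0) P.nil)) (P.cons (P.cons (P.lf 0 5345 0) P.nil) P.nil)))))) 3258)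
 (EL.cons 5 (TM.mk (P.cons (P.cons (P.lf 48385126 0 0) (P.cons (P.lf 0 3354688 0) (P.cons (P.lf 111540 0 0) (P.cons (P.lf 15946 0 0) (P.cons (P.lf 0 600 0) (P.cons (P.lf 8 0 0) P.nil)))))) (P.cons (P.cons (P.lf 9066820 0 0) (P.cons (P.lf 899256 0 0) (P.cons (P.lf 0 56382 0) (P.cons (P.lf 0 3430 0) (P.cons (P.lf 434 0 0) P.nil))))) (P.cons (P.cons (P.lf 0 1714496 0) (P.cons (P.lf 21242 0 0) (P.cons (P.lf 13046 0 0) (P.cons (P.lf 0 538 0) P.nil)))) (P.cons (P.cons (P.lf 0 185404 0) (P.cons (P.lf 0 33392 0) (P.cons (P.lf 0 1888 0) P.nil))) (P.cons (P.cons (P.lf 32488 0 0) (P.cons (P.lf 4506 0 0) P.nil)) (P.cons (P.cons (P.lf 40 0 0) P.nil) P.nil)))))) 1548)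
 EL.nil)))
noncomputable def S386_401_512_586_6 : EL := (EL.cons 12 (TM.mk (P.lf 8589934592 0 0) 0)
 (EL.cons 3 (TM.mk (P.cons (P.lf 3179002091 0 0) (P.cons (P.lf 81486086 0 0) (P.cons (P.lf 0 4862741 0) (P.cons (P.lf 76338 0 0) (P.cons (P.lf 1623 0 0) (P.cons (P.lf 0 105 0) P.nil)))))) 74)
 (EL.cons 7 (TM.mk (P.cons (P.lf 0 1009169096 0) (P.cons (P.lf 91267844 0 0) (P.cons (P.lf 0 149690 0) (P.cons (P.lf 0 67638 0) (P.cons (P.lf 2074 0 0) (P.cons (P.lf 0 6 0) P.nil)))))) 46)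
 EL.nil)))
noncomputable def S386_401_512_586_7 : EL := (EL.cons 12 (TM.mk (P.cons (P.cons (P.lf 2743764238 0 0) (P.cons (P.lf 0 95116784 0) (P.cons (P.lf 1513904 0 0) (P.lf 504632 0 0)))) (P.cons (P.cons (P.lf 505217288 0 0) (P.cons (P.lf 25806680 0 0) (P.cons (P.lf 0 410744 0) (P.lf 0 136912 0)))) (P.cons (P.cons (P.lf 0 15370846 0) (P.cons (P.lf 0 2376240 0) (P.cons (P.lf 37816 0 0) (P.lf 12600 0 0)))) (P.cons (P.cons (P.lf 0 1222790 0) (P.cons (P.lf 58888 0 0) (P.cons (P.lf 0 936 0) P.nil))) (P.cons (P.cons (P.lf 74288 0 0) (P.cons (P.lf 3688 0 0) P.nil)) (P.cons (P.cons (P.lf 0 208 0) P.nil) P.nil)))))) 1738)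
 (EL.cons 3 (TM.mk (P.cons (P.cons (P.lf 3082828587 0 0) (P.cons (P.lf 70402502 0 0) (P.cons (P.lf 0 1120542 0) (P.lf 0 373510 0)))) (P.cons (P.cons (P.lf 0 39995884 0) (P.cons (P.lf 0 17296706 0) (P.cons (P.lf 275296 0 0) (P.lf 91762 0 0)))) (P.cons (P.cons (P.lf 0 13189740 0) (P.cons (P.lf 1161510 0 0) (P.cons (P.lf 0 18480 0) (P.lf 0 6154 0)))) (P.cons (P.cons (P.lf 1491105 0 0) (P.cons (P.lf 32402 0 0) (P.cons (P.lf 0 514 0) P.nil))) (P.cons (P.cons (P.lf 0 24623 0) (P.cons (P.lf 0 6960 0) P.nil)) (P.cons (P.cons (P.lf 0 3342 0) P.nil) P.nil)))))) 4901)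
 (EL.cons 7 (TM.mk (P.cons (P.cons (P.lf 1993234338 0 0) (P.cons (P.lf 129455238 0 0) (P.cons (P.lf 0 2060453 0) (P.lf 0 686819 0)))) (P.cons (P.cons (P.lf 0 44797087 0) (P.cons (P.lf 0 19373047 0) (P.cons (P.lf 308348 0 0) (P.lf 102782 0 0)))) (P.cons (P.cons (P.lf 0 17372887 0) (P.cons (P.lf 176621 0 0) (P.cons (P.lf 0 2812 0) (P.lf 0 939 0)))) (P.cons (P.cons (P.lf 395254 0 0) (P.cons (P.lf 80007 0 0) (P.cons (P.lf 0 1270 0) P.nil))) (P.cons (P.cons (P.lf 44389 0 0) (P.cons (P.lf 0 2474 0) P.nil)) (P.cons (P.cons (P.lf 0 2359 0) P.nil) P.nil)))))) 2481)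
 (EL.cons 10 (TM.mk (P.cons (P.cons (P.lf 0 698386512 0) (P.cons (P.lf 25888233 0 0) (P.cons (P.lf 12827712 0 0) (P.cons (P.lf 0 116403 0) (P.lf 0 29100 0))))) (P.cons (P.cons (P.lf 126322200 0 0) (P.cons (P.lf 0 4682589 0) (P.cons (P.lf 0 2320239 0) (P.cons (P.lf 21054 0 0) (P.lf 5262 0 0))))) (P.cons (P.cons (P.lf 0 5919384 0) (P.cons (P.lf 219423 0 0) (P.cons (P.lf 108723 0 0) (P.cons (P.lf 0 984 0) P.nil)))) (P.cons (P.cons (P.lf 0 74877 0) (P.cons (P.lf 2775 0 0) (P.cons (P.lf 1374 0 0) P.nil))) (P.cons (P.cons (P.lf 11319 0 0) (P.cons (P.lf 0 417 0) P.nil)) (P.cons (P.cons (P.lf 0 279 0) P.nil) P.nil)))))) 684)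
 EL.nil))))
noncomputable def S386_401_512_586_8 : EL := (EL.cons 12 (TM.mk (P.cons (P.cons (P.lf 876402736 0 0) (P.cons (P.lf 0 60763682 0) (P.cons (P.lf 2020362 0 0) (P.cons (P.lf 288848 0 0) (P.cons (P.lf 0 10908 0) (P.cons (P.lf 176 0 0) P.nil)))))) (P.cons (P.cons (P.lf 322749168 0 0) (P.cons (P.lf 5297548 0 0) (P.cons (P.lf 0 655832 0) (P.cons (P.lf 0 9910 0) (P.cons (P.lf 5918 0 0) P.nil))))) (P.cons (P.cons (P.lf 19894976 0 0) (P.cons (P.lf 1858026 0 0) (P.cons (P.lf 100578 0 0) (P.cons (P.lf 0 14004 0) P.nil)))) (P.cons (P.cons (P.lf 0 2589230 0) (P.cons (P.lf 0 307174 0) (P.cons (P.lf 0 10692 0) P.nil))) (P.cons (P.cons (P.lf 0 68874 0) (P.cons (P.lf 8794 0 0) P.nil)) (P.cons (P.cons (P.lf 12980 0 0) P.nil) P.nil)))))) 9812)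
 (EL.cons 3 (TM.mk (P.cons (P.cons (P.lf 1645067648 0 0) (P.cons (P.lf 0 809538 0) (P.cons (P.lf 0 1936036 0) (P.cons (P.lf 66337 0 0) (P.cons (P.lf 20186 0 0) (P.cons (P.lf 0 326 0) P.nil)))))) (P.cons (P.cons (P.lf 209324421 0 0) (P.cons (P.lf 15256824 0 0) (P.cons (P.lf 764762 0 0) (P.cons (P.lf 0 113013 0) (P.cons (P.lf 0 10437 0) P.nil))))) (P.cons (P.cons (P.lf 0 34091955 0) (P.cons (P.lf 0 3970663 0) (P.cons (P.lf 0 147552 0) (P.cons (P.lf 27777 0 0) P.nil)))) (P.cons (P.cons (P.lf 0 389076 0) (P.cons (P.lf 250897 0 0) (P.cons (P.lf 17002 0 0) P.nil))) (P.cons (P.cons (P.lf 329861 0 0) (P.cons (P.lf 20925 0 0) P.nil)) (P.cons (P.cons (P.lf 0 13298 0) P.nil) P.nil)))))) 25582)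
 (EL.cons 7 (TM.mk (P.cons (P.cons (P.lf 1376304861 0 0) (P.cons (P.lf 31419142 0 0) (P.cons (P.lf 0 3243267 0) (P.cons (P.lf 0 79372 0) (P.cons (P.lf 28407 0 0) (P.cons (P.lf 0 458 0) P.nil)))))) (P.cons (P.cons (P.lf 234452156 0 0) (P.cons (P.lf 17088279 0 0) (P.cons (P.lf 856561 0 0) (P.cons (P.lf 0 126579 0) (P.cons (P.lf 0 11683 0) P.nil))))) (P.cons (P.cons (P.lf 0 24577851 0) (P.cons (P.lf 0 3455576 0) (P.cons (P.lf 0 115557 0) (P.cons (P.lf 23752 0 0) P.nil)))) (P.cons (P.cons (P.lf 0 2701282 0) (P.cons (P.lf 0 12875 0) (P.cons (P.lf 8770 0 0) P.nil))) (P.cons (P.cons (P.lf 206349 0 0) (P.cons (P.lf 31441 0 0) P.nil)) (P.cons (P.cons (P.lf 8666 0 0) P.nil) P.nil)))))) 14657)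
 (EL.cons 10 (TM.mk (P.cons (P.cons (P.lf 0 446151924 0) (P.cons (P.lf 32004780 0 0) (P.cons (P.lf 7375260 0 0) (P.cons (P.lf 0 431376 0) (P.cons (P.lf 0 8448 0) (P.cons (P.lf 2106 0 0) P.nil)))))) (P.cons (P.cons (P.lf 0 1452534 0) (P.cons (P.lf 0 6940014 0) (P.cons (P.lf 397248 0 0) (P.cons (P.lf 161196 0 0) (P.cons (P.lf 0 4644 0) P.nil))))) (P.cons (P.cons (P.lf 13577178 0 0) (P.cons (P.lf 773208 0 0) (P.cons (P.lf 0 317016 0) (P.cons (P.lf 0 27198 0) P.nil)))) (P.cons (P.cons (P.lf 0 997380 0) (P.cons (P.lf 0 76398 0) (P.cons (P.lf 24324 0 0) P.nil))) (P.cons (P.cons (P.lf 0 28434 0) (P.cons (P.lf 4758 0 0) P.nil)) (P.cons (P.cons (P.lf 5322 0 0) P.nil) P.nil)))))) 9660)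
 EL.nil))))
noncomputable def S386_401_512_586_9 : EL := (EL.cons 3 (TM.mk (P.cons (P.lf 3179002091 0 0) (P.cons (P.lf 81486086 0 0) (P.cons (P.lf 0 4862741 0) (P.cons (P.lf 76338 0 0) (P.cons (P.lf 1623 0 0) (P.cons (P.lf 0 105 0) P.nil)))))) 74)
 (EL.cons 7 (TM.mk (P.cons (P.lf 0 1009169096 0) (P.cons (P.lf 91267844 0 0) (P.cons (P.lf 0 149690 0) (P.cons (P.lf 0 67638 0) (P.cons (P.lf 2074 0 0) (P.cons (P.lf 0 6 0) P.nil)))))) 46)
 EL.nil))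
noncomputable def S386_401_512_586_10 : EL := (EL.cons 3 (TM.mk (P.cons (P.cons (P.lf 1015424757 0 0) (P.cons (P.lf 0 35201251 0) (P.cons (P.lf 560271 0 0) (P.lf 186755 0 0)))) (P.cons (P.cons (P.lf 213001088 0 0) (P.cons (P.lf 8648353 0 0) (P.cons (P.lf 0 137648 0) (P.lf 0 45881 0)))) (P.cons (P.cons (P.lf 0 2449143 0) (P.cons (P.lf 0 580755 0) (P.cons (P.lf 9240 0 0) (P.lf 3077 0 0)))) (P.cons (P.cons (P.lf 0 859965 0) (P.cons (P.lf 0 16201 0) (P.cons (P.lf 257 0 0) P.nil))) (P.cons (P.cons (P.lf 29602 0 0) (P.cons (P.lf 3480 0 0) P.nil)) (P.cons (P.cons (P.lf 1245 0 0) P.nil) P.nil)))))) 1132)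
 (EL.cons 7 (TM.mk (P.cons (P.cons (P.lf 0 322344954 0) (P.cons (P.lf 11174580 0 0) (P.cons (P.lf 0 177857 0) (P.lf 0 59285 0)))) (P.cons (P.cons (P.lf 0 30201886 0) (P.cons (P.lf 0 4042453 0) (P.cons (P.lf 64340 0 0) (P.lf 21446 0 0)))) (P.cons (P.cons (P.lf 7125917 0 0) (P.cons (P.lf 555020 0 0) (P.cons (P.lf 0 8833 0) (P.lf 0 2943 0)))) (P.cons (P.cons (P.lf 0 50066 0) (P.cons (P.lf 0 31866 0) (P.cons (P.lf 506 0 0) P.nil))) (P.cons (P.cons (P.lf 0 24767 0) (P.cons (P.lf 7 0 0) P.nil)) (P.cons (P.cons (P.lf 1076 0 0) P.nil) P.nil)))))) 500)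
 EL.nil))
noncomputable def S386_401_512_586_11 : EL := (EL.cons 3 (TM.mk (P.cons (P.cons (P.lf 324343112 0 0) (P.cons (P.lf 0 22487700 0) (P.cons (P.lf 747704 0 0) (P.cons (P.lf 106897 0 0) (P.cons (P.lf 0 4036 0) (P.cons (P.lf 64 0 0) P.nil)))))) (P.cons (P.cons (P.lf 127758237 0 0) (P.cons (P.lf 1384122 0 0) (P.cons (P.lf 0 223546 0) (P.cons (P.lf 0 927 0) (P.cons (P.lf 2085 0 0) P.nil))))) (P.cons (P.cons (P.lf 9928365 0 0) (P.cons (P.lf 772277 0 0) (P.cons (P.lf 29856 0 0) (P.cons (P.lf 0 5439 0) P.nil)))) (P.cons (P.cons (P.lf 0 944424 0) (P.cons (P.lf 0 99593 0) (P.cons (P.lf 0 2612 0) P.nil))) (P.cons (P.cons (P.lf 0 58279 0) (P.cons (P.lf 0 675 0) P.nil)) (P.cons (P.cons (P.lf 5842 0 0) P.nil) P.nil)))))) 4656)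
 (EL.cons 7 (TM.mk (P.cons (P.cons (P.lf 0 102962199 0) (P.cons (P.lf 7138684 0 0) (P.cons (P.lf 0 237357 0) (P.cons (P.lf 0 33934 0) (P.cons (P.lf 1281 0 0) (P.cons (P.lf 0 20 0) P.nil)))))) (P.cons (P.cons (P.lf 0 28605700 0) (P.cons (P.lf 0 1267983 0) (P.cons (P.lf 98515 0 0) (P.cons (P.lf 4233 0 0) (P.cons (P.lf 0 811 0) P.nil))))) (P.cons (P.cons (P.lf 1076613 0 0) (P.cons (P.lf 0 160940 0) (P.cons (P.lf 0 18819 0) (P.cons (P.lf 1534 0 0) P.nil)))) (P.cons (P.cons (P.lf 503048 0 0) (P.cons (P.lf 56215 0 0) (P.cons (P.lf 2320 0 0) P.nil))) (P.cons (P.cons (P.lf 0 22095 0) (P.cons (P.lf 0 4385 0) P.nil)) (P.cons (P.cons (P.lf 0 2290 0) P.nil) P.nil)))))) 1909)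
 EL.nil))
noncomputable def S386_401_512_586_12 : EL := (EL.cons 4 (TM.mk (P.cons (P.lf 0 3179002091 0) (P.cons (P.lf 0 81486086 0) (P.cons (P.lf 4862741 0 0) (P.cons (P.lf 0 76338 0) (P.cons (P.lf 0 1623 0) (P.cons (P.lf 105 0 0) P.nil)))))) 74)
 (EL.cons 8 (TM.mk (P.cons (P.lf 1009169096 0 0) (P.cons (P.lf 0 91267844 0) (P.cons (P.lf 149690 0 0) (P.cons (P.lf 67638 0 0) (P.cons (P.lf 0 2074 0) (P.cons (P.lf 6 0 0) P.nil)))))) 46)
 EL.nil))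
noncomputable def S386_401_512_586_13 : EL := (EL.cons 4 (TM.mk (P.cons (P.cons (P.lf 0 1015424757 0) (P.cons (P.lf 35201251 0 0) (P.cons (P.lf 0 560271 0) (P.lf 0 186755 0)))) (P.cons (P.cons (P.lf 0 213001088 0) (P.cons (P.lf 0 8648353 0) (P.cons (P.lf 137648 0 0) (P.lf 45881 0 0)))) (P.cons (P.cons (P.lf 2449143 0 0) (P.cons (P.lf 580755 0 0) (P.cons (P.lf 0 9240 0) (P.lf 0 3077 0)))) (P.cons (P.cons (P.lf 859965 0 0) (P.cons (P.lf 16201 0 0) (P.cons (P.lf 0 257 0) P.nil))) (P.cons (P.cons (P.lf 0 29602 0) (P.cons (P.lf 0 3480 0) P.nil)) (P.cons (P.cons (P.lf 0 1245 0) P.nil) P.nil)))))) 1132)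
 (EL.cons 8 (TM.mk (P.cons (P.cons (P.lf 322344954 0 0) (P.cons (P.lf 0 11174580 0) (P.cons (P.lf 177857 0 0) (P.lf 59285 0 0)))) (P.cons (P.cons (P.lf 30201886 0 0) (P.cons (P.lf 4042453 0 0) (P.cons (P.lf 0 64340 0) (P.lf 0 21446 0)))) (P.cons (P.cons (P.lf 0 7125917 0) (P.cons (P.lf 0 555020 0) (P.cons (P.lf 8833 0 0) (P.lf 2943 0 0)))) (P.cons (P.cons (P.lf 50066 0 0) (P.cons (P.lf 31866 0 0) (P.cons (P.lf 0 506 0) P.nil))) (P.cons (P.cons (P.lf 24767 0 0) (P.cons (P.lf 0 7 0) P.nil)) (P.cons (P.cons (P.lf 0 1076 0) P.nil) P.nil)))))) 500)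
 EL.nil))
noncomputable def S386_401_512_586_14 : EL := (EL.cons 4 (TM.mk (P.cons (P.cons (P.lf 0 324343112 0) (P.cons (P.lf 22487700 0 0) (P.cons (P.lf 0 747704 0) (P.cons (P.lf 0 106897 0) (P.cons (P.lf 4036 0 0) (P.cons (P.lf 0 64 0) P.nil)))))) (P.cons (P.cons (P.lf 0 127758237 0) (P.cons (P.lf 0 1384122 0) (P.cons (P.lf 223546 0 0) (P.cons (P.lf 927 0 0) (P.cons (P.lf 0 2085 0) P.nil))))) (P.cons (P.cons (P.lf 0 9928365 0) (P.cons (P.lf 0 772277 0) (P.cons (P.lf 0 29856 0) (P.cons (P.lf 5439 0 0) P.nil)))) (P.cons (P.cons (P.lf 944424 0 0) (P.cons (P.lf 99593 0 0) (P.cons (P.lf 2612 0 0) P.nil))) (P.cons (P.cons (P.lf 58279 0 0) (P.cons (P.lf 675 0 0) P.nil)) (P.cons (P.cons (P.lf 0 5842 0) P.nil) P.nil)))))) 4656)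
 (EL.cons 8 (TM.mk (P.cons (P.cons (P.lf 102962199 0 0) (P.cons (P.lf 0 7138684 0) (P.cons (P.lf 237357 0 0) (P.cons (P.lf 33934 0 0) (P.cons (P.lf 0 1281 0) (P.cons (P.lf 20 0 0) P.nil)))))) (P.cons (P.cons (P.lf 28605700 0 0) (P.cons (P.lf 1267983 0 0) (P.cons (P.lf 0 98515 0) (P.cons (P.lf 0 4233 0) (P.cons (P.lf 811 0 0) P.nil))))) (P.cons (P.cons (P.lf 0 1076613 0) (P.cons (P.lf 160940 0 0) (P.cons (P.lf 18819 0 0) (P.cons (P.lf 0 1534 0) P.nil)))) (P.cons (P.cons (P.lf 0 503048 0) (P.cons (P.lf 0 56215 0) (P.cons (P.lf 0 2320 0) P.nil))) (P.cons (P.cons (P.lf 22095 0 0) (P.cons (P.lf 4385 0 0) P.nil)) (P.cons (P.cons (P.lf 2290 0 0) P.nil) P.nil)))))) 1909)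
 EL.nil))
noncomputable def S386_401_512_586_15 : EL := (EL.cons 4 (TM.mk (P.cons (P.lf 0 2509865734 0) (P.cons (P.lf 0 128668764 0) (P.cons (P.lf 6029343 0 0) (P.cons (P.lf 76275 0 0) (P.cons (P.lf 0 11525 0) (P.cons (P.lf 284 0 0) P.nil)))))) 132)
 (EL.cons 8 (TM.mk (P.cons (P.lf 796752836 0 0) (P.cons (P.lf 0 51634368 0) (P.cons (P.lf 0 2947579 0) (P.cons (P.lf 185785 0 0) (P.cons (P.lf 0 1772 0) (P.cons (P.lf 0 179 0) P.nil)))))) 69)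
 EL.nil))
noncomputable def S386_401_512_586_16 : EL := (EL.cons 4 (TM.mk (P.cons (P.cons (P.lf 0 801691767 0) (P.cons (P.lf 27791870 0 0) (P.cons (P.lf 0 442342 0) (P.lf 0 147446 0)))) (P.cons (P.cons (P.lf 0 188716723 0) (P.cons (P.lf 0 6115615 0) (P.cons (P.lf 97336 0 0) (P.lf 32444 0 0)))) (P.cons (P.cons (P.lf 0 1150628 0) (P.cons (P.lf 240983 0 0) (P.cons (P.lf 0 3833 0) (P.lf 0 1275 0)))) (P.cons (P.cons (P.lf 966502 0 0) (P.cons (P.lf 35655 0 0) (P.cons (P.lf 0 567 0) P.nil))) (P.cons (P.cons (P.lf 0 13373 0) (P.cons (P.lf 0 3270 0) P.nil)) (P.cons (P.cons (P.lf 0 2633 0) P.nil) P.nil)))))) 1238)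
 (EL.cons 8 (TM.mk (P.cons (P.cons (P.lf 254495760 0 0) (P.cons (P.lf 0 8822484 0) (P.cons (P.lf 140420 0 0) (P.lf 46806 0 0)))) (P.cons (P.cons (P.lf 30368190 0 0) (P.cons (P.lf 2965428 0 0) (P.cons (P.lf 0 47198 0) (P.lf 0 15732 0)))) (P.cons (P.cons (P.lf 0 5404092 0) (P.cons (P.lf 0 342892 0) (P.cons (P.lf 5456 0 0) (P.lf 1818 0 0)))) (P.cons (P.cons (P.lf 0 135043 0) (P.cons (P.lf 8833 0 0) (P.cons (P.lf 0 140 0) P.nil))) (P.cons (P.cons (P.lf 29875 0 0) (P.cons (P.lf 1381 0 0) P.nil)) (P.cons (P.cons (P.lf 0 540 0) P.nil) P.nil)))))) 563)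
 EL.nil))
noncomputable def S386_401_512_586_17 : EL := (EL.cons 4 (TM.mk (P.cons (P.cons (P.lf 0 256073334 0) (P.cons (P.lf 17754346 0 0) (P.cons (P.lf 0 590323 0) (P.cons (P.lf 0 84397 0) (P.cons (P.lf 3186 0 0) (P.cons (P.lf 0 50 0) P.nil)))))) (P.cons (P.cons (P.lf 0 107430705 0) (P.cons (P.lf 0 637693 0) (P.cons (P.lf 161361 0 0) (P.cons (P.lf 0 1430 0) (P.cons (P.lf 0 1565 0) P.nil))))) (P.cons (P.cons (P.lf 0 10032360 0) (P.cons (P.lf 0 664892 0) (P.cons (P.lf 0 18145 0) (P.cons (P.lf 4442 0 0) P.nil)))) (P.cons (P.cons (P.lf 692853 0 0) (P.cons (P.lf 65099 0 0) (P.cons (P.lf 1174 0 0) P.nil))) (P.cons (P.cons (P.lf 74562 0 0) (P.cons (P.lf 3464 0 0) P.nil)) (P.cons (P.cons (P.lf 0 4805 0) P.nil) P.nil)))))) 4366)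
 (EL.cons 8 (TM.mk (P.cons (P.cons (P.lf 81290067 0 0) (P.cons (P.lf 0 5636089 0) (P.cons (P.lf 187396 0 0) (P.cons (P.lf 26791 0 0) (P.cons (P.lf 0 1011 0) (P.cons (P.lf 16 0 0) P.nil)))))) (P.cons (P.cons (P.lf 24668268 0 0) (P.cons (P.lf 856622 0 0) (P.cons (P.lf 0 72975 0) (P.cons (P.lf 0 2655 0) (P.cons (P.lf 614 0 0) P.nil))))) (P.cons (P.cons (P.lf 0 395444 0) (P.cons (P.lf 161346 0 0) (P.cons (P.lf 12577 0 0) (P.cons (P.lf 0 1338 0) P.nil)))) (P.cons (P.cons (P.lf 0 451545 0) (P.cons (P.lf 0 42792 0) (P.cons (P.lf 0 1327 0) P.nil))) (P.cons (P.cons (P.lf 9148 0 0) (P.cons (P.lf 2151 0 0) P.nil)) (P.cons (P.cons (P.lf 2851 0 0) P.nil) P.nil)))))) 1726)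
 EL.nil))
noncomputable def S386_401_512_586_18 : EL := (EL.cons 4 (TM.mk (P.cons (P.lf 0 1981573407 0) (P.cons (P.lf 0 152378629 0) (P.cons (P.lf 5187444 0 0) (P.cons (P.lf 290043 0 0) (P.cons (P.lf 0 18288 0) (P.cons (P.lf 26 0 0) P.nil)))))) 187)
 (EL.cons 8 (TM.mk (P.cons (P.lf 629047288 0 0) (P.cons (P.lf 0 24641924 0) (P.cons (P.lf 0 4334312 0) (P.cons (P.lf 164492 0 0) (P.cons (P.lf 5262 0 0) (P.cons (P.lf 0 499 0) P.nil)))))) 83)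
 EL.nil))
noncomputable def S386_401_512_586_19 : EL := (EL.cons 4 (TM.mk (P.cons (P.cons (P.lf 0 632946641 0) (P.cons (P.lf 21942062 0 0) (P.cons (P.lf 0 349235 0) (P.lf 0 116411 0)))) (P.cons (P.cons (P.lf 0 165218507 0) (P.cons (P.lf 0 4265930 0) (P.cons (P.lf 67896 0 0) (P.lf 22631 0 0)))) (P.cons (P.cons (P.lf 0 3759368 0) (P.cons (P.lf 32932 0 0) (P.cons (P.lf 0 522 0) (P.lf 0 172 0)))) (P.cons (P.cons (P.lf 952490 0 0) (P.cons (P.lf 40940 0 0) (P.cons (P.lf 0 651 0) P.nil))) (P.cons (P.cons (P.lf 6488 0 0) (P.cons (P.lf 0 2255 0) P.nil)) (P.cons (P.cons (P.lf 0 3594 0) P.nil) P.nil)))))) 1312)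
 (EL.cons 8 (TM.mk (P.cons (P.cons (P.lf 200927892 0 0) (P.cons (P.lf 0 6965472 0) (P.cons (P.lf 110864 0 0) (P.lf 36954 0 0)))) (P.cons (P.cons (P.lf 29126407 0 0) (P.cons (P.lf 2162703 0 0) (P.cons (P.lf 0 34421 0) (P.lf 0 11473 0)))) (P.cons (P.cons (P.lf 0 3959383 0) (P.cons (P.lf 0 200051 0) (P.cons (P.lf 3183 0 0) (P.lf 1060 0 0)))) (P.cons (P.cons (P.lf 0 247832 0) (P.cons (P.lf 0 3713 0) (P.cons (P.lf 59 0 0) P.nil))) (P.cons (P.cons (P.lf 28059 0 0) (P.cons (P.lf 1735 0 0) P.nil)) (P.cons (P.cons (P.lf 244 0 0) P.nil) P.nil)))))) 574)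
 EL.nil))
noncomputable def S386_401_512_586_20 : EL := (EL.cons 4 (TM.mk (P.cons (P.cons (P.lf 0 202173407 0) (P.cons (P.lf 14017300 0 0) (P.cons (P.lf 0 466067 0) (P.cons (P.lf 0 66632 0) (P.cons (P.lf 2516 0 0) (P.cons (P.lf 0 40 0) P.nil)))))) (P.cons (P.cons (P.lf 0 90000244 0) (P.cons (P.lf 0 144167 0) (P.cons (P.lf 115451 0 0) (P.cons (P.lf 0 2837 0) (P.cons (P.lf 0 1170 0) P.nil))))) (P.cons (P.cons (P.lf 0 9785538 0) (P.cons (P.lf 0 559288 0) (P.cons (P.lf 0 10347 0) (P.cons (P.lf 3580 0 0) P.nil)))) (P.cons (P.cons (P.lf 468875 0 0) (P.cons (P.lf 39047 0 0) (P.cons (P.lf 354 0 0) P.nil))) (P.cons (P.cons (P.lf 82864 0 0) (P.cons (P.lf 4850 0 0) P.nil)) (P.cons (P.cons (P.lf 0 3348 0) P.nil) P.nil)))))) 4050)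
 (EL.cons 8 (TM.mk (P.cons (P.cons (P.lf 64179622 0 0) (P.cons (P.lf 0 4449769 0) (P.cons (P.lf 147952 0 0) (P.cons (P.lf 21152 0 0) (P.cons (P.lf 0 798 0) (P.cons (P.lf 12 0 0) P.nil)))))) (P.cons (P.cons (P.lf 21121026 0 0) (P.cons (P.lf 562255 0 0) (P.cons (P.lf 0 53822 0) (P.cons (P.lf 0 1554 0) (P.cons (P.lf 464 0 0) P.nil))))) (P.cons (P.cons (P.lf 88838 0 0) (P.cons (P.lf 151527 0 0) (P.cons (P.lf 8227 0 0) (P.cons (P.lf 0 1142 0) P.nil)))) (P.cons (P.cons (P.lf 0 392754 0) (P.cons (P.lf 0 31661 0) (P.cons (P.lf 0 701 0) P.nil))) (P.cons (P.cons (P.lf 0 937 0) (P.cons (P.lf 651 0 0) P.nil)) (P.cons (P.cons (P.lf 2982 0 0) P.nil) P.nil)))))) 1608)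
 EL.nil))
noncomputable def S386_401_512_586_21 : EL := (EL.cons 4 (TM.mk (P.cons (P.cons (P.lf 0 2067403830 0) (P.cons (P.lf 0 105603753 0) (P.cons (P.lf 1680813 0 0) (P.lf 560265 0 0)))) (P.cons (P.cons (P.lf 252996972 0 0) (P.cons (P.lf 25945059 0 0) (P.cons (P.lf 0 412944 0) (P.lf 0 137643 0)))) (P.cons (P.cons (P.lf 10740597 0 0) (P.cons (P.lf 0 1742265 0) (P.cons (P.lf 27720 0 0) (P.lf 9231 0 0)))) (P.cons (P.cons (P.lf 0 2351070 0) (P.cons (P.lf 0 48603 0) (P.cons (P.lf 771 0 0) P.nil))) (P.cons (P.cons (P.lf 54225 0 0) (P.cons (P.lf 10440 0 0) P.nil)) (P.cons (P.cons (P.lf 4587 0 0) P.nil) P.nil)))))) 3750)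
 (EL.cons 8 (TM.mk (P.cons (P.cons (P.lf 0 2315579292 0) (P.cons (P.lf 0 118280658 0) (P.cons (P.lf 1882596 0 0) (P.lf 627534 0 0)))) (P.cons (P.cons (P.lf 14595201 0 0) (P.cons (P.lf 15330594 0 0) (P.cons (P.lf 0 244008 0) (P.lf 0 81336 0)))) (P.cons (P.cons (P.lf 24498804 0 0) (P.cons (P.lf 378399 0 0) (P.cons (P.lf 0 6021 0) (P.lf 0 2004 0)))) (P.cons (P.cons (P.lf 0 445320 0) (P.cons (P.lf 0 111873 0) (P.cons (P.lf 1776 0 0) P.nil))) (P.cons (P.cons (P.lf 0 69156 0) (P.cons (P.lf 2481 0 0) P.nil)) (P.cons (P.cons (P.lf 3435 0 0) P.nil) P.nil)))))) 1962)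
 (EL.cons 11 (TM.mk (P.cons (P.cons (P.lf 698386512 0 0) (P.cons (P.lf 0 25888233 0) (P.cons (P.lf 0 12827712 0) (P.cons (P.lf 116403 0 0) (P.lf 29100 0 0))))) (P.cons (P.cons (P.lf 0 126322200 0) (P.cons (P.lf 4682589 0 0) (P.cons (P.lf 2320239 0 0) (P.cons (P.lf 0 21054 0) (P.lf 0 5262 0))))) (P.cons (P.cons (P.lf 5919384 0 0) (P.cons (P.lf 0 219423 0) (P.cons (P.lf 0 108723 0) (P.cons (P.lf 984 0 0) P.nil)))) (P.cons (P.cons (P.lf 74877 0 0) (P.cons (P.lf 0 2775 0) (P.cons (P.lf 0 1374 0) P.nil))) (P.cons (P.cons (P.lf 0 11319 0) (P.cons (P.lf 417 0 0) P.nil)) (P.cons (P.cons (P.lf 279 0 0) P.nil) P.nil)))))) 684)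
 EL.nil)))
noncomputable def S386_401_512_586_22 : EL := (EL.cons 4 (TM.mk (P.cons (P.cons (P.lf 0 660362268 0) (P.cons (P.lf 0 10839081 0) (P.cons (P.lf 1341870 0 0) (P.cons (P.lf 20280 0 0) (P.cons (P.lf 0 12111 0) (P.cons (P.lf 195 0 0) P.nil)))))) (P.cons (P.cons (P.lf 0 40783092 0) (P.cons (P.lf 0 6936351 0) (P.cons (P.lf 0 494154 0) (P.cons (P.lf 56043 0 0) (P.cons (P.lf 6261 0 0) P.nil))))) (P.cons (P.cons (P.lf 22010160 0 0) (P.cons (P.lf 2371470 0 0) (P.cons (P.lf 88704 0 0) (P.cons (P.lf 0 16608 0) P.nil)))) (P.cons (P.cons (P.lf 0 277674 0) (P.cons (P.lf 0 175245 0) (P.cons (P.lf 0 9807 0) P.nil))) (P.cons (P.cons (P.lf 0 194070 0) (P.cons (P.lf 0 10800 0) P.nil)) (P.cons (P.cons (P.lf 9570 0 0) P.nil) P.nil)))))) 10452)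
 (EL.cons 8 (TM.mk (P.cons (P.cons (P.lf 0 739633530 0) (P.cons (P.lf 0 12140229 0) (P.cons (P.lf 1502955 0 0) (P.cons (P.lf 22719 0 0) (P.cons (P.lf 0 13563 0) (P.cons (P.lf 219 0 0) P.nil)))))) (P.cons (P.cons (P.lf 0 131528928 0) (P.cons (P.lf 0 9178131 0) (P.cons (P.lf 0 379023 0) (P.cons (P.lf 65406 0 0) (P.cons (P.lf 5436 0 0) P.nil))))) (P.cons (P.cons (P.lf 12827232 0 0) (P.cons (P.lf 1647318 0 0) (P.cons (P.lf 48369 0 0) (P.cons (P.lf 0 11109 0) P.nil)))) (P.cons (P.cons (P.lf 1602165 0 0) (P.cons (P.lf 34545 0 0) (P.cons (P.lf 0 3225 0) P.nil))) (P.cons (P.cons (P.lf 0 114222 0) (P.cons (P.lf 0 17913 0) P.nil)) (P.cons (P.cons (P.lf 0 5478 0) P.nil) P.nil)))))) 6363)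
 (EL.cons 11 (TM.mk (P.cons (P.cons (P.lf 223075962 0 0) (P.cons (P.lf 0 16002390 0) (P.cons (P.lf 0 3687630 0) (P.cons (P.lf 215688 0 0) (P.cons (P.lf 4224 0 0) (P.cons (P.lf 0 1053 0) P.nil)))))) (P.cons (P.cons (P.lf 726267 0 0) (P.cons (P.lf 3470007 0 0) (P.cons (P.lf 0 198624 0) (P.cons (P.lf 0 80598 0) (P.cons (P.lf 2322 0 0) P.nil))))) (P.cons (P.cons (P.lf 0 6788589 0) (P.cons (P.lf 0 386604 0) (P.cons (P.lf 158508 0 0) (P.cons (P.lf 13599 0 0) P.nil)))) (P.cons (P.cons (P.lf 498690 0 0) (P.cons (P.lf 38199 0 0) (P.cons (P.lf 0 12162 0) P.nil))) (P.cons (P.cons (P.lf 14217 0 0) (P.cons (P.lf 0 2379 0) P.nil)) (P.cons (P.cons (P.lf 0 2661 0) P.nil) P.nil)))))) 4830)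
 EL.nil)))
noncomputable def S386_401_512_586_23 : EL := (EL.cons 4 (TM.mk (P.cons (P.cons (P.lf 0 1632243666 0) (P.cons (P.lf 0 83375610 0) (P.cons (P.lf 1327023 0 0) (P.lf 442335 0 0)))) (P.cons (P.cons (P.lf 157905930 0 0) (P.cons (P.lf 18346845 0 0) (P.cons (P.lf 0 292008 0) (P.lf 0 97332 0)))) (P.cons (P.cons (P.lf 16096572 0 0) (P.cons (P.lf 0 722949 0) (P.cons (P.lf 11496 0 0) (P.lf 3825 0 0)))) (P.cons (P.cons (P.lf 0 1983573 0) (P.cons (P.lf 0 106965 0) (P.cons (P.lf 1698 0 0) P.nil))) (P.cons (P.cons (P.lf 0 13776 0) (P.cons (P.lf 9810 0 0) P.nil)) (P.cons (P.cons (P.lf 7917 0 0) P.nil) P.nil)))))) 4128)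
 (EL.cons 8 (TM.mk (P.cons (P.cons (P.lf 0 1828181595 0) (P.cons (P.lf 0 93384201 0) (P.cons (P.lf 1486335 0 0) (P.lf 495444 0 0)))) (P.cons (P.cons (P.lf 0 35337933 0) (P.cons (P.lf 9710034 0 0) (P.cons (P.lf 0 154548 0) (P.lf 0 51516 0)))) (P.cons (P.cons (P.lf 22433973 0 0) (P.cons (P.lf 751845 0 0) (P.cons (P.lf 0 11964 0) (P.lf 0 3984 0)))) (P.cons (P.cons (P.lf 82674 0 0) (P.cons (P.lf 0 101424 0) (P.cons (P.lf 1608 0 0) P.nil))) (P.cons (P.cons (P.lf 0 93855 0) (P.cons (P.lf 0 519 0) P.nil)) (P.cons (P.cons (P.lf 2379 0 0) P.nil) P.nil)))))) 2280)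
 (EL.cons 11 (TM.mk (P.cons (P.cons (P.lf 551385726 0 0) (P.cons (P.lf 0 20439114 0) (P.cons (P.lf 0 10127652 0) (P.cons (P.lf 91899 0 0) (P.lf 22974 0 0))))) (P.cons (P.cons (P.lf 0 85599657 0) (P.cons (P.lf 3173058 0 0) (P.cons (P.lf 1572261 0 0) (P.cons (P.lf 0 14265 0) (P.lf 0 3564 0))))) (P.cons (P.cons (P.lf 1273590 0 0) (P.cons (P.lf 0 47208 0) (P.cons (P.lf 0 23391 0) (P.cons (P.lf 210 0 0) P.nil)))) (P.cons (P.cons (P.lf 344703 0 0) (P.cons (P.lf 0 12777 0) (P.cons (P.lf 0 6330 0) P.nil))) (P.cons (P.cons (P.lf 0 16683 0) (P.cons (P.lf 615 0 0) P.nil)) (P.cons (P.cons (P.lf 0 54 0) P.nil) P.nil)))))) 1089)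
 EL.nil)))
noncomputable def S386_401_512_586_24 : EL := (EL.cons 4 (TM.mk (P.cons (P.cons (P.lf 0 521365062 0) (P.cons (P.lf 0 8557602 0) (P.cons (P.lf 1059426 0 0) (P.cons (P.lf 16011 0 0) (P.cons (P.lf 0 9561 0) (P.cons (P.lf 153 0 0) P.nil)))))) (P.cons (P.cons (P.lf 0 45562752 0) (P.cons (P.lf 0 5695695 0) (P.cons (P.lf 0 362985 0) (P.cons (P.lf 44658 0 0) (P.cons (P.lf 4698 0 0) P.nil))))) (P.cons (P.cons (P.lf 17349486 0 0) (P.cons (P.lf 1745025 0 0) (P.cons (P.lf 58413 0 0) (P.cons (P.lf 0 12000 0) P.nil)))) (P.cons (P.cons (P.lf 262929 0 0) (P.cons (P.lf 0 82197 0) (P.cons (P.lf 0 5325 0) P.nil))) (P.cons (P.cons (P.lf 0 186459 0) (P.cons (P.lf 0 15072 0) P.nil)) (P.cons (P.cons (P.lf 4380 0 0) P.nil) P.nil)))))) 8580)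
 (EL.cons 8 (TM.mk (P.cons (P.cons (P.lf 0 583950810 0) (P.cons (P.lf 0 9584877 0) (P.cons (P.lf 1186605 0 0) (P.cons (P.lf 17937 0 0) (P.cons (P.lf 0 10710 0) (P.cons (P.lf 174 0 0) P.nil)))))) (P.cons (P.cons (P.lf 0 118812069 0) (P.cons (P.lf 0 7491945 0) (P.cons (P.lf 0 268830 0) (P.cons (P.lf 52098 0 0) (P.cons (P.lf 4017 0 0) P.nil))))) (P.cons (P.cons (P.lf 8358723 0 0) (P.cons (P.lf 1129500 0 0) (P.cons (P.lf 28701 0 0) (P.cons (P.lf 0 7473 0) P.nil)))) (P.cons (P.cons (P.lf 1669338 0 0) (P.cons (P.lf 71466 0 0) (P.cons (P.lf 0 1080 0) P.nil))) (P.cons (P.cons (P.lf 0 76038 0) (P.cons (P.lf 0 15609 0) P.nil)) (P.cons (P.cons (P.lf 0 8361 0) P.nil) P.nil)))))) 5091)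
 (EL.cons 11 (TM.mk (P.cons (P.cons (P.lf 176121531 0 0) (P.cons (P.lf 0 12634104 0) (P.cons (P.lf 0 2911434 0) (P.cons (P.lf 170286 0 0) (P.cons (P.lf 3333 0 0) (P.cons (P.lf 0 831 0) P.nil)))))) (P.cons (P.cons (P.lf 5087850 0 0) (P.cons (P.lf 2415771 0 0) (P.cons (P.lf 0 231444 0) (P.cons (P.lf 0 59268 0) (P.cons (P.lf 1920 0 0) P.nil))))) (P.cons (P.cons (P.lf 0 5614389 0) (P.cons (P.lf 0 215679 0) (P.cons (P.lf 125577 0 0) (P.cons (P.lf 8844 0 0) P.nil)))) (P.cons (P.cons (P.lf 259692 0 0) (P.cons (P.lf 17841 0 0) (P.cons (P.lf 0 6222 0) P.nil))) (P.cons (P.cons (P.lf 29619 0 0) (P.cons (P.lf 0 579 0) P.nil)) (P.cons (P.cons (P.lf 0 2550 0) P.nil) P.nil)))))) 3855)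
 EL.nil)))
noncomputable def S386_401_512_586_25 : EL := (EL.cons 4 (TM.mk (P.cons (P.cons (P.lf 0 1288678752 0) (P.cons (P.lf 0 65826186 0) (P.cons (P.lf 1047702 0 0) (P.lf 349230 0 0)))) (P.cons (P.cons (P.lf 91636710 0 0) (P.cons (P.lf 12797790 0 0) (P.cons (P.lf 0 203688 0) (P.lf 0 67893 0)))) (P.cons (P.cons (P.lf 17875272 0 0) (P.cons (P.lf 0 98796 0) (P.cons (P.lf 1566 0 0) (P.lf 516 0 0)))) (P.cons (P.cons (P.lf 0 1461951 0) (P.cons (P.lf 0 122820 0) (P.cons (P.lf 1950 0 0) P.nil))) (P.cons (P.cons (P.lf 0 68121 0) (P.cons (P.lf 6768 0 0) P.nil)) (P.cons (P.cons (P.lf 8778 0 0) P.nil) P.nil)))))) 4089)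
 (EL.cons 8 (TM.mk (P.cons (P.cons (P.lf 0 1443374433 0) (P.cons (P.lf 0 73728105 0) (P.cons (P.lf 1173480 0 0) (P.lf 391161 0 0)))) (P.cons (P.cons (P.lf 0 64897221 0) (P.cons (P.lf 5776362 0 0) (P.cons (P.lf 0 91938 0) (P.lf 0 30645 0)))) (P.cons (P.cons (P.lf 19204635 0 0) (P.cons (P.lf 902874 0 0) (P.cons (P.lf 0 14367 0) (P.lf 0 4785 0)))) (P.cons (P.cons (P.lf 527292 0 0) (P.cons (P.lf 0 78357 0) (P.cons (P.lf 1242 0 0) P.nil))) (P.cons (P.cons (P.lf 0 100926 0) (P.cons (P.lf 0 3222 0) P.nil)) (P.cons (P.cons (P.lf 339 0 0) P.nil) P.nil)))))) 2322)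
 (EL.cons 11 (TM.mk (P.cons (P.cons (P.lf 435326589 0 0) (P.cons (P.lf 0 16136961 0) (P.cons (P.lf 0 7995921 0) (P.cons (P.lf 72555 0 0) (P.lf 18138 0 0))))) (P.cons (P.cons (P.lf 0 56423550 0) (P.cons (P.lf 2091540 0 0) (P.cons (P.lf 1036365 0 0) (P.cons (P.lf 0 9402 0) (P.lf 0 2349 0))))) (P.cons (P.cons (P.lf 0 1392681 0) (P.cons (P.lf 51624 0 0) (P.cons (P.lf 25581 0 0) (P.cons (P.lf 0 231 0) P.nil)))) (P.cons (P.cons (P.lf 411753 0 0) (P.cons (P.lf 0 15261 0) (P.cons (P.lf 0 7560 0) P.nil))) (P.cons (P.cons (P.lf 0 9132 0) (P.cons (P.lf 336 0 0) P.nil)) (P.cons (P.cons (P.lf 0 822 0) P.nil) P.nil)))))) 1218)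
 EL.nil)))
noncomputable def S386_401_512_586_26 : EL := (EL.cons 4 (TM.mk (P.cons (P.cons (P.lf 0 411624864 0) (P.cons (P.lf 0 6756345 0) (P.cons (P.lf 836430 0 0) (P.cons (P.lf 12639 0 0) (P.cons (P.lf 0 7548 0) (P.cons (P.lf 123 0 0) P.nil)))))) (P.cons (P.cons (P.lf 0 46523433 0) (P.cons (P.lf 0 4670013 0) (P.cons (P.lf 0 265140 0) (P.cons (P.lf 35580 0 0) (P.cons (P.lf 3513 0 0) P.nil))))) (P.cons (P.cons (P.lf 13405230 0 0) (P.cons (P.lf 1272789 0 0) (P.cons (P.lf 37491 0 0) (P.cons (P.lf 0 8589 0) P.nil)))) (P.cons (P.cons (P.lf 603831 0 0) (P.cons (P.lf 0 22863 0) (P.cons (P.lf 0 2565 0) P.nil))) (P.cons (P.cons (P.lf 0 163917 0) (P.cons (P.lf 0 15780 0) P.nil)) (P.cons (P.cons (P.lf 0 306 0) P.nil) P.nil)))))) 7311)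
 (EL.cons 8 (TM.mk (P.cons (P.cons (P.lf 0 461037171 0) (P.cons (P.lf 0 7567392 0) (P.cons (P.lf 936840 0 0) (P.cons (P.lf 14160 0 0) (P.cons (P.lf 0 8454 0) (P.cons (P.lf 135 0 0) P.nil)))))) (P.cons (P.cons (P.lf 0 105621336 0) (P.cons (P.lf 0 6108966 0) (P.cons (P.lf 0 188229 0) (P.cons (P.lf 41496 0 0) (P.cons (P.lf 2955 0 0) P.nil))))) (P.cons (P.cons (P.lf 4900116 0 0) (P.cons (P.lf 751716 0 0) (P.cons (P.lf 15786 0 0) (P.cons (P.lf 0 4869 0) P.nil)))) (P.cons (P.cons (P.lf 1619538 0 0) (P.cons (P.lf 88146 0 0) (P.cons (P.lf 72 0 0) P.nil))) (P.cons (P.cons (P.lf 0 38832 0) (P.cons (P.lf 0 12387 0) P.nil)) (P.cons (P.cons (P.lf 0 10029 0) P.nil) P.nil)))))) 4350)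
 (EL.cons 11 (TM.mk (P.cons (P.cons (P.lf 139050363 0 0) (P.cons (P.lf 0 9974799 0) (P.cons (P.lf 0 2298618 0) (P.cons (P.lf 134445 0 0) (P.cons (P.lf 2631 0 0) (P.cons (P.lf 0 657 0) P.nil)))))) (P.cons (P.cons (P.lf 7581150 0 0) (P.cons (P.lf 1651605 0 0) (P.cons (P.lf 0 241647 0) (P.cons (P.lf 0 43344 0) (P.cons (P.lf 1581 0 0) P.nil))))) (P.cons (P.cons (P.lf 0 4542372 0) (P.cons (P.lf 0 106134 0) (P.cons (P.lf 97977 0 0) (P.cons (P.lf 5577 0 0) P.nil)))) (P.cons (P.cons (P.lf 88605 0 0) (P.cons (P.lf 6564 0 0) (P.cons (P.lf 0 2148 0) P.nil))) (P.cons (P.cons (P.lf 35586 0 0) (P.cons (P.lf 201 0 0) P.nil)) (P.cons (P.cons (P.lf 0 1836 0) P.nil) P.nil)))))) 3252)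
 EL.nil)))
noncomputable def S386_401_512_586_27 : EL := (EL.cons 13 (TM.mk (P.lf 0 4294967296 0) 0)
 EL.nil)
noncomputable def S386_401_512_586_28 : EL := (EL.cons 13 (TM.mk (P.cons (P.cons (P.lf 0 1371882119 0) (P.cons (P.lf 47558392 0 0) (P.cons (P.lf 0 756952 0) (P.lf 0 252316 0)))) (P.cons (P.cons (P.lf 0 252608644 0) (P.cons (P.lf 0 12903340 0) (P.cons (P.lf 205372 0 0) (P.lf 68456 0 0)))) (P.cons (P.cons (P.lf 7685423 0 0) (P.cons (P.lf 1188120 0 0) (P.cons (P.lf 0 18908 0) (P.lf 0 6300 0)))) (P.cons (P.cons (P.lf 611395 0 0) (P.cons (P.lf 0 29444 0) (P.cons (P.lf 468 0 0) P.nil))) (P.cons (P.cons (P.lf 0 37144 0) (P.cons (P.lf 0 1844 0) P.nil)) (P.cons (P.cons (P.lf 104 0 0) P.nil) P.nil)))))) 869)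
 EL.nil)
noncomputable def S386_401_512_586_29 : EL := (EL.cons 13 (TM.mk (P.cons (P.cons (P.lf 0 438201368 0) (P.cons (P.lf 30381841 0 0) (P.cons (P.lf 0 1010181 0) (P.cons (P.lf 0 144424 0) (P.cons (P.lf 5454 0 0) (P.cons (P.lf 0 88 0) P.nil)))))) (P.cons (P.cons (P.lf 0 161374584 0) (P.cons (P.lf 0 2648774 0) (P.cons (P.lf 327916 0 0) (P.cons (P.lf 4955 0 0) (P.cons (P.lf 0 2959 0) P.nil))))) (P.cons (P.cons (P.lf 0 9947488 0) (P.cons (P.lf 0 929013 0) (P.cons (P.lf 0 50289 0) (P.cons (P.lf 7002 0 0) P.nil)))) (P.cons (P.cons (P.lf 1294615 0 0) (P.cons (P.lf 153587 0 0) (P.cons (P.lf 5346 0 0) P.nil))) (P.cons (P.cons (P.lf 34437 0 0) (P.cons (P.lf 0 4397 0) P.nil)) (P.cons (P.cons (P.lf 0 6490 0) P.nil) P.nil)))))) 4906)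
 EL.nil)
noncomputable def S386_401_512_586_30 : EL := (EL.cons 13 (TM.mk (P.cons (P.lf 0 3390935564 0) (P.cons (P.lf 0 86918492 0) (P.cons (P.lf 5186924 0 0) (P.cons (P.lf 0 81428 0) (P.cons (P.lf 0 1732 0) (P.cons (P.lf 112 0 0) P.nil)))))) 72)
 EL.nil)
noncomputable def S386_401_512_586_31 : EL := (EL.cons 13 (TM.mk (P.cons (P.cons (P.lf 0 1083119741 0) (P.cons (P.lf 37548002 0 0) (P.cons (P.lf 0 597623 0) (P.lf 0 199206 0)))) (P.cons (P.cons (P.lf 0 227201161 0) (P.cons (P.lf 0 9224910 0) (P.cons (P.lf 146825 0 0) (P.lf 48940 0 0)))) (P.cons (P.cons (P.lf 2612420 0 0) (P.cons (P.lf 619473 0 0) (P.cons (P.lf 0 9857 0) (P.lf 0 3283 0)))) (P.cons (P.cons (P.lf 917296 0 0) (P.cons (P.lf 17282 0 0) (P.cons (P.lf 0 275 0) P.nil))) (P.cons (P.cons (P.lf 0 31576 0) (P.cons (P.lf 0 3712 0) P.nil)) (P.cons (P.cons (P.lf 0 1328 0) P.nil) P.nil)))))) 1188)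
 EL.nil)
noncomputable def S386_401_512_586_32 : EL := (EL.cons 13 (TM.mk (P.cons (P.cons (P.lf 0 345965987 0) (P.cons (P.lf 23986880 0 0) (P.cons (P.lf 0 797551 0) (P.cons (P.lf 0 114024 0) (P.cons (P.lf 4306 0 0) (P.cons (P.lf 0 69 0) P.nil)))))) (P.cons (P.cons (P.lf 0 136275453 0) (P.cons (P.lf 0 1476397 0) (P.cons (P.lf 238450 0 0) (P.cons (P.lf 989 0 0) (P.cons (P.lf 0 2225 0) P.nil))))) (P.cons (P.cons (P.lf 0 10590257 0) (P.cons (P.lf 0 823763 0) (P.cons (P.lf 0 31847 0) (P.cons (P.lf 5802 0 0) P.nil)))) (P.cons (P.cons (P.lf 1007386 0 0) (P.cons (P.lf 106233 0 0) (P.cons (P.lf 2787 0 0) P.nil))) (P.cons (P.cons (P.lf 62165 0 0) (P.cons (P.lf 720 0 0) P.nil)) (P.cons (P.cons (P.lf 0 6232 0) P.nil) P.nil)))))) 4943)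
 EL.nil)
noncomputable def S386_401_512_586_33 : EL := (EL.cons 14 (TM.mk (P.lf 8589934592 0 0) 0)
 EL.nil)
noncomputable def S386_401_512_586_34 : EL := (EL.cons 14 (TM.mk (P.cons (P.cons (P.lf 2743764238 0 0) (P.cons (P.lf 0 95116784 0) (P.cons (P.lf 1513904 0 0) (P.lf 504632 0 0)))) (P.cons (P.cons (P.lf 505217288 0 0) (P.cons (P.lf 25806680 0 0) (P.cons (P.lf 0 410744 0) (P.lf 0 136912 0)))) (P.cons (P.cons (P.lf 0 15370846 0) (P.cons (P.lf 0 2376240 0) (P.cons (P.lf 37816 0 0) (P.lf 12600 0 0)))) (P.cons (P.cons (P.lf 0 1222790 0) (P.cons (P.lf 58888 0 0) (P.cons (P.lf 0 936 0) P.nil))) (P.cons (P.cons (P.lf 74288 0 0) (P.cons (P.lf 3688 0 0) P.nil)) (P.cons (P.cons (P.lf 0 208 0) P.nil) P.nil)))))) 1738)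
 EL.nil)
noncomputable def S386_401_512_586_35 : EL := (EL.cons 14 (TM.mk (P.cons (P.cons (P.lf 876402736 0 0) (P.cons (P.lf 0 60763682 0) (P.cons (P.lf 2020362 0 0) (P.cons (P.lf 288848 0 0) (P.cons (P.lf 0 10908 0) (P.cons (P.lf 176 0 0) P.nil)))))) (P.cons (P.cons (P.lf 322749168 0 0) (P.cons (P.lf 5297548 0 0) (P.cons (P.lf 0 655832 0) (P.cons (P.lf 0 9910 0) (P.cons (P.lf 5918 0 0) P.nil))))) (P.cons (P.cons (P.lf 19894976 0 0) (P.cons (P.lf 1858026 0 0) (P.cons (P.lf 100578 0 0) (P.cons (P.lf 0 14004 0) P.nil)))) (P.cons (P.cons (P.lf 0 2589230 0) (P.cons (P.lf 0 307174 0) (P.cons (P.lf 0 10692 0) P.nil))) (P.cons (P.cons (P.lf 0 68874 0) (P.cons (P.lf 8794 0 0) P.nil)) (P.cons (P.cons (P.lf 12980 0 0) P.nil) P.nil)))))) 9812)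
 EL.nil)
noncomputable def S386_401_512_586_36 : EL := (EL.cons 14 (TM.mk (P.cons (P.lf 6781871128 0 0) (P.cons (P.lf 173836984 0 0) (P.cons (P.lf 0 10373848 0) (P.cons (P.lf 162856 0 0) (P.cons (P.lf 3464 0 0) (P.cons (P.lf 0 224 0) P.nil)))))) 144)
 EL.nil)
noncomputable def S386_401_512_586_37 : EL := (EL.cons 14 (TM.mk (P.cons (P.cons (P.lf 2166239482 0 0) (P.cons (P.lf 0 75096004 0) (P.cons (P.lf 1195246 0 0) (P.lf 398412 0 0)))) (P.cons (P.cons (P.lf 454402322 0 0) (P.cons (P.lf 18449820 0 0) (P.cons (P.lf 0 293650 0) (P.lf 0 97880 0)))) (P.cons (P.cons (P.lf 0 5224840 0) (P.cons (P.lf 0 1238946 0) (P.cons (P.lf 19714 0 0) (P.lf 6566 0 0)))) (P.cons (P.cons (P.lf 0 1834592 0) (P.cons (P.lf 0 34564 0) (P.cons (P.lf 550 0 0) P.nil))) (P.cons (P.cons (P.lf 63152 0 0) (P.cons (P.lf 7424 0 0) P.nil)) (P.cons (P.cons (P.lf 2656 0 0) P.nil) P.nil)))))) 2376)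
 EL.nil)
noncomputable def S386_401_512_586_38 : EL := (EL.cons 14 (TM.mk (P.cons (P.cons (P.lf 691931974 0 0) (P.cons (P.lf 0 47973760 0) (P.cons (P.lf 1595102 0 0) (P.cons (P.lf 228048 0 0) (P.cons (P.lf 0 8612 0) (P.cons (P.lf 138 0 0) P.nil)))))) (P.cons (P.cons (P.lf 272550906 0 0) (P.cons (P.lf 2952794 0 0) (P.cons (P.lf 0 476900 0) (P.cons (P.lf 0 1978 0) (P.cons (P.lf 4450 0 0) P.nil))))) (P.cons (P.cons (P.lf 21180514 0 0) (P.cons (P.lf 1647526 0 0) (P.cons (P.lf 63694 0 0) (P.cons (P.lf 0 11604 0) P.nil)))) (P.cons (P.cons (P.lf 0 2014772 0) (P.cons (P.lf 0 212466 0) (P.cons (P.lf 0 5574 0) P.nil))) (P.cons (P.cons (P.lf 0 124330 0) (P.cons (P.lf 0 1440 0) P.nil)) (P.cons (P.cons (P.lf 12464 0 0) P.nil) P.nil)))))) 9886)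
 EL.nil)
noncomputable def S386_401_512_586_39 : EL := (EL.cons 14 (TM.mk (P.cons (P.lf 5354380234 0 0) (P.cons (P.lf 274493364 0 0) (P.cons (P.lf 0 12862600 0) (P.cons (P.lf 0 162722 0) (P.cons (P.lf 24588 0 0) (P.cons (P.lf 0 606 0) P.nil)))))) 268)
 EL.nil)
noncomputable def S386_401_512_586_40 : EL := (EL.cons 14 (TM.mk (P.cons (P.cons (P.lf 1710275770 0 0) (P.cons (P.lf 0 59289324 0) (P.cons (P.lf 943664 0 0) (P.lf 314552 0 0)))) (P.cons (P.cons (P.lf 402595676 0 0) (P.cons (P.lf 13046646 0 0) (P.cons (P.lf 0 207652 0) (P.lf 0 69214 0)))) (P.cons (P.cons (P.lf 2454674 0 0) (P.cons (P.lf 0 514098 0) (P.cons (P.lf 8178 0 0) (P.lf 2722 0 0)))) (P.cons (P.cons (P.lf 0 2061872 0) (P.cons (P.lf 0 76066 0) (P.cons (P.lf 1210 0 0) P.nil))) (P.cons (P.cons (P.lf 28530 0 0) (P.cons (P.lf 6976 0 0) P.nil)) (P.cons (P.cons (P.lf 5618 0 0) P.nil) P.nil)))))) 2602)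
 EL.nil)
noncomputable def S386_401_512_586_41 : EL := (EL.cons 14 (TM.mk (P.cons (P.cons (P.lf 546289780 0 0) (P.cons (P.lf 0 37875940 0) (P.cons (P.lf 1259356 0 0) (P.cons (P.lf 180048 0 0) (P.cons (P.lf 0 6798 0) (P.cons (P.lf 108 0 0) P.nil)))))) (P.cons (P.cons (P.lf 229185504 0 0) (P.cons (P.lf 1360412 0 0) (P.cons (P.lf 0 344238 0) (P.cons (P.lf 3052 0 0) (P.cons (P.lf 3340 0 0) P.nil))))) (P.cons (P.cons (P.lf 21402368 0 0) (P.cons (P.lf 1418438 0 0) (P.cons (P.lf 38710 0 0) (P.cons (P.lf 0 9478 0) P.nil)))) (P.cons (P.cons (P.lf 0 1478088 0) (P.cons (P.lf 0 138878 0) (P.cons (P.lf 0 2506 0) P.nil))) (P.cons (P.cons (P.lf 0 159066 0) (P.cons (P.lf 0 7390 0) P.nil)) (P.cons (P.cons (P.lf 10252 0 0) P.nil) P.nil)))))) 9268)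
 EL.nil)
noncomputable def S386_401_512_586_42 : EL := (EL.cons 14 (TM.mk (P.cons (P.lf 4227356602 0 0) (P.cons (P.lf 325074410 0 0) (P.cons (P.lf 0 11066548 0) (P.cons (P.lf 0 618760 0) (P.cons (P.lf 39016 0 0) (P.cons (P.lf 0 56 0) P.nil)))))) 384)
 EL.nil)
noncomputable def S386_401_512_586_43 : EL := (EL.cons 14 (TM.mk (P.cons (P.cons (P.lf 1350286168 0 0) (P.cons (P.lf 0 46809734 0) (P.cons (P.lf 745036 0 0) (P.lf 248344 0 0)))) (P.cons (P.cons (P.lf 352466150 0 0) (P.cons (P.lf 9100652 0 0) (P.cons (P.lf 0 144846 0) (P.lf 0 48280 0)))) (P.cons (P.cons (P.lf 8019986 0 0) (P.cons (P.lf 0 70256 0) (P.cons (P.lf 1114 0 0) (P.lf 368 0 0)))) (P.cons (P.cons (P.lf 0 2031980 0) (P.cons (P.lf 0 87340 0) (P.cons (P.lf 1390 0 0) P.nil))) (P.cons (P.cons (P.lf 0 13842 0) (P.cons (P.lf 4812 0 0) P.nil)) (P.cons (P.cons (P.lf 7668 0 0) P.nil) P.nil)))))) 2760)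
 EL.nil)
noncomputable def S386_401_512_586_44 : EL := (EL.cons 14 (TM.mk (P.cons (P.cons (P.lf 431303270 0 0) (P.cons (P.lf 0 29903574 0) (P.cons (P.lf 994278 0 0) (P.cons (P.lf 142150 0 0) (P.cons (P.lf 0 5368 0) (P.cons (P.lf 86 0 0) P.nil)))))) (P.cons (P.cons (P.lf 192000522 0 0) (P.cons (P.lf 307558 0 0) (P.cons (P.lf 0 246296 0) (P.cons (P.lf 6054 0 0) (P.cons (P.lf 2498 0 0) P.nil))))) (P.cons (P.cons (P.lf 20875816 0 0) (P.cons (P.lf 1193148 0 0) (P.cons (P.lf 22074 0 0) (P.cons (P.lf 0 7638 0) P.nil)))) (P.cons (P.cons (P.lf 0 1000268 0) (P.cons (P.lf 0 83302 0) (P.cons (P.lf 0 756 0) P.nil))) (P.cons (P.cons (P.lf 0 176778 0) (P.cons (P.lf 0 10348 0) P.nil)) (P.cons (P.cons (P.lf 7144 0 0) P.nil) P.nil)))))) 8594)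
 EL.nil)
noncomputable def S386_401_512_586_45 : EL := (EL.cons 14 (TM.mk (P.cons (P.cons (P.lf 279937228 0 0) (P.cons (P.lf 0 29113356 0) (P.cons (P.lf 1472634 0 0) (P.cons (P.lf 110668 0 0) (P.cons (P.lf 0 9896 0) (P.cons (P.lf 346 0 0) P.nil)))))) (P.cons (P.cons (P.lf 154636966 0 0) (P.cons (P.lf 0 2822542 0) (P.cons (P.lf 0 316892 0) (P.cons (P.lf 35986 0 0) (P.cons (P.lf 3292 0 0) P.nil))))) (P.cons (P.cons (P.lf 23769042 0 0) (P.cons (P.lf 1520684 0 0) (P.cons (P.lf 0 5978 0) (P.cons (P.lf 0 12098 0) P.nil)))) (P.cons (P.cons (P.lf 0 359202 0) (P.cons (P.lf 15500 0 0) (P.cons (P.lf 10404 0 0) P.nil))) (P.cons (P.cons (P.lf 0 248248 0) (P.cons (P.lf 0 29792 0) P.nil)) (P.cons (P.cons (P.lf 4666 0 0) P.nil) P.nil)))))) 15742)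
 EL.nil)
noncomputable def S386_401_512_586_46 : EL := (EL.cons 15 (TM.mk (P.lf 4294967296 0 0) 0)
 EL.nil)
noncomputable def S386_401_512_586_47 : EL := (EL.cons 15 (TM.mk (P.cons (P.cons (P.lf 1371882119 0 0) (P.cons (P.lf 0 47558392 0) (P.cons (P.lf 756952 0 0) (P.lf 252316 0 0)))) (P.cons (P.cons (P.lf 252608644 0 0) (P.cons (P.lf 12903340 0 0) (P.cons (P.lf 0 205372 0) (P.lf 0 68456 0)))) (P.cons (P.cons (P.lf 0 7685423 0) (P.cons (P.lf 0 1188120 0) (P.cons (P.lf 18908 0 0) (P.lf 6300 0 0)))) (P.cons (P.cons (P.lf 0 611395 0) (P.cons (P.lf 29444 0 0) (P.cons (P.lf 0 468 0) P.nil))) (P.cons (P.cons (P.lf 37144 0 0) (P.cons (P.lf 1844 0 0) P.nil)) (P.cons (P.cons (P.lf 0 104 0) P.nil) P.nil)))))) 869)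
 EL.nil)
noncomputable def S386_401_512_586_48 : EL := (EL.cons 15 (TM.mk (P.cons (P.cons (P.lf 438201368 0 0) (P.cons (P.lf 0 30381841 0) (P.cons (P.lf 1010181 0 0) (P.cons (P.lf 144424 0 0) (P.cons (P.lf 0 5454 0) (P.cons (P.lf 88 0 0) P.nil)))))) (P.cons (P.cons (P.lf 161374584 0 0) (P.cons (P.lf 2648774 0 0) (P.cons (P.lf 0 327916 0) (P.cons (P.lf 0 4955 0) (P.cons (P.lf 2959 0 0) P.nil))))) (P.cons (P.cons (P.lf 9947488 0 0) (P.cons (P.lf 929013 0 0) (P.cons (P.lf 50289 0 0) (P.cons (P.lf 0 7002 0) P.nil)))) (P.cons (P.cons (P.lf 0 1294615 0) (P.cons (P.lf 0 153587 0) (P.cons (P.lf 0 5346 0) P.nil))) (P.cons (P.cons (P.lf 0 34437 0) (P.cons (P.lf 4397 0 0) P.nil)) (P.cons (P.cons (P.lf 6490 0 0) P.nil) P.nil)))))) 4906)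
 EL.nil)
noncomputable def S386_401_512_586 : SL := (SL.cons S386_401_512_586_0 (SL.cons S386_401_512_586_1 (SL.cons S386_401_512_586_2 (SL.cons S386_401_512_586_3 (SL.cons S386_401_512_586_4 (SL.cons S386_401_512_586_5 (SL.cons S386_401_512_586_6 (SL.cons S386_401_512_586_7 (SL.cons S386_401_512_586_8 (SL.cons S386_401_512_586_9 (SL.cons S386_401_512_586_10 (SL.cons S386_401_512_586_11 (SL.cons S386_401_512_586_12 (SL.cons S386_401_512_586_13 (SL.cons S386_401_512_586_14 (SL.cons S386_401_512_586_15 (SL.cons S386_401_512_586_16 (SL.cons S386_401_512_586_17 (SL.cons S386_401_512_586_18 (SL.cons S386_401_512_586_19 (SL.cons S386_401_512_586_20 (SL.cons S386_401_512_586_21 (SL.cons S386_401_512_586_22 (SL.cons S386_401_512_586_23 (SL.cons S386_401_512_586_24 (SL.cons S386_401_512_586_25 (SL.cons S386_401_512_586_26 (SL.cons S386_401_512_586_27 (SL.cons S386_401_512_586_28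 (SL.cons S386_401_512_586_29 (SL.cons S386_401_512_586_30 (SL.cons S386_401_512_586_31 (SL.cons S386_401_512_586_32 (SL.cons S386_401_512_586_33 (SL.cons S386_401_512_586_34 (SL.cons S386_401_512_586_35 (SL.cons S386_401_512_586_36 (SL.cons S386_401_512_586_37 (SL.cons S386_401_512_586_38 (SL.cons S386_401_512_586_39 (SL.cons S386_401_512_586_40 (SL.cons S386_401_512_586_41 (SL.cons S386_401_512_586_42 (SL.cons S386_401_512_586_43 (SL.cons S386_401_512_586_44 (SL.cons S386_401_512_586_45 (SL.cons S386_401_512_586_46 (SL.cons S386_401_512_586_47 (SL.cons S386_401_512_586_48 SL.nil)))))))))))))))))))))))))))))))))))))))))))))))))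
theorem S372_430_364_512_ok : band (seq (shp 5 372 430 364 512) S372_430_364_512) (sok S372_430_364_512) = true := by decide +kernel

theorem S372_430_512_660_ok : band (seq (shp 5 372 430 512 660) S372_430_512_660) (sok S372_430_512_660) = true := by decide +kernel

theorem S372_430_660_808_ok : band (seq (shp 5 372 430 660 808) S372_430_660_808) (sok S372_430_660_808) = true := by decide +kernel

theorem S386_401_216_364_ok : band (seq (shp 5 386 401 216 364) S386_401_216_364) (sok S386_401_216_364) = true := by decide +kernel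

theorem S386_401_364_512_ok : band (seq (shp 5 386 401 364 512) S386_401_364_512) (sok S386_401_364_512) = true := by decide +kernel

theorem S386_401_512_586_ok : band (seq (shp 5 386 401 512 586) S386_401_512_586) (sok S386_401_512_586) = true := by decide +kernel

end Vale.Agent.P098.Ck
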