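import Vale.Agent.P098.CkDefs

namespace Vale.Agent.P098.Ck

noncomputable def S386_401_512_660_0 : EL := (EL.cons 0 (TM.mk (P.cons (P.lf 3749718611 0 0) (P.cons (P.lf 0 241253933 0) (P.cons (P.lf 11305019 0 0) (P.cons (P.lf 143017 0 0) (P.cons (P.lf 0 21610 0) (P.cons (P.lf 532 0 0) P.nil)))))) 242)
 (EL.cons 1 (TM.mk (P.cons (P.lf 1493911567 0 0) (P.cons (P.lf 0 96814440 0) (P.cons (P.lf 0 5526710 0) (P.cons (P.lf 348346 0 0) (P.cons (P.lf 0 3322 0) (P.cons (P.lf 0 335 0) P.nil)))))) 136)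
 (EL.cons 5 (TM.mk (P.cons (P.lf 5968211122 0 0) (P.cons (P.lf 85779174 0 0) (P.cons (P.lf 0 4019562 0) (P.cons (P.lf 0 50846 0) (P.cons (P.lf 7688 0 0) (P.cons (P.lf 0 190 0) P.nil)))))) 71)
 (EL.cons 9 (TM.mk (P.lf 6442450944 0 0) 2)
 EL.nil))))
noncomputable def S386_401_512_660_1 : EL := (EL.cons 0 (TM.mk (P.cons (P.cons (P.lf 4370549752 0 0) (P.cons (P.lf 218652922 0 0) (P.cons (P.lf 0 14618616 0) (P.lf 0 4872864 0)))) (P.cons (P.cons (P.lf 0 172623623 0) (P.cons (P.lf 0 38973103 0) (P.cons (P.lf 2605635 0 0) (P.lf 868538 0 0)))) (P.cons (P.cons (P.lf 0 47989625 0) (P.cons (P.lf 0 1012683 0) (P.cons (P.lf 67723 0 0) (P.lf 22589 0 0)))) (P.cons (P.cons (P.lf 4646195 0 0) (P.cons (P.lf 619703 0 0) (P.cons (P.lf 0 41429 0) P.nil))) (P.cons (P.cons (P.lf 53412 0 0) (P.cons (P.lf 0 39811 0) P.nil)) (P.cons (P.cons (P.lf 0 20202 0) P.nil) P.nil)))))) 45516)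
 (EL.cons 1 (TM.mk (P.cons (P.cons (P.lf 1750543248 0 0) (P.cons (P.lf 87973314 0 0) (P.cons (P.lf 0 5881695 0) (P.lf 0 1960566 0)))) (P.cons (P.cons (P.lf 198142947 0 0) (P.cons (P.lf 9136453 0 0) (P.cons (P.lf 0 610836 0) (P.lf 0 203609 0)))) (P.cons (P.cons (P.lf 0 36352176 0) (P.cons (P.lf 0 4403515 0) (P.cons (P.lf 294397 0 0) (P.lf 98121 0 0)))) (P.cons (P.cons (P.lf 0 1001513 0) (P.cons (P.lf 259942 0 0) (P.cons (P.lf 0 17371 0) P.nil))) (P.cons (P.cons (P.lf 218878 0 0) (P.cons (P.lf 13256 0 0) P.nil)) (P.cons (P.cons (P.lf 0 4261 0) P.nil) P.nil)))))) 18781)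
 (EL.cons 5 (TM.mk (P.cons (P.cons (P.lf 699092858 0 0) (P.cons (P.lf 0 231720864 0) (P.cons (P.lf 15492316 0 0) (P.lf 5164104 0 0)))) (P.cons (P.cons (P.lf 512282160 0 0) (P.cons (P.lf 55633662 0 0) (P.cons (P.lf 0 3719534 0) (P.lf 0 1239838 0)))) (P.cons (P.cons (P.lf 2020803 0 0) (P.cons (P.lf 0 3486668 0) (P.cons (P.lf 233104 0 0) (P.lf 77696 0 0)))) (P.cons (P.cons (P.lf 0 2642354 0) (P.cons (P.lf 0 125004 0) (P.cons (P.lf 8356 0 0) P.nil))) (P.cons (P.cons (P.lf 47246 0 0) (P.cons (P.lf 20132 0 0) P.nil)) (P.cons (P.cons (P.lf 6776 0 0) P.nil) P.nil)))))) 13544)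
 (EL.cons 9 (TM.mk (P.cons (P.cons (P.lf 1987999498 0 0) (P.cons (P.lf 0 135862584 0) (P.cons (P.lf 9083454 0 0) (P.lf 3027816 0 0)))) (P.cons (P.cons (P.lf 397857240 0 0) (P.cons (P.lf 36861666 0 0) (P.cons (P.lf 0 2464482 0) (P.lf 0 821490 0)))) (P.cons (P.cons (P.lf 0 13272496 0) (P.cons (P.lf 0 3394170 0) (P.cons (P.lf 226920 0 0) (P.lf 75636 0 0)))) (P.cons (P.cons (P.lf 0 873862 0) (P.cons (P.lf 84114 0 0) (P.cons (P.lf 0 5622 0) P.nil))) (P.cons (P.cons (P.lf 58428 0 0) (P.cons (P.lf 5274 0 0) P.nil)) (P.cons (P.cons (P.lf 0 354 0) P.nil) P.nil)))))) 4574)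
 (EL.cons 2 (TM.mk (P.cons (P.cons (P.lf 0 488375465 0) (P.cons (P.lf 75612785 0 0) (P.cons (P.lf 36427854 0 0) (P.cons (P.lf 0 1378532 0) (P.lf 0 344632 0))))) (P.cons (P.cons (P.lf 75817653 0 0) (P.cons (P.lf 0 11738475 0) (P.cons (P.lf 0 5655225 0) (P.cons (P.lf 214008 0 0) (P.lf 53502 0 0))))) (P.cons (P.cons (P.lf 0 1128048 0) (P.cons (P.lf 174647 0 0) (P.cons (P.lf 84138 0 0) (P.cons (P.lf 0 3180 0) P.nil)))) (P.cons (P.cons (P.lf 0 305310 0) (P.cons (P.lf 47266 0 0) (P.cons (P.lf 22770 0 0) P.nil))) (P.cons (P.cons (P.lf 14776 0 0) (P.cons (P.lf 0 2286 0) P.nil)) (P.cons (P.cons (P.lf 47 0 0) P.nil) P.nil)))))) 7957)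
 (EL.cons 6 (TM.mk (P.cons (P.cons (P.lf 155034003 0 0) (P.cons (P.lf 0 24003156 0) (P.cons (P.lf 0 11563962 0) (P.cons (P.lf 437613 0 0) (P.lf 109401 0 0))))) (P.cons (P.cons (P.lf 0 42063174 0) (P.cons (P.lf 6512433 0 0) (P.cons (P.lf 3137484 0 0) (P.cons (P.lf 0 118731 0) (P.lf 0 29682 0))))) (P.cons (P.cons (P.lf 3873123 0 0) (P.cons (P.lf 0 599655 0) (P.cons (P.lf 0 288894 0) (P.cons (P.lf 10929 0 0) P.nil)))) (P.cons (P.cons (P.lf 0 95985 0) (P.cons (P.lf 14859 0 0) (P.cons (P.lf 7158 0 0) P.nil))) (P.cons (P.cons (P.lf 0 6018 0) (P.cons (P.lf 930 0 0) P.nil)) (P.cons (P.cons (P.lf 438 0 0) P.nil) P.nil)))))) 4002)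
 EL.nil))))))
noncomputable def S386_401_512_660_2 : EL := (EL.cons 0 (TM.mk (P.cons (P.cons (P.lf 2340262220 0 0) (P.cons (P.lf 0 592403 0) (P.cons (P.lf 0 10850192 0) (P.cons (P.lf 1469331 0 0) (P.cons (P.lf 436696 0 0) (P.cons (P.lf 0 32448 0) P.nil)))))) (P.cons (P.cons (P.lf 313335729 0 0) (P.cons (P.lf 53634179 0 0) (P.cons (P.lf 1572243 0 0) (P.cons (P.lf 0 1884995 0) (P.cons (P.lf 0 206841 0) P.nil))))) (P.cons (P.cons (P.lf 0 70360651 0) (P.cons (P.lf 0 12281890 0) (P.cons (P.lf 0 81841 0) (P.cons (P.lf 394450 0 0) P.nil)))) (P.cons (P.cons (P.lf 0 2097323 0) (P.cons (P.lf 294658 0 0) (P.cons (P.lf 29941 0 0) P.nil))) (P.cons (P.cons (P.lf 842853 0 0) (P.cons (P.lf 142205 0 0) P.nil)) (P.cons (P.cons (P.lf 0 19210 0) P.nil) P.nil)))))) 352437)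
 (EL.cons 1 (TM.mk (P.cons (P.cons (P.lf 938107782 0 0) (P.cons (P.lf 0 96657 0) (P.cons (P.lf 0 4368410 0) (P.cons (P.lf 587134 0 0) (P.cons (P.lf 175441 0 0) (P.cons (P.lf 0 13041 0) P.nil)))))) (P.cons (P.cons (P.lf 290778266 0 0) (P.cons (P.lf 25535148 0 0) (P.cons (P.lf 0 682279 0) (P.cons (P.lf 0 706118 0) (P.cons (P.lf 0 41105 0) P.nil))))) (P.cons (P.cons (P.lf 0 4756777 0) (P.cons (P.lf 0 677593 0) (P.cons (P.lf 139869 0 0) (P.cons (P.lf 2454 0 0) P.nil)))) (P.cons (P.cons (P.lf 0 5470493 0) (P.cons (P.lf 0 814929 0) (P.cons (P.lf 0 535 0) P.nil))) (P.cons (P.cons (P.lf 117849 0 0) (P.cons (P.lf 74656 0 0) P.nil)) (P.cons (P.cons (P.lf 36061 0 0) P.nil) P.nil)))))) 147266)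
 (EL.cons 5 (TM.mk (P.cons (P.cons (P.lf 0 136846298 0) (P.cons (P.lf 0 94817606 0) (P.cons (P.lf 13458388 0 0) (P.cons (P.lf 1161165 0 0) (P.cons (P.lf 0 285481 0) (P.cons (P.lf 21206 0 0) P.nil)))))) (P.cons (P.cons (P.lf 166870517 0 0) (P.cons (P.lf 0 12305207 0) (P.cons (P.lf 0 2773313 0) (P.cons (P.lf 755065 0 0) (P.cons (P.lf 144200 0 0) P.nil))))) (P.cons (P.cons (P.lf 43579638 0 0) (P.cons (P.lf 7787168 0 0) (P.cons (P.lf 201707 0 0) (P.cons (P.lf 0 270127 0) P.nil)))) (P.cons (P.cons (P.lf 0 1723386 0) (P.cons (P.lf 0 651411 0) (P.cons (P.lf 0 22138 0) P.nil))) (P.cons (P.cons (P.lf 0 350135 0) (P.cons (P.lf 0 33368 0) P.nil)) (P.cons (P.cons (P.lf 18829 0 0) P.nil) P.nil)))))) 144668)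
 (EL.cons 9 (TM.mk (P.cons (P.cons (P.lf 613453177 0 0) (P.cons (P.lf 0 83848444 0) (P.cons (P.lf 8471068 0 0) (P.cons (P.lf 1485519 0 0) (P.cons (P.lf 0 114897 0) (P.cons (P.lf 8538 0 0) P.nil)))))) (P.cons (P.cons (P.lf 245540089 0 0) (P.cons (P.lf 5968864 0 0) (P.cons (P.lf 0 1953787 0) (P.cons (P.lf 74871 0 0) (P.cons (P.lf 62346 0 0) P.nil))))) (P.cons (P.cons (P.lf 16378696 0 0) (P.cons (P.lf 3017890 0 0) (P.cons (P.lf 152295 0 0) (P.cons (P.lf 0 114603 0) P.nil)))) (P.cons (P.cons (P.lf 0 2178610 0) (P.cons (P.lf 0 482331 0) (P.cons (P.lf 0 10140 0) P.nil))) (P.cons (P.cons (P.lf 0 44529 0) (P.cons (P.lf 15163 0 0) P.nil)) (P.cons (P.cons (P.lf 10597 0 0) P.nil) P.nil)))))) 60520)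
 (EL.cons 2 (TM.mk (P.cons (P.cons (P.lf 0 301403975 0) (P.cons (P.lf 67263260 0 0) (P.cons (P.lf 17915377 0 0) (P.cons (P.lf 0 2633028 0) (P.cons (P.lf 19243 0 0) (P.cons (P.lf 44887 0 0) P.nil)))))) (P.cons (P.cons (P.lf 0 13528468 0) (P.cons (P.lf 0 6691893 0) (P.cons (P.lf 2956888 0 0) (P.cons (P.lf 722053 0 0) (P.cons (P.lf 0 108478 0) P.nil))))) (P.cons (P.cons (P.lf 10680406 0 0) (P.cons (P.lf 0 223807 0) (P.cons (P.lf 0 1113603 0) (P.cons (P.lf 0 93560 0) P.nil)))) (P.cons (P.cons (P.lf 0 507656 0) (P.cons (P.lf 0 14073 0) (P.cons (P.lf 58404 0 0) P.nil))) (P.cons (P.cons (P.lf 0 53364 0) (P.cons (P.lf 6513 0 0) P.nil)) (P.cons (P.cons (P.lf 4843 0 0) P.nil) P.nil)))))) 87918)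
 (EL.cons 6 (TM.mk (P.cons (P.cons (P.lf 95680206 0 0) (P.cons (P.lf 0 21352608 0) (P.cons (P.lf 0 5687202 0) (P.cons (P.lf 835848 0 0) (P.cons (P.lf 0 6108 0) (P.cons (P.lf 0 14244 0) P.nil)))))) (P.cons (P.cons (P.lf 0 6811122 0) (P.cons (P.lf 4602750 0 0) (P.cons (P.lf 0 278538 0) (P.cons (P.lf 0 326232 0) (P.cons (P.lf 35142 0 0) P.nil))))) (P.cons (P.cons (P.lf 0 3443736 0) (P.cons (P.lf 0 274878 0) (P.cons (P.lf 435996 0 0) (P.cons (P.lf 60192 0 0) P.nil)))) (P.cons (P.cons (P.lf 550386 0 0) (P.cons (P.lf 11520 0 0) (P.cons (P.lf 0 62496 0) P.nil))) (P.cons (P.cons (P.lf 0 17304 0) (P.cons (P.lf 0 3090 0) P.nil)) (P.cons (P.cons (P.lf 0 1902 0) P.nil) P.nil)))))) 44028)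
 EL.nil))))))
noncomputable def S386_401_512_660_3 : EL := (EL.cons 0 (TM.mk (P.cons (P.lf 4705998252 0 0) (P.cons (P.lf 241253933 0 0) (P.cons (P.lf 0 11305019 0) (P.cons (P.lf 0 143017 0) (P.cons (P.lf 21610 0 0) (P.cons (P.lf 0 532 0) P.nil)))))) 242)
 (EL.cons 1 (TM.mk (P.cons (P.lf 0 1493911567 0) (P.cons (P.lf 96814440 0 0) (P.cons (P.lf 5526710 0 0) (P.cons (P.lf 0 348346 0) (P.cons (P.lf 3322 0 0) (P.cons (P.lf 335 0 0) P.nil)))))) 136)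
 (EL.cons 5 (TM.mk (P.cons (P.lf 474239822 0 0) (P.cons (P.lf 0 85779174 0) (P.cons (P.lf 4019562 0 0) (P.cons (P.lf 50846 0 0) (P.cons (P.lf 0 7688 0) (P.cons (P.lf 190 0 0) P.nil)))))) 64)
 EL.nil)))
noncomputable def S386_401_512_660_4 : EL := (EL.cons 0 (TM.mk (P.cons (P.cons (P.lf 1452168163 0 0) (P.cons (P.lf 0 99243142 0) (P.cons (P.lf 6635163 0 0) (P.lf 2211718 0 0)))) (P.cons (P.cons (P.lf 365067298 0 0) (P.cons (P.lf 21838512 0 0) (P.cons (P.lf 0 1460068 0) (P.lf 0 486685 0)))) (P.cons (P.cons (P.lf 1715169 0 0) (P.cons (P.lf 0 860542 0) (P.cons (P.lf 57527 0 0) (P.lf 19172 0 0)))) (P.cons (P.cons (P.lf 0 1877628 0) (P.cons (P.lf 0 127327 0) (P.cons (P.lf 8513 0 0) P.nil))) (P.cons (P.cons (P.lf 31081 0 0) (P.cons (P.lf 11684 0 0) P.nil)) (P.cons (P.cons (P.lf 4927 0 0) P.nil) P.nil)))))) 9679)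
 (EL.cons 1 (TM.mk (P.cons (P.cons (P.lf 0 460988445 0) (P.cons (P.lf 31504575 0 0) (P.cons (P.lf 0 2106320 0) (P.lf 0 702105 0)))) (P.cons (P.cons (P.lf 0 62382541 0) (P.cons (P.lf 0 10589373 0) (P.cons (P.lf 707979 0 0) (P.lf 235991 0 0)))) (P.cons (P.cons (P.lf 10761952 0 0) (P.cons (P.lf 1224448 0 0) (P.cons (P.lf 0 81860 0) (P.lf 0 27285 0)))) (P.cons (P.cons (P.lf 236994 0 0) (P.cons (P.lf 0 31541 0) (P.cons (P.lf 2107 0 0) P.nil))) (P.cons (P.cons (P.lf 0 58552 0) (P.cons (P.lf 0 4933 0) P.nil)) (P.cons (P.cons (P.lf 1235 0 0) P.nil) P.nil)))))) 4119)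
 (EL.cons 5 (TM.mk (P.cons (P.cons (P.lf 146340038 0 0) (P.cons (P.lf 0 10001076 0) (P.cons (P.lf 668648 0 0) (P.lf 222882 0 0)))) (P.cons (P.cons (P.lf 2817372 0 0) (P.cons (P.lf 4522416 0 0) (P.cons (P.lf 0 302356 0) (P.lf 0 100784 0)))) (P.cons (P.cons (P.lf 0 5034002 0) (P.cons (P.lf 0 825418 0) (P.cons (P.lf 55184 0 0) (P.lf 18394 0 0)))) (P.cons (P.cons (P.lf 376312 0 0) (P.cons (P.lf 73308 0 0) (P.cons (P.lf 0 4900 0) P.nil))) (P.cons (P.cons (P.lf 8422 0 0) (P.cons (P.lf 0 2396 0) P.nil)) (P.cons (P.cons (P.lf 0 1868 0) P.nil) P.nil)))))) 2526)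
 EL.nil)))
noncomputable def S386_401_512_660_5 : EL := (EL.cons 0 (TM.mk (P.cons (P.cons (P.lf 448107343 0 0) (P.cons (P.lf 0 61248526 0) (P.cons (P.lf 6187835 0 0) (P.cons (P.lf 1085122 0 0) (P.cons (P.lf 0 83926 0) (P.cons (P.lf 6236 0 0) P.nil)))))) (P.cons (P.cons (P.lf 202331260 0 0) (P.cons (P.lf 1220139 0 0) (P.cons (P.lf 0 1109956 0) (P.cons (P.lf 110318 0 0) (P.cons (P.lf 41238 0 0) P.nil))))) (P.cons (P.cons (P.lf 20082499 0 0) (P.cons (P.lf 2575123 0 0) (P.cons (P.lf 23215 0 0) (P.cons (P.lf 0 83515 0) P.nil)))) (P.cons (P.cons (P.lf 0 1422544 0) (P.cons (P.lf 0 247925 0) (P.cons (P.lf 1536 0 0) P.nil))) (P.cons (P.cons (P.lf 0 146242 0) (P.cons (P.lf 0 12694 0) P.nil)) (P.cons (P.cons (P.lf 10304 0 0) P.nil) P.nil)))))) 57247)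
 (EL.cons 1 (TM.mk (P.cons (P.cons (P.lf 0 142250953 0) (P.cons (P.lf 19443245 0 0) (P.cons (P.lf 0 1964317 0) (P.cons (P.lf 0 344469 0) (P.cons (P.lf 26641 0 0) (P.cons (P.lf 0 1978 0) P.nil)))))) (P.cons (P.cons (P.lf 0 47718493 0) (P.cons (P.lf 0 2644132 0) (P.cons (P.lf 580353 0 0) (P.cons (P.lf 4961 0 0) (P.cons (P.lf 0 16183 0) P.nil))))) (P.cons (P.cons (P.lf 418145 0 0) (P.cons (P.lf 0 682036 0) (P.cons (P.lf 0 57406 0) (P.cons (P.lf 28972 0 0) P.nil)))) (P.cons (P.cons (P.lf 928788 0 0) (P.cons (P.lf 166850 0 0) (P.cons (P.lf 2505 0 0) P.nil))) (P.cons (P.cons (P.lf 0 21322 0) (P.cons (P.lf 0 8540 0) P.nil)) (P.cons (P.cons (P.lf 0 5720 0) P.nil) P.nil)))))) 22150)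
 (EL.cons 5 (TM.mk (P.cons (P.cons (P.lf 45157336 0 0) (P.cons (P.lf 0 6172226 0) (P.cons (P.lf 623568 0 0) (P.cons (P.lf 109350 0 0) (P.cons (P.lf 0 8456 0) (P.cons (P.lf 628 0 0) P.nil)))))) (P.cons (P.cons (P.lf 9906692 0 0) (P.cons (P.lf 1555792 0 0) (P.cons (P.lf 0 256610 0) (P.cons (P.lf 0 14266 0) (P.cons (P.lf 6118 0 0) P.nil))))) (P.cons (P.cons (P.lf 0 1680878 0) (P.cons (P.lf 90362 0 0) (P.cons (P.lf 42508 0 0) (P.cons (P.lf 0 8504 0) P.nil)))) (P.cons (P.cons (P.lf 0 220408 0) (P.cons (P.lf 0 72624 0) (P.cons (P.lf 0 3926 0) P.nil))) (P.cons (P.cons (P.lf 37154 0 0) (P.cons (P.lf 9568 0 0) P.nil)) (P.cons (P.cons (P.lf 0 132 0) P.nil) P.nil)))))) 9124)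
 EL.nil)))
noncomputable def S386_401_512_660_6 : EL := (EL.cons 12 (TM.mk (P.lf 8589934592 0 0) 0)
 (EL.cons 3 (TM.mk (P.cons (P.lf 3179002091 0 0) (P.cons (P.lf 81486086 0 0) (P.cons (P.lf 0 4862741 0) (P.cons (P.lf 76338 0 0) (P.cons (P.lf 1623 0 0) (P.cons (P.lf 0 105 0) P.nil)))))) 74)
 (EL.cons 7 (TM.mk (P.cons (P.lf 0 1009169096 0) (P.cons (P.lf 91267844 0 0) (P.cons (P.lf 0 149690 0) (P.cons (P.lf 0 67638 0) (P.cons (P.lf 2074 0 0) (P.cons (P.lf 0 6 0) P.nil)))))) 46)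
 EL.nil)))
noncomputable def S386_401_512_660_7 : EL := (EL.cons 12 (TM.mk (P.cons (P.cons (P.lf 2650665998 0 0) (P.cons (P.lf 0 181150112 0) (P.cons (P.lf 12111272 0 0) (P.lf 4037088 0 0)))) (P.cons (P.cons (P.lf 530476320 0 0) (P.cons (P.lf 49148888 0 0) (P.cons (P.lf 0 3285976 0) (P.lf 0 1095320 0)))) (P.cons (P.cons (P.lf 0 17696662 0) (P.cons (P.lf 0 4525560 0) (P.cons (P.lf 302560 0 0) (P.lf 100848 0 0)))) (P.cons (P.cons (P.lf 0 1165150 0) (P.cons (P.lf 112152 0 0) (P.cons (P.lf 0 7496 0) P.nil))) (P.cons (P.cons (P.lf 77904 0 0) (P.cons (P.lf 7032 0 0) P.nil)) (P.cons (P.cons (P.lf 0 472 0) P.nil) P.nil)))))) 6074)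
 (EL.cons 3 (TM.mk (P.cons (P.cons (P.lf 3151737029 0 0) (P.cons (P.lf 134081714 0 0) (P.cons (P.lf 0 8964388 0) (P.lf 0 2988126 0)))) (P.cons (P.cons (P.lf 0 56925539 0) (P.cons (P.lf 0 32941622 0) (P.cons (P.lf 2202394 0 0) (P.lf 734128 0 0)))) (P.cons (P.cons (P.lf 0 12052877 0) (P.cons (P.lf 2212106 0 0) (P.cons (P.lf 0 147888 0) (P.lf 0 49290 0)))) (P.cons (P.cons (P.lf 1522822 0 0) (P.cons (P.lf 61712 0 0) (P.cons (P.lf 0 4126 0) P.nil))) (P.cons (P.cons (P.lf 0 31441 0) (P.cons (P.lf 0 13260 0) P.nil)) (P.cons (P.cons (P.lf 0 3120 0) P.nil) P.nil)))))) 18749)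
 (EL.cons 7 (TM.mk (P.cons (P.cons (P.lf 2119942306 0 0) (P.cons (P.lf 246547767 0 0) (P.cons (P.lf 0 16483609 0) (P.lf 0 5494536 0)))) (P.cons (P.cons (P.lf 0 63759004 0) (P.cons (P.lf 0 36896010 0) (P.cons (P.lf 2466782 0 0) (P.lf 822260 0 0)))) (P.cons (P.cons (P.lf 0 17200013 0) (P.cons (P.lf 336377 0 0) (P.cons (P.lf 0 22490 0) (P.lf 0 7499 0)))) (P.cons (P.cons (P.lf 473566 0 0) (P.cons (P.lf 152374 0 0) (P.cons (P.lf 0 10184 0) P.nil))) (P.cons (P.cons (P.lf 41969 0 0) (P.cons (P.lf 0 4712 0) P.nil)) (P.cons (P.cons (P.lf 0 2485 0) P.nil) P.nil)))))) 10415)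
 (EL.cons 10 (TM.mk (P.cons (P.cons (P.lf 0 659816067 0) (P.cons (P.lf 102156096 0 0) (P.cons (P.lf 49215585 0 0) (P.cons (P.lf 0 1862460 0) (P.lf 0 465615 0))))) (P.cons (P.cons (P.lf 119345685 0 0) (P.cons (P.lf 0 18477708 0) (P.cons (P.lf 0 8901975 0) (P.cons (P.lf 336876 0 0) (P.lf 84219 0 0))))) (P.cons (P.cons (P.lf 0 5592468 0) (P.cons (P.lf 865854 0 0) (P.cons (P.lf 417141 0 0) (P.cons (P.lf 0 15783 0) P.nil)))) (P.cons (P.cons (P.lf 0 70740 0) (P.cons (P.lf 10950 0 0) (P.cons (P.lf 5274 0 0) P.nil))) (P.cons (P.cons (P.lf 10695 0 0) (P.cons (P.lf 0 1656 0) P.nil)) (P.cons (P.cons (P.lf 0 264 0) P.nil) P.nil)))))) 5301)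
 EL.nil))))
noncomputable def S386_401_512_660_8 : EL := (EL.cons 12 (TM.mk (P.cons (P.cons (P.lf 817937570 0 0) (P.cons (P.lf 0 111797926 0) (P.cons (P.lf 11294758 0 0) (P.cons (P.lf 1980692 0 0) (P.cons (P.lf 0 153196 0) (P.cons (P.lf 11384 0 0) P.nil)))))) (P.cons (P.cons (P.lf 327386786 0 0) (P.cons (P.lf 7958486 0 0) (P.cons (P.lf 0 2605050 0) (P.cons (P.lf 99828 0 0) (P.cons (P.lf 83128 0 0) P.nil))))) (P.cons (P.cons (P.lf 21838262 0 0) (P.cons (P.lf 4023854 0 0) (P.cons (P.lf 203060 0 0) (P.cons (P.lf 0 152804 0) P.nil)))) (P.cons (P.cons (P.lf 0 2904814 0) (P.cons (P.lf 0 643108 0) (P.cons (P.lf 0 13520 0) P.nil))) (P.cons (P.cons (P.lf 0 59372 0) (P.cons (P.lf 20218 0 0) P.nil)) (P.cons (P.cons (P.lf 14130 0 0) P.nil) P.nil)))))) 80664)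
 (EL.cons 3 (TM.mk (P.cons (P.cons (P.lf 1642408210 0 0) (P.cons (P.lf 0 8807692 0) (P.cons (P.lf 0 6480143 0) (P.cons (P.lf 1141520 0 0) (P.cons (P.lf 283475 0 0) (P.cons (P.lf 0 21066 0) P.nil)))))) (P.cons (P.cons (P.lf 225222748 0 0) (P.cons (P.lf 32813133 0 0) (P.cons (P.lf 1460857 0 0) (P.cons (P.lf 0 1219951 0) (P.cons (P.lf 0 146556 0) P.nil))))) (P.cons (P.cons (P.lf 0 38180266 0) (P.cons (P.lf 0 8347866 0) (P.cons (P.lf 0 206308 0) (P.cons (P.lf 288252 0 0) P.nil)))) (P.cons (P.cons (P.lf 0 123379 0) (P.cons (P.lf 556117 0 0) (P.cons (P.lf 38975 0 0) P.nil))) (P.cons (P.cons (P.lf 349780 0 0) (P.cons (P.lf 37662 0 0) P.nil)) (P.cons (P.cons (P.lf 0 16749 0) P.nil) P.nil)))))) 189419)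
 (EL.cons 7 (TM.mk (P.cons (P.cons (P.lf 1404429235 0 0) (P.cons (P.lf 49610733 0 0) (P.cons (P.lf 0 13266765 0) (P.cons (P.lf 224833 0 0) (P.cons (P.lf 399003 0 0) (P.cons (P.lf 0 29645 0) P.nil)))))) (P.cons (P.cons (P.lf 252258959 0 0) (P.cons (P.lf 36752084 0 0) (P.cons (P.lf 1636224 0 0) (P.cons (P.lf 0 1366394 0) (P.cons (P.lf 0 164147 0) P.nil))))) (P.cons (P.cons (P.lf 0 28123498 0) (P.cons (P.lf 0 7217028 0) (P.cons (P.lf 0 136121 0) (P.cons (P.lf 243545 0 0) P.nil)))) (P.cons (P.cons (P.lf 0 2705676 0) (P.cons (P.lf 7419 0 0) (P.cons (P.lf 30582 0 0) P.nil))) (P.cons (P.cons (P.lf 237657 0 0) (P.cons (P.lf 61954 0 0) P.nil)) (P.cons (P.cons (P.lf 7309 0 0) P.nil) P.nil)))))) 115441)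
 (EL.cons 10 (TM.mk (P.cons (P.cons (P.lf 0 407209620 0) (P.cons (P.lf 90875532 0 0) (P.cons (P.lf 24204438 0 0) (P.cons (P.lf 0 3557340 0) (P.cons (P.lf 25998 0 0) (P.cons (P.lf 60642 0 0) P.nil)))))) (P.cons (P.cons (P.lf 0 7839696 0) (P.cons (P.lf 0 11370408 0) (P.cons (P.lf 3374460 0 0) (P.cons (P.lf 1066710 0 0) (P.cons (P.lf 0 147228 0) P.nil))))) (P.cons (P.cons (P.lf 14007750 0 0) (P.cons (P.lf 128076 0 0) (P.cons (P.lf 0 1554000 0) (P.cons (P.lf 0 159186 0) P.nil)))) (P.cons (P.cons (P.lf 0 1047132 0) (P.cons (P.lf 0 41874 0) (P.cons (P.lf 123324 0 0) P.nil))) (P.cons (P.cons (P.lf 0 23436 0) (P.cons (P.lf 10296 0 0) P.nil)) (P.cons (P.cons (P.lf 5202 0 0) P.nil) P.nil)))))) 128076)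
 EL.nil))))
noncomputable def S386_401_512_660_9 : EL := (EL.cons 3 (TM.mk (P.cons (P.lf 3179002091 0 0) (P.cons (P.lf 81486086 0 0) (P.cons (P.lf 0 4862741 0) (P.cons (P.lf 76338 0 0) (P.cons (P.lf 1623 0 0) (P.cons (P.lf 0 105 0) P.nil)))))) 74)
 (EL.cons 7 (TM.mk (P.cons (P.lf 0 1009169096 0) (P.cons (P.lf 91267844 0 0) (P.cons (P.lf 0 149690 0) (P.cons (P.lf 0 67638 0) (P.cons (P.lf 2074 0 0) (P.cons (P.lf 0 6 0) P.nil)))))) 46)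
 EL.nil))
noncomputable def S386_401_512_660_10 : EL := (EL.cons 3 (TM.mk (P.cons (P.cons (P.lf 980970536 0 0) (P.cons (P.lf 0 67040857 0) (P.cons (P.lf 4482194 0 0) (P.lf 1494063 0 0)))) (P.cons (P.cons (P.lf 221465914 0 0) (P.cons (P.lf 16470811 0 0) (P.cons (P.lf 0 1101197 0) (P.lf 0 367064 0)))) (P.cons (P.cons (P.lf 0 3017576 0) (P.cons (P.lf 0 1106053 0) (P.cons (P.lf 73944 0 0) (P.lf 24645 0 0)))) (P.cons (P.cons (P.lf 0 875822 0) (P.cons (P.lf 0 30856 0) (P.cons (P.lf 2063 0 0) P.nil))) (P.cons (P.cons (P.lf 33011 0 0) (P.cons (P.lf 6630 0 0) P.nil)) (P.cons (P.cons (P.lf 1134 0 0) P.nil) P.nil)))))) 4594)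
 (EL.cons 7 (TM.mk (P.cons (P.cons (P.lf 0 311407517 0) (P.cons (P.lf 21282012 0 0) (P.cons (P.lf 0 1422865 0) (P.lf 0 474288 0)))) (P.cons (P.cons (P.lf 0 34158553 0) (P.cons (P.lf 0 7698861 0) (P.cons (P.lf 514727 0 0) (P.lf 171575 0 0)))) (P.cons (P.cons (P.lf 7669159 0 0) (P.cons (P.lf 1057037 0 0) (P.cons (P.lf 0 70670 0) (P.lf 0 23555 0)))) (P.cons (P.cons (P.lf 0 81257 0) (P.cons (P.lf 0 60689 0) (P.cons (P.lf 4057 0 0) P.nil))) (P.cons (P.cons (P.lf 0 24760 0) (P.cons (P.lf 13 0 0) P.nil)) (P.cons (P.cons (P.lf 1169 0 0) P.nil) P.nil)))))) 2215)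
 EL.nil))
noncomputable def S386_401_512_660_11 : EL := (EL.cons 3 (TM.mk (P.cons (P.cons (P.lf 302706058 0 0) (P.cons (P.lf 0 41374684 0) (P.cons (P.lf 4180015 0 0) (P.cons (P.lf 733022 0 0) (P.cons (P.lf 0 56695 0) (P.cons (P.lf 4212 0 0) P.nil)))))) (P.cons (P.cons (P.lf 128919934 0 0) (P.cons (P.lf 1884771 0 0) (P.cons (P.lf 0 856943 0) (P.cons (P.lf 55733 0 0) (P.cons (P.lf 29310 0 0) P.nil))))) (P.cons (P.cons (P.lf 10724636 0 0) (P.cons (P.lf 1627950 0 0) (P.cons (P.lf 44042 0 0) (P.cons (P.lf 0 56724 0) P.nil)))) (P.cons (P.cons (P.lf 0 1045927 0) (P.cons (P.lf 0 205331 0) (P.cons (P.lf 0 1501 0) P.nil))) (P.cons (P.cons (P.lf 0 58826 0) (P.cons (P.lf 0 846 0) P.nil)) (P.cons (P.cons (P.lf 6555 0 0) P.nil) P.nil)))))) 34471)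
 (EL.cons 7 (TM.mk (P.cons (P.cons (P.lf 0 96093551 0) (P.cons (P.lf 13134327 0 0) (P.cons (P.lf 0 1326939 0) (P.cons (P.lf 0 232697 0) (P.cons (P.lf 17997 0 0) (P.cons (P.lf 0 1337 0) P.nil)))))) (P.cons (P.cons (P.lf 0 29771731 0) (P.cons (P.lf 0 2122834 0) (P.cons (P.lf 426054 0 0) (P.cons (P.lf 9316 0 0) (P.cons (P.lf 0 11393 0) P.nil))))) (P.cons (P.cons (P.lf 898604 0 0) (P.cons (P.lf 0 386226 0) (P.cons (P.lf 0 51731 0) (P.cons (P.lf 18977 0 0) P.nil)))) (P.cons (P.cons (P.lf 561150 0 0) (P.cons (P.lf 119049 0 0) (P.cons (P.lf 3702 0 0) P.nil))) (P.cons (P.cons (P.lf 0 26649 0) (P.cons (P.lf 0 9368 0) P.nil)) (P.cons (P.cons (P.lf 0 2333 0) P.nil) P.nil)))))) 13641)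
 EL.nil))
noncomputable def S386_401_512_660_12 : EL := (EL.cons 4 (TM.mk (P.cons (P.lf 0 3179002091 0) (P.cons (P.lf 0 81486086 0) (P.cons (P.lf 4862741 0 0) (P.cons (P.lf 0 76338 0) (P.cons (P.lf 0 1623 0) (P.cons (P.lf 105 0 0) P.nil)))))) 74)
 (EL.cons 8 (TM.mk (P.cons (P.lf 1009169096 0 0) (P.cons (P.lf 0 91267844 0) (P.cons (P.lf 149690 0 0) (P.cons (P.lf 67638 0 0) (P.cons (P.lf 0 2074 0) (P.cons (P.lf 6 0 0) P.nil)))))) 46)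
 EL.nil))
noncomputable def S386_401_512_660_13 : EL := (EL.cons 4 (TM.mk (P.cons (P.cons (P.lf 0 980970536 0) (P.cons (P.lf 67040857 0 0) (P.cons (P.lf 0 4482194 0) (P.lf 0 1494063 0)))) (P.cons (P.cons (P.lf 0 221465914 0) (P.cons (P.lf 0 16470811 0) (P.cons (P.lf 1101197 0 0) (P.lf 367064 0 0)))) (P.cons (P.cons (P.lf 3017576 0 0) (P.cons (P.lf 1106053 0 0) (P.cons (P.lf 0 73944 0) (P.lf 0 24645 0)))) (P.cons (P.cons (P.lf 875822 0 0) (P.cons (P.lf 30856 0 0) (P.cons (P.lf 0 2063 0) P.nil))) (P.cons (P.cons (P.lf 0 33011 0) (P.cons (P.lf 0 6630 0) P.nil)) (P.cons (P.cons (P.lf 0 1134 0) P.nil) P.nil)))))) 4594)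
 (EL.cons 8 (TM.mk (P.cons (P.cons (P.lf 311407517 0 0) (P.cons (P.lf 0 21282012 0) (P.cons (P.lf 1422865 0 0) (P.lf 474288 0 0)))) (P.cons (P.cons (P.lf 34158553 0 0) (P.cons (P.lf 7698861 0 0) (P.cons (P.lf 0 514727 0) (P.lf 0 171575 0)))) (P.cons (P.cons (P.lf 0 7669159 0) (P.cons (P.lf 0 1057037 0) (P.cons (P.lf 70670 0 0) (P.lf 23555 0 0)))) (P.cons (P.cons (P.lf 81257 0 0) (P.cons (P.lf 60689 0 0) (P.cons (P.lf 0 4057 0) P.nil))) (P.cons (P.cons (P.lf 24760 0 0) (P.cons (P.lf 0 13 0) P.nil)) (P.cons (P.cons (P.lf 0 1169 0) P.nil) P.nil)))))) 2215)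
 EL.nil))
noncomputable def S386_401_512_660_14 : EL := (EL.cons 4 (TM.mk (P.cons (P.cons (P.lf 0 302706058 0) (P.cons (P.lf 41374684 0 0) (P.cons (P.lf 0 4180015 0) (P.cons (P.lf 0 733022 0) (P.cons (P.lf 56695 0 0) (P.cons (P.lf 0 4212 0) P.nil)))))) (P.cons (P.cons (P.lf 0 128919934 0) (P.cons (P.lf 0 1884771 0) (P.cons (P.lf 856943 0 0) (P.cons (P.lf 0 55733 0) (P.cons (P.lf 0 29310 0) P.nil))))) (P.cons (P.cons (P.lf 0 10724636 0) (P.cons (P.lf 0 1627950 0) (P.cons (P.lf 0 44042 0) (P.cons (P.lf 56724 0 0) P.nil)))) (P.cons (P.cons (P.lf 1045927 0 0) (P.cons (P.lf 205331 0 0) (P.cons (P.lf 1501 0 0) P.nil))) (P.cons (P.cons (P.lf 58826 0 0) (P.cons (P.lf 846 0 0) P.nil)) (P.cons (P.cons (P.lf 0 6555 0) P.nil) P.nil)))))) 34471)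
 (EL.cons 8 (TM.mk (P.cons (P.cons (P.lf 96093551 0 0) (P.cons (P.lf 0 13134327 0) (P.cons (P.lf 1326939 0 0) (P.cons (P.lf 232697 0 0) (P.cons (P.lf 0 17997 0) (P.cons (P.lf 1337 0 0) P.nil)))))) (P.cons (P.cons (P.lf 29771731 0 0) (P.cons (P.lf 2122834 0 0) (P.cons (P.lf 0 426054 0) (P.cons (P.lf 0 9316 0) (P.cons (P.lf 11393 0 0) P.nil))))) (P.cons (P.cons (P.lf 0 898604 0) (P.cons (P.lf 386226 0 0) (P.cons (P.lf 51731 0 0) (P.cons (P.lf 0 18977 0) P.nil)))) (P.cons (P.cons (P.lf 0 561150 0) (P.cons (P.lf 0 119049 0) (P.cons (P.lf 0 3702 0) P.nil))) (P.cons (P.cons (P.lf 26649 0 0) (P.cons (P.lf 9368 0 0) P.nil)) (P.cons (P.cons (P.lf 2333 0 0) P.nil) P.nil)))))) 13641)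
 EL.nil))
noncomputable def S386_401_512_660_15 : EL := (EL.cons 4 (TM.mk (P.cons (P.lf 0 2509865734 0) (P.cons (P.lf 0 128668764 0) (P.cons (P.lf 6029343 0 0) (P.cons (P.lf 76275 0 0) (P.cons (P.lf 0 11525 0) (P.cons (P.lf 284 0 0) P.nil)))))) 132)
 (EL.cons 8 (TM.mk (P.cons (P.lf 796752836 0 0) (P.cons (P.lf 0 51634368 0) (P.cons (P.lf 0 2947579 0) (P.cons (P.lf 185785 0 0) (P.cons (P.lf 0 1772 0) (P.cons (P.lf 0 179 0) P.nil)))))) 69)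
 EL.nil))
noncomputable def S386_401_512_660_16 : EL := (EL.cons 4 (TM.mk (P.cons (P.cons (P.lf 0 774489687 0) (P.cons (P.lf 52929675 0 0) (P.cons (P.lf 0 3538754 0) (P.lf 0 1179583 0)))) (P.cons (P.cons (P.lf 0 194702559 0) (P.cons (P.lf 0 11647206 0) (P.cons (P.lf 778703 0 0) (P.lf 259565 0 0)))) (P.cons (P.cons (P.lf 0 914757 0) (P.cons (P.lf 458955 0 0) (P.cons (P.lf 0 30681 0) (P.lf 0 10225 0)))) (P.cons (P.cons (P.lf 1001401 0 0) (P.cons (P.lf 67907 0 0) (P.cons (P.lf 0 4540 0) P.nil))) (P.cons (P.cons (P.lf 0 16576 0) (P.cons (P.lf 0 6231 0) P.nil)) (P.cons (P.cons (P.lf 0 2627 0) P.nil) P.nil)))))) 5171)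
 (EL.cons 8 (TM.mk (P.cons (P.cons (P.lf 245860504 0 0) (P.cons (P.lf 0 16802440 0) (P.cons (P.lf 1123371 0 0) (P.lf 374456 0 0)))) (P.cons (P.cons (P.lf 33270689 0 0) (P.cons (P.lf 5647666 0 0) (P.cons (P.lf 0 377589 0) (P.lf 0 125862 0)))) (P.cons (P.cons (P.lf 0 5739708 0) (P.cons (P.lf 0 653039 0) (P.cons (P.lf 43659 0 0) (P.lf 14552 0 0)))) (P.cons (P.cons (P.lf 0 126397 0) (P.cons (P.lf 16822 0 0) (P.cons (P.lf 0 1124 0) P.nil))) (P.cons (P.cons (P.lf 31228 0 0) (P.cons (P.lf 2631 0 0) P.nil)) (P.cons (P.cons (P.lf 0 659 0) P.nil) P.nil)))))) 2187)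
 EL.nil))
noncomputable def S386_401_512_660_17 : EL := (EL.cons 4 (TM.mk (P.cons (P.cons (P.lf 0 238990583 0) (P.cons (P.lf 32665880 0 0) (P.cons (P.lf 0 3300179 0) (P.cons (P.lf 0 578731 0) (P.cons (P.lf 44760 0 0) (P.cons (P.lf 0 3326 0) P.nil)))))) (P.cons (P.cons (P.lf 0 107910005 0) (P.cons (P.lf 0 650741 0) (P.cons (P.lf 591976 0 0) (P.cons (P.lf 0 58836 0) (P.cons (P.lf 0 21993 0) P.nil))))) (P.cons (P.cons (P.lf 0 10710666 0) (P.cons (P.lf 0 1373399 0) (P.cons (P.lf 0 12381 0) (P.cons (P.lf 44541 0 0) P.nil)))) (P.cons (P.cons (P.lf 758690 0 0) (P.cons (P.lf 132226 0 0) (P.cons (P.lf 0 819 0) P.nil))) (P.cons (P.cons (P.lf 77996 0 0) (P.cons (P.lf 6770 0 0) P.nil)) (P.cons (P.cons (P.lf 0 5495 0) P.nil) P.nil)))))) 30542)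
 (EL.cons 8 (TM.mk (P.cons (P.cons (P.lf 75867175 0 0) (P.cons (P.lf 0 10369731 0) (P.cons (P.lf 1047636 0 0) (P.cons (P.lf 183717 0 0) (P.cons (P.lf 0 14209 0) (P.cons (P.lf 1055 0 0) P.nil)))))) (P.cons (P.cons (P.lf 25449863 0 0) (P.cons (P.lf 1410204 0 0) (P.cons (P.lf 0 309522 0) (P.cons (P.lf 0 2646 0) (P.cons (P.lf 8631 0 0) P.nil))))) (P.cons (P.cons (P.lf 0 223011 0) (P.cons (P.lf 363753 0 0) (P.cons (P.lf 30617 0 0) (P.cons (P.lf 0 15452 0) P.nil)))) (P.cons (P.cons (P.lf 0 495354 0) (P.cons (P.lf 0 88987 0) (P.cons (P.lf 0 1336 0) P.nil))) (P.cons (P.cons (P.lf 11372 0 0) (P.cons (P.lf 4555 0 0) P.nil)) (P.cons (P.cons (P.lf 3051 0 0) P.nil) P.nil)))))) 11802)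
 EL.nil))
noncomputable def S386_401_512_660_18 : EL := (EL.cons 4 (TM.mk (P.cons (P.lf 0 1981573407 0) (P.cons (P.lf 0 152378629 0) (P.cons (P.lf 5187444 0 0) (P.cons (P.lf 290043 0 0) (P.cons (P.lf 0 18288 0) (P.cons (P.lf 26 0 0) P.nil)))))) 187)
 (EL.cons 8 (TM.mk (P.cons (P.lf 629047288 0 0) (P.cons (P.lf 0 24641924 0) (P.cons (P.lf 0 4334312 0) (P.cons (P.lf 164492 0 0) (P.cons (P.lf 5262 0 0) (P.cons (P.lf 0 499 0) P.nil)))))) 83)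
 EL.nil))
noncomputable def S386_401_512_660_19 : EL := (EL.cons 4 (TM.mk (P.cons (P.cons (P.lf 0 611470226 0) (P.cons (P.lf 41788704 0 0) (P.cons (P.lf 0 2793894 0) (P.lf 0 931297 0)))) (P.cons (P.cons (P.lf 0 169393911 0) (P.cons (P.lf 0 8124476 0) (P.cons (P.lf 543181 0 0) (P.lf 181059 0 0)))) (P.cons (P.cons (P.lf 0 3727133 0) (P.cons (P.lf 62722 0 0) (P.cons (P.lf 0 4191 0) (P.lf 0 1395 0)))) (P.cons (P.cons (P.lf 992562 0 0) (P.cons (P.lf 77971 0 0) (P.cons (P.lf 0 5212 0) P.nil))) (P.cons (P.cons (P.lf 4278 0 0) (P.cons (P.lf 0 4299 0) P.nil)) (P.cons (P.cons (P.lf 0 3694 0) P.nil) P.nil)))))) 5404)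
 (EL.cons 8 (TM.mk (P.cons (P.cons (P.lf 194110238 0 0) (P.cons (P.lf 0 13265757 0) (P.cons (P.lf 886917 0 0) (P.lf 295638 0 0)))) (P.cons (P.cons (P.lf 31243215 0 0) (P.cons (P.lf 4118874 0 0) (P.cons (P.lf 0 275377 0) (P.lf 0 91792 0)))) (P.cons (P.cons (P.lf 0 4155189 0) (P.cons (P.lf 0 380998 0) (P.cons (P.lf 25471 0 0) (P.lf 8490 0 0)))) (P.cons (P.cons (P.lf 0 251467 0) (P.cons (P.lf 0 7072 0) (P.cons (P.lf 472 0 0) P.nil))) (P.cons (P.cons (P.lf 29758 0 0) (P.cons (P.lf 3306 0 0) P.nil)) (P.cons (P.cons (P.lf 161 0 0) P.nil) P.nil)))))) 2064)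
 EL.nil))
noncomputable def S386_401_512_660_20 : EL := (EL.cons 4 (TM.mk (P.cons (P.cons (P.lf 0 188686341 0) (P.cons (P.lf 25790160 0 0) (P.cons (P.lf 0 2605536 0) (P.cons (P.lf 0 456916 0) (P.cons (P.lf 35340 0 0) (P.cons (P.lf 0 2625 0) P.nil)))))) (P.cons (P.cons (P.lf 0 90032950 0) (P.cons (P.lf 147299 0 0) (P.cons (P.lf 400587 0 0) (P.cons (P.lf 0 58164 0) (P.cons (P.lf 0 16458 0) P.nil))))) (P.cons (P.cons (P.lf 0 10351401 0) (P.cons (P.lf 0 1136936 0) (P.cons (P.lf 6189 0 0) (P.cons (P.lf 34674 0 0) P.nil)))) (P.cons (P.cons (P.lf 508031 0 0) (P.cons (P.lf 78006 0 0) (P.cons (P.lf 0 1674 0) P.nil))) (P.cons (P.cons (P.lf 87725 0 0) (P.cons (P.lf 9680 0 0) P.nil)) (P.cons (P.cons (P.lf 0 3916 0) P.nil) P.nil)))))) 26828)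
 (EL.cons 8 (TM.mk (P.cons (P.cons (P.lf 59898175 0 0) (P.cons (P.lf 0 8187044 0) (P.cons (P.lf 827123 0 0) (P.cons (P.lf 145047 0 0) (P.cons (P.lf 0 11218 0) (P.cons (P.lf 833 0 0) P.nil)))))) (P.cons (P.cons (P.lf 21628361 0 0) (P.cons (P.lf 903520 0 0) (P.cons (P.lf 0 223170 0) (P.cons (P.lf 1628 0 0) (P.cons (P.lf 6526 0 0) P.nil))))) (P.cons (P.cons (P.lf 247343 0 0) (P.cons (P.lf 328250 0 0) (P.cons (P.lf 16643 0 0) (P.cons (P.lf 0 12475 0) P.nil)))) (P.cons (P.cons (P.lf 0 424898 0) (P.cons (P.lf 0 64794 0) (P.cons (P.lf 0 41 0) P.nil))) (P.cons (P.cons (P.lf 0 263 0) (P.cons (P.lf 1379 0 0) P.nil)) (P.cons (P.cons (P.lf 3241 0 0) P.nil) P.nil)))))) 10336)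
 EL.nil))
noncomputable def S386_401_512_660_21 : EL := (EL.cons 4 (TM.mk (P.cons (P.cons (P.lf 0 2170766493 0) (P.cons (P.lf 0 201122571 0) (P.cons (P.lf 13446582 0 0) (P.lf 4482189 0 0)))) (P.cons (P.cons (P.lf 278391453 0 0) (P.cons (P.lf 49412433 0 0) (P.cons (P.lf 0 3303591 0) (P.lf 0 1101192 0)))) (P.cons (P.cons (P.lf 9035301 0 0) (P.cons (P.lf 0 3318159 0) (P.cons (P.lf 221832 0 0) (P.lf 73935 0 0)))) (P.cons (P.cons (P.lf 0 2398644 0) (P.cons (P.lf 0 92568 0) (P.cons (P.lf 6189 0 0) P.nil))) (P.cons (P.cons (P.lf 64452 0 0) (P.cons (P.lf 19890 0 0) P.nil)) (P.cons (P.cons (P.lf 4254 0 0) P.nil) P.nil)))))) 14136)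
 (EL.cons 8 (TM.mk (P.cons (P.cons (P.lf 0 2431349823 0) (P.cons (P.lf 0 225265755 0) (P.cons (P.lf 15060744 0 0) (P.lf 5020248 0 0)))) (P.cons (P.cons (P.lf 29600451 0 0) (P.cons (P.lf 29197149 0 0) (P.cons (P.lf 0 1952055 0) (P.lf 0 650685 0)))) (P.cons (P.cons (P.lf 24869172 0 0) (P.cons (P.lf 720660 0 0) (P.cons (P.lf 0 48180 0) (P.lf 0 16056 0)))) (P.cons (P.cons (P.lf 0 554823 0) (P.cons (P.lf 0 213063 0) (P.cons (P.lf 14241 0 0) P.nil))) (P.cons (P.cons (P.lf 0 66729 0) (P.cons (P.lf 4725 0 0) P.nil)) (P.cons (P.cons (P.lf 3654 0 0) P.nil) P.nil)))))) 8181)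
 (EL.cons 11 (TM.mk (P.cons (P.cons (P.lf 659816067 0 0) (P.cons (P.lf 0 102156096 0) (P.cons (P.lf 0 49215585 0) (P.cons (P.lf 1862460 0 0) (P.lf 465615 0 0))))) (P.cons (P.cons (P.lf 0 119345685 0) (P.cons (P.lf 18477708 0 0) (P.cons (P.lf 8901975 0 0) (P.cons (P.lf 0 336876 0) (P.lf 0 84219 0))))) (P.cons (P.cons (P.lf 5592468 0 0) (P.cons (P.lf 0 865854 0) (P.cons (P.lf 0 417141 0) (P.cons (P.lf 15783 0 0) P.nil)))) (P.cons (P.cons (P.lf 70740 0 0) (P.cons (P.lf 0 10950 0) (P.cons (P.lf 0 5274 0) P.nil))) (P.cons (P.cons (P.lf 0 10695 0) (P.cons (P.lf 1656 0 0) P.nil)) (P.cons (P.cons (P.lf 264 0 0) P.nil) P.nil)))))) 5301)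
 EL.nil)))
noncomputable def S386_401_512_660_22 : EL := (EL.cons 4 (TM.mk (P.cons (P.cons (P.lf 0 669851076 0) (P.cons (P.lf 0 16283496 0) (P.cons (P.lf 5330079 0 0) (P.cons (P.lf 0 204249 0) (P.cons (P.lf 0 170085 0) (P.cons (P.lf 12639 0 0) P.nil)))))) (P.cons (P.cons (P.lf 0 48151407 0) (P.cons (P.lf 0 15464181 0) (P.cons (P.lf 0 1158900 0) (P.cons (P.lf 637842 0 0) (P.cons (P.lf 87933 0 0) P.nil))))) (P.cons (P.cons (P.lf 24452451 0 0) (P.cons (P.lf 4987908 0 0) (P.cons (P.lf 125175 0 0) (P.cons (P.lf 0 172488 0) P.nil)))) (P.cons (P.cons (P.lf 0 461274 0) (P.cons (P.lf 0 380724 0) (P.cons (P.lf 0 20238 0) P.nil))) (P.cons (P.cons (P.lf 0 204303 0) (P.cons (P.lf 0 19254 0) P.nil)) (P.cons (P.cons (P.lf 11652 0 0) P.nil) P.nil)))))) 77463)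
 (EL.cons 8 (TM.mk (P.cons (P.cons (P.lf 0 750261393 0) (P.cons (P.lf 0 18238203 0) (P.cons (P.lf 5969913 0 0) (P.cons (P.lf 0 228765 0) (P.cons (P.lf 0 190503 0) (P.cons (P.lf 14154 0 0) P.nil)))))) (P.cons (P.cons (P.lf 0 141015345 0) (P.cons (P.lf 0 19437459 0) (P.cons (P.lf 0 605085 0) (P.cons (P.lf 687855 0 0) (P.cons (P.lf 76377 0 0) P.nil))))) (P.cons (P.cons (P.lf 14511051 0 0) (P.cons (P.lf 3415401 0 0) (P.cons (P.lf 42195 0 0) (P.cons (P.lf 0 112284 0) P.nil)))) (P.cons (P.cons (P.lf 1633413 0 0) (P.cons (P.lf 55815 0 0) (P.cons (P.lf 0 13440 0) P.nil))) (P.cons (P.cons (P.lf 0 132153 0) (P.cons (P.lf 0 35661 0) P.nil)) (P.cons (P.cons (P.lf 0 4821 0) P.nil) P.nil)))))) 50889)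
 (EL.cons 11 (TM.mk (P.cons (P.cons (P.lf 203604810 0 0) (P.cons (P.lf 0 45437766 0) (P.cons (P.lf 0 12102219 0) (P.cons (P.lf 1778670 0 0) (P.cons (P.lf 0 12999 0) (P.cons (P.lf 0 30321 0) P.nil)))))) (P.cons (P.cons (P.lf 3919848 0 0) (P.cons (P.lf 5685204 0 0) (P.cons (P.lf 0 1687230 0) (P.cons (P.lf 0 533355 0) (P.cons (P.lf 73614 0 0) P.nil))))) (P.cons (P.cons (P.lf 0 7003875 0) (P.cons (P.lf 0 64038 0) (P.cons (P.lf 777000 0 0) (P.cons (P.lf 79593 0 0) P.nil)))) (P.cons (P.cons (P.lf 523566 0 0) (P.cons (P.lf 20937 0 0) (P.cons (P.lf 0 61662 0) P.nil))) (P.cons (P.cons (P.lf 11718 0 0) (P.cons (P.lf 0 5148 0) P.nil)) (P.cons (P.cons (P.lf 0 2601 0) P.nil) P.nil)))))) 64038)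
 EL.nil)))
noncomputable def S386_401_512_660_23 : EL := (EL.cons 4 (TM.mk (P.cons (P.cons (P.lf 0 1713849906 0) (P.cons (P.lf 0 158789025 0) (P.cons (P.lf 10616259 0 0) (P.lf 3538749 0 0)))) (P.cons (P.cons (P.lf 175863441 0 0) (P.cons (P.lf 34941615 0 0) (P.cons (P.lf 0 2336106 0) (P.lf 0 778698 0)))) (P.cons (P.cons (P.lf 15388962 0 0) (P.cons (P.lf 0 1376865 0) (P.cons (P.lf 92043 0 0) (P.lf 30672 0 0)))) (P.cons (P.cons (P.lf 0 2088273 0) (P.cons (P.lf 0 203721 0) (P.cons (P.lf 13620 0 0) P.nil))) (P.cons (P.cons (P.lf 0 4164 0) (P.cons (P.lf 18693 0 0) P.nil)) (P.cons (P.cons (P.lf 7899 0 0) P.nil) P.nil)))))) 15924)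
 (EL.cons 8 (TM.mk (P.cons (P.cons (P.lf 0 1919584017 0) (P.cons (P.lf 0 177850401 0) (P.cons (P.lf 11890662 0 0) (P.lf 3963552 0 0)))) (P.cons (P.cons (P.lf 0 25833963 0) (P.cons (P.lf 18492780 0 0) (P.cons (P.lf 0 1236384 0) (P.lf 0 412128 0)))) (P.cons (P.cons (P.lf 23169864 0 0) (P.cons (P.lf 1431888 0 0) (P.cons (P.lf 0 95730 0) (P.lf 0 31905 0)))) (P.cons (P.cons (P.lf 0 16599 0) (P.cons (P.lf 0 193161 0) (P.cons (P.lf 12909 0 0) P.nil))) (P.cons (P.cons (P.lf 0 94362 0) (P.cons (P.lf 0 987 0) P.nil)) (P.cons (P.cons (P.lf 2751 0 0) P.nil) P.nil)))))) 8964)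
 (EL.cons 11 (TM.mk (P.cons (P.cons (P.lf 520933830 0 0) (P.cons (P.lf 0 80653638 0) (P.cons (P.lf 0 38856378 0) (P.cons (P.lf 1470435 0 0) (P.lf 367608 0 0))))) (P.cons (P.cons (P.lf 0 80872164 0) (P.cons (P.lf 12521040 0 0) (P.cons (P.lf 6032241 0 0) (P.cons (P.lf 0 228276 0) (P.lf 0 57069 0))))) (P.cons (P.cons (P.lf 1203252 0 0) (P.cons (P.lf 0 186291 0) (P.cons (P.lf 0 89748 0) (P.cons (P.lf 3393 0 0) P.nil)))) (P.cons (P.cons (P.lf 325665 0 0) (P.cons (P.lf 0 50418 0) (P.cons (P.lf 0 24288 0) P.nil))) (P.cons (P.cons (P.lf 0 15762 0) (P.cons (P.lf 2439 0 0) P.nil)) (P.cons (P.cons (P.lf 0 51 0) P.nil) P.nil)))))) 8466)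
 EL.nil)))
noncomputable def S386_401_512_660_24 : EL := (EL.cons 4 (TM.mk (P.cons (P.cons (P.lf 0 528856605 0) (P.cons (P.lf 0 12856041 0) (P.cons (P.lf 4208169 0 0) (P.cons (P.lf 0 161256 0) (P.cons (P.lf 0 134286 0) (P.cons (P.lf 9978 0 0) P.nil)))))) (P.cons (P.cons (P.lf 0 51572166 0) (P.cons (P.lf 0 12538716 0) (P.cons (P.lf 0 807102 0) (P.cons (P.lf 499452 0 0) (P.cons (P.lf 65982 0 0) P.nil))))) (P.cons (P.cons (P.lf 19140051 0 0) (P.cons (P.lf 3644733 0 0) (P.cons (P.lf 68937 0 0) (P.cons (P.lf 0 123027 0) P.nil)))) (P.cons (P.cons (P.lf 176118 0 0) (P.cons (P.lf 0 181278 0) (P.cons (P.lf 0 11943 0) P.nil))) (P.cons (P.cons (P.lf 0 201348 0) (P.cons (P.lf 0 29229 0) P.nil)) (P.cons (P.cons (P.lf 6084 0 0) P.nil) P.nil)))))) 57543)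
 (EL.cons 8 (TM.mk (P.cons (P.cons (P.lf 0 592341654 0) (P.cons (P.lf 0 14399310 0) (P.cons (P.lf 4713330 0 0) (P.cons (P.lf 0 180612 0) (P.cons (P.lf 0 150405 0) (P.cons (P.lf 11175 0 0) P.nil)))))) (P.cons (P.cons (P.lf 0 126516804 0) (P.cons (P.lf 0 15715233 0) (P.cons (P.lf 0 356907 0) (P.cons (P.lf 538440 0 0) (P.cons (P.lf 56445 0 0) P.nil))))) (P.cons (P.cons (P.lf 9508977 0 0) (P.cons (P.lf 2325168 0 0) (P.cons (P.lf 13857 0 0) (P.cons (P.lf 0 74454 0) P.nil)))) (P.cons (P.cons (P.lf 1739340 0 0) (P.cons (P.lf 136314 0 0) (P.cons (P.lf 0 8913 0) P.nil))) (P.cons (P.cons (P.lf 0 91782 0) (P.cons (P.lf 0 31524 0) P.nil)) (P.cons (P.cons (P.lf 0 8214 0) P.nil) P.nil)))))) 37887)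
 (EL.cons 11 (TM.mk (P.cons (P.cons (P.lf 160748787 0 0) (P.cons (P.lf 0 35873739 0) (P.cons (P.lf 0 9554868 0) (P.cons (P.lf 1404282 0 0) (P.cons (P.lf 0 10263 0) (P.cons (P.lf 0 23940 0) P.nil)))))) (P.cons (P.cons (P.lf 7215183 0 0) (P.cons (P.lf 3569010 0 0) (P.cons (P.lf 0 1577007 0) (P.cons (P.lf 0 385095 0) (P.cons (P.lf 57855 0 0) P.nil))))) (P.cons (P.cons (P.lf 0 5696217 0) (P.cons (P.lf 119364 0 0) (P.cons (P.lf 593922 0 0) (P.cons (P.lf 49899 0 0) P.nil)))) (P.cons (P.cons (P.lf 270750 0 0) (P.cons (P.lf 7506 0 0) (P.cons (P.lf 0 31149 0) P.nil))) (P.cons (P.cons (P.lf 28461 0 0) (P.cons (P.lf 0 3474 0) P.nil)) (P.cons (P.cons (P.lf 0 2583 0) P.nil) P.nil)))))) 46878)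
 EL.nil)))
noncomputable def S386_401_512_660_25 : EL := (EL.cons 4 (TM.mk (P.cons (P.cons (P.lf 0 1353107997 0) (P.cons (P.lf 0 125366112 0) (P.cons (P.lf 8381682 0 0) (P.lf 2793891 0 0)))) (P.cons (P.cons (P.lf 104162922 0 0) (P.cons (P.lf 24373425 0 0) (P.cons (P.lf 0 1629543 0) (P.lf 0 543177 0)))) (P.cons (P.cons (P.lf 17778567 0 0) (P.cons (P.lf 0 188166 0) (P.cons (P.lf 12570 0 0) (P.lf 4185 0 0)))) (P.cons (P.cons (P.lf 0 1582167 0) (P.cons (P.lf 0 233913 0) (P.cons (P.lf 15636 0 0) P.nil))) (P.cons (P.cons (P.lf 0 61491 0) (P.cons (P.lf 12894 0 0) P.nil)) (P.cons (P.cons (P.lf 9081 0 0) P.nil) P.nil)))))) 15705)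
 (EL.cons 8 (TM.mk (P.cons (P.cons (P.lf 0 1515537900 0) (P.cons (P.lf 0 140415330 0) (P.cons (P.lf 9387840 0 0) (P.lf 3129279 0 0)))) (P.cons (P.cons (P.lf 0 59243445 0) (P.cons (P.lf 11001093 0 0) (P.cons (P.lf 0 735507 0) (P.lf 0 245169 0)))) (P.cons (P.cons (P.lf 20088348 0 0) (P.cons (P.lf 1719525 0 0) (P.cons (P.lf 0 114960 0) (P.lf 0 38316 0)))) (P.cons (P.cons (P.lf 450594 0 0) (P.cons (P.lf 0 149232 0) (P.cons (P.lf 9972 0 0) P.nil))) (P.cons (P.cons (P.lf 0 104082 0) (P.cons (P.lf 0 6138 0) P.nil)) (P.cons (P.cons (P.lf 759 0 0) P.nil) P.nil)))))) 8697)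
 (EL.cons 11 (TM.mk (P.cons (P.cons (P.lf 411284400 0 0) (P.cons (P.lf 0 63677151 0) (P.cons (P.lf 0 30677643 0) (P.cons (P.lf 1160928 0 0) (P.lf 290232 0 0))))) (P.cons (P.cons (P.lf 0 53307396 0) (P.cons (P.lf 8253321 0 0) (P.cons (P.lf 3976188 0 0) (P.cons (P.lf 0 150468 0) (P.lf 0 37617 0))))) (P.cons (P.cons (P.lf 0 1315764 0) (P.cons (P.lf 203712 0 0) (P.cons (P.lf 98142 0 0) (P.cons (P.lf 0 3714 0) P.nil)))) (P.cons (P.cons (P.lf 389010 0 0) (P.cons (P.lf 0 60225 0) (P.cons (P.lf 0 29013 0) P.nil))) (P.cons (P.cons (P.lf 0 8628 0) (P.cons (P.lf 1335 0 0) P.nil)) (P.cons (P.cons (P.lf 0 777 0) P.nil) P.nil)))))) 9534)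
 EL.nil)))
noncomputable def S386_401_512_660_26 : EL := (EL.cons 4 (TM.mk (P.cons (P.cons (P.lf 0 417539541 0) (P.cons (P.lf 0 10150020 0) (P.cons (P.lf 3322407 0 0) (P.cons (P.lf 0 127314 0) (P.cons (P.lf 0 106020 0) (P.cons (P.lf 7878 0 0) P.nil)))))) (P.cons (P.cons (P.lf 0 51419556 0) (P.cons (P.lf 0 10159659 0) (P.cons (P.lf 0 552054 0) (P.cons (P.lf 391059 0 0) (P.cons (P.lf 49377 0 0) P.nil))))) (P.cons (P.cons (P.lf 14706339 0 0) (P.cons (P.lf 2639343 0 0) (P.cons (P.lf 33012 0 0) (P.cons (P.lf 0 86829 0) P.nil)))) (P.cons (P.cons (P.lf 578646 0 0) (P.cons (P.lf 0 54462 0) (P.cons (P.lf 0 6981 0) P.nil))) (P.cons (P.cons (P.lf 0 179709 0) (P.cons (P.lf 0 31389 0) P.nil)) (P.cons (P.cons (P.lf 870 0 0) P.nil) P.nil)))))) 44202)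
 (EL.cons 8 (TM.mk (P.cons (P.cons (P.lf 0 467661858 0) (P.cons (P.lf 0 11368452 0) (P.cons (P.lf 3721236 0 0) (P.cons (P.lf 0 142596 0) (P.cons (P.lf 0 118746 0) (P.cons (P.lf 8823 0 0) P.nil)))))) (P.cons (P.cons (P.lf 0 111874140 0) (P.cons (P.lf 0 12698793 0) (P.cons (P.lf 0 186399 0) (P.cons (P.lf 421452 0 0) (P.cons (P.lf 41520 0 0) P.nil))))) (P.cons (P.cons (P.lf 5662467 0 0) (P.cons (P.lf 1535109 0 0) (P.cons (P.lf 0 1971 0) (P.cons (P.lf 0 47667 0) P.nil)))) (P.cons (P.cons (P.lf 1707231 0 0) (P.cons (P.lf 173382 0 0) (P.cons (P.lf 0 6234 0) P.nil))) (P.cons (P.cons (P.lf 0 51384 0) (P.cons (P.lf 0 25242 0) P.nil)) (P.cons (P.cons (P.lf 0 10299 0) P.nil) P.nil)))))) 29283)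
 (EL.cons 11 (TM.mk (P.cons (P.cons (P.lf 126913371 0 0) (P.cons (P.lf 0 28322808 0) (P.cons (P.lf 0 7543698 0) (P.cons (P.lf 1108701 0 0) (P.cons (P.lf 0 8103 0) (P.cons (P.lf 0 18900 0) P.nil)))))) (P.cons (P.cons (P.lf 8949606 0 0) (P.cons (P.lf 2091795 0 0) (P.cons (P.lf 0 1438434 0) (P.cons (P.lf 0 275619 0) (P.cons (P.lf 45471 0 0) P.nil))))) (P.cons (P.cons (P.lf 0 4545357 0) (P.cons (P.lf 209790 0 0) (P.cons (P.lf 448533 0 0) (P.cons (P.lf 29907 0 0) P.nil)))) (P.cons (P.cons (P.lf 92817 0 0) (P.cons (P.lf 3351 0 0) (P.cons (P.lf 0 10851 0) P.nil))) (P.cons (P.cons (P.lf 35031 0 0) (P.cons (P.lf 0 2679 0) P.nil)) (P.cons (P.cons (P.lf 0 1899 0) P.nil) P.nil)))))) 35580)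
 EL.nil)))
noncomputable def S386_401_512_660_27 : EL := (EL.cons 13 (TM.mk (P.lf 0 4294967296 0) 0)
 EL.nil)
noncomputable def S386_401_512_660_28 : EL := (EL.cons 13 (TM.mk (P.cons (P.cons (P.lf 0 1325332999 0) (P.cons (P.lf 90575056 0 0) (P.cons (P.lf 0 6055636 0) (P.lf 0 2018544 0)))) (P.cons (P.cons (P.lf 0 265238160 0) (P.cons (P.lf 0 24574444 0) (P.cons (P.lf 1642988 0 0) (P.lf 547660 0 0)))) (P.cons (P.cons (P.lf 8848331 0 0) (P.cons (P.lf 2262780 0 0) (P.cons (P.lf 0 151280 0) (P.lf 0 50424 0)))) (P.cons (P.cons (P.lf 582575 0 0) (P.cons (P.lf 0 56076 0) (P.cons (P.lf 3748 0 0) P.nil))) (P.cons (P.cons (P.lf 0 38952 0) (P.cons (P.lf 0 3516 0) P.nil)) (P.cons (P.cons (P.lf 236 0 0) P.nil) P.nil)))))) 3037)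
 EL.nil)
noncomputable def S386_401_512_660_29 : EL := (EL.cons 13 (TM.mk (P.cons (P.cons (P.lf 0 408968785 0) (P.cons (P.lf 55898963 0 0) (P.cons (P.lf 0 5647379 0) (P.cons (P.lf 0 990346 0) (P.cons (P.lf 76598 0 0) (P.cons (P.lf 0 5692 0) P.nil)))))) (P.cons (P.cons (P.lf 0 163693393 0) (P.cons (P.lf 0 3979243 0) (P.cons (P.lf 1302525 0 0) (P.cons (P.lf 0 49914 0) (P.cons (P.lf 0 41564 0) P.nil))))) (P.cons (P.cons (P.lf 0 10919131 0) (P.cons (P.lf 0 2011927 0) (P.cons (P.lf 0 101530 0) (P.cons (P.lf 76402 0 0) P.nil)))) (P.cons (P.cons (P.lf 1452407 0 0) (P.cons (P.lf 321554 0 0) (P.cons (P.lf 6760 0 0) P.nil))) (P.cons (P.cons (P.lf 29686 0 0) (P.cons (P.lf 0 10109 0) P.nil)) (P.cons (P.cons (P.lf 0 7065 0) P.nil) P.nil)))))) 40332)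
 EL.nil)
noncomputable def S386_401_512_660_30 : EL := (EL.cons 13 (TM.mk (P.cons (P.lf 0 3390935564 0) (P.cons (P.lf 0 86918492 0) (P.cons (P.lf 5186924 0 0) (P.cons (P.lf 0 81428 0) (P.cons (P.lf 0 1732 0) (P.cons (P.lf 112 0 0) P.nil)))))) 72)
 EL.nil)
noncomputable def S386_401_512_660_31 : EL := (EL.cons 13 (TM.mk (P.cons (P.cons (P.lf 0 1046368572 0) (P.cons (P.lf 71510248 0 0) (P.cons (P.lf 0 4781007 0) (P.lf 0 1593668 0)))) (P.cons (P.cons (P.lf 0 236230309 0) (P.cons (P.lf 0 17568866 0) (P.cons (P.lf 1174611 0 0) (P.lf 391535 0 0)))) (P.cons (P.cons (P.lf 3218748 0 0) (P.cons (P.lf 1179790 0 0) (P.cons (P.lf 0 78874 0) (P.lf 0 26289 0)))) (P.cons (P.cons (P.lf 934211 0 0) (P.cons (P.lf 32914 0 0) (P.cons (P.lf 0 2201 0) P.nil))) (P.cons (P.cons (P.lf 0 35212 0) (P.cons (P.lf 0 7072 0) P.nil)) (P.cons (P.cons (P.lf 0 1210 0) P.nil) P.nil)))))) 4880)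
 EL.nil)
noncomputable def S386_401_512_660_32 : EL := (EL.cons 13 (TM.mk (P.cons (P.cons (P.lf 0 322886462 0) (P.cons (P.lf 44132997 0 0) (P.cons (P.lf 0 4458683 0) (P.cons (P.lf 0 781891 0) (P.cons (P.lf 60475 0 0) (P.cons (P.lf 0 4493 0) P.nil)))))) (P.cons (P.cons (P.lf 0 137514597 0) (P.cons (P.lf 0 2010423 0) (P.cons (P.lf 914073 0 0) (P.cons (P.lf 0 59449 0) (P.cons (P.lf 0 31265 0) P.nil))))) (P.cons (P.cons (P.lf 0 11439612 0) (P.cons (P.lf 0 1736480 0) (P.cons (P.lf 0 46979 0) (P.cons (P.lf 60506 0 0) P.nil)))) (P.cons (P.cons (P.lf 1115656 0 0) (P.cons (P.lf 219020 0 0) (P.cons (P.lf 1602 0 0) P.nil))) (P.cons (P.cons (P.lf 62748 0 0) (P.cons (P.lf 903 0 0) P.nil)) (P.cons (P.cons (P.lf 0 6993 0) P.nil) P.nil)))))) 36746)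
 EL.nil)
noncomputable def S386_401_512_660_33 : EL := (EL.cons 14 (TM.mk (P.lf 8589934592 0 0) 0)
 EL.nil)
noncomputable def S386_401_512_660_34 : EL := (EL.cons 14 (TM.mk (P.cons (P.cons (P.lf 2650665998 0 0) (P.cons (P.lf 0 181150112 0) (P.cons (P.lf 12111272 0 0) (P.lf 4037088 0 0)))) (P.cons (P.cons (P.lf 530476320 0 0) (P.cons (P.lf 49148888 0 0) (P.cons (P.lf 0 3285976 0) (P.lf 0 1095320 0)))) (P.cons (P.cons (P.lf 0 17696662 0) (P.cons (P.lf 0 4525560 0) (P.cons (P.lf 302560 0 0) (P.lf 100848 0 0)))) (P.cons (P.cons (P.lf 0 1165150 0) (P.cons (P.lf 112152 0 0) (P.cons (P.lf 0 7496 0) P.nil))) (P.cons (P.cons (P.lf 77904 0 0) (P.cons (P.lf 7032 0 0) P.nil)) (P.cons (P.cons (P.lf 0 472 0) P.nil) P.nil)))))) 6074)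
 EL.nil)
noncomputable def S386_401_512_660_35 : EL := (EL.cons 14 (TM.mk (P.cons (P.cons (P.lf 817937570 0 0) (P.cons (P.lf 0 111797926 0) (P.cons (P.lf 11294758 0 0) (P.cons (P.lf 1980692 0 0) (P.cons (P.lf 0 153196 0) (P.cons (P.lf 11384 0 0) P.nil)))))) (P.cons (P.cons (P.lf 327386786 0 0) (P.cons (P.lf 7958486 0 0) (P.cons (P.lf 0 2605050 0) (P.cons (P.lf 99828 0 0) (P.cons (P.lf 83128 0 0) P.nil))))) (P.cons (P.cons (P.lf 21838262 0 0) (P.cons (P.lf 4023854 0 0) (P.cons (P.lf 203060 0 0) (P.cons (P.lf 0 152804 0) P.nil)))) (P.cons (P.cons (P.lf 0 2904814 0) (P.cons (P.lf 0 643108 0) (P.cons (P.lf 0 13520 0) P.nil))) (P.cons (P.cons (P.lf 0 59372 0) (P.cons (P.lf 20218 0 0) P.nil)) (P.cons (P.cons (P.lf 14130 0 0) P.nil) P.nil)))))) 80664)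
 EL.nil)
noncomputable def S386_401_512_660_36 : EL := (EL.cons 14 (TM.mk (P.cons (P.lf 6781871128 0 0) (P.cons (P.lf 173836984 0 0) (P.cons (P.lf 0 10373848 0) (P.cons (P.lf 162856 0 0) (P.cons (P.lf 3464 0 0) (P.cons (P.lf 0 224 0) P.nil)))))) 144)
 EL.nil)
noncomputable def S386_401_512_660_37 : EL := (EL.cons 14 (TM.mk (P.cons (P.cons (P.lf 2092737144 0 0) (P.cons (P.lf 0 143020496 0) (P.cons (P.lf 9562014 0 0) (P.lf 3187336 0 0)))) (P.cons (P.cons (P.lf 472460618 0 0) (P.cons (P.lf 35137732 0 0) (P.cons (P.lf 0 2349222 0) (P.lf 0 783070 0)))) (P.cons (P.cons (P.lf 0 6437496 0) (P.cons (P.lf 0 2359580 0) (P.cons (P.lf 157748 0 0) (P.lf 52578 0 0)))) (P.cons (P.cons (P.lf 0 1868422 0) (P.cons (P.lf 0 65828 0) (P.cons (P.lf 4402 0 0) P.nil))) (P.cons (P.cons (P.lf 70424 0 0) (P.cons (P.lf 14144 0 0) P.nil)) (P.cons (P.cons (P.lf 2420 0 0) P.nil) P.nil))))))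 9760)
 EL.nil)
noncomputable def S386_401_512_660_38 : EL := (EL.cons 14 (TM.mk (P.cons (P.cons (P.lf 645772924 0 0) (P.cons (P.lf 0 88265994 0) (P.cons (P.lf 8917366 0 0) (P.cons (P.lf 1563782 0 0) (P.cons (P.lf 0 120950 0) (P.cons (P.lf 8986 0 0) P.nil)))))) (P.cons (P.cons (P.lf 275029194 0 0) (P.cons (P.lf 4020846 0 0) (P.cons (P.lf 0 1828146 0) (P.cons (P.lf 118898 0 0) (P.cons (P.lf 62530 0 0) P.nil))))) (P.cons (P.cons (P.lf 22879224 0 0) (P.cons (P.lf 3472960 0 0) (P.cons (P.lf 93958 0 0) (P.cons (P.lf 0 121012 0) P.nil)))) (P.cons (P.cons (P.lf 0 2231312 0) (P.cons (P.lf 0 438040 0) (P.cons (P.lf 0 3204 0) P.nil))) (P.cons (P.cons (P.lf 0 125496 0) (P.cons (P.lf 0 1806 0) P.nil)) (P.cons (P.cons (P.lf 13986 0 0) P.nil) P.nil)))))) 73492)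
 EL.nil)
noncomputable def S386_401_512_660_39 : EL := (EL.cons 14 (TM.mk (P.cons (P.lf 5354380234 0 0) (P.cons (P.lf 274493364 0 0) (P.cons (P.lf 0 12862600 0) (P.cons (P.lf 0 162722 0) (P.cons (P.lf 24588 0 0) (P.cons (P.lf 0 606 0) P.nil)))))) 268)
 EL.nil)
noncomputable def S386_401_512_660_40 : EL := (EL.cons 14 (TM.mk (P.cons (P.cons (P.lf 1652244666 0 0) (P.cons (P.lf 0 112916642 0) (P.cons (P.lf 7549342 0 0) (P.lf 2516444 0 0)))) (P.cons (P.cons (P.lf 415365460 0 0) (P.cons (P.lf 24847374 0 0) (P.cons (P.lf 0 1661234 0) (P.lf 0 553740 0)))) (P.cons (P.cons (P.lf 1951482 0 0) (P.cons (P.lf 0 979106 0) (P.cons (P.lf 65454 0 0) (P.lf 21814 0 0)))) (P.cons (P.cons (P.lf 0 2136324 0) (P.cons (P.lf 0 144870 0) (P.cons (P.lf 9686 0 0) P.nil))) (P.cons (P.cons (P.lf 35364 0 0) (P.cons (P.lf 13294 0 0) P.nil)) (P.cons (P.cons (P.lf 5606 0 0) P.nil) P.nil))))))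 10992)
 EL.nil)
noncomputable def S386_401_512_660_41 : EL := (EL.cons 14 (TM.mk (P.cons (P.cons (P.lf 509846578 0 0) (P.cons (P.lf 0 69687212 0) (P.cons (P.lf 7040382 0 0) (P.cons (P.lf 1234628 0 0) (P.cons (P.lf 0 95490 0) (P.cons (P.lf 7096 0 0) P.nil)))))) (P.cons (P.cons (P.lf 230208012 0 0) (P.cons (P.lf 1388248 0 0) (P.cons (P.lf 0 1262884 0) (P.cons (P.lf 125518 0 0) (P.cons (P.lf 46920 0 0) P.nil))))) (P.cons (P.cons (P.lf 22849422 0 0) (P.cons (P.lf 2929918 0 0) (P.cons (P.lf 26414 0 0) (P.cons (P.lf 0 95022 0) P.nil)))) (P.cons (P.cons (P.lf 0 1618540 0) (P.cons (P.lf 0 282084 0) (P.cons (P.lf 1748 0 0) P.nil))) (P.cons (P.cons (P.lf 0 166392 0) (P.cons (P.lf 0 14444 0) P.nil)) (P.cons (P.cons (P.lf 11724 0 0) P.nil) P.nil)))))) 65110)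
 EL.nil)
noncomputable def S386_401_512_660_42 : EL := (EL.cons 14 (TM.mk (P.cons (P.lf 4227356602 0 0) (P.cons (P.lf 325074410 0 0) (P.cons (P.lf 0 11066548 0) (P.cons (P.lf 0 618760 0) (P.cons (P.lf 39016 0 0) (P.cons (P.lf 0 56 0) P.nil)))))) 384)
 EL.nil)
noncomputable def S386_401_512_660_43 : EL := (EL.cons 14 (TM.mk (P.cons (P.cons (P.lf 1304469816 0 0) (P.cons (P.lf 0 89149236 0) (P.cons (P.lf 5960308 0 0) (P.lf 1986768 0 0)))) (P.cons (P.cons (P.lf 361373678 0 0) (P.cons (P.lf 17332216 0 0) (P.cons (P.lf 0 1158788 0) (P.lf 0 386260 0)))) (P.cons (P.cons (P.lf 7951218 0 0) (P.cons (P.lf 0 133808 0) (P.cons (P.lf 8942 0 0) (P.lf 2978 0 0)))) (P.cons (P.cons (P.lf 0 2117466 0) (P.cons (P.lf 0 166340 0) (P.cons (P.lf 11120 0 0) P.nil))) (P.cons (P.cons (P.lf 0 9128 0) (P.cons (P.lf 9172 0 0) P.nil)) (P.cons (P.cons (P.lf 7882 0 0) P.nil) P.nil)))))) 11488)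
 EL.nil)
noncomputable def S386_401_512_660_44 : EL := (EL.cons 14 (TM.mk (P.cons (P.cons (P.lf 402530862 0 0) (P.cons (P.lf 0 55019010 0) (P.cons (P.lf 5558478 0 0) (P.cons (P.lf 974756 0 0) (P.cons (P.lf 0 75392 0) (P.cons (P.lf 5602 0 0) P.nil)))))) (P.cons (P.cons (P.lf 192070294 0 0) (P.cons (P.lf 0 314238 0) (P.cons (P.lf 0 854586 0) (P.cons (P.lf 124084 0 0) (P.cons (P.lf 35112 0 0) P.nil))))) (P.cons (P.cons (P.lf 22082990 0 0) (P.cons (P.lf 2425464 0 0) (P.cons (P.lf 0 13204 0) (P.cons (P.lf 0 73972 0) P.nil)))) (P.cons (P.cons (P.lf 0 1083800 0) (P.cons (P.lf 0 166414 0) (P.cons (P.lf 3572 0 0) P.nil))) (P.cons (P.cons (P.lf 0 187148 0) (P.cons (P.lf 0 20652 0) P.nil)) (P.cons (P.cons (P.lf 8356 0 0) P.nil) P.nil)))))) 57188)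
 EL.nil)
noncomputable def S386_401_512_660_45 : EL := (EL.cons 14 (TM.mk (P.cons (P.cons (P.lf 252397650 0 0) (P.cons (P.lf 0 51747592 0) (P.cons (P.lf 6996222 0 0) (P.cons (P.lf 599792 0 0) (P.cons (P.lf 0 125660 0) (P.cons (P.lf 14844 0 0) P.nil)))))) (P.cons (P.cons (P.lf 151536606 0 0) (P.cons (P.lf 0 6672494 0) (P.cons (P.lf 0 765150 0) (P.cons (P.lf 376240 0 0) (P.cons (P.lf 35420 0 0) P.nil))))) (P.cons (P.cons (P.lf 25271682 0 0) (P.cons (P.lf 2945214 0 0) (P.cons (P.lf 0 167544 0) (P.cons (P.lf 0 93392 0) P.nil)))) (P.cons (P.cons (P.lf 0 333142 0) (P.cons (P.lf 73222 0 0) (P.cons (P.lf 41502 0 0) P.nil))) (P.cons (P.cons (P.lf 0 279688 0) (P.cons (P.lf 0 65788 0) P.nil)) (P.cons (P.cons (P.lf 6640 0 0) P.nil) P.nil)))))) 107532)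
 EL.nil)
noncomputable def S386_401_512_660_46 : EL := (EL.cons 15 (TM.mk (P.lf 4294967296 0 0) 0)
 EL.nil)
noncomputable def S386_401_512_660_47 : EL := (EL.cons 15 (TM.mk (P.cons (P.cons (P.lf 1325332999 0 0) (P.cons (P.lf 0 90575056 0) (P.cons (P.lf 6055636 0 0) (P.lf 2018544 0 0)))) (P.cons (P.cons (P.lf 265238160 0 0) (P.cons (P.lf 24574444 0 0) (P.cons (P.lf 0 1642988 0) (P.lf 0 547660 0)))) (P.cons (P.cons (P.lf 0 8848331 0) (P.cons (P.lf 0 2262780 0) (P.cons (P.lf 151280 0 0) (P.lf 50424 0 0)))) (P.cons (P.cons (P.lf 0 582575 0) (P.cons (P.lf 56076 0 0) (P.cons (P.lf 0 3748 0) P.nil))) (P.cons (P.cons (P.lf 38952 0 0) (P.cons (P.lf 3516 0 0) P.nil)) (P.cons (P.cons (P.lf 0 236 0) P.nil) P.nil)))))) 3037)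
 EL.nil)
noncomputable def S386_401_512_660_48 : EL := (EL.cons 15 (TM.mk (P.cons (P.cons (P.lf 408968785 0 0) (P.cons (P.lf 0 55898963 0) (P.cons (P.lf 5647379 0 0) (P.cons (P.lf 990346 0 0) (P.cons (P.lf 0 76598 0) (P.cons (P.lf 5692 0 0) P.nil)))))) (P.cons (P.cons (P.lf 163693393 0 0) (P.cons (P.lf 3979243 0 0) (P.cons (P.lf 0 1302525 0) (P.cons (P.lf 49914 0 0) (P.cons (P.lf 41564 0 0) P.nil))))) (P.cons (P.cons (P.lf 10919131 0 0) (P.cons (P.lf 2011927 0 0) (P.cons (P.lf 101530 0 0) (P.cons (P.lf 0 76402 0) P.nil)))) (P.cons (P.cons (P.lf 0 1452407 0) (P.cons (P.lf 0 321554 0) (P.cons (P.lf 0 6760 0) P.nil))) (P.cons (P.cons (P.lf 0 29686 0) (P.cons (P.lf 10109 0 0) P.nil)) (P.cons (P.cons (P.lf 7065 0 0) P.nil) P.nil)))))) 40332)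
 EL.nil)
noncomputable def S386_401_512_660 : SL := (SL.cons S386_401_512_660_0 (SL.cons S386_401_512_660_1 (SL.cons S386_401_512_660_2 (SL.cons S386_401_512_660_3 (SL.cons S386_401_512_660_4 (SL.cons S386_401_512_660_5 (SL.cons S386_401_512_660_6 (SL.cons S386_401_512_660_7 (SL.cons S386_401_512_660_8 (SL.cons S386_401_512_660_9 (SL.cons S386_401_512_660_10 (SL.cons S386_401_512_660_11 (SL.cons S386_401_512_660_12 (SL.cons S386_401_512_660_13 (SL.cons S386_401_512_660_14 (SL.cons S386_401_512_660_15 (SL.cons S386_401_512_660_16 (SL.cons S386_401_512_660_17 (SL.cons S386_401_512_660_18 (SL.cons S386_401_512_660_19 (SL.cons S386_401_512_660_20 (SL.cons S386_401_512_660_21 (SL.cons S386_401_512_660_22 (SL.cons S386_401_512_660_23 (SL.cons S386_401_512_660_24 (SL.cons S386_401_512_660_25 (SL.cons S386_401_512_660_26 (SL.cons S386_401_512_660_27 (SL.cons S386_401_512_660_28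 (SL.cons S386_401_512_660_29 (SL.cons S386_401_512_660_30 (SL.cons S386_401_512_660_31 (SL.cons S386_401_512_660_32 (SL.cons S386_401_512_660_33 (SL.cons S386_401_512_660_34 (SL.cons S386_401_512_660_35 (SL.cons S386_401_512_660_36 (SL.cons S386_401_512_660_37 (SL.cons S386_401_512_660_38 (SL.cons S386_401_512_660_39 (SL.cons S386_401_512_660_40 (SL.cons S386_401_512_660_41 (SL.cons S386_401_512_660_42 (SL.cons S386_401_512_660_43 (SL.cons S386_401_512_660_44 (SL.cons S386_401_512_660_45 (SL.cons S386_401_512_660_46 (SL.cons S386_401_512_660_47 (SL.cons S386_401_512_660_48 SL.nil)))))))))))))))))))))))))))))))))))))))))))))))))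
noncomputable def S386_401_660_808_0 : EL := (EL.cons 0 (TM.mk (P.cons (P.lf 3749718611 0 0) (P.cons (P.lf 0 241253933 0) (P.cons (P.lf 11305019 0 0) (P.cons (P.lf 143017 0 0) (P.cons (P.lf 0 21610 0) (P.cons (P.lf 532 0 0) P.nil)))))) 242)
 (EL.cons 1 (TM.mk (P.cons (P.lf 1493911567 0 0) (P.cons (P.lf 0 96814440 0) (P.cons (P.lf 0 5526710 0) (P.cons (P.lf 348346 0 0) (P.cons (P.lf 0 3322 0) (P.cons (P.lf 0 335 0) P.nil)))))) 136)
 (EL.cons 5 (TM.mk (P.cons (P.lf 5968211122 0 0) (P.cons (P.lf 85779174 0 0) (P.cons (P.lf 0 4019562 0) (P.cons (P.lf 0 50846 0) (P.cons (P.lf 7688 0 0) (P.cons (P.lf 0 190 0) P.nil)))))) 71)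
 (EL.cons 9 (TM.mk (P.lf 6442450944 0 0) 2)
 EL.nil))))
noncomputable def S386_401_660_808_1 : EL := (EL.cons 0 (TM.mk (P.cons (P.cons (P.lf 4710398115 0 0) (P.cons (P.lf 101703907 0 0) (P.cons (P.lf 0 43855866 0) (P.lf 0 4872864 0)))) (P.cons (P.cons (P.lf 0 233198843 0) (P.cons (P.lf 0 18127888 0) (P.cons (P.lf 7816943 0 0) (P.lf 868538 0 0)))) (P.cons (P.cons (P.lf 0 49563589 0) (P.cons (P.lf 0 471046 0) (P.cons (P.lf 203123 0 0) (P.lf 22589 0 0)))) (P.cons (P.cons (P.lf 5609408 0 0) (P.cons (P.lf 288255 0 0) (P.cons (P.lf 0 124288 0) P.nil))) (P.cons (P.cons (P.lf 0 8462 0) (P.cons (P.lf 0 18501 0) P.nil)) (P.cons (P.cons (P.lf 0 20853 0) P.nil) P.nil)))))) 52877)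
 (EL.cons 1 (TM.mk (P.cons (P.cons (P.lf 1887278596 0 0) (P.cons (P.lf 40919787 0 0) (P.cons (P.lf 0 17645073 0) (P.lf 0 1960566 0)))) (P.cons (P.cons (P.lf 212343581 0 0) (P.cons (P.lf 4249713 0 0) (P.cons (P.lf 0 1832520 0) (P.lf 0 203609 0)))) (P.cons (P.cons (P.lf 0 43196497 0) (P.cons (P.lf 0 2048238 0) (P.cons (P.lf 883223 0 0) (P.lf 98121 0 0)))) (P.cons (P.cons (P.lf 0 597472 0) (P.cons (P.lf 120903 0 0) (P.cons (P.lf 0 52133 0) P.nil))) (P.cons (P.cons (P.lf 239484 0 0) (P.cons (P.lf 6161 0 0) P.nil)) (P.cons (P.cons (P.lf 0 7006 0) P.nil) P.nil)))))) 21713)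
 (EL.cons 5 (TM.mk (P.cons (P.cons (P.lf 338933242 0 0) (P.cons (P.lf 0 107782318 0) (P.cons (P.lf 46476954 0 0) (P.lf 5164104 0 0)))) (P.cons (P.cons (P.lf 598752578 0 0) (P.cons (P.lf 25877360 0 0) (P.cons (P.lf 0 11158608 0) (P.lf 0 1239838 0)))) (P.cons (P.cons (P.lf 0 3398470 0) (P.cons (P.lf 0 1621778 0) (P.cons (P.lf 699326 0 0) (P.lf 77696 0 0)))) (P.cons (P.cons (P.lf 0 2836652 0) (P.cons (P.lf 0 58146 0) (P.cons (P.lf 25064 0 0) P.nil))) (P.cons (P.cons (P.lf 78534 0 0) (P.cons (P.lf 9358 0 0) P.nil)) (P.cons (P.cons (P.lf 6328 0 0) P.nil) P.nil)))))) 16758)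
 (EL.cons 9 (TM.mk (P.cons (P.cons (P.lf 1776830698 0 0) (P.cons (P.lf 0 63194934 0) (P.cons (P.lf 27250368 0 0) (P.lf 3027816 0 0)))) (P.cons (P.cons (P.lf 455150670 0 0) (P.cons (P.lf 17145780 0 0) (P.cons (P.lf 0 7393452 0) (P.lf 0 821490 0)))) (P.cons (P.cons (P.lf 0 18548002 0) (P.cons (P.lf 0 1578756 0) (P.cons (P.lf 680778 0 0) (P.lf 75636 0 0)))) (P.cons (P.cons (P.lf 0 743122 0) (P.cons (P.lf 39120 0 0) (P.cons (P.lf 0 16872 0) P.nil))) (P.cons (P.cons (P.lf 66624 0 0) (P.cons (P.lf 2448 0 0) P.nil)) (P.cons (P.cons (P.lf 0 954 0) P.nil) P.nil)))))) 5216)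
 (EL.cons 2 (TM.mk (P.cons (P.cons (P.lf 0 207980915 0) (P.cons (P.lf 193753462 0 0) (P.cons (P.lf 19885404 0 0) (P.cons (P.lf 0 4135609 0) (P.lf 0 344632 0))))) (P.cons (P.cons (P.lf 32287913 0 0) (P.cons (P.lf 0 30079178 0) (P.cons (P.lf 0 3087098 0) (P.cons (P.lf 642029 0 0) (P.lf 53502 0 0))))) (P.cons (P.cons (P.lf 0 480391 0) (P.cons (P.lf 447530 0 0) (P.cons (P.lf 45928 0 0) (P.cons (P.lf 0 9548 0) P.nil)))) (P.cons (P.cons (P.lf 0 130019 0) (P.cons (P.lf 121125 0 0) (P.cons (P.lf 12431 0 0) P.nil))) (P.cons (P.cons (P.lf 6291 0 0) (P.cons (P.lf 0 5861 0) P.nil)) (P.cons (P.cons (P.lf 19 0 0) P.nil) P.nil)))))) 9271)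
 (EL.cons 6 (TM.mk (P.cons (P.cons (P.lf 66023205 0 0) (P.cons (P.lf 0 61506723 0) (P.cons (P.lf 0 6312588 0) (P.cons (P.lf 1312842 0 0) (P.lf 109401 0 0))))) (P.cons (P.cons (P.lf 0 17913138 0) (P.cons (P.lf 16687746 0 0) (P.cons (P.lf 1712703 0 0) (P.cons (P.lf 0 356193 0) (P.lf 0 29682 0))))) (P.cons (P.cons (P.lf 1649418 0 0) (P.cons (P.lf 0 1536585 0) (P.cons (P.lf 0 157701 0) (P.cons (P.lf 32796 0 0) P.nil)))) (P.cons (P.cons (P.lf 0 40875 0) (P.cons (P.lf 38079 0 0) (P.cons (P.lf 3906 0 0) P.nil))) (P.cons (P.cons (P.lf 0 2562 0) (P.cons (P.lf 2385 0 0) P.nil)) (P.cons (P.cons (P.lf 186 0 0) P.nil) P.nil)))))) 4746)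
 EL.nil))))))
noncomputable def S386_401_660_808_2 : EL := (EL.cons 0 (TM.mk (P.cons (P.cons (P.lf 2313033960 0 0) (P.cons (P.lf 0 16021273 0) (P.cons (P.lf 4552507 0 0) (P.cons (P.lf 2799524 0 0) (P.cons (P.lf 0 212319 0) (P.cons (P.lf 0 97344 0) P.nil)))))) (P.cons (P.cons (P.lf 409159282 0 0) (P.cons (P.lf 32405486 0 0) (P.cons (P.lf 0 12857627 0) (P.cons (P.lf 0 2515061 0) (P.cons (P.lf 100561 0 0) P.nil))))) (P.cons (P.cons (P.lf 0 91631631 0) (P.cons (P.lf 0 7018428 0) (P.cons (P.lf 2831049 0 0) (P.cons (P.lf 504754 0 0) P.nil)))) (P.cons (P.cons (P.lf 0 1519394 0) (P.cons (P.lf 208832 0 0) (P.cons (P.lf 0 79305 0) P.nil))) (P.cons (P.cons (P.lf 1077276 0 0) (P.cons (P.lf 74159 0 0) P.nil)) (P.cons (P.cons (P.lf 0 42368 0) P.nil) P.nil)))))) 492004)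
 (EL.cons 1 (TM.mk (P.cons (P.cons (P.lf 927388788 0 0) (P.cons (P.lf 0 6370629 0) (P.cons (P.lf 1800566 0 0) (P.cons (P.lf 1121527 0 0) (P.cons (P.lf 0 85300 0) (P.cons (P.lf 0 39112 0) P.nil)))))) (P.cons (P.cons (P.lf 332943126 0 0) (P.cons (P.lf 13359345 0 0) (P.cons (P.lf 0 5538952 0) (P.cons (P.lf 0 831316 0) (P.cons (P.lf 19986 0 0) P.nil))))) (P.cons (P.cons (P.lf 0 5581478 0) (P.cons (P.lf 0 178426 0) (P.cons (P.lf 97401 0 0) (P.cons (P.lf 0 9101 0) P.nil)))) (P.cons (P.cons (P.lf 0 6870057 0) (P.cons (P.lf 0 458609 0) (P.cons (P.lf 185850 0 0) P.nil))) (P.cons (P.cons (P.lf 249843 0 0) (P.cons (P.lf 44267 0 0) P.nil)) (P.cons (P.cons (P.lf 40298 0 0) P.nil) P.nil)))))) 211964)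
 (EL.cons 5 (TM.mk (P.cons (P.cons (P.lf 0 267021325 0) (P.cons (P.lf 0 33809710 0) (P.cons (P.lf 16119365 0 0) (P.cons (P.lf 291571 0 0) (P.cons (P.lf 138801 0 0) (P.cons (P.lf 63642 0 0) P.nil)))))) (P.cons (P.cons (P.lf 139057519 0 0) (P.cons (P.lf 0 10923148 0) (P.cons (P.lf 3932174 0 0) (P.cons (P.lf 1194323 0 0) (P.cons (P.lf 0 70106 0) P.nil))))) (P.cons (P.cons (P.lf 57428124 0 0) (P.cons (P.lf 4666549 0 0) (P.cons (P.lf 0 1855987 0) (P.cons (P.lf 0 358360 0) P.nil)))) (P.cons (P.cons (P.lf 0 2894550 0) (P.cons (P.lf 0 397972 0) (P.cons (P.lf 157396 0 0) P.nil))) (P.cons (P.cons (P.lf 0 399844 0) (P.cons (P.lf 0 14216 0) P.nil)) (P.cons (P.cons (P.lf 29985 0 0) P.nil) P.nil)))))) 199059)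
 (EL.cons 9 (TM.mk (P.cons (P.cons (P.lf 490050658 0 0) (P.cons (P.lf 0 34858378 0) (P.cons (P.lf 15651213 0 0) (P.cons (P.lf 1135539 0 0) (P.cons (P.lf 55863 0 0) (P.cons (P.lf 25614 0 0) P.nil)))))) (P.cons (P.cons (P.lf 251061495 0 0) (P.cons (P.lf 528348 0 0) (P.cons (P.lf 0 564199 0) (P.cons (P.lf 264781 0 0) (P.cons (P.lf 0 30312 0) P.nil))))) (P.cons (P.cons (P.lf 21924700 0 0) (P.cons (P.lf 1915689 0 0) (P.cons (P.lf 0 749461 0) (P.cons (P.lf 0 157852 0) P.nil)))) (P.cons (P.cons (P.lf 0 3030690 0) (P.cons (P.lf 0 285642 0) (P.cons (P.lf 114000 0 0) P.nil))) (P.cons (P.cons (P.lf 0 14850 0) (P.cons (P.lf 10705 0 0) P.nil)) (P.cons (P.cons (P.lf 13165 0 0) P.nil) P.nil)))))) 85009)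
 (EL.cons 2 (TM.mk (P.cons (P.cons (P.lf 0 114722448 0) (P.cons (P.lf 110954801 0 0) (P.cons (P.lf 5408251 0 0) (P.cons (P.lf 0 1227735 0) (P.cons (P.lf 241374 0 0) (P.cons (P.lf 0 9528 0) P.nil)))))) (P.cons (P.cons (P.lf 0 11577110 0) (P.cons (P.lf 9044685 0 0) (P.cons (P.lf 3478815 0 0) (P.cons (P.lf 0 679573 0) (P.cons (P.lf 0 203231 0) P.nil))))) (P.cons (P.cons (P.lf 5494775 0 0) (P.cons (P.lf 0 4835671 0) (P.cons (P.lf 0 911334 0) (P.cons (P.lf 182385 0 0) P.nil)))) (P.cons (P.cons (P.lf 0 277531 0) (P.cons (P.lf 240187 0 0) (P.cons (P.lf 51547 0 0) P.nil))) (P.cons (P.cons (P.lf 0 23883 0) (P.cons (P.lf 21903 0 0) P.nil)) (P.cons (P.cons (P.lf 2486 0 0) P.nil) P.nil)))))) 121696)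
 (EL.cons 6 (TM.mk (P.cons (P.cons (P.lf 36418452 0 0) (P.cons (P.lf 0 35222418 0) (P.cons (P.lf 0 1716840 0) (P.cons (P.lf 389736 0 0) (P.cons (P.lf 0 76620 0) (P.cons (P.lf 3024 0 0) P.nil)))))) (P.cons (P.cons (P.lf 0 551994 0) (P.cons (P.lf 1217088 0 0) (P.cons (P.lf 0 905064 0) (P.cons (P.lf 170490 0 0) (P.cons (P.lf 73404 0 0) P.nil))))) (P.cons (P.cons (P.lf 0 2001420 0) (P.cons (P.lf 1704444 0 0) (P.cons (P.lf 409494 0 0) (P.cons (P.lf 0 81120 0) P.nil)))) (P.cons (P.cons (P.lf 298422 0 0) (P.cons (P.lf 0 258840 0) (P.cons (P.lf 0 54642 0) P.nil))) (P.cons (P.cons (P.lf 0 11190 0) (P.cons (P.lf 9276 0 0) P.nil)) (P.cons (P.cons (P.lf 0 792 0) P.nil) P.nil)))))) 61008)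
 EL.nil))))))
noncomputable def S386_401_660_808_3 : EL := (EL.cons 0 (TM.mk (P.cons (P.lf 4705998252 0 0) (P.cons (P.lf 241253933 0 0) (P.cons (P.lf 0 11305019 0) (P.cons (P.lf 0 143017 0) (P.cons (P.lf 21610 0 0) (P.cons (P.lf 0 532 0) P.nil)))))) 242)
 (EL.cons 1 (TM.mk (P.cons (P.lf 0 1493911567 0) (P.cons (P.lf 96814440 0 0) (P.cons (P.lf 5526710 0 0) (P.cons (P.lf 0 348346 0) (P.cons (P.lf 3322 0 0) (P.cons (P.lf 335 0 0) P.nil)))))) 136)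
 (EL.cons 5 (TM.mk (P.cons (P.lf 474239822 0 0) (P.cons (P.lf 0 85779174 0) (P.cons (P.lf 4019562 0 0) (P.cons (P.lf 50846 0 0) (P.cons (P.lf 0 7688 0) (P.cons (P.lf 190 0 0) P.nil)))))) 64)
 EL.nil)))
noncomputable def S386_401_660_808_4 : EL := (EL.cons 0 (TM.mk (P.cons (P.cons (P.lf 1297916309 0 0) (P.cons (P.lf 0 46161817 0) (P.cons (P.lf 19905495 0 0) (P.lf 2211718 0 0)))) (P.cons (P.cons (P.lf 399010512 0 0) (P.cons (P.lf 10157932 0 0) (P.cons (P.lf 0 4380213 0) (P.lf 0 486685 0)))) (P.cons (P.cons (P.lf 377637 0 0) (P.cons (P.lf 0 400267 0) (P.cons (P.lf 172599 0 0) (P.lf 19172 0 0)))) (P.cons (P.cons (P.lf 0 2075531 0) (P.cons (P.lf 0 59227 0) (P.cons (P.lf 25537 0 0) P.nil))) (P.cons (P.cons (P.lf 49241 0 0) (P.cons (P.lf 5429 0 0) P.nil)) (P.cons (P.cons (P.lf 4891 0 0) P.nil) P.nil)))))) 11349)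
 (EL.cons 1 (TM.mk (P.cons (P.cons (P.lf 0 412021441 0) (P.cons (P.lf 14653993 0 0) (P.cons (P.lf 0 6318967 0) (P.lf 0 702105 0)))) (P.cons (P.cons (P.lf 0 78841419 0) (P.cons (P.lf 0 4925525 0) (P.cons (P.lf 2123940 0 0) (P.lf 235991 0 0)))) (P.cons (P.cons (P.lf 12665096 0 0) (P.cons (P.lf 569536 0 0) (P.cons (P.lf 0 245589 0) (P.lf 0 27285 0)))) (P.cons (P.cons (P.lf 187966 0 0) (P.cons (P.lf 0 14670 0) (P.cons (P.lf 6326 0 0) P.nil))) (P.cons (P.cons (P.lf 0 66219 0) (P.cons (P.lf 0 2293 0) P.nil)) (P.cons (P.cons (P.lf 1914 0 0) P.nil) P.nil)))))) 4607)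
 (EL.cons 5 (TM.mk (P.cons (P.cons (P.lf 130795542 0 0) (P.cons (P.lf 0 4651886 0) (P.cons (P.lf 2005944 0 0) (P.lf 222882 0 0)))) (P.cons (P.cons (P.lf 9846484 0 0) (P.cons (P.lf 2103550 0 0) (P.cons (P.lf 0 907074 0) (P.lf 0 100784 0)))) (P.cons (P.cons (P.lf 0 6316938 0) (P.cons (P.lf 0 383932 0) (P.cons (P.lf 165556 0 0) (P.lf 18394 0 0)))) (P.cons (P.cons (P.lf 490258 0 0) (P.cons (P.lf 34098 0 0) (P.cons (P.lf 0 14702 0) P.nil))) (P.cons (P.cons (P.lf 4698 0 0) (P.cons (P.lf 0 1114 0) P.nil)) (P.cons (P.cons (P.lf 0 2056 0) P.nil) P.nil)))))) 3058)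
 EL.nil)))
noncomputable def S386_401_660_808_5 : EL := (EL.cons 0 (TM.mk (P.cons (P.cons (P.lf 357965866 0 0) (P.cons (P.lf 0 25462896 0) (P.cons (P.lf 11432694 0 0) (P.cons (P.lf 829473 0 0) (P.cons (P.lf 40805 0 0) (P.cons (P.lf 18710 0 0) P.nil)))))) (P.cons (P.cons (P.lf 201743344 0 0) (P.cons (P.lf 0 919418 0) (P.cons (P.lf 173968 0 0) (P.cons (P.lf 235937 0 0) (P.cons (P.lf 0 20049 0) P.nil))))) (P.cons (P.cons (P.lf 24556979 0 0) (P.cons (P.lf 1480301 0 0) (P.cons (P.lf 0 596047 0) (P.cons (P.lf 0 107383 0) P.nil)))) (P.cons (P.cons (P.lf 0 1844226 0) (P.cons (P.lf 0 137067 0) (P.cons (P.lf 55849 0 0) P.nil))) (P.cons (P.cons (P.lf 0 166740 0) (P.cons (P.lf 0 6366 0) P.nil)) (P.cons (P.cons (P.lf 14693 0 0) P.nil) P.nil)))))) 82064)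
 (EL.cons 1 (TM.mk (P.cons (P.cons (P.lf 0 113635687 0) (P.cons (P.lf 8083155 0 0) (P.cons (P.lf 0 3629289 0) (P.cons (P.lf 0 263313 0) (P.cons (P.lf 0 12952 0) (P.cons (P.lf 0 5938 0) P.nil)))))) (P.cons (P.cons (P.lf 0 50853268 0) (P.cons (P.lf 0 646351 0) (P.cons (P.lf 366028 0 0) (P.cons (P.lf 0 44332 0) (P.cons (P.lf 7867 0 0) P.nil))))) (P.cons (P.cons (P.lf 0 890780 0) (P.cons (P.lf 0 466183 0) (P.cons (P.lf 178736 0 0) (P.cons (P.lf 41555 0 0) P.nil)))) (P.cons (P.cons (P.lf 1221125 0 0) (P.cons (P.lf 97361 0 0) (P.cons (P.lf 0 39026 0) P.nil))) (P.cons (P.cons (P.lf 0 36613 0) (P.cons (P.lf 0 5176 0) P.nil)) (P.cons (P.cons (P.lf 0 6905 0) P.nil) P.nil)))))) 32129)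
 (EL.cons 5 (TM.mk (P.cons (P.cons (P.lf 36073464 0 0) (P.cons (P.lf 0 2565984 0) (P.cons (P.lf 1152112 0 0) (P.cons (P.lf 83588 0 0) (P.cons (P.lf 4110 0 0) (P.cons (P.lf 1884 0 0) P.nil)))))) (P.cons (P.cons (P.lf 11956196 0 0) (P.cons (P.lf 503020 0 0) (P.cons (P.lf 0 249922 0) (P.cons (P.lf 4370 0 0) (P.cons (P.lf 0 2974 0) P.nil))))) (P.cons (P.cons (P.lf 0 1423136 0) (P.cons (P.lf 112232 0 0) (P.cons (P.lf 0 37890 0) (P.cons (P.lf 0 14436 0) P.nil)))) (P.cons (P.cons (P.lf 0 354504 0) (P.cons (P.lf 0 46478 0) (P.cons (P.lf 18140 0 0) P.nil))) (P.cons (P.cons (P.lf 54334 0 0) (P.cons (P.lf 5830 0 0) P.nil)) (P.cons (P.cons (P.lf 0 836 0) P.nil) P.nil)))))) 13394)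
 EL.nil)))
noncomputable def S386_401_660_808_6 : EL := (EL.cons 12 (TM.mk (P.lf 8589934592 0 0) 0)
 (EL.cons 3 (TM.mk (P.cons (P.lf 3179002091 0 0) (P.cons (P.lf 81486086 0 0) (P.cons (P.lf 0 4862741 0) (P.cons (P.lf 76338 0 0) (P.cons (P.lf 1623 0 0) (P.cons (P.lf 0 105 0) P.nil)))))) 74)
 (EL.cons 7 (TM.mk (P.cons (P.lf 0 1009169096 0) (P.cons (P.lf 91267844 0 0) (P.cons (P.lf 0 149690 0) (P.cons (P.lf 0 67638 0) (P.cons (P.lf 2074 0 0) (P.cons (P.lf 0 6 0) P.nil)))))) 46)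
 EL.nil)))
noncomputable def S386_401_660_808_7 : EL := (EL.cons 12 (TM.mk (P.cons (P.cons (P.lf 2369107598 0 0) (P.cons (P.lf 0 84259912 0) (P.cons (P.lf 36333824 0 0) (P.lf 4037088 0 0)))) (P.cons (P.cons (P.lf 606867560 0 0) (P.cons (P.lf 22861040 0 0) (P.cons (P.lf 0 9857936 0) (P.lf 0 1095320 0)))) (P.cons (P.cons (P.lf 0 24730670 0) (P.cons (P.lf 0 2105008 0) (P.cons (P.lf 907704 0 0) (P.lf 100848 0 0)))) (P.cons (P.cons (P.lf 0 990830 0) (P.cons (P.lf 52160 0 0) (P.cons (P.lf 0 22496 0) P.nil))) (P.cons (P.cons (P.lf 88832 0 0) (P.cons (P.lf 3264 0 0) P.nil)) (P.cons (P.cons (P.lf 0 1272 0) P.nil) P.nil)))))) 6930)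
 (EL.cons 3 (TM.mk (P.cons (P.cons (P.lf 3360137857 0 0) (P.cons (P.lf 62366580 0 0) (P.cons (P.lf 0 26893172 0) (P.lf 0 2988126 0)))) (P.cons (P.cons (P.lf 0 108126121 0) (P.cons (P.lf 0 15322416 0) (P.cons (P.lf 6607196 0 0) (P.lf 734128 0 0)))) (P.cons (P.cons (P.lf 0 8614629 0) (P.cons (P.lf 1028932 0 0) (P.cons (P.lf 0 443686 0) (P.lf 0 49290 0)))) (P.cons (P.cons (P.lf 1618744 0 0) (P.cons (P.lf 28710 0 0) (P.cons (P.lf 0 12376 0) P.nil))) (P.cons (P.cons (P.lf 0 52051 0) (P.cons (P.lf 0 6162 0) P.nil)) (P.cons (P.cons (P.lf 0 2451 0) P.nil) P.nil)))))) 21953)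
 (EL.cons 7 (TM.mk (P.cons (P.cons (P.lf 2503147109 0 0) (P.cons (P.lf 114678888 0 0) (P.cons (P.lf 0 49450829 0) (P.lf 0 5494536 0)))) (P.cons (P.cons (P.lf 0 121105814 0) (P.cons (P.lf 0 17161758 0) (P.cons (P.lf 7400345 0 0) (P.lf 822260 0 0)))) (P.cons (P.cons (P.lf 0 16677187 0) (P.cons (P.lf 156463 0 0) (P.cons (P.lf 0 67467 0) (P.lf 0 7499 0)))) (P.cons (P.cons (P.lf 710406 0 0) (P.cons (P.lf 70874 0 0) (P.cons (P.lf 0 30560 0) P.nil))) (P.cons (P.cons (P.lf 34640 0 0) (P.cons (P.lf 0 2192 0) P.nil)) (P.cons (P.cons (P.lf 0 2867 0) P.nil) P.nil)))))) 12178)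
 (EL.cons 10 (TM.mk (P.cons (P.cons (P.lf 0 280991082 0) (P.cons (P.lf 261769188 0 0) (P.cons (P.lf 26866032 0 0) (P.cons (P.lf 0 5587386 0) (P.lf 0 465615 0))))) (P.cons (P.cons (P.lf 50824881 0 0) (P.cons (P.lf 0 47348079 0) (P.cons (P.lf 0 4859451 0) (P.cons (P.lf 1010631 0 0) (P.lf 84219 0 0))))) (P.cons (P.cons (P.lf 0 2381622 0) (P.cons (P.lf 2218701 0 0) (P.cons (P.lf 227709 0 0) (P.cons (P.lf 0 47355 0) P.nil)))) (P.cons (P.cons (P.lf 0 30126 0) (P.cons (P.lf 28065 0 0) (P.cons (P.lf 2880 0 0) P.nil))) (P.cons (P.cons (P.lf 4554 0 0) (P.cons (P.lf 0 4242 0) P.nil)) (P.cons (P.cons (P.lf 0 111 0) P.nil) P.nil)))))) 5421)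
 EL.nil))))
noncomputable def S386_401_660_808_8 : EL := (EL.cons 12 (TM.mk (P.cons (P.cons (P.lf 653400878 0 0) (P.cons (P.lf 0 46477838 0) (P.cons (P.lf 20868284 0 0) (P.cons (P.lf 1514052 0 0) (P.cons (P.lf 74484 0 0) (P.cons (P.lf 34152 0 0) P.nil)))))) (P.cons (P.cons (P.lf 334748660 0 0) (P.cons (P.lf 704464 0 0) (P.cons (P.lf 0 752266 0) (P.cons (P.lf 353042 0 0) (P.cons (P.lf 0 40416 0) P.nil))))) (P.cons (P.cons (P.lf 29232934 0 0) (P.cons (P.lf 2554252 0 0) (P.cons (P.lf 0 999282 0) (P.cons (P.lf 0 210470 0) P.nil)))) (P.cons (P.cons (P.lf 0 4040920 0) (P.cons (P.lf 0 380856 0) (P.cons (P.lf 152000 0 0) P.nil))) (P.cons (P.cons (P.lf 0 19800 0) (P.cons (P.lf 14274 0 0) P.nil)) (P.cons (P.cons (P.lf 17554 0 0) P.nil) P.nil)))))) 113316)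
 (EL.cons 3 (TM.mk (P.cons (P.cons (P.lf 1611641314 0 0) (P.cons (P.lf 0 14317969 0) (P.cons (P.lf 4644663 0 0) (P.cons (P.lf 2005000 0 0) (P.cons (P.lf 0 137825 0) (P.cons (P.lf 0 63196 0) P.nil)))))) (P.cons (P.cons (P.lf 285052541 0 0) (P.cons (P.lf 20546987 0 0) (P.cons (P.lf 0 8069386 0) (P.cons (P.lf 0 1666371 0) (P.cons (P.lf 71256 0 0) P.nil))))) (P.cons (P.cons (P.lf 0 53001908 0) (P.cons (P.lf 0 4988214 0) (P.cons (P.lf 1985588 0 0) (P.cons (P.lf 381627 0 0) P.nil)))) (P.cons (P.cons (P.lf 924965 0 0) (P.cons (P.lf 368783 0 0) (P.cons (P.lf 0 142546 0) P.nil))) (P.cons (P.cons (P.lf 403166 0 0) (P.cons (P.lf 14434 0 0) P.nil)) (P.cons (P.cons (P.lf 0 28182 0) P.nil) P.nil)))))) 263171)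
 (EL.cons 7 (TM.mk (P.cons (P.cons (P.lf 1457501394 0 0) (P.cons (P.lf 8689159 0 0) (P.cons (P.lf 0 5899563 0) (P.cons (P.lf 1440218 0 0) (P.cons (P.lf 0 193994 0) (P.cons (P.lf 0 88948 0) P.nil)))))) (P.cons (P.cons (P.lf 319270839 0 0) (P.cons (P.lf 23013486 0 0) (P.cons (P.lf 0 9038053 0) (P.cons (P.lf 0 1866399 0) (P.cons (P.lf 79807 0 0) P.nil))))) (P.cons (P.cons (P.lf 0 40835288 0) (P.cons (P.lf 0 4251401 0) (P.cons (P.lf 1699407 0 0) (P.cons (P.lf 319115 0 0) P.nil)))) (P.cons (P.cons (P.lf 0 2619067 0) (P.cons (P.lf 48380 0 0) (P.cons (P.lf 0 14141 0) P.nil))) (P.cons (P.cons (P.lf 338820 0 0) (P.cons (P.lf 31722 0 0) P.nil)) (P.cons (P.cons (P.lf 2172 0 0) P.nil) P.nil)))))) 171308)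
 (EL.cons 10 (TM.mk (P.cons (P.cons (P.lf 0 154994916 0) (P.cons (P.lf 149904666 0 0) (P.cons (P.lf 7306782 0 0) (P.cons (P.lf 0 1658718 0) (P.cons (P.lf 326106 0 0) (P.cons (P.lf 0 12876 0) P.nil)))))) (P.cons (P.cons (P.lf 0 11668248 0) (P.cons (P.lf 8377308 0 0) (P.cons (P.lf 4512738 0 0) (P.cons (P.lf 0 875616 0) (P.cons (P.lf 0 282936 0) P.nil))))) (P.cons (P.cons (P.lf 7485678 0 0) (P.cons (P.lf 0 6518634 0) (P.cons (P.lf 0 1335750 0) (P.cons (P.lf 266316 0 0) P.nil)))) (P.cons (P.cons (P.lf 0 580962 0) (P.cons (P.lf 500808 0 0) (P.cons (P.lf 110610 0 0) P.nil))) (P.cons (P.cons (P.lf 0 5562 0) (P.cons (P.lf 6504 0 0) P.nil)) (P.cons (P.cons (P.lf 2436 0 0) P.nil) P.nil)))))) 179382)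
 EL.nil))))
noncomputable def S386_401_660_808_9 : EL := (EL.cons 3 (TM.mk (P.cons (P.lf 3179002091 0 0) (P.cons (P.lf 81486086 0 0) (P.cons (P.lf 0 4862741 0) (P.cons (P.lf 76338 0 0) (P.cons (P.lf 1623 0 0) (P.cons (P.lf 0 105 0) P.nil)))))) 74)
 (EL.cons 7 (TM.mk (P.cons (P.lf 0 1009169096 0) (P.cons (P.lf 91267844 0 0) (P.cons (P.lf 0 149690 0) (P.cons (P.lf 0 67638 0) (P.cons (P.lf 2074 0 0) (P.cons (P.lf 0 6 0) P.nil)))))) 46)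
 EL.nil))
noncomputable def S386_401_660_808_10 : EL := (EL.cons 3 (TM.mk (P.cons (P.cons (P.lf 876770122 0 0) (P.cons (P.lf 0 31183290 0) (P.cons (P.lf 13446586 0 0) (P.lf 1494063 0 0)))) (P.cons (P.cons (P.lf 247066205 0 0) (P.cons (P.lf 7661208 0 0) (P.cons (P.lf 0 3303598 0) (P.lf 0 367064 0)))) (P.cons (P.cons (P.lf 0 4736700 0) (P.cons (P.lf 0 514466 0) (P.cons (P.lf 221843 0 0) (P.lf 24645 0 0)))) (P.cons (P.cons (P.lf 0 923783 0) (P.cons (P.lf 0 14355 0) (P.cons (P.lf 6188 0 0) P.nil))) (P.cons (P.cons (P.lf 43316 0 0) (P.cons (P.lf 3081 0 0) P.nil)) (P.cons (P.cons (P.lf 798 0 0) P.nil) P.nil)))))) 5395)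
 (EL.cons 7 (TM.mk (P.cons (P.cons (P.lf 0 278329264 0) (P.cons (P.lf 9899085 0 0) (P.cons (P.lf 0 4268597 0) (P.lf 0 474288 0)))) (P.cons (P.cons (P.lf 0 46124756 0) (P.cons (P.lf 0 3581037 0) (P.cons (P.lf 1544183 0 0) (P.lf 171575 0 0)))) (P.cons (P.cons (P.lf 9312095 0 0) (P.cons (P.lf 491668 0 0) (P.cons (P.lf 0 212013 0) (P.lf 0 23555 0)))) (P.cons (P.cons (P.lf 0 175587 0) (P.cons (P.lf 0 28228 0) (P.cons (P.lf 12172 0 0) P.nil))) (P.cons (P.cons (P.lf 0 24739 0) (P.cons (P.lf 7 0 0) P.nil)) (P.cons (P.cons (P.lf 1450 0 0) P.nil) P.nil)))))) 2499)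
 EL.nil))
noncomputable def S386_401_660_808_11 : EL := (EL.cons 3 (TM.mk (P.cons (P.cons (P.lf 241813570 0 0) (P.cons (P.lf 0 17200729 0) (P.cons (P.lf 7723029 0 0) (P.cons (P.lf 560326 0 0) (P.cons (P.lf 27565 0 0) (P.cons (P.lf 12638 0 0) P.nil)))))) (P.cons (P.cons (P.lf 130083617 0 0) (P.cons (P.lf 0 180187 0) (P.cons (P.lf 0 80440 0) (P.cons (P.lf 145017 0 0) (P.cons (P.lf 0 14250 0) P.nil))))) (P.cons (P.cons (P.lf 13624270 0 0) (P.cons (P.lf 978282 0 0) (P.cons (P.lf 0 388768 0) (P.cons (P.lf 0 75399 0) P.nil)))) (P.cons (P.cons (P.lf 0 1401865 0) (P.cons (P.lf 0 117529 0) (P.cons (P.lf 47384 0 0) P.nil))) (P.cons (P.cons (P.lf 0 59110 0) (P.cons (P.lf 220 0 0) P.nil)) (P.cons (P.cons (P.lf 8910 0 0) P.nil) P.nil)))))) 48991)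
 (EL.cons 7 (TM.mk (P.cons (P.cons (P.lf 0 76763328 0) (P.cons (P.lf 5460343 0 0) (P.cons (P.lf 0 2451663 0) (P.cons (P.lf 0 177874 0) (P.cons (P.lf 0 8750 0) (P.cons (P.lf 0 4012 0) P.nil)))))) (P.cons (P.cons (P.lf 0 32384823 0) (P.cons (P.lf 0 576588 0) (P.cons (P.lf 310103 0 0) (P.cons (P.lf 0 25389 0) (P.cons (P.lf 5539 0 0) P.nil))))) (P.cons (P.cons (P.lf 110944 0 0) (P.cons (P.lf 0 291785 0) (P.cons (P.lf 109041 0 0) (P.cons (P.lf 28451 0 0) P.nil)))) (P.cons (P.cons (P.lf 774359 0 0) (P.cons (P.lf 72236 0 0) (P.cons (P.lf 0 28625 0) P.nil))) (P.cons (P.cons (P.lf 0 43596 0) (P.cons (P.lf 0 5784 0) P.nil)) (P.cons (P.cons (P.lf 0 2352 0) P.nil) P.nil)))))) 19672)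
 EL.nil))
noncomputable def S386_401_660_808_12 : EL := (EL.cons 4 (TM.mk (P.cons (P.lf 0 3179002091 0) (P.cons (P.lf 0 81486086 0) (P.cons (P.lf 4862741 0 0) (P.cons (P.lf 0 76338 0) (P.cons (P.lf 0 1623 0) (P.cons (P.lf 105 0 0) P.nil)))))) 74)
 (EL.cons 8 (TM.mk (P.cons (P.lf 1009169096 0 0) (P.cons (P.lf 0 91267844 0) (P.cons (P.lf 149690 0 0) (P.cons (P.lf 67638 0 0) (P.cons (P.lf 0 2074 0) (P.cons (P.lf 6 0 0) P.nil)))))) 46)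
 EL.nil))
noncomputable def S386_401_660_808_13 : EL := (EL.cons 4 (TM.mk (P.cons (P.cons (P.lf 0 876770122 0) (P.cons (P.lf 31183290 0 0) (P.cons (P.lf 0 13446586 0) (P.lf 0 1494063 0)))) (P.cons (P.cons (P.lf 0 247066205 0) (P.cons (P.lf 0 7661208 0) (P.cons (P.lf 3303598 0 0) (P.lf 367064 0 0)))) (P.cons (P.cons (P.lf 4736700 0 0) (P.cons (P.lf 514466 0 0) (P.cons (P.lf 0 221843 0) (P.lf 0 24645 0)))) (P.cons (P.cons (P.lf 923783 0 0) (P.cons (P.lf 14355 0 0) (P.cons (P.lf 0 6188 0) P.nil))) (P.cons (P.cons (P.lf 0 43316 0) (P.cons (P.lf 0 3081 0) P.nil)) (P.cons (P.cons (P.lf 0 798 0) P.nil) P.nil)))))) 5395)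
 (EL.cons 8 (TM.mk (P.cons (P.cons (P.lf 278329264 0 0) (P.cons (P.lf 0 9899085 0) (P.cons (P.lf 4268597 0 0) (P.lf 474288 0 0)))) (P.cons (P.cons (P.lf 46124756 0 0) (P.cons (P.lf 3581037 0 0) (P.cons (P.lf 0 1544183 0) (P.lf 0 171575 0)))) (P.cons (P.cons (P.lf 0 9312095 0) (P.cons (P.lf 0 491668 0) (P.cons (P.lf 212013 0 0) (P.lf 23555 0 0)))) (P.cons (P.cons (P.lf 175587 0 0) (P.cons (P.lf 28228 0 0) (P.cons (P.lf 0 12172 0) P.nil))) (P.cons (P.cons (P.lf 24739 0 0) (P.cons (P.lf 0 7 0) P.nil)) (P.cons (P.cons (P.lf 0 1450 0) P.nil) P.nil)))))) 2499)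
 EL.nil))
noncomputable def S386_401_660_808_14 : EL := (EL.cons 4 (TM.mk (P.cons (P.cons (P.lf 0 241813570 0) (P.cons (P.lf 17200729 0 0) (P.cons (P.lf 0 7723029 0) (P.cons (P.lf 0 560326 0) (P.cons (P.lf 0 27565 0) (P.cons (P.lf 0 12638 0) P.nil)))))) (P.cons (P.cons (P.lf 0 130083617 0) (P.cons (P.lf 180187 0 0) (P.cons (P.lf 80440 0 0) (P.cons (P.lf 0 145017 0) (P.cons (P.lf 14250 0 0) P.nil))))) (P.cons (P.cons (P.lf 0 13624270 0) (P.cons (P.lf 0 978282 0) (P.cons (P.lf 388768 0 0) (P.cons (P.lf 75399 0 0) P.nil)))) (P.cons (P.cons (P.lf 1401865 0 0) (P.cons (P.lf 117529 0 0) (P.cons (P.lf 0 47384 0) P.nil))) (P.cons (P.cons (P.lf 59110 0 0) (P.cons (P.lf 0 220 0) P.nil)) (P.cons (P.cons (P.lf 0 8910 0) P.nil) P.nil)))))) 48991)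
 (EL.cons 8 (TM.mk (P.cons (P.cons (P.lf 76763328 0 0) (P.cons (P.lf 0 5460343 0) (P.cons (P.lf 2451663 0 0) (P.cons (P.lf 177874 0 0) (P.cons (P.lf 8750 0 0) (P.cons (P.lf 4012 0 0) P.nil)))))) (P.cons (P.cons (P.lf 32384823 0 0) (P.cons (P.lf 576588 0 0) (P.cons (P.lf 0 310103 0) (P.cons (P.lf 25389 0 0) (P.cons (P.lf 0 5539 0) P.nil))))) (P.cons (P.cons (P.lf 0 110944 0) (P.cons (P.lf 291785 0 0) (P.cons (P.lf 0 109041 0) (P.cons (P.lf 0 28451 0) P.nil)))) (P.cons (P.cons (P.lf 0 774359 0) (P.cons (P.lf 0 72236 0) (P.cons (P.lf 28625 0 0) P.nil))) (P.cons (P.cons (P.lf 43596 0 0) (P.cons (P.lf 5784 0 0) P.nil)) (P.cons (P.cons (P.lf 2352 0 0) P.nil) P.nil)))))) 19672)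
 EL.nil))
noncomputable def S386_401_660_808_15 : EL := (EL.cons 4 (TM.mk (P.cons (P.lf 0 2509865734 0) (P.cons (P.lf 0 128668764 0) (P.cons (P.lf 6029343 0 0) (P.cons (P.lf 76275 0 0) (P.cons (P.lf 0 11525 0) (P.cons (P.lf 284 0 0) P.nil)))))) 132)
 (EL.cons 8 (TM.mk (P.cons (P.lf 796752836 0 0) (P.cons (P.lf 0 51634368 0) (P.cons (P.lf 0 2947579 0) (P.cons (P.lf 185785 0 0) (P.cons (P.lf 0 1772 0) (P.cons (P.lf 0 179 0) P.nil)))))) 69)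
 EL.nil))
noncomputable def S386_401_660_808_16 : EL := (EL.cons 4 (TM.mk (P.cons (P.cons (P.lf 0 692222031 0) (P.cons (P.lf 24619635 0 0) (P.cons (P.lf 0 10616264 0) (P.lf 0 1179583 0)))) (P.cons (P.cons (P.lf 0 212805606 0) (P.cons (P.lf 0 5417564 0) (P.cons (P.lf 2336114 0 0) (P.lf 259565 0 0)))) (P.cons (P.cons (P.lf 0 201406 0) (P.cons (P.lf 213476 0 0) (P.cons (P.lf 0 92053 0) (P.lf 0 10225 0)))) (P.cons (P.cons (P.lf 1106950 0 0) (P.cons (P.lf 31588 0 0) (P.cons (P.lf 0 13620 0) P.nil))) (P.cons (P.cons (P.lf 0 26262 0) (P.cons (P.lf 0 2895 0) P.nil)) (P.cons (P.cons (P.lf 0 2609 0) P.nil) P.nil)))))) 6062)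
 (EL.cons 8 (TM.mk (P.cons (P.cons (P.lf 219744769 0 0) (P.cons (P.lf 0 7815463 0) (P.cons (P.lf 3370116 0 0) (P.lf 374456 0 0)))) (P.cons (P.cons (P.lf 42048757 0 0) (P.cons (P.lf 2626947 0 0) (P.cons (P.lf 0 1132768 0) (P.lf 0 125862 0)))) (P.cons (P.cons (P.lf 0 6754718 0) (P.cons (P.lf 0 303753 0) (P.cons (P.lf 130981 0 0) (P.lf 14552 0 0)))) (P.cons (P.cons (P.lf 0 100249 0) (P.cons (P.lf 7824 0 0) (P.cons (P.lf 0 3374 0) P.nil))) (P.cons (P.cons (P.lf 35317 0 0) (P.cons (P.lf 1223 0 0) P.nil)) (P.cons (P.cons (P.lf 0 1021 0) P.nil) P.nil)))))) 2447)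
 EL.nil))
noncomputable def S386_401_660_808_17 : EL := (EL.cons 4 (TM.mk (P.cons (P.cons (P.lf 0 190915128 0) (P.cons (P.lf 13580211 0 0) (P.cons (P.lf 0 6097437 0) (P.cons (P.lf 0 442385 0) (P.cons (P.lf 0 21763 0) (P.cons (P.lf 0 9978 0) P.nil)))))) (P.cons (P.cons (P.lf 0 107596450 0) (P.cons (P.lf 490356 0 0) (P.cons (P.lf 0 92783 0) (P.cons (P.lf 0 125833 0) (P.cons (P.lf 10693 0 0) P.nil))))) (P.cons (P.cons (P.lf 0 13097055 0) (P.cons (P.lf 0 789494 0) (P.cons (P.lf 317892 0 0) (P.cons (P.lf 57270 0 0) P.nil)))) (P.cons (P.cons (P.lf 983587 0 0) (P.cons (P.lf 73102 0 0) (P.cons (P.lf 0 29786 0) P.nil))) (P.cons (P.cons (P.lf 88928 0 0) (P.cons (P.lf 3395 0 0) P.nil)) (P.cons (P.cons (P.lf 0 7836 0) P.nil) P.nil)))))) 43777)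
 (EL.cons 8 (TM.mk (P.cons (P.cons (P.lf 60605700 0 0) (P.cons (P.lf 0 4311016 0) (P.cons (P.lf 1935621 0 0) (P.cons (P.lf 140434 0 0) (P.cons (P.lf 6908 0 0) (P.cons (P.lf 3167 0 0) P.nil)))))) (P.cons (P.cons (P.lf 27121743 0 0) (P.cons (P.lf 344721 0 0) (P.cons (P.lf 0 195215 0) (P.cons (P.lf 23644 0 0) (P.cons (P.lf 0 4196 0) P.nil))))) (P.cons (P.cons (P.lf 475083 0 0) (P.cons (P.lf 248631 0 0) (P.cons (P.lf 0 95326 0) (P.cons (P.lf 0 22163 0) P.nil)))) (P.cons (P.cons (P.lf 0 651267 0) (P.cons (P.lf 0 51926 0) (P.cons (P.lf 20814 0 0) P.nil))) (P.cons (P.cons (P.lf 19527 0 0) (P.cons (P.lf 2761 0 0) P.nil)) (P.cons (P.cons (P.lf 3683 0 0) P.nil) P.nil)))))) 17124)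
 EL.nil))
noncomputable def S386_401_660_808_18 : EL := (EL.cons 4 (TM.mk (P.cons (P.lf 0 1981573407 0) (P.cons (P.lf 0 152378629 0) (P.cons (P.lf 5187444 0 0) (P.cons (P.lf 290043 0 0) (P.cons (P.lf 0 18288 0) (P.cons (P.lf 26 0 0) P.nil)))))) 187)
 (EL.cons 8 (TM.mk (P.cons (P.lf 629047288 0 0) (P.cons (P.lf 0 24641924 0) (P.cons (P.lf 0 4334312 0) (P.cons (P.lf 164492 0 0) (P.cons (P.lf 5262 0 0) (P.cons (P.lf 0 499 0) P.nil)))))) 83)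
 EL.nil))
noncomputable def S386_401_660_808_19 : EL := (EL.cons 4 (TM.mk (P.cons (P.cons (P.lf 0 546518784 0) (P.cons (P.lf 19437540 0 0) (P.cons (P.lf 0 8381685 0) (P.lf 0 931297 0)))) (P.cons (P.cons (P.lf 0 182021640 0) (P.cons (P.lf 0 3779006 0) (P.cons (P.lf 1629549 0 0) (P.lf 181059 0 0)))) (P.cons (P.cons (P.lf 0 3629642 0) (P.cons (P.lf 29173 0 0) (P.cons (P.lf 0 12579 0) (P.lf 0 1395 0)))) (P.cons (P.cons (P.lf 1113752 0 0) (P.cons (P.lf 36269 0 0) (P.cons (P.lf 0 15638 0) P.nil))) (P.cons (P.cons (P.lf 0 2402 0) (P.cons (P.lf 0 1997 0) P.nil)) (P.cons (P.cons (P.lf 0 4000 0) P.nil) P.nil)))))) 6341)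
 (EL.cons 8 (TM.mk (P.cons (P.cons (P.lf 173491508 0 0) (P.cons (P.lf 0 6170415 0) (P.cons (P.lf 2660752 0 0) (P.lf 295638 0 0)))) (P.cons (P.cons (P.lf 37645108 0 0) (P.cons (P.lf 1915847 0 0) (P.cons (P.lf 0 826134 0) (P.lf 0 91792 0)))) (P.cons (P.cons (P.lf 0 4747370 0) (P.cons (P.lf 0 177216 0) (P.cons (P.lf 76417 0 0) (P.lf 8490 0 0)))) (P.cons (P.cons (P.lf 0 262460 0) (P.cons (P.lf 0 3290 0) (P.cons (P.lf 1418 0 0) P.nil))) (P.cons (P.cons (P.lf 34898 0 0) (P.cons (P.lf 1537 0 0) P.nil)) (P.cons (P.cons (P.lf 0 87 0) P.nil) P.nil)))))) 2463)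
 EL.nil))
noncomputable def S386_401_660_808_20 : EL := (EL.cons 4 (TM.mk (P.cons (P.cons (P.lf 0 150730111 0) (P.cons (P.lf 10721762 0 0) (P.cons (P.lf 0 4814010 0) (P.cons (P.lf 0 349269 0) (P.cons (P.lf 0 17181 0) (P.cons (P.lf 0 7877 0) P.nil)))))) (P.cons (P.cons (P.lf 0 88812477 0) (P.cons (P.lf 661969 0 0) (P.cons (P.lf 0 196649 0) (P.cons (P.lf 0 108299 0) (P.cons (P.lf 8001 0 0) P.nil))))) (P.cons (P.cons (P.lf 0 12287202 0) (P.cons (P.lf 0 629792 0) (P.cons (P.lf 256466 0 0) (P.cons (P.lf 43203 0 0) P.nil)))) (P.cons (P.cons (P.lf 637829 0 0) (P.cons (P.lf 41402 0 0) (P.cons (P.lf 0 17086 0) P.nil))) (P.cons (P.cons (P.lf 103815 0 0) (P.cons (P.lf 5128 0 0) P.nil)) (P.cons (P.cons (P.lf 0 5861 0) P.nil) P.nil)))))) 38502)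
 (EL.cons 8 (TM.mk (P.cons (P.cons (P.lf 47849031 0 0) (P.cons (P.lf 0 3403606 0) (P.cons (P.lf 1528199 0 0) (P.cons (P.lf 110875 0 0) (P.cons (P.lf 5454 0 0) (P.cons (P.lf 2500 0 0) P.nil)))))) (P.cons (P.cons (P.lf 22639483 0 0) (P.cons (P.lf 184919 0 0) (P.cons (P.lf 0 114953 0) (P.cons (P.lf 21510 0 0) (P.cons (P.lf 0 3173 0) P.nil))))) (P.cons (P.cons (P.lf 850763 0 0) (P.cons (P.lf 208480 0 0) (P.cons (P.lf 0 81549 0) (P.cons (P.lf 0 17189 0) P.nil)))) (P.cons (P.cons (P.lf 0 536175 0) (P.cons (P.lf 0 36463 0) (P.cons (P.lf 14776 0 0) P.nil))) (P.cons (P.cons (P.lf 2202 0 0) (P.cons (P.lf 834 0 0) P.nil)) (P.cons (P.cons (P.lf 4108 0 0) P.nil) P.nil)))))) 14773)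
 EL.nil))
noncomputable def S386_401_660_808_21 : EL := (EL.cons 4 (TM.mk (P.cons (P.cons (P.lf 0 2483367735 0) (P.cons (P.lf 0 93549870 0) (P.cons (P.lf 40339758 0 0) (P.lf 4482189 0 0)))) (P.cons (P.cons (P.lf 355192326 0 0) (P.cons (P.lf 22983624 0 0) (P.cons (P.lf 0 9910794 0) (P.lf 0 1101192 0)))) (P.cons (P.cons (P.lf 3877929 0 0) (P.cons (P.lf 0 1543398 0) (P.cons (P.lf 665529 0 0) (P.lf 73935 0 0)))) (P.cons (P.cons (P.lf 0 2542527 0) (P.cons (P.lf 0 43065 0) (P.cons (P.lf 18564 0 0) P.nil))) (P.cons (P.cons (P.lf 95367 0 0) (P.cons (P.lf 9243 0 0) P.nil)) (P.cons (P.cons (P.lf 3249 0 0) P.nil) P.nil)))))) 16539)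
 (EL.cons 8 (TM.mk (P.cons (P.cons (P.lf 0 2781476373 0) (P.cons (P.lf 0 104779803 0) (P.cons (P.lf 45182232 0 0) (P.lf 5020248 0 0)))) (P.cons (P.cons (P.lf 74981058 0 0) (P.cons (P.lf 13580721 0 0) (P.cons (P.lf 0 5856162 0) (P.lf 0 650685 0)))) (P.cons (P.cons (P.lf 25989282 0 0) (P.cons (P.lf 335205 0 0) (P.cons (P.lf 0 144546 0) (P.lf 0 16056 0)))) (P.cons (P.cons (P.lf 0 885993 0) (P.cons (P.lf 0 99102 0) (P.cons (P.lf 42732 0 0) P.nil))) (P.cons (P.cons (P.lf 0 59379 0) (P.cons (P.lf 2199 0 0) P.nil)) (P.cons (P.cons (P.lf 4317 0 0) P.nil) P.nil)))))) 9660)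
 (EL.cons 11 (TM.mk (P.cons (P.cons (P.lf 280991082 0 0) (P.cons (P.lf 0 261769188 0) (P.cons (P.lf 0 26866032 0) (P.cons (P.lf 5587386 0 0) (P.lf 465615 0 0))))) (P.cons (P.cons (P.lf 0 50824881 0) (P.cons (P.lf 47348079 0 0) (P.cons (P.lf 4859451 0 0) (P.cons (P.lf 0 1010631 0) (P.lf 0 84219 0))))) (P.cons (P.cons (P.lf 2381622 0 0) (P.cons (P.lf 0 2218701 0) (P.cons (P.lf 0 227709 0) (P.cons (P.lf 47355 0 0) P.nil)))) (P.cons (P.cons (P.lf 30126 0 0) (P.cons (P.lf 0 28065 0) (P.cons (P.lf 0 2880 0) P.nil))) (P.cons (P.cons (P.lf 0 4554 0) (P.cons (P.lf 4242 0 0) P.nil)) (P.cons (P.cons (P.lf 111 0 0) P.nil) P.nil)))))) 5421)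
 EL.nil)))
noncomputable def S386_401_660_808_22 : EL := (EL.cons 4 (TM.mk (P.cons (P.cons (P.lf 0 684913872 0) (P.cons (P.lf 0 1441380 0) (P.cons (P.lf 1539183 0 0) (P.cons (P.lf 0 722337 0) (P.cons (P.lf 82695 0 0) (P.cons (P.lf 37917 0 0) P.nil)))))) (P.cons (P.cons (P.lf 0 77484462 0) (P.cons (P.lf 0 10363587 0) (P.cons (P.lf 3994473 0 0) (P.cons (P.lf 905694 0 0) (P.cons (P.lf 0 42753 0) P.nil))))) (P.cons (P.cons (P.lf 33313089 0 0) (P.cons (P.lf 2983248 0 0) (P.cons (P.lf 0 1187178 0) (P.cons (P.lf 0 228513 0) P.nil)))) (P.cons (P.cons (P.lf 0 1163415 0) (P.cons (P.lf 0 243156 0) (P.cons (P.lf 94965 0 0) P.nil))) (P.cons (P.cons (P.lf 0 231138 0) (P.cons (P.lf 0 7107 0) P.nil)) (P.cons (P.cons (P.lf 18546 0 0) P.nil) P.nil)))))) 107079)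
 (EL.cons 8 (TM.mk (P.cons (P.cons (P.lf 0 767132361 0) (P.cons (P.lf 0 1614408 0) (P.cons (P.lf 1723950 0 0) (P.cons (P.lf 0 809046 0) (P.cons (P.lf 92622 0 0) (P.cons (P.lf 42468 0 0) P.nil)))))) (P.cons (P.cons (P.lf 0 175827831 0) (P.cons (P.lf 0 11795037 0) (P.cons (P.lf 4674078 0 0) (P.cons (P.lf 920505 0 0) (P.cons (P.lf 0 37134 0) P.nil))))) (P.cons (P.cons (P.lf 20473116 0 0) (P.cons (P.lf 1979808 0 0) (P.cons (P.lf 0 795183 0) (P.cons (P.lf 0 145332 0) P.nil)))) (P.cons (P.cons (P.lf 1696713 0 0) (P.cons (P.lf 11928 0 0) (P.cons (P.lf 0 7242 0) P.nil))) (P.cons (P.cons (P.lf 0 191208 0) (P.cons (P.lf 0 18753 0) P.nil)) (P.cons (P.cons (P.lf 0 2262 0) P.nil) P.nil)))))) 75807)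
 (EL.cons 11 (TM.mk (P.cons (P.cons (P.lf 77497458 0 0) (P.cons (P.lf 0 74952333 0) (P.cons (P.lf 0 3653391 0) (P.cons (P.lf 829359 0 0) (P.cons (P.lf 0 163053 0) (P.cons (P.lf 6438 0 0) P.nil)))))) (P.cons (P.cons (P.lf 5834124 0 0) (P.cons (P.lf 0 4188654 0) (P.cons (P.lf 0 2256369 0) (P.cons (P.lf 437808 0 0) (P.cons (P.lf 141468 0 0) P.nil))))) (P.cons (P.cons (P.lf 0 3742839 0) (P.cons (P.lf 3259317 0 0) (P.cons (P.lf 667875 0 0) (P.cons (P.lf 0 133158 0) P.nil)))) (P.cons (P.cons (P.lf 290481 0 0) (P.cons (P.lf 0 250404 0) (P.cons (P.lf 0 55305 0) P.nil))) (P.cons (P.cons (P.lf 2781 0 0) (P.cons (P.lf 0 3252 0) P.nil)) (P.cons (P.cons (P.lf 0 1218 0) P.nil) P.nil)))))) 89691)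
 EL.nil)))
noncomputable def S386_401_660_808_23 : EL := (EL.cons 4 (TM.mk (P.cons (P.cons (P.lf 0 1960652871 0) (P.cons (P.lf 0 73858902 0) (P.cons (P.lf 31848789 0 0) (P.lf 3538749 0 0)))) (P.cons (P.cons (P.lf 230172579 0 0) (P.cons (P.lf 16252689 0 0) (P.cons (P.lf 0 7008339 0) (P.lf 0 778698 0)))) (P.cons (P.cons (P.lf 13248906 0 0) (P.cons (P.lf 0 640428 0) (P.cons (P.lf 276159 0 0) (P.lf 30672 0 0)))) (P.cons (P.cons (P.lf 0 2404920 0) (P.cons (P.lf 0 94764 0) (P.cons (P.lf 40857 0 0) P.nil))) (P.cons (P.cons (P.lf 24888 0 0) (P.cons (P.lf 8685 0 0) P.nil)) (P.cons (P.cons (P.lf 7845 0 0) P.nil) P.nil)))))) 18510)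
 (EL.cons 8 (TM.mk (P.cons (P.cons (P.lf 0 2196013728 0) (P.cons (P.lf 0 82725090 0) (P.cons (P.lf 35671989 0 0) (P.lf 3963552 0 0)))) (P.cons (P.cons (P.lf 2909031 0 0) (P.cons (P.lf 8601705 0 0) (P.cons (P.lf 0 3709152 0) (P.lf 0 412128 0)))) (P.cons (P.cons (P.lf 25395426 0 0) (P.cons (P.lf 666024 0 0) (P.cons (P.lf 0 287199 0) (P.lf 0 31905 0)))) (P.cons (P.cons (P.lf 0 316836 0) (P.cons (P.lf 0 89844 0) (P.cons (P.lf 38739 0 0) P.nil))) (P.cons (P.cons (P.lf 0 95895 0) (P.cons (P.lf 0 459 0) P.nil)) (P.cons (P.cons (P.lf 3870 0 0) P.nil) P.nil)))))) 10788)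
 (EL.cons 11 (TM.mk (P.cons (P.cons (P.lf 221846310 0 0) (P.cons (P.lf 0 206670360 0) (P.cons (P.lf 0 21211098 0) (P.cons (P.lf 4411317 0 0) (P.lf 367608 0 0))))) (P.cons (P.cons (P.lf 0 34440441 0) (P.cons (P.lf 32084457 0 0) (P.cons (P.lf 3292905 0 0) (P.cons (P.lf 0 684831 0) (P.lf 0 57069 0))))) (P.cons (P.cons (P.lf 512418 0 0) (P.cons (P.lf 0 477366 0) (P.cons (P.lf 0 48990 0) (P.cons (P.lf 10185 0 0) P.nil)))) (P.cons (P.cons (P.lf 138687 0 0) (P.cons (P.lf 0 129201 0) (P.cons (P.lf 0 13260 0) P.nil))) (P.cons (P.cons (P.lf 0 6711 0) (P.cons (P.lf 6252 0 0) P.nil)) (P.cons (P.cons (P.lf 0 21 0) P.nil) P.nil)))))) 9867)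
 EL.nil)))
noncomputable def S386_401_660_808_24 : EL := (EL.cons 4 (TM.mk (P.cons (P.cons (P.lf 0 540748890 0) (P.cons (P.lf 0 1137987 0) (P.cons (P.lf 1215204 0 0) (P.cons (P.lf 0 570294 0) (P.cons (P.lf 65289 0 0) (P.cons (P.lf 29934 0 0) P.nil)))))) (P.cons (P.cons (P.lf 0 75035844 0) (P.cons (P.lf 0 8211363 0) (P.cons (P.lf 3184839 0 0) (P.cons (P.lf 700440 0 0) (P.cons (P.lf 0 32079 0) P.nil))))) (P.cons (P.cons (P.lf 25560219 0 0) (P.cons (P.lf 2147325 0 0) (P.cons (P.lf 0 858312 0) (P.cons (P.lf 0 161214 0) P.nil)))) (P.cons (P.cons (P.lf 0 163776 0) (P.cons (P.lf 0 119112 0) (P.cons (P.lf 46155 0 0) P.nil))) (P.cons (P.cons (P.lf 0 248007 0) (P.cons (P.lf 0 14331 0) P.nil)) (P.cons (P.cons (P.lf 11988 0 0) P.nil) P.nil)))))) 79572)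
 (EL.cons 8 (TM.mk (P.cons (P.cons (P.lf 0 605661516 0) (P.cons (P.lf 0 1274598 0) (P.cons (P.lf 1361082 0 0) (P.cons (P.lf 0 638751 0) (P.cons (P.lf 73125 0 0) (P.cons (P.lf 33528 0 0) P.nil)))))) (P.cons (P.cons (P.lf 0 154343163 0) (P.cons (P.lf 0 9345015 0) (P.cons (P.lf 3725136 0 0) (P.cons (P.lf 710379 0 0) (P.cons (P.lf 0 27444 0) P.nil))))) (P.cons (P.cons (P.lf 13531974 0 0) (P.cons (P.lf 1326336 0 0) (P.cons (P.lf 0 535299 0) (P.cons (P.lf 0 95136 0) P.nil)))) (P.cons (P.cons (P.lf 1951698 0 0) (P.cons (P.lf 63696 0 0) (P.cons (P.lf 0 27423 0) P.nil))) (P.cons (P.cons (P.lf 0 144990 0) (P.cons (P.lf 0 17181 0) P.nil)) (P.cons (P.cons (P.lf 0 7368 0) P.nil) P.nil)))))) 56475)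
 (EL.cons 11 (TM.mk (P.cons (P.cons (P.lf 61185306 0 0) (P.cons (P.lf 0 59175894 0) (P.cons (P.lf 0 2884401 0) (P.cons (P.lf 654792 0 0) (P.cons (P.lf 0 128733 0) (P.cons (P.lf 5082 0 0) P.nil)))))) (P.cons (P.cons (P.lf 6174459 0 0) (P.cons (P.lf 0 4823832 0) (P.cons (P.lf 0 1855368 0) (P.cons (P.lf 362439 0 0) (P.cons (P.lf 108390 0 0) P.nil))))) (P.cons (P.cons (P.lf 0 2930547 0) (P.cons (P.lf 2579025 0 0) (P.cons (P.lf 486045 0 0) (P.cons (P.lf 0 97272 0) P.nil)))) (P.cons (P.cons (P.lf 148017 0 0) (P.cons (P.lf 0 128100 0) (P.cons (P.lf 0 27492 0) P.nil))) (P.cons (P.cons (P.lf 12738 0 0) (P.cons (P.lf 0 11682 0) P.nil)) (P.cons (P.cons (P.lf 0 1326 0) P.nil) P.nil)))))) 64893)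
 EL.nil)))
noncomputable def S386_401_660_808_25 : EL := (EL.cons 4 (TM.mk (P.cons (P.cons (P.lf 0 1547962323 0) (P.cons (P.lf 0 58312617 0) (P.cons (P.lf 25145055 0 0) (P.lf 2793891 0 0)))) (P.cons (P.cons (P.lf 142046109 0 0) (P.cons (P.lf 11337018 0 0) (P.cons (P.lf 0 4888647 0) (P.lf 0 543177 0)))) (P.cons (P.cons (P.lf 17486094 0 0) (P.cons (P.lf 0 87519 0) (P.cons (P.lf 37737 0 0) (P.lf 4185 0 0)))) (P.cons (P.cons (P.lf 0 1945740 0) (P.cons (P.lf 0 108807 0) (P.cons (P.lf 46914 0 0) P.nil))) (P.cons (P.cons (P.lf 0 41445 0) (P.cons (P.lf 5991 0 0) P.nil)) (P.cons (P.cons (P.lf 9996 0 0) P.nil) P.nil)))))) 18054)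
 (EL.cons 8 (TM.mk (P.cons (P.cons (P.lf 0 1733782947 0) (P.cons (P.lf 0 65312592 0) (P.cons (P.lf 28163526 0 0) (P.lf 3129279 0 0)))) (P.cons (P.cons (P.lf 0 42144639 0) (P.cons (P.lf 5117031 0 0) (P.cons (P.lf 0 2206521 0) (P.lf 0 245169 0)))) (P.cons (P.cons (P.lf 22760976 0 0) (P.cons (P.lf 799815 0 0) (P.cons (P.lf 0 344889 0) (P.lf 0 38316 0)))) (P.cons (P.cons (P.lf 218637 0 0) (P.cons (P.lf 0 69411 0) (P.cons (P.lf 29928 0 0) P.nil))) (P.cons (P.cons (P.lf 0 113622 0) (P.cons (P.lf 0 2853 0) P.nil)) (P.cons (P.cons (P.lf 2037 0 0) P.nil) P.nil)))))) 10656)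
 (EL.cons 11 (TM.mk (P.cons (P.cons (P.lf 175150704 0 0) (P.cons (P.lf 0 163169082 0) (P.cons (P.lf 0 16746453 0) (P.cons (P.lf 3482793 0 0) (P.lf 290232 0 0))))) (P.cons (P.cons (P.lf 0 22701633 0) (P.cons (P.lf 21148671 0 0) (P.cons (P.lf 2170539 0 0) (P.cons (P.lf 0 451410 0) (P.lf 0 37617 0))))) (P.cons (P.cons (P.lf 0 560337 0) (P.cons (P.lf 522003 0 0) (P.cons (P.lf 53574 0 0) (P.cons (P.lf 0 11142 0) P.nil)))) (P.cons (P.cons (P.lf 165666 0 0) (P.cons (P.lf 0 154332 0) (P.cons (P.lf 0 15837 0) P.nil))) (P.cons (P.cons (P.lf 0 3675 0) (P.cons (P.lf 3423 0 0) P.nil)) (P.cons (P.cons (P.lf 0 330 0) P.nil) P.nil)))))) 11454)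
 EL.nil)))
noncomputable def S386_401_660_808_26 : EL := (EL.cons 4 (TM.mk (P.cons (P.cons (P.lf 0 426928662 0) (P.cons (P.lf 0 898458 0) (P.cons (P.lf 959421 0 0) (P.cons (P.lf 0 450255 0) (P.cons (P.lf 51546 0 0) (P.cons (P.lf 23634 0 0) P.nil)))))) (P.cons (P.cons (P.lf 0 70185120 0) (P.cons (P.lf 0 6506013 0) (P.cons (P.lf 2539068 0 0) (P.cons (P.lf 541464 0 0) (P.cons (P.lf 0 24006 0) P.nil))))) (P.cons (P.cons (P.lf 19314669 0 0) (P.cons (P.lf 1530540 0 0) (P.cons (P.lf 0 614664 0) (P.cons (P.lf 0 112416 0) P.nil)))) (P.cons (P.cons (P.lf 468330 0 0) (P.cons (P.lf 0 40689 0) (P.cons (P.lf 15246 0 0) P.nil))) (P.cons (P.cons (P.lf 0 231630 0) (P.cons (P.lf 0 16473 0) P.nil)) (P.cons (P.cons (P.lf 5112 0 0) P.nil) P.nil)))))) 60237)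
 (EL.cons 8 (TM.mk (P.cons (P.cons (P.lf 0 478178070 0) (P.cons (P.lf 0 1006311 0) (P.cons (P.lf 1074594 0 0) (P.cons (P.lf 0 504303 0) (P.cons (P.lf 57735 0 0) (P.cons (P.lf 26472 0 0) P.nil)))))) (P.cons (P.cons (P.lf 0 134112990 0) (P.cons (P.lf 0 7403811 0) (P.cons (P.lf 2968590 0 0) (P.cons (P.lf 547926 0 0) (P.cons (P.lf 0 20187 0) P.nil))))) (P.cons (P.cons (P.lf 8291634 0 0) (P.cons (P.lf 859581 0 0) (P.cons (P.lf 0 348882 0) (P.cons (P.lf 0 59961 0) P.nil)))) (P.cons (P.cons (P.lf 1989657 0 0) (P.cons (P.lf 88392 0 0) (P.cons (P.lf 0 36957 0) P.nil))) (P.cons (P.cons (P.lf 0 94488 0) (P.cons (P.lf 0 14055 0) P.nil)) (P.cons (P.cons (P.lf 0 10896 0) P.nil) P.nil)))))) 42627)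
 (EL.cons 11 (TM.mk (P.cons (P.cons (P.lf 48306636 0 0) (P.cons (P.lf 0 46720179 0) (P.cons (P.lf 0 2277273 0) (P.cons (P.lf 516966 0 0) (P.cons (P.lf 0 101637 0) (P.cons (P.lf 4014 0 0) P.nil)))))) (P.cons (P.cons (P.lf 6113046 0 0) (P.cons (P.lf 0 5006040 0) (P.cons (P.lf 0 1523211 0) (P.cons (P.lf 299400 0 0) (P.cons (P.lf 82971 0 0) P.nil))))) (P.cons (P.cons (P.lf 0 2262645 0) (P.cons (P.lf 2010021 0 0) (P.cons (P.lf 349674 0 0) (P.cons (P.lf 0 70254 0) P.nil)))) (P.cons (P.cons (P.lf 51258 0 0) (P.cons (P.lf 0 44241 0) (P.cons (P.lf 0 9684 0) P.nil))) (P.cons (P.cons (P.lf 16731 0 0) (P.cons (P.lf 0 15045 0) P.nil)) (P.cons (P.cons (P.lf 0 1023 0) P.nil) P.nil)))))) 47835)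
 EL.nil)))
noncomputable def S386_401_660_808_27 : EL := (EL.cons 13 (TM.mk (P.lf 0 4294967296 0) 0)
 EL.nil)
noncomputable def S386_401_660_808_28 : EL := (EL.cons 13 (TM.mk (P.cons (P.cons (P.lf 0 1184553799 0) (P.cons (P.lf 42129956 0 0) (P.cons (P.lf 0 18166912 0) (P.lf 0 2018544 0)))) (P.cons (P.cons (P.lf 0 303433780 0) (P.cons (P.lf 0 11430520 0) (P.cons (P.lf 4928968 0 0) (P.lf 547660 0 0)))) (P.cons (P.cons (P.lf 12365335 0 0) (P.cons (P.lf 1052504 0 0) (P.cons (P.lf 0 453852 0) (P.lf 0 50424 0)))) (P.cons (P.cons (P.lf 495415 0 0) (P.cons (P.lf 0 26080 0) (P.cons (P.lf 11248 0 0) P.nil))) (P.cons (P.cons (P.lf 0 44416 0) (P.cons (P.lf 0 1632 0) P.nil)) (P.cons (P.cons (P.lf 636 0 0) P.nil) P.nil)))))) 3465)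
 EL.nil)
noncomputable def S386_401_660_808_29 : EL := (EL.cons 13 (TM.mk (P.cons (P.cons (P.lf 0 326700439 0) (P.cons (P.lf 23238919 0 0) (P.cons (P.lf 0 10434142 0) (P.cons (P.lf 0 757026 0) (P.cons (P.lf 0 37242 0) (P.cons (P.lf 0 17076 0) P.nil)))))) (P.cons (P.cons (P.lf 0 167374330 0) (P.cons (P.lf 0 352232 0) (P.cons (P.lf 376133 0 0) (P.cons (P.lf 0 176521 0) (P.cons (P.lf 20208 0 0) P.nil))))) (P.cons (P.cons (P.lf 0 14616467 0) (P.cons (P.lf 0 1277126 0) (P.cons (P.lf 499641 0 0) (P.cons (P.lf 105235 0 0) P.nil)))) (P.cons (P.cons (P.lf 2020460 0 0) (P.cons (P.lf 190428 0 0) (P.cons (P.lf 0 76000 0) P.nil))) (P.cons (P.cons (P.lf 9900 0 0) (P.cons (P.lf 0 7137 0) P.nil)) (P.cons (P.cons (P.lf 0 8777 0) P.nil) P.nil)))))) 56658)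
 EL.nil)
noncomputable def S386_401_660_808_30 : EL := (EL.cons 13 (TM.mk (P.cons (P.lf 0 3390935564 0) (P.cons (P.lf 0 86918492 0) (P.cons (P.lf 5186924 0 0) (P.cons (P.lf 0 81428 0) (P.cons (P.lf 0 1732 0) (P.cons (P.lf 112 0 0) P.nil)))))) 72)
 EL.nil)
noncomputable def S386_401_660_808_31 : EL := (EL.cons 13 (TM.mk (P.cons (P.cons (P.lf 0 935221464 0) (P.cons (P.lf 33262177 0 0) (P.cons (P.lf 0 14343026 0) (P.lf 0 1593668 0)))) (P.cons (P.cons (P.lf 0 263537286 0) (P.cons (P.lf 0 8171956 0) (P.cons (P.lf 3523838 0 0) (P.lf 391535 0 0)))) (P.cons (P.cons (P.lf 5052480 0 0) (P.cons (P.lf 548764 0 0) (P.cons (P.lf 0 236633 0) (P.lf 0 26289 0)))) (P.cons (P.cons (P.lf 985369 0 0) (P.cons (P.lf 15312 0 0) (P.cons (P.lf 0 6601 0) P.nil))) (P.cons (P.cons (P.lf 0 46204 0) (P.cons (P.lf 0 3287 0) P.nil)) (P.cons (P.cons (P.lf 0 852 0) P.nil) P.nil)))))) 5735)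
 EL.nil)
noncomputable def S386_401_660_808_32 : EL := (EL.cons 13 (TM.mk (P.cons (P.cons (P.lf 0 257934475 0) (P.cons (P.lf 18347445 0 0) (P.cons (P.lf 0 8237898 0) (P.cons (P.lf 0 597682 0) (P.cons (P.lf 0 29403 0) (P.cons (P.lf 0 13481 0) P.nil)))))) (P.cons (P.cons (P.lf 0 138755859 0) (P.cons (P.lf 192200 0 0) (P.cons (P.lf 85803 0 0) (P.cons (P.lf 0 154685 0) (P.cons (P.lf 15200 0 0) P.nil))))) (P.cons (P.cons (P.lf 0 14532555 0) (P.cons (P.lf 0 1043501 0) (P.cons (P.lf 414686 0 0) (P.cons (P.lf 80426 0 0) P.nil)))) (P.cons (P.cons (P.lf 1495323 0 0) (P.cons (P.lf 125365 0 0) (P.cons (P.lf 0 50543 0) P.nil))) (P.cons (P.cons (P.lf 63051 0 0) (P.cons (P.lf 0 235 0) P.nil)) (P.cons (P.cons (P.lf 0 9505 0) P.nil) P.nil)))))) 52234)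
 EL.nil)
noncomputable def S386_401_660_808_33 : EL := (EL.cons 14 (TM.mk (P.lf 8589934592 0 0) 0)
 EL.nil)
noncomputable def S386_401_660_808_34 : EL := (EL.cons 14 (TM.mk (P.cons (P.cons (P.lf 2369107598 0 0) (P.cons (P.lf 0 84259912 0) (P.cons (P.lf 36333824 0 0) (P.lf 4037088 0 0)))) (P.cons (P.cons (P.lf 606867560 0 0) (P.cons (P.lf 22861040 0 0) (P.cons (P.lf 0 9857936 0) (P.lf 0 1095320 0)))) (P.cons (P.cons (P.lf 0 24730670 0) (P.cons (P.lf 0 2105008 0) (P.cons (P.lf 907704 0 0) (P.lf 100848 0 0)))) (P.cons (P.cons (P.lf 0 990830 0) (P.cons (P.lf 52160 0 0) (P.cons (P.lf 0 22496 0) P.nil))) (P.cons (P.cons (P.lf 88832 0 0) (P.cons (P.lf 3264 0 0) P.nil)) (P.cons (P.cons (P.lf 0 1272 0) P.nil) P.nil)))))) 6930)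
 EL.nil)
noncomputable def S386_401_660_808_35 : EL := (EL.cons 14 (TM.mk (P.cons (P.cons (P.lf 653400878 0 0) (P.cons (P.lf 0 46477838 0) (P.cons (P.lf 20868284 0 0) (P.cons (P.lf 1514052 0 0) (P.cons (P.lf 74484 0 0) (P.cons (P.lf 34152 0 0) P.nil)))))) (P.cons (P.cons (P.lf 334748660 0 0) (P.cons (P.lf 704464 0 0) (P.cons (P.lf 0 752266 0) (P.cons (P.lf 353042 0 0) (P.cons (P.lf 0 40416 0) P.nil))))) (P.cons (P.cons (P.lf 29232934 0 0) (P.cons (P.lf 2554252 0 0) (P.cons (P.lf 0 999282 0) (P.cons (P.lf 0 210470 0) P.nil)))) (P.cons (P.cons (P.lf 0 4040920 0) (P.cons (P.lf 0 380856 0) (P.cons (P.lf 152000 0 0) P.nil))) (P.cons (P.cons (P.lf 0 19800 0) (P.cons (P.lf 14274 0 0) P.nil)) (P.cons (P.cons (P.lf 17554 0 0) P.nil) P.nil)))))) 113316)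
 EL.nil)
noncomputable def S386_401_660_808_36 : EL := (EL.cons 14 (TM.mk (P.cons (P.lf 6781871128 0 0) (P.cons (P.lf 173836984 0 0) (P.cons (P.lf 0 10373848 0) (P.cons (P.lf 162856 0 0) (P.cons (P.lf 3464 0 0) (P.cons (P.lf 0 224 0) P.nil)))))) 144)
 EL.nil)
noncomputable def S386_401_660_808_37 : EL := (EL.cons 14 (TM.mk (P.cons (P.cons (P.lf 1870442928 0 0) (P.cons (P.lf 0 66524354 0) (P.cons (P.lf 28686052 0 0) (P.lf 3187336 0 0)))) (P.cons (P.cons (P.lf 527074572 0 0) (P.cons (P.lf 16343912 0 0) (P.cons (P.lf 0 7047676 0) (P.lf 0 783070 0)))) (P.cons (P.cons (P.lf 0 10104960 0) (P.cons (P.lf 0 1097528 0) (P.cons (P.lf 473266 0 0) (P.lf 52578 0 0)))) (P.cons (P.cons (P.lf 0 1970738 0) (P.cons (P.lf 0 30624 0) (P.cons (P.lf 13202 0 0) P.nil))) (P.cons (P.cons (P.lf 92408 0 0) (P.cons (P.lf 6574 0 0) P.nil)) (P.cons (P.cons (P.lf 1704 0 0) P.nil) P.nil))))))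 11470)
 EL.nil)
noncomputable def S386_401_660_808_38 : EL := (EL.cons 14 (TM.mk (P.cons (P.cons (P.lf 515868950 0 0) (P.cons (P.lf 0 36694890 0) (P.cons (P.lf 16475796 0 0) (P.cons (P.lf 1195364 0 0) (P.cons (P.lf 58806 0 0) (P.cons (P.lf 26962 0 0) P.nil)))))) (P.cons (P.cons (P.lf 277511718 0 0) (P.cons (P.lf 0 384400 0) (P.cons (P.lf 0 171606 0) (P.cons (P.lf 309370 0 0) (P.cons (P.lf 0 30400 0) P.nil))))) (P.cons (P.cons (P.lf 29065110 0 0) (P.cons (P.lf 2087002 0 0) (P.cons (P.lf 0 829372 0) (P.cons (P.lf 0 160852 0) P.nil)))) (P.cons (P.cons (P.lf 0 2990646 0) (P.cons (P.lf 0 250730 0) (P.cons (P.lf 101086 0 0) P.nil))) (P.cons (P.cons (P.lf 0 126102 0) (P.cons (P.lf 470 0 0) P.nil)) (P.cons (P.cons (P.lf 19010 0 0) P.nil) P.nil)))))) 104468)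
 EL.nil)
noncomputable def S386_401_660_808_39 : EL := (EL.cons 14 (TM.mk (P.cons (P.lf 5354380234 0 0) (P.cons (P.lf 274493364 0 0) (P.cons (P.lf 0 12862600 0) (P.cons (P.lf 0 162722 0) (P.cons (P.lf 24588 0 0) (P.cons (P.lf 0 606 0) P.nil)))))) 268)
 EL.nil)
noncomputable def S386_401_660_808_40 : EL := (EL.cons 14 (TM.mk (P.cons (P.cons (P.lf 1476740334 0 0) (P.cons (P.lf 0 52521890 0) (P.cons (P.lf 22648030 0 0) (P.lf 2516444 0 0)))) (P.cons (P.cons (P.lf 453985294 0 0) (P.cons (P.lf 11557470 0 0) (P.cons (P.lf 0 4983710 0) (P.lf 0 553740 0)))) (P.cons (P.cons (P.lf 429668 0 0) (P.cons (P.lf 0 455416 0) (P.cons (P.lf 196380 0 0) (P.lf 21814 0 0)))) (P.cons (P.cons (P.lf 0 2361494 0) (P.cons (P.lf 0 67388 0) (P.cons (P.lf 29056 0 0) P.nil))) (P.cons (P.cons (P.lf 56026 0 0) (P.cons (P.lf 6178 0 0) P.nil)) (P.cons (P.cons (P.lf 5566 0 0) P.nil) P.nil)))))) 12892)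
 EL.nil)
noncomputable def S386_401_660_808_41 : EL := (EL.cons 14 (TM.mk (P.cons (P.cons (P.lf 407285608 0 0) (P.cons (P.lf 0 28971118 0) (P.cons (P.lf 13007866 0 0) (P.cons (P.lf 943756 0 0) (P.cons (P.lf 46428 0 0) (P.cons (P.lf 21288 0 0) P.nil)))))) (P.cons (P.cons (P.lf 229539094 0 0) (P.cons (P.lf 0 1046094 0) (P.cons (P.lf 197938 0 0) (P.cons (P.lf 268444 0 0) (P.cons (P.lf 0 22812 0) P.nil))))) (P.cons (P.cons (P.lf 27940386 0 0) (P.cons (P.lf 1684254 0 0) (P.cons (P.lf 0 678170 0) (P.cons (P.lf 0 122178 0) P.nil)))) (P.cons (P.cons (P.lf 0 2098320 0) (P.cons (P.lf 0 155952 0) (P.cons (P.lf 63544 0 0) P.nil))) (P.cons (P.cons (P.lf 0 189714 0) (P.cons (P.lf 0 7244 0) P.nil)) (P.cons (P.cons (P.lf 16718 0 0) P.nil) P.nil)))))) 93346)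
 EL.nil)
noncomputable def S386_401_660_808_42 : EL := (EL.cons 14 (TM.mk (P.cons (P.lf 4227356602 0 0) (P.cons (P.lf 325074410 0 0) (P.cons (P.lf 0 11066548 0) (P.cons (P.lf 0 618760 0) (P.cons (P.lf 39016 0 0) (P.cons (P.lf 0 56 0) P.nil)))))) 384)
 EL.nil)
noncomputable def S386_401_660_808_43 : EL := (EL.cons 14 (TM.mk (P.cons (P.cons (P.lf 1165906740 0 0) (P.cons (P.lf 0 41466752 0) (P.cons (P.lf 17880930 0 0) (P.lf 1986768 0 0)))) (P.cons (P.cons (P.lf 388312832 0 0) (P.cons (P.lf 8061880 0 0) (P.cons (P.lf 0 3476372 0) (P.lf 0 386260 0)))) (P.cons (P.cons (P.lf 7743238 0 0) (P.cons (P.lf 0 62236 0) (P.cons (P.lf 26836 0 0) (P.lf 2978 0 0)))) (P.cons (P.cons (P.lf 0 2376006 0) (P.cons (P.lf 0 77374 0) (P.cons (P.lf 33362 0 0) P.nil))) (P.cons (P.cons (P.lf 5126 0 0) (P.cons (P.lf 4262 0 0) P.nil)) (P.cons (P.cons (P.lf 8534 0 0) P.nil) P.nil)))))) 13488)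
 EL.nil)
noncomputable def S386_401_660_808_44 : EL := (EL.cons 14 (TM.mk (P.cons (P.cons (P.lf 321557572 0 0) (P.cons (P.lf 0 22873094 0) (P.cons (P.lf 10269888 0 0) (P.cons (P.lf 745108 0 0) (P.cons (P.lf 36654 0 0) (P.cons (P.lf 16806 0 0) P.nil)))))) (P.cons (P.cons (P.lf 189466618 0 0) (P.cons (P.lf 0 1412202 0) (P.cons (P.lf 419518 0 0) (P.cons (P.lf 231038 0 0) (P.cons (P.lf 0 17070 0) P.nil))))) (P.cons (P.cons (P.lf 26212698 0 0) (P.cons (P.lf 1343558 0 0) (P.cons (P.lf 0 547128 0) (P.cons (P.lf 0 92168 0) P.nil)))) (P.cons (P.cons (P.lf 0 1360702 0) (P.cons (P.lf 0 88326 0) (P.cons (P.lf 36452 0 0) P.nil))) (P.cons (P.cons (P.lf 0 221472 0) (P.cons (P.lf 0 10940 0) P.nil)) (P.cons (P.cons (P.lf 12504 0 0) P.nil) P.nil)))))) 82092)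
 EL.nil)
noncomputable def S386_401_660_808_45 : EL := (EL.cons 14 (TM.mk (P.cons (P.cons (P.lf 180208238 0 0) (P.cons (P.lf 0 19227910 0) (P.cons (P.lf 8975152 0 0) (P.cons (P.lf 323368 0 0) (P.cons (P.lf 72116 0 0) (P.cons (P.lf 24900 0 0) P.nil)))))) (P.cons (P.cons (P.lf 138485732 0 0) (P.cons (P.lf 0 4633958 0) (P.cons (P.lf 1802308 0 0) (P.cons (P.lf 397578 0 0) (P.cons (P.lf 0 26190 0) P.nil))))) (P.cons (P.cons (P.lf 29830846 0 0) (P.cons (P.lf 1332066 0 0) (P.cons (P.lf 0 592086 0) (P.cons (P.lf 0 50968 0) P.nil)))) (P.cons (P.cons (P.lf 0 88338 0) (P.cons (P.lf 118120 0 0) (P.cons (P.lf 0 35816 0) P.nil))) (P.cons (P.cons (P.lf 0 406964 0) (P.cons (P.lf 0 46328 0) P.nil)) (P.cons (P.cons (P.lf 15068 0 0) P.nil) P.nil)))))) 146952)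
 EL.nil)
noncomputable def S386_401_660_808_46 : EL := (EL.cons 15 (TM.mk (P.lf 4294967296 0 0) 0)
 EL.nil)
noncomputable def S386_401_660_808_47 : EL := (EL.cons 15 (TM.mk (P.cons (P.cons (P.lf 1184553799 0 0) (P.cons (P.lf 0 42129956 0) (P.cons (P.lf 18166912 0 0) (P.lf 2018544 0 0)))) (P.cons (P.cons (P.lf 303433780 0 0) (P.cons (P.lf 11430520 0 0) (P.cons (P.lf 0 4928968 0) (P.lf 0 547660 0)))) (P.cons (P.cons (P.lf 0 12365335 0) (P.cons (P.lf 0 1052504 0) (P.cons (P.lf 453852 0 0) (P.lf 50424 0 0)))) (P.cons (P.cons (P.lf 0 495415 0) (P.cons (P.lf 26080 0 0) (P.cons (P.lf 0 11248 0) P.nil))) (P.cons (P.cons (P.lf 44416 0 0) (P.cons (P.lf 1632 0 0) P.nil)) (P.cons (P.cons (P.lf 0 636 0) P.nil) P.nil)))))) 3465)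
 EL.nil)
noncomputable def S386_401_660_808_48 : EL := (EL.cons 15 (TM.mk (P.cons (P.cons (P.lf 326700439 0 0) (P.cons (P.lf 0 23238919 0) (P.cons (P.lf 10434142 0 0) (P.cons (P.lf 757026 0 0) (P.cons (P.lf 37242 0 0) (P.cons (P.lf 17076 0 0) P.nil)))))) (P.cons (P.cons (P.lf 167374330 0 0) (P.cons (P.lf 352232 0 0) (P.cons (P.lf 0 376133 0) (P.cons (P.lf 176521 0 0) (P.cons (P.lf 0 20208 0) P.nil))))) (P.cons (P.cons (P.lf 14616467 0 0) (P.cons (P.lf 1277126 0 0) (P.cons (P.lf 0 499641 0) (P.cons (P.lf 0 105235 0) P.nil)))) (P.cons (P.cons (P.lf 0 2020460 0) (P.cons (P.lf 0 190428 0) (P.cons (P.lf 76000 0 0) P.nil))) (P.cons (P.cons (P.lf 0 9900 0) (P.cons (P.lf 7137 0 0) P.nil)) (P.cons (P.cons (P.lf 8777 0 0) P.nil) P.nil)))))) 56658)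
 EL.nil)
noncomputable def S386_401_660_808 : SL := (SL.cons S386_401_660_808_0 (SL.cons S386_401_660_808_1 (SL.cons S386_401_660_808_2 (SL.cons S386_401_660_808_3 (SL.cons S386_401_660_808_4 (SL.cons S386_401_660_808_5 (SL.cons S386_401_660_808_6 (SL.cons S386_401_660_808_7 (SL.cons S386_401_660_808_8 (SL.cons S386_401_660_808_9 (SL.cons S386_401_660_808_10 (SL.cons S386_401_660_808_11 (SL.cons S386_401_660_808_12 (SL.cons S386_401_660_808_13 (SL.cons S386_401_660_808_14 (SL.cons S386_401_660_808_15 (SL.cons S386_401_660_808_16 (SL.cons S386_401_660_808_17 (SL.cons S386_401_660_808_18 (SL.cons S386_401_660_808_19 (SL.cons S386_401_660_808_20 (SL.cons S386_401_660_808_21 (SL.cons S386_401_660_808_22 (SL.cons S386_401_660_808_23 (SL.cons S386_401_660_808_24 (SL.cons S386_401_660_808_25 (SL.cons S386_401_660_808_26 (SL.cons S386_401_660_808_27 (SL.cons S386_401_660_808_28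 (SL.cons S386_401_660_808_29 (SL.cons S386_401_660_808_30 (SL.cons S386_401_660_808_31 (SL.cons S386_401_660_808_32 (SL.cons S386_401_660_808_33 (SL.cons S386_401_660_808_34 (SL.cons S386_401_660_808_35 (SL.cons S386_401_660_808_36 (SL.cons S386_401_660_808_37 (SL.cons S386_401_660_808_38 (SL.cons S386_401_660_808_39 (SL.cons S386_401_660_808_40 (SL.cons S386_401_660_808_41 (SL.cons S386_401_660_808_42 (SL.cons S386_401_660_808_43 (SL.cons S386_401_660_808_44 (SL.cons S386_401_660_808_45 (SL.cons S386_401_660_808_46 (SL.cons S386_401_660_808_47 (SL.cons S386_401_660_808_48 SL.nil)))))))))))))))))))))))))))))))))))))))))))))))))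
noncomputable def S401_415_216_364_0 : EL := (EL.cons 0 (TM.mk (P.cons (P.lf 3326296258 0 0) (P.cons (P.lf 0 183422336 0) (P.cons (P.lf 10183011 0 0) (P.cons (P.lf 0 2705 0) (P.cons (P.lf 0 12273 0) (P.cons (P.lf 402 0 0) P.nil)))))) 239)
 (EL.cons 1 (TM.mk (P.cons (P.lf 1288541953 0 0) (P.cons (P.lf 0 106768991 0) (P.cons (P.lf 0 3137756 0) (P.cons (P.lf 253816 0 0) (P.cons (P.lf 0 4378 0) (P.cons (P.lf 0 125 0) P.nil)))))) 125)
 (EL.cons 5 (TM.mk (P.cons (P.lf 6118761294 0 0) (P.cons (P.lf 65216832 0 0) (P.cons (P.lf 0 3620626 0) (P.cons (P.lf 964 0 0) (P.cons (P.lf 4364 0 0) (P.cons (P.lf 0 142 0) P.nil)))))) 61)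
 (EL.cons 9 (TM.mk (P.lf 6442450944 0 0) 2)
 EL.nil))))
noncomputable def S401_415_216_364_1 : EL := (EL.cons 0 (TM.mk (P.cons (P.cons (P.lf 3368644699 0 0) (P.cons (P.lf 66718349 0 0) (P.cons (P.lf 28769698 0 0) (P.lf 0 3196615 0)))) (P.cons (P.cons (P.lf 0 159293745 0) (P.cons (P.lf 0 16105306 0) (P.cons (P.lf 0 6944785 0) (P.lf 771624 0 0)))) (P.cons (P.cons (P.lf 0 23778191 0) (P.cons (P.lf 683251 0 0) (P.cons (P.lf 294617 0 0) (P.lf 0 32728 0)))) (P.cons (P.cons (P.lf 2652672 0 0) (P.cons (P.lf 119057 0 0) (P.cons (P.lf 51348 0 0) P.nil))) (P.cons (P.cons (P.lf 26166 0 0) (P.cons (P.lf 0 13031 0) P.nil)) (P.cons (P.cons (P.lf 0 10269 0) P.nil) P.nil)))))) 33721)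
 (EL.cons 1 (TM.mk (P.cons (P.cons (P.lf 1661160300 0 0) (P.cons (P.lf 42418835 0 0) (P.cons (P.lf 18291482 0 0) (P.lf 0 2032392 0)))) (P.cons (P.cons (P.lf 64835874 0 0) (P.cons (P.lf 0 2044070 0) (P.cons (P.lf 0 881426 0) (P.lf 97942 0 0)))) (P.cons (P.cons (P.lf 0 24171374 0) (P.cons (P.lf 0 1100701 0) (P.cons (P.lf 0 474629 0) (P.lf 52733 0 0)))) (P.cons (P.cons (P.lf 0 511242 0) (P.cons (P.lf 114658 0 0) (P.cons (P.lf 49432 0 0) P.nil))) (P.cons (P.cons (P.lf 122722 0 0) (P.cons (P.lf 0 392 0) P.nil)) (P.cons (P.cons (P.lf 0 2419 0) P.nil) P.nil)))))) 13172)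
 (EL.cons 5 (TM.mk (P.cons (P.cons (P.lf 2180950684 0 0) (P.cons (P.lf 0 64108572 0) (P.cons (P.lf 0 27644340 0) (P.lf 3071592 0 0)))) (P.cons (P.cons (P.lf 318972606 0 0) (P.cons (P.lf 17931908 0 0) (P.cons (P.lf 7732438 0 0) (P.lf 0 859156 0)))) (P.cons (P.cons (P.lf 1723284 0 0) (P.cons (P.lf 0 1535340 0) (P.cons (P.lf 0 662052 0) (P.lf 73562 0 0)))) (P.cons (P.cons (P.lf 0 1728458 0) (P.cons (P.lf 5468 0 0) (P.cons (P.lf 2358 0 0) P.nil))) (P.cons (P.cons (P.lf 28520 0 0) (P.cons (P.lf 5414 0 0) P.nil)) (P.cons (P.cons (P.lf 3660 0 0) P.nil) P.nil)))))) 9952)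
 (EL.cons 9 (TM.mk (P.cons (P.cons (P.lf 2981197948 0 0) (P.cons (P.lf 0 35635134 0) (P.cons (P.lf 0 15366270 0) (P.lf 1707360 0 0)))) (P.cons (P.cons (P.lf 231471910 0 0) (P.cons (P.lf 10769622 0 0) (P.cons (P.lf 4643982 0 0) (P.lf 0 515994 0)))) (P.cons (P.cons (P.lf 0 5939275 0) (P.cons (P.lf 0 1140354 0) (P.cons (P.lf 0 491730 0) (P.lf 54636 0 0)))) (P.cons (P.cons (P.lf 0 692896 0) (P.cons (P.lf 42174 0 0) (P.cons (P.lf 18180 0 0) P.nil))) (P.cons (P.cons (P.lf 33364 0 0) (P.cons (P.lf 684 0 0) P.nil)) (P.cons (P.cons (P.lf 6 0 0) P.nil) P.nil)))))) 3536)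
 (EL.cons 2 (TM.mk (P.cons (P.cons (P.lf 0 148204895 0) (P.cons (P.lf 0 138066570 0) (P.cons (P.lf 14170117 0 0) (P.cons (P.lf 2946990 0 0) (P.lf 0 245579 0))))) (P.cons (P.cons (P.lf 27210428 0 0) (P.cons (P.lf 25349028 0 0) (P.cons (P.lf 0 2601632 0) (P.cons (P.lf 0 541065 0) (P.lf 45087 0 0))))) (P.cons (P.cons (P.lf 0 953057 0) (P.cons (P.lf 0 887861 0) (P.cons (P.lf 91122 0 0) (P.cons (P.lf 18950 0 0) P.nil)))) (P.cons (P.cons (P.lf 0 66704 0) (P.cons (P.lf 0 62139 0) (P.cons (P.lf 6375 0 0) P.nil))) (P.cons (P.cons (P.lf 4511 0 0) (P.cons (P.lf 4204 0 0) P.nil)) (P.cons (P.cons (P.lf 0 56 0) P.nil) P.nil)))))) 6276)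
 (EL.cons 6 (TM.mk (P.cons (P.cons (P.lf 37229979 0 0) (P.cons (P.lf 34683168 0 0) (P.cons (P.lf 0 3559620 0) (P.cons (P.lf 0 740301 0) (P.lf 61689 0 0))))) (P.cons (P.cons (P.lf 0 11251617 0) (P.cons (P.lf 0 10481919 0) (P.cons (P.lf 1075785 0 0) (P.cons (P.lf 223731 0 0) (P.lf 0 18642 0))))) (P.cons (P.cons (P.lf 1191393 0 0) (P.cons (P.lf 1109892 0 0) (P.cons (P.lf 0 113910 0) (P.cons (P.lf 0 23688 0) P.nil)))) (P.cons (P.cons (P.lf 0 44061 0) (P.cons (P.lf 0 41046 0) (P.cons (P.lf 4212 0 0) P.nil))) (P.cons (P.cons (P.lf 0 720 0) (P.cons (P.lf 0 669 0) P.nil)) (P.cons (P.cons (P.lf 99 0 0) P.nil) P.nil)))))) 3357)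
 EL.nil))))))
noncomputable def S401_415_216_364_2 : EL := (EL.cons 0 (TM.mk (P.cons (P.cons (P.lf 2405369434 0 0) (P.cons (P.lf 41508674 0 0) (P.cons (P.lf 17059155 0 0) (P.cons (P.lf 0 2713065 0) (P.cons (P.lf 0 75675 0) (P.cons (P.lf 34696 0 0) P.nil)))))) (P.cons (P.cons (P.lf 23311758 0 0) (P.cons (P.lf 0 1849238 0) (P.cons (P.lf 0 329051 0) (P.cons (P.lf 492507 0 0) (P.cons (P.lf 42201 0 0) P.nil))))) (P.cons (P.cons (P.lf 0 37201324 0) (P.cons (P.lf 0 1735625 0) (P.cons (P.lf 0 852957 0) (P.cons (P.lf 0 6993 0) P.nil)))) (P.cons (P.cons (P.lf 609153 0 0) (P.cons (P.lf 176859 0 0) (P.cons (P.lf 87078 0 0) P.nil))) (P.cons (P.cons (P.lf 302611 0 0) (P.cons (P.lf 12125 0 0) P.nil)) (P.cons (P.cons (P.lf 0 9313 0) P.nil) P.nil)))))) 220556)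
 (EL.cons 1 (TM.mk (P.cons (P.cons (P.lf 1261463340 0 0) (P.cons (P.lf 27477495 0 0) (P.cons (P.lf 11339920 0 0) (P.cons (P.lf 0 1755223 0) (P.cons (P.lf 0 45845 0) (P.cons (P.lf 21022 0 0) P.nil)))))) (P.cons (P.cons (P.lf 159388918 0 0) (P.cons (P.lf 3965019 0 0) (P.cons (P.lf 1901283 0 0) (P.cons (P.lf 0 24787 0) (P.cons (P.lf 17261 0 0) P.nil))))) (P.cons (P.cons (P.lf 0 17115932 0) (P.cons (P.lf 0 1197844 0) (P.cons (P.lf 0 534198 0) (P.cons (P.lf 42138 0 0) P.nil)))) (P.cons (P.cons (P.lf 0 2376579 0) (P.cons (P.lf 0 42341 0) (P.cons (P.lf 0 20641 0) P.nil))) (P.cons (P.cons (P.lf 103532 0 0) (P.cons (P.lf 15521 0 0) P.nil)) (P.cons (P.cons (P.lf 11970 0 0) P.nil) P.nil)))))) 90439)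
 (EL.cons 5 (TM.mk (P.cons (P.cons (P.lf 708222569 0 0) (P.cons (P.lf 0 52135760 0) (P.cons (P.lf 0 21959522 0) (P.cons (P.lf 2948130 0 0) (P.cons (P.lf 47039 0 0) (P.cons (P.lf 0 21559 0) P.nil)))))) (P.cons (P.cons (P.lf 234498493 0 0) (P.cons (P.lf 9051488 0 0) (P.cons (P.lf 3601552 0 0) (P.cons (P.lf 0 693739 0) (P.cons (P.lf 0 27165 0) P.nil))))) (P.cons (P.cons (P.lf 16422986 0 0) (P.cons (P.lf 372532 0 0) (P.cons (P.lf 232503 0 0) (P.cons (P.lf 44128 0 0) P.nil)))) (P.cons (P.cons (P.lf 0 1427041 0) (P.cons (P.lf 0 125322 0) (P.cons (P.lf 0 62729 0) P.nil))) (P.cons (P.cons (P.lf 0 122817 0) (P.cons (P.lf 0 808 0) P.nil)) (P.cons (P.cons (P.lf 7481 0 0) P.nil) P.nil)))))) 75845)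
 (EL.cons 9 (TM.mk (P.cons (P.cons (P.lf 1379527959 0 0) (P.cons (P.lf 0 32979804 0) (P.cons (P.lf 0 14024152 0) (P.cons (P.lf 1750128 0 0) (P.cons (P.lf 17763 0 0) (P.cons (P.lf 0 8143 0) P.nil)))))) (P.cons (P.cons (P.lf 214223931 0 0) (P.cons (P.lf 7406448 0 0) (P.cons (P.lf 3074604 0 0) (P.cons (P.lf 0 457605 0) (P.cons (P.lf 0 10735 0) P.nil))))) (P.cons (P.cons (P.lf 2819878 0 0) (P.cons (P.lf 0 215790 0) (P.cons (P.lf 0 62428 0) (P.cons (P.lf 36744 0 0) P.nil)))) (P.cons (P.cons (P.lf 0 1068051 0) (P.cons (P.lf 0 55104 0) (P.cons (P.lf 0 28045 0) P.nil))) (P.cons (P.cons (P.lf 0 13435 0) (P.cons (P.lf 3079 0 0) P.nil)) (P.cons (P.cons (P.lf 3679 0 0) P.nil) P.nil)))))) 34805)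
 (EL.cons 2 (TM.mk (P.cons (P.cons (P.lf 0 137161501 0) (P.cons (P.lf 0 126139095 0) (P.cons (P.lf 15348600 0 0) (P.cons (P.lf 3150703 0 0) (P.cons (P.lf 0 400657 0) (P.cons (P.lf 0 3830 0) P.nil)))))) (P.cons (P.cons (P.lf 14533098 0 0) (P.cons (P.lf 12742408 0 0) (P.cons (P.lf 0 2475028 0) (P.cons (P.lf 0 494634 0) (P.cons (P.lf 108309 0 0) P.nil))))) (P.cons (P.cons (P.lf 1346512 0 0) (P.cons (P.lf 1408381 0 0) (P.cons (P.lf 81101 0 0) (P.cons (P.lf 12976 0 0) P.nil)))) (P.cons (P.cons (P.lf 0 148505 0) (P.cons (P.lf 0 152370 0) (P.cons (P.lf 0 4905 0) P.nil))) (P.cons (P.cons (P.lf 0 6243 0) (P.cons (P.lf 0 5428 0) P.nil)) (P.cons (P.cons (P.lf 877 0 0) P.nil) P.nil)))))) 62195)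
 (EL.cons 6 (TM.mk (P.cons (P.cons (P.lf 34455810 0 0) (P.cons (P.lf 31686912 0 0) (P.cons (P.lf 0 3855660 0) (P.cons (P.lf 0 791472 0) (P.cons (P.lf 100644 0 0) (P.cons (P.lf 960 0 0) P.nil)))))) (P.cons (P.cons (P.lf 0 7737924 0) (P.cons (P.lf 0 6959646 0) (P.cons (P.lf 1079094 0 0) (P.cons (P.lf 218136 0 0) (P.cons (P.lf 0 39144 0) P.nil))))) (P.cons (P.cons (P.lf 225450 0 0) (P.cons (P.lf 146052 0 0) (P.cons (P.lf 0 108744 0) (P.cons (P.lf 0 21000 0) P.nil)))) (P.cons (P.cons (P.lf 57564 0 0) (P.cons (P.lf 62568 0 0) (P.cons (P.lf 6678 0 0) P.nil))) (P.cons (P.cons (P.lf 0 3222 0) (P.cons (P.lf 0 3702 0) P.nil)) (P.cons (P.cons (P.lf 0 246 0) P.nil) P.nil)))))) 22602)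
 EL.nil))))))
noncomputable def S401_415_216_364_3 : EL := (EL.cons 0 (TM.mk (P.cons (P.lf 5129420605 0 0) (P.cons (P.lf 183422336 0 0) (P.cons (P.lf 0 10183011 0) (P.cons (P.lf 2705 0 0) (P.cons (P.lf 12273 0 0) (P.cons (P.lf 0 402 0) P.nil)))))) 239)
 (EL.cons 1 (TM.mk (P.cons (P.lf 0 1288541953 0) (P.cons (P.lf 106768991 0 0) (P.cons (P.lf 3137756 0 0) (P.cons (P.lf 0 253816 0) (P.cons (P.lf 4378 0 0) (P.cons (P.lf 125 0 0) P.nil)))))) 125)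
 (EL.cons 5 (TM.mk (P.cons (P.lf 323689650 0 0) (P.cons (P.lf 0 65216832 0) (P.cons (P.lf 3620626 0 0) (P.cons (P.lf 0 964 0) (P.cons (P.lf 0 4364 0) (P.cons (P.lf 142 0 0) P.nil)))))) 54)
 EL.nil)))
noncomputable def S401_415_216_364_4 : EL := (EL.cons 0 (TM.mk (P.cons (P.cons (P.lf 2373602579 0 0) (P.cons (P.lf 0 28372368 0) (P.cons (P.lf 0 12234482 0) (P.lf 1359383 0 0)))) (P.cons (P.cons (P.lf 269173190 0 0) (P.cons (P.lf 7560108 0 0) (P.cons (P.lf 3260003 0 0) (P.lf 0 362218 0)))) (P.cons (P.cons (P.lf 0 2850699 0) (P.cons (P.lf 0 544992 0) (P.cons (P.lf 0 235003 0) (P.lf 26110 0 0)))) (P.cons (P.cons (P.lf 0 1085389 0) (P.cons (P.lf 0 15925 0) (P.cons (P.lf 0 6871 0) P.nil))) (P.cons (P.cons (P.lf 22000 0 0) (P.cons (P.lf 3483 0 0) P.nil)) (P.cons (P.cons (P.lf 2300 0 0) P.nil) P.nil)))))) 7099)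
 (EL.cons 1 (TM.mk (P.cons (P.cons (P.lf 0 596263541 0) (P.cons (P.lf 7127311 0 0) (P.cons (P.lf 3073376 0 0) (P.lf 0 341484 0)))) (P.cons (P.cons (P.lf 3110341 0 0) (P.cons (P.lf 0 2744581 0) (P.cons (P.lf 0 1183494 0) (P.lf 131497 0 0)))) (P.cons (P.cons (P.lf 6475996 0 0) (P.cons (P.lf 389205 0 0) (P.cons (P.lf 167827 0 0) (P.lf 0 18646 0)))) (P.cons (P.cons (P.lf 35439 0 0) (P.cons (P.lf 0 20683 0) (P.cons (P.lf 0 8917 0) P.nil))) (P.cons (P.cons (P.lf 0 28140 0) (P.cons (P.lf 0 440 0) P.nil)) (P.cons (P.cons (P.lf 663 0 0) P.nil) P.nil)))))) 2771)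
 (EL.cons 5 (TM.mk (P.cons (P.cons (P.lf 149785062 0 0) (P.cons (P.lf 0 1790424 0) (P.cons (P.lf 0 772050 0) (P.lf 85782 0 0)))) (P.cons (P.cons (P.lf 0 18548720 0) (P.cons (P.lf 901834 0 0) (P.cons (P.lf 388880 0 0) (P.lf 0 43208 0)))) (P.cons (P.cons (P.lf 0 966176 0) (P.cons (P.lf 0 186342 0) (P.cons (P.lf 0 80352 0) (P.lf 8926 0 0)))) (P.cons (P.cons (P.lf 154948 0 0) (P.cons (P.lf 19720 0 0) (P.cons (P.lf 8502 0 0) P.nil))) (P.cons (P.cons (P.lf 3296 0 0) (P.cons (P.lf 0 1010 0) P.nil)) (P.cons (P.cons (P.lf 0 816 0) P.nil) P.nil)))))) 1778)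
 EL.nil)))
noncomputable def S401_415_216_364_5 : EL := (EL.cons 0 (TM.mk (P.cons (P.cons (P.lf 1098367562 0 0) (P.cons (P.lf 0 26258217 0) (P.cons (P.lf 0 11165900 0) (P.cons (P.lf 1393435 0 0) (P.cons (P.lf 14141 0 0) (P.cons (P.lf 0 6482 0) P.nil)))))) (P.cons (P.cons (P.lf 209839529 0 0) (P.cons (P.lf 4957980 0 0) (P.cons (P.lf 2048690 0 0) (P.cons (P.lf 0 314513 0) (P.cons (P.lf 0 8040 0) P.nil))))) (P.cons (P.cons (P.lf 6163809 0 0) (P.cons (P.lf 91184 0 0) (P.cons (P.lf 59997 0 0) (P.cons (P.lf 13459 0 0) P.nil)))) (P.cons (P.cons (P.lf 0 1108112 0) (P.cons (P.lf 0 61736 0) (P.cons (P.lf 0 28972 0) P.nil))) (P.cons (P.cons (P.lf 0 42843 0) (P.cons (P.lf 1163 0 0) P.nil)) (P.cons (P.cons (P.lf 4558 0 0) P.nil) P.nil)))))) 32613)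
 (EL.cons 1 (TM.mk (P.cons (P.cons (P.lf 0 275916675 0) (P.cons (P.lf 6596223 0 0) (P.cons (P.lf 2804941 0 0) (P.cons (P.lf 0 350038 0) (P.cons (P.lf 0 3551 0) (P.cons (P.lf 1627 0 0) P.nil)))))) (P.cons (P.cons (P.lf 0 19983963 0) (P.cons (P.lf 0 2027913 0) (P.cons (P.lf 0 847363 0) (P.cons (P.lf 120528 0 0) (P.cons (P.lf 2441 0 0) P.nil))))) (P.cons (P.cons (P.lf 3658166 0 0) (P.cons (P.lf 149840 0 0) (P.cons (P.lf 56610 0 0) (P.cons (P.lf 0 14079 0) P.nil)))) (P.cons (P.cons (P.lf 310336 0 0) (P.cons (P.lf 12350 0 0) (P.cons (P.lf 6624 0 0) P.nil))) (P.cons (P.cons (P.lf 0 21140 0) (P.cons (P.lf 0 1948 0) P.nil)) (P.cons (P.cons (P.lf 0 1415 0) P.nil) P.nil)))))) 10334)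
 (EL.cons 5 (TM.mk (P.cons (P.cons (P.lf 69311962 0 0) (P.cons (P.lf 0 1657012 0) (P.cons (P.lf 0 704618 0) (P.cons (P.lf 87930 0 0) (P.cons (P.lf 892 0 0) (P.cons (P.lf 0 408 0) P.nil)))))) (P.cons (P.cons (P.lf 0 3201634 0) (P.cons (P.lf 705976 0 0) (P.cons (P.lf 296444 0 0) (P.cons (P.lf 0 40706 0) (P.cons (P.lf 0 718 0) P.nil))))) (P.cons (P.cons (P.lf 0 1251616 0) (P.cons (P.lf 0 104350 0) (P.cons (P.lf 0 42140 0) (P.cons (P.lf 7460 0 0) P.nil)))) (P.cons (P.cons (P.lf 37978 0 0) (P.cons (P.lf 3582 0 0) (P.cons (P.lf 952 0 0) P.nil))) (P.cons (P.cons (P.lf 10754 0 0) (P.cons (P.lf 612 0 0) P.nil)) (P.cons (P.cons (P.lf 0 394 0) P.nil) P.nil)))))) 3492)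
 EL.nil)))
noncomputable def S401_415_216_364_6 : EL := (EL.cons 12 (TM.mk (P.lf 8589934592 0 0) 0)
 (EL.cons 3 (TM.mk (P.cons (P.lf 3318937612 0 0) (P.cons (P.lf 59340746 0 0) (P.cons (P.lf 0 3824895 0) (P.cons (P.lf 69262 0 0) (P.cons (P.lf 528 0 0) (P.cons (P.lf 0 60 0) P.nil)))))) 74)
 (EL.cons 7 (TM.mk (P.cons (P.lf 0 833737508 0) (P.cons (P.lf 83990512 0 0) (P.cons (P.lf 0 432288 0) (P.cons (P.lf 0 42307 0) (P.cons (P.lf 1472 0 0) (P.cons (P.lf 0 13 0) P.nil)))))) 44)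
 EL.nil)))
noncomputable def S401_415_216_364_7 : EL := (EL.cons 12 (TM.mk (P.cons (P.cons (P.lf 3974930598 0 0) (P.cons (P.lf 0 47513512 0) (P.cons (P.lf 0 20488360 0) (P.lf 2276480 0 0)))) (P.cons (P.cons (P.lf 308629214 0 0) (P.cons (P.lf 14359496 0 0) (P.cons (P.lf 6191976 0 0) (P.lf 0 687992 0)))) (P.cons (P.cons (P.lf 0 7919034 0) (P.cons (P.lf 0 1520472 0) (P.cons (P.lf 0 655640 0) (P.lf 72848 0 0)))) (P.cons (P.cons (P.lf 0 923862 0) (P.cons (P.lf 56232 0 0) (P.cons (P.lf 24240 0 0) P.nil))) (P.cons (P.cons (P.lf 44486 0 0) (P.cons (P.lf 912 0 0) P.nil)) (P.cons (P.cons (P.lf 8 0 0) P.nil) P.nil)))))) 4690)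
 (EL.cons 3 (TM.mk (P.cons (P.cons (P.lf 2719524739 0 0) (P.cons (P.lf 36716082 0 0) (P.cons (P.lf 15832386 0 0) (P.lf 0 1759148 0)))) (P.cons (P.cons (P.lf 63391 0 0) (P.cons (P.lf 0 10439842 0) (P.cons (P.lf 0 4501776 0) (P.lf 500190 0 0)))) (P.cons (P.cons (P.lf 0 10897623 0) (P.cons (P.lf 934234 0 0) (P.cons (P.lf 402848 0 0) (P.lf 0 44760 0)))) (P.cons (P.cons (P.lf 1038406 0 0) (P.cons (P.lf 0 8890 0) (P.cons (P.lf 0 3826 0) P.nil))) (P.cons (P.cons (P.lf 0 14492 0) (P.cons (P.lf 0 3060 0) P.nil)) (P.cons (P.cons (P.lf 0 1941 0) P.nil) P.nil)))))) 13910)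
 (EL.cons 7 (TM.mk (P.cons (P.cons (P.lf 1289609693 0 0) (P.cons (P.lf 82563235 0 0) (P.cons (P.lf 35602198 0 0) (P.lf 0 3955801 0)))) (P.cons (P.cons (P.lf 89724 0 0) (P.cons (P.lf 0 14776492 0) (P.cons (P.lf 0 6371791 0) (P.lf 707977 0 0)))) (P.cons (P.cons (P.lf 0 15419105 0) (P.cons (P.lf 445933 0 0) (P.cons (P.lf 192291 0 0) (P.lf 0 21364 0)))) (P.cons (P.cons (P.lf 250317 0 0) (P.cons (P.lf 41353 0 0) (P.cons (P.lf 17831 0 0) P.nil))) (P.cons (P.cons (P.lf 30990 0 0) (P.cons (P.lf 0 2152 0) P.nil)) (P.cons (P.cons (P.lf 0 1453 0) P.nil) P.nil)))))) 7603)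
 (EL.cons 10 (TM.mk (P.cons (P.cons (P.lf 0 191788839 0) (P.cons (P.lf 0 178669044 0) (P.cons (P.lf 18337254 0 0) (P.cons (P.lf 3813639 0 0) (P.lf 0 317802 0))))) (P.cons (P.cons (P.lf 38641521 0 0) (P.cons (P.lf 35998149 0 0) (P.cons (P.lf 0 3694581 0) (P.cons (P.lf 0 768369 0) (P.lf 64029 0 0))))) (P.cons (P.cons (P.lf 0 2145249 0) (P.cons (P.lf 0 1998498 0) (P.cons (P.lf 205110 0 0) (P.cons (P.lf 42657 0 0) P.nil)))) (P.cons (P.cons (P.lf 570 0 0) (P.cons (P.lf 531 0 0) (P.cons (P.lf 0 54 0) P.nil))) (P.cons (P.cons (P.lf 2583 0 0) (P.cons (P.lf 2406 0 0) P.nil)) (P.cons (P.cons (P.lf 0 84 0) P.nil) P.nil)))))) 4119)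
 EL.nil))))
noncomputable def S401_415_216_364_8 : EL := (EL.cons 12 (TM.mk (P.cons (P.cons (P.lf 1839370612 0 0) (P.cons (P.lf 0 43973072 0) (P.cons (P.lf 0 18698870 0) (P.cons (P.lf 2333504 0 0) (P.cons (P.lf 23684 0 0) (P.cons (P.lf 0 10858 0) P.nil)))))) (P.cons (P.cons (P.lf 285631908 0 0) (P.cons (P.lf 9875264 0 0) (P.cons (P.lf 4099472 0 0) (P.cons (P.lf 0 610140 0) (P.cons (P.lf 0 14314 0) P.nil))))) (P.cons (P.cons (P.lf 3759838 0 0) (P.cons (P.lf 0 287720 0) (P.cons (P.lf 0 83238 0) (P.cons (P.lf 48992 0 0) P.nil)))) (P.cons (P.cons (P.lf 0 1424068 0) (P.cons (P.lf 0 73472 0) (P.cons (P.lf 0 37394 0) P.nil))) (P.cons (P.cons (P.lf 0 17914 0) (P.cons (P.lf 4106 0 0) P.nil)) (P.cons (P.cons (P.lf 4906 0 0) P.nil) P.nil)))))) 46378)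
 (EL.cons 3 (TM.mk (P.cons (P.cons (P.lf 1806193947 0 0) (P.cons (P.lf 20885293 0 0) (P.cons (P.lf 8498251 0 0) (P.cons (P.lf 0 1438525 0) (P.cons (P.lf 0 45750 0) (P.cons (P.lf 20976 0 0) P.nil)))))) (P.cons (P.cons (P.lf 72411426 0 0) (P.cons (P.lf 0 1443779 0) (P.cons (P.lf 0 324763 0) (P.cons (P.lf 326000 0 0) (P.cons (P.lf 26836 0 0) P.nil))))) (P.cons (P.cons (P.lf 0 17702155 0) (P.cons (P.lf 0 771873 0) (P.cons (P.lf 0 405640 0) (P.cons (P.lf 0 25794 0) P.nil)))) (P.cons (P.cons (P.lf 229454 0 0) (P.cons (P.lf 93046 0 0) (P.cons (P.lf 49374 0 0) P.nil))) (P.cons (P.cons (P.lf 125470 0 0) (P.cons (P.lf 4211 0 0) P.nil)) (P.cons (P.cons (P.lf 0 4844 0) P.nil) P.nil)))))) 115270)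
 (EL.cons 7 (TM.mk (P.cons (P.cons (P.lf 1372044245 0 0) (P.cons (P.lf 57876632 0 0) (P.cons (P.lf 24069196 0 0) (P.cons (P.lf 0 3538711 0) (P.cons (P.lf 0 80010 0) (P.cons (P.lf 36681 0 0) P.nil)))))) (P.cons (P.cons (P.lf 102490661 0 0) (P.cons (P.lf 0 2043524 0) (P.cons (P.lf 0 459683 0) (P.cons (P.lf 461434 0 0) (P.cons (P.lf 37980 0 0) P.nil))))) (P.cons (P.cons (P.lf 0 18976835 0) (P.cons (P.lf 0 1213697 0) (P.cons (P.lf 0 601393 0) (P.cons (P.lf 0 9152 0) P.nil)))) (P.cons (P.cons (P.lf 0 1305437 0) (P.cons (P.lf 38291 0 0) (P.cons (P.lf 22891 0 0) P.nil))) (P.cons (P.cons (P.lf 101896 0 0) (P.cons (P.lf 11574 0 0) P.nil)) (P.cons (P.cons (P.lf 4290 0 0) P.nil) P.nil)))))) 82148)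
 (EL.cons 10 (TM.mk (P.cons (P.cons (P.lf 0 177497814 0) (P.cons (P.lf 0 163233948 0) (P.cons (P.lf 19862298 0 0) (P.cons (P.lf 4077258 0 0) (P.cons (P.lf 0 518484 0) (P.cons (P.lf 0 4956 0) P.nil)))))) (P.cons (P.cons (P.lf 21980544 0 0) (P.cons (P.lf 19408218 0 0) (P.cons (P.lf 0 3558006 0) (P.cons (P.lf 0 712992 0) (P.cons (P.lf 149430 0 0) P.nil))))) (P.cons (P.cons (P.lf 1144932 0 0) (P.cons (P.lf 1287432 0 0) (P.cons (P.lf 191460 0 0) (P.cons (P.lf 34242 0 0) P.nil)))) (P.cons (P.cons (P.lf 0 183618 0) (P.cons (P.lf 0 194424 0) (P.cons (P.lf 0 14286 0) P.nil))) (P.cons (P.cons (P.lf 0 3906 0) (P.cons (P.lf 0 2442 0) P.nil)) (P.cons (P.cons (P.lf 966 0 0) P.nil) P.nil)))))) 84774)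
 EL.nil))))
noncomputable def S401_415_216_364_9 : EL := (EL.cons 3 (TM.mk (P.cons (P.lf 3318937612 0 0) (P.cons (P.lf 59340746 0 0) (P.cons (P.lf 0 3824895 0) (P.cons (P.lf 69262 0 0) (P.cons (P.lf 528 0 0) (P.cons (P.lf 0 60 0) P.nil)))))) 74)
 (EL.cons 7 (TM.mk (P.cons (P.lf 0 833737508 0) (P.cons (P.lf 83990512 0 0) (P.cons (P.lf 0 432288 0) (P.cons (P.lf 0 42307 0) (P.cons (P.lf 1472 0 0) (P.cons (P.lf 0 13 0) P.nil)))))) 44)
 EL.nil))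
noncomputable def S401_415_216_364_10 : EL := (EL.cons 3 (TM.mk (P.cons (P.cons (P.lf 1535814565 0 0) (P.cons (P.lf 0 18358041 0) (P.cons (P.lf 0 7916193 0) (P.lf 879574 0 0)))) (P.cons (P.cons (P.lf 146706175 0 0) (P.cons (P.lf 5219921 0 0) (P.cons (P.lf 2250888 0 0) (P.lf 0 250095 0)))) (P.cons (P.cons (P.lf 0 2697597 0) (P.cons (P.lf 0 467117 0) (P.cons (P.lf 0 201424 0) (P.lf 22380 0 0)))) (P.cons (P.cons (P.lf 0 517037 0) (P.cons (P.lf 4445 0 0) (P.cons (P.lf 1913 0 0) P.nil))) (P.cons (P.cons (P.lf 17065 0 0) (P.cons (P.lf 1530 0 0) P.nil)) (P.cons (P.cons (P.lf 648 0 0) P.nil) P.nil)))))) 3388)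
 (EL.cons 7 (TM.mk (P.cons (P.cons (P.lf 0 385806049 0) (P.cons (P.lf 4611652 0 0) (P.cons (P.lf 1988596 0 0) (P.lf 0 220954 0)))) (P.cons (P.cons (P.lf 8910510 0 0) (P.cons (P.lf 0 1858306 0) (P.cons (P.lf 0 801322 0) (P.lf 89035 0 0)))) (P.cons (P.cons (P.lf 3586291 0 0) (P.cons (P.lf 290371 0 0) (P.cons (P.lf 125211 0 0) (P.lf 0 13912 0)))) (P.cons (P.cons (P.lf 0 22869 0) (P.cons (P.lf 0 20813 0) (P.cons (P.lf 0 8974 0) P.nil))) (P.cons (P.cons (P.lf 0 13791 0) (P.cons (P.lf 458 0 0) P.nil)) (P.cons (P.cons (P.lf 566 0 0) P.nil) P.nil)))))) 1650)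
 EL.nil))
noncomputable def S401_415_216_364_11 : EL := (EL.cons 3 (TM.mk (P.cons (P.cons (P.lf 710687169 0 0) (P.cons (P.lf 0 16990103 0) (P.cons (P.lf 0 7224779 0) (P.cons (P.lf 901607 0 0) (P.cons (P.lf 9150 0 0) (P.cons (P.lf 0 4194 0) P.nil)))))) (P.cons (P.cons (P.lf 123067770 0 0) (P.cons (P.lf 3511783 0 0) (P.cons (P.lf 1454759 0 0) (P.cons (P.lf 0 219622 0) (P.cons (P.lf 0 5366 0) P.nil))))) (P.cons (P.cons (P.lf 2606873 0 0) (P.cons (P.lf 0 23367 0) (P.cons (P.lf 4484 0 0) (P.cons (P.lf 13674 0 0) P.nil)))) (P.cons (P.cons (P.lf 0 636604 0) (P.cons (P.lf 0 35126 0) (P.cons (P.lf 0 16998 0) P.nil))) (P.cons (P.cons (P.lf 0 16016 0) (P.cons (P.lf 1283 0 0) P.nil)) (P.cons (P.cons (P.lf 2440 0 0) P.nil) P.nil)))))) 19644)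
 (EL.cons 7 (TM.mk (P.cons (P.cons (P.lf 0 178528981 0) (P.cons (P.lf 4268018 0 0) (P.cons (P.lf 1814908 0 0) (P.cons (P.lf 0 226489 0) (P.cons (P.lf 0 2298 0) (P.cons (P.lf 1053 0 0) P.nil)))))) (P.cons (P.cons (P.lf 0 9738415 0) (P.cons (P.lf 0 1388450 0) (P.cons (P.lf 0 580727 0) (P.cons (P.lf 82036 0 0) (P.cons (P.lf 1620 0 0) P.nil))))) (P.cons (P.cons (P.lf 2335351 0 0) (P.cons (P.lf 126697 0 0) (P.cons (P.lf 49103 0 0) (P.cons (P.lf 0 10838 0) P.nil)))) (P.cons (P.cons (P.lf 151549 0 0) (P.cons (P.lf 4037 0 0) (P.cons (P.lf 2701 0 0) P.nil))) (P.cons (P.cons (P.lf 0 13466 0) (P.cons (P.lf 0 1158 0) P.nil)) (P.cons (P.cons (P.lf 0 552 0) P.nil) P.nil)))))) 6268)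
 EL.nil))
noncomputable def S401_415_216_364_12 : EL := (EL.cons 4 (TM.mk (P.cons (P.lf 0 3318937612 0) (P.cons (P.lf 0 59340746 0) (P.cons (P.lf 3824895 0 0) (P.cons (P.lf 0 69262 0) (P.cons (P.lf 0 528 0) (P.cons (P.lf 60 0 0) P.nil)))))) 74)
 (EL.cons 8 (TM.mk (P.cons (P.lf 833737508 0 0) (P.cons (P.lf 0 83990512 0) (P.cons (P.lf 432288 0 0) (P.cons (P.lf 42307 0 0) (P.cons (P.lf 0 1472 0) (P.cons (P.lf 13 0 0) P.nil)))))) 44)
 EL.nil))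
noncomputable def S401_415_216_364_13 : EL := (EL.cons 4 (TM.mk (P.cons (P.cons (P.lf 0 1535814565 0) (P.cons (P.lf 18358041 0 0) (P.cons (P.lf 7916193 0 0) (P.lf 0 879574 0)))) (P.cons (P.cons (P.lf 0 146706175 0) (P.cons (P.lf 0 5219921 0) (P.cons (P.lf 0 2250888 0) (P.lf 250095 0 0)))) (P.cons (P.cons (P.lf 2697597 0 0) (P.cons (P.lf 467117 0 0) (P.cons (P.lf 201424 0 0) (P.lf 0 22380 0)))) (P.cons (P.cons (P.lf 517037 0 0) (P.cons (P.lf 0 4445 0) (P.cons (P.lf 0 1913 0) P.nil))) (P.cons (P.cons (P.lf 0 17065 0) (P.cons (P.lf 0 1530 0) P.nil)) (P.cons (P.cons (P.lf 0 648 0) P.nil) P.nil)))))) 3388)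
 (EL.cons 8 (TM.mk (P.cons (P.cons (P.lf 385806049 0 0) (P.cons (P.lf 0 4611652 0) (P.cons (P.lf 0 1988596 0) (P.lf 220954 0 0)))) (P.cons (P.cons (P.lf 0 8910510 0) (P.cons (P.lf 1858306 0 0) (P.cons (P.lf 801322 0 0) (P.lf 0 89035 0)))) (P.cons (P.cons (P.lf 0 3586291 0) (P.cons (P.lf 0 290371 0) (P.cons (P.lf 0 125211 0) (P.lf 13912 0 0)))) (P.cons (P.cons (P.lf 22869 0 0) (P.cons (P.lf 20813 0 0) (P.cons (P.lf 8974 0 0) P.nil))) (P.cons (P.cons (P.lf 13791 0 0) (P.cons (P.lf 0 458 0) P.nil)) (P.cons (P.cons (P.lf 0 566 0) P.nil) P.nil)))))) 1650)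
 EL.nil))
noncomputable def S401_415_216_364_14 : EL := (EL.cons 4 (TM.mk (P.cons (P.cons (P.lf 0 710687169 0) (P.cons (P.lf 16990103 0 0) (P.cons (P.lf 7224779 0 0) (P.cons (P.lf 0 901607 0) (P.cons (P.lf 0 9150 0) (P.cons (P.lf 4194 0 0) P.nil)))))) (P.cons (P.cons (P.lf 0 123067770 0) (P.cons (P.lf 0 3511783 0) (P.cons (P.lf 0 1454759 0) (P.cons (P.lf 219622 0 0) (P.cons (P.lf 5366 0 0) P.nil))))) (P.cons (P.cons (P.lf 0 2606873 0) (P.cons (P.lf 23367 0 0) (P.cons (P.lf 0 4484 0) (P.cons (P.lf 0 13674 0) P.nil)))) (P.cons (P.cons (P.lf 636604 0 0) (P.cons (P.lf 35126 0 0) (P.cons (P.lf 16998 0 0) P.nil))) (P.cons (P.cons (P.lf 16016 0 0) (P.cons (P.lf 0 1283 0) P.nil)) (P.cons (P.cons (P.lf 0 2440 0) P.nil) P.nil)))))) 19644)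
 (EL.cons 8 (TM.mk (P.cons (P.cons (P.lf 178528981 0 0) (P.cons (P.lf 0 4268018 0) (P.cons (P.lf 0 1814908 0) (P.cons (P.lf 226489 0 0) (P.cons (P.lf 2298 0 0) (P.cons (P.lf 0 1053 0) P.nil)))))) (P.cons (P.cons (P.lf 9738415 0 0) (P.cons (P.lf 1388450 0 0) (P.cons (P.lf 580727 0 0) (P.cons (P.lf 0 82036 0) (P.cons (P.lf 0 1620 0) P.nil))))) (P.cons (P.cons (P.lf 0 2335351 0) (P.cons (P.lf 0 126697 0) (P.cons (P.lf 0 49103 0) (P.cons (P.lf 10838 0 0) P.nil)))) (P.cons (P.cons (P.lf 0 151549 0) (P.cons (P.lf 0 4037 0) (P.cons (P.lf 0 2701 0) P.nil))) (P.cons (P.cons (P.lf 13466 0 0) (P.cons (P.lf 1158 0 0) P.nil)) (P.cons (P.cons (P.lf 552 0 0) P.nil) P.nil)))))) 6268)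
 EL.nil))
noncomputable def S401_415_216_364_15 : EL := (EL.cons 4 (TM.mk (P.cons (P.lf 0 2735690989 0) (P.cons (P.lf 0 97825245 0) (P.cons (P.lf 5430939 0 0) (P.cons (P.lf 0 1442 0) (P.cons (P.lf 0 6545 0) (P.cons (P.lf 214 0 0) P.nil)))))) 130)
 (EL.cons 8 (TM.mk (P.cons (P.lf 687222375 0 0) (P.cons (P.lf 0 56943462 0) (P.cons (P.lf 0 1673470 0) (P.cons (P.lf 135369 0 0) (P.cons (P.lf 0 2335 0) (P.cons (P.lf 0 67 0) P.nil)))))) 63)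
 EL.nil))
noncomputable def S401_415_216_364_16 : EL := (EL.cons 4 (TM.mk (P.cons (P.cons (P.lf 0 1265921375 0) (P.cons (P.lf 15131929 0 0) (P.cons (P.lf 6525057 0 0) (P.lf 0 725004 0)))) (P.cons (P.cons (P.lf 0 143559034 0) (P.cons (P.lf 0 4032058 0) (P.cons (P.lf 0 1738668 0) (P.lf 193183 0 0)))) (P.cons (P.cons (P.lf 1520372 0 0) (P.cons (P.lf 290662 0 0) (P.cons (P.lf 125335 0 0) (P.lf 0 13925 0)))) (P.cons (P.cons (P.lf 578874 0 0) (P.cons (P.lf 8493 0 0) (P.cons (P.lf 3664 0 0) P.nil))) (P.cons (P.cons (P.lf 0 11733 0) (P.cons (P.lf 0 1858 0) P.nil)) (P.cons (P.cons (P.lf 0 1227 0) P.nil) P.nil)))))) 3795)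
 (EL.cons 8 (TM.mk (P.cons (P.cons (P.lf 318007222 0 0) (P.cons (P.lf 0 3801233 0) (P.cons (P.lf 0 1639134 0) (P.lf 182125 0 0)))) (P.cons (P.cons (P.lf 0 1658849 0) (P.cons (P.lf 1463777 0 0) (P.cons (P.lf 631197 0 0) (P.lf 0 70132 0)))) (P.cons (P.cons (P.lf 0 3453865 0) (P.cons (P.lf 0 207576 0) (P.cons (P.lf 0 89508 0) (P.lf 9945 0 0)))) (P.cons (P.cons (P.lf 0 18901 0) (P.cons (P.lf 11031 0 0) (P.cons (P.lf 4756 0 0) P.nil))) (P.cons (P.cons (P.lf 15008 0 0) (P.cons (P.lf 235 0 0) P.nil)) (P.cons (P.cons (P.lf 0 354 0) P.nil) P.nil)))))) 1468)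
 EL.nil))
noncomputable def S401_415_216_364_17 : EL := (EL.cons 4 (TM.mk (P.cons (P.cons (P.lf 0 585796033 0) (P.cons (P.lf 14004382 0 0) (P.cons (P.lf 5955147 0 0) (P.cons (P.lf 0 743165 0) (P.cons (P.lf 0 7542 0) (P.cons (P.lf 3457 0 0) P.nil)))))) (P.cons (P.cons (P.lf 0 111914415 0) (P.cons (P.lf 0 2644256 0) (P.cons (P.lf 0 1092634 0) (P.cons (P.lf 167740 0 0) (P.cons (P.lf 4288 0 0) P.nil))))) (P.cons (P.cons (P.lf 0 3287365 0) (P.cons (P.lf 0 48631 0) (P.cons (P.lf 0 31998 0) (P.cons (P.lf 0 7178 0) P.nil)))) (P.cons (P.cons (P.lf 590993 0 0) (P.cons (P.lf 32925 0 0) (P.cons (P.lf 15451 0 0) P.nil))) (P.cons (P.cons (P.lf 22849 0 0) (P.cons (P.lf 0 620 0) P.nil)) (P.cons (P.cons (P.lf 0 2430 0) P.nil) P.nil)))))) 17404)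
 (EL.cons 8 (TM.mk (P.cons (P.cons (P.lf 147155560 0 0) (P.cons (P.lf 0 3517986 0) (P.cons (P.lf 0 1495969 0) (P.cons (P.lf 186687 0 0) (P.cons (P.lf 1894 0 0) (P.cons (P.lf 0 868 0) P.nil)))))) (P.cons (P.cons (P.lf 10658114 0 0) (P.cons (P.lf 1081554 0 0) (P.cons (P.lf 451927 0 0) (P.cons (P.lf 0 64282 0) (P.cons (P.lf 0 1302 0) P.nil))))) (P.cons (P.cons (P.lf 0 1951022 0) (P.cons (P.lf 0 79915 0) (P.cons (P.lf 0 30192 0) (P.cons (P.lf 7509 0 0) P.nil)))) (P.cons (P.cons (P.lf 0 165513 0) (P.cons (P.lf 0 6587 0) (P.cons (P.lf 0 3533 0) P.nil))) (P.cons (P.cons (P.lf 11275 0 0) (P.cons (P.lf 1039 0 0) P.nil)) (P.cons (P.cons (P.lf 755 0 0) P.nil) P.nil)))))) 5500)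
 EL.nil))
noncomputable def S401_415_216_364_18 : EL := (EL.cons 4 (TM.mk (P.cons (P.lf 0 2254940003 0) (P.cons (P.lf 0 120951193 0) (P.cons (P.lf 5633546 0 0) (P.cons (P.lf 124716 0 0) (P.cons (P.lf 0 12616 0) (P.cons (P.lf 202 0 0) P.nil)))))) 176)
 (EL.cons 8 (TM.mk (P.cons (P.lf 566454775 0 0) (P.cons (P.lf 0 36808726 0) (P.cons (P.lf 0 2871395 0) (P.cons (P.lf 152830 0 0) (P.cons (P.lf 769 0 0) (P.cons (P.lf 0 264 0) P.nil)))))) 73)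
 EL.nil))
noncomputable def S401_415_216_364_19 : EL := (EL.cons 4 (TM.mk (P.cons (P.cons (P.lf 0 1043457306 0) (P.cons (P.lf 12472751 0 0) (P.cons (P.lf 5378389 0 0) (P.lf 0 597597 0)))) (P.cons (P.cons (P.lf 0 136987417 0) (P.cons (P.lf 0 3100486 0) (P.cons (P.lf 0 1336965 0) (P.lf 148549 0 0)))) (P.cons (P.cons (P.lf 340029 0 0) (P.cons (P.lf 165787 0 0) (P.cons (P.lf 71488 0 0) (P.lf 0 7942 0)))) (P.cons (P.cons (P.lf 614146 0 0) (P.cons (P.lf 15375 0 0) (P.cons (P.lf 6631 0 0) P.nil))) (P.cons (P.cons (P.lf 0 5220 0) (P.cons (P.lf 0 1749 0) P.nil)) (P.cons (P.cons (P.lf 0 1708 0) P.nil) P.nil)))))) 4086)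
 (EL.cons 8 (TM.mk (P.cons (P.cons (P.lf 262122882 0 0) (P.cons (P.lf 0 3133231 0) (P.cons (P.lf 0 1351084 0) (P.lf 150120 0 0)))) (P.cons (P.cons (P.lf 3319275 0 0) (P.cons (P.lf 1150522 0 0) (P.cons (P.lf 496118 0 0) (P.lf 0 55123 0)))) (P.cons (P.cons (P.lf 0 3173437 0) (P.cons (P.lf 0 145915 0) (P.cons (P.lf 0 62919 0) (P.lf 6990 0 0)))) (P.cons (P.cons (P.lf 0 59434 0) (P.cons (P.lf 4578 0 0) (P.cons (P.lf 1973 0 0) P.nil))) (P.cons (P.cons (P.lf 15386 0 0) (P.cons (P.lf 578 0 0) P.nil)) (P.cons (P.cons (P.lf 0 117 0) P.nil) P.nil)))))) 1410)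
 EL.nil))
noncomputable def S401_415_216_364_20 : EL := (EL.cons 4 (TM.mk (P.cons (P.cons (P.lf 0 482852381 0) (P.cons (P.lf 11543351 0 0) (P.cons (P.lf 4908631 0 0) (P.cons (P.lf 0 612566 0) (P.cons (P.lf 0 6216 0) (P.cons (P.lf 2850 0 0) P.nil)))))) (P.cons (P.cons (P.lf 0 100880498 0) (P.cons (P.lf 0 1973184 0) (P.cons (P.lf 0 812859 0) (P.cons (P.lf 127309 0 0) (P.cons (P.lf 3423 0 0) P.nil))))) (P.cons (P.cons (P.lf 0 3802537 0) (P.cons (P.lf 0 92358 0) (P.cons (P.lf 0 48135 0) (P.cons (P.lf 0 2738 0) P.nil)))) (P.cons (P.cons (P.lf 534922 0 0) (P.cons (P.lf 29175 0 0) (P.cons (P.lf 13405 0 0) P.nil))) (P.cons (P.cons (P.lf 28665 0 0) (P.cons (P.lf 0 23 0) P.nil)) (P.cons (P.cons (P.lf 0 2290 0) P.nil) P.nil)))))) 15453)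
 (EL.cons 8 (TM.mk (P.cons (P.cons (P.lf 121295483 0 0) (P.cons (P.lf 0 2899760 0) (P.cons (P.lf 0 1233078 0) (P.cons (P.lf 153880 0 0) (P.cons (P.lf 1561 0 0) (P.cons (P.lf 0 715 0) P.nil)))))) (P.cons (P.cons (P.lf 10953828 0 0) (P.cons (P.lf 839643 0 0) (P.cons (P.lf 350461 0 0) (P.cons (P.lf 0 50234 0) (P.cons (P.lf 0 1045 0) P.nil))))) (P.cons (P.cons (P.lf 0 1590876 0) (P.cons (P.lf 0 46590 0) (P.cons (P.lf 0 16805 0) (P.cons (P.lf 5065 0 0) P.nil)))) (P.cons (P.cons (P.lf 0 172773 0) (P.cons (P.lf 0 7695 0) (P.cons (P.lf 0 3812 0) P.nil))) (P.cons (P.cons (P.lf 8911 0 0) (P.cons (P.lf 853 0 0) P.nil)) (P.cons (P.cons (P.lf 912 0 0) P.nil) P.nil)))))) 4757)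
 EL.nil))
noncomputable def S401_415_216_364_21 : EL := (EL.cons 4 (TM.mk (P.cons (P.cons (P.lf 0 1183710174 0) (P.cons (P.lf 0 55074123 0) (P.cons (P.lf 0 23748579 0) (P.lf 2638722 0 0)))) (P.cons (P.cons (P.lf 146642784 0 0) (P.cons (P.lf 15659763 0 0) (P.cons (P.lf 6752664 0 0) (P.lf 0 750285 0)))) (P.cons (P.cons (P.lf 8200026 0 0) (P.cons (P.lf 0 1401351 0) (P.cons (P.lf 0 604272 0) (P.lf 67140 0 0)))) (P.cons (P.cons (P.lf 0 1555443 0) (P.cons (P.lf 13335 0 0) (P.cons (P.lf 5739 0 0) P.nil))) (P.cons (P.cons (P.lf 31557 0 0) (P.cons (P.lf 4590 0 0) P.nil)) (P.cons (P.cons (P.lf 2589 0 0) P.nil) P.nil)))))) 10503)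
 (EL.cons 8 (TM.mk (P.cons (P.cons (P.lf 0 1675415742 0) (P.cons (P.lf 0 77951583 0) (P.cons (P.lf 0 33613602 0) (P.lf 3734847 0 0)))) (P.cons (P.cons (P.lf 8820786 0 0) (P.cons (P.lf 12918186 0 0) (P.cons (P.lf 5570469 0 0) (P.lf 0 618942 0)))) (P.cons (P.cons (P.lf 19005396 0 0) (P.cons (P.lf 0 155562 0) (P.cons (P.lf 0 67080 0) (P.lf 7452 0 0)))) (P.cons (P.cons (P.lf 0 273186 0) (P.cons (P.lf 0 62166 0) (P.cons (P.lf 0 26805 0) P.nil))) (P.cons (P.cons (P.lf 0 44781 0) (P.cons (P.lf 2610 0 0) P.nil)) (P.cons (P.cons (P.lf 2019 0 0) P.nil) P.nil)))))) 5934)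
 (EL.cons 11 (TM.mk (P.cons (P.cons (P.lf 191788839 0 0) (P.cons (P.lf 178669044 0 0) (P.cons (P.lf 0 18337254 0) (P.cons (P.lf 0 3813639 0) (P.lf 317802 0 0))))) (P.cons (P.cons (P.lf 0 38641521 0) (P.cons (P.lf 0 35998149 0) (P.cons (P.lf 3694581 0 0) (P.cons (P.lf 768369 0 0) (P.lf 0 64029 0))))) (P.cons (P.cons (P.lf 2145249 0 0) (P.cons (P.lf 1998498 0 0) (P.cons (P.lf 0 205110 0) (P.cons (P.lf 0 42657 0) P.nil)))) (P.cons (P.cons (P.lf 0 570 0) (P.cons (P.lf 0 531 0) (P.cons (P.lf 54 0 0) P.nil))) (P.cons (P.cons (P.lf 0 2583 0) (P.cons (P.lf 0 2406 0) P.nil)) (P.cons (P.cons (P.lf 84 0 0) P.nil) P.nil)))))) 4119)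
 EL.nil)))
noncomputable def S401_415_216_364_22 : EL := (EL.cons 4 (TM.mk (P.cons (P.cons (P.lf 0 547753389 0) (P.cons (P.lf 0 18937698 0) (P.cons (P.lf 0 7861515 0) (P.cons (P.lf 1170066 0 0) (P.cons (P.lf 27450 0 0) (P.cons (P.lf 0 12585 0) P.nil)))))) (P.cons (P.cons (P.lf 25328172 0 0) (P.cons (P.lf 2477781 0 0) (P.cons (P.lf 889761 0 0) (P.cons (P.lf 0 272811 0) (P.cons (P.lf 0 16101 0) P.nil))))) (P.cons (P.cons (P.lf 10154514 0 0) (P.cons (P.lf 374253 0 0) (P.cons (P.lf 205062 0 0) (P.cons (P.lf 19734 0 0) P.nil)))) (P.cons (P.cons (P.lf 0 433029 0) (P.cons (P.lf 0 64086 0) (P.cons (P.lf 0 33186 0) P.nil))) (P.cons (P.cons (P.lf 0 70743 0) (P.cons (P.lf 0 1464 0) P.nil)) (P.cons (P.cons (P.lf 3642 0 0) P.nil) P.nil)))))) 47802)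
 (EL.cons 8 (TM.mk (P.cons (P.cons (P.lf 0 775286613 0) (P.cons (P.lf 0 26804307 0) (P.cons (P.lf 0 11127144 0) (P.cons (P.lf 1656111 0 0) (P.cons (P.lf 38856 0 0) (P.cons (P.lf 0 17814 0) P.nil)))))) (P.cons (P.cons (P.lf 0 56114538 0) (P.cons (P.lf 327537 0 0) (P.cons (P.lf 0 60522 0) (P.cons (P.lf 0 189699 0) (P.cons (P.lf 0 18180 0) P.nil))))) (P.cons (P.cons (P.lf 10656093 0 0) (P.cons (P.lf 670197 0 0) (P.cons (P.lf 325248 0 0) (P.cons (P.lf 0 843 0) P.nil)))) (P.cons (P.cons (P.lf 728493 0 0) (P.cons (P.lf 0 17127 0) (P.cons (P.lf 0 10095 0) P.nil))) (P.cons (P.cons (P.lf 0 57681 0) (P.cons (P.lf 0 6366 0) P.nil)) (P.cons (P.cons (P.lf 0 2421 0) P.nil) P.nil)))))) 37929)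
 (EL.cons 11 (TM.mk (P.cons (P.cons (P.lf 88748907 0 0) (P.cons (P.lf 81616974 0 0) (P.cons (P.lf 0 9931149 0) (P.cons (P.lf 0 2038629 0) (P.cons (P.lf 259242 0 0) (P.cons (P.lf 2478 0 0) P.nil)))))) (P.cons (P.cons (P.lf 0 10990272 0) (P.cons (P.lf 0 9704109 0) (P.cons (P.lf 1779003 0 0) (P.cons (P.lf 356496 0 0) (P.cons (P.lf 0 74715 0) P.nil))))) (P.cons (P.cons (P.lf 0 572466 0) (P.cons (P.lf 0 643716 0) (P.cons (P.lf 0 95730 0) (P.cons (P.lf 0 17121 0) P.nil)))) (P.cons (P.cons (P.lf 91809 0 0) (P.cons (P.lf 97212 0 0) (P.cons (P.lf 7143 0 0) P.nil))) (P.cons (P.cons (P.lf 1953 0 0) (P.cons (P.lf 1221 0 0) P.nil)) (P.cons (P.cons (P.lf 0 483 0) P.nil) P.nil)))))) 42387)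
 EL.nil)))
noncomputable def S401_415_216_364_23 : EL := (EL.cons 4 (TM.mk (P.cons (P.cons (P.lf 0 975693318 0) (P.cons (P.lf 0 45395784 0) (P.cons (P.lf 0 19575171 0) (P.lf 2175009 0 0)))) (P.cons (P.cons (P.lf 103427967 0 0) (P.cons (P.lf 12096174 0 0) (P.cons (P.lf 5216004 0 0) (P.lf 0 579546 0)))) (P.cons (P.cons (P.lf 10044582 0 0) (P.cons (P.lf 0 871986 0) (P.cons (P.lf 0 376005 0) (P.lf 41775 0 0)))) (P.cons (P.cons (P.lf 0 1320912 0) (P.cons (P.lf 0 25482 0) (P.cons (P.lf 0 10995 0) P.nil))) (P.cons (P.cons (P.lf 0 2334 0) (P.cons (P.lf 5571 0 0) P.nil)) (P.cons (P.cons (P.lf 4254 0 0) P.nil) P.nil)))))) 11736)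
 (EL.cons 8 (TM.mk (P.cons (P.cons (P.lf 0 1380990027 0) (P.cons (P.lf 0 64252923 0) (P.cons (P.lf 0 27706584 0) (P.lf 3078510 0 0)))) (P.cons (P.cons (P.lf 0 17420643 0) (P.cons (P.lf 9499227 0 0) (P.cons (P.lf 4096173 0 0) (P.lf 0 455130 0)))) (P.cons (P.cons (P.lf 17387031 0 0) (P.cons (P.lf 136203 0 0) (P.cons (P.lf 58731 0 0) (P.lf 0 6525 0)))) (P.cons (P.cons (P.lf 17712 0 0) (P.cons (P.lf 0 67146 0) (P.cons (P.lf 0 28950 0) P.nil))) (P.cons (P.cons (P.lf 0 59058 0) (P.cons (P.lf 1593 0 0) P.nil)) (P.cons (P.cons (P.lf 1614 0 0) P.nil) P.nil)))))) 6627)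
 (EL.cons 11 (TM.mk (P.cons (P.cons (P.lf 158085222 0 0) (P.cons (P.lf 147271008 0 0) (P.cons (P.lf 0 15114792 0) (P.cons (P.lf 0 3143457 0) (P.lf 261951 0 0))))) (P.cons (P.cons (P.lf 0 29024457 0) (P.cons (P.lf 0 27038964 0) (P.cons (P.lf 2775075 0 0) (P.cons (P.lf 577137 0 0) (P.lf 0 48093 0))))) (P.cons (P.cons (P.lf 1016595 0 0) (P.cons (P.lf 947052 0 0) (P.cons (P.lf 0 97197 0) (P.cons (P.lf 0 20214 0) P.nil)))) (P.cons (P.cons (P.lf 71151 0 0) (P.cons (P.lf 66282 0 0) (P.cons (P.lf 0 6801 0) P.nil))) (P.cons (P.cons (P.lf 0 4812 0) (P.cons (P.lf 0 4485 0) P.nil)) (P.cons (P.cons (P.lf 60 0 0) P.nil) P.nil)))))) 6672)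
 EL.nil)))
noncomputable def S401_415_216_364_24 : EL := (EL.cons 4 (TM.mk (P.cons (P.cons (P.lf 0 451495080 0) (P.cons (P.lf 0 15609720 0) (P.cons (P.lf 0 6479988 0) (P.cons (P.lf 964446 0 0) (P.cons (P.lf 22626 0 0) (P.cons (P.lf 0 10374 0) P.nil)))))) (P.cons (P.cons (P.lf 12804699 0 0) (P.cons (P.lf 1763259 0 0) (P.cons (P.lf 617541 0 0) (P.cons (P.lf 0 207627 0) (P.cons (P.lf 0 12867 0) P.nil))))) (P.cons (P.cons (P.lf 9263628 0 0) (P.cons (P.lf 362991 0 0) (P.cons (P.lf 189606 0 0) (P.cons (P.lf 11136 0 0) P.nil)))) (P.cons (P.cons (P.lf 0 240762 0) (P.cons (P.lf 0 49986 0) (P.cons (P.lf 0 25311 0) P.nil))) (P.cons (P.cons (P.lf 0 73974 0) (P.cons (P.lf 0 2466 0) P.nil)) (P.cons (P.cons (P.lf 2556 0 0) P.nil) P.nil)))))) 37944)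
 (EL.cons 8 (TM.mk (P.cons (P.cons (P.lf 0 639043224 0) (P.cons (P.lf 0 22093908 0) (P.cons (P.lf 0 9171738 0) (P.cons (P.lf 1365078 0 0) (P.cons (P.lf 32028 0 0) (P.cons (P.lf 0 14685 0) P.nil)))))) (P.cons (P.cons (P.lf 0 57679101 0) (P.cons (P.lf 0 125046 0) (P.cons (P.lf 0 213873 0) (P.cons (P.lf 0 131955 0) (P.cons (P.lf 0 14412 0) P.nil))))) (P.cons (P.cons (P.lf 8692944 0 0) (P.cons (P.lf 582708 0 0) (P.cons (P.lf 277770 0 0) (P.cons (P.lf 0 5064 0) P.nil)))) (P.cons (P.cons (P.lf 797484 0 0) (P.cons (P.lf 0 5013 0) (P.cons (P.lf 0 3660 0) P.nil))) (P.cons (P.cons (P.lf 0 48000 0) (P.cons (P.lf 0 6135 0) P.nil)) (P.cons (P.cons (P.lf 0 3351 0) P.nil) P.nil)))))) 29814)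
 (EL.cons 11 (TM.mk (P.cons (P.cons (P.lf 73152801 0 0) (P.cons (P.lf 67274184 0 0) (P.cons (P.lf 0 8185920 0) (P.cons (P.lf 0 1680375 0) (P.cons (P.lf 213684 0 0) (P.cons (P.lf 2043 0 0) P.nil)))))) (P.cons (P.cons (P.lf 0 7750986 0) (P.cons (P.lf 0 6795951 0) (P.cons (P.lf 1320015 0 0) (P.cons (P.lf 263805 0 0) (P.cons (P.lf 0 57765 0) P.nil))))) (P.cons (P.cons (P.lf 0 718140 0) (P.cons (P.lf 0 751137 0) (P.cons (P.lf 0 43254 0) (P.cons (P.lf 0 6921 0) P.nil)))) (P.cons (P.cons (P.lf 79203 0 0) (P.cons (P.lf 81264 0 0) (P.cons (P.lf 2616 0 0) P.nil))) (P.cons (P.cons (P.lf 3330 0 0) (P.cons (P.lf 2895 0 0) P.nil)) (P.cons (P.cons (P.lf 0 468 0) P.nil) P.nil)))))) 33159)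
 EL.nil)))
noncomputable def S401_415_216_364_25 : EL := (EL.cons 4 (TM.mk (P.cons (P.cons (P.lf 0 804231876 0) (P.cons (P.lf 0 37418250 0) (P.cons (P.lf 0 16135167 0) (P.lf 1792788 0 0)))) (P.cons (P.cons (P.lf 70873050 0 0) (P.cons (P.lf 9301461 0 0) (P.cons (P.lf 4010892 0 0) (P.lf 0 445647 0)))) (P.cons (P.cons (P.lf 10730514 0 0) (P.cons (P.lf 0 497358 0) (P.cons (P.lf 0 214461 0) (P.lf 23826 0 0)))) (P.cons (P.cons (P.lf 0 1055784 0) (P.cons (P.lf 0 46125 0) (P.cons (P.lf 0 19896 0) P.nil))) (P.cons (P.cons (P.lf 0 29280 0) (P.cons (P.lf 5247 0 0) P.nil)) (P.cons (P.cons (P.lf 4926 0 0) P.nil) P.nil)))))) 11565)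
 (EL.cons 8 (TM.mk (P.cons (P.cons (P.lf 0 1138304607 0) (P.cons (P.lf 0 52961568 0) (P.cons (P.lf 0 22837623 0) (P.lf 2537514 0 0)))) (P.cons (P.cons (P.lf 0 34711512 0) (P.cons (P.lf 6882978 0 0) (P.cons (P.lf 2968017 0 0) (P.lf 0 329778 0)))) (P.cons (P.cons (P.lf 15386655 0 0) (P.cons (P.lf 313296 0 0) (P.cons (P.lf 135096 0 0) (P.lf 0 15009 0)))) (P.cons (P.cons (P.lf 263634 0 0) (P.cons (P.lf 0 63465 0) (P.cons (P.lf 0 27366 0) P.nil))) (P.cons (P.cons (P.lf 0 65415 0) (P.cons (P.lf 348 0 0) P.nil)) (P.cons (P.cons (P.lf 762 0 0) P.nil) P.nil)))))) 6498)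
 (EL.cons 11 (TM.mk (P.cons (P.cons (P.lf 130304445 0 0) (P.cons (P.lf 121390644 0 0) (P.cons (P.lf 0 12458625 0) (P.cons (P.lf 0 2591046 0) (P.lf 215919 0 0))))) (P.cons (P.cons (P.lf 0 21594132 0) (P.cons (P.lf 0 20116932 0) (P.cons (P.lf 2064651 0 0) (P.cons (P.lf 429387 0 0) (P.lf 0 35781 0))))) (P.cons (P.cons (P.lf 260031 0 0) (P.cons (P.lf 242244 0 0) (P.cons (P.lf 0 24861 0) (P.cons (P.lf 0 5169 0) P.nil)))) (P.cons (P.cons (P.lf 103917 0 0) (P.cons (P.lf 96810 0 0) (P.cons (P.lf 0 9936 0) P.nil))) (P.cons (P.cons (P.lf 0 4362 0) (P.cons (P.lf 0 4065 0) P.nil)) (P.cons (P.cons (P.lf 0 75 0) P.nil) P.nil)))))) 7656)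
 EL.nil)))
noncomputable def S401_415_216_364_26 : EL := (EL.cons 4 (TM.mk (P.cons (P.cons (P.lf 0 372152529 0) (P.cons (P.lf 0 12866577 0) (P.cons (P.lf 0 5341239 0) (P.cons (P.lf 794961 0 0) (P.cons (P.lf 18651 0 0) (P.cons (P.lf 0 8550 0) P.nil)))))) (P.cons (P.cons (P.lf 3900612 0 0) (P.cons (P.lf 1223349 0 0) (P.cons (P.lf 413520 0 0) (P.cons (P.lf 0 156927 0) (P.cons (P.lf 0 10272 0) P.nil))))) (P.cons (P.cons (P.lf 8253297 0 0) (P.cons (P.lf 340014 0 0) (P.cons (P.lf 171543 0 0) (P.cons (P.lf 5202 0 0) P.nil)))) (P.cons (P.cons (P.lf 0 81858 0) (P.cons (P.lf 0 37797 0) (P.cons (P.lf 0 18768 0) P.nil))) (P.cons (P.cons (P.lf 0 73161 0) (P.cons (P.lf 0 3087 0) P.nil)) (P.cons (P.cons (P.lf 1413 0 0) P.nil) P.nil)))))) 30738)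
 (EL.cons 8 (TM.mk (P.cons (P.cons (P.lf 0 526742289 0) (P.cons (P.lf 0 18211278 0) (P.cons (P.lf 0 7559964 0) (P.cons (P.lf 1125189 0 0) (P.cons (P.lf 26397 0 0) (P.cons (P.lf 0 12102 0) P.nil)))))) (P.cons (P.cons (P.lf 0 56960841 0) (P.cons (P.lf 0 428679 0) (P.cons (P.lf 0 311457 0) (P.cons (P.lf 0 88647 0) (P.cons (P.lf 0 11409 0) P.nil))))) (P.cons (P.cons (P.lf 6922308 0 0) (P.cons (P.lf 499452 0 0) (P.cons (P.lf 234516 0 0) (P.cons (P.lf 0 7416 0) P.nil)))) (P.cons (P.cons (P.lf 829251 0 0) (P.cons (P.lf 4191 0 0) (P.cons (P.lf 1119 0 0) P.nil))) (P.cons (P.cons (P.lf 0 37143 0) (P.cons (P.lf 0 5688 0) P.nil)) (P.cons (P.cons (P.lf 0 4074 0) P.nil) P.nil)))))) 23925)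
 (EL.cons 11 (TM.mk (P.cons (P.cons (P.lf 60297447 0 0) (P.cons (P.lf 55451895 0 0) (P.cons (P.lf 0 6747384 0) (P.cons (P.lf 0 1385079 0) (P.cons (P.lf 176133 0 0) (P.cons (P.lf 1683 0 0) P.nil)))))) (P.cons (P.cons (P.lf 0 5310798 0) (P.cons (P.lf 0 4610232 0) (P.cons (P.lf 967404 0 0) (P.cons (P.lf 192681 0 0) (P.cons (P.lf 0 44463 0) P.nil))))) (P.cons (P.cons (P.lf 0 775656 0) (P.cons (P.lf 0 783198 0) (P.cons (P.lf 0 8424 0) (P.cons (P.lf 0 222 0) P.nil)))) (P.cons (P.cons (P.lf 63324 0 0) (P.cons (P.lf 63525 0 0) (P.cons (P.lf 123 0 0) P.nil))) (P.cons (P.cons (P.lf 4470 0 0) (P.cons (P.lf 4188 0 0) P.nil)) (P.cons (P.cons (P.lf 0 426 0) P.nil) P.nil)))))) 26664)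
 EL.nil)))
noncomputable def S401_415_216_364_27 : EL := (EL.cons 13 (TM.mk (P.lf 0 4294967296 0) 0)
 EL.nil)
noncomputable def S401_415_216_364_28 : EL := (EL.cons 13 (TM.mk (P.cons (P.cons (P.lf 0 1987465299 0) (P.cons (P.lf 23756756 0 0) (P.cons (P.lf 10244180 0 0) (P.lf 0 1138240 0)))) (P.cons (P.cons (P.lf 0 154314607 0) (P.cons (P.lf 0 7179748 0) (P.cons (P.lf 0 3095988 0) (P.lf 343996 0 0)))) (P.cons (P.cons (P.lf 3959517 0 0) (P.cons (P.lf 760236 0 0) (P.cons (P.lf 327820 0 0) (P.lf 0 36424 0)))) (P.cons (P.cons (P.lf 461931 0 0) (P.cons (P.lf 0 28116 0) (P.cons (P.lf 0 12120 0) P.nil))) (P.cons (P.cons (P.lf 0 22243 0) (P.cons (P.lf 0 456 0) P.nil)) (P.cons (P.cons (P.lf 0 4 0) P.nil) P.nil)))))) 2345)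
 EL.nil)
noncomputable def S401_415_216_364_29 : EL := (EL.cons 13 (TM.mk (P.cons (P.cons (P.lf 0 919685306 0) (P.cons (P.lf 21986536 0 0) (P.cons (P.lf 9349435 0 0) (P.cons (P.lf 0 1166752 0) (P.cons (P.lf 0 11842 0) (P.cons (P.lf 5429 0 0) P.nil)))))) (P.cons (P.cons (P.lf 0 142815954 0) (P.cons (P.lf 0 4937632 0) (P.cons (P.lf 0 2049736 0) (P.cons (P.lf 305070 0 0) (P.cons (P.lf 7157 0 0) P.nil))))) (P.cons (P.cons (P.lf 0 1879919 0) (P.cons (P.lf 143860 0 0) (P.cons (P.lf 41619 0 0) (P.cons (P.lf 0 24496 0) P.nil)))) (P.cons (P.cons (P.lf 712034 0 0) (P.cons (P.lf 36736 0 0) (P.cons (P.lf 18697 0 0) P.nil))) (P.cons (P.cons (P.lf 8957 0 0) (P.cons (P.lf 0 2053 0) P.nil)) (P.cons (P.cons (P.lf 0 2453 0) P.nil) P.nil)))))) 23189)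
 EL.nil)
noncomputable def S401_415_216_364_30 : EL := (EL.cons 13 (TM.mk (P.cons (P.lf 0 3540200120 0) (P.cons (P.lf 0 63296796 0) (P.cons (P.lf 4079888 0 0) (P.cons (P.lf 0 73880 0) (P.cons (P.lf 0 564 0) (P.cons (P.lf 64 0 0) P.nil)))))) 72)
 EL.nil)
noncomputable def S401_415_216_364_31 : EL := (EL.cons 13 (TM.mk (P.cons (P.cons (P.lf 0 1638202203 0) (P.cons (P.lf 19581911 0 0) (P.cons (P.lf 8443940 0 0) (P.lf 0 938213 0)))) (P.cons (P.cons (P.lf 0 156486587 0) (P.cons (P.lf 0 5567916 0) (P.cons (P.lf 0 2400948 0) (P.lf 266769 0 0)))) (P.cons (P.cons (P.lf 2877437 0 0) (P.cons (P.lf 498259 0 0) (P.cons (P.lf 214853 0 0) (P.lf 0 23872 0)))) (P.cons (P.cons (P.lf 551507 0 0) (P.cons (P.lf 0 4742 0) (P.cons (P.lf 0 2041 0) P.nil))) (P.cons (P.cons (P.lf 0 18203 0) (P.cons (P.lf 0 1632 0) P.nil)) (P.cons (P.cons (P.lf 0 692 0) P.nil) P.nil)))))) 3594)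
 EL.nil)
noncomputable def S401_415_216_364_32 : EL := (EL.cons 13 (TM.mk (P.cons (P.cons (P.lf 0 758066314 0) (P.cons (P.lf 18122777 0 0) (P.cons (P.lf 7706431 0 0) (P.cons (P.lf 0 961715 0) (P.cons (P.lf 0 9760 0) (P.cons (P.lf 4474 0 0) P.nil)))))) (P.cons (P.cons (P.lf 0 131272289 0) (P.cons (P.lf 0 3745902 0) (P.cons (P.lf 0 1551743 0) (P.cons (P.lf 234264 0 0) (P.cons (P.lf 5724 0 0) P.nil))))) (P.cons (P.cons (P.lf 0 2780665 0) (P.cons (P.lf 24925 0 0) (P.cons (P.lf 0 4783 0) (P.cons (P.lf 0 14586 0) P.nil)))) (P.cons (P.cons (P.lf 679045 0 0) (P.cons (P.lf 37468 0 0) (P.cons (P.lf 18132 0 0) P.nil))) (P.cons (P.cons (P.lf 17084 0 0) (P.cons (P.lf 0 1369 0) P.nil)) (P.cons (P.cons (P.lf 0 2603 0) P.nil) P.nil)))))) 20931)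
 EL.nil)
noncomputable def S401_415_216_364_33 : EL := (EL.cons 14 (TM.mk (P.lf 8589934592 0 0) 0)
 EL.nil)
noncomputable def S401_415_216_364_34 : EL := (EL.cons 14 (TM.mk (P.cons (P.cons (P.lf 3974930598 0 0) (P.cons (P.lf 0 47513512 0) (P.cons (P.lf 0 20488360 0) (P.lf 2276480 0 0)))) (P.cons (P.cons (P.lf 308629214 0 0) (P.cons (P.lf 14359496 0 0) (P.cons (P.lf 6191976 0 0) (P.lf 0 687992 0)))) (P.cons (P.cons (P.lf 0 7919034 0) (P.cons (P.lf 0 1520472 0) (P.cons (P.lf 0 655640 0) (P.lf 72848 0 0)))) (P.cons (P.cons (P.lf 0 923862 0) (P.cons (P.lf 56232 0 0) (P.cons (P.lf 24240 0 0) P.nil))) (P.cons (P.cons (P.lf 44486 0 0) (P.cons (P.lf 912 0 0) P.nil)) (P.cons (P.cons (P.lf 8 0 0) P.nil) P.nil)))))) 4690)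
 EL.nil)
noncomputable def S401_415_216_364_35 : EL := (EL.cons 14 (TM.mk (P.cons (P.cons (P.lf 1839370612 0 0) (P.cons (P.lf 0 43973072 0) (P.cons (P.lf 0 18698870 0) (P.cons (P.lf 2333504 0 0) (P.cons (P.lf 23684 0 0) (P.cons (P.lf 0 10858 0) P.nil)))))) (P.cons (P.cons (P.lf 285631908 0 0) (P.cons (P.lf 9875264 0 0) (P.cons (P.lf 4099472 0 0) (P.cons (P.lf 0 610140 0) (P.cons (P.lf 0 14314 0) P.nil))))) (P.cons (P.cons (P.lf 3759838 0 0) (P.cons (P.lf 0 287720 0) (P.cons (P.lf 0 83238 0) (P.cons (P.lf 48992 0 0) P.nil)))) (P.cons (P.cons (P.lf 0 1424068 0) (P.cons (P.lf 0 73472 0) (P.cons (P.lf 0 37394 0) P.nil))) (P.cons (P.cons (P.lf 0 17914 0) (P.cons (P.lf 4106 0 0) P.nil)) (P.cons (P.cons (P.lf 4906 0 0) P.nil) P.nil)))))) 46378)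
 EL.nil)
noncomputable def S401_415_216_364_36 : EL := (EL.cons 14 (TM.mk (P.cons (P.lf 7080400240 0 0) (P.cons (P.lf 126593592 0 0) (P.cons (P.lf 0 8159776 0) (P.cons (P.lf 147760 0 0) (P.cons (P.lf 1128 0 0) (P.cons (P.lf 0 128 0) P.nil)))))) 144)
 EL.nil)
noncomputable def S401_415_216_364_37 : EL := (EL.cons 14 (TM.mk (P.cons (P.cons (P.lf 3276404406 0 0) (P.cons (P.lf 0 39163822 0) (P.cons (P.lf 0 16887880 0) (P.lf 1876426 0 0)))) (P.cons (P.cons (P.lf 312973174 0 0) (P.cons (P.lf 11135832 0 0) (P.cons (P.lf 4801896 0 0) (P.lf 0 533538 0)))) (P.cons (P.cons (P.lf 0 5754874 0) (P.cons (P.lf 0 996518 0) (P.cons (P.lf 0 429706 0) (P.lf 47744 0 0)))) (P.cons (P.cons (P.lf 0 1103014 0) (P.cons (P.lf 9484 0 0) (P.cons (P.lf 4082 0 0) P.nil))) (P.cons (P.cons (P.lf 36406 0 0) (P.cons (P.lf 3264 0 0) P.nil)) (P.cons (P.cons (P.lf 1384 0 0) P.nil) P.nil)))))) 7188)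
 EL.nil)
noncomputable def S401_415_216_364_38 : EL := (EL.cons 14 (TM.mk (P.cons (P.cons (P.lf 1516132628 0 0) (P.cons (P.lf 0 36245554 0) (P.cons (P.lf 0 15412862 0) (P.cons (P.lf 1923430 0 0) (P.cons (P.lf 19520 0 0) (P.cons (P.lf 0 8948 0) P.nil)))))) (P.cons (P.cons (P.lf 262544578 0 0) (P.cons (P.lf 7491804 0 0) (P.cons (P.lf 3103486 0 0) (P.cons (P.lf 0 468528 0) (P.cons (P.lf 0 11448 0) P.nil))))) (P.cons (P.cons (P.lf 5561330 0 0) (P.cons (P.lf 0 49850 0) (P.cons (P.lf 9566 0 0) (P.cons (P.lf 29172 0 0) P.nil)))) (P.cons (P.cons (P.lf 0 1358090 0) (P.cons (P.lf 0 74936 0) (P.cons (P.lf 0 36264 0) P.nil))) (P.cons (P.cons (P.lf 0 34168 0) (P.cons (P.lf 2738 0 0) P.nil)) (P.cons (P.cons (P.lf 5206 0 0) P.nil) P.nil)))))) 41862)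
 EL.nil)
noncomputable def S401_415_216_364_39 : EL := (EL.cons 14 (TM.mk (P.cons (P.lf 5836140778 0 0) (P.cons (P.lf 208693858 0 0) (P.cons (P.lf 0 11586004 0) (P.cons (P.lf 3078 0 0) (P.cons (P.lf 13964 0 0) (P.cons (P.lf 0 458 0) P.nil)))))) 264)
 EL.nil)
noncomputable def S401_415_216_364_40 : EL := (EL.cons 14 (TM.mk (P.cons (P.cons (P.lf 2700632268 0 0) (P.cons (P.lf 0 32281450 0) (P.cons (P.lf 0 13920122 0) (P.lf 1546676 0 0)))) (P.cons (P.cons (P.lf 306259274 0 0) (P.cons (P.lf 8601724 0 0) (P.cons (P.lf 3709160 0 0) (P.lf 0 412124 0)))) (P.cons (P.cons (P.lf 0 3243462 0) (P.cons (P.lf 0 620080 0) (P.cons (P.lf 0 267382 0) (P.lf 29708 0 0)))) (P.cons (P.cons (P.lf 0 1234932 0) (P.cons (P.lf 0 18120 0) (P.cons (P.lf 0 7818 0) P.nil))) (P.cons (P.cons (P.lf 25032 0 0) (P.cons (P.lf 3964 0 0) P.nil)) (P.cons (P.cons (P.lf 2618 0 0) P.nil) P.nil)))))) 8056)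
 EL.nil)
noncomputable def S401_415_216_364_41 : EL := (EL.cons 14 (TM.mk (P.cons (P.cons (P.lf 1249698204 0 0) (P.cons (P.lf 0 29876016 0) (P.cons (P.lf 0 12704314 0) (P.cons (P.lf 1585420 0 0) (P.cons (P.lf 16090 0 0) (P.cons (P.lf 0 7376 0) P.nil)))))) (P.cons (P.cons (P.lf 238750754 0 0) (P.cons (P.lf 5641080 0 0) (P.cons (P.lf 2330954 0 0) (P.cons (P.lf 0 357846 0) (P.cons (P.lf 0 9148 0) P.nil))))) (P.cons (P.cons (P.lf 7013046 0 0) (P.cons (P.lf 103748 0 0) (P.cons (P.lf 68264 0 0) (P.cons (P.lf 15314 0 0) P.nil)))) (P.cons (P.cons (P.lf 0 1260786 0) (P.cons (P.lf 0 70242 0) (P.cons (P.lf 0 32964 0) P.nil))) (P.cons (P.cons (P.lf 0 48746 0) (P.cons (P.lf 1324 0 0) P.nil)) (P.cons (P.cons (P.lf 5186 0 0) P.nil) P.nil)))))) 37082)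
 EL.nil)
noncomputable def S401_415_216_364_42 : EL := (EL.cons 14 (TM.mk (P.cons (P.lf 4810538674 0 0) (P.cons (P.lf 258029212 0 0) (P.cons (P.lf 0 12018232 0) (P.cons (P.lf 0 266062 0) (P.cons (P.lf 26916 0 0) (P.cons (P.lf 0 432 0) P.nil)))))) 362)
 EL.nil)
noncomputable def S401_415_216_364_43 : EL := (EL.cons 14 (TM.mk (P.cons (P.cons (P.lf 2226042254 0 0) (P.cons (P.lf 0 26608536 0) (P.cons (P.lf 0 11473898 0) (P.lf 1274874 0 0)))) (P.cons (P.cons (P.lf 292239824 0 0) (P.cons (P.lf 6614372 0 0) (P.cons (P.lf 2852192 0 0) (P.lf 0 316906 0)))) (P.cons (P.cons (P.lf 0 725396 0) (P.cons (P.lf 0 353680 0) (P.cons (P.lf 0 152508 0) (P.lf 16944 0 0)))) (P.cons (P.cons (P.lf 0 1310180 0) (P.cons (P.lf 0 32800 0) (P.cons (P.lf 0 14148 0) P.nil))) (P.cons (P.cons (P.lf 11136 0 0) (P.cons (P.lf 3732 0 0) P.nil)) (P.cons (P.cons (P.lf 3644 0 0) P.nil) P.nil)))))) 8678)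
 EL.nil)
noncomputable def S401_415_216_364_44 : EL := (EL.cons 14 (TM.mk (P.cons (P.cons (P.lf 1030085080 0 0) (P.cons (P.lf 0 24625816 0) (P.cons (P.lf 0 10471748 0) (P.cons (P.lf 1306808 0 0) (P.cons (P.lf 13262 0 0) (P.cons (P.lf 0 6080 0) P.nil)))))) (P.cons (P.cons (P.lf 215211730 0 0) (P.cons (P.lf 4209460 0 0) (P.cons (P.lf 1734100 0 0) (P.cons (P.lf 0 271594 0) (P.cons (P.lf 0 7304 0) P.nil))))) (P.cons (P.cons (P.lf 8112080 0 0) (P.cons (P.lf 197032 0 0) (P.cons (P.lf 102688 0 0) (P.cons (P.lf 5842 0 0) P.nil)))) (P.cons (P.cons (P.lf 0 1141168 0) (P.cons (P.lf 0 62242 0) (P.cons (P.lf 0 28598 0) P.nil))) (P.cons (P.cons (P.lf 0 61152 0) (P.cons (P.lf 50 0 0) P.nil)) (P.cons (P.cons (P.lf 4886 0 0) P.nil) P.nil)))))) 32920)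
 EL.nil)
noncomputable def S401_415_216_364_45 : EL := (EL.cons 14 (TM.mk (P.cons (P.cons (P.lf 851155552 0 0) (P.cons (P.lf 0 30522334 0) (P.cons (P.lf 0 12796730 0) (P.cons (P.lf 1775588 0 0) (P.cons (P.lf 30998 0 0) (P.cons (P.lf 0 15676 0) P.nil)))))) (P.cons (P.cons (P.lf 198261174 0 0) (P.cons (P.lf 4484686 0 0) (P.cons (P.lf 1741650 0 0) (P.cons (P.lf 0 379304 0) (P.cons (P.lf 0 15614 0) P.nil))))) (P.cons (P.cons (P.lf 10306644 0 0) (P.cons (P.lf 393312 0 0) (P.cons (P.lf 208428 0 0) (P.cons (P.lf 14100 0 0) P.nil)))) (P.cons (P.cons (P.lf 0 985038 0) (P.cons (P.lf 0 73066 0) (P.cons (P.lf 0 34676 0) P.nil))) (P.cons (P.cons (P.lf 0 84114 0) (P.cons (P.lf 0 2646 0) P.nil)) (P.cons (P.cons (P.lf 4016 0 0) P.nil) P.nil)))))) 57280)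
 EL.nil)
noncomputable def S401_415_216_364_46 : EL := (EL.cons 15 (TM.mk (P.lf 4294967296 0 0) 0)
 EL.nil)
noncomputable def S401_415_216_364_47 : EL := (EL.cons 15 (TM.mk (P.cons (P.cons (P.lf 1987465299 0 0) (P.cons (P.lf 0 23756756 0) (P.cons (P.lf 0 10244180 0) (P.lf 1138240 0 0)))) (P.cons (P.cons (P.lf 154314607 0 0) (P.cons (P.lf 7179748 0 0) (P.cons (P.lf 3095988 0 0) (P.lf 0 343996 0)))) (P.cons (P.cons (P.lf 0 3959517 0) (P.cons (P.lf 0 760236 0) (P.cons (P.lf 0 327820 0) (P.lf 36424 0 0)))) (P.cons (P.cons (P.lf 0 461931 0) (P.cons (P.lf 28116 0 0) (P.cons (P.lf 12120 0 0) P.nil))) (P.cons (P.cons (P.lf 22243 0 0) (P.cons (P.lf 456 0 0) P.nil)) (P.cons (P.cons (P.lf 4 0 0) P.nil) P.nil)))))) 2345)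
 EL.nil)
noncomputable def S401_415_216_364_48 : EL := (EL.cons 15 (TM.mk (P.cons (P.cons (P.lf 919685306 0 0) (P.cons (P.lf 0 21986536 0) (P.cons (P.lf 0 9349435 0) (P.cons (P.lf 1166752 0 0) (P.cons (P.lf 11842 0 0) (P.cons (P.lf 0 5429 0) P.nil)))))) (P.cons (P.cons (P.lf 142815954 0 0) (P.cons (P.lf 4937632 0 0) (P.cons (P.lf 2049736 0 0) (P.cons (P.lf 0 305070 0) (P.cons (P.lf 0 7157 0) P.nil))))) (P.cons (P.cons (P.lf 1879919 0 0) (P.cons (P.lf 0 143860 0) (P.cons (P.lf 0 41619 0) (P.cons (P.lf 24496 0 0) P.nil)))) (P.cons (P.cons (P.lf 0 712034 0) (P.cons (P.lf 0 36736 0) (P.cons (P.lf 0 18697 0) P.nil))) (P.cons (P.cons (P.lf 0 8957 0) (P.cons (P.lf 2053 0 0) P.nil)) (P.cons (P.cons (P.lf 2453 0 0) P.nil) P.nil)))))) 23189)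
 EL.nil)
noncomputable def S401_415_216_364 : SL := (SL.cons S401_415_216_364_0 (SL.cons S401_415_216_364_1 (SL.cons S401_415_216_364_2 (SL.cons S401_415_216_364_3 (SL.cons S401_415_216_364_4 (SL.cons S401_415_216_364_5 (SL.cons S401_415_216_364_6 (SL.cons S401_415_216_364_7 (SL.cons S401_415_216_364_8 (SL.cons S401_415_216_364_9 (SL.cons S401_415_216_364_10 (SL.cons S401_415_216_364_11 (SL.cons S401_415_216_364_12 (SL.cons S401_415_216_364_13 (SL.cons S401_415_216_364_14 (SL.cons S401_415_216_364_15 (SL.cons S401_415_216_364_16 (SL.cons S401_415_216_364_17 (SL.cons S401_415_216_364_18 (SL.cons S401_415_216_364_19 (SL.cons S401_415_216_364_20 (SL.cons S401_415_216_364_21 (SL.cons S401_415_216_364_22 (SL.cons S401_415_216_364_23 (SL.cons S401_415_216_364_24 (SL.cons S401_415_216_364_25 (SL.cons S401_415_216_364_26 (SL.cons S401_415_216_364_27 (SL.cons S401_415_216_364_28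 (SL.cons S401_415_216_364_29 (SL.cons S401_415_216_364_30 (SL.cons S401_415_216_364_31 (SL.cons S401_415_216_364_32 (SL.cons S401_415_216_364_33 (SL.cons S401_415_216_364_34 (SL.cons S401_415_216_364_35 (SL.cons S401_415_216_364_36 (SL.cons S401_415_216_364_37 (SL.cons S401_415_216_364_38 (SL.cons S401_415_216_364_39 (SL.cons S401_415_216_364_40 (SL.cons S401_415_216_364_41 (SL.cons S401_415_216_364_42 (SL.cons S401_415_216_364_43 (SL.cons S401_415_216_364_44 (SL.cons S401_415_216_364_45 (SL.cons S401_415_216_364_46 (SL.cons S401_415_216_364_47 (SL.cons S401_415_216_364_48 SL.nil)))))))))))))))))))))))))))))))))))))))))))))))))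
noncomputable def S401_415_660_808_0 : EL := (EL.cons 0 (TM.mk (P.cons (P.lf 3326296258 0 0) (P.cons (P.lf 0 183422336 0) (P.cons (P.lf 10183011 0 0) (P.cons (P.lf 0 2705 0) (P.cons (P.lf 0 12273 0) (P.cons (P.lf 402 0 0) P.nil)))))) 239)
 (EL.cons 1 (TM.mk (P.cons (P.lf 1288541953 0 0) (P.cons (P.lf 0 106768991 0) (P.cons (P.lf 0 3137756 0) (P.cons (P.lf 253816 0 0) (P.cons (P.lf 0 4378 0) (P.cons (P.lf 0 125 0) P.nil)))))) 125)
 (EL.cons 5 (TM.mk (P.cons (P.lf 6118761294 0 0) (P.cons (P.lf 65216832 0 0) (P.cons (P.lf 0 3620626 0) (P.cons (P.lf 964 0 0) (P.cons (P.lf 4364 0 0) (P.cons (P.lf 0 142 0) P.nil)))))) 61)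
 (EL.cons 9 (TM.mk (P.lf 6442450944 0 0) 2)
 EL.nil))))
noncomputable def S401_415_660_808_1 : EL := (EL.cons 0 (TM.mk (P.cons (P.cons (P.lf 4114191481 0 0) (P.cons (P.lf 66718349 0 0) (P.cons (P.lf 0 28769698 0) (P.lf 0 3196615 0)))) (P.cons (P.cons (P.lf 0 339263192 0) (P.cons (P.lf 0 16105306 0) (P.cons (P.lf 6944785 0 0) (P.lf 771624 0 0)))) (P.cons (P.cons (P.lf 0 16142997 0) (P.cons (P.lf 683251 0 0) (P.cons (P.lf 0 294617 0) (P.lf 0 32728 0)))) (P.cons (P.cons (P.lf 3983083 0 0) (P.cons (P.lf 119057 0 0) (P.cons (P.lf 0 51348 0) P.nil))) (P.cons (P.cons (P.lf 0 119656 0) (P.cons (P.lf 0 13031 0) P.nil)) (P.cons (P.cons (P.lf 0 7151 0) P.nil) P.nil)))))) 33877)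
 (EL.cons 1 (TM.mk (P.cons (P.cons (P.lf 2135170977 0 0) (P.cons (P.lf 42418835 0 0) (P.cons (P.lf 0 18291482 0) (P.lf 0 2032392 0)))) (P.cons (P.cons (P.lf 41994354 0 0) (P.cons (P.lf 0 2044070 0) (P.cons (P.lf 881426 0 0) (P.lf 97942 0 0)))) (P.cons (P.cons (P.lf 0 36471314 0) (P.cons (P.lf 0 1100701 0) (P.cons (P.lf 474629 0 0) (P.lf 52733 0 0)))) (P.cons (P.cons (P.lf 770050 0 0) (P.cons (P.lf 114658 0 0) (P.cons (P.lf 0 49432 0) P.nil))) (P.cons (P.cons (P.lf 118371 0 0) (P.cons (P.lf 0 392 0) P.nil)) (P.cons (P.cons (P.lf 0 6712 0) P.nil) P.nil)))))) 13174)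
 (EL.cons 5 (TM.mk (P.cons (P.cons (P.lf 1464567100 0 0) (P.cons (P.lf 0 64108572 0) (P.cons (P.lf 27644340 0 0) (P.lf 3071592 0 0)))) (P.cons (P.cons (P.lf 519353378 0 0) (P.cons (P.lf 17931908 0 0) (P.cons (P.lf 0 7732438 0) (P.lf 0 859156 0)))) (P.cons (P.cons (P.lf 0 15433499 0) (P.cons (P.lf 0 1535340 0) (P.cons (P.lf 662052 0 0) (P.lf 73562 0 0)))) (P.cons (P.cons (P.lf 0 1667368 0) (P.cons (P.lf 5468 0 0) (P.cons (P.lf 0 2358 0) P.nil))) (P.cons (P.cons (P.lf 89100 0 0) (P.cons (P.lf 5414 0 0) P.nil)) (P.cons (P.cons (P.lf 1313 0 0) P.nil) P.nil)))))) 10036)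
 (EL.cons 9 (TM.mk (P.cons (P.cons (P.lf 2582991820 0 0) (P.cons (P.lf 0 35635134 0) (P.cons (P.lf 15366270 0 0) (P.lf 1707360 0 0)))) (P.cons (P.cons (P.lf 351817462 0 0) (P.cons (P.lf 10769622 0 0) (P.cons (P.lf 0 4643982 0) (P.lf 0 515994 0)))) (P.cons (P.cons (P.lf 0 18682255 0) (P.cons (P.lf 0 1140354 0) (P.cons (P.lf 491730 0 0) (P.lf 54636 0 0)))) (P.cons (P.cons (P.lf 0 221620 0) (P.cons (P.lf 42174 0 0) (P.cons (P.lf 0 18180 0) P.nil))) (P.cons (P.cons (P.lf 41068 0 0) (P.cons (P.lf 684 0 0) P.nil)) (P.cons (P.cons (P.lf 0 1072 0) P.nil) P.nil)))))) 3536)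
 (EL.cons 2 (TM.mk (P.cons (P.cons (P.lf 0 148204895 0) (P.cons (P.lf 138066570 0 0) (P.cons (P.lf 14170117 0 0) (P.cons (P.lf 0 2946990 0) (P.lf 0 245579 0))))) (P.cons (P.cons (P.lf 27210428 0 0) (P.cons (P.lf 0 25349028 0) (P.cons (P.lf 0 2601632 0) (P.cons (P.lf 541065 0 0) (P.lf 45087 0 0))))) (P.cons (P.cons (P.lf 0 953057 0) (P.cons (P.lf 887861 0 0) (P.cons (P.lf 91122 0 0) (P.cons (P.lf 0 18950 0) P.nil)))) (P.cons (P.cons (P.lf 0 66704 0) (P.cons (P.lf 62139 0 0) (P.cons (P.lf 6375 0 0) P.nil))) (P.cons (P.cons (P.lf 4511 0 0) (P.cons (P.lf 0 4204 0) P.nil)) (P.cons (P.cons (P.lf 0 56 0) P.nil) P.nil)))))) 6276)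
 (EL.cons 6 (TM.mk (P.cons (P.cons (P.lf 37229979 0 0) (P.cons (P.lf 0 34683168 0) (P.cons (P.lf 0 3559620 0) (P.cons (P.lf 740301 0 0) (P.lf 61689 0 0))))) (P.cons (P.cons (P.lf 0 11251617 0) (P.cons (P.lf 10481919 0 0) (P.cons (P.lf 1075785 0 0) (P.cons (P.lf 0 223731 0) (P.lf 0 18642 0))))) (P.cons (P.cons (P.lf 1191393 0 0) (P.cons (P.lf 0 1109892 0) (P.cons (P.lf 0 113910 0) (P.cons (P.lf 23688 0 0) P.nil)))) (P.cons (P.cons (P.lf 0 44061 0) (P.cons (P.lf 41046 0 0) (P.cons (P.lf 4212 0 0) P.nil))) (P.cons (P.cons (P.lf 0 720 0) (P.cons (P.lf 669 0 0) P.nil)) (P.cons (P.cons (P.lf 99 0 0) P.nil) P.nil)))))) 3357)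
 EL.nil))))))
noncomputable def S401_415_660_808_2 : EL := (EL.cons 0 (TM.mk (P.cons (P.cons (P.lf 2764337772 0 0) (P.cons (P.lf 22738856 0 0) (P.cons (P.lf 0 10645090 0) (P.cons (P.lf 0 365153 0) (P.cons (P.lf 0 75675 0) (P.cons (P.lf 0 34696 0) P.nil)))))) (P.cons (P.cons (P.lf 61130615 0 0) (P.cons (P.lf 8618003 0 0) (P.cons (P.lf 0 3247824 0) (P.cons (P.lf 0 816828 0) (P.cons (P.lf 42201 0 0) P.nil))))) (P.cons (P.cons (P.lf 0 69649444 0) (P.cons (P.lf 0 4071896 0) (P.cons (P.lf 1651314 0 0) (P.cons (P.lf 285238 0 0) P.nil)))) (P.cons (P.cons (P.lf 3935625 0 0) (P.cons (P.lf 418498 0 0) (P.cons (P.lf 0 169649 0) P.nil))) (P.cons (P.cons (P.lf 408261 0 0) (P.cons (P.lf 6798 0 0) P.nil)) (P.cons (P.cons (P.lf 0 43252 0) P.nil) P.nil)))))) 251637)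
 (EL.cons 1 (TM.mk (P.cons (P.cons (P.lf 1504991731 0 0) (P.cons (P.lf 16108839 0 0) (P.cons (P.lf 0 7454996 0) (P.cons (P.lf 0 333116 0) (P.cons (P.lf 0 45845 0) (P.cons (P.lf 0 21022 0) P.nil)))))) (P.cons (P.cons (P.lf 227612506 0 0) (P.cons (P.lf 8245516 0 0) (P.cons (P.lf 0 3364024 0) (P.cons (P.lf 0 560233 0) (P.cons (P.lf 17261 0 0) P.nil))))) (P.cons (P.cons (P.lf 0 32708651 0) (P.cons (P.lf 0 1592899 0) (P.cons (P.lf 669193 0 0) (P.cons (P.lf 91563 0 0) P.nil)))) (P.cons (P.cons (P.lf 0 3145933 0) (P.cons (P.lf 0 95354 0) (P.cons (P.lf 38752 0 0) P.nil))) (P.cons (P.cons (P.lf 357189 0 0) (P.cons (P.lf 29852 0 0) P.nil)) (P.cons (P.cons (P.lf 4435 0 0) P.nil) P.nil)))))) 108278)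
 (EL.cons 5 (TM.mk (P.cons (P.cons (P.lf 190812193 0 0) (P.cons (P.lf 0 40469488 0) (P.cons (P.lf 17972892 0 0) (P.cons (P.lf 1488794 0 0) (P.cons (P.lf 47039 0 0) (P.cons (P.lf 21559 0 0) P.nil)))))) (P.cons (P.cons (P.lf 297989944 0 0) (P.cons (P.lf 2312112 0 0) (P.cons (P.lf 0 1298562 0) (P.cons (P.lf 149281 0 0) (P.cons (P.lf 0 27165 0) P.nil))))) (P.cons (P.cons (P.lf 29560299 0 0) (P.cons (P.lf 1978744 0 0) (P.cons (P.lf 0 781388 0) (P.cons (P.lf 0 156779 0) P.nil)))) (P.cons (P.cons (P.lf 0 3913240 0) (P.cons (P.lf 0 319630 0) (P.cons (P.lf 129134 0 0) P.nil))) (P.cons (P.cons (P.lf 0 73859 0) (P.cons (P.lf 9566 0 0) P.nil)) (P.cons (P.cons (P.lf 20933 0 0) P.nil) P.nil)))))) 96198)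
 (EL.cons 9 (TM.mk (P.cons (P.cons (P.lf 1035606913 0 0) (P.cons (P.lf 0 28574608 0) (P.cons (P.lf 12518800 0 0) (P.cons (P.lf 1199082 0 0) (P.cons (P.lf 17763 0 0) (P.cons (P.lf 8143 0 0) P.nil)))))) (P.cons (P.cons (P.lf 282110530 0 0) (P.cons (P.lf 4743778 0 0) (P.cons (P.lf 0 2164710 0) (P.cons (P.lf 0 124533 0) (P.cons (P.lf 0 10735 0) P.nil))))) (P.cons (P.cons (P.lf 4231821 0 0) (P.cons (P.lf 468504 0 0) (P.cons (P.lf 0 171408 0) (P.cons (P.lf 0 48853 0) P.nil)))) (P.cons (P.cons (P.lf 0 2218158 0) (P.cons (P.lf 0 150738 0) (P.cons (P.lf 60724 0 0) P.nil))) (P.cons (P.cons (P.lf 62901 0 0) (P.cons (P.lf 10572 0 0) P.nil)) (P.cons (P.cons (P.lf 4909 0 0) P.nil) P.nil)))))) 40780)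
 (EL.cons 2 (TM.mk (P.cons (P.cons (P.lf 0 118840494 0) (P.cons (P.lf 112350448 0 0) (P.cons (P.lf 9128176 0 0) (P.cons (P.lf 0 1939781 0) (P.cons (P.lf 0 23546 0) (P.cons (P.lf 0 3830 0) P.nil)))))) (P.cons (P.cons (P.lf 5632402 0 0) (P.cons (P.lf 0 6043618 0) (P.cons (P.lf 546969 0 0) (P.cons (P.lf 0 93650 0) (P.cons (P.lf 0 74896 0) P.nil))))) (P.cons (P.cons (P.lf 3067205 0 0) (P.cons (P.lf 0 2703397 0) (P.cons (P.lf 0 503105 0) (P.cons (P.lf 100743 0 0) P.nil)))) (P.cons (P.cons (P.lf 0 305195 0) (P.cons (P.lf 270292 0 0) (P.cons (P.lf 48285 0 0) P.nil))) (P.cons (P.cons (P.lf 0 1895 0) (P.cons (P.lf 2154 0 0) P.nil)) (P.cons (P.cons (P.lf 1293 0 0) P.nil) P.nil)))))) 68534)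
 (EL.cons 6 (TM.mk (P.cons (P.cons (P.lf 29853456 0 0) (P.cons (P.lf 0 28223118 0) (P.cons (P.lf 0 2293050 0) (P.cons (P.lf 487284 0 0) (P.cons (P.lf 5910 0 0) (P.cons (P.lf 960 0 0) P.nil)))))) (P.cons (P.cons (P.lf 0 4956084 0) (P.cons (P.lf 4865994 0 0) (P.cons (P.lf 134598 0 0) (P.cons (P.lf 0 34272 0) (P.cons (P.lf 18108 0 0) P.nil))))) (P.cons (P.cons (P.lf 0 489468 0) (P.cons (P.lf 392004 0 0) (P.cons (P.lf 133986 0 0) (P.cons (P.lf 0 26250 0) P.nil)))) (P.cons (P.cons (P.lf 157482 0 0) (P.cons (P.lf 0 137766 0) (P.cons (P.lf 0 27240 0) P.nil))) (P.cons (P.cons (P.lf 0 11046 0) (P.cons (P.lf 9588 0 0) P.nil)) (P.cons (P.cons (P.lf 18 0 0) P.nil) P.nil)))))) 26316)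
 EL.nil))))))
noncomputable def S401_415_660_808_3 : EL := (EL.cons 0 (TM.mk (P.cons (P.lf 5129420605 0 0) (P.cons (P.lf 183422336 0 0) (P.cons (P.lf 0 10183011 0) (P.cons (P.lf 2705 0 0) (P.cons (P.lf 12273 0 0) (P.cons (P.lf 0 402 0) P.nil)))))) 239)
 (EL.cons 1 (TM.mk (P.cons (P.lf 0 1288541953 0) (P.cons (P.lf 106768991 0 0) (P.cons (P.lf 3137756 0 0) (P.cons (P.lf 0 253816 0) (P.cons (P.lf 4378 0 0) (P.cons (P.lf 125 0 0) P.nil)))))) 125)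
 (EL.cons 5 (TM.mk (P.cons (P.lf 323689650 0 0) (P.cons (P.lf 0 65216832 0) (P.cons (P.lf 3620626 0 0) (P.cons (P.lf 0 964 0) (P.cons (P.lf 0 4364 0) (P.cons (P.lf 142 0 0) P.nil)))))) 54)
 EL.nil)))
noncomputable def S401_415_660_808_4 : EL := (EL.cons 0 (TM.mk (P.cons (P.cons (P.lf 2056554497 0 0) (P.cons (P.lf 0 28372368 0) (P.cons (P.lf 12234482 0 0) (P.lf 1359383 0 0)))) (P.cons (P.cons (P.lf 353653934 0 0) (P.cons (P.lf 7560108 0 0) (P.cons (P.lf 0 3260003 0) (P.lf 0 362218 0)))) (P.cons (P.cons (P.lf 0 8940789 0) (P.cons (P.lf 0 544992 0) (P.cons (P.lf 235003 0 0) (P.lf 26110 0 0)))) (P.cons (P.cons (P.lf 0 1263353 0) (P.cons (P.lf 0 15925 0) (P.cons (P.lf 6871 0 0) P.nil))) (P.cons (P.cons (P.lf 60985 0 0) (P.cons (P.lf 3483 0 0) P.nil)) (P.cons (P.cons (P.lf 1165 0 0) P.nil) P.nil)))))) 7166)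
 (EL.cons 1 (TM.mk (P.cons (P.cons (P.lf 0 516619117 0) (P.cons (P.lf 7127311 0 0) (P.cons (P.lf 0 3073376 0) (P.lf 0 341484 0)))) (P.cons (P.cons (P.lf 0 27559095 0) (P.cons (P.lf 0 2744581 0) (P.cons (P.lf 1183494 0 0) (P.lf 131497 0 0)))) (P.cons (P.cons (P.lf 10825205 0 0) (P.cons (P.lf 389205 0 0) (P.cons (P.lf 0 167827 0) (P.lf 0 18646 0)))) (P.cons (P.cons (P.lf 0 195703 0) (P.cons (P.lf 0 20683 0) (P.cons (P.lf 8917 0 0) P.nil))) (P.cons (P.cons (P.lf 0 33090 0) (P.cons (P.lf 0 440 0) P.nil)) (P.cons (P.cons (P.lf 1811 0 0) P.nil) P.nil)))))) 2764)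
 (EL.cons 5 (TM.mk (P.cons (P.cons (P.lf 129777894 0 0) (P.cons (P.lf 0 1790424 0) (P.cons (P.lf 772050 0 0) (P.lf 85782 0 0)))) (P.cons (P.cons (P.lf 0 8471134 0) (P.cons (P.lf 901834 0 0) (P.cons (P.lf 0 388880 0) (P.lf 0 43208 0)))) (P.cons (P.cons (P.lf 0 3048470 0) (P.cons (P.lf 0 186342 0) (P.cons (P.lf 80352 0 0) (P.lf 8926 0 0)))) (P.cons (P.cons (P.lf 375318 0 0) (P.cons (P.lf 19720 0 0) (P.cons (P.lf 0 8502 0) P.nil))) (P.cons (P.cons (P.lf 0 7994 0) (P.cons (P.lf 0 1010 0) P.nil)) (P.cons (P.cons (P.lf 0 772 0) P.nil) P.nil)))))) 1802)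
 EL.nil)))
noncomputable def S401_415_660_808_5 : EL := (EL.cons 0 (TM.mk (P.cons (P.cons (P.lf 824540765 0 0) (P.cons (P.lf 0 22750841 0) (P.cons (P.lf 9967354 0 0) (P.cons (P.lf 954697 0 0) (P.cons (P.lf 14141 0 0) (P.cons (P.lf 6482 0 0) P.nil)))))) (P.cons (P.cons (P.lf 254098481 0 0) (P.cons (P.lf 2963408 0 0) (P.cons (P.lf 0 1367100 0) (P.cons (P.lf 0 65012 0) (P.cons (P.lf 0 8040 0) P.nil))))) (P.cons (P.cons (P.lf 9764383 0 0) (P.cons (P.lf 553243 0 0) (P.cons (P.lf 0 217891 0) (P.cons (P.lf 0 44337 0) P.nil)))) (P.cons (P.cons (P.lf 0 2091065 0) (P.cons (P.lf 0 114187 0) (P.cons (P.lf 46894 0 0) P.nil))) (P.cons (P.cons (P.lf 0 17667 0) (P.cons (P.lf 3331 0 0) P.nil)) (P.cons (P.cons (P.lf 9680 0 0) P.nil) P.nil)))))) 39022)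
 (EL.cons 1 (TM.mk (P.cons (P.cons (P.lf 0 207129703 0) (P.cons (P.lf 5715150 0 0) (P.cons (P.lf 0 2503860 0) (P.cons (P.lf 0 239825 0) (P.cons (P.lf 0 3551 0) (P.cons (P.lf 0 1627 0) P.nil)))))) (P.cons (P.cons (P.lf 0 39261540 0) (P.cons (P.lf 0 1422352 0) (P.cons (P.lf 640428 0 0) (P.cons (P.lf 44778 0 0) (P.cons (P.lf 2441 0 0) P.nil))))) (P.cons (P.cons (P.lf 4333327 0 0) (P.cons (P.lf 0 29002 0) (P.cons (P.lf 4503 0 0) (P.cons (P.lf 8289 0 0) P.nil)))) (P.cons (P.cons (P.lf 610381 0 0) (P.cons (P.lf 41347 0 0) (P.cons (P.lf 0 16531 0) P.nil))) (P.cons (P.cons (P.lf 0 57690 0) (P.cons (P.lf 0 4590 0) P.nil)) (P.cons (P.cons (P.lf 0 973 0) P.nil) P.nil)))))) 13135)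
 (EL.cons 5 (TM.mk (P.cons (P.cons (P.lf 52032252 0 0) (P.cons (P.lf 0 1435680 0) (P.cons (P.lf 628984 0 0) (P.cons (P.lf 60244 0 0) (P.cons (P.lf 892 0 0) (P.cons (P.lf 408 0 0) P.nil)))))) (P.cons (P.cons (P.lf 3690714 0 0) (P.cons (P.lf 527602 0 0) (P.cons (P.lf 0 235488 0) (P.cons (P.lf 0 18394 0) (P.cons (P.lf 0 718 0) P.nil))))) (P.cons (P.cons (P.lf 0 2061174 0) (P.cons (P.lf 0 40540 0) (P.cons (P.lf 20336 0 0) (P.cons (P.lf 0 518 0) P.nil)))) (P.cons (P.cons (P.lf 4102 0 0) (P.cons (P.lf 0 9644 0) (P.cons (P.lf 3566 0 0) P.nil))) (P.cons (P.cons (P.lf 27248 0 0) (P.cons (P.lf 2338 0 0) P.nil)) (P.cons (P.cons (P.lf 0 1804 0) P.nil) P.nil)))))) 4262)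
 EL.nil)))
noncomputable def S401_415_660_808_6 : EL := (EL.cons 12 (TM.mk (P.lf 8589934592 0 0) 0)
 (EL.cons 3 (TM.mk (P.cons (P.lf 3318937612 0 0) (P.cons (P.lf 59340746 0 0) (P.cons (P.lf 0 3824895 0) (P.cons (P.lf 69262 0 0) (P.cons (P.lf 528 0 0) (P.cons (P.lf 0 60 0) P.nil)))))) 74)
 (EL.cons 7 (TM.mk (P.cons (P.lf 0 833737508 0) (P.cons (P.lf 83990512 0 0) (P.cons (P.lf 0 432288 0) (P.cons (P.lf 0 42307 0) (P.cons (P.lf 1472 0 0) (P.cons (P.lf 0 13 0) P.nil)))))) 44)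
 EL.nil)))
noncomputable def S401_415_660_808_7 : EL := (EL.cons 12 (TM.mk (P.cons (P.cons (P.lf 3443989094 0 0) (P.cons (P.lf 0 47513512 0) (P.cons (P.lf 20488360 0 0) (P.lf 2276480 0 0)))) (P.cons (P.cons (P.lf 469089950 0 0) (P.cons (P.lf 14359496 0 0) (P.cons (P.lf 0 6191976 0) (P.lf 0 687992 0)))) (P.cons (P.cons (P.lf 0 24909674 0) (P.cons (P.lf 0 1520472 0) (P.cons (P.lf 655640 0 0) (P.lf 72848 0 0)))) (P.cons (P.cons (P.lf 0 295494 0) (P.cons (P.lf 56232 0 0) (P.cons (P.lf 0 24240 0) P.nil))) (P.cons (P.cons (P.lf 54758 0 0) (P.cons (P.lf 912 0 0) P.nil)) (P.cons (P.cons (P.lf 0 1430 0) P.nil) P.nil)))))) 4690)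
 (EL.cons 3 (TM.mk (P.cons (P.cons (P.lf 3129809987 0 0) (P.cons (P.lf 36716082 0 0) (P.cons (P.lf 0 15832386 0) (P.lf 0 1759148 0)))) (P.cons (P.cons (P.lf 0 116597036 0) (P.cons (P.lf 0 10439842 0) (P.cons (P.lf 4501776 0 0) (P.lf 500190 0 0)))) (P.cons (P.cons (P.lf 0 457913 0) (P.cons (P.lf 934234 0 0) (P.cons (P.lf 0 402848 0) (P.lf 0 44760 0)))) (P.cons (P.cons (P.lf 939044 0 0) (P.cons (P.lf 0 8890 0) (P.cons (P.lf 3826 0 0) P.nil))) (P.cons (P.cons (P.lf 0 48765 0) (P.cons (P.lf 0 3060 0) P.nil)) (P.cons (P.cons (P.lf 0 169 0) P.nil) P.nil)))))) 13946)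
 (EL.cons 7 (TM.mk (P.cons (P.cons (P.lf 2212215451 0 0) (P.cons (P.lf 82563235 0 0) (P.cons (P.lf 0 35602198 0) (P.lf 0 3955801 0)))) (P.cons (P.cons (P.lf 0 165030710 0) (P.cons (P.lf 0 14776492 0) (P.cons (P.lf 6371791 0 0) (P.lf 707977 0 0)))) (P.cons (P.cons (P.lf 0 10436025 0) (P.cons (P.lf 445933 0 0) (P.cons (P.lf 0 192291 0) (P.lf 0 21364 0)))) (P.cons (P.cons (P.lf 712423 0 0) (P.cons (P.lf 41353 0 0) (P.cons (P.lf 0 17831 0) P.nil))) (P.cons (P.cons (P.lf 6924 0 0) (P.cons (P.lf 0 2152 0) P.nil)) (P.cons (P.cons (P.lf 0 1649 0) P.nil) P.nil)))))) 7651)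
 (EL.cons 10 (TM.mk (P.cons (P.cons (P.lf 0 191788839 0) (P.cons (P.lf 178669044 0 0) (P.cons (P.lf 18337254 0 0) (P.cons (P.lf 0 3813639 0) (P.lf 0 317802 0))))) (P.cons (P.cons (P.lf 38641521 0 0) (P.cons (P.lf 0 35998149 0) (P.cons (P.lf 0 3694581 0) (P.cons (P.lf 768369 0 0) (P.lf 64029 0 0))))) (P.cons (P.cons (P.lf 0 2145249 0) (P.cons (P.lf 1998498 0 0) (P.cons (P.lf 205110 0 0) (P.cons (P.lf 0 42657 0) P.nil)))) (P.cons (P.cons (P.lf 570 0 0) (P.cons (P.lf 0 531 0) (P.cons (P.lf 0 54 0) P.nil))) (P.cons (P.cons (P.lf 2583 0 0) (P.cons (P.lf 0 2406 0) P.nil)) (P.cons (P.cons (P.lf 0 84 0) P.nil) P.nil)))))) 4119)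
 EL.nil))))
noncomputable def S401_415_660_808_8 : EL := (EL.cons 12 (TM.mk (P.cons (P.cons (P.lf 1380809218 0 0) (P.cons (P.lf 0 38099478 0) (P.cons (P.lf 16691734 0 0) (P.cons (P.lf 1598776 0 0) (P.cons (P.lf 23684 0 0) (P.cons (P.lf 10858 0 0) P.nil)))))) (P.cons (P.cons (P.lf 376147374 0 0) (P.cons (P.lf 6325038 0 0) (P.cons (P.lf 0 2886280 0) (P.cons (P.lf 0 166044 0) (P.cons (P.lf 0 14314 0) P.nil))))) (P.cons (P.cons (P.lf 5642428 0 0) (P.cons (P.lf 624672 0 0) (P.cons (P.lf 0 228544 0) (P.cons (P.lf 0 65138 0) P.nil)))) (P.cons (P.cons (P.lf 0 2957544 0) (P.cons (P.lf 0 200984 0) (P.cons (P.lf 80966 0 0) P.nil))) (P.cons (P.cons (P.lf 83868 0 0) (P.cons (P.lf 14096 0 0) P.nil)) (P.cons (P.cons (P.lf 6546 0 0) P.nil) P.nil)))))) 54344)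
 (EL.cons 3 (TM.mk (P.cons (P.cons (P.lf 1976178401 0 0) (P.cons (P.lf 9538238 0 0) (P.cons (P.lf 0 4620711 0) (P.cons (P.lf 0 19125 0) (P.cons (P.lf 0 45750 0) (P.cons (P.lf 0 20976 0) P.nil)))))) (P.cons (P.cons (P.lf 93465100 0 0) (P.cons (P.lf 5211930 0 0) (P.cons (P.lf 0 1949635 0) (P.cons (P.lf 0 506554 0) (P.cons (P.lf 26836 0 0) P.nil))))) (P.cons (P.cons (P.lf 0 35417549 0) (P.cons (P.lf 0 2398800 0) (P.cons (P.lf 961596 0 0) (P.cons (P.lf 177712 0 0) P.nil)))) (P.cons (P.cons (P.lf 2423974 0 0) (P.cons (P.lf 299725 0 0) (P.cons (P.lf 0 119998 0) P.nil))) (P.cons (P.cons (P.lf 101456 0 0) (P.cons (P.lf 0 8503 0) P.nil)) (P.cons (P.cons (P.lf 0 17890 0) P.nil) P.nil)))))) 129844)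
 (EL.cons 7 (TM.mk (P.cons (P.cons (P.lf 1907921886 0 0) (P.cons (P.lf 38033876 0 0) (P.cons (P.lf 0 17288490 0) (P.cons (P.lf 0 1056586 0) (P.cons (P.lf 0 80010 0) (P.cons (P.lf 0 36681 0) P.nil)))))) (P.cons (P.cons (P.lf 132289880 0 0) (P.cons (P.lf 7376935 0 0) (P.cons (P.lf 0 2759499 0) (P.cons (P.lf 0 716962 0) (P.cons (P.lf 37980 0 0) P.nil))))) (P.cons (P.cons (P.lf 0 42283709 0) (P.cons (P.lf 0 2957713 0) (P.cons (P.lf 1197364 0 0) (P.cons (P.lf 209008 0 0) P.nil)))) (P.cons (P.cons (P.lf 0 80102 0) (P.cons (P.lf 181010 0 0) (P.cons (P.lf 0 71662 0) P.nil))) (P.cons (P.cons (P.lf 222402 0 0) (P.cons (P.lf 9984 0 0) P.nil)) (P.cons (P.cons (P.lf 0 7186 0) P.nil) P.nil)))))) 91991)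
 (EL.cons 10 (TM.mk (P.cons (P.cons (P.lf 0 153788982 0) (P.cons (P.lf 145390350 0 0) (P.cons (P.lf 11812584 0 0) (P.cons (P.lf 0 2510232 0) (P.cons (P.lf 0 30468 0) (P.cons (P.lf 0 4956 0) P.nil)))))) (P.cons (P.cons (P.lf 10038432 0 0) (P.cons (P.lf 0 10420416 0) (P.cons (P.lf 496620 0 0) (P.cons (P.lf 0 76314 0) (P.cons (P.lf 0 96378 0) P.nil))))) (P.cons (P.cons (P.lf 3612486 0 0) (P.cons (P.lf 0 3144546 0) (P.cons (P.lf 0 646326 0) (P.cons (P.lf 128844 0 0) P.nil)))) (P.cons (P.cons (P.lf 0 444756 0) (P.cons (P.lf 390960 0 0) (P.cons (P.lf 74370 0 0) P.nil))) (P.cons (P.cons (P.lf 9468 0 0) (P.cons (P.lf 0 7620 0) P.nil)) (P.cons (P.cons (P.lf 912 0 0) P.nil) P.nil)))))) 92724)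
 EL.nil))))
noncomputable def S401_415_660_808_9 : EL := (EL.cons 3 (TM.mk (P.cons (P.lf 3318937612 0 0) (P.cons (P.lf 59340746 0 0) (P.cons (P.lf 0 3824895 0) (P.cons (P.lf 69262 0 0) (P.cons (P.lf 528 0 0) (P.cons (P.lf 0 60 0) P.nil)))))) 74)
 (EL.cons 7 (TM.mk (P.cons (P.lf 0 833737508 0) (P.cons (P.lf 83990512 0 0) (P.cons (P.lf 0 432288 0) (P.cons (P.lf 0 42307 0) (P.cons (P.lf 1472 0 0) (P.cons (P.lf 0 13 0) P.nil)))))) 44)
 EL.nil))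
noncomputable def S401_415_660_808_10 : EL := (EL.cons 3 (TM.mk (P.cons (P.cons (P.lf 1330671941 0 0) (P.cons (P.lf 0 18358041 0) (P.cons (P.lf 7916193 0 0) (P.lf 879574 0 0)))) (P.cons (P.cons (P.lf 205036387 0 0) (P.cons (P.lf 5219921 0 0) (P.cons (P.lf 0 2250888 0) (P.lf 0 250095 0)))) (P.cons (P.cons (P.lf 0 7917452 0) (P.cons (P.lf 0 467117 0) (P.cons (P.lf 201424 0 0) (P.lf 22380 0 0)))) (P.cons (P.cons (P.lf 0 467356 0) (P.cons (P.lf 4445 0 0) (P.cons (P.lf 0 1913 0) P.nil))) (P.cons (P.cons (P.lf 34200 0 0) (P.cons (P.lf 1530 0 0) P.nil)) (P.cons (P.cons (P.lf 0 238 0) P.nil) P.nil)))))) 3397)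
 (EL.cons 7 (TM.mk (P.cons (P.cons (P.lf 0 334272962 0) (P.cons (P.lf 4611652 0 0) (P.cons (P.lf 0 1988596 0) (P.lf 0 220954 0)))) (P.cons (P.cons (P.lf 0 11855210 0) (P.cons (P.lf 0 1858306 0) (P.cons (P.lf 801322 0 0) (P.lf 89035 0 0)))) (P.cons (P.cons (P.lf 6831069 0 0) (P.cons (P.lf 290371 0 0) (P.cons (P.lf 0 125211 0) (P.lf 0 13912 0)))) (P.cons (P.cons (P.lf 0 255449 0) (P.cons (P.lf 0 20813 0) (P.cons (P.lf 8974 0 0) P.nil))) (P.cons (P.cons (P.lf 0 8670 0) (P.cons (P.lf 458 0 0) P.nil)) (P.cons (P.cons (P.lf 886 0 0) P.nil) P.nil)))))) 1662)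
 EL.nil))
noncomputable def S401_415_660_808_11 : EL := (EL.cons 3 (TM.mk (P.cons (P.cons (P.lf 533510423 0 0) (P.cons (P.lf 0 14720692 0) (P.cons (P.lf 6449271 0 0) (P.cons (P.lf 617727 0 0) (P.cons (P.lf 9150 0 0) (P.cons (P.lf 4194 0 0) P.nil)))))) (P.cons (P.cons (P.lf 154872880 0 0) (P.cons (P.lf 2180640 0 0) (P.cons (P.lf 0 999877 0) (P.cons (P.lf 0 53110 0) (P.cons (P.lf 0 5366 0) P.nil))))) (P.cons (P.cons (P.lf 4163743 0 0) (P.cons (P.lf 302016 0 0) (P.cons (P.lf 0 115674 0) (P.cons (P.lf 0 27026 0) P.nil)))) (P.cons (P.cons (P.lf 0 1260098 0) (P.cons (P.lf 0 76463 0) (P.cons (P.lf 31124 0 0) P.nil))) (P.cons (P.cons (P.lf 12578 0 0) (P.cons (P.lf 3827 0 0) P.nil)) (P.cons (P.cons (P.lf 4484 0 0) P.nil) P.nil)))))) 23256)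
 (EL.cons 7 (TM.mk (P.cons (P.cons (P.lf 0 134021094 0) (P.cons (P.lf 3697928 0 0) (P.cons (P.lf 0 1620096 0) (P.cons (P.lf 0 155176 0) (P.cons (P.lf 0 2298 0) (P.cons (P.lf 0 1053 0) P.nil)))))) (P.cons (P.cons (P.lf 0 23007544 0) (P.cons (P.lf 0 986435 0) (P.cons (P.lf 443349 0 0) (P.cons (P.lf 31748 0 0) (P.cons (P.lf 1620 0 0) P.nil))))) (P.cons (P.cons (P.lf 3060745 0 0) (P.cons (P.lf 3131 0 0) (P.cons (P.lf 0 6878 0) (P.cons (P.lf 4618 0 0) P.nil)))) (P.cons (P.cons (P.lf 316498 0 0) (P.cons (P.lf 25484 0 0) (P.cons (P.lf 0 10030 0) P.nil))) (P.cons (P.cons (P.lf 0 38958 0) (P.cons (P.lf 0 3402 0) P.nil)) (P.cons (P.cons (P.lf 368 0 0) P.nil) P.nil)))))) 7813)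
 EL.nil))
noncomputable def S401_415_660_808_12 : EL := (EL.cons 4 (TM.mk (P.cons (P.lf 0 3318937612 0) (P.cons (P.lf 0 59340746 0) (P.cons (P.lf 3824895 0 0) (P.cons (P.lf 0 69262 0) (P.cons (P.lf 0 528 0) (P.cons (P.lf 60 0 0) P.nil)))))) 74)
 (EL.cons 8 (TM.mk (P.cons (P.lf 833737508 0 0) (P.cons (P.lf 0 83990512 0) (P.cons (P.lf 432288 0 0) (P.cons (P.lf 42307 0 0) (P.cons (P.lf 0 1472 0) (P.cons (P.lf 13 0 0) P.nil)))))) 44)
 EL.nil))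
noncomputable def S401_415_660_808_13 : EL := (EL.cons 4 (TM.mk (P.cons (P.cons (P.lf 0 1330671941 0) (P.cons (P.lf 18358041 0 0) (P.cons (P.lf 0 7916193 0) (P.lf 0 879574 0)))) (P.cons (P.cons (P.lf 0 205036387 0) (P.cons (P.lf 0 5219921 0) (P.cons (P.lf 2250888 0 0) (P.lf 250095 0 0)))) (P.cons (P.cons (P.lf 7917452 0 0) (P.cons (P.lf 467117 0 0) (P.cons (P.lf 0 201424 0) (P.lf 0 22380 0)))) (P.cons (P.cons (P.lf 467356 0 0) (P.cons (P.lf 0 4445 0) (P.cons (P.lf 1913 0 0) P.nil))) (P.cons (P.cons (P.lf 0 34200 0) (P.cons (P.lf 0 1530 0) P.nil)) (P.cons (P.cons (P.lf 238 0 0) P.nil) P.nil)))))) 3397)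
 (EL.cons 8 (TM.mk (P.cons (P.cons (P.lf 334272962 0 0) (P.cons (P.lf 0 4611652 0) (P.cons (P.lf 1988596 0 0) (P.lf 220954 0 0)))) (P.cons (P.cons (P.lf 11855210 0 0) (P.cons (P.lf 1858306 0 0) (P.cons (P.lf 0 801322 0) (P.lf 0 89035 0)))) (P.cons (P.cons (P.lf 0 6831069 0) (P.cons (P.lf 0 290371 0) (P.cons (P.lf 125211 0 0) (P.lf 13912 0 0)))) (P.cons (P.cons (P.lf 255449 0 0) (P.cons (P.lf 20813 0 0) (P.cons (P.lf 0 8974 0) P.nil))) (P.cons (P.cons (P.lf 8670 0 0) (P.cons (P.lf 0 458 0) P.nil)) (P.cons (P.cons (P.lf 0 886 0) P.nil) P.nil)))))) 1662)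
 EL.nil))
noncomputable def S401_415_660_808_14 : EL := (EL.cons 4 (TM.mk (P.cons (P.cons (P.lf 0 533510423 0) (P.cons (P.lf 14720692 0 0) (P.cons (P.lf 0 6449271 0) (P.cons (P.lf 0 617727 0) (P.cons (P.lf 0 9150 0) (P.cons (P.lf 0 4194 0) P.nil)))))) (P.cons (P.cons (P.lf 0 154872880 0) (P.cons (P.lf 0 2180640 0) (P.cons (P.lf 999877 0 0) (P.cons (P.lf 53110 0 0) (P.cons (P.lf 5366 0 0) P.nil))))) (P.cons (P.cons (P.lf 0 4163743 0) (P.cons (P.lf 0 302016 0) (P.cons (P.lf 115674 0 0) (P.cons (P.lf 27026 0 0) P.nil)))) (P.cons (P.cons (P.lf 1260098 0 0) (P.cons (P.lf 76463 0 0) (P.cons (P.lf 0 31124 0) P.nil))) (P.cons (P.cons (P.lf 0 12578 0) (P.cons (P.lf 0 3827 0) P.nil)) (P.cons (P.cons (P.lf 0 4484 0) P.nil) P.nil)))))) 23256)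
 (EL.cons 8 (TM.mk (P.cons (P.cons (P.lf 134021094 0 0) (P.cons (P.lf 0 3697928 0) (P.cons (P.lf 1620096 0 0) (P.cons (P.lf 155176 0 0) (P.cons (P.lf 2298 0 0) (P.cons (P.lf 1053 0 0) P.nil)))))) (P.cons (P.cons (P.lf 23007544 0 0) (P.cons (P.lf 986435 0 0) (P.cons (P.lf 0 443349 0) (P.cons (P.lf 0 31748 0) (P.cons (P.lf 0 1620 0) P.nil))))) (P.cons (P.cons (P.lf 0 3060745 0) (P.cons (P.lf 0 3131 0) (P.cons (P.lf 6878 0 0) (P.cons (P.lf 0 4618 0) P.nil)))) (P.cons (P.cons (P.lf 0 316498 0) (P.cons (P.lf 0 25484 0) (P.cons (P.lf 10030 0 0) P.nil))) (P.cons (P.cons (P.lf 38958 0 0) (P.cons (P.lf 3402 0 0) P.nil)) (P.cons (P.cons (P.lf 0 368 0) P.nil) P.nil)))))) 7813)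
 EL.nil))
noncomputable def S401_415_660_808_15 : EL := (EL.cons 4 (TM.mk (P.cons (P.lf 0 2735690989 0) (P.cons (P.lf 0 97825245 0) (P.cons (P.lf 5430939 0 0) (P.cons (P.lf 0 1442 0) (P.cons (P.lf 0 6545 0) (P.cons (P.lf 214 0 0) P.nil)))))) 130)
 (EL.cons 8 (TM.mk (P.cons (P.lf 687222375 0 0) (P.cons (P.lf 0 56943462 0) (P.cons (P.lf 0 1673470 0) (P.cons (P.lf 135369 0 0) (P.cons (P.lf 0 2335 0) (P.cons (P.lf 0 67 0) P.nil)))))) 63)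
 EL.nil))
noncomputable def S401_415_660_808_16 : EL := (EL.cons 4 (TM.mk (P.cons (P.cons (P.lf 0 1096829065 0) (P.cons (P.lf 15131929 0 0) (P.cons (P.lf 0 6525057 0) (P.lf 0 725004 0)))) (P.cons (P.cons (P.lf 0 188615431 0) (P.cons (P.lf 0 4032058 0) (P.cons (P.lf 1738668 0 0) (P.lf 193183 0 0)))) (P.cons (P.cons (P.lf 4768421 0 0) (P.cons (P.lf 290662 0 0) (P.cons (P.lf 0 125335 0) (P.lf 0 13925 0)))) (P.cons (P.cons (P.lf 673788 0 0) (P.cons (P.lf 8493 0 0) (P.cons (P.lf 0 3664 0) P.nil))) (P.cons (P.cons (P.lf 0 32525 0) (P.cons (P.lf 0 1858 0) P.nil)) (P.cons (P.cons (P.lf 0 621 0) P.nil) P.nil)))))) 3830)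
 (EL.cons 8 (TM.mk (P.cons (P.cons (P.lf 275530196 0 0) (P.cons (P.lf 0 3801233 0) (P.cons (P.lf 1639134 0 0) (P.lf 182125 0 0)))) (P.cons (P.cons (P.lf 14698184 0 0) (P.cons (P.lf 1463777 0 0) (P.cons (P.lf 0 631197 0) (P.lf 0 70132 0)))) (P.cons (P.cons (P.lf 0 5773443 0) (P.cons (P.lf 0 207576 0) (P.cons (P.lf 89508 0 0) (P.lf 9945 0 0)))) (P.cons (P.cons (P.lf 104375 0 0) (P.cons (P.lf 11031 0 0) (P.cons (P.lf 0 4756 0) P.nil))) (P.cons (P.cons (P.lf 17648 0 0) (P.cons (P.lf 235 0 0) P.nil)) (P.cons (P.cons (P.lf 0 966 0) P.nil) P.nil)))))) 1464)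
 EL.nil))
noncomputable def S401_415_660_808_17 : EL := (EL.cons 4 (TM.mk (P.cons (P.cons (P.lf 0 439755075 0) (P.cons (P.lf 12133782 0 0) (P.cons (P.lf 0 5315922 0) (P.cons (P.lf 0 509172 0) (P.cons (P.lf 0 7542 0) (P.cons (P.lf 0 3457 0) P.nil)))))) (P.cons (P.cons (P.lf 0 135519190 0) (P.cons (P.lf 0 1580484 0) (P.cons (P.lf 729120 0 0) (P.cons (P.lf 34673 0 0) (P.cons (P.lf 4288 0 0) P.nil))))) (P.cons (P.cons (P.lf 0 5207670 0) (P.cons (P.lf 0 295063 0) (P.cons (P.lf 116208 0 0) (P.cons (P.lf 23646 0 0) P.nil)))) (P.cons (P.cons (P.lf 1115235 0 0) (P.cons (P.lf 60900 0 0) (P.cons (P.lf 0 25010 0) P.nil))) (P.cons (P.cons (P.lf 9422 0 0) (P.cons (P.lf 0 1776 0) P.nil)) (P.cons (P.cons (P.lf 0 5162 0) P.nil) P.nil)))))) 20822)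
 (EL.cons 8 (TM.mk (P.cons (P.cons (P.lf 110469175 0 0) (P.cons (P.lf 0 3048080 0) (P.cons (P.lf 1335392 0 0) (P.cons (P.lf 127907 0 0) (P.cons (P.lf 1894 0 0) (P.cons (P.lf 868 0 0) P.nil)))))) (P.cons (P.cons (P.lf 20939488 0 0) (P.cons (P.lf 758588 0 0) (P.cons (P.lf 0 341562 0) (P.cons (P.lf 0 23882 0) (P.cons (P.lf 0 1302 0) P.nil))))) (P.cons (P.cons (P.lf 0 2311108 0) (P.cons (P.lf 15468 0 0) (P.cons (P.lf 0 2402 0) (P.cons (P.lf 0 4421 0) P.nil)))) (P.cons (P.cons (P.lf 0 325537 0) (P.cons (P.lf 0 22052 0) (P.cons (P.lf 8817 0 0) P.nil))) (P.cons (P.cons (P.lf 30768 0 0) (P.cons (P.lf 2448 0 0) P.nil)) (P.cons (P.cons (P.lf 519 0 0) P.nil) P.nil)))))) 6994)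
 EL.nil))
noncomputable def S401_415_660_808_18 : EL := (EL.cons 4 (TM.mk (P.cons (P.lf 0 2254940003 0) (P.cons (P.lf 0 120951193 0) (P.cons (P.lf 5633546 0 0) (P.cons (P.lf 124716 0 0) (P.cons (P.lf 0 12616 0) (P.cons (P.lf 202 0 0) P.nil)))))) 176)
 (EL.cons 8 (TM.mk (P.cons (P.lf 566454775 0 0) (P.cons (P.lf 0 36808726 0) (P.cons (P.lf 0 2871395 0) (P.cons (P.lf 152830 0 0) (P.cons (P.lf 769 0 0) (P.cons (P.lf 0 264 0) P.nil)))))) 73)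
 EL.nil))
noncomputable def S401_415_660_808_19 : EL := (EL.cons 4 (TM.mk (P.cons (P.cons (P.lf 0 904080082 0) (P.cons (P.lf 12472751 0 0) (P.cons (P.lf 0 5378389 0) (P.lf 0 597597 0)))) (P.cons (P.cons (P.lf 0 171633935 0) (P.cons (P.lf 0 3100486 0) (P.cons (P.lf 1336965 0 0) (P.lf 148549 0 0)))) (P.cons (P.cons (P.lf 2192647 0 0) (P.cons (P.lf 165787 0 0) (P.cons (P.lf 0 71488 0) (P.lf 0 7942 0)))) (P.cons (P.cons (P.lf 785958 0 0) (P.cons (P.lf 15375 0 0) (P.cons (P.lf 0 6631 0) P.nil))) (P.cons (P.cons (P.lf 0 24797 0) (P.cons (P.lf 0 1749 0) P.nil)) (P.cons (P.cons (P.lf 0 1558 0) P.nil) P.nil)))))) 4126)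
 (EL.cons 8 (TM.mk (P.cons (P.cons (P.lf 227110468 0 0) (P.cons (P.lf 0 3133231 0) (P.cons (P.lf 1351084 0 0) (P.lf 150120 0 0)))) (P.cons (P.cons (P.lf 16175837 0 0) (P.cons (P.lf 1150522 0 0) (P.cons (P.lf 0 496118 0) (P.lf 0 55123 0)))) (P.cons (P.cons (P.lf 0 4803978 0) (P.cons (P.lf 0 145915 0) (P.cons (P.lf 62919 0 0) (P.lf 6990 0 0)))) (P.cons (P.cons (P.lf 0 8275 0) (P.cons (P.lf 4578 0 0) (P.cons (P.lf 0 1973 0) P.nil))) (P.cons (P.cons (P.lf 21858 0 0) (P.cons (P.lf 578 0 0) P.nil)) (P.cons (P.cons (P.lf 0 737 0) P.nil) P.nil)))))) 1409)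
 EL.nil))
noncomputable def S401_415_660_808_20 : EL := (EL.cons 4 (TM.mk (P.cons (P.cons (P.lf 0 362475628 0) (P.cons (P.lf 10001476 0 0) (P.cons (P.lf 0 4381739 0) (P.cons (P.lf 0 419693 0) (P.cons (P.lf 0 6216 0) (P.cons (P.lf 0 2850 0) P.nil)))))) (P.cons (P.cons (P.lf 0 118184866 0) (P.cons (P.lf 0 1123920 0) (P.cons (P.lf 522646 0 0) (P.cons (P.lf 21075 0 0) (P.cons (P.lf 3423 0 0) P.nil))))) (P.cons (P.cons (P.lf 0 5871983 0) (P.cons (P.lf 0 278028 0) (P.cons (P.lf 111582 0 0) (P.cons (P.lf 20485 0 0) P.nil)))) (P.cons (P.cons (P.lf 963671 0 0) (P.cons (P.lf 47559 0 0) (P.cons (P.lf 0 19686 0) P.nil))) (P.cons (P.cons (P.lf 26760 0 0) (P.cons (P.lf 0 312 0) P.nil)) (P.cons (P.cons (P.lf 0 5276 0) P.nil) P.nil)))))) 18631)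
 (EL.cons 8 (TM.mk (P.cons (P.cons (P.lf 91056103 0 0) (P.cons (P.lf 0 2512432 0) (P.cons (P.lf 1100719 0 0) (P.cons (P.lf 105429 0 0) (P.cons (P.lf 1561 0 0) (P.cons (P.lf 715 0 0) P.nil)))))) (P.cons (P.cons (P.lf 18887762 0 0) (P.cons (P.lf 580358 0 0) (P.cons (P.lf 0 261858 0) (P.cons (P.lf 0 17800 0) (P.cons (P.lf 0 1045 0) P.nil))))) (P.cons (P.cons (P.lf 0 1701313 0) (P.cons (P.lf 26825 0 0) (P.cons (P.lf 0 8282 0) (P.cons (P.lf 0 4118 0) P.nil)))) (P.cons (P.cons (P.lf 0 320379 0) (P.cons (P.lf 0 18722 0) (P.cons (P.lf 7580 0 0) P.nil))) (P.cons (P.cons (P.lf 23134 0 0) (P.cons (P.lf 1690 0 0) P.nil)) (P.cons (P.cons (P.lf 1152 0 0) P.nil) P.nil)))))) 6161)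
 EL.nil))
noncomputable def S401_415_660_808_21 : EL := (EL.cons 4 (TM.mk (P.cons (P.cons (P.lf 0 1799138046 0) (P.cons (P.lf 0 55074123 0) (P.cons (P.lf 23748579 0 0) (P.lf 2638722 0 0)))) (P.cons (P.cons (P.lf 321633423 0 0) (P.cons (P.lf 15659763 0 0) (P.cons (P.lf 0 6752664 0) (P.lf 0 750285 0)))) (P.cons (P.cons (P.lf 0 7459539 0) (P.cons (P.lf 0 1401351 0) (P.cons (P.lf 604272 0 0) (P.lf 67140 0 0)))) (P.cons (P.cons (P.lf 0 1406400 0) (P.cons (P.lf 13335 0 0) (P.cons (P.lf 0 5739 0) P.nil))) (P.cons (P.cons (P.lf 82965 0 0) (P.cons (P.lf 4590 0 0) P.nil)) (P.cons (P.cons (P.lf 0 69 0) P.nil) P.nil)))))) 10530)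
 (EL.cons 8 (TM.mk (P.cons (P.cons (P.lf 0 2546488413 0) (P.cons (P.lf 0 77951583 0) (P.cons (P.lf 33613602 0 0) (P.lf 3734847 0 0)))) (P.cons (P.cons (P.lf 153175500 0 0) (P.cons (P.lf 12918186 0 0) (P.cons (P.lf 0 5570469 0) (P.lf 0 618942 0)))) (P.cons (P.cons (P.lf 17267094 0 0) (P.cons (P.lf 0 155562 0) (P.cons (P.lf 67080 0 0) (P.lf 7452 0 0)))) (P.cons (P.cons (P.lf 0 967872 0) (P.cons (P.lf 0 62166 0) (P.cons (P.lf 26805 0 0) P.nil))) (P.cons (P.cons (P.lf 0 15594 0) (P.cons (P.lf 2610 0 0) P.nil)) (P.cons (P.cons (P.lf 2535 0 0) P.nil) P.nil)))))) 5970)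
 (EL.cons 11 (TM.mk (P.cons (P.cons (P.lf 191788839 0 0) (P.cons (P.lf 0 178669044 0) (P.cons (P.lf 0 18337254 0) (P.cons (P.lf 3813639 0 0) (P.lf 317802 0 0))))) (P.cons (P.cons (P.lf 0 38641521 0) (P.cons (P.lf 35998149 0 0) (P.cons (P.lf 3694581 0 0) (P.cons (P.lf 0 768369 0) (P.lf 0 64029 0))))) (P.cons (P.cons (P.lf 2145249 0 0) (P.cons (P.lf 0 1998498 0) (P.cons (P.lf 0 205110 0) (P.cons (P.lf 42657 0 0) P.nil)))) (P.cons (P.cons (P.lf 0 570 0) (P.cons (P.lf 531 0 0) (P.cons (P.lf 54 0 0) P.nil))) (P.cons (P.cons (P.lf 0 2583 0) (P.cons (P.lf 2406 0 0) P.nil)) (P.cons (P.cons (P.lf 84 0 0) P.nil) P.nil)))))) 4119)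
 EL.nil)))
noncomputable def S401_415_660_808_22 : EL := (EL.cons 4 (TM.mk (P.cons (P.cons (P.lf 0 721333989 0) (P.cons (P.lf 0 12129465 0) (P.cons (P.lf 5534991 0 0) (P.cons (P.lf 318426 0 0) (P.cons (P.lf 27450 0 0) (P.cons (P.lf 12585 0 0) P.nil)))))) (P.cons (P.cons (P.lf 30703890 0 0) (P.cons (P.lf 0 1515645 0) (P.cons (P.lf 474879 0 0) (P.cons (P.lf 226722 0 0) (P.cons (P.lf 0 16101 0) P.nil))))) (P.cons (P.cons (P.lf 19790646 0 0) (P.cons (P.lf 1350408 0 0) (P.cons (P.lf 0 538635 0) (P.cons (P.lf 0 102369 0) P.nil)))) (P.cons (P.cons (P.lf 0 1842036 0) (P.cons (P.lf 0 188094 0) (P.cons (P.lf 75561 0 0) P.nil))) (P.cons (P.cons (P.lf 0 44439 0) (P.cons (P.lf 6165 0 0) P.nil)) (P.cons (P.cons (P.lf 11187 0 0) P.nil) P.nil)))))) 53283)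
 (EL.cons 8 (TM.mk (P.cons (P.cons (P.lf 0 1020971490 0) (P.cons (P.lf 0 17167974 0) (P.cons (P.lf 7834197 0 0) (P.cons (P.lf 450705 0 0) (P.cons (P.lf 38856 0 0) (P.cons (P.lf 17814 0 0) P.nil)))))) (P.cons (P.cons (P.lf 0 77648712 0) (P.cons (P.lf 0 4181685 0) (P.cons (P.lf 1601424 0 0) (P.cons (P.lf 374355 0 0) (P.cons (P.lf 0 18180 0) P.nil))))) (P.cons (P.cons (P.lf 22672227 0 0) (P.cons (P.lf 1480422 0 0) (P.cons (P.lf 0 602121 0) (P.cons (P.lf 0 102195 0) P.nil)))) (P.cons (P.cons (P.lf 198300 0 0) (P.cons (P.lf 0 77763 0) (P.cons (P.lf 30816 0 0) P.nil))) (P.cons (P.cons (P.lf 0 130680 0) (P.cons (P.lf 0 6693 0) P.nil)) (P.cons (P.cons (P.lf 3777 0 0) P.nil) P.nil)))))) 42078)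
 (EL.cons 11 (TM.mk (P.cons (P.cons (P.lf 76894491 0 0) (P.cons (P.lf 0 72695175 0) (P.cons (P.lf 0 5906292 0) (P.cons (P.lf 1255116 0 0) (P.cons (P.lf 15234 0 0) (P.cons (P.lf 2478 0 0) P.nil)))))) (P.cons (P.cons (P.lf 0 5019216 0) (P.cons (P.lf 5210208 0 0) (P.cons (P.lf 0 248310 0) (P.cons (P.lf 38157 0 0) (P.cons (P.lf 48189 0 0) P.nil))))) (P.cons (P.cons (P.lf 0 1806243 0) (P.cons (P.lf 1572273 0 0) (P.cons (P.lf 323163 0 0) (P.cons (P.lf 0 64422 0) P.nil)))) (P.cons (P.cons (P.lf 222378 0 0) (P.cons (P.lf 0 195480 0) (P.cons (P.lf 0 37185 0) P.nil))) (P.cons (P.cons (P.lf 0 4734 0) (P.cons (P.lf 3810 0 0) P.nil)) (P.cons (P.cons (P.lf 0 456 0) P.nil) P.nil)))))) 46362)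
 EL.nil)))
noncomputable def S401_415_660_808_23 : EL := (EL.cons 4 (TM.mk (P.cons (P.cons (P.lf 0 1482970248 0) (P.cons (P.lf 0 45395784 0) (P.cons (P.lf 19575171 0 0) (P.lf 2175009 0 0)))) (P.cons (P.cons (P.lf 238597161 0 0) (P.cons (P.lf 12096174 0 0) (P.cons (P.lf 0 5216004 0) (P.lf 0 579546 0)))) (P.cons (P.cons (P.lf 300441 0 0) (P.cons (P.lf 0 871986 0) (P.cons (P.lf 376005 0 0) (P.lf 41775 0 0)))) (P.cons (P.cons (P.lf 0 1605657 0) (P.cons (P.lf 0 25482 0) (P.cons (P.lf 10995 0 0) P.nil))) (P.cons (P.cons (P.lf 60039 0 0) (P.cons (P.lf 5571 0 0) P.nil)) (P.cons (P.cons (P.lf 2442 0 0) P.nil) P.nil)))))) 11784)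
 (EL.cons 8 (TM.mk (P.cons (P.cons (P.lf 0 2098986549 0) (P.cons (P.lf 0 64252923 0) (P.cons (P.lf 27706584 0 0) (P.lf 3078510 0 0)))) (P.cons (P.cons (P.lf 88728816 0 0) (P.cons (P.lf 9499227 0 0) (P.cons (P.lf 0 4096173 0) (P.lf 0 455130 0)))) (P.cons (P.cons (P.lf 18909078 0 0) (P.cons (P.lf 136203 0 0) (P.cons (P.lf 0 58731 0) (P.lf 0 6525 0)))) (P.cons (P.cons (P.lf 0 732618 0) (P.cons (P.lf 0 67146 0) (P.cons (P.lf 28950 0 0) P.nil))) (P.cons (P.cons (P.lf 0 41217 0) (P.cons (P.lf 1593 0 0) P.nil)) (P.cons (P.cons (P.lf 3132 0 0) P.nil) P.nil)))))) 6669)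
 (EL.cons 11 (TM.mk (P.cons (P.cons (P.lf 158085222 0 0) (P.cons (P.lf 0 147271008 0) (P.cons (P.lf 0 15114792 0) (P.cons (P.lf 3143457 0 0) (P.lf 261951 0 0))))) (P.cons (P.cons (P.lf 0 29024457 0) (P.cons (P.lf 27038964 0 0) (P.cons (P.lf 2775075 0 0) (P.cons (P.lf 0 577137 0) (P.lf 0 48093 0))))) (P.cons (P.cons (P.lf 1016595 0 0) (P.cons (P.lf 0 947052 0) (P.cons (P.lf 0 97197 0) (P.cons (P.lf 20214 0 0) P.nil)))) (P.cons (P.cons (P.lf 71151 0 0) (P.cons (P.lf 0 66282 0) (P.cons (P.lf 0 6801 0) P.nil))) (P.cons (P.cons (P.lf 0 4812 0) (P.cons (P.lf 4485 0 0) P.nil)) (P.cons (P.cons (P.lf 60 0 0) P.nil) P.nil)))))) 6672)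
 EL.nil)))
noncomputable def S401_415_660_808_24 : EL := (EL.cons 4 (TM.mk (P.cons (P.cons (P.lf 0 594571857 0) (P.cons (P.lf 0 9997917 0) (P.cons (P.lf 4562310 0 0) (P.cons (P.lf 262467 0 0) (P.cons (P.lf 22626 0 0) (P.cons (P.lf 10374 0 0) P.nil)))))) (P.cons (P.cons (P.lf 14677593 0 0) (P.cons (P.lf 0 1428054 0) (P.cons (P.lf 472998 0 0) (P.cons (P.lf 191571 0 0) (P.cons (P.lf 0 12867 0) P.nil))))) (P.cons (P.cons (P.lf 17450487 0 0) (P.cons (P.lf 1102284 0 0) (P.cons (P.lf 0 442239 0) (P.cons (P.lf 0 81339 0) P.nil)))) (P.cons (P.cons (P.lf 0 1268238 0) (P.cons (P.lf 0 133908 0) (P.cons (P.lf 53988 0 0) P.nil))) (P.cons (P.cons (P.lf 0 82143 0) (P.cons (P.lf 999 0 0) P.nil)) (P.cons (P.cons (P.lf 10671 0 0) P.nil) P.nil)))))) 42432)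
 (EL.cons 8 (TM.mk (P.cons (P.cons (P.lf 0 841553181 0) (P.cons (P.lf 0 14150997 0) (P.cons (P.lf 6457470 0 0) (P.cons (P.lf 371502 0 0) (P.cons (P.lf 32028 0 0) (P.cons (P.lf 14685 0 0) P.nil)))))) (P.cons (P.cons (P.lf 0 79049775 0) (P.cons (P.lf 0 3699837 0) (P.cons (P.lf 1435458 0 0) (P.cons (P.lf 315210 0 0) (P.cons (P.lf 0 14412 0) P.nil))))) (P.cons (P.cons (P.lf 18513471 0 0) (P.cons (P.lf 1174944 0 0) (P.cons (P.lf 0 480147 0) (P.cons (P.lf 0 79146 0) P.nil)))) (P.cons (P.cons (P.lf 553782 0 0) (P.cons (P.lf 0 38601 0) (P.cons (P.lf 15138 0 0) P.nil))) (P.cons (P.cons (P.lf 0 127800 0) (P.cons (P.lf 0 8142 0) P.nil)) (P.cons (P.cons (P.lf 1392 0 0) P.nil) P.nil)))))) 33642)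
 (EL.cons 11 (TM.mk (P.cons (P.cons (P.lf 63381597 0 0) (P.cons (P.lf 0 59920239 0) (P.cons (P.lf 0 4868361 0) (P.cons (P.lf 1034550 0 0) (P.cons (P.lf 12558 0 0) (P.cons (P.lf 2043 0 0) P.nil)))))) (P.cons (P.cons (P.lf 0 3003948 0) (P.cons (P.lf 3223263 0 0) (P.cons (P.lf 0 291717 0) (P.cons (P.lf 49947 0 0) (P.cons (P.lf 39945 0 0) P.nil))))) (P.cons (P.cons (P.lf 0 1635843 0) (P.cons (P.lf 1441812 0 0) (P.cons (P.lf 268323 0 0) (P.cons (P.lf 0 53730 0) P.nil)))) (P.cons (P.cons (P.lf 162771 0 0) (P.cons (P.lf 0 144156 0) (P.cons (P.lf 0 25752 0) P.nil))) (P.cons (P.cons (P.lf 1011 0 0) (P.cons (P.lf 0 1149 0) P.nil)) (P.cons (P.cons (P.lf 0 690 0) P.nil) P.nil)))))) 36540)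
 EL.nil)))
noncomputable def S401_415_660_808_25 : EL := (EL.cons 4 (TM.mk (P.cons (P.cons (P.lf 0 1222363545 0) (P.cons (P.lf 0 37418250 0) (P.cons (P.lf 16135167 0 0) (P.lf 1792788 0 0)))) (P.cons (P.cons (P.lf 174812607 0 0) (P.cons (P.lf 9301461 0 0) (P.cons (P.lf 0 4010892 0) (P.lf 0 445647 0)))) (P.cons (P.cons (P.lf 5172660 0 0) (P.cons (P.lf 0 497358 0) (P.cons (P.lf 214461 0 0) (P.lf 23826 0 0)))) (P.cons (P.cons (P.lf 0 1571220 0) (P.cons (P.lf 0 46125 0) (P.cons (P.lf 19896 0 0) P.nil))) (P.cons (P.cons (P.lf 29448 0 0) (P.cons (P.lf 5247 0 0) P.nil)) (P.cons (P.cons (P.lf 4479 0 0) P.nil) P.nil)))))) 11622)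
 (EL.cons 8 (TM.mk (P.cons (P.cons (P.lf 0 1730125497 0) (P.cons (P.lf 0 52961568 0) (P.cons (P.lf 22837623 0 0) (P.lf 2537514 0 0)))) (P.cons (P.cons (P.lf 42202566 0 0) (P.cons (P.lf 6882978 0 0) (P.cons (P.lf 0 2968017 0) (P.lf 0 329778 0)))) (P.cons (P.cons (P.lf 18887640 0 0) (P.cons (P.lf 313296 0 0) (P.cons (P.lf 0 135096 0) (P.lf 0 15009 0)))) (P.cons (P.cons (P.lf 0 445593 0) (P.cons (P.lf 0 63465 0) (P.cons (P.lf 27366 0 0) P.nil))) (P.cons (P.cons (P.lf 0 61482 0) (P.cons (P.lf 348 0 0) P.nil)) (P.cons (P.cons (P.lf 3039 0 0) P.nil) P.nil)))))) 6534)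
 (EL.cons 11 (TM.mk (P.cons (P.cons (P.lf 130304445 0 0) (P.cons (P.lf 0 121390644 0) (P.cons (P.lf 0 12458625 0) (P.cons (P.lf 2591046 0 0) (P.lf 215919 0 0))))) (P.cons (P.cons (P.lf 0 21594132 0) (P.cons (P.lf 20116932 0 0) (P.cons (P.lf 2064651 0 0) (P.cons (P.lf 0 429387 0) (P.lf 0 35781 0))))) (P.cons (P.cons (P.lf 260031 0 0) (P.cons (P.lf 0 242244 0) (P.cons (P.lf 0 24861 0) (P.cons (P.lf 5169 0 0) P.nil)))) (P.cons (P.cons (P.lf 103917 0 0) (P.cons (P.lf 0 96810 0) (P.cons (P.lf 0 9936 0) P.nil))) (P.cons (P.cons (P.lf 0 4362 0) (P.cons (P.lf 4065 0 0) P.nil)) (P.cons (P.cons (P.lf 0 75 0) P.nil) P.nil)))))) 7656)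
 EL.nil)))
noncomputable def S401_415_660_808_26 : EL := (EL.cons 4 (TM.mk (P.cons (P.cons (P.lf 0 490086003 0) (P.cons (P.lf 0 8240955 0) (P.cons (P.lf 3760563 0 0) (P.cons (P.lf 216345 0 0) (P.cons (P.lf 18651 0 0) (P.cons (P.lf 8550 0 0) P.nil)))))) (P.cons (P.cons (P.lf 3335793 0 0) (P.cons (P.lf 0 1324440 0) (P.cons (P.lf 457113 0 0) (P.cons (P.lf 161772 0 0) (P.cons (P.lf 0 10272 0) P.nil))))) (P.cons (P.cons (P.lf 15164970 0 0) (P.cons (P.lf 897027 0 0) (P.cons (P.lf 0 361884 0) (P.cons (P.lf 0 64470 0) P.nil)))) (P.cons (P.cons (P.lf 0 812361 0) (P.cons (P.lf 0 92946 0) (P.cons (P.lf 37611 0 0) P.nil))) (P.cons (P.cons (P.lf 0 102798 0) (P.cons (P.lf 0 2220 0) P.nil)) (P.cons (P.cons (P.lf 9099 0 0) P.nil) P.nil)))))) 34653)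
 (EL.cons 8 (TM.mk (P.cons (P.cons (P.lf 0 693664575 0) (P.cons (P.lf 0 11664201 0) (P.cons (P.lf 5322681 0 0) (P.cons (P.lf 306216 0 0) (P.cons (P.lf 26397 0 0) (P.cons (P.lf 12102 0 0) P.nil)))))) (P.cons (P.cons (P.lf 0 77560461 0) (P.cons (P.lf 0 3258201 0) (P.cons (P.lf 1278366 0 0) (P.cons (P.lf 265293 0 0) (P.cons (P.lf 0 11409 0) P.nil))))) (P.cons (P.cons (P.lf 14894466 0 0) (P.cons (P.lf 927384 0 0) (P.cons (P.lf 0 380748 0) (P.cons (P.lf 0 60945 0) P.nil)))) (P.cons (P.cons (P.lf 789918 0 0) (P.cons (P.lf 0 11232 0) (P.cons (P.lf 4149 0 0) P.nil))) (P.cons (P.cons (P.lf 0 116235 0) (P.cons (P.lf 0 8463 0) P.nil)) (P.cons (P.cons (P.lf 0 936 0) P.nil) P.nil)))))) 27561)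
 (EL.cons 11 (TM.mk (P.cons (P.cons (P.lf 52243365 0 0) (P.cons (P.lf 0 49390278 0) (P.cons (P.lf 0 4012830 0) (P.cons (P.lf 852744 0 0) (P.cons (P.lf 10350 0 0) (P.cons (P.lf 1683 0 0) P.nil)))))) (P.cons (P.cons (P.lf 0 1541973 0) (P.cons (P.lf 1773759 0 0) (P.cons (P.lf 0 312198 0) (P.cons (P.lf 56418 0 0) (P.cons (P.lf 33108 0 0) P.nil))))) (P.cons (P.cons (P.lf 0 1452849 0) (P.cons (P.lf 1292862 0 0) (P.cons (P.lf 221496 0 0) (P.cons (P.lf 0 44535 0) P.nil)))) (P.cons (P.cons (P.lf 114000 0 0) (P.cons (P.lf 0 101667 0) (P.cons (P.lf 0 17079 0) P.nil))) (P.cons (P.cons (P.lf 4743 0 0) (P.cons (P.lf 0 4395 0) P.nil)) (P.cons (P.cons (P.lf 0 738 0) P.nil) P.nil)))))) 29460)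
 EL.nil)))
noncomputable def S401_415_660_808_27 : EL := (EL.cons 13 (TM.mk (P.lf 0 4294967296 0) 0)
 EL.nil)
noncomputable def S401_415_660_808_28 : EL := (EL.cons 13 (TM.mk (P.cons (P.cons (P.lf 0 1721994547 0) (P.cons (P.lf 23756756 0 0) (P.cons (P.lf 0 10244180 0) (P.lf 0 1138240 0)))) (P.cons (P.cons (P.lf 0 234544975 0) (P.cons (P.lf 0 7179748 0) (P.cons (P.lf 3095988 0 0) (P.lf 343996 0 0)))) (P.cons (P.cons (P.lf 12454837 0 0) (P.cons (P.lf 760236 0 0) (P.cons (P.lf 0 327820 0) (P.lf 0 36424 0)))) (P.cons (P.cons (P.lf 147747 0 0) (P.cons (P.lf 0 28116 0) (P.cons (P.lf 12120 0 0) P.nil))) (P.cons (P.cons (P.lf 0 27379 0) (P.cons (P.lf 0 456 0) P.nil)) (P.cons (P.cons (P.lf 715 0 0) P.nil) P.nil)))))) 2345)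
 EL.nil)
noncomputable def S401_415_660_808_29 : EL := (EL.cons 13 (TM.mk (P.cons (P.cons (P.lf 0 690404609 0) (P.cons (P.lf 19049739 0 0) (P.cons (P.lf 0 8345867 0) (P.cons (P.lf 0 799388 0) (P.cons (P.lf 0 11842 0) (P.cons (P.lf 0 5429 0) P.nil)))))) (P.cons (P.cons (P.lf 0 188073687 0) (P.cons (P.lf 0 3162519 0) (P.cons (P.lf 1443140 0 0) (P.cons (P.lf 83022 0 0) (P.cons (P.lf 7157 0 0) P.nil))))) (P.cons (P.cons (P.lf 0 2821214 0) (P.cons (P.lf 0 312336 0) (P.cons (P.lf 114272 0 0) (P.cons (P.lf 32569 0 0) P.nil)))) (P.cons (P.cons (P.lf 1478772 0 0) (P.cons (P.lf 100492 0 0) (P.cons (P.lf 0 40483 0) P.nil))) (P.cons (P.cons (P.lf 0 41934 0) (P.cons (P.lf 0 7048 0) P.nil)) (P.cons (P.cons (P.lf 0 3273 0) P.nil) P.nil)))))) 27172)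
 EL.nil)
noncomputable def S401_415_660_808_30 : EL := (EL.cons 13 (TM.mk (P.cons (P.lf 0 3540200120 0) (P.cons (P.lf 0 63296796 0) (P.cons (P.lf 4079888 0 0) (P.cons (P.lf 0 73880 0) (P.cons (P.lf 0 564 0) (P.cons (P.lf 64 0 0) P.nil)))))) 72)
 EL.nil)
noncomputable def S401_415_660_808_31 : EL := (EL.cons 13 (TM.mk (P.cons (P.cons (P.lf 0 1419383404 0) (P.cons (P.lf 19581911 0 0) (P.cons (P.lf 0 8443940 0) (P.lf 0 938213 0)))) (P.cons (P.cons (P.lf 0 218705480 0) (P.cons (P.lf 0 5567916 0) (P.cons (P.lf 2400948 0 0) (P.lf 266769 0 0)))) (P.cons (P.cons (P.lf 8445283 0 0) (P.cons (P.lf 498259 0 0) (P.cons (P.lf 0 214853 0) (P.lf 0 23872 0)))) (P.cons (P.cons (P.lf 498514 0 0) (P.cons (P.lf 0 4742 0) (P.cons (P.lf 2041 0 0) P.nil))) (P.cons (P.cons (P.lf 0 36481 0) (P.cons (P.lf 0 1632 0) P.nil)) (P.cons (P.cons (P.lf 254 0 0) P.nil) P.nil)))))) 3604)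
 EL.nil)
noncomputable def S401_415_660_808_32 : EL := (EL.cons 13 (TM.mk (P.cons (P.cons (P.lf 0 569077785 0) (P.cons (P.lf 15702072 0 0) (P.cons (P.lf 0 6879223 0) (P.cons (P.lf 0 658909 0) (P.cons (P.lf 0 9760 0) (P.cons (P.lf 0 4474 0) P.nil)))))) (P.cons (P.cons (P.lf 0 165197739 0) (P.cons (P.lf 0 2326016 0) (P.cons (P.lf 1066536 0 0) (P.cons (P.lf 56651 0 0) (P.cons (P.lf 5724 0 0) P.nil))))) (P.cons (P.cons (P.lf 0 4441326 0) (P.cons (P.lf 0 322151 0) (P.cons (P.lf 123386 0 0) (P.cons (P.lf 28828 0 0) P.nil)))) (P.cons (P.cons (P.lf 1344105 0 0) (P.cons (P.lf 81561 0 0) (P.cons (P.lf 0 33199 0) P.nil))) (P.cons (P.cons (P.lf 0 13417 0) (P.cons (P.lf 0 4083 0) P.nil)) (P.cons (P.cons (P.lf 0 4783 0) P.nil) P.nil)))))) 24783)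
 EL.nil)
noncomputable def S401_415_660_808_33 : EL := (EL.cons 14 (TM.mk (P.lf 8589934592 0 0) 0)
 EL.nil)
noncomputable def S401_415_660_808_34 : EL := (EL.cons 14 (TM.mk (P.cons (P.cons (P.lf 3443989094 0 0) (P.cons (P.lf 0 47513512 0) (P.cons (P.lf 20488360 0 0) (P.lf 2276480 0 0)))) (P.cons (P.cons (P.lf 469089950 0 0) (P.cons (P.lf 14359496 0 0) (P.cons (P.lf 0 6191976 0) (P.lf 0 687992 0)))) (P.cons (P.cons (P.lf 0 24909674 0) (P.cons (P.lf 0 1520472 0) (P.cons (P.lf 655640 0 0) (P.lf 72848 0 0)))) (P.cons (P.cons (P.lf 0 295494 0) (P.cons (P.lf 56232 0 0) (P.cons (P.lf 0 24240 0) P.nil))) (P.cons (P.cons (P.lf 54758 0 0) (P.cons (P.lf 912 0 0) P.nil)) (P.cons (P.cons (P.lf 0 1430 0) P.nil) P.nil)))))) 4690)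
 EL.nil)
noncomputable def S401_415_660_808_35 : EL := (EL.cons 14 (TM.mk (P.cons (P.cons (P.lf 1380809218 0 0) (P.cons (P.lf 0 38099478 0) (P.cons (P.lf 16691734 0 0) (P.cons (P.lf 1598776 0 0) (P.cons (P.lf 23684 0 0) (P.cons (P.lf 10858 0 0) P.nil)))))) (P.cons (P.cons (P.lf 376147374 0 0) (P.cons (P.lf 6325038 0 0) (P.cons (P.lf 0 2886280 0) (P.cons (P.lf 0 166044 0) (P.cons (P.lf 0 14314 0) P.nil))))) (P.cons (P.cons (P.lf 5642428 0 0) (P.cons (P.lf 624672 0 0) (P.cons (P.lf 0 228544 0) (P.cons (P.lf 0 65138 0) P.nil)))) (P.cons (P.cons (P.lf 0 2957544 0) (P.cons (P.lf 0 200984 0) (P.cons (P.lf 80966 0 0) P.nil))) (P.cons (P.cons (P.lf 83868 0 0) (P.cons (P.lf 14096 0 0) P.nil)) (P.cons (P.cons (P.lf 6546 0 0) P.nil) P.nil)))))) 54344)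
 EL.nil)
noncomputable def S401_415_660_808_36 : EL := (EL.cons 14 (TM.mk (P.cons (P.lf 7080400240 0 0) (P.cons (P.lf 126593592 0 0) (P.cons (P.lf 0 8159776 0) (P.cons (P.lf 147760 0 0) (P.cons (P.lf 1128 0 0) (P.cons (P.lf 0 128 0) P.nil)))))) 144)
 EL.nil)
noncomputable def S401_415_660_808_37 : EL := (EL.cons 14 (TM.mk (P.cons (P.cons (P.lf 2838766808 0 0) (P.cons (P.lf 0 39163822 0) (P.cons (P.lf 16887880 0 0) (P.lf 1876426 0 0)))) (P.cons (P.cons (P.lf 437410960 0 0) (P.cons (P.lf 11135832 0 0) (P.cons (P.lf 0 4801896 0) (P.lf 0 533538 0)))) (P.cons (P.cons (P.lf 0 16890566 0) (P.cons (P.lf 0 996518 0) (P.cons (P.lf 429706 0 0) (P.lf 47744 0 0)))) (P.cons (P.cons (P.lf 0 997028 0) (P.cons (P.lf 9484 0 0) (P.cons (P.lf 0 4082 0) P.nil))) (P.cons (P.cons (P.lf 72962 0 0) (P.cons (P.lf 3264 0 0) P.nil)) (P.cons (P.cons (P.lf 0 508 0) P.nil) P.nil)))))) 7208)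
 EL.nil)
noncomputable def S401_415_660_808_38 : EL := (EL.cons 14 (TM.mk (P.cons (P.cons (P.lf 1138155570 0 0) (P.cons (P.lf 0 31404144 0) (P.cons (P.lf 13758446 0 0) (P.cons (P.lf 1317818 0 0) (P.cons (P.lf 19520 0 0) (P.cons (P.lf 8948 0 0) P.nil)))))) (P.cons (P.cons (P.lf 330395478 0 0) (P.cons (P.lf 4652032 0 0) (P.cons (P.lf 0 2133072 0) (P.cons (P.lf 0 113302 0) (P.cons (P.lf 0 11448 0) P.nil))))) (P.cons (P.cons (P.lf 8882652 0 0) (P.cons (P.lf 644302 0 0) (P.cons (P.lf 0 246772 0) (P.cons (P.lf 0 57656 0) P.nil)))) (P.cons (P.cons (P.lf 0 2688210 0) (P.cons (P.lf 0 163122 0) (P.cons (P.lf 66398 0 0) P.nil))) (P.cons (P.cons (P.lf 26834 0 0) (P.cons (P.lf 8166 0 0) P.nil)) (P.cons (P.cons (P.lf 9566 0 0) P.nil) P.nil)))))) 49566)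
 EL.nil)
noncomputable def S401_415_660_808_39 : EL := (EL.cons 14 (TM.mk (P.cons (P.lf 5836140778 0 0) (P.cons (P.lf 208693858 0 0) (P.cons (P.lf 0 11586004 0) (P.cons (P.lf 3078 0 0) (P.cons (P.lf 13964 0 0) (P.cons (P.lf 0 458 0) P.nil)))))) 264)
 EL.nil)
noncomputable def S401_415_660_808_40 : EL := (EL.cons 14 (TM.mk (P.cons (P.cons (P.lf 2339902006 0 0) (P.cons (P.lf 0 32281450 0) (P.cons (P.lf 13920122 0 0) (P.lf 1546676 0 0)))) (P.cons (P.cons (P.lf 402379588 0 0) (P.cons (P.lf 8601724 0 0) (P.cons (P.lf 0 3709160 0) (P.lf 0 412124 0)))) (P.cons (P.cons (P.lf 0 10172632 0) (P.cons (P.lf 0 620080 0) (P.cons (P.lf 267382 0 0) (P.lf 29708 0 0)))) (P.cons (P.cons (P.lf 0 1437416 0) (P.cons (P.lf 0 18120 0) (P.cons (P.lf 7818 0 0) P.nil))) (P.cons (P.cons (P.lf 69388 0 0) (P.cons (P.lf 3964 0 0) P.nil)) (P.cons (P.cons (P.lf 1326 0 0) P.nil) P.nil)))))) 8132)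
 EL.nil)
noncomputable def S401_415_660_808_41 : EL := (EL.cons 14 (TM.mk (P.cons (P.cons (P.lf 938144160 0 0) (P.cons (P.lf 0 25885402 0) (P.cons (P.lf 11340634 0 0) (P.cons (P.lf 1086234 0 0) (P.cons (P.lf 16090 0 0) (P.cons (P.lf 7376 0 0) P.nil)))))) (P.cons (P.cons (P.lf 289107606 0 0) (P.cons (P.lf 3371700 0 0) (P.cons (P.lf 0 1555456 0) (P.cons (P.lf 0 73970 0) (P.cons (P.lf 0 9148 0) P.nil))))) (P.cons (P.cons (P.lf 11109698 0 0) (P.cons (P.lf 629468 0 0) (P.cons (P.lf 0 247912 0) (P.cons (P.lf 0 50446 0) P.nil)))) (P.cons (P.cons (P.lf 0 2379168 0) (P.cons (P.lf 0 129920 0) (P.cons (P.lf 53356 0 0) P.nil))) (P.cons (P.cons (P.lf 0 20102 0) (P.cons (P.lf 3790 0 0) P.nil)) (P.cons (P.cons (P.lf 11014 0 0) P.nil) P.nil)))))) 44374)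
 EL.nil)
noncomputable def S401_415_660_808_42 : EL := (EL.cons 14 (TM.mk (P.cons (P.lf 4810538674 0 0) (P.cons (P.lf 258029212 0 0) (P.cons (P.lf 0 12018232 0) (P.cons (P.lf 0 266062 0) (P.cons (P.lf 26916 0 0) (P.cons (P.lf 0 432 0) P.nil)))))) 362)
 EL.nil)
noncomputable def S401_415_660_808_43 : EL := (EL.cons 14 (TM.mk (P.cons (P.cons (P.lf 1928704176 0 0) (P.cons (P.lf 0 26608536 0) (P.cons (P.lf 11473898 0 0) (P.lf 1274874 0 0)))) (P.cons (P.cons (P.lf 366152396 0 0) (P.cons (P.lf 6614372 0 0) (P.cons (P.lf 0 2852192 0) (P.lf 0 316906 0)))) (P.cons (P.cons (P.lf 0 4677648 0) (P.cons (P.lf 0 353680 0) (P.cons (P.lf 152508 0 0) (P.lf 16944 0 0)))) (P.cons (P.cons (P.lf 0 1676712 0) (P.cons (P.lf 0 32800 0) (P.cons (P.lf 14148 0 0) P.nil))) (P.cons (P.cons (P.lf 52902 0 0) (P.cons (P.lf 3732 0 0) P.nil)) (P.cons (P.cons (P.lf 3324 0 0) P.nil) P.nil)))))) 8762)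
 EL.nil)
noncomputable def S401_415_660_808_44 : EL := (EL.cons 14 (TM.mk (P.cons (P.cons (P.lf 773281340 0 0) (P.cons (P.lf 0 21336484 0) (P.cons (P.lf 9347710 0 0) (P.cons (P.lf 895346 0 0) (P.cons (P.lf 13262 0 0) (P.cons (P.lf 6080 0 0) P.nil)))))) (P.cons (P.cons (P.lf 252127716 0 0) (P.cons (P.lf 2397696 0 0) (P.cons (P.lf 0 1114980 0) (P.cons (P.lf 0 44962 0) (P.cons (P.lf 0 7304 0) P.nil))))) (P.cons (P.cons (P.lf 12526898 0 0) (P.cons (P.lf 593128 0 0) (P.cons (P.lf 0 238042 0) (P.cons (P.lf 0 43702 0) P.nil)))) (P.cons (P.cons (P.lf 0 2055832 0) (P.cons (P.lf 0 101460 0) (P.cons (P.lf 41998 0 0) P.nil))) (P.cons (P.cons (P.lf 0 57090 0) (P.cons (P.lf 666 0 0) P.nil)) (P.cons (P.cons (P.lf 11256 0 0) P.nil) P.nil)))))) 39700)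
 EL.nil)
noncomputable def S401_415_660_808_45 : EL := (EL.cons 14 (TM.mk (P.cons (P.cons (P.lf 553612118 0 0) (P.cons (P.lf 0 22913012 0) (P.cons (P.lf 10196456 0 0) (P.cons (P.lf 823740 0 0) (P.cons (P.lf 30366 0 0) (P.cons (P.lf 12458 0 0) P.nil)))))) (P.cons (P.cons (P.lf 226214898 0 0) (P.cons (P.lf 682998 0 0) (P.cons (P.lf 0 442528 0) (P.cons (P.lf 96244 0 0) (P.cons (P.lf 0 15042 0) P.nil))))) (P.cons (P.cons (P.lf 18799200 0 0) (P.cons (P.lf 1059510 0 0) (P.cons (P.lf 0 436082 0) (P.cons (P.lf 0 69232 0) P.nil)))) (P.cons (P.cons (P.lf 0 2015924 0) (P.cons (P.lf 0 95248 0) (P.cons (P.lf 42254 0 0) P.nil))) (P.cons (P.cons (P.lf 0 148382 0) (P.cons (P.lf 0 11392 0) P.nil)) (P.cons (P.cons (P.lf 17754 0 0) P.nil) P.nil)))))) 66654)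
 EL.nil)
noncomputable def S401_415_660_808_46 : EL := (EL.cons 15 (TM.mk (P.lf 4294967296 0 0) 0)
 EL.nil)
noncomputable def S401_415_660_808_47 : EL := (EL.cons 15 (TM.mk (P.cons (P.cons (P.lf 1721994547 0 0) (P.cons (P.lf 0 23756756 0) (P.cons (P.lf 10244180 0 0) (P.lf 1138240 0 0)))) (P.cons (P.cons (P.lf 234544975 0 0) (P.cons (P.lf 7179748 0 0) (P.cons (P.lf 0 3095988 0) (P.lf 0 343996 0)))) (P.cons (P.cons (P.lf 0 12454837 0) (P.cons (P.lf 0 760236 0) (P.cons (P.lf 327820 0 0) (P.lf 36424 0 0)))) (P.cons (P.cons (P.lf 0 147747 0) (P.cons (P.lf 28116 0 0) (P.cons (P.lf 0 12120 0) P.nil))) (P.cons (P.cons (P.lf 27379 0 0) (P.cons (P.lf 456 0 0) P.nil)) (P.cons (P.cons (P.lf 0 715 0) P.nil) P.nil)))))) 2345)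
 EL.nil)
noncomputable def S401_415_660_808_48 : EL := (EL.cons 15 (TM.mk (P.cons (P.cons (P.lf 690404609 0 0) (P.cons (P.lf 0 19049739 0) (P.cons (P.lf 8345867 0 0) (P.cons (P.lf 799388 0 0) (P.cons (P.lf 11842 0 0) (P.cons (P.lf 5429 0 0) P.nil)))))) (P.cons (P.cons (P.lf 188073687 0 0) (P.cons (P.lf 3162519 0 0) (P.cons (P.lf 0 1443140 0) (P.cons (P.lf 0 83022 0) (P.cons (P.lf 0 7157 0) P.nil))))) (P.cons (P.cons (P.lf 2821214 0 0) (P.cons (P.lf 312336 0 0) (P.cons (P.lf 0 114272 0) (P.cons (P.lf 0 32569 0) P.nil)))) (P.cons (P.cons (P.lf 0 1478772 0) (P.cons (P.lf 0 100492 0) (P.cons (P.lf 40483 0 0) P.nil))) (P.cons (P.cons (P.lf 41934 0 0) (P.cons (P.lf 7048 0 0) P.nil)) (P.cons (P.cons (P.lf 3273 0 0) P.nil) P.nil)))))) 27172)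
 EL.nil)
noncomputable def S401_415_660_808 : SL := (SL.cons S401_415_660_808_0 (SL.cons S401_415_660_808_1 (SL.cons S401_415_660_808_2 (SL.cons S401_415_660_808_3 (SL.cons S401_415_660_808_4 (SL.cons S401_415_660_808_5 (SL.cons S401_415_660_808_6 (SL.cons S401_415_660_808_7 (SL.cons S401_415_660_808_8 (SL.cons S401_415_660_808_9 (SL.cons S401_415_660_808_10 (SL.cons S401_415_660_808_11 (SL.cons S401_415_660_808_12 (SL.cons S401_415_660_808_13 (SL.cons S401_415_660_808_14 (SL.cons S401_415_660_808_15 (SL.cons S401_415_660_808_16 (SL.cons S401_415_660_808_17 (SL.cons S401_415_660_808_18 (SL.cons S401_415_660_808_19 (SL.cons S401_415_660_808_20 (SL.cons S401_415_660_808_21 (SL.cons S401_415_660_808_22 (SL.cons S401_415_660_808_23 (SL.cons S401_415_660_808_24 (SL.cons S401_415_660_808_25 (SL.cons S401_415_660_808_26 (SL.cons S401_415_660_808_27 (SL.cons S401_415_660_808_28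 (SL.cons S401_415_660_808_29 (SL.cons S401_415_660_808_30 (SL.cons S401_415_660_808_31 (SL.cons S401_415_660_808_32 (SL.cons S401_415_660_808_33 (SL.cons S401_415_660_808_34 (SL.cons S401_415_660_808_35 (SL.cons S401_415_660_808_36 (SL.cons S401_415_660_808_37 (SL.cons S401_415_660_808_38 (SL.cons S401_415_660_808_39 (SL.cons S401_415_660_808_40 (SL.cons S401_415_660_808_41 (SL.cons S401_415_660_808_42 (SL.cons S401_415_660_808_43 (SL.cons S401_415_660_808_44 (SL.cons S401_415_660_808_45 (SL.cons S401_415_660_808_46 (SL.cons S401_415_660_808_47 (SL.cons S401_415_660_808_48 SL.nil)))))))))))))))))))))))))))))))))))))))))))))))))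
noncomputable def S401_430_216_364_0 : EL := (EL.cons 0 (TM.mk (P.cons (P.lf 3141443055 0 0) (P.cons (P.lf 0 334885157 0) (P.cons (P.lf 43314278 0 0) (P.cons (P.lf 0 451103 0) (P.cons (P.lf 0 186969 0) (P.cons (P.lf 14783 0 0) P.nil)))))) 1615)
 (EL.cons 1 (TM.mk (P.cons (P.lf 1170850837 0 0) (P.cons (P.lf 0 233327645 0) (P.cons (P.lf 0 10098210 0) (P.cons (P.lf 2078180 0 0) (P.cons (P.lf 0 90420 0) (P.cons (P.lf 0 2872 0) P.nil)))))) 983)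
 (EL.cons 5 (TM.mk (P.cons (P.lf 6184486878 0 0) (P.cons (P.lf 119070280 0 0) (P.cons (P.lf 0 15400634 0) (P.cons (P.lf 160396 0 0) (P.cons (P.lf 66480 0 0) (P.cons (P.lf 0 5256 0) P.nil)))))) 413)
 (EL.cons 9 (TM.mk (P.lf 6442450944 0 0) 2)
 EL.nil))))
noncomputable def S401_430_216_364_1 : EL := (EL.cons 0 (TM.mk (P.cons (P.cons (P.lf 3173959611 0 0) (P.cons (P.lf 50376681 0 0) (P.cons (P.lf 21722992 0 0) (P.lf 0 2413654 0)))) (P.cons (P.cons (P.lf 0 416455543 0) (P.cons (P.lf 0 29607634 0) (P.cons (P.lf 0 12767142 0) (P.lf 1418562 0 0)))) (P.cons (P.cons (P.lf 0 65181526 0) (P.cons (P.lf 4204551 0 0) (P.cons (P.lf 1813035 0 0) (P.lf 0 201441 0)))) (P.cons (P.cons (P.lf 23602733 0 0) (P.cons (P.lf 593892 0 0) (P.cons (P.lf 256093 0 0) P.nil))) (P.cons (P.cons (P.lf 0 418680 0) (P.cons (P.lf 0 206799 0) P.nil)) (P.cons (P.cons (P.lf 0 302771 0) P.nil) P.nil))))))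 424432)
 (EL.cons 1 (TM.mk (P.cons (P.cons (P.lf 1702408751 0 0) (P.cons (P.lf 39105186 0 0) (P.cons (P.lf 16862597 0 0) (P.lf 0 1873623 0)))) (P.cons (P.cons (P.lf 24578588 0 0) (P.cons (P.lf 0 8310890 0) (P.cons (P.lf 0 3583748 0) (P.lf 398197 0 0)))) (P.cons (P.cons (P.lf 0 107283654 0) (P.cons (P.lf 0 3171808 0) (P.cons (P.lf 0 1367715 0) (P.lf 151963 0 0)))) (P.cons (P.cons (P.lf 0 159076 0) (P.cons (P.lf 968977 0 0) (P.cons (P.lf 417831 0 0) P.nil))) (P.cons (P.cons (P.lf 1960867 0 0) (P.cons (P.lf 0 39411 0) P.nil)) (P.cons (P.cons (P.lf 0 134691 0) P.nil) P.nil)))))) 174424)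
 (EL.cons 5 (TM.mk (P.cons (P.cons (P.lf 2522601869 0 0) (P.cons (P.lf 0 46644760 0) (P.cons (P.lf 0 20113750 0) (P.lf 2234854 0 0)))) (P.cons (P.cons (P.lf 656385331 0 0) (P.cons (P.lf 30420936 0 0) (P.cons (P.lf 13117850 0 0) (P.lf 0 1457538 0)))) (P.cons (P.cons (P.lf 0 15423366 0) (P.cons (P.lf 0 6363652 0) (P.cons (P.lf 0 2744072 0) (P.lf 304896 0 0)))) (P.cons (P.cons (P.lf 0 13941215 0) (P.cons (P.lf 232878 0 0) (P.cons (P.lf 100420 0 0) P.nil))) (P.cons (P.cons (P.lf 830626 0 0) (P.cons (P.lf 78000 0 0) P.nil)) (P.cons (P.cons (P.lf 96644 0 0) P.nil) P.nil)))))) 135536)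
 (EL.cons 9 (TM.mk (P.cons (P.cons (P.lf 3221577201 0 0) (P.cons (P.lf 0 25352688 0) (P.cons (P.lf 0 10932366 0) (P.lf 1214706 0 0)))) (P.cons (P.cons (P.lf 448510801 0 0) (P.cons (P.lf 17553324 0 0) (P.cons (P.lf 7569192 0 0) (P.lf 0 841020 0)))) (P.cons (P.cons (P.lf 0 34057956 0) (P.cons (P.lf 0 4295910 0) (P.cons (P.lf 0 1852440 0) (P.lf 205824 0 0)))) (P.cons (P.cons (P.lf 0 4896295 0) (P.cons (P.lf 391788 0 0) (P.cons (P.lf 168942 0 0) P.nil))) (P.cons (P.cons (P.lf 601552 0 0) (P.cons (P.lf 3948 0 0) P.nil)) (P.cons (P.cons (P.lf 0 9714 0) P.nil) P.nil)))))) 41126)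
 (EL.cons 2 (TM.mk (P.cons (P.cons (P.lf 0 120221116 0) (P.cons (P.lf 0 111997091 0) (P.cons (P.lf 11494541 0 0) (P.cons (P.lf 2390543 0 0) (P.lf 0 199209 0))))) (P.cons (P.cons (P.lf 51703365 0 0) (P.cons (P.lf 48166467 0 0) (P.cons (P.lf 0 4943444 0) (P.cons (P.lf 0 1028095 0) (P.lf 85671 0 0))))) (P.cons (P.cons (P.lf 0 4879248 0) (P.cons (P.lf 0 4545469 0) (P.cons (P.lf 466512 0 0) (P.cons (P.lf 97020 0 0) P.nil)))) (P.cons (P.cons (P.lf 0 427500 0) (P.cons (P.lf 0 398255 0) (P.cons (P.lf 40874 0 0) P.nil))) (P.cons (P.cons (P.lf 76342 0 0) (P.cons (P.lf 71119 0 0) P.nil)) (P.cons (P.cons (P.lf 0 3012 0) P.nil) P.nil)))))) 43814)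
 (EL.cons 6 (TM.mk (P.cons (P.cons (P.lf 26487342 0 0) (P.cons (P.lf 24675411 0 0) (P.cons (P.lf 0 2532498 0) (P.cons (P.lf 0 526689 0) (P.lf 43890 0 0))))) (P.cons (P.cons (P.lf 0 18338922 0) (P.cons (P.lf 0 17084403 0) (P.cons (P.lf 1753413 0 0) (P.cons (P.lf 364659 0 0) (P.lf 0 30387 0))))) (P.cons (P.cons (P.lf 4488174 0 0) (P.cons (P.lf 4181148 0 0) (P.cons (P.lf 0 429120 0) (P.cons (P.lf 0 89244 0) P.nil)))) (P.cons (P.cons (P.lf 0 409326 0) (P.cons (P.lf 0 381324 0) (P.cons (P.lf 39135 0 0) P.nil))) (P.cons (P.cons (P.lf 0 4125 0) (P.cons (P.lf 0 3843 0) P.nil)) (P.cons (P.cons (P.lf 3186 0 0) P.nil) P.nil)))))) 23442)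
 EL.nil))))))
noncomputable def S401_430_216_364_2 : EL := (EL.cons 0 (TM.mk (P.cons (P.cons (P.lf 2388773889 0 0) (P.cons (P.lf 37765224 0 0) (P.cons (P.lf 15839649 0 0) (P.cons (P.lf 0 2193310 0) (P.cons (P.lf 0 40109 0) (P.cons (P.lf 18385 0 0) P.nil)))))) (P.cons (P.cons (P.lf 0 109556738 0) (P.cons (P.lf 0 10180060 0) (P.cons (P.lf 0 3809663 0) (P.cons (P.lf 988029 0 0) (P.cons (P.lf 52275 0 0) P.nil))))) (P.cons (P.cons (P.lf 0 142863348 0) (P.cons (P.lf 0 4767278 0) (P.cons (P.lf 0 2364977 0) (P.cons (P.lf 0 38300 0) P.nil)))) (P.cons (P.cons (P.lf 15758046 0 0) (P.cons (P.lf 1810207 0 0) (P.cons (P.lf 862532 0 0) P.nil))) (P.cons (P.cons (P.lf 4329997 0 0) (P.cons (P.lf 15083 0 0) P.nil)) (P.cons (P.cons (P.lf 0 581139 0) P.nil) P.nil)))))) 1789874)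
 (EL.cons 1 (TM.mk (P.cons (P.cons (P.lf 1409818005 0 0) (P.cons (P.lf 30318733 0 0) (P.cons (P.lf 12747868 0 0) (P.cons (P.lf 0 1733718 0) (P.cons (P.lf 0 29375 0) (P.cons (P.lf 13466 0 0) P.nil)))))) (P.cons (P.cons (P.lf 238441394 0 0) (P.cons (P.lf 2749243 0 0) (P.cons (P.lf 1492730 0 0) (P.cons (P.lf 133242 0 0) (P.cons (P.lf 27690 0 0) P.nil))))) (P.cons (P.cons (P.lf 0 102586355 0) (P.cons (P.lf 0 5278711 0) (P.cons (P.lf 0 2368390 0) (P.cons (P.lf 173423 0 0) P.nil)))) (P.cons (P.cons (P.lf 0 16111932 0) (P.cons (P.lf 183809 0 0) (P.cons (P.lf 77712 0 0) P.nil))) (P.cons (P.cons (P.lf 2860006 0 0) (P.cons (P.lf 247476 0 0) P.nil)) (P.cons (P.cons (P.lf 276091 0 0) P.nil) P.nil)))))) 767494)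
 (EL.cons 5 (TM.mk (P.cons (P.cons (P.lf 976417935 0 0) (P.cons (P.lf 0 42163827 0) (P.cons (P.lf 0 17910167 0) (P.cons (P.lf 2254177 0 0) (P.cons (P.lf 24449 0 0) (P.cons (P.lf 0 11206 0) P.nil)))))) (P.cons (P.cons (P.lf 547321259 0 0) (P.cons (P.lf 19514849 0 0) (P.cons (P.lf 8052187 0 0) (P.cons (P.lf 0 1247903 0) (P.cons (P.lf 0 32690 0) P.nil))))) (P.cons (P.cons (P.lf 47580318 0 0) (P.cons (P.lf 0 100484 0) (P.cons (P.lf 159158 0 0) (P.cons (P.lf 179432 0 0) P.nil)))) (P.cons (P.cons (P.lf 0 16526975 0) (P.cons (P.lf 0 1044104 0) (P.cons (P.lf 0 509390 0) P.nil))) (P.cons (P.cons (P.lf 0 1426294 0) (P.cons (P.lf 76810 0 0) P.nil)) (P.cons (P.cons (P.lf 349209 0 0) P.nil) P.nil)))))) 603442)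
 (EL.cons 9 (TM.mk (P.cons (P.cons (P.lf 1610964483 0 0) (P.cons (P.lf 0 25355455 0) (P.cons (P.lf 0 10833789 0) (P.cons (P.lf 1300881 0 0) (P.cons (P.lf 8991 0 0) (P.cons (P.lf 0 4122 0) P.nil)))))) (P.cons (P.cons (P.lf 448559773 0 0) (P.cons (P.lf 14025231 0 0) (P.cons (P.lf 5909685 0 0) (P.cons (P.lf 0 791127 0) (P.cons (P.lf 0 12450 0) P.nil))))) (P.cons (P.cons (P.lf 0 2837232 0) (P.cons (P.lf 0 1584268 0) (P.cons (P.lf 0 601512 0) (P.cons (P.lf 146308 0 0) P.nil)))) (P.cons (P.cons (P.lf 0 9638925 0) (P.cons (P.lf 0 353368 0) (P.cons (P.lf 0 178870 0) P.nil))) (P.cons (P.cons (P.lf 99924 0 0) (P.cons (P.lf 72504 0 0) P.nil)) (P.cons (P.cons (P.lf 125811 0 0) P.nil) P.nil)))))) 260036)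
 (EL.cons 2 (TM.mk (P.cons (P.cons (P.lf 0 120234245 0) (P.cons (P.lf 0 111063116 0) (P.cons (P.lf 12785281 0 0) (P.cons (P.lf 2635098 0 0) (P.cons (P.lf 0 299289 0) (P.cons (P.lf 0 2210 0) P.nil)))))) (P.cons (P.cons (P.lf 34969893 0 0) (P.cons (P.lf 31515637 0 0) (P.cons (P.lf 0 4790891 0) (P.cons (P.lf 0 969564 0) (P.cons (P.lf 170251 0 0) P.nil))))) (P.cons (P.cons (P.lf 3590285 0 0) (P.cons (P.lf 3825157 0 0) (P.cons (P.lf 311518 0 0) (P.cons (P.lf 52661 0 0) P.nil)))) (P.cons (P.cons (P.lf 0 1470830 0) (P.cons (P.lf 0 1477018 0) (P.cons (P.lf 0 4910 0) P.nil))) (P.cons (P.cons (P.lf 0 32619 0) (P.cons (P.lf 0 20671 0) P.nil)) (P.cons (P.cons (P.lf 29565 0 0) P.nil) P.nil)))))) 341797)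
 (EL.cons 6 (TM.mk (P.cons (P.cons (P.lf 26490234 0 0) (P.cons (P.lf 24469632 0 0) (P.cons (P.lf 0 2816874 0) (P.cons (P.lf 0 580566 0) (P.cons (P.lf 65934 0 0) (P.cons (P.lf 486 0 0) P.nil)))))) (P.cons (P.cons (P.lf 0 14652930 0) (P.cons (P.lf 0 13361886 0) (P.cons (P.lf 1794390 0 0) (P.cons (P.lf 365898 0 0) (P.cons (P.lf 0 54804 0) P.nil))))) (P.cons (P.cons (P.lf 1655172 0 0) (P.cons (P.lf 1371366 0 0) (P.cons (P.lf 0 390720 0) (P.cons (P.lf 0 76950 0) P.nil)))) (P.cons (P.cons (P.lf 369174 0 0) (P.cons (P.lf 399276 0 0) (P.cons (P.lf 40140 0 0) P.nil))) (P.cons (P.cons (P.lf 0 75750 0) (P.cons (P.lf 0 80946 0) P.nil)) (P.cons (P.cons (P.lf 0 3384 0) P.nil) P.nil)))))) 116022)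
 EL.nil))))))
noncomputable def S401_430_216_364_3 : EL := (EL.cons 0 (TM.mk (P.cons (P.lf 5314273808 0 0) (P.cons (P.lf 334885157 0 0) (P.cons (P.lf 0 43314278 0) (P.cons (P.lf 451103 0 0) (P.cons (P.lf 186969 0 0) (P.cons (P.lf 0 14783 0) P.nil)))))) 1615)
 (EL.cons 1 (TM.mk (P.cons (P.lf 0 1170850837 0) (P.cons (P.lf 233327645 0 0) (P.cons (P.lf 10098210 0 0) (P.cons (P.lf 0 2078180 0) (P.cons (P.lf 90420 0 0) (P.cons (P.lf 2872 0 0) P.nil)))))) 983)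
 (EL.cons 5 (TM.mk (P.cons (P.lf 257964066 0 0) (P.cons (P.lf 0 119070280 0) (P.cons (P.lf 15400634 0 0) (P.cons (P.lf 0 160396 0) (P.cons (P.lf 0 66480 0) (P.cons (P.lf 5256 0 0) P.nil)))))) 406)
 EL.nil)))
noncomputable def S401_430_216_364_4 : EL := (EL.cons 0 (TM.mk (P.cons (P.cons (P.lf 2657427038 0 0) (P.cons (P.lf 0 20913022 0) (P.cons (P.lf 0 9017931 0) (P.lf 1001990 0 0)))) (P.cons (P.cons (P.lf 537430181 0 0) (P.cons (P.lf 13161594 0 0) (P.cons (P.lf 5675428 0 0) (P.lf 0 630601 0)))) (P.cons (P.cons (P.lf 0 26439314 0) (P.cons (P.lf 0 2460733 0) (P.cons (P.lf 0 1061091 0) (P.lf 117896 0 0)))) (P.cons (P.cons (P.lf 0 8599120 0) (P.cons (P.lf 0 19916 0) (P.cons (P.lf 0 8588 0) P.nil))) (P.cons (P.cons (P.lf 595576 0 0) (P.cons (P.lf 52996 0 0) P.nil)) (P.cons (P.cons (P.lf 59414 0 0) P.nil) P.nil)))))) 90191)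
 (EL.cons 1 (TM.mk (P.cons (P.cons (P.lf 0 585489341 0) (P.cons (P.lf 4607595 0 0) (P.cons (P.lf 1986847 0 0) (P.lf 0 220758 0)))) (P.cons (P.cons (P.lf 35164222 0 0) (P.cons (P.lf 0 4108342 0) (P.cons (P.lf 0 1771563 0) (P.lf 196839 0 0)))) (P.cons (P.cons (P.lf 27483161 0 0) (P.cons (P.lf 1376730 0 0) (P.cons (P.lf 593660 0 0) (P.lf 0 65960 0)))) (P.cons (P.cons (P.lf 0 679816 0) (P.cons (P.lf 0 191096 0) (P.cons (P.lf 0 82402 0) P.nil))) (P.cons (P.cons (P.lf 0 439503 0) (P.cons (P.lf 720 0 0) P.nil)) (P.cons (P.cons (P.lf 34593 0 0) P.nil) P.nil)))))) 35396)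
 (EL.cons 5 (TM.mk (P.cons (P.cons (P.lf 128996116 0 0) (P.cons (P.lf 0 1015154 0) (P.cons (P.lf 0 437744 0) (P.lf 48638 0 0)))) (P.cons (P.cons (P.lf 0 41582688 0) (P.cons (P.lf 1171428 0 0) (P.cons (P.lf 505132 0 0) (P.lf 0 56124 0)))) (P.cons (P.cons (P.lf 0 1952004 0) (P.cons (P.lf 0 557042 0) (P.cons (P.lf 0 240202 0) (P.lf 26688 0 0)))) (P.cons (P.cons (P.lf 1425364 0 0) (P.cons (P.lf 137676 0 0) (P.cons (P.lf 59366 0 0) P.nil))) (P.cons (P.cons (P.lf 0 11244 0) (P.cons (P.lf 0 17526 0) P.nil)) (P.cons (P.cons (P.lf 0 24362 0) P.nil) P.nil)))))) 22482)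
 EL.nil)))
noncomputable def S401_430_216_364_5 : EL := (EL.cons 0 (TM.mk (P.cons (P.cons (P.lf 1328858600 0 0) (P.cons (P.lf 0 20915305 0) (P.cons (P.lf 0 8936616 0) (P.cons (P.lf 1073074 0 0) (P.cons (P.lf 7416 0 0) (P.cons (P.lf 0 3399 0) P.nil)))))) (P.cons (P.cons (P.lf 453749291 0 0) (P.cons (P.lf 10251182 0 0) (P.cons (P.lf 4311652 0 0) (P.cons (P.lf 0 584966 0) (P.cons (P.lf 0 9801 0) P.nil))))) (P.cons (P.cons (P.lf 10145271 0 0) (P.cons (P.lf 0 407320 0) (P.cons (P.lf 0 116147 0) (P.cons (P.lf 70816 0 0) P.nil)))) (P.cons (P.cons (P.lf 0 11001459 0) (P.cons (P.lf 0 469908 0) (P.cons (P.lf 0 219304 0) P.nil))) (P.cons (P.cons (P.lf 0 321377 0) (P.cons (P.lf 52335 0 0) P.nil)) (P.cons (P.cons (P.lf 182900 0 0) P.nil) P.nil)))))) 278605)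
 (EL.cons 1 (TM.mk (P.cons (P.cons (P.lf 0 292776635 0) (P.cons (P.lf 4608099 0 0) (P.cons (P.lf 1968931 0 0) (P.cons (P.lf 0 236420 0) (P.cons (P.lf 0 1633 0) (P.cons (P.lf 748 0 0) P.nil)))))) (P.cons (P.cons (P.lf 0 23176588 0) (P.cons (P.lf 0 3467248 0) (P.cons (P.lf 0 1466394 0) (P.cons (P.lf 190891 0 0) (P.cons (P.lf 2587 0 0) P.nil))))) (P.cons (P.cons (P.lf 19286328 0 0) (P.cons (P.lf 756135 0 0) (P.cons (P.lf 306369 0 0) (P.cons (P.lf 0 53203 0) P.nil)))) (P.cons (P.cons (P.lf 1832456 0 0) (P.cons (P.lf 37005 0 0) (P.cons (P.lf 23478 0 0) P.nil))) (P.cons (P.cons (P.lf 0 493786 0) (P.cons (P.lf 0 33337 0) P.nil)) (P.cons (P.cons (P.lf 0 26424 0) P.nil) P.nil)))))) 96603)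
 (EL.cons 5 (TM.mk (P.cons (P.cons (P.lf 64505100 0 0) (P.cons (P.lf 0 1015264 0) (P.cons (P.lf 0 433798 0) (P.cons (P.lf 52088 0 0) (P.cons (P.lf 358 0 0) (P.cons (P.lf 0 164 0) P.nil)))))) (P.cons (P.cons (P.lf 0 11813158 0) (P.cons (P.lf 1030210 0 0) (P.cons (P.lf 436862 0 0) (P.cons (P.lf 0 55720 0) (P.cons (P.lf 0 664 0) P.nil))))) (P.cons (P.cons (P.lf 0 4552950 0) (P.cons (P.lf 0 383264 0) (P.cons (P.lf 0 159206 0) (P.cons (P.lf 23588 0 0) P.nil)))) (P.cons (P.cons (P.lf 698654 0 0) (P.cons (P.lf 49288 0 0) (P.cons (P.lf 18352 0 0) P.nil))) (P.cons (P.cons (P.lf 147574 0 0) (P.cons (P.lf 5558 0 0) P.nil)) (P.cons (P.cons (P.lf 0 23094 0) P.nil) P.nil)))))) 30014)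
 EL.nil)))
noncomputable def S401_430_216_364_6 : EL := (EL.cons 12 (TM.mk (P.lf 8589934592 0 0) 0)
 (EL.cons 3 (TM.mk (P.cons (P.lf 3378211968 0 0) (P.cons (P.lf 106440982 0 0) (P.cons (P.lf 0 15444026 0) (P.cons (P.lf 629992 0 0) (P.cons (P.lf 4275 0 0) (P.cons (P.lf 0 1953 0) P.nil)))))) 352)
 (EL.cons 7 (TM.mk (P.cons (P.lf 0 744294039 0) (P.cons (P.lf 171774507 0 0) (P.cons (P.lf 0 2395646 0) (P.cons (P.lf 0 321494 0) (P.cons (P.lf 25565 0 0) (P.cons (P.lf 0 650 0) P.nil)))))) 203)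
 EL.nil)))
noncomputable def S401_430_216_364_7 : EL := (EL.cons 12 (TM.mk (P.cons (P.cons (P.lf 4295436268 0 0) (P.cons (P.lf 0 33803584 0) (P.cons (P.lf 0 14576488 0) (P.lf 1619608 0 0)))) (P.cons (P.cons (P.lf 598014402 0 0) (P.cons (P.lf 23404432 0 0) (P.cons (P.lf 10092256 0 0) (P.lf 0 1121360 0)))) (P.cons (P.cons (P.lf 0 45410608 0) (P.cons (P.lf 0 5727880 0) (P.cons (P.lf 0 2469920 0) (P.lf 274432 0 0)))) (P.cons (P.cons (P.lf 0 6528394 0) (P.cons (P.lf 522384 0 0) (P.cons (P.lf 225256 0 0) P.nil))) (P.cons (P.cons (P.lf 802070 0 0) (P.cons (P.lf 5264 0 0) P.nil)) (P.cons (P.cons (P.lf 0 12952 0) P.nil) P.nil)))))) 54810)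
 (EL.cons 3 (TM.mk (P.cons (P.cons (P.lf 2708338155 0 0) (P.cons (P.lf 26588250 0 0) (P.cons (P.lf 11465154 0 0) (P.lf 0 1273902 0)))) (P.cons (P.cons (P.lf 0 41005334 0) (P.cons (P.lf 0 17571038 0) (P.cons (P.lf 0 7576830 0) (P.lf 841866 0 0)))) (P.cons (P.cons (P.lf 0 32959788 0) (P.cons (P.lf 3803692 0 0) (P.cons (P.lf 1640190 0 0) (P.lf 0 182240 0)))) (P.cons (P.cons (P.lf 8502388 0 0) (P.cons (P.lf 0 179810 0) (P.cons (P.lf 0 77534 0) P.nil))) (P.cons (P.cons (P.lf 0 425204 0) (P.cons (P.lf 0 41080 0) P.nil)) (P.cons (P.cons (P.lf 0 48797 0) P.nil) P.nil)))))) 166980)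
 (EL.cons 7 (TM.mk (P.cons (P.cons (P.lf 1272351989 0 0) (P.cons (P.lf 67291196 0 0) (P.cons (P.lf 29016723 0 0) (P.lf 0 3224079 0)))) (P.cons (P.cons (P.lf 0 66174434 0) (P.cons (P.lf 0 28356164 0) (P.cons (P.lf 0 12227497 0) (P.lf 1358611 0 0)))) (P.cons (P.cons (P.lf 0 61869186 0) (P.cons (P.lf 2419545 0 0) (P.cons (P.lf 1043335 0 0) (P.lf 0 115927 0)))) (P.cons (P.cons (P.lf 3256586 0 0) (P.cons (P.lf 284652 0 0) (P.cons (P.lf 122745 0 0) P.nil))) (P.cons (P.cons (P.lf 426949 0 0) (P.cons (P.lf 0 40069 0) P.nil)) (P.cons (P.cons (P.lf 0 54895 0) P.nil) P.nil)))))) 92605)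
 (EL.cons 10 (TM.mk (P.cons (P.cons (P.lf 0 152845878 0) (P.cons (P.lf 0 142390074 0) (P.cons (P.lf 14613852 0 0) (P.cons (P.lf 3039273 0 0) (P.lf 0 253272 0))))) (P.cons (P.cons (P.lf 70550142 0 0) (P.cons (P.lf 65723982 0 0) (P.cons (P.lf 0 6745416 0) (P.cons (P.lf 0 1402857 0) (P.lf 116904 0 0))))) (P.cons (P.cons (P.lf 0 9125004 0) (P.cons (P.lf 0 8500785 0) (P.cons (P.lf 872457 0 0) (P.cons (P.lf 181446 0 0) P.nil)))) (P.cons (P.cons (P.lf 95034 0 0) (P.cons (P.lf 88533 0 0) (P.cons (P.lf 0 9084 0) P.nil))) (P.cons (P.cons (P.lf 39387 0 0) (P.cons (P.lf 36693 0 0) P.nil)) (P.cons (P.cons (P.lf 0 3114 0) P.nil) P.nil)))))) 25638)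
 EL.nil))))
noncomputable def S401_430_216_364_8 : EL := (EL.cons 12 (TM.mk (P.cons (P.cons (P.lf 2147952644 0 0) (P.cons (P.lf 0 33807274 0) (P.cons (P.lf 0 14445052 0) (P.cons (P.lf 1734508 0 0) (P.cons (P.lf 11988 0 0) (P.cons (P.lf 0 5496 0) P.nil)))))) (P.cons (P.cons (P.lf 598079698 0 0) (P.cons (P.lf 18700308 0 0) (P.cons (P.lf 7879580 0 0) (P.cons (P.lf 0 1054836 0) (P.cons (P.lf 0 16600 0) P.nil))))) (P.cons (P.cons (P.lf 0 3782976 0) (P.cons (P.lf 0 2112358 0) (P.cons (P.lf 0 802016 0) (P.cons (P.lf 195078 0 0) P.nil)))) (P.cons (P.cons (P.lf 0 12851900 0) (P.cons (P.lf 0 471158 0) (P.cons (P.lf 0 238494 0) P.nil))) (P.cons (P.cons (P.lf 133232 0 0) (P.cons (P.lf 96672 0 0) P.nil)) (P.cons (P.cons (P.lf 167748 0 0) P.nil) P.nil)))))) 346686)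
 (EL.cons 3 (TM.mk (P.cons (P.cons (P.lf 1863896440 0 0) (P.cons (P.lf 18570724 0 0) (P.cons (P.lf 7746328 0 0) (P.cons (P.lf 0 1115353 0) (P.cons (P.lf 0 23571 0) (P.cons (P.lf 10806 0 0) P.nil)))))) (P.cons (P.cons (P.lf 74262347 0 0) (P.cons (P.lf 0 5725173 0) (P.cons (P.lf 0 2114784 0) (P.cons (P.lf 579577 0 0) (P.cons (P.lf 31895 0 0) P.nil))))) (P.cons (P.cons (P.lf 0 69369433 0) (P.cons (P.lf 0 1961241 0) (P.cons (P.lf 0 1047145 0) (P.cons (P.lf 0 79745 0) P.nil)))) (P.cons (P.cons (P.lf 6249956 0 0) (P.cons (P.lf 880286 0 0) (P.cons (P.lf 440603 0 0) P.nil))) (P.cons (P.cons (P.lf 1730293 0 0) (P.cons (P.lf 0 20028 0) P.nil)) (P.cons (P.cons (P.lf 0 253883 0) P.nil) P.nil)))))) 872591)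
 (EL.cons 7 (TM.mk (P.cons (P.cons (P.lf 1458605062 0 0) (P.cons (P.lf 54355174 0 0) (P.cons (P.lf 22920473 0 0) (P.cons (P.lf 0 3051092 0) (P.cons (P.lf 0 46686 0) (P.cons (P.lf 21404 0 0) P.nil)))))) (P.cons (P.cons (P.lf 119844581 0 0) (P.cons (P.lf 0 9239298 0) (P.cons (P.lf 0 3412842 0) (P.cons (P.lf 935327 0 0) (P.cons (P.lf 51478 0 0) P.nil))))) (P.cons (P.cons (P.lf 0 96231014 0) (P.cons (P.lf 0 4376773 0) (P.cons (P.lf 0 2137464 0) (P.cons (P.lf 0 6038 0) P.nil)))) (P.cons (P.cons (P.lf 0 7382547 0) (P.cons (P.lf 704692 0 0) (P.cons (P.lf 355529 0 0) P.nil))) (P.cons (P.cons (P.lf 2156244 0 0) (P.cons (P.lf 138063 0 0) P.nil)) (P.cons (P.cons (P.lf 54487 0 0) P.nil) P.nil)))))) 627363)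
 (EL.cons 10 (TM.mk (P.cons (P.cons (P.lf 0 152862564 0) (P.cons (P.lf 0 141202644 0) (P.cons (P.lf 16254864 0 0) (P.cons (P.lf 3350196 0 0) (P.cons (P.lf 0 380508 0) (P.cons (P.lf 0 2808 0) P.nil)))))) (P.cons (P.cons (P.lf 49276182 0 0) (P.cons (P.lf 44517156 0 0) (P.cons (P.lf 0 6603168 0) (P.cons (P.lf 0 1338240 0) (P.cons (P.lf 228444 0 0) P.nil))))) (P.cons (P.cons (P.lf 2313156 0 0) (P.cons (P.lf 2815026 0 0) (P.cons (P.lf 678426 0 0) (P.cons (P.lf 124434 0 0) P.nil)))) (P.cons (P.cons (P.lf 0 1689078 0) (P.cons (P.lf 0 1736682 0) (P.cons (P.lf 0 60840 0) P.nil))) (P.cons (P.cons (P.lf 13320 0 0) (P.cons (P.lf 33180 0 0) P.nil)) (P.cons (P.cons (P.lf 28866 0 0) P.nil) P.nil)))))) 430944)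
 EL.nil))))
noncomputable def S401_430_216_364_9 : EL := (EL.cons 3 (TM.mk (P.cons (P.lf 3378211968 0 0) (P.cons (P.lf 106440982 0 0) (P.cons (P.lf 0 15444026 0) (P.cons (P.lf 629992 0 0) (P.cons (P.lf 4275 0 0) (P.cons (P.lf 0 1953 0) P.nil)))))) 352)
 (EL.cons 7 (TM.mk (P.cons (P.lf 0 744294039 0) (P.cons (P.lf 171774507 0 0) (P.cons (P.lf 0 2395646 0) (P.cons (P.lf 0 321494 0) (P.cons (P.lf 25565 0 0) (P.cons (P.lf 0 650 0) P.nil)))))) 203)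
 EL.nil))
noncomputable def S401_430_216_364_10 : EL := (EL.cons 3 (TM.mk (P.cons (P.cons (P.lf 1689290418 0 0) (P.cons (P.lf 0 13294125 0) (P.cons (P.lf 0 5732577 0) (P.lf 636951 0 0)))) (P.cons (P.cons (P.lf 288410794 0 0) (P.cons (P.lf 8785519 0 0) (P.cons (P.lf 3788415 0 0) (P.lf 0 420933 0)))) (P.cons (P.cons (P.lf 0 18171528 0) (P.cons (P.lf 0 1901846 0) (P.cons (P.lf 0 820095 0) (P.lf 91120 0 0)))) (P.cons (P.cons (P.lf 0 3890309 0) (P.cons (P.lf 89905 0 0) (P.cons (P.lf 38767 0 0) P.nil))) (P.cons (P.cons (P.lf 362179 0 0) (P.cons (P.lf 20540 0 0) P.nil)) (P.cons (P.cons (P.lf 12571 0 0) P.nil) P.nil)))))) 41144)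
 (EL.cons 7 (TM.mk (P.cons (P.cons (P.lf 0 372187654 0) (P.cons (P.lf 2928986 0 0) (P.cons (P.lf 1263012 0 0) (P.lf 0 140334 0)))) (P.cons (P.cons (P.lf 34080340 0 0) (P.cons (P.lf 0 2703905 0) (P.cons (P.lf 0 1165954 0) (P.lf 129550 0 0)))) (P.cons (P.cons (P.lf 14695353 0 0) (P.cons (P.lf 973755 0 0) (P.cons (P.lf 419893 0 0) (P.lf 0 46654 0)))) (P.cons (P.cons (P.lf 0 669961 0) (P.cons (P.lf 0 165066 0) (P.cons (P.lf 0 71178 0) P.nil))) (P.cons (P.cons (P.lf 0 196979 0) (P.cons (P.lf 10610 0 0) P.nil)) (P.cons (P.cons (P.lf 22136 0 0) P.nil) P.nil)))))) 19365)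
 EL.nil))
noncomputable def S401_430_216_364_11 : EL := (EL.cons 3 (TM.mk (P.cons (P.cons (P.lf 844737436 0 0) (P.cons (P.lf 0 13295576 0) (P.cons (P.lf 0 5680886 0) (P.cons (P.lf 682139 0 0) (P.cons (P.lf 4713 0 0) (P.cons (P.lf 0 2160 0) P.nil)))))) (P.cons (P.cons (P.lf 261826229 0 0) (P.cons (P.lf 6935457 0 0) (P.cons (P.lf 2919852 0 0) (P.cons (P.lf 0 393347 0) (P.cons (P.lf 0 6379 0) P.nil))))) (P.cons (P.cons (P.lf 2061419 0 0) (P.cons (P.lf 0 538233 0) (P.cons (P.lf 0 191803 0) (P.cons (P.lf 60529 0 0) P.nil)))) (P.cons (P.cons (P.lf 0 6018982 0) (P.cons (P.lf 0 247570 0) (P.cons (P.lf 0 118957 0) P.nil))) (P.cons (P.cons (P.lf 0 55121 0) (P.cons (P.lf 37332 0 0) P.nil)) (P.cons (P.cons (P.lf 90259 0 0) P.nil) P.nil)))))) 158335)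
 (EL.cons 7 (TM.mk (P.cons (P.cons (P.lf 0 186114146 0) (P.cons (P.lf 2929306 0 0) (P.cons (P.lf 1251623 0 0) (P.cons (P.lf 0 150290 0) (P.cons (P.lf 0 1038 0) (P.cons (P.lf 476 0 0) P.nil)))))) (P.cons (P.cons (P.lf 0 8868943 0) (P.cons (P.lf 0 2296380 0) (P.cons (P.lf 0 971604 0) (P.cons (P.lf 126083 0 0) (P.cons (P.lf 1678 0 0) P.nil))))) (P.cons (P.cons (P.lf 11688652 0 0) (P.cons (P.lf 566411 0 0) (P.cons (P.lf 231090 0 0) (P.cons (P.lf 0 38480 0) P.nil)))) (P.cons (P.cons (P.lf 790743 0 0) (P.cons (P.lf 0 5366 0) (P.cons (P.lf 2969 0 0) P.nil))) (P.cons (P.cons (P.lf 0 283482 0) (P.cons (P.lf 0 18009 0) P.nil)) (P.cons (P.cons (P.lf 0 6527 0) P.nil) P.nil)))))) 53747)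
 EL.nil))
noncomputable def S401_430_216_364_12 : EL := (EL.cons 4 (TM.mk (P.cons (P.lf 0 3378211968 0) (P.cons (P.lf 0 106440982 0) (P.cons (P.lf 15444026 0 0) (P.cons (P.lf 0 629992 0) (P.cons (P.lf 0 4275 0) (P.cons (P.lf 1953 0 0) P.nil)))))) 352)
 (EL.cons 8 (TM.mk (P.cons (P.lf 744294039 0 0) (P.cons (P.lf 0 171774507 0) (P.cons (P.lf 2395646 0 0) (P.cons (P.lf 321494 0 0) (P.cons (P.lf 0 25565 0) (P.cons (P.lf 650 0 0) P.nil)))))) 203)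
 EL.nil))
noncomputable def S401_430_216_364_13 : EL := (EL.cons 4 (TM.mk (P.cons (P.cons (P.lf 0 1689290418 0) (P.cons (P.lf 13294125 0 0) (P.cons (P.lf 5732577 0 0) (P.lf 0 636951 0)))) (P.cons (P.cons (P.lf 0 288410794 0) (P.cons (P.lf 0 8785519 0) (P.cons (P.lf 0 3788415 0) (P.lf 420933 0 0)))) (P.cons (P.cons (P.lf 18171528 0 0) (P.cons (P.lf 1901846 0 0) (P.cons (P.lf 820095 0 0) (P.lf 0 91120 0)))) (P.cons (P.cons (P.lf 3890309 0 0) (P.cons (P.lf 0 89905 0) (P.cons (P.lf 0 38767 0) P.nil))) (P.cons (P.cons (P.lf 0 362179 0) (P.cons (P.lf 0 20540 0) P.nil)) (P.cons (P.cons (P.lf 0 12571 0) P.nil) P.nil)))))) 41144)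
 (EL.cons 8 (TM.mk (P.cons (P.cons (P.lf 372187654 0 0) (P.cons (P.lf 0 2928986 0) (P.cons (P.lf 0 1263012 0) (P.lf 140334 0 0)))) (P.cons (P.cons (P.lf 0 34080340 0) (P.cons (P.lf 2703905 0 0) (P.cons (P.lf 1165954 0 0) (P.lf 0 129550 0)))) (P.cons (P.cons (P.lf 0 14695353 0) (P.cons (P.lf 0 973755 0) (P.cons (P.lf 0 419893 0) (P.lf 46654 0 0)))) (P.cons (P.cons (P.lf 669961 0 0) (P.cons (P.lf 165066 0 0) (P.cons (P.lf 71178 0 0) P.nil))) (P.cons (P.cons (P.lf 196979 0 0) (P.cons (P.lf 0 10610 0) P.nil)) (P.cons (P.cons (P.lf 0 22136 0) P.nil) P.nil)))))) 19365)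
 EL.nil))
noncomputable def S401_430_216_364_14 : EL := (EL.cons 4 (TM.mk (P.cons (P.cons (P.lf 0 844737436 0) (P.cons (P.lf 13295576 0 0) (P.cons (P.lf 5680886 0 0) (P.cons (P.lf 0 682139 0) (P.cons (P.lf 0 4713 0) (P.cons (P.lf 2160 0 0) P.nil)))))) (P.cons (P.cons (P.lf 0 261826229 0) (P.cons (P.lf 0 6935457 0) (P.cons (P.lf 0 2919852 0) (P.cons (P.lf 393347 0 0) (P.cons (P.lf 6379 0 0) P.nil))))) (P.cons (P.cons (P.lf 0 2061419 0) (P.cons (P.lf 538233 0 0) (P.cons (P.lf 191803 0 0) (P.cons (P.lf 0 60529 0) P.nil)))) (P.cons (P.cons (P.lf 6018982 0 0) (P.cons (P.lf 247570 0 0) (P.cons (P.lf 118957 0 0) P.nil))) (P.cons (P.cons (P.lf 55121 0 0) (P.cons (P.lf 0 37332 0) P.nil)) (P.cons (P.cons (P.lf 0 90259 0) P.nil) P.nil)))))) 158335)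
 (EL.cons 8 (TM.mk (P.cons (P.cons (P.lf 186114146 0 0) (P.cons (P.lf 0 2929306 0) (P.cons (P.lf 0 1251623 0) (P.cons (P.lf 150290 0 0) (P.cons (P.lf 1038 0 0) (P.cons (P.lf 0 476 0) P.nil)))))) (P.cons (P.cons (P.lf 8868943 0 0) (P.cons (P.lf 2296380 0 0) (P.cons (P.lf 971604 0 0) (P.cons (P.lf 0 126083 0) (P.cons (P.lf 0 1678 0) P.nil))))) (P.cons (P.cons (P.lf 0 11688652 0) (P.cons (P.lf 0 566411 0) (P.cons (P.lf 0 231090 0) (P.cons (P.lf 38480 0 0) P.nil)))) (P.cons (P.cons (P.lf 0 790743 0) (P.cons (P.lf 5366 0 0) (P.cons (P.lf 0 2969 0) P.nil))) (P.cons (P.cons (P.lf 283482 0 0) (P.cons (P.lf 18009 0 0) P.nil)) (P.cons (P.cons (P.lf 6527 0 0) P.nil) P.nil)))))) 53747)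
 EL.nil))
noncomputable def S401_430_216_364_15 : EL := (EL.cons 4 (TM.mk (P.cons (P.lf 0 2834279364 0) (P.cons (P.lf 0 178605417 0) (P.cons (P.lf 23100948 0 0) (P.cons (P.lf 0 240588 0) (P.cons (P.lf 0 99717 0) (P.cons (P.lf 7884 0 0) P.nil)))))) 864)
 (EL.cons 8 (TM.mk (P.cons (P.lf 624453780 0 0) (P.cons (P.lf 0 124441411 0) (P.cons (P.lf 0 5385712 0) (P.cons (P.lf 1108363 0 0) (P.cons (P.lf 0 48224 0) (P.cons (P.lf 0 1532 0) P.nil)))))) 521)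
 EL.nil))
noncomputable def S401_430_216_364_16 : EL := (EL.cons 4 (TM.mk (P.cons (P.cons (P.lf 0 1417294420 0) (P.cons (P.lf 11153611 0 0) (P.cons (P.lf 4809563 0 0) (P.lf 0 534394 0)))) (P.cons (P.cons (P.lf 0 286629430 0) (P.cons (P.lf 0 7019517 0) (P.cons (P.lf 0 3026895 0) (P.lf 336320 0 0)))) (P.cons (P.cons (P.lf 14100967 0 0) (P.cons (P.lf 1312391 0 0) (P.cons (P.lf 565915 0 0) (P.lf 0 62878 0)))) (P.cons (P.cons (P.lf 4586197 0 0) (P.cons (P.lf 10621 0 0) (P.cons (P.lf 4580 0 0) P.nil))) (P.cons (P.cons (P.lf 0 317640 0) (P.cons (P.lf 0 28264 0) P.nil)) (P.cons (P.cons (P.lf 0 31687 0) P.nil) P.nil)))))) 48110)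
 (EL.cons 8 (TM.mk (P.cons (P.cons (P.lf 312260982 0 0) (P.cons (P.lf 0 2457384 0) (P.cons (P.lf 0 1059652 0) (P.lf 117738 0 0)))) (P.cons (P.cons (P.lf 0 18754252 0) (P.cons (P.lf 2191116 0 0) (P.cons (P.lf 944834 0 0) (P.lf 0 104981 0)))) (P.cons (P.cons (P.lf 0 14657686 0) (P.cons (P.lf 0 734256 0) (P.cons (P.lf 0 316619 0) (P.lf 35179 0 0)))) (P.cons (P.cons (P.lf 362569 0 0) (P.cons (P.lf 101918 0 0) (P.cons (P.lf 43948 0 0) P.nil))) (P.cons (P.cons (P.lf 234402 0 0) (P.cons (P.lf 0 384 0) P.nil)) (P.cons (P.cons (P.lf 0 18450 0) P.nil) P.nil)))))) 18868)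
 EL.nil))
noncomputable def S401_430_216_364_17 : EL := (EL.cons 4 (TM.mk (P.cons (P.cons (P.lf 0 708724587 0) (P.cons (P.lf 11154829 0 0) (P.cons (P.lf 4766195 0 0) (P.cons (P.lf 0 572306 0) (P.cons (P.lf 0 3955 0) (P.cons (P.lf 1813 0 0) P.nil)))))) (P.cons (P.cons (P.lf 0 241999621 0) (P.cons (P.lf 0 5467297 0) (P.cons (P.lf 0 2299547 0) (P.cons (P.lf 311982 0 0) (P.cons (P.lf 5227 0 0) P.nil))))) (P.cons (P.cons (P.lf 0 5410811 0) (P.cons (P.lf 217237 0 0) (P.cons (P.lf 61945 0 0) (P.cons (P.lf 0 37769 0) P.nil)))) (P.cons (P.cons (P.lf 5867445 0 0) (P.cons (P.lf 250618 0 0) (P.cons (P.lf 116962 0 0) P.nil))) (P.cons (P.cons (P.lf 171401 0 0) (P.cons (P.lf 0 27912 0) P.nil)) (P.cons (P.cons (P.lf 0 97546 0) P.nil) P.nil)))))) 148599)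
 (EL.cons 8 (TM.mk (P.cons (P.cons (P.lf 156147539 0 0) (P.cons (P.lf 0 2457653 0) (P.cons (P.lf 0 1050097 0) (P.cons (P.lf 126091 0 0) (P.cons (P.lf 871 0 0) (P.cons (P.lf 0 399 0) P.nil)))))) (P.cons (P.cons (P.lf 12360847 0 0) (P.cons (P.lf 1849199 0 0) (P.cons (P.lf 782077 0 0) (P.cons (P.lf 0 101809 0) (P.cons (P.lf 0 1380 0) P.nil))))) (P.cons (P.cons (P.lf 0 10286042 0) (P.cons (P.lf 0 403272 0) (P.cons (P.lf 0 163397 0) (P.cons (P.lf 28375 0 0) P.nil)))) (P.cons (P.cons (P.lf 0 977310 0) (P.cons (P.lf 0 19736 0) (P.cons (P.lf 0 12522 0) P.nil))) (P.cons (P.cons (P.lf 263353 0 0) (P.cons (P.lf 17780 0 0) P.nil)) (P.cons (P.cons (P.lf 14093 0 0) P.nil) P.nil)))))) 51510)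
 EL.nil))
noncomputable def S401_430_216_364_18 : EL := (EL.cons 4 (TM.mk (P.cons (P.lf 0 2377926426 0) (P.cons (P.lf 0 224771707 0) (P.cons (P.lf 25531065 0 0) (P.cons (P.lf 650420 0 0) (P.cons (P.lf 0 209580 0) (P.cons (P.lf 9701 0 0) P.nil)))))) 1817)
 (EL.cons 8 (TM.mk (P.cons (P.lf 523909239 0 0) (P.cons (P.lf 0 87897477 0) (P.cons (P.lf 0 10203278 0) (P.cons (P.lf 1362537 0 0) (P.cons (P.lf 0 9310 0) (P.cons (P.lf 0 8089 0) P.nil)))))) 965)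
 EL.nil))
noncomputable def S401_430_216_364_19 : EL := (EL.cons 4 (TM.mk (P.cons (P.cons (P.lf 0 1189093036 0) (P.cons (P.lf 9357746 0 0) (P.cons (P.lf 4035165 0 0) (P.lf 0 448350 0)))) (P.cons (P.cons (P.lf 0 277944699 0) (P.cons (P.lf 0 5594445 0) (P.cons (P.lf 0 2412388 0) (P.lf 268042 0 0)))) (P.cons (P.cons (P.lf 9689646 0 0) (P.cons (P.lf 872739 0 0) (P.cons (P.lf 376333 0 0) (P.lf 0 41813 0)))) (P.cons (P.cons (P.lf 5098157 0 0) (P.cons (P.lf 72273 0 0) (P.cons (P.lf 31165 0 0) P.nil))) (P.cons (P.cons (P.lf 0 245697 0) (P.cons (P.lf 0 29553 0) P.nil)) (P.cons (P.cons (P.lf 0 49983 0) P.nil) P.nil)))))) 53395)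
 (EL.cons 8 (TM.mk (P.cons (P.cons (P.lf 261983222 0 0) (P.cons (P.lf 0 2061716 0) (P.cons (P.lf 0 889035 0) (P.lf 98781 0 0)))) (P.cons (P.cons (P.lf 0 7480003 0) (P.cons (P.lf 1773360 0 0) (P.cons (P.lf 764692 0 0) (P.lf 0 84965 0)))) (P.cons (P.cons (P.lf 0 13991087 0) (P.cons (P.lf 0 548685 0) (P.cons (P.lf 0 236598 0) (P.lf 26288 0 0)))) (P.cons (P.cons (P.lf 37506 0 0) (P.cons (P.lf 57309 0 0) (P.cons (P.lf 24712 0 0) P.nil))) (P.cons (P.cons (P.lf 259862 0 0) (P.cons (P.lf 5528 0 0) P.nil)) (P.cons (P.cons (P.lf 0 13138 0) P.nil) P.nil)))))) 18475)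
 EL.nil))
noncomputable def S401_430_216_364_20 : EL := (EL.cons 4 (TM.mk (P.cons (P.cons (P.lf 0 594611436 0) (P.cons (P.lf 9358768 0 0) (P.cons (P.lf 3998780 0 0) (P.cons (P.lf 0 480158 0) (P.cons (P.lf 0 3317 0) (P.cons (P.lf 1520 0 0) P.nil)))))) (P.cons (P.cons (P.lf 0 221769849 0) (P.cons (P.lf 0 4292120 0) (P.cons (P.lf 0 1803299 0) (P.cons (P.lf 246619 0 0) (P.cons (P.lf 4281 0 0) P.nil))))) (P.cons (P.cons (P.lf 0 8218483 0) (P.cons (P.lf 0 5052 0) (P.cons (P.lf 0 27097 0) (P.cons (P.lf 0 21245 0) P.nil)))) (P.cons (P.cons (P.lf 5596999 0 0) (P.cons (P.lf 238724 0 0) (P.cons (P.lf 109333 0 0) P.nil))) (P.cons (P.cons (P.lf 281047 0 0) (P.cons (P.lf 0 18469 0) P.nil)) (P.cons (P.cons (P.lf 0 100574 0) P.nil) P.nil)))))) 139552)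
 (EL.cons 8 (TM.mk (P.cons (P.cons (P.lf 131005914 0 0) (P.cons (P.lf 0 2061941 0) (P.cons (P.lf 0 881018 0) (P.cons (P.lf 105789 0 0) (P.cons (P.lf 731 0 0) (P.cons (P.lf 0 335 0) P.nil)))))) (P.cons (P.cons (P.lf 14498347 0 0) (P.cons (P.lf 1486488 0 0) (P.cons (P.lf 628394 0 0) (P.cons (P.lf 0 82084 0) (P.cons (P.lf 0 1135 0) P.nil))))) (P.cons (P.cons (P.lf 0 8902022 0) (P.cons (P.lf 0 280031 0) (P.cons (P.lf 0 112386 0) (P.cons (P.lf 20631 0 0) P.nil)))) (P.cons (P.cons (P.lf 0 1114842 0) (P.cons (P.lf 0 34696 0) (P.cons (P.lf 0 17989 0) P.nil))) (P.cons (P.cons (P.lf 236667 0 0) (P.cons (P.lf 16229 0 0) P.nil)) (P.cons (P.cons (P.lf 20862 0 0) P.nil) P.nil)))))) 47885)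
 EL.nil))
noncomputable def S401_430_216_364_21 : EL := (EL.cons 4 (TM.mk (P.cons (P.cons (P.lf 0 1019047737 0) (P.cons (P.lf 0 39882375 0) (P.cons (P.lf 0 17197731 0) (P.lf 1910853 0 0)))) (P.cons (P.cons (P.lf 329416128 0 0) (P.cons (P.lf 26356557 0 0) (P.cons (P.lf 11365245 0 0) (P.lf 0 1262799 0)))) (P.cons (P.cons (P.lf 14788260 0 0) (P.cons (P.lf 0 5705538 0) (P.cons (P.lf 0 2460285 0) (P.lf 273360 0 0)))) (P.cons (P.cons (P.lf 0 12392697 0) (P.cons (P.lf 269715 0 0) (P.cons (P.lf 116301 0 0) P.nil))) (P.cons (P.cons (P.lf 787383 0 0) (P.cons (P.lf 61620 0 0) P.nil)) (P.cons (P.cons (P.lf 61368 0 0) P.nil) P.nil)))))) 125817)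
 (EL.cons 8 (TM.mk (P.cons (P.cons (P.lf 0 1644539643 0) (P.cons (P.lf 0 64362210 0) (P.cons (P.lf 0 27753711 0) (P.lf 3083745 0 0)))) (P.cons (P.cons (P.lf 100254774 0 0) (P.cons (P.lf 25652259 0 0) (P.cons (P.lf 11061543 0 0) (P.lf 0 1229061 0)))) (P.cons (P.cons (P.lf 76564539 0 0) (P.cons (P.lf 0 1445790 0) (P.cons (P.lf 0 623442 0) (P.lf 69273 0 0)))) (P.cons (P.cons (P.lf 0 3926547 0) (P.cons (P.lf 0 449718 0) (P.cons (P.lf 0 193923 0) P.nil))) (P.cons (P.cons (P.lf 0 623928 0) (P.cons (P.lf 50679 0 0) P.nil)) (P.cons (P.cons (P.lf 77031 0 0) P.nil) P.nil)))))) 73221)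
 (EL.cons 11 (TM.mk (P.cons (P.cons (P.lf 152845878 0 0) (P.cons (P.lf 142390074 0 0) (P.cons (P.lf 0 14613852 0) (P.cons (P.lf 0 3039273 0) (P.lf 253272 0 0))))) (P.cons (P.cons (P.lf 0 70550142 0) (P.cons (P.lf 0 65723982 0) (P.cons (P.lf 6745416 0 0) (P.cons (P.lf 1402857 0 0) (P.lf 0 116904 0))))) (P.cons (P.cons (P.lf 9125004 0 0) (P.cons (P.lf 8500785 0 0) (P.cons (P.lf 0 872457 0) (P.cons (P.lf 0 181446 0) P.nil)))) (P.cons (P.cons (P.lf 0 95034 0) (P.cons (P.lf 0 88533 0) (P.cons (P.lf 9084 0 0) P.nil))) (P.cons (P.cons (P.lf 0 39387 0) (P.cons (P.lf 0 36693 0) P.nil)) (P.cons (P.cons (P.lf 3114 0 0) P.nil) P.nil)))))) 25638)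
 EL.nil)))
noncomputable def S401_430_216_364_22 : EL := (EL.cons 4 (TM.mk (P.cons (P.cons (P.lf 0 509579502 0) (P.cons (P.lf 0 15933150 0) (P.cons (P.lf 0 6713607 0) (P.cons (P.lf 898746 0 0) (P.cons (P.lf 14142 0 0) (P.cons (P.lf 0 6483 0) P.nil)))))) (P.cons (P.cons (P.lf 93781941 0 0) (P.cons (P.lf 6330315 0 0) (P.cons (P.lf 2517318 0 0) (P.cons (P.lf 0 486462 0) (P.cons (P.lf 0 19137 0) P.nil))))) (P.cons (P.cons (P.lf 35715426 0 0) (P.cons (P.lf 711504 0 0) (P.cons (P.lf 427671 0 0) (P.cons (P.lf 70137 0 0) P.nil)))) (P.cons (P.cons (P.lf 0 6134469 0) (P.cons (P.lf 0 563928 0) (P.cons (P.lf 0 279780 0) P.nil))) (P.cons (P.cons (P.lf 0 892707 0) (P.cons (P.lf 28680 0 0) P.nil)) (P.cons (P.cons (P.lf 172071 0 0) P.nil) P.nil)))))) 357117)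
 (EL.cons 8 (TM.mk (P.cons (P.cons (P.lf 0 822359604 0) (P.cons (P.lf 0 25712934 0) (P.cons (P.lf 0 10834425 0) (P.cons (P.lf 1450401 0 0) (P.cons (P.lf 22824 0 0) (P.cons (P.lf 0 10464 0) P.nil)))))) (P.cons (P.cons (P.lf 0 64356762 0) (P.cons (P.lf 3471459 0 0) (P.cons (P.lf 1220619 0 0) (P.cons (P.lf 0 404622 0) (P.cons (P.lf 0 24900 0) P.nil))))) (P.cons (P.cons (P.lf 53959833 0 0) (P.cons (P.lf 2471592 0 0) (P.cons (P.lf 1184277 0 0) (P.cons (P.lf 0 16221 0) P.nil)))) (P.cons (P.cons (P.lf 4086645 0 0) (P.cons (P.lf 0 355029 0) (P.cons (P.lf 0 176280 0) P.nil))) (P.cons (P.cons (P.lf 0 1219863 0) (P.cons (P.lf 0 78036 0) P.nil)) (P.cons (P.cons (P.lf 0 30507 0) P.nil) P.nil)))))) 286797)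
 (EL.cons 11 (TM.mk (P.cons (P.cons (P.lf 76431282 0 0) (P.cons (P.lf 70601322 0 0) (P.cons (P.lf 0 8127432 0) (P.cons (P.lf 0 1675098 0) (P.cons (P.lf 190254 0 0) (P.cons (P.lf 1404 0 0) P.nil)))))) (P.cons (P.cons (P.lf 0 24638091 0) (P.cons (P.lf 0 22258578 0) (P.cons (P.lf 3301584 0 0) (P.cons (P.lf 669120 0 0) (P.cons (P.lf 0 114222 0) P.nil))))) (P.cons (P.cons (P.lf 0 1156578 0) (P.cons (P.lf 0 1407513 0) (P.cons (P.lf 0 339213 0) (P.cons (P.lf 0 62217 0) P.nil)))) (P.cons (P.cons (P.lf 844539 0 0) (P.cons (P.lf 868341 0 0) (P.cons (P.lf 30420 0 0) P.nil))) (P.cons (P.cons (P.lf 0 6660 0) (P.cons (P.lf 0 16590 0) P.nil)) (P.cons (P.cons (P.lf 0 14433 0) P.nil) P.nil)))))) 215472)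
 EL.nil)))
noncomputable def S401_430_216_364_23 : EL := (EL.cons 4 (TM.mk (P.cons (P.cons (P.lf 0 854968839 0) (P.cons (P.lf 0 33460833 0) (P.cons (P.lf 0 14428689 0) (P.lf 1603182 0 0)))) (P.cons (P.cons (P.lf 249437754 0 0) (P.cons (P.lf 21058548 0 0) (P.cons (P.lf 9080682 0 0) (P.lf 0 1008960 0)))) (P.cons (P.cons (P.lf 25023879 0 0) (P.cons (P.lf 0 3937173 0) (P.cons (P.lf 0 1697745 0) (P.lf 188634 0 0)))) (P.cons (P.cons (P.lf 0 11429334 0) (P.cons (P.lf 0 31869 0) (P.cons (P.lf 0 13743 0) P.nil))) (P.cons (P.cons (P.lf 326742 0 0) (P.cons (P.lf 84792 0 0) P.nil)) (P.cons (P.cons (P.lf 122991 0 0) P.nil) P.nil)))))) 149487)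
 (EL.cons 8 (TM.mk (P.cons (P.cons (P.lf 0 1379749053 0) (P.cons (P.lf 0 53999121 0) (P.cons (P.lf 0 23285028 0) (P.lf 2587224 0 0)))) (P.cons (P.cons (P.lf 40639305 0 0) (P.cons (P.lf 19820529 0 0) (P.cons (P.lf 8546835 0 0) (P.lf 0 949647 0)))) (P.cons (P.cons (P.lf 73194693 0 0) (P.cons (P.lf 0 288018 0) (P.cons (P.lf 0 124197 0) (P.lf 13800 0 0)))) (P.cons (P.cons (P.lf 0 1912188 0) (P.cons (P.lf 0 523986 0) (P.cons (P.lf 0 225948 0) P.nil))) (P.cons (P.cons (P.lf 0 906993 0) (P.cons (P.lf 40119 0 0) P.nil)) (P.cons (P.cons (P.lf 76077 0 0) P.nil) P.nil)))))) 90828)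
 (EL.cons 11 (TM.mk (P.cons (P.cons (P.lf 128235858 0 0) (P.cons (P.lf 119463564 0 0) (P.cons (P.lf 0 12260844 0) (P.cons (P.lf 0 2549913 0) (P.lf 212490 0 0))))) (P.cons (P.cons (P.lf 0 55150257 0) (P.cons (P.lf 0 51377565 0) (P.cons (P.lf 5273007 0 0) (P.cons (P.lf 1096635 0 0) (P.lf 0 91383 0))))) (P.cons (P.cons (P.lf 5204532 0 0) (P.cons (P.lf 4848501 0 0) (P.cons (P.lf 0 497613 0) (P.cons (P.lf 0 103488 0) P.nil)))) (P.cons (P.cons (P.lf 456000 0 0) (P.cons (P.lf 424806 0 0) (P.cons (P.lf 0 43599 0) P.nil))) (P.cons (P.cons (P.lf 0 81432 0) (P.cons (P.lf 0 75861 0) P.nil)) (P.cons (P.cons (P.lf 3213 0 0) P.nil) P.nil)))))) 46713)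
 EL.nil)))
noncomputable def S401_430_216_364_24 : EL := (EL.cons 4 (TM.mk (P.cons (P.cons (P.lf 0 427531095 0) (P.cons (P.lf 0 13367721 0) (P.cons (P.lf 0 5632635 0) (P.cons (P.lf 754038 0 0) (P.cons (P.lf 11865 0 0) (P.cons (P.lf 0 5439 0) P.nil)))))) (P.cons (P.cons (P.lf 65211240 0 0) (P.cons (P.lf 4889865 0 0) (P.cons (P.lf 1934526 0 0) (P.cons (P.lf 0 384378 0) (P.cons (P.lf 0 15684 0) P.nil))))) (P.cons (P.cons (P.lf 34398456 0 0) (P.cons (P.lf 825399 0 0) (P.cons (P.lf 451104 0 0) (P.cons (P.lf 42537 0 0) P.nil)))) (P.cons (P.cons (P.lf 0 4642047 0) (P.cons (P.lf 0 481092 0) (P.cons (P.lf 0 234132 0) P.nil))) (P.cons (P.cons (P.lf 0 1033992 0) (P.cons (P.lf 7398 0 0) P.nil)) (P.cons (P.cons (P.lf 150231 0 0) P.nil) P.nil)))))) 312000)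
 (EL.cons 8 (TM.mk (P.cons (P.cons (P.lf 0 689949855 0) (P.cons (P.lf 0 21572844 0) (P.cons (P.lf 0 9089952 0) (P.cons (P.lf 1216869 0 0) (P.cons (P.lf 19149 0 0) (P.cons (P.lf 0 8778 0) P.nil)))))) (P.cons (P.cons (P.lf 0 75733551 0) (P.cons (P.lf 2232795 0 0) (P.cons (P.lf 737679 0 0) (P.cons (P.lf 0 301131 0) (P.cons (P.lf 0 20286 0) P.nil))))) (P.cons (P.cons (P.lf 46724601 0 0) (P.cons (P.lf 2264028 0 0) (P.cons (P.lf 1067415 0 0) (P.cons (P.lf 0 29868 0) P.nil)))) (P.cons (P.cons (P.lf 4973247 0 0) (P.cons (P.lf 0 249867 0) (P.cons (P.lf 0 122967 0) P.nil))) (P.cons (P.cons (P.lf 0 1133328 0) (P.cons (P.lf 0 83820 0) P.nil)) (P.cons (P.cons (P.lf 0 64743 0) P.nil) P.nil)))))) 248391)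
 (EL.cons 11 (TM.mk (P.cons (P.cons (P.lf 64124931 0 0) (P.cons (P.lf 59233662 0 0) (P.cons (P.lf 0 6818817 0) (P.cons (P.lf 0 1405386 0) (P.cons (P.lf 159621 0 0) (P.cons (P.lf 1179 0 0) P.nil)))))) (P.cons (P.cons (P.lf 0 18650610 0) (P.cons (P.lf 0 16808340 0) (P.cons (P.lf 2555142 0 0) (P.cons (P.lf 517101 0 0) (P.cons (P.lf 0 90801 0) P.nil))))) (P.cons (P.cons (P.lf 0 1914819 0) (P.cons (P.lf 0 2040084 0) (P.cons (P.lf 0 166143 0) (P.cons (P.lf 0 28086 0) P.nil)))) (P.cons (P.cons (P.lf 784443 0 0) (P.cons (P.lf 787743 0 0) (P.cons (P.lf 2619 0 0) P.nil))) (P.cons (P.cons (P.lf 17397 0 0) (P.cons (P.lf 11025 0 0) P.nil)) (P.cons (P.cons (P.lf 0 15768 0) P.nil) P.nil)))))) 182280)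
 EL.nil)))
noncomputable def S401_430_216_364_25 : EL := (EL.cons 4 (TM.mk (P.cons (P.cons (P.lf 0 717308613 0) (P.cons (P.lf 0 28073238 0) (P.cons (P.lf 0 12105498 0) (P.lf 1345050 0 0)))) (P.cons (P.cons (P.lf 186674268 0 0) (P.cons (P.lf 16783335 0 0) (P.cons (P.lf 7237164 0 0) (P.lf 0 804123 0)))) (P.cons (P.cons (P.lf 30867888 0 0) (P.cons (P.lf 0 2618217 0) (P.cons (P.lf 0 1128999 0) (P.lf 125439 0 0)))) (P.cons (P.cons (P.lf 0 10018074 0) (P.cons (P.lf 0 216822 0) (P.cons (P.lf 0 93498 0) P.nil))) (P.cons (P.cons (P.lf 0 85860 0) (P.cons (P.lf 88659 0 0) P.nil)) (P.cons (P.cons (P.lf 160257 0 0) P.nil) P.nil)))))) 153807)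
 (EL.cons 8 (TM.mk (P.cons (P.cons (P.lf 0 1157592924 0) (P.cons (P.lf 0 45304617 0) (P.cons (P.lf 0 19535862 0) (P.lf 2170650 0 0)))) (P.cons (P.cons (P.lf 0 2377641 0) (P.cons (P.lf 15201723 0 0) (P.cons (P.lf 6555153 0 0) (P.lf 0 728349 0)))) (P.cons (P.cons (P.lf 67775886 0 0) (P.cons (P.lf 489423 0 0) (P.cons (P.lf 211044 0 0) (P.lf 0 23448 0)))) (P.cons (P.cons (P.lf 0 41157 0) (P.cons (P.lf 0 531705 0) (P.cons (P.lf 0 229275 0) P.nil))) (P.cons (P.cons (P.lf 0 1087353 0) (P.cons (P.lf 23958 0 0) P.nil)) (P.cons (P.cons (P.lf 59349 0 0) P.nil) P.nil)))))) 97827)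
 (EL.cons 11 (TM.mk (P.cons (P.cons (P.lf 107588349 0 0) (P.cons (P.lf 100228500 0 0) (P.cons (P.lf 0 10286703 0) (P.cons (P.lf 0 2139345 0) (P.lf 178278 0 0))))) (P.cons (P.cons (P.lf 0 42880500 0) (P.cons (P.lf 0 39947151 0) (P.cons (P.lf 4099875 0 0) (P.cons (P.lf 852657 0 0) (P.lf 0 71052 0))))) (P.cons (P.cons (P.lf 2416791 0 0) (P.cons (P.lf 2251464 0 0) (P.cons (P.lf 0 231072 0) (P.cons (P.lf 0 48054 0) P.nil)))) (P.cons (P.cons (P.lf 751755 0 0) (P.cons (P.lf 700329 0 0) (P.cons (P.lf 0 71877 0) P.nil))) (P.cons (P.cons (P.lf 0 84720 0) (P.cons (P.lf 0 78924 0) P.nil)) (P.cons (P.cons (P.lf 0 510 0) P.nil) P.nil)))))) 56790)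
 EL.nil)))
noncomputable def S401_430_216_364_26 : EL := (EL.cons 4 (TM.mk (P.cons (P.cons (P.lf 0 358693467 0) (P.cons (P.lf 0 11215359 0) (P.cons (P.lf 0 4725714 0) (P.cons (P.lf 632628 0 0) (P.cons (P.lf 9954 0 0) (P.cons (P.lf 0 4563 0) P.nil)))))) (P.cons (P.cons (P.lf 43409706 0 0) (P.cons (P.lf 3749163 0 0) (P.cons (P.lf 1474146 0 0) (P.cons (P.lf 0 302556 0) (P.cons (P.lf 0 12843 0) P.nil))))) (P.cons (P.cons (P.lf 32223570 0 0) (P.cons (P.lf 873033 0 0) (P.cons (P.lf 451215 0 0) (P.cons (P.lf 22635 0 0) P.nil)))) (P.cons (P.cons (P.lf 0 3302316 0) (P.cons (P.lf 0 402657 0) (P.cons (P.lf 0 192810 0) P.nil))) (P.cons (P.cons (P.lf 0 1112406 0) (P.cons (P.lf 0 8922 0) P.nil)) (P.cons (P.cons (P.lf 122172 0 0) P.nil) P.nil)))))) 274392)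
 (EL.cons 8 (TM.mk (P.cons (P.cons (P.lf 0 578859660 0) (P.cons (P.lf 0 18099357 0) (P.cons (P.lf 0 7626360 0) (P.cons (P.lf 1020939 0 0) (P.cons (P.lf 16065 0 0) (P.cons (P.lf 0 7365 0) P.nil)))))) (P.cons (P.cons (P.lf 0 81778299 0) (P.cons (P.lf 1303011 0 0) (P.cons (P.lf 378612 0 0) (P.cons (P.lf 0 220479 0) (P.cons (P.lf 0 16515 0) P.nil))))) (P.cons (P.cons (P.lf 39845718 0 0) (P.cons (P.lf 2041260 0 0) (P.cons (P.lf 949914 0 0) (P.cons (P.lf 0 37686 0) P.nil)))) (P.cons (P.cons (P.lf 5590188 0 0) (P.cons (P.lf 0 161724 0) (P.cons (P.lf 0 79203 0) P.nil))) (P.cons (P.cons (P.lf 0 1011180 0) (P.cons (P.lf 0 85287 0) P.nil)) (P.cons (P.cons (P.lf 0 95787 0) P.nil) P.nil)))))) 216015)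
 (EL.cons 11 (TM.mk (P.cons (P.cons (P.lf 53800047 0 0) (P.cons (P.lf 49696332 0 0) (P.cons (P.lf 0 5720907 0) (P.cons (P.lf 0 1179102 0) (P.cons (P.lf 133920 0 0) (P.cons (P.lf 987 0 0) P.nil)))))) (P.cons (P.cons (P.lf 0 13952502 0) (P.cons (P.lf 0 12536160 0) (P.cons (P.lf 1963479 0 0) (P.cons (P.lf 396690 0 0) (P.cons (P.lf 0 71961 0) P.nil))))) (P.cons (P.cons (P.lf 0 2345493 0) (P.cons (P.lf 0 2383128 0) (P.cons (P.lf 0 45693 0) (P.cons (P.lf 0 4503 0) P.nil)))) (P.cons (P.cons (P.lf 689091 0 0) (P.cons (P.lf 680712 0 0) (P.cons (P.lf 0 13059 0) P.nil))) (P.cons (P.cons (P.lf 39828 0 0) (P.cons (P.lf 35331 0 0) P.nil)) (P.cons (P.cons (P.lf 0 16128 0) P.nil) P.nil)))))) 156297)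
 EL.nil)))
noncomputable def S401_430_216_364_27 : EL := (EL.cons 13 (TM.mk (P.lf 0 4294967296 0) 0)
 EL.nil)
noncomputable def S401_430_216_364_28 : EL := (EL.cons 13 (TM.mk (P.cons (P.cons (P.lf 0 2147718134 0) (P.cons (P.lf 16901792 0 0) (P.cons (P.lf 7288244 0 0) (P.lf 0 809804 0)))) (P.cons (P.cons (P.lf 0 299007201 0) (P.cons (P.lf 0 11702216 0) (P.cons (P.lf 0 5046128 0) (P.lf 560680 0 0)))) (P.cons (P.cons (P.lf 22705304 0 0) (P.cons (P.lf 2863940 0 0) (P.cons (P.lf 1234960 0 0) (P.lf 0 137216 0)))) (P.cons (P.cons (P.lf 3264197 0 0) (P.cons (P.lf 0 261192 0) (P.cons (P.lf 0 112628 0) P.nil))) (P.cons (P.cons (P.lf 0 401035 0) (P.cons (P.lf 0 2632 0) P.nil)) (P.cons (P.cons (P.lf 6476 0 0) P.nil) P.nil)))))) 27405)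
 EL.nil)
noncomputable def S401_430_216_364_29 : EL := (EL.cons 13 (TM.mk (P.cons (P.cons (P.lf 0 1073976322 0) (P.cons (P.lf 16903637 0 0) (P.cons (P.lf 7222526 0 0) (P.cons (P.lf 0 867254 0) (P.cons (P.lf 0 5994 0) (P.cons (P.lf 2748 0 0) P.nil)))))) (P.cons (P.cons (P.lf 0 299039849 0) (P.cons (P.lf 0 9350154 0) (P.cons (P.lf 0 3939790 0) (P.cons (P.lf 527418 0 0) (P.cons (P.lf 8300 0 0) P.nil))))) (P.cons (P.cons (P.lf 1891488 0 0) (P.cons (P.lf 1056179 0 0) (P.cons (P.lf 401008 0 0) (P.cons (P.lf 0 97539 0) P.nil)))) (P.cons (P.cons (P.lf 6425950 0 0) (P.cons (P.lf 235579 0 0) (P.cons (P.lf 119247 0 0) P.nil))) (P.cons (P.cons (P.lf 0 66616 0) (P.cons (P.lf 0 48336 0) P.nil)) (P.cons (P.cons (P.lf 0 83874 0) P.nil) P.nil)))))) 173343)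
 EL.nil)
noncomputable def S401_430_216_364_30 : EL := (EL.cons 13 (TM.mk (P.cons (P.lf 0 3603426100 0) (P.cons (P.lf 0 113537048 0) (P.cons (P.lf 16473628 0 0) (P.cons (P.lf 0 671992 0) (P.cons (P.lf 0 4560 0) (P.cons (P.lf 2084 0 0) P.nil)))))) 368)
 EL.nil)
noncomputable def S401_430_216_364_31 : EL := (EL.cons 13 (TM.mk (P.cons (P.cons (P.lf 0 1801909780 0) (P.cons (P.lf 14180400 0 0) (P.cons (P.lf 6114749 0 0) (P.lf 0 679415 0)))) (P.cons (P.cons (P.lf 0 307638181 0) (P.cons (P.lf 0 9371221 0) (P.cons (P.lf 0 4040976 0) (P.lf 448996 0 0)))) (P.cons (P.cons (P.lf 19382964 0 0) (P.cons (P.lf 2028636 0 0) (P.cons (P.lf 874768 0 0) (P.lf 0 97195 0)))) (P.cons (P.cons (P.lf 4149663 0 0) (P.cons (P.lf 0 95899 0) (P.cons (P.lf 0 41352 0) P.nil))) (P.cons (P.cons (P.lf 0 386325 0) (P.cons (P.lf 0 21910 0) P.nil)) (P.cons (P.cons (P.lf 0 13410 0) P.nil) P.nil))))))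 43867)
 EL.nil)
noncomputable def S401_430_216_364_32 : EL := (EL.cons 13 (TM.mk (P.cons (P.cons (P.lf 0 901053266 0) (P.cons (P.lf 14181948 0 0) (P.cons (P.lf 6059612 0 0) (P.cons (P.lf 0 727615 0) (P.cons (P.lf 0 5028 0) (P.cons (P.lf 2305 0 0) P.nil)))))) (P.cons (P.cons (P.lf 0 279281311 0) (P.cons (P.lf 0 7397821 0) (P.cons (P.lf 0 3114509 0) (P.cons (P.lf 419571 0 0) (P.cons (P.lf 6805 0 0) P.nil))))) (P.cons (P.cons (P.lf 0 2198847 0) (P.cons (P.lf 574116 0 0) (P.cons (P.lf 204590 0 0) (P.cons (P.lf 0 64565 0) P.nil)))) (P.cons (P.cons (P.lf 6420248 0 0) (P.cons (P.lf 264075 0 0) (P.cons (P.lf 126888 0 0) P.nil))) (P.cons (P.cons (P.lf 58796 0 0) (P.cons (P.lf 0 39821 0) P.nil)) (P.cons (P.cons (P.lf 0 96277 0) P.nil) P.nil)))))) 168868)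
 EL.nil)
noncomputable def S401_430_216_364_33 : EL := (EL.cons 14 (TM.mk (P.lf 8589934592 0 0) 0)
 EL.nil)
noncomputable def S401_430_216_364_34 : EL := (EL.cons 14 (TM.mk (P.cons (P.cons (P.lf 4295436268 0 0) (P.cons (P.lf 0 33803584 0) (P.cons (P.lf 0 14576488 0) (P.lf 1619608 0 0)))) (P.cons (P.cons (P.lf 598014402 0 0) (P.cons (P.lf 23404432 0 0) (P.cons (P.lf 10092256 0 0) (P.lf 0 1121360 0)))) (P.cons (P.cons (P.lf 0 45410608 0) (P.cons (P.lf 0 5727880 0) (P.cons (P.lf 0 2469920 0) (P.lf 274432 0 0)))) (P.cons (P.cons (P.lf 0 6528394 0) (P.cons (P.lf 522384 0 0) (P.cons (P.lf 225256 0 0) P.nil))) (P.cons (P.cons (P.lf 802070 0 0) (P.cons (P.lf 5264 0 0) P.nil)) (P.cons (P.cons (P.lf 0 12952 0) P.nil) P.nil)))))) 54810)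
 EL.nil)
noncomputable def S401_430_216_364_35 : EL := (EL.cons 14 (TM.mk (P.cons (P.cons (P.lf 2147952644 0 0) (P.cons (P.lf 0 33807274 0) (P.cons (P.lf 0 14445052 0) (P.cons (P.lf 1734508 0 0) (P.cons (P.lf 11988 0 0) (P.cons (P.lf 0 5496 0) P.nil)))))) (P.cons (P.cons (P.lf 598079698 0 0) (P.cons (P.lf 18700308 0 0) (P.cons (P.lf 7879580 0 0) (P.cons (P.lf 0 1054836 0) (P.cons (P.lf 0 16600 0) P.nil))))) (P.cons (P.cons (P.lf 0 3782976 0) (P.cons (P.lf 0 2112358 0) (P.cons (P.lf 0 802016 0) (P.cons (P.lf 195078 0 0) P.nil)))) (P.cons (P.cons (P.lf 0 12851900 0) (P.cons (P.lf 0 471158 0) (P.cons (P.lf 0 238494 0) P.nil))) (P.cons (P.cons (P.lf 133232 0 0) (P.cons (P.lf 96672 0 0) P.nil)) (P.cons (P.cons (P.lf 167748 0 0) P.nil) P.nil)))))) 346686)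
 EL.nil)
noncomputable def S401_430_216_364_36 : EL := (EL.cons 14 (TM.mk (P.cons (P.lf 7206852200 0 0) (P.cons (P.lf 227074096 0 0) (P.cons (P.lf 0 32947256 0) (P.cons (P.lf 1343984 0 0) (P.cons (P.lf 9120 0 0) (P.cons (P.lf 0 4168 0) P.nil)))))) 736)
 EL.nil)
noncomputable def S401_430_216_364_37 : EL := (EL.cons 14 (TM.mk (P.cons (P.cons (P.lf 3603819560 0 0) (P.cons (P.lf 0 28360800 0) (P.cons (P.lf 0 12229498 0) (P.lf 1358830 0 0)))) (P.cons (P.cons (P.lf 615276362 0 0) (P.cons (P.lf 18742442 0 0) (P.cons (P.lf 8081952 0 0) (P.lf 0 897992 0)))) (P.cons (P.cons (P.lf 0 38765928 0) (P.cons (P.lf 0 4057272 0) (P.cons (P.lf 0 1749536 0) (P.lf 194390 0 0)))) (P.cons (P.cons (P.lf 0 8299326 0) (P.cons (P.lf 191798 0 0) (P.cons (P.lf 82704 0 0) P.nil))) (P.cons (P.cons (P.lf 772650 0 0) (P.cons (P.lf 43820 0 0) P.nil)) (P.cons (P.cons (P.lf 26820 0 0) P.nil) P.nil))))))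 87734)
 EL.nil)
noncomputable def S401_430_216_364_38 : EL := (EL.cons 14 (TM.mk (P.cons (P.cons (P.lf 1802106532 0 0) (P.cons (P.lf 0 28363896 0) (P.cons (P.lf 0 12119224 0) (P.cons (P.lf 1455230 0 0) (P.cons (P.lf 10056 0 0) (P.cons (P.lf 0 4610 0) P.nil)))))) (P.cons (P.cons (P.lf 558562622 0 0) (P.cons (P.lf 14795642 0 0) (P.cons (P.lf 6229018 0 0) (P.cons (P.lf 0 839142 0) (P.cons (P.lf 0 13610 0) P.nil))))) (P.cons (P.cons (P.lf 4397694 0 0) (P.cons (P.lf 0 1148232 0) (P.cons (P.lf 0 409180 0) (P.cons (P.lf 129130 0 0) P.nil)))) (P.cons (P.cons (P.lf 0 12840496 0) (P.cons (P.lf 0 528150 0) (P.cons (P.lf 0 253776 0) P.nil))) (P.cons (P.cons (P.lf 0 117592 0) (P.cons (P.lf 79642 0 0) P.nil)) (P.cons (P.cons (P.lf 192554 0 0) P.nil) P.nil)))))) 337736)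
 EL.nil)
noncomputable def S401_430_216_364_39 : EL := (EL.cons 14 (TM.mk (P.cons (P.lf 6046462644 0 0) (P.cons (P.lf 381024890 0 0) (P.cons (P.lf 0 49282024 0) (P.cons (P.lf 513256 0 0) (P.cons (P.lf 212730 0 0) (P.cons (P.lf 0 16820 0) P.nil)))))) 1830)
 EL.nil)
noncomputable def S401_430_216_364_40 : EL := (EL.cons 14 (TM.mk (P.cons (P.cons (P.lf 3023561430 0 0) (P.cons (P.lf 0 23794372 0) (P.cons (P.lf 0 10260402 0) (P.lf 1140042 0 0)))) (P.cons (P.cons (P.lf 611476118 0 0) (P.cons (P.lf 14974970 0 0) (P.cons (P.lf 6457376 0 0) (P.lf 0 717484 0)))) (P.cons (P.cons (P.lf 0 30082064 0) (P.cons (P.lf 0 2799768 0) (P.cons (P.lf 0 1207286 0) (P.lf 134140 0 0)))) (P.cons (P.cons (P.lf 0 9783888 0) (P.cons (P.lf 0 22660 0) (P.cons (P.lf 0 9772 0) P.nil))) (P.cons (P.cons (P.lf 677634 0 0) (P.cons (P.lf 60298 0 0) P.nil)) (P.cons (P.cons (P.lf 67600 0 0) P.nil) P.nil))))))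 102596)
 EL.nil)
noncomputable def S401_430_216_364_41 : EL := (EL.cons 14 (TM.mk (P.cons (P.cons (P.lf 1511945786 0 0) (P.cons (P.lf 0 23796970 0) (P.cons (P.lf 0 10167884 0) (P.cons (P.lf 1220920 0 0) (P.cons (P.lf 8438 0 0) (P.cons (P.lf 0 3868 0) P.nil)))))) (P.cons (P.cons (P.lf 516265860 0 0) (P.cons (P.lf 11663568 0 0) (P.cons (P.lf 4905702 0 0) (P.cons (P.lf 0 665562 0) (P.cons (P.lf 0 11152 0) P.nil))))) (P.cons (P.cons (P.lf 11543064 0 0) (P.cons (P.lf 0 463440 0) (P.cons (P.lf 0 132150 0) (P.cons (P.lf 80574 0 0) P.nil)))) (P.cons (P.cons (P.lf 0 12517216 0) (P.cons (P.lf 0 534652 0) (P.cons (P.lf 0 249520 0) P.nil))) (P.cons (P.cons (P.lf 0 365656 0) (P.cons (P.lf 59546 0 0) P.nil)) (P.cons (P.cons (P.lf 208100 0 0) P.nil) P.nil)))))) 316966)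
 EL.nil)
noncomputable def S401_430_216_364_42 : EL := (EL.cons 14 (TM.mk (P.cons (P.lf 5072909710 0 0) (P.cons (P.lf 479512976 0 0) (P.cons (P.lf 0 54466274 0) (P.cons (P.lf 0 1387564 0) (P.cons (P.lf 447104 0 0) (P.cons (P.lf 0 20696 0) P.nil)))))) 3862)
 EL.nil)
noncomputable def S401_430_216_364_43 : EL := (EL.cons 14 (TM.mk (P.cons (P.cons (P.lf 2536731812 0 0) (P.cons (P.lf 0 19963192 0) (P.cons (P.lf 0 8608354 0) (P.lf 956482 0 0)))) (P.cons (P.cons (P.lf 592948692 0 0) (P.cons (P.lf 11934818 0 0) (P.cons (P.lf 5146428 0 0) (P.lf 0 571824 0)))) (P.cons (P.cons (P.lf 0 20671246 0) (P.cons (P.lf 0 1861844 0) (P.cons (P.lf 0 802844 0) (P.lf 89202 0 0)))) (P.cons (P.cons (P.lf 0 10876070 0) (P.cons (P.lf 0 154184 0) (P.cons (P.lf 0 66486 0) P.nil))) (P.cons (P.cons (P.lf 524154 0 0) (P.cons (P.lf 63048 0 0) P.nil)) (P.cons (P.cons (P.lf 106632 0 0) P.nil) P.nil))))))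 113870)
 EL.nil)
noncomputable def S401_430_216_364_44 : EL := (EL.cons 14 (TM.mk (P.cons (P.cons (P.lf 1268504398 0 0) (P.cons (P.lf 0 19965372 0) (P.cons (P.lf 0 8530732 0) (P.cons (P.lf 1024338 0 0) (P.cons (P.lf 7078 0 0) (P.cons (P.lf 0 3244 0) P.nil)))))) (P.cons (P.cons (P.lf 473109012 0 0) (P.cons (P.lf 9156524 0 0) (P.cons (P.lf 3847038 0 0) (P.cons (P.lf 0 526122 0) (P.cons (P.lf 0 9134 0) P.nil))))) (P.cons (P.cons (P.lf 17532764 0 0) (P.cons (P.lf 10778 0 0) (P.cons (P.lf 57808 0 0) (P.cons (P.lf 45324 0 0) P.nil)))) (P.cons (P.cons (P.lf 0 11940266 0) (P.cons (P.lf 0 509278 0) (P.cons (P.lf 0 233244 0) P.nil))) (P.cons (P.cons (P.lf 0 599568 0) (P.cons (P.lf 39402 0 0) P.nil)) (P.cons (P.cons (P.lf 214558 0 0) P.nil) P.nil)))))) 297666)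
 EL.nil)
noncomputable def S401_430_216_364_45 : EL := (EL.cons 14 (TM.mk (P.cons (P.cons (P.lf 1074093590 0 0) (P.cons (P.lf 0 25358224 0) (P.cons (P.lf 0 10735192 0) (P.cons (P.lf 1386552 0 0) (P.cons (P.lf 17306 0 0) (P.cons (P.lf 0 8462 0) P.nil)))))) (P.cons (P.cons (P.lf 448608752 0 0) (P.cons (P.lf 10496368 0 0) (P.cons (P.lf 4277598 0 0) (P.cons (P.lf 0 716176 0) (P.cons (P.lf 0 20992 0) P.nil))))) (P.cons (P.cons (P.lf 28390308 0 0) (P.cons (P.lf 636458 0 0) (P.cons (P.lf 397164 0 0) (P.cons (P.lf 74312 0 0) P.nil)))) (P.cons (P.cons (P.lf 0 11484212 0) (P.cons (P.lf 0 683742 0) (P.cons (P.lf 0 322476 0) P.nil))) (P.cons (P.cons (P.lf 0 1062084 0) (P.cons (P.lf 14006 0 0) P.nil)) (P.cons (P.cons (P.lf 216580 0 0) P.nil) P.nil)))))) 462090)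
 EL.nil)
noncomputable def S401_430_216_364_46 : EL := (EL.cons 15 (TM.mk (P.lf 4294967296 0 0) 0)
 EL.nil)
noncomputable def S401_430_216_364_47 : EL := (EL.cons 15 (TM.mk (P.cons (P.cons (P.lf 2147718134 0 0) (P.cons (P.lf 0 16901792 0) (P.cons (P.lf 0 7288244 0) (P.lf 809804 0 0)))) (P.cons (P.cons (P.lf 299007201 0 0) (P.cons (P.lf 11702216 0 0) (P.cons (P.lf 5046128 0 0) (P.lf 0 560680 0)))) (P.cons (P.cons (P.lf 0 22705304 0) (P.cons (P.lf 0 2863940 0) (P.cons (P.lf 0 1234960 0) (P.lf 137216 0 0)))) (P.cons (P.cons (P.lf 0 3264197 0) (P.cons (P.lf 261192 0 0) (P.cons (P.lf 112628 0 0) P.nil))) (P.cons (P.cons (P.lf 401035 0 0) (P.cons (P.lf 2632 0 0) P.nil)) (P.cons (P.cons (P.lf 0 6476 0) P.nil) P.nil)))))) 27405)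
 EL.nil)
noncomputable def S401_430_216_364_48 : EL := (EL.cons 15 (TM.mk (P.cons (P.cons (P.lf 1073976322 0 0) (P.cons (P.lf 0 16903637 0) (P.cons (P.lf 0 7222526 0) (P.cons (P.lf 867254 0 0) (P.cons (P.lf 5994 0 0) (P.cons (P.lf 0 2748 0) P.nil)))))) (P.cons (P.cons (P.lf 299039849 0 0) (P.cons (P.lf 9350154 0 0) (P.cons (P.lf 3939790 0 0) (P.cons (P.lf 0 527418 0) (P.cons (P.lf 0 8300 0) P.nil))))) (P.cons (P.cons (P.lf 0 1891488 0) (P.cons (P.lf 0 1056179 0) (P.cons (P.lf 0 401008 0) (P.cons (P.lf 97539 0 0) P.nil)))) (P.cons (P.cons (P.lf 0 6425950 0) (P.cons (P.lf 0 235579 0) (P.cons (P.lf 0 119247 0) P.nil))) (P.cons (P.cons (P.lf 66616 0 0) (P.cons (P.lf 48336 0 0) P.nil)) (P.cons (P.cons (P.lf 83874 0 0) P.nil) P.nil)))))) 173343)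
 EL.nil)
noncomputable def S401_430_216_364 : SL := (SL.cons S401_430_216_364_0 (SL.cons S401_430_216_364_1 (SL.cons S401_430_216_364_2 (SL.cons S401_430_216_364_3 (SL.cons S401_430_216_364_4 (SL.cons S401_430_216_364_5 (SL.cons S401_430_216_364_6 (SL.cons S401_430_216_364_7 (SL.cons S401_430_216_364_8 (SL.cons S401_430_216_364_9 (SL.cons S401_430_216_364_10 (SL.cons S401_430_216_364_11 (SL.cons S401_430_216_364_12 (SL.cons S401_430_216_364_13 (SL.cons S401_430_216_364_14 (SL.cons S401_430_216_364_15 (SL.cons S401_430_216_364_16 (SL.cons S401_430_216_364_17 (SL.cons S401_430_216_364_18 (SL.cons S401_430_216_364_19 (SL.cons S401_430_216_364_20 (SL.cons S401_430_216_364_21 (SL.cons S401_430_216_364_22 (SL.cons S401_430_216_364_23 (SL.cons S401_430_216_364_24 (SL.cons S401_430_216_364_25 (SL.cons S401_430_216_364_26 (SL.cons S401_430_216_364_27 (SL.cons S401_430_216_364_28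 (SL.cons S401_430_216_364_29 (SL.cons S401_430_216_364_30 (SL.cons S401_430_216_364_31 (SL.cons S401_430_216_364_32 (SL.cons S401_430_216_364_33 (SL.cons S401_430_216_364_34 (SL.cons S401_430_216_364_35 (SL.cons S401_430_216_364_36 (SL.cons S401_430_216_364_37 (SL.cons S401_430_216_364_38 (SL.cons S401_430_216_364_39 (SL.cons S401_430_216_364_40 (SL.cons S401_430_216_364_41 (SL.cons S401_430_216_364_42 (SL.cons S401_430_216_364_43 (SL.cons S401_430_216_364_44 (SL.cons S401_430_216_364_45 (SL.cons S401_430_216_364_46 (SL.cons S401_430_216_364_47 (SL.cons S401_430_216_364_48 SL.nil)))))))))))))))))))))))))))))))))))))))))))))))))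
noncomputable def S401_430_364_512_0 : EL := (EL.cons 0 (TM.mk (P.cons (P.lf 3141443055 0 0) (P.cons (P.lf 0 334885157 0) (P.cons (P.lf 43314278 0 0) (P.cons (P.lf 0 451103 0) (P.cons (P.lf 0 186969 0) (P.cons (P.lf 14783 0 0) P.nil)))))) 1615)
 (EL.cons 1 (TM.mk (P.cons (P.lf 1170850837 0 0) (P.cons (P.lf 0 233327645 0) (P.cons (P.lf 0 10098210 0) (P.cons (P.lf 2078180 0 0) (P.cons (P.lf 0 90420 0) (P.cons (P.lf 0 2872 0) P.nil)))))) 983)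
 (EL.cons 5 (TM.mk (P.cons (P.lf 6184486878 0 0) (P.cons (P.lf 119070280 0 0) (P.cons (P.lf 0 15400634 0) (P.cons (P.lf 160396 0 0) (P.cons (P.lf 66480 0 0) (P.cons (P.lf 0 5256 0) P.nil)))))) 413)
 (EL.cons 9 (TM.mk (P.lf 6442450944 0 0) 2)
 EL.nil))))
noncomputable def S401_430_364_512_1 : EL := (EL.cons 0 (TM.mk (P.cons (P.cons (P.lf 3342295672 0 0) (P.cons (P.lf 108304682 0 0) (P.cons (P.lf 7240984 0 0) (P.lf 0 2413654 0)))) (P.cons (P.cons (P.lf 0 515390887 0) (P.cons (P.lf 0 63653378 0) (P.cons (P.lf 0 4255705 0) (P.lf 1418562 0 0)))) (P.cons (P.cons (P.lf 0 51131790 0) (P.cons (P.lf 9039355 0 0) (P.cons (P.lf 604332 0 0) (P.lf 0 201441 0)))) (P.cons (P.cons (P.lf 25587211 0 0) (P.cons (P.lf 1276792 0 0) (P.cons (P.lf 85372 0 0) P.nil))) (P.cons (P.cons (P.lf 0 1109753 0) (P.cons (P.lf 0 444612 0) P.nil)) (P.cons (P.cons (P.lf 0 253616 0) P.nil) P.nil))))))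 365180)
 (EL.cons 1 (TM.mk (P.cons (P.cons (P.lf 1833080526 0 0) (P.cons (P.lf 84072108 0 0) (P.cons (P.lf 5620870 0 0) (P.lf 0 1873623 0)))) (P.cons (P.cons (P.lf 0 3192594 0) (P.cons (P.lf 0 17867539 0) (P.cons (P.lf 0 1194585 0) (P.lf 398197 0 0)))) (P.cons (P.cons (P.lf 0 117882416 0) (P.cons (P.lf 0 6819065 0) (P.cons (P.lf 0 455904 0) (P.lf 151963 0 0)))) (P.cons (P.cons (P.lf 3078832 0 0) (P.cons (P.lf 2083212 0 0) (P.cons (P.lf 139269 0 0) P.nil))) (P.cons (P.cons (P.lf 1829149 0 0) (P.cons (P.lf 0 84739 0) P.nil)) (P.cons (P.cons (P.lf 0 169065 0) P.nil) P.nil)))))) 149414)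
 (EL.cons 5 (TM.mk (P.cons (P.cons (P.lf 2366736229 0 0) (P.cons (P.lf 0 100281426 0) (P.cons (P.lf 0 6704580 0) (P.lf 2234854 0 0)))) (P.cons (P.cons (P.lf 758038303 0 0) (P.cons (P.lf 65401872 0 0) (P.cons (P.lf 4372610 0 0) (P.lf 0 1457538 0)))) (P.cons (P.cons (P.lf 0 36687824 0) (P.cons (P.lf 0 13681200 0) (P.cons (P.lf 0 914686 0) (P.lf 304896 0 0)))) (P.cons (P.cons (P.lf 0 13163051 0) (P.cons (P.lf 500658 0 0) (P.cons (P.lf 33474 0 0) P.nil))) (P.cons (P.cons (P.lf 1091294 0 0) (P.cons (P.lf 167708 0 0) P.nil)) (P.cons (P.cons (P.lf 67608 0 0) P.nil) P.nil)))))) 114696)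
 (EL.cons 9 (TM.mk (P.cons (P.cons (P.lf 3136860009 0 0) (P.cons (P.lf 0 54505668 0) (P.cons (P.lf 0 3644118 0) (P.lf 1214706 0 0)))) (P.cons (P.cons (P.lf 507166063 0 0) (P.cons (P.lf 37737840 0 0) (P.cons (P.lf 2523060 0 0) (P.lf 0 841020 0)))) (P.cons (P.cons (P.lf 0 48412950 0) (P.cons (P.lf 0 9235764 0) (P.cons (P.lf 0 617478 0) (P.lf 205824 0 0)))) (P.cons (P.cons (P.lf 0 3587101 0) (P.cons (P.lf 842310 0 0) (P.cons (P.lf 56310 0 0) P.nil))) (P.cons (P.cons (P.lf 614746 0 0) (P.cons (P.lf 8490 0 0) P.nil)) (P.cons (P.cons (P.lf 0 19908 0) P.nil) P.nil)))))) 37130)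
 (EL.cons 2 (TM.mk (P.cons (P.cons (P.lf 0 282300150 0) (P.cons (P.lf 0 43707150 0) (P.cons (P.lf 21056726 0 0) (P.cons (P.lf 796845 0 0) (P.lf 0 199209 0))))) (P.cons (P.cons (P.lf 121408520 0 0) (P.cons (P.lf 18797087 0 0) (P.cons (P.lf 0 9055842 0) (P.cons (P.lf 0 342697 0) (P.lf 85671 0 0))))) (P.cons (P.cons (P.lf 0 11457326 0) (P.cons (P.lf 0 1773877 0) (P.cons (P.lf 854597 0 0) (P.cons (P.lf 32338 0 0) P.nil)))) (P.cons (P.cons (P.lf 0 1003840 0) (P.cons (P.lf 0 155421 0) (P.cons (P.lf 74877 0 0) P.nil))) (P.cons (P.cons (P.lf 179271 0 0) (P.cons (P.lf 27753 0 0) P.nil)) (P.cons (P.cons (P.lf 0 7073 0) P.nil) P.nil)))))) 39044)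
 (EL.cons 6 (TM.mk (P.cons (P.cons (P.lf 62196900 0 0) (P.cons (P.lf 9629640 0 0) (P.cons (P.lf 0 4639257 0) (P.cons (P.lf 0 175563 0) (P.lf 43890 0 0))))) (P.cons (P.cons (P.lf 0 43062990 0) (P.cons (P.lf 0 6667230 0) (P.cons (P.lf 3212061 0 0) (P.cons (P.lf 121551 0 0) (P.lf 0 30387 0))))) (P.cons (P.cons (P.lf 10539018 0 0) (P.cons (P.lf 1631703 0 0) (P.cons (P.lf 0 786102 0) (P.cons (P.lf 0 29748 0) P.nil)))) (P.cons (P.cons (P.lf 0 961173 0) (P.cons (P.lf 0 148812 0) (P.cons (P.lf 71691 0 0) P.nil))) (P.cons (P.cons (P.lf 0 9687 0) (P.cons (P.lf 0 1497 0) P.nil)) (P.cons (P.cons (P.lf 7485 0 0) P.nil) P.nil)))))) 17754)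
 EL.nil))))))
noncomputable def S401_430_364_512_2 : EL := (EL.cons 0 (TM.mk (P.cons (P.cons (P.lf 2509997811 0 0) (P.cons (P.lf 74795617 0 0) (P.cons (P.lf 2943189 0 0) (P.cons (P.lf 0 1941990 0) (P.cons (P.lf 82500 0 0) (P.cons (P.lf 6123 0 0) P.nil)))))) (P.cons (P.cons (P.lf 0 137096655 0) (P.cons (P.lf 0 13551326 0) (P.cons (P.lf 1775216 0 0) (P.cons (P.lf 660507 0 0) (P.cons (P.lf 0 107511 0) P.nil))))) (P.cons (P.cons (P.lf 0 162246777 0) (P.cons (P.lf 0 14692813 0) (P.cons (P.lf 0 2411822 0) (P.cons (P.lf 136301 0 0) P.nil)))) (P.cons (P.cons (P.lf 22721964 0 0) (P.cons (P.lf 5069191 0 0) (P.cons (P.lf 717683 0 0) P.nil))) (P.cons (P.cons (P.lf 4283875 0 0) (P.cons (P.lf 0 91712 0) P.nil)) (P.cons (P.cons (P.lf 0 826632 0) P.nil) P.nil)))))) 1698190)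
 (EL.cons 1 (TM.mk (P.cons (P.cons (P.lf 1507490334 0 0) (P.cons (P.lf 60499474 0 0) (P.cons (P.lf 2538487 0 0) (P.cons (P.lf 0 1549713 0) (P.cons (P.lf 60410 0 0) (P.cons (P.lf 4491 0 0) P.nil)))))) (P.cons (P.cons (P.lf 251058633 0 0) (P.cons (P.lf 10324830 0 0) (P.cons (P.lf 2110301 0 0) (P.cons (P.lf 0 40214 0) (P.cons (P.lf 0 56949 0) P.nil))))) (P.cons (P.cons (P.lf 0 121254495 0) (P.cons (P.lf 0 12672847 0) (P.cons (P.lf 0 1273248 0) (P.cons (P.lf 225458 0 0) P.nil)))) (P.cons (P.cons (P.lf 0 15514993 0) (P.cons (P.lf 372940 0 0) (P.cons (P.lf 17774 0 0) P.nil))) (P.cons (P.cons (P.lf 3767023 0 0) (P.cons (P.lf 635055 0 0) P.nil)) (P.cons (P.cons (P.lf 179461 0 0) P.nil) P.nil)))))) 729612)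
 (EL.cons 5 (TM.mk (P.cons (P.cons (P.lf 838555357 0 0) (P.cons (P.lf 0 86749217 0) (P.cons (P.lf 0 4545677 0) (P.cons (P.lf 2100973 0 0) (P.cons (P.lf 0 50284 0) (P.cons (P.lf 0 3732 0) P.nil)))))) (P.cons (P.cons (P.lf 608479702 0 0) (P.cons (P.lf 36741777 0 0) (P.cons (P.lf 779454 0 0) (P.cons (P.lf 0 1043063 0) (P.cons (P.lf 67248 0 0) P.nil))))) (P.cons (P.cons (P.lf 49505533 0 0) (P.cons (P.lf 2693310 0 0) (P.cons (P.lf 1115965 0 0) (P.cons (P.lf 65122 0 0) P.nil)))) (P.cons (P.cons (P.lf 0 20676518 0) (P.cons (P.lf 0 3094764 0) (P.cons (P.lf 0 480363 0) P.nil))) (P.cons (P.cons (P.lf 0 1072432 0) (P.cons (P.lf 290182 0 0) P.nil)) (P.cons (P.cons (P.lf 442729 0 0) P.nil) P.nil)))))) 598549)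
 (EL.cons 9 (TM.mk (P.cons (P.cons (P.lf 1527352059 0 0) (P.cons (P.lf 0 53078137 0) (P.cons (P.lf 0 3087537 0) (P.cons (P.lf 1244553 0 0) (P.cons (P.lf 0 18492 0) (P.cons (P.lf 0 1374 0) P.nil)))))) (P.cons (P.cons (P.lf 493883136 0 0) (P.cons (P.lf 28167817 0 0) (P.cons (P.lf 1244676 0 0) (P.cons (P.lf 0 713127 0) (P.cons (P.lf 25606 0 0) P.nil))))) (P.cons (P.cons (P.lf 0 7219593 0) (P.cons (P.lf 0 2233051 0) (P.cons (P.lf 228037 0 0) (P.cons (P.lf 100216 0 0) P.nil)))) (P.cons (P.cons (P.lf 0 11115532 0) (P.cons (P.lf 0 1140354 0) (P.cons (P.lf 0 198697 0) P.nil))) (P.cons (P.cons (P.lf 397681 0 0) (P.cons (P.lf 227266 0 0) P.nil)) (P.cons (P.cons (P.lf 131313 0 0) P.nil) P.nil)))))) 244607)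
 (EL.cons 2 (TM.mk (P.cons (P.cons (P.lf 0 274906569 0) (P.cons (P.lf 0 37785695 0) (P.cons (P.lf 21564157 0 0) (P.cons (P.lf 362671 0 0) (P.cons (P.lf 0 247775 0) (P.cons (P.lf 10406 0 0) P.nil)))))) (P.cons (P.cons (P.lf 73782005 0 0) (P.cons (P.lf 6061725 0 0) (P.cons (P.lf 0 6691955 0) (P.cons (P.lf 255639 0 0) (P.cons (P.lf 112432 0 0) P.nil))))) (P.cons (P.cons (P.lf 12200703 0 0) (P.cons (P.lf 4314588 0 0) (P.cons (P.lf 0 372330 0) (P.cons (P.lf 0 244310 0) P.nil)))) (P.cons (P.cons (P.lf 0 4291773 0) (P.cons (P.lf 0 1203631 0) (P.cons (P.lf 200598 0 0) P.nil))) (P.cons (P.cons (P.lf 0 348 0) (P.cons (P.lf 48999 0 0) P.nil)) (P.cons (P.cons (P.lf 74092 0 0) P.nil) P.nil)))))) 293348)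
 (EL.cons 6 (TM.mk (P.cons (P.cons (P.lf 60567930 0 0) (P.cons (P.lf 8325012 0 0) (P.cons (P.lf 0 4751052 0) (P.cons (P.lf 0 79902 0) (P.cons (P.lf 54588 0 0) (P.cons (P.lf 0 2292 0) P.nil)))))) (P.cons (P.cons (P.lf 0 32142552 0) (P.cons (P.lf 0 3519150 0) (P.cons (P.lf 2720568 0 0) (P.cons (P.lf 0 35364 0) (P.cons (P.lf 0 39090 0) P.nil))))) (P.cons (P.cons (P.lf 2548158 0 0) (P.cons (P.lf 0 466632 0) (P.cons (P.lf 0 380970 0) (P.cons (P.lf 67314 0 0) P.nil)))) (P.cons (P.cons (P.lf 1301262 0 0) (P.cons (P.lf 480930 0 0) (P.cons (P.lf 0 35106 0) P.nil))) (P.cons (P.cons (P.lf 0 259332 0) (P.cons (P.lf 0 92556 0) P.nil)) (P.cons (P.cons (P.lf 0 126 0) P.nil) P.nil)))))) 117624)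
 EL.nil))))))
noncomputable def S401_430_364_512_3 : EL := (EL.cons 0 (TM.mk (P.cons (P.lf 5314273808 0 0) (P.cons (P.lf 334885157 0 0) (P.cons (P.lf 0 43314278 0) (P.cons (P.lf 451103 0 0) (P.cons (P.lf 186969 0 0) (P.cons (P.lf 0 14783 0) P.nil)))))) 1615)
 (EL.cons 1 (TM.mk (P.cons (P.lf 0 1170850837 0) (P.cons (P.lf 233327645 0 0) (P.cons (P.lf 10098210 0 0) (P.cons (P.lf 0 2078180 0) (P.cons (P.lf 90420 0 0) (P.cons (P.lf 2872 0 0) P.nil)))))) 983)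
 (EL.cons 5 (TM.mk (P.cons (P.lf 257964066 0 0) (P.cons (P.lf 0 119070280 0) (P.cons (P.lf 15400634 0 0) (P.cons (P.lf 0 160396 0) (P.cons (P.lf 0 66480 0) (P.cons (P.lf 5256 0 0) P.nil)))))) 406)
 EL.nil)))
noncomputable def S401_430_364_512_4 : EL := (EL.cons 0 (TM.mk (P.cons (P.cons (P.lf 2587545195 0 0) (P.cons (P.lf 0 44960844 0) (P.cons (P.lf 0 3005973 0) (P.lf 1001990 0 0)))) (P.cons (P.cons (P.lf 581410276 0 0) (P.cons (P.lf 28296073 0 0) (P.cons (P.lf 1891805 0 0) (P.lf 0 630601 0)))) (P.cons (P.cons (P.lf 0 34661981 0) (P.cons (P.lf 0 5290324 0) (P.cons (P.lf 0 353694 0) (P.lf 117896 0 0)))) (P.cons (P.cons (P.lf 0 8665660 0) (P.cons (P.lf 0 42813 0) (P.cons (P.lf 0 2865 0) P.nil))) (P.cons (P.cons (P.lf 772674 0 0) (P.cons (P.lf 113941 0 0) P.nil)) (P.cons (P.cons (P.lf 43780 0 0) P.nil) P.nil)))))) 76559)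
 (EL.cons 1 (TM.mk (P.cons (P.cons (P.lf 0 570092842 0) (P.cons (P.lf 9905857 0 0) (P.cons (P.lf 662280 0 0) (P.lf 0 220758 0)))) (P.cons (P.cons (P.lf 21435995 0 0) (P.cons (P.lf 0 8832515 0) (P.cons (P.lf 0 590520 0) (P.lf 196839 0 0)))) (P.cons (P.cons (P.lf 32083576 0 0) (P.cons (P.lf 2959831 0 0) (P.cons (P.lf 197885 0 0) (P.lf 0 65960 0)))) (P.cons (P.cons (P.lf 0 1318381 0) (P.cons (P.lf 0 410838 0) (P.cons (P.lf 0 27465 0) P.nil))) (P.cons (P.cons (P.lf 0 437096 0) (P.cons (P.lf 1546 0 0) P.nil)) (P.cons (P.cons (P.lf 44392 0 0) P.nil) P.nil)))))) 31434)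
 (EL.cons 5 (TM.mk (P.cons (P.cons (P.lf 125603930 0 0) (P.cons (P.lf 0 2182476 0) (P.cons (P.lf 0 145914 0) (P.lf 48638 0 0)))) (P.cons (P.cons (P.lf 0 37668300 0) (P.cons (P.lf 2518452 0 0) (P.cons (P.lf 168376 0 0) (P.lf 0 56124 0)))) (P.cons (P.cons (P.lf 0 3813388 0) (P.cons (P.lf 0 1197582 0) (P.cons (P.lf 0 80066 0) (P.lf 26688 0 0)))) (P.cons (P.cons (P.lf 1885420 0 0) (P.cons (P.lf 295992 0 0) (P.cons (P.lf 19788 0 0) P.nil))) (P.cons (P.cons (P.lf 0 69814 0) (P.cons (P.lf 0 37682 0) P.nil)) (P.cons (P.cons (P.lf 0 22200 0) P.nil) P.nil)))))) 18328)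
 EL.nil)))
noncomputable def S401_430_364_512_5 : EL := (EL.cons 0 (TM.mk (P.cons (P.cons (P.lf 1259888062 0 0) (P.cons (P.lf 0 43783298 0) (P.cons (P.lf 0 2546859 0) (P.cons (P.lf 1026609 0 0) (P.cons (P.lf 0 15252 0) (P.cons (P.lf 0 1132 0) P.nil)))))) (P.cons (P.cons (P.lf 486789542 0 0) (P.cons (P.lf 20476121 0 0) (P.cons (P.lf 866218 0 0) (P.cons (P.lf 0 523552 0) (P.cons (P.lf 20160 0 0) P.nil))))) (P.cons (P.cons (P.lf 9448435 0 0) (P.cons (P.lf 0 20956 0) (P.cons (P.lf 273561 0 0) (P.cons (P.lf 37228 0 0) P.nil)))) (P.cons (P.cons (P.lf 0 12757863 0) (P.cons (P.lf 0 1249831 0) (P.cons (P.lf 0 160632 0) P.nil))) (P.cons (P.cons (P.lf 0 122306 0) (P.cons (P.lf 143636 0 0) P.nil)) (P.cons (P.cons (P.lf 214045 0 0) P.nil) P.nil)))))) 278092)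
 (EL.cons 1 (TM.mk (P.cons (P.cons (P.lf 0 277580915 0) (P.cons (P.lf 9646417 0 0) (P.cons (P.lf 561127 0 0) (P.cons (P.lf 0 226185 0) (P.cons (P.lf 3360 0 0) (P.cons (P.lf 249 0 0) P.nil)))))) (P.cons (P.cons (P.lf 0 34441863 0) (P.cons (P.lf 0 7041558 0) (P.cons (P.lf 0 338028 0) (P.cons (P.lf 174676 0 0) (P.cons (P.lf 0 5323 0) P.nil))))) (P.cons (P.cons (P.lf 21593206 0 0) (P.cons (P.lf 1342796 0 0) (P.cons (P.lf 0 1203 0) (P.cons (P.lf 0 42088 0) P.nil)))) (P.cons (P.cons (P.lf 2040110 0 0) (P.cons (P.lf 187644 0 0) (P.cons (P.lf 47315 0 0) P.nil))) (P.cons (P.cons (P.lf 0 624041 0) (P.cons (P.lf 0 95934 0) P.nil)) (P.cons (P.cons (P.lf 0 16942 0) P.nil) P.nil)))))) 99136)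
 (EL.cons 5 (TM.mk (P.cons (P.cons (P.lf 61157150 0 0) (P.cons (P.lf 0 2125316 0) (P.cons (P.lf 0 123628 0) (P.cons (P.lf 49832 0 0) (P.cons (P.lf 0 740 0) (P.cons (P.lf 0 54 0) P.nil)))))) (P.cons (P.cons (P.lf 0 8453014 0) (P.cons (P.lf 2108872 0 0) (P.cons (P.lf 106902 0 0) (P.cons (P.lf 0 51556 0) (P.cons (P.lf 1366 0 0) P.nil))))) (P.cons (P.cons (P.lf 0 5765974 0) (P.cons (P.lf 0 736898 0) (P.cons (P.lf 0 21252 0) (P.cons (P.lf 20166 0 0) P.nil)))) (P.cons (P.cons (P.lf 830950 0 0) (P.cons (P.lf 64266 0 0) (P.cons (P.lf 0 9118 0) P.nil))) (P.cons (P.cons (P.lf 176046 0 0) (P.cons (P.lf 24684 0 0) P.nil)) (P.cons (P.cons (P.lf 0 32332 0) P.nil) P.nil)))))) 35126)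
 EL.nil)))
noncomputable def S401_430_364_512_6 : EL := (EL.cons 12 (TM.mk (P.lf 8589934592 0 0) 0)
 (EL.cons 3 (TM.mk (P.cons (P.lf 3378211968 0 0) (P.cons (P.lf 106440982 0 0) (P.cons (P.lf 0 15444026 0) (P.cons (P.lf 629992 0 0) (P.cons (P.lf 4275 0 0) (P.cons (P.lf 0 1953 0) P.nil)))))) 352)
 (EL.cons 7 (TM.mk (P.cons (P.lf 0 744294039 0) (P.cons (P.lf 171774507 0 0) (P.cons (P.lf 0 2395646 0) (P.cons (P.lf 0 321494 0) (P.cons (P.lf 25565 0 0) (P.cons (P.lf 0 650 0) P.nil)))))) 203)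
 EL.nil)))
noncomputable def S401_430_364_512_7 : EL := (EL.cons 12 (TM.mk (P.cons (P.cons (P.lf 4182480012 0 0) (P.cons (P.lf 0 72674224 0) (P.cons (P.lf 0 4858824 0) (P.lf 1619608 0 0)))) (P.cons (P.cons (P.lf 676221418 0 0) (P.cons (P.lf 50317120 0 0) (P.cons (P.lf 3364080 0 0) (P.lf 0 1121360 0)))) (P.cons (P.cons (P.lf 0 64550600 0) (P.cons (P.lf 0 12314352 0) (P.cons (P.lf 0 823304 0) (P.lf 274432 0 0)))) (P.cons (P.cons (P.lf 0 4782802 0) (P.cons (P.lf 1123080 0 0) (P.cons (P.lf 75080 0 0) P.nil))) (P.cons (P.cons (P.lf 819662 0 0) (P.cons (P.lf 11320 0 0) P.nil)) (P.cons (P.cons (P.lf 0 26544 0) P.nil) P.nil)))))) 49482)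
 (EL.cons 3 (TM.mk (P.cons (P.cons (P.lf 2797184042 0 0) (P.cons (P.lf 57162000 0 0) (P.cons (P.lf 3821712 0 0) (P.lf 0 1273902 0)))) (P.cons (P.cons (P.lf 0 99719798 0) (P.cons (P.lf 0 37775928 0) (P.cons (P.lf 0 2525606 0) (P.lf 841866 0 0)))) (P.cons (P.cons (P.lf 0 20249561 0) (P.cons (P.lf 8177548 0 0) (P.cons (P.lf 546726 0 0) (P.lf 0 182240 0)))) (P.cons (P.cons (P.lf 7901520 0 0) (P.cons (P.lf 0 386582 0) (P.cons (P.lf 0 25838 0) P.nil))) (P.cons (P.cons (P.lf 0 562486 0) (P.cons (P.lf 0 88322 0) P.nil)) (P.cons (P.cons (P.lf 0 29586 0) P.nil) P.nil)))))) 142808)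
 (EL.cons 7 (TM.mk (P.cons (P.cons (P.lf 1497208625 0 0) (P.cons (P.lf 144669119 0 0) (P.cons (P.lf 9672241 0 0) (P.lf 0 3224079 0)))) (P.cons (P.cons (P.lf 0 160927856 0) (P.cons (P.lf 0 60962820 0) (P.cons (P.lf 0 4075831 0) (P.lf 1358611 0 0)))) (P.cons (P.cons (P.lf 0 53784163 0) (P.cons (P.lf 5201773 0 0) (P.cons (P.lf 347777 0 0) (P.lf 0 115927 0)))) (P.cons (P.cons (P.lf 4207763 0 0) (P.cons (P.lf 611972 0 0) (P.cons (P.lf 40913 0 0) P.nil))) (P.cons (P.cons (P.lf 293041 0 0) (P.cons (P.lf 0 86151 0) P.nil)) (P.cons (P.cons (P.lf 0 53915 0) P.nil) P.nil)))))) 74162)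
 (EL.cons 10 (TM.mk (P.cons (P.cons (P.lf 0 358908777 0) (P.cons (P.lf 0 55568091 0) (P.cons (P.lf 26770953 0 0) (P.cons (P.lf 1013091 0 0) (P.lf 0 253272 0))))) (P.cons (P.cons (P.lf 165664038 0 0) (P.cons (P.lf 25648953 0 0) (P.cons (P.lf 0 12356856 0) (P.cons (P.lf 0 467619 0) (P.lf 116904 0 0))))) (P.cons (P.cons (P.lf 0 21427101 0) (P.cons (P.lf 0 3317451 0) (P.cons (P.lf 1598244 0 0) (P.cons (P.lf 60480 0 0) P.nil)))) (P.cons (P.cons (P.lf 223161 0 0) (P.cons (P.lf 34548 0 0) (P.cons (P.lf 0 16644 0) P.nil))) (P.cons (P.cons (P.lf 92493 0 0) (P.cons (P.lf 14319 0 0) P.nil)) (P.cons (P.cons (P.lf 0 7311 0) P.nil) P.nil)))))) 25629)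
 EL.nil))))
noncomputable def S401_430_364_512_8 : EL := (EL.cons 12 (TM.mk (P.cons (P.cons (P.lf 2036469412 0 0) (P.cons (P.lf 0 70770850 0) (P.cons (P.lf 0 4116716 0) (P.cons (P.lf 1659404 0 0) (P.cons (P.lf 0 24656 0) (P.cons (P.lf 0 1832 0) P.nil)))))) (P.cons (P.cons (P.lf 658510848 0 0) (P.cons (P.lf 37557090 0 0) (P.cons (P.lf 1659568 0 0) (P.cons (P.lf 0 950836 0) (P.cons (P.lf 34142 0 0) P.nil))))) (P.cons (P.cons (P.lf 0 9626124 0) (P.cons (P.lf 0 2977402 0) (P.cons (P.lf 304050 0 0) (P.cons (P.lf 133622 0 0) P.nil)))) (P.cons (P.cons (P.lf 0 14820710 0) (P.cons (P.lf 0 1520472 0) (P.cons (P.lf 0 264930 0) P.nil))) (P.cons (P.cons (P.lf 530242 0 0) (P.cons (P.lf 303022 0 0) P.nil)) (P.cons (P.cons (P.lf 175084 0 0) P.nil) P.nil)))))) 326114)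
 (EL.cons 3 (TM.mk (P.cons (P.cons (P.lf 1923030628 0 0) (P.cons (P.lf 36166796 0 0) (P.cons (P.lf 1208989 0 0) (P.cons (P.lf 0 967667 0) (P.cons (P.lf 48480 0 0) (P.cons (P.lf 3600 0 0) P.nil)))))) (P.cons (P.cons (P.lf 59083848 0 0) (P.cons (P.lf 0 7222646 0) (P.cons (P.lf 1153199 0 0) (P.cons (P.lf 379727 0 0) (P.cons (P.lf 0 65611 0) P.nil))))) (P.cons (P.cons (P.lf 0 78172197 0) (P.cons (P.lf 0 7110635 0) (P.cons (P.lf 0 1406430 0) (P.cons (P.lf 33980 0 0) P.nil)))) (P.cons (P.cons (P.lf 9872707 0 0) (P.cons (P.lf 2769133 0 0) (P.cons (P.lf 467144 0 0) P.nil))) (P.cons (P.cons (P.lf 1554004 0 0) (P.cons (P.lf 0 183756 0) P.nil)) (P.cons (P.cons (P.lf 0 351127 0) P.nil) P.nil)))))) 818054)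
 (EL.cons 7 (TM.mk (P.cons (P.cons (P.lf 1634450435 0 0) (P.cons (P.lf 109414118 0 0) (P.cons (P.lf 4920536 0 0) (P.cons (P.lf 0 2758588 0) (P.cons (P.lf 96024 0 0) (P.cons (P.lf 7130 0 0) P.nil)))))) (P.cons (P.cons (P.lf 95349520 0 0) (P.cons (P.lf 0 11655919 0) (P.cons (P.lf 1861035 0 0) (P.cons (P.lf 612814 0 0) (P.cons (P.lf 0 105877 0) P.nil))))) (P.cons (P.cons (P.lf 0 113649399 0) (P.cons (P.lf 0 13003792 0) (P.cons (P.lf 0 2025621 0) (P.cons (P.lf 135194 0 0) P.nil)))) (P.cons (P.cons (P.lf 0 4450923 0) (P.cons (P.lf 2257295 0 0) (P.cons (P.lf 389692 0 0) P.nil))) (P.cons (P.cons (P.lf 2579348 0 0) (P.cons (P.lf 247629 0 0) P.nil)) (P.cons (P.cons (P.lf 0 51404 0) P.nil) P.nil)))))) 574419)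
 (EL.cons 10 (TM.mk (P.cons (P.cons (P.lf 0 349508778 0) (P.cons (P.lf 0 48039714 0) (P.cons (P.lf 27416088 0 0) (P.cons (P.lf 461088 0 0) (P.cons (P.lf 0 315018 0) (P.cons (P.lf 13230 0 0) P.nil)))))) (P.cons (P.cons (P.lf 104816796 0 0) (P.cons (P.lf 9220356 0 0) (P.cons (P.lf 0 9371802 0) (P.cons (P.lf 310488 0 0) (P.cons (P.lf 152874 0 0) P.nil))))) (P.cons (P.cons (P.lf 10611234 0 0) (P.cons (P.lf 4975314 0 0) (P.cons (P.lf 0 52746 0) (P.cons (P.lf 0 318288 0) P.nil)))) (P.cons (P.cons (P.lf 0 5246424 0) (P.cons (P.lf 0 1635918 0) (P.cons (P.lf 208746 0 0) P.nil))) (P.cons (P.cons (P.lf 194262 0 0) (P.cons (P.lf 134928 0 0) P.nil)) (P.cons (P.cons (P.lf 61782 0 0) P.nil) P.nil)))))) 363552)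
 EL.nil))))
noncomputable def S401_430_364_512_9 : EL := (EL.cons 3 (TM.mk (P.cons (P.lf 3378211968 0 0) (P.cons (P.lf 106440982 0 0) (P.cons (P.lf 0 15444026 0) (P.cons (P.lf 629992 0 0) (P.cons (P.lf 4275 0 0) (P.cons (P.lf 0 1953 0) P.nil)))))) 352)
 (EL.cons 7 (TM.mk (P.cons (P.lf 0 744294039 0) (P.cons (P.lf 171774507 0 0) (P.cons (P.lf 0 2395646 0) (P.cons (P.lf 0 321494 0) (P.cons (P.lf 25565 0 0) (P.cons (P.lf 0 650 0) P.nil)))))) 203)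
 EL.nil))
noncomputable def S401_430_364_512_10 : EL := (EL.cons 3 (TM.mk (P.cons (P.cons (P.lf 1644867476 0 0) (P.cons (P.lf 0 28581000 0) (P.cons (P.lf 0 1910856 0) (P.lf 636951 0 0)))) (P.cons (P.cons (P.lf 317768026 0 0) (P.cons (P.lf 18887964 0 0) (P.cons (P.lf 1262803 0 0) (P.lf 0 420933 0)))) (P.cons (P.cons (P.lf 0 24526643 0) (P.cons (P.lf 0 4088774 0) (P.cons (P.lf 0 273363 0) (P.lf 91120 0 0)))) (P.cons (P.cons (P.lf 0 3589875 0) (P.cons (P.lf 193291 0 0) (P.cons (P.lf 12919 0 0) P.nil))) (P.cons (P.cons (P.lf 430820 0 0) (P.cons (P.lf 44161 0 0) P.nil)) (P.cons (P.cons (P.lf 2967 0 0) P.nil) P.nil)))))) 35101)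
 (EL.cons 7 (TM.mk (P.cons (P.cons (P.lf 0 362400307 0) (P.cons (P.lf 6297020 0 0) (P.cons (P.lf 421003 0 0) (P.lf 0 140334 0)))) (P.cons (P.cons (P.lf 25045111 0 0) (P.cons (P.lf 0 5813118 0) (P.cons (P.lf 0 388651 0) (P.lf 129550 0 0)))) (P.cons (P.cons (P.lf 17949203 0 0) (P.cons (P.lf 2093473 0 0) (P.cons (P.lf 139964 0 0) (P.lf 0 46654 0)))) (P.cons (P.cons (P.lf 0 1221541 0) (P.cons (P.lf 0 354877 0) (P.cons (P.lf 0 23725 0) P.nil))) (P.cons (P.cons (P.lf 0 161522 0) (P.cons (P.lf 22812 0 0) P.nil)) (P.cons (P.cons (P.lf 24136 0 0) P.nil) P.nil)))))) 15859)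
 EL.nil))
noncomputable def S401_430_364_512_11 : EL := (EL.cons 3 (TM.mk (P.cons (P.cons (P.lf 800893798 0 0) (P.cons (P.lf 0 27832450 0) (P.cons (P.lf 0 1619003 0) (P.cons (P.lf 652603 0 0) (P.cons (P.lf 0 9696 0) (P.cons (P.lf 0 720 0) P.nil)))))) (P.cons (P.cons (P.lf 284210898 0 0) (P.cons (P.lf 13893340 0 0) (P.cons (P.lf 601655 0 0) (P.cons (P.lf 0 353377 0) (P.cons (P.lf 13121 0 0) P.nil))))) (P.cons (P.cons (P.lf 712713 0 0) (P.cons (P.lf 0 578315 0) (P.cons (P.lf 147540 0 0) (P.cons (P.lf 37784 0 0) P.nil)))) (P.cons (P.cons (P.lf 0 6982499 0) (P.cons (P.lf 0 707573 0) (P.cons (P.lf 0 103708 0) P.nil))) (P.cons (P.cons (P.lf 91498 0 0) (P.cons (P.lf 108402 0 0) P.nil)) (P.cons (P.cons (P.lf 101231 0 0) P.nil) P.nil)))))) 154078)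
 (EL.cons 7 (TM.mk (P.cons (P.cons (P.lf 0 176454433 0) (P.cons (P.lf 6132098 0 0) (P.cons (P.lf 356702 0 0) (P.cons (P.lf 0 143782 0) (P.cons (P.lf 2136 0 0) (P.cons (P.lf 158 0 0) P.nil)))))) (P.cons (P.cons (P.lf 0 16334486 0) (P.cons (P.lf 0 4669435 0) (P.cons (P.lf 0 226119 0) (P.cons (P.lf 115570 0 0) (P.cons (P.lf 0 3451 0) P.nil))))) (P.cons (P.cons (P.lf 13434489 0 0) (P.cons (P.lf 1028756 0 0) (P.cons (P.lf 7989 0 0) (P.cons (P.lf 0 31054 0) P.nil)))) (P.cons (P.cons (P.lf 831807 0 0) (P.cons (P.lf 64379 0 0) (P.cons (P.lf 28726 0 0) P.nil))) (P.cons (P.cons (P.lf 0 358216 0) (P.cons (P.lf 0 57447 0) P.nil)) (P.cons (P.cons (P.lf 1732 0 0) P.nil) P.nil)))))) 55643)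
 EL.nil))
noncomputable def S401_430_364_512_12 : EL := (EL.cons 4 (TM.mk (P.cons (P.lf 0 3378211968 0) (P.cons (P.lf 0 106440982 0) (P.cons (P.lf 15444026 0 0) (P.cons (P.lf 0 629992 0) (P.cons (P.lf 0 4275 0) (P.cons (P.lf 1953 0 0) P.nil)))))) 352)
 (EL.cons 8 (TM.mk (P.cons (P.lf 744294039 0 0) (P.cons (P.lf 0 171774507 0) (P.cons (P.lf 2395646 0 0) (P.cons (P.lf 321494 0 0) (P.cons (P.lf 0 25565 0) (P.cons (P.lf 650 0 0) P.nil)))))) 203)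
 EL.nil))
noncomputable def S401_430_364_512_13 : EL := (EL.cons 4 (TM.mk (P.cons (P.cons (P.lf 0 1644867476 0) (P.cons (P.lf 28581000 0 0) (P.cons (P.lf 1910856 0 0) (P.lf 0 636951 0)))) (P.cons (P.cons (P.lf 0 317768026 0) (P.cons (P.lf 0 18887964 0) (P.cons (P.lf 0 1262803 0) (P.lf 420933 0 0)))) (P.cons (P.cons (P.lf 24526643 0 0) (P.cons (P.lf 4088774 0 0) (P.cons (P.lf 273363 0 0) (P.lf 0 91120 0)))) (P.cons (P.cons (P.lf 3589875 0 0) (P.cons (P.lf 0 193291 0) (P.cons (P.lf 0 12919 0) P.nil))) (P.cons (P.cons (P.lf 0 430820 0) (P.cons (P.lf 0 44161 0) P.nil)) (P.cons (P.cons (P.lf 0 2967 0) P.nil) P.nil)))))) 35101)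
 (EL.cons 8 (TM.mk (P.cons (P.cons (P.lf 362400307 0 0) (P.cons (P.lf 0 6297020 0) (P.cons (P.lf 0 421003 0) (P.lf 140334 0 0)))) (P.cons (P.cons (P.lf 0 25045111 0) (P.cons (P.lf 5813118 0 0) (P.cons (P.lf 388651 0 0) (P.lf 0 129550 0)))) (P.cons (P.cons (P.lf 0 17949203 0) (P.cons (P.lf 0 2093473 0) (P.cons (P.lf 0 139964 0) (P.lf 46654 0 0)))) (P.cons (P.cons (P.lf 1221541 0 0) (P.cons (P.lf 354877 0 0) (P.cons (P.lf 23725 0 0) P.nil))) (P.cons (P.cons (P.lf 161522 0 0) (P.cons (P.lf 0 22812 0) P.nil)) (P.cons (P.cons (P.lf 0 24136 0) P.nil) P.nil)))))) 15859)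
 EL.nil))
noncomputable def S401_430_364_512_14 : EL := (EL.cons 4 (TM.mk (P.cons (P.cons (P.lf 0 800893798 0) (P.cons (P.lf 27832450 0 0) (P.cons (P.lf 1619003 0 0) (P.cons (P.lf 0 652603 0) (P.cons (P.lf 9696 0 0) (P.cons (P.lf 720 0 0) P.nil)))))) (P.cons (P.cons (P.lf 0 284210898 0) (P.cons (P.lf 0 13893340 0) (P.cons (P.lf 0 601655 0) (P.cons (P.lf 353377 0 0) (P.cons (P.lf 0 13121 0) P.nil))))) (P.cons (P.cons (P.lf 0 712713 0) (P.cons (P.lf 578315 0 0) (P.cons (P.lf 0 147540 0) (P.cons (P.lf 0 37784 0) P.nil)))) (P.cons (P.cons (P.lf 6982499 0 0) (P.cons (P.lf 707573 0 0) (P.cons (P.lf 103708 0 0) P.nil))) (P.cons (P.cons (P.lf 0 91498 0) (P.cons (P.lf 0 108402 0) P.nil)) (P.cons (P.cons (P.lf 0 101231 0) P.nil) P.nil)))))) 154078)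
 (EL.cons 8 (TM.mk (P.cons (P.cons (P.lf 176454433 0 0) (P.cons (P.lf 0 6132098 0) (P.cons (P.lf 0 356702 0) (P.cons (P.lf 143782 0 0) (P.cons (P.lf 0 2136 0) (P.cons (P.lf 0 158 0) P.nil)))))) (P.cons (P.cons (P.lf 16334486 0 0) (P.cons (P.lf 4669435 0 0) (P.cons (P.lf 226119 0 0) (P.cons (P.lf 0 115570 0) (P.cons (P.lf 3451 0 0) P.nil))))) (P.cons (P.cons (P.lf 0 13434489 0) (P.cons (P.lf 0 1028756 0) (P.cons (P.lf 0 7989 0) (P.cons (P.lf 31054 0 0) P.nil)))) (P.cons (P.cons (P.lf 0 831807 0) (P.cons (P.lf 0 64379 0) (P.cons (P.lf 0 28726 0) P.nil))) (P.cons (P.cons (P.lf 358216 0 0) (P.cons (P.lf 57447 0 0) P.nil)) (P.cons (P.cons (P.lf 0 1732 0) P.nil) P.nil)))))) 55643)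
 EL.nil))
noncomputable def S401_430_364_512_15 : EL := (EL.cons 4 (TM.mk (P.cons (P.lf 0 2834279364 0) (P.cons (P.lf 0 178605417 0) (P.cons (P.lf 23100948 0 0) (P.cons (P.lf 0 240588 0) (P.cons (P.lf 0 99717 0) (P.cons (P.lf 7884 0 0) P.nil)))))) 864)
 (EL.cons 8 (TM.mk (P.cons (P.lf 624453780 0 0) (P.cons (P.lf 0 124441411 0) (P.cons (P.lf 0 5385712 0) (P.cons (P.lf 1108363 0 0) (P.cons (P.lf 0 48224 0) (P.cons (P.lf 0 1532 0) P.nil)))))) 521)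
 EL.nil))
noncomputable def S401_430_364_512_16 : EL := (EL.cons 4 (TM.mk (P.cons (P.cons (P.lf 0 1380024104 0) (P.cons (P.lf 23979117 0 0) (P.cons (P.lf 1603185 0 0) (P.lf 0 534394 0)))) (P.cons (P.cons (P.lf 0 310085480 0) (P.cons (P.lf 0 15091239 0) (P.cons (P.lf 0 1008962 0) (P.lf 336320 0 0)))) (P.cons (P.cons (P.lf 18486390 0 0) (P.cons (P.lf 2821506 0 0) (P.cons (P.lf 188637 0 0) (P.lf 0 62878 0)))) (P.cons (P.cons (P.lf 4621685 0 0) (P.cons (P.lf 22833 0 0) (P.cons (P.lf 1528 0 0) P.nil))) (P.cons (P.cons (P.lf 0 412093 0) (P.cons (P.lf 0 60768 0) P.nil)) (P.cons (P.cons (P.lf 0 23349 0) P.nil) P.nil)))))) 40840)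
 (EL.cons 8 (TM.mk (P.cons (P.cons (P.lf 304049516 0 0) (P.cons (P.lf 0 5283124 0) (P.cons (P.lf 0 353216 0) (P.lf 117738 0 0)))) (P.cons (P.cons (P.lf 0 11432531 0) (P.cons (P.lf 4710675 0 0) (P.cons (P.lf 314944 0 0) (P.lf 0 104981 0)))) (P.cons (P.cons (P.lf 0 17111241 0) (P.cons (P.lf 0 1578577 0) (P.cons (P.lf 0 105539 0) (P.lf 35179 0 0)))) (P.cons (P.cons (P.lf 703137 0 0) (P.cons (P.lf 219114 0 0) (P.cons (P.lf 14648 0 0) P.nil))) (P.cons (P.cons (P.lf 233118 0 0) (P.cons (P.lf 0 825 0) P.nil)) (P.cons (P.cons (P.lf 0 23676 0) P.nil) P.nil)))))) 16755)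
 EL.nil))
noncomputable def S401_430_364_512_17 : EL := (EL.cons 4 (TM.mk (P.cons (P.cons (P.lf 0 671940300 0) (P.cons (P.lf 23351092 0 0) (P.cons (P.lf 1358325 0 0) (P.cons (P.lf 0 547525 0) (P.cons (P.lf 8134 0 0) (P.cons (P.lf 603 0 0) P.nil)))))) (P.cons (P.cons (P.lf 0 259621089 0) (P.cons (P.lf 0 10920598 0) (P.cons (P.lf 0 461983 0) (P.cons (P.lf 279227 0 0) (P.cons (P.lf 0 10752 0) P.nil))))) (P.cons (P.cons (P.lf 0 5039165 0) (P.cons (P.lf 11176 0 0) (P.cons (P.lf 0 145899 0) (P.cons (P.lf 0 19855 0) P.nil)))) (P.cons (P.cons (P.lf 6804194 0 0) (P.cons (P.lf 666576 0 0) (P.cons (P.lf 85670 0 0) P.nil))) (P.cons (P.cons (P.lf 65230 0 0) (P.cons (P.lf 0 76605 0) P.nil)) (P.cons (P.cons (P.lf 0 114157 0) P.nil) P.nil)))))) 148326)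
 (EL.cons 8 (TM.mk (P.cons (P.cons (P.lf 148043155 0 0) (P.cons (P.lf 0 5144756 0) (P.cons (P.lf 0 299268 0) (P.cons (P.lf 120632 0 0) (P.cons (P.lf 0 1792 0) (P.cons (P.lf 0 133 0) P.nil)))))) (P.cons (P.cons (P.lf 18368994 0 0) (P.cons (P.lf 3755498 0 0) (P.cons (P.lf 180282 0 0) (P.cons (P.lf 0 93161 0) (P.cons (P.lf 2839 0 0) P.nil))))) (P.cons (P.cons (P.lf 0 11516377 0) (P.cons (P.lf 0 716158 0) (P.cons (P.lf 642 0 0) (P.cons (P.lf 22447 0 0) P.nil)))) (P.cons (P.cons (P.lf 0 1088059 0) (P.cons (P.lf 0 100077 0) (P.cons (P.lf 0 25235 0) P.nil))) (P.cons (P.cons (P.lf 332822 0 0) (P.cons (P.lf 51165 0 0) P.nil)) (P.cons (P.cons (P.lf 9036 0 0) P.nil) P.nil)))))) 52861)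
 EL.nil))
noncomputable def S401_430_364_512_18 : EL := (EL.cons 4 (TM.mk (P.cons (P.lf 0 2377926426 0) (P.cons (P.lf 0 224771707 0) (P.cons (P.lf 25531065 0 0) (P.cons (P.lf 650420 0 0) (P.cons (P.lf 0 209580 0) (P.cons (P.lf 9701 0 0) P.nil)))))) 1817)
 (EL.cons 8 (TM.mk (P.cons (P.lf 523909239 0 0) (P.cons (P.lf 0 87897477 0) (P.cons (P.lf 0 10203278 0) (P.cons (P.lf 1362537 0 0) (P.cons (P.lf 0 9310 0) (P.cons (P.lf 0 8089 0) P.nil)))))) 965)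
 EL.nil))
noncomputable def S401_430_364_512_19 : EL := (EL.cons 4 (TM.mk (P.cons (P.cons (P.lf 0 1157823687 0) (P.cons (P.lf 20118192 0 0) (P.cons (P.lf 1345053 0 0) (P.lf 0 448350 0)))) (P.cons (P.cons (P.lf 0 296638807 0) (P.cons (P.lf 0 12027483 0) (P.cons (P.lf 0 804127 0) (P.lf 268042 0 0)))) (P.cons (P.cons (P.lf 12605952 0 0) (P.cons (P.lf 1876301 0 0) (P.cons (P.lf 125443 0 0) (P.lf 0 41813 0)))) (P.cons (P.cons (P.lf 5339658 0 0) (P.cons (P.lf 155378 0 0) (P.cons (P.lf 10389 0 0) P.nil))) (P.cons (P.cons (P.lf 0 344453 0) (P.cons (P.lf 0 63538 0) P.nil)) (P.cons (P.cons (P.lf 0 44977 0) P.nil) P.nil)))))) 45664)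
 (EL.cons 8 (TM.mk (P.cons (P.cons (P.lf 255093900 0 0) (P.cons (P.lf 0 4432478 0) (P.cons (P.lf 0 296344 0) (P.lf 98781 0 0)))) (P.cons (P.cons (P.lf 0 1554237 0) (P.cons (P.lf 3812541 0 0) (P.cons (P.lf 254897 0 0) (P.lf 0 84965 0)))) (P.cons (P.cons (P.lf 0 15824546 0) (P.cons (P.lf 0 1179617 0) (P.cons (P.lf 0 78865 0) (P.lf 26288 0 0)))) (P.cons (P.cons (P.lf 229011 0 0) (P.cons (P.lf 123210 0 0) (P.cons (P.lf 8237 0 0) P.nil))) (P.cons (P.cons (P.lf 278336 0 0) (P.cons (P.lf 11885 0 0) P.nil)) (P.cons (P.cons (P.lf 0 19235 0) P.nil) P.nil)))))) 17573)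
 EL.nil))
noncomputable def S401_430_364_512_20 : EL := (EL.cons 4 (TM.mk (P.cons (P.cons (P.lf 0 563749860 0) (P.cons (P.lf 19591286 0 0) (P.cons (P.lf 1139617 0 0) (P.cons (P.lf 0 459367 0) (P.cons (P.lf 6825 0 0) (P.cons (P.lf 506 0 0) P.nil)))))) (P.cons (P.cons (P.lf 0 235581660 0) (P.cons (P.lf 0 8544967 0) (P.cons (P.lf 0 351690 0) (P.cons (P.lf 219795 0 0) (P.cons (P.lf 0 8805 0) P.nil))))) (P.cons (P.cons (P.lf 0 8513586 0) (P.cons (P.lf 0 368871 0) (P.cons (P.lf 0 139830 0) (P.cons (P.lf 0 7177 0) P.nil)))) (P.cons (P.cons (P.lf 6466088 0 0) (P.cons (P.lf 605085 0 0) (P.cons (P.lf 70004 0 0) P.nil))) (P.cons (P.cons (P.lf 212590 0 0) (P.cons (P.lf 0 48376 0) P.nil)) (P.cons (P.cons (P.lf 0 120887 0) P.nil) P.nil)))))) 141646)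
 (EL.cons 8 (TM.mk (P.cons (P.cons (P.lf 124206433 0 0) (P.cons (P.lf 0 4316389 0) (P.cons (P.lf 0 251082 0) (P.cons (P.lf 101208 0 0) (P.cons (P.lf 0 1503 0) (P.cons (P.lf 0 111 0) P.nil)))))) (P.cons (P.cons (P.lf 19324872 0 0) (P.cons (P.lf 3014817 0 0) (P.cons (P.lf 143343 0 0) (P.cons (P.lf 0 74972 0) (P.cons (P.lf 2334 0 0) P.nil))))) (P.cons (P.cons (P.lf 0 9744349 0) (P.cons (P.lf 0 481839 0) (P.cons (P.lf 6452 0 0) (P.cons (P.lf 15908 0 0) P.nil)))) (P.cons (P.cons (P.lf 0 1264596 0) (P.cons (P.lf 0 118105 0) (P.cons (P.lf 0 21893 0) P.nil))) (P.cons (P.cons (P.lf 297674 0 0) (P.cons (P.lf 43610 0 0) P.nil)) (P.cons (P.cons (P.lf 18698 0 0) P.nil) P.nil)))))) 48874)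
 EL.nil))
noncomputable def S401_430_364_512_21 : EL := (EL.cons 4 (TM.mk (P.cons (P.cons (P.lf 0 1152316566 0) (P.cons (P.lf 0 85743000 0) (P.cons (P.lf 0 5732568 0) (P.lf 1910853 0 0)))) (P.cons (P.cons (P.lf 417487824 0 0) (P.cons (P.lf 56663892 0 0) (P.cons (P.lf 3788409 0 0) (P.lf 0 1262799 0)))) (P.cons (P.cons (P.lf 0 4277082 0) (P.cons (P.lf 0 12266322 0) (P.cons (P.lf 0 820089 0) (P.lf 273360 0 0)))) (P.cons (P.cons (P.lf 0 11491395 0) (P.cons (P.lf 579873 0 0) (P.cons (P.lf 38757 0 0) P.nil))) (P.cons (P.cons (P.lf 993306 0 0) (P.cons (P.lf 132483 0 0) P.nil)) (P.cons (P.cons (P.lf 32553 0 0) P.nil) P.nil)))))) 107688)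
 (EL.cons 8 (TM.mk (P.cons (P.cons (P.lf 0 1859608932 0) (P.cons (P.lf 0 138372099 0) (P.cons (P.lf 0 9251238 0) (P.lf 3083745 0 0)))) (P.cons (P.cons (P.lf 185972967 0 0) (P.cons (P.lf 55149702 0 0) (P.cons (P.lf 3687180 0 0) (P.lf 0 1229061 0)))) (P.cons (P.cons (P.lf 71733366 0 0) (P.cons (P.lf 0 3108300 0) (P.cons (P.lf 0 207813 0) (P.lf 69273 0 0)))) (P.cons (P.cons (P.lf 0 5429304 0) (P.cons (P.lf 0 966849 0) (P.cons (P.lf 0 64638 0) P.nil))) (P.cons (P.cons (P.lf 0 454563 0) (P.cons (P.lf 108963 0 0) P.nil)) (P.cons (P.cons (P.lf 78051 0 0) P.nil) P.nil)))))) 58284)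
 (EL.cons 11 (TM.mk (P.cons (P.cons (P.lf 358908777 0 0) (P.cons (P.lf 55568091 0 0) (P.cons (P.lf 0 26770953 0) (P.cons (P.lf 0 1013091 0) (P.lf 253272 0 0))))) (P.cons (P.cons (P.lf 0 165664038 0) (P.cons (P.lf 0 25648953 0) (P.cons (P.lf 12356856 0 0) (P.cons (P.lf 467619 0 0) (P.lf 0 116904 0))))) (P.cons (P.cons (P.lf 21427101 0 0) (P.cons (P.lf 3317451 0 0) (P.cons (P.lf 0 1598244 0) (P.cons (P.lf 0 60480 0) P.nil)))) (P.cons (P.cons (P.lf 0 223161 0) (P.cons (P.lf 0 34548 0) (P.cons (P.lf 16644 0 0) P.nil))) (P.cons (P.cons (P.lf 0 92493 0) (P.cons (P.lf 0 14319 0) P.nil)) (P.cons (P.cons (P.lf 7311 0 0) P.nil) P.nil)))))) 25629)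
 EL.nil)))
noncomputable def S401_430_364_512_22 : EL := (EL.cons 4 (TM.mk (P.cons (P.cons (P.lf 0 561068415 0) (P.cons (P.lf 0 31999623 0) (P.cons (P.lf 0 1413996 0) (P.cons (P.lf 810135 0 0) (P.cons (P.lf 0 29088 0) (P.cons (P.lf 0 2160 0) P.nil)))))) (P.cons (P.cons (P.lf 112563525 0 0) (P.cons (P.lf 10557993 0 0) (P.cons (P.lf 0 275772 0) (P.cons (P.lf 0 366552 0) (P.cons (P.lf 39366 0 0) P.nil))))) (P.cons (P.cons (P.lf 39442455 0 0) (P.cons (P.lf 3266160 0 0) (P.cons (P.lf 776985 0 0) (P.cons (P.lf 1902 0 0) P.nil)))) (P.cons (P.cons (P.lf 0 8427603 0) (P.cons (P.lf 0 1738353 0) (P.cons (P.lf 0 285426 0) P.nil))) (P.cons (P.cons (P.lf 0 731253 0) (P.cons (P.lf 146079 0 0) P.nil)) (P.cons (P.cons (P.lf 226179 0 0) P.nil) P.nil)))))) 331977)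
 (EL.cons 8 (TM.mk (P.cons (P.cons (P.lf 0 905452434 0) (P.cons (P.lf 0 51641010 0) (P.cons (P.lf 0 2281917 0) (P.cons (P.lf 1307403 0 0) (P.cons (P.lf 0 46944 0) (P.cons (P.lf 0 3486 0) P.nil)))))) (P.cons (P.cons (P.lf 0 55842003 0) (P.cons (P.lf 3493242 0 0) (P.cons (P.lf 0 1043577 0) (P.cons (P.lf 0 248622 0) (P.cons (P.lf 51213 0 0) P.nil))))) (P.cons (P.cons (P.lf 63541944 0 0) (P.cons (P.lf 7016274 0 0) (P.cons (P.lf 1016805 0 0) (P.cons (P.lf 0 83124 0) P.nil)))) (P.cons (P.cons (P.lf 2641365 0 0) (P.cons (P.lf 0 1096458 0) (P.cons (P.lf 0 180483 0) P.nil))) (P.cons (P.cons (P.lf 0 1468782 0) (P.cons (P.lf 0 152538 0) P.nil)) (P.cons (P.cons (P.lf 26568 0 0) P.nil) P.nil)))))) 259377)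
 (EL.cons 11 (TM.mk (P.cons (P.cons (P.lf 174754389 0 0) (P.cons (P.lf 24019857 0 0) (P.cons (P.lf 0 13708044 0) (P.cons (P.lf 0 230544 0) (P.cons (P.lf 157509 0 0) (P.cons (P.lf 0 6615 0) P.nil)))))) (P.cons (P.cons (P.lf 0 52408398 0) (P.cons (P.lf 0 4610178 0) (P.cons (P.lf 4685901 0 0) (P.cons (P.lf 0 155244 0) (P.cons (P.lf 0 76437 0) P.nil))))) (P.cons (P.cons (P.lf 0 5305617 0) (P.cons (P.lf 0 2487657 0) (P.cons (P.lf 26373 0 0) (P.cons (P.lf 159144 0 0) P.nil)))) (P.cons (P.cons (P.lf 2623212 0 0) (P.cons (P.lf 817959 0 0) (P.cons (P.lf 0 104373 0) P.nil))) (P.cons (P.cons (P.lf 0 97131 0) (P.cons (P.lf 0 67464 0) P.nil)) (P.cons (P.cons (P.lf 0 30891 0) P.nil) P.nil)))))) 181776)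
 EL.nil)))
noncomputable def S401_430_364_512_23 : EL := (EL.cons 4 (TM.mk (P.cons (P.cons (P.lf 0 966779790 0) (P.cons (P.lf 0 71937348 0) (P.cons (P.lf 0 4809555 0) (P.lf 1603182 0 0)))) (P.cons (P.cons (P.lf 319805904 0 0) (P.cons (P.lf 45273717 0 0) (P.cons (P.lf 3026889 0 0) (P.lf 0 1008960 0)))) (P.cons (P.cons (P.lf 11867613 0 0) (P.cons (P.lf 0 8464518 0) (P.cons (P.lf 0 565908 0) (P.lf 188634 0 0)))) (P.cons (P.cons (P.lf 0 11535798 0) (P.cons (P.lf 0 68505 0) (P.cons (P.lf 0 4587 0) P.nil))) (P.cons (P.cons (P.lf 610098 0 0) (P.cons (P.lf 182301 0 0) P.nil)) (P.cons (P.cons (P.lf 97977 0 0) P.nil) P.nil)))))) 127953)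
 (EL.cons 8 (TM.mk (P.cons (P.cons (P.lf 0 1560189612 0) (P.cons (P.lf 0 116092533 0) (P.cons (P.lf 0 7761675 0) (P.lf 2587224 0 0)))) (P.cons (P.cons (P.lf 106870506 0 0) (P.cons (P.lf 42612084 0 0) (P.cons (P.lf 2848944 0 0) (P.lf 0 949647 0)))) (P.cons (P.cons (P.lf 72232263 0 0) (P.cons (P.lf 0 619212 0) (P.cons (P.lf 0 41397 0) (P.lf 13800 0 0)))) (P.cons (P.cons (P.lf 0 3663120 0) (P.cons (P.lf 0 1126521 0) (P.cons (P.lf 0 75312 0) P.nil))) (P.cons (P.cons (P.lf 0 772911 0) (P.cons (P.lf 86262 0 0) P.nil)) (P.cons (P.cons (P.lf 86613 0 0) P.nil) P.nil)))))) 74895)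
 (EL.cons 11 (TM.mk (P.cons (P.cons (P.lf 301120161 0 0) (P.cons (P.lf 46620960 0 0) (P.cons (P.lf 0 22460508 0) (P.cons (P.lf 0 849969 0) (P.lf 212490 0 0))))) (P.cons (P.cons (P.lf 0 129502422 0) (P.cons (P.lf 0 20050227 0) (P.cons (P.lf 9659565 0 0) (P.cons (P.lf 365544 0 0) (P.lf 0 91383 0))))) (P.cons (P.cons (P.lf 12221148 0 0) (P.cons (P.lf 1892136 0 0) (P.cons (P.lf 0 911571 0) (P.cons (P.lf 0 34494 0) P.nil)))) (P.cons (P.cons (P.lf 1070763 0 0) (P.cons (P.lf 165783 0 0) (P.cons (P.lf 0 79869 0) P.nil))) (P.cons (P.cons (P.lf 0 191223 0) (P.cons (P.lf 0 29604 0) P.nil)) (P.cons (P.cons (P.lf 7545 0 0) P.nil) P.nil)))))) 41625)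
 EL.nil)))
noncomputable def S401_430_364_512_24 : EL := (EL.cons 4 (TM.mk (P.cons (P.cons (P.lf 0 470729679 0) (P.cons (P.lf 0 26847300 0) (P.cons (P.lf 0 1186326 0) (P.cons (P.lf 679695 0 0) (P.cons (P.lf 0 24405 0) (P.cons (P.lf 0 1812 0) P.nil)))))) (P.cons (P.cons (P.lf 79607661 0 0) (P.cons (P.lf 8012124 0 0) (P.cons (P.lf 0 268746 0) (P.cons (P.lf 0 286116 0) (P.cons (P.lf 32256 0 0) P.nil))))) (P.cons (P.cons (P.lf 38219367 0 0) (P.cons (P.lf 3142104 0 0) (P.cons (P.lf 650016 0 0) (P.cons (P.lf 0 11199 0) P.nil)))) (P.cons (P.cons (P.lf 0 6547530 0) (P.cons (P.lf 0 1417620 0) (P.cons (P.lf 0 218091 0) P.nil))) (P.cons (P.cons (P.lf 0 970563 0) (P.cons (P.lf 65697 0 0) P.nil)) (P.cons (P.cons (P.lf 209316 0 0) P.nil) P.nil)))))) 293088)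
 (EL.cons 8 (TM.mk (P.cons (P.cons (P.lf 0 759663741 0) (P.cons (P.lf 0 43326189 0) (P.cons (P.lf 0 1914501 0) (P.cons (P.lf 1096896 0 0) (P.cons (P.lf 0 39387 0) (P.cons (P.lf 0 2925 0) P.nil)))))) (P.cons (P.cons (P.lf 0 70786320 0) (P.cons (P.lf 1565664 0 0) (P.cons (P.lf 0 935868 0) (P.cons (P.lf 0 174030 0) (P.cons (P.lf 41727 0 0) P.nil))))) (P.cons (P.cons (P.lf 55307673 0 0) (P.cons (P.lf 6176985 0 0) (P.cons (P.lf 834252 0 0) (P.cons (P.lf 0 81327 0) P.nil)))) (P.cons (P.cons (P.lf 3968316 0 0) (P.cons (P.lf 0 755916 0) (P.cons (P.lf 0 120897 0) P.nil))) (P.cons (P.cons (P.lf 0 1415886 0) (P.cons (P.lf 0 183381 0) P.nil)) (P.cons (P.cons (P.lf 0 16344 0) P.nil) P.nil)))))) 226062)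
 (EL.cons 11 (TM.mk (P.cons (P.cons (P.lf 146616837 0 0) (P.cons (P.lf 20152371 0 0) (P.cons (P.lf 0 11500884 0) (P.cons (P.lf 0 193425 0) (P.cons (P.lf 132147 0 0) (P.cons (P.lf 0 5550 0) P.nil)))))) (P.cons (P.cons (P.lf 0 39350403 0) (P.cons (P.lf 0 3232920 0) (P.cons (P.lf 3569043 0 0) (P.cons (P.lf 0 136341 0) (P.cons (P.lf 0 59964 0) P.nil))))) (P.cons (P.cons (P.lf 0 6507042 0) (P.cons (P.lf 0 2301114 0) (P.cons (P.lf 198576 0 0) (P.cons (P.lf 130299 0 0) P.nil)))) (P.cons (P.cons (P.lf 2288946 0 0) (P.cons (P.lf 641937 0 0) (P.cons (P.lf 0 106986 0) P.nil))) (P.cons (P.cons (P.lf 186 0 0) (P.cons (P.lf 0 26133 0) P.nil)) (P.cons (P.cons (P.lf 0 39516 0) P.nil) P.nil)))))) 156441)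
 EL.nil)))
noncomputable def S401_430_364_512_25 : EL := (EL.cons 4 (TM.mk (P.cons (P.cons (P.lf 0 811116660 0) (P.cons (P.lf 0 60354573 0) (P.cons (P.lf 0 4035159 0) (P.lf 1345050 0 0)))) (P.cons (P.cons (P.lf 242756589 0 0) (P.cons (P.lf 36082449 0 0) (P.cons (P.lf 2412384 0 0) (P.lf 0 804123 0)))) (P.cons (P.cons (P.lf 22118970 0 0) (P.cons (P.lf 0 5628903 0) (P.cons (P.lf 0 376329 0) (P.lf 125439 0 0)))) (P.cons (P.cons (P.lf 0 10742577 0) (P.cons (P.lf 0 466140 0) (P.cons (P.lf 0 31173 0) P.nil))) (P.cons (P.cons (P.lf 210408 0 0) (P.cons (P.lf 190611 0 0) P.nil)) (P.cons (P.cons (P.lf 145242 0 0) P.nil) P.nil)))))) 132186)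
 (EL.cons 8 (TM.mk (P.cons (P.cons (P.lf 0 1308980388 0) (P.cons (P.lf 0 97400244 0) (P.cons (P.lf 0 6511953 0) (P.lf 2170650 0 0)))) (P.cons (P.cons (P.lf 48419613 0 0) (P.cons (P.lf 32682132 0 0) (P.cons (P.lf 2185050 0 0) (P.lf 0 728349 0)))) (P.cons (P.cons (P.lf 69411324 0 0) (P.cons (P.lf 1052211 0 0) (P.cons (P.lf 70347 0 0) (P.lf 0 23448 0)))) (P.cons (P.cons (P.lf 0 1817877 0) (P.cons (P.lf 0 1143111 0) (P.cons (P.lf 0 76422 0) P.nil))) (P.cons (P.cons (P.lf 0 1007283 0) (P.cons (P.lf 51513 0 0) P.nil)) (P.cons (P.cons (P.lf 78459 0 0) P.nil) P.nil)))))) 82851)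
 (EL.cons 11 (TM.mk (P.cons (P.cons (P.lf 252636207 0 0) (P.cons (P.lf 39114426 0 0) (P.cons (P.lf 0 18844095 0) (P.cons (P.lf 0 713115 0) (P.lf 178278 0 0))))) (P.cons (P.cons (P.lf 0 100690899 0) (P.cons (P.lf 0 15589479 0) (P.cons (P.lf 7510518 0 0) (P.cons (P.lf 284217 0 0) (P.lf 0 71052 0))))) (P.cons (P.cons (P.lf 5675046 0 0) (P.cons (P.lf 878637 0 0) (P.cons (P.lf 0 423300 0) (P.cons (P.lf 0 16017 0) P.nil)))) (P.cons (P.cons (P.lf 1765251 0 0) (P.cons (P.lf 273306 0 0) (P.cons (P.lf 0 131670 0) P.nil))) (P.cons (P.cons (P.lf 0 198945 0) (P.cons (P.lf 0 30798 0) P.nil)) (P.cons (P.cons (P.lf 0 1200 0) P.nil) P.nil)))))) 48468)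
 EL.nil)))
noncomputable def S401_430_364_512_26 : EL := (EL.cons 4 (TM.mk (P.cons (P.cons (P.lf 0 394936560 0) (P.cons (P.lf 0 22524561 0) (P.cons (P.lf 0 995313 0) (P.cons (P.lf 570255 0 0) (P.cons (P.lf 0 20475 0) (P.cons (P.lf 0 1521 0) P.nil)))))) (P.cons (P.cons (P.lf 54346179 0 0) (P.cons (P.lf 6012369 0 0) (P.cons (P.lf 0 256836 0) (P.cons (P.lf 0 222081 0) (P.cons (P.lf 26418 0 0) P.nil))))) (P.cons (P.cons (P.lf 35975526 0 0) (P.cons (P.lf 2950962 0 0) (P.cons (P.lf 542799 0 0) (P.cons (P.lf 0 19566 0) P.nil)))) (P.cons (P.cons (P.lf 0 4861965 0) (P.cons (P.lf 0 1141236 0) (P.cons (P.lf 0 164949 0) P.nil))) (P.cons (P.cons (P.lf 0 1122012 0) (P.cons (P.lf 6816 0 0) P.nil)) (P.cons (P.cons (P.lf 181365 0 0) P.nil) P.nil)))))) 261750)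
 (EL.cons 8 (TM.mk (P.cons (P.cons (P.lf 0 637348776 0) (P.cons (P.lf 0 36350151 0) (P.cons (P.lf 0 1606242 0) (P.cons (P.lf 920283 0 0) (P.cons (P.lf 0 33045 0) (P.cons (P.lf 0 2454 0) P.nil)))))) (P.cons (P.cons (P.lf 0 79470513 0) (P.cons (P.lf 168249 0 0) (P.cons (P.lf 0 835791 0) (P.cons (P.lf 0 117012 0) (P.cons (P.lf 33966 0 0) P.nil))))) (P.cons (P.cons (P.lf 47444985 0 0) (P.cons (P.lf 5389986 0 0) (P.cons (P.lf 682530 0 0) (P.cons (P.lf 0 77040 0) P.nil)))) (P.cons (P.cons (P.lf 4944072 0 0) (P.cons (P.lf 0 483702 0) (P.cons (P.lf 0 76089 0) P.nil))) (P.cons (P.cons (P.lf 0 1307025 0) (P.cons (P.lf 0 197331 0) P.nil)) (P.cons (P.cons (P.lf 0 57414 0) P.nil) P.nil)))))) 199434)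
 (EL.cons 11 (TM.mk (P.cons (P.cons (P.lf 123009771 0 0) (P.cons (P.lf 16907598 0 0) (P.cons (P.lf 0 9649104 0) (P.cons (P.lf 0 162279 0) (P.cons (P.lf 110871 0 0) (P.cons (P.lf 0 4656 0) P.nil)))))) (P.cons (P.cons (P.lf 0 29138715 0) (P.cons (P.lf 0 2179656 0) (P.cons (P.lf 2690358 0 0) (P.cons (P.lf 0 119502 0) (P.cons (P.lf 0 46815 0) P.nil))))) (P.cons (P.cons (P.lf 0 7061913 0) (P.cons (P.lf 0 2093364 0) (P.cons (P.lf 305064 0 0) (P.cons (P.lf 106458 0 0) P.nil)))) (P.cons (P.cons (P.lf 1922256 0 0) (P.cons (P.lf 493299 0 0) (P.cons (P.lf 0 99999 0) P.nil))) (P.cons (P.cons (P.lf 79620 0 0) (P.cons (P.lf 3384 0 0) P.nil)) (P.cons (P.cons (P.lf 0 43059 0) P.nil) P.nil)))))) 136800)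
 EL.nil)))
noncomputable def S401_430_364_512_27 : EL := (EL.cons 13 (TM.mk (P.lf 0 4294967296 0) 0)
 EL.nil)
noncomputable def S401_430_364_512_28 : EL := (EL.cons 13 (TM.mk (P.cons (P.cons (P.lf 0 2091240006 0) (P.cons (P.lf 36337112 0 0) (P.cons (P.lf 2429412 0 0) (P.lf 0 809804 0)))) (P.cons (P.cons (P.lf 0 338110709 0) (P.cons (P.lf 0 25158560 0) (P.cons (P.lf 0 1682040 0) (P.lf 560680 0 0)))) (P.cons (P.cons (P.lf 32275300 0 0) (P.cons (P.lf 6157176 0 0) (P.cons (P.lf 411652 0 0) (P.lf 0 137216 0)))) (P.cons (P.cons (P.lf 2391401 0 0) (P.cons (P.lf 0 561540 0) (P.cons (P.lf 0 37540 0) P.nil))) (P.cons (P.cons (P.lf 0 409831 0) (P.cons (P.lf 0 5660 0) P.nil)) (P.cons (P.cons (P.lf 13272 0 0) P.nil) P.nil)))))) 24741)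
 EL.nil)
noncomputable def S401_430_364_512_29 : EL := (EL.cons 13 (TM.mk (P.cons (P.cons (P.lf 0 1018234706 0) (P.cons (P.lf 35385425 0 0) (P.cons (P.lf 2058358 0 0) (P.cons (P.lf 0 829702 0) (P.cons (P.lf 12328 0 0) (P.cons (P.lf 916 0 0) P.nil)))))) (P.cons (P.cons (P.lf 0 329255424 0) (P.cons (P.lf 0 18778545 0) (P.cons (P.lf 0 829784 0) (P.cons (P.lf 475418 0 0) (P.cons (P.lf 0 17071 0) P.nil))))) (P.cons (P.cons (P.lf 4813062 0 0) (P.cons (P.lf 1488701 0 0) (P.cons (P.lf 0 152025 0) (P.cons (P.lf 0 66811 0) P.nil)))) (P.cons (P.cons (P.lf 7410355 0 0) (P.cons (P.lf 760236 0 0) (P.cons (P.lf 132465 0 0) P.nil))) (P.cons (P.cons (P.lf 0 265121 0) (P.cons (P.lf 0 151511 0) P.nil)) (P.cons (P.cons (P.lf 0 87542 0) P.nil) P.nil)))))) 163057)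
 EL.nil)
noncomputable def S401_430_364_512_30 : EL := (EL.cons 13 (TM.mk (P.cons (P.lf 0 3603426100 0) (P.cons (P.lf 0 113537048 0) (P.cons (P.lf 16473628 0 0) (P.cons (P.lf 0 671992 0) (P.cons (P.lf 0 4560 0) (P.cons (P.lf 2084 0 0) P.nil)))))) 368)
 EL.nil)
noncomputable def S401_430_364_512_31 : EL := (EL.cons 13 (TM.mk (P.cons (P.cons (P.lf 0 1754525308 0) (P.cons (P.lf 30486401 0 0) (P.cons (P.lf 2038247 0 0) (P.lf 0 679415 0)))) (P.cons (P.cons (P.lf 0 338952562 0) (P.cons (P.lf 0 20147162 0) (P.cons (P.lf 0 1346990 0) (P.lf 448996 0 0)))) (P.cons (P.cons (P.lf 26161753 0 0) (P.cons (P.lf 4361359 0 0) (P.cons (P.lf 291588 0 0) (P.lf 0 97195 0)))) (P.cons (P.cons (P.lf 3829200 0 0) (P.cons (P.lf 0 206178 0) (P.cons (P.lf 0 13781 0) P.nil))) (P.cons (P.cons (P.lf 0 459542 0) (P.cons (P.lf 0 47106 0) P.nil)) (P.cons (P.cons (P.lf 0 3165 0) P.nil) P.nil))))))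 37421)
 EL.nil)
noncomputable def S401_430_364_512_32 : EL := (EL.cons 13 (TM.mk (P.cons (P.cons (P.lf 0 854286718 0) (P.cons (P.lf 29687947 0 0) (P.cons (P.lf 1726937 0 0) (P.cons (P.lf 0 696110 0) (P.cons (P.lf 10343 0 0) (P.cons (P.lf 768 0 0) P.nil)))))) (P.cons (P.cons (P.lf 0 303158292 0) (P.cons (P.lf 0 14819563 0) (P.cons (P.lf 0 641766 0) (P.cons (P.lf 376936 0 0) (P.cons (P.lf 0 13996 0) P.nil))))) (P.cons (P.cons (P.lf 0 760228 0) (P.cons (P.lf 616870 0 0) (P.cons (P.lf 0 157377 0) (P.cons (P.lf 0 40303 0) P.nil)))) (P.cons (P.cons (P.lf 7447999 0 0) (P.cons (P.lf 754745 0 0) (P.cons (P.lf 110622 0 0) P.nil))) (P.cons (P.cons (P.lf 0 97598 0) (P.cons (P.lf 0 115629 0) P.nil)) (P.cons (P.cons (P.lf 0 107980 0) P.nil) P.nil)))))) 164327)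
 EL.nil)
noncomputable def S401_430_364_512_33 : EL := (EL.cons 14 (TM.mk (P.lf 8589934592 0 0) 0)
 EL.nil)
noncomputable def S401_430_364_512_34 : EL := (EL.cons 14 (TM.mk (P.cons (P.cons (P.lf 4182480012 0 0) (P.cons (P.lf 0 72674224 0) (P.cons (P.lf 0 4858824 0) (P.lf 1619608 0 0)))) (P.cons (P.cons (P.lf 676221418 0 0) (P.cons (P.lf 50317120 0 0) (P.cons (P.lf 3364080 0 0) (P.lf 0 1121360 0)))) (P.cons (P.cons (P.lf 0 64550600 0) (P.cons (P.lf 0 12314352 0) (P.cons (P.lf 0 823304 0) (P.lf 274432 0 0)))) (P.cons (P.cons (P.lf 0 4782802 0) (P.cons (P.lf 1123080 0 0) (P.cons (P.lf 75080 0 0) P.nil))) (P.cons (P.cons (P.lf 819662 0 0) (P.cons (P.lf 11320 0 0) P.nil)) (P.cons (P.cons (P.lf 0 26544 0) P.nil) P.nil)))))) 49482)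
 EL.nil)
noncomputable def S401_430_364_512_35 : EL := (EL.cons 14 (TM.mk (P.cons (P.cons (P.lf 2036469412 0 0) (P.cons (P.lf 0 70770850 0) (P.cons (P.lf 0 4116716 0) (P.cons (P.lf 1659404 0 0) (P.cons (P.lf 0 24656 0) (P.cons (P.lf 0 1832 0) P.nil)))))) (P.cons (P.cons (P.lf 658510848 0 0) (P.cons (P.lf 37557090 0 0) (P.cons (P.lf 1659568 0 0) (P.cons (P.lf 0 950836 0) (P.cons (P.lf 34142 0 0) P.nil))))) (P.cons (P.cons (P.lf 0 9626124 0) (P.cons (P.lf 0 2977402 0) (P.cons (P.lf 304050 0 0) (P.cons (P.lf 133622 0 0) P.nil)))) (P.cons (P.cons (P.lf 0 14820710 0) (P.cons (P.lf 0 1520472 0) (P.cons (P.lf 0 264930 0) P.nil))) (P.cons (P.cons (P.lf 530242 0 0) (P.cons (P.lf 303022 0 0) P.nil)) (P.cons (P.cons (P.lf 175084 0 0) P.nil) P.nil)))))) 326114)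
 EL.nil)
noncomputable def S401_430_364_512_36 : EL := (EL.cons 14 (TM.mk (P.cons (P.lf 7206852200 0 0) (P.cons (P.lf 227074096 0 0) (P.cons (P.lf 0 32947256 0) (P.cons (P.lf 1343984 0 0) (P.cons (P.lf 9120 0 0) (P.cons (P.lf 0 4168 0) P.nil)))))) 736)
 EL.nil)
noncomputable def S401_430_364_512_37 : EL := (EL.cons 14 (TM.mk (P.cons (P.cons (P.lf 3509050616 0 0) (P.cons (P.lf 0 60972802 0) (P.cons (P.lf 0 4076494 0) (P.lf 1358830 0 0)))) (P.cons (P.cons (P.lf 677905124 0 0) (P.cons (P.lf 40294324 0 0) (P.cons (P.lf 2693980 0 0) (P.lf 0 897992 0)))) (P.cons (P.cons (P.lf 0 52323506 0) (P.cons (P.lf 0 8722718 0) (P.cons (P.lf 0 583176 0) (P.lf 194390 0 0)))) (P.cons (P.cons (P.lf 0 7658400 0) (P.cons (P.lf 412356 0 0) (P.cons (P.lf 27562 0 0) P.nil))) (P.cons (P.cons (P.lf 919084 0 0) (P.cons (P.lf 94212 0 0) P.nil)) (P.cons (P.cons (P.lf 6330 0 0) P.nil) P.nil))))))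 74842)
 EL.nil)
noncomputable def S401_430_364_512_38 : EL := (EL.cons 14 (TM.mk (P.cons (P.cons (P.lf 1708573436 0 0) (P.cons (P.lf 0 59375894 0) (P.cons (P.lf 0 3453874 0) (P.cons (P.lf 1392220 0 0) (P.cons (P.lf 0 20686 0) (P.cons (P.lf 0 1536 0) P.nil)))))) (P.cons (P.cons (P.lf 606316584 0 0) (P.cons (P.lf 29639126 0 0) (P.cons (P.lf 1283532 0 0) (P.cons (P.lf 0 753872 0) (P.cons (P.lf 27992 0 0) P.nil))))) (P.cons (P.cons (P.lf 1520456 0 0) (P.cons (P.lf 0 1233740 0) (P.cons (P.lf 314754 0 0) (P.cons (P.lf 80606 0 0) P.nil)))) (P.cons (P.cons (P.lf 0 14895998 0) (P.cons (P.lf 0 1509490 0) (P.cons (P.lf 0 221244 0) P.nil))) (P.cons (P.cons (P.lf 195196 0 0) (P.cons (P.lf 231258 0 0) P.nil)) (P.cons (P.cons (P.lf 215960 0 0) P.nil) P.nil)))))) 328654)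
 EL.nil)
noncomputable def S401_430_364_512_39 : EL := (EL.cons 14 (TM.mk (P.cons (P.lf 6046462644 0 0) (P.cons (P.lf 381024890 0 0) (P.cons (P.lf 0 49282024 0) (P.cons (P.lf 513256 0 0) (P.cons (P.lf 212730 0 0) (P.cons (P.lf 0 16820 0) P.nil)))))) 1830)
 EL.nil)
noncomputable def S401_430_364_512_40 : EL := (EL.cons 14 (TM.mk (P.cons (P.cons (P.lf 2944051422 0 0) (P.cons (P.lf 0 51155450 0) (P.cons (P.lf 0 3420130 0) (P.lf 1140042 0 0)))) (P.cons (P.cons (P.lf 661515692 0 0) (P.cons (P.lf 32194644 0 0) (P.cons (P.lf 2152454 0 0) (P.lf 0 717484 0)))) (P.cons (P.cons (P.lf 0 39437632 0) (P.cons (P.lf 0 6019214 0) (P.cons (P.lf 0 402426 0) (P.lf 134140 0 0)))) (P.cons (P.cons (P.lf 0 9859596 0) (P.cons (P.lf 0 48712 0) (P.cons (P.lf 0 3260 0) P.nil))) (P.cons (P.cons (P.lf 879132 0 0) (P.cons (P.lf 129640 0 0) P.nil)) (P.cons (P.cons (P.lf 49812 0 0) P.nil) P.nil))))))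 87086)
 EL.nil)
noncomputable def S401_430_364_512_41 : EL := (EL.cons 14 (TM.mk (P.cons (P.cons (P.lf 1433472640 0 0) (P.cons (P.lf 0 49815664 0) (P.cons (P.lf 0 2897760 0) (P.cons (P.lf 1168054 0 0) (P.cons (P.lf 0 17354 0) (P.cons (P.lf 0 1288 0) P.nil)))))) (P.cons (P.cons (P.lf 553858324 0 0) (P.cons (P.lf 23297276 0 0) (P.cons (P.lf 985564 0 0) (P.cons (P.lf 0 595686 0) (P.cons (P.lf 22938 0 0) P.nil))))) (P.cons (P.cons (P.lf 10750220 0 0) (P.cons (P.lf 0 23844 0) (P.cons (P.lf 311252 0 0) (P.cons (P.lf 42358 0 0) P.nil)))) (P.cons (P.cons (P.lf 0 14515614 0) (P.cons (P.lf 0 1422030 0) (P.cons (P.lf 0 182764 0) P.nil))) (P.cons (P.cons (P.lf 0 139158 0) (P.cons (P.lf 163426 0 0) P.nil)) (P.cons (P.cons (P.lf 243536 0 0) P.nil) P.nil)))))) 316382)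
 EL.nil)
noncomputable def S401_430_364_512_42 : EL := (EL.cons 14 (TM.mk (P.cons (P.lf 5072909710 0 0) (P.cons (P.lf 479512976 0 0) (P.cons (P.lf 0 54466274 0) (P.cons (P.lf 0 1387564 0) (P.cons (P.lf 447104 0 0) (P.cons (P.lf 0 20696 0) P.nil)))))) 3862)
 EL.nil)
noncomputable def S401_430_364_512_43 : EL := (EL.cons 14 (TM.mk (P.cons (P.cons (P.lf 2470023866 0 0) (P.cons (P.lf 0 42918810 0) (P.cons (P.lf 0 2869448 0) (P.lf 956482 0 0)))) (P.cons (P.cons (P.lf 632829456 0 0) (P.cons (P.lf 25658632 0 0) (P.cons (P.lf 1715472 0 0) (P.lf 0 571824 0)))) (P.cons (P.cons (P.lf 0 26892698 0) (P.cons (P.lf 0 4002776 0) (P.cons (P.lf 0 267612 0) (P.lf 89202 0 0)))) (P.cons (P.cons (P.lf 0 11391272 0) (P.cons (P.lf 0 331474 0) (P.cons (P.lf 0 22164 0) P.nil))) (P.cons (P.cons (P.lf 734834 0 0) (P.cons (P.lf 135548 0 0) P.nil)) (P.cons (P.cons (P.lf 95952 0 0) P.nil) P.nil))))))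 97376)
 EL.nil)
noncomputable def S401_430_364_512_44 : EL := (EL.cons 14 (TM.mk (P.cons (P.cons (P.lf 1202666368 0 0) (P.cons (P.lf 0 41794744 0) (P.cons (P.lf 0 2431184 0) (P.cons (P.lf 979984 0 0) (P.cons (P.lf 0 14560 0) (P.cons (P.lf 0 1080 0) P.nil)))))) (P.cons (P.cons (P.lf 502574208 0 0) (P.cons (P.lf 18229264 0 0) (P.cons (P.lf 750274 0 0) (P.cons (P.lf 0 468896 0) (P.cons (P.lf 18786 0 0) P.nil))))) (P.cons (P.cons (P.lf 18162318 0 0) (P.cons (P.lf 786926 0 0) (P.cons (P.lf 298304 0 0) (P.cons (P.lf 15312 0 0) P.nil)))) (P.cons (P.cons (P.lf 0 13794322 0) (P.cons (P.lf 0 1290848 0) (P.cons (P.lf 0 149342 0) P.nil))) (P.cons (P.cons (P.lf 0 453526 0) (P.cons (P.lf 103204 0 0) P.nil)) (P.cons (P.cons (P.lf 257894 0 0) P.nil) P.nil)))))) 302132)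
 EL.nil)
noncomputable def S401_430_364_512_45 : EL := (EL.cons 14 (TM.mk (P.cons (P.cons (P.lf 991566642 0 0) (P.cons (P.lf 0 51687994 0) (P.cons (P.lf 0 2557610 0) (P.cons (P.lf 1266802 0 0) (P.cons (P.lf 0 37058 0) (P.cons (P.lf 0 2398 0) P.nil)))))) (P.cons (P.cons (P.lf 480948096 0 0) (P.cons (P.lf 19073198 0 0) (P.cons (P.lf 176734 0 0) (P.cons (P.lf 0 561136 0) (P.cons (P.lf 46216 0 0) P.nil))))) (P.cons (P.cons (P.lf 31849222 0 0) (P.cons (P.lf 3058046 0 0) (P.cons (P.lf 724418 0 0) (P.cons (P.lf 0 8752 0) P.nil)))) (P.cons (P.cons (P.lf 0 14056452 0) (P.cons (P.lf 0 1826308 0) (P.cons (P.lf 0 223610 0) P.nil))) (P.cons (P.cons (P.lf 0 1008540 0) (P.cons (P.lf 33834 0 0) P.nil)) (P.cons (P.cons (P.lf 300266 0 0) P.nil) P.nil)))))) 484112)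
 EL.nil)
noncomputable def S401_430_364_512_46 : EL := (EL.cons 15 (TM.mk (P.lf 4294967296 0 0) 0)
 EL.nil)
noncomputable def S401_430_364_512_47 : EL := (EL.cons 15 (TM.mk (P.cons (P.cons (P.lf 2091240006 0 0) (P.cons (P.lf 0 36337112 0) (P.cons (P.lf 0 2429412 0) (P.lf 809804 0 0)))) (P.cons (P.cons (P.lf 338110709 0 0) (P.cons (P.lf 25158560 0 0) (P.cons (P.lf 1682040 0 0) (P.lf 0 560680 0)))) (P.cons (P.cons (P.lf 0 32275300 0) (P.cons (P.lf 0 6157176 0) (P.cons (P.lf 0 411652 0) (P.lf 137216 0 0)))) (P.cons (P.cons (P.lf 0 2391401 0) (P.cons (P.lf 561540 0 0) (P.cons (P.lf 37540 0 0) P.nil))) (P.cons (P.cons (P.lf 409831 0 0) (P.cons (P.lf 5660 0 0) P.nil)) (P.cons (P.cons (P.lf 0 13272 0) P.nil) P.nil)))))) 24741)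
 EL.nil)
noncomputable def S401_430_364_512_48 : EL := (EL.cons 15 (TM.mk (P.cons (P.cons (P.lf 1018234706 0 0) (P.cons (P.lf 0 35385425 0) (P.cons (P.lf 0 2058358 0) (P.cons (P.lf 829702 0 0) (P.cons (P.lf 0 12328 0) (P.cons (P.lf 0 916 0) P.nil)))))) (P.cons (P.cons (P.lf 329255424 0 0) (P.cons (P.lf 18778545 0 0) (P.cons (P.lf 829784 0 0) (P.cons (P.lf 0 475418 0) (P.cons (P.lf 17071 0 0) P.nil))))) (P.cons (P.cons (P.lf 0 4813062 0) (P.cons (P.lf 0 1488701 0) (P.cons (P.lf 152025 0 0) (P.cons (P.lf 66811 0 0) P.nil)))) (P.cons (P.cons (P.lf 0 7410355 0) (P.cons (P.lf 0 760236 0) (P.cons (P.lf 0 132465 0) P.nil))) (P.cons (P.cons (P.lf 265121 0 0) (P.cons (P.lf 151511 0 0) P.nil)) (P.cons (P.cons (P.lf 87542 0 0) P.nil) P.nil)))))) 163057)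
 EL.nil)
noncomputable def S401_430_364_512 : SL := (SL.cons S401_430_364_512_0 (SL.cons S401_430_364_512_1 (SL.cons S401_430_364_512_2 (SL.cons S401_430_364_512_3 (SL.cons S401_430_364_512_4 (SL.cons S401_430_364_512_5 (SL.cons S401_430_364_512_6 (SL.cons S401_430_364_512_7 (SL.cons S401_430_364_512_8 (SL.cons S401_430_364_512_9 (SL.cons S401_430_364_512_10 (SL.cons S401_430_364_512_11 (SL.cons S401_430_364_512_12 (SL.cons S401_430_364_512_13 (SL.cons S401_430_364_512_14 (SL.cons S401_430_364_512_15 (SL.cons S401_430_364_512_16 (SL.cons S401_430_364_512_17 (SL.cons S401_430_364_512_18 (SL.cons S401_430_364_512_19 (SL.cons S401_430_364_512_20 (SL.cons S401_430_364_512_21 (SL.cons S401_430_364_512_22 (SL.cons S401_430_364_512_23 (SL.cons S401_430_364_512_24 (SL.cons S401_430_364_512_25 (SL.cons S401_430_364_512_26 (SL.cons S401_430_364_512_27 (SL.cons S401_430_364_512_28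 (SL.cons S401_430_364_512_29 (SL.cons S401_430_364_512_30 (SL.cons S401_430_364_512_31 (SL.cons S401_430_364_512_32 (SL.cons S401_430_364_512_33 (SL.cons S401_430_364_512_34 (SL.cons S401_430_364_512_35 (SL.cons S401_430_364_512_36 (SL.cons S401_430_364_512_37 (SL.cons S401_430_364_512_38 (SL.cons S401_430_364_512_39 (SL.cons S401_430_364_512_40 (SL.cons S401_430_364_512_41 (SL.cons S401_430_364_512_42 (SL.cons S401_430_364_512_43 (SL.cons S401_430_364_512_44 (SL.cons S401_430_364_512_45 (SL.cons S401_430_364_512_46 (SL.cons S401_430_364_512_47 (SL.cons S401_430_364_512_48 SL.nil)))))))))))))))))))))))))))))))))))))))))))))))))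
theorem S386_401_512_660_ok : band (seq (shp 5 386 401 512 660) S386_401_512_660) (sok S386_401_512_660) = true := by decide +kernel

theorem S386_401_660_808_ok : band (seq (shp 5 386 401 660 808) S386_401_660_808) (sok S386_401_660_808) = true := by decide +kernel

theorem S401_415_216_364_ok : band (seq (shp 5 401 415 216 364) S401_415_216_364) (sok S401_415_216_364) = true := by decide +kernel

theorem S401_415_660_808_ok : band (seq (shp 5 401 415 660 808) S401_415_660_808) (sok S401_415_660_808) = true := by decide +kernel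

theorem S401_430_216_364_ok : band (seq (shp 5 401 430 216 364) S401_430_216_364) (sok S401_430_216_364) = true := by decide +kernel

theorem S401_430_364_512_ok : band (seq (shp 5 401 430 364 512) S401_430_364_512) (sok S401_430_364_512) = true := by decide +kernel

end Vale.Agent.P098.Ck
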