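import Vale.Agent.P098.CkDefs

namespace Vale.Agent.P098.Ck

noncomputable def S401_430_512_586_0 : EL := (EL.cons 0 (TM.mk (P.cons (P.lf 3141443055 0 0) (P.cons (P.lf 0 334885157 0) (P.cons (P.lf 43314278 0 0) (P.cons (P.lf 0 451103 0) (P.cons (P.lf 0 186969 0) (P.cons (P.lf 14783 0 0) P.nil)))))) 1615)
 (EL.cons 1 (TM.mk (P.cons (P.lf 1170850837 0 0) (P.cons (P.lf 0 233327645 0) (P.cons (P.lf 0 10098210 0) (P.cons (P.lf 2078180 0 0) (P.cons (P.lf 0 90420 0) (P.cons (P.lf 0 2872 0) P.nil)))))) 983)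
 (EL.cons 5 (TM.mk (P.cons (P.lf 6184486878 0 0) (P.cons (P.lf 119070280 0 0) (P.cons (P.lf 0 15400634 0) (P.cons (P.lf 160396 0 0) (P.cons (P.lf 66480 0 0) (P.cons (P.lf 0 5256 0) P.nil)))))) 413)
 (EL.cons 9 (TM.mk (P.lf 6442450944 0 0) 2)
 EL.nil))))
noncomputable def S401_430_512_586_1 : EL := (EL.cons 0 (TM.mk (P.cons (P.cons (P.lf 3512898830 0 0) (P.cons (P.lf 56867704 0 0) (P.cons (P.lf 0 905115 0) (P.lf 0 301694 0)))) (P.cons (P.cons (P.lf 0 615658651 0) (P.cons (P.lf 0 33422577 0) (P.cons (P.lf 531945 0 0) (P.lf 177309 0 0)))) (P.cons (P.cons (P.lf 0 36892858 0) (P.cons (P.lf 4746308 0 0) (P.cons (P.lf 0 75538 0) (P.lf 0 25168 0)))) (P.cons (P.cons (P.lf 27598425 0 0) (P.cons (P.lf 670412 0 0) (P.cons (P.lf 0 10670 0) P.nil))) (P.cons (P.cons (P.lf 0 1810122 0) (P.cons (P.lf 0 233444 0) P.nil)) (P.cons (P.cons (P.lf 0 203800 0) P.nil) P.nil)))))) 133334)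
 (EL.cons 1 (TM.mk (P.cons (P.cons (P.lf 1965512160 0 0) (P.cons (P.lf 44143879 0 0) (P.cons (P.lf 0 702611 0) (P.lf 0 234204 0)))) (P.cons (P.cons (P.lf 0 31337804 0) (P.cons (P.lf 0 9381741 0) (P.cons (P.lf 149329 0 0) (P.lf 49775 0 0)))) (P.cons (P.cons (P.lf 0 128623919 0) (P.cons (P.lf 0 3580496 0) (P.cons (P.lf 56984 0 0) (P.lf 18993 0 0)))) (P.cons (P.cons (P.lf 6360357 0 0) (P.cons (P.lf 1093830 0 0) (P.cons (P.lf 0 17402 0) P.nil))) (P.cons (P.cons (P.lf 1695654 0 0) (P.cons (P.lf 0 44497 0) P.nil)) (P.cons (P.cons (P.lf 0 203905 0) P.nil) P.nil)))))) 52371)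
 (EL.cons 5 (TM.mk (P.cons (P.cons (P.lf 2208771435 0 0) (P.cons (P.lf 0 52654928 0) (P.cons (P.lf 838070 0 0) (P.lf 279354 0 0)))) (P.cons (P.cons (P.lf 861060307 0 0) (P.cons (P.lf 34340660 0 0) (P.cons (P.lf 0 546572 0) (P.lf 0 182190 0)))) (P.cons (P.cons (P.lf 0 58238644 0) (P.cons (P.lf 0 7183610 0) (P.cons (P.lf 114336 0 0) (P.lf 38114 0 0)))) (P.cons (P.cons (P.lf 0 12374411 0) (P.cons (P.lf 262886 0 0) (P.cons (P.lf 0 4188 0) P.nil))) (P.cons (P.cons (P.lf 1355474 0 0) (P.cons (P.lf 88054 0 0) P.nil)) (P.cons (P.cons (P.lf 38186 0 0) P.nil) P.nil)))))) 43936)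
 (EL.cons 9 (TM.mk (P.cons (P.cons (P.lf 3051001875 0 0) (P.cons (P.lf 0 28619376 0) (P.cons (P.lf 455514 0 0) (P.lf 151836 0 0)))) (P.cons (P.cons (P.lf 566611273 0 0) (P.cons (P.lf 19815066 0 0) (P.cons (P.lf 0 315378 0) (P.lf 0 105126 0)))) (P.cons (P.cons (P.lf 0 62961264 0) (P.cons (P.lf 0 4849440 0) (P.cons (P.lf 77184 0 0) (P.lf 25728 0 0)))) (P.cons (P.cons (P.lf 0 2260279 0) (P.cons (P.lf 442272 0 0) (P.cons (P.lf 0 7038 0) P.nil))) (P.cons (P.cons (P.lf 628114 0 0) (P.cons (P.lf 4452 0 0) P.nil)) (P.cons (P.cons (P.lf 0 30240 0) P.nil) P.nil)))))) 11888)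
 (EL.cons 2 (TM.mk (P.cons (P.cons (P.lf 0 298802393 0) (P.cons (P.lf 11076195 0 0) (P.cons (P.lf 5488292 0 0) (P.cons (P.lf 0 49800 0) (P.lf 0 12448 0))))) (P.cons (P.cons (P.lf 128505619 0 0) (P.cons (P.lf 0 4763525 0) (P.cons (P.lf 0 2360342 0) (P.cons (P.lf 21417 0 0) (P.lf 5352 0 0))))) (P.cons (P.cons (P.lf 0 12127080 0) (P.cons (P.lf 449530 0 0) (P.cons (P.lf 222744 0 0) (P.cons (P.lf 0 2019 0) P.nil)))) (P.cons (P.cons (P.lf 0 1062523 0) (P.cons (P.lf 39386 0 0) (P.cons (P.lf 19515 0 0) P.nil))) (P.cons (P.cons (P.lf 189750 0 0) (P.cons (P.lf 0 7031 0) P.nil)) (P.cons (P.cons (P.lf 0 7489 0) P.nil) P.nil)))))) 7041)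
 (EL.cons 6 (TM.mk (P.cons (P.cons (P.lf 65832705 0 0) (P.cons (P.lf 0 2440326 0) (P.cons (P.lf 0 1209189 0) (P.cons (P.lf 10971 0 0) (P.lf 2742 0 0))))) (P.cons (P.cons (P.lf 0 45580293 0) (P.cons (P.lf 1689597 0 0) (P.cons (P.lf 837201 0 0) (P.cons (P.lf 0 7596 0) (P.lf 0 1896 0))))) (P.cons (P.cons (P.lf 11155089 0 0) (P.cons (P.lf 0 413502 0) (P.cons (P.lf 0 204891 0) (P.cons (P.lf 1857 0 0) P.nil)))) (P.cons (P.cons (P.lf 0 1017360 0) (P.cons (P.lf 37710 0 0) (P.cons (P.lf 18684 0 0) P.nil))) (P.cons (P.cons (P.lf 0 10254 0) (P.cons (P.lf 378 0 0) P.nil)) (P.cons (P.cons (P.lf 7923 0 0) P.nil) P.nil)))))) 2994)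
 EL.nil))))))
noncomputable def S401_430_512_586_2 : EL := (EL.cons 0 (TM.mk (P.cons (P.cons (P.lf 2622711806 0 0) (P.cons (P.lf 35869592 0 0) (P.cons (P.lf 0 1138142 0) (P.cons (P.lf 0 172237 0) (P.cons (P.lf 5871 0 0) (P.cons (P.lf 0 89 0) P.nil)))))) (P.cons (P.cons (P.lf 0 151789964 0) (P.cons (P.lf 0 2680108 0) (P.cons (P.lf 781864 0 0) (P.cons (P.lf 0 9315 0) (P.cons (P.lf 0 7648 0) P.nil))))) (P.cons (P.cons (P.lf 0 188938114 0) (P.cons (P.lf 0 10079437 0) (P.cons (P.lf 0 233678 0) (P.cons (P.lf 66013 0 0) P.nil)))) (P.cons (P.cons (P.lf 31646870 0 0) (P.cons (P.lf 3288254 0 0) (P.cons (P.lf 52078 0 0) P.nil))) (P.cons (P.cons (P.lf 4040325 0 0) (P.cons (P.lf 0 114187 0) P.nil)) (P.cons (P.cons (P.lf 0 1096788 0) P.nil) P.nil)))))) 573726)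
 (EL.cons 1 (TM.mk (P.cons (P.cons (P.lf 1599052239 0 0) (P.cons (P.lf 29274713 0 0) (P.cons (P.lf 0 881254 0) (P.cons (P.lf 0 142101 0) (P.cons (P.lf 4301 0 0) (P.cons (P.lf 0 76 0) P.nil)))))) (P.cons (P.cons (P.lf 270845967 0 0) (P.cons (P.lf 7770267 0 0) (P.cons (P.lf 267831 0 0) (P.cons (P.lf 0 53676 0) (P.cons (P.lf 0 4057 0) P.nil))))) (P.cons (P.cons (P.lf 0 142273924 0) (P.cons (P.lf 0 7358797 0) (P.cons (P.lf 0 315 0) (P.cons (P.lf 42778 0 0) P.nil)))) (P.cons (P.cons (P.lf 0 14945274 0) (P.cons (P.lf 183988 0 0) (P.cons (P.lf 0 4892 0) P.nil))) (P.cons (P.cons (P.lf 4849598 0 0) (P.cons (P.lf 388252 0 0) P.nil)) (P.cons (P.cons (P.lf 43651 0 0) P.nil) P.nil)))))) 277450)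
 (EL.cons 5 (TM.mk (P.cons (P.cons (P.lf 705018653 0 0) (P.cons (P.lf 0 43474908 0) (P.cons (P.lf 1037727 0 0) (P.cons (P.lf 219632 0 0) (P.cons (P.lf 0 3579 0) (P.cons (P.lf 57 0 0) P.nil)))))) (P.cons (P.cons (P.lf 662194710 0 0) (P.cons (P.lf 16517929 0 0) (P.cons (P.lf 0 725248 0) (P.cons (P.lf 0 72916 0) (P.cons (P.lf 4786 0 0) P.nil))))) (P.cons (P.cons (P.lf 56070355 0 0) (P.cons (P.lf 2962353 0 0) (P.cons (P.lf 210878 0 0) (P.cons (P.lf 0 23922 0) P.nil)))) (P.cons (P.cons (P.lf 0 26229980 0) (P.cons (P.lf 0 2077322 0) (P.cons (P.lf 0 42324 0) P.nil))) (P.cons (P.cons (P.lf 0 515540 0) (P.cons (P.lf 218888 0 0) P.nil)) (P.cons (P.cons (P.lf 532779 0 0) P.nil) P.nil)))))) 203952)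
 (EL.cons 9 (TM.mk (P.cons (P.cons (P.lf 1444886817 0 0) (P.cons (P.lf 0 27107002 0) (P.cons (P.lf 558577 0 0) (P.cons (P.lf 139764 0 0) (P.cons (P.lf 0 1315 0) (P.cons (P.lf 21 0 0) P.nil)))))) (P.cons (P.cons (P.lf 536669062 0 0) (P.cons (P.lf 13733823 0 0) (P.cons (P.lf 0 394636 0) (P.cons (P.lf 0 67258 0) (P.cons (P.lf 1822 0 0) P.nil))))) (P.cons (P.cons (P.lf 0 9800854 0) (P.cons (P.lf 0 548331 0) (P.cons (P.lf 112756 0 0) (P.cons (P.lf 0 402 0) P.nil)))) (P.cons (P.cons (P.lf 0 13215678 0) (P.cons (P.lf 0 801330 0) (P.cons (P.lf 0 21004 0) P.nil))) (P.cons (P.cons (P.lf 812652 0 0) (P.cons (P.lf 157312 0 0) P.nil)) (P.cons (P.cons (P.lf 126021 0 0) P.nil) P.nil)))))) 72692)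
 (EL.cons 2 (TM.mk (P.cons (P.cons (P.lf 0 283012368 0) (P.cons (P.lf 13145625 0 0) (P.cons (P.lf 5057606 0 0) (P.cons (P.lf 0 108450 0) (P.cons (P.lf 0 10046 0) (P.cons (P.lf 360 0 0) P.nil)))))) (P.cons (P.cons (P.lf 69155690 0 0) (P.cons (P.lf 0 5543285 0) (P.cons (P.lf 0 1112338 0) (P.cons (P.lf 80308 0 0) (P.cons (P.lf 922 0 0) P.nil))))) (P.cons (P.cons (P.lf 16958126 0 0) (P.cons (P.lf 719454 0 0) (P.cons (P.lf 0 382905 0) (P.cons (P.lf 0 28288 0) P.nil)))) (P.cons (P.cons (P.lf 0 5441591 0) (P.cons (P.lf 0 97925 0) (P.cons (P.lf 115824 0 0) P.nil))) (P.cons (P.cons (P.lf 81421 0 0) (P.cons (P.lf 24243 0 0) P.nil)) (P.cons (P.cons (P.lf 83418 0 0) P.nil) P.nil)))))) 54095)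
 (EL.cons 6 (TM.mk (P.cons (P.cons (P.lf 62353818 0 0) (P.cons (P.lf 0 2896266 0) (P.cons (P.lf 0 1114296 0) (P.cons (P.lf 23892 0 0) (P.cons (P.lf 2208 0 0) (P.cons (P.lf 0 78 0) P.nil)))))) (P.cons (P.cons (P.lf 0 31591704 0) (P.cons (P.lf 1980984 0 0) (P.cons (P.lf 537348 0 0) (P.cons (P.lf 0 23958 0) (P.cons (P.lf 0 780 0) P.nil))))) (P.cons (P.cons (P.lf 1261314 0 0) (P.cons (P.lf 0 525354 0) (P.cons (P.lf 2190 0 0) (P.cons (P.lf 11256 0 0) P.nil)))) (P.cons (P.cons (P.lf 1843278 0 0) (P.cons (P.lf 86982 0 0) (P.cons (P.lf 0 42084 0) P.nil))) (P.cons (P.cons (P.lf 0 361878 0) (P.cons (P.lf 0 15708 0) P.nil)) (P.cons (P.cons (P.lf 8250 0 0) P.nil) P.nil)))))) 26712)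
 EL.nil))))))
noncomputable def S401_430_512_586_3 : EL := (EL.cons 0 (TM.mk (P.cons (P.lf 5314273808 0 0) (P.cons (P.lf 334885157 0 0) (P.cons (P.lf 0 43314278 0) (P.cons (P.lf 451103 0 0) (P.cons (P.lf 186969 0 0) (P.cons (P.lf 0 14783 0) P.nil)))))) 1615)
 (EL.cons 1 (TM.mk (P.cons (P.lf 0 1170850837 0) (P.cons (P.lf 233327645 0 0) (P.cons (P.lf 10098210 0 0) (P.cons (P.lf 0 2078180 0) (P.cons (P.lf 90420 0 0) (P.cons (P.lf 2872 0 0) P.nil)))))) 983)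
 (EL.cons 5 (TM.mk (P.cons (P.lf 257964066 0 0) (P.cons (P.lf 0 119070280 0) (P.cons (P.lf 15400634 0 0) (P.cons (P.lf 0 160396 0) (P.cons (P.lf 0 66480 0) (P.cons (P.lf 5256 0 0) P.nil)))))) 406)
 EL.nil)))
noncomputable def S401_430_512_586_4 : EL := (EL.cons 0 (TM.mk (P.cons (P.cons (P.lf 2516722205 0 0) (P.cons (P.lf 0 23607660 0) (P.cons (P.lf 375744 0 0) (P.lf 125245 0 0)))) (P.cons (P.cons (P.lf 625982675 0 0) (P.cons (P.lf 14857463 0 0) (P.cons (P.lf 0 236471 0) (P.lf 0 78823 0)))) (P.cons (P.cons (P.lf 0 42995380 0) (P.cons (P.lf 0 2777800 0) (P.cons (P.lf 44210 0 0) (P.lf 14735 0 0)))) (P.cons (P.cons (P.lf 0 8733100 0) (P.cons (P.lf 0 22480 0) (P.cons (P.lf 358 0 0) P.nil))) (P.cons (P.cons (P.lf 952152 0 0) (P.cons (P.lf 59821 0 0) P.nil)) (P.cons (P.cons (P.lf 27935 0 0) P.nil) P.nil)))))) 28729)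
 (EL.cons 1 (TM.mk (P.cons (P.cons (P.lf 0 554488987 0) (P.cons (P.lf 5201283 0 0) (P.cons (P.lf 0 82783 0) (P.lf 0 27594 0)))) (P.cons (P.cons (P.lf 7522882 0 0) (P.cons (P.lf 0 4637701 0) (P.cons (P.lf 73813 0 0) (P.lf 24603 0 0)))) (P.cons (P.cons (P.lf 36745950 0 0) (P.cons (P.lf 1554123 0 0) (P.cons (P.lf 0 24735 0) (P.lf 0 8244 0)))) (P.cons (P.cons (P.lf 0 1965543 0) (P.cons (P.lf 0 215718 0) (P.cons (P.lf 3431 0 0) P.nil))) (P.cons (P.cons (P.lf 0 434656 0) (P.cons (P.lf 813 0 0) P.nil)) (P.cons (P.cons (P.lf 54322 0 0) P.nil) P.nil)))))) 11315)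
 (EL.cons 5 (TM.mk (P.cons (P.cons (P.lf 122166060 0 0) (P.cons (P.lf 0 1145956 0) (P.cons (P.lf 18238 0 0) (P.lf 6078 0 0)))) (P.cons (P.cons (P.lf 0 33701196 0) (P.cons (P.lf 1322368 0 0) (P.cons (P.lf 0 21046 0) (P.lf 0 7014 0)))) (P.cons (P.cons (P.lf 0 5699840 0) (P.cons (P.lf 0 628816 0) (P.cons (P.lf 10008 0 0) (P.lf 3334 0 0)))) (P.cons (P.cons (P.lf 2351674 0 0) (P.cons (P.lf 155416 0 0) (P.cons (P.lf 0 2472 0) P.nil))) (P.cons (P.cons (P.lf 0 129172 0) (P.cons (P.lf 0 19786 0) P.nil)) (P.cons (P.cons (P.lf 0 20012 0) P.nil) P.nil)))))) 7250)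
 EL.nil)))
noncomputable def S401_430_512_586_5 : EL := (EL.cons 0 (TM.mk (P.cons (P.cons (P.lf 1191863816 0 0) (P.cons (P.lf 0 22360127 0) (P.cons (P.lf 460761 0 0) (P.cons (P.lf 115287 0 0) (P.cons (P.lf 0 1084 0) (P.cons (P.lf 15 0 0) P.nil)))))) (P.cons (P.cons (P.lf 517796335 0 0) (P.cons (P.lf 9919757 0 0) (P.cons (P.lf 0 296493 0) (P.cons (P.lf 0 48215 0) (P.cons (P.lf 1434 0 0) P.nil))))) (P.cons (P.cons (P.lf 10097685 0 0) (P.cons (P.lf 443835 0 0) (P.cons (P.lf 68741 0 0) (P.cons (P.lf 0 4767 0) P.nil)))) (P.cons (P.cons (P.lf 0 14917851 0) (P.cons (P.lf 0 783740 0) (P.cons (P.lf 0 8771 0) P.nil))) (P.cons (P.cons (P.lf 128782 0 0) (P.cons (P.lf 91970 0 0) P.nil)) (P.cons (P.cons (P.lf 246619 0 0) P.nil) P.nil)))))) 98568)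
 (EL.cons 1 (TM.mk (P.cons (P.cons (P.lf 0 262593684 0) (P.cons (P.lf 4926425 0 0) (P.cons (P.lf 0 101514 0) (P.cons (P.lf 0 25398 0) (P.cons (P.lf 238 0 0) (P.cons (P.lf 0 1 0) P.nil)))))) (P.cons (P.cons (P.lf 0 45204438 0) (P.cons (P.lf 0 3477723 0) (P.cons (P.lf 91950 0 0) (P.cons (P.lf 17283 0 0) (P.cons (P.lf 0 376 0) P.nil))))) (P.cons (P.cons (P.lf 23482651 0 0) (P.cons (P.lf 554565 0 0) (P.cons (P.lf 0 33907 0) (P.cons (P.lf 0 2143 0) P.nil)))) (P.cons (P.cons (P.lf 2421971 0 0) (P.cons (P.lf 156045 0 0) (P.cons (P.lf 7100 0 0) P.nil))) (P.cons (P.cons (P.lf 0 794525 0) (P.cons (P.lf 0 63281 0) P.nil)) (P.cons (P.cons (P.lf 0 2846 0) P.nil) P.nil)))))) 40512)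
 (EL.cons 5 (TM.mk (P.cons (P.cons (P.lf 57855136 0 0) (P.cons (P.lf 0 1085398 0) (P.cons (P.lf 22366 0 0) (P.cons (P.lf 5596 0 0) (P.cons (P.lf 0 52 0) (P.cons (P.lf 0 0 0) P.nil)))))) (P.cons (P.cons (P.lf 0 5215676 0) (P.cons (P.lf 1050914 0 0) (P.cons (P.lf 0 26124 0) (P.cons (P.lf 0 5274 0) (P.cons (P.lf 96 0 0) P.nil))))) (P.cons (P.cons (P.lf 0 6857238 0) (P.cons (P.lf 0 340584 0) (P.cons (P.lf 13142 0 0) (P.cons (P.lf 1560 0 0) P.nil)))) (P.cons (P.cons (P.lf 898898 0 0) (P.cons (P.lf 11552 0 0) (P.cons (P.lf 0 3880 0) P.nil))) (P.cons (P.cons (P.lf 225092 0 0) (P.cons (P.lf 19736 0 0) P.nil)) (P.cons (P.cons (P.lf 0 45678 0) P.nil) P.nil)))))) 15064)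
 EL.nil)))
noncomputable def S401_430_512_586_6 : EL := (EL.cons 12 (TM.mk (P.lf 8589934592 0 0) 0)
 (EL.cons 3 (TM.mk (P.cons (P.lf 3378211968 0 0) (P.cons (P.lf 106440982 0 0) (P.cons (P.lf 0 15444026 0) (P.cons (P.lf 629992 0 0) (P.cons (P.lf 4275 0 0) (P.cons (P.lf 0 1953 0) P.nil)))))) 352)
 (EL.cons 7 (TM.mk (P.cons (P.lf 0 744294039 0) (P.cons (P.lf 171774507 0 0) (P.cons (P.lf 0 2395646 0) (P.cons (P.lf 0 321494 0) (P.cons (P.lf 25565 0 0) (P.cons (P.lf 0 650 0) P.nil)))))) 203)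
 EL.nil)))
noncomputable def S401_430_512_586_7 : EL := (EL.cons 12 (TM.mk (P.cons (P.cons (P.lf 4068002500 0 0) (P.cons (P.lf 0 38159168 0) (P.cons (P.lf 607352 0 0) (P.lf 202448 0 0)))) (P.cons (P.cons (P.lf 755481698 0 0) (P.cons (P.lf 26420088 0 0) (P.cons (P.lf 0 420504 0) (P.lf 0 140168 0)))) (P.cons (P.cons (P.lf 0 83948352 0) (P.cons (P.lf 0 6465920 0) (P.cons (P.lf 102912 0 0) (P.lf 34304 0 0)))) (P.cons (P.cons (P.lf 0 3013706 0) (P.cons (P.lf 589696 0 0) (P.cons (P.lf 0 9384 0) P.nil))) (P.cons (P.cons (P.lf 837486 0 0) (P.cons (P.lf 5936 0 0) P.nil)) (P.cons (P.cons (P.lf 0 40320 0) P.nil) P.nil)))))) 15826)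
 (EL.cons 3 (TM.mk (P.cons (P.cons (P.lf 2887226473 0 0) (P.cons (P.lf 30014140 0 0) (P.cons (P.lf 0 477712 0) (P.lf 0 159234 0)))) (P.cons (P.cons (P.lf 0 159225008 0) (P.cons (P.lf 0 19835064 0) (P.cons (P.lf 315694 0 0) (P.lf 105230 0 0)))) (P.cons (P.cons (P.lf 0 7368163 0) (P.cons (P.lf 4293800 0 0) (P.cons (P.lf 0 68340 0) (P.lf 0 22778 0)))) (P.cons (P.cons (P.lf 7292564 0 0) (P.cons (P.lf 0 202980 0) (P.cons (P.lf 3228 0 0) P.nil))) (P.cons (P.cons (P.lf 0 701612 0) (P.cons (P.lf 0 46370 0) P.nil)) (P.cons (P.cons (P.lf 0 10117 0) P.nil) P.nil)))))) 50824)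
 (EL.cons 7 (TM.mk (P.cons (P.cons (P.lf 1725093576 0 0) (P.cons (P.lf 75961649 0 0) (P.cons (P.lf 0 1209029 0) (P.lf 0 403011 0)))) (P.cons (P.cons (P.lf 0 256957396 0) (P.cons (P.lf 0 32009848 0) (P.cons (P.lf 509479 0 0) (P.lf 169826 0 0)))) (P.cons (P.cons (P.lf 0 45590258 0) (P.cons (P.lf 2731304 0 0) (P.cons (P.lf 0 43472 0) (P.lf 0 14492 0)))) (P.cons (P.cons (P.lf 5171758 0 0) (P.cons (P.lf 321328 0 0) (P.cons (P.lf 0 5114 0) P.nil))) (P.cons (P.cons (P.lf 157334 0 0) (P.cons (P.lf 0 45235 0) P.nil)) (P.cons (P.cons (P.lf 0 52926 0) P.nil) P.nil)))))) 23611)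
 (EL.cons 10 (TM.mk (P.cons (P.cons (P.lf 0 379889280 0) (P.cons (P.lf 14081976 0 0) (P.cons (P.lf 6977670 0 0) (P.cons (P.lf 0 63318 0) (P.lf 0 15828 0))))) (P.cons (P.cons (P.lf 175348152 0 0) (P.cons (P.lf 0 6499917 0) (P.cons (P.lf 0 3220731 0) (P.cons (P.lf 29226 0 0) (P.lf 7305 0 0))))) (P.cons (P.cons (P.lf 0 22679652 0) (P.cons (P.lf 840702 0 0) (P.cons (P.lf 416571 0 0) (P.cons (P.lf 0 3780 0) P.nil)))) (P.cons (P.cons (P.lf 236205 0 0) (P.cons (P.lf 0 8754 0) (P.cons (P.lf 0 4338 0) P.nil))) (P.cons (P.cons (P.lf 97899 0 0) (P.cons (P.lf 0 3627 0) P.nil)) (P.cons (P.cons (P.lf 0 7740 0) P.nil) P.nil)))))) 3972)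
 EL.nil))))
noncomputable def S401_430_512_586_8 : EL := (EL.cons 12 (TM.mk (P.cons (P.cons (P.lf 1926515756 0 0) (P.cons (P.lf 0 36142670 0) (P.cons (P.lf 744770 0 0) (P.cons (P.lf 186352 0 0) (P.cons (P.lf 0 1754 0) (P.cons (P.lf 28 0 0) P.nil)))))) (P.cons (P.cons (P.lf 715558750 0 0) (P.cons (P.lf 18311764 0 0) (P.cons (P.lf 0 526182 0) (P.cons (P.lf 0 89678 0) (P.cons (P.lf 2430 0 0) P.nil))))) (P.cons (P.cons (P.lf 0 13067806 0) (P.cons (P.lf 0 731108 0) (P.cons (P.lf 150342 0 0) (P.cons (P.lf 0 536 0) P.nil)))) (P.cons (P.cons (P.lf 0 17620904 0) (P.cons (P.lf 0 1068440 0) (P.cons (P.lf 0 28006 0) P.nil))) (P.cons (P.cons (P.lf 1083536 0 0) (P.cons (P.lf 209750 0 0) P.nil)) (P.cons (P.cons (P.lf 168028 0 0) P.nil) P.nil)))))) 96894)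
 (EL.cons 3 (TM.mk (P.cons (P.cons (P.lf 1977001134 0 0) (P.cons (P.lf 16990170 0 0) (P.cons (P.lf 0 603747 0) (P.cons (P.lf 0 79527 0) (P.cons (P.lf 3451 0 0) (P.cons (P.lf 0 56 0) P.nil)))))) (P.cons (P.cons (P.lf 51766249 0 0) (P.cons (P.lf 0 1085983 0) (P.cons (P.lf 468349 0 0) (P.cons (P.lf 0 8604 0) (P.cons (P.lf 0 4671 0) P.nil))))) (P.cons (P.cons (P.lf 0 91683137 0) (P.cons (P.lf 0 5273694 0) (P.cons (P.lf 0 172744 0) (P.cons (P.lf 36150 0 0) P.nil)))) (P.cons (P.cons (P.lf 14934417 0 0) (P.cons (P.lf 1920483 0 0) (P.cons (P.lf 47177 0 0) P.nil))) (P.cons (P.cons (P.lf 1152230 0 0) (P.cons (P.lf 0 171351 0) P.nil)) (P.cons (P.cons (P.lf 0 438667 0) P.nil) P.nil)))))) 260770)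
 (EL.cons 7 (TM.mk (P.cons (P.cons (P.lf 1800859363 0 0) (P.cons (P.lf 53489032 0 0) (P.cons (P.lf 0 1511546 0) (P.cons (P.lf 0 262764 0) (P.cons (P.lf 6835 0 0) (P.cons (P.lf 0 110 0) P.nil)))))) (P.cons (P.cons (P.lf 83540380 0 0) (P.cons (P.lf 0 1752573 0) (P.cons (P.lf 755831 0 0) (P.cons (P.lf 0 13872 0) (P.cons (P.lf 0 7535 0) P.nil))))) (P.cons (P.cons (P.lf 0 137002103 0) (P.cons (P.lf 0 8740538 0) (P.cons (P.lf 0 179648 0) (P.cons (P.lf 56516 0 0) P.nil)))) (P.cons (P.cons (P.lf 0 302693 0) (P.cons (P.lf 1580233 0 0) (P.cons (P.lf 40681 0 0) P.nil))) (P.cons (P.cons (P.lf 2930160 0 0) (P.cons (P.lf 103847 0 0) P.nil)) (P.cons (P.cons (P.lf 0 172345 0) P.nil) P.nil)))))) 184922)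
 (EL.cons 10 (TM.mk (P.cons (P.cons (P.lf 0 359814270 0) (P.cons (P.lf 16712994 0 0) (P.cons (P.lf 6430104 0 0) (P.cons (P.lf 0 137880 0) (P.cons (P.lf 0 12774 0) (P.cons (P.lf 456 0 0) P.nil)))))) (P.cons (P.cons (P.lf 99259734 0 0) (P.cons (P.lf 0 7574178 0) (P.cons (P.lf 0 1616802 0) (P.cons (P.lf 106446 0 0) (P.cons (P.lf 1578 0 0) P.nil))))) (P.cons (P.cons (P.lf 16787670 0 0) (P.cons (P.lf 1229748 0 0) (P.cons (P.lf 0 406476 0) (P.cons (P.lf 0 39948 0) P.nil)))) (P.cons (P.cons (P.lf 0 6926358 0) (P.cons (P.lf 0 200994 0) (P.cons (P.lf 151470 0 0) P.nil))) (P.cons (P.cons (P.lf 380448 0 0) (P.cons (P.lf 44172 0 0) P.nil)) (P.cons (P.cons (P.lf 58944 0 0) P.nil) P.nil)))))) 59790)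
 EL.nil))))
noncomputable def S401_430_512_586_9 : EL := (EL.cons 3 (TM.mk (P.cons (P.lf 3378211968 0 0) (P.cons (P.lf 106440982 0 0) (P.cons (P.lf 0 15444026 0) (P.cons (P.lf 629992 0 0) (P.cons (P.lf 4275 0 0) (P.cons (P.lf 0 1953 0) P.nil)))))) 352)
 (EL.cons 7 (TM.mk (P.cons (P.lf 0 744294039 0) (P.cons (P.lf 171774507 0 0) (P.cons (P.lf 0 2395646 0) (P.cons (P.lf 0 321494 0) (P.cons (P.lf 25565 0 0) (P.cons (P.lf 0 650 0) P.nil)))))) 203)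
 EL.nil))
noncomputable def S401_430_512_586_10 : EL := (EL.cons 3 (TM.mk (P.cons (P.cons (P.lf 1599846259 0 0) (P.cons (P.lf 0 15007070 0) (P.cons (P.lf 238856 0 0) (P.lf 79617 0 0)))) (P.cons (P.cons (P.lf 347520631 0 0) (P.cons (P.lf 9917532 0 0) (P.cons (P.lf 0 157847 0) (P.lf 0 52615 0)))) (P.cons (P.cons (P.lf 0 30967342 0) (P.cons (P.lf 0 2146900 0) (P.cons (P.lf 34170 0 0) (P.lf 11389 0 0)))) (P.cons (P.cons (P.lf 0 3285397 0) (P.cons (P.lf 101490 0 0) (P.cons (P.lf 0 1614 0) P.nil))) (P.cons (P.cons (P.lf 500383 0 0) (P.cons (P.lf 23185 0 0) P.nil)) (P.cons (P.cons (P.lf 0 6766 0) P.nil) P.nil)))))) 12105)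
 (EL.cons 7 (TM.mk (P.cons (P.cons (P.lf 0 352481148 0) (P.cons (P.lf 3306386 0 0) (P.cons (P.lf 0 52625 0) (P.lf 0 17541 0)))) (P.cons (P.cons (P.lf 15888200 0 0) (P.cons (P.lf 0 3052303 0) (P.cons (P.lf 48580 0 0) (P.lf 16193 0 0)))) (P.cons (P.cons (P.lf 21246874 0 0) (P.cons (P.lf 1099223 0 0) (P.cons (P.lf 0 17495 0) (P.lf 0 5831 0)))) (P.cons (P.cons (P.lf 0 1780550 0) (P.cons (P.lf 0 186335 0) (P.cons (P.lf 2965 0 0) P.nil))) (P.cons (P.cons (P.lf 0 125587 0) (P.cons (P.lf 11978 0 0) P.nil)) (P.cons (P.cons (P.lf 26163 0 0) P.nil) P.nil)))))) 4998)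
 EL.nil))
noncomputable def S401_430_512_586_11 : EL := (EL.cons 3 (TM.mk (P.cons (P.cons (P.lf 757651704 0 0) (P.cons (P.lf 0 14214030 0) (P.cons (P.lf 292899 0 0) (P.cons (P.lf 73287 0 0) (P.cons (P.lf 0 689 0) (P.cons (P.lf 10 0 0) P.nil)))))) (P.cons (P.cons (P.lf 305283973 0 0) (P.cons (P.lf 6753713 0 0) (P.cons (P.lf 0 197705 0) (P.cons (P.lf 0 32958 0) (P.cons (P.lf 933 0 0) P.nil))))) (P.cons (P.cons (P.lf 263773 0 0) (P.cons (P.lf 4362 0 0) (P.cons (P.lf 51266 0 0) (P.cons (P.lf 0 1656 0) P.nil)))) (P.cons (P.cons (P.lf 0 8237025 0) (P.cons (P.lf 0 464823 0) (P.cons (P.lf 0 8149 0) P.nil))) (P.cons (P.cons (P.lf 284714 0 0) (P.cons (P.lf 71889 0 0) P.nil)) (P.cons (P.cons (P.lf 110147 0 0) P.nil) P.nil)))))) 51558)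
 (EL.cons 7 (TM.mk (P.cons (P.cons (P.lf 0 166927253 0) (P.cons (P.lf 3131662 0 0) (P.cons (P.lf 0 64532 0) (P.cons (P.lf 0 16146 0) (P.cons (P.lf 151 0 0) (P.cons (P.lf 0 2 0) P.nil)))))) (P.cons (P.cons (P.lf 0 23476292 0) (P.cons (P.lf 0 2309415 0) (P.cons (P.lf 60485 0 0) (P.cons (P.lf 11496 0 0) (P.cons (P.lf 0 245 0) P.nil))))) (P.cons (P.cons (P.lf 14904163 0 0) (P.cons (P.lf 439612 0 0) (P.cons (P.lf 0 23756 0) (P.cons (P.lf 0 1798 0) P.nil)))) (P.cons (P.cons (P.lf 993817 0 0) (P.cons (P.lf 74203 0 0) (P.cons (P.lf 5551 0 0) P.nil))) (P.cons (P.cons (P.lf 0 463656 0) (P.cons (P.lf 0 40129 0) P.nil)) (P.cons (P.cons (P.lf 14495 0 0) P.nil) P.nil)))))) 20446)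
 EL.nil))
noncomputable def S401_430_512_586_12 : EL := (EL.cons 4 (TM.mk (P.cons (P.lf 0 3378211968 0) (P.cons (P.lf 0 106440982 0) (P.cons (P.lf 15444026 0 0) (P.cons (P.lf 0 629992 0) (P.cons (P.lf 0 4275 0) (P.cons (P.lf 1953 0 0) P.nil)))))) 352)
 (EL.cons 8 (TM.mk (P.cons (P.lf 744294039 0 0) (P.cons (P.lf 0 171774507 0) (P.cons (P.lf 2395646 0 0) (P.cons (P.lf 321494 0 0) (P.cons (P.lf 0 25565 0) (P.cons (P.lf 650 0 0) P.nil)))))) 203)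
 EL.nil))
noncomputable def S401_430_512_586_13 : EL := (EL.cons 4 (TM.mk (P.cons (P.cons (P.lf 0 1599846259 0) (P.cons (P.lf 15007070 0 0) (P.cons (P.lf 0 238856 0) (P.lf 0 79617 0)))) (P.cons (P.cons (P.lf 0 347520631 0) (P.cons (P.lf 0 9917532 0) (P.cons (P.lf 157847 0 0) (P.lf 52615 0 0)))) (P.cons (P.cons (P.lf 30967342 0 0) (P.cons (P.lf 2146900 0 0) (P.cons (P.lf 0 34170 0) (P.lf 0 11389 0)))) (P.cons (P.cons (P.lf 3285397 0 0) (P.cons (P.lf 0 101490 0) (P.cons (P.lf 1614 0 0) P.nil))) (P.cons (P.cons (P.lf 0 500383 0) (P.cons (P.lf 0 23185 0) P.nil)) (P.cons (P.cons (P.lf 6766 0 0) P.nil) P.nil)))))) 12105)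
 (EL.cons 8 (TM.mk (P.cons (P.cons (P.lf 352481148 0 0) (P.cons (P.lf 0 3306386 0) (P.cons (P.lf 52625 0 0) (P.lf 17541 0 0)))) (P.cons (P.cons (P.lf 0 15888200 0) (P.cons (P.lf 3052303 0 0) (P.cons (P.lf 0 48580 0) (P.lf 0 16193 0)))) (P.cons (P.cons (P.lf 0 21246874 0) (P.cons (P.lf 0 1099223 0) (P.cons (P.lf 17495 0 0) (P.lf 5831 0 0)))) (P.cons (P.cons (P.lf 1780550 0 0) (P.cons (P.lf 186335 0 0) (P.cons (P.lf 0 2965 0) P.nil))) (P.cons (P.cons (P.lf 125587 0 0) (P.cons (P.lf 0 11978 0) P.nil)) (P.cons (P.cons (P.lf 0 26163 0) P.nil) P.nil)))))) 4998)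
 EL.nil))
noncomputable def S401_430_512_586_14 : EL := (EL.cons 4 (TM.mk (P.cons (P.cons (P.lf 0 757651704 0) (P.cons (P.lf 14214030 0 0) (P.cons (P.lf 0 292899 0) (P.cons (P.lf 0 73287 0) (P.cons (P.lf 689 0 0) (P.cons (P.lf 0 10 0) P.nil)))))) (P.cons (P.cons (P.lf 0 305283973 0) (P.cons (P.lf 0 6753713 0) (P.cons (P.lf 197705 0 0) (P.cons (P.lf 32958 0 0) (P.cons (P.lf 0 933 0) P.nil))))) (P.cons (P.cons (P.lf 0 263773 0) (P.cons (P.lf 0 4362 0) (P.cons (P.lf 0 51266 0) (P.cons (P.lf 1656 0 0) P.nil)))) (P.cons (P.cons (P.lf 8237025 0 0) (P.cons (P.lf 464823 0 0) (P.cons (P.lf 8149 0 0) P.nil))) (P.cons (P.cons (P.lf 0 284714 0) (P.cons (P.lf 0 71889 0) P.nil)) (P.cons (P.cons (P.lf 0 110147 0) P.nil) P.nil)))))) 51558)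
 (EL.cons 8 (TM.mk (P.cons (P.cons (P.lf 166927253 0 0) (P.cons (P.lf 0 3131662 0) (P.cons (P.lf 64532 0 0) (P.cons (P.lf 16146 0 0) (P.cons (P.lf 0 151 0) (P.cons (P.lf 2 0 0) P.nil)))))) (P.cons (P.cons (P.lf 23476292 0 0) (P.cons (P.lf 2309415 0 0) (P.cons (P.lf 0 60485 0) (P.cons (P.lf 0 11496 0) (P.cons (P.lf 245 0 0) P.nil))))) (P.cons (P.cons (P.lf 0 14904163 0) (P.cons (P.lf 0 439612 0) (P.cons (P.lf 23756 0 0) (P.cons (P.lf 1798 0 0) P.nil)))) (P.cons (P.cons (P.lf 0 993817 0) (P.cons (P.lf 0 74203 0) (P.cons (P.lf 0 5551 0) P.nil))) (P.cons (P.cons (P.lf 463656 0 0) (P.cons (P.lf 40129 0 0) P.nil)) (P.cons (P.cons (P.lf 0 14495 0) P.nil) P.nil)))))) 20446)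
 EL.nil))
noncomputable def S401_430_512_586_15 : EL := (EL.cons 4 (TM.mk (P.cons (P.lf 0 2834279364 0) (P.cons (P.lf 0 178605417 0) (P.cons (P.lf 23100948 0 0) (P.cons (P.lf 0 240588 0) (P.cons (P.lf 0 99717 0) (P.cons (P.lf 7884 0 0) P.nil)))))) 864)
 (EL.cons 8 (TM.mk (P.cons (P.lf 624453780 0 0) (P.cons (P.lf 0 124441411 0) (P.cons (P.lf 0 5385712 0) (P.cons (P.lf 1108363 0 0) (P.cons (P.lf 0 48224 0) (P.cons (P.lf 0 1532 0) P.nil)))))) 521)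
 EL.nil))
noncomputable def S401_430_512_586_16 : EL := (EL.cons 4 (TM.mk (P.cons (P.cons (P.lf 0 1342251842 0) (P.cons (P.lf 12590752 0 0) (P.cons (P.lf 0 200397 0) (P.lf 0 66797 0)))) (P.cons (P.cons (P.lf 0 333857427 0) (P.cons (P.lf 0 7923980 0) (P.cons (P.lf 126118 0 0) (P.lf 42039 0 0)))) (P.cons (P.cons (P.lf 22930869 0 0) (P.cons (P.lf 1481493 0 0) (P.cons (P.lf 0 23579 0) (P.lf 0 7859 0)))) (P.cons (P.cons (P.lf 4657653 0 0) (P.cons (P.lf 11989 0 0) (P.cons (P.lf 0 191 0) P.nil))) (P.cons (P.cons (P.lf 0 507814 0) (P.cons (P.lf 0 31905 0) P.nil)) (P.cons (P.cons (P.lf 0 14898 0) P.nil) P.nil)))))) 15331)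
 (EL.cons 8 (TM.mk (P.cons (P.cons (P.lf 295727460 0 0) (P.cons (P.lf 0 2774018 0) (P.cons (P.lf 44151 0 0) (P.lf 14717 0 0)))) (P.cons (P.cons (P.lf 0 4012204 0) (P.cons (P.lf 2473441 0 0) (P.cons (P.lf 0 39367 0) (P.lf 0 13122 0)))) (P.cons (P.cons (P.lf 0 19597840 0) (P.cons (P.lf 0 828866 0) (P.cons (P.lf 13192 0 0) (P.lf 4397 0 0)))) (P.cons (P.cons (P.lf 1048290 0 0) (P.cons (P.lf 115050 0 0) (P.cons (P.lf 0 1830 0) P.nil))) (P.cons (P.cons (P.lf 231817 0 0) (P.cons (P.lf 0 434 0) P.nil)) (P.cons (P.cons (P.lf 0 28972 0) P.nil) P.nil)))))) 6025)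
 EL.nil))
noncomputable def S401_430_512_586_17 : EL := (EL.cons 4 (TM.mk (P.cons (P.cons (P.lf 0 635660701 0) (P.cons (P.lf 11925401 0 0) (P.cons (P.lf 0 245739 0) (P.cons (P.lf 0 61486 0) (P.cons (P.lf 578 0 0) (P.cons (P.lf 0 8 0) P.nil)))))) (P.cons (P.cons (P.lf 0 276158045 0) (P.cons (P.lf 0 5290537 0) (P.cons (P.lf 158130 0 0) (P.cons (P.lf 25714 0 0) (P.cons (P.lf 0 765 0) P.nil))))) (P.cons (P.cons (P.lf 0 5385432 0) (P.cons (P.lf 0 236712 0) (P.cons (P.lf 0 36661 0) (P.cons (P.lf 2542 0 0) P.nil)))) (P.cons (P.cons (P.lf 7956187 0 0) (P.cons (P.lf 417994 0 0) (P.cons (P.lf 4678 0 0) P.nil))) (P.cons (P.cons (P.lf 0 68684 0) (P.cons (P.lf 0 49050 0) P.nil)) (P.cons (P.cons (P.lf 0 131530 0) P.nil) P.nil)))))) 52580)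
 (EL.cons 8 (TM.mk (P.cons (P.cons (P.lf 140049965 0 0) (P.cons (P.lf 0 2627427 0) (P.cons (P.lf 54141 0 0) (P.cons (P.lf 13546 0 0) (P.cons (P.lf 0 127 0) (P.cons (P.lf 1 0 0) P.nil)))))) (P.cons (P.cons (P.lf 24109034 0 0) (P.cons (P.lf 1854786 0 0) (P.cons (P.lf 0 49040 0) (P.cons (P.lf 0 9218 0) (P.cons (P.lf 201 0 0) P.nil))))) (P.cons (P.cons (P.lf 0 12524081 0) (P.cons (P.lf 0 295768 0) (P.cons (P.lf 18084 0 0) (P.cons (P.lf 1143 0 0) P.nil)))) (P.cons (P.cons (P.lf 0 1291718 0) (P.cons (P.lf 0 83224 0) (P.cons (P.lf 0 3787 0) P.nil))) (P.cons (P.cons (P.lf 423747 0 0) (P.cons (P.lf 33750 0 0) P.nil)) (P.cons (P.cons (P.lf 1518 0 0) P.nil) P.nil)))))) 21595)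
 EL.nil))
noncomputable def S401_430_512_586_18 : EL := (EL.cons 4 (TM.mk (P.cons (P.lf 0 2377926426 0) (P.cons (P.lf 0 224771707 0) (P.cons (P.lf 25531065 0 0) (P.cons (P.lf 650420 0 0) (P.cons (P.lf 0 209580 0) (P.cons (P.lf 9701 0 0) P.nil)))))) 1817)
 (EL.cons 8 (TM.mk (P.cons (P.lf 523909239 0 0) (P.cons (P.lf 0 87897477 0) (P.cons (P.lf 0 10203278 0) (P.cons (P.lf 1362537 0 0) (P.cons (P.lf 0 9310 0) (P.cons (P.lf 0 8089 0) P.nil)))))) 965)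
 EL.nil))
noncomputable def S401_430_512_586_19 : EL := (EL.cons 4 (TM.mk (P.cons (P.cons (P.lf 0 1126133213 0) (P.cons (P.lf 10563490 0 0) (P.cons (P.lf 0 168131 0) (P.lf 0 56042 0)))) (P.cons (P.cons (P.lf 0 315584680 0) (P.cons (P.lf 0 6315288 0) (P.cons (P.lf 100514 0 0) (P.lf 33504 0 0)))) (P.cons (P.cons (P.lf 15561530 0 0) (P.cons (P.lf 985193 0 0) (P.cons (P.lf 0 15679 0) (P.lf 0 5226 0)))) (P.cons (P.cons (P.lf 5584413 0 0) (P.cons (P.lf 81585 0 0) (P.cons (P.lf 0 1298 0) P.nil))) (P.cons (P.cons (P.lf 0 444539 0) (P.cons (P.lf 0 33360 0) P.nil)) (P.cons (P.cons (P.lf 0 39904 0) P.nil) P.nil)))))) 18446)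
 (EL.cons 8 (TM.mk (P.cons (P.cons (P.lf 248111795 0 0) (P.cons (P.lf 0 2327368 0) (P.cons (P.lf 37042 0 0) (P.lf 12347 0 0)))) (P.cons (P.cons (P.lf 4451335 0 0) (P.cons (P.lf 2001857 0 0) (P.cons (P.lf 0 31861 0) (P.lf 0 10620 0)))) (P.cons (P.cons (P.lf 0 17682697 0) (P.cons (P.lf 0 619383 0) (P.cons (P.lf 9858 0 0) (P.lf 3285 0 0)))) (P.cons (P.cons (P.lf 423094 0 0) (P.cons (P.lf 64694 0 0) (P.cons (P.lf 0 1029 0) P.nil))) (P.cons (P.cons (P.lf 297058 0 0) (P.cons (P.lf 6240 0 0) P.nil)) (P.cons (P.cons (P.lf 0 25414 0) P.nil) P.nil)))))) 7181)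
 EL.nil))
noncomputable def S401_430_512_586_20 : EL := (EL.cons 4 (TM.mk (P.cons (P.cons (P.lf 0 533311711 0) (P.cons (P.lf 10005269 0 0) (P.cons (P.lf 0 206172 0) (P.cons (P.lf 0 51586 0) (P.cons (P.lf 484 0 0) (P.cons (P.lf 0 7 0) P.nil)))))) (P.cons (P.cons (P.lf 0 248496920 0) (P.cons (P.lf 0 4123451 0) (P.cons (P.lf 126172 0 0) (P.cons (P.lf 19948 0 0) (P.cons (P.lf 0 626 0) P.nil))))) (P.cons (P.cons (P.lf 0 9380406 0) (P.cons (P.lf 0 384194 0) (P.cons (P.lf 0 25635 0) (P.cons (P.lf 3048 0 0) P.nil)))) (P.cons (P.cons (P.lf 7492548 0 0) (P.cons (P.lf 366593 0 0) (P.cons (P.lf 2310 0 0) P.nil))) (P.cons (P.cons (P.lf 129468 0 0) (P.cons (P.lf 0 30011 0) P.nil)) (P.cons (P.cons (P.lf 0 143512 0) P.nil) P.nil)))))) 53182)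
 (EL.cons 8 (TM.mk (P.cons (P.cons (P.lf 117500243 0 0) (P.cons (P.lf 0 2204379 0) (P.cons (P.lf 45424 0 0) (P.cons (P.lf 11365 0 0) (P.cons (P.lf 0 106 0) (P.cons (P.lf 1 0 0) P.nil)))))) (P.cons (P.cons (P.lf 23929398 0 0) (P.cons (P.lf 1486687 0 0) (P.cons (P.lf 0 39713 0) (P.cons (P.lf 0 7376 0) (P.cons (P.lf 166 0 0) P.nil))))) (P.cons (P.cons (P.lf 0 10407405 0) (P.cons (P.lf 0 189037 0) (P.cons (P.lf 13668 0 0) (P.cons (P.lf 663 0 0) P.nil)))) (P.cons (P.cons (P.lf 0 1485368 0) (P.cons (P.lf 0 85168 0) (P.cons (P.lf 0 2503 0) P.nil))) (P.cons (P.cons (P.lf 373330 0 0) (P.cons (P.lf 27537 0 0) P.nil)) (P.cons (P.cons (P.lf 15428 0 0) P.nil) P.nil)))))) 21454)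
 EL.nil))
noncomputable def S401_430_512_586_21 : EL := (EL.cons 4 (TM.mk (P.cons (P.cons (P.lf 0 1287380214 0) (P.cons (P.lf 0 45021210 0) (P.cons (P.lf 716568 0 0) (P.lf 238851 0 0)))) (P.cons (P.cons (P.lf 506745639 0 0) (P.cons (P.lf 29752596 0 0) (P.cons (P.lf 0 473541 0) (P.lf 0 157845 0)))) (P.cons (P.cons (P.lf 0 23599179 0) (P.cons (P.lf 0 6440700 0) (P.cons (P.lf 102510 0 0) (P.lf 34167 0 0)))) (P.cons (P.cons (P.lf 0 10577961 0) (P.cons (P.lf 304470 0 0) (P.cons (P.lf 0 4842 0) P.nil))) (P.cons (P.cons (P.lf 1201995 0 0) (P.cons (P.lf 69555 0 0) P.nil)) (P.cons (P.cons (P.lf 3351 0 0) P.nil) P.nil)))))) 38700)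
 (EL.cons 8 (TM.mk (P.cons (P.cons (P.lf 0 2077574724 0) (P.cons (P.lf 0 72655263 0) (P.cons (P.lf 1156404 0 0) (P.lf 385470 0 0)))) (P.cons (P.cons (P.lf 272845596 0 0) (P.cons (P.lf 28957545 0 0) (P.cons (P.lf 0 460899 0) (P.lf 0 153633 0)))) (P.cons (P.cons (P.lf 66837132 0 0) (P.cons (P.lf 0 1632081 0) (P.cons (P.lf 25977 0 0) (P.lf 8661 0 0)))) (P.cons (P.cons (P.lf 0 6952308 0) (P.cons (P.lf 0 507663 0) (P.cons (P.lf 8079 0 0) P.nil))) (P.cons (P.cons (P.lf 0 282921 0) (P.cons (P.lf 57213 0 0) P.nil)) (P.cons (P.cons (P.lf 79089 0 0) P.nil) P.nil)))))) 18594)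
 (EL.cons 11 (TM.mk (P.cons (P.cons (P.lf 379889280 0 0) (P.cons (P.lf 0 14081976 0) (P.cons (P.lf 0 6977670 0) (P.cons (P.lf 63318 0 0) (P.lf 15828 0 0))))) (P.cons (P.cons (P.lf 0 175348152 0) (P.cons (P.lf 6499917 0 0) (P.cons (P.lf 3220731 0 0) (P.cons (P.lf 0 29226 0) (P.lf 0 7305 0))))) (P.cons (P.cons (P.lf 22679652 0 0) (P.cons (P.lf 0 840702 0) (P.cons (P.lf 0 416571 0) (P.cons (P.lf 3780 0 0) P.nil)))) (P.cons (P.cons (P.lf 0 236205 0) (P.cons (P.lf 8754 0 0) (P.cons (P.lf 4338 0 0) P.nil))) (P.cons (P.cons (P.lf 0 97899 0) (P.cons (P.lf 3627 0 0) P.nil)) (P.cons (P.cons (P.lf 7740 0 0) P.nil) P.nil)))))) 3972)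
 EL.nil)))
noncomputable def S401_430_512_586_22 : EL := (EL.cons 4 (TM.mk (P.cons (P.cons (P.lf 0 609674715 0) (P.cons (P.lf 0 15602100 0) (P.cons (P.lf 448323 0 0) (P.cons (P.lf 76407 0 0) (P.cons (P.lf 0 2070 0) (P.cons (P.lf 33 0 0) P.nil)))))) (P.cons (P.cons (P.lf 126758862 0 0) (P.cons (P.lf 3919848 0 0) (P.cons (P.lf 0 333027 0) (P.cons (P.lf 0 12177 0) (P.cons (P.lf 2802 0 0) P.nil))))) (P.cons (P.cons (P.lf 45973455 0 0) (P.cons (P.lf 2639028 0 0) (P.cons (P.lf 112005 0 0) (P.cons (P.lf 0 18903 0) P.nil)))) (P.cons (P.cons (P.lf 0 11585721 0) (P.cons (P.lf 0 1192653 0) (P.cons (P.lf 0 27663 0) P.nil))) (P.cons (P.cons (P.lf 0 433758 0) (P.cons (P.lf 121620 0 0) P.nil)) (P.cons (P.cons (P.lf 274407 0 0) P.nil) P.nil)))))) 104595)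
 (EL.cons 8 (TM.mk (P.cons (P.cons (P.lf 0 983893308 0) (P.cons (P.lf 0 25178685 0) (P.cons (P.lf 723507 0 0) (P.cons (P.lf 123309 0 0) (P.cons (P.lf 0 3342 0) (P.cons (P.lf 54 0 0) P.nil)))))) (P.cons (P.cons (P.lf 0 53508336 0) (P.cons (P.lf 0 278421 0) (P.cons (P.lf 0 347673 0) (P.cons (P.lf 12684 0 0) (P.cons (P.lf 3645 0 0) P.nil))))) (P.cons (P.cons (P.lf 75953133 0 0) (P.cons (P.lf 4590075 0 0) (P.cons (P.lf 77946 0 0) (P.cons (P.lf 0 29157 0) P.nil)))) (P.cons (P.cons (P.lf 648255 0 0) (P.cons (P.lf 0 753015 0) (P.cons (P.lf 0 17565 0) P.nil))) (P.cons (P.cons (P.lf 0 1696908 0) (P.cons (P.lf 0 71988 0) P.nil)) (P.cons (P.cons (P.lf 93420 0 0) P.nil) P.nil)))))) 82227)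
 (EL.cons 11 (TM.mk (P.cons (P.cons (P.lf 179907135 0 0) (P.cons (P.lf 0 8356497 0) (P.cons (P.lf 0 3215052 0) (P.cons (P.lf 68940 0 0) (P.cons (P.lf 6387 0 0) (P.cons (P.lf 0 228 0) P.nil)))))) (P.cons (P.cons (P.lf 0 49629867 0) (P.cons (P.lf 3787089 0 0) (P.cons (P.lf 808401 0 0) (P.cons (P.lf 0 53223 0) (P.cons (P.lf 0 789 0) P.nil))))) (P.cons (P.cons (P.lf 0 8393835 0) (P.cons (P.lf 0 614874 0) (P.cons (P.lf 203238 0 0) (P.cons (P.lf 19974 0 0) P.nil)))) (P.cons (P.cons (P.lf 3463179 0 0) (P.cons (P.lf 100497 0 0) (P.cons (P.lf 0 75735 0) P.nil))) (P.cons (P.cons (P.lf 0 190224 0) (P.cons (P.lf 0 22086 0) P.nil)) (P.cons (P.cons (P.lf 0 29472 0) P.nil) P.nil)))))) 29895)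
 EL.nil)))
noncomputable def S401_430_512_586_23 : EL := (EL.cons 4 (TM.mk (P.cons (P.cons (P.lf 0 1080096573 0) (P.cons (P.lf 0 37772253 0) (P.cons (P.lf 601191 0 0) (P.lf 200391 0 0)))) (P.cons (P.cons (P.lf 391121745 0 0) (P.cons (P.lf 23771940 0 0) (P.cons (P.lf 0 378351 0) (P.lf 0 126114 0)))) (P.cons (P.cons (P.lf 0 1465824 0) (P.cons (P.lf 0 4444479 0) (P.cons (P.lf 70737 0 0) (P.lf 23574 0 0)))) (P.cons (P.cons (P.lf 0 11643702 0) (P.cons (P.lf 0 35973 0) (P.cons (P.lf 573 0 0) P.nil))) (P.cons (P.cons (P.lf 897264 0 0) (P.cons (P.lf 95715 0 0) P.nil)) (P.cons (P.cons (P.lf 72627 0 0) P.nil) P.nil)))))) 47481)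
 (EL.cons 8 (TM.mk (P.cons (P.cons (P.lf 0 1743060300 0) (P.cons (P.lf 0 60956895 0) (P.cons (P.lf 970209 0 0) (P.lf 323403 0 0)))) (P.cons (P.cons (P.lf 173993697 0 0) (P.cons (P.lf 22374396 0 0) (P.cons (P.lf 0 356118 0) (P.lf 0 118704 0)))) (P.cons (P.cons (P.lf 71256873 0 0) (P.cons (P.lf 0 325131 0) (P.cons (P.lf 5175 0 0) (P.lf 1725 0 0)))) (P.cons (P.cons (P.lf 0 5437644 0) (P.cons (P.lf 0 591501 0) (P.cons (P.lf 9411 0 0) P.nil))) (P.cons (P.cons (P.lf 0 637023 0) (P.cons (P.lf 45294 0 0) P.nil)) (P.cons (P.cons (P.lf 97296 0 0) P.nil) P.nil)))))) 26778)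
 (EL.cons 11 (TM.mk (P.cons (P.cons (P.lf 318722553 0 0) (P.cons (P.lf 0 11814609 0) (P.cons (P.lf 0 5854179 0) (P.cons (P.lf 53121 0 0) (P.lf 13278 0 0))))) (P.cons (P.cons (P.lf 0 137072661 0) (P.cons (P.lf 5081094 0 0) (P.cons (P.lf 2517699 0 0) (P.cons (P.lf 0 22845 0) (P.lf 0 5709 0))))) (P.cons (P.cons (P.lf 12935553 0 0) (P.cons (P.lf 0 479499 0) (P.cons (P.lf 0 237594 0) (P.cons (P.lf 2154 0 0) P.nil)))) (P.cons (P.cons (P.lf 1133358 0 0) (P.cons (P.lf 0 42012 0) (P.cons (P.lf 0 20817 0) P.nil))) (P.cons (P.cons (P.lf 0 202401 0) (P.cons (P.lf 7500 0 0) P.nil)) (P.cons (P.cons (P.lf 7989 0 0) P.nil) P.nil)))))) 7488)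
 EL.nil)))
noncomputable def S401_430_512_586_24 : EL := (EL.cons 4 (TM.mk (P.cons (P.cons (P.lf 0 511509780 0) (P.cons (P.lf 0 13089975 0) (P.cons (P.lf 376137 0 0) (P.cons (P.lf 64104 0 0) (P.cons (P.lf 0 1737 0) (P.cons (P.lf 27 0 0) P.nil)))))) (P.cons (P.cons (P.lf 90232473 0 0) (P.cons (P.lf 2876265 0 0) (P.cons (P.lf 0 267555 0) (P.cons (P.lf 0 8199 0) (P.cons (P.lf 2295 0 0) P.nil))))) (P.cons (P.cons (P.lf 44260482 0 0) (P.cons (P.lf 2377578 0 0) (P.cons (P.lf 83448 0 0) (P.cons (P.lf 0 16473 0) P.nil)))) (P.cons (P.cons (P.lf 0 9086559 0) (P.cons (P.lf 0 948336 0) (P.cons (P.lf 0 18900 0) P.nil))) (P.cons (P.cons (P.lf 0 827334 0) (P.cons (P.lf 60984 0 0) P.nil)) (P.cons (P.cons (P.lf 270819 0 0) P.nil) P.nil)))))) 101274)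
 (EL.cons 8 (TM.mk (P.cons (P.cons (P.lf 0 825474696 0) (P.cons (P.lf 0 21124614 0) (P.cons (P.lf 607014 0 0) (P.cons (P.lf 103455 0 0) (P.cons (P.lf 0 2802 0) (P.cons (P.lf 45 0 0) P.nil)))))) (P.cons (P.cons (P.lf 0 70901976 0) (P.cons (P.lf 0 899187 0) (P.cons (P.lf 0 272568 0) (P.cons (P.lf 13899 0 0) (P.cons (P.lf 2970 0 0) P.nil))))) (P.cons (P.cons (P.lf 66083067 0 0) (P.cons (P.lf 3940233 0 0) (P.cons (P.lf 53430 0 0) (P.cons (P.lf 0 24600 0) P.nil)))) (P.cons (P.cons (P.lf 2602986 0 0) (P.cons (P.lf 0 513303 0) (P.cons (P.lf 0 11229 0) P.nil))) (P.cons (P.cons (P.lf 0 1707288 0) (P.cons (P.lf 0 97977 0) P.nil)) (P.cons (P.cons (P.lf 43338 0 0) P.nil) P.nil)))))) 80274)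
 (EL.cons 11 (TM.mk (P.cons (P.cons (P.lf 150939930 0 0) (P.cons (P.lf 0 7011000 0) (P.cons (P.lf 0 2697390 0) (P.cons (P.lf 57840 0 0) (P.cons (P.lf 5358 0 0) (P.cons (P.lf 0 192 0) P.nil)))))) (P.cons (P.cons (P.lf 0 36883035 0) (P.cons (P.lf 2956419 0 0) (P.cons (P.lf 593247 0 0) (P.cons (P.lf 0 42831 0) (P.cons (P.lf 0 492 0) P.nil))))) (P.cons (P.cons (P.lf 0 9044334 0) (P.cons (P.lf 0 383709 0) (P.cons (P.lf 204216 0 0) (P.cons (P.lf 15087 0 0) P.nil)))) (P.cons (P.cons (P.lf 2902182 0 0) (P.cons (P.lf 52227 0 0) (P.cons (P.lf 0 61773 0) P.nil))) (P.cons (P.cons (P.lf 0 43425 0) (P.cons (P.lf 0 12930 0) P.nil)) (P.cons (P.cons (P.lf 0 44490 0) P.nil) P.nil)))))) 28839)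
 EL.nil)))
noncomputable def S401_430_512_586_25 : EL := (EL.cons 4 (TM.mk (P.cons (P.cons (P.lf 0 906188082 0) (P.cons (P.lf 0 31690467 0) (P.cons (P.lf 504390 0 0) (P.lf 168126 0 0)))) (P.cons (P.cons (P.lf 299594208 0 0) (P.cons (P.lf 18945867 0 0) (P.cons (P.lf 0 301539 0) (P.lf 0 100512 0)))) (P.cons (P.cons (P.lf 13252236 0 0) (P.cons (P.lf 0 2955579 0) (P.cons (P.lf 47040 0 0) (P.lf 15678 0 0)))) (P.cons (P.cons (P.lf 0 11476842 0) (P.cons (P.lf 0 244758 0) (P.cons (P.lf 3897 0 0) P.nil))) (P.cons (P.cons (P.lf 510666 0 0) (P.cons (P.lf 100077 0 0) P.nil)) (P.cons (P.cons (P.lf 130023 0 0) P.nil) P.nil)))))) 49611)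
 (EL.cons 8 (TM.mk (P.cons (P.cons (P.lf 0 1462406706 0) (P.cons (P.lf 0 51142104 0) (P.cons (P.lf 813993 0 0) (P.lf 271332 0 0)))) (P.cons (P.cons (P.lf 99900996 0 0) (P.cons (P.lf 17160462 0 0) (P.cons (P.lf 0 273132 0) (P.lf 0 91044 0)))) (P.cons (P.cons (P.lf 71068791 0 0) (P.cons (P.lf 552486 0 0) (P.cons (P.lf 0 8793 0) (P.lf 0 2928 0)))) (P.cons (P.cons (P.lf 0 3618534 0) (P.cons (P.lf 0 600213 0) (P.cons (P.lf 9552 0 0) P.nil))) (P.cons (P.cons (P.lf 0 926136 0) (P.cons (P.lf 27048 0 0) P.nil)) (P.cons (P.cons (P.lf 97824 0 0) P.nil) P.nil)))))) 32028)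
 (EL.cons 11 (TM.mk (P.cons (P.cons (P.lf 267404403 0 0) (P.cons (P.lf 0 9912315 0) (P.cons (P.lf 0 4911588 0) (P.cons (P.lf 44568 0 0) (P.lf 11139 0 0))))) (P.cons (P.cons (P.lf 0 106576920 0) (P.cons (P.lf 3950661 0 0) (P.cons (P.lf 1957563 0 0) (P.cons (P.lf 0 17763 0) (P.lf 0 4437 0))))) (P.cons (P.cons (P.lf 6006789 0 0) (P.cons (P.lf 0 222660 0) (P.cons (P.lf 0 110328 0) (P.cons (P.lf 999 0 0) P.nil)))) (P.cons (P.cons (P.lf 1868442 0 0) (P.cons (P.lf 0 69261 0) (P.cons (P.lf 0 34317 0) P.nil))) (P.cons (P.cons (P.lf 0 210573 0) (P.cons (P.lf 7803 0 0) P.nil)) (P.cons (P.cons (P.lf 0 1269 0) P.nil) P.nil)))))) 9555)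
 EL.nil)))
noncomputable def S401_430_512_586_26 : EL := (EL.cons 4 (TM.mk (P.cons (P.cons (P.lf 0 429150576 0) (P.cons (P.lf 0 10982331 0) (P.cons (P.lf 315576 0 0) (P.cons (P.lf 53781 0 0) (P.cons (P.lf 0 1458 0) (P.cons (P.lf 21 0 0) P.nil)))))) (P.cons (P.cons (P.lf 62182251 0 0) (P.cons (P.lf 2067120 0 0) (P.cons (P.lf 0 214530 0) (P.cons (P.lf 0 5184 0) (P.cons (P.lf 1881 0 0) P.nil))))) (P.cons (P.cons (P.lf 41481231 0 0) (P.cons (P.lf 2121000 0 0) (P.cons (P.lf 61497 0 0) (P.cons (P.lf 0 14283 0) P.nil)))) (P.cons (P.cons (P.lf 0 6879615 0) (P.cons (P.lf 0 745872 0) (P.cons (P.lf 0 12567 0) P.nil))) (P.cons (P.cons (P.lf 0 1090515 0) (P.cons (P.lf 17412 0 0) P.nil)) (P.cons (P.cons (P.lf 247464 0 0) P.nil) P.nil)))))) 98124)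
 (EL.cons 8 (TM.mk (P.cons (P.cons (P.lf 0 692563380 0) (P.cons (P.lf 0 17723298 0) (P.cons (P.lf 509277 0 0) (P.cons (P.lf 86799 0 0) (P.cons (P.lf 0 2352 0) (P.cons (P.lf 36 0 0) P.nil)))))) (P.cons (P.cons (P.lf 0 81307254 0) (P.cons (P.lf 0 1312833 0) (P.cons (P.lf 0 212634 0) (P.cons (P.lf 14397 0 0) (P.cons (P.lf 2418 0 0) P.nil))))) (P.cons (P.cons (P.lf 56734776 0 0) (P.cons (P.lf 3363063 0 0) (P.cons (P.lf 35295 0 0) (P.cons (P.lf 0 20667 0) P.nil)))) (P.cons (P.cons (P.lf 4073568 0 0) (P.cons (P.lf 0 326352 0) (P.cons (P.lf 0 6867 0) P.nil))) (P.cons (P.cons (P.lf 0 1629021 0) (P.cons (P.lf 0 111048 0) P.nil)) (P.cons (P.cons (P.lf 0 8088 0) P.nil) P.nil)))))) 77892)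
 (EL.cons 11 (TM.mk (P.cons (P.cons (P.lf 126636792 0 0) (P.cons (P.lf 0 5882145 0) (P.cons (P.lf 0 2263077 0) (P.cons (P.lf 48525 0 0) (P.cons (P.lf 4497 0 0) (P.cons (P.lf 0 162 0) P.nil)))))) (P.cons (P.cons (P.lf 0 26954343 0) (P.cons (P.lf 2295063 0 0) (P.cons (P.lf 426423 0 0) (P.cons (P.lf 0 34404 0) (P.cons (P.lf 0 273 0) P.nil))))) (P.cons (P.cons (P.lf 0 9142026 0) (P.cons (P.lf 0 216882 0) (P.cons (P.lf 197364 0 0) (P.cons (P.lf 11304 0 0) P.nil)))) (P.cons (P.cons (P.lf 2360892 0 0) (P.cons (P.lf 21240 0 0) (P.cons (P.lf 0 49125 0) P.nil))) (P.cons (P.cons (P.lf 69363 0 0) (P.cons (P.lf 0 7542 0) P.nil)) (P.cons (P.cons (P.lf 0 51135 0) P.nil) P.nil)))))) 27897)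
 EL.nil)))
noncomputable def S401_430_512_586_27 : EL := (EL.cons 13 (TM.mk (P.lf 0 4294967296 0) 0)
 EL.nil)
noncomputable def S401_430_512_586_28 : EL := (EL.cons 13 (TM.mk (P.cons (P.cons (P.lf 0 2034001250 0) (P.cons (P.lf 19079584 0 0) (P.cons (P.lf 0 303676 0) (P.lf 0 101224 0)))) (P.cons (P.cons (P.lf 0 377740849 0) (P.cons (P.lf 0 13210044 0) (P.cons (P.lf 210252 0 0) (P.lf 70084 0 0)))) (P.cons (P.cons (P.lf 41974176 0 0) (P.cons (P.lf 3232960 0 0) (P.cons (P.lf 0 51456 0) (P.lf 0 17152 0)))) (P.cons (P.cons (P.lf 1506853 0 0) (P.cons (P.lf 0 294848 0) (P.cons (P.lf 4692 0 0) P.nil))) (P.cons (P.cons (P.lf 0 418743 0) (P.cons (P.lf 0 2968 0) P.nil)) (P.cons (P.cons (P.lf 20160 0 0) P.nil) P.nil)))))) 7913)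
 EL.nil)
noncomputable def S401_430_512_586_29 : EL := (EL.cons 13 (TM.mk (P.cons (P.cons (P.lf 0 963257878 0) (P.cons (P.lf 18071335 0 0) (P.cons (P.lf 0 372385 0) (P.cons (P.lf 0 93176 0) (P.cons (P.lf 877 0 0) (P.cons (P.lf 0 14 0) P.nil)))))) (P.cons (P.cons (P.lf 0 357779375 0) (P.cons (P.lf 0 9155882 0) (P.cons (P.lf 263091 0 0) (P.cons (P.lf 44839 0 0) (P.cons (P.lf 0 1215 0) P.nil))))) (P.cons (P.cons (P.lf 6533903 0 0) (P.cons (P.lf 365554 0 0) (P.cons (P.lf 0 75171 0) (P.cons (P.lf 268 0 0) P.nil)))) (P.cons (P.cons (P.lf 8810452 0 0) (P.cons (P.lf 534220 0 0) (P.cons (P.lf 14003 0 0) P.nil))) (P.cons (P.cons (P.lf 0 541768 0) (P.cons (P.lf 0 104875 0) P.nil)) (P.cons (P.cons (P.lf 0 84014 0) P.nil) P.nil)))))) 48447)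
 EL.nil)
noncomputable def S401_430_512_586_30 : EL := (EL.cons 13 (TM.mk (P.cons (P.lf 0 3603426100 0) (P.cons (P.lf 0 113537048 0) (P.cons (P.lf 16473628 0 0) (P.cons (P.lf 0 671992 0) (P.cons (P.lf 0 4560 0) (P.cons (P.lf 2084 0 0) P.nil)))))) 368)
 EL.nil)
noncomputable def S401_430_512_586_31 : EL := (EL.cons 13 (TM.mk (P.cons (P.cons (P.lf 0 1706502677 0) (P.cons (P.lf 16007542 0 0) (P.cons (P.lf 0 254780 0) (P.lf 0 84925 0)))) (P.cons (P.cons (P.lf 0 370688674 0) (P.cons (P.lf 0 10578701 0) (P.cons (P.lf 168371 0 0) (P.lf 56123 0 0)))) (P.cons (P.cons (P.lf 33031832 0 0) (P.cons (P.lf 2290027 0 0) (P.cons (P.lf 0 36448 0) (P.lf 0 12149 0)))) (P.cons (P.cons (P.lf 3504424 0 0) (P.cons (P.lf 0 108257 0) (P.cons (P.lf 1722 0 0) P.nil))) (P.cons (P.cons (P.lf 0 533742 0) (P.cons (P.lf 0 24731 0) P.nil)) (P.cons (P.cons (P.lf 7218 0 0) P.nil) P.nil)))))) 12892)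
 EL.nil)
noncomputable def S401_430_512_586_32 : EL := (EL.cons 13 (TM.mk (P.cons (P.cons (P.lf 0 808161818 0) (P.cons (P.lf 15161633 0 0) (P.cons (P.lf 0 312426 0) (P.cons (P.lf 0 78173 0) (P.cons (P.lf 735 0 0) (P.cons (P.lf 0 11 0) P.nil)))))) (P.cons (P.cons (P.lf 0 325636238 0) (P.cons (P.lf 0 7203961 0) (P.cons (P.lf 210886 0 0) (P.cons (P.lf 35156 0 0) (P.cons (P.lf 0 996 0) P.nil))))) (P.cons (P.cons (P.lf 0 281358 0) (P.cons (P.lf 0 4653 0) (P.cons (P.lf 0 54684 0) (P.cons (P.lf 1767 0 0) P.nil)))) (P.cons (P.cons (P.lf 8786161 0 0) (P.cons (P.lf 495812 0 0) (P.cons (P.lf 8693 0 0) P.nil))) (P.cons (P.cons (P.lf 0 303695 0) (P.cons (P.lf 0 76682 0) P.nil)) (P.cons (P.cons (P.lf 0 117491 0) P.nil) P.nil)))))) 54972)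
 EL.nil)
noncomputable def S401_430_512_586_33 : EL := (EL.cons 14 (TM.mk (P.lf 8589934592 0 0) 0)
 EL.nil)
noncomputable def S401_430_512_586_34 : EL := (EL.cons 14 (TM.mk (P.cons (P.cons (P.lf 4068002500 0 0) (P.cons (P.lf 0 38159168 0) (P.cons (P.lf 607352 0 0) (P.lf 202448 0 0)))) (P.cons (P.cons (P.lf 755481698 0 0) (P.cons (P.lf 26420088 0 0) (P.cons (P.lf 0 420504 0) (P.lf 0 140168 0)))) (P.cons (P.cons (P.lf 0 83948352 0) (P.cons (P.lf 0 6465920 0) (P.cons (P.lf 102912 0 0) (P.lf 34304 0 0)))) (P.cons (P.cons (P.lf 0 3013706 0) (P.cons (P.lf 589696 0 0) (P.cons (P.lf 0 9384 0) P.nil))) (P.cons (P.cons (P.lf 837486 0 0) (P.cons (P.lf 5936 0 0) P.nil)) (P.cons (P.cons (P.lf 0 40320 0) P.nil) P.nil)))))) 15826)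
 EL.nil)
noncomputable def S401_430_512_586_35 : EL := (EL.cons 14 (TM.mk (P.cons (P.cons (P.lf 1926515756 0 0) (P.cons (P.lf 0 36142670 0) (P.cons (P.lf 744770 0 0) (P.cons (P.lf 186352 0 0) (P.cons (P.lf 0 1754 0) (P.cons (P.lf 28 0 0) P.nil)))))) (P.cons (P.cons (P.lf 715558750 0 0) (P.cons (P.lf 18311764 0 0) (P.cons (P.lf 0 526182 0) (P.cons (P.lf 0 89678 0) (P.cons (P.lf 2430 0 0) P.nil))))) (P.cons (P.cons (P.lf 0 13067806 0) (P.cons (P.lf 0 731108 0) (P.cons (P.lf 150342 0 0) (P.cons (P.lf 0 536 0) P.nil)))) (P.cons (P.cons (P.lf 0 17620904 0) (P.cons (P.lf 0 1068440 0) (P.cons (P.lf 0 28006 0) P.nil))) (P.cons (P.cons (P.lf 1083536 0 0) (P.cons (P.lf 209750 0 0) P.nil)) (P.cons (P.cons (P.lf 168028 0 0) P.nil) P.nil)))))) 96894)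
 EL.nil)
noncomputable def S401_430_512_586_36 : EL := (EL.cons 14 (TM.mk (P.cons (P.lf 7206852200 0 0) (P.cons (P.lf 227074096 0 0) (P.cons (P.lf 0 32947256 0) (P.cons (P.lf 1343984 0 0) (P.cons (P.lf 9120 0 0) (P.cons (P.lf 0 4168 0) P.nil)))))) 736)
 EL.nil)
noncomputable def S401_430_512_586_37 : EL := (EL.cons 14 (TM.mk (P.cons (P.cons (P.lf 3413005354 0 0) (P.cons (P.lf 0 32015084 0) (P.cons (P.lf 509560 0 0) (P.lf 169850 0 0)))) (P.cons (P.cons (P.lf 741377348 0 0) (P.cons (P.lf 21157402 0 0) (P.cons (P.lf 0 336742 0) (P.lf 0 112246 0)))) (P.cons (P.cons (P.lf 0 66063664 0) (P.cons (P.lf 0 4580054 0) (P.cons (P.lf 72896 0 0) (P.lf 24298 0 0)))) (P.cons (P.cons (P.lf 0 7008848 0) (P.cons (P.lf 216514 0 0) (P.cons (P.lf 0 3444 0) P.nil))) (P.cons (P.cons (P.lf 1067484 0 0) (P.cons (P.lf 49462 0 0) P.nil)) (P.cons (P.cons (P.lf 0 14436 0) P.nil) P.nil))))))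 25784)
 EL.nil)
noncomputable def S401_430_512_586_38 : EL := (EL.cons 14 (TM.mk (P.cons (P.cons (P.lf 1616323636 0 0) (P.cons (P.lf 0 30323266 0) (P.cons (P.lf 624852 0 0) (P.cons (P.lf 156346 0 0) (P.cons (P.lf 0 1470 0) (P.cons (P.lf 22 0 0) P.nil)))))) (P.cons (P.cons (P.lf 651272476 0 0) (P.cons (P.lf 14407922 0 0) (P.cons (P.lf 0 421772 0) (P.cons (P.lf 0 70312 0) (P.cons (P.lf 1992 0 0) P.nil))))) (P.cons (P.cons (P.lf 562716 0 0) (P.cons (P.lf 9306 0 0) (P.cons (P.lf 109368 0 0) (P.cons (P.lf 0 3534 0) P.nil)))) (P.cons (P.cons (P.lf 0 17572322 0) (P.cons (P.lf 0 991624 0) (P.cons (P.lf 0 17386 0) P.nil))) (P.cons (P.cons (P.lf 607390 0 0) (P.cons (P.lf 153364 0 0) P.nil)) (P.cons (P.cons (P.lf 234982 0 0) P.nil) P.nil)))))) 109944)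
 EL.nil)
noncomputable def S401_430_512_586_39 : EL := (EL.cons 14 (TM.mk (P.cons (P.lf 6046462644 0 0) (P.cons (P.lf 381024890 0 0) (P.cons (P.lf 0 49282024 0) (P.cons (P.lf 513256 0 0) (P.cons (P.lf 212730 0 0) (P.cons (P.lf 0 16820 0) P.nil)))))) 1830)
 EL.nil)
noncomputable def S401_430_512_586_40 : EL := (EL.cons 14 (TM.mk (P.cons (P.cons (P.lf 2863470598 0 0) (P.cons (P.lf 0 26860272 0) (P.cons (P.lf 427514 0 0) (P.lf 142502 0 0)))) (P.cons (P.cons (P.lf 712229178 0 0) (P.cons (P.lf 16904492 0 0) (P.cons (P.lf 0 269052 0) (P.lf 0 89684 0)))) (P.cons (P.cons (P.lf 0 48919188 0) (P.cons (P.lf 0 3160520 0) (P.cons (P.lf 50302 0 0) (P.lf 16766 0 0)))) (P.cons (P.cons (P.lf 0 9936328 0) (P.cons (P.lf 0 25578 0) (P.cons (P.lf 408 0 0) P.nil))) (P.cons (P.cons (P.lf 1083338 0 0) (P.cons (P.lf 68064 0 0) P.nil)) (P.cons (P.cons (P.lf 31784 0 0) P.nil) P.nil))))))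 32666)
 EL.nil)
noncomputable def S401_430_512_586_41 : EL := (EL.cons 14 (TM.mk (P.cons (P.cons (P.lf 1356076164 0 0) (P.cons (P.lf 0 25440856 0) (P.cons (P.lf 524244 0 0) (P.cons (P.lf 131172 0 0) (P.cons (P.lf 0 1234 0) (P.cons (P.lf 18 0 0) P.nil)))))) (P.cons (P.cons (P.lf 589137164 0 0) (P.cons (P.lf 11286480 0 0) (P.cons (P.lf 0 337344 0) (P.cons (P.lf 0 54858 0) (P.cons (P.lf 1632 0 0) P.nil))))) (P.cons (P.cons (P.lf 11488922 0 0) (P.cons (P.lf 504986 0 0) (P.cons (P.lf 78212 0 0) (P.cons (P.lf 0 5424 0) P.nil)))) (P.cons (P.cons (P.lf 0 16973200 0) (P.cons (P.lf 0 891722 0) (P.cons (P.lf 0 9980 0) P.nil))) (P.cons (P.cons (P.lf 146526 0 0) (P.cons (P.lf 104642 0 0) P.nil)) (P.cons (P.cons (P.lf 280598 0 0) P.nil) P.nil)))))) 112124)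
 EL.nil)
noncomputable def S401_430_512_586_42 : EL := (EL.cons 14 (TM.mk (P.cons (P.lf 5072909710 0 0) (P.cons (P.lf 479512976 0 0) (P.cons (P.lf 0 54466274 0) (P.cons (P.lf 0 1387564 0) (P.cons (P.lf 447104 0 0) (P.cons (P.lf 0 20696 0) P.nil)))))) 3862)
 EL.nil)
noncomputable def S401_430_512_586_43 : EL := (EL.cons 14 (TM.mk (P.cons (P.cons (P.lf 2402417522 0 0) (P.cons (P.lf 0 22535446 0) (P.cons (P.lf 358680 0 0) (P.lf 119558 0 0)))) (P.cons (P.cons (P.lf 673247318 0 0) (P.cons (P.lf 13472616 0 0) (P.cons (P.lf 0 214430 0) (P.lf 0 71476 0)))) (P.cons (P.cons (P.lf 0 33197932 0) (P.cons (P.lf 0 2101746 0) (P.cons (P.lf 33450 0 0) (P.lf 11150 0 0)))) (P.cons (P.cons (P.lf 0 11913416 0) (P.cons (P.lf 0 174048 0) (P.cons (P.lf 2770 0 0) P.nil))) (P.cons (P.cons (P.lf 948350 0 0) (P.cons (P.lf 71168 0 0) P.nil)) (P.cons (P.cons (P.lf 85130 0 0) P.nil) P.nil))))))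 39312)
 EL.nil)
noncomputable def S401_430_512_586_44 : EL := (EL.cons 14 (TM.mk (P.cons (P.cons (P.lf 1137731652 0 0) (P.cons (P.lf 0 21344574 0) (P.cons (P.lf 439834 0 0) (P.cons (P.lf 110052 0 0) (P.cons (P.lf 0 1034 0) (P.cons (P.lf 16 0 0) P.nil)))))) (P.cons (P.cons (P.lf 530126764 0 0) (P.cons (P.lf 8796696 0 0) (P.cons (P.lf 0 269168 0) (P.cons (P.lf 0 42556 0) (P.cons (P.lf 1336 0 0) P.nil))))) (P.cons (P.cons (P.lf 20011534 0 0) (P.cons (P.lf 819614 0 0) (P.cons (P.lf 54690 0 0) (P.cons (P.lf 0 6504 0) P.nil)))) (P.cons (P.cons (P.lf 0 15984104 0) (P.cons (P.lf 0 782066 0) (P.cons (P.lf 0 4930 0) P.nil))) (P.cons (P.cons (P.lf 0 276200 0) (P.cons (P.lf 64024 0 0) P.nil)) (P.cons (P.cons (P.lf 306160 0 0) P.nil) P.nil)))))) 113410)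
 EL.nil)
noncomputable def S401_430_512_586_45 : EL := (EL.cons 14 (TM.mk (P.cons (P.cons (P.lf 912355132 0 0) (P.cons (P.lf 0 25674550 0) (P.cons (P.lf 649478 0 0) (P.cons (P.lf 127792 0 0) (P.cons (P.lf 0 2456 0) (P.cons (P.lf 50 0 0) P.nil)))))) (P.cons (P.cons (P.lf 508309128 0 0) (P.cons (P.lf 8239964 0 0) (P.cons (P.lf 0 419910 0) (P.cons (P.lf 0 32958 0) (P.cons (P.lf 2914 0 0) P.nil))))) (P.cons (P.cons (P.lf 37916918 0 0) (P.cons (P.lf 2426240 0 0) (P.cons (P.lf 91544 0 0) (P.cons (P.lf 0 18480 0) P.nil)))) (P.cons (P.cons (P.lf 0 17163144 0) (P.cons (P.lf 0 1104852 0) (P.cons (P.lf 0 3064 0) P.nil))) (P.cons (P.cons (P.lf 0 972122 0) (P.cons (P.lf 3840 0 0) P.nil)) (P.cons (P.cons (P.lf 412384 0 0) P.nil) P.nil)))))) 179928)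
 EL.nil)
noncomputable def S401_430_512_586_46 : EL := (EL.cons 15 (TM.mk (P.lf 4294967296 0 0) 0)
 EL.nil)
noncomputable def S401_430_512_586_47 : EL := (EL.cons 15 (TM.mk (P.cons (P.cons (P.lf 2034001250 0 0) (P.cons (P.lf 0 19079584 0) (P.cons (P.lf 303676 0 0) (P.lf 101224 0 0)))) (P.cons (P.cons (P.lf 377740849 0 0) (P.cons (P.lf 13210044 0 0) (P.cons (P.lf 0 210252 0) (P.lf 0 70084 0)))) (P.cons (P.cons (P.lf 0 41974176 0) (P.cons (P.lf 0 3232960 0) (P.cons (P.lf 51456 0 0) (P.lf 17152 0 0)))) (P.cons (P.cons (P.lf 0 1506853 0) (P.cons (P.lf 294848 0 0) (P.cons (P.lf 0 4692 0) P.nil))) (P.cons (P.cons (P.lf 418743 0 0) (P.cons (P.lf 2968 0 0) P.nil)) (P.cons (P.cons (P.lf 0 20160 0) P.nil) P.nil)))))) 7913)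
 EL.nil)
noncomputable def S401_430_512_586_48 : EL := (EL.cons 15 (TM.mk (P.cons (P.cons (P.lf 963257878 0 0) (P.cons (P.lf 0 18071335 0) (P.cons (P.lf 372385 0 0) (P.cons (P.lf 93176 0 0) (P.cons (P.lf 0 877 0) (P.cons (P.lf 14 0 0) P.nil)))))) (P.cons (P.cons (P.lf 357779375 0 0) (P.cons (P.lf 9155882 0 0) (P.cons (P.lf 0 263091 0) (P.cons (P.lf 0 44839 0) (P.cons (P.lf 1215 0 0) P.nil))))) (P.cons (P.cons (P.lf 0 6533903 0) (P.cons (P.lf 0 365554 0) (P.cons (P.lf 75171 0 0) (P.cons (P.lf 0 268 0) P.nil)))) (P.cons (P.cons (P.lf 0 8810452 0) (P.cons (P.lf 0 534220 0) (P.cons (P.lf 0 14003 0) P.nil))) (P.cons (P.cons (P.lf 541768 0 0) (P.cons (P.lf 104875 0 0) P.nil)) (P.cons (P.cons (P.lf 84014 0 0) P.nil) P.nil)))))) 48447)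
 EL.nil)
noncomputable def S401_430_512_586 : SL := (SL.cons S401_430_512_586_0 (SL.cons S401_430_512_586_1 (SL.cons S401_430_512_586_2 (SL.cons S401_430_512_586_3 (SL.cons S401_430_512_586_4 (SL.cons S401_430_512_586_5 (SL.cons S401_430_512_586_6 (SL.cons S401_430_512_586_7 (SL.cons S401_430_512_586_8 (SL.cons S401_430_512_586_9 (SL.cons S401_430_512_586_10 (SL.cons S401_430_512_586_11 (SL.cons S401_430_512_586_12 (SL.cons S401_430_512_586_13 (SL.cons S401_430_512_586_14 (SL.cons S401_430_512_586_15 (SL.cons S401_430_512_586_16 (SL.cons S401_430_512_586_17 (SL.cons S401_430_512_586_18 (SL.cons S401_430_512_586_19 (SL.cons S401_430_512_586_20 (SL.cons S401_430_512_586_21 (SL.cons S401_430_512_586_22 (SL.cons S401_430_512_586_23 (SL.cons S401_430_512_586_24 (SL.cons S401_430_512_586_25 (SL.cons S401_430_512_586_26 (SL.cons S401_430_512_586_27 (SL.cons S401_430_512_586_28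 (SL.cons S401_430_512_586_29 (SL.cons S401_430_512_586_30 (SL.cons S401_430_512_586_31 (SL.cons S401_430_512_586_32 (SL.cons S401_430_512_586_33 (SL.cons S401_430_512_586_34 (SL.cons S401_430_512_586_35 (SL.cons S401_430_512_586_36 (SL.cons S401_430_512_586_37 (SL.cons S401_430_512_586_38 (SL.cons S401_430_512_586_39 (SL.cons S401_430_512_586_40 (SL.cons S401_430_512_586_41 (SL.cons S401_430_512_586_42 (SL.cons S401_430_512_586_43 (SL.cons S401_430_512_586_44 (SL.cons S401_430_512_586_45 (SL.cons S401_430_512_586_46 (SL.cons S401_430_512_586_47 (SL.cons S401_430_512_586_48 SL.nil)))))))))))))))))))))))))))))))))))))))))))))))))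
noncomputable def S401_430_512_660_0 : EL := (EL.cons 0 (TM.mk (P.cons (P.lf 3141443055 0 0) (P.cons (P.lf 0 334885157 0) (P.cons (P.lf 43314278 0 0) (P.cons (P.lf 0 451103 0) (P.cons (P.lf 0 186969 0) (P.cons (P.lf 14783 0 0) P.nil)))))) 1615)
 (EL.cons 1 (TM.mk (P.cons (P.lf 1170850837 0 0) (P.cons (P.lf 0 233327645 0) (P.cons (P.lf 0 10098210 0) (P.cons (P.lf 2078180 0 0) (P.cons (P.lf 0 90420 0) (P.cons (P.lf 0 2872 0) P.nil)))))) 983)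
 (EL.cons 5 (TM.mk (P.cons (P.lf 6184486878 0 0) (P.cons (P.lf 119070280 0 0) (P.cons (P.lf 0 15400634 0) (P.cons (P.lf 160396 0 0) (P.cons (P.lf 66480 0 0) (P.cons (P.lf 0 5256 0) P.nil)))))) 413)
 (EL.cons 9 (TM.mk (P.lf 6442450944 0 0) 2)
 EL.nil))))
noncomputable def S401_430_512_660_1 : EL := (EL.cons 0 (TM.mk (P.cons (P.cons (P.lf 3568559722 0 0) (P.cons (P.lf 108304682 0 0) (P.cons (P.lf 0 7240984 0) (P.lf 0 2413654 0)))) (P.cons (P.cons (P.lf 0 648371961 0) (P.cons (P.lf 0 63653378 0) (P.cons (P.lf 4255705 0 0) (P.lf 1418562 0 0)))) (P.cons (P.cons (P.lf 0 32247271 0) (P.cons (P.lf 9039355 0 0) (P.cons (P.lf 0 604332 0) (P.lf 0 201441 0)))) (P.cons (P.cons (P.lf 28254593 0 0) (P.cons (P.lf 1276792 0 0) (P.cons (P.lf 0 85372 0) P.nil))) (P.cons (P.cons (P.lf 0 2038638 0) (P.cons (P.lf 0 444612 0) P.nil)) (P.cons (P.cons (P.lf 0 187554 0) P.nil) P.nil))))))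 367997)
 (EL.cons 1 (TM.mk (P.cons (P.cons (P.lf 2008719228 0 0) (P.cons (P.lf 84072108 0 0) (P.cons (P.lf 0 5620870 0) (P.lf 0 1873623 0)))) (P.cons (P.cons (P.lf 0 40520438 0) (P.cons (P.lf 0 17867539 0) (P.cons (P.lf 1194585 0 0) (P.lf 398197 0 0)))) (P.cons (P.cons (P.lf 0 132128436 0) (P.cons (P.lf 0 6819065 0) (P.cons (P.lf 455904 0 0) (P.lf 151963 0 0)))) (P.cons (P.cons (P.lf 7430984 0 0) (P.cons (P.lf 2083212 0 0) (P.cons (P.lf 0 139269 0) P.nil))) (P.cons (P.cons (P.lf 1652100 0 0) (P.cons (P.lf 0 84739 0) P.nil)) (P.cons (P.cons (P.lf 0 215275 0) P.nil) P.nil)))))) 150001)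
 (EL.cons 5 (TM.mk (P.cons (P.cons (P.lf 2157233935 0 0) (P.cons (P.lf 0 100281426 0) (P.cons (P.lf 6704580 0 0) (P.lf 2234854 0 0)))) (P.cons (P.cons (P.lf 894672207 0 0) (P.cons (P.lf 65401872 0 0) (P.cons (P.lf 0 4372610 0) (P.lf 0 1457538 0)))) (P.cons (P.cons (P.lf 0 65269806 0) (P.cons (P.lf 0 13681200 0) (P.cons (P.lf 914686 0 0) (P.lf 304896 0 0)))) (P.cons (P.cons (P.lf 0 12117107 0) (P.cons (P.lf 500658 0 0) (P.cons (P.lf 0 33474 0) P.nil))) (P.cons (P.cons (P.lf 1441670 0 0) (P.cons (P.lf 167708 0 0) P.nil)) (P.cons (P.cons (P.lf 28584 0 0) P.nil) P.nil)))))) 115798)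
 (EL.cons 9 (TM.mk (P.cons (P.cons (P.lf 3022989849 0 0) (P.cons (P.lf 0 54505668 0) (P.cons (P.lf 3644118 0 0) (P.lf 1214706 0 0)))) (P.cons (P.cons (P.lf 586005835 0 0) (P.cons (P.lf 37737840 0 0) (P.cons (P.lf 0 2523060 0) (P.lf 0 841020 0)))) (P.cons (P.cons (P.lf 0 67707786 0) (P.cons (P.lf 0 9235764 0) (P.cons (P.lf 617478 0 0) (P.lf 205824 0 0)))) (P.cons (P.cons (P.lf 0 1827385 0) (P.cons (P.lf 842310 0 0) (P.cons (P.lf 0 56310 0) P.nil))) (P.cons (P.cons (P.lf 632482 0 0) (P.cons (P.lf 8490 0 0) P.nil)) (P.cons (P.cons (P.lf 0 33612 0) P.nil) P.nil)))))) 37130)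
 (EL.cons 2 (TM.mk (P.cons (P.cons (P.lf 0 282300150 0) (P.cons (P.lf 43707150 0 0) (P.cons (P.lf 21056726 0 0) (P.cons (P.lf 0 796845 0) (P.lf 0 199209 0))))) (P.cons (P.cons (P.lf 121408520 0 0) (P.cons (P.lf 0 18797087 0) (P.cons (P.lf 0 9055842 0) (P.cons (P.lf 342697 0 0) (P.lf 85671 0 0))))) (P.cons (P.cons (P.lf 0 11457326 0) (P.cons (P.lf 1773877 0 0) (P.cons (P.lf 854597 0 0) (P.cons (P.lf 0 32338 0) P.nil)))) (P.cons (P.cons (P.lf 0 1003840 0) (P.cons (P.lf 155421 0 0) (P.cons (P.lf 74877 0 0) P.nil))) (P.cons (P.cons (P.lf 179271 0 0) (P.cons (P.lf 0 27753 0) P.nil)) (P.cons (P.cons (P.lf 0 7073 0) P.nil) P.nil)))))) 39044)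
 (EL.cons 6 (TM.mk (P.cons (P.cons (P.lf 62196900 0 0) (P.cons (P.lf 0 9629640 0) (P.cons (P.lf 0 4639257 0) (P.cons (P.lf 175563 0 0) (P.lf 43890 0 0))))) (P.cons (P.cons (P.lf 0 43062990 0) (P.cons (P.lf 6667230 0 0) (P.cons (P.lf 3212061 0 0) (P.cons (P.lf 0 121551 0) (P.lf 0 30387 0))))) (P.cons (P.cons (P.lf 10539018 0 0) (P.cons (P.lf 0 1631703 0) (P.cons (P.lf 0 786102 0) (P.cons (P.lf 29748 0 0) P.nil)))) (P.cons (P.cons (P.lf 0 961173 0) (P.cons (P.lf 148812 0 0) (P.cons (P.lf 71691 0 0) P.nil))) (P.cons (P.cons (P.lf 0 9687 0) (P.cons (P.lf 1497 0 0) P.nil)) (P.cons (P.cons (P.lf 7485 0 0) P.nil) P.nil)))))) 17754)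
 EL.nil))))))
noncomputable def S401_430_512_660_2 : EL := (EL.cons 0 (TM.mk (P.cons (P.cons (P.lf 2657276781 0 0) (P.cons (P.lf 66198957 0 0) (P.cons (P.lf 0 6483356 0) (P.cons (P.lf 0 1200183 0) (P.cons (P.lf 82500 0 0) (P.cons (P.lf 0 6123 0) P.nil)))))) (P.cons (P.cons (P.lf 0 153705034 0) (P.cons (P.lf 0 2348353 0) (P.cons (P.lf 2838227 0 0) (P.cons (P.lf 0 306190 0) (P.cons (P.lf 0 107511 0) P.nil))))) (P.cons (P.cons (P.lf 0 199181219 0) (P.cons (P.lf 0 20665625 0) (P.cons (P.lf 0 47820 0) (P.cons (P.lf 651697 0 0) P.nil)))) (P.cons (P.cons (P.lf 34965364 0 0) (P.cons (P.lf 6651799 0 0) (P.cons (P.lf 0 65958 0) P.nil))) (P.cons (P.cons (P.lf 3917993 0 0) (P.cons (P.lf 0 258539 0) P.nil)) (P.cons (P.cons (P.lf 0 1189577 0) P.nil) P.nil)))))) 1848748)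
 (EL.cons 1 (TM.mk (P.cons (P.cons (P.lf 1627307822 0 0) (P.cons (P.lf 54205409 0 0) (P.cons (P.lf 0 5130431 0) (P.cons (P.lf 0 1006592 0) (P.cons (P.lf 60410 0 0) (P.cons (P.lf 0 4491 0) P.nil)))))) (P.cons (P.cons (P.lf 278826413 0 0) (P.cons (P.lf 16258081 0 0) (P.cons (P.lf 333046 0 0) (P.cons (P.lf 0 552193 0) (P.cons (P.lf 0 56949 0) P.nil))))) (P.cons (P.cons (P.lf 0 149589064 0) (P.cons (P.lf 0 14452675 0) (P.cons (P.lf 540294 0 0) (P.cons (P.lf 379045 0 0) P.nil)))) (P.cons (P.cons (P.lf 0 14767076 0) (P.cons (P.lf 343048 0 0) (P.cons (P.lf 0 30081 0) P.nil))) (P.cons (P.cons (P.lf 5238382 0 0) (P.cons (P.lf 773505 0 0) P.nil)) (P.cons (P.cons (P.lf 0 8903 0) P.nil) P.nil)))))) 789226)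
 (EL.cons 5 (TM.mk (P.cons (P.cons (P.lf 662797600 0 0) (P.cons (P.lf 0 81508947 0) (P.cons (P.lf 6703660 0 0) (P.cons (P.lf 1648796 0 0) (P.cons (P.lf 0 50284 0) (P.cons (P.lf 3732 0 0) P.nil)))))) (P.cons (P.cons (P.lf 677919172 0 0) (P.cons (P.lf 29734701 0 0) (P.cons (P.lf 0 3665005 0) (P.cons (P.lf 0 438426 0) (P.cons (P.lf 67248 0 0) P.nil))))) (P.cons (P.cons (P.lf 59217047 0 0) (P.cons (P.lf 6603794 0 0) (P.cons (P.lf 494384 0 0) (P.cons (P.lf 0 272309 0) P.nil)))) (P.cons (P.cons (P.lf 0 28335442 0) (P.cons (P.lf 0 4237332 0) (P.cons (P.lf 9834 0 0) P.nil))) (P.cons (P.cons (P.lf 0 290652 0) (P.cons (P.lf 458242 0 0) P.nil)) (P.cons (P.cons (P.lf 561135 0 0) P.nil) P.nil)))))) 647056)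
 (EL.cons 9 (TM.mk (P.cons (P.cons (P.lf 1418476866 0 0) (P.cons (P.lf 0 51151365 0) (P.cons (P.lf 3880996 0 0) (P.cons (P.lf 1078290 0 0) (P.cons (P.lf 0 18492 0) (P.cons (P.lf 1374 0 0) P.nil)))))) (P.cons (P.cons (P.lf 549942780 0 0) (P.cons (P.lf 25499757 0 0) (P.cons (P.lf 0 2343405 0) (P.cons (P.lf 0 482898 0) (P.cons (P.lf 25606 0 0) P.nil))))) (P.cons (P.cons (P.lf 0 10237882 0) (P.cons (P.lf 0 656448 0) (P.cons (P.lf 421218 0 0) (P.cons (P.lf 0 35827 0) P.nil)))) (P.cons (P.cons (P.lf 0 14032338 0) (P.cons (P.lf 0 1651998 0) (P.cons (P.lf 0 12000 0) P.nil))) (P.cons (P.cons (P.lf 972703 0 0) (P.cons (P.lf 323218 0 0) P.nil)) (P.cons (P.cons (P.lf 121927 0 0) P.nil) P.nil)))))) 264368)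
 (EL.cons 2 (TM.mk (P.cons (P.cons (P.lf 0 264927273 0) (P.cons (P.lf 45794131 0 0) (P.cons (P.lf 18701960 0 0) (P.cons (P.lf 0 1161112 0) (P.cons (P.lf 0 133160 0) (P.cons (P.lf 10406 0 0) P.nil)))))) (P.cons (P.cons (P.lf 62580898 0 0) (P.cons (P.lf 0 15050671 0) (P.cons (P.lf 0 3479326 0) (P.cons (P.lf 640552 0 0) (P.cons (P.lf 0 16205 0) P.nil))))) (P.cons (P.cons (P.lf 17268153 0 0) (P.cons (P.lf 0 247933 0) (P.cons (P.lf 0 1825740 0) (P.cons (P.lf 0 161128 0) P.nil)))) (P.cons (P.cons (P.lf 0 5418151 0) (P.cons (P.lf 299711 0 0) (P.cons (P.lf 523659 0 0) P.nil))) (P.cons (P.cons (P.lf 102138 0 0) (P.cons (P.lf 33243 0 0) P.nil)) (P.cons (P.cons (P.lf 80353 0 0) P.nil) P.nil)))))) 309166)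
 (EL.cons 6 (TM.mk (P.cons (P.cons (P.lf 58369272 0 0) (P.cons (P.lf 0 10089444 0) (P.cons (P.lf 0 4120452 0) (P.cons (P.lf 255816 0 0) (P.cons (P.lf 29334 0 0) (P.cons (P.lf 0 2292 0) P.nil)))))) (P.cons (P.cons (P.lf 0 29098002 0) (P.cons (P.lf 5962416 0 0) (P.cons (P.lf 1847352 0 0) (P.cons (P.lf 0 208224 0) (P.cons (P.lf 0 4122 0) P.nil))))) (P.cons (P.cons (P.lf 749082 0 0) (P.cons (P.lf 0 977130 0) (P.cons (P.lf 135024 0 0) (P.cons (P.lf 76620 0 0) P.nil)))) (P.cons (P.cons (P.lf 1885104 0 0) (P.cons (P.lf 0 12396 0) (P.cons (P.lf 0 202560 0) P.nil))) (P.cons (P.cons (P.lf 0 368826 0) (P.cons (P.lf 4692 0 0) P.nil)) (P.cons (P.cons (P.lf 10380 0 0) P.nil) P.nil)))))) 127734)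
 EL.nil))))))
noncomputable def S401_430_512_660_3 : EL := (EL.cons 0 (TM.mk (P.cons (P.lf 5314273808 0 0) (P.cons (P.lf 334885157 0 0) (P.cons (P.lf 0 43314278 0) (P.cons (P.lf 451103 0 0) (P.cons (P.lf 186969 0 0) (P.cons (P.lf 0 14783 0) P.nil)))))) 1615)
 (EL.cons 1 (TM.mk (P.cons (P.lf 0 1170850837 0) (P.cons (P.lf 233327645 0 0) (P.cons (P.lf 10098210 0 0) (P.cons (P.lf 0 2078180 0) (P.cons (P.lf 90420 0 0) (P.cons (P.lf 2872 0 0) P.nil)))))) 983)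
 (EL.cons 5 (TM.mk (P.cons (P.lf 257964066 0 0) (P.cons (P.lf 0 119070280 0) (P.cons (P.lf 15400634 0 0) (P.cons (P.lf 0 160396 0) (P.cons (P.lf 0 66480 0) (P.cons (P.lf 5256 0 0) P.nil)))))) 406)
 EL.nil)))
noncomputable def S401_430_512_660_4 : EL := (EL.cons 0 (TM.mk (P.cons (P.cons (P.lf 2493615536 0 0) (P.cons (P.lf 0 44960844 0) (P.cons (P.lf 3005973 0 0) (P.lf 1001990 0 0)))) (P.cons (P.cons (P.lf 640524844 0 0) (P.cons (P.lf 28296073 0 0) (P.cons (P.lf 0 1891805 0) (P.lf 0 630601 0)))) (P.cons (P.cons (P.lf 0 45714229 0) (P.cons (P.lf 0 5290324 0) (P.cons (P.lf 353694 0 0) (P.lf 117896 0 0)))) (P.cons (P.cons (P.lf 0 8755098 0) (P.cons (P.lf 0 42813 0) (P.cons (P.lf 2865 0 0) P.nil))) (P.cons (P.cons (P.lf 1010715 0 0) (P.cons (P.lf 113941 0 0) P.nil)) (P.cons (P.cons (P.lf 22765 0 0) P.nil) P.nil)))))) 78088)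
 (EL.cons 1 (TM.mk (P.cons (P.cons (P.lf 0 549398083 0) (P.cons (P.lf 9905857 0 0) (P.cons (P.lf 0 662280 0) (P.lf 0 220758 0)))) (P.cons (P.cons (P.lf 2983597 0 0) (P.cons (P.lf 0 8832515 0) (P.cons (P.lf 590520 0 0) (P.lf 196839 0 0)))) (P.cons (P.cons (P.lf 38267092 0 0) (P.cons (P.lf 2959831 0 0) (P.cons (P.lf 0 197885 0) (P.lf 0 65960 0)))) (P.cons (P.cons (P.lf 0 2176687 0) (P.cons (P.lf 0 410838 0) (P.cons (P.lf 27465 0 0) P.nil))) (P.cons (P.cons (P.lf 0 433860 0) (P.cons (P.lf 1546 0 0) P.nil)) (P.cons (P.cons (P.lf 57564 0 0) P.nil) P.nil)))))) 32244)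
 (EL.cons 5 (TM.mk (P.cons (P.cons (P.lf 121044422 0 0) (P.cons (P.lf 0 2182476 0) (P.cons (P.lf 145914 0 0) (P.lf 48638 0 0)))) (P.cons (P.cons (P.lf 0 32406890 0) (P.cons (P.lf 2518452 0 0) (P.cons (P.lf 0 168376 0) (P.lf 0 56124 0)))) (P.cons (P.cons (P.lf 0 6315312 0) (P.cons (P.lf 0 1197582 0) (P.cons (P.lf 80066 0 0) (P.lf 26688 0 0)))) (P.cons (P.cons (P.lf 2503792 0 0) (P.cons (P.lf 295992 0 0) (P.cons (P.lf 0 19788 0) P.nil))) (P.cons (P.cons (P.lf 0 148540 0) (P.cons (P.lf 0 37682 0) P.nil)) (P.cons (P.cons (P.lf 0 19296 0) P.nil) P.nil)))))) 18812)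
 EL.nil)))
noncomputable def S401_430_512_660_5 : EL := (EL.cons 0 (TM.mk (P.cons (P.cons (P.lf 1170078672 0 0) (P.cons (P.lf 0 42193935 0) (P.cons (P.lf 3201370 0 0) (P.cons (P.lf 889463 0 0) (P.cons (P.lf 0 15252 0) (P.cons (P.lf 1132 0 0) P.nil)))))) (P.cons (P.cons (P.lf 527372794 0 0) (P.cons (P.lf 18375437 0 0) (P.cons (P.lf 0 1731297 0) (P.cons (P.lf 0 342283 0) (P.cons (P.lf 20160 0 0) P.nil))))) (P.cons (P.cons (P.lf 10604729 0 0) (P.cons (P.lf 1127912 0 0) (P.cons (P.lf 199550 0 0) (P.cons (P.lf 0 61903 0) P.nil)))) (P.cons (P.cons (P.lf 0 15705309 0) (P.cons (P.lf 0 1571851 0) (P.cons (P.lf 28023 0 0) P.nil))) (P.cons (P.cons (P.lf 221456 0 0) (P.cons (P.lf 185458 0 0) P.nil)) (P.cons (P.cons (P.lf 257468 0 0) P.nil) P.nil)))))) 293420)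
 (EL.cons 1 (TM.mk (P.cons (P.cons (P.lf 0 257793941 0) (P.cons (P.lf 9296246 0 0) (P.cons (P.lf 0 705331 0) (P.cons (P.lf 0 195967 0) (P.cons (P.lf 3360 0 0) (P.cons (P.lf 0 249 0) P.nil)))))) (P.cons (P.cons (P.lf 0 48573298 0) (P.cons (P.lf 0 6486885 0) (P.cons (P.lf 566448 0 0) (P.cons (P.lf 126813 0 0) (P.cons (P.lf 0 5323 0) P.nil))))) (P.cons (P.cons (P.lf 24001419 0 0) (P.cons (P.lf 962655 0 0) (P.cons (P.lf 0 155340 0) (P.cons (P.lf 0 9286 0) P.nil)))) (P.cons (P.cons (P.lf 2583888 0 0) (P.cons (P.lf 332928 0 0) (P.cons (P.lf 12510 0 0) P.nil))) (P.cons (P.cons (P.lf 0 858526 0) (P.cons (P.lf 0 128544 0) P.nil)) (P.cons (P.cons (P.lf 2728 0 0) P.nil) P.nil)))))) 99845)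
 (EL.cons 5 (TM.mk (P.cons (P.cons (P.lf 56797646 0 0) (P.cons (P.lf 0 2048166 0) (P.cons (P.lf 155400 0 0) (P.cons (P.lf 43174 0 0) (P.cons (P.lf 0 740 0) (P.cons (P.lf 54 0 0) P.nil)))))) (P.cons (P.cons (P.lf 0 4196068 0) (P.cons (P.lf 1966428 0 0) (P.cons (P.lf 0 165560 0) (P.cons (P.lf 0 39264 0) (P.cons (P.lf 1366 0 0) P.nil))))) (P.cons (P.cons (P.lf 0 7183198 0) (P.cons (P.lf 0 619850 0) (P.cons (P.lf 69454 0 0) (P.cons (P.lf 10066 0 0) P.nil)))) (P.cons (P.cons (P.lf 906664 0 0) (P.cons (P.lf 8214 0 0) (P.cons (P.lf 0 13962 0) P.nil))) (P.cons (P.cons (P.lf 245492 0 0) (P.cons (P.lf 41796 0 0) P.nil)) (P.cons (P.cons (P.lf 0 50900 0) P.nil) P.nil)))))) 35588)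
 EL.nil)))
noncomputable def S401_430_512_660_6 : EL := (EL.cons 12 (TM.mk (P.lf 8589934592 0 0) 0)
 (EL.cons 3 (TM.mk (P.cons (P.lf 3378211968 0 0) (P.cons (P.lf 106440982 0 0) (P.cons (P.lf 0 15444026 0) (P.cons (P.lf 629992 0 0) (P.cons (P.lf 4275 0 0) (P.cons (P.lf 0 1953 0) P.nil)))))) 352)
 (EL.cons 7 (TM.mk (P.cons (P.lf 0 744294039 0) (P.cons (P.lf 171774507 0 0) (P.cons (P.lf 0 2395646 0) (P.cons (P.lf 0 321494 0) (P.cons (P.lf 25565 0 0) (P.cons (P.lf 0 650 0) P.nil)))))) 203)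
 EL.nil)))
noncomputable def S401_430_512_660_7 : EL := (EL.cons 12 (TM.mk (P.cons (P.cons (P.lf 4030653132 0 0) (P.cons (P.lf 0 72674224 0) (P.cons (P.lf 4858824 0 0) (P.lf 1619608 0 0)))) (P.cons (P.cons (P.lf 781341114 0 0) (P.cons (P.lf 50317120 0 0) (P.cons (P.lf 0 3364080 0) (P.lf 0 1121360 0)))) (P.cons (P.cons (P.lf 0 90277048 0) (P.cons (P.lf 0 12314352 0) (P.cons (P.lf 823304 0 0) (P.lf 274432 0 0)))) (P.cons (P.cons (P.lf 0 2436514 0) (P.cons (P.lf 1123080 0 0) (P.cons (P.lf 0 75080 0) P.nil))) (P.cons (P.cons (P.lf 843310 0 0) (P.cons (P.lf 11320 0 0) P.nil)) (P.cons (P.cons (P.lf 0 44816 0) P.nil) P.nil)))))) 49482)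
 (EL.cons 3 (TM.mk (P.cons (P.cons (P.lf 2916603668 0 0) (P.cons (P.lf 57162000 0 0) (P.cons (P.lf 0 3821712 0) (P.lf 0 1273902 0)))) (P.cons (P.cons (P.lf 0 178639146 0) (P.cons (P.lf 0 37775928 0) (P.cons (P.lf 2525606 0 0) (P.lf 841866 0 0)))) (P.cons (P.cons (P.lf 0 3165487 0) (P.cons (P.lf 8177548 0 0) (P.cons (P.lf 0 546726 0) (P.lf 0 182240 0)))) (P.cons (P.cons (P.lf 7093880 0 0) (P.cons (P.lf 0 386582 0) (P.cons (P.lf 25838 0 0) P.nil))) (P.cons (P.cons (P.lf 0 747008 0) (P.cons (P.lf 0 88322 0) P.nil)) (P.cons (P.cons (P.lf 0 3769 0) P.nil) P.nil)))))) 143499)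
 (EL.cons 7 (TM.mk (P.cons (P.cons (P.lf 1799443187 0 0) (P.cons (P.lf 144669119 0 0) (P.cons (P.lf 0 9672241 0) (P.lf 0 3224079 0)))) (P.cons (P.cons (P.lf 0 288287938 0) (P.cons (P.lf 0 60962820 0) (P.cons (P.lf 4075831 0 0) (P.lf 1358611 0 0)))) (P.cons (P.cons (P.lf 0 42916919 0) (P.cons (P.lf 5201773 0 0) (P.cons (P.lf 0 347777 0) (P.lf 0 115927 0)))) (P.cons (P.cons (P.lf 5486269 0 0) (P.cons (P.lf 611972 0 0) (P.cons (P.lf 0 40913 0) P.nil))) (P.cons (P.cons (P.lf 113057 0 0) (P.cons (P.lf 0 86151 0) P.nil)) (P.cons (P.cons (P.lf 0 52603 0) P.nil) P.nil)))))) 75642)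
 (EL.cons 10 (TM.mk (P.cons (P.cons (P.lf 0 358908777 0) (P.cons (P.lf 55568091 0 0) (P.cons (P.lf 26770953 0 0) (P.cons (P.lf 0 1013091 0) (P.lf 0 253272 0))))) (P.cons (P.cons (P.lf 165664038 0 0) (P.cons (P.lf 0 25648953 0) (P.cons (P.lf 0 12356856 0) (P.cons (P.lf 467619 0 0) (P.lf 116904 0 0))))) (P.cons (P.cons (P.lf 0 21427101 0) (P.cons (P.lf 3317451 0 0) (P.cons (P.lf 1598244 0 0) (P.cons (P.lf 0 60480 0) P.nil)))) (P.cons (P.cons (P.lf 223161 0 0) (P.cons (P.lf 0 34548 0) (P.cons (P.lf 0 16644 0) P.nil))) (P.cons (P.cons (P.lf 92493 0 0) (P.cons (P.lf 0 14319 0) P.nil)) (P.cons (P.cons (P.lf 0 7311 0) P.nil) P.nil)))))) 25629)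
 EL.nil))))
noncomputable def S401_430_512_660_8 : EL := (EL.cons 12 (TM.mk (P.cons (P.cons (P.lf 1891302488 0 0) (P.cons (P.lf 0 68201820 0) (P.cons (P.lf 5174662 0 0) (P.cons (P.lf 1437720 0 0) (P.cons (P.lf 0 24656 0) (P.cons (P.lf 1832 0 0) P.nil)))))) (P.cons (P.cons (P.lf 733257040 0 0) (P.cons (P.lf 33999676 0 0) (P.cons (P.lf 0 3124540 0) (P.cons (P.lf 0 643864 0) (P.cons (P.lf 34142 0 0) P.nil))))) (P.cons (P.cons (P.lf 0 13650510 0) (P.cons (P.lf 0 875264 0) (P.cons (P.lf 561624 0 0) (P.cons (P.lf 0 47770 0) P.nil)))) (P.cons (P.cons (P.lf 0 18709784 0) (P.cons (P.lf 0 2202664 0) (P.cons (P.lf 0 16000 0) P.nil))) (P.cons (P.cons (P.lf 1296938 0 0) (P.cons (P.lf 430958 0 0) P.nil)) (P.cons (P.cons (P.lf 162570 0 0) P.nil) P.nil)))))) 352462)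
 (EL.cons 3 (TM.mk (P.cons (P.cons (P.lf 1993311416 0 0) (P.cons (P.lf 31115111 0 0) (P.cons (P.lf 0 3289309 0) (P.cons (P.lf 0 531759 0) (P.cons (P.lf 48480 0 0) (P.cons (P.lf 0 3600 0) P.nil)))))) (P.cons (P.cons (P.lf 51135437 0 0) (P.cons (P.lf 0 386590 0) (P.cons (P.lf 1661935 0 0) (P.cons (P.lf 0 210158 0) (P.cons (P.lf 0 65611 0) P.nil))))) (P.cons (P.cons (P.lf 0 97090824 0) (P.cons (P.lf 0 11000737 0) (P.cons (P.lf 0 195537 0) (P.cons (P.lf 369651 0 0) P.nil)))) (P.cons (P.cons (P.lf 16888617 0 0) (P.cons (P.lf 3947418 0 0) (P.cons (P.lf 18075 0 0) P.nil))) (P.cons (P.cons (P.lf 972553 0 0) (P.cons (P.lf 0 372867 0) P.nil)) (P.cons (P.cons (P.lf 0 464833 0) P.nil) P.nil)))))) 888258)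
 (EL.cons 7 (TM.mk (P.cons (P.cons (P.lf 1852580785 0 0) (P.cons (P.lf 99408620 0 0) (P.cons (P.lf 0 9040868 0) (P.cons (P.lf 0 1895204 0) (P.cons (P.lf 96024 0 0) (P.cons (P.lf 0 7130 0) P.nil)))))) (P.cons (P.cons (P.lf 82522374 0 0) (P.cons (P.lf 0 623896 0) (P.cons (P.lf 2682033 0 0) (P.cons (P.lf 0 339145 0) (P.cons (P.lf 0 105877 0) P.nil))))) (P.cons (P.cons (P.lf 0 145862538 0) (P.cons (P.lf 0 17834807 0) (P.cons (P.lf 36170 0 0) (P.cons (P.lf 552061 0 0) P.nil)))) (P.cons (P.cons (P.lf 1307075 0 0) (P.cons (P.lf 3254994 0 0) (P.cons (P.lf 21166 0 0) P.nil))) (P.cons (P.cons (P.lf 3027632 0 0) (P.cons (P.lf 181519 0 0) P.nil)) (P.cons (P.cons (P.lf 0 214762 0) P.nil) P.nil)))))) 605650)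
 (EL.cons 10 (TM.mk (P.cons (P.cons (P.lf 0 336821370 0) (P.cons (P.lf 58221420 0 0) (P.cons (P.lf 23777172 0 0) (P.cons (P.lf 0 1476204 0) (P.cons (P.lf 0 169302 0) (P.cons (P.lf 13230 0 0) P.nil)))))) (P.cons (P.cons (P.lf 90176256 0 0) (P.cons (P.lf 0 20969460 0) (P.cons (P.lf 0 5172696 0) (P.cons (P.lf 860892 0 0) (P.cons (P.lf 0 15270 0) P.nil))))) (P.cons (P.cons (P.lf 17573154 0 0) (P.cons (P.lf 611658 0 0) (P.cons (P.lf 0 2049516 0) (P.cons (P.lf 0 238728 0) P.nil)))) (P.cons (P.cons (P.lf 0 6967122 0) (P.cons (P.lf 255048 0 0) (P.cons (P.lf 702258 0 0) P.nil))) (P.cons (P.cons (P.lf 413328 0 0) (P.cons (P.lf 40860 0 0) P.nil)) (P.cons (P.cons (P.lf 53700 0 0) P.nil) P.nil)))))) 375792)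
 EL.nil))))
noncomputable def S401_430_512_660_9 : EL := (EL.cons 3 (TM.mk (P.cons (P.lf 3378211968 0 0) (P.cons (P.lf 106440982 0 0) (P.cons (P.lf 0 15444026 0) (P.cons (P.lf 629992 0 0) (P.cons (P.lf 4275 0 0) (P.cons (P.lf 0 1953 0) P.nil)))))) 352)
 (EL.cons 7 (TM.mk (P.cons (P.lf 0 744294039 0) (P.cons (P.lf 171774507 0 0) (P.cons (P.lf 0 2395646 0) (P.cons (P.lf 0 321494 0) (P.cons (P.lf 25565 0 0) (P.cons (P.lf 0 650 0) P.nil)))))) 203)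
 EL.nil))
noncomputable def S401_430_512_660_10 : EL := (EL.cons 3 (TM.mk (P.cons (P.cons (P.lf 1585157663 0 0) (P.cons (P.lf 0 28581000 0) (P.cons (P.lf 1910856 0 0) (P.lf 636951 0 0)))) (P.cons (P.cons (P.lf 357227700 0 0) (P.cons (P.lf 18887964 0 0) (P.cons (P.lf 0 1262803 0) (P.lf 0 420933 0)))) (P.cons (P.cons (P.lf 0 33068680 0) (P.cons (P.lf 0 4088774 0) (P.cons (P.lf 273363 0 0) (P.lf 91120 0 0)))) (P.cons (P.cons (P.lf 0 3186055 0) (P.cons (P.lf 193291 0 0) (P.cons (P.lf 0 12919 0) P.nil))) (P.cons (P.cons (P.lf 523081 0 0) (P.cons (P.lf 44161 0 0) P.nil)) (P.cons (P.cons (P.lf 0 9943 0) P.nil) P.nil)))))) 35273)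
 (EL.cons 7 (TM.mk (P.cons (P.cons (P.lf 0 349244929 0) (P.cons (P.lf 6297020 0 0) (P.cons (P.lf 0 421003 0) (P.lf 0 140334 0)))) (P.cons (P.cons (P.lf 12900671 0 0) (P.cons (P.lf 0 5813118 0) (P.cons (P.lf 388651 0 0) (P.lf 129550 0 0)))) (P.cons (P.cons (P.lf 22322770 0 0) (P.cons (P.lf 2093473 0 0) (P.cons (P.lf 0 139964 0) (P.lf 0 46654 0)))) (P.cons (P.cons (P.lf 0 1962932 0) (P.cons (P.lf 0 354877 0) (P.cons (P.lf 23725 0 0) P.nil))) (P.cons (P.cons (P.lf 0 113863 0) (P.cons (P.lf 22812 0 0) P.nil)) (P.cons (P.cons (P.lf 26825 0 0) P.nil) P.nil)))))) 16229)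
 EL.nil))
noncomputable def S401_430_512_660_11 : EL := (EL.cons 3 (TM.mk (P.cons (P.cons (P.lf 743803184 0 0) (P.cons (P.lf 0 26822113 0) (P.cons (P.lf 2035067 0 0) (P.cons (P.lf 565419 0 0) (P.cons (P.lf 0 9696 0) (P.cons (P.lf 720 0 0) P.nil)))))) (P.cons (P.cons (P.lf 311807939 0 0) (P.cons (P.lf 12526130 0 0) (P.cons (P.lf 0 1164683 0) (P.cons (P.lf 0 235400 0) (P.cons (P.lf 13121 0 0) P.nil))))) (P.cons (P.cons (P.lf 317226 0 0) (P.cons (P.lf 199703 0 0) (P.cons (P.lf 172851 0 0) (P.cons (P.lf 0 29349 0) P.nil)))) (P.cons (P.cons (P.lf 0 8706879 0) (P.cons (P.lf 0 943230 0) (P.cons (P.lf 6663 0 0) P.nil))) (P.cons (P.cons (P.lf 357475 0 0) (P.cons (P.lf 146223 0 0) P.nil)) (P.cons (P.cons (P.lf 112577 0 0) P.nil) P.nil)))))) 164546)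
 (EL.cons 7 (TM.mk (P.cons (P.cons (P.lf 0 163876121 0) (P.cons (P.lf 5909498 0 0) (P.cons (P.lf 0 448370 0) (P.cons (P.lf 0 124574 0) (P.cons (P.lf 2136 0 0) (P.cons (P.lf 0 158 0) P.nil)))))) (P.cons (P.cons (P.lf 0 25713966 0) (P.cons (P.lf 0 4309822 0) (P.cons (P.lf 374211 0 0) (P.cons (P.lf 84539 0 0) (P.cons (P.lf 0 3451 0) P.nil))))) (P.cons (P.cons (P.lf 15318390 0 0) (P.cons (P.lf 774757 0 0) (P.cons (P.lf 0 112588 0) (P.cons (P.lf 0 9137 0) P.nil)))) (P.cons (P.cons (P.lf 1072895 0 0) (P.cons (P.lf 166422 0 0) (P.cons (P.lf 13294 0 0) P.nil))) (P.cons (P.cons (P.lf 0 504526 0) (P.cons (P.lf 0 82619 0) P.nil)) (P.cons (P.cons (P.lf 19616 0 0) P.nil) P.nil)))))) 54582)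
 EL.nil))
noncomputable def S401_430_512_660_12 : EL := (EL.cons 4 (TM.mk (P.cons (P.lf 0 3378211968 0) (P.cons (P.lf 0 106440982 0) (P.cons (P.lf 15444026 0 0) (P.cons (P.lf 0 629992 0) (P.cons (P.lf 0 4275 0) (P.cons (P.lf 1953 0 0) P.nil)))))) 352)
 (EL.cons 8 (TM.mk (P.cons (P.lf 744294039 0 0) (P.cons (P.lf 0 171774507 0) (P.cons (P.lf 2395646 0 0) (P.cons (P.lf 321494 0 0) (P.cons (P.lf 0 25565 0) (P.cons (P.lf 650 0 0) P.nil)))))) 203)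
 EL.nil))
noncomputable def S401_430_512_660_13 : EL := (EL.cons 4 (TM.mk (P.cons (P.cons (P.lf 0 1585157663 0) (P.cons (P.lf 28581000 0 0) (P.cons (P.lf 0 1910856 0) (P.lf 0 636951 0)))) (P.cons (P.cons (P.lf 0 357227700 0) (P.cons (P.lf 0 18887964 0) (P.cons (P.lf 1262803 0 0) (P.lf 420933 0 0)))) (P.cons (P.cons (P.lf 33068680 0 0) (P.cons (P.lf 4088774 0 0) (P.cons (P.lf 0 273363 0) (P.lf 0 91120 0)))) (P.cons (P.cons (P.lf 3186055 0 0) (P.cons (P.lf 0 193291 0) (P.cons (P.lf 12919 0 0) P.nil))) (P.cons (P.cons (P.lf 0 523081 0) (P.cons (P.lf 0 44161 0) P.nil)) (P.cons (P.cons (P.lf 9943 0 0) P.nil) P.nil)))))) 35273)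
 (EL.cons 8 (TM.mk (P.cons (P.cons (P.lf 349244929 0 0) (P.cons (P.lf 0 6297020 0) (P.cons (P.lf 421003 0 0) (P.lf 140334 0 0)))) (P.cons (P.cons (P.lf 0 12900671 0) (P.cons (P.lf 5813118 0 0) (P.cons (P.lf 0 388651 0) (P.lf 0 129550 0)))) (P.cons (P.cons (P.lf 0 22322770 0) (P.cons (P.lf 0 2093473 0) (P.cons (P.lf 139964 0 0) (P.lf 46654 0 0)))) (P.cons (P.cons (P.lf 1962932 0 0) (P.cons (P.lf 354877 0 0) (P.cons (P.lf 0 23725 0) P.nil))) (P.cons (P.cons (P.lf 113863 0 0) (P.cons (P.lf 0 22812 0) P.nil)) (P.cons (P.cons (P.lf 0 26825 0) P.nil) P.nil)))))) 16229)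
 EL.nil))
noncomputable def S401_430_512_660_14 : EL := (EL.cons 4 (TM.mk (P.cons (P.cons (P.lf 0 743803184 0) (P.cons (P.lf 26822113 0 0) (P.cons (P.lf 0 2035067 0) (P.cons (P.lf 0 565419 0) (P.cons (P.lf 9696 0 0) (P.cons (P.lf 0 720 0) P.nil)))))) (P.cons (P.cons (P.lf 0 311807939 0) (P.cons (P.lf 0 12526130 0) (P.cons (P.lf 1164683 0 0) (P.cons (P.lf 235400 0 0) (P.cons (P.lf 0 13121 0) P.nil))))) (P.cons (P.cons (P.lf 0 317226 0) (P.cons (P.lf 0 199703 0) (P.cons (P.lf 0 172851 0) (P.cons (P.lf 29349 0 0) P.nil)))) (P.cons (P.cons (P.lf 8706879 0 0) (P.cons (P.lf 943230 0 0) (P.cons (P.lf 0 6663 0) P.nil))) (P.cons (P.cons (P.lf 0 357475 0) (P.cons (P.lf 0 146223 0) P.nil)) (P.cons (P.cons (P.lf 0 112577 0) P.nil) P.nil)))))) 164546)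
 (EL.cons 8 (TM.mk (P.cons (P.cons (P.lf 163876121 0 0) (P.cons (P.lf 0 5909498 0) (P.cons (P.lf 448370 0 0) (P.cons (P.lf 124574 0 0) (P.cons (P.lf 0 2136 0) (P.cons (P.lf 158 0 0) P.nil)))))) (P.cons (P.cons (P.lf 25713966 0 0) (P.cons (P.lf 4309822 0 0) (P.cons (P.lf 0 374211 0) (P.cons (P.lf 0 84539 0) (P.cons (P.lf 3451 0 0) P.nil))))) (P.cons (P.cons (P.lf 0 15318390 0) (P.cons (P.lf 0 774757 0) (P.cons (P.lf 112588 0 0) (P.cons (P.lf 9137 0 0) P.nil)))) (P.cons (P.cons (P.lf 0 1072895 0) (P.cons (P.lf 0 166422 0) (P.cons (P.lf 0 13294 0) P.nil))) (P.cons (P.cons (P.lf 504526 0 0) (P.cons (P.lf 82619 0 0) P.nil)) (P.cons (P.cons (P.lf 0 19616 0) P.nil) P.nil)))))) 54582)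
 EL.nil))
noncomputable def S401_430_512_660_15 : EL := (EL.cons 4 (TM.mk (P.cons (P.lf 0 2834279364 0) (P.cons (P.lf 0 178605417 0) (P.cons (P.lf 23100948 0 0) (P.cons (P.lf 0 240588 0) (P.cons (P.lf 0 99717 0) (P.cons (P.lf 7884 0 0) P.nil)))))) 864)
 (EL.cons 8 (TM.mk (P.cons (P.lf 624453780 0 0) (P.cons (P.lf 0 124441411 0) (P.cons (P.lf 0 5385712 0) (P.cons (P.lf 1108363 0 0) (P.cons (P.lf 0 48224 0) (P.cons (P.lf 0 1532 0) P.nil)))))) 521)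
 EL.nil))
noncomputable def S401_430_512_660_16 : EL := (EL.cons 4 (TM.mk (P.cons (P.cons (P.lf 0 1329928286 0) (P.cons (P.lf 23979117 0 0) (P.cons (P.lf 0 1603185 0) (P.lf 0 534394 0)))) (P.cons (P.cons (P.lf 0 341613250 0) (P.cons (P.lf 0 15091239 0) (P.cons (P.lf 1008962 0 0) (P.lf 336320 0 0)))) (P.cons (P.cons (P.lf 24380922 0 0) (P.cons (P.lf 2821506 0 0) (P.cons (P.lf 0 188637 0) (P.lf 0 62878 0)))) (P.cons (P.cons (P.lf 4669385 0 0) (P.cons (P.lf 22833 0 0) (P.cons (P.lf 0 1528 0) P.nil))) (P.cons (P.cons (P.lf 0 539048 0) (P.cons (P.lf 0 60768 0) P.nil)) (P.cons (P.cons (P.lf 0 12141 0) P.nil) P.nil)))))) 41656)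
 (EL.cons 8 (TM.mk (P.cons (P.cons (P.lf 293012311 0 0) (P.cons (P.lf 0 5283124 0) (P.cons (P.lf 353216 0 0) (P.lf 117738 0 0)))) (P.cons (P.cons (P.lf 0 1591252 0) (P.cons (P.lf 4710675 0 0) (P.cons (P.lf 0 314944 0) (P.lf 0 104981 0)))) (P.cons (P.cons (P.lf 0 20409116 0) (P.cons (P.lf 0 1578577 0) (P.cons (P.lf 105539 0 0) (P.lf 35179 0 0)))) (P.cons (P.cons (P.lf 1160900 0 0) (P.cons (P.lf 219114 0 0) (P.cons (P.lf 0 14648 0) P.nil))) (P.cons (P.cons (P.lf 231392 0 0) (P.cons (P.lf 0 825 0) P.nil)) (P.cons (P.cons (P.lf 0 30701 0) P.nil) P.nil)))))) 17187)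
 EL.nil))
noncomputable def S401_430_512_660_17 : EL := (EL.cons 4 (TM.mk (P.cons (P.cons (P.lf 0 624041958 0) (P.cons (P.lf 22503432 0 0) (P.cons (P.lf 0 1707397 0) (P.cons (P.lf 0 474380 0) (P.cons (P.lf 8134 0 0) (P.cons (P.lf 0 603 0) P.nil)))))) (P.cons (P.cons (P.lf 0 281265490 0) (P.cons (P.lf 0 9800233 0) (P.cons (P.lf 923358 0 0) (P.cons (P.lf 182550 0 0) (P.cons (P.lf 0 10752 0) P.nil))))) (P.cons (P.cons (P.lf 0 5655855 0) (P.cons (P.lf 0 601553 0) (P.cons (P.lf 0 106426 0) (P.cons (P.lf 33015 0 0) P.nil)))) (P.cons (P.cons (P.lf 8376165 0 0) (P.cons (P.lf 838320 0 0) (P.cons (P.lf 0 14945 0) P.nil))) (P.cons (P.cons (P.lf 0 118110 0) (P.cons (P.lf 0 98910 0) P.nil)) (P.cons (P.cons (P.lf 0 137316 0) P.nil) P.nil)))))) 156501)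
 (EL.cons 8 (TM.mk (P.cons (P.cons (P.lf 137490102 0 0) (P.cons (P.lf 0 4957998 0) (P.cons (P.lf 376177 0 0) (P.cons (P.lf 104516 0 0) (P.cons (P.lf 0 1792 0) (P.cons (P.lf 133 0 0) P.nil)))))) (P.cons (P.cons (P.lf 25905759 0 0) (P.cons (P.lf 3459672 0 0) (P.cons (P.lf 0 302106 0) (P.cons (P.lf 0 67634 0) (P.cons (P.lf 2839 0 0) P.nil))))) (P.cons (P.cons (P.lf 0 12800757 0) (P.cons (P.lf 0 513416 0) (P.cons (P.lf 82848 0 0) (P.cons (P.lf 4953 0 0) P.nil)))) (P.cons (P.cons (P.lf 0 1378074 0) (P.cons (P.lf 0 177562 0) (P.cons (P.lf 0 6672 0) P.nil))) (P.cons (P.cons (P.lf 457881 0 0) (P.cons (P.lf 68557 0 0) P.nil)) (P.cons (P.cons (P.lf 0 1455 0) P.nil) P.nil)))))) 53239)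
 EL.nil))
noncomputable def S401_430_512_660_18 : EL := (EL.cons 4 (TM.mk (P.cons (P.lf 0 2377926426 0) (P.cons (P.lf 0 224771707 0) (P.cons (P.lf 25531065 0 0) (P.cons (P.lf 650420 0 0) (P.cons (P.lf 0 209580 0) (P.cons (P.lf 9701 0 0) P.nil)))))) 1817)
 (EL.cons 8 (TM.mk (P.cons (P.lf 523909239 0 0) (P.cons (P.lf 0 87897477 0) (P.cons (P.lf 0 10203278 0) (P.cons (P.lf 1362537 0 0) (P.cons (P.lf 0 9310 0) (P.cons (P.lf 0 8089 0) P.nil)))))) 965)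
 EL.nil))
noncomputable def S401_430_512_660_19 : EL := (EL.cons 4 (TM.mk (P.cons (P.cons (P.lf 0 1115793897 0) (P.cons (P.lf 20118192 0 0) (P.cons (P.lf 0 1345053 0) (P.lf 0 448350 0)))) (P.cons (P.cons (P.lf 0 321765950 0) (P.cons (P.lf 0 12027483 0) (P.cons (P.lf 804127 0 0) (P.lf 268042 0 0)))) (P.cons (P.cons (P.lf 16525815 0 0) (P.cons (P.lf 1876301 0 0) (P.cons (P.lf 0 125443 0) (P.lf 0 41813 0)))) (P.cons (P.cons (P.lf 5664265 0 0) (P.cons (P.lf 155378 0 0) (P.cons (P.lf 0 10389 0) P.nil))) (P.cons (P.cons (P.lf 0 477195 0) (P.cons (P.lf 0 63538 0) P.nil)) (P.cons (P.cons (P.lf 0 38249 0) P.nil) P.nil)))))) 46804)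
 (EL.cons 8 (TM.mk (P.cons (P.cons (P.lf 245833818 0 0) (P.cons (P.lf 0 4432478 0) (P.cons (P.lf 296344 0 0) (P.lf 98781 0 0)))) (P.cons (P.cons (P.lf 6410710 0 0) (P.cons (P.lf 3812541 0 0) (P.cons (P.lf 0 254897 0) (P.lf 0 84965 0)))) (P.cons (P.cons (P.lf 0 18288936 0) (P.cons (P.lf 0 1179617 0) (P.cons (P.lf 78865 0 0) (P.lf 26288 0 0)))) (P.cons (P.cons (P.lf 486416 0 0) (P.cons (P.lf 123210 0 0) (P.cons (P.lf 0 8237 0) P.nil))) (P.cons (P.cons (P.lf 303166 0 0) (P.cons (P.lf 11885 0 0) P.nil)) (P.cons (P.cons (P.lf 0 27430 0) P.nil) P.nil)))))) 17406)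
 EL.nil))
noncomputable def S401_430_512_660_20 : EL := (EL.cons 4 (TM.mk (P.cons (P.cons (P.lf 0 523563726 0) (P.cons (P.lf 18880110 0 0) (P.cons (P.lf 0 1432485 0) (P.cons (P.lf 0 397999 0) (P.cons (P.lf 6825 0 0) (P.cons (P.lf 0 506 0) P.nil)))))) (P.cons (P.cons (P.lf 0 252474865 0) (P.cons (P.lf 0 7627401 0) (P.cons (P.lf 729552 0 0) (P.cons (P.lf 140617 0 0) (P.cons (P.lf 0 8805 0) P.nil))))) (P.cons (P.cons (P.lf 0 9786868 0) (P.cons (P.lf 0 850078 0) (P.cons (P.lf 0 58332 0) (P.cons (P.lf 34344 0 0) P.nil)))) (P.cons (P.cons (P.lf 7859164 0 0) (P.cons (P.lf 728549 0 0) (P.cons (P.lf 0 19161 0) P.nil))) (P.cons (P.cons (P.lf 99353 0 0) (P.cons (P.lf 0 60026 0) P.nil)) (P.cons (P.cons (P.lf 0 151336 0) P.nil) P.nil)))))) 148011)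
 (EL.cons 8 (TM.mk (P.cons (P.cons (P.lf 115352548 0 0) (P.cons (P.lf 0 4159701 0) (P.cons (P.lf 315608 0 0) (P.cons (P.lf 87688 0 0) (P.cons (P.lf 0 1503 0) (P.cons (P.lf 111 0 0) P.nil)))))) (P.cons (P.cons (P.lf 25369159 0 0) (P.cons (P.lf 2771559 0 0) (P.cons (P.lf 0 243519 0) (P.cons (P.lf 0 53981 0) (P.cons (P.lf 2334 0 0) P.nil))))) (P.cons (P.cons (P.lf 0 10582217 0) (P.cons (P.lf 0 320277 0) (P.cons (P.lf 60079 0 0) (P.cons (P.lf 1967 0 0) P.nil)))) (P.cons (P.cons (P.lf 0 1572425 0) (P.cons (P.lf 0 176590 0) (P.cons (P.lf 0 2190 0) P.nil))) (P.cons (P.cons (P.lf 401025 0 0) (P.cons (P.lf 55330 0 0) P.nil)) (P.cons (P.cons (P.lf 14126 0 0) P.nil) P.nil)))))) 50497)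
 EL.nil))
noncomputable def S401_430_512_660_21 : EL := (EL.cons 4 (TM.mk (P.cons (P.cons (P.lf 0 1331446005 0) (P.cons (P.lf 0 85743000 0) (P.cons (P.lf 5732568 0 0) (P.lf 1910853 0 0)))) (P.cons (P.cons (P.lf 535866846 0 0) (P.cons (P.lf 56663892 0 0) (P.cons (P.lf 0 3788409 0) (P.lf 0 1262799 0)))) (P.cons (P.cons (P.lf 0 29903193 0) (P.cons (P.lf 0 12266322 0) (P.cons (P.lf 820089 0 0) (P.lf 273360 0 0)))) (P.cons (P.cons (P.lf 0 10279935 0) (P.cons (P.lf 579873 0 0) (P.cons (P.lf 0 38757 0) P.nil))) (P.cons (P.cons (P.lf 1270089 0 0) (P.cons (P.lf 132483 0 0) P.nil)) (P.cons (P.cons (P.lf 0 6174 0) P.nil) P.nil)))))) 108207)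
 (EL.cons 8 (TM.mk (P.cons (P.cons (P.lf 0 2148688116 0) (P.cons (P.lf 0 138372099 0) (P.cons (P.lf 9251238 0 0) (P.lf 3083745 0 0)))) (P.cons (P.cons (P.lf 301188609 0 0) (P.cons (P.lf 55149702 0 0) (P.cons (P.lf 0 3687180 0) (P.lf 0 1229061 0)))) (P.cons (P.cons (P.lf 65239689 0 0) (P.cons (P.lf 0 3108300 0) (P.cons (P.lf 207813 0 0) (P.lf 69273 0 0)))) (P.cons (P.cons (P.lf 0 7449201 0) (P.cons (P.lf 0 966849 0) (P.cons (P.lf 64638 0 0) P.nil))) (P.cons (P.cons (P.lf 0 226920 0) (P.cons (P.lf 108963 0 0) P.nil)) (P.cons (P.cons (P.lf 79428 0 0) P.nil) P.nil)))))) 59394)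
 (EL.cons 11 (TM.mk (P.cons (P.cons (P.lf 358908777 0 0) (P.cons (P.lf 0 55568091 0) (P.cons (P.lf 0 26770953 0) (P.cons (P.lf 1013091 0 0) (P.lf 253272 0 0))))) (P.cons (P.cons (P.lf 0 165664038 0) (P.cons (P.lf 25648953 0 0) (P.cons (P.lf 12356856 0 0) (P.cons (P.lf 0 467619 0) (P.lf 0 116904 0))))) (P.cons (P.cons (P.lf 21427101 0 0) (P.cons (P.lf 0 3317451 0) (P.cons (P.lf 0 1598244 0) (P.cons (P.lf 60480 0 0) P.nil)))) (P.cons (P.cons (P.lf 0 223161 0) (P.cons (P.lf 34548 0 0) (P.cons (P.lf 16644 0 0) P.nil))) (P.cons (P.cons (P.lf 0 92493 0) (P.cons (P.lf 14319 0 0) P.nil)) (P.cons (P.cons (P.lf 7311 0 0) P.nil) P.nil)))))) 25629)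
 EL.nil)))
noncomputable def S401_430_512_660_22 : EL := (EL.cons 4 (TM.mk (P.cons (P.cons (P.lf 0 624754116 0) (P.cons (P.lf 0 28968612 0) (P.cons (P.lf 2662188 0 0) (P.cons (P.lf 548589 0 0) (P.cons (P.lf 0 29088 0) (P.cons (P.lf 2160 0 0) P.nil)))))) (P.cons (P.cons (P.lf 130336251 0 0) (P.cons (P.lf 6456360 0 0) (P.cons (P.lf 0 1413309 0) (P.cons (P.lf 0 12621 0) (P.cons (P.lf 39366 0 0) P.nil))))) (P.cons (P.cons (P.lf 48704025 0 0) (P.cons (P.lf 5600220 0 0) (P.cons (P.lf 184194 0 0) (P.cons (P.lf 0 199500 0) P.nil)))) (P.cons (P.cons (P.lf 0 12797748 0) (P.cons (P.lf 0 2445324 0) (P.cons (P.lf 0 5706 0) P.nil))) (P.cons (P.cons (P.lf 0 307539 0) (P.cons (P.lf 259545 0 0) P.nil)) (P.cons (P.cons (P.lf 288705 0 0) P.nil) P.nil)))))) 361845)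
 (EL.cons 8 (TM.mk (P.cons (P.cons (P.lf 0 1008228453 0) (P.cons (P.lf 0 46749561 0) (P.cons (P.lf 4296249 0 0) (P.cons (P.lf 885315 0 0) (P.cons (P.lf 0 46944 0) (P.cons (P.lf 3486 0 0) P.nil)))))) (P.cons (P.cons (P.lf 0 54118170 0) (P.cons (P.lf 0 1842963 0) (P.cons (P.lf 0 1153911 0) (P.cons (P.lf 211842 0 0) (P.cons (P.lf 51213 0 0) P.nil))))) (P.cons (P.cons (P.lf 80590464 0 0) (P.cons (P.lf 9304782 0 0) (P.cons (P.lf 0 74379 0) (P.cons (P.lf 0 280599 0) P.nil)))) (P.cons (P.cons (P.lf 0 117090 0) (P.cons (P.lf 0 1544286 0) (P.cons (P.lf 0 3936 0) P.nil))) (P.cons (P.cons (P.lf 0 1766079 0) (P.cons (P.lf 0 132069 0) P.nil)) (P.cons (P.cons (P.lf 117189 0 0) P.nil) P.nil)))))) 275523)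
 (EL.cons 11 (TM.mk (P.cons (P.cons (P.lf 168410685 0 0) (P.cons (P.lf 0 29110710 0) (P.cons (P.lf 0 11888586 0) (P.cons (P.lf 738102 0 0) (P.cons (P.lf 84651 0 0) (P.cons (P.lf 0 6615 0) P.nil)))))) (P.cons (P.cons (P.lf 0 45088128 0) (P.cons (P.lf 10484730 0 0) (P.cons (P.lf 2586348 0 0) (P.cons (P.lf 0 430446 0) (P.cons (P.lf 7635 0 0) P.nil))))) (P.cons (P.cons (P.lf 0 8786577 0) (P.cons (P.lf 0 305829 0) (P.cons (P.lf 1024758 0 0) (P.cons (P.lf 119364 0 0) P.nil)))) (P.cons (P.cons (P.lf 3483561 0 0) (P.cons (P.lf 0 127524 0) (P.cons (P.lf 0 351129 0) P.nil))) (P.cons (P.cons (P.lf 0 206664 0) (P.cons (P.lf 0 20430 0) P.nil)) (P.cons (P.cons (P.lf 0 26850 0) P.nil) P.nil)))))) 187896)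
 EL.nil)))
noncomputable def S401_430_512_660_23 : EL := (EL.cons 4 (TM.mk (P.cons (P.cons (P.lf 0 1117067244 0) (P.cons (P.lf 0 71937348 0) (P.cons (P.lf 4809555 0 0) (P.lf 1603182 0 0)))) (P.cons (P.cons (P.lf 414389214 0 0) (P.cons (P.lf 45273717 0 0) (P.cons (P.lf 0 3026889 0) (P.lf 0 1008960 0)))) (P.cons (P.cons (P.lf 0 5815983 0) (P.cons (P.lf 0 8464518 0) (P.cons (P.lf 565908 0 0) (P.lf 188634 0 0)))) (P.cons (P.cons (P.lf 0 11678901 0) (P.cons (P.lf 0 68505 0) (P.cons (P.lf 4587 0 0) P.nil))) (P.cons (P.cons (P.lf 990963 0 0) (P.cons (P.lf 182301 0 0) P.nil)) (P.cons (P.cons (P.lf 64359 0 0) P.nil) P.nil)))))) 128640)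
 (EL.cons 8 (TM.mk (P.cons (P.cons (P.lf 0 1802723583 0) (P.cons (P.lf 0 116092533 0) (P.cons (P.lf 7761675 0 0) (P.lf 2587224 0 0)))) (P.cons (P.cons (P.lf 195893268 0 0) (P.cons (P.lf 42612084 0 0) (P.cons (P.lf 0 2848944 0) (P.lf 0 949647 0)))) (P.cons (P.cons (P.lf 70938642 0 0) (P.cons (P.lf 0 619212 0) (P.cons (P.lf 41397 0 0) (P.lf 13800 0 0)))) (P.cons (P.cons (P.lf 0 6016596 0) (P.cons (P.lf 0 1126521 0) (P.cons (P.lf 75312 0 0) P.nil))) (P.cons (P.cons (P.lf 0 592689 0) (P.cons (P.lf 86262 0 0) P.nil)) (P.cons (P.cons (P.lf 100782 0 0) P.nil) P.nil)))))) 75393)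
 (EL.cons 11 (TM.mk (P.cons (P.cons (P.lf 301120161 0 0) (P.cons (P.lf 0 46620960 0) (P.cons (P.lf 0 22460508 0) (P.cons (P.lf 849969 0 0) (P.lf 212490 0 0))))) (P.cons (P.cons (P.lf 0 129502422 0) (P.cons (P.lf 20050227 0 0) (P.cons (P.lf 9659565 0 0) (P.cons (P.lf 0 365544 0) (P.lf 0 91383 0))))) (P.cons (P.cons (P.lf 12221148 0 0) (P.cons (P.lf 0 1892136 0) (P.cons (P.lf 0 911571 0) (P.cons (P.lf 34494 0 0) P.nil)))) (P.cons (P.cons (P.lf 1070763 0 0) (P.cons (P.lf 0 165783 0) (P.cons (P.lf 0 79869 0) P.nil))) (P.cons (P.cons (P.lf 0 191223 0) (P.cons (P.lf 29604 0 0) P.nil)) (P.cons (P.cons (P.lf 7545 0 0) P.nil) P.nil)))))) 41625)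
 EL.nil)))
noncomputable def S401_430_512_660_24 : EL := (EL.cons 4 (TM.mk (P.cons (P.cons (P.lf 0 524161218 0) (P.cons (P.lf 0 24304317 0) (P.cons (P.lf 2233545 0 0) (P.cons (P.lf 460260 0 0) (P.cons (P.lf 0 24405 0) (P.cons (P.lf 1812 0 0) P.nil)))))) (P.cons (P.cons (P.lf 92835237 0 0) (P.cons (P.lf 4651026 0 0) (P.cons (P.lf 0 1115373 0) (P.cons (P.lf 3912 0 0) (P.cons (P.lf 32256 0 0) P.nil))))) (P.cons (P.cons (P.lf 46703805 0 0) (P.cons (P.lf 4980300 0 0) (P.cons (P.lf 106965 0 0) (P.cons (P.lf 0 169818 0) P.nil)))) (P.cons (P.cons (P.lf 0 10047333 0) (P.cons (P.lf 0 1932852 0) (P.cons (P.lf 5916 0 0) P.nil))) (P.cons (P.cons (P.lf 0 763407 0) (P.cons (P.lf 132615 0 0) P.nil)) (P.cons (P.cons (P.lf 291237 0 0) P.nil) P.nil)))))) 322233)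
 (EL.cons 8 (TM.mk (P.cons (P.cons (P.lf 0 845891592 0) (P.cons (P.lf 0 39222321 0) (P.cons (P.lf 3604503 0 0) (P.cons (P.lf 742770 0 0) (P.cons (P.lf 0 39387 0) (P.cons (P.lf 2925 0 0) P.nil)))))) (P.cons (P.cons (P.lf 0 72056919 0) (P.cons (P.lf 0 2782044 0) (P.cons (P.lf 0 854547 0) (P.cons (P.lf 201135 0 0) (P.cons (P.lf 41727 0 0) P.nil))))) (P.cons (P.cons (P.lf 70050951 0 0) (P.cons (P.lf 7937193 0 0) (P.cons (P.lf 0 109386 0) (P.cons (P.lf 0 233214 0) P.nil)))) (P.cons (P.cons (P.lf 2081988 0 0) (P.cons (P.lf 0 1049913 0) (P.cons (P.lf 0 168 0) P.nil))) (P.cons (P.cons (P.lf 0 1803462 0) (P.cons (P.lf 0 187653 0) P.nil)) (P.cons (P.cons (P.lf 65124 0 0) P.nil) P.nil)))))) 246342)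
 (EL.cons 11 (TM.mk (P.cons (P.cons (P.lf 141294546 0 0) (P.cons (P.lf 0 24423537 0) (P.cons (P.lf 0 9974379 0) (P.cons (P.lf 619260 0 0) (P.cons (P.lf 71019 0 0) (P.cons (P.lf 0 5550 0) P.nil)))))) (P.cons (P.cons (P.lf 0 33376479 0) (P.cons (P.lf 8027025 0 0) (P.cons (P.lf 1855641 0 0) (P.cons (P.lf 0 341628 0) (P.cons (P.lf 8643 0 0) P.nil))))) (P.cons (P.cons (P.lf 0 9209682 0) (P.cons (P.lf 132231 0 0) (P.cons (P.lf 973728 0 0) (P.cons (P.lf 85935 0 0) P.nil)))) (P.cons (P.cons (P.lf 2889681 0 0) (P.cons (P.lf 0 159846 0) (P.cons (P.lf 0 279285 0) P.nil))) (P.cons (P.cons (P.lf 0 54474 0) (P.cons (P.lf 0 17730 0) P.nil)) (P.cons (P.cons (P.lf 0 42855 0) P.nil) P.nil)))))) 164877)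
 EL.nil)))
noncomputable def S401_430_512_660_25 : EL := (EL.cons 4 (TM.mk (P.cons (P.cons (P.lf 0 937206033 0) (P.cons (P.lf 0 60354573 0) (P.cons (P.lf 4035159 0 0) (P.lf 1345050 0 0)))) (P.cons (P.cons (P.lf 318138021 0 0) (P.cons (P.lf 36082449 0 0) (P.cons (P.lf 0 2412384 0) (P.lf 0 804123 0)))) (P.cons (P.cons (P.lf 10359381 0 0) (P.cons (P.lf 0 5628903 0) (P.cons (P.lf 376329 0 0) (P.lf 125439 0 0)))) (P.cons (P.cons (P.lf 0 11716395 0) (P.cons (P.lf 0 466140 0) (P.cons (P.lf 31173 0 0) P.nil))) (P.cons (P.cons (P.lf 608631 0 0) (P.cons (P.lf 190611 0 0) P.nil)) (P.cons (P.cons (P.lf 125058 0 0) P.nil) P.nil)))))) 133746)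
 (EL.cons 8 (TM.mk (P.cons (P.cons (P.lf 0 1512463485 0) (P.cons (P.lf 0 97400244 0) (P.cons (P.lf 6511953 0 0) (P.lf 2170650 0 0)))) (P.cons (P.cons (P.lf 116697282 0 0) (P.cons (P.lf 32682132 0 0) (P.cons (P.lf 0 2185050 0) (P.lf 0 728349 0)))) (P.cons (P.cons (P.lf 71609553 0 0) (P.cons (P.lf 1052211 0 0) (P.cons (P.lf 0 70347 0) (P.lf 0 23448 0)))) (P.cons (P.cons (P.lf 0 4206012 0) (P.cons (P.lf 0 1143111 0) (P.cons (P.lf 76422 0 0) P.nil))) (P.cons (P.cons (P.lf 0 899661 0) (P.cons (P.lf 51513 0 0) P.nil)) (P.cons (P.cons (P.lf 104145 0 0) P.nil) P.nil)))))) 82743)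
 (EL.cons 11 (TM.mk (P.cons (P.cons (P.lf 252636207 0 0) (P.cons (P.lf 0 39114426 0) (P.cons (P.lf 0 18844095 0) (P.cons (P.lf 713115 0 0) (P.lf 178278 0 0))))) (P.cons (P.cons (P.lf 0 100690899 0) (P.cons (P.lf 15589479 0 0) (P.cons (P.lf 7510518 0 0) (P.cons (P.lf 0 284217 0) (P.lf 0 71052 0))))) (P.cons (P.cons (P.lf 5675046 0 0) (P.cons (P.lf 0 878637 0) (P.cons (P.lf 0 423300 0) (P.cons (P.lf 16017 0 0) P.nil)))) (P.cons (P.cons (P.lf 1765251 0 0) (P.cons (P.lf 0 273306 0) (P.cons (P.lf 0 131670 0) P.nil))) (P.cons (P.cons (P.lf 0 198945 0) (P.cons (P.lf 30798 0 0) P.nil)) (P.cons (P.cons (P.lf 0 1200 0) P.nil) P.nil)))))) 48468)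
 EL.nil)))
noncomputable def S401_430_512_660_26 : EL := (EL.cons 4 (TM.mk (P.cons (P.cons (P.lf 0 439764981 0) (P.cons (P.lf 0 20391030 0) (P.cons (P.lf 1873917 0 0) (P.cons (P.lf 386151 0 0) (P.cons (P.lf 0 20475 0) (P.cons (P.lf 1521 0 0) P.nil)))))) (P.cons (P.cons (P.lf 64031499 0 0) (P.cons (P.lf 3259674 0 0) (P.cons (P.lf 0 876741 0) (P.cons (P.lf 15447 0 0) (P.cons (P.lf 26418 0 0) P.nil))))) (P.cons (P.cons (P.lf 43648479 0 0) (P.cons (P.lf 4394583 0 0) (P.cons (P.lf 51690 0 0) (P.cons (P.lf 0 144135 0) P.nil)))) (P.cons (P.cons (P.lf 0 7633068 0) (P.cons (P.lf 0 1511628 0) (P.cons (P.lf 12417 0 0) P.nil))) (P.cons (P.cons (P.lf 0 1071255 0) (P.cons (P.lf 41766 0 0) P.nil)) (P.cons (P.cons (P.lf 270360 0 0) P.nil) P.nil)))))) 286533)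
 (EL.cons 8 (TM.mk (P.cons (P.cons (P.lf 0 709692909 0) (P.cons (P.lf 0 32907057 0) (P.cons (P.lf 3024135 0 0) (P.cons (P.lf 623175 0 0) (P.cons (P.lf 0 33045 0) (P.cons (P.lf 2454 0 0) P.nil)))))) (P.cons (P.cons (P.lf 0 82815954 0) (P.cons (P.lf 0 3370938 0) (P.cons (P.lf 0 621669 0) (P.cons (P.lf 188385 0 0) (P.cons (P.lf 33966 0 0) P.nil))))) (P.cons (P.cons (P.lf 60111561 0 0) (P.cons (P.lf 6736104 0 0) (P.cons (P.lf 0 128187 0) (P.cons (P.lf 0 193197 0) P.nil)))) (P.cons (P.cons (P.lf 3742584 0 0) (P.cons (P.lf 0 666510 0) (P.cons (P.lf 807 0 0) P.nil))) (P.cons (P.cons (P.lf 0 1738902 0) (P.cons (P.lf 0 216114 0) P.nil)) (P.cons (P.cons (P.lf 10272 0 0) P.nil) P.nil)))))) 219609)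
 (EL.cons 11 (TM.mk (P.cons (P.cons (P.lf 118544433 0 0) (P.cons (P.lf 0 20491056 0) (P.cons (P.lf 0 8368386 0) (P.cons (P.lf 519552 0 0) (P.cons (P.lf 59586 0 0) (P.cons (P.lf 0 4656 0) P.nil)))))) (P.cons (P.cons (P.lf 0 24267357 0) (P.cons (P.lf 6088944 0 0) (P.cons (P.lf 1293189 0 0) (P.cons (P.lf 0 270252 0) (P.cons (P.lf 9129 0 0) P.nil))))) (P.cons (P.cons (P.lf 0 9151062 0) (P.cons (P.lf 416811 0 0) (P.cons (P.lf 904257 0 0) (P.cons (P.lf 60693 0 0) P.nil)))) (P.cons (P.cons (P.lf 2331075 0 0) (P.cons (P.lf 0 165222 0) (P.cons (P.lf 0 217254 0) P.nil))) (P.cons (P.cons (P.lf 60936 0 0) (P.cons (P.lf 0 18378 0) P.nil)) (P.cons (P.cons (P.lf 0 50025 0) P.nil) P.nil)))))) 144744)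
 EL.nil)))
noncomputable def S401_430_512_660_27 : EL := (EL.cons 13 (TM.mk (P.lf 0 4294967296 0) 0)
 EL.nil)
noncomputable def S401_430_512_660_28 : EL := (EL.cons 13 (TM.mk (P.cons (P.cons (P.lf 0 2015326566 0) (P.cons (P.lf 36337112 0 0) (P.cons (P.lf 0 2429412 0) (P.lf 0 809804 0)))) (P.cons (P.cons (P.lf 0 390670557 0) (P.cons (P.lf 0 25158560 0) (P.cons (P.lf 1682040 0 0) (P.lf 560680 0 0)))) (P.cons (P.cons (P.lf 45138524 0 0) (P.cons (P.lf 6157176 0 0) (P.cons (P.lf 0 411652 0) (P.lf 0 137216 0)))) (P.cons (P.cons (P.lf 1218257 0 0) (P.cons (P.lf 0 561540 0) (P.cons (P.lf 37540 0 0) P.nil))) (P.cons (P.cons (P.lf 0 421655 0) (P.cons (P.lf 0 5660 0) P.nil)) (P.cons (P.cons (P.lf 22408 0 0) P.nil) P.nil)))))) 24741)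
 EL.nil)
noncomputable def S401_430_512_660_29 : EL := (EL.cons 13 (TM.mk (P.cons (P.cons (P.lf 0 945651244 0) (P.cons (P.lf 34100910 0 0) (P.cons (P.lf 0 2587331 0) (P.cons (P.lf 0 718860 0) (P.cons (P.lf 12328 0 0) (P.cons (P.lf 0 916 0) P.nil)))))) (P.cons (P.cons (P.lf 0 366628520 0) (P.cons (P.lf 0 16999838 0) (P.cons (P.lf 1562270 0 0) (P.cons (P.lf 321932 0 0) (P.cons (P.lf 0 17071 0) P.nil))))) (P.cons (P.cons (P.lf 6825255 0 0) (P.cons (P.lf 437632 0 0) (P.cons (P.lf 0 280812 0) (P.cons (P.lf 23885 0 0) P.nil)))) (P.cons (P.cons (P.lf 9354892 0 0) (P.cons (P.lf 1101332 0 0) (P.cons (P.lf 8000 0 0) P.nil))) (P.cons (P.cons (P.lf 0 648469 0) (P.cons (P.lf 0 215479 0) P.nil)) (P.cons (P.cons (P.lf 0 81285 0) P.nil) P.nil)))))) 176231)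
 EL.nil)
noncomputable def S401_430_512_660_30 : EL := (EL.cons 13 (TM.mk (P.cons (P.lf 0 3603426100 0) (P.cons (P.lf 0 113537048 0) (P.cons (P.lf 16473628 0 0) (P.cons (P.lf 0 671992 0) (P.cons (P.lf 0 4560 0) (P.cons (P.lf 2084 0 0) P.nil)))))) 368)
 EL.nil)
noncomputable def S401_430_512_660_31 : EL := (EL.cons 13 (TM.mk (P.cons (P.cons (P.lf 0 1690834841 0) (P.cons (P.lf 30486401 0 0) (P.cons (P.lf 0 2038247 0) (P.lf 0 679415 0)))) (P.cons (P.cons (P.lf 0 381042880 0) (P.cons (P.lf 0 20147162 0) (P.cons (P.lf 1346990 0 0) (P.lf 448996 0 0)))) (P.cons (P.cons (P.lf 35273259 0 0) (P.cons (P.lf 4361359 0 0) (P.cons (P.lf 0 291588 0) (P.lf 0 97195 0)))) (P.cons (P.cons (P.lf 3398459 0 0) (P.cons (P.lf 0 206178 0) (P.cons (P.lf 13781 0 0) P.nil))) (P.cons (P.cons (P.lf 0 557954 0) (P.cons (P.lf 0 47106 0) P.nil)) (P.cons (P.cons (P.lf 10606 0 0) P.nil) P.nil))))))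 37605)
 EL.nil)
noncomputable def S401_430_512_660_32 : EL := (EL.cons 13 (TM.mk (P.cons (P.cons (P.lf 0 793390063 0) (P.cons (P.lf 28610254 0 0) (P.cons (P.lf 0 2170739 0) (P.cons (P.lf 0 603114 0) (P.cons (P.lf 10343 0 0) (P.cons (P.lf 0 768 0) P.nil)))))) (P.cons (P.cons (P.lf 0 332595135 0) (P.cons (P.lf 0 13361206 0) (P.cons (P.lf 1242329 0 0) (P.cons (P.lf 251094 0 0) (P.cons (P.lf 0 13996 0) P.nil))))) (P.cons (P.cons (P.lf 0 338375 0) (P.cons (P.lf 0 213017 0) (P.cons (P.lf 0 184375 0) (P.cons (P.lf 31306 0 0) P.nil)))) (P.cons (P.cons (P.lf 9287338 0 0) (P.cons (P.lf 1006112 0 0) (P.cons (P.lf 0 7108 0) P.nil))) (P.cons (P.cons (P.lf 0 381307 0) (P.cons (P.lf 0 155972 0) P.nil)) (P.cons (P.cons (P.lf 0 120083 0) P.nil) P.nil)))))) 175493)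
 EL.nil)
noncomputable def S401_430_512_660_33 : EL := (EL.cons 14 (TM.mk (P.lf 8589934592 0 0) 0)
 EL.nil)
noncomputable def S401_430_512_660_34 : EL := (EL.cons 14 (TM.mk (P.cons (P.cons (P.lf 4030653132 0 0) (P.cons (P.lf 0 72674224 0) (P.cons (P.lf 4858824 0 0) (P.lf 1619608 0 0)))) (P.cons (P.cons (P.lf 781341114 0 0) (P.cons (P.lf 50317120 0 0) (P.cons (P.lf 0 3364080 0) (P.lf 0 1121360 0)))) (P.cons (P.cons (P.lf 0 90277048 0) (P.cons (P.lf 0 12314352 0) (P.cons (P.lf 823304 0 0) (P.lf 274432 0 0)))) (P.cons (P.cons (P.lf 0 2436514 0) (P.cons (P.lf 1123080 0 0) (P.cons (P.lf 0 75080 0) P.nil))) (P.cons (P.cons (P.lf 843310 0 0) (P.cons (P.lf 11320 0 0) P.nil)) (P.cons (P.cons (P.lf 0 44816 0) P.nil) P.nil)))))) 49482)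
 EL.nil)
noncomputable def S401_430_512_660_35 : EL := (EL.cons 14 (TM.mk (P.cons (P.cons (P.lf 1891302488 0 0) (P.cons (P.lf 0 68201820 0) (P.cons (P.lf 5174662 0 0) (P.cons (P.lf 1437720 0 0) (P.cons (P.lf 0 24656 0) (P.cons (P.lf 1832 0 0) P.nil)))))) (P.cons (P.cons (P.lf 733257040 0 0) (P.cons (P.lf 33999676 0 0) (P.cons (P.lf 0 3124540 0) (P.cons (P.lf 0 643864 0) (P.cons (P.lf 34142 0 0) P.nil))))) (P.cons (P.cons (P.lf 0 13650510 0) (P.cons (P.lf 0 875264 0) (P.cons (P.lf 561624 0 0) (P.cons (P.lf 0 47770 0) P.nil)))) (P.cons (P.cons (P.lf 0 18709784 0) (P.cons (P.lf 0 2202664 0) (P.cons (P.lf 0 16000 0) P.nil))) (P.cons (P.cons (P.lf 1296938 0 0) (P.cons (P.lf 430958 0 0) P.nil)) (P.cons (P.cons (P.lf 162570 0 0) P.nil) P.nil)))))) 352462)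
 EL.nil)
noncomputable def S401_430_512_660_36 : EL := (EL.cons 14 (TM.mk (P.cons (P.lf 7206852200 0 0) (P.cons (P.lf 227074096 0 0) (P.cons (P.lf 0 32947256 0) (P.cons (P.lf 1343984 0 0) (P.cons (P.lf 9120 0 0) (P.cons (P.lf 0 4168 0) P.nil)))))) 736)
 EL.nil)
noncomputable def S401_430_512_660_37 : EL := (EL.cons 14 (TM.mk (P.cons (P.cons (P.lf 3381669682 0 0) (P.cons (P.lf 0 60972802 0) (P.cons (P.lf 4076494 0 0) (P.lf 1358830 0 0)))) (P.cons (P.cons (P.lf 762085760 0 0) (P.cons (P.lf 40294324 0 0) (P.cons (P.lf 0 2693980 0) (P.lf 0 897992 0)))) (P.cons (P.cons (P.lf 0 70546518 0) (P.cons (P.lf 0 8722718 0) (P.cons (P.lf 583176 0 0) (P.lf 194390 0 0)))) (P.cons (P.cons (P.lf 0 6796918 0) (P.cons (P.lf 412356 0 0) (P.cons (P.lf 0 27562 0) P.nil))) (P.cons (P.cons (P.lf 1115908 0 0) (P.cons (P.lf 94212 0 0) P.nil)) (P.cons (P.cons (P.lf 0 21212 0) P.nil) P.nil))))))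 75210)
 EL.nil)
noncomputable def S401_430_512_660_38 : EL := (EL.cons 14 (TM.mk (P.cons (P.cons (P.lf 1586780126 0 0) (P.cons (P.lf 0 57220508 0) (P.cons (P.lf 4341478 0 0) (P.cons (P.lf 1206228 0 0) (P.cons (P.lf 0 20686 0) (P.cons (P.lf 1536 0 0) P.nil)))))) (P.cons (P.cons (P.lf 665190270 0 0) (P.cons (P.lf 26722412 0 0) (P.cons (P.lf 0 2484658 0) (P.cons (P.lf 0 502188 0) (P.cons (P.lf 27992 0 0) P.nil))))) (P.cons (P.cons (P.lf 676750 0 0) (P.cons (P.lf 426034 0 0) (P.cons (P.lf 368750 0 0) (P.cons (P.lf 0 62612 0) P.nil)))) (P.cons (P.cons (P.lf 0 18574676 0) (P.cons (P.lf 0 2012224 0) (P.cons (P.lf 14216 0 0) P.nil))) (P.cons (P.cons (P.lf 762614 0 0) (P.cons (P.lf 311944 0 0) P.nil)) (P.cons (P.cons (P.lf 240166 0 0) P.nil) P.nil)))))) 350986)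
 EL.nil)
noncomputable def S401_430_512_660_39 : EL := (EL.cons 14 (TM.mk (P.cons (P.lf 6046462644 0 0) (P.cons (P.lf 381024890 0 0) (P.cons (P.lf 0 49282024 0) (P.cons (P.lf 513256 0 0) (P.cons (P.lf 212730 0 0) (P.cons (P.lf 0 16820 0) P.nil)))))) 1830)
 EL.nil)
noncomputable def S401_430_512_660_40 : EL := (EL.cons 14 (TM.mk (P.cons (P.cons (P.lf 2837180344 0 0) (P.cons (P.lf 0 51155450 0) (P.cons (P.lf 3420130 0 0) (P.lf 1140042 0 0)))) (P.cons (P.cons (P.lf 728774934 0 0) (P.cons (P.lf 32194644 0 0) (P.cons (P.lf 0 2152454 0) (P.lf 0 717484 0)))) (P.cons (P.cons (P.lf 0 52012634 0) (P.cons (P.lf 0 6019214 0) (P.cons (P.lf 402426 0 0) (P.lf 134140 0 0)))) (P.cons (P.cons (P.lf 0 9961356 0) (P.cons (P.lf 0 48712 0) (P.cons (P.lf 3260 0 0) P.nil))) (P.cons (P.cons (P.lf 1149970 0 0) (P.cons (P.lf 129640 0 0) P.nil)) (P.cons (P.cons (P.lf 25902 0 0) P.nil) P.nil))))))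 88826)
 EL.nil)
noncomputable def S401_430_512_660_41 : EL := (EL.cons 14 (TM.mk (P.cons (P.cons (P.lf 1331289512 0 0) (P.cons (P.lf 0 48007322 0) (P.cons (P.lf 3642448 0 0) (P.cons (P.lf 1012012 0 0) (P.cons (P.lf 0 17354 0) (P.cons (P.lf 1288 0 0) P.nil)))))) (P.cons (P.cons (P.lf 600033046 0 0) (P.cons (P.lf 20907164 0 0) (P.cons (P.lf 0 1969832 0) (P.cons (P.lf 0 389442 0) (P.cons (P.lf 22938 0 0) P.nil))))) (P.cons (P.cons (P.lf 12065826 0 0) (P.cons (P.lf 1283314 0 0) (P.cons (P.lf 227044 0 0) (P.cons (P.lf 0 70432 0) P.nil)))) (P.cons (P.cons (P.lf 0 17869152 0) (P.cons (P.lf 0 1788418 0) (P.cons (P.lf 31884 0 0) P.nil))) (P.cons (P.cons (P.lf 251968 0 0) (P.cons (P.lf 211010 0 0) P.nil)) (P.cons (P.cons (P.lf 292942 0 0) P.nil) P.nil)))))) 333822)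
 EL.nil)
noncomputable def S401_430_512_660_42 : EL := (EL.cons 14 (TM.mk (P.cons (P.lf 5072909710 0 0) (P.cons (P.lf 479512976 0 0) (P.cons (P.lf 0 54466274 0) (P.cons (P.lf 0 1387564 0) (P.cons (P.lf 447104 0 0) (P.cons (P.lf 0 20696 0) P.nil)))))) 3862)
 EL.nil)
noncomputable def S401_430_512_660_43 : EL := (EL.cons 14 (TM.mk (P.cons (P.cons (P.lf 2380360314 0 0) (P.cons (P.lf 0 42918810 0) (P.cons (P.lf 2869448 0 0) (P.lf 956482 0 0)))) (P.cons (P.cons (P.lf 686434028 0 0) (P.cons (P.lf 25658632 0 0) (P.cons (P.lf 0 1715472 0) (P.lf 0 571824 0)))) (P.cons (P.cons (P.lf 0 35255072 0) (P.cons (P.lf 0 4002776 0) (P.cons (P.lf 267612 0 0) (P.lf 89202 0 0)))) (P.cons (P.cons (P.lf 0 12083766 0) (P.cons (P.lf 0 331474 0) (P.cons (P.lf 22164 0 0) P.nil))) (P.cons (P.cons (P.lf 1018018 0 0) (P.cons (P.lf 135548 0 0) P.nil)) (P.cons (P.cons (P.lf 81598 0 0) P.nil)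 P.nil)))))) 99808)
 EL.nil)
noncomputable def S401_430_512_660_44 : EL := (EL.cons 14 (TM.mk (P.cons (P.cons (P.lf 1116935950 0 0) (P.cons (P.lf 0 40277568 0) (P.cons (P.lf 3055970 0 0) (P.cons (P.lf 849066 0 0) (P.cons (P.lf 0 14560 0) (P.cons (P.lf 1080 0 0) P.nil)))))) (P.cons (P.cons (P.lf 538613046 0 0) (P.cons (P.lf 16271790 0 0) (P.cons (P.lf 0 1556378 0) (P.cons (P.lf 0 299984 0) (P.cons (P.lf 18786 0 0) P.nil))))) (P.cons (P.cons (P.lf 20878652 0 0) (P.cons (P.lf 1813500 0 0) (P.cons (P.lf 124442 0 0) (P.cons (P.lf 0 73268 0) P.nil)))) (P.cons (P.cons (P.lf 0 16766218 0) (P.cons (P.lf 0 1554238 0) (P.cons (P.lf 40878 0 0) P.nil))) (P.cons (P.cons (P.lf 0 211954 0) (P.cons (P.lf 128056 0 0) P.nil)) (P.cons (P.cons (P.lf 322852 0 0) P.nil) P.nil)))))) 315710)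
 EL.nil)
noncomputable def S401_430_512_660_45 : EL := (EL.cons 14 (TM.mk (P.cons (P.cons (P.lf 887455452 0 0) (P.cons (P.lf 0 48003486 0) (P.cons (P.lf 4074918 0 0) (P.cons (P.lf 948862 0 0) (P.cons (P.lf 0 33664 0) (P.cons (P.lf 2856 0 0) P.nil)))))) (P.cons (P.cons (P.lf 516099060 0 0) (P.cons (P.lf 14625026 0 0) (P.cons (P.lf 0 2008524 0) (P.cons (P.lf 0 177300 0) (P.cons (P.lf 39166 0 0) P.nil))))) (P.cons (P.cons (P.lf 40414998 0 0) (P.cons (P.lf 5098032 0 0) (P.cons (P.lf 115660 0 0) (P.cons (P.lf 0 184782 0) P.nil)))) (P.cons (P.cons (P.lf 0 18263562 0) (P.cons (P.lf 0 2176722 0) (P.cons (P.lf 79308 0 0) P.nil))) (P.cons (P.cons (P.lf 0 972128 0) (P.cons (P.lf 0 7914 0) P.nil)) (P.cons (P.cons (P.lf 456876 0 0) P.nil) P.nil)))))) 531356)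
 EL.nil)
noncomputable def S401_430_512_660_46 : EL := (EL.cons 15 (TM.mk (P.lf 4294967296 0 0) 0)
 EL.nil)
noncomputable def S401_430_512_660_47 : EL := (EL.cons 15 (TM.mk (P.cons (P.cons (P.lf 2015326566 0 0) (P.cons (P.lf 0 36337112 0) (P.cons (P.lf 2429412 0 0) (P.lf 809804 0 0)))) (P.cons (P.cons (P.lf 390670557 0 0) (P.cons (P.lf 25158560 0 0) (P.cons (P.lf 0 1682040 0) (P.lf 0 560680 0)))) (P.cons (P.cons (P.lf 0 45138524 0) (P.cons (P.lf 0 6157176 0) (P.cons (P.lf 411652 0 0) (P.lf 137216 0 0)))) (P.cons (P.cons (P.lf 0 1218257 0) (P.cons (P.lf 561540 0 0) (P.cons (P.lf 0 37540 0) P.nil))) (P.cons (P.cons (P.lf 421655 0 0) (P.cons (P.lf 5660 0 0) P.nil)) (P.cons (P.cons (P.lf 0 22408 0) P.nil) P.nil)))))) 24741)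
 EL.nil)
noncomputable def S401_430_512_660_48 : EL := (EL.cons 15 (TM.mk (P.cons (P.cons (P.lf 945651244 0 0) (P.cons (P.lf 0 34100910 0) (P.cons (P.lf 2587331 0 0) (P.cons (P.lf 718860 0 0) (P.cons (P.lf 0 12328 0) (P.cons (P.lf 916 0 0) P.nil)))))) (P.cons (P.cons (P.lf 366628520 0 0) (P.cons (P.lf 16999838 0 0) (P.cons (P.lf 0 1562270 0) (P.cons (P.lf 0 321932 0) (P.cons (P.lf 17071 0 0) P.nil))))) (P.cons (P.cons (P.lf 0 6825255 0) (P.cons (P.lf 0 437632 0) (P.cons (P.lf 280812 0 0) (P.cons (P.lf 0 23885 0) P.nil)))) (P.cons (P.cons (P.lf 0 9354892 0) (P.cons (P.lf 0 1101332 0) (P.cons (P.lf 0 8000 0) P.nil))) (P.cons (P.cons (P.lf 648469 0 0) (P.cons (P.lf 215479 0 0) P.nil)) (P.cons (P.cons (P.lf 81285 0 0) P.nil) P.nil)))))) 176231)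
 EL.nil)
noncomputable def S401_430_512_660 : SL := (SL.cons S401_430_512_660_0 (SL.cons S401_430_512_660_1 (SL.cons S401_430_512_660_2 (SL.cons S401_430_512_660_3 (SL.cons S401_430_512_660_4 (SL.cons S401_430_512_660_5 (SL.cons S401_430_512_660_6 (SL.cons S401_430_512_660_7 (SL.cons S401_430_512_660_8 (SL.cons S401_430_512_660_9 (SL.cons S401_430_512_660_10 (SL.cons S401_430_512_660_11 (SL.cons S401_430_512_660_12 (SL.cons S401_430_512_660_13 (SL.cons S401_430_512_660_14 (SL.cons S401_430_512_660_15 (SL.cons S401_430_512_660_16 (SL.cons S401_430_512_660_17 (SL.cons S401_430_512_660_18 (SL.cons S401_430_512_660_19 (SL.cons S401_430_512_660_20 (SL.cons S401_430_512_660_21 (SL.cons S401_430_512_660_22 (SL.cons S401_430_512_660_23 (SL.cons S401_430_512_660_24 (SL.cons S401_430_512_660_25 (SL.cons S401_430_512_660_26 (SL.cons S401_430_512_660_27 (SL.cons S401_430_512_660_28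 (SL.cons S401_430_512_660_29 (SL.cons S401_430_512_660_30 (SL.cons S401_430_512_660_31 (SL.cons S401_430_512_660_32 (SL.cons S401_430_512_660_33 (SL.cons S401_430_512_660_34 (SL.cons S401_430_512_660_35 (SL.cons S401_430_512_660_36 (SL.cons S401_430_512_660_37 (SL.cons S401_430_512_660_38 (SL.cons S401_430_512_660_39 (SL.cons S401_430_512_660_40 (SL.cons S401_430_512_660_41 (SL.cons S401_430_512_660_42 (SL.cons S401_430_512_660_43 (SL.cons S401_430_512_660_44 (SL.cons S401_430_512_660_45 (SL.cons S401_430_512_660_46 (SL.cons S401_430_512_660_47 (SL.cons S401_430_512_660_48 SL.nil)))))))))))))))))))))))))))))))))))))))))))))))))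
noncomputable def S401_430_586_660_0 : EL := (EL.cons 0 (TM.mk (P.cons (P.lf 3141443055 0 0) (P.cons (P.lf 0 334885157 0) (P.cons (P.lf 43314278 0 0) (P.cons (P.lf 0 451103 0) (P.cons (P.lf 0 186969 0) (P.cons (P.lf 14783 0 0) P.nil)))))) 1615)
 (EL.cons 1 (TM.mk (P.cons (P.lf 1170850837 0 0) (P.cons (P.lf 0 233327645 0) (P.cons (P.lf 0 10098210 0) (P.cons (P.lf 2078180 0 0) (P.cons (P.lf 0 90420 0) (P.cons (P.lf 0 2872 0) P.nil)))))) 983)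
 (EL.cons 5 (TM.mk (P.cons (P.lf 6184486878 0 0) (P.cons (P.lf 119070280 0 0) (P.cons (P.lf 0 15400634 0) (P.cons (P.lf 160396 0 0) (P.cons (P.lf 66480 0 0) (P.cons (P.lf 0 5256 0) P.nil)))))) 413)
 (EL.cons 9 (TM.mk (P.lf 6442450944 0 0) 2)
 EL.nil))))
noncomputable def S401_430_586_660_1 : EL := (EL.cons 0 (TM.mk (P.cons (P.cons (P.lf 3620600102 0 0) (P.cons (P.lf 49626705 0 0) (P.cons (P.lf 0 2715356 0) (P.lf 0 301694 0)))) (P.cons (P.cons (P.lf 0 678957400 0) (P.cons (P.lf 0 29166863 0) (P.cons (P.lf 1595883 0 0) (P.lf 177309 0 0)))) (P.cons (P.cons (P.lf 0 27903851 0) (P.cons (P.lf 4141951 0 0) (P.cons (P.lf 0 226617 0) (P.lf 0 25168 0)))) (P.cons (P.cons (P.lf 28868087 0 0) (P.cons (P.lf 585046 0 0) (P.cons (P.lf 0 32016 0) P.nil))) (P.cons (P.cons (P.lf 0 2252289 0) (P.cons (P.lf 0 203720 0) P.nil)) (P.cons (P.cons (P.lf 0 172366 0) P.nil) P.nil))))))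 145974)
 (EL.cons 1 (TM.mk (P.cons (P.cons (P.lf 2049115859 0 0) (P.cons (P.lf 38523018 0 0) (P.cons (P.lf 0 2107826 0) (P.lf 0 234204 0)))) (P.cons (P.cons (P.lf 0 49105792 0) (P.cons (P.lf 0 8187153 0) (P.cons (P.lf 447972 0 0) (P.lf 49775 0 0)))) (P.cons (P.cons (P.lf 0 135404998 0) (P.cons (P.lf 0 3124587 0) (P.cons (P.lf 170959 0 0) (P.lf 18993 0 0)))) (P.cons (P.cons (P.lf 8431967 0 0) (P.cons (P.lf 954554 0 0) (P.cons (P.lf 0 52220 0) P.nil))) (P.cons (P.cons (P.lf 1611384 0 0) (P.cons (P.lf 0 38825 0) P.nil)) (P.cons (P.cons (P.lf 0 225900 0) P.nil) P.nil)))))) 57427)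
 (EL.cons 5 (TM.mk (P.cons (P.cons (P.lf 2109048727 0 0) (P.cons (P.lf 0 45950344 0) (P.cons (P.lf 2514212 0 0) (P.lf 279354 0 0)))) (P.cons (P.cons (P.lf 926097795 0 0) (P.cons (P.lf 29968046 0 0) (P.cons (P.lf 0 1639726 0) (P.lf 0 182190 0)))) (P.cons (P.cons (P.lf 0 71843626 0) (P.cons (P.lf 0 6268914 0) (P.cons (P.lf 343008 0 0) (P.lf 38114 0 0)))) (P.cons (P.cons (P.lf 0 11876539 0) (P.cons (P.lf 229408 0 0) (P.cons (P.lf 0 12554 0) P.nil))) (P.cons (P.cons (P.lf 1522254 0 0) (P.cons (P.lf 76840 0 0) P.nil)) (P.cons (P.cons (P.lf 19606 0 0) P.nil) P.nil)))))) 47842)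
 (EL.cons 9 (TM.mk (P.cons (P.cons (P.lf 2996799885 0 0) (P.cons (P.lf 0 24975252 0) (P.cons (P.lf 1366542 0 0) (P.lf 151836 0 0)))) (P.cons (P.cons (P.lf 604138861 0 0) (P.cons (P.lf 17292006 0 0) (P.cons (P.lf 0 946146 0) (P.lf 0 105126 0)))) (P.cons (P.cons (P.lf 0 72145578 0) (P.cons (P.lf 0 4231956 0) (P.cons (P.lf 231552 0 0) (P.lf 25728 0 0)))) (P.cons (P.cons (P.lf 0 1422655 0) (P.cons (P.lf 385956 0 0) (P.cons (P.lf 0 21114 0) P.nil))) (P.cons (P.cons (P.lf 636562 0 0) (P.cons (P.lf 3888 0 0) P.nil)) (P.cons (P.cons (P.lf 0 36762 0) P.nil) P.nil)))))) 12866)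
 (EL.cons 2 (TM.mk (P.cons (P.cons (P.lf 0 255294452 0) (P.cons (P.lf 32033314 0 0) (P.cons (P.lf 4890656 0 0) (P.cons (P.lf 0 149408 0) (P.lf 0 12448 0))))) (P.cons (P.cons (P.lf 109794209 0 0) (P.cons (P.lf 0 13776533 0) (P.cons (P.lf 0 2103316 0) (P.cons (P.lf 64254 0 0) (P.lf 5352 0 0))))) (P.cons (P.cons (P.lf 0 10361283 0) (P.cons (P.lf 1300089 0 0) (P.cons (P.lf 198486 0 0) (P.cons (P.lf 0 6060 0) P.nil)))) (P.cons (P.cons (P.lf 0 907810 0) (P.cons (P.lf 113909 0 0) (P.cons (P.lf 17389 0 0) P.nil))) (P.cons (P.cons (P.lf 162120 0 0) (P.cons (P.lf 0 20340 0) P.nil)) (P.cons (P.cons (P.lf 0 6398 0) P.nil) P.nil)))))) 7997)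
 (EL.cons 6 (TM.mk (P.cons (P.cons (P.lf 56246955 0 0) (P.cons (P.lf 0 7057638 0) (P.cons (P.lf 0 1077519 0) (P.cons (P.lf 32916 0 0) (P.lf 2742 0 0))))) (P.cons (P.cons (P.lf 0 38943450 0) (P.cons (P.lf 4886466 0 0) (P.cons (P.lf 746034 0 0) (P.cons (P.lf 0 22791 0) (P.lf 0 1896 0))))) (P.cons (P.cons (P.lf 9530823 0 0) (P.cons (P.lf 0 1195887 0) (P.cons (P.lf 0 182580 0) (P.cons (P.lf 5577 0 0) P.nil)))) (P.cons (P.cons (P.lf 0 869223 0) (P.cons (P.lf 109065 0 0) (P.cons (P.lf 16650 0 0) P.nil))) (P.cons (P.cons (P.lf 0 8760 0) (P.cons (P.lf 1098 0 0) P.nil)) (P.cons (P.cons (P.lf 6768 0 0) P.nil) P.nil)))))) 3768)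
 EL.nil))))))
noncomputable def S401_430_586_660_2 : EL := (EL.cons 0 (TM.mk (P.cons (P.cons (P.lf 2688610344 0 0) (P.cons (P.lf 29427291 0 0) (P.cons (P.lf 0 2042113 0) (P.cons (P.lf 0 131620 0) (P.cons (P.lf 3955 0 0) (P.cons (P.lf 0 283 0) P.nil)))))) (P.cons (P.cons (P.lf 0 154214375 0) (P.cons (P.lf 104612 0 0) (P.cons (P.lf 557220 0 0) (P.cons (P.lf 0 62242 0) (P.cons (P.lf 0 5148 0) P.nil))))) (P.cons (P.cons (P.lf 0 209441087 0) (P.cons (P.lf 0 10098744 0) (P.cons (P.lf 252428 0 0) (P.cons (P.lf 94233 0 0) P.nil)))) (P.cons (P.cons (P.lf 38249010 0 0) (P.cons (P.lf 3214737 0 0) (P.cons (P.lf 0 96363 0) P.nil))) (P.cons (P.cons (P.lf 3784535 0 0) (P.cons (P.lf 0 136037 0) P.nil)) (P.cons (P.cons (P.lf 0 1278404 0) P.nil) P.nil)))))) 650279)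
 (EL.cons 1 (TM.mk (P.cons (P.cons (P.lf 1653005727 0 0) (P.cons (P.lf 24174366 0 0) (P.cons (P.lf 0 1639006 0) (P.cons (P.lf 0 112362 0) (P.cons (P.lf 2904 0 0) (P.cons (P.lf 0 211 0) P.nil)))))) (P.cons (P.cons (P.lf 286966273 0 0) (P.cons (P.lf 8074971 0 0) (P.cons (P.lf 0 143671 0) (P.cons (P.lf 0 81705 0) (P.cons (P.lf 0 2734 0) P.nil))))) (P.cons (P.cons (P.lf 0 156631918 0) (P.cons (P.lf 0 6809985 0) (P.cons (P.lf 283170 0 0) (P.cons (P.lf 51186 0 0) P.nil)))) (P.cons (P.cons (P.lf 0 14603897 0) (P.cons (P.lf 154042 0 0) (P.cons (P.lf 0 9930 0) P.nil))) (P.cons (P.cons (P.lf 5617709 0 0) (P.cons (P.lf 369010 0 0) P.nil)) (P.cons (P.cons (P.lf 0 61712 0) P.nil) P.nil)))))) 308525)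
 (EL.cons 5 (TM.mk (P.cons (P.cons (P.lf 623922121 0 0) (P.cons (P.lf 0 36796266 0) (P.cons (P.lf 2276660 0 0) (P.cons (P.lf 194888 0 0) (P.cons (P.lf 0 2400 0) (P.cons (P.lf 169 0 0) P.nil)))))) (P.cons (P.cons (P.lf 691819497 0 0) (P.cons (P.lf 12886387 0 0) (P.cons (P.lf 0 1057194 0) (P.cons (P.lf 0 39814 0) (P.cons (P.lf 3216 0 0) P.nil))))) (P.cons (P.cons (P.lf 62606240 0 0) (P.cons (P.lf 3438071 0 0) (P.cons (P.lf 8385 0 0) (P.cons (P.lf 0 42397 0) P.nil)))) (P.cons (P.cons (P.lf 0 30434620 0) (P.cons (P.lf 0 2062017 0) (P.cons (P.lf 55403 0 0) P.nil))) (P.cons (P.cons (P.lf 0 61169 0) (P.cons (P.lf 227678 0 0) P.nil)) (P.cons (P.cons (P.lf 587182 0 0) P.nil) P.nil)))))) 229907)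
 (EL.cons 9 (TM.mk (P.cons (P.cons (P.lf 1394005111 0 0) (P.cons (P.lf 0 23235204 0) (P.cons (P.lf 1368154 0 0) (P.cons (P.lf 130662 0 0) (P.cons (P.lf 0 886 0) (P.cons (P.lf 63 0 0) P.nil)))))) (P.cons (P.cons (P.lf 562047979 0 0) (P.cons (P.lf 11403163 0 0) (P.cons (P.lf 0 758002 0) (P.cons (P.lf 0 54652 0) (P.cons (P.lf 1228 0 0) P.nil))))) (P.cons (P.cons (P.lf 0 10466196 0) (P.cons (P.lf 0 134637 0) (P.cons (P.lf 86587 0 0) (P.cons (P.lf 0 7851 0) P.nil)))) (P.cons (P.cons (P.lf 0 14854396 0) (P.cons (P.lf 0 810891 0) (P.cons (P.lf 18661 0 0) P.nil))) (P.cons (P.cons (P.lf 1133313 0 0) (P.cons (P.lf 158212 0 0) P.nil)) (P.cons (P.cons (P.lf 117048 0 0) P.nil) P.nil)))))) 83215)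
 (EL.cons 2 (TM.mk (P.cons (P.cons (P.lf 0 237507862 0) (P.cons (P.lf 31780912 0 0) (P.cons (P.lf 4193251 0 0) (P.cons (P.lf 0 175359 0) (P.cons (P.lf 0 6834 0) (P.cons (P.lf 258 0 0) P.nil)))))) (P.cons (P.cons (P.lf 54264431 0 0) (P.cons (P.lf 0 9030611 0) (P.cons (P.lf 0 639196 0) (P.cons (P.lf 72568 0 0) (P.cons (P.lf 0 2677 0) P.nil))))) (P.cons (P.cons (P.lf 16670244 0 0) (P.cons (P.lf 0 1086586 0) (P.cons (P.lf 0 500461 0) (P.cons (P.lf 0 8707 0) P.nil)))) (P.cons (P.cons (P.lf 0 5134117 0) (P.cons (P.lf 420789 0 0) (P.cons (P.lf 138611 0 0) P.nil))) (P.cons (P.cons (P.lf 113686 0 0) (P.cons (P.lf 6063 0 0) P.nil)) (P.cons (P.cons (P.lf 73968 0 0) P.nil) P.nil)))))) 67972)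
 (EL.cons 6 (TM.mk (P.cons (P.cons (P.lf 52328178 0 0) (P.cons (P.lf 0 7002030 0) (P.cons (P.lf 0 923862 0) (P.cons (P.lf 38634 0 0) (P.cons (P.lf 1506 0 0) (P.cons (P.lf 0 54 0) P.nil)))))) (P.cons (P.cons (P.lf 0 25681140 0) (P.cons (P.lf 3826248 0 0) (P.cons (P.lf 383154 0 0) (P.cons (P.lf 0 26118 0) (P.cons (P.lf 192 0 0) P.nil))))) (P.cons (P.cons (P.lf 303222 0 0) (P.cons (P.lf 0 394890 0) (P.cons (P.lf 58488 0 0) (P.cons (P.lf 6732 0 0) P.nil)))) (P.cons (P.cons (P.lf 1826202 0 0) (P.cons (P.lf 0 113340 0) (P.cons (P.lf 0 55848 0) P.nil))) (P.cons (P.cons (P.lf 0 356316 0) (P.cons (P.lf 22986 0 0) P.nil)) (P.cons (P.cons (P.lf 11574 0 0) P.nil) P.nil)))))) 28644)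
 EL.nil))))))
noncomputable def S401_430_586_660_3 : EL := (EL.cons 0 (TM.mk (P.cons (P.lf 5314273808 0 0) (P.cons (P.lf 334885157 0 0) (P.cons (P.lf 0 43314278 0) (P.cons (P.lf 451103 0 0) (P.cons (P.lf 186969 0 0) (P.cons (P.lf 0 14783 0) P.nil)))))) 1615)
 (EL.cons 1 (TM.mk (P.cons (P.lf 0 1170850837 0) (P.cons (P.lf 233327645 0 0) (P.cons (P.lf 10098210 0 0) (P.cons (P.lf 0 2078180 0) (P.cons (P.lf 90420 0 0) (P.cons (P.lf 2872 0 0) P.nil)))))) 983)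
 (EL.cons 5 (TM.mk (P.cons (P.lf 257964066 0 0) (P.cons (P.lf 0 119070280 0) (P.cons (P.lf 15400634 0 0) (P.cons (P.lf 0 160396 0) (P.cons (P.lf 0 66480 0) (P.cons (P.lf 5256 0 0) P.nil)))))) 406)
 EL.nil)))
noncomputable def S401_430_586_660_4 : EL := (EL.cons 0 (TM.mk (P.cons (P.cons (P.lf 2472011859 0 0) (P.cons (P.lf 0 20601682 0) (P.cons (P.lf 1127237 0 0) (P.lf 125245 0 0)))) (P.cons (P.cons (P.lf 654121103 0 0) (P.cons (P.lf 12965656 0 0) (P.cons (P.lf 0 709425 0) (P.lf 0 78823 0)))) (P.cons (P.cons (P.lf 0 48256236 0) (P.cons (P.lf 0 2424100 0) (P.cons (P.lf 132633 0 0) (P.lf 14735 0 0)))) (P.cons (P.cons (P.lf 0 8775671 0) (P.cons (P.lf 0 19618 0) (P.cons (P.lf 1075 0 0) P.nil))) (P.cons (P.cons (P.lf 1065466 0 0) (P.cons (P.lf 52207 0 0) P.nil)) (P.cons (P.cons (P.lf 17933 0 0) P.nil) P.nil)))))) 31726)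
 (EL.cons 1 (TM.mk (P.cons (P.cons (P.lf 0 544638318 0) (P.cons (P.lf 4539000 0 0) (P.cons (P.lf 0 248355 0) (P.lf 0 27594 0)))) (P.cons (P.cons (P.lf 0 1260423 0) (P.cons (P.lf 0 4047181 0) (P.cons (P.lf 221443 0 0) (P.lf 24603 0 0)))) (P.cons (P.cons (P.lf 39689293 0 0) (P.cons (P.lf 1356234 0 0) (P.cons (P.lf 0 74205 0) (P.lf 0 8244 0)))) (P.cons (P.cons (P.lf 0 2374096 0) (P.cons (P.lf 0 188251 0) (P.cons (P.lf 10299 0 0) P.nil))) (P.cons (P.cons (P.lf 0 433117 0) (P.cons (P.lf 708 0 0) P.nil)) (P.cons (P.cons (P.lf 60592 0 0) P.nil) P.nil)))))) 12461)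
 (EL.cons 5 (TM.mk (P.cons (P.cons (P.lf 119995742 0 0) (P.cons (P.lf 0 1000040 0) (P.cons (P.lf 54718 0 0) (P.lf 6078 0 0)))) (P.cons (P.cons (P.lf 0 31196774 0) (P.cons (P.lf 1153990 0 0) (P.cons (P.lf 0 63140 0) (P.lf 0 7014 0)))) (P.cons (P.cons (P.lf 0 6890750 0) (P.cons (P.lf 0 548748 0) (P.cons (P.lf 30024 0 0) (P.lf 3334 0 0)))) (P.cons (P.cons (P.lf 2646018 0 0) (P.cons (P.lf 135626 0 0) (P.cons (P.lf 0 7420 0) P.nil))) (P.cons (P.cons (P.lf 0 166646 0) (P.cons (P.lf 0 17266 0) P.nil)) (P.cons (P.cons (P.lf 0 18628 0) P.nil) P.nil)))))) 8072)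
 EL.nil)))
noncomputable def S401_430_586_660_5 : EL := (EL.cons 0 (TM.mk (P.cons (P.cons (P.lf 1149892317 0 0) (P.cons (P.lf 0 19166343 0) (P.cons (P.lf 1128568 0 0) (P.cons (P.lf 107780 0 0) (P.cons (P.lf 0 731 0) (P.cons (P.lf 50 0 0) P.nil)))))) (P.cons (P.cons (P.lf 536086110 0 0) (P.cons (P.lf 8198495 0 0) (P.cons (P.lf 0 554145 0) (P.cons (P.lf 0 38288 0) (P.cons (P.lf 966 0 0) P.nil))))) (P.cons (P.cons (P.lf 11210167 0 0) (P.cons (P.lf 637903 0 0) (P.cons (P.lf 22823 0 0) (P.cons (P.lf 0 10195 0) P.nil)))) (P.cons (P.cons (P.lf 0 16478381 0) (P.cons (P.lf 0 754182 0) (P.cons (P.lf 25085 0 0) P.nil))) (P.cons (P.cons (P.lf 312881 0 0) (P.cons (P.lf 89384 0 0) P.nil)) (P.cons (P.cons (P.lf 267711 0 0) P.nil) P.nil)))))) 109820)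
 (EL.cons 1 (TM.mk (P.cons (P.cons (P.lf 0 253346445 0) (P.cons (P.lf 4222764 0 0) (P.cons (P.lf 0 248647 0) (P.cons (P.lf 0 23745 0) (P.cons (P.lf 159 0 0) (P.cons (P.lf 0 11 0) P.nil)))))) (P.cons (P.cons (P.lf 0 51659595 0) (P.cons (P.lf 0 2913924 0) (P.cons (P.lf 187308 0 0) (P.cons (P.lf 14664 0 0) (P.cons (P.lf 0 255 0) P.nil))))) (P.cons (P.cons (P.lf 24442970 0 0) (P.cons (P.lf 401038 0 0) (P.cons (P.lf 0 41043 0) (P.cons (P.lf 0 346 0) P.nil)))) (P.cons (P.cons (P.lf 2751888 0 0) (P.cons (P.lf 167863 0 0) (P.cons (P.lf 0 1884 0) P.nil))) (P.cons (P.cons (P.lf 0 922095 0) (P.cons (P.lf 0 62336 0) P.nil)) (P.cons (P.cons (P.lf 8375 0 0) P.nil) P.nil)))))) 44626)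
 (EL.cons 5 (TM.mk (P.cons (P.cons (P.lf 55817766 0 0) (P.cons (P.lf 0 930366 0) (P.cons (P.lf 54782 0 0) (P.cons (P.lf 5230 0 0) (P.cons (P.lf 0 34 0) (P.cons (P.lf 2 0 0) P.nil)))))) (P.cons (P.cons (P.lf 0 3259070 0) (P.cons (P.lf 886032 0 0) (P.cons (P.lf 0 55636 0) (P.cons (P.lf 0 4602 0) (P.cons (P.lf 64 0 0) P.nil))))) (P.cons (P.cons (P.lf 0 7474568 0) (P.cons (P.lf 0 271688 0) (P.cons (P.lf 20746 0 0) (P.cons (P.lf 1006 0 0) P.nil)))) (P.cons (P.cons (P.lf 907512 0 0) (P.cons (P.lf 0 2142 0) (P.cons (P.lf 0 2698 0) P.nil))) (P.cons (P.cons (P.lf 266522 0 0) (P.cons (P.lf 20954 0 0) P.nil)) (P.cons (P.cons (P.lf 0 56170 0) P.nil) P.nil)))))) 16252)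
 EL.nil)))
noncomputable def S401_430_586_660_6 : EL := (EL.cons 12 (TM.mk (P.lf 8589934592 0 0) 0)
 (EL.cons 3 (TM.mk (P.cons (P.lf 3378211968 0 0) (P.cons (P.lf 106440982 0 0) (P.cons (P.lf 0 15444026 0) (P.cons (P.lf 629992 0 0) (P.cons (P.lf 4275 0 0) (P.cons (P.lf 0 1953 0) P.nil)))))) 352)
 (EL.cons 7 (TM.mk (P.cons (P.lf 0 744294039 0) (P.cons (P.lf 171774507 0 0) (P.cons (P.lf 0 2395646 0) (P.cons (P.lf 0 321494 0) (P.cons (P.lf 25565 0 0) (P.cons (P.lf 0 650 0) P.nil)))))) 203)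
 EL.nil)))
noncomputable def S401_430_586_660_7 : EL := (EL.cons 12 (TM.mk (P.cons (P.cons (P.lf 3995733180 0 0) (P.cons (P.lf 0 33300336 0) (P.cons (P.lf 1822056 0 0) (P.lf 202448 0 0)))) (P.cons (P.cons (P.lf 805518482 0 0) (P.cons (P.lf 23056008 0 0) (P.cons (P.lf 0 1261528 0) (P.lf 0 140168 0)))) (P.cons (P.cons (P.lf 0 96194104 0) (P.cons (P.lf 0 5642608 0) (P.cons (P.lf 308736 0 0) (P.lf 34304 0 0)))) (P.cons (P.cons (P.lf 0 1896874 0) (P.cons (P.lf 514608 0 0) (P.cons (P.lf 0 28152 0) P.nil))) (P.cons (P.cons (P.lf 848750 0 0) (P.cons (P.lf 5184 0 0) P.nil)) (P.cons (P.cons (P.lf 0 49016 0) P.nil) P.nil)))))) 17130)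
 (EL.cons 3 (TM.mk (P.cons (P.cons (P.lf 2944069997 0 0) (P.cons (P.lf 26192420 0 0) (P.cons (P.lf 0 1433138 0) (P.lf 0 159234 0)))) (P.cons (P.cons (P.lf 0 196790472 0) (P.cons (P.lf 0 17309458 0) (P.cons (P.lf 947100 0 0) (P.lf 105230 0 0)))) (P.cons (P.cons (P.lf 763830 0 0) (P.cons (P.lf 3747064 0 0) (P.cons (P.lf 0 205020 0) (P.lf 0 22778 0)))) (P.cons (P.cons (P.lf 6908126 0 0) (P.cons (P.lf 0 177134 0) (P.cons (P.lf 9688 0 0) P.nil))) (P.cons (P.cons (P.lf 0 789452 0) (P.cons (P.lf 0 40468 0) P.nil)) (P.cons (P.cons (P.lf 2167 0 0) P.nil) P.nil)))))) 55280)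
 (EL.cons 7 (TM.mk (P.cons (P.cons (P.lf 1868956677 0 0) (P.cons (P.lf 66289412 0 0) (P.cons (P.lf 0 3627091 0) (P.lf 0 403011 0)))) (P.cons (P.cons (P.lf 0 317580564 0) (P.cons (P.lf 0 27934014 0) (P.cons (P.lf 1528437 0 0) (P.lf 169826 0 0)))) (P.cons (P.cons (P.lf 0 40417467 0) (P.cons (P.lf 2383526 0 0) (P.cons (P.lf 0 130417 0) (P.lf 0 14492 0)))) (P.cons (P.cons (P.lf 5780319 0 0) (P.cons (P.lf 280413 0 0) (P.cons (P.lf 0 15341 0) P.nil))) (P.cons (P.cons (P.lf 71662 0 0) (P.cons (P.lf 0 39476 0) P.nil)) (P.cons (P.cons (P.lf 0 52300 0) P.nil) P.nil)))))) 27228)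
 (EL.cons 10 (TM.mk (P.cons (P.cons (P.lf 0 324574461 0) (P.cons (P.lf 40726293 0 0) (P.cons (P.lf 6217851 0 0) (P.cons (P.lf 0 189954 0) (P.lf 0 15828 0))))) (P.cons (P.cons (P.lf 149816106 0 0) (P.cons (P.lf 0 18798321 0) (P.cons (P.lf 0 2870016 0) (P.cons (P.lf 87678 0 0) (P.lf 7305 0 0))))) (P.cons (P.cons (P.lf 0 19377318 0) (P.cons (P.lf 2431386 0 0) (P.cons (P.lf 371208 0 0) (P.cons (P.lf 0 11340 0) P.nil)))) (P.cons (P.cons (P.lf 201810 0 0) (P.cons (P.lf 0 25320 0) (P.cons (P.lf 0 3864 0) P.nil))) (P.cons (P.cons (P.lf 83646 0 0) (P.cons (P.lf 0 10494 0) P.nil)) (P.cons (P.cons (P.lf 0 6612 0) P.nil) P.nil)))))) 4371)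
 EL.nil))))
noncomputable def S401_430_586_660_8 : EL := (EL.cons 12 (TM.mk (P.cons (P.cons (P.lf 1858673482 0 0) (P.cons (P.lf 0 30980272 0) (P.cons (P.lf 1824206 0 0) (P.cons (P.lf 174216 0 0) (P.cons (P.lf 0 1182 0) (P.cons (P.lf 84 0 0) P.nil)))))) (P.cons (P.cons (P.lf 749397306 0 0) (P.cons (P.lf 15204218 0 0) (P.cons (P.lf 0 1010670 0) (P.cons (P.lf 0 72870 0) (P.cons (P.lf 1638 0 0) P.nil))))) (P.cons (P.cons (P.lf 0 13954928 0) (P.cons (P.lf 0 179516 0) (P.cons (P.lf 115450 0 0) (P.cons (P.lf 0 10468 0) P.nil)))) (P.cons (P.cons (P.lf 0 19805862 0) (P.cons (P.lf 0 1081188 0) (P.cons (P.lf 24882 0 0) P.nil))) (P.cons (P.cons (P.lf 1511084 0 0) (P.cons (P.lf 210950 0 0) P.nil)) (P.cons (P.cons (P.lf 156064 0 0) P.nil) P.nil)))))) 110924)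
 (EL.cons 3 (TM.mk (P.cons (P.cons (P.lf 2007983078 0 0) (P.cons (P.lf 13724983 0 0) (P.cons (P.lf 0 1004819 0) (P.cons (P.lf 0 55656 0) (P.cons (P.lf 2326 0 0) (P.cons (P.lf 0 166 0) P.nil)))))) (P.cons (P.cons (P.lf 51327422 0 0) (P.cons (P.lf 543302 0 0) (P.cons (P.lf 313784 0 0) (P.cons (P.lf 0 40892 0) (P.cons (P.lf 0 3145 0) P.nil))))) (P.cons (P.cons (P.lf 0 102591634 0) (P.cons (P.lf 0 5450665 0) (P.cons (P.lf 102757 0 0) (P.cons (P.lf 54530 0 0) P.nil)))) (P.cons (P.cons (P.lf 18850465 0 0) (P.cons (P.lf 1932938 0 0) (P.cons (P.lf 0 46552 0) P.nil))) (P.cons (P.cons (P.lf 782932 0 0) (P.cons (P.lf 0 190783 0) P.nil)) (P.cons (P.cons (P.lf 0 488226 0) P.nil) P.nil)))))) 295723)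
 (EL.cons 7 (TM.mk (P.cons (P.cons (P.lf 1899793742 0 0) (P.cons (P.lf 44495960 0 0) (P.cons (P.lf 0 2937418 0) (P.cons (P.lf 0 215495 0) (P.cons (P.lf 4602 0 0) (P.cons (P.lf 0 331 0) P.nil)))))) (P.cons (P.cons (P.lf 82832190 0 0) (P.cons (P.lf 876773 0 0) (P.cons (P.lf 506388 0 0) (P.cons (P.lf 0 65989 0) (P.cons (P.lf 0 5079 0) P.nil))))) (P.cons (P.cons (P.lf 0 154699110 0) (P.cons (P.lf 0 8681286 0) (P.cons (P.lf 232240 0 0) (P.cons (P.lf 79340 0 0) P.nil)))) (P.cons (P.cons (P.lf 2926232 0 0) (P.cons (P.lf 1596629 0 0) (P.cons (P.lf 0 37218 0) P.nil))) (P.cons (P.cons (P.lf 3111198 0 0) (P.cons (P.lf 76202 0 0) P.nil)) (P.cons (P.cons (P.lf 0 255742 0) P.nil) P.nil)))))) 201151)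
 (EL.cons 10 (TM.mk (P.cons (P.cons (P.lf 0 301961070 0) (P.cons (P.lf 40405392 0 0) (P.cons (P.lf 5331186 0 0) (P.cons (P.lf 0 222948 0) (P.cons (P.lf 0 8694 0) (P.cons (P.lf 330 0 0) P.nil)))))) (P.cons (P.cons (P.lf 78504546 0 0) (P.cons (P.lf 0 12754368 0) (P.cons (P.lf 0 980634 0) (P.cons (P.lf 99288 0 0) (P.cons (P.lf 0 3126 0) P.nil))))) (P.cons (P.cons (P.lf 17340108 0 0) (P.cons (P.lf 0 794874 0) (P.cons (P.lf 0 581004 0) (P.cons (P.lf 0 15216 0) P.nil)))) (P.cons (P.cons (P.lf 0 6658524 0) (P.cons (P.lf 494184 0 0) (P.cons (P.lf 189054 0 0) P.nil))) (P.cons (P.cons (P.lf 419352 0 0) (P.cons (P.lf 0 9162 0) P.nil)) (P.cons (P.cons (P.lf 46884 0 0) P.nil) P.nil)))))) 73938)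
 EL.nil))))
noncomputable def S401_430_586_660_9 : EL := (EL.cons 3 (TM.mk (P.cons (P.lf 3378211968 0 0) (P.cons (P.lf 106440982 0 0) (P.cons (P.lf 0 15444026 0) (P.cons (P.lf 629992 0 0) (P.cons (P.lf 4275 0 0) (P.cons (P.lf 0 1953 0) P.nil)))))) 352)
 (EL.cons 7 (TM.mk (P.cons (P.lf 0 744294039 0) (P.cons (P.lf 171774507 0 0) (P.cons (P.lf 0 2395646 0) (P.cons (P.lf 0 321494 0) (P.cons (P.lf 25565 0 0) (P.cons (P.lf 0 650 0) P.nil)))))) 203)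
 EL.nil))
noncomputable def S401_430_586_660_10 : EL := (EL.cons 3 (TM.mk (P.cons (P.cons (P.lf 1571424497 0 0) (P.cons (P.lf 0 13096210 0) (P.cons (P.lf 716569 0 0) (P.lf 79617 0 0)))) (P.cons (P.cons (P.lf 366303363 0 0) (P.cons (P.lf 8654729 0 0) (P.cons (P.lf 0 473550 0) (P.lf 0 52615 0)))) (P.cons (P.cons (P.lf 0 35033340 0) (P.cons (P.lf 0 1873532 0) (P.cons (P.lf 102510 0 0) (P.lf 11389 0 0)))) (P.cons (P.cons (P.lf 0 3093178 0) (P.cons (P.lf 88567 0 0) (P.cons (P.lf 0 4844 0) P.nil))) (P.cons (P.cons (P.lf 544303 0 0) (P.cons (P.lf 20234 0 0) P.nil)) (P.cons (P.cons (P.lf 0 12911 0) P.nil) P.nil)))))) 13219)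
 (EL.cons 7 (TM.mk (P.cons (P.cons (P.lf 0 346219212 0) (P.cons (P.lf 2885381 0 0) (P.cons (P.lf 0 157876 0) (P.lf 0 17541 0)))) (P.cons (P.cons (P.lf 10107468 0 0) (P.cons (P.lf 0 2663652 0) (P.cons (P.lf 145743 0 0) (P.lf 16193 0 0)))) (P.cons (P.cons (P.lf 23328684 0 0) (P.cons (P.lf 959258 0 0) (P.cons (P.lf 0 52486 0) (P.lf 0 5831 0)))) (P.cons (P.cons (P.lf 0 2133450 0) (P.cons (P.lf 0 162609 0) (P.cons (P.lf 8896 0 0) P.nil))) (P.cons (P.cons (P.lf 0 102902 0) (P.cons (P.lf 10453 0 0) P.nil)) (P.cons (P.cons (P.lf 27443 0 0) P.nil) P.nil)))))) 5714)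
 EL.nil))
noncomputable def S401_430_586_660_11 : EL := (EL.cons 3 (TM.mk (P.cons (P.cons (P.lf 730970990 0 0) (P.cons (P.lf 0 12183785 0) (P.cons (P.lf 717415 0 0) (P.cons (P.lf 68514 0 0) (P.cons (P.lf 0 464 0) (P.cons (P.lf 32 0 0) P.nil)))))) (P.cons (P.cons (P.lf 317751194 0 0) (P.cons (P.lf 5595560 0 0) (P.cons (P.lf 0 374866 0) (P.cons (P.lf 0 26498 0) (P.cons (P.lf 629 0 0) P.nil))))) (P.cons (P.cons (P.lf 456170 0 0) (P.cons (P.lf 173501 0 0) (P.cons (P.lf 29599 0 0) (P.cons (P.lf 0 5332 0) P.nil)))) (P.cons (P.cons (P.lf 0 9173123 0) (P.cons (P.lf 0 457036 0) (P.cons (P.lf 13166 0 0) P.nil))) (P.cons (P.cons (P.lf 429826 0 0) (P.cons (P.lf 70985 0 0) P.nil)) (P.cons (P.cons (P.lf 114636 0 0) P.nil) P.nil)))))) 58095)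
 (EL.cons 7 (TM.mk (P.cons (P.cons (P.lf 0 161048908 0) (P.cons (P.lf 2684354 0 0) (P.cons (P.lf 0 158062 0) (P.cons (P.lf 0 15095 0) (P.cons (P.lf 102 0 0) (P.cons (P.lf 0 7 0) P.nil)))))) (P.cons (P.cons (P.lf 0 27764964 0) (P.cons (P.lf 0 1936921 0) (P.cons (P.lf 124050 0 0) (P.cons (P.lf 9797 0 0) (P.cons (P.lf 0 165 0) P.nil))))) (P.cons (P.cons (P.lf 15676626 0 0) (P.cons (P.lf 328236 0 0) (P.cons (P.lf 0 30722 0) (P.cons (P.lf 0 598 0) P.nil)))) (P.cons (P.cons (P.lf 1158500 0 0) (P.cons (P.lf 87011 0 0) (P.cons (P.lf 366 0 0) P.nil))) (P.cons (P.cons (P.lf 0 545616 0) (P.cons (P.lf 0 40510 0) P.nil)) (P.cons (P.cons (P.lf 24830 0 0) P.nil) P.nil)))))) 22059)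
 EL.nil))
noncomputable def S401_430_586_660_12 : EL := (EL.cons 4 (TM.mk (P.cons (P.lf 0 3378211968 0) (P.cons (P.lf 0 106440982 0) (P.cons (P.lf 15444026 0 0) (P.cons (P.lf 0 629992 0) (P.cons (P.lf 0 4275 0) (P.cons (P.lf 1953 0 0) P.nil)))))) 352)
 (EL.cons 8 (TM.mk (P.cons (P.lf 744294039 0 0) (P.cons (P.lf 0 171774507 0) (P.cons (P.lf 2395646 0 0) (P.cons (P.lf 321494 0 0) (P.cons (P.lf 0 25565 0) (P.cons (P.lf 650 0 0) P.nil)))))) 203)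
 EL.nil))
noncomputable def S401_430_586_660_13 : EL := (EL.cons 4 (TM.mk (P.cons (P.cons (P.lf 0 1571424497 0) (P.cons (P.lf 13096210 0 0) (P.cons (P.lf 0 716569 0) (P.lf 0 79617 0)))) (P.cons (P.cons (P.lf 0 366303363 0) (P.cons (P.lf 0 8654729 0) (P.cons (P.lf 473550 0 0) (P.lf 52615 0 0)))) (P.cons (P.cons (P.lf 35033340 0 0) (P.cons (P.lf 1873532 0 0) (P.cons (P.lf 0 102510 0) (P.lf 0 11389 0)))) (P.cons (P.cons (P.lf 3093178 0 0) (P.cons (P.lf 0 88567 0) (P.cons (P.lf 4844 0 0) P.nil))) (P.cons (P.cons (P.lf 0 544303 0) (P.cons (P.lf 0 20234 0) P.nil)) (P.cons (P.cons (P.lf 12911 0 0) P.nil) P.nil)))))) 13219)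
 (EL.cons 8 (TM.mk (P.cons (P.cons (P.lf 346219212 0 0) (P.cons (P.lf 0 2885381 0) (P.cons (P.lf 157876 0 0) (P.lf 17541 0 0)))) (P.cons (P.cons (P.lf 0 10107468 0) (P.cons (P.lf 2663652 0 0) (P.cons (P.lf 0 145743 0) (P.lf 0 16193 0)))) (P.cons (P.cons (P.lf 0 23328684 0) (P.cons (P.lf 0 959258 0) (P.cons (P.lf 52486 0 0) (P.lf 5831 0 0)))) (P.cons (P.cons (P.lf 2133450 0 0) (P.cons (P.lf 162609 0 0) (P.cons (P.lf 0 8896 0) P.nil))) (P.cons (P.cons (P.lf 102902 0 0) (P.cons (P.lf 0 10453 0) P.nil)) (P.cons (P.cons (P.lf 0 27443 0) P.nil) P.nil)))))) 5714)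
 EL.nil))
noncomputable def S401_430_586_660_14 : EL := (EL.cons 4 (TM.mk (P.cons (P.cons (P.lf 0 730970990 0) (P.cons (P.lf 12183785 0 0) (P.cons (P.lf 0 717415 0) (P.cons (P.lf 0 68514 0) (P.cons (P.lf 464 0 0) (P.cons (P.lf 0 32 0) P.nil)))))) (P.cons (P.cons (P.lf 0 317751194 0) (P.cons (P.lf 0 5595560 0) (P.cons (P.lf 374866 0 0) (P.cons (P.lf 26498 0 0) (P.cons (P.lf 0 629 0) P.nil))))) (P.cons (P.cons (P.lf 0 456170 0) (P.cons (P.lf 0 173501 0) (P.cons (P.lf 0 29599 0) (P.cons (P.lf 5332 0 0) P.nil)))) (P.cons (P.cons (P.lf 9173123 0 0) (P.cons (P.lf 457036 0 0) (P.cons (P.lf 0 13166 0) P.nil))) (P.cons (P.cons (P.lf 0 429826 0) (P.cons (P.lf 0 70985 0) P.nil)) (P.cons (P.cons (P.lf 0 114636 0) P.nil) P.nil)))))) 58095)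
 (EL.cons 8 (TM.mk (P.cons (P.cons (P.lf 161048908 0 0) (P.cons (P.lf 0 2684354 0) (P.cons (P.lf 158062 0 0) (P.cons (P.lf 15095 0 0) (P.cons (P.lf 0 102 0) (P.cons (P.lf 7 0 0) P.nil)))))) (P.cons (P.cons (P.lf 27764964 0 0) (P.cons (P.lf 1936921 0 0) (P.cons (P.lf 0 124050 0) (P.cons (P.lf 0 9797 0) (P.cons (P.lf 165 0 0) P.nil))))) (P.cons (P.cons (P.lf 0 15676626 0) (P.cons (P.lf 0 328236 0) (P.cons (P.lf 30722 0 0) (P.cons (P.lf 598 0 0) P.nil)))) (P.cons (P.cons (P.lf 0 1158500 0) (P.cons (P.lf 0 87011 0) (P.cons (P.lf 0 366 0) P.nil))) (P.cons (P.cons (P.lf 545616 0 0) (P.cons (P.lf 40510 0 0) P.nil)) (P.cons (P.cons (P.lf 0 24830 0) P.nil) P.nil)))))) 22059)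
 EL.nil))
noncomputable def S401_430_586_660_15 : EL := (EL.cons 4 (TM.mk (P.cons (P.lf 0 2834279364 0) (P.cons (P.lf 0 178605417 0) (P.cons (P.lf 23100948 0 0) (P.cons (P.lf 0 240588 0) (P.cons (P.lf 0 99717 0) (P.cons (P.lf 7884 0 0) P.nil)))))) 864)
 (EL.cons 8 (TM.mk (P.cons (P.lf 624453780 0 0) (P.cons (P.lf 0 124441411 0) (P.cons (P.lf 0 5385712 0) (P.cons (P.lf 1108363 0 0) (P.cons (P.lf 0 48224 0) (P.cons (P.lf 0 1532 0) P.nil)))))) 521)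
 EL.nil))
noncomputable def S401_430_586_660_16 : EL := (EL.cons 4 (TM.mk (P.cons (P.cons (P.lf 0 1318406325 0) (P.cons (P.lf 10987563 0 0) (P.cons (P.lf 0 601193 0) (P.lf 0 66797 0)))) (P.cons (P.cons (P.lf 0 348864588 0) (P.cons (P.lf 0 6915016 0) (P.cons (P.lf 378360 0 0) (P.lf 42039 0 0)))) (P.cons (P.cons (P.lf 25736659 0 0) (P.cons (P.lf 1292853 0 0) (P.cons (P.lf 0 70738 0) (P.lf 0 7859 0)))) (P.cons (P.cons (P.lf 4680358 0 0) (P.cons (P.lf 10463 0 0) (P.cons (P.lf 0 573 0) P.nil))) (P.cons (P.cons (P.lf 0 568248 0) (P.cons (P.lf 0 27843 0) P.nil)) (P.cons (P.cons (P.lf 0 9564 0) P.nil) P.nil)))))) 16929)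
 (EL.cons 8 (TM.mk (P.cons (P.cons (P.lf 290473770 0 0) (P.cons (P.lf 0 2420800 0) (P.cons (P.lf 132456 0 0) (P.lf 14717 0 0)))) (P.cons (P.cons (P.lf 672226 0 0) (P.cons (P.lf 2158497 0 0) (P.cons (P.lf 0 118103 0) (P.lf 0 13122 0)))) (P.cons (P.cons (P.lf 0 21167623 0) (P.cons (P.lf 0 723325 0) (P.cons (P.lf 39576 0 0) (P.lf 4397 0 0)))) (P.cons (P.cons (P.lf 1266185 0 0) (P.cons (P.lf 100401 0 0) (P.cons (P.lf 0 5493 0) P.nil))) (P.cons (P.cons (P.lf 230996 0 0) (P.cons (P.lf 0 378 0) P.nil)) (P.cons (P.cons (P.lf 0 32316 0) P.nil) P.nil)))))) 6636)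
 EL.nil))
noncomputable def S401_430_586_660_17 : EL := (EL.cons 4 (TM.mk (P.cons (P.cons (P.lf 0 613275902 0) (P.cons (P.lf 10222050 0 0) (P.cons (P.lf 0 601903 0) (P.cons (P.lf 0 57482 0) (P.cons (P.lf 390 0 0) (P.cons (P.lf 0 27 0) P.nil)))))) (P.cons (P.cons (P.lf 0 285912592 0) (P.cons (P.lf 0 4372530 0) (P.cons (P.lf 295544 0 0) (P.cons (P.lf 20420 0 0) (P.cons (P.lf 0 515 0) P.nil))))) (P.cons (P.cons (P.lf 0 5978756 0) (P.cons (P.lf 0 340215 0) (P.cons (P.lf 0 12172 0) (P.cons (P.lf 5437 0 0) P.nil)))) (P.cons (P.cons (P.lf 8788470 0 0) (P.cons (P.lf 402230 0 0) (P.cons (P.lf 0 13379 0) P.nil))) (P.cons (P.cons (P.lf 0 166870 0) (P.cons (P.lf 0 47671 0) P.nil)) (P.cons (P.cons (P.lf 0 142779 0) P.nil) P.nil)))))) 58581)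
 (EL.cons 8 (TM.mk (P.cons (P.cons (P.lf 135118104 0 0) (P.cons (P.lf 0 2252141 0) (P.cons (P.lf 132612 0 0) (P.cons (P.lf 12664 0 0) (P.cons (P.lf 0 85 0) (P.cons (P.lf 6 0 0) P.nil)))))) (P.cons (P.cons (P.lf 27551784 0 0) (P.cons (P.lf 1554093 0 0) (P.cons (P.lf 0 99898 0) (P.cons (P.lf 0 7821 0) (P.cons (P.lf 136 0 0) P.nil))))) (P.cons (P.cons (P.lf 0 13036251 0) (P.cons (P.lf 0 213887 0) (P.cons (P.lf 21890 0 0) (P.cons (P.lf 185 0 0) P.nil)))) (P.cons (P.cons (P.lf 0 1467674 0) (P.cons (P.lf 0 89527 0) (P.cons (P.lf 1005 0 0) P.nil))) (P.cons (P.cons (P.lf 491784 0 0) (P.cons (P.lf 33246 0 0) P.nil)) (P.cons (P.cons (P.lf 0 4467 0) P.nil) P.nil)))))) 23789)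
 EL.nil))
noncomputable def S401_430_586_660_18 : EL := (EL.cons 4 (TM.mk (P.cons (P.lf 0 2377926426 0) (P.cons (P.lf 0 224771707 0) (P.cons (P.lf 25531065 0 0) (P.cons (P.lf 650420 0 0) (P.cons (P.lf 0 209580 0) (P.cons (P.lf 9701 0 0) P.nil)))))) 1817)
 (EL.cons 8 (TM.mk (P.cons (P.lf 523909239 0 0) (P.cons (P.lf 0 87897477 0) (P.cons (P.lf 0 10203278 0) (P.cons (P.lf 1362537 0 0) (P.cons (P.lf 0 9310 0) (P.cons (P.lf 0 8089 0) P.nil)))))) 965)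
 EL.nil))
noncomputable def S401_430_586_660_19 : EL := (EL.cons 4 (TM.mk (P.cons (P.cons (P.lf 0 1106127108 0) (P.cons (P.lf 9218433 0 0) (P.cons (P.lf 0 504393 0) (P.lf 0 56042 0)))) (P.cons (P.cons (P.lf 0 327545154 0) (P.cons (P.lf 0 5511161 0) (P.cons (P.lf 301546 0 0) (P.lf 33504 0 0)))) (P.cons (P.cons (P.lf 17427380 0 0) (P.cons (P.lf 859747 0 0) (P.cons (P.lf 0 47040 0) (P.lf 0 5226 0)))) (P.cons (P.cons (P.lf 5738925 0 0) (P.cons (P.lf 71197 0 0) (P.cons (P.lf 0 3896 0) P.nil))) (P.cons (P.cons (P.lf 0 507726 0) (P.cons (P.lf 0 29113 0) P.nil)) (P.cons (P.cons (P.lf 0 36702 0) P.nil) P.nil)))))) 20256)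
 (EL.cons 8 (TM.mk (P.cons (P.cons (P.lf 243704013 0 0) (P.cons (P.lf 0 2031022 0) (P.cons (P.lf 111129 0 0) (P.lf 12347 0 0)))) (P.cons (P.cons (P.lf 8242636 0 0) (P.cons (P.lf 1746959 0 0) (P.cons (P.lf 0 95586 0) (P.lf 0 10620 0)))) (P.cons (P.cons (P.lf 0 18855743 0) (P.cons (P.lf 0 540517 0) (P.cons (P.lf 29574 0 0) (P.lf 3285 0 0)))) (P.cons (P.cons (P.lf 545619 0 0) (P.cons (P.lf 56456 0 0) (P.cons (P.lf 0 3088 0) P.nil))) (P.cons (P.cons (P.lf 308878 0 0) (P.cons (P.lf 5445 0 0) P.nil)) (P.cons (P.cons (P.lf 0 29315 0) P.nil) P.nil)))))) 7251)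
 EL.nil))
noncomputable def S401_430_586_660_20 : EL := (EL.cons 4 (TM.mk (P.cons (P.cons (P.lf 0 514531134 0) (P.cons (P.lf 8576177 0 0) (P.cons (P.lf 0 504989 0) (P.cons (P.lf 0 48226 0) (P.cons (P.lf 327 0 0) (P.cons (P.lf 0 22 0) P.nil)))))) (P.cons (P.cons (P.lf 0 256089128 0) (P.cons (P.lf 0 3398281 0) (P.cons (P.lf 232046 0 0) (P.cons (P.lf 15613 0 0) (P.cons (P.lf 0 421 0) P.nil))))) (P.cons (P.cons (P.lf 0 10221916 0) (P.cons (P.lf 0 440231 0) (P.cons (P.lf 0 90 0) (P.cons (P.lf 5322 0 0) P.nil)))) (P.cons (P.cons (P.lf 8216055 0 0) (P.cons (P.lf 346843 0 0) (P.cons (P.lf 0 12774 0) P.nil))) (P.cons (P.cons (P.lf 69866 0 0) (P.cons (P.lf 0 28731 0) P.nil)) (P.cons (P.cons (P.lf 0 158850 0) P.nil) P.nil)))))) 58741)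
 (EL.cons 8 (TM.mk (P.cons (P.cons (P.lf 113362470 0 0) (P.cons (P.lf 0 1889519 0) (P.cons (P.lf 111260 0 0) (P.cons (P.lf 10625 0 0) (P.cons (P.lf 0 72 0) (P.cons (P.lf 5 0 0) P.nil)))))) (P.cons (P.cons (P.lf 26687451 0 0) (P.cons (P.lf 1244330 0 0) (P.cons (P.lf 0 80308 0) (P.cons (P.lf 0 6226 0) (P.cons (P.lf 111 0 0) P.nil))))) (P.cons (P.cons (P.lf 0 10727184 0) (P.cons (P.lf 0 129728 0) (P.cons (P.lf 15216 0 0) (P.cons (P.lf 0 99 0) P.nil)))) (P.cons (P.cons (P.lf 0 1660509 0) (P.cons (P.lf 0 87079 0) (P.cons (P.lf 1826 0 0) P.nil))) (P.cons (P.cons (P.lf 428259 0 0) (P.cons (P.lf 26587 0 0) P.nil)) (P.cons (P.cons (P.lf 12805 0 0) P.nil) P.nil)))))) 23873)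
 EL.nil))
noncomputable def S401_430_586_660_21 : EL := (EL.cons 4 (TM.mk (P.cons (P.cons (P.lf 0 1372645500 0) (P.cons (P.lf 0 39288630 0) (P.cons (P.lf 2149707 0 0) (P.lf 238851 0 0)))) (P.cons (P.cons (P.lf 563093835 0 0) (P.cons (P.lf 25964187 0 0) (P.cons (P.lf 0 1420650 0) (P.lf 0 157845 0)))) (P.cons (P.cons (P.lf 0 35797170 0) (P.cons (P.lf 0 5620596 0) (P.cons (P.lf 307530 0 0) (P.lf 34167 0 0)))) (P.cons (P.cons (P.lf 0 10001304 0) (P.cons (P.lf 265701 0 0) (P.cons (P.lf 0 14532 0) P.nil))) (P.cons (P.cons (P.lf 1333755 0 0) (P.cons (P.lf 60702 0 0) P.nil)) (P.cons (P.cons (P.lf 0 15078 0) P.nil) P.nil)))))) 42042)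
 (EL.cons 8 (TM.mk (P.cons (P.cons (P.lf 0 2215175889 0) (P.cons (P.lf 0 63404031 0) (P.cons (P.lf 3469215 0 0) (P.lf 385470 0 0)))) (P.cons (P.cons (P.lf 327688032 0 0) (P.cons (P.lf 25270362 0 0) (P.cons (P.lf 0 1382694 0) (P.lf 0 153633 0)))) (P.cons (P.cons (P.lf 63746151 0 0) (P.cons (P.lf 0 1424268 0) (P.cons (P.lf 77931 0 0) (P.lf 8661 0 0)))) (P.cons (P.cons (P.lf 0 7913769 0) (P.cons (P.lf 0 443022 0) (P.cons (P.lf 24237 0 0) P.nil))) (P.cons (P.cons (P.lf 0 174564 0) (P.cons (P.lf 49929 0 0) P.nil)) (P.cons (P.cons (P.lf 79743 0 0) P.nil) P.nil)))))) 21495)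
 (EL.cons 11 (TM.mk (P.cons (P.cons (P.lf 324574461 0 0) (P.cons (P.lf 0 40726293 0) (P.cons (P.lf 0 6217851 0) (P.cons (P.lf 189954 0 0) (P.lf 15828 0 0))))) (P.cons (P.cons (P.lf 0 149816106 0) (P.cons (P.lf 18798321 0 0) (P.cons (P.lf 2870016 0 0) (P.cons (P.lf 0 87678 0) (P.lf 0 7305 0))))) (P.cons (P.cons (P.lf 19377318 0 0) (P.cons (P.lf 0 2431386 0) (P.cons (P.lf 0 371208 0) (P.cons (P.lf 11340 0 0) P.nil)))) (P.cons (P.cons (P.lf 0 201810 0) (P.cons (P.lf 25320 0 0) (P.cons (P.lf 3864 0 0) P.nil))) (P.cons (P.cons (P.lf 0 83646 0) (P.cons (P.lf 10494 0 0) P.nil)) (P.cons (P.cons (P.lf 6612 0 0) P.nil) P.nil)))))) 4371)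
 EL.nil)))
noncomputable def S401_430_586_660_22 : EL := (EL.cons 4 (TM.mk (P.cons (P.cons (P.lf 0 638506044 0) (P.cons (P.lf 0 12954384 0) (P.cons (P.lf 861117 0 0) (P.cons (P.lf 62085 0 0) (P.cons (P.lf 0 1395 0) (P.cons (P.lf 99 0 0) P.nil)))))) (P.cons (P.cons (P.lf 133211886 0 0) (P.cons (P.lf 2526129 0 0) (P.cons (P.lf 0 344325 0) (P.cons (P.lf 7197 0 0) (P.cons (P.lf 1887 0 0) P.nil))))) (P.cons (P.cons (P.lf 51523902 0 0) (P.cons (P.lf 2812083 0 0) (P.cons (P.lf 0 36579 0) (P.cons (P.lf 0 29931 0) P.nil)))) (P.cons (P.cons (P.lf 0 14011794 0) (P.cons (P.lf 0 1194987 0) (P.cons (P.lf 29859 0 0) P.nil))) (P.cons (P.cons (P.lf 0 176553 0) (P.cons (P.lf 130884 0 0) P.nil)) (P.cons (P.cons (P.lf 301431 0 0) P.nil) P.nil)))))) 118803)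
 (EL.cons 8 (TM.mk (P.cons (P.cons (P.lf 0 1030421325 0) (P.cons (P.lf 0 20905803 0) (P.cons (P.lf 1389678 0 0) (P.cons (P.lf 100200 0 0) (P.cons (P.lf 0 2250 0) (P.cons (P.lf 162 0 0) P.nil)))))) (P.cons (P.cons (P.lf 0 55298577 0) (P.cons (P.lf 0 1406847 0) (P.cons (P.lf 0 191169 0) (P.cons (P.lf 37893 0 0) (P.cons (P.lf 2457 0 0) P.nil))))) (P.cons (P.cons (P.lf 85187868 0 0) (P.cons (P.lf 4504761 0 0) (P.cons (P.lf 0 131481 0) (P.cons (P.lf 0 39969 0) P.nil)))) (P.cons (P.cons (P.lf 0 883866 0) (P.cons (P.lf 0 754809 0) (P.cons (P.lf 18792 0 0) P.nil))) (P.cons (P.cons (P.lf 0 1828407 0) (P.cons (P.lf 0 58356 0) P.nil)) (P.cons (P.cons (P.lf 140286 0 0) P.nil) P.nil)))))) 89535)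
 (EL.cons 11 (TM.mk (P.cons (P.cons (P.lf 150980535 0 0) (P.cons (P.lf 0 20202696 0) (P.cons (P.lf 0 2665593 0) (P.cons (P.lf 111474 0 0) (P.cons (P.lf 4347 0 0) (P.cons (P.lf 0 165 0) P.nil)))))) (P.cons (P.cons (P.lf 0 39252273 0) (P.cons (P.lf 6377184 0 0) (P.cons (P.lf 490317 0 0) (P.cons (P.lf 0 49644 0) (P.cons (P.lf 1563 0 0) P.nil))))) (P.cons (P.cons (P.lf 0 8670054 0) (P.cons (P.lf 397437 0 0) (P.cons (P.lf 290502 0 0) (P.cons (P.lf 7608 0 0) P.nil)))) (P.cons (P.cons (P.lf 3329262 0 0) (P.cons (P.lf 0 247092 0) (P.cons (P.lf 0 94527 0) P.nil))) (P.cons (P.cons (P.lf 0 209676 0) (P.cons (P.lf 4581 0 0) P.nil)) (P.cons (P.cons (P.lf 0 23442 0) P.nil) P.nil)))))) 36969)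
 EL.nil)))
noncomputable def S401_430_586_660_23 : EL := (EL.cons 4 (TM.mk (P.cons (P.cons (P.lf 0 1151633127 0) (P.cons (P.lf 0 32962689 0) (P.cons (P.lf 1803576 0 0) (P.lf 200391 0 0)))) (P.cons (P.cons (P.lf 436143228 0 0) (P.cons (P.lf 20745048 0 0) (P.cons (P.lf 0 1135080 0) (P.lf 0 126114 0)))) (P.cons (P.cons (P.lf 0 9883191 0) (P.cons (P.lf 0 3878556 0) (P.cons (P.lf 212211 0 0) (P.lf 23574 0 0)))) (P.cons (P.cons (P.lf 0 11711814 0) (P.cons (P.lf 0 31392 0) (P.cons (P.lf 1722 0 0) P.nil))) (P.cons (P.cons (P.lf 1078566 0 0) (P.cons (P.lf 83529 0 0) P.nil)) (P.cons (P.cons (P.lf 56631 0 0) P.nil) P.nil)))))) 51939)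
 (EL.cons 8 (TM.mk (P.cons (P.cons (P.lf 0 1858506027 0) (P.cons (P.lf 0 53195220 0) (P.cons (P.lf 2910627 0 0) (P.lf 323403 0 0)))) (P.cons (P.cons (P.lf 216368370 0 0) (P.cons (P.lf 19525449 0 0) (P.cons (P.lf 0 1068354 0) (P.lf 0 118704 0)))) (P.cons (P.cons (P.lf 70641108 0 0) (P.cons (P.lf 0 283731 0) (P.cons (P.lf 15525 0 0) (P.lf 1725 0 0)))) (P.cons (P.cons (P.lf 0 6557889 0) (P.cons (P.lf 0 516186 0) (P.cons (P.lf 28239 0 0) P.nil))) (P.cons (P.cons (P.lf 0 551241 0) (P.cons (P.lf 39525 0 0) P.nil)) (P.cons (P.cons (P.lf 104037 0 0) P.nil) P.nil)))))) 29400)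
 (EL.cons 11 (TM.mk (P.cons (P.cons (P.lf 272314083 0 0) (P.cons (P.lf 0 34168869 0) (P.cons (P.lf 0 5216700 0) (P.cons (P.lf 159369 0 0) (P.lf 13278 0 0))))) (P.cons (P.cons (P.lf 0 117113823 0) (P.cons (P.lf 14694969 0 0) (P.cons (P.lf 2243538 0 0) (P.cons (P.lf 0 68538 0) (P.lf 0 5709 0))))) (P.cons (P.cons (P.lf 11052036 0 0) (P.cons (P.lf 0 1386762 0) (P.cons (P.lf 0 211719 0) (P.cons (P.lf 6465 0 0) P.nil)))) (P.cons (P.cons (P.lf 968331 0 0) (P.cons (P.lf 0 121503 0) (P.cons (P.lf 0 18549 0) P.nil))) (P.cons (P.cons (P.lf 0 172929 0) (P.cons (P.lf 21696 0 0) P.nil)) (P.cons (P.cons (P.lf 6825 0 0) P.nil) P.nil)))))) 8508)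
 EL.nil)))
noncomputable def S401_430_586_660_24 : EL := (EL.cons 4 (TM.mk (P.cons (P.cons (P.lf 0 535698921 0) (P.cons (P.lf 0 10868574 0) (P.cons (P.lf 722466 0 0) (P.cons (P.lf 52089 0 0) (P.cons (P.lf 0 1170 0) (P.cons (P.lf 84 0 0) P.nil)))))) (P.cons (P.cons (P.lf 94884330 0 0) (P.cons (P.lf 1776945 0 0) (P.cons (P.lf 0 266121 0) (P.cons (P.lf 7680 0 0) (P.cons (P.lf 1545 0 0) P.nil))))) (P.cons (P.cons (P.lf 49198410 0 0) (P.cons (P.lf 2475768 0 0) (P.cons (P.lf 0 43095 0) (P.cons (P.lf 0 25158 0) P.nil)))) (P.cons (P.cons (P.lf 0 11004540 0) (P.cons (P.lf 0 939960 0) (P.cons (P.lf 25539 0 0) P.nil))) (P.cons (P.cons (P.lf 0 695985 0) (P.cons (P.lf 67815 0 0) P.nil)) (P.cons (P.cons (P.lf 310485 0 0) P.nil) P.nil)))))) 115005)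
 (EL.cons 8 (TM.mk (P.cons (P.cons (P.lf 0 864511146 0) (P.cons (P.lf 0 17539719 0) (P.cons (P.lf 1165923 0 0) (P.cons (P.lf 84066 0 0) (P.cons (P.lf 0 1890 0) (P.cons (P.lf 135 0 0) P.nil)))))) (P.cons (P.cons (P.lf 0 73633932 0) (P.cons (P.lf 0 1732968 0) (P.cons (P.lf 0 123654 0) (P.cons (P.lf 34440 0 0) (P.cons (P.lf 2001 0 0) P.nil))))) (P.cons (P.cons (P.lf 73962036 0 0) (P.cons (P.lf 3822435 0 0) (P.cons (P.lf 0 120696 0) (P.cons (P.lf 0 32916 0) P.nil)))) (P.cons (P.cons (P.lf 1561260 0 0) (P.cons (P.lf 0 512067 0) (P.cons (P.lf 13242 0 0) P.nil))) (P.cons (P.cons (P.lf 0 1893867 0) (P.cons (P.lf 0 86433 0) P.nil)) (P.cons (P.cons (P.lf 86523 0 0) P.nil) P.nil)))))) 89274)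
 (EL.cons 11 (TM.mk (P.cons (P.cons (P.lf 126670860 0 0) (P.cons (P.lf 0 16949820 0) (P.cons (P.lf 0 2236401 0) (P.cons (P.lf 93525 0 0) (P.cons (P.lf 3645 0 0) (P.cons (P.lf 0 138 0) P.nil)))))) (P.cons (P.cons (P.lf 0 28941030 0) (P.cons (P.lf 4816326 0 0) (P.cons (P.lf 340905 0 0) (P.cons (P.lf 0 38703 0) (P.cons (P.lf 1428 0 0) P.nil))))) (P.cons (P.cons (P.lf 0 8890797 0) (P.cons (P.lf 579513 0 0) (P.cons (P.lf 266913 0 0) (P.cons (P.lf 4644 0 0) P.nil)))) (P.cons (P.cons (P.lf 2738196 0 0) (P.cons (P.lf 0 224421 0) (P.cons (P.lf 0 73926 0) P.nil))) (P.cons (P.cons (P.lf 0 60633 0) (P.cons (P.lf 0 3234 0) P.nil)) (P.cons (P.cons (P.lf 0 39450 0) P.nil) P.nil)))))) 36240)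
 EL.nil)))
noncomputable def S401_430_586_660_25 : EL := (EL.cons 4 (TM.mk (P.cons (P.cons (P.lf 0 966206394 0) (P.cons (P.lf 0 27655299 0) (P.cons (P.lf 1513179 0 0) (P.lf 168126 0 0)))) (P.cons (P.cons (P.lf 335475630 0 0) (P.cons (P.lf 16533483 0 0) (P.cons (P.lf 0 904641 0) (P.lf 0 100512 0)))) (P.cons (P.cons (P.lf 7654686 0 0) (P.cons (P.lf 0 2579238 0) (P.cons (P.lf 141120 0 0) (P.lf 15678 0 0)))) (P.cons (P.cons (P.lf 0 11940375 0) (P.cons (P.lf 0 213594 0) (P.cons (P.lf 11691 0 0) P.nil))) (P.cons (P.cons (P.lf 700227 0 0) (P.cons (P.lf 87336 0 0) P.nil)) (P.cons (P.cons (P.lf 120420 0 0) P.nil) P.nil)))))) 54849)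
 (EL.cons 8 (TM.mk (P.cons (P.cons (P.lf 0 1559264289 0) (P.cons (P.lf 0 44630154 0) (P.cons (P.lf 2441982 0 0) (P.lf 271332 0 0)))) (P.cons (P.cons (P.lf 132401040 0 0) (P.cons (P.lf 14975409 0 0) (P.cons (P.lf 0 819393 0) (P.lf 0 91044 0)))) (P.cons (P.cons (P.lf 72115143 0 0) (P.cons (P.lf 482136 0 0) (P.cons (P.lf 0 26379 0) (P.lf 0 2928 0)))) (P.cons (P.cons (P.lf 0 4755276 0) (P.cons (P.lf 0 523788 0) (P.cons (P.lf 28656 0 0) P.nil))) (P.cons (P.cons (P.lf 0 874908 0) (P.cons (P.lf 23604 0 0) P.nil)) (P.cons (P.cons (P.lf 110052 0 0) P.nil) P.nil)))))) 34143)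
 (EL.cons 11 (TM.mk (P.cons (P.cons (P.lf 228468252 0 0) (P.cons (P.lf 0 28667274 0) (P.cons (P.lf 0 4376748 0) (P.cons (P.lf 133707 0 0) (P.lf 11139 0 0))))) (P.cons (P.cons (P.lf 0 91058496 0) (P.cons (P.lf 11425653 0 0) (P.cons (P.lf 1744398 0 0) (P.cons (P.lf 0 53289 0) (P.lf 0 4437 0))))) (P.cons (P.cons (P.lf 5132154 0 0) (P.cons (P.lf 0 643959 0) (P.cons (P.lf 0 98313 0) (P.cons (P.lf 3003 0 0) P.nil)))) (P.cons (P.cons (P.lf 1596384 0 0) (P.cons (P.lf 0 200307 0) (P.cons (P.lf 0 30582 0) P.nil))) (P.cons (P.cons (P.lf 0 179913 0) (P.cons (P.lf 22572 0 0) P.nil)) (P.cons (P.cons (P.lf 0 1086 0) P.nil) P.nil)))))) 10917)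
 EL.nil)))
noncomputable def S401_430_586_660_26 : EL := (EL.cons 4 (TM.mk (P.cons (P.cons (P.lf 0 449444976 0) (P.cons (P.lf 0 9118602 0) (P.cons (P.lf 606141 0 0) (P.cons (P.lf 43701 0 0) (P.cons (P.lf 0 981 0) (P.cons (P.lf 69 0 0) P.nil)))))) (P.cons (P.cons (P.lf 65445666 0 0) (P.cons (P.lf 1203525 0 0) (P.cons (P.lf 0 204174 0) (P.cons (P.lf 7818 0 0) (P.cons (P.lf 1266 0 0) P.nil))))) (P.cons (P.cons (P.lf 45839844 0 0) (P.cons (P.lf 2165802 0 0) (P.cons (P.lf 0 45960 0) (P.cons (P.lf 0 21105 0) P.nil)))) (P.cons (P.cons (P.lf 0 8379873 0) (P.cons (P.lf 0 731685 0) (P.cons (P.lf 21423 0 0) P.nil))) (P.cons (P.cons (P.lf 0 1049253 0) (P.cons (P.lf 22818 0 0) P.nil)) (P.cons (P.cons (P.lf 292362 0 0) P.nil) P.nil)))))) 109023)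
 (EL.cons 8 (TM.mk (P.cons (P.cons (P.lf 0 725314491 0) (P.cons (P.lf 0 14715612 0) (P.cons (P.lf 978195 0 0) (P.cons (P.lf 70530 0 0) (P.cons (P.lf 0 1584 0) (P.cons (P.lf 114 0 0) P.nil)))))) (P.cons (P.cons (P.lf 0 84631257 0) (P.cons (P.lf 0 1917600 0) (P.cons (P.lf 0 72921 0) (P.cons (P.lf 31119 0 0) (P.cons (P.lf 1629 0 0) P.nil))))) (P.cons (P.cons (P.lf 63422646 0 0) (P.cons (P.lf 3228441 0 0) (P.cons (P.lf 0 109002 0) (P.cons (P.lf 0 27027 0) P.nil)))) (P.cons (P.cons (P.lf 3412224 0 0) (P.cons (P.lf 0 324669 0) (P.cons (P.lf 8574 0 0) P.nil))) (P.cons (P.cons (P.lf 0 1843785 0) (P.cons (P.lf 0 101004 0) P.nil)) (P.cons (P.cons (P.lf 28455 0 0) P.nil) P.nil)))))) 86433)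
 (EL.cons 11 (TM.mk (P.cons (P.cons (P.lf 106275333 0 0) (P.cons (P.lf 0 14220693 0) (P.cons (P.lf 0 1876314 0) (P.cons (P.lf 78465 0 0) (P.cons (P.lf 3060 0 0) (P.cons (P.lf 0 117 0) P.nil)))))) (P.cons (P.cons (P.lf 0 20932644 0) (P.cons (P.lf 3592773 0 0) (P.cons (P.lf 226896 0 0) (P.cons (P.lf 0 30000 0) (P.cons (P.lf 1293 0 0) P.nil))))) (P.cons (P.cons (P.lf 0 8710179 0) (P.cons (P.lf 678537 0 0) (P.cons (P.lf 241527 0 0) (P.cons (P.lf 2514 0 0) P.nil)))) (P.cons (P.cons (P.lf 2193111 0 0) (P.cons (P.lf 0 194094 0) (P.cons (P.lf 0 56625 0) P.nil))) (P.cons (P.cons (P.lf 51219 0 0) (P.cons (P.lf 0 10131 0) P.nil)) (P.cons (P.cons (P.lf 0 46686 0) P.nil) P.nil)))))) 34518)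
 EL.nil)))
noncomputable def S401_430_586_660_27 : EL := (EL.cons 13 (TM.mk (P.lf 0 4294967296 0) 0)
 EL.nil)
noncomputable def S401_430_586_660_28 : EL := (EL.cons 13 (TM.mk (P.cons (P.cons (P.lf 0 1997866590 0) (P.cons (P.lf 16650168 0 0) (P.cons (P.lf 0 911028 0) (P.lf 0 101224 0)))) (P.cons (P.cons (P.lf 0 402759241 0) (P.cons (P.lf 0 11528004 0) (P.cons (P.lf 630764 0 0) (P.lf 70084 0 0)))) (P.cons (P.cons (P.lf 48097052 0 0) (P.cons (P.lf 2821304 0 0) (P.cons (P.lf 0 154368 0) (P.lf 0 17152 0)))) (P.cons (P.cons (P.lf 948437 0 0) (P.cons (P.lf 0 257304 0) (P.cons (P.lf 14076 0 0) P.nil))) (P.cons (P.cons (P.lf 0 424375 0) (P.cons (P.lf 0 2592 0) P.nil)) (P.cons (P.cons (P.lf 24508 0 0) P.nil) P.nil)))))) 8565)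
 EL.nil)
noncomputable def S401_430_586_660_29 : EL := (EL.cons 13 (TM.mk (P.cons (P.cons (P.lf 0 929336741 0) (P.cons (P.lf 15490136 0 0) (P.cons (P.lf 0 912103 0) (P.cons (P.lf 0 87108 0) (P.cons (P.lf 591 0 0) (P.cons (P.lf 0 42 0) P.nil)))))) (P.cons (P.cons (P.lf 0 374698653 0) (P.cons (P.lf 0 7602109 0) (P.cons (P.lf 505335 0 0) (P.cons (P.lf 36435 0 0) (P.cons (P.lf 0 819 0) P.nil))))) (P.cons (P.cons (P.lf 6977464 0 0) (P.cons (P.lf 89758 0 0) (P.cons (P.lf 0 57725 0) (P.cons (P.lf 5234 0 0) P.nil)))) (P.cons (P.cons (P.lf 9902931 0 0) (P.cons (P.lf 540594 0 0) (P.cons (P.lf 0 12441 0) P.nil))) (P.cons (P.cons (P.lf 0 755542 0) (P.cons (P.lf 0 105475 0) P.nil)) (P.cons (P.cons (P.lf 0 78032 0) P.nil) P.nil)))))) 55462)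
 EL.nil)
noncomputable def S401_430_586_660_30 : EL := (EL.cons 13 (TM.mk (P.cons (P.lf 0 3603426100 0) (P.cons (P.lf 0 113537048 0) (P.cons (P.lf 16473628 0 0) (P.cons (P.lf 0 671992 0) (P.cons (P.lf 0 4560 0) (P.cons (P.lf 2084 0 0) P.nil)))))) 368)
 EL.nil)
noncomputable def S401_430_586_660_31 : EL := (EL.cons 13 (TM.mk (P.cons (P.cons (P.lf 0 1676186131 0) (P.cons (P.lf 13969291 0 0) (P.cons (P.lf 0 764341 0) (P.lf 0 84925 0)))) (P.cons (P.cons (P.lf 0 390723588 0) (P.cons (P.lf 0 9231711 0) (P.cons (P.lf 505120 0 0) (P.lf 56123 0 0)))) (P.cons (P.cons (P.lf 37368896 0 0) (P.cons (P.lf 1998435 0 0) (P.cons (P.lf 0 109344 0) (P.lf 0 12149 0)))) (P.cons (P.cons (P.lf 3299390 0 0) (P.cons (P.lf 0 94472 0) (P.cons (P.lf 5167 0 0) P.nil))) (P.cons (P.cons (P.lf 0 580590 0) (P.cons (P.lf 0 21583 0) P.nil)) (P.cons (P.cons (P.lf 13772 0 0) P.nil) P.nil)))))) 14080)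
 EL.nil)
noncomputable def S401_430_586_660_32 : EL := (EL.cons 13 (TM.mk (P.cons (P.cons (P.lf 0 779702390 0) (P.cons (P.lf 12996038 0 0) (P.cons (P.lf 0 765243 0) (P.cons (P.lf 0 73082 0) (P.cons (P.lf 495 0 0) (P.cons (P.lf 0 35 0) P.nil)))))) (P.cons (P.cons (P.lf 0 338934607 0) (P.cons (P.lf 0 5968598 0) (P.cons (P.lf 399858 0 0) (P.cons (P.lf 28265 0 0) (P.cons (P.lf 0 671 0) P.nil))))) (P.cons (P.cons (P.lf 0 486582 0) (P.cons (P.lf 0 185068 0) (P.cons (P.lf 0 31573 0) (P.cons (P.lf 5688 0 0) P.nil)))) (P.cons (P.cons (P.lf 9784665 0 0) (P.cons (P.lf 487506 0 0) (P.cons (P.lf 0 14044 0) P.nil))) (P.cons (P.cons (P.lf 0 458482 0) (P.cons (P.lf 0 75718 0) P.nil)) (P.cons (P.cons (P.lf 0 122279 0) P.nil) P.nil)))))) 61945)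
 EL.nil)
noncomputable def S401_430_586_660_33 : EL := (EL.cons 14 (TM.mk (P.lf 8589934592 0 0) 0)
 EL.nil)
noncomputable def S401_430_586_660_34 : EL := (EL.cons 14 (TM.mk (P.cons (P.cons (P.lf 3995733180 0 0) (P.cons (P.lf 0 33300336 0) (P.cons (P.lf 1822056 0 0) (P.lf 202448 0 0)))) (P.cons (P.cons (P.lf 805518482 0 0) (P.cons (P.lf 23056008 0 0) (P.cons (P.lf 0 1261528 0) (P.lf 0 140168 0)))) (P.cons (P.cons (P.lf 0 96194104 0) (P.cons (P.lf 0 5642608 0) (P.cons (P.lf 308736 0 0) (P.lf 34304 0 0)))) (P.cons (P.cons (P.lf 0 1896874 0) (P.cons (P.lf 514608 0 0) (P.cons (P.lf 0 28152 0) P.nil))) (P.cons (P.cons (P.lf 848750 0 0) (P.cons (P.lf 5184 0 0) P.nil)) (P.cons (P.cons (P.lf 0 49016 0) P.nil) P.nil)))))) 17130)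
 EL.nil)
noncomputable def S401_430_586_660_35 : EL := (EL.cons 14 (TM.mk (P.cons (P.cons (P.lf 1858673482 0 0) (P.cons (P.lf 0 30980272 0) (P.cons (P.lf 1824206 0 0) (P.cons (P.lf 174216 0 0) (P.cons (P.lf 0 1182 0) (P.cons (P.lf 84 0 0) P.nil)))))) (P.cons (P.cons (P.lf 749397306 0 0) (P.cons (P.lf 15204218 0 0) (P.cons (P.lf 0 1010670 0) (P.cons (P.lf 0 72870 0) (P.cons (P.lf 1638 0 0) P.nil))))) (P.cons (P.cons (P.lf 0 13954928 0) (P.cons (P.lf 0 179516 0) (P.cons (P.lf 115450 0 0) (P.cons (P.lf 0 10468 0) P.nil)))) (P.cons (P.cons (P.lf 0 19805862 0) (P.cons (P.lf 0 1081188 0) (P.cons (P.lf 24882 0 0) P.nil))) (P.cons (P.cons (P.lf 1511084 0 0) (P.cons (P.lf 210950 0 0) P.nil)) (P.cons (P.cons (P.lf 156064 0 0) P.nil) P.nil)))))) 110924)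
 EL.nil)
noncomputable def S401_430_586_660_36 : EL := (EL.cons 14 (TM.mk (P.cons (P.lf 7206852200 0 0) (P.cons (P.lf 227074096 0 0) (P.cons (P.lf 0 32947256 0) (P.cons (P.lf 1343984 0 0) (P.cons (P.lf 9120 0 0) (P.cons (P.lf 0 4168 0) P.nil)))))) 736)
 EL.nil)
noncomputable def S401_430_586_660_37 : EL := (EL.cons 14 (TM.mk (P.cons (P.cons (P.lf 3352372262 0 0) (P.cons (P.lf 0 27938582 0) (P.cons (P.lf 1528682 0 0) (P.lf 169850 0 0)))) (P.cons (P.cons (P.lf 781447176 0 0) (P.cons (P.lf 18463422 0 0) (P.cons (P.lf 0 1010240 0) (P.lf 0 112246 0)))) (P.cons (P.cons (P.lf 0 74737792 0) (P.cons (P.lf 0 3996870 0) (P.cons (P.lf 218688 0 0) (P.lf 24298 0 0)))) (P.cons (P.cons (P.lf 0 6598780 0) (P.cons (P.lf 188944 0 0) (P.cons (P.lf 0 10334 0) P.nil))) (P.cons (P.cons (P.lf 1161180 0 0) (P.cons (P.lf 43166 0 0) P.nil)) (P.cons (P.cons (P.lf 0 27544 0) P.nil) P.nil))))))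 28160)
 EL.nil)
noncomputable def S401_430_586_660_38 : EL := (EL.cons 14 (TM.mk (P.cons (P.cons (P.lf 1559404780 0 0) (P.cons (P.lf 0 25992076 0) (P.cons (P.lf 1530486 0 0) (P.cons (P.lf 146164 0 0) (P.cons (P.lf 0 990 0) (P.cons (P.lf 70 0 0) P.nil)))))) (P.cons (P.cons (P.lf 677869214 0 0) (P.cons (P.lf 11937196 0 0) (P.cons (P.lf 0 799716 0) (P.cons (P.lf 0 56530 0) (P.cons (P.lf 1342 0 0) P.nil))))) (P.cons (P.cons (P.lf 973164 0 0) (P.cons (P.lf 370136 0 0) (P.cons (P.lf 63146 0 0) (P.cons (P.lf 0 11376 0) P.nil)))) (P.cons (P.cons (P.lf 0 19569330 0) (P.cons (P.lf 0 975012 0) (P.cons (P.lf 28088 0 0) P.nil))) (P.cons (P.cons (P.lf 916964 0 0) (P.cons (P.lf 151436 0 0) P.nil)) (P.cons (P.cons (P.lf 244558 0 0) P.nil) P.nil)))))) 123890)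
 EL.nil)
noncomputable def S401_430_586_660_39 : EL := (EL.cons 14 (TM.mk (P.cons (P.lf 6046462644 0 0) (P.cons (P.lf 381024890 0 0) (P.cons (P.lf 0 49282024 0) (P.cons (P.lf 513256 0 0) (P.cons (P.lf 212730 0 0) (P.cons (P.lf 0 16820 0) P.nil)))))) 1830)
 EL.nil)
noncomputable def S401_430_586_660_40 : EL := (EL.cons 14 (TM.mk (P.cons (P.cons (P.lf 2812600160 0 0) (P.cons (P.lf 0 23440136 0) (P.cons (P.lf 1282546 0 0) (P.lf 142502 0 0)))) (P.cons (P.cons (P.lf 744244456 0 0) (P.cons (P.lf 14752036 0 0) (P.cons (P.lf 0 807168 0) (P.lf 0 89684 0)))) (P.cons (P.cons (P.lf 0 54904874 0) (P.cons (P.lf 0 2758088 0) (P.cons (P.lf 150908 0 0) (P.lf 16766 0 0)))) (P.cons (P.cons (P.lf 0 9984764 0) (P.cons (P.lf 0 22322 0) (P.cons (P.lf 1224 0 0) P.nil))) (P.cons (P.cons (P.lf 1212264 0 0) (P.cons (P.lf 59400 0 0) P.nil)) (P.cons (P.cons (P.lf 20404 0 0) P.nil) P.nil))))))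 36076)
 EL.nil)
noncomputable def S401_430_586_660_41 : EL := (EL.cons 14 (TM.mk (P.cons (P.cons (P.lf 1308321926 0 0) (P.cons (P.lf 0 21807040 0) (P.cons (P.lf 1284060 0 0) (P.cons (P.lf 122630 0 0) (P.cons (P.lf 0 832 0) (P.cons (P.lf 58 0 0) P.nil)))))) (P.cons (P.cons (P.lf 609946864 0 0) (P.cons (P.lf 9328066 0 0) (P.cons (P.lf 0 630494 0) (P.cons (P.lf 0 43564 0) (P.cons (P.lf 1100 0 0) P.nil))))) (P.cons (P.cons (P.lf 12754680 0 0) (P.cons (P.lf 725792 0 0) (P.cons (P.lf 25968 0 0) (P.cons (P.lf 0 11600 0) P.nil)))) (P.cons (P.cons (P.lf 0 18748736 0) (P.cons (P.lf 0 858092 0) (P.cons (P.lf 28542 0 0) P.nil))) (P.cons (P.cons (P.lf 355990 0 0) (P.cons (P.lf 101700 0 0) P.nil)) (P.cons (P.cons (P.lf 304596 0 0) P.nil) P.nil)))))) 124926)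
 EL.nil)
noncomputable def S401_430_586_660_42 : EL := (EL.cons 14 (TM.mk (P.cons (P.lf 5072909710 0 0) (P.cons (P.lf 479512976 0 0) (P.cons (P.lf 0 54466274 0) (P.cons (P.lf 0 1387564 0) (P.cons (P.lf 447104 0 0) (P.cons (P.lf 0 20696 0) P.nil)))))) 3862)
 EL.nil)
noncomputable def S401_430_586_660_43 : EL := (EL.cons 14 (TM.mk (P.cons (P.cons (P.lf 2359737832 0 0) (P.cons (P.lf 0 19665992 0) (P.cons (P.lf 1076040 0 0) (P.lf 119558 0 0)))) (P.cons (P.cons (P.lf 698762996 0 0) (P.cons (P.lf 11757144 0 0) (P.cons (P.lf 0 643300 0) (P.lf 0 71476 0)))) (P.cons (P.cons (P.lf 0 37178412 0) (P.cons (P.lf 0 1834128 0) (P.cons (P.lf 100352 0 0) (P.lf 11150 0 0)))) (P.cons (P.cons (P.lf 0 12243040 0) (P.cons (P.lf 0 151888 0) (P.cons (P.lf 8312 0 0) P.nil))) (P.cons (P.cons (P.lf 1083150 0 0) (P.cons (P.lf 62108 0 0) P.nil)) (P.cons (P.cons (P.lf 78298 0 0) P.nil) P.nil))))))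 43174)
 EL.nil)
noncomputable def S401_430_586_660_44 : EL := (EL.cons 14 (TM.mk (P.cons (P.cons (P.lf 1097666420 0 0) (P.cons (P.lf 0 18295846 0) (P.cons (P.lf 1077310 0 0) (P.cons (P.lf 102884 0 0) (P.cons (P.lf 0 698 0) (P.cons (P.lf 48 0 0) P.nil)))))) (P.cons (P.cons (P.lf 546323474 0 0) (P.cons (P.lf 7249668 0 0) (P.cons (P.lf 0 495032 0) (P.cons (P.lf 0 33308 0) (P.cons (P.lf 900 0 0) P.nil))))) (P.cons (P.cons (P.lf 21806756 0 0) (P.cons (P.lf 939160 0 0) (P.cons (P.lf 194 0 0) (P.cons (P.lf 0 11354 0) P.nil)))) (P.cons (P.cons (P.lf 0 17527586 0) (P.cons (P.lf 0 739932 0) (P.cons (P.lf 27252 0 0) P.nil))) (P.cons (P.cons (P.lf 0 149048 0) (P.cons (P.lf 61294 0 0) P.nil)) (P.cons (P.cons (P.lf 338882 0 0) P.nil) P.nil)))))) 125268)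
 EL.nil)
noncomputable def S401_430_586_660_45 : EL := (EL.cons 14 (TM.mk (P.cons (P.cons (P.lf 864589040 0 0) (P.cons (P.lf 0 21616386 0) (P.cons (P.lf 1362908 0 0) (P.cons (P.lf 111200 0 0) (P.cons (P.lf 0 1568 0) (P.cons (P.lf 122 0 0) P.nil)))))) (P.cons (P.cons (P.lf 522889606 0 0) (P.cons (P.lf 6250946 0 0) (P.cons (P.lf 0 555166 0) (P.cons (P.lf 0 13636 0) (P.cons (P.lf 1782 0 0) P.nil))))) (P.cons (P.cons (P.lf 42968868 0 0) (P.cons (P.lf 2533796 0 0) (P.cons (P.lf 0 45858 0) (P.cons (P.lf 0 26530 0) P.nil)))) (P.cons (P.cons (P.lf 0 19324146 0) (P.cons (P.lf 0 1024780 0) (P.cons (P.lf 43872 0 0) P.nil))) (P.cons (P.cons (P.lf 0 979946 0) (P.cons (P.lf 0 11504 0) P.nil)) (P.cons (P.cons (P.lf 502612 0 0) P.nil) P.nil)))))) 202468)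
 EL.nil)
noncomputable def S401_430_586_660_46 : EL := (EL.cons 15 (TM.mk (P.lf 4294967296 0 0) 0)
 EL.nil)
noncomputable def S401_430_586_660_47 : EL := (EL.cons 15 (TM.mk (P.cons (P.cons (P.lf 1997866590 0 0) (P.cons (P.lf 0 16650168 0) (P.cons (P.lf 911028 0 0) (P.lf 101224 0 0)))) (P.cons (P.cons (P.lf 402759241 0 0) (P.cons (P.lf 11528004 0 0) (P.cons (P.lf 0 630764 0) (P.lf 0 70084 0)))) (P.cons (P.cons (P.lf 0 48097052 0) (P.cons (P.lf 0 2821304 0) (P.cons (P.lf 154368 0 0) (P.lf 17152 0 0)))) (P.cons (P.cons (P.lf 0 948437 0) (P.cons (P.lf 257304 0 0) (P.cons (P.lf 0 14076 0) P.nil))) (P.cons (P.cons (P.lf 424375 0 0) (P.cons (P.lf 2592 0 0) P.nil)) (P.cons (P.cons (P.lf 0 24508 0) P.nil) P.nil)))))) 8565)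
 EL.nil)
noncomputable def S401_430_586_660_48 : EL := (EL.cons 15 (TM.mk (P.cons (P.cons (P.lf 929336741 0 0) (P.cons (P.lf 0 15490136 0) (P.cons (P.lf 912103 0 0) (P.cons (P.lf 87108 0 0) (P.cons (P.lf 0 591 0) (P.cons (P.lf 42 0 0) P.nil)))))) (P.cons (P.cons (P.lf 374698653 0 0) (P.cons (P.lf 7602109 0 0) (P.cons (P.lf 0 505335 0) (P.cons (P.lf 0 36435 0) (P.cons (P.lf 819 0 0) P.nil))))) (P.cons (P.cons (P.lf 0 6977464 0) (P.cons (P.lf 0 89758 0) (P.cons (P.lf 57725 0 0) (P.cons (P.lf 0 5234 0) P.nil)))) (P.cons (P.cons (P.lf 0 9902931 0) (P.cons (P.lf 0 540594 0) (P.cons (P.lf 12441 0 0) P.nil))) (P.cons (P.cons (P.lf 755542 0 0) (P.cons (P.lf 105475 0 0) P.nil)) (P.cons (P.cons (P.lf 78032 0 0) P.nil) P.nil)))))) 55462)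
 EL.nil)
noncomputable def S401_430_586_660 : SL := (SL.cons S401_430_586_660_0 (SL.cons S401_430_586_660_1 (SL.cons S401_430_586_660_2 (SL.cons S401_430_586_660_3 (SL.cons S401_430_586_660_4 (SL.cons S401_430_586_660_5 (SL.cons S401_430_586_660_6 (SL.cons S401_430_586_660_7 (SL.cons S401_430_586_660_8 (SL.cons S401_430_586_660_9 (SL.cons S401_430_586_660_10 (SL.cons S401_430_586_660_11 (SL.cons S401_430_586_660_12 (SL.cons S401_430_586_660_13 (SL.cons S401_430_586_660_14 (SL.cons S401_430_586_660_15 (SL.cons S401_430_586_660_16 (SL.cons S401_430_586_660_17 (SL.cons S401_430_586_660_18 (SL.cons S401_430_586_660_19 (SL.cons S401_430_586_660_20 (SL.cons S401_430_586_660_21 (SL.cons S401_430_586_660_22 (SL.cons S401_430_586_660_23 (SL.cons S401_430_586_660_24 (SL.cons S401_430_586_660_25 (SL.cons S401_430_586_660_26 (SL.cons S401_430_586_660_27 (SL.cons S401_430_586_660_28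 (SL.cons S401_430_586_660_29 (SL.cons S401_430_586_660_30 (SL.cons S401_430_586_660_31 (SL.cons S401_430_586_660_32 (SL.cons S401_430_586_660_33 (SL.cons S401_430_586_660_34 (SL.cons S401_430_586_660_35 (SL.cons S401_430_586_660_36 (SL.cons S401_430_586_660_37 (SL.cons S401_430_586_660_38 (SL.cons S401_430_586_660_39 (SL.cons S401_430_586_660_40 (SL.cons S401_430_586_660_41 (SL.cons S401_430_586_660_42 (SL.cons S401_430_586_660_43 (SL.cons S401_430_586_660_44 (SL.cons S401_430_586_660_45 (SL.cons S401_430_586_660_46 (SL.cons S401_430_586_660_47 (SL.cons S401_430_586_660_48 SL.nil)))))))))))))))))))))))))))))))))))))))))))))))))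
noncomputable def S401_430_660_808_0 : EL := (EL.cons 0 (TM.mk (P.cons (P.lf 3141443055 0 0) (P.cons (P.lf 0 334885157 0) (P.cons (P.lf 43314278 0 0) (P.cons (P.lf 0 451103 0) (P.cons (P.lf 0 186969 0) (P.cons (P.lf 14783 0 0) P.nil)))))) 1615)
 (EL.cons 1 (TM.mk (P.cons (P.lf 1170850837 0 0) (P.cons (P.lf 0 233327645 0) (P.cons (P.lf 0 10098210 0) (P.cons (P.lf 2078180 0 0) (P.cons (P.lf 0 90420 0) (P.cons (P.lf 0 2872 0) P.nil)))))) 983)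
 (EL.cons 5 (TM.mk (P.cons (P.lf 6184486878 0 0) (P.cons (P.lf 119070280 0 0) (P.cons (P.lf 0 15400634 0) (P.cons (P.lf 160396 0 0) (P.cons (P.lf 66480 0 0) (P.cons (P.lf 0 5256 0) P.nil)))))) 413)
 (EL.cons 9 (TM.mk (P.lf 6442450944 0 0) 2)
 EL.nil))))
noncomputable def S401_430_660_808_1 : EL := (EL.cons 0 (TM.mk (P.cons (P.cons (P.lf 3736895785 0 0) (P.cons (P.lf 50376681 0 0) (P.cons (P.lf 0 21722992 0) (P.lf 0 2413654 0)))) (P.cons (P.cons (P.lf 0 747307303 0) (P.cons (P.lf 0 29607634 0) (P.cons (P.lf 12767142 0 0) (P.lf 1418562 0 0)))) (P.cons (P.cons (P.lf 0 18197541 0) (P.cons (P.lf 4204551 0 0) (P.cons (P.lf 0 1813035 0) (P.lf 0 201441 0)))) (P.cons (P.cons (P.lf 30239071 0 0) (P.cons (P.lf 593892 0 0) (P.cons (P.lf 0 256093 0) P.nil))) (P.cons (P.cons (P.lf 0 2729711 0) (P.cons (P.lf 0 206799 0) P.nil)) (P.cons (P.cons (P.lf 0 138398 0) P.nil) P.nil))))))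 433593)
 (EL.cons 1 (TM.mk (P.cons (P.cons (P.lf 2139390998 0 0) (P.cons (P.lf 39105186 0 0) (P.cons (P.lf 0 16862597 0) (P.lf 0 1873623 0)))) (P.cons (P.cons (P.lf 0 68291625 0) (P.cons (P.lf 0 8310890 0) (P.cons (P.lf 3583748 0 0) (P.lf 398197 0 0)))) (P.cons (P.cons (P.lf 0 142727192 0) (P.cons (P.lf 0 3171808 0) (P.cons (P.lf 1367715 0 0) (P.lf 151963 0 0)))) (P.cons (P.cons (P.lf 10668893 0 0) (P.cons (P.lf 968977 0 0) (P.cons (P.lf 0 417831 0) P.nil))) (P.cons (P.cons (P.lf 1520381 0 0) (P.cons (P.lf 0 39411 0) P.nil)) (P.cons (P.cons (P.lf 0 249651 0) P.nil) P.nil)))))) 176442)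
 (EL.cons 5 (TM.mk (P.cons (P.cons (P.lf 2001368295 0 0) (P.cons (P.lf 0 46644760 0) (P.cons (P.lf 20113750 0 0) (P.lf 2234854 0 0)))) (P.cons (P.cons (P.lf 996325179 0 0) (P.cons (P.lf 30420936 0 0) (P.cons (P.lf 0 13117850 0) (P.lf 0 1457538 0)))) (P.cons (P.cons (P.lf 0 86534260 0) (P.cons (P.lf 0 6363652 0) (P.cons (P.lf 2744072 0 0) (P.lf 304896 0 0)))) (P.cons (P.cons (P.lf 0 11338945 0) (P.cons (P.lf 232878 0 0) (P.cons (P.lf 0 100420 0) P.nil))) (P.cons (P.cons (P.lf 1702344 0 0) (P.cons (P.lf 78000 0 0) P.nil)) (P.cons (P.cons (P.lf 0 450 0) P.nil) P.nil)))))) 138268)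
 (EL.cons 9 (TM.mk (P.cons (P.cons (P.lf 2938272657 0 0) (P.cons (P.lf 0 25352688 0) (P.cons (P.lf 10932366 0 0) (P.lf 1214706 0 0)))) (P.cons (P.cons (P.lf 644661097 0 0) (P.cons (P.lf 17553324 0 0) (P.cons (P.lf 0 7569192 0) (P.lf 0 841020 0)))) (P.cons (P.cons (P.lf 0 82062780 0) (P.cons (P.lf 0 4295910 0) (P.cons (P.lf 1852440 0 0) (P.lf 205824 0 0)))) (P.cons (P.cons (P.lf 0 518191 0) (P.cons (P.lf 391788 0 0) (P.cons (P.lf 0 168942 0) P.nil))) (P.cons (P.cons (P.lf 645676 0 0) (P.cons (P.lf 3948 0 0) P.nil)) (P.cons (P.cons (P.lf 0 43806 0) P.nil) P.nil)))))) 41126)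
 (EL.cons 2 (TM.mk (P.cons (P.cons (P.lf 0 120221116 0) (P.cons (P.lf 111997091 0 0) (P.cons (P.lf 11494541 0 0) (P.cons (P.lf 0 2390543 0) (P.lf 0 199209 0))))) (P.cons (P.cons (P.lf 51703365 0 0) (P.cons (P.lf 0 48166467 0) (P.cons (P.lf 0 4943444 0) (P.cons (P.lf 1028095 0 0) (P.lf 85671 0 0))))) (P.cons (P.cons (P.lf 0 4879248 0) (P.cons (P.lf 4545469 0 0) (P.cons (P.lf 466512 0 0) (P.cons (P.lf 0 97020 0) P.nil)))) (P.cons (P.cons (P.lf 0 427500 0) (P.cons (P.lf 398255 0 0) (P.cons (P.lf 40874 0 0) P.nil))) (P.cons (P.cons (P.lf 76342 0 0) (P.cons (P.lf 0 71119 0) P.nil)) (P.cons (P.cons (P.lf 0 3012 0) P.nil) P.nil)))))) 43814)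
 (EL.cons 6 (TM.mk (P.cons (P.cons (P.lf 26487342 0 0) (P.cons (P.lf 0 24675411 0) (P.cons (P.lf 0 2532498 0) (P.cons (P.lf 526689 0 0) (P.lf 43890 0 0))))) (P.cons (P.cons (P.lf 0 18338922 0) (P.cons (P.lf 17084403 0 0) (P.cons (P.lf 1753413 0 0) (P.cons (P.lf 0 364659 0) (P.lf 0 30387 0))))) (P.cons (P.cons (P.lf 4488174 0 0) (P.cons (P.lf 0 4181148 0) (P.cons (P.lf 0 429120 0) (P.cons (P.lf 89244 0 0) P.nil)))) (P.cons (P.cons (P.lf 0 409326 0) (P.cons (P.lf 381324 0 0) (P.cons (P.lf 39135 0 0) P.nil))) (P.cons (P.cons (P.lf 0 4125 0) (P.cons (P.lf 3843 0 0) P.nil)) (P.cons (P.cons (P.lf 3186 0 0) P.nil) P.nil)))))) 23442)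
 EL.nil))))))
noncomputable def S401_430_660_808_2 : EL := (EL.cons 0 (TM.mk (P.cons (P.cons (P.lf 2755198268 0 0) (P.cons (P.lf 27816775 0 0) (P.cons (P.lf 0 12440044 0) (P.cons (P.lf 0 948863 0) (P.cons (P.lf 0 40109 0) (P.cons (P.lf 0 18385 0) P.nil)))))) (P.cons (P.cons (P.lf 0 150877757 0) (P.cons (P.lf 2784530 0 0) (P.cons (P.lf 0 620623 0) (P.cons (P.lf 0 633699 0) (P.cons (P.lf 52275 0 0) P.nil))))) (P.cons (P.cons (P.lf 0 234754801 0) (P.cons (P.lf 0 11679296 0) (P.cons (P.lf 4726966 0 0) (P.cons (P.lf 826299 0 0) P.nil)))) (P.cons (P.cons (P.lf 46219173 0 0) (P.cons (P.lf 3641674 0 0) (P.cons (P.lf 0 1488382 0) P.nil))) (P.cons (P.cons (P.lf 3419667 0 0) (P.cons (P.lf 0 177971 0) P.nil)) (P.cons (P.cons (P.lf 0 1484115 0) P.nil) P.nil)))))) 2240409)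
 (EL.cons 1 (TM.mk (P.cons (P.cons (P.lf 1707919234 0 0) (P.cons (P.lf 23034947 0 0) (P.cons (P.lf 0 10258840 0) (P.cons (P.lf 0 822588 0) (P.cons (P.lf 0 29375 0) (P.cons (P.lf 0 13466 0) P.nil)))))) (P.cons (P.cons (P.lf 307526552 0 0) (P.cons (P.lf 9615475 0 0) (P.cons (P.lf 0 3839073 0) (P.cons (P.lf 0 725656 0) (P.cons (P.lf 27690 0 0) P.nil))))) (P.cons (P.cons (P.lf 0 173081651 0) (P.cons (P.lf 0 7338411 0) (P.cons (P.lf 3072239 0 0) (P.cons (P.lf 431077 0 0) P.nil)))) (P.cons (P.cons (P.lf 0 14251157 0) (P.cons (P.lf 149218 0 0) (P.cons (P.lf 0 65893 0) P.nil))) (P.cons (P.cons (P.lf 6520688 0 0) (P.cons (P.lf 407698 0 0) P.nil)) (P.cons (P.cons (P.lf 0 192549 0) P.nil) P.nil)))))) 995631)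
 (EL.cons 5 (TM.mk (P.cons (P.cons (P.lf 539139476 0 0) (P.cons (P.lf 0 36099538 0) (P.cons (P.lf 15837866 0 0) (P.cons (P.lf 1495590 0 0) (P.cons (P.lf 24449 0 0) (P.cons (P.lf 11206 0 0) P.nil)))))) (P.cons (P.cons (P.lf 720083953 0 0) (P.cons (P.lf 11405925 0 0) (P.cons (P.lf 0 5281192 0) (P.cons (P.lf 0 233575 0) (P.cons (P.lf 0 32690 0) P.nil))))) (P.cons (P.cons (P.lf 71742165 0 0) (P.cons (P.lf 4424914 0 0) (P.cons (P.lf 0 1705588 0) (P.cons (P.lf 0 386631 0) P.nil)))) (P.cons (P.cons (P.lf 0 35582078 0) (P.cons (P.lf 0 2366340 0) (P.cons (P.lf 961224 0 0) P.nil))) (P.cons (P.cons (P.lf 518763 0 0) (P.cons (P.lf 271292 0 0) P.nil)) (P.cons (P.cons (P.lf 643794 0 0) P.nil) P.nil)))))) 831746)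
 (EL.cons 9 (TM.mk (P.cons (P.cons (P.lf 1340087224 0 0) (P.cons (P.lf 0 23125704 0) (P.cons (P.lf 10071834 0 0) (P.cons (P.lf 1021962 0 0) (P.cons (P.lf 8991 0 0) (P.cons (P.lf 4122 0 0) P.nil)))))) (P.cons (P.cons (P.lf 588033991 0 0) (P.cons (P.lf 10937625 0 0) (P.cons (P.lf 0 4854580 0) (P.cons (P.lf 0 404899 0) (P.cons (P.lf 0 12450 0) P.nil))))) (P.cons (P.cons (P.lf 0 10346638 0) (P.cons (P.lf 240250 0 0) (P.cons (P.lf 0 21966 0) (P.cons (P.lf 0 81919 0) P.nil)))) (P.cons (P.cons (P.lf 0 16895826 0) (P.cons (P.lf 0 945466 0) (P.cons (P.lf 381202 0 0) P.nil))) (P.cons (P.cons (P.lf 1530555 0 0) (P.cons (P.lf 183544 0 0) P.nil)) (P.cons (P.cons (P.lf 102460 0 0) P.nil) P.nil)))))) 327076)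
 (EL.cons 2 (TM.mk (P.cons (P.cons (P.lf 0 109660876 0) (P.cons (P.lf 103105456 0 0) (P.cons (P.lf 9195373 0 0) (P.cons (P.lf 0 1936254 0) (P.cons (P.lf 0 81652 0) (P.cons (P.lf 0 2210 0) P.nil)))))) (P.cons (P.cons (P.lf 23101981 0 0) (P.cons (P.lf 0 22583683 0) (P.cons (P.lf 0 761450 0) (P.cons (P.lf 185158 0 0) (P.cons (P.lf 0 74025 0) P.nil))))) (P.cons (P.cons (P.lf 8959404 0 0) (P.cons (P.lf 0 7866033 0) (P.cons (P.lf 0 1511415 0) (P.cons (P.lf 302203 0 0) P.nil)))) (P.cons (P.cons (P.lf 0 2664264 0) (P.cons (P.lf 2375206 0 0) (P.cons (P.lf 400280 0 0) P.nil))) (P.cons (P.cons (P.lf 75965 0 0) (P.cons (P.lf 0 61053 0) P.nil)) (P.cons (P.cons (P.lf 36202 0 0) P.nil) P.nil)))))) 390031)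
 (EL.cons 6 (TM.mk (P.cons (P.cons (P.lf 24160692 0 0) (P.cons (P.lf 0 22716384 0) (P.cons (P.lf 0 2025936 0) (P.cons (P.lf 426594 0 0) (P.cons (P.lf 17988 0 0) (P.cons (P.lf 486 0 0) P.nil)))))) (P.cons (P.cons (P.lf 0 11427138 0) (P.cons (P.lf 10934106 0 0) (P.cons (P.lf 699156 0 0) (P.cons (P.lf 0 152688 0) (P.cons (P.lf 11586 0 0) P.nil))))) (P.cons (P.cons (P.lf 0 250998 0) (P.cons (P.lf 63246 0 0) (P.cons (P.lf 256464 0 0) (P.cons (P.lf 0 49032 0) P.nil)))) (P.cons (P.cons (P.lf 987774 0 0) (P.cons (P.lf 0 864846 0) (P.cons (P.lf 0 169884 0) P.nil))) (P.cons (P.cons (P.lf 0 191760 0) (P.cons (P.lf 168258 0 0) P.nil)) (P.cons (P.cons (P.lf 7752 0 0) P.nil) P.nil)))))) 156912)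
 EL.nil))))))
noncomputable def S401_430_660_808_3 : EL := (EL.cons 0 (TM.mk (P.cons (P.lf 5314273808 0 0) (P.cons (P.lf 334885157 0 0) (P.cons (P.lf 0 43314278 0) (P.cons (P.lf 451103 0 0) (P.cons (P.lf 186969 0 0) (P.cons (P.lf 0 14783 0) P.nil)))))) 1615)
 (EL.cons 1 (TM.mk (P.cons (P.lf 0 1170850837 0) (P.cons (P.lf 233327645 0 0) (P.cons (P.lf 10098210 0 0) (P.cons (P.lf 0 2078180 0) (P.cons (P.lf 90420 0 0) (P.cons (P.lf 2872 0 0) P.nil)))))) 983)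
 (EL.cons 5 (TM.mk (P.cons (P.lf 257964066 0 0) (P.cons (P.lf 0 119070280 0) (P.cons (P.lf 15400634 0 0) (P.cons (P.lf 0 160396 0) (P.cons (P.lf 0 66480 0) (P.cons (P.lf 5256 0 0) P.nil)))))) 406)
 EL.nil)))
noncomputable def S401_430_660_808_4 : EL := (EL.cons 0 (TM.mk (P.cons (P.cons (P.lf 2423733691 0 0) (P.cons (P.lf 0 20913022 0) (P.cons (P.lf 9017931 0 0) (P.lf 1001990 0 0)))) (P.cons (P.cons (P.lf 684504936 0 0) (P.cons (P.lf 13161594 0 0) (P.cons (P.lf 0 5675428 0) (P.lf 0 630601 0)))) (P.cons (P.cons (P.lf 0 53936896 0) (P.cons (P.lf 0 2460733 0) (P.cons (P.lf 1061091 0 0) (P.lf 117896 0 0)))) (P.cons (P.cons (P.lf 0 8821638 0) (P.cons (P.lf 0 19916 0) (P.cons (P.lf 8588 0 0) P.nil))) (P.cons (P.cons (P.lf 1187813 0 0) (P.cons (P.lf 52996 0 0) P.nil)) (P.cons (P.cons (P.lf 7131 0 0) P.nil) P.nil)))))) 93996)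
 (EL.cons 1 (TM.mk (P.cons (P.cons (P.lf 0 534001582 0) (P.cons (P.lf 4607595 0 0) (P.cons (P.lf 0 1986847 0) (P.lf 0 220758 0)))) (P.cons (P.cons (P.lf 0 10744627 0) (P.cons (P.lf 0 4108342 0) (P.cons (P.lf 1771563 0 0) (P.lf 196839 0 0)))) (P.cons (P.cons (P.lf 42867508 0 0) (P.cons (P.lf 1376730 0 0) (P.cons (P.lf 0 593660 0) (P.lf 0 65960 0)))) (P.cons (P.cons (P.lf 0 2815252 0) (P.cons (P.lf 0 191096 0) (P.cons (P.lf 82402 0 0) P.nil))) (P.cons (P.cons (P.lf 0 431454 0) (P.cons (P.lf 720 0 0) P.nil)) (P.cons (P.cons (P.lf 67363 0 0) P.nil) P.nil)))))) 36564)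
 (EL.cons 5 (TM.mk (P.cons (P.cons (P.lf 117652236 0 0) (P.cons (P.lf 0 1015154 0) (P.cons (P.lf 437744 0 0) (P.lf 48638 0 0)))) (P.cons (P.cons (P.lf 0 28492502 0) (P.cons (P.lf 1171428 0 0) (P.cons (P.lf 0 505132 0) (P.lf 0 56124 0)))) (P.cons (P.cons (P.lf 0 8176694 0) (P.cons (P.lf 0 557042 0) (P.cons (P.lf 240202 0 0) (P.lf 26688 0 0)))) (P.cons (P.cons (P.lf 2963850 0 0) (P.cons (P.lf 137676 0 0) (P.cons (P.lf 0 59366 0) P.nil))) (P.cons (P.cons (P.lf 0 207110 0) (P.cons (P.lf 0 17526 0) P.nil)) (P.cons (P.cons (P.lf 0 17136 0) P.nil) P.nil)))))) 23684)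
 EL.nil)))
noncomputable def S401_430_660_808_5 : EL := (EL.cons 0 (TM.mk (P.cons (P.cons (P.lf 1105416323 0 0) (P.cons (P.lf 0 19076018 0) (P.cons (P.lf 8308091 0 0) (P.cons (P.lf 842999 0 0) (P.cons (P.lf 7416 0 0) (P.cons (P.lf 3399 0 0) P.nil)))))) (P.cons (P.cons (P.lf 554718846 0 0) (P.cons (P.lf 7820172 0 0) (P.cons (P.lf 0 3480920 0) (P.cons (P.lf 0 280872 0) (P.cons (P.lf 0 9801 0) P.nil))))) (P.cons (P.cons (P.lf 13022073 0 0) (P.cons (P.lf 922206 0 0) (P.cons (P.lf 0 338180 0) (P.cons (P.lf 0 95491 0) P.nil)))) (P.cons (P.cons (P.lf 0 18334594 0) (P.cons (P.lf 0 842566 0) (P.cons (P.lf 346649 0 0) P.nil))) (P.cons (P.cons (P.lf 533895 0 0) (P.cons (P.lf 100734 0 0) P.nil)) (P.cons (P.cons (P.lf 290937 0 0) P.nil) P.nil)))))) 359192)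
 (EL.cons 1 (TM.mk (P.cons (P.cons (P.lf 0 243547410 0) (P.cons (P.lf 4202863 0 0) (P.cons (P.lf 0 1830453 0) (P.cons (P.lf 0 185730 0) (P.cons (P.lf 0 1633 0) (P.cons (P.lf 0 748 0) P.nil)))))) (P.cons (P.cons (P.lf 0 58335048 0) (P.cons (P.lf 0 2825351 0) (P.cons (P.lf 1247043 0 0) (P.cons (P.lf 110598 0 0) (P.cons (P.lf 2587 0 0) P.nil))))) (P.cons (P.cons (P.lf 25277870 0 0) (P.cons (P.lf 316218 0 0) (P.cons (P.lf 0 156039 0) (P.cons (P.lf 1824 0 0) P.nil)))) (P.cons (P.cons (P.lf 3185353 0 0) (P.cons (P.lf 205132 0 0) (P.cons (P.lf 0 80932 0) P.nil))) (P.cons (P.cons (P.lf 0 1077176 0) (P.cons (P.lf 0 71075 0) P.nil)) (P.cons (P.cons (P.lf 22515 0 0) P.nil) P.nil)))))) 129338)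
 (EL.cons 5 (TM.mk (P.cons (P.cons (P.lf 53658824 0 0) (P.cons (P.lf 0 925982 0) (P.cons (P.lf 403288 0 0) (P.cons (P.lf 40920 0 0) (P.cons (P.lf 358 0 0) (P.cons (P.lf 164 0 0) P.nil)))))) (P.cons (P.cons (P.lf 0 1222038 0) (P.cons (P.lf 865368 0 0) (P.cons (P.lf 0 380532 0) (P.cons (P.lf 0 35100 0) (P.cons (P.lf 0 664 0) P.nil))))) (P.cons (P.cons (P.lf 0 8078948 0) (P.cons (P.lf 0 247812 0) (P.cons (P.lf 112918 0 0) (P.cons (P.lf 6644 0 0) P.nil)))) (P.cons (P.cons (P.lf 887024 0 0) (P.cons (P.lf 0 15574 0) (P.cons (P.lf 3814 0 0) P.nil))) (P.cons (P.cons (P.lf 320352 0 0) (P.cons (P.lf 25364 0 0) P.nil)) (P.cons (P.cons (P.lf 0 69290 0) P.nil) P.nil)))))) 42730)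
 EL.nil)))
noncomputable def S401_430_660_808_6 : EL := (EL.cons 12 (TM.mk (P.lf 8589934592 0 0) 0)
 (EL.cons 3 (TM.mk (P.cons (P.lf 3378211968 0 0) (P.cons (P.lf 106440982 0 0) (P.cons (P.lf 0 15444026 0) (P.cons (P.lf 629992 0 0) (P.cons (P.lf 4275 0 0) (P.cons (P.lf 0 1953 0) P.nil)))))) 352)
 (EL.cons 7 (TM.mk (P.cons (P.lf 0 744294039 0) (P.cons (P.lf 171774507 0 0) (P.cons (P.lf 0 2395646 0) (P.cons (P.lf 0 321494 0) (P.cons (P.lf 25565 0 0) (P.cons (P.lf 0 650 0) P.nil)))))) 203)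
 EL.nil)))
noncomputable def S401_430_660_808_7 : EL := (EL.cons 12 (TM.mk (P.cons (P.cons (P.lf 3917696876 0 0) (P.cons (P.lf 0 33803584 0) (P.cons (P.lf 14576488 0 0) (P.lf 1619608 0 0)))) (P.cons (P.cons (P.lf 859548130 0 0) (P.cons (P.lf 23404432 0 0) (P.cons (P.lf 0 10092256 0) (P.lf 0 1121360 0)))) (P.cons (P.cons (P.lf 0 109417040 0) (P.cons (P.lf 0 5727880 0) (P.cons (P.lf 2469920 0 0) (P.lf 274432 0 0)))) (P.cons (P.cons (P.lf 0 690922 0) (P.cons (P.lf 522384 0 0) (P.cons (P.lf 0 225256 0) P.nil))) (P.cons (P.cons (P.lf 860902 0 0) (P.cons (P.lf 5264 0 0) P.nil)) (P.cons (P.cons (P.lf 0 58408 0) P.nil) P.nil)))))) 54810)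
 (EL.cons 3 (TM.mk (P.cons (P.cons (P.lf 3005449554 0 0) (P.cons (P.lf 26588250 0 0) (P.cons (P.lf 0 11465154 0) (P.lf 0 1273902 0)))) (P.cons (P.cons (P.lf 0 237353610 0) (P.cons (P.lf 0 17571038 0) (P.cons (P.lf 7576830 0 0) (P.lf 841866 0 0)))) (P.cons (P.cons (P.lf 9544738 0 0) (P.cons (P.lf 3803692 0 0) (P.cons (P.lf 0 1640190 0) (P.lf 0 182240 0)))) (P.cons (P.cons (P.lf 6493012 0 0) (P.cons (P.lf 0 179810 0) (P.cons (P.lf 77534 0 0) P.nil))) (P.cons (P.cons (P.lf 0 884290 0) (P.cons (P.lf 0 41080 0) P.nil)) (P.cons (P.cons (P.lf 15442 0 0) P.nil) P.nil)))))) 168703)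
 (EL.cons 7 (TM.mk (P.cons (P.cons (P.lf 2024299823 0 0) (P.cons (P.lf 67291196 0 0) (P.cons (P.lf 0 29016723 0) (P.lf 0 3224079 0)))) (P.cons (P.cons (P.lf 0 383041360 0) (P.cons (P.lf 0 28356164 0) (P.cons (P.lf 12227497 0 0) (P.lf 1358611 0 0)))) (P.cons (P.cons (P.lf 0 34831894 0) (P.cons (P.lf 2419545 0 0) (P.cons (P.lf 0 1043335 0) (P.lf 0 115927 0)))) (P.cons (P.cons (P.lf 6437446 0 0) (P.cons (P.lf 284652 0 0) (P.cons (P.lf 0 122745 0) P.nil))) (P.cons (P.cons (P.lf 0 20851 0) (P.cons (P.lf 0 40069 0) P.nil)) (P.cons (P.cons (P.lf 0 51625 0) P.nil) P.nil)))))) 96285)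
 (EL.cons 10 (TM.mk (P.cons (P.cons (P.lf 0 152845878 0) (P.cons (P.lf 142390074 0 0) (P.cons (P.lf 14613852 0 0) (P.cons (P.lf 0 3039273 0) (P.lf 0 253272 0))))) (P.cons (P.cons (P.lf 70550142 0 0) (P.cons (P.lf 0 65723982 0) (P.cons (P.lf 0 6745416 0) (P.cons (P.lf 1402857 0 0) (P.lf 116904 0 0))))) (P.cons (P.cons (P.lf 0 9125004 0) (P.cons (P.lf 8500785 0 0) (P.cons (P.lf 872457 0 0) (P.cons (P.lf 0 181446 0) P.nil)))) (P.cons (P.cons (P.lf 95034 0 0) (P.cons (P.lf 0 88533 0) (P.cons (P.lf 0 9084 0) P.nil))) (P.cons (P.cons (P.lf 39387 0 0) (P.cons (P.lf 0 36693 0) P.nil)) (P.cons (P.cons (P.lf 0 3114 0) P.nil) P.nil)))))) 25638)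
 EL.nil))))
noncomputable def S401_430_660_808_8 : EL := (EL.cons 12 (TM.mk (P.cons (P.cons (P.lf 1786782966 0 0) (P.cons (P.lf 0 30834272 0) (P.cons (P.lf 13429112 0 0) (P.cons (P.lf 1362616 0 0) (P.cons (P.lf 11988 0 0) (P.cons (P.lf 5496 0 0) P.nil)))))) (P.cons (P.cons (P.lf 784045322 0 0) (P.cons (P.lf 14583500 0 0) (P.cons (P.lf 0 6472774 0) (P.cons (P.lf 0 539866 0) (P.cons (P.lf 0 16600 0) P.nil))))) (P.cons (P.cons (P.lf 0 13795518 0) (P.cons (P.lf 320334 0 0) (P.cons (P.lf 0 29288 0) (P.cons (P.lf 0 109226 0) P.nil)))) (P.cons (P.cons (P.lf 0 22527768 0) (P.cons (P.lf 0 1260622 0) (P.cons (P.lf 508270 0 0) P.nil))) (P.cons (P.cons (P.lf 2040740 0 0) (P.cons (P.lf 244726 0 0) P.nil)) (P.cons (P.cons (P.lf 136614 0 0) P.nil) P.nil)))))) 436072)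
 (EL.cons 3 (TM.mk (P.cons (P.cons (P.lf 2038752312 0 0) (P.cons (P.lf 12724679 0 0) (P.cons (P.lf 0 5748602 0) (P.cons (P.lf 0 384073 0) (P.cons (P.lf 0 23571 0) (P.cons (P.lf 0 10806 0) P.nil)))))) (P.cons (P.cons (P.lf 54487013 0 0) (P.cons (P.lf 2185832 0 0) (P.cons (P.lf 0 588581 0) (P.cons (P.lf 0 410003 0) (P.cons (P.lf 31895 0 0) P.nil))))) (P.cons (P.cons (P.lf 0 116438249 0) (P.cons (P.lf 0 6463048 0) (P.cons (P.lf 2585512 0 0) (P.cons (P.lf 483375 0 0) P.nil)))) (P.cons (P.cons (P.lf 23705276 0 0) (P.cons (P.lf 2243845 0 0) (P.cons (P.lf 0 906557 0) P.nil))) (P.cons (P.cons (P.lf 283661 0 0) (P.cons (P.lf 0 238872 0) P.nil)) (P.cons (P.cons (P.lf 0 536772 0) P.nil) P.nil)))))) 1079556)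
 (EL.cons 7 (TM.mk (P.cons (P.cons (P.lf 2001304884 0 0) (P.cons (P.lf 42776352 0 0) (P.cons (P.lf 0 18963729 0) (P.cons (P.lf 0 1602700 0) (P.cons (P.lf 0 46686 0) (P.cons (P.lf 0 21404 0) P.nil)))))) (P.cons (P.cons (P.lf 87931156 0 0) (P.cons (P.lf 3527474 0 0) (P.cons (P.lf 0 949842 0) (P.cons (P.lf 0 661658 0) (P.cons (P.lf 51478 0 0) P.nil))))) (P.cons (P.cons (P.lf 0 176376050 0) (P.cons (P.lf 0 9967446 0) (P.cons (P.lf 4047918 0 0) (P.cons (P.lf 693293 0 0) P.nil)))) (P.cons (P.cons (P.lf 6943117 0 0) (P.cons (P.lf 1859280 0 0) (P.cons (P.lf 0 750075 0) P.nil))) (P.cons (P.cons (P.lf 3271537 0 0) (P.cons (P.lf 61556 0 0) P.nil)) (P.cons (P.cons (P.lf 0 351929 0) P.nil) P.nil)))))) 729066)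
 (EL.cons 10 (TM.mk (P.cons (P.cons (P.lf 0 139419876 0) (P.cons (P.lf 131085486 0 0) (P.cons (P.lf 11690748 0 0) (P.cons (P.lf 0 2461704 0) (P.cons (P.lf 0 103812 0) (P.cons (P.lf 0 2808 0) P.nil)))))) (P.cons (P.cons (P.lf 33764094 0 0) (P.cons (P.lf 0 32842536 0) (P.cons (P.lf 0 1336440 0) (P.cons (P.lf 312972 0 0) (P.cons (P.lf 0 90846 0) P.nil))))) (P.cons (P.cons (P.lf 9689520 0 0) (P.cons (P.lf 0 8366580 0) (P.cons (P.lf 0 1826022 0) (P.cons (P.lf 363102 0 0) P.nil)))) (P.cons (P.cons (P.lf 0 3512214 0) (P.cons (P.lf 3108798 0 0) (P.cons (P.lf 558150 0 0) P.nil))) (P.cons (P.cons (P.lf 245424 0 0) (P.cons (P.lf 0 207864 0) P.nil)) (P.cons (P.cons (P.lf 20304 0 0) P.nil) P.nil)))))) 472392)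
 EL.nil))))
noncomputable def S401_430_660_808_9 : EL := (EL.cons 3 (TM.mk (P.cons (P.lf 3378211968 0 0) (P.cons (P.lf 106440982 0 0) (P.cons (P.lf 0 15444026 0) (P.cons (P.lf 629992 0 0) (P.cons (P.lf 4275 0 0) (P.cons (P.lf 0 1953 0) P.nil)))))) 352)
 (EL.cons 7 (TM.mk (P.cons (P.lf 0 744294039 0) (P.cons (P.lf 171774507 0 0) (P.cons (P.lf 0 2395646 0) (P.cons (P.lf 0 321494 0) (P.cons (P.lf 25565 0 0) (P.cons (P.lf 0 650 0) P.nil)))))) 203)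
 EL.nil))
noncomputable def S401_430_660_808_10 : EL := (EL.cons 3 (TM.mk (P.cons (P.cons (P.lf 1540734720 0 0) (P.cons (P.lf 0 13294125 0) (P.cons (P.lf 5732577 0 0) (P.lf 636951 0 0)))) (P.cons (P.cons (P.lf 386584932 0 0) (P.cons (P.lf 8785519 0 0) (P.cons (P.lf 0 3788415 0) (P.lf 0 420933 0)))) (P.cons (P.cons (P.lf 0 39423794 0) (P.cons (P.lf 0 1901846 0) (P.cons (P.lf 820095 0 0) (P.lf 91120 0 0)))) (P.cons (P.cons (P.lf 0 2885621 0) (P.cons (P.lf 89905 0 0) (P.cons (P.lf 0 38767 0) P.nil))) (P.cons (P.cons (P.lf 591722 0 0) (P.cons (P.lf 20540 0 0) P.nil)) (P.cons (P.cons (P.lf 0 19547 0) P.nil) P.nil)))))) 41574)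
 (EL.cons 7 (TM.mk (P.cons (P.cons (P.lf 0 339457582 0) (P.cons (P.lf 2928986 0 0) (P.cons (P.lf 0 1263012 0) (P.lf 0 140334 0)))) (P.cons (P.cons (P.lf 3865442 0 0) (P.cons (P.lf 0 2703905 0) (P.cons (P.lf 1165954 0 0) (P.lf 129550 0 0)))) (P.cons (P.cons (P.lf 25576619 0 0) (P.cons (P.lf 973755 0 0) (P.cons (P.lf 0 419893 0) (P.lf 0 46654 0)))) (P.cons (P.cons (P.lf 0 2514512 0) (P.cons (P.lf 0 165066 0) (P.cons (P.lf 71178 0 0) P.nil))) (P.cons (P.cons (P.lf 0 78406 0) (P.cons (P.lf 10610 0 0) P.nil)) (P.cons (P.cons (P.lf 28826 0 0) P.nil) P.nil)))))) 20285)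
 EL.nil))
noncomputable def S401_430_660_808_11 : EL := (EL.cons 3 (TM.mk (P.cons (P.cons (P.lf 702698202 0 0) (P.cons (P.lf 0 12126367 0) (P.cons (P.lf 5281342 0 0) (P.cons (P.lf 535883 0 0) (P.cons (P.lf 4713 0 0) (P.cons (P.lf 2160 0 0) P.nil)))))) (P.cons (P.cons (P.lf 330486593 0 0) (P.cons (P.lf 5353256 0 0) (P.cons (P.lf 0 2379179 0) (P.cons (P.lf 0 195431 0) (P.cons (P.lf 0 6379 0) P.nil))))) (P.cons (P.cons (P.lf 1077451 0 0) (P.cons (P.lf 362126 0 0) (P.cons (P.lf 0 115868 0) (P.cons (P.lf 0 52095 0) P.nil)))) (P.cons (P.cons (P.lf 0 10309174 0) (P.cons (P.lf 0 520283 0) (P.cons (P.lf 212149 0 0) P.nil))) (P.cons (P.cons (P.lf 606617 0 0) (P.cons (P.lf 81102 0 0) P.nil)) (P.cons (P.cons (P.lf 118488 0 0) P.nil) P.nil)))))) 202184)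
 (EL.cons 7 (TM.mk (P.cons (P.cons (P.lf 0 154819794 0) (P.cons (P.lf 2671704 0 0) (P.cons (P.lf 0 1163595 0) (P.cons (P.lf 0 118066 0) (P.cons (P.lf 0 1038 0) (P.cons (P.lf 0 476 0) P.nil)))))) (P.cons (P.cons (P.lf 0 32204726 0) (P.cons (P.lf 0 1880218 0) (P.cons (P.lf 829392 0 0) (P.cons (P.lf 74026 0 0) (P.cons (P.lf 1678 0 0) P.nil))))) (P.cons (P.cons (P.lf 16375726 0 0) (P.cons (P.lf 272472 0 0) (P.cons (P.lf 0 130644 0) (P.cons (P.lf 0 1711 0) P.nil)))) (P.cons (P.cons (P.lf 1390561 0 0) (P.cons (P.lf 112722 0 0) (P.cons (P.lf 0 43323 0) P.nil))) (P.cons (P.cons (P.lf 0 647495 0) (P.cons (P.lf 0 47140 0) P.nil)) (P.cons (P.cons (P.lf 37969 0 0) P.nil) P.nil)))))) 70142)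
 EL.nil))
noncomputable def S401_430_660_808_12 : EL := (EL.cons 4 (TM.mk (P.cons (P.lf 0 3378211968 0) (P.cons (P.lf 0 106440982 0) (P.cons (P.lf 15444026 0 0) (P.cons (P.lf 0 629992 0) (P.cons (P.lf 0 4275 0) (P.cons (P.lf 1953 0 0) P.nil)))))) 352)
 (EL.cons 8 (TM.mk (P.cons (P.lf 744294039 0 0) (P.cons (P.lf 0 171774507 0) (P.cons (P.lf 2395646 0 0) (P.cons (P.lf 321494 0 0) (P.cons (P.lf 0 25565 0) (P.cons (P.lf 650 0 0) P.nil)))))) 203)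
 EL.nil))
noncomputable def S401_430_660_808_13 : EL := (EL.cons 4 (TM.mk (P.cons (P.cons (P.lf 0 1540734720 0) (P.cons (P.lf 13294125 0 0) (P.cons (P.lf 0 5732577 0) (P.lf 0 636951 0)))) (P.cons (P.cons (P.lf 0 386584932 0) (P.cons (P.lf 0 8785519 0) (P.cons (P.lf 3788415 0 0) (P.lf 420933 0 0)))) (P.cons (P.cons (P.lf 39423794 0 0) (P.cons (P.lf 1901846 0 0) (P.cons (P.lf 0 820095 0) (P.lf 0 91120 0)))) (P.cons (P.cons (P.lf 2885621 0 0) (P.cons (P.lf 0 89905 0) (P.cons (P.lf 38767 0 0) P.nil))) (P.cons (P.cons (P.lf 0 591722 0) (P.cons (P.lf 0 20540 0) P.nil)) (P.cons (P.cons (P.lf 19547 0 0) P.nil) P.nil)))))) 41574)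
 (EL.cons 8 (TM.mk (P.cons (P.cons (P.lf 339457582 0 0) (P.cons (P.lf 0 2928986 0) (P.cons (P.lf 1263012 0 0) (P.lf 140334 0 0)))) (P.cons (P.cons (P.lf 0 3865442 0) (P.cons (P.lf 2703905 0 0) (P.cons (P.lf 0 1165954 0) (P.lf 0 129550 0)))) (P.cons (P.cons (P.lf 0 25576619 0) (P.cons (P.lf 0 973755 0) (P.cons (P.lf 419893 0 0) (P.lf 46654 0 0)))) (P.cons (P.cons (P.lf 2514512 0 0) (P.cons (P.lf 165066 0 0) (P.cons (P.lf 0 71178 0) P.nil))) (P.cons (P.cons (P.lf 78406 0 0) (P.cons (P.lf 0 10610 0) P.nil)) (P.cons (P.cons (P.lf 0 28826 0) P.nil) P.nil)))))) 20285)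
 EL.nil))
noncomputable def S401_430_660_808_14 : EL := (EL.cons 4 (TM.mk (P.cons (P.cons (P.lf 0 702698202 0) (P.cons (P.lf 12126367 0 0) (P.cons (P.lf 0 5281342 0) (P.cons (P.lf 0 535883 0) (P.cons (P.lf 0 4713 0) (P.cons (P.lf 0 2160 0) P.nil)))))) (P.cons (P.cons (P.lf 0 330486593 0) (P.cons (P.lf 0 5353256 0) (P.cons (P.lf 2379179 0 0) (P.cons (P.lf 195431 0 0) (P.cons (P.lf 6379 0 0) P.nil))))) (P.cons (P.cons (P.lf 0 1077451 0) (P.cons (P.lf 0 362126 0) (P.cons (P.lf 115868 0 0) (P.cons (P.lf 52095 0 0) P.nil)))) (P.cons (P.cons (P.lf 10309174 0 0) (P.cons (P.lf 520283 0 0) (P.cons (P.lf 0 212149 0) P.nil))) (P.cons (P.cons (P.lf 0 606617 0) (P.cons (P.lf 0 81102 0) P.nil)) (P.cons (P.cons (P.lf 0 118488 0) P.nil) P.nil)))))) 202184)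
 (EL.cons 8 (TM.mk (P.cons (P.cons (P.lf 154819794 0 0) (P.cons (P.lf 0 2671704 0) (P.cons (P.lf 1163595 0 0) (P.cons (P.lf 118066 0 0) (P.cons (P.lf 1038 0 0) (P.cons (P.lf 476 0 0) P.nil)))))) (P.cons (P.cons (P.lf 32204726 0 0) (P.cons (P.lf 1880218 0 0) (P.cons (P.lf 0 829392 0) (P.cons (P.lf 0 74026 0) (P.cons (P.lf 0 1678 0) P.nil))))) (P.cons (P.cons (P.lf 0 16375726 0) (P.cons (P.lf 0 272472 0) (P.cons (P.lf 130644 0 0) (P.cons (P.lf 1711 0 0) P.nil)))) (P.cons (P.cons (P.lf 0 1390561 0) (P.cons (P.lf 0 112722 0) (P.cons (P.lf 43323 0 0) P.nil))) (P.cons (P.cons (P.lf 647495 0 0) (P.cons (P.lf 47140 0 0) P.nil)) (P.cons (P.cons (P.lf 0 37969 0) P.nil) P.nil)))))) 70142)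
 EL.nil))
noncomputable def S401_430_660_808_15 : EL := (EL.cons 4 (TM.mk (P.cons (P.lf 0 2834279364 0) (P.cons (P.lf 0 178605417 0) (P.cons (P.lf 23100948 0 0) (P.cons (P.lf 0 240588 0) (P.cons (P.lf 0 99717 0) (P.cons (P.lf 7884 0 0) P.nil)))))) 864)
 (EL.cons 8 (TM.mk (P.cons (P.lf 624453780 0 0) (P.cons (P.lf 0 124441411 0) (P.cons (P.lf 0 5385712 0) (P.cons (P.lf 1108363 0 0) (P.cons (P.lf 0 48224 0) (P.cons (P.lf 0 1532 0) P.nil)))))) 521)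
 EL.nil))
noncomputable def S401_430_660_808_16 : EL := (EL.cons 4 (TM.mk (P.cons (P.cons (P.lf 0 1292657969 0) (P.cons (P.lf 11153611 0 0) (P.cons (P.lf 0 4809563 0) (P.lf 0 534394 0)))) (P.cons (P.cons (P.lf 0 365069299 0) (P.cons (P.lf 0 7019517 0) (P.cons (P.lf 3026895 0 0) (P.lf 336320 0 0)))) (P.cons (P.cons (P.lf 28766344 0 0) (P.cons (P.lf 1312391 0 0) (P.cons (P.lf 0 565915 0) (P.lf 0 62878 0)))) (P.cons (P.cons (P.lf 4704873 0 0) (P.cons (P.lf 10621 0 0) (P.cons (P.lf 0 4580 0) P.nil))) (P.cons (P.cons (P.lf 0 633500 0) (P.cons (P.lf 0 28264 0) P.nil)) (P.cons (P.cons (P.lf 0 3803 0) P.nil) P.nil)))))) 50140)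
 (EL.cons 8 (TM.mk (P.cons (P.cons (P.lf 284800844 0 0) (P.cons (P.lf 0 2457384 0) (P.cons (P.lf 1059652 0 0) (P.lf 117738 0 0)))) (P.cons (P.cons (P.lf 5730468 0 0) (P.cons (P.lf 2191116 0 0) (P.cons (P.lf 0 944834 0) (P.lf 0 104981 0)))) (P.cons (P.cons (P.lf 0 22862671 0) (P.cons (P.lf 0 734256 0) (P.cons (P.lf 316619 0 0) (P.lf 35179 0 0)))) (P.cons (P.cons (P.lf 1501468 0 0) (P.cons (P.lf 101918 0 0) (P.cons (P.lf 0 43948 0) P.nil))) (P.cons (P.cons (P.lf 230109 0 0) (P.cons (P.lf 0 384 0) P.nil)) (P.cons (P.cons (P.lf 0 35927 0) P.nil) P.nil)))))) 19491)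
 EL.nil))
noncomputable def S401_430_660_808_17 : EL := (EL.cons 4 (TM.mk (P.cons (P.cons (P.lf 0 589555372 0) (P.cons (P.lf 10173876 0 0) (P.cons (P.lf 0 4430982 0) (P.cons (P.lf 0 449599 0) (P.cons (P.lf 0 3955 0) (P.cons (P.lf 0 1813 0) P.nil)))))) (P.cons (P.cons (P.lf 0 295850051 0) (P.cons (P.lf 0 4170758 0) (P.cons (P.lf 1856490 0 0) (P.cons (P.lf 149798 0 0) (P.cons (P.lf 5227 0 0) P.nil))))) (P.cons (P.cons (P.lf 0 6945105 0) (P.cons (P.lf 0 491843 0) (P.cons (P.lf 180362 0 0) (P.cons (P.lf 50928 0 0) P.nil)))) (P.cons (P.cons (P.lf 9778450 0 0) (P.cons (P.lf 449369 0 0) (P.cons (P.lf 0 184879 0) P.nil))) (P.cons (P.cons (P.lf 0 284744 0) (P.cons (P.lf 0 53725 0) P.nil)) (P.cons (P.cons (P.lf 0 155166 0) P.nil) P.nil)))))) 191579)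
 (EL.cons 8 (TM.mk (P.cons (P.cons (P.lf 129891952 0 0) (P.cons (P.lf 0 2241527 0) (P.cons (P.lf 976242 0 0) (P.cons (P.lf 99056 0 0) (P.cons (P.lf 871 0 0) (P.cons (P.lf 399 0 0) P.nil)))))) (P.cons (P.cons (P.lf 31112026 0 0) (P.cons (P.lf 1506854 0 0) (P.cons (P.lf 0 665090 0) (P.cons (P.lf 0 58986 0) (P.cons (P.lf 0 1380 0) P.nil))))) (P.cons (P.cons (P.lf 0 13481531 0) (P.cons (P.lf 0 168650 0) (P.cons (P.lf 83221 0 0) (P.cons (P.lf 0 973 0) P.nil)))) (P.cons (P.cons (P.lf 0 1698855 0) (P.cons (P.lf 0 109404 0) (P.cons (P.lf 43164 0 0) P.nil))) (P.cons (P.cons (P.lf 574494 0 0) (P.cons (P.lf 37907 0 0) P.nil)) (P.cons (P.cons (P.lf 0 12008 0) P.nil) P.nil)))))) 68969)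
 EL.nil))
noncomputable def S401_430_660_808_18 : EL := (EL.cons 4 (TM.mk (P.cons (P.lf 0 2377926426 0) (P.cons (P.lf 0 224771707 0) (P.cons (P.lf 25531065 0 0) (P.cons (P.lf 650420 0 0) (P.cons (P.lf 0 209580 0) (P.cons (P.lf 9701 0 0) P.nil)))))) 1817)
 (EL.cons 8 (TM.mk (P.cons (P.lf 523909239 0 0) (P.cons (P.lf 0 87897477 0) (P.cons (P.lf 0 10203278 0) (P.cons (P.lf 1362537 0 0) (P.cons (P.lf 0 9310 0) (P.cons (P.lf 0 8089 0) P.nil)))))) 965)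
 EL.nil))
noncomputable def S401_430_660_808_19 : EL := (EL.cons 4 (TM.mk (P.cons (P.cons (P.lf 0 1084524547 0) (P.cons (P.lf 9357746 0 0) (P.cons (P.lf 0 4035165 0) (P.lf 0 448350 0)))) (P.cons (P.cons (P.lf 0 340460057 0) (P.cons (P.lf 0 5594445 0) (P.cons (P.lf 2412388 0 0) (P.lf 268042 0 0)))) (P.cons (P.cons (P.lf 19442120 0 0) (P.cons (P.lf 872739 0 0) (P.cons (P.lf 0 376333 0) (P.lf 0 41813 0)))) (P.cons (P.cons (P.lf 5905766 0 0) (P.cons (P.lf 72273 0 0) (P.cons (P.lf 0 31165 0) P.nil))) (P.cons (P.cons (P.lf 0 575952 0) (P.cons (P.lf 0 29553 0) P.nil)) (P.cons (P.cons (P.lf 0 33242 0) P.nil) P.nil)))))) 56231)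
 (EL.cons 8 (TM.mk (P.cons (P.cons (P.lf 238944495 0 0) (P.cons (P.lf 0 2061716 0) (P.cons (P.lf 889035 0 0) (P.lf 98781 0 0)))) (P.cons (P.cons (P.lf 12336477 0 0) (P.cons (P.lf 1773360 0 0) (P.cons (P.lf 0 764692 0) (P.lf 0 84965 0)))) (P.cons (P.cons (P.lf 0 20122395 0) (P.cons (P.lf 0 548685 0) (P.cons (P.lf 236598 0 0) (P.lf 26288 0 0)))) (P.cons (P.cons (P.lf 677921 0 0) (P.cons (P.lf 57309 0 0) (P.cons (P.lf 0 24712 0) P.nil))) (P.cons (P.cons (P.lf 321640 0 0) (P.cons (P.lf 5528 0 0) P.nil)) (P.cons (P.cons (P.lf 0 33527 0) P.nil) P.nil)))))) 18062)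
 EL.nil))
noncomputable def S401_430_660_808_20 : EL := (EL.cons 4 (TM.mk (P.cons (P.cons (P.lf 0 494629892 0) (P.cons (P.lf 8535760 0 0) (P.cons (P.lf 0 3717540 0) (P.cons (P.lf 0 377208 0) (P.cons (P.lf 0 3317 0) (P.cons (P.lf 0 1520 0) P.nil)))))) (P.cons (P.cons (P.lf 0 263799487 0) (P.cons (P.lf 0 3230270 0) (P.cons (P.lf 1440440 0 0) (P.cons (P.lf 113793 0 0) (P.cons (P.lf 4281 0 0) P.nil))))) (P.cons (P.cons (P.lf 0 11386350 0) (P.cons (P.lf 0 561927 0) (P.cons (P.lf 217393 0 0) (P.cons (P.lf 48412 0 0) P.nil)))) (P.cons (P.cons (P.lf 9062919 0 0) (P.cons (P.lf 381601 0 0) (P.cons (P.lf 0 158157 0) P.nil))) (P.cons (P.cons (P.lf 0 680 0) (P.cons (P.lf 0 31950 0) P.nil)) (P.cons (P.cons (P.lf 0 176330 0) P.nil) P.nil)))))) 180953)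
 (EL.cons 8 (TM.mk (P.cons (P.cons (P.lf 108977792 0 0) (P.cons (P.lf 0 1880614 0) (P.cons (P.lf 819055 0 0) (P.cons (P.lf 83107 0 0) (P.cons (P.lf 731 0 0) (P.cons (P.lf 335 0 0) P.nil)))))) (P.cons (P.cons (P.lf 29536298 0 0) (P.cons (P.lf 1204978 0 0) (P.cons (P.lf 0 532196 0) (P.cons (P.lf 0 46870 0) (P.cons (P.lf 0 1135 0) P.nil))))) (P.cons (P.cons (P.lf 0 10986608 0) (P.cons (P.lf 0 93064 0) (P.cons (P.lf 48495 0 0) (P.cons (P.lf 0 2756 0) P.nil)))) (P.cons (P.cons (P.lf 0 1880711 0) (P.cons (P.lf 0 102377 0) (P.cons (P.lf 41118 0 0) P.nil))) (P.cons (P.cons (P.lf 493800 0 0) (P.cons (P.lf 29791 0 0) P.nil)) (P.cons (P.cons (P.lf 9488 0 0) P.nil) P.nil)))))) 65323)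
 EL.nil))
noncomputable def S401_430_660_808_21 : EL := (EL.cons 4 (TM.mk (P.cons (P.cons (P.lf 0 1464714834 0) (P.cons (P.lf 0 39882375 0) (P.cons (P.lf 17197731 0 0) (P.lf 1910853 0 0)))) (P.cons (P.cons (P.lf 623938542 0 0) (P.cons (P.lf 26356557 0 0) (P.cons (P.lf 0 11365245 0) (P.lf 0 1262799 0)))) (P.cons (P.cons (P.lf 0 48968532 0) (P.cons (P.lf 0 5705538 0) (P.cons (P.lf 2460285 0 0) (P.lf 273360 0 0)))) (P.cons (P.cons (P.lf 0 9378633 0) (P.cons (P.lf 269715 0 0) (P.cons (P.lf 0 116301 0) P.nil))) (P.cons (P.cons (P.lf 1476012 0 0) (P.cons (P.lf 61620 0 0) P.nil)) (P.cons (P.cons (P.lf 0 34989 0) P.nil) P.nil)))))) 127110)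
 (EL.cons 8 (TM.mk (P.cons (P.cons (P.lf 0 2363757405 0) (P.cons (P.lf 0 64362210 0) (P.cons (P.lf 27753711 0 0) (P.lf 3083745 0 0)))) (P.cons (P.cons (P.lf 386906802 0 0) (P.cons (P.lf 25652259 0 0) (P.cons (P.lf 0 11061543 0) (P.lf 0 1229061 0)))) (P.cons (P.cons (P.lf 60408513 0 0) (P.cons (P.lf 0 1445790 0) (P.cons (P.lf 623442 0 0) (P.lf 69273 0 0)))) (P.cons (P.cons (P.lf 0 8951958 0) (P.cons (P.lf 0 449718 0) (P.cons (P.lf 193923 0 0) P.nil))) (P.cons (P.cons (P.lf 0 57555 0) (P.cons (P.lf 50679 0 0) P.nil)) (P.cons (P.cons (P.lf 80451 0 0) P.nil) P.nil)))))) 75981)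
 (EL.cons 11 (TM.mk (P.cons (P.cons (P.lf 152845878 0 0) (P.cons (P.lf 0 142390074 0) (P.cons (P.lf 0 14613852 0) (P.cons (P.lf 3039273 0 0) (P.lf 253272 0 0))))) (P.cons (P.cons (P.lf 0 70550142 0) (P.cons (P.lf 65723982 0 0) (P.cons (P.lf 6745416 0 0) (P.cons (P.lf 0 1402857 0) (P.lf 0 116904 0))))) (P.cons (P.cons (P.lf 9125004 0 0) (P.cons (P.lf 0 8500785 0) (P.cons (P.lf 0 872457 0) (P.cons (P.lf 181446 0 0) P.nil)))) (P.cons (P.cons (P.lf 0 95034 0) (P.cons (P.lf 88533 0 0) (P.cons (P.lf 9084 0 0) P.nil))) (P.cons (P.cons (P.lf 0 39387 0) (P.cons (P.lf 36693 0 0) P.nil)) (P.cons (P.cons (P.lf 3114 0 0) P.nil) P.nil)))))) 25638)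
 EL.nil)))
noncomputable def S401_430_660_808_22 : EL := (EL.cons 4 (TM.mk (P.cons (P.cons (P.lf 0 668027055 0) (P.cons (P.lf 0 12425523 0) (P.cons (P.lf 5514972 0 0) (P.cons (P.lf 459978 0 0) (P.cons (P.lf 14142 0 0) (P.cons (P.lf 6483 0 0) P.nil)))))) (P.cons (P.cons (P.lf 137999790 0 0) (P.cons (P.lf 1583712 0 0) (P.cons (P.lf 0 895299 0) (P.cons (P.lf 107286 0 0) (P.cons (P.lf 0 19137 0) P.nil))))) (P.cons (P.cons (P.lf 58757850 0 0) (P.cons (P.lf 3412587 0 0) (P.cons (P.lf 0 1350690 0) (P.cons (P.lf 0 267735 0) P.nil)))) (P.cons (P.cons (P.lf 0 17007225 0) (P.cons (P.lf 0 1382064 0) (P.cons (P.lf 559353 0 0) P.nil))) (P.cons (P.cons (P.lf 161478 0 0) (P.cons (P.lf 159987 0 0) P.nil)) (P.cons (P.cons (P.lf 327630 0 0) P.nil) P.nil)))))) 438675)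
 (EL.cons 8 (TM.mk (P.cons (P.cons (P.lf 0 1078062339 0) (P.cons (P.lf 0 20052324 0) (P.cons (P.lf 8900067 0 0) (P.cons (P.lf 742317 0 0) (P.cons (P.lf 22824 0 0) (P.cons (P.lf 10464 0 0) P.nil)))))) (P.cons (P.cons (P.lf 0 60067941 0) (P.cons (P.lf 0 2703846 0) (P.cons (P.lf 889617 0 0) (P.cons (P.lf 367842 0 0) (P.cons (P.lf 0 24900 0) P.nil))))) (P.cons (P.cons (P.lf 96375888 0 0) (P.cons (P.lf 5119959 0 0) (P.cons (P.lf 0 2089281 0) (P.cons (P.lf 0 347502 0) P.nil)))) (P.cons (P.cons (P.lf 0 2776278 0) (P.cons (P.lf 0 873279 0) (P.cons (P.lf 353376 0 0) P.nil))) (P.cons (P.cons (P.lf 0 1959516 0) (P.cons (P.lf 0 54348 0) P.nil)) (P.cons (P.cons (P.lf 194949 0 0) P.nil) P.nil)))))) 329451)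
 (EL.cons 11 (TM.mk (P.cons (P.cons (P.lf 69709938 0 0) (P.cons (P.lf 0 65542743 0) (P.cons (P.lf 0 5845374 0) (P.cons (P.lf 1230852 0 0) (P.cons (P.lf 51906 0 0) (P.cons (P.lf 1404 0 0) P.nil)))))) (P.cons (P.cons (P.lf 0 16882047 0) (P.cons (P.lf 16421268 0 0) (P.cons (P.lf 668220 0 0) (P.cons (P.lf 0 156486 0) (P.cons (P.lf 45423 0 0) P.nil))))) (P.cons (P.cons (P.lf 0 4844760 0) (P.cons (P.lf 4183290 0 0) (P.cons (P.lf 913011 0 0) (P.cons (P.lf 0 181551 0) P.nil)))) (P.cons (P.cons (P.lf 1756107 0 0) (P.cons (P.lf 0 1554399 0) (P.cons (P.lf 0 279075 0) P.nil))) (P.cons (P.cons (P.lf 0 122712 0) (P.cons (P.lf 103932 0 0) P.nil)) (P.cons (P.cons (P.lf 0 10152 0) P.nil) P.nil)))))) 236196)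
 EL.nil)))
noncomputable def S401_430_660_808_23 : EL := (EL.cons 4 (TM.mk (P.cons (P.cons (P.lf 0 1228878195 0) (P.cons (P.lf 0 33460833 0) (P.cons (P.lf 14428689 0 0) (P.lf 1603182 0 0)))) (P.cons (P.cons (P.lf 484757364 0 0) (P.cons (P.lf 21058548 0 0) (P.cons (P.lf 0 9080682 0) (P.lf 0 1008960 0)))) (P.cons (P.cons (P.lf 0 18972246 0) (P.cons (P.lf 0 3937173 0) (P.cons (P.lf 1697745 0 0) (P.lf 188634 0 0)))) (P.cons (P.cons (P.lf 0 11785365 0) (P.cons (P.lf 0 31869 0) (P.cons (P.lf 13743 0 0) P.nil))) (P.cons (P.cons (P.lf 1274319 0 0) (P.cons (P.lf 84792 0 0) P.nil)) (P.cons (P.cons (P.lf 39345 0 0) P.nil) P.nil)))))) 152343)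
 (EL.cons 8 (TM.mk (P.cons (P.cons (P.lf 0 1983164139 0) (P.cons (P.lf 0 53999121 0) (P.cons (P.lf 23285028 0 0) (P.lf 2587224 0 0)))) (P.cons (P.cons (P.lf 262124469 0 0) (P.cons (P.lf 19820529 0 0) (P.cons (P.lf 0 8546835 0) (P.lf 0 949647 0)))) (P.cons (P.cons (P.lf 69976206 0 0) (P.cons (P.lf 0 288018 0) (P.cons (P.lf 124197 0 0) (P.lf 13800 0 0)))) (P.cons (P.cons (P.lf 0 7767531 0) (P.cons (P.lf 0 523986 0) (P.cons (P.lf 225948 0 0) P.nil))) (P.cons (P.cons (P.lf 0 458604 0) (P.cons (P.lf 40119 0 0) P.nil)) (P.cons (P.cons (P.lf 111321 0 0) P.nil) P.nil)))))) 92064)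
 (EL.cons 11 (TM.mk (P.cons (P.cons (P.lf 128235858 0 0) (P.cons (P.lf 0 119463564 0) (P.cons (P.lf 0 12260844 0) (P.cons (P.lf 2549913 0 0) (P.lf 212490 0 0))))) (P.cons (P.cons (P.lf 0 55150257 0) (P.cons (P.lf 51377565 0 0) (P.cons (P.lf 5273007 0 0) (P.cons (P.lf 0 1096635 0) (P.lf 0 91383 0))))) (P.cons (P.cons (P.lf 5204532 0 0) (P.cons (P.lf 0 4848501 0) (P.cons (P.lf 0 497613 0) (P.cons (P.lf 103488 0 0) P.nil)))) (P.cons (P.cons (P.lf 456000 0 0) (P.cons (P.lf 0 424806 0) (P.cons (P.lf 0 43599 0) P.nil))) (P.cons (P.cons (P.lf 0 81432 0) (P.cons (P.lf 75861 0 0) P.nil)) (P.cons (P.cons (P.lf 3213 0 0) P.nil) P.nil)))))) 46713)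
 EL.nil)))
noncomputable def S401_430_660_808_24 : EL := (EL.cons 4 (TM.mk (P.cons (P.cons (P.lf 0 560466696 0) (P.cons (P.lf 0 10424865 0) (P.cons (P.lf 4626996 0 0) (P.cons (P.lf 385917 0 0) (P.cons (P.lf 11865 0 0) (P.cons (P.lf 5439 0 0) P.nil)))))) (P.cons (P.cons (P.lf 98120940 0 0) (P.cons (P.lf 1000248 0 0) (P.cons (P.lf 0 605358 0) (P.cons (P.lf 102171 0 0) (P.cons (P.lf 0 15684 0) P.nil))))) (P.cons (P.cons (P.lf 55507404 0 0) (P.cons (P.lf 2952645 0 0) (P.cons (P.lf 0 1178031 0) (P.cons (P.lf 0 223554 0) P.nil)))) (P.cons (P.cons (P.lf 0 13349427 0) (P.cons (P.lf 0 1077342 0) (P.cons (P.lf 437883 0 0) P.nil))) (P.cons (P.cons (P.lf 0 518589 0) (P.cons (P.lf 84837 0 0) P.nil)) (P.cons (P.cons (P.lf 354042 0 0) P.nil) P.nil)))))) 387189)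
 (EL.cons 8 (TM.mk (P.cons (P.cons (P.lf 0 904481385 0) (P.cons (P.lf 0 16823658 0) (P.cons (P.lf 7467051 0 0) (P.cons (P.lf 622794 0 0) (P.cons (P.lf 19149 0 0) (P.cons (P.lf 8778 0 0) P.nil)))))) (P.cons (P.cons (P.lf 0 78894756 0) (P.cons (P.lf 0 2798574 0) (P.cons (P.lf 981651 0 0) (P.cons (P.lf 328239 0 0) (P.cons (P.lf 0 20286 0) P.nil))))) (P.cons (P.cons (P.lf 83405304 0 0) (P.cons (P.lf 4301022 0 0) (P.cons (P.lf 0 1763502 0) (P.cons (P.lf 0 284673 0) P.nil)))) (P.cons (P.cons (P.lf 280140 0 0) (P.cons (P.lf 0 590091 0) (P.cons (P.lf 239229 0 0) P.nil))) (P.cons (P.cons (P.lf 0 2097600 0) (P.cons (P.lf 0 88764 0) P.nil)) (P.cons (P.cons (P.lf 137946 0 0) P.nil) P.nil)))))) 299325)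
 (EL.cons 11 (TM.mk (P.cons (P.cons (P.lf 58485801 0 0) (P.cons (P.lf 0 54989577 0) (P.cons (P.lf 0 4904199 0) (P.cons (P.lf 1032669 0 0) (P.cons (P.lf 43548 0 0) (P.cons (P.lf 1179 0 0) P.nil)))))) (P.cons (P.cons (P.lf 0 12321057 0) (P.cons (P.lf 12044631 0 0) (P.cons (P.lf 406107 0 0) (P.cons (P.lf 0 98751 0) (P.cons (P.lf 39480 0 0) P.nil))))) (P.cons (P.cons (P.lf 0 4778349 0) (P.cons (P.lf 4195218 0 0) (P.cons (P.lf 806088 0 0) (P.cons (P.lf 0 161175 0) P.nil)))) (P.cons (P.cons (P.lf 1420941 0 0) (P.cons (P.lf 0 1266777 0) (P.cons (P.lf 0 213483 0) P.nil))) (P.cons (P.cons (P.lf 0 40515 0) (P.cons (P.lf 32562 0 0) P.nil)) (P.cons (P.cons (P.lf 0 19308 0) P.nil) P.nil)))))) 208005)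
 EL.nil)))
noncomputable def S401_430_660_808_25 : EL := (EL.cons 4 (TM.mk (P.cons (P.cons (P.lf 0 1031014080 0) (P.cons (P.lf 0 28073238 0) (P.cons (P.lf 12105498 0 0) (P.lf 1345050 0 0)))) (P.cons (P.cons (P.lf 374220342 0 0) (P.cons (P.lf 16783335 0 0) (P.cons (P.lf 0 7237164 0) (P.lf 0 804123 0)))) (P.cons (P.cons (P.lf 1610469 0 0) (P.cons (P.lf 0 2618217 0) (P.cons (P.lf 1128999 0 0) (P.lf 125439 0 0)))) (P.cons (P.cons (P.lf 0 12440898 0) (P.cons (P.lf 0 216822 0) (P.cons (P.lf 93498 0 0) P.nil))) (P.cons (P.cons (P.lf 904905 0 0) (P.cons (P.lf 88659 0 0) P.nil)) (P.cons (P.cons (P.lf 110043 0 0) P.nil) P.nil)))))) 158862)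
 (EL.cons 8 (TM.mk (P.cons (P.cons (P.lf 0 1663850952 0) (P.cons (P.lf 0 45304617 0) (P.cons (P.lf 19535862 0 0) (P.lf 2170650 0 0)))) (P.cons (P.cons (P.lf 167494536 0 0) (P.cons (P.lf 15201723 0 0) (P.cons (P.lf 0 6555153 0) (P.lf 0 728349 0)))) (P.cons (P.cons (P.lf 73244991 0 0) (P.cons (P.lf 489423 0 0) (P.cons (P.lf 0 211044 0) (P.lf 0 23448 0)))) (P.cons (P.cons (P.lf 0 5982732 0) (P.cons (P.lf 0 531705 0) (P.cons (P.lf 229275 0 0) P.nil))) (P.cons (P.cons (P.lf 0 819591 0) (P.cons (P.lf 23958 0 0) P.nil)) (P.cons (P.cons (P.lf 123255 0 0) P.nil) P.nil)))))) 97560)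
 (EL.cons 11 (TM.mk (P.cons (P.cons (P.lf 107588349 0 0) (P.cons (P.lf 0 100228500 0) (P.cons (P.lf 0 10286703 0) (P.cons (P.lf 2139345 0 0) (P.lf 178278 0 0))))) (P.cons (P.cons (P.lf 0 42880500 0) (P.cons (P.lf 39947151 0 0) (P.cons (P.lf 4099875 0 0) (P.cons (P.lf 0 852657 0) (P.lf 0 71052 0))))) (P.cons (P.cons (P.lf 2416791 0 0) (P.cons (P.lf 0 2251464 0) (P.cons (P.lf 0 231072 0) (P.cons (P.lf 48054 0 0) P.nil)))) (P.cons (P.cons (P.lf 751755 0 0) (P.cons (P.lf 0 700329 0) (P.cons (P.lf 0 71877 0) P.nil))) (P.cons (P.cons (P.lf 0 84720 0) (P.cons (P.lf 78924 0 0) P.nil)) (P.cons (P.cons (P.lf 0 510 0) P.nil) P.nil)))))) 56790)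
 EL.nil)))
noncomputable def S401_430_660_808_26 : EL := (EL.cons 4 (TM.mk (P.cons (P.cons (P.lf 0 470224842 0) (P.cons (P.lf 0 8746338 0) (P.cons (P.lf 3881994 0 0) (P.cons (P.lf 323778 0 0) (P.cons (P.lf 9954 0 0) (P.cons (P.lf 4563 0 0) P.nil)))))) (P.cons (P.cons (P.lf 67506408 0 0) (P.cons (P.lf 563616 0 0) (P.cons (P.lf 0 385572 0) (P.cons (P.lf 95922 0 0) (P.cons (P.lf 0 12843 0) P.nil))))) (P.cons (P.cons (P.lf 51313572 0 0) (P.cons (P.lf 2543661 0 0) (P.cons (P.lf 0 1022103 0) (P.cons (P.lf 0 186339 0) P.nil)))) (P.cons (P.cons (P.lf 0 10196715 0) (P.cons (P.lf 0 831291 0) (P.cons (P.lf 339282 0 0) P.nil))) (P.cons (P.cons (P.lf 0 986127 0) (P.cons (P.lf 31518 0 0) P.nil)) (P.cons (P.cons (P.lf 343593 0 0) P.nil) P.nil)))))) 337821)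
 (EL.cons 8 (TM.mk (P.cons (P.cons (P.lf 0 758849046 0) (P.cons (P.lf 0 14114847 0) (P.cons (P.lf 6264765 0 0) (P.cons (P.lf 522519 0 0) (P.cons (P.lf 16065 0 0) (P.cons (P.lf 7365 0 0) P.nil)))))) (P.cons (P.cons (P.lf 0 90101634 0) (P.cons (P.lf 0 2792703 0) (P.cons (P.lf 1020984 0 0) (P.cons (P.lf 291852 0 0) (P.cons (P.lf 0 16515 0) P.nil))))) (P.cons (P.cons (P.lf 71359674 0 0) (P.cons (P.lf 3599052 0 0) (P.cons (P.lf 0 1482246 0) (P.cons (P.lf 0 232548 0) P.nil)))) (P.cons (P.cons (P.lf 2600937 0 0) (P.cons (P.lf 0 373281 0) (P.cons (P.lf 151494 0 0) P.nil))) (P.cons (P.cons (P.lf 0 2085666 0) (P.cons (P.lf 0 107022 0) P.nil)) (P.cons (P.cons (P.lf 72618 0 0) P.nil) P.nil)))))) 267714)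
 (EL.cons 11 (TM.mk (P.cons (P.cons (P.lf 49068888 0 0) (P.cons (P.lf 0 46135596 0) (P.cons (P.lf 0 4114563 0) (P.cons (P.lf 866397 0 0) (P.cons (P.lf 36534 0 0) (P.cons (P.lf 987 0 0) P.nil)))))) (P.cons (P.cons (P.lf 0 8791155 0) (P.cons (P.lf 8651658 0 0) (P.cons (P.lf 211077 0 0) (P.cons (P.lf 0 55554 0) (P.cons (P.lf 34275 0 0) P.nil))))) (P.cons (P.cons (P.lf 0 4559010 0) (P.cons (P.lf 4049052 0 0) (P.cons (P.lf 705846 0 0) (P.cons (P.lf 0 141795 0) P.nil)))) (P.cons (P.cons (P.lf 1122246 0 0) (P.cons (P.lf 0 1006713 0) (P.cons (P.lf 0 160125 0) P.nil))) (P.cons (P.cons (P.lf 20031 0 0) (P.cons (P.lf 0 20430 0) P.nil)) (P.cons (P.cons (P.lf 0 23508 0) P.nil) P.nil)))))) 181125)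
 EL.nil)))
noncomputable def S401_430_660_808_27 : EL := (EL.cons 13 (TM.mk (P.lf 0 4294967296 0) 0)
 EL.nil)
noncomputable def S401_430_660_808_28 : EL := (EL.cons 13 (TM.mk (P.cons (P.cons (P.lf 0 1958848438 0) (P.cons (P.lf 16901792 0 0) (P.cons (P.lf 0 7288244 0) (P.lf 0 809804 0)))) (P.cons (P.cons (P.lf 0 429774065 0) (P.cons (P.lf 0 11702216 0) (P.cons (P.lf 5046128 0 0) (P.lf 560680 0 0)))) (P.cons (P.cons (P.lf 54708520 0 0) (P.cons (P.lf 2863940 0 0) (P.cons (P.lf 0 1234960 0) (P.lf 0 137216 0)))) (P.cons (P.cons (P.lf 345461 0 0) (P.cons (P.lf 0 261192 0) (P.cons (P.lf 112628 0 0) P.nil))) (P.cons (P.cons (P.lf 0 430451 0) (P.cons (P.lf 0 2632 0) P.nil)) (P.cons (P.cons (P.lf 29204 0 0) P.nil) P.nil)))))) 27405)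
 EL.nil)
noncomputable def S401_430_660_808_29 : EL := (EL.cons 13 (TM.mk (P.cons (P.cons (P.lf 0 893391483 0) (P.cons (P.lf 15417136 0 0) (P.cons (P.lf 0 6714556 0) (P.cons (P.lf 0 681308 0) (P.cons (P.lf 0 5994 0) (P.cons (P.lf 0 2748 0) P.nil)))))) (P.cons (P.cons (P.lf 0 392022661 0) (P.cons (P.lf 0 7291750 0) (P.cons (P.lf 3236387 0 0) (P.cons (P.lf 269933 0 0) (P.cons (P.lf 8300 0 0) P.nil))))) (P.cons (P.cons (P.lf 6897759 0 0) (P.cons (P.lf 0 160167 0) (P.cons (P.lf 14644 0 0) (P.cons (P.lf 54613 0 0) P.nil)))) (P.cons (P.cons (P.lf 11263884 0 0) (P.cons (P.lf 630311 0 0) (P.cons (P.lf 0 254135 0) P.nil))) (P.cons (P.cons (P.lf 0 1020370 0) (P.cons (P.lf 0 122363 0) P.nil)) (P.cons (P.cons (P.lf 0 68307 0) P.nil) P.nil)))))) 218036)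
 EL.nil)
noncomputable def S401_430_660_808_30 : EL := (EL.cons 13 (TM.mk (P.cons (P.lf 0 3603426100 0) (P.cons (P.lf 0 113537048 0) (P.cons (P.lf 16473628 0 0) (P.cons (P.lf 0 671992 0) (P.cons (P.lf 0 4560 0) (P.cons (P.lf 2084 0 0) P.nil)))))) 368)
 EL.nil)
noncomputable def S401_430_660_808_31 : EL := (EL.cons 13 (TM.mk (P.cons (P.cons (P.lf 0 1643450368 0) (P.cons (P.lf 14180400 0 0) (P.cons (P.lf 0 6114749 0) (P.lf 0 679415 0)))) (P.cons (P.cons (P.lf 0 412357261 0) (P.cons (P.lf 0 9371221 0) (P.cons (P.lf 4040976 0 0) (P.lf 448996 0 0)))) (P.cons (P.cons (P.lf 42052047 0 0) (P.cons (P.lf 2028636 0 0) (P.cons (P.lf 0 874768 0) (P.lf 0 97195 0)))) (P.cons (P.cons (P.lf 3077996 0 0) (P.cons (P.lf 0 95899 0) (P.cons (P.lf 41352 0 0) P.nil))) (P.cons (P.cons (P.lf 0 631171 0) (P.cons (P.lf 0 21910 0) P.nil)) (P.cons (P.cons (P.lf 20851 0 0) P.nil) P.nil))))))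 44326)
 EL.nil)
noncomputable def S401_430_660_808_32 : EL := (EL.cons 13 (TM.mk (P.cons (P.cons (P.lf 0 749544749 0) (P.cons (P.lf 12934792 0 0) (P.cons (P.lf 0 5633432 0) (P.cons (P.lf 0 571609 0) (P.cons (P.lf 0 5028 0) (P.cons (P.lf 0 2305 0) P.nil)))))) (P.cons (P.cons (P.lf 0 352519033 0) (P.cons (P.lf 0 5710140 0) (P.cons (P.lf 2537791 0 0) (P.cons (P.lf 208460 0 0) (P.cons (P.lf 6805 0 0) P.nil))))) (P.cons (P.cons (P.lf 0 1149282 0) (P.cons (P.lf 0 386268 0) (P.cons (P.lf 123593 0 0) (P.cons (P.lf 55568 0 0) P.nil)))) (P.cons (P.cons (P.lf 10996453 0 0) (P.cons (P.lf 554969 0 0) (P.cons (P.lf 0 226293 0) P.nil))) (P.cons (P.cons (P.lf 0 647059 0) (P.cons (P.lf 0 86509 0) P.nil)) (P.cons (P.cons (P.lf 0 126388 0) P.nil) P.nil)))))) 215640)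
 EL.nil)
noncomputable def S401_430_660_808_33 : EL := (EL.cons 14 (TM.mk (P.lf 8589934592 0 0) 0)
 EL.nil)
noncomputable def S401_430_660_808_34 : EL := (EL.cons 14 (TM.mk (P.cons (P.cons (P.lf 3917696876 0 0) (P.cons (P.lf 0 33803584 0) (P.cons (P.lf 14576488 0 0) (P.lf 1619608 0 0)))) (P.cons (P.cons (P.lf 859548130 0 0) (P.cons (P.lf 23404432 0 0) (P.cons (P.lf 0 10092256 0) (P.lf 0 1121360 0)))) (P.cons (P.cons (P.lf 0 109417040 0) (P.cons (P.lf 0 5727880 0) (P.cons (P.lf 2469920 0 0) (P.lf 274432 0 0)))) (P.cons (P.cons (P.lf 0 690922 0) (P.cons (P.lf 522384 0 0) (P.cons (P.lf 0 225256 0) P.nil))) (P.cons (P.cons (P.lf 860902 0 0) (P.cons (P.lf 5264 0 0) P.nil)) (P.cons (P.cons (P.lf 0 58408 0) P.nil) P.nil)))))) 54810)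
 EL.nil)
noncomputable def S401_430_660_808_35 : EL := (EL.cons 14 (TM.mk (P.cons (P.cons (P.lf 1786782966 0 0) (P.cons (P.lf 0 30834272 0) (P.cons (P.lf 13429112 0 0) (P.cons (P.lf 1362616 0 0) (P.cons (P.lf 11988 0 0) (P.cons (P.lf 5496 0 0) P.nil)))))) (P.cons (P.cons (P.lf 784045322 0 0) (P.cons (P.lf 14583500 0 0) (P.cons (P.lf 0 6472774 0) (P.cons (P.lf 0 539866 0) (P.cons (P.lf 0 16600 0) P.nil))))) (P.cons (P.cons (P.lf 0 13795518 0) (P.cons (P.lf 320334 0 0) (P.cons (P.lf 0 29288 0) (P.cons (P.lf 0 109226 0) P.nil)))) (P.cons (P.cons (P.lf 0 22527768 0) (P.cons (P.lf 0 1260622 0) (P.cons (P.lf 508270 0 0) P.nil))) (P.cons (P.cons (P.lf 2040740 0 0) (P.cons (P.lf 244726 0 0) P.nil)) (P.cons (P.cons (P.lf 136614 0 0) P.nil) P.nil)))))) 436072)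
 EL.nil)
noncomputable def S401_430_660_808_36 : EL := (EL.cons 14 (TM.mk (P.cons (P.lf 7206852200 0 0) (P.cons (P.lf 227074096 0 0) (P.cons (P.lf 0 32947256 0) (P.cons (P.lf 1343984 0 0) (P.cons (P.lf 9120 0 0) (P.cons (P.lf 0 4168 0) P.nil)))))) 736)
 EL.nil)
noncomputable def S401_430_660_808_37 : EL := (EL.cons 14 (TM.mk (P.cons (P.cons (P.lf 3286900736 0 0) (P.cons (P.lf 0 28360800 0) (P.cons (P.lf 12229498 0 0) (P.lf 1358830 0 0)))) (P.cons (P.cons (P.lf 824714522 0 0) (P.cons (P.lf 18742442 0 0) (P.cons (P.lf 0 8081952 0) (P.lf 0 897992 0)))) (P.cons (P.cons (P.lf 0 84104094 0) (P.cons (P.lf 0 4057272 0) (P.cons (P.lf 1749536 0 0) (P.lf 194390 0 0)))) (P.cons (P.cons (P.lf 0 6155992 0) (P.cons (P.lf 191798 0 0) (P.cons (P.lf 0 82704 0) P.nil))) (P.cons (P.cons (P.lf 1262342 0 0) (P.cons (P.lf 43820 0 0) P.nil)) (P.cons (P.cons (P.lf 0 41702 0) P.nil) P.nil))))))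 88652)
 EL.nil)
noncomputable def S401_430_660_808_38 : EL := (EL.cons 14 (TM.mk (P.cons (P.cons (P.lf 1499089498 0 0) (P.cons (P.lf 0 25869584 0) (P.cons (P.lf 11266864 0 0) (P.cons (P.lf 1143218 0 0) (P.cons (P.lf 10056 0 0) (P.cons (P.lf 4610 0 0) P.nil)))))) (P.cons (P.cons (P.lf 705038066 0 0) (P.cons (P.lf 11420280 0 0) (P.cons (P.lf 0 5075582 0) (P.cons (P.lf 0 416920 0) (P.cons (P.lf 0 13610 0) P.nil))))) (P.cons (P.cons (P.lf 2298564 0 0) (P.cons (P.lf 772536 0 0) (P.cons (P.lf 0 247186 0) (P.cons (P.lf 0 111136 0) P.nil)))) (P.cons (P.cons (P.lf 0 21992906 0) (P.cons (P.lf 0 1109938 0) (P.cons (P.lf 452586 0 0) P.nil))) (P.cons (P.cons (P.lf 1294118 0 0) (P.cons (P.lf 173018 0 0) P.nil)) (P.cons (P.cons (P.lf 252776 0 0) P.nil) P.nil)))))) 431280)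
 EL.nil)
noncomputable def S401_430_660_808_39 : EL := (EL.cons 14 (TM.mk (P.cons (P.lf 6046462644 0 0) (P.cons (P.lf 381024890 0 0) (P.cons (P.lf 0 49282024 0) (P.cons (P.lf 513256 0 0) (P.cons (P.lf 212730 0 0) (P.cons (P.lf 0 16820 0) P.nil)))))) 1830)
 EL.nil)
noncomputable def S401_430_660_808_40 : EL := (EL.cons 14 (TM.mk (P.cons (P.cons (P.lf 2757670334 0 0) (P.cons (P.lf 0 23794372 0) (P.cons (P.lf 10260402 0 0) (P.lf 1140042 0 0)))) (P.cons (P.cons (P.lf 778814506 0 0) (P.cons (P.lf 14974970 0 0) (P.cons (P.lf 0 6457376 0) (P.lf 0 717484 0)))) (P.cons (P.cons (P.lf 0 61368202 0) (P.cons (P.lf 0 2799768 0) (P.cons (P.lf 1207286 0 0) (P.lf 134140 0 0)))) (P.cons (P.cons (P.lf 0 10037064 0) (P.cons (P.lf 0 22660 0) (P.cons (P.lf 9772 0 0) P.nil))) (P.cons (P.cons (P.lf 1351468 0 0) (P.cons (P.lf 60298 0 0) P.nil)) (P.cons (P.cons (P.lf 8114 0 0) P.nil)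 P.nil)))))) 106926)
 EL.nil)
noncomputable def S401_430_660_808_41 : EL := (EL.cons 14 (TM.mk (P.cons (P.cons (P.lf 1257718128 0 0) (P.cons (P.lf 0 21704270 0) (P.cons (P.lf 9452762 0 0) (P.cons (P.lf 959146 0 0) (P.cons (P.lf 8438 0 0) (P.cons (P.lf 3868 0 0) P.nil)))))) (P.cons (P.cons (P.lf 631146776 0 0) (P.cons (P.lf 8897618 0 0) (P.cons (P.lf 0 3960514 0) (P.cons (P.lf 0 319570 0) (P.cons (P.lf 0 11152 0) P.nil))))) (P.cons (P.cons (P.lf 14816226 0 0) (P.cons (P.lf 1049266 0 0) (P.cons (P.lf 0 384774 0) (P.cons (P.lf 0 108648 0) P.nil)))) (P.cons (P.cons (P.lf 0 20860694 0) (P.cons (P.lf 0 958654 0) (P.cons (P.lf 394410 0 0) P.nil))) (P.cons (P.cons (P.lf 607454 0 0) (P.cons (P.lf 114614 0 0) P.nil)) (P.cons (P.cons (P.lf 331022 0 0) P.nil) P.nil)))))) 408656)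
 EL.nil)
noncomputable def S401_430_660_808_42 : EL := (EL.cons 14 (TM.mk (P.cons (P.lf 5072909710 0 0) (P.cons (P.lf 479512976 0 0) (P.cons (P.lf 0 54466274 0) (P.cons (P.lf 0 1387564 0) (P.cons (P.lf 447104 0 0) (P.cons (P.lf 0 20696 0) P.nil)))))) 3862)
 EL.nil)
noncomputable def S401_430_660_808_43 : EL := (EL.cons 14 (TM.mk (P.cons (P.cons (P.lf 2313652368 0 0) (P.cons (P.lf 0 19963192 0) (P.cons (P.lf 8608354 0 0) (P.lf 956482 0 0)))) (P.cons (P.cons (P.lf 726314790 0 0) (P.cons (P.lf 11934818 0 0) (P.cons (P.lf 0 5146428 0) (P.lf 0 571824 0)))) (P.cons (P.cons (P.lf 0 41476524 0) (P.cons (P.lf 0 1861844 0) (P.cons (P.lf 802844 0 0) (P.lf 89202 0 0)))) (P.cons (P.cons (P.lf 0 12598968 0) (P.cons (P.lf 0 154184 0) (P.cons (P.lf 66486 0 0) P.nil))) (P.cons (P.cons (P.lf 1228698 0 0) (P.cons (P.lf 63048 0 0) P.nil)) (P.cons (P.cons (P.lf 70918 0 0) P.nil)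 P.nil)))))) 119920)
 EL.nil)
noncomputable def S401_430_660_808_44 : EL := (EL.cons 14 (TM.mk (P.cons (P.cons (P.lf 1055210438 0 0) (P.cons (P.lf 0 18209622 0) (P.cons (P.lf 7930754 0 0) (P.cons (P.lf 804712 0 0) (P.cons (P.lf 7078 0 0) (P.cons (P.lf 3244 0 0) P.nil)))))) (P.cons (P.cons (P.lf 562772240 0 0) (P.cons (P.lf 6891244 0 0) (P.cons (P.lf 0 3072940 0) (P.cons (P.lf 0 242760 0) (P.cons (P.lf 0 9134 0) P.nil))))) (P.cons (P.cons (P.lf 24290880 0 0) (P.cons (P.lf 1198778 0 0) (P.cons (P.lf 0 463772 0) (P.cons (P.lf 0 103280 0) P.nil)))) (P.cons (P.cons (P.lf 0 19334228 0) (P.cons (P.lf 0 814084 0) (P.cons (P.lf 337402 0 0) P.nil))) (P.cons (P.cons (P.lf 1452 0 0) (P.cons (P.lf 68162 0 0) P.nil)) (P.cons (P.cons (P.lf 376172 0 0) P.nil) P.nil)))))) 385988)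
 EL.nil)
noncomputable def S401_430_660_808_45 : EL := (EL.cons 14 (TM.mk (P.cons (P.cons (P.lf 814915872 0 0) (P.cons (P.lf 0 21094338 0) (P.cons (P.lf 9278128 0 0) (P.cons (P.lf 853184 0 0) (P.cons (P.lf 17078 0 0) (P.cons (P.lf 7302 0 0) P.nil)))))) (P.cons (P.cons (P.lf 536381018 0 0) (P.cons (P.lf 5348734 0 0) (P.cons (P.lf 0 2518536 0) (P.cons (P.lf 0 72260 0) (P.cons (P.lf 0 20520 0) P.nil))))) (P.cons (P.cons (P.lf 49403580 0 0) (P.cons (P.lf 2997226 0 0) (P.cons (P.lf 0 1203888 0) (P.cons (P.lf 0 220994 0) P.nil)))) (P.cons (P.cons (P.lf 0 21785650 0) (P.cons (P.lf 0 1089258 0) (P.cons (P.lf 461050 0 0) P.nil))) (P.cons (P.cons (P.lf 0 1031754 0) (P.cons (P.lf 0 34308 0) P.nil)) (P.cons (P.cons (P.lf 621006 0 0) P.nil) P.nil)))))) 638828)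
 EL.nil)
noncomputable def S401_430_660_808_46 : EL := (EL.cons 15 (TM.mk (P.lf 4294967296 0 0) 0)
 EL.nil)
noncomputable def S401_430_660_808_47 : EL := (EL.cons 15 (TM.mk (P.cons (P.cons (P.lf 1958848438 0 0) (P.cons (P.lf 0 16901792 0) (P.cons (P.lf 7288244 0 0) (P.lf 809804 0 0)))) (P.cons (P.cons (P.lf 429774065 0 0) (P.cons (P.lf 11702216 0 0) (P.cons (P.lf 0 5046128 0) (P.lf 0 560680 0)))) (P.cons (P.cons (P.lf 0 54708520 0) (P.cons (P.lf 0 2863940 0) (P.cons (P.lf 1234960 0 0) (P.lf 137216 0 0)))) (P.cons (P.cons (P.lf 0 345461 0) (P.cons (P.lf 261192 0 0) (P.cons (P.lf 0 112628 0) P.nil))) (P.cons (P.cons (P.lf 430451 0 0) (P.cons (P.lf 2632 0 0) P.nil)) (P.cons (P.cons (P.lf 0 29204 0) P.nil) P.nil)))))) 27405)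
 EL.nil)
noncomputable def S401_430_660_808_48 : EL := (EL.cons 15 (TM.mk (P.cons (P.cons (P.lf 893391483 0 0) (P.cons (P.lf 0 15417136 0) (P.cons (P.lf 6714556 0 0) (P.cons (P.lf 681308 0 0) (P.cons (P.lf 5994 0 0) (P.cons (P.lf 2748 0 0) P.nil)))))) (P.cons (P.cons (P.lf 392022661 0 0) (P.cons (P.lf 7291750 0 0) (P.cons (P.lf 0 3236387 0) (P.cons (P.lf 0 269933 0) (P.cons (P.lf 0 8300 0) P.nil))))) (P.cons (P.cons (P.lf 0 6897759 0) (P.cons (P.lf 160167 0 0) (P.cons (P.lf 0 14644 0) (P.cons (P.lf 0 54613 0) P.nil)))) (P.cons (P.cons (P.lf 0 11263884 0) (P.cons (P.lf 0 630311 0) (P.cons (P.lf 254135 0 0) P.nil))) (P.cons (P.cons (P.lf 1020370 0 0) (P.cons (P.lf 122363 0 0) P.nil)) (P.cons (P.cons (P.lf 68307 0 0) P.nil) P.nil)))))) 218036)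
 EL.nil)
noncomputable def S401_430_660_808 : SL := (SL.cons S401_430_660_808_0 (SL.cons S401_430_660_808_1 (SL.cons S401_430_660_808_2 (SL.cons S401_430_660_808_3 (SL.cons S401_430_660_808_4 (SL.cons S401_430_660_808_5 (SL.cons S401_430_660_808_6 (SL.cons S401_430_660_808_7 (SL.cons S401_430_660_808_8 (SL.cons S401_430_660_808_9 (SL.cons S401_430_660_808_10 (SL.cons S401_430_660_808_11 (SL.cons S401_430_660_808_12 (SL.cons S401_430_660_808_13 (SL.cons S401_430_660_808_14 (SL.cons S401_430_660_808_15 (SL.cons S401_430_660_808_16 (SL.cons S401_430_660_808_17 (SL.cons S401_430_660_808_18 (SL.cons S401_430_660_808_19 (SL.cons S401_430_660_808_20 (SL.cons S401_430_660_808_21 (SL.cons S401_430_660_808_22 (SL.cons S401_430_660_808_23 (SL.cons S401_430_660_808_24 (SL.cons S401_430_660_808_25 (SL.cons S401_430_660_808_26 (SL.cons S401_430_660_808_27 (SL.cons S401_430_660_808_28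 (SL.cons S401_430_660_808_29 (SL.cons S401_430_660_808_30 (SL.cons S401_430_660_808_31 (SL.cons S401_430_660_808_32 (SL.cons S401_430_660_808_33 (SL.cons S401_430_660_808_34 (SL.cons S401_430_660_808_35 (SL.cons S401_430_660_808_36 (SL.cons S401_430_660_808_37 (SL.cons S401_430_660_808_38 (SL.cons S401_430_660_808_39 (SL.cons S401_430_660_808_40 (SL.cons S401_430_660_808_41 (SL.cons S401_430_660_808_42 (SL.cons S401_430_660_808_43 (SL.cons S401_430_660_808_44 (SL.cons S401_430_660_808_45 (SL.cons S401_430_660_808_46 (SL.cons S401_430_660_808_47 (SL.cons S401_430_660_808_48 SL.nil)))))))))))))))))))))))))))))))))))))))))))))))))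
noncomputable def S415_430_216_364_0 : EL := (EL.cons 0 (TM.mk (P.cons (P.lf 2989808471 0 0) (P.cons (P.lf 0 151789681 0) (P.cons (P.lf 11347892 0 0) (P.cons (P.lf 0 107694 0) (P.cons (P.lf 0 10908 0) (P.cons (P.lf 508 0 0) P.nil)))))) 254)
 (EL.cons 1 (TM.mk (P.cons (P.lf 1056085295 0 0) (P.cons (P.lf 0 124999670 0) (P.cons (P.lf 0 1931002 0) (P.cons (P.lf 262657 0 0) (P.cons (P.lf 0 6836 0) (P.cons (P.lf 0 50 0) P.nil)))))) 121)
 (EL.cons 5 (TM.mk (P.cons (P.lf 6238401394 0 0) (P.cons (P.lf 53969664 0 0) (P.cons (P.lf 0 4034804 0) (P.cons (P.lf 38296 0 0) (P.cons (P.lf 3876 0 0) (P.cons (P.lf 0 182 0) P.nil)))))) 55)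
 (EL.cons 9 (TM.mk (P.lf 6442450944 0 0) 2)
 EL.nil))))
noncomputable def S415_430_216_364_1 : EL := (EL.cons 0 (TM.mk (P.cons (P.cons (P.lf 2960346398 0 0) (P.cons (P.lf 37119207 0 0) (P.cons (P.lf 16006214 0 0) (P.lf 0 1778452 0)))) (P.cons (P.cons (P.lf 0 239561960 0) (P.cons (P.lf 0 13045759 0) (P.cons (P.lf 0 5625457 0) (P.lf 625041 0 0)))) (P.cons (P.cons (P.lf 0 8534485 0) (P.cons (P.lf 1282196 0 0) (P.cons (P.lf 552890 0 0) (P.lf 0 61419 0)))) (P.cons (P.cons (P.lf 3065951 0 0) (P.cons (P.lf 31887 0 0) (P.cons (P.lf 13761 0 0) P.nil))) (P.cons (P.cons (P.lf 0 74806 0) (P.cons (P.lf 0 12102 0) P.nil)) (P.cons (P.cons (P.lf 0 8019 0) P.nil) P.nil)))))) 35636)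
 (EL.cons 1 (TM.mk (P.cons (P.cons (P.lf 1689356159 0 0) (P.cons (P.lf 34460455 0 0) (P.cons (P.lf 14859734 0 0) (P.lf 0 1651086 0)))) (P.cons (P.cons (P.lf 0 40485699 0) (P.cons (P.lf 0 5542841 0) (P.cons (P.lf 0 2390139 0) (P.lf 265574 0 0)))) (P.cons (P.cons (P.lf 0 28073000 0) (P.cons (P.lf 0 490672 0) (P.cons (P.lf 0 211583 0) (P.lf 23506 0 0)))) (P.cons (P.cons (P.lf 455931 0 0) (P.cons (P.lf 120655 0 0) (P.cons (P.lf 52024 0 0) P.nil))) (P.cons (P.cons (P.lf 115120 0 0) (P.cons (P.lf 0 4255 0) P.nil)) (P.cons (P.cons (P.lf 0 5706 0) P.nil) P.nil)))))) 13979)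
 (EL.cons 5 (TM.mk (P.cons (P.cons (P.lf 2834361998 0 0) (P.cons (P.lf 0 33411666 0) (P.cons (P.lf 0 14407486 0) (P.lf 1600826 0 0)))) (P.cons (P.cons (P.lf 326971284 0 0) (P.cons (P.lf 12658074 0 0) (P.cons (P.lf 5458296 0 0) (P.lf 0 606476 0)))) (P.cons (P.cons (P.lf 0 9191273 0) (P.cons (P.lf 0 1585724 0) (P.cons (P.lf 0 683778 0) (P.lf 75970 0 0)))) (P.cons (P.cons (P.lf 0 1680286 0) (P.cons (P.lf 50268 0 0) (P.cons (P.lf 21672 0 0) P.nil))) (P.cons (P.cons (P.lf 72787 0 0) (P.cons (P.lf 4086 0 0) P.nil)) (P.cons (P.cons (P.lf 2158 0 0) P.nil) P.nil)))))) 10865)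
 (EL.cons 9 (TM.mk (P.cons (P.cons (P.lf 3429643758 0 0) (P.cons (P.lf 0 17835636 0) (P.cons (P.lf 0 7690926 0) (P.lf 854544 0 0)))) (P.cons (P.cons (P.lf 213347380 0 0) (P.cons (P.lf 7076100 0 0) (P.cons (P.lf 3051288 0 0) (P.lf 0 339030 0)))) (P.cons (P.cons (P.lf 0 10787431 0) (P.cons (P.lf 0 996906 0) (P.cons (P.lf 0 429876 0) (P.lf 47760 0 0)))) (P.cons (P.cons (P.lf 0 520746 0) (P.cons (P.lf 54354 0 0) (P.cons (P.lf 23436 0 0) P.nil))) (P.cons (P.cons (P.lf 40753 0 0) (P.cons (P.lf 0 186 0) P.nil)) (P.cons (P.cons (P.lf 0 606 0) P.nil) P.nil)))))) 4213)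
 (EL.cons 2 (TM.mk (P.cons (P.cons (P.lf 0 96442042 0) (P.cons (P.lf 0 89844682 0) (P.cons (P.lf 9220983 0 0) (P.cons (P.lf 1917705 0 0) (P.lf 0 159806 0))))) (P.cons (P.cons (P.lf 24169125 0 0) (P.cons (P.lf 22515778 0 0) (P.cons (P.lf 0 2310848 0) (P.cons (P.lf 0 480588 0) (P.lf 40047 0 0))))) (P.cons (P.cons (P.lf 0 1443414 0) (P.cons (P.lf 0 1344673 0) (P.cons (P.lf 138003 0 0) (P.cons (P.lf 28698 0 0) P.nil)))) (P.cons (P.cons (P.lf 0 39785 0) (P.cons (P.lf 0 37063 0) (P.cons (P.lf 3802 0 0) P.nil))) (P.cons (P.cons (P.lf 4896 0 0) (P.cons (P.lf 4561 0 0) P.nil)) (P.cons (P.cons (P.lf 0 123 0) P.nil) P.nil)))))) 6548)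
 (EL.cons 6 (TM.mk (P.cons (P.cons (P.lf 18633867 0 0) (P.cons (P.lf 17359173 0 0) (P.cons (P.lf 0 1781613 0) (P.cons (P.lf 0 370524 0) (P.lf 30876 0 0))))) (P.cons (P.cons (P.lf 0 7392789 0) (P.cons (P.lf 0 6887067 0) (P.cons (P.lf 706836 0 0) (P.cons (P.lf 147000 0 0) (P.lf 0 12249 0))))) (P.cons (P.cons (P.lf 1041522 0 0) (P.cons (P.lf 970275 0 0) (P.cons (P.lf 0 99579 0) (P.cons (P.lf 0 20709 0) P.nil)))) (P.cons (P.cons (P.lf 0 56787 0) (P.cons (P.lf 0 52902 0) (P.cons (P.lf 5427 0 0) P.nil))) (P.cons (P.cons (P.lf 198 0 0) (P.cons (P.lf 183 0 0) P.nil)) (P.cons (P.cons (P.lf 93 0 0) P.nil) P.nil)))))) 3384)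
 EL.nil))))))
noncomputable def S415_430_216_364_2 : EL := (EL.cons 0 (TM.mk (P.cons (P.cons (P.lf 2304581611 0 0) (P.cons (P.lf 31942398 0 0) (P.cons (P.lf 13545474 0 0) (P.cons (P.lf 0 1727430 0) (P.cons (P.lf 0 20580 0) (P.cons (P.lf 9435 0 0) P.nil)))))) (P.cons (P.cons (P.lf 0 121392516 0) (P.cons (P.lf 0 6997452 0) (P.cons (P.lf 0 2844246 0) (P.cons (P.lf 484558 0 0) (P.cons (P.lf 15591 0 0) P.nil))))) (P.cons (P.cons (P.lf 0 30679826 0) (P.cons (P.lf 0 587861 0) (P.cons (P.lf 0 307916 0) (P.cons (P.lf 0 18758 0) P.nil)))) (P.cons (P.cons (P.lf 3137897 0 0) (P.cons (P.lf 234292 0 0) (P.cons (P.lf 109881 0 0) P.nil))) (P.cons (P.cons (P.lf 200433 0 0) (P.cons (P.lf 0 9075 0) P.nil)) (P.cons (P.cons (P.lf 0 24697 0) P.nil) P.nil)))))) 157300)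
 (EL.cons 1 (TM.mk (P.cons (P.cons (P.lf 1499368353 0 0) (P.cons (P.lf 30449182 0 0) (P.cons (P.lf 12931132 0 0) (P.cons (P.lf 0 1630432 0) (P.cons (P.lf 0 17929 0) (P.cons (P.lf 8215 0 0) P.nil)))))) (P.cons (P.cons (P.lf 66972384 0 0) (P.cons (P.lf 0 1093711 0) (P.cons (P.lf 0 357859 0) (P.cons (P.lf 150527 0 0) (P.cons (P.lf 10253 0 0) P.nil))))) (P.cons (P.cons (P.lf 0 32549083 0) (P.cons (P.lf 0 1256305 0) (P.cons (P.lf 0 564781 0) (P.cons (P.lf 40307 0 0) P.nil)))) (P.cons (P.cons (P.lf 0 1395513 0) (P.cons (P.lf 82882 0 0) (P.cons (P.lf 36943 0 0) P.nil))) (P.cons (P.cons (P.lf 237000 0 0) (P.cons (P.lf 12811 0 0) P.nil)) (P.cons (P.cons (P.lf 3676 0 0) P.nil) P.nil)))))) 68817)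
 (EL.cons 5 (TM.mk (P.cons (P.cons (P.lf 1249803202 0 0) (P.cons (P.lf 0 32878874 0) (P.cons (P.lf 0 14040555 0) (P.cons (P.lf 1693601 0 0) (P.cons (P.lf 12361 0 0) (P.cons (P.lf 0 5660 0) P.nil)))))) (P.cons (P.cons (P.lf 300599904 0 0) (P.cons (P.lf 9687644 0 0) (P.cons (P.lf 4071463 0 0) (P.cons (P.lf 0 555533 0) (P.cons (P.lf 0 9537 0) P.nil))))) (P.cons (P.cons (P.lf 5898805 0 0) (P.cons (P.lf 0 395078 0) (P.cons (P.lf 0 135955 0) (P.cons (P.lf 48596 0 0) P.nil)))) (P.cons (P.cons (P.lf 0 2553786 0) (P.cons (P.lf 0 116131 0) (P.cons (P.lf 0 56041 0) P.nil))) (P.cons (P.cons (P.lf 0 40695 0) (P.cons (P.lf 9302 0 0) P.nil)) (P.cons (P.cons (P.lf 13070 0 0) P.nil) P.nil)))))) 51831)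
 (EL.cons 9 (TM.mk (P.cons (P.cons (P.lf 1825773514 0 0) (P.cons (P.lf 0 18989628 0) (P.cons (P.lf 0 8139163 0) (P.cons (P.lf 952417 0 0) (P.cons (P.lf 4449 0 0) (P.cons (P.lf 0 2040 0) P.nil)))))) (P.cons (P.cons (P.lf 227151286 0 0) (P.cons (P.lf 6352648 0 0) (P.cons (P.lf 2700147 0 0) (P.cons (P.lf 0 338157 0) (P.cons (P.lf 0 3529 0) P.nil))))) (P.cons (P.cons (P.lf 0 4420210 0) (P.cons (P.lf 0 533014 0) (P.cons (P.lf 0 216549 0) (P.cons (P.lf 36996 0 0) P.nil)))) (P.cons (P.cons (P.lf 0 1268908 0) (P.cons (P.lf 0 28969 0) (P.cons (P.lf 0 14983 0) P.nil))) (P.cons (P.cons (P.lf 26962 0 0) (P.cons (P.lf 5370 0 0) P.nil)) (P.cons (P.cons (P.lf 3796 0 0) P.nil) P.nil)))))) 23731)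
 (EL.cons 2 (TM.mk (P.cons (P.cons (P.lf 0 102681990 0) (P.cons (P.lf 0 95123778 0) (P.cons (P.lf 10545322 0 0) (P.cons (P.lf 2179653 0 0) (P.cons (P.lf 0 226614 0) (P.cons (P.lf 0 1243 0) P.nil)))))) (P.cons (P.cons (P.lf 19345381 0 0) (P.cons (P.lf 17676331 0 0) (P.cons (P.lf 0 2320734 0) (P.cons (P.lf 0 473917 0) (P.cons (P.lf 68608 0 0) P.nil))))) (P.cons (P.cons (P.lf 386926 0 0) (P.cons (P.lf 451389 0 0) (P.cons (P.lf 86923 0 0) (P.cons (P.lf 15778 0 0) P.nil)))) (P.cons (P.cons (P.lf 0 203304 0) (P.cons (P.lf 0 201453 0) (P.cons (P.lf 3003 0 0) P.nil))) (P.cons (P.cons (P.lf 2283 0 0) (P.cons (P.lf 2874 0 0) P.nil)) (P.cons (P.cons (P.lf 877 0 0) P.nil) P.nil)))))) 45533)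
 (EL.cons 6 (TM.mk (P.cons (P.cons (P.lf 19839504 0 0) (P.cons (P.lf 18379158 0 0) (P.cons (P.lf 0 2037492 0) (P.cons (P.lf 0 421134 0) (P.cons (P.lf 43782 0 0) (P.cons (P.lf 240 0 0) P.nil)))))) (P.cons (P.cons (P.lf 0 6636960 0) (P.cons (P.lf 0 6101076 0) (P.cons (P.lf 746136 0 0) (P.cons (P.lf 153108 0 0) (P.cons (P.lf 0 19650 0) P.nil))))) (P.cons (P.cons (P.lf 556872 0 0) (P.cons (P.lf 491004 0 0) (P.cons (P.lf 0 91092 0) (P.cons (P.lf 0 18240 0) P.nil)))) (P.cons (P.cons (P.lf 30264 0 0) (P.cons (P.lf 33396 0 0) (P.cons (P.lf 4194 0 0) P.nil))) (P.cons (P.cons (P.lf 0 5604 0) (P.cons (P.lf 0 5796 0) P.nil)) (P.cons (P.cons (P.lf 36 0 0) P.nil) P.nil)))))) 13092)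
 EL.nil))))))
noncomputable def S415_430_216_364_3 : EL := (EL.cons 0 (TM.mk (P.cons (P.lf 5465908392 0 0) (P.cons (P.lf 151789681 0 0) (P.cons (P.lf 0 11347892 0) (P.cons (P.lf 107694 0 0) (P.cons (P.lf 10908 0 0) (P.cons (P.lf 0 508 0) P.nil)))))) 254)
 (EL.cons 1 (TM.mk (P.cons (P.lf 0 1056085295 0) (P.cons (P.lf 124999670 0 0) (P.cons (P.lf 1931002 0 0) (P.cons (P.lf 0 262657 0) (P.cons (P.lf 6836 0 0) (P.cons (P.lf 50 0 0) P.nil)))))) 121)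
 (EL.cons 5 (TM.mk (P.cons (P.lf 204049550 0 0) (P.cons (P.lf 0 53969664 0) (P.cons (P.lf 4034804 0 0) (P.cons (P.lf 0 38296 0) (P.cons (P.lf 0 3876 0) (P.cons (P.lf 182 0 0) P.nil)))))) 48)
 EL.nil)))
noncomputable def S415_430_216_364_4 : EL := (EL.cons 0 (TM.mk (P.cons (P.cons (P.lf 2909780572 0 0) (P.cons (P.lf 0 15132120 0) (P.cons (P.lf 0 6525138 0) (P.lf 725011 0 0)))) (P.cons (P.cons (P.lf 261813675 0 0) (P.cons (P.lf 5583285 0 0) (P.cons (P.lf 2407570 0 0) (P.lf 0 267505 0)))) (P.cons (P.cons (P.lf 0 10166690 0) (P.cons (P.lf 0 647658 0) (P.cons (P.lf 0 279275 0) (P.lf 31027 0 0)))) (P.cons (P.cons (P.lf 0 1014437 0) (P.cons (P.lf 9864 0 0) (P.cons (P.lf 4252 0 0) P.nil))) (P.cons (P.cons (P.lf 50681 0 0) (P.cons (P.lf 2965 0 0) P.nil)) (P.cons (P.cons (P.lf 1272 0 0) P.nil) P.nil)))))) 7384)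
 (EL.cons 1 (TM.mk (P.cons (P.cons (P.lf 0 562207826 0) (P.cons (P.lf 2923723 0 0) (P.cons (P.lf 1260742 0 0) (P.lf 0 140081 0)))) (P.cons (P.cons (P.lf 31570486 0 0) (P.cons (P.lf 0 1506011 0) (P.cons (P.lf 0 649408 0) (P.lf 72155 0 0)))) (P.cons (P.cons (P.lf 6935784 0 0) (P.cons (P.lf 295365 0 0) (P.cons (P.lf 127365 0 0) (P.lf 0 14150 0)))) (P.cons (P.cons (P.lf 0 199816 0) (P.cons (P.lf 0 25402 0) (P.cons (P.lf 0 10953 0) P.nil))) (P.cons (P.cons (P.lf 0 25076 0) (P.cons (P.lf 478 0 0) P.nil)) (P.cons (P.cons (P.lf 1426 0 0) P.nil) P.nil)))))) 2809)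
 (EL.cons 5 (TM.mk (P.cons (P.cons (P.lf 108625936 0 0) (P.cons (P.lf 0 564900 0) (P.cons (P.lf 0 243590 0) (P.lf 27064 0 0)))) (P.cons (P.cons (P.lf 0 21973514 0) (P.cons (P.lf 373530 0 0) (P.cons (P.lf 161070 0 0) (P.lf 0 17896 0)))) (P.cons (P.cons (P.lf 19012 0 0) (P.cons (P.lf 0 102022 0) (P.cons (P.lf 0 43992 0) (P.lf 4886 0 0)))) (P.cons (P.cons (P.lf 187102 0 0) (P.cons (P.lf 14610 0 0) (P.cons (P.lf 6300 0 0) P.nil))) (P.cons (P.cons (P.lf 0 4434 0) (P.cons (P.lf 0 1116 0) P.nil)) (P.cons (P.cons (P.lf 0 652 0) P.nil) P.nil)))))) 1522)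
 EL.nil)))
noncomputable def S415_430_216_364_5 : EL := (EL.cons 0 (TM.mk (P.cons (P.cons (P.lf 1549023943 0 0) (P.cons (P.lf 0 16111191 0) (P.cons (P.lf 0 6905432 0) (P.cons (P.lf 808050 0 0) (P.cons (P.lf 3774 0 0) (P.cons (P.lf 0 1729 0) P.nil)))))) (P.cons (P.cons (P.lf 235736632 0 0) (P.cons (P.lf 4942306 0 0) (P.cons (P.lf 2099093 0 0) (P.cons (P.lf 0 264459 0) (P.cons (P.lf 0 2888 0) P.nil))))) (P.cons (P.cons (P.lf 0 1614280 0) (P.cons (P.lf 0 269096 0) (P.cons (P.lf 0 105769 0) (P.cons (P.lf 21742 0 0) P.nil)))) (P.cons (P.cons (P.lf 0 1550300 0) (P.cons (P.lf 0 48642 0) (P.cons (P.lf 0 22705 0) P.nil))) (P.cons (P.cons (P.lf 7653 0 0) (P.cons (P.lf 4884 0 0) P.nil)) (P.cons (P.cons (P.lf 6257 0 0) P.nil) P.nil)))))) 23796)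
 (EL.cons 1 (TM.mk (P.cons (P.cons (P.lf 0 299291771 0) (P.cons (P.lf 3112893 0 0) (P.cons (P.lf 1334220 0 0) (P.cons (P.lf 0 156125 0) (P.cons (P.lf 0 727 0) (P.cons (P.lf 333 0 0) P.nil)))))) (P.cons (P.cons (P.lf 0 1811428 0) (P.cons (P.lf 0 1409808 0) (P.cons (P.lf 0 600543 0) (P.cons (P.lf 73910 0 0) (P.cons (P.lf 663 0 0) P.nil))))) (P.cons (P.cons (P.lf 5679131 0 0) (P.cons (P.lf 204939 0 0) (P.cons (P.lf 85447 0 0) (P.cons (P.lf 0 12339 0) P.nil)))) (P.cons (P.cons (P.lf 115890 0 0) (P.cons (P.lf 0 2913 0) (P.cons (P.lf 0 603 0) P.nil))) (P.cons (P.cons (P.lf 0 37687 0) (P.cons (P.lf 0 1880 0) P.nil)) (P.cons (P.cons (P.lf 0 43 0) P.nil) P.nil)))))) 6605)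
 (EL.cons 5 (TM.mk (P.cons (P.cons (P.lf 57827100 0 0) (P.cons (P.lf 0 601450 0) (P.cons (P.lf 0 257788 0) (P.cons (P.lf 30164 0 0) (P.cons (P.lf 140 0 0) (P.cons (P.lf 0 64 0) P.nil)))))) (P.cons (P.cons (P.lf 0 8100374 0) (P.cons (P.lf 360284 0 0) (P.cons (P.lf 153704 0 0) (P.cons (P.lf 0 18688 0) (P.cons (P.lf 0 148 0) P.nil))))) (P.cons (P.cons (P.lf 0 899436 0) (P.cons (P.lf 0 81992 0) (P.cons (P.lf 0 34574 0) (P.cons (P.lf 4600 0 0) P.nil)))) (P.cons (P.cons (P.lf 128246 0 0) (P.cons (P.lf 7638 0 0) (P.cons (P.lf 3078 0 0) P.nil))) (P.cons (P.cons (P.lf 6266 0 0) (P.cons (P.lf 52 0 0) P.nil)) (P.cons (P.cons (P.lf 0 958 0) P.nil) P.nil)))))) 1940)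
 EL.nil)))
noncomputable def S415_430_216_364_6 : EL := (EL.cons 12 (TM.mk (P.lf 8589934592 0 0) 0)
 (EL.cons 3 (TM.mk (P.cons (P.lf 3426069015 0 0) (P.cons (P.lf 47571408 0 0) (P.cons (P.lf 0 3886736 0) (P.cons (P.lf 87720 0 0) (P.cons (P.lf 0 3 0) (P.cons (P.lf 0 60 0) P.nil)))))) 78)
 (EL.cons 7 (TM.mk (P.cons (P.lf 0 661961535 0) (P.cons (P.lf 87542076 0 0) (P.cons (P.lf 0 756135 0) (P.cons (P.lf 0 37875 0) (P.cons (P.lf 1711 0 0) (P.cons (P.lf 0 26 0) P.nil)))))) 43)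
 EL.nil)))
noncomputable def S415_430_216_364_7 : EL := (EL.cons 12 (TM.mk (P.cons (P.cons (P.lf 4572858344 0 0) (P.cons (P.lf 0 23780848 0) (P.cons (P.lf 0 10254568 0) (P.lf 1139392 0 0)))) (P.cons (P.cons (P.lf 284463174 0 0) (P.cons (P.lf 9434800 0 0) (P.cons (P.lf 4068384 0 0) (P.lf 0 452040 0)))) (P.cons (P.cons (P.lf 0 14383242 0) (P.cons (P.lf 0 1329208 0) (P.cons (P.lf 0 573168 0) (P.lf 63680 0 0)))) (P.cons (P.cons (P.lf 0 694328 0) (P.cons (P.lf 72472 0 0) (P.cons (P.lf 31248 0 0) P.nil))) (P.cons (P.cons (P.lf 54338 0 0) (P.cons (P.lf 0 248 0) P.nil)) (P.cons (P.cons (P.lf 0 808 0) P.nil) P.nil)))))) 5592)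
 (EL.cons 3 (TM.mk (P.cons (P.cons (P.lf 2681793331 0 0) (P.cons (P.lf 18969836 0 0) (P.cons (P.lf 8180004 0 0) (P.lf 0 908884 0)))) (P.cons (P.cons (P.lf 0 34700388 0) (P.cons (P.lf 0 7262682 0) (P.cons (P.lf 0 3131742 0) (P.lf 347968 0 0)))) (P.cons (P.cons (P.lf 0 5695726 0) (P.cons (P.lf 934278 0 0) (P.cons (P.lf 402870 0 0) (P.lf 0 44758 0)))) (P.cons (P.cons (P.lf 1049514 0 0) (P.cons (P.lf 0 34062 0) (P.cons (P.lf 0 14684 0) P.nil))) (P.cons (P.cons (P.lf 0 37025 0) (P.cons (P.lf 0 1998 0) P.nil)) (P.cons (P.cons (P.lf 0 1039 0) P.nil) P.nil)))))) 14474)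
 (EL.cons 7 (TM.mk (P.cons (P.cons (P.lf 1226374895 0 0) (P.cons (P.lf 54195765 0 0) (P.cons (P.lf 23369823 0 0) (P.lf 0 2596647 0)))) (P.cons (P.cons (P.lf 0 63856505 0) (P.cons (P.lf 0 13364969 0) (P.cons (P.lf 0 5763126 0) (P.lf 640348 0 0)))) (P.cons (P.cons (P.lf 0 15147144 0) (P.cons (P.lf 742768 0 0) (P.cons (P.lf 320288 0 0) (P.lf 0 35588 0)))) (P.cons (P.cons (P.lf 547356 0 0) (P.cons (P.lf 28855 0 0) (P.cons (P.lf 12444 0 0) P.nil))) (P.cons (P.cons (P.lf 21349 0 0) (P.cons (P.lf 0 2754 0) P.nil)) (P.cons (P.cons (P.lf 0 1893 0) P.nil) P.nil)))))) 8112)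
 (EL.cons 10 (TM.mk (P.cons (P.cons (P.lf 0 120901074 0) (P.cons (P.lf 0 112630533 0) (P.cons (P.lf 11559555 0 0) (P.cons (P.lf 2404065 0 0) (P.lf 0 200337 0))))) (P.cons (P.cons (P.lf 31977477 0 0) (P.cons (P.lf 29789979 0 0) (P.cons (P.lf 0 3057420 0) (P.cons (P.lf 0 635856 0) (P.lf 52986 0 0))))) (P.cons (P.cons (P.lf 0 2390655 0) (P.cons (P.lf 0 2227116 0) (P.cons (P.lf 228573 0 0) (P.cons (P.lf 47535 0 0) P.nil)))) (P.cons (P.cons (P.lf 22689 0 0) (P.cons (P.lf 21138 0 0) (P.cons (P.lf 0 2169 0) P.nil))) (P.cons (P.cons (P.lf 2295 0 0) (P.cons (P.lf 2139 0 0) P.nil)) (P.cons (P.cons (P.lf 0 105 0) P.nil) P.nil)))))) 4986)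
 EL.nil))))
noncomputable def S415_430_216_364_8 : EL := (EL.cons 12 (TM.mk (P.cons (P.cons (P.lf 2434364686 0 0) (P.cons (P.lf 0 25319504 0) (P.cons (P.lf 0 10852218 0) (P.cons (P.lf 1269890 0 0) (P.cons (P.lf 5932 0 0) (P.cons (P.lf 0 2720 0) P.nil)))))) (P.cons (P.cons (P.lf 302868382 0 0) (P.cons (P.lf 8470198 0 0) (P.cons (P.lf 3600196 0 0) (P.cons (P.lf 0 450876 0) (P.cons (P.lf 0 4706 0) P.nil))))) (P.cons (P.cons (P.lf 0 5893614 0) (P.cons (P.lf 0 710686 0) (P.cons (P.lf 0 288732 0) (P.cons (P.lf 49328 0 0) P.nil)))) (P.cons (P.cons (P.lf 0 1691878 0) (P.cons (P.lf 0 38626 0) (P.cons (P.lf 0 19978 0) P.nil))) (P.cons (P.cons (P.lf 35950 0 0) (P.cons (P.lf 7160 0 0) P.nil)) (P.cons (P.cons (P.lf 5062 0 0) P.nil) P.nil)))))) 31612)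
 (EL.cons 3 (TM.mk (P.cons (P.cons (P.lf 1884370641 0 0) (P.cons (P.lf 15446971 0 0) (P.cons (P.lf 6529611 0 0) (P.cons (P.lf 0 853326 0) (P.cons (P.lf 0 11831 0) (P.cons (P.lf 5426 0 0) P.nil)))))) (P.cons (P.cons (P.lf 6394557 0 0) (P.cons (P.lf 0 3631015 0) (P.cons (P.lf 0 1463374 0) (P.cons (P.lf 262239 0 0) (P.cons (P.lf 9220 0 0) P.nil))))) (P.cons (P.cons (P.lf 0 15568620 0) (P.cons (P.lf 0 199386 0) (P.cons (P.lf 0 119717 0) (P.cons (P.lf 0 19542 0) P.nil)))) (P.cons (P.cons (P.lf 1242467 0 0) (P.cons (P.lf 107969 0 0) (P.cons (P.lf 52570 0 0) P.nil))) (P.cons (P.cons (P.lf 77974 0 0) (P.cons (P.lf 0 5615 0) P.nil)) (P.cons (P.cons (P.lf 0 10000 0) P.nil) P.nil)))))) 76947)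
 (EL.cons 7 (TM.mk (P.cons (P.cons (P.lf 1493321393 0 0) (P.cons (P.lf 48960799 0 0) (P.cons (P.lf 20817444 0 0) (P.cons (P.lf 0 2600244 0) (P.cons (P.lf 0 26581 0) (P.cons (P.lf 12185 0 0) P.nil)))))) (P.cons (P.cons (P.lf 11767418 0 0) (P.cons (P.lf 0 6681889 0) (P.cons (P.lf 0 2692955 0) (P.cons (P.lf 482585 0 0) (P.cons (P.lf 16971 0 0) P.nil))))) (P.cons (P.cons (P.lf 0 27789963 0) (P.cons (P.lf 0 855113 0) (P.cons (P.lf 0 417074 0) (P.cons (P.lf 0 726 0) P.nil)))) (P.cons (P.cons (P.lf 0 437783 0) (P.cons (P.lf 124958 0 0) (P.cons (P.lf 59966 0 0) P.nil))) (P.cons (P.cons (P.lf 155888 0 0) (P.cons (P.lf 4883 0 0) P.nil)) (P.cons (P.cons (P.lf 0 1224 0) P.nil) P.nil)))))) 63699)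
 (EL.cons 10 (TM.mk (P.cons (P.cons (P.lf 0 128723556 0) (P.cons (P.lf 0 119248482 0) (P.cons (P.lf 13219758 0 0) (P.cons (P.lf 2732448 0 0) (P.cons (P.lf 0 284088 0) (P.cons (P.lf 0 1560 0) P.nil)))))) (P.cons (P.cons (P.lf 26038980 0 0) (P.cons (P.lf 23815074 0 0) (P.cons (P.lf 0 3092862 0) (P.cons (P.lf 0 632052 0) (P.cons (P.lf 89952 0 0) P.nil))))) (P.cons (P.cons (P.lf 0 22524 0) (P.cons (P.lf 99906 0 0) (P.cons (P.lf 166908 0 0) (P.cons (P.lf 31656 0 0) P.nil)))) (P.cons (P.cons (P.lf 0 221718 0) (P.cons (P.lf 0 223866 0) (P.cons (P.lf 0 2394 0) P.nil))) (P.cons (P.cons (P.lf 5250 0 0) (P.cons (P.lf 6216 0 0) P.nil)) (P.cons (P.cons (P.lf 774 0 0) P.nil) P.nil)))))) 56778)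
 EL.nil))))
noncomputable def S415_430_216_364_9 : EL := (EL.cons 3 (TM.mk (P.cons (P.lf 3426069015 0 0) (P.cons (P.lf 47571408 0 0) (P.cons (P.lf 0 3886736 0) (P.cons (P.lf 87720 0 0) (P.cons (P.lf 0 3 0) (P.cons (P.lf 0 60 0) P.nil)))))) 78)
 (EL.cons 7 (TM.mk (P.cons (P.lf 0 661961535 0) (P.cons (P.lf 87542076 0 0) (P.cons (P.lf 0 756135 0) (P.cons (P.lf 0 37875 0) (P.cons (P.lf 1711 0 0) (P.cons (P.lf 0 26 0) P.nil)))))) 43)
 EL.nil))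
noncomputable def S415_430_216_364_10 : EL := (EL.cons 3 (TM.mk (P.cons (P.cons (P.lf 1823870497 0 0) (P.cons (P.lf 0 9484918 0) (P.cons (P.lf 0 4090002 0) (P.lf 454442 0 0)))) (P.cons (P.cons (P.lf 138781938 0 0) (P.cons (P.lf 3631341 0 0) (P.cons (P.lf 1565871 0 0) (P.lf 0 173984 0)))) (P.cons (P.cons (P.lf 0 6230449 0) (P.cons (P.lf 0 467139 0) (P.cons (P.lf 0 201435 0) (P.lf 22379 0 0)))) (P.cons (P.cons (P.lf 0 438600 0) (P.cons (P.lf 17031 0 0) (P.cons (P.lf 7342 0 0) P.nil))) (P.cons (P.cons (P.lf 27238 0 0) (P.cons (P.lf 999 0 0) P.nil)) (P.cons (P.cons (P.lf 113 0 0) P.nil) P.nil)))))) 3526)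
 (EL.cons 7 (TM.mk (P.cons (P.cons (P.lf 0 352395736 0) (P.cons (P.lf 1832610 0 0) (P.cons (P.lf 790242 0 0) (P.lf 0 87804 0)))) (P.cons (P.cons (P.lf 24681658 0 0) (P.cons (P.lf 0 969425 0) (P.cons (P.lf 0 418026 0) (P.lf 46447 0 0)))) (P.cons (P.cons (P.lf 3604911 0 0) (P.cons (P.lf 200677 0 0) (P.cons (P.lf 86534 0 0) (P.lf 0 9614 0)))) (P.cons (P.cons (P.lf 0 138279 0) (P.cons (P.lf 0 19856 0) (P.cons (P.lf 0 8562 0) P.nil))) (P.cons (P.cons (P.lf 0 10340 0) (P.cons (P.lf 828 0 0) P.nil)) (P.cons (P.cons (P.lf 783 0 0) P.nil) P.nil)))))) 1667)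
 EL.nil))
noncomputable def S415_430_216_364_11 : EL := (EL.cons 3 (TM.mk (P.cons (P.cons (P.lf 970938873 0 0) (P.cons (P.lf 0 10098605 0) (P.cons (P.lf 0 4328373 0) (P.cons (P.lf 506490 0 0) (P.cons (P.lf 2365 0 0) (P.cons (P.lf 0 1084 0) P.nil)))))) (P.cons (P.cons (P.lf 134279733 0 0) (P.cons (P.lf 3238091 0 0) (P.cons (P.lf 1375826 0 0) (P.cons (P.lf 0 172797 0) (P.cons (P.lf 0 1844 0) P.nil))))) (P.cons (P.cons (P.lf 0 1774842 0) (P.cons (P.lf 0 225090 0) (P.cons (P.lf 0 90311 0) (P.cons (P.lf 16602 0 0) P.nil)))) (P.cons (P.cons (P.lf 0 819619 0) (P.cons (P.lf 0 23431 0) (P.cons (P.lf 0 11306 0) P.nil))) (P.cons (P.cons (P.lf 10726 0 0) (P.cons (P.lf 3049 0 0) P.nil)) (P.cons (P.cons (P.lf 2906 0 0) P.nil) P.nil)))))) 13853)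
 (EL.cons 7 (TM.mk (P.cons (P.cons (P.lf 0 187598143 0) (P.cons (P.lf 1951183 0 0) (P.cons (P.lf 836298 0 0) (P.cons (P.lf 0 97860 0) (P.cons (P.lf 0 457 0) (P.cons (P.lf 209 0 0) P.nil)))))) (P.cons (P.cons (P.lf 1469408 0 0) (P.cons (P.lf 0 910771 0) (P.cons (P.lf 0 388037 0) (P.cons (P.lf 47687 0 0) (P.cons (P.lf 423 0 0) P.nil))))) (P.cons (P.cons (P.lf 3326493 0 0) (P.cons (P.lf 143317 0 0) (P.cons (P.lf 59896 0 0) (P.cons (P.lf 0 8508 0) P.nil)))) (P.cons (P.cons (P.lf 32923 0 0) (P.cons (P.lf 0 4900 0) (P.cons (P.lf 0 1672 0) P.nil))) (P.cons (P.cons (P.lf 0 20344 0) (P.cons (P.lf 0 925 0) P.nil)) (P.cons (P.cons (P.lf 204 0 0) P.nil) P.nil)))))) 3827)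
 EL.nil))
noncomputable def S415_430_216_364_12 : EL := (EL.cons 4 (TM.mk (P.cons (P.lf 0 3426069015 0) (P.cons (P.lf 0 47571408 0) (P.cons (P.lf 3886736 0 0) (P.cons (P.lf 0 87720 0) (P.cons (P.lf 3 0 0) (P.cons (P.lf 60 0 0) P.nil)))))) 78)
 (EL.cons 8 (TM.mk (P.cons (P.lf 661961535 0 0) (P.cons (P.lf 0 87542076 0) (P.cons (P.lf 756135 0 0) (P.cons (P.lf 37875 0 0) (P.cons (P.lf 0 1711 0) (P.cons (P.lf 26 0 0) P.nil)))))) 43)
 EL.nil))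
noncomputable def S415_430_216_364_13 : EL := (EL.cons 4 (TM.mk (P.cons (P.cons (P.lf 0 1823870497 0) (P.cons (P.lf 9484918 0 0) (P.cons (P.lf 4090002 0 0) (P.lf 0 454442 0)))) (P.cons (P.cons (P.lf 0 138781938 0) (P.cons (P.lf 0 3631341 0) (P.cons (P.lf 0 1565871 0) (P.lf 173984 0 0)))) (P.cons (P.cons (P.lf 6230449 0 0) (P.cons (P.lf 467139 0 0) (P.cons (P.lf 201435 0 0) (P.lf 0 22379 0)))) (P.cons (P.cons (P.lf 438600 0 0) (P.cons (P.lf 0 17031 0) (P.cons (P.lf 0 7342 0) P.nil))) (P.cons (P.cons (P.lf 0 27238 0) (P.cons (P.lf 0 999 0) P.nil)) (P.cons (P.cons (P.lf 0 113 0) P.nil) P.nil)))))) 3526)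
 (EL.cons 8 (TM.mk (P.cons (P.cons (P.lf 352395736 0 0) (P.cons (P.lf 0 1832610 0) (P.cons (P.lf 0 790242 0) (P.lf 87804 0 0)))) (P.cons (P.cons (P.lf 0 24681658 0) (P.cons (P.lf 969425 0 0) (P.cons (P.lf 418026 0 0) (P.lf 0 46447 0)))) (P.cons (P.cons (P.lf 0 3604911 0) (P.cons (P.lf 0 200677 0) (P.cons (P.lf 0 86534 0) (P.lf 9614 0 0)))) (P.cons (P.cons (P.lf 138279 0 0) (P.cons (P.lf 19856 0 0) (P.cons (P.lf 8562 0 0) P.nil))) (P.cons (P.cons (P.lf 10340 0 0) (P.cons (P.lf 0 828 0) P.nil)) (P.cons (P.cons (P.lf 0 783 0) P.nil) P.nil)))))) 1667)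
 EL.nil))
noncomputable def S415_430_216_364_14 : EL := (EL.cons 4 (TM.mk (P.cons (P.cons (P.lf 0 970938873 0) (P.cons (P.lf 10098605 0 0) (P.cons (P.lf 4328373 0 0) (P.cons (P.lf 0 506490 0) (P.cons (P.lf 0 2365 0) (P.cons (P.lf 1084 0 0) P.nil)))))) (P.cons (P.cons (P.lf 0 134279733 0) (P.cons (P.lf 0 3238091 0) (P.cons (P.lf 0 1375826 0) (P.cons (P.lf 172797 0 0) (P.cons (P.lf 1844 0 0) P.nil))))) (P.cons (P.cons (P.lf 1774842 0 0) (P.cons (P.lf 225090 0 0) (P.cons (P.lf 90311 0 0) (P.cons (P.lf 0 16602 0) P.nil)))) (P.cons (P.cons (P.lf 819619 0 0) (P.cons (P.lf 23431 0 0) (P.cons (P.lf 11306 0 0) P.nil))) (P.cons (P.cons (P.lf 0 10726 0) (P.cons (P.lf 0 3049 0) P.nil)) (P.cons (P.cons (P.lf 0 2906 0) P.nil) P.nil)))))) 13853)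
 (EL.cons 8 (TM.mk (P.cons (P.cons (P.lf 187598143 0 0) (P.cons (P.lf 0 1951183 0) (P.cons (P.lf 0 836298 0) (P.cons (P.lf 97860 0 0) (P.cons (P.lf 457 0 0) (P.cons (P.lf 0 209 0) P.nil)))))) (P.cons (P.cons (P.lf 0 1469408 0) (P.cons (P.lf 910771 0 0) (P.cons (P.lf 388037 0 0) (P.cons (P.lf 0 47687 0) (P.cons (P.lf 0 423 0) P.nil))))) (P.cons (P.cons (P.lf 0 3326493 0) (P.cons (P.lf 0 143317 0) (P.cons (P.lf 0 59896 0) (P.cons (P.lf 8508 0 0) P.nil)))) (P.cons (P.cons (P.lf 0 32923 0) (P.cons (P.lf 4900 0 0) (P.cons (P.lf 1672 0 0) P.nil))) (P.cons (P.cons (P.lf 20344 0 0) (P.cons (P.lf 925 0 0) P.nil)) (P.cons (P.cons (P.lf 0 204 0) P.nil) P.nil)))))) 3827)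
 EL.nil))
noncomputable def S415_430_216_364_15 : EL := (EL.cons 4 (TM.mk (P.cons (P.lf 0 2915151142 0) (P.cons (P.lf 0 80954496 0) (P.cons (P.lf 6052209 0 0) (P.cons (P.lf 0 57436 0) (P.cons (P.lf 0 5818 0) (P.cons (P.lf 270 0 0) P.nil)))))) 139)
 (EL.cons 8 (TM.mk (P.cons (P.lf 563245491 0 0) (P.cons (P.lf 0 66666491 0) (P.cons (P.lf 0 1029868 0) (P.cons (P.lf 140084 0 0) (P.cons (P.lf 0 3646 0) (P.cons (P.lf 0 27 0) P.nil)))))) 61)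
 EL.nil))
noncomputable def S415_430_216_364_16 : EL := (EL.cons 4 (TM.mk (P.cons (P.cons (P.lf 0 1551882972 0) (P.cons (P.lf 8070464 0 0) (P.cons (P.lf 3480074 0 0) (P.lf 0 386672 0)))) (P.cons (P.cons (P.lf 0 139633960 0) (P.cons (P.lf 0 2977752 0) (P.cons (P.lf 0 1284037 0) (P.lf 142669 0 0)))) (P.cons (P.cons (P.lf 5422234 0 0) (P.cons (P.lf 345418 0 0) (P.cons (P.lf 148947 0 0) (P.lf 0 16547 0)))) (P.cons (P.cons (P.lf 541033 0 0) (P.cons (P.lf 0 5261 0) (P.cons (P.lf 0 2267 0) P.nil))) (P.cons (P.cons (P.lf 0 27030 0) (P.cons (P.lf 0 1581 0) P.nil)) (P.cons (P.cons (P.lf 0 678 0) P.nil) P.nil)))))) 3947)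
 (EL.cons 8 (TM.mk (P.cons (P.cons (P.lf 299844174 0 0) (P.cons (P.lf 0 1559319 0) (P.cons (P.lf 0 672396 0) (P.lf 74710 0 0)))) (P.cons (P.cons (P.lf 0 16837593 0) (P.cons (P.lf 803206 0 0) (P.cons (P.lf 346351 0 0) (P.lf 0 38483 0)))) (P.cons (P.cons (P.lf 0 3699085 0) (P.cons (P.lf 0 157528 0) (P.cons (P.lf 0 67928 0) (P.lf 7547 0 0)))) (P.cons (P.cons (P.lf 106569 0 0) (P.cons (P.lf 13548 0 0) (P.cons (P.lf 5842 0 0) P.nil))) (P.cons (P.cons (P.lf 13374 0 0) (P.cons (P.lf 0 255 0) P.nil)) (P.cons (P.cons (P.lf 0 761 0) P.nil) P.nil)))))) 1488)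
 EL.nil))
noncomputable def S415_430_216_364_17 : EL := (EL.cons 4 (TM.mk (P.cons (P.cons (P.lf 0 826146103 0) (P.cons (P.lf 8592635 0 0) (P.cons (P.lf 3682897 0 0) (P.cons (P.lf 0 430960 0) (P.cons (P.lf 0 2012 0) (P.cons (P.lf 922 0 0) P.nil)))))) (P.cons (P.cons (P.lf 0 125726204 0) (P.cons (P.lf 0 2635896 0) (P.cons (P.lf 0 1119516 0) (P.cons (P.lf 141045 0 0) (P.cons (P.lf 1540 0 0) P.nil))))) (P.cons (P.cons (P.lf 860949 0 0) (P.cons (P.lf 143518 0 0) (P.cons (P.lf 56410 0 0) (P.cons (P.lf 0 11595 0) P.nil)))) (P.cons (P.cons (P.lf 826827 0 0) (P.cons (P.lf 25942 0 0) (P.cons (P.lf 12109 0 0) P.nil))) (P.cons (P.cons (P.lf 0 4081 0) (P.cons (P.lf 0 2605 0) P.nil)) (P.cons (P.cons (P.lf 0 3337 0) P.nil) P.nil)))))) 12701)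
 (EL.cons 8 (TM.mk (P.cons (P.cons (P.lf 159622278 0 0) (P.cons (P.lf 0 1660210 0) (P.cons (P.lf 0 711584 0) (P.cons (P.lf 83267 0 0) (P.cons (P.lf 388 0 0) (P.cons (P.lf 0 178 0) P.nil)))))) (P.cons (P.cons (P.lf 966095 0 0) (P.cons (P.lf 751898 0 0) (P.cons (P.lf 320290 0 0) (P.cons (P.lf 0 39419 0) (P.cons (P.lf 0 354 0) P.nil))))) (P.cons (P.cons (P.lf 0 3028870 0) (P.cons (P.lf 0 109301 0) (P.cons (P.lf 0 45572 0) (P.cons (P.lf 6581 0 0) P.nil)))) (P.cons (P.cons (P.lf 0 61808 0) (P.cons (P.lf 1554 0 0) (P.cons (P.lf 322 0 0) P.nil))) (P.cons (P.cons (P.lf 20100 0 0) (P.cons (P.lf 1003 0 0) P.nil)) (P.cons (P.cons (P.lf 23 0 0) P.nil) P.nil)))))) 3511)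
 EL.nil))
noncomputable def S415_430_216_364_18 : EL := (EL.cons 4 (TM.mk (P.cons (P.lf 0 2480424692 0) (P.cons (P.lf 0 103323046 0) (P.cons (P.lf 7007169 0 0) (P.cons (P.lf 37267 0 0) (P.cons (P.lf 0 13231 0) (P.cons (P.lf 391 0 0) P.nil)))))) 191)
 (EL.cons 8 (TM.mk (P.cons (P.lf 479250630 0 0) (P.cons (P.lf 0 50070290 0) (P.cons (P.lf 0 2207608 0) (P.cons (P.lf 183648 0 0) (P.cons (P.lf 0 1906 0) (P.cons (P.lf 0 232 0) P.nil)))))) 74)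
 EL.nil))
noncomputable def S415_430_216_364_19 : EL := (EL.cons 4 (TM.mk (P.cons (P.cons (P.lf 0 1320456009 0) (P.cons (P.lf 6866943 0 0) (P.cons (P.lf 2961103 0 0) (P.lf 0 329010 0)))) (P.cons (P.cons (P.lf 0 137145530 0) (P.cons (P.lf 0 2438341 0) (P.cons (P.lf 0 1051438 0) (P.lf 116825 0 0)))) (P.cons (P.cons (P.lf 4461935 0 0) (P.cons (P.lf 250936 0 0) (P.cons (P.lf 108206 0 0) (P.lf 0 12020 0)))) (P.cons (P.cons (P.lf 625388 0 0) (P.cons (P.lf 2654 0 0) (P.cons (P.lf 1144 0 0) P.nil))) (P.cons (P.cons (P.lf 0 24881 0) (P.cons (P.lf 0 1806 0) P.nil)) (P.cons (P.cons (P.lf 0 1277 0) P.nil) P.nil)))))) 4119)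
 (EL.cons 8 (TM.mk (P.cons (P.cons (P.lf 255129445 0 0) (P.cons (P.lf 0 1326783 0) (P.cons (P.lf 0 572123 0) (P.lf 63568 0 0)))) (P.cons (P.cons (P.lf 0 10784155 0) (P.cons (P.lf 665004 0 0) (P.cons (P.lf 286757 0 0) (P.lf 0 31861 0)))) (P.cons (P.cons (P.lf 0 3635814 0) (P.cons (P.lf 0 123042 0) (P.cons (P.lf 0 53057 0) (P.lf 5894 0 0)))) (P.cons (P.cons (P.lf 69759 0 0) (P.cons (P.lf 8858 0 0) (P.cons (P.lf 3819 0 0) P.nil))) (P.cons (P.cons (P.lf 15842 0 0) (P.cons (P.lf 112 0 0) P.nil)) (P.cons (P.cons (P.lf 0 677 0) P.nil) P.nil)))))) 1326)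
 EL.nil))
noncomputable def S415_430_216_364_20 : EL := (EL.cons 4 (TM.mk (P.cons (P.cons (P.lf 0 702945780 0) (P.cons (P.lf 7311245 0 0) (P.cons (P.lf 3133680 0 0) (P.cons (P.lf 0 366691 0) (P.cons (P.lf 0 1712 0) (P.cons (P.lf 784 0 0) P.nil)))))) (P.cons (P.cons (P.lf 0 116737580 0) (P.cons (P.lf 0 2141295 0) (P.cons (P.lf 0 909055 0) (P.cons (P.lf 114919 0 0) (P.cons (P.lf 1287 0 0) P.nil))))) (P.cons (P.cons (P.lf 44631 0 0) (P.cons (P.lf 82680 0 0) (P.cons (P.lf 31216 0 0) (P.cons (P.lf 0 7784 0) P.nil)))) (P.cons (P.cons (P.lf 817060 0 0) (P.cons (P.lf 26501 0 0) (P.cons (P.lf 12131 0 0) P.nil))) (P.cons (P.cons (P.lf 2725 0 0) (P.cons (P.lf 0 2106 0) P.nil)) (P.cons (P.cons (P.lf 0 3654 0) P.nil) P.nil)))))) 11551)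
 (EL.cons 8 (TM.mk (P.cons (P.cons (P.lf 135818357 0 0) (P.cons (P.lf 0 1412628 0) (P.cons (P.lf 0 605468 0) (P.cons (P.lf 70849 0 0) (P.cons (P.lf 330 0 0) (P.cons (P.lf 0 151 0) P.nil)))))) (P.cons (P.cons (P.lf 2707880 0 0) (P.cons (P.lf 620156 0 0) (P.cons (P.lf 264119 0 0) (P.cons (P.lf 0 32557 0) (P.cons (P.lf 0 296 0) P.nil))))) (P.cons (P.cons (P.lf 0 2719851 0) (P.cons (P.lf 0 82515 0) (P.cons (P.lf 0 34305 0) (P.cons (P.lf 5053 0 0) P.nil)))) (P.cons (P.cons (P.lf 0 85831 0) (P.cons (P.lf 0 730 0) (P.cons (P.lf 0 588 0) P.nil))) (P.cons (P.cons (P.lf 19317 0 0) (P.cons (P.lf 993 0 0) P.nil)) (P.cons (P.cons (P.lf 248 0 0) P.nil) P.nil)))))) 3173)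
 EL.nil))
noncomputable def S415_430_216_364_21 : EL := (EL.cons 4 (TM.mk (P.cons (P.cons (P.lf 0 857922834 0) (P.cons (P.lf 0 28454754 0) (P.cons (P.lf 0 12270006 0) (P.lf 1363326 0 0)))) (P.cons (P.cons (P.lf 173482326 0 0) (P.cons (P.lf 10894023 0 0) (P.cons (P.lf 4697613 0 0) (P.lf 0 521952 0)))) (P.cons (P.cons (P.lf 0 534723 0) (P.cons (P.lf 0 1401417 0) (P.cons (P.lf 0 604305 0) (P.lf 67137 0 0)))) (P.cons (P.cons (P.lf 0 1488114 0) (P.cons (P.lf 51093 0 0) (P.cons (P.lf 22026 0 0) P.nil))) (P.cons (P.cons (P.lf 64263 0 0) (P.cons (P.lf 2997 0 0) P.nil)) (P.cons (P.cons (P.lf 1152 0 0) P.nil) P.nil)))))) 10929)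
 (EL.cons 8 (TM.mk (P.cons (P.cons (P.lf 0 1578770631 0) (P.cons (P.lf 0 52363155 0) (P.cons (P.lf 0 22579581 0) (P.lf 2508843 0 0)))) (P.cons (P.cons (P.lf 88538163 0 0) (P.cons (P.lf 12395544 0 0) (P.cons (P.lf 5345100 0 0) (P.lf 0 593901 0)))) (P.cons (P.cons (P.lf 18752055 0 0) (P.cons (P.lf 0 542091 0) (P.cons (P.lf 0 233754 0) (P.lf 25974 0 0)))) (P.cons (P.cons (P.lf 0 685635 0) (P.cons (P.lf 0 48711 0) (P.cons (P.lf 0 21006 0) P.nil))) (P.cons (P.cons (P.lf 0 31689 0) (P.cons (P.lf 3582 0 0) P.nil)) (P.cons (P.cons (P.lf 2676 0 0) P.nil) P.nil)))))) 6426)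
 (EL.cons 11 (TM.mk (P.cons (P.cons (P.lf 120901074 0 0) (P.cons (P.lf 112630533 0 0) (P.cons (P.lf 0 11559555 0) (P.cons (P.lf 0 2404065 0) (P.lf 200337 0 0))))) (P.cons (P.cons (P.lf 0 31977477 0) (P.cons (P.lf 0 29789979 0) (P.cons (P.lf 3057420 0 0) (P.cons (P.lf 635856 0 0) (P.lf 0 52986 0))))) (P.cons (P.cons (P.lf 2390655 0 0) (P.cons (P.lf 2227116 0 0) (P.cons (P.lf 0 228573 0) (P.cons (P.lf 0 47535 0) P.nil)))) (P.cons (P.cons (P.lf 0 22689 0) (P.cons (P.lf 0 21138 0) (P.cons (P.lf 2169 0 0) P.nil))) (P.cons (P.cons (P.lf 0 2295 0) (P.cons (P.lf 0 2139 0) P.nil)) (P.cons (P.cons (P.lf 105 0 0) P.nil) P.nil)))))) 4986)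
 EL.nil)))
noncomputable def S415_430_216_364_22 : EL := (EL.cons 4 (TM.mk (P.cons (P.cons (P.lf 0 456715884 0) (P.cons (P.lf 0 12772788 0) (P.cons (P.lf 0 5428992 0) (P.cons (P.lf 679908 0 0) (P.cons (P.lf 7098 0 0) (P.cons (P.lf 0 3255 0) P.nil)))))) (P.cons (P.cons (P.lf 63942588 0 0) (P.cons (P.lf 3434553 0 0) (P.cons (P.lf 1419600 0 0) (P.cons (P.lf 0 217518 0) (P.cons (P.lf 0 5532 0) P.nil))))) (P.cons (P.cons (P.lf 6896889 0 0) (P.cons (P.lf 0 12852 0) (P.cons (P.lf 14703 0 0) (P.cons (P.lf 18072 0 0) P.nil)))) (P.cons (P.cons (P.lf 0 1031043 0) (P.cons (P.lf 0 65700 0) (P.cons (P.lf 0 31938 0) P.nil))) (P.cons (P.cons (P.lf 0 33624 0) (P.cons (P.lf 4332 0 0) P.nil)) (P.cons (P.cons (P.lf 6453 0 0) P.nil) P.nil)))))) 31536)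
 (EL.cons 8 (TM.mk (P.cons (P.cons (P.lf 0 840459768 0) (P.cons (P.lf 0 23504808 0) (P.cons (P.lf 0 9990573 0) (P.cons (P.lf 1251192 0 0) (P.cons (P.lf 13062 0 0) (P.cons (P.lf 0 5988 0) P.nil)))))) (P.cons (P.cons (P.lf 0 5149005 0) (P.cons (P.lf 2885559 0 0) (P.cons (P.lf 1152459 0 0) (P.cons (P.lf 0 217449 0) (P.cons (P.lf 0 8274 0) P.nil))))) (P.cons (P.cons (P.lf 15558228 0 0) (P.cons (P.lf 499215 0 0) (P.cons (P.lf 238485 0 0) (P.cons (P.lf 0 3891 0) P.nil)))) (P.cons (P.cons (P.lf 235353 0 0) (P.cons (P.lf 0 64929 0) (P.cons (P.lf 0 30819 0) P.nil))) (P.cons (P.cons (P.lf 0 88116 0) (P.cons (P.lf 0 2904 0) P.nil)) (P.cons (P.cons (P.lf 714 0 0) P.nil) P.nil)))))) 29925)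
 (EL.cons 11 (TM.mk (P.cons (P.cons (P.lf 64361778 0 0) (P.cons (P.lf 59624241 0 0) (P.cons (P.lf 0 6609879 0) (P.cons (P.lf 0 1366224 0) (P.cons (P.lf 142044 0 0) (P.cons (P.lf 780 0 0) P.nil)))))) (P.cons (P.cons (P.lf 0 13019490 0) (P.cons (P.lf 0 11907537 0) (P.cons (P.lf 1546431 0 0) (P.cons (P.lf 316026 0 0) (P.cons (P.lf 0 44976 0) P.nil))))) (P.cons (P.cons (P.lf 11262 0 0) (P.cons (P.lf 0 49953 0) (P.cons (P.lf 0 83454 0) (P.cons (P.lf 0 15828 0) P.nil)))) (P.cons (P.cons (P.lf 110859 0 0) (P.cons (P.lf 111933 0 0) (P.cons (P.lf 1197 0 0) P.nil))) (P.cons (P.cons (P.lf 0 2625 0) (P.cons (P.lf 0 3108 0) P.nil)) (P.cons (P.cons (P.lf 0 387 0) P.nil) P.nil)))))) 28389)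
 EL.nil)))
noncomputable def S415_430_216_364_23 : EL := (EL.cons 4 (TM.mk (P.cons (P.cons (P.lf 0 729983754 0) (P.cons (P.lf 0 24211392 0) (P.cons (P.lf 0 10440222 0) (P.lf 1160016 0 0)))) (P.cons (P.cons (P.lf 137475585 0 0) (P.cons (P.lf 8933256 0 0) (P.cons (P.lf 3852108 0 0) (P.lf 0 428007 0)))) (P.cons (P.cons (P.lf 2422758 0 0) (P.cons (P.lf 0 1036254 0) (P.cons (P.lf 0 446841 0) (P.lf 49641 0 0)))) (P.cons (P.cons (P.lf 0 1458663 0) (P.cons (P.lf 15780 0 0) (P.cons (P.lf 6798 0 0) P.nil))) (P.cons (P.cons (P.lf 41394 0 0) (P.cons (P.lf 4743 0 0) P.nil)) (P.cons (P.cons (P.lf 3174 0 0) P.nil) P.nil)))))) 12132)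
 (EL.cons 8 (TM.mk (P.cons (P.cons (P.lf 0 1343334003 0) (P.cons (P.lf 0 44554416 0) (P.cons (P.lf 0 19212363 0) (P.lf 2134707 0 0)))) (P.cons (P.cons (P.lf 56682405 0 0) (P.cons (P.lf 9928395 0 0) (P.cons (P.lf 4281237 0 0) (P.lf 0 475692 0)))) (P.cons (P.cons (P.lf 18525615 0 0) (P.cons (P.lf 0 264258 0) (P.cons (P.lf 0 113949 0) (P.lf 12660 0 0)))) (P.cons (P.cons (P.lf 0 481701 0) (P.cons (P.lf 0 60957 0) (P.cons (P.lf 0 26286 0) P.nil))) (P.cons (P.cons (P.lf 0 51234 0) (P.cons (P.lf 3264 0 0) P.nil)) (P.cons (P.cons (P.lf 2994 0 0) P.nil) P.nil)))))) 7416)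
 (EL.cons 11 (TM.mk (P.cons (P.cons (P.lf 102871512 0 0) (P.cons (P.lf 95834328 0 0) (P.cons (P.lf 0 9835716 0) (P.cons (P.lf 0 2045553 0) (P.lf 170460 0 0))))) (P.cons (P.cons (P.lf 0 25780401 0) (P.cons (P.lf 0 24016830 0) (P.cons (P.lf 2464905 0 0) (P.cons (P.lf 512628 0 0) (P.lf 0 42717 0))))) (P.cons (P.cons (P.lf 1539642 0 0) (P.cons (P.lf 1434318 0 0) (P.cons (P.lf 0 147204 0) (P.cons (P.lf 0 30612 0) P.nil)))) (P.cons (P.cons (P.lf 42438 0 0) (P.cons (P.lf 39534 0 0) (P.cons (P.lf 0 4056 0) P.nil))) (P.cons (P.cons (P.lf 0 5223 0) (P.cons (P.lf 0 4866 0) P.nil)) (P.cons (P.cons (P.lf 132 0 0) P.nil) P.nil)))))) 6963)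
 EL.nil)))
noncomputable def S415_430_216_364_24 : EL := (EL.cons 4 (TM.mk (P.cons (P.cons (P.lf 0 388607418 0) (P.cons (P.lf 0 10868025 0) (P.cons (P.lf 0 4619385 0) (P.cons (P.lf 578514 0 0) (P.cons (P.lf 6039 0 0) (P.cons (P.lf 0 2769 0) P.nil)))))) (P.cons (P.cons (P.lf 49011186 0 0) (P.cons (P.lf 2771466 0 0) (P.cons (P.lf 1143759 0 0) (P.cons (P.lf 0 177048 0) (P.cons (P.lf 0 4623 0) P.nil))))) (P.cons (P.cons (P.lf 7064688 0 0) (P.cons (P.lf 41967 0 0) (P.cons (P.lf 34524 0 0) (P.cons (P.lf 12153 0 0) P.nil)))) (P.cons (P.cons (P.lf 0 867477 0) (P.cons (P.lf 0 59646 0) (P.cons (P.lf 0 28491 0) P.nil))) (P.cons (P.cons (P.lf 0 46053 0) (P.cons (P.lf 2997 0 0) P.nil)) (P.cons (P.cons (P.lf 6246 0 0) P.nil) P.nil)))))) 27303)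
 (EL.cons 8 (TM.mk (P.cons (P.cons (P.lf 0 715124898 0) (P.cons (P.lf 0 19999617 0) (P.cons (P.lf 0 8500713 0) (P.cons (P.lf 1064607 0 0) (P.cons (P.lf 11115 0 0) (P.cons (P.lf 0 5094 0) P.nil)))))) (P.cons (P.cons (P.lf 0 14310753 0) (P.cons (P.lf 2177547 0 0) (P.cons (P.lf 862563 0 0) (P.cons (P.lf 0 170241 0) (P.cons (P.lf 0 6885 0) P.nil))))) (P.cons (P.cons (P.lf 13988529 0 0) (P.cons (P.lf 481548 0 0) (P.cons (P.lf 226179 0 0) (P.cons (P.lf 0 7089 0) P.nil)))) (P.cons (P.cons (P.lf 370728 0 0) (P.cons (P.lf 0 52647 0) (P.cons (P.lf 0 24735 0) P.nil))) (P.cons (P.cons (P.lf 0 87324 0) (P.cons (P.lf 0 3657 0) P.nil)) (P.cons (P.cons (P.lf 0 306 0) P.nil) P.nil)))))) 25596)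
 (EL.cons 11 (TM.mk (P.cons (P.cons (P.lf 54763728 0 0) (P.cons (P.lf 50732682 0 0) (P.cons (P.lf 0 5624172 0) (P.cons (P.lf 0 1162482 0) (P.cons (P.lf 120861 0 0) (P.cons (P.lf 663 0 0) P.nil)))))) (P.cons (P.cons (P.lf 0 10317537 0) (P.cons (P.lf 0 9427377 0) (P.cons (P.lf 1237725 0 0) (P.cons (P.lf 252756 0 0) (P.cons (P.lf 0 36591 0) P.nil))))) (P.cons (P.cons (P.lf 0 206361 0) (P.cons (P.lf 0 240741 0) (P.cons (P.lf 0 46359 0) (P.cons (P.lf 0 8415 0) P.nil)))) (P.cons (P.cons (P.lf 108429 0 0) (P.cons (P.lf 107442 0 0) (P.cons (P.lf 0 1602 0) P.nil))) (P.cons (P.cons (P.lf 0 1218 0) (P.cons (P.lf 0 1533 0) P.nil)) (P.cons (P.cons (P.lf 0 468 0) P.nil) P.nil)))))) 24273)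
 EL.nil)))
noncomputable def S415_430_216_364_25 : EL := (EL.cons 4 (TM.mk (P.cons (P.cons (P.lf 0 621123792 0) (P.cons (P.lf 0 20600832 0) (P.cons (P.lf 0 8883306 0) (P.lf 987027 0 0)))) (P.cons (P.cons (P.lf 108349941 0 0) (P.cons (P.lf 7315023 0 0) (P.cons (P.lf 3154311 0 0) (P.lf 0 350475 0)))) (P.cons (P.cons (P.lf 4390305 0 0) (P.cons (P.lf 0 752808 0) (P.cons (P.lf 0 324618 0) (P.lf 36063 0 0)))) (P.cons (P.cons (P.lf 0 1361118 0) (P.cons (P.lf 0 7965 0) (P.cons (P.lf 0 3438 0) P.nil))) (P.cons (P.cons (P.lf 18645 0 0) (P.cons (P.lf 5415 0 0) P.nil)) (P.cons (P.cons (P.lf 4662 0 0) P.nil) P.nil)))))) 12333)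
 (EL.cons 8 (TM.mk (P.cons (P.cons (P.lf 0 1143007230 0) (P.cons (P.lf 0 37910169 0) (P.cons (P.lf 0 16347291 0) (P.lf 1816365 0 0)))) (P.cons (P.cons (P.lf 32358750 0 0) (P.cons (P.lf 7921419 0 0) (P.cons (P.lf 3415806 0 0) (P.lf 0 379533 0)))) (P.cons (P.cons (P.lf 17729322 0 0) (P.cons (P.lf 0 64542 0) (P.cons (P.lf 0 27828 0) (P.lf 3093 0 0)))) (P.cons (P.cons (P.lf 0 274974 0) (P.cons (P.lf 0 65541 0) (P.cons (P.lf 0 28263 0) P.nil))) (P.cons (P.cons (P.lf 0 65931 0) (P.cons (P.lf 2529 0 0) P.nil)) (P.cons (P.cons (P.lf 2832 0 0) P.nil) P.nil)))))) 7671)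
 (EL.cons 11 (TM.mk (P.cons (P.cons (P.lf 87530637 0 0) (P.cons (P.lf 81542886 0 0) (P.cons (P.lf 0 8368950 0) (P.cons (P.lf 0 1740507 0) (P.lf 145041 0 0))))) (P.cons (P.cons (P.lf 0 20720484 0) (P.cons (P.lf 0 19303047 0) (P.cons (P.lf 1981119 0 0) (P.cons (P.lf 412014 0 0) (P.lf 0 34332 0))))) (P.cons (P.cons (P.lf 906159 0 0) (P.cons (P.lf 844170 0 0) (P.cons (P.lf 0 86637 0) (P.cons (P.lf 0 18015 0) P.nil)))) (P.cons (P.cons (P.lf 81426 0 0) (P.cons (P.lf 75855 0 0) (P.cons (P.lf 0 7785 0) P.nil))) (P.cons (P.cons (P.lf 0 5991 0) (P.cons (P.lf 0 5583 0) P.nil)) (P.cons (P.cons (P.lf 42 0 0) P.nil) P.nil)))))) 7908)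
 EL.nil)))
noncomputable def S415_430_216_364_26 : EL := (EL.cons 4 (TM.mk (P.cons (P.cons (P.lf 0 330655731 0) (P.cons (P.lf 0 9247314 0) (P.cons (P.lf 0 3930510 0) (P.cons (P.lf 492243 0 0) (P.cons (P.lf 5139 0 0) (P.cons (P.lf 0 2355 0) P.nil)))))) (P.cons (P.cons (P.lf 37111119 0 0) (P.cons (P.lf 2229768 0 0) (P.cons (P.lf 918618 0 0) (P.cons (P.lf 0 143808 0) (P.cons (P.lf 0 3864 0) P.nil))))) (P.cons (P.cons (P.lf 6965313 0 0) (P.cons (P.lf 78942 0 0) (P.cons (P.lf 47346 0 0) (P.cons (P.lf 7689 0 0) P.nil)))) (P.cons (P.cons (P.lf 0 710421 0) (P.cons (P.lf 0 53169 0) (P.cons (P.lf 0 25038 0) P.nil))) (P.cons (P.cons (P.lf 0 55185 0) (P.cons (P.lf 1863 0 0) P.nil)) (P.cons (P.cons (P.lf 5766 0 0) P.nil) P.nil)))))) 23646)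
 (EL.cons 8 (TM.mk (P.cons (P.cons (P.lf 0 608480784 0) (P.cons (P.lf 0 17017143 0) (P.cons (P.lf 0 7233030 0) (P.cons (P.lf 905844 0 0) (P.cons (P.lf 9456 0 0) (P.cons (P.lf 0 4335 0) P.nil)))))) (P.cons (P.cons (P.lf 0 20625474 0) (P.cons (P.lf 1616532 0 0) (P.cons (P.lf 633498 0 0) (P.cons (P.lf 0 132276 0) (P.cons (P.lf 0 5727 0) P.nil))))) (P.cons (P.cons (P.lf 12423690 0 0) (P.cons (P.lf 454767 0 0) (P.cons (P.lf 210846 0 0) (P.cons (P.lf 0 9069 0) P.nil)))) (P.cons (P.cons (P.lf 478944 0 0) (P.cons (P.lf 0 41643 0) (P.cons (P.lf 0 19392 0) P.nil))) (P.cons (P.cons (P.lf 0 83736 0) (P.cons (P.lf 0 4152 0) P.nil)) (P.cons (P.cons (P.lf 0 1335 0) P.nil) P.nil)))))) 21909)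
 (EL.cons 11 (TM.mk (P.cons (P.cons (P.lf 46597002 0 0) (P.cons (P.lf 43167093 0 0) (P.cons (P.lf 0 4785456 0) (P.cons (P.lf 0 989124 0) (P.cons (P.lf 102837 0 0) (P.cons (P.lf 564 0 0) P.nil)))))) (P.cons (P.cons (P.lf 0 8131911 0) (P.cons (P.lf 0 7422126 0) (P.cons (P.lf 986700 0 0) (P.cons (P.lf 201330 0 0) (P.cons (P.lf 0 29706 0) P.nil))))) (P.cons (P.cons (P.lf 0 350343 0) (P.cons (P.lf 0 365190 0) (P.cons (P.lf 0 19392 0) (P.cons (P.lf 0 3051 0) P.nil)))) (P.cons (P.cons (P.lf 100974 0 0) (P.cons (P.lf 98781 0 0) (P.cons (P.lf 0 3228 0) P.nil))) (P.cons (P.cons (P.lf 216 0 0) (P.cons (P.lf 0 9 0) P.nil)) (P.cons (P.cons (P.lf 0 522 0) P.nil) P.nil)))))) 20790)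
 EL.nil)))
noncomputable def S415_430_216_364_27 : EL := (EL.cons 13 (TM.mk (P.lf 0 4294967296 0) 0)
 EL.nil)
noncomputable def S415_430_216_364_28 : EL := (EL.cons 13 (TM.mk (P.cons (P.cons (P.lf 0 2286429172 0) (P.cons (P.lf 11890424 0 0) (P.cons (P.lf 5127284 0 0) (P.lf 0 569696 0)))) (P.cons (P.cons (P.lf 0 142231587 0) (P.cons (P.lf 0 4717400 0) (P.cons (P.lf 0 2034192 0) (P.lf 226020 0 0)))) (P.cons (P.cons (P.lf 7191621 0 0) (P.cons (P.lf 664604 0 0) (P.cons (P.lf 286584 0 0) (P.lf 0 31840 0)))) (P.cons (P.cons (P.lf 347164 0 0) (P.cons (P.lf 0 36236 0) (P.cons (P.lf 0 15624 0) P.nil))) (P.cons (P.cons (P.lf 0 27169 0) (P.cons (P.lf 124 0 0) P.nil)) (P.cons (P.cons (P.lf 404 0 0) P.nil) P.nil)))))) 2796)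
 EL.nil)
noncomputable def S415_430_216_364_29 : EL := (EL.cons 13 (TM.mk (P.cons (P.cons (P.lf 0 1217182343 0) (P.cons (P.lf 12659752 0 0) (P.cons (P.lf 5426109 0 0) (P.cons (P.lf 0 634945 0) (P.cons (P.lf 0 2966 0) (P.cons (P.lf 1360 0 0) P.nil)))))) (P.cons (P.cons (P.lf 0 151434191 0) (P.cons (P.lf 0 4235099 0) (P.cons (P.lf 0 1800098 0) (P.cons (P.lf 225438 0 0) (P.cons (P.lf 2353 0 0) P.nil))))) (P.cons (P.cons (P.lf 2946807 0 0) (P.cons (P.lf 355343 0 0) (P.cons (P.lf 144366 0 0) (P.cons (P.lf 0 24664 0) P.nil)))) (P.cons (P.cons (P.lf 845939 0 0) (P.cons (P.lf 19313 0 0) (P.cons (P.lf 9989 0 0) P.nil))) (P.cons (P.cons (P.lf 0 17975 0) (P.cons (P.lf 0 3580 0) P.nil)) (P.cons (P.cons (P.lf 0 2531 0) P.nil) P.nil)))))) 15806)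
 EL.nil)
noncomputable def S415_430_216_364_30 : EL := (EL.cons 13 (TM.mk (P.cons (P.lf 0 3654473616 0) (P.cons (P.lf 0 50742836 0) (P.cons (P.lf 4145852 0 0) (P.cons (P.lf 0 93568 0) (P.cons (P.lf 4 0 0) (P.cons (P.lf 64 0 0) P.nil)))))) 76)
 EL.nil)
noncomputable def S415_430_216_364_31 : EL := (EL.cons 13 (TM.mk (P.cons (P.cons (P.lf 0 1945461864 0) (P.cons (P.lf 10117246 0 0) (P.cons (P.lf 4362669 0 0) (P.lf 0 484739 0)))) (P.cons (P.cons (P.lf 0 148034068 0) (P.cons (P.lf 0 3873431 0) (P.cons (P.lf 0 1670263 0) (P.lf 185583 0 0)))) (P.cons (P.cons (P.lf 6645813 0 0) (P.cons (P.lf 498282 0 0) (P.cons (P.lf 214864 0 0) (P.lf 0 23871 0)))) (P.cons (P.cons (P.lf 467840 0 0) (P.cons (P.lf 0 18167 0) (P.cons (P.lf 0 7832 0) P.nil))) (P.cons (P.cons (P.lf 0 29054 0) (P.cons (P.lf 0 1066 0) P.nil)) (P.cons (P.cons (P.lf 0 121 0) P.nil) P.nil)))))) 3741)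
 EL.nil)
noncomputable def S415_430_216_364_32 : EL := (EL.cons 13 (TM.mk (P.cons (P.cons (P.lf 0 1035668132 0) (P.cons (P.lf 10771846 0 0) (P.cons (P.lf 4616932 0 0) (P.cons (P.lf 0 540257 0) (P.cons (P.lf 0 2523 0) (P.cons (P.lf 1157 0 0) P.nil)))))) (P.cons (P.cons (P.lf 0 143231716 0) (P.cons (P.lf 0 3453964 0) (P.cons (P.lf 0 1467548 0) (P.cons (P.lf 184317 0 0) (P.cons (P.lf 1967 0 0) P.nil))))) (P.cons (P.cons (P.lf 1893165 0 0) (P.cons (P.lf 240096 0 0) (P.cons (P.lf 96332 0 0) (P.cons (P.lf 0 17709 0) P.nil)))) (P.cons (P.cons (P.lf 874261 0 0) (P.cons (P.lf 24994 0 0) (P.cons (P.lf 12060 0 0) P.nil))) (P.cons (P.cons (P.lf 0 11442 0) (P.cons (P.lf 0 3253 0) P.nil)) (P.cons (P.cons (P.lf 0 3100 0) P.nil) P.nil)))))) 14754)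
 EL.nil)
noncomputable def S415_430_216_364_33 : EL := (EL.cons 14 (TM.mk (P.lf 8589934592 0 0) 0)
 EL.nil)
noncomputable def S415_430_216_364_34 : EL := (EL.cons 14 (TM.mk (P.cons (P.cons (P.lf 4572858344 0 0) (P.cons (P.lf 0 23780848 0) (P.cons (P.lf 0 10254568 0) (P.lf 1139392 0 0)))) (P.cons (P.cons (P.lf 284463174 0 0) (P.cons (P.lf 9434800 0 0) (P.cons (P.lf 4068384 0 0) (P.lf 0 452040 0)))) (P.cons (P.cons (P.lf 0 14383242 0) (P.cons (P.lf 0 1329208 0) (P.cons (P.lf 0 573168 0) (P.lf 63680 0 0)))) (P.cons (P.cons (P.lf 0 694328 0) (P.cons (P.lf 72472 0 0) (P.cons (P.lf 31248 0 0) P.nil))) (P.cons (P.cons (P.lf 54338 0 0) (P.cons (P.lf 0 248 0) P.nil)) (P.cons (P.cons (P.lf 0 808 0) P.nil) P.nil)))))) 5592)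
 EL.nil)
noncomputable def S415_430_216_364_35 : EL := (EL.cons 14 (TM.mk (P.cons (P.cons (P.lf 2434364686 0 0) (P.cons (P.lf 0 25319504 0) (P.cons (P.lf 0 10852218 0) (P.cons (P.lf 1269890 0 0) (P.cons (P.lf 5932 0 0) (P.cons (P.lf 0 2720 0) P.nil)))))) (P.cons (P.cons (P.lf 302868382 0 0) (P.cons (P.lf 8470198 0 0) (P.cons (P.lf 3600196 0 0) (P.cons (P.lf 0 450876 0) (P.cons (P.lf 0 4706 0) P.nil))))) (P.cons (P.cons (P.lf 0 5893614 0) (P.cons (P.lf 0 710686 0) (P.cons (P.lf 0 288732 0) (P.cons (P.lf 49328 0 0) P.nil)))) (P.cons (P.cons (P.lf 0 1691878 0) (P.cons (P.lf 0 38626 0) (P.cons (P.lf 0 19978 0) P.nil))) (P.cons (P.cons (P.lf 35950 0 0) (P.cons (P.lf 7160 0 0) P.nil)) (P.cons (P.cons (P.lf 5062 0 0) P.nil) P.nil)))))) 31612)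
 EL.nil)
noncomputable def S415_430_216_364_36 : EL := (EL.cons 14 (TM.mk (P.cons (P.lf 7308947232 0 0) (P.cons (P.lf 101485672 0 0) (P.cons (P.lf 0 8291704 0) (P.cons (P.lf 187136 0 0) (P.cons (P.lf 0 8 0) (P.cons (P.lf 0 128 0) P.nil)))))) 152)
 EL.nil)
noncomputable def S415_430_216_364_37 : EL := (EL.cons 14 (TM.mk (P.cons (P.cons (P.lf 3890923728 0 0) (P.cons (P.lf 0 20234492 0) (P.cons (P.lf 0 8725338 0) (P.lf 969478 0 0)))) (P.cons (P.cons (P.lf 296068136 0 0) (P.cons (P.lf 7746862 0 0) (P.cons (P.lf 3340526 0 0) (P.lf 0 371166 0)))) (P.cons (P.cons (P.lf 0 13291626 0) (P.cons (P.lf 0 996564 0) (P.cons (P.lf 0 429728 0) (P.lf 47742 0 0)))) (P.cons (P.cons (P.lf 0 935680 0) (P.cons (P.lf 36334 0 0) (P.cons (P.lf 15664 0 0) P.nil))) (P.cons (P.cons (P.lf 58108 0 0) (P.cons (P.lf 2132 0 0) P.nil)) (P.cons (P.cons (P.lf 242 0 0) P.nil) P.nil)))))) 7482)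
 EL.nil)
noncomputable def S415_430_216_364_38 : EL := (EL.cons 14 (TM.mk (P.cons (P.cons (P.lf 2071336264 0 0) (P.cons (P.lf 0 21543692 0) (P.cons (P.lf 0 9233864 0) (P.cons (P.lf 1080514 0 0) (P.cons (P.lf 5046 0 0) (P.cons (P.lf 0 2314 0) P.nil)))))) (P.cons (P.cons (P.lf 286463432 0 0) (P.cons (P.lf 6907928 0 0) (P.cons (P.lf 2935096 0 0) (P.cons (P.lf 0 368634 0) (P.cons (P.lf 0 3934 0) P.nil))))) (P.cons (P.cons (P.lf 0 3786330 0) (P.cons (P.lf 0 480192 0) (P.cons (P.lf 0 192664 0) (P.cons (P.lf 35418 0 0) P.nil)))) (P.cons (P.cons (P.lf 0 1748522 0) (P.cons (P.lf 0 49988 0) (P.cons (P.lf 0 24120 0) P.nil))) (P.cons (P.cons (P.lf 22884 0 0) (P.cons (P.lf 6506 0 0) P.nil)) (P.cons (P.cons (P.lf 6200 0 0) P.nil) P.nil)))))) 29508)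
 EL.nil)
noncomputable def S415_430_216_364_39 : EL := (EL.cons 14 (TM.mk (P.cons (P.lf 6218989104 0 0) (P.cons (P.lf 172702926 0 0) (P.cons (P.lf 0 12911380 0) (P.cons (P.lf 122532 0 0) (P.cons (P.lf 12412 0 0) (P.cons (P.lf 0 578 0) P.nil)))))) 282)
 EL.nil)
noncomputable def S415_430_216_364_40 : EL := (EL.cons 14 (TM.mk (P.cons (P.cons (P.lf 3310683674 0 0) (P.cons (P.lf 0 17216990 0) (P.cons (P.lf 0 7424158 0) (P.lf 824902 0 0)))) (P.cons (P.cons (P.lf 297885782 0 0) (P.cons (P.lf 6352538 0 0) (P.cons (P.lf 2739280 0 0) (P.lf 0 304362 0)))) (P.cons (P.cons (P.lf 0 11567434 0) (P.cons (P.lf 0 736892 0) (P.cons (P.lf 0 317754 0) (P.lf 35302 0 0)))) (P.cons (P.cons (P.lf 0 1154204 0) (P.cons (P.lf 11224 0 0) (P.cons (P.lf 4838 0 0) P.nil))) (P.cons (P.cons (P.lf 57664 0 0) (P.cons (P.lf 3374 0 0) P.nil)) (P.cons (P.cons (P.lf 1448 0 0) P.nil) P.nil)))))) 8380)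
 EL.nil)
noncomputable def S415_430_216_364_41 : EL := (EL.cons 14 (TM.mk (P.cons (P.cons (P.lf 1762445020 0 0) (P.cons (P.lf 0 18330956 0) (P.cons (P.lf 0 7856848 0) (P.cons (P.lf 919382 0 0) (P.cons (P.lf 4294 0 0) (P.cons (P.lf 0 1968 0) P.nil)))))) (P.cons (P.cons (P.lf 268215902 0 0) (P.cons (P.lf 5623246 0 0) (P.cons (P.lf 2388302 0 0) (P.cons (P.lf 0 300896 0) (P.cons (P.lf 0 3286 0) P.nil))))) (P.cons (P.cons (P.lf 0 1836692 0) (P.cons (P.lf 0 306172 0) (P.cons (P.lf 0 120342 0) (P.cons (P.lf 24738 0 0) P.nil)))) (P.cons (P.cons (P.lf 0 1763898 0) (P.cons (P.lf 0 55344 0) (P.cons (P.lf 0 25834 0) P.nil))) (P.cons (P.cons (P.lf 8708 0 0) (P.cons (P.lf 5558 0 0) P.nil)) (P.cons (P.cons (P.lf 7120 0 0) P.nil) P.nil)))))) 27050)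
 EL.nil)
noncomputable def S415_430_216_364_42 : EL := (EL.cons 14 (TM.mk (P.cons (P.lf 5291572678 0 0) (P.cons (P.lf 220422500 0 0) (P.cons (P.lf 0 14948628 0) (P.cons (P.lf 0 79504 0) (P.cons (P.lf 28228 0 0) (P.cons (P.lf 0 836 0) P.nil)))))) 394)
 EL.nil)
noncomputable def S415_430_216_364_43 : EL := (EL.cons 14 (TM.mk (P.cons (P.cons (P.lf 2816972820 0 0) (P.cons (P.lf 0 14649480 0) (P.cons (P.lf 0 6317020 0) (P.lf 701888 0 0)))) (P.cons (P.cons (P.lf 292577132 0 0) (P.cons (P.lf 5201796 0 0) (P.cons (P.lf 2243068 0 0) (P.lf 0 249228 0)))) (P.cons (P.cons (P.lf 0 9518796 0) (P.cons (P.lf 0 535332 0) (P.cons (P.lf 0 230840 0) (P.lf 25644 0 0)))) (P.cons (P.cons (P.lf 0 1334162 0) (P.cons (P.lf 0 5662 0) (P.cons (P.lf 0 2442 0) P.nil))) (P.cons (P.cons (P.lf 53080 0 0) (P.cons (P.lf 3854 0 0) P.nil)) (P.cons (P.cons (P.lf 2726 0 0) P.nil) P.nil)))))) 8748)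
 EL.nil)
noncomputable def S415_430_216_364_44 : EL := (EL.cons 14 (TM.mk (P.cons (P.cons (P.lf 1499617664 0 0) (P.cons (P.lf 0 15597324 0) (P.cons (P.lf 0 6685184 0) (P.cons (P.lf 782276 0 0) (P.cons (P.lf 3654 0 0) (P.cons (P.lf 0 1674 0) P.nil)))))) (P.cons (P.cons (P.lf 249040172 0 0) (P.cons (P.lf 4568098 0 0) (P.cons (P.lf 1939318 0 0) (P.cons (P.lf 0 245162 0) (P.cons (P.lf 0 2746 0) P.nil))))) (P.cons (P.cons (P.lf 0 95214 0) (P.cons (P.lf 0 176384 0) (P.cons (P.lf 0 66596 0) (P.cons (P.lf 16606 0 0) P.nil)))) (P.cons (P.cons (P.lf 0 1743062 0) (P.cons (P.lf 0 56536 0) (P.cons (P.lf 0 25880 0) P.nil))) (P.cons (P.cons (P.lf 0 5814 0) (P.cons (P.lf 4494 0 0) P.nil)) (P.cons (P.cons (P.lf 7796 0 0) P.nil) P.nil)))))) 24596)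
 EL.nil)
noncomputable def S415_430_216_364_45 : EL := (EL.cons 14 (TM.mk (P.cons (P.cons (P.lf 1295935928 0 0) (P.cons (P.lf 0 20218286 0) (P.cons (P.lf 0 8613208 0) (P.cons (P.lf 1059196 0 0) (P.cons (P.lf 9238 0 0) (P.cons (P.lf 0 4418 0) P.nil)))))) (P.cons (P.cons (P.lf 241848326 0 0) (P.cons (P.lf 5505958 0 0) (P.cons (P.lf 2297334 0 0) (P.cons (P.lf 0 329894 0) (P.cons (P.lf 0 6646 0) P.nil))))) (P.cons (P.cons (P.lf 2816106 0 0) (P.cons (P.lf 0 83160 0) (P.cons (P.lf 0 13076 0) (P.cons (P.lf 23510 0 0) P.nil)))) (P.cons (P.cons (P.lf 0 1799746 0) (P.cons (P.lf 0 84350 0) (P.cons (P.lf 0 39670 0) P.nil))) (P.cons (P.cons (P.lf 0 36102 0) (P.cons (P.lf 4316 0 0) P.nil)) (P.cons (P.cons (P.lf 8880 0 0) P.nil) P.nil)))))) 42188)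
 EL.nil)
noncomputable def S415_430_216_364_46 : EL := (EL.cons 15 (TM.mk (P.lf 4294967296 0 0) 0)
 EL.nil)
noncomputable def S415_430_216_364_47 : EL := (EL.cons 15 (TM.mk (P.cons (P.cons (P.lf 2286429172 0 0) (P.cons (P.lf 0 11890424 0) (P.cons (P.lf 0 5127284 0) (P.lf 569696 0 0)))) (P.cons (P.cons (P.lf 142231587 0 0) (P.cons (P.lf 4717400 0 0) (P.cons (P.lf 2034192 0 0) (P.lf 0 226020 0)))) (P.cons (P.cons (P.lf 0 7191621 0) (P.cons (P.lf 0 664604 0) (P.cons (P.lf 0 286584 0) (P.lf 31840 0 0)))) (P.cons (P.cons (P.lf 0 347164 0) (P.cons (P.lf 36236 0 0) (P.cons (P.lf 15624 0 0) P.nil))) (P.cons (P.cons (P.lf 27169 0 0) (P.cons (P.lf 0 124 0) P.nil)) (P.cons (P.cons (P.lf 0 404 0) P.nil) P.nil)))))) 2796)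
 EL.nil)
noncomputable def S415_430_216_364_48 : EL := (EL.cons 15 (TM.mk (P.cons (P.cons (P.lf 1217182343 0 0) (P.cons (P.lf 0 12659752 0) (P.cons (P.lf 0 5426109 0) (P.cons (P.lf 634945 0 0) (P.cons (P.lf 2966 0 0) (P.cons (P.lf 0 1360 0) P.nil)))))) (P.cons (P.cons (P.lf 151434191 0 0) (P.cons (P.lf 4235099 0 0) (P.cons (P.lf 1800098 0 0) (P.cons (P.lf 0 225438 0) (P.cons (P.lf 0 2353 0) P.nil))))) (P.cons (P.cons (P.lf 0 2946807 0) (P.cons (P.lf 0 355343 0) (P.cons (P.lf 0 144366 0) (P.cons (P.lf 24664 0 0) P.nil)))) (P.cons (P.cons (P.lf 0 845939 0) (P.cons (P.lf 0 19313 0) (P.cons (P.lf 0 9989 0) P.nil))) (P.cons (P.cons (P.lf 17975 0 0) (P.cons (P.lf 3580 0 0) P.nil)) (P.cons (P.cons (P.lf 2531 0 0) P.nil) P.nil)))))) 15806)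
 EL.nil)
noncomputable def S415_430_216_364 : SL := (SL.cons S415_430_216_364_0 (SL.cons S415_430_216_364_1 (SL.cons S415_430_216_364_2 (SL.cons S415_430_216_364_3 (SL.cons S415_430_216_364_4 (SL.cons S415_430_216_364_5 (SL.cons S415_430_216_364_6 (SL.cons S415_430_216_364_7 (SL.cons S415_430_216_364_8 (SL.cons S415_430_216_364_9 (SL.cons S415_430_216_364_10 (SL.cons S415_430_216_364_11 (SL.cons S415_430_216_364_12 (SL.cons S415_430_216_364_13 (SL.cons S415_430_216_364_14 (SL.cons S415_430_216_364_15 (SL.cons S415_430_216_364_16 (SL.cons S415_430_216_364_17 (SL.cons S415_430_216_364_18 (SL.cons S415_430_216_364_19 (SL.cons S415_430_216_364_20 (SL.cons S415_430_216_364_21 (SL.cons S415_430_216_364_22 (SL.cons S415_430_216_364_23 (SL.cons S415_430_216_364_24 (SL.cons S415_430_216_364_25 (SL.cons S415_430_216_364_26 (SL.cons S415_430_216_364_27 (SL.cons S415_430_216_364_28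 (SL.cons S415_430_216_364_29 (SL.cons S415_430_216_364_30 (SL.cons S415_430_216_364_31 (SL.cons S415_430_216_364_32 (SL.cons S415_430_216_364_33 (SL.cons S415_430_216_364_34 (SL.cons S415_430_216_364_35 (SL.cons S415_430_216_364_36 (SL.cons S415_430_216_364_37 (SL.cons S415_430_216_364_38 (SL.cons S415_430_216_364_39 (SL.cons S415_430_216_364_40 (SL.cons S415_430_216_364_41 (SL.cons S415_430_216_364_42 (SL.cons S415_430_216_364_43 (SL.cons S415_430_216_364_44 (SL.cons S415_430_216_364_45 (SL.cons S415_430_216_364_46 (SL.cons S415_430_216_364_47 (SL.cons S415_430_216_364_48 SL.nil)))))))))))))))))))))))))))))))))))))))))))))))))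
noncomputable def S415_430_660_808_0 : EL := (EL.cons 0 (TM.mk (P.cons (P.lf 2989808471 0 0) (P.cons (P.lf 0 151789681 0) (P.cons (P.lf 11347892 0 0) (P.cons (P.lf 0 107694 0) (P.cons (P.lf 0 10908 0) (P.cons (P.lf 508 0 0) P.nil)))))) 254)
 (EL.cons 1 (TM.mk (P.cons (P.lf 1056085295 0 0) (P.cons (P.lf 0 124999670 0) (P.cons (P.lf 0 1931002 0) (P.cons (P.lf 262657 0 0) (P.cons (P.lf 0 6836 0) (P.cons (P.lf 0 50 0) P.nil)))))) 121)
 (EL.cons 5 (TM.mk (P.cons (P.lf 6238401394 0 0) (P.cons (P.lf 53969664 0 0) (P.cons (P.lf 0 4034804 0) (P.cons (P.lf 38296 0 0) (P.cons (P.lf 3876 0 0) (P.cons (P.lf 0 182 0) P.nil)))))) 55)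
 (EL.cons 9 (TM.mk (P.lf 6442450944 0 0) 2)
 EL.nil))))
noncomputable def S415_430_660_808_1 : EL := (EL.cons 0 (TM.mk (P.cons (P.cons (P.lf 3375136471 0 0) (P.cons (P.lf 37119207 0 0) (P.cons (P.lf 0 16006214 0) (P.lf 0 1778452 0)))) (P.cons (P.cons (P.lf 0 385342331 0) (P.cons (P.lf 0 13045759 0) (P.cons (P.lf 5625457 0 0) (P.lf 625041 0 0)))) (P.cons (P.cons (P.lf 5793576 0 0) (P.cons (P.lf 1282196 0 0) (P.cons (P.lf 0 552890 0) (P.lf 0 61419 0)))) (P.cons (P.cons (P.lf 3422178 0 0) (P.cons (P.lf 31887 0 0) (P.cons (P.lf 0 13761 0) P.nil))) (P.cons (P.cons (P.lf 0 210046 0) (P.cons (P.lf 0 12102 0) P.nil)) (P.cons (P.cons (P.lf 0 1341 0) P.nil) P.nil)))))) 35755)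
 (EL.cons 1 (TM.mk (P.cons (P.cons (P.lf 2074435685 0 0) (P.cons (P.lf 34460455 0 0) (P.cons (P.lf 0 14859734 0) (P.lf 0 1651086 0)))) (P.cons (P.cons (P.lf 0 102424349 0) (P.cons (P.lf 0 5542841 0) (P.cons (P.lf 2390139 0 0) (P.lf 265574 0 0)))) (P.cons (P.cons (P.lf 0 33556089 0) (P.cons (P.lf 0 490672 0) (P.cons (P.lf 211583 0 0) (P.lf 23506 0 0)))) (P.cons (P.cons (P.lf 1804247 0 0) (P.cons (P.lf 120655 0 0) (P.cons (P.lf 0 52024 0) P.nil))) (P.cons (P.cons (P.lf 67480 0 0) (P.cons (P.lf 0 4255 0) P.nil)) (P.cons (P.cons (P.lf 0 8377 0) P.nil) P.nil)))))) 14079)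
 (EL.cons 5 (TM.mk (P.cons (P.cons (P.lf 2461002090 0 0) (P.cons (P.lf 0 33411666 0) (P.cons (P.lf 14407486 0 0) (P.lf 1600826 0 0)))) (P.cons (P.cons (P.lf 468419402 0 0) (P.cons (P.lf 12658074 0 0) (P.cons (P.lf 0 5458296 0) (P.lf 0 606476 0)))) (P.cons (P.cons (P.lf 0 26911011 0) (P.cons (P.lf 0 1585724 0) (P.cons (P.lf 683778 0 0) (P.lf 75970 0 0)))) (P.cons (P.cons (P.lf 0 1118567 0) (P.cons (P.lf 50268 0 0) (P.cons (P.lf 0 21672 0) P.nil))) (P.cons (P.cons (P.lf 118461 0 0) (P.cons (P.lf 4086 0 0) P.nil)) (P.cons (P.cons (P.lf 0 1352 0) P.nil) P.nil)))))) 10887)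
 (EL.cons 9 (TM.mk (P.cons (P.cons (P.lf 3230338770 0 0) (P.cons (P.lf 0 17835636 0) (P.cons (P.lf 7690926 0 0) (P.lf 854544 0 0)))) (P.cons (P.cons (P.lf 292419520 0 0) (P.cons (P.lf 7076100 0 0) (P.cons (P.lf 0 3051288 0) (P.lf 0 339030 0)))) (P.cons (P.cons (P.lf 0 21927415 0) (P.cons (P.lf 0 996906 0) (P.cons (P.lf 429876 0 0) (P.lf 47760 0 0)))) (P.cons (P.cons (P.lf 86644 0 0) (P.cons (P.lf 54354 0 0) (P.cons (P.lf 0 23436 0) P.nil))) (P.cons (P.cons (P.lf 38629 0 0) (P.cons (P.lf 0 186 0) P.nil)) (P.cons (P.cons (P.lf 0 1602 0) P.nil) P.nil)))))) 4213)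
 (EL.cons 2 (TM.mk (P.cons (P.cons (P.lf 0 96442042 0) (P.cons (P.lf 89844682 0 0) (P.cons (P.lf 9220983 0 0) (P.cons (P.lf 0 1917705 0) (P.lf 0 159806 0))))) (P.cons (P.cons (P.lf 24169125 0 0) (P.cons (P.lf 0 22515778 0) (P.cons (P.lf 0 2310848 0) (P.cons (P.lf 480588 0 0) (P.lf 40047 0 0))))) (P.cons (P.cons (P.lf 0 1443414 0) (P.cons (P.lf 1344673 0 0) (P.cons (P.lf 138003 0 0) (P.cons (P.lf 0 28698 0) P.nil)))) (P.cons (P.cons (P.lf 0 39785 0) (P.cons (P.lf 37063 0 0) (P.cons (P.lf 3802 0 0) P.nil))) (P.cons (P.cons (P.lf 4896 0 0) (P.cons (P.lf 0 4561 0) P.nil)) (P.cons (P.cons (P.lf 0 123 0) P.nil) P.nil)))))) 6548)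
 (EL.cons 6 (TM.mk (P.cons (P.cons (P.lf 18633867 0 0) (P.cons (P.lf 0 17359173 0) (P.cons (P.lf 0 1781613 0) (P.cons (P.lf 370524 0 0) (P.lf 30876 0 0))))) (P.cons (P.cons (P.lf 0 7392789 0) (P.cons (P.lf 6887067 0 0) (P.cons (P.lf 706836 0 0) (P.cons (P.lf 0 147000 0) (P.lf 0 12249 0))))) (P.cons (P.cons (P.lf 1041522 0 0) (P.cons (P.lf 0 970275 0) (P.cons (P.lf 0 99579 0) (P.cons (P.lf 20709 0 0) P.nil)))) (P.cons (P.cons (P.lf 0 56787 0) (P.cons (P.lf 52902 0 0) (P.cons (P.lf 5427 0 0) P.nil))) (P.cons (P.cons (P.lf 198 0 0) (P.cons (P.lf 0 183 0) P.nil)) (P.cons (P.cons (P.lf 93 0 0) P.nil) P.nil)))))) 3384)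
 EL.nil))))))
noncomputable def S415_430_660_808_2 : EL := (EL.cons 0 (TM.mk (P.cons (P.cons (P.lf 2632997805 0 0) (P.cons (P.lf 26836962 0 0) (P.cons (P.lf 0 11800837 0) (P.cons (P.lf 0 1088793 0) (P.cons (P.lf 0 20580 0) (P.cons (P.lf 0 9435 0) P.nil)))))) (P.cons (P.cons (P.lf 0 177968469 0) (P.cons (P.lf 0 3128398 0) (P.cons (P.lf 1522102 0 0) (P.cons (P.lf 577 0 0) (P.cons (P.lf 15591 0 0) P.nil))))) (P.cons (P.cons (P.lf 0 44044788 0) (P.cons (P.lf 0 1804180 0) (P.cons (P.lf 723555 0 0) (P.cons (P.lf 133375 0 0) P.nil)))) (P.cons (P.cons (P.lf 6860281 0 0) (P.cons (P.lf 431929 0 0) (P.cons (P.lf 0 177405 0) P.nil))) (P.cons (P.cons (P.lf 12574 0 0) (P.cons (P.lf 0 24538 0) P.nil)) (P.cons (P.cons (P.lf 0 44017 0) P.nil) P.nil)))))) 184936)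
 (EL.cons 1 (TM.mk (P.cons (P.cons (P.lf 1814787211 0 0) (P.cons (P.lf 26003984 0 0) (P.cons (P.lf 0 11412114 0) (P.cons (P.lf 0 1074386 0) (P.cons (P.lf 0 17929 0) (P.cons (P.lf 0 8215 0) P.nil)))))) (P.cons (P.cons (P.lf 68957208 0 0) (P.cons (P.lf 1448947 0 0) (P.cons (P.lf 0 511023 0) (P.cons (P.lf 0 167528 0) (P.cons (P.lf 10253 0 0) P.nil))))) (P.cons (P.cons (P.lf 0 49465926 0) (P.cons (P.lf 0 1771420 0) (P.cons (P.lf 740811 0 0) (P.cons (P.lf 104742 0 0) P.nil)))) (P.cons (P.cons (P.lf 0 319021 0) (P.cons (P.lf 109781 0 0) (P.cons (P.lf 0 46136 0) P.nil))) (P.cons (P.cons (P.lf 412344 0 0) (P.cons (P.lf 18564 0 0) P.nil)) (P.cons (P.cons (P.lf 0 15475 0) P.nil) P.nil)))))) 79215)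
 (EL.cons 5 (TM.mk (P.cons (P.cons (P.lf 899527127 0 0) (P.cons (P.lf 0 29812938 0) (P.cons (P.lf 12992860 0 0) (P.cons (P.lf 1310093 0 0) (P.cons (P.lf 12361 0 0) (P.cons (P.lf 5660 0 0) P.nil)))))) (P.cons (P.cons (P.lf 395624067 0 0) (P.cons (P.lf 7319603 0 0) (P.cons (P.lf 0 3262243 0) (P.cons (P.lf 0 259310 0) (P.cons (P.lf 0 9537 0) P.nil))))) (P.cons (P.cons (P.lf 5781460 0 0) (P.cons (P.lf 374061 0 0) (P.cons (P.lf 0 126879 0) (P.cons (P.lf 0 47590 0) P.nil)))) (P.cons (P.cons (P.lf 0 4596683 0) (P.cons (P.lf 0 249493 0) (P.cons (P.lf 101612 0 0) P.nil))) (P.cons (P.cons (P.lf 132930 0 0) (P.cons (P.lf 21767 0 0) P.nil)) (P.cons (P.cons (P.lf 17113 0 0) P.nil) P.nil)))))) 65621)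
 (EL.cons 9 (TM.mk (P.cons (P.cons (P.lf 1619738925 0 0) (P.cons (P.lf 0 17886094 0) (P.cons (P.lf 7762060 0 0) (P.cons (P.lf 814377 0 0) (P.cons (P.lf 4449 0 0) (P.cons (P.lf 2040 0 0) P.nil)))))) (P.cons (P.cons (P.lf 293246815 0 0) (P.cons (P.lf 5477017 0 0) (P.cons (P.lf 0 2400925 0) (P.cons (P.lf 0 228624 0) (P.cons (P.lf 0 3529 0) P.nil))))) (P.cons (P.cons (P.lf 0 8716680 0) (P.cons (P.lf 0 235954 0) (P.cons (P.lf 115036 0 0) (P.cons (P.lf 0 160 0) P.nil)))) (P.cons (P.cons (P.lf 0 1903657 0) (P.cons (P.lf 0 84637 0) (P.cons (P.lf 34008 0 0) P.nil))) (P.cons (P.cons (P.lf 121236 0 0) (P.cons (P.lf 11509 0 0) P.nil)) (P.cons (P.cons (P.lf 1309 0 0) P.nil) P.nil)))))) 27847)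
 (EL.cons 2 (TM.mk (P.cons (P.cons (P.lf 0 96714888 0) (P.cons (P.lf 90632857 0 0) (P.cons (P.lf 8519343 0 0) (P.cons (P.lf 0 1785262 0) (P.cons (P.lf 0 103786 0) (P.cons (P.lf 0 1243 0) P.nil)))))) (P.cons (P.cons (P.lf 15482593 0 0) (P.cons (P.lf 0 14769146 0) (P.cons (P.lf 0 1009226 0) (P.cons (P.lf 218610 0 0) (P.cons (P.lf 0 10895 0) P.nil))))) (P.cons (P.cons (P.lf 1403043 0 0) (P.cons (P.lf 0 1216130 0) (P.cons (P.lf 0 258069 0) (P.cons (P.lf 51373 0 0) P.nil)))) (P.cons (P.cons (P.lf 0 338045 0) (P.cons (P.lf 302861 0 0) (P.cons (P.lf 48751 0 0) P.nil))) (P.cons (P.cons (P.lf 10614 0 0) (P.cons (P.lf 0 9146 0) P.nil)) (P.cons (P.cons (P.lf 883 0 0) P.nil) P.nil)))))) 49837)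
 (EL.cons 6 (TM.mk (P.cons (P.cons (P.lf 18686586 0 0) (P.cons (P.lf 0 17511456 0) (P.cons (P.lf 0 1646046 0) (P.cons (P.lf 344934 0 0) (P.cons (P.lf 20052 0 0) (P.cons (P.lf 240 0 0) P.nil)))))) (P.cons (P.cons (P.lf 0 5722140 0) (P.cons (P.lf 5412570 0 0) (P.cons (P.lf 435534 0 0) (P.cons (P.lf 0 92640 0) (P.cons (P.lf 0 822 0) P.nil))))) (P.cons (P.cons (P.lf 246516 0 0) (P.cons (P.lf 0 257424 0) (P.cons (P.lf 14274 0 0) (P.cons (P.lf 0 2268 0) P.nil)))) (P.cons (P.cons (P.lf 88422 0 0) (P.cons (P.lf 0 77166 0) (P.cons (P.lf 0 15546 0) P.nil))) (P.cons (P.cons (P.lf 0 12018 0) (P.cons (P.lf 10620 0 0) P.nil)) (P.cons (P.cons (P.lf 426 0 0) P.nil) P.nil)))))) 14382)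
 EL.nil))))))
noncomputable def S415_430_660_808_3 : EL := (EL.cons 0 (TM.mk (P.cons (P.lf 5465908392 0 0) (P.cons (P.lf 151789681 0 0) (P.cons (P.lf 0 11347892 0) (P.cons (P.lf 107694 0 0) (P.cons (P.lf 10908 0 0) (P.cons (P.lf 0 508 0) P.nil)))))) 254)
 (EL.cons 1 (TM.mk (P.cons (P.lf 0 1056085295 0) (P.cons (P.lf 124999670 0 0) (P.cons (P.lf 1931002 0 0) (P.cons (P.lf 0 262657 0) (P.cons (P.lf 6836 0 0) (P.cons (P.lf 50 0 0) P.nil)))))) 121)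
 (EL.cons 5 (TM.mk (P.cons (P.lf 204049550 0 0) (P.cons (P.lf 0 53969664 0) (P.cons (P.lf 4034804 0 0) (P.cons (P.lf 0 38296 0) (P.cons (P.lf 0 3876 0) (P.cons (P.lf 182 0 0) P.nil)))))) 48)
 EL.nil)))
noncomputable def S415_430_660_808_4 : EL := (EL.cons 0 (TM.mk (P.cons (P.cons (P.lf 2740686104 0 0) (P.cons (P.lf 0 15132120 0) (P.cons (P.lf 6525138 0 0) (P.lf 725011 0 0)))) (P.cons (P.cons (P.lf 324204315 0 0) (P.cons (P.lf 5583285 0 0) (P.cons (P.lf 0 2407570 0) (P.lf 0 267505 0)))) (P.cons (P.cons (P.lf 0 17404015 0) (P.cons (P.lf 0 647658 0) (P.cons (P.lf 279275 0 0) (P.lf 31027 0 0)))) (P.cons (P.cons (P.lf 0 904192 0) (P.cons (P.lf 9864 0 0) (P.cons (P.lf 0 4252 0) P.nil))) (P.cons (P.cons (P.lf 83796 0 0) (P.cons (P.lf 2965 0 0) P.nil)) (P.cons (P.cons (P.lf 0 727 0) P.nil) P.nil)))))) 7419)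
 (EL.cons 1 (TM.mk (P.cons (P.cons (P.lf 0 529536553 0) (P.cons (P.lf 2923723 0 0) (P.cons (P.lf 0 1260742 0) (P.lf 0 140081 0)))) (P.cons (P.cons (P.lf 14741490 0 0) (P.cons (P.lf 0 1506011 0) (P.cons (P.lf 649408 0 0) (P.lf 72155 0 0)))) (P.cons (P.cons (P.lf 10236376 0 0) (P.cons (P.lf 295365 0 0) (P.cons (P.lf 0 127365 0) (P.lf 0 14150 0)))) (P.cons (P.cons (P.lf 0 483703 0) (P.cons (P.lf 0 25402 0) (P.cons (P.lf 10953 0 0) P.nil))) (P.cons (P.cons (P.lf 0 19715 0) (P.cons (P.lf 478 0 0) P.nil)) (P.cons (P.cons (P.lf 2266 0 0) P.nil) P.nil)))))) 2848)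
 (EL.cons 5 (TM.mk (P.cons (P.cons (P.lf 102313416 0 0) (P.cons (P.lf 0 564900 0) (P.cons (P.lf 243590 0 0) (P.lf 27064 0 0)))) (P.cons (P.cons (P.lf 0 17799472 0) (P.cons (P.lf 373530 0 0) (P.cons (P.lf 0 161070 0) (P.lf 0 17896 0)))) (P.cons (P.cons (P.lf 0 1121044 0) (P.cons (P.lf 0 102022 0) (P.cons (P.lf 43992 0 0) (P.lf 4886 0 0)))) (P.cons (P.cons (P.lf 350368 0 0) (P.cons (P.lf 14610 0 0) (P.cons (P.lf 0 6300 0) P.nil))) (P.cons (P.cons (P.lf 0 16916 0) (P.cons (P.lf 0 1116 0) P.nil)) (P.cons (P.cons (P.lf 0 274 0) P.nil) P.nil)))))) 1532)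
 EL.nil)))
noncomputable def S415_430_660_808_5 : EL := (EL.cons 0 (TM.mk (P.cons (P.cons (P.lf 1374219943 0 0) (P.cons (P.lf 0 15174931 0) (P.cons (P.lf 6585491 0 0) (P.cons (P.lf 690932 0 0) (P.cons (P.lf 3774 0 0) (P.cons (P.lf 1729 0 0) P.nil)))))) (P.cons (P.cons (P.lf 286959093 0 0) (P.cons (P.lf 4225401 0 0) (P.cons (P.lf 0 1854112 0) (P.cons (P.lf 0 174781 0) (P.cons (P.lf 0 2888 0) P.nil))))) (P.cons (P.cons (P.lf 0 3339311 0) (P.cons (P.lf 0 39638 0) (P.cons (P.lf 27358 0 0) (P.cons (P.lf 0 6955 0) P.nil)))) (P.cons (P.cons (P.lf 0 2309930 0) (P.cons (P.lf 0 87312 0) (P.cons (P.lf 35920 0 0) P.nil))) (P.cons (P.cons (P.lf 81005 0 0) (P.cons (P.lf 8245 0 0) P.nil)) (P.cons (P.cons (P.lf 7542 0 0) P.nil) P.nil)))))) 26927)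
 (EL.cons 1 (TM.mk (P.cons (P.cons (P.lf 0 265517341 0) (P.cons (P.lf 2931995 0 0) (P.cons (P.lf 0 1272403 0) (P.cons (P.lf 0 133496 0) (P.cons (P.lf 0 727 0) (P.cons (P.lf 0 333 0) P.nil)))))) (P.cons (P.cons (P.lf 0 16643791 0) (P.cons (P.lf 0 1244859 0) (P.cons (P.lf 544175 0 0) (P.cons (P.lf 53278 0 0) (P.cons (P.lf 663 0 0) P.nil))))) (P.cons (P.cons (P.lf 7604098 0 0) (P.cons (P.lf 139584 0 0) (P.cons (P.lf 0 63114 0) (P.cons (P.lf 0 4164 0) P.nil)))) (P.cons (P.cons (P.lf 164791 0 0) (P.cons (P.lf 11666 0 0) (P.cons (P.lf 0 4378 0) P.nil))) (P.cons (P.cons (P.lf 0 69658 0) (P.cons (P.lf 0 3840 0) P.nil)) (P.cons (P.cons (P.lf 2246 0 0) P.nil) P.nil)))))) 7201)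
 (EL.cons 5 (TM.mk (P.cons (P.cons (P.lf 51301438 0 0) (P.cons (P.lf 0 566500 0) (P.cons (P.lf 245844 0 0) (P.cons (P.lf 25792 0 0) (P.cons (P.lf 140 0 0) (P.cons (P.lf 64 0 0) P.nil)))))) (P.cons (P.cons (P.lf 0 4280960 0) (P.cons (P.lf 323306 0 0) (P.cons (P.lf 0 141066 0) (P.cons (P.lf 0 14062 0) (P.cons (P.lf 0 148 0) P.nil))))) (P.cons (P.cons (P.lf 0 1718248 0) (P.cons (P.lf 0 64556 0) (P.cons (P.lf 28616 0 0) (P.cons (P.lf 2418 0 0) P.nil)))) (P.cons (P.cons (P.lf 186754 0 0) (P.cons (P.lf 2832 0 0) (P.cons (P.lf 0 1436 0) P.nil))) (P.cons (P.cons (P.lf 11610 0 0) (P.cons (P.lf 902 0 0) P.nil)) (P.cons (P.cons (P.lf 0 2244 0) P.nil) P.nil)))))) 1942)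
 EL.nil)))
noncomputable def S415_430_660_808_6 : EL := (EL.cons 12 (TM.mk (P.lf 8589934592 0 0) 0)
 (EL.cons 3 (TM.mk (P.cons (P.lf 3426069015 0 0) (P.cons (P.lf 47571408 0 0) (P.cons (P.lf 0 3886736 0) (P.cons (P.lf 87720 0 0) (P.cons (P.lf 0 3 0) (P.cons (P.lf 0 60 0) P.nil)))))) 78)
 (EL.cons 7 (TM.mk (P.cons (P.lf 0 661961535 0) (P.cons (P.lf 87542076 0 0) (P.cons (P.lf 0 756135 0) (P.cons (P.lf 0 37875 0) (P.cons (P.lf 1711 0 0) (P.cons (P.lf 0 26 0) P.nil)))))) 43)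
 EL.nil)))
noncomputable def S415_430_660_808_7 : EL := (EL.cons 12 (TM.mk (P.cons (P.cons (P.lf 4307118360 0 0) (P.cons (P.lf 0 23780848 0) (P.cons (P.lf 10254568 0 0) (P.lf 1139392 0 0)))) (P.cons (P.cons (P.lf 389892694 0 0) (P.cons (P.lf 9434800 0 0) (P.cons (P.lf 0 4068384 0) (P.lf 0 452040 0)))) (P.cons (P.cons (P.lf 0 29236554 0) (P.cons (P.lf 0 1329208 0) (P.cons (P.lf 573168 0 0) (P.lf 63680 0 0)))) (P.cons (P.cons (P.lf 115526 0 0) (P.cons (P.lf 72472 0 0) (P.cons (P.lf 0 31248 0) P.nil))) (P.cons (P.cons (P.lf 51506 0 0) (P.cons (P.lf 0 248 0) P.nil)) (P.cons (P.cons (P.lf 0 2136 0) P.nil) P.nil)))))) 5592)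
 (EL.cons 3 (TM.mk (P.cons (P.cons (P.lf 2893772483 0 0) (P.cons (P.lf 18969836 0 0) (P.cons (P.lf 0 8180004 0) (P.lf 0 908884 0)))) (P.cons (P.cons (P.lf 0 115857509 0) (P.cons (P.lf 0 7262682 0) (P.cons (P.lf 3131742 0 0) (P.lf 347968 0 0)))) (P.cons (P.cons (P.lf 4744441 0 0) (P.cons (P.lf 934278 0 0) (P.cons (P.lf 0 402870 0) (P.lf 0 44758 0)))) (P.cons (P.cons (P.lf 668853 0 0) (P.cons (P.lf 0 34062 0) (P.cons (P.lf 14684 0 0) P.nil))) (P.cons (P.cons (P.lf 0 59329 0) (P.cons (P.lf 0 1998 0) P.nil)) (P.cons (P.cons (P.lf 1079 0 0) P.nil) P.nil)))))) 14478)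
 (EL.cons 7 (TM.mk (P.cons (P.cons (P.lf 1831987363 0 0) (P.cons (P.lf 54195765 0 0) (P.cons (P.lf 0 23369823 0) (P.lf 0 2596647 0)))) (P.cons (P.cons (P.lf 0 213203841 0) (P.cons (P.lf 0 13364969 0) (P.cons (P.lf 5763126 0 0) (P.lf 640348 0 0)))) (P.cons (P.cons (P.lf 0 6847068 0) (P.cons (P.lf 742768 0 0) (P.cons (P.lf 0 320288 0) (P.lf 0 35588 0)))) (P.cons (P.cons (P.lf 869796 0 0) (P.cons (P.lf 28855 0 0) (P.cons (P.lf 0 12444 0) P.nil))) (P.cons (P.cons (P.lf 0 9449 0) (P.cons (P.lf 0 2754 0) P.nil)) (P.cons (P.cons (P.lf 0 1495 0) P.nil) P.nil)))))) 8164)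
 (EL.cons 10 (TM.mk (P.cons (P.cons (P.lf 0 120901074 0) (P.cons (P.lf 112630533 0 0) (P.cons (P.lf 11559555 0 0) (P.cons (P.lf 0 2404065 0) (P.lf 0 200337 0))))) (P.cons (P.cons (P.lf 31977477 0 0) (P.cons (P.lf 0 29789979 0) (P.cons (P.lf 0 3057420 0) (P.cons (P.lf 635856 0 0) (P.lf 52986 0 0))))) (P.cons (P.cons (P.lf 0 2390655 0) (P.cons (P.lf 2227116 0 0) (P.cons (P.lf 228573 0 0) (P.cons (P.lf 0 47535 0) P.nil)))) (P.cons (P.cons (P.lf 22689 0 0) (P.cons (P.lf 0 21138 0) (P.cons (P.lf 0 2169 0) P.nil))) (P.cons (P.cons (P.lf 2295 0 0) (P.cons (P.lf 0 2139 0) P.nil)) (P.cons (P.cons (P.lf 0 105 0) P.nil) P.nil)))))) 4986)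
 EL.nil))))
noncomputable def S415_430_660_808_8 : EL := (EL.cons 12 (TM.mk (P.cons (P.cons (P.lf 2159651900 0 0) (P.cons (P.lf 0 23848126 0) (P.cons (P.lf 10349414 0 0) (P.cons (P.lf 1085836 0 0) (P.cons (P.lf 5932 0 0) (P.cons (P.lf 2720 0 0) P.nil)))))) (P.cons (P.cons (P.lf 390995754 0 0) (P.cons (P.lf 7302690 0 0) (P.cons (P.lf 0 3201234 0) (P.cons (P.lf 0 304832 0) (P.cons (P.lf 0 4706 0) P.nil))))) (P.cons (P.cons (P.lf 0 11622240 0) (P.cons (P.lf 0 314606 0) (P.cons (P.lf 153382 0 0) (P.cons (P.lf 0 214 0) P.nil)))) (P.cons (P.cons (P.lf 0 2538210 0) (P.cons (P.lf 0 112850 0) (P.cons (P.lf 45344 0 0) P.nil))) (P.cons (P.cons (P.lf 161648 0 0) (P.cons (P.lf 15346 0 0) P.nil)) (P.cons (P.cons (P.lf 1746 0 0) P.nil) P.nil)))))) 37100)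
 (EL.cons 3 (TM.mk (P.cons (P.cons (P.lf 2040588845 0 0) (P.cons (P.lf 12512695 0 0) (P.cons (P.lf 0 5526907 0) (P.cons (P.lf 0 486275 0) (P.cons (P.lf 0 11831 0) (P.cons (P.lf 0 5426 0) P.nil)))))) (P.cons (P.cons (P.lf 0 21399302 0) (P.cons (P.lf 0 1343476 0) (P.cons (P.lf 681669 0 0) (P.cons (P.lf 0 23911 0) (P.cons (P.lf 9220 0 0) P.nil))))) (P.cons (P.cons (P.lf 0 22010613 0) (P.cons (P.lf 0 953600 0) (P.cons (P.lf 377451 0 0) (P.cons (P.lf 74794 0 0) P.nil)))) (P.cons (P.cons (P.lf 3199519 0 0) (P.cons (P.lf 242303 0 0) (P.cons (P.lf 0 98474 0) P.nil))) (P.cons (P.cons (P.lf 0 59152 0) (P.cons (P.lf 0 18924 0) P.nil)) (P.cons (P.cons (P.lf 0 14165 0) P.nil) P.nil)))))) 91604)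
 (EL.cons 7 (TM.mk (P.cons (P.cons (P.lf 2003598405 0 0) (P.cons (P.lf 42367747 0 0) (P.cons (P.lf 0 18564451 0) (P.cons (P.lf 0 1775521 0) (P.cons (P.lf 0 26581 0) (P.cons (P.lf 0 12185 0) P.nil)))))) (P.cons (P.cons (P.lf 0 39379534 0) (P.cons (P.lf 0 2472299 0) (P.cons (P.lf 1254442 0 0) (P.cons (P.lf 0 43983 0) (P.cons (P.lf 16971 0 0) P.nil))))) (P.cons (P.cons (P.lf 0 43381766 0) (P.cons (P.lf 0 1935471 0) (P.cons (P.lf 786257 0 0) (P.cons (P.lf 134419 0 0) P.nil)))) (P.cons (P.cons (P.lf 1718057 0 0) (P.cons (P.lf 260882 0 0) (P.cons (P.lf 0 106413 0) P.nil))) (P.cons (P.cons (P.lf 170919 0 0) (P.cons (P.lf 0 2191 0) P.nil)) (P.cons (P.cons (P.lf 0 13784 0) P.nil) P.nil)))))) 70078)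
 (EL.cons 10 (TM.mk (P.cons (P.cons (P.lf 0 121243116 0) (P.cons (P.lf 113618598 0 0) (P.cons (P.lf 10679970 0 0) (P.cons (P.lf 0 2238024 0) (P.cons (P.lf 0 130110 0) (P.cons (P.lf 0 1560 0) P.nil)))))) (P.cons (P.cons (P.lf 21092670 0 0) (P.cons (P.lf 0 20092416 0) (P.cons (P.lf 0 1413468 0) (P.cons (P.lf 305130 0 0) (P.cons (P.lf 0 11856 0) P.nil))))) (P.cons (P.cons (P.lf 1328454 0 0) (P.cons (P.lf 0 1116678 0) (P.cons (P.lf 0 291774 0) (P.cons (P.lf 57630 0 0) P.nil)))) (P.cons (P.cons (P.lf 0 415194 0) (P.cons (P.lf 369474 0 0) (P.cons (P.lf 63288 0 0) P.nil))) (P.cons (P.cons (P.lf 20040 0 0) (P.cons (P.lf 0 17346 0) P.nil)) (P.cons (P.cons (P.lf 324 0 0) P.nil) P.nil)))))) 62136)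
 EL.nil))))
noncomputable def S415_430_660_808_9 : EL := (EL.cons 3 (TM.mk (P.cons (P.lf 3426069015 0 0) (P.cons (P.lf 47571408 0 0) (P.cons (P.lf 0 3886736 0) (P.cons (P.lf 87720 0 0) (P.cons (P.lf 0 3 0) (P.cons (P.lf 0 60 0) P.nil)))))) 78)
 (EL.cons 7 (TM.mk (P.cons (P.lf 0 661961535 0) (P.cons (P.lf 87542076 0 0) (P.cons (P.lf 0 756135 0) (P.cons (P.lf 0 37875 0) (P.cons (P.lf 1711 0 0) (P.cons (P.lf 0 26 0) P.nil)))))) 43)
 EL.nil))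
noncomputable def S415_430_660_808_10 : EL := (EL.cons 3 (TM.mk (P.cons (P.cons (P.lf 1717880921 0 0) (P.cons (P.lf 0 9484918 0) (P.cons (P.lf 4090002 0 0) (P.lf 454442 0 0)))) (P.cons (P.cons (P.lf 179360500 0 0) (P.cons (P.lf 3631341 0 0) (P.cons (P.lf 0 1565871 0) (P.lf 0 173984 0)))) (P.cons (P.cons (P.lf 0 11450534 0) (P.cons (P.lf 0 467139 0) (P.cons (P.lf 201435 0 0) (P.lf 22379 0 0)))) (P.cons (P.cons (P.lf 0 248268 0) (P.cons (P.lf 17031 0 0) (P.cons (P.lf 0 7342 0) P.nil))) (P.cons (P.cons (P.lf 38390 0 0) (P.cons (P.lf 999 0 0) P.nil)) (P.cons (P.cons (P.lf 0 946 0) P.nil) P.nil)))))) 3527)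
 (EL.cons 7 (TM.mk (P.cons (P.cons (P.lf 0 331917158 0) (P.cons (P.lf 1832610 0 0) (P.cons (P.lf 0 790242 0) (P.lf 0 87804 0)))) (P.cons (P.cons (P.lf 13848780 0 0) (P.cons (P.lf 0 969425 0) (P.cons (P.lf 418026 0 0) (P.lf 46447 0 0)))) (P.cons (P.cons (P.lf 5847393 0 0) (P.cons (P.lf 200677 0 0) (P.cons (P.lf 0 86534 0) (P.lf 0 9614 0)))) (P.cons (P.cons (P.lf 0 360171 0) (P.cons (P.lf 0 19856 0) (P.cons (P.lf 8562 0 0) P.nil))) (P.cons (P.cons (P.lf 0 1079 0) (P.cons (P.lf 828 0 0) P.nil)) (P.cons (P.cons (P.lf 872 0 0) P.nil) P.nil)))))) 1680)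
 EL.nil))
noncomputable def S415_430_660_808_11 : EL := (EL.cons 3 (TM.mk (P.cons (P.cons (P.lf 861370523 0 0) (P.cons (P.lf 0 9511751 0) (P.cons (P.lf 4127831 0 0) (P.cons (P.lf 433081 0 0) (P.cons (P.lf 2365 0 0) (P.cons (P.lf 1084 0 0) P.nil)))))) (P.cons (P.cons (P.lf 167907694 0 0) (P.cons (P.lf 2780582 0 0) (P.cons (P.lf 0 1219485 0) (P.cons (P.lf 0 115567 0) (P.cons (P.lf 0 1844 0) P.nil))))) (P.cons (P.cons (P.lf 0 3447333 0) (P.cons (P.lf 0 74246 0) (P.cons (P.lf 38763 0 0) (P.cons (P.lf 0 2264 0) P.nil)))) (P.cons (P.cons (P.lf 0 1231583 0) (P.cons (P.lf 0 50299 0) (P.cons (P.lf 20488 0 0) P.nil))) (P.cons (P.cons (P.lf 59666 0 0) (P.cons (P.lf 5712 0 0) P.nil)) (P.cons (P.cons (P.lf 2605 0 0) P.nil) P.nil)))))) 15922)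
 (EL.cons 7 (TM.mk (P.cons (P.cons (P.lf 0 166428099 0) (P.cons (P.lf 1837795 0 0) (P.cons (P.lf 0 797551 0) (P.cons (P.lf 0 83677 0) (P.cons (P.lf 0 457 0) (P.cons (P.lf 0 209 0) P.nil)))))) (P.cons (P.cons (P.lf 0 8121568 0) (P.cons (P.lf 0 805805 0) (P.cons (P.lf 352168 0 0) (P.cons (P.lf 34557 0 0) (P.cons (P.lf 423 0 0) P.nil))))) (P.cons (P.cons (P.lf 4690264 0 0) (P.cons (P.lf 100767 0 0) (P.cons (P.lf 0 45355 0) (P.cons (P.lf 0 3185 0) P.nil)))) (P.cons (P.cons (P.lf 33215 0 0) (P.cons (P.lf 4952 0 0) (P.cons (P.lf 0 1695 0) P.nil))) (P.cons (P.cons (P.lf 0 38595 0) (P.cons (P.lf 0 2341 0) P.nil)) (P.cons (P.cons (P.lf 1858 0 0) P.nil) P.nil)))))) 4104)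
 EL.nil))
noncomputable def S415_430_660_808_12 : EL := (EL.cons 4 (TM.mk (P.cons (P.lf 0 3426069015 0) (P.cons (P.lf 0 47571408 0) (P.cons (P.lf 3886736 0 0) (P.cons (P.lf 0 87720 0) (P.cons (P.lf 3 0 0) (P.cons (P.lf 60 0 0) P.nil)))))) 78)
 (EL.cons 8 (TM.mk (P.cons (P.lf 661961535 0 0) (P.cons (P.lf 0 87542076 0) (P.cons (P.lf 756135 0 0) (P.cons (P.lf 37875 0 0) (P.cons (P.lf 0 1711 0) (P.cons (P.lf 26 0 0) P.nil)))))) 43)
 EL.nil))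
noncomputable def S415_430_660_808_13 : EL := (EL.cons 4 (TM.mk (P.cons (P.cons (P.lf 0 1717880921 0) (P.cons (P.lf 9484918 0 0) (P.cons (P.lf 0 4090002 0) (P.lf 0 454442 0)))) (P.cons (P.cons (P.lf 0 179360500 0) (P.cons (P.lf 0 3631341 0) (P.cons (P.lf 1565871 0 0) (P.lf 173984 0 0)))) (P.cons (P.cons (P.lf 11450534 0 0) (P.cons (P.lf 467139 0 0) (P.cons (P.lf 0 201435 0) (P.lf 0 22379 0)))) (P.cons (P.cons (P.lf 248268 0 0) (P.cons (P.lf 0 17031 0) (P.cons (P.lf 7342 0 0) P.nil))) (P.cons (P.cons (P.lf 0 38390 0) (P.cons (P.lf 0 999 0) P.nil)) (P.cons (P.cons (P.lf 946 0 0) P.nil) P.nil)))))) 3527)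
 (EL.cons 8 (TM.mk (P.cons (P.cons (P.lf 331917158 0 0) (P.cons (P.lf 0 1832610 0) (P.cons (P.lf 790242 0 0) (P.lf 87804 0 0)))) (P.cons (P.cons (P.lf 0 13848780 0) (P.cons (P.lf 969425 0 0) (P.cons (P.lf 0 418026 0) (P.lf 0 46447 0)))) (P.cons (P.cons (P.lf 0 5847393 0) (P.cons (P.lf 0 200677 0) (P.cons (P.lf 86534 0 0) (P.lf 9614 0 0)))) (P.cons (P.cons (P.lf 360171 0 0) (P.cons (P.lf 19856 0 0) (P.cons (P.lf 0 8562 0) P.nil))) (P.cons (P.cons (P.lf 1079 0 0) (P.cons (P.lf 0 828 0) P.nil)) (P.cons (P.cons (P.lf 0 872 0) P.nil) P.nil)))))) 1680)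
 EL.nil))
noncomputable def S415_430_660_808_14 : EL := (EL.cons 4 (TM.mk (P.cons (P.cons (P.lf 0 861370523 0) (P.cons (P.lf 9511751 0 0) (P.cons (P.lf 0 4127831 0) (P.cons (P.lf 0 433081 0) (P.cons (P.lf 0 2365 0) (P.cons (P.lf 0 1084 0) P.nil)))))) (P.cons (P.cons (P.lf 0 167907694 0) (P.cons (P.lf 0 2780582 0) (P.cons (P.lf 1219485 0 0) (P.cons (P.lf 115567 0 0) (P.cons (P.lf 1844 0 0) P.nil))))) (P.cons (P.cons (P.lf 3447333 0 0) (P.cons (P.lf 74246 0 0) (P.cons (P.lf 0 38763 0) (P.cons (P.lf 2264 0 0) P.nil)))) (P.cons (P.cons (P.lf 1231583 0 0) (P.cons (P.lf 50299 0 0) (P.cons (P.lf 0 20488 0) P.nil))) (P.cons (P.cons (P.lf 0 59666 0) (P.cons (P.lf 0 5712 0) P.nil)) (P.cons (P.cons (P.lf 0 2605 0) P.nil) P.nil)))))) 15922)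
 (EL.cons 8 (TM.mk (P.cons (P.cons (P.lf 166428099 0 0) (P.cons (P.lf 0 1837795 0) (P.cons (P.lf 797551 0 0) (P.cons (P.lf 83677 0 0) (P.cons (P.lf 457 0 0) (P.cons (P.lf 209 0 0) P.nil)))))) (P.cons (P.cons (P.lf 8121568 0 0) (P.cons (P.lf 805805 0 0) (P.cons (P.lf 0 352168 0) (P.cons (P.lf 0 34557 0) (P.cons (P.lf 0 423 0) P.nil))))) (P.cons (P.cons (P.lf 0 4690264 0) (P.cons (P.lf 0 100767 0) (P.cons (P.lf 45355 0 0) (P.cons (P.lf 3185 0 0) P.nil)))) (P.cons (P.cons (P.lf 0 33215 0) (P.cons (P.lf 0 4952 0) (P.cons (P.lf 1695 0 0) P.nil))) (P.cons (P.cons (P.lf 38595 0 0) (P.cons (P.lf 2341 0 0) P.nil)) (P.cons (P.cons (P.lf 0 1858 0) P.nil) P.nil)))))) 4104)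
 EL.nil))
noncomputable def S415_430_660_808_15 : EL := (EL.cons 4 (TM.mk (P.cons (P.lf 0 2915151142 0) (P.cons (P.lf 0 80954496 0) (P.cons (P.lf 6052209 0 0) (P.cons (P.lf 0 57436 0) (P.cons (P.lf 0 5818 0) (P.cons (P.lf 270 0 0) P.nil)))))) 139)
 (EL.cons 8 (TM.mk (P.cons (P.lf 563245491 0 0) (P.cons (P.lf 0 66666491 0) (P.cons (P.lf 0 1029868 0) (P.cons (P.lf 140084 0 0) (P.cons (P.lf 0 3646 0) (P.cons (P.lf 0 27 0) P.nil)))))) 61)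
 EL.nil))
noncomputable def S415_430_660_808_16 : EL := (EL.cons 4 (TM.mk (P.cons (P.cons (P.lf 0 1461699255 0) (P.cons (P.lf 8070464 0 0) (P.cons (P.lf 0 3480074 0) (P.lf 0 386672 0)))) (P.cons (P.cons (P.lf 0 172908968 0) (P.cons (P.lf 0 2977752 0) (P.cons (P.lf 1284037 0 0) (P.lf 142669 0 0)))) (P.cons (P.cons (P.lf 9282141 0 0) (P.cons (P.lf 345418 0 0) (P.cons (P.lf 0 148947 0) (P.lf 0 16547 0)))) (P.cons (P.cons (P.lf 482235 0 0) (P.cons (P.lf 0 5261 0) (P.cons (P.lf 2267 0 0) P.nil))) (P.cons (P.cons (P.lf 0 44691 0) (P.cons (P.lf 0 1581 0) P.nil)) (P.cons (P.cons (P.lf 388 0 0) P.nil) P.nil)))))) 3965)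
 (EL.cons 8 (TM.mk (P.cons (P.cons (P.lf 282419495 0 0) (P.cons (P.lf 0 1559319 0) (P.cons (P.lf 672396 0 0) (P.lf 74710 0 0)))) (P.cons (P.cons (P.lf 0 7862128 0) (P.cons (P.lf 803206 0 0) (P.cons (P.lf 0 346351 0) (P.lf 0 38483 0)))) (P.cons (P.cons (P.lf 0 5459401 0) (P.cons (P.lf 0 157528 0) (P.cons (P.lf 67928 0 0) (P.lf 7547 0 0)))) (P.cons (P.cons (P.lf 257975 0 0) (P.cons (P.lf 13548 0 0) (P.cons (P.lf 0 5842 0) P.nil))) (P.cons (P.cons (P.lf 10515 0 0) (P.cons (P.lf 0 255 0) P.nil)) (P.cons (P.cons (P.lf 0 1209 0) P.nil) P.nil)))))) 1509)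
 EL.nil))
noncomputable def S415_430_660_808_17 : EL := (EL.cons 4 (TM.mk (P.cons (P.cons (P.lf 0 732917303 0) (P.cons (P.lf 8093296 0 0) (P.cons (P.lf 0 3512262 0) (P.cons (P.lf 0 368497 0) (P.cons (P.lf 0 2012 0) (P.cons (P.lf 0 922 0) P.nil)))))) (P.cons (P.cons (P.lf 0 153044850 0) (P.cons (P.lf 0 2253547 0) (P.cons (P.lf 988860 0 0) (P.cons (P.lf 93216 0 0) (P.cons (P.lf 1540 0 0) P.nil))))) (P.cons (P.cons (P.lf 1780965 0 0) (P.cons (P.lf 21140 0 0) (P.cons (P.lf 0 14591 0) (P.cons (P.lf 3709 0 0) P.nil)))) (P.cons (P.cons (P.lf 1231963 0 0) (P.cons (P.lf 46566 0 0) (P.cons (P.lf 0 19157 0) P.nil))) (P.cons (P.cons (P.lf 0 43202 0) (P.cons (P.lf 0 4397 0) P.nil)) (P.cons (P.cons (P.lf 0 4022 0) P.nil) P.nil)))))) 14371)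
 (EL.cons 8 (TM.mk (P.cons (P.cons (P.lf 141609249 0 0) (P.cons (P.lf 0 1563731 0) (P.cons (P.lf 678615 0 0) (P.cons (P.lf 71198 0 0) (P.cons (P.lf 388 0 0) (P.cons (P.lf 178 0 0) P.nil)))))) (P.cons (P.cons (P.lf 8876689 0 0) (P.cons (P.lf 663925 0 0) (P.cons (P.lf 0 290227 0) (P.cons (P.lf 0 28415 0) (P.cons (P.lf 0 354 0) P.nil))))) (P.cons (P.cons (P.lf 0 4055519 0) (P.cons (P.lf 0 74445 0) (P.cons (P.lf 33661 0 0) (P.cons (P.lf 2221 0 0) P.nil)))) (P.cons (P.cons (P.lf 0 87889 0) (P.cons (P.lf 0 6222 0) (P.cons (P.lf 2335 0 0) P.nil))) (P.cons (P.cons (P.lf 37151 0 0) (P.cons (P.lf 2048 0 0) P.nil)) (P.cons (P.cons (P.lf 0 1198 0) P.nil) P.nil)))))) 3829)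
 EL.nil))
noncomputable def S415_430_660_808_18 : EL := (EL.cons 4 (TM.mk (P.cons (P.lf 0 2480424692 0) (P.cons (P.lf 0 103323046 0) (P.cons (P.lf 7007169 0 0) (P.cons (P.lf 37267 0 0) (P.cons (P.lf 0 13231 0) (P.cons (P.lf 391 0 0) P.nil)))))) 191)
 (EL.cons 8 (TM.mk (P.cons (P.lf 479250630 0 0) (P.cons (P.lf 0 50070290 0) (P.cons (P.lf 0 2207608 0) (P.cons (P.lf 183648 0 0) (P.cons (P.lf 0 1906 0) (P.cons (P.lf 0 232 0) P.nil)))))) 74)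
 EL.nil))
noncomputable def S415_430_660_808_19 : EL := (EL.cons 4 (TM.mk (P.cons (P.cons (P.lf 0 1243721080 0) (P.cons (P.lf 6866943 0 0) (P.cons (P.lf 0 2961103 0) (P.lf 0 329010 0)))) (P.cons (P.cons (P.lf 0 164392875 0) (P.cons (P.lf 0 2438341 0) (P.cons (P.lf 1051438 0 0) (P.lf 116825 0 0)))) (P.cons (P.cons (P.lf 7266047 0 0) (P.cons (P.lf 250936 0 0) (P.cons (P.lf 0 108206 0) (P.lf 0 12020 0)))) (P.cons (P.cons (P.lf 655047 0 0) (P.cons (P.lf 2654 0 0) (P.cons (P.lf 0 1144 0) P.nil))) (P.cons (P.cons (P.lf 0 45054 0) (P.cons (P.lf 0 1806 0) P.nil)) (P.cons (P.cons (P.lf 0 438 0) P.nil) P.nil)))))) 4156)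
 (EL.cons 8 (TM.mk (P.cons (P.cons (P.lf 240303248 0 0) (P.cons (P.lf 0 1326783 0) (P.cons (P.lf 572123 0 0) (P.lf 63568 0 0)))) (P.cons (P.cons (P.lf 0 3353034 0) (P.cons (P.lf 665004 0 0) (P.cons (P.lf 0 286757 0) (P.lf 0 31861 0)))) (P.cons (P.cons (P.lf 0 5010761 0) (P.cons (P.lf 0 123042 0) (P.cons (P.lf 53057 0 0) (P.lf 5894 0 0)))) (P.cons (P.cons (P.lf 168745 0 0) (P.cons (P.lf 8858 0 0) (P.cons (P.lf 0 3819 0) P.nil))) (P.cons (P.cons (P.lf 17093 0 0) (P.cons (P.lf 112 0 0) P.nil)) (P.cons (P.cons (P.lf 0 1277 0) P.nil) P.nil)))))) 1328)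
 EL.nil))
noncomputable def S415_430_660_808_20 : EL := (EL.cons 4 (TM.mk (P.cons (P.cons (P.lf 0 623619870 0) (P.cons (P.lf 6886370 0 0) (P.cons (P.lf 0 2988490 0) (P.cons (P.lf 0 313545 0) (P.cons (P.lf 0 1712 0) (P.cons (P.lf 0 784 0) P.nil)))))) (P.cons (P.cons (P.lf 0 138880840 0) (P.cons (P.lf 0 1821865 0) (P.cons (P.lf 799899 0 0) (P.cons (P.lf 74961 0 0) (P.cons (P.lf 1287 0 0) P.nil))))) (P.cons (P.cons (P.lf 414702 0 0) (P.cons (P.lf 0 16447 0) (P.cons (P.lf 2656 0 0) (P.cons (P.lf 4613 0 0) P.nil)))) (P.cons (P.cons (P.lf 1201050 0 0) (P.cons (P.lf 42224 0 0) (P.cons (P.lf 0 17504 0) P.nil))) (P.cons (P.cons (P.lf 0 27257 0) (P.cons (P.lf 0 3261 0) P.nil)) (P.cons (P.cons (P.lf 0 5072 0) P.nil) P.nil)))))) 12903)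
 (EL.cons 8 (TM.mk (P.cons (P.cons (P.lf 120491550 0 0) (P.cons (P.lf 0 1330537 0) (P.cons (P.lf 577415 0 0) (P.cons (P.lf 60580 0 0) (P.cons (P.lf 330 0 0) (P.cons (P.lf 151 0 0) P.nil)))))) (P.cons (P.cons (P.lf 9225979 0 0) (P.cons (P.lf 546441 0 0) (P.cons (P.lf 0 238929 0) (P.cons (P.lf 0 23336 0) (P.cons (P.lf 0 296 0) P.nil))))) (P.cons (P.cons (P.lf 0 3482552 0) (P.cons (P.lf 0 53990 0) (P.cons (P.lf 24557 0 0) (P.cons (P.lf 1485 0 0) P.nil)))) (P.cons (P.cons (P.lf 0 128180 0) (P.cons (P.lf 0 6848 0) (P.cons (P.lf 2679 0 0) P.nil))) (P.cons (P.cons (P.lf 34680 0 0) (P.cons (P.lf 1756 0 0) P.nil)) (P.cons (P.cons (P.lf 0 586 0) P.nil) P.nil)))))) 3515)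
 EL.nil))
noncomputable def S415_430_660_808_21 : EL := (EL.cons 4 (TM.mk (P.cons (P.cons (P.lf 0 1175891562 0) (P.cons (P.lf 0 28454754 0) (P.cons (P.lf 12270006 0 0) (P.lf 1363326 0 0)))) (P.cons (P.cons (P.lf 295218009 0 0) (P.cons (P.lf 10894023 0 0) (P.cons (P.lf 0 4697613 0) (P.lf 0 521952 0)))) (P.cons (P.cons (P.lf 0 16194975 0) (P.cons (P.lf 0 1401417 0) (P.cons (P.lf 604305 0 0) (P.lf 67137 0 0)))) (P.cons (P.cons (P.lf 0 917121 0) (P.cons (P.lf 51093 0 0) (P.cons (P.lf 0 22026 0) P.nil))) (P.cons (P.cons (P.lf 97719 0 0) (P.cons (P.lf 2997 0 0) P.nil)) (P.cons (P.cons (P.lf 0 2025 0) P.nil) P.nil)))))) 10932)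
 (EL.cons 8 (TM.mk (P.cons (P.cons (P.lf 0 2163904521 0) (P.cons (P.lf 0 52363155 0) (P.cons (P.lf 22579581 0 0) (P.lf 2508843 0 0)))) (P.cons (P.cons (P.lf 227052621 0 0) (P.cons (P.lf 12395544 0 0) (P.cons (P.lf 0 5345100 0) (P.lf 0 593901 0)))) (P.cons (P.cons (P.lf 12694461 0 0) (P.cons (P.lf 0 542091 0) (P.cons (P.lf 233754 0 0) (P.lf 25974 0 0)))) (P.cons (P.cons (P.lf 0 1229967 0) (P.cons (P.lf 0 48711 0) (P.cons (P.lf 21006 0 0) P.nil))) (P.cons (P.cons (P.lf 8370 0 0) (P.cons (P.lf 3582 0 0) P.nil)) (P.cons (P.cons (P.lf 2367 0 0) P.nil) P.nil)))))) 6465)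
 (EL.cons 11 (TM.mk (P.cons (P.cons (P.lf 120901074 0 0) (P.cons (P.lf 0 112630533 0) (P.cons (P.lf 0 11559555 0) (P.cons (P.lf 2404065 0 0) (P.lf 200337 0 0))))) (P.cons (P.cons (P.lf 0 31977477 0) (P.cons (P.lf 29789979 0 0) (P.cons (P.lf 3057420 0 0) (P.cons (P.lf 0 635856 0) (P.lf 0 52986 0))))) (P.cons (P.cons (P.lf 2390655 0 0) (P.cons (P.lf 0 2227116 0) (P.cons (P.lf 0 228573 0) (P.cons (P.lf 47535 0 0) P.nil)))) (P.cons (P.cons (P.lf 0 22689 0) (P.cons (P.lf 21138 0 0) (P.cons (P.lf 2169 0 0) P.nil))) (P.cons (P.cons (P.lf 0 2295 0) (P.cons (P.lf 2139 0 0) P.nil)) (P.cons (P.cons (P.lf 105 0 0) P.nil) P.nil)))))) 4986)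
 EL.nil)))
noncomputable def S415_430_660_808_22 : EL := (EL.cons 4 (TM.mk (P.cons (P.cons (P.lf 0 589609161 0) (P.cons (P.lf 0 11012223 0) (P.cons (P.lf 4827369 0 0) (P.cons (P.lf 459678 0 0) (P.cons (P.lf 7098 0 0) (P.cons (P.lf 3255 0 0) P.nil)))))) (P.cons (P.cons (P.lf 94653498 0 0) (P.cons (P.lf 2062029 0 0) (P.cons (P.lf 0 950577 0) (P.cons (P.lf 0 45828 0) (P.cons (P.lf 0 5532 0) P.nil))))) (P.cons (P.cons (P.lf 9281640 0 0) (P.cons (P.lf 439677 0 0) (P.cons (P.lf 0 169344 0) (P.cons (P.lf 0 38529 0) P.nil)))) (P.cons (P.cons (P.lf 0 2215551 0) (P.cons (P.lf 0 146301 0) (P.cons (P.lf 59481 0 0) P.nil))) (P.cons (P.cons (P.lf 59409 0 0) (P.cons (P.lf 12318 0 0) P.nil)) (P.cons (P.cons (P.lf 8385 0 0) P.nil) P.nil)))))) 37830)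
 (EL.cons 8 (TM.mk (P.cons (P.cons (P.lf 0 1085013252 0) (P.cons (P.lf 0 20264976 0) (P.cons (P.lf 8883450 0 0) (P.cons (P.lf 845922 0 0) (P.cons (P.lf 13062 0 0) (P.cons (P.lf 5988 0 0) P.nil)))))) (P.cons (P.cons (P.lf 15628983 0 0) (P.cons (P.lf 833247 0 0) (P.cons (P.lf 0 451137 0) (P.cons (P.lf 39270 0 0) (P.cons (P.lf 0 8274 0) P.nil))))) (P.cons (P.cons (P.lf 24036015 0 0) (P.cons (P.lf 1018119 0 0) (P.cons (P.lf 0 415806 0) (P.cons (P.lf 0 68802 0) P.nil)))) (P.cons (P.cons (P.lf 0 842421 0) (P.cons (P.lf 0 127965 0) (P.cons (P.lf 52359 0 0) P.nil))) (P.cons (P.cons (P.lf 0 104757 0) (P.cons (P.lf 0 75 0) P.nil)) (P.cons (P.cons (P.lf 7821 0 0) P.nil) P.nil)))))) 32976)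
 (EL.cons 11 (TM.mk (P.cons (P.cons (P.lf 60621558 0 0) (P.cons (P.lf 0 56809299 0) (P.cons (P.lf 0 5339985 0) (P.cons (P.lf 1119012 0 0) (P.cons (P.lf 65055 0 0) (P.cons (P.lf 780 0 0) P.nil)))))) (P.cons (P.cons (P.lf 0 10546335 0) (P.cons (P.lf 10046208 0 0) (P.cons (P.lf 706734 0 0) (P.cons (P.lf 0 152565 0) (P.cons (P.lf 5928 0 0) P.nil))))) (P.cons (P.cons (P.lf 0 664227 0) (P.cons (P.lf 558339 0 0) (P.cons (P.lf 145887 0 0) (P.cons (P.lf 0 28815 0) P.nil)))) (P.cons (P.cons (P.lf 207597 0 0) (P.cons (P.lf 0 184737 0) (P.cons (P.lf 0 31644 0) P.nil))) (P.cons (P.cons (P.lf 0 10020 0) (P.cons (P.lf 8673 0 0) P.nil)) (P.cons (P.cons (P.lf 0 162 0) P.nil) P.nil)))))) 31068)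
 EL.nil)))
noncomputable def S415_430_660_808_23 : EL := (EL.cons 4 (TM.mk (P.cons (P.cons (P.lf 0 1000534902 0) (P.cons (P.lf 0 24211392 0) (P.cons (P.lf 10440222 0 0) (P.lf 1160016 0 0)))) (P.cons (P.cons (P.lf 237300606 0 0) (P.cons (P.lf 8933256 0 0) (P.cons (P.lf 0 3852108 0) (P.lf 0 428007 0)))) (P.cons (P.cons (P.lf 0 9156957 0) (P.cons (P.lf 0 1036254 0) (P.cons (P.lf 446841 0 0) (P.lf 49641 0 0)))) (P.cons (P.cons (P.lf 0 1282275 0) (P.cons (P.lf 15780 0 0) (P.cons (P.lf 0 6798 0) P.nil))) (P.cons (P.cons (P.lf 94374 0 0) (P.cons (P.lf 4743 0 0) P.nil)) (P.cons (P.cons (P.lf 0 18 0) P.nil) P.nil)))))) 12177)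
 (EL.cons 8 (TM.mk (P.cons (P.cons (P.lf 0 1841208891 0) (P.cons (P.lf 0 44554416 0) (P.cons (P.lf 19212363 0 0) (P.lf 2134707 0 0)))) (P.cons (P.cons (P.lf 167627622 0 0) (P.cons (P.lf 9928395 0 0) (P.cons (P.lf 0 4281237 0) (P.lf 0 475692 0)))) (P.cons (P.cons (P.lf 15572664 0 0) (P.cons (P.lf 0 264258 0) (P.cons (P.lf 113949 0 0) (P.lf 12660 0 0)))) (P.cons (P.cons (P.lf 0 1162878 0) (P.cons (P.lf 0 60957 0) (P.cons (P.lf 26286 0 0) P.nil))) (P.cons (P.cons (P.lf 0 14712 0) (P.cons (P.lf 3264 0 0) P.nil)) (P.cons (P.cons (P.lf 3606 0 0) P.nil) P.nil)))))) 7449)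
 (EL.cons 11 (TM.mk (P.cons (P.cons (P.lf 102871512 0 0) (P.cons (P.lf 0 95834328 0) (P.cons (P.lf 0 9835716 0) (P.cons (P.lf 2045553 0 0) (P.lf 170460 0 0))))) (P.cons (P.cons (P.lf 0 25780401 0) (P.cons (P.lf 24016830 0 0) (P.cons (P.lf 2464905 0 0) (P.cons (P.lf 0 512628 0) (P.lf 0 42717 0))))) (P.cons (P.cons (P.lf 1539642 0 0) (P.cons (P.lf 0 1434318 0) (P.cons (P.lf 0 147204 0) (P.cons (P.lf 30612 0 0) P.nil)))) (P.cons (P.cons (P.lf 42438 0 0) (P.cons (P.lf 0 39534 0) (P.cons (P.lf 0 4056 0) P.nil))) (P.cons (P.cons (P.lf 0 5223 0) (P.cons (P.lf 4866 0 0) P.nil)) (P.cons (P.cons (P.lf 132 0 0) P.nil) P.nil)))))) 6963)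
 EL.nil)))
noncomputable def S415_430_660_808_24 : EL := (EL.cons 4 (TM.mk (P.cons (P.cons (P.lf 0 501682776 0) (P.cons (P.lf 0 9370008 0) (P.cons (P.lf 4107480 0 0) (P.cons (P.lf 391128 0 0) (P.cons (P.lf 6039 0 0) (P.cons (P.lf 2769 0 0) P.nil)))))) (P.cons (P.cons (P.lf 73572219 0 0) (P.cons (P.lf 1624422 0 0) (P.cons (P.lf 0 751788 0) (P.cons (P.lf 0 33564 0) (P.cons (P.lf 0 4623 0) P.nil))))) (P.cons (P.cons (P.lf 9584922 0 0) (P.cons (P.lf 409101 0 0) (P.cons (P.lf 0 159981 0) (P.cons (P.lf 0 33768 0) P.nil)))) (P.cons (P.cons (P.lf 0 1879707 0) (P.cons (P.lf 0 121521 0) (P.cons (P.lf 49632 0 0) P.nil))) (P.cons (P.cons (P.lf 17478 0 0) (P.cons (P.lf 8373 0 0) P.nil)) (P.cons (P.cons (P.lf 10185 0 0) P.nil) P.nil)))))) 32397)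
 (EL.cons 8 (TM.mk (P.cons (P.cons (P.lf 0 923208963 0) (P.cons (P.lf 0 17242929 0) (P.cons (P.lf 7558692 0 0) (P.cons (P.lf 719772 0 0) (P.cons (P.lf 11115 0 0) (P.cons (P.lf 5094 0 0) P.nil)))))) (P.cons (P.cons (P.lf 479412 0 0) (P.cons (P.lf 469569 0 0) (P.cons (P.lf 0 278907 0) (P.cons (P.lf 43407 0 0) (P.cons (P.lf 0 6885 0) P.nil))))) (P.cons (P.cons (P.lf 21683598 0 0) (P.cons (P.lf 895695 0 0) (P.cons (P.lf 0 367704 0) (P.cons (P.lf 0 58893 0) P.nil)))) (P.cons (P.cons (P.lf 0 471546 0) (P.cons (P.lf 0 98097 0) (P.cons (P.lf 40266 0 0) P.nil))) (P.cons (P.cons (P.lf 0 121947 0) (P.cons (P.lf 0 2541 0) P.nil)) (P.cons (P.cons (P.lf 6771 0 0) P.nil) P.nil)))))) 28353)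
 (EL.cons 11 (TM.mk (P.cons (P.cons (P.lf 51581274 0 0) (P.cons (P.lf 0 48337524 0) (P.cons (P.lf 0 4543650 0) (P.cons (P.lf 952140 0 0) (P.cons (P.lf 55353 0 0) (P.cons (P.lf 663 0 0) P.nil)))))) (P.cons (P.cons (P.lf 0 8257383 0) (P.cons (P.lf 7876878 0 0) (P.cons (P.lf 538254 0 0) (P.cons (P.lf 0 116592 0) (P.cons (P.lf 5811 0 0) P.nil))))) (P.cons (P.cons (P.lf 0 748290 0) (P.cons (P.lf 648603 0 0) (P.cons (P.lf 137637 0 0) (P.cons (P.lf 0 27399 0) P.nil)))) (P.cons (P.cons (P.lf 180291 0 0) (P.cons (P.lf 0 161526 0) (P.cons (P.lf 0 26001 0) P.nil))) (P.cons (P.cons (P.lf 0 5661 0) (P.cons (P.lf 4878 0 0) P.nil)) (P.cons (P.cons (P.lf 0 471 0) P.nil) P.nil)))))) 26568)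
 EL.nil)))
noncomputable def S415_430_660_808_25 : EL := (EL.cons 4 (TM.mk (P.cons (P.cons (P.lf 0 851328579 0) (P.cons (P.lf 0 20600832 0) (P.cons (P.lf 8883306 0 0) (P.lf 987027 0 0)))) (P.cons (P.cons (P.lf 190091979 0 0) (P.cons (P.lf 7315023 0 0) (P.cons (P.lf 0 3154311 0) (P.lf 0 350475 0)))) (P.cons (P.cons (P.lf 0 4022028 0) (P.cons (P.lf 0 752808 0) (P.cons (P.lf 324618 0 0) (P.lf 36063 0 0)))) (P.cons (P.cons (P.lf 0 1450095 0) (P.cons (P.lf 0 7965 0) (P.cons (P.lf 3438 0 0) P.nil))) (P.cons (P.cons (P.lf 79161 0 0) (P.cons (P.lf 5415 0 0) P.nil)) (P.cons (P.cons (P.lf 2151 0 0) P.nil) P.nil)))))) 12444)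
 (EL.cons 8 (TM.mk (P.cons (P.cons (P.lf 0 1566635751 0) (P.cons (P.lf 0 37910169 0) (P.cons (P.lf 16347291 0 0) (P.lf 1816365 0 0)))) (P.cons (P.cons (P.lf 120876954 0 0) (P.cons (P.lf 7921419 0 0) (P.cons (P.lf 0 3415806 0) (P.lf 0 379533 0)))) (P.cons (P.cons (P.lf 17008086 0 0) (P.cons (P.lf 0 64542 0) (P.cons (P.lf 27828 0 0) (P.lf 3093 0 0)))) (P.cons (P.cons (P.lf 0 1007397 0) (P.cons (P.lf 0 65541 0) (P.cons (P.lf 28263 0 0) P.nil))) (P.cons (P.cons (P.lf 0 37635 0) (P.cons (P.lf 2529 0 0) P.nil)) (P.cons (P.cons (P.lf 4383 0 0) P.nil) P.nil)))))) 7689)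
 (EL.cons 11 (TM.mk (P.cons (P.cons (P.lf 87530637 0 0) (P.cons (P.lf 0 81542886 0) (P.cons (P.lf 0 8368950 0) (P.cons (P.lf 1740507 0 0) (P.lf 145041 0 0))))) (P.cons (P.cons (P.lf 0 20720484 0) (P.cons (P.lf 19303047 0 0) (P.cons (P.lf 1981119 0 0) (P.cons (P.lf 0 412014 0) (P.lf 0 34332 0))))) (P.cons (P.cons (P.lf 906159 0 0) (P.cons (P.lf 0 844170 0) (P.cons (P.lf 0 86637 0) (P.cons (P.lf 18015 0 0) P.nil)))) (P.cons (P.cons (P.lf 81426 0 0) (P.cons (P.lf 0 75855 0) (P.cons (P.lf 0 7785 0) P.nil))) (P.cons (P.cons (P.lf 0 5991 0) (P.cons (P.lf 5583 0 0) P.nil)) (P.cons (P.cons (P.lf 42 0 0) P.nil) P.nil)))))) 7908)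
 EL.nil)))
noncomputable def S415_430_660_808_26 : EL := (EL.cons 4 (TM.mk (P.cons (P.cons (P.lf 0 426868551 0) (P.cons (P.lf 0 7972692 0) (P.cons (P.lf 3494946 0 0) (P.cons (P.lf 332802 0 0) (P.cons (P.lf 5139 0 0) (P.cons (P.lf 2355 0 0) P.nil)))))) (P.cons (P.cons (P.lf 56673522 0 0) (P.cons (P.lf 1271475 0 0) (P.cons (P.lf 0 591150 0) (P.cons (P.lf 0 23937 0) (P.cons (P.lf 0 3864 0) P.nil))))) (P.cons (P.cons (P.lf 9509037 0 0) (P.cons (P.lf 376329 0 0) (P.cons (P.lf 0 148971 0) (P.cons (P.lf 0 29508 0) P.nil)))) (P.cons (P.cons (P.lf 0 1568100 0) (P.cons (P.lf 0 100338 0) (P.cons (P.lf 41157 0 0) P.nil))) (P.cons (P.cons (P.lf 0 14982 0) (P.cons (P.lf 5331 0 0) P.nil)) (P.cons (P.cons (P.lf 10905 0 0) P.nil) P.nil)))))) 27819)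
 (EL.cons 8 (TM.mk (P.cons (P.cons (P.lf 0 785533989 0) (P.cons (P.lf 0 14671551 0) (P.cons (P.lf 6431490 0 0) (P.cons (P.lf 612435 0 0) (P.cons (P.lf 9456 0 0) (P.cons (P.lf 4335 0 0) P.nil)))))) (P.cons (P.cons (P.lf 0 10499319 0) (P.cons (P.lf 195825 0 0) (P.cons (P.lf 0 148014 0) (P.cons (P.lf 45438 0 0) (P.cons (P.lf 0 5727 0) P.nil))))) (P.cons (P.cons (P.lf 19346820 0 0) (P.cons (P.lf 784314 0 0) (P.cons (P.lf 0 323460 0) (P.cons (P.lf 0 50292 0) P.nil)))) (P.cons (P.cons (P.lf 0 165618 0) (P.cons (P.lf 0 73716 0) (P.cons (P.lf 30351 0 0) P.nil))) (P.cons (P.cons (P.lf 0 130251 0) (P.cons (P.lf 0 4176 0) P.nil)) (P.cons (P.cons (P.lf 5262 0 0) P.nil) P.nil)))))) 24465)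
 (EL.cons 11 (TM.mk (P.cons (P.cons (P.lf 43889136 0 0) (P.cons (P.lf 0 41129115 0) (P.cons (P.lf 0 3866073 0) (P.cons (P.lf 810150 0 0) (P.cons (P.lf 47100 0 0) (P.cons (P.lf 564 0 0) P.nil)))))) (P.cons (P.cons (P.lf 0 6416580 0) (P.cons (P.lf 6131142 0 0) (P.cons (P.lf 404304 0 0) (P.cons (P.lf 0 87957 0) (P.cons (P.lf 5598 0 0) P.nil))))) (P.cons (P.cons (P.lf 0 784047 0) (P.cons (P.lf 691599 0 0) (P.cons (P.lf 127857 0 0) (P.cons (P.lf 0 25611 0) P.nil)))) (P.cons (P.cons (P.lf 153660 0 0) (P.cons (P.lf 0 138432 0) (P.cons (P.lf 0 21114 0) P.nil))) (P.cons (P.cons (P.lf 0 2145 0) (P.cons (P.lf 1788 0 0) P.nil)) (P.cons (P.cons (P.lf 0 660 0) P.nil) P.nil)))))) 22824)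
 EL.nil)))
noncomputable def S415_430_660_808_27 : EL := (EL.cons 13 (TM.mk (P.lf 0 4294967296 0) 0)
 EL.nil)
noncomputable def S415_430_660_808_28 : EL := (EL.cons 13 (TM.mk (P.cons (P.cons (P.lf 0 2153559180 0) (P.cons (P.lf 11890424 0 0) (P.cons (P.lf 0 5127284 0) (P.lf 0 569696 0)))) (P.cons (P.cons (P.lf 0 194946347 0) (P.cons (P.lf 0 4717400 0) (P.cons (P.lf 2034192 0 0) (P.lf 226020 0 0)))) (P.cons (P.cons (P.lf 14618277 0 0) (P.cons (P.lf 664604 0 0) (P.cons (P.lf 0 286584 0) (P.lf 0 31840 0)))) (P.cons (P.cons (P.lf 0 57763 0) (P.cons (P.lf 0 36236 0) (P.cons (P.lf 15624 0 0) P.nil))) (P.cons (P.cons (P.lf 0 25753 0) (P.cons (P.lf 124 0 0) P.nil)) (P.cons (P.cons (P.lf 1068 0 0) P.nil) P.nil)))))) 2796)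
 EL.nil)
noncomputable def S415_430_660_808_29 : EL := (EL.cons 13 (TM.mk (P.cons (P.cons (P.lf 0 1079825950 0) (P.cons (P.lf 11924063 0 0) (P.cons (P.lf 0 5174707 0) (P.cons (P.lf 0 542918 0) (P.cons (P.lf 0 2966 0) (P.cons (P.lf 0 1360 0) P.nil)))))) (P.cons (P.cons (P.lf 0 195497877 0) (P.cons (P.lf 0 3651345 0) (P.cons (P.lf 1600617 0 0) (P.cons (P.lf 152416 0 0) (P.cons (P.lf 2353 0 0) P.nil))))) (P.cons (P.cons (P.lf 5811120 0 0) (P.cons (P.lf 157303 0 0) (P.cons (P.lf 0 76691 0) (P.cons (P.lf 107 0 0) P.nil)))) (P.cons (P.cons (P.lf 1269105 0 0) (P.cons (P.lf 56425 0 0) (P.cons (P.lf 0 22672 0) P.nil))) (P.cons (P.cons (P.lf 0 80824 0) (P.cons (P.lf 0 7673 0) P.nil)) (P.cons (P.cons (P.lf 0 873 0) P.nil) P.nil)))))) 18550)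
 EL.nil)
noncomputable def S415_430_660_808_30 : EL := (EL.cons 13 (TM.mk (P.cons (P.lf 0 3654473616 0) (P.cons (P.lf 0 50742836 0) (P.cons (P.lf 4145852 0 0) (P.cons (P.lf 0 93568 0) (P.cons (P.lf 4 0 0) (P.cons (P.lf 64 0 0) P.nil)))))) 76)
 EL.nil)
noncomputable def S415_430_660_808_31 : EL := (EL.cons 13 (TM.mk (P.cons (P.cons (P.lf 0 1832406316 0) (P.cons (P.lf 10117246 0 0) (P.cons (P.lf 0 4362669 0) (P.lf 0 484739 0)))) (P.cons (P.cons (P.lf 0 191317867 0) (P.cons (P.lf 0 3873431 0) (P.cons (P.lf 1670263 0 0) (P.lf 185583 0 0)))) (P.cons (P.cons (P.lf 12213903 0 0) (P.cons (P.lf 498282 0 0) (P.cons (P.lf 0 214864 0) (P.lf 0 23871 0)))) (P.cons (P.cons (P.lf 264820 0 0) (P.cons (P.lf 0 18167 0) (P.cons (P.lf 7832 0 0) P.nil))) (P.cons (P.cons (P.lf 0 40950 0) (P.cons (P.lf 0 1066 0) P.nil)) (P.cons (P.cons (P.lf 1010 0 0) P.nil) P.nil)))))) 3742)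
 EL.nil)
noncomputable def S415_430_660_808_32 : EL := (EL.cons 13 (TM.mk (P.cons (P.cons (P.lf 0 918795225 0) (P.cons (P.lf 10145868 0 0) (P.cons (P.lf 0 4403020 0) (P.cons (P.lf 0 461954 0) (P.cons (P.lf 0 2523 0) (P.cons (P.lf 0 1157 0) P.nil)))))) (P.cons (P.cons (P.lf 0 179101541 0) (P.cons (P.lf 0 2965955 0) (P.cons (P.lf 1300785 0 0) (P.cons (P.lf 123272 0 0) (P.cons (P.lf 1967 0 0) P.nil))))) (P.cons (P.cons (P.lf 3677156 0 0) (P.cons (P.lf 79196 0 0) (P.cons (P.lf 0 41348 0) (P.cons (P.lf 2415 0 0) P.nil)))) (P.cons (P.cons (P.lf 1313689 0 0) (P.cons (P.lf 53653 0 0) (P.cons (P.lf 0 21854 0) P.nil))) (P.cons (P.cons (P.lf 0 63644 0) (P.cons (P.lf 0 6093 0) P.nil)) (P.cons (P.cons (P.lf 0 2779 0) P.nil) P.nil)))))) 16960)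
 EL.nil)
noncomputable def S415_430_660_808_33 : EL := (EL.cons 14 (TM.mk (P.lf 8589934592 0 0) 0)
 EL.nil)
noncomputable def S415_430_660_808_34 : EL := (EL.cons 14 (TM.mk (P.cons (P.cons (P.lf 4307118360 0 0) (P.cons (P.lf 0 23780848 0) (P.cons (P.lf 10254568 0 0) (P.lf 1139392 0 0)))) (P.cons (P.cons (P.lf 389892694 0 0) (P.cons (P.lf 9434800 0 0) (P.cons (P.lf 0 4068384 0) (P.lf 0 452040 0)))) (P.cons (P.cons (P.lf 0 29236554 0) (P.cons (P.lf 0 1329208 0) (P.cons (P.lf 573168 0 0) (P.lf 63680 0 0)))) (P.cons (P.cons (P.lf 115526 0 0) (P.cons (P.lf 72472 0 0) (P.cons (P.lf 0 31248 0) P.nil))) (P.cons (P.cons (P.lf 51506 0 0) (P.cons (P.lf 0 248 0) P.nil)) (P.cons (P.cons (P.lf 0 2136 0) P.nil) P.nil)))))) 5592)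
 EL.nil)
noncomputable def S415_430_660_808_35 : EL := (EL.cons 14 (TM.mk (P.cons (P.cons (P.lf 2159651900 0 0) (P.cons (P.lf 0 23848126 0) (P.cons (P.lf 10349414 0 0) (P.cons (P.lf 1085836 0 0) (P.cons (P.lf 5932 0 0) (P.cons (P.lf 2720 0 0) P.nil)))))) (P.cons (P.cons (P.lf 390995754 0 0) (P.cons (P.lf 7302690 0 0) (P.cons (P.lf 0 3201234 0) (P.cons (P.lf 0 304832 0) (P.cons (P.lf 0 4706 0) P.nil))))) (P.cons (P.cons (P.lf 0 11622240 0) (P.cons (P.lf 0 314606 0) (P.cons (P.lf 153382 0 0) (P.cons (P.lf 0 214 0) P.nil)))) (P.cons (P.cons (P.lf 0 2538210 0) (P.cons (P.lf 0 112850 0) (P.cons (P.lf 45344 0 0) P.nil))) (P.cons (P.cons (P.lf 161648 0 0) (P.cons (P.lf 15346 0 0) P.nil)) (P.cons (P.cons (P.lf 1746 0 0) P.nil) P.nil)))))) 37100)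
 EL.nil)
noncomputable def S415_430_660_808_36 : EL := (EL.cons 14 (TM.mk (P.cons (P.lf 7308947232 0 0) (P.cons (P.lf 101485672 0 0) (P.cons (P.lf 0 8291704 0) (P.cons (P.lf 187136 0 0) (P.cons (P.lf 0 8 0) (P.cons (P.lf 0 128 0) P.nil)))))) 152)
 EL.nil)
noncomputable def S415_430_660_808_37 : EL := (EL.cons 14 (TM.mk (P.cons (P.cons (P.lf 3664812632 0 0) (P.cons (P.lf 0 20234492 0) (P.cons (P.lf 8725338 0 0) (P.lf 969478 0 0)))) (P.cons (P.cons (P.lf 382635734 0 0) (P.cons (P.lf 7746862 0 0) (P.cons (P.lf 0 3340526 0) (P.lf 0 371166 0)))) (P.cons (P.cons (P.lf 0 24427806 0) (P.cons (P.lf 0 996564 0) (P.cons (P.lf 429728 0 0) (P.lf 47742 0 0)))) (P.cons (P.cons (P.lf 0 529640 0) (P.cons (P.lf 36334 0 0) (P.cons (P.lf 0 15664 0) P.nil))) (P.cons (P.cons (P.lf 81900 0 0) (P.cons (P.lf 2132 0 0) P.nil)) (P.cons (P.cons (P.lf 0 2020 0) P.nil) P.nil)))))) 7484)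
 EL.nil)
noncomputable def S415_430_660_808_38 : EL := (EL.cons 14 (TM.mk (P.cons (P.cons (P.lf 1837590450 0 0) (P.cons (P.lf 0 20291736 0) (P.cons (P.lf 8806040 0 0) (P.cons (P.lf 923908 0 0) (P.cons (P.lf 5046 0 0) (P.cons (P.lf 2314 0 0) P.nil)))))) (P.cons (P.cons (P.lf 358203082 0 0) (P.cons (P.lf 5931910 0 0) (P.cons (P.lf 0 2601570 0) (P.cons (P.lf 0 246544 0) (P.cons (P.lf 0 3934 0) P.nil))))) (P.cons (P.cons (P.lf 0 7354312 0) (P.cons (P.lf 0 158392 0) (P.cons (P.lf 82696 0 0) (P.cons (P.lf 0 4830 0) P.nil)))) (P.cons (P.cons (P.lf 0 2627378 0) (P.cons (P.lf 0 107306 0) (P.cons (P.lf 43708 0 0) P.nil))) (P.cons (P.cons (P.lf 127288 0 0) (P.cons (P.lf 12186 0 0) P.nil)) (P.cons (P.cons (P.lf 5558 0 0) P.nil) P.nil)))))) 33920)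
 EL.nil)
noncomputable def S415_430_660_808_39 : EL := (EL.cons 14 (TM.mk (P.cons (P.lf 6218989104 0 0) (P.cons (P.lf 172702926 0 0) (P.cons (P.lf 0 12911380 0) (P.cons (P.lf 122532 0 0) (P.cons (P.lf 12412 0 0) (P.cons (P.lf 0 578 0) P.nil)))))) 282)
 EL.nil)
noncomputable def S415_430_660_808_40 : EL := (EL.cons 14 (TM.mk (P.cons (P.cons (P.lf 3118291746 0 0) (P.cons (P.lf 0 17216990 0) (P.cons (P.lf 7424158 0 0) (P.lf 824902 0 0)))) (P.cons (P.cons (P.lf 368872466 0 0) (P.cons (P.lf 6352538 0 0) (P.cons (P.lf 0 2739280 0) (P.lf 0 304362 0)))) (P.cons (P.cons (P.lf 0 19801902 0) (P.cons (P.lf 0 736892 0) (P.cons (P.lf 317754 0 0) (P.lf 35302 0 0)))) (P.cons (P.cons (P.lf 0 1028770 0) (P.cons (P.lf 11224 0 0) (P.cons (P.lf 0 4838 0) P.nil))) (P.cons (P.cons (P.lf 95342 0 0) (P.cons (P.lf 3374 0 0) P.nil)) (P.cons (P.cons (P.lf 0 828 0) P.nil) P.nil)))))) 8420)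
 EL.nil)
noncomputable def S415_430_660_808_41 : EL := (EL.cons 14 (TM.mk (P.cons (P.cons (P.lf 1563556914 0 0) (P.cons (P.lf 0 17265700 0) (P.cons (P.lf 7492826 0 0) (P.cons (P.lf 786128 0 0) (P.cons (P.lf 4294 0 0) (P.cons (P.lf 1968 0 0) P.nil)))))) (P.cons (P.cons (P.lf 326495680 0 0) (P.cons (P.lf 4807568 0 0) (P.cons (P.lf 0 2109568 0) (P.cons (P.lf 0 198862 0) (P.cons (P.lf 0 3286 0) P.nil))))) (P.cons (P.cons (P.lf 0 3799394 0) (P.cons (P.lf 0 45100 0) (P.cons (P.lf 31128 0 0) (P.cons (P.lf 0 7914 0) P.nil)))) (P.cons (P.cons (P.lf 0 2628188 0) (P.cons (P.lf 0 99342 0) (P.cons (P.lf 40870 0 0) P.nil))) (P.cons (P.cons (P.lf 92166 0 0) (P.cons (P.lf 9382 0 0) P.nil)) (P.cons (P.cons (P.lf 8582 0 0) P.nil) P.nil)))))) 30612)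
 EL.nil)
noncomputable def S415_430_660_808_42 : EL := (EL.cons 14 (TM.mk (P.cons (P.lf 5291572678 0 0) (P.cons (P.lf 220422500 0 0) (P.cons (P.lf 0 14948628 0) (P.cons (P.lf 0 79504 0) (P.cons (P.lf 28228 0 0) (P.cons (P.lf 0 836 0) P.nil)))))) 394)
 EL.nil)
noncomputable def S415_430_660_808_43 : EL := (EL.cons 14 (TM.mk (P.cons (P.cons (P.lf 2653271638 0 0) (P.cons (P.lf 0 14649480 0) (P.cons (P.lf 6317020 0 0) (P.lf 701888 0 0)))) (P.cons (P.cons (P.lf 350704802 0 0) (P.cons (P.lf 5201796 0 0) (P.cons (P.lf 0 2243068 0) (P.lf 0 249228 0)))) (P.cons (P.cons (P.lf 0 15500902 0) (P.cons (P.lf 0 535332 0) (P.cons (P.lf 230840 0 0) (P.lf 25644 0 0)))) (P.cons (P.cons (P.lf 0 1397434 0) (P.cons (P.lf 0 5662 0) (P.cons (P.lf 2442 0 0) P.nil))) (P.cons (P.cons (P.lf 96116 0 0) (P.cons (P.lf 3854 0 0) P.nil)) (P.cons (P.cons (P.lf 936 0 0) P.nil) P.nil)))))) 8826)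
 EL.nil)
noncomputable def S415_430_660_808_44 : EL := (EL.cons 14 (TM.mk (P.cons (P.cons (P.lf 1330389056 0 0) (P.cons (P.lf 0 14690924 0) (P.cons (P.lf 6375446 0 0) (P.cons (P.lf 668896 0 0) (P.cons (P.lf 3654 0 0) (P.cons (P.lf 1674 0 0) P.nil)))))) (P.cons (P.cons (P.lf 296279126 0 0) (P.cons (P.lf 3886646 0 0) (P.cons (P.lf 0 1706452 0) (P.cons (P.lf 0 159918 0) (P.cons (P.lf 0 2746 0) P.nil))))) (P.cons (P.cons (P.lf 0 884698 0) (P.cons (P.lf 35088 0 0) (P.cons (P.lf 0 5668 0) (P.cons (P.lf 0 9842 0) P.nil)))) (P.cons (P.cons (P.lf 0 2562240 0) (P.cons (P.lf 0 90078 0) (P.cons (P.lf 37342 0 0) P.nil))) (P.cons (P.cons (P.lf 58150 0 0) (P.cons (P.lf 6958 0 0) P.nil)) (P.cons (P.cons (P.lf 10822 0 0) P.nil) P.nil)))))) 27480)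
 EL.nil)
noncomputable def S415_430_660_808_45 : EL := (EL.cons 14 (TM.mk (P.cons (P.cons (P.lf 1082880928 0 0) (P.cons (P.lf 0 17936696 0) (P.cons (P.lf 7833536 0 0) (P.cons (P.lf 773794 0 0) (P.cons (P.lf 9160 0 0) (P.cons (P.lf 4016 0 0) P.nil)))))) (P.cons (P.cons (P.lf 294076452 0 0) (P.cons (P.lf 3868830 0 0) (P.cons (P.lf 0 1737894 0) (P.cons (P.lf 0 125106 0) (P.cons (P.lf 0 6552 0) P.nil))))) (P.cons (P.cons (P.lf 4568980 0 0) (P.cons (P.lf 382328 0 0) (P.cons (P.lf 0 145992 0) (P.cons (P.lf 0 34714 0) P.nil)))) (P.cons (P.cons (P.lf 0 3101964 0) (P.cons (P.lf 0 144060 0) (P.cons (P.lf 60076 0 0) P.nil))) (P.cons (P.cons (P.lf 23608 0 0) (P.cons (P.lf 5396 0 0) P.nil)) (P.cons (P.cons (P.lf 18502 0 0) P.nil) P.nil)))))) 46616)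
 EL.nil)
noncomputable def S415_430_660_808_46 : EL := (EL.cons 15 (TM.mk (P.lf 4294967296 0 0) 0)
 EL.nil)
noncomputable def S415_430_660_808_47 : EL := (EL.cons 15 (TM.mk (P.cons (P.cons (P.lf 2153559180 0 0) (P.cons (P.lf 0 11890424 0) (P.cons (P.lf 5127284 0 0) (P.lf 569696 0 0)))) (P.cons (P.cons (P.lf 194946347 0 0) (P.cons (P.lf 4717400 0 0) (P.cons (P.lf 0 2034192 0) (P.lf 0 226020 0)))) (P.cons (P.cons (P.lf 0 14618277 0) (P.cons (P.lf 0 664604 0) (P.cons (P.lf 286584 0 0) (P.lf 31840 0 0)))) (P.cons (P.cons (P.lf 57763 0 0) (P.cons (P.lf 36236 0 0) (P.cons (P.lf 0 15624 0) P.nil))) (P.cons (P.cons (P.lf 25753 0 0) (P.cons (P.lf 0 124 0) P.nil)) (P.cons (P.cons (P.lf 0 1068 0) P.nil) P.nil)))))) 2796)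
 EL.nil)
noncomputable def S415_430_660_808_48 : EL := (EL.cons 15 (TM.mk (P.cons (P.cons (P.lf 1079825950 0 0) (P.cons (P.lf 0 11924063 0) (P.cons (P.lf 5174707 0 0) (P.cons (P.lf 542918 0 0) (P.cons (P.lf 2966 0 0) (P.cons (P.lf 1360 0 0) P.nil)))))) (P.cons (P.cons (P.lf 195497877 0 0) (P.cons (P.lf 3651345 0 0) (P.cons (P.lf 0 1600617 0) (P.cons (P.lf 0 152416 0) (P.cons (P.lf 0 2353 0) P.nil))))) (P.cons (P.cons (P.lf 0 5811120 0) (P.cons (P.lf 0 157303 0) (P.cons (P.lf 76691 0 0) (P.cons (P.lf 0 107 0) P.nil)))) (P.cons (P.cons (P.lf 0 1269105 0) (P.cons (P.lf 0 56425 0) (P.cons (P.lf 22672 0 0) P.nil))) (P.cons (P.cons (P.lf 80824 0 0) (P.cons (P.lf 7673 0 0) P.nil)) (P.cons (P.cons (P.lf 873 0 0) P.nil) P.nil)))))) 18550)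
 EL.nil)
noncomputable def S415_430_660_808 : SL := (SL.cons S415_430_660_808_0 (SL.cons S415_430_660_808_1 (SL.cons S415_430_660_808_2 (SL.cons S415_430_660_808_3 (SL.cons S415_430_660_808_4 (SL.cons S415_430_660_808_5 (SL.cons S415_430_660_808_6 (SL.cons S415_430_660_808_7 (SL.cons S415_430_660_808_8 (SL.cons S415_430_660_808_9 (SL.cons S415_430_660_808_10 (SL.cons S415_430_660_808_11 (SL.cons S415_430_660_808_12 (SL.cons S415_430_660_808_13 (SL.cons S415_430_660_808_14 (SL.cons S415_430_660_808_15 (SL.cons S415_430_660_808_16 (SL.cons S415_430_660_808_17 (SL.cons S415_430_660_808_18 (SL.cons S415_430_660_808_19 (SL.cons S415_430_660_808_20 (SL.cons S415_430_660_808_21 (SL.cons S415_430_660_808_22 (SL.cons S415_430_660_808_23 (SL.cons S415_430_660_808_24 (SL.cons S415_430_660_808_25 (SL.cons S415_430_660_808_26 (SL.cons S415_430_660_808_27 (SL.cons S415_430_660_808_28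 (SL.cons S415_430_660_808_29 (SL.cons S415_430_660_808_30 (SL.cons S415_430_660_808_31 (SL.cons S415_430_660_808_32 (SL.cons S415_430_660_808_33 (SL.cons S415_430_660_808_34 (SL.cons S415_430_660_808_35 (SL.cons S415_430_660_808_36 (SL.cons S415_430_660_808_37 (SL.cons S415_430_660_808_38 (SL.cons S415_430_660_808_39 (SL.cons S415_430_660_808_40 (SL.cons S415_430_660_808_41 (SL.cons S415_430_660_808_42 (SL.cons S415_430_660_808_43 (SL.cons S415_430_660_808_44 (SL.cons S415_430_660_808_45 (SL.cons S415_430_660_808_46 (SL.cons S415_430_660_808_47 (SL.cons S415_430_660_808_48 SL.nil)))))))))))))))))))))))))))))))))))))))))))))))))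
theorem S401_430_512_586_ok : band (seq (shp 5 401 430 512 586) S401_430_512_586) (sok S401_430_512_586) = true := by decide +kernel

theorem S401_430_512_660_ok : band (seq (shp 5 401 430 512 660) S401_430_512_660) (sok S401_430_512_660) = true := by decide +kernel

theorem S401_430_586_660_ok : band (seq (shp 5 401 430 586 660) S401_430_586_660) (sok S401_430_586_660) = true := by decide +kernel

theorem S401_430_660_808_ok : band (seq (shp 5 401 430 660 808) S401_430_660_808) (sok S401_430_660_808) = true := by decide +kernel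

theorem S415_430_216_364_ok : band (seq (shp 5 415 430 216 364) S415_430_216_364) (sok S415_430_216_364) = true := by decide +kernel

theorem S415_430_660_808_ok : band (seq (shp 5 415 430 660 808) S415_430_660_808) (sok S415_430_660_808) = true := by decide +kernel

end Vale.Agent.P098.Ck
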