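import Vale.Agent.P098.CkDefs

namespace Vale.Agent.P098.Ck

noncomputable def S430_459_216_364_0 : EL := (EL.cons 0 (TM.mk (P.cons (P.lf 2638781953 0 0) (P.cons (P.lf 0 171904985 0) (P.cons (P.lf 37221292 0 0) (P.cons (P.lf 0 1412446 0) (P.cons (P.lf 0 61831 0) (P.cons (P.lf 9815 0 0) P.nil)))))) 1641)
 (EL.cons 1 (TM.mk (P.cons (P.lf 678921663 0 0) (P.cons (P.lf 0 251810791 0) (P.cons (P.lf 86512 0 0) (P.cons (P.lf 1314026 0 0) (P.cons (P.lf 0 93138 0) (P.cons (P.lf 1631 0 0) P.nil)))))) 700)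
 (EL.cons 5 (TM.mk (P.cons (P.lf 6363210824 0 0) (P.cons (P.lf 61121772 0 0) (P.cons (P.lf 0 13234238 0) (P.cons (P.lf 502208 0 0) (P.cons (P.lf 21982 0 0) (P.cons (P.lf 0 3488 0) P.nil)))))) 319)
 (EL.cons 9 (TM.mk (P.lf 6442450944 0 0) 2)
 EL.nil))))
noncomputable def S430_459_216_364_1 : EL := (EL.cons 0 (TM.mk (P.cons (P.cons (P.lf 2254638816 0 0) (P.cons (P.lf 9923509 0 0) (P.cons (P.lf 4279113 0 0) (P.lf 0 475439 0)))) (P.cons (P.cons (P.lf 0 425957238 0) (P.cons (P.lf 0 11021060 0) (P.cons (P.lf 0 4752396 0) (P.lf 528025 0 0)))) (P.cons (P.cons (P.lf 49107740 0 0) (P.cons (P.lf 4067379 0 0) (P.cons (P.lf 1753897 0 0) (P.lf 0 194863 0)))) (P.cons (P.cons (P.lf 12688955 0 0) (P.cons (P.lf 0 431105 0) (P.cons (P.lf 0 185886 0) P.nil))) (P.cons (P.cons (P.lf 0 1801372 0) (P.cons (P.lf 0 53641 0) P.nil)) (P.cons (P.cons (P.lf 0 2073 0) P.nil) P.nil)))))) 259678)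
 (EL.cons 1 (TM.mk (P.cons (P.cons (P.lf 1347814706 0 0) (P.cons (P.lf 16671040 0 0) (P.cons (P.lf 7188741 0 0) (P.lf 0 798751 0)))) (P.cons (P.cons (P.lf 0 355615087 0) (P.cons (P.lf 0 11209451 0) (P.cons (P.lf 0 4833642 0) (P.lf 537076 0 0)))) (P.cons (P.cons (P.lf 0 73185955 0) (P.cons (P.lf 1173497 0 0) (P.cons (P.lf 506024 0 0) (P.lf 0 56225 0)))) (P.cons (P.cons (P.lf 9479333 0 0) (P.cons (P.lf 436044 0 0) (P.cons (P.lf 188020 0 0) P.nil))) (P.cons (P.cons (P.lf 459530 0 0) (P.cons (P.lf 0 73736 0) P.nil)) (P.cons (P.cons (P.lf 0 132654 0) P.nil) P.nil)))))) 101369)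
 (EL.cons 5 (TM.mk (P.cons (P.cons (P.lf 3677696786 0 0) (P.cons (P.lf 0 8420072 0) (P.cons (P.lf 0 3630820 0) (P.lf 403418 0 0)))) (P.cons (P.cons (P.lf 459232102 0 0) (P.cons (P.lf 9578418 0 0) (P.cons (P.lf 4130320 0 0) (P.lf 0 458920 0)))) (P.cons (P.cons (P.lf 0 74446828 0) (P.cons (P.lf 0 3763080 0) (P.cons (P.lf 0 1622680 0) (P.lf 180290 0 0)))) (P.cons (P.cons (P.lf 0 5402585 0) (P.cons (P.lf 532114 0 0) (P.cons (P.lf 229448 0 0) P.nil))) (P.cons (P.cons (P.lf 1095077 0 0) (P.cons (P.lf 2554 0 0) P.nil)) (P.cons (P.cons (P.lf 0 27622 0) P.nil) P.nil)))))) 79648)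
 (EL.cons 9 (TM.mk (P.cons (P.cons (P.lf 3952364230 0 0) (P.cons (P.lf 0 4316208 0) (P.cons (P.lf 0 1861194 0) (P.lf 206796 0 0)))) (P.cons (P.cons (P.lf 271571152 0 0) (P.cons (P.lf 4993956 0 0) (P.cons (P.lf 2153448 0 0) (P.lf 0 239268 0)))) (P.cons (P.cons (P.lf 0 50282026 0) (P.cons (P.lf 0 2044320 0) (P.cons (P.lf 0 881532 0) (P.lf 97944 0 0)))) (P.cons (P.cons (P.lf 0 786145 0) (P.cons (P.lf 334260 0 0) (P.cons (P.lf 144132 0 0) P.nil))) (P.cons (P.cons (P.lf 401107 0 0) (P.cons (P.lf 0 14568 0) P.nil)) (P.cons (P.cons (P.lf 0 25024 0) P.nil) P.nil)))))) 32012)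
 (EL.cons 2 (TM.mk (P.cons (P.cons (P.lf 0 38635965 0) (P.cons (P.lf 0 35992977 0) (P.cons (P.lf 3694050 0 0) (P.cons (P.lf 768256 0 0) (P.lf 0 64020 0))))) (P.cons (P.cons (P.lf 29230911 0 0) (P.cons (P.lf 27231300 0 0) (P.cons (P.lf 0 2794815 0) (P.cons (P.lf 0 581242 0) (P.lf 48434 0 0))))) (P.cons (P.cons (P.lf 0 5884571 0) (P.cons (P.lf 0 5482020 0) (P.cons (P.lf 562629 0 0) (P.cons (P.lf 117011 0 0) P.nil)))) (P.cons (P.cons (P.lf 44336 0 0) (P.cons (P.lf 41304 0 0) (P.cons (P.lf 0 4235 0) P.nil))) (P.cons (P.cons (P.lf 40860 0 0) (P.cons (P.lf 38067 0 0) P.nil)) (P.cons (P.cons (P.lf 0 3518 0) P.nil) P.nil)))))) 30834)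
 (EL.cons 6 (TM.mk (P.cons (P.cons (P.lf 4509384 0 0) (P.cons (P.lf 4200906 0 0) (P.cons (P.lf 0 431148 0) (P.cons (P.lf 0 89667 0) (P.lf 7470 0 0))))) (P.cons (P.cons (P.lf 0 5217462 0) (P.cons (P.lf 0 4860549 0) (P.cons (P.lf 498849 0 0) (P.cons (P.lf 103746 0 0) (P.lf 0 8643 0))))) (P.cons (P.cons (P.lf 2135817 0 0) (P.cons (P.lf 1989711 0 0) (P.cons (P.lf 0 204207 0) (P.cons (P.lf 0 42468 0) P.nil)))) (P.cons (P.cons (P.lf 0 349218 0) (P.cons (P.lf 0 325329 0) (P.cons (P.lf 33387 0 0) P.nil))) (P.cons (P.cons (P.lf 15219 0 0) (P.cons (P.lf 14178 0 0) P.nil)) (P.cons (P.cons (P.lf 846 0 0) P.nil) P.nil)))))) 15405)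
 EL.nil))))))
noncomputable def S430_459_216_364_2 : EL := (EL.cons 0 (TM.mk (P.cons (P.cons (P.lf 1773235460 0 0) (P.cons (P.lf 11324004 0 0) (P.cons (P.lf 4868537 0 0) (P.cons (P.lf 0 555019 0) (P.cons (P.lf 0 1299 0) (P.cons (P.lf 591 0 0) P.nil)))))) (P.cons (P.cons (P.lf 0 404339191 0) (P.cons (P.lf 0 11121797 0) (P.cons (P.lf 0 4762867 0) (P.cons (P.lf 561277 0 0) (P.cons (P.lf 2962 0 0) P.nil))))) (P.cons (P.cons (P.lf 4612039 0 0) (P.cons (P.lf 2761196 0 0) (P.cons (P.lf 1158923 0 0) (P.cons (P.lf 0 159645 0) P.nil)))) (P.cons (P.cons (P.lf 25205038 0 0) (P.cons (P.lf 392719 0 0) (P.cons (P.lf 185957 0 0) P.nil))) (P.cons (P.cons (P.lf 0 1609720 0) (P.cons (P.lf 0 224602 0) P.nil)) (P.cons (P.cons (P.lf 0 400924 0) P.nil) P.nil)))))) 810626)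
 (EL.cons 1 (TM.mk (P.cons (P.cons (P.lf 1398211619 0 0) (P.cons (P.lf 19207077 0 0) (P.cons (P.lf 8259668 0 0) (P.cons (P.lf 0 939786 0) (P.cons (P.lf 0 2044 0) (P.cons (P.lf 937 0 0) P.nil)))))) (P.cons (P.cons (P.lf 0 263042343 0) (P.cons (P.lf 0 10596559 0) (P.cons (P.lf 0 4527676 0) (P.cons (P.lf 543660 0 0) (P.cons (P.lf 3760 0 0) P.nil))))) (P.cons (P.cons (P.lf 0 122530408 0) (P.cons (P.lf 0 635832 0) (P.cons (P.lf 0 304668 0) (P.cons (P.lf 4161 0 0) P.nil)))) (P.cons (P.cons (P.lf 8768289 0 0) (P.cons (P.lf 949330 0 0) (P.cons (P.lf 420069 0 0) P.nil))) (P.cons (P.cons (P.lf 2438163 0 0) (P.cons (P.lf 0 48888 0) P.nil)) (P.cons (P.cons (P.lf 0 263997 0) P.nil) P.nil)))))) 331296)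
 (EL.cons 5 (TM.mk (P.cons (P.cons (P.lf 2117539925 0 0) (P.cons (P.lf 0 10028320 0) (P.cons (P.lf 0 4315891 0) (P.cons (P.lf 487737 0 0) (P.cons (P.lf 749 0 0) (P.cons (P.lf 0 346 0) P.nil)))))) (P.cons (P.cons (P.lf 521404301 0 0) (P.cons (P.lf 10486470 0 0) (P.cons (P.lf 4502572 0 0) (P.cons (P.lf 0 519073 0) (P.cons (P.lf 0 1735 0) P.nil))))) (P.cons (P.cons (P.lf 0 58586618 0) (P.cons (P.lf 0 3271019 0) (P.cons (P.lf 0 1391719 0) (P.cons (P.lf 172907 0 0) P.nil)))) (P.cons (P.cons (P.lf 0 14859304 0) (P.cons (P.lf 42704 0 0) (P.cons (P.lf 8403 0 0) P.nil))) (P.cons (P.cons (P.lf 1499763 0 0) (P.cons (P.lf 125699 0 0) P.nil)) (P.cons (P.cons (P.lf 159980 0 0) P.nil) P.nil)))))) 260883)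
 (EL.cons 9 (TM.mk (P.cons (P.cons (P.lf 2424726729 0 0) (P.cons (P.lf 0 5295880 0) (P.cons (P.lf 0 2280747 0) (P.cons (P.lf 256227 0 0) (P.cons (P.lf 259 0 0) (P.cons (P.lf 0 118 0) P.nil)))))) (P.cons (P.cons (P.lf 333211107 0 0) (P.cons (P.lf 5763574 0 0) (P.cons (P.lf 2478624 0 0) (P.cons (P.lf 0 281911 0) (P.cons (P.lf 0 603 0) P.nil))))) (P.cons (P.cons (P.lf 0 50247160 0) (P.cons (P.lf 0 2019931 0) (P.cons (P.lf 0 864403 0) (P.cons (P.lf 102475 0 0) P.nil)))) (P.cons (P.cons (P.lf 0 5203696 0) (P.cons (P.lf 160878 0 0) (P.cons (P.lf 65749 0 0) P.nil))) (P.cons (P.cons (P.lf 818311 0 0) (P.cons (P.lf 40459 0 0) P.nil)) (P.cons (P.cons (P.lf 15382 0 0) P.nil) P.nil)))))) 113071)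
 (EL.cons 2 (TM.mk (P.cons (P.cons (P.lf 0 47405379 0) (P.cons (P.lf 0 44110726 0) (P.cons (P.lf 4603055 0 0) (P.cons (P.lf 955996 0 0) (P.cons (P.lf 0 84026 0) (P.cons (P.lf 0 118 0) P.nil)))))) (P.cons (P.cons (P.lf 32608333 0 0) (P.cons (P.lf 30278615 0 0) (P.cons (P.lf 0 3252740 0) (P.cons (P.lf 0 673976 0) (P.cons (P.lf 64507 0 0) P.nil))))) (P.cons (P.cons (P.lf 0 4152768 0) (P.cons (P.lf 0 3790963 0) (P.cons (P.lf 502970 0 0) (P.cons (P.lf 102639 0 0) P.nil)))) (P.cons (P.cons (P.lf 0 888558 0) (P.cons (P.lf 0 859516 0) (P.cons (P.lf 41698 0 0) P.nil))) (P.cons (P.cons (P.lf 133785 0 0) (P.cons (P.lf 131585 0 0) P.nil)) (P.cons (P.cons (P.lf 3808 0 0) P.nil) P.nil)))))) 146761)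
 (EL.cons 6 (TM.mk (P.cons (P.cons (P.lf 5532900 0 0) (P.cons (P.lf 5148366 0 0) (P.cons (P.lf 0 537240 0) (P.cons (P.lf 0 111576 0) (P.cons (P.lf 9804 0 0) (P.cons (P.lf 12 0 0) P.nil)))))) (P.cons (P.cons (P.lf 0 6021522 0) (P.cons (P.lf 0 5595624 0) (P.cons (P.lf 594780 0 0) (P.cons (P.lf 123342 0 0) (P.cons (P.lf 0 11454 0) P.nil))))) (P.cons (P.cons (P.lf 2110338 0 0) (P.cons (P.lf 1952160 0 0) (P.cons (P.lf 0 220590 0) (P.cons (P.lf 0 45528 0) P.nil)))) (P.cons (P.cons (P.lf 0 168078 0) (P.cons (P.lf 0 149016 0) (P.cons (P.lf 26370 0 0) P.nil))) (P.cons (P.cons (P.lf 0 42264 0) (P.cons (P.lf 0 41856 0) P.nil)) (P.cons (P.cons (P.lf 6564 0 0) P.nil) P.nil)))))) 39978)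
 EL.nil))))))
noncomputable def S430_459_216_364_3 : EL := (EL.cons 0 (TM.mk (P.cons (P.lf 5816934910 0 0) (P.cons (P.lf 171904985 0 0) (P.cons (P.lf 0 37221292 0) (P.cons (P.lf 1412446 0 0) (P.cons (P.lf 61831 0 0) (P.cons (P.lf 0 9815 0) P.nil)))))) 1641)
 (EL.cons 1 (TM.mk (P.cons (P.lf 0 678921663 0) (P.cons (P.lf 251810791 0 0) (P.cons (P.lf 0 86512 0) (P.cons (P.lf 0 1314026 0) (P.cons (P.lf 93138 0 0) (P.cons (P.lf 0 1631 0) P.nil)))))) 700)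
 (EL.cons 5 (TM.mk (P.cons (P.lf 79240120 0 0) (P.cons (P.lf 0 61121772 0) (P.cons (P.lf 13234238 0 0) (P.cons (P.lf 0 502208 0) (P.cons (P.lf 0 21982 0) (P.cons (P.lf 3488 0 0) P.nil)))))) 312)
 EL.nil)))
noncomputable def S430_459_216_364_4 : EL := (EL.cons 0 (TM.mk (P.cons (P.cons (P.lf 3568617854 0 0) (P.cons (P.lf 0 3897133 0) (P.cons (P.lf 0 1680484 0) (P.lf 186716 0 0)))) (P.cons (P.cons (P.lf 350665119 0 0) (P.cons (P.lf 4393907 0 0) (P.cons (P.lf 1894700 0 0) (P.lf 0 210517 0)))) (P.cons (P.cons (P.lf 0 60988426 0) (P.cons (P.lf 0 1687638 0) (P.cons (P.lf 0 727727 0) (P.lf 80854 0 0)))) (P.cons (P.cons (P.lf 0 2753984 0) (P.cons (P.lf 217457 0 0) (P.cons (P.lf 93765 0 0) P.nil))) (P.cons (P.cons (P.lf 729161 0 0) (P.cons (P.lf 8629 0 0) P.nil)) (P.cons (P.cons (P.lf 0 21788 0) P.nil) P.nil)))))) 53685)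
 (EL.cons 1 (TM.mk (P.cons (P.cons (P.lf 0 416510070 0) (P.cons (P.lf 454852 0 0) (P.cons (P.lf 196136 0 0) (P.lf 0 21791 0)))) (P.cons (P.cons (P.lf 125863966 0 0) (P.cons (P.lf 0 694978 0) (P.cons (P.lf 0 299681 0) (P.lf 33296 0 0)))) (P.cons (P.cons (P.lf 15860448 0 0) (P.cons (P.lf 410686 0 0) (P.cons (P.lf 177091 0 0) (P.lf 0 19676 0)))) (P.cons (P.cons (P.lf 0 2692271 0) (P.cons (P.lf 0 114315 0) (P.cons (P.lf 0 49293 0) P.nil))) (P.cons (P.cons (P.lf 0 70571 0) (P.cons (P.lf 13545 0 0) P.nil)) (P.cons (P.cons (P.lf 31505 0 0) P.nil) P.nil)))))) 19865)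
 (EL.cons 5 (TM.mk (P.cons (P.cons (P.lf 48612836 0 0) (P.cons (P.lf 0 53086 0) (P.cons (P.lf 0 22892 0) (P.lf 2542 0 0)))) (P.cons (P.cons (P.lf 0 34157214 0) (P.cons (P.lf 102372 0 0) (P.cons (P.lf 44144 0 0) (P.lf 0 4904 0)))) (P.cons (P.cons (P.lf 4924098 0 0) (P.cons (P.lf 0 81390 0) (P.cons (P.lf 0 35096 0) (P.lf 3898 0 0)))) (P.cons (P.cons (P.lf 717142 0 0) (P.cons (P.lf 34100 0 0) (P.cons (P.lf 14704 0 0) P.nil))) (P.cons (P.cons (P.lf 0 125554 0) (P.cons (P.lf 0 7924 0) P.nil)) (P.cons (P.cons (P.lf 0 594 0) P.nil) P.nil)))))) 8996)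
 EL.nil)))
noncomputable def S430_459_216_364_5 : EL := (EL.cons 0 (TM.mk (P.cons (P.cons (P.lf 2189303057 0 0) (P.cons (P.lf 0 4781687 0) (P.cons (P.lf 0 2059301 0) (P.cons (P.lf 231347 0 0) (P.cons (P.lf 233 0 0) (P.cons (P.lf 0 105 0) P.nil)))))) (P.cons (P.cons (P.lf 365558069 0 0) (P.cons (P.lf 5062659 0 0) (P.cons (P.lf 2177108 0 0) (P.cons (P.lf 0 247702 0) (P.cons (P.lf 0 536 0) P.nil))))) (P.cons (P.cons (P.lf 0 50486262 0) (P.cons (P.lf 0 1639422 0) (P.cons (P.lf 0 701161 0) (P.cons (P.lf 83522 0 0) P.nil)))) (P.cons (P.cons (P.lf 0 7432737 0) (P.cons (P.lf 56898 0 0) (P.cons (P.lf 21478 0 0) P.nil))) (P.cons (P.cons (P.lf 986635 0 0) (P.cons (P.lf 53706 0 0) P.nil)) (P.cons (P.cons (P.lf 54274 0 0) P.nil) P.nil)))))) 130124)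
 (EL.cons 1 (TM.mk (P.cons (P.cons (P.lf 0 255523792 0) (P.cons (P.lf 558091 0 0) (P.cons (P.lf 240350 0 0) (P.cons (P.lf 0 27000 0) (P.cons (P.lf 0 26 0) (P.cons (P.lf 11 0 0) P.nil)))))) (P.cons (P.cons (P.lf 59658678 0 0) (P.cons (P.lf 0 814374 0) (P.cons (P.lf 0 350347 0) (P.cons (P.lf 39721 0 0) (P.cons (P.lf 73 0 0) P.nil))))) (P.cons (P.cons (P.lf 18286560 0 0) (P.cons (P.lf 438211 0 0) (P.cons (P.lf 188002 0 0) (P.cons (P.lf 0 21819 0) P.nil)))) (P.cons (P.cons (P.lf 0 1914620 0) (P.cons (P.lf 0 94901 0) (P.cons (P.lf 0 40282 0) P.nil))) (P.cons (P.cons (P.lf 0 321860 0) (P.cons (P.lf 798 0 0) P.nil)) (P.cons (P.cons (P.lf 44883 0 0) P.nil) P.nil)))))) 31670)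
 (EL.cons 5 (TM.mk (P.cons (P.cons (P.lf 29823376 0 0) (P.cons (P.lf 0 65136 0) (P.cons (P.lf 0 28052 0) (P.cons (P.lf 3150 0 0) (P.cons (P.lf 2 0 0) (P.cons (P.lf 0 0 0) P.nil)))))) (P.cons (P.cons (P.lf 0 18905834 0) (P.cons (P.lf 121132 0 0) (P.cons (P.lf 52124 0 0) (P.cons (P.lf 0 5898 0) (P.cons (P.lf 0 8 0) P.nil))))) (P.cons (P.cons (P.lf 1201618 0 0) (P.cons (P.lf 0 90404 0) (P.cons (P.lf 0 38832 0) (P.cons (P.lf 4460 0 0) P.nil)))) (P.cons (P.cons (P.lf 908184 0 0) (P.cons (P.lf 33394 0 0) (P.cons (P.lf 14278 0 0) P.nil))) (P.cons (P.cons (P.lf 0 78032 0) (P.cons (P.lf 0 5608 0) P.nil)) (P.cons (P.cons (P.lf 0 14170 0) P.nil) P.nil)))))) 10784)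
 EL.nil)))
noncomputable def S430_459_216_364_6 : EL := (EL.cons 12 (TM.mk (P.lf 8589934592 0 0) 0)
 (EL.cons 3 (TM.mk (P.cons (P.lf 3534370185 0 0) (P.cons (P.lf 52224742 0 0) (P.cons (P.lf 0 11693673 0) (P.cons (P.lf 601890 0 0) (P.cons (P.lf 0 9453 0) (P.cons (P.lf 0 851 0) P.nil)))))) 393)
 (EL.cons 7 (TM.mk (P.cons (P.lf 0 412512866 0) (P.cons (P.lf 159095655 0 0) (P.cons (P.lf 0 3768226 0) (P.cons (P.lf 0 146096 0) (P.cons (P.lf 18086 0 0) (P.cons (P.lf 0 774 0) P.nil)))))) 196)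
 EL.nil)))
noncomputable def S430_459_216_364_7 : EL := (EL.cons 12 (TM.mk (P.cons (P.cons (P.lf 5269818974 0 0) (P.cons (P.lf 0 5754944 0) (P.cons (P.lf 0 2481592 0) (P.lf 275728 0 0)))) (P.cons (P.cons (P.lf 362094870 0 0) (P.cons (P.lf 6658608 0 0) (P.cons (P.lf 2871264 0 0) (P.lf 0 319024 0)))) (P.cons (P.cons (P.lf 0 67042702 0) (P.cons (P.lf 0 2725760 0) (P.cons (P.lf 0 1175376 0) (P.lf 130592 0 0)))) (P.cons (P.cons (P.lf 0 1048194 0) (P.cons (P.lf 445680 0 0) (P.cons (P.lf 192176 0 0) P.nil))) (P.cons (P.cons (P.lf 534810 0 0) (P.cons (P.lf 0 19424 0) P.nil)) (P.cons (P.cons (P.lf 0 33366 0) P.nil) P.nil)))))) 42658)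
 (EL.cons 3 (TM.mk (P.cons (P.cons (P.lf 2554591684 0 0) (P.cons (P.lf 4735798 0 0) (P.cons (P.lf 2042124 0 0) (P.lf 0 226896 0)))) (P.cons (P.cons (P.lf 0 87001870 0) (P.cons (P.lf 0 5409454 0) (P.cons (P.lf 0 2332614 0) (P.lf 259172 0 0)))) (P.cons (P.cons (P.lf 5560968 0 0) (P.cons (P.lf 2146418 0 0) (P.cons (P.lf 925558 0 0) (P.lf 0 102834 0)))) (P.cons (P.cons (P.lf 4185044 0 0) (P.cons (P.lf 0 314672 0) (P.cons (P.lf 0 135686 0) P.nil))) (P.cons (P.cons (P.lf 0 550102 0) (P.cons (P.lf 2196 0 0) P.nil)) (P.cons (P.cons (P.lf 13631 0 0) P.nil) P.nil)))))) 102948)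
 (EL.cons 7 (TM.mk (P.cons (P.cons (P.lf 923736787 0 0) (P.cons (P.lf 21916862 0 0) (P.cons (P.lf 9450796 0 0) (P.lf 0 1050089 0)))) (P.cons (P.cons (P.lf 0 265039493 0) (P.cons (P.lf 0 16479191 0) (P.cons (P.lf 0 7106012 0) (P.lf 789558 0 0)))) (P.cons (P.cons (P.lf 0 36126864 0) (P.cons (P.lf 3239249 0 0) (P.cons (P.lf 1396800 0 0) (P.lf 0 155200 0)))) (P.cons (P.cons (P.lf 4726576 0 0) (P.cons (P.lf 7013 0 0) (P.cons (P.lf 3023 0 0) P.nil))) (P.cons (P.cons (P.lf 0 18186 0) (P.cons (P.lf 0 26745 0) P.nil)) (P.cons (P.cons (P.lf 0 31011 0) P.nil) P.nil)))))) 58994)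
 (EL.cons 10 (TM.mk (P.cons (P.cons (P.lf 0 46950435 0) (P.cons (P.lf 0 43738674 0) (P.cons (P.lf 4489011 0 0) (P.cons (P.lf 933588 0 0) (P.lf 0 77799 0))))) (P.cons (P.cons (P.lf 36215163 0 0) (P.cons (P.lf 33737775 0 0) (P.cons (P.lf 0 3462591 0) (P.cons (P.lf 0 720123 0) (P.lf 60009 0 0))))) (P.cons (P.cons (P.lf 0 7841397 0) (P.cons (P.lf 0 7304985 0) (P.cons (P.lf 749727 0 0) (P.cons (P.lf 155922 0 0) P.nil)))) (P.cons (P.cons (P.lf 297561 0 0) (P.cons (P.lf 277206 0 0) (P.cons (P.lf 0 28449 0) P.nil))) (P.cons (P.cons (P.lf 13023 0 0) (P.cons (P.lf 12132 0 0) P.nil)) (P.cons (P.cons (P.lf 0 2064 0) P.nil) P.nil)))))) 23571)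
 EL.nil))))
noncomputable def S430_459_216_364_8 : EL := (EL.cons 12 (TM.mk (P.cons (P.cons (P.lf 3232968972 0 0) (P.cons (P.lf 0 7061174 0) (P.cons (P.lf 0 3040996 0) (P.cons (P.lf 341636 0 0) (P.cons (P.lf 346 0 0) (P.cons (P.lf 0 158 0) P.nil)))))) (P.cons (P.cons (P.lf 444281476 0 0) (P.cons (P.lf 7684766 0 0) (P.cons (P.lf 3304832 0 0) (P.cons (P.lf 0 375882 0) (P.cons (P.lf 0 804 0) P.nil))))) (P.cons (P.cons (P.lf 0 66996214 0) (P.cons (P.lf 0 2693242 0) (P.cons (P.lf 0 1152538 0) (P.cons (P.lf 136634 0 0) P.nil)))) (P.cons (P.cons (P.lf 0 6938262 0) (P.cons (P.lf 214504 0 0) (P.cons (P.lf 87666 0 0) P.nil))) (P.cons (P.cons (P.lf 1091082 0 0) (P.cons (P.lf 53946 0 0) P.nil)) (P.cons (P.cons (P.lf 20510 0 0) P.nil) P.nil)))))) 150732)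
 (EL.cons 3 (TM.mk (P.cons (P.cons (P.lf 1804200266 0 0) (P.cons (P.lf 5293095 0 0) (P.cons (P.lf 2274500 0 0) (P.cons (P.lf 0 260432 0) (P.cons (P.lf 0 711 0) (P.cons (P.lf 326 0 0) P.nil)))))) (P.cons (P.cons (P.lf 0 93837182 0) (P.cons (P.lf 0 5279977 0) (P.cons (P.lf 0 2258544 0) (P.cons (P.lf 268692 0 0) (P.cons (P.lf 1640 0 0) P.nil))))) (P.cons (P.cons (P.lf 0 11121917 0) (P.cons (P.lf 1391855 0 0) (P.cons (P.lf 582346 0 0) (P.cons (P.lf 0 82061 0) P.nil)))) (P.cons (P.cons (P.lf 9978762 0 0) (P.cons (P.lf 140530 0 0) (P.cons (P.lf 70190 0 0) P.nil))) (P.cons (P.cons (P.lf 0 595127 0) (P.cons (P.lf 0 100028 0) P.nil)) (P.cons (P.cons (P.lf 0 146029 0) P.nil) P.nil)))))) 369972)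
 (EL.cons 7 (TM.mk (P.cons (P.cons (P.lf 1288658540 0 0) (P.cons (P.lf 25314607 0 0) (P.cons (P.lf 10886757 0 0) (P.cons (P.lf 0 1238048 0) (P.cons (P.lf 0 2626 0) (P.cons (P.lf 1201 0 0) P.nil)))))) (P.cons (P.cons (P.lf 0 285862371 0) (P.cons (P.lf 0 16084765 0) (P.cons (P.lf 0 6880370 0) (P.cons (P.lf 818574 0 0) (P.cons (P.lf 5001 0 0) P.nil))))) (P.cons (P.cons (P.lf 0 91118278 0) (P.cons (P.lf 1019557 0 0) (P.cons (P.lf 396435 0 0) (P.cons (P.lf 0 86111 0) P.nil)))) (P.cons (P.cons (P.lf 7822904 0 0) (P.cons (P.lf 798730 0 0) (P.cons (P.lf 361762 0 0) P.nil))) (P.cons (P.cons (P.lf 1272061 0 0) (P.cons (P.lf 0 79854 0) P.nil)) (P.cons (P.cons (P.lf 0 168772 0) P.nil) P.nil)))))) 284376)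
 (EL.cons 10 (TM.mk (P.cons (P.cons (P.lf 0 57607026 0) (P.cons (P.lf 0 53603364 0) (P.cons (P.lf 5593638 0 0) (P.cons (P.lf 1161732 0 0) (P.cons (P.lf 0 102108 0) (P.cons (P.lf 0 144 0) P.nil)))))) (P.cons (P.cons (P.lf 40476870 0 0) (P.cons (P.lf 37586634 0 0) (P.cons (P.lf 0 4035384 0) (P.cons (P.lf 0 836184 0) (P.cons (P.lf 79896 0 0) P.nil))))) (P.cons (P.cons (P.lf 0 5835138 0) (P.cons (P.lf 0 5339520 0) (P.cons (P.lf 689340 0 0) (P.cons (P.lf 140928 0 0) P.nil)))) (P.cons (P.cons (P.lf 0 849828 0) (P.cons (P.lf 0 832104 0) (P.cons (P.lf 26178 0 0) P.nil))) (P.cons (P.cons (P.lf 148776 0 0) (P.cons (P.lf 147990 0 0) P.nil)) (P.cons (P.cons (P.lf 708 0 0) P.nil) P.nil)))))) 162366)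
 EL.nil))))
noncomputable def S430_459_216_364_9 : EL := (EL.cons 3 (TM.mk (P.cons (P.lf 3534370185 0 0) (P.cons (P.lf 52224742 0 0) (P.cons (P.lf 0 11693673 0) (P.cons (P.lf 601890 0 0) (P.cons (P.lf 0 9453 0) (P.cons (P.lf 0 851 0) P.nil)))))) 393)
 (EL.cons 7 (TM.mk (P.cons (P.lf 0 412512866 0) (P.cons (P.lf 159095655 0 0) (P.cons (P.lf 0 3768226 0) (P.cons (P.lf 0 146096 0) (P.cons (P.lf 18086 0 0) (P.cons (P.lf 0 774 0) P.nil)))))) 196)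
 EL.nil))
noncomputable def S430_459_216_364_10 : EL := (EL.cons 3 (TM.mk (P.cons (P.cons (P.lf 2168292535 0 0) (P.cons (P.lf 0 2367899 0) (P.cons (P.lf 0 1021062 0) (P.lf 113448 0 0)))) (P.cons (P.cons (P.lf 181024922 0 0) (P.cons (P.lf 2704727 0 0) (P.cons (P.lf 1166307 0 0) (P.lf 0 129586 0)))) (P.cons (P.cons (P.lf 0 32557518 0) (P.cons (P.lf 0 1073209 0) (P.cons (P.lf 0 462779 0) (P.lf 51417 0 0)))) (P.cons (P.cons (P.lf 0 962563 0) (P.cons (P.lf 157336 0 0) (P.cons (P.lf 67843 0 0) P.nil))) (P.cons (P.cons (P.lf 324515 0 0) (P.cons (P.lf 0 1098 0) P.nil)) (P.cons (P.cons (P.lf 0 14668 0) P.nil) P.nil)))))) 25154)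
 (EL.cons 7 (TM.mk (P.cons (P.cons (P.lf 0 253071557 0) (P.cons (P.lf 276368 0 0) (P.cons (P.lf 119173 0 0) (P.lf 0 13241 0)))) (P.cons (P.cons (P.lf 80214406 0 0) (P.cons (P.lf 0 426353 0) (P.cons (P.lf 0 183848 0) (P.lf 20427 0 0)))) (P.cons (P.cons (P.lf 7614240 0 0) (P.cons (P.lf 256748 0 0) (P.cons (P.lf 110712 0 0) (P.lf 0 12301 0)))) (P.cons (P.cons (P.lf 0 1439843 0) (P.cons (P.lf 0 74710 0) (P.cons (P.lf 0 32215 0) P.nil))) (P.cons (P.cons (P.lf 0 10749 0) (P.cons (P.lf 10257 0 0) P.nil)) (P.cons (P.cons (P.lf 13395 0 0) P.nil) P.nil)))))) 11602)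
 EL.nil))
noncomputable def S430_459_216_364_11 : EL := (EL.cons 3 (TM.mk (P.cons (P.cons (P.lf 1330220738 0 0) (P.cons (P.lf 0 2905353 0) (P.cons (P.lf 0 1251232 0) (P.cons (P.lf 140566 0 0) (P.cons (P.lf 141 0 0) (P.cons (P.lf 0 64 0) P.nil)))))) (P.cons (P.cons (P.lf 202457440 0 0) (P.cons (P.lf 3119003 0 0) (P.cons (P.lf 1341300 0 0) (P.cons (P.lf 0 152580 0) (P.cons (P.lf 0 328 0) P.nil))))) (P.cons (P.cons (P.lf 0 29265905 0) (P.cons (P.lf 0 1051813 0) (P.cons (P.lf 0 449984 0) (P.cons (P.lf 53467 0 0) P.nil)))) (P.cons (P.cons (P.lf 0 3640380 0) (P.cons (P.lf 60928 0 0) (P.cons (P.lf 24350 0 0) P.nil))) (P.cons (P.cons (P.lf 525523 0 0) (P.cons (P.lf 27712 0 0) P.nil)) (P.cons (P.cons (P.lf 19013 0 0) P.nil) P.nil)))))) 70760)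
 (EL.cons 7 (TM.mk (P.cons (P.cons (P.lf 0 155256280 0) (P.cons (P.lf 339097 0 0) (P.cons (P.lf 146037 0 0) (P.cons (P.lf 0 16406 0) (P.cons (P.lf 0 16 0) (P.cons (P.lf 7 0 0) P.nil)))))) (P.cons (P.cons (P.lf 38542725 0 0) (P.cons (P.lf 0 499825 0) (P.cons (P.lf 0 215030 0) (P.cons (P.lf 24378 0 0) (P.cons (P.lf 45 0 0) P.nil))))) (P.cons (P.cons (P.lf 10027724 0 0) (P.cons (P.lf 274765 0 0) (P.cons (P.lf 117891 0 0) (P.cons (P.lf 0 13673 0) P.nil)))) (P.cons (P.cons (P.lf 0 1157536 0) (P.cons (P.lf 0 63434 0) (P.cons (P.lf 0 26954 0) P.nil))) (P.cons (P.cons (P.lf 0 152261 0) (P.cons (P.lf 2418 0 0) P.nil)) (P.cons (P.cons (P.lf 24050 0 0) P.nil) P.nil)))))) 17660)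
 EL.nil))
noncomputable def S430_459_216_364_12 : EL := (EL.cons 4 (TM.mk (P.cons (P.lf 0 3534370185 0) (P.cons (P.lf 0 52224742 0) (P.cons (P.lf 11693673 0 0) (P.cons (P.lf 0 601890 0) (P.cons (P.lf 9453 0 0) (P.cons (P.lf 851 0 0) P.nil)))))) 393)
 (EL.cons 8 (TM.mk (P.cons (P.lf 412512866 0 0) (P.cons (P.lf 0 159095655 0) (P.cons (P.lf 3768226 0 0) (P.cons (P.lf 146096 0 0) (P.cons (P.lf 0 18086 0) (P.cons (P.lf 774 0 0) P.nil)))))) 196)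
 EL.nil))
noncomputable def S430_459_216_364_13 : EL := (EL.cons 4 (TM.mk (P.cons (P.cons (P.lf 0 2168292535 0) (P.cons (P.lf 2367899 0 0) (P.cons (P.lf 1021062 0 0) (P.lf 0 113448 0)))) (P.cons (P.cons (P.lf 0 181024922 0) (P.cons (P.lf 0 2704727 0) (P.cons (P.lf 0 1166307 0) (P.lf 129586 0 0)))) (P.cons (P.cons (P.lf 32557518 0 0) (P.cons (P.lf 1073209 0 0) (P.cons (P.lf 462779 0 0) (P.lf 0 51417 0)))) (P.cons (P.cons (P.lf 962563 0 0) (P.cons (P.lf 0 157336 0) (P.cons (P.lf 0 67843 0) P.nil))) (P.cons (P.cons (P.lf 0 324515 0) (P.cons (P.lf 1098 0 0) P.nil)) (P.cons (P.cons (P.lf 14668 0 0) P.nil) P.nil)))))) 25154)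
 (EL.cons 8 (TM.mk (P.cons (P.cons (P.lf 253071557 0 0) (P.cons (P.lf 0 276368 0) (P.cons (P.lf 0 119173 0) (P.lf 13241 0 0)))) (P.cons (P.cons (P.lf 0 80214406 0) (P.cons (P.lf 426353 0 0) (P.cons (P.lf 183848 0 0) (P.lf 0 20427 0)))) (P.cons (P.cons (P.lf 0 7614240 0) (P.cons (P.lf 0 256748 0) (P.cons (P.lf 0 110712 0) (P.lf 12301 0 0)))) (P.cons (P.cons (P.lf 1439843 0 0) (P.cons (P.lf 74710 0 0) (P.cons (P.lf 32215 0 0) P.nil))) (P.cons (P.cons (P.lf 10749 0 0) (P.cons (P.lf 0 10257 0) P.nil)) (P.cons (P.cons (P.lf 0 13395 0) P.nil) P.nil)))))) 11602)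
 EL.nil))
noncomputable def S430_459_216_364_14 : EL := (EL.cons 4 (TM.mk (P.cons (P.cons (P.lf 0 1330220738 0) (P.cons (P.lf 2905353 0 0) (P.cons (P.lf 1251232 0 0) (P.cons (P.lf 0 140566 0) (P.cons (P.lf 0 141 0) (P.cons (P.lf 64 0 0) P.nil)))))) (P.cons (P.cons (P.lf 0 202457440 0) (P.cons (P.lf 0 3119003 0) (P.cons (P.lf 0 1341300 0) (P.cons (P.lf 152580 0 0) (P.cons (P.lf 328 0 0) P.nil))))) (P.cons (P.cons (P.lf 29265905 0 0) (P.cons (P.lf 1051813 0 0) (P.cons (P.lf 449984 0 0) (P.cons (P.lf 0 53467 0) P.nil)))) (P.cons (P.cons (P.lf 3640380 0 0) (P.cons (P.lf 0 60928 0) (P.cons (P.lf 0 24350 0) P.nil))) (P.cons (P.cons (P.lf 0 525523 0) (P.cons (P.lf 0 27712 0) P.nil)) (P.cons (P.cons (P.lf 0 19013 0) P.nil) P.nil)))))) 70760)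
 (EL.cons 8 (TM.mk (P.cons (P.cons (P.lf 155256280 0 0) (P.cons (P.lf 0 339097 0) (P.cons (P.lf 0 146037 0) (P.cons (P.lf 16406 0 0) (P.cons (P.lf 16 0 0) (P.cons (P.lf 0 7 0) P.nil)))))) (P.cons (P.cons (P.lf 0 38542725 0) (P.cons (P.lf 499825 0 0) (P.cons (P.lf 215030 0 0) (P.cons (P.lf 0 24378 0) (P.cons (P.lf 0 45 0) P.nil))))) (P.cons (P.cons (P.lf 0 10027724 0) (P.cons (P.lf 0 274765 0) (P.cons (P.lf 0 117891 0) (P.cons (P.lf 13673 0 0) P.nil)))) (P.cons (P.cons (P.lf 1157536 0 0) (P.cons (P.lf 63434 0 0) (P.cons (P.lf 26954 0 0) P.nil))) (P.cons (P.cons (P.lf 152261 0 0) (P.cons (P.lf 0 2418 0) P.nil)) (P.cons (P.cons (P.lf 0 24050 0) P.nil) P.nil)))))) 17660)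
 EL.nil))
noncomputable def S430_459_216_364_15 : EL := (EL.cons 4 (TM.mk (P.cons (P.lf 0 3102365285 0) (P.cons (P.lf 0 91682658 0) (P.cons (P.lf 19851356 0 0) (P.cons (P.lf 0 753304 0) (P.cons (P.lf 0 32976 0) (P.cons (P.lf 5235 0 0) P.nil)))))) 878)
 (EL.cons 8 (TM.mk (P.cons (P.lf 362091554 0 0) (P.cons (P.lf 0 134299089 0) (P.cons (P.lf 46140 0 0) (P.cons (P.lf 700814 0 0) (P.cons (P.lf 0 49674 0) (P.cons (P.lf 870 0 0) P.nil)))))) 370)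
 EL.nil))
noncomputable def S430_459_216_364_16 : EL := (EL.cons 4 (TM.mk (P.cons (P.cons (P.lf 0 1903262855 0) (P.cons (P.lf 2078471 0 0) (P.cons (P.lf 896258 0 0) (P.lf 0 99582 0)))) (P.cons (P.cons (P.lf 0 187021396 0) (P.cons (P.lf 0 2343417 0) (P.cons (P.lf 0 1010506 0) (P.lf 112275 0 0)))) (P.cons (P.cons (P.lf 32527160 0 0) (P.cons (P.lf 900074 0 0) (P.cons (P.lf 388121 0 0) (P.lf 0 43122 0)))) (P.cons (P.cons (P.lf 1468791 0 0) (P.cons (P.lf 0 115977 0) (P.cons (P.lf 0 50008 0) P.nil))) (P.cons (P.cons (P.lf 0 388886 0) (P.cons (P.lf 0 4602 0) P.nil)) (P.cons (P.cons (P.lf 11620 0 0) P.nil) P.nil)))))) 28640)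
 (EL.cons 8 (TM.mk (P.cons (P.cons (P.lf 222138704 0 0) (P.cons (P.lf 0 242588 0) (P.cons (P.lf 0 104606 0) (P.lf 11622 0 0)))) (P.cons (P.cons (P.lf 0 67127449 0) (P.cons (P.lf 370655 0 0) (P.cons (P.lf 159830 0 0) (P.lf 0 17758 0)))) (P.cons (P.cons (P.lf 0 8458906 0) (P.cons (P.lf 0 219033 0) (P.cons (P.lf 0 94449 0) (P.lf 10494 0 0)))) (P.cons (P.cons (P.lf 1435878 0 0) (P.cons (P.lf 60968 0 0) (P.cons (P.lf 26290 0 0) P.nil))) (P.cons (P.cons (P.lf 37638 0 0) (P.cons (P.lf 0 7224 0) P.nil)) (P.cons (P.cons (P.lf 0 16803 0) P.nil) P.nil)))))) 10585)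
 EL.nil))
noncomputable def S430_459_216_364_17 : EL := (EL.cons 4 (TM.mk (P.cons (P.cons (P.lf 0 1167628297 0) (P.cons (P.lf 2550233 0 0) (P.cons (P.lf 1098294 0 0) (P.cons (P.lf 0 123385 0) (P.cons (P.lf 0 124 0) (P.cons (P.lf 56 0 0) P.nil)))))) (P.cons (P.cons (P.lf 0 194964303 0) (P.cons (P.lf 0 2700085 0) (P.cons (P.lf 0 1161124 0) (P.cons (P.lf 132107 0 0) (P.cons (P.lf 285 0 0) P.nil))))) (P.cons (P.cons (P.lf 26926006 0 0) (P.cons (P.lf 874358 0 0) (P.cons (P.lf 373952 0 0) (P.cons (P.lf 0 44545 0) P.nil)))) (P.cons (P.cons (P.lf 3964126 0 0) (P.cons (P.lf 0 30345 0) (P.cons (P.lf 0 11455 0) P.nil))) (P.cons (P.cons (P.lf 0 526205 0) (P.cons (P.lf 0 28643 0) P.nil)) (P.cons (P.cons (P.lf 0 28946 0) P.nil) P.nil)))))) 69410)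
 (EL.cons 8 (TM.mk (P.cons (P.cons (P.lf 136279356 0 0) (P.cons (P.lf 0 297649 0) (P.cons (P.lf 0 128187 0) (P.cons (P.lf 14400 0 0) (P.cons (P.lf 14 0 0) (P.cons (P.lf 0 6 0) P.nil)))))) (P.cons (P.cons (P.lf 0 31817962 0) (P.cons (P.lf 434333 0 0) (P.cons (P.lf 186852 0 0) (P.cons (P.lf 0 21185 0) (P.cons (P.lf 0 39 0) P.nil))))) (P.cons (P.cons (P.lf 0 9752832 0) (P.cons (P.lf 0 233713 0) (P.cons (P.lf 0 100268 0) (P.cons (P.lf 11637 0 0) P.nil)))) (P.cons (P.cons (P.lf 1021131 0 0) (P.cons (P.lf 50614 0 0) (P.cons (P.lf 21484 0 0) P.nil))) (P.cons (P.cons (P.lf 171659 0 0) (P.cons (P.lf 0 426 0) P.nil)) (P.cons (P.cons (P.lf 0 23938 0) P.nil) P.nil)))))) 16879)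
 EL.nil))
noncomputable def S430_459_216_364_18 : EL := (EL.cons 4 (TM.mk (P.cons (P.lf 0 2723164202 0) (P.cons (P.lf 0 120714476 0) (P.cons (P.lf 25245543 0 0) (P.cons (P.lf 0 601236 0) (P.cons (P.lf 0 102788 0) (P.cons (P.lf 10193 0 0) P.nil)))))) 1470)
 (EL.cons 8 (TM.mk (P.cons (P.lf 317833223 0 0) (P.cons (P.lf 0 113187372 0) (P.cons (P.lf 0 2752949 0) (P.cons (P.lf 1059903 0 0) (P.cons (P.lf 0 55572 0) (P.cons (P.lf 0 1670 0) P.nil)))))) 673)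
 EL.nil))
noncomputable def S430_459_216_364_19 : EL := (EL.cons 4 (TM.mk (P.cons (P.cons (P.lf 0 1670627666 0) (P.cons (P.lf 1824420 0 0) (P.cons (P.lf 786708 0 0) (P.lf 0 87410 0)))) (P.cons (P.cons (P.lf 0 188847447 0) (P.cons (P.lf 0 2030024 0) (P.cons (P.lf 0 875368 0) (P.lf 97260 0 0)))) (P.cons (P.cons (P.lf 31653050 0 0) (P.cons (P.lf 753627 0 0) (P.cons (P.lf 324971 0 0) (P.lf 0 36105 0)))) (P.cons (P.cons (P.lf 1969782 0 0) (P.cons (P.lf 0 83010 0) (P.cons (P.lf 0 35792 0) P.nil))) (P.cons (P.cons (P.lf 0 440253 0) (P.cons (P.lf 0 8513 0) P.nil)) (P.cons (P.cons (P.lf 6594 0 0) P.nil) P.nil)))))) 31169)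
 (EL.cons 8 (TM.mk (P.cons (P.cons (P.lf 194986764 0 0) (P.cons (P.lf 0 212936 0) (P.cons (P.lf 0 91820 0) (P.lf 10202 0 0)))) (P.cons (P.cons (P.lf 0 56041309 0) (P.cons (P.lf 322204 0 0) (P.cons (P.lf 138937 0 0) (P.lf 0 15437 0)))) (P.cons (P.cons (P.lf 0 8940756 0) (P.cons (P.lf 0 186749 0) (P.cons (P.lf 0 80528 0) (P.lf 8947 0 0)))) (P.cons (P.cons (P.lf 1378812 0 0) (P.cons (P.lf 49562 0 0) (P.cons (P.lf 21371 0 0) P.nil))) (P.cons (P.cons (P.lf 65671 0 0) (P.cons (P.lf 0 4858 0) P.nil)) (P.cons (P.cons (P.lf 0 19585 0) P.nil) P.nil)))))) 9969)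
 EL.nil))
noncomputable def S430_459_216_364_20 : EL := (EL.cons 4 (TM.mk (P.cons (P.cons (P.lf 0 1024909476 0) (P.cons (P.lf 2238519 0 0) (P.cons (P.lf 964050 0 0) (P.cons (P.lf 0 108304 0) (P.cons (P.lf 0 109 0) (P.cons (P.lf 49 0 0) P.nil)))))) (P.cons (P.cons (P.lf 0 186278201 0) (P.cons (P.lf 0 2336978 0) (P.cons (P.lf 0 1004955 0) (P.cons (P.lf 114360 0 0) (P.cons (P.lf 249 0 0) P.nil))))) (P.cons (P.cons (P.lf 24497106 0 0) (P.cons (P.lf 725058 0 0) (P.cons (P.lf 309994 0 0) (P.cons (P.lf 0 37028 0) P.nil)))) (P.cons (P.cons (P.lf 4220495 0 0) (P.cons (P.lf 0 7073 0) (P.cons (P.lf 0 1668 0) P.nil))) (P.cons (P.cons (P.lf 0 515070 0) (P.cons (P.lf 0 28485 0) P.nil)) (P.cons (P.cons (P.lf 0 39016 0) P.nil) P.nil)))))) 67389)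
 (EL.cons 8 (TM.mk (P.cons (P.cons (P.lf 119621976 0 0) (P.cons (P.lf 0 261268 0) (P.cons (P.lf 0 112518 0) (P.cons (P.lf 12640 0 0) (P.cons (P.lf 12 0 0) (P.cons (P.lf 0 5 0) P.nil)))))) (P.cons (P.cons (P.lf 0 26161299 0) (P.cons (P.lf 377384 0 0) (P.cons (P.lf 162351 0 0) (P.cons (P.lf 0 18409 0) (P.cons (P.lf 0 34 0) P.nil))))) (P.cons (P.cons (P.lf 0 9369207 0) (P.cons (P.lf 0 198648 0) (P.cons (P.lf 0 85216 0) (P.cons (P.lf 9898 0 0) P.nil)))) (P.cons (P.cons (P.lf 882598 0 0) (P.cons (P.lf 40090 0 0) (P.cons (P.lf 16995 0 0) P.nil))) (P.cons (P.cons (P.lf 187169 0 0) (P.cons (P.lf 1026 0 0) P.nil)) (P.cons (P.cons (P.lf 0 23163 0) P.nil) P.nil)))))) 16092)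
 EL.nil))
noncomputable def S430_459_216_364_21 : EL := (EL.cons 4 (TM.mk (P.cons (P.cons (P.lf 0 386299149 0) (P.cons (P.lf 0 7103697 0) (P.cons (P.lf 0 3063186 0) (P.lf 340344 0 0)))) (P.cons (P.cons (P.lf 268026792 0 0) (P.cons (P.lf 8114181 0 0) (P.cons (P.lf 3498921 0 0) (P.lf 0 388758 0)))) (P.cons (P.cons (P.lf 0 38118486 0) (P.cons (P.lf 0 3219627 0) (P.cons (P.lf 0 1388337 0) (P.lf 154251 0 0)))) (P.cons (P.cons (P.lf 0 5147607 0) (P.cons (P.lf 472008 0 0) (P.cons (P.lf 203529 0 0) P.nil))) (P.cons (P.cons (P.lf 874617 0 0) (P.cons (P.lf 0 3294 0) P.nil)) (P.cons (P.cons (P.lf 0 28299 0) P.nil) P.nil)))))) 77775)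
 (EL.cons 8 (TM.mk (P.cons (P.cons (P.lf 0 1176808344 0) (P.cons (P.lf 0 21640494 0) (P.cons (P.lf 0 9331623 0) (P.lf 1036848 0 0)))) (P.cons (P.cons (P.lf 345253899 0 0) (P.cons (P.lf 16052838 0 0) (P.cons (P.lf 6922164 0 0) (P.lf 0 769131 0)))) (P.cons (P.cons (P.lf 43741104 0 0) (P.cons (P.lf 0 2982501 0) (P.cons (P.lf 0 1286088 0) (P.lf 142899 0 0)))) (P.cons (P.cons (P.lf 0 6166419 0) (P.cons (P.lf 0 81723 0) (P.cons (P.lf 0 35238 0) P.nil))) (P.cons (P.cons (P.lf 7437 0 0) (P.cons (P.lf 37002 0 0) P.nil)) (P.cons (P.cons (P.lf 44406 0 0) P.nil) P.nil)))))) 47373)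
 (EL.cons 11 (TM.mk (P.cons (P.cons (P.lf 46950435 0 0) (P.cons (P.lf 43738674 0 0) (P.cons (P.lf 0 4489011 0) (P.cons (P.lf 0 933588 0) (P.lf 77799 0 0))))) (P.cons (P.cons (P.lf 0 36215163 0) (P.cons (P.lf 0 33737775 0) (P.cons (P.lf 3462591 0 0) (P.cons (P.lf 720123 0 0) (P.lf 0 60009 0))))) (P.cons (P.cons (P.lf 7841397 0 0) (P.cons (P.lf 7304985 0 0) (P.cons (P.lf 0 749727 0) (P.cons (P.lf 0 155922 0) P.nil)))) (P.cons (P.cons (P.lf 0 297561 0) (P.cons (P.lf 0 277206 0) (P.cons (P.lf 28449 0 0) P.nil))) (P.cons (P.cons (P.lf 0 13023 0) (P.cons (P.lf 0 12132 0) P.nil)) (P.cons (P.cons (P.lf 2064 0 0) P.nil) P.nil)))))) 23571)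
 EL.nil)))
noncomputable def S430_459_216_364_22 : EL := (EL.cons 4 (TM.mk (P.cons (P.cons (P.lf 0 236989764 0) (P.cons (P.lf 0 4099224 0) (P.cons (P.lf 0 1762866 0) (P.cons (P.lf 200499 0 0) (P.cons (P.lf 426 0 0) (P.cons (P.lf 0 195 0) P.nil)))))) (P.cons (P.cons (P.lf 148147311 0 0) (P.cons (P.lf 4199490 0 0) (P.cons (P.lf 1799922 0 0) (P.cons (P.lf 0 210636 0) (P.cons (P.lf 0 984 0) P.nil))))) (P.cons (P.cons (P.lf 0 9071994 0) (P.cons (P.lf 0 1221834 0) (P.cons (P.lf 0 516165 0) (P.cons (P.lf 67764 0 0) P.nil)))) (P.cons (P.cons (P.lf 0 6809571 0) (P.cons (P.lf 0 39801 0) (P.cons (P.lf 0 22920 0) P.nil))) (P.cons (P.cons (P.lf 560325 0 0) (P.cons (P.lf 63870 0 0) P.nil)) (P.cons (P.cons (P.lf 82521 0 0) P.nil) P.nil)))))) 149595)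
 (EL.cons 8 (TM.mk (P.cons (P.cons (P.lf 0 721957410 0) (P.cons (P.lf 0 12487755 0) (P.cons (P.lf 0 5370360 0) (P.cons (P.lf 610821 0 0) (P.cons (P.lf 1305 0 0) (P.cons (P.lf 0 597 0) P.nil)))))) (P.cons (P.cons (P.lf 162202548 0 0) (P.cons (P.lf 7792470 0 0) (P.cons (P.lf 3332670 0 0) (P.cons (P.lf 0 397098 0) (P.cons (P.lf 0 2478 0) P.nil))))) (P.cons (P.cons (P.lf 50573001 0 0) (P.cons (P.lf 0 372396 0) (P.cons (P.lf 0 139272 0) (P.cons (P.lf 36219 0 0) P.nil)))) (P.cons (P.cons (P.lf 0 4490220 0) (P.cons (P.lf 0 431082 0) (P.cons (P.lf 0 194358 0) P.nil))) (P.cons (P.cons (P.lf 0 712161 0) (P.cons (P.lf 41136 0 0) P.nil)) (P.cons (P.cons (P.lf 96411 0 0) P.nil) P.nil)))))) 133347)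
 (EL.cons 11 (TM.mk (P.cons (P.cons (P.lf 28803513 0 0) (P.cons (P.lf 26801682 0 0) (P.cons (P.lf 0 2796819 0) (P.cons (P.lf 0 580866 0) (P.cons (P.lf 51054 0 0) (P.cons (P.lf 72 0 0) P.nil)))))) (P.cons (P.cons (P.lf 0 20238435 0) (P.cons (P.lf 0 18793317 0) (P.cons (P.lf 2017692 0 0) (P.cons (P.lf 418092 0 0) (P.cons (P.lf 0 39948 0) P.nil))))) (P.cons (P.cons (P.lf 2917569 0 0) (P.cons (P.lf 2669760 0 0) (P.cons (P.lf 0 344670 0) (P.cons (P.lf 0 70464 0) P.nil)))) (P.cons (P.cons (P.lf 424914 0 0) (P.cons (P.lf 416052 0 0) (P.cons (P.lf 0 13089 0) P.nil))) (P.cons (P.cons (P.lf 0 74388 0) (P.cons (P.lf 0 73995 0) P.nil)) (P.cons (P.cons (P.lf 0 354 0) P.nil) P.nil)))))) 81183)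
 EL.nil)))
noncomputable def S430_459_216_364_23 : EL := (EL.cons 4 (TM.mk (P.cons (P.cons (P.lf 0 339081930 0) (P.cons (P.lf 0 6235413 0) (P.cons (P.lf 0 2688771 0) (P.lf 298743 0 0)))) (P.cons (P.cons (P.lf 230255604 0 0) (P.cons (P.lf 7030251 0 0) (P.cons (P.lf 3031518 0 0) (P.lf 0 336825 0)))) (P.cons (P.cons (P.lf 0 28861053 0) (P.cons (P.lf 0 2700219 0) (P.cons (P.lf 0 1164363 0) (P.lf 129366 0 0)))) (P.cons (P.cons (P.lf 0 5848953 0) (P.cons (P.lf 347928 0 0) (P.cons (P.lf 150024 0 0) P.nil))) (P.cons (P.cons (P.lf 852621 0 0) (P.cons (P.lf 13809 0 0) P.nil)) (P.cons (P.cons (P.lf 0 4791 0) P.nil) P.nil)))))) 87468)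
 (EL.cons 8 (TM.mk (P.cons (P.cons (P.lf 0 1032967449 0) (P.cons (P.lf 0 18995382 0) (P.cons (P.lf 0 8191020 0) (P.lf 910113 0 0)))) (P.cons (P.cons (P.lf 287790240 0 0) (P.cons (P.lf 13810023 0 0) (P.cons (P.lf 5955036 0 0) (P.lf 0 661671 0)))) (P.cons (P.cons (P.lf 46290273 0 0) (P.cons (P.lf 0 2346894 0) (P.cons (P.lf 0 1012005 0) (P.lf 112443 0 0)))) (P.cons (P.cons (P.lf 0 6023952 0) (P.cons (P.lf 0 160272 0) (P.cons (P.lf 0 69108 0) P.nil))) (P.cons (P.cons (P.lf 0 146109 0) (P.cons (P.lf 42531 0 0) P.nil)) (P.cons (P.cons (P.lf 62958 0 0) P.nil) P.nil)))))) 56124)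
 (EL.cons 11 (TM.mk (P.cons (P.cons (P.lf 41211696 0 0) (P.cons (P.lf 38392509 0 0) (P.cons (P.lf 0 3940320 0) (P.cons (P.lf 0 819474 0) (P.lf 68289 0 0))))) (P.cons (P.cons (P.lf 0 31179639 0) (P.cons (P.lf 0 29046720 0) (P.cons (P.lf 2981136 0 0) (P.cons (P.lf 619992 0 0) (P.lf 0 51663 0))))) (P.cons (P.cons (P.lf 6276876 0 0) (P.cons (P.lf 5847489 0 0) (P.cons (P.lf 0 600138 0) (P.cons (P.lf 0 124812 0) P.nil)))) (P.cons (P.cons (P.lf 0 47292 0) (P.cons (P.lf 0 44058 0) (P.cons (P.lf 4518 0 0) P.nil))) (P.cons (P.cons (P.lf 0 43584 0) (P.cons (P.lf 0 40605 0) P.nil)) (P.cons (P.cons (P.lf 3753 0 0) P.nil) P.nil)))))) 32868)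
 EL.nil)))
noncomputable def S430_459_216_364_24 : EL := (EL.cons 4 (TM.mk (P.cons (P.cons (P.lf 0 208022583 0) (P.cons (P.lf 0 3598176 0) (P.cons (P.lf 0 1547391 0) (P.cons (P.lf 175992 0 0) (P.cons (P.lf 375 0 0) (P.cons (P.lf 0 171 0) P.nil)))))) (P.cons (P.cons (P.lf 126965520 0 0) (P.cons (P.lf 3633021 0 0) (P.cons (P.lf 1557054 0 0) (P.cons (P.lf 0 182289 0) (P.cons (P.lf 0 858 0) P.nil))))) (P.cons (P.cons (P.lf 0 5353380 0) (P.cons (P.lf 0 1006116 0) (P.cons (P.lf 0 424611 0) (P.cons (P.lf 56166 0 0) P.nil)))) (P.cons (P.cons (P.lf 0 6560574 0) (P.cons (P.lf 0 63591 0) (P.cons (P.lf 0 32304 0) P.nil))) (P.cons (P.cons (P.lf 452565 0 0) (P.cons (P.lf 59733 0 0) P.nil)) (P.cons (P.cons (P.lf 97824 0 0) P.nil) P.nil)))))) 141900)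
 (EL.cons 8 (TM.mk (P.cons (P.cons (P.lf 0 633712794 0) (P.cons (P.lf 0 10961382 0) (P.cons (P.lf 0 4713945 0) (P.cons (P.lf 536160 0 0) (P.cons (P.lf 1146 0 0) (P.cons (P.lf 0 525 0) P.nil)))))) (P.cons (P.cons (P.lf 133012683 0 0) (P.cons (P.lf 6678030 0 0) (P.cons (P.lf 2855664 0 0) (P.cons (P.lf 0 340638 0) (P.cons (P.lf 0 2160 0) P.nil))))) (P.cons (P.cons (P.lf 48591948 0 0) (P.cons (P.lf 0 189543 0) (P.cons (P.lf 0 63426 0) (P.cons (P.lf 24867 0 0) P.nil)))) (P.cons (P.cons (P.lf 0 3864423 0) (P.cons (P.lf 0 407718 0) (P.cons (P.lf 0 182889 0) P.nil))) (P.cons (P.cons (P.lf 0 804282 0) (P.cons (P.lf 32790 0 0) P.nil)) (P.cons (P.cons (P.lf 95763 0 0) P.nil) P.nil)))))) 126876)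
 (EL.cons 11 (TM.mk (P.cons (P.cons (P.lf 25282869 0 0) (P.cons (P.lf 23525721 0 0) (P.cons (P.lf 0 2454963 0) (P.cons (P.lf 0 509865 0) (P.cons (P.lf 44814 0 0) (P.cons (P.lf 63 0 0) P.nil)))))) (P.cons (P.cons (P.lf 0 17391111 0) (P.cons (P.lf 0 16148595 0) (P.cons (P.lf 1734795 0 0) (P.cons (P.lf 359454 0 0) (P.cons (P.lf 0 34404 0) P.nil))))) (P.cons (P.cons (P.lf 2214810 0 0) (P.cons (P.lf 2021847 0 0) (P.cons (P.lf 0 268251 0) (P.cons (P.lf 0 54741 0) P.nil)))) (P.cons (P.cons (P.lf 473898 0 0) (P.cons (P.lf 458409 0 0) (P.cons (P.lf 0 22239 0) P.nil))) (P.cons (P.cons (P.lf 0 71352 0) (P.cons (P.lf 0 70179 0) P.nil)) (P.cons (P.cons (P.lf 0 2031 0) P.nil) P.nil)))))) 78261)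
 EL.nil)))
noncomputable def S430_459_216_364_25 : EL := (EL.cons 4 (TM.mk (P.cons (P.cons (P.lf 0 297636057 0) (P.cons (P.lf 0 5473260 0) (P.cons (P.lf 0 2360124 0) (P.lf 262227 0 0)))) (P.cons (P.cons (P.lf 197713593 0 0) (P.cons (P.lf 6090069 0 0) (P.cons (P.lf 2626101 0 0) (P.lf 0 291780 0)))) (P.cons (P.cons (P.lf 0 21362178 0) (P.cons (P.lf 0 2260881 0) (P.cons (P.lf 0 974913 0) (P.lf 108315 0 0)))) (P.cons (P.cons (P.lf 0 6227754 0) (P.cons (P.lf 249030 0 0) (P.cons (P.lf 107379 0 0) P.nil))) (P.cons (P.cons (P.lf 791574 0 0) (P.cons (P.lf 25542 0 0) P.nil)) (P.cons (P.cons (P.lf 19053 0 0) P.nil) P.nil)))))) 92409)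
 (EL.cons 8 (TM.mk (P.cons (P.cons (P.lf 0 906708177 0) (P.cons (P.lf 0 16673583 0) (P.cons (P.lf 0 7189833 0) (P.lf 798870 0 0)))) (P.cons (P.cons (P.lf 239215986 0 0) (P.cons (P.lf 11875656 0 0) (P.cons (P.lf 5120916 0 0) (P.lf 0 568989 0)))) (P.cons (P.cons (P.lf 47364810 0 0) (P.cons (P.lf 0 1825749 0) (P.cons (P.lf 0 787284 0) (P.lf 87474 0 0)))) (P.cons (P.cons (P.lf 0 5677449 0) (P.cons (P.lf 0 214065 0) (P.cons (P.lf 0 92304 0) P.nil))) (P.cons (P.cons (P.lf 0 295371 0) (P.cons (P.lf 44178 0 0) P.nil)) (P.cons (P.cons (P.lf 77325 0 0) P.nil) P.nil)))))) 60960)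
 (EL.cons 11 (TM.mk (P.cons (P.cons (P.lf 36174405 0 0) (P.cons (P.lf 33699804 0 0) (P.cons (P.lf 0 3458694 0) (P.cons (P.lf 0 719310 0) (P.lf 59940 0 0))))) (P.cons (P.cons (P.lf 0 26834040 0) (P.cons (P.lf 0 24998391 0) (P.cons (P.lf 2565645 0 0) (P.cons (P.lf 533583 0 0) (P.lf 0 44463 0))))) (P.cons (P.cons (P.lf 4985565 0 0) (P.cons (P.lf 4644513 0 0) (P.cons (P.lf 0 476676 0) (P.cons (P.lf 0 99135 0) P.nil)))) (P.cons (P.cons (P.lf 136608 0 0) (P.cons (P.lf 127263 0 0) (P.cons (P.lf 0 13062 0) P.nil))) (P.cons (P.cons (P.lf 0 61857 0) (P.cons (P.lf 0 57627 0) P.nil)) (P.cons (P.cons (P.lf 3870 0 0) P.nil) P.nil)))))) 38457)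
 EL.nil)))
noncomputable def S430_459_216_364_26 : EL := (EL.cons 4 (TM.mk (P.cons (P.cons (P.lf 0 182596053 0) (P.cons (P.lf 0 3158373 0) (P.cons (P.lf 0 1358253 0) (P.cons (P.lf 154482 0 0) (P.cons (P.lf 330 0 0) (P.cons (P.lf 0 150 0) P.nil)))))) (P.cons (P.cons (P.lf 108748482 0 0) (P.cons (P.lf 3142287 0 0) (P.cons (P.lf 1346664 0 0) (P.cons (P.lf 0 157725 0) (P.cons (P.lf 0 750 0) P.nil))))) (P.cons (P.cons (P.lf 0 2448144 0) (P.cons (P.lf 0 825567 0) (P.cons (P.lf 0 348021 0) (P.cons (P.lf 46425 0 0) P.nil)))) (P.cons (P.cons (P.lf 0 6227934 0) (P.cons (P.lf 0 79956 0) (P.cons (P.lf 0 38616 0) P.nil))) (P.cons (P.cons (P.lf 347169 0 0) (P.cons (P.lf 55080 0 0) P.nil)) (P.cons (P.cons (P.lf 109734 0 0) P.nil) P.nil)))))) 134967)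
 (EL.cons 8 (TM.mk (P.cons (P.cons (P.lf 0 556254288 0) (P.cons (P.lf 0 9621576 0) (P.cons (P.lf 0 4137759 0) (P.cons (P.lf 470625 0 0) (P.cons (P.lf 1005 0 0) (P.cons (P.lf 0 459 0) P.nil)))))) (P.cons (P.cons (P.lf 108535233 0 0) (P.cons (P.lf 5719605 0 0) (P.cons (P.lf 2445477 0 0) (P.cons (P.lf 0 292047 0) (P.cons (P.lf 0 1881 0) P.nil))))) (P.cons (P.cons (P.lf 46218165 0 0) (P.cons (P.lf 0 47925 0) (P.cons (P.lf 0 4947 0) (P.cons (P.lf 15852 0 0) P.nil)))) (P.cons (P.cons (P.lf 0 3242847 0) (P.cons (P.lf 0 381372 0) (P.cons (P.lf 0 170355 0) P.nil))) (P.cons (P.cons (P.lf 0 875844 0) (P.cons (P.lf 25068 0 0) P.nil)) (P.cons (P.cons (P.lf 91932 0 0) P.nil) P.nil)))))) 121662)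
 (EL.cons 11 (TM.mk (P.cons (P.cons (P.lf 22192551 0 0) (P.cons (P.lf 20650179 0 0) (P.cons (P.lf 0 2154894 0) (P.cons (P.lf 0 447546 0) (P.cons (P.lf 39336 0 0) (P.cons (P.lf 54 0 0) P.nil)))))) (P.cons (P.cons (P.lf 0 14937477 0) (P.cons (P.lf 0 13869624 0) (P.cons (P.lf 1490910 0 0) (P.cons (P.lf 308907 0 0) (P.cons (P.lf 0 29616 0) P.nil))))) (P.cons (P.cons (P.lf 1645104 0 0) (P.cons (P.lf 1496946 0 0) (P.cons (P.lf 0 205833 0) (P.cons (P.lf 0 41907 0) P.nil)))) (P.cons (P.cons (P.lf 498987 0 0) (P.cons (P.lf 479016 0 0) (P.cons (P.lf 0 28404 0) P.nil))) (P.cons (P.cons (P.lf 0 65574 0) (P.cons (P.lf 0 63996 0) P.nil)) (P.cons (P.cons (P.lf 0 3717 0) P.nil) P.nil)))))) 75648)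
 EL.nil)))
noncomputable def S430_459_216_364_27 : EL := (EL.cons 13 (TM.mk (P.lf 0 4294967296 0) 0)
 EL.nil)
noncomputable def S430_459_216_364_28 : EL := (EL.cons 13 (TM.mk (P.cons (P.cons (P.lf 0 2634909487 0) (P.cons (P.lf 2877472 0 0) (P.cons (P.lf 1240796 0 0) (P.lf 0 137864 0)))) (P.cons (P.cons (P.lf 0 181047435 0) (P.cons (P.lf 0 3329304 0) (P.cons (P.lf 0 1435632 0) (P.lf 159512 0 0)))) (P.cons (P.cons (P.lf 33521351 0 0) (P.cons (P.lf 1362880 0 0) (P.cons (P.lf 587688 0 0) (P.lf 0 65296 0)))) (P.cons (P.cons (P.lf 524097 0 0) (P.cons (P.lf 0 222840 0) (P.cons (P.lf 0 96088 0) P.nil))) (P.cons (P.cons (P.lf 0 267405 0) (P.cons (P.lf 9712 0 0) P.nil)) (P.cons (P.cons (P.lf 16683 0 0) P.nil) P.nil)))))) 21329)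
 EL.nil)
noncomputable def S430_459_216_364_29 : EL := (EL.cons 13 (TM.mk (P.cons (P.cons (P.lf 0 1616484486 0) (P.cons (P.lf 3530587 0 0) (P.cons (P.lf 1520498 0 0) (P.cons (P.lf 0 170818 0) (P.cons (P.lf 0 173 0) (P.cons (P.lf 79 0 0) P.nil)))))) (P.cons (P.cons (P.lf 0 222140738 0) (P.cons (P.lf 0 3842383 0) (P.cons (P.lf 0 1652416 0) (P.cons (P.lf 187941 0 0) (P.cons (P.lf 402 0 0) P.nil))))) (P.cons (P.cons (P.lf 33498107 0 0) (P.cons (P.lf 1346621 0 0) (P.cons (P.lf 576269 0 0) (P.cons (P.lf 0 68317 0) P.nil)))) (P.cons (P.cons (P.lf 3469131 0 0) (P.cons (P.lf 0 107252 0) (P.cons (P.lf 0 43833 0) P.nil))) (P.cons (P.cons (P.lf 0 545541 0) (P.cons (P.lf 0 26973 0) P.nil)) (P.cons (P.cons (P.lf 0 10255 0) P.nil) P.nil)))))) 75366)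
 EL.nil)
noncomputable def S430_459_216_364_30 : EL := (EL.cons 13 (TM.mk (P.cons (P.lf 0 3769994864 0) (P.cons (P.lf 0 55706392 0) (P.cons (P.lf 12473252 0 0) (P.cons (P.lf 0 642016 0) (P.cons (P.lf 10084 0 0) (P.cons (P.lf 908 0 0) P.nil)))))) 412)
 EL.nil)
noncomputable def S430_459_216_364_31 : EL := (EL.cons 13 (TM.mk (P.cons (P.cons (P.lf 0 2312845371 0) (P.cons (P.lf 2525759 0 0) (P.cons (P.lf 1089133 0 0) (P.lf 0 121012 0)))) (P.cons (P.cons (P.lf 0 193093251 0) (P.cons (P.lf 0 2885043 0) (P.cons (P.lf 0 1244061 0) (P.lf 138226 0 0)))) (P.cons (P.cons (P.lf 34728020 0 0) (P.cons (P.lf 1144757 0 0) (P.cons (P.lf 493631 0 0) (P.lf 0 54845 0)))) (P.cons (P.cons (P.lf 1026734 0 0) (P.cons (P.lf 0 167826 0) (P.cons (P.lf 0 72366 0) P.nil))) (P.cons (P.cons (P.lf 0 346150 0) (P.cons (P.lf 1172 0 0) P.nil)) (P.cons (P.cons (P.lf 15646 0 0) P.nil) P.nil)))))) 26811)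
 EL.nil)
noncomputable def S430_459_216_364_32 : EL := (EL.cons 13 (TM.mk (P.cons (P.cons (P.lf 0 1418902121 0) (P.cons (P.lf 3099044 0 0) (P.cons (P.lf 1334648 0 0) (P.cons (P.lf 0 149938 0) (P.cons (P.lf 0 151 0) (P.cons (P.lf 69 0 0) P.nil)))))) (P.cons (P.cons (P.lf 0 215954603 0) (P.cons (P.lf 0 3326937 0) (P.cons (P.lf 0 1430720 0) (P.cons (P.lf 162753 0 0) (P.cons (P.lf 350 0 0) P.nil))))) (P.cons (P.cons (P.lf 31216966 0 0) (P.cons (P.lf 1121934 0 0) (P.cons (P.lf 479983 0 0) (P.cons (P.lf 0 57032 0) P.nil)))) (P.cons (P.cons (P.lf 3883073 0 0) (P.cons (P.lf 0 64990 0) (P.cons (P.lf 0 25974 0) P.nil))) (P.cons (P.cons (P.lf 0 560558 0) (P.cons (P.lf 0 29560 0) P.nil)) (P.cons (P.cons (P.lf 0 20281 0) P.nil) P.nil)))))) 75454)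
 EL.nil)
noncomputable def S430_459_216_364_33 : EL := (EL.cons 14 (TM.mk (P.lf 8589934592 0 0) 0)
 EL.nil)
noncomputable def S430_459_216_364_34 : EL := (EL.cons 14 (TM.mk (P.cons (P.cons (P.lf 5269818974 0 0) (P.cons (P.lf 0 5754944 0) (P.cons (P.lf 0 2481592 0) (P.lf 275728 0 0)))) (P.cons (P.cons (P.lf 362094870 0 0) (P.cons (P.lf 6658608 0 0) (P.cons (P.lf 2871264 0 0) (P.lf 0 319024 0)))) (P.cons (P.cons (P.lf 0 67042702 0) (P.cons (P.lf 0 2725760 0) (P.cons (P.lf 0 1175376 0) (P.lf 130592 0 0)))) (P.cons (P.cons (P.lf 0 1048194 0) (P.cons (P.lf 445680 0 0) (P.cons (P.lf 192176 0 0) P.nil))) (P.cons (P.cons (P.lf 534810 0 0) (P.cons (P.lf 0 19424 0) P.nil)) (P.cons (P.cons (P.lf 0 33366 0) P.nil) P.nil)))))) 42658)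
 EL.nil)
noncomputable def S430_459_216_364_35 : EL := (EL.cons 14 (TM.mk (P.cons (P.cons (P.lf 3232968972 0 0) (P.cons (P.lf 0 7061174 0) (P.cons (P.lf 0 3040996 0) (P.cons (P.lf 341636 0 0) (P.cons (P.lf 346 0 0) (P.cons (P.lf 0 158 0) P.nil)))))) (P.cons (P.cons (P.lf 444281476 0 0) (P.cons (P.lf 7684766 0 0) (P.cons (P.lf 3304832 0 0) (P.cons (P.lf 0 375882 0) (P.cons (P.lf 0 804 0) P.nil))))) (P.cons (P.cons (P.lf 0 66996214 0) (P.cons (P.lf 0 2693242 0) (P.cons (P.lf 0 1152538 0) (P.cons (P.lf 136634 0 0) P.nil)))) (P.cons (P.cons (P.lf 0 6938262 0) (P.cons (P.lf 214504 0 0) (P.cons (P.lf 87666 0 0) P.nil))) (P.cons (P.cons (P.lf 1091082 0 0) (P.cons (P.lf 53946 0 0) P.nil)) (P.cons (P.cons (P.lf 20510 0 0) P.nil) P.nil)))))) 150732)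
 EL.nil)
noncomputable def S430_459_216_364_36 : EL := (EL.cons 14 (TM.mk (P.cons (P.lf 7539989728 0 0) (P.cons (P.lf 111412784 0 0) (P.cons (P.lf 0 24946504 0) (P.cons (P.lf 1284032 0 0) (P.cons (P.lf 0 20168 0) (P.cons (P.lf 0 1816 0) P.nil)))))) 824)
 EL.nil)
noncomputable def S430_459_216_364_37 : EL := (EL.cons 14 (TM.mk (P.cons (P.cons (P.lf 4625690742 0 0) (P.cons (P.lf 0 5051518 0) (P.cons (P.lf 0 2178266 0) (P.lf 242024 0 0)))) (P.cons (P.cons (P.lf 386186502 0 0) (P.cons (P.lf 5770086 0 0) (P.cons (P.lf 2488122 0 0) (P.lf 0 276452 0)))) (P.cons (P.cons (P.lf 0 69456040 0) (P.cons (P.lf 0 2289514 0) (P.cons (P.lf 0 987262 0) (P.lf 109690 0 0)))) (P.cons (P.cons (P.lf 0 2053468 0) (P.cons (P.lf 335652 0 0) (P.cons (P.lf 144732 0 0) P.nil))) (P.cons (P.cons (P.lf 692300 0 0) (P.cons (P.lf 0 2344 0) P.nil)) (P.cons (P.cons (P.lf 0 31292 0) P.nil) P.nil))))))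 53622)
 EL.nil)
noncomputable def S430_459_216_364_38 : EL := (EL.cons 14 (TM.mk (P.cons (P.cons (P.lf 2837804242 0 0) (P.cons (P.lf 0 6198088 0) (P.cons (P.lf 0 2669296 0) (P.cons (P.lf 299876 0 0) (P.cons (P.lf 302 0 0) (P.cons (P.lf 0 138 0) P.nil)))))) (P.cons (P.cons (P.lf 431909206 0 0) (P.cons (P.lf 6653874 0 0) (P.cons (P.lf 2861440 0 0) (P.cons (P.lf 0 325506 0) (P.cons (P.lf 0 700 0) P.nil))))) (P.cons (P.cons (P.lf 0 62433932 0) (P.cons (P.lf 0 2243868 0) (P.cons (P.lf 0 959966 0) (P.cons (P.lf 114064 0 0) P.nil)))) (P.cons (P.cons (P.lf 0 7766146 0) (P.cons (P.lf 129980 0 0) (P.cons (P.lf 51948 0 0) P.nil))) (P.cons (P.cons (P.lf 1121116 0 0) (P.cons (P.lf 59120 0 0) P.nil)) (P.cons (P.cons (P.lf 40562 0 0) P.nil) P.nil)))))) 150908)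
 EL.nil)
noncomputable def S430_459_216_364_39 : EL := (EL.cons 14 (TM.mk (P.cons (P.lf 6618379276 0 0) (P.cons (P.lf 195589672 0 0) (P.cons (P.lf 0 42349560 0) (P.cons (P.lf 1607050 0 0) (P.cons (P.lf 70350 0 0) (P.cons (P.lf 0 11168 0) P.nil)))))) 1860)
 EL.nil)
noncomputable def S430_459_216_364_40 : EL := (EL.cons 14 (TM.mk (P.cons (P.cons (P.lf 4060294092 0 0) (P.cons (P.lf 0 4434072 0) (P.cons (P.lf 0 1912018 0) (P.lf 212442 0 0)))) (P.cons (P.cons (P.lf 398978980 0 0) (P.cons (P.lf 4999290 0 0) (P.cons (P.lf 2155748 0 0) (P.lf 0 239522 0)))) (P.cons (P.cons (P.lf 0 69391276 0) (P.cons (P.lf 0 1920158 0) (P.cons (P.lf 0 827992 0) (P.lf 91994 0 0)))) (P.cons (P.cons (P.lf 0 3133422 0) (P.cons (P.lf 247418 0 0) (P.cons (P.lf 106684 0 0) P.nil))) (P.cons (P.cons (P.lf 829624 0 0) (P.cons (P.lf 9818 0 0) P.nil)) (P.cons (P.cons (P.lf 0 24790 0) P.nil) P.nil))))))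 61060)
 EL.nil)
noncomputable def S430_459_216_364_41 : EL := (EL.cons 14 (TM.mk (P.cons (P.cons (P.lf 2490940368 0 0) (P.cons (P.lf 0 5440498 0) (P.cons (P.lf 0 2343028 0) (P.cons (P.lf 263222 0 0) (P.cons (P.lf 266 0 0) (P.cons (P.lf 0 120 0) P.nil)))))) (P.cons (P.cons (P.lf 415923848 0 0) (P.cons (P.lf 5760182 0 0) (P.cons (P.lf 2477066 0 0) (P.cons (P.lf 0 281830 0) (P.cons (P.lf 0 610 0) P.nil))))) (P.cons (P.cons (P.lf 0 57442148 0) (P.cons (P.lf 0 1865298 0) (P.cons (P.lf 0 797766 0) (P.cons (P.lf 95030 0 0) P.nil)))) (P.cons (P.cons (P.lf 0 8456804 0) (P.cons (P.lf 64738 0 0) (P.cons (P.lf 24438 0 0) P.nil))) (P.cons (P.cons (P.lf 1122572 0 0) (P.cons (P.lf 61106 0 0) P.nil)) (P.cons (P.cons (P.lf 61752 0 0) P.nil) P.nil)))))) 148028)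
 EL.nil)
noncomputable def S430_459_216_364_42 : EL := (EL.cons 14 (TM.mk (P.cons (P.lf 5809416966 0 0) (P.cons (P.lf 257524216 0 0) (P.cons (P.lf 0 53857160 0) (P.cons (P.lf 1282638 0 0) (P.cons (P.lf 219282 0 0) (P.cons (P.lf 0 21746 0) P.nil)))))) 3122)
 EL.nil)
noncomputable def S430_459_216_364_43 : EL := (EL.cons 14 (TM.mk (P.cons (P.cons (P.lf 3564005688 0 0) (P.cons (P.lf 0 3892098 0) (P.cons (P.lf 0 1678312 0) (P.lf 186476 0 0)))) (P.cons (P.cons (P.lf 402874554 0 0) (P.cons (P.lf 4330718 0 0) (P.cons (P.lf 1867452 0 0) (P.lf 0 207490 0)))) (P.cons (P.cons (P.lf 0 67526508 0) (P.cons (P.lf 0 1607738 0) (P.cons (P.lf 0 693272 0) (P.lf 77026 0 0)))) (P.cons (P.cons (P.lf 0 4202202 0) (P.cons (P.lf 177090 0 0) (P.cons (P.lf 76358 0 0) P.nil))) (P.cons (P.cons (P.lf 939208 0 0) (P.cons (P.lf 18162 0 0) P.nil)) (P.cons (P.cons (P.lf 0 14068 0) P.nil) P.nil))))))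 66454)
 EL.nil)
noncomputable def S430_459_216_364_44 : EL := (EL.cons 14 (TM.mk (P.cons (P.cons (P.lf 2186473550 0 0) (P.cons (P.lf 0 4775508 0) (P.cons (P.lf 0 2056640 0) (P.cons (P.lf 231050 0 0) (P.cons (P.lf 234 0 0) (P.cons (P.lf 0 106 0) P.nil)))))) (P.cons (P.cons (P.lf 397393496 0 0) (P.cons (P.lf 4985554 0 0) (P.cons (P.lf 2143906 0 0) (P.cons (P.lf 0 243968 0) (P.cons (P.lf 0 532 0) P.nil))))) (P.cons (P.cons (P.lf 0 52260494 0) (P.cons (P.lf 0 1546792 0) (P.cons (P.lf 0 661322 0) (P.cons (P.lf 78994 0 0) P.nil)))) (P.cons (P.cons (P.lf 0 9003724 0) (P.cons (P.lf 15090 0 0) (P.cons (P.lf 3560 0 0) P.nil))) (P.cons (P.cons (P.lf 1098818 0 0) (P.cons (P.lf 60768 0 0) P.nil)) (P.cons (P.cons (P.lf 83236 0 0) P.nil) P.nil)))))) 143718)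
 EL.nil)
noncomputable def S430_459_216_364_45 : EL := (EL.cons 14 (TM.mk (P.cons (P.cons (P.lf 1983386606 0 0) (P.cons (P.lf 0 6497914 0) (P.cons (P.lf 0 2794872 0) (P.cons (P.lf 317440 0 0) (P.cons (P.lf 634 0 0) (P.cons (P.lf 0 292 0) P.nil)))))) (P.cons (P.cons (P.lf 408841812 0 0) (P.cons (P.lf 6625284 0 0) (P.cons (P.lf 2840960 0 0) (P.cons (P.lf 0 331158 0) (P.cons (P.lf 0 1424 0) P.nil))))) (P.cons (P.cons (P.lf 0 47606048 0) (P.cons (P.lf 0 1909830 0) (P.cons (P.lf 0 808534 0) (P.cons (P.lf 104422 0 0) P.nil)))) (P.cons (P.cons (P.lf 0 10942688 0) (P.cons (P.lf 0 61574 0) (P.cons (P.lf 0 34112 0) P.nil))) (P.cons (P.cons (P.lf 1046856 0 0) (P.cons (P.lf 92670 0 0) P.nil)) (P.cons (P.cons (P.lf 136004 0 0) P.nil) P.nil)))))) 224066)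
 EL.nil)
noncomputable def S430_459_216_364_46 : EL := (EL.cons 15 (TM.mk (P.lf 4294967296 0 0) 0)
 EL.nil)
noncomputable def S430_459_216_364_47 : EL := (EL.cons 15 (TM.mk (P.cons (P.cons (P.lf 2634909487 0 0) (P.cons (P.lf 0 2877472 0) (P.cons (P.lf 0 1240796 0) (P.lf 137864 0 0)))) (P.cons (P.cons (P.lf 181047435 0 0) (P.cons (P.lf 3329304 0 0) (P.cons (P.lf 1435632 0 0) (P.lf 0 159512 0)))) (P.cons (P.cons (P.lf 0 33521351 0) (P.cons (P.lf 0 1362880 0) (P.cons (P.lf 0 587688 0) (P.lf 65296 0 0)))) (P.cons (P.cons (P.lf 0 524097 0) (P.cons (P.lf 222840 0 0) (P.cons (P.lf 96088 0 0) P.nil))) (P.cons (P.cons (P.lf 267405 0 0) (P.cons (P.lf 0 9712 0) P.nil)) (P.cons (P.cons (P.lf 0 16683 0) P.nil) P.nil)))))) 21329)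
 EL.nil)
noncomputable def S430_459_216_364_48 : EL := (EL.cons 15 (TM.mk (P.cons (P.cons (P.lf 1616484486 0 0) (P.cons (P.lf 0 3530587 0) (P.cons (P.lf 0 1520498 0) (P.cons (P.lf 170818 0 0) (P.cons (P.lf 173 0 0) (P.cons (P.lf 0 79 0) P.nil)))))) (P.cons (P.cons (P.lf 222140738 0 0) (P.cons (P.lf 3842383 0 0) (P.cons (P.lf 1652416 0 0) (P.cons (P.lf 0 187941 0) (P.cons (P.lf 0 402 0) P.nil))))) (P.cons (P.cons (P.lf 0 33498107 0) (P.cons (P.lf 0 1346621 0) (P.cons (P.lf 0 576269 0) (P.cons (P.lf 68317 0 0) P.nil)))) (P.cons (P.cons (P.lf 0 3469131 0) (P.cons (P.lf 107252 0 0) (P.cons (P.lf 43833 0 0) P.nil))) (P.cons (P.cons (P.lf 545541 0 0) (P.cons (P.lf 26973 0 0) P.nil)) (P.cons (P.cons (P.lf 10255 0 0) P.nil) P.nil)))))) 75366)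
 EL.nil)
noncomputable def S430_459_216_364 : SL := (SL.cons S430_459_216_364_0 (SL.cons S430_459_216_364_1 (SL.cons S430_459_216_364_2 (SL.cons S430_459_216_364_3 (SL.cons S430_459_216_364_4 (SL.cons S430_459_216_364_5 (SL.cons S430_459_216_364_6 (SL.cons S430_459_216_364_7 (SL.cons S430_459_216_364_8 (SL.cons S430_459_216_364_9 (SL.cons S430_459_216_364_10 (SL.cons S430_459_216_364_11 (SL.cons S430_459_216_364_12 (SL.cons S430_459_216_364_13 (SL.cons S430_459_216_364_14 (SL.cons S430_459_216_364_15 (SL.cons S430_459_216_364_16 (SL.cons S430_459_216_364_17 (SL.cons S430_459_216_364_18 (SL.cons S430_459_216_364_19 (SL.cons S430_459_216_364_20 (SL.cons S430_459_216_364_21 (SL.cons S430_459_216_364_22 (SL.cons S430_459_216_364_23 (SL.cons S430_459_216_364_24 (SL.cons S430_459_216_364_25 (SL.cons S430_459_216_364_26 (SL.cons S430_459_216_364_27 (SL.cons S430_459_216_364_28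 (SL.cons S430_459_216_364_29 (SL.cons S430_459_216_364_30 (SL.cons S430_459_216_364_31 (SL.cons S430_459_216_364_32 (SL.cons S430_459_216_364_33 (SL.cons S430_459_216_364_34 (SL.cons S430_459_216_364_35 (SL.cons S430_459_216_364_36 (SL.cons S430_459_216_364_37 (SL.cons S430_459_216_364_38 (SL.cons S430_459_216_364_39 (SL.cons S430_459_216_364_40 (SL.cons S430_459_216_364_41 (SL.cons S430_459_216_364_42 (SL.cons S430_459_216_364_43 (SL.cons S430_459_216_364_44 (SL.cons S430_459_216_364_45 (SL.cons S430_459_216_364_46 (SL.cons S430_459_216_364_47 (SL.cons S430_459_216_364_48 SL.nil)))))))))))))))))))))))))))))))))))))))))))))))))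
noncomputable def S430_459_364_512_0 : EL := (EL.cons 0 (TM.mk (P.cons (P.lf 2638781953 0 0) (P.cons (P.lf 0 171904985 0) (P.cons (P.lf 37221292 0 0) (P.cons (P.lf 0 1412446 0) (P.cons (P.lf 0 61831 0) (P.cons (P.lf 9815 0 0) P.nil)))))) 1641)
 (EL.cons 1 (TM.mk (P.cons (P.lf 678921663 0 0) (P.cons (P.lf 0 251810791 0) (P.cons (P.lf 86512 0 0) (P.cons (P.lf 1314026 0 0) (P.cons (P.lf 0 93138 0) (P.cons (P.lf 1631 0 0) P.nil)))))) 700)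
 (EL.cons 5 (TM.mk (P.cons (P.lf 6363210824 0 0) (P.cons (P.lf 61121772 0 0) (P.cons (P.lf 0 13234238 0) (P.cons (P.lf 502208 0 0) (P.cons (P.lf 21982 0 0) (P.cons (P.lf 0 3488 0) P.nil)))))) 319)
 (EL.cons 9 (TM.mk (P.lf 6442450944 0 0) 2)
 EL.nil))))
noncomputable def S430_459_364_512_1 : EL := (EL.cons 0 (TM.mk (P.cons (P.cons (P.lf 2287798739 0 0) (P.cons (P.lf 21334549 0 0) (P.cons (P.lf 1426358 0 0) (P.lf 0 475439 0)))) (P.cons (P.cons (P.lf 0 462784669 0) (P.cons (P.lf 0 23694160 0) (P.cons (P.lf 0 1584129 0) (P.lf 528025 0 0)))) (P.cons (P.cons (P.lf 62699147 0 0) (P.cons (P.lf 8744472 0 0) (P.cons (P.lf 584627 0 0) (P.lf 0 194863 0)))) (P.cons (P.cons (P.lf 11248380 0 0) (P.cons (P.lf 0 926832 0) (P.cons (P.lf 0 61948 0) P.nil))) (P.cons (P.cons (P.lf 0 1980604 0) (P.cons (P.lf 0 115318 0) P.nil)) (P.cons (P.cons (P.lf 40432 0 0) P.nil) P.nil)))))) 219227)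
 (EL.cons 1 (TM.mk (P.cons (P.cons (P.lf 1403521747 0 0) (P.cons (P.lf 35841009 0 0) (P.cons (P.lf 2396248 0 0) (P.lf 0 798751 0)))) (P.cons (P.cons (P.lf 0 393071970 0) (P.cons (P.lf 0 24099152 0) (P.cons (P.lf 0 1611219 0) (P.lf 537076 0 0)))) (P.cons (P.cons (P.lf 0 69264685 0) (P.cons (P.lf 2522883 0 0) (P.cons (P.lf 168673 0 0) (P.lf 0 56225 0)))) (P.cons (P.cons (P.lf 10936404 0 0) (P.cons (P.lf 937449 0 0) (P.cons (P.lf 62670 0 0) P.nil))) (P.cons (P.cons (P.lf 213114 0 0) (P.cons (P.lf 0 158530 0) P.nil)) (P.cons (P.cons (P.lf 0 127044 0) P.nil) P.nil)))))) 81796)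
 (EL.cons 5 (TM.mk (P.cons (P.cons (P.lf 3649560716 0 0) (P.cons (P.lf 0 18102288 0) (P.cons (P.lf 0 1210268 0) (P.lf 403418 0 0)))) (P.cons (P.cons (P.lf 491238854 0 0) (P.cons (P.lf 20592618 0 0) (P.cons (P.lf 1376770 0 0) (P.lf 0 458920 0)))) (P.cons (P.cons (P.lf 0 87021368 0) (P.cons (P.lf 0 8090248 0) (P.cons (P.lf 0 540890 0) (P.lf 180290 0 0)))) (P.cons (P.cons (P.lf 0 3624505 0) (P.cons (P.lf 1143984 0 0) (P.cons (P.lf 76478 0 0) P.nil))) (P.cons (P.cons (P.lf 1103629 0 0) (P.cons (P.lf 5498 0 0) P.nil)) (P.cons (P.cons (P.lf 0 45812 0) P.nil) P.nil)))))) 70650)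
 (EL.cons 9 (TM.mk (P.cons (P.cons (P.lf 3937941406 0 0) (P.cons (P.lf 0 9279408 0) (P.cons (P.lf 0 620394 0) (P.lf 206796 0 0)))) (P.cons (P.cons (P.lf 288258700 0 0) (P.cons (P.lf 10736496 0 0) (P.cons (P.lf 717816 0 0) (P.lf 0 239268 0)))) (P.cons (P.cons (P.lf 0 57113236 0) (P.cons (P.lf 0 4395084 0) (P.cons (P.lf 0 293844 0) (P.lf 97944 0 0)))) (P.cons (P.cons (P.lf 330795 0 0) (P.cons (P.lf 718620 0 0) (P.cons (P.lf 48042 0 0) P.nil))) (P.cons (P.cons (P.lf 352423 0 0) (P.cons (P.lf 0 31320 0) P.nil)) (P.cons (P.cons (P.lf 0 27736 0) P.nil) P.nil)))))) 27068)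
 (EL.cons 2 (TM.mk (P.cons (P.cons (P.lf 0 90723990 0) (P.cons (P.lf 0 14046350 0) (P.cons (P.lf 6767085 0 0) (P.cons (P.lf 256083 0 0) (P.lf 0 64020 0))))) (P.cons (P.cons (P.lf 68639284 0 0) (P.cons (P.lf 10627081 0 0) (P.cons (P.lf 0 5119790 0) (P.cons (P.lf 0 193744 0) (P.lf 48434 0 0))))) (P.cons (P.cons (P.lf 0 13818003 0) (P.cons (P.lf 0 2139373 0) (P.cons (P.lf 1030680 0 0) (P.cons (P.lf 39000 0 0) P.nil)))) (P.cons (P.cons (P.lf 104113 0 0) (P.cons (P.lf 16118 0 0) (P.cons (P.lf 0 7762 0) P.nil))) (P.cons (P.cons (P.lf 95954 0 0) (P.cons (P.lf 14852 0 0) P.nil)) (P.cons (P.cons (P.lf 0 8265 0) P.nil) P.nil)))))) 25955)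
 (EL.cons 6 (TM.mk (P.cons (P.cons (P.lf 10588821 0 0) (P.cons (P.lf 1639413 0 0) (P.cons (P.lf 0 789816 0) (P.cons (P.lf 0 29889 0) (P.lf 7470 0 0))))) (P.cons (P.cons (P.lf 0 12251511 0) (P.cons (P.lf 0 1896840 0) (P.cons (P.lf 913836 0 0) (P.cons (P.lf 34581 0 0) (P.lf 0 8643 0))))) (P.cons (P.cons (P.lf 5015274 0 0) (P.cons (P.lf 776490 0 0) (P.cons (P.lf 0 374088 0) (P.cons (P.lf 0 14154 0) P.nil)))) (P.cons (P.cons (P.lf 0 820029 0) (P.cons (P.lf 0 126960 0) (P.cons (P.lf 61164 0 0) P.nil))) (P.cons (P.cons (P.lf 35742 0 0) (P.cons (P.lf 5532 0 0) P.nil)) (P.cons (P.cons (P.lf 1989 0 0) P.nil) P.nil)))))) 11556)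
 EL.nil))))))
noncomputable def S430_459_364_512_2 : EL := (EL.cons 0 (TM.mk (P.cons (P.cons (P.lf 1810913518 0 0) (P.cons (P.lf 24137399 0 0) (P.cons (P.lf 1546812 0 0) (P.cons (P.lf 0 546846 0) (P.cons (P.lf 2683 0 0) (P.cons (P.lf 197 0 0) P.nil)))))) (P.cons (P.cons (P.lf 0 441135112 0) (P.cons (P.lf 0 23437022 0) (P.cons (P.lf 0 1414550 0) (P.cons (P.lf 542663 0 0) (P.cons (P.lf 0 6103 0) P.nil))))) (P.cons (P.cons (P.lf 13484416 0 0) (P.cons (P.lf 5480325 0 0) (P.cons (P.lf 219700 0 0) (P.cons (P.lf 0 141732 0) P.nil)))) (P.cons (P.cons (P.lf 26702766 0 0) (P.cons (P.lf 1082904 0 0) (P.cons (P.lf 149155 0 0) P.nil))) (P.cons (P.cons (P.lf 0 2415928 0) (P.cons (P.lf 0 554542 0) P.nil)) (P.cons (P.cons (P.lf 0 347525 0) P.nil) P.nil)))))) 735900)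
 (EL.cons 1 (TM.mk (P.cons (P.cons (P.lf 1462140096 0 0) (P.cons (P.lf 40967888 0 0) (P.cons (P.lf 2634366 0 0) (P.cons (P.lf 0 927000 0) (P.cons (P.lf 4197 0 0) (P.cons (P.lf 310 0 0) P.nil)))))) (P.cons (P.cons (P.lf 0 297985781 0) (P.cons (P.lf 0 22182591 0) (P.cons (P.lf 0 1290415 0) (P.cons (P.lf 520127 0 0) (P.cons (P.lf 0 7730 0) P.nil))))) (P.cons (P.cons (P.lf 0 124995534 0) (P.cons (P.lf 0 1805047 0) (P.cons (P.lf 0 261599 0) (P.cons (P.lf 21379 0 0) P.nil)))) (P.cons (P.cons (P.lf 12060225 0 0) (P.cons (P.lf 2194966 0 0) (P.cons (P.lf 196281 0 0) P.nil))) (P.cons (P.cons (P.lf 2258316 0 0) (P.cons (P.lf 0 126289 0) P.nil)) (P.cons (P.cons (P.lf 0 337531 0) P.nil) P.nil)))))) 306010)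
 (EL.cons 5 (TM.mk (P.cons (P.cons (P.lf 2084123896 0 0) (P.cons (P.lf 0 21438788 0) (P.cons (P.lf 0 1394389 0) (P.cons (P.lf 482979 0 0) (P.cons (P.lf 0 1549 0) (P.cons (P.lf 0 111 0) P.nil)))))) (P.cons (P.cons (P.lf 556229782 0 0) (P.cons (P.lf 22267438 0 0) (P.cons (P.lf 1399508 0 0) (P.cons (P.lf 0 508170 0) (P.cons (P.lf 3571 0 0) P.nil))))) (P.cons (P.cons (P.lf 0 69307270 0) (P.cons (P.lf 0 6762596 0) (P.cons (P.lf 0 365338 0) (P.cons (P.lf 162299 0 0) P.nil)))) (P.cons (P.cons (P.lf 0 14828337 0) (P.cons (P.lf 0 51946 0) (P.cons (P.lf 0 49701 0) P.nil))) (P.cons (P.cons (P.lf 1954642 0 0) (P.cons (P.lf 315057 0 0) P.nil)) (P.cons (P.cons (P.lf 114227 0 0) P.nil) P.nil)))))) 242054)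
 (EL.cons 9 (TM.mk (P.cons (P.cons (P.lf 2407062568 0 0) (P.cons (P.lf 0 11344056 0) (P.cons (P.lf 0 745063 0) (P.cons (P.lf 254593 0 0) (P.cons (P.lf 0 535 0) (P.cons (P.lf 0 39 0) P.nil)))))) (P.cons (P.cons (P.lf 352395658 0 0) (P.cons (P.lf 12294954 0 0) (P.cons (P.lf 791082 0 0) (P.cons (P.lf 0 278134 0) (P.cons (P.lf 1239 0 0) P.nil))))) (P.cons (P.cons (P.lf 0 56923068 0) (P.cons (P.lf 0 4247674 0) (P.cons (P.lf 0 253434 0) (P.cons (P.lf 98743 0 0) P.nil)))) (P.cons (P.cons (P.lf 0 4706511 0) (P.cons (P.lf 293892 0 0) (P.cons (P.lf 2925 0 0) P.nil))) (P.cons (P.cons (P.lf 966754 0 0) (P.cons (P.lf 104031 0 0) P.nil)) (P.cons (P.cons (P.lf 0 8235 0) P.nil) P.nil)))))) 102292)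
 (EL.cons 2 (TM.mk (P.cons (P.cons (P.lf 0 110909891 0) (P.cons (P.lf 0 16910285 0) (P.cons (P.lf 8330681 0 0) (P.cons (P.lf 290446 0 0) (P.cons (P.lf 0 81208 0) (P.cons (P.lf 568 0 0) P.nil)))))) (P.cons (P.cons (P.lf 75792735 0 0) (P.cons (P.lf 11234497 0 0) (P.cons (P.lf 0 5764230 0) (P.cons (P.lf 0 170662 0) (P.cons (P.lf 59113 0 0) P.nil))))) (P.cons (P.cons (P.lf 0 9141575 0) (P.cons (P.lf 0 1022973 0) (P.cons (P.lf 768847 0 0) (P.cons (P.lf 0 8145 0) P.nil)))) (P.cons (P.cons (P.lf 0 2335561 0) (P.cons (P.lf 0 521848 0) (P.cons (P.lf 138684 0 0) P.nil))) (P.cons (P.cons (P.lf 368735 0 0) (P.cons (P.lf 92205 0 0) P.nil)) (P.cons (P.cons (P.lf 3504 0 0) P.nil) P.nil)))))) 128092)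
 (EL.cons 6 (TM.mk (P.cons (P.cons (P.lf 12944808 0 0) (P.cons (P.lf 1973676 0 0) (P.cons (P.lf 0 972312 0) (P.cons (P.lf 0 33894 0) (P.cons (P.lf 9474 0 0) (P.cons (P.lf 0 66 0) P.nil)))))) (P.cons (P.cons (P.lf 0 14029878 0) (P.cons (P.lf 0 2101590 0) (P.cons (P.lf 1062132 0 0) (P.cons (P.lf 33492 0 0) (P.cons (P.lf 0 10692 0) P.nil))))) (P.cons (P.cons (P.lf 4847064 0 0) (P.cons (P.lf 680712 0 0) (P.cons (P.lf 0 376998 0) (P.cons (P.lf 0 7644 0) P.nil)))) (P.cons (P.cons (P.lf 0 335370 0) (P.cons (P.lf 0 13764 0) (P.cons (P.lf 33468 0 0) P.nil))) (P.cons (P.cons (P.lf 0 118704 0) (P.cons (P.lf 0 30888 0) P.nil)) (P.cons (P.cons (P.lf 19248 0 0) P.nil) P.nil)))))) 34686)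
 EL.nil))))))
noncomputable def S430_459_364_512_3 : EL := (EL.cons 0 (TM.mk (P.cons (P.lf 5816934910 0 0) (P.cons (P.lf 171904985 0 0) (P.cons (P.lf 0 37221292 0) (P.cons (P.lf 1412446 0 0) (P.cons (P.lf 61831 0 0) (P.cons (P.lf 0 9815 0) P.nil)))))) 1641)
 (EL.cons 1 (TM.mk (P.cons (P.lf 0 678921663 0) (P.cons (P.lf 251810791 0 0) (P.cons (P.lf 0 86512 0) (P.cons (P.lf 0 1314026 0) (P.cons (P.lf 93138 0 0) (P.cons (P.lf 0 1631 0) P.nil)))))) 700)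
 (EL.cons 5 (TM.mk (P.cons (P.lf 79240120 0 0) (P.cons (P.lf 0 61121772 0) (P.cons (P.lf 13234238 0 0) (P.cons (P.lf 0 502208 0) (P.cons (P.lf 0 21982 0) (P.cons (P.lf 3488 0 0) P.nil)))))) 312)
 EL.nil)))
noncomputable def S430_459_364_512_4 : EL := (EL.cons 0 (TM.mk (P.cons (P.cons (P.lf 3555595383 0 0) (P.cons (P.lf 0 8378442 0) (P.cons (P.lf 0 560156 0) (P.lf 186716 0 0)))) (P.cons (P.cons (P.lf 365347578 0 0) (P.cons (P.lf 9446454 0 0) (P.cons (P.lf 631566 0 0) (P.lf 0 210517 0)))) (P.cons (P.cons (P.lf 0 66627769 0) (P.cons (P.lf 0 3628256 0) (P.cons (P.lf 0 242574 0) (P.lf 80854 0 0)))) (P.cons (P.cons (P.lf 0 2027343 0) (P.cons (P.lf 467506 0 0) (P.cons (P.lf 31252 0 0) P.nil))) (P.cons (P.cons (P.lf 757995 0 0) (P.cons (P.lf 18551 0 0) P.nil)) (P.cons (P.cons (P.lf 0 33305 0) P.nil) P.nil)))))) 45310)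
 (EL.cons 1 (TM.mk (P.cons (P.cons (P.lf 0 414990157 0) (P.cons (P.lf 977885 0 0) (P.cons (P.lf 65377 0 0) (P.lf 0 21791 0)))) (P.cons (P.cons (P.lf 123541657 0 0) (P.cons (P.lf 0 1494135 0) (P.cons (P.lf 0 99892 0) (P.lf 33296 0 0)))) (P.cons (P.cons (P.lf 17232785 0 0) (P.cons (P.lf 882937 0 0) (P.cons (P.lf 59030 0 0) (P.lf 0 19676 0)))) (P.cons (P.cons (P.lf 0 3074266 0) (P.cons (P.lf 0 245767 0) (P.cons (P.lf 0 16430 0) P.nil))) (P.cons (P.cons (P.lf 0 25305 0) (P.cons (P.lf 29122 0 0) P.nil)) (P.cons (P.cons (P.lf 31511 0 0) P.nil) P.nil)))))) 15630)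
 (EL.cons 5 (TM.mk (P.cons (P.cons (P.lf 48435440 0 0) (P.cons (P.lf 0 114132 0) (P.cons (P.lf 0 7630 0) (P.lf 2542 0 0)))) (P.cons (P.cons (P.lf 0 33815128 0) (P.cons (P.lf 220092 0 0) (P.cons (P.lf 14714 0 0) (P.lf 0 4904 0)))) (P.cons (P.cons (P.lf 4652128 0 0) (P.cons (P.lf 0 174980 0) (P.cons (P.lf 0 11698 0) (P.lf 3898 0 0)))) (P.cons (P.cons (P.lf 831094 0 0) (P.cons (P.lf 73314 0 0) (P.cons (P.lf 4900 0 0) P.nil))) (P.cons (P.cons (P.lf 0 152034 0) (P.cons (P.lf 0 17036 0) P.nil)) (P.cons (P.cons (P.lf 2596 0 0) P.nil) P.nil)))))) 7570)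
 EL.nil)))
noncomputable def S430_459_364_512_5 : EL := (EL.cons 0 (TM.mk (P.cons (P.cons (P.lf 2173353960 0 0) (P.cons (P.lf 0 10242627 0) (P.cons (P.lf 0 672721 0) (P.cons (P.lf 229872 0 0) (P.cons (P.lf 0 483 0) (P.cons (P.lf 0 35 0) P.nil)))))) (P.cons (P.cons (P.lf 382408602 0 0) (P.cons (P.lf 10798505 0 0) (P.cons (P.lf 694392 0 0) (P.cons (P.lf 0 244335 0) (P.cons (P.lf 1103 0 0) P.nil))))) (P.cons (P.cons (P.lf 0 55900028 0) (P.cons (P.lf 0 3441645 0) (P.cons (P.lf 0 203414 0) (P.cons (P.lf 80263 0 0) P.nil)))) (P.cons (P.cons (P.lf 0 7276670 0) (P.cons (P.lf 78493 0 0) (P.cons (P.lf 0 8854 0) P.nil))) (P.cons (P.cons (P.lf 1176539 0 0) (P.cons (P.lf 128898 0 0) P.nil)) (P.cons (P.cons (P.lf 32786 0 0) P.nil) P.nil)))))) 117909)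
 (EL.cons 1 (TM.mk (P.cons (P.cons (P.lf 0 253662300 0) (P.cons (P.lf 1195464 0 0) (P.cons (P.lf 78515 0 0) (P.cons (P.lf 0 26829 0) (P.cons (P.lf 56 0 0) (P.cons (P.lf 3 0 0) P.nil)))))) (P.cons (P.cons (P.lf 56946538 0 0) (P.cons (P.lf 0 1739068 0) (P.cons (P.lf 0 112486 0) (P.cons (P.lf 39260 0 0) (P.cons (P.lf 0 150 0) P.nil))))) (P.cons (P.cons (P.lf 19740170 0 0) (P.cons (P.lf 928344 0 0) (P.cons (P.lf 57637 0 0) (P.cons (P.lf 0 21279 0) P.nil)))) (P.cons (P.cons (P.lf 0 2224606 0) (P.cons (P.lf 0 194846 0) (P.cons (P.lf 0 10072 0) P.nil))) (P.cons (P.cons (P.lf 0 322149 0) (P.cons (P.lf 0 2090 0) P.nil)) (P.cons (P.cons (P.lf 54811 0 0) P.nil) P.nil)))))) 29849)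
 (EL.cons 5 (TM.mk (P.cons (P.cons (P.lf 29606112 0 0) (P.cons (P.lf 0 139528 0) (P.cons (P.lf 0 9162 0) (P.cons (P.lf 3130 0 0) (P.cons (P.lf 0 6 0) (P.cons (P.lf 0 0 0) P.nil)))))) (P.cons (P.cons (P.lf 0 18502284 0) (P.cons (P.lf 258848 0 0) (P.cons (P.lf 16798 0 0) (P.cons (P.lf 0 5836 0) (P.cons (P.lf 20 0 0) P.nil))))) (P.cons (P.cons (P.lf 901210 0 0) (P.cons (P.lf 0 192194 0) (P.cons (P.lf 0 12152 0) (P.cons (P.lf 4376 0 0) P.nil)))) (P.cons (P.cons (P.lf 1018422 0 0) (P.cons (P.lf 70054 0 0) (P.cons (P.lf 4122 0 0) P.nil))) (P.cons (P.cons (P.lf 0 96072 0) (P.cons (P.lf 0 11154 0) P.nil)) (P.cons (P.cons (P.lf 0 14402 0) P.nil) P.nil)))))) 9286)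
 EL.nil)))
noncomputable def S430_459_364_512_6 : EL := (EL.cons 12 (TM.mk (P.lf 8589934592 0 0) 0)
 (EL.cons 3 (TM.mk (P.cons (P.lf 3534370185 0 0) (P.cons (P.lf 52224742 0 0) (P.cons (P.lf 0 11693673 0) (P.cons (P.lf 601890 0 0) (P.cons (P.lf 0 9453 0) (P.cons (P.lf 0 851 0) P.nil)))))) 393)
 (EL.cons 7 (TM.mk (P.cons (P.lf 0 412512866 0) (P.cons (P.lf 159095655 0 0) (P.cons (P.lf 0 3768226 0) (P.cons (P.lf 0 146096 0) (P.cons (P.lf 18086 0 0) (P.cons (P.lf 0 774 0) P.nil)))))) 196)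
 EL.nil)))
noncomputable def S430_459_364_512_7 : EL := (EL.cons 12 (TM.mk (P.cons (P.cons (P.lf 5250588542 0 0) (P.cons (P.lf 0 12372544 0) (P.cons (P.lf 0 827192 0) (P.lf 275728 0 0)))) (P.cons (P.cons (P.lf 384344934 0 0) (P.cons (P.lf 14315328 0 0) (P.cons (P.lf 957088 0 0) (P.lf 0 319024 0)))) (P.cons (P.cons (P.lf 0 76150982 0) (P.cons (P.lf 0 5860112 0) (P.cons (P.lf 0 391792 0) (P.lf 130592 0 0)))) (P.cons (P.cons (P.lf 441060 0 0) (P.cons (P.lf 958160 0 0) (P.cons (P.lf 64056 0 0) P.nil))) (P.cons (P.cons (P.lf 469898 0 0) (P.cons (P.lf 0 41760 0) P.nil)) (P.cons (P.cons (P.lf 0 36982 0) P.nil) P.nil)))))) 36066)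
 (EL.cons 3 (TM.mk (P.cons (P.cons (P.lf 2570416592 0 0) (P.cons (P.lf 10181486 0 0) (P.cons (P.lf 680702 0 0) (P.lf 0 226896 0)))) (P.cons (P.cons (P.lf 0 105077830 0) (P.cons (P.lf 0 11629776 0) (P.cons (P.lf 0 777538 0) (P.lf 259172 0 0)))) (P.cons (P.cons (P.lf 12733349 0 0) (P.cons (P.lf 4614588 0 0) (P.cons (P.lf 308518 0 0) (P.lf 0 102834 0)))) (P.cons (P.cons (P.lf 3133551 0 0) (P.cons (P.lf 0 676512 0) (P.cons (P.lf 0 45224 0) P.nil))) (P.cons (P.cons (P.lf 0 542754 0) (P.cons (P.lf 4724 0 0) P.nil)) (P.cons (P.cons (P.lf 22774 0 0) P.nil) P.nil)))))) 87168)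
 (EL.cons 7 (TM.mk (P.cons (P.cons (P.lf 996972988 0 0) (P.cons (P.lf 47118986 0 0) (P.cons (P.lf 3150265 0 0) (P.lf 0 1050089 0)))) (P.cons (P.cons (P.lf 0 320105469 0) (P.cons (P.lf 0 35428556 0) (P.cons (P.lf 0 2368672 0) (P.lf 789558 0 0)))) (P.cons (P.cons (P.lf 0 25302769 0) (P.cons (P.lf 6964048 0 0) (P.cons (P.lf 465598 0 0) (P.lf 0 155200 0)))) (P.cons (P.cons (P.lf 4750009 0 0) (P.cons (P.lf 15076 0 0) (P.cons (P.lf 1007 0 0) P.nil))) (P.cons (P.cons (P.lf 0 107567 0) (P.cons (P.lf 0 57502 0) P.nil)) (P.cons (P.cons (P.lf 0 24747 0) P.nil) P.nil)))))) 47888)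
 (EL.cons 10 (TM.mk (P.cons (P.cons (P.lf 0 110247813 0) (P.cons (P.lf 0 17069130 0) (P.cons (P.lf 8223366 0 0) (P.cons (P.lf 311196 0 0) (P.lf 0 77799 0))))) (P.cons (P.cons (P.lf 85039521 0 0) (P.cons (P.lf 13166253 0 0) (P.cons (P.lf 0 6343083 0) (P.cons (P.lf 0 240039 0) (P.lf 60009 0 0))))) (P.cons (P.cons (P.lf 0 18412968 0) (P.cons (P.lf 0 2850789 0) (P.cons (P.lf 1373418 0 0) (P.cons (P.lf 51972 0 0) P.nil)))) (P.cons (P.cons (P.lf 698727 0 0) (P.cons (P.lf 108180 0 0) (P.cons (P.lf 0 52116 0) P.nil))) (P.cons (P.cons (P.lf 30582 0 0) (P.cons (P.lf 4734 0 0) P.nil)) (P.cons (P.cons (P.lf 0 4851 0) P.nil) P.nil)))))) 19608)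
 EL.nil))))
noncomputable def S430_459_364_512_8 : EL := (EL.cons 12 (TM.mk (P.cons (P.cons (P.lf 3209416758 0 0) (P.cons (P.lf 0 15125408 0) (P.cons (P.lf 0 993418 0) (P.cons (P.lf 339458 0 0) (P.cons (P.lf 0 714 0) (P.cons (P.lf 0 52 0) P.nil)))))) (P.cons (P.cons (P.lf 469860878 0 0) (P.cons (P.lf 16393272 0 0) (P.cons (P.lf 1054776 0 0) (P.cons (P.lf 0 370846 0) (P.cons (P.lf 1652 0 0) P.nil))))) (P.cons (P.cons (P.lf 0 75897424 0) (P.cons (P.lf 0 5663566 0) (P.cons (P.lf 0 337912 0) (P.cons (P.lf 131658 0 0) P.nil)))) (P.cons (P.cons (P.lf 0 6275348 0) (P.cons (P.lf 391856 0 0) (P.cons (P.lf 3900 0 0) P.nil))) (P.cons (P.cons (P.lf 1289006 0 0) (P.cons (P.lf 138708 0 0) P.nil)) (P.cons (P.cons (P.lf 0 10980 0) P.nil) P.nil)))))) 136360)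
 (EL.cons 3 (TM.mk (P.cons (P.cons (P.lf 1821798842 0 0) (P.cons (P.lf 11265648 0 0) (P.cons (P.lf 716518 0 0) (P.cons (P.lf 0 255957 0) (P.cons (P.lf 1471 0 0) (P.cons (P.lf 106 0 0) P.nil)))))) (P.cons (P.cons (P.lf 0 111276855 0) (P.cons (P.lf 0 11089379 0) (P.cons (P.lf 0 657112 0) (P.cons (P.lf 258396 0 0) (P.cons (P.lf 0 3381 0) P.nil))))) (P.cons (P.cons (P.lf 0 6670076 0) (P.cons (P.lf 2736105 0 0) (P.cons (P.lf 100493 0 0) (P.cons (P.lf 0 71991 0) P.nil)))) (P.cons (P.cons (P.lf 10555462 0 0) (P.cons (P.lf 439949 0 0) (P.cons (P.lf 73754 0 0) P.nil))) (P.cons (P.cons (P.lf 0 963364 0) (P.cons (P.lf 0 258791 0) P.nil)) (P.cons (P.cons (P.lf 0 114316 0) P.nil) P.nil)))))) 340343)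
 (EL.cons 7 (TM.mk (P.cons (P.cons (P.lf 1372922625 0 0) (P.cons (P.lf 54004504 0 0) (P.cons (P.lf 3475734 0 0) (P.cons (P.lf 0 1221575 0) (P.cons (P.lf 5404 0 0) (P.cons (P.lf 398 0 0) P.nil)))))) (P.cons (P.cons (P.lf 0 338989983 0) (P.cons (P.lf 0 33782301 0) (P.cons (P.lf 0 2001808 0) (P.cons (P.lf 787206 0 0) (P.cons (P.lf 0 10292 0) P.nil))))) (P.cons (P.cons (P.lf 0 88193839 0) (P.cons (P.lf 1571134 0 0) (P.cons (P.lf 0 94668 0) (P.cons (P.lf 0 61718 0) P.nil)))) (P.cons (P.cons (P.lf 10685594 0 0) (P.cons (P.lf 1966418 0 0) (P.cons (P.lf 211641 0 0) P.nil))) (P.cons (P.cons (P.lf 964461 0 0) (P.cons (P.lf 0 224114 0) P.nil)) (P.cons (P.cons (P.lf 0 199443 0) P.nil) P.nil)))))) 256120)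
 (EL.cons 10 (TM.mk (P.cons (P.cons (P.lf 0 134777718 0) (P.cons (P.lf 0 20549382 0) (P.cons (P.lf 10123452 0 0) (P.cons (P.lf 352956 0 0) (P.cons (P.lf 0 98682 0) (P.cons (P.lf 690 0 0) P.nil)))))) (P.cons (P.cons (P.lf 94094856 0 0) (P.cons (P.lf 13955808 0 0) (P.cons (P.lf 0 7154280 0) (P.cons (P.lf 0 212604 0) (P.cons (P.lf 73290 0 0) P.nil))))) (P.cons (P.cons (P.lf 0 12945132 0) (P.cons (P.lf 0 1517322 0) (P.cons (P.lf 1073508 0 0) (P.cons (P.lf 0 5586 0) P.nil)))) (P.cons (P.cons (P.lf 0 2312628 0) (P.cons (P.lf 0 562062 0) (P.cons (P.lf 127272 0 0) P.nil))) (P.cons (P.cons (P.lf 423048 0 0) (P.cons (P.lf 112902 0 0) P.nil)) (P.cons (P.cons (P.lf 0 7218 0) P.nil) P.nil)))))) 144354)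
 EL.nil))))
noncomputable def S430_459_364_512_9 : EL := (EL.cons 3 (TM.mk (P.cons (P.lf 3534370185 0 0) (P.cons (P.lf 52224742 0 0) (P.cons (P.lf 0 11693673 0) (P.cons (P.lf 601890 0 0) (P.cons (P.lf 0 9453 0) (P.cons (P.lf 0 851 0) P.nil)))))) 393)
 (EL.cons 7 (TM.mk (P.cons (P.lf 0 412512866 0) (P.cons (P.lf 159095655 0 0) (P.cons (P.lf 0 3768226 0) (P.cons (P.lf 0 146096 0) (P.cons (P.lf 18086 0 0) (P.cons (P.lf 0 774 0) P.nil)))))) 196)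
 EL.nil))
noncomputable def S430_459_364_512_10 : EL := (EL.cons 3 (TM.mk (P.cons (P.cons (P.lf 2160380081 0 0) (P.cons (P.lf 0 5090743 0) (P.cons (P.lf 0 340351 0) (P.lf 113448 0 0)))) (P.cons (P.cons (P.lf 190062902 0 0) (P.cons (P.lf 5814888 0 0) (P.cons (P.lf 388769 0 0) (P.lf 0 129586 0)))) (P.cons (P.cons (P.lf 0 36143710 0) (P.cons (P.lf 0 2307294 0) (P.cons (P.lf 0 154259 0) (P.lf 51417 0 0)))) (P.cons (P.cons (P.lf 0 436815 0) (P.cons (P.lf 338256 0 0) (P.cons (P.lf 22612 0 0) P.nil))) (P.cons (P.cons (P.lf 320841 0 0) (P.cons (P.lf 0 2362 0) P.nil)) (P.cons (P.cons (P.lf 0 19238 0) P.nil) P.nil)))))) 21209)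
 (EL.cons 7 (TM.mk (P.cons (P.cons (P.lf 0 252148058 0) (P.cons (P.lf 594164 0 0) (P.cons (P.lf 39724 0 0) (P.lf 0 13241 0)))) (P.cons (P.cons (P.lf 78789726 0 0) (P.cons (P.lf 0 916616 0) (P.cons (P.lf 0 61282 0) (P.lf 20427 0 0)))) (P.cons (P.cons (P.lf 8472179 0 0) (P.cons (P.lf 551983 0 0) (P.cons (P.lf 36904 0 0) (P.lf 0 12301 0)))) (P.cons (P.cons (P.lf 0 1689491 0) (P.cons (P.lf 0 160619 0) (P.cons (P.lf 0 10738 0) P.nil))) (P.cons (P.cons (P.lf 23527 0 0) (P.cons (P.lf 22052 0 0) P.nil)) (P.cons (P.cons (P.lf 11916 0 0) P.nil) P.nil)))))) 9115)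
 EL.nil))
noncomputable def S430_459_364_512_11 : EL := (EL.cons 3 (TM.mk (P.cons (P.cons (P.lf 1320530066 0 0) (P.cons (P.lf 0 6223422 0) (P.cons (P.lf 0 408746 0) (P.cons (P.lf 139671 0 0) (P.cons (P.lf 0 293 0) (P.cons (P.lf 0 20 0) P.nil)))))) (P.cons (P.cons (P.lf 212839017 0 0) (P.cons (P.lf 6653131 0 0) (P.cons (P.lf 427952 0 0) (P.cons (P.lf 0 150522 0) (P.cons (P.lf 675 0 0) P.nil))))) (P.cons (P.cons (P.lf 0 32740772 0) (P.cons (P.lf 0 2210043 0) (P.cons (P.lf 0 131269 0) (P.cons (P.lf 51453 0 0) P.nil)))) (P.cons (P.cons (P.lf 0 3458210 0) (P.cons (P.lf 103421 0 0) (P.cons (P.lf 0 1954 0) P.nil))) (P.cons (P.cons (P.lf 624926 0 0) (P.cons (P.lf 68329 0 0) P.nil)) (P.cons (P.cons (P.lf 5708 0 0) P.nil) P.nil)))))) 64033)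
 (EL.cons 7 (TM.mk (P.cons (P.cons (P.lf 0 154125237 0) (P.cons (P.lf 726364 0 0) (P.cons (P.lf 47706 0 0) (P.cons (P.lf 0 16301 0) (P.cons (P.lf 34 0 0) (P.cons (P.lf 2 0 0) P.nil)))))) (P.cons (P.cons (P.lf 36878115 0 0) (P.cons (P.lf 0 1067391 0) (P.cons (P.lf 0 69052 0) (P.cons (P.lf 24096 0 0) (P.cons (P.lf 0 92 0) P.nil))))) (P.cons (P.cons (P.lf 10939277 0 0) (P.cons (P.lf 582238 0 0) (P.cons (P.lf 36198 0 0) (P.cons (P.lf 0 13340 0) P.nil)))) (P.cons (P.cons (P.lf 0 1365052 0) (P.cons (P.lf 0 130648 0) (P.cons (P.lf 0 6891 0) P.nil))) (P.cons (P.cons (P.lf 0 146067 0) (P.cons (P.lf 2770 0 0) P.nil)) (P.cons (P.cons (P.lf 29145 0 0) P.nil) P.nil)))))) 16290)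
 EL.nil))
noncomputable def S430_459_364_512_12 : EL := (EL.cons 4 (TM.mk (P.cons (P.lf 0 3534370185 0) (P.cons (P.lf 0 52224742 0) (P.cons (P.lf 11693673 0 0) (P.cons (P.lf 0 601890 0) (P.cons (P.lf 9453 0 0) (P.cons (P.lf 851 0 0) P.nil)))))) 393)
 (EL.cons 8 (TM.mk (P.cons (P.lf 412512866 0 0) (P.cons (P.lf 0 159095655 0) (P.cons (P.lf 3768226 0 0) (P.cons (P.lf 146096 0 0) (P.cons (P.lf 0 18086 0) (P.cons (P.lf 774 0 0) P.nil)))))) 196)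
 EL.nil))
noncomputable def S430_459_364_512_13 : EL := (EL.cons 4 (TM.mk (P.cons (P.cons (P.lf 0 2160380081 0) (P.cons (P.lf 5090743 0 0) (P.cons (P.lf 340351 0 0) (P.lf 0 113448 0)))) (P.cons (P.cons (P.lf 0 190062902 0) (P.cons (P.lf 0 5814888 0) (P.cons (P.lf 0 388769 0) (P.lf 129586 0 0)))) (P.cons (P.cons (P.lf 36143710 0 0) (P.cons (P.lf 2307294 0 0) (P.cons (P.lf 154259 0 0) (P.lf 0 51417 0)))) (P.cons (P.cons (P.lf 436815 0 0) (P.cons (P.lf 0 338256 0) (P.cons (P.lf 0 22612 0) P.nil))) (P.cons (P.cons (P.lf 0 320841 0) (P.cons (P.lf 2362 0 0) P.nil)) (P.cons (P.cons (P.lf 19238 0 0) P.nil) P.nil)))))) 21209)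
 (EL.cons 8 (TM.mk (P.cons (P.cons (P.lf 252148058 0 0) (P.cons (P.lf 0 594164 0) (P.cons (P.lf 0 39724 0) (P.lf 13241 0 0)))) (P.cons (P.cons (P.lf 0 78789726 0) (P.cons (P.lf 916616 0 0) (P.cons (P.lf 61282 0 0) (P.lf 0 20427 0)))) (P.cons (P.cons (P.lf 0 8472179 0) (P.cons (P.lf 0 551983 0) (P.cons (P.lf 0 36904 0) (P.lf 12301 0 0)))) (P.cons (P.cons (P.lf 1689491 0 0) (P.cons (P.lf 160619 0 0) (P.cons (P.lf 10738 0 0) P.nil))) (P.cons (P.cons (P.lf 0 23527 0) (P.cons (P.lf 0 22052 0) P.nil)) (P.cons (P.cons (P.lf 0 11916 0) P.nil) P.nil)))))) 9115)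
 EL.nil))
noncomputable def S430_459_364_512_14 : EL := (EL.cons 4 (TM.mk (P.cons (P.cons (P.lf 0 1320530066 0) (P.cons (P.lf 6223422 0 0) (P.cons (P.lf 408746 0 0) (P.cons (P.lf 0 139671 0) (P.cons (P.lf 293 0 0) (P.cons (P.lf 20 0 0) P.nil)))))) (P.cons (P.cons (P.lf 0 212839017 0) (P.cons (P.lf 0 6653131 0) (P.cons (P.lf 0 427952 0) (P.cons (P.lf 150522 0 0) (P.cons (P.lf 0 675 0) P.nil))))) (P.cons (P.cons (P.lf 32740772 0 0) (P.cons (P.lf 2210043 0 0) (P.cons (P.lf 131269 0 0) (P.cons (P.lf 0 51453 0) P.nil)))) (P.cons (P.cons (P.lf 3458210 0 0) (P.cons (P.lf 0 103421 0) (P.cons (P.lf 1954 0 0) P.nil))) (P.cons (P.cons (P.lf 0 624926 0) (P.cons (P.lf 0 68329 0) P.nil)) (P.cons (P.cons (P.lf 0 5708 0) P.nil) P.nil)))))) 64033)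
 (EL.cons 8 (TM.mk (P.cons (P.cons (P.lf 154125237 0 0) (P.cons (P.lf 0 726364 0) (P.cons (P.lf 0 47706 0) (P.cons (P.lf 16301 0 0) (P.cons (P.lf 0 34 0) (P.cons (P.lf 0 2 0) P.nil)))))) (P.cons (P.cons (P.lf 0 36878115 0) (P.cons (P.lf 1067391 0 0) (P.cons (P.lf 69052 0 0) (P.cons (P.lf 0 24096 0) (P.cons (P.lf 92 0 0) P.nil))))) (P.cons (P.cons (P.lf 0 10939277 0) (P.cons (P.lf 0 582238 0) (P.cons (P.lf 0 36198 0) (P.cons (P.lf 13340 0 0) P.nil)))) (P.cons (P.cons (P.lf 1365052 0 0) (P.cons (P.lf 130648 0 0) (P.cons (P.lf 6891 0 0) P.nil))) (P.cons (P.cons (P.lf 146067 0 0) (P.cons (P.lf 0 2770 0) P.nil)) (P.cons (P.cons (P.lf 0 29145 0) P.nil) P.nil)))))) 16290)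
 EL.nil))
noncomputable def S430_459_364_512_15 : EL := (EL.cons 4 (TM.mk (P.cons (P.lf 0 3102365285 0) (P.cons (P.lf 0 91682658 0) (P.cons (P.lf 19851356 0 0) (P.cons (P.lf 0 753304 0) (P.cons (P.lf 0 32976 0) (P.cons (P.lf 5235 0 0) P.nil)))))) 878)
 (EL.cons 8 (TM.mk (P.cons (P.lf 362091554 0 0) (P.cons (P.lf 0 134299089 0) (P.cons (P.lf 46140 0 0) (P.cons (P.lf 700814 0 0) (P.cons (P.lf 0 49674 0) (P.cons (P.lf 870 0 0) P.nil)))))) 370)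
 EL.nil))
noncomputable def S430_459_364_512_16 : EL := (EL.cons 4 (TM.mk (P.cons (P.cons (P.lf 0 1896317537 0) (P.cons (P.lf 4468502 0 0) (P.cons (P.lf 298750 0 0) (P.lf 0 99582 0)))) (P.cons (P.cons (P.lf 0 194852041 0) (P.cons (P.lf 0 5038109 0) (P.cons (P.lf 0 336835 0) (P.lf 112275 0 0)))) (P.cons (P.cons (P.lf 35534810 0 0) (P.cons (P.lf 1935070 0 0) (P.cons (P.lf 129373 0 0) (P.lf 0 43122 0)))) (P.cons (P.cons (P.lf 1081249 0 0) (P.cons (P.lf 0 249336 0) (P.cons (P.lf 0 16667 0) P.nil))) (P.cons (P.cons (P.lf 0 404264 0) (P.cons (P.lf 0 9894 0) P.nil)) (P.cons (P.cons (P.lf 17762 0 0) P.nil) P.nil)))))) 24174)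
 (EL.cons 8 (TM.mk (P.cons (P.cons (P.lf 221328084 0 0) (P.cons (P.lf 0 521539 0) (P.cons (P.lf 0 34868 0) (P.lf 11622 0 0)))) (P.cons (P.cons (P.lf 0 65888884 0) (P.cons (P.lf 796872 0 0) (P.cons (P.lf 53276 0 0) (P.lf 0 17758 0)))) (P.cons (P.cons (P.lf 0 9190819 0) (P.cons (P.lf 0 470900 0) (P.cons (P.lf 0 31483 0) (P.lf 10494 0 0)))) (P.cons (P.cons (P.lf 1639609 0 0) (P.cons (P.lf 131076 0 0) (P.cons (P.lf 8763 0 0) P.nil))) (P.cons (P.cons (P.lf 13496 0 0) (P.cons (P.lf 0 15532 0) P.nil)) (P.cons (P.cons (P.lf 0 16806 0) P.nil) P.nil)))))) 8326)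
 EL.nil))
noncomputable def S430_459_364_512_17 : EL := (EL.cons 4 (TM.mk (P.cons (P.cons (P.lf 0 1159122112 0) (P.cons (P.lf 5462734 0 0) (P.cons (P.lf 358785 0 0) (P.cons (P.lf 0 122598 0) (P.cons (P.lf 257 0 0) (P.cons (P.lf 18 0 0) P.nil)))))) (P.cons (P.cons (P.lf 0 203951254 0) (P.cons (P.lf 0 5759203 0) (P.cons (P.lf 0 370342 0) (P.cons (P.lf 130312 0 0) (P.cons (P.lf 0 588 0) P.nil))))) (P.cons (P.cons (P.lf 29813348 0 0) (P.cons (P.lf 1835544 0 0) (P.cons (P.lf 108487 0 0) (P.cons (P.lf 0 42807 0) P.nil)))) (P.cons (P.cons (P.lf 3880890 0 0) (P.cons (P.lf 0 41863 0) (P.cons (P.lf 4722 0 0) P.nil))) (P.cons (P.cons (P.lf 0 627487 0) (P.cons (P.lf 0 68745 0) P.nil)) (P.cons (P.cons (P.lf 0 17486 0) P.nil) P.nil)))))) 62895)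
 (EL.cons 8 (TM.mk (P.cons (P.cons (P.lf 135286560 0 0) (P.cons (P.lf 0 637581 0) (P.cons (P.lf 0 41875 0) (P.cons (P.lf 14309 0 0) (P.cons (P.lf 0 30 0) (P.cons (P.lf 0 2 0) P.nil)))))) (P.cons (P.cons (P.lf 0 30371487 0) (P.cons (P.lf 927503 0 0) (P.cons (P.lf 59993 0 0) (P.cons (P.lf 0 20939 0) (P.cons (P.lf 80 0 0) P.nil))))) (P.cons (P.cons (P.lf 0 10528091 0) (P.cons (P.lf 0 495117 0) (P.cons (P.lf 0 30740 0) (P.cons (P.lf 11349 0 0) P.nil)))) (P.cons (P.cons (P.lf 1186457 0 0) (P.cons (P.lf 103918 0 0) (P.cons (P.lf 5372 0 0) P.nil))) (P.cons (P.cons (P.lf 171813 0 0) (P.cons (P.lf 1115 0 0) P.nil)) (P.cons (P.cons (P.lf 0 29233 0) P.nil) P.nil)))))) 15908)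
 EL.nil))
noncomputable def S430_459_364_512_18 : EL := (EL.cons 4 (TM.mk (P.cons (P.lf 0 2723164202 0) (P.cons (P.lf 0 120714476 0) (P.cons (P.lf 25245543 0 0) (P.cons (P.lf 0 601236 0) (P.cons (P.lf 0 102788 0) (P.cons (P.lf 10193 0 0) P.nil)))))) 1470)
 (EL.cons 8 (TM.mk (P.cons (P.lf 317833223 0 0) (P.cons (P.lf 0 113187372 0) (P.cons (P.lf 0 2752949 0) (P.cons (P.lf 1059903 0 0) (P.cons (P.lf 0 55572 0) (P.cons (P.lf 0 1670 0) P.nil)))))) 673)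
 EL.nil))
noncomputable def S430_459_364_512_19 : EL := (EL.cons 4 (TM.mk (P.cons (P.cons (P.lf 0 1664531272 0) (P.cons (P.lf 3922319 0 0) (P.cons (P.lf 262234 0 0) (P.lf 0 87410 0)))) (P.cons (P.cons (P.lf 0 195630873 0) (P.cons (P.lf 0 4364345 0) (P.cons (P.lf 0 291789 0) (P.lf 97260 0 0)))) (P.cons (P.cons (P.lf 34171341 0 0) (P.cons (P.lf 1620225 0 0) (P.cons (P.lf 108323 0 0) (P.lf 0 36105 0)))) (P.cons (P.cons (P.lf 1692398 0 0) (P.cons (P.lf 0 178463 0) (P.cons (P.lf 0 11929 0) P.nil))) (P.cons (P.cons (P.lf 0 468700 0) (P.cons (P.lf 0 18302 0) P.nil)) (P.cons (P.cons (P.lf 13378 0 0) P.nil) P.nil)))))) 26494)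
 (EL.cons 8 (TM.mk (P.cons (P.cons (P.lf 194275225 0 0) (P.cons (P.lf 0 457792 0) (P.cons (P.lf 0 30606 0) (P.lf 10202 0 0)))) (P.cons (P.cons (P.lf 0 54964648 0) (P.cons (P.lf 692706 0 0) (P.cons (P.lf 46312 0 0) (P.lf 0 15437 0)))) (P.cons (P.cons (P.lf 0 9564788 0) (P.cons (P.lf 0 401492 0) (P.cons (P.lf 0 26842 0) (P.lf 8947 0 0)))) (P.cons (P.cons (P.lf 1544429 0 0) (P.cons (P.lf 106555 0 0) (P.cons (P.lf 7123 0 0) P.nil))) (P.cons (P.cons (P.lf 49435 0 0) (P.cons (P.lf 0 10446 0) P.nil)) (P.cons (P.cons (P.lf 0 20604 0) P.nil) P.nil)))))) 8362)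
 EL.nil))
noncomputable def S430_459_364_512_20 : EL := (EL.cons 4 (TM.mk (P.cons (P.cons (P.lf 0 1017443000 0) (P.cons (P.lf 4795026 0 0) (P.cons (P.lf 314930 0 0) (P.cons (P.lf 0 107613 0) (P.cons (P.lf 225 0 0) (P.cons (P.lf 15 0 0) P.nil)))))) (P.cons (P.cons (P.lf 0 194056353 0) (P.cons (P.lf 0 4984405 0) (P.cons (P.lf 0 320421 0) (P.cons (P.lf 112794 0 0) (P.cons (P.lf 0 512 0) P.nil))))) (P.cons (P.cons (P.lf 26890263 0 0) (P.cons (P.lf 1520624 0 0) (P.cons (P.lf 89381 0 0) (P.cons (P.lf 0 35528 0) P.nil)))) (P.cons (P.cons (P.lf 4212255 0 0) (P.cons (P.lf 4602 0 0) (P.cons (P.lf 6681 0 0) P.nil))) (P.cons (P.cons (P.lf 0 614801 0) (P.cons (P.lf 0 67090 0) P.nil)) (P.cons (P.cons (P.lf 0 29578 0) P.nil) P.nil)))))) 61282)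
 (EL.cons 8 (TM.mk (P.cons (P.cons (P.lf 118750528 0 0) (P.cons (P.lf 0 559649 0) (P.cons (P.lf 0 36757 0) (P.cons (P.lf 12560 0 0) (P.cons (P.lf 0 26 0) (P.cons (P.lf 0 1 0) P.nil)))))) (P.cons (P.cons (P.lf 0 24904503 0) (P.cons (P.lf 805865 0 0) (P.cons (P.lf 52117 0 0) (P.cons (P.lf 0 18194 0) (P.cons (P.lf 70 0 0) P.nil))))) (P.cons (P.cons (P.lf 0 10028062 0) (P.cons (P.lf 0 420718 0) (P.cons (P.lf 0 26083 0) (P.cons (P.lf 9649 0 0) P.nil)))) (P.cons (P.cons (P.lf 1013312 0 0) (P.cons (P.lf 82006 0 0) (P.cons (P.lf 4136 0 0) P.nil))) (P.cons (P.cons (P.lf 191919 0 0) (P.cons (P.lf 3904 0 0) P.nil)) (P.cons (P.cons (P.lf 0 28408 0) P.nil) P.nil)))))) 15868)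
 EL.nil))
noncomputable def S430_459_364_512_21 : EL := (EL.cons 4 (TM.mk (P.cons (P.cons (P.lf 0 410036511 0) (P.cons (P.lf 0 15272229 0) (P.cons (P.lf 0 1021053 0) (P.lf 340344 0 0)))) (P.cons (P.cons (P.lf 295140732 0 0) (P.cons (P.lf 17444664 0 0) (P.cons (P.lf 1166307 0 0) (P.lf 0 388758 0)))) (P.cons (P.cons (P.lf 0 48877059 0) (P.cons (P.lf 0 6921882 0) (P.cons (P.lf 0 462777 0) (P.lf 154251 0 0)))) (P.cons (P.cons (P.lf 0 3570366 0) (P.cons (P.lf 1014768 0 0) (P.cons (P.lf 67836 0 0) P.nil))) (P.cons (P.cons (P.lf 863595 0 0) (P.cons (P.lf 0 7086 0) P.nil)) (P.cons (P.cons (P.lf 0 42012 0) P.nil) P.nil)))))) 65940)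
 (EL.cons 8 (TM.mk (P.cons (P.cons (P.lf 0 1249121046 0) (P.cons (P.lf 0 46524822 0) (P.cons (P.lf 0 3110541 0) (P.lf 1036848 0 0)))) (P.cons (P.cons (P.lf 398895195 0 0) (P.cons (P.lf 34511940 0 0) (P.cons (P.lf 2307390 0 0) (P.lf 0 769131 0)))) (P.cons (P.cons (P.lf 33774948 0 0) (P.cons (P.lf 0 6412065 0) (P.cons (P.lf 0 428694 0) (P.lf 142899 0 0)))) (P.cons (P.cons (P.lf 0 6439500 0) (P.cons (P.lf 0 175695 0) (P.cons (P.lf 0 11745 0) P.nil))) (P.cons (P.cons (P.lf 131094 0 0) (P.cons (P.lf 79554 0 0) P.nil)) (P.cons (P.cons (P.lf 36663 0 0) P.nil) P.nil)))))) 38754)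
 (EL.cons 11 (TM.mk (P.cons (P.cons (P.lf 110247813 0 0) (P.cons (P.lf 17069130 0 0) (P.cons (P.lf 0 8223366 0) (P.cons (P.lf 0 311196 0) (P.lf 77799 0 0))))) (P.cons (P.cons (P.lf 0 85039521 0) (P.cons (P.lf 0 13166253 0) (P.cons (P.lf 6343083 0 0) (P.cons (P.lf 240039 0 0) (P.lf 0 60009 0))))) (P.cons (P.cons (P.lf 18412968 0 0) (P.cons (P.lf 2850789 0 0) (P.cons (P.lf 0 1373418 0) (P.cons (P.lf 0 51972 0) P.nil)))) (P.cons (P.cons (P.lf 0 698727 0) (P.cons (P.lf 0 108180 0) (P.cons (P.lf 52116 0 0) P.nil))) (P.cons (P.cons (P.lf 0 30582 0) (P.cons (P.lf 0 4734 0) P.nil)) (P.cons (P.cons (P.lf 4851 0 0) P.nil) P.nil)))))) 19608)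
 EL.nil)))
noncomputable def S430_459_364_512_22 : EL := (EL.cons 4 (TM.mk (P.cons (P.cons (P.lf 0 250634388 0) (P.cons (P.lf 0 8744535 0) (P.cons (P.lf 0 562632 0) (P.cons (P.lf 197814 0 0) (P.cons (P.lf 0 882 0) (P.cons (P.lf 0 63 0) P.nil)))))) (P.cons (P.cons (P.lf 162057936 0 0) (P.cons (P.lf 8871255 0 0) (P.cons (P.lf 542532 0 0) (P.cons (P.lf 0 204459 0) (P.cons (P.lf 2028 0 0) P.nil))))) (P.cons (P.cons (P.lf 0 13035348 0) (P.cons (P.lf 0 2473074 0) (P.cons (P.lf 0 115881 0) (P.cons (P.lf 61722 0 0) P.nil)))) (P.cons (P.cons (P.lf 0 7006836 0) (P.cons (P.lf 0 168264 0) (P.cons (P.lf 0 37854 0) P.nil))) (P.cons (P.cons (P.lf 794145 0 0) (P.cons (P.lf 163560 0 0) P.nil)) (P.cons (P.cons (P.lf 60012 0 0) P.nil) P.nil)))))) 138144)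
 (EL.cons 8 (TM.mk (P.cons (P.cons (P.lf 0 763523931 0) (P.cons (P.lf 0 26639070 0) (P.cons (P.lf 0 1714014 0) (P.cons (P.lf 602637 0 0) (P.cons (P.lf 0 2685 0) (P.cons (P.lf 0 198 0) P.nil)))))) (P.cons (P.cons (P.lf 187934049 0 0) (P.cons (P.lf 16357455 0 0) (P.cons (P.lf 966378 0 0) (P.cons (P.lf 0 381555 0) (P.cons (P.lf 5100 0 0) P.nil))))) (P.cons (P.cons (P.lf 49566558 0 0) (P.cons (P.lf 0 494448 0) (P.cons (P.lf 65433 0 0) (P.cons (P.lf 24189 0 0) P.nil)))) (P.cons (P.cons (P.lf 0 6025323 0) (P.cons (P.lf 0 1048533 0) (P.cons (P.lf 0 109266 0) P.nil))) (P.cons (P.cons (P.lf 0 555264 0) (P.cons (P.lf 113442 0 0) P.nil)) (P.cons (P.cons (P.lf 114294 0 0) P.nil) P.nil)))))) 119904)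
 (EL.cons 11 (TM.mk (P.cons (P.cons (P.lf 67388859 0 0) (P.cons (P.lf 10274691 0 0) (P.cons (P.lf 0 5061726 0) (P.cons (P.lf 0 176478 0) (P.cons (P.lf 49341 0 0) (P.cons (P.lf 0 345 0) P.nil)))))) (P.cons (P.cons (P.lf 0 47047428 0) (P.cons (P.lf 0 6977904 0) (P.cons (P.lf 3577140 0 0) (P.cons (P.lf 106302 0 0) (P.cons (P.lf 0 36645 0) P.nil))))) (P.cons (P.cons (P.lf 6472566 0 0) (P.cons (P.lf 758661 0 0) (P.cons (P.lf 0 536754 0) (P.cons (P.lf 2793 0 0) P.nil)))) (P.cons (P.cons (P.lf 1156314 0 0) (P.cons (P.lf 281031 0 0) (P.cons (P.lf 0 63636 0) P.nil))) (P.cons (P.cons (P.lf 0 211524 0) (P.cons (P.lf 0 56451 0) P.nil)) (P.cons (P.cons (P.lf 3609 0 0) P.nil) P.nil)))))) 72177)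
 EL.nil)))
noncomputable def S430_459_364_512_23 : EL := (EL.cons 4 (TM.mk (P.cons (P.cons (P.lf 0 359917881 0) (P.cons (P.lf 0 13405509 0) (P.cons (P.lf 0 896250 0) (P.lf 298743 0 0)))) (P.cons (P.cons (P.lf 253747539 0 0) (P.cons (P.lf 15114324 0 0) (P.cons (P.lf 1010505 0 0) (P.lf 0 336825 0)))) (P.cons (P.cons (P.lf 0 37884000 0) (P.cons (P.lf 0 5805207 0) (P.cons (P.lf 0 388119 0) (P.lf 129366 0 0)))) (P.cons (P.cons (P.lf 0 4686330 0) (P.cons (P.lf 748008 0 0) (P.cons (P.lf 50001 0 0) P.nil))) (P.cons (P.cons (P.lf 898755 0 0) (P.cons (P.lf 29685 0 0) P.nil)) (P.cons (P.cons (P.lf 0 23217 0) P.nil) P.nil)))))) 73821)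
 (EL.cons 8 (TM.mk (P.cons (P.cons (P.lf 0 1096441392 0) (P.cons (P.lf 0 40838106 0) (P.cons (P.lf 0 2730339 0) (P.lf 910113 0 0)))) (P.cons (P.cons (P.lf 333937071 0 0) (P.cons (P.lf 29690121 0 0) (P.cons (P.lf 1985013 0 0) (P.lf 0 661671 0)))) (P.cons (P.cons (P.lf 38448021 0 0) (P.cons (P.lf 0 5045577 0) (P.cons (P.lf 0 337332 0) (P.lf 112443 0 0)))) (P.cons (P.cons (P.lf 0 6559509 0) (P.cons (P.lf 0 344565 0) (P.cons (P.lf 0 23034 0) P.nil))) (P.cons (P.cons (P.lf 0 3978 0) (P.cons (P.lf 91440 0 0) P.nil)) (P.cons (P.cons (P.lf 56958 0 0) P.nil) P.nil)))))) 46542)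
 (EL.cons 11 (TM.mk (P.cons (P.cons (P.lf 96772257 0 0) (P.cons (P.lf 14982774 0 0) (P.cons (P.lf 0 7218225 0) (P.cons (P.lf 0 273156 0) (P.lf 68289 0 0))))) (P.cons (P.cons (P.lf 0 73215237 0) (P.cons (P.lf 0 11335554 0) (P.cons (P.lf 5461110 0 0) (P.cons (P.lf 206661 0 0) (P.lf 0 51663 0))))) (P.cons (P.cons (P.lf 14739204 0 0) (P.cons (P.lf 2281998 0 0) (P.cons (P.lf 0 1099392 0) (P.cons (P.lf 0 41601 0) P.nil)))) (P.cons (P.cons (P.lf 0 111054 0) (P.cons (P.lf 0 17193 0) (P.cons (P.lf 8280 0 0) P.nil))) (P.cons (P.cons (P.lf 0 102351 0) (P.cons (P.lf 0 15843 0) P.nil)) (P.cons (P.cons (P.lf 8817 0 0) P.nil) P.nil)))))) 27663)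
 EL.nil)))
noncomputable def S430_459_364_512_24 : EL := (EL.cons 4 (TM.mk (P.cons (P.cons (P.lf 0 219999429 0) (P.cons (P.lf 0 7675692 0) (P.cons (P.lf 0 493863 0) (P.cons (P.lf 173634 0 0) (P.cons (P.lf 0 774 0) (P.cons (P.lf 0 57 0) P.nil)))))) (P.cons (P.cons (P.lf 138998883 0 0) (P.cons (P.lf 7673505 0 0) (P.cons (P.lf 468921 0 0) (P.cons (P.lf 0 176901 0) (P.cons (P.lf 1767 0 0) P.nil))))) (P.cons (P.cons (P.lf 0 8612244 0) (P.cons (P.lf 0 2030334 0) (P.cons (P.lf 0 93045 0) (P.cons (P.lf 50952 0 0) P.nil)))) (P.cons (P.cons (P.lf 0 6827571 0) (P.cons (P.lf 0 206844 0) (P.cons (P.lf 0 36390 0) P.nil))) (P.cons (P.cons (P.lf 668868 0 0) (P.cons (P.lf 149916 0 0) P.nil)) (P.cons (P.cons (P.lf 81048 0 0) P.nil) P.nil)))))) 129003)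
 (EL.cons 8 (TM.mk (P.cons (P.cons (P.lf 0 670198653 0) (P.cons (P.lf 0 23382987 0) (P.cons (P.lf 0 1504509 0) (P.cons (P.lf 528975 0 0) (P.cons (P.lf 0 2358 0) (P.cons (P.lf 0 174 0) P.nil)))))) (P.cons (P.cons (P.lf 155059908 0 0) (P.cons (P.lf 14012577 0 0) (P.cons (P.lf 826026 0 0) (P.cons (P.lf 0 327102 0) (P.cons (P.lf 4443 0 0) P.nil))))) (P.cons (P.cons (P.lf 48162978 0 0) (P.cons (P.lf 0 144489 0) (P.cons (P.lf 74946 0 0) (P.cons (P.lf 14532 0 0) P.nil)))) (P.cons (P.cons (P.lf 0 5305884 0) (P.cons (P.lf 0 978270 0) (P.cons (P.lf 0 98124 0) P.nil))) (P.cons (P.cons (P.lf 0 679605 0) (P.cons (P.lf 89919 0 0) P.nil)) (P.cons (P.cons (P.lf 117750 0 0) P.nil) P.nil)))))) 112470)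
 (EL.cons 11 (TM.mk (P.cons (P.cons (P.lf 59151942 0 0) (P.cons (P.lf 9018819 0 0) (P.cons (P.lf 0 4443030 0) (P.cons (P.lf 0 154905 0) (P.cons (P.lf 43311 0 0) (P.cons (P.lf 0 303 0) P.nil)))))) (P.cons (P.cons (P.lf 0 40422792 0) (P.cons (P.lf 0 5991732 0) (P.cons (P.lf 3074256 0 0) (P.cons (P.lf 91020 0 0) (P.cons (P.lf 0 31527 0) P.nil))))) (P.cons (P.cons (P.lf 4875507 0 0) (P.cons (P.lf 545586 0 0) (P.cons (P.lf 0 410052 0) (P.cons (P.lf 4344 0 0) P.nil)))) (P.cons (P.cons (P.lf 1245633 0 0) (P.cons (P.lf 278319 0 0) (P.cons (P.lf 0 73965 0) P.nil))) (P.cons (P.cons (P.lf 0 196659 0) (P.cons (P.lf 0 49176 0) P.nil)) (P.cons (P.cons (P.lf 0 1869 0) P.nil) P.nil)))))) 68304)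
 EL.nil)))
noncomputable def S430_459_364_512_25 : EL := (EL.cons 4 (TM.mk (P.cons (P.cons (P.lf 0 315925239 0) (P.cons (P.lf 0 11766957 0) (P.cons (P.lf 0 786699 0) (P.lf 262227 0 0)))) (P.cons (P.cons (P.lf 218063871 0 0) (P.cons (P.lf 13093032 0 0) (P.cons (P.lf 875367 0 0) (P.lf 0 291780 0)))) (P.cons (P.cons (P.lf 0 28917048 0) (P.cons (P.lf 0 4860672 0) (P.cons (P.lf 0 324969 0) (P.lf 108315 0 0)))) (P.cons (P.cons (P.lf 0 5395605 0) (P.cons (P.lf 535386 0 0) (P.cons (P.lf 35787 0 0) P.nil))) (P.cons (P.cons (P.lf 876915 0 0) (P.cons (P.lf 54909 0 0) P.nil)) (P.cons (P.cons (P.lf 0 1296 0) P.nil) P.nil)))))) 77835)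
 (EL.cons 8 (TM.mk (P.cons (P.cons (P.lf 0 962423724 0) (P.cons (P.lf 0 35846478 0) (P.cons (P.lf 0 2396610 0) (P.lf 798870 0 0)))) (P.cons (P.cons (P.lf 278899038 0 0) (P.cons (P.lf 25531431 0 0) (P.cons (P.lf 1706973 0 0) (P.lf 0 568989 0)))) (P.cons (P.cons (P.lf 41263983 0 0) (P.cons (P.lf 0 3925173 0) (P.cons (P.lf 0 262425 0) (P.lf 87474 0 0)))) (P.cons (P.cons (P.lf 0 6392766 0) (P.cons (P.lf 0 460221 0) (P.cons (P.lf 0 30768 0) P.nil))) (P.cons (P.cons (P.lf 0 147735 0) (P.cons (P.lf 94980 0 0) P.nil)) (P.cons (P.cons (P.lf 74190 0 0) P.nil) P.nil)))))) 51093)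
 (EL.cons 11 (TM.mk (P.cons (P.cons (P.lf 84943818 0 0) (P.cons (P.lf 13151436 0 0) (P.cons (P.lf 0 6335943 0) (P.cons (P.lf 0 239769 0) (P.lf 59940 0 0))))) (P.cons (P.cons (P.lf 0 63011010 0) (P.cons (P.lf 0 9755685 0) (P.cons (P.lf 4699980 0 0) (P.cons (P.lf 177858 0 0) (P.lf 0 44463 0))))) (P.cons (P.cons (P.lf 11706981 0 0) (P.cons (P.lf 1812534 0 0) (P.cons (P.lf 0 873219 0) (P.cons (P.lf 0 33042 0) P.nil)))) (P.cons (P.cons (P.lf 320781 0 0) (P.cons (P.lf 49665 0 0) (P.cons (P.lf 0 23928 0) P.nil))) (P.cons (P.cons (P.lf 0 145257 0) (P.cons (P.lf 0 22488 0) P.nil)) (P.cons (P.cons (P.lf 9090 0 0) P.nil) P.nil)))))) 32517)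
 EL.nil)))
noncomputable def S430_459_364_512_26 : EL := (EL.cons 4 (TM.mk (P.cons (P.cons (P.lf 0 193108971 0) (P.cons (P.lf 0 6737496 0) (P.cons (P.lf 0 433497 0) (P.cons (P.lf 152412 0 0) (P.cons (P.lf 0 678 0) (P.cons (P.lf 0 48 0) P.nil)))))) (P.cons (P.cons (P.lf 119155668 0 0) (P.cons (P.lf 6636021 0 0) (P.cons (P.lf 405198 0 0) (P.cons (P.lf 0 153027 0) (P.cons (P.lf 1542 0 0) P.nil))))) (P.cons (P.cons (P.lf 0 5117823 0) (P.cons (P.lf 0 1660350 0) (P.cons (P.lf 0 74157 0) (P.cons (P.lf 41925 0 0) P.nil)))) (P.cons (P.cons (P.lf 0 6541299 0) (P.cons (P.lf 0 231327 0) (P.cons (P.lf 0 34584 0) P.nil))) (P.cons (P.cons (P.lf 544863 0 0) (P.cons (P.lf 135969 0 0) P.nil)) (P.cons (P.cons (P.lf 98079 0 0) P.nil) P.nil)))))) 123528)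
 (EL.cons 8 (TM.mk (P.cons (P.cons (P.lf 0 588280494 0) (P.cons (P.lf 0 20524890 0) (P.cons (P.lf 0 1320615 0) (P.cons (P.lf 464319 0 0) (P.cons (P.lf 0 2070 0) (P.cons (P.lf 0 153 0) P.nil)))))) (P.cons (P.cons (P.lf 127414407 0 0) (P.cons (P.lf 11996544 0 0) (P.cons (P.lf 705549 0 0) (P.cons (P.lf 0 280260 0) (P.cons (P.lf 3870 0 0) P.nil))))) (P.cons (P.cons (P.lf 46233546 0 0) (P.cons (P.lf 122823 0 0) (P.cons (P.lf 80868 0 0) (P.cons (P.lf 6978 0 0) P.nil)))) (P.cons (P.cons (P.lf 0 4583166 0) (P.cons (P.lf 0 904761 0) (P.cons (P.lf 0 87783 0) P.nil))) (P.cons (P.cons (P.lf 0 780477 0) (P.cons (P.lf 68808 0 0) P.nil)) (P.cons (P.cons (P.lf 116928 0 0) P.nil) P.nil)))))) 109698)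
 (EL.cons 11 (TM.mk (P.cons (P.cons (P.lf 51921819 0 0) (P.cons (P.lf 7916451 0 0) (P.cons (P.lf 0 3899961 0) (P.cons (P.lf 0 135972 0) (P.cons (P.lf 38016 0 0) (P.cons (P.lf 0 264 0) P.nil)))))) (P.cons (P.cons (P.lf 0 34714719 0) (P.cons (P.lf 0 5142390 0) (P.cons (P.lf 2640864 0 0) (P.cons (P.lf 77886 0 0) (P.cons (P.lf 0 27111 0) P.nil))))) (P.cons (P.cons (P.lf 3583497 0 0) (P.cons (P.lf 374994 0 0) (P.cons (P.lf 0 307152 0) (P.cons (P.lf 5442 0 0) P.nil)))) (P.cons (P.cons (P.lf 1282854 0 0) (P.cons (P.lf 270126 0 0) (P.cons (P.lf 0 79836 0) P.nil))) (P.cons (P.cons (P.lf 0 176808 0) (P.cons (P.lf 0 42057 0) P.nil)) (P.cons (P.cons (P.lf 0 6996 0) P.nil) P.nil)))))) 66390)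
 EL.nil)))
noncomputable def S430_459_364_512_27 : EL := (EL.cons 13 (TM.mk (P.lf 0 4294967296 0) 0)
 EL.nil)
noncomputable def S430_459_364_512_28 : EL := (EL.cons 13 (TM.mk (P.cons (P.cons (P.lf 0 2625294271 0) (P.cons (P.lf 6186272 0 0) (P.cons (P.lf 413596 0 0) (P.lf 0 137864 0)))) (P.cons (P.cons (P.lf 0 192172467 0) (P.cons (P.lf 0 7157664 0) (P.cons (P.lf 0 478544 0) (P.lf 159512 0 0)))) (P.cons (P.cons (P.lf 38075491 0 0) (P.cons (P.lf 2930056 0 0) (P.cons (P.lf 195896 0 0) (P.lf 0 65296 0)))) (P.cons (P.cons (P.lf 0 220530 0) (P.cons (P.lf 0 479080 0) (P.cons (P.lf 0 32028 0) P.nil))) (P.cons (P.cons (P.lf 0 234949 0) (P.cons (P.lf 20880 0 0) P.nil)) (P.cons (P.cons (P.lf 18491 0 0) P.nil) P.nil)))))) 18033)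
 EL.nil)
noncomputable def S430_459_364_512_29 : EL := (EL.cons 13 (TM.mk (P.cons (P.cons (P.lf 0 1604708379 0) (P.cons (P.lf 7562704 0 0) (P.cons (P.lf 496709 0 0) (P.cons (P.lf 0 169729 0) (P.cons (P.lf 357 0 0) (P.cons (P.lf 26 0 0) P.nil)))))) (P.cons (P.cons (P.lf 0 234930439 0) (P.cons (P.lf 0 8196636 0) (P.cons (P.lf 0 527388 0) (P.cons (P.lf 185423 0 0) (P.cons (P.lf 0 826 0) P.nil))))) (P.cons (P.cons (P.lf 37948712 0 0) (P.cons (P.lf 2831783 0 0) (P.cons (P.lf 168956 0 0) (P.cons (P.lf 0 65829 0) P.nil)))) (P.cons (P.cons (P.lf 3137674 0 0) (P.cons (P.lf 0 195928 0) (P.cons (P.lf 0 1950 0) P.nil))) (P.cons (P.cons (P.lf 0 644503 0) (P.cons (P.lf 0 69354 0) P.nil)) (P.cons (P.cons (P.lf 5490 0 0) P.nil) P.nil)))))) 68180)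
 EL.nil)
noncomputable def S430_459_364_512_30 : EL := (EL.cons 13 (TM.mk (P.cons (P.lf 0 3769994864 0) (P.cons (P.lf 0 55706392 0) (P.cons (P.lf 12473252 0 0) (P.cons (P.lf 0 642016 0) (P.cons (P.lf 10084 0 0) (P.cons (P.lf 908 0 0) P.nil)))))) 412)
 EL.nil)
noncomputable def S430_459_364_512_31 : EL := (EL.cons 13 (TM.mk (P.cons (P.cons (P.lf 0 2304405420 0) (P.cons (P.lf 5430126 0 0) (P.cons (P.lf 363042 0 0) (P.lf 0 121012 0)))) (P.cons (P.cons (P.lf 0 202733763 0) (P.cons (P.lf 0 6202548 0) (P.cons (P.lf 0 414687 0) (P.lf 138226 0 0)))) (P.cons (P.cons (P.lf 38553291 0 0) (P.cons (P.lf 2461114 0 0) (P.cons (P.lf 164543 0 0) (P.lf 0 54845 0)))) (P.cons (P.cons (P.lf 465937 0 0) (P.cons (P.lf 0 360807 0) (P.cons (P.lf 0 24120 0) P.nil))) (P.cons (P.cons (P.lf 0 342231 0) (P.cons (P.lf 2520 0 0) P.nil)) (P.cons (P.cons (P.lf 20521 0 0) P.nil) P.nil)))))) 22603)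
 EL.nil)
noncomputable def S430_459_364_512_32 : EL := (EL.cons 13 (TM.mk (P.cons (P.cons (P.lf 0 1408565404 0) (P.cons (P.lf 6638317 0 0) (P.cons (P.lf 435996 0 0) (P.cons (P.lf 0 148983 0) (P.cons (P.lf 313 0 0) (P.cons (P.lf 22 0 0) P.nil)))))) (P.cons (P.cons (P.lf 0 227028285 0) (P.cons (P.lf 0 7096674 0) (P.cons (P.lf 0 456483 0) (P.cons (P.lf 160557 0 0) (P.cons (P.lf 0 720 0) P.nil))))) (P.cons (P.cons (P.lf 34923491 0 0) (P.cons (P.lf 2357380 0 0) (P.cons (P.lf 140021 0 0) (P.cons (P.lf 0 54884 0) P.nil)))) (P.cons (P.cons (P.lf 3688758 0 0) (P.cons (P.lf 0 110316 0) (P.cons (P.lf 2085 0 0) P.nil))) (P.cons (P.cons (P.lf 0 666588 0) (P.cons (P.lf 0 72885 0) P.nil)) (P.cons (P.cons (P.lf 0 6089 0) P.nil) P.nil)))))) 68279)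
 EL.nil)
noncomputable def S430_459_364_512_33 : EL := (EL.cons 14 (TM.mk (P.lf 8589934592 0 0) 0)
 EL.nil)
noncomputable def S430_459_364_512_34 : EL := (EL.cons 14 (TM.mk (P.cons (P.cons (P.lf 5250588542 0 0) (P.cons (P.lf 0 12372544 0) (P.cons (P.lf 0 827192 0) (P.lf 275728 0 0)))) (P.cons (P.cons (P.lf 384344934 0 0) (P.cons (P.lf 14315328 0 0) (P.cons (P.lf 957088 0 0) (P.lf 0 319024 0)))) (P.cons (P.cons (P.lf 0 76150982 0) (P.cons (P.lf 0 5860112 0) (P.cons (P.lf 0 391792 0) (P.lf 130592 0 0)))) (P.cons (P.cons (P.lf 441060 0 0) (P.cons (P.lf 958160 0 0) (P.cons (P.lf 64056 0 0) P.nil))) (P.cons (P.cons (P.lf 469898 0 0) (P.cons (P.lf 0 41760 0) P.nil)) (P.cons (P.cons (P.lf 0 36982 0) P.nil) P.nil)))))) 36066)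
 EL.nil)
noncomputable def S430_459_364_512_35 : EL := (EL.cons 14 (TM.mk (P.cons (P.cons (P.lf 3209416758 0 0) (P.cons (P.lf 0 15125408 0) (P.cons (P.lf 0 993418 0) (P.cons (P.lf 339458 0 0) (P.cons (P.lf 0 714 0) (P.cons (P.lf 0 52 0) P.nil)))))) (P.cons (P.cons (P.lf 469860878 0 0) (P.cons (P.lf 16393272 0 0) (P.cons (P.lf 1054776 0 0) (P.cons (P.lf 0 370846 0) (P.cons (P.lf 1652 0 0) P.nil))))) (P.cons (P.cons (P.lf 0 75897424 0) (P.cons (P.lf 0 5663566 0) (P.cons (P.lf 0 337912 0) (P.cons (P.lf 131658 0 0) P.nil)))) (P.cons (P.cons (P.lf 0 6275348 0) (P.cons (P.lf 391856 0 0) (P.cons (P.lf 3900 0 0) P.nil))) (P.cons (P.cons (P.lf 1289006 0 0) (P.cons (P.lf 138708 0 0) P.nil)) (P.cons (P.cons (P.lf 0 10980 0) P.nil) P.nil)))))) 136360)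
 EL.nil)
noncomputable def S430_459_364_512_36 : EL := (EL.cons 14 (TM.mk (P.cons (P.lf 7539989728 0 0) (P.cons (P.lf 111412784 0 0) (P.cons (P.lf 0 24946504 0) (P.cons (P.lf 1284032 0 0) (P.cons (P.lf 0 20168 0) (P.cons (P.lf 0 1816 0) P.nil)))))) 824)
 EL.nil)
noncomputable def S430_459_364_512_37 : EL := (EL.cons 14 (TM.mk (P.cons (P.cons (P.lf 4608810840 0 0) (P.cons (P.lf 0 10860252 0) (P.cons (P.lf 0 726084 0) (P.lf 242024 0 0)))) (P.cons (P.cons (P.lf 405467526 0 0) (P.cons (P.lf 12405096 0 0) (P.cons (P.lf 829374 0 0) (P.lf 0 276452 0)))) (P.cons (P.cons (P.lf 0 77106582 0) (P.cons (P.lf 0 4922228 0) (P.cons (P.lf 0 329086 0) (P.lf 109690 0 0)))) (P.cons (P.cons (P.lf 0 931874 0) (P.cons (P.lf 721614 0 0) (P.cons (P.lf 48240 0 0) P.nil))) (P.cons (P.cons (P.lf 684462 0 0) (P.cons (P.lf 0 5040 0) P.nil)) (P.cons (P.cons (P.lf 0 41042 0) P.nil) P.nil))))))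 45206)
 EL.nil)
noncomputable def S430_459_364_512_38 : EL := (EL.cons 14 (TM.mk (P.cons (P.cons (P.lf 2817130808 0 0) (P.cons (P.lf 0 13276634 0) (P.cons (P.lf 0 871992 0) (P.cons (P.lf 297966 0 0) (P.cons (P.lf 0 626 0) (P.cons (P.lf 0 44 0) P.nil)))))) (P.cons (P.cons (P.lf 454056570 0 0) (P.cons (P.lf 14193348 0 0) (P.cons (P.lf 912966 0 0) (P.cons (P.lf 0 321114 0) (P.cons (P.lf 1440 0 0) P.nil))))) (P.cons (P.cons (P.lf 0 69846982 0) (P.cons (P.lf 0 4714760 0) (P.cons (P.lf 0 280042 0) (P.cons (P.lf 109768 0 0) P.nil)))) (P.cons (P.cons (P.lf 0 7377516 0) (P.cons (P.lf 220632 0 0) (P.cons (P.lf 0 4170 0) P.nil))) (P.cons (P.cons (P.lf 1333176 0 0) (P.cons (P.lf 145770 0 0) P.nil)) (P.cons (P.cons (P.lf 12178 0 0) P.nil) P.nil)))))) 136558)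
 EL.nil)
noncomputable def S430_459_364_512_39 : EL := (EL.cons 14 (TM.mk (P.cons (P.lf 6618379276 0 0) (P.cons (P.lf 195589672 0 0) (P.cons (P.lf 0 42349560 0) (P.cons (P.lf 1607050 0 0) (P.cons (P.lf 70350 0 0) (P.cons (P.lf 0 11168 0) P.nil)))))) 1860)
 EL.nil)
noncomputable def S430_459_364_512_40 : EL := (EL.cons 14 (TM.mk (P.cons (P.cons (P.lf 4045477414 0 0) (P.cons (P.lf 0 9532806 0) (P.cons (P.lf 0 637334 0) (P.lf 212442 0 0)))) (P.cons (P.cons (P.lf 415684356 0 0) (P.cons (P.lf 10747966 0 0) (P.cons (P.lf 718582 0 0) (P.lf 0 239522 0)))) (P.cons (P.cons (P.lf 0 75807596 0) (P.cons (P.lf 0 4128150 0) (P.cons (P.lf 0 275996 0) (P.lf 91994 0 0)))) (P.cons (P.cons (P.lf 0 2306666 0) (P.cons (P.lf 531918 0 0) (P.cons (P.lf 35558 0 0) P.nil))) (P.cons (P.cons (P.lf 862430 0 0) (P.cons (P.lf 21108 0 0) P.nil)) (P.cons (P.cons (P.lf 0 37894 0) P.nil) P.nil))))))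 51532)
 EL.nil)
noncomputable def S430_459_364_512_41 : EL := (EL.cons 14 (TM.mk (P.cons (P.cons (P.lf 2472793840 0 0) (P.cons (P.lf 0 11653834 0) (P.cons (P.lf 0 765408 0) (P.cons (P.lf 261544 0 0) (P.cons (P.lf 0 550 0) (P.cons (P.lf 0 40 0) P.nil)))))) (P.cons (P.cons (P.lf 435096010 0 0) (P.cons (P.lf 12286300 0 0) (P.cons (P.lf 790064 0 0) (P.cons (P.lf 0 278000 0) (P.cons (P.lf 1256 0 0) P.nil))))) (P.cons (P.cons (P.lf 0 63601810 0) (P.cons (P.lf 0 3915828 0) (P.cons (P.lf 0 231440 0) (P.cons (P.lf 91322 0 0) P.nil)))) (P.cons (P.cons (P.lf 0 8279234 0) (P.cons (P.lf 89308 0 0) (P.cons (P.lf 0 10074 0) P.nil))) (P.cons (P.cons (P.lf 1338640 0 0) (P.cons (P.lf 146658 0 0) P.nil)) (P.cons (P.cons (P.lf 37304 0 0) P.nil) P.nil)))))) 134130)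
 EL.nil)
noncomputable def S430_459_364_512_42 : EL := (EL.cons 14 (TM.mk (P.cons (P.lf 5809416966 0 0) (P.cons (P.lf 257524216 0 0) (P.cons (P.lf 0 53857160 0) (P.cons (P.lf 1282638 0 0) (P.cons (P.lf 219282 0 0) (P.cons (P.lf 0 21746 0) P.nil)))))) 3122)
 EL.nil)
noncomputable def S430_459_364_512_43 : EL := (EL.cons 14 (TM.mk (P.cons (P.cons (P.lf 3551000048 0 0) (P.cons (P.lf 0 8367614 0) (P.cons (P.lf 0 559434 0) (P.lf 186476 0 0)))) (P.cons (P.cons (P.lf 417345864 0 0) (P.cons (P.lf 9310604 0 0) (P.cons (P.lf 622484 0 0) (P.lf 0 207490 0)))) (P.cons (P.cons (P.lf 0 72898862 0) (P.cons (P.lf 0 3456480 0) (P.cons (P.lf 0 231090 0) (P.lf 77026 0 0)))) (P.cons (P.cons (P.lf 0 3610450 0) (P.cons (P.lf 380722 0 0) (P.cons (P.lf 25450 0 0) P.nil))) (P.cons (P.cons (P.lf 999894 0 0) (P.cons (P.lf 39046 0 0) P.nil)) (P.cons (P.cons (P.lf 0 28540 0) P.nil) P.nil))))))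 56482)
 EL.nil)
noncomputable def S430_459_364_512_44 : EL := (EL.cons 14 (TM.mk (P.cons (P.cons (P.lf 2170545068 0 0) (P.cons (P.lf 0 10229390 0) (P.cons (P.lf 0 671852 0) (P.cons (P.lf 229576 0 0) (P.cons (P.lf 0 482 0) (P.cons (P.lf 0 34 0) P.nil)))))) (P.cons (P.cons (P.lf 413986888 0 0) (P.cons (P.lf 10633398 0 0) (P.cons (P.lf 683566 0 0) (P.cons (P.lf 0 240628 0) (P.cons (P.lf 1094 0 0) P.nil))))) (P.cons (P.cons (P.lf 0 57365896 0) (P.cons (P.lf 0 3243998 0) (P.cons (P.lf 0 190680 0) (P.cons (P.lf 75794 0 0) P.nil)))) (P.cons (P.cons (P.lf 0 8986144 0) (P.cons (P.lf 0 9818 0) (P.cons (P.lf 0 14254 0) P.nil))) (P.cons (P.cons (P.lf 1311576 0 0) (P.cons (P.lf 143126 0 0) P.nil)) (P.cons (P.cons (P.lf 63100 0 0) P.nil) P.nil)))))) 130688)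
 EL.nil)
noncomputable def S430_459_364_512_45 : EL := (EL.cons 14 (TM.mk (P.cons (P.cons (P.lf 1961752638 0 0) (P.cons (P.lf 0 13868084 0) (P.cons (P.lf 0 894498 0) (P.cons (P.lf 313398 0 0) (P.cons (P.lf 0 1314 0) (P.cons (P.lf 0 94 0) P.nil)))))) (P.cons (P.cons (P.lf 430802956 0 0) (P.cons (P.lf 14015406 0 0) (P.cons (P.lf 863808 0 0) (P.cons (P.lf 0 322042 0) (P.cons (P.lf 2952 0 0) P.nil))))) (P.cons (P.cons (P.lf 0 53820866 0) (P.cons (P.lf 0 3891396 0) (P.cons (P.lf 0 191472 0) (P.cons (P.lf 95762 0 0) P.nil)))) (P.cons (P.cons (P.lf 0 11232318 0) (P.cons (P.lf 0 239986 0) (P.cons (P.lf 0 50360 0) P.nil))) (P.cons (P.cons (P.lf 1379654 0 0) (P.cons (P.lf 228810 0 0) P.nil)) (P.cons (P.cons (P.lf 114582 0 0) P.nil) P.nil)))))) 209146)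
 EL.nil)
noncomputable def S430_459_364_512_46 : EL := (EL.cons 15 (TM.mk (P.lf 4294967296 0 0) 0)
 EL.nil)
noncomputable def S430_459_364_512_47 : EL := (EL.cons 15 (TM.mk (P.cons (P.cons (P.lf 2625294271 0 0) (P.cons (P.lf 0 6186272 0) (P.cons (P.lf 0 413596 0) (P.lf 137864 0 0)))) (P.cons (P.cons (P.lf 192172467 0 0) (P.cons (P.lf 7157664 0 0) (P.cons (P.lf 478544 0 0) (P.lf 0 159512 0)))) (P.cons (P.cons (P.lf 0 38075491 0) (P.cons (P.lf 0 2930056 0) (P.cons (P.lf 0 195896 0) (P.lf 65296 0 0)))) (P.cons (P.cons (P.lf 220530 0 0) (P.cons (P.lf 479080 0 0) (P.cons (P.lf 32028 0 0) P.nil))) (P.cons (P.cons (P.lf 234949 0 0) (P.cons (P.lf 0 20880 0) P.nil)) (P.cons (P.cons (P.lf 0 18491 0) P.nil) P.nil)))))) 18033)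
 EL.nil)
noncomputable def S430_459_364_512_48 : EL := (EL.cons 15 (TM.mk (P.cons (P.cons (P.lf 1604708379 0 0) (P.cons (P.lf 0 7562704 0) (P.cons (P.lf 0 496709 0) (P.cons (P.lf 169729 0 0) (P.cons (P.lf 0 357 0) (P.cons (P.lf 0 26 0) P.nil)))))) (P.cons (P.cons (P.lf 234930439 0 0) (P.cons (P.lf 8196636 0 0) (P.cons (P.lf 527388 0 0) (P.cons (P.lf 0 185423 0) (P.cons (P.lf 826 0 0) P.nil))))) (P.cons (P.cons (P.lf 0 37948712 0) (P.cons (P.lf 0 2831783 0) (P.cons (P.lf 0 168956 0) (P.cons (P.lf 65829 0 0) P.nil)))) (P.cons (P.cons (P.lf 0 3137674 0) (P.cons (P.lf 195928 0 0) (P.cons (P.lf 1950 0 0) P.nil))) (P.cons (P.cons (P.lf 644503 0 0) (P.cons (P.lf 69354 0 0) P.nil)) (P.cons (P.cons (P.lf 0 5490 0) P.nil) P.nil)))))) 68180)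
 EL.nil)
noncomputable def S430_459_364_512 : SL := (SL.cons S430_459_364_512_0 (SL.cons S430_459_364_512_1 (SL.cons S430_459_364_512_2 (SL.cons S430_459_364_512_3 (SL.cons S430_459_364_512_4 (SL.cons S430_459_364_512_5 (SL.cons S430_459_364_512_6 (SL.cons S430_459_364_512_7 (SL.cons S430_459_364_512_8 (SL.cons S430_459_364_512_9 (SL.cons S430_459_364_512_10 (SL.cons S430_459_364_512_11 (SL.cons S430_459_364_512_12 (SL.cons S430_459_364_512_13 (SL.cons S430_459_364_512_14 (SL.cons S430_459_364_512_15 (SL.cons S430_459_364_512_16 (SL.cons S430_459_364_512_17 (SL.cons S430_459_364_512_18 (SL.cons S430_459_364_512_19 (SL.cons S430_459_364_512_20 (SL.cons S430_459_364_512_21 (SL.cons S430_459_364_512_22 (SL.cons S430_459_364_512_23 (SL.cons S430_459_364_512_24 (SL.cons S430_459_364_512_25 (SL.cons S430_459_364_512_26 (SL.cons S430_459_364_512_27 (SL.cons S430_459_364_512_28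 (SL.cons S430_459_364_512_29 (SL.cons S430_459_364_512_30 (SL.cons S430_459_364_512_31 (SL.cons S430_459_364_512_32 (SL.cons S430_459_364_512_33 (SL.cons S430_459_364_512_34 (SL.cons S430_459_364_512_35 (SL.cons S430_459_364_512_36 (SL.cons S430_459_364_512_37 (SL.cons S430_459_364_512_38 (SL.cons S430_459_364_512_39 (SL.cons S430_459_364_512_40 (SL.cons S430_459_364_512_41 (SL.cons S430_459_364_512_42 (SL.cons S430_459_364_512_43 (SL.cons S430_459_364_512_44 (SL.cons S430_459_364_512_45 (SL.cons S430_459_364_512_46 (SL.cons S430_459_364_512_47 (SL.cons S430_459_364_512_48 SL.nil)))))))))))))))))))))))))))))))))))))))))))))))))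
noncomputable def S430_459_512_660_0 : EL := (EL.cons 0 (TM.mk (P.cons (P.lf 2638781953 0 0) (P.cons (P.lf 0 171904985 0) (P.cons (P.lf 37221292 0 0) (P.cons (P.lf 0 1412446 0) (P.cons (P.lf 0 61831 0) (P.cons (P.lf 9815 0 0) P.nil)))))) 1641)
 (EL.cons 1 (TM.mk (P.cons (P.lf 678921663 0 0) (P.cons (P.lf 0 251810791 0) (P.cons (P.lf 86512 0 0) (P.cons (P.lf 1314026 0 0) (P.cons (P.lf 0 93138 0) (P.cons (P.lf 1631 0 0) P.nil)))))) 700)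
 (EL.cons 5 (TM.mk (P.cons (P.lf 6363210824 0 0) (P.cons (P.lf 61121772 0 0) (P.cons (P.lf 0 13234238 0) (P.cons (P.lf 502208 0 0) (P.cons (P.lf 21982 0 0) (P.cons (P.lf 0 3488 0) P.nil)))))) 319)
 (EL.cons 9 (TM.mk (P.lf 6442450944 0 0) 2)
 EL.nil))))
noncomputable def S430_459_512_660_1 : EL := (EL.cons 0 (TM.mk (P.cons (P.cons (P.lf 2332369705 0 0) (P.cons (P.lf 21334549 0 0) (P.cons (P.lf 0 1426358 0) (P.lf 0 475439 0)))) (P.cons (P.cons (P.lf 0 512285176 0) (P.cons (P.lf 0 23694160 0) (P.cons (P.lf 1584129 0 0) (P.lf 528025 0 0)))) (P.cons (P.cons (P.lf 80967642 0 0) (P.cons (P.lf 8744472 0 0) (P.cons (P.lf 0 584627 0) (P.lf 0 194863 0)))) (P.cons (P.cons (P.lf 9312059 0 0) (P.cons (P.lf 0 926832 0) (P.cons (P.lf 61948 0 0) P.nil))) (P.cons (P.cons (P.lf 0 2221522 0) (P.cons (P.lf 0 115318 0) P.nil)) (P.cons (P.cons (P.lf 97543 0 0) P.nil) P.nil)))))) 219764)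
 (EL.cons 1 (TM.mk (P.cons (P.cons (P.lf 1478398756 0 0) (P.cons (P.lf 35841009 0 0) (P.cons (P.lf 0 2396248 0) (P.lf 0 798751 0)))) (P.cons (P.cons (P.lf 0 443418558 0) (P.cons (P.lf 0 24099152 0) (P.cons (P.lf 1611219 0 0) (P.lf 537076 0 0)))) (P.cons (P.cons (P.lf 0 63994014 0) (P.cons (P.lf 2522883 0 0) (P.cons (P.lf 0 168673 0) (P.lf 0 56225 0)))) (P.cons (P.cons (P.lf 12894884 0 0) (P.cons (P.lf 937449 0 0) (P.cons (P.lf 0 62670 0) P.nil))) (P.cons (P.cons (P.lf 0 118096 0) (P.cons (P.lf 0 158530 0) P.nil)) (P.cons (P.cons (P.lf 0 119509 0) P.nil) P.nil)))))) 83689)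
 (EL.cons 5 (TM.mk (P.cons (P.cons (P.lf 3611742436 0 0) (P.cons (P.lf 0 18102288 0) (P.cons (P.lf 1210268 0 0) (P.lf 403418 0 0)))) (P.cons (P.cons (P.lf 534259794 0 0) (P.cons (P.lf 20592618 0 0) (P.cons (P.lf 0 1376770 0) (P.lf 0 458920 0)))) (P.cons (P.cons (P.lf 0 103923064 0) (P.cons (P.lf 0 8090248 0) (P.cons (P.lf 540890 0 0) (P.lf 180290 0 0)))) (P.cons (P.cons (P.lf 0 1234553 0) (P.cons (P.lf 1143984 0 0) (P.cons (P.lf 0 76478 0) P.nil))) (P.cons (P.cons (P.lf 1115125 0 0) (P.cons (P.lf 5498 0 0) P.nil)) (P.cons (P.cons (P.lf 0 70242 0) P.nil) P.nil)))))) 70214)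
 (EL.cons 9 (TM.mk (P.cons (P.cons (P.lf 3918555382 0 0) (P.cons (P.lf 0 9279408 0) (P.cons (P.lf 620394 0 0) (P.lf 206796 0 0)))) (P.cons (P.cons (P.lf 310688776 0 0) (P.cons (P.lf 10736496 0 0) (P.cons (P.lf 0 717816 0) (P.lf 0 239268 0)))) (P.cons (P.cons (P.lf 0 66295204 0) (P.cons (P.lf 0 4395084 0) (P.cons (P.lf 293844 0 0) (P.lf 97944 0 0)))) (P.cons (P.cons (P.lf 1832103 0 0) (P.cons (P.lf 718620 0 0) (P.cons (P.lf 0 48042 0) P.nil))) (P.cons (P.cons (P.lf 286987 0 0) (P.cons (P.lf 0 31320 0) P.nil)) (P.cons (P.cons (P.lf 0 31372 0) P.nil) P.nil)))))) 27068)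
 (EL.cons 2 (TM.mk (P.cons (P.cons (P.lf 0 90723990 0) (P.cons (P.lf 14046350 0 0) (P.cons (P.lf 6767085 0 0) (P.cons (P.lf 0 256083 0) (P.lf 0 64020 0))))) (P.cons (P.cons (P.lf 68639284 0 0) (P.cons (P.lf 0 10627081 0) (P.cons (P.lf 0 5119790 0) (P.cons (P.lf 193744 0 0) (P.lf 48434 0 0))))) (P.cons (P.cons (P.lf 0 13818003 0) (P.cons (P.lf 2139373 0 0) (P.cons (P.lf 1030680 0 0) (P.cons (P.lf 0 39000 0) P.nil)))) (P.cons (P.cons (P.lf 104113 0 0) (P.cons (P.lf 0 16118 0) (P.cons (P.lf 0 7762 0) P.nil))) (P.cons (P.cons (P.lf 95954 0 0) (P.cons (P.lf 0 14852 0) P.nil)) (P.cons (P.cons (P.lf 0 8265 0) P.nil) P.nil)))))) 25955)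
 (EL.cons 6 (TM.mk (P.cons (P.cons (P.lf 10588821 0 0) (P.cons (P.lf 0 1639413 0) (P.cons (P.lf 0 789816 0) (P.cons (P.lf 29889 0 0) (P.lf 7470 0 0))))) (P.cons (P.cons (P.lf 0 12251511 0) (P.cons (P.lf 1896840 0 0) (P.cons (P.lf 913836 0 0) (P.cons (P.lf 0 34581 0) (P.lf 0 8643 0))))) (P.cons (P.cons (P.lf 5015274 0 0) (P.cons (P.lf 0 776490 0) (P.cons (P.lf 0 374088 0) (P.cons (P.lf 14154 0 0) P.nil)))) (P.cons (P.cons (P.lf 0 820029 0) (P.cons (P.lf 126960 0 0) (P.cons (P.lf 61164 0 0) P.nil))) (P.cons (P.cons (P.lf 35742 0 0) (P.cons (P.lf 0 5532 0) P.nil)) (P.cons (P.cons (P.lf 1989 0 0) P.nil) P.nil)))))) 11556)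
 EL.nil))))))
noncomputable def S430_459_512_660_2 : EL := (EL.cons 0 (TM.mk (P.cons (P.cons (P.lf 1861047927 0 0) (P.cons (P.lf 23857737 0 0) (P.cons (P.lf 0 1661974 0) (P.cons (P.lf 0 522720 0) (P.cons (P.lf 2683 0 0) (P.cons (P.lf 0 197 0) P.nil)))))) (P.cons (P.cons (P.lf 0 489433302 0) (P.cons (P.lf 0 22800288 0) (P.cons (P.lf 1676753 0 0) (P.cons (P.lf 487722 0 0) (P.cons (P.lf 0 6103 0) P.nil))))) (P.cons (P.cons (P.lf 24293417 0 0) (P.cons (P.lf 4867415 0 0) (P.cons (P.lf 0 472104 0) (P.cons (P.lf 0 88845 0) P.nil)))) (P.cons (P.cons (P.lf 29300050 0 0) (P.cons (P.lf 1403578 0 0) (P.cons (P.lf 0 17115 0) P.nil))) (P.cons (P.cons (P.lf 0 3675068 0) (P.cons (P.lf 0 650878 0) P.nil)) (P.cons (P.cons (P.lf 0 247915 0) P.nil) P.nil)))))) 792181)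
 (EL.cons 1 (TM.mk (P.cons (P.cons (P.lf 1547271121 0 0) (P.cons (P.lf 40530609 0 0) (P.cons (P.lf 0 2814441 0) (P.cons (P.lf 0 889269 0) (P.cons (P.lf 4197 0 0) (P.cons (P.lf 0 310 0) P.nil)))))) (P.cons (P.cons (P.lf 0 343487510 0) (P.cons (P.lf 0 21377581 0) (P.cons (P.lf 1621927 0 0) (P.cons (P.lf 450663 0 0) (P.cons (P.lf 0 7730 0) P.nil))))) (P.cons (P.cons (P.lf 0 129381602 0) (P.cons (P.lf 0 2393858 0) (P.cons (P.lf 19126 0 0) (P.cons (P.lf 72183 0 0) P.nil)))) (P.cons (P.cons (P.lf 16862067 0 0) (P.cons (P.lf 2401958 0 0) (P.cons (P.lf 0 111038 0) P.nil))) (P.cons (P.cons (P.lf 1964743 0 0) (P.cons (P.lf 0 154748 0) P.nil)) (P.cons (P.cons (P.lf 0 441848 0) P.nil) P.nil)))))) 318139)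
 (EL.cons 5 (TM.mk (P.cons (P.cons (P.lf 2039505147 0 0) (P.cons (P.lf 0 21276063 0) (P.cons (P.lf 1461407 0 0) (P.cons (P.lf 468931 0 0) (P.cons (P.lf 0 1549 0) (P.cons (P.lf 111 0 0) P.nil)))))) (P.cons (P.cons (P.lf 602360208 0 0) (P.cons (P.lf 21894592 0 0) (P.cons (P.lf 0 1553049 0) (P.cons (P.lf 0 475998 0) (P.cons (P.lf 3571 0 0) P.nil))))) (P.cons (P.cons (P.lf 0 83056551 0) (P.cons (P.lf 0 6399982 0) (P.cons (P.lf 514668 0 0) (P.cons (P.lf 131015 0 0) P.nil)))) (P.cons (P.cons (P.lf 0 15138660 0) (P.cons (P.lf 0 245126 0) (P.cons (P.lf 0 29835 0) P.nil))) (P.cons (P.cons (P.lf 2675779 0 0) (P.cons (P.lf 375283 0 0) P.nil)) (P.cons (P.cons (P.lf 33517 0 0) P.nil) P.nil)))))) 253255)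
 (EL.cons 9 (TM.mk (P.cons (P.cons (P.lf 2383421529 0 0) (P.cons (P.lf 0 11288211 0) (P.cons (P.lf 768061 0 0) (P.cons (P.lf 249775 0 0) (P.cons (P.lf 0 535 0) (P.cons (P.lf 39 0 0) P.nil)))))) (P.cons (P.cons (P.lf 377946588 0 0) (P.cons (P.lf 12165724 0 0) (P.cons (P.lf 0 844299 0) (P.cons (P.lf 0 266982 0) (P.cons (P.lf 1239 0 0) P.nil))))) (P.cons (P.cons (P.lf 0 65663727 0) (P.cons (P.lf 0 4120012 0) (P.cons (P.lf 306006 0 0) (P.cons (P.lf 87727 0 0) P.nil)))) (P.cons (P.cons (P.lf 0 4165488 0) (P.cons (P.lf 224035 0 0) (P.cons (P.lf 0 31693 0) P.nil))) (P.cons (P.cons (P.lf 1208023 0 0) (P.cons (P.lf 126943 0 0) P.nil)) (P.cons (P.cons (P.lf 0 48189 0) P.nil) P.nil)))))) 111517)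
 (EL.cons 2 (TM.mk (P.cons (P.cons (P.lf 0 110363895 0) (P.cons (P.lf 17348450 0 0) (P.cons (P.lf 8174086 0 0) (P.cons (P.lf 0 334136 0) (P.cons (P.lf 0 74936 0) (P.cons (P.lf 568 0 0) P.nil)))))) (P.cons (P.cons (P.lf 74747919 0 0) (P.cons (P.lf 0 12072971 0) (P.cons (P.lf 0 5464563 0) (P.cons (P.lf 254255 0 0) (P.cons (P.lf 47115 0 0) P.nil))))) (P.cons (P.cons (P.lf 0 8321861 0) (P.cons (P.lf 1680800 0 0) (P.cons (P.lf 533739 0 0) (P.cons (P.lf 0 57436 0) P.nil)))) (P.cons (P.cons (P.lf 0 2670345 0) (P.cons (P.lf 253186 0 0) (P.cons (P.lf 234703 0 0) P.nil))) (P.cons (P.cons (P.lf 442108 0 0) (P.cons (P.lf 0 33328 0) P.nil)) (P.cons (P.cons (P.lf 0 3802 0) P.nil) P.nil)))))) 133008)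
 (EL.cons 6 (TM.mk (P.cons (P.cons (P.lf 12881082 0 0) (P.cons (P.lf 0 2024814 0) (P.cons (P.lf 0 954030 0) (P.cons (P.lf 38994 0 0) (P.cons (P.lf 8742 0 0) (P.cons (P.lf 0 66 0) P.nil)))))) (P.cons (P.cons (P.lf 0 13882416 0) (P.cons (P.lf 2219928 0 0) (P.cons (P.lf 1019838 0 0) (P.cons (P.lf 0 45288 0) (P.cons (P.lf 0 9000 0) P.nil))))) (P.cons (P.cons (P.lf 4701390 0 0) (P.cons (P.lf 0 797622 0) (P.cons (P.lf 0 335214 0) (P.cons (P.lf 19302 0 0) P.nil)))) (P.cons (P.cons (P.lf 0 255654 0) (P.cons (P.lf 77736 0 0) (P.cons (P.lf 10608 0 0) P.nil))) (P.cons (P.cons (P.lf 0 144852 0) (P.cons (P.lf 9906 0 0) P.nil)) (P.cons (P.cons (P.lf 24402 0 0) P.nil) P.nil)))))) 40086)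
 EL.nil))))))
noncomputable def S430_459_512_660_3 : EL := (EL.cons 0 (TM.mk (P.cons (P.lf 5816934910 0 0) (P.cons (P.lf 171904985 0 0) (P.cons (P.lf 0 37221292 0) (P.cons (P.lf 1412446 0 0) (P.cons (P.lf 61831 0 0) (P.cons (P.lf 0 9815 0) P.nil)))))) 1641)
 (EL.cons 1 (TM.mk (P.cons (P.lf 0 678921663 0) (P.cons (P.lf 251810791 0 0) (P.cons (P.lf 0 86512 0) (P.cons (P.lf 0 1314026 0) (P.cons (P.lf 93138 0 0) (P.cons (P.lf 0 1631 0) P.nil)))))) 700)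
 (EL.cons 5 (TM.mk (P.cons (P.lf 79240120 0 0) (P.cons (P.lf 0 61121772 0) (P.cons (P.lf 13234238 0 0) (P.cons (P.lf 0 502208 0) (P.cons (P.lf 0 21982 0) (P.cons (P.lf 3488 0 0) P.nil)))))) 312)
 EL.nil)))
noncomputable def S430_459_512_660_4 : EL := (EL.cons 0 (TM.mk (P.cons (P.cons (P.lf 3538091605 0 0) (P.cons (P.lf 0 8378442 0) (P.cons (P.lf 560156 0 0) (P.lf 186716 0 0)))) (P.cons (P.cons (P.lf 385082572 0 0) (P.cons (P.lf 9446454 0 0) (P.cons (P.lf 0 631566 0) (P.lf 0 210517 0)))) (P.cons (P.cons (P.lf 0 74207726 0) (P.cons (P.lf 0 3628256 0) (P.cons (P.lf 242574 0 0) (P.lf 80854 0 0)))) (P.cons (P.cons (P.lf 0 1050646 0) (P.cons (P.lf 467506 0 0) (P.cons (P.lf 0 31252 0) P.nil))) (P.cons (P.cons (P.lf 796753 0 0) (P.cons (P.lf 18551 0 0) P.nil)) (P.cons (P.cons (P.lf 0 48775 0) P.nil) P.nil)))))) 45521)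
 (EL.cons 1 (TM.mk (P.cons (P.cons (P.lf 0 412947210 0) (P.cons (P.lf 977885 0 0) (P.cons (P.lf 0 65377 0) (P.lf 0 21791 0)))) (P.cons (P.cons (P.lf 120420193 0 0) (P.cons (P.lf 0 1494135 0) (P.cons (P.lf 99892 0 0) (P.lf 33296 0 0)))) (P.cons (P.cons (P.lf 19077371 0 0) (P.cons (P.lf 882937 0 0) (P.cons (P.lf 0 59030 0) (P.lf 0 19676 0)))) (P.cons (P.cons (P.lf 0 3587713 0) (P.cons (P.lf 0 245767 0) (P.cons (P.lf 16430 0 0) P.nil))) (P.cons (P.cons (P.lf 35536 0 0) (P.cons (P.lf 29122 0 0) P.nil)) (P.cons (P.cons (P.lf 31518 0 0) P.nil) P.nil)))))) 16140)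
 (EL.cons 5 (TM.mk (P.cons (P.cons (P.lf 48196998 0 0) (P.cons (P.lf 0 114132 0) (P.cons (P.lf 7630 0 0) (P.lf 2542 0 0)))) (P.cons (P.cons (P.lf 0 33355322 0) (P.cons (P.lf 220092 0 0) (P.cons (P.lf 0 14714 0) (P.lf 0 4904 0)))) (P.cons (P.cons (P.lf 4286568 0 0) (P.cons (P.lf 0 174980 0) (P.cons (P.lf 11698 0 0) (P.lf 3898 0 0)))) (P.cons (P.cons (P.lf 984260 0 0) (P.cons (P.lf 73314 0 0) (P.cons (P.lf 0 4900 0) P.nil))) (P.cons (P.cons (P.lf 0 187626 0) (P.cons (P.lf 0 17036 0) P.nil)) (P.cons (P.cons (P.lf 6884 0 0) P.nil) P.nil)))))) 7572)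
 EL.nil)))
noncomputable def S430_459_512_660_5 : EL := (EL.cons 0 (TM.mk (P.cons (P.cons (P.lf 2152008298 0 0) (P.cons (P.lf 0 10192204 0) (P.cons (P.lf 693486 0 0) (P.cons (P.lf 225523 0 0) (P.cons (P.lf 0 483 0) (P.cons (P.lf 35 0 0) P.nil)))))) (P.cons (P.cons (P.lf 404847900 0 0) (P.cons (P.lf 10683312 0 0) (P.cons (P.lf 0 741828 0) (P.cons (P.lf 0 234393 0) (P.cons (P.lf 1103 0 0) P.nil))))) (P.cons (P.cons (P.lf 0 62973664 0) (P.cons (P.lf 0 3330149 0) (P.cons (P.lf 249328 0 0) (P.cons (P.lf 70641 0 0) P.nil)))) (P.cons (P.cons (P.lf 0 7174209 0) (P.cons (P.lf 19585 0 0) (P.cons (P.lf 0 15403 0) P.nil))) (P.cons (P.cons (P.lf 1464691 0 0) (P.cons (P.lf 146958 0 0) P.nil)) (P.cons (P.cons (P.lf 0 1610 0) P.nil) P.nil)))))) 130448)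
 (EL.cons 1 (TM.mk (P.cons (P.cons (P.lf 0 251170948 0) (P.cons (P.lf 1189578 0 0) (P.cons (P.lf 0 80940 0) (P.cons (P.lf 0 26321 0) (P.cons (P.lf 56 0 0) (P.cons (P.lf 0 3 0) P.nil)))))) (P.cons (P.cons (P.lf 53329880 0 0) (P.cons (P.lf 0 1723265 0) (P.cons (P.lf 118993 0 0) (P.cons (P.lf 37897 0 0) (P.cons (P.lf 0 150 0) P.nil))))) (P.cons (P.cons (P.lf 21660288 0 0) (P.cons (P.lf 909840 0 0) (P.cons (P.lf 0 65257 0) (P.cons (P.lf 0 19681 0) P.nil)))) (P.cons (P.cons (P.lf 0 2618780 0) (P.cons (P.lf 0 182505 0) (P.cons (P.lf 15153 0 0) P.nil))) (P.cons (P.cons (P.lf 0 331865 0) (P.cons (P.lf 0 7209 0) P.nil)) (P.cons (P.cons (P.lf 70603 0 0) P.nil) P.nil)))))) 33920)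
 (EL.cons 5 (TM.mk (P.cons (P.cons (P.lf 29315334 0 0) (P.cons (P.lf 0 138840 0) (P.cons (P.lf 9446 0 0) (P.cons (P.lf 3072 0 0) (P.cons (P.lf 0 6 0) (P.cons (P.lf 0 0 0) P.nil)))))) (P.cons (P.cons (P.lf 0 17963724 0) (P.cons (P.lf 256728 0 0) (P.cons (P.lf 0 17670 0) (P.cons (P.lf 0 5652 0) (P.cons (P.lf 20 0 0) P.nil))))) (P.cons (P.cons (P.lf 502728 0 0) (P.cons (P.lf 0 189282 0) (P.cons (P.lf 13350 0 0) (P.cons (P.lf 4124 0 0) P.nil)))) (P.cons (P.cons (P.lf 1162332 0 0) (P.cons (P.lf 67714 0 0) (P.cons (P.lf 0 5086 0) P.nil))) (P.cons (P.cons (P.lf 0 118104 0) (P.cons (P.lf 0 9936 0) P.nil)) (P.cons (P.cons (P.lf 0 15490 0) P.nil) P.nil)))))) 10746)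
 EL.nil)))
noncomputable def S430_459_512_660_6 : EL := (EL.cons 12 (TM.mk (P.lf 8589934592 0 0) 0)
 (EL.cons 3 (TM.mk (P.cons (P.lf 3534370185 0 0) (P.cons (P.lf 52224742 0 0) (P.cons (P.lf 0 11693673 0) (P.cons (P.lf 601890 0 0) (P.cons (P.lf 0 9453 0) (P.cons (P.lf 0 851 0) P.nil)))))) 393)
 (EL.cons 7 (TM.mk (P.cons (P.lf 0 412512866 0) (P.cons (P.lf 159095655 0 0) (P.cons (P.lf 0 3768226 0) (P.cons (P.lf 0 146096 0) (P.cons (P.lf 18086 0 0) (P.cons (P.lf 0 774 0) P.nil)))))) 196)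
 EL.nil)))
noncomputable def S430_459_512_660_7 : EL := (EL.cons 12 (TM.mk (P.cons (P.cons (P.lf 5224740510 0 0) (P.cons (P.lf 0 12372544 0) (P.cons (P.lf 827192 0 0) (P.lf 275728 0 0)))) (P.cons (P.cons (P.lf 414251702 0 0) (P.cons (P.lf 14315328 0 0) (P.cons (P.lf 0 957088 0) (P.lf 0 319024 0)))) (P.cons (P.cons (P.lf 0 88393606 0) (P.cons (P.lf 0 5860112 0) (P.cons (P.lf 391792 0 0) (P.lf 130592 0 0)))) (P.cons (P.cons (P.lf 2442804 0 0) (P.cons (P.lf 958160 0 0) (P.cons (P.lf 0 64056 0) P.nil))) (P.cons (P.cons (P.lf 382650 0 0) (P.cons (P.lf 0 41760 0) P.nil)) (P.cons (P.cons (P.lf 0 41830 0) P.nil) P.nil)))))) 36066)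
 (EL.cons 3 (TM.mk (P.cons (P.cons (P.lf 2591687191 0 0) (P.cons (P.lf 10181486 0 0) (P.cons (P.lf 0 680702 0) (P.lf 0 226896 0)))) (P.cons (P.cons (P.lf 0 129374099 0) (P.cons (P.lf 0 11629776 0) (P.cons (P.lf 777538 0 0) (P.lf 259172 0 0)))) (P.cons (P.cons (P.lf 22373898 0 0) (P.cons (P.lf 4614588 0 0) (P.cons (P.lf 0 308518 0) (P.lf 0 102834 0)))) (P.cons (P.cons (P.lf 1720207 0 0) (P.cons (P.lf 0 676512 0) (P.cons (P.lf 45224 0 0) P.nil))) (P.cons (P.cons (P.lf 0 532879 0) (P.cons (P.lf 4724 0 0) P.nil)) (P.cons (P.cons (P.lf 35049 0 0) P.nil) P.nil)))))) 87456)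
 (EL.cons 7 (TM.mk (P.cons (P.cons (P.lf 1095411314 0 0) (P.cons (P.lf 47118986 0 0) (P.cons (P.lf 0 3150265 0) (P.lf 0 1050089 0)))) (P.cons (P.cons (P.lf 0 394120811 0) (P.cons (P.lf 0 35428556 0) (P.cons (P.lf 2368672 0 0) (P.lf 789558 0 0)))) (P.cons (P.cons (P.lf 0 10753871 0) (P.cons (P.lf 6964048 0 0) (P.cons (P.lf 0 465598 0) (P.lf 0 155200 0)))) (P.cons (P.cons (P.lf 4781511 0 0) (P.cons (P.lf 15076 0 0) (P.cons (P.lf 0 1007 0) P.nil))) (P.cons (P.cons (P.lf 0 227707 0) (P.cons (P.lf 0 57502 0) P.nil)) (P.cons (P.cons (P.lf 0 16333 0) P.nil) P.nil)))))) 48372)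
 (EL.cons 10 (TM.mk (P.cons (P.cons (P.lf 0 110247813 0) (P.cons (P.lf 17069130 0 0) (P.cons (P.lf 8223366 0 0) (P.cons (P.lf 0 311196 0) (P.lf 0 77799 0))))) (P.cons (P.cons (P.lf 85039521 0 0) (P.cons (P.lf 0 13166253 0) (P.cons (P.lf 0 6343083 0) (P.cons (P.lf 240039 0 0) (P.lf 60009 0 0))))) (P.cons (P.cons (P.lf 0 18412968 0) (P.cons (P.lf 2850789 0 0) (P.cons (P.lf 1373418 0 0) (P.cons (P.lf 0 51972 0) P.nil)))) (P.cons (P.cons (P.lf 698727 0 0) (P.cons (P.lf 0 108180 0) (P.cons (P.lf 0 52116 0) P.nil))) (P.cons (P.cons (P.lf 30582 0 0) (P.cons (P.lf 0 4734 0) P.nil)) (P.cons (P.cons (P.lf 0 4851 0) P.nil) P.nil)))))) 19608)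
 EL.nil))))
noncomputable def S430_459_512_660_8 : EL := (EL.cons 12 (TM.mk (P.cons (P.cons (P.lf 3177895372 0 0) (P.cons (P.lf 0 15050948 0) (P.cons (P.lf 1024082 0 0) (P.cons (P.lf 333034 0 0) (P.cons (P.lf 0 714 0) (P.cons (P.lf 52 0 0) P.nil)))))) (P.cons (P.cons (P.lf 503928784 0 0) (P.cons (P.lf 16220966 0 0) (P.cons (P.lf 0 1125732 0) (P.cons (P.lf 0 355976 0) (P.cons (P.lf 1652 0 0) P.nil))))) (P.cons (P.cons (P.lf 0 87551636 0) (P.cons (P.lf 0 5493350 0) (P.cons (P.lf 408008 0 0) (P.cons (P.lf 116970 0 0) P.nil)))) (P.cons (P.cons (P.lf 0 5553984 0) (P.cons (P.lf 298714 0 0) (P.cons (P.lf 0 42258 0) P.nil))) (P.cons (P.cons (P.lf 1610698 0 0) (P.cons (P.lf 169258 0 0) P.nil)) (P.cons (P.cons (P.lf 0 64252 0) P.nil) P.nil)))))) 148660)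
 (EL.cons 3 (TM.mk (P.cons (P.cons (P.lf 1845174401 0 0) (P.cons (P.lf 11112464 0 0) (P.cons (P.lf 0 779603 0) (P.cons (P.lf 0 242737 0) (P.cons (P.lf 1471 0 0) (P.cons (P.lf 0 106 0) P.nil)))))) (P.cons (P.cons (P.lf 0 134076245 0) (P.cons (P.lf 0 10737158 0) (P.cons (P.lf 802158 0 0) (P.cons (P.lf 228002 0 0) (P.cons (P.lf 0 3381 0) P.nil))))) (P.cons (P.cons (P.lf 0 1313729 0) (P.cons (P.lf 2391670 0 0) (P.cons (P.lf 0 242332 0) (P.cons (P.lf 0 42270 0) P.nil)))) (P.cons (P.cons (P.lf 11668073 0 0) (P.cons (P.lf 625194 0 0) (P.cons (P.lf 2526 0 0) P.nil))) (P.cons (P.cons (P.lf 0 1565434 0) (P.cons (P.lf 0 317592 0) P.nil)) (P.cons (P.cons (P.lf 0 52111 0) P.nil) P.nil)))))) 370393)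
 (EL.cons 7 (TM.mk (P.cons (P.cons (P.lf 1485157107 0 0) (P.cons (P.lf 53440936 0 0) (P.cons (P.lf 0 3707817 0) (P.cons (P.lf 0 1172943 0) (P.cons (P.lf 5404 0 0) (P.cons (P.lf 0 398 0) P.nil)))))) (P.cons (P.cons (P.lf 0 408445268 0) (P.cons (P.lf 0 32709327 0) (P.cons (P.lf 2443670 0 0) (P.cons (P.lf 694621 0 0) (P.cons (P.lf 0 10292 0) P.nil))))) (P.cons (P.cons (P.lf 0 85783137 0) (P.cons (P.lf 736697 0 0) (P.cons (P.lf 0 248954 0) (P.cons (P.lf 10282 0 0) P.nil)))) (P.cons (P.cons (P.lf 15143671 0 0) (P.cons (P.lf 2301418 0 0) (P.cons (P.lf 0 73686 0) P.nil))) (P.cons (P.cons (P.lf 422621 0 0) (P.cons (P.lf 0 294583 0) P.nil)) (P.cons (P.cons (P.lf 0 229749 0) P.nil) P.nil)))))) 276773)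
 (EL.cons 10 (TM.mk (P.cons (P.cons (P.lf 0 134114226 0) (P.cons (P.lf 21081840 0 0) (P.cons (P.lf 9933150 0 0) (P.cons (P.lf 0 406038 0) (P.cons (P.lf 0 91062 0) (P.cons (P.lf 690 0 0) P.nil)))))) (P.cons (P.cons (P.lf 92815392 0 0) (P.cons (P.lf 0 14982588 0) (P.cons (P.lf 0 6787314 0) (P.cons (P.lf 314976 0 0) (P.cons (P.lf 58596 0 0) P.nil))))) (P.cons (P.cons (P.lf 0 11927916 0) (P.cons (P.lf 2333646 0 0) (P.cons (P.lf 781758 0 0) (P.cons (P.lf 0 75792 0) P.nil)))) (P.cons (P.cons (P.lf 0 2738832 0) (P.cons (P.lf 220032 0 0) (P.cons (P.lf 249516 0 0) P.nil))) (P.cons (P.cons (P.lf 522090 0 0) (P.cons (P.lf 0 33420 0) P.nil)) (P.cons (P.cons (P.lf 0 19152 0) P.nil) P.nil)))))) 156162)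
 EL.nil))))
noncomputable def S430_459_512_660_9 : EL := (EL.cons 3 (TM.mk (P.cons (P.lf 3534370185 0 0) (P.cons (P.lf 52224742 0 0) (P.cons (P.lf 0 11693673 0) (P.cons (P.lf 601890 0 0) (P.cons (P.lf 0 9453 0) (P.cons (P.lf 0 851 0) P.nil)))))) 393)
 (EL.cons 7 (TM.mk (P.cons (P.lf 0 412512866 0) (P.cons (P.lf 159095655 0 0) (P.cons (P.lf 0 3768226 0) (P.cons (P.lf 0 146096 0) (P.cons (P.lf 18086 0 0) (P.cons (P.lf 0 774 0) P.nil)))))) 196)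
 EL.nil))
noncomputable def S430_459_512_660_10 : EL := (EL.cons 3 (TM.mk (P.cons (P.cons (P.lf 2149744783 0 0) (P.cons (P.lf 0 5090743 0) (P.cons (P.lf 340351 0 0) (P.lf 113448 0 0)))) (P.cons (P.cons (P.lf 202211038 0 0) (P.cons (P.lf 5814888 0 0) (P.cons (P.lf 0 388769 0) (P.lf 0 129586 0)))) (P.cons (P.cons (P.lf 0 40963983 0) (P.cons (P.lf 0 2307294 0) (P.cons (P.lf 154259 0 0) (P.lf 51417 0 0)))) (P.cons (P.cons (P.lf 269854 0 0) (P.cons (P.lf 338256 0 0) (P.cons (P.lf 0 22612 0) P.nil))) (P.cons (P.cons (P.lf 315902 0 0) (P.cons (P.lf 0 2362 0) P.nil)) (P.cons (P.cons (P.lf 0 25377 0) P.nil) P.nil)))))) 21281)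
 (EL.cons 7 (TM.mk (P.cons (P.cons (P.lf 0 250906762 0) (P.cons (P.lf 594164 0 0) (P.cons (P.lf 0 39724 0) (P.lf 0 13241 0)))) (P.cons (P.cons (P.lf 76874782 0 0) (P.cons (P.lf 0 916616 0) (P.cons (P.lf 61282 0 0) (P.lf 20427 0 0)))) (P.cons (P.cons (P.lf 9625351 0 0) (P.cons (P.lf 551983 0 0) (P.cons (P.lf 0 36904 0) (P.lf 0 12301 0)))) (P.cons (P.cons (P.lf 0 2025048 0) (P.cons (P.lf 0 160619 0) (P.cons (P.lf 10738 0 0) P.nil))) (P.cons (P.cons (P.lf 69599 0 0) (P.cons (P.lf 22052 0 0) P.nil)) (P.cons (P.cons (P.lf 9929 0 0) P.nil) P.nil)))))) 9236)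
 EL.nil))
noncomputable def S430_459_512_660_11 : EL := (EL.cons 3 (TM.mk (P.cons (P.cons (P.lf 1307560439 0 0) (P.cons (P.lf 0 6192784 0) (P.cons (P.lf 421363 0 0) (P.cons (P.lf 137027 0 0) (P.cons (P.lf 0 293 0) (P.cons (P.lf 20 0 0) P.nil)))))) (P.cons (P.cons (P.lf 226664779 0 0) (P.cons (P.lf 6582688 0 0) (P.cons (P.lf 0 456960 0) (P.cons (P.lf 0 144442 0) (P.cons (P.lf 675 0 0) P.nil))))) (P.cons (P.cons (P.lf 0 37285919 0) (P.cons (P.lf 0 2141156 0) (P.cons (P.lf 159638 0 0) (P.cons (P.lf 45510 0 0) P.nil)))) (P.cons (P.cons (P.lf 0 3280843 0) (P.cons (P.lf 66372 0 0) (P.cons (P.lf 0 13302 0) P.nil))) (P.cons (P.cons (P.lf 779960 0 0) (P.cons (P.lf 80088 0 0) P.nil)) (P.cons (P.cons (P.lf 0 16087 0) P.nil) P.nil)))))) 70359)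
 (EL.cons 7 (TM.mk (P.cons (P.cons (P.lf 0 152611491 0) (P.cons (P.lf 722788 0 0) (P.cons (P.lf 0 49179 0) (P.cons (P.lf 0 15993 0) (P.cons (P.lf 34 0 0) (P.cons (P.lf 0 2 0) P.nil)))))) (P.cons (P.cons (P.lf 34658266 0 0) (P.cons (P.lf 0 1057737 0) (P.cons (P.lf 73028 0 0) (P.cons (P.lf 23263 0 0) (P.cons (P.lf 0 92 0) P.nil))))) (P.cons (P.cons (P.lf 12143751 0 0) (P.cons (P.lf 570839 0 0) (P.cons (P.lf 0 40892 0) (P.cons (P.lf 0 12356 0) P.nil)))) (P.cons (P.cons (P.lf 0 1629953 0) (P.cons (P.lf 0 122948 0) (P.cons (P.lf 10062 0 0) P.nil))) (P.cons (P.cons (P.lf 0 143689 0) (P.cons (P.lf 0 493 0) P.nil)) (P.cons (P.cons (P.lf 37617 0 0) P.nil) P.nil)))))) 19297)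
 EL.nil))
noncomputable def S430_459_512_660_12 : EL := (EL.cons 4 (TM.mk (P.cons (P.lf 0 3534370185 0) (P.cons (P.lf 0 52224742 0) (P.cons (P.lf 11693673 0 0) (P.cons (P.lf 0 601890 0) (P.cons (P.lf 9453 0 0) (P.cons (P.lf 851 0 0) P.nil)))))) 393)
 (EL.cons 8 (TM.mk (P.cons (P.lf 412512866 0 0) (P.cons (P.lf 0 159095655 0) (P.cons (P.lf 3768226 0 0) (P.cons (P.lf 146096 0 0) (P.cons (P.lf 0 18086 0) (P.cons (P.lf 774 0 0) P.nil)))))) 196)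
 EL.nil))
noncomputable def S430_459_512_660_13 : EL := (EL.cons 4 (TM.mk (P.cons (P.cons (P.lf 0 2149744783 0) (P.cons (P.lf 5090743 0 0) (P.cons (P.lf 0 340351 0) (P.lf 0 113448 0)))) (P.cons (P.cons (P.lf 0 202211038 0) (P.cons (P.lf 0 5814888 0) (P.cons (P.lf 388769 0 0) (P.lf 129586 0 0)))) (P.cons (P.cons (P.lf 40963983 0 0) (P.cons (P.lf 2307294 0 0) (P.cons (P.lf 0 154259 0) (P.lf 0 51417 0)))) (P.cons (P.cons (P.lf 0 269854 0) (P.cons (P.lf 0 338256 0) (P.cons (P.lf 22612 0 0) P.nil))) (P.cons (P.cons (P.lf 0 315902 0) (P.cons (P.lf 2362 0 0) P.nil)) (P.cons (P.cons (P.lf 25377 0 0) P.nil) P.nil)))))) 21281)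
 (EL.cons 8 (TM.mk (P.cons (P.cons (P.lf 250906762 0 0) (P.cons (P.lf 0 594164 0) (P.cons (P.lf 39724 0 0) (P.lf 13241 0 0)))) (P.cons (P.cons (P.lf 0 76874782 0) (P.cons (P.lf 916616 0 0) (P.cons (P.lf 0 61282 0) (P.lf 0 20427 0)))) (P.cons (P.cons (P.lf 0 9625351 0) (P.cons (P.lf 0 551983 0) (P.cons (P.lf 36904 0 0) (P.lf 12301 0 0)))) (P.cons (P.cons (P.lf 2025048 0 0) (P.cons (P.lf 160619 0 0) (P.cons (P.lf 0 10738 0) P.nil))) (P.cons (P.cons (P.lf 0 69599 0) (P.cons (P.lf 0 22052 0) P.nil)) (P.cons (P.cons (P.lf 0 9929 0) P.nil) P.nil)))))) 9236)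
 EL.nil))
noncomputable def S430_459_512_660_14 : EL := (EL.cons 4 (TM.mk (P.cons (P.cons (P.lf 0 1307560439 0) (P.cons (P.lf 6192784 0 0) (P.cons (P.lf 0 421363 0) (P.cons (P.lf 0 137027 0) (P.cons (P.lf 293 0 0) (P.cons (P.lf 0 20 0) P.nil)))))) (P.cons (P.cons (P.lf 0 226664779 0) (P.cons (P.lf 0 6582688 0) (P.cons (P.lf 456960 0 0) (P.cons (P.lf 144442 0 0) (P.cons (P.lf 0 675 0) P.nil))))) (P.cons (P.cons (P.lf 37285919 0 0) (P.cons (P.lf 2141156 0 0) (P.cons (P.lf 0 159638 0) (P.cons (P.lf 0 45510 0) P.nil)))) (P.cons (P.cons (P.lf 3280843 0 0) (P.cons (P.lf 0 66372 0) (P.cons (P.lf 13302 0 0) P.nil))) (P.cons (P.cons (P.lf 0 779960 0) (P.cons (P.lf 0 80088 0) P.nil)) (P.cons (P.cons (P.lf 16087 0 0) P.nil) P.nil)))))) 70359)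
 (EL.cons 8 (TM.mk (P.cons (P.cons (P.lf 152611491 0 0) (P.cons (P.lf 0 722788 0) (P.cons (P.lf 49179 0 0) (P.cons (P.lf 15993 0 0) (P.cons (P.lf 0 34 0) (P.cons (P.lf 2 0 0) P.nil)))))) (P.cons (P.cons (P.lf 0 34658266 0) (P.cons (P.lf 1057737 0 0) (P.cons (P.lf 0 73028 0) (P.cons (P.lf 0 23263 0) (P.cons (P.lf 92 0 0) P.nil))))) (P.cons (P.cons (P.lf 0 12143751 0) (P.cons (P.lf 0 570839 0) (P.cons (P.lf 40892 0 0) (P.cons (P.lf 12356 0 0) P.nil)))) (P.cons (P.cons (P.lf 1629953 0 0) (P.cons (P.lf 122948 0 0) (P.cons (P.lf 0 10062 0) P.nil))) (P.cons (P.cons (P.lf 143689 0 0) (P.cons (P.lf 493 0 0) P.nil)) (P.cons (P.cons (P.lf 0 37617 0) P.nil) P.nil)))))) 19297)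
 EL.nil))
noncomputable def S430_459_512_660_15 : EL := (EL.cons 4 (TM.mk (P.cons (P.lf 0 3102365285 0) (P.cons (P.lf 0 91682658 0) (P.cons (P.lf 19851356 0 0) (P.cons (P.lf 0 753304 0) (P.cons (P.lf 0 32976 0) (P.cons (P.lf 5235 0 0) P.nil)))))) 878)
 (EL.cons 8 (TM.mk (P.cons (P.lf 362091554 0 0) (P.cons (P.lf 0 134299089 0) (P.cons (P.lf 46140 0 0) (P.cons (P.lf 700814 0 0) (P.cons (P.lf 0 49674 0) (P.cons (P.lf 870 0 0) P.nil)))))) 370)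
 EL.nil))
noncomputable def S430_459_512_660_16 : EL := (EL.cons 4 (TM.mk (P.cons (P.cons (P.lf 0 1886982189 0) (P.cons (P.lf 4468502 0 0) (P.cons (P.lf 0 298750 0) (P.lf 0 99582 0)))) (P.cons (P.cons (P.lf 0 205377372 0) (P.cons (P.lf 0 5038109 0) (P.cons (P.lf 336835 0 0) (P.lf 112275 0 0)))) (P.cons (P.cons (P.lf 39577454 0 0) (P.cons (P.lf 1935070 0 0) (P.cons (P.lf 0 129373 0) (P.lf 0 43122 0)))) (P.cons (P.cons (P.lf 560344 0 0) (P.cons (P.lf 0 249336 0) (P.cons (P.lf 16667 0 0) P.nil))) (P.cons (P.cons (P.lf 0 424935 0) (P.cons (P.lf 0 9894 0) P.nil)) (P.cons (P.cons (P.lf 26013 0 0) P.nil) P.nil)))))) 24287)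
 (EL.cons 8 (TM.mk (P.cons (P.cons (P.lf 220238512 0 0) (P.cons (P.lf 0 521539 0) (P.cons (P.lf 34868 0 0) (P.lf 11622 0 0)))) (P.cons (P.cons (P.lf 0 64224103 0) (P.cons (P.lf 796872 0 0) (P.cons (P.lf 0 53276 0) (P.lf 0 17758 0)))) (P.cons (P.cons (P.lf 0 10174598 0) (P.cons (P.lf 0 470900 0) (P.cons (P.lf 31483 0 0) (P.lf 10494 0 0)))) (P.cons (P.cons (P.lf 1913447 0 0) (P.cons (P.lf 131076 0 0) (P.cons (P.lf 0 8763 0) P.nil))) (P.cons (P.cons (P.lf 0 18953 0) (P.cons (P.lf 0 15532 0) P.nil)) (P.cons (P.cons (P.lf 0 16810 0) P.nil) P.nil)))))) 8598)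
 EL.nil))
noncomputable def S430_459_512_660_17 : EL := (EL.cons 4 (TM.mk (P.cons (P.cons (P.lf 0 1147737759 0) (P.cons (P.lf 5435842 0 0) (P.cons (P.lf 0 369859 0) (P.cons (P.lf 0 120279 0) (P.cons (P.lf 257 0 0) (P.cons (P.lf 0 18 0) P.nil)))))) (P.cons (P.cons (P.lf 0 215918880 0) (P.cons (P.lf 0 5697766 0) (P.cons (P.lf 395641 0 0) (P.cons (P.lf 125010 0 0) (P.cons (P.lf 0 588 0) P.nil))))) (P.cons (P.cons (P.lf 33585954 0 0) (P.cons (P.lf 1776079 0 0) (P.cons (P.lf 0 132975 0) (P.cons (P.lf 0 37675 0) P.nil)))) (P.cons (P.cons (P.lf 3826245 0 0) (P.cons (P.lf 0 10445 0) (P.cons (P.lf 8215 0 0) P.nil))) (P.cons (P.cons (P.lf 0 781169 0) (P.cons (P.lf 0 78377 0) P.nil)) (P.cons (P.cons (P.lf 858 0 0) P.nil) P.nil)))))) 69582)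
 (EL.cons 8 (TM.mk (P.cons (P.cons (P.lf 133957839 0 0) (P.cons (P.lf 0 634442 0) (P.cons (P.lf 43168 0 0) (P.cons (P.lf 14038 0 0) (P.cons (P.lf 0 30 0) (P.cons (P.lf 2 0 0) P.nil)))))) (P.cons (P.cons (P.lf 0 28442603 0) (P.cons (P.lf 919075 0 0) (P.cons (P.lf 0 63463 0) (P.cons (P.lf 0 20212 0) (P.cons (P.lf 80 0 0) P.nil))))) (P.cons (P.cons (P.lf 0 11552154 0) (P.cons (P.lf 0 485248 0) (P.cons (P.lf 34804 0 0) (P.cons (P.lf 10497 0 0) P.nil)))) (P.cons (P.cons (P.lf 1396683 0 0) (P.cons (P.lf 97336 0 0) (P.cons (P.lf 0 8082 0) P.nil))) (P.cons (P.cons (P.lf 176995 0 0) (P.cons (P.lf 3845 0 0) P.nil)) (P.cons (P.cons (P.lf 0 37655 0) P.nil) P.nil)))))) 18079)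
 EL.nil))
noncomputable def S430_459_512_660_18 : EL := (EL.cons 4 (TM.mk (P.cons (P.lf 0 2723164202 0) (P.cons (P.lf 0 120714476 0) (P.cons (P.lf 25245543 0 0) (P.cons (P.lf 0 601236 0) (P.cons (P.lf 0 102788 0) (P.cons (P.lf 10193 0 0) P.nil)))))) 1470)
 (EL.cons 8 (TM.mk (P.cons (P.lf 317833223 0 0) (P.cons (P.lf 0 113187372 0) (P.cons (P.lf 0 2752949 0) (P.cons (P.lf 1059903 0 0) (P.cons (P.lf 0 55572 0) (P.cons (P.lf 0 1670 0) P.nil)))))) 673)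
 EL.nil))
noncomputable def S430_459_512_660_19 : EL := (EL.cons 4 (TM.mk (P.cons (P.cons (P.lf 0 1656336979 0) (P.cons (P.lf 3922319 0 0) (P.cons (P.lf 0 262234 0) (P.lf 0 87410 0)))) (P.cons (P.cons (P.lf 0 204748615 0) (P.cons (P.lf 0 4364345 0) (P.cons (P.lf 291789 0 0) (P.lf 97260 0 0)))) (P.cons (P.cons (P.lf 37556227 0 0) (P.cons (P.lf 1620225 0 0) (P.cons (P.lf 0 108323 0) (P.lf 0 36105 0)))) (P.cons (P.cons (P.lf 1319559 0 0) (P.cons (P.lf 0 178463 0) (P.cons (P.lf 11929 0 0) P.nil))) (P.cons (P.cons (P.lf 0 506936 0) (P.cons (P.lf 0 18302 0) P.nil)) (P.cons (P.cons (P.lf 22492 0 0) P.nil) P.nil)))))) 26680)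
 (EL.cons 8 (TM.mk (P.cons (P.cons (P.lf 193318831 0 0) (P.cons (P.lf 0 457792 0) (P.cons (P.lf 30606 0 0) (P.lf 10202 0 0)))) (P.cons (P.cons (P.lf 0 53517485 0) (P.cons (P.lf 692706 0 0) (P.cons (P.lf 0 46312 0) (P.lf 0 15437 0)))) (P.cons (P.cons (P.lf 0 10403563 0) (P.cons (P.lf 0 401492 0) (P.cons (P.lf 26842 0 0) (P.lf 8947 0 0)))) (P.cons (P.cons (P.lf 1767039 0 0) (P.cons (P.lf 106555 0 0) (P.cons (P.lf 0 7123 0) P.nil))) (P.cons (P.cons (P.lf 27611 0 0) (P.cons (P.lf 0 10446 0) P.nil)) (P.cons (P.cons (P.lf 0 21975 0) P.nil) P.nil)))))) 8732)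
 EL.nil))
noncomputable def S430_459_512_660_20 : EL := (EL.cons 4 (TM.mk (P.cons (P.cons (P.lf 0 1007450152 0) (P.cons (P.lf 4771421 0 0) (P.cons (P.lf 0 324651 0) (P.cons (P.lf 0 105577 0) (P.cons (P.lf 225 0 0) (P.cons (P.lf 0 15 0) P.nil)))))) (P.cons (P.cons (P.lf 0 204413523 0) (P.cons (P.lf 0 4930827 0) (P.cons (P.lf 342485 0 0) (P.cons (P.lf 108170 0 0) (P.cons (P.lf 0 512 0) P.nil))))) (P.cons (P.cons (P.lf 30013461 0 0) (P.cons (P.lf 1469302 0 0) (P.cons (P.lf 0 110515 0) (P.cons (P.lf 0 31099 0) P.nil)))) (P.cons (P.cons (P.lf 4249677 0 0) (P.cons (P.lf 31226 0 0) (P.cons (P.lf 4282 0 0) P.nil))) (P.cons (P.cons (P.lf 0 763179 0) (P.cons (P.lf 0 74955 0) P.nil)) (P.cons (P.cons (P.lf 0 14719 0) P.nil) P.nil)))))) 68209)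
 (EL.cons 8 (TM.mk (P.cons (P.cons (P.lf 117584216 0 0) (P.cons (P.lf 0 556894 0) (P.cons (P.lf 37891 0 0) (P.cons (P.lf 12322 0 0) (P.cons (P.lf 0 26 0) (P.cons (P.lf 1 0 0) P.nil)))))) (P.cons (P.cons (P.lf 0 23228619 0) (P.cons (P.lf 798508 0 0) (P.cons (P.lf 0 55146 0) (P.cons (P.lf 0 17559 0) (P.cons (P.lf 70 0 0) P.nil))))) (P.cons (P.cons (P.lf 0 10898078 0) (P.cons (P.lf 0 412173 0) (P.cons (P.lf 29601 0 0) (P.cons (P.lf 8911 0 0) P.nil)))) (P.cons (P.cons (P.lf 1178760 0 0) (P.cons (P.lf 76381 0 0) (P.cons (P.lf 0 6452 0) P.nil))) (P.cons (P.cons (P.lf 202459 0 0) (P.cons (P.lf 6185 0 0) P.nil)) (P.cons (P.cons (P.lf 0 36502 0) P.nil) P.nil)))))) 16629)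
 EL.nil))
noncomputable def S430_459_512_660_21 : EL := (EL.cons 4 (TM.mk (P.cons (P.cons (P.lf 0 441942408 0) (P.cons (P.lf 0 15272229 0) (P.cons (P.lf 1021053 0 0) (P.lf 340344 0 0)))) (P.cons (P.cons (P.lf 331585137 0 0) (P.cons (P.lf 17444664 0 0) (P.cons (P.lf 0 1166307 0) (P.lf 0 388758 0)))) (P.cons (P.cons (P.lf 0 63337881 0) (P.cons (P.lf 0 6921882 0) (P.cons (P.lf 462777 0 0) (P.lf 154251 0 0)))) (P.cons (P.cons (P.lf 0 1450353 0) (P.cons (P.lf 1014768 0 0) (P.cons (P.lf 0 67836 0) P.nil))) (P.cons (P.cons (P.lf 848781 0 0) (P.cons (P.lf 0 7086 0) P.nil)) (P.cons (P.cons (P.lf 0 60426 0) P.nil) P.nil)))))) 66156)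
 (EL.cons 8 (TM.mk (P.cons (P.cons (P.lf 0 1346318076 0) (P.cons (P.lf 0 46524822 0) (P.cons (P.lf 3110541 0 0) (P.lf 1036848 0 0)))) (P.cons (P.cons (P.lf 470995593 0 0) (P.cons (P.lf 34511940 0 0) (P.cons (P.lf 0 2307390 0) (P.lf 0 769131 0)))) (P.cons (P.cons (P.lf 20379222 0 0) (P.cons (P.lf 0 6412065 0) (P.cons (P.lf 428694 0 0) (P.lf 142899 0 0)))) (P.cons (P.cons (P.lf 0 6806559 0) (P.cons (P.lf 0 175695 0) (P.cons (P.lf 11745 0 0) P.nil))) (P.cons (P.cons (P.lf 297306 0 0) (P.cons (P.lf 79554 0 0) P.nil)) (P.cons (P.cons (P.lf 26262 0 0) P.nil) P.nil)))))) 39117)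
 (EL.cons 11 (TM.mk (P.cons (P.cons (P.lf 110247813 0 0) (P.cons (P.lf 0 17069130 0) (P.cons (P.lf 0 8223366 0) (P.cons (P.lf 311196 0 0) (P.lf 77799 0 0))))) (P.cons (P.cons (P.lf 0 85039521 0) (P.cons (P.lf 13166253 0 0) (P.cons (P.lf 6343083 0 0) (P.cons (P.lf 0 240039 0) (P.lf 0 60009 0))))) (P.cons (P.cons (P.lf 18412968 0 0) (P.cons (P.lf 0 2850789 0) (P.cons (P.lf 0 1373418 0) (P.cons (P.lf 51972 0 0) P.nil)))) (P.cons (P.cons (P.lf 0 698727 0) (P.cons (P.lf 108180 0 0) (P.cons (P.lf 52116 0 0) P.nil))) (P.cons (P.cons (P.lf 0 30582 0) (P.cons (P.lf 4734 0 0) P.nil)) (P.cons (P.cons (P.lf 4851 0 0) P.nil) P.nil)))))) 19608)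
 EL.nil)))
noncomputable def S430_459_512_660_22 : EL := (EL.cons 4 (TM.mk (P.cons (P.cons (P.lf 0 268806981 0) (P.cons (P.lf 0 8652624 0) (P.cons (P.lf 600483 0 0) (P.cons (P.lf 189882 0 0) (P.cons (P.lf 0 882 0) (P.cons (P.lf 63 0 0) P.nil)))))) (P.cons (P.cons (P.lf 180370512 0 0) (P.cons (P.lf 8659923 0 0) (P.cons (P.lf 0 629559 0) (P.cons (P.lf 0 186222 0) (P.cons (P.lf 2028 0 0) P.nil))))) (P.cons (P.cons (P.lf 0 17986095 0) (P.cons (P.lf 0 2266413 0) (P.cons (P.lf 200985 0 0) (P.cons (P.lf 43890 0 0) P.nil)))) (P.cons (P.cons (P.lf 0 7474458 0) (P.cons (P.lf 0 279411 0) (P.cons (P.lf 0 7914 0) P.nil))) (P.cons (P.cons (P.lf 1172697 0 0) (P.cons (P.lf 198840 0 0) P.nil)) (P.cons (P.cons (P.lf 18012 0 0) P.nil) P.nil)))))) 150006)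
 (EL.cons 8 (TM.mk (P.cons (P.cons (P.lf 0 818884299 0) (P.cons (P.lf 0 26359074 0) (P.cons (P.lf 1829319 0 0) (P.cons (P.lf 578475 0 0) (P.cons (P.lf 0 2685 0) (P.cons (P.lf 198 0 0) P.nil)))))) (P.cons (P.cons (P.lf 221551767 0 0) (P.cons (P.lf 15825795 0 0) (P.cons (P.lf 0 1185321 0) (P.cons (P.lf 0 335679 0) (P.cons (P.lf 5100 0 0) P.nil))))) (P.cons (P.cons (P.lf 48963444 0 0) (P.cons (P.lf 0 82929 0) (P.cons (P.lf 104031 0 0) (P.cons (P.lf 0 11319 0) P.nil)))) (P.cons (P.cons (P.lf 0 8386812 0) (P.cons (P.lf 0 1212183 0) (P.cons (P.lf 41874 0 0) P.nil))) (P.cons (P.cons (P.lf 0 283155 0) (P.cons (P.lf 147045 0 0) P.nil)) (P.cons (P.cons (P.lf 133683 0 0) P.nil) P.nil)))))) 128727)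
 (EL.cons 11 (TM.mk (P.cons (P.cons (P.lf 67057113 0 0) (P.cons (P.lf 0 10540920 0) (P.cons (P.lf 0 4966575 0) (P.cons (P.lf 203019 0 0) (P.cons (P.lf 45531 0 0) (P.cons (P.lf 0 345 0) P.nil)))))) (P.cons (P.cons (P.lf 0 46407696 0) (P.cons (P.lf 7491294 0 0) (P.cons (P.lf 3393657 0 0) (P.cons (P.lf 0 157488 0) (P.cons (P.lf 0 29298 0) P.nil))))) (P.cons (P.cons (P.lf 5963958 0 0) (P.cons (P.lf 0 1166823 0) (P.cons (P.lf 0 390879 0) (P.cons (P.lf 37896 0 0) P.nil)))) (P.cons (P.cons (P.lf 1369416 0 0) (P.cons (P.lf 0 110016 0) (P.cons (P.lf 0 124758 0) P.nil))) (P.cons (P.cons (P.lf 0 261045 0) (P.cons (P.lf 16710 0 0) P.nil)) (P.cons (P.cons (P.lf 9576 0 0) P.nil) P.nil)))))) 78081)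
 EL.nil)))
noncomputable def S430_459_512_660_23 : EL := (EL.cons 4 (TM.mk (P.cons (P.cons (P.lf 0 387923931 0) (P.cons (P.lf 0 13405509 0) (P.cons (P.lf 896250 0 0) (P.lf 298743 0 0)))) (P.cons (P.cons (P.lf 285323532 0 0) (P.cons (P.lf 15114324 0 0) (P.cons (P.lf 0 1010505 0) (P.lf 0 336825 0)))) (P.cons (P.cons (P.lf 0 50011932 0) (P.cons (P.lf 0 5805207 0) (P.cons (P.lf 388119 0 0) (P.lf 129366 0 0)))) (P.cons (P.cons (P.lf 0 3123615 0) (P.cons (P.lf 748008 0 0) (P.cons (P.lf 0 50001 0) P.nil))) (P.cons (P.cons (P.lf 960768 0 0) (P.cons (P.lf 29685 0 0) P.nil)) (P.cons (P.cons (P.lf 0 47970 0) P.nil) P.nil)))))) 73995)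
 (EL.cons 8 (TM.mk (P.cons (P.cons (P.lf 0 1181758062 0) (P.cons (P.lf 0 40838106 0) (P.cons (P.lf 2730339 0 0) (P.lf 910113 0 0)))) (P.cons (P.cons (P.lf 395964003 0 0) (P.cons (P.lf 29690121 0 0) (P.cons (P.lf 0 1985013 0) (P.lf 0 661671 0)))) (P.cons (P.cons (P.lf 27907077 0 0) (P.cons (P.lf 0 5045577 0) (P.cons (P.lf 337332 0 0) (P.lf 112443 0 0)))) (P.cons (P.cons (P.lf 0 7279365 0) (P.cons (P.lf 0 344565 0) (P.cons (P.lf 23034 0 0) P.nil))) (P.cons (P.cons (P.lf 187065 0 0) (P.cons (P.lf 91440 0 0) P.nil)) (P.cons (P.cons (P.lf 48900 0 0) P.nil) P.nil)))))) 47262)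
 (EL.cons 11 (TM.mk (P.cons (P.cons (P.lf 96772257 0 0) (P.cons (P.lf 0 14982774 0) (P.cons (P.lf 0 7218225 0) (P.cons (P.lf 273156 0 0) (P.lf 68289 0 0))))) (P.cons (P.cons (P.lf 0 73215237 0) (P.cons (P.lf 11335554 0 0) (P.cons (P.lf 5461110 0 0) (P.cons (P.lf 0 206661 0) (P.lf 0 51663 0))))) (P.cons (P.cons (P.lf 14739204 0 0) (P.cons (P.lf 0 2281998 0) (P.cons (P.lf 0 1099392 0) (P.cons (P.lf 41601 0 0) P.nil)))) (P.cons (P.cons (P.lf 0 111054 0) (P.cons (P.lf 17193 0 0) (P.cons (P.lf 8280 0 0) P.nil))) (P.cons (P.cons (P.lf 0 102351 0) (P.cons (P.lf 15843 0 0) P.nil)) (P.cons (P.cons (P.lf 8817 0 0) P.nil) P.nil)))))) 27663)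
 EL.nil)))
noncomputable def S430_459_512_660_24 : EL := (EL.cons 4 (TM.mk (P.cons (P.cons (P.lf 0 235950792 0) (P.cons (P.lf 0 7595016 0) (P.cons (P.lf 527085 0 0) (P.cons (P.lf 166674 0 0) (P.cons (P.lf 0 774 0) (P.cons (P.lf 57 0 0) P.nil)))))) (P.cons (P.cons (P.lf 154837413 0 0) (P.cons (P.lf 7489197 0 0) (P.cons (P.lf 0 544818 0) (P.cons (P.lf 0 160998 0) (P.cons (P.lf 1767 0 0) P.nil))))) (P.cons (P.cons (P.lf 0 12667572 0) (P.cons (P.lf 0 1851942 0) (P.cons (P.lf 166509 0 0) (P.cons (P.lf 35559 0 0) P.nil)))) (P.cons (P.cons (P.lf 0 7358145 0) (P.cons (P.lf 0 301098 0) (P.cons (P.lf 0 2421 0) P.nil))) (P.cons (P.cons (P.lf 1012242 0 0) (P.cons (P.lf 178809 0 0) P.nil)) (P.cons (P.cons (P.lf 49674 0 0) P.nil) P.nil)))))) 137439)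
 (EL.cons 8 (TM.mk (P.cons (P.cons (P.lf 0 718792344 0) (P.cons (P.lf 0 23137215 0) (P.cons (P.lf 1605720 0 0) (P.cons (P.lf 507768 0 0) (P.cons (P.lf 0 2358 0) (P.cons (P.lf 174 0 0) P.nil)))))) (P.cons (P.cons (P.lf 183850512 0 0) (P.cons (P.lf 13549530 0 0) (P.cons (P.lf 0 1016712 0) (P.cons (P.lf 0 287145 0) (P.cons (P.lf 4443 0 0) P.nil))))) (P.cons (P.cons (P.lf 48230385 0 0) (P.cons (P.lf 209019 0 0) (P.cons (P.lf 70629 0 0) (P.cons (P.lf 0 15969 0) P.nil)))) (P.cons (P.cons (P.lf 0 7492458 0) (P.cons (P.lf 0 1114995 0) (P.cons (P.lf 41820 0 0) P.nil))) (P.cons (P.cons (P.lf 0 464481 0) (P.cons (P.lf 116019 0 0) P.nil)) (P.cons (P.cons (P.lf 144999 0 0) P.nil) P.nil)))))) 116694)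
 (EL.cons 11 (TM.mk (P.cons (P.cons (P.lf 58860744 0 0) (P.cons (P.lf 0 9252507 0) (P.cons (P.lf 0 4359513 0) (P.cons (P.lf 178206 0 0) (P.cons (P.lf 39966 0 0) (P.cons (P.lf 0 303 0) P.nil)))))) (P.cons (P.cons (P.lf 0 39865557 0) (P.cons (P.lf 6438918 0 0) (P.cons (P.lf 2914434 0 0) (P.cons (P.lf 0 135603 0) (P.cons (P.lf 0 25128 0) P.nil))))) (P.cons (P.cons (P.lf 4438326 0 0) (P.cons (P.lf 0 896427 0) (P.cons (P.lf 0 284661 0) (P.cons (P.lf 30633 0 0) P.nil)))) (P.cons (P.cons (P.lf 1424184 0 0) (P.cons (P.lf 0 135033 0) (P.cons (P.lf 0 125175 0) P.nil))) (P.cons (P.cons (P.lf 0 235791 0) (P.cons (P.lf 17775 0 0) P.nil)) (P.cons (P.cons (P.lf 2028 0 0) P.nil) P.nil)))))) 70926)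
 EL.nil)))
noncomputable def S430_459_512_660_25 : EL := (EL.cons 4 (TM.mk (P.cons (P.cons (P.lf 0 340508118 0) (P.cons (P.lf 0 11766957 0) (P.cons (P.lf 786699 0 0) (P.lf 262227 0 0)))) (P.cons (P.cons (P.lf 245417097 0 0) (P.cons (P.lf 13093032 0 0) (P.cons (P.lf 0 875367 0) (P.lf 0 291780 0)))) (P.cons (P.cons (P.lf 0 39071706 0) (P.cons (P.lf 0 4860672 0) (P.cons (P.lf 324969 0 0) (P.lf 108315 0 0)))) (P.cons (P.cons (P.lf 0 4277088 0) (P.cons (P.lf 535386 0 0) (P.cons (P.lf 0 35787 0) P.nil))) (P.cons (P.cons (P.lf 991623 0 0) (P.cons (P.lf 54909 0 0) P.nil)) (P.cons (P.cons (P.lf 0 28638 0) P.nil) P.nil)))))) 78231)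
 (EL.cons 8 (TM.mk (P.cons (P.cons (P.lf 0 1037312163 0) (P.cons (P.lf 0 35846478 0) (P.cons (P.lf 2396610 0 0) (P.lf 798870 0 0)))) (P.cons (P.cons (P.lf 332237868 0 0) (P.cons (P.lf 25531431 0 0) (P.cons (P.lf 0 1706973 0) (P.lf 0 568989 0)))) (P.cons (P.cons (P.lf 33063729 0 0) (P.cons (P.lf 0 3925173 0) (P.cons (P.lf 262425 0 0) (P.lf 87474 0 0)))) (P.cons (P.cons (P.lf 0 7354242 0) (P.cons (P.lf 0 460221 0) (P.cons (P.lf 30768 0 0) P.nil))) (P.cons (P.cons (P.lf 50703 0 0) (P.cons (P.lf 94980 0 0) P.nil)) (P.cons (P.cons (P.lf 69981 0 0) P.nil) P.nil)))))) 52017)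
 (EL.cons 11 (TM.mk (P.cons (P.cons (P.lf 84943818 0 0) (P.cons (P.lf 0 13151436 0) (P.cons (P.lf 0 6335943 0) (P.cons (P.lf 239769 0 0) (P.lf 59940 0 0))))) (P.cons (P.cons (P.lf 0 63011010 0) (P.cons (P.lf 9755685 0 0) (P.cons (P.lf 4699980 0 0) (P.cons (P.lf 0 177858 0) (P.lf 0 44463 0))))) (P.cons (P.cons (P.lf 11706981 0 0) (P.cons (P.lf 0 1812534 0) (P.cons (P.lf 0 873219 0) (P.cons (P.lf 33042 0 0) P.nil)))) (P.cons (P.cons (P.lf 320781 0 0) (P.cons (P.lf 0 49665 0) (P.cons (P.lf 0 23928 0) P.nil))) (P.cons (P.cons (P.lf 0 145257 0) (P.cons (P.lf 22488 0 0) P.nil)) (P.cons (P.cons (P.lf 9090 0 0) P.nil) P.nil)))))) 32517)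
 EL.nil)))
noncomputable def S430_459_512_660_26 : EL := (EL.cons 4 (TM.mk (P.cons (P.cons (P.lf 0 207110604 0) (P.cons (P.lf 0 6666678 0) (P.cons (P.lf 462660 0 0) (P.cons (P.lf 146301 0 0) (P.cons (P.lf 0 678 0) (P.cons (P.lf 48 0 0) P.nil)))))) (P.cons (P.cons (P.lf 132851370 0 0) (P.cons (P.lf 6475287 0 0) (P.cons (P.lf 0 471390 0) (P.cons (P.lf 0 139158 0) (P.cons (P.lf 1542 0 0) P.nil))))) (P.cons (P.cons (P.lf 0 8425716 0) (P.cons (P.lf 0 1506387 0) (P.cons (P.lf 137559 0 0) (P.cons (P.lf 28638 0 0) P.nil)))) (P.cons (P.cons (P.lf 0 7108005 0) (P.cons (P.lf 0 311199 0) (P.cons (P.lf 1692 0 0) P.nil))) (P.cons (P.cons (P.lf 853566 0 0) (P.cons (P.lf 159564 0 0) P.nil)) (P.cons (P.cons (P.lf 75891 0 0) P.nil) P.nil)))))) 130665)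
 (EL.cons 8 (TM.mk (P.cons (P.cons (P.lf 0 630934593 0) (P.cons (P.lf 0 20309160 0) (P.cons (P.lf 1409454 0 0) (P.cons (P.lf 445704 0 0) (P.cons (P.lf 0 2070 0) (P.cons (P.lf 153 0 0) P.nil)))))) (P.cons (P.cons (P.lf 152055675 0 0) (P.cons (P.lf 11593284 0 0) (P.cons (P.lf 0 871614 0) (P.cons (P.lf 0 245463 0) (P.cons (P.lf 3870 0 0) P.nil))))) (P.cons (P.cons (P.lf 46807254 0 0) (P.cons (P.lf 426405 0 0) (P.cons (P.lf 44148 0 0) (P.cons (P.lf 0 19215 0) P.nil)))) (P.cons (P.cons (P.lf 0 6592479 0) (P.cons (P.lf 0 1018806 0) (P.cons (P.lf 40818 0 0) P.nil))) (P.cons (P.cons (P.lf 0 615783 0) (P.cons (P.lf 88848 0 0) P.nil)) (P.cons (P.cons (P.lf 149940 0 0) P.nil) P.nil)))))) 112707)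
 (EL.cons 11 (TM.mk (P.cons (P.cons (P.lf 51666213 0 0) (P.cons (P.lf 0 8121576 0) (P.cons (P.lf 0 3826650 0) (P.cons (P.lf 156423 0 0) (P.cons (P.lf 35079 0 0) (P.cons (P.lf 0 264 0) P.nil)))))) (P.cons (P.cons (P.lf 0 34229370 0) (P.cons (P.lf 5531883 0 0) (P.cons (P.lf 2501661 0 0) (P.cons (P.lf 0 116718 0) (P.cons (P.lf 0 21537 0) P.nil))))) (P.cons (P.cons (P.lf 3207825 0 0) (P.cons (P.lf 0 676470 0) (P.cons (P.lf 0 199407 0) (P.cons (P.lf 24612 0 0) P.nil)))) (P.cons (P.cons (P.lf 1432248 0 0) (P.cons (P.lf 0 150237 0) (P.cons (P.lf 0 122682 0) P.nil))) (P.cons (P.cons (P.lf 0 207486 0) (P.cons (P.lf 17439 0 0) P.nil)) (P.cons (P.cons (P.lf 0 4665 0) P.nil) P.nil)))))) 67890)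
 EL.nil)))
noncomputable def S430_459_512_660_27 : EL := (EL.cons 13 (TM.mk (P.lf 0 4294967296 0) 0)
 EL.nil)
noncomputable def S430_459_512_660_28 : EL := (EL.cons 13 (TM.mk (P.cons (P.cons (P.lf 0 2612370255 0) (P.cons (P.lf 6186272 0 0) (P.cons (P.lf 0 413596 0) (P.lf 0 137864 0)))) (P.cons (P.cons (P.lf 0 207125851 0) (P.cons (P.lf 0 7157664 0) (P.cons (P.lf 478544 0 0) (P.lf 159512 0 0)))) (P.cons (P.cons (P.lf 44196803 0 0) (P.cons (P.lf 2930056 0 0) (P.cons (P.lf 0 195896 0) (P.lf 0 65296 0)))) (P.cons (P.cons (P.lf 0 1221402 0) (P.cons (P.lf 0 479080 0) (P.cons (P.lf 32028 0 0) P.nil))) (P.cons (P.cons (P.lf 0 191325 0) (P.cons (P.lf 20880 0 0) P.nil)) (P.cons (P.cons (P.lf 20915 0 0) P.nil) P.nil)))))) 18033)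
 EL.nil)
noncomputable def S430_459_512_660_29 : EL := (EL.cons 13 (TM.mk (P.cons (P.cons (P.lf 0 1588947686 0) (P.cons (P.lf 7525474 0 0) (P.cons (P.lf 0 512041 0) (P.cons (P.lf 0 166517 0) (P.cons (P.lf 357 0 0) (P.cons (P.lf 0 26 0) P.nil)))))) (P.cons (P.cons (P.lf 0 251964392 0) (P.cons (P.lf 0 8110483 0) (P.cons (P.lf 562866 0 0) (P.cons (P.lf 177988 0 0) (P.cons (P.lf 0 826 0) P.nil))))) (P.cons (P.cons (P.lf 43775818 0 0) (P.cons (P.lf 2746675 0 0) (P.cons (P.lf 0 204004 0) (P.cons (P.lf 0 58485 0) P.nil)))) (P.cons (P.cons (P.lf 2776992 0 0) (P.cons (P.lf 0 149357 0) (P.cons (P.lf 21129 0 0) P.nil))) (P.cons (P.cons (P.lf 0 805349 0) (P.cons (P.lf 0 84629 0) P.nil)) (P.cons (P.cons (P.lf 32126 0 0) P.nil) P.nil)))))) 74330)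
 EL.nil)
noncomputable def S430_459_512_660_30 : EL := (EL.cons 13 (TM.mk (P.cons (P.lf 0 3769994864 0) (P.cons (P.lf 0 55706392 0) (P.cons (P.lf 12473252 0 0) (P.cons (P.lf 0 642016 0) (P.cons (P.lf 10084 0 0) (P.cons (P.lf 908 0 0) P.nil)))))) 412)
 EL.nil)
noncomputable def S430_459_512_660_31 : EL := (EL.cons 13 (TM.mk (P.cons (P.cons (P.lf 0 2293061102 0) (P.cons (P.lf 5430126 0 0) (P.cons (P.lf 0 363042 0) (P.lf 0 121012 0)))) (P.cons (P.cons (P.lf 0 215691774 0) (P.cons (P.lf 0 6202548 0) (P.cons (P.lf 414687 0 0) (P.lf 138226 0 0)))) (P.cons (P.cons (P.lf 43694916 0 0) (P.cons (P.lf 2461114 0 0) (P.cons (P.lf 0 164543 0) (P.lf 0 54845 0)))) (P.cons (P.cons (P.lf 0 287845 0) (P.cons (P.lf 0 360807 0) (P.cons (P.lf 24120 0 0) P.nil))) (P.cons (P.cons (P.lf 0 336963 0) (P.cons (P.lf 2520 0 0) P.nil)) (P.cons (P.cons (P.lf 27069 0 0) P.nil) P.nil)))))) 22680)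
 EL.nil)
noncomputable def S430_459_512_660_32 : EL := (EL.cons 13 (TM.mk (P.cons (P.cons (P.lf 0 1394731135 0) (P.cons (P.lf 6605637 0 0) (P.cons (P.lf 0 449454 0) (P.cons (P.lf 0 146163 0) (P.cons (P.lf 313 0 0) (P.cons (P.lf 0 22 0) P.nil)))))) (P.cons (P.cons (P.lf 0 241775765 0) (P.cons (P.lf 0 7021534 0) (P.cons (P.lf 487425 0 0) (P.cons (P.lf 154072 0 0) (P.cons (P.lf 0 720 0) P.nil))))) (P.cons (P.cons (P.lf 39771647 0 0) (P.cons (P.lf 2283900 0 0) (P.cons (P.lf 0 170281 0) (P.cons (P.lf 0 48544 0) P.nil)))) (P.cons (P.cons (P.lf 3499566 0 0) (P.cons (P.lf 0 70797 0) (P.cons (P.lf 14189 0 0) P.nil))) (P.cons (P.cons (P.lf 0 831958 0) (P.cons (P.lf 0 85428 0) P.nil)) (P.cons (P.cons (P.lf 17160 0 0) P.nil) P.nil)))))) 75027)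
 EL.nil)
noncomputable def S430_459_512_660_33 : EL := (EL.cons 14 (TM.mk (P.lf 8589934592 0 0) 0)
 EL.nil)
noncomputable def S430_459_512_660_34 : EL := (EL.cons 14 (TM.mk (P.cons (P.cons (P.lf 5224740510 0 0) (P.cons (P.lf 0 12372544 0) (P.cons (P.lf 827192 0 0) (P.lf 275728 0 0)))) (P.cons (P.cons (P.lf 414251702 0 0) (P.cons (P.lf 14315328 0 0) (P.cons (P.lf 0 957088 0) (P.lf 0 319024 0)))) (P.cons (P.cons (P.lf 0 88393606 0) (P.cons (P.lf 0 5860112 0) (P.cons (P.lf 391792 0 0) (P.lf 130592 0 0)))) (P.cons (P.cons (P.lf 2442804 0 0) (P.cons (P.lf 958160 0 0) (P.cons (P.lf 0 64056 0) P.nil))) (P.cons (P.cons (P.lf 382650 0 0) (P.cons (P.lf 0 41760 0) P.nil)) (P.cons (P.cons (P.lf 0 41830 0) P.nil) P.nil)))))) 36066)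
 EL.nil)
noncomputable def S430_459_512_660_35 : EL := (EL.cons 14 (TM.mk (P.cons (P.cons (P.lf 3177895372 0 0) (P.cons (P.lf 0 15050948 0) (P.cons (P.lf 1024082 0 0) (P.cons (P.lf 333034 0 0) (P.cons (P.lf 0 714 0) (P.cons (P.lf 52 0 0) P.nil)))))) (P.cons (P.cons (P.lf 503928784 0 0) (P.cons (P.lf 16220966 0 0) (P.cons (P.lf 0 1125732 0) (P.cons (P.lf 0 355976 0) (P.cons (P.lf 1652 0 0) P.nil))))) (P.cons (P.cons (P.lf 0 87551636 0) (P.cons (P.lf 0 5493350 0) (P.cons (P.lf 408008 0 0) (P.cons (P.lf 116970 0 0) P.nil)))) (P.cons (P.cons (P.lf 0 5553984 0) (P.cons (P.lf 298714 0 0) (P.cons (P.lf 0 42258 0) P.nil))) (P.cons (P.cons (P.lf 1610698 0 0) (P.cons (P.lf 169258 0 0) P.nil)) (P.cons (P.cons (P.lf 0 64252 0) P.nil) P.nil)))))) 148660)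
 EL.nil)
noncomputable def S430_459_512_660_36 : EL := (EL.cons 14 (TM.mk (P.cons (P.lf 7539989728 0 0) (P.cons (P.lf 111412784 0 0) (P.cons (P.lf 0 24946504 0) (P.cons (P.lf 1284032 0 0) (P.cons (P.lf 0 20168 0) (P.cons (P.lf 0 1816 0) P.nil)))))) 824)
 EL.nil)
noncomputable def S430_459_512_660_37 : EL := (EL.cons 14 (TM.mk (P.cons (P.cons (P.lf 4586122204 0 0) (P.cons (P.lf 0 10860252 0) (P.cons (P.lf 726084 0 0) (P.lf 242024 0 0)))) (P.cons (P.cons (P.lf 431383548 0 0) (P.cons (P.lf 12405096 0 0) (P.cons (P.lf 0 829374 0) (P.lf 0 276452 0)))) (P.cons (P.cons (P.lf 0 87389832 0) (P.cons (P.lf 0 4922228 0) (P.cons (P.lf 329086 0 0) (P.lf 109690 0 0)))) (P.cons (P.cons (P.lf 575690 0 0) (P.cons (P.lf 721614 0 0) (P.cons (P.lf 0 48240 0) P.nil))) (P.cons (P.cons (P.lf 673926 0 0) (P.cons (P.lf 0 5040 0) P.nil)) (P.cons (P.cons (P.lf 0 54138 0) P.nil) P.nil))))))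 45360)
 EL.nil)
noncomputable def S430_459_512_660_38 : EL := (EL.cons 14 (TM.mk (P.cons (P.cons (P.lf 2789462270 0 0) (P.cons (P.lf 0 13211274 0) (P.cons (P.lf 898908 0 0) (P.cons (P.lf 292326 0 0) (P.cons (P.lf 0 626 0) (P.cons (P.lf 44 0 0) P.nil)))))) (P.cons (P.cons (P.lf 483551530 0 0) (P.cons (P.lf 14043068 0 0) (P.cons (P.lf 0 974850 0) (P.cons (P.lf 0 308144 0) (P.cons (P.lf 1440 0 0) P.nil))))) (P.cons (P.cons (P.lf 0 79543294 0) (P.cons (P.lf 0 4567800 0) (P.cons (P.lf 340562 0 0) (P.cons (P.lf 97088 0 0) P.nil)))) (P.cons (P.cons (P.lf 0 6999132 0) (P.cons (P.lf 141594 0 0) (P.cons (P.lf 0 28378 0) P.nil))) (P.cons (P.cons (P.lf 1663916 0 0) (P.cons (P.lf 170856 0 0) P.nil)) (P.cons (P.cons (P.lf 0 34320 0) P.nil) P.nil)))))) 150054)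
 EL.nil)
noncomputable def S430_459_512_660_39 : EL := (EL.cons 14 (TM.mk (P.cons (P.lf 6618379276 0 0) (P.cons (P.lf 195589672 0 0) (P.cons (P.lf 0 42349560 0) (P.cons (P.lf 1607050 0 0) (P.cons (P.lf 70350 0 0) (P.cons (P.lf 0 11168 0) P.nil)))))) 1860)
 EL.nil)
noncomputable def S430_459_512_660_40 : EL := (EL.cons 14 (TM.mk (P.cons (P.cons (P.lf 4025562004 0 0) (P.cons (P.lf 0 9532806 0) (P.cons (P.lf 637334 0 0) (P.lf 212442 0 0)))) (P.cons (P.cons (P.lf 438138394 0 0) (P.cons (P.lf 10747966 0 0) (P.cons (P.lf 0 718582 0) (P.lf 0 239522 0)))) (P.cons (P.cons (P.lf 0 84431902 0) (P.cons (P.lf 0 4128150 0) (P.cons (P.lf 275996 0 0) (P.lf 91994 0 0)))) (P.cons (P.cons (P.lf 0 1195402 0) (P.cons (P.lf 531918 0 0) (P.cons (P.lf 0 35558 0) P.nil))) (P.cons (P.cons (P.lf 906528 0 0) (P.cons (P.lf 21108 0 0) P.nil)) (P.cons (P.cons (P.lf 0 55496 0) P.nil) P.nil))))))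 51772)
 EL.nil)
noncomputable def S430_459_512_660_41 : EL := (EL.cons 14 (TM.mk (P.cons (P.cons (P.lf 2448507220 0 0) (P.cons (P.lf 0 11596464 0) (P.cons (P.lf 789034 0 0) (P.cons (P.lf 256596 0 0) (P.cons (P.lf 0 550 0) (P.cons (P.lf 40 0 0) P.nil)))))) (P.cons (P.cons (P.lf 460626944 0 0) (P.cons (P.lf 12155236 0 0) (P.cons (P.lf 0 844036 0) (P.cons (P.lf 0 266688 0) (P.cons (P.lf 1256 0 0) P.nil))))) (P.cons (P.cons (P.lf 0 71650036 0) (P.cons (P.lf 0 3788970 0) (P.cons (P.lf 283680 0 0) (P.cons (P.lf 80374 0 0) P.nil)))) (P.cons (P.cons (P.lf 0 8162656 0) (P.cons (P.lf 22284 0 0) (P.cons (P.lf 0 17526 0) P.nil))) (P.cons (P.cons (P.lf 1666494 0 0) (P.cons (P.lf 167206 0 0) P.nil)) (P.cons (P.cons (P.lf 0 1832 0) P.nil) P.nil)))))) 148396)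
 EL.nil)
noncomputable def S430_459_512_660_42 : EL := (EL.cons 14 (TM.mk (P.cons (P.lf 5809416966 0 0) (P.cons (P.lf 257524216 0 0) (P.cons (P.lf 0 53857160 0) (P.cons (P.lf 1282638 0 0) (P.cons (P.lf 219282 0 0) (P.cons (P.lf 0 21746 0) P.nil)))))) 3122)
 EL.nil)
noncomputable def S430_459_512_660_43 : EL := (EL.cons 14 (TM.mk (P.cons (P.cons (P.lf 3533518890 0 0) (P.cons (P.lf 0 8367614 0) (P.cons (P.lf 559434 0 0) (P.lf 186476 0 0)))) (P.cons (P.cons (P.lf 436797046 0 0) (P.cons (P.lf 9310604 0 0) (P.cons (P.lf 0 622484 0) (P.lf 0 207490 0)))) (P.cons (P.cons (P.lf 0 80119952 0) (P.cons (P.lf 0 3456480 0) (P.cons (P.lf 231090 0 0) (P.lf 77026 0 0)))) (P.cons (P.cons (P.lf 0 2815060 0) (P.cons (P.lf 380722 0 0) (P.cons (P.lf 0 25450 0) P.nil))) (P.cons (P.cons (P.lf 1081464 0 0) (P.cons (P.lf 39046 0 0) P.nil)) (P.cons (P.cons (P.lf 0 47984 0) P.nil) P.nil))))))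 56878)
 EL.nil)
noncomputable def S430_459_512_660_44 : EL := (EL.cons 14 (TM.mk (P.cons (P.cons (P.lf 2149226992 0 0) (P.cons (P.lf 0 10179032 0) (P.cons (P.lf 692590 0 0) (P.cons (P.lf 225232 0 0) (P.cons (P.lf 0 482 0) (P.cons (P.lf 34 0 0) P.nil)))))) (P.cons (P.cons (P.lf 436082184 0 0) (P.cons (P.lf 10519098 0 0) (P.cons (P.lf 0 730636 0) (P.cons (P.lf 0 230764 0) (P.cons (P.lf 1094 0 0) P.nil))))) (P.cons (P.cons (P.lf 0 64028718 0) (P.cons (P.lf 0 3134512 0) (P.cons (P.lf 235766 0 0) (P.cons (P.lf 66346 0 0) P.nil)))) (P.cons (P.cons (P.lf 0 9065978 0) (P.cons (P.lf 0 66616 0) (P.cons (P.lf 0 9136 0) P.nil))) (P.cons (P.cons (P.lf 1628116 0 0) (P.cons (P.lf 159904 0 0) P.nil)) (P.cons (P.cons (P.lf 31402 0 0) P.nil) P.nil)))))) 145466)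
 EL.nil)
noncomputable def S430_459_512_660_45 : EL := (EL.cons 14 (TM.mk (P.cons (P.cons (P.lf 1932922596 0 0) (P.cons (P.lf 0 13731878 0) (P.cons (P.lf 950590 0 0) (P.cons (P.lf 301646 0 0) (P.cons (P.lf 0 1298 0) (P.cons (P.lf 96 0 0) P.nil)))))) (P.cons (P.cons (P.lf 459764350 0 0) (P.cons (P.lf 13710602 0 0) (P.cons (P.lf 0 989328 0) (P.cons (P.lf 0 295740 0) (P.cons (P.lf 2894 0 0) P.nil))))) (P.cons (P.cons (P.lf 0 61652024 0) (P.cons (P.lf 0 3606200 0) (P.cons (P.lf 308918 0 0) (P.cons (P.lf 71152 0 0) P.nil)))) (P.cons (P.cons (P.lf 0 11882236 0) (P.cons (P.lf 0 381642 0) (P.cons (P.lf 0 7974 0) P.nil))) (P.cons (P.cons (P.lf 1897656 0 0) (P.cons (P.lf 266738 0 0) P.nil)) (P.cons (P.cons (P.lf 77822 0 0) P.nil) P.nil)))))) 239196)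
 EL.nil)
noncomputable def S430_459_512_660_46 : EL := (EL.cons 15 (TM.mk (P.lf 4294967296 0 0) 0)
 EL.nil)
noncomputable def S430_459_512_660_47 : EL := (EL.cons 15 (TM.mk (P.cons (P.cons (P.lf 2612370255 0 0) (P.cons (P.lf 0 6186272 0) (P.cons (P.lf 413596 0 0) (P.lf 137864 0 0)))) (P.cons (P.cons (P.lf 207125851 0 0) (P.cons (P.lf 7157664 0 0) (P.cons (P.lf 0 478544 0) (P.lf 0 159512 0)))) (P.cons (P.cons (P.lf 0 44196803 0) (P.cons (P.lf 0 2930056 0) (P.cons (P.lf 195896 0 0) (P.lf 65296 0 0)))) (P.cons (P.cons (P.lf 1221402 0 0) (P.cons (P.lf 479080 0 0) (P.cons (P.lf 0 32028 0) P.nil))) (P.cons (P.cons (P.lf 191325 0 0) (P.cons (P.lf 0 20880 0) P.nil)) (P.cons (P.cons (P.lf 0 20915 0) P.nil) P.nil)))))) 18033)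
 EL.nil)
noncomputable def S430_459_512_660_48 : EL := (EL.cons 15 (TM.mk (P.cons (P.cons (P.lf 1588947686 0 0) (P.cons (P.lf 0 7525474 0) (P.cons (P.lf 512041 0 0) (P.cons (P.lf 166517 0 0) (P.cons (P.lf 0 357 0) (P.cons (P.lf 26 0 0) P.nil)))))) (P.cons (P.cons (P.lf 251964392 0 0) (P.cons (P.lf 8110483 0 0) (P.cons (P.lf 0 562866 0) (P.cons (P.lf 0 177988 0) (P.cons (P.lf 826 0 0) P.nil))))) (P.cons (P.cons (P.lf 0 43775818 0) (P.cons (P.lf 0 2746675 0) (P.cons (P.lf 204004 0 0) (P.cons (P.lf 58485 0 0) P.nil)))) (P.cons (P.cons (P.lf 0 2776992 0) (P.cons (P.lf 149357 0 0) (P.cons (P.lf 0 21129 0) P.nil))) (P.cons (P.cons (P.lf 805349 0 0) (P.cons (P.lf 84629 0 0) P.nil)) (P.cons (P.cons (P.lf 0 32126 0) P.nil) P.nil)))))) 74330)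
 EL.nil)
noncomputable def S430_459_512_660 : SL := (SL.cons S430_459_512_660_0 (SL.cons S430_459_512_660_1 (SL.cons S430_459_512_660_2 (SL.cons S430_459_512_660_3 (SL.cons S430_459_512_660_4 (SL.cons S430_459_512_660_5 (SL.cons S430_459_512_660_6 (SL.cons S430_459_512_660_7 (SL.cons S430_459_512_660_8 (SL.cons S430_459_512_660_9 (SL.cons S430_459_512_660_10 (SL.cons S430_459_512_660_11 (SL.cons S430_459_512_660_12 (SL.cons S430_459_512_660_13 (SL.cons S430_459_512_660_14 (SL.cons S430_459_512_660_15 (SL.cons S430_459_512_660_16 (SL.cons S430_459_512_660_17 (SL.cons S430_459_512_660_18 (SL.cons S430_459_512_660_19 (SL.cons S430_459_512_660_20 (SL.cons S430_459_512_660_21 (SL.cons S430_459_512_660_22 (SL.cons S430_459_512_660_23 (SL.cons S430_459_512_660_24 (SL.cons S430_459_512_660_25 (SL.cons S430_459_512_660_26 (SL.cons S430_459_512_660_27 (SL.cons S430_459_512_660_28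 (SL.cons S430_459_512_660_29 (SL.cons S430_459_512_660_30 (SL.cons S430_459_512_660_31 (SL.cons S430_459_512_660_32 (SL.cons S430_459_512_660_33 (SL.cons S430_459_512_660_34 (SL.cons S430_459_512_660_35 (SL.cons S430_459_512_660_36 (SL.cons S430_459_512_660_37 (SL.cons S430_459_512_660_38 (SL.cons S430_459_512_660_39 (SL.cons S430_459_512_660_40 (SL.cons S430_459_512_660_41 (SL.cons S430_459_512_660_42 (SL.cons S430_459_512_660_43 (SL.cons S430_459_512_660_44 (SL.cons S430_459_512_660_45 (SL.cons S430_459_512_660_46 (SL.cons S430_459_512_660_47 (SL.cons S430_459_512_660_48 SL.nil)))))))))))))))))))))))))))))))))))))))))))))))))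
noncomputable def S430_459_660_808_0 : EL := (EL.cons 0 (TM.mk (P.cons (P.lf 2638781953 0 0) (P.cons (P.lf 0 171904985 0) (P.cons (P.lf 37221292 0 0) (P.cons (P.lf 0 1412446 0) (P.cons (P.lf 0 61831 0) (P.cons (P.lf 9815 0 0) P.nil)))))) 1641)
 (EL.cons 1 (TM.mk (P.cons (P.lf 678921663 0 0) (P.cons (P.lf 0 251810791 0) (P.cons (P.lf 86512 0 0) (P.cons (P.lf 1314026 0 0) (P.cons (P.lf 0 93138 0) (P.cons (P.lf 1631 0 0) P.nil)))))) 700)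
 (EL.cons 5 (TM.mk (P.cons (P.lf 6363210824 0 0) (P.cons (P.lf 61121772 0 0) (P.cons (P.lf 0 13234238 0) (P.cons (P.lf 502208 0 0) (P.cons (P.lf 21982 0 0) (P.cons (P.lf 0 3488 0) P.nil)))))) 319)
 (EL.cons 9 (TM.mk (P.lf 6442450944 0 0) 2)
 EL.nil))))
noncomputable def S430_459_660_808_1 : EL := (EL.cons 0 (TM.mk (P.cons (P.cons (P.lf 2365529633 0 0) (P.cons (P.lf 9923509 0 0) (P.cons (P.lf 0 4279113 0) (P.lf 0 475439 0)))) (P.cons (P.cons (P.lf 0 549112606 0) (P.cons (P.lf 0 11021060 0) (P.cons (P.lf 4752396 0 0) (P.lf 528025 0 0)))) (P.cons (P.cons (P.lf 94559054 0 0) (P.cons (P.lf 4067379 0 0) (P.cons (P.lf 0 1753897 0) (P.lf 0 194863 0)))) (P.cons (P.cons (P.lf 7871485 0 0) (P.cons (P.lf 0 431105 0) (P.cons (P.lf 185886 0 0) P.nil))) (P.cons (P.cons (P.lf 0 2400754 0) (P.cons (P.lf 0 53641 0) P.nil)) (P.cons (P.cons (P.lf 140055 0 0) P.nil) P.nil)))))) 259977)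
 (EL.cons 1 (TM.mk (P.cons (P.cons (P.lf 1534105792 0 0) (P.cons (P.lf 16671040 0 0) (P.cons (P.lf 0 7188741 0) (P.lf 0 798751 0)))) (P.cons (P.cons (P.lf 0 480875440 0) (P.cons (P.lf 0 11209451 0) (P.cons (P.lf 4833642 0 0) (P.lf 537076 0 0)))) (P.cons (P.cons (P.lf 0 60072742 0) (P.cons (P.lf 1173497 0 0) (P.cons (P.lf 0 506024 0) (P.lf 0 56225 0)))) (P.cons (P.cons (P.lf 14351954 0 0) (P.cons (P.lf 436044 0 0) (P.cons (P.lf 0 188020 0) P.nil))) (P.cons (P.cons (P.lf 0 364511 0) (P.cons (P.lf 0 73736 0) P.nil)) (P.cons (P.cons (P.lf 0 113899 0) P.nil) P.nil)))))) 105893)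
 (EL.cons 5 (TM.mk (P.cons (P.cons (P.lf 3583606366 0 0) (P.cons (P.lf 0 8420072 0) (P.cons (P.lf 3630820 0 0) (P.lf 403418 0 0)))) (P.cons (P.cons (P.lf 566266540 0 0) (P.cons (P.lf 9578418 0 0) (P.cons (P.lf 0 4130320 0) (P.lf 0 458920 0)))) (P.cons (P.cons (P.lf 0 116497604 0) (P.cons (P.lf 0 3763080 0) (P.cons (P.lf 1622680 0 0) (P.lf 180290 0 0)))) (P.cons (P.cons (P.lf 543529 0 0) (P.cons (P.lf 532114 0 0) (P.cons (P.lf 0 229448 0) P.nil))) (P.cons (P.cons (P.lf 1123671 0 0) (P.cons (P.lf 2554 0 0) P.nil)) (P.cons (P.cons (P.lf 0 88428 0) P.nil) P.nil)))))) 78478)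
 (EL.cons 9 (TM.mk (P.cons (P.cons (P.lf 3904132558 0 0) (P.cons (P.lf 0 4316208 0) (P.cons (P.lf 1861194 0 0) (P.lf 206796 0 0)))) (P.cons (P.cons (P.lf 327376324 0 0) (P.cons (P.lf 4993956 0 0) (P.cons (P.lf 0 2153448 0) (P.lf 0 239268 0)))) (P.cons (P.cons (P.lf 0 73126414 0) (P.cons (P.lf 0 2044320 0) (P.cons (P.lf 881532 0 0) (P.lf 97944 0 0)))) (P.cons (P.cons (P.lf 2949045 0 0) (P.cons (P.lf 334260 0 0) (P.cons (P.lf 0 144132 0) P.nil))) (P.cons (P.cons (P.lf 238303 0 0) (P.cons (P.lf 0 14568 0) P.nil)) (P.cons (P.cons (P.lf 0 34084 0) P.nil) P.nil)))))) 32012)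
 (EL.cons 2 (TM.mk (P.cons (P.cons (P.lf 0 38635965 0) (P.cons (P.lf 35992977 0 0) (P.cons (P.lf 3694050 0 0) (P.cons (P.lf 0 768256 0) (P.lf 0 64020 0))))) (P.cons (P.cons (P.lf 29230911 0 0) (P.cons (P.lf 0 27231300 0) (P.cons (P.lf 0 2794815 0) (P.cons (P.lf 581242 0 0) (P.lf 48434 0 0))))) (P.cons (P.cons (P.lf 0 5884571 0) (P.cons (P.lf 5482020 0 0) (P.cons (P.lf 562629 0 0) (P.cons (P.lf 0 117011 0) P.nil)))) (P.cons (P.cons (P.lf 44336 0 0) (P.cons (P.lf 0 41304 0) (P.cons (P.lf 0 4235 0) P.nil))) (P.cons (P.cons (P.lf 40860 0 0) (P.cons (P.lf 0 38067 0) P.nil)) (P.cons (P.cons (P.lf 0 3518 0) P.nil) P.nil)))))) 30834)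
 (EL.cons 6 (TM.mk (P.cons (P.cons (P.lf 4509384 0 0) (P.cons (P.lf 0 4200906 0) (P.cons (P.lf 0 431148 0) (P.cons (P.lf 89667 0 0) (P.lf 7470 0 0))))) (P.cons (P.cons (P.lf 0 5217462 0) (P.cons (P.lf 4860549 0 0) (P.cons (P.lf 498849 0 0) (P.cons (P.lf 0 103746 0) (P.lf 0 8643 0))))) (P.cons (P.cons (P.lf 2135817 0 0) (P.cons (P.lf 0 1989711 0) (P.cons (P.lf 0 204207 0) (P.cons (P.lf 42468 0 0) P.nil)))) (P.cons (P.cons (P.lf 0 349218 0) (P.cons (P.lf 325329 0 0) (P.cons (P.lf 33387 0 0) P.nil))) (P.cons (P.cons (P.lf 15219 0 0) (P.cons (P.lf 0 14178 0) P.nil)) (P.cons (P.cons (P.lf 846 0 0) P.nil) P.nil)))))) 15405)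
 EL.nil))))))
noncomputable def S430_459_660_808_2 : EL := (EL.cons 0 (TM.mk (P.cons (P.cons (P.lf 1897967921 0 0) (P.cons (P.lf 11000364 0 0) (P.cons (P.lf 0 4757939 0) (P.cons (P.lf 0 514536 0) (P.cons (P.lf 0 1299 0) (P.cons (P.lf 0 591 0) P.nil)))))) (P.cons (P.cons (P.lf 0 524503278 0) (P.cons (P.lf 0 10384947 0) (P.cons (P.lf 4511070 0 0) (P.cons (P.lf 469108 0 0) (P.cons (P.lf 2962 0 0) P.nil))))) (P.cons (P.cons (P.lf 31504412 0 0) (P.cons (P.lf 2051903 0 0) (P.cons (P.lf 0 916537 0) (P.cons (P.lf 0 70920 0) P.nil)))) (P.cons (P.cons (P.lf 31667024 0 0) (P.cons (P.lf 763824 0 0) (P.cons (P.lf 0 312773 0) P.nil))) (P.cons (P.cons (P.lf 0 4742402 0) (P.cons (P.lf 0 336089 0) P.nil)) (P.cons (P.cons (P.lf 0 153029 0) P.nil) P.nil)))))) 966292)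
 (EL.cons 1 (TM.mk (P.cons (P.cons (P.lf 1610014284 0 0) (P.cons (P.lf 18701028 0 0) (P.cons (P.lf 0 8086742 0) (P.cons (P.lf 0 876486 0) (P.cons (P.lf 0 2044 0) (P.cons (P.lf 0 937 0) P.nil)))))) (P.cons (P.cons (P.lf 0 376248865 0) (P.cons (P.lf 0 9664971 0) (P.cons (P.lf 4209329 0 0) (P.cons (P.lf 427132 0 0) (P.cons (P.lf 3760 0 0) P.nil))))) (P.cons (P.cons (P.lf 0 133442788 0) (P.cons (P.lf 0 1317229 0) (P.cons (P.lf 537510 0 0) (P.cons (P.lf 89395 0 0) P.nil)))) (P.cons (P.cons (P.lf 20715075 0 0) (P.cons (P.lf 1188870 0 0) (P.cons (P.lf 0 501928 0) P.nil))) (P.cons (P.cons (P.lf 1707759 0 0) (P.cons (P.lf 0 81825 0) P.nil)) (P.cons (P.cons (P.lf 0 523522 0) P.nil) P.nil)))))) 372705)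
 (EL.cons 5 (TM.mk (P.cons (P.cons (P.lf 2006530221 0 0) (P.cons (P.lf 0 9839999 0) (P.cons (P.lf 4251538 0 0) (P.cons (P.lf 464176 0 0) (P.cons (P.lf 749 0 0) (P.cons (P.lf 346 0 0) P.nil)))))) (P.cons (P.cons (P.lf 636175018 0 0) (P.cons (P.lf 10054984 0 0) (P.cons (P.lf 0 4355129 0) (P.cons (P.lf 0 465095 0) (P.cons (P.lf 0 1735 0) P.nil))))) (P.cons (P.cons (P.lf 0 92794311 0) (P.cons (P.lf 0 2851397 0) (P.cons (P.lf 1248319 0 0) (P.cons (P.lf 120421 0 0) P.nil)))) (P.cons (P.cons (P.lf 0 15631373 0) (P.cons (P.lf 0 180870 0) (P.cons (P.lf 67988 0 0) P.nil))) (P.cons (P.cons (P.lf 3293905 0 0) (P.cons (P.lf 195387 0 0) P.nil)) (P.cons (P.cons (P.lf 0 40847 0) P.nil) P.nil)))))) 316794)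
 (EL.cons 9 (TM.mk (P.cons (P.cons (P.lf 2365908745 0 0) (P.cons (P.lf 0 5231253 0) (P.cons (P.lf 2258662 0 0) (P.cons (P.lf 248142 0 0) (P.cons (P.lf 259 0 0) (P.cons (P.lf 118 0 0) P.nil)))))) (P.cons (P.cons (P.lf 396780844 0 0) (P.cons (P.lf 5614024 0 0) (P.cons (P.lf 0 2427519 0) (P.cons (P.lf 0 263205 0) (P.cons (P.lf 0 603 0) P.nil))))) (P.cons (P.cons (P.lf 0 71993589 0) (P.cons (P.lf 0 1872195 0) (P.cons (P.lf 813919 0 0) (P.cons (P.lf 83995 0 0) P.nil)))) (P.cons (P.cons (P.lf 0 3857659 0) (P.cons (P.lf 80035 0 0) (P.cons (P.lf 0 38124 0) P.nil))) (P.cons (P.cons (P.lf 1418575 0 0) (P.cons (P.lf 66975 0 0) P.nil)) (P.cons (P.cons (P.lf 0 84039 0) P.nil) P.nil)))))) 135746)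
 (EL.cons 2 (TM.mk (P.cons (P.cons (P.lf 0 46826876 0) (P.cons (P.lf 43675340 0 0) (P.cons (P.lf 4406641 0 0) (P.cons (P.lf 0 917763 0) (P.cons (P.lf 0 72118 0) (P.cons (P.lf 0 118 0) P.nil)))))) (P.cons (P.cons (P.lf 31501321 0 0) (P.cons (P.lf 0 29445457 0) (P.cons (P.lf 0 2876883 0) (P.cons (P.lf 600811 0 0) (P.cons (P.lf 41720 0 0) P.nil))))) (P.cons (P.cons (P.lf 0 3284257 0) (P.cons (P.lf 3137310 0 0) (P.cons (P.lf 208085 0 0) (P.cons (P.lf 0 45236 0) P.nil)))) (P.cons (P.cons (P.lf 0 1243271 0) (P.cons (P.lf 1126479 0 0) (P.cons (P.lf 162129 0 0) P.nil))) (P.cons (P.cons (P.lf 211522 0 0) (P.cons (P.lf 0 190091 0) P.nil)) (P.cons (P.cons (P.lf 0 3931 0) P.nil) P.nil)))))) 161842)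
 (EL.cons 6 (TM.mk (P.cons (P.cons (P.lf 5465382 0 0) (P.cons (P.lf 0 5097552 0) (P.cons (P.lf 0 514314 0) (P.cons (P.lf 107112 0 0) (P.cons (P.lf 8412 0 0) (P.cons (P.lf 12 0 0) P.nil)))))) (P.cons (P.cons (P.lf 0 5865282 0) (P.cons (P.lf 5478030 0 0) (P.cons (P.lf 541734 0 0) (P.cons (P.lf 0 113016 0) (P.cons (P.lf 0 8238 0) P.nil))))) (P.cons (P.cons (P.lf 1955988 0 0) (P.cons (P.lf 0 1835994 0) (P.cons (P.lf 0 168186 0) (P.cons (P.lf 35322 0 0) P.nil)))) (P.cons (P.cons (P.lf 0 83616 0) (P.cons (P.lf 85452 0 0) (P.cons (P.lf 0 2304 0) P.nil))) (P.cons (P.cons (P.lf 0 69966 0) (P.cons (P.lf 62700 0 0) P.nil)) (P.cons (P.cons (P.lf 12018 0 0) P.nil) P.nil)))))) 48930)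
 EL.nil))))))
noncomputable def S430_459_660_808_3 : EL := (EL.cons 0 (TM.mk (P.cons (P.lf 5816934910 0 0) (P.cons (P.lf 171904985 0 0) (P.cons (P.lf 0 37221292 0) (P.cons (P.lf 1412446 0 0) (P.cons (P.lf 61831 0 0) (P.cons (P.lf 0 9815 0) P.nil)))))) 1641)
 (EL.cons 1 (TM.mk (P.cons (P.lf 0 678921663 0) (P.cons (P.lf 251810791 0 0) (P.cons (P.lf 0 86512 0) (P.cons (P.lf 0 1314026 0) (P.cons (P.lf 93138 0 0) (P.cons (P.lf 0 1631 0) P.nil)))))) 700)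
 (EL.cons 5 (TM.mk (P.cons (P.lf 79240120 0 0) (P.cons (P.lf 0 61121772 0) (P.cons (P.lf 13234238 0 0) (P.cons (P.lf 0 502208 0) (P.cons (P.lf 0 21982 0) (P.cons (P.lf 3488 0 0) P.nil)))))) 312)
 EL.nil)))
noncomputable def S430_459_660_808_4 : EL := (EL.cons 0 (TM.mk (P.cons (P.cons (P.lf 3525069134 0 0) (P.cons (P.lf 0 3897133 0) (P.cons (P.lf 1680484 0 0) (P.lf 186716 0 0)))) (P.cons (P.cons (P.lf 399765032 0 0) (P.cons (P.lf 4393907 0 0) (P.cons (P.lf 0 1894700 0) (P.lf 0 210517 0)))) (P.cons (P.cons (P.lf 0 79847070 0) (P.cons (P.lf 0 1687638 0) (P.cons (P.lf 727727 0 0) (P.lf 80854 0 0)))) (P.cons (P.cons (P.lf 0 324003 0) (P.cons (P.lf 217457 0 0) (P.cons (P.lf 0 93765 0) P.nil))) (P.cons (P.cons (P.lf 825586 0 0) (P.cons (P.lf 8629 0 0) P.nil)) (P.cons (P.cons (P.lf 0 60292 0) P.nil) P.nil)))))) 53848)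
 (EL.cons 1 (TM.mk (P.cons (P.cons (P.lf 0 411427295 0) (P.cons (P.lf 454852 0 0) (P.cons (P.lf 0 196136 0) (P.lf 0 21791 0)))) (P.cons (P.cons (P.lf 118097885 0 0) (P.cons (P.lf 0 694978 0) (P.cons (P.lf 299681 0 0) (P.lf 33296 0 0)))) (P.cons (P.cons (P.lf 20449706 0 0) (P.cons (P.lf 410686 0 0) (P.cons (P.lf 0 177091 0) (P.lf 0 19676 0)))) (P.cons (P.cons (P.lf 0 3969706 0) (P.cons (P.lf 0 114315 0) (P.cons (P.lf 49293 0 0) P.nil))) (P.cons (P.cons (P.lf 80805 0 0) (P.cons (P.lf 13545 0 0) P.nil)) (P.cons (P.cons (P.lf 31524 0 0) P.nil) P.nil)))))) 21116)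
 (EL.cons 5 (TM.mk (P.cons (P.cons (P.lf 48019602 0 0) (P.cons (P.lf 0 53086 0) (P.cons (P.lf 22892 0 0) (P.lf 2542 0 0)))) (P.cons (P.cons (P.lf 0 33013236 0) (P.cons (P.lf 102372 0 0) (P.cons (P.lf 0 44144 0) (P.lf 0 4904 0)))) (P.cons (P.cons (P.lf 4014598 0 0) (P.cons (P.lf 0 81390 0) (P.cons (P.lf 35096 0 0) (P.lf 3898 0 0)))) (P.cons (P.cons (P.lf 1098212 0 0) (P.cons (P.lf 34100 0 0) (P.cons (P.lf 0 14704 0) P.nil))) (P.cons (P.cons (P.lf 0 214106 0) (P.cons (P.lf 0 7924 0) P.nil)) (P.cons (P.cons (P.lf 10076 0 0) P.nil) P.nil)))))) 8948)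
 EL.nil)))
noncomputable def S430_459_660_808_5 : EL := (EL.cons 0 (TM.mk (P.cons (P.cons (P.lf 2136195880 0 0) (P.cons (P.lf 0 4723335 0) (P.cons (P.lf 2039361 0 0) (P.cons (P.lf 224049 0 0) (P.cons (P.lf 233 0 0) (P.cons (P.lf 105 0 0) P.nil)))))) (P.cons (P.cons (P.lf 421386189 0 0) (P.cons (P.lf 4929356 0 0) (P.cons (P.lf 0 2131555 0) (P.cons (P.lf 0 231027 0) (P.cons (P.lf 0 536 0) P.nil))))) (P.cons (P.cons (P.lf 0 68085205 0) (P.cons (P.lf 0 1510393 0) (P.cons (P.lf 657070 0 0) (P.cons (P.lf 67382 0 0) P.nil)))) (P.cons (P.cons (P.lf 0 7177825 0) (P.cons (P.lf 0 11272 0) (P.cons (P.lf 1814 0 0) P.nil))) (P.cons (P.cons (P.lf 1703547 0 0) (P.cons (P.lf 74603 0 0) P.nil)) (P.cons (P.cons (P.lf 0 31318 0) P.nil) P.nil)))))) 155634)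
 (EL.cons 1 (TM.mk (P.cons (P.cons (P.lf 0 249325406 0) (P.cons (P.lf 551281 0 0) (P.cons (P.lf 0 238021 0) (P.cons (P.lf 0 26148 0) (P.cons (P.lf 0 26 0) (P.cons (P.lf 0 11 0) P.nil)))))) (P.cons (P.cons (P.lf 50660570 0 0) (P.cons (P.lf 0 796089 0) (P.cons (P.lf 344100 0 0) (P.cons (P.lf 37434 0 0) (P.cons (P.lf 73 0 0) P.nil))))) (P.cons (P.cons (P.lf 23063741 0 0) (P.cons (P.lf 416797 0 0) (P.cons (P.lf 0 180684 0) (P.cons (P.lf 0 19141 0) P.nil)))) (P.cons (P.cons (P.lf 0 2895311 0) (P.cons (P.lf 0 80619 0) (P.cons (P.lf 35401 0 0) P.nil))) (P.cons (P.cons (P.lf 0 346031 0) (P.cons (P.lf 0 5124 0) P.nil)) (P.cons (P.cons (P.lf 84174 0 0) P.nil) P.nil)))))) 36423)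
 (EL.cons 5 (TM.mk (P.cons (P.cons (P.lf 29099932 0 0) (P.cons (P.lf 0 64342 0) (P.cons (P.lf 27780 0 0) (P.cons (P.lf 3050 0 0) (P.cons (P.lf 2 0 0) (P.cons (P.lf 0 0 0) P.nil)))))) (P.cons (P.cons (P.lf 0 17565918 0) (P.cons (P.lf 118680 0 0) (P.cons (P.lf 0 51286 0) (P.cons (P.lf 0 5590 0) (P.cons (P.lf 0 8 0) P.nil))))) (P.cons (P.cons (P.lf 210210 0 0) (P.cons (P.lf 0 87034 0) (P.cons (P.lf 37680 0 0) (P.cons (P.lf 4038 0 0) P.nil)))) (P.cons (P.cons (P.lf 1266226 0 0) (P.cons (P.lf 30686 0 0) (P.cons (P.lf 0 13352 0) P.nil))) (P.cons (P.cons (P.lf 0 132846 0) (P.cons (P.lf 0 4200 0) P.nil)) (P.cons (P.cons (P.lf 0 16876 0) P.nil) P.nil)))))) 12940)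
 EL.nil)))
noncomputable def S430_459_660_808_6 : EL := (EL.cons 12 (TM.mk (P.lf 8589934592 0 0) 0)
 (EL.cons 3 (TM.mk (P.cons (P.lf 3534370185 0 0) (P.cons (P.lf 52224742 0 0) (P.cons (P.lf 0 11693673 0) (P.cons (P.lf 601890 0 0) (P.cons (P.lf 0 9453 0) (P.cons (P.lf 0 851 0) P.nil)))))) 393)
 (EL.cons 7 (TM.mk (P.cons (P.lf 0 412512866 0) (P.cons (P.lf 159095655 0 0) (P.cons (P.lf 0 3768226 0) (P.cons (P.lf 0 146096 0) (P.cons (P.lf 18086 0 0) (P.cons (P.lf 0 774 0) P.nil)))))) 196)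
 EL.nil)))
noncomputable def S430_459_660_808_7 : EL := (EL.cons 12 (TM.mk (P.cons (P.cons (P.lf 5205510078 0 0) (P.cons (P.lf 0 5754944 0) (P.cons (P.lf 2481592 0 0) (P.lf 275728 0 0)))) (P.cons (P.cons (P.lf 436501766 0 0) (P.cons (P.lf 6658608 0 0) (P.cons (P.lf 0 2871264 0) (P.lf 0 319024 0)))) (P.cons (P.cons (P.lf 0 97501886 0) (P.cons (P.lf 0 2725760 0) (P.cons (P.lf 1175376 0 0) (P.lf 130592 0 0)))) (P.cons (P.cons (P.lf 3932060 0 0) (P.cons (P.lf 445680 0 0) (P.cons (P.lf 0 192176 0) P.nil))) (P.cons (P.cons (P.lf 317738 0 0) (P.cons (P.lf 0 19424 0) P.nil)) (P.cons (P.cons (P.lf 0 45446 0) P.nil) P.nil)))))) 42658)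
 (EL.cons 3 (TM.mk (P.cons (P.cons (P.lf 2607512099 0 0) (P.cons (P.lf 4735798 0 0) (P.cons (P.lf 0 2042124 0) (P.lf 0 226896 0)))) (P.cons (P.cons (P.lf 0 147450059 0) (P.cons (P.lf 0 5409454 0) (P.cons (P.lf 2332614 0 0) (P.lf 259172 0 0)))) (P.cons (P.cons (P.lf 29546281 0 0) (P.cons (P.lf 2146418 0 0) (P.cons (P.lf 0 925558 0) (P.lf 0 102834 0)))) (P.cons (P.cons (P.lf 668714 0 0) (P.cons (P.lf 0 314672 0) (P.cons (P.lf 135686 0 0) P.nil))) (P.cons (P.cons (P.lf 0 525529 0) (P.cons (P.lf 2196 0 0) P.nil)) (P.cons (P.cons (P.lf 44192 0 0) P.nil) P.nil)))))) 103072)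
 (EL.cons 7 (TM.mk (P.cons (P.cons (P.lf 1168647515 0 0) (P.cons (P.lf 21916862 0 0) (P.cons (P.lf 0 9450796 0) (P.lf 0 1050089 0)))) (P.cons (P.cons (P.lf 0 449186785 0) (P.cons (P.lf 0 16479191 0) (P.cons (P.lf 7106012 0 0) (P.lf 789558 0 0)))) (P.cons (P.cons (P.lf 70224 0 0) (P.cons (P.lf 3239249 0 0) (P.cons (P.lf 0 1396800 0) (P.lf 0 155200 0)))) (P.cons (P.cons (P.lf 4804944 0 0) (P.cons (P.lf 7013 0 0) (P.cons (P.lf 0 3023 0) P.nil))) (P.cons (P.cons (P.lf 0 317088 0) (P.cons (P.lf 0 26745 0) P.nil)) (P.cons (P.cons (P.lf 0 10069 0) P.nil) P.nil)))))) 60030)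
 (EL.cons 10 (TM.mk (P.cons (P.cons (P.lf 0 46950435 0) (P.cons (P.lf 43738674 0 0) (P.cons (P.lf 4489011 0 0) (P.cons (P.lf 0 933588 0) (P.lf 0 77799 0))))) (P.cons (P.cons (P.lf 36215163 0 0) (P.cons (P.lf 0 33737775 0) (P.cons (P.lf 0 3462591 0) (P.cons (P.lf 720123 0 0) (P.lf 60009 0 0))))) (P.cons (P.cons (P.lf 0 7841397 0) (P.cons (P.lf 7304985 0 0) (P.cons (P.lf 749727 0 0) (P.cons (P.lf 0 155922 0) P.nil)))) (P.cons (P.cons (P.lf 297561 0 0) (P.cons (P.lf 0 277206 0) (P.cons (P.lf 0 28449 0) P.nil))) (P.cons (P.cons (P.lf 13023 0 0) (P.cons (P.lf 0 12132 0) P.nil)) (P.cons (P.cons (P.lf 0 2064 0) P.nil) P.nil)))))) 23571)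
 EL.nil))))
noncomputable def S430_459_660_808_8 : EL := (EL.cons 12 (TM.mk (P.cons (P.cons (P.lf 3154544994 0 0) (P.cons (P.lf 0 6975004 0) (P.cons (P.lf 3011550 0 0) (P.cons (P.lf 330856 0 0) (P.cons (P.lf 346 0 0) (P.cons (P.lf 158 0 0) P.nil)))))) (P.cons (P.cons (P.lf 529041126 0 0) (P.cons (P.lf 7485366 0 0) (P.cons (P.lf 0 3236692 0) (P.cons (P.lf 0 350940 0) (P.cons (P.lf 0 804 0) P.nil))))) (P.cons (P.cons (P.lf 0 95991452 0) (P.cons (P.lf 0 2496260 0) (P.cons (P.lf 1085226 0 0) (P.cons (P.lf 111994 0 0) P.nil)))) (P.cons (P.cons (P.lf 0 5143546 0) (P.cons (P.lf 106714 0 0) (P.cons (P.lf 0 50832 0) P.nil))) (P.cons (P.cons (P.lf 1891434 0 0) (P.cons (P.lf 89300 0 0) P.nil)) (P.cons (P.cons (P.lf 0 112052 0) P.nil) P.nil)))))) 180966)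
 (EL.cons 3 (TM.mk (P.cons (P.cons (P.lf 1862357747 0 0) (P.cons (P.lf 5115820 0 0) (P.cons (P.lf 0 2213920 0) (P.cons (P.lf 0 238257 0) (P.cons (P.lf 0 711 0) (P.cons (P.lf 0 326 0) P.nil)))))) (P.cons (P.cons (P.lf 0 150561182 0) (P.cons (P.lf 0 4872377 0) (P.cons (P.lf 2119260 0 0) (P.cons (P.lf 217707 0 0) (P.cons (P.lf 1640 0 0) P.nil))))) (P.cons (P.cons (P.lf 2204479 0 0) (P.cons (P.lf 993261 0 0) (P.cons (P.lf 0 446135 0) (P.cons (P.lf 0 32200 0) P.nil)))) (P.cons (P.cons (P.lf 12746920 0 0) (P.cons (P.lf 354904 0 0) (P.cons (P.lf 0 143451 0) P.nil))) (P.cons (P.cons (P.lf 0 2093050 0) (P.cons (P.lf 0 168073 0) P.nil)) (P.cons (P.cons (P.lf 8740 0 0) P.nil) P.nil)))))) 447439)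
 (EL.cons 7 (TM.mk (P.cons (P.cons (P.lf 1567893566 0 0) (P.cons (P.lf 24662421 0 0) (P.cons (P.lf 0 10663895 0) (P.cons (P.lf 0 1156464 0) (P.cons (P.lf 0 2626 0) (P.cons (P.lf 0 1201 0) P.nil)))))) (P.cons (P.cons (P.lf 0 458664420 0) (P.cons (P.lf 0 14843065 0) (P.cons (P.lf 6456054 0 0) (P.cons (P.lf 663252 0 0) (P.cons (P.lf 5001 0 0) P.nil))))) (P.cons (P.cons (P.lf 0 85120556 0) (P.cons (P.lf 53914 0 0) (P.cons (P.lf 0 66458 0) (P.cons (P.lf 34675 0 0) P.nil)))) (P.cons (P.cons (P.lf 18914417 0 0) (P.cons (P.lf 1186403 0 0) (P.cons (P.lf 0 494239 0) P.nil))) (P.cons (P.cons (P.lf 0 76011 0) (P.cons (P.lf 0 161408 0) P.nil)) (P.cons (P.cons (P.lf 0 244171 0) P.nil) P.nil)))))) 331174)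
 (EL.cons 10 (TM.mk (P.cons (P.cons (P.lf 0 56904030 0) (P.cons (P.lf 53074278 0 0) (P.cons (P.lf 5354952 0 0) (P.cons (P.lf 0 1115268 0) (P.cons (P.lf 0 87636 0) (P.cons (P.lf 0 144 0) P.nil)))))) (P.cons (P.cons (P.lf 39121236 0 0) (P.cons (P.lf 0 36566364 0) (P.cons (P.lf 0 3575118 0) (P.cons (P.lf 746586 0 0) (P.cons (P.lf 51990 0 0) P.nil))))) (P.cons (P.cons (P.lf 0 4757364 0) (P.cons (P.lf 4528368 0 0) (P.cons (P.lf 323412 0 0) (P.cons (P.lf 0 69690 0) P.nil)))) (P.cons (P.cons (P.lf 0 1301400 0) (P.cons (P.lf 1171962 0 0) (P.cons (P.lf 179502 0 0) P.nil))) (P.cons (P.cons (P.lf 253716 0 0) (P.cons (P.lf 0 226968 0) P.nil)) (P.cons (P.cons (P.lf 0 11934 0) P.nil) P.nil)))))) 188766)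
 EL.nil))))
noncomputable def S430_459_660_808_9 : EL := (EL.cons 3 (TM.mk (P.cons (P.lf 3534370185 0 0) (P.cons (P.lf 52224742 0 0) (P.cons (P.lf 0 11693673 0) (P.cons (P.lf 601890 0 0) (P.cons (P.lf 0 9453 0) (P.cons (P.lf 0 851 0) P.nil)))))) 393)
 (EL.cons 7 (TM.mk (P.cons (P.lf 0 412512866 0) (P.cons (P.lf 159095655 0 0) (P.cons (P.lf 0 3768226 0) (P.cons (P.lf 0 146096 0) (P.cons (P.lf 18086 0 0) (P.cons (P.lf 0 774 0) P.nil)))))) 196)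
 EL.nil))
noncomputable def S430_459_660_808_10 : EL := (EL.cons 3 (TM.mk (P.cons (P.cons (P.lf 2141832329 0 0) (P.cons (P.lf 0 2367899 0) (P.cons (P.lf 1021062 0 0) (P.lf 113448 0 0)))) (P.cons (P.cons (P.lf 211249018 0 0) (P.cons (P.lf 2704727 0 0) (P.cons (P.lf 0 1166307 0) (P.lf 0 129586 0)))) (P.cons (P.cons (P.lf 0 44550176 0) (P.cons (P.lf 0 1073209 0) (P.cons (P.lf 462779 0 0) (P.lf 51417 0 0)))) (P.cons (P.cons (P.lf 795602 0 0) (P.cons (P.lf 157336 0 0) (P.cons (P.lf 0 67843 0) P.nil))) (P.cons (P.cons (P.lf 312227 0 0) (P.cons (P.lf 0 1098 0) P.nil)) (P.cons (P.cons (P.lf 0 29947 0) P.nil) P.nil)))))) 25185)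
 (EL.cons 7 (TM.mk (P.cons (P.cons (P.lf 0 249983263 0) (P.cons (P.lf 276368 0 0) (P.cons (P.lf 0 119173 0) (P.lf 0 13241 0)))) (P.cons (P.cons (P.lf 75450101 0 0) (P.cons (P.lf 0 426353 0) (P.cons (P.lf 183848 0 0) (P.lf 20427 0 0)))) (P.cons (P.cons (P.lf 10483290 0 0) (P.cons (P.lf 256748 0 0) (P.cons (P.lf 0 110712 0) (P.lf 0 12301 0)))) (P.cons (P.cons (P.lf 0 2274696 0) (P.cons (P.lf 0 74710 0) (P.cons (P.lf 32215 0 0) P.nil))) (P.cons (P.cons (P.lf 103875 0 0) (P.cons (P.lf 10257 0 0) P.nil)) (P.cons (P.cons (P.lf 8450 0 0) P.nil) P.nil)))))) 11861)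
 EL.nil))
noncomputable def S430_459_660_808_11 : EL := (EL.cons 3 (TM.mk (P.cons (P.cons (P.lf 1297952813 0 0) (P.cons (P.lf 0 2869898 0) (P.cons (P.lf 1239116 0 0) (P.cons (P.lf 136131 0 0) (P.cons (P.lf 141 0 0) (P.cons (P.lf 64 0 0) P.nil)))))) (P.cons (P.cons (P.lf 236855410 0 0) (P.cons (P.lf 3037483 0 0) (P.cons (P.lf 0 1313442 0) (P.cons (P.lf 0 142383 0) (P.cons (P.lf 0 328 0) P.nil))))) (P.cons (P.cons (P.lf 0 40574057 0) (P.cons (P.lf 0 972093 0) (P.cons (P.lf 422743 0 0) (P.cons (P.lf 43496 0 0) P.nil)))) (P.cons (P.cons (P.lf 0 3199100 0) (P.cons (P.lf 18052 0 0) (P.cons (P.lf 0 9699 0) P.nil))) (P.cons (P.cons (P.lf 911240 0 0) (P.cons (P.lf 41321 0 0) P.nil)) (P.cons (P.cons (P.lf 0 35222 0) P.nil) P.nil)))))) 84675)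
 (EL.cons 7 (TM.mk (P.cons (P.cons (P.lf 0 151490140 0) (P.cons (P.lf 334959 0 0) (P.cons (P.lf 0 144623 0) (P.cons (P.lf 0 15888 0) (P.cons (P.lf 0 16 0) (P.cons (P.lf 0 7 0) P.nil)))))) (P.cons (P.cons (P.lf 33019824 0 0) (P.cons (P.lf 0 488653 0) (P.cons (P.lf 211212 0 0) (P.cons (P.lf 22980 0 0) (P.cons (P.lf 45 0 0) P.nil))))) (P.cons (P.cons (P.lf 13024408 0 0) (P.cons (P.lf 261574 0 0) (P.cons (P.lf 0 113384 0) (P.cons (P.lf 0 12023 0) P.nil)))) (P.cons (P.cons (P.lf 0 1816597 0) (P.cons (P.lf 0 54523 0) (P.cons (P.lf 23909 0 0) P.nil))) (P.cons (P.cons (P.lf 0 146343 0) (P.cons (P.lf 0 1358 0) P.nil)) (P.cons (P.cons (P.lf 45131 0 0) P.nil) P.nil)))))) 21234)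
 EL.nil))
noncomputable def S430_459_660_808_12 : EL := (EL.cons 4 (TM.mk (P.cons (P.lf 0 3534370185 0) (P.cons (P.lf 0 52224742 0) (P.cons (P.lf 11693673 0 0) (P.cons (P.lf 0 601890 0) (P.cons (P.lf 9453 0 0) (P.cons (P.lf 851 0 0) P.nil)))))) 393)
 (EL.cons 8 (TM.mk (P.cons (P.lf 412512866 0 0) (P.cons (P.lf 0 159095655 0) (P.cons (P.lf 3768226 0 0) (P.cons (P.lf 146096 0 0) (P.cons (P.lf 0 18086 0) (P.cons (P.lf 774 0 0) P.nil)))))) 196)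
 EL.nil))
noncomputable def S430_459_660_808_13 : EL := (EL.cons 4 (TM.mk (P.cons (P.cons (P.lf 0 2141832329 0) (P.cons (P.lf 2367899 0 0) (P.cons (P.lf 0 1021062 0) (P.lf 0 113448 0)))) (P.cons (P.cons (P.lf 0 211249018 0) (P.cons (P.lf 0 2704727 0) (P.cons (P.lf 1166307 0 0) (P.lf 129586 0 0)))) (P.cons (P.cons (P.lf 44550176 0 0) (P.cons (P.lf 1073209 0 0) (P.cons (P.lf 0 462779 0) (P.lf 0 51417 0)))) (P.cons (P.cons (P.lf 0 795602 0) (P.cons (P.lf 0 157336 0) (P.cons (P.lf 67843 0 0) P.nil))) (P.cons (P.cons (P.lf 0 312227 0) (P.cons (P.lf 1098 0 0) P.nil)) (P.cons (P.cons (P.lf 29947 0 0) P.nil) P.nil)))))) 25185)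
 (EL.cons 8 (TM.mk (P.cons (P.cons (P.lf 249983263 0 0) (P.cons (P.lf 0 276368 0) (P.cons (P.lf 119173 0 0) (P.lf 13241 0 0)))) (P.cons (P.cons (P.lf 0 75450101 0) (P.cons (P.lf 426353 0 0) (P.cons (P.lf 0 183848 0) (P.lf 0 20427 0)))) (P.cons (P.cons (P.lf 0 10483290 0) (P.cons (P.lf 0 256748 0) (P.cons (P.lf 110712 0 0) (P.lf 12301 0 0)))) (P.cons (P.cons (P.lf 2274696 0 0) (P.cons (P.lf 74710 0 0) (P.cons (P.lf 0 32215 0) P.nil))) (P.cons (P.cons (P.lf 0 103875 0) (P.cons (P.lf 0 10257 0) P.nil)) (P.cons (P.cons (P.lf 0 8450 0) P.nil) P.nil)))))) 11861)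
 EL.nil))
noncomputable def S430_459_660_808_14 : EL := (EL.cons 4 (TM.mk (P.cons (P.cons (P.lf 0 1297952813 0) (P.cons (P.lf 2869898 0 0) (P.cons (P.lf 0 1239116 0) (P.cons (P.lf 0 136131 0) (P.cons (P.lf 0 141 0) (P.cons (P.lf 0 64 0) P.nil)))))) (P.cons (P.cons (P.lf 0 236855410 0) (P.cons (P.lf 0 3037483 0) (P.cons (P.lf 1313442 0 0) (P.cons (P.lf 142383 0 0) (P.cons (P.lf 328 0 0) P.nil))))) (P.cons (P.cons (P.lf 40574057 0 0) (P.cons (P.lf 972093 0 0) (P.cons (P.lf 0 422743 0) (P.cons (P.lf 0 43496 0) P.nil)))) (P.cons (P.cons (P.lf 3199100 0 0) (P.cons (P.lf 0 18052 0) (P.cons (P.lf 9699 0 0) P.nil))) (P.cons (P.cons (P.lf 0 911240 0) (P.cons (P.lf 0 41321 0) P.nil)) (P.cons (P.cons (P.lf 35222 0 0) P.nil) P.nil)))))) 84675)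
 (EL.cons 8 (TM.mk (P.cons (P.cons (P.lf 151490140 0 0) (P.cons (P.lf 0 334959 0) (P.cons (P.lf 144623 0 0) (P.cons (P.lf 15888 0 0) (P.cons (P.lf 16 0 0) (P.cons (P.lf 7 0 0) P.nil)))))) (P.cons (P.cons (P.lf 0 33019824 0) (P.cons (P.lf 488653 0 0) (P.cons (P.lf 0 211212 0) (P.cons (P.lf 0 22980 0) (P.cons (P.lf 0 45 0) P.nil))))) (P.cons (P.cons (P.lf 0 13024408 0) (P.cons (P.lf 0 261574 0) (P.cons (P.lf 113384 0 0) (P.cons (P.lf 12023 0 0) P.nil)))) (P.cons (P.cons (P.lf 1816597 0 0) (P.cons (P.lf 54523 0 0) (P.cons (P.lf 0 23909 0) P.nil))) (P.cons (P.cons (P.lf 146343 0 0) (P.cons (P.lf 1358 0 0) P.nil)) (P.cons (P.cons (P.lf 0 45131 0) P.nil) P.nil)))))) 21234)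
 EL.nil))
noncomputable def S430_459_660_808_15 : EL := (EL.cons 4 (TM.mk (P.cons (P.lf 0 3102365285 0) (P.cons (P.lf 0 91682658 0) (P.cons (P.lf 19851356 0 0) (P.cons (P.lf 0 753304 0) (P.cons (P.lf 0 32976 0) (P.cons (P.lf 5235 0 0) P.nil)))))) 878)
 (EL.cons 8 (TM.mk (P.cons (P.lf 362091554 0 0) (P.cons (P.lf 0 134299089 0) (P.cons (P.lf 46140 0 0) (P.cons (P.lf 700814 0 0) (P.cons (P.lf 0 49674 0) (P.cons (P.lf 870 0 0) P.nil)))))) 370)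
 EL.nil))
noncomputable def S430_459_660_808_16 : EL := (EL.cons 4 (TM.mk (P.cons (P.cons (P.lf 0 1880036871 0) (P.cons (P.lf 2078471 0 0) (P.cons (P.lf 0 896258 0) (P.lf 0 99582 0)))) (P.cons (P.cons (P.lf 0 213208017 0) (P.cons (P.lf 0 2343417 0) (P.cons (P.lf 1010506 0 0) (P.lf 112275 0 0)))) (P.cons (P.cons (P.lf 42585104 0 0) (P.cons (P.lf 900074 0 0) (P.cons (P.lf 0 388121 0) (P.lf 0 43122 0)))) (P.cons (P.cons (P.lf 172801 0 0) (P.cons (P.lf 0 115977 0) (P.cons (P.lf 50008 0 0) P.nil))) (P.cons (P.cons (P.lf 0 440312 0) (P.cons (P.lf 0 4602 0) P.nil)) (P.cons (P.cons (P.lf 32156 0 0) P.nil) P.nil)))))) 28728)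
 (EL.cons 8 (TM.mk (P.cons (P.cons (P.lf 219427891 0 0) (P.cons (P.lf 0 242588 0) (P.cons (P.lf 104606 0 0) (P.lf 11622 0 0)))) (P.cons (P.cons (P.lf 0 62985539 0) (P.cons (P.lf 370655 0 0) (P.cons (P.lf 0 159830 0) (P.lf 0 17758 0)))) (P.cons (P.cons (P.lf 0 10906510 0) (P.cons (P.lf 0 219033 0) (P.cons (P.lf 94449 0 0) (P.lf 10494 0 0)))) (P.cons (P.cons (P.lf 2117177 0 0) (P.cons (P.lf 60968 0 0) (P.cons (P.lf 0 26290 0) P.nil))) (P.cons (P.cons (P.lf 0 43096 0) (P.cons (P.lf 0 7224 0) P.nil)) (P.cons (P.cons (P.lf 0 16813 0) P.nil) P.nil)))))) 11252)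
 EL.nil))
noncomputable def S430_459_660_808_17 : EL := (EL.cons 4 (TM.mk (P.cons (P.cons (P.lf 0 1139304469 0) (P.cons (P.lf 2519112 0 0) (P.cons (P.lf 0 1087659 0) (P.cons (P.lf 0 119492 0) (P.cons (P.lf 0 124 0) (P.cons (P.lf 0 56 0) P.nil)))))) (P.cons (P.cons (P.lf 0 224739300 0) (P.cons (P.lf 0 2628990 0) (P.cons (P.lf 1136829 0 0) (P.cons (P.lf 123214 0 0) (P.cons (P.lf 285 0 0) P.nil))))) (P.cons (P.cons (P.lf 36312109 0 0) (P.cons (P.lf 805543 0 0) (P.cons (P.lf 0 350437 0) (P.cons (P.lf 0 35937 0) P.nil)))) (P.cons (P.cons (P.lf 3828173 0 0) (P.cons (P.lf 6012 0 0) (P.cons (P.lf 0 967 0) P.nil))) (P.cons (P.cons (P.lf 0 908558 0) (P.cons (P.lf 0 39788 0) P.nil)) (P.cons (P.cons (P.lf 16703 0 0) P.nil) P.nil)))))) 83015)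
 (EL.cons 8 (TM.mk (P.cons (P.cons (P.lf 132973550 0 0) (P.cons (P.lf 0 294017 0) (P.cons (P.lf 126945 0 0) (P.cons (P.lf 13946 0 0) (P.cons (P.lf 14 0 0) (P.cons (P.lf 6 0 0) P.nil)))))) (P.cons (P.cons (P.lf 0 27018971 0) (P.cons (P.lf 424581 0 0) (P.cons (P.lf 0 183520 0) (P.cons (P.lf 0 19965 0) (P.cons (P.lf 0 39 0) P.nil))))) (P.cons (P.cons (P.lf 0 12300662 0) (P.cons (P.lf 0 222292 0) (P.cons (P.lf 96365 0 0) (P.cons (P.lf 10209 0 0) P.nil)))) (P.cons (P.cons (P.lf 1544166 0 0) (P.cons (P.lf 42997 0 0) (P.cons (P.lf 0 18881 0) P.nil))) (P.cons (P.cons (P.lf 184550 0 0) (P.cons (P.lf 2733 0 0) P.nil)) (P.cons (P.cons (P.lf 0 44893 0) P.nil) P.nil)))))) 19414)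
 EL.nil))
noncomputable def S430_459_660_808_18 : EL := (EL.cons 4 (TM.mk (P.cons (P.lf 0 2723164202 0) (P.cons (P.lf 0 120714476 0) (P.cons (P.lf 25245543 0 0) (P.cons (P.lf 0 601236 0) (P.cons (P.lf 0 102788 0) (P.cons (P.lf 10193 0 0) P.nil)))))) 1470)
 (EL.cons 8 (TM.mk (P.cons (P.lf 317833223 0 0) (P.cons (P.lf 0 113187372 0) (P.cons (P.lf 0 2752949 0) (P.cons (P.lf 1059903 0 0) (P.cons (P.lf 0 55572 0) (P.cons (P.lf 0 1670 0) P.nil)))))) 673)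
 EL.nil))
noncomputable def S430_459_660_808_19 : EL := (EL.cons 4 (TM.mk (P.cons (P.cons (P.lf 0 1650240585 0) (P.cons (P.lf 1824420 0 0) (P.cons (P.lf 0 786708 0) (P.lf 0 87410 0)))) (P.cons (P.cons (P.lf 0 211532041 0) (P.cons (P.lf 0 2030024 0) (P.cons (P.lf 875368 0 0) (P.lf 97260 0 0)))) (P.cons (P.cons (P.lf 40074518 0 0) (P.cons (P.lf 753627 0 0) (P.cons (P.lf 0 324971 0) (P.lf 0 36105 0)))) (P.cons (P.cons (P.lf 1042175 0 0) (P.cons (P.lf 0 83010 0) (P.cons (P.lf 35792 0 0) P.nil))) (P.cons (P.cons (P.lf 0 535382 0) (P.cons (P.lf 0 8513 0) P.nil)) (P.cons (P.cons (P.lf 29276 0 0) P.nil) P.nil)))))) 31455)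
 (EL.cons 8 (TM.mk (P.cons (P.cons (P.lf 192607293 0 0) (P.cons (P.lf 0 212936 0) (P.cons (P.lf 91820 0 0) (P.lf 10202 0 0)))) (P.cons (P.cons (P.lf 0 52440823 0) (P.cons (P.lf 322204 0 0) (P.cons (P.lf 0 138937 0) (P.lf 0 15437 0)))) (P.cons (P.cons (P.lf 0 11027596 0) (P.cons (P.lf 0 186749 0) (P.cons (P.lf 80528 0 0) (P.lf 8947 0 0)))) (P.cons (P.cons (P.lf 1932656 0 0) (P.cons (P.lf 49562 0 0) (P.cons (P.lf 0 21371 0) P.nil))) (P.cons (P.cons (P.lf 11375 0 0) (P.cons (P.lf 0 4858 0) P.nil)) (P.cons (P.cons (P.lf 0 22995 0) P.nil) P.nil)))))) 10863)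
 EL.nil))
noncomputable def S430_459_660_808_20 : EL := (EL.cons 4 (TM.mk (P.cons (P.cons (P.lf 0 1000047660 0) (P.cons (P.lf 2211201 0 0) (P.cons (P.lf 0 954715 0) (P.cons (P.lf 0 104886 0) (P.cons (P.lf 0 109 0) (P.cons (P.lf 0 49 0) P.nil)))))) (P.cons (P.cons (P.lf 0 212046445 0) (P.cons (P.lf 0 2274975 0) (P.cons (P.lf 983767 0 0) (P.cons (P.lf 106604 0 0) (P.cons (P.lf 249 0 0) P.nil))))) (P.cons (P.cons (P.lf 32267505 0 0) (P.cons (P.lf 665668 0 0) (P.cons (P.lf 0 289699 0) (P.cons (P.lf 0 29599 0) P.nil)))) (P.cons (P.cons (P.lf 4313604 0 0) (P.cons (P.lf 23736 0 0) (P.cons (P.lf 0 8858 0) P.nil))) (P.cons (P.cons (P.lf 0 884228 0) (P.cons (P.lf 0 37586 0) P.nil)) (P.cons (P.cons (P.lf 0 2042 0) P.nil) P.nil)))))) 80734)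
 (EL.cons 8 (TM.mk (P.cons (P.cons (P.lf 116720237 0 0) (P.cons (P.lf 0 258079 0) (P.cons (P.lf 111429 0 0) (P.cons (P.lf 12241 0 0) (P.cons (P.lf 12 0 0) (P.cons (P.lf 5 0 0) P.nil)))))) (P.cons (P.cons (P.lf 0 21991763 0) (P.cons (P.lf 368871 0 0) (P.cons (P.lf 0 159442 0) (P.cons (P.lf 0 17344 0) (P.cons (P.lf 0 34 0) P.nil))))) (P.cons (P.cons (P.lf 0 11533772 0) (P.cons (P.lf 0 188760 0) (P.cons (P.lf 81837 0 0) (P.cons (P.lf 8661 0 0) P.nil)))) (P.cons (P.cons (P.lf 1294226 0 0) (P.cons (P.lf 33581 0 0) (P.cons (P.lf 0 14771 0) P.nil))) (P.cons (P.cons (P.lf 213392 0 0) (P.cons (P.lf 3666 0 0) P.nil)) (P.cons (P.cons (P.lf 0 43300 0) P.nil) P.nil)))))) 17577)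
 EL.nil))
noncomputable def S430_459_660_808_21 : EL := (EL.cons 4 (TM.mk (P.cons (P.cons (P.lf 0 465679770 0) (P.cons (P.lf 0 7103697 0) (P.cons (P.lf 3063186 0 0) (P.lf 340344 0 0)))) (P.cons (P.cons (P.lf 358699077 0 0) (P.cons (P.lf 8114181 0 0) (P.cons (P.lf 0 3498921 0) (P.lf 0 388758 0)))) (P.cons (P.cons (P.lf 0 74096457 0) (P.cons (P.lf 0 3219627 0) (P.cons (P.lf 1388337 0 0) (P.lf 154251 0 0)))) (P.cons (P.cons (P.lf 126888 0 0) (P.cons (P.lf 472008 0 0) (P.cons (P.lf 0 203529 0) P.nil))) (P.cons (P.cons (P.lf 837756 0 0) (P.cons (P.lf 0 3294 0) P.nil)) (P.cons (P.cons (P.lf 0 74139 0) P.nil) P.nil)))))) 77868)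
 (EL.cons 8 (TM.mk (P.cons (P.cons (P.lf 0 1418630778 0) (P.cons (P.lf 0 21640494 0) (P.cons (P.lf 9331623 0 0) (P.lf 1036848 0 0)))) (P.cons (P.cons (P.lf 524636886 0 0) (P.cons (P.lf 16052838 0 0) (P.cons (P.lf 0 6922164 0) (P.lf 0 769131 0)))) (P.cons (P.cons (P.lf 10413066 0 0) (P.cons (P.lf 0 2982501 0) (P.cons (P.lf 1286088 0 0) (P.lf 142899 0 0)))) (P.cons (P.cons (P.lf 0 7079640 0) (P.cons (P.lf 0 81723 0) (P.cons (P.lf 35238 0 0) P.nil))) (P.cons (P.cons (P.lf 420963 0 0) (P.cons (P.lf 37002 0 0) P.nil)) (P.cons (P.cons (P.lf 18519 0 0) P.nil) P.nil)))))) 48150)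
 (EL.cons 11 (TM.mk (P.cons (P.cons (P.lf 46950435 0 0) (P.cons (P.lf 0 43738674 0) (P.cons (P.lf 0 4489011 0) (P.cons (P.lf 933588 0 0) (P.lf 77799 0 0))))) (P.cons (P.cons (P.lf 0 36215163 0) (P.cons (P.lf 33737775 0 0) (P.cons (P.lf 3462591 0 0) (P.cons (P.lf 0 720123 0) (P.lf 0 60009 0))))) (P.cons (P.cons (P.lf 7841397 0 0) (P.cons (P.lf 0 7304985 0) (P.cons (P.lf 0 749727 0) (P.cons (P.lf 155922 0 0) P.nil)))) (P.cons (P.cons (P.lf 0 297561 0) (P.cons (P.lf 277206 0 0) (P.cons (P.lf 28449 0 0) P.nil))) (P.cons (P.cons (P.lf 0 13023 0) (P.cons (P.lf 12132 0 0) P.nil)) (P.cons (P.cons (P.lf 2064 0 0) P.nil) P.nil)))))) 23571)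
 EL.nil)))
noncomputable def S430_459_660_808_22 : EL := (EL.cons 4 (TM.mk (P.cons (P.cons (P.lf 0 282202467 0) (P.cons (P.lf 0 3992859 0) (P.cons (P.lf 1726518 0 0) (P.cons (P.lf 187194 0 0) (P.cons (P.lf 426 0 0) (P.cons (P.lf 195 0 0) P.nil)))))) (P.cons (P.cons (P.lf 193708296 0 0) (P.cons (P.lf 3954930 0 0) (P.cons (P.lf 0 1716351 0) (P.cons (P.lf 0 180045 0) (P.cons (P.lf 0 984 0) P.nil))))) (P.cons (P.cons (P.lf 0 21389268 0) (P.cons (P.lf 0 982677 0) (P.cons (P.lf 434439 0 0) (P.cons (P.lf 37848 0 0) P.nil)))) (P.cons (P.cons (P.lf 0 7973010 0) (P.cons (P.lf 0 168426 0) (P.cons (P.lf 66876 0 0) P.nil))) (P.cons (P.cons (P.lf 1502145 0 0) (P.cons (P.lf 104697 0 0) P.nil)) (P.cons (P.cons (P.lf 0 21981 0) P.nil) P.nil)))))) 181371)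
 (EL.cons 8 (TM.mk (P.cons (P.cons (P.lf 0 859691853 0) (P.cons (P.lf 0 12163731 0) (P.cons (P.lf 5259636 0 0) (P.cons (P.lf 570288 0 0) (P.cons (P.lf 1305 0 0) (P.cons (P.lf 597 0 0) P.nil)))))) (P.cons (P.cons (P.lf 245842122 0 0) (P.cons (P.lf 7177206 0 0) (P.cons (P.lf 0 3122421 0) (P.cons (P.lf 0 320136 0) (P.cons (P.lf 0 2478 0) P.nil))))) (P.cons (P.cons (P.lf 49072482 0 0) (P.cons (P.lf 103830 0 0) (P.cons (P.lf 0 23463 0) (P.cons (P.lf 0 23349 0) P.nil)))) (P.cons (P.cons (P.lf 0 10365507 0) (P.cons (P.lf 0 620463 0) (P.cons (P.lf 259074 0 0) P.nil))) (P.cons (P.cons (P.lf 0 35166 0) (P.cons (P.lf 80025 0 0) P.nil)) (P.cons (P.cons (P.lf 144651 0 0) P.nil) P.nil)))))) 154959)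
 (EL.cons 11 (TM.mk (P.cons (P.cons (P.lf 28452015 0 0) (P.cons (P.lf 0 26537139 0) (P.cons (P.lf 0 2677476 0) (P.cons (P.lf 557634 0 0) (P.cons (P.lf 43818 0 0) (P.cons (P.lf 72 0 0) P.nil)))))) (P.cons (P.cons (P.lf 0 19560618 0) (P.cons (P.lf 18283182 0 0) (P.cons (P.lf 1787559 0 0) (P.cons (P.lf 0 373293 0) (P.cons (P.lf 0 25995 0) P.nil))))) (P.cons (P.cons (P.lf 2378682 0 0) (P.cons (P.lf 0 2264184 0) (P.cons (P.lf 0 161706 0) (P.cons (P.lf 34845 0 0) P.nil)))) (P.cons (P.cons (P.lf 650700 0 0) (P.cons (P.lf 0 585981 0) (P.cons (P.lf 0 89751 0) P.nil))) (P.cons (P.cons (P.lf 0 126858 0) (P.cons (P.lf 113484 0 0) P.nil)) (P.cons (P.cons (P.lf 5967 0 0) P.nil) P.nil)))))) 94383)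
 EL.nil)))
noncomputable def S430_459_660_808_23 : EL := (EL.cons 4 (TM.mk (P.cons (P.cons (P.lf 0 408759885 0) (P.cons (P.lf 0 6235413 0) (P.cons (P.lf 2688771 0 0) (P.lf 298743 0 0)))) (P.cons (P.cons (P.lf 308815467 0 0) (P.cons (P.lf 7030251 0 0) (P.cons (P.lf 0 3031518 0) (P.lf 0 336825 0)))) (P.cons (P.cons (P.lf 0 59034882 0) (P.cons (P.lf 0 2700219 0) (P.cons (P.lf 1164363 0 0) (P.lf 129366 0 0)))) (P.cons (P.cons (P.lf 0 1960992 0) (P.cons (P.lf 347928 0 0) (P.cons (P.lf 0 150024 0) P.nil))) (P.cons (P.cons (P.lf 1006902 0 0) (P.cons (P.lf 13809 0 0) P.nil)) (P.cons (P.cons (P.lf 0 66399 0) P.nil) P.nil)))))) 87540)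
 (EL.cons 8 (TM.mk (P.cons (P.cons (P.lf 0 1245232005 0) (P.cons (P.lf 0 18995382 0) (P.cons (P.lf 8191020 0 0) (P.lf 910113 0 0)))) (P.cons (P.cons (P.lf 442110831 0 0) (P.cons (P.lf 13810023 0 0) (P.cons (P.lf 0 5955036 0) (P.lf 0 661671 0)))) (P.cons (P.cons (P.lf 20064825 0 0) (P.cons (P.lf 0 2346894 0) (P.cons (P.lf 1012005 0 0) (P.lf 112443 0 0)))) (P.cons (P.cons (P.lf 0 7814922 0) (P.cons (P.lf 0 160272 0) (P.cons (P.lf 69108 0 0) P.nil))) (P.cons (P.cons (P.lf 329196 0 0) (P.cons (P.lf 42531 0 0) P.nil)) (P.cons (P.cons (P.lf 42900 0 0) P.nil) P.nil)))))) 57795)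
 (EL.cons 11 (TM.mk (P.cons (P.cons (P.lf 41211696 0 0) (P.cons (P.lf 0 38392509 0) (P.cons (P.lf 0 3940320 0) (P.cons (P.lf 819474 0 0) (P.lf 68289 0 0))))) (P.cons (P.cons (P.lf 0 31179639 0) (P.cons (P.lf 29046720 0 0) (P.cons (P.lf 2981136 0 0) (P.cons (P.lf 0 619992 0) (P.lf 0 51663 0))))) (P.cons (P.cons (P.lf 6276876 0 0) (P.cons (P.lf 0 5847489 0) (P.cons (P.lf 0 600138 0) (P.cons (P.lf 124812 0 0) P.nil)))) (P.cons (P.cons (P.lf 0 47292 0) (P.cons (P.lf 44058 0 0) (P.cons (P.lf 4518 0 0) P.nil))) (P.cons (P.cons (P.lf 0 43584 0) (P.cons (P.lf 40605 0 0) P.nil)) (P.cons (P.cons (P.lf 3753 0 0) P.nil) P.nil)))))) 32868)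
 EL.nil)))
noncomputable def S430_459_660_808_24 : EL := (EL.cons 4 (TM.mk (P.cons (P.cons (P.lf 0 247708953 0) (P.cons (P.lf 0 3504813 0) (P.cons (P.lf 1515486 0 0) (P.cons (P.lf 164313 0 0) (P.cons (P.lf 375 0 0) (P.cons (P.lf 171 0 0) P.nil)))))) (P.cons (P.cons (P.lf 166371186 0 0) (P.cons (P.lf 3419733 0 0) (P.cons (P.lf 0 1484169 0) (P.cons (P.lf 0 155610 0) (P.cons (P.lf 0 858 0) P.nil))))) (P.cons (P.cons (P.lf 0 15442878 0) (P.cons (P.lf 0 799671 0) (P.cons (P.lf 354063 0 0) (P.cons (P.lf 30342 0 0) P.nil)))) (P.cons (P.cons (P.lf 0 7880634 0) (P.cons (P.lf 0 172668 0) (P.cons (P.lf 69579 0 0) P.nil))) (P.cons (P.cons (P.lf 1306863 0 0) (P.cons (P.lf 93171 0 0) P.nil)) (P.cons (P.cons (P.lf 19746 0 0) P.nil) P.nil)))))) 168672)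
 (EL.cons 8 (TM.mk (P.cons (P.cons (P.lf 0 754612002 0) (P.cons (P.lf 0 10676961 0) (P.cons (P.lf 4616751 0 0) (P.cons (P.lf 500583 0 0) (P.cons (P.lf 1146 0 0) (P.cons (P.lf 525 0 0) P.nil)))))) (P.cons (P.cons (P.lf 204642585 0 0) (P.cons (P.lf 6142173 0 0) (P.cons (P.lf 0 2672550 0) (P.cons (P.lf 0 273609 0) (P.cons (P.lf 0 2160 0) P.nil))))) (P.cons (P.cons (P.lf 48759657 0 0) (P.cons (P.lf 219555 0 0) (P.cons (P.lf 0 76368 0) (P.cons (P.lf 0 26304 0) P.nil)))) (P.cons (P.cons (P.lf 0 9304527 0) (P.cons (P.lf 0 565941 0) (P.cons (P.lf 236958 0 0) P.nil))) (P.cons (P.cons (P.lf 0 269058 0) (P.cons (P.lf 62994 0 0) P.nil)) (P.cons (P.cons (P.lf 163554 0 0) P.nil) P.nil)))))) 141072)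
 (EL.cons 11 (TM.mk (P.cons (P.cons (P.lf 24974334 0 0) (P.cons (P.lf 0 23293515 0) (P.cons (P.lf 0 2350209 0) (P.cons (P.lf 489474 0 0) (P.cons (P.lf 38463 0 0) (P.cons (P.lf 63 0 0) P.nil)))))) (P.cons (P.cons (P.lf 0 16800705 0) (P.cons (P.lf 15704244 0 0) (P.cons (P.lf 1534338 0 0) (P.cons (P.lf 0 320433 0) (P.cons (P.lf 0 22251 0) P.nil))))) (P.cons (P.cons (P.lf 1751604 0 0) (P.cons (P.lf 0 1673232 0) (P.cons (P.lf 0 110979 0) (P.cons (P.lf 24126 0 0) P.nil)))) (P.cons (P.cons (P.lf 663078 0 0) (P.cons (P.lf 0 600789 0) (P.cons (P.lf 0 86469 0) P.nil))) (P.cons (P.cons (P.lf 0 112812 0) (P.cons (P.lf 101382 0 0) P.nil)) (P.cons (P.cons (P.lf 2097 0 0) P.nil) P.nil)))))) 86304)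
 EL.nil)))
noncomputable def S430_459_660_808_25 : EL := (EL.cons 4 (TM.mk (P.cons (P.cons (P.lf 0 358797300 0) (P.cons (P.lf 0 5473260 0) (P.cons (P.lf 2360124 0 0) (P.lf 262227 0 0)))) (P.cons (P.cons (P.lf 265767375 0 0) (P.cons (P.lf 6090069 0 0) (P.cons (P.lf 0 2626101 0) (P.lf 0 291780 0)))) (P.cons (P.cons (P.lf 0 46626579 0) (P.cons (P.lf 0 2260881 0) (P.cons (P.lf 974913 0 0) (P.lf 108315 0 0)))) (P.cons (P.cons (P.lf 0 3444942 0) (P.cons (P.lf 249030 0 0) (P.cons (P.lf 0 107379 0) P.nil))) (P.cons (P.cons (P.lf 1076961 0 0) (P.cons (P.lf 25542 0 0) P.nil)) (P.cons (P.cons (P.lf 0 48990 0) P.nil) P.nil)))))) 93087)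
 (EL.cons 8 (TM.mk (P.cons (P.cons (P.lf 0 1093027710 0) (P.cons (P.lf 0 16673583 0) (P.cons (P.lf 7189833 0 0) (P.lf 798870 0 0)))) (P.cons (P.cons (P.lf 371920917 0 0) (P.cons (P.lf 11875656 0 0) (P.cons (P.lf 0 5120916 0) (P.lf 0 568989 0)))) (P.cons (P.cons (P.lf 26962902 0 0) (P.cons (P.lf 0 1825749 0) (P.cons (P.lf 787284 0 0) (P.lf 87474 0 0)))) (P.cons (P.cons (P.lf 0 8069559 0) (P.cons (P.lf 0 214065 0) (P.cons (P.lf 92304 0 0) P.nil))) (P.cons (P.cons (P.lf 198336 0 0) (P.cons (P.lf 44178 0 0) P.nil)) (P.cons (P.cons (P.lf 66846 0 0) P.nil) P.nil)))))) 63159)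
 (EL.cons 11 (TM.mk (P.cons (P.cons (P.lf 36174405 0 0) (P.cons (P.lf 0 33699804 0) (P.cons (P.lf 0 3458694 0) (P.cons (P.lf 719310 0 0) (P.lf 59940 0 0))))) (P.cons (P.cons (P.lf 0 26834040 0) (P.cons (P.lf 24998391 0 0) (P.cons (P.lf 2565645 0 0) (P.cons (P.lf 0 533583 0) (P.lf 0 44463 0))))) (P.cons (P.cons (P.lf 4985565 0 0) (P.cons (P.lf 0 4644513 0) (P.cons (P.lf 0 476676 0) (P.cons (P.lf 99135 0 0) P.nil)))) (P.cons (P.cons (P.lf 136608 0 0) (P.cons (P.lf 0 127263 0) (P.cons (P.lf 0 13062 0) P.nil))) (P.cons (P.cons (P.lf 0 61857 0) (P.cons (P.lf 57627 0 0) P.nil)) (P.cons (P.cons (P.lf 3870 0 0) P.nil) P.nil)))))) 38457)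
 EL.nil)))
noncomputable def S430_459_660_808_26 : EL := (EL.cons 4 (TM.mk (P.cons (P.cons (P.lf 0 217431567 0) (P.cons (P.lf 0 3076419 0) (P.cons (P.lf 1330251 0 0) (P.cons (P.lf 144231 0 0) (P.cons (P.lf 330 0 0) (P.cons (P.lf 150 0 0) P.nil)))))) (P.cons (P.cons (P.lf 142822869 0 0) (P.cons (P.lf 2956281 0 0) (P.cons (P.lf 0 1283103 0) (P.cons (P.lf 0 134460 0) (P.cons (P.lf 0 750 0) P.nil))))) (P.cons (P.cons (P.lf 0 10678053 0) (P.cons (P.lf 0 647394 0) (P.cons (P.lf 287136 0 0) (P.cons (P.lf 24138 0 0) P.nil)))) (P.cons (P.cons (P.lf 0 7637880 0) (P.cons (P.lf 0 172389 0) (P.cons (P.lf 70203 0 0) P.nil))) (P.cons (P.cons (P.lf 1115211 0 0) (P.cons (P.lf 82383 0 0) P.nil)) (P.cons (P.cons (P.lf 54525 0 0) P.nil) P.nil)))))) 157392)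
 (EL.cons 8 (TM.mk (P.cons (P.cons (P.lf 0 662376027 0) (P.cons (P.lf 0 9371922 0) (P.cons (P.lf 4052448 0 0) (P.cons (P.lf 439398 0 0) (P.cons (P.lf 1005 0 0) (P.cons (P.lf 459 0 0) P.nil)))))) (P.cons (P.cons (P.lf 169841754 0 0) (P.cons (P.lf 5252934 0 0) (P.cons (P.lf 0 2286006 0) (P.cons (P.lf 0 233673 0) (P.cons (P.lf 0 1881 0) P.nil))))) (P.cons (P.cons (P.lf 47645538 0 0) (P.cons (P.lf 303390 0 0) (P.cons (P.lf 0 115104 0) (P.cons (P.lf 0 28089 0) P.nil)))) (P.cons (P.cons (P.lf 0 8241933 0) (P.cons (P.lf 0 513351 0) (P.cons (P.lf 215454 0 0) P.nil))) (P.cons (P.cons (P.lf 0 466095 0) (P.cons (P.lf 48261 0 0) P.nil)) (P.cons (P.cons (P.lf 174063 0 0) P.nil) P.nil)))))) 129975)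
 (EL.cons 11 (TM.mk (P.cons (P.cons (P.lf 21921729 0 0) (P.cons (P.lf 0 20446356 0) (P.cons (P.lf 0 2062944 0) (P.cons (P.lf 429645 0 0) (P.cons (P.lf 33762 0 0) (P.cons (P.lf 54 0 0) P.nil)))))) (P.cons (P.cons (P.lf 0 14423238 0) (P.cons (P.lf 13482600 0 0) (P.cons (P.lf 1316313 0 0) (P.cons (P.lf 0 274917 0) (P.cons (P.lf 0 19032 0) P.nil))))) (P.cons (P.cons (P.lf 1247067 0 0) (P.cons (P.lf 0 1197378 0) (P.cons (P.lf 0 70689 0) (P.cons (P.lf 15600 0 0) P.nil)))) (P.cons (P.cons (P.lf 657273 0 0) (P.cons (P.lf 0 598146 0) (P.cons (P.lf 0 82146 0) P.nil))) (P.cons (P.cons (P.lf 0 98079 0) (P.cons (P.lf 88461 0 0) P.nil)) (P.cons (P.cons (P.lf 0 1248 0) P.nil) P.nil)))))) 79587)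
 EL.nil)))
noncomputable def S430_459_660_808_27 : EL := (EL.cons 13 (TM.mk (P.lf 0 4294967296 0) 0)
 EL.nil)
noncomputable def S430_459_660_808_28 : EL := (EL.cons 13 (TM.mk (P.cons (P.cons (P.lf 0 2602755039 0) (P.cons (P.lf 2877472 0 0) (P.cons (P.lf 0 1240796 0) (P.lf 0 137864 0)))) (P.cons (P.cons (P.lf 0 218250883 0) (P.cons (P.lf 0 3329304 0) (P.cons (P.lf 1435632 0 0) (P.lf 159512 0 0)))) (P.cons (P.cons (P.lf 48750943 0 0) (P.cons (P.lf 1362880 0 0) (P.cons (P.lf 0 587688 0) (P.lf 0 65296 0)))) (P.cons (P.cons (P.lf 0 1966030 0) (P.cons (P.lf 0 222840 0) (P.cons (P.lf 96088 0 0) P.nil))) (P.cons (P.cons (P.lf 0 158869 0) (P.cons (P.lf 9712 0 0) P.nil)) (P.cons (P.cons (P.lf 22723 0 0) P.nil) P.nil)))))) 21329)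
 EL.nil)
noncomputable def S430_459_660_808_29 : EL := (EL.cons 13 (TM.mk (P.cons (P.cons (P.lf 0 1577272497 0) (P.cons (P.lf 3487502 0 0) (P.cons (P.lf 0 1505775 0) (P.cons (P.lf 0 165428 0) (P.cons (P.lf 0 173 0) (P.cons (P.lf 0 79 0) P.nil)))))) (P.cons (P.cons (P.lf 0 264520563 0) (P.cons (P.lf 0 3742683 0) (P.cons (P.lf 1618346 0 0) (P.cons (P.lf 175470 0 0) (P.cons (P.lf 402 0 0) P.nil))))) (P.cons (P.cons (P.lf 47995726 0 0) (P.cons (P.lf 1248130 0 0) (P.cons (P.lf 0 542613 0) (P.cons (P.lf 0 55997 0) P.nil)))) (P.cons (P.cons (P.lf 2571773 0 0) (P.cons (P.lf 0 53357 0) (P.cons (P.lf 25416 0 0) P.nil))) (P.cons (P.cons (P.lf 0 945717 0) (P.cons (P.lf 0 44650 0) P.nil)) (P.cons (P.cons (P.lf 56026 0 0) P.nil) P.nil)))))) 90483)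
 EL.nil)
noncomputable def S430_459_660_808_30 : EL := (EL.cons 13 (TM.mk (P.cons (P.lf 0 3769994864 0) (P.cons (P.lf 0 55706392 0) (P.cons (P.lf 12473252 0 0) (P.cons (P.lf 0 642016 0) (P.cons (P.lf 10084 0 0) (P.cons (P.lf 908 0 0) P.nil)))))) 412)
 EL.nil)
noncomputable def S430_459_660_808_31 : EL := (EL.cons 13 (TM.mk (P.cons (P.cons (P.lf 0 2284621151 0) (P.cons (P.lf 2525759 0 0) (P.cons (P.lf 0 1089133 0) (P.lf 0 121012 0)))) (P.cons (P.cons (P.lf 0 225332286 0) (P.cons (P.lf 0 2885043 0) (P.cons (P.lf 1244061 0 0) (P.lf 138226 0 0)))) (P.cons (P.cons (P.lf 47520188 0 0) (P.cons (P.lf 1144757 0 0) (P.cons (P.lf 0 493631 0) (P.lf 0 54845 0)))) (P.cons (P.cons (P.lf 0 848643 0) (P.cons (P.lf 0 167826 0) (P.cons (P.lf 72366 0 0) P.nil))) (P.cons (P.cons (P.lf 0 333043 0) (P.cons (P.lf 1172 0 0) P.nil)) (P.cons (P.cons (P.lf 31944 0 0) P.nil) P.nil)))))) 26844)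
 EL.nil)
noncomputable def S430_459_660_808_32 : EL := (EL.cons 13 (TM.mk (P.cons (P.cons (P.lf 0 1384483001 0) (P.cons (P.lf 3061225 0 0) (P.cons (P.lf 0 1321724 0) (P.cons (P.lf 0 145207 0) (P.cons (P.lf 0 151 0) (P.cons (P.lf 0 69 0) P.nil)))))) (P.cons (P.cons (P.lf 0 252645771 0) (P.cons (P.lf 0 3239982 0) (P.cons (P.lf 1401005 0 0) (P.cons (P.lf 151876 0 0) (P.cons (P.lf 350 0 0) P.nil))))) (P.cons (P.cons (P.lf 43278995 0 0) (P.cons (P.lf 1036900 0 0) (P.cons (P.lf 0 450926 0) (P.cons (P.lf 0 46396 0) P.nil)))) (P.cons (P.cons (P.lf 3412374 0 0) (P.cons (P.lf 0 19256 0) (P.cons (P.lf 10346 0 0) P.nil))) (P.cons (P.cons (P.lf 0 971990 0) (P.cons (P.lf 0 44076 0) P.nil)) (P.cons (P.cons (P.lf 37571 0 0) P.nil) P.nil)))))) 90297)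
 EL.nil)
noncomputable def S430_459_660_808_33 : EL := (EL.cons 14 (TM.mk (P.lf 8589934592 0 0) 0)
 EL.nil)
noncomputable def S430_459_660_808_34 : EL := (EL.cons 14 (TM.mk (P.cons (P.cons (P.lf 5205510078 0 0) (P.cons (P.lf 0 5754944 0) (P.cons (P.lf 2481592 0 0) (P.lf 275728 0 0)))) (P.cons (P.cons (P.lf 436501766 0 0) (P.cons (P.lf 6658608 0 0) (P.cons (P.lf 0 2871264 0) (P.lf 0 319024 0)))) (P.cons (P.cons (P.lf 0 97501886 0) (P.cons (P.lf 0 2725760 0) (P.cons (P.lf 1175376 0 0) (P.lf 130592 0 0)))) (P.cons (P.cons (P.lf 3932060 0 0) (P.cons (P.lf 445680 0 0) (P.cons (P.lf 0 192176 0) P.nil))) (P.cons (P.cons (P.lf 317738 0 0) (P.cons (P.lf 0 19424 0) P.nil)) (P.cons (P.cons (P.lf 0 45446 0) P.nil) P.nil)))))) 42658)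
 EL.nil)
noncomputable def S430_459_660_808_35 : EL := (EL.cons 14 (TM.mk (P.cons (P.cons (P.lf 3154544994 0 0) (P.cons (P.lf 0 6975004 0) (P.cons (P.lf 3011550 0 0) (P.cons (P.lf 330856 0 0) (P.cons (P.lf 346 0 0) (P.cons (P.lf 158 0 0) P.nil)))))) (P.cons (P.cons (P.lf 529041126 0 0) (P.cons (P.lf 7485366 0 0) (P.cons (P.lf 0 3236692 0) (P.cons (P.lf 0 350940 0) (P.cons (P.lf 0 804 0) P.nil))))) (P.cons (P.cons (P.lf 0 95991452 0) (P.cons (P.lf 0 2496260 0) (P.cons (P.lf 1085226 0 0) (P.cons (P.lf 111994 0 0) P.nil)))) (P.cons (P.cons (P.lf 0 5143546 0) (P.cons (P.lf 106714 0 0) (P.cons (P.lf 0 50832 0) P.nil))) (P.cons (P.cons (P.lf 1891434 0 0) (P.cons (P.lf 89300 0 0) P.nil)) (P.cons (P.cons (P.lf 0 112052 0) P.nil) P.nil)))))) 180966)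
 EL.nil)
noncomputable def S430_459_660_808_36 : EL := (EL.cons 14 (TM.mk (P.cons (P.lf 7539989728 0 0) (P.cons (P.lf 111412784 0 0) (P.cons (P.lf 0 24946504 0) (P.cons (P.lf 1284032 0 0) (P.cons (P.lf 0 20168 0) (P.cons (P.lf 0 1816 0) P.nil)))))) 824)
 EL.nil)
noncomputable def S430_459_660_808_37 : EL := (EL.cons 14 (TM.mk (P.cons (P.cons (P.lf 4569242302 0 0) (P.cons (P.lf 0 5051518 0) (P.cons (P.lf 2178266 0 0) (P.lf 242024 0 0)))) (P.cons (P.cons (P.lf 450664572 0 0) (P.cons (P.lf 5770086 0 0) (P.cons (P.lf 0 2488122 0) (P.lf 0 276452 0)))) (P.cons (P.cons (P.lf 0 95040376 0) (P.cons (P.lf 0 2289514 0) (P.cons (P.lf 987262 0 0) (P.lf 109690 0 0)))) (P.cons (P.cons (P.lf 1697286 0 0) (P.cons (P.lf 335652 0 0) (P.cons (P.lf 0 144732 0) P.nil))) (P.cons (P.cons (P.lf 666086 0 0) (P.cons (P.lf 0 2344 0) P.nil)) (P.cons (P.cons (P.lf 0 63888 0) P.nil) P.nil))))))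 53688)
 EL.nil)
noncomputable def S430_459_660_808_38 : EL := (EL.cons 14 (TM.mk (P.cons (P.cons (P.lf 2768966002 0 0) (P.cons (P.lf 0 6122450 0) (P.cons (P.lf 2643448 0 0) (P.cons (P.lf 290414 0 0) (P.cons (P.lf 302 0 0) (P.cons (P.lf 138 0 0) P.nil)))))) (P.cons (P.cons (P.lf 505291542 0 0) (P.cons (P.lf 6479964 0 0) (P.cons (P.lf 0 2802010 0) (P.cons (P.lf 0 303752 0) (P.cons (P.lf 0 700 0) P.nil))))) (P.cons (P.cons (P.lf 0 86557990 0) (P.cons (P.lf 0 2073800 0) (P.cons (P.lf 901852 0 0) (P.cons (P.lf 92792 0 0) P.nil)))) (P.cons (P.cons (P.lf 0 6824748 0) (P.cons (P.lf 38512 0 0) (P.cons (P.lf 0 20692 0) P.nil))) (P.cons (P.cons (P.lf 1943980 0 0) (P.cons (P.lf 88152 0 0) P.nil)) (P.cons (P.cons (P.lf 0 75142 0) P.nil) P.nil)))))) 180594)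
 EL.nil)
noncomputable def S430_459_660_808_39 : EL := (EL.cons 14 (TM.mk (P.cons (P.lf 6618379276 0 0) (P.cons (P.lf 195589672 0 0) (P.cons (P.lf 0 42349560 0) (P.cons (P.lf 1607050 0 0) (P.cons (P.lf 70350 0 0) (P.cons (P.lf 0 11168 0) P.nil)))))) 1860)
 EL.nil)
noncomputable def S430_459_660_808_40 : EL := (EL.cons 14 (TM.mk (P.cons (P.cons (P.lf 4010745326 0 0) (P.cons (P.lf 0 4434072 0) (P.cons (P.lf 1912018 0 0) (P.lf 212442 0 0)))) (P.cons (P.cons (P.lf 454843770 0 0) (P.cons (P.lf 4999290 0 0) (P.cons (P.lf 0 2155748 0) (P.lf 0 239522 0)))) (P.cons (P.cons (P.lf 0 90848222 0) (P.cons (P.lf 0 1920158 0) (P.cons (P.lf 827992 0 0) (P.lf 91994 0 0)))) (P.cons (P.cons (P.lf 0 368644 0) (P.cons (P.lf 247418 0 0) (P.cons (P.lf 0 106684 0) P.nil))) (P.cons (P.cons (P.lf 939334 0 0) (P.cons (P.lf 9818 0 0) P.nil)) (P.cons (P.cons (P.lf 0 68600 0) P.nil) P.nil))))))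 61246)
 EL.nil)
noncomputable def S430_459_660_808_41 : EL := (EL.cons 14 (TM.mk (P.cons (P.cons (P.lf 2430516202 0 0) (P.cons (P.lf 0 5374106 0) (P.cons (P.lf 2320340 0 0) (P.cons (P.lf 254918 0 0) (P.cons (P.lf 266 0 0) (P.cons (P.lf 120 0 0) P.nil)))))) (P.cons (P.cons (P.lf 479443842 0 0) (P.cons (P.lf 5608512 0 0) (P.cons (P.lf 0 2425236 0) (P.cons (P.lf 0 262858 0) (P.cons (P.lf 0 610 0) P.nil))))) (P.cons (P.cons (P.lf 0 77465834 0) (P.cons (P.lf 0 1718492 0) (P.cons (P.lf 747600 0 0) (P.cons (P.lf 76666 0 0) P.nil)))) (P.cons (P.cons (P.lf 0 8166770 0) (P.cons (P.lf 0 12826 0) (P.cons (P.lf 2064 0 0) P.nil))) (P.cons (P.cons (P.lf 1938258 0 0) (P.cons (P.lf 84882 0 0) P.nil)) (P.cons (P.cons (P.lf 0 35634 0) P.nil) P.nil)))))) 177052)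
 EL.nil)
noncomputable def S430_459_660_808_42 : EL := (EL.cons 14 (TM.mk (P.cons (P.lf 5809416966 0 0) (P.cons (P.lf 257524216 0 0) (P.cons (P.lf 0 53857160 0) (P.cons (P.lf 1282638 0 0) (P.cons (P.lf 219282 0 0) (P.cons (P.lf 0 21746 0) P.nil)))))) 3122)
 EL.nil)
noncomputable def S430_459_660_808_43 : EL := (EL.cons 14 (TM.mk (P.cons (P.cons (P.lf 3520513250 0 0) (P.cons (P.lf 0 3892098 0) (P.cons (P.lf 1678312 0 0) (P.lf 186476 0 0)))) (P.cons (P.cons (P.lf 451268356 0 0) (P.cons (P.lf 4330718 0 0) (P.cons (P.lf 0 1867452 0) (P.lf 0 207490 0)))) (P.cons (P.cons (P.lf 0 85492306 0) (P.cons (P.lf 0 1607738 0) (P.cons (P.lf 693272 0 0) (P.lf 77026 0 0)))) (P.cons (P.cons (P.lf 0 2223308 0) (P.cons (P.lf 177090 0 0) (P.cons (P.lf 0 76358 0) P.nil))) (P.cons (P.cons (P.lf 1142150 0 0) (P.cons (P.lf 18162 0 0) P.nil)) (P.cons (P.cons (P.lf 0 62456 0) P.nil) P.nil))))))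 67064)
 EL.nil)
noncomputable def S430_459_660_808_44 : EL := (EL.cons 14 (TM.mk (P.cons (P.cons (P.lf 2133435010 0 0) (P.cons (P.lf 0 4717230 0) (P.cons (P.lf 2036726 0 0) (P.cons (P.lf 223758 0 0) (P.cons (P.lf 234 0 0) (P.cons (P.lf 106 0 0) P.nil)))))) (P.cons (P.cons (P.lf 452365750 0 0) (P.cons (P.lf 4853282 0 0) (P.cons (P.lf 0 2098704 0) (P.cons (P.lf 0 227422 0) (P.cons (P.lf 0 532 0) P.nil))))) (P.cons (P.cons (P.lf 0 68837346 0) (P.cons (P.lf 0 1420092 0) (P.cons (P.lf 618026 0 0) (P.cons (P.lf 63146 0 0) P.nil)))) (P.cons (P.cons (P.lf 0 9202356 0) (P.cons (P.lf 0 50638 0) (P.cons (P.lf 18898 0 0) P.nil))) (P.cons (P.cons (P.lf 1886354 0 0) (P.cons (P.lf 80184 0 0) P.nil)) (P.cons (P.cons (P.lf 4358 0 0) P.nil) P.nil)))))) 172186)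
 EL.nil)
noncomputable def S430_459_660_808_45 : EL := (EL.cons 14 (TM.mk (P.cons (P.cons (P.lf 1911657834 0 0) (P.cons (P.lf 0 6340290 0) (P.cons (P.lf 2741008 0 0) (P.cons (P.lf 297724 0 0) (P.cons (P.lf 634 0 0) (P.cons (P.lf 286 0 0) P.nil)))))) (P.cons (P.cons (P.lf 480899280 0 0) (P.cons (P.lf 6272552 0 0) (P.cons (P.lf 0 2720424 0) (P.cons (P.lf 0 287036 0) (P.cons (P.lf 0 1420 0) P.nil))))) (P.cons (P.cons (P.lf 0 67093778 0) (P.cons (P.lf 0 1579788 0) (P.cons (P.lf 695752 0 0) (P.cons (P.lf 63138 0 0) P.nil)))) (P.cons (P.cons (P.lf 0 12555842 0) (P.cons (P.lf 0 225504 0) (P.cons (P.lf 90130 0 0) P.nil))) (P.cons (P.cons (P.lf 2333264 0 0) (P.cons (P.lf 136562 0 0) P.nil)) (P.cons (P.cons (P.lf 45532 0 0) P.nil) P.nil)))))) 285176)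
 EL.nil)
noncomputable def S430_459_660_808_46 : EL := (EL.cons 15 (TM.mk (P.lf 4294967296 0 0) 0)
 EL.nil)
noncomputable def S430_459_660_808_47 : EL := (EL.cons 15 (TM.mk (P.cons (P.cons (P.lf 2602755039 0 0) (P.cons (P.lf 0 2877472 0) (P.cons (P.lf 1240796 0 0) (P.lf 137864 0 0)))) (P.cons (P.cons (P.lf 218250883 0 0) (P.cons (P.lf 3329304 0 0) (P.cons (P.lf 0 1435632 0) (P.lf 0 159512 0)))) (P.cons (P.cons (P.lf 0 48750943 0) (P.cons (P.lf 0 1362880 0) (P.cons (P.lf 587688 0 0) (P.lf 65296 0 0)))) (P.cons (P.cons (P.lf 1966030 0 0) (P.cons (P.lf 222840 0 0) (P.cons (P.lf 0 96088 0) P.nil))) (P.cons (P.cons (P.lf 158869 0 0) (P.cons (P.lf 0 9712 0) P.nil)) (P.cons (P.cons (P.lf 0 22723 0) P.nil) P.nil)))))) 21329)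
 EL.nil)
noncomputable def S430_459_660_808_48 : EL := (EL.cons 15 (TM.mk (P.cons (P.cons (P.lf 1577272497 0 0) (P.cons (P.lf 0 3487502 0) (P.cons (P.lf 1505775 0 0) (P.cons (P.lf 165428 0 0) (P.cons (P.lf 173 0 0) (P.cons (P.lf 79 0 0) P.nil)))))) (P.cons (P.cons (P.lf 264520563 0 0) (P.cons (P.lf 3742683 0 0) (P.cons (P.lf 0 1618346 0) (P.cons (P.lf 0 175470 0) (P.cons (P.lf 0 402 0) P.nil))))) (P.cons (P.cons (P.lf 0 47995726 0) (P.cons (P.lf 0 1248130 0) (P.cons (P.lf 542613 0 0) (P.cons (P.lf 55997 0 0) P.nil)))) (P.cons (P.cons (P.lf 0 2571773 0) (P.cons (P.lf 53357 0 0) (P.cons (P.lf 0 25416 0) P.nil))) (P.cons (P.cons (P.lf 945717 0 0) (P.cons (P.lf 44650 0 0) P.nil)) (P.cons (P.cons (P.lf 0 56026 0) P.nil) P.nil)))))) 90483)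
 EL.nil)
noncomputable def S430_459_660_808 : SL := (SL.cons S430_459_660_808_0 (SL.cons S430_459_660_808_1 (SL.cons S430_459_660_808_2 (SL.cons S430_459_660_808_3 (SL.cons S430_459_660_808_4 (SL.cons S430_459_660_808_5 (SL.cons S430_459_660_808_6 (SL.cons S430_459_660_808_7 (SL.cons S430_459_660_808_8 (SL.cons S430_459_660_808_9 (SL.cons S430_459_660_808_10 (SL.cons S430_459_660_808_11 (SL.cons S430_459_660_808_12 (SL.cons S430_459_660_808_13 (SL.cons S430_459_660_808_14 (SL.cons S430_459_660_808_15 (SL.cons S430_459_660_808_16 (SL.cons S430_459_660_808_17 (SL.cons S430_459_660_808_18 (SL.cons S430_459_660_808_19 (SL.cons S430_459_660_808_20 (SL.cons S430_459_660_808_21 (SL.cons S430_459_660_808_22 (SL.cons S430_459_660_808_23 (SL.cons S430_459_660_808_24 (SL.cons S430_459_660_808_25 (SL.cons S430_459_660_808_26 (SL.cons S430_459_660_808_27 (SL.cons S430_459_660_808_28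 (SL.cons S430_459_660_808_29 (SL.cons S430_459_660_808_30 (SL.cons S430_459_660_808_31 (SL.cons S430_459_660_808_32 (SL.cons S430_459_660_808_33 (SL.cons S430_459_660_808_34 (SL.cons S430_459_660_808_35 (SL.cons S430_459_660_808_36 (SL.cons S430_459_660_808_37 (SL.cons S430_459_660_808_38 (SL.cons S430_459_660_808_39 (SL.cons S430_459_660_808_40 (SL.cons S430_459_660_808_41 (SL.cons S430_459_660_808_42 (SL.cons S430_459_660_808_43 (SL.cons S430_459_660_808_44 (SL.cons S430_459_660_808_45 (SL.cons S430_459_660_808_46 (SL.cons S430_459_660_808_47 (SL.cons S430_459_660_808_48 SL.nil)))))))))))))))))))))))))))))))))))))))))))))))))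
noncomputable def S430_488_216_364_0 : EL := (EL.cons 0 (TM.mk (P.cons (P.lf 2502633316 0 0) (P.cons (P.lf 0 203801712 0) (P.cons (P.lf 130815949 0 0) (P.cons (P.lf 0 12568577 0) (P.cons (P.lf 0 316826 0) (P.cons (P.lf 225130 0 0) P.nil)))))) 89741)
 (EL.cons 1 (TM.mk (P.cons (P.lf 428420096 0 0) (P.cons (P.lf 0 496117890 0) (P.cons (P.lf 13955407 0 0) (P.cons (P.lf 7690831 0 0) (P.cons (P.lf 0 1319411 0) (P.cons (P.lf 80557 0 0) P.nil)))))) 32420)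
 (EL.cons 5 (TM.mk (P.cons (P.lf 6411619230 0 0) (P.cons (P.lf 72462834 0 0) (P.cons (P.lf 0 46512338 0) (P.cons (P.lf 4468832 0 0) (P.cons (P.lf 112646 0 0) (P.cons (P.lf 0 80044 0) P.nil)))))) 15705)
 (EL.cons 9 (TM.mk (P.lf 6442450944 0 0) 2)
 EL.nil))))
noncomputable def S430_488_216_364_1 : EL := (EL.cons 0 (TM.mk (P.cons (P.cons (P.lf 1888690077 0 0) (P.cons (P.lf 2497030 0 0) (P.cons (P.lf 1076743 0 0) (P.lf 0 119625 0)))) (P.cons (P.cons (P.lf 0 593601093 0) (P.cons (P.lf 0 8670527 0) (P.cons (P.lf 0 3738820 0) (P.lf 415406 0 0)))) (P.cons (P.cons (P.lf 306265389 0 0) (P.cons (P.lf 10270501 0 0) (P.cons (P.lf 4428753 0 0) (P.lf 0 492070 0)))) (P.cons (P.cons (P.lf 45980738 0 0) (P.cons (P.lf 0 4274224 0) (P.cons (P.lf 0 1843088 0) P.nil))) (P.cons (P.cons (P.lf 0 25755865 0) (P.cons (P.lf 0 31617 0) P.nil)) (P.cons (P.cons (P.lf 2227025 0 0) P.nil) P.nil))))))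 4545047)
 (EL.cons 1 (TM.mk (P.cons (P.cons (P.lf 928826820 0 0) (P.cons (P.lf 6999548 0 0) (P.cons (P.lf 3018287 0 0) (P.lf 0 335365 0)))) (P.cons (P.cons (P.lf 0 944664347 0) (P.cons (P.lf 0 15676108 0) (P.cons (P.lf 0 6759717 0) (P.lf 751082 0 0)))) (P.cons (P.cons (P.lf 0 172845834 0) (P.cons (P.lf 8251544 0 0) (P.cons (P.lf 3558160 0 0) (P.lf 0 395354 0)))) (P.cons (P.cons (P.lf 81069752 0 0) (P.cons (P.lf 1333607 0 0) (P.cons (P.lf 575062 0 0) P.nil))) (P.cons (P.cons (P.lf 0 1516801 0) (P.cons (P.lf 0 947240 0) P.nil)) (P.cons (P.cons (P.lf 0 2814009 0) P.nil) P.nil)))))) 1793155)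
 (EL.cons 5 (TM.mk (P.cons (P.cons (P.lf 4058141516 0 0) (P.cons (P.lf 0 2075074 0) (P.cons (P.lf 0 894798 0) (P.lf 99420 0 0)))) (P.cons (P.cons (P.lf 596681946 0 0) (P.cons (P.lf 7268362 0 0) (P.cons (P.lf 3134198 0 0) (P.lf 0 348240 0)))) (P.cons (P.cons (P.lf 0 337752056 0) (P.cons (P.lf 0 8797596 0) (P.cons (P.lf 0 3793618 0) (P.lf 421510 0 0)))) (P.cons (P.cons (P.lf 0 11183437 0) (P.cons (P.lf 3971628 0 0) (P.cons (P.lf 1712612 0 0) P.nil))) (P.cons (P.cons (P.lf 14199543 0 0) (P.cons (P.lf 0 292838 0) P.nil)) (P.cons (P.cons (P.lf 0 1647094 0) P.nil) P.nil)))))) 1273273)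
 (EL.cons 9 (TM.mk (P.cons (P.cons (P.lf 4173243312 0 0) (P.cons (P.lf 0 1047564 0) (P.cons (P.lf 0 451722 0) (P.lf 50190 0 0)))) (P.cons (P.cons (P.lf 340256268 0 0) (P.cons (P.lf 3693096 0 0) (P.cons (P.lf 1592502 0 0) (P.lf 0 176940 0)))) (P.cons (P.cons (P.lf 0 201933258 0) (P.cons (P.lf 0 4540458 0) (P.cons (P.lf 0 1957896 0) (P.lf 217542 0 0)))) (P.cons (P.cons (P.lf 4557574 0 0) (P.cons (P.lf 2163438 0 0) (P.cons (P.lf 932898 0 0) P.nil))) (P.cons (P.cons (P.lf 4448745 0 0) (P.cons (P.lf 0 268302 0) P.nil)) (P.cons (P.cons (P.lf 0 754642 0) P.nil) P.nil)))))) 500867)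
 (EL.cons 2 (TM.mk (P.cons (P.cons (P.lf 0 15207862 0) (P.cons (P.lf 0 14167530 0) (P.cons (P.lf 1454048 0 0) (P.cons (P.lf 302400 0 0) (P.lf 0 25197 0))))) (P.cons (P.cons (P.lf 35482258 0 0) (P.cons (P.lf 33055005 0 0) (P.cons (P.lf 0 3392516 0) (P.cons (P.lf 0 705546 0) (P.lf 58795 0 0))))) (P.cons (P.cons (P.lf 0 22161254 0) (P.cons (P.lf 0 20645260 0) (P.cons (P.lf 2118872 0 0) (P.cons (P.lf 440662 0 0) P.nil)))) (P.cons (P.cons (P.lf 1394651 0 0) (P.cons (P.lf 1299248 0 0) (P.cons (P.lf 0 133343 0) P.nil))) (P.cons (P.cons (P.lf 394129 0 0) (P.cons (P.lf 367169 0 0) P.nil)) (P.cons (P.cons (P.lf 0 93625 0) P.nil) P.nil)))))) 280981)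
 (EL.cons 6 (TM.mk (P.cons (P.cons (P.lf 1094448 0 0) (P.cons (P.lf 1019580 0 0) (P.cons (P.lf 0 104640 0) (P.cons (P.lf 0 21762 0) (P.lf 1812 0 0))))) (P.cons (P.cons (P.lf 0 3858378 0) (P.cons (P.lf 0 3594435 0) (P.cons (P.lf 368904 0 0) (P.cons (P.lf 76722 0 0) (P.lf 0 6393 0))))) (P.cons (P.cons (P.lf 4743669 0 0) (P.cons (P.lf 4419165 0 0) (P.cons (P.lf 0 453549 0) (P.cons (P.lf 0 94323 0) P.nil)))) (P.cons (P.cons (P.lf 0 2260266 0) (P.cons (P.lf 0 2105646 0) (P.cons (P.lf 216105 0 0) P.nil))) (P.cons (P.cons (P.lf 280311 0 0) (P.cons (P.lf 261135 0 0) P.nil)) (P.cons (P.cons (P.lf 3981 0 0) P.nil) P.nil)))))) 133362)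
 EL.nil))))))
noncomputable def S430_488_216_364_2 : EL := (EL.cons 0 (TM.mk (P.cons (P.cons (P.lf 1396755050 0 0) (P.cons (P.lf 3148000 0 0) (P.cons (P.lf 1356570 0 0) (P.cons (P.lf 0 151566 0) (P.cons (P.lf 0 71 0) (P.cons (P.lf 31 0 0) P.nil)))))) (P.cons (P.cons (P.lf 0 655258516 0) (P.cons (P.lf 0 10469455 0) (P.cons (P.lf 0 4508376 0) (P.cons (P.lf 506897 0 0) (P.cons (P.lf 552 0 0) P.nil))))) (P.cons (P.cons (P.lf 269378945 0 0) (P.cons (P.lf 11074583 0 0) (P.cons (P.lf 4757244 0 0) (P.cons (P.lf 0 546322 0) P.nil)))) (P.cons (P.cons (P.lf 126412573 0 0) (P.cons (P.lf 0 2545336 0) (P.cons (P.lf 0 1068068 0) P.nil))) (P.cons (P.cons (P.lf 0 45374116 0) (P.cons (P.lf 0 1952106 0) P.nil)) (P.cons (P.cons (P.lf 0 3075650 0) P.nil) P.nil)))))) 14165966)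
 (EL.cons 1 (TM.mk (P.cons (P.cons (P.lf 1023568074 0 0) (P.cons (P.lf 8856423 0 0) (P.cons (P.lf 3816705 0 0) (P.cons (P.lf 0 426307 0) (P.cons (P.lf 0 208 0) (P.cons (P.lf 95 0 0) P.nil)))))) (P.cons (P.cons (P.lf 0 946882371 0) (P.cons (P.lf 0 18612978 0) (P.cons (P.lf 0 8012915 0) (P.cons (P.lf 903192 0 0) (P.cons (P.lf 1189 0 0) P.nil))))) (P.cons (P.cons (P.lf 0 337647936 0) (P.cons (P.lf 6983274 0 0) (P.cons (P.lf 2980416 0 0) (P.cons (P.lf 0 361200 0) P.nil)))) (P.cons (P.cons (P.lf 125386891 0 0) (P.cons (P.lf 4757402 0 0) (P.cons (P.lf 2087933 0 0) P.nil))) (P.cons (P.cons (P.lf 15910987 0 0) (P.cons (P.lf 0 1835259 0) P.nil)) (P.cons (P.cons (P.lf 0 9252989 0) P.nil) P.nil)))))) 5292594)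
 (EL.cons 5 (TM.mk (P.cons (P.cons (P.lf 2567130440 0 0) (P.cons (P.lf 0 2657411 0) (P.cons (P.lf 0 1145405 0) (P.cons (P.lf 127751 0 0) (P.cons (P.lf 39 0 0) (P.cons (P.lf 0 18 0) P.nil)))))) (P.cons (P.cons (P.lf 732573855 0 0) (P.cons (P.lf 9019575 0 0) (P.cons (P.lf 3885790 0 0) (P.cons (P.lf 0 435199 0) (P.cons (P.lf 0 312 0) P.nil))))) (P.cons (P.cons (P.lf 0 371908060 0) (P.cons (P.lf 0 10087776 0) (P.cons (P.lf 0 4339399 0) (P.cons (P.lf 492431 0 0) P.nil)))) (P.cons (P.cons (P.lf 0 62428968 0) (P.cons (P.lf 3273941 0 0) (P.cons (P.lf 1394576 0 0) P.nil))) (P.cons (P.cons (P.lf 30383989 0 0) (P.cons (P.lf 885984 0 0) P.nil)) (P.cons (P.cons (P.lf 194303 0 0) P.nil) P.nil)))))) 4705078)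
 (EL.cons 9 (TM.mk (P.cons (P.cons (P.lf 2703312744 0 0) (P.cons (P.lf 0 1357165 0) (P.cons (P.lf 0 585055 0) (P.cons (P.lf 65169 0 0) (P.cons (P.lf 15 0 0) (P.cons (P.lf 0 6 0) P.nil)))))) (P.cons (P.cons (P.lf 440817385 0 0) (P.cons (P.lf 4673919 0 0) (P.cons (P.lf 2014242 0 0) (P.cons (P.lf 0 224967 0) (P.cons (P.lf 0 108 0) P.nil))))) (P.cons (P.cons (P.lf 0 243643128 0) (P.cons (P.lf 0 5426598 0) (P.cons (P.lf 0 2336415 0) (P.cons (P.lf 263097 0 0) P.nil)))) (P.cons (P.cons (P.lf 0 15425554 0) (P.cons (P.lf 2090229 0 0) (P.cons (P.lf 895420 0 0) P.nil))) (P.cons (P.cons (P.lf 12574393 0 0) (P.cons (P.lf 169336 0 0) P.nil)) (P.cons (P.cons (P.lf 0 793461 0) P.nil) P.nil)))))) 1739186)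
 (EL.cons 2 (TM.mk (P.cons (P.cons (P.lf 0 19702473 0) (P.cons (P.lf 0 18349728 0) (P.cons (P.lf 1890523 0 0) (P.cons (P.lf 393046 0 0) (P.cons (P.lf 0 33165 0) (P.cons (P.lf 0 11 0) P.nil)))))) (P.cons (P.cons (P.lf 44362473 0 0) (P.cons (P.lf 41298772 0 0) (P.cons (P.lf 0 4281052 0) (P.cons (P.lf 0 889605 0) (P.cons (P.lf 76573 0 0) P.nil))))) (P.cons (P.cons (P.lf 0 24009581 0) (P.cons (P.lf 0 22297820 0) (P.cons (P.lf 2390068 0 0) (P.cons (P.lf 495315 0 0) P.nil)))) (P.cons (P.cons (P.lf 0 2779880 0) (P.cons (P.lf 0 2675806 0) (P.cons (P.lf 148466 0 0) P.nil))) (P.cons (P.cons (P.lf 2076378 0 0) (P.cons (P.lf 1992144 0 0) P.nil)) (P.cons (P.cons (P.lf 0 145878 0) P.nil) P.nil)))))) 1316418)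
 (EL.cons 6 (TM.mk (P.cons (P.cons (P.lf 1417908 0 0) (P.cons (P.lf 1320558 0 0) (P.cons (P.lf 0 136050 0) (P.cons (P.lf 0 28284 0) (P.cons (P.lf 2382 0 0) (P.cons (P.lf 0 0 0) P.nil)))))) (P.cons (P.cons (P.lf 0 4883094 0) (P.cons (P.lf 0 4546548 0) (P.cons (P.lf 470298 0 0) (P.cons (P.lf 97740 0 0) (P.cons (P.lf 0 8352 0) P.nil))))) (P.cons (P.cons (P.lf 5669466 0 0) (P.cons (P.lf 5274126 0 0) (P.cons (P.lf 0 552300 0) (P.cons (P.lf 0 114672 0) P.nil)))) (P.cons (P.cons (P.lf 0 2183784 0) (P.cons (P.lf 0 2022048 0) (P.cons (P.lf 225618 0 0) P.nil))) (P.cons (P.cons (P.lf 0 176910 0) (P.cons (P.lf 0 176862 0) P.nil)) (P.cons (P.cons (P.lf 177582 0 0) P.nil) P.nil)))))) 459552)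
 EL.nil))))))
noncomputable def S430_488_216_364_3 : EL := (EL.cons 0 (TM.mk (P.cons (P.lf 5953083547 0 0) (P.cons (P.lf 203801712 0 0) (P.cons (P.lf 0 130815949 0) (P.cons (P.lf 12568577 0 0) (P.cons (P.lf 316826 0 0) (P.cons (P.lf 0 225130 0) P.nil)))))) 89741)
 (EL.cons 1 (TM.mk (P.cons (P.lf 0 428420096 0) (P.cons (P.lf 496117890 0 0) (P.cons (P.lf 0 13955407 0) (P.cons (P.lf 0 7690831 0) (P.cons (P.lf 1319411 0 0) (P.cons (P.lf 0 80557 0) P.nil)))))) 32420)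
 (EL.cons 5 (TM.mk (P.cons (P.lf 30831714 0 0) (P.cons (P.lf 0 72462834 0) (P.cons (P.lf 46512338 0 0) (P.cons (P.lf 0 4468832 0) (P.cons (P.lf 0 112646 0) (P.cons (P.lf 80044 0 0) P.nil)))))) 15698)
 EL.nil)))
noncomputable def S430_488_216_364_4 : EL := (EL.cons 0 (TM.mk (P.cons (P.cons (P.lf 3856244512 0 0) (P.cons (P.lf 0 967990 0) (P.cons (P.lf 0 417408 0) (P.lf 46376 0 0)))) (P.cons (P.cons (P.lf 446427632 0 0) (P.cons (P.lf 3379429 0 0) (P.cons (P.lf 1457245 0 0) (P.lf 0 161910 0)))) (P.cons (P.cons (P.lf 0 260569701 0) (P.cons (P.lf 0 4057465 0) (P.cons (P.lf 0 1749624 0) (P.lf 194400 0 0)))) (P.cons (P.cons (P.lf 0 944040 0) (P.cons (P.lf 1778435 0 0) (P.cons (P.lf 766880 0 0) P.nil))) (P.cons (P.cons (P.lf 9224347 0 0) (P.cons (P.lf 0 80133 0) P.nil)) (P.cons (P.cons (P.lf 0 1172181 0) P.nil) P.nil)))))) 919787)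
 (EL.cons 1 (TM.mk (P.cons (P.cons (P.lf 0 277518806 0) (P.cons (P.lf 69661 0 0) (P.cons (P.lf 30037 0 0) (P.lf 0 3337 0)))) (P.cons (P.cons (P.lf 298744695 0 0) (P.cons (P.lf 0 326259 0) (P.cons (P.lf 0 140685 0) (P.lf 15630 0 0)))) (P.cons (P.cons (P.lf 30590866 0 0) (P.cons (P.lf 588603 0 0) (P.cons (P.lf 253811 0 0) (P.lf 0 28200 0)))) (P.cons (P.cons (P.lf 0 21572439 0) (P.cons (P.lf 0 500265 0) (P.cons (P.lf 0 215718 0) P.nil))) (P.cons (P.cons (P.lf 941038 0 0) (P.cons (P.lf 189654 0 0) P.nil)) (P.cons (P.cons (P.lf 641460 0 0) P.nil) P.nil)))))) 381960)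
 (EL.cons 5 (TM.mk (P.cons (P.cons (P.lf 19971940 0 0) (P.cons (P.lf 0 5012 0) (P.cons (P.lf 0 2160 0) (P.lf 240 0 0)))) (P.cons (P.cons (P.lf 0 45311070 0) (P.cons (P.lf 29456 0 0) (P.cons (P.lf 12700 0 0) (P.lf 0 1410 0)))) (P.cons (P.cons (P.lf 25335920 0 0) (P.cons (P.lf 0 70830 0) (P.cons (P.lf 0 30542 0) (P.lf 3392 0 0)))) (P.cons (P.cons (P.lf 1854846 0 0) (P.cons (P.lf 88812 0 0) (P.cons (P.lf 38296 0 0) P.nil))) (P.cons (P.cons (P.lf 0 1796850 0) (P.cons (P.lf 0 60940 0) P.nil)) (P.cons (P.cons (P.lf 165228 0 0) P.nil) P.nil)))))) 148478)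
 EL.nil)))
noncomputable def S430_488_216_364_5 : EL := (EL.cons 0 (TM.mk (P.cons (P.cons (P.lf 2497969601 0 0) (P.cons (P.lf 0 1254074 0) (P.cons (P.lf 0 540613 0) (P.cons (P.lf 60217 0 0) (P.cons (P.lf 12 0 0) (P.cons (P.lf 0 5 0) P.nil)))))) (P.cons (P.cons (P.lf 492850084 0 0) (P.cons (P.lf 4275954 0 0) (P.cons (P.lf 1842732 0 0) (P.cons (P.lf 0 205815 0) (P.cons (P.lf 0 98 0) P.nil))))) (P.cons (P.cons (P.lf 0 266082735 0) (P.cons (P.lf 0 4838980 0) (P.cons (P.lf 0 2083341 0) (P.cons (P.lf 234671 0 0) P.nil)))) (P.cons (P.cons (P.lf 0 25638324 0) (P.cons (P.lf 1662234 0 0) (P.cons (P.lf 711451 0 0) P.nil))) (P.cons (P.cons (P.lf 17071451 0 0) (P.cons (P.lf 341836 0 0) P.nil)) (P.cons (P.cons (P.lf 0 570299 0) P.nil) P.nil)))))) 2331275)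
 (EL.cons 1 (TM.mk (P.cons (P.cons (P.lf 0 179769082 0) (P.cons (P.lf 90249 0 0) (P.cons (P.lf 38904 0 0) (P.cons (P.lf 0 4333 0) (P.cons (P.lf 0 0 0) (P.cons (P.lf 0 0 0) P.nil)))))) (P.cons (P.cons (P.lf 178861552 0 0) (P.cons (P.lf 0 415323 0) (P.cons (P.lf 0 178998 0) (P.cons (P.lf 19978 0 0) (P.cons (P.lf 7 0 0) P.nil))))) (P.cons (P.cons (P.lf 44292641 0 0) (P.cons (P.lf 723733 0 0) (P.cons (P.lf 311748 0 0) (P.cons (P.lf 0 34959 0) P.nil)))) (P.cons (P.cons (P.lf 0 21918615 0) (P.cons (P.lf 0 565391 0) (P.cons (P.lf 0 243131 0) P.nil))) (P.cons (P.cons (P.lf 0 1468903 0) (P.cons (P.lf 155598 0 0) P.nil)) (P.cons (P.cons (P.lf 1401832 0 0) P.nil) P.nil)))))) 617236)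
 (EL.cons 5 (TM.mk (P.cons (P.cons (P.lf 12937276 0 0) (P.cons (P.lf 0 6494 0) (P.cons (P.lf 0 2798 0) (P.cons (P.lf 310 0 0) (P.cons (P.lf 0 0 0) (P.cons (P.lf 0 0 0) P.nil)))))) (P.cons (P.cons (P.lf 0 28296458 0) (P.cons (P.lf 37632 0 0) (P.cons (P.lf 16220 0 0) (P.cons (P.lf 0 1808 0) (P.cons (P.lf 0 0 0) P.nil))))) (P.cons (P.cons (P.lf 13392820 0 0) (P.cons (P.lf 0 88338 0) (P.cons (P.lf 0 38060 0) (P.cons (P.lf 4258 0 0) P.nil)))) (P.cons (P.cons (P.lf 3973994 0 0) (P.cons (P.lf 105724 0 0) (P.cons (P.lf 45512 0 0) P.nil))) (P.cons (P.cons (P.lf 0 1878384 0) (P.cons (P.lf 0 65096 0) P.nil)) (P.cons (P.cons (P.lf 0 61712 0) P.nil) P.nil)))))) 251372)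
 EL.nil)))
noncomputable def S430_488_216_364_6 : EL := (EL.cons 12 (TM.mk (P.lf 8589934592 0 0) 0)
 (EL.cons 3 (TM.mk (P.cons (P.lf 3575492913 0 0) (P.cons (P.lf 61202868 0 0) (P.cons (P.lf 0 39808623 0) (P.cons (P.lf 4455836 0 0) (P.cons (P.lf 0 202736 0) (P.cons (P.lf 0 14527 0) P.nil)))))) 20620)
 (EL.cons 7 (TM.mk (P.cons (P.lf 0 257314215 0) (P.cons (P.lf 302378847 0 0) (P.cons (P.lf 0 16422572 0) (P.cons (P.lf 0 650818 0) (P.cons (P.lf 229331 0 0) (P.cons (P.lf 0 22990 0) P.nil)))))) 9250)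
 EL.nil)))
noncomputable def S430_488_216_364_7 : EL := (EL.cons 12 (TM.mk (P.cons (P.cons (P.lf 5564324416 0 0) (P.cons (P.lf 0 1396752 0) (P.cons (P.lf 0 602296 0) (P.lf 66920 0 0)))) (P.cons (P.cons (P.lf 453675024 0 0) (P.cons (P.lf 4924128 0 0) (P.cons (P.lf 2123336 0 0) (P.lf 0 235920 0)))) (P.cons (P.cons (P.lf 0 269244344 0) (P.cons (P.lf 0 6053944 0) (P.cons (P.lf 0 2610528 0) (P.lf 290056 0 0)))) (P.cons (P.cons (P.lf 6076766 0 0) (P.cons (P.lf 2884584 0 0) (P.cons (P.lf 1243864 0 0) P.nil))) (P.cons (P.cons (P.lf 5931660 0 0) (P.cons (P.lf 0 357736 0) P.nil)) (P.cons (P.cons (P.lf 0 1006190 0) P.nil) P.nil)))))) 667798)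
 (EL.cons 3 (TM.mk (P.cons (P.cons (P.lf 2476801769 0 0) (P.cons (P.lf 1162772 0 0) (P.cons (P.lf 501400 0 0) (P.lf 0 55708 0)))) (P.cons (P.cons (P.lf 0 130885682 0) (P.cons (P.lf 0 4079354 0) (P.cons (P.lf 0 1759060 0) (P.lf 195444 0 0)))) (P.cons (P.cons (P.lf 59945219 0 0) (P.cons (P.lf 4956696 0 0) (P.cons (P.lf 2137382 0 0) (P.lf 0 237482 0)))) (P.cons (P.cons (P.lf 17319846 0 0) (P.cons (P.lf 0 2268012 0) (P.cons (P.lf 0 977990 0) P.nil))) (P.cons (P.cons (P.lf 0 7221238 0) (P.cons (P.lf 195416 0 0) P.nil)) (P.cons (P.cons (P.lf 768794 0 0) P.nil) P.nil)))))) 1777159)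
 (EL.cons 7 (TM.mk (P.cons (P.cons (P.lf 627250220 0 0) (P.cons (P.lf 8659064 0 0) (P.cons (P.lf 3733886 0 0) (P.lf 0 414876 0)))) (P.cons (P.cons (P.lf 0 646653725 0) (P.cons (P.lf 0 20154465 0) (P.cons (P.lf 0 8690834 0) (P.lf 965648 0 0)))) (P.cons (P.cons (P.lf 0 89321772 0) (P.cons (P.lf 12474484 0 0) (P.cons (P.lf 5379138 0 0) (P.lf 0 597681 0)))) (P.cons (P.cons (P.lf 35130392 0 0) (P.cons (P.lf 0 649547 0) (P.cons (P.lf 0 280093 0) P.nil))) (P.cons (P.cons (P.lf 0 2207379 0) (P.cons (P.lf 0 278783 0) P.nil)) (P.cons (P.cons (P.lf 0 552260 0) P.nil) P.nil)))))) 942539)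
 (EL.cons 10 (TM.mk (P.cons (P.cons (P.lf 0 18268047 0) (P.cons (P.lf 0 17018376 0) (P.cons (P.lf 1746639 0 0) (P.cons (P.lf 363252 0 0) (P.lf 0 30270 0))))) (P.cons (P.cons (P.lf 42934836 0 0) (P.cons (P.lf 39997773 0 0) (P.cons (P.lf 0 4105071 0) (P.cons (P.lf 0 853740 0) (P.lf 71145 0 0))))) (P.cons (P.cons (P.lf 0 27558951 0) (P.cons (P.lf 0 25673712 0) (P.cons (P.lf 2634957 0 0) (P.cons (P.lf 547995 0 0) P.nil)))) (P.cons (P.cons (P.lf 2647818 0 0) (P.cons (P.lf 2466687 0 0) (P.cons (P.lf 0 253161 0) P.nil))) (P.cons (P.cons (P.lf 66741 0 0) (P.cons (P.lf 62175 0 0) P.nil)) (P.cons (P.cons (P.lf 0 47424 0) P.nil) P.nil)))))) 179412)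
 EL.nil))))
noncomputable def S430_488_216_364_8 : EL := (EL.cons 12 (TM.mk (P.cons (P.cons (P.lf 3604416992 0 0) (P.cons (P.lf 0 1809554 0) (P.cons (P.lf 0 780074 0) (P.cons (P.lf 86892 0 0) (P.cons (P.lf 20 0 0) (P.cons (P.lf 0 8 0) P.nil)))))) (P.cons (P.cons (P.lf 587756514 0 0) (P.cons (P.lf 6231892 0 0) (P.cons (P.lf 2685656 0 0) (P.cons (P.lf 0 299956 0) (P.cons (P.lf 0 144 0) P.nil))))) (P.cons (P.cons (P.lf 0 324857504 0) (P.cons (P.lf 0 7235464 0) (P.cons (P.lf 0 3115220 0) (P.cons (P.lf 350796 0 0) P.nil)))) (P.cons (P.cons (P.lf 0 20567406 0) (P.cons (P.lf 2786972 0 0) (P.cons (P.lf 1193894 0 0) P.nil))) (P.cons (P.cons (P.lf 16765858 0 0) (P.cons (P.lf 225782 0 0) P.nil)) (P.cons (P.cons (P.lf 0 1057948 0) P.nil) P.nil)))))) 2318886)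
 (EL.cons 3 (TM.mk (P.cons (P.cons (P.lf 1708498421 0 0) (P.cons (P.lf 1454165 0 0) (P.cons (P.lf 626577 0 0) (P.cons (P.lf 0 70075 0) (P.cons (P.lf 0 41 0) (P.cons (P.lf 16 0 0) P.nil)))))) (P.cons (P.cons (P.lf 0 178275456 0) (P.cons (P.lf 0 4861060 0) (P.cons (P.lf 0 2092809 0) (P.cons (P.lf 235760 0 0) (P.cons (P.lf 295 0 0) P.nil))))) (P.cons (P.cons (P.lf 56305504 0 0) (P.cons (P.lf 5216030 0 0) (P.cons (P.lf 2239299 0 0) (P.cons (P.lf 0 258453 0) P.nil)))) (P.cons (P.cons (P.lf 52209716 0 0) (P.cons (P.lf 0 1324996 0) (P.cons (P.lf 0 555159 0) P.nil))) (P.cons (P.cons (P.lf 0 16605787 0) (P.cons (P.lf 0 808427 0) P.nil)) (P.cons (P.cons (P.lf 0 1114642 0) P.nil) P.nil)))))) 6296102)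
 (EL.cons 7 (TM.mk (P.cons (P.cons (P.lf 920602486 0 0) (P.cons (P.lf 10960015 0 0) (P.cons (P.lf 4723269 0 0) (P.cons (P.lf 0 527542 0) (P.cons (P.lf 0 252 0) (P.cons (P.lf 114 0 0) P.nil)))))) (P.cons (P.cons (P.lf 0 880787616 0) (P.cons (P.lf 0 24016557 0) (P.cons (P.lf 0 10339787 0) (P.cons (P.lf 1164854 0 0) (P.cons (P.lf 1475 0 0) P.nil))))) (P.cons (P.cons (P.lf 0 246877411 0) (P.cons (P.lf 11453484 0 0) (P.cons (P.lf 4899701 0 0) (P.cons (P.lf 0 582539 0) P.nil)))) (P.cons (P.cons (P.lf 89719277 0 0) (P.cons (P.lf 3320743 0 0) (P.cons (P.lf 1480271 0 0) P.nil))) (P.cons (P.cons (P.lf 6955291 0 0) (P.cons (P.lf 0 1652656 0) P.nil)) (P.cons (P.cons (P.lf 0 5009160 0) P.nil) P.nil)))))) 4165013)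
 (EL.cons 10 (TM.mk (P.cons (P.cons (P.lf 0 23667078 0) (P.cons (P.lf 0 22042134 0) (P.cons (P.lf 2270946 0 0) (P.cons (P.lf 472140 0 0) (P.cons (P.lf 0 39840 0) (P.cons (P.lf 0 12 0) P.nil)))))) (P.cons (P.cons (P.lf 53694378 0 0) (P.cons (P.lf 49986372 0 0) (P.cons (P.lf 0 5181378 0) (P.cons (P.lf 0 1076700 0) (P.cons (P.lf 92664 0 0) P.nil))))) (P.cons (P.cons (P.lf 0 30023490 0) (P.cons (P.lf 0 27885720 0) (P.cons (P.lf 2984982 0 0) (P.cons (P.lf 618672 0 0) P.nil)))) (P.cons (P.cons (P.lf 0 2198028 0) (P.cons (P.lf 0 2152908 0) (P.cons (P.lf 66726 0 0) P.nil))) (P.cons (P.cons (P.lf 2129292 0 0) (P.cons (P.lf 2055852 0 0) P.nil)) (P.cons (P.cons (P.lf 0 195792 0) P.nil) P.nil)))))) 1390668)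
 EL.nil))))
noncomputable def S430_488_216_364_9 : EL := (EL.cons 3 (TM.mk (P.cons (P.lf 3575492913 0 0) (P.cons (P.lf 61202868 0 0) (P.cons (P.lf 0 39808623 0) (P.cons (P.lf 4455836 0 0) (P.cons (P.lf 0 202736 0) (P.cons (P.lf 0 14527 0) P.nil)))))) 20620)
 (EL.cons 7 (TM.mk (P.cons (P.lf 0 257314215 0) (P.cons (P.lf 302378847 0 0) (P.cons (P.lf 0 16422572 0) (P.cons (P.lf 0 650818 0) (P.cons (P.lf 229331 0 0) (P.cons (P.lf 0 22990 0) P.nil)))))) 9250)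
 EL.nil))
noncomputable def S430_488_216_364_10 : EL := (EL.cons 3 (TM.mk (P.cons (P.cons (P.lf 2316106403 0 0) (P.cons (P.lf 0 581386 0) (P.cons (P.lf 0 250700 0) (P.lf 27854 0 0)))) (P.cons (P.cons (P.lf 228484213 0 0) (P.cons (P.lf 2039677 0 0) (P.cons (P.lf 879530 0 0) (P.lf 0 97722 0)))) (P.cons (P.cons (P.lf 0 134625370 0) (P.cons (P.lf 0 2478348 0) (P.cons (P.lf 0 1068691 0) (P.lf 118741 0 0)))) (P.cons (P.cons (P.lf 1394940 0 0) (P.cons (P.lf 1134006 0 0) (P.cons (P.lf 488995 0 0) P.nil))) (P.cons (P.cons (P.lf 3864077 0 0) (P.cons (P.lf 0 97708 0) P.nil)) (P.cons (P.cons (P.lf 0 564499 0) P.nil) P.nil)))))) 412950)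
 (EL.cons 7 (TM.mk (P.cons (P.cons (P.lf 0 166681102 0) (P.cons (P.lf 41840 0 0) (P.cons (P.lf 18041 0 0) (P.lf 0 2004 0)))) (P.cons (P.cons (P.lf 182282758 0 0) (P.cons (P.lf 0 196671 0) (P.cons (P.lf 0 84806 0) (P.lf 9422 0 0)))) (P.cons (P.cons (P.lf 13397262 0 0) (P.cons (P.lf 357355 0 0) (P.cons (P.lf 154095 0 0) (P.lf 0 17121 0)))) (P.cons (P.cons (P.lf 0 10948780 0) (P.cons (P.lf 0 308825 0) (P.cons (P.lf 0 133168 0) P.nil))) (P.cons (P.cons (P.lf 665160 0 0) (P.cons (P.lf 123421 0 0) P.nil)) (P.cons (P.cons (P.lf 244945 0 0) P.nil) P.nil)))))) 193858)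
 EL.nil))
noncomputable def S430_488_216_364_11 : EL := (EL.cons 3 (TM.mk (P.cons (P.cons (P.lf 1500310307 0 0) (P.cons (P.lf 0 753211 0) (P.cons (P.lf 0 324699 0) (P.cons (P.lf 36167 0 0) (P.cons (P.lf 7 0 0) (P.cons (P.lf 0 2 0) P.nil)))))) (P.cons (P.cons (P.lf 270330336 0 0) (P.cons (P.lf 2581082 0 0) (P.cons (P.lf 1112325 0 0) (P.cons (P.lf 0 124234 0) (P.cons (P.lf 0 59 0) P.nil))))) (P.cons (P.cons (P.lf 0 147735722 0) (P.cons (P.lf 0 2958916 0) (P.cons (P.lf 0 1273935 0) (P.cons (P.lf 143475 0 0) P.nil)))) (P.cons (P.cons (P.lf 0 11729764 0) (P.cons (P.lf 1078682 0 0) (P.cons (P.lf 461901 0 0) P.nil))) (P.cons (P.cons (P.lf 8557427 0 0) (P.cons (P.lf 150643 0 0) P.nil)) (P.cons (P.cons (P.lf 0 414070 0) P.nil) P.nil)))))) 1184554)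
 (EL.cons 7 (TM.mk (P.cons (P.cons (P.lf 0 107971454 0) (P.cons (P.lf 54205 0 0) (P.cons (P.lf 23367 0 0) (P.cons (P.lf 0 2602 0) (P.cons (P.lf 0 0 0) (P.cons (P.lf 0 0 0) P.nil)))))) (P.cons (P.cons (P.lf 109274562 0 0) (P.cons (P.lf 0 250377 0) (P.cons (P.lf 0 107909 0) (P.cons (P.lf 12044 0 0) (P.cons (P.lf 5 0 0) P.nil))))) (P.cons (P.cons (P.lf 23530073 0 0) (P.cons (P.lf 439572 0 0) (P.cons (P.lf 189347 0 0) (P.cons (P.lf 0 21233 0) P.nil)))) (P.cons (P.cons (P.lf 0 12216163 0) (P.cons (P.lf 0 349961 0) (P.cons (P.lf 0 150499 0) P.nil))) (P.cons (P.cons (P.lf 0 553457 0) (P.cons (P.lf 104654 0 0) P.nil)) (P.cons (P.cons (P.lf 691854 0 0) P.nil) P.nil)))))) 326869)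
 EL.nil))
noncomputable def S430_488_216_364_12 : EL := (EL.cons 4 (TM.mk (P.cons (P.lf 0 3575492913 0) (P.cons (P.lf 0 61202868 0) (P.cons (P.lf 39808623 0 0) (P.cons (P.lf 0 4455836 0) (P.cons (P.lf 202736 0 0) (P.cons (P.lf 14527 0 0) P.nil)))))) 20620)
 (EL.cons 8 (TM.mk (P.cons (P.lf 257314215 0 0) (P.cons (P.lf 0 302378847 0) (P.cons (P.lf 16422572 0 0) (P.cons (P.lf 650818 0 0) (P.cons (P.lf 0 229331 0) (P.cons (P.lf 22990 0 0) P.nil)))))) 9250)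
 EL.nil))
noncomputable def S430_488_216_364_13 : EL := (EL.cons 4 (TM.mk (P.cons (P.cons (P.lf 0 2316106403 0) (P.cons (P.lf 581386 0 0) (P.cons (P.lf 250700 0 0) (P.lf 0 27854 0)))) (P.cons (P.cons (P.lf 0 228484213 0) (P.cons (P.lf 0 2039677 0) (P.cons (P.lf 0 879530 0) (P.lf 97722 0 0)))) (P.cons (P.cons (P.lf 134625370 0 0) (P.cons (P.lf 2478348 0 0) (P.cons (P.lf 1068691 0 0) (P.lf 0 118741 0)))) (P.cons (P.cons (P.lf 0 1394940 0) (P.cons (P.lf 0 1134006 0) (P.cons (P.lf 0 488995 0) P.nil))) (P.cons (P.cons (P.lf 0 3864077 0) (P.cons (P.lf 97708 0 0) P.nil)) (P.cons (P.cons (P.lf 564499 0 0) P.nil) P.nil)))))) 412950)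
 (EL.cons 8 (TM.mk (P.cons (P.cons (P.lf 166681102 0 0) (P.cons (P.lf 0 41840 0) (P.cons (P.lf 0 18041 0) (P.lf 2004 0 0)))) (P.cons (P.cons (P.lf 0 182282758 0) (P.cons (P.lf 196671 0 0) (P.cons (P.lf 84806 0 0) (P.lf 0 9422 0)))) (P.cons (P.cons (P.lf 0 13397262 0) (P.cons (P.lf 0 357355 0) (P.cons (P.lf 0 154095 0) (P.lf 17121 0 0)))) (P.cons (P.cons (P.lf 10948780 0 0) (P.cons (P.lf 308825 0 0) (P.cons (P.lf 133168 0 0) P.nil))) (P.cons (P.cons (P.lf 0 665160 0) (P.cons (P.lf 0 123421 0) P.nil)) (P.cons (P.cons (P.lf 0 244945 0) P.nil) P.nil)))))) 193858)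
 EL.nil))
noncomputable def S430_488_216_364_14 : EL := (EL.cons 4 (TM.mk (P.cons (P.cons (P.lf 0 1500310307 0) (P.cons (P.lf 753211 0 0) (P.cons (P.lf 324699 0 0) (P.cons (P.lf 0 36167 0) (P.cons (P.lf 0 7 0) (P.cons (P.lf 2 0 0) P.nil)))))) (P.cons (P.cons (P.lf 0 270330336 0) (P.cons (P.lf 0 2581082 0) (P.cons (P.lf 0 1112325 0) (P.cons (P.lf 124234 0 0) (P.cons (P.lf 59 0 0) P.nil))))) (P.cons (P.cons (P.lf 147735722 0 0) (P.cons (P.lf 2958916 0 0) (P.cons (P.lf 1273935 0 0) (P.cons (P.lf 0 143475 0) P.nil)))) (P.cons (P.cons (P.lf 11729764 0 0) (P.cons (P.lf 0 1078682 0) (P.cons (P.lf 0 461901 0) P.nil))) (P.cons (P.cons (P.lf 0 8557427 0) (P.cons (P.lf 0 150643 0) P.nil)) (P.cons (P.cons (P.lf 414070 0 0) P.nil) P.nil)))))) 1184554)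
 (EL.cons 8 (TM.mk (P.cons (P.cons (P.lf 107971454 0 0) (P.cons (P.lf 0 54205 0) (P.cons (P.lf 0 23367 0) (P.cons (P.lf 2602 0 0) (P.cons (P.lf 0 0 0) (P.cons (P.lf 0 0 0) P.nil)))))) (P.cons (P.cons (P.lf 0 109274562 0) (P.cons (P.lf 250377 0 0) (P.cons (P.lf 107909 0 0) (P.cons (P.lf 0 12044 0) (P.cons (P.lf 0 5 0) P.nil))))) (P.cons (P.cons (P.lf 0 23530073 0) (P.cons (P.lf 0 439572 0) (P.cons (P.lf 0 189347 0) (P.cons (P.lf 21233 0 0) P.nil)))) (P.cons (P.cons (P.lf 12216163 0 0) (P.cons (P.lf 349961 0 0) (P.cons (P.lf 150499 0 0) P.nil))) (P.cons (P.cons (P.lf 553457 0 0) (P.cons (P.lf 0 104654 0) P.nil)) (P.cons (P.cons (P.lf 0 691854 0) P.nil) P.nil)))))) 326869)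
 EL.nil))
noncomputable def S430_488_216_364_15 : EL := (EL.cons 4 (TM.mk (P.cons (P.lf 0 3174977892 0) (P.cons (P.lf 0 108694246 0) (P.cons (P.lf 69768506 0 0) (P.cons (P.lf 0 6703241 0) (P.cons (P.lf 0 168974 0) (P.cons (P.lf 120069 0 0) P.nil)))))) 47865)
 (EL.cons 8 (TM.mk (P.cons (P.lf 228490718 0 0) (P.cons (P.lf 0 264596208 0) (P.cons (P.lf 7442884 0 0) (P.cons (P.lf 4101777 0 0) (P.cons (P.lf 0 703686 0) (P.cons (P.lf 42964 0 0) P.nil)))))) 17287)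
 EL.nil))
noncomputable def S430_488_216_364_16 : EL := (EL.cons 4 (TM.mk (P.cons (P.cons (P.lf 0 2056663740 0) (P.cons (P.lf 516261 0 0) (P.cons (P.lf 222617 0 0) (P.lf 0 24734 0)))) (P.cons (P.cons (P.lf 0 238094737 0) (P.cons (P.lf 0 1802362 0) (P.cons (P.lf 0 777197 0) (P.lf 86352 0 0)))) (P.cons (P.cons (P.lf 138970507 0 0) (P.cons (P.lf 2163981 0 0) (P.cons (P.lf 933133 0 0) (P.lf 0 103680 0)))) (P.cons (P.cons (P.lf 503488 0 0) (P.cons (P.lf 0 948498 0) (P.cons (P.lf 0 409003 0) P.nil))) (P.cons (P.cons (P.lf 0 4919652 0) (P.cons (P.lf 42737 0 0) P.nil)) (P.cons (P.cons (P.lf 625163 0 0) P.nil) P.nil)))))) 490562)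
 (EL.cons 8 (TM.mk (P.cons (P.cons (P.lf 148010030 0 0) (P.cons (P.lf 0 37153 0) (P.cons (P.lf 0 16020 0) (P.lf 1780 0 0)))) (P.cons (P.cons (P.lf 0 159330504 0) (P.cons (P.lf 174005 0 0) (P.cons (P.lf 75032 0 0) (P.lf 0 8336 0)))) (P.cons (P.cons (P.lf 0 16315129 0) (P.cons (P.lf 0 313922 0) (P.cons (P.lf 0 135366 0) (P.lf 15040 0 0)))) (P.cons (P.cons (P.lf 11505301 0 0) (P.cons (P.lf 266808 0 0) (P.cons (P.lf 115050 0 0) P.nil))) (P.cons (P.cons (P.lf 0 501887 0) (P.cons (P.lf 0 101149 0) P.nil)) (P.cons (P.cons (P.lf 0 342112 0) P.nil) P.nil)))))) 203702)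
 EL.nil))
noncomputable def S430_488_216_364_17 : EL := (EL.cons 4 (TM.mk (P.cons (P.cons (P.lf 0 1332250454 0) (P.cons (P.lf 668839 0 0) (P.cons (P.lf 288327 0 0) (P.cons (P.lf 0 32115 0) (P.cons (P.lf 0 6 0) (P.cons (P.lf 2 0 0) P.nil)))))) (P.cons (P.cons (P.lf 0 262853378 0) (P.cons (P.lf 0 2280509 0) (P.cons (P.lf 0 982790 0) (P.cons (P.lf 109768 0 0) (P.cons (P.lf 52 0 0) P.nil))))) (P.cons (P.cons (P.lf 141910792 0 0) (P.cons (P.lf 2580789 0 0) (P.cons (P.lf 1111115 0 0) (P.cons (P.lf 0 125158 0) P.nil)))) (P.cons (P.cons (P.lf 13673773 0 0) (P.cons (P.lf 0 886525 0) (P.cons (P.lf 0 379440 0) P.nil))) (P.cons (P.cons (P.lf 0 9104774 0) (P.cons (P.lf 0 182312 0) P.nil)) (P.cons (P.cons (P.lf 304159 0 0) P.nil) P.nil)))))) 1243357)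
 (EL.cons 8 (TM.mk (P.cons (P.cons (P.lf 95876844 0 0) (P.cons (P.lf 0 48133 0) (P.cons (P.lf 0 20749 0) (P.cons (P.lf 2311 0 0) (P.cons (P.lf 0 0 0) (P.cons (P.lf 0 0 0) P.nil)))))) (P.cons (P.cons (P.lf 0 95392828 0) (P.cons (P.lf 221506 0 0) (P.cons (P.lf 95466 0 0) (P.cons (P.lf 0 10655 0) (P.cons (P.lf 0 4 0) P.nil))))) (P.cons (P.cons (P.lf 0 23622742 0) (P.cons (P.lf 0 385991 0) (P.cons (P.lf 0 166266 0) (P.cons (P.lf 18645 0 0) P.nil)))) (P.cons (P.cons (P.lf 11689928 0 0) (P.cons (P.lf 301542 0 0) (P.cons (P.lf 129670 0 0) P.nil))) (P.cons (P.cons (P.lf 783415 0 0) (P.cons (P.lf 0 82986 0) P.nil)) (P.cons (P.cons (P.lf 0 747644 0) P.nil) P.nil)))))) 329181)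
 EL.nil))
noncomputable def S430_488_216_364_18 : EL := (EL.cons 4 (TM.mk (P.cons (P.lf 0 2819327253 0) (P.cons (P.lf 0 144778008 0) (P.cons (P.lf 91690793 0 0) (P.cons (P.lf 0 7330768 0) (P.cons (P.lf 0 902129 0) (P.cons (P.lf 264457 0 0) P.nil)))))) 77925)
 (EL.cons 8 (TM.mk (P.cons (P.lf 202895935 0 0) (P.cons (P.lf 0 231483970 0) (P.cons (P.lf 328330 0 0) (P.cons (P.lf 6624244 0 0) (P.cons (P.lf 0 940411 0) (P.cons (P.lf 7637 0 0) P.nil)))))) 31341)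
 EL.nil))
noncomputable def S430_488_216_364_19 : EL := (EL.cons 4 (TM.mk (P.cons (P.cons (P.lf 0 1826282994 0) (P.cons (P.lf 458431 0 0) (P.cons (P.lf 197681 0 0) (P.lf 0 21963 0)))) (P.cons (P.cons (P.lf 0 242685219 0) (P.cons (P.lf 0 1592620 0) (P.cons (P.lf 0 686754 0) (P.lf 76304 0 0)))) (P.cons (P.cons (P.lf 140117838 0 0) (P.cons (P.lf 1889079 0 0) (P.cons (P.lf 814591 0 0) (P.lf 0 90509 0)))) (P.cons (P.cons (P.lf 2637425 0 0) (P.cons (P.lf 0 790968 0) (P.cons (P.lf 0 341073 0) P.nil))) (P.cons (P.cons (P.lf 0 5894785 0) (P.cons (P.lf 118 0 0) P.nil)) (P.cons (P.cons (P.lf 648573 0 0) P.nil) P.nil)))))) 579782)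
 (EL.cons 8 (TM.mk (P.cons (P.cons (P.lf 131430431 0 0) (P.cons (P.lf 0 32991 0) (P.cons (P.lf 0 14226 0) (P.lf 1580 0 0)))) (P.cons (P.cons (P.lf 0 139233084 0) (P.cons (P.lf 153948 0 0) (P.cons (P.lf 66384 0 0) (P.lf 0 7375 0)))) (P.cons (P.cons (P.lf 0 18372682 0) (P.cons (P.lf 0 275745 0) (P.cons (P.lf 0 118904 0) (P.lf 13211 0 0)))) (P.cons (P.cons (P.lf 11707551 0 0) (P.cons (P.lf 230388 0 0) (P.cons (P.lf 99346 0 0) P.nil))) (P.cons (P.cons (P.lf 0 293258 0) (P.cons (P.lf 0 82465 0) P.nil)) (P.cons (P.cons (P.lf 0 435733 0) P.nil) P.nil)))))) 210290)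
 EL.nil))
noncomputable def S430_488_216_364_20 : EL := (EL.cons 4 (TM.mk (P.cons (P.cons (P.lf 0 1183016115 0) (P.cons (P.lf 593918 0 0) (P.cons (P.lf 256030 0 0) (P.cons (P.lf 0 28518 0) (P.cons (P.lf 0 6 0) (P.cons (P.lf 1 0 0) P.nil)))))) (P.cons (P.cons (P.lf 0 253659471 0) (P.cons (P.lf 0 2014888 0) (P.cons (P.lf 0 868319 0) (P.cons (P.lf 96984 0 0) (P.cons (P.lf 46 0 0) P.nil))))) (P.cons (P.cons (P.lf 135190464 0 0) (P.cons (P.lf 2250421 0 0) (P.cons (P.lf 968863 0 0) (P.cons (P.lf 0 109152 0) P.nil)))) (P.cons (P.cons (P.lf 15423538 0 0) (P.cons (P.lf 0 724705 0) (P.cons (P.lf 0 310012 0) P.nil))) (P.cons (P.cons (P.lf 0 9503859 0) (P.cons (P.lf 0 203438 0) P.nil)) (P.cons (P.cons (P.lf 171592 0 0) P.nil) P.nil)))))) 1310864)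
 (EL.cons 8 (TM.mk (P.cons (P.cons (P.lf 85137034 0 0) (P.cons (P.lf 0 42741 0) (P.cons (P.lf 0 18425 0) (P.cons (P.lf 2052 0 0) (P.cons (P.lf 0 0 0) (P.cons (P.lf 0 0 0) P.nil)))))) (P.cons (P.cons (P.lf 0 83249917 0) (P.cons (P.lf 195962 0 0) (P.cons (P.lf 84457 0 0) (P.cons (P.lf 0 9426 0) (P.cons (P.lf 0 3 0) P.nil))))) (P.cons (P.cons (P.lf 0 23374454 0) (P.cons (P.lf 0 338910 0) (P.cons (P.lf 0 145985 0) (P.cons (P.lf 16372 0 0) P.nil)))) (P.cons (P.cons (P.lf 11070605 0 0) (P.cons (P.lf 259654 0 0) (P.cons (P.lf 111650 0 0) P.nil))) (P.cons (P.cons (P.lf 996502 0 0) (P.cons (P.lf 0 65043 0) P.nil)) (P.cons (P.cons (P.lf 0 789246 0) P.nil) P.nil)))))) 323637)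
 EL.nil))
noncomputable def S430_488_216_364_21 : EL := (EL.cons 4 (TM.mk (P.cons (P.cons (P.lf 0 160695366 0) (P.cons (P.lf 0 1744158 0) (P.cons (P.lf 0 752100 0) (P.lf 83562 0 0)))) (P.cons (P.cons (P.lf 359369895 0 0) (P.cons (P.lf 6119031 0 0) (P.cons (P.lf 2638590 0 0) (P.lf 0 293166 0)))) (P.cons (P.cons (P.lf 0 194570589 0) (P.cons (P.lf 0 7435044 0) (P.cons (P.lf 0 3206073 0) (P.lf 356223 0 0)))) (P.cons (P.cons (P.lf 0 15924906 0) (P.cons (P.lf 3402018 0 0) (P.cons (P.lf 1466985 0 0) P.nil))) (P.cons (P.cons (P.lf 11085315 0 0) (P.cons (P.lf 0 293124 0) P.nil)) (P.cons (P.cons (P.lf 0 1333293 0) P.nil) P.nil)))))) 1364190)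
 (EL.cons 8 (TM.mk (P.cons (P.cons (P.lf 0 793931322 0) (P.cons (P.lf 0 8617224 0) (P.cons (P.lf 0 3715845 0) (P.lf 412872 0 0)))) (P.cons (P.cons (P.lf 828936483 0 0) (P.cons (P.lf 19957794 0 0) (P.cons (P.lf 8606028 0 0) (P.lf 0 956226 0)))) (P.cons (P.cons (P.lf 102719034 0 0) (P.cons (P.lf 0 12117129 0) (P.cons (P.lf 0 5225043 0) (P.lf 580560 0 0)))) (P.cons (P.cons (P.lf 0 46079172 0) (P.cons (P.lf 340722 0 0) (P.cons (P.lf 146925 0 0) P.nil))) (P.cons (P.cons (P.lf 2872539 0 0) (P.cons (P.lf 402204 0 0) P.nil)) (P.cons (P.cons (P.lf 797205 0 0) P.nil) P.nil)))))) 748662)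
 (EL.cons 11 (TM.mk (P.cons (P.cons (P.lf 18268047 0 0) (P.cons (P.lf 17018376 0 0) (P.cons (P.lf 0 1746639 0) (P.cons (P.lf 0 363252 0) (P.lf 30270 0 0))))) (P.cons (P.cons (P.lf 0 42934836 0) (P.cons (P.lf 0 39997773 0) (P.cons (P.lf 4105071 0 0) (P.cons (P.lf 853740 0 0) (P.lf 0 71145 0))))) (P.cons (P.cons (P.lf 27558951 0 0) (P.cons (P.lf 25673712 0 0) (P.cons (P.lf 0 2634957 0) (P.cons (P.lf 0 547995 0) P.nil)))) (P.cons (P.cons (P.lf 0 2647818 0) (P.cons (P.lf 0 2466687 0) (P.cons (P.lf 253161 0 0) P.nil))) (P.cons (P.cons (P.lf 0 66741 0) (P.cons (P.lf 0 62175 0) P.nil)) (P.cons (P.cons (P.lf 47424 0 0) P.nil) P.nil)))))) 179412)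
 EL.nil)))
noncomputable def S430_488_216_364_22 : EL := (EL.cons 4 (TM.mk (P.cons (P.cons (P.lf 0 104094057 0) (P.cons (P.lf 0 1103688 0) (P.cons (P.lf 0 475638 0) (P.cons (P.lf 53121 0 0) (P.cons (P.lf 24 0 0) (P.cons (P.lf 0 9 0) P.nil)))))) (P.cons (P.cons (P.lf 224302896 0 0) (P.cons (P.lf 3721071 0 0) (P.cons (P.lf 1602567 0 0) (P.cons (P.lf 0 179997 0) (P.cons (P.lf 0 177 0) P.nil))))) (P.cons (P.cons (P.lf 0 102020613 0) (P.cons (P.lf 0 4087473 0) (P.cons (P.lf 0 1756617 0) (P.cons (P.lf 200964 0 0) P.nil)))) (P.cons (P.cons (P.lf 0 31969740 0) (P.cons (P.lf 1201839 0 0) (P.cons (P.lf 508530 0 0) P.nil))) (P.cons (P.cons (P.lf 12581607 0 0) (P.cons (P.lf 479535 0 0) P.nil)) (P.cons (P.cons (P.lf 350286 0 0) P.nil) P.nil)))))) 2555763)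
 (EL.cons 8 (TM.mk (P.cons (P.cons (P.lf 0 514286970 0) (P.cons (P.lf 0 5452905 0) (P.cons (P.lf 0 2349951 0) (P.cons (P.lf 262470 0 0) (P.cons (P.lf 126 0 0) (P.cons (P.lf 0 57 0) P.nil)))))) (P.cons (P.cons (P.lf 495031089 0 0) (P.cons (P.lf 11883090 0 0) (P.cons (P.lf 5115939 0 0) (P.cons (P.lf 0 576405 0) (P.cons (P.lf 0 735 0) P.nil))))) (P.cons (P.cons (P.lf 135203742 0 0) (P.cons (P.lf 0 5506956 0) (P.cons (P.lf 0 2355177 0) (P.cons (P.lf 280653 0 0) P.nil)))) (P.cons (P.cons (P.lf 0 50967720 0) (P.cons (P.lf 0 1835352 0) (P.cons (P.lf 0 815385 0) P.nil))) (P.cons (P.cons (P.lf 0 3754374 0) (P.cons (P.lf 878655 0 0) P.nil)) (P.cons (P.cons (P.lf 2850507 0 0) P.nil) P.nil)))))) 1919061)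
 (EL.cons 11 (TM.mk (P.cons (P.cons (P.lf 11833539 0 0) (P.cons (P.lf 11021067 0 0) (P.cons (P.lf 0 1135473 0) (P.cons (P.lf 0 236070 0) (P.cons (P.lf 19920 0 0) (P.cons (P.lf 6 0 0) P.nil)))))) (P.cons (P.cons (P.lf 0 26847189 0) (P.cons (P.lf 0 24993186 0) (P.cons (P.lf 2590689 0 0) (P.cons (P.lf 538350 0 0) (P.cons (P.lf 0 46332 0) P.nil))))) (P.cons (P.cons (P.lf 15011745 0 0) (P.cons (P.lf 13942860 0 0) (P.cons (P.lf 0 1492491 0) (P.cons (P.lf 0 309336 0) P.nil)))) (P.cons (P.cons (P.lf 1099014 0 0) (P.cons (P.lf 1076454 0 0) (P.cons (P.lf 0 33363 0) P.nil))) (P.cons (P.cons (P.lf 0 1064646 0) (P.cons (P.lf 0 1027926 0) P.nil)) (P.cons (P.cons (P.lf 97896 0 0) P.nil) P.nil)))))) 695334)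
 EL.nil)))
noncomputable def S430_488_216_364_23 : EL := (EL.cons 4 (TM.mk (P.cons (P.cons (P.lf 0 142694796 0) (P.cons (P.lf 0 1548783 0) (P.cons (P.lf 0 667851 0) (P.lf 74199 0 0)))) (P.cons (P.cons (P.lf 316671900 0 0) (P.cons (P.lf 5407086 0 0) (P.cons (P.lf 2331591 0 0) (P.lf 0 259056 0)))) (P.cons (P.cons (P.lf 0 165724314 0) (P.cons (P.lf 0 6491940 0) (P.cons (P.lf 0 2799396 0) (P.lf 311037 0 0)))) (P.cons (P.cons (P.lf 0 20829270 0) (P.cons (P.lf 2845494 0 0) (P.cons (P.lf 1227006 0 0) P.nil))) (P.cons (P.cons (P.lf 11930931 0 0) (P.cons (P.lf 0 128211 0) P.nil)) (P.cons (P.cons (P.lf 0 1090833 0) P.nil) P.nil)))))) 1582878)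
 (EL.cons 8 (TM.mk (P.cons (P.cons (P.lf 0 704997732 0) (P.cons (P.lf 0 7651950 0) (P.cons (P.lf 0 3299607 0) (P.lf 366621 0 0)))) (P.cons (P.cons (P.lf 724014054 0 0) (P.cons (P.lf 17591205 0 0) (P.cons (P.lf 7585527 0 0) (P.lf 0 842835 0)))) (P.cons (P.cons (P.lf 111661797 0 0) (P.cons (P.lf 0 10371255 0) (P.cons (P.lf 0 4472202 0) (P.lf 496911 0 0)))) (P.cons (P.cons (P.lf 0 48430140 0) (P.cons (P.lf 0 88473 0) (P.cons (P.lf 0 38148 0) P.nil))) (P.cons (P.cons (P.lf 1792119 0 0) (P.cons (P.lf 504645 0 0) P.nil)) (P.cons (P.cons (P.lf 1281930 0 0) P.nil) P.nil)))))) 936120)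
 (EL.cons 11 (TM.mk (P.cons (P.cons (P.lf 16221720 0 0) (P.cons (P.lf 15112032 0 0) (P.cons (P.lf 0 1550985 0) (P.cons (P.lf 0 322560 0) (P.lf 26877 0 0))))) (P.cons (P.cons (P.lf 0 37847742 0) (P.cons (P.lf 0 35258673 0) (P.cons (P.lf 3618684 0 0) (P.cons (P.lf 752583 0 0) (P.lf 0 62715 0))))) (P.cons (P.cons (P.lf 23638671 0 0) (P.cons (P.lf 22021611 0 0) (P.cons (P.lf 0 2260131 0) (P.cons (P.lf 0 470040 0) P.nil)))) (P.cons (P.cons (P.lf 0 1487628 0) (P.cons (P.lf 0 1385865 0) (P.cons (P.lf 142233 0 0) P.nil))) (P.cons (P.cons (P.lf 0 420405 0) (P.cons (P.lf 0 391647 0) P.nil)) (P.cons (P.cons (P.lf 99867 0 0) P.nil) P.nil)))))) 299691)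
 EL.nil)))
noncomputable def S430_488_216_364_24 : EL := (EL.cons 4 (TM.mk (P.cons (P.cons (P.lf 0 92433780 0) (P.cons (P.lf 0 980055 0) (P.cons (P.lf 0 422358 0) (P.cons (P.lf 47169 0 0) (P.cons (P.lf 21 0 0) (P.cons (P.lf 0 9 0) P.nil)))))) (P.cons (P.cons (P.lf 197595000 0 0) (P.cons (P.lf 3287472 0 0) (P.cons (P.lf 1415823 0 0) (P.cons (P.lf 0 159027 0) (P.cons (P.lf 0 159 0) P.nil))))) (P.cons (P.cons (P.lf 0 86154084 0) (P.cons (P.lf 0 3562137 0) (P.cons (P.lf 0 1530786 0) (P.cons (P.lf 175191 0 0) P.nil)))) (P.cons (P.cons (P.lf 0 32272077 0) (P.cons (P.lf 967074 0 0) (P.cons (P.lf 408495 0 0) P.nil))) (P.cons (P.cons (P.lf 11948415 0 0) (P.cons (P.lf 488673 0 0) P.nil)) (P.cons (P.cons (P.lf 694542 0 0) P.nil) P.nil)))))) 2547210)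
 (EL.cons 8 (TM.mk (P.cons (P.cons (P.lf 0 456678225 0) (P.cons (P.lf 0 4842087 0) (P.cons (P.lf 0 2086719 0) (P.cons (P.lf 233067 0 0) (P.cons (P.lf 111 0 0) (P.cons (P.lf 0 51 0) P.nil)))))) (P.cons (P.cons (P.lf 431762217 0 0) (P.cons (P.lf 10469103 0 0) (P.cons (P.lf 4507149 0 0) (P.cons (P.lf 0 507849 0) (P.cons (P.lf 0 651 0) P.nil))))) (P.cons (P.cons (P.lf 132667623 0 0) (P.cons (P.lf 0 4655553 0) (P.cons (P.lf 0 1990362 0) (P.cons (P.lf 237861 0 0) P.nil)))) (P.cons (P.cons (P.lf 0 48666684 0) (P.cons (P.lf 0 1836984 0) (P.cons (P.lf 0 813024 0) P.nil))) (P.cons (P.cons (P.lf 0 4871520 0) (P.cons (P.lf 820203 0 0) P.nil)) (P.cons (P.cons (P.lf 3104583 0 0) P.nil) P.nil)))))) 1919793)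
 (EL.cons 11 (TM.mk (P.cons (P.cons (P.lf 10507986 0 0) (P.cons (P.lf 9786522 0 0) (P.cons (P.lf 0 1008279 0) (P.cons (P.lf 0 209625 0) (P.cons (P.lf 17688 0 0) (P.cons (P.lf 6 0 0) P.nil)))))) (P.cons (P.cons (P.lf 0 23659986 0) (P.cons (P.lf 0 22026012 0) (P.cons (P.lf 2283228 0 0) (P.cons (P.lf 474456 0 0) (P.cons (P.lf 0 40839 0) P.nil))))) (P.cons (P.cons (P.lf 12805110 0 0) (P.cons (P.lf 11892171 0 0) (P.cons (P.lf 0 1274703 0) (P.cons (P.lf 0 264168 0) P.nil)))) (P.cons (P.cons (P.lf 1482603 0 0) (P.cons (P.lf 1427097 0 0) (P.cons (P.lf 0 79182 0) P.nil))) (P.cons (P.cons (P.lf 0 1107402 0) (P.cons (P.lf 0 1062477 0) P.nil)) (P.cons (P.cons (P.lf 77802 0 0) P.nil) P.nil)))))) 702078)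
 EL.nil)))
noncomputable def S430_488_216_364_25 : EL := (EL.cons 4 (TM.mk (P.cons (P.cons (P.lf 0 126710592 0) (P.cons (P.lf 0 1375293 0) (P.cons (P.lf 0 593040 0) (P.lf 65889 0 0)))) (P.cons (P.cons (P.lf 279030402 0 0) (P.cons (P.lf 4777860 0 0) (P.cons (P.lf 2060262 0 0) (P.lf 0 228909 0)))) (P.cons (P.cons (P.lf 0 140936274 0) (P.cons (P.lf 0 5667234 0) (P.cons (P.lf 0 2443773 0) (P.lf 271524 0 0)))) (P.cons (P.cons (P.lf 0 24303744 0) (P.cons (P.lf 2372904 0 0) (P.cons (P.lf 1023219 0 0) P.nil))) (P.cons (P.cons (P.lf 12273930 0 0) (P.cons (P.lf 0 354 0) P.nil)) (P.cons (P.cons (P.lf 0 780183 0) P.nil) P.nil)))))) 1720044)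
 (EL.cons 8 (TM.mk (P.cons (P.cons (P.lf 0 626026191 0) (P.cons (P.lf 0 6794802 0) (P.cons (P.lf 0 2929995 0) (P.lf 325554 0 0)))) (P.cons (P.cons (P.lf 632196474 0 0) (P.cons (P.lf 15504387 0 0) (P.cons (P.lf 6685668 0 0) (P.lf 0 742851 0)))) (P.cons (P.cons (P.lf 117128760 0 0) (P.cons (P.lf 0 8866464 0) (P.cons (P.lf 0 3823320 0) (P.lf 424812 0 0)))) (P.cons (P.cons (P.lf 0 49246092 0) (P.cons (P.lf 0 418590 0) (P.cons (P.lf 0 180498 0) P.nil))) (P.cons (P.cons (P.lf 587988 0 0) (P.cons (P.lf 569160 0 0) P.nil)) (P.cons (P.cons (P.lf 1734036 0 0) P.nil) P.nil)))))) 1065321)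
 (EL.cons 11 (TM.mk (P.cons (P.cons (P.lf 14404614 0 0) (P.cons (P.lf 13419231 0 0) (P.cons (P.lf 0 1377249 0) (P.cons (P.lf 0 286428 0) (P.lf 23868 0 0))))) (P.cons (P.cons (P.lf 0 33361593 0) (P.cons (P.lf 0 31079412 0) (P.cons (P.lf 3189756 0 0) (P.cons (P.lf 663378 0 0) (P.lf 0 55281 0))))) (P.cons (P.cons (P.lf 20255085 0 0) (P.cons (P.lf 18869487 0 0) (P.cons (P.lf 0 1936620 0) (P.cons (P.lf 0 402759 0) P.nil)))) (P.cons (P.cons (P.lf 0 569547 0) (P.cons (P.lf 0 530586 0) (P.cons (P.lf 54453 0 0) P.nil))) (P.cons (P.cons (P.lf 0 672330 0) (P.cons (P.lf 0 626337 0) P.nil)) (P.cons (P.cons (P.lf 125004 0 0) P.nil) P.nil)))))) 376332)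
 EL.nil)))
noncomputable def S430_488_216_364_26 : EL := (EL.cons 4 (TM.mk (P.cons (P.cons (P.lf 0 82079652 0) (P.cons (P.lf 0 870273 0) (P.cons (P.lf 0 375045 0) (P.cons (P.lf 41886 0 0) (P.cons (P.lf 18 0 0) (P.cons (P.lf 0 9 0) P.nil)))))) (P.cons (P.cons (P.lf 174056070 0 0) (P.cons (P.lf 2904324 0 0) (P.cons (P.lf 1250808 0 0) (P.cons (P.lf 0 140496 0) (P.cons (P.lf 0 141 0) P.nil))))) (P.cons (P.cons (P.lf 0 72586107 0) (P.cons (P.lf 0 3103458 0) (P.cons (P.lf 0 1333617 0) (P.cons (P.lf 152682 0 0) P.nil)))) (P.cons (P.cons (P.lf 0 32022426 0) (P.cons (P.lf 771015 0 0) (P.cons (P.lf 325005 0 0) P.nil))) (P.cons (P.cons (P.lf 11194545 0 0) (P.cons (P.lf 487536 0 0) P.nil)) (P.cons (P.cons (P.lf 1012461 0 0) P.nil) P.nil)))))) 2524176)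
 (EL.cons 8 (TM.mk (P.cons (P.cons (P.lf 0 405522624 0) (P.cons (P.lf 0 4299693 0) (P.cons (P.lf 0 1852971 0) (P.cons (P.lf 206961 0 0) (P.cons (P.lf 99 0 0) (P.cons (P.lf 0 45 0) P.nil)))))) (P.cons (P.cons (P.lf 376456164 0 0) (P.cons (P.lf 9222789 0 0) (P.cons (P.lf 3970554 0 0) (P.cons (P.lf 0 447420 0) (P.cons (P.lf 0 576 0) P.nil))))) (P.cons (P.cons (P.lf 128884356 0 0) (P.cons (P.lf 0 3927051 0) (P.cons (P.lf 0 1678269 0) (P.cons (P.lf 201192 0 0) P.nil)))) (P.cons (P.cons (P.lf 0 45972687 0) (P.cons (P.lf 0 1810836 0) (P.cons (P.lf 0 799074 0) P.nil))) (P.cons (P.cons (P.lf 0 5876397 0) (P.cons (P.lf 758259 0 0) P.nil)) (P.cons (P.cons (P.lf 3290637 0 0) P.nil) P.nil)))))) 1913505)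
 (EL.cons 11 (TM.mk (P.cons (P.cons (P.lf 9330915 0 0) (P.cons (P.lf 8690268 0 0) (P.cons (P.lf 0 895335 0) (P.cons (P.lf 0 186144 0) (P.cons (P.lf 15708 0 0) (P.cons (P.lf 3 0 0) P.nil)))))) (P.cons (P.cons (P.lf 0 20849949 0) (P.cons (P.lf 0 19409976 0) (P.cons (P.lf 2012142 0 0) (P.cons (P.lf 418122 0 0) (P.cons (P.lf 0 35994 0) P.nil))))) (P.cons (P.cons (P.lf 10907205 0 0) (P.cons (P.lf 10128501 0 0) (P.cons (P.lf 0 1087242 0) (P.cons (P.lf 0 225291 0) P.nil)))) (P.cons (P.cons (P.lf 1756707 0 0) (P.cons (P.lf 1676589 0 0) (P.cons (P.lf 0 113376 0) P.nil))) (P.cons (P.cons (P.lf 0 1114131 0) (P.cons (P.lf 0 1064211 0) P.nil)) (P.cons (P.cons (P.lf 52920 0 0) P.nil) P.nil)))))) 707040)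
 EL.nil)))
noncomputable def S430_488_216_364_27 : EL := (EL.cons 13 (TM.mk (P.lf 0 4294967296 0) 0)
 EL.nil)
noncomputable def S430_488_216_364_28 : EL := (EL.cons 13 (TM.mk (P.cons (P.cons (P.lf 0 2782162208 0) (P.cons (P.lf 698376 0 0) (P.cons (P.lf 301148 0 0) (P.lf 0 33460 0)))) (P.cons (P.cons (P.lf 0 226837512 0) (P.cons (P.lf 0 2462064 0) (P.cons (P.lf 0 1061668 0) (P.lf 117960 0 0)))) (P.cons (P.cons (P.lf 134622172 0 0) (P.cons (P.lf 3026972 0 0) (P.cons (P.lf 1305264 0 0) (P.lf 0 145028 0)))) (P.cons (P.cons (P.lf 0 3038383 0) (P.cons (P.lf 0 1442292 0) (P.cons (P.lf 0 621932 0) P.nil))) (P.cons (P.cons (P.lf 0 2965830 0) (P.cons (P.lf 178868 0 0) P.nil)) (P.cons (P.cons (P.lf 503095 0 0) P.nil) P.nil)))))) 333899)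
 EL.nil)
noncomputable def S430_488_216_364_29 : EL := (EL.cons 13 (TM.mk (P.cons (P.cons (P.lf 0 1802208496 0) (P.cons (P.lf 904777 0 0) (P.cons (P.lf 390037 0 0) (P.cons (P.lf 0 43446 0) (P.cons (P.lf 0 10 0) (P.cons (P.lf 4 0 0) P.nil)))))) (P.cons (P.cons (P.lf 0 293878257 0) (P.cons (P.lf 0 3115946 0) (P.cons (P.lf 0 1342828 0) (P.cons (P.lf 149978 0 0) (P.cons (P.lf 72 0 0) P.nil))))) (P.cons (P.cons (P.lf 162428752 0 0) (P.cons (P.lf 3617732 0 0) (P.cons (P.lf 1557610 0 0) (P.cons (P.lf 0 175398 0) P.nil)))) (P.cons (P.cons (P.lf 10283703 0 0) (P.cons (P.lf 0 1393486 0) (P.cons (P.lf 0 596947 0) P.nil))) (P.cons (P.cons (P.lf 0 8382929 0) (P.cons (P.lf 0 112891 0) P.nil)) (P.cons (P.cons (P.lf 528974 0 0) P.nil) P.nil)))))) 1159443)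
 EL.nil)
noncomputable def S430_488_216_364_30 : EL := (EL.cons 13 (TM.mk (P.cons (P.lf 0 3813859108 0) (P.cons (P.lf 0 65283060 0) (P.cons (P.lf 42462532 0 0) (P.cons (P.lf 0 4752892 0) (P.cons (P.lf 216252 0 0) (P.cons (P.lf 15496 0 0) P.nil)))))) 21988)
 EL.nil)
noncomputable def S430_488_216_364_31 : EL := (EL.cons 13 (TM.mk (P.cons (P.cons (P.lf 0 2470513497 0) (P.cons (P.lf 620146 0 0) (P.cons (P.lf 267414 0 0) (P.lf 0 29711 0)))) (P.cons (P.cons (P.lf 0 243716494 0) (P.cons (P.lf 0 2175656 0) (P.cons (P.lf 0 938166 0) (P.lf 104237 0 0)))) (P.cons (P.cons (P.lf 143600395 0 0) (P.cons (P.lf 2643572 0 0) (P.cons (P.lf 1139938 0 0) (P.lf 0 126658 0)))) (P.cons (P.cons (P.lf 0 1487936 0) (P.cons (P.lf 0 1209607 0) (P.cons (P.lf 0 521595 0) P.nil))) (P.cons (P.cons (P.lf 0 4121683 0) (P.cons (P.lf 104222 0 0) P.nil)) (P.cons (P.cons (P.lf 602133 0 0) P.nil) P.nil))))))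 440460)
 EL.nil)
noncomputable def S430_488_216_364_32 : EL := (EL.cons 13 (TM.mk (P.cons (P.cons (P.lf 0 1600330995 0) (P.cons (P.lf 803426 0 0) (P.cons (P.lf 346346 0 0) (P.cons (P.lf 0 38579 0) (P.cons (P.lf 0 8 0) (P.cons (P.lf 3 0 0) P.nil)))))) (P.cons (P.cons (P.lf 0 288352359 0) (P.cons (P.lf 0 2753155 0) (P.cons (P.lf 0 1186480 0) (P.cons (P.lf 132517 0 0) (P.cons (P.lf 63 0 0) P.nil))))) (P.cons (P.cons (P.lf 157584771 0 0) (P.cons (P.lf 3156178 0 0) (P.cons (P.lf 1358864 0 0) (P.cons (P.lf 0 153041 0) P.nil)))) (P.cons (P.cons (P.lf 12511749 0 0) (P.cons (P.lf 0 1150595 0) (P.cons (P.lf 0 492695 0) P.nil))) (P.cons (P.cons (P.lf 0 9127923 0) (P.cons (P.lf 0 160686 0) P.nil)) (P.cons (P.cons (P.lf 441675 0 0) P.nil) P.nil)))))) 1263501)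
 EL.nil)
noncomputable def S430_488_216_364_33 : EL := (EL.cons 14 (TM.mk (P.lf 8589934592 0 0) 0)
 EL.nil)
noncomputable def S430_488_216_364_34 : EL := (EL.cons 14 (TM.mk (P.cons (P.cons (P.lf 5564324416 0 0) (P.cons (P.lf 0 1396752 0) (P.cons (P.lf 0 602296 0) (P.lf 66920 0 0)))) (P.cons (P.cons (P.lf 453675024 0 0) (P.cons (P.lf 4924128 0 0) (P.cons (P.lf 2123336 0 0) (P.lf 0 235920 0)))) (P.cons (P.cons (P.lf 0 269244344 0) (P.cons (P.lf 0 6053944 0) (P.cons (P.lf 0 2610528 0) (P.lf 290056 0 0)))) (P.cons (P.cons (P.lf 6076766 0 0) (P.cons (P.lf 2884584 0 0) (P.cons (P.lf 1243864 0 0) P.nil))) (P.cons (P.cons (P.lf 5931660 0 0) (P.cons (P.lf 0 357736 0) P.nil)) (P.cons (P.cons (P.lf 0 1006190 0) P.nil) P.nil)))))) 667798)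
 EL.nil)
noncomputable def S430_488_216_364_35 : EL := (EL.cons 14 (TM.mk (P.cons (P.cons (P.lf 3604416992 0 0) (P.cons (P.lf 0 1809554 0) (P.cons (P.lf 0 780074 0) (P.cons (P.lf 86892 0 0) (P.cons (P.lf 20 0 0) (P.cons (P.lf 0 8 0) P.nil)))))) (P.cons (P.cons (P.lf 587756514 0 0) (P.cons (P.lf 6231892 0 0) (P.cons (P.lf 2685656 0 0) (P.cons (P.lf 0 299956 0) (P.cons (P.lf 0 144 0) P.nil))))) (P.cons (P.cons (P.lf 0 324857504 0) (P.cons (P.lf 0 7235464 0) (P.cons (P.lf 0 3115220 0) (P.cons (P.lf 350796 0 0) P.nil)))) (P.cons (P.cons (P.lf 0 20567406 0) (P.cons (P.lf 2786972 0 0) (P.cons (P.lf 1193894 0 0) P.nil))) (P.cons (P.cons (P.lf 16765858 0 0) (P.cons (P.lf 225782 0 0) P.nil)) (P.cons (P.cons (P.lf 0 1057948 0) P.nil) P.nil)))))) 2318886)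
 EL.nil)
noncomputable def S430_488_216_364_36 : EL := (EL.cons 14 (TM.mk (P.cons (P.lf 7627718216 0 0) (P.cons (P.lf 130566120 0 0) (P.cons (P.lf 0 84925064 0) (P.cons (P.lf 9505784 0 0) (P.cons (P.lf 0 432504 0) (P.cons (P.lf 0 30992 0) P.nil)))))) 43976)
 EL.nil)
noncomputable def S430_488_216_364_37 : EL := (EL.cons 14 (TM.mk (P.cons (P.cons (P.lf 4941026994 0 0) (P.cons (P.lf 0 1240292 0) (P.cons (P.lf 0 534828 0) (P.lf 59422 0 0)))) (P.cons (P.cons (P.lf 487432988 0 0) (P.cons (P.lf 4351312 0 0) (P.cons (P.lf 1876332 0 0) (P.lf 0 208474 0)))) (P.cons (P.cons (P.lf 0 287200790 0) (P.cons (P.lf 0 5287144 0) (P.cons (P.lf 0 2279876 0) (P.lf 253316 0 0)))) (P.cons (P.cons (P.lf 2975872 0 0) (P.cons (P.lf 2419214 0 0) (P.cons (P.lf 1043190 0 0) P.nil))) (P.cons (P.cons (P.lf 8243366 0 0) (P.cons (P.lf 0 208444 0) P.nil)) (P.cons (P.cons (P.lf 0 1204266 0) P.nil)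 P.nil)))))) 880920)
 EL.nil)
noncomputable def S430_488_216_364_38 : EL := (EL.cons 14 (TM.mk (P.cons (P.cons (P.lf 3200661990 0 0) (P.cons (P.lf 0 1606852 0) (P.cons (P.lf 0 692692 0) (P.cons (P.lf 77158 0 0) (P.cons (P.lf 16 0 0) (P.cons (P.lf 0 6 0) P.nil)))))) (P.cons (P.cons (P.lf 576704718 0 0) (P.cons (P.lf 5506310 0 0) (P.cons (P.lf 2372960 0 0) (P.cons (P.lf 0 265034 0) (P.cons (P.lf 0 126 0) P.nil))))) (P.cons (P.cons (P.lf 0 315169542 0) (P.cons (P.lf 0 6312356 0) (P.cons (P.lf 0 2717728 0) (P.cons (P.lf 306082 0 0) P.nil)))) (P.cons (P.cons (P.lf 0 25023498 0) (P.cons (P.lf 2301190 0 0) (P.cons (P.lf 985390 0 0) P.nil))) (P.cons (P.cons (P.lf 18255846 0 0) (P.cons (P.lf 321372 0 0) P.nil)) (P.cons (P.cons (P.lf 0 883350 0) P.nil) P.nil)))))) 2527002)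
 EL.nil)
noncomputable def S430_488_216_364_39 : EL := (EL.cons 14 (TM.mk (P.cons (P.lf 6773286170 0 0) (P.cons (P.lf 231881060 0 0) (P.cons (P.lf 0 148839480 0) (P.cons (P.lf 14300248 0 0) (P.cons (P.lf 360478 0 0) (P.cons (P.lf 0 256148 0) P.nil)))))) 102098)
 EL.nil)
noncomputable def S430_488_216_364_40 : EL := (EL.cons 14 (TM.mk (P.cons (P.cons (P.lf 4387549312 0 0) (P.cons (P.lf 0 1101358 0) (P.cons (P.lf 0 474918 0) (P.lf 52766 0 0)))) (P.cons (P.cons (P.lf 507935440 0 0) (P.cons (P.lf 3845040 0 0) (P.cons (P.lf 1658022 0 0) (P.lf 0 184218 0)))) (P.cons (P.cons (P.lf 0 296470416 0) (P.cons (P.lf 0 4616494 0) (P.cons (P.lf 0 1990684 0) (P.lf 221184 0 0)))) (P.cons (P.cons (P.lf 0 1074108 0) (P.cons (P.lf 2023464 0 0) (P.cons (P.lf 872540 0 0) P.nil))) (P.cons (P.cons (P.lf 10495258 0 0) (P.cons (P.lf 0 91174 0) P.nil)) (P.cons (P.cons (P.lf 0 1333682 0) P.nil)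 P.nil)))))) 1046492)
 EL.nil)
noncomputable def S430_488_216_364_41 : EL := (EL.cons 14 (TM.mk (P.cons (P.cons (P.lf 2842134302 0 0) (P.cons (P.lf 0 1426858 0) (P.cons (P.lf 0 615098 0) (P.cons (P.lf 68514 0 0) (P.cons (P.lf 14 0 0) (P.cons (P.lf 0 6 0) P.nil)))))) (P.cons (P.cons (P.lf 560753874 0 0) (P.cons (P.lf 4865086 0 0) (P.cons (P.lf 2096620 0 0) (P.cons (P.lf 0 234172 0) (P.cons (P.lf 0 112 0) P.nil))))) (P.cons (P.cons (P.lf 0 302743024 0) (P.cons (P.lf 0 5505684 0) (P.cons (P.lf 0 2370380 0) (P.cons (P.lf 267004 0 0) P.nil)))) (P.cons (P.cons (P.lf 0 29170716 0) (P.cons (P.lf 1891254 0 0) (P.cons (P.lf 809474 0 0) P.nil))) (P.cons (P.cons (P.lf 19423518 0 0) (P.cons (P.lf 388934 0 0) P.nil)) (P.cons (P.cons (P.lf 0 648874 0) P.nil) P.nil)))))) 2652448)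
 EL.nil)
noncomputable def S430_488_216_364_42 : EL := (EL.cons 14 (TM.mk (P.cons (P.lf 6014564808 0 0) (P.cons (P.lf 308859752 0 0) (P.cons (P.lf 0 195607026 0) (P.cons (P.lf 15638972 0 0) (P.cons (P.lf 1924542 0 0) (P.cons (P.lf 0 564176 0) P.nil)))))) 166226)
 EL.nil)
noncomputable def S430_488_216_364_43 : EL := (EL.cons 14 (TM.mk (P.cons (P.cons (P.lf 3896070388 0 0) (P.cons (P.lf 0 977988 0) (P.cons (P.lf 0 421720 0) (P.lf 46856 0 0)))) (P.cons (P.cons (P.lf 517728468 0 0) (P.cons (P.lf 3397590 0 0) (P.cons (P.lf 1465076 0 0) (P.lf 0 162782 0)))) (P.cons (P.cons (P.lf 0 298918056 0) (P.cons (P.lf 0 4030036 0) (P.cons (P.lf 0 1737796 0) (P.lf 193086 0 0)))) (P.cons (P.cons (P.lf 0 5626508 0) (P.cons (P.lf 1687400 0 0) (P.cons (P.lf 727624 0 0) P.nil))) (P.cons (P.cons (P.lf 12575542 0 0) (P.cons (P.lf 0 252 0) P.nil)) (P.cons (P.cons (P.lf 0 1383624 0) P.nil)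 P.nil)))))) 1236828)
 EL.nil)
noncomputable def S430_488_216_364_44 : EL := (EL.cons 14 (TM.mk (P.cons (P.cons (P.lf 2523767714 0 0) (P.cons (P.lf 0 1267026 0) (P.cons (P.lf 0 546198 0) (P.cons (P.lf 60840 0 0) (P.cons (P.lf 14 0 0) (P.cons (P.lf 0 4 0) P.nil)))))) (P.cons (P.cons (P.lf 541140206 0 0) (P.cons (P.lf 4298428 0 0) (P.cons (P.lf 1852414 0 0) (P.cons (P.lf 0 206900 0) (P.cons (P.lf 0 100 0) P.nil))))) (P.cons (P.cons (P.lf 0 288406324 0) (P.cons (P.lf 0 4800900 0) (P.cons (P.lf 0 2066908 0) (P.cons (P.lf 232858 0 0) P.nil)))) (P.cons (P.cons (P.lf 0 32903548 0) (P.cons (P.lf 1546038 0 0) (P.cons (P.lf 661360 0 0) P.nil))) (P.cons (P.cons (P.lf 20274900 0 0) (P.cons (P.lf 434002 0 0) P.nil)) (P.cons (P.cons (P.lf 0 366064 0) P.nil) P.nil)))))) 2796464)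
 EL.nil)
noncomputable def S430_488_216_364_45 : EL := (EL.cons 14 (TM.mk (P.cons (P.cons (P.lf 2334842628 0 0) (P.cons (P.lf 0 1758268 0) (P.cons (P.lf 0 757744 0) (P.cons (P.lf 84620 0 0) (P.cons (P.lf 38 0 0) (P.cons (P.lf 0 16 0) P.nil)))))) (P.cons (P.cons (P.lf 571098862 0 0) (P.cons (P.lf 5911916 0 0) (P.cons (P.lf 2546204 0 0) (P.cons (P.lf 0 285896 0) (P.cons (P.lf 0 276 0) P.nil))))) (P.cons (P.cons (P.lf 0 292369044 0) (P.cons (P.lf 0 6451620 0) (P.cons (P.lf 0 2772974 0) (P.cons (P.lf 316900 0 0) P.nil)))) (P.cons (P.cons (P.lf 0 46353132 0) (P.cons (P.lf 1839856 0 0) (P.cons (P.lf 778964 0 0) P.nil))) (P.cons (P.cons (P.lf 22861364 0 0) (P.cons (P.lf 785096 0 0) P.nil)) (P.cons (P.cons (P.lf 598688 0 0) P.nil) P.nil)))))) 3989376)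
 EL.nil)
noncomputable def S430_488_216_364_46 : EL := (EL.cons 15 (TM.mk (P.lf 4294967296 0 0) 0)
 EL.nil)
noncomputable def S430_488_216_364_47 : EL := (EL.cons 15 (TM.mk (P.cons (P.cons (P.lf 2782162208 0 0) (P.cons (P.lf 0 698376 0) (P.cons (P.lf 0 301148 0) (P.lf 33460 0 0)))) (P.cons (P.cons (P.lf 226837512 0 0) (P.cons (P.lf 2462064 0 0) (P.cons (P.lf 1061668 0 0) (P.lf 0 117960 0)))) (P.cons (P.cons (P.lf 0 134622172 0) (P.cons (P.lf 0 3026972 0) (P.cons (P.lf 0 1305264 0) (P.lf 145028 0 0)))) (P.cons (P.cons (P.lf 3038383 0 0) (P.cons (P.lf 1442292 0 0) (P.cons (P.lf 621932 0 0) P.nil))) (P.cons (P.cons (P.lf 2965830 0 0) (P.cons (P.lf 0 178868 0) P.nil)) (P.cons (P.cons (P.lf 0 503095 0) P.nil) P.nil)))))) 333899)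
 EL.nil)
noncomputable def S430_488_216_364_48 : EL := (EL.cons 15 (TM.mk (P.cons (P.cons (P.lf 1802208496 0 0) (P.cons (P.lf 0 904777 0) (P.cons (P.lf 0 390037 0) (P.cons (P.lf 43446 0 0) (P.cons (P.lf 10 0 0) (P.cons (P.lf 0 4 0) P.nil)))))) (P.cons (P.cons (P.lf 293878257 0 0) (P.cons (P.lf 3115946 0 0) (P.cons (P.lf 1342828 0 0) (P.cons (P.lf 0 149978 0) (P.cons (P.lf 0 72 0) P.nil))))) (P.cons (P.cons (P.lf 0 162428752 0) (P.cons (P.lf 0 3617732 0) (P.cons (P.lf 0 1557610 0) (P.cons (P.lf 175398 0 0) P.nil)))) (P.cons (P.cons (P.lf 0 10283703 0) (P.cons (P.lf 1393486 0 0) (P.cons (P.lf 596947 0 0) P.nil))) (P.cons (P.cons (P.lf 8382929 0 0) (P.cons (P.lf 112891 0 0) P.nil)) (P.cons (P.cons (P.lf 0 528974 0) P.nil) P.nil)))))) 1159443)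
 EL.nil)
noncomputable def S430_488_216_364 : SL := (SL.cons S430_488_216_364_0 (SL.cons S430_488_216_364_1 (SL.cons S430_488_216_364_2 (SL.cons S430_488_216_364_3 (SL.cons S430_488_216_364_4 (SL.cons S430_488_216_364_5 (SL.cons S430_488_216_364_6 (SL.cons S430_488_216_364_7 (SL.cons S430_488_216_364_8 (SL.cons S430_488_216_364_9 (SL.cons S430_488_216_364_10 (SL.cons S430_488_216_364_11 (SL.cons S430_488_216_364_12 (SL.cons S430_488_216_364_13 (SL.cons S430_488_216_364_14 (SL.cons S430_488_216_364_15 (SL.cons S430_488_216_364_16 (SL.cons S430_488_216_364_17 (SL.cons S430_488_216_364_18 (SL.cons S430_488_216_364_19 (SL.cons S430_488_216_364_20 (SL.cons S430_488_216_364_21 (SL.cons S430_488_216_364_22 (SL.cons S430_488_216_364_23 (SL.cons S430_488_216_364_24 (SL.cons S430_488_216_364_25 (SL.cons S430_488_216_364_26 (SL.cons S430_488_216_364_27 (SL.cons S430_488_216_364_28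 (SL.cons S430_488_216_364_29 (SL.cons S430_488_216_364_30 (SL.cons S430_488_216_364_31 (SL.cons S430_488_216_364_32 (SL.cons S430_488_216_364_33 (SL.cons S430_488_216_364_34 (SL.cons S430_488_216_364_35 (SL.cons S430_488_216_364_36 (SL.cons S430_488_216_364_37 (SL.cons S430_488_216_364_38 (SL.cons S430_488_216_364_39 (SL.cons S430_488_216_364_40 (SL.cons S430_488_216_364_41 (SL.cons S430_488_216_364_42 (SL.cons S430_488_216_364_43 (SL.cons S430_488_216_364_44 (SL.cons S430_488_216_364_45 (SL.cons S430_488_216_364_46 (SL.cons S430_488_216_364_47 (SL.cons S430_488_216_364_48 SL.nil)))))))))))))))))))))))))))))))))))))))))))))))))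
noncomputable def S430_488_364_512_0 : EL := (EL.cons 0 (TM.mk (P.cons (P.lf 2502633316 0 0) (P.cons (P.lf 0 203801712 0) (P.cons (P.lf 130815949 0 0) (P.cons (P.lf 0 12568577 0) (P.cons (P.lf 0 316826 0) (P.cons (P.lf 225130 0 0) P.nil)))))) 89741)
 (EL.cons 1 (TM.mk (P.cons (P.lf 428420096 0 0) (P.cons (P.lf 0 496117890 0) (P.cons (P.lf 13955407 0 0) (P.cons (P.lf 7690831 0 0) (P.cons (P.lf 0 1319411 0) (P.cons (P.lf 80557 0 0) P.nil)))))) 32420)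
 (EL.cons 5 (TM.mk (P.cons (P.lf 6411619230 0 0) (P.cons (P.lf 72462834 0 0) (P.cons (P.lf 0 46512338 0) (P.cons (P.lf 4468832 0 0) (P.cons (P.lf 112646 0 0) (P.cons (P.lf 0 80044 0) P.nil)))))) 15705)
 (EL.cons 9 (TM.mk (P.lf 6442450944 0 0) 2)
 EL.nil))))
noncomputable def S430_488_364_512_1 : EL := (EL.cons 0 (TM.mk (P.cons (P.cons (P.lf 1897034070 0 0) (P.cons (P.lf 5368374 0 0) (P.cons (P.lf 358901 0 0) (P.lf 0 119625 0)))) (P.cons (P.cons (P.lf 0 622574089 0) (P.cons (P.lf 0 18640728 0) (P.cons (P.lf 0 1246264 0) (P.lf 415406 0 0)))) (P.cons (P.cons (P.lf 340584826 0 0) (P.cons (P.lf 22080549 0 0) (P.cons (P.lf 1476244 0 0) (P.lf 0 492070 0)))) (P.cons (P.cons (P.lf 31698140 0 0) (P.cons (P.lf 0 9189175 0) (P.cons (P.lf 0 614347 0) P.nil))) (P.cons (P.cons (P.lf 0 25861469 0) (P.cons (P.lf 0 67968 0) P.nil)) (P.cons (P.cons (P.lf 3073482 0 0) P.nil) P.nil))))))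 4155053)
 (EL.cons 1 (TM.mk (P.cons (P.cons (P.lf 952216132 0 0) (P.cons (P.lf 15048306 0 0) (P.cons (P.lf 1006096 0 0) (P.lf 0 335365 0)))) (P.cons (P.cons (P.lf 0 997046772 0) (P.cons (P.lf 0 33702009 0) (P.cons (P.lf 0 2253244 0) (P.lf 751082 0 0)))) (P.cons (P.cons (P.lf 0 145272920 0) (P.cons (P.lf 17739971 0 0) (P.cons (P.lf 1186055 0 0) (P.lf 0 395354 0)))) (P.cons (P.cons (P.lf 85526085 0 0) (P.cons (P.lf 2867126 0 0) (P.cons (P.lf 191684 0 0) P.nil))) (P.cons (P.cons (P.lf 0 4682076 0) (P.cons (P.lf 0 2036475 0) P.nil)) (P.cons (P.cons (P.lf 0 2411595 0) P.nil) P.nil)))))) 1665961)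
 (EL.cons 5 (TM.mk (P.cons (P.cons (P.lf 4051207538 0 0) (P.cons (P.lf 0 4461202 0) (P.cons (P.lf 0 298260 0) (P.lf 99420 0 0)))) (P.cons (P.cons (P.lf 620969530 0 0) (P.cons (P.lf 15626228 0 0) (P.cons (P.lf 1044730 0 0) (P.lf 0 348240 0)))) (P.cons (P.cons (P.lf 0 367149640 0) (P.cons (P.lf 0 18913922 0) (P.cons (P.lf 0 1264538 0) (P.lf 421510 0 0)))) (P.cons (P.cons (P.lf 2087968 0 0) (P.cons (P.lf 8538600 0 0) (P.cons (P.lf 570862 0 0) P.nil))) (P.cons (P.cons (P.lf 13221003 0 0) (P.cons (P.lf 0 629572 0) P.nil)) (P.cons (P.cons (P.lf 0 1962490 0) P.nil) P.nil)))))) 1181255)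
 (EL.cons 9 (TM.mk (P.cons (P.cons (P.lf 4169742816 0 0) (P.cons (P.lf 0 2252160 0) (P.cons (P.lf 0 150570 0) (P.lf 50190 0 0)))) (P.cons (P.cons (P.lf 352596924 0 0) (P.cons (P.lf 7939770 0 0) (P.cons (P.lf 530832 0 0) (P.lf 0 176940 0)))) (P.cons (P.cons (P.lf 0 217105422 0) (P.cons (P.lf 0 9761520 0) (P.cons (P.lf 0 652632 0) (P.lf 217542 0 0)))) (P.cons (P.cons (P.lf 11786824 0 0) (P.cons (P.lf 4651176 0 0) (P.cons (P.lf 310962 0 0) P.nil))) (P.cons (P.cons (P.lf 3552195 0 0) (P.cons (P.lf 0 576822 0) P.nil)) (P.cons (P.cons (P.lf 0 767380 0) P.nil) P.nil)))))) 419261)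
 (EL.cons 2 (TM.mk (P.cons (P.cons (P.lf 0 35710717 0) (P.cons (P.lf 0 5528913 0) (P.cons (P.lf 2663654 0 0) (P.cons (P.lf 100797 0 0) (P.lf 0 25197 0))))) (P.cons (P.cons (P.lf 83318535 0 0) (P.cons (P.lf 12899798 0 0) (P.cons (P.lf 0 6214713 0) (P.cons (P.lf 0 235181 0) (P.lf 58795 0 0))))) (P.cons (P.cons (P.lf 0 52038492 0) (P.cons (P.lf 0 8056864 0) (P.cons (P.lf 3881542 0 0) (P.cons (P.lf 146885 0 0) P.nil)))) (P.cons (P.cons (P.lf 3274891 0 0) (P.cons (P.lf 507034 0 0) (P.cons (P.lf 0 244271 0) P.nil))) (P.cons (P.cons (P.lf 925492 0 0) (P.cons (P.lf 143288 0 0) P.nil)) (P.cons (P.cons (P.lf 0 219855 0) P.nil) P.nil)))))) 231591)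
 (EL.cons 6 (TM.mk (P.cons (P.cons (P.lf 2569959 0 0) (P.cons (P.lf 397893 0 0) (P.cons (P.lf 0 191691 0) (P.cons (P.lf 0 7254 0) (P.lf 1812 0 0))))) (P.cons (P.cons (P.lf 0 9060147 0) (P.cons (P.lf 0 1402737 0) (P.cons (P.lf 675792 0 0) (P.cons (P.lf 25572 0 0) (P.lf 0 6393 0))))) (P.cons (P.cons (P.lf 11138961 0 0) (P.cons (P.lf 1724589 0 0) (P.cons (P.lf 0 830853 0) (P.cons (P.lf 0 31440 0) P.nil)))) (P.cons (P.cons (P.lf 0 5307501 0) (P.cons (P.lf 0 821733 0) (P.cons (P.lf 395883 0 0) P.nil))) (P.cons (P.cons (P.lf 658218 0 0) (P.cons (P.lf 101907 0 0) P.nil)) (P.cons (P.cons (P.lf 9348 0 0) P.nil) P.nil)))))) 117744)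
 EL.nil))))))
noncomputable def S430_488_364_512_2 : EL := (EL.cons 0 (TM.mk (P.cons (P.cons (P.lf 1407264523 0 0) (P.cons (P.lf 6755291 0 0) (P.cons (P.lf 447560 0 0) (P.cons (P.lf 0 151076 0) (P.cons (P.lf 155 0 0) (P.cons (P.lf 9 0 0) P.nil)))))) (P.cons (P.cons (P.lf 0 690173994 0) (P.cons (P.lf 0 22419810 0) (P.cons (P.lf 0 1470476 0) (P.cons (P.lf 503418 0 0) (P.cons (P.lf 0 1138 0) P.nil))))) (P.cons (P.cons (P.lf 306181627 0 0) (P.cons (P.lf 23547204 0 0) (P.cons (P.lf 1490003 0 0) (P.cons (P.lf 0 536029 0) P.nil)))) (P.cons (P.cons (P.lf 118236500 0 0) (P.cons (P.lf 0 5048422 0) (P.cons (P.lf 0 201160 0) P.nil))) (P.cons (P.cons (P.lf 0 52208686 0) (P.cons (P.lf 0 4597707 0) P.nil)) (P.cons (P.cons (P.lf 0 329548 0) P.nil) P.nil)))))) 14578749)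
 (EL.cons 1 (TM.mk (P.cons (P.cons (P.lf 1053136673 0 0) (P.cons (P.lf 19007522 0 0) (P.cons (P.lf 1260226 0 0) (P.cons (P.lf 0 425016 0) (P.cons (P.lf 419 0 0) (P.cons (P.lf 28 0 0) P.nil)))))) (P.cons (P.cons (P.lf 0 1008930899 0) (P.cons (P.lf 0 39826087 0) (P.cons (P.lf 0 2601600 0) (P.cons (P.lf 895734 0 0) (P.cons (P.lf 0 2449 0) P.nil))))) (P.cons (P.cons (P.lf 0 314657508 0) (P.cons (P.lf 14570015 0 0) (P.cons (P.lf 831511 0 0) (P.cons (P.lf 0 343780 0) P.nil)))) (P.cons (P.cons (P.lf 141691537 0 0) (P.cons (P.lf 10752316 0 0) (P.cons (P.lf 887553 0 0) P.nil))) (P.cons (P.cons (P.lf 9535484 0 0) (P.cons (P.lf 0 4258129 0) P.nil)) (P.cons (P.cons (P.lf 0 9755937 0) P.nil) P.nil)))))) 5518930)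
 (EL.cons 5 (TM.mk (P.cons (P.cons (P.lf 2558256168 0 0) (P.cons (P.lf 0 5705920 0) (P.cons (P.lf 0 379142 0) (P.cons (P.lf 127463 0 0) (P.cons (P.lf 0 91 0) (P.cons (P.lf 0 1 0) P.nil)))))) (P.cons (P.cons (P.lf 762673592 0 0) (P.cons (P.lf 19340167 0 0) (P.cons (P.lf 1276624 0 0) (P.cons (P.lf 0 433193 0) (P.cons (P.lf 654 0 0) P.nil))))) (P.cons (P.cons (P.lf 0 405498995 0) (P.cons (P.lf 0 21536007 0) (P.cons (P.lf 0 1391042 0) (P.cons (P.lf 486473 0 0) P.nil)))) (P.cons (P.cons (P.lf 0 51680793 0) (P.cons (P.lf 6791740 0 0) (P.cons (P.lf 374642 0 0) P.nil))) (P.cons (P.cons (P.lf 33528348 0 0) (P.cons (P.lf 2141240 0 0) P.nil)) (P.cons (P.cons (P.lf 0 1468278 0) P.nil) P.nil)))))) 4961547)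
 (EL.cons 9 (TM.mk (P.cons (P.cons (P.lf 2698779594 0 0) (P.cons (P.lf 0 2915326 0) (P.cons (P.lf 0 194118 0) (P.cons (P.lf 65073 0 0) (P.cons (P.lf 0 31 0) (P.cons (P.lf 0 1 0) P.nil)))))) (P.cons (P.cons (P.lf 456422098 0 0) (P.cons (P.lf 10031179 0 0) (P.cons (P.lf 665106 0 0) (P.cons (P.lf 0 224289 0) (P.cons (P.lf 222 0 0) P.nil))))) (P.cons (P.cons (P.lf 0 261736249 0) (P.cons (P.lf 0 11614999 0) (P.cons (P.lf 0 759940 0) (P.cons (P.lf 261069 0 0) P.nil)))) (P.cons (P.cons (P.lf 0 8506909 0) (P.cons (P.lf 4408884 0 0) (P.cons (P.lf 267448 0 0) P.nil))) (P.cons (P.cons (P.lf 13204638 0 0) (P.cons (P.lf 446926 0 0) P.nil)) (P.cons (P.cons (P.lf 0 1398930 0) P.nil) P.nil)))))) 1760669)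
 (EL.cons 2 (TM.mk (P.cons (P.cons (P.lf 0 46226041 0) (P.cons (P.lf 0 7131976 0) (P.cons (P.lf 3453525 0 0) (P.cons (P.lf 128317 0 0) (P.cons (P.lf 0 32895 0) (P.cons (P.lf 50 0 0) P.nil)))))) (P.cons (P.cons (P.lf 103943475 0 0) (P.cons (P.lf 15946779 0 0) (P.cons (P.lf 0 7785551 0) (P.cons (P.lf 0 280743 0) (P.cons (P.lf 74992 0 0) P.nil))))) (P.cons (P.cons (P.lf 0 55834740 0) (P.cons (P.lf 0 8294653 0) (P.cons (P.lf 4242285 0 0) (P.cons (P.lf 127321 0 0) P.nil)))) (P.cons (P.cons (P.lf 0 7203150 0) (P.cons (P.lf 0 1549833 0) (P.cons (P.lf 440938 0 0) P.nil))) (P.cons (P.cons (P.lf 5329282 0 0) (P.cons (P.lf 1116922 0 0) P.nil)) (P.cons (P.cons (P.lf 0 494038 0) P.nil) P.nil)))))) 1412060)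
 (EL.cons 6 (TM.mk (P.cons (P.cons (P.lf 3326706 0 0) (P.cons (P.lf 513258 0 0) (P.cons (P.lf 0 248532 0) (P.cons (P.lf 0 9234 0) (P.cons (P.lf 2364 0 0) (P.cons (P.lf 0 0 0) P.nil)))))) (P.cons (P.cons (P.lf 0 11446674 0) (P.cons (P.lf 0 1759560 0) (P.cons (P.lf 856608 0 0) (P.cons (P.lf 31212 0 0) (P.cons (P.lf 0 8214 0) P.nil))))) (P.cons (P.cons (P.lf 13253982 0 0) (P.cons (P.lf 2014140 0 0) (P.cons (P.lf 0 997014 0) (P.cons (P.lf 0 34128 0) P.nil)))) (P.cons (P.cons (P.lf 0 5031018 0) (P.cons (P.lf 0 716592 0) (P.cons (P.lf 389076 0 0) P.nil))) (P.cons (P.cons (P.lf 0 509988 0) (P.cons (P.lf 0 139794 0) P.nil)) (P.cons (P.cons (P.lf 472020 0 0) P.nil) P.nil)))))) 447132)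
 EL.nil))))))
noncomputable def S430_488_364_512_3 : EL := (EL.cons 0 (TM.mk (P.cons (P.lf 5953083547 0 0) (P.cons (P.lf 203801712 0 0) (P.cons (P.lf 0 130815949 0) (P.cons (P.lf 12568577 0 0) (P.cons (P.lf 316826 0 0) (P.cons (P.lf 0 225130 0) P.nil)))))) 89741)
 (EL.cons 1 (TM.mk (P.cons (P.lf 0 428420096 0) (P.cons (P.lf 496117890 0 0) (P.cons (P.lf 0 13955407 0) (P.cons (P.lf 0 7690831 0) (P.cons (P.lf 1319411 0 0) (P.cons (P.lf 0 80557 0) P.nil)))))) 32420)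
 (EL.cons 5 (TM.mk (P.cons (P.lf 30831714 0 0) (P.cons (P.lf 0 72462834 0) (P.cons (P.lf 46512338 0 0) (P.cons (P.lf 0 4468832 0) (P.cons (P.lf 0 112646 0) (P.cons (P.lf 80044 0 0) P.nil)))))) 15698)
 EL.nil)))
noncomputable def S430_488_364_512_4 : EL := (EL.cons 0 (TM.mk (P.cons (P.cons (P.lf 3853009912 0 0) (P.cons (P.lf 0 2081084 0) (P.cons (P.lf 0 139132 0) (P.lf 46376 0 0)))) (P.cons (P.cons (P.lf 457720159 0 0) (P.cons (P.lf 7265420 0 0) (P.cons (P.lf 485746 0 0) (P.lf 0 161910 0)))) (P.cons (P.cons (P.lf 0 274127925 0) (P.cons (P.lf 0 8723137 0) (P.cons (P.lf 0 583207 0) (P.lf 194400 0 0)))) (P.cons (P.cons (P.lf 4998707 0 0) (P.cons (P.lf 3823461 0 0) (P.cons (P.lf 255622 0 0) P.nil))) (P.cons (P.cons (P.lf 8956569 0 0) (P.cons (P.lf 0 172279 0) P.nil)) (P.cons (P.cons (P.lf 0 1387975 0) P.nil) P.nil)))))) 855955)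
 (EL.cons 1 (TM.mk (P.cons (P.cons (P.lf 0 277286025 0) (P.cons (P.lf 149767 0 0) (P.cons (P.lf 10012 0 0) (P.lf 0 3337 0)))) (P.cons (P.cons (P.lf 297654481 0 0) (P.cons (P.lf 0 701424 0) (P.cons (P.lf 0 46893 0) (P.lf 15630 0 0)))) (P.cons (P.cons (P.lf 32557717 0 0) (P.cons (P.lf 1265437 0 0) (P.cons (P.lf 84603 0 0) (P.lf 0 28200 0)))) (P.cons (P.cons (P.lf 0 23244106 0) (P.cons (P.lf 0 1075522 0) (P.cons (P.lf 0 71906 0) P.nil))) (P.cons (P.cons (P.lf 1574782 0 0) (P.cons (P.lf 407739 0 0) P.nil)) (P.cons (P.cons (P.lf 578289 0 0) P.nil) P.nil)))))) 355942)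
 (EL.cons 5 (TM.mk (P.cons (P.cons (P.lf 19955188 0 0) (P.cons (P.lf 0 10778 0) (P.cons (P.lf 0 720 0) (P.lf 240 0 0)))) (P.cons (P.cons (P.lf 0 45212638 0) (P.cons (P.lf 63328 0 0) (P.cons (P.lf 4232 0 0) (P.lf 0 1410 0)))) (P.cons (P.cons (P.lf 25099234 0 0) (P.cons (P.lf 0 152278 0) (P.cons (P.lf 0 10180 0) (P.lf 3392 0 0)))) (P.cons (P.cons (P.lf 2151618 0 0) (P.cons (P.lf 190938 0 0) (P.cons (P.lf 12764 0 0) P.nil))) (P.cons (P.cons (P.lf 0 2000490 0) (P.cons (P.lf 0 131018 0) P.nil)) (P.cons (P.cons (P.lf 237708 0 0) P.nil) P.nil)))))) 148764)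
 EL.nil)))
noncomputable def S430_488_364_512_5 : EL := (EL.cons 0 (TM.mk (P.cons (P.cons (P.lf 2493780788 0 0) (P.cons (P.lf 0 2693877 0) (P.cons (P.lf 0 179372 0) (P.cons (P.lf 60129 0 0) (P.cons (P.lf 0 28 0) (P.cons (P.lf 0 0 0) P.nil)))))) (P.cons (P.cons (P.lf 507126063 0 0) (P.cons (P.lf 9176988 0 0) (P.cons (P.lf 608442 0 0) (P.cons (P.lf 0 205192 0) (P.cons (P.lf 203 0 0) P.nil))))) (P.cons (P.cons (P.lf 0 282215817 0) (P.cons (P.lf 0 10356199 0) (P.cons (P.lf 0 677232 0) (P.cons (P.lf 232820 0 0) P.nil)))) (P.cons (P.cons (P.lf 0 20143281 0) (P.cons (P.lf 3497180 0 0) (P.cons (P.lf 209207 0 0) P.nil))) (P.cons (P.cons (P.lf 18270295 0 0) (P.cons (P.lf 807721 0 0) P.nil)) (P.cons (P.cons (P.lf 0 1284697 0) P.nil) P.nil)))))) 2395394)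
 (EL.cons 1 (TM.mk (P.cons (P.cons (P.lf 0 179467631 0) (P.cons (P.lf 193867 0 0) (P.cons (P.lf 12907 0 0) (P.cons (P.lf 0 4325 0) (P.cons (P.lf 1 0 0) (P.cons (P.lf 0 0 0) P.nil)))))) (P.cons (P.cons (P.lf 177474759 0 0) (P.cons (P.lf 0 891570 0) (P.cons (P.lf 0 59176 0) (P.cons (P.lf 19925 0 0) (P.cons (P.lf 0 16 0) P.nil))))) (P.cons (P.cons (P.lf 46707326 0 0) (P.cons (P.lf 1551183 0 0) (P.cons (P.lf 102172 0 0) (P.cons (P.lf 0 34773 0) P.nil)))) (P.cons (P.cons (P.lf 0 23800402 0) (P.cons (P.lf 0 1205880 0) (P.cons (P.lf 0 77514 0) P.nil))) (P.cons (P.cons (P.lf 0 958389 0) (P.cons (P.lf 322383 0 0) P.nil)) (P.cons (P.cons (P.lf 1500495 0 0) P.nil) P.nil)))))) 673717)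
 (EL.cons 5 (TM.mk (P.cons (P.cons (P.lf 12915582 0 0) (P.cons (P.lf 0 13950 0) (P.cons (P.lf 0 928 0) (P.cons (P.lf 310 0 0) (P.cons (P.lf 0 0 0) (P.cons (P.lf 0 0 0) P.nil)))))) (P.cons (P.cons (P.lf 0 28170790 0) (P.cons (P.lf 80796 0 0) (P.cons (P.lf 5366 0 0) (P.cons (P.lf 0 1804 0) (P.cons (P.lf 0 0 0) P.nil))))) (P.cons (P.cons (P.lf 13097986 0 0) (P.cons (P.lf 0 189460 0) (P.cons (P.lf 0 12518 0) (P.cons (P.lf 4240 0 0) P.nil)))) (P.cons (P.cons (P.lf 4326416 0 0) (P.cons (P.lf 226184 0 0) (P.cons (P.lf 14762 0 0) P.nil))) (P.cons (P.cons (P.lf 0 2094558 0) (P.cons (P.lf 0 138214 0) P.nil)) (P.cons (P.cons (P.lf 0 9528 0) P.nil) P.nil)))))) 263998)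
 EL.nil)))
noncomputable def S430_488_364_512_6 : EL := (EL.cons 12 (TM.mk (P.lf 8589934592 0 0) 0)
 (EL.cons 3 (TM.mk (P.cons (P.lf 3575492913 0 0) (P.cons (P.lf 61202868 0 0) (P.cons (P.lf 0 39808623 0) (P.cons (P.lf 4455836 0 0) (P.cons (P.lf 0 202736 0) (P.cons (P.lf 0 14527 0) P.nil)))))) 20620)
 (EL.cons 7 (TM.mk (P.cons (P.lf 0 257314215 0) (P.cons (P.lf 302378847 0 0) (P.cons (P.lf 0 16422572 0) (P.cons (P.lf 0 650818 0) (P.cons (P.lf 229331 0 0) (P.cons (P.lf 0 22990 0) P.nil)))))) 9250)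
 EL.nil)))
noncomputable def S430_488_364_512_7 : EL := (EL.cons 12 (TM.mk (P.cons (P.cons (P.lf 5559657088 0 0) (P.cons (P.lf 0 3002880 0) (P.cons (P.lf 0 200760 0) (P.lf 66920 0 0)))) (P.cons (P.cons (P.lf 470129232 0 0) (P.cons (P.lf 10586360 0 0) (P.cons (P.lf 707776 0 0) (P.lf 0 235920 0)))) (P.cons (P.cons (P.lf 0 289473896 0) (P.cons (P.lf 0 13015360 0) (P.cons (P.lf 0 870176 0) (P.lf 290056 0 0)))) (P.cons (P.cons (P.lf 15715766 0 0) (P.cons (P.lf 6201568 0 0) (P.cons (P.lf 414616 0 0) P.nil))) (P.cons (P.cons (P.lf 4736260 0 0) (P.cons (P.lf 0 769096 0) P.nil)) (P.cons (P.cons (P.lf 0 1023174 0) P.nil) P.nil)))))) 558990)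
 (EL.cons 3 (TM.mk (P.cons (P.cons (P.lf 2480687248 0 0) (P.cons (P.lf 2499848 0 0) (P.cons (P.lf 167128 0 0) (P.lf 0 55708 0)))) (P.cons (P.cons (P.lf 0 144517042 0) (P.cons (P.lf 0 8770186 0) (P.cons (P.lf 0 586350 0) (P.lf 195444 0 0)))) (P.cons (P.cons (P.lf 76508276 0 0) (P.cons (P.lf 10656394 0 0) (P.cons (P.lf 712460 0 0) (P.lf 0 237482 0)))) (P.cons (P.cons (P.lf 9741152 0 0) (P.cons (P.lf 0 4876002 0) (P.cons (P.lf 0 325990 0) P.nil))) (P.cons (P.cons (P.lf 0 6568231 0) (P.cons (P.lf 420126 0 0) P.nil)) (P.cons (P.cons (P.lf 911056 0 0) P.nil) P.nil)))))) 1615074)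
 (EL.cons 7 (TM.mk (P.cons (P.cons (P.lf 656184889 0 0) (P.cons (P.lf 18616095 0 0) (P.cons (P.lf 1244629 0 0) (P.lf 0 414876 0)))) (P.cons (P.cons (P.lf 0 714000797 0) (P.cons (P.lf 0 43330017 0) (P.cons (P.lf 0 2896946 0) (P.lf 965648 0 0)))) (P.cons (P.cons (P.lf 0 47637697 0) (P.cons (P.lf 26818857 0 0) (P.cons (P.lf 1793045 0 0) (P.lf 0 597681 0)))) (P.cons (P.cons (P.lf 32959902 0 0) (P.cons (P.lf 0 1396458 0) (P.cons (P.lf 0 93364 0) P.nil))) (P.cons (P.cons (P.lf 0 3138956 0) (P.cons (P.lf 0 599358 0) P.nil)) (P.cons (P.cons (P.lf 0 360384 0) P.nil) P.nil)))))) 865861)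
 (EL.cons 10 (TM.mk (P.cons (P.cons (P.lf 0 42896565 0) (P.cons (P.lf 0 6641463 0) (P.cons (P.lf 3199647 0 0) (P.cons (P.lf 121083 0 0) (P.lf 0 30270 0))))) (P.cons (P.cons (P.lf 100818486 0 0) (P.cons (P.lf 15609231 0 0) (P.cons (P.lf 0 7520034 0) (P.cons (P.lf 0 284580 0) (P.lf 71145 0 0))))) (P.cons (P.cons (P.lf 0 64713222 0) (P.cons (P.lf 0 10019232 0) (P.cons (P.lf 4826949 0 0) (P.cons (P.lf 182664 0 0) P.nil)))) (P.cons (P.cons (P.lf 6217542 0 0) (P.cons (P.lf 962631 0 0) (P.cons (P.lf 0 463764 0) P.nil))) (P.cons (P.cons (P.lf 156723 0 0) (P.cons (P.lf 24264 0 0) P.nil)) (P.cons (P.cons (P.lf 0 111366 0) P.nil) P.nil)))))) 132813)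
 EL.nil))))
noncomputable def S430_488_364_512_8 : EL := (EL.cons 12 (TM.mk (P.cons (P.cons (P.lf 3598372792 0 0) (P.cons (P.lf 0 3887102 0) (P.cons (P.lf 0 258824 0) (P.cons (P.lf 86764 0 0) (P.cons (P.lf 0 42 0) (P.cons (P.lf 0 2 0) P.nil)))))) (P.cons (P.cons (P.lf 608562798 0 0) (P.cons (P.lf 13374906 0 0) (P.cons (P.lf 886808 0 0) (P.cons (P.lf 0 299052 0) (P.cons (P.lf 296 0 0) P.nil))))) (P.cons (P.cons (P.lf 0 348981666 0) (P.cons (P.lf 0 15486666 0) (P.cons (P.lf 0 1013254 0) (P.cons (P.lf 348092 0 0) P.nil)))) (P.cons (P.cons (P.lf 0 11342546 0) (P.cons (P.lf 5878512 0 0) (P.cons (P.lf 356598 0 0) P.nil))) (P.cons (P.cons (P.lf 17606184 0 0) (P.cons (P.lf 595902 0 0) P.nil)) (P.cons (P.cons (P.lf 0 1865240 0) P.nil) P.nil)))))) 2347530)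
 (EL.cons 3 (TM.mk (P.cons (P.cons (P.lf 1713352328 0 0) (P.cons (P.lf 3119517 0 0) (P.cons (P.lf 206368 0 0) (P.cons (P.lf 0 69804 0) (P.cons (P.lf 86 0 0) (P.cons (P.lf 6 0 0) P.nil)))))) (P.cons (P.cons (P.lf 0 194481796 0) (P.cons (P.lf 0 10403001 0) (P.cons (P.lf 0 680144 0) (P.cons (P.lf 233885 0 0) (P.cons (P.lf 0 616 0) P.nil))))) (P.cons (P.cons (P.lf 73624507 0 0) (P.cons (P.lf 11071565 0 0) (P.cons (P.lf 694410 0 0) (P.cons (P.lf 0 252857 0) P.nil)))) (P.cons (P.cons (P.lf 47962912 0 0) (P.cons (P.lf 0 2616012 0) (P.cons (P.lf 0 100064 0) P.nil))) (P.cons (P.cons (P.lf 0 19481467 0) (P.cons (P.lf 0 1962307 0) P.nil)) (P.cons (P.cons (P.lf 133298 0 0) P.nil) P.nil)))))) 6475328)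
 (EL.cons 7 (TM.mk (P.cons (P.cons (P.lf 957194530 0 0) (P.cons (P.lf 23522541 0 0) (P.cons (P.lf 1559677 0 0) (P.cons (P.lf 0 525955 0) (P.cons (P.lf 517 0 0) (P.cons (P.lf 36 0 0) P.nil)))))) (P.cons (P.cons (P.lf 0 960856645 0) (P.cons (P.lf 0 51397111 0) (P.cons (P.lf 0 3360371 0) (P.cons (P.lf 1155582 0 0) (P.cons (P.lf 0 3040 0) P.nil))))) (P.cons (P.cons (P.lf 0 209042395 0) (P.cons (P.lf 24061050 0 0) (P.cons (P.lf 1427622 0 0) (P.cons (P.lf 0 560430 0) P.nil)))) (P.cons (P.cons (P.lf 101355362 0 0) (P.cons (P.lf 7833663 0 0) (P.cons (P.lf 747119 0 0) P.nil))) (P.cons (P.cons (P.lf 1075774 0 0) (P.cons (P.lf 0 4012505 0) P.nil)) (P.cons (P.cons (P.lf 0 4879908 0) P.nil) P.nil)))))) 4277687)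
 (EL.cons 10 (TM.mk (P.cons (P.cons (P.lf 0 55527822 0) (P.cons (P.lf 0 8567106 0) (P.cons (P.lf 4148454 0 0) (P.cons (P.lf 154140 0 0) (P.cons (P.lf 0 39516 0) (P.cons (P.lf 60 0 0) P.nil)))))) (P.cons (P.cons (P.lf 125809866 0 0) (P.cons (P.lf 19302300 0 0) (P.cons (P.lf 0 9423198 0) (P.cons (P.lf 0 339870 0) (P.cons (P.lf 90762 0 0) P.nil))))) (P.cons (P.cons (P.lf 0 69841782 0) (P.cons (P.lf 0 10389522 0) (P.cons (P.lf 5303418 0 0) (P.cons (P.lf 160476 0 0) P.nil)))) (P.cons (P.cons (P.lf 0 5987154 0) (P.cons (P.lf 0 1458270 0) (P.cons (P.lf 328800 0 0) P.nil))) (P.cons (P.cons (P.lf 5566614 0 0) (P.cons (P.lf 1226424 0 0) P.nil)) (P.cons (P.cons (P.lf 0 661452 0) P.nil) P.nil)))))) 1486254)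
 EL.nil))))
noncomputable def S430_488_364_512_9 : EL := (EL.cons 3 (TM.mk (P.cons (P.lf 3575492913 0 0) (P.cons (P.lf 61202868 0 0) (P.cons (P.lf 0 39808623 0) (P.cons (P.lf 4455836 0 0) (P.cons (P.lf 0 202736 0) (P.cons (P.lf 0 14527 0) P.nil)))))) 20620)
 (EL.cons 7 (TM.mk (P.cons (P.lf 0 257314215 0) (P.cons (P.lf 302378847 0 0) (P.cons (P.lf 0 16422572 0) (P.cons (P.lf 0 650818 0) (P.cons (P.lf 229331 0 0) (P.cons (P.lf 0 22990 0) P.nil)))))) 9250)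
 EL.nil))
noncomputable def S430_488_364_512_10 : EL := (EL.cons 3 (TM.mk (P.cons (P.cons (P.lf 2314163665 0 0) (P.cons (P.lf 0 1249924 0) (P.cons (P.lf 0 83564 0) (P.lf 27854 0 0)))) (P.cons (P.cons (P.lf 235299893 0 0) (P.cons (P.lf 4385093 0 0) (P.cons (P.lf 293175 0 0) (P.lf 0 97722 0)))) (P.cons (P.cons (P.lf 0 142906897 0) (P.cons (P.lf 0 5328197 0) (P.cons (P.lf 0 356230 0) (P.lf 118741 0 0)))) (P.cons (P.cons (P.lf 5184287 0 0) (P.cons (P.lf 2438001 0 0) (P.cons (P.lf 162995 0 0) P.nil))) (P.cons (P.cons (P.lf 3537575 0 0) (P.cons (P.lf 0 210063 0) P.nil)) (P.cons (P.cons (P.lf 0 635630 0) P.nil) P.nil)))))) 372428)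
 (EL.cons 7 (TM.mk (P.cons (P.cons (P.lf 0 166541291 0) (P.cons (P.lf 89952 0 0) (P.cons (P.lf 6013 0 0) (P.lf 0 2004 0)))) (P.cons (P.cons (P.lf 181625569 0 0) (P.cons (P.lf 0 422823 0) (P.cons (P.lf 0 28268 0) (P.lf 9422 0 0)))) (P.cons (P.cons (P.lf 14591381 0 0) (P.cons (P.lf 768276 0 0) (P.cons (P.lf 51365 0 0) (P.lf 0 17121 0)))) (P.cons (P.cons (P.lf 0 11980734 0) (P.cons (P.lf 0 663942 0) (P.cons (P.lf 0 44389 0) P.nil))) (P.cons (P.cons (P.lf 1077580 0 0) (P.cons (P.lf 265344 0 0) P.nil)) (P.cons (P.cons (P.lf 186930 0 0) P.nil) P.nil)))))) 174849)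
 EL.nil))
noncomputable def S430_488_364_512_11 : EL := (EL.cons 3 (TM.mk (P.cons (P.cons (P.lf 1497794456 0 0) (P.cons (P.lf 0 1617975 0) (P.cons (P.lf 0 107732 0) (P.cons (P.lf 36114 0 0) (P.cons (P.lf 0 16 0) (P.cons (P.lf 0 0 0) P.nil)))))) (P.cons (P.cons (P.lf 278947724 0 0) (P.cons (P.lf 5539503 0 0) (P.cons (P.lf 367282 0 0) (P.cons (P.lf 0 123859 0) (P.cons (P.lf 122 0 0) P.nil))))) (P.cons (P.cons (P.lf 0 157600961 0) (P.cons (P.lf 0 6332893 0) (P.cons (P.lf 0 414240 0) (P.cons (P.lf 142357 0 0) P.nil)))) (P.cons (P.cons (P.lf 0 8161430 0) (P.cons (P.lf 2272542 0 0) (P.cons (P.lf 136966 0 0) P.nil))) (P.cons (P.cons (P.lf 9095669 0 0) (P.cons (P.lf 368723 0 0) P.nil)) (P.cons (P.cons (P.lf 0 799858 0) P.nil) P.nil)))))) 1209874)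
 (EL.cons 7 (TM.mk (P.cons (P.cons (P.lf 0 107790398 0) (P.cons (P.lf 116439 0 0) (P.cons (P.lf 7753 0 0) (P.cons (P.lf 0 2599 0) (P.cons (P.lf 1 0 0) (P.cons (P.lf 0 0 0) P.nil)))))) (P.cons (P.cons (P.lf 108438539 0 0) (P.cons (P.lf 0 537481 0) (P.cons (P.lf 0 35675 0) (P.cons (P.lf 12012 0 0) (P.cons (P.lf 0 10 0) P.nil))))) (P.cons (P.cons (P.lf 24996689 0 0) (P.cons (P.lf 942156 0 0) (P.cons (P.lf 62064 0 0) (P.cons (P.lf 0 21120 0) P.nil)))) (P.cons (P.cons (P.lf 0 13381024 0) (P.cons (P.lf 0 746523 0) (P.cons (P.lf 0 48025 0) P.nil))) (P.cons (P.cons (P.lf 0 209516 0) (P.cons (P.lf 217573 0 0) P.nil)) (P.cons (P.cons (P.lf 730380 0 0) P.nil) P.nil)))))) 345769)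
 EL.nil))
noncomputable def S430_488_364_512_12 : EL := (EL.cons 4 (TM.mk (P.cons (P.lf 0 3575492913 0) (P.cons (P.lf 0 61202868 0) (P.cons (P.lf 39808623 0 0) (P.cons (P.lf 0 4455836 0) (P.cons (P.lf 202736 0 0) (P.cons (P.lf 14527 0 0) P.nil)))))) 20620)
 (EL.cons 8 (TM.mk (P.cons (P.lf 257314215 0 0) (P.cons (P.lf 0 302378847 0) (P.cons (P.lf 16422572 0 0) (P.cons (P.lf 650818 0 0) (P.cons (P.lf 0 229331 0) (P.cons (P.lf 22990 0 0) P.nil)))))) 9250)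
 EL.nil))
noncomputable def S430_488_364_512_13 : EL := (EL.cons 4 (TM.mk (P.cons (P.cons (P.lf 0 2314163665 0) (P.cons (P.lf 1249924 0 0) (P.cons (P.lf 83564 0 0) (P.lf 0 27854 0)))) (P.cons (P.cons (P.lf 0 235299893 0) (P.cons (P.lf 0 4385093 0) (P.cons (P.lf 0 293175 0) (P.lf 97722 0 0)))) (P.cons (P.cons (P.lf 142906897 0 0) (P.cons (P.lf 5328197 0 0) (P.cons (P.lf 356230 0 0) (P.lf 0 118741 0)))) (P.cons (P.cons (P.lf 0 5184287 0) (P.cons (P.lf 0 2438001 0) (P.cons (P.lf 0 162995 0) P.nil))) (P.cons (P.cons (P.lf 0 3537575 0) (P.cons (P.lf 210063 0 0) P.nil)) (P.cons (P.cons (P.lf 635630 0 0) P.nil) P.nil)))))) 372428)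
 (EL.cons 8 (TM.mk (P.cons (P.cons (P.lf 166541291 0 0) (P.cons (P.lf 0 89952 0) (P.cons (P.lf 0 6013 0) (P.lf 2004 0 0)))) (P.cons (P.cons (P.lf 0 181625569 0) (P.cons (P.lf 422823 0 0) (P.cons (P.lf 28268 0 0) (P.lf 0 9422 0)))) (P.cons (P.cons (P.lf 0 14591381 0) (P.cons (P.lf 0 768276 0) (P.cons (P.lf 0 51365 0) (P.lf 17121 0 0)))) (P.cons (P.cons (P.lf 11980734 0 0) (P.cons (P.lf 663942 0 0) (P.cons (P.lf 44389 0 0) P.nil))) (P.cons (P.cons (P.lf 0 1077580 0) (P.cons (P.lf 0 265344 0) P.nil)) (P.cons (P.cons (P.lf 0 186930 0) P.nil) P.nil)))))) 174849)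
 EL.nil))
noncomputable def S430_488_364_512_14 : EL := (EL.cons 4 (TM.mk (P.cons (P.cons (P.lf 0 1497794456 0) (P.cons (P.lf 1617975 0 0) (P.cons (P.lf 107732 0 0) (P.cons (P.lf 0 36114 0) (P.cons (P.lf 16 0 0) (P.cons (P.lf 0 0 0) P.nil)))))) (P.cons (P.cons (P.lf 0 278947724 0) (P.cons (P.lf 0 5539503 0) (P.cons (P.lf 0 367282 0) (P.cons (P.lf 123859 0 0) (P.cons (P.lf 0 122 0) P.nil))))) (P.cons (P.cons (P.lf 157600961 0 0) (P.cons (P.lf 6332893 0 0) (P.cons (P.lf 414240 0 0) (P.cons (P.lf 0 142357 0) P.nil)))) (P.cons (P.cons (P.lf 8161430 0 0) (P.cons (P.lf 0 2272542 0) (P.cons (P.lf 0 136966 0) P.nil))) (P.cons (P.cons (P.lf 0 9095669 0) (P.cons (P.lf 0 368723 0) P.nil)) (P.cons (P.cons (P.lf 799858 0 0) P.nil) P.nil)))))) 1209874)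
 (EL.cons 8 (TM.mk (P.cons (P.cons (P.lf 107790398 0 0) (P.cons (P.lf 0 116439 0) (P.cons (P.lf 0 7753 0) (P.cons (P.lf 2599 0 0) (P.cons (P.lf 0 1 0) (P.cons (P.lf 0 0 0) P.nil)))))) (P.cons (P.cons (P.lf 0 108438539 0) (P.cons (P.lf 537481 0 0) (P.cons (P.lf 35675 0 0) (P.cons (P.lf 0 12012 0) (P.cons (P.lf 10 0 0) P.nil))))) (P.cons (P.cons (P.lf 0 24996689 0) (P.cons (P.lf 0 942156 0) (P.cons (P.lf 0 62064 0) (P.cons (P.lf 21120 0 0) P.nil)))) (P.cons (P.cons (P.lf 13381024 0 0) (P.cons (P.lf 746523 0 0) (P.cons (P.lf 48025 0 0) P.nil))) (P.cons (P.cons (P.lf 209516 0 0) (P.cons (P.lf 0 217573 0) P.nil)) (P.cons (P.cons (P.lf 0 730380 0) P.nil) P.nil)))))) 345769)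
 EL.nil))
noncomputable def S430_488_364_512_15 : EL := (EL.cons 4 (TM.mk (P.cons (P.lf 0 3174977892 0) (P.cons (P.lf 0 108694246 0) (P.cons (P.lf 69768506 0 0) (P.cons (P.lf 0 6703241 0) (P.cons (P.lf 0 168974 0) (P.cons (P.lf 120069 0 0) P.nil)))))) 47865)
 (EL.cons 8 (TM.mk (P.cons (P.lf 228490718 0 0) (P.cons (P.lf 0 264596208 0) (P.cons (P.lf 7442884 0 0) (P.cons (P.lf 4101777 0 0) (P.cons (P.lf 0 703686 0) (P.cons (P.lf 42964 0 0) P.nil)))))) 17287)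
 EL.nil))
noncomputable def S430_488_364_512_16 : EL := (EL.cons 4 (TM.mk (P.cons (P.cons (P.lf 0 2054938620 0) (P.cons (P.lf 1109911 0 0) (P.cons (P.lf 74204 0 0) (P.lf 0 24734 0)))) (P.cons (P.cons (P.lf 0 244117418 0) (P.cons (P.lf 0 3874890 0) (P.cons (P.lf 0 259065 0) (P.lf 86352 0 0)))) (P.cons (P.cons (P.lf 146201560 0 0) (P.cons (P.lf 4652340 0 0) (P.cons (P.lf 311043 0 0) (P.lf 0 103680 0)))) (P.cons (P.cons (P.lf 0 2665977 0) (P.cons (P.lf 0 2039179 0) (P.cons (P.lf 0 136332 0) P.nil))) (P.cons (P.cons (P.lf 0 4776837 0) (P.cons (P.lf 91882 0 0) P.nil)) (P.cons (P.cons (P.lf 740253 0 0) P.nil) P.nil)))))) 456518)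
 (EL.cons 8 (TM.mk (P.cons (P.cons (P.lf 147885880 0 0) (P.cons (P.lf 0 79876 0) (P.cons (P.lf 0 5340 0) (P.lf 1780 0 0)))) (P.cons (P.cons (P.lf 0 158749057 0) (P.cons (P.lf 374093 0 0) (P.cons (P.lf 25010 0 0) (P.lf 0 8336 0)))) (P.cons (P.cons (P.lf 0 17364116 0) (P.cons (P.lf 0 674900 0) (P.cons (P.lf 0 45122 0) (P.lf 15040 0 0)))) (P.cons (P.cons (P.lf 12396857 0 0) (P.cons (P.lf 573612 0 0) (P.cons (P.lf 38350 0 0) P.nil))) (P.cons (P.cons (P.lf 0 839884 0) (P.cons (P.lf 0 217461 0) P.nil)) (P.cons (P.cons (P.lf 0 308421 0) P.nil) P.nil)))))) 189826)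
 EL.nil))
noncomputable def S430_488_364_512_17 : EL := (EL.cons 4 (TM.mk (P.cons (P.cons (P.lf 0 1330016420 0) (P.cons (P.lf 1436734 0 0) (P.cons (P.lf 95665 0 0) (P.cons (P.lf 0 32069 0) (P.cons (P.lf 15 0 0) (P.cons (P.lf 0 0 0) P.nil)))))) (P.cons (P.cons (P.lf 0 270467234 0) (P.cons (P.lf 0 4894394 0) (P.cons (P.lf 0 324502 0) (P.cons (P.lf 109436 0 0) (P.cons (P.lf 0 108 0) P.nil))))) (P.cons (P.cons (P.lf 150515102 0 0) (P.cons (P.lf 5523306 0 0) (P.cons (P.lf 361190 0 0) (P.cons (P.lf 0 124170 0) P.nil)))) (P.cons (P.cons (P.lf 10743083 0 0) (P.cons (P.lf 0 1865162 0) (P.cons (P.lf 0 111577 0) P.nil))) (P.cons (P.cons (P.lf 0 9744157 0) (P.cons (P.lf 0 430785 0) P.nil)) (P.cons (P.cons (P.lf 685171 0 0) P.nil) P.nil)))))) 1277554)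
 (EL.cons 8 (TM.mk (P.cons (P.cons (P.lf 95716070 0 0) (P.cons (P.lf 0 103396 0) (P.cons (P.lf 0 6884 0) (P.cons (P.lf 2307 0 0) (P.cons (P.lf 0 1 0) (P.cons (P.lf 0 0 0) P.nil)))))) (P.cons (P.cons (P.lf 0 94653205 0) (P.cons (P.lf 475504 0 0) (P.cons (P.lf 31561 0 0) (P.cons (P.lf 0 10627 0) (P.cons (P.lf 9 0 0) P.nil))))) (P.cons (P.cons (P.lf 0 24910574 0) (P.cons (P.lf 0 827298 0) (P.cons (P.lf 0 54492 0) (P.cons (P.lf 18546 0 0) P.nil)))) (P.cons (P.cons (P.lf 12693548 0 0) (P.cons (P.lf 643136 0 0) (P.cons (P.lf 41341 0 0) P.nil))) (P.cons (P.cons (P.lf 511141 0 0) (P.cons (P.lf 0 171938 0) P.nil)) (P.cons (P.cons (P.lf 0 800264 0) P.nil) P.nil)))))) 359304)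
 EL.nil))
noncomputable def S430_488_364_512_18 : EL := (EL.cons 4 (TM.mk (P.cons (P.lf 0 2819327253 0) (P.cons (P.lf 0 144778008 0) (P.cons (P.lf 91690793 0 0) (P.cons (P.lf 0 7330768 0) (P.cons (P.lf 0 902129 0) (P.cons (P.lf 264457 0 0) P.nil)))))) 77925)
 (EL.cons 8 (TM.mk (P.cons (P.lf 202895935 0 0) (P.cons (P.lf 0 231483970 0) (P.cons (P.lf 328330 0 0) (P.cons (P.lf 6624244 0 0) (P.cons (P.lf 0 940411 0) (P.cons (P.lf 7637 0 0) P.nil)))))) 31341)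
 EL.nil))
noncomputable def S430_488_364_512_19 : EL := (EL.cons 4 (TM.mk (P.cons (P.cons (P.lf 0 1824751117 0) (P.cons (P.lf 985583 0 0) (P.cons (P.lf 65891 0 0) (P.lf 0 21963 0)))) (P.cons (P.cons (P.lf 0 248007038 0) (P.cons (P.lf 0 3423967 0) (P.cons (P.lf 0 228916 0) (P.lf 76304 0 0)))) (P.cons (P.cons (P.lf 146430292 0 0) (P.cons (P.lf 4061328 0 0) (P.cons (P.lf 271530 0 0) (P.lf 0 90509 0)))) (P.cons (P.cons (P.lf 0 5641 0) (P.cons (P.lf 0 1700504 0) (P.cons (P.lf 0 113689 0) P.nil))) (P.cons (P.cons (P.lf 0 5894385 0) (P.cons (P.lf 255 0 0) P.nil)) (P.cons (P.cons (P.lf 792577 0 0) P.nil) P.nil)))))) 553509)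
 (EL.cons 8 (TM.mk (P.cons (P.cons (P.lf 131320187 0 0) (P.cons (P.lf 0 70928 0) (P.cons (P.lf 0 4741 0) (P.lf 1580 0 0)))) (P.cons (P.cons (P.lf 0 138718656 0) (P.cons (P.lf 330974 0 0) (P.cons (P.lf 22127 0 0) (P.lf 0 7375 0)))) (P.cons (P.cons (P.lf 0 19294099 0) (P.cons (P.lf 0 592824 0) (P.cons (P.lf 0 39634 0) (P.lf 13211 0 0)))) (P.cons (P.cons (P.lf 12477407 0 0) (P.cons (P.lf 495312 0 0) (P.cons (P.lf 33115 0 0) P.nil))) (P.cons (P.cons (P.lf 0 568821 0) (P.cons (P.lf 0 177292 0) P.nil)) (P.cons (P.cons (P.lf 0 420958 0) P.nil) P.nil)))))) 199784)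
 EL.nil))
noncomputable def S430_488_364_512_20 : EL := (EL.cons 4 (TM.mk (P.cons (P.cons (P.lf 0 1181032331 0) (P.cons (P.lf 1275796 0 0) (P.cons (P.lf 84948 0 0) (P.cons (P.lf 0 28476 0) (P.cons (P.lf 13 0 0) (P.cons (P.lf 0 0 0) P.nil)))))) (P.cons (P.cons (P.lf 0 260386490 0) (P.cons (P.lf 0 4324301 0) (P.cons (P.lf 0 286698 0) (P.cons (P.lf 96690 0 0) (P.cons (P.lf 0 95 0) P.nil))))) (P.cons (P.cons (P.lf 142693131 0 0) (P.cons (P.lf 4816005 0 0) (P.cons (P.lf 314852 0 0) (P.cons (P.lf 0 108281 0) P.nil)))) (P.cons (P.cons (P.lf 13029666 0 0) (P.cons (P.lf 0 1522301 0) (P.cons (P.lf 0 90274 0) P.nil))) (P.cons (P.cons (P.lf 0 10209772 0) (P.cons (P.lf 0 470974 0) P.nil)) (P.cons (P.cons (P.lf 539077 0 0) P.nil) P.nil)))))) 1354605)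
 (EL.cons 8 (TM.mk (P.cons (P.cons (P.lf 84994269 0 0) (P.cons (P.lf 0 91814 0) (P.cons (P.lf 0 6113 0) (P.cons (P.lf 2049 0 0) (P.cons (P.lf 0 0 0) (P.cons (P.lf 0 0 0) P.nil)))))) (P.cons (P.cons (P.lf 0 82595588 0) (P.cons (P.lf 420668 0 0) (P.cons (P.lf 27921 0 0) (P.cons (P.lf 0 9401 0) (P.cons (P.lf 8 0 0) P.nil))))) (P.cons (P.cons (P.lf 0 24505196 0) (P.cons (P.lf 0 726377 0) (P.cons (P.lf 0 47840 0) (P.cons (P.lf 16284 0 0) P.nil)))) (P.cons (P.cons (P.lf 11934737 0 0) (P.cons (P.lf 553704 0 0) (P.cons (P.lf 35562 0 0) P.nil))) (P.cons (P.cons (P.lf 783542 0 0) (P.cons (P.lf 0 134192 0) P.nil)) (P.cons (P.cons (P.lf 0 851494 0) P.nil) P.nil)))))) 361544)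
 EL.nil))
noncomputable def S430_488_364_512_21 : EL := (EL.cons 4 (TM.mk (P.cons (P.cons (P.lf 0 166523583 0) (P.cons (P.lf 0 3749772 0) (P.cons (P.lf 0 250692 0) (P.lf 83562 0 0)))) (P.cons (P.cons (P.lf 379816935 0 0) (P.cons (P.lf 13155279 0 0) (P.cons (P.lf 879525 0 0) (P.lf 0 293166 0)))) (P.cons (P.cons (P.lf 0 219415173 0) (P.cons (P.lf 0 15984591 0) (P.cons (P.lf 0 1068690 0) (P.lf 356223 0 0)))) (P.cons (P.cons (P.lf 0 4556865 0) (P.cons (P.lf 7314003 0 0) (P.cons (P.lf 488985 0 0) P.nil))) (P.cons (P.cons (P.lf 10105806 0 0) (P.cons (P.lf 0 630189 0) P.nil)) (P.cons (P.cons (P.lf 0 1546686 0) P.nil) P.nil)))))) 1242627)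
 (EL.cons 8 (TM.mk (P.cons (P.cons (P.lf 0 822726180 0) (P.cons (P.lf 0 18526143 0) (P.cons (P.lf 0 1238616 0) (P.lf 412872 0 0)))) (P.cons (P.cons (P.lf 895626366 0 0) (P.cons (P.lf 42907194 0 0) (P.cons (P.lf 2868678 0 0) (P.lf 0 956226 0)))) (P.cons (P.cons (P.lf 62229078 0 0) (P.cons (P.lf 0 26050581 0) (P.cons (P.lf 0 1741680 0) (P.lf 580560 0 0)))) (P.cons (P.cons (P.lf 0 44940636 0) (P.cons (P.lf 732516 0 0) (P.cons (P.lf 48975 0 0) P.nil))) (P.cons (P.cons (P.lf 4216536 0 0) (P.cons (P.lf 864702 0 0) P.nil)) (P.cons (P.cons (P.lf 547314 0 0) P.nil) P.nil)))))) 690993)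
 (EL.cons 11 (TM.mk (P.cons (P.cons (P.lf 42896565 0 0) (P.cons (P.lf 6641463 0 0) (P.cons (P.lf 0 3199647 0) (P.cons (P.lf 0 121083 0) (P.lf 30270 0 0))))) (P.cons (P.cons (P.lf 0 100818486 0) (P.cons (P.lf 0 15609231 0) (P.cons (P.lf 7520034 0 0) (P.cons (P.lf 284580 0 0) (P.lf 0 71145 0))))) (P.cons (P.cons (P.lf 64713222 0 0) (P.cons (P.lf 10019232 0 0) (P.cons (P.lf 0 4826949 0) (P.cons (P.lf 0 182664 0) P.nil)))) (P.cons (P.cons (P.lf 0 6217542 0) (P.cons (P.lf 0 962631 0) (P.cons (P.lf 463764 0 0) P.nil))) (P.cons (P.cons (P.lf 0 156723 0) (P.cons (P.lf 0 24264 0) P.nil)) (P.cons (P.cons (P.lf 111366 0 0) P.nil) P.nil)))))) 132813)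
 EL.nil)))
noncomputable def S430_488_364_512_22 : EL := (EL.cons 4 (TM.mk (P.cons (P.cons (P.lf 0 107778936 0) (P.cons (P.lf 0 2368746 0) (P.cons (P.lf 0 157050 0) (P.cons (P.lf 52959 0 0) (P.cons (P.lf 0 51 0) (P.cons (P.lf 0 3 0) P.nil)))))) (P.cons (P.cons (P.lf 236714760 0 0) (P.cons (P.lf 7971252 0 0) (P.cons (P.lf 523713 0 0) (P.cons (P.lf 0 178872 0) (P.cons (P.lf 369 0 0) P.nil))))) (P.cons (P.cons (P.lf 0 115612734 0) (P.cons (P.lf 0 8702229 0) (P.cons (P.lf 0 554325 0) (P.cons (P.lf 197607 0 0) P.nil)))) (P.cons (P.cons (P.lf 0 28062171 0) (P.cons (P.lf 2444277 0 0) (P.cons (P.lf 118515 0 0) P.nil))) (P.cons (P.cons (P.lf 14288568 0 0) (P.cons (P.lf 1165515 0 0) P.nil)) (P.cons (P.cons (P.lf 0 466578 0) P.nil) P.nil)))))) 2632716)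
 (EL.cons 8 (TM.mk (P.cons (P.cons (P.lf 0 532492464 0) (P.cons (P.lf 0 11703051 0) (P.cons (P.lf 0 775962 0) (P.cons (P.lf 261678 0 0) (P.cons (P.lf 0 258 0) (P.cons (P.lf 0 18 0) P.nil)))))) (P.cons (P.cons (P.lf 534647592 0 0) (P.cons (P.lf 25429815 0 0) (P.cons (P.lf 1662348 0 0) (P.cons (P.lf 0 571785 0) (P.cons (P.lf 1515 0 0) P.nil))))) (P.cons (P.cons (P.lf 117019542 0 0) (P.cons (P.lf 0 11559447 0) (P.cons (P.lf 0 682779 0) (P.cons (P.lf 269655 0 0) P.nil)))) (P.cons (P.cons (P.lf 0 57368193 0) (P.cons (P.lf 0 4290093 0) (P.cons (P.lf 0 397572 0) P.nil))) (P.cons (P.cons (P.lf 0 642645 0) (P.cons (P.lf 2115039 0 0) P.nil)) (P.cons (P.cons (P.lf 2805144 0 0) P.nil) P.nil)))))) 1965948)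
 (EL.cons 11 (TM.mk (P.cons (P.cons (P.lf 27763911 0 0) (P.cons (P.lf 4283553 0 0) (P.cons (P.lf 0 2074227 0) (P.cons (P.lf 0 77070 0) (P.cons (P.lf 19758 0 0) (P.cons (P.lf 0 30 0) P.nil)))))) (P.cons (P.cons (P.lf 0 62904933 0) (P.cons (P.lf 0 9651150 0) (P.cons (P.lf 4711599 0 0) (P.cons (P.lf 169935 0 0) (P.cons (P.lf 0 45381 0) P.nil))))) (P.cons (P.cons (P.lf 34920891 0 0) (P.cons (P.lf 5194761 0 0) (P.cons (P.lf 0 2651709 0) (P.cons (P.lf 0 80238 0) P.nil)))) (P.cons (P.cons (P.lf 2993577 0 0) (P.cons (P.lf 729135 0 0) (P.cons (P.lf 0 164400 0) P.nil))) (P.cons (P.cons (P.lf 0 2783307 0) (P.cons (P.lf 0 613212 0) P.nil)) (P.cons (P.cons (P.lf 330726 0 0) P.nil) P.nil)))))) 743127)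
 EL.nil)))
noncomputable def S430_488_364_512_23 : EL := (EL.cons 4 (TM.mk (P.cons (P.cons (P.lf 0 147870153 0) (P.cons (P.lf 0 3329733 0) (P.cons (P.lf 0 222609 0) (P.lf 74199 0 0)))) (P.cons (P.cons (P.lf 334739943 0 0) (P.cons (P.lf 11624670 0 0) (P.cons (P.lf 777192 0 0) (P.lf 0 259056 0)))) (P.cons (P.cons (P.lf 0 187417476 0) (P.cons (P.lf 0 13957017 0) (P.cons (P.lf 0 933129 0) (P.lf 311037 0 0)))) (P.cons (P.cons (P.lf 0 11320875 0) (P.cons (P.lf 6117537 0 0) (P.cons (P.lf 408993 0 0) P.nil))) (P.cons (P.cons (P.lf 11502483 0 0) (P.cons (P.lf 0 275643 0) P.nil)) (P.cons (P.cons (P.lf 0 1436103 0) P.nil) P.nil)))))) 1466049)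
 (EL.cons 8 (TM.mk (P.cons (P.cons (P.lf 0 730567083 0) (P.cons (P.lf 0 16450905 0) (P.cons (P.lf 0 1099869 0) (P.lf 366621 0 0)))) (P.cons (P.cons (P.lf 782795874 0 0) (P.cons (P.lf 37819275 0 0) (P.cons (P.lf 2528511 0 0) (P.lf 0 842835 0)))) (P.cons (P.cons (P.lf 77005755 0 0) (P.cons (P.lf 0 22297134 0) (P.cons (P.lf 0 1490733 0) (P.lf 496911 0 0)))) (P.cons (P.cons (P.lf 0 48725781 0) (P.cons (P.lf 0 190209 0) (P.cons (P.lf 0 12714 0) P.nil))) (P.cons (P.cons (P.lf 3478428 0 0) (P.cons (P.lf 1084938 0 0) P.nil)) (P.cons (P.cons (P.lf 1021143 0 0) P.nil) P.nil)))))) 874950)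
 (EL.cons 11 (TM.mk (P.cons (P.cons (P.lf 38091432 0 0) (P.cons (P.lf 5897508 0 0) (P.cons (P.lf 0 2841231 0) (P.cons (P.lf 0 107517 0) (P.lf 26877 0 0))))) (P.cons (P.cons (P.lf 0 88873104 0) (P.cons (P.lf 0 13759785 0) (P.cons (P.lf 6629028 0 0) (P.cons (P.lf 250860 0 0) (P.lf 0 62715 0))))) (P.cons (P.cons (P.lf 55507725 0 0) (P.cons (P.lf 8593989 0 0) (P.cons (P.lf 0 4140312 0) (P.cons (P.lf 0 156678 0) P.nil)))) (P.cons (P.cons (P.lf 0 3493218 0) (P.cons (P.lf 0 540837 0) (P.cons (P.lf 260556 0 0) P.nil))) (P.cons (P.cons (P.lf 0 987192 0) (P.cons (P.lf 0 152841 0) P.nil)) (P.cons (P.cons (P.lf 234513 0 0) P.nil) P.nil)))))) 247008)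
 EL.nil)))
noncomputable def S430_488_364_512_24 : EL := (EL.cons 4 (TM.mk (P.cons (P.cons (P.lf 0 95705892 0) (P.cons (P.lf 0 2103408 0) (P.cons (P.lf 0 139458 0) (P.cons (P.lf 47028 0 0) (P.cons (P.lf 0 45 0) (P.cons (P.lf 0 3 0) P.nil)))))) (P.cons (P.cons (P.lf 208560516 0 0) (P.cons (P.lf 7042332 0 0) (P.cons (P.lf 462663 0 0) (P.cons (P.lf 0 158028 0) (P.cons (P.lf 327 0 0) P.nil))))) (P.cons (P.cons (P.lf 0 97998570 0) (P.cons (P.lf 0 7582851 0) (P.cons (P.lf 0 482718 0) (P.cons (P.lf 172230 0 0) P.nil)))) (P.cons (P.cons (P.lf 0 29135610 0) (P.cons (P.lf 1956774 0 0) (P.cons (P.lf 91461 0 0) P.nil))) (P.cons (P.cons (P.lf 13671861 0 0) (P.cons (P.lf 1167087 0 0) P.nil)) (P.cons (P.cons (P.lf 0 59160 0) P.nil) P.nil)))))) 2632668)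
 (EL.cons 8 (TM.mk (P.cons (P.cons (P.lf 0 472844400 0) (P.cons (P.lf 0 10392114 0) (P.cons (P.lf 0 689040 0) (P.cons (P.lf 232365 0 0) (P.cons (P.lf 0 228 0) (P.cons (P.lf 0 15 0) P.nil)))))) (P.cons (P.cons (P.lf 466664286 0 0) (P.cons (P.lf 22403367 0 0) (P.cons (P.lf 1464342 0 0) (P.cons (P.lf 0 503757 0) (P.cons (P.lf 1341 0 0) P.nil))))) (P.cons (P.cons (P.lf 117302511 0 0) (P.cons (P.lf 0 9762360 0) (P.cons (P.lf 0 573357 0) (P.cons (P.lf 228171 0 0) P.nil)))) (P.cons (P.cons (P.lf 0 55038411 0) (P.cons (P.lf 0 4249596 0) (P.cons (P.lf 0 380709 0) P.nil))) (P.cons (P.cons (P.lf 0 1981110 0) (P.cons (P.lf 1955922 0 0) P.nil)) (P.cons (P.cons (P.lf 3152826 0 0) P.nil) P.nil)))))) 1958181)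
 (EL.cons 11 (TM.mk (P.cons (P.cons (P.lf 24653889 0 0) (P.cons (P.lf 3803721 0 0) (P.cons (P.lf 0 1841880 0) (P.cons (P.lf 0 68436 0) (P.cons (P.lf 17544 0 0) (P.cons (P.lf 0 27 0) P.nil)))))) (P.cons (P.cons (P.lf 0 55436520 0) (P.cons (P.lf 0 8504949 0) (P.cons (P.lf 4152294 0 0) (P.cons (P.lf 149730 0 0) (P.cons (P.lf 0 39996 0) P.nil))))) (P.cons (P.cons (P.lf 29778528 0 0) (P.cons (P.lf 4423815 0 0) (P.cons (P.lf 0 2262552 0) (P.cons (P.lf 0 67905 0) P.nil)))) (P.cons (P.cons (P.lf 3841680 0 0) (P.cons (P.lf 826578 0 0) (P.cons (P.lf 0 235167 0) P.nil))) (P.cons (P.cons (P.lf 0 2842284 0) (P.cons (P.lf 0 595692 0) P.nil)) (P.cons (P.cons (P.lf 263487 0 0) P.nil) P.nil)))))) 753087)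
 EL.nil)))
noncomputable def S430_488_364_512_25 : EL := (EL.cons 4 (TM.mk (P.cons (P.cons (P.lf 0 131306223 0) (P.cons (P.lf 0 2956746 0) (P.cons (P.lf 0 197673 0) (P.lf 65889 0 0)))) (P.cons (P.cons (P.lf 294995856 0 0) (P.cons (P.lf 10271901 0 0) (P.cons (P.lf 686748 0 0) (P.lf 0 228909 0)))) (P.cons (P.cons (P.lf 0 159873639 0) (P.cons (P.lf 0 12183984 0) (P.cons (P.lf 0 814590 0) (P.lf 271524 0 0)))) (P.cons (P.cons (P.lf 0 16374543 0) (P.cons (P.lf 5101512 0 0) (P.cons (P.lf 341064 0 0) P.nil))) (P.cons (P.cons (P.lf 12272730 0 0) (P.cons (P.lf 0 762 0) P.nil)) (P.cons (P.cons (P.lf 0 1212195 0) P.nil) P.nil)))))) 1609689)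
 (EL.cons 8 (TM.mk (P.cons (P.cons (P.lf 0 648731349 0) (P.cons (P.lf 0 14608128 0) (P.cons (P.lf 0 976665 0) (P.lf 325554 0 0)))) (P.cons (P.cons (P.lf 684005097 0 0) (P.cons (P.lf 33332829 0 0) (P.cons (P.lf 2228556 0 0) (P.lf 0 742851 0)))) (P.cons (P.cons (P.lf 87501048 0 0) (P.cons (P.lf 0 19061988 0) (P.cons (P.lf 0 1274439 0) (P.lf 424812 0 0)))) (P.cons (P.cons (P.lf 0 50644830 0) (P.cons (P.lf 0 899925 0) (P.cons (P.lf 0 60165 0) P.nil))) (P.cons (P.cons (P.lf 2489877 0 0) (P.cons (P.lf 1223640 0 0) P.nil)) (P.cons (P.cons (P.lf 1489797 0 0) P.nil) P.nil)))))) 1003338)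
 (EL.cons 11 (TM.mk (P.cons (P.cons (P.lf 33824553 0 0) (P.cons (P.lf 5236887 0 0) (P.cons (P.lf 0 2522967 0) (P.cons (P.lf 0 95475 0) (P.lf 23868 0 0))))) (P.cons (P.cons (P.lf 0 78338844 0) (P.cons (P.lf 0 12128817 0) (P.cons (P.lf 5843280 0 0) (P.cons (P.lf 221124 0 0) (P.lf 0 55281 0))))) (P.cons (P.cons (P.lf 47562477 0 0) (P.cons (P.lf 7363866 0 0) (P.cons (P.lf 0 3547677 0) (P.cons (P.lf 0 134253 0) P.nil)))) (P.cons (P.cons (P.lf 0 1337403 0) (P.cons (P.lf 0 207063 0) (P.cons (P.lf 99753 0 0) P.nil))) (P.cons (P.cons (P.lf 0 1578753 0) (P.cons (P.lf 0 244428 0) P.nil)) (P.cons (P.cons (P.lf 293538 0 0) P.nil) P.nil)))))) 323376)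
 EL.nil)))
noncomputable def S430_488_364_512_26 : EL := (EL.cons 4 (TM.mk (P.cons (P.cons (P.lf 0 84985230 0) (P.cons (P.lf 0 1867791 0) (P.cons (P.lf 0 123837 0) (P.cons (P.lf 41760 0 0) (P.cons (P.lf 0 39 0) (P.cons (P.lf 0 3 0) P.nil)))))) (P.cons (P.cons (P.lf 183743529 0 0) (P.cons (P.lf 6221502 0 0) (P.cons (P.lf 408717 0 0) (P.cons (P.lf 0 139614 0) (P.cons (P.lf 288 0 0) P.nil))))) (P.cons (P.cons (P.lf 0 82904787 0) (P.cons (P.lf 0 6605607 0) (P.cons (P.lf 0 420234 0) (P.cons (P.lf 150069 0 0) P.nil)))) (P.cons (P.cons (P.lf 0 29529360 0) (P.cons (P.lf 1550373 0 0) (P.cons (P.lf 69150 0 0) P.nil))) (P.cons (P.cons (P.lf 12902013 0 0) (P.cons (P.lf 1148964 0 0) P.nil)) (P.cons (P.cons (P.lf 324723 0 0) P.nil) P.nil)))))) 2604195)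
 (EL.cons 8 (TM.mk (P.cons (P.cons (P.lf 0 419877915 0) (P.cons (P.lf 0 9228024 0) (P.cons (P.lf 0 611856 0) (P.cons (P.lf 206337 0 0) (P.cons (P.lf 0 204 0) (P.cons (P.lf 0 15 0) P.nil)))))) (P.cons (P.cons (P.lf 407202891 0 0) (P.cons (P.lf 19735854 0 0) (P.cons (P.lf 1289838 0 0) (P.cons (P.lf 0 443796 0) (P.cons (P.lf 1188 0 0) P.nil))))) (P.cons (P.cons (P.lf 115930731 0 0) (P.cons (P.lf 0 8225541 0) (P.cons (P.lf 0 480060 0) (P.cons (P.lf 192657 0 0) P.nil)))) (P.cons (P.cons (P.lf 0 52227174 0) (P.cons (P.lf 0 4154952 0) (P.cons (P.lf 0 362019 0) P.nil))) (P.cons (P.cons (P.lf 0 3215265 0) (P.cons (P.lf 1794066 0 0) P.nil)) (P.cons (P.cons (P.lf 3421704 0 0) P.nil) P.nil)))))) 1921080)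
 (EL.cons 11 (TM.mk (P.cons (P.cons (P.lf 21892239 0 0) (P.cons (P.lf 3377643 0 0) (P.cons (P.lf 0 1635558 0) (P.cons (P.lf 0 60771 0) (P.cons (P.lf 15579 0 0) (P.cons (P.lf 0 24 0) P.nil)))))) (P.cons (P.cons (P.lf 0 48851967 0) (P.cons (P.lf 0 7494438 0) (P.cons (P.lf 3659172 0 0) (P.cons (P.lf 131916 0 0) (P.cons (P.lf 0 35250 0) P.nil))))) (P.cons (P.cons (P.lf 25356462 0 0) (P.cons (P.lf 3761394 0 0) (P.cons (P.lf 0 1927782 0) (P.cons (P.lf 0 57345 0) P.nil)))) (P.cons (P.cons (P.lf 4439337 0 0) (P.cons (P.lf 889521 0 0) (P.cons (P.lf 0 286305 0) P.nil))) (P.cons (P.cons (P.lf 0 2822505 0) (P.cons (P.lf 0 569742 0) P.nil)) (P.cons (P.cons (P.lf 188445 0 0) P.nil) P.nil)))))) 751482)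
 EL.nil)))
noncomputable def S430_488_364_512_27 : EL := (EL.cons 13 (TM.mk (P.lf 0 4294967296 0) 0)
 EL.nil)
noncomputable def S430_488_364_512_28 : EL := (EL.cons 13 (TM.mk (P.cons (P.cons (P.lf 0 2779828544 0) (P.cons (P.lf 1501440 0 0) (P.cons (P.lf 100380 0 0) (P.lf 0 33460 0)))) (P.cons (P.cons (P.lf 0 235064616 0) (P.cons (P.lf 0 5293180 0) (P.cons (P.lf 0 353888 0) (P.lf 117960 0 0)))) (P.cons (P.cons (P.lf 144736948 0 0) (P.cons (P.lf 6507680 0 0) (P.cons (P.lf 435088 0 0) (P.lf 0 145028 0)))) (P.cons (P.cons (P.lf 0 7857883 0) (P.cons (P.lf 0 3100784 0) (P.cons (P.lf 0 207308 0) P.nil))) (P.cons (P.cons (P.lf 0 2368130 0) (P.cons (P.lf 384548 0 0) P.nil)) (P.cons (P.cons (P.lf 511587 0 0) P.nil) P.nil)))))) 279495)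
 EL.nil)
noncomputable def S430_488_364_512_29 : EL := (EL.cons 13 (TM.mk (P.cons (P.cons (P.lf 0 1799186396 0) (P.cons (P.lf 1943551 0 0) (P.cons (P.lf 129412 0 0) (P.cons (P.lf 0 43382 0) (P.cons (P.lf 21 0 0) (P.cons (P.lf 1 0 0) P.nil)))))) (P.cons (P.cons (P.lf 0 304281399 0) (P.cons (P.lf 0 6687453 0) (P.cons (P.lf 0 443404 0) (P.cons (P.lf 149526 0 0) (P.cons (P.lf 0 148 0) P.nil))))) (P.cons (P.cons (P.lf 174490833 0 0) (P.cons (P.lf 7743333 0 0) (P.cons (P.lf 506627 0 0) (P.cons (P.lf 0 174046 0) P.nil)))) (P.cons (P.cons (P.lf 5671273 0 0) (P.cons (P.lf 0 2939256 0) (P.cons (P.lf 0 178299 0) P.nil))) (P.cons (P.cons (P.lf 0 8803092 0) (P.cons (P.lf 0 297951 0) P.nil)) (P.cons (P.cons (P.lf 932620 0 0) P.nil) P.nil)))))) 1173765)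
 EL.nil)
noncomputable def S430_488_364_512_30 : EL := (EL.cons 13 (TM.mk (P.cons (P.lf 0 3813859108 0) (P.cons (P.lf 0 65283060 0) (P.cons (P.lf 42462532 0 0) (P.cons (P.lf 0 4752892 0) (P.cons (P.lf 216252 0 0) (P.cons (P.lf 15496 0 0) P.nil)))))) 21988)
 EL.nil)
noncomputable def S430_488_364_512_31 : EL := (EL.cons 13 (TM.mk (P.cons (P.cons (P.lf 0 2468441243 0) (P.cons (P.lf 1333253 0 0) (P.cons (P.lf 89135 0 0) (P.lf 0 29711 0)))) (P.cons (P.cons (P.lf 0 250986553 0) (P.cons (P.lf 0 4677433 0) (P.cons (P.lf 0 312720 0) (P.lf 104237 0 0)))) (P.cons (P.cons (P.lf 152434024 0 0) (P.cons (P.lf 5683411 0 0) (P.cons (P.lf 379979 0 0) (P.lf 0 126658 0)))) (P.cons (P.cons (P.lf 0 5529907 0) (P.cons (P.lf 0 2600535 0) (P.cons (P.lf 0 173862 0) P.nil))) (P.cons (P.cons (P.lf 0 3773414 0) (P.cons (P.lf 224068 0 0) P.nil)) (P.cons (P.cons (P.lf 678006 0 0) P.nil) P.nil))))))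 397237)
 EL.nil)
noncomputable def S430_488_364_512_32 : EL := (EL.cons 13 (TM.mk (P.cons (P.cons (P.lf 0 1597647420 0) (P.cons (P.lf 1725840 0 0) (P.cons (P.lf 114915 0 0) (P.cons (P.lf 0 38522 0) (P.cons (P.lf 18 0 0) (P.cons (P.lf 0 0 0) P.nil)))))) (P.cons (P.cons (P.lf 0 297544239 0) (P.cons (P.lf 0 5908804 0) (P.cons (P.lf 0 391768 0) (P.cons (P.lf 132117 0 0) (P.cons (P.lf 0 131 0) P.nil))))) (P.cons (P.cons (P.lf 168107692 0 0) (P.cons (P.lf 6755086 0 0) (P.cons (P.lf 441857 0 0) (P.cons (P.lf 0 151848 0) P.nil)))) (P.cons (P.cons (P.lf 8705526 0 0) (P.cons (P.lf 0 2424045 0) (P.cons (P.lf 0 146098 0) P.nil))) (P.cons (P.cons (P.lf 0 9702047 0) (P.cons (P.lf 0 393305 0) P.nil)) (P.cons (P.cons (P.lf 853182 0 0) P.nil) P.nil)))))) 1290509)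
 EL.nil)
noncomputable def S430_488_364_512_33 : EL := (EL.cons 14 (TM.mk (P.lf 8589934592 0 0) 0)
 EL.nil)
noncomputable def S430_488_364_512_34 : EL := (EL.cons 14 (TM.mk (P.cons (P.cons (P.lf 5559657088 0 0) (P.cons (P.lf 0 3002880 0) (P.cons (P.lf 0 200760 0) (P.lf 66920 0 0)))) (P.cons (P.cons (P.lf 470129232 0 0) (P.cons (P.lf 10586360 0 0) (P.cons (P.lf 707776 0 0) (P.lf 0 235920 0)))) (P.cons (P.cons (P.lf 0 289473896 0) (P.cons (P.lf 0 13015360 0) (P.cons (P.lf 0 870176 0) (P.lf 290056 0 0)))) (P.cons (P.cons (P.lf 15715766 0 0) (P.cons (P.lf 6201568 0 0) (P.cons (P.lf 414616 0 0) P.nil))) (P.cons (P.cons (P.lf 4736260 0 0) (P.cons (P.lf 0 769096 0) P.nil)) (P.cons (P.cons (P.lf 0 1023174 0) P.nil) P.nil)))))) 558990)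
 EL.nil)
noncomputable def S430_488_364_512_35 : EL := (EL.cons 14 (TM.mk (P.cons (P.cons (P.lf 3598372792 0 0) (P.cons (P.lf 0 3887102 0) (P.cons (P.lf 0 258824 0) (P.cons (P.lf 86764 0 0) (P.cons (P.lf 0 42 0) (P.cons (P.lf 0 2 0) P.nil)))))) (P.cons (P.cons (P.lf 608562798 0 0) (P.cons (P.lf 13374906 0 0) (P.cons (P.lf 886808 0 0) (P.cons (P.lf 0 299052 0) (P.cons (P.lf 296 0 0) P.nil))))) (P.cons (P.cons (P.lf 0 348981666 0) (P.cons (P.lf 0 15486666 0) (P.cons (P.lf 0 1013254 0) (P.cons (P.lf 348092 0 0) P.nil)))) (P.cons (P.cons (P.lf 0 11342546 0) (P.cons (P.lf 5878512 0 0) (P.cons (P.lf 356598 0 0) P.nil))) (P.cons (P.cons (P.lf 17606184 0 0) (P.cons (P.lf 595902 0 0) P.nil)) (P.cons (P.cons (P.lf 0 1865240 0) P.nil) P.nil)))))) 2347530)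
 EL.nil)
noncomputable def S430_488_364_512_36 : EL := (EL.cons 14 (TM.mk (P.cons (P.lf 7627718216 0 0) (P.cons (P.lf 130566120 0 0) (P.cons (P.lf 0 84925064 0) (P.cons (P.lf 9505784 0 0) (P.cons (P.lf 0 432504 0) (P.cons (P.lf 0 30992 0) P.nil)))))) 43976)
 EL.nil)
noncomputable def S430_488_364_512_37 : EL := (EL.cons 14 (TM.mk (P.cons (P.cons (P.lf 4936882486 0 0) (P.cons (P.lf 0 2666506 0) (P.cons (P.lf 0 178270 0) (P.lf 59422 0 0)))) (P.cons (P.cons (P.lf 501973106 0 0) (P.cons (P.lf 9354866 0 0) (P.cons (P.lf 625440 0 0) (P.lf 0 208474 0)))) (P.cons (P.cons (P.lf 0 304868048 0) (P.cons (P.lf 0 11366822 0) (P.cons (P.lf 0 759958 0) (P.lf 253316 0 0)))) (P.cons (P.cons (P.lf 11059814 0 0) (P.cons (P.lf 5201070 0 0) (P.cons (P.lf 347724 0 0) P.nil))) (P.cons (P.cons (P.lf 7546828 0 0) (P.cons (P.lf 0 448136 0) P.nil)) (P.cons (P.cons (P.lf 0 1356012 0) P.nil)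 P.nil)))))) 794474)
 EL.nil)
noncomputable def S430_488_364_512_38 : EL := (EL.cons 14 (TM.mk (P.cons (P.cons (P.lf 3195294840 0 0) (P.cons (P.lf 0 3451680 0) (P.cons (P.lf 0 229830 0) (P.cons (P.lf 77044 0 0) (P.cons (P.lf 0 36 0) (P.cons (P.lf 0 0 0) P.nil)))))) (P.cons (P.cons (P.lf 595088478 0 0) (P.cons (P.lf 11817608 0 0) (P.cons (P.lf 783536 0 0) (P.cons (P.lf 0 264234 0) (P.cons (P.lf 262 0 0) P.nil))))) (P.cons (P.cons (P.lf 0 336215384 0) (P.cons (P.lf 0 13510172 0) (P.cons (P.lf 0 883714 0) (P.cons (P.lf 303696 0 0) P.nil)))) (P.cons (P.cons (P.lf 0 17411052 0) (P.cons (P.lf 4848090 0 0) (P.cons (P.lf 292196 0 0) P.nil))) (P.cons (P.cons (P.lf 19404094 0 0) (P.cons (P.lf 786610 0 0) P.nil)) (P.cons (P.cons (P.lf 0 1706364 0) P.nil) P.nil)))))) 2581018)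
 EL.nil)
noncomputable def S430_488_364_512_39 : EL := (EL.cons 14 (TM.mk (P.cons (P.lf 6773286170 0 0) (P.cons (P.lf 231881060 0 0) (P.cons (P.lf 0 148839480 0) (P.cons (P.lf 14300248 0 0) (P.cons (P.lf 360478 0 0) (P.cons (P.lf 0 256148 0) P.nil)))))) 102098)
 EL.nil)
noncomputable def S430_488_364_512_40 : EL := (EL.cons 14 (TM.mk (P.cons (P.cons (P.lf 4383869056 0 0) (P.cons (P.lf 0 2367812 0) (P.cons (P.lf 0 158302 0) (P.lf 52766 0 0)))) (P.cons (P.cons (P.lf 520783826 0 0) (P.cons (P.lf 8266434 0 0) (P.cons (P.lf 552672 0 0) (P.lf 0 184218 0)))) (P.cons (P.cons (P.lf 0 311896662 0) (P.cons (P.lf 0 9924992 0) (P.cons (P.lf 0 663560 0) (P.lf 221184 0 0)))) (P.cons (P.cons (P.lf 5687418 0 0) (P.cons (P.lf 4350250 0 0) (P.cons (P.lf 290842 0 0) P.nil))) (P.cons (P.cons (P.lf 10190586 0 0) (P.cons (P.lf 0 196016 0) P.nil)) (P.cons (P.cons (P.lf 0 1579208 0) P.nil)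 P.nil)))))) 973866)
 EL.nil)
noncomputable def S430_488_364_512_41 : EL := (EL.cons 14 (TM.mk (P.cons (P.cons (P.lf 2837368364 0 0) (P.cons (P.lf 0 3065034 0) (P.cons (P.lf 0 204086 0) (P.cons (P.lf 68414 0 0) (P.cons (P.lf 0 32 0) (P.cons (P.lf 0 0 0) P.nil)))))) (P.cons (P.cons (P.lf 576996766 0 0) (P.cons (P.lf 10441374 0 0) (P.cons (P.lf 692272 0 0) (P.cons (P.lf 0 233464 0) (P.cons (P.lf 232 0 0) P.nil))))) (P.cons (P.cons (P.lf 0 321098886 0) (P.cons (P.lf 0 11783054 0) (P.cons (P.lf 0 770540 0) (P.cons (P.lf 264898 0 0) P.nil)))) (P.cons (P.cons (P.lf 0 22918578 0) (P.cons (P.lf 3979014 0 0) (P.cons (P.lf 238032 0 0) P.nil))) (P.cons (P.cons (P.lf 20787536 0 0) (P.cons (P.lf 919008 0 0) P.nil)) (P.cons (P.cons (P.lf 0 1461700 0) P.nil) P.nil)))))) 2725402)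
 EL.nil)
noncomputable def S430_488_364_512_42 : EL := (EL.cons 14 (TM.mk (P.cons (P.lf 6014564808 0 0) (P.cons (P.lf 308859752 0 0) (P.cons (P.lf 0 195607026 0) (P.cons (P.lf 15638972 0 0) (P.cons (P.lf 1924542 0 0) (P.cons (P.lf 0 564176 0) P.nil)))))) 166226)
 EL.nil)
noncomputable def S430_488_364_512_43 : EL := (EL.cons 14 (TM.mk (P.cons (P.cons (P.lf 3892802384 0 0) (P.cons (P.lf 0 2102578 0) (P.cons (P.lf 0 140568 0) (P.lf 46856 0 0)))) (P.cons (P.cons (P.lf 529081682 0 0) (P.cons (P.lf 7304464 0 0) (P.cons (P.lf 488356 0 0) (P.lf 0 162782 0)))) (P.cons (P.cons (P.lf 0 312384624 0) (P.cons (P.lf 0 8664168 0) (P.cons (P.lf 0 579264 0) (P.lf 193086 0 0)))) (P.cons (P.cons (P.lf 12036 0 0) (P.cons (P.lf 3627742 0 0) (P.cons (P.lf 242538 0 0) P.nil))) (P.cons (P.cons (P.lf 12574690 0 0) (P.cons (P.lf 0 544 0) P.nil)) (P.cons (P.cons (P.lf 0 1690832 0) P.nil)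 P.nil)))))) 1180780)
 EL.nil)
noncomputable def S430_488_364_512_44 : EL := (EL.cons 14 (TM.mk (P.cons (P.cons (P.lf 2519535640 0 0) (P.cons (P.lf 0 2721700 0) (P.cons (P.lf 0 181224 0) (P.cons (P.lf 60750 0 0) (P.cons (P.lf 0 28 0) (P.cons (P.lf 0 0 0) P.nil)))))) (P.cons (P.cons (P.lf 555491180 0 0) (P.cons (P.lf 9225176 0 0) (P.cons (P.lf 611624 0 0) (P.cons (P.lf 0 206272 0) (P.cons (P.lf 204 0 0) P.nil))))) (P.cons (P.cons (P.lf 0 304412014 0) (P.cons (P.lf 0 10274144 0) (P.cons (P.lf 0 671686 0) (P.cons (P.lf 231000 0 0) P.nil)))) (P.cons (P.cons (P.lf 0 27796622 0) (P.cons (P.lf 3247576 0 0) (P.cons (P.lf 192586 0 0) P.nil))) (P.cons (P.cons (P.lf 21780848 0 0) (P.cons (P.lf 1004746 0 0) P.nil)) (P.cons (P.cons (P.lf 0 1150032 0) P.nil) P.nil)))))) 2889778)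
 EL.nil)
noncomputable def S430_488_364_512_45 : EL := (EL.cons 14 (TM.mk (P.cons (P.cons (P.lf 2328972192 0 0) (P.cons (P.lf 0 3773768 0) (P.cons (P.lf 0 250258 0) (P.cons (P.lf 84370 0 0) (P.cons (P.lf 0 80 0) (P.cons (P.lf 0 4 0) P.nil)))))) (P.cons (P.cons (P.lf 590819482 0 0) (P.cons (P.lf 12665832 0 0) (P.cons (P.lf 832604 0 0) (P.cons (P.lf 0 284154 0) (P.cons (P.lf 568 0 0) P.nil))))) (P.cons (P.cons (P.lf 0 313826628 0) (P.cons (P.lf 0 13740628 0) (P.cons (P.lf 0 876984 0) (P.cons (P.lf 311774 0 0) P.nil)))) (P.cons (P.cons (P.lf 0 40365732 0) (P.cons (P.lf 3748980 0 0) (P.cons (P.lf 184320 0 0) P.nil))) (P.cons (P.cons (P.lf 25632304 0 0) (P.cons (P.lf 1877448 0 0) P.nil)) (P.cons (P.cons (P.lf 0 592962 0) P.nil) P.nil)))))) 4273878)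
 EL.nil)
noncomputable def S430_488_364_512_46 : EL := (EL.cons 15 (TM.mk (P.lf 4294967296 0 0) 0)
 EL.nil)
noncomputable def S430_488_364_512_47 : EL := (EL.cons 15 (TM.mk (P.cons (P.cons (P.lf 2779828544 0 0) (P.cons (P.lf 0 1501440 0) (P.cons (P.lf 0 100380 0) (P.lf 33460 0 0)))) (P.cons (P.cons (P.lf 235064616 0 0) (P.cons (P.lf 5293180 0 0) (P.cons (P.lf 353888 0 0) (P.lf 0 117960 0)))) (P.cons (P.cons (P.lf 0 144736948 0) (P.cons (P.lf 0 6507680 0) (P.cons (P.lf 0 435088 0) (P.lf 145028 0 0)))) (P.cons (P.cons (P.lf 7857883 0 0) (P.cons (P.lf 3100784 0 0) (P.cons (P.lf 207308 0 0) P.nil))) (P.cons (P.cons (P.lf 2368130 0 0) (P.cons (P.lf 0 384548 0) P.nil)) (P.cons (P.cons (P.lf 0 511587 0) P.nil) P.nil)))))) 279495)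
 EL.nil)
noncomputable def S430_488_364_512_48 : EL := (EL.cons 15 (TM.mk (P.cons (P.cons (P.lf 1799186396 0 0) (P.cons (P.lf 0 1943551 0) (P.cons (P.lf 0 129412 0) (P.cons (P.lf 43382 0 0) (P.cons (P.lf 0 21 0) (P.cons (P.lf 0 1 0) P.nil)))))) (P.cons (P.cons (P.lf 304281399 0 0) (P.cons (P.lf 6687453 0 0) (P.cons (P.lf 443404 0 0) (P.cons (P.lf 0 149526 0) (P.cons (P.lf 148 0 0) P.nil))))) (P.cons (P.cons (P.lf 0 174490833 0) (P.cons (P.lf 0 7743333 0) (P.cons (P.lf 0 506627 0) (P.cons (P.lf 174046 0 0) P.nil)))) (P.cons (P.cons (P.lf 0 5671273 0) (P.cons (P.lf 2939256 0 0) (P.cons (P.lf 178299 0 0) P.nil))) (P.cons (P.cons (P.lf 8803092 0 0) (P.cons (P.lf 297951 0 0) P.nil)) (P.cons (P.cons (P.lf 0 932620 0) P.nil) P.nil)))))) 1173765)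
 EL.nil)
noncomputable def S430_488_364_512 : SL := (SL.cons S430_488_364_512_0 (SL.cons S430_488_364_512_1 (SL.cons S430_488_364_512_2 (SL.cons S430_488_364_512_3 (SL.cons S430_488_364_512_4 (SL.cons S430_488_364_512_5 (SL.cons S430_488_364_512_6 (SL.cons S430_488_364_512_7 (SL.cons S430_488_364_512_8 (SL.cons S430_488_364_512_9 (SL.cons S430_488_364_512_10 (SL.cons S430_488_364_512_11 (SL.cons S430_488_364_512_12 (SL.cons S430_488_364_512_13 (SL.cons S430_488_364_512_14 (SL.cons S430_488_364_512_15 (SL.cons S430_488_364_512_16 (SL.cons S430_488_364_512_17 (SL.cons S430_488_364_512_18 (SL.cons S430_488_364_512_19 (SL.cons S430_488_364_512_20 (SL.cons S430_488_364_512_21 (SL.cons S430_488_364_512_22 (SL.cons S430_488_364_512_23 (SL.cons S430_488_364_512_24 (SL.cons S430_488_364_512_25 (SL.cons S430_488_364_512_26 (SL.cons S430_488_364_512_27 (SL.cons S430_488_364_512_28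 (SL.cons S430_488_364_512_29 (SL.cons S430_488_364_512_30 (SL.cons S430_488_364_512_31 (SL.cons S430_488_364_512_32 (SL.cons S430_488_364_512_33 (SL.cons S430_488_364_512_34 (SL.cons S430_488_364_512_35 (SL.cons S430_488_364_512_36 (SL.cons S430_488_364_512_37 (SL.cons S430_488_364_512_38 (SL.cons S430_488_364_512_39 (SL.cons S430_488_364_512_40 (SL.cons S430_488_364_512_41 (SL.cons S430_488_364_512_42 (SL.cons S430_488_364_512_43 (SL.cons S430_488_364_512_44 (SL.cons S430_488_364_512_45 (SL.cons S430_488_364_512_46 (SL.cons S430_488_364_512_47 (SL.cons S430_488_364_512_48 SL.nil)))))))))))))))))))))))))))))))))))))))))))))))))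
theorem S430_459_216_364_ok : band (seq (shp 5 430 459 216 364) S430_459_216_364) (sok S430_459_216_364) = true := by decide +kernel

theorem S430_459_364_512_ok : band (seq (shp 5 430 459 364 512) S430_459_364_512) (sok S430_459_364_512) = true := by decide +kernel

theorem S430_459_512_660_ok : band (seq (shp 5 430 459 512 660) S430_459_512_660) (sok S430_459_512_660) = true := by decide +kernel

theorem S430_459_660_808_ok : band (seq (shp 5 430 459 660 808) S430_459_660_808) (sok S430_459_660_808) = true := by decide +kernel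

theorem S430_488_216_364_ok : band (seq (shp 5 430 488 216 364) S430_488_216_364) (sok S430_488_216_364) = true := by decide +kernel

theorem S430_488_364_512_ok : band (seq (shp 5 430 488 364 512) S430_488_364_512) (sok S430_488_364_512) = true := by decide +kernel

end Vale.Agent.P098.Ck
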