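import Vale.Agent.P098.CkDefs

namespace Vale.Agent.P098.Ck

noncomputable def S82_96_216_364_0 : EL := (EL.cons 0 (TM.mk (P.cons (P.lf 2979739567 0 0) (P.cons (P.lf 140259536 0 0) (P.cons (P.lf 9866258 0 0) (P.cons (P.lf 89908 0 0) (P.cons (P.lf 0 8145 0) (P.cons (P.lf 0 355 0) P.nil)))))) 265)
 (EL.cons 1 (TM.mk (P.cons (P.lf 0 1047743478 0) (P.cons (P.lf 0 116903400 0) (P.cons (P.lf 1636516 0 0) (P.cons (P.lf 212064 0 0) (P.cons (P.lf 5199 0 0) (P.cons (P.lf 0 33 0) P.nil)))))) 125)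
 (EL.cons 5 (TM.mk (P.cons (P.lf 6241981452 0 0) (P.cons (P.lf 0 49870058 0) (P.cons (P.lf 0 3508000 0) (P.cons (P.lf 0 31970 0) (P.cons (P.lf 2894 0 0) (P.cons (P.lf 126 0 0) P.nil)))))) 55)
 (EL.cons 9 (TM.mk (P.lf 6442450944 0 0) 2)
 EL.nil))))
noncomputable def S82_96_216_364_1 : EL := (EL.cons 0 (TM.mk (P.cons (P.cons (P.lf 0 3349473742 0) (P.cons (P.lf 36255204 0 0) (P.cons (P.lf 15633646 0 0) (P.lf 0 1737049 0)))) (P.cons (P.cons (P.lf 0 358889499 0) (P.cons (P.lf 12016081 0 0) (P.cons (P.lf 5181462 0 0) (P.lf 0 575711 0)))) (P.cons (P.cons (P.lf 0 5638174 0) (P.cons (P.lf 1122204 0 0) (P.cons (P.lf 483896 0 0) (P.lf 0 53747 0)))) (P.cons (P.cons (P.lf 2736767 0 0) (P.cons (P.lf 0 23336 0) (P.cons (P.lf 0 10068 0) P.nil))) (P.cons (P.cons (P.lf 159693 0 0) (P.cons (P.lf 0 9033 0) P.nil)) (P.cons (P.cons (P.lf 0 791 0) P.nil) P.nil)))))) 28880)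
 (EL.cons 1 (TM.mk (P.cons (P.cons (P.lf 2067458790 0 0) (P.cons (P.lf 0 34088785 0) (P.cons (P.lf 0 14699472 0) (P.lf 1633280 0 0)))) (P.cons (P.cons (P.lf 99749404 0 0) (P.cons (P.lf 0 5232888 0) (P.cons (P.lf 0 2256482 0) (P.lf 250724 0 0)))) (P.cons (P.cons (P.lf 0 28915195 0) (P.cons (P.lf 406503 0 0) (P.cons (P.lf 175289 0 0) (P.lf 0 19474 0)))) (P.cons (P.cons (P.lf 0 1481244 0) (P.cons (P.lf 97158 0 0) (P.cons (P.lf 41890 0 0) P.nil))) (P.cons (P.cons (P.lf 49095 0 0) (P.cons (P.lf 3285 0 0) P.nil)) (P.cons (P.cons (P.lf 5880 0 0) P.nil) P.nil)))))) 11233)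
 (EL.cons 5 (TM.mk (P.cons (P.cons (P.lf 0 2492110119 0) (P.cons (P.lf 0 32574830 0) (P.cons (P.lf 0 14046630 0) (P.lf 1560730 0 0)))) (P.cons (P.cons (P.lf 433828718 0 0) (P.cons (P.lf 0 11617496 0) (P.cons (P.lf 0 5009594 0) (P.lf 556622 0 0)))) (P.cons (P.cons (P.lf 23634602 0 0) (P.cons (P.lf 0 1372488 0) (P.cons (P.lf 0 591828 0) (P.lf 65752 0 0)))) (P.cons (P.cons (P.lf 0 883800 0) (P.cons (P.lf 0 41740 0) (P.cons (P.lf 0 17992 0) P.nil))) (P.cons (P.cons (P.lf 0 89531 0) (P.cons (P.lf 3022 0 0) P.nil)) (P.cons (P.cons (P.lf 0 1010 0) P.nil) P.nil)))))) 8730)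
 (EL.cons 9 (TM.mk (P.cons (P.cons (P.lf 0 3249735975 0) (P.cons (P.lf 0 17368314 0) (P.cons (P.lf 0 7489410 0) (P.lf 832152 0 0)))) (P.cons (P.cons (P.lf 270197256 0 0) (P.cons (P.lf 0 6480972 0) (P.cons (P.lf 0 2794668 0) (P.lf 310518 0 0)))) (P.cons (P.cons (P.lf 19085220 0 0) (P.cons (P.lf 0 858948 0) (P.cons (P.lf 0 370386 0) (P.lf 41148 0 0)))) (P.cons (P.cons (P.lf 78762 0 0) (P.cons (P.lf 0 44142 0) (P.cons (P.lf 0 19032 0) P.nil))) (P.cons (P.cons (P.lf 0 28903 0) (P.cons (P.lf 0 162 0) P.nil)) (P.cons (P.cons (P.lf 0 1126 0) P.nil) P.nil)))))) 3476)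
 (EL.cons 2 (TM.mk (P.cons (P.cons (P.lf 94837190 0 0) (P.cons (P.lf 88349619 0 0) (P.cons (P.lf 0 9067542 0) (P.cons (P.lf 0 1885795 0) (P.lf 157145 0 0))))) (P.cons (P.cons (P.lf 22377737 0 0) (P.cons (P.lf 20846930 0 0) (P.cons (P.lf 0 2139572 0) (P.cons (P.lf 0 444968 0) (P.lf 37080 0 0))))) (P.cons (P.cons (P.lf 1264190 0 0) (P.cons (P.lf 1177711 0 0) (P.cons (P.lf 0 120870 0) (P.cons (P.lf 0 25135 0) P.nil)))) (P.cons (P.cons (P.lf 0 31289 0) (P.cons (P.lf 0 29148 0) (P.cons (P.lf 2992 0 0) P.nil))) (P.cons (P.cons (P.lf 0 3681 0) (P.cons (P.lf 0 3431 0) P.nil)) (P.cons (P.cons (P.lf 0 87 0) P.nil) P.nil)))))) 5511)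
 (EL.cons 6 (TM.mk (P.cons (P.cons (P.lf 18145626 0 0) (P.cons (P.lf 16904331 0 0) (P.cons (P.lf 0 1734933 0) (P.cons (P.lf 0 360816 0) (P.lf 30066 0 0))))) (P.cons (P.cons (P.lf 6771030 0 0) (P.cons (P.lf 6307842 0 0) (P.cons (P.lf 0 647388 0) (P.cons (P.lf 0 134637 0) (P.lf 11217 0 0))))) (P.cons (P.cons (P.lf 897393 0 0) (P.cons (P.lf 836004 0 0) (P.cons (P.lf 0 85800 0) (P.cons (P.lf 0 17841 0) P.nil)))) (P.cons (P.cons (P.lf 46122 0 0) (P.cons (P.lf 42966 0 0) (P.cons (P.lf 0 4407 0) P.nil))) (P.cons (P.cons (P.lf 174 0 0) (P.cons (P.lf 162 0 0) P.nil)) (P.cons (P.cons (P.lf 0 63 0) P.nil) P.nil)))))) 2826)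
 EL.nil))))))
noncomputable def S82_96_216_364_2 : EL := (EL.cons 0 (TM.mk (P.cons (P.cons (P.lf 2620939512 0 0) (P.cons (P.lf 0 26620514 0) (P.cons (P.lf 0 11696193 0) (P.cons (P.lf 1088171 0 0) (P.cons (P.lf 0 19557 0) (P.cons (P.lf 8970 0 0) P.nil)))))) (P.cons (P.cons (P.lf 171499640 0 0) (P.cons (P.lf 0 3139004 0) (P.cons (P.lf 0 1508482 0) (P.cons (P.lf 16784 0 0) (P.cons (P.lf 0 13954 0) P.nil))))) (P.cons (P.cons (P.lf 0 37172517 0) (P.cons (P.lf 1496965 0 0) (P.cons (P.lf 599623 0 0) (P.cons (P.lf 0 111299 0) P.nil)))) (P.cons (P.cons (P.lf 0 5578809 0) (P.cons (P.lf 345800 0 0) (P.cons (P.lf 142068 0 0) P.nil))) (P.cons (P.cons (P.lf 0 1481 0) (P.cons (P.lf 19046 0 0) P.nil)) (P.cons (P.cons (P.lf 30552 0 0) P.nil) P.nil)))))) 147768)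
 (EL.cons 1 (TM.mk (P.cons (P.cons (P.lf 0 1819164417 0) (P.cons (P.lf 26092732 0 0) (P.cons (P.lf 11442897 0 0) (P.cons (P.lf 0 1085089 0) (P.cons (P.lf 17248 0 0) (P.cons (P.lf 0 7908 0) P.nil)))))) (P.cons (P.cons (P.lf 58200779 0 0) (P.cons (P.lf 0 1133287 0) (P.cons (P.lf 0 385355 0) (P.cons (P.lf 143406 0 0) (P.cons (P.lf 9315 0 0) P.nil))))) (P.cons (P.cons (P.lf 43136355 0 0) (P.cons (P.lf 0 1523554 0) (P.cons (P.lf 0 637110 0) (P.cons (P.lf 90119 0 0) P.nil)))) (P.cons (P.cons (P.lf 0 170542 0) (P.cons (P.lf 0 93196 0) (P.cons (P.lf 0 39155 0) P.nil))) (P.cons (P.cons (P.lf 0 308925 0) (P.cons (P.lf 13522 0 0) P.nil)) (P.cons (P.cons (P.lf 0 11268 0) P.nil) P.nil)))))) 63479)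
 (EL.cons 5 (TM.mk (P.cons (P.cons (P.lf 925926402 0 0) (P.cons (P.lf 29323377 0 0) (P.cons (P.lf 12774834 0 0) (P.cons (P.lf 0 1292597 0) (P.cons (P.lf 11733 0 0) (P.cons (P.lf 0 5379 0) P.nil)))))) (P.cons (P.cons (P.lf 0 369911542 0) (P.cons (P.lf 6875097 0 0) (P.cons (P.lf 3059297 0 0) (P.cons (P.lf 0 247737 0) (P.cons (P.lf 8526 0 0) P.nil))))) (P.cons (P.cons (P.lf 4238586 0 0) (P.cons (P.lf 0 282882 0) (P.cons (P.lf 0 93031 0) (P.cons (P.lf 38516 0 0) P.nil)))) (P.cons (P.cons (P.lf 3707828 0 0) (P.cons (P.lf 0 198119 0) (P.cons (P.lf 0 80693 0) P.nil))) (P.cons (P.cons (P.lf 105130 0 0) (P.cons (P.lf 0 16541 0) P.nil)) (P.cons (P.cons (P.lf 0 11770 0) P.nil) P.nil)))))) 52226)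
 (EL.cons 9 (TM.mk (P.cons (P.cons (P.lf 1639249408 0 0) (P.cons (P.lf 17522037 0 0) (P.cons (P.lf 7602520 0 0) (P.cons (P.lf 0 799135 0) (P.cons (P.lf 4219 0 0) (P.cons (P.lf 0 1933 0) P.nil)))))) (P.cons (P.cons (P.lf 0 272588724 0) (P.cons (P.lf 5081475 0 0) (P.cons (P.lf 2226133 0 0) (P.cons (P.lf 0 213327 0) (P.cons (P.lf 3148 0 0) P.nil))))) (P.cons (P.cons (P.lf 0 7922029 0) (P.cons (P.lf 220020 0 0) (P.cons (P.lf 106023 0 0) (P.cons (P.lf 0 918 0) P.nil)))) (P.cons (P.cons (P.lf 1521414 0 0) (P.cons (P.lf 0 66339 0) (P.cons (P.lf 0 26641 0) P.nil))) (P.cons (P.cons (P.lf 92304 0 0) (P.cons (P.lf 0 8629 0) P.nil)) (P.cons (P.cons (P.lf 0 820 0) P.nil) P.nil)))))) 22240)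
 (EL.cons 2 (TM.mk (P.cons (P.cons (P.lf 0 95676575 0) (P.cons (P.lf 0 89642930 0) (P.cons (P.lf 8450932 0 0) (P.cons (P.lf 1770457 0 0) (P.cons (P.lf 0 104461 0) (P.cons (P.lf 1192 0 0) P.nil)))))) (P.cons (P.cons (P.lf 0 14620826 0) (P.cons (P.lf 0 13932118 0) (P.cons (P.lf 973451 0 0) (P.cons (P.lf 210307 0 0) (P.cons (P.lf 8707 0 0) P.nil))))) (P.cons (P.cons (P.lf 1163559 0 0) (P.cons (P.lf 1006835 0 0) (P.cons (P.lf 0 216360 0) (P.cons (P.lf 0 43048 0) P.nil)))) (P.cons (P.cons (P.lf 272508 0 0) (P.cons (P.lf 244226 0 0) (P.cons (P.lf 0 39195 0) P.nil))) (P.cons (P.cons (P.lf 8274 0 0) (P.cons (P.lf 7143 0 0) P.nil)) (P.cons (P.cons (P.lf 0 607 0) P.nil) P.nil)))))) 41388)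
 (EL.cons 6 (TM.mk (P.cons (P.cons (P.lf 0 18306228 0) (P.cons (P.lf 0 17151786 0) (P.cons (P.lf 1616952 0 0) (P.cons (P.lf 338748 0 0) (P.cons (P.lf 0 19986 0) (P.cons (P.lf 228 0 0) P.nil)))))) (P.cons (P.cons (P.lf 0 5308896 0) (P.cons (P.lf 0 5018748 0) (P.cons (P.lf 408084 0 0) (P.cons (P.lf 86706 0 0) (P.cons (P.lf 0 1074 0) P.nil))))) (P.cons (P.cons (P.lf 0 229866 0) (P.cons (P.lf 0 237444 0) (P.cons (P.lf 0 9774 0) (P.cons (P.lf 0 1440 0) P.nil)))) (P.cons (P.cons (P.lf 69300 0 0) (P.cons (P.lf 60450 0 0) (P.cons (P.lf 0 12222 0) P.nil))) (P.cons (P.cons (P.lf 9006 0 0) (P.cons (P.lf 7968 0 0) P.nil)) (P.cons (P.cons (P.lf 306 0 0) P.nil) P.nil)))))) 11568)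
 EL.nil))))))
noncomputable def S82_96_216_364_3 : EL := (EL.cons 0 (TM.mk (P.cons (P.lf 5475977296 0 0) (P.cons (P.lf 0 140259536 0) (P.cons (P.lf 0 9866258 0) (P.cons (P.lf 0 89908 0) (P.cons (P.lf 8145 0 0) (P.cons (P.lf 355 0 0) P.nil)))))) 265)
 (EL.cons 1 (TM.mk (P.cons (P.lf 1047743478 0 0) (P.cons (P.lf 116903400 0 0) (P.cons (P.lf 0 1636516 0) (P.cons (P.lf 0 212064 0) (P.cons (P.lf 0 5199 0) (P.cons (P.lf 33 0 0) P.nil)))))) 125)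
 (EL.cons 5 (TM.mk (P.cons (P.lf 200469492 0 0) (P.cons (P.lf 49870058 0 0) (P.cons (P.lf 3508000 0 0) (P.cons (P.lf 31970 0 0) (P.cons (P.lf 0 2894 0) (P.cons (P.lf 0 126 0) P.nil)))))) 48)
 EL.nil)))
noncomputable def S82_96_216_364_4 : EL := (EL.cons 0 (TM.mk (P.cons (P.cons (P.lf 0 2762222106 0) (P.cons (P.lf 0 14762780 0) (P.cons (P.lf 0 6365874 0) (P.lf 707313 0 0)))) (P.cons (P.cons (P.lf 300413694 0 0) (P.cons (P.lf 0 5130590 0) (P.cons (P.lf 0 2212368 0) (P.lf 245817 0 0)))) (P.cons (P.cons (P.lf 15316409 0 0) (P.cons (P.lf 0 562394 0) (P.cons (P.lf 0 242507 0) (P.lf 26940 0 0)))) (P.cons (P.cons (P.lf 0 716999 0) (P.cons (P.lf 0 8651 0) (P.cons (P.lf 0 3728 0) P.nil))) (P.cons (P.cons (P.lf 0 63388 0) (P.cons (P.lf 2206 0 0) P.nil)) (P.cons (P.cons (P.lf 0 551 0) P.nil) P.nil)))))) 5942)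
 (EL.cons 1 (TM.mk (P.cons (P.cons (P.lf 0 528508436 0) (P.cons (P.lf 0 2824629 0) (P.cons (P.lf 0 1218011 0) (P.lf 135331 0 0)))) (P.cons (P.cons (P.lf 0 15026544 0) (P.cons (P.lf 0 1369168 0) (P.cons (P.lf 0 590400 0) (P.lf 65598 0 0)))) (P.cons (P.cons (P.lf 8832296 0 0) (P.cons (P.lf 0 252881 0) (P.cons (P.lf 0 109044 0) (P.lf 12114 0 0)))) (P.cons (P.cons (P.lf 397460 0 0) (P.cons (P.lf 0 20546 0) (P.cons (P.lf 0 8859 0) P.nil))) (P.cons (P.cons (P.lf 0 14390 0) (P.cons (P.lf 0 380 0) P.nil)) (P.cons (P.cons (P.lf 0 1590 0) P.nil) P.nil)))))) 2267)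
 (EL.cons 5 (TM.mk (P.cons (P.cons (P.lf 0 101121906 0) (P.cons (P.lf 0 540448 0) (P.cons (P.lf 0 233046 0) (P.lf 25892 0 0)))) (P.cons (P.cons (P.lf 0 16748006 0) (P.cons (P.lf 0 336112 0) (P.cons (P.lf 0 144934 0) (P.lf 16102 0 0)))) (P.cons (P.cons (P.lf 915904 0 0) (P.cons (P.lf 0 86352 0) (P.cons (P.lf 0 37236 0) (P.lf 4136 0 0)))) (P.cons (P.cons (P.lf 281184 0 0) (P.cons (P.lf 0 11636 0) (P.cons (P.lf 0 5018 0) P.nil))) (P.cons (P.cons (P.lf 12904 0 0) (P.cons (P.lf 0 838 0) P.nil)) (P.cons (P.cons (P.lf 0 176 0) P.nil) P.nil)))))) 1192)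
 EL.nil)))
noncomputable def S82_96_216_364_5 : EL := (EL.cons 0 (TM.mk (P.cons (P.cons (P.lf 1393335024 0 0) (P.cons (P.lf 14893442 0 0) (P.cons (P.lf 6462015 0 0) (P.cons (P.lf 0 679250 0) (P.cons (P.lf 3585 0 0) (P.cons (P.lf 0 1641 0) P.nil)))))) (P.cons (P.cons (P.lf 0 267384266 0) (P.cons (P.lf 3937695 0 0) (P.cons (P.lf 1726660 0 0) (P.cons (P.lf 0 163924 0) (P.cons (P.lf 2583 0 0) P.nil))))) (P.cons (P.cons (P.lf 0 3309445 0) (P.cons (P.lf 49549 0 0) (P.cons (P.lf 30009 0 0) (P.cons (P.lf 5087 0 0) P.nil)))) (P.cons (P.cons (P.lf 1860226 0 0) (P.cons (P.lf 0 69203 0) (P.cons (P.lf 0 28467 0) P.nil))) (P.cons (P.cons (P.lf 63342 0 0) (P.cons (P.lf 0 6275 0) P.nil)) (P.cons (P.cons (P.lf 0 5180 0) P.nil) P.nil)))))) 21384)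
 (EL.cons 1 (TM.mk (P.cons (P.cons (P.lf 266593085 0 0) (P.cons (P.lf 2849628 0 0) (P.cons (P.lf 1236406 0 0) (P.cons (P.lf 0 129963 0) (P.cons (P.lf 684 0 0) (P.cons (P.lf 0 313 0) P.nil)))))) (P.cons (P.cons (P.lf 0 14585941 0) (P.cons (P.lf 1144355 0 0) (P.cons (P.lf 499991 0 0) (P.cons (P.lf 0 49194 0) (P.cons (P.lf 586 0 0) P.nil))))) (P.cons (P.cons (P.lf 0 6651110 0) (P.cons (P.lf 123538 0 0) (P.cons (P.lf 55706 0 0) (P.cons (P.lf 0 3817 0) P.nil)))) (P.cons (P.cons (P.lf 118961 0 0) (P.cons (P.lf 0 8662 0) (P.cons (P.lf 0 3223 0) P.nil))) (P.cons (P.cons (P.lf 52280 0 0) (P.cons (P.lf 0 2844 0) P.nil)) (P.cons (P.cons (P.lf 1644 0 0) P.nil) P.nil)))))) 5564)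
 (EL.cons 5 (TM.mk (P.cons (P.cons (P.lf 51008458 0 0) (P.cons (P.lf 545232 0 0) (P.cons (P.lf 236566 0 0) (P.cons (P.lf 0 24866 0) (P.cons (P.lf 130 0 0) (P.cons (P.lf 0 58 0) P.nil)))))) (P.cons (P.cons (P.lf 4207054 0 0) (P.cons (P.lf 293754 0 0) (P.cons (P.lf 128120 0 0) (P.cons (P.lf 0 12822 0) (P.cons (P.lf 130 0 0) P.nil))))) (P.cons (P.cons (P.lf 0 1463984 0) (P.cons (P.lf 55722 0 0) (P.cons (P.lf 24670 0 0) (P.cons (P.lf 0 2114 0) P.nil)))) (P.cons (P.cons (P.lf 0 154274 0) (P.cons (P.lf 2492 0 0) (P.cons (P.lf 1240 0 0) P.nil))) (P.cons (P.cons (P.lf 8246 0 0) (P.cons (P.lf 0 644 0) P.nil)) (P.cons (P.cons (P.lf 1566 0 0) P.nil) P.nil)))))) 1486)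
 EL.nil)))
noncomputable def S82_96_216_364_6 : EL := (EL.cons 12 (TM.mk (P.lf 8589934592 0 0) 0)
 (EL.cons 3 (TM.mk (P.cons (P.lf 0 3429223192 0) (P.cons (P.lf 43917390 0 0) (P.cons (P.lf 3370496 0 0) (P.cons (P.lf 71317 0 0) (P.cons (P.lf 18 0 0) (P.cons (P.lf 0 41 0) P.nil)))))) 82)
 (EL.cons 7 (TM.mk (P.cons (P.lf 0 656128768 0) (P.cons (P.lf 0 81611371 0) (P.cons (P.lf 0 665236 0) (P.cons (P.lf 30423 0 0) (P.cons (P.lf 1291 0 0) (P.cons (P.lf 18 0 0) P.nil)))))) 46)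
 EL.nil)))
noncomputable def S82_96_216_364_7 : EL := (EL.cons 12 (TM.mk (P.cons (P.cons (P.lf 0 4332981300 0) (P.cons (P.lf 0 23157752 0) (P.cons (P.lf 0 9985880 0) (P.lf 1109536 0 0)))) (P.cons (P.cons (P.lf 360263008 0 0) (P.cons (P.lf 0 8641296 0) (P.cons (P.lf 0 3726224 0) (P.lf 414024 0 0)))) (P.cons (P.cons (P.lf 25446960 0 0) (P.cons (P.lf 0 1145264 0) (P.cons (P.lf 0 493848 0) (P.lf 54864 0 0)))) (P.cons (P.cons (P.lf 105016 0 0) (P.cons (P.lf 0 58856 0) (P.cons (P.lf 0 25376 0) P.nil))) (P.cons (P.cons (P.lf 0 38538 0) (P.cons (P.lf 0 216 0) P.nil)) (P.cons (P.cons (P.lf 0 1502 0) P.nil) P.nil)))))) 4610)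
 (EL.cons 3 (TM.mk (P.cons (P.cons (P.lf 2886069931 0 0) (P.cons (P.lf 0 18489802 0) (P.cons (P.lf 0 7973008 0) (P.lf 885882 0 0)))) (P.cons (P.cons (P.lf 107534996 0 0) (P.cons (P.lf 0 6662658 0) (P.cons (P.lf 0 2873010 0) (P.lf 319222 0 0)))) (P.cons (P.cons (P.lf 4248085 0 0) (P.cons (P.lf 0 807876 0) (P.cons (P.lf 0 348362 0) (P.lf 38700 0 0)))) (P.cons (P.cons (P.lf 0 530981 0) (P.cons (P.lf 0 28114 0) (P.cons (P.lf 0 12120 0) P.nil))) (P.cons (P.cons (P.lf 0 44744 0) (P.cons (P.lf 1470 0 0) P.nil)) (P.cons (P.cons (P.lf 0 783 0) P.nil) P.nil)))))) 11786)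
 (EL.cons 7 (TM.mk (P.cons (P.cons (P.lf 0 1817743597 0) (P.cons (P.lf 53308073 0 0) (P.cons (P.lf 22987043 0 0) (P.lf 0 2554116 0)))) (P.cons (P.cons (P.lf 0 199831519 0) (P.cons (P.lf 12381184 0 0) (P.cons (P.lf 5338906 0 0) (P.lf 0 593212 0)))) (P.cons (P.cons (P.lf 5813243 0 0) (P.cons (P.lf 651998 0 0) (P.cons (P.lf 281149 0 0) (P.lf 0 31238 0)))) (P.cons (P.cons (P.lf 705069 0 0) (P.cons (P.lf 0 22863 0) (P.cons (P.lf 0 9857 0) P.nil))) (P.cons (P.cons (P.lf 7544 0 0) (P.cons (P.lf 0 2079 0) P.nil)) (P.cons (P.cons (P.lf 0 1043 0) P.nil) P.nil)))))) 6552)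
 (EL.cons 10 (TM.mk (P.cons (P.cons (P.lf 0 118779858 0) (P.cons (P.lf 0 110654427 0) (P.cons (P.lf 11356743 0 0) (P.cons (P.lf 2361885 0 0) (P.lf 0 196821 0))))) (P.cons (P.cons (P.lf 0 29548428 0) (P.cons (P.lf 0 27527094 0) (P.cons (P.lf 2825175 0 0) (P.cons (P.lf 587556 0 0) (P.lf 0 48963 0))))) (P.cons (P.cons (P.lf 0 2078517 0) (P.cons (P.lf 0 1936332 0) (P.cons (P.lf 198729 0 0) (P.cons (P.lf 41328 0 0) P.nil)))) (P.cons (P.cons (P.lf 0 18942 0) (P.cons (P.lf 0 17646 0) (P.cons (P.lf 1809 0 0) P.nil))) (P.cons (P.cons (P.lf 1713 0 0) (P.cons (P.lf 1596 0 0) P.nil)) (P.cons (P.cons (P.lf 72 0 0) P.nil) P.nil)))))) 4284)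
 EL.nil))))
noncomputable def S82_96_216_364_8 : EL := (EL.cons 12 (TM.mk (P.cons (P.cons (P.lf 2185665878 0 0) (P.cons (P.lf 23362716 0 0) (P.cons (P.lf 10136694 0 0) (P.cons (P.lf 0 1065514 0) (P.cons (P.lf 5626 0 0) (P.cons (P.lf 0 2578 0) P.nil)))))) (P.cons (P.cons (P.lf 0 363451632 0) (P.cons (P.lf 6775300 0 0) (P.cons (P.lf 2968178 0 0) (P.cons (P.lf 0 284436 0) (P.cons (P.lf 4198 0 0) P.nil))))) (P.cons (P.cons (P.lf 0 10562706 0) (P.cons (P.lf 293360 0 0) (P.cons (P.lf 141364 0 0) (P.cons (P.lf 0 1224 0) P.nil)))) (P.cons (P.cons (P.lf 2028552 0 0) (P.cons (P.lf 0 88452 0) (P.cons (P.lf 0 35522 0) P.nil))) (P.cons (P.cons (P.lf 123072 0 0) (P.cons (P.lf 0 11506 0) P.nil)) (P.cons (P.cons (P.lf 0 1094 0) P.nil) P.nil)))))) 29624)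
 (EL.cons 3 (TM.mk (P.cons (P.cons (P.lf 0 2039065340 0) (P.cons (P.lf 12418967 0 0) (P.cons (P.lf 5479813 0 0) (P.cons (P.lf 0 487538 0) (P.cons (P.lf 11231 0 0) (P.cons (P.lf 0 5146 0) P.nil)))))) (P.cons (P.cons (P.lf 0 22672035 0) (P.cons (P.lf 1369581 0 0) (P.cons (P.lf 681977 0 0) (P.cons (P.lf 13213 0 0) (P.cons (P.lf 8236 0 0) P.nil))))) (P.cons (P.cons (P.lf 18617672 0 0) (P.cons (P.lf 0 788919 0) (P.cons (P.lf 0 311823 0) (P.cons (P.lf 62266 0 0) P.nil)))) (P.cons (P.cons (P.lf 2587995 0 0) (P.cons (P.lf 0 192898 0) (P.cons (P.lf 0 78420 0) P.nil))) (P.cons (P.cons (P.lf 48421 0 0) (P.cons (P.lf 0 14378 0) P.nil)) (P.cons (P.cons (P.lf 0 9740 0) P.nil) P.nil)))))) 73322)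
 (EL.cons 7 (TM.mk (P.cons (P.cons (P.lf 2000780806 0 0) (P.cons (P.lf 0 42194392 0) (P.cons (P.lf 0 18477359 0) (P.cons (P.lf 1777863 0 0) (P.cons (P.lf 0 25467 0) (P.cons (P.lf 11674 0 0) P.nil)))))) (P.cons (P.cons (P.lf 42131289 0 0) (P.cons (P.lf 0 2545101 0) (P.cons (P.lf 0 1267336 0) (P.cons (P.lf 0 24545 0) (P.cons (P.lf 0 15302 0) P.nil))))) (P.cons (P.cons (P.lf 0 37487078 0) (P.cons (P.lf 1640606 0 0) (P.cons (P.lf 666388 0 0) (P.cons (P.lf 0 114008 0) P.nil)))) (P.cons (P.cons (P.lf 0 1433397 0) (P.cons (P.lf 211583 0 0) (P.cons (P.lf 86352 0 0) P.nil))) (P.cons (P.cons (P.lf 126208 0 0) (P.cons (P.lf 1958 0 0) P.nil)) (P.cons (P.cons (P.lf 9758 0 0) P.nil) P.nil)))))) 57043)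
 (EL.cons 10 (TM.mk (P.cons (P.cons (P.lf 119831154 0 0) (P.cons (P.lf 112274250 0 0) (P.cons (P.lf 0 10584462 0) (P.cons (P.lf 0 2217432 0) (P.cons (P.lf 130836 0 0) (P.cons (P.lf 0 1494 0) P.nil)))))) (P.cons (P.cons (P.lf 19846668 0 0) (P.cons (P.lf 18887304 0 0) (P.cons (P.lf 0 1354764 0) (P.cons (P.lf 0 291798 0) (P.cons (P.lf 0 9228 0) P.nil))))) (P.cons (P.cons (P.lf 0 1085364 0) (P.cons (P.lf 0 908784 0) (P.cons (P.lf 243228 0 0) (P.cons (P.lf 48000 0 0) P.nil)))) (P.cons (P.cons (P.lf 0 333210 0) (P.cons (P.lf 0 296622 0) (P.cons (P.lf 50652 0 0) P.nil))) (P.cons (P.cons (P.lf 0 15288 0) (P.cons (P.lf 0 13248 0) P.nil)) (P.cons (P.cons (P.lf 210 0 0) P.nil) P.nil)))))) 51642)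
 EL.nil))))
noncomputable def S82_96_216_364_9 : EL := (EL.cons 3 (TM.mk (P.cons (P.lf 0 3429223192 0) (P.cons (P.lf 43917390 0 0) (P.cons (P.lf 3370496 0 0) (P.cons (P.lf 71317 0 0) (P.cons (P.lf 18 0 0) (P.cons (P.lf 0 41 0) P.nil)))))) 82)
 (EL.cons 7 (TM.mk (P.cons (P.lf 0 656128768 0) (P.cons (P.lf 0 81611371 0) (P.cons (P.lf 0 665236 0) (P.cons (P.lf 30423 0 0) (P.cons (P.lf 1291 0 0) (P.cons (P.lf 18 0 0) P.nil)))))) 46)
 EL.nil))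
noncomputable def S82_96_216_364_10 : EL := (EL.cons 3 (TM.mk (P.cons (P.cons (P.lf 1729787323 0 0) (P.cons (P.lf 9244901 0 0) (P.cons (P.lf 3986504 0 0) (P.lf 0 442941 0)))) (P.cons (P.cons (P.lf 0 165975127 0) (P.cons (P.lf 3331329 0 0) (P.cons (P.lf 1436505 0 0) (P.lf 0 159611 0)))) (P.cons (P.cons (P.lf 0 10017047 0) (P.cons (P.lf 403938 0 0) (P.cons (P.lf 174181 0 0) (P.lf 0 19350 0)))) (P.cons (P.cons (P.lf 193561 0 0) (P.cons (P.lf 14057 0 0) (P.cons (P.lf 6060 0 0) P.nil))) (P.cons (P.cons (P.lf 28888 0 0) (P.cons (P.lf 0 735 0) P.nil)) (P.cons (P.cons (P.lf 675 0 0) P.nil) P.nil)))))) 2851)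
 (EL.cons 7 (TM.mk (P.cons (P.cons (P.lf 330968024 0 0) (P.cons (P.lf 1768868 0 0) (P.cons (P.lf 762755 0 0) (P.lf 0 84750 0)))) (P.cons (P.cons (P.lf 13648721 0 0) (P.cons (P.lf 880069 0 0) (P.cons (P.lf 379495 0 0) (P.lf 0 42166 0)))) (P.cons (P.cons (P.lf 0 5030956 0) (P.cons (P.lf 171371 0 0) (P.cons (P.lf 73897 0 0) (P.lf 0 8210 0)))) (P.cons (P.cons (P.lf 0 293034 0) (P.cons (P.lf 15963 0 0) (P.cons (P.lf 6883 0 0) P.nil))) (P.cons (P.cons (P.lf 599 0 0) (P.cons (P.lf 630 0 0) P.nil)) (P.cons (P.cons (P.lf 607 0 0) P.nil) P.nil)))))) 1337)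
 EL.nil))
noncomputable def S82_96_216_364_11 : EL := (EL.cons 3 (TM.mk (P.cons (P.cons (P.lf 0 872548682 0) (P.cons (P.lf 0 9326725 0) (P.cons (P.lf 0 4046711 0) (P.cons (P.lf 425368 0 0) (P.cons (P.lf 0 2245 0) (P.cons (P.lf 1028 0 0) P.nil)))))) (P.cons (P.cons (P.lf 156269583 0 0) (P.cons (P.lf 0 2585349 0) (P.cons (P.lf 0 1133113 0) (P.cons (P.lf 108103 0 0) (P.cons (P.lf 0 1646 0) P.nil))))) (P.cons (P.cons (P.lf 3216182 0 0) (P.cons (P.lf 0 73305 0) (P.cons (P.lf 0 37281 0) (P.cons (P.lf 0 1382 0) P.nil)))) (P.cons (P.cons (P.lf 0 988293 0) (P.cons (P.lf 39662 0 0) (P.cons (P.lf 16152 0 0) P.nil))) (P.cons (P.cons (P.lf 0 45917 0) (P.cons (P.lf 4312 0 0) P.nil)) (P.cons (P.cons (P.lf 1762 0 0) P.nil) P.nil)))))) 12676)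
 (EL.cons 7 (TM.mk (P.cons (P.cons (P.lf 0 166948682 0) (P.cons (P.lf 0 1784524 0) (P.cons (P.lf 0 774275 0) (P.cons (P.lf 81387 0 0) (P.cons (P.lf 0 429 0) (P.cons (P.lf 196 0 0) P.nil)))))) (P.cons (P.cons (P.lf 6996081 0 0) (P.cons (P.lf 0 739485 0) (P.cons (P.lf 0 323026 0) (P.cons (P.lf 31849 0 0) (P.cons (P.lf 0 374 0) P.nil))))) (P.cons (P.cons (P.lf 4090636 0 0) (P.cons (P.lf 0 88588 0) (P.cons (P.lf 0 39782 0) (P.cons (P.lf 2878 0 0) P.nil)))) (P.cons (P.cons (P.lf 0 18705 0) (P.cons (P.lf 3527 0 0) (P.cons (P.lf 1176 0 0) P.nil))) (P.cons (P.cons (P.lf 0 28814 0) (P.cons (P.lf 1724 0 0) P.nil)) (P.cons (P.cons (P.lf 0 1330 0) P.nil) P.nil)))))) 3201)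
 EL.nil))
noncomputable def S82_96_216_364_12 : EL := (EL.cons 4 (TM.mk (P.cons (P.lf 3429223192 0 0) (P.cons (P.lf 0 43917390 0) (P.cons (P.lf 0 3370496 0) (P.cons (P.lf 0 71317 0) (P.cons (P.lf 0 18 0) (P.cons (P.lf 41 0 0) P.nil)))))) 82)
 (EL.cons 8 (TM.mk (P.cons (P.lf 656128768 0 0) (P.cons (P.lf 81611371 0 0) (P.cons (P.lf 665236 0 0) (P.cons (P.lf 0 30423 0) (P.cons (P.lf 0 1291 0) (P.cons (P.lf 0 18 0) P.nil)))))) 46)
 EL.nil))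
noncomputable def S82_96_216_364_13 : EL := (EL.cons 4 (TM.mk (P.cons (P.cons (P.lf 0 1729787323 0) (P.cons (P.lf 0 9244901 0) (P.cons (P.lf 0 3986504 0) (P.lf 442941 0 0)))) (P.cons (P.cons (P.lf 165975127 0 0) (P.cons (P.lf 0 3331329 0) (P.cons (P.lf 0 1436505 0) (P.lf 159611 0 0)))) (P.cons (P.cons (P.lf 10017047 0 0) (P.cons (P.lf 0 403938 0) (P.cons (P.lf 0 174181 0) (P.lf 19350 0 0)))) (P.cons (P.cons (P.lf 0 193561 0) (P.cons (P.lf 0 14057 0) (P.cons (P.lf 0 6060 0) P.nil))) (P.cons (P.cons (P.lf 0 28888 0) (P.cons (P.lf 735 0 0) P.nil)) (P.cons (P.cons (P.lf 0 675 0) P.nil) P.nil)))))) 2851)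
 (EL.cons 8 (TM.mk (P.cons (P.cons (P.lf 0 330968024 0) (P.cons (P.lf 0 1768868 0) (P.cons (P.lf 0 762755 0) (P.lf 84750 0 0)))) (P.cons (P.cons (P.lf 0 13648721 0) (P.cons (P.lf 0 880069 0) (P.cons (P.lf 0 379495 0) (P.lf 42166 0 0)))) (P.cons (P.cons (P.lf 5030956 0 0) (P.cons (P.lf 0 171371 0) (P.cons (P.lf 0 73897 0) (P.lf 8210 0 0)))) (P.cons (P.cons (P.lf 293034 0 0) (P.cons (P.lf 0 15963 0) (P.cons (P.lf 0 6883 0) P.nil))) (P.cons (P.cons (P.lf 0 599 0) (P.cons (P.lf 0 630 0) P.nil)) (P.cons (P.cons (P.lf 0 607 0) P.nil) P.nil)))))) 1337)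
 EL.nil))
noncomputable def S82_96_216_364_14 : EL := (EL.cons 4 (TM.mk (P.cons (P.cons (P.lf 872548682 0 0) (P.cons (P.lf 9326725 0 0) (P.cons (P.lf 4046711 0 0) (P.cons (P.lf 0 425368 0) (P.cons (P.lf 2245 0 0) (P.cons (P.lf 0 1028 0) P.nil)))))) (P.cons (P.cons (P.lf 0 156269583 0) (P.cons (P.lf 2585349 0 0) (P.cons (P.lf 1133113 0 0) (P.cons (P.lf 0 108103 0) (P.cons (P.lf 1646 0 0) P.nil))))) (P.cons (P.cons (P.lf 0 3216182 0) (P.cons (P.lf 73305 0 0) (P.cons (P.lf 37281 0 0) (P.cons (P.lf 1382 0 0) P.nil)))) (P.cons (P.cons (P.lf 988293 0 0) (P.cons (P.lf 0 39662 0) (P.cons (P.lf 0 16152 0) P.nil))) (P.cons (P.cons (P.lf 45917 0 0) (P.cons (P.lf 0 4312 0) P.nil)) (P.cons (P.cons (P.lf 0 1762 0) P.nil) P.nil)))))) 12676)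
 (EL.cons 8 (TM.mk (P.cons (P.cons (P.lf 166948682 0 0) (P.cons (P.lf 1784524 0 0) (P.cons (P.lf 774275 0 0) (P.cons (P.lf 0 81387 0) (P.cons (P.lf 429 0 0) (P.cons (P.lf 0 196 0) P.nil)))))) (P.cons (P.cons (P.lf 0 6996081 0) (P.cons (P.lf 739485 0 0) (P.cons (P.lf 323026 0 0) (P.cons (P.lf 0 31849 0) (P.cons (P.lf 374 0 0) P.nil))))) (P.cons (P.cons (P.lf 0 4090636 0) (P.cons (P.lf 88588 0 0) (P.cons (P.lf 39782 0 0) (P.cons (P.lf 0 2878 0) P.nil)))) (P.cons (P.cons (P.lf 18705 0 0) (P.cons (P.lf 0 3527 0) (P.cons (P.lf 0 1176 0) P.nil))) (P.cons (P.cons (P.lf 28814 0 0) (P.cons (P.lf 0 1724 0) P.nil)) (P.cons (P.cons (P.lf 1330 0 0) P.nil) P.nil)))))) 3201)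
 EL.nil))
noncomputable def S82_96_216_364_15 : EL := (EL.cons 4 (TM.mk (P.cons (P.lf 0 2920521225 0) (P.cons (P.lf 74805086 0 0) (P.cons (P.lf 5262004 0 0) (P.cons (P.lf 47951 0 0) (P.cons (P.lf 0 4344 0) (P.cons (P.lf 0 189 0) P.nil)))))) 144)
 (EL.cons 8 (TM.mk (P.cons (P.lf 0 558796522 0) (P.cons (P.lf 0 62348480 0) (P.cons (P.lf 872809 0 0) (P.cons (P.lf 113101 0 0) (P.cons (P.lf 2773 0 0) (P.cons (P.lf 0 18 0) P.nil)))))) 63)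
 EL.nil))
noncomputable def S82_96_216_364_16 : EL := (EL.cons 4 (TM.mk (P.cons (P.cons (P.lf 1473185123 0 0) (P.cons (P.lf 7873483 0 0) (P.cons (P.lf 3395132 0 0) (P.lf 0 377234 0)))) (P.cons (P.cons (P.lf 0 160220637 0) (P.cons (P.lf 2736315 0 0) (P.cons (P.lf 1179930 0 0) (P.lf 0 131102 0)))) (P.cons (P.cons (P.lf 0 8168751 0) (P.cons (P.lf 299943 0 0) (P.cons (P.lf 129337 0 0) (P.lf 0 14368 0)))) (P.cons (P.cons (P.lf 382399 0 0) (P.cons (P.lf 4614 0 0) (P.cons (P.lf 1988 0 0) P.nil))) (P.cons (P.cons (P.lf 33807 0 0) (P.cons (P.lf 0 1176 0) P.nil)) (P.cons (P.cons (P.lf 294 0 0) P.nil) P.nil)))))) 3178)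
 (EL.cons 8 (TM.mk (P.cons (P.cons (P.lf 281871166 0 0) (P.cons (P.lf 1506469 0 0) (P.cons (P.lf 649606 0 0) (P.lf 0 72177 0)))) (P.cons (P.cons (P.lf 8014157 0 0) (P.cons (P.lf 730223 0 0) (P.cons (P.lf 314880 0 0) (P.lf 0 34986 0)))) (P.cons (P.cons (P.lf 0 4710558 0) (P.cons (P.lf 134870 0 0) (P.cons (P.lf 58157 0 0) (P.lf 0 6461 0)))) (P.cons (P.cons (P.lf 0 211979 0) (P.cons (P.lf 10958 0 0) (P.cons (P.lf 4725 0 0) P.nil))) (P.cons (P.cons (P.lf 7675 0 0) (P.cons (P.lf 203 0 0) P.nil)) (P.cons (P.cons (P.lf 848 0 0) P.nil) P.nil)))))) 1199)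
 EL.nil))
noncomputable def S82_96_216_364_17 : EL := (EL.cons 4 (TM.mk (P.cons (P.cons (P.lf 0 743112013 0) (P.cons (P.lf 0 7943169 0) (P.cons (P.lf 0 3446408 0) (P.cons (P.lf 362266 0 0) (P.cons (P.lf 0 1912 0) (P.cons (P.lf 875 0 0) P.nil)))))) (P.cons (P.cons (P.lf 142604941 0 0) (P.cons (P.lf 0 2100104 0) (P.cons (P.lf 0 920885 0) (P.cons (P.lf 87426 0 0) (P.cons (P.lf 0 1378 0) P.nil))))) (P.cons (P.cons (P.lf 1765037 0 0) (P.cons (P.lf 0 26426 0) (P.cons (P.lf 0 16005 0) (P.cons (P.lf 0 2713 0) P.nil)))) (P.cons (P.cons (P.lf 0 992120 0) (P.cons (P.lf 36908 0 0) (P.cons (P.lf 15182 0 0) P.nil))) (P.cons (P.cons (P.lf 0 33782 0) (P.cons (P.lf 3346 0 0) P.nil)) (P.cons (P.cons (P.lf 2762 0 0) P.nil) P.nil)))))) 11415)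
 (EL.cons 8 (TM.mk (P.cons (P.cons (P.lf 0 142182979 0) (P.cons (P.lf 0 1519802 0) (P.cons (P.lf 0 659417 0) (P.cons (P.lf 69314 0 0) (P.cons (P.lf 0 365 0) (P.cons (P.lf 167 0 0) P.nil)))))) (P.cons (P.cons (P.lf 7779169 0 0) (P.cons (P.lf 0 610323 0) (P.cons (P.lf 0 266662 0) (P.cons (P.lf 26237 0 0) (P.cons (P.lf 0 313 0) P.nil))))) (P.cons (P.cons (P.lf 3547259 0 0) (P.cons (P.lf 0 65887 0) (P.cons (P.lf 0 29710 0) (P.cons (P.lf 2036 0 0) P.nil)))) (P.cons (P.cons (P.lf 0 63446 0) (P.cons (P.lf 4620 0 0) (P.cons (P.lf 1719 0 0) P.nil))) (P.cons (P.cons (P.lf 0 27883 0) (P.cons (P.lf 1517 0 0) P.nil)) (P.cons (P.cons (P.lf 0 877 0) P.nil) P.nil)))))) 2956)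
 EL.nil))
noncomputable def S82_96_216_364_18 : EL := (EL.cons 4 (TM.mk (P.cons (P.lf 2487281739 0 0) (P.cons (P.lf 0 95562390 0) (P.cons (P.lf 0 6110208 0) (P.cons (P.lf 27443 0 0) (P.cons (P.lf 9938 0 0) (P.cons (P.lf 277 0 0) P.nil)))))) 195)
 (EL.cons 8 (TM.mk (P.cons (P.lf 475902853 0 0) (P.cons (P.lf 47004712 0 0) (P.cons (P.lf 0 1891121 0) (P.cons (P.lf 0 148891 0) (P.cons (P.lf 0 1504 0) (P.cons (P.lf 161 0 0) P.nil)))))) 73)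
 EL.nil))
noncomputable def S82_96_216_364_19 : EL := (EL.cons 4 (TM.mk (P.cons (P.cons (P.lf 0 1254648117 0) (P.cons (P.lf 0 6705505 0) (P.cons (P.lf 0 2891488 0) (P.lf 321274 0 0)))) (P.cons (P.cons (P.lf 152521026 0 0) (P.cons (P.lf 0 2244525 0) (P.cons (P.lf 0 967863 0) (P.lf 107539 0 0)))) (P.cons (P.cons (P.lf 6442607 0 0) (P.cons (P.lf 0 219013 0) (P.cons (P.lf 0 94440 0) (P.lf 10490 0 0)))) (P.cons (P.cons (P.lf 0 522793 0) (P.cons (P.lf 1770 0 0) (P.cons (P.lf 764 0 0) P.nil))) (P.cons (P.cons (P.lf 0 34290 0) (P.cons (P.lf 1351 0 0) P.nil)) (P.cons (P.cons (P.lf 276 0 0) P.nil) P.nil)))))) 3311)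
 (EL.cons 8 (TM.mk (P.cons (P.cons (P.lf 0 240057493 0) (P.cons (P.lf 0 1282994 0) (P.cons (P.lf 0 553241 0) (P.lf 61470 0 0)))) (P.cons (P.cons (P.lf 0 3750942 0) (P.cons (P.lf 0 605469 0) (P.cons (P.lf 0 261085 0) (P.lf 29009 0 0)))) (P.cons (P.cons (P.lf 4335135 0 0) (P.cons (P.lf 0 105637 0) (P.cons (P.lf 0 45551 0) (P.lf 5060 0 0)))) (P.cons (P.cons (P.lf 140856 0 0) (P.cons (P.lf 0 7223 0) (P.cons (P.lf 0 3114 0) P.nil))) (P.cons (P.cons (P.lf 0 12648 0) (P.cons (P.lf 71 0 0) P.nil)) (P.cons (P.cons (P.lf 0 902 0) P.nil) P.nil)))))) 1056)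
 EL.nil))
noncomputable def S82_96_216_364_20 : EL := (EL.cons 4 (TM.mk (P.cons (P.cons (P.lf 632876393 0 0) (P.cons (P.lf 6764853 0 0) (P.cons (P.lf 2935157 0 0) (P.cons (P.lf 0 308527 0) (P.cons (P.lf 1628 0 0) (P.cons (P.lf 0 746 0) P.nil)))))) (P.cons (P.cons (P.lf 0 129555591 0) (P.cons (P.lf 1701930 0 0) (P.cons (P.lf 746688 0 0) (P.cons (P.lf 0 70506 0) (P.cons (P.lf 1152 0 0) P.nil))))) (P.cons (P.cons (P.lf 0 569851 0) (P.cons (P.lf 0 7048 0) (P.cons (P.lf 701 0 0) (P.cons (P.lf 3567 0 0) P.nil)))) (P.cons (P.cons (P.lf 970405 0 0) (P.cons (P.lf 0 33619 0) (P.cons (P.lf 0 13936 0) P.nil))) (P.cons (P.cons (P.lf 21949 0 0) (P.cons (P.lf 0 2506 0) P.nil)) (P.cons (P.cons (P.lf 0 3511 0) P.nil) P.nil)))))) 10225)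
 (EL.cons 8 (TM.mk (P.cons (P.cons (P.lf 121091099 0 0) (P.cons (P.lf 1294350 0 0) (P.cons (P.lf 561596 0 0) (P.cons (P.lf 0 59031 0) (P.cons (P.lf 311 0 0) (P.cons (P.lf 0 142 0) P.nil)))))) (P.cons (P.cons (P.lf 0 8175972 0) (P.cons (P.lf 503210 0 0) (P.cons (P.lf 219912 0 0) (P.cons (P.lf 0 21588 0) (P.cons (P.lf 263 0 0) P.nil))))) (P.cons (P.cons (P.lf 0 3055217 0) (P.cons (P.lf 48184 0 0) (P.cons (P.lf 21842 0 0) (P.cons (P.lf 0 1389 0) P.nil)))) (P.cons (P.cons (P.lf 96717 0 0) (P.cons (P.lf 0 5191 0) (P.cons (P.lf 0 2023 0) P.nil))) (P.cons (P.cons (P.lf 26161 0 0) (P.cons (P.lf 0 1307 0) P.nil)) (P.cons (P.cons (P.lf 454 0 0) P.nil) P.nil)))))) 2710)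
 EL.nil))
noncomputable def S82_96_216_364_21 : EL := (EL.cons 4 (TM.mk (P.cons (P.cons (P.lf 0 1156282608 0) (P.cons (P.lf 27734703 0 0) (P.cons (P.lf 11959512 0 0) (P.lf 0 1328823 0)))) (P.cons (P.cons (P.lf 0 273510123 0) (P.cons (P.lf 9993987 0 0) (P.cons (P.lf 4309515 0 0) (P.lf 0 478833 0)))) (P.cons (P.cons (P.lf 0 14265132 0) (P.cons (P.lf 1211814 0 0) (P.cons (P.lf 522543 0 0) (P.lf 0 58050 0)))) (P.cons (P.cons (P.lf 724542 0 0) (P.cons (P.lf 42171 0 0) (P.cons (P.lf 18180 0 0) P.nil))) (P.cons (P.cons (P.lf 73632 0 0) (P.cons (P.lf 0 2205 0) P.nil)) (P.cons (P.cons (P.lf 1458 0 0) P.nil) P.nil)))))) 8916)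
 (EL.cons 8 (TM.mk (P.cons (P.cons (P.lf 2148711621 0 0) (P.cons (P.lf 0 51539205 0) (P.cons (P.lf 0 22224288 0) (P.lf 2469366 0 0)))) (P.cons (P.cons (P.lf 213480240 0 0) (P.cons (P.lf 0 11501115 0) (P.cons (P.lf 0 4959411 0) (P.lf 551046 0 0)))) (P.cons (P.cons (P.lf 0 10844199 0) (P.cons (P.lf 0 480627 0) (P.cons (P.lf 0 207252 0) (P.lf 23028 0 0)))) (P.cons (P.cons (P.lf 0 998103 0) (P.cons (P.lf 38826 0 0) (P.cons (P.lf 16740 0 0) P.nil))) (P.cons (P.cons (P.lf 0 6945 0) (P.cons (P.lf 2709 0 0) P.nil)) (P.cons (P.cons (P.lf 1650 0 0) P.nil) P.nil)))))) 5196)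
 (EL.cons 11 (TM.mk (P.cons (P.cons (P.lf 118779858 0 0) (P.cons (P.lf 110654427 0 0) (P.cons (P.lf 0 11356743 0) (P.cons (P.lf 0 2361885 0) (P.lf 196821 0 0))))) (P.cons (P.cons (P.lf 29548428 0 0) (P.cons (P.lf 27527094 0 0) (P.cons (P.lf 0 2825175 0) (P.cons (P.lf 0 587556 0) (P.lf 48963 0 0))))) (P.cons (P.cons (P.lf 2078517 0 0) (P.cons (P.lf 1936332 0 0) (P.cons (P.lf 0 198729 0) (P.cons (P.lf 0 41328 0) P.nil)))) (P.cons (P.cons (P.lf 18942 0 0) (P.cons (P.lf 17646 0 0) (P.cons (P.lf 0 1809 0) P.nil))) (P.cons (P.cons (P.lf 0 1713 0) (P.cons (P.lf 0 1596 0) P.nil)) (P.cons (P.cons (P.lf 0 72 0) P.nil) P.nil)))))) 4284)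
 EL.nil)))
noncomputable def S82_96_216_364_22 : EL := (EL.cons 4 (TM.mk (P.cons (P.cons (P.lf 583258329 0 0) (P.cons (P.lf 0 10872846 0) (P.cons (P.lf 0 4763262 0) (P.cons (P.lf 456453 0 0) (P.cons (P.lf 0 6738 0) (P.cons (P.lf 3087 0 0) P.nil)))))) (P.cons (P.cons (P.lf 89470809 0 0) (P.cons (P.lf 0 1977465 0) (P.cons (P.lf 0 907545 0) (P.cons (P.lf 47445 0 0) (P.cons (P.lf 0 4941 0) P.nil))))) (P.cons (P.cons (P.lf 0 7700745 0) (P.cons (P.lf 357807 0 0) (P.cons (P.lf 137271 0 0) (P.cons (P.lf 0 31824 0) P.nil)))) (P.cons (P.cons (P.lf 0 1788144 0) (P.cons (P.lf 116280 0 0) (P.cons (P.lf 47286 0 0) P.nil))) (P.cons (P.cons (P.lf 0 47169 0) (P.cons (P.lf 9345 0 0) P.nil)) (P.cons (P.cons (P.lf 5751 0 0) P.nil) P.nil)))))) 30312)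
 (EL.cons 8 (TM.mk (P.cons (P.cons (P.lf 0 1083864744 0) (P.cons (P.lf 20204934 0 0) (P.cons (P.lf 8851542 0 0) (P.cons (P.lf 0 848238 0) (P.cons (P.lf 12519 0 0) (P.cons (P.lf 0 5739 0) P.nil)))))) (P.cons (P.cons (P.lf 0 17567604 0) (P.cons (P.lf 902808 0 0) (P.cons (P.lf 472155 0 0) (P.cons (P.lf 28197 0 0) (P.cons (P.lf 7464 0 0) P.nil))))) (P.cons (P.cons (P.lf 20788857 0 0) (P.cons (P.lf 0 864597 0) (P.cons (P.lf 0 353085 0) (P.cons (P.lf 58443 0 0) P.nil)))) (P.cons (P.cons (P.lf 707346 0 0) (P.cons (P.lf 0 104028 0) (P.cons (P.lf 0 42588 0) P.nil))) (P.cons (P.cons (P.lf 0 77511 0) (P.cons (P.lf 0 117 0) P.nil)) (P.cons (P.cons (P.lf 0 5544 0) P.nil) P.nil)))))) 26910)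
 (EL.cons 11 (TM.mk (P.cons (P.cons (P.lf 0 59915577 0) (P.cons (P.lf 0 56137125 0) (P.cons (P.lf 5292231 0 0) (P.cons (P.lf 1108716 0 0) (P.cons (P.lf 0 65418 0) (P.cons (P.lf 747 0 0) P.nil)))))) (P.cons (P.cons (P.lf 0 9923334 0) (P.cons (P.lf 0 9443652 0) (P.cons (P.lf 677382 0 0) (P.cons (P.lf 145899 0 0) (P.cons (P.lf 4614 0 0) P.nil))))) (P.cons (P.cons (P.lf 542682 0 0) (P.cons (P.lf 454392 0 0) (P.cons (P.lf 0 121614 0) (P.cons (P.lf 0 24000 0) P.nil)))) (P.cons (P.cons (P.lf 166605 0 0) (P.cons (P.lf 148311 0 0) (P.cons (P.lf 0 25326 0) P.nil))) (P.cons (P.cons (P.lf 7644 0 0) (P.cons (P.lf 6624 0 0) P.nil)) (P.cons (P.cons (P.lf 0 105 0) P.nil) P.nil)))))) 25821)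
 EL.nil)))
noncomputable def S82_96_216_364_23 : EL := (EL.cons 4 (TM.mk (P.cons (P.cons (P.lf 984755937 0 0) (P.cons (P.lf 0 23620446 0) (P.cons (P.lf 0 10185399 0) (P.lf 1131699 0 0)))) (P.cons (P.cons (P.lf 220325175 0 0) (P.cons (P.lf 0 8208942 0) (P.cons (P.lf 0 3539784 0) (P.lf 393306 0 0)))) (P.cons (P.cons (P.lf 8197929 0 0) (P.cons (P.lf 0 899829 0) (P.cons (P.lf 0 388011 0) (P.lf 43101 0 0)))) (P.cons (P.cons (P.lf 0 1022076 0) (P.cons (P.lf 0 13839 0) (P.cons (P.lf 0 5964 0) P.nil))) (P.cons (P.cons (P.lf 0 71595 0) (P.cons (P.lf 3528 0 0) P.nil)) (P.cons (P.cons (P.lf 0 72 0) P.nil) P.nil)))))) 9813)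
 (EL.cons 8 (TM.mk (P.cons (P.cons (P.lf 0 1829964846 0) (P.cons (P.lf 43893714 0 0) (P.cons (P.lf 18927465 0 0) (P.lf 0 2103051 0)))) (P.cons (P.cons (P.lf 0 158375892 0) (P.cons (P.lf 9232863 0 0) (P.cons (P.lf 3981315 0 0) (P.lf 0 442368 0)))) (P.cons (P.cons (P.lf 13362591 0 0) (P.cons (P.lf 240744 0 0) (P.cons (P.lf 103809 0 0) (P.lf 0 11532 0)))) (P.cons (P.cons (P.lf 948519 0 0) (P.cons (P.lf 0 48846 0) (P.cons (P.lf 0 21060 0) P.nil))) (P.cons (P.cons (P.lf 0 10257 0) (P.cons (P.lf 0 2487 0) P.nil)) (P.cons (P.cons (P.lf 0 2529 0) P.nil) P.nil)))))) 5955)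
 (EL.cons 11 (TM.mk (P.cons (P.cons (P.lf 0 101159670 0) (P.cons (P.lf 0 94239594 0) (P.cons (P.lf 9672045 0 0) (P.cons (P.lf 2011515 0 0) (P.lf 0 167622 0))))) (P.cons (P.cons (P.lf 0 23869587 0) (P.cons (P.lf 0 22236726 0) (P.cons (P.lf 2282211 0 0) (P.cons (P.lf 474633 0 0) (P.lf 0 39552 0))))) (P.cons (P.cons (P.lf 0 1348470 0) (P.cons (P.lf 0 1256226 0) (P.cons (P.lf 128928 0 0) (P.cons (P.lf 26811 0 0) P.nil)))) (P.cons (P.cons (P.lf 33375 0 0) (P.cons (P.lf 31092 0 0) (P.cons (P.lf 0 3192 0) P.nil))) (P.cons (P.cons (P.lf 3927 0 0) (P.cons (P.lf 3660 0 0) P.nil)) (P.cons (P.cons (P.lf 93 0 0) P.nil) P.nil)))))) 5856)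
 EL.nil)))
noncomputable def S82_96_216_364_24 : EL := (EL.cons 4 (TM.mk (P.cons (P.cons (P.lf 0 496735917 0) (P.cons (P.lf 9259932 0 0) (P.cons (P.lf 4056663 0 0) (P.cons (P.lf 0 388743 0) (P.cons (P.lf 5736 0 0) (P.cons (P.lf 0 2631 0) P.nil)))))) (P.cons (P.cons (P.lf 0 69836820 0) (P.cons (P.lf 1565532 0 0) (P.cons (P.lf 720966 0 0) (P.cons (P.lf 0 35427 0) (P.cons (P.lf 4134 0 0) P.nil))))) (P.cons (P.cons (P.lf 8022480 0 0) (P.cons (P.lf 0 335397 0) (P.cons (P.lf 0 130794 0) (P.cons (P.lf 28002 0 0) P.nil)))) (P.cons (P.cons (P.lf 1524117 0 0) (P.cons (P.lf 0 96978 0) (P.cons (P.lf 0 39618 0) P.nil))) (P.cons (P.cons (P.lf 15810 0 0) (P.cons (P.lf 0 6426 0) P.nil)) (P.cons (P.cons (P.lf 0 7053 0) P.nil) P.nil)))))) 25926)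
 (EL.cons 8 (TM.mk (P.cons (P.cons (P.lf 923080770 0 0) (P.cons (P.lf 0 17207670 0) (P.cons (P.lf 0 7538475 0) (P.cons (P.lf 722406 0 0) (P.cons (P.lf 0 10662 0) (P.cons (P.lf 4887 0 0) P.nil)))))) (P.cons (P.cons (P.lf 3139854 0 0) (P.cons (P.lf 0 548508 0) (P.cons (P.lf 0 305568 0) (P.cons (P.lf 0 33264 0) (P.cons (P.lf 0 6222 0) P.nil))))) (P.cons (P.cons (P.lf 0 18803853 0) (P.cons (P.lf 763101 0 0) (P.cons (P.lf 313266 0 0) (P.cons (P.lf 0 50175 0) P.nil)))) (P.cons (P.cons (P.lf 0 409575 0) (P.cons (P.lf 80280 0 0) (P.cons (P.lf 32973 0 0) P.nil))) (P.cons (P.cons (P.lf 90813 0 0) (P.cons (P.lf 0 1740 0) P.nil)) (P.cons (P.cons (P.lf 4848 0 0) P.nil) P.nil)))))) 23067)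
 (EL.cons 11 (TM.mk (P.cons (P.cons (P.lf 51027507 0 0) (P.cons (P.lf 47809563 0 0) (P.cons (P.lf 0 4507164 0) (P.cons (P.lf 0 944244 0) (P.cons (P.lf 55713 0 0) (P.cons (P.lf 0 636 0) P.nil)))))) (P.cons (P.cons (P.lf 7797774 0 0) (P.cons (P.lf 7430463 0 0) (P.cons (P.lf 0 519174 0) (P.cons (P.lf 0 112164 0) (P.cons (P.lf 0 4644 0) P.nil))))) (P.cons (P.cons (P.lf 0 620565 0) (P.cons (P.lf 0 536979 0) (P.cons (P.lf 115392 0 0) (P.cons (P.lf 22959 0 0) P.nil)))) (P.cons (P.cons (P.lf 0 145338 0) (P.cons (P.lf 0 130254 0) (P.cons (P.lf 20904 0 0) P.nil))) (P.cons (P.cons (P.lf 0 4413 0) (P.cons (P.lf 0 3810 0) P.nil)) (P.cons (P.cons (P.lf 324 0 0) P.nil) P.nil)))))) 22062)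
 EL.nil)))
noncomputable def S82_96_216_364_25 : EL := (EL.cons 4 (TM.mk (P.cons (P.cons (P.lf 0 838674081 0) (P.cons (P.lf 20116515 0 0) (P.cons (P.lf 8674464 0 0) (P.lf 0 963819 0)))) (P.cons (P.cons (P.lf 0 176900697 0) (P.cons (P.lf 6733575 0 0) (P.cons (P.lf 2903589 0 0) (P.lf 0 322617 0)))) (P.cons (P.cons (P.lf 0 3754422 0) (P.cons (P.lf 657036 0 0) (P.cons (P.lf 283317 0 0) (P.lf 0 31470 0)))) (P.cons (P.cons (P.lf 1161744 0 0) (P.cons (P.lf 0 5316 0) (P.cons (P.lf 0 2295 0) P.nil))) (P.cons (P.cons (P.lf 60597 0 0) (P.cons (P.lf 0 4053 0) P.nil)) (P.cons (P.cons (P.lf 0 1434 0) P.nil) P.nil)))))) 9969)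
 (EL.cons 8 (TM.mk (P.cons (P.cons (P.lf 1558501992 0 0) (P.cons (P.lf 0 37382379 0) (P.cons (P.lf 0 16119702 0) (P.lf 1791078 0 0)))) (P.cons (P.cons (P.lf 114922476 0 0) (P.cons (P.lf 0 7384482 0) (P.cons (P.lf 0 3184272 0) (P.lf 353808 0 0)))) (P.cons (P.cons (P.lf 0 14639559 0) (P.cons (P.lf 0 67584 0) (P.cons (P.lf 0 29142 0) (P.lf 3237 0 0)))) (P.cons (P.cons (P.lf 0 827049 0) (P.cons (P.lf 52734 0 0) (P.cons (P.lf 22737 0 0) P.nil))) (P.cons (P.cons (P.lf 27453 0 0) (P.cons (P.lf 1953 0 0) P.nil)) (P.cons (P.cons (P.lf 3090 0 0) P.nil) P.nil)))))) 6129)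
 (EL.cons 11 (TM.mk (P.cons (P.cons (P.lf 86153322 0 0) (P.cons (P.lf 80259789 0 0) (P.cons (P.lf 0 8237262 0) (P.cons (P.lf 0 1713120 0) (P.lf 142758 0 0))))) (P.cons (P.cons (P.lf 19225347 0 0) (P.cons (P.lf 17910189 0 0) (P.cons (P.lf 0 1838166 0) (P.cons (P.lf 0 382284 0) (P.lf 31857 0 0))))) (P.cons (P.cons (P.lf 803409 0 0) (P.cons (P.lf 748452 0 0) (P.cons (P.lf 0 76812 0) (P.cons (P.lf 0 15972 0) P.nil)))) (P.cons (P.cons (P.lf 0 64905 0) (P.cons (P.lf 0 60465 0) (P.cons (P.lf 6207 0 0) P.nil))) (P.cons (P.cons (P.lf 0 4533 0) (P.cons (P.lf 0 4224 0) P.nil)) (P.cons (P.cons (P.lf 0 30 0) P.nil) P.nil)))))) 6600)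
 EL.nil)))
noncomputable def S82_96_216_364_26 : EL := (EL.cons 4 (TM.mk (P.cons (P.cons (P.lf 423048519 0 0) (P.cons (P.lf 0 7886283 0) (P.cons (P.lf 0 3454884 0) (P.cons (P.lf 331074 0 0) (P.cons (P.lf 0 4887 0) (P.cons (P.lf 2238 0 0) P.nil)))))) (P.cons (P.cons (P.lf 54059103 0 0) (P.cons (P.lf 0 1232298 0) (P.cons (P.lf 0 569769 0) (P.cons (P.lf 25932 0 0) (P.cons (P.lf 0 3459 0) P.nil))))) (P.cons (P.cons (P.lf 0 8009913 0) (P.cons (P.lf 310470 0 0) (P.cons (P.lf 122652 0 0) (P.cons (P.lf 0 24558 0) P.nil)))) (P.cons (P.cons (P.lf 0 1277781 0) (P.cons (P.lf 80406 0 0) (P.cons (P.lf 32991 0 0) P.nil))) (P.cons (P.cons (P.lf 8634 0 0) (P.cons (P.lf 4161 0 0) P.nil)) (P.cons (P.cons (P.lf 7602 0 0) P.nil) P.nil)))))) 22254)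
 (EL.cons 8 (TM.mk (P.cons (P.cons (P.lf 0 786148008 0) (P.cons (P.lf 14655030 0 0) (P.cons (P.lf 6420195 0 0) (P.cons (P.lf 0 615243 0) (P.cons (P.lf 9081 0 0) (P.cons (P.lf 0 4164 0) P.nil)))))) (P.cons (P.cons (P.lf 7393962 0 0) (P.cons (P.lf 279456 0 0) (P.cons (P.lf 178017 0 0) (P.cons (P.lf 36210 0 0) (P.cons (P.lf 5181 0 0) P.nil))))) (P.cons (P.cons (P.lf 16821360 0 0) (P.cons (P.lf 0 670287 0) (P.cons (P.lf 0 276438 0) (P.cons (P.lf 42975 0 0) P.nil)))) (P.cons (P.cons (P.lf 162702 0 0) (P.cons (P.lf 0 60810 0) (P.cons (P.lf 0 25053 0) P.nil))) (P.cons (P.cons (P.lf 0 97488 0) (P.cons (P.lf 2985 0 0) P.nil)) (P.cons (P.cons (P.lf 0 3822 0) P.nil) P.nil)))))) 19866)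
 (EL.cons 11 (TM.mk (P.cons (P.cons (P.lf 0 43457925 0) (P.cons (P.lf 0 40717338 0) (P.cons (P.lf 3838557 0 0) (P.cons (P.lf 804174 0 0) (P.cons (P.lf 0 47448 0) (P.cons (P.lf 540 0 0) P.nil)))))) (P.cons (P.cons (P.lf 0 6084471 0) (P.cons (P.lf 0 5806746 0) (P.cons (P.lf 393000 0 0) (P.cons (P.lf 85227 0 0) (P.cons (P.lf 4563 0 0) P.nil))))) (P.cons (P.cons (P.lf 656274 0 0) (P.cons (P.lf 578385 0 0) (P.cons (P.lf 0 107709 0) (P.cons (P.lf 0 21567 0) P.nil)))) (P.cons (P.cons (P.lf 124440 0 0) (P.cons (P.lf 112140 0 0) (P.cons (P.lf 0 17058 0) P.nil))) (P.cons (P.cons (P.lf 1791 0 0) (P.cons (P.lf 1506 0 0) P.nil)) (P.cons (P.cons (P.lf 0 456 0) P.nil) P.nil)))))) 18951)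
 EL.nil)))
noncomputable def S82_96_216_364_27 : EL := (EL.cons 13 (TM.mk (P.lf 0 4294967296 0) 0)
 EL.nil)
noncomputable def S82_96_216_364_28 : EL := (EL.cons 13 (TM.mk (P.cons (P.cons (P.lf 2166490650 0 0) (P.cons (P.lf 11578876 0 0) (P.cons (P.lf 4992940 0 0) (P.lf 0 554768 0)))) (P.cons (P.cons (P.lf 0 180131504 0) (P.cons (P.lf 4320648 0 0) (P.cons (P.lf 1863112 0 0) (P.lf 0 207012 0)))) (P.cons (P.cons (P.lf 0 12723480 0) (P.cons (P.lf 572632 0 0) (P.cons (P.lf 246924 0 0) (P.lf 0 27432 0)))) (P.cons (P.cons (P.lf 0 52508 0) (P.cons (P.lf 29428 0 0) (P.cons (P.lf 12688 0 0) P.nil))) (P.cons (P.cons (P.lf 19269 0 0) (P.cons (P.lf 108 0 0) P.nil)) (P.cons (P.cons (P.lf 751 0 0) P.nil) P.nil)))))) 2305)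
 EL.nil)
noncomputable def S82_96_216_364_29 : EL := (EL.cons 13 (TM.mk (P.cons (P.cons (P.lf 0 1092832939 0) (P.cons (P.lf 0 11681358 0) (P.cons (P.lf 0 5068347 0) (P.cons (P.lf 532757 0 0) (P.cons (P.lf 0 2813 0) (P.cons (P.lf 1289 0 0) P.nil)))))) (P.cons (P.cons (P.lf 181725816 0 0) (P.cons (P.lf 0 3387650 0) (P.cons (P.lf 0 1484089 0) (P.cons (P.lf 142218 0 0) (P.cons (P.lf 0 2099 0) P.nil))))) (P.cons (P.cons (P.lf 5281353 0 0) (P.cons (P.lf 0 146680 0) (P.cons (P.lf 0 70682 0) (P.cons (P.lf 612 0 0) P.nil)))) (P.cons (P.cons (P.lf 0 1014276 0) (P.cons (P.lf 44226 0 0) (P.cons (P.lf 17761 0 0) P.nil))) (P.cons (P.cons (P.lf 0 61536 0) (P.cons (P.lf 5753 0 0) P.nil)) (P.cons (P.cons (P.lf 547 0 0) P.nil) P.nil)))))) 14812)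
 EL.nil)
noncomputable def S82_96_216_364_30 : EL := (EL.cons 13 (TM.mk (P.cons (P.lf 3657838072 0 0) (P.cons (P.lf 0 46845216 0) (P.cons (P.lf 0 3595196 0) (P.cons (P.lf 0 76072 0) (P.cons (P.lf 0 20 0) (P.cons (P.lf 44 0 0) P.nil)))))) 80)
 EL.nil)
noncomputable def S82_96_216_364_31 : EL := (EL.cons 13 (TM.mk (P.cons (P.cons (P.lf 0 1845106478 0) (P.cons (P.lf 0 9861228 0) (P.cons (P.lf 0 4252271 0) (P.lf 472471 0 0)))) (P.cons (P.cons (P.lf 177040136 0 0) (P.cons (P.lf 0 3553418 0) (P.cons (P.lf 0 1532273 0) (P.lf 170252 0 0)))) (P.cons (P.cons (P.lf 10684851 0 0) (P.cons (P.lf 0 430868 0) (P.cons (P.lf 0 185794 0) (P.lf 20640 0 0)))) (P.cons (P.cons (P.lf 0 206466 0) (P.cons (P.lf 0 14995 0) (P.cons (P.lf 0 6464 0) P.nil))) (P.cons (P.cons (P.lf 0 30814 0) (P.cons (P.lf 784 0 0) P.nil)) (P.cons (P.cons (P.lf 0 721 0) P.nil) P.nil)))))) 3021)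
 EL.nil)
noncomputable def S82_96_216_364_32 : EL := (EL.cons 13 (TM.mk (P.cons (P.cons (P.lf 930718595 0 0) (P.cons (P.lf 9948507 0 0) (P.cons (P.lf 4316492 0 0) (P.cons (P.lf 0 453726 0) (P.cons (P.lf 2395 0 0) (P.cons (P.lf 0 1097 0) P.nil)))))) (P.cons (P.cons (P.lf 0 166687556 0) (P.cons (P.lf 2757706 0 0) (P.cons (P.lf 1208654 0 0) (P.cons (P.lf 0 115310 0) (P.cons (P.lf 1756 0 0) P.nil))))) (P.cons (P.cons (P.lf 0 3430595 0) (P.cons (P.lf 78193 0 0) (P.cons (P.lf 39767 0 0) (P.cons (P.lf 1475 0 0) P.nil)))) (P.cons (P.cons (P.lf 1054180 0 0) (P.cons (P.lf 0 42307 0) (P.cons (P.lf 0 17229 0) P.nil))) (P.cons (P.cons (P.lf 48979 0 0) (P.cons (P.lf 0 4600 0) P.nil)) (P.cons (P.cons (P.lf 0 1880 0) P.nil) P.nil)))))) 13498)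
 EL.nil)
noncomputable def S82_96_216_364_33 : EL := (EL.cons 14 (TM.mk (P.lf 8589934592 0 0) 0)
 EL.nil)
noncomputable def S82_96_216_364_34 : EL := (EL.cons 14 (TM.mk (P.cons (P.cons (P.lf 0 4332981300 0) (P.cons (P.lf 0 23157752 0) (P.cons (P.lf 0 9985880 0) (P.lf 1109536 0 0)))) (P.cons (P.cons (P.lf 360263008 0 0) (P.cons (P.lf 0 8641296 0) (P.cons (P.lf 0 3726224 0) (P.lf 414024 0 0)))) (P.cons (P.cons (P.lf 25446960 0 0) (P.cons (P.lf 0 1145264 0) (P.cons (P.lf 0 493848 0) (P.lf 54864 0 0)))) (P.cons (P.cons (P.lf 105016 0 0) (P.cons (P.lf 0 58856 0) (P.cons (P.lf 0 25376 0) P.nil))) (P.cons (P.cons (P.lf 0 38538 0) (P.cons (P.lf 0 216 0) P.nil)) (P.cons (P.cons (P.lf 0 1502 0) P.nil) P.nil)))))) 4610)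
 EL.nil)
noncomputable def S82_96_216_364_35 : EL := (EL.cons 14 (TM.mk (P.cons (P.cons (P.lf 2185665878 0 0) (P.cons (P.lf 23362716 0 0) (P.cons (P.lf 10136694 0 0) (P.cons (P.lf 0 1065514 0) (P.cons (P.lf 5626 0 0) (P.cons (P.lf 0 2578 0) P.nil)))))) (P.cons (P.cons (P.lf 0 363451632 0) (P.cons (P.lf 6775300 0 0) (P.cons (P.lf 2968178 0 0) (P.cons (P.lf 0 284436 0) (P.cons (P.lf 4198 0 0) P.nil))))) (P.cons (P.cons (P.lf 0 10562706 0) (P.cons (P.lf 293360 0 0) (P.cons (P.lf 141364 0 0) (P.cons (P.lf 0 1224 0) P.nil)))) (P.cons (P.cons (P.lf 2028552 0 0) (P.cons (P.lf 0 88452 0) (P.cons (P.lf 0 35522 0) P.nil))) (P.cons (P.cons (P.lf 123072 0 0) (P.cons (P.lf 0 11506 0) P.nil)) (P.cons (P.cons (P.lf 0 1094 0) P.nil) P.nil)))))) 29624)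
 EL.nil)
noncomputable def S82_96_216_364_36 : EL := (EL.cons 14 (TM.mk (P.cons (P.lf 0 7315676144 0) (P.cons (P.lf 93690432 0 0) (P.cons (P.lf 7190392 0 0) (P.cons (P.lf 152144 0 0) (P.cons (P.lf 40 0 0) (P.cons (P.lf 0 88 0) P.nil)))))) 160)
 EL.nil)
noncomputable def S82_96_216_364_37 : EL := (EL.cons 14 (TM.mk (P.cons (P.cons (P.lf 3690212956 0 0) (P.cons (P.lf 19722456 0 0) (P.cons (P.lf 8504542 0 0) (P.lf 0 944942 0)))) (P.cons (P.cons (P.lf 0 354080272 0) (P.cons (P.lf 7106836 0 0) (P.cons (P.lf 3064546 0 0) (P.lf 0 340504 0)))) (P.cons (P.cons (P.lf 0 21369702 0) (P.cons (P.lf 861736 0 0) (P.cons (P.lf 371588 0 0) (P.lf 0 41280 0)))) (P.cons (P.cons (P.lf 412932 0 0) (P.cons (P.lf 29990 0 0) (P.cons (P.lf 12928 0 0) P.nil))) (P.cons (P.cons (P.lf 61628 0 0) (P.cons (P.lf 0 1568 0) P.nil)) (P.cons (P.cons (P.lf 1442 0 0) P.nil) P.nil)))))) 6042)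
 EL.nil)
noncomputable def S82_96_216_364_38 : EL := (EL.cons 14 (TM.mk (P.cons (P.cons (P.lf 0 1861437190 0) (P.cons (P.lf 0 19897014 0) (P.cons (P.lf 0 8632984 0) (P.cons (P.lf 907452 0 0) (P.cons (P.lf 0 4790 0) (P.cons (P.lf 2194 0 0) P.nil)))))) (P.cons (P.cons (P.lf 333375112 0 0) (P.cons (P.lf 0 5515412 0) (P.cons (P.lf 0 2417308 0) (P.cons (P.lf 230620 0 0) (P.cons (P.lf 0 3512 0) P.nil))))) (P.cons (P.cons (P.lf 6861190 0 0) (P.cons (P.lf 0 156386 0) (P.cons (P.lf 0 79534 0) (P.cons (P.lf 0 2950 0) P.nil)))) (P.cons (P.cons (P.lf 0 2108360 0) (P.cons (P.lf 84614 0 0) (P.cons (P.lf 34458 0 0) P.nil))) (P.cons (P.cons (P.lf 0 97958 0) (P.cons (P.lf 9200 0 0) P.nil)) (P.cons (P.cons (P.lf 3760 0 0) P.nil) P.nil)))))) 26996)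
 EL.nil)
noncomputable def S82_96_216_364_39 : EL := (EL.cons 14 (TM.mk (P.cons (P.lf 6230445280 0 0) (P.cons (P.lf 0 159584184 0) (P.cons (P.lf 0 11225610 0) (P.cons (P.lf 0 102296 0) (P.cons (P.lf 9268 0 0) (P.cons (P.lf 404 0 0) P.nil)))))) 294)
 EL.nil)
noncomputable def S82_96_216_364_40 : EL := (EL.cons 14 (TM.mk (P.cons (P.cons (P.lf 0 3142794930 0) (P.cons (P.lf 0 16796764 0) (P.cons (P.lf 0 7242950 0) (P.lf 804766 0 0)))) (P.cons (P.cons (P.lf 341804026 0 0) (P.cons (P.lf 0 5837472 0) (P.cons (P.lf 0 2517184 0) (P.lf 279686 0 0)))) (P.cons (P.cons (P.lf 17426670 0 0) (P.cons (P.lf 0 639880 0) (P.cons (P.lf 0 275920 0) (P.lf 30652 0 0)))) (P.cons (P.cons (P.lf 0 815786 0) (P.cons (P.lf 0 9844 0) (P.cons (P.lf 0 4242 0) P.nil))) (P.cons (P.cons (P.lf 0 72122 0) (P.cons (P.lf 2510 0 0) P.nil)) (P.cons (P.cons (P.lf 0 628 0) P.nil) P.nil)))))) 6740)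
 EL.nil)
noncomputable def S82_96_216_364_41 : EL := (EL.cons 14 (TM.mk (P.cons (P.cons (P.lf 1585305628 0 0) (P.cons (P.lf 16945428 0 0) (P.cons (P.lf 7352338 0 0) (P.cons (P.lf 0 772836 0) (P.cons (P.lf 4080 0 0) (P.cons (P.lf 0 1868 0) P.nil)))))) (P.cons (P.cons (P.lf 0 304223876 0) (P.cons (P.lf 4480222 0 0) (P.cons (P.lf 1964556 0 0) (P.cons (P.lf 0 186510 0) (P.cons (P.lf 2940 0 0) P.nil))))) (P.cons (P.cons (P.lf 0 3765414 0) (P.cons (P.lf 56376 0 0) (P.cons (P.lf 34144 0 0) (P.cons (P.lf 5788 0 0) P.nil)))) (P.cons (P.cons (P.lf 2116524 0 0) (P.cons (P.lf 0 78738 0) (P.cons (P.lf 0 32390 0) P.nil))) (P.cons (P.cons (P.lf 72070 0 0) (P.cons (P.lf 0 7140 0) P.nil)) (P.cons (P.cons (P.lf 0 5894 0) P.nil) P.nil)))))) 24306)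
 EL.nil)
noncomputable def S82_96_216_364_42 : EL := (EL.cons 14 (TM.mk (P.cons (P.lf 0 5306201044 0) (P.cons (P.lf 203866432 0 0) (P.cons (P.lf 13035112 0 0) (P.cons (P.lf 0 58546 0) (P.cons (P.lf 0 21202 0) (P.cons (P.lf 0 592 0) P.nil)))))) 402)
 EL.nil)
noncomputable def S82_96_216_364_43 : EL := (EL.cons 14 (TM.mk (P.cons (P.cons (P.lf 2676582650 0 0) (P.cons (P.lf 14305078 0 0) (P.cons (P.lf 6168508 0 0) (P.lf 0 685386 0)))) (P.cons (P.cons (P.lf 0 325378190 0) (P.cons (P.lf 4788320 0 0) (P.cons (P.lf 2064776 0 0) (P.lf 0 229418 0)))) (P.cons (P.cons (P.lf 0 13744230 0) (P.cons (P.lf 467228 0 0) (P.cons (P.lf 201472 0 0) (P.lf 0 22380 0)))) (P.cons (P.cons (P.lf 1115292 0 0) (P.cons (P.lf 0 3778 0) (P.cons (P.lf 0 1630 0) P.nil))) (P.cons (P.cons (P.lf 73152 0 0) (P.cons (P.lf 0 2884 0) P.nil)) (P.cons (P.cons (P.lf 0 590 0) P.nil) P.nil)))))) 7024)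
 EL.nil)
noncomputable def S82_96_216_364_44 : EL := (EL.cons 14 (TM.mk (P.cons (P.cons (P.lf 0 1350136306 0) (P.cons (P.lf 0 14431688 0) (P.cons (P.lf 0 6261670 0) (P.cons (P.lf 658192 0 0) (P.cons (P.lf 0 3474 0) (P.cons (P.lf 1592 0 0) P.nil)))))) (P.cons (P.cons (P.lf 276385262 0 0) (P.cons (P.lf 0 3630786 0) (P.cons (P.lf 0 1592936 0) (P.cons (P.lf 150414 0 0) (P.cons (P.lf 0 2458 0) P.nil))))) (P.cons (P.cons (P.lf 1215684 0 0) (P.cons (P.lf 15036 0 0) (P.cons (P.lf 0 1496 0) (P.cons (P.lf 0 7610 0) P.nil)))) (P.cons (P.cons (P.lf 0 2070198 0) (P.cons (P.lf 71722 0 0) (P.cons (P.lf 29732 0 0) P.nil))) (P.cons (P.cons (P.lf 0 46826 0) (P.cons (P.lf 5348 0 0) P.nil)) (P.cons (P.cons (P.lf 7492 0 0) P.nil) P.nil)))))) 21768)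
 EL.nil)
noncomputable def S82_96_216_364_45 : EL := (EL.cons 14 (TM.mk (P.cons (P.cons (P.lf 0 1102505412 0) (P.cons (P.lf 0 17677120 0) (P.cons (P.lf 0 7717046 0) (P.cons (P.lf 765300 0 0) (P.cons (P.lf 0 8730 0) (P.cons (P.lf 3832 0 0) P.nil)))))) (P.cons (P.cons (P.lf 275001358 0 0) (P.cons (P.lf 0 3656696 0) (P.cons (P.lf 0 1639460 0) (P.cons (P.lf 120978 0 0) (P.cons (P.lf 0 5888 0) P.nil))))) (P.cons (P.cons (P.lf 0 3440260 0) (P.cons (P.lf 308082 0 0) (P.cons (P.lf 116768 0 0) (P.cons (P.lf 0 28732 0) P.nil)))) (P.cons (P.cons (P.lf 0 2516228 0) (P.cons (P.lf 115916 0 0) (P.cons (P.lf 48306 0 0) P.nil))) (P.cons (P.cons (P.lf 0 22542 0) (P.cons (P.lf 4412 0 0) P.nil)) (P.cons (P.cons (P.lf 12842 0 0) P.nil) P.nil)))))) 37036)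
 EL.nil)
noncomputable def S82_96_216_364_46 : EL := (EL.cons 15 (TM.mk (P.lf 4294967296 0 0) 0)
 EL.nil)
noncomputable def S82_96_216_364_47 : EL := (EL.cons 15 (TM.mk (P.cons (P.cons (P.lf 0 2166490650 0) (P.cons (P.lf 0 11578876 0) (P.cons (P.lf 0 4992940 0) (P.lf 554768 0 0)))) (P.cons (P.cons (P.lf 180131504 0 0) (P.cons (P.lf 0 4320648 0) (P.cons (P.lf 0 1863112 0) (P.lf 207012 0 0)))) (P.cons (P.cons (P.lf 12723480 0 0) (P.cons (P.lf 0 572632 0) (P.cons (P.lf 0 246924 0) (P.lf 27432 0 0)))) (P.cons (P.cons (P.lf 52508 0 0) (P.cons (P.lf 0 29428 0) (P.cons (P.lf 0 12688 0) P.nil))) (P.cons (P.cons (P.lf 0 19269 0) (P.cons (P.lf 0 108 0) P.nil)) (P.cons (P.cons (P.lf 0 751 0) P.nil) P.nil)))))) 2305)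
 EL.nil)
noncomputable def S82_96_216_364_48 : EL := (EL.cons 15 (TM.mk (P.cons (P.cons (P.lf 1092832939 0 0) (P.cons (P.lf 11681358 0 0) (P.cons (P.lf 5068347 0 0) (P.cons (P.lf 0 532757 0) (P.cons (P.lf 2813 0 0) (P.cons (P.lf 0 1289 0) P.nil)))))) (P.cons (P.cons (P.lf 0 181725816 0) (P.cons (P.lf 3387650 0 0) (P.cons (P.lf 1484089 0 0) (P.cons (P.lf 0 142218 0) (P.cons (P.lf 2099 0 0) P.nil))))) (P.cons (P.cons (P.lf 0 5281353 0) (P.cons (P.lf 146680 0 0) (P.cons (P.lf 70682 0 0) (P.cons (P.lf 0 612 0) P.nil)))) (P.cons (P.cons (P.lf 1014276 0 0) (P.cons (P.lf 0 44226 0) (P.cons (P.lf 0 17761 0) P.nil))) (P.cons (P.cons (P.lf 61536 0 0) (P.cons (P.lf 0 5753 0) P.nil)) (P.cons (P.cons (P.lf 0 547 0) P.nil) P.nil)))))) 14812)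
 EL.nil)
noncomputable def S82_96_216_364 : SL := (SL.cons S82_96_216_364_0 (SL.cons S82_96_216_364_1 (SL.cons S82_96_216_364_2 (SL.cons S82_96_216_364_3 (SL.cons S82_96_216_364_4 (SL.cons S82_96_216_364_5 (SL.cons S82_96_216_364_6 (SL.cons S82_96_216_364_7 (SL.cons S82_96_216_364_8 (SL.cons S82_96_216_364_9 (SL.cons S82_96_216_364_10 (SL.cons S82_96_216_364_11 (SL.cons S82_96_216_364_12 (SL.cons S82_96_216_364_13 (SL.cons S82_96_216_364_14 (SL.cons S82_96_216_364_15 (SL.cons S82_96_216_364_16 (SL.cons S82_96_216_364_17 (SL.cons S82_96_216_364_18 (SL.cons S82_96_216_364_19 (SL.cons S82_96_216_364_20 (SL.cons S82_96_216_364_21 (SL.cons S82_96_216_364_22 (SL.cons S82_96_216_364_23 (SL.cons S82_96_216_364_24 (SL.cons S82_96_216_364_25 (SL.cons S82_96_216_364_26 (SL.cons S82_96_216_364_27 (SL.cons S82_96_216_364_28 (SL.cons S82_96_216_364_29 (SL.cons S82_96_216_364_30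 (SL.cons S82_96_216_364_31 (SL.cons S82_96_216_364_32 (SL.cons S82_96_216_364_33 (SL.cons S82_96_216_364_34 (SL.cons S82_96_216_364_35 (SL.cons S82_96_216_364_36 (SL.cons S82_96_216_364_37 (SL.cons S82_96_216_364_38 (SL.cons S82_96_216_364_39 (SL.cons S82_96_216_364_40 (SL.cons S82_96_216_364_41 (SL.cons S82_96_216_364_42 (SL.cons S82_96_216_364_43 (SL.cons S82_96_216_364_44 (SL.cons S82_96_216_364_45 (SL.cons S82_96_216_364_46 (SL.cons S82_96_216_364_47 (SL.cons S82_96_216_364_48 SL.nil)))))))))))))))))))))))))))))))))))))))))))))))))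
noncomputable def S82_111_216_290_0 : EL := (EL.cons 0 (TM.mk (P.cons (P.lf 3141443055 0 0) (P.cons (P.lf 334885157 0 0) (P.cons (P.lf 43314278 0 0) (P.cons (P.lf 451103 0 0) (P.cons (P.lf 0 186969 0) (P.cons (P.lf 0 14783 0) P.nil)))))) 1615)
 (EL.cons 1 (TM.mk (P.cons (P.lf 0 1170850837 0) (P.cons (P.lf 0 233327645 0) (P.cons (P.lf 10098210 0 0) (P.cons (P.lf 2078180 0 0) (P.cons (P.lf 90420 0 0) (P.cons (P.lf 0 2872 0) P.nil)))))) 983)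
 (EL.cons 5 (TM.mk (P.cons (P.lf 6184486878 0 0) (P.cons (P.lf 0 119070280 0) (P.cons (P.lf 0 15400634 0) (P.cons (P.lf 0 160396 0) (P.cons (P.lf 66480 0 0) (P.cons (P.lf 5256 0 0) P.nil)))))) 413)
 (EL.cons 9 (TM.mk (P.lf 6442450944 0 0) 2)
 EL.nil))))
noncomputable def S82_111_216_290_1 : EL := (EL.cons 0 (TM.mk (P.cons (P.cons (P.lf 0 3756351663 0) (P.cons (P.lf 13421711 0 0) (P.cons (P.lf 6335861 0 0) (P.lf 0 301694 0)))) (P.cons (P.cons (P.lf 0 758742009 0) (P.cons (P.lf 7888273 0 0) (P.cons (P.lf 3723734 0 0) (P.lf 0 177309 0)))) (P.cons (P.cons (P.lf 16573694 0 0) (P.cons (P.lf 1120187 0 0) (P.cons (P.lf 528793 0 0) (P.lf 0 25168 0)))) (P.cons (P.cons (P.lf 30468435 0 0) (P.cons (P.lf 0 158232 0) (P.cons (P.lf 0 74696 0) P.nil))) (P.cons (P.cons (P.lf 2809592 0 0) (P.cons (P.lf 0 55089 0) P.nil)) (P.cons (P.cons (P.lf 0 132720 0) P.nil) P.nil)))))) 152329)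
 (EL.cons 1 (TM.mk (P.cons (P.cons (P.lf 2154493737 0 0) (P.cons (P.lf 0 10418687 0) (P.cons (P.lf 0 4918260 0) (P.lf 234204 0 0)))) (P.cons (P.cons (P.lf 71501358 0 0) (P.cons (P.lf 0 2214252 0) (P.cons (P.lf 0 1045263 0) (P.lf 49775 0 0)))) (P.cons (P.cons (P.lf 0 143952179 0) (P.cons (P.lf 845049 0 0) (P.cons (P.lf 398914 0 0) (P.lf 0 18993 0)))) (P.cons (P.cons (P.lf 0 11043126 0) (P.cons (P.lf 258156 0 0) (P.cons (P.lf 121862 0 0) P.nil))) (P.cons (P.cons (P.lf 1505161 0 0) (P.cons (P.lf 10500 0 0) P.nil)) (P.cons (P.cons (P.lf 253619 0 0) P.nil) P.nil)))))) 59126)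
 (EL.cons 5 (TM.mk (P.cons (P.cons (P.lf 0 1983353711 0) (P.cons (P.lf 0 12427432 0) (P.cons (P.lf 0 5866506 0) (P.lf 279354 0 0)))) (P.cons (P.cons (P.lf 1008073985 0 0) (P.cons (P.lf 0 8104964 0) (P.cons (P.lf 0 3826032 0) (P.lf 182190 0 0)))) (P.cons (P.cons (P.lf 88991956 0 0) (P.cons (P.lf 0 1695444 0) (P.cons (P.lf 0 800356 0) (P.lf 38114 0 0)))) (P.cons (P.cons (P.lf 0 11249005 0) (P.cons (P.lf 0 62044 0) (P.cons (P.lf 0 29288 0) P.nil))) (P.cons (P.cons (P.lf 0 1732470 0) (P.cons (P.lf 20778 0 0) P.nil)) (P.cons (P.cons (P.lf 0 3802 0) P.nil) P.nil)))))) 49264)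
 (EL.cons 9 (TM.mk (P.cons (P.cons (P.lf 0 2928481245 0) (P.cons (P.lf 0 6754644 0) (P.cons (P.lf 0 3188604 0) (P.lf 151836 0 0)))) (P.cons (P.cons (P.lf 651440329 0 0) (P.cons (P.lf 0 4676682 0) (P.cons (P.lf 0 2207676 0) (P.lf 105126 0 0)))) (P.cons (P.cons (P.lf 83721900 0 0) (P.cons (P.lf 0 1144542 0) (P.cons (P.lf 0 540294 0) (P.lf 25728 0 0)))) (P.cons (P.cons (P.lf 0 366877 0) (P.cons (P.lf 0 104382 0) (P.cons (P.lf 0 49272 0) P.nil))) (P.cons (P.cons (P.lf 0 647200 0) (P.cons (P.lf 1050 0 0) P.nil)) (P.cons (P.cons (P.lf 0 44982 0) P.nil) P.nil)))))) 12896)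
 (EL.cons 2 (TM.mk (P.cons (P.cons (P.lf 61660200 0 0) (P.cons (P.lf 60799561 0 0) (P.cons (P.lf 0 1902473 0) (P.cons (P.lf 0 348617 0) (P.lf 12448 0 0))))) (P.cons (P.cons (P.lf 26518134 0 0) (P.cons (P.lf 26148000 0 0) (P.cons (P.lf 0 818192 0) (P.cons (P.lf 0 149928 0) (P.lf 5352 0 0))))) (P.cons (P.cons (P.lf 2502517 0 0) (P.cons (P.lf 2467586 0 0) (P.cons (P.lf 0 77208 0) (P.cons (P.lf 0 14146 0) P.nil)))) (P.cons (P.cons (P.lf 0 219259 0) (P.cons (P.lf 0 216199 0) (P.cons (P.lf 6764 0 0) P.nil))) (P.cons (P.cons (P.lf 0 39155 0) (P.cons (P.lf 0 38607 0) P.nil)) (P.cons (P.cons (P.lf 0 1544 0) P.nil) P.nil)))))) 7595)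
 (EL.cons 6 (TM.mk (P.cons (P.cons (P.lf 13585092 0 0) (P.cons (P.lf 13395474 0 0) (P.cons (P.lf 0 419157 0) (P.cons (P.lf 0 76806 0) (P.lf 2742 0 0))))) (P.cons (P.cons (P.lf 9405849 0 0) (P.cons (P.lf 9274563 0 0) (P.cons (P.lf 0 290208 0) (P.cons (P.lf 0 53178 0) (P.lf 1896 0 0))))) (P.cons (P.cons (P.lf 2301939 0 0) (P.cons (P.lf 2269809 0 0) (P.cons (P.lf 0 71022 0) (P.cons (P.lf 0 13014 0) P.nil)))) (P.cons (P.cons (P.lf 209940 0 0) (P.cons (P.lf 207009 0 0) (P.cons (P.lf 0 6477 0) P.nil))) (P.cons (P.cons (P.lf 0 2115 0) (P.cons (P.lf 0 2085 0) P.nil)) (P.cons (P.cons (P.lf 0 1632 0) P.nil) P.nil)))))) 4284)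
 EL.nil))))))
noncomputable def S82_111_216_290_2 : EL := (EL.cons 0 (TM.mk (P.cons (P.cons (P.lf 2765874939 0 0) (P.cons (P.lf 0 7319531 0) (P.cons (P.lf 0 3486863 0) (P.cons (P.lf 134693 0 0) (P.cons (P.lf 0 5617 0) (P.cons (P.lf 668 0 0) P.nil)))))) (P.cons (P.cons (P.lf 149715815 0 0) (P.cons (P.lf 861259 0 0) (P.cons (P.lf 365395 0 0) (P.cons (P.lf 0 58231 0) (P.cons (P.lf 0 7318 0) P.nil))))) (P.cons (P.cons (P.lf 0 239311560 0) (P.cons (P.lf 3175327 0 0) (P.cons (P.lf 1476986 0 0) (P.cons (P.lf 0 92098 0) P.nil)))) (P.cons (P.cons (P.lf 0 47637840 0) (P.cons (P.lf 987095 0 0) (P.cons (P.lf 460150 0 0) P.nil))) (P.cons (P.cons (P.lf 3349642 0 0) (P.cons (P.lf 49183 0 0) P.nil)) (P.cons (P.cons (P.lf 1519509 0 0) P.nil) P.nil)))))) 657389)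
 (EL.cons 1 (TM.mk (P.cons (P.cons (P.lf 0 1716766911 0) (P.cons (P.lf 6070069 0 0) (P.cons (P.lf 2888584 0 0) (P.cons (P.lf 0 114615 0) (P.cons (P.lf 4117 0 0) (P.cons (P.lf 0 492 0) P.nil)))))) (P.cons (P.cons (P.lf 311285949 0 0) (P.cons (P.lf 0 2625037 0) (P.cons (P.lf 0 1217363 0) (P.cons (P.lf 79588 0 0) (P.cons (P.lf 3879 0 0) P.nil))))) (P.cons (P.cons (P.lf 175929555 0 0) (P.cons (P.lf 0 1974110 0) (P.cons (P.lf 0 925357 0) (P.cons (P.lf 50550 0 0) P.nil)))) (P.cons (P.cons (P.lf 0 14193756 0) (P.cons (P.lf 0 39437 0) (P.cons (P.lf 0 18726 0) P.nil))) (P.cons (P.cons (P.lf 0 6679216 0) (P.cons (P.lf 110088 0 0) P.nil)) (P.cons (P.cons (P.lf 0 216166 0) P.nil) P.nil)))))) 311924)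
 (EL.cons 5 (TM.mk (P.cons (P.cons (P.lf 525238009 0 0) (P.cons (P.lf 9562050 0 0) (P.cons (P.lf 4533125 0 0) (P.cons (P.lf 0 196760 0) (P.cons (P.lf 3416 0 0) (P.cons (P.lf 0 410 0) P.nil)))))) (P.cons (P.cons (P.lf 0 724434888 0) (P.cons (P.lf 2964183 0 0) (P.cons (P.lf 1425025 0 0) (P.cons (P.lf 0 42326 0) (P.cons (P.lf 4579 0 0) P.nil))))) (P.cons (P.cons (P.lf 73481311 0 0) (P.cons (P.lf 0 1220586 0) (P.cons (P.lf 0 561804 0) (P.cons (P.lf 40999 0 0) P.nil)))) (P.cons (P.cons (P.lf 36504803 0 0) (P.cons (P.lf 0 642627 0) (P.cons (P.lf 0 299155 0) P.nil))) (P.cons (P.cons (P.lf 624837 0 0) (P.cons (P.lf 0 74063 0) P.nil)) (P.cons (P.cons (P.lf 0 653054 0) P.nil) P.nil)))))) 246647)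
 (EL.cons 9 (TM.mk (P.cons (P.cons (P.lf 1331170771 0 0) (P.cons (P.lf 6140782 0 0) (P.cons (P.lf 2905905 0 0) (P.cons (P.lf 0 131350 0) (P.cons (P.lf 1258 0 0) (P.cons (P.lf 0 150 0) P.nil)))))) (P.cons (P.cons (P.lf 0 592237582 0) (P.cons (P.lf 2885649 0 0) (P.cons (P.lf 1372005 0 0) (P.cons (P.lf 0 55606 0) (P.cons (P.lf 1743 0 0) P.nil))))) (P.cons (P.cons (P.lf 0 10241680 0) (P.cons (P.lf 0 80814 0) (P.cons (P.lf 0 32352 0) (P.cons (P.lf 7287 0 0) P.nil)))) (P.cons (P.cons (P.lf 17264923 0 0) (P.cons (P.lf 0 257349 0) (P.cons (P.lf 0 119605 0) P.nil))) (P.cons (P.cons (P.lf 1602183 0 0) (P.cons (P.lf 0 49921 0) P.nil)) (P.cons (P.cons (P.lf 0 99526 0) P.nil) P.nil)))))) 87179)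
 (EL.cons 2 (TM.mk (P.cons (P.cons (P.lf 0 56056533 0) (P.cons (P.lf 0 55403403 0) (P.cons (P.lf 1541047 0 0) (P.cons (P.lf 263643 0 0) (P.cons (P.lf 0 5833 0) (P.cons (P.lf 225 0 0) P.nil)))))) (P.cons (P.cons (P.lf 0 11638400 0) (P.cons (P.lf 0 11621081 0) (P.cons (P.lf 147481 0 0) (P.cons (P.lf 5985 0 0) (P.cons (P.lf 3796 0 0) P.nil))))) (P.cons (P.cons (P.lf 4690361 0 0) (P.cons (P.lf 4559236 0 0) (P.cons (P.lf 0 240451 0) (P.cons (P.lf 0 53578 0) P.nil)))) (P.cons (P.cons (P.lf 1387625 0 0) (P.cons (P.lf 1353667 0 0) (P.cons (P.lf 0 64091 0) P.nil))) (P.cons (P.cons (P.lf 40888 0 0) (P.cons (P.lf 38986 0 0) P.nil)) (P.cons (P.cons (P.lf 0 18686 0) P.nil) P.nil)))))) 64805)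
 (EL.cons 6 (TM.mk (P.cons (P.cons (P.lf 0 12350478 0) (P.cons (P.lf 0 12206580 0) (P.cons (P.lf 339522 0 0) (P.cons (P.lf 58086 0 0) (P.cons (P.lf 0 1284 0) (P.cons (P.lf 48 0 0) P.nil)))))) (P.cons (P.cons (P.lf 0 5803680 0) (P.cons (P.lf 0 5762118 0) (P.cons (P.lf 121548 0 0) (P.cons (P.lf 16554 0 0) (P.cons (P.lf 498 0 0) P.nil))))) (P.cons (P.cons (P.lf 162522 0 0) (P.cons (P.lf 136944 0 0) (P.cons (P.lf 0 39000 0) (P.cons (P.lf 0 10524 0) P.nil)))) (P.cons (P.cons (P.lf 517584 0 0) (P.cons (P.lf 502794 0 0) (P.cons (P.lf 0 26994 0) P.nil))) (P.cons (P.cons (P.lf 100404 0 0) (P.cons (P.lf 97584 0 0) P.nil)) (P.cons (P.cons (P.lf 4170 0 0) P.nil) P.nil)))))) 28620)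
 EL.nil))))))
noncomputable def S82_111_216_290_3 : EL := (EL.cons 0 (TM.mk (P.cons (P.lf 5314273808 0 0) (P.cons (P.lf 0 334885157 0) (P.cons (P.lf 0 43314278 0) (P.cons (P.lf 0 451103 0) (P.cons (P.lf 186969 0 0) (P.cons (P.lf 14783 0 0) P.nil)))))) 1615)
 (EL.cons 1 (TM.mk (P.cons (P.lf 1170850837 0 0) (P.cons (P.lf 233327645 0 0) (P.cons (P.lf 0 10098210 0) (P.cons (P.lf 0 2078180 0) (P.cons (P.lf 0 90420 0) (P.cons (P.lf 2872 0 0) P.nil)))))) 983)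
 (EL.cons 5 (TM.mk (P.cons (P.lf 257964066 0 0) (P.cons (P.lf 119070280 0 0) (P.cons (P.lf 15400634 0 0) (P.cons (P.lf 160396 0 0) (P.cons (P.lf 0 66480 0) (P.cons (P.lf 0 5256 0) P.nil)))))) 406)
 EL.nil)))
noncomputable def S82_111_216_290_4 : EL := (EL.cons 0 (TM.mk (P.cons (P.cons (P.lf 0 2415656914 0) (P.cons (P.lf 0 5571796 0) (P.cons (P.lf 0 2630227 0) (P.lf 125245 0 0)))) (P.cons (P.cons (P.lf 689588049 0 0) (P.cons (P.lf 0 3506605 0) (P.cons (P.lf 0 1655328 0) (P.lf 78823 0 0)))) (P.cons (P.cons (P.lf 54887255 0 0) (P.cons (P.lf 0 655600 0) (P.cons (P.lf 0 309483 0) (P.lf 14735 0 0)))) (P.cons (P.cons (P.lf 0 8829328 0) (P.cons (P.lf 5306 0 0) (P.cons (P.lf 2506 0 0) P.nil))) (P.cons (P.cons (P.lf 0 1208281 0) (P.cons (P.lf 14116 0 0) P.nil)) (P.cons (P.cons (P.lf 5326 0 0) P.nil) P.nil)))))) 33772)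
 (EL.cons 1 (TM.mk (P.cons (P.cons (P.lf 0 532222091 0) (P.cons (P.lf 0 1227586 0) (P.cons (P.lf 0 579495 0) (P.lf 27594 0 0)))) (P.cons (P.cons (P.lf 12331303 0 0) (P.cons (P.lf 0 1094572 0) (P.cons (P.lf 0 516705 0) (P.lf 24603 0 0)))) (P.cons (P.cons (P.lf 43399215 0 0) (P.cons (P.lf 0 366796 0) (P.cons (P.lf 0 173150 0) (P.lf 8244 0 0)))) (P.cons (P.cons (P.lf 2889056 0 0) (P.cons (P.lf 0 50911 0) (P.cons (P.lf 0 24031 0) P.nil))) (P.cons (P.cons (P.lf 0 431175 0) (P.cons (P.lf 0 191 0) P.nil)) (P.cons (P.cons (P.lf 0 68493 0) P.nil) P.nil)))))) 12620)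
 (EL.cons 5 (TM.mk (P.cons (P.cons (P.lf 0 117260176 0) (P.cons (P.lf 0 270464 0) (P.cons (P.lf 0 127674 0) (P.lf 6078 0 0)))) (P.cons (P.cons (P.lf 0 28040086 0) (P.cons (P.lf 0 312100 0) (P.cons (P.lf 0 147330 0) (P.lf 7014 0 0)))) (P.cons (P.cons (P.lf 8391830 0 0) (P.cons (P.lf 0 148410 0) (P.cons (P.lf 0 70058 0) (P.lf 3334 0 0)))) (P.cons (P.cons (P.lf 3017022 0 0) (P.cons (P.lf 0 36680 0) (P.cons (P.lf 0 17314 0) P.nil))) (P.cons (P.cons (P.lf 213878 0 0) (P.cons (P.lf 0 4668 0) P.nil)) (P.cons (P.cons (P.lf 0 16886 0) P.nil) P.nil)))))) 8780)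
 EL.nil)))
noncomputable def S82_111_216_290_5 : EL := (EL.cons 0 (TM.mk (P.cons (P.cons (P.lf 1098061284 0 0) (P.cons (P.lf 5065432 0 0) (P.cons (P.lf 2397033 0 0) (P.cons (P.lf 0 108348 0) (P.cons (P.lf 1037 0 0) (P.cons (P.lf 0 123 0) P.nil)))))) (P.cons (P.cons (P.lf 0 557722835 0) (P.cons (P.lf 2061119 0 0) (P.cons (P.lf 980692 0 0) (P.cons (P.lf 0 39041 0) (P.cons (P.lf 1371 0 0) P.nil))))) (P.cons (P.cons (P.lf 13387106 0 0) (P.cons (P.lf 0 257946 0) (P.cons (P.lf 0 117541 0) (P.cons (P.lf 9783 0 0) P.nil)))) (P.cons (P.cons (P.lf 18662487 0 0) (P.cons (P.lf 0 227912 0) (P.cons (P.lf 0 106405 0) P.nil))) (P.cons (P.cons (P.lf 573124 0 0) (P.cons (P.lf 0 27281 0) P.nil)) (P.cons (P.cons (P.lf 0 294873 0) P.nil) P.nil)))))) 111017)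
 (EL.cons 1 (TM.mk (P.cons (P.cons (P.lf 241926933 0 0) (P.cons (P.lf 1116024 0 0) (P.cons (P.lf 528118 0 0) (P.cons (P.lf 0 23870 0) (P.cons (P.lf 226 0 0) (P.cons (P.lf 0 26 0) P.nil)))))) (P.cons (P.cons (P.lf 0 59421937 0) (P.cons (P.lf 746838 0 0) (P.cons (P.lf 354590 0 0) (P.cons (P.lf 0 14861 0) (P.cons (P.lf 361 0 0) P.nil))))) (P.cons (P.cons (P.lf 0 25397060 0) (P.cons (P.lf 80197 0 0) (P.cons (P.lf 39255 0 0) (P.cons (P.lf 0 483 0) P.nil)))) (P.cons (P.cons (P.lf 3265698 0 0) (P.cons (P.lf 0 56199 0) (P.cons (P.lf 0 25995 0) P.nil))) (P.cons (P.cons (P.lf 1104879 0 0) (P.cons (P.lf 0 19282 0) P.nil)) (P.cons (P.cons (P.lf 25085 0 0) P.nil) P.nil)))))) 46081)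
 (EL.cons 5 (TM.mk (P.cons (P.cons (P.lf 53301798 0 0) (P.cons (P.lf 245884 0 0) (P.cons (P.lf 116356 0 0) (P.cons (P.lf 0 5258 0) (P.cons (P.lf 50 0 0) (P.cons (P.lf 0 4 0) P.nil)))))) (P.cons (P.cons (P.lf 888926 0 0) (P.cons (P.lf 229038 0 0) (P.cons (P.lf 108644 0 0) (P.cons (P.lf 0 4652 0) (P.cons (P.lf 92 0 0) P.nil))))) (P.cons (P.cons (P.lf 0 8173752 0) (P.cons (P.lf 64776 0 0) (P.cons (P.lf 31008 0 0) (P.cons (P.lf 0 1048 0) P.nil)))) (P.cons (P.cons (P.lf 0 880576 0) (P.cons (P.lf 0 4746 0) (P.cons (P.lf 0 2034 0) P.nil))) (P.cons (P.cons (P.lf 330282 0 0) (P.cons (P.lf 0 6938 0) P.nil)) (P.cons (P.cons (P.lf 71668 0 0) P.nil) P.nil)))))) 16500)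
 EL.nil)))
noncomputable def S82_111_216_290_6 : EL := (EL.cons 12 (TM.mk (P.lf 8589934592 0 0) 0)
 (EL.cons 3 (TM.mk (P.cons (P.lf 0 3378211968 0) (P.cons (P.lf 106440982 0 0) (P.cons (P.lf 15444026 0 0) (P.cons (P.lf 629992 0 0) (P.cons (P.lf 0 4275 0) (P.cons (P.lf 0 1953 0) P.nil)))))) 352)
 (EL.cons 7 (TM.mk (P.cons (P.lf 0 744294039 0) (P.cons (P.lf 0 171774507 0) (P.cons (P.lf 0 2395646 0) (P.cons (P.lf 321494 0 0) (P.cons (P.lf 25565 0 0) (P.cons (P.lf 650 0 0) P.nil)))))) 203)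
 EL.nil)))
noncomputable def S82_111_216_290_7 : EL := (EL.cons 12 (TM.mk (P.cons (P.cons (P.lf 0 3904641660 0) (P.cons (P.lf 0 9006192 0) (P.cons (P.lf 0 4251472 0) (P.lf 202448 0 0)))) (P.cons (P.cons (P.lf 868587106 0 0) (P.cons (P.lf 0 6235576 0) (P.cons (P.lf 0 2943568 0) (P.lf 140168 0 0)))) (P.cons (P.cons (P.lf 111629200 0 0) (P.cons (P.lf 0 1526056 0) (P.cons (P.lf 0 720392 0) (P.lf 34304 0 0)))) (P.cons (P.cons (P.lf 0 489170 0) (P.cons (P.lf 0 139176 0) (P.cons (P.lf 0 65696 0) P.nil))) (P.cons (P.cons (P.lf 0 862934 0) (P.cons (P.lf 1400 0 0) P.nil)) (P.cons (P.cons (P.lf 0 59976 0) P.nil) P.nil)))))) 17170)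
 (EL.cons 3 (TM.mk (P.cons (P.cons (P.lf 3015718150 0 0) (P.cons (P.lf 0 7083830 0) (P.cons (P.lf 0 3344000 0) (P.lf 159234 0 0)))) (P.cons (P.cons (P.lf 244139684 0 0) (P.cons (P.lf 0 4681400 0) (P.cons (P.lf 0 2209902 0) (P.lf 105230 0 0)))) (P.cons (P.cons (P.lf 11013763 0 0) (P.cons (P.lf 0 1013400 0) (P.cons (P.lf 0 478386 0) (P.lf 22778 0 0)))) (P.cons (P.cons (P.lf 0 6423566 0) (P.cons (P.lf 0 47904 0) (P.cons (P.lf 0 22610 0) P.nil))) (P.cons (P.cons (P.lf 0 900159 0) (P.cons (P.lf 10942 0 0) P.nil)) (P.cons (P.cons (P.lf 0 17660 0) P.nil) P.nil)))))) 57167)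
 (EL.cons 7 (TM.mk (P.cons (P.cons (P.lf 0 2050288229 0) (P.cons (P.lf 17928205 0 0) (P.cons (P.lf 8463209 0 0) (P.lf 0 403011 0)))) (P.cons (P.cons (P.lf 0 393992740 0) (P.cons (P.lf 7554855 0 0) (P.cons (P.lf 3566353 0 0) (P.lf 0 169826 0)))) (P.cons (P.cons (P.lf 33897449 0 0) (P.cons (P.lf 644634 0 0) (P.cons (P.lf 304307 0 0) (P.lf 0 14492 0)))) (P.cons (P.cons (P.lf 6547383 0 0) (P.cons (P.lf 0 75839 0) (P.cons (P.lf 0 35802 0) P.nil))) (P.cons (P.cons (P.lf 36325 0 0) (P.cons (P.lf 0 10676 0) P.nil)) (P.cons (P.cons (P.lf 0 51509 0) P.nil) P.nil)))))) 30971)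
 (EL.cons 10 (TM.mk (P.cons (P.cons (P.lf 0 78393114 0) (P.cons (P.lf 0 77298918 0) (P.cons (P.lf 2418756 0 0) (P.cons (P.lf 443226 0 0) (P.lf 0 15828 0))))) (P.cons (P.cons (P.lf 0 36184458 0) (P.cons (P.lf 0 35679402 0) (P.cons (P.lf 1116441 0 0) (P.cons (P.lf 204582 0 0) (P.lf 0 7305 0))))) (P.cons (P.cons (P.lf 0 4680123 0) (P.cons (P.lf 0 4614798 0) (P.cons (P.lf 144399 0 0) (P.cons (P.lf 26460 0 0) P.nil)))) (P.cons (P.cons (P.lf 0 48741 0) (P.cons (P.lf 0 48060 0) (P.cons (P.lf 1503 0 0) P.nil))) (P.cons (P.cons (P.lf 20202 0 0) (P.cons (P.lf 19920 0 0) P.nil)) (P.cons (P.cons (P.lf 1596 0 0) P.nil) P.nil)))))) 3951)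
 EL.nil))))
noncomputable def S82_111_216_290_8 : EL := (EL.cons 12 (TM.mk (P.cons (P.cons (P.lf 1774894362 0 0) (P.cons (P.lf 8187710 0 0) (P.cons (P.lf 3874540 0 0) (P.cons (P.lf 0 175134 0) (P.cons (P.lf 1678 0 0) (P.cons (P.lf 0 200 0) P.nil)))))) (P.cons (P.cons (P.lf 0 789650110 0) (P.cons (P.lf 3847532 0 0) (P.cons (P.lf 1829340 0 0) (P.cons (P.lf 0 74142 0) (P.cons (P.lf 2324 0 0) P.nil))))) (P.cons (P.cons (P.lf 0 13655574 0) (P.cons (P.lf 0 107752 0) (P.cons (P.lf 0 43136 0) (P.cons (P.lf 9716 0 0) P.nil)))) (P.cons (P.cons (P.lf 23019898 0 0) (P.cons (P.lf 0 343132 0) (P.cons (P.lf 0 159474 0) P.nil))) (P.cons (P.cons (P.lf 2136244 0 0) (P.cons (P.lf 0 66562 0) P.nil)) (P.cons (P.cons (P.lf 0 132702 0) P.nil) P.nil)))))) 116210)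
 (EL.cons 3 (TM.mk (P.cons (P.cons (P.lf 0 2043627674 0) (P.cons (P.lf 3336366 0 0) (P.cons (P.lf 1593533 0 0) (P.cons (P.lf 0 57461 0) (P.cons (P.lf 3301 0 0) (P.cons (P.lf 0 391 0) P.nil)))))) (P.cons (P.cons (P.lf 55383998 0 0) (P.cons (P.lf 0 655214 0) (P.cons (P.lf 0 284177 0) (P.cons (P.lf 38447 0 0) (P.cons (P.lf 4466 0 0) P.nil))))) (P.cons (P.cons (P.lf 118964372 0 0) (P.cons (P.lf 0 1763387 0) (P.cons (P.lf 0 818128 0) (P.cons (P.lf 53140 0 0) P.nil)))) (P.cons (P.cons (P.lf 24580970 0 0) (P.cons (P.lf 0 610379 0) (P.cons (P.lf 0 283805 0) P.nil))) (P.cons (P.cons (P.lf 0 189937 0) (P.cons (P.lf 0 65651 0) P.nil)) (P.cons (P.cons (P.lf 0 544392 0) P.nil) P.nil)))))) 298861)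
 (EL.cons 7 (TM.mk (P.cons (P.cons (P.lf 2017748188 0 0) (P.cons (P.lf 0 11290166 0) (P.cons (P.lf 0 5366424 0) (P.cons (P.lf 219072 0 0) (P.cons (P.lf 0 6541 0) (P.cons (P.lf 779 0 0) P.nil)))))) (P.cons (P.cons (P.lf 0 89378698 0) (P.cons (P.lf 1057371 0 0) (P.cons (P.lf 458591 0 0) (P.cons (P.lf 0 62050 0) (P.cons (P.lf 0 7206 0) P.nil))))) (P.cons (P.cons (P.lf 0 180262882 0) (P.cons (P.lf 2707070 0 0) (P.cons (P.lf 1260144 0 0) (P.cons (P.lf 0 77611 0) P.nil)))) (P.cons (P.cons (P.lf 0 7668895 0) (P.cons (P.lf 505989 0 0) (P.cons (P.lf 235187 0 0) P.nil))) (P.cons (P.cons (P.lf 3294800 0 0) (P.cons (P.lf 0 15691 0) P.nil)) (P.cons (P.cons (P.lf 368641 0 0) P.nil) P.nil)))))) 186643)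
 (EL.cons 10 (TM.mk (P.cons (P.cons (P.lf 71268762 0 0) (P.cons (P.lf 70438392 0 0) (P.cons (P.lf 0 1959246 0) (P.cons (P.lf 0 335196 0) (P.cons (P.lf 7422 0 0) (P.cons (P.lf 0 288 0) P.nil)))))) (P.cons (P.cons (P.lf 17042292 0 0) (P.cons (P.lf 16994106 0 0) (P.cons (P.lf 0 249234 0) (P.cons (P.lf 0 18174 0) (P.cons (P.lf 0 4596 0) P.nil))))) (P.cons (P.cons (P.lf 0 5100408 0) (P.cons (P.lf 0 4939020 0) (P.cons (P.lf 288894 0 0) (P.cons (P.lf 66012 0 0) P.nil)))) (P.cons (P.cons (P.lf 0 1833696 0) (P.cons (P.lf 0 1785810 0) (P.cons (P.lf 89082 0 0) P.nil))) (P.cons (P.cons (P.lf 0 129990 0) (P.cons (P.lf 0 125334 0) P.nil)) (P.cons (P.cons (P.lf 10260 0 0) P.nil) P.nil)))))) 66798)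
 EL.nil))))
noncomputable def S82_111_216_290_9 : EL := (EL.cons 3 (TM.mk (P.cons (P.lf 0 3378211968 0) (P.cons (P.lf 106440982 0 0) (P.cons (P.lf 15444026 0 0) (P.cons (P.lf 629992 0 0) (P.cons (P.lf 0 4275 0) (P.cons (P.lf 0 1953 0) P.nil)))))) 352)
 (EL.cons 7 (TM.mk (P.cons (P.lf 0 744294039 0) (P.cons (P.lf 0 171774507 0) (P.cons (P.lf 0 2395646 0) (P.cons (P.lf 321494 0 0) (P.cons (P.lf 25565 0 0) (P.cons (P.lf 650 0 0) P.nil)))))) 203)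
 EL.nil))
noncomputable def S82_111_216_290_10 : EL := (EL.cons 3 (TM.mk (P.cons (P.cons (P.lf 1535600422 0 0) (P.cons (P.lf 3541915 0 0) (P.cons (P.lf 1672000 0 0) (P.lf 0 79617 0)))) (P.cons (P.cons (P.lf 0 389977969 0) (P.cons (P.lf 2340700 0 0) (P.cons (P.lf 1104951 0 0) (P.lf 0 52615 0)))) (P.cons (P.cons (P.lf 0 40158305 0) (P.cons (P.lf 506700 0 0) (P.cons (P.lf 239193 0 0) (P.lf 0 11389 0)))) (P.cons (P.cons (P.lf 2850898 0 0) (P.cons (P.lf 23952 0 0) (P.cons (P.lf 11305 0 0) P.nil))) (P.cons (P.cons (P.lf 599655 0 0) (P.cons (P.lf 0 5471 0) P.nil)) (P.cons (P.cons (P.lf 20656 0 0) P.nil) P.nil)))))) 13690)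
 (EL.cons 7 (TM.mk (P.cons (P.cons (P.lf 338326384 0 0) (P.cons (P.lf 780361 0 0) (P.cons (P.lf 368378 0 0) (P.lf 0 17541 0)))) (P.cons (P.cons (P.lf 2821172 0 0) (P.cons (P.lf 720393 0 0) (P.cons (P.lf 340069 0 0) (P.lf 0 16193 0)))) (P.cons (P.cons (P.lf 0 25952692 0) (P.cons (P.lf 259434 0 0) (P.cons (P.lf 122468 0 0) (P.lf 0 5831 0)))) (P.cons (P.cons (P.lf 0 2578263 0) (P.cons (P.lf 43978 0 0) (P.cons (P.lf 20760 0 0) P.nil))) (P.cons (P.cons (P.lf 74308 0 0) (P.cons (P.lf 2827 0 0) P.nil)) (P.cons (P.cons (P.lf 29056 0 0) P.nil) P.nil)))))) 6493)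
 EL.nil))
noncomputable def S82_111_216_290_11 : EL := (EL.cons 3 (TM.mk (P.cons (P.cons (P.lf 0 698022704 0) (P.cons (P.lf 0 3220026 0) (P.cons (P.lf 0 1523761 0) (P.cons (P.lf 68875 0 0) (P.cons (P.lf 0 659 0) (P.cons (P.lf 77 0 0) P.nil)))))) (P.cons (P.cons (P.lf 332543504 0 0) (P.cons (P.lf 0 1411682 0) (P.cons (P.lf 0 671423 0) (P.cons (P.lf 26987 0 0) (P.cons (P.lf 0 892 0) P.nil))))) (P.cons (P.cons (P.lf 0 1223314 0) (P.cons (P.lf 104773 0 0) (P.cons (P.lf 46598 0 0) (P.cons (P.lf 0 5054 0) P.nil)))) (P.cons (P.cons (P.lf 0 10511932 0) (P.cons (P.lf 141127 0 0) (P.cons (P.lf 65755 0 0) P.nil))) (P.cons (P.cons (P.lf 0 638233 0) (P.cons (P.lf 22009 0 0) P.nil)) (P.cons (P.cons (P.lf 119034 0 0) P.nil) P.nil)))))) 59721)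
 (EL.cons 7 (TM.mk (P.cons (P.cons (P.lf 0 153789680 0) (P.cons (P.lf 0 709442 0) (P.cons (P.lf 0 335718 0) (P.cons (P.lf 15174 0 0) (P.cons (P.lf 0 145 0) (P.cons (P.lf 17 0 0) P.nil)))))) (P.cons (P.cons (P.lf 32928104 0 0) (P.cons (P.lf 0 497109 0) (P.cons (P.lf 0 235987 0) (P.cons (P.lf 9926 0 0) (P.cons (P.lf 0 234 0) P.nil))))) (P.cons (P.cons (P.lf 16478996 0 0) (P.cons (P.lf 0 69886 0) (P.cons (P.lf 0 33924 0) (P.cons (P.lf 689 0 0) P.nil)))) (P.cons (P.cons (P.lf 0 1434883 0) (P.cons (P.lf 31119 0 0) (P.cons (P.lf 14315 0 0) P.nil))) (P.cons (P.cons (P.lf 0 665896 0) (P.cons (P.lf 12827 0 0) P.nil)) (P.cons (P.cons (P.lf 0 40367 0) P.nil) P.nil)))))) 22023)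
 EL.nil))
noncomputable def S82_111_216_290_12 : EL := (EL.cons 4 (TM.mk (P.cons (P.lf 3378211968 0 0) (P.cons (P.lf 0 106440982 0) (P.cons (P.lf 0 15444026 0) (P.cons (P.lf 0 629992 0) (P.cons (P.lf 4275 0 0) (P.cons (P.lf 1953 0 0) P.nil)))))) 352)
 (EL.cons 8 (TM.mk (P.cons (P.lf 744294039 0 0) (P.cons (P.lf 171774507 0 0) (P.cons (P.lf 2395646 0 0) (P.cons (P.lf 0 321494 0) (P.cons (P.lf 0 25565 0) (P.cons (P.lf 0 650 0) P.nil)))))) 203)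
 EL.nil))
noncomputable def S82_111_216_290_13 : EL := (EL.cons 4 (TM.mk (P.cons (P.cons (P.lf 0 1535600422 0) (P.cons (P.lf 0 3541915 0) (P.cons (P.lf 0 1672000 0) (P.lf 79617 0 0)))) (P.cons (P.cons (P.lf 389977969 0 0) (P.cons (P.lf 0 2340700 0) (P.cons (P.lf 0 1104951 0) (P.lf 52615 0 0)))) (P.cons (P.cons (P.lf 40158305 0 0) (P.cons (P.lf 0 506700 0) (P.cons (P.lf 0 239193 0) (P.lf 11389 0 0)))) (P.cons (P.cons (P.lf 0 2850898 0) (P.cons (P.lf 0 23952 0) (P.cons (P.lf 0 11305 0) P.nil))) (P.cons (P.cons (P.lf 0 599655 0) (P.cons (P.lf 5471 0 0) P.nil)) (P.cons (P.cons (P.lf 0 20656 0) P.nil) P.nil)))))) 13690)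
 (EL.cons 8 (TM.mk (P.cons (P.cons (P.lf 0 338326384 0) (P.cons (P.lf 0 780361 0) (P.cons (P.lf 0 368378 0) (P.lf 17541 0 0)))) (P.cons (P.cons (P.lf 0 2821172 0) (P.cons (P.lf 0 720393 0) (P.cons (P.lf 0 340069 0) (P.lf 16193 0 0)))) (P.cons (P.cons (P.lf 25952692 0 0) (P.cons (P.lf 0 259434 0) (P.cons (P.lf 0 122468 0) (P.lf 5831 0 0)))) (P.cons (P.cons (P.lf 2578263 0 0) (P.cons (P.lf 0 43978 0) (P.cons (P.lf 0 20760 0) P.nil))) (P.cons (P.cons (P.lf 0 74308 0) (P.cons (P.lf 0 2827 0) P.nil)) (P.cons (P.cons (P.lf 0 29056 0) P.nil) P.nil)))))) 6493)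
 EL.nil))
noncomputable def S82_111_216_290_14 : EL := (EL.cons 4 (TM.mk (P.cons (P.cons (P.lf 698022704 0 0) (P.cons (P.lf 3220026 0 0) (P.cons (P.lf 1523761 0 0) (P.cons (P.lf 0 68875 0) (P.cons (P.lf 659 0 0) (P.cons (P.lf 0 77 0) P.nil)))))) (P.cons (P.cons (P.lf 0 332543504 0) (P.cons (P.lf 1411682 0 0) (P.cons (P.lf 671423 0 0) (P.cons (P.lf 0 26987 0) (P.cons (P.lf 892 0 0) P.nil))))) (P.cons (P.cons (P.lf 1223314 0 0) (P.cons (P.lf 0 104773 0) (P.cons (P.lf 0 46598 0) (P.cons (P.lf 5054 0 0) P.nil)))) (P.cons (P.cons (P.lf 10511932 0 0) (P.cons (P.lf 0 141127 0) (P.cons (P.lf 0 65755 0) P.nil))) (P.cons (P.cons (P.lf 638233 0 0) (P.cons (P.lf 0 22009 0) P.nil)) (P.cons (P.cons (P.lf 0 119034 0) P.nil) P.nil)))))) 59721)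
 (EL.cons 8 (TM.mk (P.cons (P.cons (P.lf 153789680 0 0) (P.cons (P.lf 709442 0 0) (P.cons (P.lf 335718 0 0) (P.cons (P.lf 0 15174 0) (P.cons (P.lf 145 0 0) (P.cons (P.lf 0 17 0) P.nil)))))) (P.cons (P.cons (P.lf 0 32928104 0) (P.cons (P.lf 497109 0 0) (P.cons (P.lf 235987 0 0) (P.cons (P.lf 0 9926 0) (P.cons (P.lf 234 0 0) P.nil))))) (P.cons (P.cons (P.lf 0 16478996 0) (P.cons (P.lf 69886 0 0) (P.cons (P.lf 33924 0 0) (P.cons (P.lf 0 689 0) P.nil)))) (P.cons (P.cons (P.lf 1434883 0 0) (P.cons (P.lf 0 31119 0) (P.cons (P.lf 0 14315 0) P.nil))) (P.cons (P.cons (P.lf 665896 0 0) (P.cons (P.lf 0 12827 0) P.nil)) (P.cons (P.cons (P.lf 40367 0 0) P.nil) P.nil)))))) 22023)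
 EL.nil))
noncomputable def S82_111_216_290_15 : EL := (EL.cons 4 (TM.mk (P.cons (P.lf 0 2834279364 0) (P.cons (P.lf 178605417 0 0) (P.cons (P.lf 23100948 0 0) (P.cons (P.lf 240588 0 0) (P.cons (P.lf 0 99717 0) (P.cons (P.lf 0 7884 0) P.nil)))))) 864)
 (EL.cons 8 (TM.mk (P.cons (P.lf 0 624453780 0) (P.cons (P.lf 0 124441411 0) (P.cons (P.lf 5385712 0 0) (P.cons (P.lf 1108363 0 0) (P.cons (P.lf 48224 0 0) (P.cons (P.lf 0 1532 0) P.nil)))))) 521)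
 EL.nil))
noncomputable def S82_111_216_290_16 : EL := (EL.cons 4 (TM.mk (P.cons (P.cons (P.lf 1288350354 0 0) (P.cons (P.lf 2971624 0 0) (P.cons (P.lf 1402787 0 0) (P.lf 0 66797 0)))) (P.cons (P.cons (P.lf 0 367780292 0) (P.cons (P.lf 1870189 0 0) (P.cons (P.lf 882841 0 0) (P.lf 0 42039 0)))) (P.cons (P.cons (P.lf 0 29273203 0) (P.cons (P.lf 349653 0 0) (P.cons (P.lf 165058 0 0) (P.lf 0 7859 0)))) (P.cons (P.cons (P.lf 4708975 0 0) (P.cons (P.lf 0 2830 0) (P.cons (P.lf 0 1336 0) P.nil))) (P.cons (P.cons (P.lf 644416 0 0) (P.cons (P.lf 0 7529 0) P.nil)) (P.cons (P.cons (P.lf 0 2840 0) P.nil) P.nil)))))) 18020)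
 (EL.cons 8 (TM.mk (P.cons (P.cons (P.lf 283851782 0 0) (P.cons (P.lf 654713 0 0) (P.cons (P.lf 309064 0 0) (P.lf 0 14717 0)))) (P.cons (P.cons (P.lf 0 6576695 0) (P.cons (P.lf 583772 0 0) (P.cons (P.lf 275576 0 0) (P.lf 0 13122 0)))) (P.cons (P.cons (P.lf 0 23146248 0) (P.cons (P.lf 195625 0 0) (P.cons (P.lf 92347 0 0) (P.lf 0 4397 0)))) (P.cons (P.cons (P.lf 0 1540830 0) (P.cons (P.lf 27153 0 0) (P.cons (P.lf 12817 0 0) P.nil))) (P.cons (P.cons (P.lf 229960 0 0) (P.cons (P.lf 102 0 0) P.nil)) (P.cons (P.cons (P.lf 36530 0 0) P.nil) P.nil)))))) 6721)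
 EL.nil))
noncomputable def S82_111_216_290_17 : EL := (EL.cons 4 (TM.mk (P.cons (P.cons (P.lf 0 585632685 0) (P.cons (P.lf 0 2701563 0) (P.cons (P.lf 0 1278418 0) (P.cons (P.lf 57785 0 0) (P.cons (P.lf 0 553 0) (P.cons (P.lf 65 0 0) P.nil)))))) (P.cons (P.cons (P.lf 297452178 0 0) (P.cons (P.lf 0 1099263 0) (P.cons (P.lf 0 523035 0) (P.cons (P.lf 20821 0 0) (P.cons (P.lf 0 731 0) P.nil))))) (P.cons (P.cons (P.lf 0 7139790 0) (P.cons (P.lf 137571 0 0) (P.cons (P.lf 62688 0 0) (P.cons (P.lf 0 5218 0) P.nil)))) (P.cons (P.cons (P.lf 0 9953326 0) (P.cons (P.lf 121553 0 0) (P.cons (P.lf 56749 0 0) P.nil))) (P.cons (P.cons (P.lf 0 305666 0) (P.cons (P.lf 14550 0 0) P.nil)) (P.cons (P.cons (P.lf 157265 0 0) P.nil) P.nil)))))) 59219)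
 (EL.cons 8 (TM.mk (P.cons (P.cons (P.lf 0 129027698 0) (P.cons (P.lf 0 595213 0) (P.cons (P.lf 0 281663 0) (P.cons (P.lf 12731 0 0) (P.cons (P.lf 0 121 0) (P.cons (P.lf 14 0 0) P.nil)))))) (P.cons (P.cons (P.lf 31691700 0 0) (P.cons (P.lf 0 398314 0) (P.cons (P.lf 0 189115 0) (P.cons (P.lf 7926 0 0) (P.cons (P.lf 0 193 0) P.nil))))) (P.cons (P.cons (P.lf 13545099 0 0) (P.cons (P.lf 0 42772 0) (P.cons (P.lf 0 20936 0) (P.cons (P.lf 258 0 0) P.nil)))) (P.cons (P.cons (P.lf 0 1741706 0) (P.cons (P.lf 29973 0 0) (P.cons (P.lf 13864 0 0) P.nil))) (P.cons (P.cons (P.lf 0 589269 0) (P.cons (P.lf 10284 0 0) P.nil)) (P.cons (P.cons (P.lf 0 13379 0) P.nil) P.nil)))))) 24565)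
 EL.nil))
noncomputable def S82_111_216_290_18 : EL := (EL.cons 4 (TM.mk (P.cons (P.lf 2377926426 0 0) (P.cons (P.lf 0 224771707 0) (P.cons (P.lf 0 25531065 0) (P.cons (P.lf 650420 0 0) (P.cons (P.lf 209580 0 0) (P.cons (P.lf 9701 0 0) P.nil)))))) 1817)
 (EL.cons 8 (TM.mk (P.cons (P.lf 523909239 0 0) (P.cons (P.lf 87897477 0 0) (P.cons (P.lf 0 10203278 0) (P.cons (P.lf 0 1362537 0) (P.cons (P.lf 0 9310 0) (P.cons (P.lf 8089 0 0) P.nil)))))) 965)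
 EL.nil))
noncomputable def S82_111_216_290_19 : EL := (EL.cons 4 (TM.mk (P.cons (P.cons (P.lf 0 1080910510 0) (P.cons (P.lf 0 2493157 0) (P.cons (P.lf 0 1176922 0) (P.lf 56042 0 0)))) (P.cons (P.cons (P.lf 342620676 0 0) (P.cons (P.lf 0 1490511 0) (P.cons (P.lf 0 703611 0) (P.lf 33504 0 0)))) (P.cons (P.cons (P.lf 19779181 0 0) (P.cons (P.lf 0 232519 0) (P.cons (P.lf 0 109763 0) (P.lf 5226 0 0)))) (P.cons (P.cons (P.lf 0 5933678 0) (P.cons (P.lf 19255 0 0) (P.cons (P.lf 9090 0 0) P.nil))) (P.cons (P.cons (P.lf 0 587366 0) (P.cons (P.lf 7873 0 0) P.nil)) (P.cons (P.cons (P.lf 32665 0 0) P.nil) P.nil)))))) 21401)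
 (EL.cons 8 (TM.mk (P.cons (P.cons (P.lf 0 238148244 0) (P.cons (P.lf 0 549297 0) (P.cons (P.lf 0 259301 0) (P.lf 12347 0 0)))) (P.cons (P.cons (P.lf 13021362 0 0) (P.cons (P.lf 0 472471 0) (P.cons (P.lf 0 223034 0) (P.lf 10620 0 0)))) (P.cons (P.cons (P.lf 20334302 0 0) (P.cons (P.lf 0 146184 0) (P.cons (P.lf 0 69007 0) (P.lf 3285 0 0)))) (P.cons (P.cons (P.lf 700055 0 0) (P.cons (P.lf 0 15268 0) (P.cons (P.lf 0 7207 0) P.nil))) (P.cons (P.cons (P.lf 0 323775 0) (P.cons (P.lf 1472 0 0) P.nil)) (P.cons (P.cons (P.lf 0 34232 0) P.nil) P.nil)))))) 6433)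
 EL.nil))
noncomputable def S82_111_216_290_20 : EL := (EL.cons 4 (TM.mk (P.cons (P.cons (P.lf 491338805 0 0) (P.cons (P.lf 2266579 0 0) (P.cons (P.lf 1072576 0 0) (P.cons (P.lf 0 48480 0) (P.cons (P.lf 464 0 0) (P.cons (P.lf 0 55 0) P.nil)))))) (P.cons (P.cons (P.lf 0 265039957 0) (P.cons (P.lf 850853 0 0) (P.cons (P.lf 405025 0 0) (P.cons (P.lf 0 15941 0) (P.cons (P.lf 599 0 0) P.nil))))) (P.cons (P.cons (P.lf 11607085 0 0) (P.cons (P.lf 0 154841 0) (P.cons (P.lf 0 71325 0) (P.cons (P.lf 5149 0 0) P.nil)))) (P.cons (P.cons (P.lf 9211250 0 0) (P.cons (P.lf 0 102984 0) (P.cons (P.lf 0 48161 0) P.nil))) (P.cons (P.cons (P.lf 13110 0 0) (P.cons (P.lf 0 8635 0) P.nil)) (P.cons (P.cons (P.lf 0 179349 0) P.nil) P.nil)))))) 58987)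
 (EL.cons 8 (TM.mk (P.cons (P.cons (P.lf 108252693 0 0) (P.cons (P.lf 499377 0 0) (P.cons (P.lf 236312 0 0) (P.cons (P.lf 0 10681 0) (P.cons (P.lf 102 0 0) (P.cons (P.lf 0 12 0) P.nil)))))) (P.cons (P.cons (P.lf 0 29999792 0) (P.cons (P.lf 318446 0 0) (P.cons (P.lf 151220 0 0) (P.cons (P.lf 0 6314 0) (P.cons (P.lf 158 0 0) P.nil))))) (P.cons (P.cons (P.lf 0 11021303 0) (P.cons (P.lf 23072 0 0) (P.cons (P.lf 11485 0 0) (P.cons (P.lf 41 0 0) P.nil)))) (P.cons (P.cons (P.lf 1920702 0 0) (P.cons (P.lf 0 27899 0) (P.cons (P.lf 0 12955 0) P.nil))) (P.cons (P.cons (P.lf 505396 0 0) (P.cons (P.lf 0 8061 0) P.nil)) (P.cons (P.cons (P.lf 0 8884 0) P.nil) P.nil)))))) 25123)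
 EL.nil))
noncomputable def S82_111_216_290_21 : EL := (EL.cons 4 (TM.mk (P.cons (P.cons (P.lf 0 1480117728 0) (P.cons (P.lf 10625745 0 0) (P.cons (P.lf 5016000 0 0) (P.lf 0 238851 0)))) (P.cons (P.cons (P.lf 0 634117653 0) (P.cons (P.lf 7022100 0 0) (P.cons (P.lf 3314853 0 0) (P.lf 0 157845 0)))) (P.cons (P.cons (P.lf 0 51172068 0) (P.cons (P.lf 1520100 0 0) (P.cons (P.lf 717579 0 0) (P.lf 0 34167 0)))) (P.cons (P.cons (P.lf 9274464 0 0) (P.cons (P.lf 71856 0 0) (P.cons (P.lf 33915 0 0) P.nil))) (P.cons (P.cons (P.lf 1499814 0 0) (P.cons (P.lf 0 16413 0) P.nil)) (P.cons (P.cons (P.lf 38316 0 0) P.nil) P.nil)))))) 43458)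
 (EL.cons 8 (TM.mk (P.cons (P.cons (P.lf 2388614613 0 0) (P.cons (P.lf 0 17147844 0) (P.cons (P.lf 0 8094831 0) (P.lf 385470 0 0)))) (P.cons (P.cons (P.lf 396813912 0 0) (P.cons (P.lf 0 6834462 0) (P.cons (P.lf 0 3226284 0) (P.lf 153633 0 0)))) (P.cons (P.cons (P.lf 0 59850141 0) (P.cons (P.lf 0 385200 0) (P.cons (P.lf 0 181839 0) (P.lf 8661 0 0)))) (P.cons (P.cons (P.lf 0 9125646 0) (P.cons (P.lf 119817 0 0) (P.cons (P.lf 56562 0 0) P.nil))) (P.cons (P.cons (P.lf 37983 0 0) (P.cons (P.lf 13503 0 0) P.nil)) (P.cons (P.cons (P.lf 80565 0 0) P.nil) P.nil)))))) 24459)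
 (EL.cons 11 (TM.mk (P.cons (P.cons (P.lf 78393114 0 0) (P.cons (P.lf 77298918 0 0) (P.cons (P.lf 0 2418756 0) (P.cons (P.lf 0 443226 0) (P.lf 15828 0 0))))) (P.cons (P.cons (P.lf 36184458 0 0) (P.cons (P.lf 35679402 0 0) (P.cons (P.lf 0 1116441 0) (P.cons (P.lf 0 204582 0) (P.lf 7305 0 0))))) (P.cons (P.cons (P.lf 4680123 0 0) (P.cons (P.lf 4614798 0 0) (P.cons (P.lf 0 144399 0) (P.cons (P.lf 0 26460 0) P.nil)))) (P.cons (P.cons (P.lf 48741 0 0) (P.cons (P.lf 48060 0 0) (P.cons (P.lf 0 1503 0) P.nil))) (P.cons (P.cons (P.lf 0 20202 0) (P.cons (P.lf 0 19920 0) P.nil)) (P.cons (P.cons (P.lf 0 1596 0) P.nil) P.nil)))))) 3951)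
 EL.nil)))
noncomputable def S82_111_216_290_22 : EL := (EL.cons 4 (TM.mk (P.cons (P.cons (P.lf 672802485 0 0) (P.cons (P.lf 0 3278196 0) (P.cons (P.lf 0 1558647 0) (P.cons (P.lf 63168 0 0) (P.cons (P.lf 0 1980 0) (P.cons (P.lf 234 0 0) P.nil)))))) (P.cons (P.cons (P.lf 138579753 0 0) (P.cons (P.lf 0 378234 0) (P.cons (P.lf 0 193623 0) (P.cons (P.lf 0 5730 0) (P.cons (P.lf 0 2679 0) P.nil))))) (P.cons (P.cons (P.lf 0 60093843 0) (P.cons (P.lf 934080 0 0) (P.cons (P.lf 432363 0 0) (P.cons (P.lf 0 29097 0) P.nil)))) (P.cons (P.cons (P.lf 0 17546451 0) (P.cons (P.lf 375753 0 0) (P.cons (P.lf 174780 0 0) P.nil))) (P.cons (P.cons (P.lf 0 224148 0) (P.cons (P.lf 43830 0 0) P.nil)) (P.cons (P.cons (P.lf 331713 0 0) P.nil) P.nil)))))) 119559)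
 (EL.cons 8 (TM.mk (P.cons (P.cons (P.lf 0 1085768934 0) (P.cons (P.lf 5290362 0 0) (P.cons (P.lf 2515353 0 0) (P.cons (P.lf 0 101949 0) (P.cons (P.lf 3198 0 0) (P.cons (P.lf 0 381 0) P.nil)))))) (P.cons (P.cons (P.lf 61153401 0 0) (P.cons (P.lf 0 777240 0) (P.cons (P.lf 0 347289 0) (P.cons (P.lf 35988 0 0) (P.cons (P.lf 3486 0 0) P.nil))))) (P.cons (P.cons (P.lf 98370939 0 0) (P.cons (P.lf 0 1388478 0) (P.cons (P.lf 0 647034 0) (P.cons (P.lf 39150 0 0) P.nil)))) (P.cons (P.cons (P.lf 3117006 0 0) (P.cons (P.lf 0 237435 0) (P.cons (P.lf 0 110436 0) P.nil))) (P.cons (P.cons (P.lf 0 1980348 0) (P.cons (P.lf 14259 0 0) P.nil)) (P.cons (P.cons (P.lf 0 204504 0) P.nil) P.nil)))))) 82299)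
 (EL.cons 11 (TM.mk (P.cons (P.cons (P.lf 0 35634381 0) (P.cons (P.lf 0 35219196 0) (P.cons (P.lf 979623 0 0) (P.cons (P.lf 167598 0 0) (P.cons (P.lf 0 3711 0) (P.cons (P.lf 144 0 0) P.nil)))))) (P.cons (P.cons (P.lf 0 8521146 0) (P.cons (P.lf 0 8497053 0) (P.cons (P.lf 124617 0 0) (P.cons (P.lf 9087 0 0) (P.cons (P.lf 2298 0 0) P.nil))))) (P.cons (P.cons (P.lf 2550204 0 0) (P.cons (P.lf 2469510 0 0) (P.cons (P.lf 0 144447 0) (P.cons (P.lf 0 33006 0) P.nil)))) (P.cons (P.cons (P.lf 916848 0 0) (P.cons (P.lf 892905 0 0) (P.cons (P.lf 0 44541 0) P.nil))) (P.cons (P.cons (P.lf 64995 0 0) (P.cons (P.lf 62667 0 0) P.nil)) (P.cons (P.cons (P.lf 0 5130 0) P.nil) P.nil)))))) 33399)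
 EL.nil)))
noncomputable def S82_111_216_290_23 : EL := (EL.cons 4 (TM.mk (P.cons (P.cons (P.lf 1241801037 0 0) (P.cons (P.lf 0 8914872 0) (P.cons (P.lf 0 4208361 0) (P.lf 200391 0 0)))) (P.cons (P.cons (P.lf 492890343 0 0) (P.cons (P.lf 0 5610567 0) (P.cons (P.lf 0 2648523 0) (P.lf 126114 0 0)))) (P.cons (P.cons (P.lf 20492823 0 0) (P.cons (P.lf 0 1048959 0) (P.cons (P.lf 0 495171 0) (P.lf 23574 0 0)))) (P.cons (P.cons (P.lf 0 11797671 0) (P.cons (P.lf 8493 0 0) (P.cons (P.lf 4011 0 0) P.nil))) (P.cons (P.cons (P.lf 0 1307073 0) (P.cons (P.lf 22587 0 0) P.nil)) (P.cons (P.cons (P.lf 36456 0 0) P.nil) P.nil)))))) 54216)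
 (EL.cons 8 (TM.mk (P.cons (P.cons (P.lf 0 2004019038 0) (P.cons (P.lf 14386833 0 0) (P.cons (P.lf 6791466 0 0) (P.lf 0 323403 0)))) (P.cons (P.cons (P.lf 0 269779317 0) (P.cons (P.lf 5280729 0 0) (P.cons (P.lf 2492826 0 0) (P.lf 0 118704 0)))) (P.cons (P.cons (P.lf 69864975 0 0) (P.cons (P.lf 76737 0 0) (P.cons (P.lf 36225 0 0) (P.lf 0 1725 0)))) (P.cons (P.cons (P.lf 7969902 0 0) (P.cons (P.lf 0 139602 0) (P.cons (P.lf 0 65901 0) P.nil))) (P.cons (P.cons (P.lf 0 443112 0) (P.cons (P.lf 0 10689 0) P.nil)) (P.cons (P.cons (P.lf 0 112533 0) P.nil) P.nil)))))) 30774)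
 (EL.cons 11 (TM.mk (P.cons (P.cons (P.lf 0 65770881 0) (P.cons (P.lf 0 64852866 0) (P.cons (P.lf 2029305 0 0) (P.cons (P.lf 371859 0 0) (P.lf 0 13278 0))))) (P.cons (P.cons (P.lf 0 28286010 0) (P.cons (P.lf 0 27891201 0) (P.cons (P.lf 872739 0 0) (P.cons (P.lf 159924 0 0) (P.lf 0 5709 0))))) (P.cons (P.cons (P.lf 0 2669352 0) (P.cons (P.lf 0 2632092 0) (P.cons (P.lf 82356 0 0) (P.cons (P.lf 15090 0 0) P.nil)))) (P.cons (P.cons (P.lf 233877 0 0) (P.cons (P.lf 230613 0 0) (P.cons (P.lf 0 7215 0) P.nil))) (P.cons (P.cons (P.lf 41766 0 0) (P.cons (P.lf 41181 0 0) P.nil)) (P.cons (P.cons (P.lf 1647 0 0) P.nil) P.nil)))))) 8079)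
 EL.nil)))
noncomputable def S82_111_216_290_24 : EL := (EL.cons 4 (TM.mk (P.cons (P.cons (P.lf 0 564473223 0) (P.cons (P.lf 2750367 0 0) (P.cons (P.lf 1307688 0 0) (P.cons (P.lf 0 52998 0) (P.cons (P.lf 1662 0 0) (P.cons (P.lf 0 198 0) P.nil)))))) (P.cons (P.cons (P.lf 0 98481282 0) (P.cons (P.lf 230676 0 0) (P.cons (P.lf 121245 0 0) (P.cons (P.lf 6477 0 0) (P.cons (P.lf 2196 0 0) P.nil))))) (P.cons (P.cons (P.lf 56661933 0 0) (P.cons (P.lf 0 806253 0) (P.cons (P.lf 0 373842 0) (P.cons (P.lf 24501 0 0) P.nil)))) (P.cons (P.cons (P.lf 13769484 0 0) (P.cons (P.lf 0 292521 0) (P.cons (P.lf 0 136194 0) P.nil))) (P.cons (P.cons (P.lf 0 485307 0) (P.cons (P.lf 0 23313 0) P.nil)) (P.cons (P.cons (P.lf 0 361404 0) P.nil) P.nil)))))) 115194)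
 (EL.cons 8 (TM.mk (P.cons (P.cons (P.lf 910947126 0 0) (P.cons (P.lf 0 4438548 0) (P.cons (P.lf 0 2110350 0) (P.cons (P.lf 85533 0 0) (P.cons (P.lf 0 2682 0) (P.cons (P.lf 318 0 0) P.nil)))))) (P.cons (P.cons (P.lf 0 80009166 0) (P.cons (P.lf 791943 0 0) (P.cons (P.lf 357864 0 0) (P.cons (P.lf 0 32886 0) (P.cons (P.lf 0 2841 0) P.nil))))) (P.cons (P.cons (P.lf 0 85079991 0) (P.cons (P.lf 1164663 0 0) (P.cons (P.lf 543321 0 0) (P.cons (P.lf 0 32286 0) P.nil)))) (P.cons (P.cons (P.lf 49971 0 0) (P.cons (P.lf 160347 0 0) (P.cons (P.lf 74613 0 0) P.nil))) (P.cons (P.cons (P.lf 2131914 0 0) (P.cons (P.lf 0 23694 0) P.nil)) (P.cons (P.cons (P.lf 147033 0 0) P.nil) P.nil)))))) 86394)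
 (EL.cons 11 (TM.mk (P.cons (P.cons (P.lf 29896818 0 0) (P.cons (P.lf 29548482 0 0) (P.cons (P.lf 0 821892 0) (P.cons (P.lf 0 140610 0) (P.cons (P.lf 3111 0 0) (P.cons (P.lf 0 120 0) P.nil)))))) (P.cons (P.cons (P.lf 6207147 0 0) (P.cons (P.lf 6197910 0 0) (P.cons (P.lf 0 78657 0) (P.cons (P.lf 0 3192 0) (P.cons (P.lf 0 2025 0) P.nil))))) (P.cons (P.cons (P.lf 0 2501526 0) (P.cons (P.lf 0 2431593 0) (P.cons (P.lf 128241 0 0) (P.cons (P.lf 28575 0 0) P.nil)))) (P.cons (P.cons (P.lf 0 740067 0) (P.cons (P.lf 0 721956 0) (P.cons (P.lf 34182 0 0) P.nil))) (P.cons (P.cons (P.lf 0 21807 0) (P.cons (P.lf 0 20793 0) P.nil)) (P.cons (P.cons (P.lf 9966 0 0) P.nil) P.nil)))))) 34551)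
 EL.nil)))
noncomputable def S82_111_216_290_25 : EL := (EL.cons 4 (TM.mk (P.cons (P.cons (P.lf 0 1041856191 0) (P.cons (P.lf 7479471 0 0) (P.cons (P.lf 3530766 0 0) (P.lf 0 168126 0)))) (P.cons (P.cons (P.lf 0 380702199 0) (P.cons (P.lf 4471533 0 0) (P.cons (P.lf 2110830 0 0) (P.lf 0 100512 0)))) (P.cons (P.cons (P.lf 599283 0 0) (P.cons (P.lf 697557 0 0) (P.cons (P.lf 329289 0 0) (P.lf 0 15678 0)))) (P.cons (P.cons (P.lf 12524634 0 0) (P.cons (P.lf 0 57768 0) (P.cons (P.lf 0 27273 0) P.nil))) (P.cons (P.cons (P.lf 939147 0 0) (P.cons (P.lf 0 23616 0) P.nil)) (P.cons (P.cons (P.lf 0 108309 0) P.nil) P.nil)))))) 57903)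
 (EL.cons 8 (TM.mk (P.cons (P.cons (P.lf 1681347960 0 0) (P.cons (P.lf 0 12070380 0) (P.cons (P.lf 0 5697957 0) (P.lf 271332 0 0)))) (P.cons (P.cons (P.lf 173365566 0 0) (P.cons (P.lf 0 4050153 0) (P.cons (P.lf 0 1911918 0) (P.lf 91044 0 0)))) (P.cons (P.cons (P.lf 0 73434012 0) (P.cons (P.lf 130392 0 0) (P.cons (P.lf 61551 0 0) (P.lf 0 2928 0)))) (P.cons (P.cons (P.lf 0 6188085 0) (P.cons (P.lf 141660 0 0) (P.cons (P.lf 66873 0 0) P.nil))) (P.cons (P.cons (P.lf 810339 0 0) (P.cons (P.lf 6381 0 0) P.nil)) (P.cons (P.cons (P.lf 125460 0 0) P.nil) P.nil)))))) 33924)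
 (EL.cons 11 (TM.mk (P.cons (P.cons (P.lf 55180983 0 0) (P.cons (P.lf 54410775 0 0) (P.cons (P.lf 0 1702563 0) (P.cons (P.lf 0 311985 0) (P.lf 11139 0 0))))) (P.cons (P.cons (P.lf 21992976 0 0) (P.cons (P.lf 21686004 0 0) (P.cons (P.lf 0 678573 0) (P.cons (P.lf 0 124344 0) (P.lf 4437 0 0))))) (P.cons (P.cons (P.lf 1239546 0 0) (P.cons (P.lf 1222245 0 0) (P.cons (P.lf 0 38241 0) (P.cons (P.lf 0 7005 0) P.nil)))) (P.cons (P.cons (P.lf 0 385566 0) (P.cons (P.lf 0 380187 0) (P.cons (P.lf 11895 0 0) P.nil))) (P.cons (P.cons (P.lf 0 43452 0) (P.cons (P.lf 0 42846 0) P.nil)) (P.cons (P.cons (P.lf 261 0 0) P.nil) P.nil)))))) 10368)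
 EL.nil)))
noncomputable def S82_111_216_290_26 : EL := (EL.cons 4 (TM.mk (P.cons (P.cons (P.lf 473586270 0 0) (P.cons (P.lf 0 2307525 0) (P.cons (P.lf 0 1097133 0) (P.cons (P.lf 44466 0 0) (P.cons (P.lf 0 1392 0) (P.cons (P.lf 165 0 0) P.nil)))))) (P.cons (P.cons (P.lf 67702821 0 0) (P.cons (P.lf 0 120828 0) (P.cons (P.lf 0 67155 0) (P.cons (P.lf 0 6834 0) (P.cons (P.lf 0 1797 0) P.nil))))) (P.cons (P.cons (P.lf 0 52307100 0) (P.cons (P.lf 693084 0 0) (P.cons (P.lf 321870 0 0) (P.cons (P.lf 0 20589 0) P.nil)))) (P.cons (P.cons (P.lf 0 10520628 0) (P.cons (P.lf 225423 0 0) (P.cons (P.lf 105054 0 0) P.nil))) (P.cons (P.cons (P.lf 973683 0 0) (P.cons (P.lf 8769 0 0) P.nil)) (P.cons (P.cons (P.lf 352443 0 0) P.nil) P.nil)))))) 106104)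
 (EL.cons 8 (TM.mk (P.cons (P.cons (P.lf 0 764273721 0) (P.cons (P.lf 3723888 0 0) (P.cons (P.lf 1770558 0 0) (P.cons (P.lf 0 71763 0) (P.cons (P.lf 2250 0 0) (P.cons (P.lf 0 267 0) P.nil)))))) (P.cons (P.cons (P.lf 91207533 0 0) (P.cons (P.lf 0 781764 0) (P.cons (P.lf 0 356031 0) (P.cons (P.lf 29853 0 0) (P.cons (P.lf 2313 0 0) P.nil))))) (P.cons (P.cons (P.lf 72760056 0 0) (P.cons (P.lf 0 973227 0) (P.cons (P.lf 0 454473 0) (P.cons (P.lf 26547 0 0) P.nil)))) (P.cons (P.cons (P.lf 0 2455359 0) (P.cons (P.lf 0 101400 0) (P.cons (P.lf 0 47193 0) P.nil))) (P.cons (P.cons (P.lf 0 2127144 0) (P.cons (P.lf 28713 0 0) P.nil)) (P.cons (P.cons (P.lf 0 80478 0) P.nil) P.nil)))))) 85035)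
 (EL.cons 11 (TM.mk (P.cons (P.cons (P.lf 0 25083072 0) (P.cons (P.lf 0 24790824 0) (P.cons (P.lf 689559 0 0) (P.cons (P.lf 117972 0 0) (P.cons (P.lf 0 2610 0) (P.cons (P.lf 102 0 0) P.nil)))))) (P.cons (P.cons (P.lf 0 4417401 0) (P.cons (P.lf 0 4418859 0) (P.cons (P.lf 44265 0 0) (P.cons (P.lf 0 1035 0) (P.cons (P.lf 1782 0 0) P.nil))))) (P.cons (P.cons (P.lf 2377506 0 0) (P.cons (P.lf 2317254 0 0) (P.cons (P.lf 0 112824 0) (P.cons (P.lf 0 24597 0) P.nil)))) (P.cons (P.cons (P.lf 583266 0 0) (P.cons (P.lf 569829 0 0) (P.cons (P.lf 0 25719 0) P.nil))) (P.cons (P.cons (P.lf 0 9921 0) (P.cons (P.lf 0 10026 0) P.nil)) (P.cons (P.cons (P.lf 0 12189 0) P.nil) P.nil)))))) 33309)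
 EL.nil)))
noncomputable def S82_111_216_290_27 : EL := (EL.cons 13 (TM.mk (P.lf 0 4294967296 0) 0)
 EL.nil)
noncomputable def S82_111_216_290_28 : EL := (EL.cons 13 (TM.mk (P.cons (P.cons (P.lf 1952320830 0 0) (P.cons (P.lf 4503096 0 0) (P.cons (P.lf 2125736 0 0) (P.lf 0 101224 0)))) (P.cons (P.cons (P.lf 0 434293553 0) (P.cons (P.lf 3117788 0 0) (P.cons (P.lf 1471784 0 0) (P.lf 0 70084 0)))) (P.cons (P.cons (P.lf 0 55814600 0) (P.cons (P.lf 763028 0 0) (P.cons (P.lf 360196 0 0) (P.lf 0 17152 0)))) (P.cons (P.cons (P.lf 244585 0 0) (P.cons (P.lf 69588 0 0) (P.cons (P.lf 32848 0 0) P.nil))) (P.cons (P.cons (P.lf 431467 0 0) (P.cons (P.lf 0 700 0) P.nil)) (P.cons (P.cons (P.lf 29988 0 0) P.nil) P.nil)))))) 8585)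
 EL.nil)
noncomputable def S82_111_216_290_29 : EL := (EL.cons 13 (TM.mk (P.cons (P.cons (P.lf 0 887447181 0) (P.cons (P.lf 0 4093855 0) (P.cons (P.lf 0 1937270 0) (P.cons (P.lf 87567 0 0) (P.cons (P.lf 0 839 0) (P.cons (P.lf 100 0 0) P.nil)))))) (P.cons (P.cons (P.lf 394825055 0 0) (P.cons (P.lf 0 1923766 0) (P.cons (P.lf 0 914670 0) (P.cons (P.lf 37071 0 0) (P.cons (P.lf 0 1162 0) P.nil))))) (P.cons (P.cons (P.lf 6827787 0 0) (P.cons (P.lf 53876 0 0) (P.cons (P.lf 21568 0 0) (P.cons (P.lf 0 4858 0) P.nil)))) (P.cons (P.cons (P.lf 0 11509949 0) (P.cons (P.lf 171566 0 0) (P.cons (P.lf 79737 0 0) P.nil))) (P.cons (P.cons (P.lf 0 1068122 0) (P.cons (P.lf 33281 0 0) P.nil)) (P.cons (P.cons (P.lf 66351 0 0) P.nil) P.nil)))))) 58105)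
 EL.nil)
noncomputable def S82_111_216_290_30 : EL := (EL.cons 13 (TM.mk (P.cons (P.lf 3603426100 0 0) (P.cons (P.lf 0 113537048 0) (P.cons (P.lf 0 16473628 0) (P.cons (P.lf 0 671992 0) (P.cons (P.lf 4560 0 0) (P.cons (P.lf 2084 0 0) P.nil)))))) 368)
 EL.nil)
noncomputable def S82_111_216_290_31 : EL := (EL.cons 13 (TM.mk (P.cons (P.cons (P.lf 0 1637973784 0) (P.cons (P.lf 0 3778043 0) (P.cons (P.lf 0 1783467 0) (P.lf 84925 0 0)))) (P.cons (P.cons (P.lf 415976501 0 0) (P.cons (P.lf 0 2496747 0) (P.cons (P.lf 0 1178615 0) (P.lf 56123 0 0)))) (P.cons (P.cons (P.lf 42835526 0 0) (P.cons (P.lf 0 540481 0) (P.cons (P.lf 0 255140 0) (P.lf 12149 0 0)))) (P.cons (P.cons (P.lf 0 3040958 0) (P.cons (P.lf 0 25549 0) (P.cons (P.lf 0 12059 0) P.nil))) (P.cons (P.cons (P.lf 0 639633 0) (P.cons (P.lf 5836 0 0) P.nil)) (P.cons (P.cons (P.lf 0 22034 0) P.nil) P.nil)))))) 14583)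
 EL.nil)
noncomputable def S82_111_216_290_32 : EL := (EL.cons 13 (TM.mk (P.cons (P.cons (P.lf 744557551 0 0) (P.cons (P.lf 3434695 0 0) (P.cons (P.lf 1625346 0 0) (P.cons (P.lf 0 73467 0) (P.cons (P.lf 703 0 0) (P.cons (P.lf 0 83 0) P.nil)))))) (P.cons (P.cons (P.lf 0 354713071 0) (P.cons (P.lf 1505795 0 0) (P.cons (P.lf 716185 0 0) (P.cons (P.lf 0 28787 0) (P.cons (P.lf 952 0 0) P.nil))))) (P.cons (P.cons (P.lf 1304869 0 0) (P.cons (P.lf 0 111758 0) (P.cons (P.lf 0 49705 0) (P.cons (P.lf 5391 0 0) P.nil)))) (P.cons (P.cons (P.lf 11212728 0 0) (P.cons (P.lf 0 150536 0) (P.cons (P.lf 0 70139 0) P.nil))) (P.cons (P.cons (P.lf 680782 0 0) (P.cons (P.lf 0 23477 0) P.nil)) (P.cons (P.cons (P.lf 0 126970 0) P.nil) P.nil)))))) 63679)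
 EL.nil)
noncomputable def S82_111_216_290_33 : EL := (EL.cons 14 (TM.mk (P.lf 8589934592 0 0) 0)
 EL.nil)
noncomputable def S82_111_216_290_34 : EL := (EL.cons 14 (TM.mk (P.cons (P.cons (P.lf 0 3904641660 0) (P.cons (P.lf 0 9006192 0) (P.cons (P.lf 0 4251472 0) (P.lf 202448 0 0)))) (P.cons (P.cons (P.lf 868587106 0 0) (P.cons (P.lf 0 6235576 0) (P.cons (P.lf 0 2943568 0) (P.lf 140168 0 0)))) (P.cons (P.cons (P.lf 111629200 0 0) (P.cons (P.lf 0 1526056 0) (P.cons (P.lf 0 720392 0) (P.lf 34304 0 0)))) (P.cons (P.cons (P.lf 0 489170 0) (P.cons (P.lf 0 139176 0) (P.cons (P.lf 0 65696 0) P.nil))) (P.cons (P.cons (P.lf 0 862934 0) (P.cons (P.lf 1400 0 0) P.nil)) (P.cons (P.cons (P.lf 0 59976 0) P.nil) P.nil)))))) 17170)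
 EL.nil)
noncomputable def S82_111_216_290_35 : EL := (EL.cons 14 (TM.mk (P.cons (P.cons (P.lf 1774894362 0 0) (P.cons (P.lf 8187710 0 0) (P.cons (P.lf 3874540 0 0) (P.cons (P.lf 0 175134 0) (P.cons (P.lf 1678 0 0) (P.cons (P.lf 0 200 0) P.nil)))))) (P.cons (P.cons (P.lf 0 789650110 0) (P.cons (P.lf 3847532 0 0) (P.cons (P.lf 1829340 0 0) (P.cons (P.lf 0 74142 0) (P.cons (P.lf 2324 0 0) P.nil))))) (P.cons (P.cons (P.lf 0 13655574 0) (P.cons (P.lf 0 107752 0) (P.cons (P.lf 0 43136 0) (P.cons (P.lf 9716 0 0) P.nil)))) (P.cons (P.cons (P.lf 23019898 0 0) (P.cons (P.lf 0 343132 0) (P.cons (P.lf 0 159474 0) P.nil))) (P.cons (P.cons (P.lf 2136244 0 0) (P.cons (P.lf 0 66562 0) P.nil)) (P.cons (P.cons (P.lf 0 132702 0) P.nil) P.nil)))))) 116210)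
 EL.nil)
noncomputable def S82_111_216_290_36 : EL := (EL.cons 14 (TM.mk (P.cons (P.lf 0 7206852200 0) (P.cons (P.lf 227074096 0 0) (P.cons (P.lf 32947256 0 0) (P.cons (P.lf 1343984 0 0) (P.cons (P.lf 0 9120 0) (P.cons (P.lf 0 4168 0) P.nil)))))) 736)
 EL.nil)
noncomputable def S82_111_216_290_37 : EL := (EL.cons 14 (TM.mk (P.cons (P.cons (P.lf 3275947568 0 0) (P.cons (P.lf 7556086 0 0) (P.cons (P.lf 3566934 0 0) (P.lf 0 169850 0)))) (P.cons (P.cons (P.lf 0 831953002 0) (P.cons (P.lf 4993494 0 0) (P.cons (P.lf 2357230 0 0) (P.lf 0 112246 0)))) (P.cons (P.cons (P.lf 0 85671052 0) (P.cons (P.lf 1080962 0 0) (P.cons (P.lf 510280 0 0) (P.lf 0 24298 0)))) (P.cons (P.cons (P.lf 6081916 0 0) (P.cons (P.lf 51098 0 0) (P.cons (P.lf 24118 0 0) P.nil))) (P.cons (P.cons (P.lf 1279266 0 0) (P.cons (P.lf 0 11672 0) P.nil)) (P.cons (P.cons (P.lf 44068 0 0) P.nil) P.nil))))))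 29166)
 EL.nil)
noncomputable def S82_111_216_290_38 : EL := (EL.cons 14 (TM.mk (P.cons (P.cons (P.lf 0 1489115102 0) (P.cons (P.lf 0 6869390 0) (P.cons (P.lf 0 3250692 0) (P.cons (P.lf 146934 0 0) (P.cons (P.lf 0 1406 0) (P.cons (P.lf 166 0 0) P.nil)))))) (P.cons (P.cons (P.lf 709426142 0 0) (P.cons (P.lf 0 3011590 0) (P.cons (P.lf 0 1432370 0) (P.cons (P.lf 57574 0 0) (P.cons (P.lf 0 1904 0) P.nil))))) (P.cons (P.cons (P.lf 0 2609738 0) (P.cons (P.lf 223516 0 0) (P.cons (P.lf 99410 0 0) (P.cons (P.lf 0 10782 0) P.nil)))) (P.cons (P.cons (P.lf 0 22425456 0) (P.cons (P.lf 301072 0 0) (P.cons (P.lf 140278 0 0) P.nil))) (P.cons (P.cons (P.lf 0 1361564 0) (P.cons (P.lf 46954 0 0) P.nil)) (P.cons (P.cons (P.lf 253940 0 0) P.nil) P.nil)))))) 127358)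
 EL.nil)
noncomputable def S82_111_216_290_39 : EL := (EL.cons 14 (TM.mk (P.cons (P.lf 6046462644 0 0) (P.cons (P.lf 0 381024890 0) (P.cons (P.lf 0 49282024 0) (P.cons (P.lf 0 513256 0) (P.cons (P.lf 212730 0 0) (P.cons (P.lf 16820 0 0) P.nil)))))) 1830)
 EL.nil)
noncomputable def S82_111_216_290_40 : EL := (EL.cons 14 (TM.mk (P.cons (P.cons (P.lf 0 2748480756 0) (P.cons (P.lf 0 6339466 0) (P.cons (P.lf 0 2992614 0) (P.lf 142502 0 0)))) (P.cons (P.cons (P.lf 784597958 0 0) (P.cons (P.lf 0 3989738 0) (P.cons (P.lf 0 1883396 0) (P.lf 89684 0 0)))) (P.cons (P.cons (P.lf 62449500 0 0) (P.cons (P.lf 0 745928 0) (P.cons (P.lf 0 352124 0) (P.lf 16766 0 0)))) (P.cons (P.cons (P.lf 0 10045814 0) (P.cons (P.lf 6038 0 0) (P.cons (P.lf 2852 0 0) P.nil))) (P.cons (P.cons (P.lf 0 1374756 0) (P.cons (P.lf 16062 0 0) P.nil)) (P.cons (P.cons (P.lf 6060 0 0) P.nil) P.nil))))))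 38404)
 EL.nil)
noncomputable def S82_111_216_290_41 : EL := (EL.cons 14 (TM.mk (P.cons (P.cons (P.lf 1249349728 0 0) (P.cons (P.lf 5763336 0 0) (P.cons (P.lf 2727292 0 0) (P.cons (P.lf 0 123276 0) (P.cons (P.lf 1180 0 0) (P.cons (P.lf 0 140 0) P.nil)))))) (P.cons (P.cons (P.lf 0 634564648 0) (P.cons (P.lf 2345096 0 0) (P.cons (P.lf 1115810 0 0) (P.cons (P.lf 0 44420 0) (P.cons (P.lf 1560 0 0) P.nil))))) (P.cons (P.cons (P.lf 15231552 0 0) (P.cons (P.lf 0 293486 0) (P.cons (P.lf 0 133736 0) (P.cons (P.lf 11132 0 0) P.nil)))) (P.cons (P.cons (P.lf 21233764 0 0) (P.cons (P.lf 0 259314 0) (P.cons (P.lf 0 121066 0) P.nil))) (P.cons (P.cons (P.lf 652088 0 0) (P.cons (P.lf 0 31040 0) P.nil)) (P.cons (P.cons (P.lf 0 335500 0) P.nil) P.nil)))))) 126288)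
 EL.nil)
noncomputable def S82_111_216_290_42 : EL := (EL.cons 14 (TM.mk (P.cons (P.lf 0 5072909710 0) (P.cons (P.lf 479512976 0 0) (P.cons (P.lf 54466274 0 0) (P.cons (P.lf 0 1387564 0) (P.cons (P.lf 0 447104 0) (P.cons (P.lf 0 20696 0) P.nil)))))) 3862)
 EL.nil)
noncomputable def S82_111_216_290_43 : EL := (EL.cons 14 (TM.mk (P.cons (P.cons (P.lf 2305942422 0 0) (P.cons (P.lf 5318736 0 0) (P.cons (P.lf 2510768 0 0) (P.lf 0 119558 0)))) (P.cons (P.cons (P.lf 0 730924110 0) (P.cons (P.lf 3179758 0 0) (P.cons (P.lf 1501038 0 0) (P.lf 0 71476 0)))) (P.cons (P.cons (P.lf 0 42195588 0) (P.cons (P.lf 496042 0 0) (P.cons (P.lf 234162 0 0) (P.lf 0 11150 0)))) (P.cons (P.cons (P.lf 12658514 0 0) (P.cons (P.lf 0 41078 0) (P.cons (P.lf 0 19394 0) P.nil))) (P.cons (P.cons (P.lf 1253048 0 0) (P.cons (P.lf 0 16796 0) P.nil)) (P.cons (P.cons (P.lf 0 69686 0) P.nil) P.nil))))))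 45616)
 EL.nil)
noncomputable def S82_111_216_290_44 : EL := (EL.cons 14 (TM.mk (P.cons (P.cons (P.lf 0 1048189452 0) (P.cons (P.lf 0 4835370 0) (P.cons (P.lf 0 2288164 0) (P.cons (P.lf 103426 0 0) (P.cons (P.lf 0 990 0) (P.cons (P.lf 118 0 0) P.nil)))))) (P.cons (P.cons (P.lf 565418576 0 0) (P.cons (P.lf 0 1815154 0) (P.cons (P.lf 0 864054 0) (P.cons (P.lf 34008 0 0) (P.cons (P.lf 0 1278 0) P.nil))))) (P.cons (P.cons (P.lf 0 24761782 0) (P.cons (P.lf 330328 0 0) (P.cons (P.lf 152160 0 0) (P.cons (P.lf 0 10986 0) P.nil)))) (P.cons (P.cons (P.lf 0 19650668 0) (P.cons (P.lf 219700 0 0) (P.cons (P.lf 102744 0 0) P.nil))) (P.cons (P.cons (P.lf 0 27970 0) (P.cons (P.lf 18422 0 0) P.nil)) (P.cons (P.cons (P.lf 382612 0 0) P.nil) P.nil)))))) 125794)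
 EL.nil)
noncomputable def S82_111_216_290_45 : EL := (EL.cons 14 (TM.mk (P.cons (P.cons (P.lf 0 806796186 0) (P.cons (P.lf 0 5582708 0) (P.cons (P.lf 0 2648254 0) (P.cons (P.lf 113324 0 0) (P.cons (P.lf 0 2302 0) (P.cons (P.lf 266 0 0) P.nil)))))) (P.cons (P.cons (P.lf 538415166 0 0) (P.cons (P.lf 0 1381528 0) (P.cons (P.lf 0 667128 0) (P.cons (P.lf 16904 0 0) (P.cons (P.lf 0 2690 0) P.nil))))) (P.cons (P.cons (P.lf 0 50574278 0) (P.cons (P.lf 816648 0 0) (P.cons (P.lf 379302 0 0) (P.cons (P.lf 0 24230 0) P.nil)))) (P.cons (P.cons (P.lf 0 22207588 0) (P.cons (P.lf 291918 0 0) (P.cons (P.lf 137238 0 0) P.nil))) (P.cons (P.cons (P.lf 1045852 0 0) (P.cons (P.lf 0 10322 0) P.nil)) (P.cons (P.cons (P.lf 643194 0 0) P.nil) P.nil)))))) 195376)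
 EL.nil)
noncomputable def S82_111_216_290_46 : EL := (EL.cons 15 (TM.mk (P.lf 4294967296 0 0) 0)
 EL.nil)
noncomputable def S82_111_216_290_47 : EL := (EL.cons 15 (TM.mk (P.cons (P.cons (P.lf 0 1952320830 0) (P.cons (P.lf 0 4503096 0) (P.cons (P.lf 0 2125736 0) (P.lf 101224 0 0)))) (P.cons (P.cons (P.lf 434293553 0 0) (P.cons (P.lf 0 3117788 0) (P.cons (P.lf 0 1471784 0) (P.lf 70084 0 0)))) (P.cons (P.cons (P.lf 55814600 0 0) (P.cons (P.lf 0 763028 0) (P.cons (P.lf 0 360196 0) (P.lf 17152 0 0)))) (P.cons (P.cons (P.lf 0 244585 0) (P.cons (P.lf 0 69588 0) (P.cons (P.lf 0 32848 0) P.nil))) (P.cons (P.cons (P.lf 0 431467 0) (P.cons (P.lf 700 0 0) P.nil)) (P.cons (P.cons (P.lf 0 29988 0) P.nil) P.nil)))))) 8585)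
 EL.nil)
noncomputable def S82_111_216_290_48 : EL := (EL.cons 15 (TM.mk (P.cons (P.cons (P.lf 887447181 0 0) (P.cons (P.lf 4093855 0 0) (P.cons (P.lf 1937270 0 0) (P.cons (P.lf 0 87567 0) (P.cons (P.lf 839 0 0) (P.cons (P.lf 0 100 0) P.nil)))))) (P.cons (P.cons (P.lf 0 394825055 0) (P.cons (P.lf 1923766 0 0) (P.cons (P.lf 914670 0 0) (P.cons (P.lf 0 37071 0) (P.cons (P.lf 1162 0 0) P.nil))))) (P.cons (P.cons (P.lf 0 6827787 0) (P.cons (P.lf 0 53876 0) (P.cons (P.lf 0 21568 0) (P.cons (P.lf 4858 0 0) P.nil)))) (P.cons (P.cons (P.lf 11509949 0 0) (P.cons (P.lf 0 171566 0) (P.cons (P.lf 0 79737 0) P.nil))) (P.cons (P.cons (P.lf 1068122 0 0) (P.cons (P.lf 0 33281 0) P.nil)) (P.cons (P.cons (P.lf 0 66351 0) P.nil) P.nil)))))) 58105)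
 EL.nil)
noncomputable def S82_111_216_290 : SL := (SL.cons S82_111_216_290_0 (SL.cons S82_111_216_290_1 (SL.cons S82_111_216_290_2 (SL.cons S82_111_216_290_3 (SL.cons S82_111_216_290_4 (SL.cons S82_111_216_290_5 (SL.cons S82_111_216_290_6 (SL.cons S82_111_216_290_7 (SL.cons S82_111_216_290_8 (SL.cons S82_111_216_290_9 (SL.cons S82_111_216_290_10 (SL.cons S82_111_216_290_11 (SL.cons S82_111_216_290_12 (SL.cons S82_111_216_290_13 (SL.cons S82_111_216_290_14 (SL.cons S82_111_216_290_15 (SL.cons S82_111_216_290_16 (SL.cons S82_111_216_290_17 (SL.cons S82_111_216_290_18 (SL.cons S82_111_216_290_19 (SL.cons S82_111_216_290_20 (SL.cons S82_111_216_290_21 (SL.cons S82_111_216_290_22 (SL.cons S82_111_216_290_23 (SL.cons S82_111_216_290_24 (SL.cons S82_111_216_290_25 (SL.cons S82_111_216_290_26 (SL.cons S82_111_216_290_27 (SL.cons S82_111_216_290_28 (SL.cons S82_111_216_290_29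 (SL.cons S82_111_216_290_30 (SL.cons S82_111_216_290_31 (SL.cons S82_111_216_290_32 (SL.cons S82_111_216_290_33 (SL.cons S82_111_216_290_34 (SL.cons S82_111_216_290_35 (SL.cons S82_111_216_290_36 (SL.cons S82_111_216_290_37 (SL.cons S82_111_216_290_38 (SL.cons S82_111_216_290_39 (SL.cons S82_111_216_290_40 (SL.cons S82_111_216_290_41 (SL.cons S82_111_216_290_42 (SL.cons S82_111_216_290_43 (SL.cons S82_111_216_290_44 (SL.cons S82_111_216_290_45 (SL.cons S82_111_216_290_46 (SL.cons S82_111_216_290_47 (SL.cons S82_111_216_290_48 SL.nil)))))))))))))))))))))))))))))))))))))))))))))))))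
noncomputable def S82_111_216_364_0 : EL := (EL.cons 0 (TM.mk (P.cons (P.lf 3141443055 0 0) (P.cons (P.lf 334885157 0 0) (P.cons (P.lf 43314278 0 0) (P.cons (P.lf 451103 0 0) (P.cons (P.lf 0 186969 0) (P.cons (P.lf 0 14783 0) P.nil)))))) 1615)
 (EL.cons 1 (TM.mk (P.cons (P.lf 0 1170850837 0) (P.cons (P.lf 0 233327645 0) (P.cons (P.lf 10098210 0 0) (P.cons (P.lf 2078180 0 0) (P.cons (P.lf 90420 0 0) (P.cons (P.lf 0 2872 0) P.nil)))))) 983)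
 (EL.cons 5 (TM.mk (P.cons (P.lf 6184486878 0 0) (P.cons (P.lf 0 119070280 0) (P.cons (P.lf 0 15400634 0) (P.cons (P.lf 0 160396 0) (P.cons (P.lf 66480 0 0) (P.cons (P.lf 5256 0 0) P.nil)))))) 413)
 (EL.cons 9 (TM.mk (P.lf 6442450944 0 0) 2)
 EL.nil))))
noncomputable def S82_111_216_364_1 : EL := (EL.cons 0 (TM.mk (P.cons (P.cons (P.lf 0 3736895785 0) (P.cons (P.lf 50376681 0 0) (P.cons (P.lf 21722992 0 0) (P.lf 0 2413654 0)))) (P.cons (P.cons (P.lf 0 747307303 0) (P.cons (P.lf 29607634 0 0) (P.cons (P.lf 12767142 0 0) (P.lf 0 1418562 0)))) (P.cons (P.cons (P.lf 18197541 0 0) (P.cons (P.lf 4204551 0 0) (P.cons (P.lf 1813035 0 0) (P.lf 0 201441 0)))) (P.cons (P.cons (P.lf 30239071 0 0) (P.cons (P.lf 0 593892 0) (P.cons (P.lf 0 256093 0) P.nil))) (P.cons (P.cons (P.lf 2729711 0 0) (P.cons (P.lf 0 206799 0) P.nil)) (P.cons (P.cons (P.lf 0 138398 0) P.nil) P.nil))))))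 433593)
 (EL.cons 1 (TM.mk (P.cons (P.cons (P.lf 2139390998 0 0) (P.cons (P.lf 0 39105186 0) (P.cons (P.lf 0 16862597 0) (P.lf 1873623 0 0)))) (P.cons (P.cons (P.lf 68291625 0 0) (P.cons (P.lf 0 8310890 0) (P.cons (P.lf 0 3583748 0) (P.lf 398197 0 0)))) (P.cons (P.cons (P.lf 0 142727192 0) (P.cons (P.lf 3171808 0 0) (P.cons (P.lf 1367715 0 0) (P.lf 0 151963 0)))) (P.cons (P.cons (P.lf 0 10668893 0) (P.cons (P.lf 968977 0 0) (P.cons (P.lf 417831 0 0) P.nil))) (P.cons (P.cons (P.lf 1520381 0 0) (P.cons (P.lf 39411 0 0) P.nil)) (P.cons (P.cons (P.lf 249651 0 0) P.nil) P.nil)))))) 176442)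
 (EL.cons 5 (TM.mk (P.cons (P.cons (P.lf 0 2001368295 0) (P.cons (P.lf 0 46644760 0) (P.cons (P.lf 0 20113750 0) (P.lf 2234854 0 0)))) (P.cons (P.cons (P.lf 996325179 0 0) (P.cons (P.lf 0 30420936 0) (P.cons (P.lf 0 13117850 0) (P.lf 1457538 0 0)))) (P.cons (P.cons (P.lf 86534260 0 0) (P.cons (P.lf 0 6363652 0) (P.cons (P.lf 0 2744072 0) (P.lf 304896 0 0)))) (P.cons (P.cons (P.lf 0 11338945 0) (P.cons (P.lf 0 232878 0) (P.cons (P.lf 0 100420 0) P.nil))) (P.cons (P.cons (P.lf 0 1702344 0) (P.cons (P.lf 78000 0 0) P.nil)) (P.cons (P.cons (P.lf 0 450 0) P.nil) P.nil)))))) 138268)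
 (EL.cons 9 (TM.mk (P.cons (P.cons (P.lf 0 2938272657 0) (P.cons (P.lf 0 25352688 0) (P.cons (P.lf 0 10932366 0) (P.lf 1214706 0 0)))) (P.cons (P.cons (P.lf 644661097 0 0) (P.cons (P.lf 0 17553324 0) (P.cons (P.lf 0 7569192 0) (P.lf 841020 0 0)))) (P.cons (P.cons (P.lf 82062780 0 0) (P.cons (P.lf 0 4295910 0) (P.cons (P.lf 0 1852440 0) (P.lf 205824 0 0)))) (P.cons (P.cons (P.lf 0 518191 0) (P.cons (P.lf 0 391788 0) (P.cons (P.lf 0 168942 0) P.nil))) (P.cons (P.cons (P.lf 0 645676 0) (P.cons (P.lf 3948 0 0) P.nil)) (P.cons (P.cons (P.lf 0 43806 0) P.nil) P.nil)))))) 41126)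
 (EL.cons 2 (TM.mk (P.cons (P.cons (P.lf 120221116 0 0) (P.cons (P.lf 111997091 0 0) (P.cons (P.lf 0 11494541 0) (P.cons (P.lf 0 2390543 0) (P.lf 199209 0 0))))) (P.cons (P.cons (P.lf 51703365 0 0) (P.cons (P.lf 48166467 0 0) (P.cons (P.lf 0 4943444 0) (P.cons (P.lf 0 1028095 0) (P.lf 85671 0 0))))) (P.cons (P.cons (P.lf 4879248 0 0) (P.cons (P.lf 4545469 0 0) (P.cons (P.lf 0 466512 0) (P.cons (P.lf 0 97020 0) P.nil)))) (P.cons (P.cons (P.lf 0 427500 0) (P.cons (P.lf 0 398255 0) (P.cons (P.lf 40874 0 0) P.nil))) (P.cons (P.cons (P.lf 0 76342 0) (P.cons (P.lf 0 71119 0) P.nil)) (P.cons (P.cons (P.lf 0 3012 0) P.nil) P.nil)))))) 43814)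
 (EL.cons 6 (TM.mk (P.cons (P.cons (P.lf 26487342 0 0) (P.cons (P.lf 24675411 0 0) (P.cons (P.lf 0 2532498 0) (P.cons (P.lf 0 526689 0) (P.lf 43890 0 0))))) (P.cons (P.cons (P.lf 18338922 0 0) (P.cons (P.lf 17084403 0 0) (P.cons (P.lf 0 1753413 0) (P.cons (P.lf 0 364659 0) (P.lf 30387 0 0))))) (P.cons (P.cons (P.lf 4488174 0 0) (P.cons (P.lf 4181148 0 0) (P.cons (P.lf 0 429120 0) (P.cons (P.lf 0 89244 0) P.nil)))) (P.cons (P.cons (P.lf 409326 0 0) (P.cons (P.lf 381324 0 0) (P.cons (P.lf 0 39135 0) P.nil))) (P.cons (P.cons (P.lf 0 4125 0) (P.cons (P.lf 0 3843 0) P.nil)) (P.cons (P.cons (P.lf 0 3186 0) P.nil) P.nil)))))) 23442)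
 EL.nil))))))
noncomputable def S82_111_216_364_2 : EL := (EL.cons 0 (TM.mk (P.cons (P.cons (P.lf 2755198268 0 0) (P.cons (P.lf 0 27816775 0) (P.cons (P.lf 0 12440044 0) (P.cons (P.lf 948863 0 0) (P.cons (P.lf 0 40109 0) (P.cons (P.lf 18385 0 0) P.nil)))))) (P.cons (P.cons (P.lf 150877757 0 0) (P.cons (P.lf 2784530 0 0) (P.cons (P.lf 620623 0 0) (P.cons (P.lf 0 633699 0) (P.cons (P.lf 0 52275 0) P.nil))))) (P.cons (P.cons (P.lf 0 234754801 0) (P.cons (P.lf 11679296 0 0) (P.cons (P.lf 4726966 0 0) (P.cons (P.lf 0 826299 0) P.nil)))) (P.cons (P.cons (P.lf 0 46219173 0) (P.cons (P.lf 3641674 0 0) (P.cons (P.lf 1488382 0 0) P.nil))) (P.cons (P.cons (P.lf 3419667 0 0) (P.cons (P.lf 177971 0 0) P.nil)) (P.cons (P.cons (P.lf 1484115 0 0) P.nil) P.nil)))))) 2240409)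
 (EL.cons 1 (TM.mk (P.cons (P.cons (P.lf 0 1707919234 0) (P.cons (P.lf 23034947 0 0) (P.cons (P.lf 10258840 0 0) (P.cons (P.lf 0 822588 0) (P.cons (P.lf 29375 0 0) (P.cons (P.lf 0 13466 0) P.nil)))))) (P.cons (P.cons (P.lf 307526552 0 0) (P.cons (P.lf 0 9615475 0) (P.cons (P.lf 0 3839073 0) (P.cons (P.lf 725656 0 0) (P.cons (P.lf 27690 0 0) P.nil))))) (P.cons (P.cons (P.lf 173081651 0 0) (P.cons (P.lf 0 7338411 0) (P.cons (P.lf 0 3072239 0) (P.cons (P.lf 431077 0 0) P.nil)))) (P.cons (P.cons (P.lf 0 14251157 0) (P.cons (P.lf 0 149218 0) (P.cons (P.lf 0 65893 0) P.nil))) (P.cons (P.cons (P.lf 0 6520688 0) (P.cons (P.lf 407698 0 0) P.nil)) (P.cons (P.cons (P.lf 0 192549 0) P.nil) P.nil)))))) 995631)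
 (EL.cons 5 (TM.mk (P.cons (P.cons (P.lf 539139476 0 0) (P.cons (P.lf 36099538 0 0) (P.cons (P.lf 15837866 0 0) (P.cons (P.lf 0 1495590 0) (P.cons (P.lf 24449 0 0) (P.cons (P.lf 0 11206 0) P.nil)))))) (P.cons (P.cons (P.lf 0 720083953 0) (P.cons (P.lf 11405925 0 0) (P.cons (P.lf 5281192 0 0) (P.cons (P.lf 0 233575 0) (P.cons (P.lf 32690 0 0) P.nil))))) (P.cons (P.cons (P.lf 71742165 0 0) (P.cons (P.lf 0 4424914 0) (P.cons (P.lf 0 1705588 0) (P.cons (P.lf 386631 0 0) P.nil)))) (P.cons (P.cons (P.lf 35582078 0 0) (P.cons (P.lf 0 2366340 0) (P.cons (P.lf 0 961224 0) P.nil))) (P.cons (P.cons (P.lf 518763 0 0) (P.cons (P.lf 0 271292 0) P.nil)) (P.cons (P.cons (P.lf 0 643794 0) P.nil) P.nil)))))) 831746)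
 (EL.cons 9 (TM.mk (P.cons (P.cons (P.lf 1340087224 0 0) (P.cons (P.lf 23125704 0 0) (P.cons (P.lf 10071834 0 0) (P.cons (P.lf 0 1021962 0) (P.cons (P.lf 8991 0 0) (P.cons (P.lf 0 4122 0) P.nil)))))) (P.cons (P.cons (P.lf 0 588033991 0) (P.cons (P.lf 10937625 0 0) (P.cons (P.lf 4854580 0 0) (P.cons (P.lf 0 404899 0) (P.cons (P.lf 12450 0 0) P.nil))))) (P.cons (P.cons (P.lf 0 10346638 0) (P.cons (P.lf 0 240250 0) (P.cons (P.lf 0 21966 0) (P.cons (P.lf 81919 0 0) P.nil)))) (P.cons (P.cons (P.lf 16895826 0 0) (P.cons (P.lf 0 945466 0) (P.cons (P.lf 0 381202 0) P.nil))) (P.cons (P.cons (P.lf 1530555 0 0) (P.cons (P.lf 0 183544 0) P.nil)) (P.cons (P.cons (P.lf 0 102460 0) P.nil) P.nil)))))) 327076)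
 (EL.cons 2 (TM.mk (P.cons (P.cons (P.lf 0 109660876 0) (P.cons (P.lf 0 103105456 0) (P.cons (P.lf 9195373 0 0) (P.cons (P.lf 1936254 0 0) (P.cons (P.lf 0 81652 0) (P.cons (P.lf 2210 0 0) P.nil)))))) (P.cons (P.cons (P.lf 0 23101981 0) (P.cons (P.lf 0 22583683 0) (P.cons (P.lf 761450 0 0) (P.cons (P.lf 185158 0 0) (P.cons (P.lf 74025 0 0) P.nil))))) (P.cons (P.cons (P.lf 8959404 0 0) (P.cons (P.lf 7866033 0 0) (P.cons (P.lf 0 1511415 0) (P.cons (P.lf 0 302203 0) P.nil)))) (P.cons (P.cons (P.lf 2664264 0 0) (P.cons (P.lf 2375206 0 0) (P.cons (P.lf 0 400280 0) P.nil))) (P.cons (P.cons (P.lf 75965 0 0) (P.cons (P.lf 61053 0 0) P.nil)) (P.cons (P.cons (P.lf 0 36202 0) P.nil) P.nil)))))) 390031)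
 (EL.cons 6 (TM.mk (P.cons (P.cons (P.lf 0 24160692 0) (P.cons (P.lf 0 22716384 0) (P.cons (P.lf 2025936 0 0) (P.cons (P.lf 426594 0 0) (P.cons (P.lf 0 17988 0) (P.cons (P.lf 486 0 0) P.nil)))))) (P.cons (P.cons (P.lf 0 11427138 0) (P.cons (P.lf 0 10934106 0) (P.cons (P.lf 699156 0 0) (P.cons (P.lf 152688 0 0) (P.cons (P.lf 11586 0 0) P.nil))))) (P.cons (P.cons (P.lf 250998 0 0) (P.cons (P.lf 63246 0 0) (P.cons (P.lf 0 256464 0) (P.cons (P.lf 0 49032 0) P.nil)))) (P.cons (P.cons (P.lf 987774 0 0) (P.cons (P.lf 864846 0 0) (P.cons (P.lf 0 169884 0) P.nil))) (P.cons (P.cons (P.lf 191760 0 0) (P.cons (P.lf 168258 0 0) P.nil)) (P.cons (P.cons (P.lf 7752 0 0) P.nil) P.nil)))))) 156912)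
 EL.nil))))))
noncomputable def S82_111_216_364_3 : EL := (EL.cons 0 (TM.mk (P.cons (P.lf 5314273808 0 0) (P.cons (P.lf 0 334885157 0) (P.cons (P.lf 0 43314278 0) (P.cons (P.lf 0 451103 0) (P.cons (P.lf 186969 0 0) (P.cons (P.lf 14783 0 0) P.nil)))))) 1615)
 (EL.cons 1 (TM.mk (P.cons (P.lf 1170850837 0 0) (P.cons (P.lf 233327645 0 0) (P.cons (P.lf 0 10098210 0) (P.cons (P.lf 0 2078180 0) (P.cons (P.lf 0 90420 0) (P.cons (P.lf 2872 0 0) P.nil)))))) 983)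
 (EL.cons 5 (TM.mk (P.cons (P.lf 257964066 0 0) (P.cons (P.lf 119070280 0 0) (P.cons (P.lf 15400634 0 0) (P.cons (P.lf 160396 0 0) (P.cons (P.lf 0 66480 0) (P.cons (P.lf 0 5256 0) P.nil)))))) 406)
 EL.nil)))
noncomputable def S82_111_216_364_4 : EL := (EL.cons 0 (TM.mk (P.cons (P.cons (P.lf 0 2423733691 0) (P.cons (P.lf 0 20913022 0) (P.cons (P.lf 0 9017931 0) (P.lf 1001990 0 0)))) (P.cons (P.cons (P.lf 684504936 0 0) (P.cons (P.lf 0 13161594 0) (P.cons (P.lf 0 5675428 0) (P.lf 630601 0 0)))) (P.cons (P.cons (P.lf 53936896 0 0) (P.cons (P.lf 0 2460733 0) (P.cons (P.lf 0 1061091 0) (P.lf 117896 0 0)))) (P.cons (P.cons (P.lf 0 8821638 0) (P.cons (P.lf 19916 0 0) (P.cons (P.lf 8588 0 0) P.nil))) (P.cons (P.cons (P.lf 0 1187813 0) (P.cons (P.lf 52996 0 0) P.nil)) (P.cons (P.cons (P.lf 7131 0 0) P.nil) P.nil)))))) 93996)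
 (EL.cons 1 (TM.mk (P.cons (P.cons (P.lf 0 534001582 0) (P.cons (P.lf 0 4607595 0) (P.cons (P.lf 0 1986847 0) (P.lf 220758 0 0)))) (P.cons (P.cons (P.lf 10744627 0 0) (P.cons (P.lf 0 4108342 0) (P.cons (P.lf 0 1771563 0) (P.lf 196839 0 0)))) (P.cons (P.cons (P.lf 42867508 0 0) (P.cons (P.lf 0 1376730 0) (P.cons (P.lf 0 593660 0) (P.lf 65960 0 0)))) (P.cons (P.cons (P.lf 2815252 0 0) (P.cons (P.lf 0 191096 0) (P.cons (P.lf 0 82402 0) P.nil))) (P.cons (P.cons (P.lf 0 431454 0) (P.cons (P.lf 0 720 0) P.nil)) (P.cons (P.cons (P.lf 0 67363 0) P.nil) P.nil)))))) 36564)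
 (EL.cons 5 (TM.mk (P.cons (P.cons (P.lf 0 117652236 0) (P.cons (P.lf 0 1015154 0) (P.cons (P.lf 0 437744 0) (P.lf 48638 0 0)))) (P.cons (P.cons (P.lf 0 28492502 0) (P.cons (P.lf 0 1171428 0) (P.cons (P.lf 0 505132 0) (P.lf 56124 0 0)))) (P.cons (P.cons (P.lf 8176694 0 0) (P.cons (P.lf 0 557042 0) (P.cons (P.lf 0 240202 0) (P.lf 26688 0 0)))) (P.cons (P.cons (P.lf 2963850 0 0) (P.cons (P.lf 0 137676 0) (P.cons (P.lf 0 59366 0) P.nil))) (P.cons (P.cons (P.lf 207110 0 0) (P.cons (P.lf 0 17526 0) P.nil)) (P.cons (P.cons (P.lf 0 17136 0) P.nil) P.nil)))))) 23684)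
 EL.nil)))
noncomputable def S82_111_216_364_5 : EL := (EL.cons 0 (TM.mk (P.cons (P.cons (P.lf 1105416323 0 0) (P.cons (P.lf 19076018 0 0) (P.cons (P.lf 8308091 0 0) (P.cons (P.lf 0 842999 0) (P.cons (P.lf 7416 0 0) (P.cons (P.lf 0 3399 0) P.nil)))))) (P.cons (P.cons (P.lf 0 554718846 0) (P.cons (P.lf 7820172 0 0) (P.cons (P.lf 3480920 0 0) (P.cons (P.lf 0 280872 0) (P.cons (P.lf 9801 0 0) P.nil))))) (P.cons (P.cons (P.lf 13022073 0 0) (P.cons (P.lf 0 922206 0) (P.cons (P.lf 0 338180 0) (P.cons (P.lf 95491 0 0) P.nil)))) (P.cons (P.cons (P.lf 18334594 0 0) (P.cons (P.lf 0 842566 0) (P.cons (P.lf 0 346649 0) P.nil))) (P.cons (P.cons (P.lf 533895 0 0) (P.cons (P.lf 0 100734 0) P.nil)) (P.cons (P.cons (P.lf 0 290937 0) P.nil) P.nil)))))) 359192)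
 (EL.cons 1 (TM.mk (P.cons (P.cons (P.lf 243547410 0 0) (P.cons (P.lf 4202863 0 0) (P.cons (P.lf 1830453 0 0) (P.cons (P.lf 0 185730 0) (P.cons (P.lf 1633 0 0) (P.cons (P.lf 0 748 0) P.nil)))))) (P.cons (P.cons (P.lf 0 58335048 0) (P.cons (P.lf 2825351 0 0) (P.cons (P.lf 1247043 0 0) (P.cons (P.lf 0 110598 0) (P.cons (P.lf 2587 0 0) P.nil))))) (P.cons (P.cons (P.lf 0 25277870 0) (P.cons (P.lf 316218 0 0) (P.cons (P.lf 156039 0 0) (P.cons (P.lf 1824 0 0) P.nil)))) (P.cons (P.cons (P.lf 3185353 0 0) (P.cons (P.lf 0 205132 0) (P.cons (P.lf 0 80932 0) P.nil))) (P.cons (P.cons (P.lf 1077176 0 0) (P.cons (P.lf 0 71075 0) P.nil)) (P.cons (P.cons (P.lf 22515 0 0) P.nil) P.nil)))))) 129338)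
 (EL.cons 5 (TM.mk (P.cons (P.cons (P.lf 53658824 0 0) (P.cons (P.lf 925982 0 0) (P.cons (P.lf 403288 0 0) (P.cons (P.lf 0 40920 0) (P.cons (P.lf 358 0 0) (P.cons (P.lf 0 164 0) P.nil)))))) (P.cons (P.cons (P.lf 1222038 0 0) (P.cons (P.lf 865368 0 0) (P.cons (P.lf 380532 0 0) (P.cons (P.lf 0 35100 0) (P.cons (P.lf 664 0 0) P.nil))))) (P.cons (P.cons (P.lf 0 8078948 0) (P.cons (P.lf 247812 0 0) (P.cons (P.lf 112918 0 0) (P.cons (P.lf 0 6644 0) P.nil)))) (P.cons (P.cons (P.lf 0 887024 0) (P.cons (P.lf 0 15574 0) (P.cons (P.lf 0 3814 0) P.nil))) (P.cons (P.cons (P.lf 320352 0 0) (P.cons (P.lf 0 25364 0) P.nil)) (P.cons (P.cons (P.lf 69290 0 0) P.nil) P.nil)))))) 42730)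
 EL.nil)))
noncomputable def S82_111_216_364_6 : EL := (EL.cons 12 (TM.mk (P.lf 8589934592 0 0) 0)
 (EL.cons 3 (TM.mk (P.cons (P.lf 0 3378211968 0) (P.cons (P.lf 106440982 0 0) (P.cons (P.lf 15444026 0 0) (P.cons (P.lf 629992 0 0) (P.cons (P.lf 0 4275 0) (P.cons (P.lf 0 1953 0) P.nil)))))) 352)
 (EL.cons 7 (TM.mk (P.cons (P.lf 0 744294039 0) (P.cons (P.lf 0 171774507 0) (P.cons (P.lf 0 2395646 0) (P.cons (P.lf 321494 0 0) (P.cons (P.lf 25565 0 0) (P.cons (P.lf 650 0 0) P.nil)))))) 203)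
 EL.nil)))
noncomputable def S82_111_216_364_7 : EL := (EL.cons 12 (TM.mk (P.cons (P.cons (P.lf 0 3917696876 0) (P.cons (P.lf 0 33803584 0) (P.cons (P.lf 0 14576488 0) (P.lf 1619608 0 0)))) (P.cons (P.cons (P.lf 859548130 0 0) (P.cons (P.lf 0 23404432 0) (P.cons (P.lf 0 10092256 0) (P.lf 1121360 0 0)))) (P.cons (P.cons (P.lf 109417040 0 0) (P.cons (P.lf 0 5727880 0) (P.cons (P.lf 0 2469920 0) (P.lf 274432 0 0)))) (P.cons (P.cons (P.lf 0 690922 0) (P.cons (P.lf 0 522384 0) (P.cons (P.lf 0 225256 0) P.nil))) (P.cons (P.cons (P.lf 0 860902 0) (P.cons (P.lf 5264 0 0) P.nil)) (P.cons (P.cons (P.lf 0 58408 0) P.nil) P.nil)))))) 54810)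
 (EL.cons 3 (TM.mk (P.cons (P.cons (P.lf 3005449554 0 0) (P.cons (P.lf 0 26588250 0) (P.cons (P.lf 0 11465154 0) (P.lf 1273902 0 0)))) (P.cons (P.cons (P.lf 237353610 0 0) (P.cons (P.lf 0 17571038 0) (P.cons (P.lf 0 7576830 0) (P.lf 841866 0 0)))) (P.cons (P.cons (P.lf 9544738 0 0) (P.cons (P.lf 0 3803692 0) (P.cons (P.lf 0 1640190 0) (P.lf 182240 0 0)))) (P.cons (P.cons (P.lf 0 6493012 0) (P.cons (P.lf 0 179810 0) (P.cons (P.lf 0 77534 0) P.nil))) (P.cons (P.cons (P.lf 0 884290 0) (P.cons (P.lf 41080 0 0) P.nil)) (P.cons (P.cons (P.lf 0 15442 0) P.nil) P.nil)))))) 168703)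
 (EL.cons 7 (TM.mk (P.cons (P.cons (P.lf 0 2024299823 0) (P.cons (P.lf 67291196 0 0) (P.cons (P.lf 29016723 0 0) (P.lf 0 3224079 0)))) (P.cons (P.cons (P.lf 0 383041360 0) (P.cons (P.lf 28356164 0 0) (P.cons (P.lf 12227497 0 0) (P.lf 0 1358611 0)))) (P.cons (P.cons (P.lf 34831894 0 0) (P.cons (P.lf 2419545 0 0) (P.cons (P.lf 1043335 0 0) (P.lf 0 115927 0)))) (P.cons (P.cons (P.lf 6437446 0 0) (P.cons (P.lf 0 284652 0) (P.cons (P.lf 0 122745 0) P.nil))) (P.cons (P.cons (P.lf 20851 0 0) (P.cons (P.lf 0 40069 0) P.nil)) (P.cons (P.cons (P.lf 0 51625 0) P.nil) P.nil)))))) 96285)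
 (EL.cons 10 (TM.mk (P.cons (P.cons (P.lf 0 152845878 0) (P.cons (P.lf 0 142390074 0) (P.cons (P.lf 14613852 0 0) (P.cons (P.lf 3039273 0 0) (P.lf 0 253272 0))))) (P.cons (P.cons (P.lf 0 70550142 0) (P.cons (P.lf 0 65723982 0) (P.cons (P.lf 6745416 0 0) (P.cons (P.lf 1402857 0 0) (P.lf 0 116904 0))))) (P.cons (P.cons (P.lf 0 9125004 0) (P.cons (P.lf 0 8500785 0) (P.cons (P.lf 872457 0 0) (P.cons (P.lf 181446 0 0) P.nil)))) (P.cons (P.cons (P.lf 0 95034 0) (P.cons (P.lf 0 88533 0) (P.cons (P.lf 9084 0 0) P.nil))) (P.cons (P.cons (P.lf 39387 0 0) (P.cons (P.lf 36693 0 0) P.nil)) (P.cons (P.cons (P.lf 3114 0 0) P.nil) P.nil)))))) 25638)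
 EL.nil))))
noncomputable def S82_111_216_364_8 : EL := (EL.cons 12 (TM.mk (P.cons (P.cons (P.lf 1786782966 0 0) (P.cons (P.lf 30834272 0 0) (P.cons (P.lf 13429112 0 0) (P.cons (P.lf 0 1362616 0) (P.cons (P.lf 11988 0 0) (P.cons (P.lf 0 5496 0) P.nil)))))) (P.cons (P.cons (P.lf 0 784045322 0) (P.cons (P.lf 14583500 0 0) (P.cons (P.lf 6472774 0 0) (P.cons (P.lf 0 539866 0) (P.cons (P.lf 16600 0 0) P.nil))))) (P.cons (P.cons (P.lf 0 13795518 0) (P.cons (P.lf 0 320334 0) (P.cons (P.lf 0 29288 0) (P.cons (P.lf 109226 0 0) P.nil)))) (P.cons (P.cons (P.lf 22527768 0 0) (P.cons (P.lf 0 1260622 0) (P.cons (P.lf 0 508270 0) P.nil))) (P.cons (P.cons (P.lf 2040740 0 0) (P.cons (P.lf 0 244726 0) P.nil)) (P.cons (P.cons (P.lf 0 136614 0) P.nil) P.nil)))))) 436072)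
 (EL.cons 3 (TM.mk (P.cons (P.cons (P.lf 0 2038752312 0) (P.cons (P.lf 12724679 0 0) (P.cons (P.lf 5748602 0 0) (P.cons (P.lf 0 384073 0) (P.cons (P.lf 23571 0 0) (P.cons (P.lf 0 10806 0) P.nil)))))) (P.cons (P.cons (P.lf 54487013 0 0) (P.cons (P.lf 0 2185832 0) (P.cons (P.lf 0 588581 0) (P.cons (P.lf 410003 0 0) (P.cons (P.lf 31895 0 0) P.nil))))) (P.cons (P.cons (P.lf 116438249 0 0) (P.cons (P.lf 0 6463048 0) (P.cons (P.lf 0 2585512 0) (P.cons (P.lf 483375 0 0) P.nil)))) (P.cons (P.cons (P.lf 23705276 0 0) (P.cons (P.lf 0 2243845 0) (P.cons (P.lf 0 906557 0) P.nil))) (P.cons (P.cons (P.lf 0 283661 0) (P.cons (P.lf 0 238872 0) P.nil)) (P.cons (P.cons (P.lf 0 536772 0) P.nil) P.nil)))))) 1079556)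
 (EL.cons 7 (TM.mk (P.cons (P.cons (P.lf 2001304884 0 0) (P.cons (P.lf 0 42776352 0) (P.cons (P.lf 0 18963729 0) (P.cons (P.lf 1602700 0 0) (P.cons (P.lf 0 46686 0) (P.cons (P.lf 21404 0 0) P.nil)))))) (P.cons (P.cons (P.lf 0 87931156 0) (P.cons (P.lf 3527474 0 0) (P.cons (P.lf 949842 0 0) (P.cons (P.lf 0 661658 0) (P.cons (P.lf 0 51478 0) P.nil))))) (P.cons (P.cons (P.lf 0 176376050 0) (P.cons (P.lf 9967446 0 0) (P.cons (P.lf 4047918 0 0) (P.cons (P.lf 0 693293 0) P.nil)))) (P.cons (P.cons (P.lf 0 6943117 0) (P.cons (P.lf 1859280 0 0) (P.cons (P.lf 750075 0 0) P.nil))) (P.cons (P.cons (P.lf 3271537 0 0) (P.cons (P.lf 0 61556 0) P.nil)) (P.cons (P.cons (P.lf 351929 0 0) P.nil) P.nil)))))) 729066)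
 (EL.cons 10 (TM.mk (P.cons (P.cons (P.lf 139419876 0 0) (P.cons (P.lf 131085486 0 0) (P.cons (P.lf 0 11690748 0) (P.cons (P.lf 0 2461704 0) (P.cons (P.lf 103812 0 0) (P.cons (P.lf 0 2808 0) P.nil)))))) (P.cons (P.cons (P.lf 33764094 0 0) (P.cons (P.lf 32842536 0 0) (P.cons (P.lf 0 1336440 0) (P.cons (P.lf 0 312972 0) (P.cons (P.lf 0 90846 0) P.nil))))) (P.cons (P.cons (P.lf 0 9689520 0) (P.cons (P.lf 0 8366580 0) (P.cons (P.lf 1826022 0 0) (P.cons (P.lf 363102 0 0) P.nil)))) (P.cons (P.cons (P.lf 0 3512214 0) (P.cons (P.lf 0 3108798 0) (P.cons (P.lf 558150 0 0) P.nil))) (P.cons (P.cons (P.lf 0 245424 0) (P.cons (P.lf 0 207864 0) P.nil)) (P.cons (P.cons (P.lf 20304 0 0) P.nil) P.nil)))))) 472392)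
 EL.nil))))
noncomputable def S82_111_216_364_9 : EL := (EL.cons 3 (TM.mk (P.cons (P.lf 0 3378211968 0) (P.cons (P.lf 106440982 0 0) (P.cons (P.lf 15444026 0 0) (P.cons (P.lf 629992 0 0) (P.cons (P.lf 0 4275 0) (P.cons (P.lf 0 1953 0) P.nil)))))) 352)
 (EL.cons 7 (TM.mk (P.cons (P.lf 0 744294039 0) (P.cons (P.lf 0 171774507 0) (P.cons (P.lf 0 2395646 0) (P.cons (P.lf 321494 0 0) (P.cons (P.lf 25565 0 0) (P.cons (P.lf 650 0 0) P.nil)))))) 203)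
 EL.nil))
noncomputable def S82_111_216_364_10 : EL := (EL.cons 3 (TM.mk (P.cons (P.cons (P.lf 1540734720 0 0) (P.cons (P.lf 13294125 0 0) (P.cons (P.lf 5732577 0 0) (P.lf 0 636951 0)))) (P.cons (P.cons (P.lf 0 386584932 0) (P.cons (P.lf 8785519 0 0) (P.cons (P.lf 3788415 0 0) (P.lf 0 420933 0)))) (P.cons (P.cons (P.lf 0 39423794 0) (P.cons (P.lf 1901846 0 0) (P.cons (P.lf 820095 0 0) (P.lf 0 91120 0)))) (P.cons (P.cons (P.lf 2885621 0 0) (P.cons (P.lf 89905 0 0) (P.cons (P.lf 38767 0 0) P.nil))) (P.cons (P.cons (P.lf 591722 0 0) (P.cons (P.lf 0 20540 0) P.nil)) (P.cons (P.cons (P.lf 19547 0 0) P.nil) P.nil)))))) 41574)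
 (EL.cons 7 (TM.mk (P.cons (P.cons (P.lf 339457582 0 0) (P.cons (P.lf 2928986 0 0) (P.cons (P.lf 1263012 0 0) (P.lf 0 140334 0)))) (P.cons (P.cons (P.lf 3865442 0 0) (P.cons (P.lf 2703905 0 0) (P.cons (P.lf 1165954 0 0) (P.lf 0 129550 0)))) (P.cons (P.cons (P.lf 0 25576619 0) (P.cons (P.lf 973755 0 0) (P.cons (P.lf 419893 0 0) (P.lf 0 46654 0)))) (P.cons (P.cons (P.lf 0 2514512 0) (P.cons (P.lf 165066 0 0) (P.cons (P.lf 71178 0 0) P.nil))) (P.cons (P.cons (P.lf 78406 0 0) (P.cons (P.lf 10610 0 0) P.nil)) (P.cons (P.cons (P.lf 28826 0 0) P.nil) P.nil)))))) 20285)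
 EL.nil))
noncomputable def S82_111_216_364_11 : EL := (EL.cons 3 (TM.mk (P.cons (P.cons (P.lf 0 702698202 0) (P.cons (P.lf 0 12126367 0) (P.cons (P.lf 0 5281342 0) (P.cons (P.lf 535883 0 0) (P.cons (P.lf 0 4713 0) (P.cons (P.lf 2160 0 0) P.nil)))))) (P.cons (P.cons (P.lf 330486593 0 0) (P.cons (P.lf 0 5353256 0) (P.cons (P.lf 0 2379179 0) (P.cons (P.lf 195431 0 0) (P.cons (P.lf 0 6379 0) P.nil))))) (P.cons (P.cons (P.lf 0 1077451 0) (P.cons (P.lf 362126 0 0) (P.cons (P.lf 115868 0 0) (P.cons (P.lf 0 52095 0) P.nil)))) (P.cons (P.cons (P.lf 0 10309174 0) (P.cons (P.lf 520283 0 0) (P.cons (P.lf 212149 0 0) P.nil))) (P.cons (P.cons (P.lf 0 606617 0) (P.cons (P.lf 81102 0 0) P.nil)) (P.cons (P.cons (P.lf 118488 0 0) P.nil) P.nil)))))) 202184)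
 (EL.cons 7 (TM.mk (P.cons (P.cons (P.lf 0 154819794 0) (P.cons (P.lf 0 2671704 0) (P.cons (P.lf 0 1163595 0) (P.cons (P.lf 118066 0 0) (P.cons (P.lf 0 1038 0) (P.cons (P.lf 476 0 0) P.nil)))))) (P.cons (P.cons (P.lf 32204726 0 0) (P.cons (P.lf 0 1880218 0) (P.cons (P.lf 0 829392 0) (P.cons (P.lf 74026 0 0) (P.cons (P.lf 0 1678 0) P.nil))))) (P.cons (P.cons (P.lf 16375726 0 0) (P.cons (P.lf 0 272472 0) (P.cons (P.lf 0 130644 0) (P.cons (P.lf 1711 0 0) P.nil)))) (P.cons (P.cons (P.lf 0 1390561 0) (P.cons (P.lf 112722 0 0) (P.cons (P.lf 43323 0 0) P.nil))) (P.cons (P.cons (P.lf 0 647495 0) (P.cons (P.lf 47140 0 0) P.nil)) (P.cons (P.cons (P.lf 0 37969 0) P.nil) P.nil)))))) 70142)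
 EL.nil))
noncomputable def S82_111_216_364_12 : EL := (EL.cons 4 (TM.mk (P.cons (P.lf 3378211968 0 0) (P.cons (P.lf 0 106440982 0) (P.cons (P.lf 0 15444026 0) (P.cons (P.lf 0 629992 0) (P.cons (P.lf 4275 0 0) (P.cons (P.lf 1953 0 0) P.nil)))))) 352)
 (EL.cons 8 (TM.mk (P.cons (P.lf 744294039 0 0) (P.cons (P.lf 171774507 0 0) (P.cons (P.lf 2395646 0 0) (P.cons (P.lf 0 321494 0) (P.cons (P.lf 0 25565 0) (P.cons (P.lf 0 650 0) P.nil)))))) 203)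
 EL.nil))
noncomputable def S82_111_216_364_13 : EL := (EL.cons 4 (TM.mk (P.cons (P.cons (P.lf 0 1540734720 0) (P.cons (P.lf 0 13294125 0) (P.cons (P.lf 0 5732577 0) (P.lf 636951 0 0)))) (P.cons (P.cons (P.lf 386584932 0 0) (P.cons (P.lf 0 8785519 0) (P.cons (P.lf 0 3788415 0) (P.lf 420933 0 0)))) (P.cons (P.cons (P.lf 39423794 0 0) (P.cons (P.lf 0 1901846 0) (P.cons (P.lf 0 820095 0) (P.lf 91120 0 0)))) (P.cons (P.cons (P.lf 0 2885621 0) (P.cons (P.lf 0 89905 0) (P.cons (P.lf 0 38767 0) P.nil))) (P.cons (P.cons (P.lf 0 591722 0) (P.cons (P.lf 20540 0 0) P.nil)) (P.cons (P.cons (P.lf 0 19547 0) P.nil) P.nil)))))) 41574)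
 (EL.cons 8 (TM.mk (P.cons (P.cons (P.lf 0 339457582 0) (P.cons (P.lf 0 2928986 0) (P.cons (P.lf 0 1263012 0) (P.lf 140334 0 0)))) (P.cons (P.cons (P.lf 0 3865442 0) (P.cons (P.lf 0 2703905 0) (P.cons (P.lf 0 1165954 0) (P.lf 129550 0 0)))) (P.cons (P.cons (P.lf 25576619 0 0) (P.cons (P.lf 0 973755 0) (P.cons (P.lf 0 419893 0) (P.lf 46654 0 0)))) (P.cons (P.cons (P.lf 2514512 0 0) (P.cons (P.lf 0 165066 0) (P.cons (P.lf 0 71178 0) P.nil))) (P.cons (P.cons (P.lf 0 78406 0) (P.cons (P.lf 0 10610 0) P.nil)) (P.cons (P.cons (P.lf 0 28826 0) P.nil) P.nil)))))) 20285)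
 EL.nil))
noncomputable def S82_111_216_364_14 : EL := (EL.cons 4 (TM.mk (P.cons (P.cons (P.lf 702698202 0 0) (P.cons (P.lf 12126367 0 0) (P.cons (P.lf 5281342 0 0) (P.cons (P.lf 0 535883 0) (P.cons (P.lf 4713 0 0) (P.cons (P.lf 0 2160 0) P.nil)))))) (P.cons (P.cons (P.lf 0 330486593 0) (P.cons (P.lf 5353256 0 0) (P.cons (P.lf 2379179 0 0) (P.cons (P.lf 0 195431 0) (P.cons (P.lf 6379 0 0) P.nil))))) (P.cons (P.cons (P.lf 1077451 0 0) (P.cons (P.lf 0 362126 0) (P.cons (P.lf 0 115868 0) (P.cons (P.lf 52095 0 0) P.nil)))) (P.cons (P.cons (P.lf 10309174 0 0) (P.cons (P.lf 0 520283 0) (P.cons (P.lf 0 212149 0) P.nil))) (P.cons (P.cons (P.lf 606617 0 0) (P.cons (P.lf 0 81102 0) P.nil)) (P.cons (P.cons (P.lf 0 118488 0) P.nil) P.nil)))))) 202184)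
 (EL.cons 8 (TM.mk (P.cons (P.cons (P.lf 154819794 0 0) (P.cons (P.lf 2671704 0 0) (P.cons (P.lf 1163595 0 0) (P.cons (P.lf 0 118066 0) (P.cons (P.lf 1038 0 0) (P.cons (P.lf 0 476 0) P.nil)))))) (P.cons (P.cons (P.lf 0 32204726 0) (P.cons (P.lf 1880218 0 0) (P.cons (P.lf 829392 0 0) (P.cons (P.lf 0 74026 0) (P.cons (P.lf 1678 0 0) P.nil))))) (P.cons (P.cons (P.lf 0 16375726 0) (P.cons (P.lf 272472 0 0) (P.cons (P.lf 130644 0 0) (P.cons (P.lf 0 1711 0) P.nil)))) (P.cons (P.cons (P.lf 1390561 0 0) (P.cons (P.lf 0 112722 0) (P.cons (P.lf 0 43323 0) P.nil))) (P.cons (P.cons (P.lf 647495 0 0) (P.cons (P.lf 0 47140 0) P.nil)) (P.cons (P.cons (P.lf 37969 0 0) P.nil) P.nil)))))) 70142)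
 EL.nil))
noncomputable def S82_111_216_364_15 : EL := (EL.cons 4 (TM.mk (P.cons (P.lf 0 2834279364 0) (P.cons (P.lf 178605417 0 0) (P.cons (P.lf 23100948 0 0) (P.cons (P.lf 240588 0 0) (P.cons (P.lf 0 99717 0) (P.cons (P.lf 0 7884 0) P.nil)))))) 864)
 (EL.cons 8 (TM.mk (P.cons (P.lf 0 624453780 0) (P.cons (P.lf 0 124441411 0) (P.cons (P.lf 5385712 0 0) (P.cons (P.lf 1108363 0 0) (P.cons (P.lf 48224 0 0) (P.cons (P.lf 0 1532 0) P.nil)))))) 521)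
 EL.nil))
noncomputable def S82_111_216_364_16 : EL := (EL.cons 4 (TM.mk (P.cons (P.cons (P.lf 1292657969 0 0) (P.cons (P.lf 11153611 0 0) (P.cons (P.lf 4809563 0 0) (P.lf 0 534394 0)))) (P.cons (P.cons (P.lf 0 365069299 0) (P.cons (P.lf 7019517 0 0) (P.cons (P.lf 3026895 0 0) (P.lf 0 336320 0)))) (P.cons (P.cons (P.lf 0 28766344 0) (P.cons (P.lf 1312391 0 0) (P.cons (P.lf 565915 0 0) (P.lf 0 62878 0)))) (P.cons (P.cons (P.lf 4704873 0 0) (P.cons (P.lf 0 10621 0) (P.cons (P.lf 0 4580 0) P.nil))) (P.cons (P.cons (P.lf 633500 0 0) (P.cons (P.lf 0 28264 0) P.nil)) (P.cons (P.cons (P.lf 0 3803 0) P.nil) P.nil)))))) 50140)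
 (EL.cons 8 (TM.mk (P.cons (P.cons (P.lf 284800844 0 0) (P.cons (P.lf 2457384 0 0) (P.cons (P.lf 1059652 0 0) (P.lf 0 117738 0)))) (P.cons (P.cons (P.lf 0 5730468 0) (P.cons (P.lf 2191116 0 0) (P.cons (P.lf 944834 0 0) (P.lf 0 104981 0)))) (P.cons (P.cons (P.lf 0 22862671 0) (P.cons (P.lf 734256 0 0) (P.cons (P.lf 316619 0 0) (P.lf 0 35179 0)))) (P.cons (P.cons (P.lf 0 1501468 0) (P.cons (P.lf 101918 0 0) (P.cons (P.lf 43948 0 0) P.nil))) (P.cons (P.cons (P.lf 230109 0 0) (P.cons (P.lf 384 0 0) P.nil)) (P.cons (P.cons (P.lf 35927 0 0) P.nil) P.nil)))))) 19491)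
 EL.nil))
noncomputable def S82_111_216_364_17 : EL := (EL.cons 4 (TM.mk (P.cons (P.cons (P.lf 0 589555372 0) (P.cons (P.lf 0 10173876 0) (P.cons (P.lf 0 4430982 0) (P.cons (P.lf 449599 0 0) (P.cons (P.lf 0 3955 0) (P.cons (P.lf 1813 0 0) P.nil)))))) (P.cons (P.cons (P.lf 295850051 0 0) (P.cons (P.lf 0 4170758 0) (P.cons (P.lf 0 1856490 0) (P.cons (P.lf 149798 0 0) (P.cons (P.lf 0 5227 0) P.nil))))) (P.cons (P.cons (P.lf 0 6945105 0) (P.cons (P.lf 491843 0 0) (P.cons (P.lf 180362 0 0) (P.cons (P.lf 0 50928 0) P.nil)))) (P.cons (P.cons (P.lf 0 9778450 0) (P.cons (P.lf 449369 0 0) (P.cons (P.lf 184879 0 0) P.nil))) (P.cons (P.cons (P.lf 0 284744 0) (P.cons (P.lf 53725 0 0) P.nil)) (P.cons (P.cons (P.lf 155166 0 0) P.nil) P.nil)))))) 191579)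
 (EL.cons 8 (TM.mk (P.cons (P.cons (P.lf 0 129891952 0) (P.cons (P.lf 0 2241527 0) (P.cons (P.lf 0 976242 0) (P.cons (P.lf 99056 0 0) (P.cons (P.lf 0 871 0) (P.cons (P.lf 399 0 0) P.nil)))))) (P.cons (P.cons (P.lf 31112026 0 0) (P.cons (P.lf 0 1506854 0) (P.cons (P.lf 0 665090 0) (P.cons (P.lf 58986 0 0) (P.cons (P.lf 0 1380 0) P.nil))))) (P.cons (P.cons (P.lf 13481531 0 0) (P.cons (P.lf 0 168650 0) (P.cons (P.lf 0 83221 0) (P.cons (P.lf 0 973 0) P.nil)))) (P.cons (P.cons (P.lf 0 1698855 0) (P.cons (P.lf 109404 0 0) (P.cons (P.lf 43164 0 0) P.nil))) (P.cons (P.cons (P.lf 0 574494 0) (P.cons (P.lf 37907 0 0) P.nil)) (P.cons (P.cons (P.lf 0 12008 0) P.nil) P.nil)))))) 68969)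
 EL.nil))
noncomputable def S82_111_216_364_18 : EL := (EL.cons 4 (TM.mk (P.cons (P.lf 2377926426 0 0) (P.cons (P.lf 0 224771707 0) (P.cons (P.lf 0 25531065 0) (P.cons (P.lf 650420 0 0) (P.cons (P.lf 209580 0 0) (P.cons (P.lf 9701 0 0) P.nil)))))) 1817)
 (EL.cons 8 (TM.mk (P.cons (P.lf 523909239 0 0) (P.cons (P.lf 87897477 0 0) (P.cons (P.lf 0 10203278 0) (P.cons (P.lf 0 1362537 0) (P.cons (P.lf 0 9310 0) (P.cons (P.lf 8089 0 0) P.nil)))))) 965)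
 EL.nil))
noncomputable def S82_111_216_364_19 : EL := (EL.cons 4 (TM.mk (P.cons (P.cons (P.lf 0 1084524547 0) (P.cons (P.lf 0 9357746 0) (P.cons (P.lf 0 4035165 0) (P.lf 448350 0 0)))) (P.cons (P.cons (P.lf 340460057 0 0) (P.cons (P.lf 0 5594445 0) (P.cons (P.lf 0 2412388 0) (P.lf 268042 0 0)))) (P.cons (P.cons (P.lf 19442120 0 0) (P.cons (P.lf 0 872739 0) (P.cons (P.lf 0 376333 0) (P.lf 41813 0 0)))) (P.cons (P.cons (P.lf 0 5905766 0) (P.cons (P.lf 72273 0 0) (P.cons (P.lf 31165 0 0) P.nil))) (P.cons (P.cons (P.lf 0 575952 0) (P.cons (P.lf 29553 0 0) P.nil)) (P.cons (P.cons (P.lf 33242 0 0) P.nil) P.nil)))))) 56231)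
 (EL.cons 8 (TM.mk (P.cons (P.cons (P.lf 0 238944495 0) (P.cons (P.lf 0 2061716 0) (P.cons (P.lf 0 889035 0) (P.lf 98781 0 0)))) (P.cons (P.cons (P.lf 12336477 0 0) (P.cons (P.lf 0 1773360 0) (P.cons (P.lf 0 764692 0) (P.lf 84965 0 0)))) (P.cons (P.cons (P.lf 20122395 0 0) (P.cons (P.lf 0 548685 0) (P.cons (P.lf 0 236598 0) (P.lf 26288 0 0)))) (P.cons (P.cons (P.lf 677921 0 0) (P.cons (P.lf 0 57309 0) (P.cons (P.lf 0 24712 0) P.nil))) (P.cons (P.cons (P.lf 0 321640 0) (P.cons (P.lf 5528 0 0) P.nil)) (P.cons (P.cons (P.lf 0 33527 0) P.nil) P.nil)))))) 18062)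
 EL.nil))
noncomputable def S82_111_216_364_20 : EL := (EL.cons 4 (TM.mk (P.cons (P.cons (P.lf 494629892 0 0) (P.cons (P.lf 8535760 0 0) (P.cons (P.lf 3717540 0 0) (P.cons (P.lf 0 377208 0) (P.cons (P.lf 3317 0 0) (P.cons (P.lf 0 1520 0) P.nil)))))) (P.cons (P.cons (P.lf 0 263799487 0) (P.cons (P.lf 3230270 0 0) (P.cons (P.lf 1440440 0 0) (P.cons (P.lf 0 113793 0) (P.cons (P.lf 4281 0 0) P.nil))))) (P.cons (P.cons (P.lf 11386350 0 0) (P.cons (P.lf 0 561927 0) (P.cons (P.lf 0 217393 0) (P.cons (P.lf 48412 0 0) P.nil)))) (P.cons (P.cons (P.lf 9062919 0 0) (P.cons (P.lf 0 381601 0) (P.cons (P.lf 0 158157 0) P.nil))) (P.cons (P.cons (P.lf 680 0 0) (P.cons (P.lf 0 31950 0) P.nil)) (P.cons (P.cons (P.lf 0 176330 0) P.nil) P.nil)))))) 180953)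
 (EL.cons 8 (TM.mk (P.cons (P.cons (P.lf 108977792 0 0) (P.cons (P.lf 1880614 0 0) (P.cons (P.lf 819055 0 0) (P.cons (P.lf 0 83107 0) (P.cons (P.lf 731 0 0) (P.cons (P.lf 0 335 0) P.nil)))))) (P.cons (P.cons (P.lf 0 29536298 0) (P.cons (P.lf 1204978 0 0) (P.cons (P.lf 532196 0 0) (P.cons (P.lf 0 46870 0) (P.cons (P.lf 1135 0 0) P.nil))))) (P.cons (P.cons (P.lf 0 10986608 0) (P.cons (P.lf 93064 0 0) (P.cons (P.lf 48495 0 0) (P.cons (P.lf 2756 0 0) P.nil)))) (P.cons (P.cons (P.lf 1880711 0 0) (P.cons (P.lf 0 102377 0) (P.cons (P.lf 0 41118 0) P.nil))) (P.cons (P.cons (P.lf 493800 0 0) (P.cons (P.lf 0 29791 0) P.nil)) (P.cons (P.cons (P.lf 0 9488 0) P.nil) P.nil)))))) 65323)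
 EL.nil))
noncomputable def S82_111_216_364_21 : EL := (EL.cons 4 (TM.mk (P.cons (P.cons (P.lf 0 1464714834 0) (P.cons (P.lf 39882375 0 0) (P.cons (P.lf 17197731 0 0) (P.lf 0 1910853 0)))) (P.cons (P.cons (P.lf 0 623938542 0) (P.cons (P.lf 26356557 0 0) (P.cons (P.lf 11365245 0 0) (P.lf 0 1262799 0)))) (P.cons (P.cons (P.lf 0 48968532 0) (P.cons (P.lf 5705538 0 0) (P.cons (P.lf 2460285 0 0) (P.lf 0 273360 0)))) (P.cons (P.cons (P.lf 9378633 0 0) (P.cons (P.lf 269715 0 0) (P.cons (P.lf 116301 0 0) P.nil))) (P.cons (P.cons (P.lf 1476012 0 0) (P.cons (P.lf 0 61620 0) P.nil)) (P.cons (P.cons (P.lf 34989 0 0) P.nil) P.nil)))))) 127110)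
 (EL.cons 8 (TM.mk (P.cons (P.cons (P.lf 2363757405 0 0) (P.cons (P.lf 0 64362210 0) (P.cons (P.lf 0 27753711 0) (P.lf 3083745 0 0)))) (P.cons (P.cons (P.lf 386906802 0 0) (P.cons (P.lf 0 25652259 0) (P.cons (P.lf 0 11061543 0) (P.lf 1229061 0 0)))) (P.cons (P.cons (P.lf 0 60408513 0) (P.cons (P.lf 0 1445790 0) (P.cons (P.lf 0 623442 0) (P.lf 69273 0 0)))) (P.cons (P.cons (P.lf 0 8951958 0) (P.cons (P.lf 449718 0 0) (P.cons (P.lf 193923 0 0) P.nil))) (P.cons (P.cons (P.lf 57555 0 0) (P.cons (P.lf 50679 0 0) P.nil)) (P.cons (P.cons (P.lf 80451 0 0) P.nil) P.nil)))))) 75981)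
 (EL.cons 11 (TM.mk (P.cons (P.cons (P.lf 152845878 0 0) (P.cons (P.lf 142390074 0 0) (P.cons (P.lf 0 14613852 0) (P.cons (P.lf 0 3039273 0) (P.lf 253272 0 0))))) (P.cons (P.cons (P.lf 70550142 0 0) (P.cons (P.lf 65723982 0 0) (P.cons (P.lf 0 6745416 0) (P.cons (P.lf 0 1402857 0) (P.lf 116904 0 0))))) (P.cons (P.cons (P.lf 9125004 0 0) (P.cons (P.lf 8500785 0 0) (P.cons (P.lf 0 872457 0) (P.cons (P.lf 0 181446 0) P.nil)))) (P.cons (P.cons (P.lf 95034 0 0) (P.cons (P.lf 88533 0 0) (P.cons (P.lf 0 9084 0) P.nil))) (P.cons (P.cons (P.lf 0 39387 0) (P.cons (P.lf 0 36693 0) P.nil)) (P.cons (P.cons (P.lf 0 3114 0) P.nil) P.nil)))))) 25638)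
 EL.nil)))
noncomputable def S82_111_216_364_22 : EL := (EL.cons 4 (TM.mk (P.cons (P.cons (P.lf 668027055 0 0) (P.cons (P.lf 0 12425523 0) (P.cons (P.lf 0 5514972 0) (P.cons (P.lf 459978 0 0) (P.cons (P.lf 0 14142 0) (P.cons (P.lf 6483 0 0) P.nil)))))) (P.cons (P.cons (P.lf 137999790 0 0) (P.cons (P.lf 0 1583712 0) (P.cons (P.lf 0 895299 0) (P.cons (P.lf 0 107286 0) (P.cons (P.lf 0 19137 0) P.nil))))) (P.cons (P.cons (P.lf 0 58757850 0) (P.cons (P.lf 3412587 0 0) (P.cons (P.lf 1350690 0 0) (P.cons (P.lf 0 267735 0) P.nil)))) (P.cons (P.cons (P.lf 0 17007225 0) (P.cons (P.lf 1382064 0 0) (P.cons (P.lf 559353 0 0) P.nil))) (P.cons (P.cons (P.lf 0 161478 0) (P.cons (P.lf 159987 0 0) P.nil)) (P.cons (P.cons (P.lf 327630 0 0) P.nil) P.nil)))))) 438675)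
 (EL.cons 8 (TM.mk (P.cons (P.cons (P.lf 0 1078062339 0) (P.cons (P.lf 20052324 0 0) (P.cons (P.lf 8900067 0 0) (P.cons (P.lf 0 742317 0) (P.cons (P.lf 22824 0 0) (P.cons (P.lf 0 10464 0) P.nil)))))) (P.cons (P.cons (P.lf 60067941 0 0) (P.cons (P.lf 0 2703846 0) (P.cons (P.lf 0 889617 0) (P.cons (P.lf 367842 0 0) (P.cons (P.lf 24900 0 0) P.nil))))) (P.cons (P.cons (P.lf 96375888 0 0) (P.cons (P.lf 0 5119959 0) (P.cons (P.lf 0 2089281 0) (P.cons (P.lf 347502 0 0) P.nil)))) (P.cons (P.cons (P.lf 2776278 0 0) (P.cons (P.lf 0 873279 0) (P.cons (P.lf 0 353376 0) P.nil))) (P.cons (P.cons (P.lf 0 1959516 0) (P.cons (P.lf 54348 0 0) P.nil)) (P.cons (P.cons (P.lf 0 194949 0) P.nil) P.nil)))))) 329451)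
 (EL.cons 11 (TM.mk (P.cons (P.cons (P.lf 0 69709938 0) (P.cons (P.lf 0 65542743 0) (P.cons (P.lf 5845374 0 0) (P.cons (P.lf 1230852 0 0) (P.cons (P.lf 0 51906 0) (P.cons (P.lf 1404 0 0) P.nil)))))) (P.cons (P.cons (P.lf 0 16882047 0) (P.cons (P.lf 0 16421268 0) (P.cons (P.lf 668220 0 0) (P.cons (P.lf 156486 0 0) (P.cons (P.lf 45423 0 0) P.nil))))) (P.cons (P.cons (P.lf 4844760 0 0) (P.cons (P.lf 4183290 0 0) (P.cons (P.lf 0 913011 0) (P.cons (P.lf 0 181551 0) P.nil)))) (P.cons (P.cons (P.lf 1756107 0 0) (P.cons (P.lf 1554399 0 0) (P.cons (P.lf 0 279075 0) P.nil))) (P.cons (P.cons (P.lf 122712 0 0) (P.cons (P.lf 103932 0 0) P.nil)) (P.cons (P.cons (P.lf 0 10152 0) P.nil) P.nil)))))) 236196)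
 EL.nil)))
noncomputable def S82_111_216_364_23 : EL := (EL.cons 4 (TM.mk (P.cons (P.cons (P.lf 1228878195 0 0) (P.cons (P.lf 0 33460833 0) (P.cons (P.lf 0 14428689 0) (P.lf 1603182 0 0)))) (P.cons (P.cons (P.lf 484757364 0 0) (P.cons (P.lf 0 21058548 0) (P.cons (P.lf 0 9080682 0) (P.lf 1008960 0 0)))) (P.cons (P.cons (P.lf 18972246 0 0) (P.cons (P.lf 0 3937173 0) (P.cons (P.lf 0 1697745 0) (P.lf 188634 0 0)))) (P.cons (P.cons (P.lf 0 11785365 0) (P.cons (P.lf 31869 0 0) (P.cons (P.lf 13743 0 0) P.nil))) (P.cons (P.cons (P.lf 0 1274319 0) (P.cons (P.lf 84792 0 0) P.nil)) (P.cons (P.cons (P.lf 39345 0 0) P.nil) P.nil)))))) 152343)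
 (EL.cons 8 (TM.mk (P.cons (P.cons (P.lf 0 1983164139 0) (P.cons (P.lf 53999121 0 0) (P.cons (P.lf 23285028 0 0) (P.lf 0 2587224 0)))) (P.cons (P.cons (P.lf 0 262124469 0) (P.cons (P.lf 19820529 0 0) (P.cons (P.lf 8546835 0 0) (P.lf 0 949647 0)))) (P.cons (P.cons (P.lf 69976206 0 0) (P.cons (P.lf 288018 0 0) (P.cons (P.lf 124197 0 0) (P.lf 0 13800 0)))) (P.cons (P.cons (P.lf 7767531 0 0) (P.cons (P.lf 0 523986 0) (P.cons (P.lf 0 225948 0) P.nil))) (P.cons (P.cons (P.lf 0 458604 0) (P.cons (P.lf 0 40119 0) P.nil)) (P.cons (P.cons (P.lf 0 111321 0) P.nil) P.nil)))))) 92064)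
 (EL.cons 11 (TM.mk (P.cons (P.cons (P.lf 0 128235858 0) (P.cons (P.lf 0 119463564 0) (P.cons (P.lf 12260844 0 0) (P.cons (P.lf 2549913 0 0) (P.lf 0 212490 0))))) (P.cons (P.cons (P.lf 0 55150257 0) (P.cons (P.lf 0 51377565 0) (P.cons (P.lf 5273007 0 0) (P.cons (P.lf 1096635 0 0) (P.lf 0 91383 0))))) (P.cons (P.cons (P.lf 0 5204532 0) (P.cons (P.lf 0 4848501 0) (P.cons (P.lf 497613 0 0) (P.cons (P.lf 103488 0 0) P.nil)))) (P.cons (P.cons (P.lf 456000 0 0) (P.cons (P.lf 424806 0 0) (P.cons (P.lf 0 43599 0) P.nil))) (P.cons (P.cons (P.lf 81432 0 0) (P.cons (P.lf 75861 0 0) P.nil)) (P.cons (P.cons (P.lf 3213 0 0) P.nil) P.nil)))))) 46713)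
 EL.nil)))
noncomputable def S82_111_216_364_24 : EL := (EL.cons 4 (TM.mk (P.cons (P.cons (P.lf 0 560466696 0) (P.cons (P.lf 10424865 0 0) (P.cons (P.lf 4626996 0 0) (P.cons (P.lf 0 385917 0) (P.cons (P.lf 11865 0 0) (P.cons (P.lf 0 5439 0) P.nil)))))) (P.cons (P.cons (P.lf 0 98120940 0) (P.cons (P.lf 1000248 0 0) (P.cons (P.lf 605358 0 0) (P.cons (P.lf 102171 0 0) (P.cons (P.lf 15684 0 0) P.nil))))) (P.cons (P.cons (P.lf 55507404 0 0) (P.cons (P.lf 0 2952645 0) (P.cons (P.lf 0 1178031 0) (P.cons (P.lf 223554 0 0) P.nil)))) (P.cons (P.cons (P.lf 13349427 0 0) (P.cons (P.lf 0 1077342 0) (P.cons (P.lf 0 437883 0) P.nil))) (P.cons (P.cons (P.lf 0 518589 0) (P.cons (P.lf 0 84837 0) P.nil)) (P.cons (P.cons (P.lf 0 354042 0) P.nil) P.nil)))))) 387189)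
 (EL.cons 8 (TM.mk (P.cons (P.cons (P.lf 904481385 0 0) (P.cons (P.lf 0 16823658 0) (P.cons (P.lf 0 7467051 0) (P.cons (P.lf 622794 0 0) (P.cons (P.lf 0 19149 0) (P.cons (P.lf 8778 0 0) P.nil)))))) (P.cons (P.cons (P.lf 0 78894756 0) (P.cons (P.lf 2798574 0 0) (P.cons (P.lf 981651 0 0) (P.cons (P.lf 0 328239 0) (P.cons (P.lf 0 20286 0) P.nil))))) (P.cons (P.cons (P.lf 0 83405304 0) (P.cons (P.lf 4301022 0 0) (P.cons (P.lf 1763502 0 0) (P.cons (P.lf 0 284673 0) P.nil)))) (P.cons (P.cons (P.lf 280140 0 0) (P.cons (P.lf 590091 0 0) (P.cons (P.lf 239229 0 0) P.nil))) (P.cons (P.cons (P.lf 2097600 0 0) (P.cons (P.lf 0 88764 0) P.nil)) (P.cons (P.cons (P.lf 137946 0 0) P.nil) P.nil)))))) 299325)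
 (EL.cons 11 (TM.mk (P.cons (P.cons (P.lf 58485801 0 0) (P.cons (P.lf 54989577 0 0) (P.cons (P.lf 0 4904199 0) (P.cons (P.lf 0 1032669 0) (P.cons (P.lf 43548 0 0) (P.cons (P.lf 0 1179 0) P.nil)))))) (P.cons (P.cons (P.lf 12321057 0 0) (P.cons (P.lf 12044631 0 0) (P.cons (P.lf 0 406107 0) (P.cons (P.lf 0 98751 0) (P.cons (P.lf 0 39480 0) P.nil))))) (P.cons (P.cons (P.lf 0 4778349 0) (P.cons (P.lf 0 4195218 0) (P.cons (P.lf 806088 0 0) (P.cons (P.lf 161175 0 0) P.nil)))) (P.cons (P.cons (P.lf 0 1420941 0) (P.cons (P.lf 0 1266777 0) (P.cons (P.lf 213483 0 0) P.nil))) (P.cons (P.cons (P.lf 0 40515 0) (P.cons (P.lf 0 32562 0) P.nil)) (P.cons (P.cons (P.lf 19308 0 0) P.nil) P.nil)))))) 208005)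
 EL.nil)))
noncomputable def S82_111_216_364_25 : EL := (EL.cons 4 (TM.mk (P.cons (P.cons (P.lf 0 1031014080 0) (P.cons (P.lf 28073238 0 0) (P.cons (P.lf 12105498 0 0) (P.lf 0 1345050 0)))) (P.cons (P.cons (P.lf 0 374220342 0) (P.cons (P.lf 16783335 0 0) (P.cons (P.lf 7237164 0 0) (P.lf 0 804123 0)))) (P.cons (P.cons (P.lf 1610469 0 0) (P.cons (P.lf 2618217 0 0) (P.cons (P.lf 1128999 0 0) (P.lf 0 125439 0)))) (P.cons (P.cons (P.lf 12440898 0 0) (P.cons (P.lf 0 216822 0) (P.cons (P.lf 0 93498 0) P.nil))) (P.cons (P.cons (P.lf 904905 0 0) (P.cons (P.lf 0 88659 0) P.nil)) (P.cons (P.cons (P.lf 0 110043 0) P.nil) P.nil)))))) 158862)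
 (EL.cons 8 (TM.mk (P.cons (P.cons (P.lf 1663850952 0 0) (P.cons (P.lf 0 45304617 0) (P.cons (P.lf 0 19535862 0) (P.lf 2170650 0 0)))) (P.cons (P.cons (P.lf 167494536 0 0) (P.cons (P.lf 0 15201723 0) (P.cons (P.lf 0 6555153 0) (P.lf 728349 0 0)))) (P.cons (P.cons (P.lf 0 73244991 0) (P.cons (P.lf 489423 0 0) (P.cons (P.lf 211044 0 0) (P.lf 0 23448 0)))) (P.cons (P.cons (P.lf 0 5982732 0) (P.cons (P.lf 531705 0 0) (P.cons (P.lf 229275 0 0) P.nil))) (P.cons (P.cons (P.lf 819591 0 0) (P.cons (P.lf 23958 0 0) P.nil)) (P.cons (P.cons (P.lf 123255 0 0) P.nil) P.nil)))))) 97560)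
 (EL.cons 11 (TM.mk (P.cons (P.cons (P.lf 107588349 0 0) (P.cons (P.lf 100228500 0 0) (P.cons (P.lf 0 10286703 0) (P.cons (P.lf 0 2139345 0) (P.lf 178278 0 0))))) (P.cons (P.cons (P.lf 42880500 0 0) (P.cons (P.lf 39947151 0 0) (P.cons (P.lf 0 4099875 0) (P.cons (P.lf 0 852657 0) (P.lf 71052 0 0))))) (P.cons (P.cons (P.lf 2416791 0 0) (P.cons (P.lf 2251464 0 0) (P.cons (P.lf 0 231072 0) (P.cons (P.lf 0 48054 0) P.nil)))) (P.cons (P.cons (P.lf 0 751755 0) (P.cons (P.lf 0 700329 0) (P.cons (P.lf 71877 0 0) P.nil))) (P.cons (P.cons (P.lf 0 84720 0) (P.cons (P.lf 0 78924 0) P.nil)) (P.cons (P.cons (P.lf 510 0 0) P.nil) P.nil)))))) 56790)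
 EL.nil)))
noncomputable def S82_111_216_364_26 : EL := (EL.cons 4 (TM.mk (P.cons (P.cons (P.lf 470224842 0 0) (P.cons (P.lf 0 8746338 0) (P.cons (P.lf 0 3881994 0) (P.cons (P.lf 323778 0 0) (P.cons (P.lf 0 9954 0) (P.cons (P.lf 4563 0 0) P.nil)))))) (P.cons (P.cons (P.lf 67506408 0 0) (P.cons (P.lf 0 563616 0) (P.cons (P.lf 0 385572 0) (P.cons (P.lf 0 95922 0) (P.cons (P.lf 0 12843 0) P.nil))))) (P.cons (P.cons (P.lf 0 51313572 0) (P.cons (P.lf 2543661 0 0) (P.cons (P.lf 1022103 0 0) (P.cons (P.lf 0 186339 0) P.nil)))) (P.cons (P.cons (P.lf 0 10196715 0) (P.cons (P.lf 831291 0 0) (P.cons (P.lf 339282 0 0) P.nil))) (P.cons (P.cons (P.lf 986127 0 0) (P.cons (P.lf 31518 0 0) P.nil)) (P.cons (P.cons (P.lf 343593 0 0) P.nil) P.nil)))))) 337821)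
 (EL.cons 8 (TM.mk (P.cons (P.cons (P.lf 0 758849046 0) (P.cons (P.lf 14114847 0 0) (P.cons (P.lf 6264765 0 0) (P.cons (P.lf 0 522519 0) (P.cons (P.lf 16065 0 0) (P.cons (P.lf 0 7365 0) P.nil)))))) (P.cons (P.cons (P.lf 90101634 0 0) (P.cons (P.lf 0 2792703 0) (P.cons (P.lf 0 1020984 0) (P.cons (P.lf 291852 0 0) (P.cons (P.lf 16515 0 0) P.nil))))) (P.cons (P.cons (P.lf 71359674 0 0) (P.cons (P.lf 0 3599052 0) (P.cons (P.lf 0 1482246 0) (P.cons (P.lf 232548 0 0) P.nil)))) (P.cons (P.cons (P.lf 0 2600937 0) (P.cons (P.lf 0 373281 0) (P.cons (P.lf 0 151494 0) P.nil))) (P.cons (P.cons (P.lf 0 2085666 0) (P.cons (P.lf 107022 0 0) P.nil)) (P.cons (P.cons (P.lf 0 72618 0) P.nil) P.nil)))))) 267714)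
 (EL.cons 11 (TM.mk (P.cons (P.cons (P.lf 0 49068888 0) (P.cons (P.lf 0 46135596 0) (P.cons (P.lf 4114563 0 0) (P.cons (P.lf 866397 0 0) (P.cons (P.lf 0 36534 0) (P.cons (P.lf 987 0 0) P.nil)))))) (P.cons (P.cons (P.lf 0 8791155 0) (P.cons (P.lf 0 8651658 0) (P.cons (P.lf 211077 0 0) (P.cons (P.lf 55554 0 0) (P.cons (P.lf 34275 0 0) P.nil))))) (P.cons (P.cons (P.lf 4559010 0 0) (P.cons (P.lf 4049052 0 0) (P.cons (P.lf 0 705846 0) (P.cons (P.lf 0 141795 0) P.nil)))) (P.cons (P.cons (P.lf 1122246 0 0) (P.cons (P.lf 1006713 0 0) (P.cons (P.lf 0 160125 0) P.nil))) (P.cons (P.cons (P.lf 0 20031 0) (P.cons (P.lf 0 20430 0) P.nil)) (P.cons (P.cons (P.lf 0 23508 0) P.nil) P.nil)))))) 181125)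
 EL.nil)))
noncomputable def S82_111_216_364_27 : EL := (EL.cons 13 (TM.mk (P.lf 0 4294967296 0) 0)
 EL.nil)
noncomputable def S82_111_216_364_28 : EL := (EL.cons 13 (TM.mk (P.cons (P.cons (P.lf 1958848438 0 0) (P.cons (P.lf 16901792 0 0) (P.cons (P.lf 7288244 0 0) (P.lf 0 809804 0)))) (P.cons (P.cons (P.lf 0 429774065 0) (P.cons (P.lf 11702216 0 0) (P.cons (P.lf 5046128 0 0) (P.lf 0 560680 0)))) (P.cons (P.cons (P.lf 0 54708520 0) (P.cons (P.lf 2863940 0 0) (P.cons (P.lf 1234960 0 0) (P.lf 0 137216 0)))) (P.cons (P.cons (P.lf 345461 0 0) (P.cons (P.lf 261192 0 0) (P.cons (P.lf 112628 0 0) P.nil))) (P.cons (P.cons (P.lf 430451 0 0) (P.cons (P.lf 0 2632 0) P.nil)) (P.cons (P.cons (P.lf 29204 0 0) P.nil) P.nil)))))) 27405)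
 EL.nil)
noncomputable def S82_111_216_364_29 : EL := (EL.cons 13 (TM.mk (P.cons (P.cons (P.lf 0 893391483 0) (P.cons (P.lf 0 15417136 0) (P.cons (P.lf 0 6714556 0) (P.cons (P.lf 681308 0 0) (P.cons (P.lf 0 5994 0) (P.cons (P.lf 2748 0 0) P.nil)))))) (P.cons (P.cons (P.lf 392022661 0 0) (P.cons (P.lf 0 7291750 0) (P.cons (P.lf 0 3236387 0) (P.cons (P.lf 269933 0 0) (P.cons (P.lf 0 8300 0) P.nil))))) (P.cons (P.cons (P.lf 6897759 0 0) (P.cons (P.lf 160167 0 0) (P.cons (P.lf 14644 0 0) (P.cons (P.lf 0 54613 0) P.nil)))) (P.cons (P.cons (P.lf 0 11263884 0) (P.cons (P.lf 630311 0 0) (P.cons (P.lf 254135 0 0) P.nil))) (P.cons (P.cons (P.lf 0 1020370 0) (P.cons (P.lf 122363 0 0) P.nil)) (P.cons (P.cons (P.lf 68307 0 0) P.nil) P.nil)))))) 218036)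
 EL.nil)
noncomputable def S82_111_216_364_30 : EL := (EL.cons 13 (TM.mk (P.cons (P.lf 3603426100 0 0) (P.cons (P.lf 0 113537048 0) (P.cons (P.lf 0 16473628 0) (P.cons (P.lf 0 671992 0) (P.cons (P.lf 4560 0 0) (P.cons (P.lf 2084 0 0) P.nil)))))) 368)
 EL.nil)
noncomputable def S82_111_216_364_31 : EL := (EL.cons 13 (TM.mk (P.cons (P.cons (P.lf 0 1643450368 0) (P.cons (P.lf 0 14180400 0) (P.cons (P.lf 0 6114749 0) (P.lf 679415 0 0)))) (P.cons (P.cons (P.lf 412357261 0 0) (P.cons (P.lf 0 9371221 0) (P.cons (P.lf 0 4040976 0) (P.lf 448996 0 0)))) (P.cons (P.cons (P.lf 42052047 0 0) (P.cons (P.lf 0 2028636 0) (P.cons (P.lf 0 874768 0) (P.lf 97195 0 0)))) (P.cons (P.cons (P.lf 0 3077996 0) (P.cons (P.lf 0 95899 0) (P.cons (P.lf 0 41352 0) P.nil))) (P.cons (P.cons (P.lf 0 631171 0) (P.cons (P.lf 21910 0 0) P.nil)) (P.cons (P.cons (P.lf 0 20851 0) P.nil) P.nil))))))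 44326)
 EL.nil)
noncomputable def S82_111_216_364_32 : EL := (EL.cons 13 (TM.mk (P.cons (P.cons (P.lf 749544749 0 0) (P.cons (P.lf 12934792 0 0) (P.cons (P.lf 5633432 0 0) (P.cons (P.lf 0 571609 0) (P.cons (P.lf 5028 0 0) (P.cons (P.lf 0 2305 0) P.nil)))))) (P.cons (P.cons (P.lf 0 352519033 0) (P.cons (P.lf 5710140 0 0) (P.cons (P.lf 2537791 0 0) (P.cons (P.lf 0 208460 0) (P.cons (P.lf 6805 0 0) P.nil))))) (P.cons (P.cons (P.lf 1149282 0 0) (P.cons (P.lf 0 386268 0) (P.cons (P.lf 0 123593 0) (P.cons (P.lf 55568 0 0) P.nil)))) (P.cons (P.cons (P.lf 10996453 0 0) (P.cons (P.lf 0 554969 0) (P.cons (P.lf 0 226293 0) P.nil))) (P.cons (P.cons (P.lf 647059 0 0) (P.cons (P.lf 0 86509 0) P.nil)) (P.cons (P.cons (P.lf 0 126388 0) P.nil) P.nil)))))) 215640)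
 EL.nil)
noncomputable def S82_111_216_364_33 : EL := (EL.cons 14 (TM.mk (P.lf 8589934592 0 0) 0)
 EL.nil)
noncomputable def S82_111_216_364_34 : EL := (EL.cons 14 (TM.mk (P.cons (P.cons (P.lf 0 3917696876 0) (P.cons (P.lf 0 33803584 0) (P.cons (P.lf 0 14576488 0) (P.lf 1619608 0 0)))) (P.cons (P.cons (P.lf 859548130 0 0) (P.cons (P.lf 0 23404432 0) (P.cons (P.lf 0 10092256 0) (P.lf 1121360 0 0)))) (P.cons (P.cons (P.lf 109417040 0 0) (P.cons (P.lf 0 5727880 0) (P.cons (P.lf 0 2469920 0) (P.lf 274432 0 0)))) (P.cons (P.cons (P.lf 0 690922 0) (P.cons (P.lf 0 522384 0) (P.cons (P.lf 0 225256 0) P.nil))) (P.cons (P.cons (P.lf 0 860902 0) (P.cons (P.lf 5264 0 0) P.nil)) (P.cons (P.cons (P.lf 0 58408 0) P.nil) P.nil)))))) 54810)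
 EL.nil)
noncomputable def S82_111_216_364_35 : EL := (EL.cons 14 (TM.mk (P.cons (P.cons (P.lf 1786782966 0 0) (P.cons (P.lf 30834272 0 0) (P.cons (P.lf 13429112 0 0) (P.cons (P.lf 0 1362616 0) (P.cons (P.lf 11988 0 0) (P.cons (P.lf 0 5496 0) P.nil)))))) (P.cons (P.cons (P.lf 0 784045322 0) (P.cons (P.lf 14583500 0 0) (P.cons (P.lf 6472774 0 0) (P.cons (P.lf 0 539866 0) (P.cons (P.lf 16600 0 0) P.nil))))) (P.cons (P.cons (P.lf 0 13795518 0) (P.cons (P.lf 0 320334 0) (P.cons (P.lf 0 29288 0) (P.cons (P.lf 109226 0 0) P.nil)))) (P.cons (P.cons (P.lf 22527768 0 0) (P.cons (P.lf 0 1260622 0) (P.cons (P.lf 0 508270 0) P.nil))) (P.cons (P.cons (P.lf 2040740 0 0) (P.cons (P.lf 0 244726 0) P.nil)) (P.cons (P.cons (P.lf 0 136614 0) P.nil) P.nil)))))) 436072)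
 EL.nil)
noncomputable def S82_111_216_364_36 : EL := (EL.cons 14 (TM.mk (P.cons (P.lf 0 7206852200 0) (P.cons (P.lf 227074096 0 0) (P.cons (P.lf 32947256 0 0) (P.cons (P.lf 1343984 0 0) (P.cons (P.lf 0 9120 0) (P.cons (P.lf 0 4168 0) P.nil)))))) 736)
 EL.nil)
noncomputable def S82_111_216_364_37 : EL := (EL.cons 14 (TM.mk (P.cons (P.cons (P.lf 3286900736 0 0) (P.cons (P.lf 28360800 0 0) (P.cons (P.lf 12229498 0 0) (P.lf 0 1358830 0)))) (P.cons (P.cons (P.lf 0 824714522 0) (P.cons (P.lf 18742442 0 0) (P.cons (P.lf 8081952 0 0) (P.lf 0 897992 0)))) (P.cons (P.cons (P.lf 0 84104094 0) (P.cons (P.lf 4057272 0 0) (P.cons (P.lf 1749536 0 0) (P.lf 0 194390 0)))) (P.cons (P.cons (P.lf 6155992 0 0) (P.cons (P.lf 191798 0 0) (P.cons (P.lf 82704 0 0) P.nil))) (P.cons (P.cons (P.lf 1262342 0 0) (P.cons (P.lf 0 43820 0) P.nil)) (P.cons (P.cons (P.lf 41702 0 0) P.nil) P.nil))))))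 88652)
 EL.nil)
noncomputable def S82_111_216_364_38 : EL := (EL.cons 14 (TM.mk (P.cons (P.cons (P.lf 0 1499089498 0) (P.cons (P.lf 0 25869584 0) (P.cons (P.lf 0 11266864 0) (P.cons (P.lf 1143218 0 0) (P.cons (P.lf 0 10056 0) (P.cons (P.lf 4610 0 0) P.nil)))))) (P.cons (P.cons (P.lf 705038066 0 0) (P.cons (P.lf 0 11420280 0) (P.cons (P.lf 0 5075582 0) (P.cons (P.lf 416920 0 0) (P.cons (P.lf 0 13610 0) P.nil))))) (P.cons (P.cons (P.lf 0 2298564 0) (P.cons (P.lf 772536 0 0) (P.cons (P.lf 247186 0 0) (P.cons (P.lf 0 111136 0) P.nil)))) (P.cons (P.cons (P.lf 0 21992906 0) (P.cons (P.lf 1109938 0 0) (P.cons (P.lf 452586 0 0) P.nil))) (P.cons (P.cons (P.lf 0 1294118 0) (P.cons (P.lf 173018 0 0) P.nil)) (P.cons (P.cons (P.lf 252776 0 0) P.nil) P.nil)))))) 431280)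
 EL.nil)
noncomputable def S82_111_216_364_39 : EL := (EL.cons 14 (TM.mk (P.cons (P.lf 6046462644 0 0) (P.cons (P.lf 0 381024890 0) (P.cons (P.lf 0 49282024 0) (P.cons (P.lf 0 513256 0) (P.cons (P.lf 212730 0 0) (P.cons (P.lf 16820 0 0) P.nil)))))) 1830)
 EL.nil)
noncomputable def S82_111_216_364_40 : EL := (EL.cons 14 (TM.mk (P.cons (P.cons (P.lf 0 2757670334 0) (P.cons (P.lf 0 23794372 0) (P.cons (P.lf 0 10260402 0) (P.lf 1140042 0 0)))) (P.cons (P.cons (P.lf 778814506 0 0) (P.cons (P.lf 0 14974970 0) (P.cons (P.lf 0 6457376 0) (P.lf 717484 0 0)))) (P.cons (P.cons (P.lf 61368202 0 0) (P.cons (P.lf 0 2799768 0) (P.cons (P.lf 0 1207286 0) (P.lf 134140 0 0)))) (P.cons (P.cons (P.lf 0 10037064 0) (P.cons (P.lf 22660 0 0) (P.cons (P.lf 9772 0 0) P.nil))) (P.cons (P.cons (P.lf 0 1351468 0) (P.cons (P.lf 60298 0 0) P.nil)) (P.cons (P.cons (P.lf 8114 0 0) P.nil) P.nil))))))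 106926)
 EL.nil)
noncomputable def S82_111_216_364_41 : EL := (EL.cons 14 (TM.mk (P.cons (P.cons (P.lf 1257718128 0 0) (P.cons (P.lf 21704270 0 0) (P.cons (P.lf 9452762 0 0) (P.cons (P.lf 0 959146 0) (P.cons (P.lf 8438 0 0) (P.cons (P.lf 0 3868 0) P.nil)))))) (P.cons (P.cons (P.lf 0 631146776 0) (P.cons (P.lf 8897618 0 0) (P.cons (P.lf 3960514 0 0) (P.cons (P.lf 0 319570 0) (P.cons (P.lf 11152 0 0) P.nil))))) (P.cons (P.cons (P.lf 14816226 0 0) (P.cons (P.lf 0 1049266 0) (P.cons (P.lf 0 384774 0) (P.cons (P.lf 108648 0 0) P.nil)))) (P.cons (P.cons (P.lf 20860694 0 0) (P.cons (P.lf 0 958654 0) (P.cons (P.lf 0 394410 0) P.nil))) (P.cons (P.cons (P.lf 607454 0 0) (P.cons (P.lf 0 114614 0) P.nil)) (P.cons (P.cons (P.lf 0 331022 0) P.nil) P.nil)))))) 408656)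
 EL.nil)
noncomputable def S82_111_216_364_42 : EL := (EL.cons 14 (TM.mk (P.cons (P.lf 0 5072909710 0) (P.cons (P.lf 479512976 0 0) (P.cons (P.lf 54466274 0 0) (P.cons (P.lf 0 1387564 0) (P.cons (P.lf 0 447104 0) (P.cons (P.lf 0 20696 0) P.nil)))))) 3862)
 EL.nil)
noncomputable def S82_111_216_364_43 : EL := (EL.cons 14 (TM.mk (P.cons (P.cons (P.lf 2313652368 0 0) (P.cons (P.lf 19963192 0 0) (P.cons (P.lf 8608354 0 0) (P.lf 0 956482 0)))) (P.cons (P.cons (P.lf 0 726314790 0) (P.cons (P.lf 11934818 0 0) (P.cons (P.lf 5146428 0 0) (P.lf 0 571824 0)))) (P.cons (P.cons (P.lf 0 41476524 0) (P.cons (P.lf 1861844 0 0) (P.cons (P.lf 802844 0 0) (P.lf 0 89202 0)))) (P.cons (P.cons (P.lf 12598968 0 0) (P.cons (P.lf 0 154184 0) (P.cons (P.lf 0 66486 0) P.nil))) (P.cons (P.cons (P.lf 1228698 0 0) (P.cons (P.lf 0 63048 0) P.nil)) (P.cons (P.cons (P.lf 0 70918 0) P.nil) P.nil))))))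 119920)
 EL.nil)
noncomputable def S82_111_216_364_44 : EL := (EL.cons 14 (TM.mk (P.cons (P.cons (P.lf 0 1055210438 0) (P.cons (P.lf 0 18209622 0) (P.cons (P.lf 0 7930754 0) (P.cons (P.lf 804712 0 0) (P.cons (P.lf 0 7078 0) (P.cons (P.lf 3244 0 0) P.nil)))))) (P.cons (P.cons (P.lf 562772240 0 0) (P.cons (P.lf 0 6891244 0) (P.cons (P.lf 0 3072940 0) (P.cons (P.lf 242760 0 0) (P.cons (P.lf 0 9134 0) P.nil))))) (P.cons (P.cons (P.lf 0 24290880 0) (P.cons (P.lf 1198778 0 0) (P.cons (P.lf 463772 0 0) (P.cons (P.lf 0 103280 0) P.nil)))) (P.cons (P.cons (P.lf 0 19334228 0) (P.cons (P.lf 814084 0 0) (P.cons (P.lf 337402 0 0) P.nil))) (P.cons (P.cons (P.lf 0 1452 0) (P.cons (P.lf 68162 0 0) P.nil)) (P.cons (P.cons (P.lf 376172 0 0) P.nil) P.nil)))))) 385988)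
 EL.nil)
noncomputable def S82_111_216_364_45 : EL := (EL.cons 14 (TM.mk (P.cons (P.cons (P.lf 0 814915872 0) (P.cons (P.lf 0 21094338 0) (P.cons (P.lf 0 9278128 0) (P.cons (P.lf 853184 0 0) (P.cons (P.lf 0 17078 0) (P.cons (P.lf 7302 0 0) P.nil)))))) (P.cons (P.cons (P.lf 536381018 0 0) (P.cons (P.lf 0 5348734 0) (P.cons (P.lf 0 2518536 0) (P.cons (P.lf 72260 0 0) (P.cons (P.lf 0 20520 0) P.nil))))) (P.cons (P.cons (P.lf 0 49403580 0) (P.cons (P.lf 2997226 0 0) (P.cons (P.lf 1203888 0 0) (P.cons (P.lf 0 220994 0) P.nil)))) (P.cons (P.cons (P.lf 0 21785650 0) (P.cons (P.lf 1089258 0 0) (P.cons (P.lf 461050 0 0) P.nil))) (P.cons (P.cons (P.lf 1031754 0 0) (P.cons (P.lf 0 34308 0) P.nil)) (P.cons (P.cons (P.lf 621006 0 0) P.nil) P.nil)))))) 638828)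
 EL.nil)
noncomputable def S82_111_216_364_46 : EL := (EL.cons 15 (TM.mk (P.lf 4294967296 0 0) 0)
 EL.nil)
noncomputable def S82_111_216_364_47 : EL := (EL.cons 15 (TM.mk (P.cons (P.cons (P.lf 0 1958848438 0) (P.cons (P.lf 0 16901792 0) (P.cons (P.lf 0 7288244 0) (P.lf 809804 0 0)))) (P.cons (P.cons (P.lf 429774065 0 0) (P.cons (P.lf 0 11702216 0) (P.cons (P.lf 0 5046128 0) (P.lf 560680 0 0)))) (P.cons (P.cons (P.lf 54708520 0 0) (P.cons (P.lf 0 2863940 0) (P.cons (P.lf 0 1234960 0) (P.lf 137216 0 0)))) (P.cons (P.cons (P.lf 0 345461 0) (P.cons (P.lf 0 261192 0) (P.cons (P.lf 0 112628 0) P.nil))) (P.cons (P.cons (P.lf 0 430451 0) (P.cons (P.lf 2632 0 0) P.nil)) (P.cons (P.cons (P.lf 0 29204 0) P.nil) P.nil)))))) 27405)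
 EL.nil)
noncomputable def S82_111_216_364_48 : EL := (EL.cons 15 (TM.mk (P.cons (P.cons (P.lf 893391483 0 0) (P.cons (P.lf 15417136 0 0) (P.cons (P.lf 6714556 0 0) (P.cons (P.lf 0 681308 0) (P.cons (P.lf 5994 0 0) (P.cons (P.lf 0 2748 0) P.nil)))))) (P.cons (P.cons (P.lf 0 392022661 0) (P.cons (P.lf 7291750 0 0) (P.cons (P.lf 3236387 0 0) (P.cons (P.lf 0 269933 0) (P.cons (P.lf 8300 0 0) P.nil))))) (P.cons (P.cons (P.lf 0 6897759 0) (P.cons (P.lf 0 160167 0) (P.cons (P.lf 0 14644 0) (P.cons (P.lf 54613 0 0) P.nil)))) (P.cons (P.cons (P.lf 11263884 0 0) (P.cons (P.lf 0 630311 0) (P.cons (P.lf 0 254135 0) P.nil))) (P.cons (P.cons (P.lf 1020370 0 0) (P.cons (P.lf 0 122363 0) P.nil)) (P.cons (P.cons (P.lf 0 68307 0) P.nil) P.nil)))))) 218036)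
 EL.nil)
noncomputable def S82_111_216_364 : SL := (SL.cons S82_111_216_364_0 (SL.cons S82_111_216_364_1 (SL.cons S82_111_216_364_2 (SL.cons S82_111_216_364_3 (SL.cons S82_111_216_364_4 (SL.cons S82_111_216_364_5 (SL.cons S82_111_216_364_6 (SL.cons S82_111_216_364_7 (SL.cons S82_111_216_364_8 (SL.cons S82_111_216_364_9 (SL.cons S82_111_216_364_10 (SL.cons S82_111_216_364_11 (SL.cons S82_111_216_364_12 (SL.cons S82_111_216_364_13 (SL.cons S82_111_216_364_14 (SL.cons S82_111_216_364_15 (SL.cons S82_111_216_364_16 (SL.cons S82_111_216_364_17 (SL.cons S82_111_216_364_18 (SL.cons S82_111_216_364_19 (SL.cons S82_111_216_364_20 (SL.cons S82_111_216_364_21 (SL.cons S82_111_216_364_22 (SL.cons S82_111_216_364_23 (SL.cons S82_111_216_364_24 (SL.cons S82_111_216_364_25 (SL.cons S82_111_216_364_26 (SL.cons S82_111_216_364_27 (SL.cons S82_111_216_364_28 (SL.cons S82_111_216_364_29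 (SL.cons S82_111_216_364_30 (SL.cons S82_111_216_364_31 (SL.cons S82_111_216_364_32 (SL.cons S82_111_216_364_33 (SL.cons S82_111_216_364_34 (SL.cons S82_111_216_364_35 (SL.cons S82_111_216_364_36 (SL.cons S82_111_216_364_37 (SL.cons S82_111_216_364_38 (SL.cons S82_111_216_364_39 (SL.cons S82_111_216_364_40 (SL.cons S82_111_216_364_41 (SL.cons S82_111_216_364_42 (SL.cons S82_111_216_364_43 (SL.cons S82_111_216_364_44 (SL.cons S82_111_216_364_45 (SL.cons S82_111_216_364_46 (SL.cons S82_111_216_364_47 (SL.cons S82_111_216_364_48 SL.nil)))))))))))))))))))))))))))))))))))))))))))))))))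
noncomputable def S82_111_290_364_0 : EL := (EL.cons 0 (TM.mk (P.cons (P.lf 3141443055 0 0) (P.cons (P.lf 334885157 0 0) (P.cons (P.lf 43314278 0 0) (P.cons (P.lf 451103 0 0) (P.cons (P.lf 0 186969 0) (P.cons (P.lf 0 14783 0) P.nil)))))) 1615)
 (EL.cons 1 (TM.mk (P.cons (P.lf 0 1170850837 0) (P.cons (P.lf 0 233327645 0) (P.cons (P.lf 10098210 0 0) (P.cons (P.lf 2078180 0 0) (P.cons (P.lf 90420 0 0) (P.cons (P.lf 0 2872 0) P.nil)))))) 983)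
 (EL.cons 5 (TM.mk (P.cons (P.lf 6184486878 0 0) (P.cons (P.lf 0 119070280 0) (P.cons (P.lf 0 15400634 0) (P.cons (P.lf 0 160396 0) (P.cons (P.lf 66480 0 0) (P.cons (P.lf 5256 0 0) P.nil)))))) 413)
 (EL.cons 9 (TM.mk (P.lf 6442450944 0 0) 2)
 EL.nil))))
noncomputable def S82_111_290_364_1 : EL := (EL.cons 0 (TM.mk (P.cons (P.cons (P.lf 0 3706578391 0) (P.cons (P.lf 35144703 0 0) (P.cons (P.lf 4525608 0 0) (P.lf 0 301694 0)))) (P.cons (P.cons (P.lf 0 729489000 0) (P.cons (P.lf 20655421 0 0) (P.cons (P.lf 2659816 0 0) (P.lf 0 177309 0)))) (P.cons (P.cons (P.lf 20727903 0 0) (P.cons (P.lf 2933253 0 0) (P.cons (P.lf 377700 0 0) (P.lf 0 25168 0)))) (P.cons (P.cons (P.lf 29881668 0 0) (P.cons (P.lf 0 414325 0) (P.cons (P.lf 0 53368 0) P.nil))) (P.cons (P.cons (P.lf 2605258 0 0) (P.cons (P.lf 0 144271 0) P.nil)) (P.cons (P.cons (P.lf 0 147253 0) P.nil) P.nil))))))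 152687)
 (EL.cons 1 (TM.mk (P.cons (P.cons (P.lf 2115856957 0 0) (P.cons (P.lf 0 27281282 0) (P.cons (P.lf 0 3513046 0) (P.lf 234204 0 0)))) (P.cons (P.cons (P.lf 63290029 0 0) (P.cons (P.lf 0 5797993 0) (P.cons (P.lf 0 746617 0) (P.lf 49775 0 0)))) (P.cons (P.cons (P.lf 0 140818352 0) (P.cons (P.lf 2212773 0 0) (P.cons (P.lf 284936 0 0) (P.lf 0 18993 0)))) (P.cons (P.cons (P.lf 0 10085742 0) (P.cons (P.lf 675996 0 0) (P.cons (P.lf 87039 0 0) P.nil))) (P.cons (P.cons (P.lf 1544106 0 0) (P.cons (P.lf 27493 0 0) P.nil)) (P.cons (P.cons (P.lf 243456 0 0) P.nil) P.nil)))))) 59881)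
 (EL.cons 5 (TM.mk (P.cons (P.cons (P.lf 0 2029439761 0) (P.cons (P.lf 0 32541180 0) (P.cons (P.lf 0 4190356 0) (P.lf 279354 0 0)))) (P.cons (P.cons (P.lf 978017433 0 0) (P.cons (P.lf 0 21222812 0) (P.cons (P.lf 0 2732886 0) (P.lf 182190 0 0)))) (P.cons (P.cons (P.lf 82704522 0 0) (P.cons (P.lf 0 4439532 0) (P.cons (P.lf 0 571680 0) (P.lf 38114 0 0)))) (P.cons (P.cons (P.lf 0 11479091 0) (P.cons (P.lf 0 162462 0) (P.cons (P.lf 0 20922 0) P.nil))) (P.cons (P.cons (P.lf 0 1655392 0) (P.cons (P.lf 54412 0 0) P.nil)) (P.cons (P.cons (P.lf 4782 0 0) P.nil) P.nil)))))) 49678)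
 (EL.cons 9 (TM.mk (P.cons (P.cons (P.lf 0 2953530255 0) (P.cons (P.lf 0 17687010 0) (P.cons (P.lf 0 2277570 0) (P.lf 151836 0 0)))) (P.cons (P.cons (P.lf 634097257 0 0) (P.cons (P.lf 0 12245874 0) (P.cons (P.lf 0 1576914 0) (P.lf 105126 0 0)))) (P.cons (P.cons (P.lf 79477440 0 0) (P.cons (P.lf 0 2996994 0) (P.cons (P.lf 0 385920 0) (P.lf 25728 0 0)))) (P.cons (P.cons (P.lf 0 753979 0) (P.cons (P.lf 0 273324 0) (P.cons (P.lf 0 35190 0) P.nil))) (P.cons (P.cons (P.lf 0 643300 0) (P.cons (P.lf 2754 0 0) P.nil)) (P.cons (P.cons (P.lf 0 41970 0) P.nil) P.nil)))))) 13226)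
 (EL.cons 2 (TM.mk (P.cons (P.cons (P.lf 173059661 0 0) (P.cons (P.lf 49404619 0 0) (P.cons (P.lf 0 3695383 0) (P.cons (P.lf 0 249013 0) (P.lf 12448 0 0))))) (P.cons (P.cons (P.lf 74427581 0 0) (P.cons (P.lf 21247391 0 0) (P.cons (P.lf 0 1589267 0) (P.cons (P.lf 0 107091 0) (P.lf 5352 0 0))))) (P.cons (P.cons (P.lf 7023735 0 0) (P.cons (P.lf 2005115 0 0) (P.cons (P.lf 0 149976 0) (P.cons (P.lf 0 10105 0) P.nil)))) (P.cons (P.cons (P.lf 0 615389 0) (P.cons (P.lf 0 175680 0) (P.cons (P.lf 13140 0 0) P.nil))) (P.cons (P.cons (P.lf 0 109898 0) (P.cons (P.lf 0 31370 0) P.nil)) (P.cons (P.cons (P.lf 0 4336 0) P.nil) P.nil)))))) 8205)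
 (EL.cons 6 (TM.mk (P.cons (P.cons (P.lf 38128830 0 0) (P.cons (P.lf 10884918 0 0) (P.cons (P.lf 0 814173 0) (P.cons (P.lf 0 54861 0) (P.lf 2742 0 0))))) (P.cons (P.cons (P.lf 26399085 0 0) (P.cons (P.lf 7536342 0 0) (P.cons (P.lf 0 563706 0) (P.cons (P.lf 0 37983 0) (P.lf 1896 0 0))))) (P.cons (P.cons (P.lf 6460779 0 0) (P.cons (P.lf 1844406 0 0) (P.cons (P.lf 0 137958 0) (P.cons (P.lf 0 9294 0) P.nil)))) (P.cons (P.cons (P.lf 589230 0 0) (P.cons (P.lf 168210 0 0) (P.cons (P.lf 0 12579 0) P.nil))) (P.cons (P.cons (P.lf 0 5937 0) (P.cons (P.lf 0 1695 0) P.nil)) (P.cons (P.cons (P.lf 0 4587 0) P.nil) P.nil)))))) 4212)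
 EL.nil))))))
noncomputable def S82_111_290_364_2 : EL := (EL.cons 0 (TM.mk (P.cons (P.cons (P.lf 2738296514 0 0) (P.cons (P.lf 0 19779830 0) (P.cons (P.lf 0 2763707 0) (P.cons (P.lf 113994 0 0) (P.cons (P.lf 120 0 0) (P.cons (P.lf 475 0 0) P.nil)))))) (P.cons (P.cons (P.lf 152343402 0 0) (P.cons (P.lf 1455495 0 0) (P.cons (P.lf 0 94902 0) (P.cons (P.lf 0 85199 0) (P.cons (P.lf 158 0 0) P.nil))))) (P.cons (P.cons (P.lf 0 227838041 0) (P.cons (P.lf 7888222 0 0) (P.cons (P.lf 865245 0 0) (P.cons (P.lf 0 106476 0) P.nil)))) (P.cons (P.cons (P.lf 0 44057240 0) (P.cons (P.lf 2471767 0 0) (P.cons (P.lf 278409 0 0) P.nil))) (P.cons (P.cons (P.lf 3523662 0 0) (P.cons (P.lf 116898 0 0) P.nil)) (P.cons (P.cons (P.lf 1429529 0 0) P.nil) P.nil)))))) 683861)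
 (EL.cons 1 (TM.mk (P.cons (P.cons (P.lf 0 1693938445 0) (P.cons (P.lf 16343734 0 0) (P.cons (P.lf 2263234 0 0) (P.cons (P.lf 0 99462 0) (P.cons (P.lf 0 96 0) (P.cons (P.lf 0 354 0) P.nil)))))) (P.cons (P.cons (P.lf 301851079 0 0) (P.cons (P.lf 0 6450145 0) (P.cons (P.lf 0 681054 0) (P.cons (P.lf 93877 0 0) (P.cons (P.lf 0 86 0) P.nil))))) (P.cons (P.cons (P.lf 168698673 0 0) (P.cons (P.lf 0 5042168 0) (P.cons (P.lf 0 604425 0) (P.cons (P.lf 54835 0 0) P.nil)))) (P.cons (P.cons (P.lf 0 14341524 0) (P.cons (P.lf 0 105396 0) (P.cons (P.lf 0 14314 0) P.nil))) (P.cons (P.cons (P.lf 0 6277924 0) (P.cons (P.lf 278403 0 0) P.nil)) (P.cons (P.cons (P.lf 0 156736 0) P.nil) P.nil)))))) 323900)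
 (EL.cons 5 (TM.mk (P.cons (P.cons (P.lf 560962967 0 0) (P.cons (P.lf 25412277 0 0) (P.cons (P.lf 3404423 0 0) (P.cons (P.lf 0 184135 0) (P.cons (P.lf 0 76 0) (P.cons (P.lf 0 282 0) P.nil)))))) (P.cons (P.cons (P.lf 0 713088290 0) (P.cons (P.lf 8261874 0 0) (P.cons (P.lf 1240472 0 0) (P.cons (P.lf 0 25457 0) (P.cons (P.lf 0 99 0) P.nil))))) (P.cons (P.cons (P.lf 69152519 0 0) (P.cons (P.lf 0 2916955 0) (P.cons (P.lf 0 277066 0) (P.cons (P.lf 50418 0 0) P.nil)))) (P.cons (P.cons (P.lf 34179413 0 0) (P.cons (P.lf 0 1601174 0) (P.cons (P.lf 0 177387 0) P.nil))) (P.cons (P.cons (P.lf 358635 0 0) (P.cons (P.lf 0 181960 0) P.nil)) (P.cons (P.cons (P.lf 0 629247 0) P.nil) P.nil)))))) 248202)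
 (EL.cons 9 (TM.mk (P.cons (P.cons (P.lf 1354040727 0 0) (P.cons (P.lf 16217155 0 0) (P.cons (P.lf 2136853 0 0) (P.cons (P.lf 0 126711 0) (P.cons (P.lf 0 28 0) (P.cons (P.lf 0 106 0) P.nil)))))) (P.cons (P.cons (P.lf 0 581401534 0) (P.cons (P.lf 7746516 0 0) (P.cons (P.lf 1064766 0 0) (P.cons (P.lf 0 49183 0) (P.cons (P.lf 0 39 0) P.nil))))) (P.cons (P.cons (P.lf 0 10461657 0) (P.cons (P.lf 0 99055 0) (P.cons (P.lf 26971 0 0) (P.cons (P.lf 11082 0 0) P.nil)))) (P.cons (P.cons (P.lf 16336431 0 0) (P.cons (P.lf 0 637350 0) (P.cons (P.lf 0 69181 0) P.nil))) (P.cons (P.cons (P.lf 1421893 0 0) (P.cons (P.lf 0 123874 0) P.nil)) (P.cons (P.cons (P.lf 0 106753 0) P.nil) P.nil)))))) 88378)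
 (EL.cons 2 (TM.mk (P.cons (P.cons (P.lf 0 158677790 0) (P.cons (P.lf 0 46249149 0) (P.cons (P.lf 2994654 0 0) (P.cons (P.lf 221833 0 0) (P.cons (P.lf 0 5101 0) (P.cons (P.lf 0 61 0) P.nil)))))) (P.cons (P.cons (P.lf 0 34175643 0) (P.cons (P.lf 0 10822944 0) (P.cons (P.lf 287932 0 0) (P.cons (P.lf 41895 0 0) (P.cons (P.lf 4618 0 0) P.nil))))) (P.cons (P.cons (P.lf 12480913 0 0) (P.cons (P.lf 3080491 0 0) (P.cons (P.lf 0 466391 0) (P.cons (P.lf 0 21251 0) P.nil)))) (P.cons (P.cons (P.lf 3742717 0 0) (P.cons (P.lf 961205 0 0) (P.cons (P.lf 0 124346 0) P.nil))) (P.cons (P.cons (P.lf 100940 0 0) (P.cons (P.lf 19051 0 0) P.nil)) (P.cons (P.cons (P.lf 0 51598 0) P.nil) P.nil)))))) 72117)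
 (EL.cons 6 (TM.mk (P.cons (P.cons (P.lf 0 34960188 0) (P.cons (P.lf 0 10189698 0) (P.cons (P.lf 659784 0 0) (P.cons (P.lf 48870 0 0) (P.cons (P.lf 0 1122 0) (P.cons (P.lf 0 12 0) P.nil)))))) (P.cons (P.cons (P.lf 0 16699578 0) (P.cons (P.lf 0 5057250 0) (P.cons (P.lf 236496 0 0) (P.cons (P.lf 22044 0 0) (P.cons (P.lf 720 0 0) P.nil))))) (P.cons (P.cons (P.lf 213540 0 0) (P.cons (P.lf 0 110346 0) (P.cons (P.lf 0 75522 0) (P.cons (P.lf 0 1470 0) P.nil)))) (P.cons (P.cons (P.lf 1373952 0 0) (P.cons (P.lf 336636 0 0) (P.cons (P.lf 0 52362 0) P.nil))) (P.cons (P.cons (P.lf 267048 0 0) (P.cons (P.lf 65808 0 0) P.nil)) (P.cons (P.cons (P.lf 10290 0 0) P.nil) P.nil)))))) 31368)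
 EL.nil))))))
noncomputable def S82_111_290_364_3 : EL := (EL.cons 0 (TM.mk (P.cons (P.lf 5314273808 0 0) (P.cons (P.lf 0 334885157 0) (P.cons (P.lf 0 43314278 0) (P.cons (P.lf 0 451103 0) (P.cons (P.lf 186969 0 0) (P.cons (P.lf 14783 0 0) P.nil)))))) 1615)
 (EL.cons 1 (TM.mk (P.cons (P.lf 1170850837 0 0) (P.cons (P.lf 233327645 0 0) (P.cons (P.lf 0 10098210 0) (P.cons (P.lf 0 2078180 0) (P.cons (P.lf 0 90420 0) (P.cons (P.lf 2872 0 0) P.nil)))))) 983)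
 (EL.cons 5 (TM.mk (P.cons (P.lf 257964066 0 0) (P.cons (P.lf 119070280 0 0) (P.cons (P.lf 15400634 0 0) (P.cons (P.lf 160396 0 0) (P.cons (P.lf 0 66480 0) (P.cons (P.lf 0 5256 0) P.nil)))))) 406)
 EL.nil)))
noncomputable def S82_111_290_364_4 : EL := (EL.cons 0 (TM.mk (P.cons (P.cons (P.lf 0 2436319439 0) (P.cons (P.lf 0 14589727 0) (P.cons (P.lf 0 1878730 0) (P.lf 125245 0 0)))) (P.cons (P.cons (P.lf 676584101 0 0) (P.cons (P.lf 0 9182033 0) (P.cons (P.lf 0 1182380 0) (P.lf 78823 0 0)))) (P.cons (P.cons (P.lf 52455990 0 0) (P.cons (P.lf 0 1716704 0) (P.cons (P.lf 0 221055 0) (P.lf 14735 0 0)))) (P.cons (P.cons (P.lf 0 8809657 0) (P.cons (P.lf 13895 0 0) (P.cons (P.lf 1792 0 0) P.nil))) (P.cons (P.cons (P.lf 0 1155918 0) (P.cons (P.lf 36972 0 0) P.nil)) (P.cons (P.cons (P.lf 9947 0 0) P.nil) P.nil)))))) 33461)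
 (EL.cons 1 (TM.mk (P.cons (P.cons (P.lf 0 536774497 0) (P.cons (P.lf 0 3214436 0) (P.cons (P.lf 0 413925 0) (P.lf 27594 0 0)))) (P.cons (P.cons (P.lf 8272168 0 0) (P.cons (P.lf 0 2866138 0) (P.cons (P.lf 0 369075 0) (P.lf 24603 0 0)))) (P.cons (P.cons (P.lf 42038971 0 0) (P.cons (P.lf 0 960459 0) (P.cons (P.lf 0 123676 0) (P.lf 8244 0 0)))) (P.cons (P.cons (P.lf 2700245 0 0) (P.cons (P.lf 0 133316 0) (P.cons (P.lf 0 17165 0) P.nil))) (P.cons (P.cons (P.lf 0 431887 0) (P.cons (P.lf 0 502 0) P.nil)) (P.cons (P.cons (P.lf 0 65596 0) P.nil) P.nil)))))) 12928)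
 (EL.cons 5 (TM.mk (P.cons (P.cons (P.lf 0 118263170 0) (P.cons (P.lf 0 708210 0) (P.cons (P.lf 0 91196 0) (P.lf 6078 0 0)))) (P.cons (P.cons (P.lf 0 29197484 0) (P.cons (P.lf 0 817234 0) (P.cons (P.lf 0 105234 0) (P.lf 7014 0 0)))) (P.cons (P.cons (P.lf 7841460 0 0) (P.cons (P.lf 0 388614 0) (P.cons (P.lf 0 50040 0) (P.lf 3334 0 0)))) (P.cons (P.cons (P.lf 2880994 0 0) (P.cons (P.lf 0 96048 0) (P.cons (P.lf 0 12366 0) P.nil))) (P.cons (P.cons (P.lf 196560 0 0) (P.cons (P.lf 0 12226 0) P.nil)) (P.cons (P.cons (P.lf 0 17526 0) P.nil) P.nil)))))) 8594)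
 EL.nil)))
noncomputable def S82_111_290_364_5 : EL := (EL.cons 0 (TM.mk (P.cons (P.cons (P.lf 1116926342 0 0) (P.cons (P.lf 13377269 0 0) (P.cons (P.lf 1762655 0 0) (P.cons (P.lf 0 104521 0) (P.cons (P.lf 0 22 0) (P.cons (P.lf 0 86 0) P.nil)))))) (P.cons (P.cons (P.lf 0 549973156 0) (P.cons (P.lf 5546990 0 0) (P.cons (P.lf 767232 0 0) (P.cons (P.lf 0 33983 0) (P.cons (P.lf 0 29 0) P.nil))))) (P.cons (P.cons (P.lf 12488621 0 0) (P.cons (P.lf 0 593412 0) (P.cons (P.lf 0 47464 0) (P.cons (P.lf 12549 0 0) P.nil)))) (P.cons (P.cons (P.lf 17833568 0 0) (P.cons (P.lf 0 573808 0) (P.cons (P.lf 0 65775 0) P.nil))) (P.cons (P.cons (P.lf 474053 0 0) (P.cons (P.lf 0 68456 0) P.nil)) (P.cons (P.cons (P.lf 0 284837 0) P.nil) P.nil)))))) 115295)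
 (EL.cons 1 (TM.mk (P.cons (P.cons (P.lf 246083319 0 0) (P.cons (P.lf 2947305 0 0) (P.cons (P.lf 388350 0 0) (P.cons (P.lf 0 23026 0) (P.cons (P.lf 0 3 0) (P.cons (P.lf 0 18 0) P.nil)))))) (P.cons (P.cons (P.lf 0 56624308 0) (P.cons (P.lf 1995191 0 0) (P.cons (P.lf 270900 0 0) (P.cons (P.lf 0 13526 0) (P.cons (P.lf 0 7 0) P.nil))))) (P.cons (P.cons (P.lf 0 25080435 0) (P.cons (P.lf 237135 0 0) (P.cons (P.lf 40113 0 0) (P.cons (P.lf 431 0 0) P.nil)))) (P.cons (P.cons (P.lf 3064625 0 0) (P.cons (P.lf 0 136792 0) (P.cons (P.lf 0 13953 0) P.nil))) (P.cons (P.cons (P.lf 1035015 0 0) (P.cons (P.lf 0 48166 0) P.nil)) (P.cons (P.cons (P.lf 18626 0 0) P.nil) P.nil)))))) 47326)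
 (EL.cons 5 (TM.mk (P.cons (P.cons (P.lf 54217540 0 0) (P.cons (P.lf 649354 0 0) (P.cons (P.lf 85562 0 0) (P.cons (P.lf 0 5072 0) (P.cons (P.lf 0 0 0) (P.cons (P.lf 0 4 0) P.nil)))))) (P.cons (P.cons (P.lf 1745500 0 0) (P.cons (P.lf 609906 0 0) (P.cons (P.lf 82126 0 0) (P.cons (P.lf 0 4310 0) (P.cons (P.lf 0 0 0) P.nil))))) (P.cons (P.cons (P.lf 0 7927616 0) (P.cons (P.lf 177972 0 0) (P.cons (P.lf 25866 0 0) (P.cons (P.lf 0 768 0) P.nil)))) (P.cons (P.cons (P.lf 0 895346 0) (P.cons (P.lf 0 8428 0) (P.cons (P.lf 326 0 0) P.nil))) (P.cons (P.cons (P.lf 305410 0 0) (P.cons (P.lf 0 16950 0) P.nil)) (P.cons (P.cons (P.lf 65690 0 0) P.nil) P.nil)))))) 17348)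
 EL.nil)))
noncomputable def S82_111_290_364_6 : EL := (EL.cons 12 (TM.mk (P.lf 8589934592 0 0) 0)
 (EL.cons 3 (TM.mk (P.cons (P.lf 0 3378211968 0) (P.cons (P.lf 106440982 0 0) (P.cons (P.lf 15444026 0 0) (P.cons (P.lf 629992 0 0) (P.cons (P.lf 0 4275 0) (P.cons (P.lf 0 1953 0) P.nil)))))) 352)
 (EL.cons 7 (TM.mk (P.cons (P.lf 0 744294039 0) (P.cons (P.lf 0 171774507 0) (P.cons (P.lf 0 2395646 0) (P.cons (P.lf 321494 0 0) (P.cons (P.lf 25565 0 0) (P.cons (P.lf 650 0 0) P.nil)))))) 203)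
 EL.nil)))
noncomputable def S82_111_290_364_7 : EL := (EL.cons 12 (TM.mk (P.cons (P.cons (P.lf 0 3938040340 0) (P.cons (P.lf 0 23582680 0) (P.cons (P.lf 0 3036760 0) (P.lf 202448 0 0)))) (P.cons (P.cons (P.lf 845463010 0 0) (P.cons (P.lf 0 16327832 0) (P.cons (P.lf 0 2102552 0) (P.lf 140168 0 0)))) (P.cons (P.cons (P.lf 105969920 0 0) (P.cons (P.lf 0 3995992 0) (P.cons (P.lf 0 514560 0) (P.lf 34304 0 0)))) (P.cons (P.cons (P.lf 0 1005306 0) (P.cons (P.lf 0 364432 0) (P.cons (P.lf 0 46920 0) P.nil))) (P.cons (P.cons (P.lf 0 857734 0) (P.cons (P.lf 3672 0 0) P.nil)) (P.cons (P.cons (P.lf 0 55960 0) P.nil) P.nil)))))) 17610)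
 (EL.cons 3 (TM.mk (P.cons (P.cons (P.lf 2989448376 0 0) (P.cons (P.lf 0 18548984 0) (P.cons (P.lf 0 2388566 0) (P.lf 159234 0 0)))) (P.cons (P.cons (P.lf 226779106 0 0) (P.cons (P.lf 0 12258232 0) (P.cons (P.lf 0 1578504 0) (P.lf 105230 0 0)))) (P.cons (P.cons (P.lf 7255623 0 0) (P.cons (P.lf 0 2653602 0) (P.cons (P.lf 0 341700 0) (P.lf 22778 0 0)))) (P.cons (P.cons (P.lf 0 6601230 0) (P.cons (P.lf 0 125440 0) (P.cons (P.lf 0 16144 0) P.nil))) (P.cons (P.cons (P.lf 0 859569 0) (P.cons (P.lf 28658 0 0) P.nil)) (P.cons (P.cons (P.lf 0 11981 0) P.nil) P.nil)))))) 57459)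
 (EL.cons 7 (TM.mk (P.cons (P.cons (P.lf 0 1983803053 0) (P.cons (P.lf 46944928 0 0) (P.cons (P.lf 6045152 0 0) (P.lf 0 403011 0)))) (P.cons (P.cons (P.lf 0 365976234 0) (P.cons (P.lf 19782350 0 0) (P.cons (P.lf 2547395 0 0) (P.lf 0 169826 0)))) (P.cons (P.cons (P.lf 36288012 0 0) (P.cons (P.lf 1687968 0 0) (P.cons (P.lf 217362 0 0) (P.lf 0 14492 0)))) (P.cons (P.cons (P.lf 6266138 0 0) (P.cons (P.lf 0 198584 0) (P.cons (P.lf 0 25571 0) P.nil))) (P.cons (P.cons (P.lf 0 3267 0) (P.cons (P.lf 0 27953 0) P.nil)) (P.cons (P.cons (P.lf 0 51800 0) P.nil) P.nil)))))) 29736)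
 (EL.cons 10 (TM.mk (P.cons (P.cons (P.lf 0 220023372 0) (P.cons (P.lf 0 62811699 0) (P.cons (P.lf 4698213 0 0) (P.cons (P.lf 316590 0 0) (P.lf 0 15828 0))))) (P.cons (P.cons (P.lf 0 101557728 0) (P.cons (P.lf 0 28992435 0) (P.cons (P.lf 2168586 0 0) (P.cons (P.lf 146130 0 0) (P.lf 0 7305 0))))) (P.cons (P.cons (P.lf 0 13135548 0) (P.cons (P.lf 0 3749901 0) (P.cons (P.lf 280485 0 0) (P.cons (P.lf 18900 0 0) P.nil)))) (P.cons (P.cons (P.lf 0 136803 0) (P.cons (P.lf 0 39054 0) (P.cons (P.lf 2919 0 0) P.nil))) (P.cons (P.cons (P.lf 56700 0 0) (P.cons (P.lf 16185 0 0) P.nil)) (P.cons (P.cons (P.lf 4482 0 0) P.nil) P.nil)))))) 4380)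
 EL.nil))))
noncomputable def S82_111_290_364_8 : EL := (EL.cons 12 (TM.mk (P.cons (P.cons (P.lf 1805387636 0 0) (P.cons (P.lf 21622874 0 0) (P.cons (P.lf 2849138 0 0) (P.cons (P.lf 0 168948 0) (P.cons (P.lf 0 38 0) (P.cons (P.lf 0 142 0) P.nil)))))) (P.cons (P.cons (P.lf 0 775202046 0) (P.cons (P.lf 10328688 0 0) (P.cons (P.lf 1419688 0 0) (P.cons (P.lf 0 65578 0) (P.cons (P.lf 0 52 0) P.nil))))) (P.cons (P.cons (P.lf 0 13948876 0) (P.cons (P.lf 0 132074 0) (P.cons (P.lf 35962 0 0) (P.cons (P.lf 14776 0 0) P.nil)))) (P.cons (P.cons (P.lf 21781908 0 0) (P.cons (P.lf 0 849800 0) (P.cons (P.lf 0 92242 0) P.nil))) (P.cons (P.cons (P.lf 1895858 0 0) (P.cons (P.lf 0 165166 0) P.nil)) (P.cons (P.cons (P.lf 0 142338 0) P.nil) P.nil)))))) 117808)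
 (EL.cons 3 (TM.mk (P.cons (P.cons (P.lf 0 2030999685 0) (P.cons (P.lf 9096867 0 0) (P.cons (P.lf 1298716 0 0) (P.cons (P.lf 0 45302 0) (P.cons (P.lf 0 70 0) (P.cons (P.lf 0 281 0) P.nil)))))) (P.cons (P.cons (P.lf 53299763 0 0) (P.cons (P.lf 0 1227686 0) (P.cons (P.lf 14187 0 0) (P.cons (P.lf 54908 0 0) (P.cons (P.lf 0 101 0) P.nil))))) (P.cons (P.cons (P.lf 112621644 0 0) (P.cons (P.lf 0 4339732 0) (P.cons (P.lf 0 460798 0) (P.cons (P.lf 62505 0 0) P.nil)))) (P.cons (P.cons (P.lf 22376994 0 0) (P.cons (P.lf 0 1514163 0) (P.cons (P.lf 0 165292 0) P.nil))) (P.cons (P.cons (P.lf 0 423872 0) (P.cons (P.lf 0 158420 0) P.nil)) (P.cons (P.cons (P.lf 0 524614 0) P.nil) P.nil)))))) 310884)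
 (EL.cons 7 (TM.mk (P.cons (P.cons (P.lf 1975373845 0 0) (P.cons (P.lf 0 30277466 0) (P.cons (P.lf 0 4151021 0) (P.cons (P.lf 194986 0 0) (P.cons (P.lf 147 0 0) (P.cons (P.lf 552 0 0) P.nil)))))) (P.cons (P.cons (P.lf 0 86015154 0) (P.cons (P.lf 1981232 0 0) (P.cons (P.lf 0 22900 0) (P.cons (P.lf 0 88608 0) (P.cons (P.lf 161 0 0) P.nil))))) (P.cons (P.cons (P.lf 0 170468105 0) (P.cons (P.lf 6743623 0 0) (P.cons (P.lf 746626 0 0) (P.cons (P.lf 0 89244 0) P.nil)))) (P.cons (P.cons (P.lf 0 5842883 0) (P.cons (P.lf 1253724 0 0) (P.cons (P.lf 136290 0 0) P.nil))) (P.cons (P.cons (P.lf 3233255 0 0) (P.cons (P.lf 0 45818 0) P.nil)) (P.cons (P.cons (P.lf 326243 0 0) P.nil) P.nil)))))) 202351)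
 (EL.cons 10 (TM.mk (P.cons (P.cons (P.lf 201738648 0 0) (P.cons (P.lf 58799922 0 0) (P.cons (P.lf 0 3807318 0) (P.cons (P.lf 0 282036 0) (P.cons (P.lf 6486 0 0) (P.cons (P.lf 84 0 0) P.nil)))))) (P.cons (P.cons (P.lf 49806384 0 0) (P.cons (P.lf 15612672 0 0) (P.cons (P.lf 0 486030 0) (P.cons (P.lf 0 62148 0) (P.cons (P.lf 0 5670 0) P.nil))))) (P.cons (P.cons (P.lf 0 13376316 0) (P.cons (P.lf 0 3155718 0) (P.cons (P.lf 560238 0 0) (P.cons (P.lf 23766 0 0) P.nil)))) (P.cons (P.cons (P.lf 0 4914528 0) (P.cons (P.lf 0 1239138 0) (P.cons (P.lf 172812 0 0) P.nil))) (P.cons (P.cons (P.lf 0 335298 0) (P.cons (P.lf 0 74856 0) P.nil)) (P.cons (P.cons (P.lf 29898 0 0) P.nil) P.nil)))))) 76698)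
 EL.nil))))
noncomputable def S82_111_290_364_9 : EL := (EL.cons 3 (TM.mk (P.cons (P.lf 0 3378211968 0) (P.cons (P.lf 106440982 0 0) (P.cons (P.lf 15444026 0 0) (P.cons (P.lf 629992 0 0) (P.cons (P.lf 0 4275 0) (P.cons (P.lf 0 1953 0) P.nil)))))) 352)
 (EL.cons 7 (TM.mk (P.cons (P.lf 0 744294039 0) (P.cons (P.lf 0 171774507 0) (P.cons (P.lf 0 2395646 0) (P.cons (P.lf 321494 0 0) (P.cons (P.lf 25565 0 0) (P.cons (P.lf 650 0 0) P.nil)))))) 203)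
 EL.nil))
noncomputable def S82_111_290_364_10 : EL := (EL.cons 3 (TM.mk (P.cons (P.cons (P.lf 1548735309 0 0) (P.cons (P.lf 9274492 0 0) (P.cons (P.lf 1194283 0 0) (P.lf 0 79617 0)))) (P.cons (P.cons (P.lf 0 381297680 0) (P.cons (P.lf 6129116 0 0) (P.cons (P.lf 789252 0 0) (P.lf 0 52615 0)))) (P.cons (P.cons (P.lf 0 38279235 0) (P.cons (P.lf 1326801 0 0) (P.cons (P.lf 170850 0 0) (P.lf 0 11389 0)))) (P.cons (P.cons (P.lf 2939730 0 0) (P.cons (P.lf 62720 0 0) (P.cons (P.lf 8072 0 0) P.nil))) (P.cons (P.cons (P.lf 579360 0 0) (P.cons (P.lf 0 14329 0) P.nil)) (P.cons (P.cons (P.lf 17818 0 0) P.nil) P.nil)))))) 13763)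
 (EL.cons 7 (TM.mk (P.cons (P.cons (P.lf 341220287 0 0) (P.cons (P.lf 2043373 0 0) (P.cons (P.lf 263126 0 0) (P.lf 0 17541 0)))) (P.cons (P.cons (P.lf 5492691 0 0) (P.cons (P.lf 1886348 0 0) (P.cons (P.lf 242906 0 0) (P.lf 0 16193 0)))) (P.cons (P.cons (P.lf 0 24990600 0) (P.cons (P.lf 679329 0 0) (P.cons (P.lf 87477 0 0) (P.lf 0 5831 0)))) (P.cons (P.cons (P.lf 0 2415172 0) (P.cons (P.lf 115156 0 0) (P.cons (P.lf 14827 0 0) P.nil))) (P.cons (P.cons (P.lf 84792 0 0) (P.cons (P.lf 7402 0 0) P.nil)) (P.cons (P.cons (P.lf 28465 0 0) P.nil) P.nil)))))) 6224)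
 EL.nil))
noncomputable def S82_111_290_364_11 : EL := (EL.cons 3 (TM.mk (P.cons (P.cons (P.lf 0 710014965 0) (P.cons (P.lf 0 8503749 0) (P.cons (P.lf 0 1120496 0) (P.cons (P.lf 66442 0 0) (P.cons (P.lf 14 0 0) (P.cons (P.lf 55 0 0) P.nil)))))) (P.cons (P.cons (P.lf 327239285 0 0) (P.cons (P.lf 0 3794084 0) (P.cons (P.lf 0 523023 0) (P.cons (P.lf 23696 0 0) (P.cons (P.lf 19 0 0) P.nil))))) (P.cons (P.cons (P.lf 0 874110 0) (P.cons (P.lf 218804 0 0) (P.cons (P.lf 8570 0 0) (P.cons (P.lf 0 6927 0) P.nil)))) (P.cons (P.cons (P.lf 0 10000482 0) (P.cons (P.lf 352725 0 0) (P.cons (P.lf 39482 0 0) P.nil))) (P.cons (P.cons (P.lf 0 558518 0) (P.cons (P.lf 54934 0 0) P.nil)) (P.cons (P.cons (P.lf 117584 0 0) P.nil) P.nil)))))) 61346)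
 (EL.cons 7 (TM.mk (P.cons (P.cons (P.lf 0 156431837 0) (P.cons (P.lf 0 1873562 0) (P.cons (P.lf 0 246869 0) (P.cons (P.lf 14638 0 0) (P.cons (P.lf 3 0 0) (P.cons (P.lf 12 0 0) P.nil)))))) (P.cons (P.cons (P.lf 31066440 0 0) (P.cons (P.lf 0 1327348 0) (P.cons (P.lf 0 179986 0) (P.cons (P.lf 9060 0 0) (P.cons (P.lf 5 0 0) P.nil))))) (P.cons (P.cons (P.lf 16206985 0 0) (P.cons (P.lf 0 201131 0) (P.cons (P.lf 0 32300 0) (P.cons (P.lf 78 0 0) P.nil)))) (P.cons (P.cons (P.lf 0 1324637 0) (P.cons (P.lf 74202 0 0) (P.cons (P.lf 6984 0 0) P.nil))) (P.cons (P.cons (P.lf 0 619597 0) (P.cons (P.lf 31792 0 0) P.nil)) (P.cons (P.cons (P.lf 0 34345 0) P.nil) P.nil)))))) 23115)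
 EL.nil))
noncomputable def S82_111_290_364_12 : EL := (EL.cons 4 (TM.mk (P.cons (P.lf 3378211968 0 0) (P.cons (P.lf 0 106440982 0) (P.cons (P.lf 0 15444026 0) (P.cons (P.lf 0 629992 0) (P.cons (P.lf 4275 0 0) (P.cons (P.lf 1953 0 0) P.nil)))))) 352)
 (EL.cons 8 (TM.mk (P.cons (P.lf 744294039 0 0) (P.cons (P.lf 171774507 0 0) (P.cons (P.lf 2395646 0 0) (P.cons (P.lf 0 321494 0) (P.cons (P.lf 0 25565 0) (P.cons (P.lf 0 650 0) P.nil)))))) 203)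
 EL.nil))
noncomputable def S82_111_290_364_13 : EL := (EL.cons 4 (TM.mk (P.cons (P.cons (P.lf 0 1548735309 0) (P.cons (P.lf 0 9274492 0) (P.cons (P.lf 0 1194283 0) (P.lf 79617 0 0)))) (P.cons (P.cons (P.lf 381297680 0 0) (P.cons (P.lf 0 6129116 0) (P.cons (P.lf 0 789252 0) (P.lf 52615 0 0)))) (P.cons (P.cons (P.lf 38279235 0 0) (P.cons (P.lf 0 1326801 0) (P.cons (P.lf 0 170850 0) (P.lf 11389 0 0)))) (P.cons (P.cons (P.lf 0 2939730 0) (P.cons (P.lf 0 62720 0) (P.cons (P.lf 0 8072 0) P.nil))) (P.cons (P.cons (P.lf 0 579360 0) (P.cons (P.lf 14329 0 0) P.nil)) (P.cons (P.cons (P.lf 0 17818 0) P.nil) P.nil)))))) 13763)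
 (EL.cons 8 (TM.mk (P.cons (P.cons (P.lf 0 341220287 0) (P.cons (P.lf 0 2043373 0) (P.cons (P.lf 0 263126 0) (P.lf 17541 0 0)))) (P.cons (P.cons (P.lf 0 5492691 0) (P.cons (P.lf 0 1886348 0) (P.cons (P.lf 0 242906 0) (P.lf 16193 0 0)))) (P.cons (P.cons (P.lf 24990600 0 0) (P.cons (P.lf 0 679329 0) (P.cons (P.lf 0 87477 0) (P.lf 5831 0 0)))) (P.cons (P.cons (P.lf 2415172 0 0) (P.cons (P.lf 0 115156 0) (P.cons (P.lf 0 14827 0) P.nil))) (P.cons (P.cons (P.lf 0 84792 0) (P.cons (P.lf 0 7402 0) P.nil)) (P.cons (P.cons (P.lf 0 28465 0) P.nil) P.nil)))))) 6224)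
 EL.nil))
noncomputable def S82_111_290_364_14 : EL := (EL.cons 4 (TM.mk (P.cons (P.cons (P.lf 710014965 0 0) (P.cons (P.lf 8503749 0 0) (P.cons (P.lf 1120496 0 0) (P.cons (P.lf 0 66442 0) (P.cons (P.lf 0 14 0) (P.cons (P.lf 0 55 0) P.nil)))))) (P.cons (P.cons (P.lf 0 327239285 0) (P.cons (P.lf 3794084 0 0) (P.cons (P.lf 523023 0 0) (P.cons (P.lf 0 23696 0) (P.cons (P.lf 0 19 0) P.nil))))) (P.cons (P.cons (P.lf 874110 0 0) (P.cons (P.lf 0 218804 0) (P.cons (P.lf 0 8570 0) (P.cons (P.lf 6927 0 0) P.nil)))) (P.cons (P.cons (P.lf 10000482 0 0) (P.cons (P.lf 0 352725 0) (P.cons (P.lf 0 39482 0) P.nil))) (P.cons (P.cons (P.lf 558518 0 0) (P.cons (P.lf 0 54934 0) P.nil)) (P.cons (P.cons (P.lf 0 117584 0) P.nil) P.nil)))))) 61346)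
 (EL.cons 8 (TM.mk (P.cons (P.cons (P.lf 156431837 0 0) (P.cons (P.lf 1873562 0 0) (P.cons (P.lf 246869 0 0) (P.cons (P.lf 0 14638 0) (P.cons (P.lf 0 3 0) (P.cons (P.lf 0 12 0) P.nil)))))) (P.cons (P.cons (P.lf 0 31066440 0) (P.cons (P.lf 1327348 0 0) (P.cons (P.lf 179986 0 0) (P.cons (P.lf 0 9060 0) (P.cons (P.lf 0 5 0) P.nil))))) (P.cons (P.cons (P.lf 0 16206985 0) (P.cons (P.lf 201131 0 0) (P.cons (P.lf 32300 0 0) (P.cons (P.lf 0 78 0) P.nil)))) (P.cons (P.cons (P.lf 1324637 0 0) (P.cons (P.lf 0 74202 0) (P.cons (P.lf 0 6984 0) P.nil))) (P.cons (P.cons (P.lf 619597 0 0) (P.cons (P.lf 0 31792 0) P.nil)) (P.cons (P.cons (P.lf 34345 0 0) P.nil) P.nil)))))) 23115)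
 EL.nil))
noncomputable def S82_111_290_364_15 : EL := (EL.cons 4 (TM.mk (P.cons (P.lf 0 2834279364 0) (P.cons (P.lf 178605417 0 0) (P.cons (P.lf 23100948 0 0) (P.cons (P.lf 240588 0 0) (P.cons (P.lf 0 99717 0) (P.cons (P.lf 0 7884 0) P.nil)))))) 864)
 (EL.cons 8 (TM.mk (P.cons (P.lf 0 624453780 0) (P.cons (P.lf 0 124441411 0) (P.cons (P.lf 5385712 0 0) (P.cons (P.lf 1108363 0 0) (P.cons (P.lf 48224 0 0) (P.cons (P.lf 0 1532 0) P.nil)))))) 521)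
 EL.nil))
noncomputable def S82_111_290_364_16 : EL := (EL.cons 4 (TM.mk (P.cons (P.cons (P.lf 1299370367 0 0) (P.cons (P.lf 7781188 0 0) (P.cons (P.lf 1001989 0 0) (P.lf 0 66797 0)))) (P.cons (P.cons (P.lf 0 360844854 0) (P.cons (P.lf 4897084 0 0) (P.cons (P.lf 630602 0 0) (P.lf 0 42039 0)))) (P.cons (P.cons (P.lf 0 27976528 0) (P.cons (P.lf 915575 0 0) (P.cons (P.lf 117896 0 0) (P.lf 0 7859 0)))) (P.cons (P.cons (P.lf 4698483 0 0) (P.cons (P.lf 0 7410 0) (P.cons (P.lf 0 956 0) P.nil))) (P.cons (P.cons (P.lf 616489 0 0) (P.cons (P.lf 0 19718 0) P.nil)) (P.cons (P.cons (P.lf 0 5305 0) P.nil) P.nil)))))) 17854)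
 (EL.cons 8 (TM.mk (P.cons (P.cons (P.lf 286279732 0 0) (P.cons (P.lf 1714366 0 0) (P.cons (P.lf 220760 0 0) (P.lf 0 14717 0)))) (P.cons (P.cons (P.lf 0 4411823 0) (P.cons (P.lf 1528607 0 0) (P.cons (P.lf 196840 0 0) (P.lf 0 13122 0)))) (P.cons (P.cons (P.lf 0 22420785 0) (P.cons (P.lf 512245 0 0) (P.cons (P.lf 65961 0 0) (P.lf 0 4397 0)))) (P.cons (P.cons (P.lf 0 1440131 0) (P.cons (P.lf 71102 0 0) (P.cons (P.lf 9155 0 0) P.nil))) (P.cons (P.cons (P.lf 230340 0 0) (P.cons (P.lf 268 0 0) P.nil)) (P.cons (P.cons (P.lf 34985 0 0) P.nil) P.nil)))))) 6885)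
 EL.nil))
noncomputable def S82_111_290_364_17 : EL := (EL.cons 4 (TM.mk (P.cons (P.cons (P.lf 0 595694049 0) (P.cons (P.lf 0 7134543 0) (P.cons (P.lf 0 940082 0) (P.cons (P.lf 55744 0 0) (P.cons (P.lf 12 0 0) (P.cons (P.lf 45 0 0) P.nil)))))) (P.cons (P.cons (P.lf 293319016 0 0) (P.cons (P.lf 0 2958394 0) (P.cons (P.lf 0 409190 0) (P.cons (P.lf 18124 0 0) (P.cons (P.lf 15 0 0) P.nil))))) (P.cons (P.cons (P.lf 0 6660598 0) (P.cons (P.lf 316486 0 0) (P.cons (P.lf 25314 0 0) (P.cons (P.lf 0 6692 0) P.nil)))) (P.cons (P.cons (P.lf 0 9511236 0) (P.cons (P.lf 306030 0 0) (P.cons (P.lf 35080 0 0) P.nil))) (P.cons (P.cons (P.lf 0 252828 0) (P.cons (P.lf 36510 0 0) P.nil)) (P.cons (P.cons (P.lf 151913 0 0) P.nil) P.nil)))))) 61501)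
 (EL.cons 8 (TM.mk (P.cons (P.cons (P.lf 0 131244437 0) (P.cons (P.lf 0 1571896 0) (P.cons (P.lf 0 207120 0) (P.cons (P.lf 12281 0 0) (P.cons (P.lf 2 0 0) (P.cons (P.lf 10 0 0) P.nil)))))) (P.cons (P.cons (P.lf 30199631 0 0) (P.cons (P.lf 0 1064102 0) (P.cons (P.lf 0 144480 0) (P.cons (P.lf 7214 0 0) (P.cons (P.lf 4 0 0) P.nil))))) (P.cons (P.cons (P.lf 13376232 0 0) (P.cons (P.lf 0 126472 0) (P.cons (P.lf 0 21394 0) (P.cons (P.lf 0 230 0) P.nil)))) (P.cons (P.cons (P.lf 0 1634467 0) (P.cons (P.lf 72956 0 0) (P.cons (P.lf 7442 0 0) P.nil))) (P.cons (P.cons (P.lf 0 552008 0) (P.cons (P.lf 25689 0 0) P.nil)) (P.cons (P.cons (P.lf 0 9934 0) P.nil) P.nil)))))) 25229)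
 EL.nil))
noncomputable def S82_111_290_364_18 : EL := (EL.cons 4 (TM.mk (P.cons (P.lf 2377926426 0 0) (P.cons (P.lf 0 224771707 0) (P.cons (P.lf 0 25531065 0) (P.cons (P.lf 650420 0 0) (P.cons (P.lf 209580 0 0) (P.cons (P.lf 9701 0 0) P.nil)))))) 1817)
 (EL.cons 8 (TM.mk (P.cons (P.lf 523909239 0 0) (P.cons (P.lf 87897477 0 0) (P.cons (P.lf 0 10203278 0) (P.cons (P.lf 0 1362537 0) (P.cons (P.lf 0 9310 0) (P.cons (P.lf 8089 0 0) P.nil)))))) 965)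
 EL.nil))
noncomputable def S82_111_290_364_19 : EL := (EL.cons 4 (TM.mk (P.cons (P.cons (P.lf 0 1090156169 0) (P.cons (P.lf 0 6528323 0) (P.cons (P.lf 0 840657 0) (P.lf 56042 0 0)))) (P.cons (P.cons (P.lf 337093239 0 0) (P.cons (P.lf 0 3902900 0) (P.cons (P.lf 0 502580 0) (P.lf 33504 0 0)))) (P.cons (P.cons (P.lf 18916892 0 0) (P.cons (P.lf 0 608857 0) (P.cons (P.lf 0 78400 0) (P.lf 5226 0 0)))) (P.cons (P.cons (P.lf 0 5862271 0) (P.cons (P.lf 50421 0 0) (P.cons (P.lf 6494 0 0) P.nil))) (P.cons (P.cons (P.lf 0 558165 0) (P.cons (P.lf 20617 0 0) P.nil)) (P.cons (P.cons (P.lf 34144 0 0) P.nil) P.nil)))))) 21275)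
 (EL.cons 8 (TM.mk (P.cons (P.cons (P.lf 0 240185265 0) (P.cons (P.lf 0 1438332 0) (P.cons (P.lf 0 185215 0) (P.lf 12347 0 0)))) (P.cons (P.cons (P.lf 11269243 0 0) (P.cons (P.lf 0 1237164 0) (P.cons (P.lf 0 159310 0) (P.lf 10620 0 0)))) (P.cons (P.cons (P.lf 19792188 0 0) (P.cons (P.lf 0 382784 0) (P.cons (P.lf 0 49290 0) (P.lf 3285 0 0)))) (P.cons (P.cons (P.lf 643431 0 0) (P.cons (P.lf 0 39981 0) (P.cons (P.lf 0 5147 0) P.nil))) (P.cons (P.cons (P.lf 0 318313 0) (P.cons (P.lf 3856 0 0) P.nil)) (P.cons (P.cons (P.lf 0 32429 0) P.nil) P.nil)))))) 7000)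
 EL.nil))
noncomputable def S82_111_290_364_20 : EL := (EL.cons 4 (TM.mk (P.cons (P.cons (P.lf 499780169 0 0) (P.cons (P.lf 5985795 0 0) (P.cons (P.lf 788717 0 0) (P.cons (P.lf 0 46769 0) (P.cons (P.lf 0 10 0) (P.cons (P.lf 0 38 0) P.nil)))))) (P.cons (P.cons (P.lf 0 261838255 0) (P.cons (P.lf 2293456 0 0) (P.cons (P.lf 318454 0 0) (P.cons (P.lf 0 13732 0) (P.cons (P.lf 0 13 0) P.nil))))) (P.cons (P.cons (P.lf 11057198 0 0) (P.cons (P.lf 0 371098 0) (P.cons (P.lf 0 35661 0) (P.cons (P.lf 6308 0 0) P.nil)))) (P.cons (P.cons (P.lf 8835583 0 0) (P.cons (P.lf 0 260852 0) (P.cons (P.lf 0 30479 0) P.nil))) (P.cons (P.cons (P.lf 0 18329 0) (P.cons (P.lf 0 21782 0) P.nil)) (P.cons (P.cons (P.lf 0 171682 0) P.nil) P.nil)))))) 61507)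
 (EL.cons 8 (TM.mk (P.cons (P.cons (P.lf 110112510 0 0) (P.cons (P.lf 1318802 0 0) (P.cons (P.lf 173771 0 0) (P.cons (P.lf 0 10304 0) (P.cons (P.lf 0 2 0) (P.cons (P.lf 0 8 0) P.nil)))))) (P.cons (P.cons (P.lf 0 28806563 0) (P.cons (P.lf 851215 0 0) (P.cons (P.lf 115742 0 0) (P.cons (P.lf 0 5728 0) (P.cons (P.lf 0 3 0) P.nil))))) (P.cons (P.cons (P.lf 0 10927571 0) (P.cons (P.lf 71950 0 0) (P.cons (P.lf 13336 0 0) (P.cons (P.lf 430 0 0) P.nil)))) (P.cons (P.cons (P.lf 1820195 0 0) (P.cons (P.lf 0 68880 0) (P.cons (P.lf 0 7396 0) P.nil))) (P.cons (P.cons (P.lf 476090 0 0) (P.cons (P.lf 0 20274 0) P.nil)) (P.cons (P.cons (P.lf 0 10401 0) P.nil) P.nil)))))) 25493)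
 EL.nil))
noncomputable def S82_111_290_364_21 : EL := (EL.cons 4 (TM.mk (P.cons (P.cons (P.lf 0 1440713067 0) (P.cons (P.lf 27823476 0 0) (P.cons (P.lf 3582849 0 0) (P.lf 0 238851 0)))) (P.cons (P.cons (P.lf 0 608076786 0) (P.cons (P.lf 18387348 0 0) (P.cons (P.lf 2367756 0 0) (P.lf 0 157845 0)))) (P.cons (P.cons (P.lf 0 45534858 0) (P.cons (P.lf 3980403 0 0) (P.cons (P.lf 512550 0 0) (P.lf 0 34167 0)))) (P.cons (P.cons (P.lf 9540960 0 0) (P.cons (P.lf 188160 0 0) (P.cons (P.lf 24216 0 0) P.nil))) (P.cons (P.cons (P.lf 1438929 0 0) (P.cons (P.lf 0 42987 0) P.nil)) (P.cons (P.cons (P.lf 29799 0 0) P.nil) P.nil)))))) 43677)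
 (EL.cons 8 (TM.mk (P.cons (P.cons (P.lf 2325023340 0 0) (P.cons (P.lf 0 44901555 0) (P.cons (P.lf 0 5782026 0) (P.lf 385470 0 0)))) (P.cons (P.cons (P.lf 371468925 0 0) (P.cons (P.lf 0 17896002 0) (P.cons (P.lf 0 2304489 0) (P.lf 153633 0 0)))) (P.cons (P.cons (P.lf 0 61278612 0) (P.cons (P.lf 0 1008639 0) (P.cons (P.lf 0 129885 0) (P.lf 8661 0 0)))) (P.cons (P.cons (P.lf 0 8681310 0) (P.cons (P.lf 313740 0 0) (P.cons (P.lf 40398 0 0) P.nil))) (P.cons (P.cons (P.lf 88059 0 0) (P.cons (P.lf 35355 0 0) P.nil)) (P.cons (P.cons (P.lf 80265 0 0) P.nil) P.nil)))))) 23493)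
 (EL.cons 11 (TM.mk (P.cons (P.cons (P.lf 220023372 0 0) (P.cons (P.lf 62811699 0 0) (P.cons (P.lf 0 4698213 0) (P.cons (P.lf 0 316590 0) (P.lf 15828 0 0))))) (P.cons (P.cons (P.lf 101557728 0 0) (P.cons (P.lf 28992435 0 0) (P.cons (P.lf 0 2168586 0) (P.cons (P.lf 0 146130 0) (P.lf 7305 0 0))))) (P.cons (P.cons (P.lf 13135548 0 0) (P.cons (P.lf 3749901 0 0) (P.cons (P.lf 0 280485 0) (P.cons (P.lf 0 18900 0) P.nil)))) (P.cons (P.cons (P.lf 136803 0 0) (P.cons (P.lf 39054 0 0) (P.cons (P.lf 0 2919 0) P.nil))) (P.cons (P.cons (P.lf 0 56700 0) (P.cons (P.lf 0 16185 0) P.nil)) (P.cons (P.cons (P.lf 0 4482 0) P.nil) P.nil)))))) 4380)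
 EL.nil)))
noncomputable def S82_111_290_364_22 : EL := (EL.cons 4 (TM.mk (P.cons (P.cons (P.lf 660492360 0 0) (P.cons (P.lf 0 8800308 0) (P.cons (P.lf 0 1209606 0) (P.cons (P.lf 55872 0 0) (P.cons (P.lf 42 0 0) (P.cons (P.lf 168 0 0) P.nil)))))) (P.cons (P.cons (P.lf 136969761 0 0) (P.cons (P.lf 0 1283199 0) (P.cons (P.lf 0 268605 0) (P.cons (P.lf 0 15606 0) (P.cons (P.lf 60 0 0) P.nil))))) (P.cons (P.cons (P.lf 0 56747877 0) (P.cons (P.lf 2279268 0 0) (P.cons (P.lf 234684 0 0) (P.cons (P.lf 0 34716 0) P.nil)))) (P.cons (P.cons (P.lf 0 16188738 0) (P.cons (P.lf 933444 0 0) (P.cons (P.lf 102387 0 0) P.nil))) (P.cons (P.cons (P.lf 0 67323 0) (P.cons (P.lf 106677 0 0) P.nil)) (P.cons (P.cons (P.lf 321099 0 0) P.nil) P.nil)))))) 124758)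
 (EL.cons 8 (TM.mk (P.cons (P.cons (P.lf 0 1065902841 0) (P.cons (P.lf 14201952 0 0) (P.cons (P.lf 1952076 0 0) (P.cons (P.lf 0 90174 0) (P.cons (P.lf 0 72 0) (P.cons (P.lf 0 270 0) P.nil)))))) (P.cons (P.cons (P.lf 58540797 0 0) (P.cons (P.lf 0 1654290 0) (P.cons (P.lf 0 78543 0) (P.cons (P.lf 48834 0 0) (P.cons (P.lf 0 78 0) P.nil))))) (P.cons (P.cons (P.lf 93337545 0 0) (P.cons (P.lf 0 3472377 0) (P.cons (P.lf 0 389463 0) (P.cons (P.lf 44661 0 0) P.nil)))) (P.cons (P.cons (P.lf 2259123 0 0) (P.cons (P.lf 0 589761 0) (P.cons (P.lf 0 64653 0) P.nil))) (P.cons (P.cons (P.lf 0 1926426 0) (P.cons (P.lf 38805 0 0) P.nil)) (P.cons (P.cons (P.lf 0 180294 0) P.nil) P.nil)))))) 89607)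
 (EL.cons 11 (TM.mk (P.cons (P.cons (P.lf 0 100869324 0) (P.cons (P.lf 0 29399961 0) (P.cons (P.lf 1903659 0 0) (P.cons (P.lf 141018 0 0) (P.cons (P.lf 0 3243 0) (P.cons (P.lf 0 42 0) P.nil)))))) (P.cons (P.cons (P.lf 0 24903192 0) (P.cons (P.lf 0 7806336 0) (P.cons (P.lf 243015 0 0) (P.cons (P.lf 31074 0 0) (P.cons (P.lf 2835 0 0) P.nil))))) (P.cons (P.cons (P.lf 6688158 0 0) (P.cons (P.lf 1577859 0 0) (P.cons (P.lf 0 280119 0) (P.cons (P.lf 0 11883 0) P.nil)))) (P.cons (P.cons (P.lf 2457264 0 0) (P.cons (P.lf 619569 0 0) (P.cons (P.lf 0 86406 0) P.nil))) (P.cons (P.cons (P.lf 167649 0 0) (P.cons (P.lf 37428 0 0) P.nil)) (P.cons (P.cons (P.lf 0 14949 0) P.nil) P.nil)))))) 38349)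
 EL.nil)))
noncomputable def S82_111_290_364_23 : EL := (EL.cons 4 (TM.mk (P.cons (P.cons (P.lf 1208740998 0 0) (P.cons (P.lf 0 23343561 0) (P.cons (P.lf 0 3005967 0) (P.lf 200391 0 0)))) (P.cons (P.cons (P.lf 472084026 0 0) (P.cons (P.lf 0 14691252 0) (P.cons (P.lf 0 1891806 0) (P.lf 126114 0 0)))) (P.cons (P.cons (P.lf 16602798 0 0) (P.cons (P.lf 0 2746722 0) (P.cons (P.lf 0 353688 0) (P.lf 23574 0 0)))) (P.cons (P.cons (P.lf 0 11766192 0) (P.cons (P.lf 22236 0 0) (P.cons (P.lf 2874 0 0) P.nil))) (P.cons (P.cons (P.lf 0 1223292 0) (P.cons (P.lf 59154 0 0) P.nil)) (P.cons (P.cons (P.lf 43851 0 0) P.nil) P.nil)))))) 54342)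
 (EL.cons 8 (TM.mk (P.cons (P.cons (P.lf 0 1950666723 0) (P.cons (P.lf 37671864 0 0) (P.cons (P.lf 4851048 0 0) (P.lf 0 323403 0)))) (P.cons (P.cons (P.lf 0 250196208 0) (P.cons (P.lf 13827561 0 0) (P.cons (P.lf 1780590 0 0) (P.lf 0 118704 0)))) (P.cons (P.cons (P.lf 70149543 0 0) (P.cons (P.lf 200934 0 0) (P.cons (P.lf 25875 0 0) (P.lf 0 1725 0)))) (P.cons (P.cons (P.lf 7452186 0 0) (P.cons (P.lf 0 365553 0) (P.cons (P.lf 0 47070 0) P.nil))) (P.cons (P.cons (P.lf 0 482754 0) (P.cons (P.lf 0 27987 0) P.nil)) (P.cons (P.cons (P.lf 0 109419 0) P.nil) P.nil)))))) 30762)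
 (EL.cons 11 (TM.mk (P.cons (P.cons (P.lf 0 184596972 0) (P.cons (P.lf 0 52698261 0) (P.cons (P.lf 3941742 0 0) (P.cons (P.lf 265614 0 0) (P.lf 0 13278 0))))) (P.cons (P.cons (P.lf 0 79389420 0) (P.cons (P.lf 0 22663884 0) (P.cons (P.lf 1695219 0 0) (P.cons (P.lf 114231 0 0) (P.lf 0 5709 0))))) (P.cons (P.cons (P.lf 0 7491984 0) (P.cons (P.lf 0 2138790 0) (P.cons (P.lf 159975 0 0) (P.cons (P.lf 10779 0 0) P.nil)))) (P.cons (P.cons (P.lf 656415 0 0) (P.cons (P.lf 187392 0 0) (P.cons (P.lf 0 14016 0) P.nil))) (P.cons (P.cons (P.lf 117225 0 0) (P.cons (P.lf 33462 0 0) P.nil)) (P.cons (P.cons (P.lf 4626 0 0) P.nil) P.nil)))))) 8730)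
 EL.nil)))
noncomputable def S82_111_290_364_24 : EL := (EL.cons 4 (TM.mk (P.cons (P.cons (P.lf 0 554145174 0) (P.cons (P.lf 7383354 0 0) (P.cons (P.lf 1014846 0 0) (P.cons (P.lf 0 46875 0) (P.cons (P.lf 0 36 0) (P.cons (P.lf 0 141 0) P.nil)))))) (P.cons (P.cons (P.lf 0 97455936 0) (P.cons (P.lf 843951 0 0) (P.cons (P.lf 193380 0 0) (P.cons (P.lf 14568 0 0) (P.cons (P.lf 0 48 0) P.nil))))) (P.cons (P.cons (P.lf 53764932 0 0) (P.cons (P.lf 0 1979952 0) (P.cons (P.lf 0 208635 0) (P.cons (P.lf 28926 0 0) P.nil)))) (P.cons (P.cons (P.lf 12710730 0 0) (P.cons (P.lf 0 729195 0) (P.cons (P.lf 0 80916 0) P.nil))) (P.cons (P.cons (P.lf 0 568395 0) (P.cons (P.lf 0 56274 0) P.nil)) (P.cons (P.cons (P.lf 0 342615 0) P.nil) P.nil)))))) 120693)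
 (EL.cons 8 (TM.mk (P.cons (P.cons (P.lf 894279711 0 0) (P.cons (P.lf 0 11915268 0) (P.cons (P.lf 0 1637769 0) (P.cons (P.lf 75654 0 0) (P.cons (P.lf 60 0 0) (P.cons (P.lf 228 0 0) P.nil)))))) (P.cons (P.cons (P.lf 0 77292066 0) (P.cons (P.lf 1763355 0 0) (P.cons (P.lf 117498 0 0) (P.cons (P.lf 0 43353 0) (P.cons (P.lf 63 0 0) P.nil))))) (P.cons (P.cons (P.lf 0 80849901 0) (P.cons (P.lf 2924022 0 0) (P.cons (P.lf 332166 0 0) (P.cons (P.lf 0 36525 0) P.nil)))) (P.cons (P.cons (P.lf 629754 0 0) (P.cons (P.lf 398886 0 0) (P.cons (P.lf 43950 0 0) P.nil))) (P.cons (P.cons (P.lf 2044260 0 0) (P.cons (P.lf 0 61740 0) P.nil)) (P.cons (P.cons (P.lf 124062 0 0) P.nil) P.nil)))))) 91548)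
 (EL.cons 11 (TM.mk (P.cons (P.cons (P.lf 84628155 0 0) (P.cons (P.lf 24666213 0 0) (P.cons (P.lf 0 1597149 0) (P.cons (P.lf 0 118311 0) (P.cons (P.lf 2721 0 0) (P.cons (P.lf 33 0 0) P.nil)))))) (P.cons (P.cons (P.lf 18227010 0 0) (P.cons (P.lf 5772237 0 0) (P.cons (P.lf 0 153564 0) (P.cons (P.lf 0 22344 0) (P.cons (P.lf 0 2463 0) P.nil))))) (P.cons (P.cons (P.lf 0 6656487 0) (P.cons (P.lf 0 1642929 0) (P.cons (P.lf 248742 0 0) (P.cons (P.lf 11334 0 0) P.nil)))) (P.cons (P.cons (P.lf 0 1996116 0) (P.cons (P.lf 0 512643 0) (P.cons (P.lf 66318 0 0) P.nil))) (P.cons (P.cons (P.lf 0 53835 0) (P.cons (P.lf 0 10161 0) P.nil)) (P.cons (P.cons (P.lf 27519 0 0) P.nil) P.nil)))))) 38451)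
 EL.nil)))
noncomputable def S82_111_290_364_25 : EL := (EL.cons 4 (TM.mk (P.cons (P.cons (P.lf 0 1014119214 0) (P.cons (P.lf 19584969 0 0) (P.cons (P.lf 2521968 0 0) (P.lf 0 168126 0)))) (P.cons (P.cons (P.lf 0 364119888 0) (P.cons (P.lf 11708700 0 0) (P.cons (P.lf 1507740 0 0) (P.lf 0 100512 0)))) (P.cons (P.cons (P.lf 3186150 0 0) (P.cons (P.lf 1826568 0 0) (P.cons (P.lf 235200 0 0) (P.lf 0 15678 0)))) (P.cons (P.cons (P.lf 12310416 0 0) (P.cons (P.lf 0 151266 0) (P.cons (P.lf 0 19485 0) P.nil))) (P.cons (P.cons (P.lf 851547 0 0) (P.cons (P.lf 0 61848 0) P.nil)) (P.cons (P.cons (P.lf 0 112746 0) P.nil) P.nil)))))) 57858)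
 (EL.cons 8 (TM.mk (P.cons (P.cons (P.lf 1636586007 0 0) (P.cons (P.lf 0 31606242 0) (P.cons (P.lf 0 4069971 0) (P.lf 271332 0 0)))) (P.cons (P.cons (P.lf 158345934 0 0) (P.cons (P.lf 0 10605306 0) (P.cons (P.lf 0 1365657 0) (P.lf 91044 0 0)))) (P.cons (P.cons (P.lf 0 72950448 0) (P.cons (P.lf 341439 0 0) (P.cons (P.lf 43965 0 0) (P.lf 0 2928 0)))) (P.cons (P.cons (P.lf 0 5662743 0) (P.cons (P.lf 370935 0 0) (P.cons (P.lf 47763 0 0) P.nil))) (P.cons (P.cons (P.lf 834012 0 0) (P.cons (P.lf 16713 0 0) P.nil)) (P.cons (P.cons (P.lf 119811 0 0) P.nil) P.nil)))))) 34788)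
 (EL.cons 11 (TM.mk (P.cons (P.cons (P.lf 154874646 0 0) (P.cons (P.lf 44213211 0 0) (P.cons (P.lf 0 3307074 0) (P.cons (P.lf 0 222846 0) (P.lf 11139 0 0))))) (P.cons (P.cons (P.lf 61726968 0 0) (P.cons (P.lf 17621652 0 0) (P.cons (P.lf 0 1318068 0) (P.cons (P.lf 0 88818 0) (P.lf 4437 0 0))))) (P.cons (P.cons (P.lf 3478998 0 0) (P.cons (P.lf 993174 0 0) (P.cons (P.lf 0 74286 0) (P.cons (P.lf 0 5004 0) P.nil)))) (P.cons (P.cons (P.lf 0 1082160 0) (P.cons (P.lf 0 308931 0) (P.cons (P.lf 23109 0 0) P.nil))) (P.cons (P.cons (P.lf 0 121959 0) (P.cons (P.lf 0 34815 0) P.nil)) (P.cons (P.cons (P.lf 735 0 0) P.nil) P.nil)))))) 11214)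
 EL.nil)))
noncomputable def S82_111_290_364_26 : EL := (EL.cons 4 (TM.mk (P.cons (P.cons (P.lf 464921163 0 0) (P.cons (P.lf 0 6194547 0) (P.cons (P.lf 0 851442 0) (P.cons (P.lf 39327 0 0) (P.cons (P.lf 30 0 0) (P.cons (P.lf 117 0 0) P.nil)))))) (P.cons (P.cons (P.lf 67115589 0 0) (P.cons (P.lf 0 512886 0) (P.cons (P.lf 0 135417 0) (P.cons (P.lf 0 13461 0) (P.cons (P.lf 39 0 0) P.nil))))) (P.cons (P.cons (P.lf 0 49809834 0) (P.cons (P.lf 1711785 0 0) (P.cons (P.lf 184047 0 0) (P.cons (P.lf 0 24063 0) P.nil)))) (P.cons (P.cons (P.lf 0 9703380 0) (P.cons (P.lf 563838 0 0) (P.cons (P.lf 63273 0 0) P.nil))) (P.cons (P.cons (P.lf 1004442 0 0) (P.cons (P.lf 20469 0 0) P.nil)) (P.cons (P.cons (P.lf 329961 0 0) P.nil) P.nil)))))) 112530)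
 (EL.cons 8 (TM.mk (P.cons (P.cons (P.lf 0 750289962 0) (P.cons (P.lf 9996768 0 0) (P.cons (P.lf 1374066 0 0) (P.cons (P.lf 0 63471 0) (P.cons (P.lf 0 48 0) (P.cons (P.lf 0 189 0) P.nil)))))) (P.cons (P.cons (P.lf 88487313 0 0) (P.cons (P.lf 0 1794414 0) (P.cons (P.lf 0 141873 0) (P.cons (P.lf 38373 0 0) (P.cons (P.lf 0 51 0) P.nil))))) (P.cons (P.cons (P.lf 69218958 0 0) (P.cons (P.lf 0 2452308 0) (P.cons (P.lf 0 281859 0) (P.cons (P.lf 29787 0 0) P.nil)))) (P.cons (P.cons (P.lf 0 2822157 0) (P.cons (P.lf 0 252465 0) (P.cons (P.lf 0 27900 0) P.nil))) (P.cons (P.cons (P.lf 0 2021610 0) (P.cons (P.lf 73845 0 0) P.nil)) (P.cons (P.cons (P.lf 0 60633 0) P.nil) P.nil)))))) 89016)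
 (EL.cons 11 (TM.mk (P.cons (P.cons (P.lf 0 71002008 0) (P.cons (P.lf 0 20694657 0) (P.cons (P.lf 1339986 0 0) (P.cons (P.lf 99261 0 0) (P.cons (P.lf 0 2283 0) (P.cons (P.lf 0 27 0) P.nil)))))) (P.cons (P.cons (P.lf 0 13055106 0) (P.cons (P.lf 0 4190787 0) (P.cons (P.lf 86616 0 0) (P.cons (P.lf 15618 0 0) (P.cons (P.lf 2139 0 0) P.nil))))) (P.cons (P.cons (P.lf 6391140 0 0) (P.cons (P.lf 1625595 0 0) (P.cons (P.lf 0 218877 0) (P.cons (P.lf 0 10551 0) P.nil)))) (P.cons (P.cons (P.lf 1581903 0 0) (P.cons (P.lf 412668 0 0) (P.cons (P.lf 0 49902 0) P.nil))) (P.cons (P.cons (P.lf 0 30369 0) (P.cons (P.lf 0 10449 0) P.nil)) (P.cons (P.cons (P.lf 0 33270 0) P.nil) P.nil)))))) 36582)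
 EL.nil)))
noncomputable def S82_111_290_364_27 : EL := (EL.cons 13 (TM.mk (P.lf 0 4294967296 0) 0)
 EL.nil)
noncomputable def S82_111_290_364_28 : EL := (EL.cons 13 (TM.mk (P.cons (P.cons (P.lf 1969020170 0 0) (P.cons (P.lf 11791340 0 0) (P.cons (P.lf 1518380 0 0) (P.lf 0 101224 0)))) (P.cons (P.cons (P.lf 0 422731505 0) (P.cons (P.lf 8163916 0 0) (P.cons (P.lf 1051276 0 0) (P.lf 0 70084 0)))) (P.cons (P.cons (P.lf 0 52984960 0) (P.cons (P.lf 1997996 0 0) (P.cons (P.lf 257280 0 0) (P.lf 0 17152 0)))) (P.cons (P.cons (P.lf 502653 0 0) (P.cons (P.lf 182216 0 0) (P.cons (P.lf 23460 0 0) P.nil))) (P.cons (P.cons (P.lf 428867 0 0) (P.cons (P.lf 0 1836 0) P.nil)) (P.cons (P.cons (P.lf 27980 0 0) P.nil) P.nil)))))) 8805)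
 EL.nil)
noncomputable def S82_111_290_364_29 : EL := (EL.cons 13 (TM.mk (P.cons (P.cons (P.lf 0 902693818 0) (P.cons (P.lf 0 10811437 0) (P.cons (P.lf 0 1424569 0) (P.cons (P.lf 84474 0 0) (P.cons (P.lf 19 0 0) (P.cons (P.lf 71 0 0) P.nil)))))) (P.cons (P.cons (P.lf 387601023 0 0) (P.cons (P.lf 0 5164344 0) (P.cons (P.lf 0 709844 0) (P.cons (P.lf 32789 0 0) (P.cons (P.lf 26 0 0) P.nil))))) (P.cons (P.cons (P.lf 6974438 0 0) (P.cons (P.lf 66037 0 0) (P.cons (P.lf 0 17981 0) (P.cons (P.lf 0 7388 0) P.nil)))) (P.cons (P.cons (P.lf 0 10890954 0) (P.cons (P.lf 424900 0 0) (P.cons (P.lf 46121 0 0) P.nil))) (P.cons (P.cons (P.lf 0 947929 0) (P.cons (P.lf 82583 0 0) P.nil)) (P.cons (P.cons (P.lf 71169 0 0) P.nil) P.nil)))))) 58904)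
 EL.nil)
noncomputable def S82_111_290_364_30 : EL := (EL.cons 13 (TM.mk (P.cons (P.lf 3603426100 0 0) (P.cons (P.lf 0 113537048 0) (P.cons (P.lf 0 16473628 0) (P.cons (P.lf 0 671992 0) (P.cons (P.lf 4560 0 0) (P.cons (P.lf 2084 0 0) P.nil)))))) 368)
 EL.nil)
noncomputable def S82_111_290_364_31 : EL := (EL.cons 13 (TM.mk (P.cons (P.cons (P.lf 0 1651984330 0) (P.cons (P.lf 0 9892792 0) (P.cons (P.lf 0 1273902 0) (P.lf 84925 0 0)))) (P.cons (P.cons (P.lf 406717526 0 0) (P.cons (P.lf 0 6537724 0) (P.cons (P.lf 0 841869 0) (P.lf 56123 0 0)))) (P.cons (P.cons (P.lf 40831185 0 0) (P.cons (P.lf 0 1415255 0) (P.cons (P.lf 0 182240 0) (P.lf 12149 0 0)))) (P.cons (P.cons (P.lf 0 3135712 0) (P.cons (P.lf 0 66902 0) (P.cons (P.lf 0 8611 0) P.nil))) (P.cons (P.cons (P.lf 0 617985 0) (P.cons (P.lf 15285 0 0) P.nil)) (P.cons (P.cons (P.lf 0 19006 0) P.nil) P.nil)))))) 14661)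
 EL.nil)
noncomputable def S82_111_290_364_32 : EL := (EL.cons 13 (TM.mk (P.cons (P.cons (P.lf 757349297 0 0) (P.cons (P.lf 9070666 0 0) (P.cons (P.lf 1195196 0 0) (P.cons (P.lf 0 70872 0) (P.cons (P.lf 0 15 0) (P.cons (P.lf 0 59 0) P.nil)))))) (P.cons (P.cons (P.lf 0 349055238 0) (P.cons (P.lf 4047023 0 0) (P.cons (P.lf 557892 0 0) (P.cons (P.lf 0 25276 0) (P.cons (P.lf 0 21 0) P.nil))))) (P.cons (P.cons (P.lf 932384 0 0) (P.cons (P.lf 0 233391 0) (P.cons (P.lf 0 9142 0) (P.cons (P.lf 7389 0 0) P.nil)))) (P.cons (P.cons (P.lf 10667181 0 0) (P.cons (P.lf 0 376240 0) (P.cons (P.lf 0 42115 0) P.nil))) (P.cons (P.cons (P.lf 595753 0 0) (P.cons (P.lf 0 58597 0) P.nil)) (P.cons (P.cons (P.lf 0 125423 0) P.nil) P.nil)))))) 65413)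
 EL.nil)
noncomputable def S82_111_290_364_33 : EL := (EL.cons 14 (TM.mk (P.lf 8589934592 0 0) 0)
 EL.nil)
noncomputable def S82_111_290_364_34 : EL := (EL.cons 14 (TM.mk (P.cons (P.cons (P.lf 0 3938040340 0) (P.cons (P.lf 0 23582680 0) (P.cons (P.lf 0 3036760 0) (P.lf 202448 0 0)))) (P.cons (P.cons (P.lf 845463010 0 0) (P.cons (P.lf 0 16327832 0) (P.cons (P.lf 0 2102552 0) (P.lf 140168 0 0)))) (P.cons (P.cons (P.lf 105969920 0 0) (P.cons (P.lf 0 3995992 0) (P.cons (P.lf 0 514560 0) (P.lf 34304 0 0)))) (P.cons (P.cons (P.lf 0 1005306 0) (P.cons (P.lf 0 364432 0) (P.cons (P.lf 0 46920 0) P.nil))) (P.cons (P.cons (P.lf 0 857734 0) (P.cons (P.lf 3672 0 0) P.nil)) (P.cons (P.cons (P.lf 0 55960 0) P.nil) P.nil)))))) 17610)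
 EL.nil)
noncomputable def S82_111_290_364_35 : EL := (EL.cons 14 (TM.mk (P.cons (P.cons (P.lf 1805387636 0 0) (P.cons (P.lf 21622874 0 0) (P.cons (P.lf 2849138 0 0) (P.cons (P.lf 0 168948 0) (P.cons (P.lf 0 38 0) (P.cons (P.lf 0 142 0) P.nil)))))) (P.cons (P.cons (P.lf 0 775202046 0) (P.cons (P.lf 10328688 0 0) (P.cons (P.lf 1419688 0 0) (P.cons (P.lf 0 65578 0) (P.cons (P.lf 0 52 0) P.nil))))) (P.cons (P.cons (P.lf 0 13948876 0) (P.cons (P.lf 0 132074 0) (P.cons (P.lf 35962 0 0) (P.cons (P.lf 14776 0 0) P.nil)))) (P.cons (P.cons (P.lf 21781908 0 0) (P.cons (P.lf 0 849800 0) (P.cons (P.lf 0 92242 0) P.nil))) (P.cons (P.cons (P.lf 1895858 0 0) (P.cons (P.lf 0 165166 0) P.nil)) (P.cons (P.cons (P.lf 0 142338 0) P.nil) P.nil)))))) 117808)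
 EL.nil)
noncomputable def S82_111_290_364_36 : EL := (EL.cons 14 (TM.mk (P.cons (P.lf 0 7206852200 0) (P.cons (P.lf 227074096 0 0) (P.cons (P.lf 32947256 0 0) (P.cons (P.lf 1343984 0 0) (P.cons (P.lf 0 9120 0) (P.cons (P.lf 0 4168 0) P.nil)))))) 736)
 EL.nil)
noncomputable def S82_111_290_364_37 : EL := (EL.cons 14 (TM.mk (P.cons (P.cons (P.lf 3303968660 0 0) (P.cons (P.lf 19785584 0 0) (P.cons (P.lf 2547804 0 0) (P.lf 0 169850 0)))) (P.cons (P.cons (P.lf 0 813435052 0) (P.cons (P.lf 13075448 0 0) (P.cons (P.lf 1683738 0 0) (P.lf 0 112246 0)))) (P.cons (P.cons (P.lf 0 81662370 0) (P.cons (P.lf 2830510 0 0) (P.cons (P.lf 364480 0 0) (P.lf 0 24298 0)))) (P.cons (P.cons (P.lf 6271424 0 0) (P.cons (P.lf 133804 0 0) (P.cons (P.lf 17222 0 0) P.nil))) (P.cons (P.cons (P.lf 1235970 0 0) (P.cons (P.lf 0 30570 0) P.nil)) (P.cons (P.cons (P.lf 38012 0 0) P.nil) P.nil))))))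 29322)
 EL.nil)
noncomputable def S82_111_290_364_38 : EL := (EL.cons 14 (TM.mk (P.cons (P.cons (P.lf 0 1514698594 0) (P.cons (P.lf 0 18141332 0) (P.cons (P.lf 0 2390392 0) (P.cons (P.lf 141744 0 0) (P.cons (P.lf 30 0 0) (P.cons (P.lf 118 0 0) P.nil)))))) (P.cons (P.cons (P.lf 698110476 0 0) (P.cons (P.lf 0 8094046 0) (P.cons (P.lf 0 1115784 0) (P.cons (P.lf 50552 0 0) (P.cons (P.lf 42 0 0) P.nil))))) (P.cons (P.cons (P.lf 0 1864768 0) (P.cons (P.lf 466782 0 0) (P.cons (P.lf 18284 0 0) (P.cons (P.lf 0 14778 0) P.nil)))) (P.cons (P.cons (P.lf 0 21334362 0) (P.cons (P.lf 752480 0 0) (P.cons (P.lf 84230 0 0) P.nil))) (P.cons (P.cons (P.lf 0 1191506 0) (P.cons (P.lf 117194 0 0) P.nil)) (P.cons (P.cons (P.lf 250846 0 0) P.nil) P.nil)))))) 130826)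
 EL.nil)
noncomputable def S82_111_290_364_39 : EL := (EL.cons 14 (TM.mk (P.cons (P.lf 6046462644 0 0) (P.cons (P.lf 0 381024890 0) (P.cons (P.lf 0 49282024 0) (P.cons (P.lf 0 513256 0) (P.cons (P.lf 212730 0 0) (P.cons (P.lf 16820 0 0) P.nil)))))) 1830)
 EL.nil)
noncomputable def S82_111_290_364_40 : EL := (EL.cons 14 (TM.mk (P.cons (P.cons (P.lf 0 2771990118 0) (P.cons (P.lf 0 16599868 0) (P.cons (P.lf 0 2137578 0) (P.lf 142502 0 0)))) (P.cons (P.cons (P.lf 769802356 0 0) (P.cons (P.lf 0 10447114 0) (P.cons (P.lf 0 1345286 0) (P.lf 89684 0 0)))) (P.cons (P.cons (P.lf 59683260 0 0) (P.cons (P.lf 0 1953228 0) (P.cons (P.lf 0 251512 0) (P.lf 16766 0 0)))) (P.cons (P.cons (P.lf 0 10023432 0) (P.cons (P.lf 15810 0 0) (P.cons (P.lf 2040 0 0) P.nil))) (P.cons (P.cons (P.lf 0 1315178 0) (P.cons (P.lf 42066 0 0) P.nil)) (P.cons (P.cons (P.lf 11318 0 0) P.nil) P.nil))))))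 38050)
 EL.nil)
noncomputable def S82_111_290_364_41 : EL := (EL.cons 14 (TM.mk (P.cons (P.cons (P.lf 1270813972 0 0) (P.cons (P.lf 15220360 0 0) (P.cons (P.lf 2005510 0 0) (P.cons (P.lf 0 118922 0) (P.cons (P.lf 0 26 0) (P.cons (P.lf 0 98 0) P.nil)))))) (P.cons (P.cons (P.lf 0 625747236 0) (P.cons (P.lf 6311242 0 0) (P.cons (P.lf 872940 0 0) (P.cons (P.lf 0 38666 0) (P.cons (P.lf 0 34 0) P.nil))))) (P.cons (P.cons (P.lf 14209276 0 0) (P.cons (P.lf 0 675172 0) (P.cons (P.lf 0 54004 0) (P.cons (P.lf 14278 0 0) P.nil)))) (P.cons (P.cons (P.lf 20290638 0 0) (P.cons (P.lf 0 652866 0) (P.cons (P.lf 0 74838 0) P.nil))) (P.cons (P.cons (P.lf 539368 0 0) (P.cons (P.lf 0 77888 0) P.nil)) (P.cons (P.cons (P.lf 0 324082 0) P.nil) P.nil)))))) 131156)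
 EL.nil)
noncomputable def S82_111_290_364_42 : EL := (EL.cons 14 (TM.mk (P.cons (P.lf 0 5072909710 0) (P.cons (P.lf 479512976 0 0) (P.cons (P.lf 54466274 0 0) (P.cons (P.lf 0 1387564 0) (P.cons (P.lf 0 447104 0) (P.cons (P.lf 0 20696 0) P.nil)))))) 3862)
 EL.nil)
noncomputable def S82_111_290_364_43 : EL := (EL.cons 14 (TM.mk (P.cons (P.cons (P.lf 2325666494 0 0) (P.cons (P.lf 13927090 0 0) (P.cons (P.lf 1793402 0 0) (P.lf 0 119558 0)))) (P.cons (P.cons (P.lf 0 719132244 0) (P.cons (P.lf 8326188 0 0) (P.cons (P.lf 1072172 0 0) (P.lf 0 71476 0)))) (P.cons (P.cons (P.lf 0 40356038 0) (P.cons (P.lf 1298896 0 0) (P.cons (P.lf 167254 0 0) (P.lf 0 11150 0)))) (P.cons (P.cons (P.lf 12506180 0 0) (P.cons (P.lf 0 107566 0) (P.cons (P.lf 0 13854 0) P.nil))) (P.cons (P.cons (P.lf 1190754 0 0) (P.cons (P.lf 0 43984 0) P.nil)) (P.cons (P.cons (P.lf 0 72842 0) P.nil) P.nil))))))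 45348)
 EL.nil)
noncomputable def S82_111_290_364_44 : EL := (EL.cons 14 (TM.mk (P.cons (P.cons (P.lf 0 1066197694 0) (P.cons (P.lf 0 12769698 0) (P.cons (P.lf 0 1682598 0) (P.cons (P.lf 99774 0 0) (P.cons (P.lf 22 0 0) (P.cons (P.lf 82 0 0) P.nil)))))) (P.cons (P.cons (P.lf 558588278 0 0) (P.cons (P.lf 0 4892708 0) (P.cons (P.lf 0 679370 0) (P.cons (P.lf 29296 0 0) (P.cons (P.lf 28 0 0) P.nil))))) (P.cons (P.cons (P.lf 0 23588690 0) (P.cons (P.lf 791676 0 0) (P.cons (P.lf 76078 0 0) (P.cons (P.lf 0 13458 0) P.nil)))) (P.cons (P.cons (P.lf 0 18849244 0) (P.cons (P.lf 556486 0 0) (P.cons (P.lf 65022 0 0) P.nil))) (P.cons (P.cons (P.lf 39102 0 0) (P.cons (P.lf 46470 0 0) P.nil)) (P.cons (P.cons (P.lf 366256 0 0) P.nil) P.nil)))))) 131170)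
 EL.nil)
noncomputable def S82_111_290_364_45 : EL := (EL.cons 14 (TM.mk (P.cons (P.cons (P.lf 0 827676772 0) (P.cons (P.lf 0 14869452 0) (P.cons (P.lf 0 2003794 0) (P.cons (P.lf 104536 0 0) (P.cons (P.lf 0 16 0) (P.cons (P.lf 192 0 0) P.nil)))))) (P.cons (P.cons (P.lf 533085012 0 0) (P.cons (P.lf 0 3910410 0) (P.cons (P.lf 0 607734 0) (P.cons (P.lf 6366 0 0) (P.cons (P.lf 0 80 0) P.nil))))) (P.cons (P.cons (P.lf 0 47632100 0) (P.cons (P.lf 2015848 0 0) (P.cons (P.lf 215594 0 0) (P.cons (P.lf 0 28980 0) P.nil)))) (P.cons (P.cons (P.lf 0 21133380 0) (P.cons (P.lf 752218 0 0) (P.cons (P.lf 92158 0 0) P.nil))) (P.cons (P.cons (P.lf 1013096 0 0) (P.cons (P.lf 0 19376 0) P.nil)) (P.cons (P.cons (P.lf 587844 0 0) P.nil) P.nil)))))) 211304)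
 EL.nil)
noncomputable def S82_111_290_364_46 : EL := (EL.cons 15 (TM.mk (P.lf 4294967296 0 0) 0)
 EL.nil)
noncomputable def S82_111_290_364_47 : EL := (EL.cons 15 (TM.mk (P.cons (P.cons (P.lf 0 1969020170 0) (P.cons (P.lf 0 11791340 0) (P.cons (P.lf 0 1518380 0) (P.lf 101224 0 0)))) (P.cons (P.cons (P.lf 422731505 0 0) (P.cons (P.lf 0 8163916 0) (P.cons (P.lf 0 1051276 0) (P.lf 70084 0 0)))) (P.cons (P.cons (P.lf 52984960 0 0) (P.cons (P.lf 0 1997996 0) (P.cons (P.lf 0 257280 0) (P.lf 17152 0 0)))) (P.cons (P.cons (P.lf 0 502653 0) (P.cons (P.lf 0 182216 0) (P.cons (P.lf 0 23460 0) P.nil))) (P.cons (P.cons (P.lf 0 428867 0) (P.cons (P.lf 1836 0 0) P.nil)) (P.cons (P.cons (P.lf 0 27980 0) P.nil) P.nil)))))) 8805)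
 EL.nil)
noncomputable def S82_111_290_364_48 : EL := (EL.cons 15 (TM.mk (P.cons (P.cons (P.lf 902693818 0 0) (P.cons (P.lf 10811437 0 0) (P.cons (P.lf 1424569 0 0) (P.cons (P.lf 0 84474 0) (P.cons (P.lf 0 19 0) (P.cons (P.lf 0 71 0) P.nil)))))) (P.cons (P.cons (P.lf 0 387601023 0) (P.cons (P.lf 5164344 0 0) (P.cons (P.lf 709844 0 0) (P.cons (P.lf 0 32789 0) (P.cons (P.lf 0 26 0) P.nil))))) (P.cons (P.cons (P.lf 0 6974438 0) (P.cons (P.lf 0 66037 0) (P.cons (P.lf 17981 0 0) (P.cons (P.lf 7388 0 0) P.nil)))) (P.cons (P.cons (P.lf 10890954 0 0) (P.cons (P.lf 0 424900 0) (P.cons (P.lf 0 46121 0) P.nil))) (P.cons (P.cons (P.lf 947929 0 0) (P.cons (P.lf 0 82583 0) P.nil)) (P.cons (P.cons (P.lf 0 71169 0) P.nil) P.nil)))))) 58904)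
 EL.nil)
noncomputable def S82_111_290_364 : SL := (SL.cons S82_111_290_364_0 (SL.cons S82_111_290_364_1 (SL.cons S82_111_290_364_2 (SL.cons S82_111_290_364_3 (SL.cons S82_111_290_364_4 (SL.cons S82_111_290_364_5 (SL.cons S82_111_290_364_6 (SL.cons S82_111_290_364_7 (SL.cons S82_111_290_364_8 (SL.cons S82_111_290_364_9 (SL.cons S82_111_290_364_10 (SL.cons S82_111_290_364_11 (SL.cons S82_111_290_364_12 (SL.cons S82_111_290_364_13 (SL.cons S82_111_290_364_14 (SL.cons S82_111_290_364_15 (SL.cons S82_111_290_364_16 (SL.cons S82_111_290_364_17 (SL.cons S82_111_290_364_18 (SL.cons S82_111_290_364_19 (SL.cons S82_111_290_364_20 (SL.cons S82_111_290_364_21 (SL.cons S82_111_290_364_22 (SL.cons S82_111_290_364_23 (SL.cons S82_111_290_364_24 (SL.cons S82_111_290_364_25 (SL.cons S82_111_290_364_26 (SL.cons S82_111_290_364_27 (SL.cons S82_111_290_364_28 (SL.cons S82_111_290_364_29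 (SL.cons S82_111_290_364_30 (SL.cons S82_111_290_364_31 (SL.cons S82_111_290_364_32 (SL.cons S82_111_290_364_33 (SL.cons S82_111_290_364_34 (SL.cons S82_111_290_364_35 (SL.cons S82_111_290_364_36 (SL.cons S82_111_290_364_37 (SL.cons S82_111_290_364_38 (SL.cons S82_111_290_364_39 (SL.cons S82_111_290_364_40 (SL.cons S82_111_290_364_41 (SL.cons S82_111_290_364_42 (SL.cons S82_111_290_364_43 (SL.cons S82_111_290_364_44 (SL.cons S82_111_290_364_45 (SL.cons S82_111_290_364_46 (SL.cons S82_111_290_364_47 (SL.cons S82_111_290_364_48 SL.nil)))))))))))))))))))))))))))))))))))))))))))))))))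
noncomputable def S82_111_364_438_0 : EL := (EL.cons 0 (TM.mk (P.cons (P.lf 3141443055 0 0) (P.cons (P.lf 334885157 0 0) (P.cons (P.lf 43314278 0 0) (P.cons (P.lf 451103 0 0) (P.cons (P.lf 0 186969 0) (P.cons (P.lf 0 14783 0) P.nil)))))) 1615)
 (EL.cons 1 (TM.mk (P.cons (P.lf 0 1170850837 0) (P.cons (P.lf 0 233327645 0) (P.cons (P.lf 10098210 0 0) (P.cons (P.lf 2078180 0 0) (P.cons (P.lf 90420 0 0) (P.cons (P.lf 0 2872 0) P.nil)))))) 983)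
 (EL.cons 5 (TM.mk (P.cons (P.lf 6184486878 0 0) (P.cons (P.lf 0 119070280 0) (P.cons (P.lf 0 15400634 0) (P.cons (P.lf 0 160396 0) (P.cons (P.lf 66480 0 0) (P.cons (P.lf 5256 0 0) P.nil)))))) 413)
 (EL.cons 9 (TM.mk (P.lf 6442450944 0 0) 2)
 EL.nil))))
noncomputable def S82_111_364_438_1 : EL := (EL.cons 0 (TM.mk (P.cons (P.cons (P.lf 0 3620600102 0) (P.cons (P.lf 49626705 0 0) (P.cons (P.lf 2715356 0 0) (P.lf 0 301694 0)))) (P.cons (P.cons (P.lf 0 678957400 0) (P.cons (P.lf 29166863 0 0) (P.cons (P.lf 1595883 0 0) (P.lf 0 177309 0)))) (P.cons (P.cons (P.lf 27903851 0 0) (P.cons (P.lf 4141951 0 0) (P.cons (P.lf 226617 0 0) (P.lf 0 25168 0)))) (P.cons (P.cons (P.lf 28868087 0 0) (P.cons (P.lf 0 585046 0) (P.cons (P.lf 0 32016 0) P.nil))) (P.cons (P.cons (P.lf 2252289 0 0) (P.cons (P.lf 0 203720 0) P.nil)) (P.cons (P.cons (P.lf 0 172366 0) P.nil) P.nil))))))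 145974)
 (EL.cons 1 (TM.mk (P.cons (P.cons (P.lf 2049115859 0 0) (P.cons (P.lf 0 38523018 0) (P.cons (P.lf 0 2107826 0) (P.lf 234204 0 0)))) (P.cons (P.cons (P.lf 49105792 0 0) (P.cons (P.lf 0 8187153 0) (P.cons (P.lf 0 447972 0) (P.lf 49775 0 0)))) (P.cons (P.cons (P.lf 0 135404998 0) (P.cons (P.lf 3124587 0 0) (P.cons (P.lf 170959 0 0) (P.lf 0 18993 0)))) (P.cons (P.cons (P.lf 0 8431967 0) (P.cons (P.lf 954554 0 0) (P.cons (P.lf 52220 0 0) P.nil))) (P.cons (P.cons (P.lf 1611384 0 0) (P.cons (P.lf 38825 0 0) P.nil)) (P.cons (P.cons (P.lf 225900 0 0) P.nil) P.nil)))))) 57427)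
 (EL.cons 5 (TM.mk (P.cons (P.cons (P.lf 0 2109048727 0) (P.cons (P.lf 0 45950344 0) (P.cons (P.lf 0 2514212 0) (P.lf 279354 0 0)))) (P.cons (P.cons (P.lf 926097795 0 0) (P.cons (P.lf 0 29968046 0) (P.cons (P.lf 0 1639726 0) (P.lf 182190 0 0)))) (P.cons (P.cons (P.lf 71843626 0 0) (P.cons (P.lf 0 6268914 0) (P.cons (P.lf 0 343008 0) (P.lf 38114 0 0)))) (P.cons (P.cons (P.lf 0 11876539 0) (P.cons (P.lf 0 229408 0) (P.cons (P.lf 0 12554 0) P.nil))) (P.cons (P.cons (P.lf 0 1522254 0) (P.cons (P.lf 76840 0 0) P.nil)) (P.cons (P.cons (P.lf 19606 0 0) P.nil) P.nil)))))) 47842)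
 (EL.cons 9 (TM.mk (P.cons (P.cons (P.lf 0 2996799885 0) (P.cons (P.lf 0 24975252 0) (P.cons (P.lf 0 1366542 0) (P.lf 151836 0 0)))) (P.cons (P.cons (P.lf 604138861 0 0) (P.cons (P.lf 0 17292006 0) (P.cons (P.lf 0 946146 0) (P.lf 105126 0 0)))) (P.cons (P.cons (P.lf 72145578 0 0) (P.cons (P.lf 0 4231956 0) (P.cons (P.lf 0 231552 0) (P.lf 25728 0 0)))) (P.cons (P.cons (P.lf 0 1422655 0) (P.cons (P.lf 0 385956 0) (P.cons (P.lf 0 21114 0) P.nil))) (P.cons (P.cons (P.lf 0 636562 0) (P.cons (P.lf 3888 0 0) P.nil)) (P.cons (P.cons (P.lf 0 36762 0) P.nil) P.nil)))))) 12866)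
 (EL.cons 2 (TM.mk (P.cons (P.cons (P.lf 255294452 0 0) (P.cons (P.lf 32033314 0 0) (P.cons (P.lf 0 4890656 0) (P.cons (P.lf 0 149408 0) (P.lf 12448 0 0))))) (P.cons (P.cons (P.lf 109794209 0 0) (P.cons (P.lf 13776533 0 0) (P.cons (P.lf 0 2103316 0) (P.cons (P.lf 0 64254 0) (P.lf 5352 0 0))))) (P.cons (P.cons (P.lf 10361283 0 0) (P.cons (P.lf 1300089 0 0) (P.cons (P.lf 0 198486 0) (P.cons (P.lf 0 6060 0) P.nil)))) (P.cons (P.cons (P.lf 0 907810 0) (P.cons (P.lf 0 113909 0) (P.cons (P.lf 17389 0 0) P.nil))) (P.cons (P.cons (P.lf 0 162120 0) (P.cons (P.lf 0 20340 0) P.nil)) (P.cons (P.cons (P.lf 0 6398 0) P.nil) P.nil)))))) 7997)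
 (EL.cons 6 (TM.mk (P.cons (P.cons (P.lf 56246955 0 0) (P.cons (P.lf 7057638 0 0) (P.cons (P.lf 0 1077519 0) (P.cons (P.lf 0 32916 0) (P.lf 2742 0 0))))) (P.cons (P.cons (P.lf 38943450 0 0) (P.cons (P.lf 4886466 0 0) (P.cons (P.lf 0 746034 0) (P.cons (P.lf 0 22791 0) (P.lf 1896 0 0))))) (P.cons (P.cons (P.lf 9530823 0 0) (P.cons (P.lf 1195887 0 0) (P.cons (P.lf 0 182580 0) (P.cons (P.lf 0 5577 0) P.nil)))) (P.cons (P.cons (P.lf 869223 0 0) (P.cons (P.lf 109065 0 0) (P.cons (P.lf 0 16650 0) P.nil))) (P.cons (P.cons (P.lf 0 8760 0) (P.cons (P.lf 0 1098 0) P.nil)) (P.cons (P.cons (P.lf 0 6768 0) P.nil) P.nil)))))) 3768)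
 EL.nil))))))
noncomputable def S82_111_364_438_2 : EL := (EL.cons 0 (TM.mk (P.cons (P.cons (P.lf 2688610344 0 0) (P.cons (P.lf 0 29427291 0) (P.cons (P.lf 0 2042113 0) (P.cons (P.lf 131620 0 0) (P.cons (P.lf 3955 0 0) (P.cons (P.lf 283 0 0) P.nil)))))) (P.cons (P.cons (P.lf 154214375 0 0) (P.cons (P.lf 104612 0 0) (P.cons (P.lf 0 557220 0) (P.cons (P.lf 0 62242 0) (P.cons (P.lf 5148 0 0) P.nil))))) (P.cons (P.cons (P.lf 0 209441087 0) (P.cons (P.lf 10098744 0 0) (P.cons (P.lf 252428 0 0) (P.cons (P.lf 0 94233 0) P.nil)))) (P.cons (P.cons (P.lf 0 38249010 0) (P.cons (P.lf 3214737 0 0) (P.cons (P.lf 96363 0 0) P.nil))) (P.cons (P.cons (P.lf 3784535 0 0) (P.cons (P.lf 136037 0 0) P.nil)) (P.cons (P.cons (P.lf 1278404 0 0) P.nil) P.nil)))))) 650279)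
 (EL.cons 1 (TM.mk (P.cons (P.cons (P.lf 0 1653005727 0) (P.cons (P.lf 24174366 0 0) (P.cons (P.lf 1639006 0 0) (P.cons (P.lf 0 112362 0) (P.cons (P.lf 0 2904 0) (P.cons (P.lf 0 211 0) P.nil)))))) (P.cons (P.cons (P.lf 286966273 0 0) (P.cons (P.lf 0 8074971 0) (P.cons (P.lf 0 143671 0) (P.cons (P.lf 81705 0 0) (P.cons (P.lf 0 2734 0) P.nil))))) (P.cons (P.cons (P.lf 156631918 0 0) (P.cons (P.lf 0 6809985 0) (P.cons (P.lf 0 283170 0) (P.cons (P.lf 51186 0 0) P.nil)))) (P.cons (P.cons (P.lf 0 14603897 0) (P.cons (P.lf 0 154042 0) (P.cons (P.lf 0 9930 0) P.nil))) (P.cons (P.cons (P.lf 0 5617709 0) (P.cons (P.lf 369010 0 0) P.nil)) (P.cons (P.cons (P.lf 0 61712 0) P.nil) P.nil)))))) 308525)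
 (EL.cons 5 (TM.mk (P.cons (P.cons (P.lf 623922121 0 0) (P.cons (P.lf 36796266 0 0) (P.cons (P.lf 2276660 0 0) (P.cons (P.lf 0 194888 0) (P.cons (P.lf 0 2400 0) (P.cons (P.lf 0 169 0) P.nil)))))) (P.cons (P.cons (P.lf 0 691819497 0) (P.cons (P.lf 12886387 0 0) (P.cons (P.lf 1057194 0 0) (P.cons (P.lf 0 39814 0) (P.cons (P.lf 0 3216 0) P.nil))))) (P.cons (P.cons (P.lf 62606240 0 0) (P.cons (P.lf 0 3438071 0) (P.cons (P.lf 8385 0 0) (P.cons (P.lf 42397 0 0) P.nil)))) (P.cons (P.cons (P.lf 30434620 0 0) (P.cons (P.lf 0 2062017 0) (P.cons (P.lf 0 55403 0) P.nil))) (P.cons (P.cons (P.lf 0 61169 0) (P.cons (P.lf 0 227678 0) P.nil)) (P.cons (P.cons (P.lf 0 587182 0) P.nil) P.nil)))))) 229907)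
 (EL.cons 9 (TM.mk (P.cons (P.cons (P.lf 1394005111 0 0) (P.cons (P.lf 23235204 0 0) (P.cons (P.lf 1368154 0 0) (P.cons (P.lf 0 130662 0) (P.cons (P.lf 0 886 0) (P.cons (P.lf 0 63 0) P.nil)))))) (P.cons (P.cons (P.lf 0 562047979 0) (P.cons (P.lf 11403163 0 0) (P.cons (P.lf 758002 0 0) (P.cons (P.lf 0 54652 0) (P.cons (P.lf 0 1228 0) P.nil))))) (P.cons (P.cons (P.lf 0 10466196 0) (P.cons (P.lf 134637 0 0) (P.cons (P.lf 86587 0 0) (P.cons (P.lf 7851 0 0) P.nil)))) (P.cons (P.cons (P.lf 14854396 0 0) (P.cons (P.lf 0 810891 0) (P.cons (P.lf 0 18661 0) P.nil))) (P.cons (P.cons (P.lf 1133313 0 0) (P.cons (P.lf 0 158212 0) P.nil)) (P.cons (P.cons (P.lf 0 117048 0) P.nil) P.nil)))))) 83215)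
 (EL.cons 2 (TM.mk (P.cons (P.cons (P.lf 0 237507862 0) (P.cons (P.lf 0 31780912 0) (P.cons (P.lf 4193251 0 0) (P.cons (P.lf 175359 0 0) (P.cons (P.lf 0 6834 0) (P.cons (P.lf 0 258 0) P.nil)))))) (P.cons (P.cons (P.lf 0 54264431 0) (P.cons (P.lf 0 9030611 0) (P.cons (P.lf 639196 0 0) (P.cons (P.lf 72568 0 0) (P.cons (P.lf 2677 0 0) P.nil))))) (P.cons (P.cons (P.lf 16670244 0 0) (P.cons (P.lf 1086586 0 0) (P.cons (P.lf 0 500461 0) (P.cons (P.lf 8707 0 0) P.nil)))) (P.cons (P.cons (P.lf 5134117 0 0) (P.cons (P.lf 420789 0 0) (P.cons (P.lf 0 138611 0) P.nil))) (P.cons (P.cons (P.lf 113686 0 0) (P.cons (P.lf 0 6063 0) P.nil)) (P.cons (P.cons (P.lf 0 73968 0) P.nil) P.nil)))))) 67972)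
 (EL.cons 6 (TM.mk (P.cons (P.cons (P.lf 0 52328178 0) (P.cons (P.lf 0 7002030 0) (P.cons (P.lf 923862 0 0) (P.cons (P.lf 38634 0 0) (P.cons (P.lf 0 1506 0) (P.cons (P.lf 0 54 0) P.nil)))))) (P.cons (P.cons (P.lf 0 25681140 0) (P.cons (P.lf 0 3826248 0) (P.cons (P.lf 383154 0 0) (P.cons (P.lf 26118 0 0) (P.cons (P.lf 192 0 0) P.nil))))) (P.cons (P.cons (P.lf 0 303222 0) (P.cons (P.lf 0 394890 0) (P.cons (P.lf 0 58488 0) (P.cons (P.lf 6732 0 0) P.nil)))) (P.cons (P.cons (P.lf 1826202 0 0) (P.cons (P.lf 113340 0 0) (P.cons (P.lf 0 55848 0) P.nil))) (P.cons (P.cons (P.lf 356316 0 0) (P.cons (P.lf 22986 0 0) P.nil)) (P.cons (P.cons (P.lf 11574 0 0) P.nil) P.nil)))))) 28644)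
 EL.nil))))))
noncomputable def S82_111_364_438_3 : EL := (EL.cons 0 (TM.mk (P.cons (P.lf 5314273808 0 0) (P.cons (P.lf 0 334885157 0) (P.cons (P.lf 0 43314278 0) (P.cons (P.lf 0 451103 0) (P.cons (P.lf 186969 0 0) (P.cons (P.lf 14783 0 0) P.nil)))))) 1615)
 (EL.cons 1 (TM.mk (P.cons (P.lf 1170850837 0 0) (P.cons (P.lf 233327645 0 0) (P.cons (P.lf 0 10098210 0) (P.cons (P.lf 0 2078180 0) (P.cons (P.lf 0 90420 0) (P.cons (P.lf 2872 0 0) P.nil)))))) 983)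
 (EL.cons 5 (TM.mk (P.cons (P.lf 257964066 0 0) (P.cons (P.lf 119070280 0 0) (P.cons (P.lf 15400634 0 0) (P.cons (P.lf 160396 0 0) (P.cons (P.lf 0 66480 0) (P.cons (P.lf 0 5256 0) P.nil)))))) 406)
 EL.nil)))
noncomputable def S82_111_364_438_4 : EL := (EL.cons 0 (TM.mk (P.cons (P.cons (P.lf 0 2472011859 0) (P.cons (P.lf 0 20601682 0) (P.cons (P.lf 0 1127237 0) (P.lf 125245 0 0)))) (P.cons (P.cons (P.lf 654121103 0 0) (P.cons (P.lf 0 12965656 0) (P.cons (P.lf 0 709425 0) (P.lf 78823 0 0)))) (P.cons (P.cons (P.lf 48256236 0 0) (P.cons (P.lf 0 2424100 0) (P.cons (P.lf 0 132633 0) (P.lf 14735 0 0)))) (P.cons (P.cons (P.lf 0 8775671 0) (P.cons (P.lf 19618 0 0) (P.cons (P.lf 1075 0 0) P.nil))) (P.cons (P.cons (P.lf 0 1065466 0) (P.cons (P.lf 52207 0 0) P.nil)) (P.cons (P.cons (P.lf 17933 0 0) P.nil) P.nil)))))) 31726)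
 (EL.cons 1 (TM.mk (P.cons (P.cons (P.lf 0 544638318 0) (P.cons (P.lf 0 4539000 0) (P.cons (P.lf 0 248355 0) (P.lf 27594 0 0)))) (P.cons (P.cons (P.lf 1260423 0 0) (P.cons (P.lf 0 4047181 0) (P.cons (P.lf 0 221443 0) (P.lf 24603 0 0)))) (P.cons (P.cons (P.lf 39689293 0 0) (P.cons (P.lf 0 1356234 0) (P.cons (P.lf 0 74205 0) (P.lf 8244 0 0)))) (P.cons (P.cons (P.lf 2374096 0 0) (P.cons (P.lf 0 188251 0) (P.cons (P.lf 0 10299 0) P.nil))) (P.cons (P.cons (P.lf 0 433117 0) (P.cons (P.lf 0 708 0) P.nil)) (P.cons (P.cons (P.lf 0 60592 0) P.nil) P.nil)))))) 12461)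
 (EL.cons 5 (TM.mk (P.cons (P.cons (P.lf 0 119995742 0) (P.cons (P.lf 0 1000040 0) (P.cons (P.lf 0 54718 0) (P.lf 6078 0 0)))) (P.cons (P.cons (P.lf 0 31196774 0) (P.cons (P.lf 0 1153990 0) (P.cons (P.lf 0 63140 0) (P.lf 7014 0 0)))) (P.cons (P.cons (P.lf 6890750 0 0) (P.cons (P.lf 0 548748 0) (P.cons (P.lf 0 30024 0) (P.lf 3334 0 0)))) (P.cons (P.cons (P.lf 2646018 0 0) (P.cons (P.lf 0 135626 0) (P.cons (P.lf 0 7420 0) P.nil))) (P.cons (P.cons (P.lf 166646 0 0) (P.cons (P.lf 0 17266 0) P.nil)) (P.cons (P.cons (P.lf 0 18628 0) P.nil) P.nil)))))) 8072)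
 EL.nil)))
noncomputable def S82_111_364_438_5 : EL := (EL.cons 0 (TM.mk (P.cons (P.cons (P.lf 1149892317 0 0) (P.cons (P.lf 19166343 0 0) (P.cons (P.lf 1128568 0 0) (P.cons (P.lf 0 107780 0) (P.cons (P.lf 0 731 0) (P.cons (P.lf 0 50 0) P.nil)))))) (P.cons (P.cons (P.lf 0 536086110 0) (P.cons (P.lf 8198495 0 0) (P.cons (P.lf 554145 0 0) (P.cons (P.lf 0 38288 0) (P.cons (P.lf 0 966 0) P.nil))))) (P.cons (P.cons (P.lf 11210167 0 0) (P.cons (P.lf 0 637903 0) (P.cons (P.lf 22823 0 0) (P.cons (P.lf 10195 0 0) P.nil)))) (P.cons (P.cons (P.lf 16478381 0 0) (P.cons (P.lf 0 754182 0) (P.cons (P.lf 0 25085 0) P.nil))) (P.cons (P.cons (P.lf 312881 0 0) (P.cons (P.lf 0 89384 0) P.nil)) (P.cons (P.cons (P.lf 0 267711 0) P.nil) P.nil)))))) 109820)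
 (EL.cons 1 (TM.mk (P.cons (P.cons (P.lf 253346445 0 0) (P.cons (P.lf 4222764 0 0) (P.cons (P.lf 248647 0 0) (P.cons (P.lf 0 23745 0) (P.cons (P.lf 0 159 0) (P.cons (P.lf 0 11 0) P.nil)))))) (P.cons (P.cons (P.lf 0 51659595 0) (P.cons (P.lf 2913924 0 0) (P.cons (P.lf 187308 0 0) (P.cons (P.lf 0 14664 0) (P.cons (P.lf 0 255 0) P.nil))))) (P.cons (P.cons (P.lf 0 24442970 0) (P.cons (P.lf 401038 0 0) (P.cons (P.lf 41043 0 0) (P.cons (P.lf 0 346 0) P.nil)))) (P.cons (P.cons (P.lf 2751888 0 0) (P.cons (P.lf 0 167863 0) (P.cons (P.lf 0 1884 0) P.nil))) (P.cons (P.cons (P.lf 922095 0 0) (P.cons (P.lf 0 62336 0) P.nil)) (P.cons (P.cons (P.lf 8375 0 0) P.nil) P.nil)))))) 44626)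
 (EL.cons 5 (TM.mk (P.cons (P.cons (P.lf 55817766 0 0) (P.cons (P.lf 930366 0 0) (P.cons (P.lf 54782 0 0) (P.cons (P.lf 0 5230 0) (P.cons (P.lf 0 34 0) (P.cons (P.lf 0 2 0) P.nil)))))) (P.cons (P.cons (P.lf 3259070 0 0) (P.cons (P.lf 886032 0 0) (P.cons (P.lf 55636 0 0) (P.cons (P.lf 0 4602 0) (P.cons (P.lf 0 64 0) P.nil))))) (P.cons (P.cons (P.lf 0 7474568 0) (P.cons (P.lf 271688 0 0) (P.cons (P.lf 20746 0 0) (P.cons (P.lf 0 1006 0) P.nil)))) (P.cons (P.cons (P.lf 0 907512 0) (P.cons (P.lf 0 2142 0) (P.cons (P.lf 2698 0 0) P.nil))) (P.cons (P.cons (P.lf 266522 0 0) (P.cons (P.lf 0 20954 0) P.nil)) (P.cons (P.cons (P.lf 56170 0 0) P.nil) P.nil)))))) 16252)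
 EL.nil)))
noncomputable def S82_111_364_438_6 : EL := (EL.cons 12 (TM.mk (P.lf 8589934592 0 0) 0)
 (EL.cons 3 (TM.mk (P.cons (P.lf 0 3378211968 0) (P.cons (P.lf 106440982 0 0) (P.cons (P.lf 15444026 0 0) (P.cons (P.lf 629992 0 0) (P.cons (P.lf 0 4275 0) (P.cons (P.lf 0 1953 0) P.nil)))))) 352)
 (EL.cons 7 (TM.mk (P.cons (P.lf 0 744294039 0) (P.cons (P.lf 0 171774507 0) (P.cons (P.lf 0 2395646 0) (P.cons (P.lf 321494 0 0) (P.cons (P.lf 25565 0 0) (P.cons (P.lf 650 0 0) P.nil)))))) 203)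
 EL.nil)))
noncomputable def S82_111_364_438_7 : EL := (EL.cons 12 (TM.mk (P.cons (P.cons (P.lf 0 3995733180 0) (P.cons (P.lf 0 33300336 0) (P.cons (P.lf 0 1822056 0) (P.lf 202448 0 0)))) (P.cons (P.cons (P.lf 805518482 0 0) (P.cons (P.lf 0 23056008 0) (P.cons (P.lf 0 1261528 0) (P.lf 140168 0 0)))) (P.cons (P.cons (P.lf 96194104 0 0) (P.cons (P.lf 0 5642608 0) (P.cons (P.lf 0 308736 0) (P.lf 34304 0 0)))) (P.cons (P.cons (P.lf 0 1896874 0) (P.cons (P.lf 0 514608 0) (P.cons (P.lf 0 28152 0) P.nil))) (P.cons (P.cons (P.lf 0 848750 0) (P.cons (P.lf 5184 0 0) P.nil)) (P.cons (P.cons (P.lf 0 49016 0) P.nil) P.nil)))))) 17130)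
 (EL.cons 3 (TM.mk (P.cons (P.cons (P.lf 2944069997 0 0) (P.cons (P.lf 0 26192420 0) (P.cons (P.lf 0 1433138 0) (P.lf 159234 0 0)))) (P.cons (P.cons (P.lf 196790472 0 0) (P.cons (P.lf 0 17309458 0) (P.cons (P.lf 0 947100 0) (P.lf 105230 0 0)))) (P.cons (P.cons (P.lf 763830 0 0) (P.cons (P.lf 0 3747064 0) (P.cons (P.lf 0 205020 0) (P.lf 22778 0 0)))) (P.cons (P.cons (P.lf 0 6908126 0) (P.cons (P.lf 0 177134 0) (P.cons (P.lf 0 9688 0) P.nil))) (P.cons (P.cons (P.lf 0 789452 0) (P.cons (P.lf 40468 0 0) P.nil)) (P.cons (P.cons (P.lf 0 2167 0) P.nil) P.nil)))))) 55280)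
 (EL.cons 7 (TM.mk (P.cons (P.cons (P.lf 0 1868956677 0) (P.cons (P.lf 66289412 0 0) (P.cons (P.lf 3627091 0 0) (P.lf 0 403011 0)))) (P.cons (P.cons (P.lf 0 317580564 0) (P.cons (P.lf 27934014 0 0) (P.cons (P.lf 1528437 0 0) (P.lf 0 169826 0)))) (P.cons (P.cons (P.lf 40417467 0 0) (P.cons (P.lf 2383526 0 0) (P.cons (P.lf 130417 0 0) (P.lf 0 14492 0)))) (P.cons (P.cons (P.lf 5780319 0 0) (P.cons (P.lf 0 280413 0) (P.cons (P.lf 0 15341 0) P.nil))) (P.cons (P.cons (P.lf 0 71662 0) (P.cons (P.lf 0 39476 0) P.nil)) (P.cons (P.cons (P.lf 0 52300 0) P.nil) P.nil)))))) 27228)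
 (EL.cons 10 (TM.mk (P.cons (P.cons (P.lf 0 324574461 0) (P.cons (P.lf 0 40726293 0) (P.cons (P.lf 6217851 0 0) (P.cons (P.lf 189954 0 0) (P.lf 0 15828 0))))) (P.cons (P.cons (P.lf 0 149816106 0) (P.cons (P.lf 0 18798321 0) (P.cons (P.lf 2870016 0 0) (P.cons (P.lf 87678 0 0) (P.lf 0 7305 0))))) (P.cons (P.cons (P.lf 0 19377318 0) (P.cons (P.lf 0 2431386 0) (P.cons (P.lf 371208 0 0) (P.cons (P.lf 11340 0 0) P.nil)))) (P.cons (P.cons (P.lf 0 201810 0) (P.cons (P.lf 0 25320 0) (P.cons (P.lf 3864 0 0) P.nil))) (P.cons (P.cons (P.lf 83646 0 0) (P.cons (P.lf 10494 0 0) P.nil)) (P.cons (P.cons (P.lf 6612 0 0) P.nil) P.nil)))))) 4371)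
 EL.nil))))
noncomputable def S82_111_364_438_8 : EL := (EL.cons 12 (TM.mk (P.cons (P.cons (P.lf 1858673482 0 0) (P.cons (P.lf 30980272 0 0) (P.cons (P.lf 1824206 0 0) (P.cons (P.lf 0 174216 0) (P.cons (P.lf 0 1182 0) (P.cons (P.lf 0 84 0) P.nil)))))) (P.cons (P.cons (P.lf 0 749397306 0) (P.cons (P.lf 15204218 0 0) (P.cons (P.lf 1010670 0 0) (P.cons (P.lf 0 72870 0) (P.cons (P.lf 0 1638 0) P.nil))))) (P.cons (P.cons (P.lf 0 13954928 0) (P.cons (P.lf 179516 0 0) (P.cons (P.lf 115450 0 0) (P.cons (P.lf 10468 0 0) P.nil)))) (P.cons (P.cons (P.lf 19805862 0 0) (P.cons (P.lf 0 1081188 0) (P.cons (P.lf 0 24882 0) P.nil))) (P.cons (P.cons (P.lf 1511084 0 0) (P.cons (P.lf 0 210950 0) P.nil)) (P.cons (P.cons (P.lf 0 156064 0) P.nil) P.nil)))))) 110924)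
 (EL.cons 3 (TM.mk (P.cons (P.cons (P.lf 0 2007983078 0) (P.cons (P.lf 13724983 0 0) (P.cons (P.lf 1004819 0 0) (P.cons (P.lf 0 55656 0) (P.cons (P.lf 0 2326 0) (P.cons (P.lf 0 166 0) P.nil)))))) (P.cons (P.cons (P.lf 51327422 0 0) (P.cons (P.lf 0 543302 0) (P.cons (P.lf 313784 0 0) (P.cons (P.lf 40892 0 0) (P.cons (P.lf 0 3145 0) P.nil))))) (P.cons (P.cons (P.lf 102591634 0 0) (P.cons (P.lf 0 5450665 0) (P.cons (P.lf 0 102757 0) (P.cons (P.lf 54530 0 0) P.nil)))) (P.cons (P.cons (P.lf 18850465 0 0) (P.cons (P.lf 0 1932938 0) (P.cons (P.lf 0 46552 0) P.nil))) (P.cons (P.cons (P.lf 0 782932 0) (P.cons (P.lf 0 190783 0) P.nil)) (P.cons (P.cons (P.lf 0 488226 0) P.nil) P.nil)))))) 295723)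
 (EL.cons 7 (TM.mk (P.cons (P.cons (P.lf 1899793742 0 0) (P.cons (P.lf 0 44495960 0) (P.cons (P.lf 0 2937418 0) (P.cons (P.lf 215495 0 0) (P.cons (P.lf 4602 0 0) (P.cons (P.lf 331 0 0) P.nil)))))) (P.cons (P.cons (P.lf 0 82832190 0) (P.cons (P.lf 876773 0 0) (P.cons (P.lf 0 506388 0) (P.cons (P.lf 0 65989 0) (P.cons (P.lf 5079 0 0) P.nil))))) (P.cons (P.cons (P.lf 0 154699110 0) (P.cons (P.lf 8681286 0 0) (P.cons (P.lf 232240 0 0) (P.cons (P.lf 0 79340 0) P.nil)))) (P.cons (P.cons (P.lf 0 2926232 0) (P.cons (P.lf 1596629 0 0) (P.cons (P.lf 37218 0 0) P.nil))) (P.cons (P.cons (P.lf 3111198 0 0) (P.cons (P.lf 0 76202 0) P.nil)) (P.cons (P.cons (P.lf 255742 0 0) P.nil) P.nil)))))) 201151)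
 (EL.cons 10 (TM.mk (P.cons (P.cons (P.lf 301961070 0 0) (P.cons (P.lf 40405392 0 0) (P.cons (P.lf 0 5331186 0) (P.cons (P.lf 0 222948 0) (P.cons (P.lf 8694 0 0) (P.cons (P.lf 330 0 0) P.nil)))))) (P.cons (P.cons (P.lf 78504546 0 0) (P.cons (P.lf 12754368 0 0) (P.cons (P.lf 0 980634 0) (P.cons (P.lf 0 99288 0) (P.cons (P.lf 0 3126 0) P.nil))))) (P.cons (P.cons (P.lf 0 17340108 0) (P.cons (P.lf 0 794874 0) (P.cons (P.lf 581004 0 0) (P.cons (P.lf 0 15216 0) P.nil)))) (P.cons (P.cons (P.lf 0 6658524 0) (P.cons (P.lf 0 494184 0) (P.cons (P.lf 189054 0 0) P.nil))) (P.cons (P.cons (P.lf 0 419352 0) (P.cons (P.lf 0 9162 0) P.nil)) (P.cons (P.cons (P.lf 46884 0 0) P.nil) P.nil)))))) 73938)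
 EL.nil))))
noncomputable def S82_111_364_438_9 : EL := (EL.cons 3 (TM.mk (P.cons (P.lf 0 3378211968 0) (P.cons (P.lf 106440982 0 0) (P.cons (P.lf 15444026 0 0) (P.cons (P.lf 629992 0 0) (P.cons (P.lf 0 4275 0) (P.cons (P.lf 0 1953 0) P.nil)))))) 352)
 (EL.cons 7 (TM.mk (P.cons (P.lf 0 744294039 0) (P.cons (P.lf 0 171774507 0) (P.cons (P.lf 0 2395646 0) (P.cons (P.lf 321494 0 0) (P.cons (P.lf 25565 0 0) (P.cons (P.lf 650 0 0) P.nil)))))) 203)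
 EL.nil))
noncomputable def S82_111_364_438_10 : EL := (EL.cons 3 (TM.mk (P.cons (P.cons (P.lf 1571424497 0 0) (P.cons (P.lf 13096210 0 0) (P.cons (P.lf 716569 0 0) (P.lf 0 79617 0)))) (P.cons (P.cons (P.lf 0 366303363 0) (P.cons (P.lf 8654729 0 0) (P.cons (P.lf 473550 0 0) (P.lf 0 52615 0)))) (P.cons (P.cons (P.lf 0 35033340 0) (P.cons (P.lf 1873532 0 0) (P.cons (P.lf 102510 0 0) (P.lf 0 11389 0)))) (P.cons (P.cons (P.lf 3093178 0 0) (P.cons (P.lf 88567 0 0) (P.cons (P.lf 4844 0 0) P.nil))) (P.cons (P.cons (P.lf 544303 0 0) (P.cons (P.lf 0 20234 0) P.nil)) (P.cons (P.cons (P.lf 12911 0 0) P.nil) P.nil)))))) 13219)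
 (EL.cons 7 (TM.mk (P.cons (P.cons (P.lf 346219212 0 0) (P.cons (P.lf 2885381 0 0) (P.cons (P.lf 157876 0 0) (P.lf 0 17541 0)))) (P.cons (P.cons (P.lf 10107468 0 0) (P.cons (P.lf 2663652 0 0) (P.cons (P.lf 145743 0 0) (P.lf 0 16193 0)))) (P.cons (P.cons (P.lf 0 23328684 0) (P.cons (P.lf 959258 0 0) (P.cons (P.lf 52486 0 0) (P.lf 0 5831 0)))) (P.cons (P.cons (P.lf 0 2133450 0) (P.cons (P.lf 162609 0 0) (P.cons (P.lf 8896 0 0) P.nil))) (P.cons (P.cons (P.lf 102902 0 0) (P.cons (P.lf 10453 0 0) P.nil)) (P.cons (P.cons (P.lf 27443 0 0) P.nil) P.nil)))))) 5714)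
 EL.nil))
noncomputable def S82_111_364_438_11 : EL := (EL.cons 3 (TM.mk (P.cons (P.cons (P.lf 0 730970990 0) (P.cons (P.lf 0 12183785 0) (P.cons (P.lf 0 717415 0) (P.cons (P.lf 68514 0 0) (P.cons (P.lf 464 0 0) (P.cons (P.lf 32 0 0) P.nil)))))) (P.cons (P.cons (P.lf 317751194 0 0) (P.cons (P.lf 0 5595560 0) (P.cons (P.lf 0 374866 0) (P.cons (P.lf 26498 0 0) (P.cons (P.lf 629 0 0) P.nil))))) (P.cons (P.cons (P.lf 0 456170 0) (P.cons (P.lf 173501 0 0) (P.cons (P.lf 0 29599 0) (P.cons (P.lf 0 5332 0) P.nil)))) (P.cons (P.cons (P.lf 0 9173123 0) (P.cons (P.lf 457036 0 0) (P.cons (P.lf 13166 0 0) P.nil))) (P.cons (P.cons (P.lf 0 429826 0) (P.cons (P.lf 70985 0 0) P.nil)) (P.cons (P.cons (P.lf 114636 0 0) P.nil) P.nil)))))) 58095)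
 (EL.cons 7 (TM.mk (P.cons (P.cons (P.lf 0 161048908 0) (P.cons (P.lf 0 2684354 0) (P.cons (P.lf 0 158062 0) (P.cons (P.lf 15095 0 0) (P.cons (P.lf 102 0 0) (P.cons (P.lf 7 0 0) P.nil)))))) (P.cons (P.cons (P.lf 27764964 0 0) (P.cons (P.lf 0 1936921 0) (P.cons (P.lf 0 124050 0) (P.cons (P.lf 9797 0 0) (P.cons (P.lf 165 0 0) P.nil))))) (P.cons (P.cons (P.lf 15676626 0 0) (P.cons (P.lf 0 328236 0) (P.cons (P.lf 0 30722 0) (P.cons (P.lf 598 0 0) P.nil)))) (P.cons (P.cons (P.lf 0 1158500 0) (P.cons (P.lf 87011 0 0) (P.cons (P.lf 0 366 0) P.nil))) (P.cons (P.cons (P.lf 0 545616 0) (P.cons (P.lf 40510 0 0) P.nil)) (P.cons (P.cons (P.lf 0 24830 0) P.nil) P.nil)))))) 22059)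
 EL.nil))
noncomputable def S82_111_364_438_12 : EL := (EL.cons 4 (TM.mk (P.cons (P.lf 3378211968 0 0) (P.cons (P.lf 0 106440982 0) (P.cons (P.lf 0 15444026 0) (P.cons (P.lf 0 629992 0) (P.cons (P.lf 4275 0 0) (P.cons (P.lf 1953 0 0) P.nil)))))) 352)
 (EL.cons 8 (TM.mk (P.cons (P.lf 744294039 0 0) (P.cons (P.lf 171774507 0 0) (P.cons (P.lf 2395646 0 0) (P.cons (P.lf 0 321494 0) (P.cons (P.lf 0 25565 0) (P.cons (P.lf 0 650 0) P.nil)))))) 203)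
 EL.nil))
noncomputable def S82_111_364_438_13 : EL := (EL.cons 4 (TM.mk (P.cons (P.cons (P.lf 0 1571424497 0) (P.cons (P.lf 0 13096210 0) (P.cons (P.lf 0 716569 0) (P.lf 79617 0 0)))) (P.cons (P.cons (P.lf 366303363 0 0) (P.cons (P.lf 0 8654729 0) (P.cons (P.lf 0 473550 0) (P.lf 52615 0 0)))) (P.cons (P.cons (P.lf 35033340 0 0) (P.cons (P.lf 0 1873532 0) (P.cons (P.lf 0 102510 0) (P.lf 11389 0 0)))) (P.cons (P.cons (P.lf 0 3093178 0) (P.cons (P.lf 0 88567 0) (P.cons (P.lf 0 4844 0) P.nil))) (P.cons (P.cons (P.lf 0 544303 0) (P.cons (P.lf 20234 0 0) P.nil)) (P.cons (P.cons (P.lf 0 12911 0) P.nil) P.nil)))))) 13219)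
 (EL.cons 8 (TM.mk (P.cons (P.cons (P.lf 0 346219212 0) (P.cons (P.lf 0 2885381 0) (P.cons (P.lf 0 157876 0) (P.lf 17541 0 0)))) (P.cons (P.cons (P.lf 0 10107468 0) (P.cons (P.lf 0 2663652 0) (P.cons (P.lf 0 145743 0) (P.lf 16193 0 0)))) (P.cons (P.cons (P.lf 23328684 0 0) (P.cons (P.lf 0 959258 0) (P.cons (P.lf 0 52486 0) (P.lf 5831 0 0)))) (P.cons (P.cons (P.lf 2133450 0 0) (P.cons (P.lf 0 162609 0) (P.cons (P.lf 0 8896 0) P.nil))) (P.cons (P.cons (P.lf 0 102902 0) (P.cons (P.lf 0 10453 0) P.nil)) (P.cons (P.cons (P.lf 0 27443 0) P.nil) P.nil)))))) 5714)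
 EL.nil))
noncomputable def S82_111_364_438_14 : EL := (EL.cons 4 (TM.mk (P.cons (P.cons (P.lf 730970990 0 0) (P.cons (P.lf 12183785 0 0) (P.cons (P.lf 717415 0 0) (P.cons (P.lf 0 68514 0) (P.cons (P.lf 0 464 0) (P.cons (P.lf 0 32 0) P.nil)))))) (P.cons (P.cons (P.lf 0 317751194 0) (P.cons (P.lf 5595560 0 0) (P.cons (P.lf 374866 0 0) (P.cons (P.lf 0 26498 0) (P.cons (P.lf 0 629 0) P.nil))))) (P.cons (P.cons (P.lf 456170 0 0) (P.cons (P.lf 0 173501 0) (P.cons (P.lf 29599 0 0) (P.cons (P.lf 5332 0 0) P.nil)))) (P.cons (P.cons (P.lf 9173123 0 0) (P.cons (P.lf 0 457036 0) (P.cons (P.lf 0 13166 0) P.nil))) (P.cons (P.cons (P.lf 429826 0 0) (P.cons (P.lf 0 70985 0) P.nil)) (P.cons (P.cons (P.lf 0 114636 0) P.nil) P.nil)))))) 58095)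
 (EL.cons 8 (TM.mk (P.cons (P.cons (P.lf 161048908 0 0) (P.cons (P.lf 2684354 0 0) (P.cons (P.lf 158062 0 0) (P.cons (P.lf 0 15095 0) (P.cons (P.lf 0 102 0) (P.cons (P.lf 0 7 0) P.nil)))))) (P.cons (P.cons (P.lf 0 27764964 0) (P.cons (P.lf 1936921 0 0) (P.cons (P.lf 124050 0 0) (P.cons (P.lf 0 9797 0) (P.cons (P.lf 0 165 0) P.nil))))) (P.cons (P.cons (P.lf 0 15676626 0) (P.cons (P.lf 328236 0 0) (P.cons (P.lf 30722 0 0) (P.cons (P.lf 0 598 0) P.nil)))) (P.cons (P.cons (P.lf 1158500 0 0) (P.cons (P.lf 0 87011 0) (P.cons (P.lf 366 0 0) P.nil))) (P.cons (P.cons (P.lf 545616 0 0) (P.cons (P.lf 0 40510 0) P.nil)) (P.cons (P.cons (P.lf 24830 0 0) P.nil) P.nil)))))) 22059)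
 EL.nil))
noncomputable def S82_111_364_438_15 : EL := (EL.cons 4 (TM.mk (P.cons (P.lf 0 2834279364 0) (P.cons (P.lf 178605417 0 0) (P.cons (P.lf 23100948 0 0) (P.cons (P.lf 240588 0 0) (P.cons (P.lf 0 99717 0) (P.cons (P.lf 0 7884 0) P.nil)))))) 864)
 (EL.cons 8 (TM.mk (P.cons (P.lf 0 624453780 0) (P.cons (P.lf 0 124441411 0) (P.cons (P.lf 5385712 0 0) (P.cons (P.lf 1108363 0 0) (P.cons (P.lf 48224 0 0) (P.cons (P.lf 0 1532 0) P.nil)))))) 521)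
 EL.nil))
noncomputable def S82_111_364_438_16 : EL := (EL.cons 4 (TM.mk (P.cons (P.cons (P.lf 1318406325 0 0) (P.cons (P.lf 10987563 0 0) (P.cons (P.lf 601193 0 0) (P.lf 0 66797 0)))) (P.cons (P.cons (P.lf 0 348864588 0) (P.cons (P.lf 6915016 0 0) (P.cons (P.lf 378360 0 0) (P.lf 0 42039 0)))) (P.cons (P.cons (P.lf 0 25736659 0) (P.cons (P.lf 1292853 0 0) (P.cons (P.lf 70738 0 0) (P.lf 0 7859 0)))) (P.cons (P.cons (P.lf 4680358 0 0) (P.cons (P.lf 0 10463 0) (P.cons (P.lf 0 573 0) P.nil))) (P.cons (P.cons (P.lf 568248 0 0) (P.cons (P.lf 0 27843 0) P.nil)) (P.cons (P.cons (P.lf 0 9564 0) P.nil) P.nil)))))) 16929)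
 (EL.cons 8 (TM.mk (P.cons (P.cons (P.lf 290473770 0 0) (P.cons (P.lf 2420800 0 0) (P.cons (P.lf 132456 0 0) (P.lf 0 14717 0)))) (P.cons (P.cons (P.lf 0 672226 0) (P.cons (P.lf 2158497 0 0) (P.cons (P.lf 118103 0 0) (P.lf 0 13122 0)))) (P.cons (P.cons (P.lf 0 21167623 0) (P.cons (P.lf 723325 0 0) (P.cons (P.lf 39576 0 0) (P.lf 0 4397 0)))) (P.cons (P.cons (P.lf 0 1266185 0) (P.cons (P.lf 100401 0 0) (P.cons (P.lf 5493 0 0) P.nil))) (P.cons (P.cons (P.lf 230996 0 0) (P.cons (P.lf 378 0 0) P.nil)) (P.cons (P.cons (P.lf 32316 0 0) P.nil) P.nil)))))) 6636)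
 EL.nil))
noncomputable def S82_111_364_438_17 : EL := (EL.cons 4 (TM.mk (P.cons (P.cons (P.lf 0 613275902 0) (P.cons (P.lf 0 10222050 0) (P.cons (P.lf 0 601903 0) (P.cons (P.lf 57482 0 0) (P.cons (P.lf 390 0 0) (P.cons (P.lf 27 0 0) P.nil)))))) (P.cons (P.cons (P.lf 285912592 0 0) (P.cons (P.lf 0 4372530 0) (P.cons (P.lf 0 295544 0) (P.cons (P.lf 20420 0 0) (P.cons (P.lf 515 0 0) P.nil))))) (P.cons (P.cons (P.lf 0 5978756 0) (P.cons (P.lf 340215 0 0) (P.cons (P.lf 0 12172 0) (P.cons (P.lf 0 5437 0) P.nil)))) (P.cons (P.cons (P.lf 0 8788470 0) (P.cons (P.lf 402230 0 0) (P.cons (P.lf 13379 0 0) P.nil))) (P.cons (P.cons (P.lf 0 166870 0) (P.cons (P.lf 47671 0 0) P.nil)) (P.cons (P.cons (P.lf 142779 0 0) P.nil) P.nil)))))) 58581)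
 (EL.cons 8 (TM.mk (P.cons (P.cons (P.lf 0 135118104 0) (P.cons (P.lf 0 2252141 0) (P.cons (P.lf 0 132612 0) (P.cons (P.lf 12664 0 0) (P.cons (P.lf 85 0 0) (P.cons (P.lf 6 0 0) P.nil)))))) (P.cons (P.cons (P.lf 27551784 0 0) (P.cons (P.lf 0 1554093 0) (P.cons (P.lf 0 99898 0) (P.cons (P.lf 7821 0 0) (P.cons (P.lf 136 0 0) P.nil))))) (P.cons (P.cons (P.lf 13036251 0 0) (P.cons (P.lf 0 213887 0) (P.cons (P.lf 0 21890 0) (P.cons (P.lf 185 0 0) P.nil)))) (P.cons (P.cons (P.lf 0 1467674 0) (P.cons (P.lf 89527 0 0) (P.cons (P.lf 1005 0 0) P.nil))) (P.cons (P.cons (P.lf 0 491784 0) (P.cons (P.lf 33246 0 0) P.nil)) (P.cons (P.cons (P.lf 0 4467 0) P.nil) P.nil)))))) 23789)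
 EL.nil))
noncomputable def S82_111_364_438_18 : EL := (EL.cons 4 (TM.mk (P.cons (P.lf 2377926426 0 0) (P.cons (P.lf 0 224771707 0) (P.cons (P.lf 0 25531065 0) (P.cons (P.lf 650420 0 0) (P.cons (P.lf 209580 0 0) (P.cons (P.lf 9701 0 0) P.nil)))))) 1817)
 (EL.cons 8 (TM.mk (P.cons (P.lf 523909239 0 0) (P.cons (P.lf 87897477 0 0) (P.cons (P.lf 0 10203278 0) (P.cons (P.lf 0 1362537 0) (P.cons (P.lf 0 9310 0) (P.cons (P.lf 8089 0 0) P.nil)))))) 965)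
 EL.nil))
noncomputable def S82_111_364_438_19 : EL := (EL.cons 4 (TM.mk (P.cons (P.cons (P.lf 0 1106127108 0) (P.cons (P.lf 0 9218433 0) (P.cons (P.lf 0 504393 0) (P.lf 56042 0 0)))) (P.cons (P.cons (P.lf 327545154 0 0) (P.cons (P.lf 0 5511161 0) (P.cons (P.lf 0 301546 0) (P.lf 33504 0 0)))) (P.cons (P.cons (P.lf 17427380 0 0) (P.cons (P.lf 0 859747 0) (P.cons (P.lf 0 47040 0) (P.lf 5226 0 0)))) (P.cons (P.cons (P.lf 0 5738925 0) (P.cons (P.lf 71197 0 0) (P.cons (P.lf 3896 0 0) P.nil))) (P.cons (P.cons (P.lf 0 507726 0) (P.cons (P.lf 29113 0 0) P.nil)) (P.cons (P.cons (P.lf 36702 0 0) P.nil) P.nil)))))) 20256)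
 (EL.cons 8 (TM.mk (P.cons (P.cons (P.lf 0 243704013 0) (P.cons (P.lf 0 2031022 0) (P.cons (P.lf 0 111129 0) (P.lf 12347 0 0)))) (P.cons (P.cons (P.lf 8242636 0 0) (P.cons (P.lf 0 1746959 0) (P.cons (P.lf 0 95586 0) (P.lf 10620 0 0)))) (P.cons (P.cons (P.lf 18855743 0 0) (P.cons (P.lf 0 540517 0) (P.cons (P.lf 0 29574 0) (P.lf 3285 0 0)))) (P.cons (P.cons (P.lf 545619 0 0) (P.cons (P.lf 0 56456 0) (P.cons (P.lf 0 3088 0) P.nil))) (P.cons (P.cons (P.lf 0 308878 0) (P.cons (P.lf 5445 0 0) P.nil)) (P.cons (P.cons (P.lf 0 29315 0) P.nil) P.nil)))))) 7251)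
 EL.nil))
noncomputable def S82_111_364_438_20 : EL := (EL.cons 4 (TM.mk (P.cons (P.cons (P.lf 514531134 0 0) (P.cons (P.lf 8576177 0 0) (P.cons (P.lf 504989 0 0) (P.cons (P.lf 0 48226 0) (P.cons (P.lf 0 327 0) (P.cons (P.lf 0 22 0) P.nil)))))) (P.cons (P.cons (P.lf 0 256089128 0) (P.cons (P.lf 3398281 0 0) (P.cons (P.lf 232046 0 0) (P.cons (P.lf 0 15613 0) (P.cons (P.lf 0 421 0) P.nil))))) (P.cons (P.cons (P.lf 10221916 0 0) (P.cons (P.lf 0 440231 0) (P.cons (P.lf 90 0 0) (P.cons (P.lf 5322 0 0) P.nil)))) (P.cons (P.cons (P.lf 8216055 0 0) (P.cons (P.lf 0 346843 0) (P.cons (P.lf 0 12774 0) P.nil))) (P.cons (P.cons (P.lf 0 69866 0) (P.cons (P.lf 0 28731 0) P.nil)) (P.cons (P.cons (P.lf 0 158850 0) P.nil) P.nil)))))) 58741)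
 (EL.cons 8 (TM.mk (P.cons (P.cons (P.lf 113362470 0 0) (P.cons (P.lf 1889519 0 0) (P.cons (P.lf 111260 0 0) (P.cons (P.lf 0 10625 0) (P.cons (P.lf 0 72 0) (P.cons (P.lf 0 5 0) P.nil)))))) (P.cons (P.cons (P.lf 0 26687451 0) (P.cons (P.lf 1244330 0 0) (P.cons (P.lf 80308 0 0) (P.cons (P.lf 0 6226 0) (P.cons (P.lf 0 111 0) P.nil))))) (P.cons (P.cons (P.lf 0 10727184 0) (P.cons (P.lf 129728 0 0) (P.cons (P.lf 15216 0 0) (P.cons (P.lf 99 0 0) P.nil)))) (P.cons (P.cons (P.lf 1660509 0 0) (P.cons (P.lf 0 87079 0) (P.cons (P.lf 0 1826 0) P.nil))) (P.cons (P.cons (P.lf 428259 0 0) (P.cons (P.lf 0 26587 0) P.nil)) (P.cons (P.cons (P.lf 0 12805 0) P.nil) P.nil)))))) 23873)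
 EL.nil))
noncomputable def S82_111_364_438_21 : EL := (EL.cons 4 (TM.mk (P.cons (P.cons (P.lf 0 1372645500 0) (P.cons (P.lf 39288630 0 0) (P.cons (P.lf 2149707 0 0) (P.lf 0 238851 0)))) (P.cons (P.cons (P.lf 0 563093835 0) (P.cons (P.lf 25964187 0 0) (P.cons (P.lf 1420650 0 0) (P.lf 0 157845 0)))) (P.cons (P.cons (P.lf 0 35797170 0) (P.cons (P.lf 5620596 0 0) (P.cons (P.lf 307530 0 0) (P.lf 0 34167 0)))) (P.cons (P.cons (P.lf 10001304 0 0) (P.cons (P.lf 265701 0 0) (P.cons (P.lf 14532 0 0) P.nil))) (P.cons (P.cons (P.lf 1333755 0 0) (P.cons (P.lf 0 60702 0) P.nil)) (P.cons (P.cons (P.lf 15078 0 0) P.nil) P.nil)))))) 42042)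
 (EL.cons 8 (TM.mk (P.cons (P.cons (P.lf 2215175889 0 0) (P.cons (P.lf 0 63404031 0) (P.cons (P.lf 0 3469215 0) (P.lf 385470 0 0)))) (P.cons (P.cons (P.lf 327688032 0 0) (P.cons (P.lf 0 25270362 0) (P.cons (P.lf 0 1382694 0) (P.lf 153633 0 0)))) (P.cons (P.cons (P.lf 0 63746151 0) (P.cons (P.lf 0 1424268 0) (P.cons (P.lf 0 77931 0) (P.lf 8661 0 0)))) (P.cons (P.cons (P.lf 0 7913769 0) (P.cons (P.lf 443022 0 0) (P.cons (P.lf 24237 0 0) P.nil))) (P.cons (P.cons (P.lf 174564 0 0) (P.cons (P.lf 49929 0 0) P.nil)) (P.cons (P.cons (P.lf 79743 0 0) P.nil) P.nil)))))) 21495)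
 (EL.cons 11 (TM.mk (P.cons (P.cons (P.lf 324574461 0 0) (P.cons (P.lf 40726293 0 0) (P.cons (P.lf 0 6217851 0) (P.cons (P.lf 0 189954 0) (P.lf 15828 0 0))))) (P.cons (P.cons (P.lf 149816106 0 0) (P.cons (P.lf 18798321 0 0) (P.cons (P.lf 0 2870016 0) (P.cons (P.lf 0 87678 0) (P.lf 7305 0 0))))) (P.cons (P.cons (P.lf 19377318 0 0) (P.cons (P.lf 2431386 0 0) (P.cons (P.lf 0 371208 0) (P.cons (P.lf 0 11340 0) P.nil)))) (P.cons (P.cons (P.lf 201810 0 0) (P.cons (P.lf 25320 0 0) (P.cons (P.lf 0 3864 0) P.nil))) (P.cons (P.cons (P.lf 0 83646 0) (P.cons (P.lf 0 10494 0) P.nil)) (P.cons (P.cons (P.lf 0 6612 0) P.nil) P.nil)))))) 4371)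
 EL.nil)))
noncomputable def S82_111_364_438_22 : EL := (EL.cons 4 (TM.mk (P.cons (P.cons (P.lf 638506044 0 0) (P.cons (P.lf 0 12954384 0) (P.cons (P.lf 0 861117 0) (P.cons (P.lf 62085 0 0) (P.cons (P.lf 1395 0 0) (P.cons (P.lf 99 0 0) P.nil)))))) (P.cons (P.cons (P.lf 133211886 0 0) (P.cons (P.lf 0 2526129 0) (P.cons (P.lf 0 344325 0) (P.cons (P.lf 0 7197 0) (P.cons (P.lf 1887 0 0) P.nil))))) (P.cons (P.cons (P.lf 0 51523902 0) (P.cons (P.lf 2812083 0 0) (P.cons (P.lf 36579 0 0) (P.cons (P.lf 0 29931 0) P.nil)))) (P.cons (P.cons (P.lf 0 14011794 0) (P.cons (P.lf 1194987 0 0) (P.cons (P.lf 29859 0 0) P.nil))) (P.cons (P.cons (P.lf 176553 0 0) (P.cons (P.lf 130884 0 0) P.nil)) (P.cons (P.cons (P.lf 301431 0 0) P.nil) P.nil)))))) 118803)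
 (EL.cons 8 (TM.mk (P.cons (P.cons (P.lf 0 1030421325 0) (P.cons (P.lf 20905803 0 0) (P.cons (P.lf 1389678 0 0) (P.cons (P.lf 0 100200 0) (P.cons (P.lf 0 2250 0) (P.cons (P.lf 0 162 0) P.nil)))))) (P.cons (P.cons (P.lf 55298577 0 0) (P.cons (P.lf 0 1406847 0) (P.cons (P.lf 191169 0 0) (P.cons (P.lf 37893 0 0) (P.cons (P.lf 0 2457 0) P.nil))))) (P.cons (P.cons (P.lf 85187868 0 0) (P.cons (P.lf 0 4504761 0) (P.cons (P.lf 0 131481 0) (P.cons (P.lf 39969 0 0) P.nil)))) (P.cons (P.cons (P.lf 883866 0 0) (P.cons (P.lf 0 754809 0) (P.cons (P.lf 0 18792 0) P.nil))) (P.cons (P.cons (P.lf 0 1828407 0) (P.cons (P.lf 58356 0 0) P.nil)) (P.cons (P.cons (P.lf 0 140286 0) P.nil) P.nil)))))) 89535)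
 (EL.cons 11 (TM.mk (P.cons (P.cons (P.lf 0 150980535 0) (P.cons (P.lf 0 20202696 0) (P.cons (P.lf 2665593 0 0) (P.cons (P.lf 111474 0 0) (P.cons (P.lf 0 4347 0) (P.cons (P.lf 0 165 0) P.nil)))))) (P.cons (P.cons (P.lf 0 39252273 0) (P.cons (P.lf 0 6377184 0) (P.cons (P.lf 490317 0 0) (P.cons (P.lf 49644 0 0) (P.cons (P.lf 1563 0 0) P.nil))))) (P.cons (P.cons (P.lf 8670054 0 0) (P.cons (P.lf 397437 0 0) (P.cons (P.lf 0 290502 0) (P.cons (P.lf 7608 0 0) P.nil)))) (P.cons (P.cons (P.lf 3329262 0 0) (P.cons (P.lf 247092 0 0) (P.cons (P.lf 0 94527 0) P.nil))) (P.cons (P.cons (P.lf 209676 0 0) (P.cons (P.lf 4581 0 0) P.nil)) (P.cons (P.cons (P.lf 0 23442 0) P.nil) P.nil)))))) 36969)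
 EL.nil)))
noncomputable def S82_111_364_438_23 : EL := (EL.cons 4 (TM.mk (P.cons (P.cons (P.lf 1151633127 0 0) (P.cons (P.lf 0 32962689 0) (P.cons (P.lf 0 1803576 0) (P.lf 200391 0 0)))) (P.cons (P.cons (P.lf 436143228 0 0) (P.cons (P.lf 0 20745048 0) (P.cons (P.lf 0 1135080 0) (P.lf 126114 0 0)))) (P.cons (P.cons (P.lf 9883191 0 0) (P.cons (P.lf 0 3878556 0) (P.cons (P.lf 0 212211 0) (P.lf 23574 0 0)))) (P.cons (P.cons (P.lf 0 11711814 0) (P.cons (P.lf 31392 0 0) (P.cons (P.lf 1722 0 0) P.nil))) (P.cons (P.cons (P.lf 0 1078566 0) (P.cons (P.lf 83529 0 0) P.nil)) (P.cons (P.cons (P.lf 56631 0 0) P.nil) P.nil)))))) 51939)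
 (EL.cons 8 (TM.mk (P.cons (P.cons (P.lf 0 1858506027 0) (P.cons (P.lf 53195220 0 0) (P.cons (P.lf 2910627 0 0) (P.lf 0 323403 0)))) (P.cons (P.cons (P.lf 0 216368370 0) (P.cons (P.lf 19525449 0 0) (P.cons (P.lf 1068354 0 0) (P.lf 0 118704 0)))) (P.cons (P.cons (P.lf 70641108 0 0) (P.cons (P.lf 283731 0 0) (P.cons (P.lf 15525 0 0) (P.lf 0 1725 0)))) (P.cons (P.cons (P.lf 6557889 0 0) (P.cons (P.lf 0 516186 0) (P.cons (P.lf 0 28239 0) P.nil))) (P.cons (P.cons (P.lf 0 551241 0) (P.cons (P.lf 0 39525 0) P.nil)) (P.cons (P.cons (P.lf 0 104037 0) P.nil) P.nil)))))) 29400)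
 (EL.cons 11 (TM.mk (P.cons (P.cons (P.lf 0 272314083 0) (P.cons (P.lf 0 34168869 0) (P.cons (P.lf 5216700 0 0) (P.cons (P.lf 159369 0 0) (P.lf 0 13278 0))))) (P.cons (P.cons (P.lf 0 117113823 0) (P.cons (P.lf 0 14694969 0) (P.cons (P.lf 2243538 0 0) (P.cons (P.lf 68538 0 0) (P.lf 0 5709 0))))) (P.cons (P.cons (P.lf 0 11052036 0) (P.cons (P.lf 0 1386762 0) (P.cons (P.lf 211719 0 0) (P.cons (P.lf 6465 0 0) P.nil)))) (P.cons (P.cons (P.lf 968331 0 0) (P.cons (P.lf 121503 0 0) (P.cons (P.lf 0 18549 0) P.nil))) (P.cons (P.cons (P.lf 172929 0 0) (P.cons (P.lf 21696 0 0) P.nil)) (P.cons (P.cons (P.lf 6825 0 0) P.nil) P.nil)))))) 8508)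
 EL.nil)))
noncomputable def S82_111_364_438_24 : EL := (EL.cons 4 (TM.mk (P.cons (P.cons (P.lf 0 535698921 0) (P.cons (P.lf 10868574 0 0) (P.cons (P.lf 722466 0 0) (P.cons (P.lf 0 52089 0) (P.cons (P.lf 0 1170 0) (P.cons (P.lf 0 84 0) P.nil)))))) (P.cons (P.cons (P.lf 0 94884330 0) (P.cons (P.lf 1776945 0 0) (P.cons (P.lf 266121 0 0) (P.cons (P.lf 7680 0 0) (P.cons (P.lf 0 1545 0) P.nil))))) (P.cons (P.cons (P.lf 49198410 0 0) (P.cons (P.lf 0 2475768 0) (P.cons (P.lf 0 43095 0) (P.cons (P.lf 25158 0 0) P.nil)))) (P.cons (P.cons (P.lf 11004540 0 0) (P.cons (P.lf 0 939960 0) (P.cons (P.lf 0 25539 0) P.nil))) (P.cons (P.cons (P.lf 0 695985 0) (P.cons (P.lf 0 67815 0) P.nil)) (P.cons (P.cons (P.lf 0 310485 0) P.nil) P.nil)))))) 115005)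
 (EL.cons 8 (TM.mk (P.cons (P.cons (P.lf 864511146 0 0) (P.cons (P.lf 0 17539719 0) (P.cons (P.lf 0 1165923 0) (P.cons (P.lf 84066 0 0) (P.cons (P.lf 1890 0 0) (P.cons (P.lf 135 0 0) P.nil)))))) (P.cons (P.cons (P.lf 0 73633932 0) (P.cons (P.lf 1732968 0 0) (P.cons (P.lf 0 123654 0) (P.cons (P.lf 0 34440 0) (P.cons (P.lf 2001 0 0) P.nil))))) (P.cons (P.cons (P.lf 0 73962036 0) (P.cons (P.lf 3822435 0 0) (P.cons (P.lf 120696 0 0) (P.cons (P.lf 0 32916 0) P.nil)))) (P.cons (P.cons (P.lf 1561260 0 0) (P.cons (P.lf 512067 0 0) (P.cons (P.lf 13242 0 0) P.nil))) (P.cons (P.cons (P.lf 1893867 0 0) (P.cons (P.lf 0 86433 0) P.nil)) (P.cons (P.cons (P.lf 86523 0 0) P.nil) P.nil)))))) 89274)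
 (EL.cons 11 (TM.mk (P.cons (P.cons (P.lf 126670860 0 0) (P.cons (P.lf 16949820 0 0) (P.cons (P.lf 0 2236401 0) (P.cons (P.lf 0 93525 0) (P.cons (P.lf 3645 0 0) (P.cons (P.lf 138 0 0) P.nil)))))) (P.cons (P.cons (P.lf 28941030 0 0) (P.cons (P.lf 4816326 0 0) (P.cons (P.lf 0 340905 0) (P.cons (P.lf 0 38703 0) (P.cons (P.lf 0 1428 0) P.nil))))) (P.cons (P.cons (P.lf 0 8890797 0) (P.cons (P.lf 0 579513 0) (P.cons (P.lf 266913 0 0) (P.cons (P.lf 0 4644 0) P.nil)))) (P.cons (P.cons (P.lf 0 2738196 0) (P.cons (P.lf 0 224421 0) (P.cons (P.lf 73926 0 0) P.nil))) (P.cons (P.cons (P.lf 0 60633 0) (P.cons (P.lf 3234 0 0) P.nil)) (P.cons (P.cons (P.lf 39450 0 0) P.nil) P.nil)))))) 36240)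
 EL.nil)))
noncomputable def S82_111_364_438_25 : EL := (EL.cons 4 (TM.mk (P.cons (P.cons (P.lf 0 966206394 0) (P.cons (P.lf 27655299 0 0) (P.cons (P.lf 1513179 0 0) (P.lf 0 168126 0)))) (P.cons (P.cons (P.lf 0 335475630 0) (P.cons (P.lf 16533483 0 0) (P.cons (P.lf 904641 0 0) (P.lf 0 100512 0)))) (P.cons (P.cons (P.lf 7654686 0 0) (P.cons (P.lf 2579238 0 0) (P.cons (P.lf 141120 0 0) (P.lf 0 15678 0)))) (P.cons (P.cons (P.lf 11940375 0 0) (P.cons (P.lf 0 213594 0) (P.cons (P.lf 0 11691 0) P.nil))) (P.cons (P.cons (P.lf 700227 0 0) (P.cons (P.lf 0 87336 0) P.nil)) (P.cons (P.cons (P.lf 0 120420 0) P.nil) P.nil)))))) 54849)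
 (EL.cons 8 (TM.mk (P.cons (P.cons (P.lf 1559264289 0 0) (P.cons (P.lf 0 44630154 0) (P.cons (P.lf 0 2441982 0) (P.lf 271332 0 0)))) (P.cons (P.cons (P.lf 132401040 0 0) (P.cons (P.lf 0 14975409 0) (P.cons (P.lf 0 819393 0) (P.lf 91044 0 0)))) (P.cons (P.cons (P.lf 0 72115143 0) (P.cons (P.lf 482136 0 0) (P.cons (P.lf 26379 0 0) (P.lf 0 2928 0)))) (P.cons (P.cons (P.lf 0 4755276 0) (P.cons (P.lf 523788 0 0) (P.cons (P.lf 28656 0 0) P.nil))) (P.cons (P.cons (P.lf 874908 0 0) (P.cons (P.lf 23604 0 0) P.nil)) (P.cons (P.cons (P.lf 110052 0 0) P.nil) P.nil)))))) 34143)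
 (EL.cons 11 (TM.mk (P.cons (P.cons (P.lf 228468252 0 0) (P.cons (P.lf 28667274 0 0) (P.cons (P.lf 0 4376748 0) (P.cons (P.lf 0 133707 0) (P.lf 11139 0 0))))) (P.cons (P.cons (P.lf 91058496 0 0) (P.cons (P.lf 11425653 0 0) (P.cons (P.lf 0 1744398 0) (P.cons (P.lf 0 53289 0) (P.lf 4437 0 0))))) (P.cons (P.cons (P.lf 5132154 0 0) (P.cons (P.lf 643959 0 0) (P.cons (P.lf 0 98313 0) (P.cons (P.lf 0 3003 0) P.nil)))) (P.cons (P.cons (P.lf 0 1596384 0) (P.cons (P.lf 0 200307 0) (P.cons (P.lf 30582 0 0) P.nil))) (P.cons (P.cons (P.lf 0 179913 0) (P.cons (P.lf 0 22572 0) P.nil)) (P.cons (P.cons (P.lf 1086 0 0) P.nil) P.nil)))))) 10917)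
 EL.nil)))
noncomputable def S82_111_364_438_26 : EL := (EL.cons 4 (TM.mk (P.cons (P.cons (P.lf 449444976 0 0) (P.cons (P.lf 0 9118602 0) (P.cons (P.lf 0 606141 0) (P.cons (P.lf 43701 0 0) (P.cons (P.lf 981 0 0) (P.cons (P.lf 69 0 0) P.nil)))))) (P.cons (P.cons (P.lf 65445666 0 0) (P.cons (P.lf 0 1203525 0) (P.cons (P.lf 0 204174 0) (P.cons (P.lf 0 7818 0) (P.cons (P.lf 1266 0 0) P.nil))))) (P.cons (P.cons (P.lf 0 45839844 0) (P.cons (P.lf 2165802 0 0) (P.cons (P.lf 45960 0 0) (P.cons (P.lf 0 21105 0) P.nil)))) (P.cons (P.cons (P.lf 0 8379873 0) (P.cons (P.lf 731685 0 0) (P.cons (P.lf 21423 0 0) P.nil))) (P.cons (P.cons (P.lf 1049253 0 0) (P.cons (P.lf 22818 0 0) P.nil)) (P.cons (P.cons (P.lf 292362 0 0) P.nil) P.nil)))))) 109023)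
 (EL.cons 8 (TM.mk (P.cons (P.cons (P.lf 0 725314491 0) (P.cons (P.lf 14715612 0 0) (P.cons (P.lf 978195 0 0) (P.cons (P.lf 0 70530 0) (P.cons (P.lf 0 1584 0) (P.cons (P.lf 0 114 0) P.nil)))))) (P.cons (P.cons (P.lf 84631257 0 0) (P.cons (P.lf 0 1917600 0) (P.cons (P.lf 72921 0 0) (P.cons (P.lf 31119 0 0) (P.cons (P.lf 0 1629 0) P.nil))))) (P.cons (P.cons (P.lf 63422646 0 0) (P.cons (P.lf 0 3228441 0) (P.cons (P.lf 0 109002 0) (P.cons (P.lf 27027 0 0) P.nil)))) (P.cons (P.cons (P.lf 0 3412224 0) (P.cons (P.lf 0 324669 0) (P.cons (P.lf 0 8574 0) P.nil))) (P.cons (P.cons (P.lf 0 1843785 0) (P.cons (P.lf 101004 0 0) P.nil)) (P.cons (P.cons (P.lf 0 28455 0) P.nil) P.nil)))))) 86433)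
 (EL.cons 11 (TM.mk (P.cons (P.cons (P.lf 0 106275333 0) (P.cons (P.lf 0 14220693 0) (P.cons (P.lf 1876314 0 0) (P.cons (P.lf 78465 0 0) (P.cons (P.lf 0 3060 0) (P.cons (P.lf 0 117 0) P.nil)))))) (P.cons (P.cons (P.lf 0 20932644 0) (P.cons (P.lf 0 3592773 0) (P.cons (P.lf 226896 0 0) (P.cons (P.lf 30000 0 0) (P.cons (P.lf 1293 0 0) P.nil))))) (P.cons (P.cons (P.lf 8710179 0 0) (P.cons (P.lf 678537 0 0) (P.cons (P.lf 0 241527 0) (P.cons (P.lf 2514 0 0) P.nil)))) (P.cons (P.cons (P.lf 2193111 0 0) (P.cons (P.lf 194094 0 0) (P.cons (P.lf 0 56625 0) P.nil))) (P.cons (P.cons (P.lf 0 51219 0) (P.cons (P.lf 0 10131 0) P.nil)) (P.cons (P.cons (P.lf 0 46686 0) P.nil) P.nil)))))) 34518)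
 EL.nil)))
noncomputable def S82_111_364_438_27 : EL := (EL.cons 13 (TM.mk (P.lf 0 4294967296 0) 0)
 EL.nil)
noncomputable def S82_111_364_438_28 : EL := (EL.cons 13 (TM.mk (P.cons (P.cons (P.lf 1997866590 0 0) (P.cons (P.lf 16650168 0 0) (P.cons (P.lf 911028 0 0) (P.lf 0 101224 0)))) (P.cons (P.cons (P.lf 0 402759241 0) (P.cons (P.lf 11528004 0 0) (P.cons (P.lf 630764 0 0) (P.lf 0 70084 0)))) (P.cons (P.cons (P.lf 0 48097052 0) (P.cons (P.lf 2821304 0 0) (P.cons (P.lf 154368 0 0) (P.lf 0 17152 0)))) (P.cons (P.cons (P.lf 948437 0 0) (P.cons (P.lf 257304 0 0) (P.cons (P.lf 14076 0 0) P.nil))) (P.cons (P.cons (P.lf 424375 0 0) (P.cons (P.lf 0 2592 0) P.nil)) (P.cons (P.cons (P.lf 24508 0 0) P.nil) P.nil)))))) 8565)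
 EL.nil)
noncomputable def S82_111_364_438_29 : EL := (EL.cons 13 (TM.mk (P.cons (P.cons (P.lf 0 929336741 0) (P.cons (P.lf 0 15490136 0) (P.cons (P.lf 0 912103 0) (P.cons (P.lf 87108 0 0) (P.cons (P.lf 591 0 0) (P.cons (P.lf 42 0 0) P.nil)))))) (P.cons (P.cons (P.lf 374698653 0 0) (P.cons (P.lf 0 7602109 0) (P.cons (P.lf 0 505335 0) (P.cons (P.lf 36435 0 0) (P.cons (P.lf 819 0 0) P.nil))))) (P.cons (P.cons (P.lf 6977464 0 0) (P.cons (P.lf 0 89758 0) (P.cons (P.lf 0 57725 0) (P.cons (P.lf 0 5234 0) P.nil)))) (P.cons (P.cons (P.lf 0 9902931 0) (P.cons (P.lf 540594 0 0) (P.cons (P.lf 12441 0 0) P.nil))) (P.cons (P.cons (P.lf 0 755542 0) (P.cons (P.lf 105475 0 0) P.nil)) (P.cons (P.cons (P.lf 78032 0 0) P.nil) P.nil)))))) 55462)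
 EL.nil)
noncomputable def S82_111_364_438_30 : EL := (EL.cons 13 (TM.mk (P.cons (P.lf 3603426100 0 0) (P.cons (P.lf 0 113537048 0) (P.cons (P.lf 0 16473628 0) (P.cons (P.lf 0 671992 0) (P.cons (P.lf 4560 0 0) (P.cons (P.lf 2084 0 0) P.nil)))))) 368)
 EL.nil)
noncomputable def S82_111_364_438_31 : EL := (EL.cons 13 (TM.mk (P.cons (P.cons (P.lf 0 1676186131 0) (P.cons (P.lf 0 13969291 0) (P.cons (P.lf 0 764341 0) (P.lf 84925 0 0)))) (P.cons (P.cons (P.lf 390723588 0 0) (P.cons (P.lf 0 9231711 0) (P.cons (P.lf 0 505120 0) (P.lf 56123 0 0)))) (P.cons (P.cons (P.lf 37368896 0 0) (P.cons (P.lf 0 1998435 0) (P.cons (P.lf 0 109344 0) (P.lf 12149 0 0)))) (P.cons (P.cons (P.lf 0 3299390 0) (P.cons (P.lf 0 94472 0) (P.cons (P.lf 0 5167 0) P.nil))) (P.cons (P.cons (P.lf 0 580590 0) (P.cons (P.lf 21583 0 0) P.nil)) (P.cons (P.cons (P.lf 0 13772 0) P.nil) P.nil)))))) 14080)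
 EL.nil)
noncomputable def S82_111_364_438_32 : EL := (EL.cons 13 (TM.mk (P.cons (P.cons (P.lf 779702390 0 0) (P.cons (P.lf 12996038 0 0) (P.cons (P.lf 765243 0 0) (P.cons (P.lf 0 73082 0) (P.cons (P.lf 0 495 0) (P.cons (P.lf 0 35 0) P.nil)))))) (P.cons (P.cons (P.lf 0 338934607 0) (P.cons (P.lf 5968598 0 0) (P.cons (P.lf 399858 0 0) (P.cons (P.lf 0 28265 0) (P.cons (P.lf 0 671 0) P.nil))))) (P.cons (P.cons (P.lf 486582 0 0) (P.cons (P.lf 0 185068 0) (P.cons (P.lf 31573 0 0) (P.cons (P.lf 5688 0 0) P.nil)))) (P.cons (P.cons (P.lf 9784665 0 0) (P.cons (P.lf 0 487506 0) (P.cons (P.lf 0 14044 0) P.nil))) (P.cons (P.cons (P.lf 458482 0 0) (P.cons (P.lf 0 75718 0) P.nil)) (P.cons (P.cons (P.lf 0 122279 0) P.nil) P.nil)))))) 61945)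
 EL.nil)
noncomputable def S82_111_364_438_33 : EL := (EL.cons 14 (TM.mk (P.lf 8589934592 0 0) 0)
 EL.nil)
noncomputable def S82_111_364_438_34 : EL := (EL.cons 14 (TM.mk (P.cons (P.cons (P.lf 0 3995733180 0) (P.cons (P.lf 0 33300336 0) (P.cons (P.lf 0 1822056 0) (P.lf 202448 0 0)))) (P.cons (P.cons (P.lf 805518482 0 0) (P.cons (P.lf 0 23056008 0) (P.cons (P.lf 0 1261528 0) (P.lf 140168 0 0)))) (P.cons (P.cons (P.lf 96194104 0 0) (P.cons (P.lf 0 5642608 0) (P.cons (P.lf 0 308736 0) (P.lf 34304 0 0)))) (P.cons (P.cons (P.lf 0 1896874 0) (P.cons (P.lf 0 514608 0) (P.cons (P.lf 0 28152 0) P.nil))) (P.cons (P.cons (P.lf 0 848750 0) (P.cons (P.lf 5184 0 0) P.nil)) (P.cons (P.cons (P.lf 0 49016 0) P.nil) P.nil)))))) 17130)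
 EL.nil)
noncomputable def S82_111_364_438_35 : EL := (EL.cons 14 (TM.mk (P.cons (P.cons (P.lf 1858673482 0 0) (P.cons (P.lf 30980272 0 0) (P.cons (P.lf 1824206 0 0) (P.cons (P.lf 0 174216 0) (P.cons (P.lf 0 1182 0) (P.cons (P.lf 0 84 0) P.nil)))))) (P.cons (P.cons (P.lf 0 749397306 0) (P.cons (P.lf 15204218 0 0) (P.cons (P.lf 1010670 0 0) (P.cons (P.lf 0 72870 0) (P.cons (P.lf 0 1638 0) P.nil))))) (P.cons (P.cons (P.lf 0 13954928 0) (P.cons (P.lf 179516 0 0) (P.cons (P.lf 115450 0 0) (P.cons (P.lf 10468 0 0) P.nil)))) (P.cons (P.cons (P.lf 19805862 0 0) (P.cons (P.lf 0 1081188 0) (P.cons (P.lf 0 24882 0) P.nil))) (P.cons (P.cons (P.lf 1511084 0 0) (P.cons (P.lf 0 210950 0) P.nil)) (P.cons (P.cons (P.lf 0 156064 0) P.nil) P.nil)))))) 110924)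
 EL.nil)
noncomputable def S82_111_364_438_36 : EL := (EL.cons 14 (TM.mk (P.cons (P.lf 0 7206852200 0) (P.cons (P.lf 227074096 0 0) (P.cons (P.lf 32947256 0 0) (P.cons (P.lf 1343984 0 0) (P.cons (P.lf 0 9120 0) (P.cons (P.lf 0 4168 0) P.nil)))))) 736)
 EL.nil)
noncomputable def S82_111_364_438_37 : EL := (EL.cons 14 (TM.mk (P.cons (P.cons (P.lf 3352372262 0 0) (P.cons (P.lf 27938582 0 0) (P.cons (P.lf 1528682 0 0) (P.lf 0 169850 0)))) (P.cons (P.cons (P.lf 0 781447176 0) (P.cons (P.lf 18463422 0 0) (P.cons (P.lf 1010240 0 0) (P.lf 0 112246 0)))) (P.cons (P.cons (P.lf 0 74737792 0) (P.cons (P.lf 3996870 0 0) (P.cons (P.lf 218688 0 0) (P.lf 0 24298 0)))) (P.cons (P.cons (P.lf 6598780 0 0) (P.cons (P.lf 188944 0 0) (P.cons (P.lf 10334 0 0) P.nil))) (P.cons (P.cons (P.lf 1161180 0 0) (P.cons (P.lf 0 43166 0) P.nil)) (P.cons (P.cons (P.lf 27544 0 0) P.nil) P.nil))))))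 28160)
 EL.nil)
noncomputable def S82_111_364_438_38 : EL := (EL.cons 14 (TM.mk (P.cons (P.cons (P.lf 0 1559404780 0) (P.cons (P.lf 0 25992076 0) (P.cons (P.lf 0 1530486 0) (P.cons (P.lf 146164 0 0) (P.cons (P.lf 990 0 0) (P.cons (P.lf 70 0 0) P.nil)))))) (P.cons (P.cons (P.lf 677869214 0 0) (P.cons (P.lf 0 11937196 0) (P.cons (P.lf 0 799716 0) (P.cons (P.lf 56530 0 0) (P.cons (P.lf 1342 0 0) P.nil))))) (P.cons (P.cons (P.lf 0 973164 0) (P.cons (P.lf 370136 0 0) (P.cons (P.lf 0 63146 0) (P.cons (P.lf 0 11376 0) P.nil)))) (P.cons (P.cons (P.lf 0 19569330 0) (P.cons (P.lf 975012 0 0) (P.cons (P.lf 28088 0 0) P.nil))) (P.cons (P.cons (P.lf 0 916964 0) (P.cons (P.lf 151436 0 0) P.nil)) (P.cons (P.cons (P.lf 244558 0 0) P.nil) P.nil)))))) 123890)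
 EL.nil)
noncomputable def S82_111_364_438_39 : EL := (EL.cons 14 (TM.mk (P.cons (P.lf 6046462644 0 0) (P.cons (P.lf 0 381024890 0) (P.cons (P.lf 0 49282024 0) (P.cons (P.lf 0 513256 0) (P.cons (P.lf 212730 0 0) (P.cons (P.lf 16820 0 0) P.nil)))))) 1830)
 EL.nil)
noncomputable def S82_111_364_438_40 : EL := (EL.cons 14 (TM.mk (P.cons (P.cons (P.lf 0 2812600160 0) (P.cons (P.lf 0 23440136 0) (P.cons (P.lf 0 1282546 0) (P.lf 142502 0 0)))) (P.cons (P.cons (P.lf 744244456 0 0) (P.cons (P.lf 0 14752036 0) (P.cons (P.lf 0 807168 0) (P.lf 89684 0 0)))) (P.cons (P.cons (P.lf 54904874 0 0) (P.cons (P.lf 0 2758088 0) (P.cons (P.lf 0 150908 0) (P.lf 16766 0 0)))) (P.cons (P.cons (P.lf 0 9984764 0) (P.cons (P.lf 22322 0 0) (P.cons (P.lf 1224 0 0) P.nil))) (P.cons (P.cons (P.lf 0 1212264 0) (P.cons (P.lf 59400 0 0) P.nil)) (P.cons (P.cons (P.lf 20404 0 0) P.nil) P.nil))))))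 36076)
 EL.nil)
noncomputable def S82_111_364_438_41 : EL := (EL.cons 14 (TM.mk (P.cons (P.cons (P.lf 1308321926 0 0) (P.cons (P.lf 21807040 0 0) (P.cons (P.lf 1284060 0 0) (P.cons (P.lf 0 122630 0) (P.cons (P.lf 0 832 0) (P.cons (P.lf 0 58 0) P.nil)))))) (P.cons (P.cons (P.lf 0 609946864 0) (P.cons (P.lf 9328066 0 0) (P.cons (P.lf 630494 0 0) (P.cons (P.lf 0 43564 0) (P.cons (P.lf 0 1100 0) P.nil))))) (P.cons (P.cons (P.lf 12754680 0 0) (P.cons (P.lf 0 725792 0) (P.cons (P.lf 25968 0 0) (P.cons (P.lf 11600 0 0) P.nil)))) (P.cons (P.cons (P.lf 18748736 0 0) (P.cons (P.lf 0 858092 0) (P.cons (P.lf 0 28542 0) P.nil))) (P.cons (P.cons (P.lf 355990 0 0) (P.cons (P.lf 0 101700 0) P.nil)) (P.cons (P.cons (P.lf 0 304596 0) P.nil) P.nil)))))) 124926)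
 EL.nil)
noncomputable def S82_111_364_438_42 : EL := (EL.cons 14 (TM.mk (P.cons (P.lf 0 5072909710 0) (P.cons (P.lf 479512976 0 0) (P.cons (P.lf 54466274 0 0) (P.cons (P.lf 0 1387564 0) (P.cons (P.lf 0 447104 0) (P.cons (P.lf 0 20696 0) P.nil)))))) 3862)
 EL.nil)
noncomputable def S82_111_364_438_43 : EL := (EL.cons 14 (TM.mk (P.cons (P.cons (P.lf 2359737832 0 0) (P.cons (P.lf 19665992 0 0) (P.cons (P.lf 1076040 0 0) (P.lf 0 119558 0)))) (P.cons (P.cons (P.lf 0 698762996 0) (P.cons (P.lf 11757144 0 0) (P.cons (P.lf 643300 0 0) (P.lf 0 71476 0)))) (P.cons (P.cons (P.lf 0 37178412 0) (P.cons (P.lf 1834128 0 0) (P.cons (P.lf 100352 0 0) (P.lf 0 11150 0)))) (P.cons (P.cons (P.lf 12243040 0 0) (P.cons (P.lf 0 151888 0) (P.cons (P.lf 0 8312 0) P.nil))) (P.cons (P.cons (P.lf 1083150 0 0) (P.cons (P.lf 0 62108 0) P.nil)) (P.cons (P.cons (P.lf 0 78298 0) P.nil) P.nil))))))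 43174)
 EL.nil)
noncomputable def S82_111_364_438_44 : EL := (EL.cons 14 (TM.mk (P.cons (P.cons (P.lf 0 1097666420 0) (P.cons (P.lf 0 18295846 0) (P.cons (P.lf 0 1077310 0) (P.cons (P.lf 102884 0 0) (P.cons (P.lf 698 0 0) (P.cons (P.lf 48 0 0) P.nil)))))) (P.cons (P.cons (P.lf 546323474 0 0) (P.cons (P.lf 0 7249668 0) (P.cons (P.lf 0 495032 0) (P.cons (P.lf 33308 0 0) (P.cons (P.lf 900 0 0) P.nil))))) (P.cons (P.cons (P.lf 0 21806756 0) (P.cons (P.lf 939160 0 0) (P.cons (P.lf 0 194 0) (P.cons (P.lf 0 11354 0) P.nil)))) (P.cons (P.cons (P.lf 0 17527586 0) (P.cons (P.lf 739932 0 0) (P.cons (P.lf 27252 0 0) P.nil))) (P.cons (P.cons (P.lf 149048 0 0) (P.cons (P.lf 61294 0 0) P.nil)) (P.cons (P.cons (P.lf 338882 0 0) P.nil) P.nil)))))) 125268)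
 EL.nil)
noncomputable def S82_111_364_438_45 : EL := (EL.cons 14 (TM.mk (P.cons (P.cons (P.lf 0 864589040 0) (P.cons (P.lf 0 21616386 0) (P.cons (P.lf 0 1362908 0) (P.cons (P.lf 111200 0 0) (P.cons (P.lf 1568 0 0) (P.cons (P.lf 122 0 0) P.nil)))))) (P.cons (P.cons (P.lf 522889606 0 0) (P.cons (P.lf 0 6250946 0) (P.cons (P.lf 0 555166 0) (P.cons (P.lf 13636 0 0) (P.cons (P.lf 1782 0 0) P.nil))))) (P.cons (P.cons (P.lf 0 42968868 0) (P.cons (P.lf 2533796 0 0) (P.cons (P.lf 45858 0 0) (P.cons (P.lf 0 26530 0) P.nil)))) (P.cons (P.cons (P.lf 0 19324146 0) (P.cons (P.lf 1024780 0 0) (P.cons (P.lf 43872 0 0) P.nil))) (P.cons (P.cons (P.lf 979946 0 0) (P.cons (P.lf 0 11504 0) P.nil)) (P.cons (P.cons (P.lf 502612 0 0) P.nil) P.nil)))))) 202468)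
 EL.nil)
noncomputable def S82_111_364_438_46 : EL := (EL.cons 15 (TM.mk (P.lf 4294967296 0 0) 0)
 EL.nil)
noncomputable def S82_111_364_438_47 : EL := (EL.cons 15 (TM.mk (P.cons (P.cons (P.lf 0 1997866590 0) (P.cons (P.lf 0 16650168 0) (P.cons (P.lf 0 911028 0) (P.lf 101224 0 0)))) (P.cons (P.cons (P.lf 402759241 0 0) (P.cons (P.lf 0 11528004 0) (P.cons (P.lf 0 630764 0) (P.lf 70084 0 0)))) (P.cons (P.cons (P.lf 48097052 0 0) (P.cons (P.lf 0 2821304 0) (P.cons (P.lf 0 154368 0) (P.lf 17152 0 0)))) (P.cons (P.cons (P.lf 0 948437 0) (P.cons (P.lf 0 257304 0) (P.cons (P.lf 0 14076 0) P.nil))) (P.cons (P.cons (P.lf 0 424375 0) (P.cons (P.lf 2592 0 0) P.nil)) (P.cons (P.cons (P.lf 0 24508 0) P.nil) P.nil)))))) 8565)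
 EL.nil)
noncomputable def S82_111_364_438_48 : EL := (EL.cons 15 (TM.mk (P.cons (P.cons (P.lf 929336741 0 0) (P.cons (P.lf 15490136 0 0) (P.cons (P.lf 912103 0 0) (P.cons (P.lf 0 87108 0) (P.cons (P.lf 0 591 0) (P.cons (P.lf 0 42 0) P.nil)))))) (P.cons (P.cons (P.lf 0 374698653 0) (P.cons (P.lf 7602109 0 0) (P.cons (P.lf 505335 0 0) (P.cons (P.lf 0 36435 0) (P.cons (P.lf 0 819 0) P.nil))))) (P.cons (P.cons (P.lf 0 6977464 0) (P.cons (P.lf 89758 0 0) (P.cons (P.lf 57725 0 0) (P.cons (P.lf 5234 0 0) P.nil)))) (P.cons (P.cons (P.lf 9902931 0 0) (P.cons (P.lf 0 540594 0) (P.cons (P.lf 0 12441 0) P.nil))) (P.cons (P.cons (P.lf 755542 0 0) (P.cons (P.lf 0 105475 0) P.nil)) (P.cons (P.cons (P.lf 0 78032 0) P.nil) P.nil)))))) 55462)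
 EL.nil)
noncomputable def S82_111_364_438 : SL := (SL.cons S82_111_364_438_0 (SL.cons S82_111_364_438_1 (SL.cons S82_111_364_438_2 (SL.cons S82_111_364_438_3 (SL.cons S82_111_364_438_4 (SL.cons S82_111_364_438_5 (SL.cons S82_111_364_438_6 (SL.cons S82_111_364_438_7 (SL.cons S82_111_364_438_8 (SL.cons S82_111_364_438_9 (SL.cons S82_111_364_438_10 (SL.cons S82_111_364_438_11 (SL.cons S82_111_364_438_12 (SL.cons S82_111_364_438_13 (SL.cons S82_111_364_438_14 (SL.cons S82_111_364_438_15 (SL.cons S82_111_364_438_16 (SL.cons S82_111_364_438_17 (SL.cons S82_111_364_438_18 (SL.cons S82_111_364_438_19 (SL.cons S82_111_364_438_20 (SL.cons S82_111_364_438_21 (SL.cons S82_111_364_438_22 (SL.cons S82_111_364_438_23 (SL.cons S82_111_364_438_24 (SL.cons S82_111_364_438_25 (SL.cons S82_111_364_438_26 (SL.cons S82_111_364_438_27 (SL.cons S82_111_364_438_28 (SL.cons S82_111_364_438_29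 (SL.cons S82_111_364_438_30 (SL.cons S82_111_364_438_31 (SL.cons S82_111_364_438_32 (SL.cons S82_111_364_438_33 (SL.cons S82_111_364_438_34 (SL.cons S82_111_364_438_35 (SL.cons S82_111_364_438_36 (SL.cons S82_111_364_438_37 (SL.cons S82_111_364_438_38 (SL.cons S82_111_364_438_39 (SL.cons S82_111_364_438_40 (SL.cons S82_111_364_438_41 (SL.cons S82_111_364_438_42 (SL.cons S82_111_364_438_43 (SL.cons S82_111_364_438_44 (SL.cons S82_111_364_438_45 (SL.cons S82_111_364_438_46 (SL.cons S82_111_364_438_47 (SL.cons S82_111_364_438_48 SL.nil)))))))))))))))))))))))))))))))))))))))))))))))))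
noncomputable def S82_111_364_512_0 : EL := (EL.cons 0 (TM.mk (P.cons (P.lf 3141443055 0 0) (P.cons (P.lf 334885157 0 0) (P.cons (P.lf 43314278 0 0) (P.cons (P.lf 451103 0 0) (P.cons (P.lf 0 186969 0) (P.cons (P.lf 0 14783 0) P.nil)))))) 1615)
 (EL.cons 1 (TM.mk (P.cons (P.lf 0 1170850837 0) (P.cons (P.lf 0 233327645 0) (P.cons (P.lf 10098210 0 0) (P.cons (P.lf 2078180 0 0) (P.cons (P.lf 90420 0 0) (P.cons (P.lf 0 2872 0) P.nil)))))) 983)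
 (EL.cons 5 (TM.mk (P.cons (P.lf 6184486878 0 0) (P.cons (P.lf 0 119070280 0) (P.cons (P.lf 0 15400634 0) (P.cons (P.lf 0 160396 0) (P.cons (P.lf 66480 0 0) (P.cons (P.lf 5256 0 0) P.nil)))))) 413)
 (EL.cons 9 (TM.mk (P.lf 6442450944 0 0) 2)
 EL.nil))))
noncomputable def S82_111_364_512_1 : EL := (EL.cons 0 (TM.mk (P.cons (P.cons (P.lf 0 3568559722 0) (P.cons (P.lf 108304682 0 0) (P.cons (P.lf 7240984 0 0) (P.lf 0 2413654 0)))) (P.cons (P.cons (P.lf 0 648371961 0) (P.cons (P.lf 63653378 0 0) (P.cons (P.lf 4255705 0 0) (P.lf 0 1418562 0)))) (P.cons (P.cons (P.lf 32247271 0 0) (P.cons (P.lf 9039355 0 0) (P.cons (P.lf 604332 0 0) (P.lf 0 201441 0)))) (P.cons (P.cons (P.lf 28254593 0 0) (P.cons (P.lf 0 1276792 0) (P.cons (P.lf 0 85372 0) P.nil))) (P.cons (P.cons (P.lf 2038638 0 0) (P.cons (P.lf 0 444612 0) P.nil)) (P.cons (P.cons (P.lf 0 187554 0) P.nil) P.nil))))))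 367997)
 (EL.cons 1 (TM.mk (P.cons (P.cons (P.lf 2008719228 0 0) (P.cons (P.lf 0 84072108 0) (P.cons (P.lf 0 5620870 0) (P.lf 1873623 0 0)))) (P.cons (P.cons (P.lf 40520438 0 0) (P.cons (P.lf 0 17867539 0) (P.cons (P.lf 0 1194585 0) (P.lf 398197 0 0)))) (P.cons (P.cons (P.lf 0 132128436 0) (P.cons (P.lf 6819065 0 0) (P.cons (P.lf 455904 0 0) (P.lf 0 151963 0)))) (P.cons (P.cons (P.lf 0 7430984 0) (P.cons (P.lf 2083212 0 0) (P.cons (P.lf 139269 0 0) P.nil))) (P.cons (P.cons (P.lf 1652100 0 0) (P.cons (P.lf 84739 0 0) P.nil)) (P.cons (P.cons (P.lf 215275 0 0) P.nil) P.nil)))))) 150001)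
 (EL.cons 5 (TM.mk (P.cons (P.cons (P.lf 0 2157233935 0) (P.cons (P.lf 0 100281426 0) (P.cons (P.lf 0 6704580 0) (P.lf 2234854 0 0)))) (P.cons (P.cons (P.lf 894672207 0 0) (P.cons (P.lf 0 65401872 0) (P.cons (P.lf 0 4372610 0) (P.lf 1457538 0 0)))) (P.cons (P.cons (P.lf 65269806 0 0) (P.cons (P.lf 0 13681200 0) (P.cons (P.lf 0 914686 0) (P.lf 304896 0 0)))) (P.cons (P.cons (P.lf 0 12117107 0) (P.cons (P.lf 0 500658 0) (P.cons (P.lf 0 33474 0) P.nil))) (P.cons (P.cons (P.lf 0 1441670 0) (P.cons (P.lf 167708 0 0) P.nil)) (P.cons (P.cons (P.lf 28584 0 0) P.nil) P.nil)))))) 115798)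
 (EL.cons 9 (TM.mk (P.cons (P.cons (P.lf 0 3022989849 0) (P.cons (P.lf 0 54505668 0) (P.cons (P.lf 0 3644118 0) (P.lf 1214706 0 0)))) (P.cons (P.cons (P.lf 586005835 0 0) (P.cons (P.lf 0 37737840 0) (P.cons (P.lf 0 2523060 0) (P.lf 841020 0 0)))) (P.cons (P.cons (P.lf 67707786 0 0) (P.cons (P.lf 0 9235764 0) (P.cons (P.lf 0 617478 0) (P.lf 205824 0 0)))) (P.cons (P.cons (P.lf 0 1827385 0) (P.cons (P.lf 0 842310 0) (P.cons (P.lf 0 56310 0) P.nil))) (P.cons (P.cons (P.lf 0 632482 0) (P.cons (P.lf 8490 0 0) P.nil)) (P.cons (P.cons (P.lf 0 33612 0) P.nil) P.nil)))))) 37130)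
 (EL.cons 2 (TM.mk (P.cons (P.cons (P.lf 282300150 0 0) (P.cons (P.lf 43707150 0 0) (P.cons (P.lf 0 21056726 0) (P.cons (P.lf 0 796845 0) (P.lf 199209 0 0))))) (P.cons (P.cons (P.lf 121408520 0 0) (P.cons (P.lf 18797087 0 0) (P.cons (P.lf 0 9055842 0) (P.cons (P.lf 0 342697 0) (P.lf 85671 0 0))))) (P.cons (P.cons (P.lf 11457326 0 0) (P.cons (P.lf 1773877 0 0) (P.cons (P.lf 0 854597 0) (P.cons (P.lf 0 32338 0) P.nil)))) (P.cons (P.cons (P.lf 0 1003840 0) (P.cons (P.lf 0 155421 0) (P.cons (P.lf 74877 0 0) P.nil))) (P.cons (P.cons (P.lf 0 179271 0) (P.cons (P.lf 0 27753 0) P.nil)) (P.cons (P.cons (P.lf 0 7073 0) P.nil) P.nil)))))) 39044)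
 (EL.cons 6 (TM.mk (P.cons (P.cons (P.lf 62196900 0 0) (P.cons (P.lf 9629640 0 0) (P.cons (P.lf 0 4639257 0) (P.cons (P.lf 0 175563 0) (P.lf 43890 0 0))))) (P.cons (P.cons (P.lf 43062990 0 0) (P.cons (P.lf 6667230 0 0) (P.cons (P.lf 0 3212061 0) (P.cons (P.lf 0 121551 0) (P.lf 30387 0 0))))) (P.cons (P.cons (P.lf 10539018 0 0) (P.cons (P.lf 1631703 0 0) (P.cons (P.lf 0 786102 0) (P.cons (P.lf 0 29748 0) P.nil)))) (P.cons (P.cons (P.lf 961173 0 0) (P.cons (P.lf 148812 0 0) (P.cons (P.lf 0 71691 0) P.nil))) (P.cons (P.cons (P.lf 0 9687 0) (P.cons (P.lf 0 1497 0) P.nil)) (P.cons (P.cons (P.lf 0 7485 0) P.nil) P.nil)))))) 17754)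
 EL.nil))))))
noncomputable def S82_111_364_512_2 : EL := (EL.cons 0 (TM.mk (P.cons (P.cons (P.lf 2657276781 0 0) (P.cons (P.lf 0 66198957 0) (P.cons (P.lf 0 6483356 0) (P.cons (P.lf 1200183 0 0) (P.cons (P.lf 82500 0 0) (P.cons (P.lf 6123 0 0) P.nil)))))) (P.cons (P.cons (P.lf 153705034 0 0) (P.cons (P.lf 0 2348353 0) (P.cons (P.lf 0 2838227 0) (P.cons (P.lf 0 306190 0) (P.cons (P.lf 107511 0 0) P.nil))))) (P.cons (P.cons (P.lf 0 199181219 0) (P.cons (P.lf 20665625 0 0) (P.cons (P.lf 0 47820 0) (P.cons (P.lf 0 651697 0) P.nil)))) (P.cons (P.cons (P.lf 0 34965364 0) (P.cons (P.lf 6651799 0 0) (P.cons (P.lf 65958 0 0) P.nil))) (P.cons (P.cons (P.lf 3917993 0 0) (P.cons (P.lf 258539 0 0) P.nil)) (P.cons (P.cons (P.lf 1189577 0 0) P.nil) P.nil)))))) 1848748)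
 (EL.cons 1 (TM.mk (P.cons (P.cons (P.lf 0 1627307822 0) (P.cons (P.lf 54205409 0 0) (P.cons (P.lf 5130431 0 0) (P.cons (P.lf 0 1006592 0) (P.cons (P.lf 0 60410 0) (P.cons (P.lf 0 4491 0) P.nil)))))) (P.cons (P.cons (P.lf 278826413 0 0) (P.cons (P.lf 0 16258081 0) (P.cons (P.lf 333046 0 0) (P.cons (P.lf 552193 0 0) (P.cons (P.lf 0 56949 0) P.nil))))) (P.cons (P.cons (P.lf 149589064 0 0) (P.cons (P.lf 0 14452675 0) (P.cons (P.lf 0 540294 0) (P.cons (P.lf 379045 0 0) P.nil)))) (P.cons (P.cons (P.lf 0 14767076 0) (P.cons (P.lf 0 343048 0) (P.cons (P.lf 0 30081 0) P.nil))) (P.cons (P.cons (P.lf 0 5238382 0) (P.cons (P.lf 773505 0 0) P.nil)) (P.cons (P.cons (P.lf 0 8903 0) P.nil) P.nil)))))) 789226)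
 (EL.cons 5 (TM.mk (P.cons (P.cons (P.lf 662797600 0 0) (P.cons (P.lf 81508947 0 0) (P.cons (P.lf 6703660 0 0) (P.cons (P.lf 0 1648796 0) (P.cons (P.lf 0 50284 0) (P.cons (P.lf 0 3732 0) P.nil)))))) (P.cons (P.cons (P.lf 0 677919172 0) (P.cons (P.lf 29734701 0 0) (P.cons (P.lf 3665005 0 0) (P.cons (P.lf 0 438426 0) (P.cons (P.lf 0 67248 0) P.nil))))) (P.cons (P.cons (P.lf 59217047 0 0) (P.cons (P.lf 0 6603794 0) (P.cons (P.lf 494384 0 0) (P.cons (P.lf 272309 0 0) P.nil)))) (P.cons (P.cons (P.lf 28335442 0 0) (P.cons (P.lf 0 4237332 0) (P.cons (P.lf 0 9834 0) P.nil))) (P.cons (P.cons (P.lf 0 290652 0) (P.cons (P.lf 0 458242 0) P.nil)) (P.cons (P.cons (P.lf 0 561135 0) P.nil) P.nil)))))) 647056)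
 (EL.cons 9 (TM.mk (P.cons (P.cons (P.lf 1418476866 0 0) (P.cons (P.lf 51151365 0 0) (P.cons (P.lf 3880996 0 0) (P.cons (P.lf 0 1078290 0) (P.cons (P.lf 0 18492 0) (P.cons (P.lf 0 1374 0) P.nil)))))) (P.cons (P.cons (P.lf 0 549942780 0) (P.cons (P.lf 25499757 0 0) (P.cons (P.lf 2343405 0 0) (P.cons (P.lf 0 482898 0) (P.cons (P.lf 0 25606 0) P.nil))))) (P.cons (P.cons (P.lf 0 10237882 0) (P.cons (P.lf 656448 0 0) (P.cons (P.lf 421218 0 0) (P.cons (P.lf 35827 0 0) P.nil)))) (P.cons (P.cons (P.lf 14032338 0 0) (P.cons (P.lf 0 1651998 0) (P.cons (P.lf 12000 0 0) P.nil))) (P.cons (P.cons (P.lf 972703 0 0) (P.cons (P.lf 0 323218 0) P.nil)) (P.cons (P.cons (P.lf 0 121927 0) P.nil) P.nil)))))) 264368)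
 (EL.cons 2 (TM.mk (P.cons (P.cons (P.lf 0 264927273 0) (P.cons (P.lf 0 45794131 0) (P.cons (P.lf 18701960 0 0) (P.cons (P.lf 1161112 0 0) (P.cons (P.lf 0 133160 0) (P.cons (P.lf 0 10406 0) P.nil)))))) (P.cons (P.cons (P.lf 0 62580898 0) (P.cons (P.lf 0 15050671 0) (P.cons (P.lf 3479326 0 0) (P.cons (P.lf 640552 0 0) (P.cons (P.lf 16205 0 0) P.nil))))) (P.cons (P.cons (P.lf 17268153 0 0) (P.cons (P.lf 247933 0 0) (P.cons (P.lf 0 1825740 0) (P.cons (P.lf 161128 0 0) P.nil)))) (P.cons (P.cons (P.lf 5418151 0 0) (P.cons (P.lf 299711 0 0) (P.cons (P.lf 0 523659 0) P.nil))) (P.cons (P.cons (P.lf 102138 0 0) (P.cons (P.lf 0 33243 0) P.nil)) (P.cons (P.cons (P.lf 0 80353 0) P.nil) P.nil)))))) 309166)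
 (EL.cons 6 (TM.mk (P.cons (P.cons (P.lf 0 58369272 0) (P.cons (P.lf 0 10089444 0) (P.cons (P.lf 4120452 0 0) (P.cons (P.lf 255816 0 0) (P.cons (P.lf 0 29334 0) (P.cons (P.lf 0 2292 0) P.nil)))))) (P.cons (P.cons (P.lf 0 29098002 0) (P.cons (P.lf 0 5962416 0) (P.cons (P.lf 1847352 0 0) (P.cons (P.lf 208224 0 0) (P.cons (P.lf 0 4122 0) P.nil))))) (P.cons (P.cons (P.lf 0 749082 0) (P.cons (P.lf 0 977130 0) (P.cons (P.lf 0 135024 0) (P.cons (P.lf 76620 0 0) P.nil)))) (P.cons (P.cons (P.lf 1885104 0 0) (P.cons (P.lf 12396 0 0) (P.cons (P.lf 0 202560 0) P.nil))) (P.cons (P.cons (P.lf 368826 0 0) (P.cons (P.lf 4692 0 0) P.nil)) (P.cons (P.cons (P.lf 10380 0 0) P.nil) P.nil)))))) 127734)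
 EL.nil))))))
noncomputable def S82_111_364_512_3 : EL := (EL.cons 0 (TM.mk (P.cons (P.lf 5314273808 0 0) (P.cons (P.lf 0 334885157 0) (P.cons (P.lf 0 43314278 0) (P.cons (P.lf 0 451103 0) (P.cons (P.lf 186969 0 0) (P.cons (P.lf 14783 0 0) P.nil)))))) 1615)
 (EL.cons 1 (TM.mk (P.cons (P.lf 1170850837 0 0) (P.cons (P.lf 233327645 0 0) (P.cons (P.lf 0 10098210 0) (P.cons (P.lf 0 2078180 0) (P.cons (P.lf 0 90420 0) (P.cons (P.lf 2872 0 0) P.nil)))))) 983)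
 (EL.cons 5 (TM.mk (P.cons (P.lf 257964066 0 0) (P.cons (P.lf 119070280 0 0) (P.cons (P.lf 15400634 0 0) (P.cons (P.lf 160396 0 0) (P.cons (P.lf 0 66480 0) (P.cons (P.lf 0 5256 0) P.nil)))))) 406)
 EL.nil)))
noncomputable def S82_111_364_512_4 : EL := (EL.cons 0 (TM.mk (P.cons (P.cons (P.lf 0 2493615536 0) (P.cons (P.lf 0 44960844 0) (P.cons (P.lf 0 3005973 0) (P.lf 1001990 0 0)))) (P.cons (P.cons (P.lf 640524844 0 0) (P.cons (P.lf 0 28296073 0) (P.cons (P.lf 0 1891805 0) (P.lf 630601 0 0)))) (P.cons (P.cons (P.lf 45714229 0 0) (P.cons (P.lf 0 5290324 0) (P.cons (P.lf 0 353694 0) (P.lf 117896 0 0)))) (P.cons (P.cons (P.lf 0 8755098 0) (P.cons (P.lf 42813 0 0) (P.cons (P.lf 2865 0 0) P.nil))) (P.cons (P.cons (P.lf 0 1010715 0) (P.cons (P.lf 113941 0 0) P.nil)) (P.cons (P.cons (P.lf 22765 0 0) P.nil) P.nil)))))) 78088)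
 (EL.cons 1 (TM.mk (P.cons (P.cons (P.lf 0 549398083 0) (P.cons (P.lf 0 9905857 0) (P.cons (P.lf 0 662280 0) (P.lf 220758 0 0)))) (P.cons (P.cons (P.lf 0 2983597 0) (P.cons (P.lf 0 8832515 0) (P.cons (P.lf 0 590520 0) (P.lf 196839 0 0)))) (P.cons (P.cons (P.lf 38267092 0 0) (P.cons (P.lf 0 2959831 0) (P.cons (P.lf 0 197885 0) (P.lf 65960 0 0)))) (P.cons (P.cons (P.lf 2176687 0 0) (P.cons (P.lf 0 410838 0) (P.cons (P.lf 0 27465 0) P.nil))) (P.cons (P.cons (P.lf 0 433860 0) (P.cons (P.lf 0 1546 0) P.nil)) (P.cons (P.cons (P.lf 0 57564 0) P.nil) P.nil)))))) 32244)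
 (EL.cons 5 (TM.mk (P.cons (P.cons (P.lf 0 121044422 0) (P.cons (P.lf 0 2182476 0) (P.cons (P.lf 0 145914 0) (P.lf 48638 0 0)))) (P.cons (P.cons (P.lf 0 32406890 0) (P.cons (P.lf 0 2518452 0) (P.cons (P.lf 0 168376 0) (P.lf 56124 0 0)))) (P.cons (P.cons (P.lf 6315312 0 0) (P.cons (P.lf 0 1197582 0) (P.cons (P.lf 0 80066 0) (P.lf 26688 0 0)))) (P.cons (P.cons (P.lf 2503792 0 0) (P.cons (P.lf 0 295992 0) (P.cons (P.lf 0 19788 0) P.nil))) (P.cons (P.cons (P.lf 148540 0 0) (P.cons (P.lf 0 37682 0) P.nil)) (P.cons (P.cons (P.lf 0 19296 0) P.nil) P.nil)))))) 18812)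
 EL.nil)))
noncomputable def S82_111_364_512_5 : EL := (EL.cons 0 (TM.mk (P.cons (P.cons (P.lf 1170078672 0 0) (P.cons (P.lf 42193935 0 0) (P.cons (P.lf 3201370 0 0) (P.cons (P.lf 0 889463 0) (P.cons (P.lf 0 15252 0) (P.cons (P.lf 0 1132 0) P.nil)))))) (P.cons (P.cons (P.lf 0 527372794 0) (P.cons (P.lf 18375437 0 0) (P.cons (P.lf 1731297 0 0) (P.cons (P.lf 0 342283 0) (P.cons (P.lf 0 20160 0) P.nil))))) (P.cons (P.cons (P.lf 10604729 0 0) (P.cons (P.lf 0 1127912 0) (P.cons (P.lf 199550 0 0) (P.cons (P.lf 61903 0 0) P.nil)))) (P.cons (P.cons (P.lf 15705309 0 0) (P.cons (P.lf 0 1571851 0) (P.cons (P.lf 0 28023 0) P.nil))) (P.cons (P.cons (P.lf 221456 0 0) (P.cons (P.lf 0 185458 0) P.nil)) (P.cons (P.cons (P.lf 0 257468 0) P.nil) P.nil)))))) 293420)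
 (EL.cons 1 (TM.mk (P.cons (P.cons (P.lf 257793941 0 0) (P.cons (P.lf 9296246 0 0) (P.cons (P.lf 705331 0 0) (P.cons (P.lf 0 195967 0) (P.cons (P.lf 0 3360 0) (P.cons (P.lf 0 249 0) P.nil)))))) (P.cons (P.cons (P.lf 0 48573298 0) (P.cons (P.lf 6486885 0 0) (P.cons (P.lf 566448 0 0) (P.cons (P.lf 0 126813 0) (P.cons (P.lf 0 5323 0) P.nil))))) (P.cons (P.cons (P.lf 0 24001419 0) (P.cons (P.lf 962655 0 0) (P.cons (P.lf 155340 0 0) (P.cons (P.lf 0 9286 0) P.nil)))) (P.cons (P.cons (P.lf 2583888 0 0) (P.cons (P.lf 0 332928 0) (P.cons (P.lf 12510 0 0) P.nil))) (P.cons (P.cons (P.lf 858526 0 0) (P.cons (P.lf 0 128544 0) P.nil)) (P.cons (P.cons (P.lf 2728 0 0) P.nil) P.nil)))))) 99845)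
 (EL.cons 5 (TM.mk (P.cons (P.cons (P.lf 56797646 0 0) (P.cons (P.lf 2048166 0 0) (P.cons (P.lf 155400 0 0) (P.cons (P.lf 0 43174 0) (P.cons (P.lf 0 740 0) (P.cons (P.lf 0 54 0) P.nil)))))) (P.cons (P.cons (P.lf 4196068 0 0) (P.cons (P.lf 1966428 0 0) (P.cons (P.lf 165560 0 0) (P.cons (P.lf 0 39264 0) (P.cons (P.lf 0 1366 0) P.nil))))) (P.cons (P.cons (P.lf 0 7183198 0) (P.cons (P.lf 619850 0 0) (P.cons (P.lf 69454 0 0) (P.cons (P.lf 0 10066 0) P.nil)))) (P.cons (P.cons (P.lf 0 906664 0) (P.cons (P.lf 8214 0 0) (P.cons (P.lf 13962 0 0) P.nil))) (P.cons (P.cons (P.lf 245492 0 0) (P.cons (P.lf 0 41796 0) P.nil)) (P.cons (P.cons (P.lf 50900 0 0) P.nil) P.nil)))))) 35588)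
 EL.nil)))
noncomputable def S82_111_364_512_6 : EL := (EL.cons 12 (TM.mk (P.lf 8589934592 0 0) 0)
 (EL.cons 3 (TM.mk (P.cons (P.lf 0 3378211968 0) (P.cons (P.lf 106440982 0 0) (P.cons (P.lf 15444026 0 0) (P.cons (P.lf 629992 0 0) (P.cons (P.lf 0 4275 0) (P.cons (P.lf 0 1953 0) P.nil)))))) 352)
 (EL.cons 7 (TM.mk (P.cons (P.lf 0 744294039 0) (P.cons (P.lf 0 171774507 0) (P.cons (P.lf 0 2395646 0) (P.cons (P.lf 321494 0 0) (P.cons (P.lf 25565 0 0) (P.cons (P.lf 650 0 0) P.nil)))))) 203)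
 EL.nil)))
noncomputable def S82_111_364_512_7 : EL := (EL.cons 12 (TM.mk (P.cons (P.cons (P.lf 0 4030653132 0) (P.cons (P.lf 0 72674224 0) (P.cons (P.lf 0 4858824 0) (P.lf 1619608 0 0)))) (P.cons (P.cons (P.lf 781341114 0 0) (P.cons (P.lf 0 50317120 0) (P.cons (P.lf 0 3364080 0) (P.lf 1121360 0 0)))) (P.cons (P.cons (P.lf 90277048 0 0) (P.cons (P.lf 0 12314352 0) (P.cons (P.lf 0 823304 0) (P.lf 274432 0 0)))) (P.cons (P.cons (P.lf 0 2436514 0) (P.cons (P.lf 0 1123080 0) (P.cons (P.lf 0 75080 0) P.nil))) (P.cons (P.cons (P.lf 0 843310 0) (P.cons (P.lf 11320 0 0) P.nil)) (P.cons (P.cons (P.lf 0 44816 0) P.nil) P.nil)))))) 49482)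
 (EL.cons 3 (TM.mk (P.cons (P.cons (P.lf 2916603668 0 0) (P.cons (P.lf 0 57162000 0) (P.cons (P.lf 0 3821712 0) (P.lf 1273902 0 0)))) (P.cons (P.cons (P.lf 178639146 0 0) (P.cons (P.lf 0 37775928 0) (P.cons (P.lf 0 2525606 0) (P.lf 841866 0 0)))) (P.cons (P.cons (P.lf 0 3165487 0) (P.cons (P.lf 0 8177548 0) (P.cons (P.lf 0 546726 0) (P.lf 182240 0 0)))) (P.cons (P.cons (P.lf 0 7093880 0) (P.cons (P.lf 0 386582 0) (P.cons (P.lf 0 25838 0) P.nil))) (P.cons (P.cons (P.lf 0 747008 0) (P.cons (P.lf 88322 0 0) P.nil)) (P.cons (P.cons (P.lf 3769 0 0) P.nil) P.nil)))))) 143499)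
 (EL.cons 7 (TM.mk (P.cons (P.cons (P.lf 0 1799443187 0) (P.cons (P.lf 144669119 0 0) (P.cons (P.lf 9672241 0 0) (P.lf 0 3224079 0)))) (P.cons (P.cons (P.lf 0 288287938 0) (P.cons (P.lf 60962820 0 0) (P.cons (P.lf 4075831 0 0) (P.lf 0 1358611 0)))) (P.cons (P.cons (P.lf 42916919 0 0) (P.cons (P.lf 5201773 0 0) (P.cons (P.lf 347777 0 0) (P.lf 0 115927 0)))) (P.cons (P.cons (P.lf 5486269 0 0) (P.cons (P.lf 0 611972 0) (P.cons (P.lf 0 40913 0) P.nil))) (P.cons (P.cons (P.lf 0 113057 0) (P.cons (P.lf 0 86151 0) P.nil)) (P.cons (P.cons (P.lf 0 52603 0) P.nil) P.nil)))))) 75642)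
 (EL.cons 10 (TM.mk (P.cons (P.cons (P.lf 0 358908777 0) (P.cons (P.lf 0 55568091 0) (P.cons (P.lf 26770953 0 0) (P.cons (P.lf 1013091 0 0) (P.lf 0 253272 0))))) (P.cons (P.cons (P.lf 0 165664038 0) (P.cons (P.lf 0 25648953 0) (P.cons (P.lf 12356856 0 0) (P.cons (P.lf 467619 0 0) (P.lf 0 116904 0))))) (P.cons (P.cons (P.lf 0 21427101 0) (P.cons (P.lf 0 3317451 0) (P.cons (P.lf 1598244 0 0) (P.cons (P.lf 60480 0 0) P.nil)))) (P.cons (P.cons (P.lf 0 223161 0) (P.cons (P.lf 0 34548 0) (P.cons (P.lf 16644 0 0) P.nil))) (P.cons (P.cons (P.lf 92493 0 0) (P.cons (P.lf 14319 0 0) P.nil)) (P.cons (P.cons (P.lf 7311 0 0) P.nil) P.nil)))))) 25629)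
 EL.nil))))
noncomputable def S82_111_364_512_8 : EL := (EL.cons 12 (TM.mk (P.cons (P.cons (P.lf 1891302488 0 0) (P.cons (P.lf 68201820 0 0) (P.cons (P.lf 5174662 0 0) (P.cons (P.lf 0 1437720 0) (P.cons (P.lf 0 24656 0) (P.cons (P.lf 0 1832 0) P.nil)))))) (P.cons (P.cons (P.lf 0 733257040 0) (P.cons (P.lf 33999676 0 0) (P.cons (P.lf 3124540 0 0) (P.cons (P.lf 0 643864 0) (P.cons (P.lf 0 34142 0) P.nil))))) (P.cons (P.cons (P.lf 0 13650510 0) (P.cons (P.lf 875264 0 0) (P.cons (P.lf 561624 0 0) (P.cons (P.lf 47770 0 0) P.nil)))) (P.cons (P.cons (P.lf 18709784 0 0) (P.cons (P.lf 0 2202664 0) (P.cons (P.lf 16000 0 0) P.nil))) (P.cons (P.cons (P.lf 1296938 0 0) (P.cons (P.lf 0 430958 0) P.nil)) (P.cons (P.cons (P.lf 0 162570 0) P.nil) P.nil)))))) 352462)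
 (EL.cons 3 (TM.mk (P.cons (P.cons (P.lf 0 1993311416 0) (P.cons (P.lf 31115111 0 0) (P.cons (P.lf 3289309 0 0) (P.cons (P.lf 0 531759 0) (P.cons (P.lf 0 48480 0) (P.cons (P.lf 0 3600 0) P.nil)))))) (P.cons (P.cons (P.lf 51135437 0 0) (P.cons (P.lf 386590 0 0) (P.cons (P.lf 1661935 0 0) (P.cons (P.lf 210158 0 0) (P.cons (P.lf 0 65611 0) P.nil))))) (P.cons (P.cons (P.lf 97090824 0 0) (P.cons (P.lf 0 11000737 0) (P.cons (P.lf 195537 0 0) (P.cons (P.lf 369651 0 0) P.nil)))) (P.cons (P.cons (P.lf 16888617 0 0) (P.cons (P.lf 0 3947418 0) (P.cons (P.lf 18075 0 0) P.nil))) (P.cons (P.cons (P.lf 0 972553 0) (P.cons (P.lf 0 372867 0) P.nil)) (P.cons (P.cons (P.lf 0 464833 0) P.nil) P.nil)))))) 888258)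
 (EL.cons 7 (TM.mk (P.cons (P.cons (P.lf 1852580785 0 0) (P.cons (P.lf 0 99408620 0) (P.cons (P.lf 0 9040868 0) (P.cons (P.lf 1895204 0 0) (P.cons (P.lf 96024 0 0) (P.cons (P.lf 7130 0 0) P.nil)))))) (P.cons (P.cons (P.lf 0 82522374 0) (P.cons (P.lf 0 623896 0) (P.cons (P.lf 0 2682033 0) (P.cons (P.lf 0 339145 0) (P.cons (P.lf 105877 0 0) P.nil))))) (P.cons (P.cons (P.lf 0 145862538 0) (P.cons (P.lf 17834807 0 0) (P.cons (P.lf 36170 0 0) (P.cons (P.lf 0 552061 0) P.nil)))) (P.cons (P.cons (P.lf 0 1307075 0) (P.cons (P.lf 3254994 0 0) (P.cons (P.lf 0 21166 0) P.nil))) (P.cons (P.cons (P.lf 3027632 0 0) (P.cons (P.lf 0 181519 0) P.nil)) (P.cons (P.cons (P.lf 214762 0 0) P.nil) P.nil)))))) 605650)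
 (EL.cons 10 (TM.mk (P.cons (P.cons (P.lf 336821370 0 0) (P.cons (P.lf 58221420 0 0) (P.cons (P.lf 0 23777172 0) (P.cons (P.lf 0 1476204 0) (P.cons (P.lf 169302 0 0) (P.cons (P.lf 13230 0 0) P.nil)))))) (P.cons (P.cons (P.lf 90176256 0 0) (P.cons (P.lf 20969460 0 0) (P.cons (P.lf 0 5172696 0) (P.cons (P.lf 0 860892 0) (P.cons (P.lf 0 15270 0) P.nil))))) (P.cons (P.cons (P.lf 0 17573154 0) (P.cons (P.lf 611658 0 0) (P.cons (P.lf 2049516 0 0) (P.cons (P.lf 0 238728 0) P.nil)))) (P.cons (P.cons (P.lf 0 6967122 0) (P.cons (P.lf 0 255048 0) (P.cons (P.lf 702258 0 0) P.nil))) (P.cons (P.cons (P.lf 0 413328 0) (P.cons (P.lf 40860 0 0) P.nil)) (P.cons (P.cons (P.lf 53700 0 0) P.nil) P.nil)))))) 375792)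
 EL.nil))))
noncomputable def S82_111_364_512_9 : EL := (EL.cons 3 (TM.mk (P.cons (P.lf 0 3378211968 0) (P.cons (P.lf 106440982 0 0) (P.cons (P.lf 15444026 0 0) (P.cons (P.lf 629992 0 0) (P.cons (P.lf 0 4275 0) (P.cons (P.lf 0 1953 0) P.nil)))))) 352)
 (EL.cons 7 (TM.mk (P.cons (P.lf 0 744294039 0) (P.cons (P.lf 0 171774507 0) (P.cons (P.lf 0 2395646 0) (P.cons (P.lf 321494 0 0) (P.cons (P.lf 25565 0 0) (P.cons (P.lf 650 0 0) P.nil)))))) 203)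
 EL.nil))
noncomputable def S82_111_364_512_10 : EL := (EL.cons 3 (TM.mk (P.cons (P.cons (P.lf 1585157663 0 0) (P.cons (P.lf 28581000 0 0) (P.cons (P.lf 1910856 0 0) (P.lf 0 636951 0)))) (P.cons (P.cons (P.lf 0 357227700 0) (P.cons (P.lf 18887964 0 0) (P.cons (P.lf 1262803 0 0) (P.lf 0 420933 0)))) (P.cons (P.cons (P.lf 0 33068680 0) (P.cons (P.lf 4088774 0 0) (P.cons (P.lf 273363 0 0) (P.lf 0 91120 0)))) (P.cons (P.cons (P.lf 3186055 0 0) (P.cons (P.lf 193291 0 0) (P.cons (P.lf 12919 0 0) P.nil))) (P.cons (P.cons (P.lf 523081 0 0) (P.cons (P.lf 0 44161 0) P.nil)) (P.cons (P.cons (P.lf 9943 0 0) P.nil) P.nil)))))) 35273)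
 (EL.cons 7 (TM.mk (P.cons (P.cons (P.lf 349244929 0 0) (P.cons (P.lf 6297020 0 0) (P.cons (P.lf 421003 0 0) (P.lf 0 140334 0)))) (P.cons (P.cons (P.lf 12900671 0 0) (P.cons (P.lf 5813118 0 0) (P.cons (P.lf 388651 0 0) (P.lf 0 129550 0)))) (P.cons (P.cons (P.lf 0 22322770 0) (P.cons (P.lf 2093473 0 0) (P.cons (P.lf 139964 0 0) (P.lf 0 46654 0)))) (P.cons (P.cons (P.lf 0 1962932 0) (P.cons (P.lf 354877 0 0) (P.cons (P.lf 23725 0 0) P.nil))) (P.cons (P.cons (P.lf 113863 0 0) (P.cons (P.lf 22812 0 0) P.nil)) (P.cons (P.cons (P.lf 26825 0 0) P.nil) P.nil)))))) 16229)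
 EL.nil))
noncomputable def S82_111_364_512_11 : EL := (EL.cons 3 (TM.mk (P.cons (P.cons (P.lf 0 743803184 0) (P.cons (P.lf 0 26822113 0) (P.cons (P.lf 0 2035067 0) (P.cons (P.lf 565419 0 0) (P.cons (P.lf 9696 0 0) (P.cons (P.lf 720 0 0) P.nil)))))) (P.cons (P.cons (P.lf 311807939 0 0) (P.cons (P.lf 0 12526130 0) (P.cons (P.lf 0 1164683 0) (P.cons (P.lf 235400 0 0) (P.cons (P.lf 13121 0 0) P.nil))))) (P.cons (P.cons (P.lf 0 317226 0) (P.cons (P.lf 199703 0 0) (P.cons (P.lf 0 172851 0) (P.cons (P.lf 0 29349 0) P.nil)))) (P.cons (P.cons (P.lf 0 8706879 0) (P.cons (P.lf 943230 0 0) (P.cons (P.lf 6663 0 0) P.nil))) (P.cons (P.cons (P.lf 0 357475 0) (P.cons (P.lf 146223 0 0) P.nil)) (P.cons (P.cons (P.lf 112577 0 0) P.nil) P.nil)))))) 164546)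
 (EL.cons 7 (TM.mk (P.cons (P.cons (P.lf 0 163876121 0) (P.cons (P.lf 0 5909498 0) (P.cons (P.lf 0 448370 0) (P.cons (P.lf 124574 0 0) (P.cons (P.lf 2136 0 0) (P.cons (P.lf 158 0 0) P.nil)))))) (P.cons (P.cons (P.lf 25713966 0 0) (P.cons (P.lf 0 4309822 0) (P.cons (P.lf 0 374211 0) (P.cons (P.lf 84539 0 0) (P.cons (P.lf 3451 0 0) P.nil))))) (P.cons (P.cons (P.lf 15318390 0 0) (P.cons (P.lf 0 774757 0) (P.cons (P.lf 0 112588 0) (P.cons (P.lf 9137 0 0) P.nil)))) (P.cons (P.cons (P.lf 0 1072895 0) (P.cons (P.lf 166422 0 0) (P.cons (P.lf 0 13294 0) P.nil))) (P.cons (P.cons (P.lf 0 504526 0) (P.cons (P.lf 82619 0 0) P.nil)) (P.cons (P.cons (P.lf 0 19616 0) P.nil) P.nil)))))) 54582)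
 EL.nil))
noncomputable def S82_111_364_512_12 : EL := (EL.cons 4 (TM.mk (P.cons (P.lf 3378211968 0 0) (P.cons (P.lf 0 106440982 0) (P.cons (P.lf 0 15444026 0) (P.cons (P.lf 0 629992 0) (P.cons (P.lf 4275 0 0) (P.cons (P.lf 1953 0 0) P.nil)))))) 352)
 (EL.cons 8 (TM.mk (P.cons (P.lf 744294039 0 0) (P.cons (P.lf 171774507 0 0) (P.cons (P.lf 2395646 0 0) (P.cons (P.lf 0 321494 0) (P.cons (P.lf 0 25565 0) (P.cons (P.lf 0 650 0) P.nil)))))) 203)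
 EL.nil))
noncomputable def S82_111_364_512_13 : EL := (EL.cons 4 (TM.mk (P.cons (P.cons (P.lf 0 1585157663 0) (P.cons (P.lf 0 28581000 0) (P.cons (P.lf 0 1910856 0) (P.lf 636951 0 0)))) (P.cons (P.cons (P.lf 357227700 0 0) (P.cons (P.lf 0 18887964 0) (P.cons (P.lf 0 1262803 0) (P.lf 420933 0 0)))) (P.cons (P.cons (P.lf 33068680 0 0) (P.cons (P.lf 0 4088774 0) (P.cons (P.lf 0 273363 0) (P.lf 91120 0 0)))) (P.cons (P.cons (P.lf 0 3186055 0) (P.cons (P.lf 0 193291 0) (P.cons (P.lf 0 12919 0) P.nil))) (P.cons (P.cons (P.lf 0 523081 0) (P.cons (P.lf 44161 0 0) P.nil)) (P.cons (P.cons (P.lf 0 9943 0) P.nil) P.nil)))))) 35273)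
 (EL.cons 8 (TM.mk (P.cons (P.cons (P.lf 0 349244929 0) (P.cons (P.lf 0 6297020 0) (P.cons (P.lf 0 421003 0) (P.lf 140334 0 0)))) (P.cons (P.cons (P.lf 0 12900671 0) (P.cons (P.lf 0 5813118 0) (P.cons (P.lf 0 388651 0) (P.lf 129550 0 0)))) (P.cons (P.cons (P.lf 22322770 0 0) (P.cons (P.lf 0 2093473 0) (P.cons (P.lf 0 139964 0) (P.lf 46654 0 0)))) (P.cons (P.cons (P.lf 1962932 0 0) (P.cons (P.lf 0 354877 0) (P.cons (P.lf 0 23725 0) P.nil))) (P.cons (P.cons (P.lf 0 113863 0) (P.cons (P.lf 0 22812 0) P.nil)) (P.cons (P.cons (P.lf 0 26825 0) P.nil) P.nil)))))) 16229)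
 EL.nil))
noncomputable def S82_111_364_512_14 : EL := (EL.cons 4 (TM.mk (P.cons (P.cons (P.lf 743803184 0 0) (P.cons (P.lf 26822113 0 0) (P.cons (P.lf 2035067 0 0) (P.cons (P.lf 0 565419 0) (P.cons (P.lf 0 9696 0) (P.cons (P.lf 0 720 0) P.nil)))))) (P.cons (P.cons (P.lf 0 311807939 0) (P.cons (P.lf 12526130 0 0) (P.cons (P.lf 1164683 0 0) (P.cons (P.lf 0 235400 0) (P.cons (P.lf 0 13121 0) P.nil))))) (P.cons (P.cons (P.lf 317226 0 0) (P.cons (P.lf 0 199703 0) (P.cons (P.lf 172851 0 0) (P.cons (P.lf 29349 0 0) P.nil)))) (P.cons (P.cons (P.lf 8706879 0 0) (P.cons (P.lf 0 943230 0) (P.cons (P.lf 0 6663 0) P.nil))) (P.cons (P.cons (P.lf 357475 0 0) (P.cons (P.lf 0 146223 0) P.nil)) (P.cons (P.cons (P.lf 0 112577 0) P.nil) P.nil)))))) 164546)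
 (EL.cons 8 (TM.mk (P.cons (P.cons (P.lf 163876121 0 0) (P.cons (P.lf 5909498 0 0) (P.cons (P.lf 448370 0 0) (P.cons (P.lf 0 124574 0) (P.cons (P.lf 0 2136 0) (P.cons (P.lf 0 158 0) P.nil)))))) (P.cons (P.cons (P.lf 0 25713966 0) (P.cons (P.lf 4309822 0 0) (P.cons (P.lf 374211 0 0) (P.cons (P.lf 0 84539 0) (P.cons (P.lf 0 3451 0) P.nil))))) (P.cons (P.cons (P.lf 0 15318390 0) (P.cons (P.lf 774757 0 0) (P.cons (P.lf 112588 0 0) (P.cons (P.lf 0 9137 0) P.nil)))) (P.cons (P.cons (P.lf 1072895 0 0) (P.cons (P.lf 0 166422 0) (P.cons (P.lf 13294 0 0) P.nil))) (P.cons (P.cons (P.lf 504526 0 0) (P.cons (P.lf 0 82619 0) P.nil)) (P.cons (P.cons (P.lf 19616 0 0) P.nil) P.nil)))))) 54582)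
 EL.nil))
noncomputable def S82_111_364_512_15 : EL := (EL.cons 4 (TM.mk (P.cons (P.lf 0 2834279364 0) (P.cons (P.lf 178605417 0 0) (P.cons (P.lf 23100948 0 0) (P.cons (P.lf 240588 0 0) (P.cons (P.lf 0 99717 0) (P.cons (P.lf 0 7884 0) P.nil)))))) 864)
 (EL.cons 8 (TM.mk (P.cons (P.lf 0 624453780 0) (P.cons (P.lf 0 124441411 0) (P.cons (P.lf 5385712 0 0) (P.cons (P.lf 1108363 0 0) (P.cons (P.lf 48224 0 0) (P.cons (P.lf 0 1532 0) P.nil)))))) 521)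
 EL.nil))
noncomputable def S82_111_364_512_16 : EL := (EL.cons 4 (TM.mk (P.cons (P.cons (P.lf 1329928286 0 0) (P.cons (P.lf 23979117 0 0) (P.cons (P.lf 1603185 0 0) (P.lf 0 534394 0)))) (P.cons (P.cons (P.lf 0 341613250 0) (P.cons (P.lf 15091239 0 0) (P.cons (P.lf 1008962 0 0) (P.lf 0 336320 0)))) (P.cons (P.cons (P.lf 0 24380922 0) (P.cons (P.lf 2821506 0 0) (P.cons (P.lf 188637 0 0) (P.lf 0 62878 0)))) (P.cons (P.cons (P.lf 4669385 0 0) (P.cons (P.lf 0 22833 0) (P.cons (P.lf 0 1528 0) P.nil))) (P.cons (P.cons (P.lf 539048 0 0) (P.cons (P.lf 0 60768 0) P.nil)) (P.cons (P.cons (P.lf 0 12141 0) P.nil) P.nil)))))) 41656)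
 (EL.cons 8 (TM.mk (P.cons (P.cons (P.lf 293012311 0 0) (P.cons (P.lf 5283124 0 0) (P.cons (P.lf 353216 0 0) (P.lf 0 117738 0)))) (P.cons (P.cons (P.lf 1591252 0 0) (P.cons (P.lf 4710675 0 0) (P.cons (P.lf 314944 0 0) (P.lf 0 104981 0)))) (P.cons (P.cons (P.lf 0 20409116 0) (P.cons (P.lf 1578577 0 0) (P.cons (P.lf 105539 0 0) (P.lf 0 35179 0)))) (P.cons (P.cons (P.lf 0 1160900 0) (P.cons (P.lf 219114 0 0) (P.cons (P.lf 14648 0 0) P.nil))) (P.cons (P.cons (P.lf 231392 0 0) (P.cons (P.lf 825 0 0) P.nil)) (P.cons (P.cons (P.lf 30701 0 0) P.nil) P.nil)))))) 17187)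
 EL.nil))
noncomputable def S82_111_364_512_17 : EL := (EL.cons 4 (TM.mk (P.cons (P.cons (P.lf 0 624041958 0) (P.cons (P.lf 0 22503432 0) (P.cons (P.lf 0 1707397 0) (P.cons (P.lf 474380 0 0) (P.cons (P.lf 8134 0 0) (P.cons (P.lf 603 0 0) P.nil)))))) (P.cons (P.cons (P.lf 281265490 0 0) (P.cons (P.lf 0 9800233 0) (P.cons (P.lf 0 923358 0) (P.cons (P.lf 182550 0 0) (P.cons (P.lf 10752 0 0) P.nil))))) (P.cons (P.cons (P.lf 0 5655855 0) (P.cons (P.lf 601553 0 0) (P.cons (P.lf 0 106426 0) (P.cons (P.lf 0 33015 0) P.nil)))) (P.cons (P.cons (P.lf 0 8376165 0) (P.cons (P.lf 838320 0 0) (P.cons (P.lf 14945 0 0) P.nil))) (P.cons (P.cons (P.lf 0 118110 0) (P.cons (P.lf 98910 0 0) P.nil)) (P.cons (P.cons (P.lf 137316 0 0) P.nil) P.nil)))))) 156501)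
 (EL.cons 8 (TM.mk (P.cons (P.cons (P.lf 0 137490102 0) (P.cons (P.lf 0 4957998 0) (P.cons (P.lf 0 376177 0) (P.cons (P.lf 104516 0 0) (P.cons (P.lf 1792 0 0) (P.cons (P.lf 133 0 0) P.nil)))))) (P.cons (P.cons (P.lf 25905759 0 0) (P.cons (P.lf 0 3459672 0) (P.cons (P.lf 0 302106 0) (P.cons (P.lf 67634 0 0) (P.cons (P.lf 2839 0 0) P.nil))))) (P.cons (P.cons (P.lf 12800757 0 0) (P.cons (P.lf 0 513416 0) (P.cons (P.lf 0 82848 0) (P.cons (P.lf 4953 0 0) P.nil)))) (P.cons (P.cons (P.lf 0 1378074 0) (P.cons (P.lf 177562 0 0) (P.cons (P.lf 0 6672 0) P.nil))) (P.cons (P.cons (P.lf 0 457881 0) (P.cons (P.lf 68557 0 0) P.nil)) (P.cons (P.cons (P.lf 0 1455 0) P.nil) P.nil)))))) 53239)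
 EL.nil))
noncomputable def S82_111_364_512_18 : EL := (EL.cons 4 (TM.mk (P.cons (P.lf 2377926426 0 0) (P.cons (P.lf 0 224771707 0) (P.cons (P.lf 0 25531065 0) (P.cons (P.lf 650420 0 0) (P.cons (P.lf 209580 0 0) (P.cons (P.lf 9701 0 0) P.nil)))))) 1817)
 (EL.cons 8 (TM.mk (P.cons (P.lf 523909239 0 0) (P.cons (P.lf 87897477 0 0) (P.cons (P.lf 0 10203278 0) (P.cons (P.lf 0 1362537 0) (P.cons (P.lf 0 9310 0) (P.cons (P.lf 8089 0 0) P.nil)))))) 965)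
 EL.nil))
noncomputable def S82_111_364_512_19 : EL := (EL.cons 4 (TM.mk (P.cons (P.cons (P.lf 0 1115793897 0) (P.cons (P.lf 0 20118192 0) (P.cons (P.lf 0 1345053 0) (P.lf 448350 0 0)))) (P.cons (P.cons (P.lf 321765950 0 0) (P.cons (P.lf 0 12027483 0) (P.cons (P.lf 0 804127 0) (P.lf 268042 0 0)))) (P.cons (P.cons (P.lf 16525815 0 0) (P.cons (P.lf 0 1876301 0) (P.cons (P.lf 0 125443 0) (P.lf 41813 0 0)))) (P.cons (P.cons (P.lf 0 5664265 0) (P.cons (P.lf 155378 0 0) (P.cons (P.lf 10389 0 0) P.nil))) (P.cons (P.cons (P.lf 0 477195 0) (P.cons (P.lf 63538 0 0) P.nil)) (P.cons (P.cons (P.lf 38249 0 0) P.nil) P.nil)))))) 46804)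
 (EL.cons 8 (TM.mk (P.cons (P.cons (P.lf 0 245833818 0) (P.cons (P.lf 0 4432478 0) (P.cons (P.lf 0 296344 0) (P.lf 98781 0 0)))) (P.cons (P.cons (P.lf 6410710 0 0) (P.cons (P.lf 0 3812541 0) (P.cons (P.lf 0 254897 0) (P.lf 84965 0 0)))) (P.cons (P.cons (P.lf 18288936 0 0) (P.cons (P.lf 0 1179617 0) (P.cons (P.lf 0 78865 0) (P.lf 26288 0 0)))) (P.cons (P.cons (P.lf 486416 0 0) (P.cons (P.lf 0 123210 0) (P.cons (P.lf 0 8237 0) P.nil))) (P.cons (P.cons (P.lf 0 303166 0) (P.cons (P.lf 11885 0 0) P.nil)) (P.cons (P.cons (P.lf 0 27430 0) P.nil) P.nil)))))) 17406)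
 EL.nil))
noncomputable def S82_111_364_512_20 : EL := (EL.cons 4 (TM.mk (P.cons (P.cons (P.lf 523563726 0 0) (P.cons (P.lf 18880110 0 0) (P.cons (P.lf 1432485 0 0) (P.cons (P.lf 0 397999 0) (P.cons (P.lf 0 6825 0) (P.cons (P.lf 0 506 0) P.nil)))))) (P.cons (P.cons (P.lf 0 252474865 0) (P.cons (P.lf 7627401 0 0) (P.cons (P.lf 729552 0 0) (P.cons (P.lf 0 140617 0) (P.cons (P.lf 0 8805 0) P.nil))))) (P.cons (P.cons (P.lf 9786868 0 0) (P.cons (P.lf 0 850078 0) (P.cons (P.lf 58332 0 0) (P.cons (P.lf 34344 0 0) P.nil)))) (P.cons (P.cons (P.lf 7859164 0 0) (P.cons (P.lf 0 728549 0) (P.cons (P.lf 0 19161 0) P.nil))) (P.cons (P.cons (P.lf 0 99353 0) (P.cons (P.lf 0 60026 0) P.nil)) (P.cons (P.cons (P.lf 0 151336 0) P.nil) P.nil)))))) 148011)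
 (EL.cons 8 (TM.mk (P.cons (P.cons (P.lf 115352548 0 0) (P.cons (P.lf 4159701 0 0) (P.cons (P.lf 315608 0 0) (P.cons (P.lf 0 87688 0) (P.cons (P.lf 0 1503 0) (P.cons (P.lf 0 111 0) P.nil)))))) (P.cons (P.cons (P.lf 0 25369159 0) (P.cons (P.lf 2771559 0 0) (P.cons (P.lf 243519 0 0) (P.cons (P.lf 0 53981 0) (P.cons (P.lf 0 2334 0) P.nil))))) (P.cons (P.cons (P.lf 0 10582217 0) (P.cons (P.lf 320277 0 0) (P.cons (P.lf 60079 0 0) (P.cons (P.lf 0 1967 0) P.nil)))) (P.cons (P.cons (P.lf 1572425 0 0) (P.cons (P.lf 0 176590 0) (P.cons (P.lf 2190 0 0) P.nil))) (P.cons (P.cons (P.lf 401025 0 0) (P.cons (P.lf 0 55330 0) P.nil)) (P.cons (P.cons (P.lf 0 14126 0) P.nil) P.nil)))))) 50497)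
 EL.nil))
noncomputable def S82_111_364_512_21 : EL := (EL.cons 4 (TM.mk (P.cons (P.cons (P.lf 0 1331446005 0) (P.cons (P.lf 85743000 0 0) (P.cons (P.lf 5732568 0 0) (P.lf 0 1910853 0)))) (P.cons (P.cons (P.lf 0 535866846 0) (P.cons (P.lf 56663892 0 0) (P.cons (P.lf 3788409 0 0) (P.lf 0 1262799 0)))) (P.cons (P.cons (P.lf 0 29903193 0) (P.cons (P.lf 12266322 0 0) (P.cons (P.lf 820089 0 0) (P.lf 0 273360 0)))) (P.cons (P.cons (P.lf 10279935 0 0) (P.cons (P.lf 579873 0 0) (P.cons (P.lf 38757 0 0) P.nil))) (P.cons (P.cons (P.lf 1270089 0 0) (P.cons (P.lf 0 132483 0) P.nil)) (P.cons (P.cons (P.lf 6174 0 0) P.nil) P.nil)))))) 108207)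
 (EL.cons 8 (TM.mk (P.cons (P.cons (P.lf 2148688116 0 0) (P.cons (P.lf 0 138372099 0) (P.cons (P.lf 0 9251238 0) (P.lf 3083745 0 0)))) (P.cons (P.cons (P.lf 301188609 0 0) (P.cons (P.lf 0 55149702 0) (P.cons (P.lf 0 3687180 0) (P.lf 1229061 0 0)))) (P.cons (P.cons (P.lf 0 65239689 0) (P.cons (P.lf 0 3108300 0) (P.cons (P.lf 0 207813 0) (P.lf 69273 0 0)))) (P.cons (P.cons (P.lf 0 7449201 0) (P.cons (P.lf 966849 0 0) (P.cons (P.lf 64638 0 0) P.nil))) (P.cons (P.cons (P.lf 226920 0 0) (P.cons (P.lf 108963 0 0) P.nil)) (P.cons (P.cons (P.lf 79428 0 0) P.nil) P.nil)))))) 59394)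
 (EL.cons 11 (TM.mk (P.cons (P.cons (P.lf 358908777 0 0) (P.cons (P.lf 55568091 0 0) (P.cons (P.lf 0 26770953 0) (P.cons (P.lf 0 1013091 0) (P.lf 253272 0 0))))) (P.cons (P.cons (P.lf 165664038 0 0) (P.cons (P.lf 25648953 0 0) (P.cons (P.lf 0 12356856 0) (P.cons (P.lf 0 467619 0) (P.lf 116904 0 0))))) (P.cons (P.cons (P.lf 21427101 0 0) (P.cons (P.lf 3317451 0 0) (P.cons (P.lf 0 1598244 0) (P.cons (P.lf 0 60480 0) P.nil)))) (P.cons (P.cons (P.lf 223161 0 0) (P.cons (P.lf 34548 0 0) (P.cons (P.lf 0 16644 0) P.nil))) (P.cons (P.cons (P.lf 0 92493 0) (P.cons (P.lf 0 14319 0) P.nil)) (P.cons (P.cons (P.lf 0 7311 0) P.nil) P.nil)))))) 25629)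
 EL.nil)))
noncomputable def S82_111_364_512_22 : EL := (EL.cons 4 (TM.mk (P.cons (P.cons (P.lf 624754116 0 0) (P.cons (P.lf 0 28968612 0) (P.cons (P.lf 0 2662188 0) (P.cons (P.lf 548589 0 0) (P.cons (P.lf 29088 0 0) (P.cons (P.lf 2160 0 0) P.nil)))))) (P.cons (P.cons (P.lf 130336251 0 0) (P.cons (P.lf 0 6456360 0) (P.cons (P.lf 0 1413309 0) (P.cons (P.lf 12621 0 0) (P.cons (P.lf 39366 0 0) P.nil))))) (P.cons (P.cons (P.lf 0 48704025 0) (P.cons (P.lf 5600220 0 0) (P.cons (P.lf 0 184194 0) (P.cons (P.lf 0 199500 0) P.nil)))) (P.cons (P.cons (P.lf 0 12797748 0) (P.cons (P.lf 2445324 0 0) (P.cons (P.lf 0 5706 0) P.nil))) (P.cons (P.cons (P.lf 307539 0 0) (P.cons (P.lf 259545 0 0) P.nil)) (P.cons (P.cons (P.lf 288705 0 0) P.nil) P.nil)))))) 361845)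
 (EL.cons 8 (TM.mk (P.cons (P.cons (P.lf 0 1008228453 0) (P.cons (P.lf 46749561 0 0) (P.cons (P.lf 4296249 0 0) (P.cons (P.lf 0 885315 0) (P.cons (P.lf 0 46944 0) (P.cons (P.lf 0 3486 0) P.nil)))))) (P.cons (P.cons (P.lf 54118170 0 0) (P.cons (P.lf 0 1842963 0) (P.cons (P.lf 1153911 0 0) (P.cons (P.lf 211842 0 0) (P.cons (P.lf 0 51213 0) P.nil))))) (P.cons (P.cons (P.lf 80590464 0 0) (P.cons (P.lf 0 9304782 0) (P.cons (P.lf 0 74379 0) (P.cons (P.lf 280599 0 0) P.nil)))) (P.cons (P.cons (P.lf 117090 0 0) (P.cons (P.lf 0 1544286 0) (P.cons (P.lf 3936 0 0) P.nil))) (P.cons (P.cons (P.lf 0 1766079 0) (P.cons (P.lf 132069 0 0) P.nil)) (P.cons (P.cons (P.lf 0 117189 0) P.nil) P.nil)))))) 275523)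
 (EL.cons 11 (TM.mk (P.cons (P.cons (P.lf 0 168410685 0) (P.cons (P.lf 0 29110710 0) (P.cons (P.lf 11888586 0 0) (P.cons (P.lf 738102 0 0) (P.cons (P.lf 0 84651 0) (P.cons (P.lf 0 6615 0) P.nil)))))) (P.cons (P.cons (P.lf 0 45088128 0) (P.cons (P.lf 0 10484730 0) (P.cons (P.lf 2586348 0 0) (P.cons (P.lf 430446 0 0) (P.cons (P.lf 7635 0 0) P.nil))))) (P.cons (P.cons (P.lf 8786577 0 0) (P.cons (P.lf 0 305829 0) (P.cons (P.lf 0 1024758 0) (P.cons (P.lf 119364 0 0) P.nil)))) (P.cons (P.cons (P.lf 3483561 0 0) (P.cons (P.lf 127524 0 0) (P.cons (P.lf 0 351129 0) P.nil))) (P.cons (P.cons (P.lf 206664 0 0) (P.cons (P.lf 0 20430 0) P.nil)) (P.cons (P.cons (P.lf 0 26850 0) P.nil) P.nil)))))) 187896)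
 EL.nil)))
noncomputable def S82_111_364_512_23 : EL := (EL.cons 4 (TM.mk (P.cons (P.cons (P.lf 1117067244 0 0) (P.cons (P.lf 0 71937348 0) (P.cons (P.lf 0 4809555 0) (P.lf 1603182 0 0)))) (P.cons (P.cons (P.lf 414389214 0 0) (P.cons (P.lf 0 45273717 0) (P.cons (P.lf 0 3026889 0) (P.lf 1008960 0 0)))) (P.cons (P.cons (P.lf 5815983 0 0) (P.cons (P.lf 0 8464518 0) (P.cons (P.lf 0 565908 0) (P.lf 188634 0 0)))) (P.cons (P.cons (P.lf 0 11678901 0) (P.cons (P.lf 68505 0 0) (P.cons (P.lf 4587 0 0) P.nil))) (P.cons (P.cons (P.lf 0 990963 0) (P.cons (P.lf 182301 0 0) P.nil)) (P.cons (P.cons (P.lf 64359 0 0) P.nil) P.nil)))))) 128640)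
 (EL.cons 8 (TM.mk (P.cons (P.cons (P.lf 0 1802723583 0) (P.cons (P.lf 116092533 0 0) (P.cons (P.lf 7761675 0 0) (P.lf 0 2587224 0)))) (P.cons (P.cons (P.lf 0 195893268 0) (P.cons (P.lf 42612084 0 0) (P.cons (P.lf 2848944 0 0) (P.lf 0 949647 0)))) (P.cons (P.cons (P.lf 70938642 0 0) (P.cons (P.lf 619212 0 0) (P.cons (P.lf 41397 0 0) (P.lf 0 13800 0)))) (P.cons (P.cons (P.lf 6016596 0 0) (P.cons (P.lf 0 1126521 0) (P.cons (P.lf 0 75312 0) P.nil))) (P.cons (P.cons (P.lf 0 592689 0) (P.cons (P.lf 0 86262 0) P.nil)) (P.cons (P.cons (P.lf 0 100782 0) P.nil) P.nil)))))) 75393)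
 (EL.cons 11 (TM.mk (P.cons (P.cons (P.lf 0 301120161 0) (P.cons (P.lf 0 46620960 0) (P.cons (P.lf 22460508 0 0) (P.cons (P.lf 849969 0 0) (P.lf 0 212490 0))))) (P.cons (P.cons (P.lf 0 129502422 0) (P.cons (P.lf 0 20050227 0) (P.cons (P.lf 9659565 0 0) (P.cons (P.lf 365544 0 0) (P.lf 0 91383 0))))) (P.cons (P.cons (P.lf 0 12221148 0) (P.cons (P.lf 0 1892136 0) (P.cons (P.lf 911571 0 0) (P.cons (P.lf 34494 0 0) P.nil)))) (P.cons (P.cons (P.lf 1070763 0 0) (P.cons (P.lf 165783 0 0) (P.cons (P.lf 0 79869 0) P.nil))) (P.cons (P.cons (P.lf 191223 0 0) (P.cons (P.lf 29604 0 0) P.nil)) (P.cons (P.cons (P.lf 7545 0 0) P.nil) P.nil)))))) 41625)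
 EL.nil)))
noncomputable def S82_111_364_512_24 : EL := (EL.cons 4 (TM.mk (P.cons (P.cons (P.lf 0 524161218 0) (P.cons (P.lf 24304317 0 0) (P.cons (P.lf 2233545 0 0) (P.cons (P.lf 0 460260 0) (P.cons (P.lf 0 24405 0) (P.cons (P.lf 0 1812 0) P.nil)))))) (P.cons (P.cons (P.lf 0 92835237 0) (P.cons (P.lf 4651026 0 0) (P.cons (P.lf 1115373 0 0) (P.cons (P.lf 3912 0 0) (P.cons (P.lf 0 32256 0) P.nil))))) (P.cons (P.cons (P.lf 46703805 0 0) (P.cons (P.lf 0 4980300 0) (P.cons (P.lf 106965 0 0) (P.cons (P.lf 169818 0 0) P.nil)))) (P.cons (P.cons (P.lf 10047333 0 0) (P.cons (P.lf 0 1932852 0) (P.cons (P.lf 0 5916 0) P.nil))) (P.cons (P.cons (P.lf 0 763407 0) (P.cons (P.lf 0 132615 0) P.nil)) (P.cons (P.cons (P.lf 0 291237 0) P.nil) P.nil)))))) 322233)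
 (EL.cons 8 (TM.mk (P.cons (P.cons (P.lf 845891592 0 0) (P.cons (P.lf 0 39222321 0) (P.cons (P.lf 0 3604503 0) (P.cons (P.lf 742770 0 0) (P.cons (P.lf 39387 0 0) (P.cons (P.lf 2925 0 0) P.nil)))))) (P.cons (P.cons (P.lf 0 72056919 0) (P.cons (P.lf 2782044 0 0) (P.cons (P.lf 0 854547 0) (P.cons (P.lf 0 201135 0) (P.cons (P.lf 41727 0 0) P.nil))))) (P.cons (P.cons (P.lf 0 70050951 0) (P.cons (P.lf 7937193 0 0) (P.cons (P.lf 109386 0 0) (P.cons (P.lf 0 233214 0) P.nil)))) (P.cons (P.cons (P.lf 2081988 0 0) (P.cons (P.lf 1049913 0 0) (P.cons (P.lf 0 168 0) P.nil))) (P.cons (P.cons (P.lf 1803462 0 0) (P.cons (P.lf 0 187653 0) P.nil)) (P.cons (P.cons (P.lf 65124 0 0) P.nil) P.nil)))))) 246342)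
 (EL.cons 11 (TM.mk (P.cons (P.cons (P.lf 141294546 0 0) (P.cons (P.lf 24423537 0 0) (P.cons (P.lf 0 9974379 0) (P.cons (P.lf 0 619260 0) (P.cons (P.lf 71019 0 0) (P.cons (P.lf 5550 0 0) P.nil)))))) (P.cons (P.cons (P.lf 33376479 0 0) (P.cons (P.lf 8027025 0 0) (P.cons (P.lf 0 1855641 0) (P.cons (P.lf 0 341628 0) (P.cons (P.lf 0 8643 0) P.nil))))) (P.cons (P.cons (P.lf 0 9209682 0) (P.cons (P.lf 0 132231 0) (P.cons (P.lf 973728 0 0) (P.cons (P.lf 0 85935 0) P.nil)))) (P.cons (P.cons (P.lf 0 2889681 0) (P.cons (P.lf 0 159846 0) (P.cons (P.lf 279285 0 0) P.nil))) (P.cons (P.cons (P.lf 0 54474 0) (P.cons (P.lf 17730 0 0) P.nil)) (P.cons (P.cons (P.lf 42855 0 0) P.nil) P.nil)))))) 164877)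
 EL.nil)))
noncomputable def S82_111_364_512_25 : EL := (EL.cons 4 (TM.mk (P.cons (P.cons (P.lf 0 937206033 0) (P.cons (P.lf 60354573 0 0) (P.cons (P.lf 4035159 0 0) (P.lf 0 1345050 0)))) (P.cons (P.cons (P.lf 0 318138021 0) (P.cons (P.lf 36082449 0 0) (P.cons (P.lf 2412384 0 0) (P.lf 0 804123 0)))) (P.cons (P.cons (P.lf 10359381 0 0) (P.cons (P.lf 5628903 0 0) (P.cons (P.lf 376329 0 0) (P.lf 0 125439 0)))) (P.cons (P.cons (P.lf 11716395 0 0) (P.cons (P.lf 0 466140 0) (P.cons (P.lf 0 31173 0) P.nil))) (P.cons (P.cons (P.lf 608631 0 0) (P.cons (P.lf 0 190611 0) P.nil)) (P.cons (P.cons (P.lf 0 125058 0) P.nil) P.nil)))))) 133746)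
 (EL.cons 8 (TM.mk (P.cons (P.cons (P.lf 1512463485 0 0) (P.cons (P.lf 0 97400244 0) (P.cons (P.lf 0 6511953 0) (P.lf 2170650 0 0)))) (P.cons (P.cons (P.lf 116697282 0 0) (P.cons (P.lf 0 32682132 0) (P.cons (P.lf 0 2185050 0) (P.lf 728349 0 0)))) (P.cons (P.cons (P.lf 0 71609553 0) (P.cons (P.lf 1052211 0 0) (P.cons (P.lf 70347 0 0) (P.lf 0 23448 0)))) (P.cons (P.cons (P.lf 0 4206012 0) (P.cons (P.lf 1143111 0 0) (P.cons (P.lf 76422 0 0) P.nil))) (P.cons (P.cons (P.lf 899661 0 0) (P.cons (P.lf 51513 0 0) P.nil)) (P.cons (P.cons (P.lf 104145 0 0) P.nil) P.nil)))))) 82743)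
 (EL.cons 11 (TM.mk (P.cons (P.cons (P.lf 252636207 0 0) (P.cons (P.lf 39114426 0 0) (P.cons (P.lf 0 18844095 0) (P.cons (P.lf 0 713115 0) (P.lf 178278 0 0))))) (P.cons (P.cons (P.lf 100690899 0 0) (P.cons (P.lf 15589479 0 0) (P.cons (P.lf 0 7510518 0) (P.cons (P.lf 0 284217 0) (P.lf 71052 0 0))))) (P.cons (P.cons (P.lf 5675046 0 0) (P.cons (P.lf 878637 0 0) (P.cons (P.lf 0 423300 0) (P.cons (P.lf 0 16017 0) P.nil)))) (P.cons (P.cons (P.lf 0 1765251 0) (P.cons (P.lf 0 273306 0) (P.cons (P.lf 131670 0 0) P.nil))) (P.cons (P.cons (P.lf 0 198945 0) (P.cons (P.lf 0 30798 0) P.nil)) (P.cons (P.cons (P.lf 1200 0 0) P.nil) P.nil)))))) 48468)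
 EL.nil)))
noncomputable def S82_111_364_512_26 : EL := (EL.cons 4 (TM.mk (P.cons (P.cons (P.lf 439764981 0 0) (P.cons (P.lf 0 20391030 0) (P.cons (P.lf 0 1873917 0) (P.cons (P.lf 386151 0 0) (P.cons (P.lf 20475 0 0) (P.cons (P.lf 1521 0 0) P.nil)))))) (P.cons (P.cons (P.lf 64031499 0 0) (P.cons (P.lf 0 3259674 0) (P.cons (P.lf 0 876741 0) (P.cons (P.lf 0 15447 0) (P.cons (P.lf 26418 0 0) P.nil))))) (P.cons (P.cons (P.lf 0 43648479 0) (P.cons (P.lf 4394583 0 0) (P.cons (P.lf 0 51690 0) (P.cons (P.lf 0 144135 0) P.nil)))) (P.cons (P.cons (P.lf 0 7633068 0) (P.cons (P.lf 1511628 0 0) (P.cons (P.lf 12417 0 0) P.nil))) (P.cons (P.cons (P.lf 1071255 0 0) (P.cons (P.lf 41766 0 0) P.nil)) (P.cons (P.cons (P.lf 270360 0 0) P.nil) P.nil)))))) 286533)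
 (EL.cons 8 (TM.mk (P.cons (P.cons (P.lf 0 709692909 0) (P.cons (P.lf 32907057 0 0) (P.cons (P.lf 3024135 0 0) (P.cons (P.lf 0 623175 0) (P.cons (P.lf 0 33045 0) (P.cons (P.lf 0 2454 0) P.nil)))))) (P.cons (P.cons (P.lf 82815954 0 0) (P.cons (P.lf 0 3370938 0) (P.cons (P.lf 621669 0 0) (P.cons (P.lf 188385 0 0) (P.cons (P.lf 0 33966 0) P.nil))))) (P.cons (P.cons (P.lf 60111561 0 0) (P.cons (P.lf 0 6736104 0) (P.cons (P.lf 0 128187 0) (P.cons (P.lf 193197 0 0) P.nil)))) (P.cons (P.cons (P.lf 0 3742584 0) (P.cons (P.lf 0 666510 0) (P.cons (P.lf 0 807 0) P.nil))) (P.cons (P.cons (P.lf 0 1738902 0) (P.cons (P.lf 216114 0 0) P.nil)) (P.cons (P.cons (P.lf 0 10272 0) P.nil) P.nil)))))) 219609)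
 (EL.cons 11 (TM.mk (P.cons (P.cons (P.lf 0 118544433 0) (P.cons (P.lf 0 20491056 0) (P.cons (P.lf 8368386 0 0) (P.cons (P.lf 519552 0 0) (P.cons (P.lf 0 59586 0) (P.cons (P.lf 0 4656 0) P.nil)))))) (P.cons (P.cons (P.lf 0 24267357 0) (P.cons (P.lf 0 6088944 0) (P.cons (P.lf 1293189 0 0) (P.cons (P.lf 270252 0 0) (P.cons (P.lf 9129 0 0) P.nil))))) (P.cons (P.cons (P.lf 9151062 0 0) (P.cons (P.lf 416811 0 0) (P.cons (P.lf 0 904257 0) (P.cons (P.lf 60693 0 0) P.nil)))) (P.cons (P.cons (P.lf 2331075 0 0) (P.cons (P.lf 165222 0 0) (P.cons (P.lf 0 217254 0) P.nil))) (P.cons (P.cons (P.lf 0 60936 0) (P.cons (P.lf 0 18378 0) P.nil)) (P.cons (P.cons (P.lf 0 50025 0) P.nil) P.nil)))))) 144744)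
 EL.nil)))
noncomputable def S82_111_364_512_27 : EL := (EL.cons 13 (TM.mk (P.lf 0 4294967296 0) 0)
 EL.nil)
noncomputable def S82_111_364_512_28 : EL := (EL.cons 13 (TM.mk (P.cons (P.cons (P.lf 2015326566 0 0) (P.cons (P.lf 36337112 0 0) (P.cons (P.lf 2429412 0 0) (P.lf 0 809804 0)))) (P.cons (P.cons (P.lf 0 390670557 0) (P.cons (P.lf 25158560 0 0) (P.cons (P.lf 1682040 0 0) (P.lf 0 560680 0)))) (P.cons (P.cons (P.lf 0 45138524 0) (P.cons (P.lf 6157176 0 0) (P.cons (P.lf 411652 0 0) (P.lf 0 137216 0)))) (P.cons (P.cons (P.lf 1218257 0 0) (P.cons (P.lf 561540 0 0) (P.cons (P.lf 37540 0 0) P.nil))) (P.cons (P.cons (P.lf 421655 0 0) (P.cons (P.lf 0 5660 0) P.nil)) (P.cons (P.cons (P.lf 22408 0 0) P.nil) P.nil)))))) 24741)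
 EL.nil)
noncomputable def S82_111_364_512_29 : EL := (EL.cons 13 (TM.mk (P.cons (P.cons (P.lf 0 945651244 0) (P.cons (P.lf 0 34100910 0) (P.cons (P.lf 0 2587331 0) (P.cons (P.lf 718860 0 0) (P.cons (P.lf 12328 0 0) (P.cons (P.lf 916 0 0) P.nil)))))) (P.cons (P.cons (P.lf 366628520 0 0) (P.cons (P.lf 0 16999838 0) (P.cons (P.lf 0 1562270 0) (P.cons (P.lf 321932 0 0) (P.cons (P.lf 17071 0 0) P.nil))))) (P.cons (P.cons (P.lf 6825255 0 0) (P.cons (P.lf 0 437632 0) (P.cons (P.lf 0 280812 0) (P.cons (P.lf 0 23885 0) P.nil)))) (P.cons (P.cons (P.lf 0 9354892 0) (P.cons (P.lf 1101332 0 0) (P.cons (P.lf 0 8000 0) P.nil))) (P.cons (P.cons (P.lf 0 648469 0) (P.cons (P.lf 215479 0 0) P.nil)) (P.cons (P.cons (P.lf 81285 0 0) P.nil) P.nil)))))) 176231)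
 EL.nil)
noncomputable def S82_111_364_512_30 : EL := (EL.cons 13 (TM.mk (P.cons (P.lf 3603426100 0 0) (P.cons (P.lf 0 113537048 0) (P.cons (P.lf 0 16473628 0) (P.cons (P.lf 0 671992 0) (P.cons (P.lf 4560 0 0) (P.cons (P.lf 2084 0 0) P.nil)))))) 368)
 EL.nil)
noncomputable def S82_111_364_512_31 : EL := (EL.cons 13 (TM.mk (P.cons (P.cons (P.lf 0 1690834841 0) (P.cons (P.lf 0 30486401 0) (P.cons (P.lf 0 2038247 0) (P.lf 679415 0 0)))) (P.cons (P.cons (P.lf 381042880 0 0) (P.cons (P.lf 0 20147162 0) (P.cons (P.lf 0 1346990 0) (P.lf 448996 0 0)))) (P.cons (P.cons (P.lf 35273259 0 0) (P.cons (P.lf 0 4361359 0) (P.cons (P.lf 0 291588 0) (P.lf 97195 0 0)))) (P.cons (P.cons (P.lf 0 3398459 0) (P.cons (P.lf 0 206178 0) (P.cons (P.lf 0 13781 0) P.nil))) (P.cons (P.cons (P.lf 0 557954 0) (P.cons (P.lf 47106 0 0) P.nil)) (P.cons (P.cons (P.lf 0 10606 0) P.nil) P.nil))))))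 37605)
 EL.nil)
noncomputable def S82_111_364_512_32 : EL := (EL.cons 13 (TM.mk (P.cons (P.cons (P.lf 793390063 0 0) (P.cons (P.lf 28610254 0 0) (P.cons (P.lf 2170739 0 0) (P.cons (P.lf 0 603114 0) (P.cons (P.lf 0 10343 0) (P.cons (P.lf 0 768 0) P.nil)))))) (P.cons (P.cons (P.lf 0 332595135 0) (P.cons (P.lf 13361206 0 0) (P.cons (P.lf 1242329 0 0) (P.cons (P.lf 0 251094 0) (P.cons (P.lf 0 13996 0) P.nil))))) (P.cons (P.cons (P.lf 338375 0 0) (P.cons (P.lf 0 213017 0) (P.cons (P.lf 184375 0 0) (P.cons (P.lf 31306 0 0) P.nil)))) (P.cons (P.cons (P.lf 9287338 0 0) (P.cons (P.lf 0 1006112 0) (P.cons (P.lf 0 7108 0) P.nil))) (P.cons (P.cons (P.lf 381307 0 0) (P.cons (P.lf 0 155972 0) P.nil)) (P.cons (P.cons (P.lf 0 120083 0) P.nil) P.nil)))))) 175493)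
 EL.nil)
noncomputable def S82_111_364_512_33 : EL := (EL.cons 14 (TM.mk (P.lf 8589934592 0 0) 0)
 EL.nil)
noncomputable def S82_111_364_512_34 : EL := (EL.cons 14 (TM.mk (P.cons (P.cons (P.lf 0 4030653132 0) (P.cons (P.lf 0 72674224 0) (P.cons (P.lf 0 4858824 0) (P.lf 1619608 0 0)))) (P.cons (P.cons (P.lf 781341114 0 0) (P.cons (P.lf 0 50317120 0) (P.cons (P.lf 0 3364080 0) (P.lf 1121360 0 0)))) (P.cons (P.cons (P.lf 90277048 0 0) (P.cons (P.lf 0 12314352 0) (P.cons (P.lf 0 823304 0) (P.lf 274432 0 0)))) (P.cons (P.cons (P.lf 0 2436514 0) (P.cons (P.lf 0 1123080 0) (P.cons (P.lf 0 75080 0) P.nil))) (P.cons (P.cons (P.lf 0 843310 0) (P.cons (P.lf 11320 0 0) P.nil)) (P.cons (P.cons (P.lf 0 44816 0) P.nil) P.nil)))))) 49482)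
 EL.nil)
noncomputable def S82_111_364_512_35 : EL := (EL.cons 14 (TM.mk (P.cons (P.cons (P.lf 1891302488 0 0) (P.cons (P.lf 68201820 0 0) (P.cons (P.lf 5174662 0 0) (P.cons (P.lf 0 1437720 0) (P.cons (P.lf 0 24656 0) (P.cons (P.lf 0 1832 0) P.nil)))))) (P.cons (P.cons (P.lf 0 733257040 0) (P.cons (P.lf 33999676 0 0) (P.cons (P.lf 3124540 0 0) (P.cons (P.lf 0 643864 0) (P.cons (P.lf 0 34142 0) P.nil))))) (P.cons (P.cons (P.lf 0 13650510 0) (P.cons (P.lf 875264 0 0) (P.cons (P.lf 561624 0 0) (P.cons (P.lf 47770 0 0) P.nil)))) (P.cons (P.cons (P.lf 18709784 0 0) (P.cons (P.lf 0 2202664 0) (P.cons (P.lf 16000 0 0) P.nil))) (P.cons (P.cons (P.lf 1296938 0 0) (P.cons (P.lf 0 430958 0) P.nil)) (P.cons (P.cons (P.lf 0 162570 0) P.nil) P.nil)))))) 352462)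
 EL.nil)
noncomputable def S82_111_364_512_36 : EL := (EL.cons 14 (TM.mk (P.cons (P.lf 0 7206852200 0) (P.cons (P.lf 227074096 0 0) (P.cons (P.lf 32947256 0 0) (P.cons (P.lf 1343984 0 0) (P.cons (P.lf 0 9120 0) (P.cons (P.lf 0 4168 0) P.nil)))))) 736)
 EL.nil)
noncomputable def S82_111_364_512_37 : EL := (EL.cons 14 (TM.mk (P.cons (P.cons (P.lf 3381669682 0 0) (P.cons (P.lf 60972802 0 0) (P.cons (P.lf 4076494 0 0) (P.lf 0 1358830 0)))) (P.cons (P.cons (P.lf 0 762085760 0) (P.cons (P.lf 40294324 0 0) (P.cons (P.lf 2693980 0 0) (P.lf 0 897992 0)))) (P.cons (P.cons (P.lf 0 70546518 0) (P.cons (P.lf 8722718 0 0) (P.cons (P.lf 583176 0 0) (P.lf 0 194390 0)))) (P.cons (P.cons (P.lf 6796918 0 0) (P.cons (P.lf 412356 0 0) (P.cons (P.lf 27562 0 0) P.nil))) (P.cons (P.cons (P.lf 1115908 0 0) (P.cons (P.lf 0 94212 0) P.nil)) (P.cons (P.cons (P.lf 21212 0 0) P.nil) P.nil))))))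 75210)
 EL.nil)
noncomputable def S82_111_364_512_38 : EL := (EL.cons 14 (TM.mk (P.cons (P.cons (P.lf 0 1586780126 0) (P.cons (P.lf 0 57220508 0) (P.cons (P.lf 0 4341478 0) (P.cons (P.lf 1206228 0 0) (P.cons (P.lf 20686 0 0) (P.cons (P.lf 1536 0 0) P.nil)))))) (P.cons (P.cons (P.lf 665190270 0 0) (P.cons (P.lf 0 26722412 0) (P.cons (P.lf 0 2484658 0) (P.cons (P.lf 502188 0 0) (P.cons (P.lf 27992 0 0) P.nil))))) (P.cons (P.cons (P.lf 0 676750 0) (P.cons (P.lf 426034 0 0) (P.cons (P.lf 0 368750 0) (P.cons (P.lf 0 62612 0) P.nil)))) (P.cons (P.cons (P.lf 0 18574676 0) (P.cons (P.lf 2012224 0 0) (P.cons (P.lf 14216 0 0) P.nil))) (P.cons (P.cons (P.lf 0 762614 0) (P.cons (P.lf 311944 0 0) P.nil)) (P.cons (P.cons (P.lf 240166 0 0) P.nil) P.nil)))))) 350986)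
 EL.nil)
noncomputable def S82_111_364_512_39 : EL := (EL.cons 14 (TM.mk (P.cons (P.lf 6046462644 0 0) (P.cons (P.lf 0 381024890 0) (P.cons (P.lf 0 49282024 0) (P.cons (P.lf 0 513256 0) (P.cons (P.lf 212730 0 0) (P.cons (P.lf 16820 0 0) P.nil)))))) 1830)
 EL.nil)
noncomputable def S82_111_364_512_40 : EL := (EL.cons 14 (TM.mk (P.cons (P.cons (P.lf 0 2837180344 0) (P.cons (P.lf 0 51155450 0) (P.cons (P.lf 0 3420130 0) (P.lf 1140042 0 0)))) (P.cons (P.cons (P.lf 728774934 0 0) (P.cons (P.lf 0 32194644 0) (P.cons (P.lf 0 2152454 0) (P.lf 717484 0 0)))) (P.cons (P.cons (P.lf 52012634 0 0) (P.cons (P.lf 0 6019214 0) (P.cons (P.lf 0 402426 0) (P.lf 134140 0 0)))) (P.cons (P.cons (P.lf 0 9961356 0) (P.cons (P.lf 48712 0 0) (P.cons (P.lf 3260 0 0) P.nil))) (P.cons (P.cons (P.lf 0 1149970 0) (P.cons (P.lf 129640 0 0) P.nil)) (P.cons (P.cons (P.lf 25902 0 0) P.nil) P.nil))))))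 88826)
 EL.nil)
noncomputable def S82_111_364_512_41 : EL := (EL.cons 14 (TM.mk (P.cons (P.cons (P.lf 1331289512 0 0) (P.cons (P.lf 48007322 0 0) (P.cons (P.lf 3642448 0 0) (P.cons (P.lf 0 1012012 0) (P.cons (P.lf 0 17354 0) (P.cons (P.lf 0 1288 0) P.nil)))))) (P.cons (P.cons (P.lf 0 600033046 0) (P.cons (P.lf 20907164 0 0) (P.cons (P.lf 1969832 0 0) (P.cons (P.lf 0 389442 0) (P.cons (P.lf 0 22938 0) P.nil))))) (P.cons (P.cons (P.lf 12065826 0 0) (P.cons (P.lf 0 1283314 0) (P.cons (P.lf 227044 0 0) (P.cons (P.lf 70432 0 0) P.nil)))) (P.cons (P.cons (P.lf 17869152 0 0) (P.cons (P.lf 0 1788418 0) (P.cons (P.lf 0 31884 0) P.nil))) (P.cons (P.cons (P.lf 251968 0 0) (P.cons (P.lf 0 211010 0) P.nil)) (P.cons (P.cons (P.lf 0 292942 0) P.nil) P.nil)))))) 333822)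
 EL.nil)
noncomputable def S82_111_364_512_42 : EL := (EL.cons 14 (TM.mk (P.cons (P.lf 0 5072909710 0) (P.cons (P.lf 479512976 0 0) (P.cons (P.lf 54466274 0 0) (P.cons (P.lf 0 1387564 0) (P.cons (P.lf 0 447104 0) (P.cons (P.lf 0 20696 0) P.nil)))))) 3862)
 EL.nil)
noncomputable def S82_111_364_512_43 : EL := (EL.cons 14 (TM.mk (P.cons (P.cons (P.lf 2380360314 0 0) (P.cons (P.lf 42918810 0 0) (P.cons (P.lf 2869448 0 0) (P.lf 0 956482 0)))) (P.cons (P.cons (P.lf 0 686434028 0) (P.cons (P.lf 25658632 0 0) (P.cons (P.lf 1715472 0 0) (P.lf 0 571824 0)))) (P.cons (P.cons (P.lf 0 35255072 0) (P.cons (P.lf 4002776 0 0) (P.cons (P.lf 267612 0 0) (P.lf 0 89202 0)))) (P.cons (P.cons (P.lf 12083766 0 0) (P.cons (P.lf 0 331474 0) (P.cons (P.lf 0 22164 0) P.nil))) (P.cons (P.cons (P.lf 1018018 0 0) (P.cons (P.lf 0 135548 0) P.nil)) (P.cons (P.cons (P.lf 0 81598 0) P.nil)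 P.nil)))))) 99808)
 EL.nil)
noncomputable def S82_111_364_512_44 : EL := (EL.cons 14 (TM.mk (P.cons (P.cons (P.lf 0 1116935950 0) (P.cons (P.lf 0 40277568 0) (P.cons (P.lf 0 3055970 0) (P.cons (P.lf 849066 0 0) (P.cons (P.lf 14560 0 0) (P.cons (P.lf 1080 0 0) P.nil)))))) (P.cons (P.cons (P.lf 538613046 0 0) (P.cons (P.lf 0 16271790 0) (P.cons (P.lf 0 1556378 0) (P.cons (P.lf 299984 0 0) (P.cons (P.lf 18786 0 0) P.nil))))) (P.cons (P.cons (P.lf 0 20878652 0) (P.cons (P.lf 1813500 0 0) (P.cons (P.lf 0 124442 0) (P.cons (P.lf 0 73268 0) P.nil)))) (P.cons (P.cons (P.lf 0 16766218 0) (P.cons (P.lf 1554238 0 0) (P.cons (P.lf 40878 0 0) P.nil))) (P.cons (P.cons (P.lf 211954 0 0) (P.cons (P.lf 128056 0 0) P.nil)) (P.cons (P.cons (P.lf 322852 0 0) P.nil) P.nil)))))) 315710)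
 EL.nil)
noncomputable def S82_111_364_512_45 : EL := (EL.cons 14 (TM.mk (P.cons (P.cons (P.lf 0 887455452 0) (P.cons (P.lf 0 48003486 0) (P.cons (P.lf 0 4074918 0) (P.cons (P.lf 948862 0 0) (P.cons (P.lf 33664 0 0) (P.cons (P.lf 2856 0 0) P.nil)))))) (P.cons (P.cons (P.lf 516099060 0 0) (P.cons (P.lf 0 14625026 0) (P.cons (P.lf 0 2008524 0) (P.cons (P.lf 177300 0 0) (P.cons (P.lf 39166 0 0) P.nil))))) (P.cons (P.cons (P.lf 0 40414998 0) (P.cons (P.lf 5098032 0 0) (P.cons (P.lf 0 115660 0) (P.cons (P.lf 0 184782 0) P.nil)))) (P.cons (P.cons (P.lf 0 18263562 0) (P.cons (P.lf 2176722 0 0) (P.cons (P.lf 79308 0 0) P.nil))) (P.cons (P.cons (P.lf 972128 0 0) (P.cons (P.lf 0 7914 0) P.nil)) (P.cons (P.cons (P.lf 456876 0 0) P.nil) P.nil)))))) 531356)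
 EL.nil)
noncomputable def S82_111_364_512_46 : EL := (EL.cons 15 (TM.mk (P.lf 4294967296 0 0) 0)
 EL.nil)
noncomputable def S82_111_364_512_47 : EL := (EL.cons 15 (TM.mk (P.cons (P.cons (P.lf 0 2015326566 0) (P.cons (P.lf 0 36337112 0) (P.cons (P.lf 0 2429412 0) (P.lf 809804 0 0)))) (P.cons (P.cons (P.lf 390670557 0 0) (P.cons (P.lf 0 25158560 0) (P.cons (P.lf 0 1682040 0) (P.lf 560680 0 0)))) (P.cons (P.cons (P.lf 45138524 0 0) (P.cons (P.lf 0 6157176 0) (P.cons (P.lf 0 411652 0) (P.lf 137216 0 0)))) (P.cons (P.cons (P.lf 0 1218257 0) (P.cons (P.lf 0 561540 0) (P.cons (P.lf 0 37540 0) P.nil))) (P.cons (P.cons (P.lf 0 421655 0) (P.cons (P.lf 5660 0 0) P.nil)) (P.cons (P.cons (P.lf 0 22408 0) P.nil) P.nil)))))) 24741)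
 EL.nil)
noncomputable def S82_111_364_512_48 : EL := (EL.cons 15 (TM.mk (P.cons (P.cons (P.lf 945651244 0 0) (P.cons (P.lf 34100910 0 0) (P.cons (P.lf 2587331 0 0) (P.cons (P.lf 0 718860 0) (P.cons (P.lf 0 12328 0) (P.cons (P.lf 0 916 0) P.nil)))))) (P.cons (P.cons (P.lf 0 366628520 0) (P.cons (P.lf 16999838 0 0) (P.cons (P.lf 1562270 0 0) (P.cons (P.lf 0 321932 0) (P.cons (P.lf 0 17071 0) P.nil))))) (P.cons (P.cons (P.lf 0 6825255 0) (P.cons (P.lf 437632 0 0) (P.cons (P.lf 280812 0 0) (P.cons (P.lf 23885 0 0) P.nil)))) (P.cons (P.cons (P.lf 9354892 0 0) (P.cons (P.lf 0 1101332 0) (P.cons (P.lf 8000 0 0) P.nil))) (P.cons (P.cons (P.lf 648469 0 0) (P.cons (P.lf 0 215479 0) P.nil)) (P.cons (P.cons (P.lf 0 81285 0) P.nil) P.nil)))))) 176231)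
 EL.nil)
noncomputable def S82_111_364_512 : SL := (SL.cons S82_111_364_512_0 (SL.cons S82_111_364_512_1 (SL.cons S82_111_364_512_2 (SL.cons S82_111_364_512_3 (SL.cons S82_111_364_512_4 (SL.cons S82_111_364_512_5 (SL.cons S82_111_364_512_6 (SL.cons S82_111_364_512_7 (SL.cons S82_111_364_512_8 (SL.cons S82_111_364_512_9 (SL.cons S82_111_364_512_10 (SL.cons S82_111_364_512_11 (SL.cons S82_111_364_512_12 (SL.cons S82_111_364_512_13 (SL.cons S82_111_364_512_14 (SL.cons S82_111_364_512_15 (SL.cons S82_111_364_512_16 (SL.cons S82_111_364_512_17 (SL.cons S82_111_364_512_18 (SL.cons S82_111_364_512_19 (SL.cons S82_111_364_512_20 (SL.cons S82_111_364_512_21 (SL.cons S82_111_364_512_22 (SL.cons S82_111_364_512_23 (SL.cons S82_111_364_512_24 (SL.cons S82_111_364_512_25 (SL.cons S82_111_364_512_26 (SL.cons S82_111_364_512_27 (SL.cons S82_111_364_512_28 (SL.cons S82_111_364_512_29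 (SL.cons S82_111_364_512_30 (SL.cons S82_111_364_512_31 (SL.cons S82_111_364_512_32 (SL.cons S82_111_364_512_33 (SL.cons S82_111_364_512_34 (SL.cons S82_111_364_512_35 (SL.cons S82_111_364_512_36 (SL.cons S82_111_364_512_37 (SL.cons S82_111_364_512_38 (SL.cons S82_111_364_512_39 (SL.cons S82_111_364_512_40 (SL.cons S82_111_364_512_41 (SL.cons S82_111_364_512_42 (SL.cons S82_111_364_512_43 (SL.cons S82_111_364_512_44 (SL.cons S82_111_364_512_45 (SL.cons S82_111_364_512_46 (SL.cons S82_111_364_512_47 (SL.cons S82_111_364_512_48 SL.nil)))))))))))))))))))))))))))))))))))))))))))))))))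
theorem S82_96_216_364_ok : band (seq (shp 5 82 96 216 364) S82_96_216_364) (sok S82_96_216_364) = true := by decide +kernel

theorem S82_111_216_290_ok : band (seq (shp 5 82 111 216 290) S82_111_216_290) (sok S82_111_216_290) = true := by decide +kernel

theorem S82_111_216_364_ok : band (seq (shp 5 82 111 216 364) S82_111_216_364) (sok S82_111_216_364) = true := by decide +kernel

theorem S82_111_290_364_ok : band (seq (shp 5 82 111 290 364) S82_111_290_364) (sok S82_111_290_364) = true := by decide +kernel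

theorem S82_111_364_438_ok : band (seq (shp 5 82 111 364 438) S82_111_364_438) (sok S82_111_364_438) = true := by decide +kernel

theorem S82_111_364_512_ok : band (seq (shp 5 82 111 364 512) S82_111_364_512) (sok S82_111_364_512) = true := by decide +kernel

end Vale.Agent.P098.Ck
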