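import Vale.Agent.P098.CkDefs

namespace Vale.Agent.P098.Ck

noncomputable def S111_125_512_660_0 : EL := (EL.cons 0 (TM.mk (P.cons (P.lf 3733685306 0 0) (P.cons (P.lf 223761730 0 0) (P.cons (P.lf 9872342 0 0) (P.cons (P.lf 0 111610 0) (P.cons (P.lf 0 16268 0) (P.cons (P.lf 0 381 0) P.nil)))))) 224)
 (EL.cons 1 (TM.mk (P.cons (P.lf 0 1487432810 0) (P.cons (P.lf 0 91043581 0) (P.cons (P.lf 4753766 0 0) (P.cons (P.lf 282485 0 0) (P.cons (P.lf 2602 0 0) (P.cons (P.lf 0 234 0) P.nil)))))) 127)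
 (EL.cons 5 (TM.mk (P.cons (P.lf 5973911854 0 0) (P.cons (P.lf 0 79559726 0) (P.cons (P.lf 0 3510166 0) (P.cons (P.lf 39680 0 0) (P.cons (P.lf 5784 0 0) (P.cons (P.lf 134 0 0) P.nil)))))) 67)
 (EL.cons 9 (TM.mk (P.lf 6442450944 0 0) 2)
 EL.nil))))
noncomputable def S111_125_512_660_1 : EL := (EL.cons 0 (TM.mk (P.cons (P.cons (P.lf 0 3907469286 0) (P.cons (P.lf 216050394 0 0) (P.cons (P.lf 0 14444612 0) (P.lf 0 4814864 0)))) (P.cons (P.cons (P.lf 0 90789878 0) (P.cons (P.lf 36493248 0 0) (P.cons (P.lf 0 2439845 0) (P.lf 0 813271 0)))) (P.cons (P.cons (P.lf 39374312 0 0) (P.cons (P.lf 0 775115 0) (P.cons (P.lf 51838 0 0) (P.lf 17281 0 0)))) (P.cons (P.cons (P.lf 2753833 0 0) (P.cons (P.lf 0 495197 0) (P.cons (P.lf 33104 0 0) P.nil))) (P.cons (P.cons (P.lf 0 98772 0) (P.cons (P.lf 0 30290 0) P.nil)) (P.cons (P.cons (P.lf 0 13555 0) P.nil) P.nil)))))) 36149)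
 (EL.cons 1 (TM.mk (P.cons (P.cons (P.lf 1578570273 0 0) (P.cons (P.lf 0 88562918 0) (P.cons (P.lf 5921117 0 0) (P.lf 1973709 0 0)))) (P.cons (P.cons (P.lf 0 163720533 0) (P.cons (P.lf 7982606 0 0) (P.cons (P.lf 0 533696 0) (P.lf 0 177896 0)))) (P.cons (P.cons (P.lf 0 23917578 0) (P.cons (P.lf 3790356 0 0) (P.cons (P.lf 0 253402 0) (P.lf 0 84464 0)))) (P.cons (P.cons (P.lf 1214375 0 0) (P.cons (P.lf 214153 0 0) (P.cons (P.lf 0 14311 0) P.nil))) (P.cons (P.cons (P.lf 144905 0 0) (P.cons (P.lf 0 9611 0) P.nil)) (P.cons (P.cons (P.lf 578 0 0) P.nil) P.nil)))))) 14831)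
 (EL.cons 5 (TM.mk (P.cons (P.cons (P.lf 0 1209635350 0) (P.cons (P.lf 0 228027482 0) (P.cons (P.lf 15245380 0 0) (P.lf 5081792 0 0)))) (P.cons (P.cons (P.lf 370780071 0 0) (P.cons (P.lf 0 51489320 0) (P.cons (P.lf 3442454 0 0) (P.lf 1147486 0 0)))) (P.cons (P.cons (P.lf 0 7690928 0) (P.cons (P.lf 0 3058590 0) (P.cons (P.lf 204486 0 0) (P.lf 68158 0 0)))) (P.cons (P.cons (P.lf 0 1934609 0) (P.cons (P.lf 97280 0 0) (P.cons (P.lf 0 6498 0) P.nil))) (P.cons (P.cons (P.lf 0 5792 0) (P.cons (P.lf 15198 0 0) P.nil)) (P.cons (P.cons (P.lf 5141 0 0) P.nil) P.nil)))))) 10700)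
 (EL.cons 9 (TM.mk (P.cons (P.cons (P.lf 0 2293198014 0) (P.cons (P.lf 0 133420200 0) (P.cons (P.lf 8920158 0 0) (P.lf 2973384 0 0)))) (P.cons (P.cons (P.lf 298675789 0 0) (P.cons (P.lf 0 33982884 0) (P.cons (P.lf 2272014 0 0) (P.lf 757338 0 0)))) (P.cons (P.cons (P.lf 5566608 0 0) (P.cons (P.lf 0 2941926 0) (P.cons (P.lf 196686 0 0) (P.lf 65562 0 0)))) (P.cons (P.cons (P.lf 0 843061 0) (P.cons (P.lf 0 69516 0) (P.cons (P.lf 4644 0 0) P.nil))) (P.cons (P.cons (P.lf 0 36094 0) (P.cons (P.lf 3900 0 0) P.nil)) (P.cons (P.cons (P.lf 277 0 0) P.nil) P.nil)))))) 3706)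
 (EL.cons 2 (TM.mk (P.cons (P.cons (P.lf 483326057 0 0) (P.cons (P.lf 0 74831009 0) (P.cons (P.lf 0 36051221 0) (P.cons (P.lf 1364281 0 0) (P.lf 341069 0 0))))) (P.cons (P.cons (P.lf 70618980 0 0) (P.cons (P.lf 0 10933588 0) (P.cons (P.lf 0 5267455 0) (P.cons (P.lf 199333 0 0) (P.lf 49831 0 0))))) (P.cons (P.cons (P.lf 1035506 0 0) (P.cons (P.lf 0 160318 0) (P.cons (P.lf 0 77234 0) (P.cons (P.lf 2922 0 0) P.nil)))) (P.cons (P.cons (P.lf 0 245025 0) (P.cons (P.lf 37935 0 0) (P.cons (P.lf 18272 0 0) P.nil))) (P.cons (P.cons (P.lf 0 11221 0) (P.cons (P.lf 1735 0 0) P.nil)) (P.cons (P.cons (P.lf 28 0 0) P.nil) P.nil)))))) 6669)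
 (EL.cons 6 (TM.mk (P.cons (P.cons (P.lf 152246979 0 0) (P.cons (P.lf 0 23571654 0) (P.cons (P.lf 0 11356080 0) (P.cons (P.lf 429747 0 0) (P.lf 107436 0 0))))) (P.cons (P.cons (P.lf 38778174 0 0) (P.cons (P.lf 0 6003834 0) (P.cons (P.lf 0 2892456 0) (P.cons (P.lf 109458 0 0) (P.lf 27363 0 0))))) (P.cons (P.cons (P.lf 3357057 0 0) (P.cons (P.lf 0 519756 0) (P.cons (P.lf 0 250401 0) (P.cons (P.lf 9474 0 0) P.nil)))) (P.cons (P.cons (P.lf 79329 0 0) (P.cons (P.lf 0 12282 0) (P.cons (P.lf 0 5916 0) P.nil))) (P.cons (P.cons (P.lf 0 4455 0) (P.cons (P.lf 687 0 0) P.nil)) (P.cons (P.cons (P.lf 0 306 0) P.nil) P.nil)))))) 3375)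
 EL.nil))))))
noncomputable def S111_125_512_660_2 : EL := (EL.cons 0 (TM.mk (P.cons (P.cons (P.lf 2308674025 0 0) (P.cons (P.lf 0 47009352 0) (P.cons (P.lf 0 7406991 0) (P.cons (P.lf 2458316 0 0) (P.cons (P.lf 423065 0 0) (P.cons (P.lf 0 31430 0) P.nil)))))) (P.cons (P.cons (P.lf 0 202795138 0) (P.cons (P.lf 28885666 0 0) (P.cons (P.lf 0 6633696 0) (P.cons (P.lf 0 14954 0) (P.cons (P.lf 188573 0 0) P.nil))))) (P.cons (P.cons (P.lf 0 42795225 0) (P.cons (P.lf 7394278 0 0) (P.cons (P.lf 0 1272188 0) (P.cons (P.lf 0 60776 0) P.nil)))) (P.cons (P.cons (P.lf 1905857 0 0) (P.cons (P.lf 96412 0 0) (P.cons (P.lf 0 47966 0) P.nil))) (P.cons (P.cons (P.lf 433322 0 0) (P.cons (P.lf 0 88069 0) P.nil)) (P.cons (P.cons (P.lf 0 1851 0) P.nil) P.nil)))))) 271718)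
 (EL.cons 1 (TM.mk (P.cons (P.cons (P.lf 0 935328315 0) (P.cons (P.lf 19594699 0 0) (P.cons (P.lf 2996071 0 0) (P.cons (P.lf 0 1012487 0) (P.cons (P.lf 0 172685 0) (P.cons (P.lf 12836 0 0) P.nil)))))) (P.cons (P.cons (P.lf 225363702 0 0) (P.cons (P.lf 0 19695097 0) (P.cons (P.lf 2284470 0 0) (P.cons (P.lf 309519 0 0) (P.cons (P.lf 0 38809 0) P.nil))))) (P.cons (P.cons (P.lf 3249420 0 0) (P.cons (P.lf 0 1035313 0) (P.cons (P.lf 0 3738 0) (P.cons (P.lf 32816 0 0) P.nil)))) (P.cons (P.cons (P.lf 0 3259729 0) (P.cons (P.lf 465308 0 0) (P.cons (P.lf 0 74418 0) P.nil))) (P.cons (P.cons (P.lf 0 260 0) (P.cons (P.lf 36625 0 0) P.nil)) (P.cons (P.cons (P.lf 20375 0 0) P.nil) P.nil)))))) 109003)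
 (EL.cons 5 (TM.mk (P.cons (P.cons (P.lf 104240210 0 0) (P.cons (P.lf 124360880 0 0) (P.cons (P.lf 0 1431919 0) (P.cons (P.lf 0 3691793 0) (P.cons (P.lf 0 275989 0) (P.cons (P.lf 20499 0 0) P.nil)))))) (P.cons (P.cons (P.lf 0 168873474 0) (P.cons (P.lf 3127383 0 0) (P.cons (P.lf 3058111 0 0) (P.cons (P.lf 0 506565 0) (P.cons (P.lf 0 131011 0) P.nil))))) (P.cons (P.cons (P.lf 26417828 0 0) (P.cons (P.lf 0 4087818 0) (P.cons (P.lf 891107 0 0) (P.cons (P.lf 8484 0 0) P.nil)))) (P.cons (P.cons (P.lf 587529 0 0) (P.cons (P.lf 0 314320 0) (P.cons (P.lf 74211 0 0) P.nil))) (P.cons (P.cons (P.lf 0 208088 0) (P.cons (P.lf 26869 0 0) P.nil)) (P.cons (P.cons (P.lf 0 5011 0) P.nil) P.nil)))))) 104596)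
 (EL.cons 9 (TM.mk (P.cons (P.cons (P.lf 816266538 0 0) (P.cons (P.lf 94982154 0 0) (P.cons (P.lf 0 3587209 0) (P.cons (P.lf 0 2486223 0) (P.cons (P.lf 0 110803 0) (P.cons (P.lf 8233 0 0) P.nil)))))) (P.cons (P.cons (P.lf 0 212627998 0) (P.cons (P.lf 11821617 0 0) (P.cons (P.lf 617175 0 0) (P.cons (P.lf 0 451663 0) (P.cons (P.lf 0 56443 0) P.nil))))) (P.cons (P.cons (P.lf 9883902 0 0) (P.cons (P.lf 0 1287132 0) (P.cons (P.lf 387163 0 0) (P.cons (P.lf 0 11575 0) P.nil)))) (P.cons (P.cons (P.lf 1116319 0 0) (P.cons (P.lf 0 247096 0) (P.cons (P.lf 50437 0 0) P.nil))) (P.cons (P.cons (P.lf 0 47664 0) (P.cons (P.lf 0 3916 0) P.nil)) (P.cons (P.cons (P.lf 0 5001 0) P.nil) P.nil)))))) 46318)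
 (EL.cons 2 (TM.mk (P.cons (P.cons (P.lf 0 344080957 0) (P.cons (P.lf 33253447 0 0) (P.cons (P.lf 30102795 0 0) (P.cons (P.lf 760888 0 0) (P.cons (P.lf 0 468219 0) (P.cons (P.lf 0 43621 0) P.nil)))))) (P.cons (P.cons (P.lf 0 5459259 0) (P.cons (P.lf 0 7178675 0) (P.cons (P.lf 2185965 0 0) (P.cons (P.lf 678853 0 0) (P.cons (P.lf 0 94196 0) P.nil))))) (P.cons (P.cons (P.lf 6645926 0 0) (P.cons (P.lf 0 2258268 0) (P.cons (P.lf 0 223200 0) (P.cons (P.lf 125122 0 0) P.nil)))) (P.cons (P.cons (P.lf 265983 0 0) (P.cons (P.lf 0 116881 0) (P.cons (P.lf 0 3054 0) P.nil))) (P.cons (P.cons (P.lf 0 36838 0) (P.cons (P.lf 6868 0 0) P.nil)) (P.cons (P.cons (P.lf 0 2503 0) P.nil) P.nil)))))) 71847)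
 (EL.cons 6 (TM.mk (P.cons (P.cons (P.lf 0 108384978 0) (P.cons (P.lf 10474782 0 0) (P.cons (P.lf 9482334 0 0) (P.cons (P.lf 239676 0 0) (P.cons (P.lf 0 147486 0) (P.cons (P.lf 0 13740 0) P.nil)))))) (P.cons (P.cons (P.lf 0 13489752 0) (P.cons (P.lf 0 1123758 0) (P.cons (P.lf 1718310 0 0) (P.cons (P.lf 239862 0 0) (P.cons (P.lf 0 45684 0) P.nil))))) (P.cons (P.cons (P.lf 1468752 0 0) (P.cons (P.lf 0 914586 0) (P.cons (P.lf 42780 0 0) (P.cons (P.lf 63600 0 0) P.nil)))) (P.cons (P.cons (P.lf 281958 0 0) (P.cons (P.lf 0 121056 0) (P.cons (P.lf 0 3870 0) P.nil))) (P.cons (P.cons (P.lf 4470 0 0) (P.cons (P.lf 0 5058 0) P.nil)) (P.cons (P.cons (P.lf 0 1356 0) P.nil) P.nil)))))) 34938)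
 EL.nil))))))
noncomputable def S111_125_512_660_3 : EL := (EL.cons 0 (TM.mk (P.cons (P.lf 4722031557 0 0) (P.cons (P.lf 0 223761730 0) (P.cons (P.lf 0 9872342 0) (P.cons (P.lf 111610 0 0) (P.cons (P.lf 16268 0 0) (P.cons (P.lf 381 0 0) P.nil)))))) 224)
 (EL.cons 1 (TM.mk (P.cons (P.lf 1487432810 0 0) (P.cons (P.lf 91043581 0 0) (P.cons (P.lf 0 4753766 0) (P.cons (P.lf 0 282485 0) (P.cons (P.lf 0 2602 0) (P.cons (P.lf 234 0 0) P.nil)))))) 127)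
 (EL.cons 5 (TM.mk (P.cons (P.lf 468539090 0 0) (P.cons (P.lf 79559726 0 0) (P.cons (P.lf 3510166 0 0) (P.cons (P.lf 0 39680 0) (P.cons (P.lf 0 5784 0) (P.cons (P.lf 0 134 0) P.nil)))))) 60)
 EL.nil)))
noncomputable def S111_125_512_660_4 : EL := (EL.cons 0 (TM.mk (P.cons (P.cons (P.lf 0 1680812702 0) (P.cons (P.lf 0 97791103 0) (P.cons (P.lf 6538079 0 0) (P.lf 2179358 0 0)))) (P.cons (P.cons (P.lf 298564393 0 0) (P.cons (P.lf 0 20273946 0) (P.cons (P.lf 1355466 0 0) (P.lf 451821 0 0)))) (P.cons (P.cons (P.lf 0 2779574 0) (P.cons (P.lf 0 771542 0) (P.cons (P.lf 51579 0 0) (P.lf 17193 0 0)))) (P.cons (P.cons (P.lf 0 1308682 0) (P.cons (P.lf 100989 0 0) (P.cons (P.lf 0 6753 0) P.nil))) (P.cons (P.cons (P.lf 0 6319 0) (P.cons (P.lf 8854 0 0) P.nil)) (P.cons (P.cons (P.lf 3462 0 0) P.nil) P.nil)))))) 7656)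
 (EL.cons 1 (TM.mk (P.cons (P.cons (P.lf 0 529453462 0) (P.cons (P.lf 0 30804048 0) (P.cons (P.lf 2059485 0 0) (P.lf 686493 0 0)))) (P.cons (P.cons (P.lf 36551182 0 0) (P.cons (P.lf 0 9731435 0) (P.cons (P.lf 650619 0 0) (P.lf 216871 0 0)))) (P.cons (P.cons (P.lf 7198158 0 0) (P.cons (P.lf 0 1061021 0) (P.cons (P.lf 70935 0 0) (P.lf 23643 0 0)))) (P.cons (P.cons (P.lf 0 235815 0) (P.cons (P.lf 0 26698 0) (P.cons (P.lf 1783 0 0) P.nil))) (P.cons (P.cons (P.lf 0 36523 0) (P.cons (P.lf 3631 0 0) P.nil)) (P.cons (P.cons (P.lf 0 271 0) P.nil) P.nil)))))) 3255)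
 (EL.cons 5 (TM.mk (P.cons (P.cons (P.lf 0 166777040 0) (P.cons (P.lf 0 9703228 0) (P.cons (P.lf 648734 0 0) (P.lf 216244 0 0)))) (P.cons (P.cons (P.lf 0 6597632 0) (P.cons (P.lf 0 4119112 0) (P.cons (P.lf 275392 0 0) (P.lf 91796 0 0)))) (P.cons (P.cons (P.lf 2843828 0 0) (P.cons (P.lf 0 706314 0) (P.cons (P.lf 47220 0 0) (P.lf 15740 0 0)))) (P.cons (P.cons (P.lf 184288 0 0) (P.cons (P.lf 0 59078 0) (P.cons (P.lf 3948 0 0) P.nil))) (P.cons (P.cons (P.lf 0 9782 0) (P.cons (P.lf 0 1848 0) P.nil)) (P.cons (P.cons (P.lf 0 1138 0) P.nil) P.nil)))))) 1990)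
 EL.nil)))
noncomputable def S111_125_512_660_5 : EL := (EL.cons 0 (TM.mk (P.cons (P.cons (P.lf 598287264 0 0) (P.cons (P.lf 69617715 0 0) (P.cons (P.lf 0 2629265 0) (P.cons (P.lf 0 1822290 0) (P.cons (P.lf 0 81212 0) (P.cons (P.lf 6034 0 0) P.nil)))))) (P.cons (P.cons (P.lf 0 184197805 0) (P.cons (P.lf 5365764 0 0) (P.cons (P.lf 576952 0 0) (P.cons (P.lf 0 244696 0) (P.cons (P.lf 0 37520 0) P.nil))))) (P.cons (P.cons (P.lf 13378702 0 0) (P.cons (P.lf 0 1499552 0) (P.cons (P.lf 267834 0 0) (P.cons (P.lf 11012 0 0) P.nil)))) (P.cons (P.cons (P.lf 814890 0 0) (P.cons (P.lf 0 152875 0) (P.cons (P.lf 22512 0 0) P.nil))) (P.cons (P.cons (P.lf 0 90476 0) (P.cons (P.lf 8128 0 0) P.nil)) (P.cons (P.cons (P.lf 0 4037 0) P.nil) P.nil)))))) 42756)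
 (EL.cons 1 (TM.mk (P.cons (P.cons (P.lf 188459583 0 0) (P.cons (P.lf 21929475 0 0) (P.cons (P.lf 0 828213 0) (P.cons (P.lf 0 574018 0) (P.cons (P.lf 0 25580 0) (P.cons (P.lf 1899 0 0) P.nil)))))) (P.cons (P.cons (P.lf 0 37556206 0) (P.cons (P.lf 4071645 0 0) (P.cons (P.lf 91798 0 0) (P.cons (P.lf 0 139413 0) (P.cons (P.lf 0 14596 0) P.nil))))) (P.cons (P.cons (P.lf 0 1325133 0) (P.cons (P.lf 0 200195 0) (P.cons (P.lf 100755 0 0) (P.cons (P.lf 0 7220 0) P.nil)))) (P.cons (P.cons (P.lf 518514 0 0) (P.cons (P.lf 0 88125 0) (P.cons (P.lf 16816 0 0) P.nil))) (P.cons (P.cons (P.lf 6470 0 0) (P.cons (P.lf 0 4003 0) P.nil)) (P.cons (P.cons (P.lf 0 2968 0) P.nil) P.nil)))))) 15665)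
 (EL.cons 5 (TM.mk (P.cons (P.cons (P.lf 59364484 0 0) (P.cons (P.lf 6907750 0 0) (P.cons (P.lf 0 260886 0) (P.cons (P.lf 0 180814 0) (P.cons (P.lf 0 8058 0) (P.cons (P.lf 598 0 0) P.nil)))))) (P.cons (P.cons (P.lf 0 5383444 0) (P.cons (P.lf 2032710 0 0) (P.cons (P.lf 584 0 0) (P.cons (P.lf 0 63550 0) (P.cons (P.lf 0 5472 0) P.nil))))) (P.cons (P.cons (P.lf 0 1462238 0) (P.cons (P.lf 104130 0 0) (P.cons (P.lf 33824 0 0) (P.cons (P.lf 0 7772 0) P.nil)))) (P.cons (P.cons (P.lf 82366 0 0) (P.cons (P.lf 0 28008 0) (P.cons (P.lf 8806 0 0) P.nil))) (P.cons (P.cons (P.lf 16280 0 0) (P.cons (P.lf 0 4194 0) P.nil)) (P.cons (P.cons (P.lf 0 230 0) P.nil) P.nil)))))) 6534)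
 EL.nil)))
noncomputable def S111_125_512_660_6 : EL := (EL.cons 12 (TM.mk (P.lf 8589934592 0 0) 0)
 (EL.cons 3 (TM.mk (P.cons (P.lf 0 3184412906 0) (P.cons (P.lf 75449490 0 0) (P.cons (P.lf 4222650 0 0) (P.cons (P.lf 62415 0 0) (P.cons (P.lf 0 1207 0) (P.cons (P.lf 0 75 0) P.nil)))))) 70)
 (EL.cons 7 (TM.mk (P.cons (P.lf 0 1003085258 0) (P.cons (P.lf 0 85163854 0) (P.cons (P.lf 0 142133 0) (P.cons (P.lf 54543 0 0) (P.cons (P.lf 1571 0 0) (P.cons (P.lf 4 0 0) P.nil)))))) 45)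
 EL.nil)))
noncomputable def S111_125_512_660_7 : EL := (EL.cons 12 (TM.mk (P.cons (P.cons (P.lf 0 3057597352 0) (P.cons (P.lf 0 177893600 0) (P.cons (P.lf 11893544 0 0) (P.lf 3964512 0 0)))) (P.cons (P.cons (P.lf 398234386 0 0) (P.cons (P.lf 0 45310512 0) (P.cons (P.lf 3029352 0 0) (P.lf 1009784 0 0)))) (P.cons (P.cons (P.lf 7422144 0 0) (P.cons (P.lf 0 3922568 0) (P.cons (P.lf 262248 0 0) (P.lf 87416 0 0)))) (P.cons (P.cons (P.lf 0 1124082 0) (P.cons (P.lf 0 92688 0) (P.cons (P.lf 6192 0 0) P.nil))) (P.cons (P.cons (P.lf 0 48126 0) (P.cons (P.lf 5200 0 0) P.nil)) (P.cons (P.cons (P.lf 370 0 0) P.nil) P.nil)))))) 4916)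
 (EL.cons 3 (TM.mk (P.cons (P.cons (P.lf 2872340329 0 0) (P.cons (P.lf 0 131895454 0) (P.cons (P.lf 8818216 0 0) (P.lf 2939402 0 0)))) (P.cons (P.cons (P.lf 0 9043615 0) (P.cons (P.lf 0 30469472 0) (P.cons (P.lf 2037114 0 0) (P.lf 679036 0 0)))) (P.cons (P.cons (P.lf 0 14282404 0) (P.cons (P.lf 0 1937436 0) (P.cons (P.lf 129526 0 0) (P.lf 43174 0 0)))) (P.cons (P.cons (P.lf 0 1132331 0) (P.cons (P.lf 47316 0 0) (P.cons (P.lf 0 3166 0) P.nil))) (P.cons (P.cons (P.lf 0 3847 0) (P.cons (P.lf 9946 0 0) P.nil)) (P.cons (P.cons (P.lf 2783 0 0) P.nil) P.nil)))))) 14990)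
 (EL.cons 7 (TM.mk (P.cons (P.cons (P.lf 0 1605677241 0) (P.cons (P.lf 244089573 0 0) (P.cons (P.lf 0 16319262 0) (P.lf 0 5439755 0)))) (P.cons (P.cons (P.lf 10208006 0 0) (P.cons (P.lf 34392526 0 0) (P.cons (P.lf 0 2299403 0) (P.lf 0 766468 0)))) (P.cons (P.cons (P.lf 15567041 0 0) (P.cons (P.lf 319461 0 0) (P.cons (P.lf 0 21359 0) (P.lf 0 7120 0)))) (P.cons (P.cons (P.lf 137373 0 0) (P.cons (P.lf 0 122855 0) (P.cons (P.lf 8211 0 0) P.nil))) (P.cons (P.cons (P.lf 0 38821 0) (P.cons (P.lf 0 3637 0) P.nil)) (P.cons (P.cons (P.lf 0 1412 0) P.nil) P.nil)))))) 8332)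
 (EL.cons 10 (TM.mk (P.cons (P.cons (P.lf 0 651884565 0) (P.cons (P.lf 100928100 0 0) (P.cons (P.lf 48623976 0 0) (P.cons (P.lf 0 1840074 0) (P.lf 0 460017 0))))) (P.cons (P.cons (P.lf 0 110692485 0) (P.cons (P.lf 17137974 0 0) (P.cons (P.lf 8256534 0 0) (P.cons (P.lf 0 312450 0) (P.lf 0 78111 0))))) (P.cons (P.cons (P.lf 0 4883739 0) (P.cons (P.lf 756123 0 0) (P.cons (P.lf 364275 0 0) (P.cons (P.lf 0 13785 0) P.nil)))) (P.cons (P.cons (P.lf 55206 0 0) (P.cons (P.lf 0 8547 0) (P.cons (P.lf 0 4116 0) P.nil))) (P.cons (P.cons (P.lf 8046 0 0) (P.cons (P.lf 0 1245 0) P.nil)) (P.cons (P.cons (P.lf 186 0 0) P.nil) P.nil)))))) 4515)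
 EL.nil))))
noncomputable def S111_125_512_660_8 : EL := (EL.cons 12 (TM.mk (P.cons (P.cons (P.lf 1088355384 0 0) (P.cons (P.lf 126642872 0 0) (P.cons (P.lf 0 4782946 0) (P.cons (P.lf 0 3314964 0) (P.cons (P.lf 0 147738 0) (P.cons (P.lf 10978 0 0) P.nil)))))) (P.cons (P.cons (P.lf 0 283503998 0) (P.cons (P.lf 15762156 0 0) (P.cons (P.lf 822900 0 0) (P.cons (P.lf 0 602218 0) (P.cons (P.lf 0 75258 0) P.nil))))) (P.cons (P.cons (P.lf 13178536 0 0) (P.cons (P.lf 0 1716176 0) (P.cons (P.lf 516218 0 0) (P.cons (P.lf 0 15434 0) P.nil)))) (P.cons (P.cons (P.lf 1488426 0 0) (P.cons (P.lf 0 329462 0) (P.cons (P.lf 67250 0 0) P.nil))) (P.cons (P.cons (P.lf 0 63552 0) (P.cons (P.lf 0 5222 0) P.nil)) (P.cons (P.cons (P.lf 0 6668 0) P.nil) P.nil)))))) 61728)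
 (EL.cons 3 (TM.mk (P.cons (P.cons (P.lf 0 1641356784 0) (P.cons (P.lf 21875330 0 0) (P.cons (P.lf 5366200 0 0) (P.cons (P.lf 0 1400613 0) (P.cons (P.lf 0 273841 0) (P.cons (P.lf 20345 0 0) P.nil)))))) (P.cons (P.cons (P.lf 158106343 0 0) (P.cons (P.lf 0 15734996 0) (P.cons (P.lf 4368846 0 0) (P.cons (P.lf 0 92841 0) (P.cons (P.lf 0 133011 0) P.nil))))) (P.cons (P.cons (P.lf 21133449 0 0) (P.cons (P.lf 0 4447060 0) (P.cons (P.lf 950010 0 0) (P.cons (P.lf 11835 0 0) P.nil)))) (P.cons (P.cons (P.lf 0 718060 0) (P.cons (P.lf 0 203344 0) (P.cons (P.lf 75033 0 0) P.nil))) (P.cons (P.cons (P.lf 0 197650 0) (P.cons (P.lf 33936 0 0) P.nil)) (P.cons (P.cons (P.lf 0 2977 0) P.nil) P.nil)))))) 147937)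
 (EL.cons 7 (TM.mk (P.cons (P.cons (P.lf 1270177562 0 0) (P.cons (P.lf 0 92473609 0) (P.cons (P.lf 0 3497180 0) (P.cons (P.lf 3355189 0 0) (P.cons (P.lf 388172 0 0) (P.cons (P.lf 0 28839 0) P.nil)))))) (P.cons (P.cons (P.lf 0 178463039 0) (P.cons (P.lf 17760919 0 0) (P.cons (P.lf 0 4931341 0) (P.cons (P.lf 104797 0 0) (P.cons (P.lf 150130 0 0) P.nil))))) (P.cons (P.cons (P.lf 0 14164324 0) (P.cons (P.lf 4055252 0 0) (P.cons (P.lf 0 804554 0) (P.cons (P.lf 0 19041 0) P.nil)))) (P.cons (P.cons (P.lf 2076343 0 0) (P.cons (P.lf 0 87988 0) (P.cons (P.lf 0 19801 0) P.nil))) (P.cons (P.cons (P.lf 91748 0 0) (P.cons (P.lf 0 40235 0) P.nil)) (P.cons (P.cons (P.lf 0 8100 0) P.nil) P.nil)))))) 90247)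
 (EL.cons 10 (TM.mk (P.cons (P.cons (P.lf 464078154 0 0) (P.cons (P.lf 0 44850492 0) (P.cons (P.lf 0 40601058 0) (P.cons (P.lf 0 1026246 0) (P.cons (P.lf 631512 0 0) (P.cons (P.lf 58836 0 0) P.nil)))))) (P.cons (P.cons (P.lf 18358740 0 0) (P.cons (P.lf 8619558 0 0) (P.cons (P.lf 0 3910290 0) (P.cons (P.lf 0 939918 0) (P.cons (P.lf 142014 0 0) P.nil))))) (P.cons (P.cons (P.lf 0 7913310 0) (P.cons (P.lf 3190590 0 0) (P.cons (P.lf 154554 0 0) (P.cons (P.lf 0 192390 0) P.nil)))) (P.cons (P.cons (P.lf 0 512802 0) (P.cons (P.lf 243792 0 0) (P.cons (P.lf 1800 0 0) P.nil))) (P.cons (P.cons (P.lf 27222 0 0) (P.cons (P.lf 924 0 0) P.nil)) (P.cons (P.cons (P.lf 3168 0 0) P.nil) P.nil)))))) 105126)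
 EL.nil))))
noncomputable def S111_125_512_660_9 : EL := (EL.cons 3 (TM.mk (P.cons (P.lf 0 3184412906 0) (P.cons (P.lf 75449490 0 0) (P.cons (P.lf 4222650 0 0) (P.cons (P.lf 62415 0 0) (P.cons (P.lf 0 1207 0) (P.cons (P.lf 0 75 0) P.nil)))))) 70)
 (EL.cons 7 (TM.mk (P.cons (P.lf 0 1003085258 0) (P.cons (P.lf 0 85163854 0) (P.cons (P.lf 0 142133 0) (P.cons (P.lf 54543 0 0) (P.cons (P.lf 1571 0 0) (P.cons (P.lf 4 0 0) P.nil)))))) 45)
 EL.nil))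
noncomputable def S111_125_512_660_10 : EL := (EL.cons 3 (TM.mk (P.cons (P.cons (P.lf 1133495530 0 0) (P.cons (P.lf 65947727 0 0) (P.cons (P.lf 0 4409108 0) (P.lf 0 1469701 0)))) (P.cons (P.cons (P.lf 0 174487576 0) (P.cons (P.lf 15234736 0 0) (P.cons (P.lf 0 1018557 0) (P.lf 0 339518 0)))) (P.cons (P.cons (P.lf 0 756670 0) (P.cons (P.lf 968718 0 0) (P.cons (P.lf 0 64763 0) (P.lf 0 21587 0)))) (P.cons (P.cons (P.lf 655453 0 0) (P.cons (P.lf 0 23658 0) (P.cons (P.lf 1583 0 0) P.nil))) (P.cons (P.cons (P.lf 14939 0 0) (P.cons (P.lf 0 4973 0) P.nil)) (P.cons (P.cons (P.lf 0 1087 0) P.nil) P.nil)))))) 3661)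
 (EL.cons 7 (TM.mk (P.cons (P.cons (P.lf 357049380 0 0) (P.cons (P.lf 20773434 0 0) (P.cons (P.lf 0 1388862 0) (P.lf 0 462953 0)))) (P.cons (P.cons (P.lf 0 16189444 0) (P.cons (P.lf 7054816 0 0) (P.cons (P.lf 0 471668 0) (P.lf 0 157222 0)))) (P.cons (P.cons (P.lf 0 4764370 0) (P.cons (P.lf 910224 0 0) (P.cons (P.lf 0 60854 0) (P.lf 0 20284 0)))) (P.cons (P.cons (P.lf 31674 0 0) (P.cons (P.lf 49333 0 0) (P.cons (P.lf 0 3297 0) P.nil))) (P.cons (P.cons (P.lf 18611 0 0) (P.cons (P.lf 56 0 0) P.nil)) (P.cons (P.cons (P.lf 571 0 0) P.nil) P.nil)))))) 1770)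
 EL.nil))
noncomputable def S111_125_512_660_11 : EL := (EL.cons 3 (TM.mk (P.cons (P.cons (P.lf 0 403469070 0) (P.cons (P.lf 0 46948342 0) (P.cons (P.lf 1773106 0 0) (P.cons (P.lf 1228905 0 0) (P.cons (P.lf 54767 0 0) (P.cons (P.lf 0 4069 0) P.nil)))))) (P.cons (P.cons (P.lf 114658573 0 0) (P.cons (P.lf 0 4730894 0) (P.cons (P.lf 0 347070 0) (P.cons (P.lf 194133 0 0) (P.cons (P.lf 26601 0 0) P.nil))))) (P.cons (P.cons (P.lf 0 6840609 0) (P.cons (P.lf 836912 0 0) (P.cons (P.lf 0 186492 0) (P.cons (P.lf 0 1197 0) P.nil)))) (P.cons (P.cons (P.lf 0 567484 0) (P.cons (P.lf 115730 0 0) (P.cons (P.lf 0 20025 0) P.nil))) (P.cons (P.cons (P.lf 40898 0 0) (P.cons (P.lf 0 1704 0) P.nil)) (P.cons (P.cons (P.lf 2771 0 0) P.nil) P.nil)))))) 26079)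
 (EL.cons 7 (TM.mk (P.cons (P.cons (P.lf 0 127092148 0) (P.cons (P.lf 0 14788657 0) (P.cons (P.lf 558526 0 0) (P.cons (P.lf 387103 0 0) (P.cons (P.lf 17252 0 0) (P.cons (P.lf 0 1281 0) P.nil)))))) (P.cons (P.cons (P.lf 22315669 0 0) (P.cons (P.lf 0 3096203 0) (P.cons (P.lf 0 48673 0) (P.cons (P.lf 103189 0 0) (P.cons (P.lf 10252 0 0) P.nil))))) (P.cons (P.cons (P.lf 1253840 0 0) (P.cons (P.lf 42038 0 0) (P.cons (P.lf 0 68360 0) (P.cons (P.lf 7827 0 0) P.nil)))) (P.cons (P.cons (P.lf 0 292865 0) (P.cons (P.lf 56030 0 0) (P.cons (P.lf 0 13015 0) P.nil))) (P.cons (P.cons (P.lf 0 9154 0) (P.cons (P.lf 4027 0 0) P.nil)) (P.cons (P.cons (P.lf 1416 0 0) P.nil) P.nil)))))) 9741)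
 EL.nil))
noncomputable def S111_125_512_660_12 : EL := (EL.cons 4 (TM.mk (P.cons (P.lf 3184412906 0 0) (P.cons (P.lf 0 75449490 0) (P.cons (P.lf 0 4222650 0) (P.cons (P.lf 0 62415 0) (P.cons (P.lf 1207 0 0) (P.cons (P.lf 75 0 0) P.nil)))))) 70)
 (EL.cons 8 (TM.mk (P.cons (P.lf 1003085258 0 0) (P.cons (P.lf 85163854 0 0) (P.cons (P.lf 142133 0 0) (P.cons (P.lf 0 54543 0) (P.cons (P.lf 0 1571 0) (P.cons (P.lf 0 4 0) P.nil)))))) 45)
 EL.nil))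
noncomputable def S111_125_512_660_13 : EL := (EL.cons 4 (TM.mk (P.cons (P.cons (P.lf 0 1133495530 0) (P.cons (P.lf 0 65947727 0) (P.cons (P.lf 4409108 0 0) (P.lf 1469701 0 0)))) (P.cons (P.cons (P.lf 174487576 0 0) (P.cons (P.lf 0 15234736 0) (P.cons (P.lf 1018557 0 0) (P.lf 339518 0 0)))) (P.cons (P.cons (P.lf 756670 0 0) (P.cons (P.lf 0 968718 0) (P.cons (P.lf 64763 0 0) (P.lf 21587 0 0)))) (P.cons (P.cons (P.lf 0 655453 0) (P.cons (P.lf 23658 0 0) (P.cons (P.lf 0 1583 0) P.nil))) (P.cons (P.cons (P.lf 0 14939 0) (P.cons (P.lf 4973 0 0) P.nil)) (P.cons (P.cons (P.lf 1087 0 0) P.nil) P.nil)))))) 3661)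
 (EL.cons 8 (TM.mk (P.cons (P.cons (P.lf 0 357049380 0) (P.cons (P.lf 0 20773434 0) (P.cons (P.lf 1388862 0 0) (P.lf 462953 0 0)))) (P.cons (P.cons (P.lf 16189444 0 0) (P.cons (P.lf 0 7054816 0) (P.cons (P.lf 471668 0 0) (P.lf 157222 0 0)))) (P.cons (P.cons (P.lf 4764370 0 0) (P.cons (P.lf 0 910224 0) (P.cons (P.lf 60854 0 0) (P.lf 20284 0 0)))) (P.cons (P.cons (P.lf 0 31674 0) (P.cons (P.lf 0 49333 0) (P.cons (P.lf 3297 0 0) P.nil))) (P.cons (P.cons (P.lf 0 18611 0) (P.cons (P.lf 0 56 0) P.nil)) (P.cons (P.cons (P.lf 0 571 0) P.nil) P.nil)))))) 1770)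
 EL.nil))
noncomputable def S111_125_512_660_14 : EL := (EL.cons 4 (TM.mk (P.cons (P.cons (P.lf 403469070 0 0) (P.cons (P.lf 46948342 0 0) (P.cons (P.lf 0 1773106 0) (P.cons (P.lf 0 1228905 0) (P.cons (P.lf 0 54767 0) (P.cons (P.lf 4069 0 0) P.nil)))))) (P.cons (P.cons (P.lf 0 114658573 0) (P.cons (P.lf 4730894 0 0) (P.cons (P.lf 347070 0 0) (P.cons (P.lf 0 194133 0) (P.cons (P.lf 0 26601 0) P.nil))))) (P.cons (P.cons (P.lf 6840609 0 0) (P.cons (P.lf 0 836912 0) (P.cons (P.lf 186492 0 0) (P.cons (P.lf 1197 0 0) P.nil)))) (P.cons (P.cons (P.lf 567484 0 0) (P.cons (P.lf 0 115730 0) (P.cons (P.lf 20025 0 0) P.nil))) (P.cons (P.cons (P.lf 0 40898 0) (P.cons (P.lf 1704 0 0) P.nil)) (P.cons (P.cons (P.lf 0 2771 0) P.nil) P.nil)))))) 26079)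
 (EL.cons 8 (TM.mk (P.cons (P.cons (P.lf 127092148 0 0) (P.cons (P.lf 14788657 0 0) (P.cons (P.lf 0 558526 0) (P.cons (P.lf 0 387103 0) (P.cons (P.lf 0 17252 0) (P.cons (P.lf 1281 0 0) P.nil)))))) (P.cons (P.cons (P.lf 0 22315669 0) (P.cons (P.lf 3096203 0 0) (P.cons (P.lf 48673 0 0) (P.cons (P.lf 0 103189 0) (P.cons (P.lf 0 10252 0) P.nil))))) (P.cons (P.cons (P.lf 0 1253840 0) (P.cons (P.lf 0 42038 0) (P.cons (P.lf 68360 0 0) (P.cons (P.lf 0 7827 0) P.nil)))) (P.cons (P.cons (P.lf 292865 0 0) (P.cons (P.lf 0 56030 0) (P.cons (P.lf 13015 0 0) P.nil))) (P.cons (P.cons (P.lf 9154 0 0) (P.cons (P.lf 0 4027 0) P.nil)) (P.cons (P.cons (P.lf 0 1416 0) P.nil) P.nil)))))) 9741)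
 EL.nil))
noncomputable def S111_125_512_660_15 : EL := (EL.cons 4 (TM.mk (P.cons (P.lf 0 2518416830 0) (P.cons (P.lf 119339589 0 0) (P.cons (P.lf 5265249 0 0) (P.cons (P.lf 0 59525 0) (P.cons (P.lf 0 8676 0) (P.cons (P.lf 0 203 0) P.nil)))))) 123)
 (EL.cons 8 (TM.mk (P.cons (P.lf 0 793297499 0) (P.cons (P.lf 0 48556577 0) (P.cons (P.lf 2535342 0 0) (P.cons (P.lf 150659 0 0) (P.cons (P.lf 1388 0 0) (P.cons (P.lf 0 125 0) P.nil)))))) 64)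
 EL.nil))
noncomputable def S111_125_512_660_16 : EL := (EL.cons 4 (TM.mk (P.cons (P.cons (P.lf 896433441 0 0) (P.cons (P.lf 52155255 0 0) (P.cons (P.lf 0 3486975 0) (P.lf 0 1162324 0)))) (P.cons (P.cons (P.lf 0 159234343 0) (P.cons (P.lf 10812771 0 0) (P.cons (P.lf 0 722915 0) (P.lf 0 240971 0)))) (P.cons (P.cons (P.lf 1482439 0 0) (P.cons (P.lf 411489 0 0) (P.cons (P.lf 0 27509 0) (P.lf 0 9169 0)))) (P.cons (P.cons (P.lf 697964 0 0) (P.cons (P.lf 0 53861 0) (P.cons (P.lf 3601 0 0) P.nil))) (P.cons (P.cons (P.lf 3370 0 0) (P.cons (P.lf 0 4722 0) P.nil)) (P.cons (P.cons (P.lf 0 1846 0) P.nil) P.nil)))))) 4092)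
 (EL.cons 8 (TM.mk (P.cons (P.cons (P.lf 282375180 0 0) (P.cons (P.lf 16428826 0 0) (P.cons (P.lf 0 1098392 0) (P.lf 0 366130 0)))) (P.cons (P.cons (P.lf 0 19493964 0) (P.cons (P.lf 5190099 0 0) (P.cons (P.lf 0 346997 0) (P.lf 0 115665 0)))) (P.cons (P.cons (P.lf 0 3839018 0) (P.cons (P.lf 565878 0 0) (P.cons (P.lf 0 37832 0) (P.lf 0 12610 0)))) (P.cons (P.cons (P.lf 125768 0 0) (P.cons (P.lf 14239 0 0) (P.cons (P.lf 0 951 0) P.nil))) (P.cons (P.cons (P.lf 19479 0 0) (P.cons (P.lf 0 1937 0) P.nil)) (P.cons (P.cons (P.lf 145 0 0) P.nil) P.nil)))))) 1726)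
 EL.nil))
noncomputable def S111_125_512_660_17 : EL := (EL.cons 4 (TM.mk (P.cons (P.cons (P.lf 0 319086540 0) (P.cons (P.lf 0 37129448 0) (P.cons (P.lf 1402275 0 0) (P.cons (P.lf 971888 0 0) (P.cons (P.lf 43313 0 0) (P.cons (P.lf 0 3218 0) P.nil)))))) (P.cons (P.cons (P.lf 98238829 0 0) (P.cons (P.lf 0 2861741 0) (P.cons (P.lf 0 307708 0) (P.cons (P.lf 130504 0 0) (P.cons (P.lf 20010 0 0) P.nil))))) (P.cons (P.cons (P.lf 0 7135307 0) (P.cons (P.lf 799761 0 0) (P.cons (P.lf 0 142845 0) (P.cons (P.lf 0 5873 0) P.nil)))) (P.cons (P.cons (P.lf 0 434608 0) (P.cons (P.lf 81533 0 0) (P.cons (P.lf 0 12006 0) P.nil))) (P.cons (P.cons (P.lf 48254 0 0) (P.cons (P.lf 0 4335 0) P.nil)) (P.cons (P.cons (P.lf 2153 0 0) P.nil) P.nil)))))) 22813)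
 (EL.cons 8 (TM.mk (P.cons (P.cons (P.lf 0 100511778 0) (P.cons (P.lf 0 11695720 0) (P.cons (P.lf 441714 0 0) (P.cons (P.lf 306143 0 0) (P.cons (P.lf 13643 0 0) (P.cons (P.lf 0 1013 0) P.nil)))))) (P.cons (P.cons (P.lf 20029977 0 0) (P.cons (P.lf 0 2171544 0) (P.cons (P.lf 0 48959 0) (P.cons (P.lf 74354 0 0) (P.cons (P.lf 7785 0 0) P.nil))))) (P.cons (P.cons (P.lf 706738 0 0) (P.cons (P.lf 106771 0 0) (P.cons (P.lf 0 53736 0) (P.cons (P.lf 3851 0 0) P.nil)))) (P.cons (P.cons (P.lf 0 276541 0) (P.cons (P.lf 47000 0 0) (P.cons (P.lf 0 8969 0) P.nil))) (P.cons (P.cons (P.lf 0 3451 0) (P.cons (P.lf 2135 0 0) P.nil)) (P.cons (P.cons (P.lf 1583 0 0) P.nil) P.nil)))))) 8343)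
 EL.nil))
noncomputable def S111_125_512_660_18 : EL := (EL.cons 4 (TM.mk (P.cons (P.lf 1991708838 0 0) (P.cons (P.lf 0 141570914 0) (P.cons (P.lf 0 4568946 0) (P.cons (P.lf 231851 0 0) (P.cons (P.lf 13873 0 0) (P.cons (P.lf 28 0 0) P.nil)))))) 167)
 (EL.cons 8 (TM.mk (P.cons (P.lf 627385277 0 0) (P.cons (P.lf 23536458 0 0) (P.cons (P.lf 0 3746887 0) (P.cons (P.lf 0 134861 0) (P.cons (P.lf 3868 0 0) (P.cons (P.lf 351 0 0) P.nil)))))) 75)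
 EL.nil))
noncomputable def S111_125_512_660_19 : EL := (EL.cons 4 (TM.mk (P.cons (P.cons (P.lf 0 708951110 0) (P.cons (P.lf 0 41247375 0) (P.cons (P.lf 2757701 0 0) (P.lf 919232 0 0)))) (P.cons (P.cons (P.lf 142729118 0 0) (P.cons (P.lf 0 7574071 0) (P.cons (P.lf 506384 0 0) (P.lf 168794 0 0)))) (P.cons (P.cons (P.lf 0 3216049 0) (P.cons (P.lf 0 68123 0) (P.cons (P.lf 4552 0 0) (P.lf 1516 0 0)))) (P.cons (P.cons (P.lf 0 677306 0) (P.cons (P.lf 62455 0 0) (P.cons (P.lf 0 4176 0) P.nil))) (P.cons (P.cons (P.lf 9229 0 0) (P.cons (P.lf 3309 0 0) P.nil)) (P.cons (P.cons (P.lf 2310 0 0) P.nil) P.nil)))))) 4262)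
 (EL.cons 8 (TM.mk (P.cons (P.cons (P.lf 0 223318529 0) (P.cons (P.lf 0 12992860 0) (P.cons (P.lf 868671 0 0) (P.lf 289557 0 0)))) (P.cons (P.cons (P.lf 20708117 0 0) (P.cons (P.lf 0 3796784 0) (P.cons (P.lf 253843 0 0) (P.lf 84614 0 0)))) (P.cons (P.cons (P.lf 2966966 0 0) (P.cons (P.lf 0 333048 0) (P.cons (P.lf 22266 0 0) (P.lf 7422 0 0)))) (P.cons (P.cons (P.lf 0 187466 0) (P.cons (P.lf 5039 0 0) (P.cons (P.lf 0 337 0) P.nil))) (P.cons (P.cons (P.lf 0 17461 0) (P.cons (P.lf 2467 0 0) P.nil)) (P.cons (P.cons (P.lf 323 0 0) P.nil) P.nil)))))) 1606)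
 EL.nil))
noncomputable def S111_125_512_660_20 : EL := (EL.cons 4 (TM.mk (P.cons (P.cons (P.lf 252351983 0 0) (P.cons (P.lf 29364103 0 0) (P.cons (P.lf 0 1108999 0) (P.cons (P.lf 0 768625 0) (P.cons (P.lf 0 34255 0) (P.cons (P.lf 2545 0 0) P.nil)))))) (P.cons (P.cons (P.lf 0 83671985 0) (P.cons (P.lf 1567494 0 0) (P.cons (P.lf 269629 0 0) (P.cons (P.lf 0 84999 0) (P.cons (P.lf 0 15014 0) P.nil))))) (P.cons (P.cons (P.lf 7149191 0 0) (P.cons (P.lf 0 725058 0) (P.cons (P.lf 108674 0 0) (P.cons (P.lf 8109 0 0) P.nil)))) (P.cons (P.cons (P.lf 308088 0 0) (P.cons (P.lf 0 53071 0) (P.cons (P.lf 6517 0 0) P.nil))) (P.cons (P.cons (P.lf 0 52170 0) (P.cons (P.lf 5760 0 0) P.nil)) (P.cons (P.cons (P.lf 0 1388 0) P.nil) P.nil)))))) 19712)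
 (EL.cons 8 (TM.mk (P.cons (P.cons (P.lf 79490494 0 0) (P.cons (P.lf 9249648 0 0) (P.cons (P.lf 0 349333 0) (P.cons (P.lf 0 242115 0) (P.cons (P.lf 0 10790 0) (P.cons (P.lf 801 0 0) P.nil)))))) (P.cons (P.cons (P.lf 0 17724256 0) (P.cons (P.lf 1498226 0 0) (P.cons (P.lf 46996 0 0) (P.cons (P.lf 0 53067 0) (P.cons (P.lf 0 5901 0) P.nil))))) (P.cons (P.cons (P.lf 0 289013 0) (P.cons (P.lf 0 137397 0) (P.cons (P.lf 42044 0 0) (P.cons (P.lf 0 1331 0) P.nil)))) (P.cons (P.cons (P.lf 251395 0 0) (P.cons (P.lf 0 37628 0) (P.cons (P.lf 6042 0 0) P.nil))) (P.cons (P.cons (P.lf 0 1370 0) (P.cons (P.lf 0 726 0) P.nil)) (P.cons (P.cons (P.lf 0 1600 0) P.nil) P.nil)))))) 7258)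
 EL.nil))
noncomputable def S111_125_512_660_21 : EL := (EL.cons 4 (TM.mk (P.cons (P.cons (P.lf 0 1738844799 0) (P.cons (P.lf 197843181 0 0) (P.cons (P.lf 0 13227324 0) (P.lf 0 4409103 0)))) (P.cons (P.cons (P.lf 0 165443961 0) (P.cons (P.lf 45704208 0 0) (P.cons (P.lf 0 3055671 0) (P.lf 0 1018554 0)))) (P.cons (P.cons (P.lf 13525734 0 0) (P.cons (P.lf 2906154 0 0) (P.cons (P.lf 0 194289 0) (P.lf 0 64761 0)))) (P.cons (P.cons (P.lf 1787784 0 0) (P.cons (P.lf 0 70974 0) (P.cons (P.lf 4749 0 0) P.nil))) (P.cons (P.cons (P.lf 18786 0 0) (P.cons (P.lf 0 14919 0) P.nil)) (P.cons (P.cons (P.lf 0 3870 0) P.nil) P.nil)))))) 11310)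
 (EL.cons 8 (TM.mk (P.cons (P.cons (P.lf 1962726621 0 0) (P.cons (P.lf 0 223316139 0) (P.cons (P.lf 14930400 0 0) (P.lf 4976802 0 0)))) (P.cons (P.cons (P.lf 0 26397450 0) (P.cons (P.lf 0 27337710 0) (P.cons (P.lf 1827735 0 0) (P.lf 609246 0 0)))) (P.cons (P.cons (P.lf 0 20331411 0) (P.cons (P.lf 590763 0 0) (P.cons (P.lf 0 39495 0) (P.lf 0 13164 0)))) (P.cons (P.cons (P.lf 0 105699 0) (P.cons (P.lf 172188 0 0) (P.cons (P.lf 0 11508 0) P.nil))) (P.cons (P.cons (P.lf 57432 0 0) (P.cons (P.lf 3693 0 0) P.nil)) (P.cons (P.cons (P.lf 1983 0 0) P.nil) P.nil)))))) 6543)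
 (EL.cons 11 (TM.mk (P.cons (P.cons (P.lf 651884565 0 0) (P.cons (P.lf 0 100928100 0) (P.cons (P.lf 0 48623976 0) (P.cons (P.lf 1840074 0 0) (P.lf 460017 0 0))))) (P.cons (P.cons (P.lf 110692485 0 0) (P.cons (P.lf 0 17137974 0) (P.cons (P.lf 0 8256534 0) (P.cons (P.lf 312450 0 0) (P.lf 78111 0 0))))) (P.cons (P.cons (P.lf 4883739 0 0) (P.cons (P.lf 0 756123 0) (P.cons (P.lf 0 364275 0) (P.cons (P.lf 13785 0 0) P.nil)))) (P.cons (P.cons (P.lf 0 55206 0) (P.cons (P.lf 8547 0 0) (P.cons (P.lf 4116 0 0) P.nil))) (P.cons (P.cons (P.lf 0 8046 0) (P.cons (P.lf 1245 0 0) P.nil)) (P.cons (P.cons (P.lf 0 186 0) P.nil) P.nil)))))) 4515)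
 EL.nil)))
noncomputable def S111_125_512_660_22 : EL := (EL.cons 4 (TM.mk (P.cons (P.cons (P.lf 618943857 0 0) (P.cons (P.lf 0 34411836 0) (P.cons (P.lf 0 1796547 0) (P.cons (P.lf 1314759 0 0) (P.cons (P.lf 164304 0 0) (P.cons (P.lf 0 12207 0) P.nil)))))) (P.cons (P.cons (P.lf 0 21723885 0) (P.cons (P.lf 5502051 0 0) (P.cons (P.lf 0 2357958 0) (P.cons (P.lf 143487 0 0) (P.cons (P.lf 79806 0 0) P.nil))))) (P.cons (P.cons (P.lf 0 13987029 0) (P.cons (P.lf 2641986 0 0) (P.cons (P.lf 0 568251 0) (P.cons (P.lf 0 6516 0) P.nil)))) (P.cons (P.cons (P.lf 75288 0 0) (P.cons (P.lf 159537 0 0) (P.cons (P.lf 0 47529 0) P.nil))) (P.cons (P.cons (P.lf 119274 0 0) (P.cons (P.lf 0 17820 0) P.nil)) (P.cons (P.cons (P.lf 2874 0 0) P.nil) P.nil)))))) 60918)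
 (EL.cons 8 (TM.mk (P.cons (P.cons (P.lf 0 698634855 0) (P.cons (P.lf 38842476 0 0) (P.cons (P.lf 2027853 0 0) (P.cons (P.lf 0 1484043 0) (P.cons (P.lf 0 185460 0) (P.cons (P.lf 13779 0 0) P.nil)))))) (P.cons (P.cons (P.lf 100389354 0 0) (P.cons (P.lf 0 10428561 0) (P.cons (P.lf 2441334 0 0) (P.cons (P.lf 0 804 0) (P.cons (P.lf 0 69939 0) P.nil))))) (P.cons (P.cons (P.lf 7709082 0 0) (P.cons (P.lf 0 2006607 0) (P.cons (P.lf 368097 0 0) (P.cons (P.lf 13434 0 0) P.nil)))) (P.cons (P.cons (P.lf 0 1184604 0) (P.cons (P.lf 72009 0 0) (P.cons (P.lf 3393 0 0) P.nil))) (P.cons (P.cons (P.lf 0 50451 0) (P.cons (P.lf 22131 0 0) P.nil)) (P.cons (P.cons (P.lf 4758 0 0) P.nil) P.nil)))))) 40242)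
 (EL.cons 11 (TM.mk (P.cons (P.cons (P.lf 0 232039077 0) (P.cons (P.lf 22425246 0 0) (P.cons (P.lf 20300529 0 0) (P.cons (P.lf 513123 0 0) (P.cons (P.lf 0 315756 0) (P.cons (P.lf 0 29418 0) P.nil)))))) (P.cons (P.cons (P.lf 0 9179370 0) (P.cons (P.lf 0 4309779 0) (P.cons (P.lf 1955145 0 0) (P.cons (P.lf 469959 0 0) (P.cons (P.lf 0 71007 0) P.nil))))) (P.cons (P.cons (P.lf 3956655 0 0) (P.cons (P.lf 0 1595295 0) (P.cons (P.lf 0 77277 0) (P.cons (P.lf 96195 0 0) P.nil)))) (P.cons (P.cons (P.lf 256401 0 0) (P.cons (P.lf 0 121896 0) (P.cons (P.lf 0 900 0) P.nil))) (P.cons (P.cons (P.lf 0 13611 0) (P.cons (P.lf 0 462 0) P.nil)) (P.cons (P.cons (P.lf 0 1584 0) P.nil) P.nil)))))) 52563)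
 EL.nil)))
noncomputable def S111_125_512_660_23 : EL := (EL.cons 4 (TM.mk (P.cons (P.cons (P.lf 1375178451 0 0) (P.cons (P.lf 0 156465762 0) (P.cons (P.lf 10460928 0 0) (P.lf 3486972 0 0)))) (P.cons (P.cons (P.lf 98259978 0 0) (P.cons (P.lf 0 32438313 0) (P.cons (P.lf 2168745 0 0) (P.lf 722910 0 0)))) (P.cons (P.cons (P.lf 0 15620568 0) (P.cons (P.lf 0 1234464 0) (P.cons (P.lf 82524 0 0) (P.lf 27507 0 0)))) (P.cons (P.cons (P.lf 0 1360890 0) (P.cons (P.lf 161583 0 0) (P.cons (P.lf 0 10803 0) P.nil))) (P.cons (P.cons (P.lf 30783 0 0) (P.cons (P.lf 14163 0 0) P.nil)) (P.cons (P.cons (P.lf 5577 0 0) P.nil) P.nil)))))) 12615)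
 (EL.cons 8 (TM.mk (P.cons (P.cons (P.lf 0 1552237068 0) (P.cons (P.lf 176611242 0 0) (P.cons (P.lf 0 11807817 0) (P.lf 0 3935940 0)))) (P.cons (P.cons (P.lf 57654354 0 0) (P.cons (P.lf 17435715 0 0) (P.cons (P.lf 0 1165710 0) (P.lf 0 388569 0)))) (P.cons (P.cons (P.lf 17642934 0 0) (P.cons (P.lf 0 1213656 0) (P.cons (P.lf 81138 0 0) (P.lf 27045 0 0)))) (P.cons (P.cons (P.lf 0 294636 0) (P.cons (P.lf 0 157236 0) (P.cons (P.lf 10509 0 0) P.nil))) (P.cons (P.cons (P.lf 0 69720 0) (P.cons (P.lf 567 0 0) P.nil)) (P.cons (P.cons (P.lf 0 945 0) P.nil) P.nil)))))) 7074)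
 (EL.cons 11 (TM.mk (P.cons (P.cons (P.lf 0 515547795 0) (P.cons (P.lf 79819743 0 0) (P.cons (P.lf 38454636 0 0) (P.cons (P.lf 0 1455234 0) (P.lf 0 363807 0))))) (P.cons (P.cons (P.lf 0 75326913 0) (P.cons (P.lf 11662494 0 0) (P.cons (P.lf 5618619 0 0) (P.cons (P.lf 0 212622 0) (P.lf 0 53154 0))))) (P.cons (P.cons (P.lf 0 1104540 0) (P.cons (P.lf 171006 0 0) (P.cons (P.lf 82383 0 0) (P.cons (P.lf 0 3117 0) P.nil)))) (P.cons (P.cons (P.lf 261360 0 0) (P.cons (P.lf 0 40464 0) (P.cons (P.lf 0 19491 0) P.nil))) (P.cons (P.cons (P.lf 11970 0 0) (P.cons (P.lf 0 1851 0) P.nil)) (P.cons (P.cons (P.lf 0 30 0) P.nil) P.nil)))))) 7092)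
 EL.nil)))
noncomputable def S111_125_512_660_24 : EL := (EL.cons 4 (TM.mk (P.cons (P.cons (P.lf 0 489496389 0) (P.cons (P.lf 27214857 0 0) (P.cons (P.lf 1420812 0 0) (P.cons (P.lf 0 1039785 0) (P.cons (P.lf 0 129942 0) (P.cons (P.lf 9654 0 0) P.nil)))))) (P.cons (P.cons (P.lf 28778319 0 0) (P.cons (P.lf 0 4996149 0) (P.cons (P.lf 1831143 0 0) (P.cons (P.lf 0 88842 0) (P.cons (P.lf 0 60036 0) P.nil))))) (P.cons (P.cons (P.lf 11303772 0 0) (P.cons (P.lf 0 2022423 0) (P.cons (P.lf 403335 0 0) (P.cons (P.lf 9219 0 0) P.nil)))) (P.cons (P.cons (P.lf 0 334821 0) (P.cons (P.lf 0 71427 0) (P.cons (P.lf 24441 0 0) P.nil))) (P.cons (P.cons (P.lf 0 108108 0) (P.cons (P.lf 19947 0 0) P.nil)) (P.cons (P.cons (P.lf 0 180 0) P.nil) P.nil)))))) 44853)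
 (EL.cons 8 (TM.mk (P.cons (P.cons (P.lf 552520614 0 0) (P.cons (P.lf 0 30718863 0) (P.cons (P.lf 0 1603743 0) (P.cons (P.lf 1173666 0 0) (P.cons (P.lf 146673 0 0) (P.cons (P.lf 0 10899 0) P.nil)))))) (P.cons (P.cons (P.lf 0 92484753 0) (P.cons (P.lf 8975337 0 0) (P.cons (P.lf 0 1892751 0) (P.cons (P.lf 0 27171 0) (P.cons (P.lf 51837 0 0) P.nil))))) (P.cons (P.cons (P.lf 0 4948344 0) (P.cons (P.lf 1432263 0 0) (P.cons (P.lf 0 243240 0) (P.cons (P.lf 0 12195 0) P.nil)))) (P.cons (P.cons (P.lf 1175754 0 0) (P.cons (P.lf 0 104883 0) (P.cons (P.lf 6804 0 0) P.nil))) (P.cons (P.cons (P.lf 27552 0 0) (P.cons (P.lf 0 18429 0) P.nil)) (P.cons (P.cons (P.lf 0 5847 0) P.nil) P.nil)))))) 29547)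
 (EL.cons 11 (TM.mk (P.cons (P.cons (P.lf 183509844 0 0) (P.cons (P.lf 0 17735172 0) (P.cons (P.lf 0 16054824 0) (P.cons (P.lf 0 405807 0) (P.cons (P.lf 249717 0 0) (P.cons (P.lf 23265 0 0) P.nil)))))) (P.cons (P.cons (P.lf 2911605 0 0) (P.cons (P.lf 3828627 0 0) (P.cons (P.lf 0 1165848 0) (P.cons (P.lf 0 362055 0) (P.cons (P.lf 50238 0 0) P.nil))))) (P.cons (P.cons (P.lf 0 3544494 0) (P.cons (P.lf 1204410 0 0) (P.cons (P.lf 119040 0 0) (P.cons (P.lf 0 66732 0) P.nil)))) (P.cons (P.cons (P.lf 0 141858 0) (P.cons (P.lf 62337 0 0) (P.cons (P.lf 1629 0 0) P.nil))) (P.cons (P.cons (P.lf 19647 0 0) (P.cons (P.lf 0 3663 0) P.nil)) (P.cons (P.cons (P.lf 1335 0 0) P.nil) P.nil)))))) 38307)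
 EL.nil)))
noncomputable def S111_125_512_660_25 : EL := (EL.cons 4 (TM.mk (P.cons (P.cons (P.lf 0 1087570191 0) (P.cons (P.lf 123742122 0 0) (P.cons (P.lf 0 8273103 0) (P.lf 0 2757696 0)))) (P.cons (P.cons (P.lf 0 51941430 0) (P.cons (P.lf 22722213 0 0) (P.cons (P.lf 0 1519149 0) (P.lf 0 506379 0)))) (P.cons (P.cons (P.lf 15637005 0 0) (P.cons (P.lf 204366 0 0) (P.cons (P.lf 0 13656 0) (P.lf 0 4551 0)))) (P.cons (P.cons (P.lf 907932 0 0) (P.cons (P.lf 0 187362 0) (P.cons (P.lf 12528 0 0) P.nil))) (P.cons (P.cons (P.lf 0 65115 0) (P.cons (P.lf 0 9924 0) P.nil)) (P.cons (P.cons (P.lf 0 5559 0) P.nil) P.nil)))))) 12387)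
 (EL.cons 8 (TM.mk (P.cons (P.cons (P.lf 1227598326 0 0) (P.cons (P.lf 0 139674324 0) (P.cons (P.lf 9338301 0 0) (P.lf 3112767 0 0)))) (P.cons (P.cons (P.lf 0 74682327 0) (P.cons (P.lf 0 10479810 0) (P.cons (P.lf 700653 0 0) (P.lf 233550 0 0)))) (P.cons (P.cons (P.lf 0 14500554 0) (P.cons (P.lf 1471755 0 0) (P.cons (P.lf 0 98394 0) (P.lf 0 32796 0)))) (P.cons (P.cons (P.lf 600012 0 0) (P.cons (P.lf 122631 0 0) (P.cons (P.lf 0 8196 0) P.nil))) (P.cons (P.cons (P.lf 69477 0 0) (P.cons (P.lf 0 4449 0) P.nil)) (P.cons (P.cons (P.lf 0 579 0) P.nil) P.nil)))))) 6798)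
 (EL.cons 11 (TM.mk (P.cons (P.cons (P.lf 407724840 0 0) (P.cons (P.lf 0 63126042 0) (P.cons (P.lf 0 30412137 0) (P.cons (P.lf 1150884 0 0) (P.lf 287718 0 0))))) (P.cons (P.cons (P.lf 49912476 0 0) (P.cons (P.lf 0 7727703 0) (P.cons (P.lf 0 3722961 0) (P.cons (P.lf 140886 0 0) (P.lf 35220 0 0))))) (P.cons (P.cons (P.lf 0 1078605 0) (P.cons (P.lf 166995 0 0) (P.cons (P.lf 80454 0 0) (P.cons (P.lf 0 3042 0) P.nil)))) (P.cons (P.cons (P.lf 0 314382 0) (P.cons (P.lf 48672 0 0) (P.cons (P.lf 23448 0 0) P.nil))) (P.cons (P.cons (P.lf 0 6741 0) (P.cons (P.lf 1041 0 0) P.nil)) (P.cons (P.cons (P.lf 537 0 0) P.nil) P.nil)))))) 7950)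
 EL.nil)))
noncomputable def S111_125_512_660_26 : EL := (EL.cons 4 (TM.mk (P.cons (P.cons (P.lf 387121890 0 0) (P.cons (P.lf 0 21523074 0) (P.cons (P.lf 0 1123659 0) (P.cons (P.lf 822324 0 0) (P.cons (P.lf 102765 0 0) (P.cons (P.lf 0 7635 0) P.nil)))))) (P.cons (P.cons (P.lf 0 31931775 0) (P.cons (P.lf 4461195 0 0) (P.cons (P.lf 0 1421550 0) (P.cons (P.lf 50778 0 0) (P.cons (P.lf 45045 0 0) P.nil))))) (P.cons (P.cons (P.lf 0 8913762 0) (P.cons (P.lf 1534371 0 0) (P.cons (P.lf 0 283179 0) (P.cons (P.lf 0 10047 0) P.nil)))) (P.cons (P.cons (P.lf 499197 0 0) (P.cons (P.lf 13776 0 0) (P.cons (P.lf 0 9828 0) P.nil))) (P.cons (P.cons (P.lf 91671 0 0) (P.cons (P.lf 0 19320 0) P.nil)) (P.cons (P.cons (P.lf 0 2055 0) P.nil) P.nil)))))) 34725)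
 (EL.cons 8 (TM.mk (P.cons (P.cons (P.lf 0 436965072 0) (P.cons (P.lf 24294243 0 0) (P.cons (P.lf 1268331 0 0) (P.cons (P.lf 0 928203 0) (P.cons (P.lf 0 115998 0) (P.cons (P.lf 8619 0 0) P.nil)))))) (P.cons (P.cons (P.lf 83495436 0 0) (P.cons (P.lf 0 7673826 0) (P.cons (P.lf 1466844 0 0) (P.cons (P.lf 43479 0 0) (P.cons (P.lf 0 38247 0) P.nil))))) (P.cons (P.cons (P.lf 2759880 0 0) (P.cons (P.lf 0 996750 0) (P.cons (P.lf 155220 0 0) (P.cons (P.lf 10368 0 0) P.nil)))) (P.cons (P.cons (P.lf 0 1111002 0) (P.cons (P.lf 118719 0 0) (P.cons (P.lf 0 11946 0) P.nil))) (P.cons (P.cons (P.lf 0 6546 0) (P.cons (P.lf 14259 0 0) P.nil)) (P.cons (P.cons (P.lf 6315 0 0) P.nil) P.nil)))))) 22899)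
 (EL.cons 11 (TM.mk (P.cons (P.cons (P.lf 0 145130136 0) (P.cons (P.lf 14025993 0 0) (P.cons (P.lf 12697077 0 0) (P.cons (P.lf 320934 0 0) (P.cons (P.lf 0 197490 0) (P.cons (P.lf 0 18399 0) P.nil)))))) (P.cons (P.cons (P.lf 1135956 0 0) (P.cons (P.lf 0 3360219 0) (P.cons (P.lf 621183 0 0) (P.cons (P.lf 278730 0 0) (P.cons (P.lf 0 35052 0) P.nil))))) (P.cons (P.cons (P.lf 3050196 0 0) (P.cons (P.lf 0 899376 0) (P.cons (P.lf 0 132825 0) (P.cons (P.lf 45564 0 0) P.nil)))) (P.cons (P.cons (P.lf 51672 0 0) (P.cons (P.lf 0 22989 0) (P.cons (P.lf 0 528 0) P.nil))) (P.cons (P.cons (P.lf 0 21921 0) (P.cons (P.lf 5391 0 0) P.nil)) (P.cons (P.cons (P.lf 0 894 0) P.nil) P.nil)))))) 29460)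
 EL.nil)))
noncomputable def S111_125_512_660_27 : EL := (EL.cons 13 (TM.mk (P.lf 0 4294967296 0) 0)
 EL.nil)
noncomputable def S111_125_512_660_28 : EL := (EL.cons 13 (TM.mk (P.cons (P.cons (P.lf 1528798676 0 0) (P.cons (P.lf 88946800 0 0) (P.cons (P.lf 0 5946772 0) (P.lf 0 1982256 0)))) (P.cons (P.cons (P.lf 0 199117193 0) (P.cons (P.lf 22655256 0 0) (P.cons (P.lf 0 1514676 0) (P.lf 0 504892 0)))) (P.cons (P.cons (P.lf 0 3711072 0) (P.cons (P.lf 1961284 0 0) (P.cons (P.lf 0 131124 0) (P.lf 0 43708 0)))) (P.cons (P.cons (P.lf 562041 0 0) (P.cons (P.lf 46344 0 0) (P.cons (P.lf 0 3096 0) P.nil))) (P.cons (P.cons (P.lf 24063 0 0) (P.cons (P.lf 0 2600 0) P.nil)) (P.cons (P.cons (P.lf 0 185 0) P.nil) P.nil)))))) 2458)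
 EL.nil)
noncomputable def S111_125_512_660_29 : EL := (EL.cons 13 (TM.mk (P.cons (P.cons (P.lf 0 544177692 0) (P.cons (P.lf 0 63321436 0) (P.cons (P.lf 2391473 0 0) (P.cons (P.lf 1657482 0 0) (P.cons (P.lf 73869 0 0) (P.cons (P.lf 0 5489 0) P.nil)))))) (P.cons (P.cons (P.lf 141751999 0 0) (P.cons (P.lf 0 7881078 0) (P.cons (P.lf 0 411450 0) (P.cons (P.lf 301109 0 0) (P.cons (P.lf 37629 0 0) P.nil))))) (P.cons (P.cons (P.lf 0 6589268 0) (P.cons (P.lf 858088 0 0) (P.cons (P.lf 0 258109 0) (P.cons (P.lf 7717 0 0) P.nil)))) (P.cons (P.cons (P.lf 0 744213 0) (P.cons (P.lf 164731 0 0) (P.cons (P.lf 0 33625 0) P.nil))) (P.cons (P.cons (P.lf 31776 0 0) (P.cons (P.lf 2611 0 0) P.nil)) (P.cons (P.cons (P.lf 3334 0 0) P.nil) P.nil)))))) 30864)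
 EL.nil)
noncomputable def S111_125_512_660_30 : EL := (EL.cons 13 (TM.mk (P.cons (P.lf 3396707100 0 0) (P.cons (P.lf 0 80479456 0) (P.cons (P.lf 0 4504160 0) (P.cons (P.lf 0 66576 0) (P.cons (P.lf 1288 0 0) (P.cons (P.lf 80 0 0) P.nil)))))) 68)
 EL.nil)
noncomputable def S111_125_512_660_31 : EL := (EL.cons 13 (TM.mk (P.cons (P.cons (P.lf 0 1209061899 0) (P.cons (P.lf 0 70344243 0) (P.cons (P.lf 4703049 0 0) (P.lf 1567682 0 0)))) (P.cons (P.cons (P.lf 186120082 0 0) (P.cons (P.lf 0 16250386 0) (P.cons (P.lf 1086461 0 0) (P.lf 362153 0 0)))) (P.cons (P.cons (P.lf 807115 0 0) (P.cons (P.lf 0 1033300 0) (P.cons (P.lf 69081 0 0) (P.lf 23027 0 0)))) (P.cons (P.cons (P.lf 0 699150 0) (P.cons (P.lf 25236 0 0) (P.cons (P.lf 0 1689 0) P.nil))) (P.cons (P.cons (P.lf 0 15935 0) (P.cons (P.lf 5305 0 0) P.nil)) (P.cons (P.cons (P.lf 1160 0 0) P.nil) P.nil)))))) 3885)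
 EL.nil)
noncomputable def S111_125_512_660_32 : EL := (EL.cons 13 (TM.mk (P.cons (P.cons (P.lf 430367009 0 0) (P.cons (P.lf 50078232 0 0) (P.cons (P.lf 0 1891314 0) (P.cons (P.lf 0 1310832 0) (P.cons (P.lf 0 58419 0) (P.cons (P.lf 4341 0 0) P.nil)))))) (P.cons (P.cons (P.lf 0 122302478 0) (P.cons (P.lf 5046287 0 0) (P.cons (P.lf 370209 0 0) (P.cons (P.lf 0 207076 0) (P.cons (P.lf 0 28375 0) P.nil))))) (P.cons (P.cons (P.lf 7296650 0 0) (P.cons (P.lf 0 892707 0) (P.cons (P.lf 198925 0 0) (P.cons (P.lf 1277 0 0) P.nil)))) (P.cons (P.cons (P.lf 605317 0 0) (P.cons (P.lf 0 123446 0) (P.cons (P.lf 21361 0 0) P.nil))) (P.cons (P.cons (P.lf 0 43625 0) (P.cons (P.lf 1818 0 0) P.nil)) (P.cons (P.cons (P.lf 0 2956 0) P.nil) P.nil)))))) 27795)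
 EL.nil)
noncomputable def S111_125_512_660_33 : EL := (EL.cons 14 (TM.mk (P.lf 8589934592 0 0) 0)
 EL.nil)
noncomputable def S111_125_512_660_34 : EL := (EL.cons 14 (TM.mk (P.cons (P.cons (P.lf 0 3057597352 0) (P.cons (P.lf 0 177893600 0) (P.cons (P.lf 11893544 0 0) (P.lf 3964512 0 0)))) (P.cons (P.cons (P.lf 398234386 0 0) (P.cons (P.lf 0 45310512 0) (P.cons (P.lf 3029352 0 0) (P.lf 1009784 0 0)))) (P.cons (P.cons (P.lf 7422144 0 0) (P.cons (P.lf 0 3922568 0) (P.cons (P.lf 262248 0 0) (P.lf 87416 0 0)))) (P.cons (P.cons (P.lf 0 1124082 0) (P.cons (P.lf 0 92688 0) (P.cons (P.lf 6192 0 0) P.nil))) (P.cons (P.cons (P.lf 0 48126 0) (P.cons (P.lf 5200 0 0) P.nil)) (P.cons (P.cons (P.lf 370 0 0) P.nil) P.nil)))))) 4916)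
 EL.nil)
noncomputable def S111_125_512_660_35 : EL := (EL.cons 14 (TM.mk (P.cons (P.cons (P.lf 1088355384 0 0) (P.cons (P.lf 126642872 0 0) (P.cons (P.lf 0 4782946 0) (P.cons (P.lf 0 3314964 0) (P.cons (P.lf 0 147738 0) (P.cons (P.lf 10978 0 0) P.nil)))))) (P.cons (P.cons (P.lf 0 283503998 0) (P.cons (P.lf 15762156 0 0) (P.cons (P.lf 822900 0 0) (P.cons (P.lf 0 602218 0) (P.cons (P.lf 0 75258 0) P.nil))))) (P.cons (P.cons (P.lf 13178536 0 0) (P.cons (P.lf 0 1716176 0) (P.cons (P.lf 516218 0 0) (P.cons (P.lf 0 15434 0) P.nil)))) (P.cons (P.cons (P.lf 1488426 0 0) (P.cons (P.lf 0 329462 0) (P.cons (P.lf 67250 0 0) P.nil))) (P.cons (P.cons (P.lf 0 63552 0) (P.cons (P.lf 0 5222 0) P.nil)) (P.cons (P.cons (P.lf 0 6668 0) P.nil) P.nil)))))) 61728)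
 EL.nil)
noncomputable def S111_125_512_660_36 : EL := (EL.cons 14 (TM.mk (P.cons (P.lf 0 6793414200 0) (P.cons (P.lf 160958912 0 0) (P.cons (P.lf 9008320 0 0) (P.cons (P.lf 133152 0 0) (P.cons (P.lf 0 2576 0) (P.cons (P.lf 0 160 0) P.nil)))))) 136)
 EL.nil)
noncomputable def S111_125_512_660_37 : EL := (EL.cons 14 (TM.mk (P.cons (P.cons (P.lf 2418123798 0 0) (P.cons (P.lf 140688486 0 0) (P.cons (P.lf 0 9406098 0) (P.lf 0 3135364 0)))) (P.cons (P.cons (P.lf 0 372240164 0) (P.cons (P.lf 32500772 0 0) (P.cons (P.lf 0 2172922 0) (P.lf 0 724306 0)))) (P.cons (P.cons (P.lf 0 1614230 0) (P.cons (P.lf 2066600 0 0) (P.cons (P.lf 0 138162 0) (P.lf 0 46054 0)))) (P.cons (P.cons (P.lf 1398300 0 0) (P.cons (P.lf 0 50472 0) (P.cons (P.lf 3378 0 0) P.nil))) (P.cons (P.cons (P.lf 31870 0 0) (P.cons (P.lf 0 10610 0) P.nil)) (P.cons (P.cons (P.lf 0 2320 0) P.nil) P.nil)))))) 7770)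
 EL.nil)
noncomputable def S111_125_512_660_38 : EL := (EL.cons 14 (TM.mk (P.cons (P.cons (P.lf 0 860734018 0) (P.cons (P.lf 0 100156464 0) (P.cons (P.lf 3782628 0 0) (P.cons (P.lf 2621664 0 0) (P.cons (P.lf 116838 0 0) (P.cons (P.lf 0 8682 0) P.nil)))))) (P.cons (P.cons (P.lf 244604956 0 0) (P.cons (P.lf 0 10092574 0) (P.cons (P.lf 0 740418 0) (P.cons (P.lf 414152 0 0) (P.cons (P.lf 56750 0 0) P.nil))))) (P.cons (P.cons (P.lf 0 14593300 0) (P.cons (P.lf 1785414 0 0) (P.cons (P.lf 0 397850 0) (P.cons (P.lf 0 2554 0) P.nil)))) (P.cons (P.cons (P.lf 0 1210634 0) (P.cons (P.lf 246892 0 0) (P.cons (P.lf 0 42722 0) P.nil))) (P.cons (P.cons (P.lf 87250 0 0) (P.cons (P.lf 0 3636 0) P.nil)) (P.cons (P.cons (P.lf 5912 0 0) P.nil) P.nil)))))) 55590)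
 EL.nil)
noncomputable def S111_125_512_660_39 : EL := (EL.cons 14 (TM.mk (P.cons (P.lf 5372622572 0 0) (P.cons (P.lf 0 254591124 0) (P.cons (P.lf 0 11232532 0) (P.cons (P.lf 126988 0 0) (P.cons (P.lf 18510 0 0) (P.cons (P.lf 434 0 0) P.nil)))))) 248)
 EL.nil)
noncomputable def S111_125_512_660_40 : EL := (EL.cons 14 (TM.mk (P.cons (P.cons (P.lf 0 1912391342 0) (P.cons (P.lf 0 111264544 0) (P.cons (P.lf 7438882 0 0) (P.lf 2479626 0 0)))) (P.cons (P.cons (P.lf 339699932 0 0) (P.cons (P.lf 0 23067246 0) (P.cons (P.lf 1542220 0 0) (P.lf 514072 0 0)))) (P.cons (P.cons (P.lf 0 3162538 0) (P.cons (P.lf 0 877844 0) (P.cons (P.lf 58686 0 0) (P.lf 19562 0 0)))) (P.cons (P.cons (P.lf 0 1488990 0) (P.cons (P.lf 114904 0 0) (P.cons (P.lf 0 7684 0) P.nil))) (P.cons (P.cons (P.lf 0 7190 0) (P.cons (P.lf 10074 0 0) P.nil)) (P.cons (P.cons (P.lf 3940 0 0) P.nil) P.nil)))))) 8690)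
 EL.nil)
noncomputable def S111_125_512_660_41 : EL := (EL.cons 14 (TM.mk (P.cons (P.cons (P.lf 680717954 0 0) (P.cons (P.lf 79209490 0 0) (P.cons (P.lf 0 2991520 0) (P.cons (P.lf 0 2073362 0) (P.cons (P.lf 0 92402 0) (P.cons (P.lf 6866 0 0) P.nil)))))) (P.cons (P.cons (P.lf 0 209576170 0) (P.cons (P.lf 6105048 0 0) (P.cons (P.lf 656444 0 0) (P.cons (P.lf 0 278410 0) (P.cons (P.lf 0 42690 0) P.nil))))) (P.cons (P.cons (P.lf 15221990 0 0) (P.cons (P.lf 0 1706158 0) (P.cons (P.lf 304736 0 0) (P.cons (P.lf 12530 0 0) P.nil)))) (P.cons (P.cons (P.lf 927164 0 0) (P.cons (P.lf 0 173938 0) (P.cons (P.lf 25614 0 0) P.nil))) (P.cons (P.cons (P.lf 0 102942 0) (P.cons (P.lf 9248 0 0) P.nil)) (P.cons (P.cons (P.lf 0 4594 0) P.nil) P.nil)))))) 48622)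
 EL.nil)
noncomputable def S111_125_512_660_42 : EL := (EL.cons 14 (TM.mk (P.cons (P.lf 0 4248978856 0) (P.cons (P.lf 302017950 0 0) (P.cons (P.lf 9747086 0 0) (P.cons (P.lf 0 494616 0) (P.cons (P.lf 0 29596 0) (P.cons (P.lf 0 60 0) P.nil)))))) 342)
 EL.nil)
noncomputable def S111_125_512_660_43 : EL := (EL.cons 14 (TM.mk (P.cons (P.cons (P.lf 1512429036 0 0) (P.cons (P.lf 87994400 0 0) (P.cons (P.lf 0 5883096 0) (P.lf 0 1961030 0)))) (P.cons (P.cons (P.lf 0 304488786 0) (P.cons (P.lf 16158020 0 0) (P.cons (P.lf 0 1080286 0) (P.lf 0 360094 0)))) (P.cons (P.cons (P.lf 6860906 0 0) (P.cons (P.lf 145330 0 0) (P.cons (P.lf 0 9712 0) (P.lf 0 3236 0)))) (P.cons (P.cons (P.lf 1444920 0 0) (P.cons (P.lf 0 133238 0) (P.cons (P.lf 8910 0 0) P.nil))) (P.cons (P.cons (P.lf 0 19690 0) (P.cons (P.lf 0 7060 0) P.nil)) (P.cons (P.cons (P.lf 0 4928 0) P.nil) P.nil)))))) 9052)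
 EL.nil)
noncomputable def S111_125_512_660_44 : EL := (EL.cons 14 (TM.mk (P.cons (P.cons (P.lf 0 538350898 0) (P.cons (P.lf 0 62643420 0) (P.cons (P.lf 2365866 0 0) (P.cons (P.lf 1639734 0 0) (P.cons (P.lf 73078 0 0) (P.cons (P.lf 0 5430 0) P.nil)))))) (P.cons (P.cons (P.lf 178500236 0 0) (P.cons (P.lf 0 3343988 0) (P.cons (P.lf 0 575210 0) (P.cons (P.lf 181332 0 0) (P.cons (P.lf 32030 0 0) P.nil))))) (P.cons (P.cons (P.lf 0 15251608 0) (P.cons (P.lf 1546792 0 0) (P.cons (P.lf 0 231838 0) (P.cons (P.lf 0 17300 0) P.nil)))) (P.cons (P.cons (P.lf 0 657256 0) (P.cons (P.lf 113220 0 0) (P.cons (P.lf 0 13904 0) P.nil))) (P.cons (P.cons (P.lf 111296 0 0) (P.cons (P.lf 0 12290 0) P.nil)) (P.cons (P.cons (P.lf 2962 0 0) P.nil) P.nil)))))) 42006)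
 EL.nil)
noncomputable def S111_125_512_660_45 : EL := (EL.cons 14 (TM.mk (P.cons (P.cons (P.lf 0 387401382 0) (P.cons (P.lf 0 67618018 0) (P.cons (P.lf 586706 0 0) (P.cons (P.lf 1956674 0 0) (P.cons (P.lf 173064 0 0) (P.cons (P.lf 0 7644 0) P.nil)))))) (P.cons (P.cons (P.lf 151370372 0 0) (P.cons (P.lf 391018 0 0) (P.cons (P.lf 0 1517814 0) (P.cons (P.lf 132444 0 0) (P.cons (P.lf 71510 0 0) P.nil))))) (P.cons (P.cons (P.lf 0 16893930 0) (P.cons (P.lf 2176564 0 0) (P.cons (P.lf 0 303670 0) (P.cons (P.lf 0 47256 0) P.nil)))) (P.cons (P.cons (P.lf 0 306226 0) (P.cons (P.lf 52134 0 0) (P.cons (P.lf 7480 0 0) P.nil))) (P.cons (P.cons (P.lf 134014 0 0) (P.cons (P.lf 0 26504 0) P.nil)) (P.cons (P.cons (P.lf 622 0 0) P.nil) P.nil)))))) 78728)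
 EL.nil)
noncomputable def S111_125_512_660_46 : EL := (EL.cons 15 (TM.mk (P.lf 4294967296 0 0) 0)
 EL.nil)
noncomputable def S111_125_512_660_47 : EL := (EL.cons 15 (TM.mk (P.cons (P.cons (P.lf 0 1528798676 0) (P.cons (P.lf 0 88946800 0) (P.cons (P.lf 5946772 0 0) (P.lf 1982256 0 0)))) (P.cons (P.cons (P.lf 199117193 0 0) (P.cons (P.lf 0 22655256 0) (P.cons (P.lf 1514676 0 0) (P.lf 504892 0 0)))) (P.cons (P.cons (P.lf 3711072 0 0) (P.cons (P.lf 0 1961284 0) (P.cons (P.lf 131124 0 0) (P.lf 43708 0 0)))) (P.cons (P.cons (P.lf 0 562041 0) (P.cons (P.lf 0 46344 0) (P.cons (P.lf 3096 0 0) P.nil))) (P.cons (P.cons (P.lf 0 24063 0) (P.cons (P.lf 2600 0 0) P.nil)) (P.cons (P.cons (P.lf 185 0 0) P.nil) P.nil)))))) 2458)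
 EL.nil)
noncomputable def S111_125_512_660_48 : EL := (EL.cons 15 (TM.mk (P.cons (P.cons (P.lf 544177692 0 0) (P.cons (P.lf 63321436 0 0) (P.cons (P.lf 0 2391473 0) (P.cons (P.lf 0 1657482 0) (P.cons (P.lf 0 73869 0) (P.cons (P.lf 5489 0 0) P.nil)))))) (P.cons (P.cons (P.lf 0 141751999 0) (P.cons (P.lf 7881078 0 0) (P.cons (P.lf 411450 0 0) (P.cons (P.lf 0 301109 0) (P.cons (P.lf 0 37629 0) P.nil))))) (P.cons (P.cons (P.lf 6589268 0 0) (P.cons (P.lf 0 858088 0) (P.cons (P.lf 258109 0 0) (P.cons (P.lf 0 7717 0) P.nil)))) (P.cons (P.cons (P.lf 744213 0 0) (P.cons (P.lf 0 164731 0) (P.cons (P.lf 33625 0 0) P.nil))) (P.cons (P.cons (P.lf 0 31776 0) (P.cons (P.lf 0 2611 0) P.nil)) (P.cons (P.cons (P.lf 0 3334 0) P.nil) P.nil)))))) 30864)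
 EL.nil)
noncomputable def S111_125_512_660 : SL := (SL.cons S111_125_512_660_0 (SL.cons S111_125_512_660_1 (SL.cons S111_125_512_660_2 (SL.cons S111_125_512_660_3 (SL.cons S111_125_512_660_4 (SL.cons S111_125_512_660_5 (SL.cons S111_125_512_660_6 (SL.cons S111_125_512_660_7 (SL.cons S111_125_512_660_8 (SL.cons S111_125_512_660_9 (SL.cons S111_125_512_660_10 (SL.cons S111_125_512_660_11 (SL.cons S111_125_512_660_12 (SL.cons S111_125_512_660_13 (SL.cons S111_125_512_660_14 (SL.cons S111_125_512_660_15 (SL.cons S111_125_512_660_16 (SL.cons S111_125_512_660_17 (SL.cons S111_125_512_660_18 (SL.cons S111_125_512_660_19 (SL.cons S111_125_512_660_20 (SL.cons S111_125_512_660_21 (SL.cons S111_125_512_660_22 (SL.cons S111_125_512_660_23 (SL.cons S111_125_512_660_24 (SL.cons S111_125_512_660_25 (SL.cons S111_125_512_660_26 (SL.cons S111_125_512_660_27 (SL.cons S111_125_512_660_28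 (SL.cons S111_125_512_660_29 (SL.cons S111_125_512_660_30 (SL.cons S111_125_512_660_31 (SL.cons S111_125_512_660_32 (SL.cons S111_125_512_660_33 (SL.cons S111_125_512_660_34 (SL.cons S111_125_512_660_35 (SL.cons S111_125_512_660_36 (SL.cons S111_125_512_660_37 (SL.cons S111_125_512_660_38 (SL.cons S111_125_512_660_39 (SL.cons S111_125_512_660_40 (SL.cons S111_125_512_660_41 (SL.cons S111_125_512_660_42 (SL.cons S111_125_512_660_43 (SL.cons S111_125_512_660_44 (SL.cons S111_125_512_660_45 (SL.cons S111_125_512_660_46 (SL.cons S111_125_512_660_47 (SL.cons S111_125_512_660_48 SL.nil)))))))))))))))))))))))))))))))))))))))))))))))))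
noncomputable def S111_140_216_290_0 : EL := (EL.cons 0 (TM.mk (P.cons (P.lf 3984603821 0 0) (P.cons (P.lf 506360443 0 0) (P.cons (P.lf 40320479 0 0) (P.cons (P.lf 0 1649728 0) (P.cons (P.lf 0 335571 0) (P.cons (P.lf 0 13014 0) P.nil)))))) 1861)
 (EL.cons 1 (TM.mk (P.cons (P.lf 0 1579171841 0) (P.cons (P.lf 0 165450982 0) (P.cons (P.lf 24357408 0 0) (P.cons (P.lf 2583976 0 0) (P.cons (P.lf 21706 0 0) (P.cons (P.lf 0 11396 0) P.nil)))))) 1057)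
 (EL.cons 5 (TM.mk (P.cons (P.lf 5884696382 0 0) (P.cons (P.lf 0 180039266 0) (P.cons (P.lf 0 14336174 0) (P.cons (P.lf 586566 0 0) (P.cons (P.lf 119316 0 0) (P.cons (P.lf 4630 0 0) P.nil)))))) 385)
 (EL.cons 9 (TM.mk (P.lf 6442450944 0 0) 2)
 EL.nil))))
noncomputable def S111_140_216_290_1 : EL := (EL.cons 0 (TM.mk (P.cons (P.cons (P.lf 0 4925882215 0) (P.cons (P.lf 31429011 0 0) (P.cons (P.lf 14836409 0 0) (P.lf 0 706487 0)))) (P.cons (P.cons (P.lf 0 256019714 0) (P.cons (P.lf 8466144 0 0) (P.cons (P.lf 3996523 0 0) (P.lf 0 190300 0)))) (P.cons (P.cons (P.lf 245440067 0 0) (P.cons (P.lf 0 1366814 0) (P.cons (P.lf 0 645223 0) (P.lf 30735 0 0)))) (P.cons (P.cons (P.lf 40337482 0 0) (P.cons (P.lf 0 682477 0) (P.cons (P.lf 0 322175 0) P.nil))) (P.cons (P.cons (P.lf 0 1310193 0) (P.cons (P.lf 0 61847 0) P.nil)) (P.cons (P.cons (P.lf 0 697161 0) P.nil) P.nil)))))) 234488)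
 (EL.cons 1 (TM.mk (P.cons (P.cons (P.lf 1665681136 0 0) (P.cons (P.lf 0 9345232 0) (P.cons (P.lf 0 4411525 0) (P.lf 210078 0 0)))) (P.cons (P.cons (P.lf 0 568096545 0) (P.cons (P.lf 4309189 0 0) (P.cons (P.lf 2034196 0 0) (P.lf 0 96862 0)))) (P.cons (P.cons (P.lf 0 153722418 0) (P.cons (P.lf 2337951 0 0) (P.cons (P.lf 1103651 0 0) (P.lf 0 52545 0)))) (P.cons (P.cons (P.lf 10912432 0 0) (P.cons (P.lf 174200 0 0) (P.cons (P.lf 82226 0 0) P.nil))) (P.cons (P.cons (P.lf 3768215 0 0) (P.cons (P.lf 0 37920 0) P.nil)) (P.cons (P.cons (P.lf 118057 0 0) P.nil) P.nil)))))) 106467)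
 (EL.cons 5 (TM.mk (P.cons (P.cons (P.lf 271980559 0 0) (P.cons (P.lf 0 35512834 0) (P.cons (P.lf 0 16764228 0) (P.lf 798294 0 0)))) (P.cons (P.cons (P.lf 1176522512 0 0) (P.cons (P.lf 0 14794424 0) (P.cons (P.lf 0 6983872 0) (P.lf 332564 0 0)))) (P.cons (P.cons (P.lf 0 16276070 0) (P.cons (P.lf 0 1403342 0) (P.cons (P.lf 0 662466 0) (P.lf 31542 0 0)))) (P.cons (P.cons (P.lf 0 22434402 0) (P.cons (P.lf 180760 0 0) (P.cons (P.lf 85330 0 0) P.nil))) (P.cons (P.cons (P.lf 0 663836 0) (P.cons (P.lf 35996 0 0) P.nil)) (P.cons (P.cons (P.lf 231080 0 0) P.nil) P.nil)))))) 77428)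
 (EL.cons 9 (TM.mk (P.cons (P.cons (P.lf 0 1305391959 0) (P.cons (P.lf 0 21474768 0) (P.cons (P.lf 0 10137402 0) (P.lf 482730 0 0)))) (P.cons (P.cons (P.lf 957788184 0 0) (P.cons (P.lf 0 10397856 0) (P.cons (P.lf 0 4908420 0) (P.lf 233730 0 0)))) (P.cons (P.cons (P.lf 62639556 0 0) (P.cons (P.lf 0 1667046 0) (P.cons (P.lf 0 786948 0) (P.lf 37470 0 0)))) (P.cons (P.cons (P.lf 0 7140166 0) (P.cons (P.lf 0 54612 0) (P.cons (P.lf 0 25776 0) P.nil))) (P.cons (P.cons (P.lf 0 996760 0) (P.cons (P.lf 12354 0 0) P.nil)) (P.cons (P.cons (P.lf 0 14815 0) P.nil) P.nil)))))) 20366)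
 (EL.cons 2 (TM.mk (P.cons (P.cons (P.lf 122285435 0 0) (P.cons (P.lf 120578594 0 0) (P.cons (P.lf 0 3773019 0) (P.cons (P.lf 0 691388 0) (P.lf 24690 0 0))))) (P.cons (P.cons (P.lf 32548373 0 0) (P.cons (P.lf 32094067 0 0) (P.cons (P.lf 0 1004250 0) (P.cons (P.lf 0 184024 0) (P.lf 6570 0 0))))) (P.cons (P.cons (P.lf 160526 0 0) (P.cons (P.lf 158284 0 0) (P.cons (P.lf 0 4950 0) (P.cons (P.lf 0 905 0) P.nil)))) (P.cons (P.cons (P.lf 0 567615 0) (P.cons (P.lf 0 559693 0) (P.cons (P.lf 17510 0 0) P.nil))) (P.cons (P.cons (P.lf 0 43281 0) (P.cons (P.lf 0 42676 0) P.nil)) (P.cons (P.cons (P.lf 1248 0 0) P.nil) P.nil)))))) 12176)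
 (EL.cons 6 (TM.mk (P.cons (P.cons (P.lf 43190523 0 0) (P.cons (P.lf 42587676 0 0) (P.cons (P.lf 0 1332609 0) (P.cons (P.lf 0 244194 0) (P.lf 8718 0 0))))) (P.cons (P.cons (P.lf 20912397 0 0) (P.cons (P.lf 20620506 0 0) (P.cons (P.lf 0 645234 0) (P.cons (P.lf 0 118236 0) (P.lf 4221 0 0))))) (P.cons (P.cons (P.lf 3352806 0 0) (P.cons (P.lf 3306006 0 0) (P.cons (P.lf 0 103446 0) (P.cons (P.lf 0 18954 0) P.nil)))) (P.cons (P.cons (P.lf 109836 0 0) (P.cons (P.lf 108303 0 0) (P.cons (P.lf 0 3387 0) P.nil))) (P.cons (P.cons (P.lf 0 24852 0) (P.cons (P.lf 0 24504 0) P.nil)) (P.cons (P.cons (P.lf 0 2763 0) P.nil) P.nil)))))) 6312)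
 EL.nil))))))
noncomputable def S111_140_216_290_2 : EL := (EL.cons 0 (TM.mk (P.cons (P.cons (P.lf 1832605963 0 0) (P.cons (P.lf 14720114 0 0) (P.cons (P.lf 6694992 0 0) (P.cons (P.lf 0 570503 0) (P.cons (P.lf 0 45145 0) (P.cons (P.lf 5383 0 0) P.nil)))))) (P.cons (P.cons (P.lf 0 1141621113 0) (P.cons (P.lf 24180328 0 0) (P.cons (P.lf 11208188 0 0) (P.cons (P.lf 0 738392 0) (P.cons (P.lf 0 36709 0) P.nil))))) (P.cons (P.cons (P.lf 0 314893147 0) (P.cons (P.lf 7290562 0 0) (P.cons (P.lf 3383954 0 0) (P.cons (P.lf 0 218283 0) P.nil)))) (P.cons (P.cons (P.lf 42563171 0 0) (P.cons (P.lf 0 252997 0) (P.cons (P.lf 0 121551 0) P.nil))) (P.cons (P.cons (P.lf 17566619 0 0) (P.cons (P.lf 0 414139 0) P.nil)) (P.cons (P.cons (P.lf 463499 0 0) P.nil) P.nil)))))) 1187656)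
 (EL.cons 1 (TM.mk (P.cons (P.cons (P.lf 0 610177358 0) (P.cons (P.lf 0 5184201 0) (P.cons (P.lf 0 2367411 0) (P.cons (P.lf 191921 0 0) (P.cons (P.lf 14205 0 0) (P.cons (P.lf 0 1696 0) P.nil)))))) (P.cons (P.cons (P.lf 637139200 0 0) (P.cons (P.lf 0 6423146 0) (P.cons (P.lf 0 3011845 0) (P.cons (P.lf 163522 0 0) (P.cons (P.lf 3606 0 0) P.nil))))) (P.cons (P.cons (P.lf 0 56516692 0) (P.cons (P.lf 1365398 0 0) (P.cons (P.lf 628240 0 0) (P.cons (P.lf 0 46097 0) P.nil)))) (P.cons (P.cons (P.lf 0 55227868 0) (P.cons (P.lf 1196257 0 0) (P.cons (P.lf 555759 0 0) P.nil))) (P.cons (P.cons (P.lf 0 534897 0) (P.cons (P.lf 130746 0 0) P.nil)) (P.cons (P.cons (P.lf 1533416 0 0) P.nil) P.nil)))))) 558097)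
 (EL.cons 5 (TM.mk (P.cons (P.cons (P.lf 0 351823061 0) (P.cons (P.lf 4629120 0 0) (P.cons (P.lf 2356599 0 0) (P.cons (P.lf 57726 0 0) (P.cons (P.lf 30472 0 0) (P.cons (P.lf 0 3632 0) P.nil)))))) (P.cons (P.cons (P.lf 0 33983177 0) (P.cons (P.lf 0 11058517 0) (P.cons (P.lf 0 5068349 0) (P.cons (P.lf 392035 0 0) (P.cons (P.lf 27024 0 0) P.nil))))) (P.cons (P.cons (P.lf 244571347 0 0) (P.cons (P.lf 0 5803716 0) (P.cons (P.lf 0 2687593 0) (P.cons (P.lf 179640 0 0) P.nil)))) (P.cons (P.cons (P.lf 9254138 0 0) (P.cons (P.lf 0 621937 0) (P.cons (P.lf 0 286325 0) P.nil))) (P.cons (P.cons (P.lf 0 7503965 0) (P.cons (P.lf 120079 0 0) P.nil)) (P.cons (P.cons (P.lf 0 651254 0) P.nil) P.nil)))))) 467615)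
 (EL.cons 9 (TM.mk (P.cons (P.cons (P.lf 264503086 0 0) (P.cons (P.lf 8702584 0 0) (P.cons (P.lf 4179733 0 0) (P.cons (P.lf 0 128041 0) (P.cons (P.lf 12732 0 0) (P.cons (P.lf 0 1518 0) P.nil)))))) (P.cons (P.cons (P.lf 0 388140787 0) (P.cons (P.lf 0 2171533 0) (P.cons (P.lf 0 955779 0) (P.cons (P.lf 114259 0 0) (P.cons (P.lf 12330 0 0) P.nil))))) (P.cons (P.cons (P.lf 117008241 0 0) (P.cons (P.lf 0 2833692 0) (P.cons (P.lf 0 1309779 0) (P.cons (P.lf 90034 0 0) P.nil)))) (P.cons (P.cons (P.lf 21518562 0 0) (P.cons (P.lf 0 628135 0) (P.cons (P.lf 0 290775 0) P.nil))) (P.cons (P.cons (P.lf 0 1110057 0) (P.cons (P.lf 0 23968 0) P.nil)) (P.cons (P.cons (P.lf 0 429216 0) P.nil) P.nil)))))) 139987)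
 (EL.cons 2 (TM.mk (P.cons (P.cons (P.lf 0 49555805 0) (P.cons (P.lf 0 49679347 0) (P.cons (P.lf 340306 0 0) (P.cons (P.lf 0 55800 0) (P.cons (P.lf 24541 0 0) (P.cons (P.lf 1445 0 0) P.nil)))))) (P.cons (P.cons (P.lf 23169802 0 0) (P.cons (P.lf 22234685 0 0) (P.cons (P.lf 0 1606826 0) (P.cons (P.lf 0 383107 0) (P.cons (P.lf 30600 0 0) P.nil))))) (P.cons (P.cons (P.lf 11990716 0 0) (P.cons (P.lf 11653931 0 0) (P.cons (P.lf 0 616989 0) (P.cons (P.lf 0 137615 0) P.nil)))) (P.cons (P.cons (P.lf 639624 0 0) (P.cons (P.lf 615048 0 0) (P.cons (P.lf 0 42553 0) P.nil))) (P.cons (P.cons (P.lf 0 258091 0) (P.cons (P.lf 0 252540 0) P.nil)) (P.cons (P.cons (P.lf 0 35403 0) P.nil) P.nil)))))) 113562)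
 (EL.cons 6 (TM.mk (P.cons (P.cons (P.lf 0 17502828 0) (P.cons (P.lf 0 17546460 0) (P.cons (P.lf 120192 0 0) (P.cons (P.lf 0 19704 0) (P.cons (P.lf 8664 0 0) (P.cons (P.lf 510 0 0) P.nil)))))) (P.cons (P.cons (P.lf 4367430 0 0) (P.cons (P.lf 4027644 0 0) (P.cons (P.lf 0 541314 0) (P.cons (P.lf 0 139608 0) (P.cons (P.lf 12696 0 0) P.nil))))) (P.cons (P.cons (P.lf 5699178 0 0) (P.cons (P.lf 5507424 0 0) (P.cons (P.lf 0 339450 0) (P.cons (P.lf 0 78462 0) P.nil)))) (P.cons (P.cons (P.lf 1263324 0 0) (P.cons (P.lf 1222578 0 0) (P.cons (P.lf 0 72672 0) P.nil))) (P.cons (P.cons (P.lf 48210 0 0) (P.cons (P.lf 45420 0 0) P.nil)) (P.cons (P.cons (P.lf 0 18234 0) P.nil) P.nil)))))) 68544)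
 EL.nil))))))
noncomputable def S111_140_216_290_3 : EL := (EL.cons 0 (TM.mk (P.cons (P.lf 4471113042 0 0) (P.cons (P.lf 0 506360443 0) (P.cons (P.lf 0 40320479 0) (P.cons (P.lf 1649728 0 0) (P.cons (P.lf 335571 0 0) (P.cons (P.lf 13014 0 0) P.nil)))))) 1861)
 (EL.cons 1 (TM.mk (P.cons (P.lf 1579171841 0 0) (P.cons (P.lf 165450982 0 0) (P.cons (P.lf 0 24357408 0) (P.cons (P.lf 0 2583976 0) (P.cons (P.lf 0 21706 0) (P.cons (P.lf 11396 0 0) P.nil)))))) 1057)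
 (EL.cons 5 (TM.mk (P.cons (P.lf 557754562 0 0) (P.cons (P.lf 180039266 0 0) (P.cons (P.lf 14336174 0 0) (P.cons (P.lf 0 586566 0) (P.cons (P.lf 0 119316 0) (P.cons (P.lf 0 4630 0) P.nil)))))) 378)
 EL.nil)))
noncomputable def S111_140_216_290_4 : EL := (EL.cons 0 (TM.mk (P.cons (P.cons (P.lf 0 905952573 0) (P.cons (P.lf 0 14903662 0) (P.cons (P.lf 0 7035438 0) (P.lf 335017 0 0)))) (P.cons (P.cons (P.lf 767313267 0 0) (P.cons (P.lf 0 5528332 0) (P.cons (P.lf 0 2609708 0) (P.lf 124268 0 0)))) (P.cons (P.cons (P.lf 0 23637506 0) (P.cons (P.lf 0 205296 0) (P.cons (P.lf 0 96911 0) (P.lf 4612 0 0)))) (P.cons (P.cons (P.lf 0 16207294 0) (P.cons (P.lf 152699 0 0) (P.cons (P.lf 72086 0 0) P.nil))) (P.cons (P.cons (P.lf 0 345325 0) (P.cons (P.lf 19516 0 0) P.nil)) (P.cons (P.cons (P.lf 176039 0 0) P.nil) P.nil)))))) 48785)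
 (EL.cons 1 (TM.mk (P.cons (P.cons (P.lf 0 319977324 0) (P.cons (P.lf 0 5263888 0) (P.cons (P.lf 0 2484875 0) (P.lf 118325 0 0)))) (P.cons (P.cons (P.lf 201248523 0 0) (P.cons (P.lf 0 3100220 0) (P.cons (P.lf 0 1463491 0) (P.lf 69688 0 0)))) (P.cons (P.cons (P.lf 44886888 0 0) (P.cons (P.lf 0 594465 0) (P.cons (P.lf 0 280623 0) (P.lf 13361 0 0)))) (P.cons (P.cons (P.lf 0 3239124 0) (P.cons (P.lf 0 8272 0) (P.cons (P.lf 0 3903 0) P.nil))) (P.cons (P.cons (P.lf 0 1044275 0) (P.cons (P.lf 12170 0 0) P.nil)) (P.cons (P.cons (P.lf 0 32895 0) P.nil) P.nil)))))) 23565)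
 (EL.cons 5 (TM.mk (P.cons (P.cons (P.lf 0 113014180 0) (P.cons (P.lf 0 1859174 0) (P.cons (P.lf 0 877644 0) (P.lf 41790 0 0)))) (P.cons (P.cons (P.lf 46440232 0 0) (P.cons (P.lf 0 1500322 0) (P.cons (P.lf 0 708242 0) (P.lf 33724 0 0)))) (P.cons (P.cons (P.lf 29284298 0 0) (P.cons (P.lf 0 482686 0) (P.cons (P.lf 0 227856 0) (P.lf 10848 0 0)))) (P.cons (P.cons (P.lf 3382538 0 0) (P.cons (P.lf 0 72496 0) (P.cons (P.lf 0 34222 0) P.nil))) (P.cons (P.cons (P.lf 0 209468 0) (P.cons (P.lf 0 2822 0) P.nil)) (P.cons (P.cons (P.lf 0 67528 0) P.nil) P.nil)))))) 13064)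
 EL.nil)))
noncomputable def S111_140_216_290_5 : EL := (EL.cons 0 (TM.mk (P.cons (P.cons (P.lf 183567280 0 0) (P.cons (P.lf 6039662 0 0) (P.cons (P.lf 2900768 0 0) (P.cons (P.lf 0 88860 0) (P.cons (P.lf 8834 0 0) (P.cons (P.lf 0 1052 0) P.nil)))))) (P.cons (P.cons (P.lf 0 290162121 0) (P.cons (P.lf 0 2191062 0) (P.cons (P.lf 0 991833 0) (P.cons (P.lf 89360 0 0) (P.cons (P.lf 7555 0 0) P.nil))))) (P.cons (P.cons (P.lf 110056144 0 0) (P.cons (P.lf 0 1850392 0) (P.cons (P.lf 0 860034 0) (P.cons (P.lf 54304 0 0) P.nil)))) (P.cons (P.cons (P.lf 8234435 0 0) (P.cons (P.lf 0 197390 0) (P.cons (P.lf 0 91801 0) P.nil))) (P.cons (P.cons (P.lf 0 3279610 0) (P.cons (P.lf 50366 0 0) P.nil)) (P.cons (P.cons (P.lf 0 335026 0) P.nil) P.nil)))))) 217779)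
 (EL.cons 1 (TM.mk (P.cons (P.cons (P.lf 64834923 0 0) (P.cons (P.lf 2133174 0 0) (P.cons (P.lf 1024533 0 0) (P.cons (P.lf 0 31383 0) (P.cons (P.lf 3120 0 0) (P.cons (P.lf 0 371 0) P.nil)))))) (P.cons (P.cons (P.lf 0 88348162 0) (P.cons (P.lf 0 308790 0) (P.cons (P.lf 0 126937 0) (P.cons (P.lf 24718 0 0) (P.cons (P.lf 3348 0 0) P.nil))))) (P.cons (P.cons (P.lf 17713014 0 0) (P.cons (P.lf 0 783262 0) (P.cons (P.lf 0 361400 0) (P.cons (P.lf 25486 0 0) P.nil)))) (P.cons (P.cons (P.lf 9640936 0 0) (P.cons (P.lf 0 222020 0) (P.cons (P.lf 0 102973 0) P.nil))) (P.cons (P.cons (P.lf 0 7063 0) (P.cons (P.lf 0 10451 0) P.nil)) (P.cons (P.cons (P.lf 0 260227 0) P.nil) P.nil)))))) 103745)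
 (EL.cons 5 (TM.mk (P.cons (P.cons (P.lf 22899328 0 0) (P.cons (P.lf 753424 0 0) (P.cons (P.lf 361858 0 0) (P.cons (P.lf 0 11084 0) (P.cons (P.lf 1100 0 0) (P.cons (P.lf 0 130 0) P.nil)))))) (P.cons (P.cons (P.lf 0 26211506 0) (P.cons (P.lf 55200 0 0) (P.cons (P.lf 34058 0 0) (P.cons (P.lf 6312 0 0) (P.cons (P.lf 1422 0 0) P.nil))))) (P.cons (P.cons (P.lf 0 128326 0) (P.cons (P.lf 0 286644 0) (P.cons (P.lf 0 130802 0) (P.cons (P.lf 10702 0 0) P.nil)))) (P.cons (P.cons (P.lf 4245052 0 0) (P.cons (P.lf 0 139194 0) (P.cons (P.lf 0 64282 0) P.nil))) (P.cons (P.cons (P.lf 796064 0 0) (P.cons (P.lf 0 25896 0) P.nil)) (P.cons (P.cons (P.lf 0 23950 0) P.nil) P.nil)))))) 54436)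
 EL.nil)))
noncomputable def S111_140_216_290_6 : EL := (EL.cons 12 (TM.mk (P.lf 8589934592 0 0) 0)
 (EL.cons 3 (TM.mk (P.cons (P.lf 0 3098651666 0) (P.cons (P.lf 175463538 0 0) (P.cons (P.lf 18939693 0 0) (P.cons (P.lf 500812 0 0) (P.cons (P.lf 0 30041 0) (P.cons (P.lf 0 3150 0) P.nil)))))) 205)
 (EL.cons 7 (TM.mk (P.cons (P.lf 0 1094426245 0) (P.cons (P.lf 0 176636564 0) (P.cons (P.lf 189038 0 0) (P.cons (P.lf 544971 0 0) (P.cons (P.lf 29121 0 0) (P.cons (P.lf 0 63 0) P.nil)))))) 165)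
 EL.nil)))
noncomputable def S111_140_216_290_7 : EL := (EL.cons 12 (TM.mk (P.cons (P.cons (P.lf 0 1740522612 0) (P.cons (P.lf 0 28633024 0) (P.cons (P.lf 0 13516536 0) (P.lf 643640 0 0)))) (P.cons (P.cons (P.lf 1277050912 0 0) (P.cons (P.lf 0 13863808 0) (P.cons (P.lf 0 6544560 0) (P.lf 311640 0 0)))) (P.cons (P.cons (P.lf 83519408 0 0) (P.cons (P.lf 0 2222728 0) (P.cons (P.lf 0 1049264 0) (P.lf 49960 0 0)))) (P.cons (P.cons (P.lf 0 9520222 0) (P.cons (P.lf 0 72816 0) (P.cons (P.lf 0 34368 0) P.nil))) (P.cons (P.cons (P.lf 0 1329014 0) (P.cons (P.lf 16472 0 0) P.nil)) (P.cons (P.cons (P.lf 0 19754 0) P.nil) P.nil)))))) 27130)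
 (EL.cons 3 (TM.mk (P.cons (P.cons (P.lf 3482142478 0 0) (P.cons (P.lf 0 20657610 0) (P.cons (P.lf 0 9751652 0) (P.lf 464360 0 0)))) (P.cons (P.cons (P.lf 182271872 0 0) (P.cons (P.lf 0 8832444 0) (P.cons (P.lf 0 4169448 0) (P.lf 198540 0 0)))) (P.cons (P.cons (P.lf 0 48753244 0) (P.cons (P.lf 0 910964 0) (P.cons (P.lf 0 430030 0) (P.lf 20472 0 0)))) (P.cons (P.cons (P.lf 0 13069461 0) (P.cons (P.lf 102746 0 0) (P.cons (P.lf 48506 0 0) P.nil))) (P.cons (P.cons (P.lf 0 562364 0) (P.cons (P.lf 26074 0 0) P.nil)) (P.cons (P.cons (P.lf 100766 0 0) P.nil) P.nil)))))) 89051)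
 (EL.cons 7 (TM.mk (P.cons (P.cons (P.lf 0 2651608091 0) (P.cons (P.lf 34841655 0 0) (P.cons (P.lf 16447395 0 0) (P.lf 0 783212 0)))) (P.cons (P.cons (P.lf 0 183490419 0) (P.cons (P.lf 8891495 0 0) (P.cons (P.lf 4197332 0 0) (P.lf 0 199874 0)))) (P.cons (P.cons (P.lf 69081667 0 0) (P.cons (P.lf 0 52213 0) (P.cons (P.lf 0 24647 0) (P.lf 1173 0 0)))) (P.cons (P.cons (P.lf 4234326 0 0) (P.cons (P.lf 0 150037 0) (P.cons (P.lf 0 70825 0) P.nil))) (P.cons (P.cons (P.lf 0 664629 0) (P.cons (P.lf 0 5760 0) P.nil)) (P.cons (P.cons (P.lf 0 79827 0) P.nil) P.nil)))))) 41571)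
 (EL.cons 10 (TM.mk (P.cons (P.cons (P.lf 0 169496931 0) (P.cons (P.lf 0 167131122 0) (P.cons (P.lf 5229693 0 0) (P.cons (P.lf 958320 0 0) (P.lf 0 34224 0))))) (P.cons (P.cons (P.lf 0 54712422 0) (P.cons (P.lf 0 53948754 0) (P.cons (P.lf 1688106 0 0) (P.cons (P.lf 309339 0 0) (P.lf 0 11046 0))))) (P.cons (P.cons (P.lf 0 4356642 0) (P.cons (P.lf 0 4295832 0) (P.cons (P.lf 134418 0 0) (P.cons (P.lf 24630 0 0) P.nil)))) (P.cons (P.cons (P.lf 178251 0 0) (P.cons (P.lf 175764 0 0) (P.cons (P.lf 0 5499 0) P.nil))) (P.cons (P.cons (P.lf 36258 0 0) (P.cons (P.lf 35751 0 0) P.nil)) (P.cons (P.cons (P.lf 1407 0 0) P.nil) P.nil)))))) 5025)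
 EL.nil))))
noncomputable def S111_140_216_290_8 : EL := (EL.cons 12 (TM.mk (P.cons (P.cons (P.lf 352670782 0 0) (P.cons (P.lf 11603446 0 0) (P.cons (P.lf 5572978 0 0) (P.cons (P.lf 0 170722 0) (P.cons (P.lf 16976 0 0) (P.cons (P.lf 0 2024 0) P.nil)))))) (P.cons (P.cons (P.lf 0 517521050 0) (P.cons (P.lf 0 2895378 0) (P.cons (P.lf 0 1274372 0) (P.cons (P.lf 152346 0 0) (P.cons (P.lf 16440 0 0) P.nil))))) (P.cons (P.cons (P.lf 156010988 0 0) (P.cons (P.lf 0 3778256 0) (P.cons (P.lf 0 1746372 0) (P.cons (P.lf 120046 0 0) P.nil)))) (P.cons (P.cons (P.lf 28691416 0 0) (P.cons (P.lf 0 837514 0) (P.cons (P.lf 0 387700 0) P.nil))) (P.cons (P.cons (P.lf 0 1480076 0) (P.cons (P.lf 0 31958 0) P.nil)) (P.cons (P.cons (P.lf 0 572288 0) P.nil) P.nil)))))) 186620)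
 (EL.cons 3 (TM.mk (P.cons (P.cons (P.lf 0 1283908670 0) (P.cons (P.lf 0 10657053 0) (P.cons (P.lf 0 4858633 0) (P.cons (P.lf 402084 0 0) (P.cons (P.lf 30621 0 0) (P.cons (P.lf 0 3651 0) P.nil)))))) (P.cons (P.cons (P.lf 767613699 0 0) (P.cons (P.lf 0 16299628 0) (P.cons (P.lf 0 7537463 0) (P.cons (P.lf 514582 0 0) (P.cons (P.lf 27916 0 0) P.nil))))) (P.cons (P.cons (P.lf 207738072 0 0) (P.cons (P.lf 0 6053537 0) (P.cons (P.lf 0 2801044 0) (P.cons (P.lf 189502 0 0) P.nil)))) (P.cons (P.cons (P.lf 0 5090249 0) (P.cons (P.lf 0 566559 0) (P.cons (P.lf 0 258477 0) P.nil))) (P.cons (P.cons (P.lf 0 7520261 0) (P.cons (P.lf 123786 0 0) P.nil)) (P.cons (P.cons (P.lf 0 676785 0) P.nil) P.nil)))))) 560744)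
 (EL.cons 7 (TM.mk (P.cons (P.cons (P.lf 1119489297 0 0) (P.cons (P.lf 5036225 0 0) (P.cons (P.lf 2157287 0 0) (P.cons (P.lf 0 321017 0) (P.cons (P.lf 0 39152 0) (P.cons (P.lf 4667 0 0) P.nil)))))) (P.cons (P.cons (P.lf 0 772745424 0) (P.cons (P.lf 16408596 0 0) (P.cons (P.lf 7587852 0 0) (P.cons (P.lf 0 518021 0) (P.cons (P.lf 0 28105 0) P.nil))))) (P.cons (P.cons (P.lf 0 124889004 0) (P.cons (P.lf 4305285 0 0) (P.cons (P.lf 1992609 0 0) (P.cons (P.lf 0 134297 0) P.nil)))) (P.cons (P.cons (P.lf 27986595 0 0) (P.cons (P.lf 0 155423 0) (P.cons (P.lf 0 75666 0) P.nil))) (P.cons (P.cons (P.lf 4528554 0 0) (P.cons (P.lf 0 146892 0) P.nil)) (P.cons (P.cons (P.lf 0 279199 0) P.nil) P.nil)))))) 365275)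
 (EL.cons 10 (TM.mk (P.cons (P.cons (P.lf 68688120 0 0) (P.cons (P.lf 68859360 0 0) (P.cons (P.lf 0 471690 0) (P.cons (P.lf 77346 0 0) (P.cons (P.lf 0 34020 0) (P.cons (P.lf 0 2004 0) P.nil)))))) (P.cons (P.cons (P.lf 0 28225590 0) (P.cons (P.lf 0 26919750 0) (P.cons (P.lf 2200476 0 0) (P.cons (P.lf 535398 0 0) (P.cons (P.lf 0 44346 0) P.nil))))) (P.cons (P.cons (P.lf 0 17798502 0) (P.cons (P.lf 0 17256702 0) (P.cons (P.lf 976920 0 0) (P.cons (P.lf 221538 0 0) P.nil)))) (P.cons (P.cons (P.lf 0 2055846 0) (P.cons (P.lf 0 1983090 0) (P.cons (P.lf 127674 0 0) P.nil))) (P.cons (P.cons (P.lf 127308 0 0) (P.cons (P.lf 127248 0 0) P.nil)) (P.cons (P.cons (P.lf 41040 0 0) P.nil) P.nil)))))) 139374)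
 EL.nil))))
noncomputable def S111_140_216_290_9 : EL := (EL.cons 3 (TM.mk (P.cons (P.lf 0 3098651666 0) (P.cons (P.lf 175463538 0 0) (P.cons (P.lf 18939693 0 0) (P.cons (P.lf 500812 0 0) (P.cons (P.lf 0 30041 0) (P.cons (P.lf 0 3150 0) P.nil)))))) 205)
 (EL.cons 7 (TM.mk (P.cons (P.lf 0 1094426245 0) (P.cons (P.lf 0 176636564 0) (P.cons (P.lf 189038 0 0) (P.cons (P.lf 544971 0 0) (P.cons (P.lf 29121 0 0) (P.cons (P.lf 0 63 0) P.nil)))))) 165)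
 EL.nil))
noncomputable def S111_140_216_290_10 : EL := (EL.cons 3 (TM.mk (P.cons (P.cons (P.lf 627859645 0 0) (P.cons (P.lf 10328805 0 0) (P.cons (P.lf 4875826 0 0) (P.lf 0 232180 0)))) (P.cons (P.cons (P.lf 0 496224289 0) (P.cons (P.lf 4416222 0 0) (P.cons (P.lf 2084724 0 0) (P.lf 0 99270 0)))) (P.cons (P.cons (P.lf 0 7879762 0) (P.cons (P.lf 455482 0 0) (P.cons (P.lf 215015 0 0) (P.lf 0 10236 0)))) (P.cons (P.cons (P.lf 7854510 0 0) (P.cons (P.lf 0 51373 0) (P.cons (P.lf 0 24253 0) P.nil))) (P.cons (P.cons (P.lf 549640 0 0) (P.cons (P.lf 0 13037 0) P.nil)) (P.cons (P.cons (P.lf 0 39970 0) P.nil) P.nil)))))) 21595)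
 (EL.cons 7 (TM.mk (P.cons (P.cons (P.lf 221756476 0 0) (P.cons (P.lf 3648075 0 0) (P.cons (P.lf 1722114 0 0) (P.lf 0 82004 0)))) (P.cons (P.cons (P.lf 0 126915762 0) (P.cons (P.lf 2355146 0 0) (P.cons (P.lf 1111772 0 0) (P.lf 0 52940 0)))) (P.cons (P.cons (P.lf 0 36939599 0) (P.cons (P.lf 567647 0 0) (P.cons (P.lf 267964 0 0) (P.lf 0 12759 0)))) (P.cons (P.cons (P.lf 0 586794 0) (P.cons (P.lf 52862 0 0) (P.cons (P.lf 24953 0 0) P.nil))) (P.cons (P.cons (P.lf 442050 0 0) (P.cons (P.lf 0 1626 0) P.nil)) (P.cons (P.cons (P.lf 39276 0 0) P.nil) P.nil)))))) 8483)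
 EL.nil))
noncomputable def S111_140_216_290_11 : EL := (EL.cons 3 (TM.mk (P.cons (P.cons (P.lf 0 127219118 0) (P.cons (P.lf 0 4185717 0) (P.cons (P.lf 0 2010343 0) (P.cons (P.lf 61584 0 0) (P.cons (P.lf 0 6123 0) (P.cons (P.lf 729 0 0) P.nil)))))) (P.cons (P.cons (P.lf 193889523 0 0) (P.cons (P.lf 1281470 0 0) (P.cons (P.lf 573541 0 0) (P.cons (P.lf 0 58442 0) (P.cons (P.lf 0 5582 0) P.nil))))) (P.cons (P.cons (P.lf 0 66071550 0) (P.cons (P.lf 1329373 0 0) (P.cons (P.lf 616226 0 0) (P.cons (P.lf 0 40568 0) P.nil)))) (P.cons (P.cons (P.lf 0 8283593 0) (P.cons (P.lf 219231 0 0) (P.cons (P.lf 101697 0 0) P.nil))) (P.cons (P.cons (P.lf 1432555 0 0) (P.cons (P.lf 0 14118 0) P.nil)) (P.cons (P.cons (P.lf 250245 0 0) P.nil) P.nil)))))) 109810)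
 (EL.cons 7 (TM.mk (P.cons (P.cons (P.lf 0 44933073 0) (P.cons (P.lf 0 1478371 0) (P.cons (P.lf 0 710041 0) (P.cons (P.lf 21751 0 0) (P.cons (P.lf 0 2162 0) (P.cons (P.lf 257 0 0) P.nil)))))) (P.cons (P.cons (P.lf 58684272 0 0) (P.cons (P.lf 130290 0 0) (P.cons (P.lf 47766 0 0) (P.cons (P.lf 0 15899 0) (P.cons (P.lf 0 2443 0) P.nil))))) (P.cons (P.cons (P.lf 0 9227394 0) (P.cons (P.lf 541173 0 0) (P.cons (P.lf 248829 0 0) (P.cons (P.lf 0 18431 0) P.nil)))) (P.cons (P.cons (P.lf 0 6852615 0) (P.cons (P.lf 185071 0 0) (P.cons (P.lf 85632 0 0) P.nil))) (P.cons (P.cons (P.lf 0 429618 0) (P.cons (P.lf 21066 0 0) P.nil)) (P.cons (P.cons (P.lf 112121 0 0) P.nil) P.nil)))))) 54225)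
 EL.nil))
noncomputable def S111_140_216_290_12 : EL := (EL.cons 4 (TM.mk (P.cons (P.lf 3098651666 0 0) (P.cons (P.lf 0 175463538 0) (P.cons (P.lf 0 18939693 0) (P.cons (P.lf 0 500812 0) (P.cons (P.lf 30041 0 0) (P.cons (P.lf 3150 0 0) P.nil)))))) 205)
 (EL.cons 8 (TM.mk (P.cons (P.lf 1094426245 0 0) (P.cons (P.lf 176636564 0 0) (P.cons (P.lf 0 189038 0) (P.cons (P.lf 0 544971 0) (P.cons (P.lf 0 29121 0) (P.cons (P.lf 63 0 0) P.nil)))))) 165)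
 EL.nil))
noncomputable def S111_140_216_290_13 : EL := (EL.cons 4 (TM.mk (P.cons (P.cons (P.lf 0 627859645 0) (P.cons (P.lf 0 10328805 0) (P.cons (P.lf 0 4875826 0) (P.lf 232180 0 0)))) (P.cons (P.cons (P.lf 496224289 0 0) (P.cons (P.lf 0 4416222 0) (P.cons (P.lf 0 2084724 0) (P.lf 99270 0 0)))) (P.cons (P.cons (P.lf 7879762 0 0) (P.cons (P.lf 0 455482 0) (P.cons (P.lf 0 215015 0) (P.lf 10236 0 0)))) (P.cons (P.cons (P.lf 0 7854510 0) (P.cons (P.lf 51373 0 0) (P.cons (P.lf 24253 0 0) P.nil))) (P.cons (P.cons (P.lf 0 549640 0) (P.cons (P.lf 13037 0 0) P.nil)) (P.cons (P.cons (P.lf 39970 0 0) P.nil) P.nil)))))) 21595)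
 (EL.cons 8 (TM.mk (P.cons (P.cons (P.lf 0 221756476 0) (P.cons (P.lf 0 3648075 0) (P.cons (P.lf 0 1722114 0) (P.lf 82004 0 0)))) (P.cons (P.cons (P.lf 126915762 0 0) (P.cons (P.lf 0 2355146 0) (P.cons (P.lf 0 1111772 0) (P.lf 52940 0 0)))) (P.cons (P.cons (P.lf 36939599 0 0) (P.cons (P.lf 0 567647 0) (P.cons (P.lf 0 267964 0) (P.lf 12759 0 0)))) (P.cons (P.cons (P.lf 586794 0 0) (P.cons (P.lf 0 52862 0) (P.cons (P.lf 0 24953 0) P.nil))) (P.cons (P.cons (P.lf 0 442050 0) (P.cons (P.lf 1626 0 0) P.nil)) (P.cons (P.cons (P.lf 0 39276 0) P.nil) P.nil)))))) 8483)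
 EL.nil))
noncomputable def S111_140_216_290_14 : EL := (EL.cons 4 (TM.mk (P.cons (P.cons (P.lf 127219118 0 0) (P.cons (P.lf 4185717 0 0) (P.cons (P.lf 2010343 0 0) (P.cons (P.lf 0 61584 0) (P.cons (P.lf 6123 0 0) (P.cons (P.lf 0 729 0) P.nil)))))) (P.cons (P.cons (P.lf 0 193889523 0) (P.cons (P.lf 0 1281470 0) (P.cons (P.lf 0 573541 0) (P.cons (P.lf 58442 0 0) (P.cons (P.lf 5582 0 0) P.nil))))) (P.cons (P.cons (P.lf 66071550 0 0) (P.cons (P.lf 0 1329373 0) (P.cons (P.lf 0 616226 0) (P.cons (P.lf 40568 0 0) P.nil)))) (P.cons (P.cons (P.lf 8283593 0 0) (P.cons (P.lf 0 219231 0) (P.cons (P.lf 0 101697 0) P.nil))) (P.cons (P.cons (P.lf 0 1432555 0) (P.cons (P.lf 14118 0 0) P.nil)) (P.cons (P.cons (P.lf 0 250245 0) P.nil) P.nil)))))) 109810)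
 (EL.cons 8 (TM.mk (P.cons (P.cons (P.lf 44933073 0 0) (P.cons (P.lf 1478371 0 0) (P.cons (P.lf 710041 0 0) (P.cons (P.lf 0 21751 0) (P.cons (P.lf 2162 0 0) (P.cons (P.lf 0 257 0) P.nil)))))) (P.cons (P.cons (P.lf 0 58684272 0) (P.cons (P.lf 0 130290 0) (P.cons (P.lf 0 47766 0) (P.cons (P.lf 15899 0 0) (P.cons (P.lf 2443 0 0) P.nil))))) (P.cons (P.cons (P.lf 9227394 0 0) (P.cons (P.lf 0 541173 0) (P.cons (P.lf 0 248829 0) (P.cons (P.lf 18431 0 0) P.nil)))) (P.cons (P.cons (P.lf 6852615 0 0) (P.cons (P.lf 0 185071 0) (P.cons (P.lf 0 85632 0) P.nil))) (P.cons (P.cons (P.lf 429618 0 0) (P.cons (P.lf 0 21066 0) P.nil)) (P.cons (P.cons (P.lf 0 112121 0) P.nil) P.nil)))))) 54225)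
 EL.nil))
noncomputable def S111_140_216_290_15 : EL := (EL.cons 4 (TM.mk (P.cons (P.lf 0 2384593622 0) (P.cons (P.lf 270058903 0 0) (P.cons (P.lf 21504255 0 0) (P.cons (P.lf 0 879855 0) (P.cons (P.lf 0 178971 0) (P.cons (P.lf 0 6941 0) P.nil)))))) 996)
 (EL.cons 8 (TM.mk (P.cons (P.lf 0 842224982 0) (P.cons (P.lf 0 88240524 0) (P.cons (P.lf 12990618 0 0) (P.cons (P.lf 1378121 0 0) (P.cons (P.lf 11577 0 0) (P.cons (P.lf 0 6078 0) P.nil)))))) 560)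
 EL.nil))
noncomputable def S111_140_216_290_16 : EL := (EL.cons 4 (TM.mk (P.cons (P.cons (P.lf 483174705 0 0) (P.cons (P.lf 7948620 0 0) (P.cons (P.lf 3752234 0 0) (P.lf 0 178676 0)))) (P.cons (P.cons (P.lf 0 409233742 0) (P.cons (P.lf 2948444 0 0) (P.cons (P.lf 1391844 0 0) (P.lf 0 66276 0)))) (P.cons (P.cons (P.lf 12606670 0 0) (P.cons (P.lf 109491 0 0) (P.cons (P.lf 51686 0 0) (P.lf 0 2460 0)))) (P.cons (P.cons (P.lf 8643890 0 0) (P.cons (P.lf 0 81439 0) (P.cons (P.lf 0 38445 0) P.nil))) (P.cons (P.cons (P.lf 184173 0 0) (P.cons (P.lf 0 10409 0) P.nil)) (P.cons (P.cons (P.lf 0 93887 0) P.nil) P.nil)))))) 26028)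
 (EL.cons 8 (TM.mk (P.cons (P.cons (P.lf 170654573 0 0) (P.cons (P.lf 2807407 0 0) (P.cons (P.lf 1325267 0 0) (P.lf 0 63107 0)))) (P.cons (P.cons (P.lf 0 107332546 0) (P.cons (P.lf 1653451 0 0) (P.cons (P.lf 780529 0 0) (P.lf 0 37167 0)))) (P.cons (P.cons (P.lf 0 23939674 0) (P.cons (P.lf 317048 0 0) (P.cons (P.lf 149666 0 0) (P.lf 0 7126 0)))) (P.cons (P.cons (P.lf 1727533 0 0) (P.cons (P.lf 4412 0 0) (P.cons (P.lf 2082 0 0) P.nil))) (P.cons (P.cons (P.lf 556947 0 0) (P.cons (P.lf 0 6491 0) P.nil)) (P.cons (P.cons (P.lf 17544 0 0) P.nil) P.nil)))))) 12558)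
 EL.nil))
noncomputable def S111_140_216_290_17 : EL := (EL.cons 4 (TM.mk (P.cons (P.cons (P.lf 0 97902549 0) (P.cons (P.lf 0 3221153 0) (P.cons (P.lf 0 1547076 0) (P.cons (P.lf 47392 0 0) (P.cons (P.lf 0 4711 0) (P.cons (P.lf 561 0 0) P.nil)))))) (P.cons (P.cons (P.lf 154753131 0 0) (P.cons (P.lf 1168566 0 0) (P.cons (P.lf 528977 0 0) (P.cons (P.lf 0 47658 0) (P.cons (P.lf 0 4029 0) P.nil))))) (P.cons (P.cons (P.lf 0 58696610 0) (P.cons (P.lf 986876 0 0) (P.cons (P.lf 458685 0 0) (P.cons (P.lf 0 28962 0) P.nil)))) (P.cons (P.cons (P.lf 0 4391699 0) (P.cons (P.lf 105274 0 0) (P.cons (P.lf 48960 0 0) P.nil))) (P.cons (P.cons (P.lf 1749125 0 0) (P.cons (P.lf 0 26862 0) P.nil)) (P.cons (P.cons (P.lf 178680 0 0) P.nil) P.nil)))))) 116159)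
 (EL.cons 8 (TM.mk (P.cons (P.cons (P.lf 0 34578626 0) (P.cons (P.lf 0 1137693 0) (P.cons (P.lf 0 546418 0) (P.cons (P.lf 16738 0 0) (P.cons (P.lf 0 1664 0) (P.cons (P.lf 198 0 0) P.nil)))))) (P.cons (P.cons (P.lf 47119020 0 0) (P.cons (P.lf 164688 0 0) (P.cons (P.lf 67700 0 0) (P.cons (P.lf 0 13183 0) (P.cons (P.lf 0 1786 0) P.nil))))) (P.cons (P.cons (P.lf 0 9446941 0) (P.cons (P.lf 417740 0 0) (P.cons (P.lf 192747 0 0) (P.cons (P.lf 0 13593 0) P.nil)))) (P.cons (P.cons (P.lf 0 5141833 0) (P.cons (P.lf 118411 0 0) (P.cons (P.lf 54919 0 0) P.nil))) (P.cons (P.cons (P.lf 3767 0 0) (P.cons (P.lf 5574 0 0) P.nil)) (P.cons (P.cons (P.lf 138788 0 0) P.nil) P.nil)))))) 55319)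
 EL.nil))
noncomputable def S111_140_216_290_18 : EL := (EL.cons 4 (TM.mk (P.cons (P.lf 1835084209 0 0) (P.cons (P.lf 0 311739172 0) (P.cons (P.lf 0 15996937 0) (P.cons (P.lf 2587877 0 0) (P.cons (P.lf 251917 0 0) (P.cons (P.lf 0 4069 0) P.nil)))))) 2661)
 (EL.cons 8 (TM.mk (P.cons (P.lf 648141365 0 0) (P.cons (P.lf 31204738 0 0) (P.cons (P.lf 0 17803876 0) (P.cons (P.lf 0 1014268 0) (P.cons (P.lf 107557 0 0) (P.cons (P.lf 14597 0 0) P.nil)))))) 1054)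
 EL.nil))
noncomputable def S111_140_216_290_19 : EL := (EL.cons 4 (TM.mk (P.cons (P.cons (P.lf 0 371831185 0) (P.cons (P.lf 0 6116927 0) (P.cons (P.lf 0 2887562 0) (P.lf 137501 0 0)))) (P.cons (P.cons (P.lf 335984518 0 0) (P.cons (P.lf 0 1922624 0) (P.cons (P.lf 0 907594 0) (P.lf 43216 0 0)))) (P.cons (P.cons (P.lf 0 25261963 0) (P.cons (P.lf 81611 0 0) (P.cons (P.lf 38524 0 0) (P.lf 0 1834 0)))) (P.cons (P.cons (P.lf 0 7967445 0) (P.cons (P.lf 82301 0 0) (P.cons (P.lf 38851 0 0) P.nil))) (P.cons (P.cons (P.lf 239733 0 0) (P.cons (P.lf 5283 0 0) P.nil)) (P.cons (P.cons (P.lf 125178 0 0) P.nil) P.nil)))))) 28748)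
 (EL.cons 8 (TM.mk (P.cons (P.cons (P.lf 0 131328671 0) (P.cons (P.lf 0 2160464 0) (P.cons (P.lf 0 1019871 0) (P.lf 48564 0 0)))) (P.cons (P.cons (P.lf 90035256 0 0) (P.cons (P.lf 0 1150089 0) (P.cons (P.lf 0 542912 0) (P.lf 25852 0 0)))) (P.cons (P.cons (P.lf 14548477 0 0) (P.cons (P.lf 0 158729 0) (P.cons (P.lf 0 74930 0) (P.lf 3567 0 0)))) (P.cons (P.cons (P.lf 0 2856290 0) (P.cons (P.lf 18546 0 0) (P.cons (P.lf 8755 0 0) P.nil))) (P.cons (P.cons (P.lf 0 480552 0) (P.cons (P.lf 6863 0 0) P.nil)) (P.cons (P.cons (P.lf 16584 0 0) P.nil) P.nil)))))) 16360)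
 EL.nil))
noncomputable def S111_140_216_290_20 : EL := (EL.cons 4 (TM.mk (P.cons (P.cons (P.lf 75341735 0 0) (P.cons (P.lf 2478866 0 0) (P.cons (P.lf 1190565 0 0) (P.cons (P.lf 0 36471 0) (P.cons (P.lf 3626 0 0) (P.cons (P.lf 0 432 0) P.nil)))))) (P.cons (P.cons (P.lf 0 123357866 0) (P.cons (P.lf 0 1039648 0) (P.cons (P.lf 0 474495 0) (P.cons (P.lf 38741 0 0) (P.cons (P.lf 2895 0 0) P.nil))))) (P.cons (P.cons (P.lf 51453619 0 0) (P.cons (P.lf 0 723688 0) (P.cons (P.lf 0 337210 0) (P.cons (P.lf 20434 0 0) P.nil)))) (P.cons (P.cons (P.lf 1537595 0 0) (P.cons (P.lf 0 32913 0) (P.cons (P.lf 0 15394 0) P.nil))) (P.cons (P.cons (P.lf 0 1793545 0) (P.cons (P.lf 30071 0 0) P.nil)) (P.cons (P.cons (P.lf 0 90319 0) P.nil) P.nil)))))) 116598)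
 (EL.cons 8 (TM.mk (P.cons (P.cons (P.lf 26610274 0 0) (P.cons (P.lf 875521 0 0) (P.cons (P.lf 420501 0 0) (P.cons (P.lf 0 12881 0) (P.cons (P.lf 1280 0 0) (P.cons (P.lf 0 152 0) P.nil)))))) (P.cons (P.cons (P.lf 0 37767668 0) (P.cons (P.lf 0 176314 0) (P.cons (P.lf 0 75910 0) (P.cons (P.lf 10874 0 0) (P.cons (P.lf 1301 0 0) P.nil))))) (P.cons (P.cons (P.lf 9160623 0 0) (P.cons (P.lf 0 319650 0) (P.cons (P.lf 0 147950 0) (P.cons (P.lf 9964 0 0) P.nil)))) (P.cons (P.cons (P.lf 3762607 0 0) (P.cons (P.lf 0 72287 0) (P.cons (P.lf 0 33613 0) P.nil))) (P.cons (P.cons (P.lf 0 265281 0) (P.cons (P.lf 2864 0 0) P.nil)) (P.cons (P.cons (P.lf 0 132326 0) P.nil) P.nil)))))) 51154)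
 EL.nil))
noncomputable def S111_140_216_290_21 : EL := (EL.cons 4 (TM.mk (P.cons (P.cons (P.lf 0 2854282833 0) (P.cons (P.lf 30986415 0 0) (P.cons (P.lf 14627478 0 0) (P.lf 0 696540 0)))) (P.cons (P.cons (P.lf 0 678496161 0) (P.cons (P.lf 13248666 0 0) (P.cons (P.lf 6254172 0 0) (P.lf 0 297810 0)))) (P.cons (P.cons (P.lf 40873482 0 0) (P.cons (P.lf 1366446 0 0) (P.cons (P.lf 645045 0 0) (P.lf 0 30708 0)))) (P.cons (P.cons (P.lf 20923971 0 0) (P.cons (P.lf 0 154119 0) (P.cons (P.lf 0 72759 0) P.nil))) (P.cons (P.cons (P.lf 1112004 0 0) (P.cons (P.lf 0 39111 0) P.nil)) (P.cons (P.cons (P.lf 0 140736 0) P.nil) P.nil)))))) 67437)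
 (EL.cons 8 (TM.mk (P.cons (P.cons (P.lf 2873364567 0 0) (P.cons (P.lf 0 31193580 0) (P.cons (P.lf 0 14725281 0) (P.lf 701208 0 0)))) (P.cons (P.cons (P.lf 56574657 0 0) (P.cons (P.lf 0 6536349 0) (P.cons (P.lf 0 3085560 0) (P.lf 146934 0 0)))) (P.cons (P.cons (P.lf 0 106021266 0) (P.cons (P.lf 619860 0 0) (P.cons (P.lf 292611 0 0) (P.lf 0 13932 0)))) (P.cons (P.cons (P.lf 0 4821120 0) (P.cons (P.lf 202899 0 0) (P.cons (P.lf 95778 0 0) P.nil))) (P.cons (P.cons (P.lf 1106679 0 0) (P.cons (P.lf 4134 0 0) P.nil)) (P.cons (P.cons (P.lf 119103 0 0) P.nil) P.nil)))))) 33069)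
 (EL.cons 11 (TM.mk (P.cons (P.cons (P.lf 169496931 0 0) (P.cons (P.lf 167131122 0 0) (P.cons (P.lf 0 5229693 0) (P.cons (P.lf 0 958320 0) (P.lf 34224 0 0))))) (P.cons (P.cons (P.lf 54712422 0 0) (P.cons (P.lf 53948754 0 0) (P.cons (P.lf 0 1688106 0) (P.cons (P.lf 0 309339 0) (P.lf 11046 0 0))))) (P.cons (P.cons (P.lf 4356642 0 0) (P.cons (P.lf 4295832 0 0) (P.cons (P.lf 0 134418 0) (P.cons (P.lf 0 24630 0) P.nil)))) (P.cons (P.cons (P.lf 0 178251 0) (P.cons (P.lf 0 175764 0) (P.cons (P.lf 5499 0 0) P.nil))) (P.cons (P.cons (P.lf 0 36258 0) (P.cons (P.lf 0 35751 0) P.nil)) (P.cons (P.cons (P.lf 0 1407 0) P.nil) P.nil)))))) 5025)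
 EL.nil)))
noncomputable def S111_140_216_290_22 : EL := (EL.cons 4 (TM.mk (P.cons (P.cons (P.lf 578344776 0 0) (P.cons (P.lf 3235668 0 0) (P.cons (P.lf 1424145 0 0) (P.cons (P.lf 0 170250 0) (P.cons (P.lf 0 18372 0) (P.cons (P.lf 2190 0 0) P.nil)))))) (P.cons (P.cons (P.lf 0 286862088 0) (P.cons (P.lf 8790549 0 0) (P.cons (P.lf 4055502 0 0) (P.cons (P.lf 0 286512 0) (P.cons (P.lf 0 16749 0) P.nil))))) (P.cons (P.cons (P.lf 0 136904811 0) (P.cons (P.lf 3691455 0 0) (P.cons (P.lf 1708635 0 0) (P.cons (P.lf 0 115035 0) P.nil)))) (P.cons (P.cons (P.lf 0 1596672 0) (P.cons (P.lf 392895 0 0) (P.cons (P.lf 180087 0 0) P.nil))) (P.cons (P.cons (P.lf 4476408 0 0) (P.cons (P.lf 0 68952 0) P.nil)) (P.cons (P.cons (P.lf 463515 0 0) P.nil) P.nil)))))) 225456)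
 (EL.cons 8 (TM.mk (P.cons (P.cons (P.lf 0 582211185 0) (P.cons (P.lf 0 3257298 0) (P.cons (P.lf 0 1433664 0) (P.cons (P.lf 171384 0 0) (P.cons (P.lf 18495 0 0) (P.cons (P.lf 0 2205 0) P.nil)))))) (P.cons (P.cons (P.lf 415714848 0 0) (P.cons (P.lf 0 8139153 0) (P.cons (P.lf 0 3770043 0) (P.cons (P.lf 251061 0 0) (P.cons (P.lf 12831 0 0) P.nil))))) (P.cons (P.cons (P.lf 57830805 0 0) (P.cons (P.lf 0 1882056 0) (P.cons (P.lf 0 871890 0) (P.cons (P.lf 57933 0 0) P.nil)))) (P.cons (P.cons (P.lf 0 17419605 0) (P.cons (P.lf 170247 0 0) (P.cons (P.lf 80649 0 0) P.nil))) (P.cons (P.cons (P.lf 0 2479086 0) (P.cons (P.lf 83979 0 0) P.nil)) (P.cons (P.cons (P.lf 195660 0 0) P.nil) P.nil)))))) 155514)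
 (EL.cons 11 (TM.mk (P.cons (P.cons (P.lf 0 34344060 0) (P.cons (P.lf 0 34429680 0) (P.cons (P.lf 235845 0 0) (P.cons (P.lf 0 38673 0) (P.cons (P.lf 17010 0 0) (P.cons (P.lf 1002 0 0) P.nil)))))) (P.cons (P.cons (P.lf 14112795 0 0) (P.cons (P.lf 13459875 0 0) (P.cons (P.lf 0 1100238 0) (P.cons (P.lf 0 267699 0) (P.cons (P.lf 22173 0 0) P.nil))))) (P.cons (P.cons (P.lf 8899251 0 0) (P.cons (P.lf 8628351 0 0) (P.cons (P.lf 0 488460 0) (P.cons (P.lf 0 110769 0) P.nil)))) (P.cons (P.cons (P.lf 1027923 0 0) (P.cons (P.lf 991545 0 0) (P.cons (P.lf 0 63837 0) P.nil))) (P.cons (P.cons (P.lf 0 63654 0) (P.cons (P.lf 0 63624 0) P.nil)) (P.cons (P.cons (P.lf 0 20520 0) P.nil) P.nil)))))) 69687)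
 EL.nil)))
noncomputable def S111_140_216_290_23 : EL := (EL.cons 4 (TM.mk (P.cons (P.cons (P.lf 2196537516 0 0) (P.cons (P.lf 0 23845857 0) (P.cons (P.lf 0 11256699 0) (P.lf 536028 0 0)))) (P.cons (P.cons (P.lf 397761834 0 0) (P.cons (P.lf 0 8845332 0) (P.cons (P.lf 0 4175529 0) (P.lf 198828 0 0)))) (P.cons (P.cons (P.lf 0 74447010 0) (P.cons (P.lf 0 328473 0) (P.cons (P.lf 0 155058 0) (P.lf 7377 0 0)))) (P.cons (P.cons (P.lf 0 17867550 0) (P.cons (P.lf 244320 0 0) (P.cons (P.lf 115338 0 0) P.nil))) (P.cons (P.cons (P.lf 185211 0 0) (P.cons (P.lf 31224 0 0) P.nil)) (P.cons (P.cons (P.lf 267561 0 0) P.nil) P.nil)))))) 84798)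
 (EL.cons 8 (TM.mk (P.cons (P.cons (P.lf 0 2211222027 0) (P.cons (P.lf 24005283 0 0) (P.cons (P.lf 11331963 0 0) (P.lf 0 539619 0)))) (P.cons (P.cons (P.lf 81674643 0 0) (P.cons (P.lf 3670785 0 0) (P.cons (P.lf 1732836 0 0) (P.lf 0 82515 0)))) (P.cons (P.cons (P.lf 97570419 0 0) (P.cons (P.lf 0 908577 0) (P.cons (P.lf 0 428901 0) (P.lf 20421 0 0)))) (P.cons (P.cons (P.lf 0 286440 0) (P.cons (P.lf 0 163755 0) (P.cons (P.lf 0 77298 0) P.nil))) (P.cons (P.cons (P.lf 0 1574838 0) (P.cons (P.lf 7995 0 0) P.nil)) (P.cons (P.cons (P.lf 0 81963 0) P.nil) P.nil)))))) 49338)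
 (EL.cons 11 (TM.mk (P.cons (P.cons (P.lf 0 130437798 0) (P.cons (P.lf 0 128617167 0) (P.cons (P.lf 4024554 0 0) (P.cons (P.lf 737481 0 0) (P.lf 0 26337 0))))) (P.cons (P.cons (P.lf 0 34718265 0) (P.cons (P.lf 0 34233672 0) (P.cons (P.lf 1071201 0 0) (P.cons (P.lf 196293 0 0) (P.lf 0 7008 0))))) (P.cons (P.cons (P.lf 0 171228 0) (P.cons (P.lf 0 168837 0) (P.cons (P.lf 5280 0 0) (P.cons (P.lf 966 0 0) P.nil)))) (P.cons (P.cons (P.lf 605457 0 0) (P.cons (P.lf 597006 0 0) (P.cons (P.lf 0 18678 0) P.nil))) (P.cons (P.cons (P.lf 46167 0 0) (P.cons (P.lf 45522 0 0) P.nil)) (P.cons (P.cons (P.lf 0 1332 0) P.nil) P.nil)))))) 12966)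
 EL.nil)))
noncomputable def S111_140_216_290_24 : EL := (EL.cons 4 (TM.mk (P.cons (P.cons (P.lf 0 445070118 0) (P.cons (P.lf 0 2490036 0) (P.cons (P.lf 0 1095963 0) (P.cons (P.lf 131016 0 0) (P.cons (P.lf 14139 0 0) (P.cons (P.lf 0 1686 0) P.nil)))))) (P.cons (P.cons (P.lf 245959587 0 0) (P.cons (P.lf 0 6623841 0) (P.cons (P.lf 0 3058884 0) (P.cons (P.lf 213066 0 0) (P.cons (P.lf 12090 0 0) P.nil))))) (P.cons (P.cons (P.lf 95576085 0 0) (P.cons (P.lf 0 2442504 0) (P.cons (P.lf 0 1131468 0) (P.cons (P.lf 75240 0 0) P.nil)))) (P.cons (P.cons (P.lf 0 6014532 0) (P.cons (P.lf 0 99744 0) (P.cons (P.lf 0 44877 0) P.nil))) (P.cons (P.cons (P.lf 0 4198389 0) (P.cons (P.lf 88617 0 0) P.nil)) (P.cons (P.cons (P.lf 0 184485 0) P.nil) P.nil)))))) 209646)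
 (EL.cons 8 (TM.mk (P.cons (P.cons (P.lf 448045545 0 0) (P.cons (P.lf 2506680 0 0) (P.cons (P.lf 1103286 0 0) (P.cons (P.lf 0 131892 0) (P.cons (P.lf 0 14232 0) (P.cons (P.lf 1698 0 0) P.nil)))))) (P.cons (P.cons (P.lf 0 345287805 0) (P.cons (P.lf 6121611 0 0) (P.cons (P.lf 2838792 0 0) (P.cons (P.lf 0 185736 0) (P.cons (P.lf 0 9066 0) P.nil))))) (P.cons (P.cons (P.lf 0 29127204 0) (P.cons (P.lf 1078350 0 0) (P.cons (P.lf 499938 0 0) (P.cons (P.lf 0 32835 0) P.nil)))) (P.cons (P.cons (P.lf 17808480 0 0) (P.cons (P.lf 0 251718 0) (P.cons (P.lf 0 117969 0) P.nil))) (P.cons (P.cons (P.lf 1476777 0 0) (P.cons (P.lf 0 67047 0) P.nil)) (P.cons (P.cons (P.lf 0 335991 0) P.nil) P.nil)))))) 129969)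
 (EL.cons 11 (TM.mk (P.cons (P.cons (P.lf 26429763 0 0) (P.cons (P.lf 26495652 0 0) (P.cons (P.lf 0 181497 0) (P.cons (P.lf 29760 0 0) (P.cons (P.lf 0 13089 0) (P.cons (P.lf 0 771 0) P.nil)))))) (P.cons (P.cons (P.lf 0 12357228 0) (P.cons (P.lf 0 11858499 0) (P.cons (P.lf 856974 0 0) (P.cons (P.lf 204324 0 0) (P.cons (P.lf 0 16320 0) P.nil))))) (P.cons (P.cons (P.lf 0 6395049 0) (P.cons (P.lf 0 6215430 0) (P.cons (P.lf 329061 0 0) (P.cons (P.lf 73395 0 0) P.nil)))) (P.cons (P.cons (P.lf 0 341133 0) (P.cons (P.lf 0 328026 0) (P.cons (P.lf 22695 0 0) P.nil))) (P.cons (P.cons (P.lf 137649 0 0) (P.cons (P.lf 134688 0 0) P.nil)) (P.cons (P.cons (P.lf 18882 0 0) P.nil) P.nil)))))) 60555)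
 EL.nil)))
noncomputable def S111_140_216_290_25 : EL := (EL.cons 4 (TM.mk (P.cons (P.cons (P.lf 0 1690364043 0) (P.cons (P.lf 18350781 0 0) (P.cons (P.lf 8662686 0 0) (P.lf 0 412503 0)))) (P.cons (P.cons (P.lf 0 210382821 0) (P.cons (P.lf 5767872 0 0) (P.cons (P.lf 2722782 0 0) (P.lf 0 129651 0)))) (P.cons (P.cons (P.lf 84956436 0 0) (P.cons (P.lf 0 244836 0) (P.cons (P.lf 0 115575 0) (P.lf 5508 0 0)))) (P.cons (P.cons (P.lf 12650121 0 0) (P.cons (P.lf 0 246903 0) (P.cons (P.lf 0 116556 0) P.nil))) (P.cons (P.cons (P.lf 0 1238235 0) (P.cons (P.lf 0 15849 0) P.nil)) (P.cons (P.cons (P.lf 0 295821 0) P.nil) P.nil)))))) 90903)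
 (EL.cons 8 (TM.mk (P.cons (P.cons (P.lf 1701664632 0 0) (P.cons (P.lf 0 18473469 0) (P.cons (P.lf 0 8720607 0) (P.lf 415269 0 0)))) (P.cons (P.cons (P.lf 0 159211485 0) (P.cons (P.lf 0 1778808 0) (P.cons (P.lf 0 839706 0) (P.lf 39987 0 0)))) (P.cons (P.cons (P.lf 0 81927996 0) (P.cons (P.lf 972078 0 0) (P.cons (P.lf 458880 0 0) (P.lf 0 21849 0)))) (P.cons (P.cons (P.lf 4581390 0 0) (P.cons (P.lf 106677 0 0) (P.cons (P.lf 50355 0 0) P.nil))) (P.cons (P.cons (P.lf 1685046 0 0) (P.cons (P.lf 0 17283 0) P.nil)) (P.cons (P.cons (P.lf 6357 0 0) P.nil) P.nil)))))) 58008)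
 (EL.cons 11 (TM.mk (P.cons (P.cons (P.lf 100379511 0 0) (P.cons (P.lf 98978430 0 0) (P.cons (P.lf 0 3097128 0) (P.cons (P.lf 0 567534 0) (P.lf 20268 0 0))))) (P.cons (P.cons (P.lf 21033666 0 0) (P.cons (P.lf 20740083 0 0) (P.cons (P.lf 0 648975 0) (P.cons (P.lf 0 118920 0) (P.lf 4245 0 0))))) (P.cons (P.cons (P.lf 0 1994682 0) (P.cons (P.lf 0 1966842 0) (P.cons (P.lf 61545 0 0) (P.cons (P.lf 11277 0 0) P.nil)))) (P.cons (P.cons (P.lf 0 652923 0) (P.cons (P.lf 0 643812 0) (P.cons (P.lf 20142 0 0) P.nil))) (P.cons (P.cons (P.lf 0 13293 0) (P.cons (P.lf 0 13107 0) P.nil)) (P.cons (P.cons (P.lf 6225 0 0) P.nil) P.nil)))))) 18279)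
 EL.nil)))
noncomputable def S111_140_216_290_26 : EL := (EL.cons 4 (TM.mk (P.cons (P.cons (P.lf 342507477 0 0) (P.cons (P.lf 1916229 0 0) (P.cons (P.lf 843408 0 0) (P.cons (P.lf 0 100824 0) (P.cons (P.lf 0 10878 0) (P.cons (P.lf 1296 0 0) P.nil)))))) (P.cons (P.cons (P.lf 0 208675032 0) (P.cons (P.lf 4988925 0 0) (P.cons (P.lf 2306232 0 0) (P.cons (P.lf 0 158259 0) (P.cons (P.lf 0 8688 0) P.nil))))) (P.cons (P.cons (P.lf 0 64926729 0) (P.cons (P.lf 1579293 0 0) (P.cons (P.lf 732279 0 0) (P.cons (P.lf 0 48000 0) P.nil)))) (P.cons (P.cons (P.lf 9895005 0 0) (P.cons (P.lf 0 61143 0) (P.cons (P.lf 0 29292 0) P.nil))) (P.cons (P.cons (P.lf 3452289 0 0) (P.cons (P.lf 0 84837 0) P.nil)) (P.cons (P.cons (P.lf 0 58869 0) P.nil) P.nil)))))) 200766)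
 (EL.cons 8 (TM.mk (P.cons (P.cons (P.lf 0 344797242 0) (P.cons (P.lf 0 1929036 0) (P.cons (P.lf 0 849045 0) (P.cons (P.lf 101496 0 0) (P.cons (P.lf 10953 0 0) (P.cons (P.lf 0 1305 0) P.nil)))))) (P.cons (P.cons (P.lf 285243561 0 0) (P.cons (P.lf 0 4601703 0) (P.cons (P.lf 0 2136540 0) (P.cons (P.lf 137187 0 0) (P.cons (P.lf 6357 0 0) P.nil))))) (P.cons (P.cons (P.lf 9476019 0 0) (P.cons (P.lf 0 551301 0) (P.cons (P.lf 0 255837 0) (P.cons (P.lf 16554 0 0) P.nil)))) (P.cons (P.cons (P.lf 0 16542351 0) (P.cons (P.lf 269808 0 0) (P.cons (P.lf 126060 0 0) P.nil))) (P.cons (P.cons (P.lf 0 543726 0) (P.cons (P.lf 46443 0 0) P.nil)) (P.cons (P.cons (P.lf 405288 0 0) P.nil) P.nil)))))) 111462)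
 (EL.cons 11 (TM.mk (P.cons (P.cons (P.lf 0 20339247 0) (P.cons (P.lf 0 20389953 0) (P.cons (P.lf 139671 0 0) (P.cons (P.lf 0 22902 0) (P.cons (P.lf 10074 0 0) (P.cons (P.lf 591 0 0) P.nil)))))) (P.cons (P.cons (P.lf 10661334 0 0) (P.cons (P.lf 10280403 0 0) (P.cons (P.lf 0 667401 0) (P.cons (P.lf 0 155943 0) (P.cons (P.lf 11991 0 0) P.nil))))) (P.cons (P.cons (P.lf 4507191 0 0) (P.cons (P.lf 4391010 0 0) (P.cons (P.lf 0 216741 0) (P.cons (P.lf 0 47439 0) P.nil)))) (P.cons (P.cons (P.lf 0 70989 0) (P.cons (P.lf 0 70896 0) (P.cons (P.lf 879 0 0) P.nil))) (P.cons (P.cons (P.lf 0 152610 0) (P.cons (P.lf 0 148851 0) P.nil)) (P.cons (P.cons (P.lf 0 10860 0) P.nil) P.nil)))))) 53622)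
 EL.nil)))
noncomputable def S111_140_216_290_27 : EL := (EL.cons 13 (TM.mk (P.lf 0 4294967296 0) 0)
 EL.nil)
noncomputable def S111_140_216_290_28 : EL := (EL.cons 13 (TM.mk (P.cons (P.cons (P.lf 870261306 0 0) (P.cons (P.lf 14316512 0 0) (P.cons (P.lf 6758268 0 0) (P.lf 0 321820 0)))) (P.cons (P.cons (P.lf 0 638525456 0) (P.cons (P.lf 6931904 0 0) (P.cons (P.lf 3272280 0 0) (P.lf 0 155820 0)))) (P.cons (P.cons (P.lf 0 41759704 0) (P.cons (P.lf 1111364 0 0) (P.cons (P.lf 524632 0 0) (P.lf 0 24980 0)))) (P.cons (P.cons (P.lf 4760111 0 0) (P.cons (P.lf 36408 0 0) (P.cons (P.lf 17184 0 0) P.nil))) (P.cons (P.cons (P.lf 664507 0 0) (P.cons (P.lf 0 8236 0) P.nil)) (P.cons (P.cons (P.lf 9877 0 0) P.nil) P.nil)))))) 13565)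
 EL.nil)
noncomputable def S111_140_216_290_29 : EL := (EL.cons 13 (TM.mk (P.cons (P.cons (P.lf 0 176335391 0) (P.cons (P.lf 0 5801723 0) (P.cons (P.lf 0 2786489 0) (P.cons (P.lf 85361 0 0) (P.cons (P.lf 0 8488 0) (P.cons (P.lf 1012 0 0) P.nil)))))) (P.cons (P.cons (P.lf 258760525 0 0) (P.cons (P.lf 1447689 0 0) (P.cons (P.lf 637186 0 0) (P.cons (P.lf 0 76173 0) (P.cons (P.lf 0 8220 0) P.nil))))) (P.cons (P.cons (P.lf 0 78005494 0) (P.cons (P.lf 1889128 0 0) (P.cons (P.lf 873186 0 0) (P.cons (P.lf 0 60023 0) P.nil)))) (P.cons (P.cons (P.lf 0 14345708 0) (P.cons (P.lf 418757 0 0) (P.cons (P.lf 193850 0 0) P.nil))) (P.cons (P.cons (P.lf 740038 0 0) (P.cons (P.lf 15979 0 0) P.nil)) (P.cons (P.cons (P.lf 286144 0 0) P.nil) P.nil)))))) 93310)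
 EL.nil)
noncomputable def S111_140_216_290_30 : EL := (EL.cons 13 (TM.mk (P.cons (P.lf 3305228444 0 0) (P.cons (P.lf 0 187161108 0) (P.cons (P.lf 0 20202340 0) (P.cons (P.lf 0 534200 0) (P.cons (P.lf 32044 0 0) (P.cons (P.lf 3360 0 0) P.nil)))))) 212)
 EL.nil)
noncomputable def S111_140_216_290_31 : EL := (EL.cons 13 (TM.mk (P.cons (P.cons (P.lf 0 669716955 0) (P.cons (P.lf 0 11017393 0) (P.cons (P.lf 0 5200882 0) (P.lf 247659 0 0)))) (P.cons (P.cons (P.lf 529305909 0 0) (P.cons (P.lf 0 4710637 0) (P.cons (P.lf 0 2223706 0) (P.lf 105888 0 0)))) (P.cons (P.cons (P.lf 8405080 0 0) (P.cons (P.lf 0 485848 0) (P.cons (P.lf 0 229350 0) (P.lf 10919 0 0)))) (P.cons (P.cons (P.lf 0 8378145 0) (P.cons (P.lf 54798 0 0) (P.cons (P.lf 25870 0 0) P.nil))) (P.cons (P.cons (P.lf 0 586283 0) (P.cons (P.lf 13907 0 0) P.nil)) (P.cons (P.cons (P.lf 42635 0 0) P.nil) P.nil)))))) 23015)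
 EL.nil)
noncomputable def S111_140_216_290_32 : EL := (EL.cons 13 (TM.mk (P.cons (P.cons (P.lf 135700393 0 0) (P.cons (P.lf 4464765 0 0) (P.cons (P.lf 2144366 0 0) (P.cons (P.lf 0 65690 0) (P.cons (P.lf 6532 0 0) (P.cons (P.lf 0 778 0) P.nil)))))) (P.cons (P.cons (P.lf 0 206815492 0) (P.cons (P.lf 0 1366902 0) (P.cons (P.lf 0 611778 0) (P.cons (P.lf 62339 0 0) (P.cons (P.lf 5955 0 0) P.nil))))) (P.cons (P.cons (P.lf 70476321 0 0) (P.cons (P.lf 0 1417998 0) (P.cons (P.lf 0 657308 0) (P.cons (P.lf 43273 0 0) P.nil)))) (P.cons (P.cons (P.lf 8835833 0 0) (P.cons (P.lf 0 233847 0) (P.cons (P.lf 0 108477 0) P.nil))) (P.cons (P.cons (P.lf 0 1528059 0) (P.cons (P.lf 15060 0 0) P.nil)) (P.cons (P.cons (P.lf 0 266929 0) P.nil) P.nil)))))) 117108)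
 EL.nil)
noncomputable def S111_140_216_290_33 : EL := (EL.cons 14 (TM.mk (P.lf 8589934592 0 0) 0)
 EL.nil)
noncomputable def S111_140_216_290_34 : EL := (EL.cons 14 (TM.mk (P.cons (P.cons (P.lf 0 1740522612 0) (P.cons (P.lf 0 28633024 0) (P.cons (P.lf 0 13516536 0) (P.lf 643640 0 0)))) (P.cons (P.cons (P.lf 1277050912 0 0) (P.cons (P.lf 0 13863808 0) (P.cons (P.lf 0 6544560 0) (P.lf 311640 0 0)))) (P.cons (P.cons (P.lf 83519408 0 0) (P.cons (P.lf 0 2222728 0) (P.cons (P.lf 0 1049264 0) (P.lf 49960 0 0)))) (P.cons (P.cons (P.lf 0 9520222 0) (P.cons (P.lf 0 72816 0) (P.cons (P.lf 0 34368 0) P.nil))) (P.cons (P.cons (P.lf 0 1329014 0) (P.cons (P.lf 16472 0 0) P.nil)) (P.cons (P.cons (P.lf 0 19754 0) P.nil) P.nil)))))) 27130)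
 EL.nil)
noncomputable def S111_140_216_290_35 : EL := (EL.cons 14 (TM.mk (P.cons (P.cons (P.lf 352670782 0 0) (P.cons (P.lf 11603446 0 0) (P.cons (P.lf 5572978 0 0) (P.cons (P.lf 0 170722 0) (P.cons (P.lf 16976 0 0) (P.cons (P.lf 0 2024 0) P.nil)))))) (P.cons (P.cons (P.lf 0 517521050 0) (P.cons (P.lf 0 2895378 0) (P.cons (P.lf 0 1274372 0) (P.cons (P.lf 152346 0 0) (P.cons (P.lf 16440 0 0) P.nil))))) (P.cons (P.cons (P.lf 156010988 0 0) (P.cons (P.lf 0 3778256 0) (P.cons (P.lf 0 1746372 0) (P.cons (P.lf 120046 0 0) P.nil)))) (P.cons (P.cons (P.lf 28691416 0 0) (P.cons (P.lf 0 837514 0) (P.cons (P.lf 0 387700 0) P.nil))) (P.cons (P.cons (P.lf 0 1480076 0) (P.cons (P.lf 0 31958 0) P.nil)) (P.cons (P.cons (P.lf 0 572288 0) P.nil) P.nil)))))) 186620)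
 EL.nil)
noncomputable def S111_140_216_290_36 : EL := (EL.cons 14 (TM.mk (P.cons (P.lf 0 6610456888 0) (P.cons (P.lf 374322216 0 0) (P.cons (P.lf 40404680 0 0) (P.cons (P.lf 1068400 0 0) (P.cons (P.lf 0 64088 0) (P.cons (P.lf 0 6720 0) P.nil)))))) 424)
 EL.nil)
noncomputable def S111_140_216_290_37 : EL := (EL.cons 14 (TM.mk (P.cons (P.cons (P.lf 1339433910 0 0) (P.cons (P.lf 22034786 0 0) (P.cons (P.lf 10401764 0 0) (P.lf 0 495318 0)))) (P.cons (P.cons (P.lf 0 1058611818 0) (P.cons (P.lf 9421274 0 0) (P.cons (P.lf 4447412 0 0) (P.lf 0 211776 0)))) (P.cons (P.cons (P.lf 0 16810160 0) (P.cons (P.lf 971696 0 0) (P.cons (P.lf 458700 0 0) (P.lf 0 21838 0)))) (P.cons (P.cons (P.lf 16756290 0 0) (P.cons (P.lf 0 109596 0) (P.cons (P.lf 0 51740 0) P.nil))) (P.cons (P.cons (P.lf 1172566 0 0) (P.cons (P.lf 0 27814 0) P.nil)) (P.cons (P.cons (P.lf 0 85270 0) P.nil) P.nil))))))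 46030)
 EL.nil)
noncomputable def S111_140_216_290_38 : EL := (EL.cons 14 (TM.mk (P.cons (P.cons (P.lf 0 271400786 0) (P.cons (P.lf 0 8929530 0) (P.cons (P.lf 0 4288732 0) (P.cons (P.lf 131380 0 0) (P.cons (P.lf 0 13064 0) (P.cons (P.lf 1556 0 0) P.nil)))))) (P.cons (P.cons (P.lf 413630984 0 0) (P.cons (P.lf 2733804 0 0) (P.cons (P.lf 1223556 0 0) (P.cons (P.lf 0 124678 0) (P.cons (P.lf 0 11910 0) P.nil))))) (P.cons (P.cons (P.lf 0 140952642 0) (P.cons (P.lf 2835996 0 0) (P.cons (P.lf 1314616 0 0) (P.cons (P.lf 0 86546 0) P.nil)))) (P.cons (P.cons (P.lf 0 17671666 0) (P.cons (P.lf 467694 0 0) (P.cons (P.lf 216954 0 0) P.nil))) (P.cons (P.cons (P.lf 3056118 0 0) (P.cons (P.lf 0 30120 0) P.nil)) (P.cons (P.cons (P.lf 533858 0 0) P.nil) P.nil)))))) 234216)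
 EL.nil)
noncomputable def S111_140_216_290_39 : EL := (EL.cons 14 (TM.mk (P.cons (P.lf 5087133062 0 0) (P.cons (P.lf 0 576125660 0) (P.cons (P.lf 0 45875746 0) (P.cons (P.lf 1877024 0 0) (P.cons (P.lf 381806 0 0) (P.cons (P.lf 14808 0 0) P.nil)))))) 2110)
 EL.nil)
noncomputable def S111_140_216_290_40 : EL := (EL.cons 14 (TM.mk (P.cons (P.cons (P.lf 0 1030772706 0) (P.cons (P.lf 0 16957056 0) (P.cons (P.lf 0 8004766 0) (P.lf 381176 0 0)))) (P.cons (P.cons (P.lf 873031984 0 0) (P.cons (P.lf 0 6290014 0) (P.cons (P.lf 0 2969268 0) (P.lf 141390 0 0)))) (P.cons (P.cons (P.lf 0 26894230 0) (P.cons (P.lf 0 233582 0) (P.cons (P.lf 0 110264 0) (P.lf 5248 0 0)))) (P.cons (P.cons (P.lf 0 18440300 0) (P.cons (P.lf 173738 0 0) (P.cons (P.lf 82018 0 0) P.nil))) (P.cons (P.cons (P.lf 0 392904 0) (P.cons (P.lf 22206 0 0) P.nil)) (P.cons (P.cons (P.lf 200294 0 0) P.nil) P.nil))))))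 55486)
 EL.nil)
noncomputable def S111_140_216_290_41 : EL := (EL.cons 14 (TM.mk (P.cons (P.cons (P.lf 208858772 0 0) (P.cons (P.lf 6871794 0 0) (P.cons (P.lf 3300430 0 0) (P.cons (P.lf 0 101104 0) (P.cons (P.lf 10052 0 0) (P.cons (P.lf 0 1198 0) P.nil)))))) (P.cons (P.cons (P.lf 0 330140014 0) (P.cons (P.lf 0 2492942 0) (P.cons (P.lf 0 1128486 0) (P.cons (P.lf 101672 0 0) (P.cons (P.lf 8596 0 0) P.nil))))) (P.cons (P.cons (P.lf 125219436 0 0) (P.cons (P.lf 0 2105336 0) (P.cons (P.lf 0 978528 0) (P.cons (P.lf 61786 0 0) P.nil)))) (P.cons (P.cons (P.lf 9368958 0 0) (P.cons (P.lf 0 224586 0) (P.cons (P.lf 0 104450 0) P.nil))) (P.cons (P.cons (P.lf 0 3731468 0) (P.cons (P.lf 57306 0 0) P.nil)) (P.cons (P.cons (P.lf 0 381186 0) P.nil) P.nil)))))) 247760)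
 EL.nil)
noncomputable def S111_140_216_290_42 : EL := (EL.cons 14 (TM.mk (P.cons (P.lf 0 3914846314 0) (P.cons (P.lf 665043568 0 0) (P.cons (P.lf 34126800 0 0) (P.cons (P.lf 0 5520806 0) (P.cons (P.lf 0 537424 0) (P.cons (P.lf 8682 0 0) P.nil)))))) 5662)
 EL.nil)
noncomputable def S111_140_216_290_43 : EL := (EL.cons 14 (TM.mk (P.cons (P.cons (P.lf 793239862 0 0) (P.cons (P.lf 13049446 0 0) (P.cons (P.lf 6160134 0 0) (P.lf 0 293336 0)))) (P.cons (P.cons (P.lf 0 716766972 0) (P.cons (P.lf 4101598 0 0) (P.cons (P.lf 1936202 0 0) (P.lf 0 92196 0)))) (P.cons (P.cons (P.lf 53892188 0 0) (P.cons (P.lf 0 174104 0) (P.cons (P.lf 0 82186 0) (P.lf 3914 0 0)))) (P.cons (P.cons (P.lf 16997218 0 0) (P.cons (P.lf 0 175576 0) (P.cons (P.lf 0 82884 0) P.nil))) (P.cons (P.cons (P.lf 0 511432 0) (P.cons (P.lf 0 11272 0) P.nil)) (P.cons (P.cons (P.lf 0 267048 0) P.nil) P.nil)))))) 61290)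
 EL.nil)
noncomputable def S111_140_216_290_44 : EL := (EL.cons 14 (TM.mk (P.cons (P.cons (P.lf 0 160729036 0) (P.cons (P.lf 0 5288248 0) (P.cons (P.lf 0 2539874 0) (P.cons (P.lf 77806 0 0) (P.cons (P.lf 0 7736 0) (P.cons (P.lf 922 0 0) P.nil)))))) (P.cons (P.cons (P.lf 263163448 0 0) (P.cons (P.lf 2217916 0 0) (P.cons (P.lf 1012258 0 0) (P.cons (P.lf 0 82648 0) (P.cons (P.lf 0 6178 0) P.nil))))) (P.cons (P.cons (P.lf 0 109767722 0) (P.cons (P.lf 1543868 0 0) (P.cons (P.lf 719382 0 0) (P.cons (P.lf 0 43594 0) P.nil)))) (P.cons (P.cons (P.lf 0 3280204 0) (P.cons (P.lf 70216 0 0) (P.cons (P.lf 32842 0 0) P.nil))) (P.cons (P.cons (P.lf 3826230 0 0) (P.cons (P.lf 0 64152 0) P.nil)) (P.cons (P.cons (P.lf 192682 0 0) P.nil) P.nil)))))) 248696)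
 EL.nil)
noncomputable def S111_140_216_290_45 : EL := (EL.cons 14 (TM.mk (P.cons (P.cons (P.lf 0 71459388 0) (P.cons (P.lf 0 3526696 0) (P.cons (P.lf 0 1722832 0) (P.cons (P.lf 24182 0 0) (P.cons (P.lf 0 10770 0) (P.cons (P.lf 1038 0 0) P.nil)))))) (P.cons (P.cons (P.lf 157292888 0 0) (P.cons (P.lf 3467604 0 0) (P.cons (P.lf 1623306 0 0) (P.cons (P.lf 0 91262 0) (P.cons (P.lf 0 3076 0) P.nil))))) (P.cons (P.cons (P.lf 0 105121466 0) (P.cons (P.lf 671898 0 0) (P.cons (P.lf 338572 0 0) (P.cons (P.lf 4800 0 0) P.nil)))) (P.cons (P.cons (P.lf 11957640 0 0) (P.cons (P.lf 0 649526 0) (P.cons (P.lf 0 292304 0) P.nil))) (P.cons (P.cons (P.lf 6601290 0 0) (P.cons (P.lf 0 230036 0) P.nil)) (P.cons (P.cons (P.lf 81234 0 0) P.nil) P.nil)))))) 475998)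
 EL.nil)
noncomputable def S111_140_216_290_46 : EL := (EL.cons 15 (TM.mk (P.lf 4294967296 0 0) 0)
 EL.nil)
noncomputable def S111_140_216_290_47 : EL := (EL.cons 15 (TM.mk (P.cons (P.cons (P.lf 0 870261306 0) (P.cons (P.lf 0 14316512 0) (P.cons (P.lf 0 6758268 0) (P.lf 321820 0 0)))) (P.cons (P.cons (P.lf 638525456 0 0) (P.cons (P.lf 0 6931904 0) (P.cons (P.lf 0 3272280 0) (P.lf 155820 0 0)))) (P.cons (P.cons (P.lf 41759704 0 0) (P.cons (P.lf 0 1111364 0) (P.cons (P.lf 0 524632 0) (P.lf 24980 0 0)))) (P.cons (P.cons (P.lf 0 4760111 0) (P.cons (P.lf 0 36408 0) (P.cons (P.lf 0 17184 0) P.nil))) (P.cons (P.cons (P.lf 0 664507 0) (P.cons (P.lf 8236 0 0) P.nil)) (P.cons (P.cons (P.lf 0 9877 0) P.nil) P.nil)))))) 13565)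
 EL.nil)
noncomputable def S111_140_216_290_48 : EL := (EL.cons 15 (TM.mk (P.cons (P.cons (P.lf 176335391 0 0) (P.cons (P.lf 5801723 0 0) (P.cons (P.lf 2786489 0 0) (P.cons (P.lf 0 85361 0) (P.cons (P.lf 8488 0 0) (P.cons (P.lf 0 1012 0) P.nil)))))) (P.cons (P.cons (P.lf 0 258760525 0) (P.cons (P.lf 0 1447689 0) (P.cons (P.lf 0 637186 0) (P.cons (P.lf 76173 0 0) (P.cons (P.lf 8220 0 0) P.nil))))) (P.cons (P.cons (P.lf 78005494 0 0) (P.cons (P.lf 0 1889128 0) (P.cons (P.lf 0 873186 0) (P.cons (P.lf 60023 0 0) P.nil)))) (P.cons (P.cons (P.lf 14345708 0 0) (P.cons (P.lf 0 418757 0) (P.cons (P.lf 0 193850 0) P.nil))) (P.cons (P.cons (P.lf 0 740038 0) (P.cons (P.lf 0 15979 0) P.nil)) (P.cons (P.cons (P.lf 0 286144 0) P.nil) P.nil)))))) 93310)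
 EL.nil)
noncomputable def S111_140_216_290 : SL := (SL.cons S111_140_216_290_0 (SL.cons S111_140_216_290_1 (SL.cons S111_140_216_290_2 (SL.cons S111_140_216_290_3 (SL.cons S111_140_216_290_4 (SL.cons S111_140_216_290_5 (SL.cons S111_140_216_290_6 (SL.cons S111_140_216_290_7 (SL.cons S111_140_216_290_8 (SL.cons S111_140_216_290_9 (SL.cons S111_140_216_290_10 (SL.cons S111_140_216_290_11 (SL.cons S111_140_216_290_12 (SL.cons S111_140_216_290_13 (SL.cons S111_140_216_290_14 (SL.cons S111_140_216_290_15 (SL.cons S111_140_216_290_16 (SL.cons S111_140_216_290_17 (SL.cons S111_140_216_290_18 (SL.cons S111_140_216_290_19 (SL.cons S111_140_216_290_20 (SL.cons S111_140_216_290_21 (SL.cons S111_140_216_290_22 (SL.cons S111_140_216_290_23 (SL.cons S111_140_216_290_24 (SL.cons S111_140_216_290_25 (SL.cons S111_140_216_290_26 (SL.cons S111_140_216_290_27 (SL.cons S111_140_216_290_28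 (SL.cons S111_140_216_290_29 (SL.cons S111_140_216_290_30 (SL.cons S111_140_216_290_31 (SL.cons S111_140_216_290_32 (SL.cons S111_140_216_290_33 (SL.cons S111_140_216_290_34 (SL.cons S111_140_216_290_35 (SL.cons S111_140_216_290_36 (SL.cons S111_140_216_290_37 (SL.cons S111_140_216_290_38 (SL.cons S111_140_216_290_39 (SL.cons S111_140_216_290_40 (SL.cons S111_140_216_290_41 (SL.cons S111_140_216_290_42 (SL.cons S111_140_216_290_43 (SL.cons S111_140_216_290_44 (SL.cons S111_140_216_290_45 (SL.cons S111_140_216_290_46 (SL.cons S111_140_216_290_47 (SL.cons S111_140_216_290_48 SL.nil)))))))))))))))))))))))))))))))))))))))))))))))))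
noncomputable def S111_140_216_364_0 : EL := (EL.cons 0 (TM.mk (P.cons (P.lf 3984603821 0 0) (P.cons (P.lf 506360443 0 0) (P.cons (P.lf 40320479 0 0) (P.cons (P.lf 0 1649728 0) (P.cons (P.lf 0 335571 0) (P.cons (P.lf 0 13014 0) P.nil)))))) 1861)
 (EL.cons 1 (TM.mk (P.cons (P.lf 0 1579171841 0) (P.cons (P.lf 0 165450982 0) (P.cons (P.lf 24357408 0 0) (P.cons (P.lf 2583976 0 0) (P.cons (P.lf 21706 0 0) (P.cons (P.lf 0 11396 0) P.nil)))))) 1057)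
 (EL.cons 5 (TM.mk (P.cons (P.lf 5884696382 0 0) (P.cons (P.lf 0 180039266 0) (P.cons (P.lf 0 14336174 0) (P.cons (P.lf 586566 0 0) (P.cons (P.lf 119316 0 0) (P.cons (P.lf 4630 0 0) P.nil)))))) 385)
 (EL.cons 9 (TM.mk (P.lf 6442450944 0 0) 2)
 EL.nil))))
noncomputable def S111_140_216_364_1 : EL := (EL.cons 0 (TM.mk (P.cons (P.cons (P.lf 0 4880323263 0) (P.cons (P.lf 117964743 0 0) (P.cons (P.lf 50867716 0 0) (P.lf 0 5651954 0)))) (P.cons (P.cons (P.lf 0 243747334 0) (P.cons (P.lf 31776583 0 0) (P.cons (P.lf 13702413 0 0) (P.lf 0 1522476 0)))) (P.cons (P.cons (P.lf 243458772 0 0) (P.cons (P.lf 0 5130140 0) (P.cons (P.lf 0 2212177 0) (P.lf 245813 0 0)))) (P.cons (P.cons (P.lf 39348166 0 0) (P.cons (P.lf 0 2561604 0) (P.cons (P.lf 0 1104591 0) P.nil))) (P.cons (P.cons (P.lf 0 1399861 0) (P.cons (P.lf 0 232188 0) P.nil)) (P.cons (P.cons (P.lf 0 690558 0) P.nil) P.nil))))))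 680963)
 (EL.cons 1 (TM.mk (P.cons (P.cons (P.lf 1652134469 0 0) (P.cons (P.lf 0 35076096 0) (P.cons (P.lf 0 15125214 0) (P.lf 1680583 0 0)))) (P.cons (P.cons (P.lf 0 561850014 0) (P.cons (P.lf 16173996 0 0) (P.cons (P.lf 6974406 0 0) (P.lf 0 774924 0)))) (P.cons (P.cons (P.lf 0 150333356 0) (P.cons (P.lf 8775219 0 0) (P.cons (P.lf 3783966 0 0) (P.lf 0 420431 0)))) (P.cons (P.cons (P.lf 11164961 0 0) (P.cons (P.lf 653854 0 0) (P.cons (P.lf 281944 0 0) P.nil))) (P.cons (P.cons (P.lf 3713238 0 0) (P.cons (P.lf 0 142352 0) P.nil)) (P.cons (P.cons (P.lf 108755 0 0) P.nil) P.nil)))))) 305502)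
 (EL.cons 5 (TM.mk (P.cons (P.cons (P.lf 220501787 0 0) (P.cons (P.lf 0 133292824 0) (P.cons (P.lf 0 57477366 0) (P.lf 6386368 0 0)))) (P.cons (P.cons (P.lf 1155076770 0 0) (P.cons (P.lf 0 55528956 0) (P.cons (P.lf 0 23944706 0) (P.lf 2660516 0 0)))) (P.cons (P.cons (P.lf 0 18310338 0) (P.cons (P.lf 0 5267280 0) (P.cons (P.lf 0 2271310 0) (P.lf 252360 0 0)))) (P.cons (P.cons (P.lf 0 22172368 0) (P.cons (P.lf 678484 0 0) (P.cons (P.lf 292566 0 0) P.nil))) (P.cons (P.cons (P.lf 0 611650 0) (P.cons (P.lf 135120 0 0) P.nil)) (P.cons (P.cons (P.lf 230992 0 0) P.nil) P.nil)))))) 226936)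
 (EL.cons 9 (TM.mk (P.cons (P.cons (P.lf 0 1336521405 0) (P.cons (P.lf 0 80602764 0) (P.cons (P.lf 0 34756818 0) (P.lf 3861864 0 0)))) (P.cons (P.cons (P.lf 942715632 0 0) (P.cons (P.lf 0 39027006 0) (P.cons (P.lf 0 16828884 0) (P.lf 1869870 0 0)))) (P.cons (P.cons (P.lf 60223032 0 0) (P.cons (P.lf 0 6257052 0) (P.cons (P.lf 0 2698110 0) (P.lf 299784 0 0)))) (P.cons (P.cons (P.lf 0 7219330 0) (P.cons (P.lf 0 204978 0) (P.cons (P.lf 0 88386 0) P.nil))) (P.cons (P.cons (P.lf 0 978850 0) (P.cons (P.lf 46380 0 0) P.nil)) (P.cons (P.cons (P.lf 0 12823 0) P.nil) P.nil)))))) 61748)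
 (EL.cons 2 (TM.mk (P.cons (P.cons (P.lf 238424312 0 0) (P.cons (P.lf 222114304 0 0) (P.cons (P.lf 0 22796150 0) (P.cons (P.lf 0 4740963 0) (P.lf 395077 0 0))))) (P.cons (P.cons (P.lf 63460735 0 0) (P.cons (P.lf 59119545 0 0) (P.cons (P.lf 0 6067586 0) (P.cons (P.lf 0 1261887 0) (P.lf 105153 0 0))))) (P.cons (P.cons (P.lf 312986 0 0) (P.cons (P.lf 291574 0 0) (P.cons (P.lf 0 29922 0) (P.cons (P.lf 0 6221 0) P.nil)))) (P.cons (P.cons (P.lf 0 1106701 0) (P.cons (P.lf 0 1030995 0) (P.cons (P.lf 105811 0 0) P.nil))) (P.cons (P.cons (P.lf 0 84389 0) (P.cons (P.lf 0 78615 0) P.nil)) (P.cons (P.cons (P.lf 2438 0 0) P.nil) P.nil)))))) 68016)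
 (EL.cons 6 (TM.mk (P.cons (P.cons (P.lf 84210117 0 0) (P.cons (P.lf 78449517 0 0) (P.cons (P.lf 0 8051469 0) (P.cons (P.lf 0 1674480 0) (P.lf 139539 0 0))))) (P.cons (P.cons (P.lf 40773654 0 0) (P.cons (P.lf 37984431 0 0) (P.cons (P.lf 0 3898437 0) (P.cons (P.lf 0 810765 0) (P.lf 67563 0 0))))) (P.cons (P.cons (P.lf 6537087 0 0) (P.cons (P.lf 6089901 0 0) (P.cons (P.lf 0 625020 0) (P.cons (P.lf 0 129984 0) P.nil)))) (P.cons (P.cons (P.lf 214152 0 0) (P.cons (P.lf 199503 0 0) (P.cons (P.lf 0 20475 0) P.nil))) (P.cons (P.cons (P.lf 0 48456 0) (P.cons (P.lf 0 45141 0) P.nil)) (P.cons (P.cons (P.lf 0 5385 0) P.nil) P.nil)))))) 33423)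
 EL.nil))))))
noncomputable def S111_140_216_364_2 : EL := (EL.cons 0 (TM.mk (P.cons (P.cons (P.lf 1853410681 0 0) (P.cons (P.lf 52488301 0 0) (P.cons (P.lf 19058075 0 0) (P.cons (P.lf 0 5598392 0) (P.cons (P.lf 0 322208 0) (P.cons (P.lf 147736 0 0) P.nil)))))) (P.cons (P.cons (P.lf 0 1107003402 0) (P.cons (P.lf 88511884 0 0) (P.cons (P.lf 35259728 0 0) (P.cons (P.lf 0 6748362 0) (P.cons (P.lf 0 262021 0) P.nil))))) (P.cons (P.cons (P.lf 0 304445957 0) (P.cons (P.lf 26737097 0 0) (P.cons (P.lf 10717446 0 0) (P.cons (P.lf 0 1981211 0) P.nil)))) (P.cons (P.cons (P.lf 42191986 0 0) (P.cons (P.lf 0 972586 0) (P.cons (P.lf 0 449170 0) P.nil))) (P.cons (P.cons (P.lf 16971270 0 0) (P.cons (P.lf 0 1528651 0) P.nil)) (P.cons (P.cons (P.lf 387652 0 0) P.nil) P.nil)))))) 4553625)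
 (EL.cons 1 (TM.mk (P.cons (P.cons (P.lf 0 617524509 0) (P.cons (P.lf 0 18589374 0) (P.cons (P.lf 0 6891067 0) (P.cons (P.lf 1860768 0 0) (P.cons (P.lf 101370 0 0) (P.cons (P.lf 0 46484 0) P.nil)))))) (P.cons (P.cons (P.lf 627870912 0 0) (P.cons (P.lf 0 23887895 0) (P.cons (P.lf 0 10015209 0) (P.cons (P.lf 1390767 0 0) (P.cons (P.lf 25737 0 0) P.nil))))) (P.cons (P.cons (P.lf 0 54571702 0) (P.cons (P.lf 4947339 0 0) (P.cons (P.lf 1903542 0 0) (P.cons (P.lf 0 435232 0) P.nil)))) (P.cons (P.cons (P.lf 0 53512579 0) (P.cons (P.lf 4392685 0 0) (P.cons (P.lf 1768138 0 0) P.nil))) (P.cons (P.cons (P.lf 0 348496 0) (P.cons (P.lf 474579 0 0) P.nil)) (P.cons (P.cons (P.lf 1498559 0 0) P.nil) P.nil)))))) 2043016)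
 (EL.cons 5 (TM.mk (P.cons (P.cons (P.lf 0 344752694 0) (P.cons (P.lf 19239524 0 0) (P.cons (P.lf 10710483 0 0) (P.cons (P.lf 1160220 0 0) (P.cons (P.lf 217555 0 0) (P.cons (P.lf 0 99742 0) P.nil)))))) (P.cons (P.cons (P.lf 0 49694130 0) (P.cons (P.lf 0 39853324 0) (P.cons (P.lf 0 15044630 0) (P.cons (P.lf 3755529 0 0) (P.cons (P.lf 192891 0 0) P.nil))))) (P.cons (P.cons (P.lf 236267854 0 0) (P.cons (P.lf 0 21216513 0) (P.cons (P.lf 0 8414737 0) (P.cons (P.lf 1649589 0 0) P.nil)))) (P.cons (P.cons (P.lf 8367852 0 0) (P.cons (P.lf 0 2255329 0) (P.cons (P.lf 0 870197 0) P.nil))) (P.cons (P.cons (P.lf 0 7330417 0) (P.cons (P.lf 448034 0 0) P.nil)) (P.cons (P.cons (P.lf 0 609428 0) P.nil) P.nil)))))) 1890207)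
 (EL.cons 9 (TM.mk (P.cons (P.cons (P.lf 277268616 0 0) (P.cons (P.lf 33442960 0 0) (P.cons (P.lf 15429417 0 0) (P.cons (P.lf 0 732630 0) (P.cons (P.lf 90877 0 0) (P.cons (P.lf 0 41668 0) P.nil)))))) (P.cons (P.cons (P.lf 0 391142946 0) (P.cons (P.lf 0 7396270 0) (P.cons (P.lf 0 2212806 0) (P.cons (P.lf 1196571 0 0) (P.cons (P.lf 88005 0 0) P.nil))))) (P.cons (P.cons (P.lf 112959186 0 0) (P.cons (P.lf 0 10332349 0) (P.cons (P.lf 0 4062441 0) (P.cons (P.lf 833965 0 0) P.nil)))) (P.cons (P.cons (P.lf 20620096 0 0) (P.cons (P.lf 0 2295117 0) (P.cons (P.lf 0 908743 0) P.nil))) (P.cons (P.cons (P.lf 0 1143699 0) (P.cons (P.lf 0 84252 0) P.nil)) (P.cons (P.cons (P.lf 0 416116 0) P.nil) P.nil)))))) 701555)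
 (EL.cons 2 (TM.mk (P.cons (P.cons (P.lf 0 98924833 0) (P.cons (P.lf 0 98123580 0) (P.cons (P.lf 1327955 0 0) (P.cons (P.lf 426729 0 0) (P.cons (P.lf 466959 0 0) (P.cons (P.lf 13938 0 0) P.nil)))))) (P.cons (P.cons (P.lf 43446099 0 0) (P.cons (P.lf 35997474 0 0) (P.cons (P.lf 0 10254661 0) (P.cons (P.lf 0 2019712 0) (P.cons (P.lf 545383 0 0) P.nil))))) (P.cons (P.cons (P.lf 22899898 0 0) (P.cons (P.lf 20093551 0 0) (P.cons (P.lf 0 3879129 0) (P.cons (P.lf 0 775462 0) P.nil)))) (P.cons (P.cons (P.lf 1202872 0 0) (P.cons (P.lf 1006042 0 0) (P.cons (P.lf 0 271102 0) P.nil))) (P.cons (P.cons (P.lf 0 497694 0) (P.cons (P.lf 0 449341 0) P.nil)) (P.cons (P.cons (P.lf 0 67331 0) P.nil) P.nil)))))) 738578)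
 (EL.cons 6 (TM.mk (P.cons (P.cons (P.lf 0 34939692 0) (P.cons (P.lf 0 34656690 0) (P.cons (P.lf 469020 0 0) (P.cons (P.lf 150720 0 0) (P.cons (P.lf 164928 0 0) (P.cons (P.lf 4920 0 0) P.nil)))))) (P.cons (P.cons (P.lf 7727280 0 0) (P.cons (P.lf 5158170 0 0) (P.cons (P.lf 0 3519630 0) (P.cons (P.lf 0 680490 0) (P.cons (P.lf 228582 0 0) P.nil))))) (P.cons (P.cons (P.lf 10794768 0 0) (P.cons (P.lf 9235182 0 0) (P.cons (P.lf 0 2151162 0) (P.cons (P.lf 0 426654 0) P.nil)))) (P.cons (P.cons (P.lf 2397834 0 0) (P.cons (P.lf 2064684 0 0) (P.cons (P.lf 0 459732 0) P.nil))) (P.cons (P.cons (P.lf 88020 0 0) (P.cons (P.lf 66540 0 0) P.nil)) (P.cons (P.cons (P.lf 0 35316 0) P.nil) P.nil)))))) 454464)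
 EL.nil))))))
noncomputable def S111_140_216_364_3 : EL := (EL.cons 0 (TM.mk (P.cons (P.lf 4471113042 0 0) (P.cons (P.lf 0 506360443 0) (P.cons (P.lf 0 40320479 0) (P.cons (P.lf 1649728 0 0) (P.cons (P.lf 335571 0 0) (P.cons (P.lf 13014 0 0) P.nil)))))) 1861)
 (EL.cons 1 (TM.mk (P.cons (P.lf 1579171841 0 0) (P.cons (P.lf 165450982 0 0) (P.cons (P.lf 0 24357408 0) (P.cons (P.lf 0 2583976 0) (P.cons (P.lf 0 21706 0) (P.cons (P.lf 11396 0 0) P.nil)))))) 1057)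
 (EL.cons 5 (TM.mk (P.cons (P.lf 557754562 0 0) (P.cons (P.lf 180039266 0 0) (P.cons (P.lf 14336174 0 0) (P.cons (P.lf 0 586566 0) (P.cons (P.lf 0 119316 0) (P.cons (P.lf 0 4630 0) P.nil)))))) 378)
 EL.nil)))
noncomputable def S111_140_216_364_4 : EL := (EL.cons 0 (TM.mk (P.cons (P.cons (P.lf 0 927556660 0) (P.cons (P.lf 0 55938969 0) (P.cons (P.lf 0 24121511 0) (P.lf 2680163 0 0)))) (P.cons (P.cons (P.lf 759299491 0 0) (P.cons (P.lf 0 20749881 0) (P.cons (P.lf 0 8947582 0) (P.lf 994171 0 0)))) (P.cons (P.cons (P.lf 0 23935104 0) (P.cons (P.lf 0 770561 0) (P.cons (P.lf 0 332274 0) (P.lf 36914 0 0)))) (P.cons (P.cons (P.lf 0 15985940 0) (P.cons (P.lf 573143 0 0) (P.cons (P.lf 247148 0 0) P.nil))) (P.cons (P.cons (P.lf 0 317032 0) (P.cons (P.lf 73265 0 0) P.nil)) (P.cons (P.cons (P.lf 175042 0 0) P.nil) P.nil)))))) 144678)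
 (EL.cons 1 (TM.mk (P.cons (P.cons (P.lf 0 327607766 0) (P.cons (P.lf 0 19757326 0) (P.cons (P.lf 0 8519580 0) (P.lf 946618 0 0)))) (P.cons (P.cons (P.lf 196754497 0 0) (P.cons (P.lf 0 11636278 0) (P.cons (P.lf 0 5017693 0) (P.lf 557518 0 0)))) (P.cons (P.cons (P.lf 44025159 0 0) (P.cons (P.lf 0 2231251 0) (P.cons (P.lf 0 962139 0) (P.lf 106901 0 0)))) (P.cons (P.cons (P.lf 0 3251116 0) (P.cons (P.lf 0 31051 0) (P.cons (P.lf 0 13389 0) P.nil))) (P.cons (P.cons (P.lf 0 1026631 0) (P.cons (P.lf 45684 0 0) P.nil)) (P.cons (P.cons (P.lf 0 30682 0) P.nil) P.nil)))))) 66949)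
 (EL.cons 5 (TM.mk (P.cons (P.cons (P.lf 0 115709210 0) (P.cons (P.lf 0 6978176 0) (P.cons (P.lf 0 3009066 0) (P.lf 334340 0 0)))) (P.cons (P.cons (P.lf 44265390 0 0) (P.cons (P.lf 0 5631264 0) (P.cons (P.lf 0 2428264 0) (P.lf 269806 0 0)))) (P.cons (P.cons (P.lf 28584600 0 0) (P.cons (P.lf 0 1811706 0) (P.cons (P.lf 0 781226 0) (P.lf 86802 0 0)))) (P.cons (P.cons (P.lf 3277446 0 0) (P.cons (P.lf 0 272110 0) (P.cons (P.lf 0 117336 0) P.nil))) (P.cons (P.cons (P.lf 0 213558 0) (P.cons (P.lf 0 10590 0) P.nil)) (P.cons (P.cons (P.lf 0 66510 0) P.nil) P.nil)))))) 39662)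
 EL.nil)))
noncomputable def S111_140_216_364_5 : EL := (EL.cons 0 (TM.mk (P.cons (P.cons (P.lf 192426660 0 0) (P.cons (P.lf 23209683 0 0) (P.cons (P.lf 10708138 0 0) (P.cons (P.lf 0 508450 0) (P.cons (P.lf 63068 0 0) (P.cons (P.lf 0 28917 0) P.nil)))))) (P.cons (P.cons (P.lf 0 293248982 0) (P.cons (P.lf 0 7761603 0) (P.cons (P.lf 0 2748417 0) (P.cons (P.lf 888011 0 0) (P.cons (P.lf 53933 0 0) P.nil))))) (P.cons (P.cons (P.lf 107402136 0 0) (P.cons (P.lf 0 6798708 0) (P.cons (P.lf 0 2742011 0) (P.cons (P.lf 489315 0 0) P.nil)))) (P.cons (P.cons (P.lf 7951197 0 0) (P.cons (P.lf 0 725878 0) (P.cons (P.lf 0 293577 0) P.nil))) (P.cons (P.cons (P.lf 0 3207104 0) (P.cons (P.lf 186431 0 0) P.nil)) (P.cons (P.cons (P.lf 0 318835 0) P.nil) P.nil)))))) 825459)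
 (EL.cons 1 (TM.mk (P.cons (P.cons (P.lf 67964008 0 0) (P.cons (P.lf 8197528 0 0) (P.cons (P.lf 3782053 0 0) (P.cons (P.lf 0 179580 0) (P.cons (P.lf 22275 0 0) (P.cons (P.lf 0 10213 0) P.nil)))))) (P.cons (P.cons (P.lf 0 88756213 0) (P.cons (P.lf 0 954110 0) (P.cons (P.lf 0 146152 0) (P.cons (P.lf 274486 0 0) (P.cons (P.lf 23904 0 0) P.nil))))) (P.cons (P.cons (P.lf 16595148 0 0) (P.cons (P.lf 0 2849047 0) (P.cons (P.lf 0 1110946 0) (P.cons (P.lf 237920 0 0) P.nil)))) (P.cons (P.cons (P.lf 9322950 0 0) (P.cons (P.lf 0 813376 0) (P.cons (P.lf 0 324901 0) P.nil))) (P.cons (P.cons (P.lf 0 21915 0) (P.cons (P.lf 0 37674 0) P.nil)) (P.cons (P.cons (P.lf 0 252826 0) P.nil) P.nil)))))) 365965)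
 (EL.cons 5 (TM.mk (P.cons (P.cons (P.lf 24004502 0 0) (P.cons (P.lf 2895320 0 0) (P.cons (P.lf 1335798 0 0) (P.cons (P.lf 0 63426 0) (P.cons (P.lf 7866 0 0) (P.cons (P.lf 0 3606 0) P.nil)))))) (P.cons (P.cons (P.lf 0 26114676 0) (P.cons (P.lf 294258 0 0) (P.cons (P.lf 239612 0 0) (P.cons (P.lf 83118 0 0) (P.cons (P.lf 10158 0 0) P.nil))))) (P.cons (P.cons (P.lf 0 534364 0) (P.cons (P.lf 0 1026796 0) (P.cons (P.lf 0 379208 0) (P.cons (P.lf 104008 0 0) P.nil)))) (P.cons (P.cons (P.lf 4046272 0 0) (P.cons (P.lf 0 506948 0) (P.cons (P.lf 0 198530 0) P.nil))) (P.cons (P.cons (P.lf 759070 0 0) (P.cons (P.lf 0 94370 0) P.nil)) (P.cons (P.cons (P.lf 0 25340 0) P.nil) P.nil)))))) 180712)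
 EL.nil)))
noncomputable def S111_140_216_364_6 : EL := (EL.cons 12 (TM.mk (P.lf 8589934592 0 0) 0)
 (EL.cons 3 (TM.mk (P.cons (P.lf 0 3098651666 0) (P.cons (P.lf 175463538 0 0) (P.cons (P.lf 18939693 0 0) (P.cons (P.lf 500812 0 0) (P.cons (P.lf 0 30041 0) (P.cons (P.lf 0 3150 0) P.nil)))))) 205)
 (EL.cons 7 (TM.mk (P.cons (P.lf 0 1094426245 0) (P.cons (P.lf 0 176636564 0) (P.cons (P.lf 189038 0 0) (P.cons (P.lf 544971 0 0) (P.cons (P.lf 29121 0 0) (P.cons (P.lf 0 63 0) P.nil)))))) 165)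
 EL.nil)))
noncomputable def S111_140_216_364_7 : EL := (EL.cons 12 (TM.mk (P.cons (P.cons (P.lf 0 1782028540 0) (P.cons (P.lf 0 107470352 0) (P.cons (P.lf 0 46342424 0) (P.lf 5149152 0 0)))) (P.cons (P.cons (P.lf 1256954176 0 0) (P.cons (P.lf 0 52036008 0) (P.cons (P.lf 0 22438512 0) (P.lf 2493160 0 0)))) (P.cons (P.cons (P.lf 80297376 0 0) (P.cons (P.lf 0 8342736 0) (P.cons (P.lf 0 3597480 0) (P.lf 399712 0 0)))) (P.cons (P.cons (P.lf 0 9625774 0) (P.cons (P.lf 0 273304 0) (P.cons (P.lf 0 117848 0) P.nil))) (P.cons (P.cons (P.lf 0 1305134 0) (P.cons (P.lf 61840 0 0) P.nil)) (P.cons (P.cons (P.lf 0 17098 0) P.nil) P.nil)))))) 82306)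
 (EL.cons 3 (TM.mk (P.cons (P.cons (P.lf 3452197565 0 0) (P.cons (P.lf 0 77535672 0) (P.cons (P.lf 0 33434252 0) (P.lf 3714910 0 0)))) (P.cons (P.cons (P.lf 169468514 0 0) (P.cons (P.lf 0 33151436 0) (P.cons (P.lf 0 14295270 0) (P.lf 1588356 0 0)))) (P.cons (P.cons (P.lf 0 50073768 0) (P.cons (P.lf 0 3419198 0) (P.cons (P.lf 0 1474394 0) (P.lf 163814 0 0)))) (P.cons (P.cons (P.lf 0 12920521 0) (P.cons (P.lf 385646 0 0) (P.cons (P.lf 166296 0 0) P.nil))) (P.cons (P.cons (P.lf 0 524562 0) (P.cons (P.lf 97884 0 0) P.nil)) (P.cons (P.cons (P.lf 102376 0 0) P.nil) P.nil)))))) 269140)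
 (EL.cons 7 (TM.mk (P.cons (P.cons (P.lf 0 2601102255 0) (P.cons (P.lf 130773622 0 0) (P.cons (P.lf 56391061 0 0) (P.lf 0 6265674 0)))) (P.cons (P.cons (P.lf 0 170601468 0) (P.cons (P.lf 33373071 0 0) (P.cons (P.lf 14390844 0 0) (P.lf 0 1598985 0)))) (P.cons (P.cons (P.lf 69005981 0 0) (P.cons (P.lf 0 195973 0) (P.cons (P.lf 0 84504 0) (P.lf 9388 0 0)))) (P.cons (P.cons (P.lf 4016834 0 0) (P.cons (P.lf 0 563148 0) (P.cons (P.lf 0 242833 0) P.nil))) (P.cons (P.cons (P.lf 0 672979 0) (P.cons (P.lf 0 21615 0) P.nil)) (P.cons (P.cons (P.lf 0 78126 0) P.nil) P.nil)))))) 143584)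
 (EL.cons 10 (TM.mk (P.cons (P.cons (P.lf 0 330474267 0) (P.cons (P.lf 0 307867353 0) (P.cons (P.lf 31597203 0 0) (P.cons (P.lf 6571338 0 0) (P.lf 0 547611 0))))) (P.cons (P.cons (P.lf 0 106674777 0) (P.cons (P.lf 0 99377424 0) (P.cons (P.lf 10199355 0 0) (P.cons (P.lf 2121180 0 0) (P.lf 0 176763 0))))) (P.cons (P.cons (P.lf 0 8494302 0) (P.cons (P.lf 0 7913229 0) (P.cons (P.lf 812154 0 0) (P.cons (P.lf 168903 0 0) P.nil)))) (P.cons (P.cons (P.lf 347544 0 0) (P.cons (P.lf 323769 0 0) (P.cons (P.lf 0 33228 0) P.nil))) (P.cons (P.cons (P.lf 70695 0 0) (P.cons (P.lf 65859 0 0) P.nil)) (P.cons (P.cons (P.lf 2742 0 0) P.nil) P.nil)))))) 33279)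
 EL.nil))))
noncomputable def S111_140_216_364_8 : EL := (EL.cons 12 (TM.mk (P.cons (P.cons (P.lf 369691488 0 0) (P.cons (P.lf 44590614 0 0) (P.cons (P.lf 20572556 0 0) (P.cons (P.lf 0 976840 0) (P.cons (P.lf 121170 0 0) (P.cons (P.lf 0 55558 0) P.nil)))))) (P.cons (P.cons (P.lf 0 521523928 0) (P.cons (P.lf 0 9861694 0) (P.cons (P.lf 0 2950408 0) (P.cons (P.lf 1595428 0 0) (P.cons (P.lf 117340 0 0) P.nil))))) (P.cons (P.cons (P.lf 150612248 0 0) (P.cons (P.lf 0 13776466 0) (P.cons (P.lf 0 5416588 0) (P.cons (P.lf 1111954 0 0) P.nil)))) (P.cons (P.cons (P.lf 27493462 0 0) (P.cons (P.lf 0 3060156 0) (P.cons (P.lf 0 1211658 0) P.nil))) (P.cons (P.cons (P.lf 0 1524932 0) (P.cons (P.lf 0 112336 0) P.nil)) (P.cons (P.cons (P.lf 0 554822 0) P.nil) P.nil)))))) 935378)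
 (EL.cons 3 (TM.mk (P.cons (P.cons (P.lf 0 1298995224 0) (P.cons (P.lf 0 38126645 0) (P.cons (P.lf 0 14015478 0) (P.cons (P.lf 3918247 0 0) (P.cons (P.lf 218551 0 0) (P.cons (P.lf 0 100206 0) P.nil)))))) (P.cons (P.cons (P.lf 744315849 0 0) (P.cons (P.lf 0 59470624 0) (P.cons (P.lf 0 23433254 0) (P.cons (P.lf 4756312 0 0) (P.cons (P.lf 199266 0 0) P.nil))))) (P.cons (P.cons (P.lf 199081883 0 0) (P.cons (P.lf 0 22105346 0) (P.cons (P.lf 0 8734806 0) (P.cons (P.lf 1746690 0 0) P.nil)))) (P.cons (P.cons (P.lf 0 5892678 0) (P.cons (P.lf 0 2028900 0) (P.cons (P.lf 0 748499 0) P.nil))) (P.cons (P.cons (P.lf 0 7340718 0) (P.cons (P.lf 465129 0 0) P.nil)) (P.cons (P.cons (P.lf 0 630646 0) P.nil) P.nil)))))) 2366517)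
 (EL.cons 7 (TM.mk (P.cons (P.cons (P.lf 1126327197 0 0) (P.cons (P.lf 16507598 0 0) (P.cons (P.lf 4017299 0 0) (P.cons (P.lf 0 3465247 0) (P.cons (P.lf 0 279450 0) (P.cons (P.lf 128128 0 0) P.nil)))))) (P.cons (P.cons (P.lf 0 749291823 0) (P.cons (P.lf 59868202 0 0) (P.cons (P.lf 23589910 0 0) (P.cons (P.lf 0 4788111 0) (P.cons (P.lf 0 200591 0) P.nil))))) (P.cons (P.cons (P.lf 0 118731650 0) (P.cons (P.lf 15726823 0 0) (P.cons (P.lf 6221631 0 0) (P.cons (P.lf 0 1236410 0) P.nil)))) (P.cons (P.cons (P.lf 27756477 0 0) (P.cons (P.lf 0 608296 0) (P.cons (P.lf 0 294579 0) P.nil))) (P.cons (P.cons (P.lf 4317238 0 0) (P.cons (P.lf 0 542961 0) P.nil)) (P.cons (P.cons (P.lf 0 292333 0) P.nil) P.nil)))))) 1450396)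
 (EL.cons 10 (TM.mk (P.cons (P.cons (P.lf 137117358 0 0) (P.cons (P.lf 136006758 0 0) (P.cons (P.lf 0 1840644 0) (P.cons (P.lf 0 591486 0) (P.cons (P.lf 0 647244 0) (P.cons (P.lf 0 19320 0) P.nil)))))) (P.cons (P.cons (P.lf 0 52455228 0) (P.cons (P.lf 0 42193758 0) (P.cons (P.lf 14109516 0 0) (P.cons (P.lf 2765982 0 0) (P.cons (P.lf 0 792588 0) P.nil))))) (P.cons (P.cons (P.lf 0 33873234 0) (P.cons (P.lf 0 29409144 0) (P.cons (P.lf 6164478 0 0) (P.cons (P.lf 1227858 0 0) P.nil)))) (P.cons (P.cons (P.lf 0 3883824 0) (P.cons (P.lf 0 3295686 0) (P.cons (P.lf 810780 0 0) P.nil))) (P.cons (P.cons (P.lf 253068 0 0) (P.cons (P.lf 248304 0 0) P.nil)) (P.cons (P.cons (P.lf 78816 0 0) P.nil) P.nil)))))) 1059648)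
 EL.nil))))
noncomputable def S111_140_216_364_9 : EL := (EL.cons 3 (TM.mk (P.cons (P.lf 0 3098651666 0) (P.cons (P.lf 175463538 0 0) (P.cons (P.lf 18939693 0 0) (P.cons (P.lf 500812 0 0) (P.cons (P.lf 0 30041 0) (P.cons (P.lf 0 3150 0) P.nil)))))) 205)
 (EL.cons 7 (TM.mk (P.cons (P.lf 0 1094426245 0) (P.cons (P.lf 0 176636564 0) (P.cons (P.lf 189038 0 0) (P.cons (P.lf 544971 0 0) (P.cons (P.lf 29121 0 0) (P.cons (P.lf 0 63 0) P.nil)))))) 165)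
 EL.nil))
noncomputable def S111_140_216_364_10 : EL := (EL.cons 3 (TM.mk (P.cons (P.cons (P.lf 642832100 0 0) (P.cons (P.lf 38767836 0 0) (P.cons (P.lf 16717126 0 0) (P.lf 0 1857455 0)))) (P.cons (P.cons (P.lf 0 489822610 0) (P.cons (P.lf 16575718 0 0) (P.cons (P.lf 7147635 0 0) (P.lf 0 794178 0)))) (P.cons (P.cons (P.lf 0 7219500 0) (P.cons (P.lf 1709599 0 0) (P.cons (P.lf 737197 0 0) (P.lf 0 81907 0)))) (P.cons (P.cons (P.lf 7780040 0 0) (P.cons (P.lf 0 192823 0) (P.cons (P.lf 0 83148 0) P.nil))) (P.cons (P.cons (P.lf 530739 0 0) (P.cons (P.lf 0 48942 0) P.nil)) (P.cons (P.cons (P.lf 0 40775 0) P.nil) P.nil)))))) 66618)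
 (EL.cons 7 (TM.mk (P.cons (P.cons (P.lf 227044662 0 0) (P.cons (P.lf 13692580 0 0) (P.cons (P.lf 5904394 0 0) (P.lf 0 656043 0)))) (P.cons (P.cons (P.lf 0 123501783 0) (P.cons (P.lf 8839737 0 0) (P.cons (P.lf 3811794 0 0) (P.lf 0 423531 0)))) (P.cons (P.cons (P.lf 0 36116746 0) (P.cons (P.lf 2130593 0 0) (P.cons (P.lf 918735 0 0) (P.lf 0 102080 0)))) (P.cons (P.cons (P.lf 0 510166 0) (P.cons (P.lf 198411 0 0) (P.cons (P.lf 85556 0 0) P.nil))) (P.cons (P.cons (P.lf 439691 0 0) (P.cons (P.lf 0 6108 0) P.nil)) (P.cons (P.cons (P.lf 38172 0 0) P.nil) P.nil)))))) 28932)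
 EL.nil))
noncomputable def S111_140_216_364_11 : EL := (EL.cons 3 (TM.mk (P.cons (P.cons (P.lf 0 133359006 0) (P.cons (P.lf 0 16085195 0) (P.cons (P.lf 0 7421148 0) (P.cons (P.lf 352375 0 0) (P.cons (P.lf 0 43709 0) (P.cons (P.lf 20040 0 0) P.nil)))))) (P.cons (P.cons (P.lf 195681159 0 0) (P.cons (P.lf 4468250 0 0) (P.cons (P.lf 1484530 0 0) (P.cons (P.lf 0 595472 0) (P.cons (P.lf 0 39852 0) P.nil))))) (P.cons (P.cons (P.lf 0 64168297 0) (P.cons (P.lf 4866466 0 0) (P.cons (P.lf 1939020 0 0) (P.cons (P.lf 0 370680 0) P.nil)))) (P.cons (P.cons (P.lf 0 7969566 0) (P.cons (P.lf 803340 0 0) (P.cons (P.lf 321133 0 0) P.nil))) (P.cons (P.cons (P.lf 1412070 0 0) (P.cons (P.lf 0 53091 0) P.nil)) (P.cons (P.cons (P.lf 240080 0 0) P.nil) P.nil)))))) 460793)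
 (EL.cons 7 (TM.mk (P.cons (P.cons (P.lf 0 47101647 0) (P.cons (P.lf 0 5681200 0) (P.cons (P.lf 0 2621107 0) (P.cons (P.lf 124457 0 0) (P.cons (P.lf 0 15438 0) (P.cons (P.lf 7078 0 0) P.nil)))))) (P.cons (P.cons (P.lf 58844271 0 0) (P.cons (P.lf 339532 0 0) (P.cons (P.lf 0 47132 0) (P.cons (P.lf 0 183183 0) (P.cons (P.lf 0 17441 0) P.nil))))) (P.cons (P.cons (P.lf 0 8456864 0) (P.cons (P.lf 1959001 0 0) (P.cons (P.lf 751239 0 0) (P.cons (P.lf 0 174500 0) P.nil)))) (P.cons (P.cons (P.lf 0 6587979 0) (P.cons (P.lf 675788 0 0) (P.cons (P.lf 266997 0 0) P.nil))) (P.cons (P.cons (P.lf 0 399584 0) (P.cons (P.lf 76461 0 0) P.nil)) (P.cons (P.cons (P.lf 110435 0 0) P.nil) P.nil)))))) 208554)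
 EL.nil))
noncomputable def S111_140_216_364_12 : EL := (EL.cons 4 (TM.mk (P.cons (P.lf 3098651666 0 0) (P.cons (P.lf 0 175463538 0) (P.cons (P.lf 0 18939693 0) (P.cons (P.lf 0 500812 0) (P.cons (P.lf 30041 0 0) (P.cons (P.lf 3150 0 0) P.nil)))))) 205)
 (EL.cons 8 (TM.mk (P.cons (P.lf 1094426245 0 0) (P.cons (P.lf 176636564 0 0) (P.cons (P.lf 0 189038 0) (P.cons (P.lf 0 544971 0) (P.cons (P.lf 0 29121 0) (P.cons (P.lf 63 0 0) P.nil)))))) 165)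
 EL.nil))
noncomputable def S111_140_216_364_13 : EL := (EL.cons 4 (TM.mk (P.cons (P.cons (P.lf 0 642832100 0) (P.cons (P.lf 0 38767836 0) (P.cons (P.lf 0 16717126 0) (P.lf 1857455 0 0)))) (P.cons (P.cons (P.lf 489822610 0 0) (P.cons (P.lf 0 16575718 0) (P.cons (P.lf 0 7147635 0) (P.lf 794178 0 0)))) (P.cons (P.cons (P.lf 7219500 0 0) (P.cons (P.lf 0 1709599 0) (P.cons (P.lf 0 737197 0) (P.lf 81907 0 0)))) (P.cons (P.cons (P.lf 0 7780040 0) (P.cons (P.lf 192823 0 0) (P.cons (P.lf 83148 0 0) P.nil))) (P.cons (P.cons (P.lf 0 530739 0) (P.cons (P.lf 48942 0 0) P.nil)) (P.cons (P.cons (P.lf 40775 0 0) P.nil) P.nil)))))) 66618)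
 (EL.cons 8 (TM.mk (P.cons (P.cons (P.lf 0 227044662 0) (P.cons (P.lf 0 13692580 0) (P.cons (P.lf 0 5904394 0) (P.lf 656043 0 0)))) (P.cons (P.cons (P.lf 123501783 0 0) (P.cons (P.lf 0 8839737 0) (P.cons (P.lf 0 3811794 0) (P.lf 423531 0 0)))) (P.cons (P.cons (P.lf 36116746 0 0) (P.cons (P.lf 0 2130593 0) (P.cons (P.lf 0 918735 0) (P.lf 102080 0 0)))) (P.cons (P.cons (P.lf 510166 0 0) (P.cons (P.lf 0 198411 0) (P.cons (P.lf 0 85556 0) P.nil))) (P.cons (P.cons (P.lf 0 439691 0) (P.cons (P.lf 6108 0 0) P.nil)) (P.cons (P.cons (P.lf 0 38172 0) P.nil) P.nil)))))) 28932)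
 EL.nil))
noncomputable def S111_140_216_364_14 : EL := (EL.cons 4 (TM.mk (P.cons (P.cons (P.lf 133359006 0 0) (P.cons (P.lf 16085195 0 0) (P.cons (P.lf 7421148 0 0) (P.cons (P.lf 0 352375 0) (P.cons (P.lf 43709 0 0) (P.cons (P.lf 0 20040 0) P.nil)))))) (P.cons (P.cons (P.lf 0 195681159 0) (P.cons (P.lf 0 4468250 0) (P.cons (P.lf 0 1484530 0) (P.cons (P.lf 595472 0 0) (P.cons (P.lf 39852 0 0) P.nil))))) (P.cons (P.cons (P.lf 64168297 0 0) (P.cons (P.lf 0 4866466 0) (P.cons (P.lf 0 1939020 0) (P.cons (P.lf 370680 0 0) P.nil)))) (P.cons (P.cons (P.lf 7969566 0 0) (P.cons (P.lf 0 803340 0) (P.cons (P.lf 0 321133 0) P.nil))) (P.cons (P.cons (P.lf 0 1412070 0) (P.cons (P.lf 53091 0 0) P.nil)) (P.cons (P.cons (P.lf 0 240080 0) P.nil) P.nil)))))) 460793)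
 (EL.cons 8 (TM.mk (P.cons (P.cons (P.lf 47101647 0 0) (P.cons (P.lf 5681200 0 0) (P.cons (P.lf 2621107 0 0) (P.cons (P.lf 0 124457 0) (P.cons (P.lf 15438 0 0) (P.cons (P.lf 0 7078 0) P.nil)))))) (P.cons (P.cons (P.lf 0 58844271 0) (P.cons (P.lf 0 339532 0) (P.cons (P.lf 47132 0 0) (P.cons (P.lf 183183 0 0) (P.cons (P.lf 17441 0 0) P.nil))))) (P.cons (P.cons (P.lf 8456864 0 0) (P.cons (P.lf 0 1959001 0) (P.cons (P.lf 0 751239 0) (P.cons (P.lf 174500 0 0) P.nil)))) (P.cons (P.cons (P.lf 6587979 0 0) (P.cons (P.lf 0 675788 0) (P.cons (P.lf 0 266997 0) P.nil))) (P.cons (P.cons (P.lf 399584 0 0) (P.cons (P.lf 0 76461 0) P.nil)) (P.cons (P.cons (P.lf 0 110435 0) P.nil) P.nil)))))) 208554)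
 EL.nil))
noncomputable def S111_140_216_364_15 : EL := (EL.cons 4 (TM.mk (P.cons (P.lf 0 2384593622 0) (P.cons (P.lf 270058903 0 0) (P.cons (P.lf 21504255 0 0) (P.cons (P.lf 0 879855 0) (P.cons (P.lf 0 178971 0) (P.cons (P.lf 0 6941 0) P.nil)))))) 996)
 (EL.cons 8 (TM.mk (P.cons (P.lf 0 842224982 0) (P.cons (P.lf 0 88240524 0) (P.cons (P.lf 12990618 0 0) (P.cons (P.lf 1378121 0 0) (P.cons (P.lf 11577 0 0) (P.cons (P.lf 0 6078 0) P.nil)))))) 560)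
 EL.nil))
noncomputable def S111_140_216_364_16 : EL := (EL.cons 4 (TM.mk (P.cons (P.cons (P.lf 494696885 0 0) (P.cons (P.lf 29834116 0 0) (P.cons (P.lf 12864806 0 0) (P.lf 0 1429420 0)))) (P.cons (P.cons (P.lf 0 404959728 0) (P.cons (P.lf 11066603 0 0) (P.cons (P.lf 4772043 0 0) (P.lf 0 530224 0)))) (P.cons (P.cons (P.lf 12765389 0 0) (P.cons (P.lf 410966 0 0) (P.cons (P.lf 177212 0 0) (P.lf 0 19687 0)))) (P.cons (P.cons (P.lf 8525835 0 0) (P.cons (P.lf 0 305676 0) (P.cons (P.lf 0 131812 0) P.nil))) (P.cons (P.cons (P.lf 169083 0 0) (P.cons (P.lf 0 39075 0) P.nil)) (P.cons (P.cons (P.lf 0 93356 0) P.nil) P.nil)))))) 77170)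
 (EL.cons 8 (TM.mk (P.cons (P.cons (P.lf 174724142 0 0) (P.cons (P.lf 10537241 0 0) (P.cons (P.lf 4543776 0 0) (P.lf 0 504863 0)))) (P.cons (P.cons (P.lf 0 104935732 0) (P.cons (P.lf 6206015 0 0) (P.cons (P.lf 2676103 0 0) (P.lf 0 297343 0)))) (P.cons (P.cons (P.lf 0 23480085 0) (P.cons (P.lf 1190001 0 0) (P.cons (P.lf 513141 0 0) (P.lf 0 57014 0)))) (P.cons (P.cons (P.lf 1733929 0 0) (P.cons (P.lf 16561 0 0) (P.cons (P.lf 7141 0 0) P.nil))) (P.cons (P.cons (P.lf 547537 0 0) (P.cons (P.lf 0 24365 0) P.nil)) (P.cons (P.cons (P.lf 16364 0 0) P.nil) P.nil)))))) 35696)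
 EL.nil))
noncomputable def S111_140_216_364_17 : EL := (EL.cons 4 (TM.mk (P.cons (P.cons (P.lf 0 102627552 0) (P.cons (P.lf 0 12378497 0) (P.cons (P.lf 0 5711007 0) (P.cons (P.lf 271173 0 0) (P.cons (P.lf 0 33636 0) (P.cons (P.lf 15422 0 0) P.nil)))))) (P.cons (P.cons (P.lf 156399457 0 0) (P.cons (P.lf 4139521 0 0) (P.cons (P.lf 1465822 0 0) (P.cons (P.lf 0 473606 0) (P.cons (P.lf 0 28764 0) P.nil))))) (P.cons (P.cons (P.lf 0 57281139 0) (P.cons (P.lf 3625978 0 0) (P.cons (P.lf 1462406 0 0) (P.cons (P.lf 0 260968 0) P.nil)))) (P.cons (P.cons (P.lf 0 4240638 0) (P.cons (P.lf 387135 0 0) (P.cons (P.lf 156574 0 0) P.nil))) (P.cons (P.cons (P.lf 1710455 0 0) (P.cons (P.lf 0 99430 0) P.nil)) (P.cons (P.cons (P.lf 170045 0 0) P.nil) P.nil)))))) 440255)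
 (EL.cons 8 (TM.mk (P.cons (P.cons (P.lf 0 36247471 0) (P.cons (P.lf 0 4372015 0) (P.cons (P.lf 0 2017095 0) (P.cons (P.lf 95776 0 0) (P.cons (P.lf 0 11880 0) (P.cons (P.lf 5447 0 0) P.nil)))))) (P.cons (P.cons (P.lf 47336647 0 0) (P.cons (P.lf 508859 0 0) (P.cons (P.lf 77948 0 0) (P.cons (P.lf 0 146393 0) (P.cons (P.lf 0 12749 0) P.nil))))) (P.cons (P.cons (P.lf 0 8850746 0) (P.cons (P.lf 1519492 0 0) (P.cons (P.lf 592505 0 0) (P.cons (P.lf 0 126891 0) P.nil)))) (P.cons (P.cons (P.lf 0 4972240 0) (P.cons (P.lf 433801 0 0) (P.cons (P.lf 173281 0 0) P.nil))) (P.cons (P.cons (P.lf 11688 0 0) (P.cons (P.lf 20093 0 0) P.nil)) (P.cons (P.cons (P.lf 134841 0 0) P.nil) P.nil)))))) 195170)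
 EL.nil))
noncomputable def S111_140_216_364_18 : EL := (EL.cons 4 (TM.mk (P.cons (P.lf 1835084209 0 0) (P.cons (P.lf 0 311739172 0) (P.cons (P.lf 0 15996937 0) (P.cons (P.lf 2587877 0 0) (P.cons (P.lf 251917 0 0) (P.cons (P.lf 0 4069 0) P.nil)))))) 2661)
 (EL.cons 8 (TM.mk (P.cons (P.lf 648141365 0 0) (P.cons (P.lf 31204738 0 0) (P.cons (P.lf 0 17803876 0) (P.cons (P.lf 0 1014268 0) (P.cons (P.lf 107557 0 0) (P.cons (P.lf 14597 0 0) P.nil)))))) 1054)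
 EL.nil))
noncomputable def S111_140_216_364_19 : EL := (EL.cons 4 (TM.mk (P.cons (P.cons (P.lf 0 380698175 0) (P.cons (P.lf 0 22959097 0) (P.cons (P.lf 0 9900220 0) (P.lf 1100023 0 0)))) (P.cons (P.cons (P.lf 333197515 0 0) (P.cons (P.lf 0 7216321 0) (P.cons (P.lf 0 3111759 0) (P.lf 345749 0 0)))) (P.cons (P.cons (P.lf 0 25143660 0) (P.cons (P.lf 306315 0 0) (P.cons (P.lf 132087 0 0) (P.lf 0 14677 0)))) (P.cons (P.cons (P.lf 0 7848142 0) (P.cons (P.lf 308910 0 0) (P.cons (P.lf 133205 0 0) P.nil))) (P.cons (P.cons (P.lf 247395 0 0) (P.cons (P.lf 19837 0 0) P.nil)) (P.cons (P.cons (P.lf 123536 0 0) P.nil) P.nil)))))) 82661)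
 (EL.cons 8 (TM.mk (P.cons (P.cons (P.lf 0 134460442 0) (P.cons (P.lf 0 8109023 0) (P.cons (P.lf 0 3496701 0) (P.lf 388521 0 0)))) (P.cons (P.cons (P.lf 88368107 0 0) (P.cons (P.lf 0 4316711 0) (P.cons (P.lf 0 1861414 0) (P.lf 206823 0 0)))) (P.cons (P.cons (P.lf 14318385 0 0) (P.cons (P.lf 0 595773 0) (P.cons (P.lf 0 256903 0) (P.lf 28544 0 0)))) (P.cons (P.cons (P.lf 0 2829405 0) (P.cons (P.lf 69613 0 0) (P.cons (P.lf 30018 0 0) P.nil))) (P.cons (P.cons (P.lf 0 470602 0) (P.cons (P.lf 25763 0 0) P.nil)) (P.cons (P.cons (P.lf 17148 0 0) P.nil) P.nil)))))) 39593)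
 EL.nil))
noncomputable def S111_140_216_364_20 : EL := (EL.cons 4 (TM.mk (P.cons (P.cons (P.lf 78977901 0 0) (P.cons (P.lf 9525977 0 0) (P.cons (P.lf 4394954 0 0) (P.cons (P.lf 0 208683 0) (P.cons (P.lf 25885 0 0) (P.cons (P.lf 0 11868 0) P.nil)))))) (P.cons (P.cons (P.lf 0 124830710 0) (P.cons (P.lf 0 3725019 0) (P.cons (P.lf 0 1376904 0) (P.cons (P.lf 376284 0 0) (P.cons (P.lf 20670 0 0) P.nil))))) (P.cons (P.cons (P.lf 50413848 0 0) (P.cons (P.lf 0 2668240 0) (P.cons (P.lf 0 1088393 0) (P.cons (P.lf 181467 0 0) P.nil)))) (P.cons (P.cons (P.lf 1490183 0 0) (P.cons (P.lf 0 121982 0) (P.cons (P.lf 0 50581 0) P.nil))) (P.cons (P.cons (P.lf 0 1750305 0) (P.cons (P.lf 111050 0 0) P.nil)) (P.cons (P.cons (P.lf 0 84481 0) P.nil) P.nil)))))) 404312)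
 (EL.cons 8 (TM.mk (P.cons (P.cons (P.lf 27894548 0 0) (P.cons (P.lf 3364521 0 0) (P.cons (P.lf 1552272 0 0) (P.cons (P.lf 0 73706 0) (P.cons (P.lf 9142 0 0) (P.cons (P.lf 0 4191 0) P.nil)))))) (P.cons (P.cons (P.lf 0 38007868 0) (P.cons (P.lf 0 582115 0) (P.cons (P.lf 0 147884 0) (P.cons (P.lf 116832 0 0) (P.cons (P.lf 9293 0 0) P.nil))))) (P.cons (P.cons (P.lf 8703450 0 0) (P.cons (P.lf 0 1167728 0) (P.cons (P.lf 0 462058 0) (P.cons (P.lf 91721 0 0) P.nil)))) (P.cons (P.cons (P.lf 3658892 0 0) (P.cons (P.lf 0 265770 0) (P.cons (P.lf 0 107414 0) P.nil))) (P.cons (P.cons (P.lf 0 261142 0) (P.cons (P.lf 10683 0 0) P.nil)) (P.cons (P.cons (P.lf 0 128072 0) P.nil) P.nil)))))) 173933)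
 EL.nil))
noncomputable def S111_140_216_364_21 : EL := (EL.cons 4 (TM.mk (P.cons (P.cons (P.lf 0 2809365465 0) (P.cons (P.lf 116303508 0 0) (P.cons (P.lf 50151378 0 0) (P.lf 0 5572365 0)))) (P.cons (P.cons (P.lf 0 659291124 0) (P.cons (P.lf 49727154 0 0) (P.cons (P.lf 21442905 0 0) (P.lf 0 2382534 0)))) (P.cons (P.cons (P.lf 42854268 0 0) (P.cons (P.lf 5128797 0 0) (P.cons (P.lf 2211591 0 0) (P.lf 0 245721 0)))) (P.cons (P.cons (P.lf 20700561 0 0) (P.cons (P.lf 0 578469 0) (P.cons (P.lf 0 249444 0) P.nil))) (P.cons (P.cons (P.lf 1055301 0 0) (P.cons (P.lf 0 146826 0) P.nil)) (P.cons (P.cons (P.lf 0 143151 0) P.nil) P.nil)))))) 202503)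
 (EL.cons 8 (TM.mk (P.cons (P.cons (P.lf 2828146917 0 0) (P.cons (P.lf 0 117081042 0) (P.cons (P.lf 0 50486667 0) (P.lf 5609631 0 0)))) (P.cons (P.cons (P.lf 47099685 0 0) (P.cons (P.lf 0 24533334 0) (P.cons (P.lf 0 10579050 0) (P.lf 1175454 0 0)))) (P.cons (P.cons (P.lf 0 105122727 0) (P.cons (P.lf 2326566 0 0) (P.cons (P.lf 1003239 0 0) (P.lf 0 111468 0)))) (P.cons (P.cons (P.lf 0 4527000 0) (P.cons (P.lf 761559 0 0) (P.cons (P.lf 328389 0 0) P.nil))) (P.cons (P.cons (P.lf 1112670 0 0) (P.cons (P.lf 15507 0 0) P.nil)) (P.cons (P.cons (P.lf 116298 0 0) P.nil) P.nil)))))) 114633)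
 (EL.cons 11 (TM.mk (P.cons (P.cons (P.lf 330474267 0 0) (P.cons (P.lf 307867353 0 0) (P.cons (P.lf 0 31597203 0) (P.cons (P.lf 0 6571338 0) (P.lf 547611 0 0))))) (P.cons (P.cons (P.lf 106674777 0 0) (P.cons (P.lf 99377424 0 0) (P.cons (P.lf 0 10199355 0) (P.cons (P.lf 0 2121180 0) (P.lf 176763 0 0))))) (P.cons (P.cons (P.lf 8494302 0 0) (P.cons (P.lf 7913229 0 0) (P.cons (P.lf 0 812154 0) (P.cons (P.lf 0 168903 0) P.nil)))) (P.cons (P.cons (P.lf 0 347544 0) (P.cons (P.lf 0 323769 0) (P.cons (P.lf 33228 0 0) P.nil))) (P.cons (P.cons (P.lf 0 70695 0) (P.cons (P.lf 0 65859 0) P.nil)) (P.cons (P.cons (P.lf 0 2742 0) P.nil) P.nil)))))) 33279)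
 EL.nil)))
noncomputable def S111_140_216_364_22 : EL := (EL.cons 4 (TM.mk (P.cons (P.cons (P.lf 582818109 0 0) (P.cons (P.lf 11020725 0 0) (P.cons (P.lf 3297165 0 0) (P.cons (P.lf 0 1782936 0) (P.cons (P.lf 0 131130 0) (P.cons (P.lf 60123 0 0) P.nil)))))) (P.cons (P.cons (P.lf 0 274317345 0) (P.cons (P.lf 31969437 0 0) (P.cons (P.lf 12458892 0 0) (P.cons (P.lf 0 2675892 0) (P.cons (P.lf 0 119559 0) P.nil))))) (P.cons (P.cons (P.lf 0 131625090 0) (P.cons (P.lf 13485906 0 0) (P.cons (P.lf 5336913 0 0) (P.cons (P.lf 0 1058685 0) P.nil)))) (P.cons (P.cons (P.lf 0 1038444 0) (P.cons (P.lf 1416120 0 0) (P.cons (P.lf 534816 0 0) P.nil))) (P.cons (P.cons (P.lf 4376394 0 0) (P.cons (P.lf 0 259110 0) P.nil)) (P.cons (P.cons (P.lf 435363 0 0) P.nil) P.nil)))))) 952851)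
 (EL.cons 8 (TM.mk (P.cons (P.cons (P.lf 0 586714422 0) (P.cons (P.lf 0 11094399 0) (P.cons (P.lf 0 3319203 0) (P.cons (P.lf 1794852 0 0) (P.cons (P.lf 132006 0 0) (P.cons (P.lf 0 60525 0) P.nil)))))) (P.cons (P.cons (P.lf 404068047 0 0) (P.cons (P.lf 0 29764335 0) (P.cons (P.lf 0 11818521 0) (P.cons (P.lf 2302464 0 0) (P.cons (P.lf 91575 0 0) P.nil))))) (P.cons (P.cons (P.lf 55137393 0 0) (P.cons (P.lf 0 6883911 0) (P.cons (P.lf 0 2735196 0) (P.cons (P.lf 530955 0 0) P.nil)))) (P.cons (P.cons (P.lf 0 17172228 0) (P.cons (P.lf 642042 0 0) (P.cons (P.lf 280788 0 0) P.nil))) (P.cons (P.cons (P.lf 0 2358411 0) (P.cons (P.lf 309711 0 0) P.nil)) (P.cons (P.cons (P.lf 201384 0 0) P.nil) P.nil)))))) 620910)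
 (EL.cons 11 (TM.mk (P.cons (P.cons (P.lf 0 68558679 0) (P.cons (P.lf 0 68003379 0) (P.cons (P.lf 920322 0 0) (P.cons (P.lf 295743 0 0) (P.cons (P.lf 323622 0 0) (P.cons (P.lf 9660 0 0) P.nil)))))) (P.cons (P.cons (P.lf 26227614 0 0) (P.cons (P.lf 21096879 0 0) (P.cons (P.lf 0 7054758 0) (P.cons (P.lf 0 1382991 0) (P.cons (P.lf 396294 0 0) P.nil))))) (P.cons (P.cons (P.lf 16936617 0 0) (P.cons (P.lf 14704572 0 0) (P.cons (P.lf 0 3082239 0) (P.cons (P.lf 0 613929 0) P.nil)))) (P.cons (P.cons (P.lf 1941912 0 0) (P.cons (P.lf 1647843 0 0) (P.cons (P.lf 0 405390 0) P.nil))) (P.cons (P.cons (P.lf 0 126534 0) (P.cons (P.lf 0 124152 0) P.nil)) (P.cons (P.cons (P.lf 0 39408 0) P.nil) P.nil)))))) 529824)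
 EL.nil)))
noncomputable def S111_140_216_364_23 : EL := (EL.cons 4 (TM.mk (P.cons (P.cons (P.lf 2161970976 0 0) (P.cons (P.lf 0 89502348 0) (P.cons (P.lf 0 38594415 0) (P.lf 4288260 0 0)))) (P.cons (P.cons (P.lf 384939792 0 0) (P.cons (P.lf 0 33199812 0) (P.cons (P.lf 0 14316129 0) (P.lf 1590672 0 0)))) (P.cons (P.cons (P.lf 0 74923167 0) (P.cons (P.lf 0 1232895 0) (P.cons (P.lf 0 531636 0) (P.lf 59061 0 0)))) (P.cons (P.cons (P.lf 0 17513385 0) (P.cons (P.lf 917028 0 0) (P.cons (P.lf 395433 0 0) P.nil))) (P.cons (P.cons (P.lf 230481 0 0) (P.cons (P.lf 117225 0 0) P.nil)) (P.cons (P.cons (P.lf 265965 0 0) P.nil) P.nil)))))) 242808)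
 (EL.cons 8 (TM.mk (P.cons (P.cons (P.lf 0 2176424403 0) (P.cons (P.lf 90100707 0 0) (P.cons (P.lf 38852442 0 0) (P.lf 0 4316937 0)))) (P.cons (P.cons (P.lf 86995746 0 0) (P.cons (P.lf 13777812 0 0) (P.cons (P.lf 5941146 0 0) (P.lf 0 660129 0)))) (P.cons (P.cons (P.lf 96253362 0 0) (P.cons (P.lf 0 3410229 0) (P.cons (P.lf 0 1470525 0) (P.lf 163389 0 0)))) (P.cons (P.cons (P.lf 0 523821 0) (P.cons (P.lf 0 614640 0) (P.cons (P.lf 0 265035 0) P.nil))) (P.cons (P.cons (P.lf 0 1563246 0) (P.cons (P.lf 30018 0 0) P.nil)) (P.cons (P.cons (P.lf 0 77943 0) P.nil) P.nil)))))) 145926)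
 (EL.cons 11 (TM.mk (P.cons (P.cons (P.lf 0 254319267 0) (P.cons (P.lf 0 236921925 0) (P.cons (P.lf 24315894 0 0) (P.cons (P.lf 5057028 0 0) (P.lf 0 421416 0))))) (P.cons (P.cons (P.lf 0 67691451 0) (P.cons (P.lf 0 63060849 0) (P.cons (P.lf 6472092 0 0) (P.cons (P.lf 1346013 0 0) (P.lf 0 112164 0))))) (P.cons (P.cons (P.lf 0 333852 0) (P.cons (P.lf 0 311013 0) (P.cons (P.lf 31917 0 0) (P.cons (P.lf 6636 0 0) P.nil)))) (P.cons (P.cons (P.lf 1180482 0 0) (P.cons (P.lf 1099728 0 0) (P.cons (P.lf 0 112866 0) P.nil))) (P.cons (P.cons (P.lf 90015 0 0) (P.cons (P.lf 83856 0 0) P.nil)) (P.cons (P.cons (P.lf 0 2601 0) P.nil) P.nil)))))) 72528)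
 EL.nil)))
noncomputable def S111_140_216_364_24 : EL := (EL.cons 4 (TM.mk (P.cons (P.cons (P.lf 0 448512609 0) (P.cons (P.lf 0 8481093 0) (P.cons (P.lf 0 2537361 0) (P.cons (P.lf 1372071 0 0) (P.cons (P.lf 100911 0 0) (P.cons (P.lf 0 46269 0) P.nil)))))) (P.cons (P.cons (P.lf 236500605 0 0) (P.cons (P.lf 0 24122103 0) (P.cons (P.lf 0 9444165 0) (P.cons (P.lf 1981560 0 0) (P.cons (P.lf 86292 0 0) P.nil))))) (P.cons (P.cons (P.lf 92080734 0 0) (P.cons (P.lf 0 8933226 0) (P.cons (P.lf 0 3548637 0) (P.cons (P.lf 689727 0 0) P.nil)))) (P.cons (P.cons (P.lf 0 6154482 0) (P.cons (P.lf 0 350367 0) (P.cons (P.lf 0 119994 0) P.nil))) (P.cons (P.cons (P.lf 0 4070739 0) (P.cons (P.lf 328437 0 0) P.nil)) (P.cons (P.cons (P.lf 0 163992 0) P.nil) P.nil)))))) 748641)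
 (EL.cons 8 (TM.mk (P.cons (P.cons (P.lf 451511049 0 0) (P.cons (P.lf 8537790 0 0) (P.cons (P.lf 2554320 0 0) (P.cons (P.lf 0 1381242 0) (P.cons (P.lf 0 101586 0) (P.cons (P.lf 46578 0 0) P.nil)))))) (P.cons (P.cons (P.lf 0 336521145 0) (P.cons (P.lf 22421937 0 0) (P.cons (P.lf 8950404 0 0) (P.cons (P.lf 0 1693665 0) (P.cons (P.lf 0 64722 0) P.nil))))) (P.cons (P.cons (P.lf 0 27583182 0) (P.cons (P.lf 3948351 0 0) (P.cons (P.lf 1574268 0 0) (P.cons (P.lf 0 299823 0) P.nil)))) (P.cons (P.cons (P.lf 17445396 0 0) (P.cons (P.lf 0 935451 0) (P.cons (P.lf 0 391275 0) P.nil))) (P.cons (P.cons (P.lf 1380609 0 0) (P.cons (P.lf 0 246360 0) P.nil)) (P.cons (P.cons (P.lf 0 334218 0) P.nil) P.nil)))))) 476667)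
 (EL.cons 11 (TM.mk (P.cons (P.cons (P.lf 52759911 0 0) (P.cons (P.lf 52332576 0 0) (P.cons (P.lf 0 708243 0) (P.cons (P.lf 0 227589 0) (P.cons (P.lf 0 249045 0) (P.cons (P.lf 0 7434 0) P.nil)))))) (P.cons (P.cons (P.lf 0 23171253 0) (P.cons (P.lf 0 19198653 0) (P.cons (P.lf 5469153 0 0) (P.cons (P.lf 1077180 0 0) (P.cons (P.lf 0 290871 0) P.nil))))) (P.cons (P.cons (P.lf 0 12213279 0) (P.cons (P.lf 0 10716561 0) (P.cons (P.lf 2068869 0 0) (P.cons (P.lf 413580 0 0) P.nil)))) (P.cons (P.cons (P.lf 0 641532 0) (P.cons (P.lf 0 536556 0) (P.cons (P.lf 144588 0 0) P.nil))) (P.cons (P.cons (P.lf 265437 0 0) (P.cons (P.lf 239649 0 0) P.nil)) (P.cons (P.cons (P.lf 35910 0 0) P.nil) P.nil)))))) 393897)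
 EL.nil)))
noncomputable def S111_140_216_364_25 : EL := (EL.cons 4 (TM.mk (P.cons (P.cons (P.lf 0 1663763067 0) (P.cons (P.lf 68877288 0 0) (P.cons (P.lf 29700660 0 0) (P.lf 0 3300066 0)))) (P.cons (P.cons (P.lf 0 202021809 0) (P.cons (P.lf 21648966 0 0) (P.cons (P.lf 9335274 0 0) (P.lf 0 1037247 0)))) (P.cons (P.cons (P.lf 84601530 0 0) (P.cons (P.lf 0 918948 0) (P.cons (P.lf 0 396264 0) (P.lf 44034 0 0)))) (P.cons (P.cons (P.lf 12292209 0 0) (P.cons (P.lf 0 926727 0) (P.cons (P.lf 0 399615 0) P.nil))) (P.cons (P.cons (P.lf 0 1261215 0) (P.cons (P.lf 0 59508 0) P.nil)) (P.cons (P.cons (P.lf 0 290892 0) P.nil) P.nil)))))) 249513)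
 (EL.cons 8 (TM.mk (P.cons (P.cons (P.lf 1674885822 0 0) (P.cons (P.lf 0 69337761 0) (P.cons (P.lf 0 29899224 0) (P.lf 3322134 0 0)))) (P.cons (P.cons (P.lf 0 161790012 0) (P.cons (P.lf 0 6676527 0) (P.cons (P.lf 0 2878992 0) (P.lf 319890 0 0)))) (P.cons (P.cons (P.lf 0 80518887 0) (P.cons (P.lf 3648573 0 0) (P.cons (P.lf 1573302 0 0) (P.lf 0 174810 0)))) (P.cons (P.cons (P.lf 4736031 0 0) (P.cons (P.lf 400407 0 0) (P.cons (P.lf 172656 0 0) P.nil))) (P.cons (P.cons (P.lf 1659990 0 0) (P.cons (P.lf 0 64884 0) P.nil)) (P.cons (P.cons (P.lf 2421 0 0) P.nil) P.nil)))))) 156024)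
 (EL.cons 11 (TM.mk (P.cons (P.cons (P.lf 195713547 0 0) (P.cons (P.lf 182325273 0 0) (P.cons (P.lf 0 18712500 0) (P.cons (P.lf 0 3891678 0) (P.lf 324306 0 0))))) (P.cons (P.cons (P.lf 41010099 0 0) (P.cons (P.lf 38204700 0 0) (P.cons (P.lf 0 3921042 0) (P.cons (P.lf 0 815466 0) (P.lf 67953 0 0))))) (P.cons (P.cons (P.lf 0 3889107 0) (P.cons (P.lf 0 3623061 0) (P.cons (P.lf 371844 0 0) (P.cons (P.lf 77334 0 0) P.nil)))) (P.cons (P.cons (P.lf 0 1273032 0) (P.cons (P.lf 0 1185945 0) (P.cons (P.lf 121713 0 0) P.nil))) (P.cons (P.cons (P.lf 0 25923 0) (P.cons (P.lf 0 24150 0) P.nil)) (P.cons (P.cons (P.lf 12141 0 0) P.nil) P.nil)))))) 90438)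
 EL.nil)))
noncomputable def S111_140_216_364_26 : EL := (EL.cons 4 (TM.mk (P.cons (P.cons (P.lf 345156675 0 0) (P.cons (P.lf 6526695 0 0) (P.cons (P.lf 1952646 0 0) (P.cons (P.lf 0 1055889 0) (P.cons (P.lf 0 77658 0) (P.cons (P.lf 35607 0 0) P.nil)))))) (P.cons (P.cons (P.lf 0 201545805 0) (P.cons (P.lf 18193788 0 0) (P.cons (P.lf 7157265 0 0) (P.cons (P.lf 0 1465137 0) (P.cons (P.lf 0 62010 0) P.nil))))) (P.cons (P.cons (P.lf 0 62665239 0) (P.cons (P.lf 5783583 0 0) (P.cons (P.lf 2307402 0 0) (P.cons (P.lf 0 437979 0) P.nil)))) (P.cons (P.cons (P.lf 9805470 0 0) (P.cons (P.lf 0 234168 0) (P.cons (P.lf 0 107034 0) P.nil))) (P.cons (P.cons (P.lf 3330363 0 0) (P.cons (P.lf 0 312975 0) P.nil)) (P.cons (P.cons (P.lf 0 70095 0) P.nil) P.nil)))))) 624264)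
 (EL.cons 8 (TM.mk (P.cons (P.cons (P.lf 0 347464152 0) (P.cons (P.lf 0 6570327 0) (P.cons (P.lf 0 1965699 0) (P.cons (P.lf 1062945 0 0) (P.cons (P.lf 78177 0 0) (P.cons (P.lf 0 35844 0) P.nil)))))) (P.cons (P.cons (P.lf 278648121 0 0) (P.cons (P.lf 0 16882941 0) (P.cons (P.lf 0 6776547 0) (P.cons (P.lf 1243185 0 0) (P.cons (P.lf 45378 0 0) P.nil))))) (P.cons (P.cons (P.lf 8686125 0 0) (P.cons (P.lf 0 2021250 0) (P.cons (P.lf 0 809445 0) (P.cons (P.lf 150429 0 0) P.nil)))) (P.cons (P.cons (P.lf 0 16153983 0) (P.cons (P.lf 998469 0 0) (P.cons (P.lf 412128 0 0) P.nil))) (P.cons (P.cons (P.lf 0 477210 0) (P.cons (P.lf 170121 0 0) P.nil)) (P.cons (P.cons (P.lf 398148 0 0) P.nil) P.nil)))))) 384501)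
 (EL.cons 11 (TM.mk (P.cons (P.cons (P.lf 0 40601835 0) (P.cons (P.lf 0 40272978 0) (P.cons (P.lf 545034 0 0) (P.cons (P.lf 175143 0 0) (P.cons (P.lf 191655 0 0) (P.cons (P.lf 5721 0 0) P.nil)))))) (P.cons (P.cons (P.lf 20130744 0 0) (P.cons (P.lf 17054973 0 0) (P.cons (P.lf 0 4239696 0) (P.cons (P.lf 0 838869 0) (P.cons (P.lf 212988 0 0) P.nil))))) (P.cons (P.cons (P.lf 8637270 0 0) (P.cons (P.lf 7656561 0 0) (P.cons (P.lf 0 1357119 0) (P.cons (P.lf 0 272403 0) P.nil)))) (P.cons (P.cons (P.lf 0 140946 0) (P.cons (P.lf 0 137877 0) (P.cons (P.lf 4521 0 0) P.nil))) (P.cons (P.cons (P.lf 0 292947 0) (P.cons (P.lf 0 260991 0) P.nil)) (P.cons (P.cons (P.lf 0 20472 0) P.nil) P.nil)))))) 314481)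
 EL.nil)))
noncomputable def S111_140_216_364_27 : EL := (EL.cons 13 (TM.mk (P.lf 0 4294967296 0) 0)
 EL.nil)
noncomputable def S111_140_216_364_28 : EL := (EL.cons 13 (TM.mk (P.cons (P.cons (P.lf 891014270 0 0) (P.cons (P.lf 53735176 0 0) (P.cons (P.lf 23171212 0 0) (P.lf 0 2574576 0)))) (P.cons (P.cons (P.lf 0 628477088 0) (P.cons (P.lf 26018004 0 0) (P.cons (P.lf 11219256 0 0) (P.lf 0 1246580 0)))) (P.cons (P.cons (P.lf 0 40148688 0) (P.cons (P.lf 4171368 0 0) (P.cons (P.lf 1798740 0 0) (P.lf 0 199856 0)))) (P.cons (P.cons (P.lf 4812887 0 0) (P.cons (P.lf 136652 0 0) (P.cons (P.lf 58924 0 0) P.nil))) (P.cons (P.cons (P.lf 652567 0 0) (P.cons (P.lf 0 30920 0) P.nil)) (P.cons (P.cons (P.lf 8549 0 0) P.nil) P.nil)))))) 41153)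
 EL.nil)
noncomputable def S111_140_216_364_29 : EL := (EL.cons 13 (TM.mk (P.cons (P.cons (P.lf 0 184845744 0) (P.cons (P.lf 0 22295307 0) (P.cons (P.lf 0 10286278 0) (P.cons (P.lf 488420 0 0) (P.cons (P.lf 0 60585 0) (P.cons (P.lf 27779 0 0) P.nil)))))) (P.cons (P.cons (P.lf 260761964 0 0) (P.cons (P.lf 4930847 0 0) (P.cons (P.lf 1475204 0 0) (P.cons (P.lf 0 797714 0) (P.cons (P.lf 0 58670 0) P.nil))))) (P.cons (P.cons (P.lf 0 75306124 0) (P.cons (P.lf 6888233 0 0) (P.cons (P.lf 2708294 0 0) (P.cons (P.lf 0 555977 0) P.nil)))) (P.cons (P.cons (P.lf 0 13746731 0) (P.cons (P.lf 1530078 0 0) (P.cons (P.lf 605829 0 0) P.nil))) (P.cons (P.cons (P.lf 762466 0 0) (P.cons (P.lf 56168 0 0) P.nil)) (P.cons (P.cons (P.lf 277411 0 0) P.nil) P.nil)))))) 467689)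
 EL.nil)
noncomputable def S111_140_216_364_30 : EL := (EL.cons 13 (TM.mk (P.cons (P.lf 3305228444 0 0) (P.cons (P.lf 0 187161108 0) (P.cons (P.lf 0 20202340 0) (P.cons (P.lf 0 534200 0) (P.cons (P.lf 32044 0 0) (P.cons (P.lf 3360 0 0) P.nil)))))) 212)
 EL.nil)
noncomputable def S111_140_216_364_31 : EL := (EL.cons 13 (TM.mk (P.cons (P.cons (P.lf 0 685687574 0) (P.cons (P.lf 0 41352359 0) (P.cons (P.lf 0 17831602 0) (P.lf 1981286 0 0)))) (P.cons (P.cons (P.lf 522477451 0 0) (P.cons (P.lf 0 17680766 0) (P.cons (P.lf 0 7624145 0) (P.lf 847124 0 0)))) (P.cons (P.cons (P.lf 7700801 0 0) (P.cons (P.lf 0 1823573 0) (P.cons (P.lf 0 786344 0) (P.lf 87368 0 0)))) (P.cons (P.cons (P.lf 0 8298710 0) (P.cons (P.lf 205678 0 0) (P.cons (P.lf 88692 0 0) P.nil))) (P.cons (P.cons (P.lf 0 566122 0) (P.cons (P.lf 52205 0 0) P.nil)) (P.cons (P.cons (P.lf 43494 0 0) P.nil) P.nil))))))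 71039)
 EL.nil)
noncomputable def S111_140_216_364_32 : EL := (EL.cons 13 (TM.mk (P.cons (P.cons (P.lf 142249607 0 0) (P.cons (P.lf 17157542 0 0) (P.cons (P.lf 7915892 0 0) (P.cons (P.lf 0 375867 0) (P.cons (P.lf 46623 0 0) (P.cons (P.lf 0 21377 0) P.nil)))))) (P.cons (P.cons (P.lf 0 208726570 0) (P.cons (P.lf 0 4766134 0) (P.cons (P.lf 0 1583499 0) (P.cons (P.lf 635171 0 0) (P.cons (P.lf 42509 0 0) P.nil))))) (P.cons (P.cons (P.lf 68446184 0 0) (P.cons (P.lf 0 5190898 0) (P.cons (P.lf 0 2068289 0) (P.cons (P.lf 395392 0 0) P.nil)))) (P.cons (P.cons (P.lf 8500871 0 0) (P.cons (P.lf 0 856896 0) (P.cons (P.lf 0 342542 0) P.nil))) (P.cons (P.cons (P.lf 0 1506208 0) (P.cons (P.lf 56631 0 0) P.nil)) (P.cons (P.cons (P.lf 0 256086 0) P.nil) P.nil)))))) 491490)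
 EL.nil)
noncomputable def S111_140_216_364_33 : EL := (EL.cons 14 (TM.mk (P.lf 8589934592 0 0) 0)
 EL.nil)
noncomputable def S111_140_216_364_34 : EL := (EL.cons 14 (TM.mk (P.cons (P.cons (P.lf 0 1782028540 0) (P.cons (P.lf 0 107470352 0) (P.cons (P.lf 0 46342424 0) (P.lf 5149152 0 0)))) (P.cons (P.cons (P.lf 1256954176 0 0) (P.cons (P.lf 0 52036008 0) (P.cons (P.lf 0 22438512 0) (P.lf 2493160 0 0)))) (P.cons (P.cons (P.lf 80297376 0 0) (P.cons (P.lf 0 8342736 0) (P.cons (P.lf 0 3597480 0) (P.lf 399712 0 0)))) (P.cons (P.cons (P.lf 0 9625774 0) (P.cons (P.lf 0 273304 0) (P.cons (P.lf 0 117848 0) P.nil))) (P.cons (P.cons (P.lf 0 1305134 0) (P.cons (P.lf 61840 0 0) P.nil)) (P.cons (P.cons (P.lf 0 17098 0) P.nil) P.nil)))))) 82306)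
 EL.nil)
noncomputable def S111_140_216_364_35 : EL := (EL.cons 14 (TM.mk (P.cons (P.cons (P.lf 369691488 0 0) (P.cons (P.lf 44590614 0 0) (P.cons (P.lf 20572556 0 0) (P.cons (P.lf 0 976840 0) (P.cons (P.lf 121170 0 0) (P.cons (P.lf 0 55558 0) P.nil)))))) (P.cons (P.cons (P.lf 0 521523928 0) (P.cons (P.lf 0 9861694 0) (P.cons (P.lf 0 2950408 0) (P.cons (P.lf 1595428 0 0) (P.cons (P.lf 117340 0 0) P.nil))))) (P.cons (P.cons (P.lf 150612248 0 0) (P.cons (P.lf 0 13776466 0) (P.cons (P.lf 0 5416588 0) (P.cons (P.lf 1111954 0 0) P.nil)))) (P.cons (P.cons (P.lf 27493462 0 0) (P.cons (P.lf 0 3060156 0) (P.cons (P.lf 0 1211658 0) P.nil))) (P.cons (P.cons (P.lf 0 1524932 0) (P.cons (P.lf 0 112336 0) P.nil)) (P.cons (P.cons (P.lf 0 554822 0) P.nil) P.nil)))))) 935378)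
 EL.nil)
noncomputable def S111_140_216_364_36 : EL := (EL.cons 14 (TM.mk (P.cons (P.lf 0 6610456888 0) (P.cons (P.lf 374322216 0 0) (P.cons (P.lf 40404680 0 0) (P.cons (P.lf 1068400 0 0) (P.cons (P.lf 0 64088 0) (P.cons (P.lf 0 6720 0) P.nil)))))) 424)
 EL.nil)
noncomputable def S111_140_216_364_37 : EL := (EL.cons 14 (TM.mk (P.cons (P.cons (P.lf 1371375148 0 0) (P.cons (P.lf 82704718 0 0) (P.cons (P.lf 35663204 0 0) (P.lf 0 3962572 0)))) (P.cons (P.cons (P.lf 0 1044954902 0) (P.cons (P.lf 35361532 0 0) (P.cons (P.lf 15248290 0 0) (P.lf 0 1694248 0)))) (P.cons (P.cons (P.lf 0 15401602 0) (P.cons (P.lf 3647146 0 0) (P.cons (P.lf 1572688 0 0) (P.lf 0 174736 0)))) (P.cons (P.cons (P.lf 16597420 0 0) (P.cons (P.lf 0 411356 0) (P.cons (P.lf 0 177384 0) P.nil))) (P.cons (P.cons (P.lf 1132244 0 0) (P.cons (P.lf 0 104410 0) P.nil)) (P.cons (P.cons (P.lf 0 86988 0) P.nil)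 P.nil)))))) 142078)
 EL.nil)
noncomputable def S111_140_216_364_38 : EL := (EL.cons 14 (TM.mk (P.cons (P.cons (P.lf 0 284499214 0) (P.cons (P.lf 0 34315084 0) (P.cons (P.lf 0 15831784 0) (P.cons (P.lf 751734 0 0) (P.cons (P.lf 0 93246 0) (P.cons (P.lf 42754 0 0) P.nil)))))) (P.cons (P.cons (P.lf 417453140 0 0) (P.cons (P.lf 9532268 0 0) (P.cons (P.lf 3166998 0 0) (P.cons (P.lf 0 1270342 0) (P.cons (P.lf 0 85018 0) P.nil))))) (P.cons (P.cons (P.lf 0 136892368 0) (P.cons (P.lf 10381796 0 0) (P.cons (P.lf 4136578 0 0) (P.cons (P.lf 0 790784 0) P.nil)))) (P.cons (P.cons (P.lf 0 17001742 0) (P.cons (P.lf 1713792 0 0) (P.cons (P.lf 685084 0 0) P.nil))) (P.cons (P.cons (P.lf 3012416 0 0) (P.cons (P.lf 0 113262 0) P.nil)) (P.cons (P.cons (P.lf 512172 0 0) P.nil) P.nil)))))) 982980)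
 EL.nil)
noncomputable def S111_140_216_364_39 : EL := (EL.cons 14 (TM.mk (P.cons (P.lf 5087133062 0 0) (P.cons (P.lf 0 576125660 0) (P.cons (P.lf 0 45875746 0) (P.cons (P.lf 1877024 0 0) (P.cons (P.lf 381806 0 0) (P.cons (P.lf 14808 0 0) P.nil)))))) 2110)
 EL.nil)
noncomputable def S111_140_216_364_40 : EL := (EL.cons 14 (TM.mk (P.cons (P.cons (P.lf 0 1055353356 0) (P.cons (P.lf 0 63646116 0) (P.cons (P.lf 0 27444920 0) (P.lf 3049430 0 0)))) (P.cons (P.cons (P.lf 863914088 0 0) (P.cons (P.lf 0 23608754 0) (P.cons (P.lf 0 10180360 0) (P.lf 1131146 0 0)))) (P.cons (P.cons (P.lf 0 27232830 0) (P.cons (P.lf 0 876728 0) (P.cons (P.lf 0 378054 0) (P.lf 42000 0 0)))) (P.cons (P.cons (P.lf 0 18188448 0) (P.cons (P.lf 652110 0 0) (P.cons (P.lf 281200 0 0) P.nil))) (P.cons (P.cons (P.lf 0 360712 0) (P.cons (P.lf 83360 0 0) P.nil)) (P.cons (P.cons (P.lf 199160 0 0) P.nil) P.nil))))))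 164590)
 EL.nil)
noncomputable def S111_140_216_364_41 : EL := (EL.cons 14 (TM.mk (P.cons (P.cons (P.lf 218938778 0 0) (P.cons (P.lf 26407462 0 0) (P.cons (P.lf 12183482 0 0) (P.cons (P.lf 0 578504 0) (P.cons (P.lf 71758 0 0) (P.cons (P.lf 0 32902 0) P.nil)))))) (P.cons (P.cons (P.lf 0 333652176 0) (P.cons (P.lf 0 8830980 0) (P.cons (P.lf 0 3127088 0) (P.cons (P.lf 1010360 0 0) (P.cons (P.lf 61364 0 0) P.nil))))) (P.cons (P.cons (P.lf 122199764 0 0) (P.cons (P.lf 0 7735420 0) (P.cons (P.lf 0 3119800 0) (P.cons (P.lf 556732 0 0) P.nil)))) (P.cons (P.cons (P.lf 9046696 0 0) (P.cons (P.lf 0 825888 0) (P.cons (P.lf 0 334026 0) P.nil))) (P.cons (P.cons (P.lf 0 3648972 0) (P.cons (P.lf 212118 0 0) P.nil)) (P.cons (P.cons (P.lf 0 362764 0) P.nil) P.nil)))))) 939164)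
 EL.nil)
noncomputable def S111_140_216_364_42 : EL := (EL.cons 14 (TM.mk (P.cons (P.lf 0 3914846314 0) (P.cons (P.lf 665043568 0 0) (P.cons (P.lf 34126800 0 0) (P.cons (P.lf 0 5520806 0) (P.cons (P.lf 0 537424 0) (P.cons (P.lf 8682 0 0) P.nil)))))) 5662)
 EL.nil)
noncomputable def S111_140_216_364_43 : EL := (EL.cons 14 (TM.mk (P.cons (P.cons (P.lf 812156108 0 0) (P.cons (P.lf 48979408 0 0) (P.cons (P.lf 21120470 0 0) (P.lf 0 2346716 0)))) (P.cons (P.cons (P.lf 0 710821366 0) (P.cons (P.lf 15394820 0 0) (P.cons (P.lf 6638420 0 0) (P.lf 0 737598 0)))) (P.cons (P.cons (P.lf 53639810 0 0) (P.cons (P.lf 0 653474 0) (P.cons (P.lf 0 281786 0) (P.lf 31312 0 0)))) (P.cons (P.cons (P.lf 16742704 0 0) (P.cons (P.lf 0 659008 0) (P.cons (P.lf 0 284172 0) P.nil))) (P.cons (P.cons (P.lf 0 527776 0) (P.cons (P.lf 0 42320 0) P.nil)) (P.cons (P.cons (P.lf 0 263544 0) P.nil) P.nil))))))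 176304)
 EL.nil)
noncomputable def S111_140_216_364_44 : EL := (EL.cons 14 (TM.mk (P.cons (P.cons (P.lf 0 168486190 0) (P.cons (P.lf 0 20322086 0) (P.cons (P.lf 0 9375902 0) (P.cons (P.lf 445192 0 0) (P.cons (P.lf 0 55222 0) (P.cons (P.lf 25320 0 0) P.nil)))))) (P.cons (P.cons (P.lf 266305516 0 0) (P.cons (P.lf 7946708 0 0) (P.cons (P.lf 2937396 0 0) (P.cons (P.lf 0 802740 0) (P.cons (P.lf 0 44096 0) P.nil))))) (P.cons (P.cons (P.lf 0 107549544 0) (P.cons (P.lf 5692246 0 0) (P.cons (P.lf 2321906 0 0) (P.cons (P.lf 0 387130 0) P.nil)))) (P.cons (P.cons (P.lf 0 3179058 0) (P.cons (P.lf 260230 0 0) (P.cons (P.lf 107908 0 0) P.nil))) (P.cons (P.cons (P.lf 3733984 0 0) (P.cons (P.lf 0 236908 0) P.nil)) (P.cons (P.cons (P.lf 180228 0 0) P.nil) P.nil)))))) 862486)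
 EL.nil)
noncomputable def S111_140_216_364_45 : EL := (EL.cons 14 (TM.mk (P.cons (P.cons (P.lf 0 76694504 0) (P.cons (P.lf 0 13875846 0) (P.cons (P.lf 0 6820244 0) (P.cons (P.lf 0 73692 0) (P.cons (P.lf 0 97174 0) (P.cons (P.lf 27610 0 0) P.nil)))))) (P.cons (P.cons (P.lf 162289452 0 0) (P.cons (P.lf 12856124 0 0) (P.cons (P.lf 5323596 0 0) (P.cons (P.lf 0 830228 0) (P.cons (P.lf 0 51446 0) P.nil))))) (P.cons (P.cons (P.lf 0 104103440 0) (P.cons (P.lf 2747668 0 0) (P.cons (P.lf 1468014 0 0) (P.cons (P.lf 96832 0 0) P.nil)))) (P.cons (P.cons (P.lf 11045832 0 0) (P.cons (P.lf 0 2284798 0) (P.cons (P.lf 0 790380 0) P.nil))) (P.cons (P.cons (P.lf 6275580 0 0) (P.cons (P.lf 0 823482 0) P.nil)) (P.cons (P.cons (P.lf 58692 0 0) P.nil) P.nil)))))) 1781300)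
 EL.nil)
noncomputable def S111_140_216_364_46 : EL := (EL.cons 15 (TM.mk (P.lf 4294967296 0 0) 0)
 EL.nil)
noncomputable def S111_140_216_364_47 : EL := (EL.cons 15 (TM.mk (P.cons (P.cons (P.lf 0 891014270 0) (P.cons (P.lf 0 53735176 0) (P.cons (P.lf 0 23171212 0) (P.lf 2574576 0 0)))) (P.cons (P.cons (P.lf 628477088 0 0) (P.cons (P.lf 0 26018004 0) (P.cons (P.lf 0 11219256 0) (P.lf 1246580 0 0)))) (P.cons (P.cons (P.lf 40148688 0 0) (P.cons (P.lf 0 4171368 0) (P.cons (P.lf 0 1798740 0) (P.lf 199856 0 0)))) (P.cons (P.cons (P.lf 0 4812887 0) (P.cons (P.lf 0 136652 0) (P.cons (P.lf 0 58924 0) P.nil))) (P.cons (P.cons (P.lf 0 652567 0) (P.cons (P.lf 30920 0 0) P.nil)) (P.cons (P.cons (P.lf 0 8549 0) P.nil) P.nil)))))) 41153)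
 EL.nil)
noncomputable def S111_140_216_364_48 : EL := (EL.cons 15 (TM.mk (P.cons (P.cons (P.lf 184845744 0 0) (P.cons (P.lf 22295307 0 0) (P.cons (P.lf 10286278 0 0) (P.cons (P.lf 0 488420 0) (P.cons (P.lf 60585 0 0) (P.cons (P.lf 0 27779 0) P.nil)))))) (P.cons (P.cons (P.lf 0 260761964 0) (P.cons (P.lf 0 4930847 0) (P.cons (P.lf 0 1475204 0) (P.cons (P.lf 797714 0 0) (P.cons (P.lf 58670 0 0) P.nil))))) (P.cons (P.cons (P.lf 75306124 0 0) (P.cons (P.lf 0 6888233 0) (P.cons (P.lf 0 2708294 0) (P.cons (P.lf 555977 0 0) P.nil)))) (P.cons (P.cons (P.lf 13746731 0 0) (P.cons (P.lf 0 1530078 0) (P.cons (P.lf 0 605829 0) P.nil))) (P.cons (P.cons (P.lf 0 762466 0) (P.cons (P.lf 0 56168 0) P.nil)) (P.cons (P.cons (P.lf 0 277411 0) P.nil) P.nil)))))) 467689)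
 EL.nil)
noncomputable def S111_140_216_364 : SL := (SL.cons S111_140_216_364_0 (SL.cons S111_140_216_364_1 (SL.cons S111_140_216_364_2 (SL.cons S111_140_216_364_3 (SL.cons S111_140_216_364_4 (SL.cons S111_140_216_364_5 (SL.cons S111_140_216_364_6 (SL.cons S111_140_216_364_7 (SL.cons S111_140_216_364_8 (SL.cons S111_140_216_364_9 (SL.cons S111_140_216_364_10 (SL.cons S111_140_216_364_11 (SL.cons S111_140_216_364_12 (SL.cons S111_140_216_364_13 (SL.cons S111_140_216_364_14 (SL.cons S111_140_216_364_15 (SL.cons S111_140_216_364_16 (SL.cons S111_140_216_364_17 (SL.cons S111_140_216_364_18 (SL.cons S111_140_216_364_19 (SL.cons S111_140_216_364_20 (SL.cons S111_140_216_364_21 (SL.cons S111_140_216_364_22 (SL.cons S111_140_216_364_23 (SL.cons S111_140_216_364_24 (SL.cons S111_140_216_364_25 (SL.cons S111_140_216_364_26 (SL.cons S111_140_216_364_27 (SL.cons S111_140_216_364_28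 (SL.cons S111_140_216_364_29 (SL.cons S111_140_216_364_30 (SL.cons S111_140_216_364_31 (SL.cons S111_140_216_364_32 (SL.cons S111_140_216_364_33 (SL.cons S111_140_216_364_34 (SL.cons S111_140_216_364_35 (SL.cons S111_140_216_364_36 (SL.cons S111_140_216_364_37 (SL.cons S111_140_216_364_38 (SL.cons S111_140_216_364_39 (SL.cons S111_140_216_364_40 (SL.cons S111_140_216_364_41 (SL.cons S111_140_216_364_42 (SL.cons S111_140_216_364_43 (SL.cons S111_140_216_364_44 (SL.cons S111_140_216_364_45 (SL.cons S111_140_216_364_46 (SL.cons S111_140_216_364_47 (SL.cons S111_140_216_364_48 SL.nil)))))))))))))))))))))))))))))))))))))))))))))))))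
noncomputable def S111_140_290_364_0 : EL := (EL.cons 0 (TM.mk (P.cons (P.lf 3984603821 0 0) (P.cons (P.lf 506360443 0 0) (P.cons (P.lf 40320479 0 0) (P.cons (P.lf 0 1649728 0) (P.cons (P.lf 0 335571 0) (P.cons (P.lf 0 13014 0) P.nil)))))) 1861)
 (EL.cons 1 (TM.mk (P.cons (P.lf 0 1579171841 0) (P.cons (P.lf 0 165450982 0) (P.cons (P.lf 24357408 0 0) (P.cons (P.lf 2583976 0 0) (P.cons (P.lf 21706 0 0) (P.cons (P.lf 0 11396 0) P.nil)))))) 1057)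
 (EL.cons 5 (TM.mk (P.cons (P.lf 5884696382 0 0) (P.cons (P.lf 0 180039266 0) (P.cons (P.lf 0 14336174 0) (P.cons (P.lf 586566 0 0) (P.cons (P.lf 119316 0 0) (P.cons (P.lf 4630 0 0) P.nil)))))) 385)
 (EL.cons 9 (TM.mk (P.lf 6442450944 0 0) 2)
 EL.nil))))
noncomputable def S111_140_290_364_1 : EL := (EL.cons 0 (TM.mk (P.cons (P.cons (P.lf 0 4809330447 0) (P.cons (P.lf 82296745 0 0) (P.cons (P.lf 10597428 0 0) (P.lf 0 706487 0)))) (P.cons (P.cons (P.lf 0 224623737 0) (P.cons (P.lf 22168566 0 0) (P.cons (P.lf 2854660 0 0) (P.lf 0 190300 0)))) (P.cons (P.cons (P.lf 240371390 0 0) (P.cons (P.lf 0 3578985 0) (P.cons (P.lf 0 460882 0) (P.lf 30735 0 0)))) (P.cons (P.cons (P.lf 37806550 0 0) (P.cons (P.lf 0 1787076 0) (P.cons (P.lf 0 230118 0) P.nil))) (P.cons (P.cons (P.lf 0 1539604 0) (P.cons (P.lf 0 161974 0) P.nil)) (P.cons (P.cons (P.lf 0 680273 0) P.nil) P.nil)))))) 239036)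
 (EL.cons 1 (TM.mk (P.cons (P.cons (P.lf 1631025194 0 0) (P.cons (P.lf 0 24470431 0) (P.cons (P.lf 0 3151091 0) (P.lf 210078 0 0)))) (P.cons (P.cons (P.lf 0 552116274 0) (P.cons (P.lf 11283604 0 0) (P.cons (P.lf 1452995 0 0) (P.lf 0 96862 0)))) (P.cons (P.cons (P.lf 0 145052301 0) (P.cons (P.lf 6121933 0 0) (P.cons (P.lf 788320 0 0) (P.lf 0 52545 0)))) (P.cons (P.cons (P.lf 11558467 0 0) (P.cons (P.lf 456148 0 0) (P.cons (P.lf 58731 0 0) P.nil))) (P.cons (P.cons (P.lf 3627569 0 0) (P.cons (P.lf 0 99302 0) P.nil)) (P.cons (P.cons (P.lf 94268 0 0) P.nil) P.nil)))))) 110109)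
 (EL.cons 5 (TM.mk (P.cons (P.cons (P.lf 140284325 0 0) (P.cons (P.lf 0 92990202 0) (P.cons (P.lf 0 11974444 0) (P.lf 798294 0 0)))) (P.cons (P.cons (P.lf 1121658678 0 0) (P.cons (P.lf 0 38739142 0) (P.cons (P.lf 0 4988480 0) (P.lf 332564 0 0)))) (P.cons (P.cons (P.lf 0 21480264 0) (P.cons (P.lf 0 3674660 0) (P.cons (P.lf 0 473186 0) (P.lf 31542 0 0)))) (P.cons (P.cons (P.lf 0 21764042 0) (P.cons (P.lf 473334 0 0) (P.cons (P.lf 60948 0 0) P.nil))) (P.cons (P.cons (P.lf 0 530330 0) (P.cons (P.lf 94262 0 0) P.nil)) (P.cons (P.cons (P.lf 230852 0 0) P.nil) P.nil)))))) 75328)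
 (EL.cons 9 (TM.mk (P.cons (P.cons (P.lf 0 1385029263 0) (P.cons (P.lf 0 56231592 0) (P.cons (P.lf 0 7240998 0) (P.lf 482730 0 0)))) (P.cons (P.cons (P.lf 919228638 0 0) (P.cons (P.lf 0 27226746 0) (P.cons (P.lf 0 3506016 0) (P.lf 233730 0 0)))) (P.cons (P.cons (P.lf 56457450 0 0) (P.cons (P.lf 0 4365162 0) (P.cons (P.lf 0 562104 0) (P.lf 37470 0 0)))) (P.cons (P.cons (P.lf 0 7342690 0) (P.cons (P.lf 0 142998 0) (P.cons (P.lf 0 18414 0) P.nil))) (P.cons (P.cons (P.lf 0 950938 0) (P.cons (P.lf 32352 0 0) P.nil)) (P.cons (P.cons (P.lf 0 9721 0) P.nil) P.nil)))))) 20576)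
 (EL.cons 2 (TM.mk (P.cons (P.cons (P.lf 343214502 0 0) (P.cons (P.lf 97979982 0 0) (P.cons (P.lf 0 7328742 0) (P.cons (P.lf 0 493846 0) (P.lf 24690 0 0))))) (P.cons (P.cons (P.lf 91352449 0 0) (P.cons (P.lf 26079058 0 0) (P.cons (P.lf 0 1950668 0) (P.cons (P.lf 0 131445 0) (P.lf 6570 0 0))))) (P.cons (P.cons (P.lf 450548 0 0) (P.cons (P.lf 128618 0 0) (P.cons (P.lf 0 9618 0) (P.cons (P.lf 0 644 0) P.nil)))) (P.cons (P.cons (P.lf 0 1593109 0) (P.cons (P.lf 0 454795 0) (P.cons (P.lf 34014 0 0) P.nil))) (P.cons (P.cons (P.lf 0 121480 0) (P.cons (P.lf 0 34678 0) P.nil)) (P.cons (P.cons (P.lf 3510 0 0) P.nil) P.nil)))))) 12933)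
 (EL.cons 6 (TM.mk (P.cons (P.cons (P.lf 121221420 0 0) (P.cons (P.lf 34605975 0 0) (P.cons (P.lf 0 2588469 0) (P.cons (P.lf 0 174423 0) (P.lf 8718 0 0))))) (P.cons (P.cons (P.lf 58694136 0 0) (P.cons (P.lf 16755849 0 0) (P.cons (P.lf 0 1253310 0) (P.cons (P.lf 0 84453 0) (P.lf 4221 0 0))))) (P.cons (P.cons (P.lf 9410211 0 0) (P.cons (P.lf 2686401 0 0) (P.cons (P.lf 0 200937 0) (P.cons (P.lf 0 13539 0) P.nil)))) (P.cons (P.cons (P.lf 308274 0 0) (P.cons (P.lf 88005 0 0) (P.cons (P.lf 0 6582 0) P.nil))) (P.cons (P.cons (P.lf 0 69753 0) (P.cons (P.lf 0 19911 0) P.nil)) (P.cons (P.cons (P.lf 0 7752 0) P.nil) P.nil)))))) 6420)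
 EL.nil))))))
noncomputable def S111_140_290_364_2 : EL := (EL.cons 0 (TM.mk (P.cons (P.cons (P.lf 1883703903 0 0) (P.cons (P.lf 33615549 0 0) (P.cons (P.lf 2588526 0 0) (P.cons (P.lf 0 736737 0) (P.cons (P.lf 1013 0 0) (P.cons (P.lf 3840 0 0) P.nil)))))) (P.cons (P.cons (P.lf 0 1054788801 0) (P.cons (P.lf 59307812 0 0) (P.cons (P.lf 6221994 0 0) (P.cons (P.lf 0 873585 0) (P.cons (P.lf 828 0 0) P.nil))))) (P.cons (P.cons (P.lf 0 288649244 0) (P.cons (P.lf 17971093 0 0) (P.cons (P.lf 1919003 0 0) (P.cons (P.lf 0 256030 0) P.nil)))) (P.cons (P.cons (P.lf 41595907 0 0) (P.cons (P.lf 0 703520 0) (P.cons (P.lf 0 105096 0) P.nil))) (P.cons (P.cons (P.lf 16063395 0 0) (P.cons (P.lf 0 1038405 0) P.nil)) (P.cons (P.cons (P.lf 273978 0 0) P.nil) P.nil)))))) 1259695)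
 (EL.cons 1 (TM.mk (P.cons (P.cons (P.lf 0 628304449 0) (P.cons (P.lf 0 12024103 0) (P.cons (P.lf 0 1000878 0) (P.cons (P.lf 244216 0 0) (P.cons (P.lf 0 322 0) (P.cons (P.lf 0 1216 0) P.nil)))))) (P.cons (P.cons (P.lf 613598263 0 0) (P.cons (P.lf 0 16425357 0) (P.cons (P.lf 0 1976150 0) (P.cons (P.lf 176793 0 0) (P.cons (P.lf 0 85 0) P.nil))))) (P.cons (P.cons (P.lf 0 51677564 0) (P.cons (P.lf 3258484 0 0) (P.cons (P.lf 307746 0 0) (P.cons (P.lf 0 56774 0) P.nil)))) (P.cons (P.cons (P.lf 0 50914645 0) (P.cons (P.lf 2958682 0 0) (P.cons (P.lf 319650 0 0) P.nil))) (P.cons (P.cons (P.lf 0 70465 0) (P.cons (P.lf 313508 0 0) P.nil)) (P.cons (P.cons (P.lf 1444438 0 0) P.nil) P.nil)))))) 565472)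
 (EL.cons 5 (TM.mk (P.cons (P.cons (P.lf 0 332299721 0) (P.cons (P.lf 15449415 0 0) (P.cons (P.lf 3164429 0 0) (P.cons (P.lf 169960 0 0) (P.cons (P.lf 0 684 0) (P.cons (P.lf 0 2588 0) P.nil)))))) (P.cons (P.cons (P.lf 0 72903152 0) (P.cons (P.lf 0 26005785 0) (P.cons (P.lf 0 2306970 0) (P.cons (P.lf 491561 0 0) (P.cons (P.lf 0 609 0) P.nil))))) (P.cons (P.cons (P.lf 223765311 0 0) (P.cons (P.lf 0 14185081 0) (P.cons (P.lf 0 1469351 0) (P.cons (P.lf 213774 0 0) P.nil)))) (P.cons (P.cons (P.lf 7047630 0 0) (P.cons (P.lf 0 1487485 0) (P.cons (P.lf 0 141740 0) P.nil))) (P.cons (P.cons (P.lf 0 7062035 0) (P.cons (P.lf 309630 0 0) P.nil)) (P.cons (P.cons (P.lf 0 546082 0) P.nil) P.nil)))))) 496743)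
 (EL.cons 9 (TM.mk (P.cons (P.cons (P.lf 297760288 0 0) (P.cons (P.lf 24177879 0 0) (P.cons (P.lf 3604215 0 0) (P.cons (P.lf 0 81156 0) (P.cons (P.lf 0 288 0) (P.cons (P.lf 0 1084 0) P.nil)))))) (P.cons (P.cons (P.lf 0 395240436 0) (P.cons (P.lf 0 4339915 0) (P.cons (P.lf 0 83568 0) (P.cons (P.lf 159663 0 0) (P.cons (P.lf 0 279 0) P.nil))))) (P.cons (P.cons (P.lf 106883365 0 0) (P.cons (P.lf 0 6878257 0) (P.cons (P.lf 0 694455 0) (P.cons (P.lf 108306 0 0) P.nil)))) (P.cons (P.cons (P.lf 19268178 0 0) (P.cons (P.lf 0 1533201 0) (P.cons (P.lf 0 158038 0) P.nil))) (P.cons (P.cons (P.lf 0 1191723 0) (P.cons (P.lf 0 52560 0) P.nil)) (P.cons (P.cons (P.lf 0 395878 0) P.nil) P.nil)))))) 150125)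
 (EL.cons 2 (TM.mk (P.cons (P.cons (P.lf 0 147571824 0) (P.cons (P.lf 0 48119771 0) (P.cons (P.lf 669228 0 0) (P.cons (P.lf 171455 0 0) (P.cons (P.lf 29160 0 0) (P.cons (P.lf 0 416 0) P.nil)))))) (P.cons (P.cons (P.lf 58663006 0 0) (P.cons (P.lf 12251306 0 0) (P.cons (P.lf 0 3114961 0) (P.cons (P.lf 0 115081 0) (P.cons (P.lf 34065 0 0) P.nil))))) (P.cons (P.cons (P.lf 31890588 0 0) (P.cons (P.lf 7858940 0 0) (P.cons (P.lf 0 1196746 0) (P.cons (P.lf 0 54382 0) P.nil)))) (P.cons (P.cons (P.lf 1632318 0 0) (P.cons (P.lf 350960 0 0) (P.cons (P.lf 0 82501 0) P.nil))) (P.cons (P.cons (P.lf 0 704041 0) (P.cons (P.lf 0 186620 0) P.nil)) (P.cons (P.cons (P.lf 0 93127 0) P.nil) P.nil)))))) 129003)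
 (EL.cons 6 (TM.mk (P.cons (P.cons (P.lf 0 52121532 0) (P.cons (P.lf 0 16995630 0) (P.cons (P.lf 236364 0 0) (P.cons (P.lf 60558 0 0) (P.cons (P.lf 10296 0 0) (P.cons (P.lf 0 144 0) P.nil)))))) (P.cons (P.cons (P.lf 9355788 0 0) (P.cons (P.lf 621666 0 0) (P.cons (P.lf 0 1048650 0) (P.cons (P.lf 0 27444 0) (P.cons (P.lf 14274 0 0) P.nil))))) (P.cons (P.cons (P.lf 14827818 0 0) (P.cons (P.lf 3408366 0 0) (P.cons (P.lf 0 658224 0) (P.cons (P.lf 0 26958 0) P.nil)))) (P.cons (P.cons (P.lf 3305196 0 0) (P.cons (P.lf 773718 0 0) (P.cons (P.lf 0 140928 0) P.nil))) (P.cons (P.cons (P.lf 113316 0 0) (P.cons (P.lf 16818 0 0) P.nil)) (P.cons (P.cons (P.lf 0 50310 0) P.nil) P.nil)))))) 74592)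
 EL.nil))))))
noncomputable def S111_140_290_364_3 : EL := (EL.cons 0 (TM.mk (P.cons (P.lf 4471113042 0 0) (P.cons (P.lf 0 506360443 0) (P.cons (P.lf 0 40320479 0) (P.cons (P.lf 1649728 0 0) (P.cons (P.lf 335571 0 0) (P.cons (P.lf 13014 0 0) P.nil)))))) 1861)
 (EL.cons 1 (TM.mk (P.cons (P.lf 1579171841 0 0) (P.cons (P.lf 165450982 0 0) (P.cons (P.lf 0 24357408 0) (P.cons (P.lf 0 2583976 0) (P.cons (P.lf 0 21706 0) (P.cons (P.lf 11396 0 0) P.nil)))))) 1057)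
 (EL.cons 5 (TM.mk (P.cons (P.lf 557754562 0 0) (P.cons (P.lf 180039266 0 0) (P.cons (P.lf 14336174 0 0) (P.cons (P.lf 0 586566 0) (P.cons (P.lf 0 119316 0) (P.cons (P.lf 0 4630 0) P.nil)))))) 378)
 EL.nil)))
noncomputable def S111_140_290_364_4 : EL := (EL.cons 0 (TM.mk (P.cons (P.cons (P.lf 0 961221505 0) (P.cons (P.lf 0 39025177 0) (P.cons (P.lf 0 5025309 0) (P.lf 335017 0 0)))) (P.cons (P.cons (P.lf 746811922 0 0) (P.cons (P.lf 0 14475919 0) (P.cons (P.lf 0 1864077 0) (P.lf 124268 0 0)))) (P.cons (P.cons (P.lf 0 24398840 0) (P.cons (P.lf 0 537574 0) (P.cons (P.lf 0 69220 0) (P.lf 4612 0 0)))) (P.cons (P.cons (P.lf 0 15641015 0) (P.cons (P.lf 399849 0 0) (P.cons (P.lf 51488 0 0) P.nil))) (P.cons (P.cons (P.lf 0 272937 0) (P.cons (P.lf 51110 0 0) P.nil)) (P.cons (P.cons (P.lf 173487 0 0) P.nil) P.nil)))))) 49295)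
 (EL.cons 1 (TM.mk (P.cons (P.cons (P.lf 0 339497998 0) (P.cons (P.lf 0 13783471 0) (P.cons (P.lf 0 1774910 0) (P.lf 118325 0 0)))) (P.cons (P.cons (P.lf 189751621 0 0) (P.cons (P.lf 0 8117915 0) (P.cons (P.lf 0 1045351 0) (P.lf 69688 0 0)))) (P.cons (P.cons (P.lf 42682361 0 0) (P.cons (P.lf 0 1556608 0) (P.cons (P.lf 0 200445 0) (P.lf 13361 0 0)))) (P.cons (P.cons (P.lf 0 3269806 0) (P.cons (P.lf 0 21661 0) (P.cons (P.lf 0 2788 0) P.nil))) (P.cons (P.cons (P.lf 0 999138 0) (P.cons (P.lf 31869 0 0) P.nil)) (P.cons (P.cons (P.lf 0 27234 0) P.nil) P.nil)))))) 24911)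
 (EL.cons 5 (TM.mk (P.cons (P.cons (P.lf 0 119908772 0) (P.cons (P.lf 0 4868244 0) (P.cons (P.lf 0 626888 0) (P.lf 41790 0 0)))) (P.cons (P.cons (P.lf 40876416 0 0) (P.cons (P.lf 0 3928586 0) (P.cons (P.lf 0 505888 0) (P.lf 33724 0 0)))) (P.cons (P.cons (P.lf 27494292 0 0) (P.cons (P.lf 0 1263916 0) (P.cons (P.lf 0 162754 0) (P.lf 10848 0 0)))) (P.cons (P.cons (P.lf 3113686 0 0) (P.cons (P.lf 0 189834 0) (P.cons (P.lf 0 24444 0) P.nil))) (P.cons (P.cons (P.lf 0 219932 0) (P.cons (P.lf 0 7388 0) P.nil)) (P.cons (P.cons (P.lf 0 64924 0) P.nil) P.nil)))))) 12824)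
 EL.nil)))
noncomputable def S111_140_290_364_5 : EL := (EL.cons 0 (TM.mk (P.cons (P.cons (P.lf 206648047 0 0) (P.cons (P.lf 16779642 0 0) (P.cons (P.lf 2501353 0 0) (P.cons (P.lf 0 56322 0) (P.cons (P.lf 0 198 0) (P.cons (P.lf 0 752 0) P.nil)))))) (P.cons (P.cons (P.lf 0 297703267 0) (P.cons (P.lf 0 4912256 0) (P.cons (P.lf 0 341277 0) (P.cons (P.lf 117184 0 0) (P.cons (P.lf 0 170 0) P.nil))))) (P.cons (P.cons (P.lf 103379271 0 0) (P.cons (P.lf 0 4583777 0) (P.cons (P.lf 0 497946 0) (P.cons (P.lf 63123 0 0) P.nil)))) (P.cons (P.cons (P.lf 7521391 0 0) (P.cons (P.lf 0 490086 0) (P.cons (P.lf 0 53650 0) P.nil))) (P.cons (P.cons (P.lf 0 3096131 0) (P.cons (P.lf 127223 0 0) P.nil)) (P.cons (P.cons (P.lf 0 294282 0) P.nil) P.nil)))))) 216988)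
 (EL.cons 1 (TM.mk (P.cons (P.cons (P.lf 72986921 0 0) (P.cons (P.lf 5926473 0 0) (P.cons (P.lf 883462 0 0) (P.cons (P.lf 0 19891 0) (P.cons (P.lf 0 69 0) (P.cons (P.lf 0 264 0) P.nil)))))) (P.cons (P.cons (P.lf 0 89234334 0) (P.cons (P.lf 0 442876 0) (P.cons (P.lf 72076 0 0) (P.cons (P.lf 37051 0 0) (P.cons (P.lf 0 75 0) P.nil))))) (P.cons (P.cons (P.lf 14923141 0 0) (P.cons (P.lf 0 1888861 0) (P.cons (P.lf 0 185996 0) (P.cons (P.lf 30954 0 0) P.nil)))) (P.cons (P.cons (P.lf 8842805 0 0) (P.cons (P.lf 0 545748 0) (P.cons (P.lf 0 57701 0) P.nil))) (P.cons (P.cons (P.lf 0 43860 0) (P.cons (P.lf 0 24592 0) P.nil)) (P.cons (P.cons (P.lf 0 241500 0) P.nil) P.nil)))))) 101588)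
 (EL.cons 5 (TM.mk (P.cons (P.cons (P.lf 25778566 0 0) (P.cons (P.lf 2093196 0 0) (P.cons (P.lf 312034 0 0) (P.cons (P.lf 0 7024 0) (P.cons (P.lf 0 24 0) (P.cons (P.lf 0 92 0) P.nil)))))) (P.cons (P.cons (P.lf 0 25896760 0) (P.cons (P.lf 299942 0 0) (P.cons (P.lf 93486 0 0) (P.cons (P.lf 11554 0 0) (P.cons (P.lf 0 30 0) P.nil))))) (P.cons (P.cons (P.lf 0 1129286 0) (P.cons (P.lf 0 662964 0) (P.cons (P.lf 0 54436 0) (P.cons (P.lf 13656 0 0) P.nil)))) (P.cons (P.cons (P.lf 3748452 0 0) (P.cons (P.lf 0 336812 0) (P.cons (P.lf 0 33602 0) P.nil))) (P.cons (P.cons (P.lf 703604 0 0) (P.cons (P.lf 0 62754 0) P.nil)) (P.cons (P.cons (P.lf 0 27324 0) P.nil) P.nil)))))) 52522)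
 EL.nil)))
noncomputable def S111_140_290_364_6 : EL := (EL.cons 12 (TM.mk (P.lf 8589934592 0 0) 0)
 (EL.cons 3 (TM.mk (P.cons (P.lf 0 3098651666 0) (P.cons (P.lf 175463538 0 0) (P.cons (P.lf 18939693 0 0) (P.cons (P.lf 500812 0 0) (P.cons (P.lf 0 30041 0) (P.cons (P.lf 0 3150 0) P.nil)))))) 205)
 (EL.cons 7 (TM.mk (P.cons (P.lf 0 1094426245 0) (P.cons (P.lf 0 176636564 0) (P.cons (P.lf 189038 0 0) (P.cons (P.lf 544971 0 0) (P.cons (P.lf 29121 0 0) (P.cons (P.lf 0 63 0) P.nil)))))) 165)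
 EL.nil)))
noncomputable def S111_140_290_364_7 : EL := (EL.cons 12 (TM.mk (P.cons (P.cons (P.lf 0 1846705684 0) (P.cons (P.lf 0 74975456 0) (P.cons (P.lf 0 9654664 0) (P.lf 643640 0 0)))) (P.cons (P.cons (P.lf 1225638184 0 0) (P.cons (P.lf 0 36302328 0) (P.cons (P.lf 0 4674688 0) (P.lf 311640 0 0)))) (P.cons (P.cons (P.lf 75276600 0 0) (P.cons (P.lf 0 5820216 0) (P.cons (P.lf 0 749472 0) (P.lf 49960 0 0)))) (P.cons (P.cons (P.lf 0 9790254 0) (P.cons (P.lf 0 190664 0) (P.cons (P.lf 0 24552 0) P.nil))) (P.cons (P.cons (P.lf 0 1267918 0) (P.cons (P.lf 43136 0 0) P.nil)) (P.cons (P.cons (P.lf 0 12962 0) P.nil) P.nil)))))) 27410)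
 (EL.cons 3 (TM.mk (P.cons (P.cons (P.lf 3405535526 0 0) (P.cons (P.lf 0 54091870 0) (P.cons (P.lf 0 6965462 0) (P.lf 464360 0 0)))) (P.cons (P.cons (P.lf 149517518 0 0) (P.cons (P.lf 0 23127720 0) (P.cons (P.lf 0 2978178 0) (P.lf 198540 0 0)))) (P.cons (P.cons (P.lf 0 52131492 0) (P.cons (P.lf 0 2385364 0) (P.cons (P.lf 0 307162 0) (P.lf 20472 0 0)))) (P.cons (P.cons (P.lf 0 12688435 0) (P.cons (P.lf 269042 0 0) (P.cons (P.lf 34644 0 0) P.nil))) (P.cons (P.cons (P.lf 0 465651 0) (P.cons (P.lf 68282 0 0) P.nil)) (P.cons (P.cons (P.lf 104886 0 0) P.nil) P.nil)))))) 88847)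
 (EL.cons 7 (TM.mk (P.cons (P.cons (P.lf 0 2522400891 0) (P.cons (P.lf 91232712 0 0) (P.cons (P.lf 11748138 0 0) (P.lf 0 783212 0)))) (P.cons (P.cons (P.lf 0 150517094 0) (P.cons (P.lf 23282340 0 0) (P.cons (P.lf 2998094 0 0) (P.lf 0 199874 0)))) (P.cons (P.cons (P.lf 68888041 0 0) (P.cons (P.lf 0 136718 0) (P.cons (P.lf 0 17605 0) (P.lf 1173 0 0)))) (P.cons (P.cons (P.lf 3677919 0 0) (P.cons (P.lf 0 392873 0) (P.cons (P.lf 0 50588 0) P.nil))) (P.cons (P.cons (P.lf 0 685990 0) (P.cons (P.lf 0 15081 0) P.nil)) (P.cons (P.cons (P.lf 0 75478 0) P.nil) P.nil)))))) 42405)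
 (EL.cons 10 (TM.mk (P.cons (P.cons (P.lf 0 475721451 0) (P.cons (P.lf 0 135807723 0) (P.cons (P.lf 10158198 0 0) (P.cons (P.lf 684513 0 0) (P.lf 0 34224 0))))) (P.cons (P.cons (P.lf 0 153559551 0) (P.cons (P.lf 0 43837782 0) (P.cons (P.lf 3278994 0 0) (P.cons (P.lf 220956 0 0) (P.lf 0 11046 0))))) (P.cons (P.cons (P.lf 0 12227646 0) (P.cons (P.lf 0 3490716 0) (P.cons (P.lf 261099 0 0) (P.cons (P.lf 17592 0 0) P.nil)))) (P.cons (P.cons (P.lf 500295 0 0) (P.cons (P.lf 142821 0 0) (P.cons (P.lf 0 10680 0) P.nil))) (P.cons (P.cons (P.lf 101766 0 0) (P.cons (P.lf 29052 0 0) P.nil)) (P.cons (P.cons (P.lf 3948 0 0) P.nil) P.nil)))))) 5700)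
 EL.nil))))
noncomputable def S111_140_290_364_8 : EL := (EL.cons 12 (TM.mk (P.cons (P.cons (P.lf 397013718 0 0) (P.cons (P.lf 32237172 0 0) (P.cons (P.lf 4805620 0 0) (P.cons (P.lf 0 108208 0) (P.cons (P.lf 0 384 0) (P.cons (P.lf 0 1446 0) P.nil)))))) (P.cons (P.cons (P.lf 0 526987248 0) (P.cons (P.lf 0 5786554 0) (P.cons (P.lf 0 111424 0) (P.cons (P.lf 212884 0 0) (P.cons (P.lf 0 372 0) P.nil))))) (P.cons (P.cons (P.lf 142511154 0 0) (P.cons (P.lf 0 9171010 0) (P.cons (P.lf 0 925940 0) (P.cons (P.lf 144408 0 0) P.nil)))) (P.cons (P.cons (P.lf 25690904 0 0) (P.cons (P.lf 0 2044268 0) (P.cons (P.lf 0 210718 0) P.nil))) (P.cons (P.cons (P.lf 0 1588964 0) (P.cons (P.lf 0 70080 0) P.nil)) (P.cons (P.cons (P.lf 0 527838 0) P.nil) P.nil)))))) 200138)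
 (EL.cons 3 (TM.mk (P.cons (P.cons (P.lf 0 1321062020 0) (P.cons (P.lf 0 24562219 0) (P.cons (P.lf 0 1982575 0) (P.cons (P.lf 514839 0 0) (P.cons (P.lf 0 691 0) (P.cons (P.lf 0 2605 0) P.nil)))))) (P.cons (P.cons (P.lf 709326436 0 0) (P.cons (P.lf 0 39632309 0) (P.cons (P.lf 0 4027324 0) (P.cons (P.lf 617386 0 0) (P.cons (P.lf 0 631 0) P.nil))))) (P.cons (P.cons (P.lf 186067336 0 0) (P.cons (P.lf 0 14752083 0) (P.cons (P.lf 0 1511607 0) (P.cons (P.lf 226572 0 0) P.nil)))) (P.cons (P.cons (P.lf 0 7067934 0) (P.cons (P.lf 0 1309317 0) (P.cons (P.lf 0 107088 0) P.nil))) (P.cons (P.cons (P.lf 0 7060566 0) (P.cons (P.lf 325024 0 0) P.nil)) (P.cons (P.cons (P.lf 0 560548 0) P.nil) P.nil)))))) 607852)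
 (EL.cons 7 (TM.mk (P.cons (P.cons (P.lf 1135138603 0 0) (P.cons (P.lf 8912475 0 0) (P.cons (P.lf 0 361576 0) (P.cons (P.lf 0 465194 0) (P.cons (P.lf 882 0 0) (P.cons (P.lf 3334 0 0) P.nil)))))) (P.cons (P.cons (P.lf 0 714068493 0) (P.cons (P.lf 39897259 0 0) (P.cons (P.lf 4054250 0 0) (P.cons (P.lf 0 621514 0) (P.cons (P.lf 631 0 0) P.nil))))) (P.cons (P.cons (P.lf 0 109469828 0) (P.cons (P.lf 10501453 0 0) (P.cons (P.lf 1079751 0 0) (P.cons (P.lf 0 160334 0) P.nil)))) (P.cons (P.cons (P.lf 27378709 0 0) (P.cons (P.lf 0 451471 0) (P.cons (P.lf 0 73841 0) P.nil))) (P.cons (P.cons (P.lf 3994416 0 0) (P.cons (P.lf 0 369645 0) P.nil)) (P.cons (P.cons (P.lf 0 311562 0) P.nil) P.nil)))))) 366241)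
 (EL.cons 10 (TM.mk (P.cons (P.cons (P.lf 204545796 0 0) (P.cons (P.lf 66697668 0 0) (P.cons (P.lf 0 927600 0) (P.cons (P.lf 0 237654 0) (P.cons (P.lf 0 40416 0) (P.cons (P.lf 576 0 0) P.nil)))))) (P.cons (P.cons (P.lf 0 69728838 0) (P.cons (P.lf 0 13204440 0) (P.cons (P.lf 4265046 0 0) (P.cons (P.lf 146058 0 0) (P.cons (P.lf 0 49506 0) P.nil))))) (P.cons (P.cons (P.lf 0 46901004 0) (P.cons (P.lf 0 11233128 0) (P.cons (P.lf 1894626 0 0) (P.cons (P.lf 82194 0 0) P.nil)))) (P.cons (P.cons (P.lf 0 5311464 0) (P.cons (P.lf 0 1192470 0) (P.cons (P.lf 247560 0 0) P.nil))) (P.cons (P.cons (P.lf 375168 0 0) (P.cons (P.lf 119706 0 0) P.nil)) (P.cons (P.cons (P.lf 110748 0 0) P.nil) P.nil)))))) 153186)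
 EL.nil))))
noncomputable def S111_140_290_364_9 : EL := (EL.cons 3 (TM.mk (P.cons (P.lf 0 3098651666 0) (P.cons (P.lf 175463538 0 0) (P.cons (P.lf 18939693 0 0) (P.cons (P.lf 500812 0 0) (P.cons (P.lf 0 30041 0) (P.cons (P.lf 0 3150 0) P.nil)))))) 205)
 (EL.cons 7 (TM.mk (P.cons (P.lf 0 1094426245 0) (P.cons (P.lf 0 176636564 0) (P.cons (P.lf 189038 0 0) (P.cons (P.lf 544971 0 0) (P.cons (P.lf 29121 0 0) (P.cons (P.lf 0 63 0) P.nil)))))) 165)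
 EL.nil))
noncomputable def S111_140_290_364_10 : EL := (EL.cons 3 (TM.mk (P.cons (P.cons (P.lf 666163121 0 0) (P.cons (P.lf 27045935 0 0) (P.cons (P.lf 3482731 0 0) (P.lf 0 232180 0)))) (P.cons (P.cons (P.lf 0 479847112 0) (P.cons (P.lf 11563860 0 0) (P.cons (P.lf 1489089 0 0) (P.lf 0 99270 0)))) (P.cons (P.cons (P.lf 0 6190638 0) (P.cons (P.lf 1192682 0 0) (P.cons (P.lf 153581 0 0) (P.lf 0 10236 0)))) (P.cons (P.cons (P.lf 7663997 0 0) (P.cons (P.lf 0 134521 0) (P.cons (P.lf 0 17322 0) P.nil))) (P.cons (P.cons (P.lf 501285 0 0) (P.cons (P.lf 0 34141 0) P.nil)) (P.cons (P.cons (P.lf 0 42030 0) P.nil) P.nil)))))) 21544)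
 (EL.cons 7 (TM.mk (P.cons (P.cons (P.lf 235285047 0 0) (P.cons (P.lf 9552471 0 0) (P.cons (P.lf 1230081 0 0) (P.lf 0 82004 0)))) (P.cons (P.cons (P.lf 0 118181906 0) (P.cons (P.lf 6166941 0 0) (P.cons (P.lf 794123 0 0) (P.lf 0 52940 0)))) (P.cons (P.cons (P.lf 0 34834526 0) (P.cons (P.lf 1486384 0 0) (P.cons (P.lf 191402 0 0) (P.lf 0 12759 0)))) (P.cons (P.cons (P.lf 0 390759 0) (P.cons (P.lf 138418 0 0) (P.cons (P.lf 17824 0 0) P.nil))) (P.cons (P.cons (P.lf 436016 0 0) (P.cons (P.lf 0 4260 0) P.nil)) (P.cons (P.cons (P.lf 36452 0 0) P.nil) P.nil)))))) 8882)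
 EL.nil))
noncomputable def S111_140_290_364_11 : EL := (EL.cons 3 (TM.mk (P.cons (P.cons (P.lf 0 143214968 0) (P.cons (P.lf 0 11628931 0) (P.cons (P.lf 0 1733533 0) (P.cons (P.lf 39033 0 0) (P.cons (P.lf 137 0 0) (P.cons (P.lf 521 0 0) P.nil)))))) (P.cons (P.cons (P.lf 198210046 0 0) (P.cons (P.lf 2745883 0 0) (P.cons (P.lf 138356 0 0) (P.cons (P.lf 0 79004 0) (P.cons (P.lf 125 0 0) P.nil))))) (P.cons (P.cons (P.lf 0 61297340 0) (P.cons (P.lf 3261141 0 0) (P.cons (P.lf 342333 0 0) (P.cons (P.lf 0 47982 0) P.nil)))) (P.cons (P.cons (P.lf 0 7495260 0) (P.cons (P.lf 539217 0 0) (P.cons (P.lf 57132 0 0) P.nil))) (P.cons (P.cons (P.lf 1380072 0 0) (P.cons (P.lf 0 37148 0) P.nil)) (P.cons (P.cons (P.lf 224600 0 0) P.nil) P.nil)))))) 112272)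
 (EL.cons 7 (TM.mk (P.cons (P.cons (P.lf 0 50582717 0) (P.cons (P.lf 0 4107273 0) (P.cons (P.lf 0 612274 0) (P.cons (P.lf 13786 0 0) (P.cons (P.lf 48 0 0) (P.cons (P.lf 184 0 0) P.nil)))))) (P.cons (P.cons (P.lf 58978509 0 0) (P.cons (P.lf 74353 0 0) (P.cons (P.lf 0 84622 0) (P.cons (P.lf 0 24898 0) (P.cons (P.lf 55 0 0) P.nil))))) (P.cons (P.cons (P.lf 0 7311776 0) (P.cons (P.lf 1288159 0 0) (P.cons (P.lf 120369 0 0) (P.cons (P.lf 0 22778 0) P.nil)))) (P.cons (P.cons (P.lf 0 6190121 0) (P.cons (P.lf 450959 0 0) (P.cons (P.lf 46189 0 0) P.nil))) (P.cons (P.cons (P.lf 0 354792 0) (P.cons (P.lf 50505 0 0) P.nil)) (P.cons (P.cons (P.lf 107742 0 0) P.nil) P.nil)))))) 52689)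
 EL.nil))
noncomputable def S111_140_290_364_12 : EL := (EL.cons 4 (TM.mk (P.cons (P.lf 3098651666 0 0) (P.cons (P.lf 0 175463538 0) (P.cons (P.lf 0 18939693 0) (P.cons (P.lf 0 500812 0) (P.cons (P.lf 30041 0 0) (P.cons (P.lf 3150 0 0) P.nil)))))) 205)
 (EL.cons 8 (TM.mk (P.cons (P.lf 1094426245 0 0) (P.cons (P.lf 176636564 0 0) (P.cons (P.lf 0 189038 0) (P.cons (P.lf 0 544971 0) (P.cons (P.lf 0 29121 0) (P.cons (P.lf 63 0 0) P.nil)))))) 165)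
 EL.nil))
noncomputable def S111_140_290_364_13 : EL := (EL.cons 4 (TM.mk (P.cons (P.cons (P.lf 0 666163121 0) (P.cons (P.lf 0 27045935 0) (P.cons (P.lf 0 3482731 0) (P.lf 232180 0 0)))) (P.cons (P.cons (P.lf 479847112 0 0) (P.cons (P.lf 0 11563860 0) (P.cons (P.lf 0 1489089 0) (P.lf 99270 0 0)))) (P.cons (P.cons (P.lf 6190638 0 0) (P.cons (P.lf 0 1192682 0) (P.cons (P.lf 0 153581 0) (P.lf 10236 0 0)))) (P.cons (P.cons (P.lf 0 7663997 0) (P.cons (P.lf 134521 0 0) (P.cons (P.lf 17322 0 0) P.nil))) (P.cons (P.cons (P.lf 0 501285 0) (P.cons (P.lf 34141 0 0) P.nil)) (P.cons (P.cons (P.lf 42030 0 0) P.nil) P.nil)))))) 21544)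
 (EL.cons 8 (TM.mk (P.cons (P.cons (P.lf 0 235285047 0) (P.cons (P.lf 0 9552471 0) (P.cons (P.lf 0 1230081 0) (P.lf 82004 0 0)))) (P.cons (P.cons (P.lf 118181906 0 0) (P.cons (P.lf 0 6166941 0) (P.cons (P.lf 0 794123 0) (P.lf 52940 0 0)))) (P.cons (P.cons (P.lf 34834526 0 0) (P.cons (P.lf 0 1486384 0) (P.cons (P.lf 0 191402 0) (P.lf 12759 0 0)))) (P.cons (P.cons (P.lf 390759 0 0) (P.cons (P.lf 0 138418 0) (P.cons (P.lf 0 17824 0) P.nil))) (P.cons (P.cons (P.lf 0 436016 0) (P.cons (P.lf 4260 0 0) P.nil)) (P.cons (P.cons (P.lf 0 36452 0) P.nil) P.nil)))))) 8882)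
 EL.nil))
noncomputable def S111_140_290_364_14 : EL := (EL.cons 4 (TM.mk (P.cons (P.cons (P.lf 143214968 0 0) (P.cons (P.lf 11628931 0 0) (P.cons (P.lf 1733533 0 0) (P.cons (P.lf 0 39033 0) (P.cons (P.lf 0 137 0) (P.cons (P.lf 0 521 0) P.nil)))))) (P.cons (P.cons (P.lf 0 198210046 0) (P.cons (P.lf 0 2745883 0) (P.cons (P.lf 0 138356 0) (P.cons (P.lf 79004 0 0) (P.cons (P.lf 0 125 0) P.nil))))) (P.cons (P.cons (P.lf 61297340 0 0) (P.cons (P.lf 0 3261141 0) (P.cons (P.lf 0 342333 0) (P.cons (P.lf 47982 0 0) P.nil)))) (P.cons (P.cons (P.lf 7495260 0 0) (P.cons (P.lf 0 539217 0) (P.cons (P.lf 0 57132 0) P.nil))) (P.cons (P.cons (P.lf 0 1380072 0) (P.cons (P.lf 37148 0 0) P.nil)) (P.cons (P.cons (P.lf 0 224600 0) P.nil) P.nil)))))) 112272)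
 (EL.cons 8 (TM.mk (P.cons (P.cons (P.lf 50582717 0 0) (P.cons (P.lf 4107273 0 0) (P.cons (P.lf 612274 0 0) (P.cons (P.lf 0 13786 0) (P.cons (P.lf 0 48 0) (P.cons (P.lf 0 184 0) P.nil)))))) (P.cons (P.cons (P.lf 0 58978509 0) (P.cons (P.lf 0 74353 0) (P.cons (P.lf 84622 0 0) (P.cons (P.lf 24898 0 0) (P.cons (P.lf 0 55 0) P.nil))))) (P.cons (P.cons (P.lf 7311776 0 0) (P.cons (P.lf 0 1288159 0) (P.cons (P.lf 0 120369 0) (P.cons (P.lf 22778 0 0) P.nil)))) (P.cons (P.cons (P.lf 6190121 0 0) (P.cons (P.lf 0 450959 0) (P.cons (P.lf 0 46189 0) P.nil))) (P.cons (P.cons (P.lf 354792 0 0) (P.cons (P.lf 0 50505 0) P.nil)) (P.cons (P.cons (P.lf 0 107742 0) P.nil) P.nil)))))) 52689)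
 EL.nil))
noncomputable def S111_140_290_364_15 : EL := (EL.cons 4 (TM.mk (P.cons (P.lf 0 2384593622 0) (P.cons (P.lf 270058903 0 0) (P.cons (P.lf 21504255 0 0) (P.cons (P.lf 0 879855 0) (P.cons (P.lf 0 178971 0) (P.cons (P.lf 0 6941 0) P.nil)))))) 996)
 (EL.cons 8 (TM.mk (P.cons (P.lf 0 842224982 0) (P.cons (P.lf 0 88240524 0) (P.cons (P.lf 12990618 0 0) (P.cons (P.lf 1378121 0 0) (P.cons (P.lf 11577 0 0) (P.cons (P.lf 0 6078 0) P.nil)))))) 560)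
 EL.nil))
noncomputable def S111_140_290_364_16 : EL := (EL.cons 4 (TM.mk (P.cons (P.cons (P.lf 512651469 0 0) (P.cons (P.lf 20813428 0 0) (P.cons (P.lf 2680165 0 0) (P.lf 0 178676 0)))) (P.cons (P.cons (P.lf 0 398299692 0) (P.cons (P.lf 7720490 0 0) (P.cons (P.lf 994174 0 0) (P.lf 0 66276 0)))) (P.cons (P.cons (P.lf 13012714 0 0) (P.cons (P.lf 286706 0 0) (P.cons (P.lf 36917 0 0) (P.lf 0 2460 0)))) (P.cons (P.cons (P.lf 8341875 0 0) (P.cons (P.lf 0 213253 0) (P.cons (P.lf 0 27460 0) P.nil))) (P.cons (P.cons (P.lf 145566 0 0) (P.cons (P.lf 0 27258 0) P.nil)) (P.cons (P.cons (P.lf 0 92526 0) P.nil) P.nil)))))) 26299)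
 (EL.cons 8 (TM.mk (P.cons (P.cons (P.lf 181065599 0 0) (P.cons (P.lf 7351185 0 0) (P.cons (P.lf 946619 0 0) (P.lf 0 63107 0)))) (P.cons (P.cons (P.lf 0 101200865 0) (P.cons (P.lf 4329555 0 0) (P.cons (P.lf 557521 0 0) (P.lf 0 37167 0)))) (P.cons (P.cons (P.lf 0 22763926 0) (P.cons (P.lf 830191 0 0) (P.cons (P.lf 106904 0 0) (P.lf 0 7126 0)))) (P.cons (P.cons (P.lf 1743897 0 0) (P.cons (P.lf 11553 0 0) (P.cons (P.lf 1487 0 0) P.nil))) (P.cons (P.cons (P.lf 532874 0 0) (P.cons (P.lf 0 16997 0) P.nil)) (P.cons (P.cons (P.lf 14525 0 0) P.nil) P.nil)))))) 13276)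
 EL.nil))
noncomputable def S111_140_290_364_17 : EL := (EL.cons 4 (TM.mk (P.cons (P.cons (P.lf 0 110212291 0) (P.cons (P.lf 0 8949142 0) (P.cons (P.lf 0 1334055 0) (P.cons (P.lf 30038 0 0) (P.cons (P.lf 105 0 0) (P.cons (P.lf 401 0 0) P.nil)))))) (P.cons (P.cons (P.lf 158775075 0 0) (P.cons (P.lf 2619870 0 0) (P.cons (P.lf 182014 0 0) (P.cons (P.lf 0 62498 0) (P.cons (P.lf 90 0 0) P.nil))))) (P.cons (P.cons (P.lf 0 55135611 0) (P.cons (P.lf 2444681 0 0) (P.cons (P.lf 265571 0 0) (P.cons (P.lf 0 33665 0) P.nil)))) (P.cons (P.cons (P.lf 0 4011408 0) (P.cons (P.lf 261379 0 0) (P.cons (P.lf 28613 0 0) P.nil))) (P.cons (P.cons (P.lf 1651270 0 0) (P.cons (P.lf 0 67852 0) P.nil)) (P.cons (P.cons (P.lf 156950 0 0) P.nil) P.nil)))))) 115737)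
 (EL.cons 8 (TM.mk (P.cons (P.cons (P.lf 0 38926358 0) (P.cons (P.lf 0 3160786 0) (P.cons (P.lf 0 471180 0) (P.cons (P.lf 10609 0 0) (P.cons (P.lf 37 0 0) (P.cons (P.lf 141 0 0) P.nil)))))) (P.cons (P.cons (P.lf 47591645 0 0) (P.cons (P.lf 236201 0 0) (P.cons (P.lf 0 38441 0) (P.cons (P.lf 0 19761 0) (P.cons (P.lf 40 0 0) P.nil))))) (P.cons (P.cons (P.lf 0 7959009 0) (P.cons (P.lf 1007393 0 0) (P.cons (P.lf 99198 0 0) (P.cons (P.lf 0 16509 0) P.nil)))) (P.cons (P.cons (P.lf 0 4716163 0) (P.cons (P.lf 291066 0 0) (P.cons (P.lf 30774 0 0) P.nil))) (P.cons (P.cons (P.lf 23392 0 0) (P.cons (P.lf 13116 0 0) P.nil)) (P.cons (P.cons (P.lf 128800 0 0) P.nil) P.nil)))))) 54169)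
 EL.nil))
noncomputable def S111_140_290_364_18 : EL := (EL.cons 4 (TM.mk (P.cons (P.lf 1835084209 0 0) (P.cons (P.lf 0 311739172 0) (P.cons (P.lf 0 15996937 0) (P.cons (P.lf 2587877 0 0) (P.cons (P.lf 251917 0 0) (P.cons (P.lf 0 4069 0) P.nil)))))) 2661)
 (EL.cons 8 (TM.mk (P.cons (P.lf 648141365 0 0) (P.cons (P.lf 31204738 0 0) (P.cons (P.lf 0 17803876 0) (P.cons (P.lf 0 1014268 0) (P.cons (P.lf 107557 0 0) (P.cons (P.lf 14597 0 0) P.nil)))))) 1054)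
 EL.nil))
noncomputable def S111_140_290_364_19 : EL := (EL.cons 4 (TM.mk (P.cons (P.cons (P.lf 0 394515278 0) (P.cons (P.lf 0 16017150 0) (P.cons (P.lf 0 2062544 0) (P.lf 137501 0 0)))) (P.cons (P.cons (P.lf 328854631 0 0) (P.cons (P.lf 0 5034385 0) (P.cons (P.lf 0 648282 0) (P.lf 43216 0 0)))) (P.cons (P.cons (P.lf 0 24959316 0) (P.cons (P.lf 213697 0 0) (P.cons (P.lf 27518 0 0) (P.lf 0 1834 0)))) (P.cons (P.cons (P.lf 0 7662236 0) (P.cons (P.lf 215507 0 0) (P.cons (P.lf 27750 0 0) P.nil))) (P.cons (P.cons (P.lf 259333 0 0) (P.cons (P.lf 13837 0 0) P.nil)) (P.cons (P.cons (P.lf 120975 0 0) P.nil) P.nil)))))) 29674)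
 (EL.cons 8 (TM.mk (P.cons (P.cons (P.lf 0 139340565 0) (P.cons (P.lf 0 5657166 0) (P.cons (P.lf 0 728478 0) (P.lf 48564 0 0)))) (P.cons (P.cons (P.lf 85770249 0 0) (P.cons (P.lf 0 3011504 0) (P.cons (P.lf 0 387794 0) (P.lf 25852 0 0)))) (P.cons (P.cons (P.lf 13959840 0 0) (P.cons (P.lf 0 415634 0) (P.cons (P.lf 0 53521 0) (P.lf 3567 0 0)))) (P.cons (P.cons (P.lf 0 2787510 0) (P.cons (P.lf 48565 0 0) (P.cons (P.lf 6253 0 0) P.nil))) (P.cons (P.cons (P.lf 0 455097 0) (P.cons (P.lf 17972 0 0) P.nil)) (P.cons (P.cons (P.lf 18027 0 0) P.nil) P.nil)))))) 16616)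
 EL.nil))
noncomputable def S111_140_290_364_20 : EL := (EL.cons 4 (TM.mk (P.cons (P.cons (P.lf 84814801 0 0) (P.cons (P.lf 6886888 0 0) (P.cons (P.lf 1026633 0 0) (P.cons (P.lf 0 23115 0) (P.cons (P.lf 0 81 0) (P.cons (P.lf 0 308 0) P.nil)))))) (P.cons (P.cons (P.lf 0 126989407 0) (P.cons (P.lf 0 2406118 0) (P.cons (P.lf 0 198205 0) (P.cons (P.lf 49405 0 0) (P.cons (P.lf 0 64 0) P.nil))))) (P.cons (P.cons (P.lf 48830584 0 0) (P.cons (P.lf 0 1809254 0) (P.cons (P.lf 0 202715 0) (P.cons (P.lf 23325 0 0) P.nil)))) (P.cons (P.cons (P.lf 1417503 0 0) (P.cons (P.lf 0 83404 0) (P.cons (P.lf 0 9756 0) P.nil))) (P.cons (P.cons (P.lf 0 1684325 0) (P.cons (P.lf 75498 0 0) P.nil)) (P.cons (P.cons (P.lf 0 75649 0) P.nil) P.nil)))))) 114513)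
 (EL.cons 8 (TM.mk (P.cons (P.cons (P.lf 29956108 0 0) (P.cons (P.lf 2432410 0 0) (P.cons (P.lf 362601 0 0) (P.cons (P.lf 0 8164 0) (P.cons (P.lf 0 28 0) (P.cons (P.lf 0 109 0) P.nil)))))) (P.cons (P.cons (P.lf 0 38320841 0) (P.cons (P.lf 0 319507 0) (P.cons (P.lf 9050 0 0) (P.cons (P.lf 15669 0 0) (P.cons (P.lf 0 29 0) P.nil))))) (P.cons (P.cons (P.lf 8015717 0 0) (P.cons (P.lf 0 779822 0) (P.cons (P.lf 0 80230 0) (P.cons (P.lf 11893 0 0) P.nil)))) (P.cons (P.cons (P.lf 3501551 0 0) (P.cons (P.lf 0 179375 0) (P.cons (P.lf 0 19599 0) P.nil))) (P.cons (P.cons (P.lf 0 254744 0) (P.cons (P.lf 7380 0 0) P.nil)) (P.cons (P.cons (P.lf 0 121598 0) P.nil) P.nil)))))) 51062)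
 EL.nil))
noncomputable def S111_140_290_364_21 : EL := (EL.cons 4 (TM.mk (P.cons (P.cons (P.lf 0 2739372405 0) (P.cons (P.lf 81137805 0 0) (P.cons (P.lf 10448193 0 0) (P.lf 0 696540 0)))) (P.cons (P.cons (P.lf 0 629364630 0) (P.cons (P.lf 34691580 0 0) (P.cons (P.lf 4467267 0 0) (P.lf 0 297810 0)))) (P.cons (P.cons (P.lf 45940854 0 0) (P.cons (P.lf 3578046 0 0) (P.cons (P.lf 460743 0 0) (P.lf 0 30708 0)))) (P.cons (P.cons (P.lf 20352432 0 0) (P.cons (P.lf 0 403563 0) (P.cons (P.lf 0 51966 0) P.nil))) (P.cons (P.cons (P.lf 966936 0 0) (P.cons (P.lf 0 102423 0) P.nil)) (P.cons (P.cons (P.lf 0 146916 0) P.nil) P.nil)))))) 67284)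
 (EL.cons 8 (TM.mk (P.cons (P.cons (P.lf 2757685938 0 0) (P.cons (P.lf 0 81680241 0) (P.cons (P.lf 0 10518057 0) (P.lf 701208 0 0)))) (P.cons (P.cons (P.lf 32335188 0 0) (P.cons (P.lf 0 17115399 0) (P.cons (P.lf 0 2203971 0) (P.lf 146934 0 0)))) (P.cons (P.cons (P.lf 0 103722567 0) (P.cons (P.lf 1623102 0 0) (P.cons (P.lf 209007 0 0) (P.lf 0 13932 0)))) (P.cons (P.cons (P.lf 0 4068678 0) (P.cons (P.lf 531291 0 0) (P.cons (P.lf 68412 0 0) P.nil))) (P.cons (P.cons (P.lf 1122006 0 0) (P.cons (P.lf 10821 0 0) P.nil)) (P.cons (P.cons (P.lf 111930 0 0) P.nil) P.nil)))))) 33504)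
 (EL.cons 11 (TM.mk (P.cons (P.cons (P.lf 475721451 0 0) (P.cons (P.lf 135807723 0 0) (P.cons (P.lf 0 10158198 0) (P.cons (P.lf 0 684513 0) (P.lf 34224 0 0))))) (P.cons (P.cons (P.lf 153559551 0 0) (P.cons (P.lf 43837782 0 0) (P.cons (P.lf 0 3278994 0) (P.cons (P.lf 0 220956 0) (P.lf 11046 0 0))))) (P.cons (P.cons (P.lf 12227646 0 0) (P.cons (P.lf 3490716 0 0) (P.cons (P.lf 0 261099 0) (P.cons (P.lf 0 17592 0) P.nil)))) (P.cons (P.cons (P.lf 0 500295 0) (P.cons (P.lf 0 142821 0) (P.cons (P.lf 10680 0 0) P.nil))) (P.cons (P.cons (P.lf 0 101766 0) (P.cons (P.lf 0 29052 0) P.nil)) (P.cons (P.cons (P.lf 0 3948 0) P.nil) P.nil)))))) 5700)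
 EL.nil)))
noncomputable def S111_140_290_364_22 : EL := (EL.cons 4 (TM.mk (P.cons (P.cons (P.lf 588923526 0 0) (P.cons (P.lf 6466644 0 0) (P.cons (P.lf 124521 0 0) (P.cons (P.lf 0 237903 0) (P.cons (P.lf 414 0 0) (P.cons (P.lf 1563 0 0) P.nil)))))) (P.cons (P.cons (P.lf 0 255558195 0) (P.cons (P.lf 21189096 0 0) (P.cons (P.lf 2082840 0 0) (P.cons (P.lf 0 348195 0) (P.cons (P.lf 378 0 0) P.nil))))) (P.cons (P.cons (P.lf 0 123682338 0) (P.cons (P.lf 9006612 0 0) (P.cons (P.lf 926970 0 0) (P.cons (P.lf 0 137277 0) P.nil)))) (P.cons (P.cons (P.lf 0 213663 0) (P.cons (P.lf 924267 0 0) (P.cons (P.lf 82110 0 0) P.nil))) (P.cons (P.cons (P.lf 4220319 0 0) (P.cons (P.lf 0 181086 0) P.nil)) (P.cons (P.cons (P.lf 392574 0 0) P.nil) P.nil)))))) 247779)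
 (EL.cons 8 (TM.mk (P.cons (P.cons (P.lf 0 592860660 0) (P.cons (P.lf 0 6509874 0) (P.cons (P.lf 0 125349 0) (P.cons (P.lf 239490 0 0) (P.cons (P.lf 0 417 0) (P.cons (P.lf 0 1575 0) P.nil)))))) (P.cons (P.cons (P.lf 386523501 0 0) (P.cons (P.lf 0 19911453 0) (P.cons (P.lf 0 2069436 0) (P.cons (P.lf 298308 0 0) (P.cons (P.lf 0 288 0) P.nil))))) (P.cons (P.cons (P.lf 51079026 0 0) (P.cons (P.lf 0 4606647 0) (P.cons (P.lf 0 479691 0) (P.cons (P.lf 68778 0 0) P.nil)))) (P.cons (P.cons (P.lf 0 16784415 0) (P.cons (P.lf 451215 0 0) (P.cons (P.lf 60015 0 0) P.nil))) (P.cons (P.cons (P.lf 0 2174604 0) (P.cons (P.lf 210075 0 0) P.nil)) (P.cons (P.cons (P.lf 209652 0 0) P.nil) P.nil)))))) 156765)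
 (EL.cons 11 (TM.mk (P.cons (P.cons (P.lf 0 102272898 0) (P.cons (P.lf 0 33348834 0) (P.cons (P.lf 463800 0 0) (P.cons (P.lf 118827 0 0) (P.cons (P.lf 20208 0 0) (P.cons (P.lf 0 288 0) P.nil)))))) (P.cons (P.cons (P.lf 34864419 0 0) (P.cons (P.lf 6602220 0 0) (P.cons (P.lf 0 2132523 0) (P.cons (P.lf 0 73029 0) (P.cons (P.lf 24753 0 0) P.nil))))) (P.cons (P.cons (P.lf 23450502 0 0) (P.cons (P.lf 5616564 0 0) (P.cons (P.lf 0 947313 0) (P.cons (P.lf 0 41097 0) P.nil)))) (P.cons (P.cons (P.lf 2655732 0 0) (P.cons (P.lf 596235 0 0) (P.cons (P.lf 0 123780 0) P.nil))) (P.cons (P.cons (P.lf 0 187584 0) (P.cons (P.lf 0 59853 0) P.nil)) (P.cons (P.cons (P.lf 0 55374 0) P.nil) P.nil)))))) 76593)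
 EL.nil)))
noncomputable def S111_140_290_364_23 : EL := (EL.cons 4 (TM.mk (P.cons (P.cons (P.lf 2108107224 0 0) (P.cons (P.lf 0 62440284 0) (P.cons (P.lf 0 8040495 0) (P.lf 536028 0 0)))) (P.cons (P.cons (P.lf 364959681 0 0) (P.cons (P.lf 0 23161467 0) (P.cons (P.lf 0 2982522 0) (P.lf 198828 0 0)))) (P.cons (P.cons (P.lf 0 75665145 0) (P.cons (P.lf 0 860115 0) (P.cons (P.lf 0 110751 0) (P.lf 7377 0 0)))) (P.cons (P.cons (P.lf 0 16961502 0) (P.cons (P.lf 639756 0 0) (P.cons (P.lf 82380 0 0) P.nil))) (P.cons (P.cons (P.lf 301032 0 0) (P.cons (P.lf 81774 0 0) P.nil)) (P.cons (P.cons (P.lf 263481 0 0) P.nil) P.nil)))))) 86805)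
 (EL.cons 8 (TM.mk (P.cons (P.cons (P.lf 0 2122200558 0) (P.cons (P.lf 62857719 0 0) (P.cons (P.lf 8094258 0 0) (P.lf 0 539619 0)))) (P.cons (P.cons (P.lf 95287422 0 0) (P.cons (P.lf 9611931 0 0) (P.cons (P.lf 1237740 0 0) (P.lf 0 82515 0)))) (P.cons (P.cons (P.lf 94201035 0 0) (P.cons (P.lf 0 2379108 0) (P.cons (P.lf 0 306357 0) (P.lf 20421 0 0)))) (P.cons (P.cons (P.lf 0 893724 0) (P.cons (P.lf 0 428793 0) (P.cons (P.lf 0 55212 0) P.nil))) (P.cons (P.cons (P.lf 0 1545183 0) (P.cons (P.lf 20937 0 0) P.nil)) (P.cons (P.cons (P.lf 0 71679 0) P.nil) P.nil)))))) 49569)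
 (EL.cons 11 (TM.mk (P.cons (P.cons (P.lf 0 366095469 0) (P.cons (P.lf 0 104511981 0) (P.cons (P.lf 7817325 0 0) (P.cons (P.lf 526770 0 0) (P.lf 0 26337 0))))) (P.cons (P.cons (P.lf 0 97442613 0) (P.cons (P.lf 0 27817662 0) (P.cons (P.lf 2080713 0 0) (P.cons (P.lf 140208 0 0) (P.lf 0 7008 0))))) (P.cons (P.cons (P.lf 0 480585 0) (P.cons (P.lf 0 137193 0) (P.cons (P.lf 10260 0 0) (P.cons (P.lf 687 0 0) P.nil)))) (P.cons (P.cons (P.lf 1699317 0 0) (P.cons (P.lf 485115 0 0) (P.cons (P.lf 0 36282 0) P.nil))) (P.cons (P.cons (P.lf 129579 0 0) (P.cons (P.lf 36990 0 0) P.nil)) (P.cons (P.cons (P.lf 0 3744 0) P.nil) P.nil)))))) 13773)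
 EL.nil)))
noncomputable def S111_140_290_364_24 : EL := (EL.cons 4 (TM.mk (P.cons (P.cons (P.lf 0 453211086 0) (P.cons (P.lf 0 4976460 0) (P.cons (P.lf 0 95826 0) (P.cons (P.lf 183078 0 0) (P.cons (P.lf 0 318 0) (P.cons (P.lf 0 1203 0) P.nil)))))) (P.cons (P.cons (P.lf 222330399 0 0) (P.cons (P.lf 0 16024452 0) (P.cons (P.lf 0 1597440 0) (P.cons (P.lf 257589 0 0) (P.cons (P.lf 0 273 0) P.nil))))) (P.cons (P.cons (P.lf 86814504 0 0) (P.cons (P.lf 0 5977341 0) (P.cons (P.lf 0 622008 0) (P.cons (P.lf 89349 0 0) P.nil)))) (P.cons (P.cons (P.lf 0 6354084 0) (P.cons (P.lf 0 218325 0) (P.cons (P.lf 0 12981 0) P.nil))) (P.cons (P.cons (P.lf 0 3875040 0) (P.cons (P.lf 224586 0 0) P.nil)) (P.cons (P.cons (P.lf 0 133143 0) P.nil) P.nil)))))) 225519)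
 (EL.cons 8 (TM.mk (P.cons (P.cons (P.lf 456240939 0 0) (P.cons (P.lf 5009727 0 0) (P.cons (P.lf 96465 0 0) (P.cons (P.lf 0 184302 0) (P.cons (P.lf 321 0 0) (P.cons (P.lf 1212 0 0) P.nil)))))) (P.cons (P.cons (P.lf 0 323287428 0) (P.cons (P.lf 15039345 0 0) (P.cons (P.lf 1587090 0 0) (P.cons (P.lf 0 219126 0) (P.cons (P.lf 204 0 0) P.nil))))) (P.cons (P.cons (P.lf 0 25253475 0) (P.cons (P.lf 2646786 0 0) (P.cons (P.lf 278382 0 0) (P.cons (P.lf 0 38802 0) P.nil)))) (P.cons (P.cons (P.lf 16886814 0 0) (P.cons (P.lf 0 642447 0) (P.cons (P.lf 0 76839 0) P.nil))) (P.cons (P.cons (P.lf 1234833 0 0) (P.cons (P.lf 0 166098 0) P.nil)) (P.cons (P.cons (P.lf 0 331119 0) P.nil) P.nil)))))) 130086)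
 (EL.cons 11 (TM.mk (P.cons (P.cons (P.lf 78704973 0 0) (P.cons (P.lf 25663878 0 0) (P.cons (P.lf 0 356922 0) (P.cons (P.lf 0 91443 0) (P.cons (P.lf 0 15552 0) (P.cons (P.lf 222 0 0) P.nil)))))) (P.cons (P.cons (P.lf 0 31286937 0) (P.cons (P.lf 0 6534030 0) (P.cons (P.lf 1661313 0 0) (P.cons (P.lf 61377 0 0) (P.cons (P.lf 0 18168 0) P.nil))))) (P.cons (P.cons (P.lf 0 17008314 0) (P.cons (P.lf 0 4191435 0) (P.cons (P.lf 638265 0 0) (P.cons (P.lf 29004 0 0) P.nil)))) (P.cons (P.cons (P.lf 0 870570 0) (P.cons (P.lf 0 187179 0) (P.cons (P.lf 44001 0 0) P.nil))) (P.cons (P.cons (P.lf 375489 0 0) (P.cons (P.lf 99531 0 0) P.nil)) (P.cons (P.cons (P.lf 49668 0 0) P.nil) P.nil)))))) 68790)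
 EL.nil)))
noncomputable def S111_140_290_364_25 : EL := (EL.cons 4 (TM.mk (P.cons (P.cons (P.lf 0 1622311761 0) (P.cons (P.lf 48051447 0 0) (P.cons (P.lf 6187629 0 0) (P.lf 0 412503 0)))) (P.cons (P.cons (P.lf 0 188993157 0) (P.cons (P.lf 15103152 0 0) (P.cons (P.lf 1944846 0 0) (P.lf 0 129651 0)))) (P.cons (P.cons (P.lf 84048498 0 0) (P.cons (P.lf 0 641094 0) (P.cons (P.lf 0 82557 0) (P.lf 5508 0 0)))) (P.cons (P.cons (P.lf 11734491 0 0) (P.cons (P.lf 0 646521 0) (P.cons (P.lf 0 83250 0) P.nil))) (P.cons (P.cons (P.lf 0 1297032 0) (P.cons (P.lf 0 41511 0) P.nil)) (P.cons (P.cons (P.lf 0 283209 0) P.nil) P.nil)))))) 94863)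
 (EL.cons 8 (TM.mk (P.cons (P.cons (P.lf 1633157406 0 0) (P.cons (P.lf 0 48372690 0) (P.cons (P.lf 0 6229005 0) (P.lf 415269 0 0)))) (P.cons (P.cons (P.lf 0 165808041 0) (P.cons (P.lf 0 4657803 0) (P.cons (P.lf 0 599790 0) (P.lf 39987 0 0)))) (P.cons (P.cons (P.lf 0 78323124 0) (P.cons (P.lf 2545383 0 0) (P.cons (P.lf 327771 0 0) (P.lf 0 21849 0)))) (P.cons (P.cons (P.lf 4977006 0 0) (P.cons (P.lf 279336 0 0) (P.cons (P.lf 35967 0 0) P.nil))) (P.cons (P.cons (P.lf 1620942 0 0) (P.cons (P.lf 0 45264 0) P.nil)) (P.cons (P.cons (P.lf 0 3708 0) P.nil) P.nil)))))) 57777)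
 (EL.cons 11 (TM.mk (P.cons (P.cons (P.lf 281731866 0 0) (P.cons (P.lf 80428080 0 0) (P.cons (P.lf 0 6015888 0) (P.cons (P.lf 0 405381 0) (P.lf 20268 0 0))))) (P.cons (P.cons (P.lf 59034504 0 0) (P.cons (P.lf 16853016 0 0) (P.cons (P.lf 0 1260576 0) (P.cons (P.lf 0 84942 0) (P.lf 4245 0 0))))) (P.cons (P.cons (P.lf 0 5598414 0) (P.cons (P.lf 0 1598220 0) (P.cons (P.lf 119544 0 0) (P.cons (P.lf 8055 0 0) P.nil)))) (P.cons (P.cons (P.lf 0 1832544 0) (P.cons (P.lf 0 523149 0) (P.cons (P.lf 39126 0 0) P.nil))) (P.cons (P.cons (P.lf 0 37314 0) (P.cons (P.lf 0 10653 0) P.nil)) (P.cons (P.cons (P.lf 17475 0 0) P.nil) P.nil)))))) 19239)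
 EL.nil)))
noncomputable def S111_140_290_364_26 : EL := (EL.cons 4 (TM.mk (P.cons (P.cons (P.lf 348772428 0 0) (P.cons (P.lf 3829674 0 0) (P.cons (P.lf 73743 0 0) (P.cons (P.lf 0 140889 0) (P.cons (P.lf 246 0 0) (P.cons (P.lf 927 0 0) P.nil)))))) (P.cons (P.cons (P.lf 0 190845747 0) (P.cons (P.lf 12114894 0 0) (P.cons (P.lf 1225149 0 0) (P.cons (P.lf 0 190251 0) (P.cons (P.lf 195 0 0) P.nil))))) (P.cons (P.cons (P.lf 0 59252160 0) (P.cons (P.lf 3878211 0 0) (P.cons (P.lf 408609 0 0) (P.cons (P.lf 0 56673 0) P.nil)))) (P.cons (P.cons (P.lf 9662352 0 0) (P.cons (P.lf 0 168450 0) (P.cons (P.lf 0 24639 0) P.nil))) (P.cons (P.cons (P.lf 3144564 0 0) (P.cons (P.lf 0 212418 0) P.nil)) (P.cons (P.cons (P.lf 0 86793 0) P.nil) P.nil)))))) 210246)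
 (EL.cons 8 (TM.mk (P.cons (P.cons (P.lf 0 351104076 0) (P.cons (P.lf 0 3855276 0) (P.cons (P.lf 0 74235 0) (P.cons (P.lf 141831 0 0) (P.cons (P.lf 0 246 0) (P.cons (P.lf 0 933 0) P.nil)))))) (P.cons (P.cons (P.lf 268670115 0 0) (P.cons (P.lf 0 11355348 0) (P.cons (P.lf 0 1217154 0) (P.cons (P.lf 160599 0 0) (P.cons (P.lf 0 141 0) P.nil))))) (P.cons (P.cons (P.lf 7492212 0 0) (P.cons (P.lf 0 1357923 0) (P.cons (P.lf 0 144615 0) (P.cons (P.lf 19443 0 0) P.nil)))) (P.cons (P.cons (P.lf 0 15559764 0) (P.cons (P.lf 681102 0 0) (P.cons (P.lf 78738 0 0) P.nil))) (P.cons (P.cons (P.lf 0 376800 0) (P.cons (P.lf 114111 0 0) P.nil)) (P.cons (P.cons (P.lf 386970 0 0) P.nil) P.nil)))))) 114150)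
 (EL.cons 11 (TM.mk (P.cons (P.cons (P.lf 0 60568077 0) (P.cons (P.lf 0 19749855 0) (P.cons (P.lf 274671 0 0) (P.cons (P.lf 70371 0 0) (P.cons (P.lf 11967 0 0) (P.cons (P.lf 0 171 0) P.nil)))))) (P.cons (P.cons (P.lf 27506841 0 0) (P.cons (P.lf 6146670 0 0) (P.cons (P.lf 0 1294029 0) (P.cons (P.lf 0 51219 0) (P.cons (P.lf 13305 0 0) P.nil))))) (P.cons (P.cons (P.lf 12095712 0 0) (P.cons (P.lf 3061536 0 0) (P.cons (P.lf 0 420465 0) (P.cons (P.lf 0 20076 0) P.nil)))) (P.cons (P.cons (P.lf 0 208587 0) (P.cons (P.lf 0 66144 0) (P.cons (P.lf 1719 0 0) P.nil))) (P.cons (P.cons (P.lf 0 411378 0) (P.cons (P.lf 0 105471 0) P.nil)) (P.cons (P.cons (P.lf 0 27897 0) P.nil) P.nil)))))) 62832)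
 EL.nil)))
noncomputable def S111_140_290_364_27 : EL := (EL.cons 13 (TM.mk (P.lf 0 4294967296 0) 0)
 EL.nil)
noncomputable def S111_140_290_364_28 : EL := (EL.cons 13 (TM.mk (P.cons (P.cons (P.lf 923352842 0 0) (P.cons (P.lf 37487728 0 0) (P.cons (P.lf 4827332 0 0) (P.lf 0 321820 0)))) (P.cons (P.cons (P.lf 0 612819092 0) (P.cons (P.lf 18151164 0 0) (P.cons (P.lf 2337344 0 0) (P.lf 0 155820 0)))) (P.cons (P.cons (P.lf 0 37638300 0) (P.cons (P.lf 2910108 0 0) (P.cons (P.lf 374736 0 0) (P.lf 0 24980 0)))) (P.cons (P.cons (P.lf 4895127 0 0) (P.cons (P.lf 95332 0 0) (P.cons (P.lf 12276 0 0) P.nil))) (P.cons (P.cons (P.lf 633959 0 0) (P.cons (P.lf 0 21568 0) P.nil)) (P.cons (P.cons (P.lf 6481 0 0) P.nil) P.nil)))))) 13705)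
 EL.nil)
noncomputable def S111_140_290_364_29 : EL := (EL.cons 13 (TM.mk (P.cons (P.cons (P.lf 0 198506859 0) (P.cons (P.lf 0 16118586 0) (P.cons (P.lf 0 2402810 0) (P.cons (P.lf 54104 0 0) (P.cons (P.lf 192 0 0) (P.cons (P.lf 723 0 0) P.nil)))))) (P.cons (P.cons (P.lf 263493624 0 0) (P.cons (P.lf 2893277 0 0) (P.cons (P.lf 55712 0 0) (P.cons (P.lf 0 106442 0) (P.cons (P.lf 186 0 0) P.nil))))) (P.cons (P.cons (P.lf 0 71255577 0) (P.cons (P.lf 4585505 0 0) (P.cons (P.lf 462970 0 0) (P.cons (P.lf 0 72204 0) P.nil)))) (P.cons (P.cons (P.lf 0 12845452 0) (P.cons (P.lf 1022134 0 0) (P.cons (P.lf 105359 0 0) P.nil))) (P.cons (P.cons (P.lf 794482 0 0) (P.cons (P.lf 35040 0 0) P.nil)) (P.cons (P.cons (P.lf 263919 0 0) P.nil) P.nil)))))) 100069)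
 EL.nil)
noncomputable def S111_140_290_364_30 : EL := (EL.cons 13 (TM.mk (P.cons (P.lf 3305228444 0 0) (P.cons (P.lf 0 187161108 0) (P.cons (P.lf 0 20202340 0) (P.cons (P.lf 0 534200 0) (P.cons (P.lf 32044 0 0) (P.cons (P.lf 3360 0 0) P.nil)))))) 212)
 EL.nil)
noncomputable def S111_140_290_364_31 : EL := (EL.cons 13 (TM.mk (P.cons (P.cons (P.lf 0 710573996 0) (P.cons (P.lf 0 28848998 0) (P.cons (P.lf 0 3714914 0) (P.lf 247659 0 0)))) (P.cons (P.cons (P.lf 511836920 0 0) (P.cons (P.lf 0 12334785 0) (P.cons (P.lf 0 1588362 0) (P.lf 105888 0 0)))) (P.cons (P.cons (P.lf 6603348 0 0) (P.cons (P.lf 0 1272195 0) (P.cons (P.lf 0 163820 0) (P.lf 10919 0 0)))) (P.cons (P.cons (P.lf 0 8174931 0) (P.cons (P.lf 143490 0 0) (P.cons (P.lf 18477 0 0) P.nil))) (P.cons (P.cons (P.lf 0 534704 0) (P.cons (P.lf 36418 0 0) P.nil)) (P.cons (P.cons (P.lf 44832 0 0) P.nil) P.nil)))))) 22961)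
 EL.nil)
noncomputable def S111_140_290_364_32 : EL := (EL.cons 13 (TM.mk (P.cons (P.cons (P.lf 152762633 0 0) (P.cons (P.lf 12404194 0 0) (P.cons (P.lf 1849102 0 0) (P.cons (P.lf 0 41636 0) (P.cons (P.lf 0 147 0) (P.cons (P.lf 0 556 0) P.nil)))))) (P.cons (P.cons (P.lf 0 211424050 0) (P.cons (P.lf 0 2928942 0) (P.cons (P.lf 0 147580 0) (P.cons (P.lf 84271 0 0) (P.cons (P.lf 0 134 0) P.nil))))) (P.cons (P.cons (P.lf 65383830 0 0) (P.cons (P.lf 0 3478551 0) (P.cons (P.lf 0 365156 0) (P.cons (P.lf 51181 0 0) P.nil)))) (P.cons (P.cons (P.lf 7994944 0 0) (P.cons (P.lf 0 575165 0) (P.cons (P.lf 0 60941 0) P.nil))) (P.cons (P.cons (P.lf 0 1472077 0) (P.cons (P.lf 39625 0 0) P.nil)) (P.cons (P.cons (P.lf 0 239574 0) P.nil) P.nil)))))) 119734)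
 EL.nil)
noncomputable def S111_140_290_364_33 : EL := (EL.cons 14 (TM.mk (P.lf 8589934592 0 0) 0)
 EL.nil)
noncomputable def S111_140_290_364_34 : EL := (EL.cons 14 (TM.mk (P.cons (P.cons (P.lf 0 1846705684 0) (P.cons (P.lf 0 74975456 0) (P.cons (P.lf 0 9654664 0) (P.lf 643640 0 0)))) (P.cons (P.cons (P.lf 1225638184 0 0) (P.cons (P.lf 0 36302328 0) (P.cons (P.lf 0 4674688 0) (P.lf 311640 0 0)))) (P.cons (P.cons (P.lf 75276600 0 0) (P.cons (P.lf 0 5820216 0) (P.cons (P.lf 0 749472 0) (P.lf 49960 0 0)))) (P.cons (P.cons (P.lf 0 9790254 0) (P.cons (P.lf 0 190664 0) (P.cons (P.lf 0 24552 0) P.nil))) (P.cons (P.cons (P.lf 0 1267918 0) (P.cons (P.lf 43136 0 0) P.nil)) (P.cons (P.cons (P.lf 0 12962 0) P.nil) P.nil)))))) 27410)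
 EL.nil)
noncomputable def S111_140_290_364_35 : EL := (EL.cons 14 (TM.mk (P.cons (P.cons (P.lf 397013718 0 0) (P.cons (P.lf 32237172 0 0) (P.cons (P.lf 4805620 0 0) (P.cons (P.lf 0 108208 0) (P.cons (P.lf 0 384 0) (P.cons (P.lf 0 1446 0) P.nil)))))) (P.cons (P.cons (P.lf 0 526987248 0) (P.cons (P.lf 0 5786554 0) (P.cons (P.lf 0 111424 0) (P.cons (P.lf 212884 0 0) (P.cons (P.lf 0 372 0) P.nil))))) (P.cons (P.cons (P.lf 142511154 0 0) (P.cons (P.lf 0 9171010 0) (P.cons (P.lf 0 925940 0) (P.cons (P.lf 144408 0 0) P.nil)))) (P.cons (P.cons (P.lf 25690904 0 0) (P.cons (P.lf 0 2044268 0) (P.cons (P.lf 0 210718 0) P.nil))) (P.cons (P.cons (P.lf 0 1588964 0) (P.cons (P.lf 0 70080 0) P.nil)) (P.cons (P.cons (P.lf 0 527838 0) P.nil) P.nil)))))) 200138)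
 EL.nil)
noncomputable def S111_140_290_364_36 : EL := (EL.cons 14 (TM.mk (P.cons (P.lf 0 6610456888 0) (P.cons (P.lf 374322216 0 0) (P.cons (P.lf 40404680 0 0) (P.cons (P.lf 1068400 0 0) (P.cons (P.lf 0 64088 0) (P.cons (P.lf 0 6720 0) P.nil)))))) 424)
 EL.nil)
noncomputable def S111_140_290_364_37 : EL := (EL.cons 14 (TM.mk (P.cons (P.cons (P.lf 1421147992 0 0) (P.cons (P.lf 57697996 0 0) (P.cons (P.lf 7429828 0 0) (P.lf 0 495318 0)))) (P.cons (P.cons (P.lf 0 1023673840 0) (P.cons (P.lf 24669570 0 0) (P.cons (P.lf 3176724 0 0) (P.lf 0 211776 0)))) (P.cons (P.cons (P.lf 0 13206696 0) (P.cons (P.lf 2544390 0 0) (P.cons (P.lf 327640 0 0) (P.lf 0 21838 0)))) (P.cons (P.cons (P.lf 16349862 0 0) (P.cons (P.lf 0 286980 0) (P.cons (P.lf 0 36954 0) P.nil))) (P.cons (P.cons (P.lf 1069408 0 0) (P.cons (P.lf 0 72836 0) P.nil)) (P.cons (P.cons (P.lf 0 89664 0) P.nil) P.nil))))))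 45922)
 EL.nil)
noncomputable def S111_140_290_364_38 : EL := (EL.cons 14 (TM.mk (P.cons (P.cons (P.lf 0 305525266 0) (P.cons (P.lf 0 24808388 0) (P.cons (P.lf 0 3698204 0) (P.cons (P.lf 83272 0 0) (P.cons (P.lf 294 0 0) (P.cons (P.lf 1112 0 0) P.nil)))))) (P.cons (P.cons (P.lf 422848100 0 0) (P.cons (P.lf 5857884 0 0) (P.cons (P.lf 295160 0 0) (P.cons (P.lf 0 168542 0) (P.cons (P.lf 268 0 0) P.nil))))) (P.cons (P.cons (P.lf 0 130767660 0) (P.cons (P.lf 6957102 0 0) (P.cons (P.lf 730312 0 0) (P.cons (P.lf 0 102362 0) P.nil)))) (P.cons (P.cons (P.lf 0 15989888 0) (P.cons (P.lf 1150330 0 0) (P.cons (P.lf 121882 0 0) P.nil))) (P.cons (P.cons (P.lf 2944154 0 0) (P.cons (P.lf 0 79250 0) P.nil)) (P.cons (P.cons (P.lf 479148 0 0) P.nil) P.nil)))))) 239468)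
 EL.nil)
noncomputable def S111_140_290_364_39 : EL := (EL.cons 14 (TM.mk (P.cons (P.lf 5087133062 0 0) (P.cons (P.lf 0 576125660 0) (P.cons (P.lf 0 45875746 0) (P.cons (P.lf 1877024 0 0) (P.cons (P.lf 381806 0 0) (P.cons (P.lf 14808 0 0) P.nil)))))) 2110)
 EL.nil)
noncomputable def S111_140_290_364_40 : EL := (EL.cons 14 (TM.mk (P.cons (P.cons (P.lf 0 1093656468 0) (P.cons (P.lf 0 44401980 0) (P.cons (P.lf 0 5717686 0) (P.lf 381176 0 0)))) (P.cons (P.cons (P.lf 849706010 0 0) (P.cons (P.lf 0 16470380 0) (P.cons (P.lf 0 2120906 0) (P.lf 141390 0 0)))) (P.cons (P.cons (P.lf 0 27760458 0) (P.cons (P.lf 0 611640 0) (P.cons (P.lf 0 78758 0) (P.lf 5248 0 0)))) (P.cons (P.cons (P.lf 0 17796000 0) (P.cons (P.lf 454940 0 0) (P.cons (P.lf 58582 0 0) P.nil))) (P.cons (P.cons (P.lf 0 310542 0) (P.cons (P.lf 58152 0 0) P.nil)) (P.cons (P.cons (P.lf 197390 0 0) P.nil) P.nil))))))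 56066)
 EL.nil)
noncomputable def S111_140_290_364_41 : EL := (EL.cons 14 (TM.mk (P.cons (P.cons (P.lf 235119556 0 0) (P.cons (P.lf 19091504 0 0) (P.cons (P.lf 2845984 0 0) (P.cons (P.lf 0 64082 0) (P.cons (P.lf 0 226 0) (P.cons (P.lf 0 856 0) P.nil)))))) (P.cons (P.cons (P.lf 0 338720162 0) (P.cons (P.lf 0 5589056 0) (P.cons (P.lf 0 388298 0) (P.cons (P.lf 133330 0 0) (P.cons (P.lf 0 194 0) P.nil))))) (P.cons (P.cons (P.lf 117622638 0 0) (P.cons (P.lf 0 5215320 0) (P.cons (P.lf 0 566552 0) (P.cons (P.lf 71820 0 0) P.nil)))) (P.cons (P.cons (P.lf 8557672 0 0) (P.cons (P.lf 0 557610 0) (P.cons (P.lf 0 61042 0) P.nil))) (P.cons (P.cons (P.lf 0 3522710 0) (P.cons (P.lf 144752 0 0) P.nil)) (P.cons (P.cons (P.lf 0 334828 0) P.nil) P.nil)))))) 246860)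
 EL.nil)
noncomputable def S111_140_290_364_42 : EL := (EL.cons 14 (TM.mk (P.cons (P.lf 0 3914846314 0) (P.cons (P.lf 665043568 0 0) (P.cons (P.lf 34126800 0 0) (P.cons (P.lf 0 5520806 0) (P.cons (P.lf 0 537424 0) (P.cons (P.lf 8682 0 0) P.nil)))))) 5662)
 EL.nil)
noncomputable def S111_140_290_364_43 : EL := (EL.cons 14 (TM.mk (P.cons (P.cons (P.lf 841632594 0 0) (P.cons (P.lf 34169920 0 0) (P.cons (P.lf 4400094 0 0) (P.lf 0 293336 0)))) (P.cons (P.cons (P.lf 0 701556548 0) (P.cons (P.lf 10740022 0 0) (P.cons (P.lf 1383002 0 0) (P.lf 0 92196 0)))) (P.cons (P.cons (P.lf 53246542 0 0) (P.cons (P.lf 0 455888 0) (P.cons (P.lf 0 58706 0) (P.lf 3914 0 0)))) (P.cons (P.cons (P.lf 16346104 0 0) (P.cons (P.lf 0 459750 0) (P.cons (P.lf 0 59202 0) P.nil))) (P.cons (P.cons (P.lf 0 553244 0) (P.cons (P.lf 0 29520 0) P.nil)) (P.cons (P.cons (P.lf 0 258080 0) P.nil) P.nil))))))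 63266)
 EL.nil)
noncomputable def S111_140_290_364_44 : EL := (EL.cons 14 (TM.mk (P.cons (P.cons (P.lf 0 180938244 0) (P.cons (P.lf 0 14692028 0) (P.cons (P.lf 0 2190152 0) (P.cons (P.lf 49314 0 0) (P.cons (P.lf 174 0 0) (P.cons (P.lf 658 0 0) P.nil)))))) (P.cons (P.cons (P.lf 270910736 0 0) (P.cons (P.lf 5133052 0 0) (P.cons (P.lf 422838 0 0) (P.cons (P.lf 0 105398 0) (P.cons (P.lf 138 0 0) P.nil))))) (P.cons (P.cons (P.lf 0 104171914 0) (P.cons (P.lf 3859742 0 0) (P.cons (P.lf 432460 0 0) (P.cons (P.lf 0 49760 0) P.nil)))) (P.cons (P.cons (P.lf 0 3024008 0) (P.cons (P.lf 177930 0 0) (P.cons (P.lf 20814 0 0) P.nil))) (P.cons (P.cons (P.lf 3593228 0 0) (P.cons (P.lf 0 161064 0) P.nil)) (P.cons (P.cons (P.lf 161386 0 0) P.nil) P.nil)))))) 244248)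
 EL.nil)
noncomputable def S111_140_290_364_45 : EL := (EL.cons 14 (TM.mk (P.cons (P.cons (P.lf 0 85351928 0) (P.cons (P.lf 0 10395754 0) (P.cons (P.lf 0 1760734 0) (P.cons (P.lf 0 25166 0) (P.cons (P.lf 0 1958 0) (P.cons (P.lf 794 0 0) P.nil)))))) (P.cons (P.cons (P.lf 169941400 0 0) (P.cons (P.lf 8765578 0 0) (P.cons (P.lf 1000152 0 0) (P.cons (P.lf 0 116666 0) (P.cons (P.lf 0 3128 0) P.nil))))) (P.cons (P.cons (P.lf 0 102350722 0) (P.cons (P.lf 2142734 0 0) (P.cons (P.lf 399910 0 0) (P.cons (P.lf 8190 0 0) P.nil)))) (P.cons (P.cons (P.lf 9740108 0 0) (P.cons (P.lf 0 1434768 0) (P.cons (P.lf 0 95046 0) P.nil))) (P.cons (P.cons (P.lf 5798158 0 0) (P.cons (P.lf 0 532722 0) P.nil)) (P.cons (P.cons (P.lf 26658 0 0) P.nil) P.nil)))))) 473586)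
 EL.nil)
noncomputable def S111_140_290_364_46 : EL := (EL.cons 15 (TM.mk (P.lf 4294967296 0 0) 0)
 EL.nil)
noncomputable def S111_140_290_364_47 : EL := (EL.cons 15 (TM.mk (P.cons (P.cons (P.lf 0 923352842 0) (P.cons (P.lf 0 37487728 0) (P.cons (P.lf 0 4827332 0) (P.lf 321820 0 0)))) (P.cons (P.cons (P.lf 612819092 0 0) (P.cons (P.lf 0 18151164 0) (P.cons (P.lf 0 2337344 0) (P.lf 155820 0 0)))) (P.cons (P.cons (P.lf 37638300 0 0) (P.cons (P.lf 0 2910108 0) (P.cons (P.lf 0 374736 0) (P.lf 24980 0 0)))) (P.cons (P.cons (P.lf 0 4895127 0) (P.cons (P.lf 0 95332 0) (P.cons (P.lf 0 12276 0) P.nil))) (P.cons (P.cons (P.lf 0 633959 0) (P.cons (P.lf 21568 0 0) P.nil)) (P.cons (P.cons (P.lf 0 6481 0) P.nil) P.nil)))))) 13705)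
 EL.nil)
noncomputable def S111_140_290_364_48 : EL := (EL.cons 15 (TM.mk (P.cons (P.cons (P.lf 198506859 0 0) (P.cons (P.lf 16118586 0 0) (P.cons (P.lf 2402810 0 0) (P.cons (P.lf 0 54104 0) (P.cons (P.lf 0 192 0) (P.cons (P.lf 0 723 0) P.nil)))))) (P.cons (P.cons (P.lf 0 263493624 0) (P.cons (P.lf 0 2893277 0) (P.cons (P.lf 0 55712 0) (P.cons (P.lf 106442 0 0) (P.cons (P.lf 0 186 0) P.nil))))) (P.cons (P.cons (P.lf 71255577 0 0) (P.cons (P.lf 0 4585505 0) (P.cons (P.lf 0 462970 0) (P.cons (P.lf 72204 0 0) P.nil)))) (P.cons (P.cons (P.lf 12845452 0 0) (P.cons (P.lf 0 1022134 0) (P.cons (P.lf 0 105359 0) P.nil))) (P.cons (P.cons (P.lf 0 794482 0) (P.cons (P.lf 0 35040 0) P.nil)) (P.cons (P.cons (P.lf 0 263919 0) P.nil) P.nil)))))) 100069)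
 EL.nil)
noncomputable def S111_140_290_364 : SL := (SL.cons S111_140_290_364_0 (SL.cons S111_140_290_364_1 (SL.cons S111_140_290_364_2 (SL.cons S111_140_290_364_3 (SL.cons S111_140_290_364_4 (SL.cons S111_140_290_364_5 (SL.cons S111_140_290_364_6 (SL.cons S111_140_290_364_7 (SL.cons S111_140_290_364_8 (SL.cons S111_140_290_364_9 (SL.cons S111_140_290_364_10 (SL.cons S111_140_290_364_11 (SL.cons S111_140_290_364_12 (SL.cons S111_140_290_364_13 (SL.cons S111_140_290_364_14 (SL.cons S111_140_290_364_15 (SL.cons S111_140_290_364_16 (SL.cons S111_140_290_364_17 (SL.cons S111_140_290_364_18 (SL.cons S111_140_290_364_19 (SL.cons S111_140_290_364_20 (SL.cons S111_140_290_364_21 (SL.cons S111_140_290_364_22 (SL.cons S111_140_290_364_23 (SL.cons S111_140_290_364_24 (SL.cons S111_140_290_364_25 (SL.cons S111_140_290_364_26 (SL.cons S111_140_290_364_27 (SL.cons S111_140_290_364_28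 (SL.cons S111_140_290_364_29 (SL.cons S111_140_290_364_30 (SL.cons S111_140_290_364_31 (SL.cons S111_140_290_364_32 (SL.cons S111_140_290_364_33 (SL.cons S111_140_290_364_34 (SL.cons S111_140_290_364_35 (SL.cons S111_140_290_364_36 (SL.cons S111_140_290_364_37 (SL.cons S111_140_290_364_38 (SL.cons S111_140_290_364_39 (SL.cons S111_140_290_364_40 (SL.cons S111_140_290_364_41 (SL.cons S111_140_290_364_42 (SL.cons S111_140_290_364_43 (SL.cons S111_140_290_364_44 (SL.cons S111_140_290_364_45 (SL.cons S111_140_290_364_46 (SL.cons S111_140_290_364_47 (SL.cons S111_140_290_364_48 SL.nil)))))))))))))))))))))))))))))))))))))))))))))))))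
noncomputable def S111_140_364_512_0 : EL := (EL.cons 0 (TM.mk (P.cons (P.lf 3984603821 0 0) (P.cons (P.lf 506360443 0 0) (P.cons (P.lf 40320479 0 0) (P.cons (P.lf 0 1649728 0) (P.cons (P.lf 0 335571 0) (P.cons (P.lf 0 13014 0) P.nil)))))) 1861)
 (EL.cons 1 (TM.mk (P.cons (P.lf 0 1579171841 0) (P.cons (P.lf 0 165450982 0) (P.cons (P.lf 24357408 0 0) (P.cons (P.lf 2583976 0 0) (P.cons (P.lf 21706 0 0) (P.cons (P.lf 0 11396 0) P.nil)))))) 1057)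
 (EL.cons 5 (TM.mk (P.cons (P.lf 5884696382 0 0) (P.cons (P.lf 0 180039266 0) (P.cons (P.lf 0 14336174 0) (P.cons (P.lf 586566 0 0) (P.cons (P.lf 119316 0 0) (P.cons (P.lf 4630 0 0) P.nil)))))) 385)
 (EL.cons 9 (TM.mk (P.lf 6442450944 0 0) 2)
 EL.nil))))
noncomputable def S111_140_364_512_1 : EL := (EL.cons 0 (TM.mk (P.cons (P.cons (P.lf 0 4486138580 0) (P.cons (P.lf 253612025 0 0) (P.cons (P.lf 16955898 0 0) (P.lf 0 5651954 0)))) (P.cons (P.cons (P.lf 0 137564359 0) (P.cons (P.lf 68316383 0 0) (P.cons (P.lf 4567464 0 0) (P.lf 0 1522476 0)))) (P.cons (P.cons (P.lf 226316214 0 0) (P.cons (P.lf 0 11029252 0) (P.cons (P.lf 0 737401 0) (P.lf 245813 0 0)))) (P.cons (P.cons (P.lf 30788418 0 0) (P.cons (P.lf 0 5507200 0) (P.cons (P.lf 0 368195 0) P.nil))) (P.cons (P.cons (P.lf 0 2175763 0) (P.cons (P.lf 0 499186 0) P.nil)) (P.cons (P.cons (P.lf 0 633433 0) P.nil) P.nil))))))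 585957)
 (EL.cons 1 (TM.mk (P.cons (P.cons (P.lf 1534926096 0 0) (P.cons (P.lf 0 75409979 0) (P.cons (P.lf 0 5041743 0) (P.lf 1680583 0 0)))) (P.cons (P.cons (P.lf 0 507803830 0) (P.cons (P.lf 34772428 0 0) (P.cons (P.lf 2324799 0 0) (P.lf 0 774924 0)))) (P.cons (P.cons (P.lf 0 121010519 0) (P.cons (P.lf 18865825 0 0) (P.cons (P.lf 1261321 0 0) (P.lf 0 420431 0)))) (P.cons (P.cons (P.lf 13349866 0 0) (P.cons (P.lf 1405724 0 0) (P.cons (P.lf 93978 0 0) P.nil))) (P.cons (P.cons (P.lf 3237543 0 0) (P.cons (P.lf 0 306044 0) P.nil)) (P.cons (P.cons (P.lf 28287 0 0) P.nil) P.nil)))))) 265606)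
 (EL.cons 5 (TM.mk (P.cons (P.cons (P.lf 0 224902353 0) (P.cons (P.lf 0 286565808 0) (P.cons (P.lf 0 19159120 0) (P.lf 6386368 0 0)))) (P.cons (P.cons (P.lf 969524188 0 0) (P.cons (P.lf 0 119381524 0) (P.cons (P.lf 0 7981570 0) (P.lf 2660516 0 0)))) (P.cons (P.cons (P.lf 0 35911216 0) (P.cons (P.lf 0 11324116 0) (P.cons (P.lf 0 757102 0) (P.lf 252360 0 0)))) (P.cons (P.cons (P.lf 0 19905170 0) (P.cons (P.lf 1458670 0 0) (P.cons (P.lf 97520 0 0) P.nil))) (P.cons (P.cons (P.lf 0 160120 0) (P.cons (P.lf 290500 0 0) P.nil)) (P.cons (P.cons (P.lf 230207 0 0) P.nil) P.nil)))))) 179742)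
 (EL.cons 9 (TM.mk (P.cons (P.cons (P.lf 0 1605859275 0) (P.cons (P.lf 0 173287620 0) (P.cons (P.lf 0 11585604 0) (P.lf 3861864 0 0)))) (P.cons (P.cons (P.lf 812305062 0 0) (P.cons (P.lf 0 83904042 0) (P.cons (P.lf 0 5609628 0) (P.lf 1869870 0 0)))) (P.cons (P.cons (P.lf 39314790 0 0) (P.cons (P.lf 0 13452018 0) (P.cons (P.lf 0 899370 0) (P.lf 299784 0 0)))) (P.cons (P.cons (P.lf 0 7904278 0) (P.cons (P.lf 0 440682 0) (P.cons (P.lf 0 29460 0) P.nil))) (P.cons (P.cons (P.lf 0 823858 0) (P.cons (P.lf 99714 0 0) P.nil)) (P.cons (P.cons (P.lf 4407 0 0) P.nil) P.nil)))))) 52142)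
 (EL.cons 2 (TM.mk (P.cons (P.cons (P.lf 559861875 0 0) (P.cons (P.lf 86680676 0 0) (P.cons (P.lf 0 41760014 0) (P.cons (P.lf 0 1580318 0) (P.lf 395077 0 0))))) (P.cons (P.cons (P.lf 149016881 0 0) (P.cons (P.lf 23071553 0 0) (P.cons (P.lf 0 11115143 0) (P.cons (P.lf 0 420626 0) (P.lf 105153 0 0))))) (P.cons (P.cons (P.lf 734948 0 0) (P.cons (P.lf 113788 0 0) (P.cons (P.lf 0 54815 0) (P.cons (P.lf 0 2072 0) P.nil)))) (P.cons (P.cons (P.lf 0 2598730 0) (P.cons (P.lf 0 402347 0) (P.cons (P.lf 193834 0 0) P.nil))) (P.cons (P.cons (P.lf 0 198163 0) (P.cons (P.lf 0 30678 0) P.nil)) (P.cons (P.cons (P.lf 5729 0 0) P.nil) P.nil)))))) 57623)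
 (EL.cons 6 (TM.mk (P.cons (P.cons (P.lf 197740047 0 0) (P.cons (P.lf 30615123 0 0) (P.cons (P.lf 0 14749401 0) (P.cons (P.lf 0 558159 0) (P.lf 139539 0 0))))) (P.cons (P.cons (P.lf 95743653 0 0) (P.cons (P.lf 14823519 0 0) (P.cons (P.lf 0 7141503 0) (P.cons (P.lf 0 270252 0) (P.lf 67563 0 0))))) (P.cons (P.cons (P.lf 15350223 0 0) (P.cons (P.lf 2376600 0 0) (P.cons (P.lf 0 1144968 0) (P.cons (P.lf 0 43326 0) P.nil)))) (P.cons (P.cons (P.lf 502866 0 0) (P.cons (P.lf 77856 0 0) (P.cons (P.lf 0 37509 0) P.nil))) (P.cons (P.cons (P.lf 0 113787 0) (P.cons (P.lf 0 17616 0) P.nil)) (P.cons (P.cons (P.lf 0 12648 0) P.nil) P.nil)))))) 27756)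
 EL.nil))))))
noncomputable def S111_140_364_512_2 : EL := (EL.cons 0 (TM.mk (P.cons (P.cons (P.lf 1988879311 0 0) (P.cons (P.lf 61472210 0 0) (P.cons (P.lf 0 12416126 0) (P.cons (P.lf 0 3579740 0) (P.cons (P.lf 662713 0 0) (P.cons (P.lf 49245 0 0) P.nil)))))) (P.cons (P.cons (P.lf 0 843702727 0) (P.cons (P.lf 148515339 0 0) (P.cons (P.lf 0 3509632 0) (P.cons (P.lf 0 5106784 0) (P.cons (P.lf 538918 0 0) P.nil))))) (P.cons (P.cons (P.lf 0 224168117 0) (P.cons (P.lf 45816863 0 0) (P.cons (P.lf 0 689373 0) (P.cons (P.lf 0 1522838 0) P.nil)))) (P.cons (P.cons (P.lf 38609601 0 0) (P.cons (P.lf 0 2518792 0) (P.cons (P.lf 0 306033 0) P.nil))) (P.cons (P.cons (P.lf 12236032 0 0) (P.cons (P.lf 0 2806676 0) P.nil)) (P.cons (P.cons (P.lf 0 174148 0) P.nil) P.nil)))))) 3656170)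
 (EL.cons 1 (TM.mk (P.cons (P.cons (P.lf 0 667081489 0) (P.cons (P.lf 0 23803066 0) (P.cons (P.lf 3607827 0 0) (P.cons (P.lf 1225687 0 0) (P.cons (P.lf 0 208500 0) (P.cons (P.lf 0 15494 0) P.nil)))))) (P.cons (P.cons (P.lf 551236559 0 0) (P.cons (P.lf 0 47254098 0) (P.cons (P.lf 0 1839584 0) (P.cons (P.lf 1229563 0 0) (P.cons (P.lf 0 52922 0) P.nil))))) (P.cons (P.cons (P.lf 0 40605940 0) (P.cons (P.lf 7334419 0 0) (P.cons (P.lf 0 571809 0) (P.cons (P.lf 0 305484 0) P.nil)))) (P.cons (P.cons (P.lf 0 40241420 0) (P.cons (P.lf 7633065 0 0) (P.cons (P.lf 0 72174 0) P.nil))) (P.cons (P.cons (P.lf 1003683 0 0) (P.cons (P.lf 719613 0 0) P.nil)) (P.cons (P.cons (P.lf 1201034 0 0) P.nil) P.nil)))))) 1591972)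
 (EL.cons 5 (TM.mk (P.cons (P.cons (P.lf 0 253506461 0) (P.cons (P.lf 76049730 0 0) (P.cons (P.lf 16242949 0 0) (P.cons (P.lf 0 202789 0) (P.cons (P.lf 0 447467 0) (P.cons (P.lf 0 33242 0) P.nil)))))) (P.cons (P.cons (P.lf 0 158964505 0) (P.cons (P.lf 0 54925005 0) (P.cons (P.lf 6221636 0 0) (P.cons (P.lf 2547000 0 0) (P.cons (P.lf 0 396753 0) P.nil))))) (P.cons (P.cons (P.lf 173568228 0 0) (P.cons (P.lf 0 35066498 0) (P.cons (P.lf 1048366 0 0) (P.cons (P.lf 1235157 0 0) P.nil)))) (P.cons (P.cons (P.lf 1974017 0 0) (P.cons (P.lf 0 3378647 0) (P.cons (P.lf 247014 0 0) P.nil))) (P.cons (P.cons (P.lf 0 5872208 0) (P.cons (P.lf 913131 0 0) P.nil)) (P.cons (P.cons (P.lf 0 285355 0) P.nil) P.nil)))))) 1507712)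
 (EL.cons 9 (TM.mk (P.cons (P.cons (P.lf 400279960 0 0) (P.cons (P.lf 86388094 0 0) (P.cons (P.lf 10436757 0 0) (P.cons (P.lf 0 1301979 0) (P.cons (P.lf 0 186915 0) (P.cons (P.lf 0 13888 0) P.nil)))))) (P.cons (P.cons (P.lf 0 404953837 0) (P.cons (P.lf 0 1870197 0) (P.cons (P.lf 4388626 0 0) (P.cons (P.lf 645226 0 0) (P.cons (P.lf 0 181005 0) P.nil))))) (P.cons (P.cons (P.lf 82821192 0 0) (P.cons (P.lf 0 16567108 0) (P.cons (P.lf 708754 0 0) (P.cons (P.lf 612093 0 0) P.nil)))) (P.cons (P.cons (P.lf 13854591 0 0) (P.cons (P.lf 0 3771367 0) (P.cons (P.lf 121948 0 0) P.nil))) (P.cons (P.cons (P.lf 0 1342612 0) (P.cons (P.lf 0 74812 0) P.nil)) (P.cons (P.cons (P.lf 0 306421 0) P.nil) P.nil)))))) 557644)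
 (EL.cons 2 (TM.mk (P.cons (P.cons (P.lf 0 279104765 0) (P.cons (P.lf 0 73330503 0) (P.cons (P.lf 14141722 0 0) (P.cons (P.lf 3393776 0 0) (P.cons (P.lf 142171 0 0) (P.cons (P.lf 0 65632 0) P.nil)))))) (P.cons (P.cons (P.lf 66893326 0 0) (P.cons (P.lf 0 12242531 0) (P.cons (P.lf 0 9999438 0) (P.cons (P.lf 1766570 0 0) (P.cons (P.lf 301668 0 0) P.nil))))) (P.cons (P.cons (P.lf 44044661 0 0) (P.cons (P.lf 560188 0 0) (P.cons (P.lf 0 4672800 0) (P.cons (P.lf 417228 0 0) P.nil)))) (P.cons (P.cons (P.lf 1925808 0 0) (P.cons (P.lf 0 280074 0) (P.cons (P.lf 0 271828 0) P.nil))) (P.cons (P.cons (P.lf 0 1056414 0) (P.cons (P.lf 0 91333 0) P.nil)) (P.cons (P.cons (P.lf 0 123693 0) P.nil) P.nil)))))) 582417)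
 (EL.cons 6 (TM.mk (P.cons (P.cons (P.lf 0 98578224 0) (P.cons (P.lf 0 25899918 0) (P.cons (P.lf 4994772 0 0) (P.cons (P.lf 1198662 0 0) (P.cons (P.lf 50208 0 0) (P.cons (P.lf 0 23178 0) P.nil)))))) (P.cons (P.cons (P.lf 2134092 0 0) (P.cons (P.lf 0 9970752 0) (P.cons (P.lf 0 2442768 0) (P.cons (P.lf 885276 0 0) (P.cons (P.lf 117492 0 0) P.nil))))) (P.cons (P.cons (P.lf 18904872 0 0) (P.cons (P.lf 0 1218450 0) (P.cons (P.lf 0 2329074 0) (P.cons (P.lf 305310 0 0) P.nil)))) (P.cons (P.cons (P.lf 4303536 0 0) (P.cons (P.lf 0 187464 0) (P.cons (P.lf 0 510258 0) P.nil))) (P.cons (P.cons (P.lf 85368 0 0) (P.cons (P.lf 0 64836 0) P.nil)) (P.cons (P.cons (P.lf 0 78126 0) P.nil) P.nil)))))) 347580)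
 EL.nil))))))
noncomputable def S111_140_364_512_3 : EL := (EL.cons 0 (TM.mk (P.cons (P.lf 4471113042 0 0) (P.cons (P.lf 0 506360443 0) (P.cons (P.lf 0 40320479 0) (P.cons (P.lf 1649728 0 0) (P.cons (P.lf 335571 0 0) (P.cons (P.lf 13014 0 0) P.nil)))))) 1861)
 (EL.cons 1 (TM.mk (P.cons (P.lf 1579171841 0 0) (P.cons (P.lf 165450982 0 0) (P.cons (P.lf 0 24357408 0) (P.cons (P.lf 0 2583976 0) (P.cons (P.lf 0 21706 0) (P.cons (P.lf 11396 0 0) P.nil)))))) 1057)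
 (EL.cons 5 (TM.mk (P.cons (P.lf 557754562 0 0) (P.cons (P.lf 180039266 0 0) (P.cons (P.lf 14336174 0 0) (P.cons (P.lf 0 586566 0) (P.cons (P.lf 0 119316 0) (P.cons (P.lf 0 4630 0) P.nil)))))) 378)
 EL.nil)))
noncomputable def S111_140_364_512_4 : EL := (EL.cons 0 (TM.mk (P.cons (P.cons (P.lf 0 1114479319 0) (P.cons (P.lf 0 120263008 0) (P.cons (P.lf 0 8040501 0) (P.lf 2680163 0 0)))) (P.cons (P.cons (P.lf 689962781 0 0) (P.cons (P.lf 0 44610111 0) (P.cons (P.lf 0 2982526 0) (P.lf 994171 0 0)))) (P.cons (P.cons (P.lf 0 26509981 0) (P.cons (P.lf 0 1656631 0) (P.cons (P.lf 0 110758 0) (P.lf 36914 0 0)))) (P.cons (P.cons (P.lf 0 14070752 0) (P.cons (P.lf 1232201 0 0) (P.cons (P.lf 82383 0 0) P.nil))) (P.cons (P.cons (P.lf 0 72198 0) (P.cons (P.lf 157515 0 0) P.nil)) (P.cons (P.cons (P.lf 166413 0 0) P.nil) P.nil)))))) 123710)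
 (EL.cons 1 (TM.mk (P.cons (P.cons (P.lf 0 393627793 0) (P.cons (P.lf 0 42476214 0) (P.cons (P.lf 0 2839858 0) (P.lf 946618 0 0)))) (P.cons (P.cons (P.lf 157871326 0 0) (P.cons (P.lf 0 25016799 0) (P.cons (P.lf 0 1672563 0) (P.lf 557518 0 0)))) (P.cons (P.cons (P.lf 36569319 0 0) (P.cons (P.lf 0 4796964 0) (P.cons (P.lf 0 320713 0) (P.lf 106901 0 0)))) (P.cons (P.cons (P.lf 0 3354885 0) (P.cons (P.lf 0 66759 0) (P.cons (P.lf 0 4462 0) P.nil))) (P.cons (P.cons (P.lf 0 873969 0) (P.cons (P.lf 98218 0 0) P.nil)) (P.cons (P.cons (P.lf 0 11538 0) P.nil) P.nil)))))) 60155)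
 (EL.cons 5 (TM.mk (P.cons (P.cons (P.lf 0 139027110 0) (P.cons (P.lf 0 15002358 0) (P.cons (P.lf 0 1003022 0) (P.lf 334340 0 0)))) (P.cons (P.cons (P.lf 25448252 0 0) (P.cons (P.lf 0 12106640 0) (P.cons (P.lf 0 809420 0) (P.lf 269806 0 0)))) (P.cons (P.cons (P.lf 22530700 0 0) (P.cons (P.lf 0 3894980 0) (P.cons (P.lf 0 260408 0) (P.lf 86802 0 0)))) (P.cons (P.cons (P.lf 2368174 0 0) (P.cons (P.lf 0 585010 0) (P.cons (P.lf 0 39110 0) P.nil))) (P.cons (P.cons (P.lf 0 248946 0) (P.cons (P.lf 0 22768 0) P.nil)) (P.cons (P.cons (P.lf 0 57698 0) P.nil) P.nil)))))) 32824)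
 EL.nil)))
noncomputable def S111_140_364_512_5 : EL := (EL.cons 0 (TM.mk (P.cons (P.cons (P.lf 277797527 0 0) (P.cons (P.lf 59954034 0 0) (P.cons (P.lf 7243192 0 0) (P.cons (P.lf 0 903582 0) (P.cons (P.lf 0 129719 0) (P.cons (P.lf 0 9638 0) P.nil)))))) (P.cons (P.cons (P.lf 0 312502234 0) (P.cons (P.lf 0 8087818 0) (P.cons (P.lf 2225438 0 0) (P.cons (P.lf 550123 0 0) (P.cons (P.lf 0 110926 0) P.nil))))) (P.cons (P.cons (P.lf 86801751 0 0) (P.cons (P.lf 0 11891378 0) (P.cons (P.lf 81625 0 0) (P.cons (P.lf 382232 0 0) P.nil)))) (P.cons (P.cons (P.lf 5742588 0 0) (P.cons (P.lf 0 1281399 0) (P.cons (P.lf 4132 0 0) P.nil))) (P.cons (P.cons (P.lf 0 2621907 0) (P.cons (P.lf 352205 0 0) P.nil)) (P.cons (P.cons (P.lf 0 192918 0) P.nil) P.nil)))))) 607478)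
 (EL.cons 1 (TM.mk (P.cons (P.cons (P.lf 98116515 0 0) (P.cons (P.lf 21175425 0 0) (P.cons (P.lf 2558253 0 0) (P.cons (P.lf 0 319140 0) (P.cons (P.lf 0 45815 0) (P.cons (P.lf 0 3403 0) P.nil)))))) (P.cons (P.cons (P.lf 0 88982435 0) (P.cons (P.lf 1760141 0 0) (P.cons (P.lf 1343767 0 0) (P.cons (P.lf 124719 0 0) (P.cons (P.lf 0 49166 0) P.nil))))) (P.cons (P.cons (P.lf 8387971 0 0) (P.cons (P.lf 0 4435567 0) (P.cons (P.lf 246975 0 0) (P.cons (P.lf 171526 0 0) P.nil)))) (P.cons (P.cons (P.lf 6893484 0 0) (P.cons (P.lf 0 1377480 0) (P.cons (P.lf 27313 0 0) P.nil))) (P.cons (P.cons (P.lf 0 125349 0) (P.cons (P.lf 0 52095 0) P.nil)) (P.cons (P.cons (P.lf 0 193115 0) P.nil) P.nil)))))) 268229)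
 (EL.cons 5 (TM.mk (P.cons (P.cons (P.lf 34654198 0 0) (P.cons (P.lf 7479040 0 0) (P.cons (P.lf 903560 0 0) (P.cons (P.lf 0 112718 0) (P.cons (P.lf 0 16180 0) (P.cons (P.lf 0 1202 0) P.nil)))))) (P.cons (P.cons (P.lf 0 23872704 0) (P.cons (P.lf 2252268 0 0) (P.cons (P.lf 671606 0 0) (P.cons (P.lf 19474 0 0) (P.cons (P.lf 0 20892 0) P.nil))))) (P.cons (P.cons (P.lf 0 3255780 0) (P.cons (P.lf 0 1294322 0) (P.cons (P.lf 207228 0 0) (P.cons (P.lf 68124 0 0) P.nil)))) (P.cons (P.cons (P.lf 2576386 0 0) (P.cons (P.lf 0 801512 0) (P.cons (P.lf 39178 0 0) P.nil))) (P.cons (P.cons (P.lf 484696 0 0) (P.cons (P.lf 0 150164 0) P.nil)) (P.cons (P.cons (P.lf 0 33546 0) P.nil) P.nil)))))) 126100)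
 EL.nil)))
noncomputable def S111_140_364_512_6 : EL := (EL.cons 12 (TM.mk (P.lf 8589934592 0 0) 0)
 (EL.cons 3 (TM.mk (P.cons (P.lf 0 3098651666 0) (P.cons (P.lf 175463538 0 0) (P.cons (P.lf 18939693 0 0) (P.cons (P.lf 500812 0 0) (P.cons (P.lf 0 30041 0) (P.cons (P.lf 0 3150 0) P.nil)))))) 205)
 (EL.cons 7 (TM.mk (P.cons (P.lf 0 1094426245 0) (P.cons (P.lf 0 176636564 0) (P.cons (P.lf 189038 0 0) (P.cons (P.lf 544971 0 0) (P.cons (P.lf 29121 0 0) (P.cons (P.lf 0 63 0) P.nil)))))) 165)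
 EL.nil)))
noncomputable def S111_140_364_512_7 : EL := (EL.cons 12 (TM.mk (P.cons (P.cons (P.lf 0 2141145700 0) (P.cons (P.lf 0 231050160 0) (P.cons (P.lf 0 15447472 0) (P.lf 5149152 0 0)))) (P.cons (P.cons (P.lf 1083073416 0 0) (P.cons (P.lf 0 111872056 0) (P.cons (P.lf 0 7479504 0) (P.lf 2493160 0 0)))) (P.cons (P.cons (P.lf 52419720 0 0) (P.cons (P.lf 0 17936024 0) (P.cons (P.lf 0 1199160 0) (P.lf 399712 0 0)))) (P.cons (P.cons (P.lf 0 10539038 0) (P.cons (P.lf 0 587576 0) (P.cons (P.lf 0 39280 0) P.nil))) (P.cons (P.cons (P.lf 0 1098478 0) (P.cons (P.lf 132952 0 0) P.nil)) (P.cons (P.cons (P.lf 5876 0 0) P.nil) P.nil)))))) 69498)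
 (EL.cons 3 (TM.mk (P.cons (P.cons (P.lf 3193108518 0 0) (P.cons (P.lf 0 166693692 0) (P.cons (P.lf 0 11144748 0) (P.lf 3714910 0 0)))) (P.cons (P.cons (P.lf 58691432 0 0) (P.cons (P.lf 0 71272170 0) (P.cons (P.lf 0 4765088 0) (P.lf 1588356 0 0)))) (P.cons (P.cons (P.lf 0 61499196 0) (P.cons (P.lf 0 7350930 0) (P.cons (P.lf 0 491462 0) (P.lf 163814 0 0)))) (P.cons (P.cons (P.lf 0 11631869 0) (P.cons (P.lf 829100 0 0) (P.cons (P.lf 55434 0 0) P.nil))) (P.cons (P.cons (P.lf 0 197462 0) (P.cons (P.lf 210444 0 0) P.nil)) (P.cons (P.cons (P.lf 116308 0 0) P.nil) P.nil)))))) 225891)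
 (EL.cons 7 (TM.mk (P.cons (P.cons (P.lf 0 2164116160 0) (P.cons (P.lf 281149784 0 0) (P.cons (P.lf 18797021 0 0) (P.lf 0 6265674 0)))) (P.cons (P.cons (P.lf 0 59083812 0) (P.cons (P.lf 71748655 0 0) (P.cons (P.lf 4796948 0 0) (P.lf 0 1598985 0)))) (P.cons (P.cons (P.lf 68351124 0 0) (P.cons (P.lf 0 421321 0) (P.cons (P.lf 0 28168 0) (P.lf 9388 0 0)))) (P.cons (P.cons (P.lf 2135039 0 0) (P.cons (P.lf 0 1210714 0) (P.cons (P.lf 0 80943 0) P.nil))) (P.cons (P.cons (P.lf 0 745213 0) (P.cons (P.lf 0 46474 0) P.nil)) (P.cons (P.cons (P.lf 0 63411 0) P.nil) P.nil)))))) 123629)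
 (EL.cons 10 (TM.mk (P.cons (P.cons (P.lf 0 776011218 0) (P.cons (P.lf 0 120146022 0) (P.cons (P.lf 57882564 0 0) (P.cons (P.lf 2190444 0 0) (P.lf 0 547611 0))))) (P.cons (P.cons (P.lf 0 250490985 0) (P.cons (P.lf 0 38782293 0) (P.cons (P.lf 18684084 0 0) (P.cons (P.lf 707058 0 0) (P.lf 0 176763 0))))) (P.cons (P.cons (P.lf 0 19946106 0) (P.cons (P.lf 0 3088158 0) (P.cons (P.lf 1487775 0 0) (P.cons (P.lf 56301 0 0) P.nil)))) (P.cons (P.cons (P.lf 816096 0 0) (P.cons (P.lf 126351 0 0) (P.cons (P.lf 0 60870 0) P.nil))) (P.cons (P.cons (P.lf 166005 0 0) (P.cons (P.lf 25701 0 0) P.nil)) (P.cons (P.cons (P.lf 6441 0 0) P.nil) P.nil)))))) 32172)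
 EL.nil))))
noncomputable def S111_140_364_512_8 : EL := (EL.cons 12 (TM.mk (P.cons (P.cons (P.lf 533706614 0 0) (P.cons (P.lf 115184126 0 0) (P.cons (P.lf 13915676 0 0) (P.cons (P.lf 0 1735972 0) (P.cons (P.lf 0 249220 0) (P.cons (P.lf 0 18518 0) P.nil)))))) (P.cons (P.cons (P.lf 0 539938450 0) (P.cons (P.lf 0 2493596 0) (P.cons (P.lf 5851502 0 0) (P.cons (P.lf 860302 0 0) (P.cons (P.lf 0 241340 0) P.nil))))) (P.cons (P.cons (P.lf 110428256 0 0) (P.cons (P.lf 0 22089478 0) (P.cons (P.lf 945006 0 0) (P.cons (P.lf 816124 0 0) P.nil)))) (P.cons (P.cons (P.lf 18472788 0 0) (P.cons (P.lf 0 5028490 0) (P.cons (P.lf 162598 0 0) P.nil))) (P.cons (P.cons (P.lf 0 1790150 0) (P.cons (P.lf 0 99750 0) P.nil)) (P.cons (P.cons (P.lf 0 408562 0) P.nil) P.nil)))))) 743496)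
 (EL.cons 3 (TM.mk (P.cons (P.cons (P.lf 0 1399318015 0) (P.cons (P.lf 0 47123758 0) (P.cons (P.lf 8058637 0 0) (P.cons (P.lf 2549037 0 0) (P.cons (P.lf 0 449506 0) (P.cons (P.lf 0 33401 0) P.nil)))))) (P.cons (P.cons (P.lf 570281506 0 0) (P.cons (P.lf 0 96086035 0) (P.cons (P.lf 3795958 0 0) (P.cons (P.lf 3507932 0 0) (P.cons (P.lf 0 409841 0) P.nil))))) (P.cons (P.cons (P.lf 134118065 0 0) (P.cons (P.lf 0 36069105 0) (P.cons (P.lf 1273516 0 0) (P.cons (P.lf 1296572 0 0) P.nil)))) (P.cons (P.cons (P.lf 0 11261205 0) (P.cons (P.lf 0 2546105 0) (P.cons (P.lf 413912 0 0) P.nil))) (P.cons (P.cons (P.lf 0 5779310 0) (P.cons (P.lf 1009190 0 0) P.nil)) (P.cons (P.cons (P.lf 0 269152 0) P.nil) P.nil)))))) 1920305)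
 (EL.cons 7 (TM.mk (P.cons (P.cons (P.lf 1146863043 0 0) (P.cons (P.lf 0 9064801 0) (P.cons (P.lf 0 14938852 0) (P.cons (P.lf 0 1714490 0) (P.cons (P.lf 574770 0 0) (P.cons (P.lf 42709 0 0) P.nil)))))) (P.cons (P.cons (P.lf 0 574094005 0) (P.cons (P.lf 96728398 0 0) (P.cons (P.lf 0 3821330 0) (P.cons (P.lf 0 3531382 0) (P.cons (P.lf 412577 0 0) P.nil))))) (P.cons (P.cons (P.lf 0 72432042 0) (P.cons (P.lf 25765765 0 0) (P.cons (P.lf 0 865464 0) (P.cons (P.lf 0 920273 0) P.nil)))) (P.cons (P.cons (P.lf 25363493 0 0) (P.cons (P.lf 0 1771440 0) (P.cons (P.lf 0 267593 0) P.nil))) (P.cons (P.cons (P.lf 2624392 0 0) (P.cons (P.lf 0 1010974 0) P.nil)) (P.cons (P.cons (P.lf 0 380265 0) P.nil) P.nil)))))) 1080047)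
 (EL.cons 10 (TM.mk (P.cons (P.cons (P.lf 386860470 0 0) (P.cons (P.lf 101641668 0 0) (P.cons (P.lf 0 19601502 0) (P.cons (P.lf 0 4704036 0) (P.cons (P.lf 0 197058 0) (P.cons (P.lf 90972 0 0) P.nil)))))) (P.cons (P.cons (P.lf 0 70812978 0) (P.cons (P.lf 22724622 0 0) (P.cons (P.lf 12750036 0 0) (P.cons (P.lf 0 2714970 0) (P.cons (P.lf 0 429300 0) P.nil))))) (P.cons (P.cons (P.lf 0 62694516 0) (P.cons (P.lf 1131588 0 0) (P.cons (P.lf 7079034 0 0) (P.cons (P.lf 0 760806 0) P.nil)))) (P.cons (P.cons (P.lf 0 6589740 0) (P.cons (P.lf 607608 0 0) (P.cons (P.lf 852390 0 0) P.nil))) (P.cons (P.cons (P.lf 692724 0 0) (P.cons (P.lf 170604 0 0) P.nil)) (P.cons (P.cons (P.lf 160554 0 0) P.nil) P.nil)))))) 808926)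
 EL.nil))))
noncomputable def S111_140_364_512_9 : EL := (EL.cons 3 (TM.mk (P.cons (P.lf 0 3098651666 0) (P.cons (P.lf 175463538 0 0) (P.cons (P.lf 18939693 0 0) (P.cons (P.lf 500812 0 0) (P.cons (P.lf 0 30041 0) (P.cons (P.lf 0 3150 0) P.nil)))))) 205)
 (EL.cons 7 (TM.mk (P.cons (P.lf 0 1094426245 0) (P.cons (P.lf 0 176636564 0) (P.cons (P.lf 189038 0 0) (P.cons (P.lf 544971 0 0) (P.cons (P.lf 29121 0 0) (P.cons (P.lf 0 63 0) P.nil)))))) 165)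
 EL.nil))
noncomputable def S111_140_364_512_10 : EL := (EL.cons 3 (TM.mk (P.cons (P.cons (P.lf 772376625 0 0) (P.cons (P.lf 83346846 0 0) (P.cons (P.lf 5572374 0 0) (P.lf 0 1857455 0)))) (P.cons (P.cons (P.lf 0 434434069 0) (P.cons (P.lf 35636085 0 0) (P.cons (P.lf 2382544 0 0) (P.lf 0 794178 0)))) (P.cons (P.cons (P.lf 0 1506786 0) (P.cons (P.lf 3675465 0 0) (P.cons (P.lf 245731 0 0) (P.lf 0 81907 0)))) (P.cons (P.cons (P.lf 7135714 0 0) (P.cons (P.lf 0 414550 0) (P.cons (P.lf 0 27717 0) P.nil))) (P.cons (P.cons (P.lf 367189 0 0) (P.cons (P.lf 0 105222 0) P.nil)) (P.cons (P.cons (P.lf 0 47741 0) P.nil) P.nil)))))) 55805)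
 (EL.cons 7 (TM.mk (P.cons (P.cons (P.lf 272799056 0 0) (P.cons (P.lf 29437634 0 0) (P.cons (P.lf 1968131 0 0) (P.lf 0 656043 0)))) (P.cons (P.cons (P.lf 0 93963387 0) (P.cons (P.lf 19004524 0 0) (P.cons (P.lf 1270598 0 0) (P.lf 0 423531 0)))) (P.cons (P.cons (P.lf 0 28997268 0) (P.cons (P.lf 4580555 0 0) (P.cons (P.lf 306245 0 0) (P.lf 0 102080 0)))) (P.cons (P.cons (P.lf 152834 0 0) (P.cons (P.lf 426563 0 0) (P.cons (P.lf 28518 0 0) P.nil))) (P.cons (P.cons (P.lf 419279 0 0) (P.cons (P.lf 0 13132 0) P.nil)) (P.cons (P.cons (P.lf 28620 0 0) P.nil) P.nil)))))) 26158)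
 EL.nil))
noncomputable def S111_140_364_512_11 : EL := (EL.cons 3 (TM.mk (P.cons (P.cons (P.lf 0 192524269 0) (P.cons (P.lf 0 41550430 0) (P.cons (P.lf 0 5019809 0) (P.cons (P.lf 626217 0 0) (P.cons (P.lf 89900 0 0) (P.cons (P.lf 6679 0 0) P.nil)))))) (P.cons (P.cons (P.lf 205674118 0 0) (P.cons (P.lf 3252341 0 0) (P.cons (P.lf 0 1826564 0) (P.cons (P.lf 0 345796 0) (P.cons (P.lf 81967 0 0) P.nil))))) (P.cons (P.cons (P.lf 0 49687219 0) (P.cons (P.lf 8171379 0 0) (P.cons (P.lf 0 190682 0) (P.cons (P.lf 0 280654 0) P.nil)))) (P.cons (P.cons (P.lf 0 5567397 0) (P.cons (P.lf 1363933 0 0) (P.cons (P.lf 0 25636 0) P.nil))) (P.cons (P.cons (P.lf 1233232 0 0) (P.cons (P.lf 0 115984 0) P.nil)) (P.cons (P.cons (P.lf 159674 0 0) P.nil) P.nil)))))) 348631)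
 (EL.cons 7 (TM.mk (P.cons (P.cons (P.lf 0 67998483 0) (P.cons (P.lf 0 14675377 0) (P.cons (P.lf 0 1772968 0) (P.cons (P.lf 221176 0 0) (P.cons (P.lf 31752 0 0) (P.cons (P.lf 2359 0 0) P.nil)))))) (P.cons (P.cons (P.lf 57817751 0 0) (P.cons (P.lf 0 2050850 0) (P.cons (P.lf 0 1031678 0) (P.cons (P.lf 0 73912 0) (P.cons (P.lf 35873 0 0) P.nil))))) (P.cons (P.cons (P.lf 0 2954832 0) (P.cons (P.lf 2868187 0 0) (P.cons (P.lf 0 240420 0) (P.cons (P.lf 0 121709 0) P.nil)))) (P.cons (P.cons (P.lf 0 4602361 0) (P.cons (P.lf 1102152 0 0) (P.cons (P.lf 0 39137 0) P.nil))) (P.cons (P.cons (P.lf 0 181796 0) (P.cons (P.lf 115856 0 0) P.nil)) (P.cons (P.cons (P.lf 94443 0 0) P.nil) P.nil)))))) 150649)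
 EL.nil))
noncomputable def S111_140_364_512_12 : EL := (EL.cons 4 (TM.mk (P.cons (P.lf 3098651666 0 0) (P.cons (P.lf 0 175463538 0) (P.cons (P.lf 0 18939693 0) (P.cons (P.lf 0 500812 0) (P.cons (P.lf 30041 0 0) (P.cons (P.lf 3150 0 0) P.nil)))))) 205)
 (EL.cons 8 (TM.mk (P.cons (P.lf 1094426245 0 0) (P.cons (P.lf 176636564 0 0) (P.cons (P.lf 0 189038 0) (P.cons (P.lf 0 544971 0) (P.cons (P.lf 0 29121 0) (P.cons (P.lf 63 0 0) P.nil)))))) 165)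
 EL.nil))
noncomputable def S111_140_364_512_13 : EL := (EL.cons 4 (TM.mk (P.cons (P.cons (P.lf 0 772376625 0) (P.cons (P.lf 0 83346846 0) (P.cons (P.lf 0 5572374 0) (P.lf 1857455 0 0)))) (P.cons (P.cons (P.lf 434434069 0 0) (P.cons (P.lf 0 35636085 0) (P.cons (P.lf 0 2382544 0) (P.lf 794178 0 0)))) (P.cons (P.cons (P.lf 1506786 0 0) (P.cons (P.lf 0 3675465 0) (P.cons (P.lf 0 245731 0) (P.lf 81907 0 0)))) (P.cons (P.cons (P.lf 0 7135714 0) (P.cons (P.lf 414550 0 0) (P.cons (P.lf 27717 0 0) P.nil))) (P.cons (P.cons (P.lf 0 367189 0) (P.cons (P.lf 105222 0 0) P.nil)) (P.cons (P.cons (P.lf 47741 0 0) P.nil) P.nil)))))) 55805)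
 (EL.cons 8 (TM.mk (P.cons (P.cons (P.lf 0 272799056 0) (P.cons (P.lf 0 29437634 0) (P.cons (P.lf 0 1968131 0) (P.lf 656043 0 0)))) (P.cons (P.cons (P.lf 93963387 0 0) (P.cons (P.lf 0 19004524 0) (P.cons (P.lf 0 1270598 0) (P.lf 423531 0 0)))) (P.cons (P.cons (P.lf 28997268 0 0) (P.cons (P.lf 0 4580555 0) (P.cons (P.lf 0 306245 0) (P.lf 102080 0 0)))) (P.cons (P.cons (P.lf 0 152834 0) (P.cons (P.lf 0 426563 0) (P.cons (P.lf 0 28518 0) P.nil))) (P.cons (P.cons (P.lf 0 419279 0) (P.cons (P.lf 13132 0 0) P.nil)) (P.cons (P.cons (P.lf 0 28620 0) P.nil) P.nil)))))) 26158)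
 EL.nil))
noncomputable def S111_140_364_512_14 : EL := (EL.cons 4 (TM.mk (P.cons (P.cons (P.lf 192524269 0 0) (P.cons (P.lf 41550430 0 0) (P.cons (P.lf 5019809 0 0) (P.cons (P.lf 0 626217 0) (P.cons (P.lf 0 89900 0) (P.cons (P.lf 0 6679 0) P.nil)))))) (P.cons (P.cons (P.lf 0 205674118 0) (P.cons (P.lf 0 3252341 0) (P.cons (P.lf 1826564 0 0) (P.cons (P.lf 345796 0 0) (P.cons (P.lf 0 81967 0) P.nil))))) (P.cons (P.cons (P.lf 49687219 0 0) (P.cons (P.lf 0 8171379 0) (P.cons (P.lf 190682 0 0) (P.cons (P.lf 280654 0 0) P.nil)))) (P.cons (P.cons (P.lf 5567397 0 0) (P.cons (P.lf 0 1363933 0) (P.cons (P.lf 25636 0 0) P.nil))) (P.cons (P.cons (P.lf 0 1233232 0) (P.cons (P.lf 115984 0 0) P.nil)) (P.cons (P.cons (P.lf 0 159674 0) P.nil) P.nil)))))) 348631)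
 (EL.cons 8 (TM.mk (P.cons (P.cons (P.lf 67998483 0 0) (P.cons (P.lf 14675377 0 0) (P.cons (P.lf 1772968 0 0) (P.cons (P.lf 0 221176 0) (P.cons (P.lf 0 31752 0) (P.cons (P.lf 0 2359 0) P.nil)))))) (P.cons (P.cons (P.lf 0 57817751 0) (P.cons (P.lf 2050850 0 0) (P.cons (P.lf 1031678 0 0) (P.cons (P.lf 73912 0 0) (P.cons (P.lf 0 35873 0) P.nil))))) (P.cons (P.cons (P.lf 2954832 0 0) (P.cons (P.lf 0 2868187 0) (P.cons (P.lf 240420 0 0) (P.cons (P.lf 121709 0 0) P.nil)))) (P.cons (P.cons (P.lf 4602361 0 0) (P.cons (P.lf 0 1102152 0) (P.cons (P.lf 39137 0 0) P.nil))) (P.cons (P.cons (P.lf 181796 0 0) (P.cons (P.lf 0 115856 0) P.nil)) (P.cons (P.cons (P.lf 0 94443 0) P.nil) P.nil)))))) 150649)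
 EL.nil))
noncomputable def S111_140_364_512_15 : EL := (EL.cons 4 (TM.mk (P.cons (P.lf 0 2384593622 0) (P.cons (P.lf 270058903 0 0) (P.cons (P.lf 21504255 0 0) (P.cons (P.lf 0 879855 0) (P.cons (P.lf 0 178971 0) (P.cons (P.lf 0 6941 0) P.nil)))))) 996)
 (EL.cons 8 (TM.mk (P.cons (P.lf 0 842224982 0) (P.cons (P.lf 0 88240524 0) (P.cons (P.lf 12990618 0 0) (P.cons (P.lf 1378121 0 0) (P.cons (P.lf 11577 0 0) (P.cons (P.lf 0 6078 0) P.nil)))))) 560)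
 EL.nil))
noncomputable def S111_140_364_512_16 : EL := (EL.cons 4 (TM.mk (P.cons (P.cons (P.lf 594388970 0 0) (P.cons (P.lf 64140270 0 0) (P.cons (P.lf 4288267 0 0) (P.lf 0 1429420 0)))) (P.cons (P.cons (P.lf 0 367980150 0) (P.cons (P.lf 23792059 0 0) (P.cons (P.lf 1590680 0 0) (P.lf 0 530224 0)))) (P.cons (P.cons (P.lf 14138656 0 0) (P.cons (P.lf 883536 0 0) (P.cons (P.lf 59070 0 0) (P.lf 0 19687 0)))) (P.cons (P.cons (P.lf 7504401 0 0) (P.cons (P.lf 0 657174 0) (P.cons (P.lf 0 43937 0) P.nil))) (P.cons (P.cons (P.lf 38505 0 0) (P.cons (P.lf 0 84008 0) P.nil)) (P.cons (P.cons (P.lf 0 88754 0) P.nil) P.nil)))))) 65988)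
 (EL.cons 8 (TM.mk (P.cons (P.cons (P.lf 209934823 0 0) (P.cons (P.lf 22653981 0 0) (P.cons (P.lf 1514591 0 0) (P.lf 0 504863 0)))) (P.cons (P.cons (P.lf 0 84198041 0) (P.cons (P.lf 13342293 0 0) (P.cons (P.lf 892034 0 0) (P.lf 0 297343 0)))) (P.cons (P.cons (P.lf 0 19503637 0) (P.cons (P.lf 2558381 0 0) (P.cons (P.lf 171047 0 0) (P.lf 0 57014 0)))) (P.cons (P.cons (P.lf 1789272 0 0) (P.cons (P.lf 35605 0 0) (P.cons (P.lf 2380 0 0) P.nil))) (P.cons (P.cons (P.lf 466117 0 0) (P.cons (P.lf 0 52383 0) P.nil)) (P.cons (P.cons (P.lf 6154 0 0) P.nil) P.nil)))))) 32073)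
 EL.nil))
noncomputable def S111_140_364_512_17 : EL := (EL.cons 4 (TM.mk (P.cons (P.cons (P.lf 0 148158681 0) (P.cons (P.lf 0 31975485 0) (P.cons (P.lf 0 3863036 0) (P.cons (P.lf 481910 0 0) (P.cons (P.lf 69183 0 0) (P.cons (P.lf 5140 0 0) P.nil)))))) (P.cons (P.cons (P.lf 166667858 0 0) (P.cons (P.lf 4313503 0 0) (P.cons (P.lf 0 1186900 0) (P.cons (P.lf 0 293399 0) (P.cons (P.lf 59160 0 0) P.nil))))) (P.cons (P.cons (P.lf 0 46294267 0) (P.cons (P.lf 6342068 0 0) (P.cons (P.lf 0 43533 0) (P.cons (P.lf 0 203857 0) P.nil)))) (P.cons (P.cons (P.lf 0 3062714 0) (P.cons (P.lf 683413 0 0) (P.cons (P.lf 0 2204 0) P.nil))) (P.cons (P.cons (P.lf 1398350 0 0) (P.cons (P.lf 0 187843 0) P.nil)) (P.cons (P.cons (P.lf 102889 0 0) P.nil) P.nil)))))) 323998)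
 (EL.cons 8 (TM.mk (P.cons (P.cons (P.lf 0 52328808 0) (P.cons (P.lf 0 11293560 0) (P.cons (P.lf 0 1364402 0) (P.cons (P.lf 170208 0 0) (P.cons (P.lf 24435 0 0) (P.cons (P.lf 1815 0 0) P.nil)))))) (P.cons (P.cons (P.lf 47457299 0 0) (P.cons (P.lf 0 938742 0) (P.cons (P.lf 0 716676 0) (P.cons (P.lf 0 66517 0) (P.cons (P.lf 26222 0 0) P.nil))))) (P.cons (P.cons (P.lf 0 4473585 0) (P.cons (P.lf 2365636 0 0) (P.cons (P.lf 0 131720 0) (P.cons (P.lf 0 91481 0) P.nil)))) (P.cons (P.cons (P.lf 0 3676525 0) (P.cons (P.lf 734656 0 0) (P.cons (P.lf 0 14567 0) P.nil))) (P.cons (P.cons (P.lf 66853 0 0) (P.cons (P.lf 27784 0 0) P.nil)) (P.cons (P.cons (P.lf 102995 0 0) P.nil) P.nil)))))) 143044)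
 EL.nil))
noncomputable def S111_140_364_512_18 : EL := (EL.cons 4 (TM.mk (P.cons (P.lf 1835084209 0 0) (P.cons (P.lf 0 311739172 0) (P.cons (P.lf 0 15996937 0) (P.cons (P.lf 2587877 0 0) (P.cons (P.lf 251917 0 0) (P.cons (P.lf 0 4069 0) P.nil)))))) 2661)
 (EL.cons 8 (TM.mk (P.cons (P.lf 648141365 0 0) (P.cons (P.lf 31204738 0 0) (P.cons (P.lf 0 17803876 0) (P.cons (P.lf 0 1014268 0) (P.cons (P.lf 107557 0 0) (P.cons (P.lf 14597 0 0) P.nil)))))) 1054)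
 EL.nil))
noncomputable def S111_140_364_512_19 : EL := (EL.cons 4 (TM.mk (P.cons (P.cons (P.lf 0 457417064 0) (P.cons (P.lf 0 49359688 0) (P.cons (P.lf 0 3300072 0) (P.lf 1100023 0 0)))) (P.cons (P.cons (P.lf 309083833 0 0) (P.cons (P.lf 0 15514350 0) (P.cons (P.lf 0 1037252 0) (P.lf 345749 0 0)))) (P.cons (P.cons (P.lf 0 24120094 0) (P.cons (P.lf 658547 0 0) (P.cons (P.lf 44028 0 0) (P.lf 0 14677 0)))) (P.cons (P.cons (P.lf 0 6815905 0) (P.cons (P.lf 664125 0 0) (P.cons (P.lf 44401 0 0) P.nil))) (P.cons (P.cons (P.lf 313685 0 0) (P.cons (P.lf 42648 0 0) P.nil)) (P.cons (P.cons (P.lf 109317 0 0) P.nil) P.nil)))))) 72316)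
 (EL.cons 8 (TM.mk (P.cons (P.cons (P.lf 0 161557120 0) (P.cons (P.lf 0 17433562 0) (P.cons (P.lf 0 1165566 0) (P.lf 388521 0 0)))) (P.cons (P.cons (P.lf 73943612 0 0) (P.cons (P.lf 0 9280485 0) (P.cons (P.lf 0 620471 0) (P.lf 206823 0 0)))) (P.cons (P.cons (P.lf 12327580 0 0) (P.cons (P.lf 0 1280851 0) (P.cons (P.lf 0 85634 0) (P.lf 28544 0 0)))) (P.cons (P.cons (P.lf 0 2596789 0) (P.cons (P.lf 149661 0 0) (P.cons (P.lf 10006 0 0) P.nil))) (P.cons (P.cons (P.lf 0 384512 0) (P.cons (P.lf 55388 0 0) P.nil)) (P.cons (P.cons (P.lf 22029 0 0) P.nil) P.nil)))))) 33498)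
 EL.nil))
noncomputable def S111_140_364_512_20 : EL := (EL.cons 4 (TM.mk (P.cons (P.cons (P.lf 114016767 0 0) (P.cons (P.lf 24607005 0 0) (P.cons (P.lf 2972832 0 0) (P.cons (P.lf 0 370858 0) (P.cons (P.lf 0 53240 0) (P.cons (P.lf 0 3955 0) P.nil)))))) (P.cons (P.cons (P.lf 0 134716949 0) (P.cons (P.lf 0 4712882 0) (P.cons (P.lf 745050 0 0) (P.cons (P.lf 246788 0 0) (P.cons (P.lf 0 42512 0) P.nil))))) (P.cons (P.cons (P.lf 42192106 0 0) (P.cons (P.lf 0 4843027 0) (P.cons (P.lf 0 36389 0) (P.cons (P.lf 146361 0 0) P.nil)))) (P.cons (P.cons (P.lf 1105110 0 0) (P.cons (P.lf 0 233246 0) (P.cons (P.lf 0 6263 0) P.nil))) (P.cons (P.cons (P.lf 0 1405496 0) (P.cons (P.lf 204943 0 0) P.nil)) (P.cons (P.cons (P.lf 0 39535 0) P.nil) P.nil)))))) 294636)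
 (EL.cons 8 (TM.mk (P.cons (P.cons (P.lf 40270077 0 0) (P.cons (P.lf 8691055 0 0) (P.cons (P.lf 1049987 0 0) (P.cons (P.lf 0 130985 0) (P.cons (P.lf 0 18804 0) (P.cons (P.lf 0 1397 0) P.nil)))))) (P.cons (P.cons (P.lf 0 38801490 0) (P.cons (P.lf 230279 0 0) (P.cons (P.lf 492068 0 0) (P.cons (P.lf 58606 0 0) (P.cons (P.lf 0 19115 0) P.nil))))) (P.cons (P.cons (P.lf 5264584 0 0) (P.cons (P.lf 0 1914524 0) (P.cons (P.lf 63718 0 0) (P.cons (P.lf 68302 0 0) P.nil)))) (P.cons (P.cons (P.lf 2851073 0 0) (P.cons (P.lf 0 468094 0) (P.cons (P.lf 1930 0 0) P.nil))) (P.cons (P.cons (P.lf 0 226408 0) (P.cons (P.lf 21726 0 0) P.nil)) (P.cons (P.cons (P.lf 0 94510 0) P.nil) P.nil)))))) 129539)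
 EL.nil))
noncomputable def S111_140_364_512_21 : EL := (EL.cons 4 (TM.mk (P.cons (P.cons (P.lf 0 2420731893 0) (P.cons (P.lf 250040538 0 0) (P.cons (P.lf 16717122 0 0) (P.lf 0 5572365 0)))) (P.cons (P.cons (P.lf 0 493125501 0) (P.cons (P.lf 106908255 0 0) (P.cons (P.lf 7147632 0 0) (P.lf 0 2382534 0)))) (P.cons (P.cons (P.lf 59992410 0 0) (P.cons (P.lf 11026395 0 0) (P.cons (P.lf 737193 0 0) (P.lf 0 245721 0)))) (P.cons (P.cons (P.lf 18767583 0 0) (P.cons (P.lf 0 1243650 0) (P.cons (P.lf 0 83151 0) P.nil))) (P.cons (P.cons (P.lf 564651 0 0) (P.cons (P.lf 0 315666 0) P.nil)) (P.cons (P.cons (P.lf 0 164049 0) P.nil) P.nil)))))) 170067)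
 (EL.cons 8 (TM.mk (P.cons (P.cons (P.lf 2436915216 0 0) (P.cons (P.lf 0 251712150 0) (P.cons (P.lf 0 16828890 0) (P.lf 5609631 0 0)))) (P.cons (P.cons (P.lf 0 34879575 0) (P.cons (P.lf 0 52744131 0) (P.cons (P.lf 0 3526350 0) (P.lf 1175454 0 0)))) (P.cons (P.cons (P.lf 0 97348392 0) (P.cons (P.lf 5001876 0 0) (P.cons (P.lf 334413 0 0) (P.lf 0 111468 0)))) (P.cons (P.cons (P.lf 0 1982205 0) (P.cons (P.lf 1637277 0 0) (P.cons (P.lf 109461 0 0) P.nil))) (P.cons (P.cons (P.lf 1164492 0 0) (P.cons (P.lf 33342 0 0) P.nil)) (P.cons (P.cons (P.lf 92031 0 0) P.nil) P.nil)))))) 97452)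
 (EL.cons 11 (TM.mk (P.cons (P.cons (P.lf 776011218 0 0) (P.cons (P.lf 120146022 0 0) (P.cons (P.lf 0 57882564 0) (P.cons (P.lf 0 2190444 0) (P.lf 547611 0 0))))) (P.cons (P.cons (P.lf 250490985 0 0) (P.cons (P.lf 38782293 0 0) (P.cons (P.lf 0 18684084 0) (P.cons (P.lf 0 707058 0) (P.lf 176763 0 0))))) (P.cons (P.cons (P.lf 19946106 0 0) (P.cons (P.lf 3088158 0 0) (P.cons (P.lf 0 1487775 0) (P.cons (P.lf 0 56301 0) P.nil)))) (P.cons (P.cons (P.lf 0 816096 0) (P.cons (P.lf 0 126351 0) (P.cons (P.lf 60870 0 0) P.nil))) (P.cons (P.cons (P.lf 0 166005 0) (P.cons (P.lf 0 25701 0) P.nil)) (P.cons (P.cons (P.lf 0 6441 0) P.nil) P.nil)))))) 32172)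
 EL.nil)))
noncomputable def S111_140_364_512_22 : EL := (EL.cons 4 (TM.mk (P.cons (P.cons (P.lf 603396873 0 0) (P.cons (P.lf 2786664 0 0) (P.cons (P.lf 0 6539223 0) (P.cons (P.lf 0 961410 0) (P.cons (P.lf 269703 0 0) (P.cons (P.lf 20040 0 0) P.nil)))))) (P.cons (P.cons (P.lf 0 182303694 0) (P.cons (P.lf 49669188 0 0) (P.cons (P.lf 0 2811261 0) (P.cons (P.lf 0 1926864 0) (P.cons (P.lf 245904 0 0) P.nil))))) (P.cons (P.cons (P.lf 0 91902642 0) (P.cons (P.lf 22120242 0 0) (P.cons (P.lf 0 732099 0) (P.cons (P.lf 0 788613 0) P.nil)))) (P.cons (P.cons (P.lf 2846904 0 0) (P.cons (P.lf 1955019 0 0) (P.cons (P.lf 0 219774 0) P.nil))) (P.cons (P.cons (P.lf 3506271 0 0) (P.cons (P.lf 0 562587 0) P.nil)) (P.cons (P.cons (P.lf 214413 0 0) P.nil) P.nil)))))) 785826)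
 (EL.cons 8 (TM.mk (P.cons (P.cons (P.lf 0 607430763 0) (P.cons (P.lf 0 2805288 0) (P.cons (P.lf 6582942 0 0) (P.cons (P.lf 967833 0 0) (P.cons (P.lf 0 271509 0) (P.cons (P.lf 0 20175 0) P.nil)))))) (P.cons (P.cons (P.lf 315955878 0 0) (P.cons (P.lf 0 49389624 0) (P.cons (P.lf 1394826 0 0) (P.cons (P.lf 1728735 0 0) (P.cons (P.lf 0 188352 0) P.nil))))) (P.cons (P.cons (P.lf 34738605 0 0) (P.cons (P.lf 0 11448789 0) (P.cons (P.lf 312522 0 0) (P.cons (P.lf 399282 0 0) P.nil)))) (P.cons (P.cons (P.lf 0 14982927 0) (P.cons (P.lf 1436796 0 0) (P.cons (P.lf 114228 0 0) P.nil))) (P.cons (P.cons (P.lf 0 1403094 0) (P.cons (P.lf 563415 0 0) P.nil)) (P.cons (P.cons (P.lf 237354 0 0) P.nil) P.nil)))))) 464688)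
 (EL.cons 11 (TM.mk (P.cons (P.cons (P.lf 0 193430235 0) (P.cons (P.lf 0 50820834 0) (P.cons (P.lf 9800751 0 0) (P.cons (P.lf 2352018 0 0) (P.cons (P.lf 98529 0 0) (P.cons (P.lf 0 45486 0) P.nil)))))) (P.cons (P.cons (P.lf 35406489 0 0) (P.cons (P.lf 0 11362311 0) (P.cons (P.lf 0 6375018 0) (P.cons (P.lf 1357485 0 0) (P.cons (P.lf 214650 0 0) P.nil))))) (P.cons (P.cons (P.lf 31347258 0 0) (P.cons (P.lf 0 565794 0) (P.cons (P.lf 0 3539517 0) (P.cons (P.lf 380403 0 0) P.nil)))) (P.cons (P.cons (P.lf 3294870 0 0) (P.cons (P.lf 0 303804 0) (P.cons (P.lf 0 426195 0) P.nil))) (P.cons (P.cons (P.lf 0 346362 0) (P.cons (P.lf 0 85302 0) P.nil)) (P.cons (P.cons (P.lf 0 80277 0) P.nil) P.nil)))))) 404463)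
 EL.nil)))
noncomputable def S111_140_364_512_23 : EL := (EL.cons 4 (TM.mk (P.cons (P.cons (P.lf 1862894721 0 0) (P.cons (P.lf 0 192420810 0) (P.cons (P.lf 0 12864801 0) (P.lf 4288260 0 0)))) (P.cons (P.cons (P.lf 274001052 0 0) (P.cons (P.lf 0 71376174 0) (P.cons (P.lf 0 4772040 0) (P.lf 1590672 0 0)))) (P.cons (P.cons (P.lf 0 79042971 0) (P.cons (P.lf 0 2650608 0) (P.cons (P.lf 0 177207 0) (P.lf 59061 0 0)))) (P.cons (P.cons (P.lf 0 14449083 0) (P.cons (P.lf 1971522 0 0) (P.cons (P.lf 131811 0 0) P.nil))) (P.cons (P.cons (P.lf 622212 0 0) (P.cons (P.lf 252024 0 0) P.nil)) (P.cons (P.cons (P.lf 252162 0 0) P.nil) P.nil)))))) 210045)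
 (EL.cons 8 (TM.mk (P.cons (P.cons (P.lf 0 1875348735 0) (P.cons (P.lf 193707216 0 0) (P.cons (P.lf 12950814 0 0) (P.lf 0 4316937 0)))) (P.cons (P.cons (P.lf 133034937 0 0) (P.cons (P.lf 29620872 0 0) (P.cons (P.lf 1980381 0 0) (P.lf 0 660129 0)))) (P.cons (P.cons (P.lf 84857913 0 0) (P.cons (P.lf 0 7331643 0) (P.cons (P.lf 0 490176 0) (P.lf 163389 0 0)))) (P.cons (P.cons (P.lf 0 2577675 0) (P.cons (P.lf 0 1321413 0) (P.cons (P.lf 0 88344 0) P.nil))) (P.cons (P.cons (P.lf 0 1462941 0) (P.cons (P.lf 64533 0 0) P.nil)) (P.cons (P.cons (P.lf 0 43155 0) P.nil) P.nil)))))) 121269)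
 (EL.cons 11 (TM.mk (P.cons (P.cons (P.lf 0 597186000 0) (P.cons (P.lf 0 92459388 0) (P.cons (P.lf 44544015 0 0) (P.cons (P.lf 1685673 0 0) (P.lf 0 421416 0))))) (P.cons (P.cons (P.lf 0 158951340 0) (P.cons (P.lf 0 24609657 0) (P.cons (P.lf 11856153 0 0) (P.cons (P.lf 448668 0 0) (P.lf 0 112164 0))))) (P.cons (P.cons (P.lf 0 783945 0) (P.cons (P.lf 0 121374 0) (P.cons (P.lf 58470 0 0) (P.cons (P.lf 2211 0 0) P.nil)))) (P.cons (P.cons (P.lf 2771979 0 0) (P.cons (P.lf 429171 0 0) (P.cons (P.lf 0 206757 0) P.nil))) (P.cons (P.cons (P.lf 211374 0 0) (P.cons (P.lf 32724 0 0) P.nil)) (P.cons (P.cons (P.lf 0 6111 0) P.nil) P.nil)))))) 61443)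
 EL.nil)))
noncomputable def S111_140_364_512_24 : EL := (EL.cons 4 (TM.mk (P.cons (P.cons (P.lf 0 464349171 0) (P.cons (P.lf 0 2144499 0) (P.cons (P.lf 5032314 0 0) (P.cons (P.lf 739860 0 0) (P.cons (P.lf 0 207552 0) (P.cons (P.lf 0 15423 0) P.nil)))))) (P.cons (P.cons (P.lf 166587480 0 0) (P.cons (P.lf 0 38101908 0) (P.cons (P.lf 1878471 0 0) (P.cons (P.lf 1440939 0 0) (P.cons (P.lf 0 177483 0) P.nil))))) (P.cons (P.cons (P.lf 65618448 0 0) (P.cons (P.lf 0 14845284 0) (P.cons (P.lf 410130 0 0) (P.cons (P.lf 518394 0 0) P.nil)))) (P.cons (P.cons (P.lf 0 6978144 0) (P.cons (P.lf 0 306594 0) (P.cons (P.lf 123189 0 0) P.nil))) (P.cons (P.cons (P.lf 0 3033681 0) (P.cons (P.lf 628341 0 0) P.nil)) (P.cons (P.cons (P.lf 0 9363 0) P.nil) P.nil)))))) 617817)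
 (EL.cons 8 (TM.mk (P.cons (P.cons (P.lf 467453487 0 0) (P.cons (P.lf 2158833 0 0) (P.cons (P.lf 0 5065959 0) (P.cons (P.lf 0 744804 0) (P.cons (P.lf 208941 0 0) (P.cons (P.lf 15525 0 0) P.nil)))))) (P.cons (P.cons (P.lf 0 269616435 0) (P.cons (P.lf 37885956 0 0) (P.cons (P.lf 0 786537 0) (P.cons (P.lf 0 1288188 0) (P.cons (P.lf 133116 0 0) P.nil))))) (P.cons (P.cons (P.lf 0 15822216 0) (P.cons (P.lf 6645072 0 0) (P.cons (P.lf 0 148758 0) (P.cons (P.lf 0 227385 0) P.nil)))) (P.cons (P.cons (P.lf 14454657 0 0) (P.cons (P.lf 0 1837266 0) (P.cons (P.lf 0 66906 0) P.nil))) (P.cons (P.cons (P.lf 634083 0 0) (P.cons (P.lf 0 430941 0) P.nil)) (P.cons (P.cons (P.lf 0 311835 0) P.nil) P.nil)))))) 360534)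
 (EL.cons 11 (TM.mk (P.cons (P.cons (P.lf 148855875 0 0) (P.cons (P.lf 39109602 0 0) (P.cons (P.lf 0 7542252 0) (P.cons (P.lf 0 1810014 0) (P.cons (P.lf 0 75825 0) (P.cons (P.lf 35004 0 0) P.nil)))))) (P.cons (P.cons (P.lf 0 35676441 0) (P.cons (P.lf 6529350 0 0) (P.cons (P.lf 5333034 0 0) (P.cons (P.lf 0 942171 0) (P.cons (P.lf 0 160890 0) P.nil))))) (P.cons (P.cons (P.lf 0 23490486 0) (P.cons (P.lf 0 298767 0) (P.cons (P.lf 2492160 0 0) (P.cons (P.lf 0 222522 0) P.nil)))) (P.cons (P.cons (P.lf 0 1027098 0) (P.cons (P.lf 149373 0 0) (P.cons (P.lf 144975 0 0) P.nil))) (P.cons (P.cons (P.lf 563421 0 0) (P.cons (P.lf 48711 0 0) P.nil)) (P.cons (P.cons (P.lf 65970 0 0) P.nil) P.nil)))))) 310611)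
 EL.nil)))
noncomputable def S111_140_364_512_25 : EL := (EL.cons 4 (TM.mk (P.cons (P.cons (P.lf 0 1433606403 0) (P.cons (P.lf 148079064 0 0) (P.cons (P.lf 9900216 0 0) (P.lf 0 3300066 0)))) (P.cons (P.cons (P.lf 0 129680763 0) (P.cons (P.lf 46543047 0 0) (P.cons (P.lf 3111756 0 0) (P.lf 0 1037247 0)))) (P.cons (P.cons (P.lf 81530829 0 0) (P.cons (P.lf 0 1975641 0) (P.cons (P.lf 0 132090 0) (P.lf 44034 0 0)))) (P.cons (P.cons (P.lf 9195501 0 0) (P.cons (P.lf 0 1992372 0) (P.cons (P.lf 0 133206 0) P.nil))) (P.cons (P.cons (P.lf 0 1460091 0) (P.cons (P.lf 0 127944 0) P.nil)) (P.cons (P.cons (P.lf 0 248235 0) P.nil) P.nil)))))) 221367)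
 (EL.cons 8 (TM.mk (P.cons (P.cons (P.lf 1443190494 0 0) (P.cons (P.lf 0 149069028 0) (P.cons (P.lf 0 9966408 0) (P.lf 3322134 0 0)))) (P.cons (P.cons (P.lf 0 184099938 0) (P.cons (P.lf 0 14353842 0) (P.cons (P.lf 0 959664 0) (P.lf 319890 0 0)))) (P.cons (P.cons (P.lf 0 68327004 0) (P.cons (P.lf 7844055 0 0) (P.cons (P.lf 524433 0 0) (P.lf 0 174810 0)))) (P.cons (P.cons (P.lf 6074019 0 0) (P.cons (P.lf 860838 0 0) (P.cons (P.lf 57549 0 0) P.nil))) (P.cons (P.cons (P.lf 1443177 0 0) (P.cons (P.lf 0 139491 0) P.nil)) (P.cons (P.cons (P.lf 0 31632 0) P.nil) P.nil)))))) 127371)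
 (EL.cons 11 (TM.mk (P.cons (P.cons (P.lf 459569544 0 0) (P.cons (P.lf 71152905 0 0) (P.cons (P.lf 0 34279224 0) (P.cons (P.lf 0 1297224 0) (P.lf 324306 0 0))))) (P.cons (P.cons (P.lf 96298869 0 0) (P.cons (P.lf 14909481 0 0) (P.cons (P.lf 0 7182915 0) (P.cons (P.lf 0 271821 0) (P.lf 67953 0 0))))) (P.cons (P.cons (P.lf 0 9132300 0) (P.cons (P.lf 0 1413909 0) (P.cons (P.lf 681177 0 0) (P.cons (P.lf 25776 0 0) P.nil)))) (P.cons (P.cons (P.lf 0 2989302 0) (P.cons (P.lf 0 462816 0) (P.cons (P.lf 222969 0 0) P.nil))) (P.cons (P.cons (P.lf 0 60870 0) (P.cons (P.lf 0 9423 0) P.nil)) (P.cons (P.cons (P.lf 28506 0 0) P.nil) P.nil)))))) 75060)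
 EL.nil)))
noncomputable def S111_140_364_512_26 : EL := (EL.cons 4 (TM.mk (P.cons (P.cons (P.lf 357343836 0 0) (P.cons (P.lf 1650318 0 0) (P.cons (P.lf 0 3872661 0) (P.cons (P.lf 0 569364 0) (P.cons (P.lf 159723 0 0) (P.cons (P.lf 11868 0 0) P.nil)))))) (P.cons (P.cons (P.lf 0 148433676 0) (P.cons (P.lf 29228196 0 0) (P.cons (P.lf 0 1226301 0) (P.cons (P.lf 0 1076646 0) (P.cons (P.lf 127539 0 0) P.nil))))) (P.cons (P.cons (P.lf 0 45422046 0) (P.cons (P.lf 9753867 0 0) (P.cons (P.lf 0 210090 0) (P.cons (P.lf 0 332661 0) P.nil)))) (P.cons (P.cons (P.lf 8955360 0 0) (P.cons (P.lf 0 590454 0) (P.cons (P.lf 0 67467 0) P.nil))) (P.cons (P.cons (P.lf 2363343 0 0) (P.cons (P.lf 0 571455 0) P.nil)) (P.cons (P.cons (P.lf 0 150531 0) P.nil) P.nil)))))) 516255)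
 (EL.cons 8 (TM.mk (P.cons (P.cons (P.lf 0 359732787 0) (P.cons (P.lf 0 1661349 0) (P.cons (P.lf 3898551 0 0) (P.cons (P.lf 573171 0 0) (P.cons (P.lf 0 160791 0) (P.cons (P.lf 0 11946 0) P.nil)))))) (P.cons (P.cons (P.lf 227855757 0 0) (P.cons (P.lf 0 29061384 0) (P.cons (P.lf 384528 0 0) (P.cons (P.lf 958878 0 0) (P.cons (P.lf 0 93336 0) P.nil))))) (P.cons (P.cons (P.lf 2625858 0 0) (P.cons (P.lf 0 3452667 0) (P.cons (P.lf 56373 0 0) (P.cons (P.lf 115347 0 0) P.nil)))) (P.cons (P.cons (P.lf 0 13023246 0) (P.cons (P.lf 1881927 0 0) (P.cons (P.lf 40677 0 0) P.nil))) (P.cons (P.cons (P.lf 30477 0 0) (P.cons (P.lf 287526 0 0) P.nil)) (P.cons (P.cons (P.lf 335277 0 0) P.nil) P.nil)))))) 306558)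
 (EL.cons 11 (TM.mk (P.cons (P.cons (P.lf 0 114553299 0) (P.cons (P.lf 0 30097125 0) (P.cons (P.lf 5804202 0 0) (P.cons (P.lf 1392912 0 0) (P.cons (P.lf 58350 0 0) (P.cons (P.lf 0 26937 0) P.nil)))))) (P.cons (P.cons (P.lf 33941775 0 0) (P.cons (P.lf 0 3320445 0) (P.cons (P.lf 0 4432749 0) (P.cons (P.lf 646179 0 0) (P.cons (P.lf 120510 0 0) P.nil))))) (P.cons (P.cons (P.lf 17222811 0 0) (P.cons (P.lf 698406 0 0) (P.cons (P.lf 0 1720944 0) (P.cons (P.lf 121674 0 0) P.nil)))) (P.cons (P.cons (P.lf 0 382524 0) (P.cons (P.lf 0 92394 0) (P.cons (P.lf 21180 0 0) P.nil))) (P.cons (P.cons (P.lf 0 594384 0) (P.cons (P.lf 0 31860 0) P.nil)) (P.cons (P.cons (P.lf 0 33819 0) P.nil) P.nil)))))) 256275)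
 EL.nil)))
noncomputable def S111_140_364_512_27 : EL := (EL.cons 13 (TM.mk (P.lf 0 4294967296 0) 0)
 EL.nil)
noncomputable def S111_140_364_512_28 : EL := (EL.cons 13 (TM.mk (P.cons (P.cons (P.lf 1070572850 0 0) (P.cons (P.lf 115525080 0 0) (P.cons (P.lf 7723736 0 0) (P.lf 0 2574576 0)))) (P.cons (P.cons (P.lf 0 541536708 0) (P.cons (P.lf 55936028 0 0) (P.cons (P.lf 3739752 0 0) (P.lf 0 1246580 0)))) (P.cons (P.cons (P.lf 0 26209860 0) (P.cons (P.lf 8968012 0 0) (P.cons (P.lf 599580 0 0) (P.lf 0 199856 0)))) (P.cons (P.cons (P.lf 5269519 0 0) (P.cons (P.lf 293788 0 0) (P.cons (P.lf 19640 0 0) P.nil))) (P.cons (P.cons (P.lf 549239 0 0) (P.cons (P.lf 0 66476 0) P.nil)) (P.cons (P.cons (P.lf 0 2938 0) P.nil) P.nil)))))) 34749)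
 EL.nil)
noncomputable def S111_140_364_512_29 : EL := (EL.cons 13 (TM.mk (P.cons (P.cons (P.lf 0 266853307 0) (P.cons (P.lf 0 57592063 0) (P.cons (P.lf 0 6957838 0) (P.cons (P.lf 867986 0 0) (P.cons (P.lf 124610 0 0) (P.cons (P.lf 9259 0 0) P.nil)))))) (P.cons (P.cons (P.lf 269969225 0 0) (P.cons (P.lf 1246798 0 0) (P.cons (P.lf 0 2925751 0) (P.cons (P.lf 0 430151 0) (P.cons (P.lf 120670 0 0) P.nil))))) (P.cons (P.cons (P.lf 0 55214128 0) (P.cons (P.lf 11044739 0 0) (P.cons (P.lf 0 472503 0) (P.cons (P.lf 0 408062 0) P.nil)))) (P.cons (P.cons (P.lf 0 9236394 0) (P.cons (P.lf 2514245 0 0) (P.cons (P.lf 0 81299 0) P.nil))) (P.cons (P.cons (P.lf 895075 0 0) (P.cons (P.lf 49875 0 0) P.nil)) (P.cons (P.cons (P.lf 204281 0 0) P.nil) P.nil)))))) 371748)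
 EL.nil)
noncomputable def S111_140_364_512_30 : EL := (EL.cons 13 (TM.mk (P.cons (P.lf 3305228444 0 0) (P.cons (P.lf 0 187161108 0) (P.cons (P.lf 0 20202340 0) (P.cons (P.lf 0 534200 0) (P.cons (P.lf 32044 0 0) (P.cons (P.lf 3360 0 0) P.nil)))))) 212)
 EL.nil)
noncomputable def S111_140_364_512_31 : EL := (EL.cons 13 (TM.mk (P.cons (P.cons (P.lf 0 823868400 0) (P.cons (P.lf 0 88903303 0) (P.cons (P.lf 0 5943866 0) (P.lf 1981286 0 0)))) (P.cons (P.cons (P.lf 463396341 0 0) (P.cons (P.lf 0 38011825 0) (P.cons (P.lf 0 2541381 0) (P.lf 847124 0 0)))) (P.cons (P.cons (P.lf 1607239 0 0) (P.cons (P.lf 0 3920496 0) (P.cons (P.lf 0 262114 0) (P.lf 87368 0 0)))) (P.cons (P.cons (P.lf 0 7611429 0) (P.cons (P.lf 442187 0 0) (P.cons (P.lf 29565 0 0) P.nil))) (P.cons (P.cons (P.lf 0 391669 0) (P.cons (P.lf 112237 0 0) P.nil)) (P.cons (P.cons (P.lf 50924 0 0) P.nil) P.nil))))))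 59506)
 EL.nil)
noncomputable def S111_140_364_512_32 : EL := (EL.cons 13 (TM.mk (P.cons (P.cons (P.lf 205359221 0 0) (P.cons (P.lf 44320459 0 0) (P.cons (P.lf 5354463 0 0) (P.cons (P.lf 0 667965 0) (P.cons (P.lf 0 95894 0) (P.cons (P.lf 0 7125 0) P.nil)))))) (P.cons (P.cons (P.lf 0 219385726 0) (P.cons (P.lf 0 3469164 0) (P.cons (P.lf 1948335 0 0) (P.cons (P.lf 368850 0 0) (P.cons (P.lf 0 87432 0) P.nil))))) (P.cons (P.cons (P.lf 52999701 0 0) (P.cons (P.lf 0 8716138 0) (P.cons (P.lf 203395 0 0) (P.cons (P.lf 299365 0 0) P.nil)))) (P.cons (P.cons (P.lf 5938557 0 0) (P.cons (P.lf 0 1454862 0) (P.cons (P.lf 27346 0 0) P.nil))) (P.cons (P.cons (P.lf 0 1315448 0) (P.cons (P.lf 123717 0 0) P.nil)) (P.cons (P.cons (P.lf 0 170319 0) P.nil) P.nil)))))) 371850)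
 EL.nil)
noncomputable def S111_140_364_512_33 : EL := (EL.cons 14 (TM.mk (P.lf 8589934592 0 0) 0)
 EL.nil)
noncomputable def S111_140_364_512_34 : EL := (EL.cons 14 (TM.mk (P.cons (P.cons (P.lf 0 2141145700 0) (P.cons (P.lf 0 231050160 0) (P.cons (P.lf 0 15447472 0) (P.lf 5149152 0 0)))) (P.cons (P.cons (P.lf 1083073416 0 0) (P.cons (P.lf 0 111872056 0) (P.cons (P.lf 0 7479504 0) (P.lf 2493160 0 0)))) (P.cons (P.cons (P.lf 52419720 0 0) (P.cons (P.lf 0 17936024 0) (P.cons (P.lf 0 1199160 0) (P.lf 399712 0 0)))) (P.cons (P.cons (P.lf 0 10539038 0) (P.cons (P.lf 0 587576 0) (P.cons (P.lf 0 39280 0) P.nil))) (P.cons (P.cons (P.lf 0 1098478 0) (P.cons (P.lf 132952 0 0) P.nil)) (P.cons (P.cons (P.lf 5876 0 0) P.nil) P.nil)))))) 69498)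
 EL.nil)
noncomputable def S111_140_364_512_35 : EL := (EL.cons 14 (TM.mk (P.cons (P.cons (P.lf 533706614 0 0) (P.cons (P.lf 115184126 0 0) (P.cons (P.lf 13915676 0 0) (P.cons (P.lf 0 1735972 0) (P.cons (P.lf 0 249220 0) (P.cons (P.lf 0 18518 0) P.nil)))))) (P.cons (P.cons (P.lf 0 539938450 0) (P.cons (P.lf 0 2493596 0) (P.cons (P.lf 5851502 0 0) (P.cons (P.lf 860302 0 0) (P.cons (P.lf 0 241340 0) P.nil))))) (P.cons (P.cons (P.lf 110428256 0 0) (P.cons (P.lf 0 22089478 0) (P.cons (P.lf 945006 0 0) (P.cons (P.lf 816124 0 0) P.nil)))) (P.cons (P.cons (P.lf 18472788 0 0) (P.cons (P.lf 0 5028490 0) (P.cons (P.lf 162598 0 0) P.nil))) (P.cons (P.cons (P.lf 0 1790150 0) (P.cons (P.lf 0 99750 0) P.nil)) (P.cons (P.cons (P.lf 0 408562 0) P.nil) P.nil)))))) 743496)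
 EL.nil)
noncomputable def S111_140_364_512_36 : EL := (EL.cons 14 (TM.mk (P.cons (P.lf 0 6610456888 0) (P.cons (P.lf 374322216 0 0) (P.cons (P.lf 40404680 0 0) (P.cons (P.lf 1068400 0 0) (P.cons (P.lf 0 64088 0) (P.cons (P.lf 0 6720 0) P.nil)))))) 424)
 EL.nil)
noncomputable def S111_140_364_512_37 : EL := (EL.cons 14 (TM.mk (P.cons (P.cons (P.lf 1647736800 0 0) (P.cons (P.lf 177806606 0 0) (P.cons (P.lf 11887732 0 0) (P.lf 0 3962572 0)))) (P.cons (P.cons (P.lf 0 926792682 0) (P.cons (P.lf 76023650 0 0) (P.cons (P.lf 5082762 0 0) (P.lf 0 1694248 0)))) (P.cons (P.cons (P.lf 0 3214478 0) (P.cons (P.lf 7840992 0 0) (P.cons (P.lf 524228 0 0) (P.lf 0 174736 0)))) (P.cons (P.cons (P.lf 15222858 0 0) (P.cons (P.lf 0 884374 0) (P.cons (P.lf 0 59130 0) P.nil))) (P.cons (P.cons (P.lf 783338 0 0) (P.cons (P.lf 0 224474 0) P.nil)) (P.cons (P.cons (P.lf 0 101848 0) P.nil) P.nil))))))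 119012)
 EL.nil)
noncomputable def S111_140_364_512_38 : EL := (EL.cons 14 (TM.mk (P.cons (P.cons (P.lf 0 410718442 0) (P.cons (P.lf 0 88640918 0) (P.cons (P.lf 0 10708926 0) (P.cons (P.lf 1335930 0 0) (P.cons (P.lf 191788 0 0) (P.cons (P.lf 14250 0 0) P.nil)))))) (P.cons (P.cons (P.lf 438771452 0 0) (P.cons (P.lf 6938328 0 0) (P.cons (P.lf 0 3896670 0) (P.cons (P.lf 0 737700 0) (P.cons (P.lf 174864 0 0) P.nil))))) (P.cons (P.cons (P.lf 0 105999402 0) (P.cons (P.lf 17432276 0 0) (P.cons (P.lf 0 406790 0) (P.cons (P.lf 0 598730 0) P.nil)))) (P.cons (P.cons (P.lf 0 11877114 0) (P.cons (P.lf 2909724 0 0) (P.cons (P.lf 0 54692 0) P.nil))) (P.cons (P.cons (P.lf 2630896 0 0) (P.cons (P.lf 0 247434 0) P.nil)) (P.cons (P.cons (P.lf 340638 0 0) P.nil) P.nil)))))) 743700)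
 EL.nil)
noncomputable def S111_140_364_512_39 : EL := (EL.cons 14 (TM.mk (P.cons (P.lf 5087133062 0 0) (P.cons (P.lf 0 576125660 0) (P.cons (P.lf 0 45875746 0) (P.cons (P.lf 1877024 0 0) (P.cons (P.lf 381806 0 0) (P.cons (P.lf 14808 0 0) P.nil)))))) 2110)
 EL.nil)
noncomputable def S111_140_364_512_40 : EL := (EL.cons 14 (TM.mk (P.cons (P.cons (P.lf 0 1268029804 0) (P.cons (P.lf 0 136832578 0) (P.cons (P.lf 0 9148304 0) (P.lf 3049430 0 0)))) (P.cons (P.cons (P.lf 785024320 0 0) (P.cons (P.lf 0 50756394 0) (P.cons (P.lf 0 3393452 0) (P.lf 1131146 0 0)))) (P.cons (P.cons (P.lf 0 30162468 0) (P.cons (P.lf 0 1884878 0) (P.cons (P.lf 0 126018 0) (P.lf 42000 0 0)))) (P.cons (P.cons (P.lf 0 16009390 0) (P.cons (P.lf 1401972 0 0) (P.cons (P.lf 93734 0 0) P.nil))) (P.cons (P.cons (P.lf 0 82146 0) (P.cons (P.lf 179218 0 0) P.nil)) (P.cons (P.cons (P.lf 189342 0 0) P.nil) P.nil))))))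 140734)
 EL.nil)
noncomputable def S111_140_364_512_41 : EL := (EL.cons 14 (TM.mk (P.cons (P.cons (P.lf 316071854 0 0) (P.cons (P.lf 68214368 0 0) (P.cons (P.lf 8241144 0 0) (P.cons (P.lf 0 1028076 0) (P.cons (P.lf 0 147592 0) (P.cons (P.lf 0 10966 0) P.nil)))))) (P.cons (P.cons (P.lf 0 355558098 0) (P.cons (P.lf 0 9202140 0) (P.cons (P.lf 2532054 0 0) (P.cons (P.lf 625918 0 0) (P.cons (P.lf 0 126210 0) P.nil))))) (P.cons (P.cons (P.lf 98761104 0 0) (P.cons (P.lf 0 13529746 0) (P.cons (P.lf 92872 0 0) (P.cons (P.lf 434896 0 0) P.nil)))) (P.cons (P.cons (P.lf 6533790 0 0) (P.cons (P.lf 0 1457948 0) (P.cons (P.lf 4702 0 0) P.nil))) (P.cons (P.cons (P.lf 0 2983148 0) (P.cons (P.lf 400732 0 0) P.nil)) (P.cons (P.cons (P.lf 0 219498 0) P.nil) P.nil)))))) 691150)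
 EL.nil)
noncomputable def S111_140_364_512_42 : EL := (EL.cons 14 (TM.mk (P.cons (P.lf 0 3914846314 0) (P.cons (P.lf 665043568 0 0) (P.cons (P.lf 34126800 0 0) (P.cons (P.lf 0 5520806 0) (P.cons (P.lf 0 537424 0) (P.cons (P.lf 8682 0 0) P.nil)))))) 5662)
 EL.nil)
noncomputable def S111_140_364_512_43 : EL := (EL.cons 14 (TM.mk (P.cons (P.cons (P.lf 975823070 0 0) (P.cons (P.lf 105300668 0 0) (P.cons (P.lf 7040154 0 0) (P.lf 0 2346716 0)))) (P.cons (P.cons (P.lf 0 659378844 0) (P.cons (P.lf 33097280 0 0) (P.cons (P.lf 2212806 0 0) (P.lf 0 737598 0)))) (P.cons (P.cons (P.lf 51456202 0 0) (P.cons (P.lf 0 1404902 0) (P.cons (P.lf 0 93928 0) (P.lf 31312 0 0)))) (P.cons (P.cons (P.lf 14540598 0 0) (P.cons (P.lf 0 1416800 0) (P.cons (P.lf 0 94724 0) P.nil))) (P.cons (P.cons (P.lf 0 669196 0) (P.cons (P.lf 0 90984 0) P.nil)) (P.cons (P.cons (P.lf 0 233210 0) P.nil) P.nil))))))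 154234)
 EL.nil)
noncomputable def S111_140_364_512_44 : EL := (EL.cons 14 (TM.mk (P.cons (P.cons (P.lf 0 243235770 0) (P.cons (P.lf 0 52494944 0) (P.cons (P.lf 0 6342042 0) (P.cons (P.lf 791164 0 0) (P.cons (P.lf 113580 0 0) (P.cons (P.lf 8438 0 0) P.nil)))))) (P.cons (P.cons (P.lf 287396158 0 0) (P.cons (P.lf 10054150 0 0) (P.cons (P.lf 0 1589440 0) (P.cons (P.lf 0 526482 0) (P.cons (P.lf 90694 0 0) P.nil))))) (P.cons (P.cons (P.lf 0 90009828 0) (P.cons (P.lf 10331792 0 0) (P.cons (P.lf 77630 0 0) (P.cons (P.lf 0 312238 0) P.nil)))) (P.cons (P.cons (P.lf 0 2357570 0) (P.cons (P.lf 497592 0 0) (P.cons (P.lf 13362 0 0) P.nil))) (P.cons (P.cons (P.lf 2998392 0 0) (P.cons (P.lf 0 437212 0) P.nil)) (P.cons (P.cons (P.lf 84342 0 0) P.nil) P.nil)))))) 628510)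
 EL.nil)
noncomputable def S111_140_364_512_45 : EL := (EL.cons 14 (TM.mk (P.cons (P.cons (P.lf 0 133032866 0) (P.cons (P.lf 0 43066566 0) (P.cons (P.lf 0 7526624 0) (P.cons (P.lf 171198 0 0) (P.cons (P.lf 152836 0 0) (P.cons (P.lf 22782 0 0) P.nil)))))) (P.cons (P.cons (P.lf 201879340 0 0) (P.cons (P.lf 22717056 0 0) (P.cons (P.lf 0 630752 0) (P.cons (P.lf 0 1036514 0) (P.cons (P.lf 37498 0 0) P.nil))))) (P.cons (P.cons (P.lf 0 92347526 0) (P.cons (P.lf 8841852 0 0) (P.cons (P.lf 1170334 0 0) (P.cons (P.lf 0 276100 0) P.nil)))) (P.cons (P.cons (P.lf 5369166 0 0) (P.cons (P.lf 0 2532458 0) (P.cons (P.lf 461088 0 0) P.nil))) (P.cons (P.cons (P.lf 4043468 0 0) (P.cons (P.lf 0 1133444 0) P.nil)) (P.cons (P.cons (P.lf 0 77216 0) P.nil) P.nil)))))) 1273320)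
 EL.nil)
noncomputable def S111_140_364_512_46 : EL := (EL.cons 15 (TM.mk (P.lf 4294967296 0 0) 0)
 EL.nil)
noncomputable def S111_140_364_512_47 : EL := (EL.cons 15 (TM.mk (P.cons (P.cons (P.lf 0 1070572850 0) (P.cons (P.lf 0 115525080 0) (P.cons (P.lf 0 7723736 0) (P.lf 2574576 0 0)))) (P.cons (P.cons (P.lf 541536708 0 0) (P.cons (P.lf 0 55936028 0) (P.cons (P.lf 0 3739752 0) (P.lf 1246580 0 0)))) (P.cons (P.cons (P.lf 26209860 0 0) (P.cons (P.lf 0 8968012 0) (P.cons (P.lf 0 599580 0) (P.lf 199856 0 0)))) (P.cons (P.cons (P.lf 0 5269519 0) (P.cons (P.lf 0 293788 0) (P.cons (P.lf 0 19640 0) P.nil))) (P.cons (P.cons (P.lf 0 549239 0) (P.cons (P.lf 66476 0 0) P.nil)) (P.cons (P.cons (P.lf 2938 0 0) P.nil) P.nil)))))) 34749)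
 EL.nil)
noncomputable def S111_140_364_512_48 : EL := (EL.cons 15 (TM.mk (P.cons (P.cons (P.lf 266853307 0 0) (P.cons (P.lf 57592063 0 0) (P.cons (P.lf 6957838 0 0) (P.cons (P.lf 0 867986 0) (P.cons (P.lf 0 124610 0) (P.cons (P.lf 0 9259 0) P.nil)))))) (P.cons (P.cons (P.lf 0 269969225 0) (P.cons (P.lf 0 1246798 0) (P.cons (P.lf 2925751 0 0) (P.cons (P.lf 430151 0 0) (P.cons (P.lf 0 120670 0) P.nil))))) (P.cons (P.cons (P.lf 55214128 0 0) (P.cons (P.lf 0 11044739 0) (P.cons (P.lf 472503 0 0) (P.cons (P.lf 408062 0 0) P.nil)))) (P.cons (P.cons (P.lf 9236394 0 0) (P.cons (P.lf 0 2514245 0) (P.cons (P.lf 81299 0 0) P.nil))) (P.cons (P.cons (P.lf 0 895075 0) (P.cons (P.lf 0 49875 0) P.nil)) (P.cons (P.cons (P.lf 0 204281 0) P.nil) P.nil)))))) 371748)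
 EL.nil)
noncomputable def S111_140_364_512 : SL := (SL.cons S111_140_364_512_0 (SL.cons S111_140_364_512_1 (SL.cons S111_140_364_512_2 (SL.cons S111_140_364_512_3 (SL.cons S111_140_364_512_4 (SL.cons S111_140_364_512_5 (SL.cons S111_140_364_512_6 (SL.cons S111_140_364_512_7 (SL.cons S111_140_364_512_8 (SL.cons S111_140_364_512_9 (SL.cons S111_140_364_512_10 (SL.cons S111_140_364_512_11 (SL.cons S111_140_364_512_12 (SL.cons S111_140_364_512_13 (SL.cons S111_140_364_512_14 (SL.cons S111_140_364_512_15 (SL.cons S111_140_364_512_16 (SL.cons S111_140_364_512_17 (SL.cons S111_140_364_512_18 (SL.cons S111_140_364_512_19 (SL.cons S111_140_364_512_20 (SL.cons S111_140_364_512_21 (SL.cons S111_140_364_512_22 (SL.cons S111_140_364_512_23 (SL.cons S111_140_364_512_24 (SL.cons S111_140_364_512_25 (SL.cons S111_140_364_512_26 (SL.cons S111_140_364_512_27 (SL.cons S111_140_364_512_28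 (SL.cons S111_140_364_512_29 (SL.cons S111_140_364_512_30 (SL.cons S111_140_364_512_31 (SL.cons S111_140_364_512_32 (SL.cons S111_140_364_512_33 (SL.cons S111_140_364_512_34 (SL.cons S111_140_364_512_35 (SL.cons S111_140_364_512_36 (SL.cons S111_140_364_512_37 (SL.cons S111_140_364_512_38 (SL.cons S111_140_364_512_39 (SL.cons S111_140_364_512_40 (SL.cons S111_140_364_512_41 (SL.cons S111_140_364_512_42 (SL.cons S111_140_364_512_43 (SL.cons S111_140_364_512_44 (SL.cons S111_140_364_512_45 (SL.cons S111_140_364_512_46 (SL.cons S111_140_364_512_47 (SL.cons S111_140_364_512_48 SL.nil)))))))))))))))))))))))))))))))))))))))))))))))))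
noncomputable def S111_140_512_660_0 : EL := (EL.cons 0 (TM.mk (P.cons (P.lf 3984603821 0 0) (P.cons (P.lf 506360443 0 0) (P.cons (P.lf 40320479 0 0) (P.cons (P.lf 0 1649728 0) (P.cons (P.lf 0 335571 0) (P.cons (P.lf 0 13014 0) P.nil)))))) 1861)
 (EL.cons 1 (TM.mk (P.cons (P.lf 0 1579171841 0) (P.cons (P.lf 0 165450982 0) (P.cons (P.lf 24357408 0 0) (P.cons (P.lf 2583976 0 0) (P.cons (P.lf 21706 0 0) (P.cons (P.lf 0 11396 0) P.nil)))))) 1057)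
 (EL.cons 5 (TM.mk (P.cons (P.lf 5884696382 0 0) (P.cons (P.lf 0 180039266 0) (P.cons (P.lf 0 14336174 0) (P.cons (P.lf 586566 0 0) (P.cons (P.lf 119316 0 0) (P.cons (P.lf 4630 0 0) P.nil)))))) 385)
 (EL.cons 9 (TM.mk (P.lf 6442450944 0 0) 2)
 EL.nil))))
noncomputable def S111_140_512_660_1 : EL := (EL.cons 0 (TM.mk (P.cons (P.cons (P.lf 0 3956306622 0) (P.cons (P.lf 253612025 0 0) (P.cons (P.lf 0 16955898 0) (P.lf 0 5651954 0)))) (P.cons (P.cons (P.lf 5158391 0 0) (P.cons (P.lf 68316383 0 0) (P.cons (P.lf 0 4567464 0) (P.lf 0 1522476 0)))) (P.cons (P.cons (P.lf 203274546 0 0) (P.cons (P.lf 0 11029252 0) (P.cons (P.lf 737401 0 0) (P.lf 245813 0 0)))) (P.cons (P.cons (P.lf 19283058 0 0) (P.cons (P.lf 0 5507200 0) (P.cons (P.lf 368195 0 0) P.nil))) (P.cons (P.cons (P.lf 0 3218636 0) (P.cons (P.lf 0 499186 0) P.nil)) (P.cons (P.cons (P.lf 0 556635 0) P.nil) P.nil))))))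 582262)
 (EL.cons 1 (TM.mk (P.cons (P.cons (P.lf 1377383831 0 0) (P.cons (P.lf 0 75409979 0) (P.cons (P.lf 5041743 0 0) (P.lf 1680583 0 0)))) (P.cons (P.cons (P.lf 0 435159223 0) (P.cons (P.lf 34772428 0 0) (P.cons (P.lf 0 2324799 0) (P.lf 0 774924 0)))) (P.cons (P.cons (P.lf 0 81597086 0) (P.cons (P.lf 18865825 0 0) (P.cons (P.lf 0 1261321 0) (P.lf 0 420431 0)))) (P.cons (P.cons (P.lf 16286634 0 0) (P.cons (P.lf 1405724 0 0) (P.cons (P.lf 0 93978 0) P.nil))) (P.cons (P.cons (P.lf 2598161 0 0) (P.cons (P.lf 0 306044 0) P.nil)) (P.cons (P.cons (P.lf 0 79859 0) P.nil) P.nil)))))) 266937)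
 (EL.cons 5 (TM.mk (P.cons (P.cons (P.lf 0 823579471 0) (P.cons (P.lf 0 286565808 0) (P.cons (P.lf 19159120 0 0) (P.lf 6386368 0 0)))) (P.cons (P.cons (P.lf 720119040 0 0) (P.cons (P.lf 0 119381524 0) (P.cons (P.lf 7981570 0 0) (P.lf 2660516 0 0)))) (P.cons (P.cons (P.lf 0 59568926 0) (P.cons (P.lf 0 11324116 0) (P.cons (P.lf 757102 0 0) (P.lf 252360 0 0)))) (P.cons (P.cons (P.lf 0 16857782 0) (P.cons (P.lf 1458670 0 0) (P.cons (P.lf 0 97520 0) P.nil))) (P.cons (P.cons (P.lf 446773 0 0) (P.cons (P.lf 290500 0 0) P.nil)) (P.cons (P.cons (P.lf 229149 0 0) P.nil) P.nil)))))) 177144)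
 (EL.cons 9 (TM.mk (P.cons (P.cons (P.lf 0 1967881995 0) (P.cons (P.lf 0 173287620 0) (P.cons (P.lf 11585604 0 0) (P.lf 3861864 0 0)))) (P.cons (P.cons (P.lf 637017474 0 0) (P.cons (P.lf 0 83904042 0) (P.cons (P.lf 5609628 0 0) (P.lf 1869870 0 0)))) (P.cons (P.cons (P.lf 11211582 0 0) (P.cons (P.lf 0 13452018 0) (P.cons (P.lf 899370 0 0) (P.lf 299784 0 0)))) (P.cons (P.cons (P.lf 0 8824918 0) (P.cons (P.lf 0 440682 0) (P.cons (P.lf 29460 0 0) P.nil))) (P.cons (P.cons (P.lf 0 615550 0) (P.cons (P.lf 99714 0 0) P.nil)) (P.cons (P.cons (P.lf 27555 0 0) P.nil) P.nil)))))) 52142)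
 (EL.cons 2 (TM.mk (P.cons (P.cons (P.lf 559861875 0 0) (P.cons (P.lf 0 86680676 0) (P.cons (P.lf 0 41760014 0) (P.cons (P.lf 1580318 0 0) (P.lf 395077 0 0))))) (P.cons (P.cons (P.lf 149016881 0 0) (P.cons (P.lf 0 23071553 0) (P.cons (P.lf 0 11115143 0) (P.cons (P.lf 420626 0 0) (P.lf 105153 0 0))))) (P.cons (P.cons (P.lf 734948 0 0) (P.cons (P.lf 0 113788 0) (P.cons (P.lf 0 54815 0) (P.cons (P.lf 2072 0 0) P.nil)))) (P.cons (P.cons (P.lf 0 2598730 0) (P.cons (P.lf 402347 0 0) (P.cons (P.lf 193834 0 0) P.nil))) (P.cons (P.cons (P.lf 0 198163 0) (P.cons (P.lf 30678 0 0) P.nil)) (P.cons (P.cons (P.lf 5729 0 0) P.nil) P.nil)))))) 57623)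
 (EL.cons 6 (TM.mk (P.cons (P.cons (P.lf 197740047 0 0) (P.cons (P.lf 0 30615123 0) (P.cons (P.lf 0 14749401 0) (P.cons (P.lf 558159 0 0) (P.lf 139539 0 0))))) (P.cons (P.cons (P.lf 95743653 0 0) (P.cons (P.lf 0 14823519 0) (P.cons (P.lf 0 7141503 0) (P.cons (P.lf 270252 0 0) (P.lf 67563 0 0))))) (P.cons (P.cons (P.lf 15350223 0 0) (P.cons (P.lf 0 2376600 0) (P.cons (P.lf 0 1144968 0) (P.cons (P.lf 43326 0 0) P.nil)))) (P.cons (P.cons (P.lf 502866 0 0) (P.cons (P.lf 0 77856 0) (P.cons (P.lf 0 37509 0) P.nil))) (P.cons (P.cons (P.lf 0 113787 0) (P.cons (P.lf 17616 0 0) P.nil)) (P.cons (P.cons (P.lf 0 12648 0) P.nil) P.nil)))))) 27756)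
 EL.nil))))))
noncomputable def S111_140_512_660_2 : EL := (EL.cons 0 (TM.mk (P.cons (P.cons (P.lf 2045175420 0 0) (P.cons (P.lf 0 7578254 0) (P.cons (P.lf 0 16019351 0) (P.cons (P.lf 2378659 0 0) (P.cons (P.lf 662713 0 0) (P.cons (P.lf 0 49245 0) P.nil)))))) (P.cons (P.cons (P.lf 0 592087737 0) (P.cons (P.lf 92363239 0 0) (P.cons (P.lf 0 19614209 0) (P.cons (P.lf 0 261400 0) (P.cons (P.lf 538918 0 0) P.nil))))) (P.cons (P.cons (P.lf 0 144828335 0) (P.cons (P.lf 30137479 0 0) (P.cons (P.lf 0 5767503 0) (P.cons (P.lf 0 169853 0) P.nil)))) (P.cons (P.cons (P.lf 32746771 0 0) (P.cons (P.lf 0 3093873 0) (P.cons (P.lf 69225 0 0) P.nil))) (P.cons (P.cons (P.lf 7046071 0 0) (P.cons (P.lf 0 2161807 0) P.nil)) (P.cons (P.cons (P.lf 0 662577 0) P.nil) P.nil)))))) 3317905)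
 (EL.cons 1 (TM.mk (P.cons (P.cons (P.lf 0 694117337 0) (P.cons (P.lf 0 2079162 0) (P.cons (P.lf 5338240 0 0) (P.cons (P.lf 0 648889 0) (P.cons (P.lf 0 208500 0) (P.cons (P.lf 15494 0 0) P.nil)))))) (P.cons (P.cons (P.lf 458275869 0 0) (P.cons (P.lf 0 41739974 0) (P.cons (P.lf 4110348 0 0) (P.cons (P.lf 753731 0 0) (P.cons (P.lf 0 52922 0) P.nil))))) (P.cons (P.cons (P.lf 0 29919187 0) (P.cons (P.lf 2896332 0 0) (P.cons (P.lf 0 1255820 0) (P.cons (P.lf 77468 0 0) P.nil)))) (P.cons (P.cons (P.lf 0 26837205 0) (P.cons (P.lf 5199170 0 0) (P.cons (P.lf 0 930111 0) P.nil))) (P.cons (P.cons (P.lf 2084886 0 0) (P.cons (P.lf 315457 0 0) P.nil)) (P.cons (P.cons (P.lf 812695 0 0) P.nil) P.nil)))))) 1406992)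
 (EL.cons 5 (TM.mk (P.cons (P.cons (P.lf 0 45926406 0) (P.cons (P.lf 122672900 0 0) (P.cons (P.lf 2956813 0 0) (P.cons (P.lf 0 4225918 0) (P.cons (P.lf 0 447467 0) (P.cons (P.lf 33242 0 0) P.nil)))))) (P.cons (P.cons (P.lf 0 230529020 0) (P.cons (P.lf 0 13585835 0) (P.cons (P.lf 10802118 0 0) (P.cons (P.lf 0 1020171 0) (P.cons (P.lf 0 396753 0) P.nil))))) (P.cons (P.cons (P.lf 115117367 0 0) (P.cons (P.lf 0 20890260 0) (P.cons (P.lf 4789500 0 0) (P.cons (P.lf 11871 0 0) P.nil)))) (P.cons (P.cons (P.lf 0 3020427 0) (P.cons (P.lf 0 1402696 0) (P.cons (P.lf 566695 0 0) P.nil))) (P.cons (P.cons (P.lf 0 4034835 0) (P.cons (P.lf 845808 0 0) P.nil)) (P.cons (P.cons (P.lf 43718 0 0) P.nil) P.nil)))))) 1300189)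
 (EL.cons 9 (TM.mk (P.cons (P.cons (P.lf 601100353 0 0) (P.cons (P.lf 105863308 0 0) (P.cons (P.lf 0 2416720 0) (P.cons (P.lf 0 2982508 0) (P.cons (P.lf 0 186915 0) (P.cons (P.lf 13888 0 0) P.nil)))))) (P.cons (P.cons (P.lf 0 389160966 0) (P.cons (P.lf 16989189 0 0) (P.cons (P.lf 3377806 0 0) (P.cons (P.lf 0 982161 0) (P.cons (P.lf 0 181005 0) P.nil))))) (P.cons (P.cons (P.lf 56137815 0 0) (P.cons (P.lf 0 8977696 0) (P.cons (P.lf 2416620 0 0) (P.cons (P.lf 0 42801 0) P.nil)))) (P.cons (P.cons (P.lf 7608399 0 0) (P.cons (P.lf 0 2208292 0) (P.cons (P.lf 521737 0 0) P.nil))) (P.cons (P.cons (P.lf 0 1349625 0) (P.cons (P.lf 68094 0 0) P.nil)) (P.cons (P.cons (P.lf 0 169278 0) P.nil) P.nil)))))) 505499)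
 (EL.cons 2 (TM.mk (P.cons (P.cons (P.lf 0 342025762 0) (P.cons (P.lf 22836093 0 0) (P.cons (P.lf 32188308 0 0) (P.cons (P.lf 1640514 0 0) (P.cons (P.lf 0 580483 0) (P.cons (P.lf 0 65632 0) P.nil)))))) (P.cons (P.cons (P.lf 19680136 0 0) (P.cons (P.lf 0 25646281 0) (P.cons (P.lf 3541933 0 0) (P.cons (P.lf 2010943 0 0) (P.cons (P.lf 0 240575 0) P.nil))))) (P.cons (P.cons (P.lf 30968645 0 0) (P.cons (P.lf 0 11053749 0) (P.cons (P.lf 0 922426 0) (P.cons (P.lf 628970 0 0) P.nil)))) (P.cons (P.cons (P.lf 717783 0 0) (P.cons (P.lf 0 689366 0) (P.cons (P.lf 74643 0 0) P.nil))) (P.cons (P.cons (P.lf 0 905529 0) (P.cons (P.lf 212422 0 0) P.nil)) (P.cons (P.cons (P.lf 0 77428 0) P.nil) P.nil)))))) 555997)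
 (EL.cons 6 (TM.mk (P.cons (P.cons (P.lf 0 120801564 0) (P.cons (P.lf 8065578 0 0) (P.cons (P.lf 11368728 0 0) (P.cons (P.lf 579420 0 0) (P.cons (P.lf 0 205020 0) (P.cons (P.lf 0 23178 0) P.nil)))))) (P.cons (P.cons (P.lf 0 19386516 0) (P.cons (P.lf 0 7299642 0) (P.cons (P.lf 3729624 0 0) (P.cons (P.lf 836574 0 0) (P.cons (P.lf 0 129666 0) P.nil))))) (P.cons (P.cons (P.lf 10244520 0 0) (P.cons (P.lf 0 5731512 0) (P.cons (P.lf 154824 0 0) (P.cons (P.lf 387594 0 0) P.nil)))) (P.cons (P.cons (P.lf 2519898 0 0) (P.cons (P.lf 0 1243908 0) (P.cons (P.lf 1302 0 0) P.nil))) (P.cons (P.cons (P.lf 0 77700 0) (P.cons (P.lf 0 66024 0) P.nil)) (P.cons (P.cons (P.lf 0 71676 0) P.nil) P.nil)))))) 308856)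
 EL.nil))))))
noncomputable def S111_140_512_660_3 : EL := (EL.cons 0 (TM.mk (P.cons (P.lf 4471113042 0 0) (P.cons (P.lf 0 506360443 0) (P.cons (P.lf 0 40320479 0) (P.cons (P.lf 1649728 0 0) (P.cons (P.lf 335571 0 0) (P.cons (P.lf 13014 0 0) P.nil)))))) 1861)
 (EL.cons 1 (TM.mk (P.cons (P.lf 1579171841 0 0) (P.cons (P.lf 165450982 0 0) (P.cons (P.lf 0 24357408 0) (P.cons (P.lf 0 2583976 0) (P.cons (P.lf 0 21706 0) (P.cons (P.lf 11396 0 0) P.nil)))))) 1057)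
 (EL.cons 5 (TM.mk (P.cons (P.lf 557754562 0 0) (P.cons (P.lf 180039266 0 0) (P.cons (P.lf 14336174 0 0) (P.cons (P.lf 0 586566 0) (P.cons (P.lf 0 119316 0) (P.cons (P.lf 0 4630 0) P.nil)))))) 378)
 EL.nil)))
noncomputable def S111_140_512_660_4 : EL := (EL.cons 0 (TM.mk (P.cons (P.cons (P.lf 0 1365726014 0) (P.cons (P.lf 0 120263008 0) (P.cons (P.lf 8040501 0 0) (P.lf 2680163 0 0)))) (P.cons (P.cons (P.lf 596765852 0 0) (P.cons (P.lf 0 44610111 0) (P.cons (P.lf 2982526 0 0) (P.lf 994171 0 0)))) (P.cons (P.cons (P.lf 0 29970929 0) (P.cons (P.lf 0 1656631 0) (P.cons (P.lf 110758 0 0) (P.lf 36914 0 0)))) (P.cons (P.cons (P.lf 0 11496498 0) (P.cons (P.lf 1232201 0 0) (P.cons (P.lf 0 82383 0) P.nil))) (P.cons (P.cons (P.lf 256869 0 0) (P.cons (P.lf 157515 0 0) P.nil)) (P.cons (P.cons (P.lf 154810 0 0) P.nil) P.nil)))))) 122772)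
 (EL.cons 1 (TM.mk (P.cons (P.cons (P.lf 0 482366703 0) (P.cons (P.lf 0 42476214 0) (P.cons (P.lf 2839858 0 0) (P.lf 946618 0 0)))) (P.cons (P.cons (P.lf 105607638 0 0) (P.cons (P.lf 0 25016799 0) (P.cons (P.lf 1672563 0 0) (P.lf 557518 0 0)))) (P.cons (P.cons (P.lf 26547766 0 0) (P.cons (P.lf 0 4796964 0) (P.cons (P.lf 320713 0 0) (P.lf 106901 0 0)))) (P.cons (P.cons (P.lf 0 3494356 0) (P.cons (P.lf 0 66759 0) (P.cons (P.lf 4462 0 0) P.nil))) (P.cons (P.cons (P.lf 0 668775 0) (P.cons (P.lf 98218 0 0) P.nil)) (P.cons (P.cons (P.lf 14186 0 0) P.nil) P.nil)))))) 60641)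
 (EL.cons 5 (TM.mk (P.cons (P.cons (P.lf 0 170369192 0) (P.cons (P.lf 0 15002358 0) (P.cons (P.lf 1003022 0 0) (P.lf 334340 0 0)))) (P.cons (P.cons (P.lf 155742 0 0) (P.cons (P.lf 0 12106640 0) (P.cons (P.lf 809420 0 0) (P.lf 269806 0 0)))) (P.cons (P.cons (P.lf 14393522 0 0) (P.cons (P.lf 0 3894980 0) (P.cons (P.lf 260408 0 0) (P.lf 86802 0 0)))) (P.cons (P.cons (P.lf 1146004 0 0) (P.cons (P.lf 0 585010 0) (P.cons (P.lf 39110 0 0) P.nil))) (P.cons (P.cons (P.lf 0 296514 0) (P.cons (P.lf 0 22768 0) P.nil)) (P.cons (P.cons (P.lf 0 45858 0) P.nil) P.nil)))))) 32200)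
 EL.nil)))
noncomputable def S111_140_512_660_5 : EL := (EL.cons 0 (TM.mk (P.cons (P.cons (P.lf 417168504 0 0) (P.cons (P.lf 73469991 0 0) (P.cons (P.lf 0 1677222 0) (P.cons (P.lf 0 2069883 0) (P.cons (P.lf 0 129719 0) (P.cons (P.lf 9638 0 0) P.nil)))))) (P.cons (P.cons (P.lf 0 317325832 0) (P.cons (P.lf 3470043 0 0) (P.cons (P.lf 2534171 0 0) (P.cons (P.lf 0 447208 0) (P.cons (P.lf 0 110926 0) P.nil))))) (P.cons (P.cons (P.lf 65785146 0 0) (P.cons (P.lf 0 8228452 0) (P.cons (P.lf 1426791 0 0) (P.cons (P.lf 66157 0 0) P.nil)))) (P.cons (P.cons (P.lf 3457511 0 0) (P.cons (P.lf 0 906166 0) (P.cons (P.lf 150389 0 0) P.nil))) (P.cons (P.cons (P.lf 0 1954335 0) (P.cons (P.lf 286875 0 0) P.nil)) (P.cons (P.cons (P.lf 0 63701 0) P.nil) P.nil)))))) 538285)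
 (EL.cons 1 (TM.mk (P.cons (P.cons (P.lf 147341555 0 0) (P.cons (P.lf 25949184 0 0) (P.cons (P.lf 0 592383 0) (P.cons (P.lf 0 731070 0) (P.cons (P.lf 0 45815 0) (P.cons (P.lf 3403 0 0) P.nil)))))) (P.cons (P.cons (P.lf 0 79953948 0) (P.cons (P.lf 6883098 0 0) (P.cons (P.lf 765901 0 0) (P.cons (P.lf 0 317340 0) (P.cons (P.lf 0 49166 0) P.nil))))) (P.cons (P.cons (P.lf 1493675 0 0) (P.cons (P.lf 0 2164548 0) (P.cons (P.lf 688243 0 0) (P.cons (P.lf 0 24438 0) P.nil)))) (P.cons (P.cons (P.lf 4536898 0 0) (P.cons (P.lf 0 878546 0) (P.cons (P.lf 178147 0 0) P.nil))) (P.cons (P.cons (P.lf 0 193606 0) (P.cons (P.lf 0 13248 0) P.nil)) (P.cons (P.cons (P.lf 0 125058 0) P.nil) P.nil)))))) 229049)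
 (EL.cons 5 (TM.mk (P.cons (P.cons (P.lf 52040204 0 0) (P.cons (P.lf 9165104 0 0) (P.cons (P.lf 0 209226 0) (P.cons (P.lf 0 258210 0) (P.cons (P.lf 0 16180 0) (P.cons (P.lf 1202 0 0) P.nil)))))) (P.cons (P.cons (P.lf 0 16893358 0) (P.cons (P.lf 4429268 0 0) (P.cons (P.lf 224896 0 0) (P.cons (P.lf 0 168378 0) (P.cons (P.lf 0 20892 0) P.nil))))) (P.cons (P.cons (P.lf 0 4677668 0) (P.cons (P.lf 0 66892 0) (P.cons (P.lf 298236 0 0) (P.cons (P.lf 0 37788 0) P.nil)))) (P.cons (P.cons (P.lf 1306794 0 0) (P.cons (P.lf 0 413904 0) (P.cons (P.lf 120438 0 0) P.nil))) (P.cons (P.cons (P.lf 244998 0 0) (P.cons (P.lf 0 79302 0) P.nil)) (P.cons (P.cons (P.lf 0 33776 0) P.nil) P.nil)))))) 107930)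
 EL.nil)))
noncomputable def S111_140_512_660_6 : EL := (EL.cons 12 (TM.mk (P.lf 8589934592 0 0) 0)
 (EL.cons 3 (TM.mk (P.cons (P.lf 0 3098651666 0) (P.cons (P.lf 175463538 0 0) (P.cons (P.lf 18939693 0 0) (P.cons (P.lf 500812 0 0) (P.cons (P.lf 0 30041 0) (P.cons (P.lf 0 3150 0) P.nil)))))) 205)
 (EL.cons 7 (TM.mk (P.cons (P.lf 0 1094426245 0) (P.cons (P.lf 0 176636564 0) (P.cons (P.lf 189038 0 0) (P.cons (P.lf 544971 0 0) (P.cons (P.lf 29121 0 0) (P.cons (P.lf 0 63 0) P.nil)))))) 165)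
 EL.nil)))
noncomputable def S111_140_512_660_7 : EL := (EL.cons 12 (TM.mk (P.cons (P.cons (P.lf 0 2623842660 0) (P.cons (P.lf 0 231050160 0) (P.cons (P.lf 15447472 0 0) (P.lf 5149152 0 0)))) (P.cons (P.cons (P.lf 849356632 0 0) (P.cons (P.lf 0 111872056 0) (P.cons (P.lf 7479504 0 0) (P.lf 2493160 0 0)))) (P.cons (P.cons (P.lf 14948776 0 0) (P.cons (P.lf 0 17936024 0) (P.cons (P.lf 1199160 0 0) (P.lf 399712 0 0)))) (P.cons (P.cons (P.lf 0 11766558 0) (P.cons (P.lf 0 587576 0) (P.cons (P.lf 39280 0 0) P.nil))) (P.cons (P.cons (P.lf 0 820734 0) (P.cons (P.lf 132952 0 0) P.nil)) (P.cons (P.cons (P.lf 36740 0 0) P.nil) P.nil)))))) 69498)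
 (EL.cons 3 (TM.mk (P.cons (P.cons (P.lf 2844861455 0 0) (P.cons (P.lf 0 166693692 0) (P.cons (P.lf 11144748 0 0) (P.lf 3714910 0 0)))) (P.cons (P.cons (P.lf 0 90206370 0) (P.cons (P.lf 0 71272170 0) (P.cons (P.lf 4765088 0 0) (P.lf 1588356 0 0)))) (P.cons (P.cons (P.lf 0 76856355 0) (P.cons (P.lf 0 7350930 0) (P.cons (P.lf 491462 0 0) (P.lf 163814 0 0)))) (P.cons (P.cons (P.lf 0 9899748 0) (P.cons (P.lf 829100 0 0) (P.cons (P.lf 0 55434 0) P.nil))) (P.cons (P.cons (P.lf 242179 0 0) (P.cons (P.lf 210444 0 0) P.nil)) (P.cons (P.cons (P.lf 135022 0 0) P.nil) P.nil)))))) 225580)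
 (EL.cons 7 (TM.mk (P.cons (P.cons (P.lf 0 1576753902 0) (P.cons (P.lf 281149784 0 0) (P.cons (P.lf 0 18797021 0) (P.lf 0 6265674 0)))) (P.cons (P.cons (P.lf 90809428 0 0) (P.cons (P.lf 71748655 0 0) (P.cons (P.lf 0 4796948 0) (P.lf 0 1598985 0)))) (P.cons (P.cons (P.lf 67470922 0 0) (P.cons (P.lf 0 421321 0) (P.cons (P.lf 28168 0 0) (P.lf 9388 0 0)))) (P.cons (P.cons (P.lf 0 394316 0) (P.cons (P.lf 0 1210714 0) (P.cons (P.lf 80943 0 0) P.nil))) (P.cons (P.cons (P.lf 0 842301 0) (P.cons (P.lf 0 46474 0) P.nil)) (P.cons (P.cons (P.lf 0 43631 0) P.nil) P.nil)))))) 125909)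
 (EL.cons 10 (TM.mk (P.cons (P.cons (P.lf 0 776011218 0) (P.cons (P.lf 120146022 0 0) (P.cons (P.lf 57882564 0 0) (P.cons (P.lf 0 2190444 0) (P.lf 0 547611 0))))) (P.cons (P.cons (P.lf 0 250490985 0) (P.cons (P.lf 38782293 0 0) (P.cons (P.lf 18684084 0 0) (P.cons (P.lf 0 707058 0) (P.lf 0 176763 0))))) (P.cons (P.cons (P.lf 0 19946106 0) (P.cons (P.lf 3088158 0 0) (P.cons (P.lf 1487775 0 0) (P.cons (P.lf 0 56301 0) P.nil)))) (P.cons (P.cons (P.lf 816096 0 0) (P.cons (P.lf 0 126351 0) (P.cons (P.lf 0 60870 0) P.nil))) (P.cons (P.cons (P.lf 166005 0 0) (P.cons (P.lf 0 25701 0) P.nil)) (P.cons (P.cons (P.lf 6441 0 0) P.nil) P.nil)))))) 32172)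
 EL.nil))))
noncomputable def S111_140_512_660_8 : EL := (EL.cons 12 (TM.mk (P.cons (P.cons (P.lf 801467138 0 0) (P.cons (P.lf 141151078 0 0) (P.cons (P.lf 0 3222294 0) (P.cons (P.lf 0 3976678 0) (P.cons (P.lf 0 249220 0) (P.cons (P.lf 18518 0 0) P.nil)))))) (P.cons (P.cons (P.lf 0 518881288 0) (P.cons (P.lf 22652252 0 0) (P.cons (P.lf 4503742 0 0) (P.cons (P.lf 0 1309548 0) (P.cons (P.lf 0 241340 0) P.nil))))) (P.cons (P.cons (P.lf 74850420 0 0) (P.cons (P.lf 0 11970262 0) (P.cons (P.lf 3222160 0 0) (P.cons (P.lf 0 57068 0) P.nil)))) (P.cons (P.cons (P.lf 10144532 0 0) (P.cons (P.lf 0 2944390 0) (P.cons (P.lf 695650 0 0) P.nil))) (P.cons (P.cons (P.lf 0 1799500 0) (P.cons (P.lf 90792 0 0) P.nil)) (P.cons (P.cons (P.lf 0 225704 0) P.nil) P.nil)))))) 673970)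
 (EL.cons 3 (TM.mk (P.cons (P.cons (P.lf 0 1448843417 0) (P.cons (P.lf 0 288398 0) (P.cons (P.lf 11228507 0 0) (P.cons (P.lf 0 1492411 0) (P.cons (P.lf 0 449506 0) (P.cons (P.lf 33401 0 0) P.nil)))))) (P.cons (P.cons (P.lf 414149586 0 0) (P.cons (P.lf 0 53383743 0) (P.cons (P.lf 13789159 0 0) (P.cons (P.lf 0 176869 0) (P.cons (P.lf 0 409841 0) P.nil))))) (P.cons (P.cons (P.lf 74847851 0 0) (P.cons (P.lf 0 20672045 0) (P.cons (P.lf 5067101 0 0) (P.cons (P.lf 0 32042 0) P.nil)))) (P.cons (P.cons (P.lf 0 14030909 0) (P.cons (P.lf 0 105405 0) (P.cons (P.lf 591185 0 0) P.nil))) (P.cons (P.cons (P.lf 0 3658019 0) (P.cons (P.lf 1021576 0 0) P.nil)) (P.cons (P.cons (P.lf 110166 0 0) P.nil) P.nil)))))) 1750063)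
 (EL.cons 7 (TM.mk (P.cons (P.cons (P.lf 1065369575 0 0) (P.cons (P.lf 0 68951356 0) (P.cons (P.lf 0 9722873 0) (P.cons (P.lf 3453158 0 0) (P.cons (P.lf 574770 0 0) (P.cons (P.lf 0 42709 0) P.nil)))))) (P.cons (P.cons (P.lf 0 416918303 0) (P.cons (P.lf 53740627 0 0) (P.cons (P.lf 0 13881342 0) (P.cons (P.lf 178060 0 0) (P.cons (P.lf 412577 0 0) P.nil))))) (P.cons (P.cons (P.lf 0 29899493 0) (P.cons (P.lf 14951912 0 0) (P.cons (P.lf 0 3587751 0) (P.cons (P.lf 12859 0 0) P.nil)))) (P.cons (P.cons (P.lf 21011678 0 0) (P.cons (P.lf 0 2394671 0) (P.cons (P.lf 10942 0 0) P.nil))) (P.cons (P.cons (P.lf 731834 0 0) (P.cons (P.lf 0 800830 0) P.nil)) (P.cons (P.cons (P.lf 0 425937 0) P.nil) P.nil)))))) 986197)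
 (EL.cons 10 (TM.mk (P.cons (P.cons (P.lf 474073770 0 0) (P.cons (P.lf 0 31652562 0) (P.cons (P.lf 0 44615448 0) (P.cons (P.lf 0 2273880 0) (P.cons (P.lf 804600 0 0) (P.cons (P.lf 90972 0 0) P.nil)))))) (P.cons (P.cons (P.lf 0 433374 0) (P.cons (P.lf 33755352 0 0) (P.cons (P.lf 0 7435776 0) (P.cons (P.lf 0 2916078 0) (P.cons (P.lf 379020 0 0) P.nil))))) (P.cons (P.cons (P.lf 0 40051794 0) (P.cons (P.lf 17039298 0 0) (P.cons (P.lf 584796 0 0) (P.cons (P.lf 0 1050828 0) P.nil)))) (P.cons (P.cons (P.lf 0 3188898 0) (P.cons (P.lf 2121582 0 0) (P.cons (P.lf 0 123006 0) P.nil))) (P.cons (P.cons (P.lf 825084 0 0) (P.cons (P.lf 0 64386 0) P.nil)) (P.cons (P.cons (P.lf 127602 0 0) P.nil) P.nil)))))) 765840)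
 EL.nil))))
noncomputable def S111_140_512_660_9 : EL := (EL.cons 3 (TM.mk (P.cons (P.lf 0 3098651666 0) (P.cons (P.lf 175463538 0 0) (P.cons (P.lf 18939693 0 0) (P.cons (P.lf 500812 0 0) (P.cons (P.lf 0 30041 0) (P.cons (P.lf 0 3150 0) P.nil)))))) 205)
 (EL.cons 7 (TM.mk (P.cons (P.lf 0 1094426245 0) (P.cons (P.lf 0 176636564 0) (P.cons (P.lf 189038 0 0) (P.cons (P.lf 544971 0 0) (P.cons (P.lf 29121 0 0) (P.cons (P.lf 0 63 0) P.nil)))))) 165)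
 EL.nil))
noncomputable def S111_140_512_660_10 : EL := (EL.cons 3 (TM.mk (P.cons (P.cons (P.lf 946500155 0 0) (P.cons (P.lf 83346846 0 0) (P.cons (P.lf 0 5572374 0) (P.lf 0 1857455 0)))) (P.cons (P.cons (P.lf 0 359985168 0) (P.cons (P.lf 35636085 0 0) (P.cons (P.lf 0 2382544 0) (P.lf 0 794178 0)))) (P.cons (P.cons (P.lf 6171792 0 0) (P.cons (P.lf 3675465 0 0) (P.cons (P.lf 0 245731 0) (P.lf 0 81907 0)))) (P.cons (P.cons (P.lf 6269655 0 0) (P.cons (P.lf 0 414550 0) (P.cons (P.lf 27717 0 0) P.nil))) (P.cons (P.cons (P.lf 147367 0 0) (P.cons (P.lf 0 105222 0) P.nil)) (P.cons (P.cons (P.lf 0 57098 0) P.nil) P.nil)))))) 55728)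
 (EL.cons 7 (TM.mk (P.cons (P.cons (P.lf 334298502 0 0) (P.cons (P.lf 29437634 0 0) (P.cons (P.lf 0 1968131 0) (P.lf 0 656043 0)))) (P.cons (P.cons (P.lf 0 54260207 0) (P.cons (P.lf 19004524 0 0) (P.cons (P.lf 0 1270598 0) (P.lf 0 423531 0)))) (P.cons (P.cons (P.lf 0 19427828 0) (P.cons (P.lf 4580555 0 0) (P.cons (P.lf 0 306245 0) (P.lf 0 102080 0)))) (P.cons (P.cons (P.lf 1043986 0 0) (P.cons (P.lf 426563 0 0) (P.cons (P.lf 0 28518 0) P.nil))) (P.cons (P.cons (P.lf 391845 0 0) (P.cons (P.lf 0 13132 0) P.nil)) (P.cons (P.cons (P.lf 15784 0 0) P.nil) P.nil)))))) 26728)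
 EL.nil))
noncomputable def S111_140_512_660_11 : EL := (EL.cons 3 (TM.mk (P.cons (P.cons (P.lf 0 289113665 0) (P.cons (P.lf 0 50917502 0) (P.cons (P.lf 1162379 0 0) (P.cons (P.lf 1434509 0 0) (P.cons (P.lf 89900 0 0) (P.cons (P.lf 0 6679 0) P.nil)))))) (P.cons (P.cons (P.lf 203547606 0 0) (P.cons (P.lf 0 5288115 0) (P.cons (P.lf 0 1690457 0) (P.cons (P.lf 391163 0 0) (P.cons (P.lf 81967 0 0) P.nil))))) (P.cons (P.cons (P.lf 0 35832703 0) (P.cons (P.lf 5091967 0 0) (P.cons (P.lf 0 1077439 0) (P.cons (P.lf 0 14930 0) P.nil)))) (P.cons (P.cons (P.lf 0 3227837 0) (P.cons (P.lf 875793 0 0) (P.cons (P.lf 0 175381 0) P.nil))) (P.cons (P.cons (P.lf 988333 0 0) (P.cons (P.lf 0 118460 0) P.nil)) (P.cons (P.cons (P.lf 72912 0 0) P.nil) P.nil)))))) 312783)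
 (EL.cons 7 (TM.mk (P.cons (P.cons (P.lf 0 102113311 0) (P.cons (P.lf 0 17983774 0) (P.cons (P.lf 410545 0 0) (P.cons (P.lf 506660 0 0) (P.cons (P.lf 31752 0 0) (P.cons (P.lf 0 2359 0) P.nil)))))) (P.cons (P.cons (P.lf 49628887 0 0) (P.cons (P.lf 0 5788595 0) (P.cons (P.lf 0 507552 0) (P.cons (P.lf 248620 0 0) (P.cons (P.lf 35873 0 0) P.nil))))) (P.cons (P.cons (P.lf 1150957 0 0) (P.cons (P.lf 1062410 0 0) (P.cons (P.lf 0 503211 0) (P.cons (P.lf 34111 0 0) P.nil)))) (P.cons (P.cons (P.lf 0 2792230 0) (P.cons (P.lf 630739 0 0) (P.cons (P.lf 0 154994 0) P.nil))) (P.cons (P.cons (P.lf 0 7888 0) (P.cons (P.lf 50630 0 0) P.nil)) (P.cons (P.cons (P.lf 68967 0 0) P.nil) P.nil)))))) 130527)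
 EL.nil))
noncomputable def S111_140_512_660_12 : EL := (EL.cons 4 (TM.mk (P.cons (P.lf 3098651666 0 0) (P.cons (P.lf 0 175463538 0) (P.cons (P.lf 0 18939693 0) (P.cons (P.lf 0 500812 0) (P.cons (P.lf 30041 0 0) (P.cons (P.lf 3150 0 0) P.nil)))))) 205)
 (EL.cons 8 (TM.mk (P.cons (P.lf 1094426245 0 0) (P.cons (P.lf 176636564 0 0) (P.cons (P.lf 0 189038 0) (P.cons (P.lf 0 544971 0) (P.cons (P.lf 0 29121 0) (P.cons (P.lf 63 0 0) P.nil)))))) 165)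
 EL.nil))
noncomputable def S111_140_512_660_13 : EL := (EL.cons 4 (TM.mk (P.cons (P.cons (P.lf 0 946500155 0) (P.cons (P.lf 0 83346846 0) (P.cons (P.lf 5572374 0 0) (P.lf 1857455 0 0)))) (P.cons (P.cons (P.lf 359985168 0 0) (P.cons (P.lf 0 35636085 0) (P.cons (P.lf 2382544 0 0) (P.lf 794178 0 0)))) (P.cons (P.cons (P.lf 0 6171792 0) (P.cons (P.lf 0 3675465 0) (P.cons (P.lf 245731 0 0) (P.lf 81907 0 0)))) (P.cons (P.cons (P.lf 0 6269655 0) (P.cons (P.lf 414550 0 0) (P.cons (P.lf 0 27717 0) P.nil))) (P.cons (P.cons (P.lf 0 147367 0) (P.cons (P.lf 105222 0 0) P.nil)) (P.cons (P.cons (P.lf 57098 0 0) P.nil) P.nil)))))) 55728)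
 (EL.cons 8 (TM.mk (P.cons (P.cons (P.lf 0 334298502 0) (P.cons (P.lf 0 29437634 0) (P.cons (P.lf 1968131 0 0) (P.lf 656043 0 0)))) (P.cons (P.cons (P.lf 54260207 0 0) (P.cons (P.lf 0 19004524 0) (P.cons (P.lf 1270598 0 0) (P.lf 423531 0 0)))) (P.cons (P.cons (P.lf 19427828 0 0) (P.cons (P.lf 0 4580555 0) (P.cons (P.lf 306245 0 0) (P.lf 102080 0 0)))) (P.cons (P.cons (P.lf 0 1043986 0) (P.cons (P.lf 0 426563 0) (P.cons (P.lf 28518 0 0) P.nil))) (P.cons (P.cons (P.lf 0 391845 0) (P.cons (P.lf 13132 0 0) P.nil)) (P.cons (P.cons (P.lf 0 15784 0) P.nil) P.nil)))))) 26728)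
 EL.nil))
noncomputable def S111_140_512_660_14 : EL := (EL.cons 4 (TM.mk (P.cons (P.cons (P.lf 289113665 0 0) (P.cons (P.lf 50917502 0 0) (P.cons (P.lf 0 1162379 0) (P.cons (P.lf 0 1434509 0) (P.cons (P.lf 0 89900 0) (P.cons (P.lf 6679 0 0) P.nil)))))) (P.cons (P.cons (P.lf 0 203547606 0) (P.cons (P.lf 5288115 0 0) (P.cons (P.lf 1690457 0 0) (P.cons (P.lf 0 391163 0) (P.cons (P.lf 0 81967 0) P.nil))))) (P.cons (P.cons (P.lf 35832703 0 0) (P.cons (P.lf 0 5091967 0) (P.cons (P.lf 1077439 0 0) (P.cons (P.lf 14930 0 0) P.nil)))) (P.cons (P.cons (P.lf 3227837 0 0) (P.cons (P.lf 0 875793 0) (P.cons (P.lf 175381 0 0) P.nil))) (P.cons (P.cons (P.lf 0 988333 0) (P.cons (P.lf 118460 0 0) P.nil)) (P.cons (P.cons (P.lf 0 72912 0) P.nil) P.nil)))))) 312783)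
 (EL.cons 8 (TM.mk (P.cons (P.cons (P.lf 102113311 0 0) (P.cons (P.lf 17983774 0 0) (P.cons (P.lf 0 410545 0) (P.cons (P.lf 0 506660 0) (P.cons (P.lf 0 31752 0) (P.cons (P.lf 2359 0 0) P.nil)))))) (P.cons (P.cons (P.lf 0 49628887 0) (P.cons (P.lf 5788595 0 0) (P.cons (P.lf 507552 0 0) (P.cons (P.lf 0 248620 0) (P.cons (P.lf 0 35873 0) P.nil))))) (P.cons (P.cons (P.lf 0 1150957 0) (P.cons (P.lf 0 1062410 0) (P.cons (P.lf 503211 0 0) (P.cons (P.lf 0 34111 0) P.nil)))) (P.cons (P.cons (P.lf 2792230 0 0) (P.cons (P.lf 0 630739 0) (P.cons (P.lf 154994 0 0) P.nil))) (P.cons (P.cons (P.lf 7888 0 0) (P.cons (P.lf 0 50630 0) P.nil)) (P.cons (P.cons (P.lf 0 68967 0) P.nil) P.nil)))))) 130527)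
 EL.nil))
noncomputable def S111_140_512_660_15 : EL := (EL.cons 4 (TM.mk (P.cons (P.lf 0 2384593622 0) (P.cons (P.lf 270058903 0 0) (P.cons (P.lf 21504255 0 0) (P.cons (P.lf 0 879855 0) (P.cons (P.lf 0 178971 0) (P.cons (P.lf 0 6941 0) P.nil)))))) 996)
 (EL.cons 8 (TM.mk (P.cons (P.lf 0 842224982 0) (P.cons (P.lf 0 88240524 0) (P.cons (P.lf 12990618 0 0) (P.cons (P.lf 1378121 0 0) (P.cons (P.lf 11577 0 0) (P.cons (P.lf 0 6078 0) P.nil)))))) 560)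
 EL.nil))
noncomputable def S111_140_512_660_16 : EL := (EL.cons 4 (TM.mk (P.cons (P.cons (P.lf 728387207 0 0) (P.cons (P.lf 64140270 0 0) (P.cons (P.lf 0 4288267 0) (P.lf 0 1429420 0)))) (P.cons (P.cons (P.lf 0 318275121 0) (P.cons (P.lf 23792059 0 0) (P.cons (P.lf 0 1590680 0) (P.lf 0 530224 0)))) (P.cons (P.cons (P.lf 15984495 0 0) (P.cons (P.lf 883536 0 0) (P.cons (P.lf 0 59070 0) (P.lf 0 19687 0)))) (P.cons (P.cons (P.lf 6131465 0 0) (P.cons (P.lf 0 657174 0) (P.cons (P.lf 43937 0 0) P.nil))) (P.cons (P.cons (P.lf 0 136996 0) (P.cons (P.lf 0 84008 0) P.nil)) (P.cons (P.cons (P.lf 0 82565 0) P.nil) P.nil)))))) 65487)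
 (EL.cons 8 (TM.mk (P.cons (P.cons (P.lf 257262242 0 0) (P.cons (P.lf 22653981 0 0) (P.cons (P.lf 0 1514591 0) (P.lf 0 504863 0)))) (P.cons (P.cons (P.lf 0 56324074 0) (P.cons (P.lf 13342293 0 0) (P.cons (P.lf 0 892034 0) (P.lf 0 297343 0)))) (P.cons (P.cons (P.lf 0 14158809 0) (P.cons (P.lf 2558381 0 0) (P.cons (P.lf 0 171047 0) (P.lf 0 57014 0)))) (P.cons (P.cons (P.lf 1863657 0 0) (P.cons (P.lf 35605 0 0) (P.cons (P.lf 0 2380 0) P.nil))) (P.cons (P.cons (P.lf 356680 0 0) (P.cons (P.lf 0 52383 0) P.nil)) (P.cons (P.cons (P.lf 0 7566 0) P.nil) P.nil)))))) 32332)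
 EL.nil))
noncomputable def S111_140_512_660_17 : EL := (EL.cons 4 (TM.mk (P.cons (P.cons (P.lf 0 222489869 0) (P.cons (P.lf 0 39183995 0) (P.cons (P.lf 894518 0 0) (P.cons (P.lf 1103938 0 0) (P.cons (P.lf 69183 0 0) (P.cons (P.lf 0 5140 0) P.nil)))))) (P.cons (P.cons (P.lf 169240443 0 0) (P.cons (P.lf 0 1850689 0) (P.cons (P.lf 0 1351558 0) (P.cons (P.lf 238511 0 0) (P.cons (P.lf 59160 0 0) P.nil))))) (P.cons (P.cons (P.lf 0 35085411 0) (P.cons (P.lf 4388507 0 0) (P.cons (P.lf 0 760955 0) (P.cons (P.lf 0 35283 0) P.nil)))) (P.cons (P.cons (P.lf 0 1844006 0) (P.cons (P.lf 483288 0 0) (P.cons (P.lf 0 80207 0) P.nil))) (P.cons (P.cons (P.lf 1042312 0 0) (P.cons (P.lf 0 153000 0) P.nil)) (P.cons (P.cons (P.lf 33974 0 0) P.nil) P.nil)))))) 287095)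
 (EL.cons 8 (TM.mk (P.cons (P.cons (P.lf 0 78582163 0) (P.cons (P.lf 0 13839565 0) (P.cons (P.lf 315938 0 0) (P.cons (P.lf 389904 0 0) (P.cons (P.lf 24435 0 0) (P.cons (P.lf 0 1815 0) P.nil)))))) (P.cons (P.cons (P.lf 42642106 0 0) (P.cons (P.lf 0 3670986 0) (P.cons (P.lf 0 408481 0) (P.cons (P.lf 169248 0 0) (P.cons (P.lf 26222 0 0) P.nil))))) (P.cons (P.cons (P.lf 0 796627 0) (P.cons (P.lf 1154426 0 0) (P.cons (P.lf 0 367063 0) (P.cons (P.lf 13034 0 0) P.nil)))) (P.cons (P.cons (P.lf 0 2419679 0) (P.cons (P.lf 468558 0 0) (P.cons (P.lf 0 95012 0) P.nil))) (P.cons (P.cons (P.lf 103257 0 0) (P.cons (P.lf 7066 0 0) P.nil)) (P.cons (P.cons (P.lf 66698 0 0) P.nil) P.nil)))))) 122148)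
 EL.nil))
noncomputable def S111_140_512_660_18 : EL := (EL.cons 4 (TM.mk (P.cons (P.lf 1835084209 0 0) (P.cons (P.lf 0 311739172 0) (P.cons (P.lf 0 15996937 0) (P.cons (P.lf 2587877 0 0) (P.cons (P.lf 251917 0 0) (P.cons (P.lf 0 4069 0) P.nil)))))) 2661)
 (EL.cons 8 (TM.mk (P.cons (P.lf 648141365 0 0) (P.cons (P.lf 31204738 0 0) (P.cons (P.lf 0 17803876 0) (P.cons (P.lf 0 1014268 0) (P.cons (P.lf 107557 0 0) (P.cons (P.lf 14597 0 0) P.nil)))))) 1054)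
 EL.nil))
noncomputable def S111_140_512_660_19 : EL := (EL.cons 4 (TM.mk (P.cons (P.cons (P.lf 0 560536542 0) (P.cons (P.lf 0 49359688 0) (P.cons (P.lf 3300072 0 0) (P.lf 1100023 0 0)))) (P.cons (P.cons (P.lf 276672127 0 0) (P.cons (P.lf 0 15514350 0) (P.cons (P.lf 1037252 0 0) (P.lf 345749 0 0)))) (P.cons (P.cons (P.lf 0 22744296 0) (P.cons (P.lf 658547 0 0) (P.cons (P.lf 0 44028 0) (P.lf 0 14677 0)))) (P.cons (P.cons (P.lf 0 5428449 0) (P.cons (P.lf 664125 0 0) (P.cons (P.lf 0 44401 0) P.nil))) (P.cons (P.cons (P.lf 402782 0 0) (P.cons (P.lf 42648 0 0) P.nil)) (P.cons (P.cons (P.lf 90202 0 0) P.nil) P.nil)))))) 72139)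
 (EL.cons 8 (TM.mk (P.cons (P.cons (P.lf 0 197978336 0) (P.cons (P.lf 0 17433562 0) (P.cons (P.lf 1165566 0 0) (P.lf 388521 0 0)))) (P.cons (P.cons (P.lf 54555344 0 0) (P.cons (P.lf 0 9280485 0) (P.cons (P.lf 620471 0 0) (P.lf 206823 0 0)))) (P.cons (P.cons (P.lf 9651696 0 0) (P.cons (P.lf 0 1280851 0) (P.cons (P.lf 85634 0 0) (P.lf 28544 0 0)))) (P.cons (P.cons (P.lf 0 2284124 0) (P.cons (P.lf 149661 0 0) (P.cons (P.lf 0 10006 0) P.nil))) (P.cons (P.cons (P.lf 0 268798 0) (P.cons (P.lf 55388 0 0) P.nil)) (P.cons (P.cons (P.lf 28589 0 0) P.nil) P.nil)))))) 32906)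
 EL.nil))
noncomputable def S111_140_512_660_20 : EL := (EL.cons 4 (TM.mk (P.cons (P.cons (P.lf 171218962 0 0) (P.cons (P.lf 30154375 0 0) (P.cons (P.lf 0 688384 0) (P.cons (P.lf 0 849544 0) (P.cons (P.lf 0 53240 0) (P.cons (P.lf 3955 0 0) P.nil)))))) (P.cons (P.cons (P.lf 0 139935822 0) (P.cons (P.lf 0 283299 0) (P.cons (P.lf 1079083 0 0) (P.cons (P.lf 0 135442 0) (P.cons (P.lf 0 42512 0) P.nil))))) (P.cons (P.cons (P.lf 33328708 0 0) (P.cons (P.lf 0 3642171 0) (P.cons (P.lf 530910 0 0) (P.cons (P.lf 42738 0 0) P.nil)))) (P.cons (P.cons (P.lf 658545 0 0) (P.cons (P.lf 0 194260 0) (P.cons (P.lf 22318 0 0) P.nil))) (P.cons (P.cons (P.lf 0 1024799 0) (P.cons (P.lf 159507 0 0) P.nil)) (P.cons (P.cons (P.lf 5148 0 0) P.nil) P.nil)))))) 255940)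
 (EL.cons 8 (TM.mk (P.cons (P.cons (P.lf 60473569 0 0) (P.cons (P.lf 10650354 0 0) (P.cons (P.lf 0 243133 0) (P.cons (P.lf 0 300054 0) (P.cons (P.lf 0 18804 0) (P.cons (P.lf 1397 0 0) P.nil)))))) (P.cons (P.cons (P.lf 0 36239956 0) (P.cons (P.lf 2221954 0 0) (P.cons (P.lf 328117 0 0) (P.cons (P.lf 0 113255 0) (P.cons (P.lf 0 19115 0) P.nil))))) (P.cons (P.cons (P.lf 2101631 0 0) (P.cons (P.lf 0 1113465 0) (P.cons (P.lf 266162 0 0) (P.cons (P.lf 0 820 0) P.nil)))) (P.cons (P.cons (P.lf 2018172 0 0) (P.cons (P.lf 0 329265 0) (P.cons (P.lf 55240 0 0) P.nil))) (P.cons (P.cons (P.lf 0 182761 0) (P.cons (P.lf 20057 0 0) P.nil)) (P.cons (P.cons (P.lf 0 58566 0) P.nil) P.nil)))))) 108884)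
 EL.nil))
noncomputable def S111_140_512_660_21 : EL := (EL.cons 4 (TM.mk (P.cons (P.cons (P.lf 0 1898361300 0) (P.cons (P.lf 250040538 0 0) (P.cons (P.lf 0 16717122 0) (P.lf 0 5572365 0)))) (P.cons (P.cons (P.lf 0 269778798 0) (P.cons (P.lf 106908255 0 0) (P.cons (P.lf 0 7147632 0) (P.lf 0 2382534 0)))) (P.cons (P.cons (P.lf 83028147 0 0) (P.cons (P.lf 11026395 0 0) (P.cons (P.lf 0 737193 0) (P.lf 0 245721 0)))) (P.cons (P.cons (P.lf 16169403 0 0) (P.cons (P.lf 0 1243650 0) (P.cons (P.lf 83151 0 0) P.nil))) (P.cons (P.cons (P.lf 0 94812 0) (P.cons (P.lf 0 315666 0) P.nil)) (P.cons (P.cons (P.lf 0 192120 0) P.nil) P.nil)))))) 169833)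
 (EL.cons 8 (TM.mk (P.cons (P.cons (P.lf 1911052404 0 0) (P.cons (P.lf 0 251712150 0) (P.cons (P.lf 16828890 0 0) (P.lf 5609631 0 0)))) (P.cons (P.cons (P.lf 0 145069635 0) (P.cons (P.lf 0 52744131 0) (P.cons (P.lf 3526350 0 0) (P.lf 1175454 0 0)))) (P.cons (P.cons (P.lf 0 86898750 0) (P.cons (P.lf 5001876 0 0) (P.cons (P.lf 0 334413 0) (P.lf 0 111468 0)))) (P.cons (P.cons (P.lf 1438302 0 0) (P.cons (P.lf 1637277 0 0) (P.cons (P.lf 0 109461 0) P.nil))) (P.cons (P.cons (P.lf 1234146 0 0) (P.cons (P.lf 33342 0 0) P.nil)) (P.cons (P.cons (P.lf 59415 0 0) P.nil) P.nil)))))) 99162)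
 (EL.cons 11 (TM.mk (P.cons (P.cons (P.lf 776011218 0 0) (P.cons (P.lf 0 120146022 0) (P.cons (P.lf 0 57882564 0) (P.cons (P.lf 2190444 0 0) (P.lf 547611 0 0))))) (P.cons (P.cons (P.lf 250490985 0 0) (P.cons (P.lf 0 38782293 0) (P.cons (P.lf 0 18684084 0) (P.cons (P.lf 707058 0 0) (P.lf 176763 0 0))))) (P.cons (P.cons (P.lf 19946106 0 0) (P.cons (P.lf 0 3088158 0) (P.cons (P.lf 0 1487775 0) (P.cons (P.lf 56301 0 0) P.nil)))) (P.cons (P.cons (P.lf 0 816096 0) (P.cons (P.lf 126351 0 0) (P.cons (P.lf 60870 0 0) P.nil))) (P.cons (P.cons (P.lf 0 166005 0) (P.cons (P.lf 25701 0 0) P.nil)) (P.cons (P.cons (P.lf 0 6441 0) P.nil) P.nil)))))) 32172)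
 EL.nil)))
noncomputable def S111_140_512_660_22 : EL := (EL.cons 4 (TM.mk (P.cons (P.cons (P.lf 579864876 0 0) (P.cons (P.lf 0 25314552 0) (P.cons (P.lf 0 5033064 0) (P.cons (P.lf 1463460 0 0) (P.cons (P.lf 269703 0 0) (P.cons (P.lf 0 20040 0) P.nil)))))) (P.cons (P.cons (P.lf 0 105300990 0) (P.cons (P.lf 24047814 0 0) (P.cons (P.lf 0 7739808 0) (P.cons (P.lf 284016 0 0) (P.cons (P.lf 245904 0 0) P.nil))))) (P.cons (P.cons (P.lf 0 55340277 0) (P.cons (P.lf 12882006 0 0) (P.cons (P.lf 0 3072270 0) (P.cons (P.lf 8556 0 0) P.nil)))) (P.cons (P.cons (P.lf 5401536 0 0) (P.cons (P.lf 490599 0 0) (P.cons (P.lf 0 383283 0) P.nil))) (P.cons (P.cons (P.lf 2323176 0 0) (P.cons (P.lf 0 570018 0) P.nil)) (P.cons (P.cons (P.lf 0 18627 0) P.nil) P.nil)))))) 718629)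
 (EL.cons 8 (TM.mk (P.cons (P.cons (P.lf 0 583741443 0) (P.cons (P.lf 25483791 0 0) (P.cons (P.lf 5066709 0 0) (P.cons (P.lf 0 1473249 0) (P.cons (P.lf 0 271509 0) (P.cons (P.lf 20175 0 0) P.nil)))))) (P.cons (P.cons (P.lf 233273595 0 0) (P.cons (P.lf 0 29764611 0) (P.cons (P.lf 6686895 0 0) (P.cons (P.lf 35280 0 0) (P.cons (P.lf 0 188352 0) P.nil))))) (P.cons (P.cons (P.lf 15525225 0 0) (P.cons (P.lf 0 6944751 0) (P.cons (P.lf 1542270 0 0) (P.cons (P.lf 10626 0 0) P.nil)))) (P.cons (P.cons (P.lf 0 11901954 0) (P.cons (P.lf 1512705 0 0) (P.cons (P.lf 0 82968 0) P.nil))) (P.cons (P.cons (P.lf 0 369861 0) (P.cons (P.lf 425730 0 0) P.nil)) (P.cons (P.cons (P.lf 247452 0 0) P.nil) P.nil)))))) 427824)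
 (EL.cons 11 (TM.mk (P.cons (P.cons (P.lf 0 237036885 0) (P.cons (P.lf 15826281 0 0) (P.cons (P.lf 22307724 0 0) (P.cons (P.lf 1136940 0 0) (P.cons (P.lf 0 402300 0) (P.cons (P.lf 0 45486 0) P.nil)))))) (P.cons (P.cons (P.lf 216687 0 0) (P.cons (P.lf 0 16877676 0) (P.cons (P.lf 3717888 0 0) (P.cons (P.lf 1458039 0 0) (P.cons (P.lf 0 189510 0) P.nil))))) (P.cons (P.cons (P.lf 20025897 0 0) (P.cons (P.lf 0 8519649 0) (P.cons (P.lf 0 292398 0) (P.cons (P.lf 525414 0 0) P.nil)))) (P.cons (P.cons (P.lf 1594449 0 0) (P.cons (P.lf 0 1060791 0) (P.cons (P.lf 61503 0 0) P.nil))) (P.cons (P.cons (P.lf 0 412542 0) (P.cons (P.lf 32193 0 0) P.nil)) (P.cons (P.cons (P.lf 0 63801 0) P.nil) P.nil)))))) 382920)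
 EL.nil)))
noncomputable def S111_140_512_660_23 : EL := (EL.cons 4 (TM.mk (P.cons (P.cons (P.lf 1460900010 0 0) (P.cons (P.lf 0 192420810 0) (P.cons (P.lf 12864801 0 0) (P.lf 4288260 0 0)))) (P.cons (P.cons (P.lf 124885968 0 0) (P.cons (P.lf 0 71376174 0) (P.cons (P.lf 4772040 0 0) (P.lf 1590672 0 0)))) (P.cons (P.cons (P.lf 0 84580488 0) (P.cons (P.lf 0 2650608 0) (P.cons (P.lf 177207 0 0) (P.lf 59061 0 0)))) (P.cons (P.cons (P.lf 0 10330275 0) (P.cons (P.lf 1971522 0 0) (P.cons (P.lf 0 131811 0) P.nil))) (P.cons (P.cons (P.lf 1148724 0 0) (P.cons (P.lf 252024 0 0) P.nil)) (P.cons (P.cons (P.lf 233595 0 0) P.nil) P.nil)))))) 208575)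
 (EL.cons 8 (TM.mk (P.cons (P.cons (P.lf 0 1470666555 0) (P.cons (P.lf 193707216 0 0) (P.cons (P.lf 0 12950814 0) (P.lf 0 4316937 0)))) (P.cons (P.cons (P.lf 194917191 0 0) (P.cons (P.lf 29620872 0 0) (P.cons (P.lf 0 1980381 0) (P.lf 0 660129 0)))) (P.cons (P.cons (P.lf 69541053 0 0) (P.cons (P.lf 0 7331643 0) (P.cons (P.lf 490176 0 0) (P.lf 163389 0 0)))) (P.cons (P.cons (P.lf 0 5338302 0) (P.cons (P.lf 0 1321413 0) (P.cons (P.lf 88344 0 0) P.nil))) (P.cons (P.cons (P.lf 0 1328118 0) (P.cons (P.lf 64533 0 0) P.nil)) (P.cons (P.cons (P.lf 3600 0 0) P.nil) P.nil)))))) 121332)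
 (EL.cons 11 (TM.mk (P.cons (P.cons (P.lf 0 597186000 0) (P.cons (P.lf 92459388 0 0) (P.cons (P.lf 44544015 0 0) (P.cons (P.lf 0 1685673 0) (P.lf 0 421416 0))))) (P.cons (P.cons (P.lf 0 158951340 0) (P.cons (P.lf 24609657 0 0) (P.cons (P.lf 11856153 0 0) (P.cons (P.lf 0 448668 0) (P.lf 0 112164 0))))) (P.cons (P.cons (P.lf 0 783945 0) (P.cons (P.lf 121374 0 0) (P.cons (P.lf 58470 0 0) (P.cons (P.lf 0 2211 0) P.nil)))) (P.cons (P.cons (P.lf 2771979 0 0) (P.cons (P.lf 0 429171 0) (P.cons (P.lf 0 206757 0) P.nil))) (P.cons (P.cons (P.lf 211374 0 0) (P.cons (P.lf 0 32724 0) P.nil)) (P.cons (P.cons (P.lf 0 6111 0) P.nil) P.nil)))))) 61443)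
 EL.nil)))
noncomputable def S111_140_512_660_24 : EL := (EL.cons 4 (TM.mk (P.cons (P.cons (P.lf 0 446239923 0) (P.cons (P.lf 19481028 0 0) (P.cons (P.lf 3873234 0 0) (P.cons (P.lf 0 1126218 0) (P.cons (P.lf 0 207552 0) (P.cons (P.lf 15423 0 0) P.nil)))))) (P.cons (P.cons (P.lf 106303947 0 0) (P.cons (P.lf 0 19609326 0) (P.cons (P.lf 5736909 0 0) (P.cons (P.lf 0 154794 0) (P.cons (P.lf 0 177483 0) P.nil))))) (P.cons (P.cons (P.lf 40726419 0 0) (P.cons (P.lf 0 8984601 0) (P.cons (P.lf 2003340 0 0) (P.cons (P.lf 12672 0 0) P.nil)))) (P.cons (P.cons (P.lf 0 6991536 0) (P.cons (P.lf 293775 0 0) (P.cons (P.lf 124044 0 0) P.nil))) (P.cons (P.cons (P.lf 0 1830165 0) (P.cons (P.lf 523815 0 0) P.nil)) (P.cons (P.cons (P.lf 134427 0 0) P.nil) P.nil)))))) 564315)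
 (EL.cons 8 (TM.mk (P.cons (P.cons (P.lf 449223168 0 0) (P.cons (P.lf 0 19611267 0) (P.cons (P.lf 0 3899127 0) (P.cons (P.lf 1133751 0 0) (P.cons (P.lf 208941 0 0) (P.cons (P.lf 0 15525 0) P.nil)))))) (P.cons (P.cons (P.lf 0 204955278 0) (P.cons (P.lf 24016113 0 0) (P.cons (P.lf 0 4925166 0) (P.cons (P.lf 0 91347 0) (P.cons (P.lf 133116 0 0) P.nil))))) (P.cons (P.cons (P.lf 0 4528002 0) (P.cons (P.lf 4167213 0 0) (P.cons (P.lf 0 871641 0) (P.cons (P.lf 0 13569 0) P.nil)))) (P.cons (P.cons (P.lf 10860441 0 0) (P.cons (P.lf 0 1603581 0) (P.cons (P.lf 163140 0 0) P.nil))) (P.cons (P.cons (P.lf 0 127623 0) (P.cons (P.lf 0 298263 0) P.nil)) (P.cons (P.cons (P.lf 0 261882 0) P.nil) P.nil)))))) 340476)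
 (EL.cons 11 (TM.mk (P.cons (P.cons (P.lf 182413740 0 0) (P.cons (P.lf 0 12179250 0) (P.cons (P.lf 0 17167098 0) (P.cons (P.lf 0 874941 0) (P.cons (P.lf 309591 0 0) (P.cons (P.lf 35004 0 0) P.nil)))))) (P.cons (P.cons (P.lf 0 10496073 0) (P.cons (P.lf 13678017 0 0) (P.cons (P.lf 0 1889031 0) (P.cons (P.lf 0 1072503 0) (P.cons (P.lf 128307 0 0) P.nil))))) (P.cons (P.cons (P.lf 0 16516611 0) (P.cons (P.lf 5895333 0 0) (P.cons (P.lf 491961 0 0) (P.cons (P.lf 0 335451 0) P.nil)))) (P.cons (P.cons (P.lf 0 382818 0) (P.cons (P.lf 367662 0 0) (P.cons (P.lf 0 39810 0) P.nil))) (P.cons (P.cons (P.lf 482949 0 0) (P.cons (P.lf 0 113292 0) P.nil)) (P.cons (P.cons (P.lf 41295 0 0) P.nil) P.nil)))))) 296520)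
 EL.nil)))
noncomputable def S111_140_512_660_25 : EL := (EL.cons 4 (TM.mk (P.cons (P.cons (P.lf 0 1124247969 0) (P.cons (P.lf 148079064 0 0) (P.cons (P.lf 0 9900216 0) (P.lf 0 3300066 0)))) (P.cons (P.cons (P.lf 0 32445645 0) (P.cons (P.lf 46543047 0 0) (P.cons (P.lf 0 3111756 0) (P.lf 0 1037247 0)))) (P.cons (P.cons (P.lf 77403435 0 0) (P.cons (P.lf 0 1975641 0) (P.cons (P.lf 132090 0 0) (P.lf 44034 0 0)))) (P.cons (P.cons (P.lf 5033133 0 0) (P.cons (P.lf 0 1992372 0) (P.cons (P.lf 133206 0 0) P.nil))) (P.cons (P.cons (P.lf 0 1727379 0) (P.cons (P.lf 0 127944 0) P.nil)) (P.cons (P.cons (P.lf 0 190893 0) P.nil) P.nil)))))) 220428)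
 (EL.cons 8 (TM.mk (P.cons (P.cons (P.lf 1131763899 0 0) (P.cons (P.lf 0 149069028 0) (P.cons (P.lf 9966408 0 0) (P.lf 3322134 0 0)))) (P.cons (P.cons (P.lf 0 214087176 0) (P.cons (P.lf 0 14353842 0) (P.cons (P.lf 959664 0 0) (P.lf 319890 0 0)))) (P.cons (P.cons (P.lf 0 51939639 0) (P.cons (P.lf 7844055 0 0) (P.cons (P.lf 0 524433 0) (P.lf 0 174810 0)))) (P.cons (P.cons (P.lf 7872435 0 0) (P.cons (P.lf 860838 0 0) (P.cons (P.lf 0 57549 0) P.nil))) (P.cons (P.cons (P.lf 1151757 0 0) (P.cons (P.lf 0 139491 0) P.nil)) (P.cons (P.cons (P.lf 0 77409 0) P.nil) P.nil)))))) 125985)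
 (EL.cons 11 (TM.mk (P.cons (P.cons (P.lf 459569544 0 0) (P.cons (P.lf 0 71152905 0) (P.cons (P.lf 0 34279224 0) (P.cons (P.lf 1297224 0 0) (P.lf 324306 0 0))))) (P.cons (P.cons (P.lf 96298869 0 0) (P.cons (P.lf 0 14909481 0) (P.cons (P.lf 0 7182915 0) (P.cons (P.lf 271821 0 0) (P.lf 67953 0 0))))) (P.cons (P.cons (P.lf 0 9132300 0) (P.cons (P.lf 1413909 0 0) (P.cons (P.lf 681177 0 0) (P.cons (P.lf 0 25776 0) P.nil)))) (P.cons (P.cons (P.lf 0 2989302 0) (P.cons (P.lf 462816 0 0) (P.cons (P.lf 222969 0 0) P.nil))) (P.cons (P.cons (P.lf 0 60870 0) (P.cons (P.lf 9423 0 0) P.nil)) (P.cons (P.cons (P.lf 28506 0 0) P.nil) P.nil)))))) 75060)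
 EL.nil)))
noncomputable def S111_140_512_660_26 : EL := (EL.cons 4 (TM.mk (P.cons (P.cons (P.lf 343407711 0 0) (P.cons (P.lf 0 14991789 0) (P.cons (P.lf 0 2980680 0) (P.cons (P.lf 866691 0 0) (P.cons (P.lf 159723 0 0) (P.cons (P.lf 0 11868 0) P.nil)))))) (P.cons (P.cons (P.lf 0 101252829 0) (P.cons (P.lf 15939444 0 0) (P.cons (P.lf 0 4246104 0) (P.cons (P.lf 70047 0 0) (P.cons (P.lf 127539 0 0) P.nil))))) (P.cons (P.cons (P.lf 0 28807959 0) (P.cons (P.lf 6151296 0 0) (P.cons (P.lf 0 1273473 0) (P.cons (P.lf 0 21795 0) P.nil)))) (P.cons (P.cons (P.lf 7599645 0 0) (P.cons (P.lf 0 707412 0) (P.cons (P.lf 19302 0 0) P.nil))) (P.cons (P.cons (P.lf 1311867 0 0) (P.cons (P.lf 0 435150 0) P.nil)) (P.cons (P.cons (P.lf 0 211467 0) P.nil) P.nil)))))) 473418)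
 (EL.cons 8 (TM.mk (P.cons (P.cons (P.lf 0 345703491 0) (P.cons (P.lf 15092016 0 0) (P.cons (P.lf 3000606 0 0) (P.cons (P.lf 0 872487 0) (P.cons (P.lf 0 160791 0) (P.cons (P.lf 11946 0 0) P.nil)))))) (P.cons (P.cons (P.lf 177300795 0 0) (P.cons (P.lf 0 19336398 0) (P.cons (P.lf 3620289 0 0) (P.cons (P.lf 119703 0 0) (P.cons (P.lf 0 93336 0) P.nil))))) (P.cons (P.cons (P.lf 0 3333717 0) (P.cons (P.lf 0 2252613 0) (P.cons (P.lf 437814 0 0) (P.cons (P.lf 11793 0 0) P.nil)))) (P.cons (P.cons (P.lf 0 9463239 0) (P.cons (P.lf 1526169 0 0) (P.cons (P.lf 0 187179 0) P.nil))) (P.cons (P.cons (P.lf 521334 0 0) (P.cons (P.lf 182385 0 0) P.nil)) (P.cons (P.cons (P.lf 247671 0 0) P.nil) P.nil)))))) 294399)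
 (EL.cons 11 (TM.mk (P.cons (P.cons (P.lf 0 140378037 0) (P.cons (P.lf 9372645 0 0) (P.cons (P.lf 13211085 0 0) (P.cons (P.lf 673317 0 0) (P.cons (P.lf 0 238248 0) (P.cons (P.lf 0 26937 0) P.nil)))))) (P.cons (P.cons (P.lf 16026354 0 0) (P.cons (P.lf 0 11056767 0) (P.cons (P.lf 705633 0 0) (P.cons (P.lf 787224 0 0) (P.cons (P.lf 0 85248 0) P.nil))))) (P.cons (P.cons (P.lf 13111137 0 0) (P.cons (P.lf 0 3998046 0) (P.cons (P.lf 0 541659 0) (P.cons (P.lf 207297 0 0) P.nil)))) (P.cons (P.cons (P.lf 0 451821 0) (P.cons (P.lf 36783 0 0) (P.cons (P.lf 41052 0 0) P.nil))) (P.cons (P.cons (P.lf 0 468696 0) (P.cons (P.lf 132729 0 0) P.nil)) (P.cons (P.cons (P.lf 0 14655 0) P.nil) P.nil)))))) 247461)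
 EL.nil)))
noncomputable def S111_140_512_660_27 : EL := (EL.cons 13 (TM.mk (P.lf 0 4294967296 0) 0)
 EL.nil)
noncomputable def S111_140_512_660_28 : EL := (EL.cons 13 (TM.mk (P.cons (P.cons (P.lf 1311921330 0 0) (P.cons (P.lf 115525080 0 0) (P.cons (P.lf 0 7723736 0) (P.lf 0 2574576 0)))) (P.cons (P.cons (P.lf 0 424678316 0) (P.cons (P.lf 55936028 0 0) (P.cons (P.lf 0 3739752 0) (P.lf 0 1246580 0)))) (P.cons (P.cons (P.lf 0 7474388 0) (P.cons (P.lf 8968012 0 0) (P.cons (P.lf 0 599580 0) (P.lf 0 199856 0)))) (P.cons (P.cons (P.lf 5883279 0 0) (P.cons (P.lf 293788 0 0) (P.cons (P.lf 0 19640 0) P.nil))) (P.cons (P.cons (P.lf 410367 0 0) (P.cons (P.lf 0 66476 0) P.nil)) (P.cons (P.cons (P.lf 0 18370 0) P.nil) P.nil)))))) 34749)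
 EL.nil)
noncomputable def S111_140_512_660_29 : EL := (EL.cons 13 (TM.mk (P.cons (P.cons (P.lf 0 400733569 0) (P.cons (P.lf 0 70575539 0) (P.cons (P.lf 1611147 0 0) (P.cons (P.lf 1988339 0 0) (P.cons (P.lf 124610 0 0) (P.cons (P.lf 0 9259 0) P.nil)))))) (P.cons (P.cons (P.lf 259440644 0 0) (P.cons (P.lf 0 11326126 0) (P.cons (P.lf 0 2251871 0) (P.cons (P.lf 654774 0 0) (P.cons (P.lf 120670 0 0) P.nil))))) (P.cons (P.cons (P.lf 0 37425210 0) (P.cons (P.lf 5985131 0 0) (P.cons (P.lf 0 1611080 0) (P.cons (P.lf 28534 0 0) P.nil)))) (P.cons (P.cons (P.lf 0 5072266 0) (P.cons (P.lf 1472195 0 0) (P.cons (P.lf 0 347825 0) P.nil))) (P.cons (P.cons (P.lf 899750 0 0) (P.cons (P.lf 0 45396 0) P.nil)) (P.cons (P.cons (P.lf 112852 0 0) P.nil) P.nil)))))) 336985)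
 EL.nil)
noncomputable def S111_140_512_660_30 : EL := (EL.cons 13 (TM.mk (P.cons (P.lf 3305228444 0 0) (P.cons (P.lf 0 187161108 0) (P.cons (P.lf 0 20202340 0) (P.cons (P.lf 0 534200 0) (P.cons (P.lf 32044 0 0) (P.cons (P.lf 3360 0 0) P.nil)))))) 212)
 EL.nil)
noncomputable def S111_140_512_660_31 : EL := (EL.cons 13 (TM.mk (P.cons (P.cons (P.lf 0 1009600166 0) (P.cons (P.lf 0 88903303 0) (P.cons (P.lf 5943866 0 0) (P.lf 1981286 0 0)))) (P.cons (P.cons (P.lf 383984180 0 0) (P.cons (P.lf 0 38011825 0) (P.cons (P.lf 2541381 0 0) (P.lf 847124 0 0)))) (P.cons (P.cons (P.lf 0 6583245 0) (P.cons (P.lf 0 3920496 0) (P.cons (P.lf 262114 0 0) (P.lf 87368 0 0)))) (P.cons (P.cons (P.lf 0 6687632 0) (P.cons (P.lf 442187 0 0) (P.cons (P.lf 0 29565 0) P.nil))) (P.cons (P.cons (P.lf 0 157192 0) (P.cons (P.lf 112237 0 0) P.nil)) (P.cons (P.cons (P.lf 60905 0 0) P.nil) P.nil))))))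 59423)
 EL.nil)
noncomputable def S111_140_512_660_32 : EL := (EL.cons 13 (TM.mk (P.cons (P.cons (P.lf 308387910 0 0) (P.cons (P.lf 54312003 0 0) (P.cons (P.lf 0 1239871 0) (P.cons (P.lf 0 1530143 0) (P.cons (P.lf 0 95894 0) (P.cons (P.lf 7125 0 0) P.nil)))))) (P.cons (P.cons (P.lf 0 217117447 0) (P.cons (P.lf 5640657 0 0) (P.cons (P.lf 1803155 0 0) (P.cons (P.lf 0 417241 0) (P.cons (P.lf 0 87432 0) P.nil))))) (P.cons (P.cons (P.lf 38221550 0 0) (P.cons (P.lf 0 5431432 0) (P.cons (P.lf 1149269 0 0) (P.cons (P.lf 15926 0 0) P.nil)))) (P.cons (P.cons (P.lf 3443027 0 0) (P.cons (P.lf 0 934180 0) (P.cons (P.lf 187074 0 0) P.nil))) (P.cons (P.cons (P.lf 0 1054222 0) (P.cons (P.lf 126358 0 0) P.nil)) (P.cons (P.cons (P.lf 0 77773 0) P.nil) P.nil)))))) 333612)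
 EL.nil)
noncomputable def S111_140_512_660_33 : EL := (EL.cons 14 (TM.mk (P.lf 8589934592 0 0) 0)
 EL.nil)
noncomputable def S111_140_512_660_34 : EL := (EL.cons 14 (TM.mk (P.cons (P.cons (P.lf 0 2623842660 0) (P.cons (P.lf 0 231050160 0) (P.cons (P.lf 15447472 0 0) (P.lf 5149152 0 0)))) (P.cons (P.cons (P.lf 849356632 0 0) (P.cons (P.lf 0 111872056 0) (P.cons (P.lf 7479504 0 0) (P.lf 2493160 0 0)))) (P.cons (P.cons (P.lf 14948776 0 0) (P.cons (P.lf 0 17936024 0) (P.cons (P.lf 1199160 0 0) (P.lf 399712 0 0)))) (P.cons (P.cons (P.lf 0 11766558 0) (P.cons (P.lf 0 587576 0) (P.cons (P.lf 39280 0 0) P.nil))) (P.cons (P.cons (P.lf 0 820734 0) (P.cons (P.lf 132952 0 0) P.nil)) (P.cons (P.cons (P.lf 36740 0 0) P.nil) P.nil)))))) 69498)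
 EL.nil)
noncomputable def S111_140_512_660_35 : EL := (EL.cons 14 (TM.mk (P.cons (P.cons (P.lf 801467138 0 0) (P.cons (P.lf 141151078 0 0) (P.cons (P.lf 0 3222294 0) (P.cons (P.lf 0 3976678 0) (P.cons (P.lf 0 249220 0) (P.cons (P.lf 18518 0 0) P.nil)))))) (P.cons (P.cons (P.lf 0 518881288 0) (P.cons (P.lf 22652252 0 0) (P.cons (P.lf 4503742 0 0) (P.cons (P.lf 0 1309548 0) (P.cons (P.lf 0 241340 0) P.nil))))) (P.cons (P.cons (P.lf 74850420 0 0) (P.cons (P.lf 0 11970262 0) (P.cons (P.lf 3222160 0 0) (P.cons (P.lf 0 57068 0) P.nil)))) (P.cons (P.cons (P.lf 10144532 0 0) (P.cons (P.lf 0 2944390 0) (P.cons (P.lf 695650 0 0) P.nil))) (P.cons (P.cons (P.lf 0 1799500 0) (P.cons (P.lf 90792 0 0) P.nil)) (P.cons (P.cons (P.lf 0 225704 0) P.nil) P.nil)))))) 673970)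
 EL.nil)
noncomputable def S111_140_512_660_36 : EL := (EL.cons 14 (TM.mk (P.cons (P.lf 0 6610456888 0) (P.cons (P.lf 374322216 0 0) (P.cons (P.lf 40404680 0 0) (P.cons (P.lf 1068400 0 0) (P.cons (P.lf 0 64088 0) (P.cons (P.lf 0 6720 0) P.nil)))))) 424)
 EL.nil)
noncomputable def S111_140_512_660_37 : EL := (EL.cons 14 (TM.mk (P.cons (P.cons (P.lf 2019200332 0 0) (P.cons (P.lf 177806606 0 0) (P.cons (P.lf 0 11887732 0) (P.lf 0 3962572 0)))) (P.cons (P.cons (P.lf 0 767968360 0) (P.cons (P.lf 76023650 0 0) (P.cons (P.lf 0 5082762 0) (P.lf 0 1694248 0)))) (P.cons (P.cons (P.lf 13166490 0 0) (P.cons (P.lf 7840992 0 0) (P.cons (P.lf 0 524228 0) (P.lf 0 174736 0)))) (P.cons (P.cons (P.lf 13375264 0 0) (P.cons (P.lf 0 884374 0) (P.cons (P.lf 59130 0 0) P.nil))) (P.cons (P.cons (P.lf 314384 0 0) (P.cons (P.lf 0 224474 0) P.nil)) (P.cons (P.cons (P.lf 0 121810 0) P.nil) P.nil))))))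 118846)
 EL.nil)
noncomputable def S111_140_512_660_38 : EL := (EL.cons 14 (TM.mk (P.cons (P.cons (P.lf 0 616775820 0) (P.cons (P.lf 0 108624006 0) (P.cons (P.lf 2479742 0 0) (P.cons (P.lf 3060286 0 0) (P.cons (P.lf 191788 0 0) (P.cons (P.lf 0 14250 0) P.nil)))))) (P.cons (P.cons (P.lf 434234894 0 0) (P.cons (P.lf 0 11281314 0) (P.cons (P.lf 0 3606310 0) (P.cons (P.lf 834482 0 0) (P.cons (P.lf 174864 0 0) P.nil))))) (P.cons (P.cons (P.lf 0 76443100 0) (P.cons (P.lf 10862864 0 0) (P.cons (P.lf 0 2298538 0) (P.cons (P.lf 0 31852 0) P.nil)))) (P.cons (P.cons (P.lf 0 6886054 0) (P.cons (P.lf 1868360 0 0) (P.cons (P.lf 0 374148 0) P.nil))) (P.cons (P.cons (P.lf 2108444 0 0) (P.cons (P.lf 0 252716 0) P.nil)) (P.cons (P.cons (P.lf 155546 0 0) P.nil) P.nil)))))) 667224)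
 EL.nil)
noncomputable def S111_140_512_660_39 : EL := (EL.cons 14 (TM.mk (P.cons (P.lf 5087133062 0 0) (P.cons (P.lf 0 576125660 0) (P.cons (P.lf 0 45875746 0) (P.cons (P.lf 1877024 0 0) (P.cons (P.lf 381806 0 0) (P.cons (P.lf 14808 0 0) P.nil)))))) 2110)
 EL.nil)
noncomputable def S111_140_512_660_40 : EL := (EL.cons 14 (TM.mk (P.cons (P.cons (P.lf 0 1553892710 0) (P.cons (P.lf 0 136832578 0) (P.cons (P.lf 9148304 0 0) (P.lf 3049430 0 0)))) (P.cons (P.cons (P.lf 678986926 0 0) (P.cons (P.lf 0 50756394 0) (P.cons (P.lf 3393452 0 0) (P.lf 1131146 0 0)))) (P.cons (P.cons (P.lf 0 34100258 0) (P.cons (P.lf 0 1884878 0) (P.cons (P.lf 126018 0 0) (P.lf 42000 0 0)))) (P.cons (P.cons (P.lf 0 13080460 0) (P.cons (P.lf 1401972 0 0) (P.cons (P.lf 0 93734 0) P.nil))) (P.cons (P.cons (P.lf 292260 0 0) (P.cons (P.lf 179218 0 0) P.nil)) (P.cons (P.cons (P.lf 176140 0 0) P.nil) P.nil))))))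 139666)
 EL.nil)
noncomputable def S111_140_512_660_41 : EL := (EL.cons 14 (TM.mk (P.cons (P.cons (P.lf 474645054 0 0) (P.cons (P.lf 83592524 0 0) (P.cons (P.lf 0 1908306 0) (P.cons (P.lf 0 2355068 0) (P.cons (P.lf 0 147592 0) (P.cons (P.lf 10966 0 0) P.nil)))))) (P.cons (P.cons (P.lf 0 361046280 0) (P.cons (P.lf 3948138 0 0) (P.cons (P.lf 2883324 0 0) (P.cons (P.lf 0 508824 0) (P.cons (P.lf 0 126210 0) P.nil))))) (P.cons (P.cons (P.lf 74848878 0 0) (P.cons (P.lf 0 9362150 0) (P.cons (P.lf 1623372 0 0) (P.cons (P.lf 75272 0 0) P.nil)))) (P.cons (P.cons (P.lf 3933880 0 0) (P.cons (P.lf 0 1031016 0) (P.cons (P.lf 171110 0 0) P.nil))) (P.cons (P.cons (P.lf 0 2223600 0) (P.cons (P.lf 326400 0 0) P.nil)) (P.cons (P.cons (P.lf 0 72478 0) P.nil) P.nil)))))) 612424)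
 EL.nil)
noncomputable def S111_140_512_660_42 : EL := (EL.cons 14 (TM.mk (P.cons (P.lf 0 3914846314 0) (P.cons (P.lf 665043568 0 0) (P.cons (P.lf 34126800 0 0) (P.cons (P.lf 0 5520806 0) (P.cons (P.lf 0 537424 0) (P.cons (P.lf 8682 0 0) P.nil)))))) 5662)
 EL.nil)
noncomputable def S111_140_512_660_43 : EL := (EL.cons 14 (TM.mk (P.cons (P.cons (P.lf 1195811290 0 0) (P.cons (P.lf 105300668 0 0) (P.cons (P.lf 0 7040154 0) (P.lf 0 2346716 0)))) (P.cons (P.cons (P.lf 0 590233872 0) (P.cons (P.lf 33097280 0 0) (P.cons (P.lf 0 2212806 0) (P.lf 0 737598 0)))) (P.cons (P.cons (P.lf 48521166 0 0) (P.cons (P.lf 0 1404902 0) (P.cons (P.lf 93928 0 0) (P.lf 31312 0 0)))) (P.cons (P.cons (P.lf 11580692 0 0) (P.cons (P.lf 0 1416800 0) (P.cons (P.lf 94724 0 0) P.nil))) (P.cons (P.cons (P.lf 0 859270 0) (P.cons (P.lf 0 90984 0) P.nil)) (P.cons (P.cons (P.lf 0 192432 0) P.nil) P.nil))))))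 153858)
 EL.nil)
noncomputable def S111_140_512_660_44 : EL := (EL.cons 14 (TM.mk (P.cons (P.cons (P.lf 0 365267120 0) (P.cons (P.lf 0 64329334 0) (P.cons (P.lf 1468554 0 0) (P.cons (P.lf 1812362 0 0) (P.cons (P.lf 113580 0 0) (P.cons (P.lf 0 8438 0) P.nil)))))) (P.cons (P.cons (P.lf 298529754 0 0) (P.cons (P.lf 604372 0 0) (P.cons (P.lf 0 2302044 0) (P.cons (P.lf 288944 0 0) (P.cons (P.lf 90694 0 0) P.nil))))) (P.cons (P.cons (P.lf 0 71101244 0) (P.cons (P.lf 7769966 0 0) (P.cons (P.lf 0 1132608 0) (P.cons (P.lf 0 91176 0) P.nil)))) (P.cons (P.cons (P.lf 0 1404898 0) (P.cons (P.lf 414422 0 0) (P.cons (P.lf 0 47612 0) P.nil))) (P.cons (P.cons (P.lf 2186238 0 0) (P.cons (P.lf 0 340282 0) P.nil)) (P.cons (P.cons (P.lf 0 10984 0) P.nil) P.nil)))))) 545960)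
 EL.nil)
noncomputable def S111_140_512_660_45 : EL := (EL.cons 14 (TM.mk (P.cons (P.cons (P.lf 0 244812534 0) (P.cons (P.lf 0 64673056 0) (P.cons (P.lf 0 1371086 0) (P.cons (P.lf 2035636 0 0) (P.cons (P.lf 261906 0 0) (P.cons (P.lf 0 8034 0) P.nil)))))) (P.cons (P.cons (P.lf 237742704 0 0) (P.cons (P.lf 10556248 0 0) (P.cons (P.lf 0 4377154 0) (P.cons (P.lf 12848 0 0) (P.cons (P.lf 195930 0 0) P.nil))))) (P.cons (P.cons (P.lf 0 72774714 0) (P.cons (P.lf 9212752 0 0) (P.cons (P.lf 0 1017594 0) (P.cons (P.lf 0 308106 0) P.nil)))) (P.cons (P.cons (P.lf 2301518 0 0) (P.cons (P.lf 0 657218 0) (P.cons (P.lf 311148 0 0) P.nil))) (P.cons (P.cons (P.lf 2317188 0 0) (P.cons (P.lf 0 576322 0) P.nil)) (P.cons (P.cons (P.lf 0 140860 0) P.nil) P.nil)))))) 1011050)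
 EL.nil)
noncomputable def S111_140_512_660_46 : EL := (EL.cons 15 (TM.mk (P.lf 4294967296 0 0) 0)
 EL.nil)
noncomputable def S111_140_512_660_47 : EL := (EL.cons 15 (TM.mk (P.cons (P.cons (P.lf 0 1311921330 0) (P.cons (P.lf 0 115525080 0) (P.cons (P.lf 7723736 0 0) (P.lf 2574576 0 0)))) (P.cons (P.cons (P.lf 424678316 0 0) (P.cons (P.lf 0 55936028 0) (P.cons (P.lf 3739752 0 0) (P.lf 1246580 0 0)))) (P.cons (P.cons (P.lf 7474388 0 0) (P.cons (P.lf 0 8968012 0) (P.cons (P.lf 599580 0 0) (P.lf 199856 0 0)))) (P.cons (P.cons (P.lf 0 5883279 0) (P.cons (P.lf 0 293788 0) (P.cons (P.lf 19640 0 0) P.nil))) (P.cons (P.cons (P.lf 0 410367 0) (P.cons (P.lf 66476 0 0) P.nil)) (P.cons (P.cons (P.lf 18370 0 0) P.nil) P.nil)))))) 34749)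
 EL.nil)
noncomputable def S111_140_512_660_48 : EL := (EL.cons 15 (TM.mk (P.cons (P.cons (P.lf 400733569 0 0) (P.cons (P.lf 70575539 0 0) (P.cons (P.lf 0 1611147 0) (P.cons (P.lf 0 1988339 0) (P.cons (P.lf 0 124610 0) (P.cons (P.lf 9259 0 0) P.nil)))))) (P.cons (P.cons (P.lf 0 259440644 0) (P.cons (P.lf 11326126 0 0) (P.cons (P.lf 2251871 0 0) (P.cons (P.lf 0 654774 0) (P.cons (P.lf 0 120670 0) P.nil))))) (P.cons (P.cons (P.lf 37425210 0 0) (P.cons (P.lf 0 5985131 0) (P.cons (P.lf 1611080 0 0) (P.cons (P.lf 0 28534 0) P.nil)))) (P.cons (P.cons (P.lf 5072266 0 0) (P.cons (P.lf 0 1472195 0) (P.cons (P.lf 347825 0 0) P.nil))) (P.cons (P.cons (P.lf 0 899750 0) (P.cons (P.lf 45396 0 0) P.nil)) (P.cons (P.cons (P.lf 0 112852 0) P.nil) P.nil)))))) 336985)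
 EL.nil)
noncomputable def S111_140_512_660 : SL := (SL.cons S111_140_512_660_0 (SL.cons S111_140_512_660_1 (SL.cons S111_140_512_660_2 (SL.cons S111_140_512_660_3 (SL.cons S111_140_512_660_4 (SL.cons S111_140_512_660_5 (SL.cons S111_140_512_660_6 (SL.cons S111_140_512_660_7 (SL.cons S111_140_512_660_8 (SL.cons S111_140_512_660_9 (SL.cons S111_140_512_660_10 (SL.cons S111_140_512_660_11 (SL.cons S111_140_512_660_12 (SL.cons S111_140_512_660_13 (SL.cons S111_140_512_660_14 (SL.cons S111_140_512_660_15 (SL.cons S111_140_512_660_16 (SL.cons S111_140_512_660_17 (SL.cons S111_140_512_660_18 (SL.cons S111_140_512_660_19 (SL.cons S111_140_512_660_20 (SL.cons S111_140_512_660_21 (SL.cons S111_140_512_660_22 (SL.cons S111_140_512_660_23 (SL.cons S111_140_512_660_24 (SL.cons S111_140_512_660_25 (SL.cons S111_140_512_660_26 (SL.cons S111_140_512_660_27 (SL.cons S111_140_512_660_28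 (SL.cons S111_140_512_660_29 (SL.cons S111_140_512_660_30 (SL.cons S111_140_512_660_31 (SL.cons S111_140_512_660_32 (SL.cons S111_140_512_660_33 (SL.cons S111_140_512_660_34 (SL.cons S111_140_512_660_35 (SL.cons S111_140_512_660_36 (SL.cons S111_140_512_660_37 (SL.cons S111_140_512_660_38 (SL.cons S111_140_512_660_39 (SL.cons S111_140_512_660_40 (SL.cons S111_140_512_660_41 (SL.cons S111_140_512_660_42 (SL.cons S111_140_512_660_43 (SL.cons S111_140_512_660_44 (SL.cons S111_140_512_660_45 (SL.cons S111_140_512_660_46 (SL.cons S111_140_512_660_47 (SL.cons S111_140_512_660_48 SL.nil)))))))))))))))))))))))))))))))))))))))))))))))))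
theorem S111_125_512_660_ok : band (seq (shp 5 111 125 512 660) S111_125_512_660) (sok S111_125_512_660) = true := by decide +kernel

theorem S111_140_216_290_ok : band (seq (shp 5 111 140 216 290) S111_140_216_290) (sok S111_140_216_290) = true := by decide +kernel

theorem S111_140_216_364_ok : band (seq (shp 5 111 140 216 364) S111_140_216_364) (sok S111_140_216_364) = true := by decide +kernel

theorem S111_140_290_364_ok : band (seq (shp 5 111 140 290 364) S111_140_290_364) (sok S111_140_290_364) = true := by decide +kernel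

theorem S111_140_364_512_ok : band (seq (shp 5 111 140 364 512) S111_140_364_512) (sok S111_140_364_512) = true := by decide +kernel

theorem S111_140_512_660_ok : band (seq (shp 5 111 140 512 660) S111_140_512_660) (sok S111_140_512_660) = true := by decide +kernel

end Vale.Agent.P098.Ck
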