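import Vale.Agent.P098.CkDefs

namespace Vale.Agent.P098.Ck

noncomputable def S165_169_364_512_0 : EL := (EL.cons 0 (TM.mk (P.cons (P.lf 5700976661 0 0) (P.cons (P.lf 91308434 0 0) (P.cons (P.lf 147160 0 0) (P.cons (P.lf 0 15690 0) (P.cons (P.lf 0 121 0) (P.cons (P.lf 0 0 0) P.nil)))))) 130)
 (EL.cons 1 (TM.mk (P.cons (P.lf 0 1793765011 0) (P.cons (P.lf 4799085 0 0) (P.cons (P.lf 840442 0 0) (P.cons (P.lf 4087 0 0) (P.cons (P.lf 0 78 0) (P.cons (P.lf 0 0 0) P.nil)))))) 104)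
 (EL.cons 5 (TM.mk (P.cons (P.lf 5274430484 0 0) (P.cons (P.lf 0 32465222 0) (P.cons (P.lf 0 52326 0) (P.cons (P.lf 5580 0 0) (P.cons (P.lf 44 0 0) (P.cons (P.lf 0 0 0) P.nil)))))) 83)
 (EL.cons 9 (TM.mk (P.lf 6442450944 0 0) 2)
 EL.nil))))
noncomputable def S165_169_364_512_1 : EL := (EL.cons 0 (TM.mk (P.cons (P.cons (P.lf 0 2575966763 0) (P.cons (P.lf 208937947 0 0) (P.cons (P.lf 13969093 0 0) (P.lf 0 4656357 0)))) (P.cons (P.cons (P.lf 205955669 0 0) (P.cons (P.lf 0 21060172 0) (P.cons (P.lf 0 1408038 0) (P.lf 469356 0 0)))) (P.cons (P.cons (P.lf 4490860 0 0) (P.cons (P.lf 0 1214648 0) (P.cons (P.lf 0 81200 0) (P.lf 27065 0 0)))) (P.cons (P.cons (P.lf 0 110128 0) (P.cons (P.lf 0 9083 0) (P.cons (P.lf 0 599 0) P.nil))) (P.cons (P.cons (P.lf 0 3056 0) (P.cons (P.lf 432 0 0) P.nil)) (P.cons (P.cons (P.lf 11 0 0) P.nil) P.nil)))))) 3244)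
 (EL.cons 1 (TM.mk (P.cons (P.cons (P.lf 0 396908443 0) (P.cons (P.lf 181621355 0 0) (P.cons (P.lf 12142776 0 0) (P.lf 0 4047585 0)))) (P.cons (P.cons (P.lf 0 83876361 0) (P.cons (P.lf 18294435 0 0) (P.cons (P.lf 1223113 0 0) (P.lf 0 407696 0)))) (P.cons (P.cons (P.lf 2205314 0 0) (P.cons (P.lf 103309 0 0) (P.cons (P.lf 6907 0 0) (P.lf 0 2298 0)))) (P.cons (P.cons (P.lf 84234 0 0) (P.cons (P.lf 0 13723 0) (P.cons (P.lf 0 909 0) P.nil))) (P.cons (P.cons (P.lf 0 644 0) (P.cons (P.lf 0 211 0) P.nil)) (P.cons (P.cons (P.lf 0 23 0) P.nil) P.nil)))))) 1737)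
 (EL.cons 5 (TM.mk (P.cons (P.cons (P.lf 1828030937 0 0) (P.cons (P.lf 0 669452418 0) (P.cons (P.lf 0 44758026 0) (P.lf 14919344 0 0)))) (P.cons (P.cons (P.lf 47892209 0 0) (P.cons (P.lf 0 17325860 0) (P.cons (P.lf 0 1158362 0) (P.lf 386124 0 0)))) (P.cons (P.cons (P.lf 0 2918839 0) (P.cons (P.lf 219450 0 0) (P.cons (P.lf 14672 0 0) (P.lf 0 4886 0)))) (P.cons (P.cons (P.lf 0 1783 0) (P.cons (P.lf 7736 0 0) (P.cons (P.lf 514 0 0) P.nil))) (P.cons (P.cons (P.lf 1129 0 0) (P.cons (P.lf 0 64 0) P.nil)) (P.cons (P.cons (P.lf 0 0 0) P.nil) P.nil)))))) 1931)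
 (EL.cons 9 (TM.mk (P.cons (P.cons (P.lf 804822031 0 0) (P.cons (P.lf 0 525144144 0) (P.cons (P.lf 0 35109912 0) (P.lf 11703300 0 0)))) (P.cons (P.cons (P.lf 106871359 0 0) (P.cons (P.lf 0 21894630 0) (P.cons (P.lf 0 1463820 0) (P.lf 487938 0 0)))) (P.cons (P.cons (P.lf 0 1166553 0) (P.cons (P.lf 0 187428 0) (P.cons (P.lf 0 12528 0) (P.lf 4170 0 0)))) (P.cons (P.cons (P.lf 0 36117 0) (P.cons (P.lf 3972 0 0) (P.cons (P.lf 264 0 0) P.nil))) (P.cons (P.cons (P.lf 39 0 0) (P.cons (P.lf 72 0 0) P.nil)) (P.cons (P.cons (P.lf 0 0 0) P.nil) P.nil)))))) 673)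
 (EL.cons 2 (TM.mk (P.cons (P.cons (P.lf 920281547 0 0) (P.cons (P.lf 142482690 0 0) (P.cons (P.lf 0 68643666 0) (P.cons (P.lf 0 2597675 0) (P.lf 649417 0 0))))) (P.cons (P.cons (P.lf 10327502 0 0) (P.cons (P.lf 1598954 0 0) (P.cons (P.lf 0 770324 0) (P.cons (P.lf 0 29148 0) (P.lf 7284 0 0))))) (P.cons (P.cons (P.lf 0 533660 0) (P.cons (P.lf 0 82622 0) (P.cons (P.lf 39805 0 0) (P.cons (P.lf 1504 0 0) P.nil)))) (P.cons (P.cons (P.lf 0 9154 0) (P.cons (P.lf 0 1414 0) (P.cons (P.lf 680 0 0) P.nil))) (P.cons (P.cons (P.lf 45 0 0) (P.cons (P.lf 5 0 0) P.nil)) (P.cons (P.cons (P.lf 0 0 0) P.nil) P.nil)))))) 712)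
 (EL.cons 6 (TM.mk (P.cons (P.cons (P.lf 599246649 0 0) (P.cons (P.lf 92778429 0 0) (P.cons (P.lf 0 44697720 0) (P.cons (P.lf 0 1691490 0) (P.lf 422871 0 0))))) (P.cons (P.cons (P.lf 24984162 0 0) (P.cons (P.lf 3868173 0 0) (P.cons (P.lf 0 1863564 0) (P.cons (P.lf 0 70521 0) (P.lf 17628 0 0))))) (P.cons (P.cons (P.lf 213876 0 0) (P.cons (P.lf 33111 0 0) (P.cons (P.lf 0 15951 0) (P.cons (P.lf 0 603 0) P.nil)))) (P.cons (P.cons (P.lf 0 4536 0) (P.cons (P.lf 0 702 0) (P.cons (P.lf 336 0 0) P.nil))) (P.cons (P.cons (P.lf 0 87 0) (P.cons (P.lf 0 12 0) P.nil)) (P.cons (P.cons (P.lf 0 0 0) P.nil) P.nil)))))) 405)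
 EL.nil))))))
noncomputable def S165_169_364_512_2 : EL := (EL.cons 0 (TM.mk (P.cons (P.cons (P.lf 0 732575017 0) (P.cons (P.lf 588259328 0 0) (P.cons (P.lf 0 32612191 0) (P.cons (P.lf 0 22729601 0) (P.cons (P.lf 2884989 0 0) (P.cons (P.lf 214383 0 0) P.nil)))))) (P.cons (P.cons (P.lf 0 59059092 0) (P.cons (P.lf 7720715 0 0) (P.cons (P.lf 0 1235873 0) (P.cons (P.lf 0 406326 0) (P.cons (P.lf 70248 0 0) P.nil))))) (P.cons (P.cons (P.lf 7196321 0 0) (P.cons (P.lf 0 2216571 0) (P.cons (P.lf 36368 0 0) (P.cons (P.lf 74073 0 0) P.nil)))) (P.cons (P.cons (P.lf 96645 0 0) (P.cons (P.lf 0 64145 0) (P.cons (P.lf 4907 0 0) P.nil))) (P.cons (P.cons (P.lf 0 6804 0) (P.cons (P.lf 1087 0 0) P.nil)) (P.cons (P.cons (P.lf 0 96 0) P.nil) P.nil)))))) 163347)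
 (EL.cons 1 (TM.mk (P.cons (P.cons (P.lf 0 71173555 0) (P.cons (P.lf 73552653 0 0) (P.cons (P.lf 0 12773014 0) (P.cons (P.lf 0 4004680 0) (P.cons (P.lf 709417 0 0) (P.cons (P.lf 52714 0 0) P.nil)))))) (P.cons (P.cons (P.lf 0 26765150 0) (P.cons (P.lf 20691983 0 0) (P.cons (P.lf 0 1871592 0) (P.cons (P.lf 0 896379 0) (P.cons (P.lf 130530 0 0) P.nil))))) (P.cons (P.cons (P.lf 0 1708596 0) (P.cons (P.lf 672500 0 0) (P.cons (P.lf 0 85809 0) (P.cons (P.lf 0 32460 0) P.nil)))) (P.cons (P.cons (P.lf 111094 0 0) (P.cons (P.lf 0 27101 0) (P.cons (P.lf 0 1509 0) P.nil))) (P.cons (P.cons (P.lf 2316 0 0) (P.cons (P.lf 0 1242 0) P.nil)) (P.cons (P.cons (P.lf 0 68 0) P.nil) P.nil)))))) 70867)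
 (EL.cons 5 (TM.mk (P.cons (P.cons (P.lf 374418991 0 0) (P.cons (P.lf 0 357860230 0) (P.cons (P.lf 50167223 0 0) (P.cons (P.lf 17882588 0 0) (P.cons (P.lf 0 2971251 0) (P.cons (P.lf 0 220786 0) P.nil)))))) (P.cons (P.cons (P.lf 51260800 0 0) (P.cons (P.lf 0 28690756 0) (P.cons (P.lf 2750073 0 0) (P.cons (P.lf 1263611 0 0) (P.cons (P.lf 0 187197 0) P.nil))))) (P.cons (P.cons (P.lf 0 879775 0) (P.cons (P.lf 127315 0 0) (P.cons (P.lf 61843 0 0) (P.cons (P.lf 4301 0 0) P.nil)))) (P.cons (P.cons (P.lf 0 88453 0) (P.cons (P.lf 32542 0 0) (P.cons (P.lf 0 380 0) P.nil))) (P.cons (P.cons (P.lf 1311 0 0) (P.cons (P.lf 136 0 0) P.nil)) (P.cons (P.cons (P.lf 41 0 0) P.nil) P.nil)))))) 83842)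
 (EL.cons 9 (TM.mk (P.cons (P.cons (P.lf 100542247 0 0) (P.cons (P.lf 0 131207076 0) (P.cons (P.lf 34033927 0 0) (P.cons (P.lf 8647900 0 0) (P.cons (P.lf 0 1716603 0) (P.cons (P.lf 0 127560 0) P.nil)))))) (P.cons (P.cons (P.lf 26701770 0 0) (P.cons (P.lf 0 22893196 0) (P.cons (P.lf 2038813 0 0) (P.cons (P.lf 987475 0 0) (P.cons (P.lf 0 143137 0) P.nil))))) (P.cons (P.cons (P.lf 1481385 0 0) (P.cons (P.lf 0 583053 0) (P.cons (P.lf 65983 0 0) (P.cons (P.lf 27025 0 0) P.nil)))) (P.cons (P.cons (P.lf 0 47725 0) (P.cons (P.lf 8590 0 0) (P.cons (P.lf 1200 0 0) P.nil))) (P.cons (P.cons (P.lf 0 976 0) (P.cons (P.lf 456 0 0) P.nil)) (P.cons (P.cons (P.lf 13 0 0) P.nil) P.nil)))))) 40424)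
 (EL.cons 2 (TM.mk (P.cons (P.cons (P.lf 229932011 0 0) (P.cons (P.lf 0 114430747 0) (P.cons (P.lf 0 50409658 0) (P.cons (P.lf 12332238 0 0) (P.cons (P.lf 1851592 0 0) (P.cons (P.lf 0 326953 0) P.nil)))))) (P.cons (P.cons (P.lf 33112721 0 0) (P.cons (P.lf 0 2812111 0) (P.cons (P.lf 0 4229763 0) (P.cons (P.lf 593426 0 0) (P.cons (P.lf 112753 0 0) P.nil))))) (P.cons (P.cons (P.lf 0 123969 0) (P.cons (P.lf 0 55935 0) (P.cons (P.lf 1102 0 0) (P.cons (P.lf 3526 0 0) P.nil)))) (P.cons (P.cons (P.lf 0 34048 0) (P.cons (P.lf 376 0 0) (P.cons (P.lf 3791 0 0) P.nil))) (P.cons (P.cons (P.lf 0 202 0) (P.cons (P.lf 84 0 0) P.nil)) (P.cons (P.cons (P.lf 5 0 0) P.nil) P.nil)))))) 45314)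
 (EL.cons 6 (TM.mk (P.cons (P.cons (P.lf 149721558 0 0) (P.cons (P.lf 0 74512242 0) (P.cons (P.lf 0 32824542 0) (P.cons (P.lf 8030202 0 0) (P.cons (P.lf 1205676 0 0) (P.cons (P.lf 0 212892 0) P.nil)))))) (P.cons (P.cons (P.lf 26123628 0 0) (P.cons (P.lf 0 4101546 0) (P.cons (P.lf 0 3754416 0) (P.cons (P.lf 631098 0 0) (P.cons (P.lf 110154 0 0) P.nil))))) (P.cons (P.cons (P.lf 665322 0 0) (P.cons (P.lf 0 136536 0) (P.cons (P.lf 0 102726 0) (P.cons (P.lf 18840 0 0) P.nil)))) (P.cons (P.cons (P.lf 0 9798 0) (P.cons (P.lf 0 2940 0) (P.cons (P.lf 408 0 0) P.nil))) (P.cons (P.cons (P.lf 0 516 0) (P.cons (P.lf 0 0 0) P.nil)) (P.cons (P.cons (P.lf 0 0 0) P.nil) P.nil)))))) 39000)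
 EL.nil))))))
noncomputable def S165_169_364_512_3 : EL := (EL.cons 0 (TM.mk (P.cons (P.lf 2754740202 0 0) (P.cons (P.lf 0 91308434 0) (P.cons (P.lf 0 147160 0) (P.cons (P.lf 15690 0 0) (P.cons (P.lf 121 0 0) (P.cons (P.lf 0 0 0) P.nil)))))) 130)
 (EL.cons 1 (TM.mk (P.cons (P.lf 1793765011 0 0) (P.cons (P.lf 0 4799085 0) (P.cons (P.lf 0 840442 0) (P.cons (P.lf 0 4087 0) (P.cons (P.lf 78 0 0) (P.cons (P.lf 0 0 0) P.nil)))))) 104)
 (EL.cons 5 (TM.mk (P.cons (P.lf 1168020460 0 0) (P.cons (P.lf 32465222 0 0) (P.cons (P.lf 52326 0 0) (P.cons (P.lf 0 5580 0) (P.cons (P.lf 0 44 0) (P.cons (P.lf 0 0 0) P.nil)))))) 76)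
 EL.nil)))
noncomputable def S165_169_364_512_4 : EL := (EL.cons 0 (TM.mk (P.cons (P.cons (P.lf 344135425 0 0) (P.cons (P.lf 0 224547410 0) (P.cons (P.lf 0 15012715 0) (P.lf 5004235 0 0)))) (P.cons (P.cons (P.lf 34290643 0 0) (P.cons (P.lf 0 1919133 0) (P.cons (P.lf 0 128306 0) (P.lf 42767 0 0)))) (P.cons (P.cons (P.lf 0 2031873 0) (P.cons (P.lf 242163 0 0) (P.cons (P.lf 16191 0 0) (P.lf 0 5398 0)))) (P.cons (P.cons (P.lf 608 0 0) (P.cons (P.lf 3575 0 0) (P.cons (P.lf 237 0 0) P.nil))) (P.cons (P.cons (P.lf 829 0 0) (P.cons (P.lf 0 84 0) P.nil)) (P.cons (P.cons (P.lf 0 0 0) P.nil) P.nil)))))) 479)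
 (EL.cons 1 (TM.mk (P.cons (P.cons (P.lf 224085772 0 0) (P.cons (P.lf 0 146215344 0) (P.cons (P.lf 0 9775616 0) (P.lf 3258536 0 0)))) (P.cons (P.cons (P.lf 29156557 0 0) (P.cons (P.lf 0 5704910 0) (P.cons (P.lf 0 381414 0) (P.lf 127136 0 0)))) (P.cons (P.cons (P.lf 0 509403 0) (P.cons (P.lf 32630 0 0) (P.cons (P.lf 2180 0 0) (P.lf 0 727 0)))) (P.cons (P.cons (P.lf 0 23638 0) (P.cons (P.lf 4434 0 0) (P.cons (P.lf 294 0 0) P.nil))) (P.cons (P.cons (P.lf 131 0 0) (P.cons (P.lf 46 0 0) P.nil)) (P.cons (P.cons (P.lf 5 0 0) P.nil) P.nil)))))) 356)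
 (EL.cons 5 (TM.mk (P.cons (P.cons (P.lf 145914746 0 0) (P.cons (P.lf 0 95208966 0) (P.cons (P.lf 0 6365448 0) (P.lf 2121814 0 0)))) (P.cons (P.cons (P.lf 23431556 0 0) (P.cons (P.lf 0 6615850 0) (P.cons (P.lf 0 442318 0) (P.lf 147438 0 0)))) (P.cons (P.cons (P.lf 333592 0 0) (P.cons (P.lf 0 148578 0) (P.cons (P.lf 0 9932 0) (P.lf 3308 0 0)))) (P.cons (P.cons (P.lf 0 12254 0) (P.cons (P.lf 52 0 0) (P.cons (P.lf 2 0 0) P.nil))) (P.cons (P.cons (P.lf 0 280 0) (P.cons (P.lf 52 0 0) P.nil)) (P.cons (P.cons (P.lf 0 0 0) P.nil) P.nil)))))) 250)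
 EL.nil)))
noncomputable def S165_169_364_512_5 : EL := (EL.cons 0 (TM.mk (P.cons (P.cons (P.lf 42991055 0 0) (P.cons (P.lf 0 56103089 0) (P.cons (P.lf 14552632 0 0) (P.cons (P.lf 3697771 0 0) (P.cons (P.lf 0 734004 0) (P.cons (P.lf 0 54543 0) P.nil)))))) (P.cons (P.cons (P.lf 9992482 0 0) (P.cons (P.lf 0 7929356 0) (P.cons (P.lf 389418 0 0) (P.cons (P.lf 299670 0 0) (P.cons (P.lf 0 36873 0) P.nil))))) (P.cons (P.cons (P.lf 252689 0 0) (P.cons (P.lf 78150 0 0) (P.cons (P.lf 0 1458 0) (P.cons (P.lf 0 2636 0) P.nil)))) (P.cons (P.cons (P.lf 0 41767 0) (P.cons (P.lf 12139 0 0) (P.cons (P.lf 0 384 0) P.nil))) (P.cons (P.cons (P.lf 291 0 0) (P.cons (P.lf 28 0 0) P.nil)) (P.cons (P.cons (P.lf 24 0 0) P.nil) P.nil)))))) 22265)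
 (EL.cons 1 (TM.mk (P.cons (P.cons (P.lf 27993873 0 0) (P.cons (P.lf 0 36531851 0) (P.cons (P.lf 9476030 0 0) (P.cons (P.lf 2407824 0 0) (P.cons (P.lf 0 477950 0) (P.cons (P.lf 0 35514 0) P.nil)))))) (P.cons (P.cons (P.lf 7359650 0 0) (P.cons (P.lf 0 6276390 0) (P.cons (P.lf 542310 0 0) (P.cons (P.lf 268498 0 0) (P.cons (P.lf 0 38574 0) P.nil))))) (P.cons (P.cons (P.lf 379453 0 0) (P.cons (P.lf 0 128167 0) (P.cons (P.lf 12412 0 0) (P.cons (P.lf 5658 0 0) P.nil)))) (P.cons (P.cons (P.lf 0 17938 0) (P.cons (P.lf 5895 0 0) (P.cons (P.lf 0 1 0) P.nil))) (P.cons (P.cons (P.lf 0 444 0) (P.cons (P.lf 208 0 0) P.nil)) (P.cons (P.cons (P.lf 9 0 0) P.nil) P.nil)))))) 14262)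
 (EL.cons 5 (TM.mk (P.cons (P.cons (P.lf 18228372 0 0) (P.cons (P.lf 0 23787926 0) (P.cons (P.lf 6170372 0 0) (P.cons (P.lf 1567868 0 0) (P.cons (P.lf 0 311220 0) (P.cons (P.lf 0 23126 0) P.nil)))))) (P.cons (P.cons (P.lf 5347706 0 0) (P.cons (P.lf 0 4811736 0) (P.cons (P.lf 541144 0 0) (P.cons (P.lf 222608 0 0) (P.cons (P.lf 0 34600 0) P.nil))))) (P.cons (P.cons (P.lf 403948 0 0) (P.cons (P.lf 0 222136 0) (P.cons (P.lf 22512 0 0) (P.cons (P.lf 9944 0 0) P.nil)))) (P.cons (P.cons (P.lf 0 1056 0) (P.cons (P.lf 0 1452 0) (P.cons (P.lf 536 0 0) P.nil))) (P.cons (P.cons (P.lf 0 428 0) (P.cons (P.lf 140 0 0) P.nil)) (P.cons (P.cons (P.lf 0 4 0) P.nil) P.nil)))))) 9302)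
 EL.nil)))
noncomputable def S165_169_364_512_6 : EL := (EL.cons 12 (TM.mk (P.lf 8589934592 0 0) 0)
 (EL.cons 3 (TM.mk (P.cons (P.lf 0 2432233447 0) (P.cons (P.lf 40309323 0 0) (P.cons (P.lf 398988 0 0) (P.cons (P.lf 0 315 0) (P.cons (P.lf 0 26 0) (P.cons (P.lf 0 0 0) P.nil)))))) 55)
 (EL.cons 7 (TM.mk (P.cons (P.lf 0 1583762874 0) (P.cons (P.lf 0 22010408 0) (P.cons (P.lf 117469 0 0) (P.cons (P.lf 2151 0 0) (P.cons (P.lf 5 0 0) (P.cons (P.lf 0 0 0) P.nil)))))) 42)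
 EL.nil)))
noncomputable def S165_169_364_512_7 : EL := (EL.cons 12 (TM.mk (P.cons (P.cons (P.lf 1073096042 0 0) (P.cons (P.lf 0 700192192 0) (P.cons (P.lf 0 46813216 0) (P.lf 15604400 0 0)))) (P.cons (P.cons (P.lf 142495146 0 0) (P.cons (P.lf 0 29192840 0) (P.cons (P.lf 0 1951760 0) (P.lf 650584 0 0)))) (P.cons (P.cons (P.lf 0 1555404 0) (P.cons (P.lf 0 249904 0) (P.cons (P.lf 0 16704 0) (P.lf 5560 0 0)))) (P.cons (P.cons (P.lf 0 48156 0) (P.cons (P.lf 5296 0 0) (P.cons (P.lf 352 0 0) P.nil))) (P.cons (P.cons (P.lf 52 0 0) (P.cons (P.lf 96 0 0) P.nil)) (P.cons (P.cons (P.lf 0 0 0) P.nil) P.nil)))))) 872)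
 (EL.cons 3 (TM.mk (P.cons (P.cons (P.lf 2599357880 0 0) (P.cons (P.lf 0 396517770 0) (P.cons (P.lf 0 26510250 0) (P.lf 8836746 0 0)))) (P.cons (P.cons (P.lf 0 75469981 0) (P.cons (P.lf 0 9960384 0) (P.cons (P.lf 0 665924 0) (P.lf 221970 0 0)))) (P.cons (P.cons (P.lf 0 2553321 0) (P.cons (P.lf 197506 0 0) (P.cons (P.lf 13204 0 0) (P.lf 0 4406 0)))) (P.cons (P.cons (P.lf 0 723 0) (P.cons (P.lf 8004 0 0) (P.cons (P.lf 532 0 0) P.nil))) (P.cons (P.cons (P.lf 835 0 0) (P.cons (P.lf 20 0 0) P.nil)) (P.cons (P.cons (P.lf 2 0 0) P.nil) P.nil)))))) 1689)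
 (EL.cons 7 (TM.mk (P.cons (P.cons (P.lf 0 1783110027 0) (P.cons (P.lf 453867859 0 0) (P.cons (P.lf 30344549 0 0) (P.lf 0 10114852 0)))) (P.cons (P.cons (P.lf 41209440 0 0) (P.cons (P.lf 5438749 0 0) (P.cons (P.lf 363622 0 0) (P.lf 0 121210 0)))) (P.cons (P.cons (P.lf 766373 0 0) (P.cons (P.lf 0 190705 0) (P.cons (P.lf 0 12750 0) (P.lf 4248 0 0)))) (P.cons (P.cons (P.lf 0 23340 0) (P.cons (P.lf 0 1579 0) (P.cons (P.lf 0 105 0) P.nil))) (P.cons (P.cons (P.lf 0 292 0) (P.cons (P.lf 60 0 0) P.nil)) (P.cons (P.cons (P.lf 2 0 0) P.nil) P.nil)))))) 1278)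
 (EL.cons 10 (TM.mk (P.cons (P.cons (P.lf 0 1625082147 0) (P.cons (P.lf 0 251603523 0) (P.cons (P.lf 121214643 0 0) (P.cons (P.lf 4587117 0 0) (P.lf 0 1146777 0))))) (P.cons (P.cons (P.lf 0 45169287 0) (P.cons (P.lf 0 6993339 0) (P.cons (P.lf 3369168 0 0) (P.cons (P.lf 127497 0 0) (P.lf 0 31872 0))))) (P.cons (P.cons (P.lf 0 72801 0) (P.cons (P.lf 0 11271 0) (P.cons (P.lf 5430 0 0) (P.cons (P.lf 204 0 0) P.nil)))) (P.cons (P.cons (P.lf 7761 0 0) (P.cons (P.lf 1200 0 0) (P.cons (P.lf 0 579 0) P.nil))) (P.cons (P.cons (P.lf 60 0 0) (P.cons (P.lf 9 0 0) P.nil)) (P.cons P.nil P.nil)))))) 312)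
 EL.nil))))
noncomputable def S165_169_364_512_8 : EL := (EL.cons 12 (TM.mk (P.cons (P.cons (P.lf 134056330 0 0) (P.cons (P.lf 0 174942768 0) (P.cons (P.lf 45378570 0 0) (P.cons (P.lf 11530534 0 0) (P.cons (P.lf 0 2288804 0) (P.cons (P.lf 0 170080 0) P.nil)))))) (P.cons (P.cons (P.lf 35602360 0 0) (P.cons (P.lf 0 30524262 0) (P.cons (P.lf 2718418 0 0) (P.cons (P.lf 1316634 0 0) (P.cons (P.lf 0 190850 0) P.nil))))) (P.cons (P.cons (P.lf 1975180 0 0) (P.cons (P.lf 0 777404 0) (P.cons (P.lf 87978 0 0) (P.cons (P.lf 36034 0 0) P.nil)))) (P.cons (P.cons (P.lf 0 63634 0) (P.cons (P.lf 11454 0 0) (P.cons (P.lf 1600 0 0) P.nil))) (P.cons (P.cons (P.lf 0 1302 0) (P.cons (P.lf 608 0 0) P.nil)) (P.cons (P.cons (P.lf 18 0 0) P.nil) P.nil)))))) 53870)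
 (EL.cons 3 (TM.mk (P.cons (P.cons (P.lf 687406581 0 0) (P.cons (P.lf 0 572368167 0) (P.cons (P.lf 42536277 0 0) (P.cons (P.lf 23560389 0 0) (P.cons (P.lf 0 3240366 0) (P.cons (P.lf 0 240791 0) P.nil)))))) (P.cons (P.cons (P.lf 76835069 0 0) (P.cons (P.lf 0 28830160 0) (P.cons (P.lf 3471148 0 0) (P.cons (P.lf 1364384 0 0) (P.cons (P.lf 0 216490 0) P.nil))))) (P.cons (P.cons (P.lf 0 3697201 0) (P.cons (P.lf 571706 0 0) (P.cons (P.lf 111442 0 0) (P.cons (P.lf 0 2960 0) P.nil)))) (P.cons (P.cons (P.lf 0 115641 0) (P.cons (P.lf 49976 0 0) (P.cons (P.lf 138 0 0) P.nil))) (P.cons (P.cons (P.lf 1821 0 0) (P.cons (P.lf 442 0 0) P.nil)) (P.cons (P.cons (P.lf 70 0 0) P.nil) P.nil)))))) 101891)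
 (EL.cons 7 (TM.mk (P.cons (P.cons (P.lf 0 420792863 0) (P.cons (P.lf 371837424 0 0) (P.cons (P.lf 0 38609034 0) (P.cons (P.lf 0 16773529 0) (P.cons (P.lf 2545228 0 0) (P.cons (P.lf 189134 0 0) P.nil)))))) (P.cons (P.cons (P.lf 0 41954840 0) (P.cons (P.lf 15742350 0 0) (P.cons (P.lf 0 1895374 0) (P.cons (P.lf 0 745002 0) (P.cons (P.lf 118212 0 0) P.nil))))) (P.cons (P.cons (P.lf 2658000 0 0) (P.cons (P.lf 0 552014 0) (P.cons (P.lf 0 31973 0) (P.cons (P.lf 12965 0 0) P.nil)))) (P.cons (P.cons (P.lf 17469 0 0) (P.cons (P.lf 0 19199 0) (P.cons (P.lf 945 0 0) P.nil))) (P.cons (P.cons (P.lf 0 2045 0) (P.cons (P.lf 309 0 0) P.nil)) (P.cons (P.cons (P.lf 0 6 0) P.nil) P.nil)))))) 52661)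
 (EL.cons 10 (TM.mk (P.cons (P.cons (P.lf 0 406026192 0) (P.cons (P.lf 202067910 0 0) (P.cons (P.lf 89016066 0 0) (P.cons (P.lf 0 21776922 0) (P.cons (P.lf 0 3269646 0) (P.cons (P.lf 577350 0 0) P.nil)))))) (P.cons (P.cons (P.lf 0 65201262 0) (P.cons (P.lf 8314644 0 0) (P.cons (P.lf 8944404 0 0) (P.cons (P.lf 0 1408818 0) (P.cons (P.lf 0 253296 0) P.nil))))) (P.cons (P.cons (P.lf 0 928260 0) (P.cons (P.lf 269718 0 0) (P.cons (P.lf 160884 0 0) (P.cons (P.lf 0 33144 0) P.nil)))) (P.cons (P.cons (P.lf 34098 0 0) (P.cons (P.lf 5130 0 0) (P.cons (P.lf 0 2574 0) P.nil))) (P.cons (P.cons (P.lf 780 0 0) (P.cons (P.lf 0 24 0) P.nil)) (P.cons (P.cons (P.lf 0 0 0) P.nil) P.nil)))))) 91590)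
 EL.nil))))
noncomputable def S165_169_364_512_9 : EL := (EL.cons 3 (TM.mk (P.cons (P.lf 0 2432233447 0) (P.cons (P.lf 40309323 0 0) (P.cons (P.lf 398988 0 0) (P.cons (P.lf 0 315 0) (P.cons (P.lf 0 26 0) (P.cons (P.lf 0 0 0) P.nil)))))) 55)
 (EL.cons 7 (TM.mk (P.cons (P.lf 0 1583762874 0) (P.cons (P.lf 0 22010408 0) (P.cons (P.lf 117469 0 0) (P.cons (P.lf 2151 0 0) (P.cons (P.lf 5 0 0) (P.cons (P.lf 0 0 0) P.nil)))))) 42)
 EL.nil))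
noncomputable def S165_169_364_512_10 : EL := (EL.cons 3 (TM.mk (P.cons (P.cons (P.lf 0 303846328 0) (P.cons (P.lf 198258885 0 0) (P.cons (P.lf 13255125 0 0) (P.lf 0 4418373 0)))) (P.cons (P.cons (P.lf 0 35311756 0) (P.cons (P.lf 4980192 0 0) (P.cons (P.lf 332962 0 0) (P.lf 0 110985 0)))) (P.cons (P.cons (P.lf 1158930 0 0) (P.cons (P.lf 0 98753 0) (P.cons (P.lf 0 6602 0) (P.lf 2203 0 0)))) (P.cons (P.cons (P.lf 12915 0 0) (P.cons (P.lf 0 4002 0) (P.cons (P.lf 0 266 0) P.nil))) (P.cons (P.cons (P.lf 0 320 0) (P.cons (P.lf 0 10 0) P.nil)) (P.cons (P.cons (P.lf 0 1 0) P.nil) P.nil)))))) 359)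
 (EL.cons 7 (TM.mk (P.cons (P.cons (P.lf 0 197851293 0) (P.cons (P.lf 129097420 0 0) (P.cons (P.lf 8631152 0 0) (P.lf 0 2877049 0)))) (P.cons (P.cons (P.lf 0 29022084 0) (P.cons (P.lf 7176544 0 0) (P.cons (P.lf 479806 0 0) (P.lf 0 159934 0)))) (P.cons (P.cons (P.lf 0 63670 0) (P.cons (P.lf 111302 0 0) (P.cons (P.lf 7440 0 0) (P.lf 0 2478 0)))) (P.cons (P.cons (P.lf 15081 0 0) (P.cons (P.lf 0 910 0) (P.cons (P.lf 0 60 0) P.nil))) (P.cons (P.cons (P.lf 128 0 0) (P.cons (P.lf 0 42 0) P.nil)) (P.cons (P.cons (P.lf 0 1 0) P.nil) P.nil)))))) 221)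
 EL.nil))
noncomputable def S165_169_364_512_11 : EL := (EL.cons 3 (TM.mk (P.cons (P.cons (P.lf 0 37957947 0) (P.cons (P.lf 49534911 0 0) (P.cons (P.lf 0 12848907 0) (P.cons (P.lf 0 3264861 0) (P.cons (P.lf 648072 0 0) (P.cons (P.lf 48157 0 0) P.nil)))))) (P.cons (P.cons (P.lf 0 9451705 0) (P.cons (P.lf 7821980 0 0) (P.cons (P.lf 0 556772 0) (P.cons (P.lf 0 318694 0) (P.cons (P.lf 43298 0 0) P.nil))))) (P.cons (P.cons (P.lf 0 385975 0) (P.cons (P.lf 68756 0 0) (P.cons (P.lf 0 10046 0) (P.cons (P.lf 0 3488 0) P.nil)))) (P.cons (P.cons (P.lf 28935 0 0) (P.cons (P.lf 0 8302 0) (P.cons (P.lf 84 0 0) P.nil))) (P.cons (P.cons (P.lf 159 0 0) (P.cons (P.lf 0 152 0) P.nil)) (P.cons (P.cons (P.lf 0 14 0) P.nil) P.nil)))))) 17617)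
 (EL.cons 7 (TM.mk (P.cons (P.cons (P.lf 0 24716537 0) (P.cons (P.lf 32254944 0 0) (P.cons (P.lf 0 8366640 0) (P.cons (P.lf 0 2125933 0) (P.cons (P.lf 421996 0 0) (P.cons (P.lf 31358 0 0) P.nil)))))) (P.cons (P.cons (P.lf 0 6907658 0) (P.cons (P.lf 6076152 0 0) (P.cons (P.lf 0 617482 0) (P.cons (P.lf 0 272298 0) (P.cons (P.lf 41052 0 0) P.nil))))) (P.cons (P.cons (P.lf 0 453564 0) (P.cons (P.lf 219154 0 0) (P.cons (P.lf 0 22565 0) (P.cons (P.lf 0 9859 0) P.nil)))) (P.cons (P.cons (P.lf 7191 0 0) (P.cons (P.lf 0 581 0) (P.cons (P.lf 0 471 0) P.nil))) (P.cons (P.cons (P.lf 439 0 0) (P.cons (P.lf 0 159 0) P.nil)) (P.cons (P.cons (P.lf 0 0 0) P.nil) P.nil)))))) 11179)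
 EL.nil))
noncomputable def S165_169_364_512_12 : EL := (EL.cons 4 (TM.mk (P.cons (P.lf 2432233447 0 0) (P.cons (P.lf 0 40309323 0) (P.cons (P.lf 0 398988 0) (P.cons (P.lf 315 0 0) (P.cons (P.lf 26 0 0) (P.cons (P.lf 0 0 0) P.nil)))))) 55)
 (EL.cons 8 (TM.mk (P.cons (P.lf 1583762874 0 0) (P.cons (P.lf 22010408 0 0) (P.cons (P.lf 0 117469 0) (P.cons (P.lf 0 2151 0) (P.cons (P.lf 0 5 0) (P.cons (P.lf 0 0 0) P.nil)))))) 42)
 EL.nil))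
noncomputable def S165_169_364_512_13 : EL := (EL.cons 4 (TM.mk (P.cons (P.cons (P.lf 303846328 0 0) (P.cons (P.lf 0 198258885 0) (P.cons (P.lf 0 13255125 0) (P.lf 4418373 0 0)))) (P.cons (P.cons (P.lf 35311756 0 0) (P.cons (P.lf 0 4980192 0) (P.cons (P.lf 0 332962 0) (P.lf 110985 0 0)))) (P.cons (P.cons (P.lf 0 1158930 0) (P.cons (P.lf 98753 0 0) (P.cons (P.lf 6602 0 0) (P.lf 0 2203 0)))) (P.cons (P.cons (P.lf 0 12915 0) (P.cons (P.lf 4002 0 0) (P.cons (P.lf 266 0 0) P.nil))) (P.cons (P.cons (P.lf 320 0 0) (P.cons (P.lf 10 0 0) P.nil)) (P.cons (P.cons (P.lf 1 0 0) P.nil) P.nil)))))) 359)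
 (EL.cons 8 (TM.mk (P.cons (P.cons (P.lf 197851293 0 0) (P.cons (P.lf 0 129097420 0) (P.cons (P.lf 0 8631152 0) (P.lf 2877049 0 0)))) (P.cons (P.cons (P.lf 29022084 0 0) (P.cons (P.lf 0 7176544 0) (P.cons (P.lf 0 479806 0) (P.lf 159934 0 0)))) (P.cons (P.cons (P.lf 63670 0 0) (P.cons (P.lf 0 111302 0) (P.cons (P.lf 0 7440 0) (P.lf 2478 0 0)))) (P.cons (P.cons (P.lf 0 15081 0) (P.cons (P.lf 910 0 0) (P.cons (P.lf 60 0 0) P.nil))) (P.cons (P.cons (P.lf 0 128 0) (P.cons (P.lf 42 0 0) P.nil)) (P.cons (P.cons (P.lf 1 0 0) P.nil) P.nil)))))) 221)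
 EL.nil))
noncomputable def S165_169_364_512_14 : EL := (EL.cons 4 (TM.mk (P.cons (P.cons (P.lf 37957947 0 0) (P.cons (P.lf 0 49534911 0) (P.cons (P.lf 12848907 0 0) (P.cons (P.lf 3264861 0 0) (P.cons (P.lf 0 648072 0) (P.cons (P.lf 0 48157 0) P.nil)))))) (P.cons (P.cons (P.lf 9451705 0 0) (P.cons (P.lf 0 7821980 0) (P.cons (P.lf 556772 0 0) (P.cons (P.lf 318694 0 0) (P.cons (P.lf 0 43298 0) P.nil))))) (P.cons (P.cons (P.lf 385975 0 0) (P.cons (P.lf 0 68756 0) (P.cons (P.lf 10046 0 0) (P.cons (P.lf 3488 0 0) P.nil)))) (P.cons (P.cons (P.lf 0 28935 0) (P.cons (P.lf 8302 0 0) (P.cons (P.lf 0 84 0) P.nil))) (P.cons (P.cons (P.lf 0 159 0) (P.cons (P.lf 152 0 0) P.nil)) (P.cons (P.cons (P.lf 14 0 0) P.nil) P.nil)))))) 17617)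
 (EL.cons 8 (TM.mk (P.cons (P.cons (P.lf 24716537 0 0) (P.cons (P.lf 0 32254944 0) (P.cons (P.lf 8366640 0 0) (P.cons (P.lf 2125933 0 0) (P.cons (P.lf 0 421996 0) (P.cons (P.lf 0 31358 0) P.nil)))))) (P.cons (P.cons (P.lf 6907658 0 0) (P.cons (P.lf 0 6076152 0) (P.cons (P.lf 617482 0 0) (P.cons (P.lf 272298 0 0) (P.cons (P.lf 0 41052 0) P.nil))))) (P.cons (P.cons (P.lf 453564 0 0) (P.cons (P.lf 0 219154 0) (P.cons (P.lf 22565 0 0) (P.cons (P.lf 9859 0 0) P.nil)))) (P.cons (P.cons (P.lf 0 7191 0) (P.cons (P.lf 581 0 0) (P.cons (P.lf 471 0 0) P.nil))) (P.cons (P.cons (P.lf 0 439 0) (P.cons (P.lf 159 0 0) P.nil)) (P.cons (P.cons (P.lf 0 0 0) P.nil) P.nil)))))) 11179)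
 EL.nil))
noncomputable def S165_169_364_512_15 : EL := (EL.cons 4 (TM.mk (P.cons (P.lf 0 1469194774 0) (P.cons (P.lf 48697831 0 0) (P.cons (P.lf 78485 0 0) (P.cons (P.lf 0 8368 0) (P.cons (P.lf 0 64 0) (P.cons (P.lf 0 0 0) P.nil)))))) 72)
 (EL.cons 8 (TM.mk (P.cons (P.lf 0 956674673 0) (P.cons (P.lf 2559512 0 0) (P.cons (P.lf 448236 0 0) (P.cons (P.lf 2180 0 0) (P.cons (P.lf 0 42 0) (P.cons (P.lf 0 0 0) P.nil)))))) 52)
 EL.nil))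
noncomputable def S165_169_364_512_16 : EL := (EL.cons 4 (TM.mk (P.cons (P.cons (P.lf 0 183538893 0) (P.cons (P.lf 119758619 0 0) (P.cons (P.lf 8006781 0 0) (P.lf 0 2668925 0)))) (P.cons (P.cons (P.lf 0 18288343 0) (P.cons (P.lf 1023538 0 0) (P.cons (P.lf 68430 0 0) (P.lf 0 22809 0)))) (P.cons (P.cons (P.lf 1083665 0 0) (P.cons (P.lf 0 129153 0) (P.cons (P.lf 0 8635 0) (P.lf 2879 0 0)))) (P.cons (P.cons (P.lf 0 324 0) (P.cons (P.lf 0 1906 0) (P.cons (P.lf 0 126 0) P.nil))) (P.cons (P.cons (P.lf 0 442 0) (P.cons (P.lf 45 0 0) P.nil)) (P.cons (P.cons (P.lf 0 0 0) P.nil) P.nil)))))) 264)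
 (EL.cons 8 (TM.mk (P.cons (P.cons (P.lf 0 119512412 0) (P.cons (P.lf 77981517 0 0) (P.cons (P.lf 5213662 0 0) (P.lf 0 1737886 0)))) (P.cons (P.cons (P.lf 0 15550164 0) (P.cons (P.lf 3042619 0 0) (P.cons (P.lf 203421 0 0) (P.lf 0 67806 0)))) (P.cons (P.cons (P.lf 271682 0 0) (P.cons (P.lf 0 17403 0) (P.cons (P.lf 0 1163 0) (P.lf 388 0 0)))) (P.cons (P.cons (P.lf 12607 0 0) (P.cons (P.lf 0 2365 0) (P.cons (P.lf 0 157 0) P.nil))) (P.cons (P.cons (P.lf 0 70 0) (P.cons (P.lf 0 25 0) P.nil)) (P.cons (P.cons (P.lf 0 3 0) P.nil) P.nil)))))) 180)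
 EL.nil))
noncomputable def S165_169_364_512_17 : EL := (EL.cons 4 (TM.mk (P.cons (P.cons (P.lf 0 22928563 0) (P.cons (P.lf 29921647 0 0) (P.cons (P.lf 0 7761404 0) (P.cons (P.lf 0 1972144 0) (P.cons (P.lf 391469 0 0) (P.cons (P.lf 29089 0 0) P.nil)))))) (P.cons (P.cons (P.lf 0 5329323 0) (P.cons (P.lf 4228990 0 0) (P.cons (P.lf 0 207690 0) (P.cons (P.lf 0 159824 0) (P.cons (P.lf 19665 0 0) P.nil))))) (P.cons (P.cons (P.lf 0 134767 0) (P.cons (P.lf 0 41680 0) (P.cons (P.lf 778 0 0) (P.cons (P.lf 1406 0 0) P.nil)))) (P.cons (P.cons (P.lf 22275 0 0) (P.cons (P.lf 0 6474 0) (P.cons (P.lf 205 0 0) P.nil))) (P.cons (P.cons (P.lf 0 155 0) (P.cons (P.lf 0 15 0) P.nil)) (P.cons (P.cons (P.lf 0 13 0) P.nil) P.nil)))))) 11885)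
 (EL.cons 8 (TM.mk (P.cons (P.cons (P.lf 0 14930066 0) (P.cons (P.lf 19483654 0 0) (P.cons (P.lf 0 5053883 0) (P.cons (P.lf 0 1284173 0) (P.cons (P.lf 254907 0 0) (P.cons (P.lf 18941 0 0) P.nil)))))) (P.cons (P.cons (P.lf 0 3925147 0) (P.cons (P.lf 3347408 0 0) (P.cons (P.lf 0 289232 0) (P.cons (P.lf 0 143199 0) (P.cons (P.lf 20573 0 0) P.nil))))) (P.cons (P.cons (P.lf 0 202375 0) (P.cons (P.lf 68356 0 0) (P.cons (P.lf 0 6620 0) (P.cons (P.lf 0 3018 0) P.nil)))) (P.cons (P.cons (P.lf 9567 0 0) (P.cons (P.lf 0 3144 0) (P.cons (P.lf 1 0 0) P.nil))) (P.cons (P.cons (P.lf 237 0 0) (P.cons (P.lf 0 111 0) P.nil)) (P.cons (P.cons (P.lf 0 5 0) P.nil) P.nil)))))) 7595)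
 EL.nil))
noncomputable def S165_169_364_512_18 : EL := (EL.cons 4 (TM.mk (P.cons (P.lf 887469616 0 0) (P.cons (P.lf 0 44124012 0) (P.cons (P.lf 294518 0 0) (P.cons (P.lf 10780 0 0) (P.cons (P.lf 0 30 0) (P.cons (P.lf 0 0 0) P.nil)))))) 71)
 (EL.cons 8 (TM.mk (P.cons (P.lf 577880973 0 0) (P.cons (P.lf 0 11123280 0) (P.cons (P.lf 0 339931 0) (P.cons (P.lf 3498 0 0) (P.cons (P.lf 97 0 0) (P.cons (P.lf 0 0 0) P.nil)))))) 49)
 EL.nil))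
noncomputable def S165_169_364_512_19 : EL := (EL.cons 4 (TM.mk (P.cons (P.cons (P.lf 110866982 0 0) (P.cons (P.lf 0 72340398 0) (P.cons (P.lf 0 4836510 0) (P.lf 1612169 0 0)))) (P.cons (P.cons (P.lf 9209710 0 0) (P.cons (P.lf 580624 0 0) (P.cons (P.lf 38819 0 0) (P.lf 0 12939 0)))) (P.cons (P.cons (P.lf 0 855859 0) (P.cons (P.lf 100128 0 0) (P.cons (P.lf 6694 0 0) (P.lf 0 2232 0)))) (P.cons (P.cons (P.lf 9246 0 0) (P.cons (P.lf 0 48 0) (P.cons (P.lf 0 2 0) P.nil))) (P.cons (P.cons (P.lf 374 0 0) (P.cons (P.lf 0 59 0) P.nil)) (P.cons (P.cons (P.lf 0 3 0) P.nil) P.nil)))))) 224)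
 (EL.cons 8 (TM.mk (P.cons (P.cons (P.lf 72191676 0 0) (P.cons (P.lf 0 47104868 0) (P.cons (P.lf 0 3149321 0) (P.lf 1049773 0 0)))) (P.cons (P.cons (P.lf 8196672 0 0) (P.cons (P.lf 0 1057231 0) (P.cons (P.lf 0 70683 0) (P.lf 23560 0 0)))) (P.cons (P.cons (P.lf 0 331624 0) (P.cons (P.lf 48699 0 0) (P.cons (P.lf 3256 0 0) (P.lf 0 1085 0)))) (P.cons (P.cons (P.lf 0 6427 0) (P.cons (P.lf 1549 0 0) (P.cons (P.lf 103 0 0) P.nil))) (P.cons (P.cons (P.lf 197 0 0) (P.cons (P.lf 0 10 0) P.nil)) (P.cons (P.cons (P.lf 2 0 0) P.nil) P.nil)))))) 139)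
 EL.nil))
noncomputable def S165_169_364_512_20 : EL := (EL.cons 4 (TM.mk (P.cons (P.cons (P.lf 13850037 0 0) (P.cons (P.lf 0 18074221 0) (P.cons (P.lf 4688289 0 0) (P.cons (P.lf 1191277 0 0) (P.cons (P.lf 0 236467 0) (P.cons (P.lf 0 17571 0) P.nil)))))) (P.cons (P.cons (P.lf 2989650 0 0) (P.cons (P.lf 0 2254984 0) (P.cons (P.lf 47756 0 0) (P.cons (P.lf 76799 0 0) (P.cons (P.lf 0 7960 0) P.nil))))) (P.cons (P.cons (P.lf 25782 0 0) (P.cons (P.lf 70478 0 0) (P.cons (P.lf 0 3317 0) (P.cons (P.lf 0 2644 0) P.nil)))) (P.cons (P.cons (P.lf 0 15330 0) (P.cons (P.lf 3910 0 0) (P.cons (P.lf 0 135 0) P.nil))) (P.cons (P.cons (P.lf 303 0 0) (P.cons (P.lf 0 60 0) P.nil)) (P.cons (P.cons (P.lf 8 0 0) P.nil) P.nil)))))) 8105)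
 (EL.cons 8 (TM.mk (P.cons (P.cons (P.lf 9018532 0 0) (P.cons (P.lf 0 11769134 0) (P.cons (P.lf 3052806 0 0) (P.cons (P.lf 775707 0 0) (P.cons (P.lf 0 153977 0) (P.cons (P.lf 0 11441 0) P.nil)))))) (P.cons (P.cons (P.lf 2221527 0 0) (P.cons (P.lf 0 1826958 0) (P.cons (P.lf 124117 0 0) (P.cons (P.lf 73644 0 0) (P.cons (P.lf 0 9875 0) P.nil))))) (P.cons (P.cons (P.lf 81471 0 0) (P.cons (P.lf 0 5849 0) (P.cons (P.lf 602 0 0) (P.cons (P.lf 262 0 0) P.nil)))) (P.cons (P.cons (P.lf 0 8192 0) (P.cons (P.lf 2913 0 0) (P.cons (P.lf 0 95 0) P.nil))) (P.cons (P.cons (P.lf 0 67 0) (P.cons (P.lf 42 0 0) P.nil)) (P.cons (P.cons (P.lf 6 0 0) P.nil) P.nil)))))) 5048)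
 EL.nil))
noncomputable def S165_169_364_512_21 : EL := (EL.cons 4 (TM.mk (P.cons (P.cons (P.lf 0 2903204208 0) (P.cons (P.lf 594776655 0 0) (P.cons (P.lf 39765375 0 0) (P.lf 0 13255119 0)))) (P.cons (P.cons (P.lf 40158225 0 0) (P.cons (P.lf 14940576 0 0) (P.cons (P.lf 998886 0 0) (P.lf 0 332955 0)))) (P.cons (P.cons (P.lf 3712251 0 0) (P.cons (P.lf 0 296259 0) (P.cons (P.lf 0 19806 0) (P.lf 6609 0 0)))) (P.cons (P.cons (P.lf 13638 0 0) (P.cons (P.lf 0 12006 0) (P.cons (P.lf 0 798 0) P.nil))) (P.cons (P.cons (P.lf 0 1155 0) (P.cons (P.lf 0 30 0) P.nil)) (P.cons (P.cons (P.lf 0 3 0) P.nil) P.nil)))))) 1311)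
 (EL.cons 8 (TM.mk (P.cons (P.cons (P.lf 1585258734 0 0) (P.cons (P.lf 0 324770439 0) (P.cons (P.lf 0 21713397 0) (P.lf 7237803 0 0)))) (P.cons (P.cons (P.lf 0 70231524 0) (P.cons (P.lf 1737795 0 0) (P.cons (P.lf 116184 0 0) (P.lf 0 38724 0)))) (P.cons (P.cons (P.lf 0 830043 0) (P.cons (P.lf 302007 0 0) (P.cons (P.lf 20190 0 0) (P.lf 0 6726 0)))) (P.cons (P.cons (P.lf 38421 0 0) (P.cons (P.lf 669 0 0) (P.cons (P.lf 45 0 0) P.nil))) (P.cons (P.cons (P.lf 420 0 0) (P.cons (P.lf 0 102 0) P.nil)) (P.cons (P.cons (P.lf 0 3 0) P.nil) P.nil)))))) 1038)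
 (EL.cons 11 (TM.mk (P.cons (P.cons (P.lf 1625082147 0 0) (P.cons (P.lf 251603523 0 0) (P.cons (P.lf 0 121214643 0) (P.cons (P.lf 0 4587117 0) (P.lf 1146777 0 0))))) (P.cons (P.cons (P.lf 45169287 0 0) (P.cons (P.lf 6993339 0 0) (P.cons (P.lf 0 3369168 0) (P.cons (P.lf 0 127497 0) (P.lf 31872 0 0))))) (P.cons (P.cons (P.lf 72801 0 0) (P.cons (P.lf 11271 0 0) (P.cons (P.lf 0 5430 0) (P.cons (P.lf 0 204 0) P.nil)))) (P.cons (P.cons (P.lf 0 7761 0) (P.cons (P.lf 0 1200 0) (P.cons (P.lf 579 0 0) P.nil))) (P.cons (P.cons (P.lf 0 60 0) (P.cons (P.lf 0 9 0) P.nil)) (P.cons P.nil P.nil)))))) 312)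
 EL.nil)))
noncomputable def S165_169_364_512_22 : EL := (EL.cons 4 (TM.mk (P.cons (P.cons (P.lf 0 362682264 0) (P.cons (P.lf 310951539 0 0) (P.cons (P.lf 0 27692592 0) (P.cons (P.lf 0 13412625 0) (P.cons (P.lf 1944219 0 0) (P.cons (P.lf 144474 0 0) P.nil)))))) (P.cons (P.cons (P.lf 0 43143387 0) (P.cons (P.lf 18326070 0 0) (P.cons (P.lf 0 2013960 0) (P.cons (P.lf 0 841539 0) (P.cons (P.lf 129894 0 0) P.nil))))) (P.cons (P.cons (P.lf 1655613 0 0) (P.cons (P.lf 0 251475 0) (P.cons (P.lf 0 60744 0) (P.cons (P.lf 0 264 0) P.nil)))) (P.cons (P.cons (P.lf 72288 0 0) (P.cons (P.lf 0 29139 0) (P.cons (P.lf 0 27 0) P.nil))) (P.cons (P.cons (P.lf 0 831 0) (P.cons (P.lf 0 297 0) P.nil)) (P.cons (P.cons (P.lf 0 42 0) P.nil) P.nil)))))) 42126)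
 (EL.cons 8 (TM.mk (P.cons (P.cons (P.lf 198038163 0 0) (P.cons (P.lf 0 169791240 0) (P.cons (P.lf 15121197 0 0) (P.cons (P.lf 7323798 0 0) (P.cons (P.lf 0 1061616 0) (P.cons (P.lf 0 78888 0) P.nil)))))) (P.cons (P.cons (P.lf 17523591 0 0) (P.cons (P.lf 0 4833099 0) (P.cons (P.lf 638946 0 0) (P.cons (P.lf 236352 0 0) (P.cons (P.lf 0 38580 0) P.nil))))) (P.cons (P.cons (P.lf 0 1555782 0) (P.cons (P.lf 385584 0 0) (P.cons (P.lf 4704 0 0) (P.cons (P.lf 0 11412 0) P.nil)))) (P.cons (P.cons (P.lf 0 5139 0) (P.cons (P.lf 9309 0 0) (P.cons (P.lf 0 708 0) P.nil))) (P.cons (P.cons (P.lf 1242 0 0) (P.cons (P.lf 0 234 0) P.nil)) (P.cons (P.cons (P.lf 3 0 0) P.nil) P.nil)))))) 20730)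
 (EL.cons 11 (TM.mk (P.cons (P.cons (P.lf 203013096 0 0) (P.cons (P.lf 0 101033955 0) (P.cons (P.lf 0 44508033 0) (P.cons (P.lf 10888461 0 0) (P.cons (P.lf 1634823 0 0) (P.cons (P.lf 0 288675 0) P.nil)))))) (P.cons (P.cons (P.lf 32600631 0 0) (P.cons (P.lf 0 4157322 0) (P.cons (P.lf 0 4472202 0) (P.cons (P.lf 704409 0 0) (P.cons (P.lf 126648 0 0) P.nil))))) (P.cons (P.cons (P.lf 464130 0 0) (P.cons (P.lf 0 134859 0) (P.cons (P.lf 0 80442 0) (P.cons (P.lf 16572 0 0) P.nil)))) (P.cons (P.cons (P.lf 0 17049 0) (P.cons (P.lf 0 2565 0) (P.cons (P.lf 1287 0 0) P.nil))) (P.cons (P.cons (P.lf 0 390 0) (P.cons (P.lf 12 0 0) P.nil)) (P.cons (P.cons (P.lf 0 0 0) P.nil) P.nil)))))) 45795)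
 EL.nil)))
noncomputable def S165_169_364_512_23 : EL := (EL.cons 4 (TM.mk (P.cons (P.cons (P.lf 1753685469 0 0) (P.cons (P.lf 0 359275854 0) (P.cons (P.lf 0 24020340 0) (P.lf 8006775 0 0)))) (P.cons (P.cons (P.lf 0 53321415 0) (P.cons (P.lf 0 3070611 0) (P.cons (P.lf 0 205290 0) (P.lf 68424 0 0)))) (P.cons (P.cons (P.lf 0 2128047 0) (P.cons (P.lf 387459 0 0) (P.cons (P.lf 25902 0 0) (P.lf 0 8637 0)))) (P.cons (P.cons (P.lf 33129 0 0) (P.cons (P.lf 5718 0 0) (P.cons (P.lf 378 0 0) P.nil))) (P.cons (P.cons (P.lf 1215 0 0) (P.cons (P.lf 0 135 0) P.nil)) (P.cons (P.cons (P.lf 0 6 0) P.nil) P.nil)))))) 1017)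
 (EL.cons 8 (TM.mk (P.cons (P.cons (P.lf 0 957578250 0) (P.cons (P.lf 196178139 0 0) (P.cons (P.lf 13116012 0 0) (P.lf 0 4372005 0)))) (P.cons (P.cons (P.lf 58293384 0 0) (P.cons (P.lf 0 4300971 0) (P.cons (P.lf 0 287550 0) (P.lf 95847 0 0)))) (P.cons (P.cons (P.lf 0 44610 0) (P.cons (P.lf 0 197211 0) (P.cons (P.lf 0 13182 0) (P.lf 4392 0 0)))) (P.cons (P.cons (P.lf 0 38601 0) (P.cons (P.lf 2814 0 0) (P.cons (P.lf 186 0 0) P.nil))) (P.cons (P.cons (P.lf 42 0 0) (P.cons (P.lf 99 0 0) P.nil)) (P.cons (P.cons (P.lf 9 0 0) P.nil) P.nil)))))) 795)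
 (EL.cons 11 (TM.mk (P.cons (P.cons (P.lf 0 981633651 0) (P.cons (P.lf 0 151981536 0) (P.cons (P.lf 73219911 0 0) (P.cons (P.lf 2770854 0 0) (P.lf 0 692712 0))))) (P.cons (P.cons (P.lf 0 11016003 0) (P.cons (P.lf 0 1705551 0) (P.cons (P.lf 821679 0 0) (P.cons (P.lf 31092 0 0) (P.lf 0 7770 0))))) (P.cons (P.cons (P.lf 569238 0 0) (P.cons (P.lf 88131 0 0) (P.cons (P.lf 0 42459 0) (P.cons (P.lf 0 1605 0) P.nil)))) (P.cons (P.cons (P.lf 9765 0 0) (P.cons (P.lf 1509 0 0) (P.cons (P.lf 0 726 0) P.nil))) (P.cons (P.cons (P.lf 0 48 0) (P.cons (P.lf 0 6 0) P.nil)) (P.cons (P.cons (P.lf 0 0 0) P.nil) P.nil)))))) 738)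
 EL.nil)))
noncomputable def S165_169_364_512_24 : EL := (EL.cons 4 (TM.mk (P.cons (P.cons (P.lf 219078843 0 0) (P.cons (P.lf 0 187830807 0) (P.cons (P.lf 16727757 0 0) (P.cons (P.lf 8101920 0 0) (P.cons (P.lf 0 1174407 0) (P.cons (P.lf 0 87270 0) P.nil)))))) (P.cons (P.cons (P.lf 22430049 0 0) (P.cons (P.lf 0 7956981 0) (P.cons (P.lf 939306 0 0) (P.cons (P.lf 374058 0 0) (P.cons (P.lf 0 58998 0) P.nil))))) (P.cons (P.cons (P.lf 0 1467918 0) (P.cons (P.lf 366177 0 0) (P.cons (P.lf 13785 0 0) (P.cons (P.lf 0 9591 0) P.nil)))) (P.cons (P.cons (P.lf 0 31338 0) (P.cons (P.lf 16875 0 0) (P.cons (P.lf 0 786 0) P.nil))) (P.cons (P.cons (P.lf 1395 0 0) (P.cons (P.lf 0 138 0) P.nil)) (P.cons (P.cons (P.lf 24 0 0) P.nil) P.nil)))))) 23481)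
 (EL.cons 8 (TM.mk (P.cons (P.cons (P.lf 0 119625291 0) (P.cons (P.lf 102562689 0 0) (P.cons (P.lf 0 9133983 0) (P.cons (P.lf 0 4423953 0) (P.cons (P.lf 641271 0 0) (P.cons (P.lf 47652 0 0) P.nil)))))) (P.cons (P.cons (P.lf 0 8602608 0) (P.cons (P.lf 1219674 0 0) (P.cons (P.lf 0 234579 0) (P.cons (P.lf 0 69450 0) (P.cons (P.lf 12675 0 0) P.nil))))) (P.cons (P.cons (P.lf 1134825 0 0) (P.cons (P.lf 0 298119 0) (P.cons (P.lf 5052 0 0) (P.cons (P.lf 9984 0 0) P.nil)))) (P.cons (P.cons (P.lf 0 10749 0) (P.cons (P.lf 0 2226 0) (P.cons (P.lf 537 0 0) P.nil))) (P.cons (P.cons (P.lf 0 957 0) (P.cons (P.lf 273 0 0) P.nil)) (P.cons (P.cons (P.lf 9 0 0) P.nil) P.nil)))))) 11706)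
 (EL.cons 11 (TM.mk (P.cons (P.cons (P.lf 0 122630406 0) (P.cons (P.lf 61029732 0 0) (P.cons (P.lf 26885151 0 0) (P.cons (P.lf 0 6577194 0) (P.cons (P.lf 0 987516 0) (P.cons (P.lf 174375 0 0) P.nil)))))) (P.cons (P.cons (P.lf 0 17660118 0) (P.cons (P.lf 1499793 0 0) (P.cons (P.lf 2255874 0 0) (P.cons (P.lf 0 316494 0) (P.cons (P.lf 0 60135 0) P.nil))))) (P.cons (P.cons (P.lf 66117 0 0) (P.cons (P.lf 29832 0 0) (P.cons (P.lf 0 588 0) (P.cons (P.lf 0 1881 0) P.nil)))) (P.cons (P.cons (P.lf 18159 0 0) (P.cons (P.lf 0 201 0) (P.cons (P.lf 0 2022 0) P.nil))) (P.cons (P.cons (P.lf 108 0 0) (P.cons (P.lf 0 45 0) P.nil)) (P.cons (P.cons (P.lf 0 3 0) P.nil) P.nil)))))) 24156)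
 EL.nil)))
noncomputable def S165_169_364_512_25 : EL := (EL.cons 4 (TM.mk (P.cons (P.cons (P.lf 0 1059316707 0) (P.cons (P.lf 217021194 0 0) (P.cons (P.lf 14509527 0 0) (P.lf 0 4836507 0)))) (P.cons (P.cons (P.lf 49764912 0 0) (P.cons (P.lf 0 1741875 0) (P.cons (P.lf 0 116457 0) (P.lf 38820 0 0)))) (P.cons (P.cons (P.lf 925425 0 0) (P.cons (P.lf 0 300384 0) (P.cons (P.lf 0 20082 0) (P.lf 6696 0 0)))) (P.cons (P.cons (P.lf 0 46734 0) (P.cons (P.lf 147 0 0) (P.cons (P.lf 9 0 0) P.nil))) (P.cons (P.cons (P.lf 0 621 0) (P.cons (P.lf 180 0 0) P.nil)) (P.cons (P.cons (P.lf 18 0 0) P.nil) P.nil)))))) 738)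
 (EL.cons 8 (TM.mk (P.cons (P.cons (P.lf 578426778 0 0) (P.cons (P.lf 0 118501740 0) (P.cons (P.lf 0 7922751 0) (P.lf 2640918 0 0)))) (P.cons (P.cons (P.lf 0 44798466 0) (P.cons (P.lf 4561932 0 0) (P.cons (P.lf 304998 0 0) (P.lf 0 101664 0)))) (P.cons (P.cons (P.lf 515631 0 0) (P.cons (P.lf 95508 0 0) (P.cons (P.lf 6384 0 0) (P.lf 0 2124 0)))) (P.cons (P.cons (P.lf 28719 0 0) (P.cons (P.lf 0 4116 0) (P.cons (P.lf 0 273 0) P.nil))) (P.cons (P.cons (P.lf 0 414 0) (P.cons (P.lf 0 51 0) P.nil)) (P.cons (P.cons (P.lf 0 9 0) P.nil) P.nil)))))) 582)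
 (EL.cons 11 (TM.mk (P.cons (P.cons (P.lf 592957485 0 0) (P.cons (P.lf 91804707 0 0) (P.cons (P.lf 0 44228613 0) (P.cons (P.lf 0 1673739 0) (P.lf 418434 0 0))))) (P.cons (P.cons (P.lf 0 3172827 0) (P.cons (P.lf 0 491232 0) (P.cons (P.lf 236661 0 0) (P.cons (P.lf 8955 0 0) (P.lf 0 2238 0))))) (P.cons (P.cons (P.lf 0 551400 0) (P.cons (P.lf 0 85368 0) (P.cons (P.lf 41127 0 0) (P.cons (P.lf 1554 0 0) P.nil)))) (P.cons (P.cons (P.lf 0 1215 0) (P.cons (P.lf 0 186 0) (P.cons (P.lf 90 0 0) P.nil))) (P.cons (P.cons (P.lf 189 0 0) (P.cons (P.lf 27 0 0) P.nil)) (P.cons (P.cons (P.lf 0 0 0) P.nil) P.nil)))))) 654)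
 EL.nil)))
noncomputable def S165_169_364_512_26 : EL := (EL.cons 4 (TM.mk (P.cons (P.cons (P.lf 0 132334947 0) (P.cons (P.lf 113459520 0 0) (P.cons (P.lf 0 10104429 0) (P.cons (P.lf 0 4893978 0) (P.cons (P.lf 709401 0 0) (P.cons (P.lf 52713 0 0) P.nil)))))) (P.cons (P.cons (P.lf 0 11355726 0) (P.cons (P.lf 2926065 0 0) (P.cons (P.lf 0 399930 0) (P.cons (P.lf 0 144843 0) (P.cons (P.lf 23880 0 0) P.nil))))) (P.cons (P.cons (P.lf 1132953 0 0) (P.cons (P.lf 0 319458 0) (P.cons (P.lf 2730 0 0) (P.cons (P.lf 10341 0 0) P.nil)))) (P.cons (P.cons (P.lf 6438 0 0) (P.cons (P.lf 0 7299 0) (P.cons (P.lf 705 0 0) P.nil))) (P.cons (P.cons (P.lf 0 1305 0) (P.cons (P.lf 291 0 0) P.nil)) (P.cons (P.cons (P.lf 0 3 0) P.nil) P.nil)))))) 13374)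
 (EL.cons 8 (TM.mk (P.cons (P.cons (P.lf 72259860 0 0) (P.cons (P.lf 0 61953168 0) (P.cons (P.lf 5517399 0 0) (P.cons (P.lf 2672295 0 0) (P.cons (P.lf 0 387360 0) (P.cons (P.lf 0 28782 0) P.nil)))))) (P.cons (P.cons (P.lf 3998859 0 0) (P.cons (P.lf 289998 0 0) (P.cons (P.lf 50259 0 0) (P.cons (P.lf 0 2334 0) (P.cons (P.lf 0 1236 0) P.nil))))) (P.cons (P.cons (P.lf 0 783465 0) (P.cons (P.lf 202452 0 0) (P.cons (P.lf 0 6303 0) (P.cons (P.lf 0 7164 0) P.nil)))) (P.cons (P.cons (P.lf 17010 0 0) (P.cons (P.lf 0 1524 0) (P.cons (P.lf 0 297 0) P.nil))) (P.cons (P.cons (P.lf 585 0 0) (P.cons (P.lf 0 216 0) P.nil)) (P.cons (P.cons (P.lf 0 15 0) P.nil) P.nil)))))) 6795)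
 (EL.cons 11 (TM.mk (P.cons (P.cons (P.lf 74075106 0 0) (P.cons (P.lf 0 36865113 0) (P.cons (P.lf 0 16240023 0) (P.cons (P.lf 3972963 0 0) (P.cons (P.lf 596511 0 0) (P.cons (P.lf 0 105330 0) P.nil)))))) (P.cons (P.cons (P.lf 9439980 0 0) (P.cons (P.lf 0 294987 0) (P.cons (P.lf 0 1093518 0) (P.cons (P.lf 125334 0 0) (P.cons (P.lf 26439 0 0) P.nil))))) (P.cons (P.cons (P.lf 0 228882 0) (P.cons (P.lf 3039 0 0) (P.cons (P.lf 25602 0 0) (P.cons (P.lf 0 2682 0) P.nil)))) (P.cons (P.cons (P.lf 0 12048 0) (P.cons (P.lf 564 0 0) (P.cons (P.lf 1437 0 0) P.nil))) (P.cons (P.cons (P.lf 123 0 0) (P.cons (P.lf 27 0 0) P.nil)) (P.cons (P.cons (P.lf 6 0 0) P.nil) P.nil)))))) 12732)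
 EL.nil)))
noncomputable def S165_169_364_512_27 : EL := (EL.cons 13 (TM.mk (P.lf 0 4294967296 0) 0)
 EL.nil)
noncomputable def S165_169_364_512_28 : EL := (EL.cons 13 (TM.mk (P.cons (P.cons (P.lf 0 536548021 0) (P.cons (P.lf 350096096 0 0) (P.cons (P.lf 23406608 0 0) (P.lf 0 7802200 0)))) (P.cons (P.cons (P.lf 0 71247573 0) (P.cons (P.lf 14596420 0 0) (P.cons (P.lf 975880 0 0) (P.lf 0 325292 0)))) (P.cons (P.cons (P.lf 777702 0 0) (P.cons (P.lf 124952 0 0) (P.cons (P.lf 8352 0 0) (P.lf 0 2780 0)))) (P.cons (P.cons (P.lf 24078 0 0) (P.cons (P.lf 0 2648 0) (P.cons (P.lf 0 176 0) P.nil))) (P.cons (P.cons (P.lf 0 26 0) (P.cons (P.lf 0 48 0) P.nil)) (P.cons (P.cons (P.lf 0 0 0) P.nil) P.nil)))))) 436)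
 EL.nil)
noncomputable def S165_169_364_512_29 : EL := (EL.cons 13 (TM.mk (P.cons (P.cons (P.lf 0 67028165 0) (P.cons (P.lf 87471384 0 0) (P.cons (P.lf 0 22689285 0) (P.cons (P.lf 0 5765267 0) (P.cons (P.lf 1144402 0 0) (P.cons (P.lf 85040 0 0) P.nil)))))) (P.cons (P.cons (P.lf 0 17801180 0) (P.cons (P.lf 15262131 0 0) (P.cons (P.lf 0 1359209 0) (P.cons (P.lf 0 658317 0) (P.cons (P.lf 95425 0 0) P.nil))))) (P.cons (P.cons (P.lf 0 987590 0) (P.cons (P.lf 388702 0 0) (P.cons (P.lf 0 43989 0) (P.cons (P.lf 0 18017 0) P.nil)))) (P.cons (P.cons (P.lf 31817 0 0) (P.cons (P.lf 0 5727 0) (P.cons (P.lf 0 800 0) P.nil))) (P.cons (P.cons (P.lf 651 0 0) (P.cons (P.lf 0 304 0) P.nil)) (P.cons (P.cons (P.lf 0 9 0) P.nil) P.nil)))))) 26935)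
 EL.nil)
noncomputable def S165_169_364_512_30 : EL := (EL.cons 13 (TM.mk (P.cons (P.lf 2594382344 0 0) (P.cons (P.lf 0 42996612 0) (P.cons (P.lf 0 425588 0) (P.cons (P.lf 336 0 0) (P.cons (P.lf 28 0 0) (P.cons (P.lf 0 0 0) P.nil)))))) 52)
 EL.nil)
noncomputable def S165_169_364_512_31 : EL := (EL.cons 13 (TM.mk (P.cons (P.cons (P.lf 324102750 0 0) (P.cons (P.lf 0 211476145 0) (P.cons (P.lf 0 14138801 0) (P.lf 4712932 0 0)))) (P.cons (P.cons (P.lf 37665874 0 0) (P.cons (P.lf 0 5312205 0) (P.cons (P.lf 0 355160 0) (P.lf 118385 0 0)))) (P.cons (P.cons (P.lf 0 1236193 0) (P.cons (P.lf 105337 0 0) (P.cons (P.lf 7043 0 0) (P.lf 0 2350 0)))) (P.cons (P.cons (P.lf 0 13776 0) (P.cons (P.lf 4269 0 0) (P.cons (P.lf 284 0 0) P.nil))) (P.cons (P.cons (P.lf 342 0 0) (P.cons (P.lf 11 0 0) P.nil)) (P.cons (P.cons (P.lf 2 0 0) P.nil) P.nil)))))) 363)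
 EL.nil)
noncomputable def S165_169_364_512_32 : EL := (EL.cons 13 (TM.mk (P.cons (P.cons (P.lf 40488477 0 0) (P.cons (P.lf 0 52837239 0) (P.cons (P.lf 13705501 0 0) (P.cons (P.lf 3482519 0 0) (P.cons (P.lf 0 691277 0) (P.cons (P.lf 0 51368 0) P.nil)))))) (P.cons (P.cons (P.lf 10081819 0 0) (P.cons (P.lf 0 8343446 0) (P.cons (P.lf 593891 0 0) (P.cons (P.lf 339941 0 0) (P.cons (P.lf 0 46185 0) P.nil))))) (P.cons (P.cons (P.lf 411707 0 0) (P.cons (P.lf 0 73340 0) (P.cons (P.lf 10716 0 0) (P.cons (P.lf 3721 0 0) P.nil)))) (P.cons (P.cons (P.lf 0 30864 0) (P.cons (P.lf 8856 0 0) (P.cons (P.lf 0 90 0) P.nil))) (P.cons (P.cons (P.lf 0 170 0) (P.cons (P.lf 163 0 0) P.nil)) (P.cons (P.cons (P.lf 15 0 0) P.nil) P.nil)))))) 18769)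
 EL.nil)
noncomputable def S165_169_364_512_33 : EL := (EL.cons 14 (TM.mk (P.lf 8589934592 0 0) 0)
 EL.nil)
noncomputable def S165_169_364_512_34 : EL := (EL.cons 14 (TM.mk (P.cons (P.cons (P.lf 1073096042 0 0) (P.cons (P.lf 0 700192192 0) (P.cons (P.lf 0 46813216 0) (P.lf 15604400 0 0)))) (P.cons (P.cons (P.lf 142495146 0 0) (P.cons (P.lf 0 29192840 0) (P.cons (P.lf 0 1951760 0) (P.lf 650584 0 0)))) (P.cons (P.cons (P.lf 0 1555404 0) (P.cons (P.lf 0 249904 0) (P.cons (P.lf 0 16704 0) (P.lf 5560 0 0)))) (P.cons (P.cons (P.lf 0 48156 0) (P.cons (P.lf 5296 0 0) (P.cons (P.lf 352 0 0) P.nil))) (P.cons (P.cons (P.lf 52 0 0) (P.cons (P.lf 96 0 0) P.nil)) (P.cons (P.cons (P.lf 0 0 0) P.nil) P.nil)))))) 872)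
 EL.nil)
noncomputable def S165_169_364_512_35 : EL := (EL.cons 14 (TM.mk (P.cons (P.cons (P.lf 134056330 0 0) (P.cons (P.lf 0 174942768 0) (P.cons (P.lf 45378570 0 0) (P.cons (P.lf 11530534 0 0) (P.cons (P.lf 0 2288804 0) (P.cons (P.lf 0 170080 0) P.nil)))))) (P.cons (P.cons (P.lf 35602360 0 0) (P.cons (P.lf 0 30524262 0) (P.cons (P.lf 2718418 0 0) (P.cons (P.lf 1316634 0 0) (P.cons (P.lf 0 190850 0) P.nil))))) (P.cons (P.cons (P.lf 1975180 0 0) (P.cons (P.lf 0 777404 0) (P.cons (P.lf 87978 0 0) (P.cons (P.lf 36034 0 0) P.nil)))) (P.cons (P.cons (P.lf 0 63634 0) (P.cons (P.lf 11454 0 0) (P.cons (P.lf 1600 0 0) P.nil))) (P.cons (P.cons (P.lf 0 1302 0) (P.cons (P.lf 608 0 0) P.nil)) (P.cons (P.cons (P.lf 18 0 0) P.nil) P.nil)))))) 53870)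
 EL.nil)
noncomputable def S165_169_364_512_36 : EL := (EL.cons 14 (TM.mk (P.cons (P.lf 0 5188764688 0) (P.cons (P.lf 85993224 0 0) (P.cons (P.lf 851176 0 0) (P.cons (P.lf 0 672 0) (P.cons (P.lf 0 56 0) (P.cons (P.lf 0 0 0) P.nil)))))) 104)
 EL.nil)
noncomputable def S165_169_364_512_37 : EL := (EL.cons 14 (TM.mk (P.cons (P.cons (P.lf 0 648205500 0) (P.cons (P.lf 422952290 0 0) (P.cons (P.lf 28277602 0 0) (P.lf 0 9425864 0)))) (P.cons (P.cons (P.lf 0 75331748 0) (P.cons (P.lf 10624410 0 0) (P.cons (P.lf 710320 0 0) (P.lf 0 236770 0)))) (P.cons (P.cons (P.lf 2472386 0 0) (P.cons (P.lf 0 210674 0) (P.cons (P.lf 0 14086 0) (P.lf 4700 0 0)))) (P.cons (P.cons (P.lf 27552 0 0) (P.cons (P.lf 0 8538 0) (P.cons (P.lf 0 568 0) P.nil))) (P.cons (P.cons (P.lf 0 684 0) (P.cons (P.lf 0 22 0) P.nil)) (P.cons (P.cons (P.lf 0 4 0) P.nil) P.nil)))))) 726)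
 EL.nil)
noncomputable def S165_169_364_512_38 : EL := (EL.cons 14 (TM.mk (P.cons (P.cons (P.lf 0 80976954 0) (P.cons (P.lf 105674478 0 0) (P.cons (P.lf 0 27411002 0) (P.cons (P.lf 0 6965038 0) (P.cons (P.lf 1382554 0 0) (P.cons (P.lf 102736 0 0) P.nil)))))) (P.cons (P.cons (P.lf 0 20163638 0) (P.cons (P.lf 16686892 0 0) (P.cons (P.lf 0 1187782 0) (P.cons (P.lf 0 679882 0) (P.cons (P.lf 92370 0 0) P.nil))))) (P.cons (P.cons (P.lf 0 823414 0) (P.cons (P.lf 146680 0 0) (P.cons (P.lf 0 21432 0) (P.cons (P.lf 0 7442 0) P.nil)))) (P.cons (P.cons (P.lf 61728 0 0) (P.cons (P.lf 0 17712 0) (P.cons (P.lf 180 0 0) P.nil))) (P.cons (P.cons (P.lf 340 0 0) (P.cons (P.lf 0 326 0) P.nil)) (P.cons (P.cons (P.lf 0 30 0) P.nil) P.nil)))))) 37538)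
 EL.nil)
noncomputable def S165_169_364_512_39 : EL := (EL.cons 14 (TM.mk (P.cons (P.lf 3134282186 0 0) (P.cons (P.lf 0 103888708 0) (P.cons (P.lf 0 167436 0) (P.cons (P.lf 17852 0 0) (P.cons (P.lf 138 0 0) (P.cons (P.lf 0 0 0) P.nil)))))) 140)
 EL.nil)
noncomputable def S165_169_364_512_40 : EL := (EL.cons 14 (TM.mk (P.cons (P.cons (P.lf 391549640 0 0) (P.cons (P.lf 0 255485054 0) (P.cons (P.lf 0 17081134 0) (P.lf 5693708 0 0)))) (P.cons (P.cons (P.lf 39015132 0 0) (P.cons (P.lf 0 2183548 0) (P.cons (P.lf 0 145984 0) (P.lf 48660 0 0)))) (P.cons (P.cons (P.lf 0 2311820 0) (P.cons (P.lf 275528 0 0) (P.cons (P.lf 18422 0 0) (P.lf 0 6142 0)))) (P.cons (P.cons (P.lf 692 0 0) (P.cons (P.lf 4068 0 0) (P.cons (P.lf 270 0 0) P.nil))) (P.cons (P.cons (P.lf 944 0 0) (P.cons (P.lf 0 96 0) P.nil)) (P.cons (P.cons (P.lf 0 0 0) P.nil) P.nil)))))) 524)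
 EL.nil)
noncomputable def S165_169_364_512_41 : EL := (EL.cons 14 (TM.mk (P.cons (P.cons (P.lf 48914268 0 0) (P.cons (P.lf 0 63832848 0) (P.cons (P.lf 16557662 0 0) (P.cons (P.lf 4207242 0 0) (P.cons (P.lf 0 835134 0) (P.cons (P.lf 0 62058 0) P.nil)))))) (P.cons (P.cons (P.lf 11369224 0 0) (P.cons (P.lf 0 9021846 0) (P.cons (P.lf 443072 0 0) (P.cons (P.lf 340958 0 0) (P.cons (P.lf 0 41954 0) P.nil))))) (P.cons (P.cons (P.lf 287504 0 0) (P.cons (P.lf 88918 0 0) (P.cons (P.lf 0 1660 0) (P.cons (P.lf 0 3000 0) P.nil)))) (P.cons (P.cons (P.lf 0 47522 0) (P.cons (P.lf 13812 0 0) (P.cons (P.lf 0 438 0) P.nil))) (P.cons (P.cons (P.lf 332 0 0) (P.cons (P.lf 32 0 0) P.nil)) (P.cons (P.cons (P.lf 28 0 0) P.nil) P.nil)))))) 25308)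
 EL.nil)
noncomputable def S165_169_364_512_42 : EL := (EL.cons 14 (TM.mk (P.cons (P.lf 0 1893268516 0) (P.cons (P.lf 94131226 0 0) (P.cons (P.lf 0 628306 0) (P.cons (P.lf 0 22998 0) (P.cons (P.lf 66 0 0) (P.cons (P.lf 2 0 0) P.nil)))))) 138)
 EL.nil)
noncomputable def S165_169_364_512_43 : EL := (EL.cons 14 (TM.mk (P.cons (P.cons (P.lf 0 236516230 0) (P.cons (P.lf 154326184 0 0) (P.cons (P.lf 10317888 0 0) (P.lf 0 3439294 0)))) (P.cons (P.cons (P.lf 0 19647382 0) (P.cons (P.lf 0 1238666 0) (P.cons (P.lf 0 82814 0) (P.lf 27604 0 0)))) (P.cons (P.cons (P.lf 1825834 0 0) (P.cons (P.lf 0 213608 0) (P.cons (P.lf 0 14282 0) (P.lf 4762 0 0)))) (P.cons (P.cons (P.lf 0 19726 0) (P.cons (P.lf 104 0 0) (P.cons (P.lf 6 0 0) P.nil))) (P.cons (P.cons (P.lf 0 798 0) (P.cons (P.lf 126 0 0) P.nil)) (P.cons (P.cons (P.lf 8 0 0) P.nil) P.nil)))))) 438)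
 EL.nil)
noncomputable def S165_169_364_512_44 : EL := (EL.cons 14 (TM.mk (P.cons (P.cons (P.lf 0 29546746 0) (P.cons (P.lf 38558340 0 0) (P.cons (P.lf 0 10001684 0) (P.cons (P.lf 0 2541392 0) (P.cons (P.lf 504464 0 0) (P.cons (P.lf 37486 0 0) P.nil)))))) (P.cons (P.cons (P.lf 0 6377922 0) (P.cons (P.lf 4810634 0 0) (P.cons (P.lf 0 101880 0) (P.cons (P.lf 0 163838 0) (P.cons (P.lf 16982 0 0) P.nil))))) (P.cons (P.cons (P.lf 0 55002 0) (P.cons (P.lf 0 150354 0) (P.cons (P.lf 7078 0 0) (P.cons (P.lf 5642 0 0) P.nil)))) (P.cons (P.cons (P.lf 32706 0 0) (P.cons (P.lf 0 8342 0) (P.cons (P.lf 290 0 0) P.nil))) (P.cons (P.cons (P.lf 0 648 0) (P.cons (P.lf 128 0 0) P.nil)) (P.cons (P.cons (P.lf 0 18 0) P.nil) P.nil)))))) 17244)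
 EL.nil)
noncomputable def S165_169_364_512_45 : EL := (EL.cons 14 (TM.mk (P.cons (P.cons (P.lf 16746962 0 0) (P.cons (P.lf 0 32782040 0) (P.cons (P.lf 19198460 0 0) (P.cons (P.lf 0 1061572 0) (P.cons (P.lf 0 1790920 0) (P.cons (P.lf 184914 0 0) P.nil)))))) (P.cons (P.cons (P.lf 6671426 0 0) (P.cons (P.lf 0 10072944 0) (P.cons (P.lf 3950550 0 0) (P.cons (P.lf 260878 0 0) (P.cons (P.lf 0 302144 0) P.nil))))) (P.cons (P.cons (P.lf 813068 0 0) (P.cons (P.lf 0 857692 0) (P.cons (P.lf 200948 0 0) (P.cons (P.lf 24408 0 0) P.nil)))) (P.cons (P.cons (P.lf 17616 0 0) (P.cons (P.lf 0 7436 0) (P.cons (P.lf 3234 0 0) P.nil))) (P.cons (P.cons (P.lf 0 1774 0) (P.cons (P.lf 864 0 0) P.nil)) (P.cons (P.cons (P.lf 0 18 0) P.nil) P.nil)))))) 136648)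
 EL.nil)
noncomputable def S165_169_364_512_46 : EL := (EL.cons 15 (TM.mk (P.lf 4294967296 0 0) 0)
 EL.nil)
noncomputable def S165_169_364_512_47 : EL := (EL.cons 15 (TM.mk (P.cons (P.cons (P.lf 536548021 0 0) (P.cons (P.lf 0 350096096 0) (P.cons (P.lf 0 23406608 0) (P.lf 7802200 0 0)))) (P.cons (P.cons (P.lf 71247573 0 0) (P.cons (P.lf 0 14596420 0) (P.cons (P.lf 0 975880 0) (P.lf 325292 0 0)))) (P.cons (P.cons (P.lf 0 777702 0) (P.cons (P.lf 0 124952 0) (P.cons (P.lf 0 8352 0) (P.lf 2780 0 0)))) (P.cons (P.cons (P.lf 0 24078 0) (P.cons (P.lf 2648 0 0) (P.cons (P.lf 176 0 0) P.nil))) (P.cons (P.cons (P.lf 26 0 0) (P.cons (P.lf 48 0 0) P.nil)) (P.cons (P.cons (P.lf 0 0 0) P.nil) P.nil)))))) 436)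
 EL.nil)
noncomputable def S165_169_364_512_48 : EL := (EL.cons 15 (TM.mk (P.cons (P.cons (P.lf 67028165 0 0) (P.cons (P.lf 0 87471384 0) (P.cons (P.lf 22689285 0 0) (P.cons (P.lf 5765267 0 0) (P.cons (P.lf 0 1144402 0) (P.cons (P.lf 0 85040 0) P.nil)))))) (P.cons (P.cons (P.lf 17801180 0 0) (P.cons (P.lf 0 15262131 0) (P.cons (P.lf 1359209 0 0) (P.cons (P.lf 658317 0 0) (P.cons (P.lf 0 95425 0) P.nil))))) (P.cons (P.cons (P.lf 987590 0 0) (P.cons (P.lf 0 388702 0) (P.cons (P.lf 43989 0 0) (P.cons (P.lf 18017 0 0) P.nil)))) (P.cons (P.cons (P.lf 0 31817 0) (P.cons (P.lf 5727 0 0) (P.cons (P.lf 800 0 0) P.nil))) (P.cons (P.cons (P.lf 0 651 0) (P.cons (P.lf 304 0 0) P.nil)) (P.cons (P.cons (P.lf 9 0 0) P.nil) P.nil)))))) 26935)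
 EL.nil)
noncomputable def S165_169_364_512 : SL := (SL.cons S165_169_364_512_0 (SL.cons S165_169_364_512_1 (SL.cons S165_169_364_512_2 (SL.cons S165_169_364_512_3 (SL.cons S165_169_364_512_4 (SL.cons S165_169_364_512_5 (SL.cons S165_169_364_512_6 (SL.cons S165_169_364_512_7 (SL.cons S165_169_364_512_8 (SL.cons S165_169_364_512_9 (SL.cons S165_169_364_512_10 (SL.cons S165_169_364_512_11 (SL.cons S165_169_364_512_12 (SL.cons S165_169_364_512_13 (SL.cons S165_169_364_512_14 (SL.cons S165_169_364_512_15 (SL.cons S165_169_364_512_16 (SL.cons S165_169_364_512_17 (SL.cons S165_169_364_512_18 (SL.cons S165_169_364_512_19 (SL.cons S165_169_364_512_20 (SL.cons S165_169_364_512_21 (SL.cons S165_169_364_512_22 (SL.cons S165_169_364_512_23 (SL.cons S165_169_364_512_24 (SL.cons S165_169_364_512_25 (SL.cons S165_169_364_512_26 (SL.cons S165_169_364_512_27 (SL.cons S165_169_364_512_28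 (SL.cons S165_169_364_512_29 (SL.cons S165_169_364_512_30 (SL.cons S165_169_364_512_31 (SL.cons S165_169_364_512_32 (SL.cons S165_169_364_512_33 (SL.cons S165_169_364_512_34 (SL.cons S165_169_364_512_35 (SL.cons S165_169_364_512_36 (SL.cons S165_169_364_512_37 (SL.cons S165_169_364_512_38 (SL.cons S165_169_364_512_39 (SL.cons S165_169_364_512_40 (SL.cons S165_169_364_512_41 (SL.cons S165_169_364_512_42 (SL.cons S165_169_364_512_43 (SL.cons S165_169_364_512_44 (SL.cons S165_169_364_512_45 (SL.cons S165_169_364_512_46 (SL.cons S165_169_364_512_47 (SL.cons S165_169_364_512_48 SL.nil)))))))))))))))))))))))))))))))))))))))))))))))))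
noncomputable def S169_176_216_290_0 : EL := (EL.cons 0 (TM.mk (P.cons (P.lf 5952854245 0 0) (P.cons (P.lf 160565009 0 0) (P.cons (P.lf 37082 0 0) (P.cons (P.lf 0 91198 0) (P.cons (P.lf 0 1051 0) (P.cons (P.lf 22 0 0) P.nil)))))) 128)
 (EL.cons 1 (TM.mk (P.cons (P.lf 0 1774131421 0) (P.cons (P.lf 16637709 0 0) (P.cons (P.lf 2665265 0 0) (P.cons (P.lf 16736 0 0) (P.cons (P.lf 0 883 0) (P.cons (P.lf 0 13 0) P.nil)))))) 108)
 (EL.cons 5 (TM.mk (P.cons (P.lf 5184874008 0 0) (P.cons (P.lf 0 57089782 0) (P.cons (P.lf 0 13186 0) (P.cons (P.lf 32424 0 0) (P.cons (P.lf 374 0 0) (P.cons (P.lf 0 6 0) P.nil)))))) 93)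
 (EL.cons 9 (TM.mk (P.lf 6442450944 0 0) 2)
 EL.nil))))
noncomputable def S169_176_216_290_1 : EL := (EL.cons 0 (TM.mk (P.cons (P.cons (P.lf 0 2223742020 0) (P.cons (P.lf 17556975 0 0) (P.cons (P.lf 8287964 0 0) (P.lf 0 394654 0)))) (P.cons (P.cons (P.lf 483518351 0 0) (P.cons (P.lf 0 6052589 0) (P.cons (P.lf 0 2857196 0) (P.lf 136060 0 0)))) (P.cons (P.cons (P.lf 17287537 0 0) (P.cons (P.lf 0 481379 0) (P.cons (P.lf 0 227240 0) (P.lf 10814 0 0)))) (P.cons (P.cons (P.lf 0 730347 0) (P.cons (P.lf 0 2478 0) (P.cons (P.lf 0 1167 0) P.nil))) (P.cons (P.cons (P.lf 0 35126 0) (P.cons (P.lf 615 0 0) P.nil)) (P.cons (P.cons (P.lf 254 0 0) P.nil) P.nil)))))) 3693)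
 (EL.cons 1 (TM.mk (P.cons (P.cons (P.lf 0 1012169828 0) (P.cons (P.lf 28802089 0 0) (P.cons (P.lf 13596351 0 0) (P.lf 0 647438 0)))) (P.cons (P.cons (P.lf 0 178561129 0) (P.cons (P.lf 4019313 0 0) (P.cons (P.lf 1897355 0 0) (P.lf 0 90340 0)))) (P.cons (P.cons (P.lf 8873873 0 0) (P.cons (P.lf 0 7400 0) (P.cons (P.lf 0 3498 0) (P.lf 168 0 0)))) (P.cons (P.cons (P.lf 547649 0 0) (P.cons (P.lf 0 10586 0) (P.cons (P.lf 0 4993 0) P.nil))) (P.cons (P.cons (P.lf 0 7587 0) (P.cons (P.lf 0 202 0) P.nil)) (P.cons (P.cons (P.lf 0 654 0) P.nil) P.nil)))))) 2020)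
 (EL.cons 5 (TM.mk (P.cons (P.cons (P.lf 3177932779 0 0) (P.cons (P.lf 0 88641748 0) (P.cons (P.lf 0 41844330 0) (P.lf 1992582 0 0)))) (P.cons (P.cons (P.lf 104209940 0 0) (P.cons (P.lf 0 3458948 0) (P.cons (P.lf 0 1632828 0) (P.lf 77752 0 0)))) (P.cons (P.cons (P.lf 0 10310168 0) (P.cons (P.lf 106180 0 0) (P.cons (P.lf 50120 0 0) (P.lf 0 2384 0)))) (P.cons (P.cons (P.lf 0 5061 0) (P.cons (P.lf 4520 0 0) (P.cons (P.lf 2130 0 0) P.nil))) (P.cons (P.cons (P.lf 12464 0 0) (P.cons (P.lf 0 120 0) P.nil)) (P.cons (P.cons (P.lf 53 0 0) P.nil) P.nil)))))) 2264)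
 (EL.cons 9 (TM.mk (P.cons (P.cons (P.lf 2106413767 0 0) (P.cons (P.lf 0 72705234 0) (P.cons (P.lf 0 34321320 0) (P.lf 1634346 0 0)))) (P.cons (P.cons (P.lf 243641968 0 0) (P.cons (P.lf 0 4950858 0) (P.cons (P.lf 0 2337102 0) (P.lf 111288 0 0)))) (P.cons (P.cons (P.lf 0 3673666 0) (P.cons (P.lf 0 57330 0) (P.cons (P.lf 0 27060 0) (P.lf 1284 0 0)))) (P.cons (P.cons (P.lf 0 233581 0) (P.cons (P.lf 3204 0 0) (P.cons (P.lf 1512 0 0) P.nil))) (P.cons (P.cons (P.lf 0 18 0) (P.cons (P.lf 84 0 0) P.nil)) (P.cons (P.cons (P.lf 115 0 0) P.nil) P.nil)))))) 766)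
 (EL.cons 2 (TM.mk (P.cons (P.cons (P.lf 206289371 0 0) (P.cons (P.lf 203410018 0 0) (P.cons (P.lf 0 6364895 0) (P.cons (P.lf 0 1166340 0) (P.lf 41653 0 0))))) (P.cons (P.cons (P.lf 2747851 0 0) (P.cons (P.lf 2709495 0 0) (P.cons (P.lf 0 84782 0) (P.cons (P.lf 0 15533 0) (P.lf 551 0 0))))) (P.cons (P.cons (P.lf 0 405877 0) (P.cons (P.lf 0 400213 0) (P.cons (P.lf 12521 0 0) (P.cons (P.lf 2295 0 0) P.nil)))) (P.cons (P.cons (P.lf 0 9967 0) (P.cons (P.lf 0 9829 0) (P.cons (P.lf 306 0 0) P.nil))) (P.cons (P.cons (P.lf 146 0 0) (P.cons (P.lf 143 0 0) P.nil)) (P.cons (P.cons (P.lf 5 0 0) P.nil) P.nil)))))) 336)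
 (EL.cons 6 (TM.mk (P.cons (P.cons (P.lf 146226345 0 0) (P.cons (P.lf 144185343 0 0) (P.cons (P.lf 0 4511697 0) (P.cons (P.lf 0 826749 0) (P.lf 29526 0 0))))) (P.cons (P.cons (P.lf 9957279 0 0) (P.cons (P.lf 9818295 0 0) (P.cons (P.lf 0 307224 0) (P.cons (P.lf 0 56295 0) (P.lf 2007 0 0))))) (P.cons (P.cons (P.lf 115305 0 0) (P.cons (P.lf 113697 0 0) (P.cons (P.lf 0 3555 0) (P.cons (P.lf 0 651 0) P.nil)))) (P.cons (P.cons (P.lf 0 6456 0) (P.cons (P.lf 0 6366 0) (P.cons (P.lf 198 0 0) P.nil))) (P.cons (P.cons (P.lf 0 177 0) (P.cons (P.lf 0 174 0) P.nil)) (P.cons (P.cons (P.lf 0 0 0) P.nil) P.nil)))))) 216)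
 EL.nil))))))
noncomputable def S169_176_216_290_2 : EL := (EL.cons 0 (TM.mk (P.cons (P.cons (P.lf 0 2090513477 0) (P.cons (P.lf 105602271 0 0) (P.cons (P.lf 48696306 0 0) (P.cons (P.lf 0 3463741 0) (P.cons (P.lf 0 205349 0) (P.cons (P.lf 24498 0 0) P.nil)))))) (P.cons (P.cons (P.lf 0 16393638 0) (P.cons (P.lf 0 867911 0) (P.cons (P.lf 0 423794 0) (P.cons (P.lf 6233 0 0) (P.cons (P.lf 0 2497 0) P.nil))))) (P.cons (P.cons (P.lf 40143392 0 0) (P.cons (P.lf 0 1364301 0) (P.cons (P.lf 0 631682 0) (P.cons (P.lf 42323 0 0) P.nil)))) (P.cons (P.cons (P.lf 676736 0 0) (P.cons (P.lf 0 53740 0) (P.cons (P.lf 0 24568 0) P.nil))) (P.cons (P.cons (P.lf 0 105510 0) (P.cons (P.lf 2215 0 0) P.nil)) (P.cons (P.cons (P.lf 0 2782 0) P.nil) P.nil)))))) 24821)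
 (EL.cons 1 (TM.mk (P.cons (P.cons (P.lf 0 472217063 0) (P.cons (P.lf 28587016 0 0) (P.cons (P.lf 13070688 0 0) (P.cons (P.lf 0 1043035 0) (P.cons (P.lf 0 75441 0) (P.cons (P.lf 9000 0 0) P.nil)))))) (P.cons (P.cons (P.lf 0 151225435 0) (P.cons (P.lf 8109561 0 0) (P.cons (P.lf 3721870 0 0) (P.cons (P.lf 0 282681 0) (P.cons (P.lf 0 18916 0) P.nil))))) (P.cons (P.cons (P.lf 0 5369131 0) (P.cons (P.lf 310105 0 0) (P.cons (P.lf 140640 0 0) (P.cons (P.lf 0 12388 0) P.nil)))) (P.cons (P.cons (P.lf 1102462 0 0) (P.cons (P.lf 0 31005 0) (P.cons (P.lf 0 14486 0) P.nil))) (P.cons (P.cons (P.lf 32962 0 0) (P.cons (P.lf 0 1916 0) P.nil)) (P.cons (P.cons (P.lf 0 1981 0) P.nil) P.nil)))))) 12290)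
 (EL.cons 5 (TM.mk (P.cons (P.cons (P.lf 1523831432 0 0) (P.cons (P.lf 0 91429743 0) (P.cons (P.lf 0 41820064 0) (P.cons (P.lf 3320715 0 0) (P.cons (P.lf 238423 0 0) (P.cons (P.lf 0 28439 0) P.nil)))))) (P.cons (P.cons (P.lf 186393332 0 0) (P.cons (P.lf 0 9592904 0) (P.cons (P.lf 0 4396785 0) (P.cons (P.lf 339930 0 0) (P.cons (P.lf 23404 0 0) P.nil))))) (P.cons (P.cons (P.lf 0 6553126 0) (P.cons (P.lf 112167 0 0) (P.cons (P.lf 54332 0 0) (P.cons (P.lf 0 1206 0) P.nil)))) (P.cons (P.cons (P.lf 0 728639 0) (P.cons (P.lf 28936 0 0) (P.cons (P.lf 13395 0 0) P.nil))) (P.cons (P.cons (P.lf 19844 0 0) (P.cons (P.lf 39 0 0) P.nil)) (P.cons (P.cons (P.lf 1378 0 0) P.nil) P.nil)))))) 13963)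
 (EL.cons 9 (TM.mk (P.cons (P.cons (P.lf 688709778 0 0) (P.cons (P.lf 0 47543181 0) (P.cons (P.lf 0 21622786 0) (P.cons (P.lf 1843381 0 0) (P.cons (P.lf 145953 0 0) (P.cons (P.lf 0 17413 0) P.nil)))))) (P.cons (P.cons (P.lf 159321600 0 0) (P.cons (P.lf 0 8736612 0) (P.cons (P.lf 0 4012467 0) (P.cons (P.lf 301888 0 0) (P.cons (P.lf 19876 0 0) P.nil))))) (P.cons (P.cons (P.lf 6811830 0 0) (P.cons (P.lf 0 329037 0) (P.cons (P.lf 0 150223 0) (P.cons (P.lf 12205 0 0) P.nil)))) (P.cons (P.cons (P.lf 0 430605 0) (P.cons (P.lf 8676 0 0) (P.cons (P.lf 4111 0 0) P.nil))) (P.cons (P.cons (P.lf 0 15583 0) (P.cons (P.lf 721 0 0) P.nil)) (P.cons (P.cons (P.lf 340 0 0) P.nil) P.nil)))))) 5863)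
 (EL.cons 2 (TM.mk (P.cons (P.cons (P.lf 134896100 0 0) (P.cons (P.lf 128357156 0 0) (P.cons (P.lf 0 10951171 0) (P.cons (P.lf 0 2681645 0) (P.cons (P.lf 224583 0 0) (P.cons (P.lf 8257 0 0) P.nil)))))) (P.cons (P.cons (P.lf 17399851 0 0) (P.cons (P.lf 16777912 0 0) (P.cons (P.lf 0 1089590 0) (P.cons (P.lf 0 254604 0) (P.cons (P.lf 19575 0 0) P.nil))))) (P.cons (P.cons (P.lf 0 292837 0) (P.cons (P.lf 0 287482 0) (P.cons (P.lf 10878 0 0) (P.cons (P.lf 2176 0 0) P.nil)))) (P.cons (P.cons (P.lf 0 55310 0) (P.cons (P.lf 0 53533 0) (P.cons (P.lf 3166 0 0) P.nil))) (P.cons (P.cons (P.lf 0 393 0) (P.cons (P.lf 0 360 0) P.nil)) (P.cons (P.cons (P.lf 61 0 0) P.nil) P.nil)))))) 4938)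
 (EL.cons 6 (TM.mk (P.cons (P.cons (P.lf 95619876 0 0) (P.cons (P.lf 90984804 0 0) (P.cons (P.lf 0 7762638 0) (P.cons (P.lf 0 1900860 0) (P.cons (P.lf 159192 0 0) (P.cons (P.lf 5850 0 0) P.nil)))))) (P.cons (P.cons (P.lf 17571270 0 0) (P.cons (P.lf 16876524 0 0) (P.cons (P.lf 0 1197540 0) (P.cons (P.lf 0 284592 0) (P.cons (P.lf 22596 0 0) P.nil))))) (P.cons (P.cons (P.lf 661764 0 0) (P.cons (P.lf 632022 0 0) (P.cons (P.lf 0 50316 0) (P.cons (P.lf 0 12192 0) P.nil)))) (P.cons (P.cons (P.lf 0 17454 0) (P.cons (P.lf 0 17274 0) (P.cons (P.lf 444 0 0) P.nil))) (P.cons (P.cons (P.lf 0 1458 0) (P.cons (P.lf 0 1410 0) P.nil)) (P.cons (P.cons (P.lf 0 6 0) P.nil) P.nil)))))) 4578)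
 EL.nil))))))
noncomputable def S169_176_216_290_3 : EL := (EL.cons 0 (TM.mk (P.cons (P.lf 2502862618 0 0) (P.cons (P.lf 0 160565009 0) (P.cons (P.lf 0 37082 0) (P.cons (P.lf 91198 0 0) (P.cons (P.lf 1051 0 0) (P.cons (P.lf 0 22 0) P.nil)))))) 128)
 (EL.cons 1 (TM.mk (P.cons (P.lf 1774131421 0 0) (P.cons (P.lf 0 16637709 0) (P.cons (P.lf 0 2665265 0) (P.cons (P.lf 0 16736 0) (P.cons (P.lf 883 0 0) (P.cons (P.lf 13 0 0) P.nil)))))) 108)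
 (EL.cons 5 (TM.mk (P.cons (P.lf 1257576936 0 0) (P.cons (P.lf 57089782 0 0) (P.cons (P.lf 13186 0 0) (P.cons (P.lf 0 32424 0) (P.cons (P.lf 0 374 0) (P.cons (P.lf 6 0 0) P.nil)))))) 86)
 EL.nil)))
noncomputable def S169_176_216_290_4 : EL := (EL.cons 0 (TM.mk (P.cons (P.cons (P.lf 818332078 0 0) (P.cons (P.lf 0 28245649 0) (P.cons (P.lf 0 13333674 0) (P.lf 634934 0 0)))) (P.cons (P.cons (P.lf 42155699 0 0) (P.cons (P.lf 0 111353 0) (P.cons (P.lf 0 52563 0) (P.lf 2501 0 0)))) (P.cons (P.cons (P.lf 0 7511607 0) (P.cons (P.lf 101534 0 0) (P.cons (P.lf 47932 0 0) (P.lf 0 2283 0)))) (P.cons (P.cons (P.lf 29228 0 0) (P.cons (P.lf 1671 0 0) (P.cons (P.lf 789 0 0) P.nil))) (P.cons (P.cons (P.lf 9627 0 0) (P.cons (P.lf 0 128 0) P.nil)) (P.cons (P.cons (P.lf 26 0 0) P.nil) P.nil)))))) 553)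
 (EL.cons 1 (TM.mk (P.cons (P.cons (P.lf 580067257 0 0) (P.cons (P.lf 0 20021670 0) (P.cons (P.lf 0 9451453 0) (P.lf 450067 0 0)))) (P.cons (P.cons (P.lf 61654635 0 0) (P.cons (P.lf 0 1175611 0) (P.cons (P.lf 0 554958 0) (P.lf 26424 0 0)))) (P.cons (P.cons (P.lf 0 2512297 0) (P.cons (P.lf 27075 0 0) (P.cons (P.lf 12781 0 0) (P.lf 0 609 0)))) (P.cons (P.cons (P.lf 0 161103 0) (P.cons (P.lf 3266 0 0) (P.cons (P.lf 1541 0 0) P.nil))) (P.cons (P.cons (P.lf 1773 0 0) (P.cons (P.lf 41 0 0) P.nil)) (P.cons (P.cons (P.lf 174 0 0) P.nil) P.nil)))))) 429)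
 (EL.cons 5 (TM.mk (P.cons (P.cons (P.lf 411175404 0 0) (P.cons (P.lf 0 14192180 0) (P.cons (P.lf 0 6699576 0) (P.lf 319026 0 0)))) (P.cons (P.cons (P.lf 66225296 0 0) (P.cons (P.lf 0 1610692 0) (P.cons (P.lf 0 760344 0) (P.lf 36206 0 0)))) (P.cons (P.cons (P.lf 1446238 0 0) (P.cons (P.lf 0 55210 0) (P.cons (P.lf 0 26060 0) (P.lf 1238 0 0)))) (P.cons (P.cons (P.lf 0 88252 0) (P.cons (P.lf 472 0 0) (P.cons (P.lf 222 0 0) P.nil))) (P.cons (P.cons (P.lf 0 3428 0) (P.cons (P.lf 72 0 0) P.nil)) (P.cons (P.cons (P.lf 26 0 0) P.nil) P.nil)))))) 304)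
 EL.nil)))
noncomputable def S169_176_216_290_5 : EL := (EL.cons 0 (TM.mk (P.cons (P.cons (P.lf 267560586 0 0) (P.cons (P.lf 0 18470306 0) (P.cons (P.lf 0 8400352 0) (P.cons (P.lf 716145 0 0) (P.cons (P.lf 56701 0 0) (P.cons (P.lf 0 6764 0) P.nil)))))) (P.cons (P.cons (P.lf 44731016 0 0) (P.cons (P.lf 0 2209215 0) (P.cons (P.lf 0 1019919 0) (P.cons (P.lf 71339 0 0) (P.cons (P.lf 4083 0 0) P.nil))))) (P.cons (P.cons (P.lf 0 1328366 0) (P.cons (P.lf 90186 0 0) (P.cons (P.lf 41765 0 0) (P.cons (P.lf 0 2791 0) P.nil)))) (P.cons (P.cons (P.lf 0 328225 0) (P.cons (P.lf 10947 0 0) (P.cons (P.lf 5057 0 0) P.nil))) (P.cons (P.cons (P.lf 7004 0 0) (P.cons (P.lf 0 65 0) P.nil)) (P.cons (P.cons (P.lf 641 0 0) P.nil) P.nil)))))) 3970)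
 (EL.cons 1 (TM.mk (P.cons (P.cons (P.lf 189657890 0 0) (P.cons (P.lf 0 13092508 0) (P.cons (P.lf 0 5954512 0) (P.cons (P.lf 507631 0 0) (P.cons (P.lf 40190 0 0) (P.cons (P.lf 0 4794 0) P.nil)))))) (P.cons (P.cons (P.lf 42095608 0 0) (P.cons (P.lf 0 2283118 0) (P.cons (P.lf 0 1049116 0) (P.cons (P.lf 78373 0 0) (P.cons (P.lf 5096 0 0) P.nil))))) (P.cons (P.cons (P.lf 1179478 0 0) (P.cons (P.lf 0 48378 0) (P.cons (P.lf 0 22059 0) (P.cons (P.lf 1816 0 0) P.nil)))) (P.cons (P.cons (P.lf 0 203872 0) (P.cons (P.lf 6975 0 0) (P.cons (P.lf 3234 0 0) P.nil))) (P.cons (P.cons (P.lf 0 6315 0) (P.cons (P.lf 326 0 0) P.nil)) (P.cons (P.cons (P.lf 316 0 0) P.nil) P.nil)))))) 2725)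
 (EL.cons 5 (TM.mk (P.cons (P.cons (P.lf 134437270 0 0) (P.cons (P.lf 0 9280506 0) (P.cons (P.lf 0 4220802 0) (P.cons (P.lf 359830 0 0) (P.cons (P.lf 28490 0 0) (P.cons (P.lf 0 3398 0) P.nil)))))) (P.cons (P.cons (P.lf 37202836 0 0) (P.cons (P.lf 0 2126704 0) (P.cons (P.lf 0 974850 0) (P.cons (P.lf 75262 0 0) (P.cons (P.lf 5172 0 0) P.nil))))) (P.cons (P.cons (P.lf 2742916 0 0) (P.cons (P.lf 0 141744 0) (P.cons (P.lf 0 64924 0) (P.cons (P.lf 5060 0 0) P.nil)))) (P.cons (P.cons (P.lf 0 26830 0) (P.cons (P.lf 0 1000 0) (P.cons (P.lf 0 428 0) P.nil))) (P.cons (P.cons (P.lf 0 7684 0) (P.cons (P.lf 262 0 0) P.nil)) (P.cons (P.cons (P.lf 0 114 0) P.nil) P.nil)))))) 1884)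
 EL.nil)))
noncomputable def S169_176_216_290_6 : EL := (EL.cons 12 (TM.mk (P.lf 8589934592 0 0) 0)
 (EL.cons 3 (TM.mk (P.cons (P.lf 0 2318373686 0) (P.cons (P.lf 74364787 0 0) (P.cons (P.lf 1209847 0 0) (P.cons (P.lf 0 3431 0) (P.cons (P.lf 0 281 0) (P.cons (P.lf 0 0 0) P.nil)))))) 55)
 (EL.cons 7 (TM.mk (P.cons (P.lf 0 1643358119 0) (P.cons (P.lf 0 37301478 0) (P.cons (P.lf 414724 0 0) (P.cons (P.lf 11772 0 0) (P.cons (P.lf 30 0 0) (P.cons (P.lf 0 2 0) P.nil)))))) 46)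
 EL.nil)))
noncomputable def S169_176_216_290_7 : EL := (EL.cons 12 (TM.mk (P.cons (P.cons (P.lf 2808551690 0 0) (P.cons (P.lf 0 96940312 0) (P.cons (P.lf 0 45761760 0) (P.lf 2179128 0 0)))) (P.cons (P.cons (P.lf 324855958 0 0) (P.cons (P.lf 0 6601144 0) (P.cons (P.lf 0 3116136 0) (P.lf 148384 0 0)))) (P.cons (P.cons (P.lf 0 4898222 0) (P.cons (P.lf 0 76440 0) (P.cons (P.lf 0 36080 0) (P.lf 1712 0 0)))) (P.cons (P.cons (P.lf 0 311442 0) (P.cons (P.lf 4272 0 0) (P.cons (P.lf 2016 0 0) P.nil))) (P.cons (P.cons (P.lf 0 24 0) (P.cons (P.lf 112 0 0) P.nil)) (P.cons (P.cons (P.lf 154 0 0) P.nil) P.nil)))))) 996)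
 (EL.cons 3 (TM.mk (P.cons (P.cons (P.lf 3104684817 0 0) (P.cons (P.lf 0 52327258 0) (P.cons (P.lf 0 24701668 0) (P.lf 1176266 0 0)))) (P.cons (P.cons (P.lf 0 130178918 0) (P.cons (P.lf 0 1884756 0) (P.cons (P.lf 0 889714 0) (P.lf 42364 0 0)))) (P.cons (P.cons (P.lf 0 9119162 0) (P.cons (P.lf 100338 0 0) (P.cons (P.lf 47368 0 0) (P.lf 0 2256 0)))) (P.cons (P.cons (P.lf 0 26652 0) (P.cons (P.lf 5410 0 0) (P.cons (P.lf 2552 0 0) P.nil))) (P.cons (P.cons (P.lf 8883 0 0) (P.cons (P.lf 0 0 0) P.nil)) (P.cons (P.cons (P.lf 153 0 0) P.nil) P.nil)))))) 1854)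
 (EL.cons 7 (TM.mk (P.cons (P.cons (P.lf 0 2474843690 0) (P.cons (P.lf 57916990 0 0) (P.cons (P.lf 27340364 0 0) (P.lf 0 1301923 0)))) (P.cons (P.cons (P.lf 65297912 0 0) (P.cons (P.lf 945400 0 0) (P.cons (P.lf 446288 0 0) (P.lf 0 21254 0)))) (P.cons (P.cons (P.lf 2785852 0 0) (P.cons (P.lf 0 76220 0) (P.cons (P.lf 0 35980 0) (P.lf 1711 0 0)))) (P.cons (P.cons (P.lf 0 132462 0) (P.cons (P.lf 0 576 0) (P.cons (P.lf 0 271 0) P.nil))) (P.cons (P.cons (P.lf 0 3222 0) (P.cons (P.lf 79 0 0) P.nil)) (P.cons (P.cons (P.lf 79 0 0) P.nil) P.nil)))))) 1515)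
 (EL.cons 10 (TM.mk (P.cons (P.cons (P.lf 0 382167081 0) (P.cons (P.lf 0 376832859 0) (P.cons (P.lf 11791464 0 0) (P.cons (P.lf 2160738 0 0) (P.lf 0 77169 0))))) (P.cons (P.cons (P.lf 0 17349105 0) (P.cons (P.lf 0 17106948 0) (P.cons (P.lf 535293 0 0) (P.cons (P.lf 98088 0 0) (P.lf 0 3501 0))))) (P.cons (P.cons (P.lf 0 4005 0) (P.cons (P.lf 0 3951 0) (P.cons (P.lf 123 0 0) (P.cons (P.lf 21 0 0) P.nil)))) (P.cons (P.cons (P.lf 9852 0 0) (P.cons (P.lf 9714 0 0) (P.cons (P.lf 0 303 0) P.nil))) (P.cons (P.cons (P.lf 111 0 0) (P.cons (P.lf 111 0 0) P.nil)) (P.cons (P.cons (P.lf 0 0 0) P.nil) P.nil)))))) 219)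
 EL.nil))))
noncomputable def S169_176_216_290_8 : EL := (EL.cons 12 (TM.mk (P.cons (P.cons (P.lf 918279704 0 0) (P.cons (P.lf 0 63390908 0) (P.cons (P.lf 0 28830382 0) (P.cons (P.lf 2457842 0 0) (P.cons (P.lf 194604 0 0) (P.cons (P.lf 0 23218 0) P.nil)))))) (P.cons (P.cons (P.lf 212428800 0 0) (P.cons (P.lf 0 11648816 0) (P.cons (P.lf 0 5349956 0) (P.cons (P.lf 402518 0 0) (P.cons (P.lf 26502 0 0) P.nil))))) (P.cons (P.cons (P.lf 9082440 0 0) (P.cons (P.lf 0 438716 0) (P.cons (P.lf 0 200298 0) (P.cons (P.lf 16274 0 0) P.nil)))) (P.cons (P.cons (P.lf 0 574140 0) (P.cons (P.lf 11568 0 0) (P.cons (P.lf 5482 0 0) P.nil))) (P.cons (P.cons (P.lf 0 20778 0) (P.cons (P.lf 962 0 0) P.nil)) (P.cons (P.cons (P.lf 454 0 0) P.nil) P.nil)))))) 7788)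
 (EL.cons 3 (TM.mk (P.cons (P.cons (P.lf 2278044245 0 0) (P.cons (P.lf 0 121401348 0) (P.cons (P.lf 0 55832540 0) (P.cons (P.lf 4122819 0 0) (P.cons (P.lf 262611 0 0) (P.cons (P.lf 0 31330 0) P.nil)))))) (P.cons (P.cons (P.lf 199084630 0 0) (P.cons (P.lf 0 9618993 0) (P.cons (P.lf 0 4387038 0) (P.cons (P.lf 361333 0 0) (P.cons (P.lf 27341 0 0) P.nil))))) (P.cons (P.cons (P.lf 0 18867272 0) (P.cons (P.lf 324741 0 0) (P.cons (P.lf 155254 0 0) (P.cons (P.lf 0 5456 0) P.nil)))) (P.cons (P.cons (P.lf 0 1046975 0) (P.cons (P.lf 45627 0 0) (P.cons (P.lf 21167 0 0) P.nil))) (P.cons (P.cons (P.lf 21810 0 0) (P.cons (P.lf 603 0 0) P.nil)) (P.cons (P.cons (P.lf 1965 0 0) P.nil) P.nil)))))) 15437)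
 (EL.cons 7 (TM.mk (P.cons (P.cons (P.lf 0 1442664121 0) (P.cons (P.lf 81604343 0 0) (P.cons (P.lf 37424313 0 0) (P.cons (P.lf 0 2870970 0) (P.cons (P.lf 0 195300 0) (P.cons (P.lf 23299 0 0) P.nil)))))) (P.cons (P.cons (P.lf 0 99861124 0) (P.cons (P.lf 4824901 0 0) (P.cons (P.lf 2200548 0 0) (P.cons (P.lf 0 181249 0) (P.cons (P.lf 0 13709 0) P.nil))))) (P.cons (P.cons (P.lf 12198777 0 0) (P.cons (P.lf 0 295031 0) (P.cons (P.lf 0 138141 0) (P.cons (P.lf 7696 0 0) P.nil)))) (P.cons (P.cons (P.lf 147164 0 0) (P.cons (P.lf 0 15375 0) (P.cons (P.lf 0 7058 0) P.nil))) (P.cons (P.cons (P.lf 0 27221 0) (P.cons (P.lf 521 0 0) P.nil)) (P.cons (P.cons (P.lf 0 317 0) P.nil) P.nil)))))) 8308)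
 (EL.cons 10 (TM.mk (P.cons (P.cons (P.lf 0 249905508 0) (P.cons (P.lf 0 237791604 0) (P.cons (P.lf 20287896 0 0) (P.cons (P.lf 4967958 0 0) (P.cons (P.lf 0 416058 0) (P.cons (P.lf 0 15294 0) P.nil)))))) (P.cons (P.cons (P.lf 0 40250622 0) (P.cons (P.lf 0 38709858 0) (P.cons (P.lf 2669310 0 0) (P.cons (P.lf 631032 0 0) (P.cons (P.lf 0 49614 0) P.nil))))) (P.cons (P.cons (P.lf 0 878994 0) (P.cons (P.lf 0 833172 0) (P.cons (P.lf 76044 0 0) (P.cons (P.lf 18798 0 0) P.nil)))) (P.cons (P.cons (P.lf 53634 0 0) (P.cons (P.lf 52596 0 0) (P.cons (P.lf 0 2070 0) P.nil))) (P.cons (P.cons (P.lf 2082 0 0) (P.cons (P.lf 2004 0 0) P.nil)) (P.cons (P.cons (P.lf 0 12 0) P.nil) P.nil)))))) 9024)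
 EL.nil))))
noncomputable def S169_176_216_290_9 : EL := (EL.cons 3 (TM.mk (P.cons (P.lf 0 2318373686 0) (P.cons (P.lf 74364787 0 0) (P.cons (P.lf 1209847 0 0) (P.cons (P.lf 0 3431 0) (P.cons (P.lf 0 281 0) (P.cons (P.lf 0 0 0) P.nil)))))) 55)
 (EL.cons 7 (TM.mk (P.cons (P.lf 0 1643358119 0) (P.cons (P.lf 0 37301478 0) (P.cons (P.lf 414724 0 0) (P.cons (P.lf 11772 0 0) (P.cons (P.lf 30 0 0) (P.cons (P.lf 0 2 0) P.nil)))))) 46)
 EL.nil))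
noncomputable def S169_176_216_290_10 : EL := (EL.cons 3 (TM.mk (P.cons (P.cons (P.lf 0 758011863 0) (P.cons (P.lf 26163629 0 0) (P.cons (P.lf 12350834 0 0) (P.lf 0 588133 0)))) (P.cons (P.cons (P.lf 0 63362549 0) (P.cons (P.lf 942378 0 0) (P.cons (P.lf 444857 0 0) (P.lf 0 21182 0)))) (P.cons (P.cons (P.lf 4529914 0 0) (P.cons (P.lf 0 50169 0) (P.cons (P.lf 0 23684 0) (P.lf 1128 0 0)))) (P.cons (P.cons (P.lf 86283 0 0) (P.cons (P.lf 0 2705 0) (P.cons (P.lf 0 1276 0) P.nil))) (P.cons (P.cons (P.lf 0 3600 0) (P.cons (P.lf 0 0 0) P.nil)) (P.cons (P.cons (P.lf 0 93 0) P.nil) P.nil)))))) 398)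
 (EL.cons 7 (TM.mk (P.cons (P.cons (P.lf 0 537309821 0) (P.cons (P.lf 18545851 0 0) (P.cons (P.lf 8754776 0 0) (P.lf 0 416893 0)))) (P.cons (P.cons (P.lf 0 74344897 0) (P.cons (P.lf 1683838 0 0) (P.cons (P.lf 794873 0 0) (P.lf 0 37850 0)))) (P.cons (P.cons (P.lf 0 337988 0) (P.cons (P.lf 38608 0 0) (P.cons (P.lf 18224 0 0) (P.lf 0 866 0)))) (P.cons (P.cons (P.lf 100386 0 0) (P.cons (P.lf 0 936 0) (P.cons (P.lf 0 442 0) P.nil))) (P.cons (P.cons (P.lf 1575 0 0) (P.cons (P.lf 0 53 0) P.nil)) (P.cons (P.cons (P.lf 0 50 0) P.nil) P.nil)))))) 266)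
 EL.nil))
noncomputable def S169_176_216_290_11 : EL := (EL.cons 3 (TM.mk (P.cons (P.cons (P.lf 0 247838383 0) (P.cons (P.lf 17108838 0 0) (P.cons (P.lf 7781152 0 0) (P.cons (P.lf 0 663357 0) (P.cons (P.lf 0 52521 0) (P.cons (P.lf 6266 0 0) P.nil)))))) (P.cons (P.cons (P.lf 0 49383572 0) (P.cons (P.lf 2595159 0 0) (P.cons (P.lf 1194330 0 0) (P.cons (P.lf 0 87359 0) (P.cons (P.lf 0 5467 0) P.nil))))) (P.cons (P.cons (P.lf 0 482924 0) (P.cons (P.lf 8631 0 0) (P.cons (P.lf 3682 0 0) (P.cons (P.lf 0 560 0) P.nil)))) (P.cons (P.cons (P.lf 263137 0 0) (P.cons (P.lf 0 8535 0) (P.cons (P.lf 0 3955 0) P.nil))) (P.cons (P.cons (P.lf 1800 0 0) (P.cons (P.lf 0 213 0) P.nil)) (P.cons (P.cons (P.lf 0 393 0) P.nil) P.nil)))))) 2983)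
 (EL.cons 7 (TM.mk (P.cons (P.cons (P.lf 0 175677985 0) (P.cons (P.lf 12127445 0 0) (P.cons (P.lf 5515599 0 0) (P.cons (P.lf 0 470214 0) (P.cons (P.lf 0 37230 0) (P.cons (P.lf 4441 0 0) P.nil)))))) (P.cons (P.cons (P.lf 0 44627788 0) (P.cons (P.lf 2503831 0 0) (P.cons (P.lf 1148706 0 0) (P.cons (P.lf 0 87679 0) (P.cons (P.lf 0 5915 0) P.nil))))) (P.cons (P.cons (P.lf 0 2615709 0) (P.cons (P.lf 131455 0 0) (P.cons (P.lf 60159 0 0) (P.cons (P.lf 0 4742 0) P.nil)))) (P.cons (P.cons (P.lf 81914 0 0) (P.cons (P.lf 0 957 0) (P.cons (P.lf 0 476 0) P.nil))) (P.cons (P.cons (P.lf 7201 0 0) (P.cons (P.lf 0 271 0) P.nil)) (P.cons (P.cons (P.lf 0 11 0) P.nil) P.nil)))))) 1926)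
 EL.nil))
noncomputable def S169_176_216_290_12 : EL := (EL.cons 4 (TM.mk (P.cons (P.lf 2318373686 0 0) (P.cons (P.lf 0 74364787 0) (P.cons (P.lf 0 1209847 0) (P.cons (P.lf 3431 0 0) (P.cons (P.lf 281 0 0) (P.cons (P.lf 0 0 0) P.nil)))))) 55)
 (EL.cons 8 (TM.mk (P.cons (P.lf 1643358119 0 0) (P.cons (P.lf 37301478 0 0) (P.cons (P.lf 0 414724 0) (P.cons (P.lf 0 11772 0) (P.cons (P.lf 0 30 0) (P.cons (P.lf 2 0 0) P.nil)))))) 46)
 EL.nil))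
noncomputable def S169_176_216_290_13 : EL := (EL.cons 4 (TM.mk (P.cons (P.cons (P.lf 758011863 0 0) (P.cons (P.lf 0 26163629 0) (P.cons (P.lf 0 12350834 0) (P.lf 588133 0 0)))) (P.cons (P.cons (P.lf 63362549 0 0) (P.cons (P.lf 0 942378 0) (P.cons (P.lf 0 444857 0) (P.lf 21182 0 0)))) (P.cons (P.cons (P.lf 0 4529914 0) (P.cons (P.lf 50169 0 0) (P.cons (P.lf 23684 0 0) (P.lf 0 1128 0)))) (P.cons (P.cons (P.lf 0 86283 0) (P.cons (P.lf 2705 0 0) (P.cons (P.lf 1276 0 0) P.nil))) (P.cons (P.cons (P.lf 3600 0 0) (P.cons (P.lf 0 0 0) P.nil)) (P.cons (P.cons (P.lf 93 0 0) P.nil) P.nil)))))) 398)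
 (EL.cons 8 (TM.mk (P.cons (P.cons (P.lf 537309821 0 0) (P.cons (P.lf 0 18545851 0) (P.cons (P.lf 0 8754776 0) (P.lf 416893 0 0)))) (P.cons (P.cons (P.lf 74344897 0 0) (P.cons (P.lf 0 1683838 0) (P.cons (P.lf 0 794873 0) (P.lf 37850 0 0)))) (P.cons (P.cons (P.lf 337988 0 0) (P.cons (P.lf 0 38608 0) (P.cons (P.lf 0 18224 0) (P.lf 866 0 0)))) (P.cons (P.cons (P.lf 0 100386 0) (P.cons (P.lf 936 0 0) (P.cons (P.lf 442 0 0) P.nil))) (P.cons (P.cons (P.lf 0 1575 0) (P.cons (P.lf 53 0 0) P.nil)) (P.cons (P.cons (P.lf 50 0 0) P.nil) P.nil)))))) 266)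
 EL.nil))
noncomputable def S169_176_216_290_14 : EL := (EL.cons 4 (TM.mk (P.cons (P.cons (P.lf 247838383 0 0) (P.cons (P.lf 0 17108838 0) (P.cons (P.lf 0 7781152 0) (P.cons (P.lf 663357 0 0) (P.cons (P.lf 52521 0 0) (P.cons (P.lf 0 6266 0) P.nil)))))) (P.cons (P.cons (P.lf 49383572 0 0) (P.cons (P.lf 0 2595159 0) (P.cons (P.lf 0 1194330 0) (P.cons (P.lf 87359 0 0) (P.cons (P.lf 5467 0 0) P.nil))))) (P.cons (P.cons (P.lf 482924 0 0) (P.cons (P.lf 0 8631 0) (P.cons (P.lf 0 3682 0) (P.cons (P.lf 560 0 0) P.nil)))) (P.cons (P.cons (P.lf 0 263137 0) (P.cons (P.lf 8535 0 0) (P.cons (P.lf 3955 0 0) P.nil))) (P.cons (P.cons (P.lf 0 1800 0) (P.cons (P.lf 213 0 0) P.nil)) (P.cons (P.cons (P.lf 393 0 0) P.nil) P.nil)))))) 2983)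
 (EL.cons 8 (TM.mk (P.cons (P.cons (P.lf 175677985 0 0) (P.cons (P.lf 0 12127445 0) (P.cons (P.lf 0 5515599 0) (P.cons (P.lf 470214 0 0) (P.cons (P.lf 37230 0 0) (P.cons (P.lf 0 4441 0) P.nil)))))) (P.cons (P.cons (P.lf 44627788 0 0) (P.cons (P.lf 0 2503831 0) (P.cons (P.lf 0 1148706 0) (P.cons (P.lf 87679 0 0) (P.cons (P.lf 5915 0 0) P.nil))))) (P.cons (P.cons (P.lf 2615709 0 0) (P.cons (P.lf 0 131455 0) (P.cons (P.lf 0 60159 0) (P.cons (P.lf 4742 0 0) P.nil)))) (P.cons (P.cons (P.lf 0 81914 0) (P.cons (P.lf 957 0 0) (P.cons (P.lf 476 0 0) P.nil))) (P.cons (P.cons (P.lf 0 7201 0) (P.cons (P.lf 271 0 0) P.nil)) (P.cons (P.cons (P.lf 11 0 0) P.nil) P.nil)))))) 1926)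
 EL.nil))
noncomputable def S169_176_216_290_15 : EL := (EL.cons 4 (TM.mk (P.cons (P.lf 0 1334860063 0) (P.cons (P.lf 85634671 0 0) (P.cons (P.lf 19777 0 0) (P.cons (P.lf 0 48639 0) (P.cons (P.lf 0 560 0) (P.cons (P.lf 12 0 0) P.nil)))))) 71)
 (EL.cons 8 (TM.mk (P.cons (P.lf 0 946203425 0) (P.cons (P.lf 8873445 0 0) (P.cons (P.lf 1421475 0 0) (P.cons (P.lf 8926 0 0) (P.cons (P.lf 0 471 0) (P.cons (P.lf 0 7 0) P.nil)))))) 54)
 EL.nil))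
noncomputable def S169_176_216_290_16 : EL := (EL.cons 4 (TM.mk (P.cons (P.cons (P.lf 0 436443775 0) (P.cons (P.lf 15064346 0 0) (P.cons (P.lf 7111292 0 0) (P.lf 0 338631 0)))) (P.cons (P.cons (P.lf 0 22483039 0) (P.cons (P.lf 59388 0 0) (P.cons (P.lf 28034 0 0) (P.lf 0 1334 0)))) (P.cons (P.cons (P.lf 4006190 0 0) (P.cons (P.lf 0 54151 0) (P.cons (P.lf 0 25563 0) (P.lf 1217 0 0)))) (P.cons (P.cons (P.lf 0 15588 0) (P.cons (P.lf 0 891 0) (P.cons (P.lf 0 420 0) P.nil))) (P.cons (P.cons (P.lf 0 5134 0) (P.cons (P.lf 68 0 0) P.nil)) (P.cons (P.cons (P.lf 0 14 0) P.nil) P.nil)))))) 304)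
 (EL.cons 8 (TM.mk (P.cons (P.cons (P.lf 0 309369204 0) (P.cons (P.lf 10678224 0 0) (P.cons (P.lf 5040775 0 0) (P.lf 0 240036 0)))) (P.cons (P.cons (P.lf 0 32882472 0) (P.cons (P.lf 626993 0 0) (P.cons (P.lf 295978 0 0) (P.lf 0 14093 0)))) (P.cons (P.cons (P.lf 1339892 0 0) (P.cons (P.lf 0 14440 0) (P.cons (P.lf 0 6817 0) (P.lf 325 0 0)))) (P.cons (P.cons (P.lf 85922 0 0) (P.cons (P.lf 0 1742 0) (P.cons (P.lf 0 822 0) P.nil))) (P.cons (P.cons (P.lf 0 946 0) (P.cons (P.lf 0 22 0) P.nil)) (P.cons (P.cons (P.lf 0 93 0) P.nil) P.nil)))))) 219)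
 EL.nil))
noncomputable def S169_176_216_290_17 : EL := (EL.cons 4 (TM.mk (P.cons (P.cons (P.lf 0 142698979 0) (P.cons (P.lf 9850830 0 0) (P.cons (P.lf 4480187 0 0) (P.cons (P.lf 0 381944 0) (P.cons (P.lf 0 30240 0) (P.cons (P.lf 3607 0 0) P.nil)))))) (P.cons (P.cons (P.lf 0 23856541 0) (P.cons (P.lf 1178248 0 0) (P.cons (P.lf 543957 0 0) (P.cons (P.lf 0 38047 0) (P.cons (P.lf 0 2177 0) P.nil))))) (P.cons (P.cons (P.lf 708462 0 0) (P.cons (P.lf 0 48099 0) (P.cons (P.lf 0 22275 0) (P.cons (P.lf 1488 0 0) P.nil)))) (P.cons (P.cons (P.lf 175053 0 0) (P.cons (P.lf 0 5838 0) (P.cons (P.lf 0 2697 0) P.nil))) (P.cons (P.cons (P.lf 0 3735 0) (P.cons (P.lf 34 0 0) P.nil)) (P.cons (P.cons (P.lf 0 342 0) P.nil) P.nil)))))) 2127)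
 (EL.cons 8 (TM.mk (P.cons (P.cons (P.lf 0 101150875 0) (P.cons (P.lf 6982671 0 0) (P.cons (P.lf 3175740 0 0) (P.cons (P.lf 0 270737 0) (P.cons (P.lf 0 21435 0) (P.cons (P.lf 2557 0 0) P.nil)))))) (P.cons (P.cons (P.lf 0 22450991 0) (P.cons (P.lf 1217663 0 0) (P.cons (P.lf 559529 0 0) (P.cons (P.lf 0 41799 0) (P.cons (P.lf 0 2718 0) P.nil))))) (P.cons (P.cons (P.lf 0 629055 0) (P.cons (P.lf 25802 0 0) (P.cons (P.lf 11765 0 0) (P.cons (P.lf 0 969 0) P.nil)))) (P.cons (P.cons (P.lf 108732 0 0) (P.cons (P.lf 0 3720 0) (P.cons (P.lf 0 1725 0) P.nil))) (P.cons (P.cons (P.lf 3368 0 0) (P.cons (P.lf 0 174 0) P.nil)) (P.cons (P.cons (P.lf 0 169 0) P.nil) P.nil)))))) 1442)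
 EL.nil))
noncomputable def S169_176_216_290_18 : EL := (EL.cons 4 (TM.mk (P.cons (P.lf 768578162 0 0) (P.cons (P.lf 0 73959368 0) (P.cons (P.lf 1169088 0 0) (P.cons (P.lf 55238 0 0) (P.cons (P.lf 0 548 0) (P.cons (P.lf 0 37 0) P.nil)))))) 68)
 (EL.cons 8 (TM.mk (P.cons (P.lf 544799646 0 0) (P.cons (P.lf 0 22584244 0) (P.cons (P.lf 0 938872 0) (P.cons (P.lf 24585 0 0) (P.cons (P.lf 921 0 0) (P.cons (P.lf 0 3 0) P.nil)))))) 50)
 EL.nil))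
noncomputable def S169_176_216_290_19 : EL := (EL.cons 4 (TM.mk (P.cons (P.cons (P.lf 251293123 0 0) (P.cons (P.lf 0 8673663 0) (P.cons (P.lf 0 4094499 0) (P.lf 194975 0 0)))) (P.cons (P.cons (P.lf 4884610 0 0) (P.cons (P.lf 244023 0 0) (P.cons (P.lf 115194 0 0) (P.lf 0 5485 0)))) (P.cons (P.cons (P.lf 0 2853031 0) (P.cons (P.lf 36802 0 0) (P.cons (P.lf 17372 0 0) (P.lf 0 827 0)))) (P.cons (P.cons (P.lf 76580 0 0) (P.cons (P.lf 0 480 0) (P.cons (P.lf 0 226 0) P.nil))) (P.cons (P.cons (P.lf 3921 0 0) (P.cons (P.lf 0 73 0) P.nil)) (P.cons (P.cons (P.lf 0 92 0) P.nil) P.nil)))))) 262)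
 (EL.cons 8 (TM.mk (P.cons (P.cons (P.lf 178126847 0 0) (P.cons (P.lf 0 6148247 0) (P.cons (P.lf 0 2902349 0) (P.lf 138206 0 0)))) (P.cons (P.cons (P.lf 13219238 0 0) (P.cons (P.lf 0 163793 0) (P.cons (P.lf 0 77320 0) (P.lf 3681 0 0)))) (P.cons (P.cons (P.lf 0 1471727 0) (P.cons (P.lf 23102 0 0) (P.cons (P.lf 10906 0 0) (P.lf 0 519 0)))) (P.cons (P.cons (P.lf 0 34342 0) (P.cons (P.lf 915 0 0) (P.cons (P.lf 432 0 0) P.nil))) (P.cons (P.cons (P.lf 2583 0 0) (P.cons (P.lf 0 24 0) P.nil)) (P.cons (P.cons (P.lf 63 0 0) P.nil) P.nil)))))) 164)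
 EL.nil))
noncomputable def S169_176_216_290_20 : EL := (EL.cons 4 (TM.mk (P.cons (P.cons (P.lf 82162410 0 0) (P.cons (P.lf 0 5671855 0) (P.cons (P.lf 0 2579577 0) (P.cons (P.lf 219913 0 0) (P.cons (P.lf 17411 0 0) (P.cons (P.lf 0 2076 0) P.nil)))))) (P.cons (P.cons (P.lf 11100520 0 0) (P.cons (P.lf 0 496472 0) (P.cons (P.lf 0 230453 0) (P.cons (P.lf 14852 0 0) (P.cons (P.lf 695 0 0) P.nil))))) (P.cons (P.cons (P.lf 0 891390 0) (P.cons (P.lf 52414 0 0) (P.cons (P.lf 24217 0 0) (P.cons (P.lf 0 1674 0) P.nil)))) (P.cons (P.cons (P.lf 0 94753 0) (P.cons (P.lf 2819 0 0) (P.cons (P.lf 1301 0 0) P.nil))) (P.cons (P.cons (P.lf 5626 0 0) (P.cons (P.lf 0 143 0) P.nil)) (P.cons (P.cons (P.lf 181 0 0) P.nil) P.nil)))))) 1634)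
 (EL.cons 8 (TM.mk (P.cons (P.cons (P.lf 58240077 0 0) (P.cons (P.lf 0 4020442 0) (P.cons (P.lf 0 1828509 0) (P.cons (P.lf 155883 0 0) (P.cons (P.lf 12342 0 0) (P.cons (P.lf 0 1472 0) P.nil)))))) (P.cons (P.cons (P.lf 11058580 0 0) (P.cons (P.lf 0 572138 0) (P.cons (P.lf 0 263510 0) (P.cons (P.lf 19066 0 0) (P.cons (P.lf 1168 0 0) P.nil))))) (P.cons (P.cons (P.lf 0 82838 0) (P.cons (P.lf 9730 0 0) (P.cons (P.lf 4513 0 0) (P.cons (P.lf 0 294 0) P.nil)))) (P.cons (P.cons (P.lf 0 80882 0) (P.cons (P.lf 2978 0 0) (P.cons (P.lf 1376 0 0) P.nil))) (P.cons (P.cons (P.lf 0 94 0) (P.cons (P.lf 38 0 0) P.nil)) (P.cons (P.cons (P.lf 194 0 0) P.nil) P.nil)))))) 1014)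
 EL.nil))
noncomputable def S169_176_216_290_21 : EL := (EL.cons 4 (TM.mk (P.cons (P.cons (P.lf 0 3862696680 0) (P.cons (P.lf 78490887 0 0) (P.cons (P.lf 37052502 0 0) (P.lf 0 1764399 0)))) (P.cons (P.cons (P.lf 66816369 0 0) (P.cons (P.lf 2827134 0 0) (P.cons (P.lf 1334571 0 0) (P.lf 0 63546 0)))) (P.cons (P.cons (P.lf 13649076 0 0) (P.cons (P.lf 0 150507 0) (P.cons (P.lf 0 71052 0) (P.lf 3384 0 0)))) (P.cons (P.cons (P.lf 112935 0 0) (P.cons (P.lf 0 8115 0) (P.cons (P.lf 0 3828 0) P.nil))) (P.cons (P.cons (P.lf 0 12483 0) (P.cons (P.lf 0 0 0) P.nil)) (P.cons (P.cons (P.lf 0 246 0) P.nil) P.nil)))))) 1437)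
 (EL.cons 8 (TM.mk (P.cons (P.cons (P.lf 1937533869 0 0) (P.cons (P.lf 0 39371139 0) (P.cons (P.lf 0 18585588 0) (P.lf 885030 0 0)))) (P.cons (P.cons (P.lf 0 139642809 0) (P.cons (P.lf 738438 0 0) (P.cons (P.lf 348585 0 0) (P.lf 0 16596 0)))) (P.cons (P.cons (P.lf 0 3123840 0) (P.cons (P.lf 114828 0 0) (P.cons (P.lf 54204 0 0) (P.lf 0 2577 0)))) (P.cons (P.cons (P.lf 232848 0 0) (P.cons (P.lf 0 360 0) (P.cons (P.lf 0 171 0) P.nil))) (P.cons (P.cons (P.lf 4797 0 0) (P.cons (P.lf 0 132 0) P.nil)) (P.cons (P.cons (P.lf 0 129 0) P.nil) P.nil)))))) 1230)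
 (EL.cons 11 (TM.mk (P.cons (P.cons (P.lf 382167081 0 0) (P.cons (P.lf 376832859 0 0) (P.cons (P.lf 0 11791464 0) (P.cons (P.lf 0 2160738 0) (P.lf 77169 0 0))))) (P.cons (P.cons (P.lf 17349105 0 0) (P.cons (P.lf 17106948 0 0) (P.cons (P.lf 0 535293 0) (P.cons (P.lf 0 98088 0) (P.lf 3501 0 0))))) (P.cons (P.cons (P.lf 4005 0 0) (P.cons (P.lf 3951 0 0) (P.cons (P.lf 0 123 0) (P.cons (P.lf 0 21 0) P.nil)))) (P.cons (P.cons (P.lf 0 9852 0) (P.cons (P.lf 0 9714 0) (P.cons (P.lf 303 0 0) P.nil))) (P.cons (P.cons (P.lf 0 111 0) (P.cons (P.lf 0 111 0) P.nil)) (P.cons (P.cons (P.lf 0 0 0) P.nil) P.nil)))))) 219)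
 EL.nil)))
noncomputable def S169_176_216_290_22 : EL := (EL.cons 4 (TM.mk (P.cons (P.cons (P.lf 0 1262941314 0) (P.cons (P.lf 69255093 0 0) (P.cons (P.lf 31806846 0 0) (P.cons (P.lf 0 2393088 0) (P.cons (P.lf 0 157566 0) (P.cons (P.lf 18798 0 0) P.nil)))))) (P.cons (P.cons (P.lf 0 124234101 0) (P.cons (P.lf 6107076 0 0) (P.cons (P.lf 2790684 0 0) (P.cons (P.lf 0 224346 0) (P.cons (P.lf 0 16404 0) P.nil))))) (P.cons (P.cons (P.lf 9192174 0 0) (P.cons (P.lf 0 158055 0) (P.cons (P.lf 0 75786 0) (P.cons (P.lf 2448 0 0) P.nil)))) (P.cons (P.cons (P.lf 655056 0 0) (P.cons (P.lf 0 27081 0) (P.cons (P.lf 0 12561 0) P.nil))) (P.cons (P.cons (P.lf 0 10005 0) (P.cons (P.lf 0 408 0) P.nil)) (P.cons (P.cons (P.lf 0 1179 0) P.nil) P.nil)))))) 6216)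
 (EL.cons 8 (TM.mk (P.cons (P.cons (P.lf 633493068 0 0) (P.cons (P.lf 0 34738449 0) (P.cons (P.lf 0 15954357 0) (P.cons (P.lf 1200378 0 0) (P.cons (P.lf 79035 0 0) (P.cons (P.lf 0 9429 0) P.nil)))))) (P.cons (P.cons (P.lf 27616668 0 0) (P.cons (P.lf 0 1160535 0) (P.cons (P.lf 0 525921 0) (P.cons (P.lf 46785 0 0) (P.cons (P.lf 3897 0 0) P.nil))))) (P.cons (P.cons (P.lf 0 7407243 0) (P.cons (P.lf 213243 0 0) (P.cons (P.lf 99150 0 0) (P.cons (P.lf 0 6219 0) P.nil)))) (P.cons (P.cons (P.lf 0 32625 0) (P.cons (P.lf 7209 0 0) (P.cons (P.lf 3291 0 0) P.nil))) (P.cons (P.cons (P.lf 17211 0 0) (P.cons (P.lf 0 396 0) P.nil)) (P.cons (P.cons (P.lf 153 0 0) P.nil) P.nil)))))) 3180)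
 (EL.cons 11 (TM.mk (P.cons (P.cons (P.lf 124952754 0 0) (P.cons (P.lf 118895802 0 0) (P.cons (P.lf 0 10143948 0) (P.cons (P.lf 0 2483979 0) (P.cons (P.lf 208029 0 0) (P.cons (P.lf 7647 0 0) P.nil)))))) (P.cons (P.cons (P.lf 20125311 0 0) (P.cons (P.lf 19354929 0 0) (P.cons (P.lf 0 1334655 0) (P.cons (P.lf 0 315516 0) (P.cons (P.lf 24807 0 0) P.nil))))) (P.cons (P.cons (P.lf 439497 0 0) (P.cons (P.lf 416586 0 0) (P.cons (P.lf 0 38022 0) (P.cons (P.lf 0 9399 0) P.nil)))) (P.cons (P.cons (P.lf 0 26817 0) (P.cons (P.lf 0 26298 0) (P.cons (P.lf 1035 0 0) P.nil))) (P.cons (P.cons (P.lf 0 1041 0) (P.cons (P.lf 0 1002 0) P.nil)) (P.cons (P.cons (P.lf 6 0 0) P.nil) P.nil)))))) 4512)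
 EL.nil)))
noncomputable def S169_176_216_290_23 : EL := (EL.cons 4 (TM.mk (P.cons (P.cons (P.lf 2224041606 0 0) (P.cons (P.lf 0 45193038 0) (P.cons (P.lf 0 21333879 0) (P.lf 1015893 0 0)))) (P.cons (P.cons (P.lf 0 109810116 0) (P.cons (P.lf 0 178164 0) (P.cons (P.lf 0 84099 0) (P.lf 4002 0 0)))) (P.cons (P.cons (P.lf 0 7785396 0) (P.cons (P.lf 162453 0 0) (P.cons (P.lf 76689 0 0) (P.lf 0 3651 0)))) (P.cons (P.cons (P.lf 210423 0 0) (P.cons (P.lf 2673 0 0) (P.cons (P.lf 1260 0 0) P.nil))) (P.cons (P.cons (P.lf 13587 0 0) (P.cons (P.lf 0 201 0) P.nil)) (P.cons (P.cons (P.lf 0 69 0) P.nil) P.nil)))))) 1152)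
 (EL.cons 8 (TM.mk (P.cons (P.cons (P.lf 0 1115582271 0) (P.cons (P.lf 22668891 0 0) (P.cons (P.lf 10701102 0 0) (P.lf 0 509577 0)))) (P.cons (P.cons (P.lf 116186466 0 0) (P.cons (P.lf 0 1152306 0) (P.cons (P.lf 0 543957 0) (P.lf 25899 0 0)))) (P.cons (P.cons (P.lf 0 198222 0) (P.cons (P.lf 0 64305 0) (P.cons (P.lf 0 30354 0) (P.lf 1443 0 0)))) (P.cons (P.cons (P.lf 0 235368 0) (P.cons (P.lf 2583 0 0) (P.cons (P.lf 1218 0 0) P.nil))) (P.cons (P.cons (P.lf 582 0 0) (P.cons (P.lf 105 0 0) P.nil)) (P.cons (P.cons (P.lf 243 0 0) P.nil) P.nil)))))) 894)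
 (EL.cons 11 (TM.mk (P.cons (P.cons (P.lf 0 220041996 0) (P.cons (P.lf 0 216970686 0) (P.cons (P.lf 6789222 0 0) (P.cons (P.lf 1244097 0 0) (P.lf 0 44430 0))))) (P.cons (P.cons (P.lf 0 2931042 0) (P.cons (P.lf 0 2890128 0) (P.cons (P.lf 90435 0 0) (P.cons (P.lf 16569 0 0) (P.lf 0 588 0))))) (P.cons (P.cons (P.lf 432936 0 0) (P.cons (P.lf 426894 0 0) (P.cons (P.lf 0 13356 0) (P.cons (P.lf 0 2448 0) P.nil)))) (P.cons (P.cons (P.lf 10632 0 0) (P.cons (P.lf 10485 0 0) (P.cons (P.lf 0 327 0) P.nil))) (P.cons (P.cons (P.lf 0 156 0) (P.cons (P.lf 0 153 0) P.nil)) (P.cons (P.cons (P.lf 0 6 0) P.nil) P.nil)))))) 336)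
 EL.nil)))
noncomputable def S169_176_216_290_24 : EL := (EL.cons 4 (TM.mk (P.cons (P.cons (P.lf 727169193 0 0) (P.cons (P.lf 0 39875304 0) (P.cons (P.lf 0 18313563 0) (P.cons (P.lf 1377876 0 0) (P.cons (P.lf 90723 0 0) (P.cons (P.lf 0 10824 0) P.nil)))))) (P.cons (P.cons (P.lf 48205926 0 0) (P.cons (P.lf 0 2237247 0) (P.cons (P.lf 0 1019373 0) (P.cons (P.lf 84975 0 0) (P.cons (P.lf 6534 0 0) P.nil))))) (P.cons (P.cons (P.lf 0 7966533 0) (P.cons (P.lf 224601 0 0) (P.cons (P.lf 104733 0 0) (P.cons (P.lf 0 6270 0) P.nil)))) (P.cons (P.cons (P.lf 0 243648 0) (P.cons (P.lf 14448 0 0) (P.cons (P.lf 6642 0 0) P.nil))) (P.cons (P.cons (P.lf 20814 0 0) (P.cons (P.lf 0 321 0) P.nil)) (P.cons (P.cons (P.lf 690 0 0) P.nil) P.nil)))))) 3516)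
 (EL.cons 8 (TM.mk (P.cons (P.cons (P.lf 0 364749048 0) (P.cons (P.lf 20001507 0 0) (P.cons (P.lf 9186108 0 0) (P.cons (P.lf 0 691146 0) (P.cons (P.lf 0 45507 0) (P.cons (P.lf 5427 0 0) P.nil)))))) (P.cons (P.cons (P.lf 0 4201176 0) (P.cons (P.lf 26631 0 0) (P.cons (P.lf 8154 0 0) (P.cons (P.lf 0 4767 0) (P.cons (P.lf 0 783 0) P.nil))))) (P.cons (P.cons (P.lf 4965288 0 0) (P.cons (P.lf 0 154650 0) (P.cons (P.lf 0 71595 0) (P.cons (P.lf 4806 0 0) P.nil)))) (P.cons (P.cons (P.lf 0 110256 0) (P.cons (P.lf 0 531 0) (P.cons (P.lf 0 207 0) P.nil))) (P.cons (P.cons (P.lf 0 12804 0) (P.cons (P.lf 429 0 0) P.nil)) (P.cons (P.cons (P.lf 222 0 0) P.nil) P.nil)))))) 1863)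
 (EL.cons 11 (TM.mk (P.cons (P.cons (P.lf 0 71944587 0) (P.cons (P.lf 0 68457150 0) (P.cons (P.lf 5840625 0 0) (P.cons (P.lf 1430211 0 0) (P.cons (P.lf 0 119778 0) (P.cons (P.lf 0 4404 0) P.nil)))))) (P.cons (P.cons (P.lf 0 9279921 0) (P.cons (P.lf 0 8948220 0) (P.cons (P.lf 581115 0 0) (P.cons (P.lf 135789 0 0) (P.cons (P.lf 0 10440 0) P.nil))))) (P.cons (P.cons (P.lf 156180 0 0) (P.cons (P.lf 153324 0 0) (P.cons (P.lf 0 5802 0) (P.cons (P.lf 0 1161 0) P.nil)))) (P.cons (P.cons (P.lf 29499 0 0) (P.cons (P.lf 28551 0 0) (P.cons (P.lf 0 1689 0) P.nil))) (P.cons (P.cons (P.lf 210 0 0) (P.cons (P.lf 192 0 0) P.nil)) (P.cons (P.cons (P.lf 0 33 0) P.nil) P.nil)))))) 2622)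
 EL.nil)))
noncomputable def S169_176_216_290_25 : EL := (EL.cons 4 (TM.mk (P.cons (P.cons (P.lf 0 1280546070 0) (P.cons (P.lf 26020989 0 0) (P.cons (P.lf 12283500 0 0) (P.lf 0 584925 0)))) (P.cons (P.cons (P.lf 104300991 0 0) (P.cons (P.lf 0 732072 0) (P.cons (P.lf 0 345585 0) (P.lf 16458 0 0)))) (P.cons (P.cons (P.lf 3122835 0 0) (P.cons (P.lf 0 110406 0) (P.cons (P.lf 0 52119 0) (P.lf 2481 0 0)))) (P.cons (P.cons (P.lf 0 299829 0) (P.cons (P.lf 1443 0 0) (P.cons (P.lf 681 0 0) P.nil))) (P.cons (P.cons (P.lf 0 6336 0) (P.cons (P.lf 216 0 0) P.nil)) (P.cons (P.cons (P.lf 369 0 0) P.nil) P.nil)))))) 837)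
 (EL.cons 8 (TM.mk (P.cons (P.cons (P.lf 642323637 0 0) (P.cons (P.lf 0 13052163 0) (P.cons (P.lf 0 6161421 0) (P.lf 293400 0 0)))) (P.cons (P.cons (P.lf 0 87500532 0) (P.cons (P.lf 1082133 0 0) (P.cons (P.lf 510831 0 0) (P.lf 0 24324 0)))) (P.cons (P.cons (P.lf 1924746 0 0) (P.cons (P.lf 22554 0 0) (P.cons (P.lf 10647 0 0) (P.lf 0 504 0)))) (P.cons (P.cons (P.lf 167718 0 0) (P.cons (P.lf 0 3039 0) (P.cons (P.lf 0 1434 0) P.nil))) (P.cons (P.cons (P.lf 0 4761 0) (P.cons (P.lf 0 33 0) P.nil)) (P.cons (P.cons (P.lf 0 207 0) P.nil) P.nil)))))) 612)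
 (EL.cons 11 (TM.mk (P.cons (P.cons (P.lf 126694533 0 0) (P.cons (P.lf 124926153 0 0) (P.cons (P.lf 0 3909057 0) (P.cons (P.lf 0 716319 0) (P.lf 25581 0 0))))) (P.cons (P.cons (P.lf 0 2376267 0) (P.cons (P.lf 0 2343102 0) (P.cons (P.lf 73317 0 0) (P.cons (P.lf 13434 0 0) (P.lf 0 480 0))))) (P.cons (P.cons (P.lf 0 369522 0) (P.cons (P.lf 0 364362 0) (P.cons (P.lf 11400 0 0) (P.cons (P.lf 2088 0 0) P.nil)))) (P.cons (P.cons (P.lf 1179 0 0) (P.cons (P.lf 1161 0 0) (P.cons (P.lf 0 36 0) P.nil))) (P.cons (P.cons (P.lf 435 0 0) (P.cons (P.lf 426 0 0) P.nil)) (P.cons (P.cons (P.lf 3 0 0) P.nil) P.nil)))))) 276)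
 EL.nil)))
noncomputable def S169_176_216_290_26 : EL := (EL.cons 4 (TM.mk (P.cons (P.cons (P.lf 0 418685355 0) (P.cons (P.lf 22959177 0 0) (P.cons (P.lf 10544478 0 0) (P.cons (P.lf 0 793344 0) (P.cons (P.lf 0 52236 0) (P.cons (P.lf 6231 0 0) P.nil)))))) (P.cons (P.cons (P.lf 0 14325870 0) (P.cons (P.lf 551703 0 0) (P.cons (P.lf 248700 0 0) (P.cons (P.lf 0 23478 0) (P.cons (P.lf 0 2085 0) P.nil))))) (P.cons (P.cons (P.lf 5695716 0 0) (P.cons (P.lf 0 182619 0) (P.cons (P.lf 0 84630 0) (P.cons (P.lf 5592 0 0) P.nil)))) (P.cons (P.cons (P.lf 7020 0 0) (P.cons (P.lf 0 4809 0) (P.cons (P.lf 0 2181 0) P.nil))) (P.cons (P.cons (P.lf 0 18969 0) (P.cons (P.lf 522 0 0) P.nil)) (P.cons (P.cons (P.lf 0 84 0) P.nil) P.nil)))))) 1983)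
 (EL.cons 8 (TM.mk (P.cons (P.cons (P.lf 210013140 0 0) (P.cons (P.lf 0 11516352 0) (P.cons (P.lf 0 5289126 0) (P.cons (P.lf 397944 0 0) (P.cons (P.lf 26199 0 0) (P.cons (P.lf 0 3126 0) P.nil)))))) (P.cons (P.cons (P.lf 0 4317507 0) (P.cons (P.lf 354066 0 0) (P.cons (P.lf 164958 0 0) (P.cons (P.lf 0 10017 0) (P.cons (P.lf 0 387 0) P.nil))))) (P.cons (P.cons (P.lf 0 3046071 0) (P.cons (P.lf 95544 0 0) (P.cons (P.lf 44133 0 0) (P.cons (P.lf 0 3063 0) P.nil)))) (P.cons (P.cons (P.lf 154233 0 0) (P.cons (P.lf 0 2559 0) (P.cons (P.lf 0 1206 0) P.nil))) (P.cons (P.cons (P.lf 6858 0 0) (P.cons (P.lf 0 303 0) P.nil)) (P.cons (P.cons (P.lf 0 402 0) P.nil) P.nil)))))) 1077)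
 (EL.cons 11 (TM.mk (P.cons (P.cons (P.lf 41423847 0 0) (P.cons (P.lf 39415869 0 0) (P.cons (P.lf 0 3362880 0) (P.cons (P.lf 0 823479 0) (P.cons (P.lf 68964 0 0) (P.cons (P.lf 2535 0 0) P.nil)))))) (P.cons (P.cons (P.lf 4014417 0 0) (P.cons (P.lf 3887841 0 0) (P.cons (P.lf 0 226722 0) (P.cons (P.lf 0 51771 0) (P.cons (P.lf 3798 0 0) P.nil))))) (P.cons (P.cons (P.lf 0 282927 0) (P.cons (P.lf 0 274110 0) (P.cons (P.lf 15828 0 0) (P.cons (P.lf 3606 0 0) P.nil)))) (P.cons (P.cons (P.lf 0 16827 0) (P.cons (P.lf 0 16236 0) (P.cons (P.lf 1035 0 0) P.nil))) (P.cons (P.cons (P.lf 483 0 0) (P.cons (P.lf 474 0 0) P.nil)) (P.cons (P.cons (P.lf 30 0 0) P.nil) P.nil)))))) 1467)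
 EL.nil)))
noncomputable def S169_176_216_290_27 : EL := (EL.cons 13 (TM.mk (P.lf 0 4294967296 0) 0)
 EL.nil)
noncomputable def S169_176_216_290_28 : EL := (EL.cons 13 (TM.mk (P.cons (P.cons (P.lf 0 1404275845 0) (P.cons (P.lf 48470156 0 0) (P.cons (P.lf 22880880 0 0) (P.lf 0 1089564 0)))) (P.cons (P.cons (P.lf 0 162427979 0) (P.cons (P.lf 3300572 0 0) (P.cons (P.lf 1558068 0 0) (P.lf 0 74192 0)))) (P.cons (P.cons (P.lf 2449111 0 0) (P.cons (P.lf 38220 0 0) (P.cons (P.lf 18040 0 0) (P.lf 0 856 0)))) (P.cons (P.cons (P.lf 155721 0 0) (P.cons (P.lf 0 2136 0) (P.cons (P.lf 0 1008 0) P.nil))) (P.cons (P.cons (P.lf 12 0 0) (P.cons (P.lf 0 56 0) P.nil)) (P.cons (P.cons (P.lf 0 77 0) P.nil) P.nil)))))) 498)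
 EL.nil)
noncomputable def S169_176_216_290_29 : EL := (EL.cons 13 (TM.mk (P.cons (P.cons (P.lf 0 459139852 0) (P.cons (P.lf 31695454 0 0) (P.cons (P.lf 14415191 0 0) (P.cons (P.lf 0 1228921 0) (P.cons (P.lf 0 97302 0) (P.cons (P.lf 11609 0 0) P.nil)))))) (P.cons (P.cons (P.lf 0 106214400 0) (P.cons (P.lf 5824408 0 0) (P.cons (P.lf 2674978 0 0) (P.cons (P.lf 0 201259 0) (P.cons (P.lf 0 13251 0) P.nil))))) (P.cons (P.cons (P.lf 0 4541220 0) (P.cons (P.lf 219358 0 0) (P.cons (P.lf 100149 0 0) (P.cons (P.lf 0 8137 0) P.nil)))) (P.cons (P.cons (P.lf 287070 0 0) (P.cons (P.lf 0 5784 0) (P.cons (P.lf 0 2741 0) P.nil))) (P.cons (P.cons (P.lf 10389 0 0) (P.cons (P.lf 0 481 0) P.nil)) (P.cons (P.cons (P.lf 0 227 0) P.nil) P.nil)))))) 3894)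
 EL.nil)
noncomputable def S169_176_216_290_30 : EL := (EL.cons 13 (TM.mk (P.cons (P.lf 2472931932 0 0) (P.cons (P.lf 0 79322440 0) (P.cons (P.lf 0 1290504 0) (P.cons (P.lf 3660 0 0) (P.cons (P.lf 300 0 0) (P.cons (P.lf 0 0 0) P.nil)))))) 52)
 EL.nil)
noncomputable def S169_176_216_290_31 : EL := (EL.cons 13 (TM.mk (P.cons (P.cons (P.lf 808545988 0 0) (P.cons (P.lf 0 27907871 0) (P.cons (P.lf 0 13174223 0) (P.lf 627342 0 0)))) (P.cons (P.cons (P.lf 67586719 0 0) (P.cons (P.lf 0 1005204 0) (P.cons (P.lf 0 474515 0) (P.lf 22595 0 0)))) (P.cons (P.cons (P.lf 0 4831909 0) (P.cons (P.lf 53514 0 0) (P.cons (P.lf 25263 0 0) (P.lf 0 1204 0)))) (P.cons (P.cons (P.lf 0 92036 0) (P.cons (P.lf 2886 0 0) (P.cons (P.lf 1362 0 0) P.nil))) (P.cons (P.cons (P.lf 3841 0 0) (P.cons (P.lf 0 1 0) P.nil)) (P.cons (P.cons (P.lf 100 0 0) P.nil) P.nil)))))) 405)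
 EL.nil)
noncomputable def S169_176_216_290_32 : EL := (EL.cons 13 (TM.mk (P.cons (P.cons (P.lf 264360942 0 0) (P.cons (P.lf 0 18249428 0) (P.cons (P.lf 0 8299896 0) (P.cons (P.lf 707581 0 0) (P.cons (P.lf 56023 0 0) (P.cons (P.lf 0 6684 0) P.nil)))))) (P.cons (P.cons (P.lf 52675811 0 0) (P.cons (P.lf 0 2768170 0) (P.cons (P.lf 0 1273953 0) (P.cons (P.lf 93183 0 0) (P.cons (P.lf 5832 0 0) P.nil))))) (P.cons (P.cons (P.lf 515119 0 0) (P.cons (P.lf 0 9207 0) (P.cons (P.lf 0 3928 0) (P.cons (P.lf 598 0 0) P.nil)))) (P.cons (P.cons (P.lf 0 280680 0) (P.cons (P.lf 9104 0 0) (P.cons (P.lf 4219 0 0) P.nil))) (P.cons (P.cons (P.lf 0 1921 0) (P.cons (P.lf 228 0 0) P.nil)) (P.cons (P.cons (P.lf 420 0 0) P.nil) P.nil)))))) 3159)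
 EL.nil)
noncomputable def S169_176_216_290_33 : EL := (EL.cons 14 (TM.mk (P.lf 8589934592 0 0) 0)
 EL.nil)
noncomputable def S169_176_216_290_34 : EL := (EL.cons 14 (TM.mk (P.cons (P.cons (P.lf 2808551690 0 0) (P.cons (P.lf 0 96940312 0) (P.cons (P.lf 0 45761760 0) (P.lf 2179128 0 0)))) (P.cons (P.cons (P.lf 324855958 0 0) (P.cons (P.lf 0 6601144 0) (P.cons (P.lf 0 3116136 0) (P.lf 148384 0 0)))) (P.cons (P.cons (P.lf 0 4898222 0) (P.cons (P.lf 0 76440 0) (P.cons (P.lf 0 36080 0) (P.lf 1712 0 0)))) (P.cons (P.cons (P.lf 0 311442 0) (P.cons (P.lf 4272 0 0) (P.cons (P.lf 2016 0 0) P.nil))) (P.cons (P.cons (P.lf 0 24 0) (P.cons (P.lf 112 0 0) P.nil)) (P.cons (P.cons (P.lf 154 0 0) P.nil) P.nil)))))) 996)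
 EL.nil)
noncomputable def S169_176_216_290_35 : EL := (EL.cons 14 (TM.mk (P.cons (P.cons (P.lf 918279704 0 0) (P.cons (P.lf 0 63390908 0) (P.cons (P.lf 0 28830382 0) (P.cons (P.lf 2457842 0 0) (P.cons (P.lf 194604 0 0) (P.cons (P.lf 0 23218 0) P.nil)))))) (P.cons (P.cons (P.lf 212428800 0 0) (P.cons (P.lf 0 11648816 0) (P.cons (P.lf 0 5349956 0) (P.cons (P.lf 402518 0 0) (P.cons (P.lf 26502 0 0) P.nil))))) (P.cons (P.cons (P.lf 9082440 0 0) (P.cons (P.lf 0 438716 0) (P.cons (P.lf 0 200298 0) (P.cons (P.lf 16274 0 0) P.nil)))) (P.cons (P.cons (P.lf 0 574140 0) (P.cons (P.lf 11568 0 0) (P.cons (P.lf 5482 0 0) P.nil))) (P.cons (P.cons (P.lf 0 20778 0) (P.cons (P.lf 962 0 0) P.nil)) (P.cons (P.cons (P.lf 454 0 0) P.nil) P.nil)))))) 7788)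
 EL.nil)
noncomputable def S169_176_216_290_36 : EL := (EL.cons 14 (TM.mk (P.cons (P.lf 0 4945863864 0) (P.cons (P.lf 158644880 0 0) (P.cons (P.lf 2581008 0 0) (P.cons (P.lf 0 7320 0) (P.cons (P.lf 0 600 0) (P.cons (P.lf 0 0 0) P.nil)))))) 104)
 EL.nil)
noncomputable def S169_176_216_290_37 : EL := (EL.cons 14 (TM.mk (P.cons (P.cons (P.lf 0 1617091976 0) (P.cons (P.lf 55815742 0 0) (P.cons (P.lf 26348446 0 0) (P.lf 0 1254684 0)))) (P.cons (P.cons (P.lf 0 135173438 0) (P.cons (P.lf 2010408 0 0) (P.cons (P.lf 949030 0 0) (P.lf 0 45190 0)))) (P.cons (P.cons (P.lf 9663818 0 0) (P.cons (P.lf 0 107028 0) (P.cons (P.lf 0 50526 0) (P.lf 2408 0 0)))) (P.cons (P.cons (P.lf 184072 0 0) (P.cons (P.lf 0 5772 0) (P.cons (P.lf 0 2724 0) P.nil))) (P.cons (P.cons (P.lf 0 7682 0) (P.cons (P.lf 2 0 0) P.nil)) (P.cons (P.cons (P.lf 0 200 0) P.nil) P.nil)))))) 810)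
 EL.nil)
noncomputable def S169_176_216_290_38 : EL := (EL.cons 14 (TM.mk (P.cons (P.cons (P.lf 0 528721884 0) (P.cons (P.lf 36498856 0 0) (P.cons (P.lf 16599792 0 0) (P.cons (P.lf 0 1415162 0) (P.cons (P.lf 0 112046 0) (P.cons (P.lf 13368 0 0) P.nil)))))) (P.cons (P.cons (P.lf 0 105351622 0) (P.cons (P.lf 5536340 0 0) (P.cons (P.lf 2547906 0 0) (P.cons (P.lf 0 186366 0) (P.cons (P.lf 0 11664 0) P.nil))))) (P.cons (P.cons (P.lf 0 1030238 0) (P.cons (P.lf 18414 0 0) (P.cons (P.lf 7856 0 0) (P.cons (P.lf 0 1196 0) P.nil)))) (P.cons (P.cons (P.lf 561360 0 0) (P.cons (P.lf 0 18208 0) (P.cons (P.lf 0 8438 0) P.nil))) (P.cons (P.cons (P.lf 3842 0 0) (P.cons (P.lf 0 456 0) P.nil)) (P.cons (P.cons (P.lf 0 840 0) P.nil) P.nil)))))) 6318)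
 EL.nil)
noncomputable def S169_176_216_290_39 : EL := (EL.cons 14 (TM.mk (P.cons (P.lf 2847701468 0 0) (P.cons (P.lf 0 182687300 0) (P.cons (P.lf 0 42192 0) (P.cons (P.lf 103764 0 0) (P.cons (P.lf 1196 0 0) (P.cons (P.lf 0 26 0) P.nil)))))) 138)
 EL.nil)
noncomputable def S169_176_216_290_40 : EL := (EL.cons 14 (TM.mk (P.cons (P.cons (P.lf 931080054 0 0) (P.cons (P.lf 0 32137272 0) (P.cons (P.lf 0 15170758 0) (P.lf 722414 0 0)))) (P.cons (P.cons (P.lf 47963818 0 0) (P.cons (P.lf 0 126696 0) (P.cons (P.lf 0 59806 0) (P.lf 2846 0 0)))) (P.cons (P.cons (P.lf 0 8546540 0) (P.cons (P.lf 115524 0 0) (P.cons (P.lf 54536 0 0) (P.lf 0 2598 0)))) (P.cons (P.cons (P.lf 33256 0 0) (P.cons (P.lf 1902 0 0) (P.cons (P.lf 898 0 0) P.nil))) (P.cons (P.cons (P.lf 10954 0 0) (P.cons (P.lf 0 146 0) P.nil)) (P.cons (P.cons (P.lf 30 0 0) P.nil) P.nil)))))) 608)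
 EL.nil)
noncomputable def S169_176_216_290_41 : EL := (EL.cons 14 (TM.mk (P.cons (P.cons (P.lf 304424490 0 0) (P.cons (P.lf 0 21015104 0) (P.cons (P.lf 0 9557734 0) (P.cons (P.lf 814814 0 0) (P.cons (P.lf 64514 0 0) (P.cons (P.lf 0 7696 0) P.nil)))))) (P.cons (P.cons (P.lf 50893956 0 0) (P.cons (P.lf 0 2513596 0) (P.cons (P.lf 0 1160442 0) (P.cons (P.lf 81168 0 0) (P.cons (P.lf 4646 0 0) P.nil))))) (P.cons (P.cons (P.lf 0 1511386 0) (P.cons (P.lf 102612 0 0) (P.cons (P.lf 47520 0 0) (P.cons (P.lf 0 3176 0) P.nil)))) (P.cons (P.cons (P.lf 0 373448 0) (P.cons (P.lf 12456 0 0) (P.cons (P.lf 5754 0 0) P.nil))) (P.cons (P.cons (P.lf 7970 0 0) (P.cons (P.lf 0 74 0) P.nil)) (P.cons (P.cons (P.lf 730 0 0) P.nil) P.nil)))))) 4492)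
 EL.nil)
noncomputable def S169_176_216_290_42 : EL := (EL.cons 14 (TM.mk (P.cons (P.lf 0 1639633414 0) (P.cons (P.lf 157779986 0 0) (P.cons (P.lf 0 2494056 0) (P.cons (P.lf 0 117842 0) (P.cons (P.lf 1170 0 0) (P.cons (P.lf 80 0 0) P.nil)))))) 132)
 EL.nil)
noncomputable def S169_176_216_290_43 : EL := (EL.cons 14 (TM.mk (P.cons (P.cons (P.lf 0 536091996 0) (P.cons (P.lf 18503816 0 0) (P.cons (P.lf 8734932 0 0) (P.lf 0 415948 0)))) (P.cons (P.cons (P.lf 0 10420502 0) (P.cons (P.lf 0 520584 0) (P.cons (P.lf 0 245748 0) (P.lf 11702 0 0)))) (P.cons (P.cons (P.lf 6086468 0 0) (P.cons (P.lf 0 78512 0) (P.cons (P.lf 0 37062 0) (P.lf 1766 0 0)))) (P.cons (P.cons (P.lf 0 163372 0) (P.cons (P.lf 1026 0 0) (P.cons (P.lf 484 0 0) P.nil))) (P.cons (P.cons (P.lf 0 8366 0) (P.cons (P.lf 156 0 0) P.nil)) (P.cons (P.cons (P.lf 198 0 0) P.nil) P.nil)))))) 520)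
 EL.nil)
noncomputable def S169_176_216_290_44 : EL := (EL.cons 14 (TM.mk (P.cons (P.cons (P.lf 0 175279808 0) (P.cons (P.lf 12099958 0 0) (P.cons (P.lf 5503098 0 0) (P.cons (P.lf 0 469148 0) (P.cons (P.lf 0 37144 0) (P.cons (P.lf 4430 0 0) P.nil)))))) (P.cons (P.cons (P.lf 0 23681110 0) (P.cons (P.lf 1059142 0 0) (P.cons (P.lf 491634 0 0) (P.cons (P.lf 0 31686 0) (P.cons (P.lf 0 1484 0) P.nil))))) (P.cons (P.cons (P.lf 1901632 0 0) (P.cons (P.lf 0 111818 0) (P.cons (P.lf 0 51664 0) (P.cons (P.lf 3572 0 0) P.nil)))) (P.cons (P.cons (P.lf 202140 0 0) (P.cons (P.lf 0 6014 0) (P.cons (P.lf 0 2776 0) P.nil))) (P.cons (P.cons (P.lf 0 12004 0) (P.cons (P.lf 306 0 0) P.nil)) (P.cons (P.cons (P.lf 0 388 0) P.nil) P.nil)))))) 3440)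
 EL.nil)
noncomputable def S169_176_216_290_45 : EL := (EL.cons 14 (TM.mk (P.cons (P.cons (P.lf 300239306 0 0) (P.cons (P.lf 0 31089288 0) (P.cons (P.lf 0 13602964 0) (P.cons (P.lf 1699632 0 0) (P.cons (P.lf 173398 0 0) (P.cons (P.lf 0 30194 0) P.nil)))))) (P.cons (P.cons (P.lf 104183086 0 0) (P.cons (P.lf 0 9309014 0) (P.cons (P.lf 0 4124158 0) (P.cons (P.lf 461894 0 0) (P.cons (P.lf 44502 0 0) P.nil))))) (P.cons (P.cons (P.lf 10479628 0 0) (P.cons (P.lf 0 821748 0) (P.cons (P.lf 0 366212 0) (P.cons (P.lf 38756 0 0) P.nil)))) (P.cons (P.cons (P.lf 1334 0 0) (P.cons (P.lf 0 5802 0) (P.cons (P.lf 0 2320 0) P.nil))) (P.cons (P.cons (P.lf 0 41390 0) (P.cons (P.lf 2136 0 0) P.nil)) (P.cons (P.cons (P.lf 0 622 0) P.nil) P.nil)))))) 20662)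
 EL.nil)
noncomputable def S169_176_216_290_46 : EL := (EL.cons 15 (TM.mk (P.lf 4294967296 0 0) 0)
 EL.nil)
noncomputable def S169_176_216_290_47 : EL := (EL.cons 15 (TM.mk (P.cons (P.cons (P.lf 1404275845 0 0) (P.cons (P.lf 0 48470156 0) (P.cons (P.lf 0 22880880 0) (P.lf 1089564 0 0)))) (P.cons (P.cons (P.lf 162427979 0 0) (P.cons (P.lf 0 3300572 0) (P.cons (P.lf 0 1558068 0) (P.lf 74192 0 0)))) (P.cons (P.cons (P.lf 0 2449111 0) (P.cons (P.lf 0 38220 0) (P.cons (P.lf 0 18040 0) (P.lf 856 0 0)))) (P.cons (P.cons (P.lf 0 155721 0) (P.cons (P.lf 2136 0 0) (P.cons (P.lf 1008 0 0) P.nil))) (P.cons (P.cons (P.lf 0 12 0) (P.cons (P.lf 56 0 0) P.nil)) (P.cons (P.cons (P.lf 77 0 0) P.nil) P.nil)))))) 498)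
 EL.nil)
noncomputable def S169_176_216_290_48 : EL := (EL.cons 15 (TM.mk (P.cons (P.cons (P.lf 459139852 0 0) (P.cons (P.lf 0 31695454 0) (P.cons (P.lf 0 14415191 0) (P.cons (P.lf 1228921 0 0) (P.cons (P.lf 97302 0 0) (P.cons (P.lf 0 11609 0) P.nil)))))) (P.cons (P.cons (P.lf 106214400 0 0) (P.cons (P.lf 0 5824408 0) (P.cons (P.lf 0 2674978 0) (P.cons (P.lf 201259 0 0) (P.cons (P.lf 13251 0 0) P.nil))))) (P.cons (P.cons (P.lf 4541220 0 0) (P.cons (P.lf 0 219358 0) (P.cons (P.lf 0 100149 0) (P.cons (P.lf 8137 0 0) P.nil)))) (P.cons (P.cons (P.lf 0 287070 0) (P.cons (P.lf 5784 0 0) (P.cons (P.lf 2741 0 0) P.nil))) (P.cons (P.cons (P.lf 0 10389 0) (P.cons (P.lf 481 0 0) P.nil)) (P.cons (P.cons (P.lf 227 0 0) P.nil) P.nil)))))) 3894)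
 EL.nil)
noncomputable def S169_176_216_290 : SL := (SL.cons S169_176_216_290_0 (SL.cons S169_176_216_290_1 (SL.cons S169_176_216_290_2 (SL.cons S169_176_216_290_3 (SL.cons S169_176_216_290_4 (SL.cons S169_176_216_290_5 (SL.cons S169_176_216_290_6 (SL.cons S169_176_216_290_7 (SL.cons S169_176_216_290_8 (SL.cons S169_176_216_290_9 (SL.cons S169_176_216_290_10 (SL.cons S169_176_216_290_11 (SL.cons S169_176_216_290_12 (SL.cons S169_176_216_290_13 (SL.cons S169_176_216_290_14 (SL.cons S169_176_216_290_15 (SL.cons S169_176_216_290_16 (SL.cons S169_176_216_290_17 (SL.cons S169_176_216_290_18 (SL.cons S169_176_216_290_19 (SL.cons S169_176_216_290_20 (SL.cons S169_176_216_290_21 (SL.cons S169_176_216_290_22 (SL.cons S169_176_216_290_23 (SL.cons S169_176_216_290_24 (SL.cons S169_176_216_290_25 (SL.cons S169_176_216_290_26 (SL.cons S169_176_216_290_27 (SL.cons S169_176_216_290_28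 (SL.cons S169_176_216_290_29 (SL.cons S169_176_216_290_30 (SL.cons S169_176_216_290_31 (SL.cons S169_176_216_290_32 (SL.cons S169_176_216_290_33 (SL.cons S169_176_216_290_34 (SL.cons S169_176_216_290_35 (SL.cons S169_176_216_290_36 (SL.cons S169_176_216_290_37 (SL.cons S169_176_216_290_38 (SL.cons S169_176_216_290_39 (SL.cons S169_176_216_290_40 (SL.cons S169_176_216_290_41 (SL.cons S169_176_216_290_42 (SL.cons S169_176_216_290_43 (SL.cons S169_176_216_290_44 (SL.cons S169_176_216_290_45 (SL.cons S169_176_216_290_46 (SL.cons S169_176_216_290_47 (SL.cons S169_176_216_290_48 SL.nil)))))))))))))))))))))))))))))))))))))))))))))))))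
noncomputable def S169_176_216_364_0 : EL := (EL.cons 0 (TM.mk (P.cons (P.lf 5952854245 0 0) (P.cons (P.lf 160565009 0 0) (P.cons (P.lf 37082 0 0) (P.cons (P.lf 0 91198 0) (P.cons (P.lf 0 1051 0) (P.cons (P.lf 22 0 0) P.nil)))))) 128)
 (EL.cons 1 (TM.mk (P.cons (P.lf 0 1774131421 0) (P.cons (P.lf 16637709 0 0) (P.cons (P.lf 2665265 0 0) (P.cons (P.lf 16736 0 0) (P.cons (P.lf 0 883 0) (P.cons (P.lf 0 13 0) P.nil)))))) 108)
 (EL.cons 5 (TM.mk (P.cons (P.lf 5184874008 0 0) (P.cons (P.lf 0 57089782 0) (P.cons (P.lf 0 13186 0) (P.cons (P.lf 32424 0 0) (P.cons (P.lf 374 0 0) (P.cons (P.lf 0 6 0) P.nil)))))) 93)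
 (EL.cons 9 (TM.mk (P.lf 6442450944 0 0) 2)
 EL.nil))))
noncomputable def S169_176_216_364_1 : EL := (EL.cons 0 (TM.mk (P.cons (P.cons (P.lf 0 2198291734 0) (P.cons (P.lf 65897839 0 0) (P.cons (P.lf 28415886 0 0) (P.lf 0 3157315 0)))) (P.cons (P.cons (P.lf 474744638 0 0) (P.cons (P.lf 0 22717577 0) (P.cons (P.lf 0 9796076 0) (P.lf 1088460 0 0)))) (P.cons (P.cons (P.lf 16589720 0 0) (P.cons (P.lf 0 1806827 0) (P.cons (P.lf 0 779124 0) (P.lf 86563 0 0)))) (P.cons (P.cons (P.lf 0 733956 0) (P.cons (P.lf 0 9327 0) (P.cons (P.lf 0 4019 0) P.nil))) (P.cons (P.cons (P.lf 0 34214 0) (P.cons (P.lf 2340 0 0) P.nil)) (P.cons (P.cons (P.lf 276 0 0) P.nil) P.nil)))))) 8912)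
 (EL.cons 1 (TM.mk (P.cons (P.cons (P.lf 0 970418824 0) (P.cons (P.lf 108104928 0 0) (P.cons (P.lf 46616064 0 0) (P.lf 0 5179557 0)))) (P.cons (P.cons (P.lf 0 172734793 0) (P.cons (P.lf 15085992 0 0) (P.cons (P.lf 6505248 0 0) (P.lf 0 722792 0)))) (P.cons (P.cons (P.lf 8863144 0 0) (P.cons (P.lf 0 27777 0) (P.cons (P.lf 0 11978 0) (P.lf 1332 0 0)))) (P.cons (P.cons (P.lf 532283 0 0) (P.cons (P.lf 0 39771 0) (P.cons (P.lf 0 17140 0) P.nil))) (P.cons (P.cons (P.lf 0 7880 0) (P.cons (P.lf 0 776 0) P.nil)) (P.cons (P.cons (P.lf 0 644 0) P.nil) P.nil)))))) 5029)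
 (EL.cons 5 (TM.mk (P.cons (P.cons (P.lf 3049439285 0 0) (P.cons (P.lf 0 332705300 0) (P.cons (P.lf 0 143466282 0) (P.lf 15940694 0 0)))) (P.cons (P.cons (P.lf 99195914 0 0) (P.cons (P.lf 0 12982712 0) (P.cons (P.lf 0 5598294 0) (P.lf 622028 0 0)))) (P.cons (P.cons (P.lf 0 10156244 0) (P.cons (P.lf 398552 0 0) (P.cons (P.lf 171852 0 0) (P.lf 0 19088 0)))) (P.cons (P.cons (P.lf 1496 0 0) (P.cons (P.lf 16976 0 0) (P.cons (P.lf 7316 0 0) P.nil))) (P.cons (P.cons (P.lf 12288 0 0) (P.cons (P.lf 0 454 0) P.nil)) (P.cons (P.cons (P.lf 43 0 0) P.nil) P.nil)))))) 4966)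
 (EL.cons 9 (TM.mk (P.cons (P.cons (P.lf 2001021559 0 0) (P.cons (P.lf 0 272889666 0) (P.cons (P.lf 0 117673104 0) (P.lf 13074786 0 0)))) (P.cons (P.cons (P.lf 236465290 0 0) (P.cons (P.lf 0 18582408 0) (P.cons (P.lf 0 8012946 0) (P.lf 890322 0 0)))) (P.cons (P.cons (P.lf 0 3756772 0) (P.cons (P.lf 0 215184 0) (P.cons (P.lf 0 92790 0) (P.lf 10308 0 0)))) (P.cons (P.cons (P.lf 0 228925 0) (P.cons (P.lf 12048 0 0) (P.cons (P.lf 5190 0 0) P.nil))) (P.cons (P.cons (P.lf 106 0 0) (P.cons (P.lf 330 0 0) P.nil)) (P.cons (P.cons (P.lf 115 0 0) P.nil) P.nil)))))) 1420)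
 (EL.cons 2 (TM.mk (P.cons (P.cons (P.lf 402209808 0 0) (P.cons (P.lf 374695647 0 0) (P.cons (P.lf 0 38455959 0) (P.cons (P.lf 0 7997768 0) (P.lf 666478 0 0))))) (P.cons (P.cons (P.lf 5357584 0 0) (P.cons (P.lf 4991085 0 0) (P.cons (P.lf 0 512246 0) (P.cons (P.lf 0 106531 0) (P.lf 8876 0 0))))) (P.cons (P.cons (P.lf 0 791355 0) (P.cons (P.lf 0 737220 0) (P.cons (P.lf 75661 0 0) (P.cons (P.lf 15735 0 0) P.nil)))) (P.cons (P.cons (P.lf 0 19437 0) (P.cons (P.lf 0 18106 0) (P.cons (P.lf 1856 0 0) P.nil))) (P.cons (P.cons (P.lf 286 0 0) (P.cons (P.lf 267 0 0) P.nil)) (P.cons (P.cons (P.lf 11 0 0) P.nil) P.nil)))))) 2057)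
 (EL.cons 6 (TM.mk (P.cons (P.cons (P.lf 285102768 0 0) (P.cons (P.lf 265599603 0 0) (P.cons (P.lf 0 27259158 0) (P.cons (P.lf 0 5669145 0) (P.lf 472428 0 0))))) (P.cons (P.cons (P.lf 19414065 0 0) (P.cons (P.lf 18085998 0 0) (P.cons (P.lf 0 1856211 0) (P.cons (P.lf 0 386040 0) (P.lf 32169 0 0))))) (P.cons (P.cons (P.lf 224817 0 0) (P.cons (P.lf 209436 0 0) (P.cons (P.lf 0 21492 0) (P.cons (P.lf 0 4467 0) P.nil)))) (P.cons (P.cons (P.lf 0 12588 0) (P.cons (P.lf 0 11727 0) (P.cons (P.lf 1203 0 0) P.nil))) (P.cons (P.cons (P.lf 0 348 0) (P.cons (P.lf 0 324 0) P.nil)) (P.cons (P.cons (P.lf 0 0 0) P.nil) P.nil)))))) 1092)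
 EL.nil))))))
noncomputable def S169_176_216_364_2 : EL := (EL.cons 0 (TM.mk (P.cons (P.cons (P.lf 0 1939860061 0) (P.cons (P.lf 383802470 0 0) (P.cons (P.lf 149236697 0 0) (P.cons (P.lf 0 32414658 0) (P.cons (P.lf 0 1465609 0) (P.cons (P.lf 672002 0 0) P.nil)))))) (P.cons (P.cons (P.lf 0 17681319 0) (P.cons (P.lf 0 3410733 0) (P.cons (P.lf 0 1669037 0) (P.cons (P.lf 0 7566 0) (P.cons (P.lf 0 17866 0) P.nil))))) (P.cons (P.cons (P.lf 38191663 0 0) (P.cons (P.lf 0 4986338 0) (P.cons (P.lf 0 1976115 0) (P.cons (P.lf 389001 0 0) P.nil)))) (P.cons (P.cons (P.lf 600468 0 0) (P.cons (P.lf 0 193159 0) (P.cons (P.lf 0 72141 0) P.nil))) (P.cons (P.cons (P.lf 0 102277 0) (P.cons (P.lf 8321 0 0) P.nil)) (P.cons (P.cons (P.lf 0 2562 0) P.nil) P.nil)))))) 461075)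
 (EL.cons 1 (TM.mk (P.cons (P.cons (P.lf 0 431669040 0) (P.cons (P.lf 102682440 0 0) (P.cons (P.lf 38302752 0 0) (P.cons (P.lf 0 10072788 0) (P.cons (P.lf 0 538460 0) (P.cons (P.lf 246894 0 0) P.nil)))))) (P.cons (P.cons (P.lf 0 139693385 0) (P.cons (P.lf 29281127 0 0) (P.cons (P.lf 11128355 0 0) (P.cons (P.lf 0 2694819 0) (P.cons (P.lf 0 134995 0) P.nil))))) (P.cons (P.cons (P.lf 0 4931684 0) (P.cons (P.lf 1101398 0 0) (P.cons (P.lf 393978 0 0) (P.cons (P.lf 0 122585 0) P.nil)))) (P.cons (P.cons (P.lf 1057815 0 0) (P.cons (P.lf 0 114764 0) (P.cons (P.lf 0 47360 0) P.nil))) (P.cons (P.cons (P.lf 30230 0 0) (P.cons (P.lf 0 6975 0) P.nil)) (P.cons (P.cons (P.lf 0 1948 0) P.nil) P.nil)))))) 207296)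
 (EL.cons 5 (TM.mk (P.cons (P.cons (P.lf 1394112993 0 0) (P.cons (P.lf 0 328584339 0) (P.cons (P.lf 0 122806500 0) (P.cons (P.lf 32028173 0 0) (P.cons (P.lf 1701675 0 0) (P.cons (P.lf 0 780240 0) P.nil)))))) (P.cons (P.cons (P.lf 172764249 0 0) (P.cons (P.lf 0 34573189 0) (P.cons (P.lf 0 13053717 0) (P.cons (P.lf 3255941 0 0) (P.cons (P.lf 167129 0 0) P.nil))))) (P.cons (P.cons (P.lf 0 6387598 0) (P.cons (P.lf 436127 0 0) (P.cons (P.lf 207580 0 0) (P.cons (P.lf 0 4058 0) P.nil)))) (P.cons (P.cons (P.lf 0 687221 0) (P.cons (P.lf 105790 0 0) (P.cons (P.lf 41898 0 0) P.nil))) (P.cons (P.cons (P.lf 19877 0 0) (P.cons (P.lf 46 0 0) P.nil)) (P.cons (P.cons (P.lf 1300 0 0) P.nil) P.nil)))))) 259848)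
 (EL.cons 9 (TM.mk (P.cons (P.cons (P.lf 621516145 0 0) (P.cons (P.lf 0 169518745 0) (P.cons (P.lf 0 61539322 0) (P.cons (P.lf 18090847 0 0) (P.cons (P.lf 1041685 0 0) (P.cons (P.lf 0 477628 0) P.nil)))))) (P.cons (P.cons (P.lf 146891965 0 0) (P.cons (P.lf 0 31575787 0) (P.cons (P.lf 0 12041607 0) (P.cons (P.lf 2870517 0 0) (P.cons (P.lf 141867 0 0) P.nil))))) (P.cons (P.cons (P.lf 6345576 0 0) (P.cons (P.lf 0 1179519 0) (P.cons (P.lf 0 436794 0) (P.cons (P.lf 118458 0 0) P.nil)))) (P.cons (P.cons (P.lf 0 417987 0) (P.cons (P.lf 32752 0 0) (P.cons (P.lf 14340 0 0) P.nil))) (P.cons (P.cons (P.lf 0 14547 0) (P.cons (P.lf 2650 0 0) P.nil)) (P.cons (P.cons (P.lf 346 0 0) P.nil) P.nil)))))) 126572)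
 (EL.cons 2 (TM.mk (P.cons (P.cons (P.lf 249852268 0 0) (P.cons (P.lf 198686857 0 0) (P.cons (P.lf 0 70324492 0) (P.cons (P.lf 0 13765646 0) (P.cons (P.lf 4017240 0 0) (P.cons (P.lf 79605 0 0) P.nil)))))) (P.cons (P.cons (P.lf 32853735 0 0) (P.cons (P.lf 27832179 0 0) (P.cons (P.lf 0 6921776 0) (P.cons (P.lf 0 1369530 0) (P.cons (P.lf 347793 0 0) P.nil))))) (P.cons (P.cons (P.lf 0 567376 0) (P.cons (P.lf 0 519294 0) (P.cons (P.lf 66875 0 0) (P.cons (P.lf 13674 0 0) P.nil)))) (P.cons (P.cons (P.lf 0 104996 0) (P.cons (P.lf 0 90455 0) (P.cons (P.lf 20064 0 0) P.nil))) (P.cons (P.cons (P.lf 0 691 0) (P.cons (P.lf 0 438 0) P.nil)) (P.cons (P.cons (P.lf 118 0 0) P.nil) P.nil)))))) 133205)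
 (EL.cons 6 (TM.mk (P.cons (P.cons (P.lf 177105510 0 0) (P.cons (P.lf 140837370 0 0) (P.cons (P.lf 0 49848876 0) (P.cons (P.lf 0 9757656 0) (P.cons (P.lf 2847582 0 0) (P.cons (P.lf 56424 0 0) P.nil)))))) (P.cons (P.cons (P.lf 32988954 0 0) (P.cons (P.lf 27442896 0 0) (P.cons (P.lf 0 7636890 0) (P.cons (P.lf 0 1505244 0) (P.cons (P.lf 402504 0 0) P.nil))))) (P.cons (P.cons (P.lf 1232310 0 0) (P.cons (P.lf 997920 0 0) (P.cons (P.lf 0 322356 0) (P.cons (P.lf 0 63252 0) P.nil)))) (P.cons (P.cons (P.lf 0 34218 0) (P.cons (P.lf 0 32340 0) (P.cons (P.lf 2640 0 0) P.nil))) (P.cons (P.cons (P.lf 0 2766 0) (P.cons (P.lf 0 2388 0) P.nil)) (P.cons (P.cons (P.lf 0 12 0) P.nil) P.nil)))))) 118320)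
 EL.nil))))))
noncomputable def S169_176_216_364_3 : EL := (EL.cons 0 (TM.mk (P.cons (P.lf 2502862618 0 0) (P.cons (P.lf 0 160565009 0) (P.cons (P.lf 0 37082 0) (P.cons (P.lf 91198 0 0) (P.cons (P.lf 1051 0 0) (P.cons (P.lf 0 22 0) P.nil)))))) 128)
 (EL.cons 1 (TM.mk (P.cons (P.lf 1774131421 0 0) (P.cons (P.lf 0 16637709 0) (P.cons (P.lf 0 2665265 0) (P.cons (P.lf 0 16736 0) (P.cons (P.lf 883 0 0) (P.cons (P.lf 13 0 0) P.nil)))))) 108)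
 (EL.cons 5 (TM.mk (P.cons (P.lf 1257576936 0 0) (P.cons (P.lf 57089782 0 0) (P.cons (P.lf 13186 0 0) (P.cons (P.lf 0 32424 0) (P.cons (P.lf 0 374 0) (P.cons (P.lf 6 0 0) P.nil)))))) 86)
 EL.nil)))
noncomputable def S169_176_216_364_4 : EL := (EL.cons 0 (TM.mk (P.cons (P.cons (P.lf 777387689 0 0) (P.cons (P.lf 0 106016382 0) (P.cons (P.lf 0 45715459 0) (P.lf 5079492 0 0)))) (P.cons (P.cons (P.lf 41994279 0 0) (P.cons (P.lf 0 417958 0) (P.cons (P.lf 0 180228 0) (P.lf 20023 0 0)))) (P.cons (P.cons (P.lf 0 7364424 0) (P.cons (P.lf 381100 0 0) (P.cons (P.lf 164334 0 0) (P.lf 0 18258 0)))) (P.cons (P.cons (P.lf 31658 0 0) (P.cons (P.lf 6285 0 0) (P.cons (P.lf 2708 0 0) P.nil))) (P.cons (P.cons (P.lf 9441 0 0) (P.cons (P.lf 0 478 0) P.nil)) (P.cons (P.cons (P.lf 21 0 0) P.nil) P.nil)))))) 1432)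
 (EL.cons 1 (TM.mk (P.cons (P.cons (P.lf 551044198 0 0) (P.cons (P.lf 0 75148747 0) (P.cons (P.lf 0 32404987 0) (P.lf 3600551 0 0)))) (P.cons (P.cons (P.lf 59950486 0 0) (P.cons (P.lf 0 4412508 0) (P.cons (P.lf 0 1902723 0) (P.lf 211410 0 0)))) (P.cons (P.cons (P.lf 0 2473048 0) (P.cons (P.lf 101626 0 0) (P.cons (P.lf 43822 0 0) (P.lf 0 4869 0)))) (P.cons (P.cons (P.lf 0 156363 0) (P.cons (P.lf 12268 0 0) (P.cons (P.lf 5287 0 0) P.nil))) (P.cons (P.cons (P.lf 1833 0 0) (P.cons (P.lf 159 0 0) P.nil)) (P.cons (P.cons (P.lf 170 0 0) P.nil) P.nil)))))) 1144)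
 (EL.cons 5 (TM.mk (P.cons (P.cons (P.lf 390602672 0 0) (P.cons (P.lf 0 53268508 0) (P.cons (P.lf 0 22969980 0) (P.lf 2552218 0 0)))) (P.cons (P.cons (P.lf 63890462 0 0) (P.cons (P.lf 0 6045526 0) (P.cons (P.lf 0 2606898 0) (P.lf 289654 0 0)))) (P.cons (P.cons (P.lf 1366204 0 0) (P.cons (P.lf 0 207230 0) (P.cons (P.lf 0 89358 0) (P.lf 9926 0 0)))) (P.cons (P.cons (P.lf 0 87562 0) (P.cons (P.lf 1780 0 0) (P.cons (P.lf 766 0 0) P.nil))) (P.cons (P.cons (P.lf 0 3320 0) (P.cons (P.lf 280 0 0) P.nil)) (P.cons (P.cons (P.lf 30 0 0) P.nil) P.nil)))))) 786)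
 EL.nil)))
noncomputable def S169_176_216_364_5 : EL := (EL.cons 0 (TM.mk (P.cons (P.cons (P.lf 241456167 0 0) (P.cons (P.lf 0 65857253 0) (P.cons (P.lf 0 23907744 0) (P.cons (P.lf 7028210 0 0) (P.cons (P.lf 404688 0 0) (P.cons (P.lf 0 185556 0) P.nil)))))) (P.cons (P.cons (P.lf 41576825 0 0) (P.cons (P.lf 0 8042136 0) (P.cons (P.lf 0 3144366 0) (P.cons (P.lf 664303 0 0) (P.cons (P.lf 29151 0 0) P.nil))))) (P.cons (P.cons (P.lf 0 1199332 0) (P.cons (P.lf 329698 0 0) (P.cons (P.lf 130774 0 0) (P.cons (P.lf 0 25625 0) P.nil)))) (P.cons (P.cons (P.lf 0 312583 0) (P.cons (P.lf 39902 0 0) (P.cons (P.lf 15655 0 0) P.nil))) (P.cons (P.cons (P.lf 6909 0 0) (P.cons (P.lf 0 253 0) P.nil)) (P.cons (P.cons (P.lf 609 0 0) P.nil) P.nil)))))) 71800)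
 (EL.cons 1 (TM.mk (P.cons (P.cons (P.lf 171154010 0 0) (P.cons (P.lf 0 46682315 0) (P.cons (P.lf 0 16946786 0) (P.cons (P.lf 4981882 0 0) (P.cons (P.lf 286860 0 0) (P.cons (P.lf 0 131529 0) P.nil)))))) (P.cons (P.cons (P.lf 38846246 0 0) (P.cons (P.lf 0 8257599 0) (P.cons (P.lf 0 3157108 0) (P.cons (P.lf 743765 0 0) (P.cons (P.lf 36375 0 0) P.nil))))) (P.cons (P.cons (P.lf 1110978 0 0) (P.cons (P.lf 0 173141 0) (P.cons (P.lf 0 63727 0) (P.cons (P.lf 17722 0 0) P.nil)))) (P.cons (P.cons (P.lf 0 193876 0) (P.cons (P.lf 25567 0 0) (P.cons (P.lf 10216 0 0) P.nil))) (P.cons (P.cons (P.lf 0 5846 0) (P.cons (P.lf 1190 0 0) P.nil)) (P.cons (P.cons (P.lf 309 0 0) P.nil) P.nil)))))) 48862)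
 (EL.cons 5 (TM.mk (P.cons (P.cons (P.lf 121320964 0 0) (P.cons (P.lf 0 33090334 0) (P.cons (P.lf 0 12012574 0) (P.cons (P.lf 3531362 0 0) (P.cons (P.lf 203338 0 0) (P.cons (P.lf 0 93232 0) P.nil)))))) (P.cons (P.cons (P.lf 34181116 0 0) (P.cons (P.lf 0 7665834 0) (P.cons (P.lf 0 2895870 0) (P.cons (P.lf 720640 0 0) (P.cons (P.lf 36922 0 0) P.nil))))) (P.cons (P.cons (P.lf 2541622 0 0) (P.cons (P.lf 0 510398 0) (P.cons (P.lf 0 192094 0) (P.cons (P.lf 48596 0 0) P.nil)))) (P.cons (P.cons (P.lf 0 28186 0) (P.cons (P.lf 0 3270 0) (P.cons (P.lf 0 786 0) P.nil))) (P.cons (P.cons (P.lf 0 7304 0) (P.cons (P.lf 972 0 0) P.nil)) (P.cons (P.cons (P.lf 0 102 0) P.nil) P.nil)))))) 33700)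
 EL.nil)))
noncomputable def S169_176_216_364_6 : EL := (EL.cons 12 (TM.mk (P.lf 8589934592 0 0) 0)
 (EL.cons 3 (TM.mk (P.cons (P.lf 0 2318373686 0) (P.cons (P.lf 74364787 0 0) (P.cons (P.lf 1209847 0 0) (P.cons (P.lf 0 3431 0) (P.cons (P.lf 0 281 0) (P.cons (P.lf 0 0 0) P.nil)))))) 55)
 (EL.cons 7 (TM.mk (P.cons (P.lf 0 1643358119 0) (P.cons (P.lf 0 37301478 0) (P.cons (P.lf 414724 0 0) (P.cons (P.lf 11772 0 0) (P.cons (P.lf 30 0 0) (P.cons (P.lf 0 2 0) P.nil)))))) 46)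
 EL.nil)))
noncomputable def S169_176_216_364_7 : EL := (EL.cons 12 (TM.mk (P.cons (P.cons (P.lf 2668028746 0 0) (P.cons (P.lf 0 363852888 0) (P.cons (P.lf 0 156897472 0) (P.lf 17433048 0 0)))) (P.cons (P.cons (P.lf 315287054 0 0) (P.cons (P.lf 0 24776544 0) (P.cons (P.lf 0 10683928 0) (P.lf 1187096 0 0)))) (P.cons (P.cons (P.lf 0 5009030 0) (P.cons (P.lf 0 286912 0) (P.cons (P.lf 0 123720 0) (P.lf 13744 0 0)))) (P.cons (P.cons (P.lf 0 305234 0) (P.cons (P.lf 16064 0 0) (P.cons (P.lf 6920 0 0) P.nil))) (P.cons (P.cons (P.lf 142 0 0) (P.cons (P.lf 440 0 0) P.nil)) (P.cons (P.cons (P.lf 154 0 0) P.nil) P.nil)))))) 1868)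
 (EL.cons 3 (TM.mk (P.cons (P.cons (P.lf 3028832157 0 0) (P.cons (P.lf 0 196403580 0) (P.cons (P.lf 0 84691440 0) (P.lf 9410156 0 0)))) (P.cons (P.cons (P.lf 0 132911029 0) (P.cons (P.lf 0 7074196 0) (P.cons (P.lf 0 3050474 0) (P.lf 338936 0 0)))) (P.cons (P.cons (P.lf 0 8973709 0) (P.cons (P.lf 376612 0 0) (P.cons (P.lf 162398 0 0) (P.lf 0 18044 0)))) (P.cons (P.cons (P.lf 0 18797 0) (P.cons (P.lf 20326 0 0) (P.cons (P.lf 8760 0 0) P.nil))) (P.cons (P.cons (P.lf 8878 0 0) (P.cons (P.lf 0 0 0) P.nil)) (P.cons (P.cons (P.lf 147 0 0) P.nil) P.nil)))))) 4142)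
 (EL.cons 7 (TM.mk (P.cons (P.cons (P.lf 0 2390888259 0) (P.cons (P.lf 217383903 0 0) (P.cons (P.lf 93738392 0 0) (P.lf 0 10415377 0)))) (P.cons (P.cons (P.lf 66668345 0 0) (P.cons (P.lf 3548432 0 0) (P.cons (P.lf 1530124 0 0) (P.lf 0 170016 0)))) (P.cons (P.cons (P.lf 2675364 0 0) (P.cons (P.lf 0 286090 0) (P.cons (P.lf 0 123365 0) (P.lf 13707 0 0)))) (P.cons (P.cons (P.lf 0 133290 0) (P.cons (P.lf 0 2148 0) (P.cons (P.lf 0 929 0) P.nil))) (P.cons (P.cons (P.lf 0 3108 0) (P.cons (P.lf 301 0 0) P.nil)) (P.cons (P.cons (P.lf 81 0 0) P.nil) P.nil)))))) 3304)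
 (EL.cons 10 (TM.mk (P.cons (P.cons (P.lf 0 745124910 0) (P.cons (P.lf 0 694152786 0) (P.cons (P.lf 71242656 0 0) (P.cons (P.lf 14816490 0 0) (P.lf 0 1234707 0))))) (P.cons (P.cons (P.lf 0 33826173 0) (P.cons (P.lf 0 31512210 0) (P.cons (P.lf 3234177 0 0) (P.cons (P.lf 672618 0 0) (P.lf 0 56049 0))))) (P.cons (P.cons (P.lf 0 7812 0) (P.cons (P.lf 0 7278 0) (P.cons (P.lf 744 0 0) (P.cons (P.lf 153 0 0) P.nil)))) (P.cons (P.cons (P.lf 19209 0 0) (P.cons (P.lf 17895 0 0) (P.cons (P.lf 0 1836 0) P.nil))) (P.cons (P.cons (P.lf 219 0 0) (P.cons (P.lf 204 0 0) P.nil)) (P.cons (P.cons (P.lf 0 3 0) P.nil) P.nil)))))) 663)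
 EL.nil))))
noncomputable def S169_176_216_364_8 : EL := (EL.cons 12 (TM.mk (P.cons (P.cons (P.lf 828688194 0 0) (P.cons (P.lf 0 226024994 0) (P.cons (P.lf 0 82052430 0) (P.cons (P.lf 24121130 0 0) (P.cons (P.lf 1388914 0 0) (P.cons (P.lf 0 636838 0) P.nil)))))) (P.cons (P.cons (P.lf 195855954 0 0) (P.cons (P.lf 0 42101050 0) (P.cons (P.lf 0 16055476 0) (P.cons (P.lf 3827356 0 0) (P.cons (P.lf 189156 0 0) P.nil))))) (P.cons (P.cons (P.lf 8460768 0 0) (P.cons (P.lf 0 1572692 0) (P.cons (P.lf 0 582392 0) (P.cons (P.lf 157944 0 0) P.nil)))) (P.cons (P.cons (P.lf 0 557316 0) (P.cons (P.lf 43670 0 0) (P.cons (P.lf 19120 0 0) P.nil))) (P.cons (P.cons (P.lf 0 19396 0) (P.cons (P.lf 3534 0 0) P.nil)) (P.cons (P.cons (P.lf 462 0 0) P.nil) P.nil)))))) 168734)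
 (EL.cons 3 (TM.mk (P.cons (P.cons (P.lf 2105165204 0 0) (P.cons (P.lf 0 439599367 0) (P.cons (P.lf 0 168762027 0) (P.cons (P.lf 38999062 0 0) (P.cons (P.lf 1874301 0 0) (P.cons (P.lf 0 859396 0) P.nil)))))) (P.cons (P.cons (P.lf 185464079 0 0) (P.cons (P.lf 0 34431091 0) (P.cons (P.lf 0 12681705 0) (P.cons (P.lf 3517129 0 0) (P.cons (P.lf 195141 0 0) P.nil))))) (P.cons (P.cons (P.lf 0 18392409 0) (P.cons (P.lf 1240166 0 0) (P.cons (P.lf 562297 0 0) (P.cons (P.lf 0 35676 0) P.nil)))) (P.cons (P.cons (P.lf 0 981579 0) (P.cons (P.lf 167288 0 0) (P.cons (P.lf 66932 0 0) P.nil))) (P.cons (P.cons (P.lf 22646 0 0) (P.cons (P.lf 2090 0 0) P.nil)) (P.cons (P.cons (P.lf 1882 0 0) P.nil) P.nil)))))) 294672)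
 (EL.cons 7 (TM.mk (P.cons (P.cons (P.lf 0 1326678985 0) (P.cons (P.lf 294344050 0 0) (P.cons (P.lf 111457079 0 0) (P.cons (P.lf 0 27442149 0) (P.cons (P.lf 0 1393896 0) (P.cons (P.lf 639118 0 0) P.nil)))))) (P.cons (P.cons (P.lf 0 93029031 0) (P.cons (P.lf 17270686 0 0) (P.cons (P.lf 6361159 0 0) (P.cons (P.lf 0 1764198 0) (P.cons (P.lf 0 97881 0) P.nil))))) (P.cons (P.cons (P.lf 11773477 0 0) (P.cons (P.lf 0 1095064 0) (P.cons (P.lf 0 456267 0) (P.cons (P.lf 66210 0 0) P.nil)))) (P.cons (P.cons (P.lf 125280 0 0) (P.cons (P.lf 0 55587 0) (P.cons (P.lf 0 21210 0) P.nil))) (P.cons (P.cons (P.lf 0 26460 0) (P.cons (P.lf 1976 0 0) P.nil)) (P.cons (P.cons (P.lf 0 276 0) P.nil) P.nil)))))) 147898)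
 (EL.cons 10 (TM.mk (P.cons (P.cons (P.lf 0 462870732 0) (P.cons (P.lf 0 368082834 0) (P.cons (P.lf 130281588 0 0) (P.cons (P.lf 25501938 0 0) (P.cons (P.lf 0 7442256 0) (P.cons (P.lf 0 147480 0) P.nil)))))) (P.cons (P.cons (P.lf 0 75711270 0) (P.cons (P.lf 0 63367998 0) (P.cons (P.lf 17002080 0 0) (P.cons (P.lf 3355164 0 0) (P.cons (P.lf 0 883038 0) P.nil))))) (P.cons (P.cons (P.lf 0 1618974 0) (P.cons (P.lf 0 1262652 0) (P.cons (P.lf 489456 0 0) (P.cons (P.lf 95592 0 0) P.nil)))) (P.cons (P.cons (P.lf 103758 0 0) (P.cons (P.lf 94554 0 0) (P.cons (P.lf 0 12792 0) P.nil))) (P.cons (P.cons (P.lf 3930 0 0) (P.cons (P.lf 3330 0 0) P.nil)) (P.cons (P.cons (P.lf 0 30 0) P.nil) P.nil)))))) 273096)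
 EL.nil))))
noncomputable def S169_176_216_364_9 : EL := (EL.cons 3 (TM.mk (P.cons (P.lf 0 2318373686 0) (P.cons (P.lf 74364787 0 0) (P.cons (P.lf 1209847 0 0) (P.cons (P.lf 0 3431 0) (P.cons (P.lf 0 281 0) (P.cons (P.lf 0 0 0) P.nil)))))) 55)
 (EL.cons 7 (TM.mk (P.cons (P.lf 0 1643358119 0) (P.cons (P.lf 0 37301478 0) (P.cons (P.lf 414724 0 0) (P.cons (P.lf 11772 0 0) (P.cons (P.lf 30 0 0) (P.cons (P.lf 0 2 0) P.nil)))))) 46)
 EL.nil))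
noncomputable def S169_176_216_364_10 : EL := (EL.cons 3 (TM.mk (P.cons (P.cons (P.lf 0 720085533 0) (P.cons (P.lf 98201790 0 0) (P.cons (P.lf 42345720 0 0) (P.lf 0 4705078 0)))) (P.cons (P.cons (P.lf 0 61996492 0) (P.cons (P.lf 3537098 0 0) (P.cons (P.lf 1525237 0 0) (P.lf 0 169468 0)))) (P.cons (P.cons (P.lf 4457189 0 0) (P.cons (P.lf 0 188306 0) (P.cons (P.lf 0 81199 0) (P.lf 9022 0 0)))) (P.cons (P.cons (P.lf 82357 0 0) (P.cons (P.lf 0 10163 0) (P.cons (P.lf 0 4380 0) P.nil))) (P.cons (P.cons (P.lf 0 3599 0) (P.cons (P.lf 0 0 0) P.nil)) (P.cons (P.cons (P.lf 0 90 0) P.nil) P.nil)))))) 970)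
 (EL.cons 7 (TM.mk (P.cons (P.cons (P.lf 0 510426087 0) (P.cons (P.lf 69609447 0 0) (P.cons (P.lf 30016379 0 0) (P.lf 0 3335152 0)))) (P.cons (P.cons (P.lf 0 71904034 0) (P.cons (P.lf 6320069 0 0) (P.cons (P.lf 2725285 0 0) (P.lf 0 302808 0)))) (P.cons (P.cons (P.lf 0 282021 0) (P.cons (P.lf 144914 0 0) (P.cons (P.lf 62488 0 0) (P.lf 0 6942 0)))) (P.cons (P.cons (P.lf 99024 0 0) (P.cons (P.lf 0 3522 0) (P.cons (P.lf 0 1517 0) P.nil))) (P.cons (P.cons (P.lf 1497 0 0) (P.cons (P.lf 0 203 0) P.nil)) (P.cons (P.cons (P.lf 0 51 0) P.nil) P.nil)))))) 603)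
 EL.nil))
noncomputable def S169_176_216_364_11 : EL := (EL.cons 3 (TM.mk (P.cons (P.cons (P.lf 0 223658152 0) (P.cons (P.lf 61002839 0 0) (P.cons (P.lf 22145475 0 0) (P.cons (P.lf 0 6510152 0) (P.cons (P.lf 0 374859 0) (P.cons (P.lf 171878 0 0) P.nil)))))) (P.cons (P.cons (P.lf 0 45686269 0) (P.cons (P.lf 9406085 0 0) (P.cons (P.lf 3622935 0 0) (P.cons (P.lf 0 824159 0) (P.cons (P.lf 0 39027 0) P.nil))))) (P.cons (P.cons (P.lf 0 471231 0) (P.cons (P.lf 28148 0 0) (P.cons (P.lf 6631 0 0) (P.cons (P.lf 0 6096 0) P.nil)))) (P.cons (P.cons (P.lf 250917 0 0) (P.cons (P.lf 0 31240 0) (P.cons (P.lf 0 12430 0) P.nil))) (P.cons (P.cons (P.lf 1496 0 0) (P.cons (P.lf 0 772 0) P.nil)) (P.cons (P.cons (P.lf 0 380 0) P.nil) P.nil)))))) 56786)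
 (EL.cons 7 (TM.mk (P.cons (P.cons (P.lf 0 158538049 0) (P.cons (P.lf 43241308 0 0) (P.cons (P.lf 15697619 0 0) (P.cons (P.lf 0 4614663 0) (P.cons (P.lf 0 265716 0) (P.cons (P.lf 121834 0 0) P.nil)))))) (P.cons (P.cons (P.lf 0 41068155 0) (P.cons (P.lf 9035944 0 0) (P.cons (P.lf 3427915 0 0) (P.cons (P.lf 0 836964 0) (P.cons (P.lf 0 42219 0) P.nil))))) (P.cons (P.cons (P.lf 0 2429135 0) (P.cons (P.lf 472784 0 0) (P.cons (P.lf 177177 0 0) (P.cons (P.lf 0 45672 0) P.nil)))) (P.cons (P.cons (P.lf 80472 0 0) (P.cons (P.lf 0 3867 0) (P.cons (P.lf 0 2016 0) P.nil))) (P.cons (P.cons (P.lf 6810 0 0) (P.cons (P.lf 0 1000 0) P.nil)) (P.cons (P.cons (P.lf 0 18 0) P.nil) P.nil)))))) 37824)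
 EL.nil))
noncomputable def S169_176_216_364_12 : EL := (EL.cons 4 (TM.mk (P.cons (P.lf 2318373686 0 0) (P.cons (P.lf 0 74364787 0) (P.cons (P.lf 0 1209847 0) (P.cons (P.lf 3431 0 0) (P.cons (P.lf 281 0 0) (P.cons (P.lf 0 0 0) P.nil)))))) 55)
 (EL.cons 8 (TM.mk (P.cons (P.lf 1643358119 0 0) (P.cons (P.lf 37301478 0 0) (P.cons (P.lf 0 414724 0) (P.cons (P.lf 0 11772 0) (P.cons (P.lf 0 30 0) (P.cons (P.lf 2 0 0) P.nil)))))) 46)
 EL.nil))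
noncomputable def S169_176_216_364_13 : EL := (EL.cons 4 (TM.mk (P.cons (P.cons (P.lf 720085533 0 0) (P.cons (P.lf 0 98201790 0) (P.cons (P.lf 0 42345720 0) (P.lf 4705078 0 0)))) (P.cons (P.cons (P.lf 61996492 0 0) (P.cons (P.lf 0 3537098 0) (P.cons (P.lf 0 1525237 0) (P.lf 169468 0 0)))) (P.cons (P.cons (P.lf 0 4457189 0) (P.cons (P.lf 188306 0 0) (P.cons (P.lf 81199 0 0) (P.lf 0 9022 0)))) (P.cons (P.cons (P.lf 0 82357 0) (P.cons (P.lf 10163 0 0) (P.cons (P.lf 4380 0 0) P.nil))) (P.cons (P.cons (P.lf 3599 0 0) (P.cons (P.lf 0 0 0) P.nil)) (P.cons (P.cons (P.lf 90 0 0) P.nil) P.nil)))))) 970)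
 (EL.cons 8 (TM.mk (P.cons (P.cons (P.lf 510426087 0 0) (P.cons (P.lf 0 69609447 0) (P.cons (P.lf 0 30016379 0) (P.lf 3335152 0 0)))) (P.cons (P.cons (P.lf 71904034 0 0) (P.cons (P.lf 0 6320069 0) (P.cons (P.lf 0 2725285 0) (P.lf 302808 0 0)))) (P.cons (P.cons (P.lf 282021 0 0) (P.cons (P.lf 0 144914 0) (P.cons (P.lf 0 62488 0) (P.lf 6942 0 0)))) (P.cons (P.cons (P.lf 0 99024 0) (P.cons (P.lf 3522 0 0) (P.cons (P.lf 1517 0 0) P.nil))) (P.cons (P.cons (P.lf 0 1497 0) (P.cons (P.lf 203 0 0) P.nil)) (P.cons (P.cons (P.lf 51 0 0) P.nil) P.nil)))))) 603)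
 EL.nil))
noncomputable def S169_176_216_364_14 : EL := (EL.cons 4 (TM.mk (P.cons (P.cons (P.lf 223658152 0 0) (P.cons (P.lf 0 61002839 0) (P.cons (P.lf 0 22145475 0) (P.cons (P.lf 6510152 0 0) (P.cons (P.lf 374859 0 0) (P.cons (P.lf 0 171878 0) P.nil)))))) (P.cons (P.cons (P.lf 45686269 0 0) (P.cons (P.lf 0 9406085 0) (P.cons (P.lf 0 3622935 0) (P.cons (P.lf 824159 0 0) (P.cons (P.lf 39027 0 0) P.nil))))) (P.cons (P.cons (P.lf 471231 0 0) (P.cons (P.lf 0 28148 0) (P.cons (P.lf 0 6631 0) (P.cons (P.lf 6096 0 0) P.nil)))) (P.cons (P.cons (P.lf 0 250917 0) (P.cons (P.lf 31240 0 0) (P.cons (P.lf 12430 0 0) P.nil))) (P.cons (P.cons (P.lf 0 1496 0) (P.cons (P.lf 772 0 0) P.nil)) (P.cons (P.cons (P.lf 380 0 0) P.nil) P.nil)))))) 56786)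
 (EL.cons 8 (TM.mk (P.cons (P.cons (P.lf 158538049 0 0) (P.cons (P.lf 0 43241308 0) (P.cons (P.lf 0 15697619 0) (P.cons (P.lf 4614663 0 0) (P.cons (P.lf 265716 0 0) (P.cons (P.lf 0 121834 0) P.nil)))))) (P.cons (P.cons (P.lf 41068155 0 0) (P.cons (P.lf 0 9035944 0) (P.cons (P.lf 0 3427915 0) (P.cons (P.lf 836964 0 0) (P.cons (P.lf 42219 0 0) P.nil))))) (P.cons (P.cons (P.lf 2429135 0 0) (P.cons (P.lf 0 472784 0) (P.cons (P.lf 0 177177 0) (P.cons (P.lf 45672 0 0) P.nil)))) (P.cons (P.cons (P.lf 0 80472 0) (P.cons (P.lf 3867 0 0) (P.cons (P.lf 2016 0 0) P.nil))) (P.cons (P.cons (P.lf 0 6810 0) (P.cons (P.lf 1000 0 0) P.nil)) (P.cons (P.cons (P.lf 18 0 0) P.nil) P.nil)))))) 37824)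
 EL.nil))
noncomputable def S169_176_216_364_15 : EL := (EL.cons 4 (TM.mk (P.cons (P.lf 0 1334860063 0) (P.cons (P.lf 85634671 0 0) (P.cons (P.lf 19777 0 0) (P.cons (P.lf 0 48639 0) (P.cons (P.lf 0 560 0) (P.cons (P.lf 12 0 0) P.nil)))))) 71)
 (EL.cons 8 (TM.mk (P.cons (P.lf 0 946203425 0) (P.cons (P.lf 8873445 0 0) (P.cons (P.lf 1421475 0 0) (P.cons (P.lf 8926 0 0) (P.cons (P.lf 0 471 0) (P.cons (P.lf 0 7 0) P.nil)))))) 54)
 EL.nil))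
noncomputable def S169_176_216_364_16 : EL := (EL.cons 4 (TM.mk (P.cons (P.cons (P.lf 0 414606767 0) (P.cons (P.lf 56542070 0 0) (P.cons (P.lf 24381578 0 0) (P.lf 0 2709062 0)))) (P.cons (P.cons (P.lf 0 22396949 0) (P.cons (P.lf 222911 0 0) (P.cons (P.lf 96121 0 0) (P.lf 0 10679 0)))) (P.cons (P.cons (P.lf 3927692 0 0) (P.cons (P.lf 0 203253 0) (P.cons (P.lf 0 87645 0) (P.lf 9737 0 0)))) (P.cons (P.cons (P.lf 0 16884 0) (P.cons (P.lf 0 3352 0) (P.cons (P.lf 0 1444 0) P.nil))) (P.cons (P.cons (P.lf 0 5035 0) (P.cons (P.lf 255 0 0) P.nil)) (P.cons (P.cons (P.lf 0 11 0) P.nil) P.nil)))))) 772)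
 (EL.cons 8 (TM.mk (P.cons (P.cons (P.lf 0 293890239 0) (P.cons (P.lf 40079332 0 0) (P.cons (P.lf 17282660 0 0) (P.lf 0 1920294 0)))) (P.cons (P.cons (P.lf 0 31973593 0) (P.cons (P.lf 2353338 0 0) (P.cons (P.lf 1014786 0 0) (P.lf 0 112752 0)))) (P.cons (P.cons (P.lf 1318959 0 0) (P.cons (P.lf 0 54201 0) (P.cons (P.lf 0 23372 0) (P.lf 2597 0 0)))) (P.cons (P.cons (P.lf 83394 0 0) (P.cons (P.lf 0 6543 0) (P.cons (P.lf 0 2820 0) P.nil))) (P.cons (P.cons (P.lf 0 978 0) (P.cons (P.lf 0 85 0) P.nil)) (P.cons (P.cons (P.lf 0 91 0) P.nil) P.nil)))))) 600)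
 EL.nil))
noncomputable def S169_176_216_364_17 : EL := (EL.cons 4 (TM.mk (P.cons (P.cons (P.lf 0 128776622 0) (P.cons (P.lf 35123868 0 0) (P.cons (P.lf 12750796 0 0) (P.cons (P.lf 0 3748379 0) (P.cons (P.lf 0 215834 0) (P.cons (P.lf 98963 0 0) P.nil)))))) (P.cons (P.cons (P.lf 0 22174306 0) (P.cons (P.lf 4289139 0 0) (P.cons (P.lf 1676995 0 0) (P.cons (P.lf 0 354295 0) (P.cons (P.lf 0 15547 0) P.nil))))) (P.cons (P.cons (P.lf 639644 0 0) (P.cons (P.lf 0 175839 0) (P.cons (P.lf 0 69746 0) (P.cons (P.lf 13666 0 0) P.nil)))) (P.cons (P.cons (P.lf 166710 0 0) (P.cons (P.lf 0 21281 0) (P.cons (P.lf 0 8349 0) P.nil))) (P.cons (P.cons (P.lf 0 3685 0) (P.cons (P.lf 135 0 0) P.nil)) (P.cons (P.cons (P.lf 0 325 0) P.nil) P.nil)))))) 38303)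
 (EL.cons 8 (TM.mk (P.cons (P.cons (P.lf 0 91282139 0) (P.cons (P.lf 24897235 0 0) (P.cons (P.lf 9038286 0 0) (P.cons (P.lf 0 2657004 0) (P.cons (P.lf 0 152992 0) (P.cons (P.lf 70149 0 0) P.nil)))))) (P.cons (P.cons (P.lf 0 20717998 0) (P.cons (P.lf 4404053 0 0) (P.cons (P.lf 1683791 0 0) (P.cons (P.lf 0 396675 0) (P.cons (P.lf 0 19400 0) P.nil))))) (P.cons (P.cons (P.lf 0 592522 0) (P.cons (P.lf 92342 0 0) (P.cons (P.lf 33988 0 0) (P.cons (P.lf 0 9452 0) P.nil)))) (P.cons (P.cons (P.lf 103401 0 0) (P.cons (P.lf 0 13636 0) (P.cons (P.lf 0 5449 0) P.nil))) (P.cons (P.cons (P.lf 3118 0 0) (P.cons (P.lf 0 635 0) P.nil)) (P.cons (P.cons (P.lf 0 165 0) P.nil) P.nil)))))) 26048)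
 EL.nil))
noncomputable def S169_176_216_364_18 : EL := (EL.cons 4 (TM.mk (P.cons (P.lf 768578162 0 0) (P.cons (P.lf 0 73959368 0) (P.cons (P.lf 1169088 0 0) (P.cons (P.lf 55238 0 0) (P.cons (P.lf 0 548 0) (P.cons (P.lf 0 37 0) P.nil)))))) 68)
 (EL.cons 8 (TM.mk (P.cons (P.lf 544799646 0 0) (P.cons (P.lf 0 22584244 0) (P.cons (P.lf 0 938872 0) (P.cons (P.lf 24585 0 0) (P.cons (P.lf 921 0 0) (P.cons (P.lf 0 3 0) P.nil)))))) 50)
 EL.nil))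
noncomputable def S169_176_216_364_19 : EL := (EL.cons 4 (TM.mk (P.cons (P.cons (P.lf 238719934 0 0) (P.cons (P.lf 0 32555472 0) (P.cons (P.lf 0 14038287 0) (P.lf 1559808 0 0)))) (P.cons (P.cons (P.lf 5238342 0 0) (P.cons (P.lf 915911 0 0) (P.cons (P.lf 394950 0 0) (P.lf 0 43883 0)))) (P.cons (P.cons (P.lf 0 2799683 0) (P.cons (P.lf 138134 0 0) (P.cons (P.lf 59565 0 0) (P.lf 0 6617 0)))) (P.cons (P.cons (P.lf 75884 0 0) (P.cons (P.lf 0 1803 0) (P.cons (P.lf 0 778 0) P.nil))) (P.cons (P.cons (P.lf 3815 0 0) (P.cons (P.lf 0 273 0) P.nil)) (P.cons (P.cons (P.lf 0 92 0) P.nil) P.nil)))))) 823)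
 (EL.cons 8 (TM.mk (P.cons (P.cons (P.lf 169214456 0 0) (P.cons (P.lf 0 23076651 0) (P.cons (P.lf 0 9950912 0) (P.lf 1105656 0 0)))) (P.cons (P.cons (P.lf 12981805 0 0) (P.cons (P.lf 0 614778 0) (P.cons (P.lf 0 265099 0) (P.lf 29455 0 0)))) (P.cons (P.cons (P.lf 0 1438238 0) (P.cons (P.lf 86713 0 0) (P.cons (P.lf 37391 0 0) (P.lf 0 4154 0)))) (P.cons (P.cons (P.lf 0 33013 0) (P.cons (P.lf 3439 0 0) (P.cons (P.lf 1482 0 0) P.nil))) (P.cons (P.cons (P.lf 2547 0 0) (P.cons (P.lf 0 92 0) P.nil)) (P.cons (P.cons (P.lf 61 0 0) P.nil) P.nil)))))) 467)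
 EL.nil))
noncomputable def S169_176_216_364_20 : EL := (EL.cons 4 (TM.mk (P.cons (P.cons (P.lf 74146274 0 0) (P.cons (P.lf 0 20223421 0) (P.cons (P.lf 0 7341581 0) (P.cons (P.lf 2158219 0 0) (P.cons (P.lf 124271 0 0) (P.cons (P.lf 0 56980 0) P.nil)))))) (P.cons (P.cons (P.lf 10389060 0 0) (P.cons (P.lf 0 1820884 0) (P.cons (P.lf 0 730080 0) (P.cons (P.lf 134766 0 0) (P.cons (P.lf 4965 0 0) P.nil))))) (P.cons (P.cons (P.lf 0 816514 0) (P.cons (P.lf 191011 0 0) (P.cons (P.lf 74960 0 0) (P.cons (P.lf 0 15538 0) P.nil)))) (P.cons (P.cons (P.lf 0 90727 0) (P.cons (P.lf 10264 0 0) (P.cons (P.lf 4011 0 0) P.nil))) (P.cons (P.cons (P.lf 5420 0 0) (P.cons (P.lf 0 529 0) P.nil)) (P.cons (P.cons (P.lf 170 0 0) P.nil) P.nil)))))) 26562)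
 (EL.cons 8 (TM.mk (P.cons (P.cons (P.lf 52557912 0 0) (P.cons (P.lf 0 14335188 0) (P.cons (P.lf 0 5204013 0) (P.cons (P.lf 1529834 0 0) (P.cons (P.lf 88088 0 0) (P.cons (P.lf 0 40390 0) P.nil)))))) (P.cons (P.cons (P.lf 10243029 0 0) (P.cons (P.lf 0 2075921 0) (P.cons (P.lf 0 802558 0) (P.cons (P.lf 179324 0 0) (P.cons (P.lf 8344 0 0) P.nil))))) (P.cons (P.cons (P.lf 0 68902 0) (P.cons (P.lf 35649 0 0) (P.cons (P.lf 14243 0 0) (P.cons (P.lf 0 2681 0) P.nil)))) (P.cons (P.cons (P.lf 0 76626 0) (P.cons (P.lf 10858 0 0) (P.cons (P.lf 4263 0 0) P.nil))) (P.cons (P.cons (P.lf 0 40 0) (P.cons (P.lf 136 0 0) P.nil)) (P.cons (P.cons (P.lf 185 0 0) P.nil) P.nil)))))) 17378)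
 EL.nil))
noncomputable def S169_176_216_364_21 : EL := (EL.cons 4 (TM.mk (P.cons (P.cons (P.lf 0 3748917690 0) (P.cons (P.lf 294605370 0 0) (P.cons (P.lf 127037160 0 0) (P.lf 0 14115234 0)))) (P.cons (P.cons (P.lf 70914537 0 0) (P.cons (P.lf 10611294 0 0) (P.cons (P.lf 4575711 0 0) (P.lf 0 508404 0)))) (P.cons (P.cons (P.lf 13430898 0 0) (P.cons (P.lf 0 564918 0) (P.cons (P.lf 0 243597 0) (P.lf 27066 0 0)))) (P.cons (P.cons (P.lf 101154 0 0) (P.cons (P.lf 0 30489 0) (P.cons (P.lf 0 13140 0) P.nil))) (P.cons (P.cons (P.lf 0 12477 0) (P.cons (P.lf 0 0 0) P.nil)) (P.cons (P.cons (P.lf 0 237 0) P.nil) P.nil)))))) 3153)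
 (EL.cons 8 (TM.mk (P.cons (P.cons (P.lf 1880462172 0 0) (P.cons (P.lf 0 147774456 0) (P.cons (P.lf 0 63722013 0) (P.lf 7080225 0 0)))) (P.cons (P.cons (P.lf 0 138572379 0) (P.cons (P.lf 2771637 0 0) (P.cons (P.lf 1195161 0 0) (P.lf 0 132792 0)))) (P.cons (P.cons (P.lf 0 2957385 0) (P.cons (P.lf 431004 0 0) (P.cons (P.lf 185853 0 0) (P.lf 0 20649 0)))) (P.cons (P.cons (P.lf 232314 0 0) (P.cons (P.lf 0 1374 0) (P.cons (P.lf 0 588 0) P.nil))) (P.cons (P.cons (P.lf 4605 0 0) (P.cons (P.lf 0 504 0) P.nil)) (P.cons (P.cons (P.lf 0 132 0) P.nil) P.nil)))))) 2682)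
 (EL.cons 11 (TM.mk (P.cons (P.cons (P.lf 745124910 0 0) (P.cons (P.lf 694152786 0 0) (P.cons (P.lf 0 71242656 0) (P.cons (P.lf 0 14816490 0) (P.lf 1234707 0 0))))) (P.cons (P.cons (P.lf 33826173 0 0) (P.cons (P.lf 31512210 0 0) (P.cons (P.lf 0 3234177 0) (P.cons (P.lf 0 672618 0) (P.lf 56049 0 0))))) (P.cons (P.cons (P.lf 7812 0 0) (P.cons (P.lf 7278 0 0) (P.cons (P.lf 0 744 0) (P.cons (P.lf 0 153 0) P.nil)))) (P.cons (P.cons (P.lf 0 19209 0) (P.cons (P.lf 0 17895 0) (P.cons (P.lf 1836 0 0) P.nil))) (P.cons (P.cons (P.lf 0 219 0) (P.cons (P.lf 0 204 0) P.nil)) (P.cons (P.cons (P.lf 3 0 0) P.nil) P.nil)))))) 663)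
 EL.nil)))
noncomputable def S169_176_216_364_22 : EL := (EL.cons 4 (TM.mk (P.cons (P.cons (P.lf 0 1164411678 0) (P.cons (P.lf 250301103 0 0) (P.cons (P.lf 95453751 0 0) (P.cons (P.lf 0 22754607 0) (P.cons (P.lf 0 1124580 0) (P.cons (P.lf 515637 0 0) P.nil)))))) (P.cons (P.cons (P.lf 0 115575174 0) (P.cons (P.lf 21918588 0 0) (P.cons (P.lf 8152320 0 0) (P.cons (P.lf 0 2170644 0) (P.cons (P.lf 0 117084 0) P.nil))))) (P.cons (P.cons (P.lf 8960589 0 0) (P.cons (P.lf 0 606009 0) (P.cons (P.lf 0 277833 0) (P.cons (P.lf 14790 0 0) P.nil)))) (P.cons (P.cons (P.lf 616248 0 0) (P.cons (P.lf 0 99264 0) (P.cons (P.lf 0 39681 0) P.nil))) (P.cons (P.cons (P.lf 0 10575 0) (P.cons (P.lf 0 1431 0) P.nil)) (P.cons (P.cons (P.lf 0 1131 0) P.nil) P.nil)))))) 118932)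
 (EL.cons 8 (TM.mk (P.cons (P.cons (P.lf 584070468 0 0) (P.cons (P.lf 0 125551371 0) (P.cons (P.lf 0 47879730 0) (P.cons (P.lf 11413743 0 0) (P.cons (P.lf 564090 0 0) (P.cons (P.lf 0 258642 0) P.nil)))))) (P.cons (P.cons (P.lf 25980438 0 0) (P.cons (P.lf 0 4117371 0) (P.cons (P.lf 0 1466622 0) (P.cons (P.lf 463617 0 0) (P.cons (P.lf 27831 0 0) P.nil))))) (P.cons (P.cons (P.lf 0 7101306 0) (P.cons (P.lf 783924 0 0) (P.cons (P.lf 316722 0 0) (P.cons (P.lf 0 55941 0) P.nil)))) (P.cons (P.cons (P.lf 0 22404 0) (P.cons (P.lf 25860 0 0) (P.cons (P.lf 9597 0 0) P.nil))) (P.cons (P.cons (P.lf 16635 0 0) (P.cons (P.lf 0 1488 0) P.nil)) (P.cons (P.cons (P.lf 129 0 0) P.nil) P.nil)))))) 55026)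
 (EL.cons 11 (TM.mk (P.cons (P.cons (P.lf 231435366 0 0) (P.cons (P.lf 184041417 0 0) (P.cons (P.lf 0 65140794 0) (P.cons (P.lf 0 12750969 0) (P.cons (P.lf 3721128 0 0) (P.cons (P.lf 73740 0 0) P.nil)))))) (P.cons (P.cons (P.lf 37855635 0 0) (P.cons (P.lf 31683999 0 0) (P.cons (P.lf 0 8501040 0) (P.cons (P.lf 0 1677582 0) (P.cons (P.lf 441519 0 0) P.nil))))) (P.cons (P.cons (P.lf 809487 0 0) (P.cons (P.lf 631326 0 0) (P.cons (P.lf 0 244728 0) (P.cons (P.lf 0 47796 0) P.nil)))) (P.cons (P.cons (P.lf 0 51879 0) (P.cons (P.lf 0 47277 0) (P.cons (P.lf 6396 0 0) P.nil))) (P.cons (P.cons (P.lf 0 1965 0) (P.cons (P.lf 0 1665 0) P.nil)) (P.cons (P.cons (P.lf 15 0 0) P.nil) P.nil)))))) 136548)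
 EL.nil)))
noncomputable def S169_176_216_364_23 : EL := (EL.cons 4 (TM.mk (P.cons (P.cons (P.lf 2158530582 0 0) (P.cons (P.lf 0 169626210 0) (P.cons (P.lf 0 73144734 0) (P.lf 8127189 0 0)))) (P.cons (P.cons (P.lf 0 110068386 0) (P.cons (P.lf 0 668733 0) (P.cons (P.lf 0 288366 0) (P.lf 32034 0 0)))) (P.cons (P.cons (P.lf 0 7549899 0) (P.cons (P.lf 609759 0 0) (P.cons (P.lf 262935 0 0) (P.lf 0 29214 0)))) (P.cons (P.cons (P.lf 214311 0 0) (P.cons (P.lf 10056 0 0) (P.cons (P.lf 4332 0 0) P.nil))) (P.cons (P.cons (P.lf 13287 0 0) (P.cons (P.lf 0 762 0) P.nil)) (P.cons (P.cons (P.lf 0 78 0) P.nil) P.nil)))))) 3009)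
 (EL.cons 8 (TM.mk (P.cons (P.cons (P.lf 0 1082721852 0) (P.cons (P.lf 85084737 0 0) (P.cons (P.lf 36689499 0 0) (P.lf 0 4076610 0)))) (P.cons (P.cons (P.lf 114516099 0 0) (P.cons (P.lf 0 4325037 0) (P.cons (P.lf 0 1865004 0) (P.lf 207219 0 0)))) (P.cons (P.cons (P.lf 0 291444 0) (P.cons (P.lf 0 241374 0) (P.cons (P.lf 0 104082 0) (P.lf 11562 0 0)))) (P.cons (P.cons (P.lf 0 231618 0) (P.cons (P.lf 9708 0 0) (P.cons (P.lf 4182 0 0) P.nil))) (P.cons (P.cons (P.lf 735 0 0) (P.cons (P.lf 402 0 0) P.nil)) (P.cons (P.cons (P.lf 243 0 0) P.nil) P.nil)))))) 2199)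
 (EL.cons 11 (TM.mk (P.cons (P.cons (P.lf 0 429023796 0) (P.cons (P.lf 0 399675357 0) (P.cons (P.lf 41019690 0 0) (P.cons (P.lf 8530953 0 0) (P.lf 0 710910 0))))) (P.cons (P.cons (P.lf 0 5714757 0) (P.cons (P.lf 0 5323824 0) (P.cons (P.lf 546396 0 0) (P.cons (P.lf 113634 0 0) (P.lf 0 9468 0))))) (P.cons (P.cons (P.lf 844113 0 0) (P.cons (P.lf 786369 0 0) (P.cons (P.lf 0 80706 0) (P.cons (P.lf 0 16785 0) P.nil)))) (P.cons (P.cons (P.lf 20733 0 0) (P.cons (P.lf 19314 0 0) (P.cons (P.lf 0 1980 0) P.nil))) (P.cons (P.cons (P.lf 0 306 0) (P.cons (P.lf 0 285 0) P.nil)) (P.cons (P.cons (P.lf 0 12 0) P.nil) P.nil)))))) 2172)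
 EL.nil)))
noncomputable def S169_176_216_364_24 : EL := (EL.cons 4 (TM.mk (P.cons (P.cons (P.lf 670438356 0 0) (P.cons (P.lf 0 144116952 0) (P.cons (P.lf 0 54959817 0) (P.cons (P.lf 13101516 0 0) (P.cons (P.lf 647502 0 0) (P.cons (P.lf 0 296889 0) P.nil)))))) (P.cons (P.cons (P.lf 45040053 0 0) (P.cons (P.lf 0 7997427 0) (P.cons (P.lf 0 2930988 0) (P.cons (P.lf 829551 0 0) (P.cons (P.lf 46644 0 0) P.nil))))) (P.cons (P.cons (P.lf 0 7643670 0) (P.cons (P.lf 828939 0 0) (P.cons (P.lf 339213 0 0) (P.cons (P.lf 0 55440 0) P.nil)))) (P.cons (P.cons (P.lf 0 223065 0) (P.cons (P.lf 52332 0 0) (P.cons (P.lf 20082 0 0) P.nil))) (P.cons (P.cons (P.lf 20340 0 0) (P.cons (P.lf 0 1224 0) P.nil)) (P.cons (P.cons (P.lf 642 0 0) P.nil) P.nil)))))) 59514)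
 (EL.cons 8 (TM.mk (P.cons (P.cons (P.lf 0 336292785 0) (P.cons (P.lf 72289257 0 0) (P.cons (P.lf 27567918 0 0) (P.cons (P.lf 0 6571740 0) (P.cons (P.lf 0 324789 0) (P.cons (P.lf 148920 0 0) P.nil)))))) (P.cons (P.cons (P.lf 0 4171851 0) (P.cons (P.lf 51906 0 0) (P.cons (P.lf 0 39831 0) (P.cons (P.lf 0 56142 0) (P.cons (P.lf 0 5604 0) P.nil))))) (P.cons (P.cons (P.lf 4744068 0 0) (P.cons (P.lf 0 565128 0) (P.cons (P.lf 0 223833 0) (P.cons (P.lf 44199 0 0) P.nil)))) (P.cons (P.cons (P.lf 0 110940 0) (P.cons (P.lf 0 1542 0) (P.cons (P.lf 0 75 0) P.nil))) (P.cons (P.cons (P.lf 0 12189 0) (P.cons (P.lf 1581 0 0) P.nil)) (P.cons (P.cons (P.lf 228 0 0) P.nil) P.nil)))))) 27807)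
 (EL.cons 11 (TM.mk (P.cons (P.cons (P.lf 0 133254543 0) (P.cons (P.lf 0 105966324 0) (P.cons (P.lf 37506396 0 0) (P.cons (P.lf 7341678 0 0) (P.cons (P.lf 0 2142528 0) (P.cons (P.lf 0 42456 0) P.nil)))))) (P.cons (P.cons (P.lf 0 17521992 0) (P.cons (P.lf 0 14843829 0) (P.cons (P.lf 3691614 0 0) (P.cons (P.lf 730416 0 0) (P.cons (P.lf 0 185490 0) P.nil))))) (P.cons (P.cons (P.lf 302601 0 0) (P.cons (P.lf 276957 0 0) (P.cons (P.lf 0 35667 0) (P.cons (P.lf 0 7293 0) P.nil)))) (P.cons (P.cons (P.lf 55998 0 0) (P.cons (P.lf 48243 0 0) (P.cons (P.lf 0 10701 0) P.nil))) (P.cons (P.cons (P.lf 369 0 0) (P.cons (P.lf 234 0 0) P.nil)) (P.cons (P.cons (P.lf 0 63 0) P.nil) P.nil)))))) 71031)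
 EL.nil)))
noncomputable def S169_176_216_364_25 : EL := (EL.cons 4 (TM.mk (P.cons (P.cons (P.lf 0 1242826506 0) (P.cons (P.lf 97666416 0 0) (P.cons (P.lf 42114861 0 0) (P.lf 0 4679427 0)))) (P.cons (P.cons (P.lf 103239792 0 0) (P.cons (P.lf 0 2747733 0) (P.cons (P.lf 0 1184853 0) (P.lf 131652 0 0)))) (P.cons (P.cons (P.lf 2962788 0 0) (P.cons (P.lf 0 414402 0) (P.cons (P.lf 0 178692 0) (P.lf 19854 0 0)))) (P.cons (P.cons (P.lf 0 297741 0) (P.cons (P.lf 5412 0 0) (P.cons (P.lf 2334 0 0) P.nil))) (P.cons (P.cons (P.lf 0 6018 0) (P.cons (P.lf 819 0 0) P.nil)) (P.cons (P.cons (P.lf 369 0 0) P.nil) P.nil)))))) 2370)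
 (EL.cons 8 (TM.mk (P.cons (P.cons (P.lf 623403453 0 0) (P.cons (P.lf 0 48989607 0) (P.cons (P.lf 0 21124872 0) (P.lf 2347206 0 0)))) (P.cons (P.cons (P.lf 0 85931889 0) (P.cons (P.lf 4061649 0 0) (P.cons (P.lf 1751427 0 0) (P.lf 0 194601 0)))) (P.cons (P.cons (P.lf 1957443 0 0) (P.cons (P.lf 84663 0 0) (P.cons (P.lf 36507 0 0) (P.lf 0 4056 0)))) (P.cons (P.cons (P.lf 163308 0 0) (P.cons (P.lf 0 11418 0) (P.cons (P.lf 0 4923 0) P.nil))) (P.cons (P.cons (P.lf 0 4809 0) (P.cons (P.lf 0 126 0) P.nil)) (P.cons (P.cons (P.lf 0 201 0) P.nil) P.nil)))))) 1629)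
 (EL.cons 11 (TM.mk (P.cons (P.cons (P.lf 247020891 0 0) (P.cons (P.lf 230122812 0 0) (P.cons (P.lf 0 23618085 0) (P.cons (P.lf 0 4911903 0) (P.lf 409323 0 0))))) (P.cons (P.cons (P.lf 0 4633098 0) (P.cons (P.lf 0 4316157 0) (P.cons (P.lf 442977 0 0) (P.cons (P.lf 92127 0 0) (P.lf 0 7677 0))))) (P.cons (P.cons (P.lf 0 720471 0) (P.cons (P.lf 0 671184 0) (P.cons (P.lf 68886 0 0) (P.cons (P.lf 14325 0 0) P.nil)))) (P.cons (P.cons (P.lf 2298 0 0) (P.cons (P.lf 2142 0 0) (P.cons (P.lf 0 219 0) P.nil))) (P.cons (P.cons (P.lf 846 0 0) (P.cons (P.lf 789 0 0) P.nil)) (P.cons (P.cons (P.lf 6 0 0) P.nil) P.nil)))))) 1833)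
 EL.nil)))
noncomputable def S169_176_216_364_26 : EL := (EL.cons 4 (TM.mk (P.cons (P.cons (P.lf 0 386021196 0) (P.cons (P.lf 82978839 0 0) (P.cons (P.lf 31644453 0 0) (P.cons (P.lf 0 7543515 0) (P.cons (P.lf 0 372816 0) (P.cons (P.lf 170940 0 0) P.nil)))))) (P.cons (P.cons (P.lf 0 13550784 0) (P.cons (P.lf 1943058 0 0) (P.cons (P.lf 672552 0 0) (P.cons (P.lf 0 235668 0) (P.cons (P.lf 0 14898 0) P.nil))))) (P.cons (P.cons (P.lf 5434305 0 0) (P.cons (P.lf 0 668286 0) (P.cons (P.lf 0 265953 0) (P.cons (P.lf 51177 0 0) P.nil)))) (P.cons (P.cons (P.lf 228 0 0) (P.cons (P.lf 0 17100 0) (P.cons (P.lf 0 6132 0) P.nil))) (P.cons (P.cons (P.lf 0 18213 0) (P.cons (P.lf 1938 0 0) P.nil)) (P.cons (P.cons (P.lf 0 57 0) P.nil) P.nil)))))) 29229)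
 (EL.cons 8 (TM.mk (P.cons (P.cons (P.lf 193628754 0 0) (P.cons (P.lf 0 41622297 0) (P.cons (P.lf 0 15872898 0) (P.cons (P.lf 3783837 0 0) (P.cons (P.lf 187005 0 0) (P.cons (P.lf 0 85743 0) P.nil)))))) (P.cons (P.cons (P.lf 0 3808842 0) (P.cons (P.lf 1305201 0 0) (P.cons (P.lf 532077 0 0) (P.cons (P.lf 0 89043 0) (P.cons (P.lf 0 2769 0) P.nil))))) (P.cons (P.cons (P.lf 0 2909607 0) (P.cons (P.lf 348066 0 0) (P.cons (P.lf 136425 0 0) (P.cons (P.lf 0 28461 0) P.nil)))) (P.cons (P.cons (P.lf 150525 0 0) (P.cons (P.lf 0 9594 0) (P.cons (P.lf 0 4125 0) P.nil))) (P.cons (P.cons (P.lf 6420 0 0) (P.cons (P.lf 0 1113 0) P.nil)) (P.cons (P.cons (P.lf 0 393 0) P.nil) P.nil)))))) 13821)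
 (EL.cons 11 (TM.mk (P.cons (P.cons (P.lf 76724544 0 0) (P.cons (P.lf 61012689 0 0) (P.cons (P.lf 0 21595218 0) (P.cons (P.lf 0 4227150 0) (P.cons (P.lf 1233612 0 0) (P.cons (P.lf 24444 0 0) P.nil)))))) (P.cons (P.cons (P.lf 7627677 0 0) (P.cons (P.lf 6589635 0 0) (P.cons (P.lf 0 1432842 0) (P.cons (P.lf 0 284961 0) (P.cons (P.lf 67230 0 0) P.nil))))) (P.cons (P.cons (P.lf 0 537876 0) (P.cons (P.lf 0 465450 0) (P.cons (P.lf 99984 0 0) (P.cons (P.lf 19893 0 0) P.nil)))) (P.cons (P.cons (P.lf 0 31803 0) (P.cons (P.lf 0 27030 0) (P.cons (P.lf 6579 0 0) P.nil))) (P.cons (P.cons (P.lf 936 0 0) (P.cons (P.lf 858 0 0) P.nil)) (P.cons (P.cons (P.lf 60 0 0) P.nil) P.nil)))))) 36402)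
 EL.nil)))
noncomputable def S169_176_216_364_27 : EL := (EL.cons 13 (TM.mk (P.lf 0 4294967296 0) 0)
 EL.nil)
noncomputable def S169_176_216_364_28 : EL := (EL.cons 13 (TM.mk (P.cons (P.cons (P.lf 0 1334014373 0) (P.cons (P.lf 181926444 0 0) (P.cons (P.lf 78448736 0 0) (P.lf 0 8716524 0)))) (P.cons (P.cons (P.lf 0 157643527 0) (P.cons (P.lf 12388272 0 0) (P.cons (P.lf 5341964 0 0) (P.lf 0 593548 0)))) (P.cons (P.cons (P.lf 2504515 0 0) (P.cons (P.lf 143456 0 0) (P.cons (P.lf 61860 0 0) (P.lf 0 6872 0)))) (P.cons (P.cons (P.lf 152617 0 0) (P.cons (P.lf 0 8032 0) (P.cons (P.lf 0 3460 0) P.nil))) (P.cons (P.cons (P.lf 0 71 0) (P.cons (P.lf 0 220 0) P.nil)) (P.cons (P.cons (P.lf 0 77 0) P.nil) P.nil)))))) 934)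
 EL.nil)
noncomputable def S169_176_216_364_29 : EL := (EL.cons 13 (TM.mk (P.cons (P.cons (P.lf 0 414344097 0) (P.cons (P.lf 113012497 0 0) (P.cons (P.lf 41026215 0 0) (P.cons (P.lf 0 12060565 0) (P.cons (P.lf 0 694457 0) (P.cons (P.lf 318419 0 0) P.nil)))))) (P.cons (P.cons (P.lf 0 97927977 0) (P.cons (P.lf 21050525 0 0) (P.cons (P.lf 8027738 0 0) (P.cons (P.lf 0 1913678 0) (P.cons (P.lf 0 94578 0) P.nil))))) (P.cons (P.cons (P.lf 0 4230384 0) (P.cons (P.lf 786346 0 0) (P.cons (P.lf 291196 0 0) (P.cons (P.lf 0 78972 0) P.nil)))) (P.cons (P.cons (P.lf 278658 0 0) (P.cons (P.lf 0 21835 0) (P.cons (P.lf 0 9560 0) P.nil))) (P.cons (P.cons (P.lf 9698 0 0) (P.cons (P.lf 0 1767 0) P.nil)) (P.cons (P.cons (P.lf 0 231 0) P.nil) P.nil)))))) 84367)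
 EL.nil)
noncomputable def S169_176_216_364_30 : EL := (EL.cons 13 (TM.mk (P.cons (P.lf 2472931932 0 0) (P.cons (P.lf 0 79322440 0) (P.cons (P.lf 0 1290504 0) (P.cons (P.lf 3660 0 0) (P.cons (P.lf 300 0 0) (P.cons (P.lf 0 0 0) P.nil)))))) 52)
 EL.nil)
noncomputable def S169_176_216_364_31 : EL := (EL.cons 13 (TM.mk (P.cons (P.cons (P.lf 768091236 0 0) (P.cons (P.lf 0 104748577 0) (P.cons (P.lf 0 45168768 0) (P.lf 5018750 0 0)))) (P.cons (P.cons (P.lf 66129592 0 0) (P.cons (P.lf 0 3772905 0) (P.cons (P.lf 0 1626920 0) (P.lf 180766 0 0)))) (P.cons (P.cons (P.lf 0 4754335 0) (P.cons (P.lf 200860 0 0) (P.cons (P.lf 86613 0 0) (P.lf 0 9624 0)))) (P.cons (P.cons (P.lf 0 87848 0) (P.cons (P.lf 10841 0 0) (P.cons (P.lf 4672 0 0) P.nil))) (P.cons (P.cons (P.lf 3839 0 0) (P.cons (P.lf 0 1 0) P.nil)) (P.cons (P.cons (P.lf 97 0 0) P.nil) P.nil)))))) 1015)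
 EL.nil)
noncomputable def S169_176_216_364_32 : EL := (EL.cons 13 (TM.mk (P.cons (P.cons (P.lf 238568696 0 0) (P.cons (P.lf 0 65069695 0) (P.cons (P.lf 0 23621841 0) (P.cons (P.lf 6944163 0 0) (P.cons (P.lf 399850 0 0) (P.cons (P.lf 0 183337 0) P.nil)))))) (P.cons (P.cons (P.lf 48732021 0 0) (P.cons (P.lf 0 10033158 0) (P.cons (P.lf 0 3864464 0) (P.cons (P.lf 879103 0 0) (P.cons (P.lf 41629 0 0) P.nil))))) (P.cons (P.cons (P.lf 502647 0 0) (P.cons (P.lf 0 30025 0) (P.cons (P.lf 0 7074 0) (P.cons (P.lf 6503 0 0) P.nil)))) (P.cons (P.cons (P.lf 0 267645 0) (P.cons (P.lf 33323 0 0) (P.cons (P.lf 13259 0 0) P.nil))) (P.cons (P.cons (P.lf 0 1596 0) (P.cons (P.lf 824 0 0) P.nil)) (P.cons (P.cons (P.lf 406 0 0) P.nil) P.nil)))))) 60549)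
 EL.nil)
noncomputable def S169_176_216_364_33 : EL := (EL.cons 14 (TM.mk (P.lf 8589934592 0 0) 0)
 EL.nil)
noncomputable def S169_176_216_364_34 : EL := (EL.cons 14 (TM.mk (P.cons (P.cons (P.lf 2668028746 0 0) (P.cons (P.lf 0 363852888 0) (P.cons (P.lf 0 156897472 0) (P.lf 17433048 0 0)))) (P.cons (P.cons (P.lf 315287054 0 0) (P.cons (P.lf 0 24776544 0) (P.cons (P.lf 0 10683928 0) (P.lf 1187096 0 0)))) (P.cons (P.cons (P.lf 0 5009030 0) (P.cons (P.lf 0 286912 0) (P.cons (P.lf 0 123720 0) (P.lf 13744 0 0)))) (P.cons (P.cons (P.lf 0 305234 0) (P.cons (P.lf 16064 0 0) (P.cons (P.lf 6920 0 0) P.nil))) (P.cons (P.cons (P.lf 142 0 0) (P.cons (P.lf 440 0 0) P.nil)) (P.cons (P.cons (P.lf 154 0 0) P.nil) P.nil)))))) 1868)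
 EL.nil)
noncomputable def S169_176_216_364_35 : EL := (EL.cons 14 (TM.mk (P.cons (P.cons (P.lf 828688194 0 0) (P.cons (P.lf 0 226024994 0) (P.cons (P.lf 0 82052430 0) (P.cons (P.lf 24121130 0 0) (P.cons (P.lf 1388914 0 0) (P.cons (P.lf 0 636838 0) P.nil)))))) (P.cons (P.cons (P.lf 195855954 0 0) (P.cons (P.lf 0 42101050 0) (P.cons (P.lf 0 16055476 0) (P.cons (P.lf 3827356 0 0) (P.cons (P.lf 189156 0 0) P.nil))))) (P.cons (P.cons (P.lf 8460768 0 0) (P.cons (P.lf 0 1572692 0) (P.cons (P.lf 0 582392 0) (P.cons (P.lf 157944 0 0) P.nil)))) (P.cons (P.cons (P.lf 0 557316 0) (P.cons (P.lf 43670 0 0) (P.cons (P.lf 19120 0 0) P.nil))) (P.cons (P.cons (P.lf 0 19396 0) (P.cons (P.lf 3534 0 0) P.nil)) (P.cons (P.cons (P.lf 462 0 0) P.nil) P.nil)))))) 168734)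
 EL.nil)
noncomputable def S169_176_216_364_36 : EL := (EL.cons 14 (TM.mk (P.cons (P.lf 0 4945863864 0) (P.cons (P.lf 158644880 0 0) (P.cons (P.lf 2581008 0 0) (P.cons (P.lf 0 7320 0) (P.cons (P.lf 0 600 0) (P.cons (P.lf 0 0 0) P.nil)))))) 104)
 EL.nil)
noncomputable def S169_176_216_364_37 : EL := (EL.cons 14 (TM.mk (P.cons (P.cons (P.lf 0 1536182472 0) (P.cons (P.lf 209497154 0 0) (P.cons (P.lf 90337536 0 0) (P.lf 0 10037500 0)))) (P.cons (P.cons (P.lf 0 132259184 0) (P.cons (P.lf 7545810 0 0) (P.cons (P.lf 3253840 0 0) (P.lf 0 361532 0)))) (P.cons (P.cons (P.lf 9508670 0 0) (P.cons (P.lf 0 401720 0) (P.cons (P.lf 0 173226 0) (P.lf 19248 0 0)))) (P.cons (P.cons (P.lf 175696 0 0) (P.cons (P.lf 0 21682 0) (P.cons (P.lf 0 9344 0) P.nil))) (P.cons (P.cons (P.lf 0 7678 0) (P.cons (P.lf 2 0 0) P.nil)) (P.cons (P.cons (P.lf 0 194 0) P.nil) P.nil)))))) 2030)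
 EL.nil)
noncomputable def S169_176_216_364_38 : EL := (EL.cons 14 (TM.mk (P.cons (P.cons (P.lf 0 477137392 0) (P.cons (P.lf 130139390 0 0) (P.cons (P.lf 47243682 0 0) (P.cons (P.lf 0 13888326 0) (P.cons (P.lf 0 799700 0) (P.cons (P.lf 366674 0 0) P.nil)))))) (P.cons (P.cons (P.lf 0 97464042 0) (P.cons (P.lf 20066316 0 0) (P.cons (P.lf 7728928 0 0) (P.cons (P.lf 0 1758206 0) (P.cons (P.lf 0 83258 0) P.nil))))) (P.cons (P.cons (P.lf 0 1005294 0) (P.cons (P.lf 60050 0 0) (P.cons (P.lf 14148 0 0) (P.cons (P.lf 0 13006 0) P.nil)))) (P.cons (P.cons (P.lf 535290 0 0) (P.cons (P.lf 0 66646 0) (P.cons (P.lf 0 26518 0) P.nil))) (P.cons (P.cons (P.lf 3192 0 0) (P.cons (P.lf 0 1648 0) P.nil)) (P.cons (P.cons (P.lf 0 812 0) P.nil) P.nil)))))) 121098)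
 EL.nil)
noncomputable def S169_176_216_364_39 : EL := (EL.cons 14 (TM.mk (P.cons (P.lf 2847701468 0 0) (P.cons (P.lf 0 182687300 0) (P.cons (P.lf 0 42192 0) (P.cons (P.lf 103764 0 0) (P.cons (P.lf 1196 0 0) (P.cons (P.lf 0 26 0) P.nil)))))) 138)
 EL.nil)
noncomputable def S169_176_216_364_40 : EL := (EL.cons 14 (TM.mk (P.cons (P.cons (P.lf 884494438 0 0) (P.cons (P.lf 0 120623084 0) (P.cons (P.lf 0 52014034 0) (P.lf 5779334 0 0)))) (P.cons (P.cons (P.lf 47780158 0 0) (P.cons (P.lf 0 475544 0) (P.cons (P.lf 0 205060 0) (P.lf 22782 0 0)))) (P.cons (P.cons (P.lf 0 8379078 0) (P.cons (P.lf 433608 0 0) (P.cons (P.lf 186976 0 0) (P.lf 0 20774 0)))) (P.cons (P.cons (P.lf 36020 0 0) (P.cons (P.lf 7152 0 0) (P.cons (P.lf 3082 0 0) P.nil))) (P.cons (P.cons (P.lf 10742 0 0) (P.cons (P.lf 0 544 0) P.nil)) (P.cons (P.cons (P.lf 24 0 0) P.nil) P.nil)))))) 1608)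
 EL.nil)
noncomputable def S169_176_216_364_41 : EL := (EL.cons 14 (TM.mk (P.cons (P.cons (P.lf 274723462 0 0) (P.cons (P.lf 0 74930920 0) (P.cons (P.lf 0 27201700 0) (P.cons (P.lf 7996542 0 0) (P.cons (P.lf 460446 0 0) (P.cons (P.lf 0 211122 0) P.nil)))))) (P.cons (P.cons (P.lf 47305188 0 0) (P.cons (P.lf 0 9150164 0) (P.cons (P.lf 0 3577590 0) (P.cons (P.lf 755830 0 0) (P.cons (P.lf 33168 0 0) P.nil))))) (P.cons (P.cons (P.lf 0 1364574 0) (P.cons (P.lf 375124 0 0) (P.cons (P.lf 148792 0 0) (P.cons (P.lf 0 29156 0) P.nil)))) (P.cons (P.cons (P.lf 0 355650 0) (P.cons (P.lf 45400 0 0) (P.cons (P.lf 17812 0 0) P.nil))) (P.cons (P.cons (P.lf 7862 0 0) (P.cons (P.lf 0 288 0) P.nil)) (P.cons (P.cons (P.lf 694 0 0) P.nil) P.nil)))))) 81668)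
 EL.nil)
noncomputable def S169_176_216_364_42 : EL := (EL.cons 14 (TM.mk (P.cons (P.lf 0 1639633414 0) (P.cons (P.lf 157779986 0 0) (P.cons (P.lf 0 2494056 0) (P.cons (P.lf 0 117842 0) (P.cons (P.lf 1170 0 0) (P.cons (P.lf 80 0 0) P.nil)))))) 132)
 EL.nil)
noncomputable def S169_176_216_364_43 : EL := (EL.cons 14 (TM.mk (P.cons (P.cons (P.lf 0 509269194 0) (P.cons (P.lf 69451674 0 0) (P.cons (P.lf 29948346 0 0) (P.lf 0 3327592 0)))) (P.cons (P.cons (P.lf 0 11175130 0) (P.cons (P.lf 0 1953944 0) (P.cons (P.lf 0 842562 0) (P.lf 93618 0 0)))) (P.cons (P.cons (P.lf 5972658 0 0) (P.cons (P.lf 0 294686 0) (P.cons (P.lf 0 127072 0) (P.lf 14118 0 0)))) (P.cons (P.cons (P.lf 0 161886 0) (P.cons (P.lf 3848 0 0) (P.cons (P.lf 1660 0 0) P.nil))) (P.cons (P.cons (P.lf 0 8140 0) (P.cons (P.lf 584 0 0) P.nil)) (P.cons (P.cons (P.lf 198 0 0) P.nil) P.nil)))))) 1716)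
 EL.nil)
noncomputable def S169_176_216_364_44 : EL := (EL.cons 14 (TM.mk (P.cons (P.cons (P.lf 0 158178718 0) (P.cons (P.lf 43143300 0 0) (P.cons (P.lf 15662040 0 0) (P.cons (P.lf 0 4604202 0) (P.cons (P.lf 0 265112 0) (P.cons (P.lf 121558 0 0) P.nil)))))) (P.cons (P.cons (P.lf 0 22163328 0) (P.cons (P.lf 3884554 0 0) (P.cons (P.lf 1557504 0 0) (P.cons (P.lf 0 287502 0) (P.cons (P.lf 0 10594 0) P.nil))))) (P.cons (P.cons (P.lf 1741898 0 0) (P.cons (P.lf 0 407492 0) (P.cons (P.lf 0 159916 0) (P.cons (P.lf 33148 0 0) P.nil)))) (P.cons (P.cons (P.lf 193552 0 0) (P.cons (P.lf 0 21898 0) (P.cons (P.lf 0 8558 0) P.nil))) (P.cons (P.cons (P.lf 0 11564 0) (P.cons (P.lf 1130 0 0) P.nil)) (P.cons (P.cons (P.lf 0 364 0) P.nil) P.nil)))))) 56620)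
 EL.nil)
noncomputable def S169_176_216_364_45 : EL := (EL.cons 14 (TM.mk (P.cons (P.cons (P.lf 257390076 0 0) (P.cons (P.lf 0 105304850 0) (P.cons (P.lf 0 31047672 0) (P.cons (P.lf 16777798 0 0) (P.cons (P.lf 449668 0 0) (P.cons (P.lf 0 863734 0) P.nil)))))) (P.cons (P.cons (P.lf 91249120 0 0) (P.cons (P.lf 0 32058956 0) (P.cons (P.lf 0 10171296 0) (P.cons (P.lf 4552986 0 0) (P.cons (P.lf 156670 0 0) P.nil))))) (P.cons (P.cons (P.lf 9333422 0 0) (P.cons (P.lf 0 2852944 0) (P.cons (P.lf 0 936820 0) (P.cons (P.lf 379098 0 0) P.nil)))) (P.cons (P.cons (P.lf 0 6210 0) (P.cons (P.lf 0 17366 0) (P.cons (P.lf 0 1986 0) P.nil))) (P.cons (P.cons (P.lf 0 38358 0) (P.cons (P.lf 7664 0 0) P.nil)) (P.cons (P.cons (P.lf 0 524 0) P.nil) P.nil)))))) 493190)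
 EL.nil)
noncomputable def S169_176_216_364_46 : EL := (EL.cons 15 (TM.mk (P.lf 4294967296 0 0) 0)
 EL.nil)
noncomputable def S169_176_216_364_47 : EL := (EL.cons 15 (TM.mk (P.cons (P.cons (P.lf 1334014373 0 0) (P.cons (P.lf 0 181926444 0) (P.cons (P.lf 0 78448736 0) (P.lf 8716524 0 0)))) (P.cons (P.cons (P.lf 157643527 0 0) (P.cons (P.lf 0 12388272 0) (P.cons (P.lf 0 5341964 0) (P.lf 593548 0 0)))) (P.cons (P.cons (P.lf 0 2504515 0) (P.cons (P.lf 0 143456 0) (P.cons (P.lf 0 61860 0) (P.lf 6872 0 0)))) (P.cons (P.cons (P.lf 0 152617 0) (P.cons (P.lf 8032 0 0) (P.cons (P.lf 3460 0 0) P.nil))) (P.cons (P.cons (P.lf 71 0 0) (P.cons (P.lf 220 0 0) P.nil)) (P.cons (P.cons (P.lf 77 0 0) P.nil) P.nil)))))) 934)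
 EL.nil)
noncomputable def S169_176_216_364_48 : EL := (EL.cons 15 (TM.mk (P.cons (P.cons (P.lf 414344097 0 0) (P.cons (P.lf 0 113012497 0) (P.cons (P.lf 0 41026215 0) (P.cons (P.lf 12060565 0 0) (P.cons (P.lf 694457 0 0) (P.cons (P.lf 0 318419 0) P.nil)))))) (P.cons (P.cons (P.lf 97927977 0 0) (P.cons (P.lf 0 21050525 0) (P.cons (P.lf 0 8027738 0) (P.cons (P.lf 1913678 0 0) (P.cons (P.lf 94578 0 0) P.nil))))) (P.cons (P.cons (P.lf 4230384 0 0) (P.cons (P.lf 0 786346 0) (P.cons (P.lf 0 291196 0) (P.cons (P.lf 78972 0 0) P.nil)))) (P.cons (P.cons (P.lf 0 278658 0) (P.cons (P.lf 21835 0 0) (P.cons (P.lf 9560 0 0) P.nil))) (P.cons (P.cons (P.lf 0 9698 0) (P.cons (P.lf 1767 0 0) P.nil)) (P.cons (P.cons (P.lf 231 0 0) P.nil) P.nil)))))) 84367)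
 EL.nil)
noncomputable def S169_176_216_364 : SL := (SL.cons S169_176_216_364_0 (SL.cons S169_176_216_364_1 (SL.cons S169_176_216_364_2 (SL.cons S169_176_216_364_3 (SL.cons S169_176_216_364_4 (SL.cons S169_176_216_364_5 (SL.cons S169_176_216_364_6 (SL.cons S169_176_216_364_7 (SL.cons S169_176_216_364_8 (SL.cons S169_176_216_364_9 (SL.cons S169_176_216_364_10 (SL.cons S169_176_216_364_11 (SL.cons S169_176_216_364_12 (SL.cons S169_176_216_364_13 (SL.cons S169_176_216_364_14 (SL.cons S169_176_216_364_15 (SL.cons S169_176_216_364_16 (SL.cons S169_176_216_364_17 (SL.cons S169_176_216_364_18 (SL.cons S169_176_216_364_19 (SL.cons S169_176_216_364_20 (SL.cons S169_176_216_364_21 (SL.cons S169_176_216_364_22 (SL.cons S169_176_216_364_23 (SL.cons S169_176_216_364_24 (SL.cons S169_176_216_364_25 (SL.cons S169_176_216_364_26 (SL.cons S169_176_216_364_27 (SL.cons S169_176_216_364_28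 (SL.cons S169_176_216_364_29 (SL.cons S169_176_216_364_30 (SL.cons S169_176_216_364_31 (SL.cons S169_176_216_364_32 (SL.cons S169_176_216_364_33 (SL.cons S169_176_216_364_34 (SL.cons S169_176_216_364_35 (SL.cons S169_176_216_364_36 (SL.cons S169_176_216_364_37 (SL.cons S169_176_216_364_38 (SL.cons S169_176_216_364_39 (SL.cons S169_176_216_364_40 (SL.cons S169_176_216_364_41 (SL.cons S169_176_216_364_42 (SL.cons S169_176_216_364_43 (SL.cons S169_176_216_364_44 (SL.cons S169_176_216_364_45 (SL.cons S169_176_216_364_46 (SL.cons S169_176_216_364_47 (SL.cons S169_176_216_364_48 SL.nil)))))))))))))))))))))))))))))))))))))))))))))))))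
noncomputable def S169_176_512_660_0 : EL := (EL.cons 0 (TM.mk (P.cons (P.lf 5952854245 0 0) (P.cons (P.lf 160565009 0 0) (P.cons (P.lf 37082 0 0) (P.cons (P.lf 0 91198 0) (P.cons (P.lf 0 1051 0) (P.cons (P.lf 22 0 0) P.nil)))))) 128)
 (EL.cons 1 (TM.mk (P.cons (P.lf 0 1774131421 0) (P.cons (P.lf 16637709 0 0) (P.cons (P.lf 2665265 0 0) (P.cons (P.lf 16736 0 0) (P.cons (P.lf 0 883 0) (P.cons (P.lf 0 13 0) P.nil)))))) 108)
 (EL.cons 5 (TM.mk (P.cons (P.lf 5184874008 0 0) (P.cons (P.lf 0 57089782 0) (P.cons (P.lf 0 13186 0) (P.cons (P.lf 32424 0 0) (P.cons (P.lf 374 0 0) (P.cons (P.lf 0 6 0) P.nil)))))) 93)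
 (EL.cons 9 (TM.mk (P.lf 6442450944 0 0) 2)
 EL.nil))))
noncomputable def S169_176_512_660_1 : EL := (EL.cons 0 (TM.mk (P.cons (P.cons (P.lf 0 1682114632 0) (P.cons (P.lf 141673557 0 0) (P.cons (P.lf 0 9471956 0) (P.lf 0 3157315 0)))) (P.cons (P.cons (P.lf 296798143 0 0) (P.cons (P.lf 0 48840440 0) (P.cons (P.lf 3265364 0 0) (P.lf 1088460 0 0)))) (P.cons (P.cons (P.lf 2436797 0 0) (P.cons (P.lf 0 3884501 0) (P.cons (P.lf 259702 0 0) (P.lf 86563 0 0)))) (P.cons (P.cons (P.lf 0 807092 0) (P.cons (P.lf 0 20071 0) (P.cons (P.lf 1333 0 0) P.nil))) (P.cons (P.cons (P.lf 0 15840 0) (P.cons (P.lf 5039 0 0) P.nil)) (P.cons (P.cons (P.lf 702 0 0) P.nil) P.nil)))))) 7579)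
 (EL.cons 1 (TM.mk (P.cons (P.cons (P.lf 0 123634053 0) (P.cons (P.lf 232414442 0 0) (P.cons (P.lf 0 15538682 0) (P.lf 0 5179557 0)))) (P.cons (P.cons (P.lf 0 54566285 0) (P.cons (P.lf 32433348 0 0) (P.cons (P.lf 0 2168408 0) (P.lf 0 722792 0)))) (P.cons (P.cons (P.lf 8645565 0 0) (P.cons (P.lf 0 59720 0) (P.cons (P.lf 3999 0 0) (P.lf 1332 0 0)))) (P.cons (P.cons (P.lf 220685 0 0) (P.cons (P.lf 0 85518 0) (P.cons (P.lf 5705 0 0) P.nil))) (P.cons (P.cons (P.lf 0 13998 0) (P.cons (P.lf 0 1676 0) P.nil)) (P.cons (P.cons (P.lf 0 421 0) P.nil) P.nil)))))) 4349)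
 (EL.cons 5 (TM.mk (P.cons (P.cons (P.lf 443362227 0 0) (P.cons (P.lf 0 715282054 0) (P.cons (P.lf 47822090 0 0) (P.lf 15940694 0 0)))) (P.cons (P.cons (P.lf 0 2497533 0) (P.cons (P.lf 0 27911486 0) (P.cons (P.lf 1866094 0 0) (P.lf 622028 0 0)))) (P.cons (P.cons (P.lf 0 7034392 0) (P.cons (P.lf 856842 0 0) (P.cons (P.lf 0 57282 0) (P.lf 0 19088 0)))) (P.cons (P.cons (P.lf 134494 0 0) (P.cons (P.lf 36504 0 0) (P.cons (P.lf 0 2440 0) P.nil))) (P.cons (P.cons (P.lf 8732 0 0) (P.cons (P.lf 0 970 0) P.nil)) (P.cons (P.cons (P.lf 0 118 0) P.nil) P.nil)))))) 4372)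
 (EL.cons 9 (TM.mk (P.cons (P.cons (P.lf 0 136520265 0) (P.cons (P.lf 0 586684614 0) (P.cons (P.lf 39224364 0 0) (P.lf 13074786 0 0)))) (P.cons (P.cons (P.lf 90909430 0 0) (P.cons (P.lf 0 39950274 0) (P.cons (P.lf 2670978 0 0) (P.lf 890322 0 0)))) (P.cons (P.cons (P.lf 0 5442322 0) (P.cons (P.lf 0 462624 0) (P.cons (P.lf 30924 0 0) (P.lf 10308 0 0)))) (P.cons (P.cons (P.lf 0 134533 0) (P.cons (P.lf 25908 0 0) (P.cons (P.lf 0 1728 0) P.nil))) (P.cons (P.cons (P.lf 2728 0 0) (P.cons (P.lf 720 0 0) P.nil)) (P.cons (P.cons (P.lf 109 0 0) P.nil) P.nil)))))) 1258)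
 (EL.cons 2 (TM.mk (P.cons (P.cons (P.lf 944458782 0 0) (P.cons (P.lf 0 146225936 0) (P.cons (P.lf 0 70447044 0) (P.cons (P.lf 2665920 0 0) (P.lf 666478 0 0))))) (P.cons (P.cons (P.lf 12580545 0 0) (P.cons (P.lf 0 1947782 0) (P.cons (P.lf 0 938379 0) (P.cons (P.lf 35507 0 0) (P.lf 8876 0 0))))) (P.cons (P.cons (P.lf 0 1858241 0) (P.cons (P.lf 287701 0 0) (P.cons (P.lf 138605 0 0) (P.cons (P.lf 0 5245 0) P.nil)))) (P.cons (P.cons (P.lf 0 45644 0) (P.cons (P.lf 7065 0 0) (P.cons (P.lf 3403 0 0) P.nil))) (P.cons (P.cons (P.lf 672 0 0) (P.cons (P.lf 0 104 0) P.nil)) (P.cons (P.cons (P.lf 28 0 0) P.nil) P.nil)))))) 1843)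
 (EL.cons 6 (TM.mk (P.cons (P.cons (P.lf 669471024 0 0) (P.cons (P.lf 0 103650924 0) (P.cons (P.lf 0 49935747 0) (P.cons (P.lf 1889712 0 0) (P.lf 472428 0 0))))) (P.cons (P.cons (P.lf 45587613 0 0) (P.cons (P.lf 0 7058106 0) (P.cons (P.lf 0 3400371 0) (P.cons (P.lf 128679 0 0) (P.lf 32169 0 0))))) (P.cons (P.cons (P.lf 527910 0 0) (P.cons (P.lf 0 81732 0) (P.cons (P.lf 0 39375 0) (P.cons (P.lf 1488 0 0) P.nil)))) (P.cons (P.cons (P.lf 0 29565 0) (P.cons (P.lf 4575 0 0) (P.cons (P.lf 2202 0 0) P.nil))) (P.cons (P.cons (P.lf 0 822 0) (P.cons (P.lf 126 0 0) P.nil)) (P.cons (P.cons (P.lf 0 0 0) P.nil) P.nil)))))) 969)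
 EL.nil))))))
noncomputable def S169_176_512_660_2 : EL := (EL.cons 0 (TM.mk (P.cons (P.cons (P.lf 68617372 0 0) (P.cons (P.lf 277385703 0 0) (P.cons (P.lf 0 93714997 0) (P.cons (P.lf 3869543 0 0) (P.cons (P.lf 3014436 0 0) (P.cons (P.lf 0 223992 0) P.nil)))))) (P.cons (P.cons (P.lf 0 56563402 0) (P.cons (P.lf 0 14010989 0) (P.cons (P.lf 20259 0 0) (P.cons (P.lf 434788 0 0) (P.cons (P.lf 36742 0 0) P.nil))))) (P.cons (P.cons (P.lf 9812468 0 0) (P.cons (P.lf 0 4858171 0) (P.cons (P.lf 1129250 0 0) (P.cons (P.lf 697 0 0) P.nil)))) (P.cons (P.cons (P.lf 0 229213 0) (P.cons (P.lf 0 40136 0) (P.cons (P.lf 54157 0 0) P.nil))) (P.cons (P.cons (P.lf 0 37044 0) (P.cons (P.lf 17894 0 0) P.nil)) (P.cons (P.cons (P.lf 699 0 0) P.nil) P.nil)))))) 288431)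
 (EL.cons 1 (TM.mk (P.cons (P.cons (P.lf 6036463 0 0) (P.cons (P.lf 19514753 0 0) (P.cons (P.lf 0 28921837 0) (P.cons (P.lf 3257924 0 0) (P.cons (P.lf 1107494 0 0) (P.cons (P.lf 0 82296 0) P.nil)))))) (P.cons (P.cons (P.lf 0 2245083 0) (P.cons (P.lf 12498598 0 0) (P.cons (P.lf 0 7759439 0) (P.cons (P.lf 647275 0 0) (P.cons (P.lf 277655 0 0) P.nil))))) (P.cons (P.cons (P.lf 0 1271961 0) (P.cons (P.lf 0 358950 0) (P.cons (P.lf 0 350206 0) (P.cons (P.lf 58031 0 0) P.nil)))) (P.cons (P.cons (P.lf 288940 0 0) (P.cons (P.lf 0 175308 0) (P.cons (P.lf 21523 0 0) P.nil))) (P.cons (P.cons (P.lf 0 5659 0) (P.cons (P.lf 0 4667 0) P.nil)) (P.cons (P.cons (P.lf 0 1015 0) P.nil) P.nil)))))) 132052)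
 (EL.cons 5 (TM.mk (P.cons (P.cons (P.lf 0 21118581 0) (P.cons (P.lf 0 70446185 0) (P.cons (P.lf 91987096 0 0) (P.cons (P.lf 0 10100348 0) (P.cons (P.lf 0 3499975 0) (P.cons (P.lf 260072 0 0) P.nil)))))) (P.cons (P.cons (P.lf 15744835 0 0) (P.cons (P.lf 0 11864484 0) (P.cons (P.lf 9365416 0 0) (P.cons (P.lf 0 881821 0) (P.cons (P.lf 0 343752 0) P.nil))))) (P.cons (P.cons (P.lf 0 1773596 0) (P.cons (P.lf 1595143 0 0) (P.cons (P.lf 0 16404 0) (P.cons (P.lf 0 47601 0) P.nil)))) (P.cons (P.cons (P.lf 0 86117 0) (P.cons (P.lf 102492 0 0) (P.cons (P.lf 0 23989 0) P.nil))) (P.cons (P.cons (P.lf 13946 0 0) (P.cons (P.lf 0 3354 0) P.nil)) (P.cons (P.cons (P.lf 100 0 0) P.nil) P.nil)))))) 156256)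
 (EL.cons 9 (TM.mk (P.cons (P.cons (P.lf 2892964 0 0) (P.cons (P.lf 24864555 0 0) (P.cons (P.lf 51764304 0 0) (P.cons (P.lf 0 7698096 0) (P.cons (P.lf 0 2142507 0) (P.cons (P.lf 159208 0 0) P.nil)))))) (P.cons (P.cons (P.lf 0 3852874 0) (P.cons (P.lf 0 14864262 0) (P.cons (P.lf 8269968 0 0) (P.cons (P.lf 0 641671 0) (P.cons (P.lf 0 291786 0) P.nil))))) (P.cons (P.cons (P.lf 1513476 0 0) (P.cons (P.lf 0 116655 0) (P.cons (P.lf 339792 0 0) (P.cons (P.lf 0 41791 0) P.nil)))) (P.cons (P.cons (P.lf 0 147891 0) (P.cons (P.lf 77844 0 0) (P.cons (P.lf 0 4185 0) P.nil))) (P.cons (P.cons (P.lf 684 0 0) (P.cons (P.lf 2653 0 0) P.nil)) (P.cons (P.cons (P.lf 298 0 0) P.nil) P.nil)))))) 74890)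
 (EL.cons 2 (TM.mk (P.cons (P.cons (P.lf 0 40027545 0) (P.cons (P.lf 0 165817833 0) (P.cons (P.lf 41118429 0 0) (P.cons (P.lf 14770530 0 0) (P.cons (P.lf 0 1965138 0) (P.cons (P.lf 0 374861 0) P.nil)))))) (P.cons (P.cons (P.lf 26121330 0 0) (P.cons (P.lf 0 18048903 0) (P.cons (P.lf 1156201 0 0) (P.cons (P.lf 1285475 0 0) (P.cons (P.lf 0 139258 0) P.nil))))) (P.cons (P.cons (P.lf 0 1161877 0) (P.cons (P.lf 226659 0 0) (P.cons (P.lf 76291 0 0) (P.cons (P.lf 0 7323 0) P.nil)))) (P.cons (P.cons (P.lf 0 111206 0) (P.cons (P.lf 54365 0 0) (P.cons (P.lf 56 0 0) P.nil))) (P.cons (P.cons (P.lf 2092 0 0) (P.cons (P.lf 697 0 0) P.nil)) (P.cons (P.cons (P.lf 213 0 0) P.nil) P.nil)))))) 76538)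
 (EL.cons 6 (TM.mk (P.cons (P.cons (P.lf 0 28373160 0) (P.cons (P.lf 0 117538458 0) (P.cons (P.lf 29146428 0 0) (P.cons (P.lf 10469952 0 0) (P.cons (P.lf 0 1392966 0) (P.cons (P.lf 0 265716 0) P.nil)))))) (P.cons (P.cons (P.lf 16961736 0 0) (P.cons (P.lf 0 19231926 0) (P.cons (P.lf 2416044 0 0) (P.cons (P.lf 1484682 0 0) (P.cons (P.lf 0 175008 0) P.nil))))) (P.cons (P.cons (P.lf 133116 0 0) (P.cons (P.lf 0 778290 0) (P.cons (P.lf 158028 0 0) (P.cons (P.lf 65928 0 0) P.nil)))) (P.cons (P.cons (P.lf 0 88824 0) (P.cons (P.lf 11424 0 0) (P.cons (P.lf 7140 0 0) P.nil))) (P.cons (P.cons (P.lf 0 3024 0) (P.cons (P.lf 1422 0 0) P.nil)) (P.cons (P.cons (P.lf 60 0 0) P.nil) P.nil)))))) 75864)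
 EL.nil))))))
noncomputable def S169_176_512_660_3 : EL := (EL.cons 0 (TM.mk (P.cons (P.lf 2502862618 0 0) (P.cons (P.lf 0 160565009 0) (P.cons (P.lf 0 37082 0) (P.cons (P.lf 91198 0 0) (P.cons (P.lf 1051 0 0) (P.cons (P.lf 0 22 0) P.nil)))))) 128)
 (EL.cons 1 (TM.mk (P.cons (P.lf 1774131421 0 0) (P.cons (P.lf 0 16637709 0) (P.cons (P.lf 0 2665265 0) (P.cons (P.lf 0 16736 0) (P.cons (P.lf 883 0 0) (P.cons (P.lf 13 0 0) P.nil)))))) 108)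
 (EL.cons 5 (TM.mk (P.cons (P.lf 1257576936 0 0) (P.cons (P.lf 57089782 0 0) (P.cons (P.lf 13186 0 0) (P.cons (P.lf 0 32424 0) (P.cons (P.lf 0 374 0) (P.cons (P.lf 6 0 0) P.nil)))))) 86)
 EL.nil)))
noncomputable def S169_176_512_660_4 : EL := (EL.cons 0 (TM.mk (P.cons (P.cons (P.lf 0 53037495 0) (P.cons (P.lf 0 227924279 0) (P.cons (P.lf 15238485 0 0) (P.lf 5079492 0 0)))) (P.cons (P.cons (P.lf 38720385 0 0) (P.cons (P.lf 0 898574 0) (P.cons (P.lf 60075 0 0) (P.lf 20023 0 0)))) (P.cons (P.cons (P.lf 0 4379262 0) (P.cons (P.lf 819328 0 0) (P.cons (P.lf 0 54780 0) (P.lf 0 18258 0)))) (P.cons (P.cons (P.lf 80915 0 0) (P.cons (P.lf 13519 0 0) (P.cons (P.lf 0 901 0) P.nil))) (P.cons (P.cons (P.lf 5707 0 0) (P.cons (P.lf 0 1023 0) P.nil)) (P.cons (P.cons (P.lf 0 86 0) P.nil) P.nil)))))) 1172)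
 (EL.cons 1 (TM.mk (P.cons (P.cons (P.lf 0 37595146 0) (P.cons (P.lf 0 161562052 0) (P.cons (P.lf 10801661 0 0) (P.lf 3600551 0 0)))) (P.cons (P.cons (P.lf 25387335 0 0) (P.cons (P.lf 0 9486442 0) (P.cons (P.lf 634239 0 0) (P.lf 211410 0 0)))) (P.cons (P.cons (P.lf 0 1677009 0) (P.cons (P.lf 218486 0 0) (P.cons (P.lf 0 14608 0) (P.lf 0 4869 0)))) (P.cons (P.cons (P.lf 0 60247 0) (P.cons (P.lf 26379 0 0) (P.cons (P.lf 0 1760 0) P.nil))) (P.cons (P.cons (P.lf 3093 0 0) (P.cons (P.lf 345 0 0) P.nil)) (P.cons (P.cons (P.lf 103 0 0) P.nil) P.nil)))))) 969)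
 (EL.cons 5 (TM.mk (P.cons (P.cons (P.lf 0 26648976 0) (P.cons (P.lf 0 114521792 0) (P.cons (P.lf 7656658 0 0) (P.lf 2552218 0 0)))) (P.cons (P.cons (P.lf 16535894 0 0) (P.cons (P.lf 0 12997264 0) (P.cons (P.lf 868964 0 0) (P.lf 289654 0 0)))) (P.cons (P.cons (P.lf 0 257034 0) (P.cons (P.lf 0 445524 0) (P.cons (P.lf 29784 0 0) (P.lf 9926 0 0)))) (P.cons (P.cons (P.lf 0 73614 0) (P.cons (P.lf 3828 0 0) (P.cons (P.lf 0 254 0) P.nil))) (P.cons (P.cons (P.lf 0 1120 0) (P.cons (P.lf 604 0 0) P.nil)) (P.cons (P.cons (P.lf 66 0 0) P.nil) P.nil)))))) 678)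
 EL.nil)))
noncomputable def S169_176_512_660_5 : EL := (EL.cons 0 (TM.mk (P.cons (P.cons (P.lf 1123903 0 0) (P.cons (P.lf 9659765 0 0) (P.cons (P.lf 20110194 0 0) (P.cons (P.lf 0 2990673 0) (P.cons (P.lf 0 832354 0) (P.cons (P.lf 61850 0 0) P.nil)))))) (P.cons (P.cons (P.lf 0 1568925 0) (P.cons (P.lf 0 6394394 0) (P.cons (P.lf 1922723 0 0) (P.cons (P.lf 0 57425 0) (P.cons (P.lf 0 59958 0) P.nil))))) (P.cons (P.cons (P.lf 683985 0 0) (P.cons (P.lf 324998 0 0) (P.cons (P.lf 0 74401 0) (P.cons (P.lf 0 198 0) P.nil)))) (P.cons (P.cons (P.lf 0 95111 0) (P.cons (P.lf 33586 0 0) (P.cons (P.lf 0 9407 0) P.nil))) (P.cons (P.cons (P.lf 3888 0 0) (P.cons (P.lf 0 1114 0) P.nil)) (P.cons (P.cons (P.lf 119 0 0) P.nil) P.nil)))))) 43793)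
 (EL.cons 1 (TM.mk (P.cons (P.cons (P.lf 796666 0 0) (P.cons (P.lf 6847235 0 0) (P.cons (P.lf 14254927 0 0) (P.cons (P.lf 0 2119910 0) (P.cons (P.lf 0 590006 0) (P.cons (P.lf 43841 0 0) P.nil)))))) (P.cons (P.cons (P.lf 0 1068480 0) (P.cons (P.lf 0 4157553 0) (P.cons (P.lf 2143711 0 0) (P.cons (P.lf 0 156823 0) (P.cons (P.lf 0 74818 0) P.nil))))) (P.cons (P.cons (P.lf 425535 0 0) (P.cons (P.lf 0 4023 0) (P.cons (P.lf 50799 0 0) (P.cons (P.lf 0 6665 0) P.nil)))) (P.cons (P.cons (P.lf 0 43048 0) (P.cons (P.lf 27821 0 0) (P.cons (P.lf 0 5583 0) P.nil))) (P.cons (P.cons (P.lf 0 45 0) (P.cons (P.lf 618 0 0) P.nil)) (P.cons (P.cons (P.lf 135 0 0) P.nil) P.nil)))))) 29802)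
 (EL.cons 5 (TM.mk (P.cons (P.cons (P.lf 564710 0 0) (P.cons (P.lf 4853600 0 0) (P.cons (P.lf 10104476 0 0) (P.cons (P.lf 0 1502680 0) (P.cons (P.lf 0 418220 0) (P.cons (P.lf 31076 0 0) P.nil)))))) (P.cons (P.cons (P.lf 0 726450 0) (P.cons (P.lf 0 2681190 0) (P.cons (P.lf 2073020 0 0) (P.cons (P.lf 0 193470 0) (P.cons (P.lf 0 75942 0) P.nil))))) (P.cons (P.cons (P.lf 261296 0 0) (P.cons (P.lf 0 154438 0) (P.cons (P.lf 139716 0 0) (P.cons (P.lf 0 13858 0) P.nil)))) (P.cons (P.cons (P.lf 0 15478 0) (P.cons (P.lf 14004 0 0) (P.cons (P.lf 1948 0 0) P.nil))) (P.cons (P.cons (P.lf 0 1154 0) (P.cons (P.lf 1280 0 0) P.nil)) (P.cons (P.cons (P.lf 54 0 0) P.nil) P.nil)))))) 20550)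
 EL.nil)))
noncomputable def S169_176_512_660_6 : EL := (EL.cons 12 (TM.mk (P.lf 8589934592 0 0) 0)
 (EL.cons 3 (TM.mk (P.cons (P.lf 0 2318373686 0) (P.cons (P.lf 74364787 0 0) (P.cons (P.lf 1209847 0 0) (P.cons (P.lf 0 3431 0) (P.cons (P.lf 0 281 0) (P.cons (P.lf 0 0 0) P.nil)))))) 55)
 (EL.cons 7 (TM.mk (P.cons (P.lf 0 1643358119 0) (P.cons (P.lf 0 37301478 0) (P.cons (P.lf 414724 0 0) (P.cons (P.lf 11772 0 0) (P.cons (P.lf 30 0 0) (P.cons (P.lf 0 2 0) P.nil)))))) 46)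
 EL.nil)))
noncomputable def S169_176_512_660_7 : EL := (EL.cons 12 (TM.mk (P.cons (P.cons (P.lf 0 182027020 0) (P.cons (P.lf 0 782246152 0) (P.cons (P.lf 52299152 0 0) (P.lf 17433048 0 0)))) (P.cons (P.cons (P.lf 121212574 0 0) (P.cons (P.lf 0 53267032 0) (P.cons (P.lf 3561304 0 0) (P.lf 1187096 0 0)))) (P.cons (P.cons (P.lf 0 7256430 0) (P.cons (P.lf 0 616832 0) (P.cons (P.lf 41232 0 0) (P.lf 13744 0 0)))) (P.cons (P.cons (P.lf 0 179378 0) (P.cons (P.lf 34544 0 0) (P.cons (P.lf 0 2304 0) P.nil))) (P.cons (P.cons (P.lf 3638 0 0) (P.cons (P.lf 960 0 0) P.nil)) (P.cons (P.cons (P.lf 146 0 0) P.nil) P.nil)))))) 1652)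
 (EL.cons 3 (TM.mk (P.cons (P.cons (P.lf 1490405008 0 0) (P.cons (P.lf 0 422247426 0) (P.cons (P.lf 28230476 0 0) (P.lf 9410156 0 0)))) (P.cons (P.cons (P.lf 0 188323179 0) (P.cons (P.lf 0 15208802 0) (P.cons (P.lf 1016820 0 0) (P.lf 338936 0 0)))) (P.cons (P.cons (P.lf 0 6023718 0) (P.cons (P.lf 809676 0 0) (P.cons (P.lf 0 54136 0) (P.lf 0 18044 0)))) (P.cons (P.cons (P.lf 140440 0 0) (P.cons (P.lf 43706 0 0) (P.cons (P.lf 0 2916 0) P.nil))) (P.cons (P.cons (P.lf 8878 0 0) (P.cons (P.lf 0 0 0) P.nil)) (P.cons (P.cons (P.lf 33 0 0) P.nil) P.nil)))))) 3646)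
 (EL.cons 7 (TM.mk (P.cons (P.cons (P.lf 0 688122498 0) (P.cons (P.lf 467352946 0 0) (P.cons (P.lf 0 31246133 0) (P.lf 0 10415377 0)))) (P.cons (P.cons (P.lf 94463156 0 0) (P.cons (P.lf 7628757 0 0) (P.cons (P.lf 0 510042 0) (P.lf 0 170016 0)))) (P.cons (P.cons (P.lf 434422 0 0) (P.cons (P.lf 0 615063 0) (P.cons (P.lf 41117 0 0) (P.lf 13707 0 0)))) (P.cons (P.cons (P.lf 0 150117 0) (P.cons (P.lf 0 4618 0) (P.cons (P.lf 310 0 0) P.nil))) (P.cons (P.cons (P.lf 0 740 0) (P.cons (P.lf 650 0 0) P.nil)) (P.cons (P.cons (P.lf 113 0 0) P.nil) P.nil)))))) 2867)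
 (EL.cons 10 (TM.mk (P.cons (P.cons (P.lf 0 1749683244 0) (P.cons (P.lf 270894903 0 0) (P.cons (P.lf 130508622 0 0) (P.cons (P.lf 0 4938828 0) (P.lf 0 1234707 0))))) (P.cons (P.cons (P.lf 0 79429758 0) (P.cons (P.lf 12297720 0 0) (P.cons (P.lf 5924652 0 0) (P.cons (P.lf 0 224205 0) (P.lf 0 56049 0))))) (P.cons (P.cons (P.lf 0 18345 0) (P.cons (P.lf 2838 0 0) (P.cons (P.lf 1368 0 0) (P.cons (P.lf 0 51 0) P.nil)))) (P.cons (P.cons (P.lf 45111 0 0) (P.cons (P.lf 0 6984 0) (P.cons (P.lf 0 3363 0) P.nil))) (P.cons (P.cons (P.lf 519 0 0) (P.cons (P.lf 0 78 0) P.nil)) (P.cons (P.cons (P.lf 0 6 0) P.nil) P.nil)))))) 465)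
 EL.nil))))
noncomputable def S169_176_512_660_8 : EL := (EL.cons 12 (TM.mk (P.cons (P.cons (P.lf 3857286 0 0) (P.cons (P.lf 33152740 0 0) (P.cons (P.lf 69019072 0 0) (P.cons (P.lf 0 10264128 0) (P.cons (P.lf 0 2856676 0) (P.cons (P.lf 212278 0 0) P.nil)))))) (P.cons (P.cons (P.lf 0 5137166 0) (P.cons (P.lf 0 19819016 0) (P.cons (P.lf 11026624 0 0) (P.cons (P.lf 0 855562 0) (P.cons (P.lf 0 389048 0) P.nil))))) (P.cons (P.cons (P.lf 2017968 0 0) (P.cons (P.lf 0 155540 0) (P.cons (P.lf 453056 0 0) (P.cons (P.lf 0 55722 0) P.nil)))) (P.cons (P.cons (P.lf 0 197188 0) (P.cons (P.lf 103792 0 0) (P.cons (P.lf 0 5580 0) P.nil))) (P.cons (P.cons (P.lf 912 0 0) (P.cons (P.lf 3538 0 0) P.nil)) (P.cons (P.cons (P.lf 398 0 0) P.nil) P.nil)))))) 99824)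
 (EL.cons 3 (TM.mk (P.cons (P.cons (P.lf 0 62124491 0) (P.cons (P.lf 0 244605568 0) (P.cons (P.lf 112484122 0 0) (P.cons (P.lf 0 7402850 0) (P.cons (P.lf 0 3855000 0) (P.cons (P.lf 286466 0 0) P.nil)))))) (P.cons (P.cons (P.lf 48623738 0 0) (P.cons (P.lf 0 1092971 0) (P.cons (P.lf 10081553 0 0) (P.cons (P.lf 0 1313927 0) (P.cons (P.lf 0 401356 0) P.nil))))) (P.cons (P.cons (P.lf 0 6989061 0) (P.cons (P.lf 3593464 0 0) (P.cons (P.lf 0 113000 0) (P.cons (P.lf 0 97098 0) P.nil)))) (P.cons (P.cons (P.lf 10012 0 0) (P.cons (P.lf 184653 0 0) (P.cons (P.lf 0 36361 0) P.nil))) (P.cons (P.cons (P.lf 24560 0 0) (P.cons (P.lf 0 3455 0) P.nil)) (P.cons (P.cons (P.lf 281 0 0) P.nil) P.nil)))))) 181527)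
 (EL.cons 7 (TM.mk (P.cons (P.cons (P.lf 29901583 0 0) (P.cons (P.lf 111863763 0 0) (P.cons (P.lf 0 78970121 0) (P.cons (P.lf 7066483 0 0) (P.cons (P.lf 2866926 0 0) (P.cons (P.lf 0 213039 0) P.nil)))))) (P.cons (P.cons (P.lf 0 24389733 0) (P.cons (P.lf 548244 0 0) (P.cons (P.lf 0 5056919 0) (P.cons (P.lf 659066 0 0) (P.cons (P.lf 201320 0 0) P.nil))))) (P.cons (P.cons (P.lf 4173687 0 0) (P.cons (P.lf 0 1817502 0) (P.cons (P.lf 195175 0 0) (P.cons (P.lf 30649 0 0) P.nil)))) (P.cons (P.cons (P.lf 0 140950 0) (P.cons (P.lf 0 26620 0) (P.cons (P.lf 14524 0 0) P.nil))) (P.cons (P.cons (P.lf 0 10238 0) (P.cons (P.lf 4658 0 0) P.nil)) (P.cons (P.cons (P.lf 352 0 0) P.nil) P.nil)))))) 91960)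
 (EL.cons 10 (TM.mk (P.cons (P.cons (P.lf 74154144 0 0) (P.cons (P.lf 307190412 0 0) (P.cons (P.lf 0 76175094 0) (P.cons (P.lf 0 27363558 0) (P.cons (P.lf 3640572 0 0) (P.cons (P.lf 694464 0 0) P.nil)))))) (P.cons (P.cons (P.lf 0 46013208 0) (P.cons (P.lf 43290528 0 0) (P.cons (P.lf 0 4585374 0) (P.cons (P.lf 0 3259164 0) (P.cons (P.lf 374760 0 0) P.nil))))) (P.cons (P.cons (P.lf 715230 0 0) (P.cons (P.lf 1128990 0 0) (P.cons (P.lf 0 328170 0) (P.cons (P.lf 0 105246 0) P.nil)))) (P.cons (P.cons (P.lf 204840 0 0) (P.cons (P.lf 0 42366 0) (P.cons (P.lf 0 12918 0) P.nil))) (P.cons (P.cons (P.lf 3114 0 0) (P.cons (P.lf 0 2160 0) P.nil)) (P.cons (P.cons (P.lf 0 186 0) P.nil) P.nil)))))) 164688)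
 EL.nil))))
noncomputable def S169_176_512_660_9 : EL := (EL.cons 3 (TM.mk (P.cons (P.lf 0 2318373686 0) (P.cons (P.lf 74364787 0 0) (P.cons (P.lf 1209847 0 0) (P.cons (P.lf 0 3431 0) (P.cons (P.lf 0 281 0) (P.cons (P.lf 0 0 0) P.nil)))))) 55)
 (EL.cons 7 (TM.mk (P.cons (P.lf 0 1643358119 0) (P.cons (P.lf 0 37301478 0) (P.cons (P.lf 414724 0 0) (P.cons (P.lf 11772 0 0) (P.cons (P.lf 30 0 0) (P.cons (P.lf 0 2 0) P.nil)))))) 46)
 EL.nil))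
noncomputable def S169_176_512_660_10 : EL := (EL.cons 3 (TM.mk (P.cons (P.cons (P.lf 49128040 0 0) (P.cons (P.lf 211123713 0 0) (P.cons (P.lf 0 14115238 0) (P.lf 0 4705078 0)))) (P.cons (P.cons (P.lf 0 34290417 0) (P.cons (P.lf 7604401 0 0) (P.cons (P.lf 0 508410 0) (P.lf 0 169468 0)))) (P.cons (P.cons (P.lf 2982192 0 0) (P.cons (P.lf 0 404838 0) (P.cons (P.lf 27068 0 0) (P.lf 9022 0 0)))) (P.cons (P.cons (P.lf 2737 0 0) (P.cons (P.lf 0 21853 0) (P.cons (P.lf 1458 0 0) P.nil))) (P.cons (P.cons (P.lf 0 3599 0) (P.cons (P.lf 0 0 0) P.nil)) (P.cons (P.cons (P.lf 0 33 0) P.nil) P.nil)))))) 846)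
 (EL.cons 7 (TM.mk (P.cons (P.cons (P.lf 34823964 0 0) (P.cons (P.lf 149653126 0 0) (P.cons (P.lf 0 10005458 0) (P.lf 0 3335152 0)))) (P.cons (P.cons (P.lf 0 22398982 0) (P.cons (P.lf 13587501 0 0) (P.cons (P.lf 0 908427 0) (P.lf 0 302808 0)))) (P.cons (P.cons (P.lf 853093 0 0) (P.cons (P.lf 311550 0 0) (P.cons (P.lf 0 20827 0) (P.lf 0 6942 0)))) (P.cons (P.cons (P.lf 71430 0 0) (P.cons (P.lf 0 7573 0) (P.cons (P.lf 505 0 0) P.nil))) (P.cons (P.cons (P.lf 0 101 0) (P.cons (P.lf 0 439 0) P.nil)) (P.cons (P.cons (P.lf 0 61 0) P.nil) P.nil)))))) 517)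
 EL.nil))
noncomputable def S169_176_512_660_11 : EL := (EL.cons 3 (TM.mk (P.cons (P.cons (P.lf 0 1041059 0) (P.cons (P.lf 0 8947732 0) (P.cons (P.lf 0 18627848 0) (P.cons (P.lf 2770228 0 0) (P.cons (P.lf 771000 0 0) (P.cons (P.lf 0 57292 0) P.nil)))))) (P.cons (P.cons (P.lf 1419884 0 0) (P.cons (P.lf 5636047 0 0) (P.cons (P.lf 0 2378509 0) (P.cons (P.lf 142051 0 0) (P.cons (P.lf 80270 0 0) P.nil))))) (P.cons (P.cons (P.lf 0 588567 0) (P.cons (P.lf 0 124928 0) (P.cons (P.lf 0 17096 0) (P.cons (P.lf 6186 0 0) P.nil)))) (P.cons (P.cons (P.lf 69964 0 0) (P.cons (P.lf 0 32163 0) (P.cons (P.lf 6953 0 0) P.nil))) (P.cons (P.cons (P.lf 0 1666 0) (P.cons (P.lf 0 71 0) P.nil)) (P.cons (P.cons (P.lf 0 127 0) P.nil) P.nil)))))) 34343)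
 (EL.cons 7 (TM.mk (P.cons (P.cons (P.lf 0 737945 0) (P.cons (P.lf 0 6342519 0) (P.cons (P.lf 0 13204181 0) (P.cons (P.lf 1963651 0 0) (P.cons (P.lf 546516 0 0) (P.cons (P.lf 0 40611 0) P.nil)))))) (P.cons (P.cons (P.lf 966051 0 0) (P.cons (P.lf 3647652 0 0) (P.cons (P.lf 0 2409239 0) (P.cons (P.lf 208250 0 0) (P.cons (P.lf 86834 0 0) P.nil))))) (P.cons (P.cons (P.lf 0 363567 0) (P.cons (P.lf 117420 0 0) (P.cons (P.lf 0 131225 0) (P.cons (P.lf 13879 0 0) P.nil)))) (P.cons (P.cons (P.lf 28718 0 0) (P.cons (P.lf 0 20092 0) (P.cons (P.lf 0 272 0) P.nil))) (P.cons (P.cons (P.lf 772 0 0) (P.cons (P.lf 0 1162 0) P.nil)) (P.cons (P.cons (P.lf 0 86 0) P.nil) P.nil)))))) 22728)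
 EL.nil))
noncomputable def S169_176_512_660_12 : EL := (EL.cons 4 (TM.mk (P.cons (P.lf 2318373686 0 0) (P.cons (P.lf 0 74364787 0) (P.cons (P.lf 0 1209847 0) (P.cons (P.lf 3431 0 0) (P.cons (P.lf 281 0 0) (P.cons (P.lf 0 0 0) P.nil)))))) 55)
 (EL.cons 8 (TM.mk (P.cons (P.lf 1643358119 0 0) (P.cons (P.lf 37301478 0 0) (P.cons (P.lf 0 414724 0) (P.cons (P.lf 0 11772 0) (P.cons (P.lf 0 30 0) (P.cons (P.lf 2 0 0) P.nil)))))) 46)
 EL.nil))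
noncomputable def S169_176_512_660_13 : EL := (EL.cons 4 (TM.mk (P.cons (P.cons (P.lf 0 49128040 0) (P.cons (P.lf 0 211123713 0) (P.cons (P.lf 14115238 0 0) (P.lf 4705078 0 0)))) (P.cons (P.cons (P.lf 34290417 0 0) (P.cons (P.lf 0 7604401 0) (P.cons (P.lf 508410 0 0) (P.lf 169468 0 0)))) (P.cons (P.cons (P.lf 0 2982192 0) (P.cons (P.lf 404838 0 0) (P.cons (P.lf 0 27068 0) (P.lf 0 9022 0)))) (P.cons (P.cons (P.lf 0 2737 0) (P.cons (P.lf 21853 0 0) (P.cons (P.lf 0 1458 0) P.nil))) (P.cons (P.cons (P.lf 3599 0 0) (P.cons (P.lf 0 0 0) P.nil)) (P.cons (P.cons (P.lf 33 0 0) P.nil) P.nil)))))) 846)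
 (EL.cons 8 (TM.mk (P.cons (P.cons (P.lf 0 34823964 0) (P.cons (P.lf 0 149653126 0) (P.cons (P.lf 10005458 0 0) (P.lf 3335152 0 0)))) (P.cons (P.cons (P.lf 22398982 0 0) (P.cons (P.lf 0 13587501 0) (P.cons (P.lf 908427 0 0) (P.lf 302808 0 0)))) (P.cons (P.cons (P.lf 0 853093 0) (P.cons (P.lf 0 311550 0) (P.cons (P.lf 20827 0 0) (P.lf 6942 0 0)))) (P.cons (P.cons (P.lf 0 71430 0) (P.cons (P.lf 7573 0 0) (P.cons (P.lf 0 505 0) P.nil))) (P.cons (P.cons (P.lf 101 0 0) (P.cons (P.lf 439 0 0) P.nil)) (P.cons (P.cons (P.lf 61 0 0) P.nil) P.nil)))))) 517)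
 EL.nil))
noncomputable def S169_176_512_660_14 : EL := (EL.cons 4 (TM.mk (P.cons (P.cons (P.lf 1041059 0 0) (P.cons (P.lf 8947732 0 0) (P.cons (P.lf 18627848 0 0) (P.cons (P.lf 0 2770228 0) (P.cons (P.lf 0 771000 0) (P.cons (P.lf 57292 0 0) P.nil)))))) (P.cons (P.cons (P.lf 0 1419884 0) (P.cons (P.lf 0 5636047 0) (P.cons (P.lf 2378509 0 0) (P.cons (P.lf 0 142051 0) (P.cons (P.lf 0 80270 0) P.nil))))) (P.cons (P.cons (P.lf 588567 0 0) (P.cons (P.lf 124928 0 0) (P.cons (P.lf 17096 0 0) (P.cons (P.lf 0 6186 0) P.nil)))) (P.cons (P.cons (P.lf 0 69964 0) (P.cons (P.lf 32163 0 0) (P.cons (P.lf 0 6953 0) P.nil))) (P.cons (P.cons (P.lf 1666 0 0) (P.cons (P.lf 71 0 0) P.nil)) (P.cons (P.cons (P.lf 127 0 0) P.nil) P.nil)))))) 34343)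
 (EL.cons 8 (TM.mk (P.cons (P.cons (P.lf 737945 0 0) (P.cons (P.lf 6342519 0 0) (P.cons (P.lf 13204181 0 0) (P.cons (P.lf 0 1963651 0) (P.cons (P.lf 0 546516 0) (P.cons (P.lf 40611 0 0) P.nil)))))) (P.cons (P.cons (P.lf 0 966051 0) (P.cons (P.lf 0 3647652 0) (P.cons (P.lf 2409239 0 0) (P.cons (P.lf 0 208250 0) (P.cons (P.lf 0 86834 0) P.nil))))) (P.cons (P.cons (P.lf 363567 0 0) (P.cons (P.lf 0 117420 0) (P.cons (P.lf 131225 0 0) (P.cons (P.lf 0 13879 0) P.nil)))) (P.cons (P.cons (P.lf 0 28718 0) (P.cons (P.lf 20092 0 0) (P.cons (P.lf 272 0 0) P.nil))) (P.cons (P.cons (P.lf 0 772 0) (P.cons (P.lf 1162 0 0) P.nil)) (P.cons (P.cons (P.lf 86 0 0) P.nil) P.nil)))))) 22728)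
 EL.nil))
noncomputable def S169_176_512_660_15 : EL := (EL.cons 4 (TM.mk (P.cons (P.lf 0 1334860063 0) (P.cons (P.lf 85634671 0 0) (P.cons (P.lf 19777 0 0) (P.cons (P.lf 0 48639 0) (P.cons (P.lf 0 560 0) (P.cons (P.lf 12 0 0) P.nil)))))) 71)
 (EL.cons 8 (TM.mk (P.cons (P.lf 0 946203425 0) (P.cons (P.lf 8873445 0 0) (P.cons (P.lf 1421475 0 0) (P.cons (P.lf 8926 0 0) (P.cons (P.lf 0 471 0) (P.cons (P.lf 0 7 0) P.nil)))))) 54)
 EL.nil))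
noncomputable def S169_176_512_660_16 : EL := (EL.cons 4 (TM.mk (P.cons (P.cons (P.lf 28286664 0 0) (P.cons (P.lf 121559615 0 0) (P.cons (P.lf 0 8127192 0) (P.lf 0 2709062 0)))) (P.cons (P.cons (P.lf 0 20650872 0) (P.cons (P.lf 479239 0 0) (P.cons (P.lf 0 32040 0) (P.lf 0 10679 0)))) (P.cons (P.cons (P.lf 2335606 0 0) (P.cons (P.lf 0 436975 0) (P.cons (P.lf 29216 0 0) (P.lf 9737 0 0)))) (P.cons (P.cons (P.lf 0 43155 0) (P.cons (P.lf 0 7210 0) (P.cons (P.lf 480 0 0) P.nil))) (P.cons (P.cons (P.lf 0 3044 0) (P.cons (P.lf 545 0 0) P.nil)) (P.cons (P.cons (P.lf 45 0 0) P.nil) P.nil)))))) 634)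
 (EL.cons 8 (TM.mk (P.cons (P.cons (P.lf 20050745 0 0) (P.cons (P.lf 86166428 0 0) (P.cons (P.lf 0 5760886 0) (P.lf 0 1920294 0)))) (P.cons (P.cons (P.lf 0 13539912 0) (P.cons (P.lf 5059436 0 0) (P.cons (P.lf 0 338261 0) (P.lf 0 112752 0)))) (P.cons (P.cons (P.lf 894405 0 0) (P.cons (P.lf 0 116526 0) (P.cons (P.lf 7791 0 0) (P.lf 2597 0 0)))) (P.cons (P.cons (P.lf 32132 0 0) (P.cons (P.lf 0 14069 0) (P.cons (P.lf 939 0 0) P.nil))) (P.cons (P.cons (P.lf 0 1650 0) (P.cons (P.lf 0 184 0) P.nil)) (P.cons (P.cons (P.lf 0 55 0) P.nil) P.nil)))))) 507)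
 EL.nil))
noncomputable def S169_176_512_660_17 : EL := (EL.cons 4 (TM.mk (P.cons (P.cons (P.lf 0 599415 0) (P.cons (P.lf 0 5151874 0) (P.cons (P.lf 0 10725436 0) (P.cons (P.lf 1595025 0 0) (P.cons (P.lf 443922 0 0) (P.cons (P.lf 0 32986 0) P.nil)))))) (P.cons (P.cons (P.lf 836760 0 0) (P.cons (P.lf 3410343 0 0) (P.cons (P.lf 0 1025452 0) (P.cons (P.lf 30627 0 0) (P.cons (P.lf 31978 0 0) P.nil))))) (P.cons (P.cons (P.lf 0 364792 0) (P.cons (P.lf 0 173332 0) (P.cons (P.lf 39680 0 0) (P.cons (P.lf 105 0 0) P.nil)))) (P.cons (P.cons (P.lf 50726 0 0) (P.cons (P.lf 0 17912 0) (P.cons (P.lf 5017 0 0) P.nil))) (P.cons (P.cons (P.lf 0 2073 0) (P.cons (P.lf 594 0 0) P.nil)) (P.cons (P.cons (P.lf 0 63 0) P.nil) P.nil)))))) 23366)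
 (EL.cons 8 (TM.mk (P.cons (P.cons (P.lf 0 424889 0) (P.cons (P.lf 0 3651859 0) (P.cons (P.lf 0 7602628 0) (P.cons (P.lf 1130619 0 0) (P.cons (P.lf 314670 0 0) (P.cons (P.lf 0 23382 0) P.nil)))))) (P.cons (P.cons (P.lf 569856 0 0) (P.cons (P.lf 2217362 0 0) (P.cons (P.lf 0 1143313 0) (P.cons (P.lf 83639 0 0) (P.cons (P.lf 39903 0 0) P.nil))))) (P.cons (P.cons (P.lf 0 226952 0) (P.cons (P.lf 2146 0 0) (P.cons (P.lf 0 27093 0) (P.cons (P.lf 3555 0 0) P.nil)))) (P.cons (P.cons (P.lf 22959 0 0) (P.cons (P.lf 0 14838 0) (P.cons (P.lf 2978 0 0) P.nil))) (P.cons (P.cons (P.lf 24 0 0) (P.cons (P.lf 0 330 0) P.nil)) (P.cons (P.cons (P.lf 0 72 0) P.nil) P.nil)))))) 15883)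
 EL.nil))
noncomputable def S169_176_512_660_18 : EL := (EL.cons 4 (TM.mk (P.cons (P.lf 768578162 0 0) (P.cons (P.lf 0 73959368 0) (P.cons (P.lf 1169088 0 0) (P.cons (P.lf 55238 0 0) (P.cons (P.lf 0 548 0) (P.cons (P.lf 0 37 0) P.nil)))))) 68)
 (EL.cons 8 (TM.mk (P.cons (P.lf 544799646 0 0) (P.cons (P.lf 0 22584244 0) (P.cons (P.lf 0 938872 0) (P.cons (P.lf 24585 0 0) (P.cons (P.lf 921 0 0) (P.cons (P.lf 0 3 0) P.nil)))))) 50)
 EL.nil))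
noncomputable def S169_176_512_660_19 : EL := (EL.cons 4 (TM.mk (P.cons (P.cons (P.lf 0 16286734 0) (P.cons (P.lf 0 69990906 0) (P.cons (P.lf 4679428 0 0) (P.lf 1559808 0 0)))) (P.cons (P.cons (P.lf 12412660 0 0) (P.cons (P.lf 1969112 0 0) (P.cons (P.lf 0 131650 0) (P.lf 0 43883 0)))) (P.cons (P.cons (P.lf 0 1717678 0) (P.cons (P.lf 296974 0 0) (P.cons (P.lf 0 19855 0) (P.lf 0 6617 0)))) (P.cons (P.cons (P.lf 61754 0 0) (P.cons (P.lf 0 3877 0) (P.cons (P.lf 259 0 0) P.nil))) (P.cons (P.cons (P.lf 1673 0 0) (P.cons (P.lf 0 587 0) P.nil)) (P.cons (P.cons (P.lf 0 95 0) P.nil) P.nil)))))) 691)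
 (EL.cons 8 (TM.mk (P.cons (P.cons (P.lf 0 11544704 0) (P.cons (P.lf 0 49612418 0) (P.cons (P.lf 3316970 0 0) (P.lf 1105656 0 0)))) (P.cons (P.cons (P.lf 8166244 0 0) (P.cons (P.lf 0 1321712 0) (P.cons (P.lf 88366 0 0) (P.lf 29455 0 0)))) (P.cons (P.cons (P.lf 0 759015 0) (P.cons (P.lf 186424 0 0) (P.cons (P.lf 0 12464 0) (P.lf 0 4154 0)))) (P.cons (P.cons (P.lf 0 6068 0) (P.cons (P.lf 7395 0 0) (P.cons (P.lf 0 494 0) P.nil))) (P.cons (P.cons (P.lf 1822 0 0) (P.cons (P.lf 0 198 0) P.nil)) (P.cons (P.cons (P.lf 11 0 0) P.nil) P.nil)))))) 394)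
 EL.nil))
noncomputable def S169_176_512_660_20 : EL := (EL.cons 4 (TM.mk (P.cons (P.cons (P.lf 345127 0 0) (P.cons (P.lf 2966316 0 0) (P.cons (P.lf 6175430 0 0) (P.cons (P.lf 0 918375 0) (P.cons (P.lf 0 255598 0) (P.cons (P.lf 18992 0 0) P.nil)))))) (P.cons (P.cons (P.lf 0 492855 0) (P.cons (P.lf 0 2058736 0) (P.cons (P.lf 392344 0 0) (P.cons (P.lf 11822 0 0) (P.cons (P.lf 0 10213 0) P.nil))))) (P.cons (P.cons (P.lf 225312 0 0) (P.cons (P.lf 161236 0 0) (P.cons (P.lf 0 45008 0) (P.cons (P.lf 983 0 0) P.nil)))) (P.cons (P.cons (P.lf 0 35691 0) (P.cons (P.lf 8141 0 0) (P.cons (P.lf 0 2455 0) P.nil))) (P.cons (P.cons (P.lf 2020 0 0) (P.cons (P.lf 0 727 0) P.nil)) (P.cons (P.cons (P.lf 14 0 0) P.nil) P.nil)))))) 16438)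
 (EL.cons 8 (TM.mk (P.cons (P.cons (P.lf 244640 0 0) (P.cons (P.lf 2102647 0 0) (P.cons (P.lf 4377398 0 0) (P.cons (P.lf 0 650981 0) (P.cons (P.lf 0 181179 0) (P.cons (P.lf 13463 0 0) P.nil)))))) (P.cons (P.cons (P.lf 0 335955 0) (P.cons (P.lf 0 1344145 0) (P.cons (P.lf 517880 0 0) (P.cons (P.lf 0 27276 0) (P.cons (P.lf 0 17163 0) P.nil))))) (P.cons (P.cons (P.lf 141070 0 0) (P.cons (P.lf 38618 0 0) (P.cons (P.lf 0 7799 0) (P.cons (P.lf 0 162 0) P.nil)))) (P.cons (P.cons (P.lf 0 17239 0) (P.cons (P.lf 9252 0 0) (P.cons (P.lf 0 2552 0) P.nil))) (P.cons (P.cons (P.lf 341 0 0) (P.cons (P.lf 0 84 0) P.nil)) (P.cons (P.cons (P.lf 49 0 0) P.nil) P.nil)))))) 10496)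
 EL.nil))
noncomputable def S169_176_512_660_21 : EL := (EL.cons 4 (TM.mk (P.cons (P.cons (P.lf 0 1441276968 0) (P.cons (P.lf 633371139 0 0) (P.cons (P.lf 0 42345714 0) (P.lf 0 14115234 0)))) (P.cons (P.cons (P.lf 154032762 0 0) (P.cons (P.lf 22813203 0 0) (P.cons (P.lf 0 1525230 0) (P.lf 0 508404 0)))) (P.cons (P.cons (P.lf 9005910 0 0) (P.cons (P.lf 0 1214514 0) (P.cons (P.lf 81204 0 0) (P.lf 27066 0 0)))) (P.cons (P.cons (P.lf 0 137703 0) (P.cons (P.lf 0 65559 0) (P.cons (P.lf 4374 0 0) P.nil))) (P.cons (P.cons (P.lf 0 12477 0) (P.cons (P.lf 0 0 0) P.nil)) (P.cons (P.cons (P.lf 0 66 0) P.nil) P.nil)))))) 2781)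
 (EL.cons 8 (TM.mk (P.cons (P.cons (P.lf 722946462 0 0) (P.cons (P.lf 0 317699820 0) (P.cons (P.lf 21240675 0 0) (P.lf 7080225 0 0)))) (P.cons (P.cons (P.lf 0 116862138 0) (P.cons (P.lf 5958744 0 0) (P.cons (P.lf 0 398385 0) (P.lf 0 132792 0)))) (P.cons (P.cons (P.lf 418671 0 0) (P.cons (P.lf 926613 0 0) (P.cons (P.lf 0 61944 0) (P.lf 0 20649 0)))) (P.cons (P.cons (P.lf 221547 0 0) (P.cons (P.lf 0 2955 0) (P.cons (P.lf 195 0 0) P.nil))) (P.cons (P.cons (P.lf 639 0 0) (P.cons (P.lf 0 1089 0) P.nil)) (P.cons (P.cons (P.lf 0 174 0) P.nil) P.nil)))))) 2331)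
 (EL.cons 11 (TM.mk (P.cons (P.cons (P.lf 1749683244 0 0) (P.cons (P.lf 0 270894903 0) (P.cons (P.lf 0 130508622 0) (P.cons (P.lf 4938828 0 0) (P.lf 1234707 0 0))))) (P.cons (P.cons (P.lf 79429758 0 0) (P.cons (P.lf 0 12297720 0) (P.cons (P.lf 0 5924652 0) (P.cons (P.lf 224205 0 0) (P.lf 56049 0 0))))) (P.cons (P.cons (P.lf 18345 0 0) (P.cons (P.lf 0 2838 0) (P.cons (P.lf 0 1368 0) (P.cons (P.lf 51 0 0) P.nil)))) (P.cons (P.cons (P.lf 0 45111 0) (P.cons (P.lf 6984 0 0) (P.cons (P.lf 3363 0 0) P.nil))) (P.cons (P.cons (P.lf 0 519 0) (P.cons (P.lf 78 0 0) P.nil)) (P.cons (P.cons (P.lf 6 0 0) P.nil) P.nil)))))) 465)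
 EL.nil)))
noncomputable def S169_176_512_660_22 : EL := (EL.cons 4 (TM.mk (P.cons (P.cons (P.lf 30541716 0 0) (P.cons (P.lf 117828918 0 0) (P.cons (P.lf 0 65555985 0) (P.cons (P.lf 5086539 0 0) (P.cons (P.lf 2313000 0 0) (P.cons (P.lf 0 171879 0) P.nil)))))) (P.cons (P.cons (P.lf 0 23601927 0) (P.cons (P.lf 3364509 0 0) (P.cons (P.lf 0 6230031 0) (P.cons (P.lf 727989 0 0) (P.cons (P.lf 240813 0 0) P.nil))))) (P.cons (P.cons (P.lf 3200247 0 0) (P.cons (P.lf 0 1859196 0) (P.cons (P.lf 47952 0 0) (P.cons (P.lf 51642 0 0) P.nil)))) (P.cons (P.cons (P.lf 29976 0 0) (P.cons (P.lf 0 108408 0) (P.cons (P.lf 21657 0 0) P.nil))) (P.cons (P.cons (P.lf 0 13113 0) (P.cons (P.lf 1692 0 0) P.nil)) (P.cons (P.cons (P.lf 0 204 0) P.nil) P.nil)))))) 73581)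
 (EL.cons 8 (TM.mk (P.cons (P.cons (P.lf 0 15319764 0) (P.cons (P.lf 0 59103141 0) (P.cons (P.lf 32882970 0 0) (P.cons (P.lf 0 2551416 0) (P.cons (P.lf 0 1160205 0) (P.cons (P.lf 86214 0 0) P.nil)))))) (P.cons (P.cons (P.lf 12677892 0 0) (P.cons (P.lf 1549704 0 0) (P.cons (P.lf 1323840 0 0) (P.cons (P.lf 0 225408 0) (P.cons (P.lf 0 57243 0) P.nil))))) (P.cons (P.cons (P.lf 0 2268627 0) (P.cons (P.lf 967461 0 0) (P.cons (P.lf 0 163200 0) (P.cons (P.lf 0 8385 0) P.nil)))) (P.cons (P.cons (P.lf 84834 0 0) (P.cons (P.lf 3264 0 0) (P.cons (P.lf 0 7398 0) P.nil))) (P.cons (P.cons (P.lf 5505 0 0) (P.cons (P.lf 0 2910 0) P.nil)) (P.cons (P.cons (P.lf 0 219 0) P.nil) P.nil)))))) 34605)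
 (EL.cons 11 (TM.mk (P.cons (P.cons (P.lf 0 37077072 0) (P.cons (P.lf 0 153595206 0) (P.cons (P.lf 38087547 0 0) (P.cons (P.lf 13681779 0 0) (P.cons (P.lf 0 1820286 0) (P.cons (P.lf 0 347232 0) P.nil)))))) (P.cons (P.cons (P.lf 23006604 0 0) (P.cons (P.lf 0 21645264 0) (P.cons (P.lf 2292687 0 0) (P.cons (P.lf 1629582 0 0) (P.cons (P.lf 0 187380 0) P.nil))))) (P.cons (P.cons (P.lf 0 357615 0) (P.cons (P.lf 0 564495 0) (P.cons (P.lf 164085 0 0) (P.cons (P.lf 52623 0 0) P.nil)))) (P.cons (P.cons (P.lf 0 102420 0) (P.cons (P.lf 21183 0 0) (P.cons (P.lf 6459 0 0) P.nil))) (P.cons (P.cons (P.lf 0 1557 0) (P.cons (P.lf 1080 0 0) P.nil)) (P.cons (P.cons (P.lf 93 0 0) P.nil) P.nil)))))) 82344)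
 EL.nil)))
noncomputable def S169_176_512_660_23 : EL := (EL.cons 4 (TM.mk (P.cons (P.cons (P.lf 829850283 0 0) (P.cons (P.lf 0 364678845 0) (P.cons (P.lf 24381573 0 0) (P.lf 8127189 0 0)))) (P.cons (P.cons (P.lf 0 115306614 0) (P.cons (P.lf 0 1437717 0) (P.cons (P.lf 96117 0 0) (P.lf 32034 0 0)))) (P.cons (P.cons (P.lf 0 2773644 0) (P.cons (P.lf 1310922 0 0) (P.cons (P.lf 0 87645 0) (P.lf 0 29214 0)))) (P.cons (P.cons (P.lf 293121 0 0) (P.cons (P.lf 21630 0 0) (P.cons (P.lf 0 1440 0) P.nil))) (P.cons (P.cons (P.lf 7314 0 0) (P.cons (P.lf 0 1638 0) P.nil)) (P.cons (P.cons (P.lf 0 252 0) P.nil) P.nil)))))) 2550)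
 (EL.cons 8 (TM.mk (P.cons (P.cons (P.lf 0 416254017 0) (P.cons (P.lf 182923401 0 0) (P.cons (P.lf 0 12229833 0) (P.lf 0 4076610 0)))) (P.cons (P.cons (P.lf 80638095 0 0) (P.cons (P.lf 0 9298392 0) (P.cons (P.lf 621666 0 0) (P.lf 207219 0 0)))) (P.cons (P.cons (P.lf 0 2182128 0) (P.cons (P.lf 0 518928 0) (P.cons (P.lf 34689 0 0) (P.lf 11562 0 0)))) (P.cons (P.cons (P.lf 0 155556 0) (P.cons (P.lf 20874 0 0) (P.cons (P.lf 0 1392 0) P.nil))) (P.cons (P.cons (P.lf 3897 0 0) (P.cons (P.lf 867 0 0) P.nil)) (P.cons (P.cons (P.lf 186 0 0) P.nil) P.nil)))))) 1941)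
 (EL.cons 11 (TM.mk (P.cons (P.cons (P.lf 0 1007422701 0) (P.cons (P.lf 155974332 0 0) (P.cons (P.lf 75143514 0 0) (P.cons (P.lf 0 2843649 0) (P.lf 0 710910 0))))) (P.cons (P.cons (P.lf 0 13419249 0) (P.cons (P.lf 2077635 0 0) (P.cons (P.lf 1000938 0 0) (P.cons (P.lf 0 37875 0) (P.lf 0 9468 0))))) (P.cons (P.cons (P.lf 1982124 0 0) (P.cons (P.lf 0 306882 0) (P.cons (P.lf 0 147846 0) (P.cons (P.lf 5595 0 0) P.nil)))) (P.cons (P.cons (P.lf 48687 0 0) (P.cons (P.lf 0 7536 0) (P.cons (P.lf 0 3630 0) P.nil))) (P.cons (P.cons (P.lf 0 717 0) (P.cons (P.lf 111 0 0) P.nil)) (P.cons (P.cons (P.lf 0 30 0) P.nil) P.nil)))))) 1944)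
 EL.nil)))
noncomputable def S169_176_512_660_24 : EL := (EL.cons 4 (TM.mk (P.cons (P.cons (P.lf 0 17585136 0) (P.cons (P.lf 0 67842864 0) (P.cons (P.lf 37745454 0 0) (P.cons (P.lf 0 2928699 0) (P.cons (P.lf 0 1331766 0) (P.cons (P.lf 98961 0 0) P.nil)))))) (P.cons (P.cons (P.lf 14153448 0 0) (P.cons (P.lf 238944 0 0) (P.cons (P.lf 2376360 0 0) (P.cons (P.lf 0 325215 0) (P.cons (P.lf 0 95934 0) P.nil))))) (P.cons (P.cons (P.lf 0 2269338 0) (P.cons (P.lf 1168017 0 0) (P.cons (P.lf 0 162366 0) (P.cons (P.lf 0 14760 0) P.nil)))) (P.cons (P.cons (P.lf 34725 0 0) (P.cons (P.lf 28992 0 0) (P.cons (P.lf 0 13398 0) P.nil))) (P.cons (P.cons (P.lf 9081 0 0) (P.cons (P.lf 0 3546 0) P.nil)) (P.cons (P.cons (P.lf 0 114 0) P.nil) P.nil)))))) 39033)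
 (EL.cons 8 (TM.mk (P.cons (P.cons (P.lf 8820726 0 0) (P.cons (P.lf 34030071 0 0) (P.cons (P.lf 0 18933168 0) (P.cons (P.lf 1469040 0 0) (P.cons (P.lf 668016 0 0) (P.cons (P.lf 0 49638 0) P.nil)))))) (P.cons (P.cons (P.lf 0 7582539 0) (P.cons (P.lf 0 1983837 0) (P.cons (P.lf 0 154926 0) (P.cons (P.lf 82662 0 0) (P.cons (P.lf 11529 0 0) P.nil))))) (P.cons (P.cons (P.lf 1535757 0 0) (P.cons (P.lf 0 546177 0) (P.cons (P.lf 128295 0 0) (P.cons (P.lf 0 99 0) P.nil)))) (P.cons (P.cons (P.lf 0 86922 0) (P.cons (P.lf 16503 0 0) (P.cons (P.lf 1614 0 0) P.nil))) (P.cons (P.cons (P.lf 0 2292 0) (P.cons (P.lf 2028 0 0) P.nil)) (P.cons (P.cons (P.lf 255 0 0) P.nil) P.nil)))))) 18789)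
 (EL.cons 11 (TM.mk (P.cons (P.cons (P.lf 21348024 0 0) (P.cons (P.lf 88436178 0 0) (P.cons (P.lf 0 21929829 0) (P.cons (P.lf 0 7877616 0) (P.cons (P.lf 1048074 0 0) (P.cons (P.lf 199926 0 0) P.nil)))))) (P.cons (P.cons (P.lf 0 13931376 0) (P.cons (P.lf 9626082 0 0) (P.cons (P.lf 0 616641 0) (P.cons (P.lf 0 685587 0) (P.cons (P.lf 74271 0 0) P.nil))))) (P.cons (P.cons (P.lf 619668 0 0) (P.cons (P.lf 0 120885 0) (P.cons (P.lf 0 40689 0) (P.cons (P.lf 3906 0 0) P.nil)))) (P.cons (P.cons (P.lf 59310 0 0) (P.cons (P.lf 0 28995 0) (P.cons (P.lf 0 30 0) P.nil))) (P.cons (P.cons (P.lf 0 1116 0) (P.cons (P.lf 0 372 0) P.nil)) (P.cons (P.cons (P.lf 0 114 0) P.nil) P.nil)))))) 40809)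
 EL.nil)))
noncomputable def S169_176_512_660_25 : EL := (EL.cons 4 (TM.mk (P.cons (P.cons (P.lf 0 477806493 0) (P.cons (P.lf 209972718 0 0) (P.cons (P.lf 0 14038284 0) (P.lf 0 4679427 0)))) (P.cons (P.cons (P.lf 81716841 0 0) (P.cons (P.lf 0 5907339 0) (P.cons (P.lf 394953 0 0) (P.lf 131652 0 0)))) (P.cons (P.cons (P.lf 0 283224 0) (P.cons (P.lf 0 890922 0) (P.cons (P.lf 59565 0 0) (P.lf 19854 0 0)))) (P.cons (P.cons (P.lf 0 255351 0) (P.cons (P.lf 11634 0 0) (P.cons (P.lf 0 780 0) P.nil))) (P.cons (P.cons (P.lf 408 0 0) (P.cons (P.lf 1764 0 0) P.nil)) (P.cons (P.cons (P.lf 378 0 0) P.nil) P.nil)))))) 1977)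
 (EL.cons 8 (TM.mk (P.cons (P.cons (P.lf 239668377 0 0) (P.cons (P.lf 0 105322599 0) (P.cons (P.lf 7041624 0 0) (P.lf 2347206 0 0)))) (P.cons (P.cons (P.lf 0 54117012 0) (P.cons (P.lf 8732130 0 0) (P.cons (P.lf 0 583809 0) (P.lf 0 194601 0)))) (P.cons (P.cons (P.lf 2620620 0 0) (P.cons (P.lf 182019 0 0) (P.cons (P.lf 0 12165 0) (P.lf 0 4056 0)))) (P.cons (P.cons (P.lf 73848 0 0) (P.cons (P.lf 0 24552 0) (P.cons (P.lf 1638 0 0) P.nil))) (P.cons (P.cons (P.lf 0 5811 0) (P.cons (P.lf 0 273 0) P.nil)) (P.cons (P.cons (P.lf 0 84 0) P.nil) P.nil)))))) 1482)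
 (EL.cons 11 (TM.mk (P.cons (P.cons (P.lf 580048134 0 0) (P.cons (P.lf 0 89806017 0) (P.cons (P.lf 0 43265706 0) (P.cons (P.lf 1637298 0 0) (P.lf 409323 0 0))))) (P.cons (P.cons (P.lf 0 10879320 0) (P.cons (P.lf 1684392 0 0) (P.cons (P.lf 811485 0 0) (P.cons (P.lf 0 30708 0) (P.lf 0 7677 0))))) (P.cons (P.cons (P.lf 0 1691790 0) (P.cons (P.lf 261930 0 0) (P.cons (P.lf 126189 0 0) (P.cons (P.lf 0 4773 0) P.nil)))) (P.cons (P.cons (P.lf 5400 0 0) (P.cons (P.lf 0 834 0) (P.cons (P.lf 0 402 0) P.nil))) (P.cons (P.cons (P.lf 1989 0 0) (P.cons (P.lf 0 306 0) P.nil)) (P.cons (P.cons (P.lf 18 0 0) P.nil) P.nil)))))) 1710)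
 EL.nil)))
noncomputable def S169_176_512_660_26 : EL := (EL.cons 4 (TM.mk (P.cons (P.cons (P.lf 10125069 0 0) (P.cons (P.lf 39062181 0 0) (P.cons (P.lf 0 21732861 0) (P.cons (P.lf 1686270 0 0) (P.cons (P.lf 766797 0 0) (P.cons (P.lf 0 56979 0) P.nil)))))) (P.cons (P.cons (P.lf 0 8473965 0) (P.cons (P.lf 0 1390548 0) (P.cons (P.lf 0 671136 0) (P.cons (P.lf 133161 0 0) (P.cons (P.lf 30639 0 0) P.nil))))) (P.cons (P.cons (P.lf 1562739 0 0) (P.cons (P.lf 0 688485 0) (P.cons (P.lf 148716 0 0) (P.cons (P.lf 1611 0 0) P.nil)))) (P.cons (P.cons (P.lf 0 57636 0) (P.cons (P.lf 5007 0 0) (P.cons (P.lf 5397 0 0) P.nil))) (P.cons (P.cons (P.lf 0 5280 0) (P.cons (P.lf 2931 0 0) P.nil)) (P.cons (P.cons (P.lf 243 0 0) P.nil) P.nil)))))) 21216)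
 (EL.cons 8 (TM.mk (P.cons (P.cons (P.lf 0 5078748 0) (P.cons (P.lf 0 19593642 0) (P.cons (P.lf 10901232 0 0) (P.cons (P.lf 0 845835 0) (P.cons (P.lf 0 384624 0) (P.cons (P.lf 28581 0 0) P.nil)))))) (P.cons (P.cons (P.lf 4528737 0 0) (P.cons (P.lf 1770732 0 0) (P.cons (P.lf 0 260466 0) (P.cons (P.lf 0 20463 0) (P.cons (P.lf 5697 0 0) P.nil))))) (P.cons (P.cons (P.lf 0 1021638 0) (P.cons (P.lf 288060 0 0) (P.cons (P.lf 0 82419 0) (P.cons (P.lf 2025 0 0) P.nil)))) (P.cons (P.cons (P.lf 76125 0 0) (P.cons (P.lf 0 20214 0) (P.cons (P.lf 1407 0 0) P.nil))) (P.cons (P.cons (P.lf 180 0 0) (P.cons (P.lf 0 1026 0) P.nil)) (P.cons (P.cons (P.lf 0 216 0) P.nil) P.nil)))))) 10530)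
 (EL.cons 11 (TM.mk (P.cons (P.cons (P.lf 0 12291645 0) (P.cons (P.lf 0 50919279 0) (P.cons (P.lf 12626634 0 0) (P.cons (P.lf 4535730 0 0) (P.cons (P.lf 0 603453 0) (P.cons (P.lf 0 115113 0) P.nil)))))) (P.cons (P.cons (P.lf 8415600 0 0) (P.cons (P.lf 0 3909150 0) (P.cons (P.lf 0 49968 0) (P.cons (P.lf 249252 0 0) (P.cons (P.lf 0 23406 0) P.nil))))) (P.cons (P.cons (P.lf 0 607668 0) (P.cons (P.lf 273957 0 0) (P.cons (P.lf 5448 0 0) (P.cons (P.lf 0 17277 0) P.nil)))) (P.cons (P.cons (P.lf 0 26910 0) (P.cons (P.lf 17277 0 0) (P.cons (P.lf 0 897 0) P.nil))) (P.cons (P.cons (P.lf 1935 0 0) (P.cons (P.lf 0 369 0) P.nil)) (P.cons (P.cons (P.lf 63 0 0) P.nil) P.nil)))))) 19926)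
 EL.nil)))
noncomputable def S169_176_512_660_27 : EL := (EL.cons 13 (TM.mk (P.lf 0 4294967296 0) 0)
 EL.nil)
noncomputable def S169_176_512_660_28 : EL := (EL.cons 13 (TM.mk (P.cons (P.cons (P.lf 91013510 0 0) (P.cons (P.lf 391123076 0 0) (P.cons (P.lf 0 26149576 0) (P.lf 0 8716524 0)))) (P.cons (P.cons (P.lf 0 60606287 0) (P.cons (P.lf 26633516 0 0) (P.cons (P.lf 0 1780652 0) (P.lf 0 593548 0)))) (P.cons (P.cons (P.lf 3628215 0 0) (P.cons (P.lf 308416 0 0) (P.cons (P.lf 0 20616 0) (P.lf 0 6872 0)))) (P.cons (P.cons (P.lf 89689 0 0) (P.cons (P.lf 0 17272 0) (P.cons (P.lf 1152 0 0) P.nil))) (P.cons (P.cons (P.lf 0 1819 0) (P.cons (P.lf 0 480 0) P.nil)) (P.cons (P.cons (P.lf 0 73 0) P.nil) P.nil)))))) 826)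
 EL.nil)
noncomputable def S169_176_512_660_29 : EL := (EL.cons 13 (TM.mk (P.cons (P.cons (P.lf 0 1928643 0) (P.cons (P.lf 0 16576370 0) (P.cons (P.lf 0 34509536 0) (P.cons (P.lf 5132064 0 0) (P.cons (P.lf 1428338 0 0) (P.cons (P.lf 0 106139 0) P.nil)))))) (P.cons (P.cons (P.lf 2568583 0 0) (P.cons (P.lf 9909508 0 0) (P.cons (P.lf 0 5513312 0) (P.cons (P.lf 427781 0 0) (P.cons (P.lf 194524 0 0) P.nil))))) (P.cons (P.cons (P.lf 0 1008984 0) (P.cons (P.lf 77770 0 0) (P.cons (P.lf 0 226528 0) (P.cons (P.lf 27861 0 0) P.nil)))) (P.cons (P.cons (P.lf 98594 0 0) (P.cons (P.lf 0 51896 0) (P.cons (P.lf 2790 0 0) P.nil))) (P.cons (P.cons (P.lf 0 456 0) (P.cons (P.lf 0 1769 0) P.nil)) (P.cons (P.cons (P.lf 0 199 0) P.nil) P.nil)))))) 49912)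
 EL.nil)
noncomputable def S169_176_512_660_30 : EL := (EL.cons 13 (TM.mk (P.cons (P.lf 2472931932 0 0) (P.cons (P.lf 0 79322440 0) (P.cons (P.lf 0 1290504 0) (P.cons (P.lf 3660 0 0) (P.cons (P.lf 300 0 0) (P.cons (P.lf 0 0 0) P.nil)))))) 52)
 EL.nil)
noncomputable def S169_176_512_660_31 : EL := (EL.cons 13 (TM.mk (P.cons (P.cons (P.lf 0 52403243 0) (P.cons (P.lf 0 225198628 0) (P.cons (P.lf 15056254 0 0) (P.lf 5018750 0 0)))) (P.cons (P.cons (P.lf 36576445 0 0) (P.cons (P.lf 0 8111362 0) (P.cons (P.lf 542305 0 0) (P.lf 180766 0 0)))) (P.cons (P.cons (P.lf 0 3181005 0) (P.cons (P.lf 431828 0 0) (P.cons (P.lf 0 28873 0) (P.lf 0 9624 0)))) (P.cons (P.cons (P.lf 0 2920 0) (P.cons (P.lf 23310 0 0) (P.cons (P.lf 0 1556 0) P.nil))) (P.cons (P.cons (P.lf 3839 0 0) (P.cons (P.lf 0 0 0) P.nil)) (P.cons (P.cons (P.lf 36 0 0) P.nil) P.nil)))))) 883)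
 EL.nil)
noncomputable def S169_176_512_660_32 : EL := (EL.cons 13 (TM.mk (P.cons (P.cons (P.lf 1110463 0 0) (P.cons (P.lf 9544248 0 0) (P.cons (P.lf 19869705 0 0) (P.cons (P.lf 0 2954910 0) (P.cons (P.lf 0 822400 0) (P.cons (P.lf 61112 0 0) P.nil)))))) (P.cons (P.cons (P.lf 0 1514543 0) (P.cons (P.lf 0 6011784 0) (P.cons (P.lf 2537077 0 0) (P.cons (P.lf 0 151522 0) (P.cons (P.lf 0 85622 0) P.nil))))) (P.cons (P.cons (P.lf 627805 0 0) (P.cons (P.lf 133257 0 0) (P.cons (P.lf 18236 0 0) (P.cons (P.lf 0 6599 0) P.nil)))) (P.cons (P.cons (P.lf 0 74629 0) (P.cons (P.lf 34308 0 0) (P.cons (P.lf 0 7417 0) P.nil))) (P.cons (P.cons (P.lf 1778 0 0) (P.cons (P.lf 76 0 0) P.nil)) (P.cons (P.cons (P.lf 136 0 0) P.nil) P.nil)))))) 36610)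
 EL.nil)
noncomputable def S169_176_512_660_33 : EL := (EL.cons 14 (TM.mk (P.lf 8589934592 0 0) 0)
 EL.nil)
noncomputable def S169_176_512_660_34 : EL := (EL.cons 14 (TM.mk (P.cons (P.cons (P.lf 0 182027020 0) (P.cons (P.lf 0 782246152 0) (P.cons (P.lf 52299152 0 0) (P.lf 17433048 0 0)))) (P.cons (P.cons (P.lf 121212574 0 0) (P.cons (P.lf 0 53267032 0) (P.cons (P.lf 3561304 0 0) (P.lf 1187096 0 0)))) (P.cons (P.cons (P.lf 0 7256430 0) (P.cons (P.lf 0 616832 0) (P.cons (P.lf 41232 0 0) (P.lf 13744 0 0)))) (P.cons (P.cons (P.lf 0 179378 0) (P.cons (P.lf 34544 0 0) (P.cons (P.lf 0 2304 0) P.nil))) (P.cons (P.cons (P.lf 3638 0 0) (P.cons (P.lf 960 0 0) P.nil)) (P.cons (P.cons (P.lf 146 0 0) P.nil) P.nil)))))) 1652)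
 EL.nil)
noncomputable def S169_176_512_660_35 : EL := (EL.cons 14 (TM.mk (P.cons (P.cons (P.lf 3857286 0 0) (P.cons (P.lf 33152740 0 0) (P.cons (P.lf 69019072 0 0) (P.cons (P.lf 0 10264128 0) (P.cons (P.lf 0 2856676 0) (P.cons (P.lf 212278 0 0) P.nil)))))) (P.cons (P.cons (P.lf 0 5137166 0) (P.cons (P.lf 0 19819016 0) (P.cons (P.lf 11026624 0 0) (P.cons (P.lf 0 855562 0) (P.cons (P.lf 0 389048 0) P.nil))))) (P.cons (P.cons (P.lf 2017968 0 0) (P.cons (P.lf 0 155540 0) (P.cons (P.lf 453056 0 0) (P.cons (P.lf 0 55722 0) P.nil)))) (P.cons (P.cons (P.lf 0 197188 0) (P.cons (P.lf 103792 0 0) (P.cons (P.lf 0 5580 0) P.nil))) (P.cons (P.cons (P.lf 912 0 0) (P.cons (P.lf 3538 0 0) P.nil)) (P.cons (P.cons (P.lf 398 0 0) P.nil) P.nil)))))) 99824)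
 EL.nil)
noncomputable def S169_176_512_660_36 : EL := (EL.cons 14 (TM.mk (P.cons (P.lf 0 4945863864 0) (P.cons (P.lf 158644880 0 0) (P.cons (P.lf 2581008 0 0) (P.cons (P.lf 0 7320 0) (P.cons (P.lf 0 600 0) (P.cons (P.lf 0 0 0) P.nil)))))) 104)
 EL.nil)
noncomputable def S169_176_512_660_37 : EL := (EL.cons 14 (TM.mk (P.cons (P.cons (P.lf 104806486 0 0) (P.cons (P.lf 450397256 0 0) (P.cons (P.lf 0 30112508 0) (P.lf 0 10037500 0)))) (P.cons (P.cons (P.lf 0 73152890 0) (P.cons (P.lf 16222724 0 0) (P.cons (P.lf 0 1084610 0) (P.lf 0 361532 0)))) (P.cons (P.cons (P.lf 6362010 0 0) (P.cons (P.lf 0 863656 0) (P.cons (P.lf 57746 0 0) (P.lf 19248 0 0)))) (P.cons (P.cons (P.lf 5840 0 0) (P.cons (P.lf 0 46620 0) (P.cons (P.lf 3112 0 0) P.nil))) (P.cons (P.cons (P.lf 0 7678 0) (P.cons (P.lf 0 0 0) P.nil)) (P.cons (P.cons (P.lf 0 72 0) P.nil) P.nil)))))) 1766)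
 EL.nil)
noncomputable def S169_176_512_660_38 : EL := (EL.cons 14 (TM.mk (P.cons (P.cons (P.lf 0 2220926 0) (P.cons (P.lf 0 19088496 0) (P.cons (P.lf 0 39739410 0) (P.cons (P.lf 5909820 0 0) (P.cons (P.lf 1644800 0 0) (P.cons (P.lf 0 122224 0) P.nil)))))) (P.cons (P.cons (P.lf 3029086 0 0) (P.cons (P.lf 12023568 0 0) (P.cons (P.lf 0 5074154 0) (P.cons (P.lf 303044 0 0) (P.cons (P.lf 171244 0 0) P.nil))))) (P.cons (P.cons (P.lf 0 1255610 0) (P.cons (P.lf 0 266514 0) (P.cons (P.lf 0 36472 0) (P.cons (P.lf 13198 0 0) P.nil)))) (P.cons (P.cons (P.lf 149258 0 0) (P.cons (P.lf 0 68616 0) (P.cons (P.lf 14834 0 0) P.nil))) (P.cons (P.cons (P.lf 0 3556 0) (P.cons (P.lf 0 152 0) P.nil)) (P.cons (P.cons (P.lf 0 272 0) P.nil) P.nil)))))) 73220)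
 EL.nil)
noncomputable def S169_176_512_660_39 : EL := (EL.cons 14 (TM.mk (P.cons (P.lf 2847701468 0 0) (P.cons (P.lf 0 182687300 0) (P.cons (P.lf 0 42192 0) (P.cons (P.lf 103764 0 0) (P.cons (P.lf 1196 0 0) (P.cons (P.lf 0 26 0) P.nil)))))) 138)
 EL.nil)
noncomputable def S169_176_512_660_40 : EL := (EL.cons 14 (TM.mk (P.cons (P.cons (P.lf 0 60344884 0) (P.cons (P.lf 0 259327180 0) (P.cons (P.lf 17338010 0 0) (P.lf 5779334 0 0)))) (P.cons (P.cons (P.lf 44055194 0 0) (P.cons (P.lf 0 1022378 0) (P.cons (P.lf 68352 0 0) (P.lf 22782 0 0)))) (P.cons (P.cons (P.lf 0 4982628 0) (P.cons (P.lf 932214 0 0) (P.cons (P.lf 0 62328 0) (P.lf 0 20774 0)))) (P.cons (P.cons (P.lf 92064 0 0) (P.cons (P.lf 15382 0 0) (P.cons (P.lf 0 1026 0) P.nil))) (P.cons (P.cons (P.lf 6494 0 0) (P.cons (P.lf 0 1164 0) P.nil)) (P.cons (P.cons (P.lf 0 98 0) P.nil) P.nil)))))) 1312)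
 EL.nil)
noncomputable def S169_176_512_660_41 : EL := (EL.cons 14 (TM.mk (P.cons (P.cons (P.lf 1278752 0 0) (P.cons (P.lf 10990666 0 0) (P.cons (P.lf 22880932 0 0) (P.cons (P.lf 0 3402722 0) (P.cons (P.lf 0 947034 0) (P.cons (P.lf 70372 0 0) P.nil)))))) (P.cons (P.cons (P.lf 0 1785088 0) (P.cons (P.lf 0 7275400 0) (P.cons (P.lf 2187632 0 0) (P.cons (P.lf 0 65338 0) (P.cons (P.lf 0 68220 0) P.nil))))) (P.cons (P.cons (P.lf 778224 0 0) (P.cons (P.lf 369776 0 0) (P.cons (P.lf 0 84652 0) (P.cons (P.lf 0 226 0) P.nil)))) (P.cons (P.cons (P.lf 0 108216 0) (P.cons (P.lf 38214 0 0) (P.cons (P.lf 0 10704 0) P.nil))) (P.cons (P.cons (P.lf 4424 0 0) (P.cons (P.lf 0 1268 0) P.nil)) (P.cons (P.cons (P.lf 136 0 0) P.nil) P.nil)))))) 49802)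
 EL.nil)
noncomputable def S169_176_512_660_42 : EL := (EL.cons 14 (TM.mk (P.cons (P.lf 0 1639633414 0) (P.cons (P.lf 157779986 0 0) (P.cons (P.lf 0 2494056 0) (P.cons (P.lf 0 117842 0) (P.cons (P.lf 1170 0 0) (P.cons (P.lf 80 0 0) P.nil)))))) 132)
 EL.nil)
noncomputable def S169_176_512_660_43 : EL := (EL.cons 14 (TM.mk (P.cons (P.cons (P.lf 34745034 0 0) (P.cons (P.lf 149313934 0 0) (P.cons (P.lf 0 9982780 0) (P.lf 0 3327592 0)))) (P.cons (P.cons (P.lf 0 26480342 0) (P.cons (P.lf 0 4200774 0) (P.cons (P.lf 280854 0 0) (P.lf 93618 0 0)))) (P.cons (P.cons (P.lf 3664380 0 0) (P.cons (P.lf 0 633546 0) (P.cons (P.lf 42358 0 0) (P.lf 14118 0 0)))) (P.cons (P.cons (P.lf 0 131742 0) (P.cons (P.lf 8272 0 0) (P.cons (P.lf 0 554 0) P.nil))) (P.cons (P.cons (P.lf 0 3570 0) (P.cons (P.lf 1254 0 0) P.nil)) (P.cons (P.cons (P.lf 204 0 0) P.nil) P.nil)))))) 1434)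
 EL.nil)
noncomputable def S169_176_512_660_44 : EL := (EL.cons 14 (TM.mk (P.cons (P.cons (P.lf 0 736272 0) (P.cons (P.lf 0 6328142 0) (P.cons (P.lf 0 13174252 0) (P.cons (P.lf 1959200 0 0) (P.cons (P.lf 545276 0 0) (P.cons (P.lf 0 40518 0) P.nil)))))) (P.cons (P.cons (P.lf 1051424 0 0) (P.cons (P.lf 4391972 0 0) (P.cons (P.lf 0 837002 0) (P.cons (P.lf 0 25222 0) (P.cons (P.lf 21788 0 0) P.nil))))) (P.cons (P.cons (P.lf 0 480666 0) (P.cons (P.lf 0 343972 0) (P.cons (P.lf 96018 0 0) (P.cons (P.lf 0 2098 0) P.nil)))) (P.cons (P.cons (P.lf 76142 0 0) (P.cons (P.lf 0 17368 0) (P.cons (P.lf 5238 0 0) P.nil))) (P.cons (P.cons (P.lf 0 4310 0) (P.cons (P.lf 1552 0 0) P.nil)) (P.cons (P.cons (P.lf 0 30 0) P.nil) P.nil)))))) 35022)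
 EL.nil)
noncomputable def S169_176_512_660_45 : EL := (EL.cons 14 (TM.mk (P.cons (P.cons (P.lf 0 81738 0) (P.cons (P.lf 0 1053796 0) (P.cons (P.lf 0 4458148 0) (P.cons (P.lf 0 5858070 0) (P.cons (P.lf 1482742 0 0) (P.cons (P.lf 333226 0 0) P.nil)))))) (P.cons (P.cons (P.lf 163290 0 0) (P.cons (P.lf 1331696 0 0) (P.cons (P.lf 2309830 0 0) (P.cons (P.lf 0 1675658 0) (P.cons (P.lf 169602 0 0) P.nil))))) (P.cons (P.cons (P.lf 0 118510 0) (P.cons (P.lf 0 456564 0) (P.cons (P.lf 232548 0 0) (P.cons (P.lf 0 122424 0) P.nil)))) (P.cons (P.cons (P.lf 36912 0 0) (P.cons (P.lf 17482 0 0) (P.cons (P.lf 0 11564 0) P.nil))) (P.cons (P.cons (P.lf 0 4396 0) (P.cons (P.lf 2922 0 0) P.nil)) (P.cons (P.cons (P.lf 126 0 0) P.nil) P.nil)))))) 234266)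
 EL.nil)
noncomputable def S169_176_512_660_46 : EL := (EL.cons 15 (TM.mk (P.lf 4294967296 0 0) 0)
 EL.nil)
noncomputable def S169_176_512_660_47 : EL := (EL.cons 15 (TM.mk (P.cons (P.cons (P.lf 0 91013510 0) (P.cons (P.lf 0 391123076 0) (P.cons (P.lf 26149576 0 0) (P.lf 8716524 0 0)))) (P.cons (P.cons (P.lf 60606287 0 0) (P.cons (P.lf 0 26633516 0) (P.cons (P.lf 1780652 0 0) (P.lf 593548 0 0)))) (P.cons (P.cons (P.lf 0 3628215 0) (P.cons (P.lf 0 308416 0) (P.cons (P.lf 20616 0 0) (P.lf 6872 0 0)))) (P.cons (P.cons (P.lf 0 89689 0) (P.cons (P.lf 17272 0 0) (P.cons (P.lf 0 1152 0) P.nil))) (P.cons (P.cons (P.lf 1819 0 0) (P.cons (P.lf 480 0 0) P.nil)) (P.cons (P.cons (P.lf 73 0 0) P.nil) P.nil)))))) 826)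
 EL.nil)
noncomputable def S169_176_512_660_48 : EL := (EL.cons 15 (TM.mk (P.cons (P.cons (P.lf 1928643 0 0) (P.cons (P.lf 16576370 0 0) (P.cons (P.lf 34509536 0 0) (P.cons (P.lf 0 5132064 0) (P.cons (P.lf 0 1428338 0) (P.cons (P.lf 106139 0 0) P.nil)))))) (P.cons (P.cons (P.lf 0 2568583 0) (P.cons (P.lf 0 9909508 0) (P.cons (P.lf 5513312 0 0) (P.cons (P.lf 0 427781 0) (P.cons (P.lf 0 194524 0) P.nil))))) (P.cons (P.cons (P.lf 1008984 0 0) (P.cons (P.lf 0 77770 0) (P.cons (P.lf 226528 0 0) (P.cons (P.lf 0 27861 0) P.nil)))) (P.cons (P.cons (P.lf 0 98594 0) (P.cons (P.lf 51896 0 0) (P.cons (P.lf 0 2790 0) P.nil))) (P.cons (P.cons (P.lf 456 0 0) (P.cons (P.lf 1769 0 0) P.nil)) (P.cons (P.cons (P.lf 199 0 0) P.nil) P.nil)))))) 49912)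
 EL.nil)
noncomputable def S169_176_512_660 : SL := (SL.cons S169_176_512_660_0 (SL.cons S169_176_512_660_1 (SL.cons S169_176_512_660_2 (SL.cons S169_176_512_660_3 (SL.cons S169_176_512_660_4 (SL.cons S169_176_512_660_5 (SL.cons S169_176_512_660_6 (SL.cons S169_176_512_660_7 (SL.cons S169_176_512_660_8 (SL.cons S169_176_512_660_9 (SL.cons S169_176_512_660_10 (SL.cons S169_176_512_660_11 (SL.cons S169_176_512_660_12 (SL.cons S169_176_512_660_13 (SL.cons S169_176_512_660_14 (SL.cons S169_176_512_660_15 (SL.cons S169_176_512_660_16 (SL.cons S169_176_512_660_17 (SL.cons S169_176_512_660_18 (SL.cons S169_176_512_660_19 (SL.cons S169_176_512_660_20 (SL.cons S169_176_512_660_21 (SL.cons S169_176_512_660_22 (SL.cons S169_176_512_660_23 (SL.cons S169_176_512_660_24 (SL.cons S169_176_512_660_25 (SL.cons S169_176_512_660_26 (SL.cons S169_176_512_660_27 (SL.cons S169_176_512_660_28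 (SL.cons S169_176_512_660_29 (SL.cons S169_176_512_660_30 (SL.cons S169_176_512_660_31 (SL.cons S169_176_512_660_32 (SL.cons S169_176_512_660_33 (SL.cons S169_176_512_660_34 (SL.cons S169_176_512_660_35 (SL.cons S169_176_512_660_36 (SL.cons S169_176_512_660_37 (SL.cons S169_176_512_660_38 (SL.cons S169_176_512_660_39 (SL.cons S169_176_512_660_40 (SL.cons S169_176_512_660_41 (SL.cons S169_176_512_660_42 (SL.cons S169_176_512_660_43 (SL.cons S169_176_512_660_44 (SL.cons S169_176_512_660_45 (SL.cons S169_176_512_660_46 (SL.cons S169_176_512_660_47 (SL.cons S169_176_512_660_48 SL.nil)))))))))))))))))))))))))))))))))))))))))))))))))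
noncomputable def S169_183_216_290_0 : EL := (EL.cons 0 (TM.mk (P.cons (P.lf 6113364111 0 0) (P.cons (P.lf 320722925 0 0) (P.cons (P.lf 0 970595 0) (P.cons (P.lf 0 761763 0) (P.cons (P.lf 0 15236 0) (P.cons (P.lf 715 0 0) P.nil)))))) 165)
 (EL.cons 1 (TM.mk (P.cons (P.lf 0 1754812605 0) (P.cons (P.lf 44029685 0 0) (P.cons (P.lf 10840057 0 0) (P.cons (P.lf 104334 0 0) (P.cons (P.lf 0 15399 0) (P.cons (P.lf 0 481 0) P.nil)))))) 128)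
 (EL.cons 5 (TM.mk (P.cons (P.lf 5127803834 0 0) (P.cons (P.lf 0 114034818 0) (P.cons (P.lf 345096 0 0) (P.cons (P.lf 270848 0 0) (P.cons (P.lf 5418 0 0) (P.cons (P.lf 0 254 0) P.nil)))))) 109)
 (EL.cons 9 (TM.mk (P.lf 6442450944 0 0) 2)
 EL.nil))))
noncomputable def S169_183_216_290_1 : EL := (EL.cons 0 (TM.mk (P.cons (P.cons (P.lf 0 1723701321 0) (P.cons (P.lf 11021151 0 0) (P.cons (P.lf 5202656 0 0) (P.lf 0 247739 0)))) (P.cons (P.cons (P.lf 1031526487 0 0) (P.cons (P.lf 0 14040501 0) (P.cons (P.lf 0 6627976 0) (P.lf 315615 0 0)))) (P.cons (P.cons (P.lf 59554136 0 0) (P.cons (P.lf 0 1939833 0) (P.cons (P.lf 0 915715 0) (P.lf 43595 0 0)))) (P.cons (P.cons (P.lf 0 6942903 0) (P.cons (P.lf 1246 0 0) (P.cons (P.lf 592 0 0) P.nil))) (P.cons (P.cons (P.lf 0 535172 0) (P.cons (P.lf 11104 0 0) P.nil)) (P.cons (P.cons (P.lf 14017 0 0) P.nil) P.nil)))))) 19295)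
 (EL.cons 1 (TM.mk (P.cons (P.cons (P.lf 0 1181317679 0) (P.cons (P.lf 32803209 0 0) (P.cons (P.lf 15485121 0 0) (P.lf 0 737380 0)))) (P.cons (P.cons (P.lf 0 318408119 0) (P.cons (P.lf 7943853 0 0) (P.cons (P.lf 3749983 0 0) (P.lf 0 178563 0)))) (P.cons (P.cons (P.lf 41858668 0 0) (P.cons (P.lf 0 161462 0) (P.cons (P.lf 0 76225 0) (P.lf 3633 0 0)))) (P.cons (P.cons (P.lf 4084922 0 0) (P.cons (P.lf 0 90779 0) (P.cons (P.lf 0 42846 0) P.nil))) (P.cons (P.cons (P.lf 0 175057 0) (P.cons (P.lf 0 2640 0) P.nil)) (P.cons (P.cons (P.lf 0 21465 0) P.nil) P.nil)))))) 10303)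
 (EL.cons 5 (TM.mk (P.cons (P.cons (P.lf 3271839985 0 0) (P.cons (P.lf 0 91990116 0) (P.cons (P.lf 0 43424964 0) (P.lf 2067850 0 0)))) (P.cons (P.cons (P.lf 167248930 0 0) (P.cons (P.lf 0 6467040 0) (P.cons (P.lf 0 3052842 0) (P.lf 145378 0 0)))) (P.cons (P.cons (P.lf 0 41000775 0) (P.cons (P.lf 475896 0 0) (P.cons (P.lf 224646 0 0) (P.lf 0 10690 0)))) (P.cons (P.cons (P.lf 360940 0 0) (P.cons (P.lf 31870 0 0) (P.cons (P.lf 15040 0 0) P.nil))) (P.cons (P.cons (P.lf 201114 0 0) (P.cons (P.lf 0 2372 0) P.nil)) (P.cons (P.cons (P.lf 0 331 0) P.nil) P.nil)))))) 9135)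
 (EL.cons 9 (TM.mk (P.cons (P.cons (P.lf 2346148585 0 0) (P.cons (P.lf 0 77710122 0) (P.cons (P.lf 0 36683934 0) (P.lf 1746852 0 0)))) (P.cons (P.cons (P.lf 471188722 0 0) (P.cons (P.lf 0 10111068 0) (P.cons (P.lf 0 4773042 0) (P.lf 227286 0 0)))) (P.cons (P.cons (P.lf 0 17493505 0) (P.cons (P.lf 0 188664 0) (P.cons (P.lf 0 89058 0) (P.lf 4236 0 0)))) (P.cons (P.cons (P.lf 0 1859676 0) (P.cons (P.lf 28506 0 0) (P.cons (P.lf 13452 0 0) P.nil))) (P.cons (P.cons (P.lf 9564 0 0) (P.cons (P.lf 1386 0 0) P.nil)) (P.cons (P.cons (P.lf 4089 0 0) P.nil) P.nil)))))) 2303)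
 (EL.cons 2 (TM.mk (P.cons (P.cons (P.lf 208621527 0 0) (P.cons (P.lf 205709625 0 0) (P.cons (P.lf 0 6436850 0) (P.cons (P.lf 0 1179525 0) (P.lf 42122 0 0))))) (P.cons (P.cons (P.lf 3813612 0 0) (P.cons (P.lf 3760382 0 0) (P.cons (P.lf 0 117663 0) (P.cons (P.lf 0 21560 0) (P.lf 767 0 0))))) (P.cons (P.cons (P.lf 0 1739340 0) (P.cons (P.lf 0 1715062 0) (P.cons (P.lf 53662 0 0) (P.cons (P.lf 9832 0 0) P.nil)))) (P.cons (P.cons (P.lf 0 74477 0) (P.cons (P.lf 0 73440 0) (P.cons (P.lf 2295 0 0) P.nil))) (P.cons (P.cons (P.lf 2930 0 0) (P.cons (P.lf 2888 0 0) P.nil)) (P.cons (P.cons (P.lf 230 0 0) P.nil) P.nil)))))) 1475)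
 (EL.cons 6 (TM.mk (P.cons (P.cons (P.lf 156292293 0 0) (P.cons (P.lf 154110792 0 0) (P.cons (P.lf 0 4822272 0) (P.cons (P.lf 0 883659 0) (P.lf 31557 0 0))))) (P.cons (P.cons (P.lf 20335605 0 0) (P.cons (P.lf 20051763 0 0) (P.cons (P.lf 0 627438 0) (P.cons (P.lf 0 114972 0) (P.lf 4104 0 0))))) (P.cons (P.cons (P.lf 379446 0 0) (P.cons (P.lf 374148 0 0) (P.cons (P.lf 0 11706 0) (P.cons (P.lf 0 2145 0) P.nil)))) (P.cons (P.cons (P.lf 0 57342 0) (P.cons (P.lf 0 56541 0) (P.cons (P.lf 1767 0 0) P.nil))) (P.cons (P.cons (P.lf 0 2790 0) (P.cons (P.lf 0 2751 0) P.nil)) (P.cons (P.cons (P.lf 42 0 0) P.nil) P.nil)))))) 858)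
 EL.nil))))))
noncomputable def S169_183_216_290_2 : EL := (EL.cons 0 (TM.mk (P.cons (P.cons (P.lf 0 2066195173 0) (P.cons (P.lf 103318660 0 0) (P.cons (P.lf 47617378 0 0) (P.cons (P.lf 0 3413292 0) (P.cons (P.lf 0 205512 0) (P.cons (P.lf 24513 0 0) P.nil)))))) (P.cons (P.cons (P.lf 130976121 0 0) (P.cons (P.lf 0 7496296 0) (P.cons (P.lf 0 3512719 0) (P.cons (P.lf 193064 0 0) (P.cons (P.lf 4631 0 0) P.nil))))) (P.cons (P.cons (P.lf 166057258 0 0) (P.cons (P.lf 0 6042731 0) (P.cons (P.lf 0 2793695 0) (P.cons (P.lf 191383 0 0) P.nil)))) (P.cons (P.cons (P.lf 1832649 0 0) (P.cons (P.lf 0 346300 0) (P.cons (P.lf 0 157266 0) P.nil))) (P.cons (P.cons (P.lf 0 1882285 0) (P.cons (P.lf 48172 0 0) P.nil)) (P.cons (P.cons (P.lf 0 64071 0) P.nil) P.nil)))))) 142429)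
 (EL.cons 1 (TM.mk (P.cons (P.cons (P.lf 0 627678245 0) (P.cons (P.lf 36973769 0 0) (P.cons (P.lf 16917840 0 0) (P.cons (P.lf 0 1337215 0) (P.cons (P.lf 0 95348 0) (P.cons (P.lf 11377 0 0) P.nil)))))) (P.cons (P.cons (P.lf 0 317069509 0) (P.cons (P.lf 17258278 0 0) (P.cons (P.lf 7912388 0 0) (P.cons (P.lf 0 609402 0) (P.cons (P.lf 0 41727 0) P.nil))))) (P.cons (P.cons (P.lf 0 7539519 0) (P.cons (P.lf 822987 0 0) (P.cons (P.lf 367853 0 0) (P.cons (P.lf 0 37979 0) P.nil)))) (P.cons (P.cons (P.lf 9703653 0 0) (P.cons (P.lf 0 307641 0) (P.cons (P.lf 0 143283 0) P.nil))) (P.cons (P.cons (P.lf 350439 0 0) (P.cons (P.lf 0 28424 0) P.nil)) (P.cons (P.cons (P.lf 0 77490 0) P.nil) P.nil)))))) 74150)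
 (EL.cons 5 (TM.mk (P.cons (P.cons (P.lf 1702964206 0 0) (P.cons (P.lf 0 100881537 0) (P.cons (P.lf 0 46149133 0) (P.cons (P.lf 3658534 0 0) (P.cons (P.lf 262040 0 0) (P.cons (P.lf 0 31255 0) P.nil)))))) (P.cons (P.cons (P.lf 342374588 0 0) (P.cons (P.lf 0 18563624 0) (P.cons (P.lf 0 8495958 0) (P.cons (P.lf 669557 0 0) (P.cons (P.lf 47521 0 0) P.nil))))) (P.cons (P.cons (P.lf 0 34425867 0) (P.cons (P.lf 794861 0 0) (P.cons (P.lf 377443 0 0) (P.cons (P.lf 0 15764 0) P.nil)))) (P.cons (P.cons (P.lf 0 5086756 0) (P.cons (P.lf 228462 0 0) (P.cons (P.lf 105531 0 0) P.nil))) (P.cons (P.cons (P.lf 422677 0 0) (P.cons (P.lf 0 3738 0) P.nil)) (P.cons (P.cons (P.lf 39190 0 0) P.nil) P.nil)))))) 72693)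
 (EL.cons 9 (TM.mk (P.cons (P.cons (P.lf 854397376 0 0) (P.cons (P.lf 0 56599419 0) (P.cons (P.lf 0 25781035 0) (P.cons (P.lf 2157280 0 0) (P.cons (P.lf 166740 0 0) (P.cons (P.lf 0 19893 0) P.nil)))))) (P.cons (P.cons (P.lf 343185772 0 0) (P.cons (P.lf 0 18731442 0) (P.cons (P.lf 0 8598462 0) (P.cons (P.lf 651357 0 0) (P.cons (P.lf 43389 0 0) P.nil))))) (P.cons (P.cons (P.lf 21720628 0 0) (P.cons (P.lf 0 1194399 0) (P.cons (P.lf 0 543406 0) (P.cons (P.lf 46123 0 0) P.nil)))) (P.cons (P.cons (P.lf 0 3913360 0) (P.cons (P.lf 92938 0 0) (P.cons (P.lf 43773 0 0) P.nil))) (P.cons (P.cons (P.lf 0 217558 0) (P.cons (P.lf 11809 0 0) P.nil)) (P.cons (P.cons (P.lf 14476 0 0) P.nil) P.nil)))))) 26063)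
 (EL.cons 2 (TM.mk (P.cons (P.cons (P.lf 151947478 0 0) (P.cons (P.lf 144793755 0 0) (P.cons (P.lf 0 12026660 0) (P.cons (P.lf 0 2933336 0) (P.cons (P.lf 243995 0 0) (P.cons (P.lf 8921 0 0) P.nil)))))) (P.cons (P.cons (P.lf 33293975 0 0) (P.cons (P.lf 32082423 0 0) (P.cons (P.lf 0 2116226 0) (P.cons (P.lf 0 496040 0) (P.cons (P.lf 38373 0 0) P.nil))))) (P.cons (P.cons (P.lf 0 1841951 0) (P.cons (P.lf 0 1798470 0) (P.cons (P.lf 82743 0 0) (P.cons (P.lf 17735 0 0) P.nil)))) (P.cons (P.cons (P.lf 0 449820 0) (P.cons (P.lf 0 434660 0) (P.cons (P.lf 26820 0 0) P.nil))) (P.cons (P.cons (P.lf 0 894 0) (P.cons (P.lf 0 489 0) P.nil)) (P.cons (P.cons (P.lf 2278 0 0) P.nil) P.nil)))))) 21436)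
 (EL.cons 6 (TM.mk (P.cons (P.cons (P.lf 113833986 0 0) (P.cons (P.lf 108474654 0 0) (P.cons (P.lf 0 9009972 0) (P.cons (P.lf 0 2197554 0) (P.cons (P.lf 182790 0 0) (P.cons (P.lf 6684 0 0) P.nil)))))) (P.cons (P.cons (P.lf 37673088 0 0) (P.cons (P.lf 36166080 0 0) (P.cons (P.lf 0 2593014 0) (P.cons (P.lf 0 617370 0) (P.cons (P.lf 49188 0 0) P.nil))))) (P.cons (P.cons (P.lf 2402202 0 0) (P.cons (P.lf 2286534 0 0) (P.cons (P.lf 0 193884 0) (P.cons (P.lf 0 47430 0) P.nil)))) (P.cons (P.cons (P.lf 0 186924 0) (P.cons (P.lf 0 183930 0) (P.cons (P.lf 6324 0 0) P.nil))) (P.cons (P.cons (P.lf 0 23754 0) (P.cons (P.lf 0 22950 0) P.nil)) (P.cons (P.cons (P.lf 0 24 0) P.nil) P.nil)))))) 18258)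
 EL.nil))))))
noncomputable def S169_183_216_290_3 : EL := (EL.cons 0 (TM.mk (P.cons (P.lf 2342352752 0 0) (P.cons (P.lf 0 320722925 0) (P.cons (P.lf 970595 0 0) (P.cons (P.lf 761763 0 0) (P.cons (P.lf 15236 0 0) (P.cons (P.lf 0 715 0) P.nil)))))) 165)
 (EL.cons 1 (TM.mk (P.cons (P.lf 1754812605 0 0) (P.cons (P.lf 0 44029685 0) (P.cons (P.lf 0 10840057 0) (P.cons (P.lf 0 104334 0) (P.cons (P.lf 15399 0 0) (P.cons (P.lf 481 0 0) P.nil)))))) 128)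
 (EL.cons 5 (TM.mk (P.cons (P.lf 1314647110 0 0) (P.cons (P.lf 114034818 0 0) (P.cons (P.lf 0 345096 0) (P.cons (P.lf 0 270848 0) (P.cons (P.lf 0 5418 0) (P.cons (P.lf 254 0 0) P.nil)))))) 102)
 EL.nil)))
noncomputable def S169_183_216_290_4 : EL := (EL.cons 0 (TM.mk (P.cons (P.cons (P.lf 853015046 0 0) (P.cons (P.lf 0 28253923 0) (P.cons (P.lf 0 13337579 0) (P.lf 635120 0 0)))) (P.cons (P.cons (P.lf 54517536 0 0) (P.cons (P.lf 192431 0 0) (P.cons (P.lf 90838 0 0) (P.lf 0 4325 0)))) (P.cons (P.cons (P.lf 0 29463913 0) (P.cons (P.lf 423054 0 0) (P.cons (P.lf 199708 0 0) (P.lf 0 9511 0)))) (P.cons (P.cons (P.lf 543130 0 0) (P.cons (P.lf 9043 0 0) (P.cons (P.lf 4266 0 0) P.nil))) (P.cons (P.cons (P.lf 154683 0 0) (P.cons (P.lf 0 2322 0) P.nil)) (P.cons (P.cons (P.lf 0 483 0) P.nil) P.nil)))))) 3578)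
 (EL.cons 1 (TM.mk (P.cons (P.cons (P.lf 639050439 0 0) (P.cons (P.lf 0 21166897 0) (P.cons (P.lf 0 9992070 0) (P.lf 475811 0 0)))) (P.cons (P.cons (P.lf 112309387 0 0) (P.cons (P.lf 0 2222985 0) (P.cons (P.lf 0 1049383 0) (P.lf 49968 0 0)))) (P.cons (P.cons (P.lf 0 11932801 0) (P.cons (P.lf 148466 0 0) (P.cons (P.lf 70085 0 0) (P.lf 0 3337 0)))) (P.cons (P.cons (P.lf 0 1217803 0) (P.cons (P.lf 27324 0 0) (P.cons (P.lf 12896 0 0) P.nil))) (P.cons (P.cons (P.lf 42725 0 0) (P.cons (P.lf 478 0 0) P.nil)) (P.cons (P.cons (P.lf 5761 0 0) P.nil) P.nil)))))) 2531)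
 (EL.cons 5 (TM.mk (P.cons (P.cons (P.lf 478755288 0 0) (P.cons (P.lf 0 15857532 0) (P.cons (P.lf 0 7485726 0) (P.lf 356462 0 0)))) (P.cons (P.cons (P.lf 137678892 0 0) (P.cons (P.lf 0 3438774 0) (P.cons (P.lf 0 1623312 0) (P.lf 77300 0 0)))) (P.cons (P.cons (P.lf 4644890 0 0) (P.cons (P.lf 0 213306 0) (P.cons (P.lf 0 100692 0) (P.lf 4792 0 0)))) (P.cons (P.cons (P.lf 0 813004 0) (P.cons (P.lf 6284 0 0) (P.cons (P.lf 2966 0 0) P.nil))) (P.cons (P.cons (P.lf 0 51810 0) (P.cons (P.lf 1286 0 0) P.nil)) (P.cons (P.cons (P.lf 1534 0 0) P.nil) P.nil)))))) 1678)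
 EL.nil)))
noncomputable def S169_183_216_290_5 : EL := (EL.cons 0 (TM.mk (P.cons (P.cons (P.lf 310642651 0 0) (P.cons (P.lf 0 20578471 0) (P.cons (P.lf 0 9373492 0) (P.cons (P.lf 784344 0 0) (P.cons (P.lf 60623 0 0) (P.cons (P.lf 0 7231 0) P.nil)))))) (P.cons (P.cons (P.lf 82241574 0 0) (P.cons (P.lf 0 3992719 0) (P.cons (P.lf 0 1842785 0) (P.cons (P.lf 129424 0 0) (P.cons (P.lf 7474 0 0) P.nil))))) (P.cons (P.cons (P.lf 0 9058802 0) (P.cons (P.lf 489714 0 0) (P.cons (P.lf 226597 0 0) (P.cons (P.lf 0 15331 0) P.nil)))) (P.cons (P.cons (P.lf 0 2351406 0) (P.cons (P.lf 83735 0 0) (P.cons (P.lf 38622 0 0) P.nil))) (P.cons (P.cons (P.lf 161588 0 0) (P.cons (P.lf 0 2859 0) P.nil)) (P.cons (P.cons (P.lf 18789 0 0) P.nil) P.nil)))))) 22423)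
 (EL.cons 1 (TM.mk (P.cons (P.cons (P.lf 232723119 0 0) (P.cons (P.lf 0 15416705 0) (P.cons (P.lf 0 7022308 0) (P.cons (P.lf 587604 0 0) (P.cons (P.lf 45416 0 0) (P.cons (P.lf 0 5416 0) P.nil)))))) (P.cons (P.cons (P.lf 87638675 0 0) (P.cons (P.lf 0 4715302 0) (P.cons (P.lf 0 2165876 0) (P.cons (P.lf 162673 0 0) (P.cons (P.lf 10678 0 0) P.nil))))) (P.cons (P.cons (P.lf 2133279 0 0) (P.cons (P.lf 0 102082 0) (P.cons (P.lf 0 45870 0) (P.cons (P.lf 4481 0 0) P.nil)))) (P.cons (P.cons (P.lf 0 1805656 0) (P.cons (P.lf 65910 0 0) (P.cons (P.lf 30521 0 0) P.nil))) (P.cons (P.cons (P.lf 0 72575 0) (P.cons (P.lf 4758 0 0) P.nil)) (P.cons (P.cons (P.lf 12545 0 0) P.nil) P.nil)))))) 15764)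
 (EL.cons 5 (TM.mk (P.cons (P.cons (P.lf 174348402 0 0) (P.cons (P.lf 0 11549682 0) (P.cons (P.lf 0 5260878 0) (P.cons (P.lf 440214 0 0) (P.cons (P.lf 34024 0 0) (P.cons (P.lf 0 4058 0) P.nil)))))) (P.cons (P.cons (P.lf 85153808 0 0) (P.cons (P.lf 0 4824178 0) (P.cons (P.lf 0 2210940 0) (P.cons (P.lf 171100 0 0) (P.cons (P.lf 11804 0 0) P.nil))))) (P.cons (P.cons (P.lf 10461116 0 0) (P.cons (P.lf 0 572252 0) (P.cons (P.lf 0 261702 0) (P.cons (P.lf 20824 0 0) P.nil)))) (P.cons (P.cons (P.lf 0 468396 0) (P.cons (P.lf 1204 0 0) (P.cons (P.lf 858 0 0) P.nil))) (P.cons (P.cons (P.lf 0 129972 0) (P.cons (P.lf 4952 0 0) P.nil)) (P.cons (P.cons (P.lf 0 1854 0) P.nil) P.nil)))))) 10726)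
 EL.nil)))
noncomputable def S169_183_216_290_6 : EL := (EL.cons 12 (TM.mk (P.lf 8589934592 0 0) 0)
 (EL.cons 3 (TM.mk (P.cons (P.lf 0 2242802763 0) (P.cons (P.lf 153546101 0 0) (P.cons (P.lf 4791341 0 0) (P.cons (P.lf 0 36671 0) (P.cons (P.lf 0 4687 0) (P.cons (P.lf 0 56 0) P.nil)))))) 59)
 (EL.cons 7 (TM.mk (P.cons (P.lf 0 1680233071 0) (P.cons (P.lf 0 72873196 0) (P.cons (P.lf 1800820 0 0) (P.cons (P.lf 94981 0 0) (P.cons (P.lf 308 0 0) (P.cons (P.lf 0 74 0) P.nil)))))) 48)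
 EL.nil)))
noncomputable def S169_183_216_290_7 : EL := (EL.cons 12 (TM.mk (P.cons (P.cons (P.lf 3128198114 0 0) (P.cons (P.lf 0 103613496 0) (P.cons (P.lf 0 48911912 0) (P.lf 2329136 0 0)))) (P.cons (P.cons (P.lf 628251630 0 0) (P.cons (P.lf 0 13481424 0) (P.cons (P.lf 0 6364056 0) (P.lf 303048 0 0)))) (P.cons (P.cons (P.lf 0 23324674 0) (P.cons (P.lf 0 251552 0) (P.cons (P.lf 0 118744 0) (P.lf 5648 0 0)))) (P.cons (P.cons (P.lf 0 2479568 0) (P.cons (P.lf 38008 0 0) (P.cons (P.lf 17936 0 0) P.nil))) (P.cons (P.cons (P.lf 12752 0 0) (P.cons (P.lf 1848 0 0) P.nil)) (P.cons (P.cons (P.lf 5452 0 0) P.nil) P.nil)))))) 3046)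
 (EL.cons 3 (TM.mk (P.cons (P.cons (P.lf 2965369121 0 0) (P.cons (P.lf 0 54106262 0) (P.cons (P.lf 0 25541466 0) (P.lf 1216258 0 0)))) (P.cons (P.cons (P.lf 0 296921770 0) (P.cons (P.lf 0 3335700 0) (P.cons (P.lf 0 1574652 0) (P.lf 74980 0 0)))) (P.cons (P.cons (P.lf 0 36576909 0) (P.cons (P.lf 466192 0 0) (P.cons (P.lf 220072 0 0) (P.lf 0 10480 0)))) (P.cons (P.cons (P.lf 83722 0 0) (P.cons (P.lf 42992 0 0) (P.cons (P.lf 20290 0 0) P.nil))) (P.cons (P.cons (P.lf 154480 0 0) (P.cons (P.lf 0 340 0) P.nil)) (P.cons (P.cons (P.lf 4539 0 0) P.nil) P.nil)))))) 7741)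
 (EL.cons 7 (TM.mk (P.cons (P.cons (P.lf 0 2406895524 0) (P.cons (P.lf 58785678 0 0) (P.cons (P.lf 27750438 0 0) (P.lf 0 1321450 0)))) (P.cons (P.cons (P.lf 140919481 0 0) (P.cons (P.lf 1583131 0 0) (P.cons (P.lf 747334 0 0) (P.lf 0 35588 0)))) (P.cons (P.cons (P.lf 9479756 0 0) (P.cons (P.lf 0 309776 0) (P.cons (P.lf 0 146230 0) (P.lf 6959 0 0)))) (P.cons (P.cons (P.lf 0 1156131 0) (P.cons (P.lf 0 1916 0) (P.cons (P.lf 0 905 0) P.nil))) (P.cons (P.cons (P.lf 0 44561 0) (P.cons (P.lf 1370 0 0) P.nil)) (P.cons (P.cons (P.lf 3096 0 0) P.nil) P.nil)))))) 5809)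
 (EL.cons 10 (TM.mk (P.cons (P.cons (P.lf 0 399510228 0) (P.cons (P.lf 0 393933933 0) (P.cons (P.lf 12326571 0 0) (P.cons (P.lf 2258793 0 0) (P.lf 0 80670 0))))) (P.cons (P.cons (P.lf 0 34654224 0) (P.cons (P.lf 0 34170525 0) (P.cons (P.lf 1069227 0 0) (P.cons (P.lf 195930 0 0) (P.lf 0 6996 0))))) (P.cons (P.cons (P.lf 104871 0 0) (P.cons (P.lf 103407 0 0) (P.cons (P.lf 0 3234 0) (P.cons (P.lf 0 591 0) P.nil)))) (P.cons (P.cons (P.lf 82308 0 0) (P.cons (P.lf 81159 0 0) (P.cons (P.lf 0 2538 0) P.nil))) (P.cons (P.cons (P.lf 1644 0 0) (P.cons (P.lf 1623 0 0) P.nil)) (P.cons (P.cons (P.lf 0 75 0) P.nil) P.nil)))))) 807)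
 EL.nil))))
noncomputable def S169_183_216_290_8 : EL := (EL.cons 12 (TM.mk (P.cons (P.cons (P.lf 1139196502 0 0) (P.cons (P.lf 0 75465892 0) (P.cons (P.lf 0 34374714 0) (P.cons (P.lf 2876374 0 0) (P.cons (P.lf 222320 0 0) (P.cons (P.lf 0 26524 0) P.nil)))))) (P.cons (P.cons (P.lf 457581030 0 0) (P.cons (P.lf 0 24975256 0) (P.cons (P.lf 0 11464616 0) (P.cons (P.lf 868476 0 0) (P.cons (P.lf 57852 0 0) P.nil))))) (P.cons (P.cons (P.lf 28960838 0 0) (P.cons (P.lf 0 1592532 0) (P.cons (P.lf 0 724542 0) (P.cons (P.lf 61498 0 0) P.nil)))) (P.cons (P.cons (P.lf 0 5217814 0) (P.cons (P.lf 123918 0 0) (P.cons (P.lf 58364 0 0) P.nil))) (P.cons (P.cons (P.lf 0 290078 0) (P.cons (P.lf 15746 0 0) P.nil)) (P.cons (P.cons (P.lf 19302 0 0) P.nil) P.nil)))))) 34722)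
 (EL.cons 3 (TM.mk (P.cons (P.cons (P.lf 2457238411 0 0) (P.cons (P.lf 0 130649405 0) (P.cons (P.lf 0 60042910 0) (P.cons (P.lf 4477306 0 0) (P.cons (P.lf 290236 0 0) (P.cons (P.lf 0 34625 0) P.nil)))))) (P.cons (P.cons (P.lf 316612486 0 0) (P.cons (P.lf 0 17660882 0) (P.cons (P.lf 0 8024133 0) (P.cons (P.lf 692393 0 0) (P.cons (P.lf 55656 0 0) P.nil))))) (P.cons (P.cons (P.lf 0 87430225 0) (P.cons (P.lf 1858892 0 0) (P.cons (P.lf 880503 0 0) (P.cons (P.lf 0 38967 0) P.nil)))) (P.cons (P.cons (P.lf 0 7519226 0) (P.cons (P.lf 379705 0 0) (P.cons (P.lf 175755 0 0) P.nil))) (P.cons (P.cons (P.lf 507573 0 0) (P.cons (P.lf 4708 0 0) P.nil)) (P.cons (P.cons (P.lf 62961 0 0) P.nil) P.nil)))))) 79495)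
 (EL.cons 7 (TM.mk (P.cons (P.cons (P.lf 0 1530206809 0) (P.cons (P.lf 86119388 0 0) (P.cons (P.lf 39479919 0 0) (P.cons (P.lf 0 3043998 0) (P.cons (P.lf 0 208780 0) (P.cons (P.lf 24904 0 0) P.nil)))))) (P.cons (P.cons (P.lf 0 150264737 0) (P.cons (P.lf 8381878 0 0) (P.cons (P.lf 3808266 0 0) (P.cons (P.lf 0 328608 0) (P.cons (P.lf 0 26414 0) P.nil))))) (P.cons (P.cons (P.lf 49896754 0 0) (P.cons (P.lf 0 1350911 0) (P.cons (P.lf 0 630830 0) (P.cons (P.lf 36862 0 0) P.nil)))) (P.cons (P.cons (P.lf 285401 0 0) (P.cons (P.lf 0 103858 0) (P.cons (P.lf 0 47455 0) P.nil))) (P.cons (P.cons (P.lf 0 453730 0) (P.cons (P.lf 10761 0 0) P.nil)) (P.cons (P.cons (P.lf 0 4007 0) P.nil) P.nil)))))) 45018)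
 (EL.cons 10 (TM.mk (P.cons (P.cons (P.lf 0 290979426 0) (P.cons (P.lf 0 277280046 0) (P.cons (P.lf 23031054 0 0) (P.cons (P.lf 5617338 0 0) (P.cons (P.lf 0 467250 0) (P.cons (P.lf 0 17088 0) P.nil)))))) (P.cons (P.cons (P.lf 0 83678916 0) (P.cons (P.lf 0 80420910 0) (P.cons (P.lf 5629320 0 0) (P.cons (P.lf 1334490 0 0) (P.cons (P.lf 0 105474 0) P.nil))))) (P.cons (P.cons (P.lf 0 2823084 0) (P.cons (P.lf 0 2654034 0) (P.cons (P.lf 276138 0 0) (P.cons (P.lf 69390 0 0) P.nil)))) (P.cons (P.cons (P.lf 494130 0 0) (P.cons (P.lf 483408 0 0) (P.cons (P.lf 0 20814 0) P.nil))) (P.cons (P.cons (P.lf 31482 0 0) (P.cons (P.lf 30264 0 0) P.nil)) (P.cons (P.cons (P.lf 0 930 0) P.nil) P.nil)))))) 30324)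
 EL.nil))))
noncomputable def S169_183_216_290_9 : EL := (EL.cons 3 (TM.mk (P.cons (P.lf 0 2242802763 0) (P.cons (P.lf 153546101 0 0) (P.cons (P.lf 4791341 0 0) (P.cons (P.lf 0 36671 0) (P.cons (P.lf 0 4687 0) (P.cons (P.lf 0 56 0) P.nil)))))) 59)
 (EL.cons 7 (TM.mk (P.cons (P.lf 0 1680233071 0) (P.cons (P.lf 0 72873196 0) (P.cons (P.lf 1800820 0 0) (P.cons (P.lf 94981 0 0) (P.cons (P.lf 308 0 0) (P.cons (P.lf 0 74 0) P.nil)))))) 48)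
 EL.nil))
noncomputable def S169_183_216_290_10 : EL := (EL.cons 3 (TM.mk (P.cons (P.cons (P.lf 0 816761908 0) (P.cons (P.lf 27053131 0 0) (P.cons (P.lf 12770733 0 0) (P.lf 0 608129 0)))) (P.cons (P.cons (P.lf 0 108117454 0) (P.cons (P.lf 1667850 0 0) (P.cons (P.lf 787326 0 0) (P.lf 0 37490 0)))) (P.cons (P.cons (P.lf 19064928 0 0) (P.cons (P.lf 0 233096 0) (P.cons (P.lf 0 110036 0) (P.lf 5240 0 0)))) (P.cons (P.cons (P.lf 567550 0 0) (P.cons (P.lf 0 21496 0) (P.cons (P.lf 0 10145 0) P.nil))) (P.cons (P.cons (P.lf 0 65051 0) (P.cons (P.lf 170 0 0) P.nil)) (P.cons (P.cons (P.lf 0 2841 0) P.nil) P.nil)))))) 1854)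
 (EL.cons 7 (TM.mk (P.cons (P.cons (P.lf 0 611890797 0) (P.cons (P.lf 20267304 0 0) (P.cons (P.lf 9567408 0 0) (P.lf 0 455590 0)))) (P.cons (P.cons (P.lf 0 149427326 0) (P.cons (P.lf 3516043 0 0) (P.cons (P.lf 1659787 0 0) (P.lf 0 79037 0)))) (P.cons (P.cons (P.lf 0 111583 0) (P.cons (P.lf 141853 0 0) (P.cons (P.lf 66962 0 0) (P.lf 0 3187 0)))) (P.cons (P.cons (P.lf 849189 0 0) (P.cons (P.lf 0 9272 0) (P.cons (P.lf 0 4376 0) P.nil))) (P.cons (P.cons (P.lf 20710 0 0) (P.cons (P.lf 0 889 0) P.nil)) (P.cons (P.cons (P.lf 0 1956 0) P.nil) P.nil)))))) 1173)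
 EL.nil))
noncomputable def S169_183_216_290_11 : EL := (EL.cons 3 (TM.mk (P.cons (P.cons (P.lf 0 297440339 0) (P.cons (P.lf 19703887 0 0) (P.cons (P.lf 8975120 0 0) (P.cons (P.lf 0 751010 0) (P.cons (P.lf 0 58046 0) (P.cons (P.lf 6925 0 0) P.nil)))))) (P.cons (P.cons (P.lf 0 99109580 0) (P.cons (P.lf 5171992 0 0) (P.cons (P.lf 2378919 0 0) (P.cons (P.lf 0 175339 0) (P.cons (P.lf 0 11130 0) P.nil))))) (P.cons (P.cons (P.lf 1253165 0 0) (P.cons (P.lf 0 72724 0) (P.cons (P.lf 0 34929 0) (P.cons (P.lf 1071 0 0) P.nil)))) (P.cons (P.cons (P.lf 2130400 0 0) (P.cons (P.lf 0 74429 0) (P.cons (P.lf 0 34437 0) P.nil))) (P.cons (P.cons (P.lf 0 3951 0) (P.cons (P.lf 0 2636 0) P.nil)) (P.cons (P.cons (P.lf 0 13515 0) P.nil) P.nil)))))) 15579)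
 (EL.cons 7 (TM.mk (P.cons (P.cons (P.lf 0 222832387 0) (P.cons (P.lf 14761496 0 0) (P.cons (P.lf 6723861 0 0) (P.cons (P.lf 0 562632 0) (P.cons (P.lf 0 43486 0) (P.cons (P.lf 5188 0 0) P.nil)))))) (P.cons (P.cons (P.lf 0 99169517 0) (P.cons (P.lf 5525500 0 0) (P.cons (P.lf 2534154 0 0) (P.cons (P.lf 0 194280 0) (P.cons (P.lf 0 13202 0) P.nil))))) (P.cons (P.cons (P.lf 0 9307970 0) (P.cons (P.lf 507565 0 0) (P.cons (P.lf 231778 0 0) (P.cons (P.lf 0 18794 0) P.nil)))) (P.cons (P.cons (P.lf 883463 0 0) (P.cons (P.lf 0 16798 0) (P.cons (P.lf 0 8053 0) P.nil))) (P.cons (P.cons (P.lf 112178 0 0) (P.cons (P.lf 0 4743 0) P.nil)) (P.cons (P.cons (P.lf 0 2081 0) P.nil) P.nil)))))) 9944)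
 EL.nil))
noncomputable def S169_183_216_290_12 : EL := (EL.cons 4 (TM.mk (P.cons (P.lf 2242802763 0 0) (P.cons (P.lf 0 153546101 0) (P.cons (P.lf 0 4791341 0) (P.cons (P.lf 36671 0 0) (P.cons (P.lf 4687 0 0) (P.cons (P.lf 56 0 0) P.nil)))))) 59)
 (EL.cons 8 (TM.mk (P.cons (P.lf 1680233071 0 0) (P.cons (P.lf 72873196 0 0) (P.cons (P.lf 0 1800820 0) (P.cons (P.lf 0 94981 0) (P.cons (P.lf 0 308 0) (P.cons (P.lf 74 0 0) P.nil)))))) 48)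
 EL.nil))
noncomputable def S169_183_216_290_13 : EL := (EL.cons 4 (TM.mk (P.cons (P.cons (P.lf 816761908 0 0) (P.cons (P.lf 0 27053131 0) (P.cons (P.lf 0 12770733 0) (P.lf 608129 0 0)))) (P.cons (P.cons (P.lf 108117454 0 0) (P.cons (P.lf 0 1667850 0) (P.cons (P.lf 0 787326 0) (P.lf 37490 0 0)))) (P.cons (P.cons (P.lf 0 19064928 0) (P.cons (P.lf 233096 0 0) (P.cons (P.lf 110036 0 0) (P.lf 0 5240 0)))) (P.cons (P.cons (P.lf 0 567550 0) (P.cons (P.lf 21496 0 0) (P.cons (P.lf 10145 0 0) P.nil))) (P.cons (P.cons (P.lf 65051 0 0) (P.cons (P.lf 0 170 0) P.nil)) (P.cons (P.cons (P.lf 2841 0 0) P.nil) P.nil)))))) 1854)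
 (EL.cons 8 (TM.mk (P.cons (P.cons (P.lf 611890797 0 0) (P.cons (P.lf 0 20267304 0) (P.cons (P.lf 0 9567408 0) (P.lf 455590 0 0)))) (P.cons (P.cons (P.lf 149427326 0 0) (P.cons (P.lf 0 3516043 0) (P.cons (P.lf 0 1659787 0) (P.lf 79037 0 0)))) (P.cons (P.cons (P.lf 111583 0 0) (P.cons (P.lf 0 141853 0) (P.cons (P.lf 0 66962 0) (P.lf 3187 0 0)))) (P.cons (P.cons (P.lf 0 849189 0) (P.cons (P.lf 9272 0 0) (P.cons (P.lf 4376 0 0) P.nil))) (P.cons (P.cons (P.lf 0 20710 0) (P.cons (P.lf 889 0 0) P.nil)) (P.cons (P.cons (P.lf 1956 0 0) P.nil) P.nil)))))) 1173)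
 EL.nil))
noncomputable def S169_183_216_290_14 : EL := (EL.cons 4 (TM.mk (P.cons (P.cons (P.lf 297440339 0 0) (P.cons (P.lf 0 19703887 0) (P.cons (P.lf 0 8975120 0) (P.cons (P.lf 751010 0 0) (P.cons (P.lf 58046 0 0) (P.cons (P.lf 0 6925 0) P.nil)))))) (P.cons (P.cons (P.lf 99109580 0 0) (P.cons (P.lf 0 5171992 0) (P.cons (P.lf 0 2378919 0) (P.cons (P.lf 175339 0 0) (P.cons (P.lf 11130 0 0) P.nil))))) (P.cons (P.cons (P.lf 0 1253165 0) (P.cons (P.lf 72724 0 0) (P.cons (P.lf 34929 0 0) (P.cons (P.lf 0 1071 0) P.nil)))) (P.cons (P.cons (P.lf 0 2130400 0) (P.cons (P.lf 74429 0 0) (P.cons (P.lf 34437 0 0) P.nil))) (P.cons (P.cons (P.lf 3951 0 0) (P.cons (P.lf 2636 0 0) P.nil)) (P.cons (P.cons (P.lf 13515 0 0) P.nil) P.nil)))))) 15579)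
 (EL.cons 8 (TM.mk (P.cons (P.cons (P.lf 222832387 0 0) (P.cons (P.lf 0 14761496 0) (P.cons (P.lf 0 6723861 0) (P.cons (P.lf 562632 0 0) (P.cons (P.lf 43486 0 0) (P.cons (P.lf 0 5188 0) P.nil)))))) (P.cons (P.cons (P.lf 99169517 0 0) (P.cons (P.lf 0 5525500 0) (P.cons (P.lf 0 2534154 0) (P.cons (P.lf 194280 0 0) (P.cons (P.lf 13202 0 0) P.nil))))) (P.cons (P.cons (P.lf 9307970 0 0) (P.cons (P.lf 0 507565 0) (P.cons (P.lf 0 231778 0) (P.cons (P.lf 18794 0 0) P.nil)))) (P.cons (P.cons (P.lf 0 883463 0) (P.cons (P.lf 16798 0 0) (P.cons (P.lf 8053 0 0) P.nil))) (P.cons (P.cons (P.lf 0 112178 0) (P.cons (P.lf 4743 0 0) P.nil)) (P.cons (P.cons (P.lf 2081 0 0) P.nil) P.nil)))))) 9944)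
 EL.nil))
noncomputable def S169_183_216_290_15 : EL := (EL.cons 4 (TM.mk (P.cons (P.lf 0 1249254801 0) (P.cons (P.lf 171052227 0 0) (P.cons (P.lf 0 517650 0) (P.cons (P.lf 0 406274 0) (P.cons (P.lf 0 8126 0) (P.cons (P.lf 381 0 0) P.nil)))))) 91)
 (EL.cons 8 (TM.mk (P.cons (P.lf 0 935900056 0) (P.cons (P.lf 23482499 0 0) (P.cons (P.lf 5781364 0 0) (P.cons (P.lf 55645 0 0) (P.cons (P.lf 0 8213 0) (P.cons (P.lf 0 257 0) P.nil)))))) 65)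
 EL.nil))
noncomputable def S169_183_216_290_16 : EL := (EL.cons 4 (TM.mk (P.cons (P.cons (P.lf 0 454941358 0) (P.cons (P.lf 15068759 0 0) (P.cons (P.lf 7113375 0 0) (P.lf 0 338730 0)))) (P.cons (P.cons (P.lf 0 29076019 0) (P.cons (P.lf 0 102630 0) (P.cons (P.lf 0 48447 0) (P.lf 2307 0 0)))) (P.cons (P.cons (P.lf 15714087 0 0) (P.cons (P.lf 0 225629 0) (P.cons (P.lf 0 106511 0) (P.lf 5072 0 0)))) (P.cons (P.cons (P.lf 0 289669 0) (P.cons (P.lf 0 4823 0) (P.cons (P.lf 0 2275 0) P.nil))) (P.cons (P.cons (P.lf 0 82498 0) (P.cons (P.lf 1238 0 0) P.nil)) (P.cons (P.cons (P.lf 257 0 0) P.nil) P.nil)))))) 1917)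
 (EL.cons 8 (TM.mk (P.cons (P.cons (P.lf 0 340826901 0) (P.cons (P.lf 11289012 0 0) (P.cons (P.lf 5329104 0 0) (P.lf 0 253766 0)))) (P.cons (P.cons (P.lf 0 59898340 0) (P.cons (P.lf 1185592 0 0) (P.cons (P.lf 559671 0 0) (P.lf 0 26650 0)))) (P.cons (P.cons (P.lf 6364161 0 0) (P.cons (P.lf 0 79182 0) (P.cons (P.lf 0 37379 0) (P.lf 1780 0 0)))) (P.cons (P.cons (P.lf 649495 0 0) (P.cons (P.lf 0 14573 0) (P.cons (P.lf 0 6878 0) P.nil))) (P.cons (P.cons (P.lf 0 22787 0) (P.cons (P.lf 0 255 0) P.nil)) (P.cons (P.cons (P.lf 0 3073 0) P.nil) P.nil)))))) 1340)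
 EL.nil))
noncomputable def S169_183_216_290_17 : EL := (EL.cons 4 (TM.mk (P.cons (P.cons (P.lf 0 165676080 0) (P.cons (P.lf 10975185 0 0) (P.cons (P.lf 4999196 0 0) (P.cons (P.lf 0 418317 0) (P.cons (P.lf 0 32332 0) (P.cons (P.lf 3856 0 0) P.nil)))))) (P.cons (P.cons (P.lf 0 43862173 0) (P.cons (P.lf 2129450 0 0) (P.cons (P.lf 982818 0 0) (P.cons (P.lf 0 69026 0) (P.cons (P.lf 0 3986 0) P.nil))))) (P.cons (P.cons (P.lf 4831361 0 0) (P.cons (P.lf 0 261180 0) (P.cons (P.lf 0 120852 0) (P.cons (P.lf 8176 0 0) P.nil)))) (P.cons (P.cons (P.lf 1254083 0 0) (P.cons (P.lf 0 44658 0) (P.cons (P.lf 0 20598 0) P.nil))) (P.cons (P.cons (P.lf 0 86180 0) (P.cons (P.lf 1525 0 0) P.nil)) (P.cons (P.cons (P.lf 0 10020 0) P.nil) P.nil)))))) 11969)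
 (EL.cons 8 (TM.mk (P.cons (P.cons (P.lf 0 124118997 0) (P.cons (P.lf 8222243 0 0) (P.cons (P.lf 3745231 0 0) (P.cons (P.lf 0 313389 0) (P.cons (P.lf 0 24222 0) (P.cons (P.lf 2889 0 0) P.nil)))))) (P.cons (P.cons (P.lf 0 46740627 0) (P.cons (P.lf 2514828 0 0) (P.cons (P.lf 1155134 0 0) (P.cons (P.lf 0 86759 0) (P.cons (P.lf 0 5695 0) P.nil))))) (P.cons (P.cons (P.lf 0 1137749 0) (P.cons (P.lf 54444 0 0) (P.cons (P.lf 24464 0 0) (P.cons (P.lf 0 2390 0) P.nil)))) (P.cons (P.cons (P.lf 963017 0 0) (P.cons (P.lf 0 35152 0) (P.cons (P.lf 0 16278 0) P.nil))) (P.cons (P.cons (P.lf 38707 0 0) (P.cons (P.lf 0 2538 0) P.nil)) (P.cons (P.cons (P.lf 0 6691 0) P.nil) P.nil)))))) 8396)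
 EL.nil))
noncomputable def S169_183_216_290_18 : EL := (EL.cons 4 (TM.mk (P.cons (P.lf 695842534 0 0) (P.cons (P.lf 0 142915698 0) (P.cons (P.lf 5324627 0 0) (P.cons (P.lf 421476 0 0) (P.cons (P.lf 0 11685 0) (P.cons (P.lf 0 1182 0) P.nil)))))) 113)
 (EL.cons 8 (TM.mk (P.cons (P.lf 521302032 0 0) (P.cons (P.lf 0 48769121 0) (P.cons (P.lf 0 3438450 0) (P.cons (P.lf 225935 0 0) (P.cons (P.lf 14451 0 0) (P.cons (P.lf 0 170 0) P.nil)))))) 84)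
 EL.nil))
noncomputable def S169_183_216_290_19 : EL := (EL.cons 4 (TM.mk (P.cons (P.cons (P.lf 253405108 0 0) (P.cons (P.lf 0 8393390 0) (P.cons (P.lf 0 3962193 0) (P.lf 188675 0 0)))) (P.cons (P.cons (P.lf 0 1153024 0) (P.cons (P.lf 631790 0 0) (P.cons (P.lf 298244 0 0) (P.lf 0 14202 0)))) (P.cons (P.cons (P.lf 0 10402969 0) (P.cons (P.lf 139694 0 0) (P.cons (P.lf 65943 0 0) (P.lf 0 3140 0)))) (P.cons (P.cons (P.lf 730125 0 0) (P.cons (P.lf 0 6176 0) (P.cons (P.lf 0 2915 0) P.nil))) (P.cons (P.cons (P.lf 54399 0 0) (P.cons (P.lf 0 1158 0) P.nil)) (P.cons (P.cons (P.lf 0 3736 0) P.nil) P.nil)))))) 2043)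
 (EL.cons 8 (TM.mk (P.cons (P.cons (P.lf 189842660 0 0) (P.cons (P.lf 0 6288048 0) (P.cons (P.lf 0 2968343 0) (P.lf 141349 0 0)))) (P.cons (P.cons (P.lf 20366788 0 0) (P.cons (P.lf 0 229891 0) (P.cons (P.lf 0 108523 0) (P.lf 5167 0 0)))) (P.cons (P.cons (P.lf 0 6234579 0) (P.cons (P.lf 102749 0 0) (P.cons (P.lf 48504 0 0) (P.lf 0 2310 0)))) (P.cons (P.cons (P.lf 0 187256 0) (P.cons (P.lf 6405 0 0) (P.cons (P.lf 3023 0 0) P.nil))) (P.cons (P.cons (P.lf 45975 0 0) (P.cons (P.lf 0 531 0) P.nil)) (P.cons (P.cons (P.lf 1632 0 0) P.nil) P.nil)))))) 1133)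
 EL.nil))
noncomputable def S169_183_216_290_20 : EL := (EL.cons 4 (TM.mk (P.cons (P.cons (P.lf 92282585 0 0) (P.cons (P.lf 0 6113245 0) (P.cons (P.lf 0 2784583 0) (P.cons (P.lf 233005 0 0) (P.cons (P.lf 18009 0 0) (P.cons (P.lf 0 2147 0) P.nil)))))) (P.cons (P.cons (P.lf 18113673 0 0) (P.cons (P.lf 0 767594 0) (P.cons (P.lf 0 356798 0) (P.cons (P.lf 22496 0 0) (P.cons (P.lf 987 0 0) P.nil))))) (P.cons (P.cons (P.lf 0 4560864 0) (P.cons (P.lf 239742 0 0) (P.cons (P.lf 110742 0 0) (P.cons (P.lf 0 7683 0) P.nil)))) (P.cons (P.cons (P.lf 0 564979 0) (P.cons (P.lf 17349 0 0) (P.cons (P.lf 7988 0 0) P.nil))) (P.cons (P.cons (P.lf 102166 0 0) (P.cons (P.lf 0 2895 0) P.nil)) (P.cons (P.cons (P.lf 3796 0 0) P.nil) P.nil)))))) 10389)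
 (EL.cons 8 (TM.mk (P.cons (P.cons (P.lf 69135037 0 0) (P.cons (P.lf 0 4579839 0) (P.cons (P.lf 0 2086116 0) (P.cons (P.lf 174559 0 0) (P.cons (P.lf 13492 0 0) (P.cons (P.lf 0 1609 0) P.nil)))))) (P.cons (P.cons (P.lf 21301711 0 0) (P.cons (P.lf 0 1087230 0) (P.cons (P.lf 0 500597 0) (P.cons (P.lf 36374 0 0) (P.cons (P.lf 2248 0 0) P.nil))))) (P.cons (P.cons (P.lf 0 1296348 0) (P.cons (P.lf 75357 0 0) (P.cons (P.lf 34878 0 0) (P.cons (P.lf 0 2349 0) P.nil)))) (P.cons (P.cons (P.lf 0 634281 0) (P.cons (P.lf 24573 0 0) (P.cons (P.lf 11340 0 0) P.nil))) (P.cons (P.cons (P.lf 14379 0 0) (P.cons (P.lf 106 0 0) P.nil)) (P.cons (P.cons (P.lf 6415 0 0) P.nil) P.nil)))))) 6364)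
 EL.nil))
noncomputable def S169_183_216_290_21 : EL := (EL.cons 4 (TM.mk (P.cons (P.cons (P.lf 0 3782131029 0) (P.cons (P.lf 81159393 0 0) (P.cons (P.lf 38312199 0 0) (P.lf 0 1824387 0)))) (P.cons (P.cons (P.lf 188804316 0 0) (P.cons (P.lf 5003550 0 0) (P.cons (P.lf 2361978 0 0) (P.lf 0 112470 0)))) (P.cons (P.cons (P.lf 55641837 0 0) (P.cons (P.lf 0 699288 0) (P.cons (P.lf 0 330108 0) (P.lf 15720 0 0)))) (P.cons (P.cons (P.lf 483828 0 0) (P.cons (P.lf 0 64488 0) (P.cons (P.lf 0 30435 0) P.nil))) (P.cons (P.cons (P.lf 0 219531 0) (P.cons (P.lf 510 0 0) P.nil)) (P.cons (P.cons (P.lf 0 7380 0) P.nil) P.nil)))))) 5868)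
 (EL.cons 8 (TM.mk (P.cons (P.cons (P.lf 1795004727 0 0) (P.cons (P.lf 0 38518374 0) (P.cons (P.lf 0 18183030 0) (P.lf 865860 0 0)))) (P.cons (P.cons (P.lf 0 290346807 0) (P.cons (P.lf 1932912 0 0) (P.cons (P.lf 912453 0 0) (P.lf 0 43449 0)))) (P.cons (P.cons (P.lf 0 9591339 0) (P.cons (P.lf 451629 0 0) (P.cons (P.lf 213192 0 0) (P.lf 0 10146 0)))) (P.cons (P.cons (P.lf 2005320 0 0) (P.cons (P.lf 0 7356 0) (P.cons (P.lf 0 3471 0) P.nil))) (P.cons (P.cons (P.lf 65271 0 0) (P.cons (P.lf 0 2259 0) P.nil)) (P.cons (P.cons (P.lf 0 5052 0) P.nil) P.nil)))))) 4617)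
 (EL.cons 11 (TM.mk (P.cons (P.cons (P.lf 399510228 0 0) (P.cons (P.lf 393933933 0 0) (P.cons (P.lf 0 12326571 0) (P.cons (P.lf 0 2258793 0) (P.lf 80670 0 0))))) (P.cons (P.cons (P.lf 34654224 0 0) (P.cons (P.lf 34170525 0 0) (P.cons (P.lf 0 1069227 0) (P.cons (P.lf 0 195930 0) (P.lf 6996 0 0))))) (P.cons (P.cons (P.lf 0 104871 0) (P.cons (P.lf 0 103407 0) (P.cons (P.lf 3234 0 0) (P.cons (P.lf 591 0 0) P.nil)))) (P.cons (P.cons (P.lf 0 82308 0) (P.cons (P.lf 0 81159 0) (P.cons (P.lf 2538 0 0) P.nil))) (P.cons (P.cons (P.lf 0 1644 0) (P.cons (P.lf 0 1623 0) P.nil)) (P.cons (P.cons (P.lf 75 0 0) P.nil) P.nil)))))) 807)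
 EL.nil)))
noncomputable def S169_183_216_290_22 : EL := (EL.cons 4 (TM.mk (P.cons (P.cons (P.lf 0 1377339375 0) (P.cons (P.lf 75176646 0 0) (P.cons (P.lf 34509015 0 0) (P.cons (P.lf 0 2614158 0) (P.cons (P.lf 0 174141 0) (P.cons (P.lf 20775 0 0) P.nil)))))) (P.cons (P.cons (P.lf 0 207861033 0) (P.cons (P.lf 11416437 0 0) (P.cons (P.lf 5201526 0 0) (P.cons (P.lf 0 433866 0) (P.cons (P.lf 0 33393 0) P.nil))))) (P.cons (P.cons (P.lf 44341695 0 0) (P.cons (P.lf 0 965808 0) (P.cons (P.lf 0 457716 0) (P.cons (P.lf 20019 0 0) P.nil)))) (P.cons (P.cons (P.lf 4824813 0 0) (P.cons (P.lf 0 227067 0) (P.cons (P.lf 0 105096 0) P.nil))) (P.cons (P.cons (P.lf 0 255762 0) (P.cons (P.lf 0 3672 0) P.nil)) (P.cons (P.cons (P.lf 0 38238 0) P.nil) P.nil)))))) 31947)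
 (EL.cons 8 (TM.mk (P.cons (P.cons (P.lf 653687211 0 0) (P.cons (P.lf 0 35678946 0) (P.cons (P.lf 0 16378029 0) (P.cons (P.lf 1240683 0 0) (P.cons (P.lf 82647 0 0) (P.cons (P.lf 0 9858 0) P.nil)))))) (P.cons (P.cons (P.lf 25547610 0 0) (P.cons (P.lf 0 1428189 0) (P.cons (P.lf 0 637056 0) (P.cons (P.lf 67164 0 0) (P.cons (P.lf 6606 0 0) P.nil))))) (P.cons (P.cons (P.lf 0 29602362 0) (P.cons (P.lf 929238 0 0) (P.cons (P.lf 431304 0 0) (P.cons (P.lf 0 27828 0) P.nil)))) (P.cons (P.cons (P.lf 299031 0 0) (P.cons (P.lf 43530 0 0) (P.cons (P.lf 19701 0 0) P.nil))) (P.cons (P.cons (P.lf 282954 0 0) (P.cons (P.lf 0 7752 0) P.nil)) (P.cons (P.cons (P.lf 963 0 0) P.nil) P.nil)))))) 17526)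
 (EL.cons 11 (TM.mk (P.cons (P.cons (P.lf 145489713 0 0) (P.cons (P.lf 138640023 0 0) (P.cons (P.lf 0 11515527 0) (P.cons (P.lf 0 2808669 0) (P.cons (P.lf 233625 0 0) (P.cons (P.lf 8544 0 0) P.nil)))))) (P.cons (P.cons (P.lf 41839458 0 0) (P.cons (P.lf 40210455 0 0) (P.cons (P.lf 0 2814660 0) (P.cons (P.lf 0 667245 0) (P.cons (P.lf 52737 0 0) P.nil))))) (P.cons (P.cons (P.lf 1411542 0 0) (P.cons (P.lf 1327017 0 0) (P.cons (P.lf 0 138069 0) (P.cons (P.lf 0 34695 0) P.nil)))) (P.cons (P.cons (P.lf 0 247065 0) (P.cons (P.lf 0 241704 0) (P.cons (P.lf 10407 0 0) P.nil))) (P.cons (P.cons (P.lf 0 15741 0) (P.cons (P.lf 0 15132 0) P.nil)) (P.cons (P.cons (P.lf 465 0 0) P.nil) P.nil)))))) 15162)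
 EL.nil)))
noncomputable def S169_183_216_290_23 : EL := (EL.cons 4 (TM.mk (P.cons (P.cons (P.lf 2106670023 0 0) (P.cons (P.lf 0 45206274 0) (P.cons (P.lf 0 21340128 0) (P.lf 1016193 0 0)))) (P.cons (P.cons (P.lf 0 249391374 0) (P.cons (P.lf 307890 0 0) (P.cons (P.lf 145344 0 0) (P.lf 0 6921 0)))) (P.cons (P.cons (P.lf 0 28293573 0) (P.cons (P.lf 676884 0 0) (P.cons (P.lf 319530 0 0) (P.lf 0 15213 0)))) (P.cons (P.cons (P.lf 2111439 0 0) (P.cons (P.lf 14466 0 0) (P.cons (P.lf 6825 0 0) P.nil))) (P.cons (P.cons (P.lf 209622 0 0) (P.cons (P.lf 0 3714 0) P.nil)) (P.cons (P.cons (P.lf 0 4356 0) P.nil) P.nil)))))) 6783)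
 (EL.cons 8 (TM.mk (P.cons (P.cons (P.lf 0 999828567 0) (P.cons (P.lf 21454968 0 0) (P.cons (P.lf 10128057 0 0) (P.lf 0 482289 0)))) (P.cons (P.cons (P.lf 230174907 0 0) (P.cons (P.lf 0 2545485 0) (P.cons (P.lf 0 1201626 0) (P.lf 57219 0 0)))) (P.cons (P.cons (P.lf 0 3593577 0) (P.cons (P.lf 0 223683 0) (P.cons (P.lf 0 105588 0) (P.lf 5022 0 0)))) (P.cons (P.cons (P.lf 0 1844571 0) (P.cons (P.lf 23970 0 0) (P.cons (P.lf 11313 0 0) P.nil))) (P.cons (P.cons (P.lf 29253 0 0) (P.cons (P.lf 1542 0 0) P.nil)) (P.cons (P.cons (P.lf 8088 0 0) P.nil) P.nil)))))) 4137)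
 (EL.cons 11 (TM.mk (P.cons (P.cons (P.lf 0 222529629 0) (P.cons (P.lf 0 219423600 0) (P.cons (P.lf 6865974 0 0) (P.cons (P.lf 1258161 0 0) (P.lf 0 44931 0))))) (P.cons (P.cons (P.lf 0 4067853 0) (P.cons (P.lf 0 4011075 0) (P.cons (P.lf 125508 0 0) (P.cons (P.lf 22998 0 0) (P.lf 0 819 0))))) (P.cons (P.cons (P.lf 1855296 0 0) (P.cons (P.lf 1829400 0 0) (P.cons (P.lf 0 57240 0) (P.cons (P.lf 0 10488 0) P.nil)))) (P.cons (P.cons (P.lf 79443 0 0) (P.cons (P.lf 78336 0 0) (P.cons (P.lf 0 2448 0) P.nil))) (P.cons (P.cons (P.lf 0 3126 0) (P.cons (P.lf 0 3081 0) P.nil)) (P.cons (P.cons (P.lf 0 246 0) P.nil) P.nil)))))) 1551)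
 EL.nil)))
noncomputable def S169_183_216_290_24 : EL := (EL.cons 4 (TM.mk (P.cons (P.cons (P.lf 767186421 0 0) (P.cons (P.lf 0 41873847 0) (P.cons (P.lf 0 19221732 0) (P.cons (P.lf 1456101 0 0) (P.cons (P.lf 96996 0 0) (P.cons (P.lf 0 11571 0) P.nil)))))) (P.cons (P.cons (P.lf 63256968 0 0) (P.cons (P.lf 0 3492267 0) (P.cons (P.lf 0 1581327 0) (P.cons (P.lf 141978 0 0) (P.cons (P.lf 11958 0 0) P.nil))))) (P.cons (P.cons (P.lf 0 34264035 0) (P.cons (P.lf 1062765 0 0) (P.cons (P.lf 494367 0 0) (P.cons (P.lf 0 30804 0) P.nil)))) (P.cons (P.cons (P.lf 0 1231341 0) (P.cons (P.lf 102546 0 0) (P.cons (P.lf 46959 0 0) P.nil))) (P.cons (P.cons (P.lf 382707 0 0) (P.cons (P.lf 0 7950 0) P.nil)) (P.cons (P.cons (P.lf 17142 0 0) P.nil) P.nil)))))) 22887)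
 (EL.cons 8 (TM.mk (P.cons (P.cons (P.lf 0 364107759 0) (P.cons (P.lf 19873389 0 0) (P.cons (P.lf 9122661 0 0) (P.cons (P.lf 0 691068 0) (P.cons (P.lf 0 46035 0) (P.cons (P.lf 5490 0 0) P.nil)))))) (P.cons (P.cons (P.lf 10697262 0 0) (P.cons (P.lf 0 565053 0) (P.cons (P.lf 0 269709 0) (P.cons (P.lf 9897 0 0) (P.cons (P.lf 0 525 0) P.nil))))) (P.cons (P.cons (P.lf 18240768 0 0) (P.cons (P.lf 0 614508 0) (P.cons (P.lf 0 284019 0) (P.cons (P.lf 19536 0 0) P.nil)))) (P.cons (P.cons (P.lf 0 1270959 0) (P.cons (P.lf 9813 0 0) (P.cons (P.lf 4863 0 0) P.nil))) (P.cons (P.cons (P.lf 0 182421 0) (P.cons (P.lf 7137 0 0) P.nil)) (P.cons (P.cons (P.lf 10839 0 0) P.nil) P.nil)))))) 11952)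
 (EL.cons 11 (TM.mk (P.cons (P.cons (P.lf 0 81038655 0) (P.cons (P.lf 0 77223336 0) (P.cons (P.lf 6414219 0 0) (P.cons (P.lf 1564446 0 0) (P.cons (P.lf 0 130131 0) (P.cons (P.lf 0 4758 0) P.nil)))))) (P.cons (P.cons (P.lf 0 17756787 0) (P.cons (P.lf 0 17110626 0) (P.cons (P.lf 1128654 0 0) (P.cons (P.lf 264555 0 0) (P.cons (P.lf 0 20466 0) P.nil))))) (P.cons (P.cons (P.lf 982374 0 0) (P.cons (P.lf 959184 0 0) (P.cons (P.lf 0 44130 0) (P.cons (P.lf 0 9459 0) P.nil)))) (P.cons (P.cons (P.lf 239904 0 0) (P.cons (P.lf 231819 0 0) (P.cons (P.lf 0 14304 0) P.nil))) (P.cons (P.cons (P.lf 477 0 0) (P.cons (P.lf 261 0 0) P.nil)) (P.cons (P.cons (P.lf 0 1215 0) P.nil) P.nil)))))) 11421)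
 EL.nil)))
noncomputable def S169_183_216_290_25 : EL := (EL.cons 4 (TM.mk (P.cons (P.cons (P.lf 0 1173428034 0) (P.cons (P.lf 25180170 0 0) (P.cons (P.lf 11886579 0 0) (P.lf 0 566025 0)))) (P.cons (P.cons (P.lf 219247398 0 0) (P.cons (P.lf 0 1895373 0) (P.cons (P.lf 0 894732 0) (P.lf 42606 0 0)))) (P.cons (P.cons (P.lf 8756322 0 0) (P.cons (P.lf 0 419079 0) (P.cons (P.lf 0 197832 0) (P.lf 9420 0 0)))) (P.cons (P.cons (P.lf 0 2570967 0) (P.cons (P.lf 18531 0 0) (P.cons (P.lf 8748 0 0) P.nil))) (P.cons (P.cons (P.lf 0 70092 0) (P.cons (P.lf 3474 0 0) P.nil)) (P.cons (P.cons (P.lf 13452 0 0) P.nil) P.nil)))))) 5478)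
 (EL.cons 8 (TM.mk (P.cons (P.cons (P.lf 556910601 0 0) (P.cons (P.lf 0 11950548 0) (P.cons (P.lf 0 5641389 0) (P.lf 268638 0 0)))) (P.cons (P.cons (P.lf 0 166335873 0) (P.cons (P.lf 2236005 0 0) (P.cons (P.lf 1055532 0 0) (P.lf 0 50262 0)))) (P.cons (P.cons (P.lf 9589299 0 0) (P.cons (P.lf 53055 0 0) (P.cons (P.lf 25044 0 0) (P.lf 0 1188 0)))) (P.cons (P.cons (P.lf 1173402 0 0) (P.cons (P.lf 0 25104 0) (P.cons (P.lf 0 11850 0) P.nil))) (P.cons (P.cons (P.lf 0 91842 0) (P.cons (P.lf 0 213 0) P.nil)) (P.cons (P.cons (P.lf 0 5805 0) P.nil) P.nil)))))) 3231)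
 (EL.cons 11 (TM.mk (P.cons (P.cons (P.lf 123950358 0 0) (P.cons (P.lf 122220282 0 0) (P.cons (P.lf 0 3824388 0) (P.cons (P.lf 0 700803 0) (P.lf 25026 0 0))))) (P.cons (P.cons (P.lf 0 6220032 0) (P.cons (P.lf 0 6133212 0) (P.cons (P.lf 191913 0 0) (P.cons (P.lf 35166 0 0) (P.lf 0 1254 0))))) (P.cons (P.cons (P.lf 0 1453329 0) (P.cons (P.lf 0 1433046 0) (P.cons (P.lf 44838 0 0) (P.cons (P.lf 8214 0 0) P.nil)))) (P.cons (P.cons (P.lf 23682 0 0) (P.cons (P.lf 23352 0 0) (P.cons (P.lf 0 729 0) P.nil))) (P.cons (P.cons (P.lf 7275 0 0) (P.cons (P.lf 7173 0 0) P.nil)) (P.cons (P.cons (P.lf 102 0 0) P.nil) P.nil)))))) 1455)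
 EL.nil)))
noncomputable def S169_183_216_290_26 : EL := (EL.cons 4 (TM.mk (P.cons (P.cons (P.lf 0 427327509 0) (P.cons (P.lf 23323989 0 0) (P.cons (P.lf 10706619 0 0) (P.cons (P.lf 0 811056 0) (P.cons (P.lf 0 54027 0) (P.cons (P.lf 6444 0 0) P.nil)))))) (P.cons (P.cons (P.lf 0 5978946 0) (P.cons (P.lf 348414 0 0) (P.cons (P.lf 147816 0 0) (P.cons (P.lf 0 23556 0) (P.cons (P.lf 0 2961 0) P.nil))))) (P.cons (P.cons (P.lf 22410399 0 0) (P.cons (P.lf 0 774966 0) (P.cons (P.lf 0 358539 0) (P.cons (P.lf 24306 0 0) P.nil)))) (P.cons (P.cons (P.lf 0 552459 0) (P.cons (P.lf 0 20367 0) (P.cons (P.lf 0 9009 0) P.nil))) (P.cons (P.cons (P.lf 0 302367 0) (P.cons (P.lf 9684 0 0) P.nil)) (P.cons (P.cons (P.lf 3804 0 0) P.nil) P.nil)))))) 15147)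
 (EL.cons 8 (TM.mk (P.cons (P.cons (P.lf 202810239 0 0) (P.cons (P.lf 0 11069598 0) (P.cons (P.lf 0 5081376 0) (P.cons (P.lf 384927 0 0) (P.cons (P.lf 25641 0 0) (P.cons (P.lf 0 3057 0) P.nil)))))) (P.cons (P.cons (P.lf 0 19843173 0) (P.cons (P.lf 1072581 0 0) (P.cons (P.lf 498108 0 0) (P.cons (P.lf 0 31866 0) (P.cons (P.lf 0 1461 0) P.nil))))) (P.cons (P.cons (P.lf 0 10185561 0) (P.cons (P.lf 344385 0 0) (P.cons (P.lf 158772 0 0) (P.cons (P.lf 0 11328 0) P.nil)))) (P.cons (P.cons (P.lf 1419561 0 0) (P.cons (P.lf 0 29751 0) (P.cons (P.lf 0 13944 0) P.nil))) (P.cons (P.cons (P.lf 75174 0 0) (P.cons (P.lf 0 4350 0) P.nil)) (P.cons (P.cons (P.lf 0 14679 0) P.nil) P.nil)))))) 7401)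
 (EL.cons 11 (TM.mk (P.cons (P.cons (P.lf 45139026 0 0) (P.cons (P.lf 43013868 0 0) (P.cons (P.lf 0 3572757 0) (P.cons (P.lf 0 871404 0) (P.cons (P.lf 72483 0 0) (P.cons (P.lf 2649 0 0) P.nil)))))) (P.cons (P.cons (P.lf 6800343 0 0) (P.cons (P.lf 6585921 0 0) (P.cons (P.lf 0 384069 0) (P.cons (P.lf 0 87699 0) (P.cons (P.lf 6438 0 0) P.nil))))) (P.cons (P.cons (P.lf 0 1320747 0) (P.cons (P.lf 0 1278651 0) (P.cons (P.lf 75252 0 0) (P.cons (P.lf 17217 0 0) P.nil)))) (P.cons (P.cons (P.lf 0 116556 0) (P.cons (P.lf 0 112206 0) (P.cons (P.lf 7569 0 0) P.nil))) (P.cons (P.cons (P.lf 10305 0 0) (P.cons (P.lf 10080 0 0) P.nil)) (P.cons (P.cons (P.lf 993 0 0) P.nil) P.nil)))))) 7230)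
 EL.nil)))
noncomputable def S169_183_216_290_27 : EL := (EL.cons 13 (TM.mk (P.lf 0 4294967296 0) 0)
 EL.nil)
noncomputable def S169_183_216_290_28 : EL := (EL.cons 13 (TM.mk (P.cons (P.cons (P.lf 0 1564099057 0) (P.cons (P.lf 51806748 0 0) (P.cons (P.lf 24455956 0 0) (P.lf 0 1164568 0)))) (P.cons (P.cons (P.lf 0 314125815 0) (P.cons (P.lf 6740712 0 0) (P.cons (P.lf 3182028 0 0) (P.lf 0 151524 0)))) (P.cons (P.cons (P.lf 11662337 0 0) (P.cons (P.lf 125776 0 0) (P.cons (P.lf 59372 0 0) (P.lf 0 2824 0)))) (P.cons (P.cons (P.lf 1239784 0 0) (P.cons (P.lf 0 19004 0) (P.cons (P.lf 0 8968 0) P.nil))) (P.cons (P.cons (P.lf 0 6376 0) (P.cons (P.lf 0 924 0) P.nil)) (P.cons (P.cons (P.lf 0 2726 0) P.nil) P.nil)))))) 1523)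
 EL.nil)
noncomputable def S169_183_216_290_29 : EL := (EL.cons 13 (TM.mk (P.cons (P.cons (P.lf 0 569598251 0) (P.cons (P.lf 37732946 0 0) (P.cons (P.lf 17187357 0 0) (P.cons (P.lf 0 1438187 0) (P.cons (P.lf 0 111160 0) (P.cons (P.lf 13262 0 0) P.nil)))))) (P.cons (P.cons (P.lf 0 228790515 0) (P.cons (P.lf 12487628 0 0) (P.cons (P.lf 5732308 0 0) (P.cons (P.lf 0 434238 0) (P.cons (P.lf 0 28926 0) P.nil))))) (P.cons (P.cons (P.lf 0 14480419 0) (P.cons (P.lf 796266 0 0) (P.cons (P.lf 362271 0 0) (P.cons (P.lf 0 30749 0) P.nil)))) (P.cons (P.cons (P.lf 2608907 0 0) (P.cons (P.lf 0 61959 0) (P.cons (P.lf 0 29182 0) P.nil))) (P.cons (P.cons (P.lf 145039 0 0) (P.cons (P.lf 0 7873 0) P.nil)) (P.cons (P.cons (P.lf 0 9651 0) P.nil) P.nil)))))) 17361)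
 EL.nil)
noncomputable def S169_183_216_290_30 : EL := (EL.cons 13 (TM.mk (P.cons (P.lf 2392322948 0 0) (P.cons (P.lf 0 163782508 0) (P.cons (P.lf 0 5110764 0) (P.cons (P.lf 39116 0 0) (P.cons (P.lf 5000 0 0) (P.cons (P.lf 60 0 0) P.nil)))))) 56)
 EL.nil)
noncomputable def S169_183_216_290_31 : EL := (EL.cons 13 (TM.mk (P.cons (P.cons (P.lf 871212702 0 0) (P.cons (P.lf 0 28856674 0) (P.cons (P.lf 0 13622116 0) (P.lf 648671 0 0)))) (P.cons (P.cons (P.lf 115325285 0 0) (P.cons (P.lf 0 1779040 0) (P.cons (P.lf 0 839815 0) (P.lf 39990 0 0)))) (P.cons (P.cons (P.lf 0 20335924 0) (P.cons (P.lf 248636 0 0) (P.cons (P.lf 117372 0 0) (P.lf 0 5590 0)))) (P.cons (P.cons (P.lf 0 605387 0) (P.cons (P.lf 22930 0 0) (P.cons (P.lf 10822 0 0) P.nil))) (P.cons (P.cons (P.lf 69388 0 0) (P.cons (P.lf 0 182 0) P.nil)) (P.cons (P.cons (P.lf 3031 0 0) P.nil) P.nil)))))) 1958)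
 EL.nil)
noncomputable def S169_183_216_290_32 : EL := (EL.cons 13 (TM.mk (P.cons (P.cons (P.lf 317269695 0 0) (P.cons (P.lf 0 21017480 0) (P.cons (P.lf 0 9573462 0) (P.cons (P.lf 801078 0 0) (P.cons (P.lf 61916 0 0) (P.cons (P.lf 0 7387 0) P.nil)))))) (P.cons (P.cons (P.lf 105716886 0 0) (P.cons (P.lf 0 5516792 0) (P.cons (P.lf 0 2537514 0) (P.cons (P.lf 187029 0 0) (P.cons (P.lf 11873 0 0) P.nil))))) (P.cons (P.cons (P.lf 0 1336710 0) (P.cons (P.lf 77573 0 0) (P.cons (P.lf 37258 0 0) (P.cons (P.lf 0 1143 0) P.nil)))) (P.cons (P.cons (P.lf 0 2272427 0) (P.cons (P.lf 79391 0 0) (P.cons (P.lf 36733 0 0) P.nil))) (P.cons (P.cons (P.lf 4215 0 0) (P.cons (P.lf 2812 0 0) P.nil)) (P.cons (P.cons (P.lf 14417 0 0) P.nil) P.nil)))))) 16595)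
 EL.nil)
noncomputable def S169_183_216_290_33 : EL := (EL.cons 14 (TM.mk (P.lf 8589934592 0 0) 0)
 EL.nil)
noncomputable def S169_183_216_290_34 : EL := (EL.cons 14 (TM.mk (P.cons (P.cons (P.lf 3128198114 0 0) (P.cons (P.lf 0 103613496 0) (P.cons (P.lf 0 48911912 0) (P.lf 2329136 0 0)))) (P.cons (P.cons (P.lf 628251630 0 0) (P.cons (P.lf 0 13481424 0) (P.cons (P.lf 0 6364056 0) (P.lf 303048 0 0)))) (P.cons (P.cons (P.lf 0 23324674 0) (P.cons (P.lf 0 251552 0) (P.cons (P.lf 0 118744 0) (P.lf 5648 0 0)))) (P.cons (P.cons (P.lf 0 2479568 0) (P.cons (P.lf 38008 0 0) (P.cons (P.lf 17936 0 0) P.nil))) (P.cons (P.cons (P.lf 12752 0 0) (P.cons (P.lf 1848 0 0) P.nil)) (P.cons (P.cons (P.lf 5452 0 0) P.nil) P.nil)))))) 3046)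
 EL.nil)
noncomputable def S169_183_216_290_35 : EL := (EL.cons 14 (TM.mk (P.cons (P.cons (P.lf 1139196502 0 0) (P.cons (P.lf 0 75465892 0) (P.cons (P.lf 0 34374714 0) (P.cons (P.lf 2876374 0 0) (P.cons (P.lf 222320 0 0) (P.cons (P.lf 0 26524 0) P.nil)))))) (P.cons (P.cons (P.lf 457581030 0 0) (P.cons (P.lf 0 24975256 0) (P.cons (P.lf 0 11464616 0) (P.cons (P.lf 868476 0 0) (P.cons (P.lf 57852 0 0) P.nil))))) (P.cons (P.cons (P.lf 28960838 0 0) (P.cons (P.lf 0 1592532 0) (P.cons (P.lf 0 724542 0) (P.cons (P.lf 61498 0 0) P.nil)))) (P.cons (P.cons (P.lf 0 5217814 0) (P.cons (P.lf 123918 0 0) (P.cons (P.lf 58364 0 0) P.nil))) (P.cons (P.cons (P.lf 0 290078 0) (P.cons (P.lf 15746 0 0) P.nil)) (P.cons (P.cons (P.lf 19302 0 0) P.nil) P.nil)))))) 34722)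
 EL.nil)
noncomputable def S169_183_216_290_36 : EL := (EL.cons 14 (TM.mk (P.cons (P.lf 0 4784645896 0) (P.cons (P.lf 327565016 0 0) (P.cons (P.lf 10221528 0 0) (P.cons (P.lf 0 78232 0) (P.cons (P.lf 0 10000 0) (P.cons (P.lf 0 120 0) P.nil)))))) 112)
 EL.nil)
noncomputable def S169_183_216_290_37 : EL := (EL.cons 14 (TM.mk (P.cons (P.cons (P.lf 0 1742425404 0) (P.cons (P.lf 57713348 0 0) (P.cons (P.lf 27244232 0 0) (P.lf 0 1297342 0)))) (P.cons (P.cons (P.lf 0 230650570 0) (P.cons (P.lf 3558080 0 0) (P.cons (P.lf 1679630 0 0) (P.lf 0 79980 0)))) (P.cons (P.cons (P.lf 40671848 0 0) (P.cons (P.lf 0 497272 0) (P.cons (P.lf 0 234744 0) (P.lf 11180 0 0)))) (P.cons (P.cons (P.lf 1210774 0 0) (P.cons (P.lf 0 45860 0) (P.cons (P.lf 0 21644 0) P.nil))) (P.cons (P.cons (P.lf 0 138776 0) (P.cons (P.lf 364 0 0) P.nil)) (P.cons (P.cons (P.lf 0 6062 0) P.nil) P.nil))))))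 3916)
 EL.nil)
noncomputable def S169_183_216_290_38 : EL := (EL.cons 14 (TM.mk (P.cons (P.cons (P.lf 0 634539390 0) (P.cons (P.lf 42034960 0 0) (P.cons (P.lf 19146924 0 0) (P.cons (P.lf 0 1602156 0) (P.cons (P.lf 0 123832 0) (P.cons (P.lf 14774 0 0) P.nil)))))) (P.cons (P.cons (P.lf 0 211433772 0) (P.cons (P.lf 11033584 0 0) (P.cons (P.lf 5075028 0 0) (P.cons (P.lf 0 374058 0) (P.cons (P.lf 0 23746 0) P.nil))))) (P.cons (P.cons (P.lf 2673420 0 0) (P.cons (P.lf 0 155146 0) (P.cons (P.lf 0 74516 0) (P.cons (P.lf 2286 0 0) P.nil)))) (P.cons (P.cons (P.lf 4544854 0 0) (P.cons (P.lf 0 158782 0) (P.cons (P.lf 0 73466 0) P.nil))) (P.cons (P.cons (P.lf 0 8430 0) (P.cons (P.lf 0 5624 0) P.nil)) (P.cons (P.cons (P.lf 0 28834 0) P.nil) P.nil)))))) 33190)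
 EL.nil)
noncomputable def S169_183_216_290_39 : EL := (EL.cons 14 (TM.mk (P.cons (P.lf 2665076910 0 0) (P.cons (P.lf 0 364911418 0) (P.cons (P.lf 1104322 0 0) (P.cons (P.lf 866718 0 0) (P.cons (P.lf 17336 0 0) (P.cons (P.lf 0 814 0) P.nil)))))) 180)
 EL.nil)
noncomputable def S169_183_216_290_40 : EL := (EL.cons 14 (TM.mk (P.cons (P.cons (P.lf 970541564 0 0) (P.cons (P.lf 0 32146686 0) (P.cons (P.lf 0 15175202 0) (P.lf 722626 0 0)))) (P.cons (P.cons (P.lf 62028842 0 0) (P.cons (P.lf 218944 0 0) (P.cons (P.lf 103354 0 0) (P.lf 0 4922 0)))) (P.cons (P.cons (P.lf 0 33523386 0) (P.cons (P.lf 481342 0 0) (P.cons (P.lf 227224 0 0) (P.lf 0 10822 0)))) (P.cons (P.cons (P.lf 617962 0 0) (P.cons (P.lf 10290 0 0) (P.cons (P.lf 4854 0 0) P.nil))) (P.cons (P.cons (P.lf 175996 0 0) (P.cons (P.lf 0 2642 0) P.nil)) (P.cons (P.cons (P.lf 0 550 0) P.nil) P.nil)))))) 4050)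
 EL.nil)
noncomputable def S169_183_216_290_41 : EL := (EL.cons 14 (TM.mk (P.cons (P.cons (P.lf 353442306 0 0) (P.cons (P.lf 0 23413728 0) (P.cons (P.lf 0 10664952 0) (P.cons (P.lf 892410 0 0) (P.cons (P.lf 68976 0 0) (P.cons (P.lf 0 8228 0) P.nil)))))) (P.cons (P.cons (P.lf 93572636 0 0) (P.cons (P.lf 0 4542828 0) (P.cons (P.lf 0 2096680 0) (P.cons (P.lf 147256 0 0) (P.cons (P.lf 8504 0 0) P.nil))))) (P.cons (P.cons (P.lf 0 10306904 0) (P.cons (P.lf 557186 0 0) (P.cons (P.lf 257818 0 0) (P.cons (P.lf 0 17444 0) P.nil)))) (P.cons (P.cons (P.lf 0 2675378 0) (P.cons (P.lf 95272 0 0) (P.cons (P.lf 43944 0 0) P.nil))) (P.cons (P.cons (P.lf 183852 0 0) (P.cons (P.lf 0 3254 0) P.nil)) (P.cons (P.cons (P.lf 21378 0 0) P.nil) P.nil)))))) 25488)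
 EL.nil)
noncomputable def S169_183_216_290_42 : EL := (EL.cons 14 (TM.mk (P.cons (P.lf 0 1484464074 0) (P.cons (P.lf 304886824 0 0) (P.cons (P.lf 0 11359206 0) (P.cons (P.lf 0 899150 0) (P.cons (P.lf 24928 0 0) (P.cons (P.lf 2522 0 0) P.nil)))))) 228)
 EL.nil)
noncomputable def S169_183_216_290_43 : EL := (EL.cons 14 (TM.mk (P.cons (P.cons (P.lf 0 540597564 0) (P.cons (P.lf 17905900 0 0) (P.cons (P.lf 8452680 0 0) (P.lf 0 402508 0)))) (P.cons (P.cons (P.lf 2459786 0 0) (P.cons (P.lf 0 1347820 0) (P.cons (P.lf 0 636254 0) (P.lf 30298 0 0)))) (P.cons (P.cons (P.lf 22193002 0 0) (P.cons (P.lf 0 298014 0) (P.cons (P.lf 0 140680 0) (P.lf 6700 0 0)))) (P.cons (P.cons (P.lf 0 1557602 0) (P.cons (P.lf 13176 0 0) (P.cons (P.lf 6220 0 0) P.nil))) (P.cons (P.cons (P.lf 0 116052 0) (P.cons (P.lf 2472 0 0) P.nil)) (P.cons (P.cons (P.lf 7972 0 0) P.nil) P.nil)))))) 4318)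
 EL.nil)
noncomputable def S169_183_216_290_44 : EL := (EL.cons 14 (TM.mk (P.cons (P.cons (P.lf 0 196869516 0) (P.cons (P.lf 13041590 0 0) (P.cons (P.lf 5940444 0 0) (P.cons (P.lf 0 497078 0) (P.cons (P.lf 0 38420 0) (P.cons (P.lf 4582 0 0) P.nil)))))) (P.cons (P.cons (P.lf 0 38642504 0) (P.cons (P.lf 1637534 0 0) (P.cons (P.lf 761170 0 0) (P.cons (P.lf 0 47992 0) (P.cons (P.lf 0 2106 0) P.nil))))) (P.cons (P.cons (P.lf 9729844 0 0) (P.cons (P.lf 0 511450 0) (P.cons (P.lf 0 236250 0) (P.cons (P.lf 16392 0 0) P.nil)))) (P.cons (P.cons (P.lf 1205290 0 0) (P.cons (P.lf 0 37012 0) (P.cons (P.lf 0 17042 0) P.nil))) (P.cons (P.cons (P.lf 0 217956 0) (P.cons (P.lf 6178 0 0) P.nil)) (P.cons (P.cons (P.lf 0 8100 0) P.nil) P.nil)))))) 22118)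
 EL.nil)
noncomputable def S169_183_216_290_45 : EL := (EL.cons 14 (TM.mk (P.cons (P.cons (P.lf 414861406 0 0) (P.cons (P.lf 0 41223642 0) (P.cons (P.lf 0 18094654 0) (P.cons (P.lf 2200724 0 0) (P.cons (P.lf 221536 0 0) (P.cons (P.lf 0 38038 0) P.nil)))))) (P.cons (P.cons (P.lf 249956056 0 0) (P.cons (P.lf 0 21922014 0) (P.cons (P.lf 0 9718988 0) (P.cons (P.lf 1081266 0 0) (P.cons (P.lf 103650 0 0) P.nil))))) (P.cons (P.cons (P.lf 40919970 0 0) (P.cons (P.lf 0 3302518 0) (P.cons (P.lf 0 1468064 0) (P.cons (P.lf 159202 0 0) P.nil)))) (P.cons (P.cons (P.lf 0 1353362 0) (P.cons (P.lf 27378 0 0) (P.cons (P.lf 15024 0 0) P.nil))) (P.cons (P.cons (P.lf 0 696290 0) (P.cons (P.lf 39328 0 0) P.nil)) (P.cons (P.cons (P.lf 0 6974 0) P.nil) P.nil)))))) 101584)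
 EL.nil)
noncomputable def S169_183_216_290_46 : EL := (EL.cons 15 (TM.mk (P.lf 4294967296 0 0) 0)
 EL.nil)
noncomputable def S169_183_216_290_47 : EL := (EL.cons 15 (TM.mk (P.cons (P.cons (P.lf 1564099057 0 0) (P.cons (P.lf 0 51806748 0) (P.cons (P.lf 0 24455956 0) (P.lf 1164568 0 0)))) (P.cons (P.cons (P.lf 314125815 0 0) (P.cons (P.lf 0 6740712 0) (P.cons (P.lf 0 3182028 0) (P.lf 151524 0 0)))) (P.cons (P.cons (P.lf 0 11662337 0) (P.cons (P.lf 0 125776 0) (P.cons (P.lf 0 59372 0) (P.lf 2824 0 0)))) (P.cons (P.cons (P.lf 0 1239784 0) (P.cons (P.lf 19004 0 0) (P.cons (P.lf 8968 0 0) P.nil))) (P.cons (P.cons (P.lf 6376 0 0) (P.cons (P.lf 924 0 0) P.nil)) (P.cons (P.cons (P.lf 2726 0 0) P.nil) P.nil)))))) 1523)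
 EL.nil)
noncomputable def S169_183_216_290_48 : EL := (EL.cons 15 (TM.mk (P.cons (P.cons (P.lf 569598251 0 0) (P.cons (P.lf 0 37732946 0) (P.cons (P.lf 0 17187357 0) (P.cons (P.lf 1438187 0 0) (P.cons (P.lf 111160 0 0) (P.cons (P.lf 0 13262 0) P.nil)))))) (P.cons (P.cons (P.lf 228790515 0 0) (P.cons (P.lf 0 12487628 0) (P.cons (P.lf 0 5732308 0) (P.cons (P.lf 434238 0 0) (P.cons (P.lf 28926 0 0) P.nil))))) (P.cons (P.cons (P.lf 14480419 0 0) (P.cons (P.lf 0 796266 0) (P.cons (P.lf 0 362271 0) (P.cons (P.lf 30749 0 0) P.nil)))) (P.cons (P.cons (P.lf 0 2608907 0) (P.cons (P.lf 61959 0 0) (P.cons (P.lf 29182 0 0) P.nil))) (P.cons (P.cons (P.lf 0 145039 0) (P.cons (P.lf 7873 0 0) P.nil)) (P.cons (P.cons (P.lf 9651 0 0) P.nil) P.nil)))))) 17361)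
 EL.nil)
noncomputable def S169_183_216_290 : SL := (SL.cons S169_183_216_290_0 (SL.cons S169_183_216_290_1 (SL.cons S169_183_216_290_2 (SL.cons S169_183_216_290_3 (SL.cons S169_183_216_290_4 (SL.cons S169_183_216_290_5 (SL.cons S169_183_216_290_6 (SL.cons S169_183_216_290_7 (SL.cons S169_183_216_290_8 (SL.cons S169_183_216_290_9 (SL.cons S169_183_216_290_10 (SL.cons S169_183_216_290_11 (SL.cons S169_183_216_290_12 (SL.cons S169_183_216_290_13 (SL.cons S169_183_216_290_14 (SL.cons S169_183_216_290_15 (SL.cons S169_183_216_290_16 (SL.cons S169_183_216_290_17 (SL.cons S169_183_216_290_18 (SL.cons S169_183_216_290_19 (SL.cons S169_183_216_290_20 (SL.cons S169_183_216_290_21 (SL.cons S169_183_216_290_22 (SL.cons S169_183_216_290_23 (SL.cons S169_183_216_290_24 (SL.cons S169_183_216_290_25 (SL.cons S169_183_216_290_26 (SL.cons S169_183_216_290_27 (SL.cons S169_183_216_290_28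 (SL.cons S169_183_216_290_29 (SL.cons S169_183_216_290_30 (SL.cons S169_183_216_290_31 (SL.cons S169_183_216_290_32 (SL.cons S169_183_216_290_33 (SL.cons S169_183_216_290_34 (SL.cons S169_183_216_290_35 (SL.cons S169_183_216_290_36 (SL.cons S169_183_216_290_37 (SL.cons S169_183_216_290_38 (SL.cons S169_183_216_290_39 (SL.cons S169_183_216_290_40 (SL.cons S169_183_216_290_41 (SL.cons S169_183_216_290_42 (SL.cons S169_183_216_290_43 (SL.cons S169_183_216_290_44 (SL.cons S169_183_216_290_45 (SL.cons S169_183_216_290_46 (SL.cons S169_183_216_290_47 (SL.cons S169_183_216_290_48 SL.nil)))))))))))))))))))))))))))))))))))))))))))))))))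
noncomputable def S169_183_216_364_0 : EL := (EL.cons 0 (TM.mk (P.cons (P.lf 6113364111 0 0) (P.cons (P.lf 320722925 0 0) (P.cons (P.lf 0 970595 0) (P.cons (P.lf 0 761763 0) (P.cons (P.lf 0 15236 0) (P.cons (P.lf 715 0 0) P.nil)))))) 165)
 (EL.cons 1 (TM.mk (P.cons (P.lf 0 1754812605 0) (P.cons (P.lf 44029685 0 0) (P.cons (P.lf 10840057 0 0) (P.cons (P.lf 104334 0 0) (P.cons (P.lf 0 15399 0) (P.cons (P.lf 0 481 0) P.nil)))))) 128)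
 (EL.cons 5 (TM.mk (P.cons (P.lf 5127803834 0 0) (P.cons (P.lf 0 114034818 0) (P.cons (P.lf 345096 0 0) (P.cons (P.lf 270848 0 0) (P.cons (P.lf 5418 0 0) (P.cons (P.lf 0 254 0) P.nil)))))) 109)
 (EL.cons 9 (TM.mk (P.lf 6442450944 0 0) 2)
 EL.nil))))
noncomputable def S169_183_216_364_1 : EL := (EL.cons 0 (TM.mk (P.cons (P.cons (P.lf 0 1707725239 0) (P.cons (P.lf 41366490 0 0) (P.cons (P.lf 17837690 0 0) (P.lf 0 1981959 0)))) (P.cons (P.cons (P.lf 1011173623 0 0) (P.cons (P.lf 0 52699205 0) (P.cons (P.lf 0 22724493 0) (P.lf 2524938 0 0)))) (P.cons (P.cons (P.lf 56742183 0 0) (P.cons (P.lf 0 7280932 0) (P.cons (P.lf 0 3139618 0) (P.lf 348840 0 0)))) (P.cons (P.cons (P.lf 0 6941114 0) (P.cons (P.lf 4640 0 0) (P.cons (P.lf 2005 0 0) P.nil))) (P.cons (P.cons (P.lf 0 519063 0) (P.cons (P.lf 41697 0 0) P.nil)) (P.cons (P.cons (P.lf 14622 0 0) P.nil) P.nil))))))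 75288)
 (EL.cons 1 (TM.mk (P.cons (P.cons (P.lf 0 1133766717 0) (P.cons (P.lf 123122618 0 0) (P.cons (P.lf 53091861 0 0) (P.lf 0 5899089 0)))) (P.cons (P.cons (P.lf 0 306892844 0) (P.cons (P.lf 29816244 0 0) (P.cons (P.lf 12857092 0 0) (P.lf 0 1428559 0)))) (P.cons (P.cons (P.lf 41624614 0 0) (P.cons (P.lf 0 606033 0) (P.cons (P.lf 0 261328 0) (P.lf 29035 0 0)))) (P.cons (P.cons (P.lf 3953308 0 0) (P.cons (P.lf 0 340767 0) (P.cons (P.lf 0 146932 0) P.nil))) (P.cons (P.cons (P.lf 0 178887 0) (P.cons (P.lf 0 9918 0) P.nil)) (P.cons (P.cons (P.lf 0 21026 0) P.nil) P.nil)))))) 41756)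
 (EL.cons 5 (TM.mk (P.cons (P.cons (P.lf 3138492761 0 0) (P.cons (P.lf 0 345272960 0) (P.cons (P.lf 0 148885594 0) (P.lf 16542842 0 0)))) (P.cons (P.cons (P.lf 157874428 0 0) (P.cons (P.lf 0 24273182 0) (P.cons (P.lf 0 10466874 0) (P.lf 1162992 0 0)))) (P.cons (P.cons (P.lf 0 40310923 0) (P.cons (P.lf 1786228 0 0) (P.cons (P.lf 770240 0 0) (P.lf 0 85572 0)))) (P.cons (P.cons (P.lf 407144 0 0) (P.cons (P.lf 119636 0 0) (P.cons (P.lf 51584 0 0) P.nil))) (P.cons (P.cons (P.lf 197668 0 0) (P.cons (P.lf 0 8920 0) P.nil)) (P.cons (P.cons (P.lf 0 581 0) P.nil) P.nil)))))) 36685)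
 (EL.cons 9 (TM.mk (P.cons (P.cons (P.lf 2233501369 0 0) (P.cons (P.lf 0 291674880 0) (P.cons (P.lf 0 125773500 0) (P.lf 13974828 0 0)))) (P.cons (P.cons (P.lf 456531898 0 0) (P.cons (P.lf 0 37950588 0) (P.cons (P.lf 0 16364718 0) (P.lf 1818300 0 0)))) (P.cons (P.cons (P.lf 0 17766991 0) (P.cons (P.lf 0 708126 0) (P.cons (P.lf 0 305352 0) (P.lf 33930 0 0)))) (P.cons (P.cons (P.lf 0 1818342 0) (P.cons (P.lf 107010 0 0) (P.cons (P.lf 46140 0 0) P.nil))) (P.cons (P.cons (P.lf 11574 0 0) (P.cons (P.lf 5208 0 0) P.nil)) (P.cons (P.cons (P.lf 4059 0 0) P.nil) P.nil)))))) 8897)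
 (EL.cons 2 (TM.mk (P.cons (P.cons (P.lf 406756901 0 0) (P.cons (P.lf 378931682 0 0) (P.cons (P.lf 0 38890715 0) (P.cons (P.lf 0 8088184 0) (P.lf 674012 0 0))))) (P.cons (P.cons (P.lf 7435541 0 0) (P.cons (P.lf 6926895 0 0) (P.cons (P.lf 0 710924 0) (P.cons (P.lf 0 147850 0) (P.lf 12318 0 0))))) (P.cons (P.cons (P.lf 0 3391256 0) (P.cons (P.lf 0 3159267 0) (P.cons (P.lf 324241 0 0) (P.cons (P.lf 67432 0 0) P.nil)))) (P.cons (P.cons (P.lf 0 145215 0) (P.cons (P.lf 0 135278 0) (P.cons (P.lf 13882 0 0) P.nil))) (P.cons (P.cons (P.lf 5715 0 0) (P.cons (P.lf 5324 0 0) P.nil)) (P.cons (P.cons (P.lf 452 0 0) P.nil) P.nil)))))) 11141)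
 (EL.cons 6 (TM.mk (P.cons (P.cons (P.lf 304728711 0 0) (P.cons (P.lf 283882986 0 0) (P.cons (P.lf 0 29135628 0) (P.cons (P.lf 0 6059397 0) (P.lf 504948 0 0))))) (P.cons (P.cons (P.lf 39649059 0 0) (P.cons (P.lf 36936768 0 0) (P.cons (P.lf 0 3790911 0) (P.cons (P.lf 0 788403 0) (P.lf 65697 0 0))))) (P.cons (P.cons (P.lf 739818 0 0) (P.cons (P.lf 689211 0 0) (P.cons (P.lf 0 70734 0) (P.cons (P.lf 0 14709 0) P.nil)))) (P.cons (P.cons (P.lf 0 111804 0) (P.cons (P.lf 0 104154 0) (P.cons (P.lf 10689 0 0) P.nil))) (P.cons (P.cons (P.lf 0 5442 0) (P.cons (P.lf 0 5067 0) P.nil)) (P.cons (P.cons (P.lf 84 0 0) P.nil) P.nil)))))) 6045)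
 EL.nil))))))
noncomputable def S169_183_216_364_2 : EL := (EL.cons 0 (TM.mk (P.cons (P.cons (P.lf 0 1918853984 0) (P.cons (P.lf 375221133 0 0) (P.cons (P.lf 145523214 0 0) (P.cons (P.lf 0 32014822 0) (P.cons (P.lf 0 1466799 0) (P.cons (P.lf 672539 0 0) P.nil)))))) (P.cons (P.cons (P.lf 120164269 0 0) (P.cons (P.lf 0 27853445 0) (P.cons (P.lf 0 11644497 0) (P.cons (P.lf 1650385 0 0) (P.cons (P.lf 33006 0 0) P.nil))))) (P.cons (P.cons (P.lf 157421463 0 0) (P.cons (P.lf 0 22040312 0) (P.cons (P.lf 0 8675043 0) (P.cons (P.lf 1770933 0 0) P.nil)))) (P.cons (P.cons (P.lf 1343636 0 0) (P.cons (P.lf 0 1232407 0) (P.cons (P.lf 0 444064 0) P.nil))) (P.cons (P.cons (P.lf 0 1812702 0) (P.cons (P.lf 179465 0 0) P.nil)) (P.cons (P.cons (P.lf 0 56972 0) P.nil) P.nil)))))) 1441760)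
 (EL.cons 1 (TM.mk (P.cons (P.cons (P.lf 0 575208084 0) (P.cons (P.lf 132943302 0 0) (P.cons (P.lf 49775051 0 0) (P.cons (P.lf 0 12882285 0) (P.cons (P.lf 0 680537 0) (P.cons (P.lf 312030 0 0) P.nil)))))) (P.cons (P.cons (P.lf 0 292545102 0) (P.cons (P.lf 62224216 0 0) (P.cons (P.lf 23527170 0 0) (P.cons (P.lf 0 5831260 0) (P.cons (P.lf 0 297798 0) P.nil))))) (P.cons (P.cons (P.lf 0 6389902 0) (P.cons (P.lf 2864358 0 0) (P.cons (P.lf 944329 0 0) (P.cons (P.lf 0 388038 0) P.nil)))) (P.cons (P.cons (P.lf 9261740 0 0) (P.cons (P.lf 0 1133713 0) (P.cons (P.lf 0 461656 0) P.nil))) (P.cons (P.cons (P.lf 310010 0 0) (P.cons (P.lf 0 102634 0) P.nil)) (P.cons (P.cons (P.lf 0 75596 0) P.nil) P.nil)))))) 697554)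
 (EL.cons 5 (TM.mk (P.cons (P.cons (P.lf 1559823585 0 0) (P.cons (P.lf 0 362615750 0) (P.cons (P.lf 0 135610885 0) (P.cons (P.lf 35271726 0 0) (P.cons (P.lf 1870227 0 0) (P.cons (P.lf 0 857521 0) P.nil)))))) (P.cons (P.cons (P.lf 316026569 0 0) (P.cons (P.lf 0 66768555 0) (P.cons (P.lf 0 25027041 0) (P.cons (P.lf 6445457 0 0) (P.cons (P.lf 339228 0 0) P.nil))))) (P.cons (P.cons (P.lf 0 33268968 0) (P.cons (P.lf 3007612 0 0) (P.cons (P.lf 1328198 0 0) (P.cons (P.lf 0 117116 0) P.nil)))) (P.cons (P.cons (P.lf 0 4760426 0) (P.cons (P.lf 832365 0 0) (P.cons (P.lf 326327 0 0) P.nil))) (P.cons (P.cons (P.lf 417066 0 0) (P.cons (P.lf 0 15002 0) P.nil)) (P.cons (P.cons (P.lf 36678 0 0) P.nil) P.nil)))))) 811708)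
 (EL.cons 9 (TM.mk (P.cons (P.cons (P.lf 774321513 0 0) (P.cons (P.lf 0 202238634 0) (P.cons (P.lf 0 74002321 0) (P.cons (P.lf 21078240 0 0) (P.cons (P.lf 1190037 0 0) (P.cons (P.lf 0 545649 0) P.nil)))))) (P.cons (P.cons (P.lf 316545559 0 0) (P.cons (P.lf 0 67651761 0) (P.cons (P.lf 0 25735857 0) (P.cons (P.lf 6204931 0 0) (P.cons (P.lf 309676 0 0) P.nil))))) (P.cons (P.cons (P.lf 20032153 0 0) (P.cons (P.lf 0 4260822 0) (P.cons (P.lf 0 1549638 0) (P.cons (P.lf 452244 0 0) P.nil)))) (P.cons (P.cons (P.lf 0 3778830 0) (P.cons (P.lf 347803 0 0) (P.cons (P.lf 148627 0 0) P.nil))) (P.cons (P.cons (P.lf 0 200683 0) (P.cons (P.lf 43057 0 0) P.nil)) (P.cons (P.cons (P.lf 14482 0 0) P.nil) P.nil)))))) 353284)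
 (EL.cons 2 (TM.mk (P.cons (P.cons (P.lf 282033061 0 0) (P.cons (P.lf 225908949 0 0) (P.cons (P.lf 0 77159002 0) (P.cons (P.lf 0 15117451 0) (P.cons (P.lf 4362142 0 0) (P.cons (P.lf 86051 0 0) P.nil)))))) (P.cons (P.cons (P.lf 62803670 0 0) (P.cons (P.lf 53041989 0 0) (P.cons (P.lf 0 13453087 0) (P.cons (P.lf 0 2659938 0) (P.cons (P.lf 682025 0 0) P.nil))))) (P.cons (P.cons (P.lf 0 3541089 0) (P.cons (P.lf 0 3168798 0) (P.cons (P.lf 515801 0 0) (P.cons (P.lf 103989 0 0) P.nil)))) (P.cons (P.cons (P.lf 0 851934 0) (P.cons (P.lf 0 728673 0) (P.cons (P.lf 170004 0 0) P.nil))) (P.cons (P.cons (P.lf 0 646 0) (P.cons (P.lf 2238 0 0) P.nil)) (P.cons (P.cons (P.lf 4376 0 0) P.nil) P.nil)))))) 319240)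
 (EL.cons 6 (TM.mk (P.cons (P.cons (P.lf 211289766 0 0) (P.cons (P.lf 169243452 0 0) (P.cons (P.lf 0 57804954 0) (P.cons (P.lf 0 11325492 0) (P.cons (P.lf 3267972 0 0) (P.cons (P.lf 64464 0 0) P.nil)))))) (P.cons (P.cons (P.lf 70679496 0 0) (P.cons (P.lf 58664220 0 0) (P.cons (P.lf 0 16543080 0) (P.cons (P.lf 0 3259296 0) (P.cons (P.lf 876414 0 0) P.nil))))) (P.cons (P.cons (P.lf 4451514 0 0) (P.cons (P.lf 3545898 0 0) (P.cons (P.lf 0 1244796 0) (P.cons (P.lf 0 243708 0) P.nil)))) (P.cons (P.cons (P.lf 0 363372 0) (P.cons (P.lf 0 335700 0) (P.cons (P.lf 38574 0 0) P.nil))) (P.cons (P.cons (P.lf 0 44982 0) (P.cons (P.lf 0 38448 0) P.nil)) (P.cons (P.cons (P.lf 12 0 0) P.nil) P.nil)))))) 301200)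
 EL.nil))))))
noncomputable def S169_183_216_364_3 : EL := (EL.cons 0 (TM.mk (P.cons (P.lf 2342352752 0 0) (P.cons (P.lf 0 320722925 0) (P.cons (P.lf 970595 0 0) (P.cons (P.lf 761763 0 0) (P.cons (P.lf 15236 0 0) (P.cons (P.lf 0 715 0) P.nil)))))) 165)
 (EL.cons 1 (TM.mk (P.cons (P.lf 1754812605 0 0) (P.cons (P.lf 0 44029685 0) (P.cons (P.lf 0 10840057 0) (P.cons (P.lf 0 104334 0) (P.cons (P.lf 15399 0 0) (P.cons (P.lf 481 0 0) P.nil)))))) 128)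
 (EL.cons 5 (TM.mk (P.cons (P.lf 1314647110 0 0) (P.cons (P.lf 114034818 0 0) (P.cons (P.lf 0 345096 0) (P.cons (P.lf 0 270848 0) (P.cons (P.lf 0 5418 0) (P.cons (P.lf 254 0 0) P.nil)))))) 102)
 EL.nil)))
noncomputable def S169_183_216_364_4 : EL := (EL.cons 0 (TM.mk (P.cons (P.cons (P.lf 812058658 0 0) (P.cons (P.lf 0 106047442 0) (P.cons (P.lf 0 45728854 0) (P.lf 5080981 0 0)))) (P.cons (P.cons (P.lf 54796482 0 0) (P.cons (P.lf 722264 0 0) (P.cons (P.lf 311449 0 0) (P.lf 0 34604 0)))) (P.cons (P.cons (P.lf 0 28850661 0) (P.cons (P.lf 1587879 0 0) (P.cons (P.lf 684711 0 0) (P.lf 0 76078 0)))) (P.cons (P.cons (P.lf 556245 0 0) (P.cons (P.lf 33952 0 0) (P.cons (P.lf 14639 0 0) P.nil))) (P.cons (P.cons (P.lf 151316 0 0) (P.cons (P.lf 0 8716 0) P.nil)) (P.cons (P.cons (P.lf 0 643 0) P.nil) P.nil)))))) 13381)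
 (EL.cons 1 (TM.mk (P.cons (P.cons (P.lf 608367279 0 0) (P.cons (P.lf 0 79447209 0) (P.cons (P.lf 0 34258531 0) (P.lf 3806501 0 0)))) (P.cons (P.cons (P.lf 109086986 0 0) (P.cons (P.lf 0 8343690 0) (P.cons (P.lf 0 3597890 0) (P.lf 399765 0 0)))) (P.cons (P.cons (P.lf 0 11717585 0) (P.cons (P.lf 557255 0 0) (P.cons (P.lf 240294 0 0) (P.lf 0 26698 0)))) (P.cons (P.cons (P.lf 0 1178190 0) (P.cons (P.lf 102566 0 0) (P.cons (P.lf 44225 0 0) P.nil))) (P.cons (P.cons (P.lf 43419 0 0) (P.cons (P.lf 1796 0 0) P.nil)) (P.cons (P.cons (P.lf 5630 0 0) P.nil) P.nil)))))) 10207)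
 (EL.cons 5 (TM.mk (P.cons (P.cons (P.lf 455768486 0 0) (P.cons (P.lf 0 59519200 0) (P.cons (P.lf 0 25665350 0) (P.lf 2851702 0 0)))) (P.cons (P.cons (P.lf 132694104 0 0) (P.cons (P.lf 0 12907000 0) (P.cons (P.lf 0 5565642 0) (P.lf 618402 0 0)))) (P.cons (P.cons (P.lf 4335684 0 0) (P.cons (P.lf 0 800620 0) (P.cons (P.lf 0 345236 0) (P.lf 38358 0 0)))) (P.cons (P.cons (P.lf 0 803888 0) (P.cons (P.lf 23596 0 0) (P.cons (P.lf 10174 0 0) P.nil))) (P.cons (P.cons (P.lf 0 49942 0) (P.cons (P.lf 4834 0 0) P.nil)) (P.cons (P.cons (P.lf 1580 0 0) P.nil) P.nil)))))) 6764)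
 EL.nil)))
noncomputable def S169_183_216_364_5 : EL := (EL.cons 0 (TM.mk (P.cons (P.cons (P.lf 281528588 0 0) (P.cons (P.lf 0 73530123 0) (P.cons (P.lf 0 26905837 0) (P.cons (P.lf 7663645 0 0) (P.cons (P.lf 432673 0 0) (P.cons (P.lf 0 198386 0) P.nil)))))) (P.cons (P.cons (P.lf 76542096 0 0) (P.cons (P.lf 0 14528898 0) (P.cons (P.lf 0 5673028 0) (P.cons (P.lf 1206660 0 0) (P.cons (P.lf 53347 0 0) P.nil))))) (P.cons (P.cons (P.lf 0 8358540 0) (P.cons (P.lf 1788266 0 0) (P.cons (P.lf 706633 0 0) (P.cons (P.lf 0 141294 0) P.nil)))) (P.cons (P.cons (P.lf 0 2231919 0) (P.cons (P.lf 304463 0 0) (P.cons (P.lf 118555 0 0) P.nil))) (P.cons (P.cons (P.lf 157433 0 0) (P.cons (P.lf 0 10778 0) P.nil)) (P.cons (P.cons (P.lf 17716 0 0) P.nil) P.nil)))))) 231643)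
 (EL.cons 1 (TM.mk (P.cons (P.cons (P.lf 210911835 0 0) (P.cons (P.lf 0 55086316 0) (P.cons (P.lf 0 20156955 0) (P.cons (P.lf 5741347 0 0) (P.cons (P.lf 324144 0 0) (P.cons (P.lf 0 148623 0) P.nil)))))) (P.cons (P.cons (P.lf 80929603 0 0) (P.cons (P.lf 0 17045011 0) (P.cons (P.lf 0 6504247 0) (P.cons (P.lf 1546059 0 0) (P.cons (P.lf 76215 0 0) P.nil))))) (P.cons (P.cons (P.lf 1990171 0 0) (P.cons (P.lf 0 357935 0) (P.cons (P.lf 0 121691 0) (P.cons (P.lf 45309 0 0) P.nil)))) (P.cons (P.cons (P.lf 0 1711351 0) (P.cons (P.lf 240960 0 0) (P.cons (P.lf 95574 0 0) P.nil))) (P.cons (P.cons (P.lf 0 65818 0) (P.cons (P.lf 17131 0 0) P.nil)) (P.cons (P.cons (P.lf 12163 0 0) P.nil) P.nil)))))) 161382)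
 (EL.cons 5 (TM.mk (P.cons (P.cons (P.lf 158008116 0 0) (P.cons (P.lf 0 41268832 0) (P.cons (P.lf 0 15100920 0) (P.cons (P.lf 4301226 0 0) (P.cons (P.lf 242838 0 0) (P.cons (P.lf 0 111344 0) P.nil)))))) (P.cons (P.cons (P.lf 78300218 0 0) (P.cons (P.lf 0 17384754 0) (P.cons (P.lf 0 6561540 0) (P.cons (P.lf 1639274 0 0) (P.cons (P.lf 84256 0 0) P.nil))))) (P.cons (P.cons (P.lf 9649310 0 0) (P.cons (P.lf 0 2056102 0) (P.cons (P.lf 0 767792 0) (P.cons (P.lf 200984 0 0) P.nil)))) (P.cons (P.cons (P.lf 0 466036 0) (P.cons (P.lf 7678 0 0) (P.cons (P.lf 7388 0 0) P.nil))) (P.cons (P.cons (P.lf 0 122870 0) (P.cons (P.lf 18184 0 0) P.nil)) (P.cons (P.cons (P.lf 0 1472 0) P.nil) P.nil)))))) 115704)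
 EL.nil)))
noncomputable def S169_183_216_364_6 : EL := (EL.cons 12 (TM.mk (P.lf 8589934592 0 0) 0)
 (EL.cons 3 (TM.mk (P.cons (P.lf 0 2242802763 0) (P.cons (P.lf 153546101 0 0) (P.cons (P.lf 4791341 0 0) (P.cons (P.lf 0 36671 0) (P.cons (P.lf 0 4687 0) (P.cons (P.lf 0 56 0) P.nil)))))) 59)
 (EL.cons 7 (TM.mk (P.cons (P.lf 0 1680233071 0) (P.cons (P.lf 0 72873196 0) (P.cons (P.lf 1800820 0 0) (P.cons (P.lf 94981 0 0) (P.cons (P.lf 308 0 0) (P.cons (P.lf 0 74 0) P.nil)))))) 48)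
 EL.nil)))
noncomputable def S169_183_216_364_7 : EL := (EL.cons 12 (TM.mk (P.cons (P.cons (P.lf 2978001826 0 0) (P.cons (P.lf 0 388899840 0) (P.cons (P.lf 0 167698000 0) (P.lf 18633104 0 0)))) (P.cons (P.cons (P.lf 608709198 0 0) (P.cons (P.lf 0 50600784 0) (P.cons (P.lf 0 21819624 0) (P.lf 2424400 0 0)))) (P.cons (P.cons (P.lf 0 23689322 0) (P.cons (P.lf 0 944168 0) (P.cons (P.lf 0 407136 0) (P.lf 45240 0 0)))) (P.cons (P.cons (P.lf 0 2424456 0) (P.cons (P.lf 142680 0 0) (P.cons (P.lf 61520 0 0) P.nil))) (P.cons (P.cons (P.lf 15432 0 0) (P.cons (P.lf 6944 0 0) P.nil)) (P.cons (P.cons (P.lf 5412 0 0) P.nil) P.nil)))))) 11838)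
 (EL.cons 3 (TM.mk (P.cons (P.cons (P.lf 2886937639 0 0) (P.cons (P.lf 0 203080854 0) (P.cons (P.lf 0 87570754 0) (P.lf 9730080 0 0)))) (P.cons (P.cons (P.lf 0 301757142 0) (P.cons (P.lf 0 12520122 0) (P.cons (P.lf 0 5398814 0) (P.lf 599866 0 0)))) (P.cons (P.cons (P.lf 0 35901125 0) (P.cons (P.lf 1749796 0 0) (P.cons (P.lf 754530 0 0) (P.lf 0 83834 0)))) (P.cons (P.cons (P.lf 146056 0 0) (P.cons (P.lf 161388 0 0) (P.cons (P.lf 69588 0 0) P.nil))) (P.cons (P.cons (P.lf 153987 0 0) (P.cons (P.lf 0 1276 0) P.nil)) (P.cons (P.cons (P.lf 4332 0 0) P.nil) P.nil)))))) 30729)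
 (EL.cons 7 (TM.mk (P.cons (P.cons (P.lf 0 2321680863 0) (P.cons (P.lf 220644403 0 0) (P.cons (P.lf 95144355 0 0) (P.lf 0 10571599 0)))) (P.cons (P.cons (P.lf 143214359 0 0) (P.cons (P.lf 5942074 0 0) (P.cons (P.lf 2562291 0 0) (P.lf 0 284701 0)))) (P.cons (P.cons (P.lf 9030706 0 0) (P.cons (P.lf 0 1162710 0) (P.cons (P.lf 0 501373 0) (P.lf 55706 0 0)))) (P.cons (P.cons (P.lf 0 1158907 0) (P.cons (P.lf 0 7186 0) (P.cons (P.lf 0 3101 0) P.nil))) (P.cons (P.cons (P.lf 0 42575 0) (P.cons (P.lf 5144 0 0) P.nil)) (P.cons (P.cons (P.lf 3137 0 0) P.nil) P.nil)))))) 23622)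
 (EL.cons 10 (TM.mk (P.cons (P.cons (P.lf 0 778939467 0) (P.cons (P.lf 0 725654175 0) (P.cons (P.lf 74475723 0 0) (P.cons (P.lf 15488877 0 0) (P.lf 0 1290738 0))))) (P.cons (P.cons (P.lf 0 67566588 0) (P.cons (P.lf 0 62944527 0) (P.cons (P.lf 6460155 0 0) (P.cons (P.lf 1343532 0 0) (P.lf 0 111960 0))))) (P.cons (P.cons (P.lf 204471 0 0) (P.cons (P.lf 190482 0 0) (P.cons (P.lf 0 19548 0) (P.cons (P.lf 0 4065 0) P.nil)))) (P.cons (P.cons (P.lf 160479 0 0) (P.cons (P.lf 149499 0 0) (P.cons (P.lf 0 15342 0) P.nil))) (P.cons (P.cons (P.lf 3210 0 0) (P.cons (P.lf 2988 0 0) P.nil)) (P.cons (P.cons (P.lf 0 150 0) P.nil) P.nil)))))) 4557)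
 EL.nil))))
noncomputable def S169_183_216_364_8 : EL := (EL.cons 12 (TM.mk (P.cons (P.cons (P.lf 1032428684 0 0) (P.cons (P.lf 0 269651512 0) (P.cons (P.lf 0 98669762 0) (P.cons (P.lf 28104320 0 0) (P.cons (P.lf 1586716 0 0) (P.cons (P.lf 0 727532 0) P.nil)))))) (P.cons (P.cons (P.lf 422060746 0 0) (P.cons (P.lf 0 90202348 0) (P.cons (P.lf 0 34314476 0) (P.cons (P.lf 8273242 0 0) (P.cons (P.lf 412902 0 0) P.nil))))) (P.cons (P.cons (P.lf 26709538 0 0) (P.cons (P.lf 0 5681096 0) (P.cons (P.lf 0 2066184 0) (P.cons (P.lf 602992 0 0) P.nil)))) (P.cons (P.cons (P.lf 0 5038440 0) (P.cons (P.lf 463738 0 0) (P.cons (P.lf 198170 0 0) P.nil))) (P.cons (P.cons (P.lf 0 267578 0) (P.cons (P.lf 57410 0 0) P.nil)) (P.cons (P.cons (P.lf 19310 0 0) P.nil) P.nil)))))) 471016)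
 (EL.cons 3 (TM.mk (P.cons (P.cons (P.lf 2271279812 0 0) (P.cons (P.lf 0 472621132 0) (P.cons (P.lf 0 180813905 0) (P.cons (P.lf 42467735 0 0) (P.cons (P.lf 2071431 0 0) (P.cons (P.lf 0 949781 0) P.nil)))))) (P.cons (P.cons (P.lf 291669035 0 0) (P.cons (P.lf 0 62883178 0) (P.cons (P.lf 0 22708113 0) (P.cons (P.lf 6814272 0 0) (P.cons (P.lf 397227 0 0) P.nil))))) (P.cons (P.cons (P.lf 0 84729327 0) (P.cons (P.lf 7009661 0 0) (P.cons (P.lf 3064778 0 0) (P.cons (P.lf 0 299507 0) P.nil)))) (P.cons (P.cons (P.lf 0 6976094 0) (P.cons (P.lf 1387358 0 0) (P.cons (P.lf 549205 0 0) P.nil))) (P.cons (P.cons (P.lf 513861 0 0) (P.cons (P.lf 14880 0 0) P.nil)) (P.cons (P.cons (P.lf 59825 0 0) P.nil) P.nil)))))) 894049)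
 (EL.cons 7 (TM.mk (P.cons (P.cons (P.lf 0 1407835966 0) (P.cons (P.lf 310466167 0 0) (P.cons (P.lf 117341666 0 0) (P.cons (P.lf 0 29135193 0) (P.cons (P.lf 0 1490089 0) (P.cons (P.lf 683226 0 0) P.nil)))))) (P.cons (P.cons (P.lf 0 138426540 0) (P.cons (P.lf 29844450 0 0) (P.cons (P.lf 10777305 0 0) (P.cons (P.lf 0 3234065 0) (P.cons (P.lf 0 188522 0) P.nil))))) (P.cons (P.cons (P.lf 47952956 0 0) (P.cons (P.lf 0 4995582 0) (P.cons (P.lf 0 2057173 0) (P.cons (P.lf 322982 0 0) P.nil)))) (P.cons (P.cons (P.lf 138135 0 0) (P.cons (P.lf 0 372751 0) (P.cons (P.lf 0 138611 0) P.nil))) (P.cons (P.cons (P.lf 0 438148 0) (P.cons (P.lf 40287 0 0) P.nil)) (P.cons (P.cons (P.lf 0 2711 0) P.nil) P.nil)))))) 472215)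
 (EL.cons 10 (TM.mk (P.cons (P.cons (P.lf 0 540093318 0) (P.cons (P.lf 0 432615636 0) (P.cons (P.lf 147759498 0 0) (P.cons (P.lf 28949928 0 0) (P.cons (P.lf 0 8353512 0) (P.cons (P.lf 0 164790 0) P.nil)))))) (P.cons (P.cons (P.lf 0 157244742 0) (P.cons (P.lf 0 131193012 0) (P.cons (P.lf 35878536 0 0) (P.cons (P.lf 7075746 0 0) (P.cons (P.lf 0 1877976 0) P.nil))))) (P.cons (P.cons (P.lf 0 5137860 0) (P.cons (P.lf 0 3837642 0) (P.cons (P.lf 1784196 0 0) (P.cons (P.lf 347118 0 0) P.nil)))) (P.cons (P.cons (P.lf 952620 0 0) (P.cons (P.lf 859488 0 0) (P.cons (P.lf 0 129186 0) P.nil))) (P.cons (P.cons (P.lf 59178 0 0) (P.cons (P.lf 49398 0 0) P.nil)) (P.cons (P.cons (P.lf 0 1872 0) P.nil) P.nil)))))) 603798)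
 EL.nil))))
noncomputable def S169_183_216_364_9 : EL := (EL.cons 3 (TM.mk (P.cons (P.lf 0 2242802763 0) (P.cons (P.lf 153546101 0 0) (P.cons (P.lf 4791341 0 0) (P.cons (P.lf 0 36671 0) (P.cons (P.lf 0 4687 0) (P.cons (P.lf 0 56 0) P.nil)))))) 59)
 (EL.cons 7 (TM.mk (P.cons (P.lf 0 1680233071 0) (P.cons (P.lf 0 72873196 0) (P.cons (P.lf 1800820 0 0) (P.cons (P.lf 94981 0 0) (P.cons (P.lf 308 0 0) (P.cons (P.lf 0 74 0) P.nil)))))) 48)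
 EL.nil))
noncomputable def S169_183_216_364_10 : EL := (EL.cons 3 (TM.mk (P.cons (P.cons (P.lf 0 777546167 0) (P.cons (P.lf 101540427 0 0) (P.cons (P.lf 43785377 0 0) (P.lf 0 4865040 0)))) (P.cons (P.cons (P.lf 0 105699768 0) (P.cons (P.lf 6260061 0 0) (P.cons (P.lf 2699407 0 0) (P.lf 0 299933 0)))) (P.cons (P.cons (P.lf 18727036 0 0) (P.cons (P.lf 0 874898 0) (P.cons (P.lf 0 377265 0) (P.lf 41917 0 0)))) (P.cons (P.cons (P.lf 536383 0 0) (P.cons (P.lf 0 80694 0) (P.cons (P.lf 0 34794 0) P.nil))) (P.cons (P.cons (P.lf 0 64803 0) (P.cons (P.lf 638 0 0) P.nil)) (P.cons (P.cons (P.lf 0 2739 0) P.nil) P.nil)))))) 7601)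
 (EL.cons 7 (TM.mk (P.cons (P.cons (P.lf 0 582511671 0) (P.cons (P.lf 76070704 0 0) (P.cons (P.lf 32802546 0 0) (P.lf 0 3644725 0)))) (P.cons (P.cons (P.lf 0 144330532 0) (P.cons (P.lf 13197013 0 0) (P.cons (P.lf 5690700 0 0) (P.lf 0 632299 0)))) (P.cons (P.cons (P.lf 94045 0 0) (P.cons (P.lf 532428 0 0) (P.cons (P.lf 229589 0 0) (P.lf 0 25510 0)))) (P.cons (P.cons (P.lf 835745 0 0) (P.cons (P.lf 0 34807 0) (P.cons (P.lf 0 15008 0) P.nil))) (P.cons (P.cons (P.lf 19420 0 0) (P.cons (P.lf 0 3340 0) P.nil)) (P.cons (P.cons (P.lf 0 1963 0) P.nil) P.nil)))))) 4664)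
 EL.nil))
noncomputable def S169_183_216_364_11 : EL := (EL.cons 3 (TM.mk (P.cons (P.cons (P.lf 0 269563624 0) (P.cons (P.lf 70405094 0 0) (P.cons (P.lf 25762339 0 0) (P.cons (P.lf 0 7337941 0) (P.cons (P.lf 0 414285 0) (P.cons (P.lf 189955 0 0) P.nil)))))) (P.cons (P.cons (P.lf 0 91743841 0) (P.cons (P.lf 18731474 0 0) (P.cons (P.lf 7195659 0 0) (P.cons (P.lf 0 1657746 0) (P.cons (P.lf 0 79443 0) P.nil))))) (P.cons (P.cons (P.lf 1146489 0 0) (P.cons (P.lf 0 279469 0) (P.cons (P.lf 0 128938 0) (P.cons (P.lf 6121 0 0) P.nil)))) (P.cons (P.cons (P.lf 2023966 0 0) (P.cons (P.lf 0 271792 0) (P.cons (P.lf 0 107393 0) P.nil))) (P.cons (P.cons (P.lf 0 7665 0) (P.cons (P.lf 0 9336 0) P.nil)) (P.cons (P.cons (P.lf 0 12985 0) P.nil) P.nil)))))) 176529)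
 (EL.cons 7 (TM.mk (P.cons (P.cons (P.lf 0 201948082 0) (P.cons (P.lf 52745149 0 0) (P.cons (P.lf 19300286 0 0) (P.cons (P.lf 0 5497341 0) (P.cons (P.lf 0 310369 0) (P.cons (P.lf 142308 0 0) P.nil)))))) (P.cons (P.cons (P.lf 0 91315806 0) (P.cons (P.lf 19931622 0 0) (P.cons (P.lf 7549149 0 0) (P.cons (P.lf 0 1856711 0) (P.cons (P.lf 0 94226 0) P.nil))))) (P.cons (P.cons (P.lf 0 8588650 0) (P.cons (P.lf 1819956 0 0) (P.cons (P.lf 674579 0 0) (P.cons (P.lf 0 182242 0) P.nil)))) (P.cons (P.cons (P.lf 858849 0 0) (P.cons (P.lf 0 64405 0) (P.cons (P.lf 0 29519 0) P.nil))) (P.cons (P.cons (P.lf 105386 0 0) (P.cons (P.lf 0 17361 0) P.nil)) (P.cons (P.cons (P.lf 0 2261 0) P.nil) P.nil)))))) 117455)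
 EL.nil))
noncomputable def S169_183_216_364_12 : EL := (EL.cons 4 (TM.mk (P.cons (P.lf 2242802763 0 0) (P.cons (P.lf 0 153546101 0) (P.cons (P.lf 0 4791341 0) (P.cons (P.lf 36671 0 0) (P.cons (P.lf 4687 0 0) (P.cons (P.lf 56 0 0) P.nil)))))) 59)
 (EL.cons 8 (TM.mk (P.cons (P.lf 1680233071 0 0) (P.cons (P.lf 72873196 0 0) (P.cons (P.lf 0 1800820 0) (P.cons (P.lf 0 94981 0) (P.cons (P.lf 0 308 0) (P.cons (P.lf 74 0 0) P.nil)))))) 48)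
 EL.nil))
noncomputable def S169_183_216_364_13 : EL := (EL.cons 4 (TM.mk (P.cons (P.cons (P.lf 777546167 0 0) (P.cons (P.lf 0 101540427 0) (P.cons (P.lf 0 43785377 0) (P.lf 4865040 0 0)))) (P.cons (P.cons (P.lf 105699768 0 0) (P.cons (P.lf 0 6260061 0) (P.cons (P.lf 0 2699407 0) (P.lf 299933 0 0)))) (P.cons (P.cons (P.lf 0 18727036 0) (P.cons (P.lf 874898 0 0) (P.cons (P.lf 377265 0 0) (P.lf 0 41917 0)))) (P.cons (P.cons (P.lf 0 536383 0) (P.cons (P.lf 80694 0 0) (P.cons (P.lf 34794 0 0) P.nil))) (P.cons (P.cons (P.lf 64803 0 0) (P.cons (P.lf 0 638 0) P.nil)) (P.cons (P.cons (P.lf 2739 0 0) P.nil) P.nil)))))) 7601)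
 (EL.cons 8 (TM.mk (P.cons (P.cons (P.lf 582511671 0 0) (P.cons (P.lf 0 76070704 0) (P.cons (P.lf 0 32802546 0) (P.lf 3644725 0 0)))) (P.cons (P.cons (P.lf 144330532 0 0) (P.cons (P.lf 0 13197013 0) (P.cons (P.lf 0 5690700 0) (P.lf 632299 0 0)))) (P.cons (P.cons (P.lf 0 94045 0) (P.cons (P.lf 0 532428 0) (P.cons (P.lf 0 229589 0) (P.lf 25510 0 0)))) (P.cons (P.cons (P.lf 0 835745 0) (P.cons (P.lf 34807 0 0) (P.cons (P.lf 15008 0 0) P.nil))) (P.cons (P.cons (P.lf 0 19420 0) (P.cons (P.lf 3340 0 0) P.nil)) (P.cons (P.cons (P.lf 1963 0 0) P.nil) P.nil)))))) 4664)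
 EL.nil))
noncomputable def S169_183_216_364_14 : EL := (EL.cons 4 (TM.mk (P.cons (P.cons (P.lf 269563624 0 0) (P.cons (P.lf 0 70405094 0) (P.cons (P.lf 0 25762339 0) (P.cons (P.lf 7337941 0 0) (P.cons (P.lf 414285 0 0) (P.cons (P.lf 0 189955 0) P.nil)))))) (P.cons (P.cons (P.lf 91743841 0 0) (P.cons (P.lf 0 18731474 0) (P.cons (P.lf 0 7195659 0) (P.cons (P.lf 1657746 0 0) (P.cons (P.lf 79443 0 0) P.nil))))) (P.cons (P.cons (P.lf 0 1146489 0) (P.cons (P.lf 279469 0 0) (P.cons (P.lf 128938 0 0) (P.cons (P.lf 0 6121 0) P.nil)))) (P.cons (P.cons (P.lf 0 2023966 0) (P.cons (P.lf 271792 0 0) (P.cons (P.lf 107393 0 0) P.nil))) (P.cons (P.cons (P.lf 7665 0 0) (P.cons (P.lf 9336 0 0) P.nil)) (P.cons (P.cons (P.lf 12985 0 0) P.nil) P.nil)))))) 176529)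
 (EL.cons 8 (TM.mk (P.cons (P.cons (P.lf 201948082 0 0) (P.cons (P.lf 0 52745149 0) (P.cons (P.lf 0 19300286 0) (P.cons (P.lf 5497341 0 0) (P.cons (P.lf 310369 0 0) (P.cons (P.lf 0 142308 0) P.nil)))))) (P.cons (P.cons (P.lf 91315806 0 0) (P.cons (P.lf 0 19931622 0) (P.cons (P.lf 0 7549149 0) (P.cons (P.lf 1856711 0 0) (P.cons (P.lf 94226 0 0) P.nil))))) (P.cons (P.cons (P.lf 8588650 0 0) (P.cons (P.lf 0 1819956 0) (P.cons (P.lf 0 674579 0) (P.cons (P.lf 182242 0 0) P.nil)))) (P.cons (P.cons (P.lf 0 858849 0) (P.cons (P.lf 64405 0 0) (P.cons (P.lf 29519 0 0) P.nil))) (P.cons (P.cons (P.lf 0 105386 0) (P.cons (P.lf 17361 0 0) P.nil)) (P.cons (P.cons (P.lf 2261 0 0) P.nil) P.nil)))))) 117455)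
 EL.nil))
noncomputable def S169_183_216_364_15 : EL := (EL.cons 4 (TM.mk (P.cons (P.lf 0 1249254801 0) (P.cons (P.lf 171052227 0 0) (P.cons (P.lf 0 517650 0) (P.cons (P.lf 0 406274 0) (P.cons (P.lf 0 8126 0) (P.cons (P.lf 381 0 0) P.nil)))))) 91)
 (EL.cons 8 (TM.mk (P.cons (P.lf 0 935900056 0) (P.cons (P.lf 23482499 0 0) (P.cons (P.lf 5781364 0 0) (P.cons (P.lf 55645 0 0) (P.cons (P.lf 0 8213 0) (P.cons (P.lf 0 257 0) P.nil)))))) 65)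
 EL.nil))
noncomputable def S169_183_216_364_16 : EL := (EL.cons 4 (TM.mk (P.cons (P.cons (P.lf 0 433097951 0) (P.cons (P.lf 56558636 0 0) (P.cons (P.lf 24388722 0 0) (P.lf 0 2709856 0)))) (P.cons (P.cons (P.lf 0 29224790 0) (P.cons (P.lf 0 385207 0) (P.cons (P.lf 0 166106 0) (P.lf 18455 0 0)))) (P.cons (P.cons (P.lf 15387019 0 0) (P.cons (P.lf 0 846869 0) (P.cons (P.lf 0 365179 0) (P.lf 40575 0 0)))) (P.cons (P.cons (P.lf 0 296664 0) (P.cons (P.lf 0 18107 0) (P.cons (P.lf 0 7807 0) P.nil))) (P.cons (P.cons (P.lf 0 80701 0) (P.cons (P.lf 4649 0 0) P.nil)) (P.cons (P.cons (P.lf 343 0 0) P.nil) P.nil)))))) 7145)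
 (EL.cons 8 (TM.mk (P.cons (P.cons (P.lf 0 324462549 0) (P.cons (P.lf 42371845 0 0) (P.cons (P.lf 18271217 0 0) (P.lf 0 2030134 0)))) (P.cons (P.cons (P.lf 0 58179726 0) (P.cons (P.lf 4449968 0 0) (P.cons (P.lf 1918875 0 0) (P.lf 0 213208 0)))) (P.cons (P.cons (P.lf 6249379 0 0) (P.cons (P.lf 0 297203 0) (P.cons (P.lf 0 128157 0) (P.lf 14239 0 0)))) (P.cons (P.cons (P.lf 628368 0 0) (P.cons (P.lf 0 54702 0) (P.cons (P.lf 0 23587 0) P.nil))) (P.cons (P.cons (P.lf 0 23157 0) (P.cons (P.lf 0 958 0) P.nil)) (P.cons (P.cons (P.lf 0 3003 0) P.nil) P.nil)))))) 5434)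
 EL.nil))
noncomputable def S169_183_216_364_17 : EL := (EL.cons 4 (TM.mk (P.cons (P.cons (P.lf 0 150148580 0) (P.cons (P.lf 39216065 0 0) (P.cons (P.lf 14349780 0 0) (P.cons (P.lf 0 4087277 0) (P.cons (P.lf 0 230759 0) (P.cons (P.lf 105806 0 0) P.nil)))))) (P.cons (P.cons (P.lf 0 40822451 0) (P.cons (P.lf 7748745 0 0) (P.cons (P.lf 3025615 0 0) (P.cons (P.lf 0 643552 0) (P.cons (P.lf 0 28452 0) P.nil))))) (P.cons (P.cons (P.lf 4457888 0 0) (P.cons (P.lf 0 953742 0) (P.cons (P.lf 0 376871 0) (P.cons (P.lf 75357 0 0) P.nil)))) (P.cons (P.cons (P.lf 1190356 0 0) (P.cons (P.lf 0 162380 0) (P.cons (P.lf 0 63229 0) P.nil))) (P.cons (P.cons (P.lf 0 83964 0) (P.cons (P.lf 5748 0 0) P.nil)) (P.cons (P.cons (P.lf 0 9449 0) P.nil) P.nil)))))) 123553)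
 (EL.cons 8 (TM.mk (P.cons (P.cons (P.lf 0 112486312 0) (P.cons (P.lf 29379369 0 0) (P.cons (P.lf 10750376 0 0) (P.cons (P.lf 0 3062052 0) (P.cons (P.lf 0 172877 0) (P.cons (P.lf 79266 0 0) P.nil)))))) (P.cons (P.cons (P.lf 0 43162455 0) (P.cons (P.lf 9090673 0 0) (P.cons (P.lf 3468932 0 0) (P.cons (P.lf 0 824565 0) (P.cons (P.lf 0 40648 0) P.nil))))) (P.cons (P.cons (P.lf 0 1061425 0) (P.cons (P.lf 190899 0 0) (P.cons (P.lf 64902 0 0) (P.cons (P.lf 0 24165 0) P.nil)))) (P.cons (P.cons (P.lf 912721 0 0) (P.cons (P.lf 0 128512 0) (P.cons (P.lf 0 50973 0) P.nil))) (P.cons (P.cons (P.lf 35103 0 0) (P.cons (P.lf 0 9137 0) P.nil)) (P.cons (P.cons (P.lf 0 6487 0) P.nil) P.nil)))))) 86059)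
 EL.nil))
noncomputable def S169_183_216_364_18 : EL := (EL.cons 4 (TM.mk (P.cons (P.lf 695842534 0 0) (P.cons (P.lf 0 142915698 0) (P.cons (P.lf 5324627 0 0) (P.cons (P.lf 421476 0 0) (P.cons (P.lf 0 11685 0) (P.cons (P.lf 0 1182 0) P.nil)))))) 113)
 (EL.cons 8 (TM.mk (P.cons (P.lf 521302032 0 0) (P.cons (P.lf 0 48769121 0) (P.cons (P.lf 0 3438450 0) (P.cons (P.lf 225935 0 0) (P.cons (P.lf 14451 0 0) (P.cons (P.lf 0 170 0) P.nil)))))) 84)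
 EL.nil))
noncomputable def S169_183_216_364_19 : EL := (EL.cons 4 (TM.mk (P.cons (P.cons (P.lf 241238197 0 0) (P.cons (P.lf 0 31503505 0) (P.cons (P.lf 0 13584666 0) (P.lf 1509405 0 0)))) (P.cons (P.cons (P.lf 0 237191 0) (P.cons (P.lf 2371346 0 0) (P.cons (P.lf 1022551 0 0) (P.lf 0 113616 0)))) (P.cons (P.cons (P.lf 0 10200471 0) (P.cons (P.lf 524323 0 0) (P.cons (P.lf 226094 0 0) (P.lf 0 25121 0)))) (P.cons (P.cons (P.lf 721174 0 0) (P.cons (P.lf 0 23180 0) (P.cons (P.lf 0 9995 0) P.nil))) (P.cons (P.cons (P.lf 52718 0 0) (P.cons (P.lf 0 4350 0) P.nil)) (P.cons (P.cons (P.lf 0 3720 0) P.nil) P.nil)))))) 8034)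
 (EL.cons 8 (TM.mk (P.cons (P.cons (P.lf 180727616 0 0) (P.cons (P.lf 0 23601375 0) (P.cons (P.lf 0 10177179 0) (P.lf 1130797 0 0)))) (P.cons (P.cons (P.lf 20033541 0 0) (P.cons (P.lf 0 862869 0) (P.cons (P.lf 0 372078 0) (P.lf 41342 0 0)))) (P.cons (P.cons (P.lf 0 6085635 0) (P.cons (P.lf 385657 0 0) (P.cons (P.lf 166299 0 0) (P.lf 0 18477 0)))) (P.cons (P.cons (P.lf 0 177969 0) (P.cons (P.lf 24044 0 0) (P.cons (P.lf 10368 0 0) P.nil))) (P.cons (P.cons (P.lf 45204 0 0) (P.cons (P.lf 0 1995 0) P.nil)) (P.cons (P.cons (P.lf 1553 0 0) P.nil) P.nil)))))) 4450)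
 EL.nil))
noncomputable def S169_183_216_364_20 : EL := (EL.cons 4 (TM.mk (P.cons (P.cons (P.lf 83633673 0 0) (P.cons (P.lf 0 21843587 0) (P.cons (P.lf 0 7992915 0) (P.cons (P.lf 2276639 0 0) (P.cons (P.lf 128534 0 0) (P.cons (P.lf 0 58934 0) P.nil)))))) (P.cons (P.cons (P.lf 17012649 0 0) (P.cons (P.lf 0 2820648 0) (P.cons (P.lf 0 1138077 0) (P.cons (P.lf 202600 0 0) (P.cons (P.lf 7048 0 0) P.nil))))) (P.cons (P.cons (P.lf 0 4218445 0) (P.cons (P.lf 873392 0 0) (P.cons (P.lf 342372 0 0) (P.cons (P.lf 0 71378 0) P.nil)))) (P.cons (P.cons (P.lf 0 540249 0) (P.cons (P.lf 62940 0 0) (P.cons (P.lf 24316 0 0) P.nil))) (P.cons (P.cons (P.lf 98011 0 0) (P.cons (P.lf 0 10645 0) P.nil)) (P.cons (P.cons (P.lf 3486 0 0) P.nil) P.nil)))))) 93910)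
 (EL.cons 8 (TM.mk (P.cons (P.cons (P.lf 62655560 0 0) (P.cons (P.lf 0 16364487 0) (P.cons (P.lf 0 5988025 0) (P.cons (P.lf 1705581 0 0) (P.cons (P.lf 96293 0 0) (P.cons (P.lf 0 44151 0) P.nil)))))) (P.cons (P.cons (P.lf 19752244 0 0) (P.cons (P.lf 0 3943219 0) (P.cons (P.lf 0 1522266 0) (P.cons (P.lf 342520 0 0) (P.cons (P.lf 16049 0 0) P.nil))))) (P.cons (P.cons (P.lf 0 1188571 0) (P.cons (P.lf 275287 0 0) (P.cons (P.lf 108924 0 0) (P.cons (P.lf 0 21626 0) P.nil)))) (P.cons (P.cons (P.lf 0 599203 0) (P.cons (P.lf 89411 0 0) (P.cons (P.lf 34897 0 0) P.nil))) (P.cons (P.cons (P.lf 14513 0 0) (P.cons (P.lf 299 0 0) P.nil)) (P.cons (P.cons (P.lf 6099 0 0) P.nil) P.nil)))))) 60144)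
 EL.nil))
noncomputable def S169_183_216_364_21 : EL := (EL.cons 4 (TM.mk (P.cons (P.cons (P.lf 0 3664483806 0) (P.cons (P.lf 304621281 0 0) (P.cons (P.lf 131356131 0 0) (P.lf 0 14595120 0)))) (P.cons (P.cons (P.lf 196057374 0 0) (P.cons (P.lf 18780183 0 0) (P.cons (P.lf 8098221 0 0) (P.lf 0 899799 0)))) (P.cons (P.cons (P.lf 54628161 0 0) (P.cons (P.lf 0 2624694 0) (P.cons (P.lf 0 1131795 0) (P.lf 125751 0 0)))) (P.cons (P.cons (P.lf 390327 0 0) (P.cons (P.lf 0 242082 0) (P.cons (P.lf 0 104382 0) P.nil))) (P.cons (P.cons (P.lf 0 218790 0) (P.cons (P.lf 1914 0 0) P.nil)) (P.cons (P.cons (P.lf 0 7071 0) P.nil) P.nil)))))) 23109)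
 (EL.cons 8 (TM.mk (P.cons (P.cons (P.lf 1739169192 0 0) (P.cons (P.lf 0 144573699 0) (P.cons (P.lf 0 62341809 0) (P.lf 6926874 0 0)))) (P.cons (P.cons (P.lf 0 287544891 0) (P.cons (P.lf 7254939 0 0) (P.cons (P.lf 3128409 0 0) (P.lf 0 347598 0)))) (P.cons (P.cons (P.lf 0 8936661 0) (P.cons (P.lf 1695138 0 0) (P.cons (P.lf 730962 0 0) (P.lf 0 81216 0)))) (P.cons (P.cons (P.lf 1994652 0 0) (P.cons (P.lf 0 27621 0) (P.cons (P.lf 0 11907 0) P.nil))) (P.cons (P.cons (P.lf 61995 0 0) (P.cons (P.lf 0 8484 0) P.nil)) (P.cons (P.cons (P.lf 0 5100 0) P.nil) P.nil)))))) 18939)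
 (EL.cons 11 (TM.mk (P.cons (P.cons (P.lf 778939467 0 0) (P.cons (P.lf 725654175 0 0) (P.cons (P.lf 0 74475723 0) (P.cons (P.lf 0 15488877 0) (P.lf 1290738 0 0))))) (P.cons (P.cons (P.lf 67566588 0 0) (P.cons (P.lf 62944527 0 0) (P.cons (P.lf 0 6460155 0) (P.cons (P.lf 0 1343532 0) (P.lf 111960 0 0))))) (P.cons (P.cons (P.lf 0 204471 0) (P.cons (P.lf 0 190482 0) (P.cons (P.lf 19548 0 0) (P.cons (P.lf 4065 0 0) P.nil)))) (P.cons (P.cons (P.lf 0 160479 0) (P.cons (P.lf 0 149499 0) (P.cons (P.lf 15342 0 0) P.nil))) (P.cons (P.cons (P.lf 0 3210 0) (P.cons (P.lf 0 2988 0) P.nil)) (P.cons (P.cons (P.lf 150 0 0) P.nil) P.nil)))))) 4557)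
 EL.nil)))
noncomputable def S169_183_216_364_22 : EL := (EL.cons 4 (TM.mk (P.cons (P.cons (P.lf 0 1270421718 0) (P.cons (P.lf 271513113 0 0) (P.cons (P.lf 103288122 0 0) (P.cons (P.lf 0 24902838 0) (P.cons (P.lf 0 1242858 0) (P.cons (P.lf 569868 0 0) P.nil)))))) (P.cons (P.cons (P.lf 0 191706438 0) (P.cons (P.lf 40807326 0 0) (P.cons (P.lf 14951886 0 0) (P.cons (P.lf 0 4236009 0) (P.cons (P.lf 0 238335 0) P.nil))))) (P.cons (P.cons (P.lf 42937908 0 0) (P.cons (P.lf 0 3644565 0) (P.cons (P.lf 0 1596858 0) (P.cons (P.lf 152814 0 0) P.nil)))) (P.cons (P.cons (P.lf 4500030 0 0) (P.cons (P.lf 0 829575 0) (P.cons (P.lf 0 328299 0) P.nil))) (P.cons (P.cons (P.lf 0 260763 0) (P.cons (P.lf 0 12108 0) P.nil)) (P.cons (P.cons (P.lf 0 36405 0) P.nil) P.nil)))))) 358749)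
 (EL.cons 8 (TM.mk (P.cons (P.cons (P.lf 602943942 0 0) (P.cons (P.lf 0 128860509 0) (P.cons (P.lf 0 49020690 0) (P.cons (P.lf 11818926 0 0) (P.cons (P.lf 589860 0 0) (P.cons (P.lf 0 270459 0) P.nil)))))) (P.cons (P.cons (P.lf 23555367 0 0) (P.cons (P.lf 0 4956414 0) (P.cons (P.lf 0 1614078 0) (P.cons (P.lf 688677 0 0) (P.cons (P.lf 47148 0 0) P.nil))))) (P.cons (P.cons (P.lf 0 28270803 0) (P.cons (P.lf 3407769 0 0) (P.cons (P.lf 1365876 0 0) (P.cons (P.lf 0 252612 0) P.nil)))) (P.cons (P.cons (P.lf 360357 0 0) (P.cons (P.lf 154173 0 0) (P.cons (P.lf 54546 0 0) P.nil))) (P.cons (P.cons (P.lf 271767 0 0) (P.cons (P.lf 0 28824 0) P.nil)) (P.cons (P.cons (P.lf 225 0 0) P.nil) P.nil)))))) 177369)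
 (EL.cons 11 (TM.mk (P.cons (P.cons (P.lf 270046659 0 0) (P.cons (P.lf 216307818 0 0) (P.cons (P.lf 0 73879749 0) (P.cons (P.lf 0 14474964 0) (P.cons (P.lf 4176756 0 0) (P.cons (P.lf 82395 0 0) P.nil)))))) (P.cons (P.cons (P.lf 78622371 0 0) (P.cons (P.lf 65596506 0 0) (P.cons (P.lf 0 17939268 0) (P.cons (P.lf 0 3537873 0) (P.cons (P.lf 938988 0 0) P.nil))))) (P.cons (P.cons (P.lf 2568930 0 0) (P.cons (P.lf 1918821 0 0) (P.cons (P.lf 0 892098 0) (P.cons (P.lf 0 173559 0) P.nil)))) (P.cons (P.cons (P.lf 0 476310 0) (P.cons (P.lf 0 429744 0) (P.cons (P.lf 64593 0 0) P.nil))) (P.cons (P.cons (P.lf 0 29589 0) (P.cons (P.lf 0 24699 0) P.nil)) (P.cons (P.cons (P.lf 936 0 0) P.nil) P.nil)))))) 301899)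
 EL.nil)))
noncomputable def S169_183_216_364_23 : EL := (EL.cons 4 (TM.mk (P.cons (P.cons (P.lf 2041139802 0 0) (P.cons (P.lf 0 169675908 0) (P.cons (P.lf 0 73166163 0) (P.lf 8129568 0 0)))) (P.cons (P.cons (P.lf 0 248945061 0) (P.cons (P.lf 1155624 0 0) (P.cons (P.lf 498321 0 0) (P.lf 0 55368 0)))) (P.cons (P.cons (P.lf 0 27312372 0) (P.cons (P.lf 2540607 0 0) (P.cons (P.lf 1095537 0 0) (P.lf 0 121722 0)))) (P.cons (P.cons (P.lf 2132424 0 0) (P.cons (P.lf 54324 0 0) (P.cons (P.lf 23421 0 0) P.nil))) (P.cons (P.cons (P.lf 204234 0 0) (P.cons (P.lf 0 13944 0) P.nil)) (P.cons (P.cons (P.lf 0 4614 0) P.nil) P.nil)))))) 26802)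
 (EL.cons 8 (TM.mk (P.cons (P.cons (P.lf 0 968727834 0) (P.cons (P.lf 80528430 0 0) (P.cons (P.lf 34724766 0 0) (P.lf 0 3858309 0)))) (P.cons (P.cons (P.lf 226485015 0 0) (P.cons (P.lf 0 9554157 0) (P.cons (P.lf 0 4119858 0) (P.lf 457758 0 0)))) (P.cons (P.cons (P.lf 0 3917832 0) (P.cons (P.lf 0 839577 0) (P.cons (P.lf 0 362034 0) (P.lf 40224 0 0)))) (P.cons (P.cons (P.lf 0 1809819 0) (P.cons (P.lf 89976 0 0) (P.cons (P.lf 38796 0 0) P.nil))) (P.cons (P.cons (P.lf 31491 0 0) (P.cons (P.lf 5790 0 0) P.nil)) (P.cons (P.cons (P.lf 7968 0 0) P.nil) P.nil)))))) 17217)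
 (EL.cons 11 (TM.mk (P.cons (P.cons (P.lf 0 433874028 0) (P.cons (P.lf 0 404193795 0) (P.cons (P.lf 41483430 0 0) (P.cons (P.lf 8627397 0 0) (P.lf 0 718947 0))))) (P.cons (P.cons (P.lf 0 7931244 0) (P.cons (P.lf 0 7388688 0) (P.cons (P.lf 758319 0 0) (P.cons (P.lf 157707 0 0) (P.lf 0 13140 0))))) (P.cons (P.cons (P.lf 3617340 0 0) (P.cons (P.lf 3369885 0 0) (P.cons (P.lf 0 345858 0) (P.cons (P.lf 0 71928 0) P.nil)))) (P.cons (P.cons (P.lf 154896 0 0) (P.cons (P.lf 144297 0 0) (P.cons (P.lf 0 14808 0) P.nil))) (P.cons (P.cons (P.lf 0 6096 0) (P.cons (P.lf 0 5679 0) P.nil)) (P.cons (P.cons (P.lf 0 483 0) P.nil) P.nil)))))) 11862)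
 EL.nil)))
noncomputable def S169_183_216_364_24 : EL := (EL.cons 4 (TM.mk (P.cons (P.cons (P.lf 707632635 0 0) (P.cons (P.lf 0 151234458 0) (P.cons (P.lf 0 57532113 0) (P.cons (P.lf 13871031 0 0) (P.cons (P.lf 692280 0 0) (P.cons (P.lf 0 317418 0) P.nil)))))) (P.cons (P.cons (P.lf 58335915 0 0) (P.cons (P.lf 0 12376158 0) (P.cons (P.lf 0 4389543 0) (P.cons (P.lf 1409847 0 0) (P.cons (P.lf 85359 0 0) P.nil))))) (P.cons (P.cons (P.lf 0 32738859 0) (P.cons (P.lf 3909258 0 0) (P.cons (P.lf 1582536 0 0) (P.cons (P.lf 0 276285 0) P.nil)))) (P.cons (P.cons (P.lf 0 1085715 0) (P.cons (P.lf 369183 0 0) (P.cons (P.lf 138822 0 0) P.nil))) (P.cons (P.cons (P.lf 371166 0 0) (P.cons (P.lf 0 29913 0) P.nil)) (P.cons (P.cons (P.lf 15537 0 0) P.nil) P.nil)))))) 199056)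
 (EL.cons 8 (TM.mk (P.cons (P.cons (P.lf 0 335843448 0) (P.cons (P.lf 71776089 0 0) (P.cons (P.lf 27304821 0 0) (P.cons (P.lf 0 6583212 0) (P.cons (P.lf 0 328554 0) (P.cons (P.lf 150648 0 0) P.nil)))))) (P.cons (P.cons (P.lf 9871929 0 0) (P.cons (P.lf 0 2153160 0) (P.cons (P.lf 0 970281 0) (P.cons (P.lf 67098 0 0) (P.cons (P.lf 0 3768 0) P.nil))))) (P.cons (P.cons (P.lf 17362728 0 0) (P.cons (P.lf 0 2240490 0) (P.cons (P.lf 0 880683 0) (P.cons (P.lf 181032 0 0) P.nil)))) (P.cons (P.cons (P.lf 0 1256250 0) (P.cons (P.lf 39348 0 0) (P.cons (P.lf 20226 0 0) P.nil))) (P.cons (P.cons (P.lf 0 172191 0) (P.cons (P.lf 26184 0 0) P.nil)) (P.cons (P.cons (P.lf 10887 0 0) P.nil) P.nil)))))) 99651)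
 (EL.cons 11 (TM.mk (P.cons (P.cons (P.lf 0 150417633 0) (P.cons (P.lf 0 120484773 0) (P.cons (P.lf 41151468 0 0) (P.cons (P.lf 8062641 0 0) (P.cons (P.lf 0 2326476 0) (P.cons (P.lf 0 45894 0) P.nil)))))) (P.cons (P.cons (P.lf 0 33495291 0) (P.cons (P.lf 0 28289061 0) (P.cons (P.lf 7174980 0 0) (P.cons (P.lf 1418634 0 0) (P.cons (P.lf 0 363747 0) P.nil))))) (P.cons (P.cons (P.lf 1888581 0 0) (P.cons (P.lf 1690026 0 0) (P.cons (P.lf 0 275094 0) (P.cons (P.lf 0 55461 0) P.nil)))) (P.cons (P.cons (P.lf 454365 0 0) (P.cons (P.lf 388626 0 0) (P.cons (P.lf 0 90669 0) P.nil))) (P.cons (P.cons (P.lf 345 0 0) (P.cons (P.lf 0 1194 0) P.nil)) (P.cons (P.cons (P.lf 0 2334 0) P.nil) P.nil)))))) 170250)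
 EL.nil)))
noncomputable def S169_183_216_364_25 : EL := (EL.cons 4 (TM.mk (P.cons (P.cons (P.lf 0 1136927304 0) (P.cons (P.lf 94510515 0 0) (P.cons (P.lf 40753998 0 0) (P.lf 0 4528218 0)))) (P.cons (P.cons (P.lf 216499896 0 0) (P.cons (P.lf 0 7114041 0) (P.cons (P.lf 0 3067656 0) (P.lf 340851 0 0)))) (P.cons (P.cons (P.lf 8148828 0 0) (P.cons (P.lf 0 1572969 0) (P.cons (P.lf 0 678279 0) (P.lf 75363 0 0)))) (P.cons (P.cons (P.lf 0 2544111 0) (P.cons (P.lf 69543 0 0) (P.cons (P.lf 29988 0 0) P.nil))) (P.cons (P.cons (P.lf 0 65052 0) (P.cons (P.lf 13050 0 0) P.nil)) (P.cons (P.cons (P.lf 13404 0 0) P.nil) P.nil)))))) 22224)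
 (EL.cons 8 (TM.mk (P.cons (P.cons (P.lf 539587302 0 0) (P.cons (P.lf 0 44854824 0) (P.cons (P.lf 0 19341906 0) (P.lf 2149101 0 0)))) (P.cons (P.cons (P.lf 0 163094598 0) (P.cons (P.lf 8392560 0 0) (P.cons (P.lf 3618966 0 0) (P.lf 0 402105 0)))) (P.cons (P.cons (P.lf 9666210 0 0) (P.cons (P.lf 199140 0 0) (P.cons (P.lf 85869 0 0) (P.lf 0 9540 0)))) (P.cons (P.cons (P.lf 1137006 0 0) (P.cons (P.lf 0 94233 0) (P.cons (P.lf 0 40632 0) P.nil))) (P.cons (P.cons (P.lf 0 92151 0) (P.cons (P.lf 0 798 0) P.nil)) (P.cons (P.cons (P.lf 0 5604 0) P.nil) P.nil)))))) 13239)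
 (EL.cons 11 (TM.mk (P.cons (P.cons (P.lf 241670475 0 0) (P.cons (P.lf 225138405 0 0) (P.cons (P.lf 0 23106522 0) (P.cons (P.lf 0 4805511 0) (P.lf 400458 0 0))))) (P.cons (P.cons (P.lf 0 12127419 0) (P.cons (P.lf 0 11297814 0) (P.cons (P.lf 1159521 0 0) (P.cons (P.lf 241146 0 0) (P.lf 0 20094 0))))) (P.cons (P.cons (P.lf 0 2833611 0) (P.cons (P.lf 0 2639772 0) (P.cons (P.lf 270924 0 0) (P.cons (P.lf 56343 0 0) P.nil)))) (P.cons (P.cons (P.lf 46176 0 0) (P.cons (P.lf 43017 0 0) (P.cons (P.lf 0 4413 0) P.nil))) (P.cons (P.cons (P.lf 14184 0 0) (P.cons (P.lf 13212 0 0) P.nil)) (P.cons (P.cons (P.lf 204 0 0) P.nil) P.nil)))))) 10764)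
 EL.nil)))
noncomputable def S169_183_216_364_26 : EL := (EL.cons 4 (TM.mk (P.cons (P.cons (P.lf 0 394155687 0) (P.cons (P.lf 84238512 0 0) (P.cons (P.lf 32045736 0 0) (P.cons (P.lf 0 7726248 0) (P.cons (P.lf 0 385602 0) (P.cons (P.lf 176805 0 0) P.nil)))))) (P.cons (P.cons (P.lf 0 5508888 0) (P.cons (P.lf 1126482 0 0) (P.cons (P.lf 251097 0 0) (P.cons (P.lf 0 256341 0) (P.cons (P.lf 0 21144 0) P.nil))))) (P.cons (P.cons (P.lf 21302343 0 0) (P.cons (P.lf 0 2829387 0) (P.cons (P.lf 0 1117329 0) (P.cons (P.lf 224160 0 0) P.nil)))) (P.cons (P.cons (P.lf 0 580725 0) (P.cons (P.lf 0 69912 0) (P.cons (P.lf 0 21675 0) P.nil))) (P.cons (P.cons (P.lf 0 288456 0) (P.cons (P.lf 35679 0 0) P.nil)) (P.cons (P.cons (P.lf 4425 0 0) P.nil) P.nil)))))) 109485)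
 (EL.cons 8 (TM.mk (P.cons (P.cons (P.lf 187066845 0 0) (P.cons (P.lf 0 39979716 0) (P.cons (P.lf 0 15208950 0) (P.cons (P.lf 3666888 0 0) (P.cons (P.lf 183006 0 0) (P.cons (P.lf 0 83910 0) P.nil)))))) (P.cons (P.cons (P.lf 0 18305640 0) (P.cons (P.lf 3936402 0 0) (P.cons (P.lf 1581681 0 0) (P.cons (P.lf 0 288414 0) (P.cons (P.lf 0 10428 0) P.nil))))) (P.cons (P.cons (P.lf 0 9694326 0) (P.cons (P.lf 1251267 0 0) (P.cons (P.lf 486036 0 0) (P.cons (P.lf 0 106110 0) P.nil)))) (P.cons (P.cons (P.lf 1376646 0 0) (P.cons (P.lf 0 110571 0) (P.cons (P.lf 0 46254 0) P.nil))) (P.cons (P.cons (P.lf 68967 0 0) (P.cons (P.lf 0 15813 0) P.nil)) (P.cons (P.cons (P.lf 0 14289 0) P.nil) P.nil)))))) 54885)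
 (EL.cons 11 (TM.mk (P.cons (P.cons (P.lf 83783538 0 0) (P.cons (P.lf 67110750 0 0) (P.cons (P.lf 0 22921617 0) (P.cons (P.lf 0 4490940 0) (P.cons (P.lf 1295862 0 0) (P.cons (P.lf 25563 0 0) P.nil)))))) (P.cons (P.cons (P.lf 12921117 0 0) (P.cons (P.lf 11162661 0 0) (P.cons (P.lf 0 2427255 0) (P.cons (P.lf 0 482730 0) (P.cons (P.lf 113892 0 0) P.nil))))) (P.cons (P.cons (P.lf 0 2508234 0) (P.cons (P.lf 0 2163489 0) (P.cons (P.lf 475803 0 0) (P.cons (P.lf 94584 0 0) P.nil)))) (P.cons (P.cons (P.lf 0 219552 0) (P.cons (P.lf 0 184584 0) (P.cons (P.lf 48177 0 0) P.nil))) (P.cons (P.cons (P.lf 19860 0 0) (P.cons (P.lf 17892 0 0) P.nil)) (P.cons (P.cons (P.lf 1878 0 0) P.nil) P.nil)))))) 93357)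
 EL.nil)))
noncomputable def S169_183_216_364_27 : EL := (EL.cons 13 (TM.mk (P.lf 0 4294967296 0) 0)
 EL.nil)
noncomputable def S169_183_216_364_28 : EL := (EL.cons 13 (TM.mk (P.cons (P.cons (P.lf 0 1489000913 0) (P.cons (P.lf 194449920 0 0) (P.cons (P.lf 83849000 0 0) (P.lf 0 9316552 0)))) (P.cons (P.cons (P.lf 0 304354599 0) (P.cons (P.lf 25300392 0 0) (P.cons (P.lf 10909812 0 0) (P.lf 0 1212200 0)))) (P.cons (P.cons (P.lf 11844661 0 0) (P.cons (P.lf 472084 0 0) (P.cons (P.lf 203568 0 0) (P.lf 0 22620 0)))) (P.cons (P.cons (P.lf 1212228 0 0) (P.cons (P.lf 0 71340 0) (P.cons (P.lf 0 30760 0) P.nil))) (P.cons (P.cons (P.lf 0 7716 0) (P.cons (P.lf 0 3472 0) P.nil)) (P.cons (P.cons (P.lf 0 2706 0) P.nil) P.nil)))))) 5919)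
 EL.nil)
noncomputable def S169_183_216_364_29 : EL := (EL.cons 13 (TM.mk (P.cons (P.cons (P.lf 0 516214342 0) (P.cons (P.lf 134825756 0 0) (P.cons (P.lf 49334881 0 0) (P.cons (P.lf 0 14052160 0) (P.cons (P.lf 0 793358 0) (P.cons (P.lf 363766 0 0) P.nil)))))) (P.cons (P.cons (P.lf 0 211030373 0) (P.cons (P.lf 45101174 0 0) (P.cons (P.lf 17157238 0 0) (P.cons (P.lf 0 4136621 0) (P.cons (P.lf 0 206451 0) P.nil))))) (P.cons (P.cons (P.lf 0 13354769 0) (P.cons (P.lf 2840548 0 0) (P.cons (P.lf 1033092 0 0) (P.cons (P.lf 0 301496 0) P.nil)))) (P.cons (P.cons (P.lf 2519220 0 0) (P.cons (P.lf 0 231869 0) (P.cons (P.lf 0 99085 0) P.nil))) (P.cons (P.cons (P.lf 133789 0 0) (P.cons (P.lf 0 28705 0) P.nil)) (P.cons (P.cons (P.lf 0 9655 0) P.nil) P.nil)))))) 235508)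
 EL.nil)
noncomputable def S169_183_216_364_30 : EL := (EL.cons 13 (TM.mk (P.cons (P.lf 2392322948 0 0) (P.cons (P.lf 0 163782508 0) (P.cons (P.lf 0 5110764 0) (P.cons (P.lf 39116 0 0) (P.cons (P.lf 5000 0 0) (P.cons (P.lf 60 0 0) P.nil)))))) 56)
 EL.nil)
noncomputable def S169_183_216_364_31 : EL := (EL.cons 13 (TM.mk (P.cons (P.cons (P.lf 829382579 0 0) (P.cons (P.lf 0 108309789 0) (P.cons (P.lf 0 46704403 0) (P.lf 5189376 0 0)))) (P.cons (P.cons (P.lf 112746420 0 0) (P.cons (P.lf 0 6677399 0) (P.cons (P.lf 0 2879368 0) (P.lf 319929 0 0)))) (P.cons (P.cons (P.lf 0 19975506 0) (P.cons (P.lf 933225 0 0) (P.cons (P.lf 402417 0 0) (P.lf 0 44712 0)))) (P.cons (P.cons (P.lf 0 572142 0) (P.cons (P.lf 86074 0 0) (P.cons (P.lf 37114 0 0) P.nil))) (P.cons (P.cons (P.lf 69124 0 0) (P.cons (P.lf 0 681 0) P.nil)) (P.cons (P.cons (P.lf 2922 0 0) P.nil) P.nil)))))) 8088)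
 EL.nil)
noncomputable def S169_183_216_364_32 : EL := (EL.cons 13 (TM.mk (P.cons (P.cons (P.lf 287534533 0 0) (P.cons (P.lf 0 75098767 0) (P.cons (P.lf 0 27479829 0) (P.cons (P.lf 7827138 0 0) (P.cons (P.lf 441905 0 0) (P.cons (P.lf 0 202619 0) P.nil)))))) (P.cons (P.cons (P.lf 97860098 0 0) (P.cons (P.lf 0 19980239 0) (P.cons (P.lf 0 7675370 0) (P.cons (P.lf 1768263 0 0) (P.cons (P.lf 84740 0 0) P.nil))))) (P.cons (P.cons (P.lf 0 1222922 0) (P.cons (P.lf 298101 0 0) (P.cons (P.lf 137534 0 0) (P.cons (P.lf 0 6530 0) P.nil)))) (P.cons (P.cons (P.lf 0 2158898 0) (P.cons (P.lf 289912 0 0) (P.cons (P.lf 114553 0 0) P.nil))) (P.cons (P.cons (P.lf 8177 0 0) (P.cons (P.lf 9959 0 0) P.nil)) (P.cons (P.cons (P.lf 13851 0 0) P.nil) P.nil)))))) 188275)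
 EL.nil)
noncomputable def S169_183_216_364_33 : EL := (EL.cons 14 (TM.mk (P.lf 8589934592 0 0) 0)
 EL.nil)
noncomputable def S169_183_216_364_34 : EL := (EL.cons 14 (TM.mk (P.cons (P.cons (P.lf 2978001826 0 0) (P.cons (P.lf 0 388899840 0) (P.cons (P.lf 0 167698000 0) (P.lf 18633104 0 0)))) (P.cons (P.cons (P.lf 608709198 0 0) (P.cons (P.lf 0 50600784 0) (P.cons (P.lf 0 21819624 0) (P.lf 2424400 0 0)))) (P.cons (P.cons (P.lf 0 23689322 0) (P.cons (P.lf 0 944168 0) (P.cons (P.lf 0 407136 0) (P.lf 45240 0 0)))) (P.cons (P.cons (P.lf 0 2424456 0) (P.cons (P.lf 142680 0 0) (P.cons (P.lf 61520 0 0) P.nil))) (P.cons (P.cons (P.lf 15432 0 0) (P.cons (P.lf 6944 0 0) P.nil)) (P.cons (P.cons (P.lf 5412 0 0) P.nil) P.nil)))))) 11838)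
 EL.nil)
noncomputable def S169_183_216_364_35 : EL := (EL.cons 14 (TM.mk (P.cons (P.cons (P.lf 1032428684 0 0) (P.cons (P.lf 0 269651512 0) (P.cons (P.lf 0 98669762 0) (P.cons (P.lf 28104320 0 0) (P.cons (P.lf 1586716 0 0) (P.cons (P.lf 0 727532 0) P.nil)))))) (P.cons (P.cons (P.lf 422060746 0 0) (P.cons (P.lf 0 90202348 0) (P.cons (P.lf 0 34314476 0) (P.cons (P.lf 8273242 0 0) (P.cons (P.lf 412902 0 0) P.nil))))) (P.cons (P.cons (P.lf 26709538 0 0) (P.cons (P.lf 0 5681096 0) (P.cons (P.lf 0 2066184 0) (P.cons (P.lf 602992 0 0) P.nil)))) (P.cons (P.cons (P.lf 0 5038440 0) (P.cons (P.lf 463738 0 0) (P.cons (P.lf 198170 0 0) P.nil))) (P.cons (P.cons (P.lf 0 267578 0) (P.cons (P.lf 57410 0 0) P.nil)) (P.cons (P.cons (P.lf 19310 0 0) P.nil) P.nil)))))) 471016)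
 EL.nil)
noncomputable def S169_183_216_364_36 : EL := (EL.cons 14 (TM.mk (P.cons (P.lf 0 4784645896 0) (P.cons (P.lf 327565016 0 0) (P.cons (P.lf 10221528 0 0) (P.cons (P.lf 0 78232 0) (P.cons (P.lf 0 10000 0) (P.cons (P.lf 0 120 0) P.nil)))))) 112)
 EL.nil)
noncomputable def S169_183_216_364_37 : EL := (EL.cons 14 (TM.mk (P.cons (P.cons (P.lf 0 1658765158 0) (P.cons (P.lf 216619578 0 0) (P.cons (P.lf 93408806 0 0) (P.lf 0 10378752 0)))) (P.cons (P.cons (P.lf 0 225492840 0) (P.cons (P.lf 13354798 0 0) (P.cons (P.lf 5758736 0 0) (P.lf 0 639858 0)))) (P.cons (P.cons (P.lf 39951012 0 0) (P.cons (P.lf 0 1866450 0) (P.cons (P.lf 0 804834 0) (P.lf 89424 0 0)))) (P.cons (P.cons (P.lf 1144284 0 0) (P.cons (P.lf 0 172148 0) (P.cons (P.lf 0 74228 0) P.nil))) (P.cons (P.cons (P.lf 0 138248 0) (P.cons (P.lf 1362 0 0) P.nil)) (P.cons (P.cons (P.lf 0 5844 0) P.nil) P.nil))))))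 16176)
 EL.nil)
noncomputable def S169_183_216_364_38 : EL := (EL.cons 14 (TM.mk (P.cons (P.cons (P.lf 0 575069066 0) (P.cons (P.lf 150197534 0 0) (P.cons (P.lf 54959658 0 0) (P.cons (P.lf 0 15654276 0) (P.cons (P.lf 0 883810 0) (P.cons (P.lf 405238 0 0) P.nil)))))) (P.cons (P.cons (P.lf 0 195720196 0) (P.cons (P.lf 39960478 0 0) (P.cons (P.lf 15350740 0 0) (P.cons (P.lf 0 3536526 0) (P.cons (P.lf 0 169480 0) P.nil))))) (P.cons (P.cons (P.lf 2445844 0 0) (P.cons (P.lf 0 596202 0) (P.cons (P.lf 0 275068 0) (P.cons (P.lf 13060 0 0) P.nil)))) (P.cons (P.cons (P.lf 4317796 0 0) (P.cons (P.lf 0 579824 0) (P.cons (P.lf 0 229106 0) P.nil))) (P.cons (P.cons (P.lf 0 16354 0) (P.cons (P.lf 0 19918 0) P.nil)) (P.cons (P.cons (P.lf 0 27702 0) P.nil) P.nil)))))) 376550)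
 EL.nil)
noncomputable def S169_183_216_364_39 : EL := (EL.cons 14 (TM.mk (P.cons (P.lf 2665076910 0 0) (P.cons (P.lf 0 364911418 0) (P.cons (P.lf 1104322 0 0) (P.cons (P.lf 866718 0 0) (P.cons (P.lf 17336 0 0) (P.cons (P.lf 0 814 0) P.nil)))))) 180)
 EL.nil)
noncomputable def S169_183_216_364_40 : EL := (EL.cons 14 (TM.mk (P.cons (P.cons (P.lf 923942296 0 0) (P.cons (P.lf 0 120658424 0) (P.cons (P.lf 0 52029274 0) (P.lf 5781028 0 0)))) (P.cons (P.cons (P.lf 62346220 0 0) (P.cons (P.lf 821776 0 0) (P.cons (P.lf 354360 0 0) (P.lf 0 39372 0)))) (P.cons (P.cons (P.lf 0 32825642 0) (P.cons (P.lf 1806654 0 0) (P.cons (P.lf 779050 0 0) (P.lf 0 86560 0)))) (P.cons (P.cons (P.lf 632884 0 0) (P.cons (P.lf 38630 0 0) (P.cons (P.lf 16656 0 0) P.nil))) (P.cons (P.cons (P.lf 172164 0 0) (P.cons (P.lf 0 9918 0) P.nil)) (P.cons (P.cons (P.lf 0 732 0) P.nil) P.nil))))))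 15204)
 EL.nil)
noncomputable def S169_183_216_364_41 : EL := (EL.cons 14 (TM.mk (P.cons (P.cons (P.lf 320316972 0 0) (P.cons (P.lf 0 83660940 0) (P.cons (P.lf 0 30612864 0) (P.cons (P.lf 8719526 0 0) (P.cons (P.lf 492286 0 0) (P.cons (P.lf 0 225720 0) P.nil)))))) (P.cons (P.cons (P.lf 87087896 0 0) (P.cons (P.lf 0 16530658 0) (P.cons (P.lf 0 6454646 0) (P.cons (P.lf 1372912 0 0) (P.cons (P.lf 60698 0 0) P.nil))))) (P.cons (P.cons (P.lf 0 9510162 0) (P.cons (P.lf 2034650 0 0) (P.cons (P.lf 803992 0 0) (P.cons (P.lf 0 160762 0) P.nil)))) (P.cons (P.cons (P.lf 0 2539428 0) (P.cons (P.lf 346412 0 0) (P.cons (P.lf 134890 0 0) P.nil))) (P.cons (P.cons (P.lf 179124 0 0) (P.cons (P.lf 0 12264 0) P.nil)) (P.cons (P.cons (P.lf 20158 0 0) P.nil) P.nil)))))) 263534)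
 EL.nil)
noncomputable def S169_183_216_364_42 : EL := (EL.cons 14 (TM.mk (P.cons (P.lf 0 1484464074 0) (P.cons (P.lf 304886824 0 0) (P.cons (P.lf 0 11359206 0) (P.cons (P.lf 0 899150 0) (P.cons (P.lf 24928 0 0) (P.cons (P.lf 2522 0 0) P.nil)))))) 228)
 EL.nil)
noncomputable def S169_183_216_364_43 : EL := (EL.cons 14 (TM.mk (P.cons (P.cons (P.lf 0 514641488 0) (P.cons (P.lf 67207478 0 0) (P.cons (P.lf 28980622 0 0) (P.lf 0 3220066 0)))) (P.cons (P.cons (P.lf 506008 0 0) (P.cons (P.lf 0 5058872 0) (P.cons (P.lf 0 2181444 0) (P.lf 242382 0 0)))) (P.cons (P.cons (P.lf 21761006 0 0) (P.cons (P.lf 0 1118556 0) (P.cons (P.lf 0 482334 0) (P.lf 53592 0 0)))) (P.cons (P.cons (P.lf 0 1538506 0) (P.cons (P.lf 49452 0 0) (P.cons (P.lf 21324 0 0) P.nil))) (P.cons (P.cons (P.lf 0 112466 0) (P.cons (P.lf 9280 0 0) P.nil)) (P.cons (P.cons (P.lf 7938 0 0) P.nil) P.nil))))))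 17100)
 EL.nil)
noncomputable def S169_183_216_364_44 : EL := (EL.cons 14 (TM.mk (P.cons (P.cons (P.lf 0 178418504 0) (P.cons (P.lf 46599654 0 0) (P.cons (P.lf 17051552 0 0) (P.cons (P.lf 0 4856830 0) (P.cons (P.lf 0 274206 0) (P.cons (P.lf 125726 0 0) P.nil)))))) (P.cons (P.cons (P.lf 0 36293652 0) (P.cons (P.lf 6017384 0 0) (P.cons (P.lf 2427898 0 0) (P.cons (P.lf 0 432214 0) (P.cons (P.lf 0 15036 0) P.nil))))) (P.cons (P.cons (P.lf 8999350 0 0) (P.cons (P.lf 0 1863238 0) (P.cons (P.lf 0 730394 0) (P.cons (P.lf 152274 0 0) P.nil)))) (P.cons (P.cons (P.lf 1152532 0 0) (P.cons (P.lf 0 134274 0) (P.cons (P.lf 0 51876 0) P.nil))) (P.cons (P.cons (P.lf 0 209092 0) (P.cons (P.lf 22710 0 0) P.nil)) (P.cons (P.cons (P.lf 0 7438 0) P.nil) P.nil)))))) 200296)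
 EL.nil)
noncomputable def S169_183_216_364_45 : EL := (EL.cons 14 (TM.mk (P.cons (P.cons (P.lf 357927580 0 0) (P.cons (P.lf 0 140226218 0) (P.cons (P.lf 0 42154864 0) (P.cons (P.lf 21714336 0 0) (P.cons (P.lf 619068 0 0) (P.cons (P.lf 0 1086762 0) P.nil)))))) (P.cons (P.cons (P.lf 219483220 0 0) (P.cons (P.lf 0 75570210 0) (P.cons (P.lf 0 24078350 0) (P.cons (P.lf 10647404 0 0) (P.cons (P.lf 364242 0 0) P.nil))))) (P.cons (P.cons (P.lf 36321088 0 0) (P.cons (P.lf 0 11426882 0) (P.cons (P.lf 0 3700098 0) (P.cons (P.lf 1559648 0 0) P.nil)))) (P.cons (P.cons (P.lf 0 1309386 0) (P.cons (P.lf 124588 0 0) (P.cons (P.lf 80580 0 0) P.nil))) (P.cons (P.cons (P.lf 0 640732 0) (P.cons (P.lf 140110 0 0) P.nil)) (P.cons (P.cons (P.lf 0 4500 0) P.nil) P.nil)))))) 1451886)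
 EL.nil)
noncomputable def S169_183_216_364_46 : EL := (EL.cons 15 (TM.mk (P.lf 4294967296 0 0) 0)
 EL.nil)
noncomputable def S169_183_216_364_47 : EL := (EL.cons 15 (TM.mk (P.cons (P.cons (P.lf 1489000913 0 0) (P.cons (P.lf 0 194449920 0) (P.cons (P.lf 0 83849000 0) (P.lf 9316552 0 0)))) (P.cons (P.cons (P.lf 304354599 0 0) (P.cons (P.lf 0 25300392 0) (P.cons (P.lf 0 10909812 0) (P.lf 1212200 0 0)))) (P.cons (P.cons (P.lf 0 11844661 0) (P.cons (P.lf 0 472084 0) (P.cons (P.lf 0 203568 0) (P.lf 22620 0 0)))) (P.cons (P.cons (P.lf 0 1212228 0) (P.cons (P.lf 71340 0 0) (P.cons (P.lf 30760 0 0) P.nil))) (P.cons (P.cons (P.lf 7716 0 0) (P.cons (P.lf 3472 0 0) P.nil)) (P.cons (P.cons (P.lf 2706 0 0) P.nil) P.nil)))))) 5919)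
 EL.nil)
noncomputable def S169_183_216_364_48 : EL := (EL.cons 15 (TM.mk (P.cons (P.cons (P.lf 516214342 0 0) (P.cons (P.lf 0 134825756 0) (P.cons (P.lf 0 49334881 0) (P.cons (P.lf 14052160 0 0) (P.cons (P.lf 793358 0 0) (P.cons (P.lf 0 363766 0) P.nil)))))) (P.cons (P.cons (P.lf 211030373 0 0) (P.cons (P.lf 0 45101174 0) (P.cons (P.lf 0 17157238 0) (P.cons (P.lf 4136621 0 0) (P.cons (P.lf 206451 0 0) P.nil))))) (P.cons (P.cons (P.lf 13354769 0 0) (P.cons (P.lf 0 2840548 0) (P.cons (P.lf 0 1033092 0) (P.cons (P.lf 301496 0 0) P.nil)))) (P.cons (P.cons (P.lf 0 2519220 0) (P.cons (P.lf 231869 0 0) (P.cons (P.lf 99085 0 0) P.nil))) (P.cons (P.cons (P.lf 0 133789 0) (P.cons (P.lf 28705 0 0) P.nil)) (P.cons (P.cons (P.lf 9655 0 0) P.nil) P.nil)))))) 235508)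
 EL.nil)
noncomputable def S169_183_216_364 : SL := (SL.cons S169_183_216_364_0 (SL.cons S169_183_216_364_1 (SL.cons S169_183_216_364_2 (SL.cons S169_183_216_364_3 (SL.cons S169_183_216_364_4 (SL.cons S169_183_216_364_5 (SL.cons S169_183_216_364_6 (SL.cons S169_183_216_364_7 (SL.cons S169_183_216_364_8 (SL.cons S169_183_216_364_9 (SL.cons S169_183_216_364_10 (SL.cons S169_183_216_364_11 (SL.cons S169_183_216_364_12 (SL.cons S169_183_216_364_13 (SL.cons S169_183_216_364_14 (SL.cons S169_183_216_364_15 (SL.cons S169_183_216_364_16 (SL.cons S169_183_216_364_17 (SL.cons S169_183_216_364_18 (SL.cons S169_183_216_364_19 (SL.cons S169_183_216_364_20 (SL.cons S169_183_216_364_21 (SL.cons S169_183_216_364_22 (SL.cons S169_183_216_364_23 (SL.cons S169_183_216_364_24 (SL.cons S169_183_216_364_25 (SL.cons S169_183_216_364_26 (SL.cons S169_183_216_364_27 (SL.cons S169_183_216_364_28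 (SL.cons S169_183_216_364_29 (SL.cons S169_183_216_364_30 (SL.cons S169_183_216_364_31 (SL.cons S169_183_216_364_32 (SL.cons S169_183_216_364_33 (SL.cons S169_183_216_364_34 (SL.cons S169_183_216_364_35 (SL.cons S169_183_216_364_36 (SL.cons S169_183_216_364_37 (SL.cons S169_183_216_364_38 (SL.cons S169_183_216_364_39 (SL.cons S169_183_216_364_40 (SL.cons S169_183_216_364_41 (SL.cons S169_183_216_364_42 (SL.cons S169_183_216_364_43 (SL.cons S169_183_216_364_44 (SL.cons S169_183_216_364_45 (SL.cons S169_183_216_364_46 (SL.cons S169_183_216_364_47 (SL.cons S169_183_216_364_48 SL.nil)))))))))))))))))))))))))))))))))))))))))))))))))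
theorem S165_169_364_512_ok : band (seq (shp 5 165 169 364 512) S165_169_364_512) (sok S165_169_364_512) = true := by decide +kernel

theorem S169_176_216_290_ok : band (seq (shp 5 169 176 216 290) S169_176_216_290) (sok S169_176_216_290) = true := by decide +kernel

theorem S169_176_216_364_ok : band (seq (shp 5 169 176 216 364) S169_176_216_364) (sok S169_176_216_364) = true := by decide +kernel

theorem S169_176_512_660_ok : band (seq (shp 5 169 176 512 660) S169_176_512_660) (sok S169_176_512_660) = true := by decide +kernel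

theorem S169_183_216_290_ok : band (seq (shp 5 169 183 216 290) S169_183_216_290) (sok S169_183_216_290) = true := by decide +kernel

theorem S169_183_216_364_ok : band (seq (shp 5 169 183 216 364) S169_183_216_364) (sok S169_183_216_364) = true := by decide +kernel

end Vale.Agent.P098.Ck
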