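import Vale.Agent.P098.CkDefs

namespace Vale.Agent.P098.Ck

noncomputable def S169_183_438_512_0 : EL := (EL.cons 0 (TM.mk (P.cons (P.lf 6113364111 0 0) (P.cons (P.lf 320722925 0 0) (P.cons (P.lf 0 970595 0) (P.cons (P.lf 0 761763 0) (P.cons (P.lf 0 15236 0) (P.cons (P.lf 715 0 0) P.nil)))))) 165)
 (EL.cons 1 (TM.mk (P.cons (P.lf 0 1754812605 0) (P.cons (P.lf 44029685 0 0) (P.cons (P.lf 10840057 0 0) (P.cons (P.lf 104334 0 0) (P.cons (P.lf 0 15399 0) (P.cons (P.lf 0 481 0) P.nil)))))) 128)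
 (EL.cons 5 (TM.mk (P.cons (P.lf 5127803834 0 0) (P.cons (P.lf 0 114034818 0) (P.cons (P.lf 345096 0 0) (P.cons (P.lf 270848 0 0) (P.cons (P.lf 5418 0 0) (P.cons (P.lf 0 254 0) P.nil)))))) 109)
 (EL.cons 9 (TM.mk (P.lf 6442450944 0 0) 2)
 EL.nil))))
noncomputable def S169_183_438_512_1 : EL := (EL.cons 0 (TM.mk (P.cons (P.cons (P.lf 0 1523791592 0) (P.cons (P.lf 46696557 0 0) (P.cons (P.lf 743233 0 0) (P.lf 0 247739 0)))) (P.cons (P.cons (P.lf 776849769 0 0) (P.cons (P.lf 0 59489484 0) (P.cons (P.lf 0 946852 0) (P.lf 315615 0 0)))) (P.cons (P.cons (P.lf 24367919 0 0) (P.cons (P.lf 0 8219081 0) (P.cons (P.lf 0 130814 0) (P.lf 43595 0 0)))) (P.cons (P.cons (P.lf 0 6920497 0) (P.cons (P.lf 5239 0 0) (P.cons (P.lf 89 0 0) P.nil))) (P.cons (P.cons (P.lf 0 333618 0) (P.cons (P.lf 47072 0 0) P.nil)) (P.cons (P.cons (P.lf 21506 0 0) P.nil) P.nil)))))) 13685)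
 (EL.cons 1 (TM.mk (P.cons (P.cons (P.lf 0 586309359 0) (P.cons (P.lf 138986947 0 0) (P.cons (P.lf 2212159 0 0) (P.lf 0 737380 0)))) (P.cons (P.cons (P.lf 0 174316644 0) (P.cons (P.lf 33658066 0 0) (P.cons (P.lf 535700 0 0) (P.lf 0 178563 0)))) (P.cons (P.cons (P.lf 38929930 0 0) (P.cons (P.lf 0 684121 0) (P.cons (P.lf 0 10892 0) (P.lf 3633 0 0)))) (P.cons (P.cons (P.lf 2438073 0 0) (P.cons (P.lf 0 384674 0) (P.cons (P.lf 0 6114 0) P.nil))) (P.cons (P.cons (P.lf 0 223005 0) (P.cons (P.lf 0 11197 0) P.nil)) (P.cons (P.cons (P.lf 0 15971 0) P.nil) P.nil)))))) 7858)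
 (EL.cons 5 (TM.mk (P.cons (P.cons (P.lf 1603257325 0 0) (P.cons (P.lf 0 389761304 0) (P.cons (P.lf 0 6203566 0) (P.lf 2067850 0 0)))) (P.cons (P.cons (P.lf 49945206 0 0) (P.cons (P.lf 0 27400776 0) (P.cons (P.lf 0 436122 0) (P.lf 145378 0 0)))) (P.cons (P.cons (P.lf 0 32368537 0) (P.cons (P.lf 2016384 0 0) (P.cons (P.lf 32088 0 0) (P.lf 0 10690 0)))) (P.cons (P.cons (P.lf 939108 0 0) (P.cons (P.lf 135050 0 0) (P.cons (P.lf 2146 0 0) P.nil))) (P.cons (P.cons (P.lf 157984 0 0) (P.cons (P.lf 0 10072 0) P.nil)) (P.cons (P.cons (P.lf 0 3437 0) P.nil) P.nil)))))) 7225)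
 (EL.cons 9 (TM.mk (P.cons (P.cons (P.lf 936586543 0 0) (P.cons (P.lf 0 329257128 0) (P.cons (P.lf 0 5240562 0) (P.lf 1746852 0 0)))) (P.cons (P.cons (P.lf 287786860 0 0) (P.cons (P.lf 0 42840516 0) (P.cons (P.lf 0 681858 0) (P.lf 227286 0 0)))) (P.cons (P.cons (P.lf 0 20915635 0) (P.cons (P.lf 0 799368 0) (P.cons (P.lf 0 12720 0) (P.lf 4236 0 0)))) (P.cons (P.cons (P.lf 0 1342500 0) (P.cons (P.lf 120804 0 0) (P.cons (P.lf 1920 0 0) P.nil))) (P.cons (P.cons (P.lf 34740 0 0) (P.cons (P.lf 5880 0 0) P.nil)) (P.cons (P.cons (P.lf 3699 0 0) P.nil) P.nil)))))) 1703)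
 (EL.cons 2 (TM.mk (P.cons (P.cons (P.lf 1010969926 0 0) (P.cons (P.lf 37475274 0 0) (P.cons (P.lf 0 18569131 0) (P.cons (P.lf 0 168502 0) (P.lf 42122 0 0))))) (P.cons (P.cons (P.lf 18480594 0 0) (P.cons (P.lf 685049 0 0) (P.cons (P.lf 0 339443 0) (P.cons (P.lf 0 3079 0) (P.lf 767 0 0))))) (P.cons (P.cons (P.lf 0 8428767 0) (P.cons (P.lf 0 312440 0) (P.cons (P.lf 154814 0 0) (P.cons (P.lf 1403 0 0) P.nil)))) (P.cons (P.cons (P.lf 0 360925 0) (P.cons (P.lf 0 13376 0) (P.cons (P.lf 6629 0 0) P.nil))) (P.cons (P.cons (P.lf 14205 0 0) (P.cons (P.lf 525 0 0) P.nil)) (P.cons (P.cons (P.lf 1127 0 0) P.nil) P.nil)))))) 1207)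
 (EL.cons 6 (TM.mk (P.cons (P.cons (P.lf 757384971 0 0) (P.cons (P.lf 28075227 0 0) (P.cons (P.lf 0 13911375 0) (P.cons (P.lf 0 126234 0) (P.lf 31557 0 0))))) (P.cons (P.cons (P.lf 98545368 0 0) (P.cons (P.lf 3652941 0 0) (P.cons (P.lf 0 1810044 0) (P.cons (P.lf 0 16422 0) (P.lf 4104 0 0))))) (P.cons (P.cons (P.lf 1838778 0 0) (P.cons (P.lf 68160 0 0) (P.cons (P.lf 0 33774 0) (P.cons (P.lf 0 306 0) P.nil)))) (P.cons (P.cons (P.lf 0 277887 0) (P.cons (P.lf 0 10299 0) (P.cons (P.lf 5103 0 0) P.nil))) (P.cons (P.cons (P.lf 0 13527 0) (P.cons (P.lf 0 498 0) P.nil)) (P.cons (P.cons (P.lf 207 0 0) P.nil) P.nil)))))) 723)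
 EL.nil))))))
noncomputable def S169_183_438_512_2 : EL := (EL.cons 0 (TM.mk (P.cons (P.cons (P.lf 0 572252983 0) (P.cons (P.lf 260174320 0 0) (P.cons (P.lf 0 16599985 0) (P.cons (P.lf 0 2040566 0) (P.cons (P.lf 214815 0 0) (P.cons (P.lf 3501 0 0) P.nil)))))) (P.cons (P.cons (P.lf 3556486 0 0) (P.cons (P.lf 0 27765798 0) (P.cons (P.lf 24768 0 0) (P.cons (P.lf 162174 0 0) (P.cons (P.lf 0 4836 0) P.nil))))) (P.cons (P.cons (P.lf 75810271 0 0) (P.cons (P.lf 0 16558222 0) (P.cons (P.lf 792830 0 0) (P.cons (P.lf 121466 0 0) P.nil)))) (P.cons (P.cons (P.lf 0 2409155 0) (P.cons (P.lf 0 514266 0) (P.cons (P.lf 103130 0 0) P.nil))) (P.cons (P.cons (P.lf 0 1050211 0) (P.cons (P.lf 184557 0 0) P.nil)) (P.cons (P.cons (P.lf 8359 0 0) P.nil) P.nil)))))) 94068)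
 (EL.cons 1 (TM.mk (P.cons (P.cons (P.lf 0 133384996 0) (P.cons (P.lf 74264599 0 0) (P.cons (P.lf 0 8440995 0) (P.cons (P.lf 0 700326 0) (P.cons (P.lf 99664 0 0) (P.cons (P.lf 1620 0 0) P.nil)))))) (P.cons (P.cons (P.lf 0 81203549 0) (P.cons (P.lf 37067795 0 0) (P.cons (P.lf 0 3621075 0) (P.cons (P.lf 0 330698 0) (P.cons (P.lf 43618 0 0) P.nil))))) (P.cons (P.cons (P.lf 596640 0 0) (P.cons (P.lf 314015 0 0) (P.cons (P.lf 0 365583 0) (P.cons (P.lf 0 13463 0) P.nil)))) (P.cons (P.cons (P.lf 4758516 0 0) (P.cons (P.lf 0 1006713 0) (P.cons (P.lf 18637 0 0) P.nil))) (P.cons (P.cons (P.lf 0 41883 0) (P.cons (P.lf 0 62793 0) P.nil)) (P.cons (P.cons (P.lf 0 51468 0) P.nil) P.nil)))))) 48195)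
 (EL.cons 5 (TM.mk (P.cons (P.cons (P.lf 357780677 0 0) (P.cons (P.lf 0 201003902 0) (P.cons (P.lf 23246476 0 0) (P.cons (P.lf 1908242 0 0) (P.cons (P.lf 0 273907 0) (P.cons (P.lf 0 4459 0) P.nil)))))) (P.cons (P.cons (P.lf 93567587 0 0) (P.cons (P.lf 0 37582849 0) (P.cons (P.lf 4198674 0 0) (P.cons (P.lf 352084 0 0) (P.cons (P.lf 0 49672 0) P.nil))))) (P.cons (P.cons (P.lf 0 19277286 0) (P.cons (P.lf 3709165 0 0) (P.cons (P.lf 98907 0 0) (P.cons (P.lf 0 18400 0) P.nil)))) (P.cons (P.cons (P.lf 0 1703576 0) (P.cons (P.lf 612498 0 0) (P.cons (P.lf 0 31764 0) P.nil))) (P.cons (P.cons (P.lf 325876 0 0) (P.cons (P.lf 0 29351 0) P.nil)) (P.cons (P.cons (P.lf 11643 0 0) P.nil) P.nil)))))) 48870)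
 (EL.cons 9 (TM.mk (P.cons (P.cons (P.lf 136158483 0 0) (P.cons (P.lf 0 95733066 0) (P.cons (P.lf 15303768 0 0) (P.cons (P.lf 1043568 0 0) (P.cons (P.lf 0 174291 0) (P.cons (P.lf 0 2841 0) P.nil)))))) (P.cons (P.cons (P.lf 83675391 0 0) (P.cons (P.lf 0 41872177 0) (P.cons (P.lf 3712488 0 0) (P.cons (P.lf 361542 0 0) (P.cons (P.lf 0 45354 0) P.nil))))) (P.cons (P.cons (P.lf 6774234 0 0) (P.cons (P.lf 0 1921936 0) (P.cons (P.lf 335995 0 0) (P.cons (P.lf 21864 0 0) P.nil)))) (P.cons (P.cons (P.lf 0 2258956 0) (P.cons (P.lf 379096 0 0) (P.cons (P.lf 4315 0 0) P.nil))) (P.cons (P.cons (P.lf 0 41935 0) (P.cons (P.lf 31995 0 0) P.nil)) (P.cons (P.cons (P.lf 12895 0 0) P.nil) P.nil)))))) 16582)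
 (EL.cons 2 (TM.mk (P.cons (P.cons (P.lf 293944286 0 0) (P.cons (P.lf 0 92440040 0) (P.cons (P.lf 0 10874323 0) (P.cons (P.lf 2336321 0 0) (P.cons (P.lf 79998 0 0) (P.cons (P.lf 0 14096 0) P.nil)))))) (P.cons (P.cons (P.lf 95694181 0 0) (P.cons (P.lf 0 11787075 0) (P.cons (P.lf 0 2570158 0) (P.cons (P.lf 338011 0 0) (P.cons (P.lf 14040 0 0) P.nil))))) (P.cons (P.cons (P.lf 0 7363923 0) (P.cons (P.lf 91912 0 0) (P.cons (P.lf 154586 0 0) (P.cons (P.lf 0 7194 0) P.nil)))) (P.cons (P.cons (P.lf 0 1399303 0) (P.cons (P.lf 130443 0 0) (P.cons (P.lf 35358 0 0) P.nil))) (P.cons (P.cons (P.lf 29812 0 0) (P.cons (P.lf 9078 0 0) P.nil)) (P.cons (P.cons (P.lf 8808 0 0) P.nil) P.nil)))))) 13960)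
 (EL.cons 6 (TM.mk (P.cons (P.cons (P.lf 220213260 0 0) (P.cons (P.lf 0 69252990 0) (P.cons (P.lf 0 8146680 0) (P.cons (P.lf 1750290 0 0) (P.cons (P.lf 59934 0 0) (P.cons (P.lf 0 10560 0) P.nil)))))) (P.cons (P.cons (P.lf 96317910 0 0) (P.cons (P.lf 0 16575222 0) (P.cons (P.lf 0 2836542 0) (P.cons (P.lf 448962 0 0) (P.cons (P.lf 17220 0 0) P.nil))))) (P.cons (P.cons (P.lf 4420998 0 0) (P.cons (P.lf 0 1522614 0) (P.cons (P.lf 0 170556 0) (P.cons (P.lf 38184 0 0) P.nil)))) (P.cons (P.cons (P.lf 0 872028 0) (P.cons (P.lf 0 24426 0) (P.cons (P.lf 16428 0 0) P.nil))) (P.cons (P.cons (P.lf 0 73596 0) (P.cons (P.lf 6966 0 0) P.nil)) (P.cons (P.cons (P.lf 1818 0 0) P.nil) P.nil)))))) 12732)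
 EL.nil))))))
noncomputable def S169_183_438_512_3 : EL := (EL.cons 0 (TM.mk (P.cons (P.lf 2342352752 0 0) (P.cons (P.lf 0 320722925 0) (P.cons (P.lf 970595 0 0) (P.cons (P.lf 761763 0 0) (P.cons (P.lf 15236 0 0) (P.cons (P.lf 0 715 0) P.nil)))))) 165)
 (EL.cons 1 (TM.mk (P.cons (P.lf 1754812605 0 0) (P.cons (P.lf 0 44029685 0) (P.cons (P.lf 0 10840057 0) (P.cons (P.lf 0 104334 0) (P.cons (P.lf 15399 0 0) (P.cons (P.lf 481 0 0) P.nil)))))) 128)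
 (EL.cons 5 (TM.mk (P.cons (P.lf 1314647110 0 0) (P.cons (P.lf 114034818 0 0) (P.cons (P.lf 0 345096 0) (P.cons (P.lf 0 270848 0) (P.cons (P.lf 0 5418 0) (P.cons (P.lf 254 0 0) P.nil)))))) 102)
 EL.nil)))
noncomputable def S169_183_438_512_4 : EL := (EL.cons 0 (TM.mk (P.cons (P.cons (P.lf 340525070 0 0) (P.cons (P.lf 0 119711634 0) (P.cons (P.lf 0 1905368 0) (P.lf 635120 0 0)))) (P.cons (P.cons (P.lf 58007979 0 0) (P.cons (P.lf 815326 0 0) (P.cons (P.lf 12977 0 0) (P.lf 0 4325 0)))) (P.cons (P.cons (P.lf 0 21790246 0) (P.cons (P.lf 1792478 0 0) (P.cons (P.lf 28529 0 0) (P.lf 0 9511 0)))) (P.cons (P.cons (P.lf 707229 0 0) (P.cons (P.lf 38329 0 0) (P.cons (P.lf 608 0 0) P.nil))) (P.cons (P.cons (P.lf 112556 0 0) (P.cons (P.lf 0 9840 0) P.nil)) (P.cons (P.cons (P.lf 0 2482 0) P.nil) P.nil)))))) 2474)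
 (EL.cons 1 (TM.mk (P.cons (P.cons (P.lf 255110030 0 0) (P.cons (P.lf 0 89683966 0) (P.cons (P.lf 0 1427437 0) (P.lf 475811 0 0)))) (P.cons (P.cons (P.lf 71987259 0 0) (P.cons (P.lf 0 9418773 0) (P.cons (P.lf 0 149910 0) (P.lf 49968 0 0)))) (P.cons (P.cons (P.lf 0 9239780 0) (P.cons (P.lf 629056 0 0) (P.cons (P.lf 10012 0 0) (P.lf 0 3337 0)))) (P.cons (P.cons (P.lf 0 722126 0) (P.cons (P.lf 115781 0 0) (P.cons (P.lf 1841 0 0) P.nil))) (P.cons (P.cons (P.lf 51406 0 0) (P.cons (P.lf 2026 0 0) P.nil)) (P.cons (P.cons (P.lf 4125 0 0) P.nil) P.nil)))))) 1820)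
 (EL.cons 5 (TM.mk (P.cons (P.cons (P.lf 191119932 0 0) (P.cons (P.lf 0 67188238 0) (P.cons (P.lf 0 1069388 0) (P.lf 356462 0 0)))) (P.cons (P.cons (P.lf 75303892 0 0) (P.cons (P.lf 0 14570064 0) (P.cons (P.lf 0 231900 0) (P.lf 77300 0 0)))) (P.cons (P.cons (P.lf 775764 0 0) (P.cons (P.lf 0 903780 0) (P.cons (P.lf 0 14382 0) (P.lf 4792 0 0)))) (P.cons (P.cons (P.lf 0 698958 0) (P.cons (P.lf 26638 0 0) (P.cons (P.lf 422 0 0) P.nil))) (P.cons (P.cons (P.lf 0 28438 0) (P.cons (P.lf 5458 0 0) P.nil)) (P.cons (P.cons (P.lf 2114 0 0) P.nil) P.nil)))))) 1304)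
 EL.nil)))
noncomputable def S169_183_438_512_5 : EL := (EL.cons 0 (TM.mk (P.cons (P.cons (P.lf 49504637 0 0) (P.cons (P.lf 0 34806723 0) (P.cons (P.lf 5564158 0 0) (P.cons (P.lf 379420 0 0) (P.cons (P.lf 0 63367 0) (P.cons (P.lf 0 1031 0) P.nil)))))) (P.cons (P.cons (P.lf 23644437 0 0) (P.cons (P.lf 0 10458072 0) (P.cons (P.lf 587925 0 0) (P.cons (P.lf 79497 0 0) (P.cons (P.lf 0 7811 0) P.nil))))) (P.cons (P.cons (P.lf 0 1682094 0) (P.cons (P.lf 1371308 0 0) (P.cons (P.lf 0 60349 0) (P.cons (P.lf 0 9891 0) P.nil)))) (P.cons (P.cons (P.lf 0 1129846 0) (P.cons (P.lf 215882 0 0) (P.cons (P.lf 0 12788 0) P.nil))) (P.cons (P.cons (P.lf 108446 0 0) (P.cons (P.lf 0 12705 0) P.nil)) (P.cons (P.cons (P.lf 7417 0 0) P.nil) P.nil)))))) 14497)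
 (EL.cons 1 (TM.mk (P.cons (P.cons (P.lf 37087222 0 0) (P.cons (P.lf 0 26076035 0) (P.cons (P.lf 4168481 0 0) (P.cons (P.lf 284248 0 0) (P.cons (P.lf 0 47473 0) (P.cons (P.lf 0 772 0) P.nil)))))) (P.cons (P.cons (P.lf 21861183 0 0) (P.cons (P.lf 0 10750989 0) (P.cons (P.lf 906626 0 0) (P.cons (P.lf 91344 0 0) (P.cons (P.lf 0 11161 0) P.nil))))) (P.cons (P.cons (P.lf 1044219 0 0) (P.cons (P.lf 0 76254 0) (P.cons (P.lf 40395 0 0) (P.cons (P.lf 1726 0 0) P.nil)))) (P.cons (P.cons (P.lf 0 804594 0) (P.cons (P.lf 188398 0 0) (P.cons (P.lf 0 7614 0) P.nil))) (P.cons (P.cons (P.lf 0 8411 0) (P.cons (P.lf 9806 0 0) P.nil)) (P.cons (P.cons (P.lf 7698 0 0) P.nil) P.nil)))))) 10088)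
 (EL.cons 5 (TM.mk (P.cons (P.cons (P.lf 27784510 0 0) (P.cons (P.lf 0 19535296 0) (P.cons (P.lf 3122888 0 0) (P.cons (P.lf 212950 0 0) (P.cons (P.lf 0 35564 0) (P.cons (P.lf 0 578 0) P.nil)))))) (P.cons (P.cons (P.lf 19484884 0 0) (P.cons (P.lf 0 10238964 0) (P.cons (P.lf 1028454 0 0) (P.cons (P.lf 92246 0 0) (P.cons (P.lf 0 12338 0) P.nil))))) (P.cons (P.cons (P.lf 2856156 0 0) (P.cons (P.lf 0 1128222 0) (P.cons (P.lf 133456 0 0) (P.cons (P.lf 10804 0 0) P.nil)))) (P.cons (P.cons (P.lf 0 351260 0) (P.cons (P.lf 49606 0 0) (P.cons (P.lf 5984 0 0) P.nil))) (P.cons (P.cons (P.lf 0 52536 0) (P.cons (P.lf 15182 0 0) P.nil)) (P.cons (P.cons (P.lf 1660 0 0) P.nil) P.nil)))))) 7364)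
 EL.nil)))
noncomputable def S169_183_438_512_6 : EL := (EL.cons 12 (TM.mk (P.lf 8589934592 0 0) 0)
 (EL.cons 3 (TM.mk (P.cons (P.lf 0 2242802763 0) (P.cons (P.lf 153546101 0 0) (P.cons (P.lf 4791341 0 0) (P.cons (P.lf 0 36671 0) (P.cons (P.lf 0 4687 0) (P.cons (P.lf 0 56 0) P.nil)))))) 59)
 (EL.cons 7 (TM.mk (P.cons (P.lf 0 1680233071 0) (P.cons (P.lf 0 72873196 0) (P.cons (P.lf 1800820 0 0) (P.cons (P.lf 94981 0 0) (P.cons (P.lf 308 0 0) (P.cons (P.lf 0 74 0) P.nil)))))) 48)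
 EL.nil)))
noncomputable def S169_183_438_512_7 : EL := (EL.cons 12 (TM.mk (P.cons (P.cons (P.lf 1248782058 0 0) (P.cons (P.lf 0 439009504 0) (P.cons (P.lf 0 6987416 0) (P.lf 2329136 0 0)))) (P.cons (P.cons (P.lf 383715814 0 0) (P.cons (P.lf 0 57120688 0) (P.cons (P.lf 0 909144 0) (P.lf 303048 0 0)))) (P.cons (P.cons (P.lf 0 27887514 0) (P.cons (P.lf 0 1065824 0) (P.cons (P.lf 0 16960 0) (P.lf 5648 0 0)))) (P.cons (P.cons (P.lf 0 1790000 0) (P.cons (P.lf 161072 0 0) (P.cons (P.lf 2560 0 0) P.nil))) (P.cons (P.cons (P.lf 46320 0 0) (P.cons (P.lf 7840 0 0) P.nil)) (P.cons (P.cons (P.lf 4932 0 0) P.nil) P.nil)))))) 2246)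
 (EL.cons 3 (TM.mk (P.cons (P.cons (P.lf 1983950815 0 0) (P.cons (P.lf 0 229247782 0) (P.cons (P.lf 0 3648780 0) (P.lf 1216258 0 0)))) (P.cons (P.cons (P.lf 0 357427142 0) (P.cons (P.lf 0 14133340 0) (P.cons (P.lf 0 224944 0) (P.lf 74980 0 0)))) (P.cons (P.cons (P.lf 0 28120759 0) (P.cons (P.lf 1975258 0 0) (P.cons (P.lf 31440 0 0) (P.lf 0 10480 0)))) (P.cons (P.cons (P.lf 863679 0 0) (P.cons (P.lf 182186 0 0) (P.cons (P.lf 2896 0 0) P.nil))) (P.cons (P.cons (P.lf 148308 0 0) (P.cons (P.lf 0 1440 0) P.nil)) (P.cons (P.cons (P.lf 1966 0 0) P.nil) P.nil)))))) 6109)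
 (EL.cons 7 (TM.mk (P.cons (P.cons (P.lf 0 1340598818 0) (P.cons (P.lf 249074387 0 0) (P.cons (P.lf 3964349 0 0) (P.lf 0 1321450 0)))) (P.cons (P.cons (P.lf 169635416 0 0) (P.cons (P.lf 6707707 0 0) (P.cons (P.lf 106764 0 0) (P.lf 0 35588 0)))) (P.cons (P.cons (P.lf 3860768 0 0) (P.cons (P.lf 0 1312525 0) (P.cons (P.lf 0 20888 0) (P.lf 6959 0 0)))) (P.cons (P.cons (P.lf 0 1190851 0) (P.cons (P.lf 0 8111 0) (P.cons (P.lf 0 129 0) P.nil))) (P.cons (P.cons (P.lf 0 19698 0) (P.cons (P.lf 5806 0 0) P.nil)) (P.cons (P.cons (P.lf 3608 0 0) P.nil) P.nil)))))) 4351)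
 (EL.cons 10 (TM.mk (P.cons (P.cons (P.lf 0 1936007415 0) (P.cons (P.lf 0 71765154 0) (P.cons (P.lf 35559891 0 0) (P.cons (P.lf 322683 0 0) (P.lf 0 80670 0))))) (P.cons (P.cons (P.lf 0 167932710 0) (P.cons (P.lf 0 6225036 0) (P.cons (P.lf 3084528 0 0) (P.cons (P.lf 27990 0 0) (P.lf 0 6996 0))))) (P.cons (P.cons (P.lf 508203 0 0) (P.cons (P.lf 18837 0 0) (P.cons (P.lf 0 9333 0) (P.cons (P.lf 0 84 0) P.nil)))) (P.cons (P.cons (P.lf 398862 0 0) (P.cons (P.lf 14784 0 0) (P.cons (P.lf 0 7326 0) P.nil))) (P.cons (P.cons (P.lf 7977 0 0) (P.cons (P.lf 294 0 0) P.nil)) (P.cons (P.cons (P.lf 0 372 0) P.nil) P.nil)))))) 537)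
 EL.nil))))
noncomputable def S169_183_438_512_8 : EL := (EL.cons 12 (TM.mk (P.cons (P.cons (P.lf 181544644 0 0) (P.cons (P.lf 0 127644088 0) (P.cons (P.lf 20405024 0 0) (P.cons (P.lf 1391424 0 0) (P.cons (P.lf 0 232388 0) (P.cons (P.lf 0 3788 0) P.nil)))))) (P.cons (P.cons (P.lf 111567188 0 0) (P.cons (P.lf 0 55829570 0) (P.cons (P.lf 4949984 0 0) (P.cons (P.lf 482056 0 0) (P.cons (P.lf 0 60472 0) P.nil))))) (P.cons (P.cons (P.lf 9032312 0 0) (P.cons (P.lf 0 2562582 0) (P.cons (P.lf 447994 0 0) (P.cons (P.lf 29152 0 0) P.nil)))) (P.cons (P.cons (P.lf 0 3011942 0) (P.cons (P.lf 505462 0 0) (P.cons (P.lf 5754 0 0) P.nil))) (P.cons (P.cons (P.lf 0 55914 0) (P.cons (P.lf 42660 0 0) P.nil)) (P.cons (P.cons (P.lf 17194 0 0) P.nil) P.nil)))))) 22080)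
 (EL.cons 3 (TM.mk (P.cons (P.cons (P.lf 624243774 0 0) (P.cons (P.lf 0 302771581 0) (P.cons (P.lf 24471654 0 0) (P.cons (P.lf 2538731 0 0) (P.cons (P.lf 0 303375 0) (P.cons (P.lf 0 4946 0) P.nil)))))) (P.cons (P.cons (P.lf 99208803 0 0) (P.cons (P.lf 0 26736855 0) (P.cons (P.lf 5191335 0 0) (P.cons (P.lf 320647 0 0) (P.cons (P.lf 0 58176 0) P.nil))))) (P.cons (P.cons (P.lf 0 52728230 0) (P.cons (P.lf 8335840 0 0) (P.cons (P.lf 186373 0 0) (P.cons (P.lf 0 42517 0) P.nil)))) (P.cons (P.cons (P.lf 0 1776574 0) (P.cons (P.lf 1073938 0 0) (P.cons (P.lf 0 45385 0) P.nil))) (P.cons (P.cons (P.lf 508008 0 0) (P.cons (P.lf 0 19772 0) P.nil)) (P.cons (P.cons (P.lf 25623 0 0) P.nil) P.nil)))))) 55511)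
 (EL.cons 7 (TM.mk (P.cons (P.cons (P.lf 0 354274427 0) (P.cons (P.lf 184480877 0 0) (P.cons (P.lf 0 18134126 0) (P.cons (P.lf 0 1649475 0) (P.cons (P.lf 218232 0 0) (P.cons (P.lf 3554 0 0) P.nil)))))) (P.cons (P.cons (P.lf 0 47084637 0) (P.cons (P.lf 12689349 0 0) (P.cons (P.lf 0 2463814 0) (P.cons (P.lf 0 152176 0) (P.cons (P.lf 27606 0 0) P.nil))))) (P.cons (P.cons (P.lf 27657689 0 0) (P.cons (P.lf 0 4665737 0) (P.cons (P.lf 49315 0 0) (P.cons (P.lf 28684 0 0) P.nil)))) (P.cons (P.cons (P.lf 0 1081977 0) (P.cons (P.lf 0 198726 0) (P.cons (P.lf 25024 0 0) P.nil))) (P.cons (P.cons (P.lf 0 261962 0) (P.cons (P.lf 43971 0 0) P.nil)) (P.cons (P.cons (P.lf 9116 0 0) P.nil) P.nil)))))) 28654)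
 (EL.cons 10 (TM.mk (P.cons (P.cons (P.lf 0 562903308 0) (P.cons (P.lf 177022674 0 0) (P.cons (P.lf 20824332 0 0) (P.cons (P.lf 0 4474056 0) (P.cons (P.lf 0 153204 0) (P.cons (P.lf 27000 0 0) P.nil)))))) (P.cons (P.cons (P.lf 0 221791680 0) (P.cons (P.lf 34691526 0 0) (P.cons (P.lf 6347532 0 0) (P.cons (P.lf 0 953592 0) (P.cons (P.lf 0 37374 0) P.nil))))) (P.cons (P.cons (P.lf 0 2284848 0) (P.cons (P.lf 2577198 0 0) (P.cons (P.lf 183006 0 0) (P.cons (P.lf 0 61056 0) P.nil)))) (P.cons (P.cons (P.lf 2058636 0 0) (P.cons (P.lf 0 2148 0) (P.cons (P.lf 0 41964 0) P.nil))) (P.cons (P.cons (P.lf 83760 0 0) (P.cons (P.lf 0 12972 0) P.nil)) (P.cons (P.cons (P.lf 0 6228 0) P.nil) P.nil)))))) 20514)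
 EL.nil))))
noncomputable def S169_183_438_512_9 : EL := (EL.cons 3 (TM.mk (P.cons (P.lf 0 2242802763 0) (P.cons (P.lf 153546101 0 0) (P.cons (P.lf 4791341 0 0) (P.cons (P.lf 0 36671 0) (P.cons (P.lf 0 4687 0) (P.cons (P.lf 0 56 0) P.nil)))))) 59)
 (EL.cons 7 (TM.mk (P.cons (P.lf 0 1680233071 0) (P.cons (P.lf 0 72873196 0) (P.cons (P.lf 1800820 0 0) (P.cons (P.lf 94981 0 0) (P.cons (P.lf 308 0 0) (P.cons (P.lf 0 74 0) P.nil)))))) 48)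
 EL.nil))
noncomputable def S169_183_438_512_10 : EL := (EL.cons 3 (TM.mk (P.cons (P.cons (P.lf 0 326052755 0) (P.cons (P.lf 114623891 0 0) (P.cons (P.lf 1824390 0 0) (P.lf 0 608129 0)))) (P.cons (P.cons (P.lf 0 77864768 0) (P.cons (P.lf 7066670 0 0) (P.cons (P.lf 112472 0 0) (P.lf 0 37490 0)))) (P.cons (P.cons (P.lf 14836853 0 0) (P.cons (P.lf 0 987629 0) (P.cons (P.lf 0 15720 0) (P.lf 5240 0 0)))) (P.cons (P.cons (P.lf 177570 0 0) (P.cons (P.lf 0 91093 0) (P.cons (P.lf 0 1448 0) P.nil))) (P.cons (P.cons (P.lf 0 61965 0) (P.cons (P.lf 720 0 0) P.nil)) (P.cons (P.cons (P.lf 0 1556 0) P.nil) P.nil)))))) 1446)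
 (EL.cons 7 (TM.mk (P.cons (P.cons (P.lf 0 244267856 0) (P.cons (P.lf 85872398 0 0) (P.cons (P.lf 1366772 0 0) (P.lf 0 455590 0)))) (P.cons (P.cons (P.lf 0 85650796 0) (P.cons (P.lf 14897446 0 0) (P.cons (P.lf 237111 0 0) (P.lf 0 79037 0)))) (P.cons (P.cons (P.lf 2461457 0 0) (P.cons (P.lf 601031 0 0) (P.cons (P.lf 9565 0 0) (P.lf 0 3187 0)))) (P.cons (P.cons (P.lf 680969 0 0) (P.cons (P.lf 0 39293 0) (P.cons (P.lf 0 624 0) P.nil))) (P.cons (P.cons (P.lf 4566 0 0) (P.cons (P.lf 0 3770 0) P.nil)) (P.cons (P.cons (P.lf 0 2038 0) P.nil) P.nil)))))) 867)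
 EL.nil))
noncomputable def S169_183_438_512_11 : EL := (EL.cons 3 (TM.mk (P.cons (P.cons (P.lf 0 47400690 0) (P.cons (P.lf 33327437 0 0) (P.cons (P.lf 0 5327682 0) (P.cons (P.lf 0 363295 0) (P.cons (P.lf 60675 0 0) (P.cons (P.lf 988 0 0) P.nil)))))) (P.cons (P.cons (P.lf 0 25884681 0) (P.cons (P.lf 12295257 0 0) (P.cons (P.lf 0 927681 0) (P.cons (P.lf 0 100991 0) (P.cons (P.lf 11634 0 0) P.nil))))) (P.cons (P.cons (P.lf 0 262766 0) (P.cons (P.lf 0 400076 0) (P.cons (P.lf 0 17105 0) (P.cons (P.lf 1781 0 0) P.nil)))) (P.cons (P.cons (P.lf 1009316 0 0) (P.cons (P.lf 0 208376 0) (P.cons (P.lf 9179 0 0) P.nil))) (P.cons (P.cons (P.lf 0 34776 0) (P.cons (P.lf 0 3224 0) P.nil)) (P.cons (P.cons (P.lf 0 7269 0) P.nil) P.nil)))))) 10225)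
 (EL.cons 7 (TM.mk (P.cons (P.cons (P.lf 0 35511017 0) (P.cons (P.lf 24967805 0 0) (P.cons (P.lf 0 3991322 0) (P.cons (P.lf 0 272169 0) (P.cons (P.lf 45456 0 0) (P.cons (P.lf 740 0 0) P.nil)))))) (P.cons (P.cons (P.lf 0 23363229 0) (P.cons (P.lf 12003411 0 0) (P.cons (P.lf 0 1141348 0) (P.cons (P.lf 0 106096 0) (P.cons (P.lf 13800 0 0) P.nil))))) (P.cons (P.cons (P.lf 0 2675191 0) (P.cons (P.lf 948127 0 0) (P.cons (P.lf 0 125345 0) (P.cons (P.lf 0 9500 0) P.nil)))) (P.cons (P.cons (P.lf 537921 0 0) (P.cons (P.lf 0 90246 0) (P.cons (P.lf 0 3662 0) P.nil))) (P.cons (P.cons (P.lf 39622 0 0) (P.cons (P.lf 0 13791 0) P.nil)) (P.cons (P.cons (P.lf 0 3418 0) P.nil) P.nil)))))) 6438)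
 EL.nil))
noncomputable def S169_183_438_512_12 : EL := (EL.cons 4 (TM.mk (P.cons (P.lf 2242802763 0 0) (P.cons (P.lf 0 153546101 0) (P.cons (P.lf 0 4791341 0) (P.cons (P.lf 36671 0 0) (P.cons (P.lf 4687 0 0) (P.cons (P.lf 56 0 0) P.nil)))))) 59)
 (EL.cons 8 (TM.mk (P.cons (P.lf 1680233071 0 0) (P.cons (P.lf 72873196 0 0) (P.cons (P.lf 0 1800820 0) (P.cons (P.lf 0 94981 0) (P.cons (P.lf 0 308 0) (P.cons (P.lf 74 0 0) P.nil)))))) 48)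
 EL.nil))
noncomputable def S169_183_438_512_13 : EL := (EL.cons 4 (TM.mk (P.cons (P.cons (P.lf 326052755 0 0) (P.cons (P.lf 0 114623891 0) (P.cons (P.lf 0 1824390 0) (P.lf 608129 0 0)))) (P.cons (P.cons (P.lf 77864768 0 0) (P.cons (P.lf 0 7066670 0) (P.cons (P.lf 0 112472 0) (P.lf 37490 0 0)))) (P.cons (P.cons (P.lf 0 14836853 0) (P.cons (P.lf 987629 0 0) (P.cons (P.lf 15720 0 0) (P.lf 0 5240 0)))) (P.cons (P.cons (P.lf 0 177570 0) (P.cons (P.lf 91093 0 0) (P.cons (P.lf 1448 0 0) P.nil))) (P.cons (P.cons (P.lf 61965 0 0) (P.cons (P.lf 0 720 0) P.nil)) (P.cons (P.cons (P.lf 1556 0 0) P.nil) P.nil)))))) 1446)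
 (EL.cons 8 (TM.mk (P.cons (P.cons (P.lf 244267856 0 0) (P.cons (P.lf 0 85872398 0) (P.cons (P.lf 0 1366772 0) (P.lf 455590 0 0)))) (P.cons (P.cons (P.lf 85650796 0 0) (P.cons (P.lf 0 14897446 0) (P.cons (P.lf 0 237111 0) (P.lf 79037 0 0)))) (P.cons (P.cons (P.lf 0 2461457 0) (P.cons (P.lf 0 601031 0) (P.cons (P.lf 0 9565 0) (P.lf 3187 0 0)))) (P.cons (P.cons (P.lf 0 680969 0) (P.cons (P.lf 39293 0 0) (P.cons (P.lf 624 0 0) P.nil))) (P.cons (P.cons (P.lf 0 4566 0) (P.cons (P.lf 3770 0 0) P.nil)) (P.cons (P.cons (P.lf 2038 0 0) P.nil) P.nil)))))) 867)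
 EL.nil))
noncomputable def S169_183_438_512_14 : EL := (EL.cons 4 (TM.mk (P.cons (P.cons (P.lf 47400690 0 0) (P.cons (P.lf 0 33327437 0) (P.cons (P.lf 5327682 0 0) (P.cons (P.lf 363295 0 0) (P.cons (P.lf 0 60675 0) (P.cons (P.lf 0 988 0) P.nil)))))) (P.cons (P.cons (P.lf 25884681 0 0) (P.cons (P.lf 0 12295257 0) (P.cons (P.lf 927681 0 0) (P.cons (P.lf 100991 0 0) (P.cons (P.lf 0 11634 0) P.nil))))) (P.cons (P.cons (P.lf 262766 0 0) (P.cons (P.lf 400076 0 0) (P.cons (P.lf 17105 0 0) (P.cons (P.lf 0 1781 0) P.nil)))) (P.cons (P.cons (P.lf 0 1009316 0) (P.cons (P.lf 208376 0 0) (P.cons (P.lf 0 9179 0) P.nil))) (P.cons (P.cons (P.lf 34776 0 0) (P.cons (P.lf 3224 0 0) P.nil)) (P.cons (P.cons (P.lf 7269 0 0) P.nil) P.nil)))))) 10225)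
 (EL.cons 8 (TM.mk (P.cons (P.cons (P.lf 35511017 0 0) (P.cons (P.lf 0 24967805 0) (P.cons (P.lf 3991322 0 0) (P.cons (P.lf 272169 0 0) (P.cons (P.lf 0 45456 0) (P.cons (P.lf 0 740 0) P.nil)))))) (P.cons (P.cons (P.lf 23363229 0 0) (P.cons (P.lf 0 12003411 0) (P.cons (P.lf 1141348 0 0) (P.cons (P.lf 106096 0 0) (P.cons (P.lf 0 13800 0) P.nil))))) (P.cons (P.cons (P.lf 2675191 0 0) (P.cons (P.lf 0 948127 0) (P.cons (P.lf 125345 0 0) (P.cons (P.lf 9500 0 0) P.nil)))) (P.cons (P.cons (P.lf 0 537921 0) (P.cons (P.lf 90246 0 0) (P.cons (P.lf 3662 0 0) P.nil))) (P.cons (P.cons (P.lf 0 39622 0) (P.cons (P.lf 13791 0 0) P.nil)) (P.cons (P.cons (P.lf 3418 0 0) P.nil) P.nil)))))) 6438)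
 EL.nil))
noncomputable def S169_183_438_512_15 : EL := (EL.cons 4 (TM.mk (P.cons (P.lf 0 1249254801 0) (P.cons (P.lf 171052227 0 0) (P.cons (P.lf 0 517650 0) (P.cons (P.lf 0 406274 0) (P.cons (P.lf 0 8126 0) (P.cons (P.lf 381 0 0) P.nil)))))) 91)
 (EL.cons 8 (TM.mk (P.cons (P.lf 0 935900056 0) (P.cons (P.lf 23482499 0 0) (P.cons (P.lf 5781364 0 0) (P.cons (P.lf 55645 0 0) (P.cons (P.lf 0 8213 0) (P.cons (P.lf 0 257 0) P.nil)))))) 65)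
 EL.nil))
noncomputable def S169_183_438_512_16 : EL := (EL.cons 4 (TM.mk (P.cons (P.cons (P.lf 0 181613370 0) (P.cons (P.lf 63846205 0 0) (P.cons (P.lf 1016196 0 0) (P.lf 0 338730 0)))) (P.cons (P.cons (P.lf 0 30937589 0) (P.cons (P.lf 0 434840 0) (P.cons (P.lf 0 6921 0) (P.lf 2307 0 0)))) (P.cons (P.cons (P.lf 11621464 0 0) (P.cons (P.lf 0 955988 0) (P.cons (P.lf 0 15215 0) (P.lf 5072 0 0)))) (P.cons (P.cons (P.lf 0 377189 0) (P.cons (P.lf 0 20442 0) (P.cons (P.lf 0 324 0) P.nil))) (P.cons (P.cons (P.lf 0 60030 0) (P.cons (P.lf 5248 0 0) P.nil)) (P.cons (P.cons (P.lf 1323 0 0) P.nil) P.nil)))))) 1328)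
 (EL.cons 8 (TM.mk (P.cons (P.cons (P.lf 0 136058683 0) (P.cons (P.lf 47831449 0 0) (P.cons (P.lf 761300 0 0) (P.lf 0 253766 0)))) (P.cons (P.cons (P.lf 0 38393205 0) (P.cons (P.lf 5023346 0 0) (P.cons (P.lf 79952 0 0) (P.lf 0 26650 0)))) (P.cons (P.cons (P.lf 4927883 0 0) (P.cons (P.lf 0 335497 0) (P.cons (P.lf 0 5340 0) (P.lf 1780 0 0)))) (P.cons (P.cons (P.lf 385134 0 0) (P.cons (P.lf 0 61750 0) (P.cons (P.lf 0 982 0) P.nil))) (P.cons (P.cons (P.lf 0 27417 0) (P.cons (P.lf 0 1081 0) P.nil)) (P.cons (P.cons (P.lf 0 2200 0) P.nil) P.nil)))))) 961)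
 EL.nil))
noncomputable def S169_183_438_512_17 : EL := (EL.cons 4 (TM.mk (P.cons (P.cons (P.lf 0 26402473 0) (P.cons (P.lf 18563585 0 0) (P.cons (P.lf 0 2967551 0) (P.cons (P.lf 0 202357 0) (P.cons (P.lf 33795 0 0) (P.cons (P.lf 550 0 0) P.nil)))))) (P.cons (P.cons (P.lf 0 12610366 0) (P.cons (P.lf 5577638 0 0) (P.cons (P.lf 0 313560 0) (P.cons (P.lf 0 42398 0) (P.cons (P.lf 4166 0 0) P.nil))))) (P.cons (P.cons (P.lf 897117 0 0) (P.cons (P.lf 0 731364 0) (P.cons (P.lf 32186 0 0) (P.cons (P.lf 5275 0 0) P.nil)))) (P.cons (P.cons (P.lf 602584 0 0) (P.cons (P.lf 0 115137 0) (P.cons (P.lf 6820 0 0) P.nil))) (P.cons (P.cons (P.lf 0 57838 0) (P.cons (P.lf 6776 0 0) P.nil)) (P.cons (P.cons (P.lf 0 3956 0) P.nil) P.nil)))))) 7742)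
 (EL.cons 8 (TM.mk (P.cons (P.cons (P.lf 0 19779852 0) (P.cons (P.lf 13907219 0 0) (P.cons (P.lf 0 2223190 0) (P.cons (P.lf 0 151599 0) (P.cons (P.lf 25319 0 0) (P.cons (P.lf 412 0 0) P.nil)))))) (P.cons (P.cons (P.lf 0 11659298 0) (P.cons (P.lf 5733861 0 0) (P.cons (P.lf 0 483534 0) (P.cons (P.lf 0 48717 0) (P.cons (P.lf 5953 0 0) P.nil))))) (P.cons (P.cons (P.lf 0 556917 0) (P.cons (P.lf 40669 0 0) (P.cons (P.lf 0 21544 0) (P.cons (P.lf 0 921 0) P.nil)))) (P.cons (P.cons (P.lf 429117 0 0) (P.cons (P.lf 0 100479 0) (P.cons (P.lf 4061 0 0) P.nil))) (P.cons (P.cons (P.lf 4486 0 0) (P.cons (P.lf 0 5230 0) P.nil)) (P.cons (P.cons (P.lf 0 4106 0) P.nil) P.nil)))))) 5369)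
 EL.nil))
noncomputable def S169_183_438_512_18 : EL := (EL.cons 4 (TM.mk (P.cons (P.lf 695842534 0 0) (P.cons (P.lf 0 142915698 0) (P.cons (P.lf 5324627 0 0) (P.cons (P.lf 421476 0 0) (P.cons (P.lf 0 11685 0) (P.cons (P.lf 0 1182 0) P.nil)))))) 113)
 (EL.cons 8 (TM.mk (P.cons (P.lf 521302032 0 0) (P.cons (P.lf 0 48769121 0) (P.cons (P.lf 0 3438450 0) (P.cons (P.lf 225935 0 0) (P.cons (P.lf 14451 0 0) (P.cons (P.lf 0 170 0) P.nil)))))) 84)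
 EL.nil))
noncomputable def S169_183_438_512_19 : EL := (EL.cons 4 (TM.mk (P.cons (P.cons (P.lf 101159753 0 0) (P.cons (P.lf 0 35562724 0) (P.cons (P.lf 0 566026 0) (P.lf 188675 0 0)))) (P.cons (P.cons (P.lf 10306856 0 0) (P.cons (P.lf 2676893 0 0) (P.cons (P.lf 42606 0 0) (P.lf 0 14202 0)))) (P.cons (P.cons (P.lf 0 7869096 0) (P.cons (P.lf 591882 0 0) (P.cons (P.lf 9420 0 0) (P.lf 0 3140 0)))) (P.cons (P.cons (P.lf 618105 0 0) (P.cons (P.lf 0 26166 0) (P.cons (P.lf 0 416 0) P.nil))) (P.cons (P.cons (P.lf 33375 0 0) (P.cons (P.lf 0 4910 0) P.nil)) (P.cons (P.cons (P.lf 0 3542 0) P.nil) P.nil)))))) 1560)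
 (EL.cons 8 (TM.mk (P.cons (P.cons (P.lf 75785515 0 0) (P.cons (P.lf 0 26642408 0) (P.cons (P.lf 0 424049 0) (P.lf 141349 0 0)))) (P.cons (P.cons (P.lf 16196843 0 0) (P.cons (P.lf 0 974050 0) (P.cons (P.lf 0 15503 0) (P.lf 5167 0 0)))) (P.cons (P.cons (P.lf 0 4370833 0) (P.cons (P.lf 435349 0 0) (P.cons (P.lf 6929 0 0) (P.lf 0 2310 0)))) (P.cons (P.cons (P.lf 0 71051 0) (P.cons (P.lf 27143 0 0) (P.cons (P.lf 431 0 0) P.nil))) (P.cons (P.cons (P.lf 36330 0 0) (P.cons (P.lf 0 2252 0) P.nil)) (P.cons (P.cons (P.lf 640 0 0) P.nil) P.nil)))))) 904)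
 EL.nil))
noncomputable def S169_183_438_512_20 : EL := (EL.cons 4 (TM.mk (P.cons (P.cons (P.lf 14706337 0 0) (P.cons (P.lf 0 10340029 0) (P.cons (P.lf 1652943 0 0) (P.cons (P.lf 112714 0 0) (P.cons (P.lf 0 18824 0) (P.cons (P.lf 0 306 0) P.nil)))))) (P.cons (P.cons (P.lf 6017230 0 0) (P.cons (P.lf 0 2398882 0) (P.cons (P.lf 61491 0 0) (P.cons (P.lf 15899 0 0) (P.cons (P.lf 0 1032 0) P.nil))))) (P.cons (P.cons (P.lf 0 1011995 0) (P.cons (P.lf 642159 0 0) (P.cons (P.lf 0 33416 0) (P.cons (P.lf 0 4795 0) P.nil)))) (P.cons (P.cons (P.lf 0 316198 0) (P.cons (P.lf 42710 0 0) (P.cons (P.lf 0 2917 0) P.nil))) (P.cons (P.cons (P.lf 56407 0 0) (P.cons (P.lf 0 9107 0) P.nil)) (P.cons (P.cons (P.lf 721 0 0) P.nil) P.nil)))))) 6891)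
 (EL.cons 8 (TM.mk (P.cons (P.cons (P.lf 11017498 0 0) (P.cons (P.lf 0 7746406 0) (P.cons (P.lf 1238330 0 0) (P.cons (P.lf 84441 0 0) (P.cons (P.lf 0 14102 0) (P.cons (P.lf 0 229 0) P.nil)))))) (P.cons (P.cons (P.lf 5740023 0 0) (P.cons (P.lf 0 2663463 0) (P.cons (P.lf 184553 0 0) (P.cons (P.lf 21354 0 0) (P.cons (P.lf 0 2350 0) P.nil))))) (P.cons (P.cons (P.lf 0 157940 0) (P.cons (P.lf 212548 0 0) (P.cons (P.lf 0 9083 0) (P.cons (P.lf 0 1524 0) P.nil)))) (P.cons (P.cons (P.lf 0 273951 0) (P.cons (P.lf 64214 0 0) (P.cons (P.lf 0 3638 0) P.nil))) (P.cons (P.cons (P.lf 13331 0 0) (P.cons (P.lf 0 937 0) P.nil)) (P.cons (P.cons (P.lf 2987 0 0) P.nil) P.nil)))))) 4077)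
 EL.nil))
noncomputable def S169_183_438_512_21 : EL := (EL.cons 4 (TM.mk (P.cons (P.cons (P.lf 0 2310003570 0) (P.cons (P.lf 343871673 0 0) (P.cons (P.lf 5473170 0 0) (P.lf 0 1824387 0)))) (P.cons (P.cons (P.lf 279562374 0 0) (P.cons (P.lf 21200010 0 0) (P.cons (P.lf 337416 0 0) (P.lf 0 112470 0)))) (P.cons (P.cons (P.lf 42957612 0 0) (P.cons (P.lf 0 2962887 0) (P.cons (P.lf 0 47160 0) (P.lf 15720 0 0)))) (P.cons (P.cons (P.lf 0 686109 0) (P.cons (P.lf 0 273279 0) (P.cons (P.lf 0 4344 0) P.nil))) (P.cons (P.cons (P.lf 0 210273 0) (P.cons (P.lf 2160 0 0) P.nil)) (P.cons (P.cons (P.lf 0 3522 0) P.nil) P.nil)))))) 4644)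
 (EL.cons 8 (TM.mk (P.cons (P.cons (P.lf 1096330962 0 0) (P.cons (P.lf 0 163201989 0) (P.cons (P.lf 0 2597577 0) (P.lf 865860 0 0)))) (P.cons (P.cons (P.lf 0 255286212 0) (P.cons (P.lf 8189739 0 0) (P.cons (P.lf 130347 0 0) (P.lf 0 43449 0)))) (P.cons (P.cons (P.lf 0 1399311 0) (P.cons (P.lf 1913556 0 0) (P.cons (P.lf 30453 0 0) (P.lf 0 10146 0)))) (P.cons (P.cons (P.lf 1871820 0 0) (P.cons (P.lf 0 31182 0) (P.cons (P.lf 0 495 0) P.nil))) (P.cons (P.cons (P.lf 24264 0 0) (P.cons (P.lf 0 9576 0) P.nil)) (P.cons (P.cons (P.lf 0 5646 0) P.nil) P.nil)))))) 3465)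
 (EL.cons 11 (TM.mk (P.cons (P.cons (P.lf 1936007415 0 0) (P.cons (P.lf 71765154 0 0) (P.cons (P.lf 0 35559891 0) (P.cons (P.lf 0 322683 0) (P.lf 80670 0 0))))) (P.cons (P.cons (P.lf 167932710 0 0) (P.cons (P.lf 6225036 0 0) (P.cons (P.lf 0 3084528 0) (P.cons (P.lf 0 27990 0) (P.lf 6996 0 0))))) (P.cons (P.cons (P.lf 0 508203 0) (P.cons (P.lf 0 18837 0) (P.cons (P.lf 9333 0 0) (P.cons (P.lf 84 0 0) P.nil)))) (P.cons (P.cons (P.lf 0 398862 0) (P.cons (P.lf 0 14784 0) (P.cons (P.lf 7326 0 0) P.nil))) (P.cons (P.cons (P.lf 0 7977 0) (P.cons (P.lf 0 294 0) P.nil)) (P.cons (P.cons (P.lf 372 0 0) P.nil) P.nil)))))) 537)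
 EL.nil)))
noncomputable def S169_183_438_512_22 : EL := (EL.cons 4 (TM.mk (P.cons (P.cons (P.lf 0 335822232 0) (P.cons (P.lf 168049509 0 0) (P.cons (P.lf 0 14899668 0) (P.cons (P.lf 0 1451013 0) (P.cons (P.lf 182025 0 0) (P.cons (P.lf 2967 0 0) P.nil)))))) (P.cons (P.cons (P.lf 0 62546742 0) (P.cons (P.lf 19516056 0 0) (P.cons (P.lf 0 3059508 0) (P.cons (P.lf 0 210819 0) (P.cons (P.lf 34905 0 0) P.nil))))) (P.cons (P.cons (P.lf 26232732 0 0) (P.cons (P.lf 0 4367958 0) (P.cons (P.lf 0 101739 0) (P.cons (P.lf 22149 0 0) P.nil)))) (P.cons (P.cons (P.lf 1392945 0 0) (P.cons (P.lf 0 641157 0) (P.cons (P.lf 27282 0 0) P.nil))) (P.cons (P.cons (P.lf 0 271392 0) (P.cons (P.lf 8274 0 0) P.nil)) (P.cons (P.cons (P.lf 0 16446 0) P.nil) P.nil)))))) 22632)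
 (EL.cons 8 (TM.mk (P.cons (P.cons (P.lf 159381705 0 0) (P.cons (P.lf 0 79756536 0) (P.cons (P.lf 7071402 0 0) (P.cons (P.lf 688653 0 0) (P.cons (P.lf 0 86388 0) (P.cons (P.lf 0 1407 0) P.nil)))))) (P.cons (P.cons (P.lf 11860704 0 0) (P.cons (P.lf 0 342969 0) (P.cons (P.lf 661233 0 0) (P.cons (P.lf 23040 0 0) (P.cons (P.lf 0 6903 0) P.nil))))) (P.cons (P.cons (P.lf 0 15166440 0) (P.cons (P.lf 2806932 0 0) (P.cons (P.lf 0 87330 0) (P.cons (P.lf 0 19092 0) P.nil)))) (P.cons (P.cons (P.lf 809949 0 0) (P.cons (P.lf 54240 0 0) (P.cons (P.lf 0 14343 0) P.nil))) (P.cons (P.cons (P.lf 150792 0 0) (P.cons (P.lf 0 28881 0) P.nil)) (P.cons (P.cons (P.lf 0 6267 0) P.nil) P.nil)))))) 11097)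
 (EL.cons 11 (TM.mk (P.cons (P.cons (P.lf 281451654 0 0) (P.cons (P.lf 0 88511337 0) (P.cons (P.lf 0 10412166 0) (P.cons (P.lf 2237028 0 0) (P.cons (P.lf 76602 0 0) (P.cons (P.lf 0 13500 0) P.nil)))))) (P.cons (P.cons (P.lf 110895840 0 0) (P.cons (P.lf 0 17345763 0) (P.cons (P.lf 0 3173766 0) (P.cons (P.lf 476796 0 0) (P.cons (P.lf 18687 0 0) P.nil))))) (P.cons (P.cons (P.lf 1142424 0 0) (P.cons (P.lf 0 1288599 0) (P.cons (P.lf 0 91503 0) (P.cons (P.lf 30528 0 0) P.nil)))) (P.cons (P.cons (P.lf 0 1029318 0) (P.cons (P.lf 1074 0 0) (P.cons (P.lf 20982 0 0) P.nil))) (P.cons (P.cons (P.lf 0 41880 0) (P.cons (P.lf 6486 0 0) P.nil)) (P.cons (P.cons (P.lf 3114 0 0) P.nil) P.nil)))))) 10257)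
 EL.nil)))
noncomputable def S169_183_438_512_23 : EL := (EL.cons 4 (TM.mk (P.cons (P.cons (P.lf 1286686059 0 0) (P.cons (P.lf 0 191538615 0) (P.cons (P.lf 0 3048588 0) (P.lf 1016193 0 0)))) (P.cons (P.cons (P.lf 0 243806664 0) (P.cons (P.lf 1304523 0 0) (P.cons (P.lf 20766 0 0) (P.lf 0 6921 0)))) (P.cons (P.cons (P.lf 0 16015704 0) (P.cons (P.lf 2867964 0 0) (P.cons (P.lf 45648 0 0) (P.lf 0 15213 0)))) (P.cons (P.cons (P.lf 2373993 0 0) (P.cons (P.lf 61326 0 0) (P.cons (P.lf 972 0 0) P.nil))) (P.cons (P.cons (P.lf 142218 0 0) (P.cons (P.lf 0 15741 0) P.nil)) (P.cons (P.cons (P.lf 0 7557 0) P.nil) P.nil)))))) 4800)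
 (EL.cons 8 (TM.mk (P.cons (P.cons (P.lf 0 610663023 0) (P.cons (P.lf 90904500 0 0) (P.cons (P.lf 1446864 0 0) (P.lf 0 482289 0)))) (P.cons (P.cons (P.lf 184003005 0 0) (P.cons (P.lf 0 10785210 0) (P.cons (P.lf 0 171657 0) (P.lf 57219 0 0)))) (P.cons (P.cons (P.lf 0 7650981 0) (P.cons (P.lf 0 947757 0) (P.cons (P.lf 0 15081 0) (P.lf 5022 0 0)))) (P.cons (P.cons (P.lf 0 1409736 0) (P.cons (P.lf 101568 0 0) (P.cons (P.lf 1614 0 0) P.nil))) (P.cons (P.cons (P.lf 57246 0 0) (P.cons (P.lf 6537 0 0) P.nil)) (P.cons (P.cons (P.lf 6591 0 0) P.nil) P.nil)))))) 3384)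
 (EL.cons 11 (TM.mk (P.cons (P.cons (P.lf 0 1078367922 0) (P.cons (P.lf 0 39973626 0) (P.cons (P.lf 19807074 0 0) (P.cons (P.lf 179736 0 0) (P.lf 0 44931 0))))) (P.cons (P.cons (P.lf 0 19712634 0) (P.cons (P.lf 0 730719 0) (P.cons (P.lf 362073 0 0) (P.cons (P.lf 3285 0 0) (P.lf 0 819 0))))) (P.cons (P.cons (P.lf 8990685 0 0) (P.cons (P.lf 333270 0 0) (P.cons (P.lf 0 165135 0) (P.cons (P.lf 0 1497 0) P.nil)))) (P.cons (P.cons (P.lf 384987 0 0) (P.cons (P.lf 14268 0 0) (P.cons (P.lf 0 7071 0) P.nil))) (P.cons (P.cons (P.lf 0 15153 0) (P.cons (P.lf 0 561 0) P.nil)) (P.cons (P.cons (P.lf 0 1203 0) P.nil) P.nil)))))) 1266)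
 EL.nil)))
noncomputable def S169_183_438_512_24 : EL := (EL.cons 4 (TM.mk (P.cons (P.cons (P.lf 187055028 0 0) (P.cons (P.lf 0 93604599 0) (P.cons (P.lf 8299206 0 0) (P.cons (P.lf 808221 0 0) (P.cons (P.lf 0 101388 0) (P.cons (P.lf 0 1653 0) P.nil)))))) (P.cons (P.cons (P.lf 22032807 0 0) (P.cons (P.lf 0 4462230 0) (P.cons (P.lf 1135986 0 0) (P.cons (P.lf 62094 0 0) (P.cons (P.lf 0 12501 0) P.nil))))) (P.cons (P.cons (P.lf 0 17396532 0) (P.cons (P.lf 3377166 0 0) (P.cons (P.lf 0 77730 0) (P.cons (P.lf 0 22101 0) P.nil)))) (P.cons (P.cons (P.lf 153099 0 0) (P.cons (P.lf 212253 0 0) (P.cons (P.lf 0 22581 0) P.nil))) (P.cons (P.cons (P.lf 236460 0 0) (P.cons (P.lf 0 34629 0) P.nil)) (P.cons (P.cons (P.lf 306 0 0) P.nil) P.nil)))))) 15423)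
 (EL.cons 8 (TM.mk (P.cons (P.cons (P.lf 0 88776579 0) (P.cons (P.lf 44424876 0 0) (P.cons (P.lf 0 3938814 0) (P.cons (P.lf 0 383583 0) (P.cons (P.lf 48120 0 0) (P.cons (P.lf 783 0 0) P.nil)))))) (P.cons (P.cons (P.lf 0 528687 0) (P.cons (P.lf 0 2850366 0) (P.cons (P.lf 0 98652 0) (P.cons (P.lf 13425 0 0) (P.cons (P.lf 549 0 0) P.nil))))) (P.cons (P.cons (P.lf 9089745 0 0) (P.cons (P.lf 0 1671462 0) (P.cons (P.lf 82272 0 0) (P.cons (P.lf 12333 0 0) P.nil)))) (P.cons (P.cons (P.lf 0 1016835 0) (P.cons (P.lf 77142 0 0) (P.cons (P.lf 5382 0 0) P.nil))) (P.cons (P.cons (P.lf 0 71445 0) (P.cons (P.lf 21591 0 0) P.nil)) (P.cons (P.cons (P.lf 10326 0 0) P.nil) P.nil)))))) 7386)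
 (EL.cons 11 (TM.mk (P.cons (P.cons (P.lf 0 156770286 0) (P.cons (P.lf 49301355 0 0) (P.cons (P.lf 5799639 0 0) (P.cons (P.lf 0 1246038 0) (P.cons (P.lf 0 42666 0) (P.cons (P.lf 7518 0 0) P.nil)))))) (P.cons (P.cons (P.lf 0 51036897 0) (P.cons (P.lf 6286440 0 0) (P.cons (P.lf 1370751 0 0) (P.cons (P.lf 0 180273 0) (P.cons (P.lf 0 7488 0) P.nil))))) (P.cons (P.cons (P.lf 3927426 0 0) (P.cons (P.lf 0 49020 0) (P.cons (P.lf 0 82446 0) (P.cons (P.lf 3837 0 0) P.nil)))) (P.cons (P.cons (P.lf 746295 0 0) (P.cons (P.lf 0 69570 0) (P.cons (P.lf 0 18858 0) P.nil))) (P.cons (P.cons (P.lf 0 15900 0) (P.cons (P.lf 0 4842 0) P.nil)) (P.cons (P.cons (P.lf 0 4698 0) P.nil) P.nil)))))) 7434)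
 EL.nil)))
noncomputable def S169_183_438_512_25 : EL := (EL.cons 4 (TM.mk (P.cons (P.cons (P.lf 0 716691972 0) (P.cons (P.lf 106688175 0 0) (P.cons (P.lf 1698081 0 0) (P.lf 0 566025 0)))) (P.cons (P.cons (P.lf 184867752 0 0) (P.cons (P.lf 0 8030682 0) (P.cons (P.lf 0 127821 0) (P.lf 42606 0 0)))) (P.cons (P.cons (P.lf 1154706 0 0) (P.cons (P.lf 0 1775646 0) (P.cons (P.lf 0 28260 0) (P.lf 9420 0 0)))) (P.cons (P.cons (P.lf 0 2234898 0) (P.cons (P.lf 78501 0 0) (P.cons (P.lf 1251 0 0) P.nil))) (P.cons (P.cons (P.lf 0 7023 0) (P.cons (P.lf 14730 0 0) P.nil)) (P.cons (P.cons (P.lf 12867 0 0) P.nil) P.nil)))))) 3810)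
 (EL.cons 8 (TM.mk (P.cons (P.cons (P.lf 340143024 0 0) (P.cons (P.lf 0 50634360 0) (P.cons (P.lf 0 805911 0) (P.lf 268638 0 0)))) (P.cons (P.cons (P.lf 0 125777565 0) (P.cons (P.lf 9473943 0 0) (P.cons (P.lf 150789 0 0) (P.lf 0 50262 0)))) (P.cons (P.cons (P.lf 10551684 0 0) (P.cons (P.lf 224799 0 0) (P.cons (P.lf 3576 0 0) (P.lf 0 1188 0)))) (P.cons (P.cons (P.lf 717984 0 0) (P.cons (P.lf 0 106377 0) (P.cons (P.lf 0 1692 0) P.nil))) (P.cons (P.cons (P.lf 0 95712 0) (P.cons (P.lf 0 903 0) P.nil)) (P.cons (P.cons (P.lf 0 3300 0) P.nil) P.nil)))))) 3003)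
 (EL.cons 11 (TM.mk (P.cons (P.cons (P.lf 600657501 0 0) (P.cons (P.lf 22265553 0 0) (P.cons (P.lf 0 11032659 0) (P.cons (P.lf 0 100113 0) (P.lf 25026 0 0))))) (P.cons (P.cons (P.lf 0 30141978 0) (P.cons (P.lf 0 1117320 0) (P.cons (P.lf 553635 0 0) (P.cons (P.lf 5022 0 0) (P.lf 0 1254 0))))) (P.cons (P.cons (P.lf 0 7042776 0) (P.cons (P.lf 0 261063 0) (P.cons (P.lf 129357 0 0) (P.cons (P.lf 1173 0 0) P.nil)))) (P.cons (P.cons (P.lf 114771 0 0) (P.cons (P.lf 4254 0 0) (P.cons (P.lf 0 2106 0) P.nil))) (P.cons (P.cons (P.lf 35253 0 0) (P.cons (P.lf 1305 0 0) P.nil)) (P.cons (P.cons (P.lf 507 0 0) P.nil) P.nil)))))) 1479)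
 EL.nil)))
noncomputable def S169_183_438_512_26 : EL := (EL.cons 4 (TM.mk (P.cons (P.cons (P.lf 0 104190789 0) (P.cons (P.lf 52138332 0 0) (P.cons (P.lf 0 4622706 0) (P.cons (P.lf 0 450183 0) (P.cons (P.lf 56472 0 0) (P.cons (P.lf 918 0 0) P.nil)))))) (P.cons (P.cons (P.lf 0 5139330 0) (P.cons (P.lf 0 1083987 0) (P.cons (P.lf 0 316272 0) (P.cons (P.lf 0 3765 0) (P.cons (P.lf 3096 0 0) P.nil))))) (P.cons (P.cons (P.lf 10752747 0 0) (P.cons (P.lf 0 2162646 0) (P.cons (P.lf 96489 0 0) (P.cons (P.lf 15639 0 0) P.nil)))) (P.cons (P.cons (P.lf 0 724155 0) (P.cons (P.lf 6096 0 0) (P.cons (P.lf 10890 0 0) P.nil))) (P.cons (P.cons (P.lf 0 146991 0) (P.cons (P.lf 31551 0 0) P.nil)) (P.cons (P.cons (P.lf 9156 0 0) P.nil) P.nil)))))) 10791)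
 (EL.cons 8 (TM.mk (P.cons (P.cons (P.lf 49449096 0 0) (P.cons (P.lf 0 24744924 0) (P.cons (P.lf 2193942 0 0) (P.cons (P.lf 213657 0 0) (P.cons (P.lf 0 26802 0) (P.cons (P.lf 0 435 0) P.nil)))))) (P.cons (P.cons (P.lf 0 3090885 0) (P.cons (P.lf 3281751 0 0) (P.cons (P.lf 0 95250 0) (P.cons (P.lf 0 22104 0) (P.cons (P.lf 1527 0 0) P.nil))))) (P.cons (P.cons (P.lf 0 5188842 0) (P.cons (P.lf 875181 0 0) (P.cons (P.lf 0 54273 0) (P.cons (P.lf 0 6813 0) P.nil)))) (P.cons (P.cons (P.lf 913185 0 0) (P.cons (P.lf 0 110505 0) (P.cons (P.lf 57 0 0) P.nil))) (P.cons (P.cons (P.lf 11943 0 0) (P.cons (P.lf 0 11100 0) P.nil)) (P.cons (P.cons (P.lf 0 9768 0) P.nil) P.nil)))))) 5697)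
 (EL.cons 11 (TM.mk (P.cons (P.cons (P.lf 87322002 0 0) (P.cons (P.lf 0 27461154 0) (P.cons (P.lf 0 3230433 0) (P.cons (P.lf 694050 0 0) (P.cons (P.lf 23766 0 0) (P.cons (P.lf 0 4188 0) P.nil)))))) (P.cons (P.cons (P.lf 22449648 0 0) (P.cons (P.lf 0 1621548 0) (P.cons (P.lf 0 542355 0) (P.cons (P.lf 52896 0 0) (P.cons (P.lf 2544 0 0) P.nil))))) (P.cons (P.cons (P.lf 0 4320369 0) (P.cons (P.lf 325695 0 0) (P.cons (P.lf 105096 0 0) (P.cons (P.lf 0 10494 0) P.nil)))) (P.cons (P.cons (P.lf 0 325227 0) (P.cons (P.lf 43911 0 0) (P.cons (P.lf 8937 0 0) P.nil))) (P.cons (P.cons (P.lf 42636 0 0) (P.cons (P.lf 0 126 0) P.nil)) (P.cons (P.cons (P.lf 2925 0 0) P.nil) P.nil)))))) 5322)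
 EL.nil)))
noncomputable def S169_183_438_512_27 : EL := (EL.cons 13 (TM.mk (P.lf 0 4294967296 0) 0)
 EL.nil)
noncomputable def S169_183_438_512_28 : EL := (EL.cons 13 (TM.mk (P.cons (P.cons (P.lf 0 624391029 0) (P.cons (P.lf 219504752 0 0) (P.cons (P.lf 3493708 0 0) (P.lf 0 1164568 0)))) (P.cons (P.cons (P.lf 0 191857907 0) (P.cons (P.lf 28560344 0 0) (P.cons (P.lf 454572 0 0) (P.lf 0 151524 0)))) (P.cons (P.cons (P.lf 13943757 0 0) (P.cons (P.lf 532912 0 0) (P.cons (P.lf 8480 0 0) (P.lf 0 2824 0)))) (P.cons (P.cons (P.lf 895000 0 0) (P.cons (P.lf 0 80536 0) (P.cons (P.lf 0 1280 0) P.nil))) (P.cons (P.cons (P.lf 0 23160 0) (P.cons (P.lf 0 3920 0) P.nil)) (P.cons (P.cons (P.lf 0 2466 0) P.nil) P.nil)))))) 1123)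
 EL.nil)
noncomputable def S169_183_438_512_29 : EL := (EL.cons 13 (TM.mk (P.cons (P.cons (P.lf 0 90772322 0) (P.cons (P.lf 63822044 0 0) (P.cons (P.lf 0 10202512 0) (P.cons (P.lf 0 695712 0) (P.cons (P.lf 116194 0 0) (P.cons (P.lf 1894 0 0) P.nil)))))) (P.cons (P.cons (P.lf 0 55783594 0) (P.cons (P.lf 27914785 0 0) (P.cons (P.lf 0 2474992 0) (P.cons (P.lf 0 241028 0) (P.cons (P.lf 30236 0 0) P.nil))))) (P.cons (P.cons (P.lf 0 4516156 0) (P.cons (P.lf 1281291 0 0) (P.cons (P.lf 0 223997 0) (P.cons (P.lf 0 14576 0) P.nil)))) (P.cons (P.cons (P.lf 1505971 0 0) (P.cons (P.lf 0 252731 0) (P.cons (P.lf 0 2877 0) P.nil))) (P.cons (P.cons (P.lf 27957 0 0) (P.cons (P.lf 0 21330 0) P.nil)) (P.cons (P.cons (P.lf 0 8597 0) P.nil) P.nil)))))) 11040)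
 EL.nil)
noncomputable def S169_183_438_512_30 : EL := (EL.cons 13 (TM.mk (P.cons (P.lf 2392322948 0 0) (P.cons (P.lf 0 163782508 0) (P.cons (P.lf 0 5110764 0) (P.cons (P.lf 39116 0 0) (P.cons (P.lf 5000 0 0) (P.cons (P.lf 60 0 0) P.nil)))))) 56)
 EL.nil)
noncomputable def S169_183_438_512_31 : EL := (EL.cons 13 (TM.mk (P.cons (P.cons (P.lf 347789606 0 0) (P.cons (P.lf 0 122265484 0) (P.cons (P.lf 0 1946016 0) (P.lf 648671 0 0)))) (P.cons (P.cons (P.lf 83055753 0 0) (P.cons (P.lf 0 7537782 0) (P.cons (P.lf 0 119971 0) (P.lf 39990 0 0)))) (P.cons (P.cons (P.lf 0 15825977 0) (P.cons (P.lf 1053471 0 0) (P.cons (P.lf 16768 0 0) (P.lf 0 5590 0)))) (P.cons (P.cons (P.lf 0 189408 0) (P.cons (P.lf 97166 0 0) (P.cons (P.lf 1545 0 0) P.nil))) (P.cons (P.cons (P.lf 66096 0 0) (P.cons (P.lf 0 769 0) P.nil)) (P.cons (P.cons (P.lf 1660 0 0) P.nil) P.nil)))))) 1523)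
 EL.nil)
noncomputable def S169_183_438_512_32 : EL := (EL.cons 13 (TM.mk (P.cons (P.cons (P.lf 50560736 0 0) (P.cons (P.lf 0 35549267 0) (P.cons (P.lf 5682861 0 0) (P.cons (P.lf 387515 0 0) (P.cons (P.lf 0 64720 0) (P.cons (P.lf 0 1054 0) P.nil)))))) (P.cons (P.cons (P.lf 27610327 0 0) (P.cons (P.lf 0 13114941 0) (P.cons (P.lf 989527 0 0) (P.cons (P.lf 107724 0 0) (P.cons (P.lf 0 12410 0) P.nil))))) (P.cons (P.cons (P.lf 280284 0 0) (P.cons (P.lf 426748 0 0) (P.cons (P.lf 18246 0 0) (P.cons (P.lf 0 1900 0) P.nil)))) (P.cons (P.cons (P.lf 0 1076604 0) (P.cons (P.lf 222268 0 0) (P.cons (P.lf 0 9791 0) P.nil))) (P.cons (P.cons (P.lf 37095 0 0) (P.cons (P.lf 3439 0 0) P.nil)) (P.cons (P.cons (P.lf 7754 0 0) P.nil) P.nil)))))) 10884)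
 EL.nil)
noncomputable def S169_183_438_512_33 : EL := (EL.cons 14 (TM.mk (P.lf 8589934592 0 0) 0)
 EL.nil)
noncomputable def S169_183_438_512_34 : EL := (EL.cons 14 (TM.mk (P.cons (P.cons (P.lf 1248782058 0 0) (P.cons (P.lf 0 439009504 0) (P.cons (P.lf 0 6987416 0) (P.lf 2329136 0 0)))) (P.cons (P.cons (P.lf 383715814 0 0) (P.cons (P.lf 0 57120688 0) (P.cons (P.lf 0 909144 0) (P.lf 303048 0 0)))) (P.cons (P.cons (P.lf 0 27887514 0) (P.cons (P.lf 0 1065824 0) (P.cons (P.lf 0 16960 0) (P.lf 5648 0 0)))) (P.cons (P.cons (P.lf 0 1790000 0) (P.cons (P.lf 161072 0 0) (P.cons (P.lf 2560 0 0) P.nil))) (P.cons (P.cons (P.lf 46320 0 0) (P.cons (P.lf 7840 0 0) P.nil)) (P.cons (P.cons (P.lf 4932 0 0) P.nil) P.nil)))))) 2246)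
 EL.nil)
noncomputable def S169_183_438_512_35 : EL := (EL.cons 14 (TM.mk (P.cons (P.cons (P.lf 181544644 0 0) (P.cons (P.lf 0 127644088 0) (P.cons (P.lf 20405024 0 0) (P.cons (P.lf 1391424 0 0) (P.cons (P.lf 0 232388 0) (P.cons (P.lf 0 3788 0) P.nil)))))) (P.cons (P.cons (P.lf 111567188 0 0) (P.cons (P.lf 0 55829570 0) (P.cons (P.lf 4949984 0 0) (P.cons (P.lf 482056 0 0) (P.cons (P.lf 0 60472 0) P.nil))))) (P.cons (P.cons (P.lf 9032312 0 0) (P.cons (P.lf 0 2562582 0) (P.cons (P.lf 447994 0 0) (P.cons (P.lf 29152 0 0) P.nil)))) (P.cons (P.cons (P.lf 0 3011942 0) (P.cons (P.lf 505462 0 0) (P.cons (P.lf 5754 0 0) P.nil))) (P.cons (P.cons (P.lf 0 55914 0) (P.cons (P.lf 42660 0 0) P.nil)) (P.cons (P.cons (P.lf 17194 0 0) P.nil) P.nil)))))) 22080)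
 EL.nil)
noncomputable def S169_183_438_512_36 : EL := (EL.cons 14 (TM.mk (P.cons (P.lf 0 4784645896 0) (P.cons (P.lf 327565016 0 0) (P.cons (P.lf 10221528 0 0) (P.cons (P.lf 0 78232 0) (P.cons (P.lf 0 10000 0) (P.cons (P.lf 0 120 0) P.nil)))))) 112)
 EL.nil)
noncomputable def S169_183_438_512_37 : EL := (EL.cons 14 (TM.mk (P.cons (P.cons (P.lf 0 695579212 0) (P.cons (P.lf 244530968 0 0) (P.cons (P.lf 3892032 0 0) (P.lf 0 1297342 0)))) (P.cons (P.cons (P.lf 0 166111506 0) (P.cons (P.lf 15075564 0 0) (P.cons (P.lf 239942 0 0) (P.lf 0 79980 0)))) (P.cons (P.cons (P.lf 31651954 0 0) (P.cons (P.lf 0 2106942 0) (P.cons (P.lf 0 33536 0) (P.lf 11180 0 0)))) (P.cons (P.cons (P.lf 378816 0 0) (P.cons (P.lf 0 194332 0) (P.cons (P.lf 0 3090 0) P.nil))) (P.cons (P.cons (P.lf 0 132192 0) (P.cons (P.lf 1538 0 0) P.nil)) (P.cons (P.cons (P.lf 0 3320 0) P.nil) P.nil)))))) 3046)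
 EL.nil)
noncomputable def S169_183_438_512_38 : EL := (EL.cons 14 (TM.mk (P.cons (P.cons (P.lf 0 101121472 0) (P.cons (P.lf 71098534 0 0) (P.cons (P.lf 0 11365722 0) (P.cons (P.lf 0 775030 0) (P.cons (P.lf 129440 0 0) (P.cons (P.lf 2108 0 0) P.nil)))))) (P.cons (P.cons (P.lf 0 55220654 0) (P.cons (P.lf 26229882 0 0) (P.cons (P.lf 0 1979054 0) (P.cons (P.lf 0 215448 0) (P.cons (P.lf 24820 0 0) P.nil))))) (P.cons (P.cons (P.lf 0 560568 0) (P.cons (P.lf 0 853496 0) (P.cons (P.lf 0 36492 0) (P.cons (P.lf 3800 0 0) P.nil)))) (P.cons (P.cons (P.lf 2153208 0 0) (P.cons (P.lf 0 444536 0) (P.cons (P.lf 19582 0 0) P.nil))) (P.cons (P.cons (P.lf 0 74190 0) (P.cons (P.lf 0 6878 0) P.nil)) (P.cons (P.cons (P.lf 0 15508 0) P.nil) P.nil)))))) 21768)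
 EL.nil)
noncomputable def S169_183_438_512_39 : EL := (EL.cons 14 (TM.mk (P.cons (P.lf 2665076910 0 0) (P.cons (P.lf 0 364911418 0) (P.cons (P.lf 1104322 0 0) (P.cons (P.lf 866718 0 0) (P.cons (P.lf 17336 0 0) (P.cons (P.lf 0 814 0) P.nil)))))) 180)
 EL.nil)
noncomputable def S169_183_438_512_40 : EL := (EL.cons 14 (TM.mk (P.cons (P.cons (P.lf 387441858 0 0) (P.cons (P.lf 0 136205238 0) (P.cons (P.lf 0 2167886 0) (P.lf 722626 0 0)))) (P.cons (P.cons (P.lf 66000190 0 0) (P.cons (P.lf 927660 0 0) (P.cons (P.lf 14766 0 0) (P.lf 0 4922 0)))) (P.cons (P.cons (P.lf 0 24792458 0) (P.cons (P.lf 2039442 0 0) (P.cons (P.lf 32460 0 0) (P.lf 0 10822 0)))) (P.cons (P.cons (P.lf 804670 0 0) (P.cons (P.lf 43610 0 0) (P.cons (P.lf 692 0 0) P.nil))) (P.cons (P.cons (P.lf 128064 0 0) (P.cons (P.lf 0 11196 0) P.nil)) (P.cons (P.cons (P.lf 0 2824 0) P.nil) P.nil)))))) 2794)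
 EL.nil)
noncomputable def S169_183_438_512_41 : EL := (EL.cons 14 (TM.mk (P.cons (P.cons (P.lf 56325276 0 0) (P.cons (P.lf 0 39602316 0) (P.cons (P.lf 6330776 0 0) (P.cons (P.lf 431696 0 0) (P.cons (P.lf 0 72098 0) (P.cons (P.lf 0 1174 0) P.nil)))))) (P.cons (P.cons (P.lf 26902116 0 0) (P.cons (P.lf 0 11898962 0) (P.cons (P.lf 668928 0 0) (P.cons (P.lf 90450 0 0) (P.cons (P.lf 0 8888 0) P.nil))))) (P.cons (P.cons (P.lf 0 1913850 0) (P.cons (P.lf 1560244 0 0) (P.cons (P.lf 0 68664 0) (P.cons (P.lf 0 11254 0) P.nil)))) (P.cons (P.cons (P.lf 0 1285514 0) (P.cons (P.lf 245626 0 0) (P.cons (P.lf 0 14550 0) P.nil))) (P.cons (P.cons (P.lf 123388 0 0) (P.cons (P.lf 0 14456 0) P.nil)) (P.cons (P.cons (P.lf 8440 0 0) P.nil) P.nil)))))) 16470)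
 EL.nil)
noncomputable def S169_183_438_512_42 : EL := (EL.cons 14 (TM.mk (P.cons (P.lf 0 1484464074 0) (P.cons (P.lf 304886824 0 0) (P.cons (P.lf 0 11359206 0) (P.cons (P.lf 0 899150 0) (P.cons (P.lf 24928 0 0) (P.cons (P.lf 2522 0 0) P.nil)))))) 228)
 EL.nil)
noncomputable def S169_183_438_512_43 : EL := (EL.cons 14 (TM.mk (P.cons (P.cons (P.lf 0 215807474 0) (P.cons (P.lf 75867146 0 0) (P.cons (P.lf 1207524 0 0) (P.lf 0 402508 0)))) (P.cons (P.cons (P.lf 0 21987960 0) (P.cons (P.lf 0 5710706 0) (P.cons (P.lf 0 90894 0) (P.lf 30298 0 0)))) (P.cons (P.cons (P.lf 16787406 0 0) (P.cons (P.lf 0 1262682 0) (P.cons (P.lf 0 20096 0) (P.lf 6700 0 0)))) (P.cons (P.cons (P.lf 0 1318624 0) (P.cons (P.lf 55822 0 0) (P.cons (P.lf 888 0 0) P.nil))) (P.cons (P.cons (P.lf 0 71200 0) (P.cons (P.lf 10476 0 0) P.nil)) (P.cons (P.cons (P.lf 7558 0 0) P.nil) P.nil)))))) 3288)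
 EL.nil)
noncomputable def S169_183_438_512_44 : EL := (EL.cons 14 (TM.mk (P.cons (P.cons (P.lf 0 31373520 0) (P.cons (P.lf 22058730 0 0) (P.cons (P.lf 0 3526280 0) (P.cons (P.lf 0 240458 0) (P.cons (P.lf 40158 0 0) (P.cons (P.lf 654 0 0) P.nil)))))) (P.cons (P.cons (P.lf 0 12836758 0) (P.cons (P.lf 5117616 0 0) (P.cons (P.lf 0 131182 0) (P.cons (P.lf 0 33918 0) (P.cons (P.lf 2202 0 0) P.nil))))) (P.cons (P.cons (P.lf 2158924 0 0) (P.cons (P.lf 0 1369940 0) (P.cons (P.lf 71288 0 0) (P.cons (P.lf 10230 0 0) P.nil)))) (P.cons (P.cons (P.lf 674556 0 0) (P.cons (P.lf 0 91116 0) (P.cons (P.lf 6224 0 0) P.nil))) (P.cons (P.cons (P.lf 0 120336 0) (P.cons (P.lf 19430 0 0) P.nil)) (P.cons (P.cons (P.lf 0 1540 0) P.nil) P.nil)))))) 14654)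
 EL.nil)
noncomputable def S169_183_438_512_45 : EL := (EL.cons 14 (TM.mk (P.cons (P.cons (P.lf 26392482 0 0) (P.cons (P.lf 0 27834840 0) (P.cons (P.lf 9342314 0 0) (P.cons (P.lf 0 687510 0) (P.cons (P.lf 0 156104 0) (P.cons (P.lf 15726 0 0) P.nil)))))) (P.cons (P.cons (P.lf 24329014 0 0) (P.cons (P.lf 0 20727402 0) (P.cons (P.lf 5223252 0 0) (P.cons (P.lf 0 160852 0) (P.cons (P.lf 0 78888 0) P.nil))))) (P.cons (P.cons (P.lf 5707452 0 0) (P.cons (P.lf 0 3678104 0) (P.cons (P.lf 718542 0 0) (P.cons (P.lf 0 22338 0) P.nil)))) (P.cons (P.cons (P.lf 0 434428 0) (P.cons (P.lf 250294 0 0) (P.cons (P.lf 0 2404 0) P.nil))) (P.cons (P.cons (P.lf 0 194266 0) (P.cons (P.lf 72068 0 0) P.nil)) (P.cons (P.cons (P.lf 8602 0 0) P.nil) P.nil)))))) 57850)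
 EL.nil)
noncomputable def S169_183_438_512_46 : EL := (EL.cons 15 (TM.mk (P.lf 4294967296 0 0) 0)
 EL.nil)
noncomputable def S169_183_438_512_47 : EL := (EL.cons 15 (TM.mk (P.cons (P.cons (P.lf 624391029 0 0) (P.cons (P.lf 0 219504752 0) (P.cons (P.lf 0 3493708 0) (P.lf 1164568 0 0)))) (P.cons (P.cons (P.lf 191857907 0 0) (P.cons (P.lf 0 28560344 0) (P.cons (P.lf 0 454572 0) (P.lf 151524 0 0)))) (P.cons (P.cons (P.lf 0 13943757 0) (P.cons (P.lf 0 532912 0) (P.cons (P.lf 0 8480 0) (P.lf 2824 0 0)))) (P.cons (P.cons (P.lf 0 895000 0) (P.cons (P.lf 80536 0 0) (P.cons (P.lf 1280 0 0) P.nil))) (P.cons (P.cons (P.lf 23160 0 0) (P.cons (P.lf 3920 0 0) P.nil)) (P.cons (P.cons (P.lf 2466 0 0) P.nil) P.nil)))))) 1123)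
 EL.nil)
noncomputable def S169_183_438_512_48 : EL := (EL.cons 15 (TM.mk (P.cons (P.cons (P.lf 90772322 0 0) (P.cons (P.lf 0 63822044 0) (P.cons (P.lf 10202512 0 0) (P.cons (P.lf 695712 0 0) (P.cons (P.lf 0 116194 0) (P.cons (P.lf 0 1894 0) P.nil)))))) (P.cons (P.cons (P.lf 55783594 0 0) (P.cons (P.lf 0 27914785 0) (P.cons (P.lf 2474992 0 0) (P.cons (P.lf 241028 0 0) (P.cons (P.lf 0 30236 0) P.nil))))) (P.cons (P.cons (P.lf 4516156 0 0) (P.cons (P.lf 0 1281291 0) (P.cons (P.lf 223997 0 0) (P.cons (P.lf 14576 0 0) P.nil)))) (P.cons (P.cons (P.lf 0 1505971 0) (P.cons (P.lf 252731 0 0) (P.cons (P.lf 2877 0 0) P.nil))) (P.cons (P.cons (P.lf 0 27957 0) (P.cons (P.lf 21330 0 0) P.nil)) (P.cons (P.cons (P.lf 8597 0 0) P.nil) P.nil)))))) 11040)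
 EL.nil)
noncomputable def S169_183_438_512 : SL := (SL.cons S169_183_438_512_0 (SL.cons S169_183_438_512_1 (SL.cons S169_183_438_512_2 (SL.cons S169_183_438_512_3 (SL.cons S169_183_438_512_4 (SL.cons S169_183_438_512_5 (SL.cons S169_183_438_512_6 (SL.cons S169_183_438_512_7 (SL.cons S169_183_438_512_8 (SL.cons S169_183_438_512_9 (SL.cons S169_183_438_512_10 (SL.cons S169_183_438_512_11 (SL.cons S169_183_438_512_12 (SL.cons S169_183_438_512_13 (SL.cons S169_183_438_512_14 (SL.cons S169_183_438_512_15 (SL.cons S169_183_438_512_16 (SL.cons S169_183_438_512_17 (SL.cons S169_183_438_512_18 (SL.cons S169_183_438_512_19 (SL.cons S169_183_438_512_20 (SL.cons S169_183_438_512_21 (SL.cons S169_183_438_512_22 (SL.cons S169_183_438_512_23 (SL.cons S169_183_438_512_24 (SL.cons S169_183_438_512_25 (SL.cons S169_183_438_512_26 (SL.cons S169_183_438_512_27 (SL.cons S169_183_438_512_28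 (SL.cons S169_183_438_512_29 (SL.cons S169_183_438_512_30 (SL.cons S169_183_438_512_31 (SL.cons S169_183_438_512_32 (SL.cons S169_183_438_512_33 (SL.cons S169_183_438_512_34 (SL.cons S169_183_438_512_35 (SL.cons S169_183_438_512_36 (SL.cons S169_183_438_512_37 (SL.cons S169_183_438_512_38 (SL.cons S169_183_438_512_39 (SL.cons S169_183_438_512_40 (SL.cons S169_183_438_512_41 (SL.cons S169_183_438_512_42 (SL.cons S169_183_438_512_43 (SL.cons S169_183_438_512_44 (SL.cons S169_183_438_512_45 (SL.cons S169_183_438_512_46 (SL.cons S169_183_438_512_47 (SL.cons S169_183_438_512_48 SL.nil)))))))))))))))))))))))))))))))))))))))))))))))))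
noncomputable def S169_183_512_586_0 : EL := (EL.cons 0 (TM.mk (P.cons (P.lf 6113364111 0 0) (P.cons (P.lf 320722925 0 0) (P.cons (P.lf 0 970595 0) (P.cons (P.lf 0 761763 0) (P.cons (P.lf 0 15236 0) (P.cons (P.lf 715 0 0) P.nil)))))) 165)
 (EL.cons 1 (TM.mk (P.cons (P.lf 0 1754812605 0) (P.cons (P.lf 44029685 0 0) (P.cons (P.lf 10840057 0 0) (P.cons (P.lf 104334 0 0) (P.cons (P.lf 0 15399 0) (P.cons (P.lf 0 481 0) P.nil)))))) 128)
 (EL.cons 5 (TM.mk (P.cons (P.lf 5127803834 0 0) (P.cons (P.lf 0 114034818 0) (P.cons (P.lf 345096 0 0) (P.cons (P.lf 270848 0 0) (P.cons (P.lf 5418 0 0) (P.cons (P.lf 0 254 0) P.nil)))))) 109)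
 (EL.cons 9 (TM.mk (P.lf 6442450944 0 0) 2)
 EL.nil))))
noncomputable def S169_183_512_586_1 : EL := (EL.cons 0 (TM.mk (P.cons (P.cons (P.lf 0 1429407485 0) (P.cons (P.lf 46696557 0 0) (P.cons (P.lf 0 743233 0) (P.lf 0 247739 0)))) (P.cons (P.cons (P.lf 656608322 0 0) (P.cons (P.lf 0 59489484 0) (P.cons (P.lf 946852 0 0) (P.lf 315615 0 0)))) (P.cons (P.cons (P.lf 7755327 0 0) (P.cons (P.lf 0 8219081 0) (P.cons (P.lf 130814 0 0) (P.lf 43595 0 0)))) (P.cons (P.cons (P.lf 0 6909923 0) (P.cons (P.lf 5239 0 0) (P.cons (P.lf 0 89 0) P.nil))) (P.cons (P.cons (P.lf 0 238457 0) (P.cons (P.lf 47072 0 0) P.nil)) (P.cons (P.cons (P.lf 25036 0 0) P.nil) P.nil)))))) 13451)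
 (EL.cons 1 (TM.mk (P.cons (P.cons (P.lf 0 305385912 0) (P.cons (P.lf 138986947 0 0) (P.cons (P.lf 0 2212159 0) (P.lf 0 737380 0)))) (P.cons (P.cons (P.lf 0 106286223 0) (P.cons (P.lf 33658066 0 0) (P.cons (P.lf 0 535700 0) (P.lf 0 178563 0)))) (P.cons (P.cons (P.lf 37547171 0 0) (P.cons (P.lf 0 684121 0) (P.cons (P.lf 10892 0 0) (P.lf 3633 0 0)))) (P.cons (P.cons (P.lf 1660555 0 0) (P.cons (P.lf 0 384674 0) (P.cons (P.lf 6114 0 0) P.nil))) (P.cons (P.cons (P.lf 0 245632 0) (P.cons (P.lf 0 11197 0) P.nil)) (P.cons (P.cons (P.lf 0 13376 0) P.nil) P.nil)))))) 7759)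
 (EL.cons 5 (TM.mk (P.cons (P.cons (P.lf 815463287 0 0) (P.cons (P.lf 0 389761304 0) (P.cons (P.lf 6203566 0 0) (P.lf 2067850 0 0)))) (P.cons (P.cons (P.lf 0 5437821 0) (P.cons (P.lf 0 27400776 0) (P.cons (P.lf 436122 0 0) (P.lf 145378 0 0)))) (P.cons (P.cons (P.lf 0 28292971 0) (P.cons (P.lf 2016384 0 0) (P.cons (P.lf 0 32088 0) (P.lf 0 10690 0)))) (P.cons (P.cons (P.lf 1212074 0 0) (P.cons (P.lf 135050 0 0) (P.cons (P.lf 0 2146 0) P.nil))) (P.cons (P.cons (P.lf 137624 0 0) (P.cons (P.lf 0 10072 0) P.nil)) (P.cons (P.cons (P.lf 0 4901 0) P.nil) P.nil)))))) 7173)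
 (EL.cons 9 (TM.mk (P.cons (P.cons (P.lf 271084867 0 0) (P.cons (P.lf 0 329257128 0) (P.cons (P.lf 5240562 0 0) (P.lf 1746852 0 0)))) (P.cons (P.cons (P.lf 201196684 0 0) (P.cons (P.lf 0 42840516 0) (P.cons (P.lf 681858 0 0) (P.lf 227286 0 0)))) (P.cons (P.cons (P.lf 0 22531339 0) (P.cons (P.lf 0 799368 0) (P.cons (P.lf 12720 0 0) (P.lf 4236 0 0)))) (P.cons (P.cons (P.lf 0 1098336 0) (P.cons (P.lf 120804 0 0) (P.cons (P.lf 0 1920 0) P.nil))) (P.cons (P.cons (P.lf 46620 0 0) (P.cons (P.lf 5880 0 0) P.nil)) (P.cons (P.cons (P.lf 3519 0 0) P.nil) P.nil)))))) 1703)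
 (EL.cons 2 (TM.mk (P.cons (P.cons (P.lf 1010969926 0 0) (P.cons (P.lf 0 37475274 0) (P.cons (P.lf 0 18569131 0) (P.cons (P.lf 168502 0 0) (P.lf 42122 0 0))))) (P.cons (P.cons (P.lf 18480594 0 0) (P.cons (P.lf 0 685049 0) (P.cons (P.lf 0 339443 0) (P.cons (P.lf 3079 0 0) (P.lf 767 0 0))))) (P.cons (P.cons (P.lf 0 8428767 0) (P.cons (P.lf 312440 0 0) (P.cons (P.lf 154814 0 0) (P.cons (P.lf 0 1403 0) P.nil)))) (P.cons (P.cons (P.lf 0 360925 0) (P.cons (P.lf 13376 0 0) (P.cons (P.lf 6629 0 0) P.nil))) (P.cons (P.cons (P.lf 14205 0 0) (P.cons (P.lf 0 525 0) P.nil)) (P.cons (P.cons (P.lf 1127 0 0) P.nil) P.nil)))))) 1207)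
 (EL.cons 6 (TM.mk (P.cons (P.cons (P.lf 757384971 0 0) (P.cons (P.lf 0 28075227 0) (P.cons (P.lf 0 13911375 0) (P.cons (P.lf 126234 0 0) (P.lf 31557 0 0))))) (P.cons (P.cons (P.lf 98545368 0 0) (P.cons (P.lf 0 3652941 0) (P.cons (P.lf 0 1810044 0) (P.cons (P.lf 16422 0 0) (P.lf 4104 0 0))))) (P.cons (P.cons (P.lf 1838778 0 0) (P.cons (P.lf 0 68160 0) (P.cons (P.lf 0 33774 0) (P.cons (P.lf 306 0 0) P.nil)))) (P.cons (P.cons (P.lf 0 277887 0) (P.cons (P.lf 10299 0 0) (P.cons (P.lf 5103 0 0) P.nil))) (P.cons (P.cons (P.lf 0 13527 0) (P.cons (P.lf 498 0 0) P.nil)) (P.cons (P.cons (P.lf 207 0 0) P.nil) P.nil)))))) 723)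
 EL.nil))))))
noncomputable def S169_183_512_586_2 : EL := (EL.cons 0 (TM.mk (P.cons (P.cons (P.lf 0 131116971 0) (P.cons (P.lf 176329974 0 0) (P.cons (P.lf 0 23547527 0) (P.cons (P.lf 0 275269 0) (P.cons (P.lf 214815 0 0) (P.cons (P.lf 0 3501 0) P.nil)))))) (P.cons (P.cons (P.lf 0 50657741 0) (P.cons (P.lf 0 25879190 0) (P.cons (P.lf 878602 0 0) (P.cons (P.lf 122435 0 0) (P.cons (P.lf 0 4836 0) P.nil))))) (P.cons (P.cons (P.lf 46658102 0 0) (P.cons (P.lf 0 12287849 0) (P.cons (P.lf 1251954 0 0) (P.cons (P.lf 31561 0 0) P.nil)))) (P.cons (P.cons (P.lf 0 2993856 0) (P.cons (P.lf 0 64274 0) (P.cons (P.lf 112335 0 0) P.nil))) (P.cons (P.cons (P.lf 0 686513 0) (P.cons (P.lf 175302 0 0) P.nil)) (P.cons (P.cons (P.lf 30134 0 0) P.nil) P.nil)))))) 86064)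
 (EL.cons 1 (TM.mk (P.cons (P.cons (P.lf 0 22593016 0) (P.cons (P.lf 35364111 0 0) (P.cons (P.lf 0 10185878 0) (P.cons (P.lf 118698 0 0) (P.cons (P.lf 99664 0 0) (P.cons (P.lf 0 1620 0) P.nil)))))) (P.cons (P.cons (P.lf 0 23484907 0) (P.cons (P.lf 20044818 0 0) (P.cons (P.lf 0 4530096 0) (P.cons (P.lf 27701 0 0) (P.cons (P.lf 43618 0 0) P.nil))))) (P.cons (P.cons (P.lf 0 282635 0) (P.cons (P.lf 0 1184058 0) (P.cons (P.lf 0 351734 0) (P.cons (P.lf 18076 0 0) P.nil)))) (P.cons (P.cons (P.lf 2865325 0 0) (P.cons (P.lf 0 866584 0) (P.cons (P.lf 48450 0 0) P.nil))) (P.cons (P.cons (P.lf 0 141292 0) (P.cons (P.lf 0 35578 0) P.nil)) (P.cons (P.cons (P.lf 0 37388 0) P.nil) P.nil)))))) 44981)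
 (EL.cons 5 (TM.mk (P.cons (P.cons (P.lf 59546932 0 0) (P.cons (P.lf 0 94098519 0) (P.cons (P.lf 27943422 0 0) (P.cons (P.lf 0 342598 0) (P.cons (P.lf 0 273907 0) (P.cons (P.lf 4459 0 0) P.nil)))))) (P.cons (P.cons (P.lf 37201085 0 0) (P.cons (P.lf 0 18191827 0) (P.cons (P.lf 5086401 0 0) (P.cons (P.lf 0 56169 0) (P.cons (P.lf 0 49672 0) P.nil))))) (P.cons (P.cons (P.lf 0 11617390 0) (P.cons (P.lf 3870299 0 0) (P.cons (P.lf 0 21731 0) (P.cons (P.lf 0 21798 0) P.nil)))) (P.cons (P.cons (P.lf 0 635226 0) (P.cons (P.lf 444633 0 0) (P.cons (P.lf 0 48587 0) P.nil))) (P.cons (P.cons (P.lf 260093 0 0) (P.cons (P.lf 0 35718 0) P.nil)) (P.cons (P.cons (P.lf 1638 0 0) P.nil) P.nil)))))) 44296)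
 (EL.cons 9 (TM.mk (P.cons (P.cons (P.lf 11406684 0 0) (P.cons (P.lf 0 27708903 0) (P.cons (P.lf 17268510 0 0) (P.cons (P.lf 0 388654 0) (P.cons (P.lf 0 174291 0) (P.cons (P.lf 2841 0 0) P.nil)))))) (P.cons (P.cons (P.lf 16931871 0 0) (P.cons (P.lf 0 24170569 0) (P.cons (P.lf 4763643 0 0) (P.cons (P.lf 0 11157 0) (P.cons (P.lf 0 45354 0) P.nil))))) (P.cons (P.cons (P.lf 4387195 0 0) (P.cons (P.lf 0 440037 0) (P.cons (P.lf 373587 0 0) (P.cons (P.lf 0 9334 0) P.nil)))) (P.cons (P.cons (P.lf 0 1499730 0) (P.cons (P.lf 372157 0 0) (P.cons (P.lf 0 7639 0) P.nil))) (P.cons (P.cons (P.lf 14121 0 0) (P.cons (P.lf 23473 0 0) P.nil)) (P.cons (P.cons (P.lf 10890 0 0) P.nil) P.nil)))))) 15848)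
 (EL.cons 2 (TM.mk (P.cons (P.cons (P.lf 85078996 0 0) (P.cons (P.lf 0 106489912 0) (P.cons (P.lf 3912558 0 0) (P.cons (P.lf 2399495 0 0) (P.cons (P.lf 0 64209 0) (P.cons (P.lf 0 14096 0) P.nil)))))) (P.cons (P.cons (P.lf 64700094 0 0) (P.cons (P.lf 0 17732671 0) (P.cons (P.lf 0 375896 0) (P.cons (P.lf 364741 0 0) (P.cons (P.lf 0 7357 0) P.nil))))) (P.cons (P.cons (P.lf 0 6626413 0) (P.cons (P.lf 610515 0 0) (P.cons (P.lf 102375 0 0) (P.cons (P.lf 0 9523 0) P.nil)))) (P.cons (P.cons (P.lf 0 1030803 0) (P.cons (P.lf 220522 0 0) (P.cons (P.lf 9270 0 0) P.nil))) (P.cons (P.cons (P.lf 45933 0 0) (P.cons (P.lf 6271 0 0) P.nil)) (P.cons (P.cons (P.lf 7751 0 0) P.nil) P.nil)))))) 13223)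
 (EL.cons 6 (TM.mk (P.cons (P.cons (P.lf 63738348 0 0) (P.cons (P.lf 0 79778694 0) (P.cons (P.lf 2931156 0 0) (P.cons (P.lf 1797618 0 0) (P.cons (P.lf 0 48102 0) (P.cons (P.lf 0 10560 0) P.nil)))))) (P.cons (P.cons (P.lf 55599180 0 0) (P.cons (P.lf 0 22206582 0) (P.cons (P.lf 46188 0 0) (P.cons (P.lf 474282 0 0) (P.cons (P.lf 0 10890 0) P.nil))))) (P.cons (P.cons (P.lf 1012212 0 0) (P.cons (P.lf 0 1724016 0) (P.cons (P.lf 70764 0 0) (P.cons (P.lf 39096 0 0) P.nil)))) (P.cons (P.cons (P.lf 0 856068 0) (P.cons (P.lf 39630 0 0) (P.cons (P.lf 15300 0 0) P.nil))) (P.cons (P.cons (P.lf 0 53988 0) (P.cons (P.lf 11700 0 0) P.nil)) (P.cons (P.cons (P.lf 2736 0 0) P.nil) P.nil)))))) 12060)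
 EL.nil))))))
noncomputable def S169_183_512_586_3 : EL := (EL.cons 0 (TM.mk (P.cons (P.lf 2342352752 0 0) (P.cons (P.lf 0 320722925 0) (P.cons (P.lf 970595 0 0) (P.cons (P.lf 761763 0 0) (P.cons (P.lf 15236 0 0) (P.cons (P.lf 0 715 0) P.nil)))))) 165)
 (EL.cons 1 (TM.mk (P.cons (P.lf 1754812605 0 0) (P.cons (P.lf 0 44029685 0) (P.cons (P.lf 0 10840057 0) (P.cons (P.lf 0 104334 0) (P.cons (P.lf 15399 0 0) (P.cons (P.lf 481 0 0) P.nil)))))) 128)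
 (EL.cons 5 (TM.mk (P.cons (P.lf 1314647110 0 0) (P.cons (P.lf 114034818 0 0) (P.cons (P.lf 0 345096 0) (P.cons (P.lf 0 270848 0) (P.cons (P.lf 0 5418 0) (P.cons (P.lf 254 0 0) P.nil)))))) 102)
 EL.nil)))
noncomputable def S169_183_512_586_4 : EL := (EL.cons 0 (TM.mk (P.cons (P.cons (P.lf 98561306 0 0) (P.cons (P.lf 0 119711634 0) (P.cons (P.lf 1905368 0 0) (P.lf 635120 0 0)))) (P.cons (P.cons (P.lf 59655941 0 0) (P.cons (P.lf 815326 0 0) (P.cons (P.lf 0 12977 0) (P.lf 0 4325 0)))) (P.cons (P.cons (P.lf 0 18167250 0) (P.cons (P.lf 1792478 0 0) (P.cons (P.lf 0 28529 0) (P.lf 0 9511 0)))) (P.cons (P.cons (P.lf 784701 0 0) (P.cons (P.lf 38329 0 0) (P.cons (P.lf 0 608 0) P.nil))) (P.cons (P.cons (P.lf 92663 0 0) (P.cons (P.lf 0 9840 0) P.nil)) (P.cons (P.cons (P.lf 0 3424 0) P.nil) P.nil)))))) 2414)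
 (EL.cons 1 (TM.mk (P.cons (P.cons (P.lf 73838844 0 0) (P.cons (P.lf 0 89683966 0) (P.cons (P.lf 1427437 0 0) (P.lf 475811 0 0)))) (P.cons (P.cons (P.lf 52949831 0 0) (P.cons (P.lf 0 9418773 0) (P.cons (P.lf 149910 0 0) (P.lf 49968 0 0)))) (P.cons (P.cons (P.lf 0 7968313 0) (P.cons (P.lf 629056 0 0) (P.cons (P.lf 0 10012 0) (P.lf 0 3337 0)))) (P.cons (P.cons (P.lf 0 488105 0) (P.cons (P.lf 115781 0 0) (P.cons (P.lf 0 1841 0) P.nil))) (P.cons (P.cons (P.lf 55503 0 0) (P.cons (P.lf 2026 0 0) P.nil)) (P.cons (P.cons (P.lf 3352 0 0) P.nil) P.nil)))))) 1783)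
 (EL.cons 5 (TM.mk (P.cons (P.cons (P.lf 55317602 0 0) (P.cons (P.lf 0 67188238 0) (P.cons (P.lf 1069388 0 0) (P.lf 356462 0 0)))) (P.cons (P.cons (P.lf 45854558 0 0) (P.cons (P.lf 0 14570064 0) (P.cons (P.lf 231900 0 0) (P.lf 77300 0 0)))) (P.cons (P.cons (P.lf 0 1050978 0) (P.cons (P.lf 0 903780 0) (P.cons (P.lf 14382 0 0) (P.lf 4792 0 0)))) (P.cons (P.cons (P.lf 0 645116 0) (P.cons (P.lf 26638 0 0) (P.cons (P.lf 0 422 0) P.nil))) (P.cons (P.cons (P.lf 0 17408 0) (P.cons (P.lf 5458 0 0) P.nil)) (P.cons (P.cons (P.lf 2390 0 0) P.nil) P.nil)))))) 1288)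
 EL.nil)))
noncomputable def S169_183_512_586_5 : EL := (EL.cons 0 (TM.mk (P.cons (P.cons (P.lf 4147252 0 0) (P.cons (P.lf 0 10074429 0) (P.cons (P.lf 6278501 0 0) (P.cons (P.lf 0 141307 0) (P.cons (P.lf 0 63367 0) (P.cons (P.lf 1031 0 0) P.nil)))))) (P.cons (P.cons (P.lf 5588249 0 0) (P.cons (P.lf 0 7408532 0) (P.cons (P.lf 872295 0 0) (P.cons (P.lf 15291 0 0) (P.cons (P.lf 0 7811 0) P.nil))))) (P.cons (P.cons (P.lf 753902 0 0) (P.cons (P.lf 1039113 0 0) (P.cons (P.lf 0 98715 0) (P.cons (P.lf 0 2896 0) P.nil)))) (P.cons (P.cons (P.lf 0 759779 0) (P.cons (P.lf 150296 0 0) (P.cons (P.lf 0 18615 0) P.nil))) (P.cons (P.cons (P.lf 82483 0 0) (P.cons (P.lf 0 12981 0) P.nil)) (P.cons (P.cons (P.lf 3587 0 0) P.nil) P.nil)))))) 12822)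
 (EL.cons 1 (TM.mk (P.cons (P.cons (P.lf 3106983 0 0) (P.cons (P.lf 0 7547426 0) (P.cons (P.lf 4703643 0 0) (P.cons (P.lf 0 105860 0) (P.cons (P.lf 0 47473 0) (P.cons (P.lf 772 0 0) P.nil)))))) (P.cons (P.cons (P.lf 4533991 0 0) (P.cons (P.lf 0 6394273 0) (P.cons (P.lf 1179513 0 0) (P.cons (P.lf 0 382 0) (P.cons (P.lf 0 11161 0) P.nil))))) (P.cons (P.cons (P.lf 1060085 0 0) (P.cons (P.lf 91951 0 0) (P.cons (P.lf 40145 0 0) (P.cons (P.lf 0 1811 0) P.nil)))) (P.cons (P.cons (P.lf 0 467156 0) (P.cons (P.lf 145492 0 0) (P.cons (P.lf 0 12928 0) P.nil))) (P.cons (P.cons (P.lf 6465 0 0) (P.cons (P.lf 4916 0 0) P.nil)) (P.cons (P.cons (P.lf 5362 0 0) P.nil) P.nil)))))) 9127)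
 (EL.cons 5 (TM.mk (P.cons (P.cons (P.lf 2327648 0 0) (P.cons (P.lf 0 5654280 0) (P.cons (P.lf 3523812 0 0) (P.cons (P.lf 0 79308 0) (P.cons (P.lf 0 35564 0) (P.cons (P.lf 578 0 0) P.nil)))))) (P.cons (P.cons (P.lf 3657022 0 0) (P.cons (P.lf 0 5422710 0) (P.cons (P.lf 1277730 0 0) (P.cons (P.lf 0 9156 0) (P.cons (P.lf 0 12338 0) P.nil))))) (P.cons (P.cons (P.lf 1194342 0 0) (P.cons (P.lf 0 516140 0) (P.cons (P.lf 159626 0 0) (P.cons (P.lf 0 2080 0) P.nil)))) (P.cons (P.cons (P.lf 0 229764 0) (P.cons (P.lf 70612 0 0) (P.cons (P.lf 4072 0 0) P.nil))) (P.cons (P.cons (P.lf 0 24620 0) (P.cons (P.lf 12440 0 0) P.nil)) (P.cons (P.cons (P.lf 2352 0 0) P.nil) P.nil)))))) 6332)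
 EL.nil)))
noncomputable def S169_183_512_586_6 : EL := (EL.cons 12 (TM.mk (P.lf 8589934592 0 0) 0)
 (EL.cons 3 (TM.mk (P.cons (P.lf 0 2242802763 0) (P.cons (P.lf 153546101 0 0) (P.cons (P.lf 4791341 0 0) (P.cons (P.lf 0 36671 0) (P.cons (P.lf 0 4687 0) (P.cons (P.lf 0 56 0) P.nil)))))) 59)
 (EL.cons 7 (TM.mk (P.cons (P.lf 0 1680233071 0) (P.cons (P.lf 0 72873196 0) (P.cons (P.lf 1800820 0 0) (P.cons (P.lf 94981 0 0) (P.cons (P.lf 308 0 0) (P.cons (P.lf 0 74 0) P.nil)))))) 48)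
 EL.nil)))
noncomputable def S169_183_512_586_7 : EL := (EL.cons 12 (TM.mk (P.cons (P.cons (P.lf 361446490 0 0) (P.cons (P.lf 0 439009504 0) (P.cons (P.lf 6987416 0 0) (P.lf 2329136 0 0)))) (P.cons (P.cons (P.lf 268262246 0 0) (P.cons (P.lf 0 57120688 0) (P.cons (P.lf 909144 0 0) (P.lf 303048 0 0)))) (P.cons (P.cons (P.lf 0 30041786 0) (P.cons (P.lf 0 1065824 0) (P.cons (P.lf 16960 0 0) (P.lf 5648 0 0)))) (P.cons (P.cons (P.lf 0 1464448 0) (P.cons (P.lf 161072 0 0) (P.cons (P.lf 0 2560 0) P.nil))) (P.cons (P.cons (P.lf 62160 0 0) (P.cons (P.lf 7840 0 0) P.nil)) (P.cons (P.cons (P.lf 4692 0 0) P.nil) P.nil)))))) 2246)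
 (EL.cons 3 (TM.mk (P.cons (P.cons (P.lf 1520590207 0 0) (P.cons (P.lf 0 229247782 0) (P.cons (P.lf 3648780 0 0) (P.lf 1216258 0 0)))) (P.cons (P.cons (P.lf 0 385993754 0) (P.cons (P.lf 0 14133340 0) (P.cons (P.lf 224944 0 0) (P.lf 74980 0 0)))) (P.cons (P.cons (P.lf 0 24128325 0) (P.cons (P.lf 1975258 0 0) (P.cons (P.lf 0 31440 0) (P.lf 0 10480 0)))) (P.cons (P.cons (P.lf 1231916 0 0) (P.cons (P.lf 182186 0 0) (P.cons (P.lf 0 2896 0) P.nil))) (P.cons (P.cons (P.lf 145390 0 0) (P.cons (P.lf 0 1440 0) P.nil)) (P.cons (P.cons (P.lf 757 0 0) P.nil) P.nil)))))) 6098)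
 (EL.cons 7 (TM.mk (P.cons (P.cons (P.lf 0 837164248 0) (P.cons (P.lf 249074387 0 0) (P.cons (P.lf 0 3964349 0) (P.lf 0 1321450 0)))) (P.cons (P.cons (P.lf 183193178 0 0) (P.cons (P.lf 6707707 0 0) (P.cons (P.lf 0 106764 0) (P.lf 0 35588 0)))) (P.cons (P.cons (P.lf 1207858 0 0) (P.cons (P.lf 0 1312525 0) (P.cons (P.lf 20888 0 0) (P.lf 6959 0 0)))) (P.cons (P.cons (P.lf 0 1207249 0) (P.cons (P.lf 0 8111 0) (P.cons (P.lf 129 0 0) P.nil))) (P.cons (P.cons (P.lf 0 7964 0) (P.cons (P.lf 5806 0 0) P.nil)) (P.cons (P.cons (P.lf 3848 0 0) P.nil) P.nil)))))) 4319)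
 (EL.cons 10 (TM.mk (P.cons (P.cons (P.lf 0 1936007415 0) (P.cons (P.lf 71765154 0 0) (P.cons (P.lf 35559891 0 0) (P.cons (P.lf 0 322683 0) (P.lf 0 80670 0))))) (P.cons (P.cons (P.lf 0 167932710 0) (P.cons (P.lf 6225036 0 0) (P.cons (P.lf 3084528 0 0) (P.cons (P.lf 0 27990 0) (P.lf 0 6996 0))))) (P.cons (P.cons (P.lf 508203 0 0) (P.cons (P.lf 0 18837 0) (P.cons (P.lf 0 9333 0) (P.cons (P.lf 84 0 0) P.nil)))) (P.cons (P.cons (P.lf 398862 0 0) (P.cons (P.lf 0 14784 0) (P.cons (P.lf 0 7326 0) P.nil))) (P.cons (P.cons (P.lf 7977 0 0) (P.cons (P.lf 0 294 0) P.nil)) (P.cons (P.cons (P.lf 0 372 0) P.nil) P.nil)))))) 537)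
 EL.nil))))
noncomputable def S169_183_512_586_8 : EL := (EL.cons 12 (TM.mk (P.cons (P.cons (P.lf 15208912 0 0) (P.cons (P.lf 0 36945204 0) (P.cons (P.lf 23024680 0 0) (P.cons (P.lf 0 518206 0) (P.cons (P.lf 0 232388 0) (P.cons (P.lf 3788 0 0) P.nil)))))) (P.cons (P.cons (P.lf 22575828 0 0) (P.cons (P.lf 0 32227426 0) (P.cons (P.lf 6351524 0 0) (P.cons (P.lf 0 14876 0) (P.cons (P.lf 0 60472 0) P.nil))))) (P.cons (P.cons (P.lf 5849594 0 0) (P.cons (P.lf 0 586716 0) (P.cons (P.lf 498116 0 0) (P.cons (P.lf 0 12446 0) P.nil)))) (P.cons (P.cons (P.lf 0 1999640 0) (P.cons (P.lf 496210 0 0) (P.cons (P.lf 0 10186 0) P.nil))) (P.cons (P.cons (P.lf 18828 0 0) (P.cons (P.lf 31298 0 0) P.nil)) (P.cons (P.cons (P.lf 14520 0 0) P.nil) P.nil)))))) 21102)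
 (EL.cons 3 (TM.mk (P.cons (P.cons (P.lf 131937507 0 0) (P.cons (P.lf 0 184365726 0) (P.cons (P.lf 32225087 0 0) (P.cons (P.lf 45744 0 0) (P.cons (P.lf 0 303375 0) (P.cons (P.lf 4946 0 0) P.nil)))))) (P.cons (P.cons (P.lf 68114552 0 0) (P.cons (P.lf 0 4030926 0) (P.cons (P.lf 5681037 0 0) (P.cons (P.lf 0 157412 0) (P.cons (P.lf 0 58176 0) P.nil))))) (P.cons (P.cons (P.lf 0 35660292 0) (P.cons (P.lf 8552890 0 0) (P.cons (P.lf 0 82434 0) (P.cons (P.lf 0 47088 0) P.nil)))) (P.cons (P.cons (P.lf 138854 0 0) (P.cons (P.lf 821379 0 0) (P.cons (P.lf 0 75545 0) P.nil))) (P.cons (P.cons (P.lf 449070 0 0) (P.cons (P.lf 0 38539 0) P.nil)) (P.cons (P.cons (P.lf 9434 0 0) P.nil) P.nil)))))) 52219)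
 (EL.cons 7 (TM.mk (P.cons (P.cons (P.lf 0 67477301 0) (P.cons (P.lf 99305025 0 0) (P.cons (P.lf 0 22650955 0) (P.cons (P.lf 143867 0 0) (P.cons (P.lf 218232 0 0) (P.cons (P.lf 0 3554 0) P.nil)))))) (P.cons (P.cons (P.lf 0 32327259 0) (P.cons (P.lf 1913088 0 0) (P.cons (P.lf 0 2696226 0) (P.cons (P.lf 74704 0 0) (P.cons (P.lf 27606 0 0) P.nil))))) (P.cons (P.cons (P.lf 18732045 0 0) (P.cons (P.lf 0 4166186 0) (P.cons (P.lf 189888 0 0) (P.cons (P.lf 18166 0 0) P.nil)))) (P.cons (P.cons (P.lf 0 1368493 0) (P.cons (P.lf 0 84782 0) (P.cons (P.lf 29533 0 0) P.nil))) (P.cons (P.cons (P.lf 0 173859 0) (P.cons (P.lf 43200 0 0) P.nil)) (P.cons (P.cons (P.lf 12949 0 0) P.nil) P.nil)))))) 25709)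
 (EL.cons 10 (TM.mk (P.cons (P.cons (P.lf 0 162926286 0) (P.cons (P.lf 203928192 0 0) (P.cons (P.lf 0 7492554 0) (P.cons (P.lf 0 4595034 0) (P.cons (P.lf 122958 0 0) (P.cons (P.lf 27000 0 0) P.nil)))))) (P.cons (P.cons (P.lf 0 135054900 0) (P.cons (P.lf 47919342 0 0) (P.cons (P.lf 206892 0 0) (P.cons (P.lf 0 1013070 0) (P.cons (P.lf 22506 0 0) P.nil))))) (P.cons (P.cons (P.lf 3095436 0 0) (P.cons (P.lf 2547150 0 0) (P.cons (P.lf 0 197892 0) (P.cons (P.lf 0 60924 0) P.nil)))) (P.cons (P.cons (P.lf 1900056 0 0) (P.cons (P.lf 0 148890 0) (P.cons (P.lf 0 30738 0) P.nil))) (P.cons (P.cons (P.lf 51264 0 0) (P.cons (P.lf 0 17976 0) P.nil)) (P.cons (P.cons (P.lf 0 7038 0) P.nil) P.nil)))))) 19914)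
 EL.nil))))
noncomputable def S169_183_512_586_9 : EL := (EL.cons 3 (TM.mk (P.cons (P.lf 0 2242802763 0) (P.cons (P.lf 153546101 0 0) (P.cons (P.lf 4791341 0 0) (P.cons (P.lf 0 36671 0) (P.cons (P.lf 0 4687 0) (P.cons (P.lf 0 56 0) P.nil)))))) 59)
 (EL.cons 7 (TM.mk (P.cons (P.lf 0 1680233071 0) (P.cons (P.lf 0 72873196 0) (P.cons (P.lf 1800820 0 0) (P.cons (P.lf 94981 0 0) (P.cons (P.lf 308 0 0) (P.cons (P.lf 0 74 0) P.nil)))))) 48)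
 EL.nil))
noncomputable def S169_183_512_586_10 : EL := (EL.cons 3 (TM.mk (P.cons (P.cons (P.lf 0 94372451 0) (P.cons (P.lf 114623891 0 0) (P.cons (P.lf 0 1824390 0) (P.lf 0 608129 0)))) (P.cons (P.cons (P.lf 0 63581462 0) (P.cons (P.lf 7066670 0 0) (P.cons (P.lf 0 112472 0) (P.lf 0 37490 0)))) (P.cons (P.cons (P.lf 12840636 0 0) (P.cons (P.lf 0 987629 0) (P.cons (P.lf 15720 0 0) (P.lf 5240 0 0)))) (P.cons (P.cons (P.lf 0 6547 0) (P.cons (P.lf 0 91093 0) (P.cons (P.lf 1448 0 0) P.nil))) (P.cons (P.cons (P.lf 0 60506 0) (P.cons (P.lf 720 0 0) P.nil)) (P.cons (P.cons (P.lf 0 950 0) P.nil) P.nil)))))) 1444)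
 (EL.cons 7 (TM.mk (P.cons (P.cons (P.lf 0 70700695 0) (P.cons (P.lf 85872398 0 0) (P.cons (P.lf 0 1366772 0) (P.lf 0 455590 0)))) (P.cons (P.cons (P.lf 0 55539754 0) (P.cons (P.lf 14897446 0 0) (P.cons (P.lf 0 237111 0) (P.lf 0 79037 0)))) (P.cons (P.cons (P.lf 3676276 0 0) (P.cons (P.lf 601031 0 0) (P.cons (P.lf 0 9565 0) (P.lf 0 3187 0)))) (P.cons (P.cons (P.lf 601550 0 0) (P.cons (P.lf 0 39293 0) (P.cons (P.lf 624 0 0) P.nil))) (P.cons (P.cons (P.lf 0 3053 0) (P.cons (P.lf 0 3770 0) P.nil)) (P.cons (P.cons (P.lf 0 2077 0) P.nil) P.nil)))))) 859)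
 EL.nil))
noncomputable def S169_183_512_586_11 : EL := (EL.cons 3 (TM.mk (P.cons (P.cons (P.lf 0 3970995 0) (P.cons (P.lf 9646266 0 0) (P.cons (P.lf 0 6011665 0) (P.cons (P.lf 135300 0 0) (P.cons (P.lf 60675 0 0) (P.cons (P.lf 0 988 0) P.nil)))))) (P.cons (P.cons (P.lf 0 5622610 0) (P.cons (P.lf 7754070 0 0) (P.cons (P.lf 0 1246791 0) (P.cons (P.lf 0 5378 0) (P.cons (P.lf 11634 0 0) P.nil))))) (P.cons (P.cons (P.lf 0 1115280 0) (P.cons (P.lf 0 443486 0) (P.cons (P.lf 0 3678 0) (P.cons (P.lf 2694 0 0) P.nil)))) (P.cons (P.cons (P.lf 639188 0 0) (P.cons (P.lf 0 157863 0) (P.cons (P.lf 15007 0 0) P.nil))) (P.cons (P.cons (P.lf 0 37500 0) (P.cons (P.lf 527 0 0) P.nil)) (P.cons (P.cons (P.lf 0 4606 0) P.nil) P.nil)))))) 9177)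
 (EL.cons 7 (TM.mk (P.cons (P.cons (P.lf 0 2974937 0) (P.cons (P.lf 7226661 0 0) (P.cons (P.lf 0 4503739 0) (P.cons (P.lf 101363 0 0) (P.cons (P.lf 45456 0 0) (P.cons (P.lf 0 740 0) P.nil)))))) (P.cons (P.cons (P.lf 0 4544967 0) (P.cons (P.lf 6617268 0 0) (P.cons (P.lf 0 1437720 0) (P.cons (P.lf 7306 0 0) (P.cons (P.lf 13800 0 0) P.nil))))) (P.cons (P.cons (P.lf 0 1332543 0) (P.cons (P.lf 380422 0 0) (P.cons (P.lf 0 146490 0) (P.cons (P.lf 2452 0 0) P.nil)))) (P.cons (P.cons (P.lf 346415 0 0) (P.cons (P.lf 0 99248 0) (P.cons (P.lf 0 647 0) P.nil))) (P.cons (P.cons (P.lf 14757 0 0) (P.cons (P.lf 0 10812 0) P.nil)) (P.cons (P.cons (P.lf 0 3353 0) P.nil) P.nil)))))) 5875)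
 EL.nil))
noncomputable def S169_183_512_586_12 : EL := (EL.cons 4 (TM.mk (P.cons (P.lf 2242802763 0 0) (P.cons (P.lf 0 153546101 0) (P.cons (P.lf 0 4791341 0) (P.cons (P.lf 36671 0 0) (P.cons (P.lf 4687 0 0) (P.cons (P.lf 56 0 0) P.nil)))))) 59)
 (EL.cons 8 (TM.mk (P.cons (P.lf 1680233071 0 0) (P.cons (P.lf 72873196 0 0) (P.cons (P.lf 0 1800820 0) (P.cons (P.lf 0 94981 0) (P.cons (P.lf 0 308 0) (P.cons (P.lf 74 0 0) P.nil)))))) 48)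
 EL.nil))
noncomputable def S169_183_512_586_13 : EL := (EL.cons 4 (TM.mk (P.cons (P.cons (P.lf 94372451 0 0) (P.cons (P.lf 0 114623891 0) (P.cons (P.lf 1824390 0 0) (P.lf 608129 0 0)))) (P.cons (P.cons (P.lf 63581462 0 0) (P.cons (P.lf 0 7066670 0) (P.cons (P.lf 112472 0 0) (P.lf 37490 0 0)))) (P.cons (P.cons (P.lf 0 12840636 0) (P.cons (P.lf 987629 0 0) (P.cons (P.lf 0 15720 0) (P.lf 0 5240 0)))) (P.cons (P.cons (P.lf 6547 0 0) (P.cons (P.lf 91093 0 0) (P.cons (P.lf 0 1448 0) P.nil))) (P.cons (P.cons (P.lf 60506 0 0) (P.cons (P.lf 0 720 0) P.nil)) (P.cons (P.cons (P.lf 950 0 0) P.nil) P.nil)))))) 1444)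
 (EL.cons 8 (TM.mk (P.cons (P.cons (P.lf 70700695 0 0) (P.cons (P.lf 0 85872398 0) (P.cons (P.lf 1366772 0 0) (P.lf 455590 0 0)))) (P.cons (P.cons (P.lf 55539754 0 0) (P.cons (P.lf 0 14897446 0) (P.cons (P.lf 237111 0 0) (P.lf 79037 0 0)))) (P.cons (P.cons (P.lf 0 3676276 0) (P.cons (P.lf 0 601031 0) (P.cons (P.lf 9565 0 0) (P.lf 3187 0 0)))) (P.cons (P.cons (P.lf 0 601550 0) (P.cons (P.lf 39293 0 0) (P.cons (P.lf 0 624 0) P.nil))) (P.cons (P.cons (P.lf 3053 0 0) (P.cons (P.lf 3770 0 0) P.nil)) (P.cons (P.cons (P.lf 2077 0 0) P.nil) P.nil)))))) 859)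
 EL.nil))
noncomputable def S169_183_512_586_14 : EL := (EL.cons 4 (TM.mk (P.cons (P.cons (P.lf 3970995 0 0) (P.cons (P.lf 0 9646266 0) (P.cons (P.lf 6011665 0 0) (P.cons (P.lf 0 135300 0) (P.cons (P.lf 0 60675 0) (P.cons (P.lf 988 0 0) P.nil)))))) (P.cons (P.cons (P.lf 5622610 0 0) (P.cons (P.lf 0 7754070 0) (P.cons (P.lf 1246791 0 0) (P.cons (P.lf 5378 0 0) (P.cons (P.lf 0 11634 0) P.nil))))) (P.cons (P.cons (P.lf 1115280 0 0) (P.cons (P.lf 443486 0 0) (P.cons (P.lf 3678 0 0) (P.cons (P.lf 0 2694 0) P.nil)))) (P.cons (P.cons (P.lf 0 639188 0) (P.cons (P.lf 157863 0 0) (P.cons (P.lf 0 15007 0) P.nil))) (P.cons (P.cons (P.lf 37500 0 0) (P.cons (P.lf 0 527 0) P.nil)) (P.cons (P.cons (P.lf 4606 0 0) P.nil) P.nil)))))) 9177)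
 (EL.cons 8 (TM.mk (P.cons (P.cons (P.lf 2974937 0 0) (P.cons (P.lf 0 7226661 0) (P.cons (P.lf 4503739 0 0) (P.cons (P.lf 0 101363 0) (P.cons (P.lf 0 45456 0) (P.cons (P.lf 740 0 0) P.nil)))))) (P.cons (P.cons (P.lf 4544967 0 0) (P.cons (P.lf 0 6617268 0) (P.cons (P.lf 1437720 0 0) (P.cons (P.lf 0 7306 0) (P.cons (P.lf 0 13800 0) P.nil))))) (P.cons (P.cons (P.lf 1332543 0 0) (P.cons (P.lf 0 380422 0) (P.cons (P.lf 146490 0 0) (P.cons (P.lf 0 2452 0) P.nil)))) (P.cons (P.cons (P.lf 0 346415 0) (P.cons (P.lf 99248 0 0) (P.cons (P.lf 647 0 0) P.nil))) (P.cons (P.cons (P.lf 0 14757 0) (P.cons (P.lf 10812 0 0) P.nil)) (P.cons (P.cons (P.lf 3353 0 0) P.nil) P.nil)))))) 5875)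
 EL.nil))
noncomputable def S169_183_512_586_15 : EL := (EL.cons 4 (TM.mk (P.cons (P.lf 0 1249254801 0) (P.cons (P.lf 171052227 0 0) (P.cons (P.lf 0 517650 0) (P.cons (P.lf 0 406274 0) (P.cons (P.lf 0 8126 0) (P.cons (P.lf 381 0 0) P.nil)))))) 91)
 (EL.cons 8 (TM.mk (P.cons (P.lf 0 935900056 0) (P.cons (P.lf 23482499 0 0) (P.cons (P.lf 5781364 0 0) (P.cons (P.lf 55645 0 0) (P.cons (P.lf 0 8213 0) (P.cons (P.lf 0 257 0) P.nil)))))) 65)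
 EL.nil))
noncomputable def S169_183_512_586_16 : EL := (EL.cons 4 (TM.mk (P.cons (P.cons (P.lf 0 52566030 0) (P.cons (P.lf 63846205 0 0) (P.cons (P.lf 0 1016196 0) (P.lf 0 338730 0)))) (P.cons (P.cons (P.lf 0 31816501 0) (P.cons (P.lf 0 434840 0) (P.cons (P.lf 6921 0 0) (P.lf 2307 0 0)))) (P.cons (P.cons (P.lf 9689200 0 0) (P.cons (P.lf 0 955988 0) (P.cons (P.lf 15215 0 0) (P.lf 5072 0 0)))) (P.cons (P.cons (P.lf 0 418507 0) (P.cons (P.lf 0 20442 0) (P.cons (P.lf 324 0 0) P.nil))) (P.cons (P.cons (P.lf 0 49420 0) (P.cons (P.lf 5248 0 0) P.nil)) (P.cons (P.cons (P.lf 1826 0 0) P.nil) P.nil)))))) 1296)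
 (EL.cons 8 (TM.mk (P.cons (P.cons (P.lf 0 39380717 0) (P.cons (P.lf 47831449 0 0) (P.cons (P.lf 0 761300 0) (P.lf 0 253766 0)))) (P.cons (P.cons (P.lf 0 28239910 0) (P.cons (P.lf 5023346 0 0) (P.cons (P.lf 0 79952 0) (P.lf 0 26650 0)))) (P.cons (P.cons (P.lf 4249767 0 0) (P.cons (P.lf 0 335497 0) (P.cons (P.lf 5340 0 0) (P.lf 1780 0 0)))) (P.cons (P.cons (P.lf 260323 0 0) (P.cons (P.lf 0 61750 0) (P.cons (P.lf 982 0 0) P.nil))) (P.cons (P.cons (P.lf 0 29602 0) (P.cons (P.lf 0 1081 0) P.nil)) (P.cons (P.cons (P.lf 0 1788 0) P.nil) P.nil)))))) 941)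
 EL.nil))
noncomputable def S169_183_512_586_17 : EL := (EL.cons 4 (TM.mk (P.cons (P.cons (P.lf 0 2211868 0) (P.cons (P.lf 5373029 0 0) (P.cons (P.lf 0 3348534 0) (P.cons (P.lf 75363 0 0) (P.cons (P.lf 33795 0 0) (P.cons (P.lf 0 550 0) P.nil)))))) (P.cons (P.cons (P.lf 0 2980399 0) (P.cons (P.lf 3951217 0 0) (P.cons (P.lf 0 465224 0) (P.cons (P.lf 0 8155 0) (P.cons (P.lf 4166 0 0) P.nil))))) (P.cons (P.cons (P.lf 0 402081 0) (P.cons (P.lf 0 554193 0) (P.cons (P.lf 52648 0 0) (P.cons (P.lf 1545 0 0) P.nil)))) (P.cons (P.cons (P.lf 405215 0 0) (P.cons (P.lf 0 80158 0) (P.cons (P.lf 9928 0 0) P.nil))) (P.cons (P.cons (P.lf 0 43991 0) (P.cons (P.lf 6923 0 0) P.nil)) (P.cons (P.cons (P.lf 0 1913 0) P.nil) P.nil)))))) 6848)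
 (EL.cons 8 (TM.mk (P.cons (P.cons (P.lf 0 1657058 0) (P.cons (P.lf 4025294 0 0) (P.cons (P.lf 0 2508610 0) (P.cons (P.lf 56459 0 0) (P.cons (P.lf 25319 0 0) (P.cons (P.lf 0 412 0) P.nil)))))) (P.cons (P.cons (P.lf 0 2418129 0) (P.cons (P.lf 3410279 0 0) (P.cons (P.lf 0 629074 0) (P.cons (P.lf 204 0 0) (P.cons (P.lf 5953 0 0) P.nil))))) (P.cons (P.cons (P.lf 0 565379 0) (P.cons (P.lf 0 49041 0) (P.cons (P.lf 0 21411 0) (P.cons (P.lf 966 0 0) P.nil)))) (P.cons (P.cons (P.lf 249150 0 0) (P.cons (P.lf 0 77596 0) (P.cons (P.lf 6895 0 0) P.nil))) (P.cons (P.cons (P.lf 0 3448 0) (P.cons (P.lf 0 2622 0) P.nil)) (P.cons (P.cons (P.lf 0 2860 0) P.nil) P.nil)))))) 4856)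
 EL.nil))
noncomputable def S169_183_512_586_18 : EL := (EL.cons 4 (TM.mk (P.cons (P.lf 695842534 0 0) (P.cons (P.lf 0 142915698 0) (P.cons (P.lf 5324627 0 0) (P.cons (P.lf 421476 0 0) (P.cons (P.lf 0 11685 0) (P.cons (P.lf 0 1182 0) P.nil)))))) 113)
 (EL.cons 8 (TM.mk (P.cons (P.lf 521302032 0 0) (P.cons (P.lf 0 48769121 0) (P.cons (P.lf 0 3438450 0) (P.cons (P.lf 225935 0 0) (P.cons (P.lf 14451 0 0) (P.cons (P.lf 0 170 0) P.nil)))))) 84)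
 EL.nil))
noncomputable def S169_183_512_586_19 : EL := (EL.cons 4 (TM.mk (P.cons (P.cons (P.lf 29279598 0 0) (P.cons (P.lf 0 35562724 0) (P.cons (P.lf 566026 0 0) (P.lf 188675 0 0)))) (P.cons (P.cons (P.lf 15717453 0 0) (P.cons (P.lf 2676893 0 0) (P.cons (P.lf 0 42606 0) (P.lf 0 14202 0)))) (P.cons (P.cons (P.lf 0 6672770 0) (P.cons (P.lf 591882 0 0) (P.cons (P.lf 0 9420 0) (P.lf 0 3140 0)))) (P.cons (P.cons (P.lf 565214 0 0) (P.cons (P.lf 0 26166 0) (P.cons (P.lf 416 0 0) P.nil))) (P.cons (P.cons (P.lf 23448 0 0) (P.cons (P.lf 0 4910 0) P.nil)) (P.cons (P.cons (P.lf 0 3450 0) P.nil) P.nil)))))) 1524)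
 (EL.cons 8 (TM.mk (P.cons (P.cons (P.lf 21935299 0 0) (P.cons (P.lf 0 26642408 0) (P.cons (P.lf 424049 0 0) (P.lf 141349 0 0)))) (P.cons (P.cons (P.lf 14228074 0 0) (P.cons (P.lf 0 974050 0) (P.cons (P.lf 15503 0 0) (P.lf 5167 0 0)))) (P.cons (P.cons (P.lf 0 3490896 0) (P.cons (P.lf 435349 0 0) (P.cons (P.lf 0 6929 0) (P.lf 0 2310 0)))) (P.cons (P.cons (P.lf 0 16187 0) (P.cons (P.lf 27143 0 0) (P.cons (P.lf 0 431 0) P.nil))) (P.cons (P.cons (P.lf 31775 0 0) (P.cons (P.lf 0 2252 0) P.nil)) (P.cons (P.cons (P.lf 172 0 0) P.nil) P.nil)))))) 894)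
 EL.nil))
noncomputable def S169_183_512_586_20 : EL := (EL.cons 4 (TM.mk (P.cons (P.cons (P.lf 1232024 0 0) (P.cons (P.lf 0 2992809 0) (P.cons (P.lf 1865153 0 0) (P.cons (P.lf 0 41977 0) (P.cons (P.lf 0 18824 0) (P.cons (P.lf 306 0 0) P.nil)))))) (P.cons (P.cons (P.lf 1575753 0 0) (P.cons (P.lf 0 1995959 0) (P.cons (P.lf 131441 0 0) (P.cons (P.lf 7416 0 0) (P.cons (P.lf 0 1032 0) P.nil))))) (P.cons (P.cons (P.lf 107676 0 0) (P.cons (P.lf 465756 0 0) (P.cons (P.lf 0 51050 0) (P.cons (P.lf 0 1081 0) P.nil)))) (P.cons (P.cons (P.lf 0 244566 0) (P.cons (P.lf 28168 0 0) (P.cons (P.lf 0 4045 0) P.nil))) (P.cons (P.cons (P.lf 39507 0 0) (P.cons (P.lf 0 7614 0) P.nil)) (P.cons (P.cons (P.lf 0 121 0) P.nil) P.nil)))))) 5838)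
 (EL.cons 8 (TM.mk (P.cons (P.cons (P.lf 922991 0 0) (P.cons (P.lf 0 2242113 0) (P.cons (P.lf 1397311 0 0) (P.cons (P.lf 0 31448 0) (P.cons (P.lf 0 14102 0) (P.cons (P.lf 229 0 0) P.nil)))))) (P.cons (P.cons (P.lf 1283723 0 0) (P.cons (P.lf 0 1746047 0) (P.cons (P.lf 254736 0 0) (P.cons (P.lf 2039 0 0) (P.cons (P.lf 0 2350 0) P.nil))))) (P.cons (P.cons (P.lf 220735 0 0) (P.cons (P.lf 162152 0 0) (P.cons (P.lf 0 15047 0) (P.cons (P.lf 0 463 0) P.nil)))) (P.cons (P.cons (P.lf 0 163200 0) (P.cons (P.lf 45373 0 0) (P.cons (P.lf 0 5382 0) P.nil))) (P.cons (P.cons (P.lf 10773 0 0) (P.cons (P.lf 0 1592 0) P.nil)) (P.cons (P.cons (P.lf 1766 0 0) P.nil) P.nil)))))) 3601)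
 EL.nil))
noncomputable def S169_183_512_586_21 : EL := (EL.cons 4 (TM.mk (P.cons (P.cons (P.lf 0 1614962658 0) (P.cons (P.lf 343871673 0 0) (P.cons (P.lf 0 5473170 0) (P.lf 0 1824387 0)))) (P.cons (P.cons (P.lf 322412292 0 0) (P.cons (P.lf 21200010 0 0) (P.cons (P.lf 0 337416 0) (P.lf 0 112470 0)))) (P.cons (P.cons (P.lf 36968961 0 0) (P.cons (P.lf 0 2962887 0) (P.cons (P.lf 47160 0 0) (P.lf 15720 0 0)))) (P.cons (P.cons (P.lf 0 1238463 0) (P.cons (P.lf 0 273279 0) (P.cons (P.lf 4344 0 0) P.nil))) (P.cons (P.cons (P.lf 0 205896 0) (P.cons (P.lf 2160 0 0) P.nil)) (P.cons (P.cons (P.lf 0 1707 0) P.nil) P.nil)))))) 4635)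
 (EL.cons 8 (TM.mk (P.cons (P.cons (P.lf 766463553 0 0) (P.cons (P.lf 0 163201989 0) (P.cons (P.lf 2597577 0 0) (P.lf 865860 0 0)))) (P.cons (P.cons (P.lf 0 238732932 0) (P.cons (P.lf 8189739 0 0) (P.cons (P.lf 0 130347 0) (P.lf 0 43449 0)))) (P.cons (P.cons (P.lf 2468418 0 0) (P.cons (P.lf 1913556 0 0) (P.cons (P.lf 0 30453 0) (P.lf 0 10146 0)))) (P.cons (P.cons (P.lf 1808799 0 0) (P.cons (P.lf 0 31182 0) (P.cons (P.lf 495 0 0) P.nil))) (P.cons (P.cons (P.lf 4911 0 0) (P.cons (P.lf 0 9576 0) P.nil)) (P.cons (P.cons (P.lf 0 5925 0) P.nil) P.nil)))))) 3441)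
 (EL.cons 11 (TM.mk (P.cons (P.cons (P.lf 1936007415 0 0) (P.cons (P.lf 0 71765154 0) (P.cons (P.lf 0 35559891 0) (P.cons (P.lf 322683 0 0) (P.lf 80670 0 0))))) (P.cons (P.cons (P.lf 167932710 0 0) (P.cons (P.lf 0 6225036 0) (P.cons (P.lf 0 3084528 0) (P.cons (P.lf 27990 0 0) (P.lf 6996 0 0))))) (P.cons (P.cons (P.lf 0 508203 0) (P.cons (P.lf 18837 0 0) (P.cons (P.lf 9333 0 0) (P.cons (P.lf 0 84 0) P.nil)))) (P.cons (P.cons (P.lf 0 398862 0) (P.cons (P.lf 14784 0 0) (P.cons (P.lf 7326 0 0) P.nil))) (P.cons (P.cons (P.lf 0 7977 0) (P.cons (P.lf 294 0 0) P.nil)) (P.cons (P.cons (P.lf 372 0 0) P.nil) P.nil)))))) 537)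
 EL.nil)))
noncomputable def S169_183_512_586_22 : EL := (EL.cons 4 (TM.mk (P.cons (P.cons (P.lf 0 67954251 0) (P.cons (P.lf 97005996 0 0) (P.cons (P.lf 0 19118376 0) (P.cons (P.lf 44778 0 0) (P.cons (P.lf 182025 0 0) (P.cons (P.lf 0 2967 0) P.nil)))))) (P.cons (P.cons (P.lf 0 36868581 0) (P.cons (P.lf 5892498 0 0) (P.cons (P.lf 0 3463914 0) (P.cons (P.lf 76017 0 0) (P.cons (P.lf 34905 0 0) P.nil))))) (P.cons (P.cons (P.lf 17272506 0 0) (P.cons (P.lf 0 4498188 0) (P.cons (P.lf 39378 0 0) (P.cons (P.lf 24891 0 0) P.nil)))) (P.cons (P.cons (P.lf 250167 0 0) (P.cons (P.lf 0 489621 0) (P.cons (P.lf 45276 0 0) P.nil))) (P.cons (P.cons (P.lf 0 243285 0) (P.cons (P.lf 19533 0 0) P.nil)) (P.cons (P.cons (P.lf 0 7020 0) P.nil) P.nil)))))) 21510)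
 (EL.cons 8 (TM.mk (P.cons (P.cons (P.lf 32251182 0 0) (P.cons (P.lf 0 46039182 0) (P.cons (P.lf 9073608 0 0) (P.cons (P.lf 0 21252 0) (P.cons (P.lf 0 86388 0) (P.cons (P.lf 1407 0 0) P.nil)))))) (P.cons (P.cons (P.lf 13891146 0 0) (P.cons (P.lf 2352090 0 0) (P.cons (P.lf 629253 0 0) (P.cons (P.lf 0 33699 0) (P.cons (P.lf 0 6903 0) P.nil))))) (P.cons (P.cons (P.lf 0 10032294 0) (P.cons (P.lf 2273304 0 0) (P.cons (P.lf 0 168189 0) (P.cons (P.lf 0 7857 0) P.nil)))) (P.cons (P.cons (P.lf 857454 0 0) (P.cons (P.lf 0 7233 0) (P.cons (P.lf 0 15090 0) P.nil))) (P.cons (P.cons (P.lf 94308 0 0) (P.cons (P.lf 0 27006 0) P.nil)) (P.cons (P.cons (P.lf 0 8151 0) P.nil) P.nil)))))) 9906)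
 (EL.cons 11 (TM.mk (P.cons (P.cons (P.lf 81463143 0 0) (P.cons (P.lf 0 101964096 0) (P.cons (P.lf 3746277 0 0) (P.cons (P.lf 2297517 0 0) (P.cons (P.lf 0 61479 0) (P.cons (P.lf 0 13500 0) P.nil)))))) (P.cons (P.cons (P.lf 67527450 0 0) (P.cons (P.lf 0 23959671 0) (P.cons (P.lf 0 103446 0) (P.cons (P.lf 506535 0 0) (P.cons (P.lf 0 11253 0) P.nil))))) (P.cons (P.cons (P.lf 0 1547718 0) (P.cons (P.lf 0 1273575 0) (P.cons (P.lf 98946 0 0) (P.cons (P.lf 30462 0 0) P.nil)))) (P.cons (P.cons (P.lf 0 950028 0) (P.cons (P.lf 74445 0 0) (P.cons (P.lf 15369 0 0) P.nil))) (P.cons (P.cons (P.lf 0 25632 0) (P.cons (P.lf 8988 0 0) P.nil)) (P.cons (P.cons (P.lf 3519 0 0) P.nil) P.nil)))))) 9957)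
 EL.nil)))
noncomputable def S169_183_512_586_23 : EL := (EL.cons 4 (TM.mk (P.cons (P.cons (P.lf 899544036 0 0) (P.cons (P.lf 0 191538615 0) (P.cons (P.lf 3048588 0 0) (P.lf 1016193 0 0)))) (P.cons (P.cons (P.lf 0 241169928 0) (P.cons (P.lf 1304523 0 0) (P.cons (P.lf 0 20766 0) (P.lf 0 6921 0)))) (P.cons (P.cons (P.lf 0 10218912 0) (P.cons (P.lf 2867964 0 0) (P.cons (P.lf 0 45648 0) (P.lf 0 15213 0)))) (P.cons (P.cons (P.lf 2497950 0 0) (P.cons (P.lf 61326 0 0) (P.cons (P.lf 0 972 0) P.nil))) (P.cons (P.cons (P.lf 110391 0 0) (P.cons (P.lf 0 15741 0) P.nil)) (P.cons (P.cons (P.lf 0 9063 0) P.nil) P.nil)))))) 4707)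
 (EL.cons 8 (TM.mk (P.cons (P.cons (P.lf 0 426924867 0) (P.cons (P.lf 90904500 0 0) (P.cons (P.lf 0 1446864 0) (P.lf 0 482289 0)))) (P.cons (P.cons (P.lf 162203700 0 0) (P.cons (P.lf 0 10785210 0) (P.cons (P.lf 171657 0 0) (P.lf 57219 0 0)))) (P.cons (P.cons (P.lf 0 9566619 0) (P.cons (P.lf 0 947757 0) (P.cons (P.lf 15081 0 0) (P.lf 5022 0 0)))) (P.cons (P.cons (P.lf 0 1204440 0) (P.cons (P.lf 101568 0 0) (P.cons (P.lf 0 1614 0) P.nil))) (P.cons (P.cons (P.lf 70458 0 0) (P.cons (P.lf 6537 0 0) P.nil)) (P.cons (P.cons (P.lf 5883 0 0) P.nil) P.nil)))))) 3354)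
 (EL.cons 11 (TM.mk (P.cons (P.cons (P.lf 0 1078367922 0) (P.cons (P.lf 39973626 0 0) (P.cons (P.lf 19807074 0 0) (P.cons (P.lf 0 179736 0) (P.lf 0 44931 0))))) (P.cons (P.cons (P.lf 0 19712634 0) (P.cons (P.lf 730719 0 0) (P.cons (P.lf 362073 0 0) (P.cons (P.lf 0 3285 0) (P.lf 0 819 0))))) (P.cons (P.cons (P.lf 8990685 0 0) (P.cons (P.lf 0 333270 0) (P.cons (P.lf 0 165135 0) (P.cons (P.lf 1497 0 0) P.nil)))) (P.cons (P.cons (P.lf 384987 0 0) (P.cons (P.lf 0 14268 0) (P.cons (P.lf 0 7071 0) P.nil))) (P.cons (P.cons (P.lf 0 15153 0) (P.cons (P.lf 561 0 0) P.nil)) (P.cons (P.cons (P.lf 0 1203 0) P.nil) P.nil)))))) 1266)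
 EL.nil)))
noncomputable def S169_183_512_586_24 : EL := (EL.cons 4 (TM.mk (P.cons (P.cons (P.lf 37850931 0 0) (P.cons (P.lf 0 54032928 0) (P.cons (P.lf 10649052 0 0) (P.cons (P.lf 0 24942 0) (P.cons (P.lf 0 101388 0) (P.cons (P.lf 1653 0 0) P.nil)))))) (P.cons (P.cons (P.lf 17944686 0 0) (P.cons (P.lf 417027 0 0) (P.cons (P.lf 1200369 0 0) (P.cons (P.lf 0 40632 0) (P.cons (P.lf 0 12501 0) P.nil))))) (P.cons (P.cons (P.lf 0 11107683 0) (P.cons (P.lf 2845650 0 0) (P.cons (P.lf 0 176775 0) (P.cons (P.lf 0 10911 0) P.nil)))) (P.cons (P.cons (P.lf 476064 0 0) (P.cons (P.lf 107316 0 0) (P.cons (P.lf 0 27666 0) P.nil))) (P.cons (P.cons (P.lf 166017 0 0) (P.cons (P.lf 0 35070 0) P.nil)) (P.cons (P.cons (P.lf 0 5181 0) P.nil) P.nil)))))) 13992)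
 (EL.cons 8 (TM.mk (P.cons (P.cons (P.lf 0 17964105 0) (P.cons (P.lf 25644105 0 0) (P.cons (P.lf 0 5054055 0) (P.cons (P.lf 11838 0 0) (P.cons (P.lf 48120 0 0) (P.cons (P.lf 0 783 0) P.nil)))))) (P.cons (P.cons (P.lf 0 6507600 0) (P.cons (P.lf 0 3065769 0) (P.cons (P.lf 0 4488 0) (P.cons (P.lf 17961 0 0) (P.cons (P.lf 549 0 0) P.nil))))) (P.cons (P.cons (P.lf 6156144 0 0) (P.cons (P.lf 0 1231332 0) (P.cons (P.lf 128475 0 0) (P.cons (P.lf 3066 0 0) P.nil)))) (P.cons (P.cons (P.lf 0 843939 0) (P.cons (P.lf 93936 0 0) (P.cons (P.lf 2658 0 0) P.nil))) (P.cons (P.cons (P.lf 0 31932 0) (P.cons (P.lf 17505 0 0) P.nil)) (P.cons (P.cons (P.lf 9231 0 0) P.nil) P.nil)))))) 6489)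
 (EL.cons 11 (TM.mk (P.cons (P.cons (P.lf 0 45375465 0) (P.cons (P.lf 56794620 0 0) (P.cons (P.lf 0 2086698 0) (P.cons (P.lf 0 1279731 0) (P.cons (P.lf 34245 0 0) (P.cons (P.lf 7518 0 0) P.nil)))))) (P.cons (P.cons (P.lf 0 34506717 0) (P.cons (P.lf 9457425 0 0) (P.cons (P.lf 200478 0 0) (P.cons (P.lf 0 194529 0) (P.cons (P.lf 3924 0 0) P.nil))))) (P.cons (P.cons (P.lf 3534087 0 0) (P.cons (P.lf 0 325608 0) (P.cons (P.lf 0 54600 0) (P.cons (P.lf 5079 0 0) P.nil)))) (P.cons (P.cons (P.lf 549762 0 0) (P.cons (P.lf 0 117612 0) (P.cons (P.lf 0 4944 0) P.nil))) (P.cons (P.cons (P.lf 0 24498 0) (P.cons (P.lf 0 3345 0) P.nil)) (P.cons (P.cons (P.lf 0 4134 0) P.nil) P.nil)))))) 7041)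
 EL.nil)))
noncomputable def S169_183_512_586_25 : EL := (EL.cons 4 (TM.mk (P.cons (P.cons (P.lf 0 501051507 0) (P.cons (P.lf 106688175 0 0) (P.cons (P.lf 0 1698081 0) (P.lf 0 566025 0)))) (P.cons (P.cons (P.lf 168635958 0 0) (P.cons (P.lf 0 8030682 0) (P.cons (P.lf 127821 0 0) (P.lf 42606 0 0)))) (P.cons (P.cons (P.lf 0 2434272 0) (P.cons (P.lf 0 1775646 0) (P.cons (P.lf 28260 0 0) (P.lf 9420 0 0)))) (P.cons (P.cons (P.lf 0 2076228 0) (P.cons (P.lf 78501 0 0) (P.cons (P.lf 0 1251 0) P.nil))) (P.cons (P.cons (P.lf 22755 0 0) (P.cons (P.lf 14730 0 0) P.nil)) (P.cons (P.cons (P.lf 12591 0 0) P.nil) P.nil)))))) 3765)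
 (EL.cons 8 (TM.mk (P.cons (P.cons (P.lf 237799752 0 0) (P.cons (P.lf 0 50634360 0) (P.cons (P.lf 805911 0 0) (P.lf 268638 0 0)))) (P.cons (P.cons (P.lf 0 106628625 0) (P.cons (P.lf 9473943 0 0) (P.cons (P.lf 0 150789 0) (P.lf 0 50262 0)))) (P.cons (P.cons (P.lf 11006058 0 0) (P.cons (P.lf 224799 0 0) (P.cons (P.lf 0 3576 0) (P.lf 0 1188 0)))) (P.cons (P.cons (P.lf 502971 0 0) (P.cons (P.lf 0 106377 0) (P.cons (P.lf 1692 0 0) P.nil))) (P.cons (P.cons (P.lf 0 97539 0) (P.cons (P.lf 0 903 0) P.nil)) (P.cons (P.cons (P.lf 0 2118 0) P.nil) P.nil)))))) 2988)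
 (EL.cons 11 (TM.mk (P.cons (P.cons (P.lf 600657501 0 0) (P.cons (P.lf 0 22265553 0) (P.cons (P.lf 0 11032659 0) (P.cons (P.lf 100113 0 0) (P.lf 25026 0 0))))) (P.cons (P.cons (P.lf 0 30141978 0) (P.cons (P.lf 1117320 0 0) (P.cons (P.lf 553635 0 0) (P.cons (P.lf 0 5022 0) (P.lf 0 1254 0))))) (P.cons (P.cons (P.lf 0 7042776 0) (P.cons (P.lf 261063 0 0) (P.cons (P.lf 129357 0 0) (P.cons (P.lf 0 1173 0) P.nil)))) (P.cons (P.cons (P.lf 114771 0 0) (P.cons (P.lf 0 4254 0) (P.cons (P.lf 0 2106 0) P.nil))) (P.cons (P.cons (P.lf 35253 0 0) (P.cons (P.lf 0 1305 0) P.nil)) (P.cons (P.cons (P.lf 507 0 0) P.nil) P.nil)))))) 1479)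
 EL.nil)))
noncomputable def S169_183_512_586_26 : EL := (EL.cons 4 (TM.mk (P.cons (P.cons (P.lf 0 21083199 0) (P.cons (P.lf 30096669 0 0) (P.cons (P.lf 0 5931585 0) (P.cons (P.lf 13893 0 0) (P.cons (P.lf 56472 0 0) (P.cons (P.lf 0 918 0) P.nil)))))) (P.cons (P.cons (P.lf 0 8551905 0) (P.cons (P.lf 0 2292756 0) (P.cons (P.lf 0 262524 0) (P.cons (P.lf 21681 0 0) (P.cons (P.lf 3096 0 0) P.nil))))) (P.cons (P.cons (P.lf 6916383 0 0) (P.cons (P.lf 0 1633437 0) (P.cons (P.lf 156909 0 0) (P.cons (P.lf 4497 0 0) P.nil)))) (P.cons (P.cons (P.lf 0 667737 0) (P.cons (P.lf 49725 0 0) (P.cons (P.lf 9999 0 0) P.nil))) (P.cons (P.cons (P.lf 0 87744 0) (P.cons (P.lf 27072 0 0) P.nil)) (P.cons (P.cons (P.lf 9861 0 0) P.nil) P.nil)))))) 10215)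
 (EL.cons 8 (TM.mk (P.cons (P.cons (P.lf 10006116 0 0) (P.cons (P.lf 0 14283921 0) (P.cons (P.lf 2815137 0 0) (P.cons (P.lf 0 6594 0) (P.cons (P.lf 0 26802 0) (P.cons (P.lf 435 0 0) P.nil)))))) (P.cons (P.cons (P.lf 2939736 0 0) (P.cons (P.lf 2685552 0 0) (P.cons (P.lf 0 190227 0) (P.cons (P.lf 0 9552 0) (P.cons (P.lf 1527 0 0) P.nil))))) (P.cons (P.cons (P.lf 0 3698544 0) (P.cons (P.lf 599466 0 0) (P.cons (P.lf 0 77745 0) (P.cons (P.lf 0 1008 0) P.nil)))) (P.cons (P.cons (P.lf 697254 0 0) (P.cons (P.lf 0 103158 0) (P.cons (P.lf 3459 0 0) P.nil))) (P.cons (P.cons (P.lf 0 6987 0) (P.cons (P.lf 0 7635 0) P.nil)) (P.cons (P.cons (P.lf 0 7410 0) P.nil) P.nil)))))) 5346)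
 (EL.cons 11 (TM.mk (P.cons (P.cons (P.lf 25274409 0 0) (P.cons (P.lf 0 31634949 0) (P.cons (P.lf 1162302 0 0) (P.cons (P.lf 712815 0 0) (P.cons (P.lf 0 19074 0) (P.cons (P.lf 0 4188 0) P.nil)))))) (P.cons (P.cons (P.lf 17490123 0 0) (P.cons (P.lf 0 3102060 0) (P.cons (P.lf 0 191241 0) (P.cons (P.lf 59553 0 0) (P.cons (P.lf 0 879 0) P.nil))))) (P.cons (P.cons (P.lf 0 3338367 0) (P.cons (P.lf 609594 0 0) (P.cons (P.lf 35574 0 0) (P.cons (P.lf 0 11769 0) P.nil)))) (P.cons (P.cons (P.lf 0 212100 0) (P.cons (P.lf 63831 0 0) (P.cons (P.lf 930 0 0) P.nil))) (P.cons (P.cons (P.lf 39183 0 0) (P.cons (P.lf 0 3159 0) P.nil)) (P.cons (P.cons (P.lf 2031 0 0) P.nil) P.nil)))))) 5172)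
 EL.nil)))
noncomputable def S169_183_512_586_27 : EL := (EL.cons 13 (TM.mk (P.lf 0 4294967296 0) 0)
 EL.nil)
noncomputable def S169_183_512_586_28 : EL := (EL.cons 13 (TM.mk (P.cons (P.cons (P.lf 0 180723245 0) (P.cons (P.lf 219504752 0 0) (P.cons (P.lf 0 3493708 0) (P.lf 0 1164568 0)))) (P.cons (P.cons (P.lf 0 134131123 0) (P.cons (P.lf 28560344 0 0) (P.cons (P.lf 0 454572 0) (P.lf 0 151524 0)))) (P.cons (P.cons (P.lf 15020893 0 0) (P.cons (P.lf 532912 0 0) (P.cons (P.lf 0 8480 0) (P.lf 0 2824 0)))) (P.cons (P.cons (P.lf 732224 0 0) (P.cons (P.lf 0 80536 0) (P.cons (P.lf 1280 0 0) P.nil))) (P.cons (P.cons (P.lf 0 31080 0) (P.cons (P.lf 0 3920 0) P.nil)) (P.cons (P.cons (P.lf 0 2346 0) P.nil) P.nil)))))) 1123)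
 EL.nil)
noncomputable def S169_183_512_586_29 : EL := (EL.cons 13 (TM.mk (P.cons (P.cons (P.lf 0 7604456 0) (P.cons (P.lf 18472602 0 0) (P.cons (P.lf 0 11512340 0) (P.cons (P.lf 259103 0 0) (P.cons (P.lf 116194 0 0) (P.cons (P.lf 0 1894 0) P.nil)))))) (P.cons (P.cons (P.lf 0 11287914 0) (P.cons (P.lf 16113713 0 0) (P.cons (P.lf 0 3175762 0) (P.cons (P.lf 7438 0 0) (P.cons (P.lf 30236 0 0) P.nil))))) (P.cons (P.cons (P.lf 0 2924797 0) (P.cons (P.lf 293358 0 0) (P.cons (P.lf 0 249058 0) (P.cons (P.lf 6223 0 0) P.nil)))) (P.cons (P.cons (P.lf 999820 0 0) (P.cons (P.lf 0 248105 0) (P.cons (P.lf 5093 0 0) P.nil))) (P.cons (P.cons (P.lf 0 9414 0) (P.cons (P.lf 0 15649 0) P.nil)) (P.cons (P.cons (P.lf 0 7260 0) P.nil) P.nil)))))) 10551)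
 EL.nil)
noncomputable def S169_183_512_586_30 : EL := (EL.cons 13 (TM.mk (P.cons (P.lf 2392322948 0 0) (P.cons (P.lf 0 163782508 0) (P.cons (P.lf 0 5110764 0) (P.cons (P.lf 39116 0 0) (P.cons (P.lf 5000 0 0) (P.cons (P.lf 60 0 0) P.nil)))))) 56)
 EL.nil)
noncomputable def S169_183_512_586_31 : EL := (EL.cons 13 (TM.mk (P.cons (P.cons (P.lf 100663948 0 0) (P.cons (P.lf 0 122265484 0) (P.cons (P.lf 1946016 0 0) (P.lf 648671 0 0)))) (P.cons (P.cons (P.lf 67820227 0 0) (P.cons (P.lf 0 7537782 0) (P.cons (P.lf 119971 0 0) (P.lf 39990 0 0)))) (P.cons (P.cons (P.lf 0 13696679 0) (P.cons (P.lf 1053471 0 0) (P.cons (P.lf 0 16768 0) (P.lf 0 5590 0)))) (P.cons (P.cons (P.lf 6984 0 0) (P.cons (P.lf 97166 0 0) (P.cons (P.lf 0 1545 0) P.nil))) (P.cons (P.cons (P.lf 64540 0 0) (P.cons (P.lf 0 769 0) P.nil)) (P.cons (P.cons (P.lf 1014 0 0) P.nil) P.nil)))))) 1520)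
 EL.nil)
noncomputable def S169_183_512_586_32 : EL := (EL.cons 13 (TM.mk (P.cons (P.cons (P.lf 4235728 0 0) (P.cons (P.lf 0 10289351 0) (P.cons (P.lf 6412443 0 0) (P.cons (P.lf 0 144321 0) (P.cons (P.lf 0 64720 0) (P.cons (P.lf 1054 0 0) P.nil)))))) (P.cons (P.cons (P.lf 5997451 0 0) (P.cons (P.lf 0 8271009 0) (P.cons (P.lf 1329911 0 0) (P.cons (P.lf 5737 0 0) (P.cons (P.lf 0 12410 0) P.nil))))) (P.cons (P.cons (P.lf 1189632 0 0) (P.cons (P.lf 473052 0 0) (P.cons (P.lf 3924 0 0) (P.cons (P.lf 0 2874 0) P.nil)))) (P.cons (P.cons (P.lf 0 681801 0) (P.cons (P.lf 168388 0 0) (P.cons (P.lf 0 16008 0) P.nil))) (P.cons (P.cons (P.lf 40001 0 0) (P.cons (P.lf 0 563 0) P.nil)) (P.cons (P.cons (P.lf 4914 0 0) P.nil) P.nil)))))) 9766)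
 EL.nil)
noncomputable def S169_183_512_586_33 : EL := (EL.cons 14 (TM.mk (P.lf 8589934592 0 0) 0)
 EL.nil)
noncomputable def S169_183_512_586_34 : EL := (EL.cons 14 (TM.mk (P.cons (P.cons (P.lf 361446490 0 0) (P.cons (P.lf 0 439009504 0) (P.cons (P.lf 6987416 0 0) (P.lf 2329136 0 0)))) (P.cons (P.cons (P.lf 268262246 0 0) (P.cons (P.lf 0 57120688 0) (P.cons (P.lf 909144 0 0) (P.lf 303048 0 0)))) (P.cons (P.cons (P.lf 0 30041786 0) (P.cons (P.lf 0 1065824 0) (P.cons (P.lf 16960 0 0) (P.lf 5648 0 0)))) (P.cons (P.cons (P.lf 0 1464448 0) (P.cons (P.lf 161072 0 0) (P.cons (P.lf 0 2560 0) P.nil))) (P.cons (P.cons (P.lf 62160 0 0) (P.cons (P.lf 7840 0 0) P.nil)) (P.cons (P.cons (P.lf 4692 0 0) P.nil) P.nil)))))) 2246)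
 EL.nil)
noncomputable def S169_183_512_586_35 : EL := (EL.cons 14 (TM.mk (P.cons (P.cons (P.lf 15208912 0 0) (P.cons (P.lf 0 36945204 0) (P.cons (P.lf 23024680 0 0) (P.cons (P.lf 0 518206 0) (P.cons (P.lf 0 232388 0) (P.cons (P.lf 3788 0 0) P.nil)))))) (P.cons (P.cons (P.lf 22575828 0 0) (P.cons (P.lf 0 32227426 0) (P.cons (P.lf 6351524 0 0) (P.cons (P.lf 0 14876 0) (P.cons (P.lf 0 60472 0) P.nil))))) (P.cons (P.cons (P.lf 5849594 0 0) (P.cons (P.lf 0 586716 0) (P.cons (P.lf 498116 0 0) (P.cons (P.lf 0 12446 0) P.nil)))) (P.cons (P.cons (P.lf 0 1999640 0) (P.cons (P.lf 496210 0 0) (P.cons (P.lf 0 10186 0) P.nil))) (P.cons (P.cons (P.lf 18828 0 0) (P.cons (P.lf 31298 0 0) P.nil)) (P.cons (P.cons (P.lf 14520 0 0) P.nil) P.nil)))))) 21102)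
 EL.nil)
noncomputable def S169_183_512_586_36 : EL := (EL.cons 14 (TM.mk (P.cons (P.lf 0 4784645896 0) (P.cons (P.lf 327565016 0 0) (P.cons (P.lf 10221528 0 0) (P.cons (P.lf 0 78232 0) (P.cons (P.lf 0 10000 0) (P.cons (P.lf 0 120 0) P.nil)))))) 112)
 EL.nil)
noncomputable def S169_183_512_586_37 : EL := (EL.cons 14 (TM.mk (P.cons (P.cons (P.lf 0 201327896 0) (P.cons (P.lf 244530968 0 0) (P.cons (P.lf 0 3892032 0) (P.lf 0 1297342 0)))) (P.cons (P.cons (P.lf 0 135640454 0) (P.cons (P.lf 15075564 0 0) (P.cons (P.lf 0 239942 0) (P.lf 0 79980 0)))) (P.cons (P.cons (P.lf 27393358 0 0) (P.cons (P.lf 0 2106942 0) (P.cons (P.lf 33536 0 0) (P.lf 11180 0 0)))) (P.cons (P.cons (P.lf 0 13968 0) (P.cons (P.lf 0 194332 0) (P.cons (P.lf 3090 0 0) P.nil))) (P.cons (P.cons (P.lf 0 129080 0) (P.cons (P.lf 1538 0 0) P.nil)) (P.cons (P.cons (P.lf 0 2028 0) P.nil) P.nil)))))) 3040)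
 EL.nil)
noncomputable def S169_183_512_586_38 : EL := (EL.cons 14 (TM.mk (P.cons (P.cons (P.lf 0 8471456 0) (P.cons (P.lf 20578702 0 0) (P.cons (P.lf 0 12824886 0) (P.cons (P.lf 288642 0 0) (P.cons (P.lf 129440 0 0) (P.cons (P.lf 0 2108 0) P.nil)))))) (P.cons (P.cons (P.lf 0 11994902 0) (P.cons (P.lf 16542018 0 0) (P.cons (P.lf 0 2659822 0) (P.cons (P.lf 0 11474 0) (P.cons (P.lf 24820 0 0) P.nil))))) (P.cons (P.cons (P.lf 0 2379264 0) (P.cons (P.lf 0 946104 0) (P.cons (P.lf 0 7848 0) (P.cons (P.lf 5748 0 0) P.nil)))) (P.cons (P.cons (P.lf 1363602 0 0) (P.cons (P.lf 0 336776 0) (P.cons (P.lf 32016 0 0) P.nil))) (P.cons (P.cons (P.lf 0 80002 0) (P.cons (P.lf 1126 0 0) P.nil)) (P.cons (P.cons (P.lf 0 9828 0) P.nil) P.nil)))))) 19532)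
 EL.nil)
noncomputable def S169_183_512_586_39 : EL := (EL.cons 14 (TM.mk (P.cons (P.lf 2665076910 0 0) (P.cons (P.lf 0 364911418 0) (P.cons (P.lf 1104322 0 0) (P.cons (P.lf 866718 0 0) (P.cons (P.lf 17336 0 0) (P.cons (P.lf 0 814 0) P.nil)))))) 180)
 EL.nil)
noncomputable def S169_183_512_586_40 : EL := (EL.cons 14 (TM.mk (P.cons (P.cons (P.lf 112140864 0 0) (P.cons (P.lf 0 136205238 0) (P.cons (P.lf 2167886 0 0) (P.lf 722626 0 0)))) (P.cons (P.cons (P.lf 67875204 0 0) (P.cons (P.lf 927660 0 0) (P.cons (P.lf 0 14766 0) (P.lf 0 4922 0)))) (P.cons (P.cons (P.lf 0 20670294 0) (P.cons (P.lf 2039442 0 0) (P.cons (P.lf 0 32460 0) (P.lf 0 10822 0)))) (P.cons (P.cons (P.lf 892816 0 0) (P.cons (P.lf 43610 0 0) (P.cons (P.lf 0 692 0) P.nil))) (P.cons (P.cons (P.lf 105430 0 0) (P.cons (P.lf 0 11196 0) P.nil)) (P.cons (P.cons (P.lf 0 3896 0) P.nil) P.nil)))))) 2726)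
 EL.nil)
noncomputable def S169_183_512_586_41 : EL := (EL.cons 14 (TM.mk (P.cons (P.cons (P.lf 4718652 0 0) (P.cons (P.lf 0 11462462 0) (P.cons (P.lf 7143540 0 0) (P.cons (P.lf 0 160776 0) (P.cons (P.lf 0 72098 0) (P.cons (P.lf 1174 0 0) P.nil)))))) (P.cons (P.cons (P.lf 6358186 0 0) (P.cons (P.lf 0 8429264 0) (P.cons (P.lf 992478 0 0) (P.cons (P.lf 17398 0 0) (P.cons (P.lf 0 8888 0) P.nil))))) (P.cons (P.cons (P.lf 857774 0 0) (P.cons (P.lf 1182280 0 0) (P.cons (P.lf 0 112316 0) (P.cons (P.lf 0 3296 0) P.nil)))) (P.cons (P.cons (P.lf 0 864460 0) (P.cons (P.lf 171004 0 0) (P.cons (P.lf 0 21180 0) P.nil))) (P.cons (P.cons (P.lf 93848 0 0) (P.cons (P.lf 0 14770 0) P.nil)) (P.cons (P.cons (P.lf 4082 0 0) P.nil) P.nil)))))) 14564)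
 EL.nil)
noncomputable def S169_183_512_586_42 : EL := (EL.cons 14 (TM.mk (P.cons (P.lf 0 1484464074 0) (P.cons (P.lf 304886824 0 0) (P.cons (P.lf 0 11359206 0) (P.cons (P.lf 0 899150 0) (P.cons (P.lf 24928 0 0) (P.cons (P.lf 2522 0 0) P.nil)))))) 228)
 EL.nil)
noncomputable def S169_183_512_586_43 : EL := (EL.cons 14 (TM.mk (P.cons (P.cons (P.lf 0 62463144 0) (P.cons (P.lf 75867146 0 0) (P.cons (P.lf 0 1207524 0) (P.lf 0 402508 0)))) (P.cons (P.cons (P.lf 0 33530568 0) (P.cons (P.lf 0 5710706 0) (P.cons (P.lf 90894 0 0) (P.lf 30298 0 0)))) (P.cons (P.cons (P.lf 14235244 0 0) (P.cons (P.lf 0 1262682 0) (P.cons (P.lf 20096 0 0) (P.lf 6700 0 0)))) (P.cons (P.cons (P.lf 0 1205790 0) (P.cons (P.lf 55822 0 0) (P.cons (P.lf 0 888 0) P.nil))) (P.cons (P.cons (P.lf 0 50024 0) (P.cons (P.lf 10476 0 0) P.nil)) (P.cons (P.cons (P.lf 7360 0 0) P.nil) P.nil)))))) 3212)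
 EL.nil)
noncomputable def S169_183_512_586_44 : EL := (EL.cons 14 (TM.mk (P.cons (P.cons (P.lf 0 2628318 0) (P.cons (P.lf 6384660 0 0) (P.cons (P.lf 0 3978994 0) (P.cons (P.lf 89552 0 0) (P.cons (P.lf 40158 0 0) (P.cons (P.lf 0 654 0) P.nil)))))) (P.cons (P.cons (P.lf 0 3361608 0) (P.cons (P.lf 4258046 0 0) (P.cons (P.lf 0 280408 0) (P.cons (P.lf 0 15822 0) (P.cons (P.lf 2202 0 0) P.nil))))) (P.cons (P.cons (P.lf 0 229710 0) (P.cons (P.lf 0 993614 0) (P.cons (P.lf 108908 0 0) (P.cons (P.lf 2308 0 0) P.nil)))) (P.cons (P.cons (P.lf 521742 0 0) (P.cons (P.lf 0 60092 0) (P.cons (P.lf 8630 0 0) P.nil))) (P.cons (P.cons (P.lf 0 84282 0) (P.cons (P.lf 16244 0 0) P.nil)) (P.cons (P.cons (P.lf 260 0 0) P.nil) P.nil)))))) 12408)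
 EL.nil)
noncomputable def S169_183_512_586_45 : EL := (EL.cons 14 (TM.mk (P.cons (P.cons (P.lf 639958 0 0) (P.cons (P.lf 0 2331864 0) (P.cons (P.lf 2869376 0 0) (P.cons (P.lf 0 1224466 0) (P.cons (P.lf 25416 0 0) (P.cons (P.lf 17856 0 0) P.nil)))))) (P.cons (P.cons (P.lf 1424914 0 0) (P.cons (P.lf 0 3764782 0) (P.cons (P.lf 2899026 0 0) (P.cons (P.lf 0 517994 0) (P.cons (P.lf 0 8034 0) P.nil))))) (P.cons (P.cons (P.lf 897986 0 0) (P.cons (P.lf 0 1352902 0) (P.cons (P.lf 394842 0 0) (P.cons (P.lf 0 71294 0) P.nil)))) (P.cons (P.cons (P.lf 16992 0 0) (P.cons (P.lf 182346 0 0) (P.cons (P.lf 0 30130 0) P.nil))) (P.cons (P.cons (P.lf 0 85852 0) (P.cons (P.lf 36138 0 0) P.nil)) (P.cons (P.cons (P.lf 7366 0 0) P.nil) P.nil)))))) 41304)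
 EL.nil)
noncomputable def S169_183_512_586_46 : EL := (EL.cons 15 (TM.mk (P.lf 4294967296 0 0) 0)
 EL.nil)
noncomputable def S169_183_512_586_47 : EL := (EL.cons 15 (TM.mk (P.cons (P.cons (P.lf 180723245 0 0) (P.cons (P.lf 0 219504752 0) (P.cons (P.lf 3493708 0 0) (P.lf 1164568 0 0)))) (P.cons (P.cons (P.lf 134131123 0 0) (P.cons (P.lf 0 28560344 0) (P.cons (P.lf 454572 0 0) (P.lf 151524 0 0)))) (P.cons (P.cons (P.lf 0 15020893 0) (P.cons (P.lf 0 532912 0) (P.cons (P.lf 8480 0 0) (P.lf 2824 0 0)))) (P.cons (P.cons (P.lf 0 732224 0) (P.cons (P.lf 80536 0 0) (P.cons (P.lf 0 1280 0) P.nil))) (P.cons (P.cons (P.lf 31080 0 0) (P.cons (P.lf 3920 0 0) P.nil)) (P.cons (P.cons (P.lf 2346 0 0) P.nil) P.nil)))))) 1123)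
 EL.nil)
noncomputable def S169_183_512_586_48 : EL := (EL.cons 15 (TM.mk (P.cons (P.cons (P.lf 7604456 0 0) (P.cons (P.lf 0 18472602 0) (P.cons (P.lf 11512340 0 0) (P.cons (P.lf 0 259103 0) (P.cons (P.lf 0 116194 0) (P.cons (P.lf 1894 0 0) P.nil)))))) (P.cons (P.cons (P.lf 11287914 0 0) (P.cons (P.lf 0 16113713 0) (P.cons (P.lf 3175762 0 0) (P.cons (P.lf 0 7438 0) (P.cons (P.lf 0 30236 0) P.nil))))) (P.cons (P.cons (P.lf 2924797 0 0) (P.cons (P.lf 0 293358 0) (P.cons (P.lf 249058 0 0) (P.cons (P.lf 0 6223 0) P.nil)))) (P.cons (P.cons (P.lf 0 999820 0) (P.cons (P.lf 248105 0 0) (P.cons (P.lf 0 5093 0) P.nil))) (P.cons (P.cons (P.lf 9414 0 0) (P.cons (P.lf 15649 0 0) P.nil)) (P.cons (P.cons (P.lf 7260 0 0) P.nil) P.nil)))))) 10551)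
 EL.nil)
noncomputable def S169_183_512_586 : SL := (SL.cons S169_183_512_586_0 (SL.cons S169_183_512_586_1 (SL.cons S169_183_512_586_2 (SL.cons S169_183_512_586_3 (SL.cons S169_183_512_586_4 (SL.cons S169_183_512_586_5 (SL.cons S169_183_512_586_6 (SL.cons S169_183_512_586_7 (SL.cons S169_183_512_586_8 (SL.cons S169_183_512_586_9 (SL.cons S169_183_512_586_10 (SL.cons S169_183_512_586_11 (SL.cons S169_183_512_586_12 (SL.cons S169_183_512_586_13 (SL.cons S169_183_512_586_14 (SL.cons S169_183_512_586_15 (SL.cons S169_183_512_586_16 (SL.cons S169_183_512_586_17 (SL.cons S169_183_512_586_18 (SL.cons S169_183_512_586_19 (SL.cons S169_183_512_586_20 (SL.cons S169_183_512_586_21 (SL.cons S169_183_512_586_22 (SL.cons S169_183_512_586_23 (SL.cons S169_183_512_586_24 (SL.cons S169_183_512_586_25 (SL.cons S169_183_512_586_26 (SL.cons S169_183_512_586_27 (SL.cons S169_183_512_586_28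 (SL.cons S169_183_512_586_29 (SL.cons S169_183_512_586_30 (SL.cons S169_183_512_586_31 (SL.cons S169_183_512_586_32 (SL.cons S169_183_512_586_33 (SL.cons S169_183_512_586_34 (SL.cons S169_183_512_586_35 (SL.cons S169_183_512_586_36 (SL.cons S169_183_512_586_37 (SL.cons S169_183_512_586_38 (SL.cons S169_183_512_586_39 (SL.cons S169_183_512_586_40 (SL.cons S169_183_512_586_41 (SL.cons S169_183_512_586_42 (SL.cons S169_183_512_586_43 (SL.cons S169_183_512_586_44 (SL.cons S169_183_512_586_45 (SL.cons S169_183_512_586_46 (SL.cons S169_183_512_586_47 (SL.cons S169_183_512_586_48 SL.nil)))))))))))))))))))))))))))))))))))))))))))))))))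
noncomputable def S169_183_512_660_0 : EL := (EL.cons 0 (TM.mk (P.cons (P.lf 6113364111 0 0) (P.cons (P.lf 320722925 0 0) (P.cons (P.lf 0 970595 0) (P.cons (P.lf 0 761763 0) (P.cons (P.lf 0 15236 0) (P.cons (P.lf 715 0 0) P.nil)))))) 165)
 (EL.cons 1 (TM.mk (P.cons (P.lf 0 1754812605 0) (P.cons (P.lf 44029685 0 0) (P.cons (P.lf 10840057 0 0) (P.cons (P.lf 104334 0 0) (P.cons (P.lf 0 15399 0) (P.cons (P.lf 0 481 0) P.nil)))))) 128)
 (EL.cons 5 (TM.mk (P.cons (P.lf 5127803834 0 0) (P.cons (P.lf 0 114034818 0) (P.cons (P.lf 345096 0 0) (P.cons (P.lf 270848 0 0) (P.cons (P.lf 5418 0 0) (P.cons (P.lf 0 254 0) P.nil)))))) 109)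
 (EL.cons 9 (TM.mk (P.lf 6442450944 0 0) 2)
 EL.nil))))
noncomputable def S169_183_512_660_1 : EL := (EL.cons 0 (TM.mk (P.cons (P.cons (P.lf 0 1383701912 0) (P.cons (P.lf 88933691 0 0) (P.cons (P.lf 0 5945889 0) (P.lf 0 1981959 0)))) (P.cons (P.cons (P.lf 598381306 0 0) (P.cons (P.lf 0 113297852 0) (P.cons (P.lf 7574831 0 0) (P.lf 2524938 0 0)))) (P.cons (P.cons (P.lf 0 289343 0) (P.cons (P.lf 0 15653262 0) (P.cons (P.lf 1046536 0 0) (P.lf 348840 0 0)))) (P.cons (P.cons (P.lf 0 6904800 0) (P.cons (P.lf 9968 0 0) (P.cons (P.lf 0 675 0) P.nil))) (P.cons (P.cons (P.lf 0 192373 0) (P.cons (P.lf 89658 0 0) P.nil)) (P.cons (P.cons (P.lf 26747 0 0) P.nil) P.nil)))))) 58782)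
 (EL.cons 1 (TM.mk (P.cons (P.cons (P.lf 0 169348516 0) (P.cons (P.lf 264700935 0 0) (P.cons (P.lf 0 17697280 0) (P.lf 0 5899089 0)))) (P.cons (P.cons (P.lf 0 73342428 0) (P.cons (P.lf 64101863 0 0) (P.cons (P.lf 0 4285696 0) (P.lf 0 1428559 0)))) (P.cons (P.cons (P.lf 36877572 0 0) (P.cons (P.lf 0 1302905 0) (P.cons (P.lf 87112 0 0) (P.lf 29035 0 0)))) (P.cons (P.cons (P.lf 1284036 0 0) (P.cons (P.lf 0 732621 0) (P.cons (P.lf 48971 0 0) P.nil))) (P.cons (P.cons (P.lf 0 256592 0) (P.cons (P.lf 0 21325 0) P.nil)) (P.cons (P.cons (P.lf 0 12117 0) P.nil) P.nil)))))) 34163)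
 (EL.cons 5 (TM.mk (P.cons (P.cons (P.lf 433973403 0 0) (P.cons (P.lf 0 742301214 0) (P.cons (P.lf 49628530 0 0) (P.lf 16542842 0 0)))) (P.cons (P.cons (P.lf 0 32257103 0) (P.cons (P.lf 0 52184828 0) (P.cons (P.lf 3488962 0 0) (P.lf 1162992 0 0)))) (P.cons (P.cons (P.lf 0 26319375 0) (P.cons (P.lf 3840214 0 0) (P.cons (P.lf 0 256744 0) (P.lf 0 85572 0)))) (P.cons (P.cons (P.lf 1344262 0 0) (P.cons (P.lf 257206 0 0) (P.cons (P.lf 0 17190 0) P.nil))) (P.cons (P.cons (P.lf 127768 0 0) (P.cons (P.lf 0 19184 0) P.nil)) (P.cons (P.cons (P.lf 0 5615 0) P.nil) P.nil)))))) 31041)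
 (EL.cons 9 (TM.mk (P.cons (P.cons (P.lf 0 51184845 0) (P.cons (P.lf 0 627070890 0) (P.cons (P.lf 41924496 0 0) (P.lf 13974828 0 0)))) (P.cons (P.cons (P.lf 159265312 0 0) (P.cons (P.lf 0 81589854 0) (P.cons (P.lf 5454906 0 0) (P.lf 1818300 0 0)))) (P.cons (P.cons (P.lf 0 23313745 0) (P.cons (P.lf 0 1522398 0) (P.cons (P.lf 101784 0 0) (P.lf 33930 0 0)))) (P.cons (P.cons (P.lf 0 980094 0) (P.cons (P.lf 230070 0 0) (P.cons (P.lf 0 15378 0) P.nil))) (P.cons (P.cons (P.lf 52374 0 0) (P.cons (P.lf 11196 0 0) P.nil)) (P.cons (P.cons (P.lf 3429 0 0) P.nil) P.nil)))))) 7415)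
 (EL.cons 2 (TM.mk (P.cons (P.cons (P.lf 955136145 0 0) (P.cons (P.lf 0 147879059 0) (P.cons (P.lf 0 71243465 0) (P.cons (P.lf 2696059 0 0) (P.lf 674012 0 0))))) (P.cons (P.cons (P.lf 17459949 0 0) (P.cons (P.lf 0 2703237 0) (P.cons (P.lf 0 1302333 0) (P.cons (P.lf 49283 0 0) (P.lf 12318 0 0))))) (P.cons (P.cons (P.lf 0 7963261 0) (P.cons (P.lf 1232912 0 0) (P.cons (P.lf 593977 0 0) (P.cons (P.lf 0 22474 0) P.nil)))) (P.cons (P.cons (P.lf 0 340990 0) (P.cons (P.lf 52790 0 0) (P.cons (P.lf 25433 0 0) P.nil))) (P.cons (P.cons (P.lf 13421 0 0) (P.cons (P.lf 0 2075 0) P.nil)) (P.cons (P.cons (P.lf 1065 0 0) P.nil) P.nil)))))) 9265)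
 (EL.cons 6 (TM.mk (P.cons (P.cons (P.lf 715556163 0 0) (P.cons (P.lf 0 110786061 0) (P.cons (P.lf 0 53373228 0) (P.cons (P.lf 2019798 0 0) (P.lf 504948 0 0))))) (P.cons (P.cons (P.lf 93102912 0 0) (P.cons (P.lf 0 14414667 0) (P.cons (P.lf 0 6944532 0) (P.cons (P.lf 262800 0 0) (P.lf 65697 0 0))))) (P.cons (P.cons (P.lf 1737225 0 0) (P.cons (P.lf 0 268965 0) (P.cons (P.lf 0 129579 0) (P.cons (P.lf 4902 0 0) P.nil)))) (P.cons (P.cons (P.lf 0 262539 0) (P.cons (P.lf 40644 0 0) (P.cons (P.lf 19581 0 0) P.nil))) (P.cons (P.cons (P.lf 0 12780 0) (P.cons (P.lf 1977 0 0) P.nil)) (P.cons (P.cons (P.lf 198 0 0) P.nil) P.nil)))))) 4869)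
 EL.nil))))))
noncomputable def S169_183_512_660_2 : EL := (EL.cons 0 (TM.mk (P.cons (P.cons (P.lf 21600945 0 0) (P.cons (P.lf 258494819 0 0) (P.cons (P.lf 0 92512639 0) (P.cons (P.lf 4298649 0 0) (P.cons (P.lf 3016871 0 0) (P.cons (P.lf 0 224173 0) P.nil)))))) (P.cons (P.cons (P.lf 0 75540637 0) (P.cons (P.lf 0 47547060 0) (P.cons (P.lf 4871663 0 0) (P.cons (P.lf 833274 0 0) (P.cons (P.lf 0 67889 0) P.nil))))) (P.cons (P.cons (P.lf 35643028 0 0) (P.cons (P.lf 0 19463873 0) (P.cons (P.lf 5132941 0 0) (P.cons (P.lf 0 78585 0) P.nil)))) (P.cons (P.cons (P.lf 0 2950133 0) (P.cons (P.lf 292586 0 0) (P.cons (P.lf 384193 0 0) P.nil))) (P.cons (P.cons (P.lf 0 517121 0) (P.cons (P.lf 325336 0 0) P.nil)) (P.cons (P.cons (P.lf 37820 0 0) P.nil) P.nil)))))) 910221)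
 (EL.cons 1 (TM.mk (P.cons (P.cons (P.lf 2801689 0 0) (P.cons (P.lf 31474786 0 0) (P.cons (P.lf 0 37008237 0) (P.cons (P.lf 3965735 0 0) (P.cons (P.lf 1399706 0 0) (P.cons (P.lf 0 104008 0) P.nil)))))) (P.cons (P.cons (P.lf 0 7899705 0) (P.cons (P.lf 22475843 0 0) (P.cons (P.lf 0 16776737 0) (P.cons (P.lf 1541477 0 0) (P.cons (P.lf 612511 0 0) P.nil))))) (P.cons (P.cons (P.lf 0 1796594 0) (P.cons (P.lf 0 3636652 0) (P.cons (P.lf 0 1101030 0) (P.cons (P.lf 260773 0 0) P.nil)))) (P.cons (P.cons (P.lf 2050332 0 0) (P.cons (P.lf 0 1521178 0) (P.cons (P.lf 227433 0 0) P.nil))) (P.cons (P.cons (P.lf 0 169654 0) (P.cons (P.lf 0 42632 0) P.nil)) (P.cons (P.cons (P.lf 0 30150 0) P.nil) P.nil)))))) 452481)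
 (EL.cons 5 (TM.mk (P.cons (P.cons (P.lf 0 7219451 0) (P.cons (P.lf 0 80616643 0) (P.cons (P.lf 101311898 0 0) (P.cons (P.lf 0 11029634 0) (P.cons (P.lf 0 3846641 0) (P.cons (P.lf 285840 0 0) P.nil)))))) (P.cons (P.cons (P.lf 23990756 0 0) (P.cons (P.lf 0 16762856 0) (P.cons (P.lf 18519538 0 0) (P.cons (P.lf 0 1952902 0) (P.cons (P.lf 0 697722 0) P.nil))))) (P.cons (P.cons (P.lf 0 7791019 0) (P.cons (P.lf 7519605 0 0) (P.cons (P.lf 0 358151 0) (P.cons (P.lf 0 186906 0) P.nil)))) (P.cons (P.cons (P.lf 0 239806 0) (P.cons (P.lf 691993 0 0) (P.cons (P.lf 0 196867 0) P.nil))) (P.cons (P.cons (P.lf 223610 0 0) (P.cons (P.lf 0 73909 0) P.nil)) (P.cons (P.cons (P.lf 0 2535 0) P.nil) P.nil)))))) 488865)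
 (EL.cons 9 (TM.mk (P.cons (P.cons (P.lf 406659 0 0) (P.cons (P.lf 9964072 0 0) (P.cons (P.lf 60369276 0 0) (P.cons (P.lf 0 8383432 0) (P.cons (P.lf 0 2447631 0) (P.cons (P.lf 181882 0 0) P.nil)))))) (P.cons (P.cons (P.lf 0 2530704 0) (P.cons (P.lf 0 29707474 0) (P.cons (P.lf 17869140 0 0) (P.cons (P.lf 0 1461738 0) (P.cons (P.lf 0 636934 0) P.nil))))) (P.cons (P.cons (P.lf 4307686 0 0) (P.cons (P.lf 528637 0 0) (P.cons (P.lf 1294306 0 0) (P.cons (P.lf 0 189574 0) P.nil)))) (P.cons (P.cons (P.lf 0 1137114 0) (P.cons (P.lf 702375 0 0) (P.cons (P.lf 0 53185 0) P.nil))) (P.cons (P.cons (P.lf 35076 0 0) (P.cons (P.lf 36844 0 0) P.nil)) (P.cons (P.cons (P.lf 9627 0 0) P.nil) P.nil)))))) 212179)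
 (EL.cons 2 (TM.mk (P.cons (P.cons (P.lf 0 15176981 0) (P.cons (P.lf 0 183585065 0) (P.cons (P.lf 42350602 0 0) (P.cons (P.lf 16045076 0 0) (P.cons (P.lf 0 2104335 0) (P.cons (P.lf 0 405196 0) P.nil)))))) (P.cons (P.cons (P.lf 46946840 0 0) (P.cons (P.lf 0 34859925 0) (P.cons (P.lf 2614770 0 0) (P.cons (P.lf 2519842 0 0) (P.cons (P.lf 0 277548 0) P.nil))))) (P.cons (P.cons (P.lf 0 5923035 0) (P.cons (P.lf 1573576 0 0) (P.cons (P.lf 296251 0 0) (P.cons (P.lf 0 73524 0) P.nil)))) (P.cons (P.cons (P.lf 0 805280 0) (P.cons (P.lf 452722 0 0) (P.cons (P.lf 0 12650 0) P.nil))) (P.cons (P.cons (P.lf 50776 0 0) (P.cons (P.lf 6491 0 0) P.nil)) (P.cons (P.cons (P.lf 6834 0 0) P.nil) P.nil)))))) 204552)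
 (EL.cons 6 (TM.mk (P.cons (P.cons (P.lf 0 11370090 0) (P.cons (P.lf 0 137535810 0) (P.cons (P.lf 31727658 0 0) (P.cons (P.lf 12020436 0 0) (P.cons (P.lf 0 1576500 0) (P.cons (P.lf 0 303558 0) P.nil)))))) (P.cons (P.cons (P.lf 33899460 0 0) (P.cons (P.lf 0 41496876 0) (P.cons (P.lf 5507082 0 0) (P.cons (P.lf 3232056 0 0) (P.cons (P.lf 0 384228 0) P.nil))))) (P.cons (P.cons (P.lf 0 603228 0) (P.cons (P.lf 0 2941152 0) (P.cons (P.lf 717702 0 0) (P.cons (P.lf 260856 0 0) P.nil)))) (P.cons (P.cons (P.lf 0 801486 0) (P.cons (P.lf 138300 0 0) (P.cons (P.lf 56628 0 0) P.nil))) (P.cons (P.cons (P.lf 0 42042 0) (P.cons (P.lf 23958 0 0) P.nil)) (P.cons (P.cons (P.lf 3006 0 0) P.nil) P.nil)))))) 207348)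
 EL.nil))))))
noncomputable def S169_183_512_660_3 : EL := (EL.cons 0 (TM.mk (P.cons (P.lf 2342352752 0 0) (P.cons (P.lf 0 320722925 0) (P.cons (P.lf 970595 0 0) (P.cons (P.lf 761763 0 0) (P.cons (P.lf 15236 0 0) (P.cons (P.lf 0 715 0) P.nil)))))) 165)
 (EL.cons 1 (TM.mk (P.cons (P.lf 1754812605 0 0) (P.cons (P.lf 0 44029685 0) (P.cons (P.lf 0 10840057 0) (P.cons (P.lf 0 104334 0) (P.cons (P.lf 15399 0 0) (P.cons (P.lf 481 0 0) P.nil)))))) 128)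
 (EL.cons 5 (TM.mk (P.cons (P.lf 1314647110 0 0) (P.cons (P.lf 114034818 0 0) (P.cons (P.lf 0 345096 0) (P.cons (P.lf 0 270848 0) (P.cons (P.lf 0 5418 0) (P.cons (P.lf 254 0 0) P.nil)))))) 102)
 EL.nil)))
noncomputable def S169_183_512_660_4 : EL := (EL.cons 0 (TM.mk (P.cons (P.cons (P.lf 0 18609836 0) (P.cons (P.lf 0 227991060 0) (P.cons (P.lf 15242948 0 0) (P.lf 5080981 0 0)))) (P.cons (P.cons (P.lf 60453963 0 0) (P.cons (P.lf 1552791 0 0) (P.cons (P.lf 0 103816 0) (P.lf 0 34604 0)))) (P.cons (P.cons (P.lf 0 16412811 0) (P.cons (P.lf 3413779 0 0) (P.cons (P.lf 0 228236 0) (P.lf 0 76078 0)))) (P.cons (P.cons (P.lf 822220 0 0) (P.cons (P.lf 73000 0 0) (P.cons (P.lf 0 4877 0) P.nil))) (P.cons (P.cons (P.lf 83032 0 0) (P.cons (P.lf 0 18741 0) P.nil)) (P.cons (P.cons (P.lf 0 3881 0) P.nil) P.nil)))))) 10031)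
 (EL.cons 1 (TM.mk (P.cons (P.cons (P.lf 0 13941868 0) (P.cons (P.lf 0 170803301 0) (P.cons (P.lf 11419509 0 0) (P.lf 3806501 0 0)))) (P.cons (P.cons (P.lf 43730938 0 0) (P.cons (P.lf 0 17938074 0) (P.cons (P.lf 1199296 0 0) (P.lf 399765 0 0)))) (P.cons (P.cons (P.lf 0 7352606 0) (P.cons (P.lf 1198042 0 0) (P.cons (P.lf 0 80098 0) (P.lf 0 26698 0)))) (P.cons (P.cons (P.lf 0 374776 0) (P.cons (P.lf 220509 0 0) (P.cons (P.lf 0 14739 0) P.nil))) (P.cons (P.cons (P.lf 57489 0 0) (P.cons (P.lf 3860 0 0) P.nil)) (P.cons (P.cons (P.lf 2977 0 0) P.nil) P.nil)))))) 8055)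
 (EL.cons 5 (TM.mk (P.cons (P.cons (P.lf 0 10444782 0) (P.cons (P.lf 0 127960140 0) (P.cons (P.lf 8555114 0 0) (P.lf 2851702 0 0)))) (P.cons (P.cons (P.lf 31593694 0 0) (P.cons (P.lf 0 27748720 0) (P.cons (P.lf 1855214 0 0) (P.lf 618402 0 0)))) (P.cons (P.cons (P.lf 0 1935580 0) (P.cons (P.lf 0 1721254 0) (P.cons (P.lf 115078 0 0) (P.lf 38358 0 0)))) (P.cons (P.cons (P.lf 0 619042 0) (P.cons (P.lf 50732 0 0) (P.cons (P.lf 0 3390 0) P.nil))) (P.cons (P.cons (P.lf 0 12064 0) (P.cons (P.lf 10394 0 0) P.nil)) (P.cons (P.cons (P.lf 2522 0 0) P.nil) P.nil)))))) 5548)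
 EL.nil)))
noncomputable def S169_183_512_660_5 : EL := (EL.cons 0 (TM.mk (P.cons (P.cons (P.lf 147853 0 0) (P.cons (P.lf 3622746 0 0) (P.cons (P.lf 21949120 0 0) (P.cons (P.lf 0 3048055 0) (P.cons (P.lf 0 889911 0) (P.cons (P.lf 66128 0 0) P.nil)))))) (P.cons (P.cons (P.lf 0 940359 0) (P.cons (P.lf 0 11297111 0) (P.cons (P.lf 3491530 0 0) (P.cons (P.lf 0 114108 0) (P.cons (P.lf 0 109726 0) P.nil))))) (P.cons (P.cons (P.lf 1692239 0 0) (P.cons (P.lf 1672621 0 0) (P.cons (P.lf 0 409893 0) (P.cons (P.lf 2580 0 0) P.nil)))) (P.cons (P.cons (P.lf 0 628214 0) (P.cons (P.lf 225754 0 0) (P.cons (P.lf 0 73940 0) P.nil))) (P.cons (P.cons (P.lf 69711 0 0) (P.cons (P.lf 0 24978 0) P.nil)) (P.cons (P.cons (P.lf 2084 0 0) P.nil) P.nil)))))) 148499)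
 (EL.cons 1 (TM.mk (P.cons (P.cons (P.lf 110765 0 0) (P.cons (P.lf 2714040 0 0) (P.cons (P.lf 16443549 0 0) (P.cons (P.lf 0 2283500 0) (P.cons (P.lf 0 666690 0) (P.cons (P.lf 49539 0 0) P.nil)))))) (P.cons (P.cons (P.lf 0 692098 0) (P.cons (P.lf 0 8159900 0) (P.cons (P.lf 4454662 0 0) (P.cons (P.lf 0 340856 0) (P.cons (P.lf 0 156761 0) P.nil))))) (P.cons (P.cons (P.lf 1189950 0 0) (P.cons (P.lf 330255 0 0) (P.cons (P.lf 128846 0 0) (P.cons (P.lf 0 27540 0) P.nil)))) (P.cons (P.cons (P.lf 0 334918 0) (P.cons (P.lf 237525 0 0) (P.cons (P.lf 0 54375 0) P.nil))) (P.cons (P.cons (P.lf 10117 0 0) (P.cons (P.lf 4850 0 0) P.nil)) (P.cons (P.cons (P.lf 4218 0 0) P.nil) P.nil)))))) 103722)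
 (EL.cons 5 (TM.mk (P.cons (P.cons (P.lf 82982 0 0) (P.cons (P.lf 2033268 0 0) (P.cons (P.lf 12318958 0 0) (P.cons (P.lf 0 1710722 0) (P.cons (P.lf 0 499462 0) (P.cons (P.lf 37114 0 0) P.nil)))))) (P.cons (P.cons (P.lf 0 509216 0) (P.cons (P.lf 0 5885738 0) (P.cons (P.lf 4714946 0 0) (P.cons (P.lf 0 446672 0) (P.cons (P.lf 0 173296 0) P.nil))))) (P.cons (P.cons (P.lf 834210 0 0) (P.cons (P.lf 0 418496 0) (P.cons (P.lf 577174 0 0) (P.cons (P.lf 0 64108 0) P.nil)))) (P.cons (P.cons (P.lf 0 155672 0) (P.cons (P.lf 153854 0 0) (P.cons (P.lf 8562 0 0) P.nil))) (P.cons (P.cons (P.lf 0 13094 0) (P.cons (P.lf 21162 0 0) P.nil)) (P.cons (P.cons (P.lf 2466 0 0) P.nil) P.nil)))))) 73082)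
 EL.nil)))
noncomputable def S169_183_512_660_6 : EL := (EL.cons 12 (TM.mk (P.lf 8589934592 0 0) 0)
 (EL.cons 3 (TM.mk (P.cons (P.lf 0 2242802763 0) (P.cons (P.lf 153546101 0 0) (P.cons (P.lf 4791341 0 0) (P.cons (P.lf 0 36671 0) (P.cons (P.lf 0 4687 0) (P.cons (P.lf 0 56 0) P.nil)))))) 59)
 (EL.cons 7 (TM.mk (P.cons (P.lf 0 1680233071 0) (P.cons (P.lf 0 72873196 0) (P.cons (P.lf 1800820 0 0) (P.cons (P.lf 94981 0 0) (P.cons (P.lf 308 0 0) (P.cons (P.lf 0 74 0) P.nil)))))) 48)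
 EL.nil)))
noncomputable def S169_183_512_660_7 : EL := (EL.cons 12 (TM.mk (P.cons (P.cons (P.lf 0 68246460 0) (P.cons (P.lf 0 836094520 0) (P.cons (P.lf 55899328 0 0) (P.lf 18633104 0 0)))) (P.cons (P.cons (P.lf 212353750 0 0) (P.cons (P.lf 0 108786472 0) (P.cons (P.lf 7273208 0 0) (P.lf 2424400 0 0)))) (P.cons (P.cons (P.lf 0 31084994 0) (P.cons (P.lf 0 2029864 0) (P.cons (P.lf 135712 0 0) (P.lf 45240 0 0)))) (P.cons (P.cons (P.lf 0 1306792 0) (P.cons (P.lf 306760 0 0) (P.cons (P.lf 0 20504 0) P.nil))) (P.cons (P.cons (P.lf 69832 0 0) (P.cons (P.lf 14928 0 0) P.nil)) (P.cons (P.cons (P.lf 4572 0 0) P.nil) P.nil)))))) 9862)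
 (EL.cons 3 (TM.mk (P.cons (P.cons (P.lf 1296207466 0 0) (P.cons (P.lf 0 436602880 0) (P.cons (P.lf 29190248 0 0) (P.lf 9730080 0 0)))) (P.cons (P.cons (P.lf 0 399827166 0) (P.cons (P.lf 0 26916978 0) (P.cons (P.lf 1799604 0 0) (P.lf 599866 0 0)))) (P.cons (P.cons (P.lf 0 22194984 0) (P.cons (P.lf 3761882 0 0) (P.cons (P.lf 0 251510 0) (P.lf 0 83834 0)))) (P.cons (P.cons (P.lf 1410237 0 0) (P.cons (P.lf 346976 0 0) (P.cons (P.lf 0 23192 0) P.nil))) (P.cons (P.cons (P.lf 143976 0 0) (P.cons (P.lf 0 2746 0) P.nil)) (P.cons (P.cons (P.lf 166 0 0) P.nil) P.nil)))))) 25449)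
 (EL.cons 7 (TM.mk (P.cons (P.cons (P.lf 0 593375661 0) (P.cons (P.lf 474362681 0 0) (P.cons (P.lf 0 31714787 0) (P.lf 0 10571599 0)))) (P.cons (P.cons (P.lf 189758534 0 0) (P.cons (P.lf 12774841 0 0) (P.cons (P.lf 0 854097 0) (P.lf 0 284701 0)))) (P.cons (P.cons (P.lf 0 76816 0) (P.cons (P.lf 0 2499713 0) (P.cons (P.lf 167122 0 0) (P.lf 55706 0 0)))) (P.cons (P.cons (P.lf 0 1215187 0) (P.cons (P.lf 0 15449 0) (P.cons (P.lf 1033 0 0) P.nil))) (P.cons (P.cons (P.lf 0 2283 0) (P.cons (P.lf 11060 0 0) P.nil)) (P.cons (P.cons (P.lf 3964 0 0) P.nil) P.nil)))))) 19612)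
 (EL.cons 10 (TM.mk (P.cons (P.cons (P.lf 0 1829085723 0) (P.cons (P.lf 283188402 0 0) (P.cons (P.lf 136431240 0 0) (P.cons (P.lf 0 5162958 0) (P.lf 0 1290738 0))))) (P.cons (P.cons (P.lf 0 158658132 0) (P.cons (P.lf 24564261 0 0) (P.cons (P.lf 11834286 0 0) (P.cons (P.lf 0 447843 0) (P.lf 0 111960 0))))) (P.cons (P.cons (P.lf 480135 0 0) (P.cons (P.lf 0 74337 0) (P.cons (P.lf 0 35811 0) (P.cons (P.lf 1353 0 0) P.nil)))) (P.cons (P.cons (P.lf 376833 0 0) (P.cons (P.lf 0 58341 0) (P.cons (P.lf 0 28107 0) P.nil))) (P.cons (P.cons (P.lf 7536 0 0) (P.cons (P.lf 0 1167 0) P.nil)) (P.cons (P.cons (P.lf 0 351 0) P.nil) P.nil)))))) 2619)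
 EL.nil))))
noncomputable def S169_183_512_660_8 : EL := (EL.cons 12 (TM.mk (P.cons (P.cons (P.lf 542212 0 0) (P.cons (P.lf 13285430 0 0) (P.cons (P.lf 80492368 0 0) (P.cons (P.lf 0 11177910 0) (P.cons (P.lf 0 3263508 0) (P.cons (P.lf 242510 0 0) P.nil)))))) (P.cons (P.cons (P.lf 0 3374272 0) (P.cons (P.lf 0 39609966 0) (P.cons (P.lf 23825520 0 0) (P.cons (P.lf 0 1948984 0) (P.cons (P.lf 0 849246 0) P.nil))))) (P.cons (P.cons (P.lf 5743582 0 0) (P.cons (P.lf 704850 0 0) (P.cons (P.lf 1725742 0 0) (P.cons (P.lf 0 252766 0) P.nil)))) (P.cons (P.cons (P.lf 0 1516152 0) (P.cons (P.lf 936500 0 0) (P.cons (P.lf 0 70914 0) P.nil))) (P.cons (P.cons (P.lf 46768 0 0) (P.cons (P.lf 49126 0 0) P.nil)) (P.cons (P.cons (P.lf 12836 0 0) P.nil) P.nil)))))) 282876)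
 (EL.cons 3 (TM.mk (P.cons (P.cons (P.lf 0 20454989 0) (P.cons (P.lf 0 241924320 0) (P.cons (P.lf 122415487 0 0) (P.cons (P.lf 0 8814553 0) (P.cons (P.lf 0 4260456 0) (P.cons (P.lf 316591 0 0) P.nil)))))) (P.cons (P.cons (P.lf 69550178 0 0) (P.cons (P.lf 13263791 0 0) (P.cons (P.lf 19486363 0 0) (P.cons (P.lf 0 3019794 0) (P.cons (P.lf 0 816996 0) P.nil))))) (P.cons (P.cons (P.lf 0 27237470 0) (P.cons (P.lf 16489173 0 0) (P.cons (P.lf 0 907675 0) (P.cons (P.lf 0 393512 0) P.nil)))) (P.cons (P.cons (P.lf 882948 0 0) (P.cons (P.lf 1331390 0 0) (P.cons (P.lf 0 315625 0) P.nil))) (P.cons (P.cons (P.lf 406893 0 0) (P.cons (P.lf 0 90710 0) P.nil)) (P.cons (P.cons (P.lf 1921 0 0) P.nil) P.nil)))))) 564828)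
 (EL.cons 7 (TM.mk (P.cons (P.cons (P.lf 9534717 0 0) (P.cons (P.lf 110572640 0 0) (P.cons (P.lf 0 83817621 0) (P.cons (P.lf 7754981 0 0) (P.cons (P.lf 3064782 0 0) (P.cons (P.lf 0 227742 0) P.nil)))))) (P.cons (P.cons (P.lf 0 33008614 0) (P.cons (P.lf 0 6295012 0) (P.cons (P.lf 0 9248253 0) (P.cons (P.lf 1433197 0 0) (P.cons (P.lf 387746 0 0) P.nil))))) (P.cons (P.cons (P.lf 14772657 0 0) (P.cons (P.lf 0 7473792 0) (P.cons (P.lf 947912 0 0) (P.cons (P.lf 106623 0 0) P.nil)))) (P.cons (P.cons (P.lf 0 1424467 0) (P.cons (P.lf 0 56374 0) (P.cons (P.lf 106005 0 0) P.nil))) (P.cons (P.cons (P.lf 0 131751 0) (P.cons (P.lf 81571 0 0) P.nil)) (P.cons (P.cons (P.lf 14256 0 0) P.nil) P.nil)))))) 288038)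
 (EL.cons 10 (TM.mk (P.cons (P.cons (P.lf 29063928 0 0) (P.cons (P.lf 351565410 0 0) (P.cons (P.lf 0 81101400 0) (P.cons (P.lf 0 30726324 0) (P.cons (P.lf 4029810 0 0) (P.cons (P.lf 775956 0 0) P.nil)))))) (P.cons (P.cons (P.lf 0 87913440 0) (P.cons (P.lf 90825528 0 0) (P.cons (P.lf 0 10559628 0) (P.cons (P.lf 0 6929076 0) (P.cons (P.lf 807390 0 0) P.nil))))) (P.cons (P.cons (P.lf 5385996 0 0) (P.cons (P.lf 3955716 0 0) (P.cons (P.lf 0 1463514 0) (P.cons (P.lf 0 399216 0) P.nil)))) (P.cons (P.cons (P.lf 1722564 0 0) (P.cons (P.lf 0 407868 0) (P.cons (P.lf 0 97188 0) P.nil))) (P.cons (P.cons (P.lf 33570 0 0) (P.cons (P.lf 0 34122 0) P.nil)) (P.cons (P.cons (P.lf 0 7020 0) P.nil) P.nil)))))) 400230)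
 EL.nil))))
noncomputable def S169_183_512_660_9 : EL := (EL.cons 3 (TM.mk (P.cons (P.lf 0 2242802763 0) (P.cons (P.lf 153546101 0 0) (P.cons (P.lf 4791341 0 0) (P.cons (P.lf 0 36671 0) (P.cons (P.lf 0 4687 0) (P.cons (P.lf 0 56 0) P.nil)))))) 59)
 (EL.cons 7 (TM.mk (P.cons (P.lf 0 1680233071 0) (P.cons (P.lf 0 72873196 0) (P.cons (P.lf 1800820 0 0) (P.cons (P.lf 94981 0 0) (P.cons (P.lf 308 0 0) (P.cons (P.lf 0 74 0) P.nil)))))) 48)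
 EL.nil))
noncomputable def S169_183_512_660_10 : EL := (EL.cons 3 (TM.mk (P.cons (P.cons (P.lf 17818918 0 0) (P.cons (P.lf 218301440 0 0) (P.cons (P.lf 0 14595124 0) (P.lf 0 4865040 0)))) (P.cons (P.cons (P.lf 0 56664756 0) (P.cons (P.lf 13458489 0 0) (P.cons (P.lf 0 899802 0) (P.lf 0 299933 0)))) (P.cons (P.cons (P.lf 11873967 0 0) (P.cons (P.lf 0 1880941 0) (P.cons (P.lf 125755 0 0) (P.lf 41917 0 0)))) (P.cons (P.cons (P.lf 0 95709 0) (P.cons (P.lf 0 173488 0) (P.cons (P.lf 11596 0 0) P.nil))) (P.cons (P.cons (P.lf 0 59799 0) (P.cons (P.lf 1373 0 0) P.nil)) (P.cons (P.cons (P.lf 0 656 0) P.nil) P.nil)))))) 6281)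
 (EL.cons 7 (TM.mk (P.cons (P.cons (P.lf 13349340 0 0) (P.cons (P.lf 163544162 0 0) (P.cons (P.lf 0 10934180 0) (P.lf 0 3644725 0)))) (P.cons (P.cons (P.lf 0 40958455 0) (P.cons (P.lf 28372219 0 0) (P.cons (P.lf 0 1896900 0) (P.lf 0 632299 0)))) (P.cons (P.cons (P.lf 4264553 0 0) (P.cons (P.lf 1144666 0 0) (P.cons (P.lf 0 76529 0) (P.lf 0 25510 0)))) (P.cons (P.cons (P.lf 563090 0 0) (P.cons (P.lf 0 74834 0) (P.cons (P.lf 5002 0 0) P.nil))) (P.cons (P.cons (P.lf 0 6744 0) (P.cons (P.lf 0 7180 0) P.nil)) (P.cons (P.cons (P.lf 0 2096 0) P.nil) P.nil)))))) 3774)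
 EL.nil))
noncomputable def S169_183_512_660_11 : EL := (EL.cons 3 (TM.mk (P.cons (P.cons (P.lf 0 141569 0) (P.cons (P.lf 0 3468780 0) (P.cons (P.lf 0 21016283 0) (P.cons (P.lf 2918513 0 0) (P.cons (P.lf 852090 0 0) (P.cons (P.lf 0 63317 0) P.nil)))))) (P.cons (P.cons (P.lf 890702 0 0) (P.cons (P.lf 10579505 0 0) (P.cons (P.lf 0 4781951 0) (P.cons (P.lf 309066 0 0) (P.cons (P.lf 163398 0 0) P.nil))))) (P.cons (P.cons (P.lf 0 1559642 0) (P.cons (P.lf 0 884655 0) (P.cons (P.lf 20195 0 0) (P.cons (P.lf 24922 0 0) P.nil)))) (P.cons (P.cons (P.lf 496644 0 0) (P.cons (P.lf 0 254068 0) (P.cons (P.lf 62309 0 0) P.nil))) (P.cons (P.cons (P.lf 0 36093 0) (P.cons (P.lf 4468 0 0) P.nil)) (P.cons (P.cons (P.lf 0 3383 0) P.nil) P.nil)))))) 111062)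
 (EL.cons 7 (TM.mk (P.cons (P.cons (P.lf 0 106059 0) (P.cons (P.lf 0 2598694 0) (P.cons (P.lf 0 15744699 0) (P.cons (P.lf 2186453 0 0) (P.cons (P.lf 638358 0 0) (P.cons (P.lf 0 47436 0) P.nil)))))) (P.cons (P.cons (P.lf 655424 0 0) (P.cons (P.lf 7635194 0 0) (P.cons (P.lf 0 5343249 0) (P.cons (P.lf 476059 0 0) (P.cons (P.lf 193802 0 0) P.nil))))) (P.cons (P.cons (P.lf 0 1094733 0) (P.cons (P.lf 200946 0 0) (P.cons (P.lf 0 522814 0) (P.cons (P.lf 63633 0 0) P.nil)))) (P.cons (P.cons (P.lf 247139 0 0) (P.cons (P.lf 0 197320 0) (P.cons (P.lf 5115 0 0) P.nil))) (P.cons (P.cons (P.lf 4881 0 0) (P.cons (P.lf 0 17843 0) P.nil)) (P.cons (P.cons (P.lf 0 3162 0) P.nil) P.nil)))))) 72844)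
 EL.nil))
noncomputable def S169_183_512_660_12 : EL := (EL.cons 4 (TM.mk (P.cons (P.lf 2242802763 0 0) (P.cons (P.lf 0 153546101 0) (P.cons (P.lf 0 4791341 0) (P.cons (P.lf 36671 0 0) (P.cons (P.lf 4687 0 0) (P.cons (P.lf 56 0 0) P.nil)))))) 59)
 (EL.cons 8 (TM.mk (P.cons (P.lf 1680233071 0 0) (P.cons (P.lf 72873196 0 0) (P.cons (P.lf 0 1800820 0) (P.cons (P.lf 0 94981 0) (P.cons (P.lf 0 308 0) (P.cons (P.lf 74 0 0) P.nil)))))) 48)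
 EL.nil))
noncomputable def S169_183_512_660_13 : EL := (EL.cons 4 (TM.mk (P.cons (P.cons (P.lf 0 17818918 0) (P.cons (P.lf 0 218301440 0) (P.cons (P.lf 14595124 0 0) (P.lf 4865040 0 0)))) (P.cons (P.cons (P.lf 56664756 0 0) (P.cons (P.lf 0 13458489 0) (P.cons (P.lf 899802 0 0) (P.lf 299933 0 0)))) (P.cons (P.cons (P.lf 0 11873967 0) (P.cons (P.lf 1880941 0 0) (P.cons (P.lf 0 125755 0) (P.lf 0 41917 0)))) (P.cons (P.cons (P.lf 95709 0 0) (P.cons (P.lf 173488 0 0) (P.cons (P.lf 0 11596 0) P.nil))) (P.cons (P.cons (P.lf 59799 0 0) (P.cons (P.lf 0 1373 0) P.nil)) (P.cons (P.cons (P.lf 656 0 0) P.nil) P.nil)))))) 6281)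
 (EL.cons 8 (TM.mk (P.cons (P.cons (P.lf 0 13349340 0) (P.cons (P.lf 0 163544162 0) (P.cons (P.lf 10934180 0 0) (P.lf 3644725 0 0)))) (P.cons (P.cons (P.lf 40958455 0 0) (P.cons (P.lf 0 28372219 0) (P.cons (P.lf 1896900 0 0) (P.lf 632299 0 0)))) (P.cons (P.cons (P.lf 0 4264553 0) (P.cons (P.lf 0 1144666 0) (P.cons (P.lf 76529 0 0) (P.lf 25510 0 0)))) (P.cons (P.cons (P.lf 0 563090 0) (P.cons (P.lf 74834 0 0) (P.cons (P.lf 0 5002 0) P.nil))) (P.cons (P.cons (P.lf 6744 0 0) (P.cons (P.lf 7180 0 0) P.nil)) (P.cons (P.cons (P.lf 2096 0 0) P.nil) P.nil)))))) 3774)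
 EL.nil))
noncomputable def S169_183_512_660_14 : EL := (EL.cons 4 (TM.mk (P.cons (P.cons (P.lf 141569 0 0) (P.cons (P.lf 3468780 0 0) (P.cons (P.lf 21016283 0 0) (P.cons (P.lf 0 2918513 0) (P.cons (P.lf 0 852090 0) (P.cons (P.lf 63317 0 0) P.nil)))))) (P.cons (P.cons (P.lf 0 890702 0) (P.cons (P.lf 0 10579505 0) (P.cons (P.lf 4781951 0 0) (P.cons (P.lf 0 309066 0) (P.cons (P.lf 0 163398 0) P.nil))))) (P.cons (P.cons (P.lf 1559642 0 0) (P.cons (P.lf 884655 0 0) (P.cons (P.lf 0 20195 0) (P.cons (P.lf 0 24922 0) P.nil)))) (P.cons (P.cons (P.lf 0 496644 0) (P.cons (P.lf 254068 0 0) (P.cons (P.lf 0 62309 0) P.nil))) (P.cons (P.cons (P.lf 36093 0 0) (P.cons (P.lf 0 4468 0) P.nil)) (P.cons (P.cons (P.lf 3383 0 0) P.nil) P.nil)))))) 111062)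
 (EL.cons 8 (TM.mk (P.cons (P.cons (P.lf 106059 0 0) (P.cons (P.lf 2598694 0 0) (P.cons (P.lf 15744699 0 0) (P.cons (P.lf 0 2186453 0) (P.cons (P.lf 0 638358 0) (P.cons (P.lf 47436 0 0) P.nil)))))) (P.cons (P.cons (P.lf 0 655424 0) (P.cons (P.lf 0 7635194 0) (P.cons (P.lf 5343249 0 0) (P.cons (P.lf 0 476059 0) (P.cons (P.lf 0 193802 0) P.nil))))) (P.cons (P.cons (P.lf 1094733 0 0) (P.cons (P.lf 0 200946 0) (P.cons (P.lf 522814 0 0) (P.cons (P.lf 0 63633 0) P.nil)))) (P.cons (P.cons (P.lf 0 247139 0) (P.cons (P.lf 197320 0 0) (P.cons (P.lf 0 5115 0) P.nil))) (P.cons (P.cons (P.lf 0 4881 0) (P.cons (P.lf 17843 0 0) P.nil)) (P.cons (P.cons (P.lf 3162 0 0) P.nil) P.nil)))))) 72844)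
 EL.nil))
noncomputable def S169_183_512_660_15 : EL := (EL.cons 4 (TM.mk (P.cons (P.lf 0 1249254801 0) (P.cons (P.lf 171052227 0 0) (P.cons (P.lf 0 517650 0) (P.cons (P.lf 0 406274 0) (P.cons (P.lf 0 8126 0) (P.cons (P.lf 381 0 0) P.nil)))))) 91)
 (EL.cons 8 (TM.mk (P.cons (P.lf 0 935900056 0) (P.cons (P.lf 23482499 0 0) (P.cons (P.lf 5781364 0 0) (P.cons (P.lf 55645 0 0) (P.cons (P.lf 0 8213 0) (P.cons (P.lf 0 257 0) P.nil)))))) 65)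
 EL.nil))
noncomputable def S169_183_512_660_16 : EL := (EL.cons 4 (TM.mk (P.cons (P.cons (P.lf 9925245 0 0) (P.cons (P.lf 121595232 0 0) (P.cons (P.lf 0 8129572 0) (P.lf 0 2709856 0)))) (P.cons (P.cons (P.lf 0 32242113 0) (P.cons (P.lf 0 828155 0) (P.cons (P.lf 55368 0 0) (P.lf 18455 0 0)))) (P.cons (P.cons (P.lf 8753499 0 0) (P.cons (P.lf 0 1820682 0) (P.cons (P.lf 121725 0 0) (P.lf 40575 0 0)))) (P.cons (P.cons (P.lf 0 438517 0) (P.cons (P.lf 0 38933 0) (P.cons (P.lf 2601 0 0) P.nil))) (P.cons (P.cons (P.lf 0 44283 0) (P.cons (P.lf 9995 0 0) P.nil)) (P.cons (P.cons (P.lf 2070 0 0) P.nil) P.nil)))))) 5359)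
 (EL.cons 8 (TM.mk (P.cons (P.cons (P.lf 7435663 0 0) (P.cons (P.lf 91095094 0 0) (P.cons (P.lf 0 6090405 0) (P.lf 0 2030134 0)))) (P.cons (P.cons (P.lf 0 23323167 0) (P.cons (P.lf 9566973 0 0) (P.cons (P.lf 0 639625 0) (P.lf 0 213208 0)))) (P.cons (P.cons (P.lf 3921390 0 0) (P.cons (P.lf 0 638956 0) (P.cons (P.lf 42719 0 0) (P.lf 14239 0 0)))) (P.cons (P.cons (P.lf 199881 0 0) (P.cons (P.lf 0 117605 0) (P.cons (P.lf 7861 0 0) P.nil))) (P.cons (P.cons (P.lf 0 30661 0) (P.cons (P.lf 0 2059 0) P.nil)) (P.cons (P.cons (P.lf 0 1588 0) P.nil) P.nil)))))) 4286)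
 EL.nil))
noncomputable def S169_183_512_660_17 : EL := (EL.cons 4 (TM.mk (P.cons (P.cons (P.lf 0 78855 0) (P.cons (P.lf 0 1932131 0) (P.cons (P.lf 0 11706197 0) (P.cons (P.lf 1625629 0 0) (P.cons (P.lf 474619 0 0) (P.cons (P.lf 0 35268 0) P.nil)))))) (P.cons (P.cons (P.lf 501525 0 0) (P.cons (P.lf 6025125 0 0) (P.cons (P.lf 0 1862149 0) (P.cons (P.lf 60857 0 0) (P.cons (P.lf 58520 0 0) P.nil))))) (P.cons (P.cons (P.lf 0 902527 0) (P.cons (P.lf 0 892065 0) (P.cons (P.lf 218610 0 0) (P.cons (P.lf 0 1376 0) P.nil)))) (P.cons (P.cons (P.lf 335047 0 0) (P.cons (P.lf 0 120402 0) (P.cons (P.lf 39435 0 0) P.nil))) (P.cons (P.cons (P.lf 0 37179 0) (P.cons (P.lf 13321 0 0) P.nil)) (P.cons (P.cons (P.lf 0 1111 0) P.nil) P.nil)))))) 79209)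
 (EL.cons 8 (TM.mk (P.cons (P.cons (P.lf 0 59075 0) (P.cons (P.lf 0 1447488 0) (P.cons (P.lf 0 8769893 0) (P.cons (P.lf 1217867 0 0) (P.cons (P.lf 355568 0 0) (P.cons (P.lf 0 26421 0) P.nil)))))) (P.cons (P.cons (P.lf 369119 0 0) (P.cons (P.lf 4351947 0 0) (P.cons (P.lf 0 2375820 0) (P.cons (P.lf 181790 0 0) (P.cons (P.lf 83606 0 0) P.nil))))) (P.cons (P.cons (P.lf 0 634640 0) (P.cons (P.lf 0 176136 0) (P.cons (P.lf 0 68718 0) (P.cons (P.lf 14688 0 0) P.nil)))) (P.cons (P.cons (P.lf 178623 0 0) (P.cons (P.lf 0 126680 0) (P.cons (P.lf 29000 0 0) P.nil))) (P.cons (P.cons (P.lf 0 5396 0) (P.cons (P.lf 0 2587 0) P.nil)) (P.cons (P.cons (P.lf 0 2250 0) P.nil) P.nil)))))) 55307)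
 EL.nil))
noncomputable def S169_183_512_660_18 : EL := (EL.cons 4 (TM.mk (P.cons (P.lf 695842534 0 0) (P.cons (P.lf 0 142915698 0) (P.cons (P.lf 5324627 0 0) (P.cons (P.lf 421476 0 0) (P.cons (P.lf 0 11685 0) (P.cons (P.lf 0 1182 0) P.nil)))))) 113)
 (EL.cons 8 (TM.mk (P.cons (P.lf 521302032 0 0) (P.cons (P.lf 0 48769121 0) (P.cons (P.lf 0 3438450 0) (P.cons (P.lf 225935 0 0) (P.cons (P.lf 14451 0 0) (P.cons (P.lf 0 170 0) P.nil)))))) 84)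
 EL.nil))
noncomputable def S169_183_512_660_19 : EL := (EL.cons 4 (TM.mk (P.cons (P.cons (P.lf 0 5528422 0) (P.cons (P.lf 0 67729284 0) (P.cons (P.lf 4528221 0 0) (P.lf 1509405 0 0)))) (P.cons (P.cons (P.lf 18337538 0 0) (P.cons (P.lf 5098150 0 0) (P.cons (P.lf 0 340849 0) (P.lf 0 113616 0)))) (P.cons (P.cons (P.lf 0 6093449 0) (P.cons (P.lf 1127241 0 0) (P.cons (P.lf 0 75364 0) (P.lf 0 25121 0)))) (P.cons (P.cons (P.lf 539602 0 0) (P.cons (P.lf 0 49835 0) (P.cons (P.lf 3331 0 0) P.nil))) (P.cons (P.cons (P.lf 18642 0 0) (P.cons (P.lf 0 9352 0) P.nil)) (P.cons (P.cons (P.lf 0 3405 0) P.nil) P.nil)))))) 6382)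
 (EL.cons 8 (TM.mk (P.cons (P.cons (P.lf 0 4141709 0) (P.cons (P.lf 0 50740522 0) (P.cons (P.lf 3392392 0 0) (P.lf 1130797 0 0)))) (P.cons (P.cons (P.lf 13274694 0 0) (P.cons (P.lf 0 1855080 0) (P.cons (P.lf 124026 0 0) (P.lf 41342 0 0)))) (P.cons (P.cons (P.lf 0 3064786 0) (P.cons (P.lf 829123 0 0) (P.cons (P.lf 0 55433 0) (P.lf 0 18477 0)))) (P.cons (P.cons (P.lf 10380 0 0) (P.cons (P.lf 51695 0 0) (P.cons (P.lf 0 3455 0) P.nil))) (P.cons (P.cons (P.lf 29570 0 0) (P.cons (P.lf 0 4290 0) P.nil)) (P.cons (P.cons (P.lf 0 54 0) P.nil) P.nil)))))) 3603)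
 EL.nil))
noncomputable def S169_183_512_660_20 : EL := (EL.cons 4 (TM.mk (P.cons (P.cons (P.lf 43922 0 0) (P.cons (P.lf 1076208 0 0) (P.cons (P.lf 6520423 0 0) (P.cons (P.lf 0 905485 0) (P.cons (P.lf 0 264365 0) (P.cons (P.lf 19644 0 0) P.nil)))))) (P.cons (P.cons (P.lf 0 282359 0) (P.cons (P.lf 0 3429710 0) (P.cons (P.lf 590829 0 0) (P.cons (P.lf 28092 0 0) (P.cons (P.lf 0 14497 0) P.nil))))) (P.cons (P.cons (P.lf 521744 0 0) (P.cons (P.lf 724346 0 0) (P.cons (P.lf 0 206707 0) (P.cons (P.lf 5021 0 0) P.nil)))) (P.cons (P.cons (P.lf 0 220441 0) (P.cons (P.lf 40234 0 0) (P.cons (P.lf 0 15737 0) P.nil))) (P.cons (P.cons (P.lf 32407 0 0) (P.cons (P.lf 0 13125 0) P.nil)) (P.cons (P.cons (P.lf 0 390 0) P.nil) P.nil)))))) 60810)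
 (EL.cons 8 (TM.mk (P.cons (P.cons (P.lf 32905 0 0) (P.cons (P.lf 806259 0 0) (P.cons (P.lf 4884883 0 0) (P.cons (P.lf 0 678359 0) (P.cons (P.lf 0 198054 0) (P.cons (P.lf 14717 0 0) P.nil)))))) (P.cons (P.cons (P.lf 0 207854 0) (P.cons (P.lf 0 2479258 0) (P.cons (P.lf 988918 0 0) (P.cons (P.lf 0 54816 0) (P.cons (P.lf 0 33009 0) P.nil))))) (P.cons (P.cons (P.lf 367504 0 0) (P.cons (P.lf 262341 0 0) (P.cons (P.lf 0 62757 0) (P.cons (P.lf 199 0 0) P.nil)))) (P.cons (P.cons (P.lf 0 123255 0) (P.cons (P.lf 69036 0 0) (P.cons (P.lf 0 21521 0) P.nil))) (P.cons (P.cons (P.lf 9059 0 0) (P.cons (P.lf 0 3637 0) P.nil)) (P.cons (P.cons (P.lf 1265 0 0) P.nil) P.nil)))))) 37847)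
 EL.nil))
noncomputable def S169_183_512_660_21 : EL := (EL.cons 4 (TM.mk (P.cons (P.cons (P.lf 0 1278388548 0) (P.cons (P.lf 654904320 0 0) (P.cons (P.lf 0 43785372 0) (P.lf 0 14595120 0)))) (P.cons (P.cons (P.lf 343162410 0 0) (P.cons (P.lf 40375467 0 0) (P.cons (P.lf 0 2699406 0) (P.lf 0 899799 0)))) (P.cons (P.cons (P.lf 34068951 0 0) (P.cons (P.lf 0 5642823 0) (P.cons (P.lf 377265 0 0) (P.lf 125751 0 0)))) (P.cons (P.cons (P.lf 0 1505946 0) (P.cons (P.lf 0 520464 0) (P.cons (P.lf 34788 0 0) P.nil))) (P.cons (P.cons (P.lf 0 203775 0) (P.cons (P.lf 4119 0 0) P.nil)) (P.cons (P.cons (P.lf 0 822 0) P.nil) P.nil)))))) 19149)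
 (EL.cons 8 (TM.mk (P.cons (P.cons (P.lf 606725001 0 0) (P.cons (P.lf 0 310818519 0) (P.cons (P.lf 20780607 0 0) (P.lf 6926874 0 0)))) (P.cons (P.cons (P.lf 0 230716989 0) (P.cons (P.lf 15597378 0 0) (P.cons (P.lf 0 1042803 0) (P.lf 0 347598 0)))) (P.cons (P.cons (P.lf 4341369 0 0) (P.cons (P.lf 3644379 0 0) (P.cons (P.lf 0 243651 0) (P.lf 0 81216 0)))) (P.cons (P.cons (P.lf 1778277 0 0) (P.cons (P.lf 0 59385 0) (P.cons (P.lf 3969 0 0) P.nil))) (P.cons (P.cons (P.lf 0 4461 0) (P.cons (P.lf 0 18240 0) P.nil)) (P.cons (P.cons (P.lf 0 6060 0) P.nil) P.nil)))))) 15819)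
 (EL.cons 11 (TM.mk (P.cons (P.cons (P.lf 1829085723 0 0) (P.cons (P.lf 0 283188402 0) (P.cons (P.lf 0 136431240 0) (P.cons (P.lf 5162958 0 0) (P.lf 1290738 0 0))))) (P.cons (P.cons (P.lf 158658132 0 0) (P.cons (P.lf 0 24564261 0) (P.cons (P.lf 0 11834286 0) (P.cons (P.lf 447843 0 0) (P.lf 111960 0 0))))) (P.cons (P.cons (P.lf 0 480135 0) (P.cons (P.lf 74337 0 0) (P.cons (P.lf 35811 0 0) (P.cons (P.lf 0 1353 0) P.nil)))) (P.cons (P.cons (P.lf 0 376833 0) (P.cons (P.lf 58341 0 0) (P.cons (P.lf 28107 0 0) P.nil))) (P.cons (P.cons (P.lf 0 7536 0) (P.cons (P.lf 1167 0 0) P.nil)) (P.cons (P.cons (P.lf 351 0 0) P.nil) P.nil)))))) 2619)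
 EL.nil)))
noncomputable def S169_183_512_660_22 : EL := (EL.cons 4 (TM.mk (P.cons (P.cons (P.lf 10156710 0 0) (P.cons (P.lf 119227770 0 0) (P.cons (P.lf 0 71715885 0) (P.cons (P.lf 5866533 0 0) (P.cons (P.lf 2556273 0 0) (P.cons (P.lf 0 189954 0) P.nil)))))) (P.cons (P.cons (P.lf 0 34329738 0) (P.cons (P.lf 0 1342143 0) (P.cons (P.lf 0 12134157 0) (P.cons (P.lf 1664430 0 0) (P.cons (P.lf 490197 0 0) P.nil))))) (P.cons (P.cons (P.lf 12838914 0 0) (P.cons (P.lf 0 8686914 0) (P.cons (P.lf 463935 0 0) (P.cons (P.lf 209217 0 0) P.nil)))) (P.cons (P.cons (P.lf 0 193152 0) (P.cons (P.lf 0 792729 0) (P.cons (P.lf 188967 0 0) P.nil))) (P.cons (P.cons (P.lf 0 221493 0) (P.cons (P.lf 47589 0 0) P.nil)) (P.cons (P.cons (P.lf 0 2652 0) P.nil) P.nil)))))) 226872)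
 (EL.cons 8 (TM.mk (P.cons (P.cons (P.lf 0 4820388 0) (P.cons (P.lf 0 56585667 0) (P.cons (P.lf 34036461 0 0) (P.cons (P.lf 0 2784264 0) (P.cons (P.lf 0 1213212 0) (P.cons (P.lf 90153 0 0) P.nil)))))) (P.cons (P.cons (P.lf 16832019 0 0) (P.cons (P.lf 6965103 0 0) (P.cons (P.lf 1952502 0 0) (P.cons (P.lf 0 478569 0) (P.cons (P.lf 0 96972 0) P.nil))))) (P.cons (P.cons (P.lf 0 7933695 0) (P.cons (P.lf 3837369 0 0) (P.cons (P.lf 0 735363 0) (P.cons (P.lf 0 21495 0) P.nil)))) (P.cons (P.cons (P.lf 835803 0 0) (P.cons (P.lf 0 70473 0) (P.cons (P.lf 0 50445 0) P.nil))) (P.cons (P.cons (P.lf 68316 0 0) (P.cons (P.lf 0 49707 0) P.nil)) (P.cons (P.cons (P.lf 0 8709 0) P.nil) P.nil)))))) 107586)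
 (EL.cons 11 (TM.mk (P.cons (P.cons (P.lf 0 14531964 0) (P.cons (P.lf 0 175782705 0) (P.cons (P.lf 40550700 0 0) (P.cons (P.lf 15363162 0 0) (P.cons (P.lf 0 2014905 0) (P.cons (P.lf 0 387978 0) P.nil)))))) (P.cons (P.cons (P.lf 43956720 0 0) (P.cons (P.lf 0 45412764 0) (P.cons (P.lf 5279814 0 0) (P.cons (P.lf 3464538 0 0) (P.cons (P.lf 0 403695 0) P.nil))))) (P.cons (P.cons (P.lf 0 2692998 0) (P.cons (P.lf 0 1977858 0) (P.cons (P.lf 731757 0 0) (P.cons (P.lf 199608 0 0) P.nil)))) (P.cons (P.cons (P.lf 0 861282 0) (P.cons (P.lf 203934 0 0) (P.cons (P.lf 48594 0 0) P.nil))) (P.cons (P.cons (P.lf 0 16785 0) (P.cons (P.lf 17061 0 0) P.nil)) (P.cons (P.cons (P.lf 3510 0 0) P.nil) P.nil)))))) 200115)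
 EL.nil)))
noncomputable def S169_183_512_660_23 : EL := (EL.cons 4 (TM.mk (P.cons (P.cons (P.lf 712070208 0 0) (P.cons (P.lf 0 364785693 0) (P.cons (P.lf 24388716 0 0) (P.lf 8129568 0 0)))) (P.cons (P.cons (P.lf 0 239893092 0) (P.cons (P.lf 2484468 0 0) (P.cons (P.lf 0 166107 0) (P.lf 0 55368 0)))) (P.cons (P.cons (P.lf 0 7411806 0) (P.cons (P.lf 5462046 0 0) (P.cons (P.lf 0 365178 0) (P.lf 0 121722 0)))) (P.cons (P.cons (P.lf 2557977 0 0) (P.cons (P.lf 116799 0 0) (P.cons (P.lf 0 7803 0) P.nil))) (P.cons (P.cons (P.lf 94977 0 0) (P.cons (P.lf 0 29985 0) P.nil)) (P.cons (P.cons (P.lf 0 9795 0) P.nil) P.nil)))))) 20823)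
 (EL.cons 8 (TM.mk (P.cons (P.cons (P.lf 0 337949520 0) (P.cons (P.lf 173127807 0 0) (P.cons (P.lf 0 11574924 0) (P.lf 0 3858309 0)))) (P.cons (P.cons (P.lf 151647366 0 0) (P.cons (P.lf 0 20540457 0) (P.cons (P.lf 1373286 0 0) (P.lf 457758 0 0)))) (P.cons (P.cons (P.lf 0 10494267 0) (P.cons (P.lf 0 1805013 0) (P.cons (P.lf 120675 0 0) (P.lf 40224 0 0)))) (P.cons (P.cons (P.lf 0 1105023 0) (P.cons (P.lf 193440 0 0) (P.cons (P.lf 0 12930 0) P.nil))) (P.cons (P.cons (P.lf 76857 0 0) (P.cons (P.lf 12450 0 0) P.nil)) (P.cons (P.cons (P.lf 5541 0 0) P.nil) P.nil)))))) 14790)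
 (EL.cons 11 (TM.mk (P.cons (P.cons (P.lf 0 1018811889 0) (P.cons (P.lf 157737663 0 0) (P.cons (P.lf 75993030 0 0) (P.cons (P.lf 0 2875797 0) (P.lf 0 718947 0))))) (P.cons (P.cons (P.lf 0 18623946 0) (P.cons (P.lf 2883453 0 0) (P.cons (P.lf 1389156 0 0) (P.cons (P.lf 0 52569 0) (P.lf 0 13140 0))))) (P.cons (P.cons (P.lf 8494146 0 0) (P.cons (P.lf 0 1315107 0) (P.cons (P.lf 0 633576 0) (P.cons (P.lf 23973 0 0) P.nil)))) (P.cons (P.cons (P.lf 363723 0 0) (P.cons (P.lf 0 56310 0) (P.cons (P.lf 0 27129 0) P.nil))) (P.cons (P.cons (P.lf 0 14316 0) (P.cons (P.lf 2214 0 0) P.nil)) (P.cons (P.cons (P.lf 0 1137 0) P.nil) P.nil)))))) 9861)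
 EL.nil)))
noncomputable def S169_183_512_660_24 : EL := (EL.cons 4 (TM.mk (P.cons (P.cons (P.lf 0 5657349 0) (P.cons (P.lf 0 66410592 0) (P.cons (P.lf 39946185 0 0) (P.cons (P.lf 0 3267693 0) (P.cons (P.lf 0 1423860 0) (P.cons (P.lf 105804 0 0) P.nil)))))) (P.cons (P.cons (P.lf 19509186 0 0) (P.cons (P.lf 5294163 0 0) (P.cons (P.lf 4024014 0 0) (P.cons (P.lf 0 703386 0) (P.cons (P.lf 0 175563 0) P.nil))))) (P.cons (P.cons (P.lf 0 8448381 0) (P.cons (P.lf 4929357 0 0) (P.cons (P.lf 0 806472 0) (P.cons (P.lf 0 46083 0) P.nil)))) (P.cons (P.cons (P.lf 556236 0 0) (P.cons (P.lf 107607 0 0) (P.cons (P.lf 0 101349 0) P.nil))) (P.cons (P.cons (P.lf 131586 0 0) (P.cons (P.lf 0 67200 0) P.nil)) (P.cons (P.cons (P.lf 0 7272 0) P.nil) P.nil)))))) 128871)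
 (EL.cons 8 (TM.mk (P.cons (P.cons (P.lf 2684985 0 0) (P.cons (P.lf 31518561 0 0) (P.cons (P.lf 0 18958515 0) (P.cons (P.lf 1550853 0 0) (P.cons (P.lf 675765 0 0) (P.cons (P.lf 0 50214 0) P.nil)))))) (P.cons (P.cons (P.lf 0 9559356 0) (P.cons (P.lf 0 6037419 0) (P.cons (P.lf 210375 0 0) (P.cons (P.lf 160392 0 0) (P.cons (P.lf 7749 0 0) P.nil))))) (P.cons (P.cons (P.lf 5055246 0 0) (P.cons (P.lf 0 1939167 0) (P.cons (P.lf 524559 0 0) (P.cons (P.lf 0 9588 0) P.nil)))) (P.cons (P.cons (P.lf 0 748014 0) (P.cons (P.lf 194388 0 0) (P.cons (P.lf 2070 0 0) P.nil))) (P.cons (P.cons (P.lf 0 15768 0) (P.cons (P.lf 29568 0 0) P.nil)) (P.cons (P.cons (P.lf 8502 0 0) P.nil) P.nil)))))) 62760)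
 (EL.cons 11 (TM.mk (P.cons (P.cons (P.lf 8094390 0 0) (P.cons (P.lf 97912035 0 0) (P.cons (P.lf 0 22586988 0) (P.cons (P.lf 0 8557374 0) (P.cons (P.lf 1122312 0 0) (P.cons (P.lf 216105 0 0) P.nil)))))) (P.cons (P.cons (P.lf 0 25038315 0) (P.cons (P.lf 18591960 0 0) (P.cons (P.lf 0 1394544 0) (P.cons (P.lf 0 1343916 0) (P.cons (P.lf 148026 0 0) P.nil))))) (P.cons (P.cons (P.lf 3158952 0 0) (P.cons (P.lf 0 839241 0) (P.cons (P.lf 0 158001 0) (P.cons (P.lf 39213 0 0) P.nil)))) (P.cons (P.cons (P.lf 429483 0 0) (P.cons (P.lf 0 241452 0) (P.cons (P.lf 6747 0 0) P.nil))) (P.cons (P.cons (P.lf 0 27081 0) (P.cons (P.lf 0 3462 0) P.nil)) (P.cons (P.cons (P.lf 0 3645 0) P.nil) P.nil)))))) 109083)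
 EL.nil)))
noncomputable def S169_183_512_660_25 : EL := (EL.cons 4 (TM.mk (P.cons (P.cons (P.lf 0 396627441 0) (P.cons (P.lf 203187852 0 0) (P.cons (P.lf 0 13584663 0) (P.lf 0 4528218 0)))) (P.cons (P.cons (P.lf 160775703 0 0) (P.cons (P.lf 0 15294450 0) (P.cons (P.lf 1022550 0 0) (P.lf 340851 0 0)))) (P.cons (P.cons (P.lf 0 4172238 0) (P.cons (P.lf 0 3381723 0) (P.cons (P.lf 226092 0 0) (P.lf 75363 0 0)))) (P.cons (P.cons (P.lf 0 1999392 0) (P.cons (P.lf 149505 0 0) (P.cons (P.lf 0 9996 0) P.nil))) (P.cons (P.cons (P.lf 37176 0 0) (P.cons (P.lf 28056 0 0) P.nil)) (P.cons (P.cons (P.lf 12459 0 0) P.nil) P.nil)))))) 17259)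
 (EL.cons 8 (TM.mk (P.cons (P.cons (P.lf 188239941 0 0) (P.cons (P.lf 0 96433242 0) (P.cons (P.lf 6447303 0 0) (P.lf 2149101 0 0)))) (P.cons (P.cons (P.lf 0 97355733 0) (P.cons (P.lf 18043143 0 0) (P.cons (P.lf 0 1206321 0) (P.lf 0 402105 0)))) (P.cons (P.cons (P.lf 11226087 0 0) (P.cons (P.lf 428133 0 0) (P.cons (P.lf 0 28620 0) (P.lf 0 9540 0)))) (P.cons (P.cons (P.lf 398850 0 0) (P.cons (P.lf 0 202596 0) (P.cons (P.lf 13542 0 0) P.nil))) (P.cons (P.cons (P.lf 0 98424 0) (P.cons (P.lf 0 1719 0) P.nil)) (P.cons (P.cons (P.lf 0 1545 0) P.nil) P.nil)))))) 12009)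
 (EL.cons 11 (TM.mk (P.cons (P.cons (P.lf 567484428 0 0) (P.cons (P.lf 0 87860838 0) (P.cons (P.lf 0 42328581 0) (P.cons (P.lf 1601835 0 0) (P.lf 400458 0 0))))) (P.cons (P.cons (P.lf 0 28477299 0) (P.cons (P.lf 4409001 0 0) (P.cons (P.lf 2124117 0 0) (P.cons (P.lf 0 80382 0) (P.lf 0 20094 0))))) (P.cons (P.cons (P.lf 0 6653817 0) (P.cons (P.lf 1030176 0 0) (P.cons (P.lf 496305 0 0) (P.cons (P.lf 0 18780 0) P.nil)))) (P.cons (P.cons (P.lf 108432 0 0) (P.cons (P.lf 0 16788 0) (P.cons (P.lf 0 8088 0) P.nil))) (P.cons (P.cons (P.lf 33306 0 0) (P.cons (P.lf 0 5154 0) P.nil)) (P.cons (P.cons (P.lf 477 0 0) P.nil) P.nil)))))) 9750)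
 EL.nil)))
noncomputable def S169_183_512_660_26 : EL := (EL.cons 4 (TM.mk (P.cons (P.cons (P.lf 3151176 0 0) (P.cons (P.lf 36991104 0 0) (P.cons (P.lf 0 22250268 0) (P.cons (P.lf 1820124 0 0) (P.cons (P.lf 793098 0 0) (P.cons (P.lf 0 58935 0) P.nil)))))) (P.cons (P.cons (P.lf 0 11082468 0) (P.cons (P.lf 0 5481354 0) (P.cons (P.lf 0 718110 0) (P.cons (P.lf 267180 0 0) (P.cons (P.lf 43491 0 0) P.nil))))) (P.cons (P.cons (P.lf 5443023 0 0) (P.cons (P.lf 0 2622822 0) (P.cons (P.lf 650193 0 0) (P.cons (P.lf 0 5040 0) P.nil)))) (P.cons (P.cons (P.lf 0 608727 0) (P.cons (P.lf 134937 0 0) (P.cons (P.lf 30123 0 0) P.nil))) (P.cons (P.cons (P.lf 0 62307 0) (P.cons (P.lf 47427 0 0) P.nil)) (P.cons (P.cons (P.lf 9783 0 0) P.nil) P.nil)))))) 76938)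
 (EL.cons 8 (TM.mk (P.cons (P.cons (P.lf 0 1495551 0) (P.cons (P.lf 0 17556030 0) (P.cons (P.lf 10560006 0 0) (P.cons (P.lf 0 863832 0) (P.cons (P.lf 0 376404 0) (P.cons (P.lf 27969 0 0) P.nil)))))) (P.cons (P.cons (P.lf 5427006 0 0) (P.cons (P.lf 4564794 0 0) (P.cons (P.lf 0 840135 0) (P.cons (P.lf 0 30198 0) (P.cons (P.lf 21450 0 0) P.nil))))) (P.cons (P.cons (P.lf 0 3177141 0) (P.cons (P.lf 887403 0 0) (P.cons (P.lf 0 306717 0) (P.cons (P.lf 13302 0 0) P.nil)))) (P.cons (P.cons (P.lf 598023 0 0) (P.cons (P.lf 0 189693 0) (P.cons (P.lf 19272 0 0) P.nil))) (P.cons (P.cons (P.lf 0 13641 0) (P.cons (P.lf 0 11346 0) P.nil)) (P.cons (P.cons (P.lf 0 6261 0) P.nil) P.nil)))))) 38832)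
 (EL.cons 11 (TM.mk (P.cons (P.cons (P.lf 0 4508625 0) (P.cons (P.lf 0 54537600 0) (P.cons (P.lf 12581088 0 0) (P.cons (P.lf 4766508 0 0) (P.cons (P.lf 0 625134 0) (P.cons (P.lf 0 120372 0) P.nil)))))) (P.cons (P.cons (P.lf 14255163 0 0) (P.cons (P.lf 0 6622098 0) (P.cons (P.lf 0 84552 0) (P.cons (P.lf 422247 0 0) (P.cons (P.lf 0 39651 0) P.nil))))) (P.cons (P.cons (P.lf 0 2704725 0) (P.cons (P.lf 1292949 0 0) (P.cons (P.lf 7950 0 0) (P.cons (P.lf 0 83271 0) P.nil)))) (P.cons (P.cons (P.lf 0 148629 0) (P.cons (P.lf 123717 0 0) (P.cons (P.lf 0 11238 0) P.nil))) (P.cons (P.cons (P.lf 35439 0 0) (P.cons (P.lf 0 8559 0) P.nil)) (P.cons (P.cons (P.lf 1509 0 0) P.nil) P.nil)))))) 60450)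
 EL.nil)))
noncomputable def S169_183_512_660_27 : EL := (EL.cons 13 (TM.mk (P.lf 0 4294967296 0) 0)
 EL.nil)
noncomputable def S169_183_512_660_28 : EL := (EL.cons 13 (TM.mk (P.cons (P.cons (P.lf 34123230 0 0) (P.cons (P.lf 418047260 0 0) (P.cons (P.lf 0 27949664 0) (P.lf 0 9316552 0)))) (P.cons (P.cons (P.lf 0 106176875 0) (P.cons (P.lf 54393236 0 0) (P.cons (P.lf 0 3636604 0) (P.lf 0 1212200 0)))) (P.cons (P.cons (P.lf 15542497 0 0) (P.cons (P.lf 1014932 0 0) (P.cons (P.lf 0 67856 0) (P.lf 0 22620 0)))) (P.cons (P.cons (P.lf 653396 0 0) (P.cons (P.lf 0 153380 0) (P.cons (P.lf 10252 0 0) P.nil))) (P.cons (P.cons (P.lf 0 34916 0) (P.cons (P.lf 0 7464 0) P.nil)) (P.cons (P.cons (P.lf 0 2286 0) P.nil) P.nil)))))) 4931)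
 EL.nil)
noncomputable def S169_183_512_660_29 : EL := (EL.cons 13 (TM.mk (P.cons (P.cons (P.lf 0 271106 0) (P.cons (P.lf 0 6642715 0) (P.cons (P.lf 0 40246184 0) (P.cons (P.lf 5588955 0 0) (P.cons (P.lf 1631754 0 0) (P.cons (P.lf 0 121255 0) P.nil)))))) (P.cons (P.cons (P.lf 1687136 0 0) (P.cons (P.lf 19804983 0 0) (P.cons (P.lf 0 11912760 0) (P.cons (P.lf 974492 0 0) (P.cons (P.lf 424623 0 0) P.nil))))) (P.cons (P.cons (P.lf 0 2871791 0) (P.cons (P.lf 0 352425 0) (P.cons (P.lf 0 862871 0) (P.cons (P.lf 126383 0 0) P.nil)))) (P.cons (P.cons (P.lf 758076 0 0) (P.cons (P.lf 0 468250 0) (P.cons (P.lf 35457 0 0) P.nil))) (P.cons (P.cons (P.lf 0 23384 0) (P.cons (P.lf 0 24563 0) P.nil)) (P.cons (P.cons (P.lf 0 6418 0) P.nil) P.nil)))))) 141438)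
 EL.nil)
noncomputable def S169_183_512_660_30 : EL := (EL.cons 13 (TM.mk (P.cons (P.lf 2392322948 0 0) (P.cons (P.lf 0 163782508 0) (P.cons (P.lf 0 5110764 0) (P.cons (P.lf 39116 0 0) (P.cons (P.lf 5000 0 0) (P.cons (P.lf 60 0 0) P.nil)))))) 56)
 EL.nil)
noncomputable def S169_183_512_660_31 : EL := (EL.cons 13 (TM.mk (P.cons (P.cons (P.lf 0 19006846 0) (P.cons (P.lf 0 232854870 0) (P.cons (P.lf 15568133 0 0) (P.lf 5189376 0 0)))) (P.cons (P.cons (P.lf 60442407 0 0) (P.cons (P.lf 0 14355722 0) (P.cons (P.lf 959789 0 0) (P.lf 319929 0 0)))) (P.cons (P.cons (P.lf 0 12665565 0) (P.cons (P.lf 2006338 0 0) (P.cons (P.lf 0 134139 0) (P.lf 0 44712 0)))) (P.cons (P.cons (P.lf 102090 0 0) (P.cons (P.lf 185054 0 0) (P.cons (P.lf 0 12370 0) P.nil))) (P.cons (P.cons (P.lf 63786 0 0) (P.cons (P.lf 0 1465 0) P.nil)) (P.cons (P.cons (P.lf 700 0 0) P.nil) P.nil)))))) 6680)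
 EL.nil)
noncomputable def S169_183_512_660_32 : EL := (EL.cons 13 (TM.mk (P.cons (P.cons (P.lf 151007 0 0) (P.cons (P.lf 3700032 0 0) (P.cons (P.lf 22417369 0 0) (P.cons (P.lf 0 3113081 0) (P.cons (P.lf 0 908896 0) (P.cons (P.lf 67539 0 0) P.nil)))))) (P.cons (P.cons (P.lf 0 950083 0) (P.cons (P.lf 0 11284806 0) (P.cons (P.lf 5100748 0 0) (P.cons (P.lf 0 329671 0) (P.cons (P.lf 0 174292 0) P.nil))))) (P.cons (P.cons (P.lf 1663619 0 0) (P.cons (P.lf 943633 0 0) (P.cons (P.lf 0 21542 0) (P.cons (P.lf 0 26584 0) P.nil)))) (P.cons (P.cons (P.lf 0 529754 0) (P.cons (P.lf 271006 0 0) (P.cons (P.lf 0 66463 0) P.nil))) (P.cons (P.cons (P.lf 38500 0 0) (P.cons (P.lf 0 4766 0) P.nil)) (P.cons (P.cons (P.lf 3609 0 0) P.nil) P.nil)))))) 118443)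
 EL.nil)
noncomputable def S169_183_512_660_33 : EL := (EL.cons 14 (TM.mk (P.lf 8589934592 0 0) 0)
 EL.nil)
noncomputable def S169_183_512_660_34 : EL := (EL.cons 14 (TM.mk (P.cons (P.cons (P.lf 0 68246460 0) (P.cons (P.lf 0 836094520 0) (P.cons (P.lf 55899328 0 0) (P.lf 18633104 0 0)))) (P.cons (P.cons (P.lf 212353750 0 0) (P.cons (P.lf 0 108786472 0) (P.cons (P.lf 7273208 0 0) (P.lf 2424400 0 0)))) (P.cons (P.cons (P.lf 0 31084994 0) (P.cons (P.lf 0 2029864 0) (P.cons (P.lf 135712 0 0) (P.lf 45240 0 0)))) (P.cons (P.cons (P.lf 0 1306792 0) (P.cons (P.lf 306760 0 0) (P.cons (P.lf 0 20504 0) P.nil))) (P.cons (P.cons (P.lf 69832 0 0) (P.cons (P.lf 14928 0 0) P.nil)) (P.cons (P.cons (P.lf 4572 0 0) P.nil) P.nil)))))) 9862)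
 EL.nil)
noncomputable def S169_183_512_660_35 : EL := (EL.cons 14 (TM.mk (P.cons (P.cons (P.lf 542212 0 0) (P.cons (P.lf 13285430 0 0) (P.cons (P.lf 80492368 0 0) (P.cons (P.lf 0 11177910 0) (P.cons (P.lf 0 3263508 0) (P.cons (P.lf 242510 0 0) P.nil)))))) (P.cons (P.cons (P.lf 0 3374272 0) (P.cons (P.lf 0 39609966 0) (P.cons (P.lf 23825520 0 0) (P.cons (P.lf 0 1948984 0) (P.cons (P.lf 0 849246 0) P.nil))))) (P.cons (P.cons (P.lf 5743582 0 0) (P.cons (P.lf 704850 0 0) (P.cons (P.lf 1725742 0 0) (P.cons (P.lf 0 252766 0) P.nil)))) (P.cons (P.cons (P.lf 0 1516152 0) (P.cons (P.lf 936500 0 0) (P.cons (P.lf 0 70914 0) P.nil))) (P.cons (P.cons (P.lf 46768 0 0) (P.cons (P.lf 49126 0 0) P.nil)) (P.cons (P.cons (P.lf 12836 0 0) P.nil) P.nil)))))) 282876)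
 EL.nil)
noncomputable def S169_183_512_660_36 : EL := (EL.cons 14 (TM.mk (P.cons (P.lf 0 4784645896 0) (P.cons (P.lf 327565016 0 0) (P.cons (P.lf 10221528 0 0) (P.cons (P.lf 0 78232 0) (P.cons (P.lf 0 10000 0) (P.cons (P.lf 0 120 0) P.nil)))))) 112)
 EL.nil)
noncomputable def S169_183_512_660_37 : EL := (EL.cons 14 (TM.mk (P.cons (P.cons (P.lf 38013692 0 0) (P.cons (P.lf 465709740 0 0) (P.cons (P.lf 0 31136266 0) (P.lf 0 10378752 0)))) (P.cons (P.cons (P.lf 0 120884814 0) (P.cons (P.lf 28711444 0 0) (P.cons (P.lf 0 1919578 0) (P.lf 0 639858 0)))) (P.cons (P.cons (P.lf 25331130 0 0) (P.cons (P.lf 0 4012676 0) (P.cons (P.lf 268278 0 0) (P.lf 89424 0 0)))) (P.cons (P.cons (P.lf 0 204180 0) (P.cons (P.lf 0 370108 0) (P.cons (P.lf 24740 0 0) P.nil))) (P.cons (P.cons (P.lf 0 127572 0) (P.cons (P.lf 2930 0 0) P.nil)) (P.cons (P.cons (P.lf 0 1400 0) P.nil) P.nil))))))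 13360)
 EL.nil)
noncomputable def S169_183_512_660_38 : EL := (EL.cons 14 (TM.mk (P.cons (P.cons (P.lf 0 302014 0) (P.cons (P.lf 0 7400064 0) (P.cons (P.lf 0 44834738 0) (P.cons (P.lf 6226162 0 0) (P.cons (P.lf 1817792 0 0) (P.cons (P.lf 0 135078 0) P.nil)))))) (P.cons (P.cons (P.lf 1900166 0 0) (P.cons (P.lf 22569612 0 0) (P.cons (P.lf 0 10201496 0) (P.cons (P.lf 659342 0 0) (P.cons (P.lf 348584 0 0) P.nil))))) (P.cons (P.cons (P.lf 0 3327238 0) (P.cons (P.lf 0 1887266 0) (P.cons (P.lf 43084 0 0) (P.cons (P.lf 53168 0 0) P.nil)))) (P.cons (P.cons (P.lf 1059508 0 0) (P.cons (P.lf 0 542012 0) (P.cons (P.lf 132926 0 0) P.nil))) (P.cons (P.cons (P.lf 0 77000 0) (P.cons (P.lf 9532 0 0) P.nil)) (P.cons (P.cons (P.lf 0 7218 0) P.nil) P.nil)))))) 236886)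
 EL.nil)
noncomputable def S169_183_512_660_39 : EL := (EL.cons 14 (TM.mk (P.cons (P.lf 2665076910 0 0) (P.cons (P.lf 0 364911418 0) (P.cons (P.lf 1104322 0 0) (P.cons (P.lf 866718 0 0) (P.cons (P.lf 17336 0 0) (P.cons (P.lf 0 814 0) P.nil)))))) 180)
 EL.nil)
noncomputable def S169_183_512_660_40 : EL := (EL.cons 14 (TM.mk (P.cons (P.cons (P.lf 0 21173858 0) (P.cons (P.lf 0 259403162 0) (P.cons (P.lf 17343088 0 0) (P.lf 5781028 0 0)))) (P.cons (P.cons (P.lf 68783176 0 0) (P.cons (P.lf 1766732 0 0) (P.cons (P.lf 0 118120 0) (P.lf 0 39372 0)))) (P.cons (P.cons (P.lf 0 18674132 0) (P.cons (P.lf 3884122 0 0) (P.cons (P.lf 0 259682 0) (P.lf 0 86560 0)))) (P.cons (P.cons (P.lf 935504 0 0) (P.cons (P.lf 83058 0 0) (P.cons (P.lf 0 5550 0) P.nil))) (P.cons (P.cons (P.lf 94472 0 0) (P.cons (P.lf 0 21324 0) P.nil)) (P.cons (P.cons (P.lf 0 4416 0) P.nil) P.nil)))))) 11392)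
 EL.nil)
noncomputable def S169_183_512_660_41 : EL := (EL.cons 14 (TM.mk (P.cons (P.cons (P.lf 168224 0 0) (P.cons (P.lf 4121880 0 0) (P.cons (P.lf 24973222 0 0) (P.cons (P.lf 0 3468010 0) (P.cons (P.lf 0 1012522 0) (P.cons (P.lf 75240 0 0) P.nil)))))) (P.cons (P.cons (P.lf 0 1069920 0) (P.cons (P.lf 0 12853602 0) (P.cons (P.lf 3972586 0 0) (P.cons (P.lf 0 129830 0) (P.cons (P.lf 0 124844 0) P.nil))))) (P.cons (P.cons (P.lf 1925392 0 0) (P.cons (P.lf 1903072 0 0) (P.cons (P.lf 0 466368 0) (P.cons (P.lf 2936 0 0) P.nil)))) (P.cons (P.cons (P.lf 0 714768 0) (P.cons (P.lf 256858 0 0) (P.cons (P.lf 0 84128 0) P.nil))) (P.cons (P.cons (P.lf 79316 0 0) (P.cons (P.lf 0 28420 0) P.nil)) (P.cons (P.cons (P.lf 2372 0 0) P.nil) P.nil)))))) 168934)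
 EL.nil)
noncomputable def S169_183_512_660_42 : EL := (EL.cons 14 (TM.mk (P.cons (P.lf 0 1484464074 0) (P.cons (P.lf 304886824 0 0) (P.cons (P.lf 0 11359206 0) (P.cons (P.lf 0 899150 0) (P.cons (P.lf 24928 0 0) (P.cons (P.lf 2522 0 0) P.nil)))))) 228)
 EL.nil)
noncomputable def S169_183_512_660_43 : EL := (EL.cons 14 (TM.mk (P.cons (P.cons (P.lf 11793968 0 0) (P.cons (P.lf 144489140 0 0) (P.cons (P.lf 0 9660206 0) (P.lf 0 3220066 0)))) (P.cons (P.cons (P.lf 0 39120082 0) (P.cons (P.lf 0 10876054 0) (P.cons (P.lf 727146 0 0) (P.lf 242382 0 0)))) (P.cons (P.cons (P.lf 12999358 0 0) (P.cons (P.lf 0 2404782 0) (P.cons (P.lf 160778 0 0) (P.lf 53592 0 0)))) (P.cons (P.cons (P.lf 0 1151152 0) (P.cons (P.lf 106316 0 0) (P.cons (P.lf 0 7108 0) P.nil))) (P.cons (P.cons (P.lf 0 39770 0) (P.cons (P.lf 19952 0 0) P.nil)) (P.cons (P.cons (P.lf 7266 0 0) P.nil) P.nil))))))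 13576)
 EL.nil)
noncomputable def S169_183_512_660_44 : EL := (EL.cons 14 (TM.mk (P.cons (P.cons (P.lf 0 93702 0) (P.cons (P.lf 0 2295912 0) (P.cons (P.lf 0 13910236 0) (P.cons (P.lf 1931702 0 0) (P.cons (P.lf 563980 0 0) (P.cons (P.lf 0 41908 0) P.nil)))))) (P.cons (P.cons (P.lf 602366 0 0) (P.cons (P.lf 7316716 0 0) (P.cons (P.lf 0 1260436 0) (P.cons (P.lf 0 59930 0) (P.cons (P.lf 30928 0 0) P.nil))))) (P.cons (P.cons (P.lf 0 1113054 0) (P.cons (P.lf 0 1545272 0) (P.cons (P.lf 440976 0 0) (P.cons (P.lf 0 10712 0) P.nil)))) (P.cons (P.cons (P.lf 470276 0 0) (P.cons (P.lf 0 85834 0) (P.cons (P.lf 33574 0 0) P.nil))) (P.cons (P.cons (P.lf 0 69136 0) (P.cons (P.lf 28002 0 0) P.nil)) (P.cons (P.cons (P.lf 834 0 0) P.nil) P.nil)))))) 129682)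
 EL.nil)
noncomputable def S169_183_512_660_45 : EL := (EL.cons 14 (TM.mk (P.cons (P.cons (P.lf 0 4306 0) (P.cons (P.lf 0 158326 0) (P.cons (P.lf 0 1929104 0) (P.cons (P.lf 0 7658220 0) (P.cons (P.lf 1666546 0 0) (P.cons (P.lf 417584 0 0) P.nil)))))) (P.cons (P.cons (P.lf 40212 0 0) (P.cons (P.lf 964696 0 0) (P.cons (P.lf 5466230 0 0) (P.cons (P.lf 0 3852954 0) (P.cons (P.lf 398360 0 0) P.nil))))) (P.cons (P.cons (P.lf 0 131010 0) (P.cons (P.lf 0 1549324 0) (P.cons (P.lf 748420 0 0) (P.cons (P.lf 0 511684 0) P.nil)))) (P.cons (P.cons (P.lf 166162 0 0) (P.cons (P.lf 226952 0 0) (P.cons (P.lf 0 150540 0) P.nil))) (P.cons (P.cons (P.lf 0 58118 0) (P.cons (P.lf 39516 0 0) P.nil)) (P.cons (P.cons (P.lf 5638 0 0) P.nil) P.nil)))))) 658638)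
 EL.nil)
noncomputable def S169_183_512_660_46 : EL := (EL.cons 15 (TM.mk (P.lf 4294967296 0 0) 0)
 EL.nil)
noncomputable def S169_183_512_660_47 : EL := (EL.cons 15 (TM.mk (P.cons (P.cons (P.lf 0 34123230 0) (P.cons (P.lf 0 418047260 0) (P.cons (P.lf 27949664 0 0) (P.lf 9316552 0 0)))) (P.cons (P.cons (P.lf 106176875 0 0) (P.cons (P.lf 0 54393236 0) (P.cons (P.lf 3636604 0 0) (P.lf 1212200 0 0)))) (P.cons (P.cons (P.lf 0 15542497 0) (P.cons (P.lf 0 1014932 0) (P.cons (P.lf 67856 0 0) (P.lf 22620 0 0)))) (P.cons (P.cons (P.lf 0 653396 0) (P.cons (P.lf 153380 0 0) (P.cons (P.lf 0 10252 0) P.nil))) (P.cons (P.cons (P.lf 34916 0 0) (P.cons (P.lf 7464 0 0) P.nil)) (P.cons (P.cons (P.lf 2286 0 0) P.nil) P.nil)))))) 4931)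
 EL.nil)
noncomputable def S169_183_512_660_48 : EL := (EL.cons 15 (TM.mk (P.cons (P.cons (P.lf 271106 0 0) (P.cons (P.lf 6642715 0 0) (P.cons (P.lf 40246184 0 0) (P.cons (P.lf 0 5588955 0) (P.cons (P.lf 0 1631754 0) (P.cons (P.lf 121255 0 0) P.nil)))))) (P.cons (P.cons (P.lf 0 1687136 0) (P.cons (P.lf 0 19804983 0) (P.cons (P.lf 11912760 0 0) (P.cons (P.lf 0 974492 0) (P.cons (P.lf 0 424623 0) P.nil))))) (P.cons (P.cons (P.lf 2871791 0 0) (P.cons (P.lf 352425 0 0) (P.cons (P.lf 862871 0 0) (P.cons (P.lf 0 126383 0) P.nil)))) (P.cons (P.cons (P.lf 0 758076 0) (P.cons (P.lf 468250 0 0) (P.cons (P.lf 0 35457 0) P.nil))) (P.cons (P.cons (P.lf 23384 0 0) (P.cons (P.lf 24563 0 0) P.nil)) (P.cons (P.cons (P.lf 6418 0 0) P.nil) P.nil)))))) 141438)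
 EL.nil)
noncomputable def S169_183_512_660 : SL := (SL.cons S169_183_512_660_0 (SL.cons S169_183_512_660_1 (SL.cons S169_183_512_660_2 (SL.cons S169_183_512_660_3 (SL.cons S169_183_512_660_4 (SL.cons S169_183_512_660_5 (SL.cons S169_183_512_660_6 (SL.cons S169_183_512_660_7 (SL.cons S169_183_512_660_8 (SL.cons S169_183_512_660_9 (SL.cons S169_183_512_660_10 (SL.cons S169_183_512_660_11 (SL.cons S169_183_512_660_12 (SL.cons S169_183_512_660_13 (SL.cons S169_183_512_660_14 (SL.cons S169_183_512_660_15 (SL.cons S169_183_512_660_16 (SL.cons S169_183_512_660_17 (SL.cons S169_183_512_660_18 (SL.cons S169_183_512_660_19 (SL.cons S169_183_512_660_20 (SL.cons S169_183_512_660_21 (SL.cons S169_183_512_660_22 (SL.cons S169_183_512_660_23 (SL.cons S169_183_512_660_24 (SL.cons S169_183_512_660_25 (SL.cons S169_183_512_660_26 (SL.cons S169_183_512_660_27 (SL.cons S169_183_512_660_28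 (SL.cons S169_183_512_660_29 (SL.cons S169_183_512_660_30 (SL.cons S169_183_512_660_31 (SL.cons S169_183_512_660_32 (SL.cons S169_183_512_660_33 (SL.cons S169_183_512_660_34 (SL.cons S169_183_512_660_35 (SL.cons S169_183_512_660_36 (SL.cons S169_183_512_660_37 (SL.cons S169_183_512_660_38 (SL.cons S169_183_512_660_39 (SL.cons S169_183_512_660_40 (SL.cons S169_183_512_660_41 (SL.cons S169_183_512_660_42 (SL.cons S169_183_512_660_43 (SL.cons S169_183_512_660_44 (SL.cons S169_183_512_660_45 (SL.cons S169_183_512_660_46 (SL.cons S169_183_512_660_47 (SL.cons S169_183_512_660_48 SL.nil)))))))))))))))))))))))))))))))))))))))))))))))))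
noncomputable def S169_183_586_660_0 : EL := (EL.cons 0 (TM.mk (P.cons (P.lf 6113364111 0 0) (P.cons (P.lf 320722925 0 0) (P.cons (P.lf 0 970595 0) (P.cons (P.lf 0 761763 0) (P.cons (P.lf 0 15236 0) (P.cons (P.lf 715 0 0) P.nil)))))) 165)
 (EL.cons 1 (TM.mk (P.cons (P.lf 0 1754812605 0) (P.cons (P.lf 44029685 0 0) (P.cons (P.lf 10840057 0 0) (P.cons (P.lf 104334 0 0) (P.cons (P.lf 0 15399 0) (P.cons (P.lf 0 481 0) P.nil)))))) 128)
 (EL.cons 5 (TM.mk (P.cons (P.lf 5127803834 0 0) (P.cons (P.lf 0 114034818 0) (P.cons (P.lf 345096 0 0) (P.cons (P.lf 270848 0 0) (P.cons (P.lf 5418 0 0) (P.cons (P.lf 0 254 0) P.nil)))))) 109)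
 (EL.cons 9 (TM.mk (P.lf 6442450944 0 0) 2)
 EL.nil))))
noncomputable def S169_183_586_660_1 : EL := (EL.cons 0 (TM.mk (P.cons (P.cons (P.lf 0 1340969280 0) (P.cons (P.lf 40750655 0 0) (P.cons (P.lf 0 2229705 0) (P.lf 0 247739 0)))) (P.cons (P.cons (P.lf 543941706 0 0) (P.cons (P.lf 0 51914658 0) (P.cons (P.lf 2840561 0 0) (P.lf 315615 0 0)))) (P.cons (P.cons (P.lf 0 7810733 0) (P.cons (P.lf 0 7172537 0) (P.cons (P.lf 392446 0 0) (P.lf 43595 0 0)))) (P.cons (P.cons (P.lf 0 6900013 0) (P.cons (P.lf 4577 0 0) (P.cons (P.lf 0 255 0) P.nil))) (P.cons (P.cons (P.lf 0 149292 0) (P.cons (P.lf 41076 0 0) P.nil)) (P.cons (P.cons (P.lf 28346 0 0) P.nil) P.nil)))))) 15451)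
 (EL.cons 1 (TM.mk (P.cons (P.cons (P.lf 0 42159755 0) (P.cons (P.lf 121289654 0 0) (P.cons (P.lf 0 6636477 0) (P.lf 0 737380 0)))) (P.cons (P.cons (P.lf 0 42541486 0) (P.cons (P.lf 29372364 0 0) (P.cons (P.lf 0 1607128 0) (P.lf 0 178563 0)))) (P.cons (P.cons (P.lf 36251524 0 0) (P.cons (P.lf 0 597009 0) (P.cons (P.lf 32670 0 0) (P.lf 3633 0 0)))) (P.cons (P.cons (P.lf 932006 0 0) (P.cons (P.lf 0 335690 0) (P.cons (P.lf 18359 0 0) P.nil))) (P.cons (P.cons (P.lf 0 266841 0) (P.cons (P.lf 0 9766 0) P.nil)) (P.cons (P.cons (P.lf 0 10945 0) P.nil) P.nil)))))) 8760)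
 (EL.cons 5 (TM.mk (P.cons (P.cons (P.lf 77297783 0 0) (P.cons (P.lf 0 340132772 0) (P.cons (P.lf 18610702 0 0) (P.lf 2067850 0 0)))) (P.cons (P.cons (P.lf 0 57331903 0) (P.cons (P.lf 0 23911820 0) (P.cons (P.lf 1308362 0 0) (P.lf 145378 0 0)))) (P.cons (P.cons (P.lf 0 24474147 0) (P.cons (P.lf 1759634 0 0) (P.cons (P.lf 0 96276 0) (P.lf 0 10690 0)))) (P.cons (P.cons (P.lf 1467850 0 0) (P.cons (P.lf 117856 0 0) (P.cons (P.lf 0 6446 0) P.nil))) (P.cons (P.cons (P.lf 118548 0 0) (P.cons (P.lf 0 8788 0) P.nil)) (P.cons (P.cons (P.lf 0 6273 0) P.nil) P.nil)))))) 8037)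
 (EL.cons 9 (TM.mk (P.cons (P.cons (P.lf 0 352492311 0) (P.cons (P.lf 0 287332626 0) (P.cons (P.lf 15721686 0 0) (P.lf 1746852 0 0)))) (P.cons (P.cons (P.lf 120061396 0 0) (P.cons (P.lf 0 37385610 0) (P.cons (P.lf 2045586 0 0) (P.lf 227286 0 0)))) (P.cons (P.cons (P.lf 0 24045259 0) (P.cons (P.lf 0 697584 0) (P.cons (P.lf 38166 0 0) (P.lf 4236 0 0)))) (P.cons (P.cons (P.lf 0 869544 0) (P.cons (P.lf 105420 0 0) (P.cons (P.lf 0 5766 0) P.nil))) (P.cons (P.cons (P.lf 57756 0 0) (P.cons (P.lf 5130 0 0) P.nil)) (P.cons (P.cons (P.lf 3345 0 0) P.nil) P.nil)))))) 1961)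
 (EL.cons 2 (TM.mk (P.cons (P.cons (P.lf 863764880 0 0) (P.cons (P.lf 0 108381735 0) (P.cons (P.lf 0 16547085 0) (P.cons (P.lf 505507 0 0) (P.lf 42122 0 0))))) (P.cons (P.cons (P.lf 15789675 0 0) (P.cons (P.lf 0 1981223 0) (P.cons (P.lf 0 302478 0) (P.cons (P.lf 9239 0 0) (P.lf 767 0 0))))) (P.cons (P.cons (P.lf 0 7201473 0) (P.cons (P.lf 903608 0 0) (P.cons (P.lf 137955 0 0) (P.cons (P.lf 0 4213 0) P.nil)))) (P.cons (P.cons (P.lf 0 308370 0) (P.cons (P.lf 38691 0 0) (P.cons (P.lf 5906 0 0) P.nil))) (P.cons (P.cons (P.lf 12135 0 0) (P.cons (P.lf 0 1521 0) P.nil)) (P.cons (P.cons (P.lf 961 0 0) P.nil) P.nil)))))) 1379)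
 (EL.cons 6 (TM.mk (P.cons (P.cons (P.lf 647103855 0 0) (P.cons (P.lf 0 81195984 0) (P.cons (P.lf 0 12396525 0) (P.cons (P.lf 378711 0 0) (P.lf 31557 0 0))))) (P.cons (P.cons (P.lf 84196398 0 0) (P.cons (P.lf 0 10564623 0) (P.cons (P.lf 0 1612941 0) (P.cons (P.lf 49272 0 0) (P.lf 4104 0 0))))) (P.cons (P.cons (P.lf 1571037 0 0) (P.cons (P.lf 0 197127 0) (P.cons (P.lf 0 30096 0) (P.cons (P.lf 918 0 0) P.nil)))) (P.cons (P.cons (P.lf 0 237423 0) (P.cons (P.lf 29790 0 0) (P.cons (P.lf 4548 0 0) P.nil))) (P.cons (P.cons (P.lf 0 11556 0) (P.cons (P.lf 1449 0 0) P.nil)) (P.cons (P.cons (P.lf 177 0 0) P.nil) P.nil)))))) 819)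
 EL.nil))))))
noncomputable def S169_183_586_660_2 : EL := (EL.cons 0 (TM.mk (P.cons (P.cons (P.lf 128438492 0 0) (P.cons (P.lf 85318763 0 0) (P.cons (P.lf 0 20463646 0) (P.cons (P.lf 1209810 0 0) (P.cons (P.lf 144766 0 0) (P.cons (P.lf 0 10506 0) P.nil)))))) (P.cons (P.cons (P.lf 0 97996164 0) (P.cons (P.lf 0 21041320 0) (P.cons (P.lf 1506717 0 0) (P.cons (P.lf 89019 0 0) (P.cons (P.lf 0 3260 0) P.nil))))) (P.cons (P.cons (P.lf 27175282 0 0) (P.cons (P.lf 0 7231382 0) (P.cons (P.lf 1200154 0 0) (P.cons (P.lf 0 44073 0) P.nil)))) (P.cons (P.cons (P.lf 0 2716328 0) (P.cons (P.lf 311865 0 0) (P.cons (P.lf 67701 0 0) P.nil))) (P.cons (P.cons (P.lf 0 362710 0) (P.cons (P.lf 145415 0 0) P.nil)) (P.cons (P.cons (P.lf 43328 0 0) P.nil) P.nil)))))) 100615)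
 (EL.cons 1 (TM.mk (P.cons (P.cons (P.lf 9866703 0 0) (P.cons (P.lf 0 947523 0) (P.cons (P.lf 0 7276576 0) (P.cons (P.lf 807720 0 0) (P.cons (P.lf 67160 0 0) (P.cons (P.lf 0 4877 0) P.nil)))))) (P.cons (P.cons (P.lf 0 626537 0) (P.cons (P.lf 3572917 0 0) (P.cons (P.lf 0 3402426 0) (P.cons (P.lf 329215 0 0) (P.cons (P.lf 29388 0 0) P.nil))))) (P.cons (P.cons (P.lf 0 3854342 0) (P.cons (P.lf 0 2258253 0) (P.cons (P.lf 0 158659 0) (P.cons (P.lf 44603 0 0) P.nil)))) (P.cons (P.cons (P.lf 1348438 0 0) (P.cons (P.lf 0 641653 0) (P.cons (P.lf 61503 0 0) P.nil))) (P.cons (P.cons (P.lf 0 184500 0) (P.cons (P.lf 0 8771 0) P.nil)) (P.cons (P.cons (P.lf 0 23151 0) P.nil) P.nil)))))) 51716)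
 (EL.cons 5 (TM.mk (P.cons (P.cons (P.lf 0 23809249 0) (P.cons (P.lf 5298986 0 0) (P.cons (P.lf 19849848 0 0) (P.cons (P.lf 0 2236139 0) (P.cons (P.lf 0 184577 0) (P.cons (P.lf 13386 0 0) P.nil)))))) (P.cons (P.cons (P.lf 19953250 0 0) (P.cons (P.lf 0 19515 0) (P.cons (P.lf 3654117 0 0) (P.cons (P.lf 0 399636 0) (P.cons (P.lf 0 33482 0) P.nil))))) (P.cons (P.cons (P.lf 0 4144471 0) (P.cons (P.lf 3509243 0 0) (P.cons (P.lf 0 161645 0) (P.cons (P.lf 0 24651 0) P.nil)))) (P.cons (P.cons (P.lf 57926 0 0) (P.cons (P.lf 250762 0 0) (P.cons (P.lf 0 45342 0) P.nil))) (P.cons (P.cons (P.lf 186771 0 0) (P.cons (P.lf 0 36377 0) P.nil)) (P.cons (P.cons (P.lf 0 6019 0) P.nil) P.nil)))))) 50279)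
 (EL.cons 9 (TM.mk (P.cons (P.cons (P.lf 19286266 0 0) (P.cons (P.lf 31442238 0 0) (P.cons (P.lf 11094610 0 0) (P.cons (P.lf 0 1593525 0) (P.cons (P.lf 0 117451 0) (P.cons (P.lf 8524 0 0) P.nil)))))) (P.cons (P.cons (P.lf 0 13138080 0) (P.cons (P.lf 0 6618417 0) (P.cons (P.lf 3696921 0 0) (P.cons (P.lf 0 324694 0) (P.cons (P.lf 0 30564 0) P.nil))))) (P.cons (P.cons (P.lf 4868686 0 0) (P.cons (P.lf 827731 0 0) (P.cons (P.lf 233883 0 0) (P.cons (P.lf 0 35581 0) P.nil)))) (P.cons (P.cons (P.lf 0 801061 0) (P.cons (P.lf 319096 0 0) (P.cons (P.lf 0 18766 0) P.nil))) (P.cons (P.cons (P.lf 51013 0 0) (P.cons (P.lf 13515 0 0) P.nil)) (P.cons (P.cons (P.lf 8277 0 0) P.nil) P.nil)))))) 18841)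
 (EL.cons 2 (TM.mk (P.cons (P.cons (P.lf 0 94520075 0) (P.cons (P.lf 0 65187641 0) (P.cons (P.lf 15694076 0 0) (P.cons (P.lf 1360119 0 0) (P.cons (P.lf 0 189236 0) (P.cons (P.lf 0 10260 0) P.nil)))))) (P.cons (P.cons (P.lf 30466378 0 0) (P.cons (P.lf 0 15256102 0) (P.cons (P.lf 1476545 0 0) (P.cons (P.lf 227868 0 0) (P.cons (P.lf 0 25908 0) P.nil))))) (P.cons (P.cons (P.lf 0 5071128 0) (P.cons (P.lf 908358 0 0) (P.cons (P.lf 48121 0 0) (P.cons (P.lf 0 7965 0) P.nil)))) (P.cons (P.cons (P.lf 0 585697 0) (P.cons (P.lf 209424 0 0) (P.cons (P.lf 0 13269 0) P.nil))) (P.cons (P.cons (P.lf 52155 0 0) (P.cons (P.lf 0 590 0) P.nil)) (P.cons (P.cons (P.lf 5771 0 0) P.nil) P.nil)))))) 17020)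
 (EL.cons 6 (TM.mk (P.cons (P.cons (P.lf 0 70811286 0) (P.cons (P.lf 0 48836406 0) (P.cons (P.lf 11757480 0 0) (P.cons (P.lf 1018956 0 0) (P.cons (P.lf 0 141762 0) (P.cons (P.lf 0 7686 0) P.nil)))))) (P.cons (P.cons (P.lf 14905380 0 0) (P.cons (P.lf 0 16890864 0) (P.cons (P.lf 2421042 0 0) (P.cons (P.lf 284664 0 0) (P.cons (P.lf 0 35262 0) P.nil))))) (P.cons (P.cons (P.lf 0 1864140 0) (P.cons (P.lf 0 1023546 0) (P.cons (P.lf 262290 0 0) (P.cons (P.lf 22002 0 0) P.nil)))) (P.cons (P.cons (P.lf 0 718632 0) (P.cons (P.lf 96060 0 0) (P.cons (P.lf 12702 0 0) P.nil))) (P.cons (P.cons (P.lf 0 30432 0) (P.cons (P.lf 11046 0 0) P.nil)) (P.cons (P.cons (P.lf 3078 0 0) P.nil) P.nil)))))) 14610)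
 EL.nil))))))
noncomputable def S169_183_586_660_3 : EL := (EL.cons 0 (TM.mk (P.cons (P.lf 2342352752 0 0) (P.cons (P.lf 0 320722925 0) (P.cons (P.lf 970595 0 0) (P.cons (P.lf 761763 0 0) (P.cons (P.lf 15236 0 0) (P.cons (P.lf 0 715 0) P.nil)))))) 165)
 (EL.cons 1 (TM.mk (P.cons (P.lf 1754812605 0 0) (P.cons (P.lf 0 44029685 0) (P.cons (P.lf 0 10840057 0) (P.cons (P.lf 0 104334 0) (P.cons (P.lf 15399 0 0) (P.cons (P.lf 481 0 0) P.nil)))))) 128)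
 (EL.cons 5 (TM.mk (P.cons (P.lf 1314647110 0 0) (P.cons (P.lf 114034818 0 0) (P.cons (P.lf 0 345096 0) (P.cons (P.lf 0 270848 0) (P.cons (P.lf 0 5418 0) (P.cons (P.lf 254 0 0) P.nil)))))) 102)
 EL.nil)))
noncomputable def S169_183_586_660_4 : EL := (EL.cons 0 (TM.mk (P.cons (P.cons (P.lf 0 128159506 0) (P.cons (P.lf 0 104468683 0) (P.cons (P.lf 5716105 0 0) (P.lf 635120 0 0)))) (P.cons (P.cons (P.lf 61200079 0 0) (P.cons (P.lf 711509 0 0) (P.cons (P.lf 0 38932 0) (P.lf 0 4325 0)))) (P.cons (P.cons (P.lf 0 14772491 0) (P.cons (P.lf 1564240 0 0) (P.cons (P.lf 0 85589 0) (P.lf 0 9511 0)))) (P.cons (P.cons (P.lf 857297 0 0) (P.cons (P.lf 33447 0 0) (P.cons (P.lf 0 1828 0) P.nil))) (P.cons (P.cons (P.lf 74026 0 0) (P.cons (P.lf 0 8586 0) P.nil)) (P.cons (P.cons (P.lf 0 4308 0) P.nil) P.nil)))))) 2799)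
 (EL.cons 1 (TM.mk (P.cons (P.cons (P.lf 0 96012828 0) (P.cons (P.lf 0 78264453 0) (P.cons (P.lf 4282314 0 0) (P.lf 475811 0 0)))) (P.cons (P.cons (P.lf 35111694 0 0) (P.cons (P.lf 0 8219475 0) (P.cons (P.lf 449733 0 0) (P.lf 49968 0 0)))) (P.cons (P.cons (P.lf 0 6776945 0) (P.cons (P.lf 548958 0 0) (P.cons (P.lf 0 30037 0) (P.lf 0 3337 0)))) (P.cons (P.cons (P.lf 0 268822 0) (P.cons (P.lf 101038 0 0) (P.cons (P.lf 0 5525 0) P.nil))) (P.cons (P.cons (P.lf 59345 0 0) (P.cons (P.lf 1768 0 0) P.nil)) (P.cons (P.cons (P.lf 2628 0 0) P.nil) P.nil)))))) 2047)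
 (EL.cons 5 (TM.mk (P.cons (P.cons (P.lf 0 71929610 0) (P.cons (P.lf 0 58633120 0) (P.cons (P.lf 3208166 0 0) (P.lf 356462 0 0)))) (P.cons (P.cons (P.lf 18260436 0 0) (P.cons (P.lf 0 12714850 0) (P.cons (P.lf 695704 0 0) (P.lf 77300 0 0)))) (P.cons (P.cons (P.lf 0 2762644 0) (P.cons (P.lf 0 788702 0) (P.cons (P.lf 43152 0 0) (P.lf 4792 0 0)))) (P.cons (P.cons (P.lf 0 594664 0) (P.cons (P.lf 23246 0 0) (P.cons (P.lf 0 1270 0) P.nil))) (P.cons (P.cons (P.lf 0 7068 0) (P.cons (P.lf 4762 0 0) P.nil)) (P.cons (P.cons (P.lf 2646 0 0) P.nil) P.nil)))))) 1450)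
 EL.nil)))
noncomputable def S169_183_586_660_5 : EL := (EL.cons 0 (TM.mk (P.cons (P.cons (P.lf 7012119 0 0) (P.cons (P.lf 11431800 0 0) (P.cons (P.lf 4033789 0 0) (P.cons (P.lf 0 579375 0) (P.cons (P.lf 0 42702 0) (P.cons (P.lf 3099 0 0) P.nil)))))) (P.cons (P.cons (P.lf 0 5736879 0) (P.cons (P.lf 0 3971610 0) (P.cons (P.lf 791808 0 0) (P.cons (P.lf 0 38721 0) (P.cons (P.lf 0 5264 0) P.nil))))) (P.cons (P.cons (P.lf 2427117 0 0) (P.cons (P.lf 635166 0 0) (P.cons (P.lf 0 97335 0) (P.cons (P.lf 2986 0 0) P.nil)))) (P.cons (P.cons (P.lf 0 533325 0) (P.cons (P.lf 77530 0 0) (P.cons (P.lf 0 16597 0) P.nil))) (P.cons (P.cons (P.lf 57650 0 0) (P.cons (P.lf 0 11554 0) P.nil)) (P.cons (P.cons (P.lf 891 0 0) P.nil) P.nil)))))) 14794)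
 (EL.cons 1 (TM.mk (P.cons (P.cons (P.lf 5253245 0 0) (P.cons (P.lf 8564323 0 0) (P.cons (P.lf 3021978 0 0) (P.cons (P.lf 0 434047 0) (P.cons (P.lf 0 31991 0) (P.cons (P.lf 2321 0 0) P.nil)))))) (P.cons (P.cons (P.lf 0 3710394 0) (P.cons (P.lf 0 2017627 0) (P.cons (P.lf 931153 0 0) (P.cons (P.lf 0 77548 0) (P.cons (P.lf 0 7520 0) P.nil))))) (P.cons (P.cons (P.lf 1383483 0 0) (P.cons (P.lf 217786 0 0) (P.cons (P.lf 19771 0 0) (P.cons (P.lf 0 4790 0) P.nil)))) (P.cons (P.cons (P.lf 0 229674 0) (P.cons (P.lf 91884 0 0) (P.cons (P.lf 0 13108 0) P.nil))) (P.cons (P.cons (P.lf 11435 0 0) (P.cons (P.lf 290 0 0) P.nil)) (P.cons (P.cons (P.lf 3144 0 0) P.nil) P.nil)))))) 10370)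
 (EL.cons 5 (TM.mk (P.cons (P.cons (P.lf 3935556 0 0) (P.cons (P.lf 6416104 0 0) (P.cons (P.lf 2263966 0 0) (P.cons (P.lf 0 325174 0) (P.cons (P.lf 0 23966 0) (P.cons (P.lf 1738 0 0) P.nil)))))) (P.cons (P.cons (P.lf 0 2339578 0) (P.cons (P.lf 0 794010 0) (P.cons (P.lf 950772 0 0) (P.cons (P.lf 0 94462 0) (P.cons (P.lf 0 8314 0) P.nil))))) (P.cons (P.cons (P.lf 759918 0 0) (P.cons (P.lf 50072 0 0) (P.cons (P.lf 112568 0 0) (P.cons (P.lf 0 12922 0) P.nil)))) (P.cons (P.cons (P.lf 0 77392 0) (P.cons (P.lf 78798 0 0) (P.cons (P.lf 0 352 0) P.nil))) (P.cons (P.cons (P.lf 0 3494 0) (P.cons (P.lf 8612 0 0) P.nil)) (P.cons (P.cons (P.lf 2440 0 0) P.nil) P.nil)))))) 7354)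
 EL.nil)))
noncomputable def S169_183_586_660_6 : EL := (EL.cons 12 (TM.mk (P.lf 8589934592 0 0) 0)
 (EL.cons 3 (TM.mk (P.cons (P.lf 0 2242802763 0) (P.cons (P.lf 153546101 0 0) (P.cons (P.lf 4791341 0 0) (P.cons (P.lf 0 36671 0) (P.cons (P.lf 0 4687 0) (P.cons (P.lf 0 56 0) P.nil)))))) 59)
 (EL.cons 7 (TM.mk (P.cons (P.lf 0 1680233071 0) (P.cons (P.lf 0 72873196 0) (P.cons (P.lf 1800820 0 0) (P.cons (P.lf 94981 0 0) (P.cons (P.lf 308 0 0) (P.cons (P.lf 0 74 0) P.nil)))))) 48)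
 EL.nil)))
noncomputable def S169_183_586_660_7 : EL := (EL.cons 12 (TM.mk (P.cons (P.cons (P.lf 0 469989748 0) (P.cons (P.lf 0 383110168 0) (P.cons (P.lf 20962248 0 0) (P.lf 2329136 0 0)))) (P.cons (P.cons (P.lf 160081862 0 0) (P.cons (P.lf 0 49847480 0) (P.cons (P.lf 2727448 0 0) (P.lf 303048 0 0)))) (P.cons (P.cons (P.lf 0 32060346 0) (P.cons (P.lf 0 930112 0) (P.cons (P.lf 50888 0 0) (P.lf 5648 0 0)))) (P.cons (P.cons (P.lf 0 1159392 0) (P.cons (P.lf 140560 0 0) (P.cons (P.lf 0 7688 0) P.nil))) (P.cons (P.cons (P.lf 77008 0 0) (P.cons (P.lf 6840 0 0) P.nil)) (P.cons (P.cons (P.lf 4460 0 0) P.nil) P.nil)))))) 2590)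
 (EL.cons 3 (TM.mk (P.cons (P.cons (P.lf 1086419848 0 0) (P.cons (P.lf 0 200057526 0) (P.cons (P.lf 10946340 0 0) (P.lf 1216258 0 0)))) (P.cons (P.cons (P.lf 0 412760774 0) (P.cons (P.lf 0 12333734 0) (P.cons (P.lf 674848 0 0) (P.lf 74980 0 0)))) (P.cons (P.cons (P.lf 0 20387403 0) (P.cons (P.lf 1723746 0 0) (P.cons (P.lf 0 94318 0) (P.lf 0 10480 0)))) (P.cons (P.cons (P.lf 1576962 0 0) (P.cons (P.lf 158986 0 0) (P.cons (P.lf 0 8696 0) P.nil))) (P.cons (P.cons (P.lf 142658 0 0) (P.cons (P.lf 0 1258 0) P.nil)) (P.cons (P.cons (P.lf 0 381 0) P.nil) P.nil)))))) 6874)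
 (EL.cons 7 (TM.mk (P.cons (P.cons (P.lf 0 365444466 0) (P.cons (P.lf 217359601 0 0) (P.cons (P.lf 0 11893045 0) (P.lf 0 1321450 0)))) (P.cons (P.cons (P.lf 195896839 0 0) (P.cons (P.lf 5853610 0 0) (P.cons (P.lf 0 320289 0) (P.lf 0 35588 0)))) (P.cons (P.cons (P.lf 0 1277930 0) (P.cons (P.lf 0 1145401 0) (P.cons (P.lf 62668 0 0) (P.lf 6959 0 0)))) (P.cons (P.cons (P.lf 0 1222607 0) (P.cons (P.lf 0 7079 0) (P.cons (P.lf 387 0 0) P.nil))) (P.cons (P.cons (P.lf 3032 0 0) (P.cons (P.lf 5068 0 0) P.nil)) (P.cons (P.cons (P.lf 4073 0 0) P.nil) P.nil)))))) 4923)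
 (EL.cons 10 (TM.mk (P.cons (P.cons (P.lf 0 1654109751 0) (P.cons (P.lf 207551025 0 0) (P.cons (P.lf 31687671 0 0) (P.cons (P.lf 0 968052 0) (P.lf 0 80670 0))))) (P.cons (P.cons (P.lf 0 143480406 0) (P.cons (P.lf 18003342 0 0) (P.cons (P.lf 2748642 0 0) (P.cons (P.lf 0 83970 0) (P.lf 0 6996 0))))) (P.cons (P.cons (P.lf 434205 0 0) (P.cons (P.lf 0 54480 0) (P.cons (P.lf 0 8316 0) (P.cons (P.lf 252 0 0) P.nil)))) (P.cons (P.cons (P.lf 340785 0 0) (P.cons (P.lf 0 42759 0) (P.cons (P.lf 0 6528 0) P.nil))) (P.cons (P.cons (P.lf 6816 0 0) (P.cons (P.lf 0 855 0) P.nil)) (P.cons (P.cons (P.lf 0 318 0) P.nil) P.nil)))))) 669)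
 EL.nil))))
noncomputable def S169_183_586_660_8 : EL := (EL.cons 12 (TM.mk (P.cons (P.cons (P.lf 25715022 0 0) (P.cons (P.lf 41922984 0 0) (P.cons (P.lf 14792814 0 0) (P.cons (P.lf 0 2124700 0) (P.cons (P.lf 0 156602 0) (P.cons (P.lf 11366 0 0) P.nil)))))) (P.cons (P.cons (P.lf 0 17517440 0) (P.cons (P.lf 0 8824556 0) (P.cons (P.lf 4929228 0 0) (P.cons (P.lf 0 432926 0) (P.cons (P.lf 0 40752 0) P.nil))))) (P.cons (P.cons (P.lf 6491582 0 0) (P.cons (P.lf 1103642 0 0) (P.cons (P.lf 311844 0 0) (P.cons (P.lf 0 47442 0) P.nil)))) (P.cons (P.cons (P.lf 0 1068082 0) (P.cons (P.lf 425462 0 0) (P.cons (P.lf 0 25022 0) P.nil))) (P.cons (P.cons (P.lf 68018 0 0) (P.cons (P.lf 18020 0 0) P.nil)) (P.cons (P.cons (P.lf 11036 0 0) P.nil) P.nil)))))) 25092)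
 (EL.cons 3 (TM.mk (P.cons (P.cons (P.lf 0 112170656 0) (P.cons (P.lf 0 64070566 0) (P.cons (P.lf 25812046 0 0) (P.cons (P.lf 0 2051505 0) (P.cons (P.lf 0 204440 0) (P.cons (P.lf 14841 0 0) P.nil)))))) (P.cons (P.cons (P.lf 80627186 0 0) (P.cons (P.lf 15048837 0 0) (P.cons (P.lf 3454134 0 0) (P.cons (P.lf 0 559589 0) (P.cons (P.lf 0 39200 0) P.nil))))) (P.cons (P.cons (P.lf 0 19269458 0) (P.cons (P.lf 7641326 0 0) (P.cons (P.lf 0 377208 0) (P.cons (P.lf 0 50927 0) P.nil)))) (P.cons (P.cons (P.lf 1470363 0 0) (P.cons (P.lf 510273 0 0) (P.cons (P.lf 0 75496 0) P.nil))) (P.cons (P.cons (P.lf 359417 0 0) (P.cons (P.lf 0 48983 0) P.nil)) (P.cons (P.cons (P.lf 0 4895 0) P.nil) P.nil)))))) 61763)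
 (EL.cons 7 (TM.mk (P.cons (P.cons (P.lf 45019845 0 0) (P.cons (P.lf 17012675 0 0) (P.cons (P.lf 0 16977052 0) (P.cons (P.lf 1652531 0 0) (P.cons (P.lf 147062 0 0) (P.cons (P.lf 0 10671 0) P.nil)))))) (P.cons (P.cons (P.lf 0 38265777 0) (P.cons (P.lf 0 7142198 0) (P.cons (P.lf 0 1639336 0) (P.cons (P.lf 265577 0 0) (P.cons (P.lf 18605 0 0) P.nil))))) (P.cons (P.cons (P.lf 11284993 0 0) (P.cons (P.lf 0 3227217 0) (P.cons (P.lf 270690 0 0) (P.cons (P.lf 9327 0 0) P.nil)))) (P.cons (P.cons (P.lf 0 1427952 0) (P.cons (P.lf 19189 0 0) (P.cons (P.lf 20413 0 0) P.nil))) (P.cons (P.cons (P.lf 0 92715 0) (P.cons (P.lf 37072 0 0) P.nil)) (P.cons (P.cons (P.lf 15160 0 0) P.nil) P.nil)))))) 30530)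
 (EL.cons 10 (TM.mk (P.cons (P.cons (P.lf 181005942 0 0) (P.cons (P.lf 124834338 0 0) (P.cons (P.lf 0 30054162 0) (P.cons (P.lf 0 2604630 0) (P.cons (P.lf 362382 0 0) (P.cons (P.lf 19650 0 0) P.nil)))))) (P.cons (P.cons (P.lf 0 45951138 0) (P.cons (P.lf 37761816 0 0) (P.cons (P.lf 0 4885140 0) (P.cons (P.lf 0 614688 0) (P.cons (P.lf 74424 0 0) P.nil))))) (P.cons (P.cons (P.lf 6952008 0 0) (P.cons (P.lf 1112406 0 0) (P.cons (P.lf 0 490806 0) (P.cons (P.lf 0 32388 0) P.nil)))) (P.cons (P.cons (P.lf 1496430 0 0) (P.cons (P.lf 0 246264 0) (P.cons (P.lf 0 18126 0) P.nil))) (P.cons (P.cons (P.lf 17784 0 0) (P.cons (P.lf 0 14214 0) P.nil)) (P.cons (P.cons (P.lf 0 6660 0) P.nil) P.nil)))))) 25938)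
 EL.nil))))
noncomputable def S169_183_586_660_9 : EL := (EL.cons 3 (TM.mk (P.cons (P.lf 0 2242802763 0) (P.cons (P.lf 153546101 0 0) (P.cons (P.lf 4791341 0 0) (P.cons (P.lf 0 36671 0) (P.cons (P.lf 0 4687 0) (P.cons (P.lf 0 56 0) P.nil)))))) 59)
 (EL.cons 7 (TM.mk (P.cons (P.lf 0 1680233071 0) (P.cons (P.lf 0 72873196 0) (P.cons (P.lf 1800820 0 0) (P.cons (P.lf 94981 0 0) (P.cons (P.lf 308 0 0) (P.cons (P.lf 0 74 0) P.nil)))))) 48)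
 EL.nil))
noncomputable def S169_183_586_660_10 : EL := (EL.cons 3 (TM.mk (P.cons (P.cons (P.lf 122712727 0 0) (P.cons (P.lf 100028763 0 0) (P.cons (P.lf 0 5473170 0) (P.lf 0 608129 0)))) (P.cons (P.cons (P.lf 0 50197952 0) (P.cons (P.lf 6166867 0 0) (P.cons (P.lf 0 337424 0) (P.lf 0 37490 0)))) (P.cons (P.cons (P.lf 10970175 0 0) (P.cons (P.lf 0 861873 0) (P.cons (P.lf 47159 0 0) (P.lf 5240 0 0)))) (P.cons (P.cons (P.lf 0 179070 0) (P.cons (P.lf 0 79493 0) (P.cons (P.lf 4348 0 0) P.nil))) (P.cons (P.cons (P.lf 0 59140 0) (P.cons (P.lf 629 0 0) P.nil)) (P.cons (P.cons (P.lf 0 381 0) P.nil) P.nil)))))) 1638)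
 (EL.cons 7 (TM.mk (P.cons (P.cons (P.lf 91932285 0 0) (P.cons (P.lf 74938216 0 0) (P.cons (P.lf 0 4100317 0) (P.lf 0 455590 0)))) (P.cons (P.cons (P.lf 0 27325607 0) (P.cons (P.lf 13000546 0 0) (P.cons (P.lf 0 711336 0) (P.lf 0 79037 0)))) (P.cons (P.cons (P.lf 4814566 0 0) (P.cons (P.lf 524501 0 0) (P.cons (P.lf 0 28697 0) (P.lf 0 3187 0)))) (P.cons (P.cons (P.lf 527131 0 0) (P.cons (P.lf 0 34289 0) (P.cons (P.lf 1875 0 0) P.nil))) (P.cons (P.cons (P.lf 0 10195 0) (P.cons (P.lf 0 3290 0) P.nil)) (P.cons (P.cons (P.lf 0 2113 0) P.nil) P.nil)))))) 983)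
 EL.nil))
noncomputable def S169_183_586_660_11 : EL := (EL.cons 3 (TM.mk (P.cons (P.cons (P.lf 0 6714104 0) (P.cons (P.lf 0 10945948 0) (P.cons (P.lf 0 3862352 0) (P.cons (P.lf 554751 0 0) (P.cons (P.lf 40888 0 0) (P.cons (P.lf 0 2967 0) P.nil)))))) (P.cons (P.cons (P.lf 5033402 0 0) (P.cons (P.lf 3053439 0 0) (P.cons (P.lf 0 1022580 0) (P.cons (P.lf 75055 0 0) (P.cons (P.lf 7840 0 0) P.nil))))) (P.cons (P.cons (P.lf 0 1993712 0) (P.cons (P.lf 0 422512 0) (P.cons (P.lf 14940 0 0) (P.cons (P.lf 3463 0 0) P.nil)))) (P.cons (P.cons (P.lf 385029 0 0) (P.cons (P.lf 0 96459 0) (P.cons (P.lf 14792 0 0) P.nil))) (P.cons (P.cons (P.lf 0 33169 0) (P.cons (P.lf 3529 0 0) P.nil)) (P.cons (P.cons (P.lf 0 2279 0) P.nil) P.nil)))))) 10735)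
 (EL.cons 7 (TM.mk (P.cons (P.cons (P.lf 0 5029983 0) (P.cons (P.lf 0 8200339 0) (P.cons (P.lf 0 2893546 0) (P.cons (P.lf 415601 0 0) (P.cons (P.lf 30632 0 0) (P.cons (P.lf 0 2223 0) P.nil)))))) (P.cons (P.cons (P.lf 3208341 0 0) (P.cons (P.lf 1370470 0 0) (P.cons (P.lf 0 1089676 0) (P.cons (P.lf 102707 0 0) (P.cons (P.lf 9299 0 0) P.nil))))) (P.cons (P.cons (P.lf 0 1115783 0) (P.cons (P.lf 0 132225 0) (P.cons (P.lf 0 99714 0) (P.cons (P.lf 12507 0 0) P.nil)))) (P.cons (P.cons (P.lf 150462 0 0) (P.cons (P.lf 0 93971 0) (P.cons (P.lf 3445 0 0) P.nil))) (P.cons (P.cons (P.lf 0 3075 0) (P.cons (P.lf 0 6998 0) P.nil)) (P.cons (P.cons (P.lf 0 2888 0) P.nil) P.nil)))))) 6898)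
 EL.nil))
noncomputable def S169_183_586_660_12 : EL := (EL.cons 4 (TM.mk (P.cons (P.lf 2242802763 0 0) (P.cons (P.lf 0 153546101 0) (P.cons (P.lf 0 4791341 0) (P.cons (P.lf 36671 0 0) (P.cons (P.lf 4687 0 0) (P.cons (P.lf 56 0 0) P.nil)))))) 59)
 (EL.cons 8 (TM.mk (P.cons (P.lf 1680233071 0 0) (P.cons (P.lf 72873196 0 0) (P.cons (P.lf 0 1800820 0) (P.cons (P.lf 0 94981 0) (P.cons (P.lf 0 308 0) (P.cons (P.lf 74 0 0) P.nil)))))) 48)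
 EL.nil))
noncomputable def S169_183_586_660_13 : EL := (EL.cons 4 (TM.mk (P.cons (P.cons (P.lf 0 122712727 0) (P.cons (P.lf 0 100028763 0) (P.cons (P.lf 5473170 0 0) (P.lf 608129 0 0)))) (P.cons (P.cons (P.lf 50197952 0 0) (P.cons (P.lf 0 6166867 0) (P.cons (P.lf 337424 0 0) (P.lf 37490 0 0)))) (P.cons (P.cons (P.lf 0 10970175 0) (P.cons (P.lf 861873 0 0) (P.cons (P.lf 0 47159 0) (P.lf 0 5240 0)))) (P.cons (P.cons (P.lf 179070 0 0) (P.cons (P.lf 79493 0 0) (P.cons (P.lf 0 4348 0) P.nil))) (P.cons (P.cons (P.lf 59140 0 0) (P.cons (P.lf 0 629 0) P.nil)) (P.cons (P.cons (P.lf 381 0 0) P.nil) P.nil)))))) 1638)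
 (EL.cons 8 (TM.mk (P.cons (P.cons (P.lf 0 91932285 0) (P.cons (P.lf 0 74938216 0) (P.cons (P.lf 4100317 0 0) (P.lf 455590 0 0)))) (P.cons (P.cons (P.lf 27325607 0 0) (P.cons (P.lf 0 13000546 0) (P.cons (P.lf 711336 0 0) (P.lf 79037 0 0)))) (P.cons (P.cons (P.lf 0 4814566 0) (P.cons (P.lf 0 524501 0) (P.cons (P.lf 28697 0 0) (P.lf 3187 0 0)))) (P.cons (P.cons (P.lf 0 527131 0) (P.cons (P.lf 34289 0 0) (P.cons (P.lf 0 1875 0) P.nil))) (P.cons (P.cons (P.lf 10195 0 0) (P.cons (P.lf 3290 0 0) P.nil)) (P.cons (P.cons (P.lf 2113 0 0) P.nil) P.nil)))))) 983)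
 EL.nil))
noncomputable def S169_183_586_660_14 : EL := (EL.cons 4 (TM.mk (P.cons (P.cons (P.lf 6714104 0 0) (P.cons (P.lf 10945948 0 0) (P.cons (P.lf 3862352 0 0) (P.cons (P.lf 0 554751 0) (P.cons (P.lf 0 40888 0) (P.cons (P.lf 2967 0 0) P.nil)))))) (P.cons (P.cons (P.lf 0 5033402 0) (P.cons (P.lf 0 3053439 0) (P.cons (P.lf 1022580 0 0) (P.cons (P.lf 0 75055 0) (P.cons (P.lf 0 7840 0) P.nil))))) (P.cons (P.cons (P.lf 1993712 0 0) (P.cons (P.lf 422512 0 0) (P.cons (P.lf 0 14940 0) (P.cons (P.lf 0 3463 0) P.nil)))) (P.cons (P.cons (P.lf 0 385029 0) (P.cons (P.lf 96459 0 0) (P.cons (P.lf 0 14792 0) P.nil))) (P.cons (P.cons (P.lf 33169 0 0) (P.cons (P.lf 0 3529 0) P.nil)) (P.cons (P.cons (P.lf 2279 0 0) P.nil) P.nil)))))) 10735)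
 (EL.cons 8 (TM.mk (P.cons (P.cons (P.lf 5029983 0 0) (P.cons (P.lf 8200339 0 0) (P.cons (P.lf 2893546 0 0) (P.cons (P.lf 0 415601 0) (P.cons (P.lf 0 30632 0) (P.cons (P.lf 2223 0 0) P.nil)))))) (P.cons (P.cons (P.lf 0 3208341 0) (P.cons (P.lf 0 1370470 0) (P.cons (P.lf 1089676 0 0) (P.cons (P.lf 0 102707 0) (P.cons (P.lf 0 9299 0) P.nil))))) (P.cons (P.cons (P.lf 1115783 0 0) (P.cons (P.lf 132225 0 0) (P.cons (P.lf 99714 0 0) (P.cons (P.lf 0 12507 0) P.nil)))) (P.cons (P.cons (P.lf 0 150462 0) (P.cons (P.lf 93971 0 0) (P.cons (P.lf 0 3445 0) P.nil))) (P.cons (P.cons (P.lf 3075 0 0) (P.cons (P.lf 6998 0 0) P.nil)) (P.cons (P.cons (P.lf 2888 0 0) P.nil) P.nil)))))) 6898)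
 EL.nil))
noncomputable def S169_183_586_660_15 : EL := (EL.cons 4 (TM.mk (P.cons (P.lf 0 1249254801 0) (P.cons (P.lf 171052227 0 0) (P.cons (P.lf 0 517650 0) (P.cons (P.lf 0 406274 0) (P.cons (P.lf 0 8126 0) (P.cons (P.lf 381 0 0) P.nil)))))) 91)
 (EL.cons 8 (TM.mk (P.cons (P.lf 0 935900056 0) (P.cons (P.lf 23482499 0 0) (P.cons (P.lf 5781364 0 0) (P.cons (P.lf 55645 0 0) (P.cons (P.lf 0 8213 0) (P.cons (P.lf 0 257 0) P.nil)))))) 65)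
 EL.nil))
noncomputable def S169_183_586_660_16 : EL := (EL.cons 4 (TM.mk (P.cons (P.cons (P.lf 68351736 0 0) (P.cons (P.lf 55716630 0 0) (P.cons (P.lf 0 3048589 0) (P.lf 0 338730 0)))) (P.cons (P.cons (P.lf 0 32640042 0) (P.cons (P.lf 0 379471 0) (P.cons (P.lf 20763 0 0) (P.lf 2307 0 0)))) (P.cons (P.cons (P.lf 7878661 0 0) (P.cons (P.lf 0 834261 0) (P.cons (P.lf 45647 0 0) (P.lf 5072 0 0)))) (P.cons (P.cons (P.lf 0 457225 0) (P.cons (P.lf 0 17838 0) (P.cons (P.lf 975 0 0) P.nil))) (P.cons (P.cons (P.lf 0 39480 0) (P.cons (P.lf 4579 0 0) P.nil)) (P.cons (P.cons (P.lf 2297 0 0) P.nil) P.nil)))))) 1502)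
 (EL.cons 8 (TM.mk (P.cons (P.cons (P.lf 51206842 0 0) (P.cons (P.lf 41741042 0 0) (P.cons (P.lf 0 2283901 0) (P.lf 0 253766 0)))) (P.cons (P.cons (P.lf 0 18726237 0) (P.cons (P.lf 4383720 0 0) (P.cons (P.lf 0 239858 0) (P.lf 0 26650 0)))) (P.cons (P.cons (P.lf 3614371 0 0) (P.cons (P.lf 0 292778 0) (P.cons (P.lf 16020 0 0) (P.lf 1780 0 0)))) (P.cons (P.cons (P.lf 143372 0 0) (P.cons (P.lf 0 53887 0) (P.cons (P.lf 2947 0 0) P.nil))) (P.cons (P.cons (P.lf 0 31651 0) (P.cons (P.lf 0 943 0) P.nil)) (P.cons (P.cons (P.lf 0 1402 0) P.nil) P.nil)))))) 1082)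
 EL.nil))
noncomputable def S169_183_586_660_17 : EL := (EL.cons 4 (TM.mk (P.cons (P.cons (P.lf 0 3739797 0) (P.cons (P.lf 0 6096960 0) (P.cons (P.lf 0 2151354 0) (P.cons (P.lf 309000 0 0) (P.cons (P.lf 22774 0 0) (P.cons (P.lf 0 1652 0) P.nil)))))) (P.cons (P.cons (P.lf 3059669 0 0) (P.cons (P.lf 2118192 0 0) (P.cons (P.lf 0 422297 0) (P.cons (P.lf 20651 0 0) (P.cons (P.lf 2807 0 0) P.nil))))) (P.cons (P.cons (P.lf 0 1294462 0) (P.cons (P.lf 0 338755 0) (P.cons (P.lf 51912 0 0) (P.cons (P.lf 0 1592 0) P.nil)))) (P.cons (P.cons (P.lf 284440 0 0) (P.cons (P.lf 0 41349 0) (P.cons (P.lf 8851 0 0) P.nil))) (P.cons (P.cons (P.lf 0 30747 0) (P.cons (P.lf 6162 0 0) P.nil)) (P.cons (P.cons (P.lf 0 475 0) P.nil) P.nil)))))) 7900)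
 (EL.cons 8 (TM.mk (P.cons (P.cons (P.lf 0 2801731 0) (P.cons (P.lf 0 4567639 0) (P.cons (P.lf 0 1611722 0) (P.cons (P.lf 231492 0 0) (P.cons (P.lf 17062 0 0) (P.cons (P.lf 0 1238 0) P.nil)))))) (P.cons (P.cons (P.lf 1978877 0 0) (P.cons (P.lf 1076068 0 0) (P.cons (P.lf 0 496615 0) (P.cons (P.lf 41359 0 0) (P.cons (P.lf 4011 0 0) P.nil))))) (P.cons (P.cons (P.lf 0 737858 0) (P.cons (P.lf 0 116153 0) (P.cons (P.lf 0 10545 0) (P.cons (P.lf 2555 0 0) P.nil)))) (P.cons (P.cons (P.lf 122493 0 0) (P.cons (P.lf 0 49005 0) (P.cons (P.lf 6991 0 0) P.nil))) (P.cons (P.cons (P.lf 0 6099 0) (P.cons (P.lf 0 155 0) P.nil)) (P.cons (P.cons (P.lf 0 1677 0) P.nil) P.nil)))))) 5519)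
 EL.nil))
noncomputable def S169_183_586_660_18 : EL := (EL.cons 4 (TM.mk (P.cons (P.lf 695842534 0 0) (P.cons (P.lf 0 142915698 0) (P.cons (P.lf 5324627 0 0) (P.cons (P.lf 421476 0 0) (P.cons (P.lf 0 11685 0) (P.cons (P.lf 0 1182 0) P.nil)))))) 113)
 (EL.cons 8 (TM.mk (P.cons (P.lf 521302032 0 0) (P.cons (P.lf 0 48769121 0) (P.cons (P.lf 0 3438450 0) (P.cons (P.lf 225935 0 0) (P.cons (P.lf 14451 0 0) (P.cons (P.lf 0 170 0) P.nil)))))) 84)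
 EL.nil))
noncomputable def S169_183_586_660_19 : EL := (EL.cons 4 (TM.mk (P.cons (P.cons (P.lf 0 38072333 0) (P.cons (P.lf 0 31034502 0) (P.cons (P.lf 1698082 0 0) (P.lf 188675 0 0)))) (P.cons (P.cons (P.lf 20787198 0 0) (P.cons (P.lf 2336042 0 0) (P.cons (P.lf 0 127818 0) (P.lf 0 14202 0)))) (P.cons (P.cons (P.lf 0 5551809 0) (P.cons (P.lf 516517 0 0) (P.cons (P.lf 0 28261 0) (P.lf 0 3140 0)))) (P.cons (P.cons (P.lf 515656 0 0) (P.cons (P.lf 0 22834 0) (P.cons (P.lf 1249 0 0) P.nil))) (P.cons (P.cons (P.lf 14147 0 0) (P.cons (P.lf 0 4285 0) P.nil)) (P.cons (P.cons (P.lf 0 3364 0) P.nil) P.nil)))))) 1704)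
 (EL.cons 8 (TM.mk (P.cons (P.cons (P.lf 0 28522523 0) (P.cons (P.lf 0 23250015 0) (P.cons (P.lf 1272147 0 0) (P.lf 141349 0 0)))) (P.cons (P.cons (P.lf 12383329 0 0) (P.cons (P.lf 0 850023 0) (P.cons (P.lf 46509 0 0) (P.lf 5167 0 0)))) (P.cons (P.cons (P.lf 0 2666392 0) (P.cons (P.lf 379915 0 0) (P.cons (P.lf 0 20787 0) (P.lf 0 2310 0)))) (P.cons (P.cons (P.lf 35220 0 0) (P.cons (P.lf 23687 0 0) (P.cons (P.lf 0 1295 0) P.nil))) (P.cons (P.cons (P.lf 27508 0 0) (P.cons (P.lf 0 1966 0) P.nil)) (P.cons (P.cons (P.lf 0 266 0) P.nil) P.nil)))))) 998)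
 EL.nil))
noncomputable def S169_183_586_660_20 : EL := (EL.cons 4 (TM.mk (P.cons (P.cons (P.lf 2083089 0 0) (P.cons (P.lf 3396043 0 0) (P.cons (P.lf 1198317 0 0) (P.cons (P.lf 0 172114 0) (P.cons (P.lf 0 12685 0) (P.cons (P.lf 920 0 0) P.nil)))))) (P.cons (P.cons (P.lf 0 1846865 0) (P.cons (P.lf 0 1412344 0) (P.cons (P.lf 153183 0 0) (P.cons (P.lf 279 0 0) (P.cons (P.lf 0 695 0) P.nil))))) (P.cons (P.cons (P.lf 833249 0 0) (P.cons (P.lf 262207 0 0) (P.cons (P.lf 0 47579 0) (P.cons (P.lf 2041 0 0) P.nil)))) (P.cons (P.cons (P.lf 0 204121 0) (P.cons (P.lf 12690 0 0) (P.cons (P.lf 0 3433 0) P.nil))) (P.cons (P.cons (P.lf 26409 0 0) (P.cons (P.lf 0 5424 0) P.nil)) (P.cons (P.cons (P.lf 0 560 0) P.nil) P.nil)))))) 6624)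
 (EL.cons 8 (TM.mk (P.cons (P.cons (P.lf 1560581 0 0) (P.cons (P.lf 2544202 0 0) (P.cons (P.lf 897739 0 0) (P.cons (P.lf 0 128942 0) (P.cons (P.lf 0 9503 0) (P.cons (P.lf 689 0 0) P.nil)))))) (P.cons (P.cons (P.lf 0 1209086 0) (P.cons (P.lf 0 773556 0) (P.cons (P.lf 215156 0 0) (P.cons (P.lf 0 14209 0) (P.cons (P.lf 0 1583 0) P.nil))))) (P.cons (P.cons (P.lf 483119 0 0) (P.cons (P.lf 100296 0 0) (P.cons (P.lf 0 14981 0) (P.cons (P.lf 429 0 0) P.nil)))) (P.cons (P.cons (P.lf 0 93986 0) (P.cons (P.lf 24189 0 0) (P.cons (P.lf 0 4872 0) P.nil))) (P.cons (P.cons (P.lf 7175 0 0) (P.cons (P.lf 0 1925 0) P.nil)) (P.cons (P.cons (P.lf 851 0 0) P.nil) P.nil)))))) 3967)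
 EL.nil))
noncomputable def S169_183_586_660_21 : EL := (EL.cons 4 (TM.mk (P.cons (P.cons (P.lf 0 963707121 0) (P.cons (P.lf 300086289 0 0) (P.cons (P.lf 0 16419510 0) (P.lf 0 1824387 0)))) (P.cons (P.cons (P.lf 362562822 0 0) (P.cons (P.lf 18500601 0 0) (P.cons (P.lf 0 1012272 0) (P.lf 0 112470 0)))) (P.cons (P.cons (P.lf 31357578 0 0) (P.cons (P.lf 0 2585619 0) (P.cons (P.lf 141477 0 0) (P.lf 15720 0 0)))) (P.cons (P.cons (P.lf 0 1756032 0) (P.cons (P.lf 0 238479 0) (P.cons (P.lf 13044 0 0) P.nil))) (P.cons (P.cons (P.lf 0 201798 0) (P.cons (P.lf 1887 0 0) P.nil)) (P.cons (P.cons (P.lf 0 0 0) P.nil) P.nil)))))) 5217)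
 (EL.cons 8 (TM.mk (P.cons (P.cons (P.lf 457376751 0 0) (P.cons (P.lf 0 142421385 0) (P.cons (P.lf 7792728 0 0) (P.lf 865860 0 0)))) (P.cons (P.cons (P.lf 0 223222446 0) (P.cons (P.lf 7146936 0 0) (P.cons (P.lf 0 391047 0) (P.lf 0 43449 0)))) (P.cons (P.cons (P.lf 6092496 0 0) (P.cons (P.lf 1669902 0 0) (P.cons (P.lf 0 91365 0) (P.lf 0 10146 0)))) (P.cons (P.cons (P.lf 1749738 0 0) (P.cons (P.lf 0 27210 0) (P.cons (P.lf 1488 0 0) P.nil))) (P.cons (P.cons (P.lf 0 13227 0) (P.cons (P.lf 0 8358 0) P.nil)) (P.cons (P.cons (P.lf 0 6186 0) P.nil) P.nil)))))) 3921)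
 (EL.cons 11 (TM.mk (P.cons (P.cons (P.lf 1654109751 0 0) (P.cons (P.lf 0 207551025 0) (P.cons (P.lf 0 31687671 0) (P.cons (P.lf 968052 0 0) (P.lf 80670 0 0))))) (P.cons (P.cons (P.lf 143480406 0 0) (P.cons (P.lf 0 18003342 0) (P.cons (P.lf 0 2748642 0) (P.cons (P.lf 83970 0 0) (P.lf 6996 0 0))))) (P.cons (P.cons (P.lf 0 434205 0) (P.cons (P.lf 54480 0 0) (P.cons (P.lf 8316 0 0) (P.cons (P.lf 0 252 0) P.nil)))) (P.cons (P.cons (P.lf 0 340785 0) (P.cons (P.lf 42759 0 0) (P.cons (P.lf 6528 0 0) P.nil))) (P.cons (P.cons (P.lf 0 6816 0) (P.cons (P.lf 855 0 0) P.nil)) (P.cons (P.cons (P.lf 318 0 0) P.nil) P.nil)))))) 669)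
 EL.nil)))
noncomputable def S169_183_586_660_22 : EL := (EL.cons 4 (TM.mk (P.cons (P.cons (P.lf 52728276 0 0) (P.cons (P.lf 26562309 0 0) (P.cons (P.lf 0 14837199 0) (P.cons (P.lf 1303128 0 0) (P.cons (P.lf 122664 0 0) (P.cons (P.lf 0 8904 0) P.nil)))))) (P.cons (P.cons (P.lf 0 37796892 0) (P.cons (P.lf 0 5997699 0) (P.cons (P.lf 0 2238357 0) (P.cons (P.lf 317322 0 0) (P.cons (P.lf 23520 0 0) P.nil))))) (P.cons (P.cons (P.lf 8637873 0 0) (P.cons (P.lf 0 4031919 0) (P.cons (P.lf 196074 0 0) (P.cons (P.lf 27195 0 0) P.nil)))) (P.cons (P.cons (P.lf 0 542667 0) (P.cons (P.lf 0 303366 0) (P.cons (P.lf 45144 0 0) P.nil))) (P.cons (P.cons (P.lf 0 196293 0) (P.cons (P.lf 26256 0 0) P.nil)) (P.cons (P.cons (P.lf 1308 0 0) P.nil) P.nil)))))) 25503)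
 (EL.cons 8 (TM.mk (P.cons (P.cons (P.lf 0 25024914 0) (P.cons (P.lf 0 12606507 0) (P.cons (P.lf 7041753 0 0) (P.cons (P.lf 0 618465 0) (P.cons (P.lf 0 58215 0) (P.cons (P.lf 4224 0 0) P.nil)))))) (P.cons (P.cons (P.lf 20737059 0 0) (P.cons (P.lf 4256334 0 0) (P.cons (P.lf 274830 0 0) (P.cons (P.lf 0 81435 0) (P.cons (P.lf 0 4653 0) P.nil))))) (P.cons (P.cons (P.lf 0 6200388 0) (P.cons (P.lf 1547496 0 0) (P.cons (P.lf 0 185202 0) (P.cons (P.lf 1590 0 0) P.nil)))) (P.cons (P.cons (P.lf 789207 0 0) (P.cons (P.lf 0 56580 0) (P.cons (P.lf 0 8484 0) P.nil))) (P.cons (P.cons (P.lf 44820 0 0) (P.cons (P.lf 0 22035 0) P.nil)) (P.cons (P.cons (P.lf 0 9024 0) P.nil) P.nil)))))) 11805)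
 (EL.cons 11 (TM.mk (P.cons (P.cons (P.lf 0 90502971 0) (P.cons (P.lf 0 62417169 0) (P.cons (P.lf 15027081 0 0) (P.cons (P.lf 1302315 0 0) (P.cons (P.lf 0 181191 0) (P.cons (P.lf 0 9825 0) P.nil)))))) (P.cons (P.cons (P.lf 22975569 0 0) (P.cons (P.lf 0 18880908 0) (P.cons (P.lf 2442570 0 0) (P.cons (P.lf 307344 0 0) (P.cons (P.lf 0 37212 0) P.nil))))) (P.cons (P.cons (P.lf 0 3476004 0) (P.cons (P.lf 0 556203 0) (P.cons (P.lf 245403 0 0) (P.cons (P.lf 16194 0 0) P.nil)))) (P.cons (P.cons (P.lf 0 748215 0) (P.cons (P.lf 123132 0 0) (P.cons (P.lf 9063 0 0) P.nil))) (P.cons (P.cons (P.lf 0 8892 0) (P.cons (P.lf 7107 0 0) P.nil)) (P.cons (P.cons (P.lf 3330 0 0) P.nil) P.nil)))))) 12969)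
 EL.nil)))
noncomputable def S169_183_586_660_23 : EL := (EL.cons 4 (TM.mk (P.cons (P.cons (P.lf 536790735 0 0) (P.cons (P.lf 0 167149890 0) (P.cons (P.lf 9145767 0 0) (P.lf 1016193 0 0)))) (P.cons (P.cons (P.lf 0 238699308 0) (P.cons (P.lf 1138419 0 0) (P.cons (P.lf 0 62292 0) (P.lf 0 6921 0)))) (P.cons (P.cons (P.lf 0 4787295 0) (P.cons (P.lf 2502783 0 0) (P.cons (P.lf 0 136941 0) (P.lf 0 15213 0)))) (P.cons (P.cons (P.lf 2614101 0 0) (P.cons (P.lf 53514 0 0) (P.cons (P.lf 0 2925 0) P.nil))) (P.cons (P.cons (P.lf 80571 0 0) (P.cons (P.lf 0 13737 0) P.nil)) (P.cons (P.cons (P.lf 0 10479 0) P.nil) P.nil)))))) 5388)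
 (EL.cons 8 (TM.mk (P.cons (P.cons (P.lf 0 254761635 0) (P.cons (P.lf 79329579 0 0) (P.cons (P.lf 0 4340595 0) (P.lf 0 482289 0)))) (P.cons (P.cons (P.lf 141777678 0 0) (P.cons (P.lf 0 9411924 0) (P.cons (P.lf 514980 0 0) (P.lf 57219 0 0)))) (P.cons (P.cons (P.lf 0 11361576 0) (P.cons (P.lf 0 827079 0) (P.cons (P.lf 45249 0 0) (P.lf 5022 0 0)))) (P.cons (P.cons (P.lf 0 1012071 0) (P.cons (P.lf 88635 0 0) (P.cons (P.lf 0 4848 0) P.nil))) (P.cons (P.cons (P.lf 82839 0 0) (P.cons (P.lf 5703 0 0) P.nil)) (P.cons (P.cons (P.lf 5220 0 0) P.nil) P.nil)))))) 3723)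
 (EL.cons 11 (TM.mk (P.cons (P.cons (P.lf 0 921349206 0) (P.cons (P.lf 115607184 0 0) (P.cons (P.lf 17650224 0 0) (P.cons (P.lf 0 539208 0) (P.lf 0 44931 0))))) (P.cons (P.cons (P.lf 0 16842321 0) (P.cons (P.lf 2113305 0 0) (P.cons (P.lf 322644 0 0) (P.cons (P.lf 0 9855 0) (P.lf 0 819 0))))) (P.cons (P.cons (P.lf 7681572 0 0) (P.cons (P.lf 0 963849 0) (P.cons (P.lf 0 147153 0) (P.cons (P.lf 4494 0 0) P.nil)))) (P.cons (P.cons (P.lf 328929 0 0) (P.cons (P.lf 0 41271 0) (P.cons (P.lf 0 6300 0) P.nil))) (P.cons (P.cons (P.lf 0 12945 0) (P.cons (P.lf 1623 0 0) P.nil)) (P.cons (P.cons (P.lf 0 1026 0) P.nil) P.nil)))))) 1449)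
 EL.nil)))
noncomputable def S169_183_586_660_24 : EL := (EL.cons 4 (TM.mk (P.cons (P.cons (P.lf 0 29369970 0) (P.cons (P.lf 0 14795367 0) (P.cons (P.lf 8264409 0 0) (P.cons (P.lf 0 725850 0) (P.cons (P.lf 0 68325 0) (P.cons (P.lf 4959 0 0) P.nil)))))) (P.cons (P.cons (P.lf 23063817 0 0) (P.cons (P.lf 4353669 0 0) (P.cons (P.lf 680982 0 0) (P.cons (P.lf 0 127056 0) (P.cons (P.lf 0 8424 0) P.nil))))) (P.cons (P.cons (P.lf 0 6189933 0) (P.cons (P.lf 2048697 0 0) (P.cons (P.lf 0 212226 0) (P.cons (P.lf 0 1497 0) P.nil)))) (P.cons (P.cons (P.lf 586203 0 0) (P.cons (P.lf 7845 0 0) (P.cons (P.lf 0 20196 0) P.nil))) (P.cons (P.cons (P.lf 99204 0 0) (P.cons (P.lf 0 30966 0) P.nil)) (P.cons (P.cons (P.lf 0 8895 0) P.nil) P.nil)))))) 16299)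
 (EL.cons 8 (TM.mk (P.cons (P.cons (P.lf 13939029 0 0) (P.cons (P.lf 7021902 0 0) (P.cons (P.lf 0 3922299 0) (P.cons (P.lf 344490 0 0) (P.cons (P.lf 32427 0 0) (P.cons (P.lf 0 2352 0) P.nil)))))) (P.cons (P.cons (P.lf 0 12504957 0) (P.cons (P.lf 0 2851536 0) (P.cons (P.lf 115443 0 0) (P.cons (P.lf 21774 0 0) (P.cons (P.lf 369 0 0) P.nil))))) (P.cons (P.cons (P.lf 4214652 0 0) (P.cons (P.lf 0 714657 0) (P.cons (P.lf 122016 0 0) (P.cons (P.lf 0 4728 0) P.nil)))) (P.cons (P.cons (P.lf 0 651132 0) (P.cons (P.lf 95706 0 0) (P.cons (P.lf 0 2073 0) P.nil))) (P.cons (P.cons (P.lf 0 2406 0) (P.cons (P.lf 11931 0 0) P.nil)) (P.cons (P.cons (P.lf 7707 0 0) P.nil) P.nil)))))) 7677)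
 (EL.cons 11 (TM.mk (P.cons (P.cons (P.lf 50410707 0 0) (P.cons (P.lf 34766742 0 0) (P.cons (P.lf 0 8370174 0) (P.cons (P.lf 0 725397 0) (P.cons (P.lf 100926 0 0) (P.cons (P.lf 5472 0 0) P.nil)))))) (P.cons (P.cons (P.lf 0 16248735 0) (P.cons (P.lf 8136588 0 0) (P.cons (P.lf 0 787491 0) (P.cons (P.lf 0 121530 0) (P.cons (P.lf 13818 0 0) P.nil))))) (P.cons (P.cons (P.lf 2704602 0 0) (P.cons (P.lf 0 484458 0) (P.cons (P.lf 0 25665 0) (P.cons (P.lf 4248 0 0) P.nil)))) (P.cons (P.cons (P.lf 312372 0 0) (P.cons (P.lf 0 111693 0) (P.cons (P.lf 7077 0 0) P.nil))) (P.cons (P.cons (P.lf 0 27816 0) (P.cons (P.lf 315 0 0) P.nil)) (P.cons (P.cons (P.lf 0 3078 0) P.nil) P.nil)))))) 9066)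
 EL.nil)))
noncomputable def S169_183_586_660_25 : EL := (EL.cons 4 (TM.mk (P.cons (P.cons (P.lf 0 298995708 0) (P.cons (P.lf 93103506 0 0) (P.cons (P.lf 0 5094246 0) (P.lf 0 566025 0)))) (P.cons (P.cons (P.lf 153426723 0 0) (P.cons (P.lf 0 7008129 0) (P.cons (P.lf 383457 0 0) (P.lf 42606 0 0)))) (P.cons (P.cons (P.lf 0 5797155 0) (P.cons (P.lf 0 1549551 0) (P.cons (P.lf 84783 0 0) (P.lf 9420 0 0)))) (P.cons (P.cons (P.lf 0 1927554 0) (P.cons (P.lf 68505 0 0) (P.cons (P.lf 0 3750 0) P.nil))) (P.cons (P.cons (P.lf 50658 0 0) (P.cons (P.lf 12855 0 0) P.nil)) (P.cons (P.cons (P.lf 12333 0 0) P.nil) P.nil)))))) 4344)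
 (EL.cons 8 (TM.mk (P.cons (P.cons (P.lf 141903783 0 0) (P.cons (P.lf 0 44187057 0) (P.cons (P.lf 2417736 0 0) (P.lf 268638 0 0)))) (P.cons (P.cons (P.lf 0 88686003 0) (P.cons (P.lf 8267619 0 0) (P.cons (P.lf 0 452367 0) (P.lf 0 50262 0)))) (P.cons (P.cons (P.lf 11431806 0 0) (P.cons (P.lf 196176 0 0) (P.cons (P.lf 0 10731 0) (P.lf 0 1188 0)))) (P.cons (P.cons (P.lf 301500 0 0) (P.cons (P.lf 0 92832 0) (P.cons (P.lf 5076 0 0) P.nil))) (P.cons (P.cons (P.lf 0 99249 0) (P.cons (P.lf 0 786 0) P.nil)) (P.cons (P.cons (P.lf 0 1011 0) P.nil) P.nil)))))) 3177)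
 (EL.cons 11 (TM.mk (P.cons (P.cons (P.lf 513197121 0 0) (P.cons (P.lf 0 64393905 0) (P.cons (P.lf 0 9831282 0) (P.cons (P.lf 300342 0 0) (P.lf 25026 0 0))))) (P.cons (P.cons (P.lf 0 25753071 0) (P.cons (P.lf 3231390 0 0) (P.cons (P.lf 493350 0 0) (P.cons (P.lf 0 15069 0) (P.lf 0 1254 0))))) (P.cons (P.cons (P.lf 0 6017292 0) (P.cons (P.lf 755022 0 0) (P.cons (P.lf 115272 0 0) (P.cons (P.lf 0 3519 0) P.nil)))) (P.cons (P.cons (P.lf 98058 0 0) (P.cons (P.lf 0 12303 0) (P.cons (P.lf 0 1878 0) P.nil))) (P.cons (P.cons (P.lf 30120 0 0) (P.cons (P.lf 0 3777 0) P.nil)) (P.cons (P.cons (P.lf 432 0 0) P.nil) P.nil)))))) 1593)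
 EL.nil)))
noncomputable def S169_183_586_660_26 : EL := (EL.cons 4 (TM.mk (P.cons (P.cons (P.lf 16359252 0 0) (P.cons (P.lf 8241108 0 0) (P.cons (P.lf 0 4603326 0) (P.cons (P.lf 404301 0 0) (P.cons (P.lf 38055 0 0) (P.cons (P.lf 0 2760 0) P.nil)))))) (P.cons (P.cons (P.lf 0 13966668 0) (P.cons (P.lf 0 2989221 0) (P.cons (P.lf 0 64158 0) (P.cons (P.lf 43092 0 0) (P.cons (P.lf 2085 0 0) P.nil))))) (P.cons (P.cons (P.lf 4292388 0 0) (P.cons (P.lf 0 992721 0) (P.cons (P.lf 154014 0 0) (P.cons (P.lf 0 4872 0) P.nil)))) (P.cons (P.cons (P.lf 0 534852 0) (P.cons (P.lf 79068 0 0) (P.cons (P.lf 3891 0 0) P.nil))) (P.cons (P.cons (P.lf 0 40443 0) (P.cons (P.lf 19962 0 0) P.nil)) (P.cons (P.cons (P.lf 9465 0 0) P.nil) P.nil)))))) 11163)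
 (EL.cons 8 (TM.mk (P.cons (P.cons (P.lf 0 7764123 0) (P.cons (P.lf 0 3911241 0) (P.cons (P.lf 2184744 0 0) (P.cons (P.lf 0 191883 0) (P.cons (P.lf 0 18060 0) (P.cons (P.lf 1311 0 0) P.nil)))))) (P.cons (P.cons (P.lf 7496883 0 0) (P.cons (P.lf 1856091 0 0) (P.cons (P.lf 0 213873 0) (P.cons (P.lf 1005 0 0) (P.cons (P.lf 1029 0 0) P.nil))))) (P.cons (P.cons (P.lf 0 2807859 0) (P.cons (P.lf 297684 0 0) (P.cons (P.lf 0 68229 0) (P.cons (P.lf 3873 0 0) P.nil)))) (P.cons (P.cons (P.lf 508395 0 0) (P.cons (P.lf 0 84018 0) (P.cons (P.lf 5979 0 0) P.nil))) (P.cons (P.cons (P.lf 0 18375 0) (P.cons (P.lf 0 3828 0) P.nil)) (P.cons (P.cons (P.lf 0 5181 0) P.nil) P.nil)))))) 5616)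
 (EL.cons 11 (TM.mk (P.cons (P.cons (P.lf 0 28079070 0) (P.cons (P.lf 0 19365288 0) (P.cons (P.lf 4662237 0 0) (P.cons (P.lf 404049 0 0) (P.cons (P.lf 0 56214 0) (P.cons (P.lf 0 3048 0) P.nil)))))) (P.cons (P.cons (P.lf 10972983 0 0) (P.cons (P.lf 0 3206349 0) (P.cons (P.lf 119451 0 0) (P.cons (P.lf 40029 0 0) (P.cons (P.lf 0 3846 0) P.nil))))) (P.cons (P.cons (P.lf 0 2066115 0) (P.cons (P.lf 621495 0 0) (P.cons (P.lf 0 25692 0) (P.cons (P.lf 0 7863 0) P.nil)))) (P.cons (P.cons (P.lf 0 90651 0) (P.cons (P.lf 53103 0 0) (P.cons (P.lf 0 5781 0) P.nil))) (P.cons (P.cons (P.lf 30714 0 0) (P.cons (P.lf 0 5127 0) P.nil)) (P.cons (P.cons (P.lf 1017 0 0) P.nil) P.nil)))))) 6357)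
 EL.nil)))
noncomputable def S169_183_586_660_27 : EL := (EL.cons 13 (TM.mk (P.lf 0 4294967296 0) 0)
 EL.nil)
noncomputable def S169_183_586_660_28 : EL := (EL.cons 13 (TM.mk (P.cons (P.cons (P.lf 234994874 0 0) (P.cons (P.lf 191555084 0 0) (P.cons (P.lf 0 10481124 0) (P.lf 0 1164568 0)))) (P.cons (P.cons (P.lf 0 80040931 0) (P.cons (P.lf 24923740 0 0) (P.cons (P.lf 0 1363724 0) (P.lf 0 151524 0)))) (P.cons (P.cons (P.lf 16030173 0 0) (P.cons (P.lf 465056 0 0) (P.cons (P.lf 0 25444 0) (P.lf 0 2824 0)))) (P.cons (P.cons (P.lf 579696 0 0) (P.cons (P.lf 0 70280 0) (P.cons (P.lf 3844 0 0) P.nil))) (P.cons (P.cons (P.lf 0 38504 0) (P.cons (P.lf 0 3420 0) P.nil)) (P.cons (P.cons (P.lf 0 2230 0) P.nil) P.nil)))))) 1295)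
 EL.nil)
noncomputable def S169_183_586_660_29 : EL := (EL.cons 13 (TM.mk (P.cons (P.cons (P.lf 0 12857511 0) (P.cons (P.lf 0 20961492 0) (P.cons (P.lf 0 7396407 0) (P.cons (P.lf 1062350 0 0) (P.cons (P.lf 78301 0 0) (P.cons (P.lf 0 5683 0) P.nil)))))) (P.cons (P.cons (P.lf 8758720 0 0) (P.cons (P.lf 4412278 0 0) (P.cons (P.lf 0 2464614 0) (P.cons (P.lf 216463 0 0) (P.cons (P.lf 20376 0 0) P.nil))))) (P.cons (P.cons (P.lf 0 3245791 0) (P.cons (P.lf 0 551821 0) (P.cons (P.lf 0 155922 0) (P.cons (P.lf 23721 0 0) P.nil)))) (P.cons (P.cons (P.lf 534041 0 0) (P.cons (P.lf 0 212731 0) (P.cons (P.lf 12511 0 0) P.nil))) (P.cons (P.cons (P.lf 0 34009 0) (P.cons (P.lf 0 9010 0) P.nil)) (P.cons (P.cons (P.lf 0 5518 0) P.nil) P.nil)))))) 12546)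
 EL.nil)
noncomputable def S169_183_586_660_30 : EL := (EL.cons 13 (TM.mk (P.cons (P.lf 2392322948 0 0) (P.cons (P.lf 0 163782508 0) (P.cons (P.lf 0 5110764 0) (P.cons (P.lf 39116 0 0) (P.cons (P.lf 5000 0 0) (P.cons (P.lf 60 0 0) P.nil)))))) 56)
 EL.nil)
noncomputable def S169_183_586_660_31 : EL := (EL.cons 13 (TM.mk (P.cons (P.cons (P.lf 0 130893576 0) (P.cons (P.lf 0 106697348 0) (P.cons (P.lf 5838049 0 0) (P.lf 648671 0 0)))) (P.cons (P.cons (P.lf 53544483 0 0) (P.cons (P.lf 0 6577992 0) (P.cons (P.lf 359919 0 0) (P.lf 39990 0 0)))) (P.cons (P.cons (P.lf 0 11701521 0) (P.cons (P.lf 919332 0 0) (P.cons (P.lf 0 50303 0) (P.lf 0 5590 0)))) (P.cons (P.cons (P.lf 191009 0 0) (P.cons (P.lf 84793 0 0) (P.cons (P.lf 0 4638 0) P.nil))) (P.cons (P.cons (P.lf 63083 0 0) (P.cons (P.lf 0 671 0) P.nil)) (P.cons (P.cons (P.lf 407 0 0) P.nil) P.nil)))))) 1727)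
 EL.nil)
noncomputable def S169_183_586_660_32 : EL := (EL.cons 13 (TM.mk (P.cons (P.cons (P.lf 7161711 0 0) (P.cons (P.lf 11675678 0 0) (P.cons (P.lf 4119843 0 0) (P.cons (P.lf 0 591735 0) (P.cons (P.lf 0 43614 0) (P.cons (P.lf 3165 0 0) P.nil)))))) (P.cons (P.cons (P.lf 0 5368963 0) (P.cons (P.lf 0 3257002 0) (P.cons (P.lf 1090753 0 0) (P.cons (P.lf 0 80059 0) (P.cons (P.lf 0 8363 0) P.nil))))) (P.cons (P.cons (P.lf 2126627 0 0) (P.cons (P.lf 450680 0 0) (P.cons (P.lf 0 15936 0) (P.cons (P.lf 0 3694 0) P.nil)))) (P.cons (P.cons (P.lf 0 410698 0) (P.cons (P.lf 102890 0 0) (P.cons (P.lf 0 15779 0) P.nil))) (P.cons (P.cons (P.lf 35381 0 0) (P.cons (P.lf 0 3765 0) P.nil)) (P.cons (P.cons (P.lf 2431 0 0) P.nil) P.nil)))))) 11428)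
 EL.nil)
noncomputable def S169_183_586_660_33 : EL := (EL.cons 14 (TM.mk (P.lf 8589934592 0 0) 0)
 EL.nil)
noncomputable def S169_183_586_660_34 : EL := (EL.cons 14 (TM.mk (P.cons (P.cons (P.lf 0 469989748 0) (P.cons (P.lf 0 383110168 0) (P.cons (P.lf 20962248 0 0) (P.lf 2329136 0 0)))) (P.cons (P.cons (P.lf 160081862 0 0) (P.cons (P.lf 0 49847480 0) (P.cons (P.lf 2727448 0 0) (P.lf 303048 0 0)))) (P.cons (P.cons (P.lf 0 32060346 0) (P.cons (P.lf 0 930112 0) (P.cons (P.lf 50888 0 0) (P.lf 5648 0 0)))) (P.cons (P.cons (P.lf 0 1159392 0) (P.cons (P.lf 140560 0 0) (P.cons (P.lf 0 7688 0) P.nil))) (P.cons (P.cons (P.lf 77008 0 0) (P.cons (P.lf 6840 0 0) P.nil)) (P.cons (P.cons (P.lf 4460 0 0) P.nil) P.nil)))))) 2590)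
 EL.nil)
noncomputable def S169_183_586_660_35 : EL := (EL.cons 14 (TM.mk (P.cons (P.cons (P.lf 25715022 0 0) (P.cons (P.lf 41922984 0 0) (P.cons (P.lf 14792814 0 0) (P.cons (P.lf 0 2124700 0) (P.cons (P.lf 0 156602 0) (P.cons (P.lf 11366 0 0) P.nil)))))) (P.cons (P.cons (P.lf 0 17517440 0) (P.cons (P.lf 0 8824556 0) (P.cons (P.lf 4929228 0 0) (P.cons (P.lf 0 432926 0) (P.cons (P.lf 0 40752 0) P.nil))))) (P.cons (P.cons (P.lf 6491582 0 0) (P.cons (P.lf 1103642 0 0) (P.cons (P.lf 311844 0 0) (P.cons (P.lf 0 47442 0) P.nil)))) (P.cons (P.cons (P.lf 0 1068082 0) (P.cons (P.lf 425462 0 0) (P.cons (P.lf 0 25022 0) P.nil))) (P.cons (P.cons (P.lf 68018 0 0) (P.cons (P.lf 18020 0 0) P.nil)) (P.cons (P.cons (P.lf 11036 0 0) P.nil) P.nil)))))) 25092)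
 EL.nil)
noncomputable def S169_183_586_660_36 : EL := (EL.cons 14 (TM.mk (P.cons (P.lf 0 4784645896 0) (P.cons (P.lf 327565016 0 0) (P.cons (P.lf 10221528 0 0) (P.cons (P.lf 0 78232 0) (P.cons (P.lf 0 10000 0) (P.cons (P.lf 0 120 0) P.nil)))))) 112)
 EL.nil)
noncomputable def S169_183_586_660_37 : EL := (EL.cons 14 (TM.mk (P.cons (P.cons (P.lf 261787152 0 0) (P.cons (P.lf 213394696 0 0) (P.cons (P.lf 0 11676098 0) (P.lf 0 1297342 0)))) (P.cons (P.cons (P.lf 0 107088966 0) (P.cons (P.lf 13155984 0 0) (P.cons (P.lf 0 719838 0) (P.lf 0 79980 0)))) (P.cons (P.cons (P.lf 23403042 0 0) (P.cons (P.lf 0 1838664 0) (P.cons (P.lf 100606 0 0) (P.lf 11180 0 0)))) (P.cons (P.cons (P.lf 0 382018 0) (P.cons (P.lf 0 169586 0) (P.cons (P.lf 9276 0 0) P.nil))) (P.cons (P.cons (P.lf 0 126166 0) (P.cons (P.lf 1342 0 0) P.nil)) (P.cons (P.cons (P.lf 0 814 0) P.nil) P.nil)))))) 3454)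
 EL.nil)
noncomputable def S169_183_586_660_38 : EL := (EL.cons 14 (TM.mk (P.cons (P.cons (P.lf 0 14323422 0) (P.cons (P.lf 0 23351356 0) (P.cons (P.lf 0 8239686 0) (P.cons (P.lf 1183470 0 0) (P.cons (P.lf 87228 0 0) (P.cons (P.lf 0 6330 0) P.nil)))))) (P.cons (P.cons (P.lf 10737926 0 0) (P.cons (P.lf 6514004 0 0) (P.cons (P.lf 0 2181506 0) (P.cons (P.lf 160118 0 0) (P.cons (P.lf 16726 0 0) P.nil))))) (P.cons (P.cons (P.lf 0 4253254 0) (P.cons (P.lf 0 901360 0) (P.cons (P.lf 31872 0 0) (P.cons (P.lf 7388 0 0) P.nil)))) (P.cons (P.cons (P.lf 821396 0 0) (P.cons (P.lf 0 205780 0) (P.cons (P.lf 31558 0 0) P.nil))) (P.cons (P.cons (P.lf 0 70762 0) (P.cons (P.lf 7530 0 0) P.nil)) (P.cons (P.cons (P.lf 0 4862 0) P.nil) P.nil)))))) 22856)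
 EL.nil)
noncomputable def S169_183_586_660_39 : EL := (EL.cons 14 (TM.mk (P.cons (P.lf 2665076910 0 0) (P.cons (P.lf 0 364911418 0) (P.cons (P.lf 1104322 0 0) (P.cons (P.lf 866718 0 0) (P.cons (P.lf 17336 0 0) (P.cons (P.lf 0 814 0) P.nil)))))) 180)
 EL.nil)
noncomputable def S169_183_586_660_40 : EL := (EL.cons 14 (TM.mk (P.cons (P.cons (P.lf 0 145817038 0) (P.cons (P.lf 0 118862146 0) (P.cons (P.lf 6503658 0 0) (P.lf 722626 0 0)))) (P.cons (P.cons (P.lf 69632090 0 0) (P.cons (P.lf 809540 0 0) (P.cons (P.lf 0 44296 0) (P.lf 0 4922 0)))) (P.cons (P.cons (P.lf 0 16807812 0) (P.cons (P.lf 1779758 0 0) (P.cons (P.lf 0 97382 0) (P.lf 0 10822 0)))) (P.cons (P.cons (P.lf 975414 0 0) (P.cons (P.lf 38056 0 0) (P.cons (P.lf 0 2080 0) P.nil))) (P.cons (P.cons (P.lf 84226 0 0) (P.cons (P.lf 0 9770 0) P.nil)) (P.cons (P.cons (P.lf 0 4902 0) P.nil) P.nil)))))) 3164)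
 EL.nil)
noncomputable def S169_183_586_660_41 : EL := (EL.cons 14 (TM.mk (P.cons (P.cons (P.lf 7978234 0 0) (P.cons (P.lf 13006848 0 0) (P.cons (P.lf 4589556 0 0) (P.cons (P.lf 0 659200 0) (P.cons (P.lf 0 48586 0) (P.cons (P.lf 3526 0 0) P.nil)))))) (P.cons (P.cons (P.lf 0 6527294 0) (P.cons (P.lf 0 4518810 0) (P.cons (P.lf 900902 0 0) (P.cons (P.lf 0 44056 0) (P.cons (P.lf 0 5990 0) P.nil))))) (P.cons (P.cons (P.lf 2761520 0 0) (P.cons (P.lf 722678 0 0) (P.cons (P.lf 0 110746 0) (P.cons (P.lf 3398 0 0) P.nil)))) (P.cons (P.cons (P.lf 0 606806 0) (P.cons (P.lf 88212 0 0) (P.cons (P.lf 0 18884 0) P.nil))) (P.cons (P.cons (P.lf 65594 0 0) (P.cons (P.lf 0 13146 0) P.nil)) (P.cons (P.cons (P.lf 1014 0 0) P.nil) P.nil)))))) 16808)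
 EL.nil)
noncomputable def S169_183_586_660_42 : EL := (EL.cons 14 (TM.mk (P.cons (P.lf 0 1484464074 0) (P.cons (P.lf 304886824 0 0) (P.cons (P.lf 0 11359206 0) (P.cons (P.lf 0 899150 0) (P.cons (P.lf 24928 0 0) (P.cons (P.lf 2522 0 0) P.nil)))))) 228)
 EL.nil)
noncomputable def S169_183_586_660_43 : EL := (EL.cons 14 (TM.mk (P.cons (P.cons (P.lf 81220978 0 0) (P.cons (P.lf 66206938 0 0) (P.cons (P.lf 0 3622576 0) (P.lf 0 402508 0)))) (P.cons (P.cons (P.lf 0 44346024 0) (P.cons (P.lf 0 4983558 0) (P.cons (P.lf 272680 0 0) (P.lf 30298 0 0)))) (P.cons (P.cons (P.lf 11843860 0 0) (P.cons (P.lf 0 1101904 0) (P.cons (P.lf 60292 0 0) (P.lf 6700 0 0)))) (P.cons (P.cons (P.lf 0 1100068 0) (P.cons (P.lf 48714 0 0) (P.cons (P.lf 0 2666 0) P.nil))) (P.cons (P.cons (P.lf 0 30182 0) (P.cons (P.lf 9142 0 0) P.nil)) (P.cons (P.cons (P.lf 7178 0 0) P.nil) P.nil)))))) 3596)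
 EL.nil)
noncomputable def S169_183_586_660_44 : EL := (EL.cons 14 (TM.mk (P.cons (P.cons (P.lf 0 4443924 0) (P.cons (P.lf 0 7244892 0) (P.cons (P.lf 0 2556410 0) (P.cons (P.lf 367178 0 0) (P.cons (P.lf 27062 0 0) (P.cons (P.lf 0 1964 0) P.nil)))))) (P.cons (P.cons (P.lf 3939980 0 0) (P.cons (P.lf 3013002 0 0) (P.cons (P.lf 0 326792 0) (P.cons (P.lf 0 596 0) (P.cons (P.lf 1484 0 0) P.nil))))) (P.cons (P.cons (P.lf 0 1777598 0) (P.cons (P.lf 0 559376 0) (P.cons (P.lf 101502 0 0) (P.cons (P.lf 0 4356 0) P.nil)))) (P.cons (P.cons (P.lf 435460 0 0) (P.cons (P.lf 0 27072 0) (P.cons (P.lf 7324 0 0) P.nil))) (P.cons (P.cons (P.lf 0 56340 0) (P.cons (P.lf 11572 0 0) P.nil)) (P.cons (P.cons (P.lf 1196 0 0) P.nil) P.nil)))))) 14086)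
 EL.nil)
noncomputable def S169_183_586_660_45 : EL := (EL.cons 14 (TM.mk (P.cons (P.cons (P.lf 0 1406970 0) (P.cons (P.lf 0 3440660 0) (P.cons (P.lf 0 2616380 0) (P.cons (P.lf 0 434228 0) (P.cons (P.lf 150796 0 0) (P.cons (P.lf 5188 0 0) P.nil)))))) (P.cons (P.cons (P.lf 1437674 0 0) (P.cons (P.lf 1896154 0 0) (P.cons (P.lf 121692 0 0) (P.cons (P.lf 0 333660 0) (P.cons (P.lf 46760 0 0) P.nil))))) (P.cons (P.cons (P.lf 0 777610 0) (P.cons (P.lf 0 571962 0) (P.cons (P.lf 27466 0 0) (P.cons (P.lf 0 40356 0) P.nil)))) (P.cons (P.cons (P.lf 241324 0 0) (P.cons (P.lf 36848 0 0) (P.cons (P.lf 0 37624 0) P.nil))) (P.cons (P.cons (P.lf 0 45260 0) (P.cons (P.lf 6586 0 0) P.nil)) (P.cons (P.cons (P.lf 3630 0 0) P.nil) P.nil)))))) 43594)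
 EL.nil)
noncomputable def S169_183_586_660_46 : EL := (EL.cons 15 (TM.mk (P.lf 4294967296 0 0) 0)
 EL.nil)
noncomputable def S169_183_586_660_47 : EL := (EL.cons 15 (TM.mk (P.cons (P.cons (P.lf 0 234994874 0) (P.cons (P.lf 0 191555084 0) (P.cons (P.lf 10481124 0 0) (P.lf 1164568 0 0)))) (P.cons (P.cons (P.lf 80040931 0 0) (P.cons (P.lf 0 24923740 0) (P.cons (P.lf 1363724 0 0) (P.lf 151524 0 0)))) (P.cons (P.cons (P.lf 0 16030173 0) (P.cons (P.lf 0 465056 0) (P.cons (P.lf 25444 0 0) (P.lf 2824 0 0)))) (P.cons (P.cons (P.lf 0 579696 0) (P.cons (P.lf 70280 0 0) (P.cons (P.lf 0 3844 0) P.nil))) (P.cons (P.cons (P.lf 38504 0 0) (P.cons (P.lf 3420 0 0) P.nil)) (P.cons (P.cons (P.lf 2230 0 0) P.nil) P.nil)))))) 1295)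
 EL.nil)
noncomputable def S169_183_586_660_48 : EL := (EL.cons 15 (TM.mk (P.cons (P.cons (P.lf 12857511 0 0) (P.cons (P.lf 20961492 0 0) (P.cons (P.lf 7396407 0 0) (P.cons (P.lf 0 1062350 0) (P.cons (P.lf 0 78301 0) (P.cons (P.lf 5683 0 0) P.nil)))))) (P.cons (P.cons (P.lf 0 8758720 0) (P.cons (P.lf 0 4412278 0) (P.cons (P.lf 2464614 0 0) (P.cons (P.lf 0 216463 0) (P.cons (P.lf 0 20376 0) P.nil))))) (P.cons (P.cons (P.lf 3245791 0 0) (P.cons (P.lf 551821 0 0) (P.cons (P.lf 155922 0 0) (P.cons (P.lf 0 23721 0) P.nil)))) (P.cons (P.cons (P.lf 0 534041 0) (P.cons (P.lf 212731 0 0) (P.cons (P.lf 0 12511 0) P.nil))) (P.cons (P.cons (P.lf 34009 0 0) (P.cons (P.lf 9010 0 0) P.nil)) (P.cons (P.cons (P.lf 5518 0 0) P.nil) P.nil)))))) 12546)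
 EL.nil)
noncomputable def S169_183_586_660 : SL := (SL.cons S169_183_586_660_0 (SL.cons S169_183_586_660_1 (SL.cons S169_183_586_660_2 (SL.cons S169_183_586_660_3 (SL.cons S169_183_586_660_4 (SL.cons S169_183_586_660_5 (SL.cons S169_183_586_660_6 (SL.cons S169_183_586_660_7 (SL.cons S169_183_586_660_8 (SL.cons S169_183_586_660_9 (SL.cons S169_183_586_660_10 (SL.cons S169_183_586_660_11 (SL.cons S169_183_586_660_12 (SL.cons S169_183_586_660_13 (SL.cons S169_183_586_660_14 (SL.cons S169_183_586_660_15 (SL.cons S169_183_586_660_16 (SL.cons S169_183_586_660_17 (SL.cons S169_183_586_660_18 (SL.cons S169_183_586_660_19 (SL.cons S169_183_586_660_20 (SL.cons S169_183_586_660_21 (SL.cons S169_183_586_660_22 (SL.cons S169_183_586_660_23 (SL.cons S169_183_586_660_24 (SL.cons S169_183_586_660_25 (SL.cons S169_183_586_660_26 (SL.cons S169_183_586_660_27 (SL.cons S169_183_586_660_28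 (SL.cons S169_183_586_660_29 (SL.cons S169_183_586_660_30 (SL.cons S169_183_586_660_31 (SL.cons S169_183_586_660_32 (SL.cons S169_183_586_660_33 (SL.cons S169_183_586_660_34 (SL.cons S169_183_586_660_35 (SL.cons S169_183_586_660_36 (SL.cons S169_183_586_660_37 (SL.cons S169_183_586_660_38 (SL.cons S169_183_586_660_39 (SL.cons S169_183_586_660_40 (SL.cons S169_183_586_660_41 (SL.cons S169_183_586_660_42 (SL.cons S169_183_586_660_43 (SL.cons S169_183_586_660_44 (SL.cons S169_183_586_660_45 (SL.cons S169_183_586_660_46 (SL.cons S169_183_586_660_47 (SL.cons S169_183_586_660_48 SL.nil)))))))))))))))))))))))))))))))))))))))))))))))))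
noncomputable def S169_183_660_808_0 : EL := (EL.cons 0 (TM.mk (P.cons (P.lf 6113364111 0 0) (P.cons (P.lf 320722925 0 0) (P.cons (P.lf 0 970595 0) (P.cons (P.lf 0 761763 0) (P.cons (P.lf 0 15236 0) (P.cons (P.lf 715 0 0) P.nil)))))) 165)
 (EL.cons 1 (TM.mk (P.cons (P.lf 0 1754812605 0) (P.cons (P.lf 44029685 0 0) (P.cons (P.lf 10840057 0 0) (P.cons (P.lf 104334 0 0) (P.cons (P.lf 0 15399 0) (P.cons (P.lf 0 481 0) P.nil)))))) 128)
 (EL.cons 5 (TM.mk (P.cons (P.lf 5127803834 0 0) (P.cons (P.lf 0 114034818 0) (P.cons (P.lf 345096 0 0) (P.cons (P.lf 270848 0 0) (P.cons (P.lf 5418 0 0) (P.cons (P.lf 0 254 0) P.nil)))))) 109)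
 (EL.cons 9 (TM.mk (P.lf 6442450944 0 0) 2)
 EL.nil))))
noncomputable def S169_183_660_808_1 : EL := (EL.cons 0 (TM.mk (P.cons (P.cons (P.lf 0 1245473843 0) (P.cons (P.lf 41366490 0 0) (P.cons (P.lf 0 17837690 0) (P.lf 0 1981959 0)))) (P.cons (P.cons (P.lf 422284468 0 0) (P.cons (P.lf 0 52699205 0) (P.cons (P.lf 22724493 0 0) (P.lf 2524938 0 0)))) (P.cons (P.cons (P.lf 0 24618932 0) (P.cons (P.lf 0 7280932 0) (P.cons (P.lf 3139618 0 0) (P.lf 348840 0 0)))) (P.cons (P.cons (P.lf 0 6889318 0) (P.cons (P.lf 4640 0 0) (P.cons (P.lf 0 2005 0) P.nil))) (P.cons (P.cons (P.lf 0 53012 0) (P.cons (P.lf 41697 0 0) P.nil)) (P.cons (P.cons (P.lf 31916 0 0) P.nil) P.nil)))))) 74519)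
 (EL.cons 1 (TM.mk (P.cons (P.cons (P.lf 242071436 0 0) (P.cons (P.lf 123122618 0 0) (P.cons (P.lf 0 53091861 0) (P.lf 0 5899089 0)))) (P.cons (P.cons (P.lf 26289974 0 0) (P.cons (P.lf 29816244 0 0) (P.cons (P.lf 0 12857092 0) (P.lf 0 1428559 0)))) (P.cons (P.cons (P.lf 34852484 0 0) (P.cons (P.lf 0 606033 0) (P.cons (P.lf 261328 0 0) (P.lf 29035 0 0)))) (P.cons (P.cons (P.lf 145315 0 0) (P.cons (P.lf 0 340767 0) (P.cons (P.lf 146932 0 0) P.nil))) (P.cons (P.cons (P.lf 0 289751 0) (P.cons (P.lf 0 9918 0) P.nil)) (P.cons (P.cons (P.lf 0 8324 0) P.nil) P.nil)))))) 41501)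
 (EL.cons 5 (TM.mk (P.cons (P.cons (P.lf 0 719772149 0) (P.cons (P.lf 0 345272960 0) (P.cons (P.lf 148885594 0 0) (P.lf 16542842 0 0)))) (P.cons (P.cons (P.lf 0 113367053 0) (P.cons (P.lf 0 24273182 0) (P.cons (P.lf 10466874 0 0) (P.lf 1162992 0 0)))) (P.cons (P.cons (P.lf 0 20350593 0) (P.cons (P.lf 1786228 0 0) (P.cons (P.lf 0 770240 0) (P.lf 0 85572 0)))) (P.cons (P.cons (P.lf 1744038 0 0) (P.cons (P.lf 119636 0 0) (P.cons (P.lf 0 51584 0) P.nil))) (P.cons (P.cons (P.lf 97948 0 0) (P.cons (P.lf 0 8920 0) P.nil)) (P.cons (P.cons (P.lf 0 7763 0) P.nil) P.nil)))))) 36533)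
 (EL.cons 9 (TM.mk (P.cons (P.cons (P.lf 0 1025829957 0) (P.cons (P.lf 0 291674880 0) (P.cons (P.lf 125773500 0 0) (P.lf 13974828 0 0)))) (P.cons (P.cons (P.lf 32451646 0 0) (P.cons (P.lf 0 37950588 0) (P.cons (P.lf 16364718 0 0) (P.lf 1818300 0 0)))) (P.cons (P.cons (P.lf 0 25679983 0) (P.cons (P.lf 0 708126 0) (P.cons (P.lf 305352 0 0) (P.lf 33930 0 0)))) (P.cons (P.cons (P.lf 0 622494 0) (P.cons (P.lf 107010 0 0) (P.cons (P.lf 0 46140 0) P.nil))) (P.cons (P.cons (P.lf 69786 0 0) (P.cons (P.lf 5208 0 0) P.nil)) (P.cons (P.cons (P.lf 3159 0 0) P.nil) P.nil)))))) 8897)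
 (EL.cons 2 (TM.mk (P.cons (P.cons (P.lf 406756901 0 0) (P.cons (P.lf 0 378931682 0) (P.cons (P.lf 0 38890715 0) (P.cons (P.lf 8088184 0 0) (P.lf 674012 0 0))))) (P.cons (P.cons (P.lf 7435541 0 0) (P.cons (P.lf 0 6926895 0) (P.cons (P.lf 0 710924 0) (P.cons (P.lf 147850 0 0) (P.lf 12318 0 0))))) (P.cons (P.cons (P.lf 0 3391256 0) (P.cons (P.lf 3159267 0 0) (P.cons (P.lf 324241 0 0) (P.cons (P.lf 0 67432 0) P.nil)))) (P.cons (P.cons (P.lf 0 145215 0) (P.cons (P.lf 135278 0 0) (P.cons (P.lf 13882 0 0) P.nil))) (P.cons (P.cons (P.lf 5715 0 0) (P.cons (P.lf 0 5324 0) P.nil)) (P.cons (P.cons (P.lf 452 0 0) P.nil) P.nil)))))) 11141)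
 (EL.cons 6 (TM.mk (P.cons (P.cons (P.lf 304728711 0 0) (P.cons (P.lf 0 283882986 0) (P.cons (P.lf 0 29135628 0) (P.cons (P.lf 6059397 0 0) (P.lf 504948 0 0))))) (P.cons (P.cons (P.lf 39649059 0 0) (P.cons (P.lf 0 36936768 0) (P.cons (P.lf 0 3790911 0) (P.cons (P.lf 788403 0 0) (P.lf 65697 0 0))))) (P.cons (P.cons (P.lf 739818 0 0) (P.cons (P.lf 0 689211 0) (P.cons (P.lf 0 70734 0) (P.cons (P.lf 14709 0 0) P.nil)))) (P.cons (P.cons (P.lf 0 111804 0) (P.cons (P.lf 104154 0 0) (P.cons (P.lf 10689 0 0) P.nil))) (P.cons (P.cons (P.lf 0 5442 0) (P.cons (P.lf 5067 0 0) P.nil)) (P.cons (P.cons (P.lf 84 0 0) P.nil) P.nil)))))) 6045)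
 EL.nil))))))
noncomputable def S169_183_660_808_2 : EL := (EL.cons 0 (TM.mk (P.cons (P.cons (P.lf 241634060 0 0) (P.cons (P.lf 11459462 0 0) (P.cons (P.lf 0 21217823 0) (P.cons (P.lf 13488053 0 0) (P.cons (P.lf 0 1466799 0) (P.cons (P.lf 0 672539 0) P.nil)))))) (P.cons (P.cons (P.lf 0 145352813 0) (P.cons (P.lf 0 19668380 0) (P.cons (P.lf 8847467 0 0) (P.cons (P.lf 626495 0 0) (P.cons (P.lf 33006 0 0) P.nil))))) (P.cons (P.cons (P.lf 14647102 0 0) (P.cons (P.lf 0 3513192 0) (P.cons (P.lf 2343907 0 0) (P.cons (P.lf 0 546609 0) P.nil)))) (P.cons (P.cons (P.lf 0 1519983 0) (P.cons (P.lf 719891 0 0) (P.cons (P.lf 0 223064 0) P.nil))) (P.cons (P.cons (P.lf 0 31505 0) (P.cons (P.lf 139317 0 0) P.nil)) (P.cons (P.cons (P.lf 49732 0 0) P.nil) P.nil)))))) 1318498)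
 (EL.cons 1 (TM.mk (P.cons (P.cons (P.lf 0 32598228 0) (P.cons (P.lf 0 35827885 0) (P.cons (P.lf 7897783 0 0) (P.cons (P.lf 8229265 0 0) (P.cons (P.lf 0 680537 0) (P.cons (P.lf 0 312030 0) P.nil)))))) (P.cons (P.cons (P.lf 0 9864873 0) (P.cons (P.lf 0 11630580 0) (P.cons (P.lf 1710636 0 0) (P.cons (P.lf 3407206 0 0) (P.cons (P.lf 0 297798 0) P.nil))))) (P.cons (P.cons (P.lf 0 10696197 0) (P.cons (P.lf 0 3635098 0) (P.cons (P.lf 1276677 0 0) (P.cons (P.lf 424960 0 0) P.nil)))) (P.cons (P.cons (P.lf 0 10264 0) (P.cons (P.lf 0 525756 0) (P.cons (P.lf 253912 0 0) P.nil))) (P.cons (P.cons (P.lf 0 176881 0) (P.cons (P.lf 15501 0 0) P.nil)) (P.cons (P.cons (P.lf 0 6634 0) P.nil) P.nil)))))) 627221)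
 (EL.cons 5 (TM.mk (P.cons (P.cons (P.lf 99207365 0 0) (P.cons (P.lf 101197053 0 0) (P.cons (P.lf 0 22884190 0) (P.cons (P.lf 0 22746538 0) (P.cons (P.lf 1870227 0 0) (P.cons (P.lf 857521 0 0) P.nil)))))) (P.cons (P.cons (P.lf 39968519 0 0) (P.cons (P.lf 17360140 0 0) (P.cons (P.lf 0 3721573 0) (P.cons (P.lf 0 4078183 0) (P.cons (P.lf 339228 0 0) P.nil))))) (P.cons (P.cons (P.lf 4245850 0 0) (P.cons (P.lf 3706710 0 0) (P.cons (P.lf 0 1567083 0) (P.cons (P.lf 0 204589 0) P.nil)))) (P.cons (P.cons (P.lf 471904 0 0) (P.cons (P.lf 104102 0 0) (P.cons (P.lf 0 77479 0) P.nil))) (P.cons (P.cons (P.lf 94910 0 0) (P.cons (P.lf 0 42636 0) P.nil)) (P.cons (P.cons (P.lf 0 12397 0) P.nil) P.nil)))))) 733538)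
 (EL.cons 9 (TM.mk (P.cons (P.cons (P.lf 163342663 0 0) (P.cons (P.lf 92886645 0 0) (P.cons (P.lf 0 26848510 0) (P.cons (P.lf 0 15838930 0) (P.cons (P.lf 1190037 0 0) (P.cons (P.lf 545649 0 0) P.nil)))))) (P.cons (P.cons (P.lf 0 10334535 0) (P.cons (P.lf 9147300 0 0) (P.cons (P.lf 0 508075 0) (P.cons (P.lf 0 3401845 0) (P.cons (P.lf 309676 0 0) P.nil))))) (P.cons (P.cons (P.lf 8341498 0 0) (P.cons (P.lf 2168448 0 0) (P.cons (P.lf 0 647383 0) (P.cons (P.lf 0 351993 0) P.nil)))) (P.cons (P.cons (P.lf 0 60468 0) (P.cons (P.lf 317698 0 0) (P.cons (P.lf 0 138343 0) P.nil))) (P.cons (P.cons (P.lf 73866 0 0) (P.cons (P.lf 6079 0 0) P.nil)) (P.cons (P.cons (P.lf 4659 0 0) P.nil) P.nil)))))) 333812)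
 (EL.cons 2 (TM.mk (P.cons (P.cons (P.lf 0 129535610 0) (P.cons (P.lf 83843460 0 0) (P.cons (P.lf 62578462 0 0) (P.cons (P.lf 0 12085110 0) (P.cons (P.lf 0 4109450 0) (P.cons (P.lf 86051 0 0) P.nil)))))) (P.cons (P.cons (P.lf 1729873 0 0) (P.cons (P.lf 0 7076981 0) (P.cons (P.lf 7282923 0 0) (P.cons (P.lf 0 1376718 0) (P.cons (P.lf 0 575088 0) P.nil))))) (P.cons (P.cons (P.lf 0 2087825 0) (P.cons (P.lf 2075051 0 0) (P.cons (P.lf 22381 0 0) (P.cons (P.lf 0 7936 0) P.nil)))) (P.cons (P.cons (P.lf 0 125797 0) (P.cons (P.lf 182171 0 0) (P.cons (P.lf 0 76522 0) P.nil))) (P.cons (P.cons (P.lf 31123 0 0) (P.cons (P.lf 0 26150 0) P.nil)) (P.cons (P.cons (P.lf 2283 0 0) P.nil) P.nil)))))) 296740)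
 (EL.cons 6 (TM.mk (P.cons (P.cons (P.lf 0 97043760 0) (P.cons (P.lf 62812728 0 0) (P.cons (P.lf 46881702 0 0) (P.cons (P.lf 0 9053760 0) (P.cons (P.lf 0 3078660 0) (P.cons (P.lf 64464 0 0) P.nil)))))) (P.cons (P.cons (P.lf 0 9556686 0) (P.cons (P.lf 1722666 0 0) (P.cons (P.lf 10699026 0 0) (P.cons (P.lf 0 2043894 0) (P.cons (P.lf 0 775134 0) P.nil))))) (P.cons (P.cons (P.lf 0 2265492 0) (P.cons (P.lf 1509420 0 0) (P.cons (P.lf 1035786 0 0) (P.cons (P.lf 0 200244 0) P.nil)))) (P.cons (P.cons (P.lf 0 331914 0) (P.cons (P.lf 312018 0 0) (P.cons (P.lf 27894 0 0) P.nil))) (P.cons (P.cons (P.lf 0 6348 0) (P.cons (P.lf 9372 0 0) P.nil)) (P.cons (P.cons (P.lf 1818 0 0) P.nil) P.nil)))))) 284502)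
 EL.nil))))))
noncomputable def S169_183_660_808_3 : EL := (EL.cons 0 (TM.mk (P.cons (P.lf 2342352752 0 0) (P.cons (P.lf 0 320722925 0) (P.cons (P.lf 970595 0 0) (P.cons (P.lf 761763 0 0) (P.cons (P.lf 15236 0 0) (P.cons (P.lf 0 715 0) P.nil)))))) 165)
 (EL.cons 1 (TM.mk (P.cons (P.lf 1754812605 0 0) (P.cons (P.lf 0 44029685 0) (P.cons (P.lf 0 10840057 0) (P.cons (P.lf 0 104334 0) (P.cons (P.lf 15399 0 0) (P.cons (P.lf 481 0 0) P.nil)))))) 128)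
 (EL.cons 5 (TM.mk (P.cons (P.lf 1314647110 0 0) (P.cons (P.lf 114034818 0 0) (P.cons (P.lf 0 345096 0) (P.cons (P.lf 0 270848 0) (P.cons (P.lf 0 5418 0) (P.cons (P.lf 254 0 0) P.nil)))))) 102)
 EL.nil)))
noncomputable def S169_183_660_808_4 : EL := (EL.cons 0 (TM.mk (P.cons (P.cons (P.lf 0 372972280 0) (P.cons (P.lf 0 106047442 0) (P.cons (P.lf 45728854 0 0) (P.lf 5080981 0 0)))) (P.cons (P.cons (P.lf 62867438 0 0) (P.cons (P.lf 722264 0 0) (P.cons (P.lf 0 311449 0) (P.lf 0 34604 0)))) (P.cons (P.cons (P.lf 0 11106833 0) (P.cons (P.lf 1587879 0 0) (P.cons (P.lf 0 684711 0) (P.lf 0 76078 0)))) (P.cons (P.cons (P.lf 935685 0 0) (P.cons (P.lf 33952 0 0) (P.cons (P.lf 0 14639 0) P.nil))) (P.cons (P.cons (P.lf 53903 0 0) (P.cons (P.lf 0 8716 0) P.nil)) (P.cons (P.cons (P.lf 0 5264 0) P.nil) P.nil)))))) 13141)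
 (EL.cons 1 (TM.mk (P.cons (P.cons (P.lf 0 279418398 0) (P.cons (P.lf 0 79447209 0) (P.cons (P.lf 34258531 0 0) (P.lf 3806501 0 0)))) (P.cons (P.cons (P.lf 15850104 0 0) (P.cons (P.lf 0 8343690 0) (P.cons (P.lf 3597890 0 0) (P.lf 399765 0 0)))) (P.cons (P.cons (P.lf 0 5490508 0) (P.cons (P.lf 557255 0 0) (P.cons (P.lf 0 240294 0) (P.lf 0 26698 0)))) (P.cons (P.cons (P.lf 0 32040 0) (P.cons (P.lf 102566 0 0) (P.cons (P.lf 0 44225 0) P.nil))) (P.cons (P.cons (P.lf 63493 0 0) (P.cons (P.lf 1796 0 0) P.nil)) (P.cons (P.cons (P.lf 1846 0 0) P.nil) P.nil)))))) 10093)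
 (EL.cons 5 (TM.mk (P.cons (P.cons (P.lf 0 209330950 0) (P.cons (P.lf 0 59519200 0) (P.cons (P.lf 25665350 0 0) (P.lf 2851702 0 0)))) (P.cons (P.cons (P.lf 0 11535650 0) (P.cons (P.lf 0 12907000 0) (P.cons (P.lf 5565642 0 0) (P.lf 618402 0 0)))) (P.cons (P.cons (P.lf 0 4610896 0) (P.cons (P.lf 0 800620 0) (P.cons (P.lf 345236 0 0) (P.lf 38358 0 0)))) (P.cons (P.cons (P.lf 0 540186 0) (P.cons (P.lf 23596 0 0) (P.cons (P.lf 0 10174 0) P.nil))) (P.cons (P.cons (P.lf 4094 0 0) (P.cons (P.lf 4834 0 0) P.nil)) (P.cons (P.cons (P.lf 2924 0 0) P.nil) P.nil)))))) 6714)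
 EL.nil)))
noncomputable def S169_183_660_808_5 : EL := (EL.cons 0 (TM.mk (P.cons (P.cons (P.lf 59388287 0 0) (P.cons (P.lf 33771817 0 0) (P.cons (P.lf 0 9761607 0) (P.cons (P.lf 0 5758732 0) (P.cons (P.lf 432673 0 0) (P.cons (P.lf 198386 0 0) P.nil)))))) (P.cons (P.cons (P.lf 0 11889086 0) (P.cons (P.lf 0 1298367 0) (P.cons (P.lf 1151864 0 0) (P.cons (P.lf 0 448340 0) (P.cons (P.lf 53347 0 0) P.nil))))) (P.cons (P.cons (P.lf 3571899 0 0) (P.cons (P.lf 347022 0 0) (P.cons (P.lf 0 214126 0) (P.cons (P.lf 38988 0 0) P.nil)))) (P.cons (P.cons (P.lf 0 419489 0) (P.cons (P.lf 19917 0 0) (P.cons (P.lf 0 21320 0) P.nil))) (P.cons (P.cons (P.lf 30287 0 0) (P.cons (P.lf 0 11975 0) P.nil)) (P.cons (P.cons (P.lf 0 1047 0) P.nil) P.nil)))))) 209920)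
 (EL.cons 1 (TM.mk (P.cons (P.cons (P.lf 44491725 0 0) (P.cons (P.lf 25300719 0 0) (P.cons (P.lf 0 7313070 0) (P.cons (P.lf 0 4314251 0) (P.cons (P.lf 324144 0 0) (P.cons (P.lf 148623 0 0) P.nil)))))) (P.cons (P.cons (P.lf 0 3931282 0) (P.cons (P.lf 1856748 0 0) (P.cons (P.lf 45097 0 0) (P.cons (P.lf 0 818355 0) (P.cons (P.lf 76215 0 0) P.nil))))) (P.cons (P.cons (P.lf 2067868 0 0) (P.cons (P.lf 371840 0 0) (P.cons (P.lf 0 127687 0) (P.cons (P.lf 0 45975 0) P.nil)))) (P.cons (P.cons (P.lf 0 58734 0) (P.cons (P.lf 54819 0 0) (P.cons (P.lf 0 31966 0) P.nil))) (P.cons (P.cons (P.lf 7053 0 0) (P.cons (P.lf 0 4089 0) P.nil)) (P.cons (P.cons (P.lf 718 0 0) P.nil) P.nil)))))) 145983)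
 (EL.cons 5 (TM.mk (P.cons (P.cons (P.lf 33331718 0 0) (P.cons (P.lf 18954456 0 0) (P.cons (P.lf 0 5478708 0) (P.cons (P.lf 0 3232092 0) (P.cons (P.lf 242838 0 0) (P.cons (P.lf 111344 0 0) P.nil)))))) (P.cons (P.cons (P.lf 782386 0 0) (P.cons (P.lf 3510740 0 0) (P.cons (P.lf 0 578910 0) (P.cons (P.lf 0 974538 0) (P.cons (P.lf 84256 0 0) P.nil))))) (P.cons (P.cons (P.lf 1510488 0 0) (P.cons (P.lf 599430 0 0) (P.cons (P.lf 0 139660 0) (P.cons (P.lf 0 131192 0) P.nil)))) (P.cons (P.cons (P.lf 128996 0 0) (P.cons (P.lf 98816 0 0) (P.cons (P.lf 0 38532 0) P.nil))) (P.cons (P.cons (P.lf 13852 0 0) (P.cons (P.lf 6284 0 0) P.nil)) (P.cons (P.cons (P.lf 1924 0 0) P.nil) P.nil)))))) 104862)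
 EL.nil)))
noncomputable def S169_183_660_808_6 : EL := (EL.cons 12 (TM.mk (P.lf 8589934592 0 0) 0)
 (EL.cons 3 (TM.mk (P.cons (P.lf 0 2242802763 0) (P.cons (P.lf 153546101 0 0) (P.cons (P.lf 4791341 0 0) (P.cons (P.lf 0 36671 0) (P.cons (P.lf 0 4687 0) (P.cons (P.lf 0 56 0) P.nil)))))) 59)
 (EL.cons 7 (TM.mk (P.cons (P.lf 0 1680233071 0) (P.cons (P.lf 0 72873196 0) (P.cons (P.lf 1800820 0 0) (P.cons (P.lf 94981 0 0) (P.cons (P.lf 308 0 0) (P.cons (P.lf 0 74 0) P.nil)))))) 48)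
 EL.nil)))
noncomputable def S169_183_660_808_7 : EL := (EL.cons 12 (TM.mk (P.cons (P.cons (P.lf 0 1367773276 0) (P.cons (P.lf 0 388899840 0) (P.cons (P.lf 167698000 0 0) (P.lf 18633104 0 0)))) (P.cons (P.cons (P.lf 43268862 0 0) (P.cons (P.lf 0 50600784 0) (P.cons (P.lf 21819624 0 0) (P.lf 2424400 0 0)))) (P.cons (P.cons (P.lf 0 34239978 0) (P.cons (P.lf 0 944168 0) (P.cons (P.lf 407136 0 0) (P.lf 45240 0 0)))) (P.cons (P.cons (P.lf 0 829992 0) (P.cons (P.lf 142680 0 0) (P.cons (P.lf 0 61520 0) P.nil))) (P.cons (P.cons (P.lf 93048 0 0) (P.cons (P.lf 6944 0 0) P.nil)) (P.cons (P.cons (P.lf 4212 0 0) P.nil) P.nil)))))) 11838)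
 (EL.cons 3 (TM.mk (P.cons (P.cons (P.lf 617603384 0 0) (P.cons (P.lf 0 203080854 0) (P.cons (P.lf 87570754 0 0) (P.lf 9730080 0 0)))) (P.cons (P.cons (P.lf 0 441663754 0) (P.cons (P.lf 0 12520122 0) (P.cons (P.lf 5398814 0 0) (P.lf 599866 0 0)))) (P.cons (P.cons (P.lf 0 16347956 0) (P.cons (P.lf 1749796 0 0) (P.cons (P.lf 0 754530 0) (P.lf 0 83834 0)))) (P.cons (P.cons (P.lf 1949544 0 0) (P.cons (P.lf 161388 0 0) (P.cons (P.lf 0 69588 0) P.nil))) (P.cons (P.cons (P.lf 139712 0 0) (P.cons (P.lf 0 1276 0) P.nil)) (P.cons (P.cons (P.lf 0 1605 0) P.nil) P.nil)))))) 30738)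
 (EL.cons 7 (TM.mk (P.cons (P.cons (P.lf 143917801 0 0) (P.cons (P.lf 220644403 0 0) (P.cons (P.lf 0 95144355 0) (P.lf 0 10571599 0)))) (P.cons (P.cons (P.lf 209614237 0 0) (P.cons (P.lf 5942074 0 0) (P.cons (P.lf 0 2562291 0) (P.lf 0 284701 0)))) (P.cons (P.cons (P.lf 0 3962080 0) (P.cons (P.lf 0 1162710 0) (P.cons (P.lf 501373 0 0) (P.lf 55706 0 0)))) (P.cons (P.cons (P.lf 0 1239193 0) (P.cons (P.lf 0 7186 0) (P.cons (P.lf 3101 0 0) P.nil))) (P.cons (P.cons (P.lf 14912 0 0) (P.cons (P.lf 5144 0 0) P.nil)) (P.cons (P.cons (P.lf 4319 0 0) P.nil) P.nil)))))) 23510)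
 (EL.cons 10 (TM.mk (P.cons (P.cons (P.lf 0 778939467 0) (P.cons (P.lf 725654175 0 0) (P.cons (P.lf 74475723 0 0) (P.cons (P.lf 0 15488877 0) (P.lf 0 1290738 0))))) (P.cons (P.cons (P.lf 0 67566588 0) (P.cons (P.lf 62944527 0 0) (P.cons (P.lf 6460155 0 0) (P.cons (P.lf 0 1343532 0) (P.lf 0 111960 0))))) (P.cons (P.cons (P.lf 204471 0 0) (P.cons (P.lf 0 190482 0) (P.cons (P.lf 0 19548 0) (P.cons (P.lf 4065 0 0) P.nil)))) (P.cons (P.cons (P.lf 160479 0 0) (P.cons (P.lf 0 149499 0) (P.cons (P.lf 0 15342 0) P.nil))) (P.cons (P.cons (P.lf 3210 0 0) (P.cons (P.lf 0 2988 0) P.nil)) (P.cons (P.cons (P.lf 0 150 0) P.nil) P.nil)))))) 4557)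
 EL.nil))))
noncomputable def S169_183_660_808_8 : EL := (EL.cons 12 (TM.mk (P.cons (P.cons (P.lf 217790218 0 0) (P.cons (P.lf 123848860 0 0) (P.cons (P.lf 0 35798014 0) (P.cons (P.lf 0 21118574 0) (P.cons (P.lf 1586716 0 0) (P.cons (P.lf 727532 0 0) P.nil)))))) (P.cons (P.cons (P.lf 0 13779380 0) (P.cons (P.lf 12196400 0 0) (P.cons (P.lf 0 677434 0) (P.cons (P.lf 0 4535794 0) (P.cons (P.lf 412902 0 0) P.nil))))) (P.cons (P.cons (P.lf 11121998 0 0) (P.cons (P.lf 2891264 0 0) (P.cons (P.lf 0 863178 0) (P.cons (P.lf 0 469324 0) P.nil)))) (P.cons (P.cons (P.lf 0 80624 0) (P.cons (P.lf 423598 0 0) (P.cons (P.lf 0 184458 0) P.nil))) (P.cons (P.cons (P.lf 98488 0 0) (P.cons (P.lf 8106 0 0) P.nil)) (P.cons (P.cons (P.lf 6212 0 0) P.nil) P.nil)))))) 445054)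
 (EL.cons 3 (TM.mk (P.cons (P.cons (P.lf 0 139817394 0) (P.cons (P.lf 41086924 0 0) (P.cons (P.lf 5268515 0 0) (P.cons (P.lf 0 21791917 0) (P.cons (P.lf 2071431 0 0) (P.cons (P.lf 949781 0 0) P.nil)))))) (P.cons (P.cons (P.lf 139383183 0 0) (P.cons (P.lf 35627318 0 0) (P.cons (P.lf 0 10955085 0) (P.cons (P.lf 0 5508380 0) (P.cons (P.lf 397227 0 0) P.nil))))) (P.cons (P.cons (P.lf 0 1138160 0) (P.cons (P.lf 7951347 0 0) (P.cons (P.lf 0 3386575 0) (P.cons (P.lf 0 417307 0) P.nil)))) (P.cons (P.cons (P.lf 2404853 0 0) (P.cons (P.lf 291613 0 0) (P.cons (P.lf 0 174776 0) P.nil))) (P.cons (P.cons (P.lf 225216 0 0) (P.cons (P.lf 0 66541 0) P.nil)) (P.cons (P.cons (P.lf 0 19479 0) P.nil) P.nil)))))) 829822)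
 (EL.cons 7 (TM.mk (P.cons (P.cons (P.lf 0 3231168 0) (P.cons (P.lf 0 59072312 0) (P.cons (P.lf 8937794 0 0) (P.cons (P.lf 17090320 0 0) (P.cons (P.lf 0 1490089 0) (P.cons (P.lf 0 683226 0) P.nil)))))) (P.cons (P.cons (P.lf 0 66151454 0) (P.cons (P.lf 0 16908772 0) (P.cons (P.lf 5199297 0 0) (P.cons (P.lf 2614288 0 0) (P.cons (P.lf 0 188522 0) P.nil))))) (P.cons (P.cons (P.lf 4239112 0 0) (P.cons (P.lf 0 2828244 0) (P.cons (P.lf 1316546 0 0) (P.cons (P.lf 51874 0 0) P.nil)))) (P.cons (P.cons (P.lf 0 1265096 0) (P.cons (P.lf 121607 0 0) (P.cons (P.lf 0 30317 0) P.nil))) (P.cons (P.cons (P.lf 0 6643 0) (P.cons (P.lf 36937 0 0) P.nil)) (P.cons (P.cons (P.lf 16048 0 0) P.nil) P.nil)))))) 427685)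
 (EL.cons 10 (TM.mk (P.cons (P.cons (P.lf 248060694 0 0) (P.cons (P.lf 0 160560234 0) (P.cons (P.lf 0 119837766 0) (P.cons (P.lf 23142984 0 0) (P.cons (P.lf 7869600 0 0) (P.cons (P.lf 0 164790 0) P.nil)))))) (P.cons (P.cons (P.lf 13669938 0 0) (P.cons (P.lf 2560194 0 0) (P.cons (P.lf 0 22151106 0) (P.cons (P.lf 4220826 0 0) (P.cons (P.lf 1640070 0 0) P.nil))))) (P.cons (P.cons (P.lf 5463990 0 0) (P.cons (P.lf 0 4141464 0) (P.cons (P.lf 0 1815378 0) (P.cons (P.lf 353604 0 0) P.nil)))) (P.cons (P.cons (P.lf 640128 0 0) (P.cons (P.lf 0 624300 0) (P.cons (P.lf 0 23094 0) P.nil))) (P.cons (P.cons (P.lf 0 4848 0) (P.cons (P.lf 0 1206 0) P.nil)) (P.cons (P.cons (P.lf 0 3462 0) P.nil) P.nil)))))) 584322)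
 EL.nil))))
noncomputable def S169_183_660_808_9 : EL := (EL.cons 3 (TM.mk (P.cons (P.lf 0 2242802763 0) (P.cons (P.lf 153546101 0 0) (P.cons (P.lf 4791341 0 0) (P.cons (P.lf 0 36671 0) (P.cons (P.lf 0 4687 0) (P.cons (P.lf 0 56 0) P.nil)))))) 59)
 (EL.cons 7 (TM.mk (P.cons (P.lf 0 1680233071 0) (P.cons (P.lf 0 72873196 0) (P.cons (P.lf 1800820 0 0) (P.cons (P.lf 94981 0 0) (P.cons (P.lf 308 0 0) (P.cons (P.lf 0 74 0) P.nil)))))) 48)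
 EL.nil))
noncomputable def S169_183_660_808_10 : EL := (EL.cons 3 (TM.mk (P.cons (P.cons (P.lf 357120959 0 0) (P.cons (P.lf 101540427 0 0) (P.cons (P.lf 0 43785377 0) (P.lf 0 4865040 0)))) (P.cons (P.cons (P.lf 0 35746462 0) (P.cons (P.lf 6260061 0 0) (P.cons (P.lf 0 2699407 0) (P.lf 0 299933 0)))) (P.cons (P.cons (P.lf 8950453 0 0) (P.cons (P.lf 0 874898 0) (P.cons (P.lf 377265 0 0) (P.lf 41917 0 0)))) (P.cons (P.cons (P.lf 0 365361 0) (P.cons (P.lf 0 80694 0) (P.cons (P.lf 34794 0 0) P.nil))) (P.cons (P.cons (P.lf 0 57667 0) (P.cons (P.lf 638 0 0) P.nil)) (P.cons (P.cons (P.lf 231 0 0) P.nil) P.nil)))))) 7604)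
 (EL.cons 7 (TM.mk (P.cons (P.cons (P.lf 267543118 0 0) (P.cons (P.lf 76070704 0 0) (P.cons (P.lf 0 32802546 0) (P.lf 0 3644725 0)))) (P.cons (P.cons (P.lf 3139981 0 0) (P.cons (P.lf 13197013 0 0) (P.cons (P.lf 0 5690700 0) (P.lf 0 632299 0)))) (P.cons (P.cons (P.lf 6043688 0 0) (P.cons (P.lf 532428 0 0) (P.cons (P.lf 0 229589 0) (P.lf 0 25510 0)))) (P.cons (P.cons (P.lf 446774 0 0) (P.cons (P.lf 0 34807 0) (P.cons (P.lf 15008 0 0) P.nil))) (P.cons (P.cons (P.lf 0 17908 0) (P.cons (P.lf 0 3340 0) P.nil)) (P.cons (P.cons (P.lf 0 2152 0) P.nil) P.nil)))))) 4636)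
 EL.nil))
noncomputable def S169_183_660_808_11 : EL := (EL.cons 3 (TM.mk (P.cons (P.cons (P.lf 0 56864286 0) (P.cons (P.lf 0 32336516 0) (P.cons (P.lf 9346739 0 0) (P.cons (P.lf 5513987 0 0) (P.cons (P.lf 0 414285 0) (P.cons (P.lf 0 189955 0) P.nil)))))) (P.cons (P.cons (P.lf 7490775 0 0) (P.cons (P.lf 0 970624 0) (P.cons (P.lf 0 463017 0) (P.cons (P.lf 806782 0 0) (P.cons (P.lf 0 79443 0) P.nil))))) (P.cons (P.cons (P.lf 0 3028742 0) (P.cons (P.lf 0 467805 0) (P.cons (P.lf 193295 0 0) (P.cons (P.lf 29681 0 0) P.nil)))) (P.cons (P.cons (P.lf 211241 0 0) (P.cons (P.lf 0 52643 0) (P.cons (P.lf 32506 0 0) P.nil))) (P.cons (P.cons (P.lf 0 21012 0) (P.cons (P.lf 6947 0 0) P.nil)) (P.cons (P.cons (P.lf 51 0 0) P.nil) P.nil)))))) 162174)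
 (EL.cons 7 (TM.mk (P.cons (P.cons (P.lf 0 42600828 0) (P.cons (P.lf 0 24225440 0) (P.cons (P.lf 7002266 0 0) (P.cons (P.lf 4130896 0 0) (P.cons (P.lf 0 310369 0) (P.cons (P.lf 0 142308 0) P.nil)))))) (P.cons (P.cons (P.lf 847678 0 0) (P.cons (P.lf 0 3436354 0) (P.cons (P.lf 436203 0 0) (P.cons (P.lf 1066384 0 0) (P.cons (P.lf 0 94226 0) P.nil))))) (P.cons (P.cons (P.lf 0 2012960 0) (P.cons (P.lf 0 643050 0) (P.cons (P.lf 167084 0 0) (P.cons (P.lf 125854 0 0) P.nil)))) (P.cons (P.cons (P.lf 0 79064 0) (P.cons (P.lf 0 103459 0) (P.cons (P.lf 42865 0 0) P.nil))) (P.cons (P.cons (P.lf 0 16393 0) (P.cons (P.lf 0 4433 0) P.nil)) (P.cons (P.cons (P.lf 0 1946 0) P.nil) P.nil)))))) 108631)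
 EL.nil))
noncomputable def S169_183_660_808_12 : EL := (EL.cons 4 (TM.mk (P.cons (P.lf 2242802763 0 0) (P.cons (P.lf 0 153546101 0) (P.cons (P.lf 0 4791341 0) (P.cons (P.lf 36671 0 0) (P.cons (P.lf 4687 0 0) (P.cons (P.lf 56 0 0) P.nil)))))) 59)
 (EL.cons 8 (TM.mk (P.cons (P.lf 1680233071 0 0) (P.cons (P.lf 72873196 0 0) (P.cons (P.lf 0 1800820 0) (P.cons (P.lf 0 94981 0) (P.cons (P.lf 0 308 0) (P.cons (P.lf 74 0 0) P.nil)))))) 48)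
 EL.nil))
noncomputable def S169_183_660_808_13 : EL := (EL.cons 4 (TM.mk (P.cons (P.cons (P.lf 0 357120959 0) (P.cons (P.lf 0 101540427 0) (P.cons (P.lf 43785377 0 0) (P.lf 4865040 0 0)))) (P.cons (P.cons (P.lf 35746462 0 0) (P.cons (P.lf 0 6260061 0) (P.cons (P.lf 2699407 0 0) (P.lf 299933 0 0)))) (P.cons (P.cons (P.lf 0 8950453 0) (P.cons (P.lf 874898 0 0) (P.cons (P.lf 0 377265 0) (P.lf 0 41917 0)))) (P.cons (P.cons (P.lf 365361 0 0) (P.cons (P.lf 80694 0 0) (P.cons (P.lf 0 34794 0) P.nil))) (P.cons (P.cons (P.lf 57667 0 0) (P.cons (P.lf 0 638 0) P.nil)) (P.cons (P.cons (P.lf 0 231 0) P.nil) P.nil)))))) 7604)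
 (EL.cons 8 (TM.mk (P.cons (P.cons (P.lf 0 267543118 0) (P.cons (P.lf 0 76070704 0) (P.cons (P.lf 32802546 0 0) (P.lf 3644725 0 0)))) (P.cons (P.cons (P.lf 0 3139981 0) (P.cons (P.lf 0 13197013 0) (P.cons (P.lf 5690700 0 0) (P.lf 632299 0 0)))) (P.cons (P.cons (P.lf 0 6043688 0) (P.cons (P.lf 0 532428 0) (P.cons (P.lf 229589 0 0) (P.lf 25510 0 0)))) (P.cons (P.cons (P.lf 0 446774 0) (P.cons (P.lf 34807 0 0) (P.cons (P.lf 0 15008 0) P.nil))) (P.cons (P.cons (P.lf 17908 0 0) (P.cons (P.lf 3340 0 0) P.nil)) (P.cons (P.cons (P.lf 2152 0 0) P.nil) P.nil)))))) 4636)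
 EL.nil))
noncomputable def S169_183_660_808_14 : EL := (EL.cons 4 (TM.mk (P.cons (P.cons (P.lf 56864286 0 0) (P.cons (P.lf 32336516 0 0) (P.cons (P.lf 0 9346739 0) (P.cons (P.lf 0 5513987 0) (P.cons (P.lf 414285 0 0) (P.cons (P.lf 189955 0 0) P.nil)))))) (P.cons (P.cons (P.lf 0 7490775 0) (P.cons (P.lf 970624 0 0) (P.cons (P.lf 463017 0 0) (P.cons (P.lf 0 806782 0) (P.cons (P.lf 79443 0 0) P.nil))))) (P.cons (P.cons (P.lf 3028742 0 0) (P.cons (P.lf 467805 0 0) (P.cons (P.lf 0 193295 0) (P.cons (P.lf 0 29681 0) P.nil)))) (P.cons (P.cons (P.lf 0 211241 0) (P.cons (P.lf 52643 0 0) (P.cons (P.lf 0 32506 0) P.nil))) (P.cons (P.cons (P.lf 21012 0 0) (P.cons (P.lf 0 6947 0) P.nil)) (P.cons (P.cons (P.lf 0 51 0) P.nil) P.nil)))))) 162174)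
 (EL.cons 8 (TM.mk (P.cons (P.cons (P.lf 42600828 0 0) (P.cons (P.lf 24225440 0 0) (P.cons (P.lf 0 7002266 0) (P.cons (P.lf 0 4130896 0) (P.cons (P.lf 310369 0 0) (P.cons (P.lf 142308 0 0) P.nil)))))) (P.cons (P.cons (P.lf 0 847678 0) (P.cons (P.lf 3436354 0 0) (P.cons (P.lf 0 436203 0) (P.cons (P.lf 0 1066384 0) (P.cons (P.lf 94226 0 0) P.nil))))) (P.cons (P.cons (P.lf 2012960 0 0) (P.cons (P.lf 643050 0 0) (P.cons (P.lf 0 167084 0) (P.cons (P.lf 0 125854 0) P.nil)))) (P.cons (P.cons (P.lf 79064 0 0) (P.cons (P.lf 103459 0 0) (P.cons (P.lf 0 42865 0) P.nil))) (P.cons (P.cons (P.lf 16393 0 0) (P.cons (P.lf 4433 0 0) P.nil)) (P.cons (P.cons (P.lf 1946 0 0) P.nil) P.nil)))))) 108631)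
 EL.nil))
noncomputable def S169_183_660_808_15 : EL := (EL.cons 4 (TM.mk (P.cons (P.lf 0 1249254801 0) (P.cons (P.lf 171052227 0 0) (P.cons (P.lf 0 517650 0) (P.cons (P.lf 0 406274 0) (P.cons (P.lf 0 8126 0) (P.cons (P.lf 381 0 0) P.nil)))))) 91)
 (EL.cons 8 (TM.mk (P.cons (P.lf 0 935900056 0) (P.cons (P.lf 23482499 0 0) (P.cons (P.lf 5781364 0 0) (P.cons (P.lf 55645 0 0) (P.cons (P.lf 0 8213 0) (P.cons (P.lf 0 257 0) P.nil)))))) 65)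
 EL.nil))
noncomputable def S169_183_660_808_16 : EL := (EL.cons 4 (TM.mk (P.cons (P.cons (P.lf 198918549 0 0) (P.cons (P.lf 56558636 0 0) (P.cons (P.lf 0 24388722 0) (P.lf 0 2709856 0)))) (P.cons (P.cons (P.lf 0 33529300 0) (P.cons (P.lf 0 385207 0) (P.cons (P.lf 166106 0 0) (P.lf 18455 0 0)))) (P.cons (P.cons (P.lf 5923644 0 0) (P.cons (P.lf 0 846869 0) (P.cons (P.lf 365179 0 0) (P.lf 40575 0 0)))) (P.cons (P.cons (P.lf 0 499032 0) (P.cons (P.lf 0 18107 0) (P.cons (P.lf 7807 0 0) P.nil))) (P.cons (P.cons (P.lf 0 28748 0) (P.cons (P.lf 4649 0 0) P.nil)) (P.cons (P.cons (P.lf 2807 0 0) P.nil) P.nil)))))) 7017)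
 (EL.cons 8 (TM.mk (P.cons (P.cons (P.lf 149023146 0 0) (P.cons (P.lf 42371845 0 0) (P.cons (P.lf 0 18271217 0) (P.lf 0 2030134 0)))) (P.cons (P.cons (P.lf 0 8453389 0) (P.cons (P.lf 4449968 0 0) (P.cons (P.lf 0 1918875 0) (P.lf 0 213208 0)))) (P.cons (P.cons (P.lf 2928271 0 0) (P.cons (P.lf 0 297203 0) (P.cons (P.lf 128157 0 0) (P.lf 14239 0 0)))) (P.cons (P.cons (P.lf 17088 0 0) (P.cons (P.lf 0 54702 0) (P.cons (P.lf 23587 0 0) P.nil))) (P.cons (P.cons (P.lf 0 33863 0) (P.cons (P.lf 0 958 0) P.nil)) (P.cons (P.cons (P.lf 0 985 0) P.nil) P.nil)))))) 5373)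
 EL.nil))
noncomputable def S169_183_660_808_17 : EL := (EL.cons 4 (TM.mk (P.cons (P.cons (P.lf 0 31673753 0) (P.cons (P.lf 0 18011636 0) (P.cons (P.lf 5206190 0 0) (P.cons (P.lf 3071324 0 0) (P.cons (P.lf 0 230759 0) (P.cons (P.lf 0 105806 0) P.nil)))))) (P.cons (P.cons (P.lf 6340845 0 0) (P.cons (P.lf 692462 0 0) (P.cons (P.lf 0 614327 0) (P.cons (P.lf 239115 0 0) (P.cons (P.lf 0 28452 0) P.nil))))) (P.cons (P.cons (P.lf 0 1905013 0) (P.cons (P.lf 0 185078 0) (P.cons (P.lf 114200 0 0) (P.cons (P.lf 0 20793 0) P.nil)))) (P.cons (P.cons (P.lf 223727 0 0) (P.cons (P.lf 0 10622 0) (P.cons (P.lf 11370 0 0) P.nil))) (P.cons (P.cons (P.lf 0 16153 0) (P.cons (P.lf 6387 0 0) P.nil)) (P.cons (P.cons (P.lf 558 0 0) P.nil) P.nil)))))) 111967)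
 (EL.cons 8 (TM.mk (P.cons (P.cons (P.lf 0 23728920 0) (P.cons (P.lf 0 13493717 0) (P.cons (P.lf 3900304 0 0) (P.cons (P.lf 2300934 0 0) (P.cons (P.lf 0 172877 0) (P.cons (P.lf 0 79266 0) P.nil)))))) (P.cons (P.cons (P.lf 2096684 0 0) (P.cons (P.lf 0 990266 0) (P.cons (P.lf 0 24052 0) (P.cons (P.lf 436456 0 0) (P.cons (P.lf 0 40648 0) P.nil))))) (P.cons (P.cons (P.lf 0 1102863 0) (P.cons (P.lf 0 198315 0) (P.cons (P.lf 68100 0 0) (P.cons (P.lf 24520 0 0) P.nil)))) (P.cons (P.cons (P.lf 31325 0 0) (P.cons (P.lf 0 29237 0) (P.cons (P.lf 17049 0 0) P.nil))) (P.cons (P.cons (P.lf 0 3762 0) (P.cons (P.lf 2181 0 0) P.nil)) (P.cons (P.cons (P.lf 0 383 0) P.nil) P.nil)))))) 77846)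
 EL.nil))
noncomputable def S169_183_660_808_18 : EL := (EL.cons 4 (TM.mk (P.cons (P.lf 695842534 0 0) (P.cons (P.lf 0 142915698 0) (P.cons (P.lf 5324627 0 0) (P.cons (P.lf 421476 0 0) (P.cons (P.lf 0 11685 0) (P.cons (P.lf 0 1182 0) P.nil)))))) 113)
 (EL.cons 8 (TM.mk (P.cons (P.lf 521302032 0 0) (P.cons (P.lf 0 48769121 0) (P.cons (P.lf 0 3438450 0) (P.cons (P.lf 225935 0 0) (P.cons (P.lf 14451 0 0) (P.cons (P.lf 0 170 0) P.nil)))))) 84)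
 EL.nil))
noncomputable def S169_183_660_808_19 : EL := (EL.cons 4 (TM.mk (P.cons (P.cons (P.lf 0 110798843 0) (P.cons (P.lf 0 31503505 0) (P.cons (P.lf 13584666 0 0) (P.lf 1509405 0 0)))) (P.cons (P.cons (P.lf 26261502 0 0) (P.cons (P.lf 2371346 0 0) (P.cons (P.lf 0 1022551 0) (P.lf 0 113616 0)))) (P.cons (P.cons (P.lf 0 4341396 0) (P.cons (P.lf 524323 0 0) (P.cons (P.lf 0 226094 0) (P.lf 0 25121 0)))) (P.cons (P.cons (P.lf 462144 0 0) (P.cons (P.lf 0 23180 0) (P.cons (P.lf 9995 0 0) P.nil))) (P.cons (P.cons (P.lf 4105 0 0) (P.cons (P.lf 0 4350 0) P.nil)) (P.cons (P.cons (P.lf 0 3271 0) P.nil) P.nil)))))) 7896)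
 (EL.cons 8 (TM.mk (P.cons (P.cons (P.lf 0 83006800 0) (P.cons (P.lf 0 23601375 0) (P.cons (P.lf 10177179 0 0) (P.lf 1130797 0 0)))) (P.cons (P.cons (P.lf 10391376 0 0) (P.cons (P.lf 0 862869 0) (P.cons (P.lf 372078 0 0) (P.lf 41342 0 0)))) (P.cons (P.cons (P.lf 0 1776094 0) (P.cons (P.lf 385657 0 0) (P.cons (P.lf 0 166299 0) (P.lf 0 18477 0)))) (P.cons (P.cons (P.lf 90730 0 0) (P.cons (P.lf 24044 0 0) (P.cons (P.lf 0 10368 0) P.nil))) (P.cons (P.cons (P.lf 22901 0 0) (P.cons (P.lf 0 1995 0) P.nil)) (P.cons (P.cons (P.lf 0 741 0) P.nil) P.nil)))))) 4417)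
 EL.nil))
noncomputable def S169_183_660_808_20 : EL := (EL.cons 4 (TM.mk (P.cons (P.cons (P.lf 17642473 0 0) (P.cons (P.lf 10032590 0 0) (P.cons (P.lf 0 2899879 0) (P.cons (P.lf 0 1710746 0) (P.cons (P.lf 128534 0 0) (P.cons (P.lf 58934 0 0) P.nil)))))) (P.cons (P.cons (P.lf 0 4739723 0) (P.cons (P.lf 0 1072554 0) (P.cons (P.lf 540715 0 0) (P.cons (P.lf 0 16067 0) (P.cons (P.lf 7048 0 0) P.nil))))) (P.cons (P.cons (P.lf 1265213 0 0) (P.cons (P.lf 108062 0 0) (P.cons (P.lf 0 80841 0) (P.cons (P.lf 24355 0 0) P.nil)))) (P.cons (P.cons (P.lf 0 189429 0) (P.cons (P.lf 0 151 0) (P.cons (P.lf 0 2757 0) P.nil))) (P.cons (P.cons (P.lf 15240 0 0) (P.cons (P.lf 0 4168 0) P.nil)) (P.cons (P.cons (P.lf 0 650 0) P.nil) P.nil)))))) 81498)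
 (EL.cons 8 (TM.mk (P.cons (P.cons (P.lf 13217153 0 0) (P.cons (P.lf 7516082 0 0) (P.cons (P.lf 0 2172493 0) (P.cons (P.lf 0 1281634 0) (P.cons (P.lf 96293 0 0) (P.cons (P.lf 44151 0 0) P.nil)))))) (P.cons (P.cons (P.lf 0 2072734 0) (P.cons (P.lf 37021 0 0) (P.cons (P.lf 162130 0 0) (P.cons (P.lf 0 155365 0) (P.cons (P.lf 16049 0 0) P.nil))))) (P.cons (P.cons (P.lf 666019 0 0) (P.cons (P.lf 56643 0 0) (P.cons (P.lf 0 34208 0) (P.cons (P.lf 5723 0 0) P.nil)))) (P.cons (P.cons (P.lf 0 56793 0) (P.cons (P.lf 7667 0 0) (P.cons (P.lf 0 6963 0) P.nil))) (P.cons (P.cons (P.lf 1986 0 0) (P.cons (P.lf 0 2540 0) P.nil)) (P.cons (P.cons (P.lf 115 0 0) P.nil) P.nil)))))) 52420)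
 EL.nil))
noncomputable def S169_183_660_808_21 : EL := (EL.cons 4 (TM.mk (P.cons (P.cons (P.lf 0 260482425 0) (P.cons (P.lf 304621281 0 0) (P.cons (P.lf 0 131356131 0) (P.lf 0 14595120 0)))) (P.cons (P.cons (P.lf 405917292 0 0) (P.cons (P.lf 18780183 0 0) (P.cons (P.lf 0 8098221 0) (P.lf 0 899799 0)))) (P.cons (P.cons (P.lf 25298409 0 0) (P.cons (P.lf 0 2624694 0) (P.cons (P.lf 1131795 0 0) (P.lf 125751 0 0)))) (P.cons (P.cons (P.lf 0 2314905 0) (P.cons (P.lf 0 242082 0) (P.cons (P.lf 104382 0 0) P.nil))) (P.cons (P.cons (P.lf 0 197379 0) (P.cons (P.lf 1914 0 0) P.nil)) (P.cons (P.cons (P.lf 1836 0 0) P.nil) P.nil)))))) 23115)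
 (EL.cons 8 (TM.mk (P.cons (P.cons (P.lf 123625317 0 0) (P.cons (P.lf 0 144573699 0) (P.cons (P.lf 62341809 0 0) (P.lf 6926874 0 0)))) (P.cons (P.cons (P.lf 0 206474256 0) (P.cons (P.lf 7254939 0 0) (P.cons (P.lf 0 3128409 0) (P.lf 0 347598 0)))) (P.cons (P.cons (P.lf 10005768 0 0) (P.cons (P.lf 1695138 0 0) (P.cons (P.lf 0 730962 0) (P.lf 0 81216 0)))) (P.cons (P.cons (P.lf 1685967 0 0) (P.cons (P.lf 0 27621 0) (P.cons (P.lf 11907 0 0) P.nil))) (P.cons (P.cons (P.lf 0 32820 0) (P.cons (P.lf 0 8484 0) P.nil)) (P.cons (P.cons (P.lf 0 6471 0) P.nil) P.nil)))))) 18855)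
 (EL.cons 11 (TM.mk (P.cons (P.cons (P.lf 778939467 0 0) (P.cons (P.lf 0 725654175 0) (P.cons (P.lf 0 74475723 0) (P.cons (P.lf 15488877 0 0) (P.lf 1290738 0 0))))) (P.cons (P.cons (P.lf 67566588 0 0) (P.cons (P.lf 0 62944527 0) (P.cons (P.lf 0 6460155 0) (P.cons (P.lf 1343532 0 0) (P.lf 111960 0 0))))) (P.cons (P.cons (P.lf 0 204471 0) (P.cons (P.lf 190482 0 0) (P.cons (P.lf 19548 0 0) (P.cons (P.lf 0 4065 0) P.nil)))) (P.cons (P.cons (P.lf 0 160479 0) (P.cons (P.lf 149499 0 0) (P.cons (P.lf 15342 0 0) P.nil))) (P.cons (P.cons (P.lf 0 3210 0) (P.cons (P.lf 2988 0 0) P.nil)) (P.cons (P.cons (P.lf 150 0 0) P.nil) P.nil)))))) 4557)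
 EL.nil)))
noncomputable def S169_183_660_808_22 : EL := (EL.cons 4 (TM.mk (P.cons (P.cons (P.lf 41476554 0 0) (P.cons (P.lf 0 36711720 0) (P.cons (P.lf 2039112 0 0) (P.cons (P.lf 13652952 0 0) (P.cons (P.lf 0 1242858 0) (P.cons (P.lf 0 569868 0) P.nil)))))) (P.cons (P.cons (P.lf 0 65946204 0) (P.cons (P.lf 0 18298971 0) (P.cons (P.lf 5246034 0 0) (P.cons (P.lf 3157581 0 0) (P.cons (P.lf 0 238335 0) P.nil))))) (P.cons (P.cons (P.lf 0 945291 0) (P.cons (P.lf 0 4209576 0) (P.cons (P.lf 1789935 0 0) (P.cons (P.lf 223494 0 0) P.nil)))) (P.cons (P.cons (P.lf 0 1096806 0) (P.cons (P.lf 0 172128 0) (P.cons (P.lf 103641 0 0) P.nil))) (P.cons (P.cons (P.lf 0 123114 0) (P.cons (P.lf 36744 0 0) P.nil)) (P.cons (P.cons (P.lf 9765 0 0) P.nil) P.nil)))))) 333813)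
 (EL.cons 8 (TM.mk (P.cons (P.cons (P.lf 0 19684830 0) (P.cons (P.lf 17423436 0 0) (P.cons (P.lf 0 967764 0) (P.cons (P.lf 0 6479712 0) (P.cons (P.lf 589860 0 0) (P.cons (P.lf 270459 0 0) P.nil)))))) (P.cons (P.cons (P.lf 33499566 0 0) (P.cons (P.lf 6736209 0 0) (P.cons (P.lf 0 2381547 0) (P.cons (P.lf 0 773952 0) (P.cons (P.lf 47148 0 0) P.nil))))) (P.cons (P.cons (P.lf 0 3126036 0) (P.cons (P.lf 1092597 0 0) (P.cons (P.lf 0 574731 0) (P.cons (P.lf 36990 0 0) P.nil)))) (P.cons (P.cons (P.lf 593016 0 0) (P.cons (P.lf 0 112533 0) (P.cons (P.lf 36591 0 0) P.nil))) (P.cons (P.cons (P.lf 0 4875 0) (P.cons (P.lf 0 20685 0) P.nil)) (P.cons (P.cons (P.lf 0 8997 0) P.nil) P.nil)))))) 159516)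
 (EL.cons 11 (TM.mk (P.cons (P.cons (P.lf 0 124030347 0) (P.cons (P.lf 80280117 0 0) (P.cons (P.lf 59918883 0 0) (P.cons (P.lf 0 11571492 0) (P.cons (P.lf 0 3934800 0) (P.cons (P.lf 82395 0 0) P.nil)))))) (P.cons (P.cons (P.lf 0 6834969 0) (P.cons (P.lf 0 1280097 0) (P.cons (P.lf 11075553 0 0) (P.cons (P.lf 0 2110413 0) (P.cons (P.lf 0 820035 0) P.nil))))) (P.cons (P.cons (P.lf 0 2731995 0) (P.cons (P.lf 2070732 0 0) (P.cons (P.lf 907689 0 0) (P.cons (P.lf 0 176802 0) P.nil)))) (P.cons (P.cons (P.lf 0 320064 0) (P.cons (P.lf 312150 0 0) (P.cons (P.lf 11547 0 0) P.nil))) (P.cons (P.cons (P.lf 2424 0 0) (P.cons (P.lf 603 0 0) P.nil)) (P.cons (P.cons (P.lf 1731 0 0) P.nil) P.nil)))))) 292161)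
 EL.nil)))
noncomputable def S169_183_660_808_23 : EL := (EL.cons 4 (TM.mk (P.cons (P.cons (P.lf 145090296 0 0) (P.cons (P.lf 0 169675908 0) (P.cons (P.lf 73166163 0 0) (P.lf 8129568 0 0)))) (P.cons (P.cons (P.lf 0 236031531 0) (P.cons (P.lf 1155624 0 0) (P.cons (P.lf 0 498321 0) (P.lf 0 55368 0)))) (P.cons (P.cons (P.lf 1077753 0 0) (P.cons (P.lf 2540607 0 0) (P.cons (P.lf 0 1095537 0) (P.lf 0 121722 0)))) (P.cons (P.cons (P.lf 2739525 0 0) (P.cons (P.lf 54324 0 0) (P.cons (P.lf 0 23421 0) P.nil))) (P.cons (P.cons (P.lf 48375 0 0) (P.cons (P.lf 0 13944 0) P.nil)) (P.cons (P.cons (P.lf 0 12003 0) P.nil) P.nil)))))) 26520)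
 (EL.cons 8 (TM.mk (P.cons (P.cons (P.lf 0 68860053 0) (P.cons (P.lf 80528430 0 0) (P.cons (P.lf 0 34724766 0) (P.lf 0 3858309 0)))) (P.cons (P.cons (P.lf 119721693 0 0) (P.cons (P.lf 0 9554157 0) (P.cons (P.lf 4119858 0 0) (P.lf 457758 0 0)))) (P.cons (P.cons (P.lf 0 13299768 0) (P.cons (P.lf 0 839577 0) (P.cons (P.lf 362034 0 0) (P.lf 40224 0 0)))) (P.cons (P.cons (P.lf 0 804354 0) (P.cons (P.lf 89976 0 0) (P.cons (P.lf 0 38796 0) P.nil))) (P.cons (P.cons (P.lf 96213 0 0) (P.cons (P.lf 5790 0 0) P.nil)) (P.cons (P.cons (P.lf 4506 0 0) P.nil) P.nil)))))) 17163)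
 (EL.cons 11 (TM.mk (P.cons (P.cons (P.lf 0 433874028 0) (P.cons (P.lf 404193795 0 0) (P.cons (P.lf 41483430 0 0) (P.cons (P.lf 0 8627397 0) (P.lf 0 718947 0))))) (P.cons (P.cons (P.lf 0 7931244 0) (P.cons (P.lf 7388688 0 0) (P.cons (P.lf 758319 0 0) (P.cons (P.lf 0 157707 0) (P.lf 0 13140 0))))) (P.cons (P.cons (P.lf 3617340 0 0) (P.cons (P.lf 0 3369885 0) (P.cons (P.lf 0 345858 0) (P.cons (P.lf 71928 0 0) P.nil)))) (P.cons (P.cons (P.lf 154896 0 0) (P.cons (P.lf 0 144297 0) (P.cons (P.lf 0 14808 0) P.nil))) (P.cons (P.cons (P.lf 0 6096 0) (P.cons (P.lf 5679 0 0) P.nil)) (P.cons (P.cons (P.lf 0 483 0) P.nil) P.nil)))))) 11862)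
 EL.nil)))
noncomputable def S169_183_660_808_24 : EL := (EL.cons 4 (TM.mk (P.cons (P.cons (P.lf 0 23102694 0) (P.cons (P.lf 20448651 0 0) (P.cons (P.lf 0 1135797 0) (P.cons (P.lf 0 7604778 0) (P.cons (P.lf 692280 0 0) (P.cons (P.lf 317418 0 0) P.nil)))))) (P.cons (P.cons (P.lf 38314086 0 0) (P.cons (P.lf 8792688 0 0) (P.cons (P.lf 0 2844315 0) (P.cons (P.lf 0 1238154 0) (P.cons (P.lf 85359 0 0) P.nil))))) (P.cons (P.cons (P.lf 0 1938876 0) (P.cons (P.lf 1603269 0 0) (P.cons (P.lf 0 794526 0) (P.cons (P.lf 12168 0 0) P.nil)))) (P.cons (P.cons (P.lf 496029 0 0) (P.cons (P.lf 0 86088 0) (P.cons (P.lf 16749 0 0) P.nil))) (P.cons (P.cons (P.lf 26178 0 0) (P.cons (P.lf 0 31830 0) P.nil)) (P.cons (P.cons (P.lf 0 11352 0) P.nil) P.nil)))))) 178794)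
 (EL.cons 8 (TM.mk (P.cons (P.cons (P.lf 10964568 0 0) (P.cons (P.lf 0 9704958 0) (P.cons (P.lf 539052 0 0) (P.cons (P.lf 3609237 0 0) (P.cons (P.lf 0 328554 0) (P.cons (P.lf 0 150648 0) P.nil)))))) (P.cons (P.cons (P.lf 0 19410114 0) (P.cons (P.lf 0 3087690 0) (P.cons (P.lf 1289631 0 0) (P.cons (P.lf 183999 0 0) (P.cons (P.lf 0 3768 0) P.nil))))) (P.cons (P.cons (P.lf 2995254 0 0) (P.cons (P.lf 0 330972 0) (P.cons (P.lf 228159 0 0) (P.cons (P.lf 0 57825 0) P.nil)))) (P.cons (P.cons (P.lf 0 409479 0) (P.cons (P.lf 112203 0 0) (P.cons (P.lf 0 45123 0) P.nil))) (P.cons (P.cons (P.lf 21327 0 0) (P.cons (P.lf 8448 0 0) P.nil)) (P.cons (P.cons (P.lf 5520 0 0) P.nil) P.nil)))))) 85515)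
 (EL.cons 11 (TM.mk (P.cons (P.cons (P.lf 69085659 0 0) (P.cons (P.lf 0 44716512 0) (P.cons (P.lf 0 33375180 0) (P.cons (P.lf 6445392 0 0) (P.cons (P.lf 2191707 0 0) (P.cons (P.lf 0 45894 0) P.nil)))))) (P.cons (P.cons (P.lf 0 922599 0) (P.cons (P.lf 3774390 0 0) (P.cons (P.lf 0 3884226 0) (P.cons (P.lf 734250 0 0) (P.cons (P.lf 306714 0 0) P.nil))))) (P.cons (P.cons (P.lf 1113507 0 0) (P.cons (P.lf 0 1106694 0) (P.cons (P.lf 0 11937 0) (P.cons (P.lf 4233 0 0) P.nil)))) (P.cons (P.cons (P.lf 67092 0 0) (P.cons (P.lf 0 97158 0) (P.cons (P.lf 40812 0 0) P.nil))) (P.cons (P.cons (P.lf 0 16599 0) (P.cons (P.lf 13947 0 0) P.nil)) (P.cons (P.cons (P.lf 0 1218 0) P.nil) P.nil)))))) 158250)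
 EL.nil)))
noncomputable def S169_183_660_808_25 : EL := (EL.cons 4 (TM.mk (P.cons (P.cons (P.lf 0 80816178 0) (P.cons (P.lf 94510515 0 0) (P.cons (P.lf 0 40753998 0) (P.lf 0 4528218 0)))) (P.cons (P.cons (P.lf 137003814 0 0) (P.cons (P.lf 0 7114041 0) (P.cons (P.lf 3067656 0 0) (P.lf 340851 0 0)))) (P.cons (P.cons (P.lf 0 9428394 0) (P.cons (P.lf 0 1572969 0) (P.cons (P.lf 678279 0 0) (P.lf 75363 0 0)))) (P.cons (P.cons (P.lf 0 1767018 0) (P.cons (P.lf 69543 0 0) (P.cons (P.lf 0 29988 0) P.nil))) (P.cons (P.cons (P.lf 80784 0 0) (P.cons (P.lf 13050 0 0) P.nil)) (P.cons (P.cons (P.lf 12051 0 0) P.nil) P.nil)))))) 22086)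
 (EL.cons 8 (TM.mk (P.cons (P.cons (P.lf 38355468 0 0) (P.cons (P.lf 0 44854824 0) (P.cons (P.lf 19341906 0 0) (P.lf 2149101 0 0)))) (P.cons (P.cons (P.lf 0 69311592 0) (P.cons (P.lf 8392560 0 0) (P.cons (P.lf 0 3618966 0) (P.lf 0 402105 0)))) (P.cons (P.cons (P.lf 11891529 0 0) (P.cons (P.lf 199140 0 0) (P.cons (P.lf 0 85869 0) (P.lf 0 9540 0)))) (P.cons (P.cons (P.lf 83952 0 0) (P.cons (P.lf 0 94233 0) (P.cons (P.lf 40632 0 0) P.nil))) (P.cons (P.cons (P.lf 0 101100 0) (P.cons (P.lf 0 798 0) P.nil)) (P.cons (P.cons (P.lf 183 0 0) P.nil) P.nil)))))) 13188)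
 (EL.cons 11 (TM.mk (P.cons (P.cons (P.lf 241670475 0 0) (P.cons (P.lf 0 225138405 0) (P.cons (P.lf 0 23106522 0) (P.cons (P.lf 4805511 0 0) (P.lf 400458 0 0))))) (P.cons (P.cons (P.lf 0 12127419 0) (P.cons (P.lf 11297814 0 0) (P.cons (P.lf 1159521 0 0) (P.cons (P.lf 0 241146 0) (P.lf 0 20094 0))))) (P.cons (P.cons (P.lf 0 2833611 0) (P.cons (P.lf 2639772 0 0) (P.cons (P.lf 270924 0 0) (P.cons (P.lf 0 56343 0) P.nil)))) (P.cons (P.cons (P.lf 46176 0 0) (P.cons (P.lf 0 43017 0) (P.cons (P.lf 0 4413 0) P.nil))) (P.cons (P.cons (P.lf 14184 0 0) (P.cons (P.lf 0 13212 0) P.nil)) (P.cons (P.cons (P.lf 204 0 0) P.nil) P.nil)))))) 10764)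
 EL.nil)))
noncomputable def S169_183_660_808_26 : EL := (EL.cons 4 (TM.mk (P.cons (P.cons (P.lf 12868341 0 0) (P.cons (P.lf 0 11390022 0) (P.cons (P.lf 632646 0 0) (P.cons (P.lf 4235907 0 0) (P.cons (P.lf 0 385602 0) (P.cons (P.lf 0 176805 0) P.nil)))))) (P.cons (P.cons (P.lf 0 22222167 0) (P.cons (P.lf 0 4117800 0) (P.cons (P.lf 1540986 0 0) (P.cons (P.lf 399663 0 0) (P.cons (P.lf 0 21144 0) P.nil))))) (P.cons (P.cons (P.lf 2513529 0 0) (P.cons (P.lf 0 533400 0) (P.cons (P.lf 332739 0 0) (P.cons (P.lf 0 63042 0) P.nil)))) (P.cons (P.cons (P.lf 0 304425 0) (P.cons (P.lf 119364 0 0) (P.cons (P.lf 0 43002 0) P.nil))) (P.cons (P.cons (P.lf 1704 0 0) (P.cons (P.lf 16251 0 0) P.nil)) (P.cons (P.cons (P.lf 7884 0 0) P.nil) P.nil)))))) 96345)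
 (EL.cons 8 (TM.mk (P.cons (P.cons (P.lf 0 6107331 0) (P.cons (P.lf 5405721 0 0) (P.cons (P.lf 0 300255 0) (P.cons (P.lf 0 2010366 0) (P.cons (P.lf 183006 0 0) (P.cons (P.lf 83910 0 0) P.nil)))))) (P.cons (P.cons (P.lf 11229669 0 0) (P.cons (P.lf 1349778 0 0) (P.cons (P.lf 0 697776 0) (P.cons (P.lf 35142 0 0) (P.cons (P.lf 0 10428 0) P.nil))))) (P.cons (P.cons (P.lf 0 2395506 0) (P.cons (P.lf 55059 0 0) (P.cons (P.lf 0 77265 0) (P.cons (P.lf 43521 0 0) P.nil)))) (P.cons (P.cons (P.lf 319104 0 0) (P.cons (P.lf 0 78705 0) (P.cons (P.lf 35364 0 0) P.nil))) (P.cons (P.cons (P.lf 0 23766 0) (P.cons (P.lf 0 780 0) P.nil)) (P.cons (P.cons (P.lf 0 2754 0) P.nil) P.nil)))))) 46149)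
 (EL.cons 11 (TM.mk (P.cons (P.cons (P.lf 0 38481132 0) (P.cons (P.lf 24907368 0 0) (P.cons (P.lf 18590178 0 0) (P.cons (P.lf 0 3590121 0) (P.cons (P.lf 0 1220793 0) (P.cons (P.lf 25563 0 0) P.nil)))))) (P.cons (P.cons (P.lf 3148377 0 0) (P.cons (P.lf 0 3807558 0) (P.cons (P.lf 890823 0 0) (P.cons (P.lf 0 163194 0) (P.cons (P.lf 0 87264 0) P.nil))))) (P.cons (P.cons (P.lf 0 573204 0) (P.cons (P.lf 707157 0 0) (P.cons (P.lf 0 181182 0) (P.cons (P.lf 33309 0 0) P.nil)))) (P.cons (P.cons (P.lf 3363 0 0) (P.cons (P.lf 16815 0 0) (P.cons (P.lf 0 27504 0) P.nil))) (P.cons (P.cons (P.lf 13056 0 0) (P.cons (P.lf 0 12771 0) P.nil)) (P.cons (P.cons (P.lf 114 0 0) P.nil) P.nil)))))) 86016)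
 EL.nil)))
noncomputable def S169_183_660_808_27 : EL := (EL.cons 13 (TM.mk (P.lf 0 4294967296 0) 0)
 EL.nil)
noncomputable def S169_183_660_808_28 : EL := (EL.cons 13 (TM.mk (P.cons (P.cons (P.lf 683886638 0 0) (P.cons (P.lf 194449920 0 0) (P.cons (P.lf 0 83849000 0) (P.lf 0 9316552 0)))) (P.cons (P.cons (P.lf 0 21634431 0) (P.cons (P.lf 25300392 0 0) (P.cons (P.lf 0 10909812 0) (P.lf 0 1212200 0)))) (P.cons (P.cons (P.lf 17119989 0 0) (P.cons (P.lf 472084 0 0) (P.cons (P.lf 0 203568 0) (P.lf 0 22620 0)))) (P.cons (P.cons (P.lf 414996 0 0) (P.cons (P.lf 0 71340 0) (P.cons (P.lf 30760 0 0) P.nil))) (P.cons (P.cons (P.lf 0 46524 0) (P.cons (P.lf 0 3472 0) P.nil)) (P.cons (P.cons (P.lf 0 2106 0) P.nil) P.nil)))))) 5919)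
 EL.nil)
noncomputable def S169_183_660_808_29 : EL := (EL.cons 13 (TM.mk (P.cons (P.cons (P.lf 0 108895109 0) (P.cons (P.lf 0 61924430 0) (P.cons (P.lf 17899007 0 0) (P.cons (P.lf 10559287 0 0) (P.cons (P.lf 0 793358 0) (P.cons (P.lf 0 363766 0) P.nil)))))) (P.cons (P.cons (P.lf 6889690 0 0) (P.cons (P.lf 0 6098200 0) (P.cons (P.lf 338717 0 0) (P.cons (P.lf 2267897 0 0) (P.cons (P.lf 0 206451 0) P.nil))))) (P.cons (P.cons (P.lf 0 5560999 0) (P.cons (P.lf 0 1445632 0) (P.cons (P.lf 431589 0 0) (P.cons (P.lf 234662 0 0) P.nil)))) (P.cons (P.cons (P.lf 40312 0 0) (P.cons (P.lf 0 211799 0) (P.cons (P.lf 92229 0 0) P.nil))) (P.cons (P.cons (P.lf 0 49244 0) (P.cons (P.lf 0 4053 0) P.nil)) (P.cons (P.cons (P.lf 0 3106 0) P.nil) P.nil)))))) 222527)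
 EL.nil)
noncomputable def S169_183_660_808_30 : EL := (EL.cons 13 (TM.mk (P.cons (P.lf 2392322948 0 0) (P.cons (P.lf 0 163782508 0) (P.cons (P.lf 0 5110764 0) (P.cons (P.lf 39116 0 0) (P.cons (P.lf 5000 0 0) (P.cons (P.lf 60 0 0) P.nil)))))) 56)
 EL.nil)
noncomputable def S169_183_660_808_31 : EL := (EL.cons 13 (TM.mk (P.cons (P.cons (P.lf 0 380929023 0) (P.cons (P.lf 0 108309789 0) (P.cons (P.lf 46704403 0 0) (P.lf 5189376 0 0)))) (P.cons (P.cons (P.lf 38129560 0 0) (P.cons (P.lf 0 6677399 0) (P.cons (P.lf 2879368 0 0) (P.lf 319929 0 0)))) (P.cons (P.cons (P.lf 0 9547150 0) (P.cons (P.lf 933225 0 0) (P.cons (P.lf 0 402417 0) (P.lf 0 44712 0)))) (P.cons (P.cons (P.lf 389719 0 0) (P.cons (P.lf 86074 0 0) (P.cons (P.lf 0 37114 0) P.nil))) (P.cons (P.cons (P.lf 61512 0 0) (P.cons (P.lf 0 681 0) P.nil)) (P.cons (P.cons (P.lf 0 247 0) P.nil) P.nil)))))) 8091)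
 EL.nil)
noncomputable def S169_183_660_808_32 : EL := (EL.cons 13 (TM.mk (P.cons (P.cons (P.lf 60655239 0 0) (P.cons (P.lf 34492284 0 0) (P.cons (P.lf 0 9969855 0) (P.cons (P.lf 0 5881587 0) (P.cons (P.lf 441905 0 0) (P.cons (P.lf 202619 0 0) P.nil)))))) (P.cons (P.cons (P.lf 0 7990160 0) (P.cons (P.lf 1035333 0 0) (P.cons (P.lf 493885 0 0) (P.cons (P.lf 0 860568 0) (P.cons (P.lf 84740 0 0) P.nil))))) (P.cons (P.cons (P.lf 3230659 0 0) (P.cons (P.lf 498993 0 0) (P.cons (P.lf 0 206182 0) (P.cons (P.lf 0 31660 0) P.nil)))) (P.cons (P.cons (P.lf 0 225324 0) (P.cons (P.lf 56153 0 0) (P.cons (P.lf 0 34674 0) P.nil))) (P.cons (P.cons (P.lf 22413 0 0) (P.cons (P.lf 0 7411 0) P.nil)) (P.cons (P.cons (P.lf 0 55 0) P.nil) P.nil)))))) 172963)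
 EL.nil)
noncomputable def S169_183_660_808_33 : EL := (EL.cons 14 (TM.mk (P.lf 8589934592 0 0) 0)
 EL.nil)
noncomputable def S169_183_660_808_34 : EL := (EL.cons 14 (TM.mk (P.cons (P.cons (P.lf 0 1367773276 0) (P.cons (P.lf 0 388899840 0) (P.cons (P.lf 167698000 0 0) (P.lf 18633104 0 0)))) (P.cons (P.cons (P.lf 43268862 0 0) (P.cons (P.lf 0 50600784 0) (P.cons (P.lf 21819624 0 0) (P.lf 2424400 0 0)))) (P.cons (P.cons (P.lf 0 34239978 0) (P.cons (P.lf 0 944168 0) (P.cons (P.lf 407136 0 0) (P.lf 45240 0 0)))) (P.cons (P.cons (P.lf 0 829992 0) (P.cons (P.lf 142680 0 0) (P.cons (P.lf 0 61520 0) P.nil))) (P.cons (P.cons (P.lf 93048 0 0) (P.cons (P.lf 6944 0 0) P.nil)) (P.cons (P.cons (P.lf 4212 0 0) P.nil) P.nil)))))) 11838)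
 EL.nil)
noncomputable def S169_183_660_808_35 : EL := (EL.cons 14 (TM.mk (P.cons (P.cons (P.lf 217790218 0 0) (P.cons (P.lf 123848860 0 0) (P.cons (P.lf 0 35798014 0) (P.cons (P.lf 0 21118574 0) (P.cons (P.lf 1586716 0 0) (P.cons (P.lf 727532 0 0) P.nil)))))) (P.cons (P.cons (P.lf 0 13779380 0) (P.cons (P.lf 12196400 0 0) (P.cons (P.lf 0 677434 0) (P.cons (P.lf 0 4535794 0) (P.cons (P.lf 412902 0 0) P.nil))))) (P.cons (P.cons (P.lf 11121998 0 0) (P.cons (P.lf 2891264 0 0) (P.cons (P.lf 0 863178 0) (P.cons (P.lf 0 469324 0) P.nil)))) (P.cons (P.cons (P.lf 0 80624 0) (P.cons (P.lf 423598 0 0) (P.cons (P.lf 0 184458 0) P.nil))) (P.cons (P.cons (P.lf 98488 0 0) (P.cons (P.lf 8106 0 0) P.nil)) (P.cons (P.cons (P.lf 6212 0 0) P.nil) P.nil)))))) 445054)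
 EL.nil)
noncomputable def S169_183_660_808_36 : EL := (EL.cons 14 (TM.mk (P.cons (P.lf 0 4784645896 0) (P.cons (P.lf 327565016 0 0) (P.cons (P.lf 10221528 0 0) (P.cons (P.lf 0 78232 0) (P.cons (P.lf 0 10000 0) (P.cons (P.lf 0 120 0) P.nil)))))) 112)
 EL.nil)
noncomputable def S169_183_660_808_37 : EL := (EL.cons 14 (TM.mk (P.cons (P.cons (P.lf 761858046 0 0) (P.cons (P.lf 216619578 0 0) (P.cons (P.lf 0 93408806 0) (P.lf 0 10378752 0)))) (P.cons (P.cons (P.lf 0 76259120 0) (P.cons (P.lf 13354798 0 0) (P.cons (P.lf 0 5758736 0) (P.lf 0 639858 0)))) (P.cons (P.cons (P.lf 19094300 0 0) (P.cons (P.lf 0 1866450 0) (P.cons (P.lf 804834 0 0) (P.lf 89424 0 0)))) (P.cons (P.cons (P.lf 0 779438 0) (P.cons (P.lf 0 172148 0) (P.cons (P.lf 74228 0 0) P.nil))) (P.cons (P.cons (P.lf 0 123024 0) (P.cons (P.lf 1362 0 0) P.nil)) (P.cons (P.cons (P.lf 494 0 0) P.nil) P.nil))))))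 16182)
 EL.nil)
noncomputable def S169_183_660_808_38 : EL := (EL.cons 14 (TM.mk (P.cons (P.cons (P.lf 0 121310478 0) (P.cons (P.lf 0 68984568 0) (P.cons (P.lf 19939710 0 0) (P.cons (P.lf 11763174 0 0) (P.cons (P.lf 0 883810 0) (P.cons (P.lf 0 405238 0) P.nil)))))) (P.cons (P.cons (P.lf 15980320 0 0) (P.cons (P.lf 0 2070666 0) (P.cons (P.lf 0 987770 0) (P.cons (P.lf 1721136 0 0) (P.cons (P.lf 0 169480 0) P.nil))))) (P.cons (P.cons (P.lf 0 6461318 0) (P.cons (P.lf 0 997986 0) (P.cons (P.lf 412364 0 0) (P.cons (P.lf 63320 0 0) P.nil)))) (P.cons (P.cons (P.lf 450648 0 0) (P.cons (P.lf 0 112306 0) (P.cons (P.lf 69348 0 0) P.nil))) (P.cons (P.cons (P.lf 0 44826 0) (P.cons (P.lf 14822 0 0) P.nil)) (P.cons (P.cons (P.lf 110 0 0) P.nil) P.nil)))))) 345926)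
 EL.nil)
noncomputable def S169_183_660_808_39 : EL := (EL.cons 14 (TM.mk (P.cons (P.lf 2665076910 0 0) (P.cons (P.lf 0 364911418 0) (P.cons (P.lf 1104322 0 0) (P.cons (P.lf 866718 0 0) (P.cons (P.lf 17336 0 0) (P.cons (P.lf 0 814 0) P.nil)))))) 180)
 EL.nil)
noncomputable def S169_183_660_808_40 : EL := (EL.cons 14 (TM.mk (P.cons (P.cons (P.lf 0 424359572 0) (P.cons (P.lf 0 120658424 0) (P.cons (P.lf 52029274 0 0) (P.lf 5781028 0 0)))) (P.cons (P.cons (P.lf 71529174 0 0) (P.cons (P.lf 821776 0 0) (P.cons (P.lf 0 354360 0) (P.lf 0 39372 0)))) (P.cons (P.cons (P.lf 0 12637108 0) (P.cons (P.lf 1806654 0 0) (P.cons (P.lf 0 779050 0) (P.lf 0 86560 0)))) (P.cons (P.cons (P.lf 1064602 0 0) (P.cons (P.lf 38630 0 0) (P.cons (P.lf 0 16656 0) P.nil))) (P.cons (P.cons (P.lf 61330 0 0) (P.cons (P.lf 0 9918 0) P.nil)) (P.cons (P.cons (P.lf 0 5990 0) P.nil) P.nil)))))) 14930)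
 EL.nil)
noncomputable def S169_183_660_808_41 : EL := (EL.cons 14 (TM.mk (P.cons (P.cons (P.lf 67570674 0 0) (P.cons (P.lf 38424824 0 0) (P.cons (P.lf 0 11106540 0) (P.cons (P.lf 0 6552158 0) (P.cons (P.lf 492286 0 0) (P.cons (P.lf 225720 0 0) P.nil)))))) (P.cons (P.cons (P.lf 0 13527138 0) (P.cons (P.lf 0 1477254 0) (P.cons (P.lf 1310566 0 0) (P.cons (P.lf 0 510112 0) (P.cons (P.lf 60698 0 0) P.nil))))) (P.cons (P.cons (P.lf 4064028 0 0) (P.cons (P.lf 394834 0 0) (P.cons (P.lf 0 243628 0) (P.cons (P.lf 44360 0 0) P.nil)))) (P.cons (P.cons (P.lf 0 477286 0) (P.cons (P.lf 22662 0 0) (P.cons (P.lf 0 24258 0) P.nil))) (P.cons (P.cons (P.lf 34460 0 0) (P.cons (P.lf 0 13626 0) P.nil)) (P.cons (P.cons (P.lf 0 1192 0) P.nil) P.nil)))))) 238818)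
 EL.nil)
noncomputable def S169_183_660_808_42 : EL := (EL.cons 14 (TM.mk (P.cons (P.lf 0 1484464074 0) (P.cons (P.lf 304886824 0 0) (P.cons (P.lf 0 11359206 0) (P.cons (P.lf 0 899150 0) (P.cons (P.lf 24928 0 0) (P.cons (P.lf 2522 0 0) P.nil)))))) 228)
 EL.nil)
noncomputable def S169_183_660_808_43 : EL := (EL.cons 14 (TM.mk (P.cons (P.cons (P.lf 236370866 0 0) (P.cons (P.lf 67207478 0 0) (P.cons (P.lf 0 28980622 0) (P.lf 0 3220066 0)))) (P.cons (P.cons (P.lf 0 56024538 0) (P.cons (P.lf 0 5058872 0) (P.cons (P.lf 2181444 0 0) (P.lf 242382 0 0)))) (P.cons (P.cons (P.lf 9261646 0 0) (P.cons (P.lf 0 1118556 0) (P.cons (P.lf 482334 0 0) (P.lf 53592 0 0)))) (P.cons (P.cons (P.lf 0 985908 0) (P.cons (P.lf 49452 0 0) (P.cons (P.lf 0 21324 0) P.nil))) (P.cons (P.cons (P.lf 0 8758 0) (P.cons (P.lf 9280 0 0) P.nil)) (P.cons (P.cons (P.lf 6980 0 0) P.nil) P.nil)))))) 16806)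
 EL.nil)
noncomputable def S169_183_660_808_44 : EL := (EL.cons 14 (TM.mk (P.cons (P.cons (P.lf 0 37637276 0) (P.cons (P.lf 0 21402860 0) (P.cons (P.lf 6186410 0 0) (P.cons (P.lf 3649592 0 0) (P.cons (P.lf 0 274206 0) (P.cons (P.lf 0 125726 0) P.nil)))))) (P.cons (P.cons (P.lf 10111410 0 0) (P.cons (P.lf 2288116 0 0) (P.cons (P.lf 0 1153526 0) (P.cons (P.lf 34278 0 0) (P.cons (P.lf 0 15036 0) P.nil))))) (P.cons (P.cons (P.lf 0 2699122 0) (P.cons (P.lf 0 230534 0) (P.cons (P.lf 172462 0 0) (P.cons (P.lf 0 51958 0) P.nil)))) (P.cons (P.cons (P.lf 404116 0 0) (P.cons (P.lf 324 0 0) (P.cons (P.lf 5882 0 0) P.nil))) (P.cons (P.cons (P.lf 0 32514 0) (P.cons (P.lf 8892 0 0) P.nil)) (P.cons (P.cons (P.lf 1388 0 0) P.nil) P.nil)))))) 173816)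
 EL.nil)
noncomputable def S169_183_660_808_45 : EL := (EL.cons 14 (TM.mk (P.cons (P.cons (P.lf 0 34678684 0) (P.cons (P.lf 0 29580636 0) (P.cons (P.lf 4344822 0 0) (P.cons (P.lf 7873700 0 0) (P.cons (P.lf 273246 0 0) (P.cons (P.lf 0 677622 0) P.nil)))))) (P.cons (P.cons (P.lf 3291130 0 0) (P.cons (P.lf 0 1977274 0) (P.cons (P.lf 0 1069980 0) (P.cons (P.lf 1441678 0 0) (P.cons (P.lf 229256 0 0) P.nil))))) (P.cons (P.cons (P.lf 0 2708486 0) (P.cons (P.lf 0 1338912 0) (P.cons (P.lf 252818 0 0) (P.cons (P.lf 297746 0 0) P.nil)))) (P.cons (P.cons (P.lf 102742 0 0) (P.cons (P.lf 0 170202 0) (P.cons (P.lf 20154 0 0) P.nil))) (P.cons (P.cons (P.lf 0 56730 0) (P.cons (P.lf 0 15776 0) P.nil)) (P.cons (P.cons (P.lf 0 1288 0) P.nil) P.nil)))))) 678240)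
 EL.nil)
noncomputable def S169_183_660_808_46 : EL := (EL.cons 15 (TM.mk (P.lf 4294967296 0 0) 0)
 EL.nil)
noncomputable def S169_183_660_808_47 : EL := (EL.cons 15 (TM.mk (P.cons (P.cons (P.lf 0 683886638 0) (P.cons (P.lf 0 194449920 0) (P.cons (P.lf 83849000 0 0) (P.lf 9316552 0 0)))) (P.cons (P.cons (P.lf 21634431 0 0) (P.cons (P.lf 0 25300392 0) (P.cons (P.lf 10909812 0 0) (P.lf 1212200 0 0)))) (P.cons (P.cons (P.lf 0 17119989 0) (P.cons (P.lf 0 472084 0) (P.cons (P.lf 203568 0 0) (P.lf 22620 0 0)))) (P.cons (P.cons (P.lf 0 414996 0) (P.cons (P.lf 71340 0 0) (P.cons (P.lf 0 30760 0) P.nil))) (P.cons (P.cons (P.lf 46524 0 0) (P.cons (P.lf 3472 0 0) P.nil)) (P.cons (P.cons (P.lf 2106 0 0) P.nil) P.nil)))))) 5919)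
 EL.nil)
noncomputable def S169_183_660_808_48 : EL := (EL.cons 15 (TM.mk (P.cons (P.cons (P.lf 108895109 0 0) (P.cons (P.lf 61924430 0 0) (P.cons (P.lf 0 17899007 0) (P.cons (P.lf 0 10559287 0) (P.cons (P.lf 793358 0 0) (P.cons (P.lf 363766 0 0) P.nil)))))) (P.cons (P.cons (P.lf 0 6889690 0) (P.cons (P.lf 6098200 0 0) (P.cons (P.lf 0 338717 0) (P.cons (P.lf 0 2267897 0) (P.cons (P.lf 206451 0 0) P.nil))))) (P.cons (P.cons (P.lf 5560999 0 0) (P.cons (P.lf 1445632 0 0) (P.cons (P.lf 0 431589 0) (P.cons (P.lf 0 234662 0) P.nil)))) (P.cons (P.cons (P.lf 0 40312 0) (P.cons (P.lf 211799 0 0) (P.cons (P.lf 0 92229 0) P.nil))) (P.cons (P.cons (P.lf 49244 0 0) (P.cons (P.lf 4053 0 0) P.nil)) (P.cons (P.cons (P.lf 3106 0 0) P.nil) P.nil)))))) 222527)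
 EL.nil)
noncomputable def S169_183_660_808 : SL := (SL.cons S169_183_660_808_0 (SL.cons S169_183_660_808_1 (SL.cons S169_183_660_808_2 (SL.cons S169_183_660_808_3 (SL.cons S169_183_660_808_4 (SL.cons S169_183_660_808_5 (SL.cons S169_183_660_808_6 (SL.cons S169_183_660_808_7 (SL.cons S169_183_660_808_8 (SL.cons S169_183_660_808_9 (SL.cons S169_183_660_808_10 (SL.cons S169_183_660_808_11 (SL.cons S169_183_660_808_12 (SL.cons S169_183_660_808_13 (SL.cons S169_183_660_808_14 (SL.cons S169_183_660_808_15 (SL.cons S169_183_660_808_16 (SL.cons S169_183_660_808_17 (SL.cons S169_183_660_808_18 (SL.cons S169_183_660_808_19 (SL.cons S169_183_660_808_20 (SL.cons S169_183_660_808_21 (SL.cons S169_183_660_808_22 (SL.cons S169_183_660_808_23 (SL.cons S169_183_660_808_24 (SL.cons S169_183_660_808_25 (SL.cons S169_183_660_808_26 (SL.cons S169_183_660_808_27 (SL.cons S169_183_660_808_28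 (SL.cons S169_183_660_808_29 (SL.cons S169_183_660_808_30 (SL.cons S169_183_660_808_31 (SL.cons S169_183_660_808_32 (SL.cons S169_183_660_808_33 (SL.cons S169_183_660_808_34 (SL.cons S169_183_660_808_35 (SL.cons S169_183_660_808_36 (SL.cons S169_183_660_808_37 (SL.cons S169_183_660_808_38 (SL.cons S169_183_660_808_39 (SL.cons S169_183_660_808_40 (SL.cons S169_183_660_808_41 (SL.cons S169_183_660_808_42 (SL.cons S169_183_660_808_43 (SL.cons S169_183_660_808_44 (SL.cons S169_183_660_808_45 (SL.cons S169_183_660_808_46 (SL.cons S169_183_660_808_47 (SL.cons S169_183_660_808_48 SL.nil)))))))))))))))))))))))))))))))))))))))))))))))))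
noncomputable def S169_198_216_290_0 : EL := (EL.cons 0 (TM.mk (P.cons (P.lf 6454925654 0 0) (P.cons (P.lf 654467131 0 0) (P.cons (P.lf 0 15080835 0) (P.cons (P.lf 0 7271133 0) (P.cons (P.lf 0 199596 0) (P.cons (P.lf 35412 0 0) P.nil)))))) 3454)
 (EL.cons 1 (TM.mk (P.cons (P.lf 0 1695086628 0) (P.cons (P.lf 139901857 0 0) (P.cons (P.lf 47471786 0 0) (P.cons (P.lf 293435 0 0) (P.cons (P.lf 0 328029 0) (P.cons (P.lf 0 15684 0) P.nil)))))) 1940)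
 (EL.cons 5 (TM.mk (P.cons (P.lf 5006359730 0 0) (P.cons (P.lf 0 232699422 0) (P.cons (P.lf 5362070 0 0) (P.cons (P.lf 2585292 0 0) (P.cons (P.lf 70970 0 0) (P.cons (P.lf 0 12590 0) P.nil)))))) 1169)
 (EL.cons 9 (TM.mk (P.lf 6442450944 0 0) 2)
 EL.nil))))
noncomputable def S169_198_216_290_1 : EL := (EL.cons 0 (TM.mk (P.cons (P.cons (P.lf 0 559350366 0) (P.cons (P.lf 0 6232390 0) (P.cons (P.lf 0 2942069 0) (P.lf 140100 0 0)))) (P.cons (P.cons (P.lf 2346326470 0 0) (P.cons (P.lf 0 37567161 0) (P.cons (P.lf 0 17734000 0) (P.lf 844472 0 0)))) (P.cons (P.cons (P.lf 144883438 0 0) (P.cons (P.lf 0 7958399 0) (P.cons (P.lf 0 3756847 0) (P.lf 178887 0 0)))) (P.cons (P.cons (P.lf 0 80198344 0) (P.cons (P.lf 470719 0 0) (P.cons (P.lf 222206 0 0) P.nil))) (P.cons (P.cons (P.lf 0 7792082 0) (P.cons (P.lf 236747 0 0) P.nil)) (P.cons (P.cons (P.lf 1059267 0 0) P.nil) P.nil))))))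 501363)
 (EL.cons 1 (TM.mk (P.cons (P.cons (P.lf 0 1469653731 0) (P.cons (P.lf 41014436 0 0) (P.cons (P.lf 19361326 0 0) (P.lf 0 921961 0)))) (P.cons (P.cons (P.lf 0 446692321 0) (P.cons (P.lf 15068250 0 0) (P.cons (P.lf 7113129 0 0) (P.lf 0 338712 0)))) (P.cons (P.cons (P.lf 229652370 0 0) (P.cons (P.lf 0 2005642 0) (P.cons (P.lf 0 946784 0) (P.lf 45083 0 0)))) (P.cons (P.cons (P.lf 27485132 0 0) (P.cons (P.lf 0 872915 0) (P.cons (P.lf 0 412060 0) P.nil))) (P.cons (P.cons (P.lf 0 5274174 0) (P.cons (P.lf 0 13339 0) P.nil)) (P.cons (P.cons (P.lf 0 746890 0) P.nil) P.nil)))))) 272992)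
 (EL.cons 5 (TM.mk (P.cons (P.cons (P.lf 3404675505 0 0) (P.cons (P.lf 0 98336928 0) (P.cons (P.lf 0 46421048 0) (P.lf 2210522 0 0)))) (P.cons (P.cons (P.lf 169058832 0 0) (P.cons (P.lf 0 11082674 0) (P.cons (P.lf 0 5231702 0) (P.lf 249136 0 0)))) (P.cons (P.cons (P.lf 0 165080526 0) (P.cons (P.lf 2402780 0 0) (P.cons (P.lf 1134256 0 0) (P.lf 0 54006 0)))) (P.cons (P.cons (P.lf 10684954 0 0) (P.cons (P.lf 176528 0 0) (P.cons (P.lf 83334 0 0) P.nil))) (P.cons (P.cons (P.lf 3450975 0 0) (P.cons (P.lf 0 58718 0) P.nil)) (P.cons (P.cons (P.lf 0 183625 0) P.nil) P.nil)))))) 222142)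
 (EL.cons 9 (TM.mk (P.cons (P.cons (P.lf 2828642967 0 0) (P.cons (P.lf 0 88723128 0) (P.cons (P.lf 0 41882748 0) (P.lf 1994412 0 0)))) (P.cons (P.cons (P.lf 885271972 0 0) (P.cons (P.lf 0 21564594 0) (P.cons (P.lf 0 10179804 0) (P.lf 484752 0 0)))) (P.cons (P.cons (P.lf 0 100205656 0) (P.cons (P.lf 0 376650 0) (P.cons (P.lf 0 177804 0) (P.lf 8466 0 0)))) (P.cons (P.cons (P.lf 0 15732354 0) (P.cons (P.lf 303432 0 0) (P.cons (P.lf 143232 0 0) P.nil))) (P.cons (P.cons (P.lf 600403 0 0) (P.cons (P.lf 22458 0 0) P.nil)) (P.cons (P.cons (P.lf 170283 0 0) P.nil) P.nil)))))) 42788)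
 (EL.cons 2 (TM.mk (P.cons (P.cons (P.lf 210623436 0 0) (P.cons (P.lf 207683589 0 0) (P.cons (P.lf 0 6498618 0) (P.cons (P.lf 0 1190843 0) (P.lf 42527 0 0))))) (P.cons (P.cons (P.lf 0 319182 0) (P.cons (P.lf 0 314727 0) (P.cons (P.lf 9846 0 0) (P.cons (P.lf 1805 0 0) (P.lf 0 64 0))))) (P.cons (P.cons (P.lf 0 8391476 0) (P.cons (P.lf 0 8274352 0) (P.cons (P.lf 258910 0 0) (P.cons (P.lf 47441 0 0) P.nil)))) (P.cons (P.cons (P.lf 0 526573 0) (P.cons (P.lf 0 519221 0) (P.cons (P.lf 16245 0 0) P.nil))) (P.cons (P.cons (P.lf 76815 0 0) (P.cons (P.lf 75743 0 0) P.nil)) (P.cons (P.cons (P.lf 8645 0 0) P.nil) P.nil)))))) 21570)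
 (EL.cons 6 (TM.mk (P.cons (P.cons (P.lf 178441893 0 0) (P.cons (P.lf 175951230 0 0) (P.cons (P.lf 0 5505681 0) (P.cons (P.lf 0 1008891 0) (P.lf 36030 0 0))))) (P.cons (P.cons (P.lf 43371189 0 0) (P.cons (P.lf 42765822 0 0) (P.cons (P.lf 0 1338183 0) (P.cons (P.lf 0 245214 0) (P.lf 8754 0 0))))) (P.cons (P.cons (P.lf 757533 0 0) (P.cons (P.lf 746958 0 0) (P.cons (P.lf 0 23373 0) (P.cons (P.lf 0 4284 0) P.nil)))) (P.cons (P.cons (P.lf 0 610269 0) (P.cons (P.lf 0 601752 0) (P.cons (P.lf 18828 0 0) P.nil))) (P.cons (P.cons (P.lf 0 45168 0) (P.cons (P.lf 0 44538 0) P.nil)) (P.cons (P.cons (P.lf 3180 0 0) P.nil) P.nil)))))) 12279)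
 EL.nil))))))
noncomputable def S169_198_216_290_2 : EL := (EL.cons 0 (TM.mk (P.cons (P.cons (P.lf 0 1735538090 0) (P.cons (P.lf 87994490 0 0) (P.cons (P.lf 40486218 0 0) (P.cons (P.lf 0 2971784 0) (P.cons (P.lf 0 187230 0) (P.cons (P.lf 22337 0 0) P.nil)))))) (P.cons (P.cons (P.lf 1001596093 0 0) (P.cons (P.lf 0 44264236 0) (P.cons (P.lf 0 20538229 0) (P.cons (P.lf 1332276 0 0) (P.cons (P.lf 63546 0 0) P.nil))))) (P.cons (P.cons (P.lf 679670928 0 0) (P.cons (P.lf 0 29029362 0) (P.cons (P.lf 0 13372393 0) (P.cons (P.lf 965267 0 0) P.nil)))) (P.cons (P.cons (P.lf 0 59627579 0) (P.cons (P.lf 0 766378 0) (P.cons (P.lf 0 317413 0) P.nil))) (P.cons (P.cons (P.lf 0 37515774 0) (P.cons (P.lf 1326608 0 0) P.nil)) (P.cons (P.cons (P.lf 363967 0 0) P.nil) P.nil)))))) 3121237)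
 (EL.cons 1 (TM.mk (P.cons (P.cons (P.lf 0 963768847 0) (P.cons (P.lf 55995858 0 0) (P.cons (P.lf 25625280 0 0) (P.cons (P.lf 0 2021753 0) (P.cons (P.lf 0 143761 0) (P.cons (P.lf 17151 0 0) P.nil)))))) (P.cons (P.cons (P.lf 0 618580825 0) (P.cons (P.lf 36939544 0 0) (P.cons (P.lf 16877851 0 0) (P.cons (P.lf 0 1358932 0) (P.cons (P.lf 0 99579 0) P.nil))))) (P.cons (P.cons (P.lf 107441679 0 0) (P.cons (P.lf 0 1464456 0) (P.cons (P.lf 0 741923 0) (P.cons (P.lf 0 14863 0) P.nil)))) (P.cons (P.cons (P.lf 90926632 0 0) (P.cons (P.lf 0 3635350 0) (P.cons (P.lf 0 1684280 0) P.nil))) (P.cons (P.cons (P.lf 0 2225034 0) (P.cons (P.lf 0 323240 0) P.nil)) (P.cons (P.cons (P.lf 0 3636990 0) P.nil) P.nil)))))) 1599191)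
 (EL.cons 5 (TM.mk (P.cons (P.cons (P.lf 2024626897 0 0) (P.cons (P.lf 0 119585063 0) (P.cons (P.lf 0 54692446 0) (P.cons (P.lf 4348885 0 0) (P.cons (P.lf 312888 0 0) (P.cons (P.lf 0 37324 0) P.nil)))))) (P.cons (P.cons (P.lf 524908362 0 0) (P.cons (P.lf 0 33357310 0) (P.cons (P.lf 0 15200544 0) (P.cons (P.lf 1265463 0 0) (P.cons (P.lf 97137 0 0) P.nil))))) (P.cons (P.cons (P.lf 0 203519540 0) (P.cons (P.lf 6358002 0 0) (P.cons (P.lf 2977154 0 0) (P.cons (P.lf 0 165771 0) P.nil)))) (P.cons (P.cons (P.lf 0 25666936 0) (P.cons (P.lf 1708515 0 0) (P.cons (P.lf 784134 0 0) P.nil))) (P.cons (P.cons (P.lf 10802747 0 0) (P.cons (P.lf 0 240914 0) P.nil)) (P.cons (P.cons (P.lf 781731 0 0) P.nil) P.nil)))))) 1448639)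
 (EL.cons 9 (TM.mk (P.cons (P.cons (P.lf 1241952961 0 0) (P.cons (P.lf 0 77910115 0) (P.cons (P.lf 0 35556480 0) (P.cons (P.lf 2904933 0 0) (P.cons (P.lf 217348 0 0) (P.cons (P.lf 0 25930 0) P.nil)))))) (P.cons (P.cons (P.lf 777380646 0 0) (P.cons (P.lf 0 43319734 0) (P.cons (P.lf 0 19855602 0) (P.cons (P.lf 1534557 0 0) (P.cons (P.lf 105655 0 0) P.nil))))) (P.cons (P.cons (P.lf 33654025 0 0) (P.cons (P.lf 0 3497233 0) (P.cons (P.lf 0 1568352 0) (P.cons (P.lf 156556 0 0) P.nil)))) (P.cons (P.cons (P.lf 0 41353972 0) (P.cons (P.lf 1267089 0 0) (P.cons (P.lf 592300 0 0) P.nil))) (P.cons (P.cons (P.lf 0 2237811 0) (P.cons (P.lf 203611 0 0) P.nil)) (P.cons (P.cons (P.lf 803935 0 0) P.nil) P.nil)))))) 395855)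
 (EL.cons 2 (TM.mk (P.cons (P.cons (P.lf 184953988 0 0) (P.cons (P.lf 176571168 0 0) (P.cons (P.lf 0 14165443 0) (P.cons (P.lf 0 3436633 0) (P.cons (P.lf 283224 0 0) (P.cons (P.lf 10288 0 0) P.nil)))))) (P.cons (P.cons (P.lf 57604213 0 0) (P.cons (P.lf 55398948 0 0) (P.cons (P.lf 0 3820471 0) (P.cons (P.lf 0 903189 0) (P.cons (P.lf 71015 0 0) P.nil))))) (P.cons (P.cons (P.lf 0 14008556 0) (P.cons (P.lf 0 13604388 0) (P.cons (P.lf 736436 0 0) (P.cons (P.lf 165189 0 0) P.nil)))) (P.cons (P.cons (P.lf 0 3787329 0) (P.cons (P.lf 0 3643908 0) (P.cons (P.lf 248895 0 0) P.nil))) (P.cons (P.cons (P.lf 224595 0 0) (P.cons (P.lf 225292 0 0) P.nil)) (P.cons (P.cons (P.lf 97138 0 0) P.nil) P.nil)))))) 276361)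
 (EL.cons 6 (TM.mk (P.cons (P.cons (P.lf 156694524 0 0) (P.cons (P.lf 149592534 0 0) (P.cons (P.lf 0 12001080 0) (P.cons (P.lf 0 2911542 0) (P.cons (P.lf 239952 0 0) (P.cons (P.lf 8712 0 0) P.nil)))))) (P.cons (P.cons (P.lf 87125604 0 0) (P.cons (P.lf 83520348 0 0) (P.cons (P.lf 0 6171840 0) (P.cons (P.lf 0 1477266 0) (P.cons (P.lf 118854 0 0) P.nil))))) (P.cons (P.cons (P.lf 7033716 0 0) (P.cons (P.lf 6603462 0 0) (P.cons (P.lf 0 701220 0) (P.cons (P.lf 0 176628 0) P.nil)))) (P.cons (P.cons (P.lf 0 2548398 0) (P.cons (P.lf 0 2489346 0) (P.cons (P.lf 112854 0 0) P.nil))) (P.cons (P.cons (P.lf 0 409506 0) (P.cons (P.lf 0 393222 0) P.nil)) (P.cons (P.cons (P.lf 23178 0 0) P.nil) P.nil)))))) 209070)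
 EL.nil))))))
noncomputable def S169_198_216_290_3 : EL := (EL.cons 0 (TM.mk (P.cons (P.lf 2000791209 0 0) (P.cons (P.lf 0 654467131 0) (P.cons (P.lf 15080835 0 0) (P.cons (P.lf 7271133 0 0) (P.cons (P.lf 199596 0 0) (P.cons (P.lf 0 35412 0) P.nil)))))) 3454)
 (EL.cons 1 (TM.mk (P.cons (P.lf 1695086628 0 0) (P.cons (P.lf 0 139901857 0) (P.cons (P.lf 0 47471786 0) (P.cons (P.lf 0 293435 0) (P.cons (P.lf 328029 0 0) (P.cons (P.lf 15684 0 0) P.nil)))))) 1940)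
 (EL.cons 5 (TM.mk (P.cons (P.lf 1436091214 0 0) (P.cons (P.lf 232699422 0 0) (P.cons (P.lf 0 5362070 0) (P.cons (P.lf 0 2585292 0) (P.cons (P.lf 0 70970 0) (P.cons (P.lf 12590 0 0) P.nil)))))) 1162)
 EL.nil)))
noncomputable def S169_198_216_290_4 : EL := (EL.cons 0 (TM.mk (P.cons (P.cons (P.lf 878473740 0 0) (P.cons (P.lf 0 27554178 0) (P.cons (P.lf 0 13007258 0) (P.lf 619391 0 0)))) (P.cons (P.cons (P.lf 0 12419103 0) (P.cons (P.lf 2315907 0 0) (P.cons (P.lf 1093250 0 0) (P.lf 0 52057 0)))) (P.cons (P.cons (P.lf 0 114430626 0) (P.cons (P.lf 1866012 0 0) (P.cons (P.lf 880871 0 0) (P.lf 0 41944 0)))) (P.cons (P.cons (P.lf 10558439 0 0) (P.cons (P.lf 0 18116 0) (P.cons (P.lf 0 8553 0) P.nil))) (P.cons (P.cons (P.lf 2636871 0 0) (P.cons (P.lf 0 51818 0) P.nil)) (P.cons (P.cons (P.lf 0 146151 0) P.nil) P.nil)))))) 105934)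
 (EL.cons 1 (TM.mk (P.cons (P.cons (P.lf 744250115 0 0) (P.cons (P.lf 0 23344125 0) (P.cons (P.lf 0 11019855 0) (P.lf 524752 0 0)))) (P.cons (P.cons (P.lf 171499989 0 0) (P.cons (P.lf 0 3747225 0) (P.cons (P.lf 0 1768918 0) (P.lf 84232 0 0)))) (P.cons (P.cons (P.lf 0 66432665 0) (P.cons (P.lf 1022951 0 0) (P.cons (P.lf 482895 0 0) (P.lf 0 22993 0)))) (P.cons (P.cons (P.lf 0 8615386 0) (P.cons (P.lf 250955 0 0) (P.cons (P.lf 118464 0 0) P.nil))) (P.cons (P.cons (P.lf 1341690 0 0) (P.cons (P.lf 0 1440 0) P.nil)) (P.cons (P.cons (P.lf 204215 0 0) P.nil) P.nil)))))) 68214)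
 (EL.cons 5 (TM.mk (P.cons (P.cons (P.lf 630534768 0 0) (P.cons (P.lf 0 19777332 0) (P.cons (P.lf 0 9336112 0) (P.lf 444574 0 0)))) (P.cons (P.cons (P.lf 299506336 0 0) (P.cons (P.lf 0 8011630 0) (P.cons (P.lf 0 3781978 0) (P.lf 180092 0 0)))) (P.cons (P.cons (P.lf 7284560 0 0) (P.cons (P.lf 0 789020 0) (P.cons (P.lf 0 372466 0) (P.lf 17736 0 0)))) (P.cons (P.cons (P.lf 0 8998228 0) (P.cons (P.lf 107584 0 0) (P.cons (P.lf 50784 0 0) P.nil))) (P.cons (P.cons (P.lf 0 737420 0) (P.cons (P.lf 25910 0 0) P.nil)) (P.cons (P.cons (P.lf 108724 0 0) P.nil) P.nil)))))) 46088)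
 EL.nil)))
noncomputable def S169_198_216_290_5 : EL := (EL.cons 0 (TM.mk (P.cons (P.cons (P.lf 385705469 0 0) (P.cons (P.lf 0 24196050 0) (P.cons (P.lf 0 11042550 0) (P.cons (P.lf 902165 0 0) (P.cons (P.lf 67500 0 0) (P.cons (P.lf 0 8052 0) P.nil)))))) (P.cons (P.cons (P.lf 115260321 0 0) (P.cons (P.lf 0 5538905 0) (P.cons (P.lf 0 2554363 0) (P.cons (P.lf 181474 0 0) (P.cons (P.lf 10731 0 0) P.nil))))) (P.cons (P.cons (P.lf 0 65612561 0) (P.cons (P.lf 3132216 0 0) (P.cons (P.lf 1446758 0 0) (P.cons (P.lf 0 100469 0) P.nil)))) (P.cons (P.cons (P.lf 0 13040402 0) (P.cons (P.lf 559446 0 0) (P.cons (P.lf 256659 0 0) P.nil))) (P.cons (P.cons (P.lf 4500659 0 0) (P.cons (P.lf 0 124976 0) P.nil)) (P.cons (P.cons (P.lf 435440 0 0) P.nil) P.nil)))))) 475737)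
 (EL.cons 1 (TM.mk (P.cons (P.cons (P.lf 326772817 0 0) (P.cons (P.lf 0 20499091 0) (P.cons (P.lf 0 9355338 0) (P.cons (P.lf 764321 0 0) (P.cons (P.lf 57185 0 0) (P.cons (P.lf 0 6821 0) P.nil)))))) (P.cons (P.cons (P.lf 177568445 0 0) (P.cons (P.lf 0 9706076 0) (P.cons (P.lf 0 4452116 0) (P.cons (P.lf 340676 0 0) (P.cons (P.lf 23077 0 0) P.nil))))) (P.cons (P.cons (P.lf 0 17177970 0) (P.cons (P.lf 594637 0 0) (P.cons (P.lf 280524 0 0) (P.cons (P.lf 0 13535 0) P.nil)))) (P.cons (P.cons (P.lf 0 17396313 0) (P.cons (P.lf 732084 0 0) (P.cons (P.lf 337824 0 0) P.nil))) (P.cons (P.cons (P.lf 89077 0 0) (P.cons (P.lf 49831 0 0) P.nil)) (P.cons (P.cons (P.lf 605911 0 0) P.nil) P.nil)))))) 343698)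
 (EL.cons 5 (TM.mk (P.cons (P.cons (P.lf 276844596 0 0) (P.cons (P.lf 0 17366996 0) (P.cons (P.lf 0 7925918 0) (P.cons (P.lf 647540 0 0) (P.cons (P.lf 48448 0 0) (P.cons (P.lf 0 5778 0) P.nil)))))) (P.cons (P.cons (P.lf 218145432 0 0) (P.cons (P.lf 0 12470520 0) (P.cons (P.lf 0 5710314 0) (P.cons (P.lf 446994 0 0) (P.cons (P.lf 31402 0 0) P.nil))))) (P.cons (P.cons (P.lf 34546918 0 0) (P.cons (P.lf 0 2279420 0) (P.cons (P.lf 0 1037186 0) (P.cons (P.lf 87908 0 0) P.nil)))) (P.cons (P.cons (P.lf 0 9148068 0) (P.cons (P.lf 223446 0 0) (P.cons (P.lf 106174 0 0) P.nil))) (P.cons (P.cons (P.lf 0 2346170 0) (P.cons (P.lf 112306 0 0) P.nil)) (P.cons (P.cons (P.lf 113152 0 0) P.nil) P.nil)))))) 227796)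
 EL.nil)))
noncomputable def S169_198_216_290_6 : EL := (EL.cons 12 (TM.mk (P.lf 8589934592 0 0) 0)
 (EL.cons 3 (TM.mk (P.cons (P.lf 0 2072840178 0) (P.cons (P.lf 339017325 0 0) (P.cons (P.lf 19911543 0 0) (P.cons (P.lf 0 509910 0) (P.cons (P.lf 0 91155 0) (P.cons (P.lf 0 1462 0) P.nil)))))) 487)
 (EL.cons 7 (TM.mk (P.cons (P.lf 0 1756127103 0) (P.cons (P.lf 0 142278485 0) (P.cons (P.lf 9042093 0 0) (P.cons (P.lf 848140 0 0) (P.cons (P.lf 0 2043 0) (P.cons (P.lf 0 3166 0) P.nil)))))) 195)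
 EL.nil)))
noncomputable def S169_198_216_290_7 : EL := (EL.cons 12 (TM.mk (P.cons (P.cons (P.lf 3771523956 0 0) (P.cons (P.lf 0 118297504 0) (P.cons (P.lf 0 55843664 0) (P.lf 2659216 0 0)))) (P.cons (P.cons (P.lf 1180362630 0 0) (P.cons (P.lf 0 28752792 0) (P.cons (P.lf 0 13573072 0) (P.lf 646336 0 0)))) (P.cons (P.cons (P.lf 0 133607542 0) (P.cons (P.lf 0 502200 0) (P.cons (P.lf 0 237072 0) (P.lf 11288 0 0)))) (P.cons (P.cons (P.lf 0 20976472 0) (P.cons (P.lf 404576 0 0) (P.cons (P.lf 190976 0 0) P.nil))) (P.cons (P.cons (P.lf 800538 0 0) (P.cons (P.lf 29944 0 0) P.nil)) (P.cons (P.cons (P.lf 227044 0 0) P.nil) P.nil)))))) 57026)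
 (EL.cons 3 (TM.mk (P.cons (P.cons (P.lf 2605562414 0 0) (P.cons (P.lf 0 57092824 0) (P.cons (P.lf 0 26951308 0) (P.lf 1283392 0 0)))) (P.cons (P.cons (P.lf 0 775179996 0) (P.cons (P.lf 0 4539040 0) (P.cons (P.lf 0 2142700 0) (P.lf 102030 0 0)))) (P.cons (P.cons (P.lf 0 151007584 0) (P.cons (P.lf 2575618 0 0) (P.cons (P.lf 1215846 0 0) (P.lf 0 57896 0)))) (P.cons (P.cons (P.lf 7031843 0 0) (P.cons (P.lf 354150 0 0) (P.cons (P.lf 167176 0 0) P.nil))) (P.cons (P.cons (P.lf 3201048 0 0) (P.cons (P.lf 0 21078 0) P.nil)) (P.cons (P.cons (P.lf 97445 0 0) P.nil) P.nil)))))) 189104)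
 (EL.cons 7 (TM.mk (P.cons (P.cons (P.lf 0 2246504060 0) (P.cons (P.lf 60125761 0 0) (P.cons (P.lf 28383040 0 0) (P.lf 0 1351574 0)))) (P.cons (P.cons (P.lf 325326841 0 0) (P.cons (P.lf 1904946 0 0) (P.cons (P.lf 899253 0 0) (P.lf 0 42823 0)))) (P.cons (P.cons (P.lf 23592067 0 0) (P.cons (P.lf 0 1313877 0) (P.cons (P.lf 0 620229 0) (P.lf 29533 0 0)))) (P.cons (P.cons (P.lf 0 11618748 0) (P.cons (P.lf 37363 0 0) (P.cons (P.lf 17635 0 0) P.nil))) (P.cons (P.cons (P.lf 0 459781 0) (P.cons (P.lf 26963 0 0) P.nil)) (P.cons (P.cons (P.lf 159365 0 0) P.nil) P.nil)))))) 123084)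
 (EL.cons 10 (TM.mk (P.cons (P.cons (P.lf 0 436416075 0) (P.cons (P.lf 0 430324653 0) (P.cons (P.lf 13465272 0 0) (P.cons (P.lf 2467455 0 0) (P.lf 0 88122 0))))) (P.cons (P.cons (P.lf 0 70715400 0) (P.cons (P.lf 0 69728367 0) (P.cons (P.lf 2181867 0 0) (P.cons (P.lf 399816 0 0) (P.lf 0 14277 0))))) (P.cons (P.cons (P.lf 1629486 0 0) (P.cons (P.lf 1606743 0 0) (P.cons (P.lf 0 50274 0) (P.cons (P.lf 0 9210 0) P.nil)))) (P.cons (P.cons (P.lf 785646 0 0) (P.cons (P.lf 774681 0 0) (P.cons (P.lf 0 24240 0) P.nil))) (P.cons (P.cons (P.lf 21567 0 0) (P.cons (P.lf 21264 0 0) P.nil)) (P.cons (P.cons (P.lf 0 3825 0) P.nil) P.nil)))))) 10452)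
 EL.nil))))
noncomputable def S169_198_216_290_8 : EL := (EL.cons 12 (TM.mk (P.cons (P.cons (P.lf 1655937282 0 0) (P.cons (P.lf 0 103880154 0) (P.cons (P.lf 0 47408640 0) (P.cons (P.lf 3873244 0 0) (P.cons (P.lf 289798 0 0) (P.cons (P.lf 0 34574 0) P.nil)))))) (P.cons (P.cons (P.lf 1036507528 0 0) (P.cons (P.lf 0 57759646 0) (P.cons (P.lf 0 26474136 0) (P.cons (P.lf 2046076 0 0) (P.cons (P.lf 140874 0 0) P.nil))))) (P.cons (P.cons (P.lf 44872034 0 0) (P.cons (P.lf 0 4662978 0) (P.cons (P.lf 0 2091136 0) (P.cons (P.lf 208742 0 0) P.nil)))) (P.cons (P.cons (P.lf 0 55138630 0) (P.cons (P.lf 1689452 0 0) (P.cons (P.lf 789734 0 0) P.nil))) (P.cons (P.cons (P.lf 0 2983748 0) (P.cons (P.lf 271482 0 0) P.nil)) (P.cons (P.cons (P.lf 1071914 0 0) P.nil) P.nil)))))) 527778)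
 (EL.cons 3 (TM.mk (P.cons (P.cons (P.lf 2687607829 0 0) (P.cons (P.lf 0 146967812 0) (P.cons (P.lf 0 67412147 0) (P.cons (P.lf 5159511 0 0) (P.cons (P.lf 349656 0 0) (P.cons (P.lf 0 41716 0) P.nil)))))) (P.cons (P.cons (P.lf 220132077 0 0) (P.cons (P.lf 0 25606560 0) (P.cons (P.lf 0 11453817 0) (P.cons (P.lf 1174216 0 0) (P.cons (P.lf 112780 0 0) P.nil))))) (P.cons (P.cons (P.lf 0 460613952 0) (P.cons (P.lf 13229524 0 0) (P.cons (P.lf 6202788 0 0) (P.cons (P.lf 0 337364 0) P.nil)))) (P.cons (P.cons (P.lf 0 41317793 0) (P.cons (P.lf 3311629 0 0) (P.cons (P.lf 1523475 0 0) P.nil))) (P.cons (P.cons (P.lf 15143807 0 0) (P.cons (P.lf 0 157097 0) P.nil)) (P.cons (P.cons (P.lf 1995498 0 0) P.nil) P.nil)))))) 1526229)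
 (EL.cons 7 (TM.mk (P.cons (P.cons (P.lf 0 1634174418 0) (P.cons (P.lf 93436841 0 0) (P.cons (P.lf 42784909 0 0) (P.cons (P.lf 0 3349442 0) (P.cons (P.lf 0 235334 0) (P.cons (P.lf 28074 0 0) P.nil)))))) (P.cons (P.cons (P.lf 0 92384844 0) (P.cons (P.lf 10746549 0 0) (P.cons (P.lf 4806937 0 0) (P.cons (P.lf 0 492798 0) (P.cons (P.lf 0 47328 0) P.nil))))) (P.cons (P.cons (P.lf 204607346 0 0) (P.cons (P.lf 0 6866293 0) (P.cons (P.lf 0 3190991 0) (P.cons (P.lf 201844 0 0) P.nil)))) (P.cons (P.cons (P.lf 0 14651326 0) (P.cons (P.lf 0 429543 0) (P.cons (P.lf 0 190325 0) P.nil))) (P.cons (P.cons (P.lf 0 8010837 0) (P.cons (P.lf 273459 0 0) P.nil)) (P.cons (P.cons (P.lf 425864 0 0) P.nil) P.nil)))))) 910589)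
 (EL.cons 10 (TM.mk (P.cons (P.cons (P.lf 0 383228454 0) (P.cons (P.lf 0 365859084 0) (P.cons (P.lf 29351094 0 0) (P.cons (P.lf 7120782 0 0) (P.cons (P.lf 0 586854 0) (P.cons (P.lf 0 21312 0) P.nil)))))) (P.cons (P.cons (P.lf 0 182034924 0) (P.cons (P.lf 0 174624774 0) (P.cons (P.lf 12716532 0 0) (P.cons (P.lf 3036048 0 0) (P.cons (P.lf 0 243138 0) P.nil))))) (P.cons (P.cons (P.lf 0 4427430 0) (P.cons (P.lf 0 3886080 0) (P.cons (P.lf 835842 0 0) (P.cons (P.lf 222672 0 0) P.nil)))) (P.cons (P.cons (P.lf 5468970 0 0) (P.cons (P.lf 5327244 0 0) (P.cons (P.lf 0 264078 0) P.nil))) (P.cons (P.cons (P.lf 448188 0 0) (P.cons (P.lf 426186 0 0) P.nil)) (P.cons (P.cons (P.lf 0 66078 0) P.nil) P.nil)))))) 303384)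
 EL.nil))))
noncomputable def S169_198_216_290_9 : EL := (EL.cons 3 (TM.mk (P.cons (P.lf 0 2072840178 0) (P.cons (P.lf 339017325 0 0) (P.cons (P.lf 19911543 0 0) (P.cons (P.lf 0 509910 0) (P.cons (P.lf 0 91155 0) (P.cons (P.lf 0 1462 0) P.nil)))))) 487)
 (EL.cons 7 (TM.mk (P.cons (P.lf 0 1756127103 0) (P.cons (P.lf 0 142278485 0) (P.cons (P.lf 9042093 0 0) (P.cons (P.lf 848140 0 0) (P.cons (P.lf 0 2043 0) (P.cons (P.lf 0 3166 0) P.nil)))))) 195)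
 EL.nil))
noncomputable def S169_198_216_290_10 : EL := (EL.cons 3 (TM.mk (P.cons (P.cons (P.lf 0 910107790 0) (P.cons (P.lf 28546412 0 0) (P.cons (P.lf 13475654 0 0) (P.lf 0 641696 0)))) (P.cons (P.cons (P.lf 0 135983703 0) (P.cons (P.lf 2269520 0 0) (P.cons (P.lf 1071350 0 0) (P.lf 0 51015 0)))) (P.cons (P.cons (P.lf 87568457 0 0) (P.cons (P.lf 0 1287809 0) (P.cons (P.lf 0 607923 0) (P.lf 28948 0 0)))) (P.cons (P.cons (P.lf 2300984 0 0) (P.cons (P.lf 0 177075 0) (P.cons (P.lf 0 83588 0) P.nil))) (P.cons (P.cons (P.lf 0 1440846 0) (P.cons (P.lf 10539 0 0) P.nil)) (P.cons (P.cons (P.lf 0 77053 0) P.nil) P.nil)))))) 45910)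
 (EL.cons 7 (TM.mk (P.cons (P.cons (P.lf 0 771050741 0) (P.cons (P.lf 24184753 0 0) (P.cons (P.lf 11416684 0 0) (P.lf 0 543650 0)))) (P.cons (P.cons (P.lf 0 303782699 0) (P.cons (P.lf 7837632 0 0) (P.cons (P.lf 3699840 0 0) (P.lf 0 176182 0)))) (P.cons (P.cons (P.lf 11733976 0 0) (P.cons (P.lf 454389 0 0) (P.cons (P.lf 214500 0 0) (P.lf 0 10214 0)))) (P.cons (P.cons (P.lf 8116308 0 0) (P.cons (P.lf 0 116339 0) (P.cons (P.lf 0 54917 0) P.nil))) (P.cons (P.cons (P.lf 158786 0 0) (P.cons (P.lf 0 16162 0) P.nil)) (P.cons (P.cons (P.lf 0 96619 0) P.nil) P.nil)))))) 27707)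
 EL.nil))
noncomputable def S169_198_216_290_11 : EL := (EL.cons 3 (TM.mk (P.cons (P.cons (P.lf 0 399594815 0) (P.cons (P.lf 25067356 0 0) (P.cons (P.lf 11440195 0 0) (P.cons (P.lf 0 934653 0) (P.cons (P.lf 0 69930 0) (P.cons (P.lf 8342 0 0) P.nil)))))) (P.cons (P.cons (P.lf 0 184765437 0) (P.cons (P.lf 9838182 0 0) (P.cons (P.lf 4517415 0 0) (P.cons (P.lf 0 340874 0) (P.cons (P.lf 0 22556 0) P.nil))))) (P.cons (P.cons (P.lf 33918036 0 0) (P.cons (P.lf 0 1395158 0) (P.cons (P.lf 0 650130 0) (P.cons (P.lf 39358 0 0) P.nil)))) (P.cons (P.cons (P.lf 17380813 0 0) (P.cons (P.lf 0 719435 0) (P.cons (P.lf 0 331653 0) P.nil))) (P.cons (P.cons (P.lf 0 1431223 0) (P.cons (P.lf 0 5111 0) P.nil)) (P.cons (P.cons (P.lf 0 518178 0) P.nil) P.nil)))))) 284891)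
 (EL.cons 7 (TM.mk (P.cons (P.cons (P.lf 0 338539986 0) (P.cons (P.lf 21237269 0 0) (P.cons (P.lf 9692227 0 0) (P.cons (P.lf 0 791846 0) (P.cons (P.lf 0 59246 0) (P.cons (P.lf 7068 0 0) P.nil)))))) (P.cons (P.cons (P.lf 0 239331648 0) (P.cons (P.lf 13528995 0 0) (P.cons (P.lf 6197623 0 0) (P.cons (P.lf 0 482454 0) (P.cons (P.lf 0 33600 0) P.nil))))) (P.cons (P.cons (P.lf 0 24598624 0) (P.cons (P.lf 1800647 0 0) (P.cons (P.lf 816109 0 0) (P.cons (P.lf 0 72488 0) P.nil)))) (P.cons (P.cons (P.lf 11783882 0 0) (P.cons (P.lf 0 339213 0) (P.cons (P.lf 0 159365 0) P.nil))) (P.cons (P.cons (P.lf 1672461 0 0) (P.cons (P.lf 0 94071 0) P.nil)) (P.cons (P.cons (P.lf 0 224188 0) P.nil) P.nil)))))) 181885)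
 EL.nil))
noncomputable def S169_198_216_290_12 : EL := (EL.cons 4 (TM.mk (P.cons (P.lf 2072840178 0 0) (P.cons (P.lf 0 339017325 0) (P.cons (P.lf 0 19911543 0) (P.cons (P.lf 509910 0 0) (P.cons (P.lf 91155 0 0) (P.cons (P.lf 1462 0 0) P.nil)))))) 487)
 (EL.cons 8 (TM.mk (P.cons (P.lf 1756127103 0 0) (P.cons (P.lf 142278485 0 0) (P.cons (P.lf 0 9042093 0) (P.cons (P.lf 0 848140 0) (P.cons (P.lf 2043 0 0) (P.cons (P.lf 3166 0 0) P.nil)))))) 195)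
 EL.nil))
noncomputable def S169_198_216_290_13 : EL := (EL.cons 4 (TM.mk (P.cons (P.cons (P.lf 910107790 0 0) (P.cons (P.lf 0 28546412 0) (P.cons (P.lf 0 13475654 0) (P.lf 641696 0 0)))) (P.cons (P.cons (P.lf 135983703 0 0) (P.cons (P.lf 0 2269520 0) (P.cons (P.lf 0 1071350 0) (P.lf 51015 0 0)))) (P.cons (P.cons (P.lf 0 87568457 0) (P.cons (P.lf 1287809 0 0) (P.cons (P.lf 607923 0 0) (P.lf 0 28948 0)))) (P.cons (P.cons (P.lf 0 2300984 0) (P.cons (P.lf 177075 0 0) (P.cons (P.lf 83588 0 0) P.nil))) (P.cons (P.cons (P.lf 1440846 0 0) (P.cons (P.lf 0 10539 0) P.nil)) (P.cons (P.cons (P.lf 77053 0 0) P.nil) P.nil)))))) 45910)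
 (EL.cons 8 (TM.mk (P.cons (P.cons (P.lf 771050741 0 0) (P.cons (P.lf 0 24184753 0) (P.cons (P.lf 0 11416684 0) (P.lf 543650 0 0)))) (P.cons (P.cons (P.lf 303782699 0 0) (P.cons (P.lf 0 7837632 0) (P.cons (P.lf 0 3699840 0) (P.lf 176182 0 0)))) (P.cons (P.cons (P.lf 0 11733976 0) (P.cons (P.lf 0 454389 0) (P.cons (P.lf 0 214500 0) (P.lf 10214 0 0)))) (P.cons (P.cons (P.lf 0 8116308 0) (P.cons (P.lf 116339 0 0) (P.cons (P.lf 54917 0 0) P.nil))) (P.cons (P.cons (P.lf 0 158786 0) (P.cons (P.lf 16162 0 0) P.nil)) (P.cons (P.cons (P.lf 96619 0 0) P.nil) P.nil)))))) 27707)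
 EL.nil))
noncomputable def S169_198_216_290_14 : EL := (EL.cons 4 (TM.mk (P.cons (P.cons (P.lf 399594815 0 0) (P.cons (P.lf 0 25067356 0) (P.cons (P.lf 0 11440195 0) (P.cons (P.lf 934653 0 0) (P.cons (P.lf 69930 0 0) (P.cons (P.lf 0 8342 0) P.nil)))))) (P.cons (P.cons (P.lf 184765437 0 0) (P.cons (P.lf 0 9838182 0) (P.cons (P.lf 0 4517415 0) (P.cons (P.lf 340874 0 0) (P.cons (P.lf 22556 0 0) P.nil))))) (P.cons (P.cons (P.lf 0 33918036 0) (P.cons (P.lf 1395158 0 0) (P.cons (P.lf 650130 0 0) (P.cons (P.lf 0 39358 0) P.nil)))) (P.cons (P.cons (P.lf 0 17380813 0) (P.cons (P.lf 719435 0 0) (P.cons (P.lf 331653 0 0) P.nil))) (P.cons (P.cons (P.lf 1431223 0 0) (P.cons (P.lf 5111 0 0) P.nil)) (P.cons (P.cons (P.lf 518178 0 0) P.nil) P.nil)))))) 284891)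
 (EL.cons 8 (TM.mk (P.cons (P.cons (P.lf 338539986 0 0) (P.cons (P.lf 0 21237269 0) (P.cons (P.lf 0 9692227 0) (P.cons (P.lf 791846 0 0) (P.cons (P.lf 59246 0 0) (P.cons (P.lf 0 7068 0) P.nil)))))) (P.cons (P.cons (P.lf 239331648 0 0) (P.cons (P.lf 0 13528995 0) (P.cons (P.lf 0 6197623 0) (P.cons (P.lf 482454 0 0) (P.cons (P.lf 33600 0 0) P.nil))))) (P.cons (P.cons (P.lf 24598624 0 0) (P.cons (P.lf 0 1800647 0) (P.cons (P.lf 0 816109 0) (P.cons (P.lf 72488 0 0) P.nil)))) (P.cons (P.cons (P.lf 0 11783882 0) (P.cons (P.lf 339213 0 0) (P.cons (P.lf 159365 0 0) P.nil))) (P.cons (P.cons (P.lf 0 1672461 0) (P.cons (P.lf 94071 0 0) P.nil)) (P.cons (P.cons (P.lf 224188 0 0) P.nil) P.nil)))))) 181885)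
 EL.nil))
noncomputable def S169_198_216_290_15 : EL := (EL.cons 4 (TM.mk (P.cons (P.lf 0 1067088645 0) (P.cons (P.lf 349049136 0 0) (P.cons (P.lf 0 8043112 0) (P.cons (P.lf 0 3877937 0) (P.cons (P.lf 0 106451 0) (P.cons (P.lf 18886 0 0) P.nil)))))) 1845)
 (EL.cons 8 (TM.mk (P.cons (P.lf 0 904046202 0) (P.cons (P.lf 74614324 0 0) (P.cons (P.lf 25318286 0 0) (P.cons (P.lf 156499 0 0) (P.cons (P.lf 0 174949 0) (P.cons (P.lf 0 8365 0) P.nil)))))) 1031)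
 EL.nil))
noncomputable def S169_198_216_290_16 : EL := (EL.cons 4 (TM.mk (P.cons (P.cons (P.lf 0 468519328 0) (P.cons (P.lf 14695561 0 0) (P.cons (P.lf 6937204 0 0) (P.lf 0 330342 0)))) (P.cons (P.cons (P.lf 6623521 0 0) (P.cons (P.lf 0 1235150 0) (P.cons (P.lf 0 583066 0) (P.lf 27764 0 0)))) (P.cons (P.cons (P.lf 61029667 0 0) (P.cons (P.lf 0 995206 0) (P.cons (P.lf 0 469798 0) (P.lf 22370 0 0)))) (P.cons (P.cons (P.lf 0 5631167 0) (P.cons (P.lf 9661 0 0) (P.cons (P.lf 4561 0 0) P.nil))) (P.cons (P.cons (P.lf 0 1406331 0) (P.cons (P.lf 27636 0 0) P.nil)) (P.cons (P.cons (P.lf 77947 0 0) P.nil) P.nil)))))) 56507)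
 (EL.cons 8 (TM.mk (P.cons (P.cons (P.lf 0 396933395 0) (P.cons (P.lf 12450200 0 0) (P.cons (P.lf 5877256 0 0) (P.lf 0 279868 0)))) (P.cons (P.cons (P.lf 0 91466661 0) (P.cons (P.lf 1998520 0 0) (P.cons (P.lf 943423 0 0) (P.lf 0 44924 0)))) (P.cons (P.cons (P.lf 35430755 0 0) (P.cons (P.lf 0 545574 0) (P.cons (P.lf 0 257544 0) (P.lf 12263 0 0)))) (P.cons (P.cons (P.lf 4594873 0 0) (P.cons (P.lf 0 133843 0) (P.cons (P.lf 0 63181 0) P.nil))) (P.cons (P.cons (P.lf 0 715568 0) (P.cons (P.lf 768 0 0) P.nil)) (P.cons (P.cons (P.lf 0 108915 0) P.nil) P.nil)))))) 36371)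
 EL.nil))
noncomputable def S169_198_216_290_17 : EL := (EL.cons 4 (TM.mk (P.cons (P.cons (P.lf 0 205709583 0) (P.cons (P.lf 12904560 0 0) (P.cons (P.lf 5889360 0 0) (P.cons (P.lf 0 481155 0) (P.cons (P.lf 0 36000 0) (P.cons (P.lf 4294 0 0) P.nil)))))) (P.cons (P.cons (P.lf 0 61472171 0) (P.cons (P.lf 2954083 0 0) (P.cons (P.lf 1362327 0 0) (P.cons (P.lf 0 96786 0) (P.cons (P.lf 0 5723 0) P.nil))))) (P.cons (P.cons (P.lf 34993365 0 0) (P.cons (P.lf 0 1670515 0) (P.cons (P.lf 0 771604 0) (P.cons (P.lf 53583 0 0) P.nil)))) (P.cons (P.cons (P.lf 6954881 0 0) (P.cons (P.lf 0 298371 0) (P.cons (P.lf 0 136885 0) P.nil))) (P.cons (P.cons (P.lf 0 2400351 0) (P.cons (P.lf 66654 0 0) P.nil)) (P.cons (P.cons (P.lf 0 232234 0) P.nil) P.nil)))))) 253736)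
 (EL.cons 8 (TM.mk (P.cons (P.cons (P.lf 0 174278836 0) (P.cons (P.lf 10932849 0 0) (P.cons (P.lf 4989514 0 0) (P.cons (P.lf 0 407638 0) (P.cons (P.lf 0 30499 0) (P.cons (P.lf 3638 0 0) P.nil)))))) (P.cons (P.cons (P.lf 0 94703171 0) (P.cons (P.lf 5176574 0 0) (P.cons (P.lf 2374462 0 0) (P.cons (P.lf 0 181694 0) (P.cons (P.lf 0 12308 0) P.nil))))) (P.cons (P.cons (P.lf 9161584 0 0) (P.cons (P.lf 0 317140 0) (P.cons (P.lf 0 149613 0) (P.cons (P.lf 7219 0 0) P.nil)))) (P.cons (P.cons (P.lf 9278034 0 0) (P.cons (P.lf 0 390445 0) (P.cons (P.lf 0 180173 0) P.nil))) (P.cons (P.cons (P.lf 0 47508 0) (P.cons (P.lf 0 26577 0) P.nil)) (P.cons (P.cons (P.lf 0 323153 0) P.nil) P.nil)))))) 183294)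
 EL.nil))
noncomputable def S169_198_216_290_18 : EL := (EL.cons 4 (TM.mk (P.cons (P.lf 549332354 0 0) (P.cons (P.lf 0 269533349 0) (P.cons (P.lf 28252205 0 0) (P.cons (P.lf 3180359 0 0) (P.cons (P.lf 0 331524 0) (P.cons (P.lf 0 44357 0) P.nil)))))) 4415)
 (EL.cons 8 (TM.mk (P.cons (P.lf 465398850 0 0) (P.cons (P.lf 0 114528063 0) (P.cons (P.lf 0 11222106 0) (P.cons (P.lf 2534590 0 0) (P.cons (P.lf 239457 0 0) (P.cons (P.lf 0 14216 0) P.nil)))))) 3029)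
 EL.nil))
noncomputable def S169_198_216_290_19 : EL := (EL.cons 4 (TM.mk (P.cons (P.cons (P.lf 241191607 0 0) (P.cons (P.lf 0 7565207 0) (P.cons (P.lf 0 3571241 0) (P.lf 170057 0 0)))) (P.cons (P.cons (P.lf 0 42857147 0) (P.cons (P.lf 1873155 0 0) (P.cons (P.lf 884244 0 0) (P.lf 0 42105 0)))) (P.cons (P.cons (P.lf 0 33176988 0) (P.cons (P.lf 481004 0 0) (P.cons (P.lf 227062 0 0) (P.lf 0 10812 0)))) (P.cons (P.cons (P.lf 8129430 0 0) (P.cons (P.lf 0 96735 0) (P.cons (P.lf 0 45664 0) P.nil))) (P.cons (P.cons (P.lf 561417 0 0) (P.cons (P.lf 0 18510 0) P.nil)) (P.cons (P.cons (P.lf 0 194088 0) P.nil) P.nil)))))) 64129)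
 (EL.cons 8 (TM.mk (P.cons (P.cons (P.lf 204339496 0 0) (P.cons (P.lf 0 6409305 0) (P.cons (P.lf 0 3025584 0) (P.lf 144075 0 0)))) (P.cons (P.cons (P.lf 13666469 0 0) (P.cons (P.lf 19425 0 0) (P.cons (P.lf 9170 0 0) (P.lf 0 436 0)))) (P.cons (P.cons (P.lf 0 27903574 0) (P.cons (P.lf 510693 0 0) (P.cons (P.lf 241078 0 0) (P.lf 0 11479 0)))) (P.cons (P.cons (P.lf 215659 0 0) (P.cons (P.lf 31273 0 0) (P.cons (P.lf 14762 0 0) P.nil))) (P.cons (P.cons (P.lf 951017 0 0) (P.cons (P.lf 0 14897 0) P.nil)) (P.cons (P.cons (P.lf 16271 0 0) P.nil) P.nil)))))) 38233)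
 EL.nil))
noncomputable def S169_198_216_290_20 : EL := (EL.cons 4 (TM.mk (P.cons (P.cons (P.lf 105898352 0 0) (P.cons (P.lf 0 6643208 0) (P.cons (P.lf 0 3031815 0) (P.cons (P.lf 247695 0 0) (P.cons (P.lf 18532 0 0) (P.cons (P.lf 0 2210 0) P.nil)))))) (P.cons (P.cons (P.lf 14325696 0 0) (P.cons (P.lf 0 434237 0) (P.cons (P.lf 0 205459 0) (P.cons (P.lf 9314 0 0) (P.cons (P.lf 0 83 0) P.nil))))) (P.cons (P.cons (P.lf 0 24207378 0) (P.cons (P.lf 1172509 0 0) (P.cons (P.lf 541043 0 0) (P.cons (P.lf 0 38113 0) P.nil)))) (P.cons (P.cons (P.lf 0 911979 0) (P.cons (P.lf 25923 0 0) (P.cons (P.lf 11492 0 0) P.nil))) (P.cons (P.cons (P.lf 2006748 0 0) (P.cons (P.lf 0 68361 0) P.nil)) (P.cons (P.cons (P.lf 0 51118 0) P.nil) P.nil)))))) 225656)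
 (EL.cons 8 (TM.mk (P.cons (P.cons (P.lf 89717948 0 0) (P.cons (P.lf 0 5628180 0) (P.cons (P.lf 0 2568578 0) (P.cons (P.lf 209850 0 0) (P.cons (P.lf 15700 0 0) (P.cons (P.lf 0 1873 0) P.nil)))))) (P.cons (P.cons (P.lf 34079202 0 0) (P.cons (P.lf 0 1744376 0) (P.cons (P.lf 0 802265 0) (P.cons (P.lf 59214 0 0) (P.cons (P.lf 3768 0 0) P.nil))))) (P.cons (P.cons (P.lf 0 13551780 0) (P.cons (P.lf 653172 0 0) (P.cons (P.lf 301613 0 0) (P.cons (P.lf 0 21030 0) P.nil)))) (P.cons (P.cons (P.lf 0 4451167 0) (P.cons (P.lf 198511 0 0) (P.cons (P.lf 91265 0 0) P.nil))) (P.cons (P.cons (P.lf 866872 0 0) (P.cons (P.lf 0 21663 0) P.nil)) (P.cons (P.cons (P.lf 209285 0 0) P.nil) P.nil)))))) 150343)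
 EL.nil))
noncomputable def S169_198_216_290_21 : EL := (EL.cons 4 (TM.mk (P.cons (P.cons (P.lf 0 3515670204 0) (P.cons (P.lf 85639236 0 0) (P.cons (P.lf 40426962 0 0) (P.lf 0 1925088 0)))) (P.cons (P.cons (P.lf 639196293 0 0) (P.cons (P.lf 6808560 0 0) (P.cons (P.lf 3214050 0 0) (P.lf 0 153045 0)))) (P.cons (P.cons (P.lf 238576041 0 0) (P.cons (P.lf 0 3863427 0) (P.cons (P.lf 0 1823769 0) (P.lf 86844 0 0)))) (P.cons (P.cons (P.lf 0 4730859 0) (P.cons (P.lf 0 531225 0) (P.cons (P.lf 0 250764 0) P.nil))) (P.cons (P.cons (P.lf 0 4641894 0) (P.cons (P.lf 31617 0 0) P.nil)) (P.cons (P.cons (P.lf 0 174498 0) P.nil) P.nil)))))) 143175)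
 (EL.cons 8 (TM.mk (P.cons (P.cons (P.lf 1475453319 0 0) (P.cons (P.lf 0 35941008 0) (P.cons (P.lf 0 16966356 0) (P.lf 807924 0 0)))) (P.cons (P.cons (P.lf 0 629109540 0) (P.cons (P.lf 5932686 0 0) (P.cons (P.lf 2800587 0 0) (P.lf 0 133359 0)))) (P.cons (P.cons (P.lf 0 11858091 0) (P.cons (P.lf 1768266 0 0) (P.cons (P.lf 834729 0 0) (P.lf 0 39747 0)))) (P.cons (P.cons (P.lf 19735056 0 0) (P.cons (P.lf 0 153702 0) (P.cons (P.lf 0 72552 0) P.nil))) (P.cons (P.cons (P.lf 618567 0 0) (P.cons (P.lf 0 43125 0) P.nil)) (P.cons (P.cons (P.lf 0 255984 0) P.nil) P.nil)))))) 95358)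
 (EL.cons 11 (TM.mk (P.cons (P.cons (P.lf 436416075 0 0) (P.cons (P.lf 430324653 0 0) (P.cons (P.lf 0 13465272 0) (P.cons (P.lf 0 2467455 0) (P.lf 88122 0 0))))) (P.cons (P.cons (P.lf 70715400 0 0) (P.cons (P.lf 69728367 0 0) (P.cons (P.lf 0 2181867 0) (P.cons (P.lf 0 399816 0) (P.lf 14277 0 0))))) (P.cons (P.cons (P.lf 0 1629486 0) (P.cons (P.lf 0 1606743 0) (P.cons (P.lf 50274 0 0) (P.cons (P.lf 9210 0 0) P.nil)))) (P.cons (P.cons (P.lf 0 785646 0) (P.cons (P.lf 0 774681 0) (P.cons (P.lf 24240 0 0) P.nil))) (P.cons (P.cons (P.lf 0 21567 0) (P.cons (P.lf 0 21264 0) P.nil)) (P.cons (P.cons (P.lf 3825 0 0) P.nil) P.nil)))))) 10452)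
 EL.nil)))
noncomputable def S169_198_216_290_22 : EL := (EL.cons 4 (TM.mk (P.cons (P.cons (P.lf 0 1543601322 0) (P.cons (P.lf 86017584 0 0) (P.cons (P.lf 39426171 0 0) (P.cons (P.lf 0 3047082 0) (P.cons (P.lf 0 209793 0) (P.cons (P.lf 25029 0 0) P.nil)))))) (P.cons (P.cons (P.lf 0 202448757 0) (P.cons (P.lf 17722371 0 0) (P.cons (P.lf 7985616 0 0) (P.cons (P.lf 0 757545 0) (P.cons (P.lf 0 67668 0) P.nil))))) (P.cons (P.cons (P.lf 247265994 0 0) (P.cons (P.lf 0 7312341 0) (P.cons (P.lf 0 3426459 0) (P.cons (P.lf 188361 0 0) P.nil)))) (P.cons (P.cons (P.lf 29349303 0 0) (P.cons (P.lf 0 2015532 0) (P.cons (P.lf 0 927564 0) P.nil))) (P.cons (P.cons (P.lf 0 8287515 0) (P.cons (P.lf 75993 0 0) P.nil)) (P.cons (P.cons (P.lf 0 1256838 0) P.nil) P.nil)))))) 620658)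
 (EL.cons 8 (TM.mk (P.cons (P.cons (P.lf 647817216 0 0) (P.cons (P.lf 0 36099786 0) (P.cons (P.lf 0 16546341 0) (P.cons (P.lf 1278798 0 0) (P.cons (P.lf 88044 0 0) (P.cons (P.lf 0 10503 0) P.nil)))))) (P.cons (P.cons (P.lf 0 73473402 0) (P.cons (P.lf 1391223 0 0) (P.cons (P.lf 695343 0 0) (P.cons (P.lf 5172 0 0) (P.cons (P.lf 6864 0 0) P.nil))))) (P.cons (P.cons (P.lf 0 114602985 0) (P.cons (P.lf 4333470 0 0) (P.cons (P.lf 2003550 0 0) (P.cons (P.lf 0 137166 0) P.nil)))) (P.cons (P.cons (P.lf 13217604 0 0) (P.cons (P.lf 45165 0 0) (P.cons (P.lf 15480 0 0) P.nil))) (P.cons (P.cons (P.lf 4841649 0 0) (P.cons (P.lf 0 183765 0) P.nil)) (P.cons (P.cons (P.lf 0 325026 0) P.nil) P.nil)))))) 364341)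
 (EL.cons 11 (TM.mk (P.cons (P.cons (P.lf 191614227 0 0) (P.cons (P.lf 182929542 0 0) (P.cons (P.lf 0 14675547 0) (P.cons (P.lf 0 3560391 0) (P.cons (P.lf 293427 0 0) (P.cons (P.lf 10656 0 0) P.nil)))))) (P.cons (P.cons (P.lf 91017462 0 0) (P.cons (P.lf 87312387 0 0) (P.cons (P.lf 0 6358266 0) (P.cons (P.lf 0 1518024 0) (P.cons (P.lf 121569 0 0) P.nil))))) (P.cons (P.cons (P.lf 2213715 0 0) (P.cons (P.lf 1943040 0 0) (P.cons (P.lf 0 417921 0) (P.cons (P.lf 0 111336 0) P.nil)))) (P.cons (P.cons (P.lf 0 2734485 0) (P.cons (P.lf 0 2663622 0) (P.cons (P.lf 132039 0 0) P.nil))) (P.cons (P.cons (P.lf 0 224094 0) (P.cons (P.lf 0 213093 0) P.nil)) (P.cons (P.cons (P.lf 33039 0 0) P.nil) P.nil)))))) 151692)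
 EL.nil)))
noncomputable def S169_198_216_290_23 : EL := (EL.cons 4 (TM.mk (P.cons (P.cons (P.lf 1809850944 0 0) (P.cons (P.lf 0 44086686 0) (P.cons (P.lf 0 20811615 0) (P.lf 991026 0 0)))) (P.cons (P.cons (P.lf 0 625060215 0) (P.cons (P.lf 3705453 0 0) (P.cons (P.lf 1749204 0 0) (P.lf 0 83295 0)))) (P.cons (P.cons (P.lf 0 86385459 0) (P.cons (P.lf 2985618 0 0) (P.cons (P.lf 1409391 0 0) (P.lf 0 67110 0)))) (P.cons (P.cons (P.lf 26128635 0 0) (P.cons (P.lf 0 28986 0) (P.cons (P.lf 0 13686 0) P.nil))) (P.cons (P.cons (P.lf 3169728 0 0) (P.cons (P.lf 0 82908 0) P.nil)) (P.cons (P.cons (P.lf 0 367797 0) P.nil) P.nil)))))) 180957)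
 (EL.cons 8 (TM.mk (P.cons (P.cons (P.lf 0 759556620 0) (P.cons (P.lf 18502266 0 0) (P.cons (P.lf 8734200 0 0) (P.lf 0 415914 0)))) (P.cons (P.cons (P.lf 448089780 0 0) (P.cons (P.lf 0 6080202 0) (P.cons (P.lf 0 2870226 0) (P.lf 136674 0 0)))) (P.cons (P.cons (P.lf 0 39567687 0) (P.cons (P.lf 0 588516 0) (P.cons (P.lf 0 277815 0) (P.lf 13227 0 0)))) (P.cons (P.cons (P.lf 0 14455764 0) (P.cons (P.lf 261894 0 0) (P.cons (P.lf 123627 0 0) P.nil))) (P.cons (P.cons (P.lf 1330800 0 0) (P.cons (P.lf 18066 0 0) P.nil)) (P.cons (P.cons (P.lf 296658 0 0) P.nil) P.nil)))))) 108324)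
 (EL.cons 11 (TM.mk (P.cons (P.cons (P.lf 0 224664999 0) (P.cons (P.lf 0 221529162 0) (P.cons (P.lf 6931860 0 0) (P.cons (P.lf 1270233 0 0) (P.lf 0 45363 0))))) (P.cons (P.cons (P.lf 340461 0 0) (P.cons (P.lf 335709 0 0) (P.cons (P.lf 0 10503 0) (P.cons (P.lf 0 1926 0) (P.lf 69 0 0))))) (P.cons (P.cons (P.lf 8950908 0 0) (P.cons (P.lf 8825976 0 0) (P.cons (P.lf 0 276171 0) (P.cons (P.lf 0 50604 0) P.nil)))) (P.cons (P.cons (P.lf 561678 0 0) (P.cons (P.lf 553836 0 0) (P.cons (P.lf 0 17328 0) P.nil))) (P.cons (P.cons (P.lf 0 81936 0) (P.cons (P.lf 0 80793 0) P.nil)) (P.cons (P.cons (P.lf 0 9222 0) P.nil) P.nil)))))) 22986)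
 EL.nil)))
noncomputable def S169_198_216_290_24 : EL := (EL.cons 4 (TM.mk (P.cons (P.cons (P.lf 794638902 0 0) (P.cons (P.lf 0 44281458 0) (P.cons (P.lf 0 20296413 0) (P.cons (P.lf 1568625 0 0) (P.cons (P.lf 108000 0 0) (P.cons (P.lf 0 12885 0) P.nil)))))) (P.cons (P.cons (P.lf 0 25745151 0) (P.cons (P.lf 0 1881069 0) (P.cons (P.lf 0 791436 0) (P.cons (P.lf 133428 0 0) (P.cons (P.lf 17172 0 0) P.nil))))) (P.cons (P.cons (P.lf 0 151969989 0) (P.cons (P.lf 5681874 0 0) (P.cons (P.lf 2631246 0 0) (P.cons (P.lf 0 175818 0) P.nil)))) (P.cons (P.cons (P.lf 4904238 0 0) (P.cons (P.lf 498663 0 0) (P.cons (P.lf 223506 0 0) P.nil))) (P.cons (P.cons (P.lf 8020797 0 0) (P.cons (P.lf 0 249171 0) P.nil)) (P.cons (P.cons (P.lf 68202 0 0) P.nil) P.nil)))))) 566925)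
 (EL.cons 8 (TM.mk (P.cons (P.cons (P.lf 0 333493341 0) (P.cons (P.lf 18584004 0 0) (P.cons (P.lf 8517981 0 0) (P.cons (P.lf 0 658320 0) (P.cons (P.lf 0 45324 0) (P.cons (P.lf 5406 0 0) P.nil)))))) (P.cons (P.cons (P.lf 92367300 0 0) (P.cons (P.lf 0 3755649 0) (P.cons (P.lf 0 1751091 0) (P.cons (P.lf 105006 0 0) (P.cons (P.lf 3876 0 0) P.nil))))) (P.cons (P.cons (P.lf 56014446 0 0) (P.cons (P.lf 0 2292231 0) (P.cons (P.lf 0 1054695 0) (P.cons (P.lf 77370 0 0) P.nil)))) (P.cons (P.cons (P.lf 0 16898829 0) (P.cons (P.lf 353058 0 0) (P.cons (P.lf 166254 0 0) P.nil))) (P.cons (P.cons (P.lf 0 1951671 0) (P.cons (P.lf 120474 0 0) P.nil)) (P.cons (P.cons (P.lf 656271 0 0) P.nil) P.nil)))))) 232377)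
 (EL.cons 11 (TM.mk (P.cons (P.cons (P.lf 0 98642127 0) (P.cons (P.lf 0 94171290 0) (P.cons (P.lf 7554903 0 0) (P.cons (P.lf 1832871 0 0) (P.cons (P.lf 0 151053 0) (P.cons (P.lf 0 5487 0) P.nil)))))) (P.cons (P.cons (P.lf 0 30722247 0) (P.cons (P.lf 0 29546106 0) (P.cons (P.lf 2037585 0 0) (P.cons (P.lf 481701 0 0) (P.cons (P.lf 0 37875 0) P.nil))))) (P.cons (P.cons (P.lf 7471230 0 0) (P.cons (P.lf 7255674 0 0) (P.cons (P.lf 0 392766 0) (P.cons (P.lf 0 88101 0) P.nil)))) (P.cons (P.cons (P.lf 2019909 0 0) (P.cons (P.lf 1943418 0 0) (P.cons (P.lf 0 132744 0) P.nil))) (P.cons (P.cons (P.lf 0 119784 0) (P.cons (P.lf 0 120156 0) P.nil)) (P.cons (P.cons (P.lf 0 51807 0) P.nil) P.nil)))))) 147381)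
 EL.nil)))
noncomputable def S169_198_216_290_25 : EL := (EL.cons 4 (TM.mk (P.cons (P.cons (P.lf 0 931702989 0) (P.cons (P.lf 22695624 0 0) (P.cons (P.lf 10713723 0 0) (P.lf 0 510174 0)))) (P.cons (P.cons (P.lf 474160101 0 0) (P.cons (P.lf 0 5619465 0) (P.cons (P.lf 0 2652732 0) (P.lf 126321 0 0)))) (P.cons (P.cons (P.lf 793221 0 0) (P.cons (P.lf 0 1443012 0) (P.cons (P.lf 0 681186 0) (P.lf 32436 0 0)))) (P.cons (P.cons (P.lf 0 24044370 0) (P.cons (P.lf 290205 0 0) (P.cons (P.lf 136995 0 0) P.nil))) (P.cons (P.cons (P.lf 179160 0 0) (P.cons (P.lf 55533 0 0) P.nil)) (P.cons (P.cons (P.lf 609858 0 0) P.nil) P.nil)))))) 149016)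
 (EL.cons 8 (TM.mk (P.cons (P.cons (P.lf 391016274 0 0) (P.cons (P.lf 0 9524880 0) (P.cons (P.lf 0 4496325 0) (P.lf 214110 0 0)))) (P.cons (P.cons (P.lf 0 294626094 0) (P.cons (P.lf 4687875 0 0) (P.cons (P.lf 2212962 0 0) (P.lf 0 105378 0)))) (P.cons (P.cons (P.lf 54340497 0 0) (P.cons (P.lf 0 117465 0) (P.cons (P.lf 0 55449 0) (P.lf 2640 0 0)))) (P.cons (P.cons (P.lf 6422355 0 0) (P.cons (P.lf 0 216783 0) (P.cons (P.lf 0 102333 0) P.nil))) (P.cons (P.cons (P.lf 0 2137422 0) (P.cons (P.lf 10188 0 0) P.nil)) (P.cons (P.cons (P.lf 0 117012 0) P.nil) P.nil)))))) 106155)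
 (EL.cons 11 (TM.mk (P.cons (P.cons (P.lf 115656513 0 0) (P.cons (P.lf 114042198 0 0) (P.cons (P.lf 0 3568488 0) (P.cons (P.lf 0 653910 0) (P.lf 23352 0 0))))) (P.cons (P.cons (P.lf 0 19091130 0) (P.cons (P.lf 0 18824661 0) (P.cons (P.lf 589041 0 0) (P.cons (P.lf 107940 0 0) (P.lf 0 3855 0))))) (P.cons (P.cons (P.lf 0 5690208 0) (P.cons (P.lf 0 5610786 0) (P.cons (P.lf 175566 0 0) (P.cons (P.lf 32169 0 0) P.nil)))) (P.cons (P.cons (P.lf 494613 0 0) (P.cons (P.lf 487710 0 0) (P.cons (P.lf 0 15258 0) P.nil))) (P.cons (P.cons (P.lf 138777 0 0) (P.cons (P.lf 136842 0 0) P.nil)) (P.cons (P.cons (P.lf 0 432 0) P.nil) P.nil)))))) 26754)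
 EL.nil)))
noncomputable def S169_198_216_290_26 : EL := (EL.cons 4 (TM.mk (P.cons (P.cons (P.lf 0 409076472 0) (P.cons (P.lf 22795890 0 0) (P.cons (P.lf 10448499 0 0) (P.cons (P.lf 0 807519 0) (P.cons (P.lf 0 55596 0) (P.cons (P.lf 6633 0 0) P.nil)))))) (P.cons (P.cons (P.lf 80158791 0 0) (P.cons (P.lf 0 2759946 0) (P.cons (P.lf 0 1301442 0) (P.cons (P.lf 63381 0 0) (P.cons (P.lf 252 0 0) P.nil))))) (P.cons (P.cons (P.lf 79995378 0 0) (P.cons (P.lf 0 3302355 0) (P.cons (P.lf 0 1521558 0) (P.cons (P.lf 109500 0 0) P.nil)))) (P.cons (P.cons (P.lf 0 15547866 0) (P.cons (P.lf 217983 0 0) (P.cons (P.lf 105135 0 0) P.nil))) (P.cons (P.cons (P.lf 0 4482387 0) (P.cons (P.lf 199596 0 0) P.nil)) (P.cons (P.cons (P.lf 683994 0 0) P.nil) P.nil)))))) 439293)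
 (EL.cons 8 (TM.mk (P.cons (P.cons (P.lf 171680847 0 0) (P.cons (P.lf 0 9566958 0) (P.cons (P.lf 0 4385016 0) (P.cons (P.lf 338898 0 0) (P.cons (P.lf 23331 0 0) (P.cons (P.lf 0 2781 0) P.nil)))))) (P.cons (P.cons (P.lf 0 75629022 0) (P.cons (P.lf 3498087 0 0) (P.cons (P.lf 1618632 0 0) (P.cons (P.lf 0 109482 0) (P.cons (P.lf 0 5811 0) P.nil))))) (P.cons (P.cons (P.lf 0 22708188 0) (P.cons (P.lf 955719 0 0) (P.cons (P.lf 437640 0 0) (P.cons (P.lf 0 34245 0) P.nil)))) (P.cons (P.cons (P.lf 13914621 0 0) (P.cons (P.lf 0 395673 0) (P.cons (P.lf 0 184125 0) P.nil))) (P.cons (P.cons (P.lf 0 145248 0) (P.cons (P.lf 0 43572 0) P.nil)) (P.cons (P.cons (P.lf 0 594798 0) P.nil) P.nil)))))) 188046)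
 (EL.cons 11 (TM.mk (P.cons (P.cons (P.lf 50780514 0 0) (P.cons (P.lf 48478950 0 0) (P.cons (P.lf 0 3889230 0) (P.cons (P.lf 0 943554 0) (P.cons (P.lf 77760 0 0) (P.cons (P.lf 2823 0 0) P.nil)))))) (P.cons (P.cons (P.lf 7510413 0 0) (P.cons (P.lf 7281366 0 0) (P.cons (P.lf 0 412848 0) (P.cons (P.lf 0 93657 0) (P.cons (P.lf 6780 0 0) P.nil))))) (P.cons (P.cons (P.lf 0 6920634 0) (P.cons (P.lf 0 6688533 0) (P.cons (P.lf 411108 0 0) (P.cons (P.lf 94974 0 0) P.nil)))) (P.cons (P.cons (P.lf 0 550224 0) (P.cons (P.lf 0 523746 0) (P.cons (P.lf 44385 0 0) P.nil))) (P.cons (P.cons (P.lf 274800 0 0) (P.cons (P.lf 267237 0 0) P.nil)) (P.cons (P.cons (P.lf 26358 0 0) P.nil) P.nil)))))) 120279)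
 EL.nil)))
noncomputable def S169_198_216_290_27 : EL := (EL.cons 13 (TM.mk (P.lf 0 4294967296 0) 0)
 EL.nil)
noncomputable def S169_198_216_290_28 : EL := (EL.cons 13 (TM.mk (P.cons (P.cons (P.lf 0 1885761978 0) (P.cons (P.lf 59148752 0 0) (P.cons (P.lf 27921832 0 0) (P.lf 0 1329608 0)))) (P.cons (P.cons (P.lf 0 590181315 0) (P.cons (P.lf 14376396 0 0) (P.cons (P.lf 6786536 0 0) (P.lf 0 323168 0)))) (P.cons (P.cons (P.lf 66803771 0 0) (P.cons (P.lf 251100 0 0) (P.cons (P.lf 118536 0 0) (P.lf 0 5644 0)))) (P.cons (P.cons (P.lf 10488236 0 0) (P.cons (P.lf 0 202288 0) (P.cons (P.lf 0 95488 0) P.nil))) (P.cons (P.cons (P.lf 0 400269 0) (P.cons (P.lf 0 14972 0) P.nil)) (P.cons (P.cons (P.lf 0 113522 0) P.nil) P.nil)))))) 28513)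
 EL.nil)
noncomputable def S169_198_216_290_29 : EL := (EL.cons 13 (TM.mk (P.cons (P.cons (P.lf 0 827968641 0) (P.cons (P.lf 51940077 0 0) (P.cons (P.lf 23704320 0 0) (P.cons (P.lf 0 1936622 0) (P.cons (P.lf 0 144899 0) (P.cons (P.lf 17287 0 0) P.nil)))))) (P.cons (P.cons (P.lf 0 518253764 0) (P.cons (P.lf 28879823 0 0) (P.cons (P.lf 13237068 0 0) (P.cons (P.lf 0 1023038 0) (P.cons (P.lf 0 70437 0) P.nil))))) (P.cons (P.cons (P.lf 0 22436017 0) (P.cons (P.lf 2331489 0 0) (P.cons (P.lf 1045568 0 0) (P.cons (P.lf 0 104371 0) P.nil)))) (P.cons (P.cons (P.lf 27569315 0 0) (P.cons (P.lf 0 844726 0) (P.cons (P.lf 0 394867 0) P.nil))) (P.cons (P.cons (P.lf 1491874 0 0) (P.cons (P.lf 0 135741 0) P.nil)) (P.cons (P.cons (P.lf 0 535957 0) P.nil) P.nil)))))) 263889)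
 EL.nil)
noncomputable def S169_198_216_290_30 : EL := (EL.cons 13 (TM.mk (P.cons (P.lf 2211029524 0 0) (P.cons (P.lf 0 361618480 0) (P.cons (P.lf 0 21238980 0) (P.cons (P.lf 543904 0 0) (P.cons (P.lf 97232 0 0) (P.cons (P.lf 1560 0 0) P.nil)))))) 512)
 EL.nil)
noncomputable def S169_198_216_290_31 : EL := (EL.cons 13 (TM.mk (P.cons (P.cons (P.lf 970781643 0 0) (P.cons (P.lf 0 30449507 0) (P.cons (P.lf 0 14374031 0) (P.lf 684476 0 0)))) (P.cons (P.cons (P.lf 145049284 0 0) (P.cons (P.lf 0 2420822 0) (P.cons (P.lf 0 1142774 0) (P.lf 54417 0 0)))) (P.cons (P.cons (P.lf 0 93406355 0) (P.cons (P.lf 1373663 0 0) (P.cons (P.lf 648452 0 0) (P.lf 0 30878 0)))) (P.cons (P.cons (P.lf 0 2454383 0) (P.cons (P.lf 188880 0 0) (P.cons (P.lf 89161 0 0) P.nil))) (P.cons (P.cons (P.lf 1536903 0 0) (P.cons (P.lf 0 11242 0) P.nil)) (P.cons (P.cons (P.lf 82190 0 0) P.nil) P.nil))))))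 48951)
 EL.nil)
noncomputable def S169_198_216_290_32 : EL := (EL.cons 13 (TM.mk (P.cons (P.cons (P.lf 426234470 0 0) (P.cons (P.lf 0 26738514 0) (P.cons (P.lf 0 12202875 0) (P.cons (P.lf 996964 0 0) (P.cons (P.lf 74593 0 0) (P.cons (P.lf 0 8899 0) P.nil)))))) (P.cons (P.cons (P.lf 197083133 0 0) (P.cons (P.lf 0 10494061 0) (P.cons (P.lf 0 4818576 0) (P.cons (P.lf 363599 0 0) (P.cons (P.lf 24060 0 0) P.nil))))) (P.cons (P.cons (P.lf 0 36179239 0) (P.cons (P.lf 1488169 0 0) (P.cons (P.lf 693472 0 0) (P.cons (P.lf 0 41982 0) P.nil)))) (P.cons (P.cons (P.lf 0 18539534 0) (P.cons (P.lf 767398 0 0) (P.cons (P.lf 353764 0 0) P.nil))) (P.cons (P.cons (P.lf 1526638 0 0) (P.cons (P.lf 5452 0 0) P.nil)) (P.cons (P.cons (P.lf 552724 0 0) P.nil) P.nil)))))) 303861)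
 EL.nil)
noncomputable def S169_198_216_290_33 : EL := (EL.cons 14 (TM.mk (P.lf 8589934592 0 0) 0)
 EL.nil)
noncomputable def S169_198_216_290_34 : EL := (EL.cons 14 (TM.mk (P.cons (P.cons (P.lf 3771523956 0 0) (P.cons (P.lf 0 118297504 0) (P.cons (P.lf 0 55843664 0) (P.lf 2659216 0 0)))) (P.cons (P.cons (P.lf 1180362630 0 0) (P.cons (P.lf 0 28752792 0) (P.cons (P.lf 0 13573072 0) (P.lf 646336 0 0)))) (P.cons (P.cons (P.lf 0 133607542 0) (P.cons (P.lf 0 502200 0) (P.cons (P.lf 0 237072 0) (P.lf 11288 0 0)))) (P.cons (P.cons (P.lf 0 20976472 0) (P.cons (P.lf 404576 0 0) (P.cons (P.lf 190976 0 0) P.nil))) (P.cons (P.cons (P.lf 800538 0 0) (P.cons (P.lf 29944 0 0) P.nil)) (P.cons (P.cons (P.lf 227044 0 0) P.nil) P.nil)))))) 57026)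
 EL.nil)
noncomputable def S169_198_216_290_35 : EL := (EL.cons 14 (TM.mk (P.cons (P.cons (P.lf 1655937282 0 0) (P.cons (P.lf 0 103880154 0) (P.cons (P.lf 0 47408640 0) (P.cons (P.lf 3873244 0 0) (P.cons (P.lf 289798 0 0) (P.cons (P.lf 0 34574 0) P.nil)))))) (P.cons (P.cons (P.lf 1036507528 0 0) (P.cons (P.lf 0 57759646 0) (P.cons (P.lf 0 26474136 0) (P.cons (P.lf 2046076 0 0) (P.cons (P.lf 140874 0 0) P.nil))))) (P.cons (P.cons (P.lf 44872034 0 0) (P.cons (P.lf 0 4662978 0) (P.cons (P.lf 0 2091136 0) (P.cons (P.lf 208742 0 0) P.nil)))) (P.cons (P.cons (P.lf 0 55138630 0) (P.cons (P.lf 1689452 0 0) (P.cons (P.lf 789734 0 0) P.nil))) (P.cons (P.cons (P.lf 0 2983748 0) (P.cons (P.lf 271482 0 0) P.nil)) (P.cons (P.cons (P.lf 1071914 0 0) P.nil) P.nil)))))) 527778)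
 EL.nil)
noncomputable def S169_198_216_290_36 : EL := (EL.cons 14 (TM.mk (P.cons (P.lf 0 4422059048 0) (P.cons (P.lf 723236960 0 0) (P.cons (P.lf 42477960 0 0) (P.cons (P.lf 0 1087808 0) (P.cons (P.lf 0 194464 0) (P.cons (P.lf 0 3120 0) P.nil)))))) 1024)
 EL.nil)
noncomputable def S169_198_216_290_37 : EL := (EL.cons 14 (TM.mk (P.cons (P.cons (P.lf 0 1941563286 0) (P.cons (P.lf 60899014 0 0) (P.cons (P.lf 28748062 0 0) (P.lf 0 1368952 0)))) (P.cons (P.cons (P.lf 0 290098568 0) (P.cons (P.lf 4841644 0 0) (P.cons (P.lf 2285548 0 0) (P.lf 0 108834 0)))) (P.cons (P.cons (P.lf 186812710 0 0) (P.cons (P.lf 0 2747326 0) (P.cons (P.lf 0 1296904 0) (P.lf 61756 0 0)))) (P.cons (P.cons (P.lf 4908766 0 0) (P.cons (P.lf 0 377760 0) (P.cons (P.lf 0 178322 0) P.nil))) (P.cons (P.cons (P.lf 0 3073806 0) (P.cons (P.lf 22484 0 0) P.nil)) (P.cons (P.cons (P.lf 0 164380 0) P.nil)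 P.nil)))))) 97902)
 EL.nil)
noncomputable def S169_198_216_290_38 : EL := (EL.cons 14 (TM.mk (P.cons (P.cons (P.lf 0 852468940 0) (P.cons (P.lf 53477028 0 0) (P.cons (P.lf 24405750 0 0) (P.cons (P.lf 0 1993928 0) (P.cons (P.lf 0 149186 0) (P.cons (P.lf 17798 0 0) P.nil)))))) (P.cons (P.cons (P.lf 0 394166266 0) (P.cons (P.lf 20988122 0 0) (P.cons (P.lf 9637152 0 0) (P.cons (P.lf 0 727198 0) (P.cons (P.lf 0 48120 0) P.nil))))) (P.cons (P.cons (P.lf 72358478 0 0) (P.cons (P.lf 0 2976338 0) (P.cons (P.lf 0 1386944 0) (P.cons (P.lf 83964 0 0) P.nil)))) (P.cons (P.cons (P.lf 37079068 0 0) (P.cons (P.lf 0 1534796 0) (P.cons (P.lf 0 707528 0) P.nil))) (P.cons (P.cons (P.lf 0 3053276 0) (P.cons (P.lf 0 10904 0) P.nil)) (P.cons (P.cons (P.lf 0 1105448 0) P.nil) P.nil)))))) 607722)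
 EL.nil)
noncomputable def S169_198_216_290_39 : EL := (EL.cons 14 (TM.mk (P.cons (P.lf 2276455776 0 0) (P.cons (P.lf 0 744638158 0) (P.cons (P.lf 17158640 0 0) (P.cons (P.lf 8272934 0 0) (P.cons (P.lf 227096 0 0) (P.cons (P.lf 0 40292 0) P.nil)))))) 3922)
 EL.nil)
noncomputable def S169_198_216_290_40 : EL := (EL.cons 14 (TM.mk (P.cons (P.cons (P.lf 999507900 0 0) (P.cons (P.lf 0 31350532 0) (P.cons (P.lf 0 14799370 0) (P.lf 704730 0 0)))) (P.cons (P.cons (P.lf 0 14130180 0) (P.cons (P.lf 2634988 0 0) (P.cons (P.lf 1243876 0 0) (P.lf 0 59230 0)))) (P.cons (P.cons (P.lf 0 130196624 0) (P.cons (P.lf 2123108 0 0) (P.cons (P.lf 1002236 0 0) (P.lf 0 47724 0)))) (P.cons (P.cons (P.lf 12013158 0 0) (P.cons (P.lf 0 20612 0) (P.cons (P.lf 0 9732 0) P.nil))) (P.cons (P.cons (P.lf 3000174 0 0) (P.cons (P.lf 0 58958 0) P.nil)) (P.cons (P.cons (P.lf 0 166288 0) P.nil) P.nil))))))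 120508)
 EL.nil)
noncomputable def S169_198_216_290_41 : EL := (EL.cons 14 (TM.mk (P.cons (P.cons (P.lf 438847112 0 0) (P.cons (P.lf 0 27529728 0) (P.cons (P.lf 0 12563968 0) (P.cons (P.lf 1026464 0 0) (P.cons (P.lf 76800 0 0) (P.cons (P.lf 0 9162 0) P.nil)))))) (P.cons (P.cons (P.lf 131140632 0 0) (P.cons (P.lf 0 6302044 0) (P.cons (P.lf 0 2906298 0) (P.cons (P.lf 206478 0 0) (P.cons (P.lf 12210 0 0) P.nil))))) (P.cons (P.cons (P.lf 0 74652514 0) (P.cons (P.lf 3563766 0 0) (P.cons (P.lf 1646090 0 0) (P.cons (P.lf 0 114312 0) P.nil)))) (P.cons (P.cons (P.lf 0 14837080 0) (P.cons (P.lf 636526 0 0) (P.cons (P.lf 292022 0 0) P.nil))) (P.cons (P.cons (P.lf 5120750 0 0) (P.cons (P.lf 0 142196 0) P.nil)) (P.cons (P.cons (P.lf 495434 0 0) P.nil) P.nil)))))) 541258)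
 EL.nil)
noncomputable def S169_198_216_290_42 : EL := (EL.cons 14 (TM.mk (P.cons (P.lf 0 1171909022 0) (P.cons (P.lf 575004478 0 0) (P.cons (P.lf 0 60271372 0) (P.cons (P.lf 0 6784766 0) (P.cons (P.lf 707252 0 0) (P.cons (P.lf 94630 0 0) P.nil)))))) 9404)
 EL.nil)
noncomputable def S169_198_216_290_43 : EL := (EL.cons 14 (TM.mk (P.cons (P.cons (P.lf 0 514542096 0) (P.cons (P.lf 16139110 0 0) (P.cons (P.lf 7618648 0 0) (P.lf 0 362790 0)))) (P.cons (P.cons (P.lf 91428582 0 0) (P.cons (P.lf 0 3996064 0) (P.cons (P.lf 0 1886388 0) (P.lf 89826 0 0)))) (P.cons (P.cons (P.lf 70777576 0 0) (P.cons (P.lf 0 1026142 0) (P.cons (P.lf 0 484400 0) (P.lf 23066 0 0)))) (P.cons (P.cons (P.lf 0 17342786 0) (P.cons (P.lf 206368 0 0) (P.cons (P.lf 97418 0 0) P.nil))) (P.cons (P.cons (P.lf 0 1197690 0) (P.cons (P.lf 39490 0 0) P.nil)) (P.cons (P.cons (P.lf 414056 0 0) P.nil) P.nil))))))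 136770)
 EL.nil)
noncomputable def S169_198_216_290_44 : EL := (EL.cons 14 (TM.mk (P.cons (P.cons (P.lf 0 225916486 0) (P.cons (P.lf 14172178 0 0) (P.cons (P.lf 6467872 0 0) (P.cons (P.lf 0 528418 0) (P.cons (P.lf 0 39536 0) (P.cons (P.lf 4716 0 0) P.nil)))))) (P.cons (P.cons (P.lf 0 30561486 0) (P.cons (P.lf 926374 0 0) (P.cons (P.lf 438314 0 0) (P.cons (P.lf 0 19870 0) (P.cons (P.lf 178 0 0) P.nil))))) (P.cons (P.cons (P.lf 51642408 0 0) (P.cons (P.lf 0 2501354 0) (P.cons (P.lf 0 1154226 0) (P.cons (P.lf 81308 0 0) P.nil)))) (P.cons (P.cons (P.lf 1945556 0 0) (P.cons (P.lf 0 55304 0) (P.cons (P.lf 0 24518 0) P.nil))) (P.cons (P.cons (P.lf 0 4281064 0) (P.cons (P.lf 145838 0 0) P.nil)) (P.cons (P.cons (P.lf 109052 0 0) P.nil) P.nil)))))) 481354)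
 EL.nil)
noncomputable def S169_198_216_290_45 : EL := (EL.cons 14 (TM.mk (P.cons (P.cons (P.lf 727061080 0 0) (P.cons (P.lf 0 68414924 0) (P.cons (P.lf 0 30150132 0) (P.cons (P.lf 3541458 0 0) (P.cons (P.lf 349946 0 0) (P.cons (P.lf 0 59026 0) P.nil)))))) (P.cons (P.cons (P.lf 682638428 0 0) (P.cons (P.lf 0 59451816 0) (P.cons (P.lf 0 26350152 0) (P.cons (P.lf 2938984 0 0) (P.cons (P.lf 281854 0 0) P.nil))))) (P.cons (P.cons (P.lf 136374144 0 0) (P.cons (P.lf 0 12552718 0) (P.cons (P.lf 0 5530210 0) (P.cons (P.lf 651254 0 0) P.nil)))) (P.cons (P.cons (P.lf 0 38208944 0) (P.cons (P.lf 1879636 0 0) (P.cons (P.lf 873534 0 0) P.nil))) (P.cons (P.cons (P.lf 0 11961526 0) (P.cons (P.lf 832866 0 0) P.nil)) (P.cons (P.cons (P.lf 949046 0 0) P.nil) P.nil)))))) 1605796)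
 EL.nil)
noncomputable def S169_198_216_290_46 : EL := (EL.cons 15 (TM.mk (P.lf 4294967296 0 0) 0)
 EL.nil)
noncomputable def S169_198_216_290_47 : EL := (EL.cons 15 (TM.mk (P.cons (P.cons (P.lf 1885761978 0 0) (P.cons (P.lf 0 59148752 0) (P.cons (P.lf 0 27921832 0) (P.lf 1329608 0 0)))) (P.cons (P.cons (P.lf 590181315 0 0) (P.cons (P.lf 0 14376396 0) (P.cons (P.lf 0 6786536 0) (P.lf 323168 0 0)))) (P.cons (P.cons (P.lf 0 66803771 0) (P.cons (P.lf 0 251100 0) (P.cons (P.lf 0 118536 0) (P.lf 5644 0 0)))) (P.cons (P.cons (P.lf 0 10488236 0) (P.cons (P.lf 202288 0 0) (P.cons (P.lf 95488 0 0) P.nil))) (P.cons (P.cons (P.lf 400269 0 0) (P.cons (P.lf 14972 0 0) P.nil)) (P.cons (P.cons (P.lf 113522 0 0) P.nil) P.nil)))))) 28513)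
 EL.nil)
noncomputable def S169_198_216_290_48 : EL := (EL.cons 15 (TM.mk (P.cons (P.cons (P.lf 827968641 0 0) (P.cons (P.lf 0 51940077 0) (P.cons (P.lf 0 23704320 0) (P.cons (P.lf 1936622 0 0) (P.cons (P.lf 144899 0 0) (P.cons (P.lf 0 17287 0) P.nil)))))) (P.cons (P.cons (P.lf 518253764 0 0) (P.cons (P.lf 0 28879823 0) (P.cons (P.lf 0 13237068 0) (P.cons (P.lf 1023038 0 0) (P.cons (P.lf 70437 0 0) P.nil))))) (P.cons (P.cons (P.lf 22436017 0 0) (P.cons (P.lf 0 2331489 0) (P.cons (P.lf 0 1045568 0) (P.cons (P.lf 104371 0 0) P.nil)))) (P.cons (P.cons (P.lf 0 27569315 0) (P.cons (P.lf 844726 0 0) (P.cons (P.lf 394867 0 0) P.nil))) (P.cons (P.cons (P.lf 0 1491874 0) (P.cons (P.lf 135741 0 0) P.nil)) (P.cons (P.cons (P.lf 535957 0 0) P.nil) P.nil)))))) 263889)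
 EL.nil)
noncomputable def S169_198_216_290 : SL := (SL.cons S169_198_216_290_0 (SL.cons S169_198_216_290_1 (SL.cons S169_198_216_290_2 (SL.cons S169_198_216_290_3 (SL.cons S169_198_216_290_4 (SL.cons S169_198_216_290_5 (SL.cons S169_198_216_290_6 (SL.cons S169_198_216_290_7 (SL.cons S169_198_216_290_8 (SL.cons S169_198_216_290_9 (SL.cons S169_198_216_290_10 (SL.cons S169_198_216_290_11 (SL.cons S169_198_216_290_12 (SL.cons S169_198_216_290_13 (SL.cons S169_198_216_290_14 (SL.cons S169_198_216_290_15 (SL.cons S169_198_216_290_16 (SL.cons S169_198_216_290_17 (SL.cons S169_198_216_290_18 (SL.cons S169_198_216_290_19 (SL.cons S169_198_216_290_20 (SL.cons S169_198_216_290_21 (SL.cons S169_198_216_290_22 (SL.cons S169_198_216_290_23 (SL.cons S169_198_216_290_24 (SL.cons S169_198_216_290_25 (SL.cons S169_198_216_290_26 (SL.cons S169_198_216_290_27 (SL.cons S169_198_216_290_28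 (SL.cons S169_198_216_290_29 (SL.cons S169_198_216_290_30 (SL.cons S169_198_216_290_31 (SL.cons S169_198_216_290_32 (SL.cons S169_198_216_290_33 (SL.cons S169_198_216_290_34 (SL.cons S169_198_216_290_35 (SL.cons S169_198_216_290_36 (SL.cons S169_198_216_290_37 (SL.cons S169_198_216_290_38 (SL.cons S169_198_216_290_39 (SL.cons S169_198_216_290_40 (SL.cons S169_198_216_290_41 (SL.cons S169_198_216_290_42 (SL.cons S169_198_216_290_43 (SL.cons S169_198_216_290_44 (SL.cons S169_198_216_290_45 (SL.cons S169_198_216_290_46 (SL.cons S169_198_216_290_47 (SL.cons S169_198_216_290_48 SL.nil)))))))))))))))))))))))))))))))))))))))))))))))))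
theorem S169_183_438_512_ok : band (seq (shp 5 169 183 438 512) S169_183_438_512) (sok S169_183_438_512) = true := by decide +kernel

theorem S169_183_512_586_ok : band (seq (shp 5 169 183 512 586) S169_183_512_586) (sok S169_183_512_586) = true := by decide +kernel

theorem S169_183_512_660_ok : band (seq (shp 5 169 183 512 660) S169_183_512_660) (sok S169_183_512_660) = true := by decide +kernel

theorem S169_183_586_660_ok : band (seq (shp 5 169 183 586 660) S169_183_586_660) (sok S169_183_586_660) = true := by decide +kernel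

theorem S169_183_660_808_ok : band (seq (shp 5 169 183 660 808) S169_183_660_808) (sok S169_183_660_808) = true := by decide +kernel

theorem S169_198_216_290_ok : band (seq (shp 5 169 198 216 290) S169_198_216_290) (sok S169_198_216_290) = true := by decide +kernel

end Vale.Agent.P098.Ck
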