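import Vale.Agent.P098.CkDefs

namespace Vale.Agent.P098.Ck

noncomputable def S176_183_216_364_0 : EL := (EL.cons 0 (TM.mk (P.cons (P.lf 6273386781 0 0) (P.cons (P.lf 159586808 0 0) (P.cons (P.lf 0 533801 0) (P.cons (P.lf 0 98790 0) (P.cons (P.lf 0 829 0) (P.cons (P.lf 28 0 0) P.nil)))))) 112)
 (EL.cons 1 (TM.mk (P.cons (P.lf 0 1730075681 0) (P.cons (P.lf 27470073 0 0) (P.cons (P.lf 2743211 0 0) (P.cons (P.lf 9043 0 0) (P.cons (P.lf 0 1033 0) (P.cons (P.lf 0 11 0) P.nil)))))) 102)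
 (EL.cons 5 (TM.mk (P.cons (P.lf 5070906886 0 0) (P.cons (P.lf 0 56741974 0) (P.cons (P.lf 189792 0 0) (P.cons (P.lf 35126 0 0) (P.cons (P.lf 296 0 0) (P.cons (P.lf 0 8 0) P.nil)))))) 93)
 (EL.cons 9 (TM.mk (P.lf 6442450944 0 0) 2)
 EL.nil))))
noncomputable def S176_183_216_364_1 : EL := (EL.cons 0 (TM.mk (P.cons (P.cons (P.lf 0 1188852457 0) (P.cons (P.lf 13199884 0 0) (P.cons (P.lf 5691933 0 0) (P.lf 0 632428 0)))) (P.cons (P.cons (P.lf 531227693 0 0) (P.cons (P.lf 0 29977670 0) (P.cons (P.lf 0 12926707 0) (P.lf 1436301 0 0)))) (P.cons (P.cons (P.lf 11392999 0 0) (P.cons (P.lf 0 1802383 0) (P.cons (P.lf 0 777203 0) (P.lf 86348 0 0)))) (P.cons (P.cons (P.lf 0 992169 0) (P.cons (P.lf 11467 0 0) (P.cons (P.lf 4946 0 0) P.nil))) (P.cons (P.cons (P.lf 0 29647 0) (P.cons (P.lf 2817 0 0) P.nil)) (P.cons (P.cons (P.lf 659 0 0) P.nil) P.nil)))))) 9219)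
 (EL.cons 1 (TM.mk (P.cons (P.cons (P.lf 0 1276324666 0) (P.cons (P.lf 137836065 0 0) (P.cons (P.lf 59436460 0 0) (P.lf 0 6604046 0)))) (P.cons (P.cons (P.lf 0 131199593 0) (P.cons (P.lf 14475018 0 0) (P.cons (P.lf 6241788 0 0) (P.lf 0 693522 0)))) (P.cons (P.cons (P.lf 11815012 0 0) (P.cons (P.lf 0 282649 0) (P.cons (P.lf 0 121884 0) (P.lf 13536 0 0)))) (P.cons (P.cons (P.lf 442892 0 0) (P.cons (P.lf 0 44689 0) (P.cons (P.lf 0 19267 0) P.nil))) (P.cons (P.cons (P.lf 0 14424 0) (P.cons (P.lf 0 422 0) P.nil)) (P.cons (P.cons (P.lf 0 619 0) P.nil) P.nil)))))) 5242)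
 (EL.cons 5 (TM.mk (P.cons (P.cons (P.lf 3207415464 0 0) (P.cons (P.lf 0 356948610 0) (P.cons (P.lf 0 153920268 0) (P.lf 17102250 0 0)))) (P.cons (P.cons (P.lf 58983690 0 0) (P.cons (P.lf 0 11200936 0) (P.cons (P.lf 0 4829976 0) (P.lf 536666 0 0)))) (P.cons (P.cons (P.lf 0 9851251 0) (P.cons (P.lf 487878 0 0) (P.cons (P.lf 210376 0 0) (P.lf 0 23368 0)))) (P.cons (P.cons (P.lf 99915 0 0) (P.cons (P.lf 12526 0 0) (P.cons (P.lf 5400 0 0) P.nil))) (P.cons (P.cons (P.lf 12094 0 0) (P.cons (P.lf 0 652 0) P.nil)) (P.cons (P.cons (P.lf 0 80 0) P.nil) P.nil)))))) 5376)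
 (EL.cons 9 (TM.mk (P.cons (P.cons (P.lf 2457099138 0 0) (P.cons (P.lf 0 310813512 0) (P.cons (P.lf 0 134026290 0) (P.lf 14891808 0 0)))) (P.cons (P.cons (P.lf 218704086 0 0) (P.cons (P.lf 0 19287936 0) (P.cons (P.lf 0 8317176 0) (P.lf 924126 0 0)))) (P.cons (P.cons (P.lf 0 5118001 0) (P.cons (P.lf 0 134970 0) (P.cons (P.lf 0 58200 0) (P.lf 6468 0 0)))) (P.cons (P.cons (P.lf 0 223095 0) (P.cons (P.lf 14646 0 0) (P.cons (P.lf 6312 0 0) P.nil))) (P.cons (P.cons (P.lf 1372 0 0) (P.cons (P.lf 306 0 0) P.nil)) (P.cons (P.cons (P.lf 121 0 0) P.nil) P.nil)))))) 1532)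
 (EL.cons 2 (TM.mk (P.cons (P.cons (P.lf 409609077 0 0) (P.cons (P.lf 381588747 0 0) (P.cons (P.lf 0 39163415 0) (P.cons (P.lf 0 8144898 0) (P.lf 678740 0 0))))) (P.cons (P.cons (P.lf 1969183 0 0) (P.cons (P.lf 1834475 0 0) (P.cons (P.lf 0 188274 0) (P.cons (P.lf 0 39155 0) (P.lf 3262 0 0))))) (P.cons (P.cons (P.lf 0 899983 0) (P.cons (P.lf 0 838417 0) (P.cons (P.lf 86045 0 0) (P.cons (P.lf 17893 0 0) P.nil)))) (P.cons (P.cons (P.lf 0 16579 0) (P.cons (P.lf 0 15443 0) (P.cons (P.lf 1583 0 0) P.nil))) (P.cons (P.cons (P.lf 427 0 0) (P.cons (P.lf 399 0 0) P.nil)) (P.cons (P.cons (P.lf 11 0 0) P.nil) P.nil)))))) 2276)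
 (EL.cons 6 (TM.mk (P.cons (P.cons (P.lf 324723885 0 0) (P.cons (P.lf 302510337 0 0) (P.cons (P.lf 0 31047399 0) (P.cons (P.lf 0 6456993 0) (P.lf 538080 0 0))))) (P.cons (P.cons (P.lf 20151162 0 0) (P.cons (P.lf 18772674 0 0) (P.cons (P.lf 0 1926684 0) (P.cons (P.lf 0 400695 0) (P.lf 33390 0 0))))) (P.cons (P.cons (P.lf 141015 0 0) (P.cons (P.lf 131367 0 0) (P.cons (P.lf 0 13482 0) (P.cons (P.lf 0 2802 0) P.nil)))) (P.cons (P.cons (P.lf 0 15303 0) (P.cons (P.lf 0 14256 0) (P.cons (P.lf 1461 0 0) P.nil))) (P.cons (P.cons (P.lf 0 321 0) (P.cons (P.lf 0 300 0) P.nil)) (P.cons (P.cons (P.lf 0 0 0) P.nil) P.nil)))))) 1230)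
 EL.nil))))))
noncomputable def S176_183_216_364_2 : EL := (EL.cons 0 (TM.mk (P.cons (P.cons (P.lf 0 1819363451 0) (P.cons (P.lf 355642058 0 0) (P.cons (P.lf 137481641 0 0) (P.cons (P.lf 0 30730784 0) (P.cons (P.lf 0 1430647 0) (P.cons (P.lf 655966 0 0) P.nil)))))) (P.cons (P.cons (P.lf 138835604 0 0) (P.cons (P.lf 0 25361393 0) (P.cons (P.lf 0 10306328 0) (P.cons (P.lf 1758290 0 0) (P.cons (P.lf 56760 0 0) P.nil))))) (P.cons (P.cons (P.lf 39163947 0 0) (P.cons (P.lf 0 5899374 0) (P.cons (P.lf 0 2304786 0) (P.cons (P.lf 488835 0 0) P.nil)))) (P.cons (P.cons (P.lf 0 299934 0) (P.cons (P.lf 0 103661 0) (P.cons (P.lf 0 34467 0) P.nil))) (P.cons (P.cons (P.lf 0 119804 0) (P.cons (P.lf 13920 0 0) P.nil)) (P.cons (P.cons (P.lf 0 785 0) P.nil) P.nil)))))) 494027)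
 (EL.cons 1 (TM.mk (P.cons (P.cons (P.lf 0 721903448 0) (P.cons (P.lf 164623551 0 0) (P.cons (P.lf 61714661 0 0) (P.cons (P.lf 0 15884625 0) (P.cons (P.lf 0 835655 0) (P.cons (P.lf 383156 0 0) P.nil)))))) (P.cons (P.cons (P.lf 0 145928971 0) (P.cons (P.lf 32094322 0 0) (P.cons (P.lf 12053253 0 0) (P.cons (P.lf 0 3078137 0) (P.cons (P.lf 0 160956 0) P.nil))))) (P.cons (P.cons (P.lf 1967473 0 0) (P.cons (P.lf 254188 0 0) (P.cons (P.lf 49115 0 0) (P.cons (P.lf 0 64349 0) P.nil)))) (P.cons (P.cons (P.lf 1210478 0 0) (P.cons (P.lf 0 165553 0) (P.cons (P.lf 0 66629 0) P.nil))) (P.cons (P.cons (P.lf 6765 0 0) (P.cons (P.lf 0 5431 0) P.nil)) (P.cons (P.cons (P.lf 0 2644 0) P.nil) P.nil)))))) 232242)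
 (EL.cons 5 (TM.mk (P.cons (P.cons (P.lf 1708951755 0 0) (P.cons (P.lf 0 395145216 0) (P.cons (P.lf 0 147752129 0) (P.cons (P.lf 38456668 0 0) (P.cons (P.lf 2040182 0 0) (P.cons (P.lf 0 935442 0) P.nil)))))) (P.cons (P.cons (P.lf 139703406 0 0) (P.cons (P.lf 0 31573071 0) (P.cons (P.lf 0 11729365 0) (P.cons (P.lf 3138656 0 0) (P.cons (P.lf 169886 0 0) P.nil))))) (P.cons (P.cons (P.lf 0 9935061 0) (P.cons (P.lf 1056385 0 0) (P.cons (P.lf 450721 0 0) (P.cons (P.lf 0 54748 0) P.nil)))) (P.cons (P.cons (P.lf 0 480049 0) (P.cons (P.lf 98260 0 0) (P.cons (P.lf 38047 0 0) P.nil))) (P.cons (P.cons (P.lf 31220 0 0) (P.cons (P.lf 0 1939 0) P.nil)) (P.cons (P.cons (P.lf 896 0 0) P.nil) P.nil)))))) 304850)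
 (EL.cons 9 (TM.mk (P.cons (P.cons (P.lf 937117911 0 0) (P.cons (P.lf 0 237083562 0) (P.cons (P.lf 0 87238029 0) (P.cons (P.lf 24291322 0 0) (P.cons (P.lf 1351332 0 0) (P.cons (P.lf 0 619606 0) P.nil)))))) (P.cons (P.cons (P.lf 166823968 0 0) (P.cons (P.lf 0 35815113 0) (P.cons (P.lf 0 13582803 0) (P.cons (P.lf 3321018 0 0) (P.cons (P.lf 167716 0 0) P.nil))))) (P.cons (P.cons (P.lf 3520492 0 0) (P.cons (P.lf 0 918669 0) (P.cons (P.lf 0 325371 0) (P.cons (P.lf 105048 0 0) P.nil)))) (P.cons (P.cons (P.lf 0 517657 0) (P.cons (P.lf 54178 0 0) (P.cons (P.lf 22755 0 0) P.nil))) (P.cons (P.cons (P.lf 0 10033 0) (P.cons (P.lf 2644 0 0) P.nil)) (P.cons (P.cons (P.lf 540 0 0) P.nil) P.nil)))))) 147236)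
 (EL.cons 2 (TM.mk (P.cons (P.cons (P.lf 312443235 0 0) (P.cons (P.lf 251546917 0 0) (P.cons (P.lf 0 83735122 0) (P.cons (P.lf 0 16417170 0) (P.cons (P.lf 4697201 0 0) (P.cons (P.lf 92340 0 0) P.nil)))))) (P.cons (P.cons (P.lf 29312336 0 0) (P.cons (P.lf 24664505 0 0) (P.cons (P.lf 0 6404006 0) (P.cons (P.lf 0 1265163 0) (P.cons (P.lf 328021 0 0) P.nil))))) (P.cons (P.cons (P.lf 0 1203592 0) (P.cons (P.lf 0 1063372 0) (P.cons (P.lf 193961 0 0) (P.cons (P.lf 38874 0 0) P.nil)))) (P.cons (P.cons (P.lf 0 105243 0) (P.cons (P.lf 0 89274 0) (P.cons (P.lf 22010 0 0) P.nil))) (P.cons (P.cons (P.lf 663 0 0) (P.cons (P.lf 765 0 0) P.nil)) (P.cons (P.cons (P.lf 140 0 0) P.nil) P.nil)))))) 144050)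
 (EL.cons 6 (TM.mk (P.cons (P.cons (P.lf 247694166 0 0) (P.cons (P.lf 199417680 0 0) (P.cons (P.lf 0 66382302 0) (P.cons (P.lf 0 13014960 0) (P.cons (P.lf 3723774 0 0) (P.cons (P.lf 73200 0 0) P.nil)))))) (P.cons (P.cons (P.lf 37418004 0 0) (P.cons (P.lf 30969594 0 0) (P.cons (P.lf 0 8877186 0) (P.cons (P.lf 0 1748064 0) (P.cons (P.lf 473226 0 0) P.nil))))) (P.cons (P.cons (P.lf 959784 0 0) (P.cons (P.lf 746256 0 0) (P.cons (P.lf 0 293286 0) (P.cons (P.lf 0 57258 0) P.nil)))) (P.cons (P.cons (P.lf 0 56604 0) (P.cons (P.lf 0 51468 0) (P.cons (P.lf 7128 0 0) P.nil))) (P.cons (P.cons (P.lf 0 2766 0) (P.cons (P.lf 0 2334 0) P.nil)) (P.cons (P.cons (P.lf 12 0 0) P.nil) P.nil)))))) 142098)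
 EL.nil))))))
noncomputable def S176_183_216_364_3 : EL := (EL.cons 0 (TM.mk (P.cons (P.lf 2182330082 0 0) (P.cons (P.lf 0 159586808 0) (P.cons (P.lf 533801 0 0) (P.cons (P.lf 98790 0 0) (P.cons (P.lf 829 0 0) (P.cons (P.lf 0 28 0) P.nil)))))) 112)
 (EL.cons 1 (TM.mk (P.cons (P.lf 1730075681 0 0) (P.cons (P.lf 0 27470073 0) (P.cons (P.lf 0 2743211 0) (P.cons (P.lf 0 9043 0) (P.cons (P.lf 1033 0 0) (P.cons (P.lf 11 0 0) P.nil)))))) 102)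
 (EL.cons 5 (TM.mk (P.cons (P.lf 1371544058 0 0) (P.cons (P.lf 56741974 0 0) (P.cons (P.lf 0 189792 0) (P.cons (P.lf 0 35126 0) (P.cons (P.lf 0 296 0) (P.cons (P.lf 8 0 0) P.nil)))))) 86)
 EL.nil)))
noncomputable def S176_183_216_364_4 : EL := (EL.cons 0 (TM.mk (P.cons (P.cons (P.lf 832323195 0 0) (P.cons (P.lf 0 105285656 0) (P.cons (P.lf 0 45400361 0) (P.lf 5044482 0 0)))) (P.cons (P.cons (P.lf 13219175 0 0) (P.cons (P.lf 1165563 0 0) (P.cons (P.lf 502604 0 0) (P.lf 0 55845 0)))) (P.cons (P.cons (P.lf 0 6947643 0) (P.cons (P.lf 406309 0 0) (P.cons (P.lf 175204 0 0) (P.lf 0 19466 0)))) (P.cons (P.cons (P.lf 107005 0 0) (P.cons (P.lf 1938 0 0) (P.cons (P.lf 834 0 0) P.nil))) (P.cons (P.cons (P.lf 9235 0 0) (P.cons (P.lf 0 604 0) P.nil)) (P.cons (P.cons (P.lf 0 72 0) P.nil) P.nil)))))) 1467)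
 (EL.cons 1 (TM.mk (P.cons (P.cons (P.lf 659836993 0 0) (P.cons (P.lf 0 83466819 0) (P.cons (P.lf 0 35991832 0) (P.lf 3999091 0 0)))) (P.cons (P.cons (P.lf 48254602 0 0) (P.cons (P.lf 0 3854358 0) (P.cons (P.lf 0 1662041 0) (P.lf 184668 0 0)))) (P.cons (P.cons (P.lf 0 3353178 0) (P.cons (P.lf 178340 0 0) (P.cons (P.lf 76903 0 0) (P.lf 0 8542 0)))) (P.cons (P.cons (P.lf 0 134660 0) (P.cons (P.lf 13156 0 0) (P.cons (P.lf 5671 0 0) P.nil))) (P.cons (P.cons (P.lf 3585 0 0) (P.cons (P.lf 54 0 0) P.nil)) (P.cons (P.cons (P.lf 166 0 0) P.nil) P.nil)))))) 1213)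
 (EL.cons 5 (TM.mk (P.cons (P.cons (P.lf 523095906 0 0) (P.cons (P.lf 0 66169602 0) (P.cons (P.lf 0 28533078 0) (P.lf 3170340 0 0)))) (P.cons (P.cons (P.lf 68201208 0 0) (P.cons (P.lf 0 6843734 0) (P.cons (P.lf 0 2951094 0) (P.lf 327898 0 0)))) (P.cons (P.cons (P.lf 764274 0 0) (P.cons (P.lf 0 189456 0) (P.cons (P.lf 0 81694 0) (P.lf 9076 0 0)))) (P.cons (P.cons (P.lf 0 112410 0) (P.cons (P.lf 4190 0 0) (P.cons (P.lf 1806 0 0) P.nil))) (P.cons (P.cons (P.lf 0 2826 0) (P.cons (P.lf 316 0 0) P.nil)) (P.cons (P.cons (P.lf 64 0 0) P.nil) P.nil)))))) 850)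
 EL.nil)))
noncomputable def S176_183_216_364_5 : EL := (EL.cons 0 (TM.mk (P.cons (P.cons (P.lf 317441392 0 0) (P.cons (P.lf 0 80310209 0) (P.cons (P.lf 0 29551201 0) (P.cons (P.lf 8228496 0 0) (P.cons (P.lf 457751 0 0) (P.cons (P.lf 0 209886 0) P.nil)))))) (P.cons (P.cons (P.lf 33296846 0 0) (P.cons (P.lf 0 6259260 0) (P.cons (P.lf 0 2440082 0) (P.cons (P.lf 523244 0 0) (P.cons (P.lf 23338 0 0) P.nil))))) (P.cons (P.cons (P.lf 0 2862232 0) (P.cons (P.lf 556344 0 0) (P.cons (P.lf 219014 0 0) (P.cons (P.lf 0 44667 0) P.nil)))) (P.cons (P.cons (P.lf 0 234365 0) (P.cons (P.lf 34505 0 0) (P.cons (P.lf 13303 0 0) P.nil))) (P.cons (P.cons (P.lf 12394 0 0) (P.cons (P.lf 0 1100 0) P.nil)) (P.cons (P.cons (P.lf 458 0 0) P.nil) P.nil)))))) 77574)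
 (EL.cons 1 (TM.mk (P.cons (P.cons (P.lf 251656537 0 0) (P.cons (P.lf 0 63667151 0) (P.cons (P.lf 0 23427168 0) (P.cons (P.lf 6523265 0 0) (P.cons (P.lf 362889 0 0) (P.cons (P.lf 0 166389 0) P.nil)))))) (P.cons (P.cons (P.lf 40803630 0 0) (P.cons (P.lf 0 8606994 0) (P.cons (P.lf 0 3275591 0) (P.cons (P.lf 788259 0 0) (P.cons (P.lf 39275 0 0) P.nil))))) (P.cons (P.cons (P.lf 0 164945 0) (P.cons (P.lf 6960 0 0) (P.cons (P.lf 7685 0 0) (P.cons (P.lf 3705 0 0) P.nil)))) (P.cons (P.cons (P.lf 0 226372 0) (P.cons (P.lf 34048 0 0) (P.cons (P.lf 13402 0 0) P.nil))) (P.cons (P.cons (P.lf 0 2070 0) (P.cons (P.lf 881 0 0) P.nil)) (P.cons (P.cons (P.lf 431 0 0) P.nil) P.nil)))))) 57059)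
 (EL.cons 5 (TM.mk (P.cons (P.cons (P.lf 199504584 0 0) (P.cons (P.lf 0 50473110 0) (P.cons (P.lf 0 18572248 0) (P.cons (P.lf 5171418 0 0) (P.cons (P.lf 287686 0 0) (P.cons (P.lf 0 131908 0) P.nil)))))) (P.cons (P.cons (P.lf 43769110 0 0) (P.cons (P.lf 0 9712854 0) (P.cons (P.lf 0 3660014 0) (P.cons (P.lf 920962 0 0) (P.cons (P.lf 47606 0 0) P.nil))))) (P.cons (P.cons (P.lf 2191178 0 0) (P.cons (P.lf 0 504034 0) (P.cons (P.lf 0 186328 0) (P.cons (P.lf 50896 0 0) P.nil)))) (P.cons (P.cons (P.lf 0 89220 0) (P.cons (P.lf 5790 0 0) (P.cons (P.lf 2852 0 0) P.nil))) (P.cons (P.cons (P.lf 0 7750 0) (P.cons (P.lf 1272 0 0) P.nil)) (P.cons (P.cons (P.lf 16 0 0) P.nil) P.nil)))))) 42234)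
 EL.nil)))
noncomputable def S176_183_216_364_6 : EL := (EL.cons 12 (TM.mk (P.lf 8589934592 0 0) 0)
 (EL.cons 3 (TM.mk (P.cons (P.lf 0 2164836753 0) (P.cons (P.lf 79153788 0 0) (P.cons (P.lf 1182303 0 0) (P.cons (P.lf 0 5771 0) (P.cons (P.lf 0 300 0) (P.cons (P.lf 0 0 0) P.nil)))))) 52)
 (EL.cons 7 (TM.mk (P.cons (P.lf 0 1716207575 0) (P.cons (P.lf 0 35500503 0) (P.cons (P.lf 485915 0 0) (P.cons (P.lf 11926 0 0) (P.cons (P.lf 8 0 0) (P.cons (P.lf 0 2 0) P.nil)))))) 45)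
 EL.nil)))
noncomputable def S176_183_216_364_7 : EL := (EL.cons 12 (TM.mk (P.cons (P.cons (P.lf 3276132184 0 0) (P.cons (P.lf 0 414418016 0) (P.cons (P.lf 0 178701720 0) (P.lf 19855744 0 0)))) (P.cons (P.cons (P.lf 291605448 0 0) (P.cons (P.lf 0 25717248 0) (P.cons (P.lf 0 11089568 0) (P.lf 1232168 0 0)))) (P.cons (P.cons (P.lf 0 6824002 0) (P.cons (P.lf 0 179960 0) (P.cons (P.lf 0 77600 0) (P.lf 8624 0 0)))) (P.cons (P.cons (P.lf 0 297460 0) (P.cons (P.lf 19528 0 0) (P.cons (P.lf 8416 0 0) P.nil))) (P.cons (P.cons (P.lf 1830 0 0) (P.cons (P.lf 408 0 0) P.nil)) (P.cons (P.cons (P.lf 162 0 0) P.nil) P.nil)))))) 2018)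
 (EL.cons 3 (TM.mk (P.cons (P.cons (P.lf 2727111796 0 0) (P.cons (P.lf 0 208883394 0) (P.cons (P.lf 0 90072872 0) (P.lf 10008094 0 0)))) (P.cons (P.cons (P.lf 0 168735223 0) (P.cons (P.lf 0 5325042 0) (P.cons (P.lf 0 2296218 0) (P.lf 255130 0 0)))) (P.cons (P.cons (P.lf 0 8861458 0) (P.cons (P.lf 497324 0 0) (P.cons (P.lf 214452 0 0) (P.lf 0 23824 0)))) (P.cons (P.cons (P.lf 58026 0 0) (P.cons (P.lf 19680 0 0) (P.cons (P.lf 8484 0 0) P.nil))) (P.cons (P.cons (P.lf 10231 0 0) (P.cons (P.lf 0 166 0) P.nil)) (P.cons (P.cons (P.lf 98 0 0) P.nil) P.nil)))))) 4097)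
 (EL.cons 7 (TM.mk (P.cons (P.cons (P.lf 0 2247963423 0) (P.cons (P.lf 223324185 0 0) (P.cons (P.lf 96299910 0 0) (P.lf 0 10699992 0)))) (P.cons (P.cons (P.lf 75677800 0 0) (P.cons (P.lf 2388285 0 0) (P.cons (P.lf 1029856 0 0) (P.lf 0 114431 0)))) (P.cons (P.cons (P.lf 1808136 0 0) (P.cons (P.lf 0 291409 0) (P.cons (P.lf 0 125657 0) (P.lf 13961 0 0)))) (P.cons (P.cons (P.lf 0 154466 0) (P.cons (P.lf 414 0 0) (P.cons (P.lf 179 0 0) P.nil))) (P.cons (P.cons (P.lf 0 2127 0) (P.cons (P.lf 335 0 0) P.nil)) (P.cons (P.cons (P.lf 111 0 0) P.nil) P.nil)))))) 3501)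
 (EL.cons 10 (TM.mk (P.cons (P.cons (P.lf 0 812651388 0) (P.cons (P.lf 0 757059945 0) (P.cons (P.lf 77698977 0 0) (P.cons (P.lf 16159224 0 0) (P.lf 0 1346601 0))))) (P.cons (P.cons (P.lf 0 33620094 0) (P.cons (P.lf 0 31320228 0) (P.cons (P.lf 3214473 0 0) (P.cons (P.lf 668520 0 0) (P.lf 0 55710 0))))) (P.cons (P.cons (P.lf 112452 0 0) (P.cons (P.lf 104760 0 0) (P.cons (P.lf 0 10749 0) (P.cons (P.lf 0 2235 0) P.nil)))) (P.cons (P.cons (P.lf 20811 0 0) (P.cons (P.lf 19386 0 0) (P.cons (P.lf 0 1989 0) P.nil))) (P.cons (P.cons (P.lf 174 0 0) (P.cons (P.lf 162 0 0) P.nil)) (P.cons (P.cons (P.lf 0 3 0) P.nil) P.nil)))))) 870)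
 EL.nil))))
noncomputable def S176_183_216_364_8 : EL := (EL.cons 12 (TM.mk (P.cons (P.cons (P.lf 1249490548 0 0) (P.cons (P.lf 0 316111416 0) (P.cons (P.lf 0 116317372 0) (P.cons (P.lf 32388430 0 0) (P.cons (P.lf 1801776 0 0) (P.cons (P.lf 0 826142 0) P.nil)))))) (P.cons (P.cons (P.lf 222431958 0 0) (P.cons (P.lf 0 47753484 0) (P.cons (P.lf 0 18110404 0) (P.cons (P.lf 4428024 0 0) (P.cons (P.lf 223622 0 0) P.nil))))) (P.cons (P.cons (P.lf 4693990 0 0) (P.cons (P.lf 0 1224892 0) (P.cons (P.lf 0 433828 0) (P.cons (P.lf 140064 0 0) P.nil)))) (P.cons (P.cons (P.lf 0 690210 0) (P.cons (P.lf 72238 0 0) (P.cons (P.lf 30340 0 0) P.nil))) (P.cons (P.cons (P.lf 0 13378 0) (P.cons (P.lf 3526 0 0) P.nil)) (P.cons (P.cons (P.lf 720 0 0) P.nil) P.nil)))))) 196286)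
 (EL.cons 3 (TM.mk (P.cons (P.cons (P.lf 2395093964 0 0) (P.cons (P.lf 0 502136227 0) (P.cons (P.lf 0 191333056 0) (P.cons (P.lf 45786176 0 0) (P.cons (P.lf 2270421 0 0) (P.cons (P.lf 0 1041021 0) P.nil)))))) (P.cons (P.cons (P.lf 100991514 0 0) (P.cons (P.lf 0 27414064 0) (P.cons (P.lf 0 9615557 0) (P.cons (P.lf 3215700 0 0) (P.cons (P.lf 198771 0 0) P.nil))))) (P.cons (P.cons (P.lf 0 23587180 0) (P.cons (P.lf 2275651 0 0) (P.cons (P.lf 972098 0 0) (P.cons (P.lf 0 116945 0) P.nil)))) (P.cons (P.cons (P.lf 0 725139 0) (P.cons (P.lf 174485 0 0) (P.cons (P.lf 68227 0 0) P.nil))) (P.cons (P.cons (P.lf 41205 0 0) (P.cons (P.lf 0 419 0) P.nil)) (P.cons (P.cons (P.lf 1732 0 0) P.nil) P.nil)))))) 319923)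
 (EL.cons 7 (TM.mk (P.cons (P.cons (P.lf 0 1465071166 0) (P.cons (P.lf 324095524 0 0) (P.cons (P.lf 122199816 0 0) (P.cons (P.lf 0 30666996 0) (P.cons (P.lf 0 1581917 0) (P.cons (P.lf 725331 0 0) P.nil)))))) (P.cons (P.cons (P.lf 0 45294744 0) (P.cons (P.lf 12295217 0 0) (P.cons (P.lf 4312580 0 0) (P.cons (P.lf 0 1442244 0) (P.cons (P.lf 0 89144 0) P.nil))))) (P.cons (P.cons (P.lf 11875397 0 0) (P.cons (P.lf 0 1372568 0) (P.cons (P.lf 0 559430 0) (P.cons (P.lf 93735 0 0) P.nil)))) (P.cons (P.cons (P.lf 0 92424 0) (P.cons (P.lf 0 35532 0) (P.cons (P.lf 0 12636 0) P.nil))) (P.cons (P.cons (P.lf 0 27278 0) (P.cons (P.lf 2996 0 0) P.nil)) (P.cons (P.cons (P.lf 125 0 0) P.nil) P.nil)))))) 170519)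
 (EL.cons 10 (TM.mk (P.cons (P.cons (P.lf 0 619877442 0) (P.cons (P.lf 0 499061088 0) (P.cons (P.lf 166127826 0 0) (P.cons (P.lf 32571144 0 0) (P.cons (P.lf 0 9319098 0) (P.cons (P.lf 0 183198 0) P.nil)))))) (P.cons (P.cons (P.lf 0 80819574 0) (P.cons (P.lf 0 67180968 0) (P.cons (P.lf 18779550 0 0) (P.cons (P.lf 3700956 0 0) (P.cons (P.lf 0 991530 0) P.nil))))) (P.cons (P.cons (P.lf 0 905676 0) (P.cons (P.lf 0 619212 0) (P.cons (P.lf 392556 0 0) (P.cons (P.lf 75972 0 0) P.nil)))) (P.cons (P.cons (P.lf 133206 0 0) (P.cons (P.lf 119124 0 0) (P.cons (P.lf 0 19500 0) P.nil))) (P.cons (P.cons (P.lf 3348 0 0) (P.cons (P.lf 2742 0 0) P.nil)) (P.cons (P.cons (P.lf 0 72 0) P.nil) P.nil)))))) 317598)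
 EL.nil))))
noncomputable def S176_183_216_364_9 : EL := (EL.cons 3 (TM.mk (P.cons (P.lf 0 2164836753 0) (P.cons (P.lf 79153788 0 0) (P.cons (P.lf 1182303 0 0) (P.cons (P.lf 0 5771 0) (P.cons (P.lf 0 300 0) (P.cons (P.lf 0 0 0) P.nil)))))) 52)
 (EL.cons 7 (TM.mk (P.cons (P.lf 0 1716207575 0) (P.cons (P.lf 0 35500503 0) (P.cons (P.lf 485915 0 0) (P.cons (P.lf 11926 0 0) (P.cons (P.lf 8 0 0) (P.cons (P.lf 0 2 0) P.nil)))))) 45)
 EL.nil))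
noncomputable def S176_183_216_364_10 : EL := (EL.cons 3 (TM.mk (P.cons (P.cons (P.lf 0 825651380 0) (P.cons (P.lf 104441697 0 0) (P.cons (P.lf 45036436 0 0) (P.lf 0 5004047 0)))) (P.cons (P.cons (P.lf 0 43301833 0) (P.cons (P.lf 2662521 0 0) (P.cons (P.lf 1148109 0 0) (P.lf 0 127565 0)))) (P.cons (P.cons (P.lf 4857767 0 0) (P.cons (P.lf 0 248662 0) (P.cons (P.lf 0 107226 0) (P.lf 11912 0 0)))) (P.cons (P.cons (P.lf 50019 0 0) (P.cons (P.lf 0 9840 0) (P.cons (P.lf 0 4242 0) P.nil))) (P.cons (P.cons (P.lf 0 4451 0) (P.cons (P.lf 83 0 0) P.nil)) (P.cons (P.cons (P.lf 0 70 0) P.nil) P.nil)))))) 964)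
 (EL.cons 7 (TM.mk (P.cons (P.cons (P.lf 0 654547809 0) (P.cons (P.lf 82797759 0 0) (P.cons (P.lf 35703327 0 0) (P.lf 0 3967035 0)))) (P.cons (P.cons (P.lf 0 71800292 0) (P.cons (P.lf 6850830 0 0) (P.cons (P.lf 2954155 0 0) (P.lf 0 328238 0)))) (P.cons (P.cons (P.lf 343563 0 0) (P.cons (P.lf 118796 0 0) (P.cons (P.lf 51226 0 0) (P.lf 0 5692 0)))) (P.cons (P.cons (P.lf 108676 0 0) (P.cons (P.lf 0 5187 0) (P.cons (P.lf 0 2236 0) P.nil))) (P.cons (P.cons (P.lf 885 0 0) (P.cons (P.lf 0 208 0) P.nil)) (P.cons (P.cons (P.lf 0 66 0) P.nil) P.nil)))))) 647)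
 EL.nil))
noncomputable def S176_183_216_364_11 : EL := (EL.cons 3 (TM.mk (P.cons (P.cons (P.lf 0 314896816 0) (P.cons (P.lf 79666451 0 0) (P.cons (P.lf 29314322 0 0) (P.cons (P.lf 0 8162536 0) (P.cons (P.lf 0 454083 0) (P.cons (P.lf 208203 0 0) P.nil)))))) (P.cons (P.cons (P.lf 0 44543640 0) (P.cons (P.lf 9121964 0 0) (P.cons (P.lf 3492355 0 0) (P.cons (P.lf 0 817500 0) (P.cons (P.lf 0 39753 0) P.nil))))) (P.cons (P.cons (P.lf 1038644 0 0) (P.cons (P.lf 0 174845 0) (P.cons (P.lf 0 73558 0) (P.cons (P.lf 9961 0 0) P.nil)))) (P.cons (P.cons (P.lf 246975 0 0) (P.cons (P.lf 0 35851 0) (P.cons (P.lf 0 14057 0) P.nil))) (P.cons (P.cons (P.lf 0 2535 0) (P.cons (P.lf 0 347 0) P.nil)) (P.cons (P.cons (P.lf 0 410 0) P.nil) P.nil)))))) 63785)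
 (EL.cons 7 (TM.mk (P.cons (P.cons (P.lf 0 249639286 0) (P.cons (P.lf 63156802 0 0) (P.cons (P.lf 23239380 0 0) (P.cons (P.lf 0 6470976 0) (P.cons (P.lf 0 359981 0) (P.cons (P.lf 165057 0 0) P.nil)))))) (P.cons (P.cons (P.lf 0 49604214 0) (P.cons (P.lf 10847231 0 0) (P.cons (P.lf 4099046 0 0) (P.cons (P.lf 0 1018542 0) (P.cons (P.lf 0 52124 0) P.nil))))) (P.cons (P.cons (P.lf 0 1786411 0) (P.cons (P.lf 424198 0 0) (P.cons (P.lf 154942 0 0) (P.cons (P.lf 0 44451 0) P.nil)))) (P.cons (P.cons (P.lf 132816 0 0) (P.cons (P.lf 0 12510 0) (P.cons (P.lf 0 5454 0) P.nil))) (P.cons (P.cons (P.lf 6100 0 0) (P.cons (P.lf 0 1138 0) P.nil)) (P.cons (P.cons (P.lf 0 121 0) P.nil) P.nil)))))) 45667)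
 EL.nil))
noncomputable def S176_183_216_364_12 : EL := (EL.cons 4 (TM.mk (P.cons (P.lf 2164836753 0 0) (P.cons (P.lf 0 79153788 0) (P.cons (P.lf 0 1182303 0) (P.cons (P.lf 5771 0 0) (P.cons (P.lf 300 0 0) (P.cons (P.lf 0 0 0) P.nil)))))) 52)
 (EL.cons 8 (TM.mk (P.cons (P.lf 1716207575 0 0) (P.cons (P.lf 35500503 0 0) (P.cons (P.lf 0 485915 0) (P.cons (P.lf 0 11926 0) (P.cons (P.lf 0 8 0) (P.cons (P.lf 2 0 0) P.nil)))))) 45)
 EL.nil))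
noncomputable def S176_183_216_364_13 : EL := (EL.cons 4 (TM.mk (P.cons (P.cons (P.lf 825651380 0 0) (P.cons (P.lf 0 104441697 0) (P.cons (P.lf 0 45036436 0) (P.lf 5004047 0 0)))) (P.cons (P.cons (P.lf 43301833 0 0) (P.cons (P.lf 0 2662521 0) (P.cons (P.lf 0 1148109 0) (P.lf 127565 0 0)))) (P.cons (P.cons (P.lf 0 4857767 0) (P.cons (P.lf 248662 0 0) (P.cons (P.lf 107226 0 0) (P.lf 0 11912 0)))) (P.cons (P.cons (P.lf 0 50019 0) (P.cons (P.lf 9840 0 0) (P.cons (P.lf 4242 0 0) P.nil))) (P.cons (P.cons (P.lf 4451 0 0) (P.cons (P.lf 0 83 0) P.nil)) (P.cons (P.cons (P.lf 70 0 0) P.nil) P.nil)))))) 964)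
 (EL.cons 8 (TM.mk (P.cons (P.cons (P.lf 654547809 0 0) (P.cons (P.lf 0 82797759 0) (P.cons (P.lf 0 35703327 0) (P.lf 3967035 0 0)))) (P.cons (P.cons (P.lf 71800292 0 0) (P.cons (P.lf 0 6850830 0) (P.cons (P.lf 0 2954155 0) (P.lf 328238 0 0)))) (P.cons (P.cons (P.lf 0 343563 0) (P.cons (P.lf 0 118796 0) (P.cons (P.lf 0 51226 0) (P.lf 5692 0 0)))) (P.cons (P.cons (P.lf 0 108676 0) (P.cons (P.lf 5187 0 0) (P.cons (P.lf 2236 0 0) P.nil))) (P.cons (P.cons (P.lf 0 885 0) (P.cons (P.lf 208 0 0) P.nil)) (P.cons (P.cons (P.lf 66 0 0) P.nil) P.nil)))))) 647)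
 EL.nil))
noncomputable def S176_183_216_364_14 : EL := (EL.cons 4 (TM.mk (P.cons (P.cons (P.lf 314896816 0 0) (P.cons (P.lf 0 79666451 0) (P.cons (P.lf 0 29314322 0) (P.cons (P.lf 8162536 0 0) (P.cons (P.lf 454083 0 0) (P.cons (P.lf 0 208203 0) P.nil)))))) (P.cons (P.cons (P.lf 44543640 0 0) (P.cons (P.lf 0 9121964 0) (P.cons (P.lf 0 3492355 0) (P.cons (P.lf 817500 0 0) (P.cons (P.lf 39753 0 0) P.nil))))) (P.cons (P.cons (P.lf 0 1038644 0) (P.cons (P.lf 174845 0 0) (P.cons (P.lf 73558 0 0) (P.cons (P.lf 0 9961 0) P.nil)))) (P.cons (P.cons (P.lf 0 246975 0) (P.cons (P.lf 35851 0 0) (P.cons (P.lf 14057 0 0) P.nil))) (P.cons (P.cons (P.lf 2535 0 0) (P.cons (P.lf 347 0 0) P.nil)) (P.cons (P.cons (P.lf 410 0 0) P.nil) P.nil)))))) 63785)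
 (EL.cons 8 (TM.mk (P.cons (P.cons (P.lf 249639286 0 0) (P.cons (P.lf 0 63156802 0) (P.cons (P.lf 0 23239380 0) (P.cons (P.lf 6470976 0 0) (P.cons (P.lf 359981 0 0) (P.cons (P.lf 0 165057 0) P.nil)))))) (P.cons (P.cons (P.lf 49604214 0 0) (P.cons (P.lf 0 10847231 0) (P.cons (P.lf 0 4099046 0) (P.cons (P.lf 1018542 0 0) (P.cons (P.lf 52124 0 0) P.nil))))) (P.cons (P.cons (P.lf 1786411 0 0) (P.cons (P.lf 0 424198 0) (P.cons (P.lf 0 154942 0) (P.cons (P.lf 44451 0 0) P.nil)))) (P.cons (P.cons (P.lf 0 132816 0) (P.cons (P.lf 12510 0 0) (P.cons (P.lf 5454 0 0) P.nil))) (P.cons (P.cons (P.lf 0 6100 0) (P.cons (P.lf 1138 0 0) P.nil)) (P.cons (P.cons (P.lf 121 0 0) P.nil) P.nil)))))) 45667)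
 EL.nil))
noncomputable def S176_183_216_364_15 : EL := (EL.cons 4 (TM.mk (P.cons (P.lf 0 1163909377 0) (P.cons (P.lf 85112964 0 0) (P.cons (P.lf 0 284694 0) (P.cons (P.lf 0 52688 0) (P.cons (P.lf 0 442 0) (P.cons (P.lf 15 0 0) P.nil)))))) 63)
 (EL.cons 8 (TM.mk (P.cons (P.lf 0 922707030 0) (P.cons (P.lf 14650706 0 0) (P.cons (P.lf 1463046 0 0) (P.cons (P.lf 4823 0 0) (P.cons (P.lf 0 551 0) (P.cons (P.lf 0 6 0) P.nil)))))) 51)
 EL.nil))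
noncomputable def S176_183_216_364_16 : EL := (EL.cons 4 (TM.mk (P.cons (P.cons (P.lf 0 443905704 0) (P.cons (P.lf 56152350 0 0) (P.cons (P.lf 24213525 0 0) (P.lf 0 2690390 0)))) (P.cons (P.cons (P.lf 0 7050226 0) (P.cons (P.lf 0 621633 0) (P.cons (P.lf 0 268055 0) (P.lf 29784 0 0)))) (P.cons (P.cons (P.lf 3705409 0 0) (P.cons (P.lf 0 216698 0) (P.cons (P.lf 0 93442 0) (P.lf 10381 0 0)))) (P.cons (P.cons (P.lf 0 57069 0) (P.cons (P.lf 0 1034 0) (P.cons (P.lf 0 445 0) P.nil))) (P.cons (P.cons (P.lf 0 4925 0) (P.cons (P.lf 322 0 0) P.nil)) (P.cons (P.cons (P.lf 38 0 0) P.nil) P.nil)))))) 791)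
 (EL.cons 8 (TM.mk (P.cons (P.cons (P.lf 0 351913063 0) (P.cons (P.lf 44515637 0 0) (P.cons (P.lf 19195644 0 0) (P.lf 0 2132849 0)))) (P.cons (P.cons (P.lf 0 25735788 0) (P.cons (P.lf 2055658 0 0) (P.cons (P.lf 886422 0 0) (P.lf 0 98490 0)))) (P.cons (P.cons (P.lf 1788362 0 0) (P.cons (P.lf 0 95115 0) (P.cons (P.lf 0 41015 0) (P.lf 4556 0 0)))) (P.cons (P.cons (P.lf 71819 0 0) (P.cons (P.lf 0 7017 0) (P.cons (P.lf 0 3025 0) P.nil))) (P.cons (P.cons (P.lf 0 1912 0) (P.cons (P.lf 0 29 0) P.nil)) (P.cons (P.cons (P.lf 0 89 0) P.nil) P.nil)))))) 637)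
 EL.nil))
noncomputable def S176_183_216_364_17 : EL := (EL.cons 4 (TM.mk (P.cons (P.cons (P.lf 0 169302075 0) (P.cons (P.lf 42832111 0 0) (P.cons (P.lf 15760640 0 0) (P.cons (P.lf 0 4388531 0) (P.cons (P.lf 0 244134 0) (P.cons (P.lf 111939 0 0) P.nil)))))) (P.cons (P.cons (P.lf 0 17758318 0) (P.cons (P.lf 3338272 0 0) (P.cons (P.lf 1301377 0 0) (P.cons (P.lf 0 279063 0) (P.cons (P.lf 0 12447 0) P.nil))))) (P.cons (P.cons (P.lf 1526523 0 0) (P.cons (P.lf 0 296716 0) (P.cons (P.lf 0 116807 0) (P.cons (P.lf 23822 0 0) P.nil)))) (P.cons (P.cons (P.lf 124995 0 0) (P.cons (P.lf 0 18403 0) (P.cons (P.lf 0 7095 0) P.nil))) (P.cons (P.cons (P.lf 0 6610 0) (P.cons (P.lf 586 0 0) P.nil)) (P.cons (P.cons (P.lf 0 244 0) P.nil) P.nil)))))) 41383)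
 (EL.cons 8 (TM.mk (P.cons (P.cons (P.lf 0 134216820 0) (P.cons (P.lf 33955814 0 0) (P.cons (P.lf 12494490 0 0) (P.cons (P.lf 0 3479075 0) (P.cons (P.lf 0 193541 0) (P.cons (P.lf 88741 0 0) P.nil)))))) (P.cons (P.cons (P.lf 0 21761936 0) (P.cons (P.lf 4590397 0 0) (P.cons (P.lf 1746982 0 0) (P.cons (P.lf 0 420405 0) (P.cons (P.lf 0 20947 0) P.nil))))) (P.cons (P.cons (P.lf 87971 0 0) (P.cons (P.lf 0 3712 0) (P.cons (P.lf 0 4099 0) (P.cons (P.lf 0 1976 0) P.nil)))) (P.cons (P.cons (P.lf 120732 0 0) (P.cons (P.lf 0 18159 0) (P.cons (P.lf 0 7148 0) P.nil))) (P.cons (P.cons (P.lf 1104 0 0) (P.cons (P.lf 0 470 0) P.nil)) (P.cons (P.cons (P.lf 0 230 0) P.nil) P.nil)))))) 30420)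
 EL.nil))
noncomputable def S176_183_216_364_18 : EL := (EL.cons 4 (TM.mk (P.cons (P.lf 625767756 0 0) (P.cons (P.lf 0 68640586 0) (P.cons (P.lf 1484461 0 0) (P.cons (P.lf 49390 0 0) (P.cons (P.lf 0 915 0) (P.cons (P.lf 0 37 0) P.nil)))))) 58)
 (EL.cons 8 (TM.mk (P.cons (P.lf 496086997 0 0) (P.cons (P.lf 0 26015476 0) (P.cons (P.lf 0 769525 0) (P.cons (P.lf 31791 0 0) (P.cons (P.lf 868 0 0) (P.cons (P.lf 0 8 0) P.nil)))))) 45)
 EL.nil))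
noncomputable def S176_183_216_364_19 : EL := (EL.cons 4 (TM.mk (P.cons (P.cons (P.lf 238662804 0 0) (P.cons (P.lf 0 30189918 0) (P.cons (P.lf 0 13018232 0) (P.lf 1446469 0 0)))) (P.cons (P.cons (P.lf 0 4935816 0) (P.cons (P.lf 1438063 0 0) (P.cons (P.lf 620108 0 0) (P.lf 0 68900 0)))) (P.cons (P.cons (P.lf 0 2261124 0) (P.cons (P.lf 120774 0 0) (P.cons (P.lf 52079 0 0) (P.lf 0 5786 0)))) (P.cons (P.cons (P.lf 102090 0 0) (P.cons (P.lf 0 3965 0) (P.cons (P.lf 0 1710 0) P.nil))) (P.cons (P.cons (P.lf 2657 0 0) (P.cons (P.lf 0 260 0) P.nil)) (P.cons (P.cons (P.lf 0 138 0) P.nil) P.nil)))))) 817)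
 (EL.cons 8 (TM.mk (P.cons (P.cons (P.lf 189203603 0 0) (P.cons (P.lf 0 23933522 0) (P.cons (P.lf 0 10320404 0) (P.lf 1146711 0 0)))) (P.cons (P.cons (P.lf 6918740 0 0) (P.cons (P.lf 0 230119 0) (P.cons (P.lf 0 99230 0) (P.lf 11025 0 0)))) (P.cons (P.cons (P.lf 0 1570747 0) (P.cons (P.lf 104619 0 0) (P.cons (P.lf 45112 0 0) (P.lf 0 5012 0)))) (P.cons (P.cons (P.lf 0 10510 0) (P.cons (P.lf 2442 0 0) (P.cons (P.lf 1053 0 0) P.nil))) (P.cons (P.cons (P.lf 3027 0 0) (P.cons (P.lf 0 156 0) P.nil)) (P.cons (P.cons (P.lf 31 0 0) P.nil) P.nil)))))) 486)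
 EL.nil))
noncomputable def S176_183_216_364_20 : EL := (EL.cons 4 (TM.mk (P.cons (P.cons (P.lf 91024080 0 0) (P.cons (P.lf 0 23028385 0) (P.cons (P.lf 0 8473598 0) (P.cons (P.lf 2359462 0 0) (P.cons (P.lf 131256 0 0) (P.cons (P.lf 0 60182 0) P.nil)))))) (P.cons (P.cons (P.lf 6219486 0 0) (P.cons (P.lf 0 952802 0) (P.cons (P.lf 0 389852 0) (P.cons (P.lf 63766 0 0) (P.cons (P.lf 1892 0 0) P.nil))))) (P.cons (P.cons (P.lf 0 1219530 0) (P.cons (P.lf 237728 0 0) (P.cons (P.lf 93011 0 0) (P.cons (P.lf 0 19582 0) P.nil)))) (P.cons (P.cons (P.lf 0 42165 0) (P.cons (P.lf 4980 0 0) (P.cons (P.lf 1877 0 0) P.nil))) (P.cons (P.cons (P.lf 6496 0 0) (P.cons (P.lf 0 772 0) P.nil)) (P.cons (P.cons (P.lf 37 0 0) P.nil) P.nil)))))) 27494)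
 (EL.cons 8 (TM.mk (P.cons (P.cons (P.lf 72160737 0 0) (P.cons (P.lf 0 18256106 0) (P.cons (P.lf 0 6717575 0) (P.cons (P.lf 1870500 0 0) (P.cons (P.lf 104056 0 0) (P.cons (P.lf 0 47711 0) P.nil)))))) (P.cons (P.cons (P.lf 9061711 0 0) (P.cons (P.lf 0 1800489 0) (P.cons (P.lf 0 693635 0) (P.cons (P.lf 157636 0 0) (P.cons (P.lf 7457 0 0) P.nil))))) (P.cons (P.cons (P.lf 0 514504 0) (P.cons (P.lf 102204 0 0) (P.cons (P.lf 40214 0 0) (P.cons (P.lf 0 8223 0) P.nil)))) (P.cons (P.cons (P.lf 0 69379 0) (P.cons (P.lf 10989 0 0) (P.cons (P.lf 4257 0 0) P.nil))) (P.cons (P.cons (P.lf 1846 0 0) (P.cons (P.lf 0 113 0) P.nil)) (P.cons (P.cons (P.lf 182 0 0) P.nil) P.nil)))))) 19520)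
 EL.nil))
noncomputable def S176_183_216_364_21 : EL := (EL.cons 4 (TM.mk (P.cons (P.cons (P.lf 0 3552763176 0) (P.cons (P.lf 313325091 0 0) (P.cons (P.lf 135109308 0 0) (P.lf 0 15012141 0)))) (P.cons (P.cons (P.lf 125433390 0 0) (P.cons (P.lf 7987563 0 0) (P.cons (P.lf 3444327 0 0) (P.lf 0 382695 0)))) (P.cons (P.cons (P.lf 13719225 0 0) (P.cons (P.lf 0 745986 0) (P.cons (P.lf 0 321678 0) (P.lf 35736 0 0)))) (P.cons (P.cons (P.lf 0 8007 0) (P.cons (P.lf 0 29520 0) (P.cons (P.lf 0 12726 0) P.nil))) (P.cons (P.cons (P.lf 0 14682 0) (P.cons (P.lf 249 0 0) P.nil)) (P.cons (P.cons (P.lf 0 168 0) P.nil) P.nil)))))) 3114)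
 (EL.cons 8 (TM.mk (P.cons (P.cons (P.lf 1593415614 0 0) (P.cons (P.lf 0 140526426 0) (P.cons (P.lf 0 60596583 0) (P.lf 6732957 0 0)))) (P.cons (P.cons (P.lf 0 147478092 0) (P.cons (P.lf 4462545 0 0) (P.cons (P.lf 1924299 0 0) (P.lf 0 213807 0)))) (P.cons (P.cons (P.lf 0 1464573 0) (P.cons (P.lf 410205 0 0) (P.cons (P.lf 176883 0 0) (P.lf 0 19653 0)))) (P.cons (P.cons (P.lf 263142 0 0) (P.cons (P.lf 0 5601 0) (P.cons (P.lf 0 2415 0) P.nil))) (P.cons (P.cons (P.lf 3012 0 0) (P.cons (P.lf 0 543 0) P.nil)) (P.cons (P.cons (P.lf 0 177 0) P.nil) P.nil)))))) 2835)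
 (EL.cons 11 (TM.mk (P.cons (P.cons (P.lf 812651388 0 0) (P.cons (P.lf 757059945 0 0) (P.cons (P.lf 0 77698977 0) (P.cons (P.lf 0 16159224 0) (P.lf 1346601 0 0))))) (P.cons (P.cons (P.lf 33620094 0 0) (P.cons (P.lf 31320228 0 0) (P.cons (P.lf 0 3214473 0) (P.cons (P.lf 0 668520 0) (P.lf 55710 0 0))))) (P.cons (P.cons (P.lf 0 112452 0) (P.cons (P.lf 0 104760 0) (P.cons (P.lf 10749 0 0) (P.cons (P.lf 2235 0 0) P.nil)))) (P.cons (P.cons (P.lf 0 20811 0) (P.cons (P.lf 0 19386 0) (P.cons (P.lf 1989 0 0) P.nil))) (P.cons (P.cons (P.lf 0 174 0) (P.cons (P.lf 0 162 0) P.nil)) (P.cons (P.cons (P.lf 3 0 0) P.nil) P.nil)))))) 870)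
 EL.nil)))
noncomputable def S176_183_216_364_22 : EL := (EL.cons 4 (TM.mk (P.cons (P.cons (P.lf 0 1354995390 0) (P.cons (P.lf 290901339 0 0) (P.cons (P.lf 110323689 0 0) (P.cons (P.lf 0 26974356 0) (P.cons (P.lf 0 1362252 0) (P.cons (P.lf 624612 0 0) P.nil)))))) (P.cons (P.cons (P.lf 0 72767577 0) (P.cons (P.lf 18268014 0 0) (P.cons (P.lf 6553956 0 0) (P.cons (P.lf 0 2016600 0) (P.cons (P.lf 0 119262 0) P.nil))))) (P.cons (P.cons (P.lf 12312912 0 0) (P.cons (P.lf 0 1225248 0) (P.cons (P.lf 0 522828 0) (P.cons (P.lf 63453 0 0) P.nil)))) (P.cons (P.cons (P.lf 486057 0 0) (P.cons (P.lf 0 105168 0) (P.cons (P.lf 0 41142 0) P.nil))) (P.cons (P.cons (P.lf 0 21870 0) (P.cons (P.lf 36 0 0) P.nil)) (P.cons (P.cons (P.lf 0 1071 0) P.nil) P.nil)))))) 128058)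
 (EL.cons 8 (TM.mk (P.cons (P.cons (P.lf 607715940 0 0) (P.cons (P.lf 0 130469361 0) (P.cons (P.lf 0 49480218 0) (P.cons (P.lf 12098010 0 0) (P.cons (P.lf 610968 0 0) (P.cons (P.lf 0 280137 0) P.nil)))))) (P.cons (P.cons (P.lf 0 2154735 0) (P.cons (P.lf 0 723993 0) (P.cons (P.lf 0 106767 0) (P.cons (P.lf 211851 0 0) (P.cons (P.lf 18510 0 0) P.nil))))) (P.cons (P.cons (P.lf 0 6830904 0) (P.cons (P.lf 898383 0 0) (P.cons (P.lf 357186 0 0) (P.cons (P.lf 0 69093 0) P.nil)))) (P.cons (P.cons (P.lf 112620 0 0) (P.cons (P.lf 11511 0 0) (P.cons (P.lf 3591 0 0) P.nil))) (P.cons (P.cons (P.lf 16689 0 0) (P.cons (P.lf 0 2067 0) P.nil)) (P.cons (P.cons (P.lf 0 123 0) P.nil) P.nil)))))) 62415)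
 (EL.cons 11 (TM.mk (P.cons (P.cons (P.lf 309938721 0 0) (P.cons (P.lf 249530544 0 0) (P.cons (P.lf 0 83063913 0) (P.cons (P.lf 0 16285572 0) (P.cons (P.lf 4659549 0 0) (P.cons (P.lf 91599 0 0) P.nil)))))) (P.cons (P.cons (P.lf 40409787 0 0) (P.cons (P.lf 33590484 0 0) (P.cons (P.lf 0 9389775 0) (P.cons (P.lf 0 1850478 0) (P.cons (P.lf 495765 0 0) P.nil))))) (P.cons (P.cons (P.lf 452838 0 0) (P.cons (P.lf 309606 0 0) (P.cons (P.lf 0 196278 0) (P.cons (P.lf 0 37986 0) P.nil)))) (P.cons (P.cons (P.lf 0 66603 0) (P.cons (P.lf 0 59562 0) (P.cons (P.lf 9750 0 0) P.nil))) (P.cons (P.cons (P.lf 0 1674 0) (P.cons (P.lf 0 1371 0) P.nil)) (P.cons (P.cons (P.lf 36 0 0) P.nil) P.nil)))))) 158799)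
 EL.nil)))
noncomputable def S176_183_216_364_23 : EL := (EL.cons 4 (TM.mk (P.cons (P.cons (P.lf 1910118336 0 0) (P.cons (P.lf 0 168457047 0) (P.cons (P.lf 0 72640575 0) (P.lf 8071170 0 0)))) (P.cons (P.cons (P.lf 0 137278803 0) (P.cons (P.lf 1864902 0 0) (P.cons (P.lf 804165 0 0) (P.lf 0 89355 0)))) (P.cons (P.cons (P.lf 0 5953458 0) (P.cons (P.lf 650094 0 0) (P.cons (P.lf 280326 0 0) (P.lf 0 31143 0)))) (P.cons (P.cons (P.lf 315921 0 0) (P.cons (P.lf 3102 0 0) (P.cons (P.lf 1335 0 0) P.nil))) (P.cons (P.cons (P.lf 11847 0 0) (P.cons (P.lf 0 966 0) P.nil)) (P.cons (P.cons (P.lf 0 228 0) P.nil) P.nil)))))) 3075)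
 (EL.cons 8 (TM.mk (P.cons (P.cons (P.lf 0 856688787 0) (P.cons (P.lf 75553050 0 0) (P.cons (P.lf 32579328 0 0) (P.lf 0 3619926 0)))) (P.cons (P.cons (P.lf 110614020 0 0) (P.cons (P.lf 0 5161731 0) (P.cons (P.lf 0 2225796 0) (P.lf 247308 0 0)))) (P.cons (P.cons (P.lf 0 1643841 0) (P.cons (P.lf 0 174081 0) (P.cons (P.lf 0 75063 0) (P.lf 8340 0 0)))) (P.cons (P.cons (P.lf 0 215853 0) (P.cons (P.lf 12585 0 0) (P.cons (P.lf 5427 0 0) P.nil))) (P.cons (P.cons (P.lf 3216 0 0) (P.cons (P.lf 306 0 0) P.nil)) (P.cons (P.cons (P.lf 243 0 0) P.nil) P.nil)))))) 2250)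
 (EL.cons 11 (TM.mk (P.cons (P.cons (P.lf 0 436916349 0) (P.cons (P.lf 0 407027997 0) (P.cons (P.lf 41774310 0 0) (P.cons (P.lf 8687892 0 0) (P.lf 0 723990 0))))) (P.cons (P.cons (P.lf 0 2100462 0) (P.cons (P.lf 0 1956774 0) (P.cons (P.lf 200826 0 0) (P.cons (P.lf 41766 0 0) (P.lf 0 3480 0))))) (P.cons (P.cons (P.lf 959982 0 0) (P.cons (P.lf 894312 0 0) (P.cons (P.lf 0 91782 0) (P.cons (P.lf 0 19086 0) P.nil)))) (P.cons (P.cons (P.lf 17685 0 0) (P.cons (P.lf 16473 0 0) (P.cons (P.lf 0 1689 0) P.nil))) (P.cons (P.cons (P.lf 0 456 0) (P.cons (P.lf 0 426 0) P.nil)) (P.cons (P.cons (P.lf 0 12 0) P.nil) P.nil)))))) 2406)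
 EL.nil)))
noncomputable def S176_183_216_364_24 : EL := (EL.cons 4 (TM.mk (P.cons (P.cons (P.lf 728503818 0 0) (P.cons (P.lf 0 156401073 0) (P.cons (P.lf 0 59314761 0) (P.cons (P.lf 14502573 0 0) (P.cons (P.lf 732405 0 0) (P.cons (P.lf 0 335817 0) P.nil)))))) (P.cons (P.cons (P.lf 12486402 0 0) (P.cons (P.lf 0 4103115 0) (P.cons (P.lf 0 1354938 0) (P.cons (P.lf 553947 0 0) (P.cons (P.lf 37341 0 0) P.nil))))) (P.cons (P.cons (P.lf 0 8448285 0) (P.cons (P.lf 1103274 0 0) (P.cons (P.lf 442326 0 0) (P.cons (P.lf 0 81678 0) P.nil)))) (P.cons (P.cons (P.lf 0 38700 0) (P.cons (P.lf 37404 0 0) (P.cons (P.lf 13608 0 0) P.nil))) (P.cons (P.cons (P.lf 25131 0 0) (P.cons (P.lf 0 2493 0) P.nil)) (P.cons (P.cons (P.lf 276 0 0) P.nil) P.nil)))))) 59529)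
 (EL.cons 8 (TM.mk (P.cons (P.cons (P.lf 0 326734233 0) (P.cons (P.lf 70145940 0 0) (P.cons (P.lf 26602692 0 0) (P.cons (P.lf 0 6504411 0) (P.cons (P.lf 0 328482 0) (P.cons (P.lf 150615 0 0) P.nil)))))) (P.cons (P.cons (P.lf 13104993 0 0) (P.cons (P.lf 0 2175522 0) (P.cons (P.lf 0 915279 0) (P.cons (P.lf 123921 0 0) (P.cons (P.lf 2055 0 0) P.nil))))) (P.cons (P.cons (P.lf 3808671 0 0) (P.cons (P.lf 0 535551 0) (P.cons (P.lf 0 208665 0) (P.cons (P.lf 44862 0 0) P.nil)))) (P.cons (P.cons (P.lf 0 196335 0) (P.cons (P.lf 11445 0 0) (P.cons (P.lf 5127 0 0) P.nil))) (P.cons (P.cons (P.lf 0 8805 0) (P.cons (P.lf 1611 0 0) P.nil)) (P.cons (P.cons (P.lf 438 0 0) P.nil) P.nil)))))) 29415)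
 (EL.cons 11 (TM.mk (P.cons (P.cons (P.lf 0 166636392 0) (P.cons (P.lf 0 134158356 0) (P.cons (P.lf 44658732 0 0) (P.cons (P.lf 8755824 0 0) (P.cons (P.lf 0 2505174 0) (P.cons (P.lf 0 49248 0) P.nil)))))) (P.cons (P.cons (P.lf 0 15633246 0) (P.cons (P.lf 0 13154403 0) (P.cons (P.lf 3415470 0 0) (P.cons (P.lf 674754 0 0) (P.cons (P.lf 0 174945 0) P.nil))))) (P.cons (P.cons (P.lf 641916 0 0) (P.cons (P.lf 567132 0 0) (P.cons (P.lf 0 103446 0) (P.cons (P.lf 0 20733 0) P.nil)))) (P.cons (P.cons (P.lf 56130 0 0) (P.cons (P.lf 47613 0 0) (P.cons (P.lf 0 11739 0) P.nil))) (P.cons (P.cons (P.lf 0 354 0) (P.cons (P.lf 0 408 0) P.nil)) (P.cons (P.cons (P.lf 0 75 0) P.nil) P.nil)))))) 76815)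
 EL.nil)))
noncomputable def S176_183_216_364_25 : EL := (EL.cons 4 (TM.mk (P.cons (P.cons (P.lf 0 1026961797 0) (P.cons (P.lf 90569757 0 0) (P.cons (P.lf 39054699 0 0) (P.lf 0 4339407 0)))) (P.cons (P.cons (P.lf 111356202 0 0) (P.cons (P.lf 0 4314189 0) (P.cons (P.lf 0 1860327 0) (P.lf 206703 0 0)))) (P.cons (P.cons (P.lf 1063065 0 0) (P.cons (P.lf 0 362322 0) (P.cons (P.lf 0 156237 0) (P.lf 17355 0 0)))) (P.cons (P.cons (P.lf 0 329931 0) (P.cons (P.lf 11898 0 0) (P.cons (P.lf 5130 0 0) P.nil))) (P.cons (P.cons (P.lf 0 1851 0) (P.cons (P.lf 780 0 0) P.nil)) (P.cons (P.cons (P.lf 465 0 0) P.nil) P.nil)))))) 2454)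
 (EL.cons 8 (TM.mk (P.cons (P.cons (P.lf 460592748 0 0) (P.cons (P.lf 0 40620570 0) (P.cons (P.lf 0 17516049 0) (P.lf 1946226 0 0)))) (P.cons (P.cons (P.lf 0 76311690 0) (P.cons (P.lf 4260393 0 0) (P.cons (P.lf 1837128 0 0) (P.lf 0 204123 0)))) (P.cons (P.cons (P.lf 2806707 0 0) (P.cons (P.lf 14307 0 0) (P.cons (P.lf 6168 0 0) (P.lf 0 684 0)))) (P.cons (P.cons (P.lf 117444 0 0) (P.cons (P.lf 0 11811 0) (P.cons (P.lf 0 5091 0) P.nil))) (P.cons (P.cons (P.lf 0 6549 0) (P.cons (P.lf 33 0 0) P.nil)) (P.cons (P.cons (P.lf 0 135 0) P.nil) P.nil)))))) 1611)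
 (EL.cons 11 (TM.mk (P.cons (P.cons (P.lf 234905025 0 0) (P.cons (P.lf 218835762 0 0) (P.cons (P.lf 0 22459665 0) (P.cons (P.lf 0 4670985 0) (P.lf 389247 0 0))))) (P.cons (P.cons (P.lf 0 7459626 0) (P.cons (P.lf 0 6949332 0) (P.cons (P.lf 713226 0 0) (P.cons (P.lf 148329 0 0) (P.lf 0 12360 0))))) (P.cons (P.cons (P.lf 0 685707 0) (P.cons (P.lf 0 638802 0) (P.cons (P.lf 65559 0 0) (P.cons (P.lf 13632 0 0) P.nil)))) (P.cons (P.cons (P.lf 9372 0 0) (P.cons (P.lf 8730 0 0) (P.cons (P.lf 0 894 0) P.nil))) (P.cons (P.cons (P.lf 909 0 0) (P.cons (P.lf 846 0 0) P.nil)) (P.cons (P.cons (P.lf 0 0 0) P.nil) P.nil)))))) 2076)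
 EL.nil)))
noncomputable def S176_183_216_364_26 : EL := (EL.cons 4 (TM.mk (P.cons (P.cons (P.lf 0 391674993 0) (P.cons (P.lf 84087945 0 0) (P.cons (P.lf 31890165 0 0) (P.cons (P.lf 0 7797207 0) (P.cons (P.lf 0 393771 0) (P.cons (P.lf 180549 0 0) P.nil)))))) (P.cons (P.cons (P.lf 7607739 0 0) (P.cons (P.lf 0 868527 0) (P.cons (P.lf 0 437538 0) (P.cons (P.lf 0 12732 0) (P.cons (P.lf 0 5679 0) P.nil))))) (P.cons (P.cons (P.lf 5001528 0 0) (P.cons (P.lf 0 719751 0) (P.cons (P.lf 0 281865 0) (P.cons (P.lf 59061 0 0) P.nil)))) (P.cons (P.cons (P.lf 0 142644 0) (P.cons (P.lf 597 0 0) (P.cons (P.lf 1065 0 0) P.nil))) (P.cons (P.cons (P.lf 0 16824 0) (P.cons (P.lf 2415 0 0) P.nil)) (P.cons (P.cons (P.lf 342 0 0) P.nil) P.nil)))))) 31146)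
 (EL.cons 8 (TM.mk (P.cons (P.cons (P.lf 175666380 0 0) (P.cons (P.lf 0 37713474 0) (P.cons (P.lf 0 14302752 0) (P.cons (P.lf 3497049 0 0) (P.cons (P.lf 176607 0 0) (P.cons (P.lf 0 80976 0) P.nil)))))) (P.cons (P.cons (P.lf 0 13468767 0) (P.cons (P.lf 2548587 0 0) (P.cons (P.lf 1015050 0 0) (P.cons (P.lf 0 194487 0) (P.cons (P.lf 0 7563 0) P.nil))))) (P.cons (P.cons (P.lf 0 1886025 0) (P.cons (P.lf 265764 0 0) (P.cons (P.lf 102006 0 0) (P.cons (P.lf 0 23592 0) P.nil)))) (P.cons (P.cons (P.lf 184746 0 0) (P.cons (P.lf 0 17421 0) (P.cons (P.lf 0 7164 0) P.nil))) (P.cons (P.cons (P.lf 1998 0 0) (P.cons (P.lf 0 801 0) P.nil)) (P.cons (P.cons (P.lf 0 471 0) P.nil) P.nil)))))) 15456)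
 (EL.cons 11 (TM.mk (P.cons (P.cons (P.lf 89590893 0 0) (P.cons (P.lf 72129303 0 0) (P.cons (P.lf 0 24010455 0) (P.cons (P.lf 0 4707507 0) (P.cons (P.lf 1346889 0 0) (P.cons (P.lf 26478 0 0) P.nil)))))) (P.cons (P.cons (P.lf 5129358 0 0) (P.cons (P.lf 4435080 0 0) (P.cons (P.lf 0 958401 0) (P.cons (P.lf 0 190653 0) (P.cons (P.lf 44811 0 0) P.nil))))) (P.cons (P.cons (P.lf 0 701370 0) (P.cons (P.lf 0 602898 0) (P.cons (P.lf 135870 0 0) (P.cons (P.lf 26982 0 0) P.nil)))) (P.cons (P.cons (P.lf 0 21912 0) (P.cons (P.lf 0 18120 0) (P.cons (P.lf 5214 0 0) P.nil))) (P.cons (P.cons (P.lf 1518 0 0) (P.cons (P.lf 1350 0 0) P.nil)) (P.cons (P.cons (P.lf 48 0 0) P.nil) P.nil)))))) 40479)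
 EL.nil)))
noncomputable def S176_183_216_364_27 : EL := (EL.cons 13 (TM.mk (P.lf 0 4294967296 0) 0)
 EL.nil)
noncomputable def S176_183_216_364_28 : EL := (EL.cons 13 (TM.mk (P.cons (P.cons (P.lf 0 1638066092 0) (P.cons (P.lf 207209008 0 0) (P.cons (P.lf 89350860 0 0) (P.lf 0 9927872 0)))) (P.cons (P.cons (P.lf 0 145802724 0) (P.cons (P.lf 12858624 0 0) (P.cons (P.lf 5544784 0 0) (P.lf 0 616084 0)))) (P.cons (P.cons (P.lf 3412001 0 0) (P.cons (P.lf 89980 0 0) (P.cons (P.lf 38800 0 0) (P.lf 0 4312 0)))) (P.cons (P.cons (P.lf 148730 0 0) (P.cons (P.lf 0 9764 0) (P.cons (P.lf 0 4208 0) P.nil))) (P.cons (P.cons (P.lf 0 915 0) (P.cons (P.lf 0 204 0) P.nil)) (P.cons (P.cons (P.lf 0 81 0) P.nil) P.nil)))))) 1009)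
 EL.nil)
noncomputable def S176_183_216_364_29 : EL := (EL.cons 13 (TM.mk (P.cons (P.cons (P.lf 0 624745274 0) (P.cons (P.lf 158055708 0 0) (P.cons (P.lf 58158686 0 0) (P.cons (P.lf 0 16194215 0) (P.cons (P.lf 0 900888 0) (P.cons (P.lf 413071 0 0) P.nil)))))) (P.cons (P.cons (P.lf 0 111215979 0) (P.cons (P.lf 23876742 0 0) (P.cons (P.lf 9055202 0 0) (P.cons (P.lf 0 2214012 0) (P.cons (P.lf 0 111811 0) P.nil))))) (P.cons (P.cons (P.lf 0 2346995 0) (P.cons (P.lf 612446 0 0) (P.cons (P.lf 216914 0 0) (P.cons (P.lf 0 70032 0) P.nil)))) (P.cons (P.cons (P.lf 345105 0 0) (P.cons (P.lf 0 36119 0) (P.cons (P.lf 0 15170 0) P.nil))) (P.cons (P.cons (P.lf 6689 0 0) (P.cons (P.lf 0 1763 0) P.nil)) (P.cons (P.cons (P.lf 0 360 0) P.nil) P.nil)))))) 98143)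
 EL.nil)
noncomputable def S176_183_216_364_30 : EL := (EL.cons 13 (TM.mk (P.cons (P.lf 2309159204 0 0) (P.cons (P.lf 0 84430708 0) (P.cons (P.lf 0 1261124 0) (P.cons (P.lf 6156 0 0) (P.cons (P.lf 320 0 0) (P.cons (P.lf 0 0 0) P.nil)))))) 48)
 EL.nil)
noncomputable def S176_183_216_364_31 : EL := (EL.cons 13 (TM.mk (P.cons (P.cons (P.lf 880694806 0 0) (P.cons (P.lf 0 111404477 0) (P.cons (P.lf 0 48038866 0) (P.lf 5337651 0 0)))) (P.cons (P.cons (P.lf 46188622 0 0) (P.cons (P.lf 0 2840023 0) (P.cons (P.lf 0 1224650 0) (P.lf 136070 0 0)))) (P.cons (P.cons (P.lf 0 5181619 0) (P.cons (P.lf 265240 0 0) (P.cons (P.lf 114375 0 0) (P.lf 0 12707 0)))) (P.cons (P.cons (P.lf 0 53354 0) (P.cons (P.lf 10497 0 0) (P.cons (P.lf 4525 0 0) P.nil))) (P.cons (P.cons (P.lf 4748 0 0) (P.cons (P.lf 0 89 0) P.nil)) (P.cons (P.cons (P.lf 75 0 0) P.nil) P.nil)))))) 1008)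
 EL.nil)
noncomputable def S176_183_216_364_32 : EL := (EL.cons 13 (TM.mk (P.cons (P.cons (P.lf 335889938 0 0) (P.cons (P.lf 0 84977548 0) (P.cons (P.lf 0 31268611 0) (P.cons (P.lf 8706706 0 0) (P.cons (P.lf 484356 0 0) (P.cons (P.lf 0 222084 0) P.nil)))))) (P.cons (P.cons (P.lf 47513217 0 0) (P.cons (P.lf 0 9730095 0) (P.cons (P.lf 0 3725179 0) (P.cons (P.lf 872001 0 0) (P.cons (P.lf 42404 0 0) P.nil))))) (P.cons (P.cons (P.lf 0 1107887 0) (P.cons (P.lf 186502 0 0) (P.cons (P.lf 78462 0 0) (P.cons (P.lf 0 10626 0) P.nil)))) (P.cons (P.cons (P.lf 0 263441 0) (P.cons (P.lf 38242 0 0) (P.cons (P.lf 14995 0 0) P.nil))) (P.cons (P.cons (P.lf 2704 0 0) (P.cons (P.lf 371 0 0) P.nil)) (P.cons (P.cons (P.lf 438 0 0) P.nil) P.nil)))))) 68014)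
 EL.nil)
noncomputable def S176_183_216_364_33 : EL := (EL.cons 14 (TM.mk (P.lf 8589934592 0 0) 0)
 EL.nil)
noncomputable def S176_183_216_364_34 : EL := (EL.cons 14 (TM.mk (P.cons (P.cons (P.lf 3276132184 0 0) (P.cons (P.lf 0 414418016 0) (P.cons (P.lf 0 178701720 0) (P.lf 19855744 0 0)))) (P.cons (P.cons (P.lf 291605448 0 0) (P.cons (P.lf 0 25717248 0) (P.cons (P.lf 0 11089568 0) (P.lf 1232168 0 0)))) (P.cons (P.cons (P.lf 0 6824002 0) (P.cons (P.lf 0 179960 0) (P.cons (P.lf 0 77600 0) (P.lf 8624 0 0)))) (P.cons (P.cons (P.lf 0 297460 0) (P.cons (P.lf 19528 0 0) (P.cons (P.lf 8416 0 0) P.nil))) (P.cons (P.cons (P.lf 1830 0 0) (P.cons (P.lf 408 0 0) P.nil)) (P.cons (P.cons (P.lf 162 0 0) P.nil) P.nil)))))) 2018)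
 EL.nil)
noncomputable def S176_183_216_364_35 : EL := (EL.cons 14 (TM.mk (P.cons (P.cons (P.lf 1249490548 0 0) (P.cons (P.lf 0 316111416 0) (P.cons (P.lf 0 116317372 0) (P.cons (P.lf 32388430 0 0) (P.cons (P.lf 1801776 0 0) (P.cons (P.lf 0 826142 0) P.nil)))))) (P.cons (P.cons (P.lf 222431958 0 0) (P.cons (P.lf 0 47753484 0) (P.cons (P.lf 0 18110404 0) (P.cons (P.lf 4428024 0 0) (P.cons (P.lf 223622 0 0) P.nil))))) (P.cons (P.cons (P.lf 4693990 0 0) (P.cons (P.lf 0 1224892 0) (P.cons (P.lf 0 433828 0) (P.cons (P.lf 140064 0 0) P.nil)))) (P.cons (P.cons (P.lf 0 690210 0) (P.cons (P.lf 72238 0 0) (P.cons (P.lf 30340 0 0) P.nil))) (P.cons (P.cons (P.lf 0 13378 0) (P.cons (P.lf 3526 0 0) P.nil)) (P.cons (P.cons (P.lf 720 0 0) P.nil) P.nil)))))) 196286)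
 EL.nil)
noncomputable def S176_183_216_364_36 : EL := (EL.cons 14 (TM.mk (P.cons (P.lf 0 4618318408 0) (P.cons (P.lf 168861416 0 0) (P.cons (P.lf 2522248 0 0) (P.cons (P.lf 0 12312 0) (P.cons (P.lf 0 640 0) (P.cons (P.lf 0 0 0) P.nil)))))) 96)
 EL.nil)
noncomputable def S176_183_216_364_37 : EL := (EL.cons 14 (TM.mk (P.cons (P.cons (P.lf 0 1761389612 0) (P.cons (P.lf 222808954 0 0) (P.cons (P.lf 96077732 0 0) (P.lf 0 10675302 0)))) (P.cons (P.cons (P.lf 0 92377244 0) (P.cons (P.lf 5680046 0 0) (P.cons (P.lf 2449300 0 0) (P.lf 0 272140 0)))) (P.cons (P.cons (P.lf 10363238 0 0) (P.cons (P.lf 0 530480 0) (P.cons (P.lf 0 228750 0) (P.lf 25414 0 0)))) (P.cons (P.cons (P.lf 106708 0 0) (P.cons (P.lf 0 20994 0) (P.cons (P.lf 0 9050 0) P.nil))) (P.cons (P.cons (P.lf 0 9496 0) (P.cons (P.lf 178 0 0) P.nil)) (P.cons (P.cons (P.lf 0 150 0) P.nil) P.nil)))))) 2016)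
 EL.nil)
noncomputable def S176_183_216_364_38 : EL := (EL.cons 14 (TM.mk (P.cons (P.cons (P.lf 0 671779876 0) (P.cons (P.lf 169955096 0 0) (P.cons (P.lf 62537222 0 0) (P.cons (P.lf 0 17413412 0) (P.cons (P.lf 0 968712 0) (P.cons (P.lf 444168 0 0) P.nil)))))) (P.cons (P.cons (P.lf 0 95026434 0) (P.cons (P.lf 19460190 0 0) (P.cons (P.lf 7450358 0 0) (P.cons (P.lf 0 1744002 0) (P.cons (P.lf 0 84808 0) P.nil))))) (P.cons (P.cons (P.lf 2215774 0 0) (P.cons (P.lf 0 373004 0) (P.cons (P.lf 0 156924 0) (P.cons (P.lf 21252 0 0) P.nil)))) (P.cons (P.cons (P.lf 526882 0 0) (P.cons (P.lf 0 76484 0) (P.cons (P.lf 0 29990 0) P.nil))) (P.cons (P.cons (P.lf 0 5408 0) (P.cons (P.lf 0 742 0) P.nil)) (P.cons (P.cons (P.lf 0 876 0) P.nil) P.nil)))))) 136028)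
 EL.nil)
noncomputable def S176_183_216_364_39 : EL := (EL.cons 14 (TM.mk (P.cons (P.lf 2483006672 0 0) (P.cons (P.lf 0 181574324 0) (P.cons (P.lf 607348 0 0) (P.cons (P.lf 112402 0 0) (P.cons (P.lf 944 0 0) (P.cons (P.lf 0 32 0) P.nil)))))) 120)
 EL.nil)
noncomputable def S176_183_216_364_40 : EL := (EL.cons 14 (TM.mk (P.cons (P.cons (P.lf 946998836 0 0) (P.cons (P.lf 0 119791680 0) (P.cons (P.lf 0 51655522 0) (P.lf 5739500 0 0)))) (P.cons (P.cons (P.lf 15040484 0 0) (P.cons (P.lf 1326152 0 0) (P.cons (P.lf 571852 0 0) (P.lf 0 63540 0)))) (P.cons (P.cons (P.lf 0 7904874 0) (P.cons (P.lf 462290 0 0) (P.cons (P.lf 199344 0 0) (P.lf 0 22148 0)))) (P.cons (P.cons (P.lf 121748 0 0) (P.cons (P.lf 2206 0 0) (P.cons (P.lf 950 0 0) P.nil))) (P.cons (P.cons (P.lf 10508 0 0) (P.cons (P.lf 0 688 0) P.nil)) (P.cons (P.cons (P.lf 0 82 0) P.nil) P.nil)))))) 1648)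
 EL.nil)
noncomputable def S176_183_216_364_41 : EL := (EL.cons 14 (TM.mk (P.cons (P.cons (P.lf 361177762 0 0) (P.cons (P.lf 0 91375172 0) (P.cons (P.lf 0 33622700 0) (P.cons (P.lf 9362200 0 0) (P.cons (P.lf 520820 0 0) (P.cons (P.lf 0 238804 0) P.nil)))))) (P.cons (P.cons (P.lf 37884412 0 0) (P.cons (P.lf 0 7121648 0) (P.cons (P.lf 0 2776272 0) (P.cons (P.lf 595336 0 0) (P.cons (P.lf 26554 0 0) P.nil))))) (P.cons (P.cons (P.lf 0 3256584 0) (P.cons (P.lf 632996 0 0) (P.cons (P.lf 249190 0 0) (P.cons (P.lf 0 50822 0) P.nil)))) (P.cons (P.cons (P.lf 0 266656 0) (P.cons (P.lf 39260 0 0) (P.cons (P.lf 15136 0 0) P.nil))) (P.cons (P.cons (P.lf 14102 0 0) (P.cons (P.lf 0 1252 0) P.nil)) (P.cons (P.cons (P.lf 522 0 0) P.nil) P.nil)))))) 88238)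
 EL.nil)
noncomputable def S176_183_216_364_42 : EL := (EL.cons 14 (TM.mk (P.cons (P.lf 0 1334971214 0) (P.cons (P.lf 146433252 0 0) (P.cons (P.lf 0 3166852 0) (P.cons (P.lf 0 105366 0) (P.cons (P.lf 1954 0 0) (P.cons (P.lf 80 0 0) P.nil)))))) 110)
 EL.nil)
noncomputable def S176_183_216_364_43 : EL := (EL.cons 14 (TM.mk (P.cons (P.cons (P.lf 0 509147316 0) (P.cons (P.lf 64405160 0 0) (P.cons (P.lf 27772230 0 0) (P.lf 0 3085802 0)))) (P.cons (P.cons (P.lf 10529742 0 0) (P.cons (P.lf 0 3067868 0) (P.cons (P.lf 0 1322898 0) (P.lf 146988 0 0)))) (P.cons (P.cons (P.lf 4823732 0 0) (P.cons (P.lf 0 257652 0) (P.cons (P.lf 0 111102 0) (P.lf 12344 0 0)))) (P.cons (P.cons (P.lf 0 217792 0) (P.cons (P.lf 8460 0 0) (P.cons (P.lf 3648 0 0) P.nil))) (P.cons (P.cons (P.lf 0 5670 0) (P.cons (P.lf 556 0 0) P.nil)) (P.cons (P.cons (P.lf 296 0 0) P.nil) P.nil)))))) 1704)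
 EL.nil)
noncomputable def S176_183_216_364_44 : EL := (EL.cons 14 (TM.mk (P.cons (P.cons (P.lf 0 194184704 0) (P.cons (P.lf 49127222 0 0) (P.cons (P.lf 18077010 0 0) (P.cons (P.lf 0 5033520 0) (P.cons (P.lf 0 280014 0) (P.cons (P.lf 128390 0 0) P.nil)))))) (P.cons (P.cons (P.lf 0 13268238 0) (P.cons (P.lf 2032646 0 0) (P.cons (P.lf 831686 0 0) (P.cons (P.lf 0 136036 0) (P.cons (P.lf 0 4038 0) P.nil))))) (P.cons (P.cons (P.lf 2601666 0 0) (P.cons (P.lf 0 507154 0) (P.cons (P.lf 0 198424 0) (P.cons (P.lf 41776 0 0) P.nil)))) (P.cons (P.cons (P.lf 89954 0 0) (P.cons (P.lf 0 10624 0) (P.cons (P.lf 0 4006 0) P.nil))) (P.cons (P.cons (P.lf 0 13860 0) (P.cons (P.lf 1648 0 0) P.nil)) (P.cons (P.cons (P.lf 0 80 0) P.nil) P.nil)))))) 58608)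
 EL.nil)
noncomputable def S176_183_216_364_45 : EL := (EL.cons 14 (TM.mk (P.cons (P.cons (P.lf 476545676 0 0) (P.cons (P.lf 0 180843538 0) (P.cons (P.lf 0 55105766 0) (P.cons (P.lf 27428848 0 0) (P.cons (P.lf 813742 0 0) (P.cons (P.lf 0 1344674 0) P.nil)))))) (P.cons (P.cons (P.lf 127250648 0 0) (P.cons (P.lf 0 43415906 0) (P.cons (P.lf 0 13846056 0) (P.cons (P.lf 6105212 0 0) (P.cons (P.lf 207058 0 0) P.nil))))) (P.cons (P.cons (P.lf 8348604 0 0) (P.cons (P.lf 0 2755714 0) (P.cons (P.lf 0 875266 0) (P.cons (P.lf 389594 0 0) P.nil)))) (P.cons (P.cons (P.lf 0 323864 0) (P.cons (P.lf 52278 0 0) (P.cons (P.lf 23236 0 0) P.nil))) (P.cons (P.cons (P.lf 0 39698 0) (P.cons (P.lf 9534 0 0) P.nil)) (P.cons (P.cons (P.lf 276 0 0) P.nil) P.nil)))))) 651800)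
 EL.nil)
noncomputable def S176_183_216_364_46 : EL := (EL.cons 15 (TM.mk (P.lf 4294967296 0 0) 0)
 EL.nil)
noncomputable def S176_183_216_364_47 : EL := (EL.cons 15 (TM.mk (P.cons (P.cons (P.lf 1638066092 0 0) (P.cons (P.lf 0 207209008 0) (P.cons (P.lf 0 89350860 0) (P.lf 9927872 0 0)))) (P.cons (P.cons (P.lf 145802724 0 0) (P.cons (P.lf 0 12858624 0) (P.cons (P.lf 0 5544784 0) (P.lf 616084 0 0)))) (P.cons (P.cons (P.lf 0 3412001 0) (P.cons (P.lf 0 89980 0) (P.cons (P.lf 0 38800 0) (P.lf 4312 0 0)))) (P.cons (P.cons (P.lf 0 148730 0) (P.cons (P.lf 9764 0 0) (P.cons (P.lf 4208 0 0) P.nil))) (P.cons (P.cons (P.lf 915 0 0) (P.cons (P.lf 204 0 0) P.nil)) (P.cons (P.cons (P.lf 81 0 0) P.nil) P.nil)))))) 1009)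
 EL.nil)
noncomputable def S176_183_216_364_48 : EL := (EL.cons 15 (TM.mk (P.cons (P.cons (P.lf 624745274 0 0) (P.cons (P.lf 0 158055708 0) (P.cons (P.lf 0 58158686 0) (P.cons (P.lf 16194215 0 0) (P.cons (P.lf 900888 0 0) (P.cons (P.lf 0 413071 0) P.nil)))))) (P.cons (P.cons (P.lf 111215979 0 0) (P.cons (P.lf 0 23876742 0) (P.cons (P.lf 0 9055202 0) (P.cons (P.lf 2214012 0 0) (P.cons (P.lf 111811 0 0) P.nil))))) (P.cons (P.cons (P.lf 2346995 0 0) (P.cons (P.lf 0 612446 0) (P.cons (P.lf 0 216914 0) (P.cons (P.lf 70032 0 0) P.nil)))) (P.cons (P.cons (P.lf 0 345105 0) (P.cons (P.lf 36119 0 0) (P.cons (P.lf 15170 0 0) P.nil))) (P.cons (P.cons (P.lf 0 6689 0) (P.cons (P.lf 1763 0 0) P.nil)) (P.cons (P.cons (P.lf 360 0 0) P.nil) P.nil)))))) 98143)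
 EL.nil)
noncomputable def S176_183_216_364 : SL := (SL.cons S176_183_216_364_0 (SL.cons S176_183_216_364_1 (SL.cons S176_183_216_364_2 (SL.cons S176_183_216_364_3 (SL.cons S176_183_216_364_4 (SL.cons S176_183_216_364_5 (SL.cons S176_183_216_364_6 (SL.cons S176_183_216_364_7 (SL.cons S176_183_216_364_8 (SL.cons S176_183_216_364_9 (SL.cons S176_183_216_364_10 (SL.cons S176_183_216_364_11 (SL.cons S176_183_216_364_12 (SL.cons S176_183_216_364_13 (SL.cons S176_183_216_364_14 (SL.cons S176_183_216_364_15 (SL.cons S176_183_216_364_16 (SL.cons S176_183_216_364_17 (SL.cons S176_183_216_364_18 (SL.cons S176_183_216_364_19 (SL.cons S176_183_216_364_20 (SL.cons S176_183_216_364_21 (SL.cons S176_183_216_364_22 (SL.cons S176_183_216_364_23 (SL.cons S176_183_216_364_24 (SL.cons S176_183_216_364_25 (SL.cons S176_183_216_364_26 (SL.cons S176_183_216_364_27 (SL.cons S176_183_216_364_28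 (SL.cons S176_183_216_364_29 (SL.cons S176_183_216_364_30 (SL.cons S176_183_216_364_31 (SL.cons S176_183_216_364_32 (SL.cons S176_183_216_364_33 (SL.cons S176_183_216_364_34 (SL.cons S176_183_216_364_35 (SL.cons S176_183_216_364_36 (SL.cons S176_183_216_364_37 (SL.cons S176_183_216_364_38 (SL.cons S176_183_216_364_39 (SL.cons S176_183_216_364_40 (SL.cons S176_183_216_364_41 (SL.cons S176_183_216_364_42 (SL.cons S176_183_216_364_43 (SL.cons S176_183_216_364_44 (SL.cons S176_183_216_364_45 (SL.cons S176_183_216_364_46 (SL.cons S176_183_216_364_47 (SL.cons S176_183_216_364_48 SL.nil)))))))))))))))))))))))))))))))))))))))))))))))))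
noncomputable def S176_183_512_660_0 : EL := (EL.cons 0 (TM.mk (P.cons (P.lf 6273386781 0 0) (P.cons (P.lf 159586808 0 0) (P.cons (P.lf 0 533801 0) (P.cons (P.lf 0 98790 0) (P.cons (P.lf 0 829 0) (P.cons (P.lf 28 0 0) P.nil)))))) 112)
 (EL.cons 1 (TM.mk (P.cons (P.lf 0 1730075681 0) (P.cons (P.lf 27470073 0 0) (P.cons (P.lf 2743211 0 0) (P.cons (P.lf 9043 0 0) (P.cons (P.lf 0 1033 0) (P.cons (P.lf 0 11 0) P.nil)))))) 102)
 (EL.cons 5 (TM.mk (P.cons (P.lf 5070906886 0 0) (P.cons (P.lf 0 56741974 0) (P.cons (P.lf 189792 0 0) (P.cons (P.lf 35126 0 0) (P.cons (P.lf 296 0 0) (P.cons (P.lf 0 8 0) P.nil)))))) 93)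
 (EL.cons 9 (TM.mk (P.lf 6442450944 0 0) 2)
 EL.nil))))
noncomputable def S176_183_512_660_1 : EL := (EL.cons 0 (TM.mk (P.cons (P.cons (P.lf 0 1085457842 0) (P.cons (P.lf 28378399 0 0) (P.cons (P.lf 0 1897304 0) (P.lf 0 632428 0)))) (P.cons (P.cons (P.lf 296412889 0 0) (P.cons (P.lf 0 64448902 0) (P.cons (P.lf 4308900 0 0) (P.lf 1436301 0 0)))) (P.cons (P.cons (P.lf 0 2725116 0) (P.cons (P.lf 0 3874951 0) (P.cons (P.lf 259063 0 0) (P.lf 86348 0 0)))) (P.cons (P.cons (P.lf 0 902387 0) (P.cons (P.lf 24647 0 0) (P.cons (P.lf 0 1659 0) P.nil))) (P.cons (P.cons (P.lf 0 7512 0) (P.cons (P.lf 6071 0 0) P.nil)) (P.cons (P.cons (P.lf 958 0 0) P.nil) P.nil)))))) 7831)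
 (EL.cons 1 (TM.mk (P.cons (P.cons (P.lf 0 196656231 0) (P.cons (P.lf 296333310 0 0) (P.cons (P.lf 0 19812144 0) (P.lf 0 6604046 0)))) (P.cons (P.cons (P.lf 0 17816889 0) (P.cons (P.lf 31119795 0 0) (P.cons (P.lf 0 2080591 0) (P.lf 0 693522 0)))) (P.cons (P.cons (P.lf 9601028 0 0) (P.cons (P.lf 0 607668 0) (P.cons (P.lf 40630 0 0) (P.lf 13536 0 0)))) (P.cons (P.cons (P.lf 92762 0 0) (P.cons (P.lf 0 96094 0) (P.cons (P.lf 6413 0 0) P.nil))) (P.cons (P.cons (P.lf 0 17753 0) (P.cons (P.lf 0 911 0) P.nil)) (P.cons (P.cons (P.lf 0 315 0) P.nil) P.nil)))))) 4523)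
 (EL.cons 5 (TM.mk (P.cons (P.cons (P.lf 411440844 0 0) (P.cons (P.lf 0 767402658 0) (P.cons (P.lf 51306752 0 0) (P.lf 17102250 0 0)))) (P.cons (P.cons (P.lf 0 28753120 0) (P.cons (P.lf 0 24080860 0) (P.cons (P.lf 1609996 0 0) (P.lf 536666 0 0)))) (P.cons (P.cons (P.lf 0 6029701 0) (P.cons (P.lf 1048886 0 0) (P.cons (P.lf 0 70118 0) (P.lf 0 23368 0)))) (P.cons (P.cons (P.lf 198053 0 0) (P.cons (P.lf 26934 0 0) (P.cons (P.lf 0 1800 0) P.nil))) (P.cons (P.cons (P.lf 6980 0 0) (P.cons (P.lf 0 1404 0) P.nil)) (P.cons (P.cons (P.lf 0 212 0) P.nil) P.nil)))))) 4722)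
 (EL.cons 9 (TM.mk (P.cons (P.cons (P.lf 22500240 0 0) (P.cons (P.lf 0 668216964 0) (P.cons (P.lf 44675424 0 0) (P.lf 14891808 0 0)))) (P.cons (P.cons (P.lf 67621872 0 0) (P.cons (P.lf 0 41467074 0) (P.cons (P.lf 2772390 0 0) (P.lf 924126 0 0)))) (P.cons (P.cons (P.lf 0 6175255 0) (P.cons (P.lf 0 290178 0) (P.cons (P.lf 19398 0 0) (P.lf 6468 0 0)))) (P.cons (P.cons (P.lf 0 108345 0) (P.cons (P.lf 31494 0 0) (P.cons (P.lf 0 2100 0) P.nil))) (P.cons (P.cons (P.lf 3790 0 0) (P.cons (P.lf 666 0 0) P.nil)) (P.cons (P.cons (P.lf 109 0 0) P.nil) P.nil)))))) 1370)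
 (EL.cons 2 (TM.mk (P.cons (P.cons (P.lf 961833552 0 0) (P.cons (P.lf 0 148915985 0) (P.cons (P.lf 0 71743024 0) (P.cons (P.lf 2714965 0 0) (P.lf 678740 0 0))))) (P.cons (P.cons (P.lf 4623986 0 0) (P.cons (P.lf 0 715907 0) (P.cons (P.lf 0 344899 0) (P.cons (P.lf 13050 0 0) (P.lf 3262 0 0))))) (P.cons (P.cons (P.lf 0 2113318 0) (P.cons (P.lf 327192 0 0) (P.cons (P.lf 157629 0 0) (P.cons (P.lf 0 5962 0) P.nil)))) (P.cons (P.cons (P.lf 0 38933 0) (P.cons (P.lf 6027 0 0) (P.cons (P.lf 2902 0 0) P.nil))) (P.cons (P.cons (P.lf 1004 0 0) (P.cons (P.lf 0 154 0) P.nil)) (P.cons (P.cons (P.lf 28 0 0) P.nil) P.nil)))))) 2034)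
 (EL.cons 6 (TM.mk (P.cons (P.cons (P.lf 762508314 0 0) (P.cons (P.lf 0 118055433 0) (P.cons (P.lf 0 56875383 0) (P.cons (P.lf 2152329 0 0) (P.lf 538080 0 0))))) (P.cons (P.cons (P.lf 47318448 0 0) (P.cons (P.lf 0 7326081 0) (P.cons (P.lf 0 3529476 0) (P.cons (P.lf 133563 0 0) (P.lf 33390 0 0))))) (P.cons (P.cons (P.lf 331128 0 0) (P.cons (P.lf 0 51267 0) (P.cons (P.lf 0 24699 0) (P.cons (P.lf 933 0 0) P.nil)))) (P.cons (P.cons (P.lf 0 35940 0) (P.cons (P.lf 5562 0 0) (P.cons (P.lf 2679 0 0) P.nil))) (P.cons (P.cons (P.lf 0 759 0) (P.cons (P.lf 117 0 0) P.nil)) (P.cons (P.cons (P.lf 6 0 0) P.nil) P.nil)))))) 1071)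
 EL.nil))))))
noncomputable def S176_183_512_660_2 : EL := (EL.cons 0 (TM.mk (P.cons (P.cons (P.lf 0 7658428 0) (P.cons (P.lf 229912610 0 0) (P.cons (P.lf 0 88747560 0) (P.cons (P.lf 4687705 0 0) (P.cons (P.lf 2942508 0 0) (P.cons (P.lf 0 218655 0) P.nil)))))) (P.cons (P.cons (P.lf 0 21178013 0) (P.cons (P.lf 0 33312532 0) (P.cons (P.lf 5138176 0 0) (P.cons (P.lf 353147 0 0) (P.cons (P.lf 0 116739 0) P.nil))))) (P.cons (P.cons (P.lf 7623470 0 0) (P.cons (P.lf 0 4630569 0) (P.cons (P.lf 1414652 0 0) (P.cons (P.lf 0 44573 0) P.nil)))) (P.cons (P.cons (P.lf 0 484739 0) (P.cons (P.lf 121423 0 0) (P.cons (P.lf 39121 0 0) P.nil))) (P.cons (P.cons (P.lf 0 25300 0) (P.cons (P.lf 21931 0 0) P.nil)) (P.cons (P.cons (P.lf 1610 0 0) P.nil) P.nil)))))) 318011)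
 (EL.cons 1 (TM.mk (P.cons (P.cons (P.lf 0 1352536 0) (P.cons (P.lf 41611194 0 0) (P.cons (P.lf 0 45641745 0) (P.cons (P.lf 4803655 0 0) (P.cons (P.lf 1718749 0 0) (P.cons (P.lf 0 127714 0) P.nil)))))) (P.cons (P.cons (P.lf 0 4126263 0) (P.cons (P.lf 8840815 0 0) (P.cons (P.lf 0 8846851 0) (P.cons (P.lf 906894 0 0) (P.cons (P.lf 331059 0 0) P.nil))))) (P.cons (P.cons (P.lf 247014 0 0) (P.cons (P.lf 0 1490893 0) (P.cons (P.lf 0 179916 0) (P.cons (P.lf 70604 0 0) P.nil)))) (P.cons (P.cons (P.lf 204906 0 0) (P.cons (P.lf 0 196033 0) (P.cons (P.lf 35043 0 0) P.nil))) (P.cons (P.cons (P.lf 0 14948 0) (P.cons (P.lf 0 221 0) P.nil)) (P.cons (P.cons (P.lf 0 778 0) P.nil) P.nil)))))) 148648)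
 (EL.cons 5 (TM.mk (P.cons (P.cons (P.lf 2812050 0 0) (P.cons (P.lf 0 87036526 0) (P.cons (P.lf 110457509 0 0) (P.cons (P.lf 0 12052067 0) (P.cons (P.lf 0 4196186 0) (P.cons (P.lf 311811 0 0) P.nil)))))) (P.cons (P.cons (P.lf 8065274 0 0) (P.cons (P.lf 0 4381772 0) (P.cons (P.lf 9006874 0 0) (P.cons (P.lf 0 1067525 0) (P.cons (P.lf 0 349435 0) P.nil))))) (P.cons (P.cons (P.lf 0 1955023 0) (P.cons (P.lf 2109357 0 0) (P.cons (P.lf 0 163213 0) (P.cons (P.lf 0 44034 0) P.nil)))) (P.cons (P.cons (P.lf 24565 0 0) (P.cons (P.lf 65739 0 0) (P.cons (P.lf 0 24358 0) P.nil))) (P.cons (P.cons (P.lf 13142 0 0) (P.cons (P.lf 0 5722 0) P.nil)) (P.cons (P.cons (P.lf 0 236 0) P.nil) P.nil)))))) 182436)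
 (EL.cons 9 (TM.mk (P.cons (P.cons (P.lf 78582 0 0) (P.cons (P.lf 0 4667490 0) (P.cons (P.lf 69620137 0 0) (P.cons (P.lf 0 9163533 0) (P.cons (P.lf 0 2779380 0) (P.cons (P.lf 206535 0 0) P.nil)))))) (P.cons (P.cons (P.lf 472338 0 0) (P.cons (P.lf 0 14317252 0) (P.cons (P.lf 9559224 0 0) (P.cons (P.lf 0 831147 0) (P.cons (P.lf 0 344955 0) P.nil))))) (P.cons (P.cons (P.lf 666645 0 0) (P.cons (P.lf 408477 0 0) (P.cons (P.lf 299788 0 0) (P.cons (P.lf 0 52840 0) P.nil)))) (P.cons (P.cons (P.lf 0 130390 0) (P.cons (P.lf 96097 0 0) (P.cons (P.lf 0 9222 0) P.nil))) (P.cons (P.cons (P.lf 3670 0 0) (P.cons (P.lf 1830 0 0) P.nil)) (P.cons (P.cons (P.lf 288 0 0) P.nil) P.nil)))))) 87208)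
 (EL.cons 2 (TM.mk (P.cons (P.cons (P.lf 6718398 0 0) (P.cons (P.lf 0 200564701 0) (P.cons (P.lf 43730021 0 0) (P.cons (P.lf 17282722 0 0) (P.cons (P.lf 0 2241905 0) (P.cons (P.lf 0 434812 0) P.nil)))))) (P.cons (P.cons (P.lf 20223675 0 0) (P.cons (P.lf 0 16472092 0) (P.cons (P.lf 1448977 0 0) (P.cons (P.lf 1211400 0 0) (P.cons (P.lf 0 135945 0) P.nil))))) (P.cons (P.cons (P.lf 0 1761575 0) (P.cons (P.lf 564952 0 0) (P.cons (P.lf 66611 0 0) (P.cons (P.lf 0 30251 0) P.nil)))) (P.cons (P.cons (P.lf 0 85848 0) (P.cons (P.lf 57560 0 0) (P.cons (P.lf 0 3403 0) P.nil))) (P.cons (P.cons (P.lf 4213 0 0) (P.cons (P.lf 73 0 0) P.nil)) (P.cons (P.cons (P.lf 202 0 0) P.nil) P.nil)))))) 80521)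
 (EL.cons 6 (TM.mk (P.cons (P.cons (P.lf 5326110 0 0) (P.cons (P.lf 0 159000744 0) (P.cons (P.lf 34667646 0 0) (P.cons (P.lf 13701144 0 0) (P.cons (P.lf 0 1777302 0) (P.cons (P.lf 0 344700 0) P.nil)))))) (P.cons (P.cons (P.lf 16337544 0 0) (P.cons (P.lf 0 22161108 0) (P.cons (P.lf 3133380 0 0) (P.cons (P.lf 1744728 0 0) (P.cons (P.lf 0 209520 0) P.nil))))) (P.cons (P.cons (P.lf 0 466116 0) (P.cons (P.lf 0 674340 0) (P.cons (P.lf 200250 0 0) (P.cons (P.lf 63270 0 0) P.nil)))) (P.cons (P.cons (P.lf 0 109656 0) (P.cons (P.lf 23358 0 0) (P.cons (P.lf 6762 0 0) P.nil))) (P.cons (P.cons (P.lf 0 2082 0) (P.cons (P.lf 1530 0 0) P.nil)) (P.cons (P.cons (P.lf 120 0 0) P.nil) P.nil)))))) 89748)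
 EL.nil))))))
noncomputable def S176_183_512_660_3 : EL := (EL.cons 0 (TM.mk (P.cons (P.lf 2182330082 0 0) (P.cons (P.lf 0 159586808 0) (P.cons (P.lf 533801 0 0) (P.cons (P.lf 98790 0 0) (P.cons (P.lf 829 0 0) (P.cons (P.lf 0 28 0) P.nil)))))) 112)
 (EL.cons 1 (TM.mk (P.cons (P.lf 1730075681 0 0) (P.cons (P.lf 0 27470073 0) (P.cons (P.lf 0 2743211 0) (P.cons (P.lf 0 9043 0) (P.cons (P.lf 1033 0 0) (P.cons (P.lf 11 0 0) P.nil)))))) 102)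
 (EL.cons 5 (TM.mk (P.cons (P.lf 1371544058 0 0) (P.cons (P.lf 56741974 0 0) (P.cons (P.lf 0 189792 0) (P.cons (P.lf 0 35126 0) (P.cons (P.lf 0 296 0) (P.cons (P.lf 8 0 0) P.nil)))))) 86)
 EL.nil)))
noncomputable def S176_183_512_660_4 : EL := (EL.cons 0 (TM.mk (P.cons (P.cons (P.lf 7621780 0 0) (P.cons (P.lf 0 226353292 0) (P.cons (P.lf 15133450 0 0) (P.lf 5044482 0 0)))) (P.cons (P.cons (P.lf 22349025 0 0) (P.cons (P.lf 2505842 0 0) (P.cons (P.lf 0 167533 0) (P.lf 0 55845 0)))) (P.cons (P.cons (P.lf 0 3765025 0) (P.cons (P.lf 873523 0 0) (P.cons (P.lf 0 58401 0) (P.lf 0 19466 0)))) (P.cons (P.cons (P.lf 122213 0 0) (P.cons (P.lf 4173 0 0) (P.cons (P.lf 0 275 0) P.nil))) (P.cons (P.cons (P.lf 4494 0 0) (P.cons (P.lf 0 1299 0) P.nil)) (P.cons (P.cons (P.lf 0 151 0) P.nil) P.nil)))))) 1180)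
 (EL.cons 1 (TM.mk (P.cons (P.cons (P.lf 6042283 0 0) (P.cons (P.lf 0 179445046 0) (P.cons (P.lf 11997275 0 0) (P.lf 3999091 0 0)))) (P.cons (P.cons (P.lf 18063446 0 0) (P.cons (P.lf 0 8286472 0) (P.cons (P.lf 554013 0 0) (P.lf 184668 0 0)))) (P.cons (P.cons (P.lf 0 1956236 0) (P.cons (P.lf 383415 0 0) (P.cons (P.lf 0 25633 0) (P.lf 0 8542 0)))) (P.cons (P.cons (P.lf 0 31588 0) (P.cons (P.lf 28288 0 0) (P.cons (P.lf 0 1888 0) P.nil))) (P.cons (P.cons (P.lf 4016 0 0) (P.cons (P.lf 118 0 0) P.nil)) (P.cons (P.cons (P.lf 78 0 0) P.nil) P.nil)))))) 1025)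
 (EL.cons 5 (TM.mk (P.cons (P.cons (P.lf 4790112 0 0) (P.cons (P.lf 0 142257816 0) (P.cons (P.lf 9511024 0 0) (P.lf 3170340 0 0)))) (P.cons (P.cons (P.lf 14594302 0 0) (P.cons (P.lf 0 14713322 0) (P.cons (P.lf 983696 0 0) (P.lf 327898 0 0)))) (P.cons (P.cons (P.lf 0 719742 0) (P.cons (P.lf 0 407312 0) (P.cons (P.lf 27230 0 0) (P.lf 9076 0 0)))) (P.cons (P.cons (P.lf 0 79568 0) (P.cons (P.lf 9012 0 0) (P.cons (P.lf 0 600 0) P.nil))) (P.cons (P.cons (P.lf 0 334 0) (P.cons (P.lf 684 0 0) P.nil)) (P.cons (P.cons (P.lf 88 0 0) P.nil) P.nil)))))) 724)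
 EL.nil)))
noncomputable def S176_183_512_660_5 : EL := (EL.cons 0 (TM.mk (P.cons (P.cons (P.lf 26618 0 0) (P.cons (P.lf 0 1581075 0) (P.cons (P.lf 23583278 0 0) (P.cons (P.lf 0 3104075 0) (P.cons (P.lf 0 941493 0) (P.cons (P.lf 69960 0 0) P.nil)))))) (P.cons (P.cons (P.lf 158053 0 0) (P.cons (P.lf 0 4734237 0) (P.cons (P.lf 1513541 0 0) (P.cons (P.lf 0 54551 0) (P.cons (P.lf 0 48002 0) P.nil))))) (P.cons (P.cons (P.lf 214126 0 0) (P.cons (P.lf 492635 0 0) (P.cons (P.lf 0 129471 0) (P.cons (P.lf 1928 0 0) P.nil)))) (P.cons (P.cons (P.lf 0 60641 0) (P.cons (P.lf 21174 0 0) (P.cons (P.lf 0 8688 0) P.nil))) (P.cons (P.cons (P.lf 4535 0 0) (P.cons (P.lf 0 1945 0) P.nil)) (P.cons (P.cons (P.lf 5 0 0) P.nil) P.nil)))))) 47778)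
 (EL.cons 1 (TM.mk (P.cons (P.cons (P.lf 21101 0 0) (P.cons (P.lf 0 1253420 0) (P.cons (P.lf 18696005 0 0) (P.cons (P.lf 0 2460802 0) (P.cons (P.lf 0 746381 0) (P.cons (P.lf 55462 0 0) P.nil)))))) (P.cons (P.cons (P.lf 126506 0 0) (P.cons (P.lf 0 3824895 0) (P.cons (P.lf 2270208 0 0) (P.cons (P.lf 0 184125 0) (P.cons (P.lf 0 80782 0) P.nil))))) (P.cons (P.cons (P.lf 176973 0 0) (P.cons (P.lf 172726 0 0) (P.cons (P.lf 10100 0 0) (P.cons (P.lf 0 6742 0) P.nil)))) (P.cons (P.cons (P.lf 0 38056 0) (P.cons (P.lf 30166 0 0) (P.cons (P.lf 0 7921 0) P.nil))) (P.cons (P.cons (P.lf 1256 0 0) (P.cons (P.lf 0 71 0) P.nil)) (P.cons (P.cons (P.lf 114 0 0) P.nil) P.nil)))))) 34846)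
 (EL.cons 5 (TM.mk (P.cons (P.cons (P.lf 16728 0 0) (P.cons (P.lf 0 993668 0) (P.cons (P.lf 14821544 0 0) (P.cons (P.lf 0 1950838 0) (P.cons (P.lf 0 591706 0) (P.cons (P.lf 43968 0 0) P.nil)))))) (P.cons (P.cons (P.lf 101248 0 0) (P.cons (P.lf 0 3089132 0) (P.cons (P.lf 2648258 0 0) (P.cons (P.lf 0 257650 0) (P.cons (P.lf 0 97916 0) P.nil))))) (P.cons (P.cons (P.lf 146080 0 0) (P.cons (P.lf 0 39000 0) (P.cons (P.lf 145962 0 0) (P.cons (P.lf 0 18298 0) P.nil)))) (P.cons (P.cons (P.lf 0 21900 0) (P.cons (P.lf 24502 0 0) (P.cons (P.lf 16 0 0) P.nil))) (P.cons (P.cons (P.lf 0 388 0) (P.cons (P.lf 1300 0 0) P.nil)) (P.cons (P.cons (P.lf 92 0 0) P.nil) P.nil)))))) 25868)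
 EL.nil)))
noncomputable def S176_183_512_660_6 : EL := (EL.cons 12 (TM.mk (P.lf 8589934592 0 0) 0)
 (EL.cons 3 (TM.mk (P.cons (P.lf 0 2164836753 0) (P.cons (P.lf 79153788 0 0) (P.cons (P.lf 1182303 0 0) (P.cons (P.lf 0 5771 0) (P.cons (P.lf 0 300 0) (P.cons (P.lf 0 0 0) P.nil)))))) 52)
 (EL.cons 7 (TM.mk (P.cons (P.lf 0 1716207575 0) (P.cons (P.lf 0 35500503 0) (P.cons (P.lf 485915 0 0) (P.cons (P.lf 11926 0 0) (P.cons (P.lf 8 0 0) (P.cons (P.lf 0 2 0) P.nil)))))) 45)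
 EL.nil)))
noncomputable def S176_183_512_660_7 : EL := (EL.cons 12 (TM.mk (P.cons (P.cons (P.lf 30000320 0 0) (P.cons (P.lf 0 890955952 0) (P.cons (P.lf 59567232 0 0) (P.lf 19855744 0 0)))) (P.cons (P.cons (P.lf 90162496 0 0) (P.cons (P.lf 0 55289432 0) (P.cons (P.lf 3696520 0 0) (P.lf 1232168 0 0)))) (P.cons (P.cons (P.lf 0 8233674 0) (P.cons (P.lf 0 386904 0) (P.cons (P.lf 25864 0 0) (P.lf 8624 0 0)))) (P.cons (P.cons (P.lf 0 144460 0) (P.cons (P.lf 41992 0 0) (P.cons (P.lf 0 2800 0) P.nil))) (P.cons (P.cons (P.lf 5054 0 0) (P.cons (P.lf 888 0 0) P.nil)) (P.cons (P.cons (P.lf 146 0 0) P.nil) P.nil)))))) 1802)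
 (EL.cons 3 (TM.mk (P.cons (P.cons (P.lf 1090930403 0 0) (P.cons (P.lf 0 449077736 0) (P.cons (P.lf 30024286 0 0) (P.lf 10008094 0 0)))) (P.cons (P.cons (P.lf 0 210446245 0) (P.cons (P.lf 0 11448294 0) (P.cons (P.lf 765404 0 0) (P.lf 255130 0 0)))) (P.cons (P.cons (P.lf 0 4965926 0) (P.cons (P.lf 1069196 0 0) (P.cons (P.lf 0 71484 0) (P.lf 0 23824 0)))) (P.cons (P.cons (P.lf 212212 0 0) (P.cons (P.lf 42318 0 0) (P.cons (P.lf 0 2822 0) P.nil))) (P.cons (P.cons (P.lf 8927 0 0) (P.cons (P.lf 0 356 0) P.nil)) (P.cons (P.cons (P.lf 0 25 0) P.nil) P.nil)))))) 3568)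
 (EL.cons 7 (TM.mk (P.cons (P.cons (P.lf 0 498667514 0) (P.cons (P.lf 480123936 0 0) (P.cons (P.lf 0 32099972 0) (P.lf 0 10699992 0)))) (P.cons (P.cons (P.lf 94385214 0 0) (P.cons (P.lf 5134569 0 0) (P.cons (P.lf 0 343287 0) (P.lf 0 114431 0)))) (P.cons (P.cons (P.lf 0 474493 0) (P.cons (P.lf 0 626503 0) (P.cons (P.lf 41882 0 0) (P.lf 13961 0 0)))) (P.cons (P.cons (P.lf 0 151196 0) (P.cons (P.lf 899 0 0) (P.cons (P.lf 0 57 0) P.nil))) (P.cons (P.cons (P.lf 492 0 0) (P.cons (P.lf 720 0 0) P.nil)) (P.cons (P.cons (P.lf 132 0 0) P.nil) P.nil)))))) 3045)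
 (EL.cons 10 (TM.mk (P.cons (P.cons (P.lf 0 1908247191 0) (P.cons (P.lf 295444584 0 0) (P.cons (P.lf 142335882 0 0) (P.cons (P.lf 0 5386407 0) (P.lf 0 1346601 0))))) (P.cons (P.cons (P.lf 0 78945849 0) (P.cons (P.lf 12222798 0 0) (P.cons (P.lf 5888559 0 0) (P.cons (P.lf 0 222840 0) (P.lf 0 55710 0))))) (P.cons (P.cons (P.lf 264060 0 0) (P.cons (P.lf 0 40881 0) (P.cons (P.lf 0 19695 0) (P.cons (P.lf 744 0 0) P.nil)))) (P.cons (P.cons (P.lf 48870 0 0) (P.cons (P.lf 0 7566 0) (P.cons (P.lf 0 3645 0) P.nil))) (P.cons (P.cons (P.lf 411 0 0) (P.cons (P.lf 0 63 0) P.nil)) (P.cons (P.cons (P.lf 0 9 0) P.nil) P.nil)))))) 645)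
 EL.nil))))
noncomputable def S176_183_512_660_8 : EL := (EL.cons 12 (TM.mk (P.cons (P.cons (P.lf 104776 0 0) (P.cons (P.lf 0 6223320 0) (P.cons (P.lf 92826850 0 0) (P.cons (P.lf 0 12218044 0) (P.cons (P.lf 0 3705840 0) (P.cons (P.lf 275380 0 0) P.nil)))))) (P.cons (P.cons (P.lf 629784 0 0) (P.cons (P.lf 0 19089670 0) (P.cons (P.lf 12745632 0 0) (P.cons (P.lf 0 1108196 0) (P.cons (P.lf 0 459940 0) P.nil))))) (P.cons (P.cons (P.lf 888860 0 0) (P.cons (P.lf 544636 0 0) (P.cons (P.lf 399718 0 0) (P.cons (P.lf 0 70454 0) P.nil)))) (P.cons (P.cons (P.lf 0 173854 0) (P.cons (P.lf 128130 0 0) (P.cons (P.lf 0 12296 0) P.nil))) (P.cons (P.cons (P.lf 4894 0 0) (P.cons (P.lf 2440 0 0) P.nil)) (P.cons (P.cons (P.lf 384 0 0) P.nil) P.nil)))))) 116248)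
 (EL.cons 3 (TM.mk (P.cons (P.cons (P.lf 7646545 0 0) (P.cons (P.lf 0 231009827 0) (P.cons (P.lf 131891666 0 0) (P.cons (P.lf 0 10422475 0) (P.cons (P.lf 0 4669731 0) (P.cons (P.lf 347005 0 0) P.nil)))))) (P.cons (P.cons (P.lf 21589242 0 0) (P.cons (P.lf 15350817 0 0) (P.cons (P.lf 9168509 0 0) (P.cons (P.lf 0 1705311 0) (P.cons (P.lf 0 408825 0) P.nil))))) (P.cons (P.cons (P.lf 0 6325670 0) (P.cons (P.lf 4583023 0 0) (P.cons (P.lf 0 348868 0) (P.cons (P.lf 0 96456 0) P.nil)))) (P.cons (P.cons (P.lf 211883 0 0) (P.cons (P.lf 139215 0 0) (P.cons (P.lf 0 41681 0) P.nil))) (P.cons (P.cons (P.lf 25109 0 0) (P.cons (P.lf 0 7927 0) P.nil)) (P.cons (P.cons (P.lf 0 183 0) P.nil) P.nil)))))) 201314)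
 (EL.cons 7 (TM.mk (P.cons (P.cons (P.lf 0 3462251 0) (P.cons (P.lf 105554796 0 0) (P.cons (P.lf 0 88191927 0) (P.cons (P.lf 8496577 0 0) (P.cons (P.lf 3253650 0 0) (P.cons (P.lf 0 241774 0) P.nil)))))) (P.cons (P.cons (P.lf 0 9682783 0) (P.cons (P.lf 0 6884845 0) (P.cons (P.lf 0 4112079 0) (P.cons (P.lf 764828 0 0) (P.cons (P.lf 183360 0 0) P.nil))))) (P.cons (P.cons (P.lf 3114230 0 0) (P.cons (P.lf 0 1858412 0) (P.cons (P.lf 274170 0 0) (P.cons (P.lf 21367 0 0) P.nil)))) (P.cons (P.cons (P.lf 0 206281 0) (P.cons (P.lf 13896 0 0) (P.cons (P.lf 11458 0 0) P.nil))) (P.cons (P.cons (P.lf 0 5812 0) (P.cons (P.lf 5336 0 0) P.nil)) (P.cons (P.cons (P.lf 513 0 0) P.nil) P.nil)))))) 105369)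
 (EL.cons 10 (TM.mk (P.cons (P.cons (P.lf 0 13329090 0) (P.cons (P.lf 397914000 0 0) (P.cons (P.lf 0 86758980 0) (P.cons (P.lf 0 34288374 0) (P.cons (P.lf 4447872 0 0) (P.cons (P.lf 862656 0 0) P.nil)))))) (P.cons (P.cons (P.lf 0 40610490 0) (P.cons (P.lf 47229198 0 0) (P.cons (P.lf 0 6046932 0) (P.cons (P.lf 0 3657084 0) (P.cons (P.lf 432342 0 0) P.nil))))) (P.cons (P.cons (P.lf 2002770 0 0) (P.cons (P.lf 823314 0 0) (P.cons (P.lf 0 400638 0) (P.cons (P.lf 0 92412 0) P.nil)))) (P.cons (P.cons (P.lf 221406 0 0) (P.cons (P.lf 0 59358 0) (P.cons (P.lf 0 10956 0) P.nil))) (P.cons (P.cons (P.lf 930 0 0) (P.cons (P.lf 0 2046 0) P.nil)) (P.cons (P.cons (P.lf 0 246 0) P.nil) P.nil)))))) 188166)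
 EL.nil))))
noncomputable def S176_183_512_660_9 : EL := (EL.cons 3 (TM.mk (P.cons (P.lf 0 2164836753 0) (P.cons (P.lf 79153788 0 0) (P.cons (P.lf 1182303 0 0) (P.cons (P.lf 0 5771 0) (P.cons (P.lf 0 300 0) (P.cons (P.lf 0 0 0) P.nil)))))) 52)
 (EL.cons 7 (TM.mk (P.cons (P.lf 0 1716207575 0) (P.cons (P.lf 0 35500503 0) (P.cons (P.lf 485915 0 0) (P.cons (P.lf 11926 0 0) (P.cons (P.lf 8 0 0) (P.cons (P.lf 0 2 0) P.nil)))))) 45)
 EL.nil))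
noncomputable def S176_183_512_660_10 : EL := (EL.cons 3 (TM.mk (P.cons (P.cons (P.lf 0 7560685 0) (P.cons (P.lf 224538868 0 0) (P.cons (P.lf 0 15012143 0) (P.lf 0 5004047 0)))) (P.cons (P.cons (P.lf 0 22446322 0) (P.cons (P.lf 5724147 0 0) (P.cons (P.lf 0 382702 0) (P.lf 0 127565 0)))) (P.cons (P.cons (P.lf 2910001 0 0) (P.cons (P.lf 0 534598 0) (P.cons (P.lf 35742 0 0) (P.lf 11912 0 0)))) (P.cons (P.cons (P.lf 0 27074 0) (P.cons (P.lf 0 21159 0) (P.cons (P.lf 1411 0 0) P.nil))) (P.cons (P.cons (P.lf 0 3799 0) (P.cons (P.lf 178 0 0) P.nil)) (P.cons (P.cons (P.lf 0 7 0) P.nil) P.nil)))))) 831)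
 (EL.cons 7 (TM.mk (P.cons (P.cons (P.lf 0 5993849 0) (P.cons (P.lf 178006635 0 0) (P.cons (P.lf 0 11901107 0) (P.lf 0 3967035 0)))) (P.cons (P.cons (P.lf 0 18137808 0) (P.cons (P.lf 14728578 0 0) (P.cons (P.lf 0 984717 0) (P.lf 0 328238 0)))) (P.cons (P.cons (P.lf 1274102 0 0) (P.cons (P.lf 255401 0 0) (P.cons (P.lf 0 17074 0) (P.lf 0 5692 0)))) (P.cons (P.cons (P.lf 68032 0 0) (P.cons (P.lf 0 11155 0) (P.cons (P.lf 744 0 0) P.nil))) (P.cons (P.cons (P.lf 0 753 0) (P.cons (P.lf 0 450 0) P.nil)) (P.cons (P.cons (P.lf 0 69 0) P.nil) P.nil)))))) 554)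
 EL.nil))
noncomputable def S176_183_512_660_11 : EL := (EL.cons 3 (TM.mk (P.cons (P.cons (P.lf 0 26405 0) (P.cons (P.lf 1568401 0 0) (P.cons (P.lf 0 23394238 0) (P.cons (P.lf 3079193 0 0) (P.cons (P.lf 933945 0 0) (P.cons (P.lf 0 69401 0) P.nil)))))) (P.cons (P.cons (P.lf 0 157752 0) (P.cons (P.lf 4753635 0 0) (P.cons (P.lf 0 2356783 0) (P.cons (P.lf 166701 0 0) (P.cons (P.lf 81765 0 0) P.nil))))) (P.cons (P.cons (P.lf 0 218192 0) (P.cons (P.lf 0 314021 0) (P.cons (P.lf 29486 0 0) (P.cons (P.lf 5862 0 0) P.nil)))) (P.cons (P.cons (P.lf 52091 0 0) (P.cons (P.lf 0 29895 0) (P.cons (P.lf 8473 0 0) P.nil))) (P.cons (P.cons (P.lf 0 2713 0) (P.cons (P.lf 653 0 0) P.nil)) (P.cons (P.cons (P.lf 0 75 0) P.nil) P.nil)))))) 38866)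
 (EL.cons 7 (TM.mk (P.cons (P.cons (P.lf 0 20933 0) (P.cons (P.lf 1243374 0 0) (P.cons (P.lf 0 18546141 0) (P.cons (P.lf 2441077 0 0) (P.cons (P.lf 740400 0 0) (P.cons (P.lf 0 55018 0) P.nil)))))) (P.cons (P.cons (P.lf 0 126259 0) (P.cons (P.lf 3839699 0 0) (P.cons (P.lf 0 2930121 0) (P.cons (P.lf 271904 0 0) (P.cons (P.lf 107208 0 0) P.nil))))) (P.cons (P.cons (P.lf 0 180184 0) (P.cons (P.lf 0 30272 0) (P.cons (P.lf 0 127284 0) (P.cons (P.lf 17965 0 0) P.nil)))) (P.cons (P.cons (P.lf 31097 0 0) (P.cons (P.lf 0 28938 0) (P.cons (P.lf 1654 0 0) P.nil))) (P.cons (P.cons (P.lf 0 208 0) (P.cons (P.lf 0 1012 0) P.nil)) (P.cons (P.cons (P.lf 0 105 0) P.nil) P.nil)))))) 27521)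
 EL.nil))
noncomputable def S176_183_512_660_12 : EL := (EL.cons 4 (TM.mk (P.cons (P.lf 2164836753 0 0) (P.cons (P.lf 0 79153788 0) (P.cons (P.lf 0 1182303 0) (P.cons (P.lf 5771 0 0) (P.cons (P.lf 300 0 0) (P.cons (P.lf 0 0 0) P.nil)))))) 52)
 (EL.cons 8 (TM.mk (P.cons (P.lf 1716207575 0 0) (P.cons (P.lf 35500503 0 0) (P.cons (P.lf 0 485915 0) (P.cons (P.lf 0 11926 0) (P.cons (P.lf 0 8 0) (P.cons (P.lf 2 0 0) P.nil)))))) 45)
 EL.nil))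
noncomputable def S176_183_512_660_13 : EL := (EL.cons 4 (TM.mk (P.cons (P.cons (P.lf 7560685 0 0) (P.cons (P.lf 0 224538868 0) (P.cons (P.lf 15012143 0 0) (P.lf 5004047 0 0)))) (P.cons (P.cons (P.lf 22446322 0 0) (P.cons (P.lf 0 5724147 0) (P.cons (P.lf 382702 0 0) (P.lf 127565 0 0)))) (P.cons (P.cons (P.lf 0 2910001 0) (P.cons (P.lf 534598 0 0) (P.cons (P.lf 0 35742 0) (P.lf 0 11912 0)))) (P.cons (P.cons (P.lf 27074 0 0) (P.cons (P.lf 21159 0 0) (P.cons (P.lf 0 1411 0) P.nil))) (P.cons (P.cons (P.lf 3799 0 0) (P.cons (P.lf 0 178 0) P.nil)) (P.cons (P.cons (P.lf 7 0 0) P.nil) P.nil)))))) 831)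
 (EL.cons 8 (TM.mk (P.cons (P.cons (P.lf 5993849 0 0) (P.cons (P.lf 0 178006635 0) (P.cons (P.lf 11901107 0 0) (P.lf 3967035 0 0)))) (P.cons (P.cons (P.lf 18137808 0 0) (P.cons (P.lf 0 14728578 0) (P.cons (P.lf 984717 0 0) (P.lf 328238 0 0)))) (P.cons (P.cons (P.lf 0 1274102 0) (P.cons (P.lf 0 255401 0) (P.cons (P.lf 17074 0 0) (P.lf 5692 0 0)))) (P.cons (P.cons (P.lf 0 68032 0) (P.cons (P.lf 11155 0 0) (P.cons (P.lf 0 744 0) P.nil))) (P.cons (P.cons (P.lf 753 0 0) (P.cons (P.lf 450 0 0) P.nil)) (P.cons (P.cons (P.lf 69 0 0) P.nil) P.nil)))))) 554)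
 EL.nil))
noncomputable def S176_183_512_660_14 : EL := (EL.cons 4 (TM.mk (P.cons (P.cons (P.lf 26405 0 0) (P.cons (P.lf 0 1568401 0) (P.cons (P.lf 23394238 0 0) (P.cons (P.lf 0 3079193 0) (P.cons (P.lf 0 933945 0) (P.cons (P.lf 69401 0 0) P.nil)))))) (P.cons (P.cons (P.lf 157752 0 0) (P.cons (P.lf 0 4753635 0) (P.cons (P.lf 2356783 0 0) (P.cons (P.lf 0 166701 0) (P.cons (P.lf 0 81765 0) P.nil))))) (P.cons (P.cons (P.lf 218192 0 0) (P.cons (P.lf 314021 0 0) (P.cons (P.lf 0 29486 0) (P.cons (P.lf 0 5862 0) P.nil)))) (P.cons (P.cons (P.lf 0 52091 0) (P.cons (P.lf 29895 0 0) (P.cons (P.lf 0 8473 0) P.nil))) (P.cons (P.cons (P.lf 2713 0 0) (P.cons (P.lf 0 653 0) P.nil)) (P.cons (P.cons (P.lf 75 0 0) P.nil) P.nil)))))) 38866)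
 (EL.cons 8 (TM.mk (P.cons (P.cons (P.lf 20933 0 0) (P.cons (P.lf 0 1243374 0) (P.cons (P.lf 18546141 0 0) (P.cons (P.lf 0 2441077 0) (P.cons (P.lf 0 740400 0) (P.cons (P.lf 55018 0 0) P.nil)))))) (P.cons (P.cons (P.lf 126259 0 0) (P.cons (P.lf 0 3839699 0) (P.cons (P.lf 2930121 0 0) (P.cons (P.lf 0 271904 0) (P.cons (P.lf 0 107208 0) P.nil))))) (P.cons (P.cons (P.lf 180184 0 0) (P.cons (P.lf 30272 0 0) (P.cons (P.lf 127284 0 0) (P.cons (P.lf 0 17965 0) P.nil)))) (P.cons (P.cons (P.lf 0 31097 0) (P.cons (P.lf 28938 0 0) (P.cons (P.lf 0 1654 0) P.nil))) (P.cons (P.cons (P.lf 208 0 0) (P.cons (P.lf 1012 0 0) P.nil)) (P.cons (P.cons (P.lf 105 0 0) P.nil) P.nil)))))) 27521)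
 EL.nil))
noncomputable def S176_183_512_660_15 : EL := (EL.cons 4 (TM.mk (P.cons (P.lf 0 1163909377 0) (P.cons (P.lf 85112964 0 0) (P.cons (P.lf 0 284694 0) (P.cons (P.lf 0 52688 0) (P.cons (P.lf 0 442 0) (P.cons (P.lf 15 0 0) P.nil)))))) 63)
 (EL.cons 8 (TM.mk (P.cons (P.lf 0 922707030 0) (P.cons (P.lf 14650706 0 0) (P.cons (P.lf 1463046 0 0) (P.cons (P.lf 4823 0 0) (P.cons (P.lf 0 551 0) (P.cons (P.lf 0 6 0) P.nil)))))) 51)
 EL.nil))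
noncomputable def S176_183_512_660_16 : EL := (EL.cons 4 (TM.mk (P.cons (P.cons (P.lf 0 4064949 0) (P.cons (P.lf 120721755 0 0) (P.cons (P.lf 0 8071173 0) (P.lf 0 2690390 0)))) (P.cons (P.cons (P.lf 0 11919480 0) (P.cons (P.lf 0 1336449 0) (P.cons (P.lf 89351 0 0) (P.lf 29784 0 0)))) (P.cons (P.cons (P.lf 2008013 0 0) (P.cons (P.lf 0 465879 0) (P.cons (P.lf 31147 0 0) (P.lf 10381 0 0)))) (P.cons (P.cons (P.lf 0 65180 0) (P.cons (P.lf 0 2225 0) (P.cons (P.lf 147 0 0) P.nil))) (P.cons (P.cons (P.lf 0 2397 0) (P.cons (P.lf 692 0 0) P.nil)) (P.cons (P.cons (P.lf 80 0 0) P.nil) P.nil)))))) 638)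
 (EL.cons 8 (TM.mk (P.cons (P.cons (P.lf 0 3222551 0) (P.cons (P.lf 95704025 0 0) (P.cons (P.lf 0 6398547 0) (P.lf 0 2132849 0)))) (P.cons (P.cons (P.lf 0 9633838 0) (P.cons (P.lf 4419452 0 0) (P.cons (P.lf 0 295474 0) (P.lf 0 98490 0)))) (P.cons (P.cons (P.lf 1043326 0 0) (P.cons (P.lf 0 204488 0) (P.cons (P.lf 13671 0 0) (P.lf 4556 0 0)))) (P.cons (P.cons (P.lf 16847 0 0) (P.cons (P.lf 0 15087 0) (P.cons (P.lf 1007 0 0) P.nil))) (P.cons (P.cons (P.lf 0 2142 0) (P.cons (P.lf 0 63 0) P.nil)) (P.cons (P.cons (P.lf 0 42 0) P.nil) P.nil)))))) 537)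
 EL.nil))
noncomputable def S176_183_512_660_17 : EL := (EL.cons 4 (TM.mk (P.cons (P.cons (P.lf 0 14196 0) (P.cons (P.lf 843240 0 0) (P.cons (P.lf 0 12577748 0) (P.cons (P.lf 1655506 0 0) (P.cons (P.lf 502129 0 0) (P.cons (P.lf 0 37312 0) P.nil)))))) (P.cons (P.cons (P.lf 0 84295 0) (P.cons (P.lf 2524926 0 0) (P.cons (P.lf 0 807222 0) (P.cons (P.lf 29094 0 0) (P.cons (P.lf 25601 0 0) P.nil))))) (P.cons (P.cons (P.lf 0 114200 0) (P.cons (P.lf 0 262739 0) (P.cons (P.lf 69051 0 0) (P.cons (P.lf 0 1028 0) P.nil)))) (P.cons (P.cons (P.lf 32341 0 0) (P.cons (P.lf 0 11293 0) (P.cons (P.lf 4634 0 0) P.nil))) (P.cons (P.cons (P.lf 0 2418 0) (P.cons (P.lf 1037 0 0) P.nil)) (P.cons (P.cons (P.lf 0 2 0) P.nil) P.nil)))))) 25492)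
 (EL.cons 8 (TM.mk (P.cons (P.cons (P.lf 0 11254 0) (P.cons (P.lf 668491 0 0) (P.cons (P.lf 0 9971203 0) (P.cons (P.lf 1312428 0 0) (P.cons (P.lf 398070 0 0) (P.cons (P.lf 0 29580 0) P.nil)))))) (P.cons (P.cons (P.lf 0 67470 0) (P.cons (P.lf 2039944 0 0) (P.cons (P.lf 0 1210778 0) (P.cons (P.lf 98200 0 0) (P.cons (P.lf 43084 0 0) P.nil))))) (P.cons (P.cons (P.lf 0 94386 0) (P.cons (P.lf 0 92121 0) (P.cons (P.lf 0 5387 0) (P.cons (P.lf 3596 0 0) P.nil)))) (P.cons (P.cons (P.lf 20297 0 0) (P.cons (P.lf 0 16089 0) (P.cons (P.lf 4225 0 0) P.nil))) (P.cons (P.cons (P.lf 0 670 0) (P.cons (P.lf 38 0 0) P.nil)) (P.cons (P.cons (P.lf 0 61 0) P.nil) P.nil)))))) 18573)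
 EL.nil))
noncomputable def S176_183_512_660_18 : EL := (EL.cons 4 (TM.mk (P.cons (P.lf 625767756 0 0) (P.cons (P.lf 0 68640586 0) (P.cons (P.lf 1484461 0 0) (P.cons (P.lf 49390 0 0) (P.cons (P.lf 0 915 0) (P.cons (P.lf 0 37 0) P.nil)))))) 58)
 (EL.cons 8 (TM.mk (P.cons (P.lf 496086997 0 0) (P.cons (P.lf 0 26015476 0) (P.cons (P.lf 0 769525 0) (P.cons (P.lf 31791 0 0) (P.cons (P.lf 868 0 0) (P.cons (P.lf 0 8 0) P.nil)))))) 45)
 EL.nil))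
noncomputable def S176_183_512_660_19 : EL := (EL.cons 4 (TM.mk (P.cons (P.cons (P.lf 2185491 0 0) (P.cons (P.lf 0 64905209 0) (P.cons (P.lf 4339410 0 0) (P.lf 1446469 0 0)))) (P.cons (P.cons (P.lf 6328515 0 0) (P.cons (P.lf 3091687 0 0) (P.cons (P.lf 0 206702 0) (P.lf 0 68900 0)))) (P.cons (P.cons (P.lf 0 1315101 0) (P.cons (P.lf 259651 0 0) (P.cons (P.lf 0 17359 0) (P.lf 0 5786 0)))) (P.cons (P.cons (P.lf 71023 0 0) (P.cons (P.lf 0 8526 0) (P.cons (P.lf 570 0 0) P.nil))) (P.cons (P.cons (P.lf 614 0 0) (P.cons (P.lf 0 559 0) P.nil)) (P.cons (P.cons (P.lf 0 111 0) P.nil) P.nil)))))) 683)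
 (EL.cons 8 (TM.mk (P.cons (P.cons (P.lf 1732582 0 0) (P.cons (P.lf 0 51454601 0) (P.cons (P.lf 3440134 0 0) (P.lf 1146711 0 0)))) (P.cons (P.cons (P.lf 5116216 0 0) (P.cons (P.lf 0 494733 0) (P.cons (P.lf 33076 0 0) (P.lf 11025 0 0)))) (P.cons (P.cons (P.lf 0 751265 0) (P.cons (P.lf 224920 0 0) (P.cons (P.lf 0 15037 0) (P.lf 0 5012 0)))) (P.cons (P.cons (P.lf 8627 0 0) (P.cons (P.lf 5252 0 0) (P.cons (P.lf 0 350 0) P.nil))) (P.cons (P.cons (P.lf 1803 0 0) (P.cons (P.lf 0 335 0) P.nil)) (P.cons (P.cons (P.lf 0 15 0) P.nil) P.nil)))))) 409)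
 EL.nil))
noncomputable def S176_183_512_660_20 : EL := (EL.cons 4 (TM.mk (P.cons (P.cons (P.lf 7632 0 0) (P.cons (P.lf 0 453361 0) (P.cons (P.lf 6762338 0 0) (P.cons (P.lf 0 890070 0) (P.cons (P.lf 0 269966 0) (P.cons (P.lf 20060 0 0) P.nil)))))) (P.cons (P.cons (P.lf 45041 0 0) (P.cons (P.lf 0 1340932 0) (P.cons (P.lf 186743 0 0) (P.cons (P.lf 16900 0 0) (P.cons (P.lf 0 3893 0) P.nil))))) (P.cons (P.cons (P.lf 59737 0 0) (P.cons (P.lf 191142 0 0) (P.cons (P.lf 0 56686 0) (P.cons (P.lf 1610 0 0) P.nil)))) (P.cons (P.cons (P.lf 0 19657 0) (P.cons (P.lf 1647 0 0) (P.cons (P.lf 0 1352 0) P.nil))) (P.cons (P.cons (P.lf 1902 0 0) (P.cons (P.lf 0 860 0) P.nil)) (P.cons (P.cons (P.lf 0 35 0) P.nil) P.nil)))))) 17286)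
 (EL.cons 8 (TM.mk (P.cons (P.cons (P.lf 6050 0 0) (P.cons (P.lf 0 359409 0) (P.cons (P.lf 5360947 0 0) (P.cons (P.lf 0 705618 0) (P.cons (P.lf 0 214020 0) (P.cons (P.lf 15903 0 0) P.nil)))))) (P.cons (P.cons (P.lf 36053 0 0) (P.cons (P.lf 0 1083620 0) (P.cons (P.lf 454951 0 0) (P.cons (P.lf 0 26996 0) (P.cons (P.lf 0 15338 0) P.nil))))) (P.cons (P.cons (P.lf 49416 0 0) (P.cons (P.lf 89826 0 0) (P.cons (P.lf 0 23832 0) (P.cons (P.lf 381 0 0) P.nil)))) (P.cons (P.cons (P.lf 0 12788 0) (P.cons (P.lf 7437 0 0) (P.cons (P.lf 0 2718 0) P.nil))) (P.cons (P.cons (P.lf 731 0 0) (P.cons (P.lf 0 367 0) P.nil)) (P.cons (P.cons (P.lf 26 0 0) P.nil) P.nil)))))) 11812)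
 EL.nil))
noncomputable def S176_183_512_660_21 : EL := (EL.cons 4 (TM.mk (P.cons (P.cons (P.lf 0 1098491088 0) (P.cons (P.lf 673616604 0 0) (P.cons (P.lf 0 45036429 0) (P.lf 0 15012141 0)))) (P.cons (P.cons (P.lf 187999923 0 0) (P.cons (P.lf 17172441 0 0) (P.cons (P.lf 0 1148106 0) (P.lf 0 382695 0)))) (P.cons (P.cons (P.lf 7875927 0 0) (P.cons (P.lf 0 1603794 0) (P.cons (P.lf 107226 0 0) (P.lf 35736 0 0)))) (P.cons (P.cons (P.lf 0 239286 0) (P.cons (P.lf 0 63477 0) (P.cons (P.lf 4233 0 0) P.nil))) (P.cons (P.cons (P.lf 0 12726 0) (P.cons (P.lf 534 0 0) P.nil)) (P.cons (P.cons (P.lf 18 0 0) P.nil) P.nil)))))) 2718)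
 (EL.cons 8 (TM.mk (P.cons (P.cons (P.lf 492673665 0 0) (P.cons (P.lf 0 302117301 0) (P.cons (P.lf 20198865 0 0) (P.lf 6732957 0 0)))) (P.cons (P.cons (P.lf 0 112523022 0) (P.cons (P.lf 9594009 0 0) (P.cons (P.lf 0 641430 0) (P.lf 0 213807 0)))) (P.cons (P.cons (P.lf 1748595 0 0) (P.cons (P.lf 881904 0 0) (P.cons (P.lf 0 58956 0) (P.lf 0 19653 0)))) (P.cons (P.cons (P.lf 219228 0 0) (P.cons (P.lf 0 12054 0) (P.cons (P.lf 801 0 0) P.nil))) (P.cons (P.cons (P.lf 0 1245 0) (P.cons (P.lf 0 1170 0) P.nil)) (P.cons (P.cons (P.lf 0 201 0) P.nil) P.nil)))))) 2472)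
 (EL.cons 11 (TM.mk (P.cons (P.cons (P.lf 1908247191 0 0) (P.cons (P.lf 0 295444584 0) (P.cons (P.lf 0 142335882 0) (P.cons (P.lf 5386407 0 0) (P.lf 1346601 0 0))))) (P.cons (P.cons (P.lf 78945849 0 0) (P.cons (P.lf 0 12222798 0) (P.cons (P.lf 0 5888559 0) (P.cons (P.lf 222840 0 0) (P.lf 55710 0 0))))) (P.cons (P.cons (P.lf 0 264060 0) (P.cons (P.lf 40881 0 0) (P.cons (P.lf 19695 0 0) (P.cons (P.lf 0 744 0) P.nil)))) (P.cons (P.cons (P.lf 0 48870 0) (P.cons (P.lf 7566 0 0) (P.cons (P.lf 3645 0 0) P.nil))) (P.cons (P.cons (P.lf 0 411 0) (P.cons (P.lf 63 0 0) P.nil)) (P.cons (P.cons (P.lf 9 0 0) P.nil) P.nil)))))) 645)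
 EL.nil)))
noncomputable def S176_183_512_660_22 : EL := (EL.cons 4 (TM.mk (P.cons (P.cons (P.lf 0 3836475 0) (P.cons (P.lf 116289114 0 0) (P.cons (P.lf 0 77642952 0) (P.cons (P.lf 6750834 0 0) (P.cons (P.lf 2801838 0 0) (P.cons (P.lf 0 208203 0) P.nil)))))) (P.cons (P.cons (P.lf 0 10873497 0) (P.cons (P.lf 0 5298591 0) (P.cons (P.lf 0 5762646 0) (P.cons (P.lf 936006 0 0) (P.cons (P.lf 245295 0 0) P.nil))))) (P.cons (P.cons (P.lf 3053739 0 0) (P.cons (P.lf 0 2448522 0) (P.cons (P.lf 189177 0 0) (P.cons (P.lf 51159 0 0) P.nil)))) (P.cons (P.cons (P.lf 0 79896 0) (P.cons (P.lf 0 84555 0) (P.cons (P.lf 25077 0 0) P.nil))) (P.cons (P.cons (P.lf 0 13911 0) (P.cons (P.lf 4290 0 0) P.nil)) (P.cons (P.cons (P.lf 54 0 0) P.nil) P.nil)))))) 81213)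
 (EL.cons 8 (TM.mk (P.cons (P.cons (P.lf 1720659 0 0) (P.cons (P.lf 0 52155711 0) (P.cons (P.lf 34822893 0 0) (P.cons (P.lf 0 3027750 0) (P.cons (P.lf 0 1256625 0) (P.cons (P.lf 93378 0 0) P.nil)))))) (P.cons (P.cons (P.lf 4778262 0 0) (P.cons (P.lf 5362272 0 0) (P.cons (P.lf 590979 0 0) (P.cons (P.lf 0 246462 0) (P.cons (P.lf 0 38076 0) P.nil))))) (P.cons (P.cons (P.lf 0 1647207 0) (P.cons (P.lf 914070 0 0) (P.cons (P.lf 0 200727 0) (P.cons (P.lf 0 1701 0) P.nil)))) (P.cons (P.cons (P.lf 118689 0 0) (P.cons (P.lf 0 21417 0) (P.cons (P.lf 0 4902 0) P.nil))) (P.cons (P.cons (P.lf 2802 0 0) (P.cons (P.lf 0 3174 0) P.nil)) (P.cons (P.cons (P.lf 0 309 0) P.nil) P.nil)))))) 38913)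
 (EL.cons 11 (TM.mk (P.cons (P.cons (P.lf 6664545 0 0) (P.cons (P.lf 0 198957000 0) (P.cons (P.lf 43379490 0 0) (P.cons (P.lf 17144187 0 0) (P.cons (P.lf 0 2223936 0) (P.cons (P.lf 0 431328 0) P.nil)))))) (P.cons (P.cons (P.lf 20305245 0 0) (P.cons (P.lf 0 23614599 0) (P.cons (P.lf 3023466 0 0) (P.cons (P.lf 1828542 0 0) (P.cons (P.lf 0 216171 0) P.nil))))) (P.cons (P.cons (P.lf 0 1001385 0) (P.cons (P.lf 0 411657 0) (P.cons (P.lf 200319 0 0) (P.cons (P.lf 46206 0 0) P.nil)))) (P.cons (P.cons (P.lf 0 110703 0) (P.cons (P.lf 29679 0 0) (P.cons (P.lf 5478 0 0) P.nil))) (P.cons (P.cons (P.lf 0 465 0) (P.cons (P.lf 1023 0 0) P.nil)) (P.cons (P.cons (P.lf 123 0 0) P.nil) P.nil)))))) 94083)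
 EL.nil)))
noncomputable def S176_183_512_660_23 : EL := (EL.cons 4 (TM.mk (P.cons (P.cons (P.lf 590596068 0 0) (P.cons (P.lf 0 362165265 0) (P.cons (P.lf 24213519 0 0) (P.lf 8071170 0 0)))) (P.cons (P.cons (P.lf 0 122671044 0) (P.cons (P.lf 4009347 0 0) (P.cons (P.lf 0 268056 0) (P.lf 0 89355 0)))) (P.cons (P.cons (P.lf 0 861270 0) (P.cons (P.lf 1397637 0 0) (P.cons (P.lf 0 93441 0) (P.lf 0 31143 0)))) (P.cons (P.cons (P.lf 340251 0 0) (P.cons (P.lf 6675 0 0) (P.cons (P.lf 0 438 0) P.nil))) (P.cons (P.cons (P.lf 4263 0 0) (P.cons (P.lf 0 2079 0) P.nil)) (P.cons (P.cons (P.lf 0 354 0) P.nil) P.nil)))))) 2601)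
 (EL.cons 8 (TM.mk (P.cons (P.cons (P.lf 0 264882558 0) (P.cons (P.lf 162431259 0 0) (P.cons (P.lf 0 10859778 0) (P.lf 0 3619926 0)))) (P.cons (P.cons (P.lf 70182222 0 0) (P.cons (P.lf 0 11097189 0) (P.cons (P.lf 741930 0 0) (P.lf 247308 0 0)))) (P.cons (P.cons (P.lf 0 3007440 0) (P.cons (P.lf 0 374259 0) (P.cons (P.lf 25017 0 0) (P.lf 8340 0 0)))) (P.cons (P.cons (P.lf 0 117237 0) (P.cons (P.lf 27066 0 0) (P.cons (P.lf 0 1806 0) P.nil))) (P.cons (P.cons (P.lf 5616 0 0) (P.cons (P.lf 657 0 0) P.nil)) (P.cons (P.cons (P.lf 153 0 0) P.nil) P.nil)))))) 1980)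
 (EL.cons 11 (TM.mk (P.cons (P.cons (P.lf 0 1025955789 0) (P.cons (P.lf 158843718 0 0) (P.cons (P.lf 76525893 0 0) (P.cons (P.lf 0 2895963 0) (P.lf 0 723990 0))))) (P.cons (P.cons (P.lf 0 4932252 0) (P.cons (P.lf 763635 0 0) (P.cons (P.lf 367893 0 0) (P.cons (P.lf 0 13920 0) (P.lf 0 3480 0))))) (P.cons (P.cons (P.lf 2254206 0 0) (P.cons (P.lf 0 349005 0) (P.cons (P.lf 0 168138 0) (P.cons (P.lf 6360 0 0) P.nil)))) (P.cons (P.cons (P.lf 41529 0 0) (P.cons (P.lf 0 6429 0) (P.cons (P.lf 0 3096 0) P.nil))) (P.cons (P.cons (P.lf 0 1071 0) (P.cons (P.lf 165 0 0) P.nil)) (P.cons (P.cons (P.lf 0 30 0) P.nil) P.nil)))))) 2148)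
 EL.nil)))
noncomputable def S176_183_512_660_24 : EL := (EL.cons 4 (TM.mk (P.cons (P.cons (P.lf 2062653 0 0) (P.cons (P.lf 0 62522031 0) (P.cons (P.lf 41744190 0 0) (P.cons (P.lf 0 3629538 0) (P.cons (P.lf 0 1506387 0) (P.cons (P.lf 111939 0 0) P.nil)))))) (P.cons (P.cons (P.lf 5770641 0 0) (P.cons (P.lf 5134767 0 0) (P.cons (P.lf 1571937 0 0) (P.cons (P.lf 0 370527 0) (P.cons (P.lf 0 76803 0) P.nil))))) (P.cons (P.cons (P.lf 0 1856700 0) (P.cons (P.lf 1246416 0 0) (P.cons (P.lf 0 237789 0) (P.cons (P.lf 0 7122 0) P.nil)))) (P.cons (P.cons (P.lf 99798 0 0) (P.cons (P.lf 0 4392 0) (P.cons (P.lf 0 11343 0) P.nil))) (P.cons (P.cons (P.lf 6822 0 0) (P.cons (P.lf 0 4689 0) P.nil)) (P.cons (P.cons (P.lf 0 330 0) P.nil) P.nil)))))) 41547)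
 (EL.cons 8 (TM.mk (P.cons (P.cons (P.lf 0 925101 0) (P.cons (P.lf 28041153 0 0) (P.cons (P.lf 0 18722286 0) (P.cons (P.lf 1627848 0 0) (P.cons (P.lf 675615 0 0) (P.cons (P.lf 0 50205 0) P.nil)))))) (P.cons (P.cons (P.lf 0 2535174 0) (P.cons (P.lf 0 3908268 0) (P.cons (P.lf 366813 0 0) (P.cons (P.lf 72990 0 0) (P.cons (P.lf 0 4230 0) P.nil))))) (P.cons (P.cons (P.lf 980046 0 0) (P.cons (P.lf 0 401346 0) (P.cons (P.lf 129762 0 0) (P.cons (P.lf 0 4818 0) P.nil)))) (P.cons (P.cons (P.lf 0 94791 0) (P.cons (P.lf 31131 0 0) (P.cons (P.lf 0 1185 0) P.nil))) (P.cons (P.cons (P.lf 333 0 0) (P.cons (P.lf 1548 0 0) P.nil)) (P.cons (P.cons (P.lf 258 0 0) P.nil) P.nil)))))) 19965)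
 (EL.cons 11 (TM.mk (P.cons (P.cons (P.lf 0 3583146 0) (P.cons (P.lf 106967841 0 0) (P.cons (P.lf 0 23322678 0) (P.cons (P.lf 0 9217452 0) (P.cons (P.lf 1195683 0 0) (P.cons (P.lf 231900 0 0) P.nil)))))) (P.cons (P.cons (P.lf 0 10785960 0) (P.cons (P.lf 8785116 0 0) (P.cons (P.lf 0 772788 0) (P.cons (P.lf 0 646080 0) (P.cons (P.lf 72504 0 0) P.nil))))) (P.cons (P.cons (P.lf 939507 0 0) (P.cons (P.lf 0 301308 0) (P.cons (P.lf 0 35526 0) (P.cons (P.lf 16134 0 0) P.nil)))) (P.cons (P.cons (P.lf 45786 0 0) (P.cons (P.lf 0 30699 0) (P.cons (P.lf 1815 0 0) P.nil))) (P.cons (P.cons (P.lf 0 2247 0) (P.cons (P.lf 0 39 0) P.nil)) (P.cons (P.cons (P.lf 0 108 0) P.nil) P.nil)))))) 42933)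
 EL.nil)))
noncomputable def S176_183_512_660_25 : EL := (EL.cons 4 (TM.mk (P.cons (P.cons (P.lf 0 317529855 0) (P.cons (P.lf 194715627 0 0) (P.cons (P.lf 0 13018230 0) (P.lf 0 4339407 0)))) (P.cons (P.cons (P.lf 77563200 0 0) (P.cons (P.lf 0 9275064 0) (P.cons (P.lf 620109 0 0) (P.lf 206703 0 0)))) (P.cons (P.cons (P.lf 0 1775001 0) (P.cons (P.lf 0 778956 0) (P.cons (P.lf 52077 0 0) (P.lf 17355 0 0)))) (P.cons (P.cons (P.lf 0 236730 0) (P.cons (P.lf 25581 0 0) (P.cons (P.lf 0 1713 0) P.nil))) (P.cons (P.cons (P.lf 4275 0 0) (P.cons (P.lf 1680 0 0) P.nil)) (P.cons (P.cons (P.lf 384 0 0) P.nil) P.nil)))))) 2085)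
 (EL.cons 8 (TM.mk (P.cons (P.cons (P.lf 142412259 0 0) (P.cons (P.lf 0 87330033 0) (P.cons (P.lf 5838684 0 0) (P.lf 1946226 0 0)))) (P.cons (P.cons (P.lf 0 42940059 0) (P.cons (P.lf 9159408 0 0) (P.cons (P.lf 0 612375 0) (P.lf 0 204123 0)))) (P.cons (P.cons (P.lf 2918796 0 0) (P.cons (P.lf 30762 0 0) (P.cons (P.lf 0 2055 0) (P.lf 0 684 0)))) (P.cons (P.cons (P.lf 24897 0 0) (P.cons (P.lf 0 25401 0) (P.cons (P.lf 1695 0 0) P.nil))) (P.cons (P.cons (P.lf 0 6288 0) (P.cons (P.lf 69 0 0) P.nil)) (P.cons (P.cons (P.lf 0 6 0) P.nil) P.nil)))))) 1440)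
 (EL.cons 11 (TM.mk (P.cons (P.cons (P.lf 551597970 0 0) (P.cons (P.lf 0 85401216 0) (P.cons (P.lf 0 41143611 0) (P.cons (P.lf 1556994 0 0) (P.lf 389247 0 0))))) (P.cons (P.cons (P.lf 0 17516502 0) (P.cons (P.lf 2711994 0 0) (P.cons (P.lf 1306551 0 0) (P.cons (P.lf 0 49443 0) (P.lf 0 12360 0))))) (P.cons (P.cons (P.lf 0 1610166 0) (P.cons (P.lf 249291 0 0) (P.cons (P.lf 120099 0 0) (P.cons (P.lf 0 4542 0) P.nil)))) (P.cons (P.cons (P.lf 22005 0 0) (P.cons (P.lf 0 3405 0) (P.cons (P.lf 0 1641 0) P.nil))) (P.cons (P.cons (P.lf 2136 0 0) (P.cons (P.lf 0 330 0) P.nil)) (P.cons (P.cons (P.lf 3 0 0) P.nil) P.nil)))))) 1875)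
 EL.nil)))
noncomputable def S176_183_512_660_26 : EL := (EL.cons 4 (TM.mk (P.cons (P.cons (P.lf 0 1108971 0) (P.cons (P.lf 33614532 0 0) (P.cons (P.lf 0 22443471 0) (P.cons (P.lf 1951395 0 0) (P.cons (P.lf 809898 0 0) (P.cons (P.lf 0 60183 0) P.nil)))))) (P.cons (P.cons (P.lf 0 3061995 0) (P.cons (P.lf 0 3989733 0) (P.cons (P.lf 0 24531 0) (P.cons (P.lf 127860 0 0) (P.cons (P.lf 11679 0 0) P.nil))))) (P.cons (P.cons (P.lf 1112286 0 0) (P.cons (P.lf 0 587544 0) (P.cons (P.lf 171003 0 0) (P.cons (P.lf 0 4518 0) P.nil)))) (P.cons (P.cons (P.lf 0 88461 0) (P.cons (P.lf 28461 0 0) (P.cons (P.lf 1824 0 0) P.nil))) (P.cons (P.cons (P.lf 0 2259 0) (P.cons (P.lf 2796 0 0) P.nil)) (P.cons (P.cons (P.lf 342 0 0) P.nil) P.nil)))))) 22950)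
 (EL.cons 8 (TM.mk (P.cons (P.cons (P.lf 497373 0 0) (P.cons (P.lf 0 15076128 0) (P.cons (P.lf 10065906 0 0) (P.cons (P.lf 0 875202 0) (P.cons (P.lf 0 363240 0) (P.cons (P.lf 26991 0 0) P.nil)))))) (P.cons (P.cons (P.lf 1344831 0 0) (P.cons (P.lf 2652486 0 0) (P.cons (P.lf 0 565257 0) (P.cons (P.lf 0 7242 0) (P.cons (P.lf 15555 0 0) P.nil))))) (P.cons (P.cons (P.lf 0 577023 0) (P.cons (P.lf 147183 0 0) (P.cons (P.lf 0 68052 0) (P.cons (P.lf 4503 0 0) P.nil)))) (P.cons (P.cons (P.lf 69486 0 0) (P.cons (P.lf 0 25815 0) (P.cons (P.lf 3321 0 0) P.nil))) (P.cons (P.cons (P.lf 0 1752 0) (P.cons (P.lf 0 333 0) P.nil)) (P.cons (P.cons (P.lf 0 159 0) P.nil) P.nil)))))) 11052)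
 (EL.cons 11 (TM.mk (P.cons (P.cons (P.lf 1926453 0 0) (P.cons (P.lf 0 57510513 0) (P.cons (P.lf 12539274 0 0) (P.cons (P.lf 4955697 0 0) (P.cons (P.lf 0 642849 0) (P.cons (P.lf 0 124680 0) P.nil)))))) (P.cons (P.cons (P.lf 5728557 0 0) (P.cons (P.lf 0 2620476 0) (P.cons (P.lf 0 42993 0) (P.cons (P.lf 166164 0 0) (P.cons (P.lf 0 15477 0) P.nil))))) (P.cons (P.cons (P.lf 0 718200 0) (P.cons (P.lf 366102 0 0) (P.cons (P.lf 0 2937 0) (P.cons (P.lf 0 24081 0) P.nil)))) (P.cons (P.cons (P.lf 0 9309 0) (P.cons (P.lf 13008 0 0) (P.cons (P.lf 0 1866 0) P.nil))) (P.cons (P.cons (P.lf 2400 0 0) (P.cons (P.lf 0 690 0) P.nil)) (P.cons (P.cons (P.lf 27 0 0) P.nil) P.nil)))))) 22110)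
 EL.nil)))
noncomputable def S176_183_512_660_27 : EL := (EL.cons 13 (TM.mk (P.lf 0 4294967296 0) 0)
 EL.nil)
noncomputable def S176_183_512_660_28 : EL := (EL.cons 13 (TM.mk (P.cons (P.cons (P.lf 0 15000160 0) (P.cons (P.lf 445477976 0 0) (P.cons (P.lf 0 29783616 0) (P.lf 0 9927872 0)))) (P.cons (P.cons (P.lf 0 45081248 0) (P.cons (P.lf 27644716 0 0) (P.cons (P.lf 0 1848260 0) (P.lf 0 616084 0)))) (P.cons (P.cons (P.lf 4116837 0 0) (P.cons (P.lf 193452 0 0) (P.cons (P.lf 0 12932 0) (P.lf 0 4312 0)))) (P.cons (P.cons (P.lf 72230 0 0) (P.cons (P.lf 0 20996 0) (P.cons (P.lf 1400 0 0) P.nil))) (P.cons (P.cons (P.lf 0 2527 0) (P.cons (P.lf 0 444 0) P.nil)) (P.cons (P.cons (P.lf 0 73 0) P.nil) P.nil)))))) 901)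
 EL.nil)
noncomputable def S176_183_512_660_29 : EL := (EL.cons 13 (TM.mk (P.cons (P.cons (P.lf 0 52388 0) (P.cons (P.lf 3111660 0 0) (P.cons (P.lf 0 46413425 0) (P.cons (P.lf 6109022 0 0) (P.cons (P.lf 1852920 0 0) (P.cons (P.lf 0 137690 0) P.nil)))))) (P.cons (P.cons (P.lf 0 314892 0) (P.cons (P.lf 9544835 0 0) (P.cons (P.lf 0 6372816 0) (P.cons (P.lf 554098 0 0) (P.cons (P.lf 229970 0 0) P.nil))))) (P.cons (P.cons (P.lf 0 444430 0) (P.cons (P.lf 0 272318 0) (P.cons (P.lf 0 199859 0) (P.cons (P.lf 35227 0 0) P.nil)))) (P.cons (P.cons (P.lf 86927 0 0) (P.cons (P.lf 0 64065 0) (P.cons (P.lf 6148 0 0) P.nil))) (P.cons (P.cons (P.lf 0 2447 0) (P.cons (P.lf 0 1220 0) P.nil)) (P.cons (P.cons (P.lf 0 192 0) P.nil) P.nil)))))) 58124)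
 EL.nil)
noncomputable def S176_183_512_660_30 : EL := (EL.cons 13 (TM.mk (P.cons (P.lf 2309159204 0 0) (P.cons (P.lf 0 84430708 0) (P.cons (P.lf 0 1261124 0) (P.cons (P.lf 6156 0 0) (P.cons (P.lf 320 0 0) (P.cons (P.lf 0 0 0) P.nil)))))) 48)
 EL.nil)
noncomputable def S176_183_512_660_31 : EL := (EL.cons 13 (TM.mk (P.cons (P.cons (P.lf 8064731 0 0) (P.cons (P.lf 0 239508126 0) (P.cons (P.lf 16012953 0 0) (P.lf 5337651 0 0)))) (P.cons (P.cons (P.lf 23942744 0 0) (P.cons (P.lf 0 6105757 0) (P.cons (P.lf 408216 0 0) (P.lf 136070 0 0)))) (P.cons (P.cons (P.lf 0 3104002 0) (P.cons (P.lf 570238 0 0) (P.cons (P.lf 0 38125 0) (P.lf 0 12707 0)))) (P.cons (P.cons (P.lf 28879 0 0) (P.cons (P.lf 22570 0 0) (P.cons (P.lf 0 1506 0) P.nil))) (P.cons (P.cons (P.lf 4053 0 0) (P.cons (P.lf 0 190 0) P.nil)) (P.cons (P.cons (P.lf 8 0 0) P.nil) P.nil)))))) 867)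
 EL.nil)
noncomputable def S176_183_512_660_32 : EL := (EL.cons 13 (TM.mk (P.cons (P.cons (P.lf 28166 0 0) (P.cons (P.lf 0 1672962 0) (P.cons (P.lf 24953854 0 0) (P.cons (P.lf 0 3284473 0) (P.cons (P.lf 0 996209 0) (P.cons (P.lf 74028 0 0) P.nil)))))) (P.cons (P.cons (P.lf 168269 0 0) (P.cons (P.lf 0 5070544 0) (P.cons (P.lf 2513902 0 0) (P.cons (P.lf 0 177815 0) (P.cons (P.lf 0 87216 0) P.nil))))) (P.cons (P.cons (P.lf 232739 0 0) (P.cons (P.lf 334956 0 0) (P.cons (P.lf 0 31452 0) (P.cons (P.lf 0 6253 0) P.nil)))) (P.cons (P.cons (P.lf 0 55564 0) (P.cons (P.lf 31889 0 0) (P.cons (P.lf 0 9038 0) P.nil))) (P.cons (P.cons (P.lf 2894 0 0) (P.cons (P.lf 0 697 0) P.nil)) (P.cons (P.cons (P.lf 81 0 0) P.nil) P.nil)))))) 41434)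
 EL.nil)
noncomputable def S176_183_512_660_33 : EL := (EL.cons 14 (TM.mk (P.lf 8589934592 0 0) 0)
 EL.nil)
noncomputable def S176_183_512_660_34 : EL := (EL.cons 14 (TM.mk (P.cons (P.cons (P.lf 30000320 0 0) (P.cons (P.lf 0 890955952 0) (P.cons (P.lf 59567232 0 0) (P.lf 19855744 0 0)))) (P.cons (P.cons (P.lf 90162496 0 0) (P.cons (P.lf 0 55289432 0) (P.cons (P.lf 3696520 0 0) (P.lf 1232168 0 0)))) (P.cons (P.cons (P.lf 0 8233674 0) (P.cons (P.lf 0 386904 0) (P.cons (P.lf 25864 0 0) (P.lf 8624 0 0)))) (P.cons (P.cons (P.lf 0 144460 0) (P.cons (P.lf 41992 0 0) (P.cons (P.lf 0 2800 0) P.nil))) (P.cons (P.cons (P.lf 5054 0 0) (P.cons (P.lf 888 0 0) P.nil)) (P.cons (P.cons (P.lf 146 0 0) P.nil) P.nil)))))) 1802)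
 EL.nil)
noncomputable def S176_183_512_660_35 : EL := (EL.cons 14 (TM.mk (P.cons (P.cons (P.lf 104776 0 0) (P.cons (P.lf 0 6223320 0) (P.cons (P.lf 92826850 0 0) (P.cons (P.lf 0 12218044 0) (P.cons (P.lf 0 3705840 0) (P.cons (P.lf 275380 0 0) P.nil)))))) (P.cons (P.cons (P.lf 629784 0 0) (P.cons (P.lf 0 19089670 0) (P.cons (P.lf 12745632 0 0) (P.cons (P.lf 0 1108196 0) (P.cons (P.lf 0 459940 0) P.nil))))) (P.cons (P.cons (P.lf 888860 0 0) (P.cons (P.lf 544636 0 0) (P.cons (P.lf 399718 0 0) (P.cons (P.lf 0 70454 0) P.nil)))) (P.cons (P.cons (P.lf 0 173854 0) (P.cons (P.lf 128130 0 0) (P.cons (P.lf 0 12296 0) P.nil))) (P.cons (P.cons (P.lf 4894 0 0) (P.cons (P.lf 2440 0 0) P.nil)) (P.cons (P.cons (P.lf 384 0 0) P.nil) P.nil)))))) 116248)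
 EL.nil)
noncomputable def S176_183_512_660_36 : EL := (EL.cons 14 (TM.mk (P.cons (P.lf 0 4618318408 0) (P.cons (P.lf 168861416 0 0) (P.cons (P.lf 2522248 0 0) (P.cons (P.lf 0 12312 0) (P.cons (P.lf 0 640 0) (P.cons (P.lf 0 0 0) P.nil)))))) 96)
 EL.nil)
noncomputable def S176_183_512_660_37 : EL := (EL.cons 14 (TM.mk (P.cons (P.cons (P.lf 0 16129462 0) (P.cons (P.lf 479016252 0 0) (P.cons (P.lf 0 32025906 0) (P.lf 0 10675302 0)))) (P.cons (P.cons (P.lf 0 47885488 0) (P.cons (P.lf 12211514 0 0) (P.cons (P.lf 0 816432 0) (P.lf 0 272140 0)))) (P.cons (P.cons (P.lf 6208004 0 0) (P.cons (P.lf 0 1140476 0) (P.cons (P.lf 76250 0 0) (P.lf 25414 0 0)))) (P.cons (P.cons (P.lf 0 57758 0) (P.cons (P.lf 0 45140 0) (P.cons (P.lf 3012 0 0) P.nil))) (P.cons (P.cons (P.lf 0 8106 0) (P.cons (P.lf 380 0 0) P.nil)) (P.cons (P.cons (P.lf 0 16 0) P.nil) P.nil)))))) 1734)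
 EL.nil)
noncomputable def S176_183_512_660_38 : EL := (EL.cons 14 (TM.mk (P.cons (P.cons (P.lf 0 56332 0) (P.cons (P.lf 3345924 0 0) (P.cons (P.lf 0 49907708 0) (P.cons (P.lf 6568946 0 0) (P.cons (P.lf 1992418 0 0) (P.cons (P.lf 0 148056 0) P.nil)))))) (P.cons (P.cons (P.lf 0 336538 0) (P.cons (P.lf 10141088 0 0) (P.cons (P.lf 0 5027804 0) (P.cons (P.lf 355630 0 0) (P.cons (P.lf 174432 0 0) P.nil))))) (P.cons (P.cons (P.lf 0 465478 0) (P.cons (P.lf 0 669912 0) (P.cons (P.lf 62904 0 0) (P.cons (P.lf 12506 0 0) P.nil)))) (P.cons (P.cons (P.lf 111128 0 0) (P.cons (P.lf 0 63778 0) (P.cons (P.lf 18076 0 0) P.nil))) (P.cons (P.cons (P.lf 0 5788 0) (P.cons (P.lf 1394 0 0) P.nil)) (P.cons (P.cons (P.lf 0 162 0) P.nil) P.nil)))))) 82868)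
 EL.nil)
noncomputable def S176_183_512_660_39 : EL := (EL.cons 14 (TM.mk (P.cons (P.lf 2483006672 0 0) (P.cons (P.lf 0 181574324 0) (P.cons (P.lf 607348 0 0) (P.cons (P.lf 112402 0 0) (P.cons (P.lf 944 0 0) (P.cons (P.lf 0 32 0) P.nil)))))) 120)
 EL.nil)
noncomputable def S176_183_512_660_40 : EL := (EL.cons 14 (TM.mk (P.cons (P.cons (P.lf 8671892 0 0) (P.cons (P.lf 0 257539746 0) (P.cons (P.lf 17218504 0 0) (P.lf 5739500 0 0)))) (P.cons (P.cons (P.lf 25428224 0 0) (P.cons (P.lf 2851092 0 0) (P.cons (P.lf 0 190616 0) (P.lf 0 63540 0)))) (P.cons (P.cons (P.lf 0 4283762 0) (P.cons (P.lf 993876 0 0) (P.cons (P.lf 0 66448 0) (P.lf 0 22148 0)))) (P.cons (P.cons (P.lf 139052 0 0) (P.cons (P.lf 4748 0 0) (P.cons (P.lf 0 314 0) P.nil))) (P.cons (P.cons (P.lf 5114 0 0) (P.cons (P.lf 0 1478 0) P.nil)) (P.cons (P.cons (P.lf 0 172 0) P.nil) P.nil)))))) 1322)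
 EL.nil)
noncomputable def S176_183_512_660_41 : EL := (EL.cons 14 (TM.mk (P.cons (P.cons (P.lf 30286 0 0) (P.cons (P.lf 0 1798912 0) (P.cons (P.lf 26832530 0 0) (P.cons (P.lf 0 3531748 0) (P.cons (P.lf 0 1071210 0) (P.cons (P.lf 79600 0 0) P.nil)))))) (P.cons (P.cons (P.lf 179830 0 0) (P.cons (P.lf 0 5386510 0) (P.cons (P.lf 1722074 0 0) (P.cons (P.lf 0 62068 0) (P.cons (P.lf 0 54616 0) P.nil))))) (P.cons (P.cons (P.lf 243628 0 0) (P.cons (P.lf 560510 0 0) (P.cons (P.lf 0 147310 0) (P.cons (P.lf 2194 0 0) P.nil)))) (P.cons (P.cons (P.lf 0 68996 0) (P.cons (P.lf 24092 0 0) (P.cons (P.lf 0 9886 0) P.nil))) (P.cons (P.cons (P.lf 5160 0 0) (P.cons (P.lf 0 2214 0) P.nil)) (P.cons (P.cons (P.lf 6 0 0) P.nil) P.nil)))))) 54336)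
 EL.nil)
noncomputable def S176_183_512_660_42 : EL := (EL.cons 14 (TM.mk (P.cons (P.lf 0 1334971214 0) (P.cons (P.lf 146433252 0 0) (P.cons (P.lf 0 3166852 0) (P.cons (P.lf 0 105366 0) (P.cons (P.lf 1954 0 0) (P.cons (P.lf 80 0 0) P.nil)))))) 110)
 EL.nil)
noncomputable def S176_183_512_660_43 : EL := (EL.cons 14 (TM.mk (P.cons (P.cons (P.lf 0 4662382 0) (P.cons (P.lf 138464446 0 0) (P.cons (P.lf 0 9257408 0) (P.lf 0 3085802 0)))) (P.cons (P.cons (P.lf 0 13500834 0) (P.cons (P.lf 0 6595600 0) (P.cons (P.lf 440966 0 0) (P.lf 146988 0 0)))) (P.cons (P.cons (P.lf 2805550 0 0) (P.cons (P.lf 0 553924 0) (P.cons (P.lf 37034 0 0) (P.lf 12344 0 0)))) (P.cons (P.cons (P.lf 0 151516 0) (P.cons (P.lf 18190 0 0) (P.cons (P.lf 0 1216 0) P.nil))) (P.cons (P.cons (P.lf 0 1310 0) (P.cons (P.lf 1194 0 0) P.nil)) (P.cons (P.cons (P.lf 238 0 0) P.nil) P.nil)))))) 1418)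
 EL.nil)
noncomputable def S176_183_512_660_44 : EL := (EL.cons 14 (TM.mk (P.cons (P.cons (P.lf 0 16282 0) (P.cons (P.lf 967172 0 0) (P.cons (P.lf 0 14426322 0) (P.cons (P.lf 1898818 0 0) (P.cons (P.lf 575928 0 0) (P.cons (P.lf 0 42796 0) P.nil)))))) (P.cons (P.cons (P.lf 0 96088 0) (P.cons (P.lf 2860656 0 0) (P.cons (P.lf 0 398386 0) (P.cons (P.lf 0 36054 0) (P.cons (P.lf 8306 0 0) P.nil))))) (P.cons (P.cons (P.lf 0 127440 0) (P.cons (P.lf 0 407770 0) (P.cons (P.lf 120932 0 0) (P.cons (P.lf 0 3436 0) P.nil)))) (P.cons (P.cons (P.lf 41936 0 0) (P.cons (P.lf 0 3514 0) (P.cons (P.lf 2886 0 0) P.nil))) (P.cons (P.cons (P.lf 0 4058 0) (P.cons (P.lf 1836 0 0) P.nil)) (P.cons (P.cons (P.lf 76 0 0) P.nil) P.nil)))))) 36830)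
 EL.nil)
noncomputable def S176_183_512_660_45 : EL := (EL.cons 14 (TM.mk (P.cons (P.cons (P.lf 364 0 0) (P.cons (P.lf 0 32602 0) (P.cons (P.lf 970412 0 0) (P.cons (P.lf 0 9713670 0) (P.cons (P.lf 1883650 0 0) (P.cons (P.lf 515178 0 0) P.nil)))))) (P.cons (P.cons (P.lf 3298 0 0) (P.cons (P.lf 0 197988 0) (P.cons (P.lf 3043318 0 0) (P.cons (P.lf 0 2185172 0) (P.cons (P.lf 236392 0 0) P.nil))))) (P.cons (P.cons (P.lf 9614 0 0) (P.cons (P.lf 0 288754 0) (P.cons (P.lf 119296 0 0) (P.cons (P.lf 0 130156 0) P.nil)))) (P.cons (P.cons (P.lf 8116 0 0) (P.cons (P.lf 36850 0 0) (P.cons (P.lf 0 26412 0) P.nil))) (P.cons (P.cons (P.lf 0 2670 0) (P.cons (P.lf 1722 0 0) P.nil)) (P.cons (P.cons (P.lf 204 0 0) P.nil) P.nil)))))) 309404)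
 EL.nil)
noncomputable def S176_183_512_660_46 : EL := (EL.cons 15 (TM.mk (P.lf 4294967296 0 0) 0)
 EL.nil)
noncomputable def S176_183_512_660_47 : EL := (EL.cons 15 (TM.mk (P.cons (P.cons (P.lf 15000160 0 0) (P.cons (P.lf 0 445477976 0) (P.cons (P.lf 29783616 0 0) (P.lf 9927872 0 0)))) (P.cons (P.cons (P.lf 45081248 0 0) (P.cons (P.lf 0 27644716 0) (P.cons (P.lf 1848260 0 0) (P.lf 616084 0 0)))) (P.cons (P.cons (P.lf 0 4116837 0) (P.cons (P.lf 0 193452 0) (P.cons (P.lf 12932 0 0) (P.lf 4312 0 0)))) (P.cons (P.cons (P.lf 0 72230 0) (P.cons (P.lf 20996 0 0) (P.cons (P.lf 0 1400 0) P.nil))) (P.cons (P.cons (P.lf 2527 0 0) (P.cons (P.lf 444 0 0) P.nil)) (P.cons (P.cons (P.lf 73 0 0) P.nil) P.nil)))))) 901)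
 EL.nil)
noncomputable def S176_183_512_660_48 : EL := (EL.cons 15 (TM.mk (P.cons (P.cons (P.lf 52388 0 0) (P.cons (P.lf 0 3111660 0) (P.cons (P.lf 46413425 0 0) (P.cons (P.lf 0 6109022 0) (P.cons (P.lf 0 1852920 0) (P.cons (P.lf 137690 0 0) P.nil)))))) (P.cons (P.cons (P.lf 314892 0 0) (P.cons (P.lf 0 9544835 0) (P.cons (P.lf 6372816 0 0) (P.cons (P.lf 0 554098 0) (P.cons (P.lf 0 229970 0) P.nil))))) (P.cons (P.cons (P.lf 444430 0 0) (P.cons (P.lf 272318 0 0) (P.cons (P.lf 199859 0 0) (P.cons (P.lf 0 35227 0) P.nil)))) (P.cons (P.cons (P.lf 0 86927 0) (P.cons (P.lf 64065 0 0) (P.cons (P.lf 0 6148 0) P.nil))) (P.cons (P.cons (P.lf 2447 0 0) (P.cons (P.lf 1220 0 0) P.nil)) (P.cons (P.cons (P.lf 192 0 0) P.nil) P.nil)))))) 58124)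
 EL.nil)
noncomputable def S176_183_512_660 : SL := (SL.cons S176_183_512_660_0 (SL.cons S176_183_512_660_1 (SL.cons S176_183_512_660_2 (SL.cons S176_183_512_660_3 (SL.cons S176_183_512_660_4 (SL.cons S176_183_512_660_5 (SL.cons S176_183_512_660_6 (SL.cons S176_183_512_660_7 (SL.cons S176_183_512_660_8 (SL.cons S176_183_512_660_9 (SL.cons S176_183_512_660_10 (SL.cons S176_183_512_660_11 (SL.cons S176_183_512_660_12 (SL.cons S176_183_512_660_13 (SL.cons S176_183_512_660_14 (SL.cons S176_183_512_660_15 (SL.cons S176_183_512_660_16 (SL.cons S176_183_512_660_17 (SL.cons S176_183_512_660_18 (SL.cons S176_183_512_660_19 (SL.cons S176_183_512_660_20 (SL.cons S176_183_512_660_21 (SL.cons S176_183_512_660_22 (SL.cons S176_183_512_660_23 (SL.cons S176_183_512_660_24 (SL.cons S176_183_512_660_25 (SL.cons S176_183_512_660_26 (SL.cons S176_183_512_660_27 (SL.cons S176_183_512_660_28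 (SL.cons S176_183_512_660_29 (SL.cons S176_183_512_660_30 (SL.cons S176_183_512_660_31 (SL.cons S176_183_512_660_32 (SL.cons S176_183_512_660_33 (SL.cons S176_183_512_660_34 (SL.cons S176_183_512_660_35 (SL.cons S176_183_512_660_36 (SL.cons S176_183_512_660_37 (SL.cons S176_183_512_660_38 (SL.cons S176_183_512_660_39 (SL.cons S176_183_512_660_40 (SL.cons S176_183_512_660_41 (SL.cons S176_183_512_660_42 (SL.cons S176_183_512_660_43 (SL.cons S176_183_512_660_44 (SL.cons S176_183_512_660_45 (SL.cons S176_183_512_660_46 (SL.cons S176_183_512_660_47 (SL.cons S176_183_512_660_48 SL.nil)))))))))))))))))))))))))))))))))))))))))))))))))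
noncomputable def S183_190_216_290_0 : EL := (EL.cons 0 (TM.mk (P.cons (P.lf 6589622345 0 0) (P.cons (P.lf 156241516 0 0) (P.cons (P.lf 0 1144425 0) (P.cons (P.lf 0 104359 0) (P.cons (P.lf 0 541 0) (P.cons (P.lf 31 0 0) P.nil)))))) 105)
 (EL.cons 1 (TM.mk (P.cons (P.lf 0 1664107338 0) (P.cons (P.lf 38517202 0 0) (P.cons (P.lf 2771514 0 0) (P.cons (P.lf 217 0 0) (P.cons (P.lf 0 1162 0) (P.cons (P.lf 0 9 0) P.nil)))))) 100)
 (EL.cons 5 (TM.mk (P.cons (P.lf 4958467572 0 0) (P.cons (P.lf 0 55552538 0) (P.cons (P.lf 406904 0 0) (P.cons (P.lf 37104 0 0) (P.cons (P.lf 194 0 0) (P.cons (P.lf 0 10 0) P.nil)))))) 95)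
 (EL.cons 9 (TM.mk (P.lf 6442450944 0 0) 2)
 EL.nil))))
noncomputable def S183_190_216_290_1 : EL := (EL.cons 0 (TM.mk (P.cons (P.cons (P.lf 0 68425736 0) (P.cons (P.lf 0 14340969 0) (P.cons (P.lf 0 6769816 0) (P.lf 322375 0 0)))) (P.cons (P.cons (P.lf 578275615 0 0) (P.cons (P.lf 0 9846197 0) (P.cons (P.lf 0 4648003 0) (P.lf 221332 0 0)))) (P.cons (P.cons (P.lf 5430310 0 0) (P.cons (P.lf 0 443076 0) (P.cons (P.lf 0 209152 0) (P.lf 9953 0 0)))) (P.cons (P.cons (P.lf 0 1211775 0) (P.cons (P.lf 9416 0 0) (P.cons (P.lf 4444 0 0) P.nil))) (P.cons (P.cons (P.lf 0 22350 0) (P.cons (P.lf 816 0 0) P.nil)) (P.cons (P.cons (P.lf 1034 0 0) P.nil) P.nil)))))) 3484)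
 (EL.cons 1 (TM.mk (P.cons (P.cons (P.lf 0 1552008814 0) (P.cons (P.lf 44038411 0 0) (P.cons (P.lf 20788826 0 0) (P.lf 0 989936 0)))) (P.cons (P.cons (P.lf 0 84079106 0) (P.cons (P.lf 3409694 0 0) (P.cons (P.lf 1609577 0 0) (P.lf 0 76638 0)))) (P.cons (P.cons (P.lf 14291708 0 0) (P.cons (P.lf 0 148541 0) (P.cons (P.lf 0 70124 0) (P.lf 3339 0 0)))) (P.cons (P.cons (P.lf 320764 0 0) (P.cons (P.lf 0 12321 0) (P.cons (P.lf 0 5817 0) P.nil))) (P.cons (P.cons (P.lf 0 20416 0) (P.cons (P.lf 11 0 0) P.nil)) (P.cons (P.cons (P.lf 0 543 0) P.nil) P.nil)))))) 2019)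
 (EL.cons 5 (TM.mk (P.cons (P.cons (P.lf 3432687605 0 0) (P.cons (P.lf 0 100525586 0) (P.cons (P.lf 0 47454232 0) (P.lf 2259722 0 0)))) (P.cons (P.cons (P.lf 24679162 0 0) (P.cons (P.lf 0 2430176 0) (P.cons (P.lf 0 1147196 0) (P.lf 54632 0 0)))) (P.cons (P.cons (P.lf 0 9181223 0) (P.cons (P.lf 145472 0 0) (P.cons (P.lf 68668 0 0) (P.lf 0 3264 0)))) (P.cons (P.cons (P.lf 189194 0 0) (P.cons (P.lf 1774 0 0) (P.cons (P.lf 842 0 0) P.nil))) (P.cons (P.cons (P.lf 10940 0 0) (P.cons (P.lf 0 212 0) P.nil)) (P.cons (P.cons (P.lf 0 205 0) P.nil) P.nil)))))) 2495)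
 (EL.cons 9 (TM.mk (P.cons (P.cons (P.lf 3007375099 0 0) (P.cons (P.lf 0 93198168 0) (P.cons (P.lf 0 43995240 0) (P.lf 2095008 0 0)))) (P.cons (P.cons (P.lf 203195532 0 0) (P.cons (P.lf 0 5233272 0) (P.cons (P.lf 0 2470422 0) (P.lf 117636 0 0)))) (P.cons (P.cons (P.lf 0 6397449 0) (P.cons (P.lf 0 10644 0) (P.cons (P.lf 0 5022 0) (P.lf 240 0 0)))) (P.cons (P.cons (P.lf 0 213223 0) (P.cons (P.lf 4512 0 0) (P.cons (P.lf 2130 0 0) P.nil))) (P.cons (P.cons (P.lf 2644 0 0) (P.cons (P.lf 66 0 0) P.nil)) (P.cons (P.cons (P.lf 130 0 0) P.nil) P.nil)))))) 791)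
 (EL.cons 2 (TM.mk (P.cons (P.cons (P.lf 210193669 0 0) (P.cons (P.lf 207259824 0 0) (P.cons (P.lf 0 6485357 0) (P.cons (P.lf 0 1188413 0) (P.lf 42440 0 0))))) (P.cons (P.cons (P.lf 0 930841 0) (P.cons (P.lf 0 917848 0) (P.cons (P.lf 28718 0 0) (P.cons (P.lf 5262 0 0) (P.lf 0 185 0))))) (P.cons (P.cons (P.lf 0 506767 0) (P.cons (P.lf 0 499694 0) (P.cons (P.lf 15634 0 0) (P.cons (P.lf 2863 0 0) P.nil)))) (P.cons (P.cons (P.lf 0 6457 0) (P.cons (P.lf 0 6367 0) (P.cons (P.lf 196 0 0) P.nil))) (P.cons (P.cons (P.lf 289 0 0) (P.cons (P.lf 286 0 0) P.nil)) (P.cons (P.cons (P.lf 5 0 0) P.nil) P.nil)))))) 364)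
 (EL.cons 6 (TM.mk (P.cons (P.cons (P.lf 187442181 0 0) (P.cons (P.lf 184825896 0 0) (P.cons (P.lf 0 5783379 0) (P.cons (P.lf 0 1059780 0) (P.lf 37848 0 0))))) (P.cons (P.cons (P.lf 10525272 0 0) (P.cons (P.lf 10378362 0 0) (P.cons (P.lf 0 324747 0) (P.cons (P.lf 0 59508 0) (P.lf 2124 0 0))))) (P.cons (P.cons (P.lf 21408 0 0) (P.cons (P.lf 21108 0 0) (P.cons (P.lf 0 660 0) (P.cons (P.lf 0 120 0) P.nil)))) (P.cons (P.cons (P.lf 0 9084 0) (P.cons (P.lf 0 8958 0) (P.cons (P.lf 279 0 0) P.nil))) (P.cons (P.cons (P.lf 0 138 0) (P.cons (P.lf 0 138 0) P.nil)) (P.cons (P.cons (P.lf 0 0 0) P.nil) P.nil)))))) 252)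
 EL.nil))))))
noncomputable def S183_190_216_290_2 : EL := (EL.cons 0 (TM.mk (P.cons (P.cons (P.lf 0 1499813803 0) (P.cons (P.lf 77589437 0 0) (P.cons (P.lf 35662855 0 0) (P.cons (P.lf 0 2654365 0) (P.cons (P.lf 0 171494 0) (P.cons (P.lf 20457 0 0) P.nil)))))) (P.cons (P.cons (P.lf 307483101 0 0) (P.cons (P.lf 0 13596072 0) (P.cons (P.lf 0 6297568 0) (P.cons (P.lf 419503 0 0) (P.cons (P.lf 21461 0 0) P.nil))))) (P.cons (P.cons (P.lf 36886063 0 0) (P.cons (P.lf 0 1698531 0) (P.cons (P.lf 0 781039 0) (P.cons (P.lf 57776 0 0) P.nil)))) (P.cons (P.cons (P.lf 0 1270469 0) (P.cons (P.lf 5457 0 0) (P.cons (P.lf 3090 0 0) P.nil))) (P.cons (P.cons (P.lf 0 123797 0) (P.cons (P.lf 4923 0 0) P.nil)) (P.cons (P.cons (P.lf 1370 0 0) P.nil) P.nil)))))) 26740)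
 (EL.cons 1 (TM.mk (P.cons (P.cons (P.lf 0 1086352096 0) (P.cons (P.lf 63543088 0 0) (P.cons (P.lf 29070332 0 0) (P.cons (P.lf 0 2302537 0) (P.cons (P.lf 0 164697 0) (P.cons (P.lf 19648 0 0) P.nil)))))) (P.cons (P.cons (P.lf 0 135789821 0) (P.cons (P.lf 8654954 0 0) (P.cons (P.lf 3946504 0 0) (P.cons (P.lf 0 325912 0) (P.cons (P.lf 0 24742 0) P.nil))))) (P.cons (P.cons (P.lf 9496042 0 0) (P.cons (P.lf 0 221062 0) (P.cons (P.lf 0 106051 0) (P.cons (P.lf 3366 0 0) P.nil)))) (P.cons (P.cons (P.lf 1230778 0 0) (P.cons (P.lf 0 54196 0) (P.cons (P.lf 0 25057 0) P.nil))) (P.cons (P.cons (P.lf 0 20451 0) (P.cons (P.lf 0 690 0) P.nil)) (P.cons (P.cons (P.lf 0 2995 0) P.nil) P.nil)))))) 14198)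
 (EL.cons 5 (TM.mk (P.cons (P.cons (P.lf 2124309490 0 0) (P.cons (P.lf 0 126199760 0) (P.cons (P.lf 0 57703225 0) (P.cons (P.lf 4603101 0 0) (P.cons (P.lf 332773 0 0) (P.cons (P.lf 0 39698 0) P.nil)))))) (P.cons (P.cons (P.lf 105672608 0 0) (P.cons (P.lf 0 7365970 0) (P.cons (P.lf 0 3348477 0) (P.cons (P.lf 287096 0 0) (P.cons (P.lf 22886 0 0) P.nil))))) (P.cons (P.cons (P.lf 0 12620831 0) (P.cons (P.lf 428298 0 0) (P.cons (P.lf 199962 0 0) (P.cons (P.lf 0 11713 0) P.nil)))) (P.cons (P.cons (P.lf 0 231251 0) (P.cons (P.lf 20849 0 0) (P.cons (P.lf 9524 0 0) P.nil))) (P.cons (P.cons (P.lf 38772 0 0) (P.cons (P.lf 0 1028 0) P.nil)) (P.cons (P.cons (P.lf 341 0 0) P.nil) P.nil)))))) 17438)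
 (EL.cons 9 (TM.mk (P.cons (P.cons (P.lf 1403860900 0 0) (P.cons (P.lf 0 87010936 0) (P.cons (P.lf 0 39726259 0) (P.cons (P.lf 3228817 0 0) (P.cons (P.lf 239827 0 0) (P.cons (P.lf 0 28612 0) P.nil)))))) (P.cons (P.cons (P.lf 189705808 0 0) (P.cons (P.lf 0 10764804 0) (P.cons (P.lf 0 4930231 0) (P.cons (P.lf 384930 0 0) (P.cons (P.lf 26932 0 0) P.nil))))) (P.cons (P.cons (P.lf 436071 0 0) (P.cons (P.lf 0 154957 0) (P.cons (P.lf 0 68587 0) (P.cons (P.lf 7786 0 0) P.nil)))) (P.cons (P.cons (P.lf 0 602619 0) (P.cons (P.lf 20103 0 0) (P.cons (P.lf 9376 0 0) P.nil))) (P.cons (P.cons (P.lf 0 4627 0) (P.cons (P.lf 636 0 0) P.nil)) (P.cons (P.cons (P.lf 711 0 0) P.nil) P.nil)))))) 7142)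
 (EL.cons 2 (TM.mk (P.cons (P.cons (P.lf 196239352 0 0) (P.cons (P.lf 187418846 0 0) (P.cons (P.lf 0 14922163 0) (P.cons (P.lf 0 3615913 0) (P.cons (P.lf 297382 0 0) (P.cons (P.lf 10783 0 0) P.nil)))))) (P.cons (P.cons (P.lf 12390007 0 0) (P.cons (P.lf 11902516 0 0) (P.cons (P.lf 0 840931 0) (P.cons (P.lf 0 199687 0) (P.cons (P.lf 15828 0 0) P.nil))))) (P.cons (P.cons (P.lf 0 949291 0) (P.cons (P.lf 0 920559 0) (P.cons (P.lf 51856 0 0) (P.cons (P.lf 11745 0 0) P.nil)))) (P.cons (P.cons (P.lf 0 50056 0) (P.cons (P.lf 0 48054 0) (P.cons (P.lf 3448 0 0) P.nil))) (P.cons (P.cons (P.lf 1102 0 0) (P.cons (P.lf 1091 0 0) P.nil)) (P.cons (P.cons (P.lf 73 0 0) P.nil) P.nil)))))) 5450)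
 (EL.cons 6 (TM.mk (P.cons (P.cons (P.lf 174998286 0 0) (P.cons (P.lf 167132514 0 0) (P.cons (P.lf 0 13306980 0) (P.cons (P.lf 0 3224520 0) (P.cons (P.lf 265188 0 0) (P.cons (P.lf 9612 0 0) P.nil)))))) (P.cons (P.cons (P.lf 21650406 0 0) (P.cons (P.lf 20739174 0 0) (P.cons (P.lf 0 1556052 0) (P.cons (P.lf 0 373416 0) (P.cons (P.lf 30180 0 0) P.nil))))) (P.cons (P.cons (P.lf 311652 0 0) (P.cons (P.lf 288966 0 0) (P.cons (P.lf 0 36348 0) (P.cons (P.lf 0 9318 0) P.nil)))) (P.cons (P.cons (P.lf 0 40440 0) (P.cons (P.lf 0 39420 0) (P.cons (P.lf 1908 0 0) P.nil))) (P.cons (P.cons (P.lf 0 1284 0) (P.cons (P.lf 0 1230 0) P.nil)) (P.cons (P.cons (P.lf 24 0 0) P.nil) P.nil)))))) 6006)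
 EL.nil))))))
noncomputable def S183_190_216_290_3 : EL := (EL.cons 0 (TM.mk (P.cons (P.lf 1866094518 0 0) (P.cons (P.lf 0 156241516 0) (P.cons (P.lf 1144425 0 0) (P.cons (P.lf 104359 0 0) (P.cons (P.lf 541 0 0) (P.cons (P.lf 0 31 0) P.nil)))))) 105)
 (EL.cons 1 (TM.mk (P.cons (P.lf 1664107338 0 0) (P.cons (P.lf 0 38517202 0) (P.cons (P.lf 0 2771514 0) (P.cons (P.lf 0 217 0) (P.cons (P.lf 1162 0 0) (P.cons (P.lf 9 0 0) P.nil)))))) 100)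
 (EL.cons 5 (TM.mk (P.cons (P.lf 1483983372 0 0) (P.cons (P.lf 55552538 0 0) (P.cons (P.lf 0 406904 0) (P.cons (P.lf 0 37104 0) (P.cons (P.lf 0 194 0) (P.cons (P.lf 10 0 0) P.nil)))))) 88)
 EL.nil)))
noncomputable def S183_190_216_290_4 : EL := (EL.cons 0 (TM.mk (P.cons (P.cons (P.lf 871104216 0 0) (P.cons (P.lf 0 26995406 0) (P.cons (P.lf 0 12743483 0) (P.lf 606830 0 0)))) (P.cons (P.cons (P.lf 0 14077682 0) (P.cons (P.lf 744380 0 0) (P.cons (P.lf 351393 0 0) (P.lf 0 16732 0)))) (P.cons (P.cons (P.lf 0 6246706 0) (P.cons (P.lf 107277 0 0) (P.cons (P.lf 50640 0 0) (P.lf 0 2409 0)))) (P.cons (P.cons (P.lf 178198 0 0) (P.cons (P.lf 0 873 0) (P.cons (P.lf 0 411 0) P.nil))) (P.cons (P.cons (P.lf 8344 0 0) (P.cons (P.lf 0 184 0) P.nil)) (P.cons (P.cons (P.lf 0 165 0) P.nil) P.nil)))))) 518)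
 (EL.cons 1 (TM.mk (P.cons (P.cons (P.lf 776815378 0 0) (P.cons (P.lf 0 24073408 0) (P.cons (P.lf 0 11364121 0) (P.lf 541145 0 0)))) (P.cons (P.cons (P.lf 34506043 0 0) (P.cons (P.lf 0 794570 0) (P.cons (P.lf 0 375084 0) (P.lf 17859 0 0)))) (P.cons (P.cons (P.lf 0 4161078 0) (P.cons (P.lf 68630 0 0) (P.cons (P.lf 32398 0 0) (P.lf 0 1541 0)))) (P.cons (P.cons (P.lf 0 104341 0) (P.cons (P.lf 3481 0 0) (P.cons (P.lf 1644 0 0) P.nil))) (P.cons (P.cons (P.lf 5246 0 0) (P.cons (P.lf 0 20 0) P.nil)) (P.cons (P.cons (P.lf 150 0 0) P.nil) P.nil)))))) 444)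
 (EL.cons 5 (TM.mk (P.cons (P.cons (P.lf 692732420 0 0) (P.cons (P.lf 0 21467686 0) (P.cons (P.lf 0 10134062 0) (P.lf 482572 0 0)))) (P.cons (P.cons (P.lf 72737240 0 0) (P.cons (P.lf 0 2009092 0) (P.cons (P.lf 0 948412 0) (P.lf 45160 0 0)))) (P.cons (P.cons (P.lf 88568 0 0) (P.cons (P.lf 0 41690 0) (P.cons (P.lf 0 19678 0) (P.lf 936 0 0)))) (P.cons (P.cons (P.lf 0 134434 0) (P.cons (P.lf 1814 0 0) (P.cons (P.lf 856 0 0) P.nil))) (P.cons (P.cons (P.lf 0 2086 0) (P.cons (P.lf 86 0 0) P.nil)) (P.cons (P.cons (P.lf 102 0 0) P.nil) P.nil)))))) 354)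
 EL.nil)))
noncomputable def S183_190_216_290_5 : EL := (EL.cons 0 (TM.mk (P.cons (P.cons (P.lf 406636720 0 0) (P.cons (P.lf 0 25203237 0) (P.cons (P.lf 0 11506948 0) (P.cons (P.lf 935245 0 0) (P.cons (P.lf 69466 0 0) (P.cons (P.lf 0 8286 0) P.nil)))))) (P.cons (P.cons (P.lf 20903164 0 0) (P.cons (P.lf 0 1007910 0) (P.cons (P.lf 0 464633 0) (P.cons (P.lf 33191 0 0) (P.cons (P.lf 1984 0 0) P.nil))))) (P.cons (P.cons (P.lf 0 4225030 0) (P.cons (P.lf 200724 0 0) (P.cons (P.lf 92641 0 0) (P.cons (P.lf 0 6505 0) P.nil)))) (P.cons (P.cons (P.lf 0 128687 0) (P.cons (P.lf 6257 0 0) (P.cons (P.lf 2859 0 0) P.nil))) (P.cons (P.cons (P.lf 16541 0 0) (P.cons (P.lf 0 511 0) P.nil)) (P.cons (P.cons (P.lf 226 0 0) P.nil) P.nil)))))) 4423)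
 (EL.cons 1 (TM.mk (P.cons (P.cons (P.lf 362622120 0 0) (P.cons (P.lf 0 22475223 0) (P.cons (P.lf 0 10261428 0) (P.cons (P.lf 834013 0 0) (P.cons (P.lf 61946 0 0) (P.cons (P.lf 0 7389 0) P.nil)))))) (P.cons (P.cons (P.lf 40608461 0 0) (P.cons (P.lf 0 2260376 0) (P.cons (P.lf 0 1035984 0) (P.cons (P.lf 80122 0 0) (P.cons (P.lf 5521 0 0) P.nil))))) (P.cons (P.cons (P.lf 0 1625480 0) (P.cons (P.lf 61762 0 0) (P.cons (P.lf 28848 0 0) (P.cons (P.lf 0 1678 0) P.nil)))) (P.cons (P.cons (P.lf 0 239923 0) (P.cons (P.lf 10751 0 0) (P.cons (P.lf 4953 0 0) P.nil))) (P.cons (P.cons (P.lf 2465 0 0) (P.cons (P.lf 93 0 0) P.nil)) (P.cons (P.cons (P.lf 506 0 0) P.nil) P.nil)))))) 3427)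
 (EL.cons 5 (TM.mk (P.cons (P.cons (P.lf 323371686 0 0) (P.cons (P.lf 0 20042492 0) (P.cons (P.lf 0 9150726 0) (P.cons (P.lf 743740 0 0) (P.cons (P.lf 55242 0 0) (P.cons (P.lf 0 6590 0) P.nil)))))) (P.cons (P.cons (P.lf 55803032 0 0) (P.cons (P.lf 0 3229898 0) (P.cons (P.lf 0 1478206 0) (P.cons (P.lf 116506 0 0) (P.cons (P.lf 8270 0 0) P.nil))))) (P.cons (P.cons (P.lf 1647590 0 0) (P.cons (P.lf 0 123020 0) (P.cons (P.lf 0 55802 0) (P.cons (P.lf 4908 0 0) P.nil)))) (P.cons (P.cons (P.lf 0 155116 0) (P.cons (P.lf 4474 0 0) (P.cons (P.lf 2108 0 0) P.nil))) (P.cons (P.cons (P.lf 0 7424 0) (P.cons (P.lf 392 0 0) P.nil)) (P.cons (P.cons (P.lf 154 0 0) P.nil) P.nil)))))) 2640)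
 EL.nil)))
noncomputable def S183_190_216_290_6 : EL := (EL.cons 12 (TM.mk (P.lf 8589934592 0 0) 0)
 (EL.cons 3 (TM.mk (P.cons (P.lf 0 2001851010 0) (P.cons (P.lf 83803965 0 0) (P.cons (P.lf 1140311 0 0) (P.cons (P.lf 0 8238 0) (P.cons (P.lf 0 311 0) (P.cons (P.lf 0 0 0) P.nil)))))) 52)
 (EL.cons 7 (TM.mk (P.cons (P.lf 0 1785169467 0) (P.cons (P.lf 0 33413682 0) (P.cons (P.lf 557453 0 0) (P.cons (P.lf 11884 0 0) (P.cons (P.lf 0 18 0) (P.cons (P.lf 0 3 0) P.nil)))))) 44)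
 EL.nil)))
noncomputable def S183_190_216_290_7 : EL := (EL.cons 12 (TM.mk (P.cons (P.cons (P.lf 4009833466 0 0) (P.cons (P.lf 0 124264224 0) (P.cons (P.lf 0 58660320 0) (P.lf 2793344 0 0)))) (P.cons (P.cons (P.lf 270927376 0 0) (P.cons (P.lf 0 6977696 0) (P.cons (P.lf 0 3293896 0) (P.lf 156848 0 0)))) (P.cons (P.cons (P.lf 0 8529932 0) (P.cons (P.lf 0 14192 0) (P.cons (P.lf 0 6696 0) (P.lf 320 0 0)))) (P.cons (P.cons (P.lf 0 284298 0) (P.cons (P.lf 6016 0 0) (P.cons (P.lf 2840 0 0) P.nil))) (P.cons (P.cons (P.lf 3526 0 0) (P.cons (P.lf 88 0 0) P.nil)) (P.cons (P.cons (P.lf 174 0 0) P.nil) P.nil)))))) 1030)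
 (EL.cons 3 (TM.mk (P.cons (P.cons (P.lf 2438784465 0 0) (P.cons (P.lf 0 57918592 0) (P.cons (P.lf 0 27341120 0) (P.lf 1301954 0 0)))) (P.cons (P.cons (P.lf 0 201949667 0) (P.cons (P.lf 0 827588 0) (P.cons (P.lf 0 390670 0) (P.lf 18600 0 0)))) (P.cons (P.cons (P.lf 0 8495635 0) (P.cons (P.lf 162526 0 0) (P.cons (P.lf 76722 0 0) (P.lf 0 3652 0)))) (P.cons (P.cons (P.lf 136663 0 0) (P.cons (P.lf 4694 0 0) (P.cons (P.lf 2216 0 0) P.nil))) (P.cons (P.cons (P.lf 11134 0 0) (P.cons (P.lf 0 92 0) P.nil)) (P.cons (P.cons (P.lf 39 0 0) P.nil) P.nil)))))) 1739)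
 (EL.cons 7 (TM.mk (P.cons (P.cons (P.lf 0 2178288855 0) (P.cons (P.lf 60464026 0 0) (P.cons (P.lf 28542722 0 0) (P.lf 0 1359180 0)))) (P.cons (P.cons (P.lf 80519844 0 0) (P.cons (P.lf 329971 0 0) (P.cons (P.lf 155770 0 0) (P.lf 0 7417 0)))) (P.cons (P.cons (P.lf 948349 0 0) (P.cons (P.lf 0 74795 0) (P.cons (P.lf 0 35305 0) (P.lf 1680 0 0)))) (P.cons (P.cons (P.lf 0 167765 0) (P.cons (P.lf 836 0 0) (P.cons (P.lf 395 0 0) P.nil))) (P.cons (P.cons (P.lf 0 973 0) (P.cons (P.lf 92 0 0) P.nil)) (P.cons (P.cons (P.lf 140 0 0) P.nil) P.nil)))))) 1627)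
 (EL.cons 10 (TM.mk (P.cons (P.cons (P.lf 0 450970098 0) (P.cons (P.lf 0 444675537 0) (P.cons (P.lf 13914327 0 0) (P.cons (P.lf 2549742 0 0) (P.lf 0 91062 0))))) (P.cons (P.cons (P.lf 0 16881948 0) (P.cons (P.lf 0 16646313 0) (P.cons (P.lf 520878 0 0) (P.cons (P.lf 95448 0 0) (P.lf 0 3408 0))))) (P.cons (P.cons (P.lf 123654 0 0) (P.cons (P.lf 121926 0 0) (P.cons (P.lf 0 3813 0) (P.cons (P.lf 0 699 0) P.nil)))) (P.cons (P.cons (P.lf 11274 0 0) (P.cons (P.lf 11118 0 0) (P.cons (P.lf 0 345 0) P.nil))) (P.cons (P.cons (P.lf 57 0 0) (P.cons (P.lf 57 0 0) P.nil)) (P.cons (P.cons (P.lf 0 3 0) P.nil) P.nil)))))) 255)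
 EL.nil))))
noncomputable def S183_190_216_290_8 : EL := (EL.cons 12 (TM.mk (P.cons (P.cons (P.lf 1871814534 0 0) (P.cons (P.lf 0 116014582 0) (P.cons (P.lf 0 52968346 0) (P.cons (P.lf 4305090 0 0) (P.cons (P.lf 319770 0 0) (P.cons (P.lf 0 38150 0) P.nil)))))) (P.cons (P.cons (P.lf 252941078 0 0) (P.cons (P.lf 0 14353072 0) (P.cons (P.lf 0 6573642 0) (P.cons (P.lf 513240 0 0) (P.cons (P.lf 35910 0 0) P.nil))))) (P.cons (P.cons (P.lf 581428 0 0) (P.cons (P.lf 0 206610 0) (P.cons (P.lf 0 91450 0) (P.cons (P.lf 10382 0 0) P.nil)))) (P.cons (P.cons (P.lf 0 803492 0) (P.cons (P.lf 26804 0 0) (P.cons (P.lf 12502 0 0) P.nil))) (P.cons (P.cons (P.lf 0 6170 0) (P.cons (P.lf 848 0 0) P.nil)) (P.cons (P.cons (P.lf 948 0 0) P.nil) P.nil)))))) 9494)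
 (EL.cons 3 (TM.mk (P.cons (P.cons (P.lf 2713097835 0 0) (P.cons (P.lf 0 151670425 0) (P.cons (P.lf 0 69503061 0) (P.cons (P.lf 5387022 0 0) (P.cons (P.lf 372606 0 0) (P.cons (P.lf 0 44450 0) P.nil)))))) (P.cons (P.cons (P.lf 5981737 0 0) (P.cons (P.lf 0 4758433 0) (P.cons (P.lf 0 2098711 0) (P.cons (P.lf 246261 0 0) (P.cons (P.lf 26246 0 0) P.nil))))) (P.cons (P.cons (P.lf 0 28094842 0) (P.cons (P.lf 887670 0 0) (P.cons (P.lf 415077 0 0) (P.cons (P.lf 0 23686 0) P.nil)))) (P.cons (P.cons (P.lf 0 393373 0) (P.cons (P.lf 44101 0 0) (P.cons (P.lf 20219 0 0) P.nil))) (P.cons (P.cons (P.lf 57891 0 0) (P.cons (P.lf 0 906 0) P.nil)) (P.cons (P.cons (P.lf 1355 0 0) P.nil) P.nil)))))) 16995)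
 (EL.cons 7 (TM.mk (P.cons (P.cons (P.lf 0 1644674330 0) (P.cons (P.lf 95363053 0 0) (P.cons (P.lf 43641410 0 0) (P.cons (P.lf 0 3442588 0) (P.cons (P.lf 0 244726 0) (P.cons (P.lf 29192 0 0) P.nil)))))) (P.cons (P.cons (P.lf 0 2384998 0) (P.cons (P.lf 1897251 0 0) (P.cons (P.lf 836791 0 0) (P.cons (P.lf 0 98190 0) (P.cons (P.lf 0 10458 0) P.nil))))) (P.cons (P.cons (P.lf 11274008 0 0) (P.cons (P.lf 0 411392 0) (P.cons (P.lf 0 190840 0) (P.cons (P.lf 12416 0 0) P.nil)))) (P.cons (P.cons (P.lf 0 296257 0) (P.cons (P.lf 0 2744 0) (P.cons (P.lf 0 1140 0) P.nil))) (P.cons (P.cons (P.lf 0 25281 0) (P.cons (P.lf 995 0 0) P.nil)) (P.cons (P.cons (P.lf 543 0 0) P.nil) P.nil)))))) 10253)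
 (EL.cons 10 (TM.mk (P.cons (P.cons (P.lf 0 421031142 0) (P.cons (P.lf 0 402106758 0) (P.cons (P.lf 32015478 0 0) (P.cons (P.lf 7757934 0 0) (P.cons (P.lf 0 638034 0) (P.cons (P.lf 0 23136 0) P.nil)))))) (P.cons (P.cons (P.lf 0 44208468 0) (P.cons (P.lf 0 42370326 0) (P.cons (P.lf 3144492 0 0) (P.cons (P.lf 753204 0 0) (P.cons (P.lf 0 60678 0) P.nil))))) (P.cons (P.cons (P.lf 0 53826 0) (P.cons (P.lf 0 27738 0) (P.cons (P.lf 38604 0 0) (P.cons (P.lf 10746 0 0) P.nil)))) (P.cons (P.cons (P.lf 81702 0 0) (P.cons (P.lf 79458 0 0) (P.cons (P.lf 0 4122 0) P.nil))) (P.cons (P.cons (P.lf 1266 0 0) (P.cons (P.lf 1194 0 0) P.nil)) (P.cons (P.cons (P.lf 0 60 0) P.nil) P.nil)))))) 11436)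
 EL.nil))))
noncomputable def S183_190_216_290_9 : EL := (EL.cons 3 (TM.mk (P.cons (P.lf 0 2001851010 0) (P.cons (P.lf 83803965 0 0) (P.cons (P.lf 1140311 0 0) (P.cons (P.lf 0 8238 0) (P.cons (P.lf 0 311 0) (P.cons (P.lf 0 0 0) P.nil)))))) 52)
 (EL.cons 7 (TM.mk (P.cons (P.lf 0 1785169467 0) (P.cons (P.lf 0 33413682 0) (P.cons (P.lf 557453 0 0) (P.cons (P.lf 11884 0 0) (P.cons (P.lf 0 18 0) (P.cons (P.lf 0 3 0) P.nil)))))) 44)
 EL.nil))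
noncomputable def S183_190_216_290_10 : EL := (EL.cons 3 (TM.mk (P.cons (P.cons (P.lf 0 934476168 0) (P.cons (P.lf 28959296 0 0) (P.cons (P.lf 13670560 0 0) (P.lf 0 650977 0)))) (P.cons (P.cons (P.lf 0 24018377 0) (P.cons (P.lf 413794 0 0) (P.cons (P.lf 195335 0 0) (P.lf 0 9300 0)))) (P.cons (P.cons (P.lf 5163356 0 0) (P.cons (P.lf 0 81263 0) (P.cons (P.lf 0 38361 0) (P.lf 1826 0 0)))) (P.cons (P.cons (P.lf 15154 0 0) (P.cons (P.lf 0 2347 0) (P.cons (P.lf 0 1108 0) P.nil))) (P.cons (P.cons (P.lf 0 5132 0) (P.cons (P.lf 46 0 0) P.nil)) (P.cons (P.cons (P.lf 0 45 0) P.nil) P.nil)))))) 376)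
 (EL.cons 7 (TM.mk (P.cons (P.cons (P.lf 0 833327913 0) (P.cons (P.lf 25824724 0 0) (P.cons (P.lf 12190850 0 0) (P.lf 0 580515 0)))) (P.cons (P.cons (P.lf 0 71902128 0) (P.cons (P.lf 1933483 0 0) (P.cons (P.lf 912721 0 0) (P.lf 0 43462 0)))) (P.cons (P.cons (P.lf 979051 0 0) (P.cons (P.lf 22027 0 0) (P.cons (P.lf 10397 0 0) (P.lf 0 495 0)))) (P.cons (P.cons (P.lf 115393 0 0) (P.cons (P.lf 0 1819 0) (P.cons (P.lf 0 859 0) P.nil))) (P.cons (P.cons (P.lf 185 0 0) (P.cons (P.lf 0 52 0) P.nil)) (P.cons (P.cons (P.lf 0 82 0) P.nil) P.nil)))))) 294)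
 EL.nil))
noncomputable def S183_190_216_290_11 : EL := (EL.cons 3 (TM.mk (P.cons (P.cons (P.lf 0 436219131 0) (P.cons (P.lf 27036749 0 0) (P.cons (P.lf 12344067 0 0) (P.cons (P.lf 0 1003284 0) (P.cons (P.lf 0 74520 0) (P.cons (P.lf 8890 0 0) P.nil)))))) (P.cons (P.cons (P.lf 0 40685393 0) (P.cons (P.lf 2213081 0 0) (P.cons (P.lf 1015199 0 0) (P.cons (P.lf 0 77607 0) (P.cons (P.lf 0 5248 0) P.nil))))) (P.cons (P.cons (P.lf 2580692 0 0) (P.cons (P.lf 0 107280 0) (P.cons (P.lf 0 49851 0) (P.cons (P.lf 3158 0 0) P.nil)))) (P.cons (P.cons (P.lf 224705 0 0) (P.cons (P.lf 0 10055 0) (P.cons (P.lf 0 4627 0) P.nil))) (P.cons (P.cons (P.lf 0 6633 0) (P.cons (P.lf 54 0 0) P.nil)) (P.cons (P.cons (P.lf 0 397 0) P.nil) P.nil)))))) 3479)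
 (EL.cons 7 (TM.mk (P.cons (P.cons (P.lf 0 389002514 0) (P.cons (P.lf 24110275 0 0) (P.cons (P.lf 11007938 0 0) (P.cons (P.lf 0 894688 0) (P.cons (P.lf 0 66454 0) (P.cons (P.lf 7928 0 0) P.nil)))))) (P.cons (P.cons (P.lf 0 59847592 0) (P.cons (P.lf 3434151 0 0) (P.cons (P.lf 1572181 0 0) (P.cons (P.lf 0 123408 0) (P.cons (P.lf 0 8706 0) P.nil))))) (P.cons (P.cons (P.lf 0 983266 0) (P.cons (P.lf 91240 0 0) (P.cons (P.lf 41138 0 0) (P.cons (P.lf 0 3874 0) P.nil)))) (P.cons (P.cons (P.lf 183725 0 0) (P.cons (P.lf 0 5858 0) (P.cons (P.lf 0 2742 0) P.nil))) (P.cons (P.cons (P.lf 4791 0 0) (P.cons (P.lf 0 313 0) P.nil)) (P.cons (P.cons (P.lf 0 225 0) P.nil) P.nil)))))) 2515)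
 EL.nil))
noncomputable def S183_190_216_290_12 : EL := (EL.cons 4 (TM.mk (P.cons (P.lf 2001851010 0 0) (P.cons (P.lf 0 83803965 0) (P.cons (P.lf 0 1140311 0) (P.cons (P.lf 8238 0 0) (P.cons (P.lf 311 0 0) (P.cons (P.lf 0 0 0) P.nil)))))) 52)
 (EL.cons 8 (TM.mk (P.cons (P.lf 1785169467 0 0) (P.cons (P.lf 33413682 0 0) (P.cons (P.lf 0 557453 0) (P.cons (P.lf 0 11884 0) (P.cons (P.lf 18 0 0) (P.cons (P.lf 3 0 0) P.nil)))))) 44)
 EL.nil))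
noncomputable def S183_190_216_290_13 : EL := (EL.cons 4 (TM.mk (P.cons (P.cons (P.lf 934476168 0 0) (P.cons (P.lf 0 28959296 0) (P.cons (P.lf 0 13670560 0) (P.lf 650977 0 0)))) (P.cons (P.cons (P.lf 24018377 0 0) (P.cons (P.lf 0 413794 0) (P.cons (P.lf 0 195335 0) (P.lf 9300 0 0)))) (P.cons (P.cons (P.lf 0 5163356 0) (P.cons (P.lf 81263 0 0) (P.cons (P.lf 38361 0 0) (P.lf 0 1826 0)))) (P.cons (P.cons (P.lf 0 15154 0) (P.cons (P.lf 2347 0 0) (P.cons (P.lf 1108 0 0) P.nil))) (P.cons (P.cons (P.lf 5132 0 0) (P.cons (P.lf 0 46 0) P.nil)) (P.cons (P.cons (P.lf 45 0 0) P.nil) P.nil)))))) 376)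
 (EL.cons 8 (TM.mk (P.cons (P.cons (P.lf 833327913 0 0) (P.cons (P.lf 0 25824724 0) (P.cons (P.lf 0 12190850 0) (P.lf 580515 0 0)))) (P.cons (P.cons (P.lf 71902128 0 0) (P.cons (P.lf 0 1933483 0) (P.cons (P.lf 0 912721 0) (P.lf 43462 0 0)))) (P.cons (P.cons (P.lf 0 979051 0) (P.cons (P.lf 0 22027 0) (P.cons (P.lf 0 10397 0) (P.lf 495 0 0)))) (P.cons (P.cons (P.lf 0 115393 0) (P.cons (P.lf 1819 0 0) (P.cons (P.lf 859 0 0) P.nil))) (P.cons (P.cons (P.lf 0 185 0) (P.cons (P.lf 52 0 0) P.nil)) (P.cons (P.cons (P.lf 82 0 0) P.nil) P.nil)))))) 294)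
 EL.nil))
noncomputable def S183_190_216_290_14 : EL := (EL.cons 4 (TM.mk (P.cons (P.cons (P.lf 436219131 0 0) (P.cons (P.lf 0 27036749 0) (P.cons (P.lf 0 12344067 0) (P.cons (P.lf 1003284 0 0) (P.cons (P.lf 74520 0 0) (P.cons (P.lf 0 8890 0) P.nil)))))) (P.cons (P.cons (P.lf 40685393 0 0) (P.cons (P.lf 0 2213081 0) (P.cons (P.lf 0 1015199 0) (P.cons (P.lf 77607 0 0) (P.cons (P.lf 5248 0 0) P.nil))))) (P.cons (P.cons (P.lf 0 2580692 0) (P.cons (P.lf 107280 0 0) (P.cons (P.lf 49851 0 0) (P.cons (P.lf 0 3158 0) P.nil)))) (P.cons (P.cons (P.lf 0 224705 0) (P.cons (P.lf 10055 0 0) (P.cons (P.lf 4627 0 0) P.nil))) (P.cons (P.cons (P.lf 6633 0 0) (P.cons (P.lf 0 54 0) P.nil)) (P.cons (P.cons (P.lf 397 0 0) P.nil) P.nil)))))) 3479)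
 (EL.cons 8 (TM.mk (P.cons (P.cons (P.lf 389002514 0 0) (P.cons (P.lf 0 24110275 0) (P.cons (P.lf 0 11007938 0) (P.cons (P.lf 894688 0 0) (P.cons (P.lf 66454 0 0) (P.cons (P.lf 0 7928 0) P.nil)))))) (P.cons (P.cons (P.lf 59847592 0 0) (P.cons (P.lf 0 3434151 0) (P.cons (P.lf 0 1572181 0) (P.cons (P.lf 123408 0 0) (P.cons (P.lf 8706 0 0) P.nil))))) (P.cons (P.cons (P.lf 983266 0 0) (P.cons (P.lf 0 91240 0) (P.cons (P.lf 0 41138 0) (P.cons (P.lf 3874 0 0) P.nil)))) (P.cons (P.cons (P.lf 0 183725 0) (P.cons (P.lf 5858 0 0) (P.cons (P.lf 2742 0 0) P.nil))) (P.cons (P.cons (P.lf 0 4791 0) (P.cons (P.lf 313 0 0) P.nil)) (P.cons (P.cons (P.lf 225 0 0) P.nil) P.nil)))))) 2515)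
 EL.nil))
noncomputable def S183_190_216_290_15 : EL := (EL.cons 4 (TM.mk (P.cons (P.lf 0 995250409 0) (P.cons (P.lf 83328809 0 0) (P.cons (P.lf 0 610360 0) (P.cons (P.lf 0 55658 0) (P.cons (P.lf 0 288 0) (P.cons (P.lf 16 0 0) P.nil)))))) 59)
 (EL.cons 8 (TM.mk (P.cons (P.lf 0 887523914 0) (P.cons (P.lf 20542508 0 0) (P.cons (P.lf 1478141 0 0) (P.cons (P.lf 116 0 0) (P.cons (P.lf 0 620 0) (P.cons (P.lf 0 5 0) P.nil)))))) 50)
 EL.nil))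
noncomputable def S183_190_216_290_16 : EL := (EL.cons 4 (TM.mk (P.cons (P.cons (P.lf 0 464588915 0) (P.cons (P.lf 14397550 0 0) (P.cons (P.lf 6796524 0 0) (P.lf 0 323642 0)))) (P.cons (P.cons (P.lf 7508097 0 0) (P.cons (P.lf 0 397003 0) (P.cons (P.lf 0 187410 0) (P.lf 8924 0 0)))) (P.cons (P.cons (P.lf 3331576 0 0) (P.cons (P.lf 0 57214 0) (P.cons (P.lf 0 27008 0) (P.lf 1285 0 0)))) (P.cons (P.cons (P.lf 0 95039 0) (P.cons (P.lf 465 0 0) (P.cons (P.lf 219 0 0) P.nil))) (P.cons (P.cons (P.lf 0 4450 0) (P.cons (P.lf 98 0 0) P.nil)) (P.cons (P.cons (P.lf 88 0 0) P.nil) P.nil)))))) 285)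
 (EL.cons 8 (TM.mk (P.cons (P.cons (P.lf 0 414301535 0) (P.cons (P.lf 12839151 0 0) (P.cons (P.lf 6060865 0 0) (P.lf 0 288611 0)))) (P.cons (P.cons (P.lf 0 18403223 0) (P.cons (P.lf 423771 0 0) (P.cons (P.lf 200045 0 0) (P.lf 0 9525 0)))) (P.cons (P.cons (P.lf 2219242 0 0) (P.cons (P.lf 0 36603 0) (P.cons (P.lf 0 17279 0) (P.lf 822 0 0)))) (P.cons (P.cons (P.lf 55649 0 0) (P.cons (P.lf 0 1857 0) (P.cons (P.lf 0 877 0) P.nil))) (P.cons (P.cons (P.lf 0 2798 0) (P.cons (P.lf 11 0 0) P.nil)) (P.cons (P.cons (P.lf 0 80 0) P.nil) P.nil)))))) 227)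
 EL.nil))
noncomputable def S183_190_216_290_17 : EL := (EL.cons 4 (TM.mk (P.cons (P.cons (P.lf 0 216872917 0) (P.cons (P.lf 13441726 0 0) (P.cons (P.lf 6137039 0 0) (P.cons (P.lf 0 498797 0) (P.cons (P.lf 0 37049 0) (P.cons (P.lf 4419 0 0) P.nil)))))) (P.cons (P.cons (P.lf 0 11148354 0) (P.cons (P.lf 537552 0 0) (P.cons (P.lf 247804 0 0) (P.cons (P.lf 0 17701 0) (P.cons (P.lf 0 1058 0) P.nil))))) (P.cons (P.cons (P.lf 2253349 0 0) (P.cons (P.lf 0 107053 0) (P.cons (P.lf 0 49409 0) (P.cons (P.lf 3469 0 0) P.nil)))) (P.cons (P.cons (P.lf 68633 0 0) (P.cons (P.lf 0 3337 0) (P.cons (P.lf 0 1525 0) P.nil))) (P.cons (P.cons (P.lf 0 8821 0) (P.cons (P.lf 272 0 0) P.nil)) (P.cons (P.cons (P.lf 0 120 0) P.nil) P.nil)))))) 2369)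
 (EL.cons 8 (TM.mk (P.cons (P.cons (P.lf 0 193398464 0) (P.cons (P.lf 11986786 0 0) (P.cons (P.lf 5472762 0 0) (P.cons (P.lf 0 444807 0) (P.cons (P.lf 0 33038 0) (P.cons (P.lf 3941 0 0) P.nil)))))) (P.cons (P.cons (P.lf 0 21657846 0) (P.cons (P.lf 1205534 0 0) (P.cons (P.lf 552525 0 0) (P.cons (P.lf 0 42732 0) (P.cons (P.lf 0 2945 0) P.nil))))) (P.cons (P.cons (P.lf 866923 0 0) (P.cons (P.lf 0 32940 0) (P.cons (P.lf 0 15386 0) (P.cons (P.lf 895 0 0) P.nil)))) (P.cons (P.cons (P.lf 127959 0 0) (P.cons (P.lf 0 5734 0) (P.cons (P.lf 0 2642 0) P.nil))) (P.cons (P.cons (P.lf 0 1315 0) (P.cons (P.lf 0 50 0) P.nil)) (P.cons (P.cons (P.lf 0 270 0) P.nil) P.nil)))))) 1816)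
 EL.nil))
noncomputable def S183_190_216_290_18 : EL := (EL.cons 4 (TM.mk (P.cons (P.lf 494803745 0 0) (P.cons (P.lf 0 62142260 0) (P.cons (P.lf 1755912 0 0) (P.cons (P.lf 40602 0 0) (P.cons (P.lf 0 1280 0) (P.cons (P.lf 0 34 0) P.nil)))))) 52)
 (EL.cons 8 (TM.mk (P.cons (P.lf 441245894 0 0) (P.cons (P.lf 0 28684999 0) (P.cons (P.lf 0 558677 0) (P.cons (P.lf 38340 0 0) (P.cons (P.lf 755 0 0) (P.cons (P.lf 0 14 0) P.nil)))))) 42)
 EL.nil))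
noncomputable def S183_190_216_290_19 : EL := (EL.cons 4 (TM.mk (P.cons (P.cons (P.lf 230977382 0 0) (P.cons (P.lf 0 7157958 0) (P.cons (P.lf 0 3378994 0) (P.lf 160904 0 0)))) (P.cons (P.cons (P.lf 0 13402224 0) (P.cons (P.lf 497031 0 0) (P.cons (P.lf 234629 0 0) (P.lf 0 11172 0)))) (P.cons (P.cons (P.lf 0 1631649 0) (P.cons (P.lf 24259 0 0) (P.cons (P.lf 11451 0 0) (P.lf 0 544 0)))) (P.cons (P.cons (P.lf 119666 0 0) (P.cons (P.lf 0 1563 0) (P.cons (P.lf 0 737 0) P.nil))) (P.cons (P.cons (P.lf 1198 0 0) (P.cons (P.lf 0 55 0) P.nil)) (P.cons (P.cons (P.lf 0 169 0) P.nil) P.nil)))))) 232)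
 (EL.cons 8 (TM.mk (P.cons (P.cons (P.lf 205976254 0 0) (P.cons (P.lf 0 6383177 0) (P.cons (P.lf 0 3013250 0) (P.lf 143487 0 0)))) (P.cons (P.cons (P.lf 526607 0 0) (P.cons (P.lf 56535 0 0) (P.cons (P.lf 26688 0 0) (P.lf 0 1270 0)))) (P.cons (P.cons (P.lf 0 1603685 0) (P.cons (P.lf 30653 0 0) (P.cons (P.lf 14470 0 0) (P.lf 0 688 0)))) (P.cons (P.cons (P.lf 14157 0 0) (P.cons (P.lf 255 0 0) (P.cons (P.lf 120 0 0) P.nil))) (P.cons (P.cons (P.lf 3247 0 0) (P.cons (P.lf 0 56 0) P.nil)) (P.cons (P.cons (P.lf 0 5 0) P.nil) P.nil)))))) 166)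
 EL.nil))
noncomputable def S183_190_216_290_20 : EL := (EL.cons 4 (TM.mk (P.cons (P.cons (P.lf 107821640 0 0) (P.cons (P.lf 0 6682756 0) (P.cons (P.lf 0 3051120 0) (P.cons (P.lf 247984 0 0) (P.cons (P.lf 18419 0 0) (P.cons (P.lf 0 2197 0) P.nil)))))) (P.cons (P.cons (P.lf 1028808 0 0) (P.cons (P.lf 12509 0 0) (P.cons (P.lf 4529 0 0) (P.cons (P.lf 0 1579 0) (P.cons (P.lf 0 244 0) P.nil))))) (P.cons (P.cons (P.lf 0 1413735 0) (P.cons (P.lf 68218 0 0) (P.cons (P.lf 31459 0 0) (P.cons (P.lf 0 2234 0) P.nil)))) (P.cons (P.cons (P.lf 10062 0 0) (P.cons (P.lf 0 443 0) (P.cons (P.lf 0 211 0) P.nil))) (P.cons (P.cons (P.lf 6492 0 0) (P.cons (P.lf 0 237 0) P.nil)) (P.cons (P.cons (P.lf 0 106 0) P.nil) P.nil)))))) 1677)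
 (EL.cons 8 (TM.mk (P.cons (P.cons (P.lf 96150962 0 0) (P.cons (P.lf 0 5959411 0) (P.cons (P.lf 0 2720866 0) (P.cons (P.lf 221142 0 0) (P.cons (P.lf 16425 0 0) (P.cons (P.lf 0 1959 0) P.nil)))))) (P.cons (P.cons (P.lf 6742334 0 0) (P.cons (P.lf 0 349869 0) (P.cons (P.lf 0 160792 0) (P.cons (P.lf 11987 0 0) (P.cons (P.lf 776 0 0) P.nil))))) (P.cons (P.cons (P.lf 0 936537 0) (P.cons (P.lf 44862 0 0) (P.cons (P.lf 20698 0 0) (P.cons (P.lf 0 1460 0) P.nil)))) (P.cons (P.cons (P.lf 0 51311 0) (P.cons (P.lf 2482 0 0) (P.cons (P.lf 1138 0 0) P.nil))) (P.cons (P.cons (P.lf 3621 0 0) (P.cons (P.lf 0 106 0) P.nil)) (P.cons (P.cons (P.lf 143 0 0) P.nil) P.nil)))))) 1196)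
 EL.nil))
noncomputable def S183_190_216_290_21 : EL := (EL.cons 4 (TM.mk (P.cons (P.cons (P.lf 0 3373260633 0) (P.cons (P.lf 86877888 0 0) (P.cons (P.lf 41011680 0 0) (P.lf 0 1952931 0)))) (P.cons (P.cons (P.lf 177931290 0 0) (P.cons (P.lf 1241382 0 0) (P.cons (P.lf 586005 0 0) (P.lf 0 27900 0)))) (P.cons (P.cons (P.lf 13658991 0 0) (P.cons (P.lf 0 243789 0) (P.cons (P.lf 0 115083 0) (P.lf 5478 0 0)))) (P.cons (P.cons (P.lf 0 121509 0) (P.cons (P.lf 0 7041 0) (P.cons (P.lf 0 3324 0) P.nil))) (P.cons (P.cons (P.lf 0 16266 0) (P.cons (P.lf 138 0 0) P.nil)) (P.cons (P.cons (P.lf 0 84 0) P.nil) P.nil)))))) 1344)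
 (EL.cons 8 (TM.mk (P.cons (P.cons (P.lf 1344960942 0 0) (P.cons (P.lf 0 34639302 0) (P.cons (P.lf 0 16351872 0) (P.lf 778665 0 0)))) (P.cons (P.cons (P.lf 0 152421972 0) (P.cons (P.lf 1603512 0 0) (P.cons (P.lf 756951 0 0) (P.lf 0 36045 0)))) (P.cons (P.cons (P.lf 30702 0 0) (P.cons (P.lf 96822 0 0) (P.cons (P.lf 45702 0 0) (P.lf 0 2175 0)))) (P.cons (P.cons (P.lf 283158 0 0) (P.cons (P.lf 0 2655 0) (P.cons (P.lf 0 1254 0) P.nil))) (P.cons (P.cons (P.lf 1158 0 0) (P.cons (P.lf 0 144 0) P.nil)) (P.cons (P.cons (P.lf 0 222 0) P.nil) P.nil)))))) 1314)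
 (EL.cons 11 (TM.mk (P.cons (P.cons (P.lf 450970098 0 0) (P.cons (P.lf 444675537 0 0) (P.cons (P.lf 0 13914327 0) (P.cons (P.lf 0 2549742 0) (P.lf 91062 0 0))))) (P.cons (P.cons (P.lf 16881948 0 0) (P.cons (P.lf 16646313 0 0) (P.cons (P.lf 0 520878 0) (P.cons (P.lf 0 95448 0) (P.lf 3408 0 0))))) (P.cons (P.cons (P.lf 0 123654 0) (P.cons (P.lf 0 121926 0) (P.cons (P.lf 3813 0 0) (P.cons (P.lf 699 0 0) P.nil)))) (P.cons (P.cons (P.lf 0 11274 0) (P.cons (P.lf 0 11118 0) (P.cons (P.lf 345 0 0) P.nil))) (P.cons (P.cons (P.lf 0 57 0) (P.cons (P.lf 0 57 0) P.nil)) (P.cons (P.cons (P.lf 3 0 0) P.nil) P.nil)))))) 255)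
 EL.nil)))
noncomputable def S183_190_216_290_22 : EL := (EL.cons 4 (TM.mk (P.cons (P.cons (P.lf 0 1574658483 0) (P.cons (P.lf 89353587 0 0) (P.cons (P.lf 40923564 0 0) (P.cons (P.lf 0 3195153 0) (P.cons (P.lf 0 223563 0) (P.cons (P.lf 26670 0 0) P.nil)))))) (P.cons (P.cons (P.lf 0 23333565 0) (P.cons (P.lf 3485757 0 0) (P.cons (P.lf 1556955 0 0) (P.cons (P.lf 0 161934 0) (P.cons (P.lf 0 15747 0) P.nil))))) (P.cons (P.cons (P.lf 15337767 0 0) (P.cons (P.lf 0 497475 0) (P.cons (P.lf 0 232464 0) (P.cons (P.lf 13422 0 0) P.nil)))) (P.cons (P.cons (P.lf 309039 0 0) (P.cons (P.lf 0 27078 0) (P.cons (P.lf 0 12423 0) P.nil))) (P.cons (P.cons (P.lf 0 32262 0) (P.cons (P.lf 480 0 0) P.nil)) (P.cons (P.cons (P.lf 0 876 0) P.nil) P.nil)))))) 6747)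
 (EL.cons 8 (TM.mk (P.cons (P.cons (P.lf 627835908 0 0) (P.cons (P.lf 0 35626389 0) (P.cons (P.lf 0 16316736 0) (P.cons (P.lf 1273950 0 0) (P.cons (P.lf 89136 0 0) (P.cons (P.lf 0 10632 0) P.nil)))))) (P.cons (P.cons (P.lf 0 28731297 0) (P.cons (P.lf 768450 0 0) (P.cons (P.lf 367695 0 0) (P.cons (P.lf 0 12609 0) (P.cons (P.lf 876 0 0) P.nil))))) (P.cons (P.cons (P.lf 0 6128637 0) (P.cons (P.lf 251316 0 0) (P.cons (P.lf 115989 0 0) (P.cons (P.lf 0 8145 0) P.nil)))) (P.cons (P.cons (P.lf 239991 0 0) (P.cons (P.lf 0 1557 0) (P.cons (P.lf 0 801 0) P.nil))) (P.cons (P.cons (P.lf 15036 0 0) (P.cons (P.lf 0 654 0) P.nil)) (P.cons (P.cons (P.lf 0 384 0) P.nil) P.nil)))))) 3858)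
 (EL.cons 11 (TM.mk (P.cons (P.cons (P.lf 210515571 0 0) (P.cons (P.lf 201053379 0 0) (P.cons (P.lf 0 16007739 0) (P.cons (P.lf 0 3878967 0) (P.cons (P.lf 319017 0 0) (P.cons (P.lf 11568 0 0) P.nil)))))) (P.cons (P.cons (P.lf 22104234 0 0) (P.cons (P.lf 21185163 0 0) (P.cons (P.lf 0 1572246 0) (P.cons (P.lf 0 376602 0) (P.cons (P.lf 30339 0 0) P.nil))))) (P.cons (P.cons (P.lf 26913 0 0) (P.cons (P.lf 13869 0 0) (P.cons (P.lf 0 19302 0) (P.cons (P.lf 0 5373 0) P.nil)))) (P.cons (P.cons (P.lf 0 40851 0) (P.cons (P.lf 0 39729 0) (P.cons (P.lf 2061 0 0) P.nil))) (P.cons (P.cons (P.lf 0 633 0) (P.cons (P.lf 0 597 0) P.nil)) (P.cons (P.cons (P.lf 30 0 0) P.nil) P.nil)))))) 5718)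
 EL.nil)))
noncomputable def S183_190_216_290_23 : EL := (EL.cons 4 (TM.mk (P.cons (P.cons (P.lf 1677067380 0 0) (P.cons (P.lf 0 43192650 0) (P.cons (P.lf 0 20389575 0) (P.lf 970929 0 0)))) (P.cons (P.cons (P.lf 0 158668692 0) (P.cons (P.lf 1191012 0 0) (P.cons (P.lf 562230 0 0) (P.lf 0 26775 0)))) (P.cons (P.cons (P.lf 0 4042803 0) (P.cons (P.lf 171642 0 0) (P.cons (P.lf 81024 0 0) (P.lf 0 3855 0)))) (P.cons (P.cons (P.lf 401985 0 0) (P.cons (P.lf 0 1398 0) (P.cons (P.lf 0 660 0) P.nil))) (P.cons (P.cons (P.lf 9321 0 0) (P.cons (P.lf 0 291 0) P.nil)) (P.cons (P.cons (P.lf 0 372 0) P.nil) P.nil)))))) 1041)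
 (EL.cons 8 (TM.mk (P.cons (P.cons (P.lf 0 668667609 0) (P.cons (P.lf 17221449 0 0) (P.cons (P.lf 8129577 0 0) (P.lf 0 387123 0)))) (P.cons (P.cons (P.lf 103771470 0 0) (P.cons (P.lf 0 1518153 0) (P.cons (P.lf 0 716658 0) (P.lf 34125 0 0)))) (P.cons (P.cons (P.lf 0 2806719 0) (P.cons (P.lf 0 24570 0) (P.cons (P.lf 0 11595 0) (P.lf 549 0 0)))) (P.cons (P.cons (P.lf 0 186054 0) (P.cons (P.lf 3858 0 0) (P.cons (P.lf 1821 0 0) P.nil))) (P.cons (P.cons (P.lf 5532 0 0) (P.cons (P.lf 42 0 0) P.nil)) (P.cons (P.cons (P.lf 225 0 0) P.nil) P.nil)))))) 864)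
 (EL.cons 11 (TM.mk (P.cons (P.cons (P.lf 0 224206581 0) (P.cons (P.lf 0 221077146 0) (P.cons (P.lf 6917715 0 0) (P.cons (P.lf 1267641 0 0) (P.lf 0 45270 0))))) (P.cons (P.cons (P.lf 992898 0 0) (P.cons (P.lf 979038 0 0) (P.cons (P.lf 0 30633 0) (P.cons (P.lf 0 5613 0) (P.lf 198 0 0))))) (P.cons (P.cons (P.lf 540552 0 0) (P.cons (P.lf 533007 0 0) (P.cons (P.lf 0 16677 0) (P.cons (P.lf 0 3054 0) P.nil)))) (P.cons (P.cons (P.lf 6888 0 0) (P.cons (P.lf 6792 0 0) (P.cons (P.lf 0 210 0) P.nil))) (P.cons (P.cons (P.lf 0 309 0) (P.cons (P.lf 0 306 0) P.nil)) (P.cons (P.cons (P.lf 0 6 0) P.nil) P.nil)))))) 366)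
 EL.nil)))
noncomputable def S183_190_216_290_24 : EL := (EL.cons 4 (TM.mk (P.cons (P.cons (P.lf 782865204 0 0) (P.cons (P.lf 0 44423481 0) (P.cons (P.lf 0 20345766 0) (P.cons (P.lf 1588518 0 0) (P.cons (P.lf 111147 0 0) (P.cons (P.lf 0 13260 0) P.nil)))))) (P.cons (P.cons (P.lf 0 21172638 0) (P.cons (P.lf 126714 0 0) (P.cons (P.lf 77673 0 0) (P.cons (P.lf 14007 0 0) (P.cons (P.lf 3174 0 0) P.nil))))) (P.cons (P.cons (P.lf 0 8556984 0) (P.cons (P.lf 345180 0 0) (P.cons (P.lf 159567 0 0) (P.cons (P.lf 0 10947 0) P.nil)))) (P.cons (P.cons (P.lf 162192 0 0) (P.cons (P.lf 3912 0 0) (P.cons (P.lf 1695 0 0) P.nil))) (P.cons (P.cons (P.lf 26982 0 0) (P.cons (P.lf 0 954 0) P.nil)) (P.cons (P.cons (P.lf 0 177 0) P.nil) P.nil)))))) 3459)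
 (EL.cons 8 (TM.mk (P.cons (P.cons (P.lf 0 312138087 0) (P.cons (P.lf 17712195 0 0) (P.cons (P.lf 8112111 0 0) (P.cons (P.lf 0 633363 0) (P.cons (P.lf 0 44316 0) (P.cons (P.lf 5286 0 0) P.nil)))))) (P.cons (P.cons (P.lf 27351309 0 0) (P.cons (P.lf 0 1123536 0) (P.cons (P.lf 0 522402 0) (P.cons (P.lf 32781 0 0) (P.cons (P.lf 1416 0 0) P.nil))))) (P.cons (P.cons (P.lf 2626764 0 0) (P.cons (P.lf 0 119040 0) (P.cons (P.lf 0 54633 0) (P.cons (P.lf 4146 0 0) P.nil)))) (P.cons (P.cons (P.lf 0 256290 0) (P.cons (P.lf 6294 0 0) (P.cons (P.lf 2949 0 0) P.nil))) (P.cons (P.cons (P.lf 0 4206 0) (P.cons (P.lf 363 0 0) P.nil)) (P.cons (P.cons (P.lf 585 0 0) P.nil) P.nil)))))) 1908)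
 (EL.cons 11 (TM.mk (P.cons (P.cons (P.lf 0 104660988 0) (P.cons (P.lf 0 99956718 0) (P.cons (P.lf 7958487 0 0) (P.cons (P.lf 1928487 0 0) (P.cons (P.lf 0 158604 0) (P.cons (P.lf 0 5751 0) P.nil)))))) (P.cons (P.cons (P.lf 0 6608004 0) (P.cons (P.lf 0 6348009 0) (P.cons (P.lf 448497 0 0) (P.cons (P.lf 106500 0 0) (P.cons (P.lf 0 8442 0) P.nil))))) (P.cons (P.cons (P.lf 506289 0 0) (P.cons (P.lf 490965 0 0) (P.cons (P.lf 0 27657 0) (P.cons (P.lf 0 6264 0) P.nil)))) (P.cons (P.cons (P.lf 26697 0 0) (P.cons (P.lf 25629 0 0) (P.cons (P.lf 0 1839 0) P.nil))) (P.cons (P.cons (P.lf 0 588 0) (P.cons (P.lf 0 582 0) P.nil)) (P.cons (P.cons (P.lf 0 39 0) P.nil) P.nil)))))) 2895)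
 EL.nil)))
noncomputable def S183_190_216_290_25 : EL := (EL.cons 4 (TM.mk (P.cons (P.cons (P.lf 0 833779329 0) (P.cons (P.lf 21473877 0 0) (P.cons (P.lf 10136982 0 0) (P.lf 0 482712 0)))) (P.cons (P.cons (P.lf 113789235 0 0) (P.cons (P.lf 0 1491093 0) (P.cons (P.lf 0 703887 0) (P.lf 33519 0 0)))) (P.cons (P.cons (P.lf 0 817473 0) (P.cons (P.lf 0 72777 0) (P.cons (P.lf 0 34356 0) (P.lf 1635 0 0)))) (P.cons (P.cons (P.lf 0 332361 0) (P.cons (P.lf 4692 0 0) (P.cons (P.lf 2214 0 0) P.nil))) (P.cons (P.cons (P.lf 2781 0 0) (P.cons (P.lf 165 0 0) P.nil)) (P.cons (P.cons (P.lf 513 0 0) P.nil) P.nil)))))) 726)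
 (EL.cons 8 (TM.mk (P.cons (P.cons (P.lf 332438181 0 0) (P.cons (P.lf 0 8561904 0) (P.cons (P.lf 0 4041741 0) (P.lf 192465 0 0)))) (P.cons (P.cons (P.lf 0 65508489 0) (P.cons (P.lf 1113201 0 0) (P.cons (P.lf 525498 0 0) (P.lf 0 25023 0)))) (P.cons (P.cons (P.lf 3365826 0 0) (P.cons (P.lf 0 14502 0) (P.cons (P.lf 0 6846 0) (P.lf 324 0 0)))) (P.cons (P.cons (P.lf 64839 0 0) (P.cons (P.lf 0 2895 0) (P.cons (P.lf 0 1365 0) P.nil))) (P.cons (P.cons (P.lf 0 7578 0) (P.cons (P.lf 51 0 0) P.nil)) (P.cons (P.cons (P.lf 0 51 0) P.nil) P.nil)))))) 549)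
 (EL.cons 11 (TM.mk (P.cons (P.cons (P.lf 111467682 0 0) (P.cons (P.lf 109911834 0 0) (P.cons (P.lf 0 3439245 0) (P.cons (P.lf 0 630225 0) (P.lf 22506 0 0))))) (P.cons (P.cons (P.lf 0 5160030 0) (P.cons (P.lf 0 5088009 0) (P.cons (P.lf 159207 0 0) (P.cons (P.lf 29172 0 0) (P.lf 0 1041 0))))) (P.cons (P.cons (P.lf 0 311574 0) (P.cons (P.lf 0 307224 0) (P.cons (P.lf 9612 0 0) (P.cons (P.lf 1761 0 0) P.nil)))) (P.cons (P.cons (P.lf 8565 0 0) (P.cons (P.lf 8445 0 0) (P.cons (P.lf 0 264 0) P.nil))) (P.cons (P.cons (P.lf 465 0 0) (P.cons (P.lf 459 0 0) P.nil)) (P.cons (P.cons (P.lf 0 0 0) P.nil) P.nil)))))) 318)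
 EL.nil)))
noncomputable def S183_190_216_290_26 : EL := (EL.cons 4 (TM.mk (P.cons (P.cons (P.lf 0 389213238 0) (P.cons (P.lf 22085802 0 0) (P.cons (P.lf 10115202 0 0) (P.cons (P.lf 0 789753 0) (P.cons (P.lf 0 55257 0) (P.cons (P.lf 6591 0 0) P.nil)))))) (P.cons (P.cons (P.lf 26820021 0 0) (P.cons (P.lf 0 987579 0) (P.cons (P.lf 0 462069 0) (P.cons (P.lf 26094 0 0) (P.cons (P.lf 732 0 0) P.nil))))) (P.cons (P.cons (P.lf 4035276 0 0) (P.cons (P.lf 0 181554 0) (P.cons (P.lf 0 83475 0) (P.cons (P.lf 6183 0 0) P.nil)))) (P.cons (P.cons (P.lf 0 266328 0) (P.cons (P.lf 5364 0 0) (P.cons (P.lf 2541 0 0) P.nil))) (P.cons (P.cons (P.lf 0 12480 0) (P.cons (P.lf 657 0 0) P.nil)) (P.cons (P.cons (P.lf 714 0 0) P.nil) P.nil)))))) 2223)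
 (EL.cons 8 (TM.mk (P.cons (P.cons (P.lf 155184156 0 0) (P.cons (P.lf 0 8805885 0) (P.cons (P.lf 0 4033056 0) (P.cons (P.lf 314886 0 0) (P.cons (P.lf 22032 0 0) (P.cons (P.lf 0 2628 0) P.nil)))))) (P.cons (P.cons (P.lf 0 20094627 0) (P.cons (P.lf 927225 0 0) (P.cons (P.lf 428556 0 0) (P.cons (P.lf 0 29478 0) (P.cons (P.lf 0 1626 0) P.nil))))) (P.cons (P.cons (P.lf 0 825069 0) (P.cons (P.lf 40815 0 0) (P.cons (P.lf 18585 0 0) (P.cons (P.lf 0 1557 0) P.nil)))) (P.cons (P.cons (P.lf 190473 0 0) (P.cons (P.lf 0 5961 0) (P.cons (P.lf 0 2766 0) P.nil))) (P.cons (P.cons (P.lf 0 2529 0) (P.cons (P.lf 0 81 0) P.nil)) (P.cons (P.cons (P.lf 0 459 0) P.nil) P.nil)))))) 1203)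
 (EL.cons 11 (TM.mk (P.cons (P.cons (P.lf 52033788 0 0) (P.cons (P.lf 49694988 0 0) (P.cons (P.lf 0 3956682 0) (P.cons (P.lf 0 958776 0) (P.cons (P.lf 78852 0 0) (P.cons (P.lf 2859 0 0) P.nil)))))) (P.cons (P.cons (P.lf 1106967 0 0) (P.cons (P.lf 1075614 0 0) (P.cons (P.lf 0 57336 0) (P.cons (P.lf 0 12810 0) (P.cons (P.lf 897 0 0) P.nil))))) (P.cons (P.cons (P.lf 0 418881 0) (P.cons (P.lf 0 404520 0) (P.cons (P.lf 25338 0 0) (P.cons (P.lf 5877 0 0) P.nil)))) (P.cons (P.cons (P.lf 0 4392 0) (P.cons (P.lf 0 4116 0) (P.cons (P.lf 450 0 0) P.nil))) (P.cons (P.cons (P.lf 1011 0 0) (P.cons (P.lf 981 0 0) P.nil)) (P.cons (P.cons (P.lf 15 0 0) P.nil) P.nil)))))) 1836)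
 EL.nil)))
noncomputable def S183_190_216_290_27 : EL := (EL.cons 13 (TM.mk (P.lf 0 4294967296 0) 0)
 EL.nil)
noncomputable def S183_190_216_290_28 : EL := (EL.cons 13 (TM.mk (P.cons (P.cons (P.lf 0 2004916733 0) (P.cons (P.lf 62132112 0 0) (P.cons (P.lf 29330160 0 0) (P.lf 0 1396672 0)))) (P.cons (P.cons (P.lf 0 135463688 0) (P.cons (P.lf 3488848 0 0) (P.cons (P.lf 1646948 0 0) (P.lf 0 78424 0)))) (P.cons (P.cons (P.lf 4264966 0 0) (P.cons (P.lf 7096 0 0) (P.cons (P.lf 3348 0 0) (P.lf 0 160 0)))) (P.cons (P.cons (P.lf 142149 0 0) (P.cons (P.lf 0 3008 0) (P.cons (P.lf 0 1420 0) P.nil))) (P.cons (P.cons (P.lf 0 1763 0) (P.cons (P.lf 0 44 0) P.nil)) (P.cons (P.cons (P.lf 0 87 0) P.nil) P.nil)))))) 515)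
 EL.nil)
noncomputable def S183_190_216_290_29 : EL := (EL.cons 13 (TM.mk (P.cons (P.cons (P.lf 0 935907267 0) (P.cons (P.lf 58007291 0 0) (P.cons (P.lf 26484173 0 0) (P.cons (P.lf 0 2152545 0) (P.cons (P.lf 0 159885 0) (P.cons (P.lf 19075 0 0) P.nil)))))) (P.cons (P.cons (P.lf 0 126470539 0) (P.cons (P.lf 7176536 0 0) (P.cons (P.lf 3286821 0 0) (P.cons (P.lf 0 256620 0) (P.cons (P.lf 0 17955 0) P.nil))))) (P.cons (P.cons (P.lf 0 290714 0) (P.cons (P.lf 103305 0 0) (P.cons (P.lf 45725 0 0) (P.cons (P.lf 0 5191 0) P.nil)))) (P.cons (P.cons (P.lf 401746 0 0) (P.cons (P.lf 0 13402 0) (P.cons (P.lf 0 6251 0) P.nil))) (P.cons (P.cons (P.lf 3085 0 0) (P.cons (P.lf 0 424 0) P.nil)) (P.cons (P.cons (P.lf 0 474 0) P.nil) P.nil)))))) 4747)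
 EL.nil)
noncomputable def S183_190_216_290_30 : EL := (EL.cons 13 (TM.mk (P.cons (P.lf 2135307744 0 0) (P.cons (P.lf 0 89390896 0) (P.cons (P.lf 0 1216332 0) (P.cons (P.lf 8788 0 0) (P.cons (P.lf 332 0 0) (P.cons (P.lf 0 0 0) P.nil)))))) 48)
 EL.nil)
noncomputable def S183_190_216_290_31 : EL := (EL.cons 13 (TM.mk (P.cons (P.cons (P.lf 996774580 0 0) (P.cons (P.lf 0 30889916 0) (P.cons (P.lf 0 14581931 0) (P.lf 694376 0 0)))) (P.cons (P.cons (P.lf 25619603 0 0) (P.cons (P.lf 0 441381 0) (P.cons (P.lf 0 208358 0) (P.lf 9920 0 0)))) (P.cons (P.cons (P.lf 0 5507580 0) (P.cons (P.lf 86681 0 0) (P.cons (P.lf 40919 0 0) (P.lf 0 1948 0)))) (P.cons (P.cons (P.lf 0 16165 0) (P.cons (P.lf 2504 0 0) (P.cons (P.lf 1182 0 0) P.nil))) (P.cons (P.cons (P.lf 5475 0 0) (P.cons (P.lf 0 50 0) P.nil)) (P.cons (P.cons (P.lf 48 0 0) P.nil) P.nil)))))) 381)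
 EL.nil)
noncomputable def S183_190_216_290_32 : EL := (EL.cons 13 (TM.mk (P.cons (P.cons (P.lf 465300407 0 0) (P.cons (P.lf 0 28839199 0) (P.cons (P.lf 0 13167005 0) (P.cons (P.lf 1070170 0 0) (P.cons (P.lf 79489 0 0) (P.cons (P.lf 0 9483 0) P.nil)))))) (P.cons (P.cons (P.lf 43397753 0 0) (P.cons (P.lf 0 2360620 0) (P.cons (P.lf 0 1082879 0) (P.cons (P.lf 82781 0 0) (P.cons (P.lf 5598 0 0) P.nil))))) (P.cons (P.cons (P.lf 0 2752739 0) (P.cons (P.lf 114432 0 0) (P.cons (P.lf 53175 0 0) (P.cons (P.lf 0 3369 0) P.nil)))) (P.cons (P.cons (P.lf 0 239686 0) (P.cons (P.lf 10726 0 0) (P.cons (P.lf 4936 0 0) P.nil))) (P.cons (P.cons (P.lf 7076 0 0) (P.cons (P.lf 0 58 0) P.nil)) (P.cons (P.cons (P.lf 424 0 0) P.nil) P.nil)))))) 3688)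
 EL.nil)
noncomputable def S183_190_216_290_33 : EL := (EL.cons 14 (TM.mk (P.lf 8589934592 0 0) 0)
 EL.nil)
noncomputable def S183_190_216_290_34 : EL := (EL.cons 14 (TM.mk (P.cons (P.cons (P.lf 4009833466 0 0) (P.cons (P.lf 0 124264224 0) (P.cons (P.lf 0 58660320 0) (P.lf 2793344 0 0)))) (P.cons (P.cons (P.lf 270927376 0 0) (P.cons (P.lf 0 6977696 0) (P.cons (P.lf 0 3293896 0) (P.lf 156848 0 0)))) (P.cons (P.cons (P.lf 0 8529932 0) (P.cons (P.lf 0 14192 0) (P.cons (P.lf 0 6696 0) (P.lf 320 0 0)))) (P.cons (P.cons (P.lf 0 284298 0) (P.cons (P.lf 6016 0 0) (P.cons (P.lf 2840 0 0) P.nil))) (P.cons (P.cons (P.lf 3526 0 0) (P.cons (P.lf 88 0 0) P.nil)) (P.cons (P.cons (P.lf 174 0 0) P.nil) P.nil)))))) 1030)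
 EL.nil)
noncomputable def S183_190_216_290_35 : EL := (EL.cons 14 (TM.mk (P.cons (P.cons (P.lf 1871814534 0 0) (P.cons (P.lf 0 116014582 0) (P.cons (P.lf 0 52968346 0) (P.cons (P.lf 4305090 0 0) (P.cons (P.lf 319770 0 0) (P.cons (P.lf 0 38150 0) P.nil)))))) (P.cons (P.cons (P.lf 252941078 0 0) (P.cons (P.lf 0 14353072 0) (P.cons (P.lf 0 6573642 0) (P.cons (P.lf 513240 0 0) (P.cons (P.lf 35910 0 0) P.nil))))) (P.cons (P.cons (P.lf 581428 0 0) (P.cons (P.lf 0 206610 0) (P.cons (P.lf 0 91450 0) (P.cons (P.lf 10382 0 0) P.nil)))) (P.cons (P.cons (P.lf 0 803492 0) (P.cons (P.lf 26804 0 0) (P.cons (P.lf 12502 0 0) P.nil))) (P.cons (P.cons (P.lf 0 6170 0) (P.cons (P.lf 848 0 0) P.nil)) (P.cons (P.cons (P.lf 948 0 0) P.nil) P.nil)))))) 9494)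
 EL.nil)
noncomputable def S183_190_216_290_36 : EL := (EL.cons 14 (TM.mk (P.cons (P.lf 0 4270615488 0) (P.cons (P.lf 178781792 0 0) (P.cons (P.lf 2432664 0 0) (P.cons (P.lf 0 17576 0) (P.cons (P.lf 0 664 0) (P.cons (P.lf 0 0 0) P.nil)))))) 96)
 EL.nil)
noncomputable def S183_190_216_290_37 : EL := (EL.cons 14 (TM.mk (P.cons (P.cons (P.lf 0 1993549160 0) (P.cons (P.lf 61779832 0 0) (P.cons (P.lf 29163862 0 0) (P.lf 0 1388752 0)))) (P.cons (P.cons (P.lf 0 51239206 0) (P.cons (P.lf 882762 0 0) (P.cons (P.lf 416716 0 0) (P.lf 0 19840 0)))) (P.cons (P.cons (P.lf 11015160 0 0) (P.cons (P.lf 0 173362 0) (P.cons (P.lf 0 81838 0) (P.lf 3896 0 0)))) (P.cons (P.cons (P.lf 32330 0 0) (P.cons (P.lf 0 5008 0) (P.cons (P.lf 0 2364 0) P.nil))) (P.cons (P.cons (P.lf 0 10950 0) (P.cons (P.lf 100 0 0) P.nil)) (P.cons (P.cons (P.lf 0 96 0) P.nil) P.nil)))))) 762)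
 EL.nil)
noncomputable def S183_190_216_290_38 : EL := (EL.cons 14 (TM.mk (P.cons (P.cons (P.lf 0 930600814 0) (P.cons (P.lf 57678398 0 0) (P.cons (P.lf 26334010 0 0) (P.cons (P.lf 0 2140340 0) (P.cons (P.lf 0 158978 0) (P.cons (P.lf 18966 0 0) P.nil)))))) (P.cons (P.cons (P.lf 0 86795506 0) (P.cons (P.lf 4721240 0 0) (P.cons (P.lf 2165758 0 0) (P.cons (P.lf 0 165562 0) (P.cons (P.lf 0 11196 0) P.nil))))) (P.cons (P.cons (P.lf 5505478 0 0) (P.cons (P.lf 0 228864 0) (P.cons (P.lf 0 106350 0) (P.cons (P.lf 6738 0 0) P.nil)))) (P.cons (P.cons (P.lf 479372 0 0) (P.cons (P.lf 0 21452 0) (P.cons (P.lf 0 9872 0) P.nil))) (P.cons (P.cons (P.lf 0 14152 0) (P.cons (P.lf 116 0 0) P.nil)) (P.cons (P.cons (P.lf 0 848 0) P.nil) P.nil)))))) 7376)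
 EL.nil)
noncomputable def S183_190_216_290_39 : EL := (EL.cons 14 (TM.mk (P.cons (P.lf 2123200874 0 0) (P.cons (P.lf 0 177768126 0) (P.cons (P.lf 1302102 0 0) (P.cons (P.lf 118738 0 0) (P.cons (P.lf 616 0 0) (P.cons (P.lf 0 36 0) P.nil)))))) 112)
 EL.nil)
noncomputable def S183_190_216_290_40 : EL := (EL.cons 14 (TM.mk (P.cons (P.cons (P.lf 991123020 0 0) (P.cons (P.lf 0 30714774 0) (P.cons (P.lf 0 14499252 0) (P.lf 690438 0 0)))) (P.cons (P.cons (P.lf 0 16017274 0) (P.cons (P.lf 846940 0 0) (P.cons (P.lf 399808 0 0) (P.lf 0 19038 0)))) (P.cons (P.cons (P.lf 0 7107364 0) (P.cons (P.lf 122058 0 0) (P.cons (P.lf 57618 0 0) (P.lf 0 2742 0)))) (P.cons (P.cons (P.lf 202750 0 0) (P.cons (P.lf 0 994 0) (P.cons (P.lf 0 468 0) P.nil))) (P.cons (P.cons (P.lf 9494 0 0) (P.cons (P.lf 0 210 0) P.nil)) (P.cons (P.cons (P.lf 0 188 0) P.nil) P.nil)))))) 568)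
 EL.nil)
noncomputable def S183_190_216_290_41 : EL := (EL.cons 14 (TM.mk (P.cons (P.cons (P.lf 462662224 0 0) (P.cons (P.lf 0 28675684 0) (P.cons (P.lf 0 13092350 0) (P.cons (P.lf 1064102 0 0) (P.cons (P.lf 79038 0 0) (P.cons (P.lf 0 9428 0) P.nil)))))) (P.cons (P.cons (P.lf 23783156 0 0) (P.cons (P.lf 0 1146778 0) (P.cons (P.lf 0 528650 0) (P.cons (P.lf 37764 0 0) (P.cons (P.lf 2258 0 0) P.nil))))) (P.cons (P.cons (P.lf 0 4807146 0) (P.cons (P.lf 228380 0 0) (P.cons (P.lf 105406 0 0) (P.cons (P.lf 0 7402 0) P.nil)))) (P.cons (P.cons (P.lf 0 146418 0) (P.cons (P.lf 7120 0 0) (P.cons (P.lf 3254 0 0) P.nil))) (P.cons (P.cons (P.lf 18820 0 0) (P.cons (P.lf 0 582 0) P.nil)) (P.cons (P.cons (P.lf 258 0 0) P.nil) P.nil)))))) 5008)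
 EL.nil)
noncomputable def S183_190_216_290_42 : EL := (EL.cons 14 (TM.mk (P.cons (P.lf 0 1055581324 0) (P.cons (P.lf 132570156 0 0) (P.cons (P.lf 0 3745946 0) (P.cons (P.lf 0 86618 0) (P.cons (P.lf 2732 0 0) (P.cons (P.lf 74 0 0) P.nil)))))) 98)
 EL.nil)
noncomputable def S183_190_216_290_43 : EL := (EL.cons 14 (TM.mk (P.cons (P.cons (P.lf 0 492751750 0) (P.cons (P.lf 15270312 0 0) (P.cons (P.lf 7208522 0 0) (P.lf 0 343262 0)))) (P.cons (P.cons (P.lf 28591412 0 0) (P.cons (P.lf 0 1060334 0) (P.cons (P.lf 0 500542 0) (P.lf 23834 0 0)))) (P.cons (P.cons (P.lf 3480852 0 0) (P.cons (P.lf 0 51754 0) (P.cons (P.lf 0 24430 0) (P.lf 1162 0 0)))) (P.cons (P.cons (P.lf 0 255288 0) (P.cons (P.lf 3336 0 0) (P.cons (P.lf 1574 0 0) P.nil))) (P.cons (P.cons (P.lf 0 2556 0) (P.cons (P.lf 118 0 0) P.nil)) (P.cons (P.cons (P.lf 362 0 0) P.nil) P.nil)))))) 456)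
 EL.nil)
noncomputable def S183_190_216_290_44 : EL := (EL.cons 14 (TM.mk (P.cons (P.cons (P.lf 0 230019500 0) (P.cons (P.lf 14256548 0 0) (P.cons (P.lf 6509058 0 0) (P.cons (P.lf 0 529034 0) (P.cons (P.lf 0 39294 0) (P.cons (P.lf 4688 0 0) P.nil)))))) (P.cons (P.cons (P.lf 0 2194792 0) (P.cons (P.lf 0 26686 0) (P.cons (P.lf 0 9662 0) (P.cons (P.lf 3370 0 0) (P.cons (P.lf 522 0 0) P.nil))))) (P.cons (P.cons (P.lf 3015968 0 0) (P.cons (P.lf 0 145532 0) (P.cons (P.lf 0 67114 0) (P.cons (P.lf 4766 0 0) P.nil)))) (P.cons (P.cons (P.lf 0 21466 0) (P.cons (P.lf 946 0 0) (P.cons (P.lf 452 0 0) P.nil))) (P.cons (P.cons (P.lf 0 13850 0) (P.cons (P.lf 506 0 0) P.nil)) (P.cons (P.cons (P.lf 228 0 0) P.nil) P.nil)))))) 3532)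
 EL.nil)
noncomputable def S183_190_216_290_45 : EL := (EL.cons 14 (TM.mk (P.cons (P.cons (P.lf 873774354 0 0) (P.cons (P.lf 0 81234464 0) (P.cons (P.lf 0 35830194 0) (P.cons (P.lf 4176846 0 0) (P.cons (P.lf 410984 0 0) (P.cons (P.lf 0 69058 0) P.nil)))))) (P.cons (P.cons (P.lf 177111638 0 0) (P.cons (P.lf 0 15538818 0) (P.cons (P.lf 0 6882456 0) (P.cons (P.lf 772424 0 0) (P.cons (P.lf 74342 0 0) P.nil))))) (P.cons (P.cons (P.lf 6390460 0 0) (P.cons (P.lf 0 650910 0) (P.cons (P.lf 0 285006 0) (P.cons (P.lf 35390 0 0) P.nil)))) (P.cons (P.cons (P.lf 0 669860 0) (P.cons (P.lf 36132 0 0) (P.cons (P.lf 16640 0 0) P.nil))) (P.cons (P.cons (P.lf 0 36402 0) (P.cons (P.lf 2810 0 0) P.nil)) (P.cons (P.cons (P.lf 1168 0 0) P.nil) P.nil)))))) 30372)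
 EL.nil)
noncomputable def S183_190_216_290_46 : EL := (EL.cons 15 (TM.mk (P.lf 4294967296 0 0) 0)
 EL.nil)
noncomputable def S183_190_216_290_47 : EL := (EL.cons 15 (TM.mk (P.cons (P.cons (P.lf 2004916733 0 0) (P.cons (P.lf 0 62132112 0) (P.cons (P.lf 0 29330160 0) (P.lf 1396672 0 0)))) (P.cons (P.cons (P.lf 135463688 0 0) (P.cons (P.lf 0 3488848 0) (P.cons (P.lf 0 1646948 0) (P.lf 78424 0 0)))) (P.cons (P.cons (P.lf 0 4264966 0) (P.cons (P.lf 0 7096 0) (P.cons (P.lf 0 3348 0) (P.lf 160 0 0)))) (P.cons (P.cons (P.lf 0 142149 0) (P.cons (P.lf 3008 0 0) (P.cons (P.lf 1420 0 0) P.nil))) (P.cons (P.cons (P.lf 1763 0 0) (P.cons (P.lf 44 0 0) P.nil)) (P.cons (P.cons (P.lf 87 0 0) P.nil) P.nil)))))) 515)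
 EL.nil)
noncomputable def S183_190_216_290_48 : EL := (EL.cons 15 (TM.mk (P.cons (P.cons (P.lf 935907267 0 0) (P.cons (P.lf 0 58007291 0) (P.cons (P.lf 0 26484173 0) (P.cons (P.lf 2152545 0 0) (P.cons (P.lf 159885 0 0) (P.cons (P.lf 0 19075 0) P.nil)))))) (P.cons (P.cons (P.lf 126470539 0 0) (P.cons (P.lf 0 7176536 0) (P.cons (P.lf 0 3286821 0) (P.cons (P.lf 256620 0 0) (P.cons (P.lf 17955 0 0) P.nil))))) (P.cons (P.cons (P.lf 290714 0 0) (P.cons (P.lf 0 103305 0) (P.cons (P.lf 0 45725 0) (P.cons (P.lf 5191 0 0) P.nil)))) (P.cons (P.cons (P.lf 0 401746 0) (P.cons (P.lf 13402 0 0) (P.cons (P.lf 6251 0 0) P.nil))) (P.cons (P.cons (P.lf 0 3085 0) (P.cons (P.lf 424 0 0) P.nil)) (P.cons (P.cons (P.lf 474 0 0) P.nil) P.nil)))))) 4747)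
 EL.nil)
noncomputable def S183_190_216_290 : SL := (SL.cons S183_190_216_290_0 (SL.cons S183_190_216_290_1 (SL.cons S183_190_216_290_2 (SL.cons S183_190_216_290_3 (SL.cons S183_190_216_290_4 (SL.cons S183_190_216_290_5 (SL.cons S183_190_216_290_6 (SL.cons S183_190_216_290_7 (SL.cons S183_190_216_290_8 (SL.cons S183_190_216_290_9 (SL.cons S183_190_216_290_10 (SL.cons S183_190_216_290_11 (SL.cons S183_190_216_290_12 (SL.cons S183_190_216_290_13 (SL.cons S183_190_216_290_14 (SL.cons S183_190_216_290_15 (SL.cons S183_190_216_290_16 (SL.cons S183_190_216_290_17 (SL.cons S183_190_216_290_18 (SL.cons S183_190_216_290_19 (SL.cons S183_190_216_290_20 (SL.cons S183_190_216_290_21 (SL.cons S183_190_216_290_22 (SL.cons S183_190_216_290_23 (SL.cons S183_190_216_290_24 (SL.cons S183_190_216_290_25 (SL.cons S183_190_216_290_26 (SL.cons S183_190_216_290_27 (SL.cons S183_190_216_290_28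 (SL.cons S183_190_216_290_29 (SL.cons S183_190_216_290_30 (SL.cons S183_190_216_290_31 (SL.cons S183_190_216_290_32 (SL.cons S183_190_216_290_33 (SL.cons S183_190_216_290_34 (SL.cons S183_190_216_290_35 (SL.cons S183_190_216_290_36 (SL.cons S183_190_216_290_37 (SL.cons S183_190_216_290_38 (SL.cons S183_190_216_290_39 (SL.cons S183_190_216_290_40 (SL.cons S183_190_216_290_41 (SL.cons S183_190_216_290_42 (SL.cons S183_190_216_290_43 (SL.cons S183_190_216_290_44 (SL.cons S183_190_216_290_45 (SL.cons S183_190_216_290_46 (SL.cons S183_190_216_290_47 (SL.cons S183_190_216_290_48 SL.nil)))))))))))))))))))))))))))))))))))))))))))))))))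
noncomputable def S183_198_216_290_0 : EL := (EL.cons 0 (TM.mk (P.cons (P.lf 6766532673 0 0) (P.cons (P.lf 328315225 0 0) (P.cons (P.lf 0 6915520 0) (P.cons (P.lf 0 1047332 0) (P.cons (P.lf 0 7546 0) (P.cons (P.lf 1573 0 0) P.nil)))))) 161)
 (EL.cons 1 (TM.mk (P.cons (P.lf 0 1616469420 0) (P.cons (P.lf 96098353 0 0) (P.cons (P.lf 12687056 0 0) (P.cons (P.lf 0 51723 0) (P.cons (P.lf 0 25867 0) (P.cons (P.lf 0 433 0) P.nil)))))) 140)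
 (EL.cons 5 (TM.mk (P.cons (P.lf 4895566122 0 0) (P.cons (P.lf 0 116734300 0) (P.cons (P.lf 2458850 0 0) (P.cons (P.lf 372384 0 0) (P.cons (P.lf 2686 0 0) (P.cons (P.lf 0 556 0) P.nil)))))) 123)
 (EL.cons 9 (TM.mk (P.lf 6442450944 0 0) 2)
 EL.nil))))
noncomputable def S183_198_216_290_1 : EL := (EL.cons 0 (TM.mk (P.cons (P.cons (P.lf 597708438 0 0) (P.cons (P.lf 0 26157006 0) (P.cons (P.lf 0 12347710 0) (P.lf 587992 0 0)))) (P.cons (P.cons (P.lf 1255318156 0 0) (P.cons (P.lf 0 23179449 0) (P.cons (P.lf 0 10942118 0) (P.lf 521048 0 0)))) (P.cons (P.cons (P.lf 5126630 0 0) (P.cons (P.lf 0 1856269 0) (P.cons (P.lf 0 876271 0) (P.lf 41719 0 0)))) (P.cons (P.cons (P.lf 0 12788343 0) (P.cons (P.lf 130236 0 0) (P.cons (P.lf 61474 0 0) P.nil))) (P.cons (P.cons (P.lf 0 334842 0) (P.cons (P.lf 17645 0 0) P.nil)) (P.cons (P.cons (P.lf 55814 0 0) P.nil) P.nil)))))) 25697)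
 (EL.cons 1 (TM.mk (P.cons (P.cons (P.lf 0 1628989563 0) (P.cons (P.lf 47722834 0 0) (P.cons (P.lf 22528096 0 0) (P.lf 0 1072762 0)))) (P.cons (P.cons (P.lf 0 107747030 0) (P.cons (P.lf 6475780 0 0) (P.cons (P.lf 3056958 0 0) (P.lf 0 145556 0)))) (P.cons (P.cons (P.lf 69903613 0 0) (P.cons (P.lf 0 874883 0) (P.cons (P.lf 0 412996 0) (P.lf 19662 0 0)))) (P.cons (P.cons (P.lf 2169513 0 0) (P.cons (P.lf 0 119010 0) (P.cons (P.lf 0 56176 0) P.nil))) (P.cons (P.cons (P.lf 0 492635 0) (P.cons (P.lf 1981 0 0) P.nil)) (P.cons (P.cons (P.lf 0 21007 0) P.nil) P.nil)))))) 14475)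
 (EL.cons 5 (TM.mk (P.cons (P.cons (P.lf 3449201206 0 0) (P.cons (P.lf 0 103110642 0) (P.cons (P.lf 0 48674534 0) (P.lf 2317834 0 0)))) (P.cons (P.cons (P.lf 9639192 0 0) (P.cons (P.lf 0 4482906 0) (P.cons (P.lf 0 2116204 0) (P.lf 100778 0 0)))) (P.cons (P.cons (P.lf 0 38801640 0) (P.cons (P.lf 687968 0 0) (P.cons (P.lf 324756 0 0) (P.lf 0 15456 0)))) (P.cons (P.cons (P.lf 2324343 0 0) (P.cons (P.lf 7422 0 0) (P.cons (P.lf 3506 0 0) P.nil))) (P.cons (P.cons (P.lf 201537 0 0) (P.cons (P.lf 0 4836 0) P.nil)) (P.cons (P.cons (P.lf 0 12593 0) P.nil) P.nil)))))) 13405)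
 (EL.cons 9 (TM.mk (P.cons (P.cons (P.lf 3230929192 0 0) (P.cons (P.lf 0 99186096 0) (P.cons (P.lf 0 46821906 0) (P.lf 2229612 0 0)))) (P.cons (P.cons (P.lf 402330466 0 0) (P.cons (P.lf 0 11227482 0) (P.cons (P.lf 0 5300058 0) (P.lf 252378 0 0)))) (P.cons (P.cons (P.lf 0 32628376 0) (P.cons (P.lf 24672 0 0) (P.cons (P.lf 11646 0 0) (P.lf 0 552 0)))) (P.cons (P.cons (P.lf 0 1961128 0) (P.cons (P.lf 47400 0 0) (P.cons (P.lf 22374 0 0) P.nil))) (P.cons (P.cons (P.lf 72769 0 0) (P.cons (P.lf 1266 0 0) P.nil)) (P.cons (P.cons (P.lf 6382 0 0) P.nil) P.nil)))))) 3167)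
 (EL.cons 2 (TM.mk (P.cons (P.cons (P.lf 208458812 0 0) (P.cons (P.lf 205549183 0 0) (P.cons (P.lf 0 6431830 0) (P.cons (P.lf 0 1178606 0) (P.lf 42091 0 0))))) (P.cons (P.cons (P.lf 0 4527196 0) (P.cons (P.lf 0 4464008 0) (P.cons (P.lf 139682 0 0) (P.cons (P.lf 25596 0 0) (P.lf 0 914 0))))) (P.cons (P.cons (P.lf 0 2417788 0) (P.cons (P.lf 0 2384040 0) (P.cons (P.lf 74598 0 0) (P.cons (P.lf 13668 0 0) P.nil)))) (P.cons (P.cons (P.lf 0 49632 0) (P.cons (P.lf 0 48937 0) (P.cons (P.lf 1530 0 0) P.nil))) (P.cons (P.cons (P.lf 6921 0 0) (P.cons (P.lf 6823 0 0) P.nil)) (P.cons (P.cons (P.lf 284 0 0) P.nil) P.nil)))))) 2085)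
 (EL.cons 6 (TM.mk (P.cons (P.cons (P.lf 199485231 0 0) (P.cons (P.lf 196700850 0 0) (P.cons (P.lf 0 6154959 0) (P.cons (P.lf 0 1127871 0) (P.lf 40278 0 0))))) (P.cons (P.cons (P.lf 22580964 0 0) (P.cons (P.lf 22265781 0 0) (P.cons (P.lf 0 696717 0) (P.cons (P.lf 0 127668 0) (P.lf 4557 0 0))))) (P.cons (P.cons (P.lf 0 49623 0) (P.cons (P.lf 0 48930 0) (P.cons (P.lf 1530 0 0) (P.cons (P.lf 279 0 0) P.nil)))) (P.cons (P.cons (P.lf 0 95337 0) (P.cons (P.lf 0 94005 0) (P.cons (P.lf 2940 0 0) P.nil))) (P.cons (P.cons (P.lf 0 2556 0) (P.cons (P.lf 0 2520 0) P.nil)) (P.cons (P.cons (P.lf 168 0 0) P.nil) P.nil)))))) 1299)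
 EL.nil))))))
noncomputable def S183_198_216_290_2 : EL := (EL.cons 0 (TM.mk (P.cons (P.cons (P.lf 0 1102331383 0) (P.cons (P.lf 59849286 0 0) (P.cons (P.lf 27454076 0 0) (P.cons (P.lf 0 2099178 0) (P.cons (P.lf 0 142020 0) (P.cons (P.lf 16934 0 0) P.nil)))))) (P.cons (P.cons (P.lf 827337017 0 0) (P.cons (P.lf 0 37343422 0) (P.cons (P.lf 0 17264404 0) (P.cons (P.lf 1183086 0 0) (P.cons (P.lf 64752 0 0) P.nil))))) (P.cons (P.cons (P.lf 145034612 0 0) (P.cons (P.lf 0 7530599 0) (P.cons (P.lf 0 3452880 0) (P.cons (P.lf 265578 0 0) P.nil)))) (P.cons (P.cons (P.lf 0 17835570 0) (P.cons (P.lf 285202 0 0) (P.cons (P.lf 137821 0 0) P.nil))) (P.cons (P.cons (P.lf 0 2361485 0) (P.cons (P.lf 111987 0 0) P.nil)) (P.cons (P.cons (P.lf 125683 0 0) P.nil) P.nil)))))) 192576)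
 (EL.cons 1 (TM.mk (P.cons (P.cons (P.lf 0 1227341006 0) (P.cons (P.lf 73063834 0 0) (P.cons (P.lf 33404290 0 0) (P.cons (P.lf 0 2668006 0) (P.cons (P.lf 0 193230 0) (P.cons (P.lf 23053 0 0) P.nil)))))) (P.cons (P.cons (P.lf 0 234449188 0) (P.cons (P.lf 17001387 0 0) (P.cons (P.lf 7723913 0 0) (P.cons (P.lf 0 667067 0) (P.cons (P.lf 0 53671 0) P.nil))))) (P.cons (P.cons (P.lf 62039419 0 0) (P.cons (P.lf 0 1886322 0) (P.cons (P.lf 0 889175 0) (P.cons (P.lf 43618 0 0) P.nil)))) (P.cons (P.cons (P.lf 10805760 0 0) (P.cons (P.lf 0 550803 0) (P.cons (P.lf 0 253874 0) P.nil))) (P.cons (P.cons (P.lf 0 789251 0) (P.cons (P.lf 0 1276 0) P.nil)) (P.cons (P.cons (P.lf 0 130255 0) P.nil) P.nil)))))) 103570)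
 (EL.cons 5 (TM.mk (P.cons (P.cons (P.lf 2228315267 0 0) (P.cons (P.lf 0 134029287 0) (P.cons (P.lf 0 61255483 0) (P.cons (P.lf 4914822 0 0) (P.cons (P.lf 358347 0 0) (P.cons (P.lf 0 42747 0) P.nil)))))) (P.cons (P.cons (P.lf 163183861 0 0) (P.cons (P.lf 0 13525264 0) (P.cons (P.lf 0 6122364 0) (P.cons (P.lf 551775 0 0) (P.cons (P.lf 46669 0 0) P.nil))))) (P.cons (P.cons (P.lf 0 60182512 0) (P.cons (P.lf 2254930 0 0) (P.cons (P.lf 1049500 0 0) (P.cons (P.lf 0 64791 0) P.nil)))) (P.cons (P.cons (P.lf 0 506441 0) (P.cons (P.lf 153298 0 0) (P.cons (P.lf 69487 0 0) P.nil))) (P.cons (P.cons (P.lf 832047 0 0) (P.cons (P.lf 0 26736 0) P.nil)) (P.cons (P.cons (P.lf 0 4601 0) P.nil) P.nil)))))) 108141)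
 (EL.cons 9 (TM.mk (P.cons (P.cons (P.lf 1620331071 0 0) (P.cons (P.lf 0 99484887 0) (P.cons (P.lf 0 45435913 0) (P.cons (P.lf 3678040 0 0) (P.cons (P.lf 271635 0 0) (P.cons (P.lf 0 32407 0) P.nil)))))) (P.cons (P.cons (P.lf 403542459 0 0) (P.cons (P.lf 0 23649628 0) (P.cons (P.lf 0 10818360 0) (P.cons (P.lf 858009 0 0) (P.cons (P.lf 61495 0 0) P.nil))))) (P.cons (P.cons (P.lf 0 7601166 0) (P.cons (P.lf 0 372889 0) (P.cons (P.lf 0 157219 0) (P.cons (P.lf 26139 0 0) P.nil)))) (P.cons (P.cons (P.lf 0 6042313 0) (P.cons (P.lf 224734 0 0) (P.cons (P.lf 104541 0 0) P.nil))) (P.cons (P.cons (P.lf 0 6706 0) (P.cons (P.lf 11533 0 0) P.nil)) (P.cons (P.cons (P.lf 35355 0 0) P.nil) P.nil)))))) 35543)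
 (EL.cons 2 (TM.mk (P.cons (P.cons (P.lf 209086779 0 0) (P.cons (P.lf 199749639 0 0) (P.cons (P.lf 0 15810395 0) (P.cons (P.lf 0 3827570 0) (P.cons (P.lf 314268 0 0) (P.cons (P.lf 11379 0 0) P.nil)))))) (P.cons (P.cons (P.lf 21495628 0 0) (P.cons (P.lf 20608413 0 0) (P.cons (P.lf 0 1519391 0) (P.cons (P.lf 0 363532 0) (P.cons (P.lf 29221 0 0) P.nil))))) (P.cons (P.cons (P.lf 0 5102032 0) (P.cons (P.lf 0 4938997 0) (P.cons (P.lf 291301 0 0) (P.cons (P.lf 66690 0 0) P.nil)))) (P.cons (P.cons (P.lf 0 432815 0) (P.cons (P.lf 0 413786 0) (P.cons (P.lf 32287 0 0) P.nil))) (P.cons (P.cons (P.lf 32698 0 0) (P.cons (P.lf 32197 0 0) P.nil)) (P.cons (P.cons (P.lf 3431 0 0) P.nil) P.nil)))))) 27730)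
 (EL.cons 6 (TM.mk (P.cons (P.cons (P.lf 200086164 0 0) (P.cons (P.lf 191150964 0 0) (P.cons (P.lf 0 15129798 0) (P.cons (P.lf 0 3662802 0) (P.cons (P.lf 300738 0 0) (P.cons (P.lf 10890 0 0) P.nil)))))) (P.cons (P.cons (P.lf 47564652 0 0) (P.cons (P.lf 45510156 0 0) (P.cons (P.lf 0 3495204 0) (P.cons (P.lf 0 842040 0) (P.cons (P.lf 68538 0 0) P.nil))))) (P.cons (P.cons (P.lf 749964 0 0) (P.cons (P.lf 663846 0 0) (P.cons (P.lf 0 133440 0) (P.cons (P.lf 0 35412 0) P.nil)))) (P.cons (P.cons (P.lf 0 451998 0) (P.cons (P.lf 0 439470 0) (P.cons (P.lf 23004 0 0) P.nil))) (P.cons (P.cons (P.lf 0 23208 0) (P.cons (P.lf 0 22062 0) P.nil)) (P.cons (P.cons (P.lf 1746 0 0) P.nil) P.nil)))))) 26778)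
 EL.nil))))))
noncomputable def S183_198_216_290_3 : EL := (EL.cons 0 (TM.mk (P.cons (P.lf 1689184190 0 0) (P.cons (P.lf 0 328315225 0) (P.cons (P.lf 6915520 0 0) (P.cons (P.lf 1047332 0 0) (P.cons (P.lf 7546 0 0) (P.cons (P.lf 0 1573 0) P.nil)))))) 161)
 (EL.cons 1 (TM.mk (P.cons (P.lf 1616469420 0 0) (P.cons (P.lf 0 96098353 0) (P.cons (P.lf 0 12687056 0) (P.cons (P.lf 51723 0 0) (P.cons (P.lf 25867 0 0) (P.cons (P.lf 433 0 0) P.nil)))))) 140)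
 (EL.cons 5 (TM.mk (P.cons (P.lf 1546884822 0 0) (P.cons (P.lf 116734300 0 0) (P.cons (P.lf 0 2458850 0) (P.cons (P.lf 0 372384 0) (P.cons (P.lf 0 2686 0) (P.cons (P.lf 556 0 0) P.nil)))))) 116)
 EL.nil)))
noncomputable def S183_198_216_290_4 : EL := (EL.cons 0 (TM.mk (P.cons (P.cons (P.lf 847136369 0 0) (P.cons (P.lf 0 26006185 0) (P.cons (P.lf 0 12276511 0) (P.lf 584593 0 0)))) (P.cons (P.cons (P.lf 0 59162728 0) (P.cons (P.lf 2110844 0 0) (P.cons (P.lf 996447 0 0) (P.lf 0 47450 0)))) (P.cons (P.cons (P.lf 0 25590104 0) (P.cons (P.lf 472164 0 0) (P.cons (P.lf 222890 0 0) (P.lf 0 10611 0)))) (P.cons (P.cons (P.lf 2105699 0 0) (P.cons (P.lf 0 17005 0) (P.cons (P.lf 0 8027 0) P.nil))) (P.cons (P.cons (P.lf 153186 0 0) (P.cons (P.lf 0 3997 0) P.nil)) (P.cons (P.cons (P.lf 0 9761 0) P.nil) P.nil)))))) 5016)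
 (EL.cons 1 (TM.mk (P.cons (P.cons (P.lf 810669461 0 0) (P.cons (P.lf 0 24886689 0) (P.cons (P.lf 0 11748039 0) (P.lf 559428 0 0)))) (P.cons (P.cons (P.lf 52754443 0 0) (P.cons (P.lf 0 1337574 0) (P.cons (P.lf 0 631415 0) (P.lf 30063 0 0)))) (P.cons (P.cons (P.lf 0 20550725 0) (P.cons (P.lf 368988 0 0) (P.cons (P.lf 174183 0 0) (P.lf 0 8293 0)))) (P.cons (P.cons (P.lf 0 771731 0) (P.cons (P.lf 32836 0 0) (P.cons (P.lf 15500 0 0) P.nil))) (P.cons (P.cons (P.lf 127968 0 0) (P.cons (P.lf 0 924 0) P.nil)) (P.cons (P.cons (P.lf 5947 0 0) P.nil) P.nil)))))) 3572)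
 (EL.cons 5 (TM.mk (P.cons (P.cons (P.lf 775772352 0 0) (P.cons (P.lf 0 23815386 0) (P.cons (P.lf 0 11242318 0) (P.lf 535346 0 0)))) (P.cons (P.cons (P.lf 155145790 0 0) (P.cons (P.lf 0 4493016 0) (P.cons (P.lf 0 2120978 0) (P.lf 100996 0 0)))) (P.cons (P.cons (P.lf 0 1777420 0) (P.cons (P.lf 0 159656 0) (P.cons (P.lf 0 75366 0) (P.lf 3588 0 0)))) (P.cons (P.cons (P.lf 0 1402400 0) (P.cons (P.lf 21846 0 0) (P.cons (P.lf 10312 0 0) P.nil))) (P.cons (P.cons (P.lf 0 30212 0) (P.cons (P.lf 1842 0 0) P.nil)) (P.cons (P.cons (P.lf 5596 0 0) P.nil) P.nil)))))) 2522)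
 EL.nil)))
noncomputable def S183_198_216_290_5 : EL := (EL.cons 0 (TM.mk (P.cons (P.cons (P.lf 424844154 0 0) (P.cons (P.lf 0 26084527 0) (P.cons (P.lf 0 11913108 0) (P.cons (P.lf 964365 0 0) (P.cons (P.lf 71221 0 0) (P.cons (P.lf 0 8495 0) P.nil)))))) (P.cons (P.cons (P.lf 23233109 0 0) (P.cons (P.lf 0 1130962 0) (P.cons (P.lf 0 521057 0) (P.cons (P.lf 37527 0 0) (P.cons (P.lf 2279 0 0) P.nil))))) (P.cons (P.cons (P.lf 0 20818701 0) (P.cons (P.lf 1000652 0 0) (P.cons (P.lf 461322 0 0) (P.cons (P.lf 0 32922 0) P.nil)))) (P.cons (P.cons (P.lf 0 500315 0) (P.cons (P.lf 36367 0 0) (P.cons (P.lf 16421 0 0) P.nil))) (P.cons (P.cons (P.lf 365505 0 0) (P.cons (P.lf 0 12789 0) P.nil)) (P.cons (P.cons (P.lf 1966 0 0) P.nil) P.nil)))))) 30991)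
 (EL.cons 1 (TM.mk (P.cons (P.cons (P.lf 406555771 0 0) (P.cons (P.lf 0 24961659 0) (P.cons (P.lf 0 11400281 0) (P.cons (P.lf 922852 0 0) (P.cons (P.lf 68154 0 0) (P.cons (P.lf 0 8130 0) P.nil)))))) (P.cons (P.cons (P.lf 77082913 0 0) (P.cons (P.lf 0 4449946 0) (P.cons (P.lf 0 2036681 0) (P.cons (P.lf 160417 0 0) (P.cons (P.lf 11375 0 0) P.nil))))) (P.cons (P.cons (P.lf 0 11117514 0) (P.cons (P.lf 455118 0 0) (P.cons (P.lf 211398 0 0) (P.cons (P.lf 0 13481 0) P.nil)))) (P.cons (P.cons (P.lf 0 2184371 0) (P.cons (P.lf 107722 0 0) (P.cons (P.lf 49513 0 0) P.nil))) (P.cons (P.cons (P.lf 113160 0 0) (P.cons (P.lf 0 313 0) P.nil)) (P.cons (P.cons (P.lf 22537 0 0) P.nil) P.nil)))))) 23613)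
 (EL.cons 5 (TM.mk (P.cons (P.cons (P.lf 389054656 0 0) (P.cons (P.lf 0 23887128 0) (P.cons (P.lf 0 10909530 0) (P.cons (P.lf 883126 0 0) (P.cons (P.lf 65220 0 0) (P.cons (P.lf 0 7780 0) P.nil)))))) (P.cons (P.cons (P.lf 126253490 0 0) (P.cons (P.lf 0 7481088 0) (P.cons (P.lf 0 3420852 0) (P.cons (P.lf 272658 0 0) (P.cons (P.lf 19686 0 0) P.nil))))) (P.cons (P.cons (P.lf 4868482 0 0) (P.cons (P.lf 0 480084 0) (P.cons (P.lf 0 216432 0) (P.cons (P.lf 20418 0 0) P.nil)))) (P.cons (P.cons (P.lf 0 1836212 0) (P.cons (P.lf 61980 0 0) (P.cons (P.lf 29006 0 0) P.nil))) (P.cons (P.cons (P.lf 0 132194 0) (P.cons (P.lf 8390 0 0) P.nil)) (P.cons (P.cons (P.lf 11084 0 0) P.nil) P.nil)))))) 17386)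
 EL.nil)))
noncomputable def S183_198_216_290_6 : EL := (EL.cons 12 (TM.mk (P.lf 8589934592 0 0) 0)
 (EL.cons 3 (TM.mk (P.cons (P.lf 0 1904598495 0) (P.cons (P.lf 185091918 0 0) (P.cons (P.lf 5095050 0 0) (P.cons (P.lf 0 95302 0) (P.cons (P.lf 0 6701 0) (P.cons (P.lf 0 18 0) P.nil)))))) 59)
 (EL.cons 7 (TM.mk (P.cons (P.lf 0 1822610727 0) (P.cons (P.lf 0 68770857 0) (P.cons (P.lf 2745999 0 0) (P.cons (P.lf 115768 0 0) (P.cons (P.lf 0 717 0) (P.cons (P.lf 0 127 0) P.nil)))))) 49)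
 EL.nil)))
noncomputable def S183_198_216_290_7 : EL := (EL.cons 12 (TM.mk (P.cons (P.cons (P.lf 4307905590 0 0) (P.cons (P.lf 0 132248128 0) (P.cons (P.lf 0 62429208 0) (P.lf 2972816 0 0)))) (P.cons (P.cons (P.lf 536440622 0 0) (P.cons (P.lf 0 14969976 0) (P.cons (P.lf 0 7066744 0) (P.lf 336504 0 0)))) (P.cons (P.cons (P.lf 0 43504502 0) (P.cons (P.lf 32896 0 0) (P.cons (P.lf 15528 0 0) (P.lf 0 736 0)))) (P.cons (P.cons (P.lf 0 2614838 0) (P.cons (P.lf 63200 0 0) (P.cons (P.lf 29832 0 0) P.nil))) (P.cons (P.cons (P.lf 97026 0 0) (P.cons (P.lf 1688 0 0) P.nil)) (P.cons (P.cons (P.lf 8510 0 0) P.nil) P.nil)))))) 4198)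
 (EL.cons 3 (TM.mk (P.cons (P.cons (P.lf 2197111570 0 0) (P.cons (P.lf 0 58645284 0) (P.cons (P.lf 0 27684162 0) (P.lf 1318290 0 0)))) (P.cons (P.cons (P.lf 0 473069851 0) (P.cons (P.lf 0 939176 0) (P.cons (P.lf 0 443346 0) (P.lf 21106 0 0)))) (P.cons (P.cons (P.lf 0 36455535 0) (P.cons (P.lf 816600 0 0) (P.cons (P.lf 385484 0 0) (P.lf 0 18354 0)))) (P.cons (P.cons (P.lf 1850231 0 0) (P.cons (P.lf 41430 0 0) (P.cons (P.lf 19556 0 0) P.nil))) (P.cons (P.cons (P.lf 238022 0 0) (P.cons (P.lf 0 2550 0) P.nil)) (P.cons (P.cons (P.lf 71 0 0) P.nil) P.nil)))))) 10538)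
 (EL.cons 7 (TM.mk (P.cons (P.cons (P.lf 0 2085279327 0) (P.cons (P.lf 60744849 0 0) (P.cons (P.lf 28675289 0 0) (P.lf 0 1365492 0)))) (P.cons (P.cons (P.lf 175768986 0 0) (P.cons (P.lf 348956 0 0) (P.cons (P.lf 164727 0 0) (P.lf 0 7848 0)))) (P.cons (P.cons (P.lf 1688232 0 0) (P.cons (P.lf 0 326947 0) (P.cons (P.lf 0 154338 0) (P.lf 7347 0 0)))) (P.cons (P.cons (P.lf 0 1675928 0) (P.cons (P.lf 12351 0 0) (P.cons (P.lf 5830 0 0) P.nil))) (P.cons (P.cons (P.lf 0 2768 0) (P.cons (P.lf 1887 0 0) P.nil)) (P.cons (P.cons (P.lf 6939 0 0) P.nil) P.nil)))))) 7970)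
 (EL.cons 10 (TM.mk (P.cons (P.cons (P.lf 0 470085321 0) (P.cons (P.lf 0 463523952 0) (P.cons (P.lf 14504112 0 0) (P.cons (P.lf 2657820 0 0) (P.lf 0 94920 0))))) (P.cons (P.cons (P.lf 0 35474574 0) (P.cons (P.lf 0 34979424 0) (P.cons (P.lf 1094538 0 0) (P.cons (P.lf 200568 0 0) (P.lf 0 7161 0))))) (P.cons (P.cons (P.lf 747222 0 0) (P.cons (P.lf 736794 0 0) (P.cons (P.lf 0 23055 0) (P.cons (P.lf 0 4224 0) P.nil)))) (P.cons (P.cons (P.lf 113163 0 0) (P.cons (P.lf 111582 0 0) (P.cons (P.lf 0 3489 0) P.nil))) (P.cons (P.cons (P.lf 816 0 0) (P.cons (P.lf 804 0 0) P.nil)) (P.cons (P.cons (P.lf 0 168 0) P.nil) P.nil)))))) 1191)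
 EL.nil))))
noncomputable def S183_198_216_290_8 : EL := (EL.cons 12 (TM.mk (P.cons (P.cons (P.lf 2160441428 0 0) (P.cons (P.lf 0 132646516 0) (P.cons (P.lf 0 60581218 0) (P.cons (P.lf 4904054 0 0) (P.cons (P.lf 362180 0 0) (P.cons (P.lf 0 43210 0) P.nil)))))) (P.cons (P.cons (P.lf 538056612 0 0) (P.cons (P.lf 0 31532838 0) (P.cons (P.lf 0 14424480 0) (P.cons (P.lf 1144012 0 0) (P.cons (P.lf 81994 0 0) P.nil))))) (P.cons (P.cons (P.lf 0 10134888 0) (P.cons (P.lf 0 497186 0) (P.cons (P.lf 0 209626 0) (P.cons (P.lf 34852 0 0) P.nil)))) (P.cons (P.cons (P.lf 0 8056418 0) (P.cons (P.lf 299646 0 0) (P.cons (P.lf 139388 0 0) P.nil))) (P.cons (P.cons (P.lf 0 8942 0) (P.cons (P.lf 15378 0 0) P.nil)) (P.cons (P.cons (P.lf 47140 0 0) P.nil) P.nil)))))) 47362)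
 (EL.cons 3 (TM.mk (P.cons (P.cons (P.lf 2682752897 0 0) (P.cons (P.lf 0 155885099 0) (P.cons (P.lf 0 71330090 0) (P.cons (P.lf 5635232 0 0) (P.cons (P.lf 401521 0 0) (P.cons (P.lf 0 47900 0) P.nil)))))) (P.cons (P.cons (P.lf 0 127327992 0) (P.cons (P.lf 0 5491655 0) (P.cons (P.lf 0 2300739 0) (P.cons (P.lf 398790 0 0) (P.cons (P.lf 51881 0 0) P.nil))))) (P.cons (P.cons (P.lf 0 133029024 0) (P.cons (P.lf 4731892 0 0) (P.cons (P.lf 2205839 0 0) (P.cons (P.lf 0 132701 0) P.nil)))) (P.cons (P.cons (P.lf 0 1106406 0) (P.cons (P.lf 381945 0 0) (P.cons (P.lf 174057 0 0) P.nil))) (P.cons (P.cons (P.lf 1362019 0 0) (P.cons (P.lf 0 29765 0) P.nil)) (P.cons (P.cons (P.lf 42651 0 0) P.nil) P.nil)))))) 114414)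
 (EL.cons 7 (TM.mk (P.cons (P.cons (P.lf 0 1633159023 0) (P.cons (P.lf 96991625 0 0) (P.cons (P.lf 44347577 0 0) (P.cons (P.lf 0 3538317 0) (P.cons (P.lf 0 255869 0) (P.cons (P.lf 30522 0 0) P.nil)))))) (P.cons (P.cons (P.lf 47308680 0 0) (P.cons (P.lf 2040435 0 0) (P.cons (P.lf 854847 0 0) (P.cons (P.lf 0 148180 0) (P.cons (P.lf 0 19277 0) P.nil))))) (P.cons (P.cons (P.lf 46235610 0 0) (P.cons (P.lf 0 1895772 0) (P.cons (P.lf 0 877240 0) (P.cons (P.lf 59294 0 0) P.nil)))) (P.cons (P.cons (P.lf 0 3972631 0) (P.cons (P.lf 18882 0 0) (P.cons (P.lf 10158 0 0) P.nil))) (P.cons (P.cons (P.lf 0 453542 0) (P.cons (P.lf 21846 0 0) P.nil)) (P.cons (P.cons (P.lf 35119 0 0) P.nil) P.nil)))))) 64876)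
 (EL.cons 10 (TM.mk (P.cons (P.cons (P.lf 0 471501420 0) (P.cons (P.lf 0 450445692 0) (P.cons (P.lf 35653254 0 0) (P.cons (P.lf 8631366 0 0) (P.cons (P.lf 0 708696 0) (P.cons (P.lf 0 25668 0) P.nil)))))) (P.cons (P.cons (P.lf 0 94295004 0) (P.cons (P.lf 0 90248070 0) (P.cons (P.lf 6891150 0 0) (P.cons (P.lf 1658592 0 0) (P.cons (P.lf 0 134778 0) P.nil))))) (P.cons (P.cons (P.lf 1080282 0 0) (P.cons (P.lf 1162242 0 0) (P.cons (P.lf 108156 0 0) (P.cons (P.lf 33882 0 0) P.nil)))) (P.cons (P.cons (P.lf 852354 0 0) (P.cons (P.lf 827178 0 0) (P.cons (P.lf 0 45654 0) P.nil))) (P.cons (P.cons (P.lf 18360 0 0) (P.cons (P.lf 16980 0 0) P.nil)) (P.cons (P.cons (P.lf 0 3396 0) P.nil) P.nil)))))) 44358)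
 EL.nil))))
noncomputable def S183_198_216_290_9 : EL := (EL.cons 3 (TM.mk (P.cons (P.lf 0 1904598495 0) (P.cons (P.lf 185091918 0 0) (P.cons (P.lf 5095050 0 0) (P.cons (P.lf 0 95302 0) (P.cons (P.lf 0 6701 0) (P.cons (P.lf 0 18 0) P.nil)))))) 59)
 (EL.cons 7 (TM.mk (P.cons (P.lf 0 1822610727 0) (P.cons (P.lf 0 68770857 0) (P.cons (P.lf 2745999 0 0) (P.cons (P.lf 115768 0 0) (P.cons (P.lf 0 717 0) (P.cons (P.lf 0 127 0) P.nil)))))) 49)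
 EL.nil))
noncomputable def S183_198_216_290_10 : EL := (EL.cons 3 (TM.mk (P.cons (P.cons (P.lf 0 955167983 0) (P.cons (P.lf 29322642 0 0) (P.cons (P.lf 13842081 0 0) (P.lf 0 659145 0)))) (P.cons (P.cons (P.lf 0 26117251 0) (P.cons (P.lf 469588 0 0) (P.cons (P.lf 221673 0 0) (P.lf 0 10553 0)))) (P.cons (P.cons (P.lf 23760183 0 0) (P.cons (P.lf 0 408300 0) (P.cons (P.lf 0 192742 0) (P.lf 9177 0 0)))) (P.cons (P.cons (P.lf 0 87250 0) (P.cons (P.lf 0 20715 0) (P.cons (P.lf 0 9778 0) P.nil))) (P.cons (P.cons (P.lf 0 112972 0) (P.cons (P.lf 1275 0 0) P.nil)) (P.cons (P.cons (P.lf 0 1291 0) P.nil) P.nil)))))) 2551)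
 (EL.cons 7 (TM.mk (P.cons (P.cons (P.lf 0 914050608 0) (P.cons (P.lf 28060383 0 0) (P.cons (P.lf 13246217 0 0) (P.lf 0 630771 0)))) (P.cons (P.cons (P.lf 0 148310883 0) (P.cons (P.lf 4235102 0 0) (P.cons (P.lf 1999227 0 0) (P.lf 0 95199 0)))) (P.cons (P.cons (P.lf 6313179 0 0) (P.cons (P.lf 70592 0 0) (P.cons (P.lf 33324 0 0) (P.lf 0 1587 0)))) (P.cons (P.cons (P.lf 1132657 0 0) (P.cons (P.lf 0 20241 0) (P.cons (P.lf 0 9554 0) P.nil))) (P.cons (P.cons (P.lf 0 6689 0) (P.cons (P.lf 0 1044 0) P.nil)) (P.cons (P.cons (P.lf 0 4113 0) P.nil) P.nil)))))) 1678)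
 EL.nil))
noncomputable def S183_198_216_290_11 : EL := (EL.cons 3 (TM.mk (P.cons (P.cons (P.lf 0 479022679 0) (P.cons (P.lf 29410975 0 0) (P.cons (P.lf 13432336 0 0) (P.cons (P.lf 0 1087348 0) (P.cons (P.lf 0 80303 0) (P.cons (P.lf 9580 0 0) P.nil)))))) (P.cons (P.cons (P.lf 0 72748116 0) (P.cons (P.lf 4133395 0 0) (P.cons (P.lf 1892883 0 0) (P.cons (P.lf 0 147984 0) (P.cons (P.lf 0 10375 0) P.nil))))) (P.cons (P.cons (P.lf 15122394 0 0) (P.cons (P.lf 0 647894 0) (P.cons (P.lf 0 300265 0) (P.cons (P.lf 19831 0 0) P.nil)))) (P.cons (P.cons (P.lf 1863096 0 0) (P.cons (P.lf 0 94383 0) (P.cons (P.lf 0 43305 0) P.nil))) (P.cons (P.cons (P.lf 0 185279 0) (P.cons (P.lf 3205 0 0) P.nil)) (P.cons (P.cons (P.lf 0 15735 0) P.nil) P.nil)))))) 21266)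
 (EL.cons 7 (TM.mk (P.cons (P.cons (P.lf 0 458402061 0) (P.cons (P.lf 28144913 0 0) (P.cons (P.lf 12854111 0 0) (P.cons (P.lf 0 1040541 0) (P.cons (P.lf 0 76847 0) (P.cons (P.lf 9168 0 0) P.nil)))))) (P.cons (P.cons (P.lf 0 131461206 0) (P.cons (P.lf 7752597 0 0) (P.cons (P.lf 3545595 0 0) (P.cons (P.lf 0 281998 0) (P.cons (P.lf 0 20297 0) P.nil))))) (P.cons (P.cons (P.lf 0 1466610 0) (P.cons (P.lf 315540 0 0) (P.cons (P.lf 140594 0 0) (P.cons (P.lf 0 14986 0) P.nil)))) (P.cons (P.cons (P.lf 1991669 0 0) (P.cons (P.lf 0 71466 0) (P.cons (P.lf 0 33324 0) P.nil))) (P.cons (P.cons (P.lf 70228 0 0) (P.cons (P.lf 0 6234 0) P.nil)) (P.cons (P.cons (P.lf 0 12719 0) P.nil) P.nil)))))) 14574)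
 EL.nil))
noncomputable def S183_198_216_290_12 : EL := (EL.cons 4 (TM.mk (P.cons (P.lf 1904598495 0 0) (P.cons (P.lf 0 185091918 0) (P.cons (P.lf 0 5095050 0) (P.cons (P.lf 95302 0 0) (P.cons (P.lf 6701 0 0) (P.cons (P.lf 18 0 0) P.nil)))))) 59)
 (EL.cons 8 (TM.mk (P.cons (P.lf 1822610727 0 0) (P.cons (P.lf 68770857 0 0) (P.cons (P.lf 0 2745999 0) (P.cons (P.lf 0 115768 0) (P.cons (P.lf 717 0 0) (P.cons (P.lf 127 0 0) P.nil)))))) 49)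
 EL.nil))
noncomputable def S183_198_216_290_13 : EL := (EL.cons 4 (TM.mk (P.cons (P.cons (P.lf 955167983 0 0) (P.cons (P.lf 0 29322642 0) (P.cons (P.lf 0 13842081 0) (P.lf 659145 0 0)))) (P.cons (P.cons (P.lf 26117251 0 0) (P.cons (P.lf 0 469588 0) (P.cons (P.lf 0 221673 0) (P.lf 10553 0 0)))) (P.cons (P.cons (P.lf 0 23760183 0) (P.cons (P.lf 408300 0 0) (P.cons (P.lf 192742 0 0) (P.lf 0 9177 0)))) (P.cons (P.cons (P.lf 87250 0 0) (P.cons (P.lf 20715 0 0) (P.cons (P.lf 9778 0 0) P.nil))) (P.cons (P.cons (P.lf 112972 0 0) (P.cons (P.lf 0 1275 0) P.nil)) (P.cons (P.cons (P.lf 1291 0 0) P.nil) P.nil)))))) 2551)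
 (EL.cons 8 (TM.mk (P.cons (P.cons (P.lf 914050608 0 0) (P.cons (P.lf 0 28060383 0) (P.cons (P.lf 0 13246217 0) (P.lf 630771 0 0)))) (P.cons (P.cons (P.lf 148310883 0 0) (P.cons (P.lf 0 4235102 0) (P.cons (P.lf 0 1999227 0) (P.lf 95199 0 0)))) (P.cons (P.cons (P.lf 0 6313179 0) (P.cons (P.lf 0 70592 0) (P.cons (P.lf 0 33324 0) (P.lf 1587 0 0)))) (P.cons (P.cons (P.lf 0 1132657 0) (P.cons (P.lf 20241 0 0) (P.cons (P.lf 9554 0 0) P.nil))) (P.cons (P.cons (P.lf 6689 0 0) (P.cons (P.lf 1044 0 0) P.nil)) (P.cons (P.cons (P.lf 4113 0 0) P.nil) P.nil)))))) 1678)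
 EL.nil))
noncomputable def S183_198_216_290_14 : EL := (EL.cons 4 (TM.mk (P.cons (P.cons (P.lf 479022679 0 0) (P.cons (P.lf 0 29410975 0) (P.cons (P.lf 0 13432336 0) (P.cons (P.lf 1087348 0 0) (P.cons (P.lf 80303 0 0) (P.cons (P.lf 0 9580 0) P.nil)))))) (P.cons (P.cons (P.lf 72748116 0 0) (P.cons (P.lf 0 4133395 0) (P.cons (P.lf 0 1892883 0) (P.cons (P.lf 147984 0 0) (P.cons (P.lf 10375 0 0) P.nil))))) (P.cons (P.cons (P.lf 0 15122394 0) (P.cons (P.lf 647894 0 0) (P.cons (P.lf 300265 0 0) (P.cons (P.lf 0 19831 0) P.nil)))) (P.cons (P.cons (P.lf 0 1863096 0) (P.cons (P.lf 94383 0 0) (P.cons (P.lf 43305 0 0) P.nil))) (P.cons (P.cons (P.lf 185279 0 0) (P.cons (P.lf 0 3205 0) P.nil)) (P.cons (P.cons (P.lf 15735 0 0) P.nil) P.nil)))))) 21266)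
 (EL.cons 8 (TM.mk (P.cons (P.cons (P.lf 458402061 0 0) (P.cons (P.lf 0 28144913 0) (P.cons (P.lf 0 12854111 0) (P.cons (P.lf 1040541 0 0) (P.cons (P.lf 76847 0 0) (P.cons (P.lf 0 9168 0) P.nil)))))) (P.cons (P.cons (P.lf 131461206 0 0) (P.cons (P.lf 0 7752597 0) (P.cons (P.lf 0 3545595 0) (P.cons (P.lf 281998 0 0) (P.cons (P.lf 20297 0 0) P.nil))))) (P.cons (P.cons (P.lf 1466610 0 0) (P.cons (P.lf 0 315540 0) (P.cons (P.lf 0 140594 0) (P.cons (P.lf 14986 0 0) P.nil)))) (P.cons (P.cons (P.lf 0 1991669 0) (P.cons (P.lf 71466 0 0) (P.cons (P.lf 33324 0 0) P.nil))) (P.cons (P.cons (P.lf 0 70228 0) (P.cons (P.lf 6234 0 0) P.nil)) (P.cons (P.cons (P.lf 12719 0 0) P.nil) P.nil)))))) 14574)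
 EL.nil))
noncomputable def S183_198_216_290_15 : EL := (EL.cons 4 (TM.mk (P.cons (P.lf 0 900898234 0) (P.cons (P.lf 175101453 0 0) (P.cons (P.lf 0 3688277 0) (P.cons (P.lf 0 558577 0) (P.cons (P.lf 0 4024 0) (P.cons (P.lf 839 0 0) P.nil)))))) 89)
 (EL.cons 8 (TM.mk (P.cons (P.lf 0 862117024 0) (P.cons (P.lf 51252455 0 0) (P.cons (P.lf 6766430 0 0) (P.cons (P.lf 0 27586 0) (P.cons (P.lf 0 13796 0) (P.cons (P.lf 0 231 0) P.nil)))))) 71)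
 EL.nil))
noncomputable def S183_198_216_290_16 : EL := (EL.cons 4 (TM.mk (P.cons (P.cons (P.lf 0 451806063 0) (P.cons (P.lf 13869965 0 0) (P.cons (P.lf 6547472 0 0) (P.lf 0 311783 0)))) (P.cons (P.cons (P.lf 31553455 0 0) (P.cons (P.lf 0 1125783 0) (P.cons (P.lf 0 531438 0) (P.lf 25306 0 0)))) (P.cons (P.cons (P.lf 13648055 0 0) (P.cons (P.lf 0 251820 0) (P.cons (P.lf 0 118875 0) (P.lf 5659 0 0)))) (P.cons (P.cons (P.lf 0 1123039 0) (P.cons (P.lf 9069 0 0) (P.cons (P.lf 4281 0 0) P.nil))) (P.cons (P.cons (P.lf 0 81699 0) (P.cons (P.lf 2131 0 0) P.nil)) (P.cons (P.cons (P.lf 5205 0 0) P.nil) P.nil)))))) 2684)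
 (EL.cons 8 (TM.mk (P.cons (P.cons (P.lf 0 432357046 0) (P.cons (P.lf 13272901 0 0) (P.cons (P.lf 6265621 0 0) (P.lf 0 298362 0)))) (P.cons (P.cons (P.lf 0 28135703 0) (P.cons (P.lf 713373 0 0) (P.cons (P.lf 336755 0 0) (P.lf 0 16034 0)))) (P.cons (P.cons (P.lf 10960387 0 0) (P.cons (P.lf 0 196794 0) (P.cons (P.lf 0 92898 0) (P.lf 4423 0 0)))) (P.cons (P.cons (P.lf 411590 0 0) (P.cons (P.lf 0 17513 0) (P.cons (P.lf 0 8267 0) P.nil))) (P.cons (P.cons (P.lf 0 68250 0) (P.cons (P.lf 493 0 0) P.nil)) (P.cons (P.cons (P.lf 0 3172 0) P.nil) P.nil)))))) 1895)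
 EL.nil))
noncomputable def S183_198_216_290_17 : EL := (EL.cons 4 (TM.mk (P.cons (P.cons (P.lf 0 226583549 0) (P.cons (P.lf 13911748 0 0) (P.cons (P.lf 6353657 0 0) (P.cons (P.lf 0 514328 0) (P.cons (P.lf 0 37984 0) (P.cons (P.lf 4530 0 0) P.nil)))))) (P.cons (P.cons (P.lf 0 12390991 0) (P.cons (P.lf 603180 0 0) (P.cons (P.lf 277897 0 0) (P.cons (P.lf 0 20014 0) (P.cons (P.lf 0 1215 0) P.nil))))) (P.cons (P.cons (P.lf 11103307 0 0) (P.cons (P.lf 0 533681 0) (P.cons (P.lf 0 246038 0) (P.cons (P.lf 17558 0 0) P.nil)))) (P.cons (P.cons (P.lf 266835 0 0) (P.cons (P.lf 0 19395 0) (P.cons (P.lf 0 8758 0) P.nil))) (P.cons (P.cons (P.lf 0 194936 0) (P.cons (P.lf 6821 0 0) P.nil)) (P.cons (P.cons (P.lf 0 1049 0) P.nil) P.nil)))))) 16538)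
 (EL.cons 8 (TM.mk (P.cons (P.cons (P.lf 0 216829745 0) (P.cons (P.lf 13312885 0 0) (P.cons (P.lf 6080150 0 0) (P.cons (P.lf 0 492188 0) (P.cons (P.lf 0 36349 0) (P.cons (P.lf 4336 0 0) P.nil)))))) (P.cons (P.cons (P.lf 0 41110887 0) (P.cons (P.lf 2373305 0 0) (P.cons (P.lf 1086230 0 0) (P.cons (P.lf 0 85556 0) (P.cons (P.lf 0 6067 0) P.nil))))) (P.cons (P.cons (P.lf 5929341 0 0) (P.cons (P.lf 0 242730 0) (P.cons (P.lf 0 112746 0) (P.cons (P.lf 7190 0 0) P.nil)))) (P.cons (P.cons (P.lf 1164998 0 0) (P.cons (P.lf 0 57452 0) (P.cons (P.lf 0 26407 0) P.nil))) (P.cons (P.cons (P.lf 0 60352 0) (P.cons (P.lf 167 0 0) P.nil)) (P.cons (P.cons (P.lf 0 12020 0) P.nil) P.nil)))))) 12582)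
 EL.nil))
noncomputable def S183_198_216_290_18 : EL := (EL.cons 4 (TM.mk (P.cons (P.lf 426135812 0 0) (P.cons (P.lf 0 124237673 0) (P.cons (P.lf 8653707 0 0) (P.cons (P.lf 337561 0 0) (P.cons (P.lf 0 31084 0) (P.cons (P.lf 0 1487 0) P.nil)))))) 136)
 (EL.cons 8 (TM.mk (P.cons (P.lf 407791829 0 0) (P.cons (P.lf 0 63872894 0) (P.cons (P.lf 0 1935523 0) (P.cons (P.lf 409346 0 0) (P.cons (P.lf 14041 0 0) (P.cons (P.lf 0 800 0) P.nil)))))) 99)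
 EL.nil))
noncomputable def S183_198_216_290_19 : EL := (EL.cons 4 (TM.mk (P.cons (P.cons (P.lf 213709758 0 0) (P.cons (P.lf 0 6560662 0) (P.cons (P.lf 0 3097034 0) (P.lf 147477 0 0)))) (P.cons (P.cons (P.lf 0 35693822 0) (P.cons (P.lf 1170085 0 0) (P.cons (P.lf 552351 0 0) (P.lf 0 26302 0)))) (P.cons (P.cons (P.lf 0 5576946 0) (P.cons (P.lf 84915 0 0) (P.cons (P.lf 40084 0 0) (P.lf 0 1907 0)))) (P.cons (P.cons (P.lf 1209206 0 0) (P.cons (P.lf 0 17618 0) (P.cons (P.lf 0 8316 0) P.nil))) (P.cons (P.cons (P.lf 4295 0 0) (P.cons (P.lf 0 906 0) P.nil)) (P.cons (P.cons (P.lf 0 8011 0) P.nil) P.nil)))))) 2678)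
 (EL.cons 8 (TM.mk (P.cons (P.cons (P.lf 204510137 0 0) (P.cons (P.lf 0 6278243 0) (P.cons (P.lf 0 2963715 0) (P.lf 141128 0 0)))) (P.cons (P.cons (P.lf 0 6566091 0) (P.cons (P.lf 272695 0 0) (P.cons (P.lf 128728 0 0) (P.lf 0 6130 0)))) (P.cons (P.cons (P.lf 0 7024832 0) (P.cons (P.lf 142673 0 0) (P.cons (P.lf 67350 0 0) (P.lf 0 3206 0)))) (P.cons (P.cons (P.lf 283771 0 0) (P.cons (P.lf 0 173 0) (P.cons (P.lf 0 81 0) P.nil))) (P.cons (P.cons (P.lf 66457 0 0) (P.cons (P.lf 0 1326 0) P.nil)) (P.cons (P.cons (P.lf 0 1325 0) P.nil) P.nil)))))) 1823)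
 EL.nil))
noncomputable def S183_198_216_290_20 : EL := (EL.cons 4 (TM.mk (P.cons (P.cons (P.lf 107176771 0 0) (P.cons (P.lf 0 6580425 0) (P.cons (P.lf 0 3005356 0) (P.cons (P.lf 243283 0 0) (P.cons (P.lf 17967 0 0) (P.cons (P.lf 0 2143 0) P.nil)))))) (P.cons (P.cons (P.lf 0 4554519 0) (P.cons (P.lf 354183 0 0) (P.cons (P.lf 160615 0 0) (P.cons (P.lf 0 14175 0) (P.cons (P.lf 0 1170 0) P.nil))))) (P.cons (P.cons (P.lf 0 6108300 0) (P.cons (P.lf 297767 0 0) (P.cons (P.lf 137192 0 0) (P.cons (P.lf 0 9876 0) P.nil)))) (P.cons (P.cons (P.lf 373864 0 0) (P.cons (P.lf 0 14923 0) (P.cons (P.lf 0 6964 0) P.nil))) (P.cons (P.cons (P.lf 119193 0 0) (P.cons (P.lf 0 4830 0) P.nil)) (P.cons (P.cons (P.lf 0 8367 0) P.nil) P.nil)))))) 12618)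
 (EL.cons 8 (TM.mk (P.cons (P.cons (P.lf 102563104 0 0) (P.cons (P.lf 0 6297156 0) (P.cons (P.lf 0 2875984 0) (P.cons (P.lf 232810 0 0) (P.cons (P.lf 17193 0 0) (P.cons (P.lf 0 2050 0) P.nil)))))) (P.cons (P.cons (P.lf 9478703 0 0) (P.cons (P.lf 0 510634 0) (P.cons (P.lf 0 234307 0) (P.cons (P.lf 17844 0 0) (P.cons (P.lf 1199 0 0) P.nil))))) (P.cons (P.cons (P.lf 0 4968808 0) (P.cons (P.lf 240756 0 0) (P.cons (P.lf 110956 0 0) (P.cons (P.lf 0 7956 0) P.nil)))) (P.cons (P.cons (P.lf 0 325385 0) (P.cons (P.lf 18705 0 0) (P.cons (P.lf 8538 0 0) P.nil))) (P.cons (P.cons (P.lf 90936 0 0) (P.cons (P.lf 0 3105 0) P.nil)) (P.cons (P.cons (P.lf 4314 0 0) P.nil) P.nil)))))) 8925)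
 EL.nil))
noncomputable def S183_198_216_290_21 : EL := (EL.cons 4 (TM.mk (P.cons (P.cons (P.lf 0 3152279553 0) (P.cons (P.lf 87967926 0 0) (P.cons (P.lf 41526243 0 0) (P.lf 0 1977435 0)))) (P.cons (P.cons (P.lf 446952600 0 0) (P.cons (P.lf 1408764 0 0) (P.cons (P.lf 665019 0 0) (P.lf 0 31659 0)))) (P.cons (P.cons (P.lf 60215718 0 0) (P.cons (P.lf 0 1224900 0) (P.cons (P.lf 0 578226 0) (P.lf 27531 0 0)))) (P.cons (P.cons (P.lf 0 1937481 0) (P.cons (P.lf 0 62145 0) (P.cons (P.lf 0 29334 0) P.nil))) (P.cons (P.cons (P.lf 0 350994 0) (P.cons (P.lf 3825 0 0) P.nil)) (P.cons (P.cons (P.lf 0 1362 0) P.nil) P.nil)))))) 7968)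
 (EL.cons 8 (TM.mk (P.cons (P.cons (P.lf 1171228719 0 0) (P.cons (P.lf 0 32684466 0) (P.cons (P.lf 0 15429072 0) (P.lf 734721 0 0)))) (P.cons (P.cons (P.lf 0 324079869 0) (P.cons (P.lf 3886146 0 0) (P.cons (P.lf 1834500 0 0) (P.lf 0 87351 0)))) (P.cons (P.cons (P.lf 4624947 0 0) (P.cons (P.lf 397539 0 0) (P.cons (P.lf 187662 0 0) (P.lf 0 8934 0)))) (P.cons (P.cons (P.lf 2808585 0 0) (P.cons (P.lf 0 32592 0) (P.cons (P.lf 0 15384 0) P.nil))) (P.cons (P.cons (P.lf 0 3921 0) (P.cons (P.lf 0 2931 0) P.nil)) (P.cons (P.cons (P.lf 0 11052 0) P.nil) P.nil)))))) 6273)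
 (EL.cons 11 (TM.mk (P.cons (P.cons (P.lf 470085321 0 0) (P.cons (P.lf 463523952 0 0) (P.cons (P.lf 0 14504112 0) (P.cons (P.lf 0 2657820 0) (P.lf 94920 0 0))))) (P.cons (P.cons (P.lf 35474574 0 0) (P.cons (P.lf 34979424 0 0) (P.cons (P.lf 0 1094538 0) (P.cons (P.lf 0 200568 0) (P.lf 7161 0 0))))) (P.cons (P.cons (P.lf 0 747222 0) (P.cons (P.lf 0 736794 0) (P.cons (P.lf 23055 0 0) (P.cons (P.lf 4224 0 0) P.nil)))) (P.cons (P.cons (P.lf 0 113163 0) (P.cons (P.lf 0 111582 0) (P.cons (P.lf 3489 0 0) P.nil))) (P.cons (P.cons (P.lf 0 816 0) (P.cons (P.lf 0 804 0) P.nil)) (P.cons (P.cons (P.lf 168 0 0) P.nil) P.nil)))))) 1191)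
 EL.nil)))
noncomputable def S183_198_216_290_22 : EL := (EL.cons 4 (TM.mk (P.cons (P.cons (P.lf 0 1580887788 0) (P.cons (P.lf 92648037 0 0) (P.cons (P.lf 42381213 0 0) (P.cons (P.lf 0 3361290 0) (P.cons (P.lf 0 240912 0) (P.cons (P.lf 28740 0 0) P.nil)))))) (P.cons (P.cons (P.lf 27289938 0 0) (P.cons (P.lf 4812525 0 0) (P.cons (P.lf 2096811 0 0) (P.cons (P.lf 0 273387 0) (P.cons (P.lf 0 31128 0) P.nil))))) (P.cons (P.cons (P.lf 74075709 0 0) (P.cons (P.lf 0 2689893 0) (P.cons (P.lf 0 1253052 0) (P.cons (P.lf 76266 0 0) P.nil)))) (P.cons (P.cons (P.lf 1484751 0 0) (P.cons (P.lf 0 238164 0) (P.cons (P.lf 0 108681 0) P.nil))) (P.cons (P.cons (P.lf 0 773649 0) (P.cons (P.lf 16485 0 0) P.nil)) (P.cons (P.cons (P.lf 0 29193 0) P.nil) P.nil)))))) 46563)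
 (EL.cons 8 (TM.mk (P.cons (P.cons (P.lf 587378481 0 0) (P.cons (P.lf 0 34423356 0) (P.cons (P.lf 0 15746733 0) (P.cons (P.lf 1248888 0 0) (P.cons (P.lf 89511 0 0) (P.cons (P.lf 0 10677 0) P.nil)))))) (P.cons (P.cons (P.lf 0 89384943 0) (P.cons (P.lf 2856081 0 0) (P.cons (P.lf 1345374 0 0) (P.cons (P.lf 0 66909 0) (P.cons (P.lf 0 510 0) P.nil))))) (P.cons (P.cons (P.lf 0 23851110 0) (P.cons (P.lf 1105656 0 0) (P.cons (P.lf 508917 0 0) (P.cons (P.lf 0 37140 0) P.nil)))) (P.cons (P.cons (P.lf 2982150 0 0) (P.cons (P.lf 0 45174 0) (P.cons (P.lf 0 21741 0) P.nil))) (P.cons (P.cons (P.lf 261885 0 0) (P.cons (P.lf 0 14040 0) P.nil)) (P.cons (P.cons (P.lf 0 23919 0) P.nil) P.nil)))))) 25140)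
 (EL.cons 11 (TM.mk (P.cons (P.cons (P.lf 235750710 0 0) (P.cons (P.lf 225222846 0 0) (P.cons (P.lf 0 17826627 0) (P.cons (P.lf 0 4315683 0) (P.cons (P.lf 354348 0 0) (P.cons (P.lf 12834 0 0) P.nil)))))) (P.cons (P.cons (P.lf 47147502 0 0) (P.cons (P.lf 45124035 0 0) (P.cons (P.lf 0 3445575 0) (P.cons (P.lf 0 829296 0) (P.cons (P.lf 67389 0 0) P.nil))))) (P.cons (P.cons (P.lf 0 540141 0) (P.cons (P.lf 0 581121 0) (P.cons (P.lf 0 54078 0) (P.cons (P.lf 0 16941 0) P.nil)))) (P.cons (P.cons (P.lf 0 426177 0) (P.cons (P.lf 0 413589 0) (P.cons (P.lf 22827 0 0) P.nil))) (P.cons (P.cons (P.lf 0 9180 0) (P.cons (P.lf 0 8490 0) P.nil)) (P.cons (P.cons (P.lf 1698 0 0) P.nil) P.nil)))))) 22179)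
 EL.nil)))
noncomputable def S183_198_216_290_23 : EL := (EL.cons 4 (TM.mk (P.cons (P.cons (P.lf 1491066537 0 0) (P.cons (P.lf 0 41609898 0) (P.cons (P.lf 0 19642416 0) (P.lf 935349 0 0)))) (P.cons (P.cons (P.lf 0 356318235 0) (P.cons (P.lf 3377352 0 0) (P.cons (P.lf 1594317 0 0) (P.lf 0 75921 0)))) (P.cons (P.cons (P.lf 0 11926011 0) (P.cons (P.lf 755460 0 0) (P.cons (P.lf 356622 0 0) (P.lf 0 16977 0)))) (P.cons (P.cons (P.lf 4324620 0 0) (P.cons (P.lf 0 27210 0) (P.cons (P.lf 0 12843 0) P.nil))) (P.cons (P.cons (P.lf 147822 0 0) (P.cons (P.lf 0 6393 0) P.nil)) (P.cons (P.cons (P.lf 0 20094 0) P.nil) P.nil)))))) 8826)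
 (EL.cons 8 (TM.mk (P.cons (P.cons (P.lf 0 554005416 0) (P.cons (P.lf 15460149 0 0) (P.cons (P.lf 7298136 0 0) (P.lf 0 347529 0)))) (P.cons (P.cons (P.lf 207132846 0 0) (P.cons (P.lf 0 3340635 0) (P.cons (P.lf 0 1576983 0) (P.lf 75090 0 0)))) (P.cons (P.cons (P.lf 0 15602946 0) (P.cons (P.lf 0 50760 0) (P.cons (P.lf 0 23961 0) (P.lf 1140 0 0)))) (P.cons (P.cons (P.lf 0 1553697 0) (P.cons (P.lf 39381 0 0) (P.cons (P.lf 18588 0 0) P.nil))) (P.cons (P.cons (P.lf 142533 0 0) (P.cons (P.lf 351 0 0) P.nil)) (P.cons (P.cons (P.lf 9024 0 0) P.nil) P.nil)))))) 5739)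
 (EL.cons 11 (TM.mk (P.cons (P.cons (P.lf 0 222356067 0) (P.cons (P.lf 0 219252462 0) (P.cons (P.lf 6860619 0 0) (P.cons (P.lf 1257180 0 0) (P.lf 0 44898 0))))) (P.cons (P.cons (P.lf 4829010 0 0) (P.cons (P.lf 4761609 0 0) (P.cons (P.lf 0 148995 0) (P.cons (P.lf 0 27303 0) (P.lf 975 0 0))))) (P.cons (P.cons (P.lf 2578974 0 0) (P.cons (P.lf 2542977 0 0) (P.cons (P.lf 0 79572 0) (P.cons (P.lf 0 14580 0) P.nil)))) (P.cons (P.cons (P.lf 52941 0 0) (P.cons (P.lf 52200 0 0) (P.cons (P.lf 0 1632 0) P.nil))) (P.cons (P.cons (P.lf 0 7383 0) (P.cons (P.lf 0 7278 0) P.nil)) (P.cons (P.cons (P.lf 0 303 0) P.nil) P.nil)))))) 2202)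
 EL.nil)))
noncomputable def S183_198_216_290_24 : EL := (EL.cons 4 (TM.mk (P.cons (P.cons (P.lf 747779136 0 0) (P.cons (P.lf 0 43823646 0) (P.cons (P.lf 0 20046828 0) (P.cons (P.lf 1589931 0 0) (P.cons (P.lf 113952 0 0) (P.cons (P.lf 0 13593 0) P.nil)))))) (P.cons (P.cons (P.lf 0 85578840 0) (P.cons (P.lf 1982466 0 0) (P.cons (P.lf 956364 0 0) (P.cons (P.lf 0 25194 0) (P.cons (P.lf 3648 0 0) P.nil))))) (P.cons (P.cons (P.lf 0 35784651 0) (P.cons (P.lf 1610808 0 0) (P.cons (P.lf 742722 0 0) (P.cons (P.lf 0 52893 0) P.nil)))) (P.cons (P.cons (P.lf 2774760 0 0) (P.cons (P.lf 0 7095 0) (P.cons (P.lf 0 4542 0) P.nil))) (P.cons (P.cons (P.lf 529914 0 0) (P.cons (P.lf 0 22416 0) P.nil)) (P.cons (P.cons (P.lf 0 21666 0) P.nil) P.nil)))))) 30657)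
 (EL.cons 8 (TM.mk (P.cons (P.cons (P.lf 0 277837158 0) (P.cons (P.lf 16282665 0 0) (P.cons (P.lf 7448394 0 0) (P.cons (P.lf 0 590739 0) (P.cons (P.lf 0 42339 0) (P.cons (P.lf 5049 0 0) P.nil)))))) (P.cons (P.cons (P.lf 69280821 0 0) (P.cons (P.lf 0 2933337 0) (P.cons (P.lf 0 1360224 0) (P.cons (P.lf 89058 0 0) (P.cons (P.lf 4356 0 0) P.nil))))) (P.cons (P.cons (P.lf 7916262 0 0) (P.cons (P.lf 0 435258 0) (P.cons (P.lf 0 198804 0) (P.cons (P.lf 16071 0 0) P.nil)))) (P.cons (P.cons (P.lf 0 2633991 0) (P.cons (P.lf 76620 0 0) (P.cons (P.lf 35751 0 0) P.nil))) (P.cons (P.cons (P.lf 0 15834 0) (P.cons (P.lf 5952 0 0) P.nil)) (P.cons (P.cons (P.lf 27837 0 0) P.nil) P.nil)))))) 13194)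
 (EL.cons 11 (TM.mk (P.cons (P.cons (P.lf 0 111512949 0) (P.cons (P.lf 0 106533141 0) (P.cons (P.lf 8432211 0 0) (P.cons (P.lf 2041371 0 0) (P.cons (P.lf 0 167610 0) (P.cons (P.lf 0 6069 0) P.nil)))))) (P.cons (P.cons (P.lf 0 11464335 0) (P.cons (P.lf 0 10991154 0) (P.cons (P.lf 810342 0 0) (P.cons (P.lf 193884 0 0) (P.cons (P.lf 0 15585 0) P.nil))))) (P.cons (P.cons (P.lf 2721084 0 0) (P.cons (P.lf 2634132 0 0) (P.cons (P.lf 0 155361 0) (P.cons (P.lf 0 35568 0) P.nil)))) (P.cons (P.cons (P.lf 230835 0 0) (P.cons (P.lf 220686 0 0) (P.cons (P.lf 0 17220 0) P.nil))) (P.cons (P.cons (P.lf 0 17439 0) (P.cons (P.lf 0 17172 0) P.nil)) (P.cons (P.cons (P.lf 0 1830 0) P.nil) P.nil)))))) 14778)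
 EL.nil)))
noncomputable def S183_198_216_290_25 : EL := (EL.cons 4 (TM.mk (P.cons (P.cons (P.lf 0 705292593 0) (P.cons (P.lf 19681986 0 0) (P.cons (P.lf 9291102 0 0) (P.lf 0 442431 0)))) (P.cons (P.cons (P.lf 237084312 0 0) (P.cons (P.lf 0 3510255 0) (P.cons (P.lf 0 1657056 0) (P.lf 78909 0 0)))) (P.cons (P.cons (P.lf 0 8851362 0) (P.cons (P.lf 0 254742 0) (P.cons (P.lf 0 120252 0) (P.lf 5724 0 0)))) (P.cons (P.cons (P.lf 0 3079980 0) (P.cons (P.lf 52854 0 0) (P.cons (P.lf 24951 0 0) P.nil))) (P.cons (P.cons (P.lf 119733 0 0) (P.cons (P.lf 2718 0 0) P.nil)) (P.cons (P.cons (P.lf 22641 0 0) P.nil) P.nil)))))) 7164)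
 (EL.cons 8 (TM.mk (P.cons (P.cons (P.lf 262051293 0 0) (P.cons (P.lf 0 7312836 0) (P.cons (P.lf 0 3452106 0) (P.lf 164385 0 0)))) (P.cons (P.cons (P.lf 0 123442914 0) (P.cons (P.lf 2290833 0 0) (P.cons (P.lf 1081413 0 0) (P.lf 0 51492 0)))) (P.cons (P.cons (P.lf 16200858 0 0) (P.cons (P.lf 0 109989 0) (P.cons (P.lf 0 51921 0) (P.lf 2472 0 0)))) (P.cons (P.cons (P.lf 292890 0 0) (P.cons (P.lf 0 25554 0) (P.cons (P.lf 0 12060 0) P.nil))) (P.cons (P.cons (P.lf 0 162564 0) (P.cons (P.lf 1632 0 0) P.nil)) (P.cons (P.cons (P.lf 342 0 0) P.nil) P.nil)))))) 4716)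
 (EL.cons 11 (TM.mk (P.cons (P.cons (P.lf 105177123 0 0) (P.cons (P.lf 103709079 0 0) (P.cons (P.lf 0 3245157 0) (P.cons (P.lf 0 594660 0) (P.lf 21237 0 0))))) (P.cons (P.cons (P.lf 0 12505461 0) (P.cons (P.lf 0 12330912 0) (P.cons (P.lf 385845 0 0) (P.cons (P.lf 70704 0 0) (P.lf 0 2523 0))))) (P.cons (P.cons (P.lf 0 1279266 0) (P.cons (P.lf 0 1261410 0) (P.cons (P.lf 39468 0 0) (P.cons (P.lf 7230 0 0) P.nil)))) (P.cons (P.cons (P.lf 104880 0 0) (P.cons (P.lf 103416 0 0) (P.cons (P.lf 0 3234 0) P.nil))) (P.cons (P.cons (P.lf 9444 0 0) (P.cons (P.lf 9312 0 0) P.nil)) (P.cons (P.cons (P.lf 0 195 0) P.nil) P.nil)))))) 2373)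
 EL.nil)))
noncomputable def S183_198_216_290_26 : EL := (EL.cons 4 (TM.mk (P.cons (P.cons (P.lf 0 353708619 0) (P.cons (P.lf 20729115 0 0) (P.cons (P.lf 9482391 0 0) (P.cons (P.lf 0 752055 0) (P.cons (P.lf 0 53901 0) (P.cons (P.lf 6429 0 0) P.nil)))))) (P.cons (P.cons (P.lf 74853798 0 0) (P.cons (P.lf 0 2952219 0) (P.cons (P.lf 0 1373886 0) (P.cons (P.lf 85002 0 0) (P.cons (P.lf 3510 0 0) P.nil))))) (P.cons (P.cons (P.lf 13938897 0 0) (P.cons (P.lf 0 726252 0) (P.cons (P.lf 0 332721 0) (P.cons (P.lf 25872 0 0) P.nil)))) (P.cons (P.cons (P.lf 0 3083433 0) (P.cons (P.lf 80946 0 0) (P.cons (P.lf 37974 0 0) P.nil))) (P.cons (P.cons (P.lf 0 167604 0) (P.cons (P.lf 12339 0 0) P.nil)) (P.cons (P.cons (P.lf 39102 0 0) P.nil) P.nil)))))) 23040)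
 (EL.cons 8 (TM.mk (P.cons (P.cons (P.lf 131420352 0 0) (P.cons (P.lf 0 7701897 0) (P.cons (P.lf 0 3523179 0) (P.cons (P.lf 279426 0 0) (P.cons (P.lf 20025 0 0) (P.cons (P.lf 0 2388 0) P.nil)))))) (P.cons (P.cons (P.lf 0 45542310 0) (P.cons (P.lf 2135985 0 0) (P.cons (P.lf 985791 0 0) (P.cons (P.lf 0 69279 0) (P.cons (P.lf 0 4005 0) P.nil))))) (P.cons (P.cons (P.lf 0 911349 0) (P.cons (P.lf 91644 0 0) (P.cons (P.lf 40935 0 0) (P.cons (P.lf 0 4254 0) P.nil)))) (P.cons (P.cons (P.lf 1704045 0 0) (P.cons (P.lf 0 60348 0) (P.cons (P.lf 0 27945 0) P.nil))) (P.cons (P.cons (P.lf 0 104748 0) (P.cons (P.lf 195 0 0) P.nil)) (P.cons (P.cons (P.lf 0 17529 0) P.nil) P.nil)))))) 10980)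
 (EL.cons 11 (TM.mk (P.cons (P.cons (P.lf 52746981 0 0) (P.cons (P.lf 50391471 0 0) (P.cons (P.lf 0 3988536 0) (P.cons (P.lf 0 965592 0) (P.cons (P.lf 79281 0 0) (P.cons (P.lf 2871 0 0) P.nil)))))) (P.cons (P.cons (P.lf 296733 0 0) (P.cons (P.lf 301827 0 0) (P.cons (P.lf 4308 0 0) (P.cons (P.lf 2127 0 0) (P.cons (P.lf 0 330 0) P.nil))))) (P.cons (P.cons (P.lf 0 1955205 0) (P.cons (P.lf 0 1886022 0) (P.cons (P.lf 121407 0 0) (P.cons (P.lf 28317 0 0) P.nil)))) (P.cons (P.cons (P.lf 4026 0 0) (P.cons (P.lf 5310 0 0) (P.cons (P.lf 1830 0 0) P.nil))) (P.cons (P.cons (P.lf 22758 0 0) (P.cons (P.lf 22038 0 0) P.nil)) (P.cons (P.cons (P.lf 312 0 0) P.nil) P.nil)))))) 11826)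
 EL.nil)))
noncomputable def S183_198_216_290_27 : EL := (EL.cons 13 (TM.mk (P.lf 0 4294967296 0) 0)
 EL.nil)
noncomputable def S183_198_216_290_28 : EL := (EL.cons 13 (TM.mk (P.cons (P.cons (P.lf 0 2153952795 0) (P.cons (P.lf 66124064 0 0) (P.cons (P.lf 31214604 0 0) (P.lf 0 1486408 0)))) (P.cons (P.cons (P.lf 0 268220311 0) (P.cons (P.lf 7484988 0 0) (P.cons (P.lf 3533372 0 0) (P.lf 0 168252 0)))) (P.cons (P.cons (P.lf 21752251 0 0) (P.cons (P.lf 0 16448 0) (P.cons (P.lf 0 7764 0) (P.lf 368 0 0)))) (P.cons (P.cons (P.lf 1307419 0 0) (P.cons (P.lf 0 31600 0) (P.cons (P.lf 0 14916 0) P.nil))) (P.cons (P.cons (P.lf 0 48513 0) (P.cons (P.lf 0 844 0) P.nil)) (P.cons (P.cons (P.lf 0 4255 0) P.nil) P.nil)))))) 2099)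
 EL.nil)
noncomputable def S183_198_216_290_29 : EL := (EL.cons 13 (TM.mk (P.cons (P.cons (P.lf 0 1080220714 0) (P.cons (P.lf 66323258 0 0) (P.cons (P.lf 30290609 0 0) (P.cons (P.lf 0 2452027 0) (P.cons (P.lf 0 181090 0) (P.cons (P.lf 21605 0 0) P.nil)))))) (P.cons (P.cons (P.lf 0 269028306 0) (P.cons (P.lf 15766419 0 0) (P.cons (P.lf 7212240 0 0) (P.cons (P.lf 0 572006 0) (P.cons (P.lf 0 40997 0) P.nil))))) (P.cons (P.cons (P.lf 5067444 0 0) (P.cons (P.lf 248593 0 0) (P.cons (P.lf 104813 0 0) (P.cons (P.lf 0 17426 0) P.nil)))) (P.cons (P.cons (P.lf 4028209 0 0) (P.cons (P.lf 0 149823 0) (P.cons (P.lf 0 69694 0) P.nil))) (P.cons (P.cons (P.lf 4471 0 0) (P.cons (P.lf 0 7689 0) P.nil)) (P.cons (P.cons (P.lf 0 23570 0) P.nil) P.nil)))))) 23681)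
 EL.nil)
noncomputable def S183_198_216_290_30 : EL := (EL.cons 13 (TM.mk (P.cons (P.lf 2031571728 0 0) (P.cons (P.lf 0 197431380 0) (P.cons (P.lf 0 5434720 0) (P.cons (P.lf 101656 0 0) (P.cons (P.lf 7148 0 0) (P.cons (P.lf 20 0 0) P.nil)))))) 56)
 EL.nil)
noncomputable def S183_198_216_290_31 : EL := (EL.cons 13 (TM.mk (P.cons (P.cons (P.lf 1018845849 0 0) (P.cons (P.lf 0 31277485 0) (P.cons (P.lf 0 14764887 0) (P.lf 703089 0 0)))) (P.cons (P.cons (P.lf 27858402 0 0) (P.cons (P.lf 0 500894 0) (P.cons (P.lf 0 236452 0) (P.lf 11257 0 0)))) (P.cons (P.cons (P.lf 0 25344196 0) (P.cons (P.lf 435521 0 0) (P.cons (P.lf 205592 0 0) (P.lf 0 9789 0)))) (P.cons (P.cons (P.lf 93067 0 0) (P.cons (P.lf 22097 0 0) (P.cons (P.lf 10430 0 0) P.nil))) (P.cons (P.cons (P.lf 120504 0 0) (P.cons (P.lf 0 1361 0) P.nil)) (P.cons (P.cons (P.lf 1378 0 0) P.nil) P.nil)))))) 2701)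
 EL.nil)
noncomputable def S183_198_216_290_32 : EL := (EL.cons 13 (TM.mk (P.cons (P.cons (P.lf 510957525 0 0) (P.cons (P.lf 0 31371707 0) (P.cons (P.lf 0 14327826 0) (P.cons (P.lf 1159838 0 0) (P.cons (P.lf 85657 0 0) (P.cons (P.lf 0 10219 0) P.nil)))))) (P.cons (P.cons (P.lf 77597991 0 0) (P.cons (P.lf 0 4408955 0) (P.cons (P.lf 0 2019076 0) (P.cons (P.lf 157850 0 0) (P.cons (P.lf 11067 0 0) P.nil))))) (P.cons (P.cons (P.lf 0 16130554 0) (P.cons (P.lf 691087 0 0) (P.cons (P.lf 320283 0 0) (P.cons (P.lf 0 21154 0) P.nil)))) (P.cons (P.cons (P.lf 0 1987303 0) (P.cons (P.lf 100676 0 0) (P.cons (P.lf 46193 0 0) P.nil))) (P.cons (P.cons (P.lf 197631 0 0) (P.cons (P.lf 0 3419 0) P.nil)) (P.cons (P.cons (P.lf 16784 0 0) P.nil) P.nil)))))) 22661)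
 EL.nil)
noncomputable def S183_198_216_290_33 : EL := (EL.cons 14 (TM.mk (P.lf 8589934592 0 0) 0)
 EL.nil)
noncomputable def S183_198_216_290_34 : EL := (EL.cons 14 (TM.mk (P.cons (P.cons (P.lf 4307905590 0 0) (P.cons (P.lf 0 132248128 0) (P.cons (P.lf 0 62429208 0) (P.lf 2972816 0 0)))) (P.cons (P.cons (P.lf 536440622 0 0) (P.cons (P.lf 0 14969976 0) (P.cons (P.lf 0 7066744 0) (P.lf 336504 0 0)))) (P.cons (P.cons (P.lf 0 43504502 0) (P.cons (P.lf 32896 0 0) (P.cons (P.lf 15528 0 0) (P.lf 0 736 0)))) (P.cons (P.cons (P.lf 0 2614838 0) (P.cons (P.lf 63200 0 0) (P.cons (P.lf 29832 0 0) P.nil))) (P.cons (P.cons (P.lf 97026 0 0) (P.cons (P.lf 1688 0 0) P.nil)) (P.cons (P.cons (P.lf 8510 0 0) P.nil) P.nil)))))) 4198)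
 EL.nil)
noncomputable def S183_198_216_290_35 : EL := (EL.cons 14 (TM.mk (P.cons (P.cons (P.lf 2160441428 0 0) (P.cons (P.lf 0 132646516 0) (P.cons (P.lf 0 60581218 0) (P.cons (P.lf 4904054 0 0) (P.cons (P.lf 362180 0 0) (P.cons (P.lf 0 43210 0) P.nil)))))) (P.cons (P.cons (P.lf 538056612 0 0) (P.cons (P.lf 0 31532838 0) (P.cons (P.lf 0 14424480 0) (P.cons (P.lf 1144012 0 0) (P.cons (P.lf 81994 0 0) P.nil))))) (P.cons (P.cons (P.lf 0 10134888 0) (P.cons (P.lf 0 497186 0) (P.cons (P.lf 0 209626 0) (P.cons (P.lf 34852 0 0) P.nil)))) (P.cons (P.cons (P.lf 0 8056418 0) (P.cons (P.lf 299646 0 0) (P.cons (P.lf 139388 0 0) P.nil))) (P.cons (P.cons (P.lf 0 8942 0) (P.cons (P.lf 15378 0 0) P.nil)) (P.cons (P.cons (P.lf 47140 0 0) P.nil) P.nil)))))) 47362)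
 EL.nil)
noncomputable def S183_198_216_290_36 : EL := (EL.cons 14 (TM.mk (P.cons (P.lf 0 4063143456 0) (P.cons (P.lf 394862760 0 0) (P.cons (P.lf 10869440 0 0) (P.cons (P.lf 0 203312 0) (P.cons (P.lf 0 14296 0) (P.cons (P.lf 0 40 0) P.nil)))))) 112)
 EL.nil)
noncomputable def S183_198_216_290_37 : EL := (EL.cons 14 (TM.mk (P.cons (P.cons (P.lf 0 2037691698 0) (P.cons (P.lf 62554970 0 0) (P.cons (P.lf 29529774 0 0) (P.lf 0 1406178 0)))) (P.cons (P.cons (P.lf 0 55716804 0) (P.cons (P.lf 1001788 0 0) (P.cons (P.lf 472904 0 0) (P.lf 0 22514 0)))) (P.cons (P.cons (P.lf 50688392 0 0) (P.cons (P.lf 0 871042 0) (P.cons (P.lf 0 411184 0) (P.lf 19578 0 0)))) (P.cons (P.cons (P.lf 0 186134 0) (P.cons (P.lf 0 44194 0) (P.cons (P.lf 0 20860 0) P.nil))) (P.cons (P.cons (P.lf 0 241008 0) (P.cons (P.lf 2722 0 0) P.nil)) (P.cons (P.cons (P.lf 0 2756 0) P.nil) P.nil))))))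 5402)
 EL.nil)
noncomputable def S183_198_216_290_38 : EL := (EL.cons 14 (TM.mk (P.cons (P.cons (P.lf 0 1021915050 0) (P.cons (P.lf 62743414 0 0) (P.cons (P.lf 28655652 0 0) (P.cons (P.lf 0 2319676 0) (P.cons (P.lf 0 171314 0) (P.cons (P.lf 20438 0 0) P.nil)))))) (P.cons (P.cons (P.lf 0 155195982 0) (P.cons (P.lf 8817910 0 0) (P.cons (P.lf 4038152 0 0) (P.cons (P.lf 0 315700 0) (P.cons (P.lf 0 22134 0) P.nil))))) (P.cons (P.cons (P.lf 32261108 0 0) (P.cons (P.lf 0 1382174 0) (P.cons (P.lf 0 640566 0) (P.cons (P.lf 42308 0 0) P.nil)))) (P.cons (P.cons (P.lf 3974606 0 0) (P.cons (P.lf 0 201352 0) (P.cons (P.lf 0 92386 0) P.nil))) (P.cons (P.cons (P.lf 0 395262 0) (P.cons (P.lf 6838 0 0) P.nil)) (P.cons (P.cons (P.lf 0 33568 0) P.nil) P.nil)))))) 45322)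
 EL.nil)
noncomputable def S183_198_216_290_39 : EL := (EL.cons 14 (TM.mk (P.cons (P.lf 1921916234 0 0) (P.cons (P.lf 0 373549768 0) (P.cons (P.lf 7868326 0 0) (P.cons (P.lf 1191632 0 0) (P.cons (P.lf 8586 0 0) (P.cons (P.lf 0 1790 0) P.nil)))))) 176)
 EL.nil)
noncomputable def S183_198_216_290_40 : EL := (EL.cons 14 (TM.mk (P.cons (P.cons (P.lf 963852936 0 0) (P.cons (P.lf 0 29589260 0) (P.cons (P.lf 0 13967942 0) (P.lf 665138 0 0)))) (P.cons (P.cons (P.lf 0 67314038 0) (P.cons (P.lf 2401672 0 0) (P.cons (P.lf 1133736 0 0) (P.lf 0 53988 0)))) (P.cons (P.cons (P.lf 0 29115852 0) (P.cons (P.lf 537218 0 0) (P.cons (P.lf 253600 0 0) (P.lf 0 12074 0)))) (P.cons (P.cons (P.lf 2395818 0 0) (P.cons (P.lf 0 19348 0) (P.cons (P.lf 0 9134 0) P.nil))) (P.cons (P.cons (P.lf 174292 0 0) (P.cons (P.lf 0 4548 0) P.nil)) (P.cons (P.cons (P.lf 0 11106 0) P.nil) P.nil))))))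 5686)
 EL.nil)
noncomputable def S183_198_216_290_41 : EL := (EL.cons 14 (TM.mk (P.cons (P.cons (P.lf 483378238 0 0) (P.cons (P.lf 0 29678396 0) (P.cons (P.lf 0 13554470 0) (P.cons (P.lf 1097234 0 0) (P.cons (P.lf 81034 0 0) (P.cons (P.lf 0 9666 0) P.nil)))))) (P.cons (P.cons (P.lf 26434116 0 0) (P.cons (P.lf 0 1286784 0) (P.cons (P.lf 0 592848 0) (P.cons (P.lf 42698 0 0) (P.cons (P.lf 2594 0 0) P.nil))))) (P.cons (P.cons (P.lf 0 23687056 0) (P.cons (P.lf 1138520 0 0) (P.cons (P.lf 524882 0 0) (P.cons (P.lf 0 37458 0) P.nil)))) (P.cons (P.cons (P.lf 0 569248 0) (P.cons (P.lf 41378 0 0) (P.cons (P.lf 18684 0 0) P.nil))) (P.cons (P.cons (P.lf 415864 0 0) (P.cons (P.lf 0 14552 0) P.nil)) (P.cons (P.cons (P.lf 2238 0 0) P.nil) P.nil)))))) 35236)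
 EL.nil)
noncomputable def S183_198_216_290_42 : EL := (EL.cons 14 (TM.mk (P.cons (P.lf 0 909089734 0) (P.cons (P.lf 265040370 0 0) (P.cons (P.lf 0 18461242 0) (P.cons (P.lf 0 720132 0) (P.cons (P.lf 66314 0 0) (P.cons (P.lf 3174 0 0) P.nil)))))) 276)
 EL.nil)
noncomputable def S183_198_216_290_43 : EL := (EL.cons 14 (TM.mk (P.cons (P.cons (P.lf 0 455914152 0) (P.cons (P.lf 13996080 0 0) (P.cons (P.lf 6607006 0 0) (P.lf 0 314618 0)))) (P.cons (P.cons (P.lf 76146822 0 0) (P.cons (P.lf 0 2496182 0) (P.cons (P.lf 0 1178350 0) (P.lf 56112 0 0)))) (P.cons (P.cons (P.lf 11897486 0 0) (P.cons (P.lf 0 181152 0) (P.cons (P.lf 0 85514 0) (P.lf 4070 0 0)))) (P.cons (P.cons (P.lf 0 2579640 0) (P.cons (P.lf 37586 0 0) (P.cons (P.lf 17742 0 0) P.nil))) (P.cons (P.cons (P.lf 0 9164 0) (P.cons (P.lf 1934 0 0) P.nil)) (P.cons (P.cons (P.lf 17092 0 0) P.nil) P.nil)))))) 5674)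
 EL.nil)
noncomputable def S183_198_216_290_44 : EL := (EL.cons 14 (TM.mk (P.cons (P.cons (P.lf 0 228643780 0) (P.cons (P.lf 14038242 0 0) (P.cons (P.lf 6411428 0 0) (P.cons (P.lf 0 519004 0) (P.cons (P.lf 0 38330 0) (P.cons (P.lf 4572 0 0) P.nil)))))) (P.cons (P.cons (P.lf 9716308 0 0) (P.cons (P.lf 0 755592 0) (P.cons (P.lf 0 342646 0) (P.cons (P.lf 30240 0 0) (P.cons (P.lf 2496 0 0) P.nil))))) (P.cons (P.cons (P.lf 13031042 0 0) (P.cons (P.lf 0 635238 0) (P.cons (P.lf 0 292678 0) (P.cons (P.lf 21070 0 0) P.nil)))) (P.cons (P.cons (P.lf 0 797578 0) (P.cons (P.lf 31836 0 0) (P.cons (P.lf 14858 0 0) P.nil))) (P.cons (P.cons (P.lf 0 254280 0) (P.cons (P.lf 10306 0 0) P.nil)) (P.cons (P.cons (P.lf 17850 0 0) P.nil) P.nil)))))) 26872)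
 EL.nil)
noncomputable def S183_198_216_290_45 : EL := (EL.cons 14 (TM.mk (P.cons (P.cons (P.lf 1083474804 0 0) (P.cons (P.lf 0 99784578 0) (P.cons (P.lf 0 44041144 0) (P.cons (P.lf 5103830 0 0) (P.cons (P.lf 500514 0 0) (P.cons (P.lf 0 83852 0) P.nil)))))) (P.cons (P.cons (P.lf 404758102 0 0) (P.cons (P.lf 0 36146514 0) (P.cons (P.lf 0 15988408 0) (P.cons (P.lf 1816780 0 0) (P.cons (P.lf 176140 0 0) P.nil))))) (P.cons (P.cons (P.lf 17577124 0 0) (P.cons (P.lf 0 2320146 0) (P.cons (P.lf 0 1002100 0) (P.cons (P.lf 138918 0 0) P.nil)))) (P.cons (P.cons (P.lf 0 8055956 0) (P.cons (P.lf 478956 0 0) (P.cons (P.lf 218828 0 0) P.nil))) (P.cons (P.cons (P.lf 0 595662 0) (P.cons (P.lf 55564 0 0) P.nil)) (P.cons (P.cons (P.lf 75188 0 0) P.nil) P.nil)))))) 147856)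
 EL.nil)
noncomputable def S183_198_216_290_46 : EL := (EL.cons 15 (TM.mk (P.lf 4294967296 0 0) 0)
 EL.nil)
noncomputable def S183_198_216_290_47 : EL := (EL.cons 15 (TM.mk (P.cons (P.cons (P.lf 2153952795 0 0) (P.cons (P.lf 0 66124064 0) (P.cons (P.lf 0 31214604 0) (P.lf 1486408 0 0)))) (P.cons (P.cons (P.lf 268220311 0 0) (P.cons (P.lf 0 7484988 0) (P.cons (P.lf 0 3533372 0) (P.lf 168252 0 0)))) (P.cons (P.cons (P.lf 0 21752251 0) (P.cons (P.lf 16448 0 0) (P.cons (P.lf 7764 0 0) (P.lf 0 368 0)))) (P.cons (P.cons (P.lf 0 1307419 0) (P.cons (P.lf 31600 0 0) (P.cons (P.lf 14916 0 0) P.nil))) (P.cons (P.cons (P.lf 48513 0 0) (P.cons (P.lf 844 0 0) P.nil)) (P.cons (P.cons (P.lf 4255 0 0) P.nil) P.nil)))))) 2099)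
 EL.nil)
noncomputable def S183_198_216_290_48 : EL := (EL.cons 15 (TM.mk (P.cons (P.cons (P.lf 1080220714 0 0) (P.cons (P.lf 0 66323258 0) (P.cons (P.lf 0 30290609 0) (P.cons (P.lf 2452027 0 0) (P.cons (P.lf 181090 0 0) (P.cons (P.lf 0 21605 0) P.nil)))))) (P.cons (P.cons (P.lf 269028306 0 0) (P.cons (P.lf 0 15766419 0) (P.cons (P.lf 0 7212240 0) (P.cons (P.lf 572006 0 0) (P.cons (P.lf 40997 0 0) P.nil))))) (P.cons (P.cons (P.lf 0 5067444 0) (P.cons (P.lf 0 248593 0) (P.cons (P.lf 0 104813 0) (P.cons (P.lf 17426 0 0) P.nil)))) (P.cons (P.cons (P.lf 0 4028209 0) (P.cons (P.lf 149823 0 0) (P.cons (P.lf 69694 0 0) P.nil))) (P.cons (P.cons (P.lf 0 4471 0) (P.cons (P.lf 7689 0 0) P.nil)) (P.cons (P.cons (P.lf 23570 0 0) P.nil) P.nil)))))) 23681)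
 EL.nil)
noncomputable def S183_198_216_290 : SL := (SL.cons S183_198_216_290_0 (SL.cons S183_198_216_290_1 (SL.cons S183_198_216_290_2 (SL.cons S183_198_216_290_3 (SL.cons S183_198_216_290_4 (SL.cons S183_198_216_290_5 (SL.cons S183_198_216_290_6 (SL.cons S183_198_216_290_7 (SL.cons S183_198_216_290_8 (SL.cons S183_198_216_290_9 (SL.cons S183_198_216_290_10 (SL.cons S183_198_216_290_11 (SL.cons S183_198_216_290_12 (SL.cons S183_198_216_290_13 (SL.cons S183_198_216_290_14 (SL.cons S183_198_216_290_15 (SL.cons S183_198_216_290_16 (SL.cons S183_198_216_290_17 (SL.cons S183_198_216_290_18 (SL.cons S183_198_216_290_19 (SL.cons S183_198_216_290_20 (SL.cons S183_198_216_290_21 (SL.cons S183_198_216_290_22 (SL.cons S183_198_216_290_23 (SL.cons S183_198_216_290_24 (SL.cons S183_198_216_290_25 (SL.cons S183_198_216_290_26 (SL.cons S183_198_216_290_27 (SL.cons S183_198_216_290_28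 (SL.cons S183_198_216_290_29 (SL.cons S183_198_216_290_30 (SL.cons S183_198_216_290_31 (SL.cons S183_198_216_290_32 (SL.cons S183_198_216_290_33 (SL.cons S183_198_216_290_34 (SL.cons S183_198_216_290_35 (SL.cons S183_198_216_290_36 (SL.cons S183_198_216_290_37 (SL.cons S183_198_216_290_38 (SL.cons S183_198_216_290_39 (SL.cons S183_198_216_290_40 (SL.cons S183_198_216_290_41 (SL.cons S183_198_216_290_42 (SL.cons S183_198_216_290_43 (SL.cons S183_198_216_290_44 (SL.cons S183_198_216_290_45 (SL.cons S183_198_216_290_46 (SL.cons S183_198_216_290_47 (SL.cons S183_198_216_290_48 SL.nil)))))))))))))))))))))))))))))))))))))))))))))))))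
noncomputable def S183_198_216_364_0 : EL := (EL.cons 0 (TM.mk (P.cons (P.lf 6766532673 0 0) (P.cons (P.lf 328315225 0 0) (P.cons (P.lf 0 6915520 0) (P.cons (P.lf 0 1047332 0) (P.cons (P.lf 0 7546 0) (P.cons (P.lf 1573 0 0) P.nil)))))) 161)
 (EL.cons 1 (TM.mk (P.cons (P.lf 0 1616469420 0) (P.cons (P.lf 96098353 0 0) (P.cons (P.lf 12687056 0 0) (P.cons (P.lf 0 51723 0) (P.cons (P.lf 0 25867 0) (P.cons (P.lf 0 433 0) P.nil)))))) 140)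
 (EL.cons 5 (TM.mk (P.cons (P.lf 4895566122 0 0) (P.cons (P.lf 0 116734300 0) (P.cons (P.lf 2458850 0 0) (P.cons (P.lf 372384 0 0) (P.cons (P.lf 2686 0 0) (P.cons (P.lf 0 556 0) P.nil)))))) 123)
 (EL.cons 9 (TM.mk (P.lf 6442450944 0 0) 2)
 EL.nil))))
noncomputable def S183_198_216_364_1 : EL := (EL.cons 0 (TM.mk (P.cons (P.cons (P.lf 559791714 0 0) (P.cons (P.lf 0 98176921 0) (P.cons (P.lf 0 42335000 0) (P.lf 4703892 0 0)))) (P.cons (P.cons (P.lf 1221717635 0 0) (P.cons (P.lf 0 87001074 0) (P.cons (P.lf 0 37515842 0) (P.lf 4168421 0 0)))) (P.cons (P.cons (P.lf 2435795 0 0) (P.cons (P.lf 0 6967307 0) (P.cons (P.lf 0 3004381 0) (P.lf 333817 0 0)))) (P.cons (P.cons (P.lf 0 12599554 0) (P.cons (P.lf 488822 0 0) (P.cons (P.lf 210781 0 0) P.nil))) (P.cons (P.cons (P.lf 0 309242 0) (P.cons (P.lf 66269 0 0) P.nil)) (P.cons (P.cons (P.lf 55776 0 0) P.nil) P.nil))))))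 104220)
 (EL.cons 1 (TM.mk (P.cons (P.cons (P.lf 0 1559811387 0) (P.cons (P.lf 179121488 0 0) (P.cons (P.lf 77239204 0 0) (P.lf 0 8582127 0)))) (P.cons (P.cons (P.lf 0 98359842 0) (P.cons (P.lf 24306024 0 0) (P.cons (P.lf 10481031 0 0) (P.lf 0 1164551 0)))) (P.cons (P.cons (P.lf 68635386 0 0) (P.cons (P.lf 0 3283775 0) (P.cons (P.lf 0 1415999 0) (P.lf 157329 0 0)))) (P.cons (P.cons (P.lf 1996980 0 0) (P.cons (P.lf 0 446715 0) (P.cons (P.lf 0 192622 0) P.nil))) (P.cons (P.cons (P.lf 0 489768 0) (P.cons (P.lf 7429 0 0) P.nil)) (P.cons (P.cons (P.lf 0 20033 0) P.nil) P.nil)))))) 57495)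
 (EL.cons 5 (TM.mk (P.cons (P.cons (P.lf 3299733860 0 0) (P.cons (P.lf 0 387012428 0) (P.cons (P.lf 0 166884124 0) (P.lf 18542678 0 0)))) (P.cons (P.cons (P.lf 3140860 0 0) (P.cons (P.lf 0 16825994 0) (P.cons (P.lf 0 7255560 0) (P.lf 806178 0 0)))) (P.cons (P.cons (P.lf 0 37804364 0) (P.cons (P.lf 2582222 0 0) (P.cons (P.lf 1113476 0 0) (P.lf 0 123714 0)))) (P.cons (P.cons (P.lf 2335093 0 0) (P.cons (P.lf 27844 0 0) (P.cons (P.lf 12008 0 0) P.nil))) (P.cons (P.cons (P.lf 194529 0 0) (P.cons (P.lf 0 18156 0) P.nil)) (P.cons (P.cons (P.lf 0 12719 0) P.nil) P.nil)))))) 54587)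
 (EL.cons 9 (TM.mk (P.cons (P.cons (P.lf 3087150802 0 0) (P.cons (P.lf 0 372282150 0) (P.cons (P.lf 0 160532262 0) (P.lf 17836914 0 0)))) (P.cons (P.cons (P.lf 386055304 0 0) (P.cons (P.lf 0 42140910 0) (P.cons (P.lf 0 18171636 0) (P.lf 2019066 0 0)))) (P.cons (P.cons (P.lf 0 32592610 0) (P.cons (P.lf 92604 0 0) (P.cons (P.lf 39930 0 0) (P.lf 0 4434 0)))) (P.cons (P.cons (P.lf 0 1892410 0) (P.cons (P.lf 177918 0 0) (P.cons (P.lf 76716 0 0) P.nil))) (P.cons (P.cons (P.lf 74617 0 0) (P.cons (P.lf 4770 0 0) P.nil)) (P.cons (P.cons (P.lf 6256 0 0) P.nil) P.nil)))))) 13439)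
 (EL.cons 2 (TM.mk (P.cons (P.cons (P.lf 406439651 0 0) (P.cons (P.lf 378636134 0 0) (P.cons (P.lf 0 38860382 0) (P.cons (P.lf 0 8081876 0) (P.lf 673486 0 0))))) (P.cons (P.cons (P.lf 0 8826842 0) (P.cons (P.lf 0 8223021 0) (P.cons (P.lf 843949 0 0) (P.cons (P.lf 175516 0 0) (P.lf 0 14625 0))))) (P.cons (P.cons (P.lf 0 4714048 0) (P.cons (P.lf 0 4391572 0) (P.cons (P.lf 450717 0 0) (P.cons (P.lf 93735 0 0) P.nil)))) (P.cons (P.cons (P.lf 0 96769 0) (P.cons (P.lf 0 90149 0) (P.cons (P.lf 9250 0 0) P.nil))) (P.cons (P.cons (P.lf 13494 0 0) (P.cons (P.lf 12571 0 0) P.nil)) (P.cons (P.cons (P.lf 554 0 0) P.nil) P.nil)))))) 16147)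
 (EL.cons 6 (TM.mk (P.cons (P.cons (P.lf 388943532 0 0) (P.cons (P.lf 362336883 0 0) (P.cons (P.lf 0 37187550 0) (P.cons (P.lf 0 7733973 0) (P.lf 644496 0 0))))) (P.cons (P.cons (P.lf 44026920 0 0) (P.cons (P.lf 41015148 0 0) (P.cons (P.lf 0 4209486 0) (P.cons (P.lf 0 875454 0) (P.lf 72951 0 0))))) (P.cons (P.cons (P.lf 0 96753 0) (P.cons (P.lf 0 90135 0) (P.cons (P.lf 9249 0 0) (P.cons (P.lf 1923 0 0) P.nil)))) (P.cons (P.cons (P.lf 0 185883 0) (P.cons (P.lf 0 173166 0) (P.cons (P.lf 17769 0 0) P.nil))) (P.cons (P.cons (P.lf 0 4986 0) (P.cons (P.lf 0 4644 0) P.nil)) (P.cons (P.cons (P.lf 330 0 0) P.nil) P.nil)))))) 9300)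
 EL.nil))))))
noncomputable def S183_198_216_364_2 : EL := (EL.cons 0 (TM.mk (P.cons (P.cons (P.lf 0 1017252674 0) (P.cons (P.lf 215948174 0 0) (P.cons (P.lf 81870950 0 0) (P.cons (P.lf 0 20047388 0) (P.cons (P.lf 0 1013677 0) (P.cons (P.lf 464787 0 0) P.nil)))))) (P.cons (P.cons (P.lf 773969479 0 0) (P.cons (P.lf 0 136203040 0) (P.cons (P.lf 0 53604650 0) (P.cons (P.lf 10947991 0 0) (P.cons (P.lf 462097 0 0) P.nil))))) (P.cons (P.cons (P.lf 134332732 0 0) (P.cons (P.lf 0 27155054 0) (P.cons (P.lf 0 10272376 0) (P.cons (P.lf 2540520 0 0) P.nil)))) (P.cons (P.cons (P.lf 0 17415454 0) (P.cons (P.lf 1105108 0 0) (P.cons (P.lf 521352 0 0) P.nil))) (P.cons (P.cons (P.lf 0 2201221 0) (P.cons (P.lf 409561 0 0) P.nil)) (P.cons (P.cons (P.lf 128163 0 0) P.nil) P.nil)))))) 1726531)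
 (EL.cons 1 (TM.mk (P.cons (P.cons (P.lf 0 1123711614 0) (P.cons (P.lf 262414846 0 0) (P.cons (P.lf 97852595 0 0) (P.cons (P.lf 0 25771110 0) (P.cons (P.lf 0 1379137 0) (P.cons (P.lf 632352 0 0) P.nil)))))) (P.cons (P.cons (P.lf 0 210438367 0) (P.cons (P.lf 60528776 0 0) (P.cons (P.lf 21849393 0 0) (P.cons (P.lf 0 6566475 0) (P.cons (P.lf 0 383114 0) P.nil))))) (P.cons (P.cons (P.lf 59307736 0 0) (P.cons (P.lf 0 7066073 0) (P.cons (P.lf 0 3028815 0) (P.cons (P.lf 354199 0 0) P.nil)))) (P.cons (P.cons (P.lf 10020172 0 0) (P.cons (P.lf 0 2000730 0) (P.cons (P.lf 0 776379 0) P.nil))) (P.cons (P.cons (P.lf 0 790269 0) (P.cons (P.lf 0 395 0) P.nil)) (P.cons (P.cons (P.lf 0 122536 0) P.nil) P.nil)))))) 920883)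
 (EL.cons 5 (TM.mk (P.cons (P.cons (P.lf 2038261927 0 0) (P.cons (P.lf 0 481140092 0) (P.cons (P.lf 0 179092652 0) (P.cons (P.lf 47528424 0 0) (P.cons (P.lf 2557584 0 0) (P.cons (P.lf 0 1172689 0) P.nil)))))) (P.cons (P.cons (P.lf 144129245 0 0) (P.cons (P.lf 0 47910059 0) (P.cons (P.lf 0 16962866 0) (P.cons (P.lf 5483447 0 0) (P.cons (P.lf 333119 0 0) P.nil))))) (P.cons (P.cons (P.lf 0 56945227 0) (P.cons (P.lf 8300853 0 0) (P.cons (P.lf 3368689 0 0) (P.cons (P.lf 0 579432 0) P.nil)))) (P.cons (P.cons (P.lf 0 290282 0) (P.cons (P.lf 544016 0 0) (P.cons (P.lf 193977 0 0) P.nil))) (P.cons (P.cons (P.lf 793526 0 0) (P.cons (P.lf 0 99048 0) P.nil)) (P.cons (P.cons (P.lf 0 6908 0) P.nil) P.nil)))))) 1138562)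
 (EL.cons 9 (TM.mk (P.cons (P.cons (P.lf 1479328311 0 0) (P.cons (P.lf 0 356786926 0) (P.cons (P.lf 0 132337926 0) (P.cons (P.lf 35647470 0 0) (P.cons (P.lf 1938684 0 0) (P.cons (P.lf 0 888915 0) P.nil)))))) (P.cons (P.cons (P.lf 369986811 0 0) (P.cons (P.lf 0 85003935 0) (P.cons (P.lf 0 31784364 0) (P.cons (P.lf 8272983 0 0) (P.cons (P.lf 438903 0 0) P.nil))))) (P.cons (P.cons (P.lf 0 8102181 0) (P.cons (P.lf 0 1194946 0) (P.cons (P.lf 0 250329 0) (P.cons (P.lf 285750 0 0) P.nil)))) (P.cons (P.cons (P.lf 0 5719780 0) (P.cons (P.lf 826704 0 0) (P.cons (P.lf 334705 0 0) P.nil))) (P.cons (P.cons (P.lf 9598 0 0) (P.cons (P.lf 41089 0 0) P.nil)) (P.cons (P.cons (P.lf 34086 0 0) P.nil) P.nil)))))) 467792)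
 (EL.cons 2 (TM.mk (P.cons (P.cons (P.lf 389522716 0 0) (P.cons (P.lf 315903566 0 0) (P.cons (P.lf 0 101257740 0) (P.cons (P.lf 0 19873378 0) (P.cons (P.lf 5612754 0 0) (P.cons (P.lf 109743 0 0) P.nil)))))) (P.cons (P.cons (P.lf 40251256 0 0) (P.cons (P.lf 33200752 0 0) (P.cons (P.lf 0 9704480 0) (P.cons (P.lf 0 1909816 0) (P.cons (P.lf 521094 0 0) P.nil))))) (P.cons (P.cons (P.lf 0 9688100 0) (P.cons (P.lf 0 8353389 0) (P.cons (P.lf 1842052 0 0) (P.cons (P.lf 366136 0 0) P.nil)))) (P.cons (P.cons (P.lf 0 807170 0) (P.cons (P.lf 0 656904 0) (P.cons (P.lf 206701 0 0) P.nil))) (P.cons (P.cons (P.lf 63630 0 0) (P.cons (P.lf 58961 0 0) P.nil)) (P.cons (P.cons (P.lf 6480 0 0) P.nil) P.nil)))))) 383551)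
 (EL.cons 6 (TM.mk (P.cons (P.cons (P.lf 372754824 0 0) (P.cons (P.lf 302304780 0 0) (P.cons (P.lf 0 96898866 0) (P.cons (P.lf 0 19017882 0) (P.cons (P.lf 5371140 0 0) (P.cons (P.lf 105018 0 0) P.nil)))))) (P.cons (P.cons (P.lf 88808268 0 0) (P.cons (P.lf 72556590 0 0) (P.cons (P.lf 0 22359708 0) (P.cons (P.lf 0 4393380 0) (P.cons (P.lf 1223304 0 0) P.nil))))) (P.cons (P.cons (P.lf 1248420 0 0) (P.cons (P.lf 609408 0 0) (P.cons (P.lf 0 873822 0) (P.cons (P.lf 0 167754 0) P.nil)))) (P.cons (P.cons (P.lf 0 863700 0) (P.cons (P.lf 0 759120 0) (P.cons (P.lf 144576 0 0) P.nil))) (P.cons (P.cons (P.lf 0 42930 0) (P.cons (P.lf 0 33978 0) P.nil)) (P.cons (P.cons (P.lf 3426 0 0) P.nil) P.nil)))))) 432660)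
 EL.nil))))))
noncomputable def S183_198_216_364_3 : EL := (EL.cons 0 (TM.mk (P.cons (P.lf 1689184190 0 0) (P.cons (P.lf 0 328315225 0) (P.cons (P.lf 6915520 0 0) (P.cons (P.lf 1047332 0 0) (P.cons (P.lf 7546 0 0) (P.cons (P.lf 0 1573 0) P.nil)))))) 161)
 (EL.cons 1 (TM.mk (P.cons (P.lf 1616469420 0 0) (P.cons (P.lf 0 96098353 0) (P.cons (P.lf 0 12687056 0) (P.cons (P.lf 51723 0 0) (P.cons (P.lf 25867 0 0) (P.cons (P.lf 433 0 0) P.nil)))))) 140)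
 (EL.cons 5 (TM.mk (P.cons (P.lf 1546884822 0 0) (P.cons (P.lf 116734300 0 0) (P.cons (P.lf 0 2458850 0) (P.cons (P.lf 0 372384 0) (P.cons (P.lf 0 2686 0) (P.cons (P.lf 556 0 0) P.nil)))))) 116)
 EL.nil)))
noncomputable def S183_198_216_364_4 : EL := (EL.cons 0 (TM.mk (P.cons (P.cons (P.lf 809438266 0 0) (P.cons (P.lf 0 97610850 0) (P.cons (P.lf 0 42090899 0) (P.lf 4676765 0 0)))) (P.cons (P.cons (P.lf 0 56102885 0) (P.cons (P.lf 7922782 0 0) (P.cons (P.lf 3416392 0 0) (P.lf 0 379599 0)))) (P.cons (P.cons (P.lf 0 24905659 0) (P.cons (P.lf 1772212 0 0) (P.cons (P.lf 764196 0 0) (P.lf 0 84909 0)))) (P.cons (P.cons (P.lf 2081049 0 0) (P.cons (P.lf 0 63824 0) (P.cons (P.lf 0 27522 0) P.nil))) (P.cons (P.cons (P.lf 147392 0 0) (P.cons (P.lf 0 15002 0) P.nil)) (P.cons (P.cons (P.lf 0 9792 0) P.nil) P.nil)))))) 18790)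
 (EL.cons 1 (TM.mk (P.cons (P.cons (P.lf 774594157 0 0) (P.cons (P.lf 0 93408969 0) (P.cons (P.lf 0 40278999 0) (P.lf 4475443 0 0)))) (P.cons (P.cons (P.lf 50815516 0 0) (P.cons (P.lf 0 5020415 0) (P.cons (P.lf 0 2164860 0) (P.lf 240538 0 0)))) (P.cons (P.cons (P.lf 0 20015842 0) (P.cons (P.lf 1384957 0 0) (P.cons (P.lf 597208 0 0) (P.lf 0 66354 0)))) (P.cons (P.cons (P.lf 0 724126 0) (P.cons (P.lf 123256 0 0) (P.cons (P.lf 53148 0 0) P.nil))) (P.cons (P.cons (P.lf 126628 0 0) (P.cons (P.lf 0 3470 0) P.nil)) (P.cons (P.cons (P.lf 5679 0 0) P.nil) P.nil)))))) 14233)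
 (EL.cons 5 (TM.mk (P.cons (P.cons (P.lf 741249992 0 0) (P.cons (P.lf 0 89387968 0) (P.cons (P.lf 0 38545100 0) (P.lf 4282786 0 0)))) (P.cons (P.cons (P.lf 148632792 0 0) (P.cons (P.lf 0 16863958 0) (P.cons (P.lf 0 7271928 0) (P.lf 807990 0 0)))) (P.cons (P.cons (P.lf 0 2008856 0) (P.cons (P.lf 0 599252 0) (P.cons (P.lf 0 258404 0) (P.lf 28710 0 0)))) (P.cons (P.cons (P.lf 0 1370730 0) (P.cons (P.lf 81998 0 0) (P.cons (P.lf 35356 0 0) P.nil))) (P.cons (P.cons (P.lf 0 27536 0) (P.cons (P.lf 6924 0 0) P.nil)) (P.cons (P.cons (P.lf 5566 0 0) P.nil) P.nil)))))) 9870)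
 EL.nil)))
noncomputable def S183_198_216_364_5 : EL := (EL.cons 0 (TM.mk (P.cons (P.cons (P.lf 387873808 0 0) (P.cons (P.lf 0 93548067 0) (P.cons (P.lf 0 34698459 0) (P.cons (P.lf 9346619 0 0) (P.cons (P.lf 508313 0 0) (P.cons (P.lf 0 233068 0) P.nil)))))) (P.cons (P.cons (P.lf 21620631 0 0) (P.cons (P.lf 0 4105381 0) (P.cons (P.lf 0 1589625 0) (P.cons (P.lf 352502 0 0) (P.cons (P.lf 16279 0 0) P.nil))))) (P.cons (P.cons (P.lf 0 19391385 0) (P.cons (P.lf 3635608 0 0) (P.cons (P.lf 1412078 0 0) (P.cons (P.lf 0 308413 0) P.nil)))) (P.cons (P.cons (P.lf 0 449159 0) (P.cons (P.lf 128406 0 0) (P.cons (P.lf 44882 0 0) P.nil))) (P.cons (P.cons (P.lf 347185 0 0) (P.cons (P.lf 0 46875 0) P.nil)) (P.cons (P.cons (P.lf 1061 0 0) P.nil) P.nil)))))) 279475)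
 (EL.cons 1 (TM.mk (P.cons (P.cons (P.lf 371176899 0 0) (P.cons (P.lf 0 89521076 0) (P.cons (P.lf 0 33204785 0) (P.cons (P.lf 8944273 0 0) (P.cons (P.lf 486431 0 0) (P.cons (P.lf 0 223035 0) P.nil)))))) (P.cons (P.cons (P.lf 70766754 0 0) (P.cons (P.lf 0 16006271 0) (P.cons (P.lf 0 6000975 0) (P.cons (P.lf 1544032 0 0) (P.cons (P.lf 81204 0 0) P.nil))))) (P.cons (P.cons (P.lf 0 10465018 0) (P.cons (P.lf 1670748 0 0) (P.cons (P.lf 671910 0 0) (P.cons (P.lf 0 121905 0) P.nil)))) (P.cons (P.cons (P.lf 0 2031022 0) (P.cons (P.lf 389784 0 0) (P.cons (P.lf 149244 0 0) P.nil))) (P.cons (P.cons (P.lf 112591 0 0) (P.cons (P.lf 0 1783 0) P.nil)) (P.cons (P.cons (P.lf 21191 0 0) P.nil) P.nil)))))) 224532)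
 (EL.cons 5 (TM.mk (P.cons (P.cons (P.lf 355198748 0 0) (P.cons (P.lf 0 85667438 0) (P.cons (P.lf 0 31775410 0) (P.cons (P.lf 8559246 0 0) (P.cons (P.lf 465492 0 0) (P.cons (P.lf 0 213434 0) P.nil)))))) (P.cons (P.cons (P.lf 115641598 0 0) (P.cons (P.lf 0 26874952 0) (P.cons (P.lf 0 10029586 0) (P.cons (P.lf 2632324 0 0) (P.cons (P.lf 140512 0 0) P.nil))))) (P.cons (P.cons (P.lf 4193986 0 0) (P.cons (P.lf 0 1690976 0) (P.cons (P.lf 0 585514 0) (P.cons (P.lf 204906 0 0) P.nil)))) (P.cons (P.cons (P.lf 0 1746890 0) (P.cons (P.lf 229912 0 0) (P.cons (P.lf 95608 0 0) P.nil))) (P.cons (P.cons (P.lf 0 120244 0) (P.cons (P.lf 30362 0 0) P.nil)) (P.cons (P.cons (P.lf 10982 0 0) P.nil) P.nil)))))) 176610)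
 EL.nil)))
noncomputable def S183_198_216_364_6 : EL := (EL.cons 12 (TM.mk (P.lf 8589934592 0 0) 0)
 (EL.cons 3 (TM.mk (P.cons (P.lf 0 1904598495 0) (P.cons (P.lf 185091918 0 0) (P.cons (P.lf 5095050 0 0) (P.cons (P.lf 0 95302 0) (P.cons (P.lf 0 6701 0) (P.cons (P.lf 0 18 0) P.nil)))))) 59)
 (EL.cons 7 (TM.mk (P.cons (P.lf 0 1822610727 0) (P.cons (P.lf 0 68770857 0) (P.cons (P.lf 2745999 0 0) (P.cons (P.lf 115768 0 0) (P.cons (P.lf 0 717 0) (P.cons (P.lf 0 127 0) P.nil)))))) 49)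
 EL.nil)))
noncomputable def S183_198_216_364_7 : EL := (EL.cons 12 (TM.mk (P.cons (P.cons (P.lf 4116201070 0 0) (P.cons (P.lf 0 496376200 0) (P.cons (P.lf 0 214043016 0) (P.lf 23782552 0 0)))) (P.cons (P.cons (P.lf 514740406 0 0) (P.cons (P.lf 0 56187880 0) (P.cons (P.lf 0 24228848 0) (P.lf 2692088 0 0)))) (P.cons (P.cons (P.lf 0 43456814 0) (P.cons (P.lf 123472 0 0) (P.cons (P.lf 53240 0 0) (P.lf 0 5912 0)))) (P.cons (P.cons (P.lf 0 2523214 0) (P.cons (P.lf 237224 0 0) (P.cons (P.lf 102288 0 0) P.nil))) (P.cons (P.cons (P.lf 99490 0 0) (P.cons (P.lf 6360 0 0) P.nil)) (P.cons (P.cons (P.lf 8342 0 0) P.nil) P.nil)))))) 17894)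
 (EL.cons 3 (TM.mk (P.cons (P.cons (P.lf 2112100412 0 0) (P.cons (P.lf 0 220117474 0) (P.cons (P.lf 0 94917136 0) (P.lf 10546346 0 0)))) (P.cons (P.cons (P.lf 0 474431270 0) (P.cons (P.lf 0 3525084 0) (P.cons (P.lf 0 1520056 0) (P.lf 168892 0 0)))) (P.cons (P.cons (P.lf 0 35271799 0) (P.cons (P.lf 3065014 0 0) (P.cons (P.lf 1321668 0 0) (P.lf 0 146850 0)))) (P.cons (P.cons (P.lf 1910295 0 0) (P.cons (P.lf 155514 0 0) (P.cons (P.lf 67056 0 0) P.nil))) (P.cons (P.cons (P.lf 234328 0 0) (P.cons (P.lf 0 9570 0) P.nil)) (P.cons (P.cons (P.lf 0 254 0) P.nil) P.nil)))))) 39814)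
 (EL.cons 7 (TM.mk (P.cons (P.cons (P.lf 0 1997224680 0) (P.cons (P.lf 227997909 0 0) (P.cons (P.lf 98315270 0 0) (P.lf 0 10923921 0)))) (P.cons (P.cons (P.lf 176274824 0 0) (P.cons (P.lf 1309750 0 0) (P.cons (P.lf 564780 0 0) (P.lf 0 62756 0)))) (P.cons (P.cons (P.lf 1214294 0 0) (P.cons (P.lf 0 1227161 0) (P.cons (P.lf 0 529165 0) (P.lf 58795 0 0)))) (P.cons (P.cons (P.lf 0 1658024 0) (P.cons (P.lf 46354 0 0) (P.cons (P.lf 19987 0 0) P.nil))) (P.cons (P.cons (P.lf 0 26 0) (P.cons (P.lf 7091 0 0) P.nil)) (P.cons (P.cons (P.lf 6897 0 0) P.nil) P.nil)))))) 33266)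
 (EL.cons 10 (TM.mk (P.cons (P.cons (P.lf 0 916542264 0) (P.cons (P.lf 0 853843908 0) (P.cons (P.lf 87632160 0 0) (P.cons (P.lf 18225051 0 0) (P.lf 0 1518753 0))))) (P.cons (P.cons (P.lf 0 69166053 0) (P.cons (P.lf 0 64434576 0) (P.cons (P.lf 6613083 0 0) (P.cons (P.lf 1375335 0 0) (P.lf 0 114609 0))))) (P.cons (P.cons (P.lf 1456887 0 0) (P.cons (P.lf 1357227 0 0) (P.cons (P.lf 0 139293 0) (P.cons (P.lf 0 28968 0) P.nil)))) (P.cons (P.cons (P.lf 220638 0 0) (P.cons (P.lf 205545 0 0) (P.cons (P.lf 0 21093 0) P.nil))) (P.cons (P.cons (P.lf 1590 0 0) (P.cons (P.lf 1482 0 0) P.nil)) (P.cons (P.cons (P.lf 0 327 0) P.nil) P.nil)))))) 7947)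
 EL.nil))))
noncomputable def S183_198_216_364_8 : EL := (EL.cons 12 (TM.mk (P.cons (P.cons (P.lf 1972437748 0 0) (P.cons (P.lf 0 475715902 0) (P.cons (P.lf 0 176450568 0) (P.cons (P.lf 47529960 0 0) (P.cons (P.lf 2584912 0 0) (P.cons (P.lf 0 1185220 0) P.nil)))))) (P.cons (P.cons (P.lf 493315748 0 0) (P.cons (P.lf 0 113338580 0) (P.cons (P.lf 0 42379152 0) (P.cons (P.lf 11030644 0 0) (P.cons (P.lf 585204 0 0) P.nil))))) (P.cons (P.cons (P.lf 0 10802908 0) (P.cons (P.lf 0 1593262 0) (P.cons (P.lf 0 333772 0) (P.cons (P.lf 381000 0 0) P.nil)))) (P.cons (P.cons (P.lf 0 7626374 0) (P.cons (P.lf 1102272 0 0) (P.cons (P.lf 446274 0 0) P.nil))) (P.cons (P.cons (P.lf 12798 0 0) (P.cons (P.lf 54786 0 0) P.nil)) (P.cons (P.cons (P.lf 45448 0 0) P.nil) P.nil)))))) 623694)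
 (EL.cons 3 (TM.mk (P.cons (P.cons (P.lf 2461527695 0 0) (P.cons (P.lf 0 560532332 0) (P.cons (P.lf 0 209908702 0) (P.cons (P.lf 54280731 0 0) (P.cons (P.lf 2865691 0 0) (P.cons (P.lf 0 1313961 0) P.nil)))))) (P.cons (P.cons (P.lf 0 134675760 0) (P.cons (P.lf 0 17438552 0) (P.cons (P.lf 0 3410910 0) (P.cons (P.lf 4379029 0 0) (P.cons (P.lf 370275 0 0) P.nil))))) (P.cons (P.cons (P.lf 0 126228368 0) (P.cons (P.lf 17456970 0 0) (P.cons (P.lf 7134586 0 0) (P.cons (P.lf 0 1175371 0) P.nil)))) (P.cons (P.cons (P.lf 0 565836 0) (P.cons (P.lf 1365709 0 0) (P.cons (P.lf 500992 0 0) P.nil))) (P.cons (P.cons (P.lf 1318629 0 0) (P.cons (P.lf 0 113024 0) P.nil)) (P.cons (P.cons (P.lf 36935 0 0) P.nil) P.nil)))))) 1112632)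
 (EL.cons 7 (TM.mk (P.cons (P.cons (P.lf 0 1495584207 0) (P.cons (P.lf 348393241 0 0) (P.cons (P.lf 129967072 0 0) (P.cons (P.lf 0 34168490 0) (P.cons (P.lf 0 1826160 0) (P.cons (P.lf 837319 0 0) P.nil)))))) (P.cons (P.cons (P.lf 50038745 0 0) (P.cons (P.lf 6479301 0 0) (P.cons (P.lf 1267332 0 0) (P.cons (P.lf 0 1627035 0) (P.cons (P.lf 0 137579 0) P.nil))))) (P.cons (P.cons (P.lf 43524671 0 0) (P.cons (P.lf 0 6923207 0) (P.cons (P.lf 0 2736343 0) (P.cons (P.lf 546459 0 0) P.nil)))) (P.cons (P.cons (P.lf 0 3942646 0) (P.cons (P.lf 84413 0 0) (P.cons (P.lf 53931 0 0) P.nil))) (P.cons (P.cons (P.lf 0 422211 0) (P.cons (P.lf 80232 0 0) P.nil)) (P.cons (P.cons (P.lf 35271 0 0) P.nil) P.nil)))))) 653162)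
 (EL.cons 10 (TM.mk (P.cons (P.cons (P.lf 0 878393706 0) (P.cons (P.lf 0 712378746 0) (P.cons (P.lf 228341400 0 0) (P.cons (P.lf 44815488 0 0) (P.cons (P.lf 0 12657048 0) (P.cons (P.lf 0 247488 0) P.nil)))))) (P.cons (P.cons (P.lf 0 176132358 0) (P.cons (P.lf 0 144099504 0) (P.cons (P.lf 44074686 0 0) (P.cons (P.lf 8661984 0 0) (P.cons (P.lf 0 2405130 0) P.nil))))) (P.cons (P.cons (P.lf 2380524 0 0) (P.cons (P.lf 2927802 0 0) (P.cons (P.lf 740154 0 0) (P.cons (P.lf 136008 0 0) P.nil)))) (P.cons (P.cons (P.lf 1624332 0 0) (P.cons (P.lf 1416048 0 0) (P.cons (P.lf 0 287724 0) P.nil))) (P.cons (P.cons (P.lf 32628 0 0) (P.cons (P.lf 22188 0 0) P.nil)) (P.cons (P.cons (P.lf 0 6588 0) P.nil) P.nil)))))) 821730)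
 EL.nil))))
noncomputable def S183_198_216_364_9 : EL := (EL.cons 3 (TM.mk (P.cons (P.lf 0 1904598495 0) (P.cons (P.lf 185091918 0 0) (P.cons (P.lf 5095050 0 0) (P.cons (P.lf 0 95302 0) (P.cons (P.lf 0 6701 0) (P.cons (P.lf 0 18 0) P.nil)))))) 59)
 (EL.cons 7 (TM.mk (P.cons (P.lf 0 1822610727 0) (P.cons (P.lf 0 68770857 0) (P.cons (P.lf 2745999 0 0) (P.cons (P.lf 115768 0 0) (P.cons (P.lf 0 717 0) (P.cons (P.lf 0 127 0) P.nil)))))) 49)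
 EL.nil))
noncomputable def S183_198_216_364_10 : EL := (EL.cons 3 (TM.mk (P.cons (P.cons (P.lf 0 912662404 0) (P.cons (P.lf 110058737 0 0) (P.cons (P.lf 47458568 0 0) (P.lf 0 5273173 0)))) (P.cons (P.cons (P.lf 0 25436543 0) (P.cons (P.lf 1762542 0 0) (P.cons (P.lf 760028 0 0) (P.lf 0 84446 0)))) (P.cons (P.cons (P.lf 23168315 0 0) (P.cons (P.lf 0 1532507 0) (P.cons (P.lf 0 660834 0) (P.lf 73425 0 0)))) (P.cons (P.cons (P.lf 0 117282 0) (P.cons (P.lf 0 77757 0) (P.cons (P.lf 0 33528 0) P.nil))) (P.cons (P.cons (P.lf 0 111125 0) (P.cons (P.lf 4785 0 0) P.nil)) (P.cons (P.cons (P.lf 0 1130 0) P.nil) P.nil)))))) 9870)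
 (EL.cons 7 (TM.mk (P.cons (P.cons (P.lf 0 873374778 0) (P.cons (P.lf 105321009 0 0) (P.cons (P.lf 45415607 0 0) (P.lf 0 5046177 0)))) (P.cons (P.cons (P.lf 0 142171753 0) (P.cons (P.lf 15895912 0 0) (P.cons (P.lf 6854496 0 0) (P.lf 0 761609 0)))) (P.cons (P.cons (P.lf 6415508 0 0) (P.cons (P.lf 264961 0 0) (P.cons (P.lf 114254 0 0) (P.lf 0 12695 0)))) (P.cons (P.cons (P.lf 1103314 0 0) (P.cons (P.lf 0 75974 0) (P.cons (P.lf 0 32759 0) P.nil))) (P.cons (P.cons (P.lf 0 8207 0) (P.cons (P.lf 0 3925 0) P.nil)) (P.cons (P.cons (P.lf 0 4062 0) P.nil) P.nil)))))) 6781)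
 EL.nil))
noncomputable def S183_198_216_364_11 : EL := (EL.cons 3 (TM.mk (P.cons (P.cons (P.lf 0 437337667 0) (P.cons (P.lf 105477844 0 0) (P.cons (P.lf 39123404 0 0) (P.cons (P.lf 0 10538553 0) (P.cons (P.lf 0 573137 0) (P.cons (P.lf 262791 0 0) P.nil)))))) (P.cons (P.cons (P.lf 0 66878988 0) (P.cons (P.lf 14879428 0 0) (P.cons (P.lf 5594418 0 0) (P.cons (P.lf 0 1421609 0) (P.cons (P.lf 0 74055 0) P.nil))))) (P.cons (P.cons (P.lf 14194942 0 0) (P.cons (P.lf 0 2371068 0) (P.cons (P.lf 0 943820 0) (P.cons (P.lf 181397 0 0) P.nil)))) (P.cons (P.cons (P.lf 1728900 0 0) (P.cons (P.lf 0 340679 0) (P.cons (P.lf 0 129320 0) P.nil))) (P.cons (P.cons (P.lf 0 180585 0) (P.cons (P.lf 12286 0 0) P.nil)) (P.cons (P.cons (P.lf 0 14593 0) P.nil) P.nil)))))) 222462)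
 (EL.cons 7 (TM.mk (P.cons (P.cons (P.lf 0 418511475 0) (P.cons (P.lf 100937311 0 0) (P.cons (P.lf 37439248 0 0) (P.cons (P.lf 0 10084898 0) (P.cons (P.lf 0 548466 0) (P.cons (P.lf 251479 0 0) P.nil)))))) (P.cons (P.cons (P.lf 0 120462943 0) (P.cons (P.lf 27856731 0 0) (P.cons (P.lf 10404660 0 0) (P.cons (P.lf 0 2721003 0) (P.cons (P.lf 0 144863 0) P.nil))))) (P.cons (P.cons (P.lf 0 1026775 0) (P.cons (P.lf 1093369 0 0) (P.cons (P.lf 353699 0 0) (P.cons (P.lf 0 153957 0) P.nil)))) (P.cons (P.cons (P.lf 1888934 0 0) (P.cons (P.lf 0 263767 0) (P.cons (P.lf 0 107943 0) P.nil))) (P.cons (P.cons (P.lf 61371 0 0) (P.cons (P.lf 0 22446 0) P.nil)) (P.cons (P.cons (P.lf 0 12399 0) P.nil) P.nil)))))) 166486)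
 EL.nil))
noncomputable def S183_198_216_364_12 : EL := (EL.cons 4 (TM.mk (P.cons (P.lf 1904598495 0 0) (P.cons (P.lf 0 185091918 0) (P.cons (P.lf 0 5095050 0) (P.cons (P.lf 95302 0 0) (P.cons (P.lf 6701 0 0) (P.cons (P.lf 18 0 0) P.nil)))))) 59)
 (EL.cons 8 (TM.mk (P.cons (P.lf 1822610727 0 0) (P.cons (P.lf 68770857 0 0) (P.cons (P.lf 0 2745999 0) (P.cons (P.lf 0 115768 0) (P.cons (P.lf 717 0 0) (P.cons (P.lf 127 0 0) P.nil)))))) 49)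
 EL.nil))
noncomputable def S183_198_216_364_13 : EL := (EL.cons 4 (TM.mk (P.cons (P.cons (P.lf 912662404 0 0) (P.cons (P.lf 0 110058737 0) (P.cons (P.lf 0 47458568 0) (P.lf 5273173 0 0)))) (P.cons (P.cons (P.lf 25436543 0 0) (P.cons (P.lf 0 1762542 0) (P.cons (P.lf 0 760028 0) (P.lf 84446 0 0)))) (P.cons (P.cons (P.lf 0 23168315 0) (P.cons (P.lf 1532507 0 0) (P.cons (P.lf 660834 0 0) (P.lf 0 73425 0)))) (P.cons (P.cons (P.lf 117282 0 0) (P.cons (P.lf 77757 0 0) (P.cons (P.lf 33528 0 0) P.nil))) (P.cons (P.cons (P.lf 111125 0 0) (P.cons (P.lf 0 4785 0) P.nil)) (P.cons (P.cons (P.lf 1130 0 0) P.nil) P.nil)))))) 9870)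
 (EL.cons 8 (TM.mk (P.cons (P.cons (P.lf 873374778 0 0) (P.cons (P.lf 0 105321009 0) (P.cons (P.lf 0 45415607 0) (P.lf 5046177 0 0)))) (P.cons (P.cons (P.lf 142171753 0 0) (P.cons (P.lf 0 15895912 0) (P.cons (P.lf 0 6854496 0) (P.lf 761609 0 0)))) (P.cons (P.cons (P.lf 0 6415508 0) (P.cons (P.lf 0 264961 0) (P.cons (P.lf 0 114254 0) (P.lf 12695 0 0)))) (P.cons (P.cons (P.lf 0 1103314 0) (P.cons (P.lf 75974 0 0) (P.cons (P.lf 32759 0 0) P.nil))) (P.cons (P.cons (P.lf 8207 0 0) (P.cons (P.lf 3925 0 0) P.nil)) (P.cons (P.cons (P.lf 4062 0 0) P.nil) P.nil)))))) 6781)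
 EL.nil))
noncomputable def S183_198_216_364_14 : EL := (EL.cons 4 (TM.mk (P.cons (P.cons (P.lf 437337667 0 0) (P.cons (P.lf 0 105477844 0) (P.cons (P.lf 0 39123404 0) (P.cons (P.lf 10538553 0 0) (P.cons (P.lf 573137 0 0) (P.cons (P.lf 0 262791 0) P.nil)))))) (P.cons (P.cons (P.lf 66878988 0 0) (P.cons (P.lf 0 14879428 0) (P.cons (P.lf 0 5594418 0) (P.cons (P.lf 1421609 0 0) (P.cons (P.lf 74055 0 0) P.nil))))) (P.cons (P.cons (P.lf 0 14194942 0) (P.cons (P.lf 2371068 0 0) (P.cons (P.lf 943820 0 0) (P.cons (P.lf 0 181397 0) P.nil)))) (P.cons (P.cons (P.lf 0 1728900 0) (P.cons (P.lf 340679 0 0) (P.cons (P.lf 129320 0 0) P.nil))) (P.cons (P.cons (P.lf 180585 0 0) (P.cons (P.lf 0 12286 0) P.nil)) (P.cons (P.cons (P.lf 14593 0 0) P.nil) P.nil)))))) 222462)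
 (EL.cons 8 (TM.mk (P.cons (P.cons (P.lf 418511475 0 0) (P.cons (P.lf 0 100937311 0) (P.cons (P.lf 0 37439248 0) (P.cons (P.lf 10084898 0 0) (P.cons (P.lf 548466 0 0) (P.cons (P.lf 0 251479 0) P.nil)))))) (P.cons (P.cons (P.lf 120462943 0 0) (P.cons (P.lf 0 27856731 0) (P.cons (P.lf 0 10404660 0) (P.cons (P.lf 2721003 0 0) (P.cons (P.lf 144863 0 0) P.nil))))) (P.cons (P.cons (P.lf 1026775 0 0) (P.cons (P.lf 0 1093369 0) (P.cons (P.lf 0 353699 0) (P.cons (P.lf 153957 0 0) P.nil)))) (P.cons (P.cons (P.lf 0 1888934 0) (P.cons (P.lf 263767 0 0) (P.cons (P.lf 107943 0 0) P.nil))) (P.cons (P.cons (P.lf 0 61371 0) (P.cons (P.lf 22446 0 0) P.nil)) (P.cons (P.cons (P.lf 12399 0 0) P.nil) P.nil)))))) 166486)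
 EL.nil))
noncomputable def S183_198_216_364_15 : EL := (EL.cons 4 (TM.mk (P.cons (P.lf 0 900898234 0) (P.cons (P.lf 175101453 0 0) (P.cons (P.lf 0 3688277 0) (P.cons (P.lf 0 558577 0) (P.cons (P.lf 0 4024 0) (P.cons (P.lf 839 0 0) P.nil)))))) 89)
 (EL.cons 8 (TM.mk (P.cons (P.lf 0 862117024 0) (P.cons (P.lf 51252455 0 0) (P.cons (P.lf 6766430 0 0) (P.cons (P.lf 0 27586 0) (P.cons (P.lf 0 13796 0) (P.cons (P.lf 0 231 0) P.nil)))))) 71)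
 EL.nil))
noncomputable def S183_198_216_364_16 : EL := (EL.cons 4 (TM.mk (P.cons (P.cons (P.lf 0 431700408 0) (P.cons (P.lf 52059120 0 0) (P.cons (P.lf 22448479 0 0) (P.lf 0 2494275 0)))) (P.cons (P.cons (P.lf 29921538 0 0) (P.cons (P.lf 0 4225484 0) (P.cons (P.lf 0 1822076 0) (P.lf 202453 0 0)))) (P.cons (P.cons (P.lf 13283018 0 0) (P.cons (P.lf 0 945180 0) (P.cons (P.lf 0 407571 0) (P.lf 45285 0 0)))) (P.cons (P.cons (P.lf 0 1109893 0) (P.cons (P.lf 34039 0 0) (P.cons (P.lf 14678 0 0) P.nil))) (P.cons (P.cons (P.lf 0 78609 0) (P.cons (P.lf 8001 0 0) P.nil)) (P.cons (P.cons (P.lf 5222 0 0) P.nil) P.nil)))))) 10030)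
 (EL.cons 8 (TM.mk (P.cons (P.cons (P.lf 0 413116884 0) (P.cons (P.lf 49818117 0 0) (P.cons (P.lf 21482133 0 0) (P.lf 0 2386903 0)))) (P.cons (P.cons (P.lf 0 27101609 0) (P.cons (P.lf 2677555 0 0) (P.cons (P.lf 1154592 0 0) (P.lf 0 128287 0)))) (P.cons (P.cons (P.lf 10675116 0 0) (P.cons (P.lf 0 738644 0) (P.cons (P.lf 0 318511 0) (P.lf 35389 0 0)))) (P.cons (P.cons (P.lf 386201 0 0) (P.cons (P.lf 0 65737 0) (P.cons (P.lf 0 28346 0) P.nil))) (P.cons (P.cons (P.lf 0 67535 0) (P.cons (P.lf 1851 0 0) P.nil)) (P.cons (P.cons (P.lf 0 3029 0) P.nil) P.nil)))))) 7581)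
 EL.nil))
noncomputable def S183_198_216_364_17 : EL := (EL.cons 4 (TM.mk (P.cons (P.cons (P.lf 0 206866031 0) (P.cons (P.lf 49892302 0 0) (P.cons (P.lf 18505845 0 0) (P.cons (P.lf 0 4984863 0) (P.cons (P.lf 0 271100 0) (P.cons (P.lf 124303 0 0) P.nil)))))) (P.cons (P.cons (P.lf 0 11531003 0) (P.cons (P.lf 2189536 0 0) (P.cons (P.lf 847800 0 0) (P.cons (P.lf 0 188001 0) (P.cons (P.lf 0 8682 0) P.nil))))) (P.cons (P.cons (P.lf 10342072 0 0) (P.cons (P.lf 0 1938990 0) (P.cons (P.lf 0 753108 0) (P.cons (P.lf 164487 0 0) P.nil)))) (P.cons (P.cons (P.lf 239551 0 0) (P.cons (P.lf 0 68483 0) (P.cons (P.lf 0 23937 0) P.nil))) (P.cons (P.cons (P.lf 0 185165 0) (P.cons (P.lf 25000 0 0) P.nil)) (P.cons (P.cons (P.lf 0 566 0) P.nil) P.nil)))))) 149063)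
 (EL.cons 8 (TM.mk (P.cons (P.cons (P.lf 0 197961013 0) (P.cons (P.lf 47744574 0 0) (P.cons (P.lf 17709219 0 0) (P.cons (P.lf 0 4770279 0) (P.cons (P.lf 0 259430 0) (P.cons (P.lf 118952 0 0) P.nil)))))) (P.cons (P.cons (P.lf 0 37742269 0) (P.cons (P.lf 8536678 0 0) (P.cons (P.lf 3200520 0 0) (P.cons (P.lf 0 823484 0) (P.cons (P.lf 0 43309 0) P.nil))))) (P.cons (P.cons (P.lf 5581343 0 0) (P.cons (P.lf 0 891066 0) (P.cons (P.lf 0 358352 0) (P.cons (P.lf 65016 0 0) P.nil)))) (P.cons (P.cons (P.lf 1083212 0 0) (P.cons (P.lf 0 207885 0) (P.cons (P.lf 0 79597 0) P.nil))) (P.cons (P.cons (P.lf 0 60049 0) (P.cons (P.lf 951 0 0) P.nil)) (P.cons (P.cons (P.lf 0 11302 0) P.nil) P.nil)))))) 119739)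
 EL.nil))
noncomputable def S183_198_216_364_18 : EL := (EL.cons 4 (TM.mk (P.cons (P.lf 426135812 0 0) (P.cons (P.lf 0 124237673 0) (P.cons (P.lf 8653707 0 0) (P.cons (P.lf 337561 0 0) (P.cons (P.lf 0 31084 0) (P.cons (P.lf 0 1487 0) P.nil)))))) 136)
 (EL.cons 8 (TM.mk (P.cons (P.lf 407791829 0 0) (P.cons (P.lf 0 63872894 0) (P.cons (P.lf 0 1935523 0) (P.cons (P.lf 409346 0 0) (P.cons (P.lf 14041 0 0) (P.cons (P.lf 0 800 0) P.nil)))))) 99)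
 EL.nil))
noncomputable def S183_198_216_364_19 : EL := (EL.cons 4 (TM.mk (P.cons (P.cons (P.lf 204199539 0 0) (P.cons (P.lf 0 24624596 0) (P.cons (P.lf 0 10618403 0) (P.lf 1179822 0 0)))) (P.cons (P.cons (P.lf 0 33997688 0) (P.cons (P.lf 4391762 0 0) (P.cons (P.lf 1893777 0 0) (P.lf 0 210419 0)))) (P.cons (P.cons (P.lf 0 5453854 0) (P.cons (P.lf 318718 0 0) (P.cons (P.lf 137434 0 0) (P.lf 0 15270 0)))) (P.cons (P.cons (P.lf 1183666 0 0) (P.cons (P.lf 0 66128 0) (P.cons (P.lf 0 28515 0) P.nil))) (P.cons (P.cons (P.lf 2982 0 0) (P.cons (P.lf 0 3402 0) P.nil)) (P.cons (P.cons (P.lf 0 7849 0) P.nil) P.nil)))))) 9976)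
 (EL.cons 8 (TM.mk (P.cons (P.cons (P.lf 195409306 0 0) (P.cons (P.lf 0 23564574 0) (P.cons (P.lf 0 10161310 0) (P.lf 1129034 0 0)))) (P.cons (P.cons (P.lf 0 6170796 0) (P.cons (P.lf 1023526 0 0) (P.cons (P.lf 441356 0 0) (P.lf 0 49039 0)))) (P.cons (P.cons (P.lf 0 6818014 0) (P.cons (P.lf 535507 0 0) (P.cons (P.lf 230916 0 0) (P.lf 0 25657 0)))) (P.cons (P.cons (P.lf 283520 0 0) (P.cons (P.lf 0 649 0) (P.cons (P.lf 0 280 0) P.nil))) (P.cons (P.cons (P.lf 64534 0 0) (P.cons (P.lf 0 4978 0) P.nil)) (P.cons (P.cons (P.lf 0 1388 0) P.nil) P.nil)))))) 6746)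
 EL.nil))
noncomputable def S183_198_216_364_20 : EL := (EL.cons 4 (TM.mk (P.cons (P.cons (P.lf 97850146 0 0) (P.cons (P.lf 0 23599665 0) (P.cons (P.lf 0 8753489 0) (P.cons (P.lf 2357900 0 0) (P.cons (P.lf 128234 0 0) (P.cons (P.lf 0 58797 0) P.nil)))))) (P.cons (P.cons (P.lf 0 4054927 0) (P.cons (P.lf 1257775 0 0) (P.cons (P.lf 449657 0 0) (P.cons (P.lf 0 140217 0) (P.cons (P.lf 0 8354 0) P.nil))))) (P.cons (P.cons (P.lf 0 5683745 0) (P.cons (P.lf 1080946 0 0) (P.cons (P.lf 418618 0 0) (P.cons (P.lf 0 92753 0) P.nil)))) (P.cons (P.cons (P.lf 352398 0 0) (P.cons (P.lf 0 55148 0) (P.cons (P.lf 0 22661 0) P.nil))) (P.cons (P.cons (P.lf 112301 0 0) (P.cons (P.lf 0 17561 0) P.nil)) (P.cons (P.cons (P.lf 0 8164 0) P.nil) P.nil)))))) 103968)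
 (EL.cons 8 (TM.mk (P.cons (P.cons (P.lf 93637965 0 0) (P.cons (P.lf 0 22583764 0) (P.cons (P.lf 0 8376675 0) (P.cons (P.lf 2256399 0 0) (P.cons (P.lf 122713 0 0) (P.cons (P.lf 0 56265 0) P.nil)))))) (P.cons (P.cons (P.lf 8752665 0 0) (P.cons (P.lf 0 1843226 0) (P.cons (P.lf 0 699826 0) (P.cons (P.lf 170237 0 0) (P.cons (P.lf 8560 0 0) P.nil))))) (P.cons (P.cons (P.lf 0 4625476 0) (P.cons (P.lf 874314 0 0) (P.cons (P.lf 339035 0 0) (P.cons (P.lf 0 74643 0) P.nil)))) (P.cons (P.cons (P.lf 0 298881 0) (P.cons (P.lf 67043 0 0) (P.cons (P.lf 24808 0 0) P.nil))) (P.cons (P.cons (P.lf 86482 0 0) (P.cons (P.lf 0 11415 0) P.nil)) (P.cons (P.cons (P.lf 3888 0 0) P.nil) P.nil)))))) 77596)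
 EL.nil))
noncomputable def S183_198_216_364_21 : EL := (EL.cons 4 (TM.mk (P.cons (P.cons (P.lf 0 3024762816 0) (P.cons (P.lf 330176211 0 0) (P.cons (P.lf 142375704 0 0) (P.lf 0 15819519 0)))) (P.cons (P.cons (P.lf 448994727 0 0) (P.cons (P.lf 5287626 0 0) (P.cons (P.lf 2280084 0 0) (P.lf 0 253338 0)))) (P.cons (P.cons (P.lf 58440114 0 0) (P.cons (P.lf 0 4597521 0) (P.cons (P.lf 0 1982502 0) (P.lf 220275 0 0)))) (P.cons (P.cons (P.lf 0 2027577 0) (P.cons (P.lf 0 233271 0) (P.cons (P.lf 0 100584 0) P.nil))) (P.cons (P.cons (P.lf 0 345453 0) (P.cons (P.lf 14355 0 0) P.nil)) (P.cons (P.cons (P.lf 0 876 0) P.nil) P.nil)))))) 29925)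
 (EL.cons 8 (TM.mk (P.cons (P.cons (P.lf 1123849902 0 0) (P.cons (P.lf 0 122676900 0) (P.cons (P.lf 0 52899663 0) (P.lf 5877744 0 0)))) (P.cons (P.cons (P.lf 0 318446577 0) (P.cons (P.lf 14586162 0 0) (P.cons (P.lf 6289716 0 0) (P.lf 0 698853 0)))) (P.cons (P.cons (P.lf 5201214 0 0) (P.cons (P.lf 1492122 0 0) (P.cons (P.lf 643419 0 0) (P.lf 0 71490 0)))) (P.cons (P.cons (P.lf 2761338 0 0) (P.cons (P.lf 0 122328 0) (P.cons (P.lf 0 52746 0) P.nil))) (P.cons (P.cons (P.lf 0 8181 0) (P.cons (P.lf 0 11016 0) P.nil)) (P.cons (P.cons (P.lf 0 10959 0) P.nil) P.nil)))))) 26466)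
 (EL.cons 11 (TM.mk (P.cons (P.cons (P.lf 916542264 0 0) (P.cons (P.lf 853843908 0 0) (P.cons (P.lf 0 87632160 0) (P.cons (P.lf 0 18225051 0) (P.lf 1518753 0 0))))) (P.cons (P.cons (P.lf 69166053 0 0) (P.cons (P.lf 64434576 0 0) (P.cons (P.lf 0 6613083 0) (P.cons (P.lf 0 1375335 0) (P.lf 114609 0 0))))) (P.cons (P.cons (P.lf 0 1456887 0) (P.cons (P.lf 0 1357227 0) (P.cons (P.lf 139293 0 0) (P.cons (P.lf 28968 0 0) P.nil)))) (P.cons (P.cons (P.lf 0 220638 0) (P.cons (P.lf 0 205545 0) (P.cons (P.lf 21093 0 0) P.nil))) (P.cons (P.cons (P.lf 0 1590 0) (P.cons (P.lf 0 1482 0) P.nil)) (P.cons (P.cons (P.lf 327 0 0) P.nil) P.nil)))))) 7947)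
 EL.nil)))
noncomputable def S183_198_216_364_22 : EL := (EL.cons 4 (TM.mk (P.cons (P.cons (P.lf 0 1449432681 0) (P.cons (P.lf 333005088 0 0) (P.cons (P.lf 124516053 0 0) (P.cons (P.lf 0 32409642 0) (P.cons (P.lf 0 1719414 0) (P.cons (P.lf 788376 0 0) P.nil)))))) (P.cons (P.cons (P.lf 33898386 0 0) (P.cons (P.lf 16158990 0 0) (P.cons (P.lf 4502664 0 0) (P.cons (P.lf 0 2900319 0) (P.cons (P.lf 0 222165 0) P.nil))))) (P.cons (P.cons (P.lf 70211655 0 0) (P.cons (P.lf 0 9914019 0) (P.cons (P.lf 0 4039203 0) (P.cons (P.lf 678384 0 0) P.nil)))) (P.cons (P.cons (P.lf 1147368 0 0) (P.cons (P.lf 0 853194 0) (P.cons (P.lf 0 315156 0) P.nil))) (P.cons (P.cons (P.lf 0 749607 0) (P.cons (P.lf 62655 0 0) P.nil)) (P.cons (P.cons (P.lf 0 25764 0) P.nil) P.nil)))))) 445074)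
 (EL.cons 8 (TM.mk (P.cons (P.cons (P.lf 538536366 0 0) (P.cons (P.lf 0 123727965 0) (P.cons (P.lf 0 46263912 0) (P.cons (P.lf 12041796 0 0) (P.cons (P.lf 638847 0 0) (P.cons (P.lf 0 292920 0) P.nil)))))) (P.cons (P.cons (P.lf 0 85250844 0) (P.cons (P.lf 10688715 0 0) (P.cons (P.lf 4568664 0 0) (P.cons (P.lf 0 546984 0) (P.cons (P.lf 0 3642 0) P.nil))))) (P.cons (P.cons (P.lf 0 22275723 0) (P.cons (P.lf 4008288 0 0) (P.cons (P.lf 1545021 0 0) (P.cons (P.lf 0 350208 0) P.nil)))) (P.cons (P.cons (P.lf 2915790 0 0) (P.cons (P.lf 0 174090 0) (P.cons (P.lf 0 80937 0) P.nil))) (P.cons (P.cons (P.lf 241791 0 0) (P.cons (P.lf 0 51339 0) P.nil)) (P.cons (P.cons (P.lf 0 23835 0) P.nil) P.nil)))))) 243327)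
 (EL.cons 11 (TM.mk (P.cons (P.cons (P.lf 439196853 0 0) (P.cons (P.lf 356189373 0 0) (P.cons (P.lf 0 114170700 0) (P.cons (P.lf 0 22407744 0) (P.cons (P.lf 6328524 0 0) (P.cons (P.lf 123744 0 0) P.nil)))))) (P.cons (P.cons (P.lf 88066179 0 0) (P.cons (P.lf 72049752 0 0) (P.cons (P.lf 0 22037343 0) (P.cons (P.lf 0 4330992 0) (P.cons (P.lf 1202565 0 0) P.nil))))) (P.cons (P.cons (P.lf 0 1190262 0) (P.cons (P.lf 0 1463901 0) (P.cons (P.lf 0 370077 0) (P.cons (P.lf 0 68004 0) P.nil)))) (P.cons (P.cons (P.lf 0 812166 0) (P.cons (P.lf 0 708024 0) (P.cons (P.lf 143862 0 0) P.nil))) (P.cons (P.cons (P.lf 0 16314 0) (P.cons (P.lf 0 11094 0) P.nil)) (P.cons (P.cons (P.lf 3294 0 0) P.nil) P.nil)))))) 410865)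
 EL.nil)))
noncomputable def S183_198_216_364_23 : EL := (EL.cons 4 (TM.mk (P.cons (P.cons (P.lf 1430749572 0 0) (P.cons (P.lf 0 156177360 0) (P.cons (P.lf 0 67345437 0) (P.lf 7482822 0 0)))) (P.cons (P.cons (P.lf 0 351422487 0) (P.cons (P.lf 12676452 0 0) (P.cons (P.lf 5466228 0 0) (P.lf 0 607359 0)))) (P.cons (P.cons (P.lf 0 10830900 0) (P.cons (P.lf 2835540 0 0) (P.cons (P.lf 1222716 0 0) (P.lf 0 135855 0)))) (P.cons (P.cons (P.lf 4285182 0 0) (P.cons (P.lf 0 102123 0) (P.cons (P.lf 0 44037 0) P.nil))) (P.cons (P.cons (P.lf 138552 0 0) (P.cons (P.lf 0 24003 0) P.nil)) (P.cons (P.cons (P.lf 0 20145 0) P.nil) P.nil)))))) 36168)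
 (EL.cons 8 (TM.mk (P.cons (P.cons (P.lf 0 531594660 0) (P.cons (P.lf 58027662 0 0) (P.cons (P.lf 25022181 0 0) (P.lf 0 2780244 0)))) (P.cons (P.cons (P.lf 202290315 0 0) (P.cons (P.lf 0 12538650 0) (P.cons (P.lf 0 5406807 0) (P.lf 600753 0 0)))) (P.cons (P.cons (P.lf 0 15676527 0) (P.cons (P.lf 0 190524 0) (P.cons (P.lf 0 82155 0) (P.lf 9126 0 0)))) (P.cons (P.cons (P.lf 0 1496607 0) (P.cons (P.lf 147813 0 0) (P.cons (P.lf 63735 0 0) P.nil))) (P.cons (P.cons (P.lf 143049 0 0) (P.cons (P.lf 1332 0 0) P.nil)) (P.cons (P.cons (P.lf 8703 0 0) P.nil) P.nil)))))) 23196)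
 (EL.cons 11 (TM.mk (P.cons (P.cons (P.lf 0 433535628 0) (P.cons (P.lf 0 403878543 0) (P.cons (P.lf 41451075 0 0) (P.cons (P.lf 8620668 0 0) (P.lf 0 718386 0))))) (P.cons (P.cons (P.lf 9415299 0 0) (P.cons (P.lf 8771223 0 0) (P.cons (P.lf 0 900213 0) (P.cons (P.lf 0 187218 0) (P.lf 15600 0 0))))) (P.cons (P.cons (P.lf 5028318 0 0) (P.cons (P.lf 4684344 0 0) (P.cons (P.lf 0 480765 0) (P.cons (P.lf 0 99984 0) P.nil)))) (P.cons (P.cons (P.lf 103221 0 0) (P.cons (P.lf 96159 0 0) (P.cons (P.lf 0 9867 0) P.nil))) (P.cons (P.cons (P.lf 0 14394 0) (P.cons (P.lf 0 13410 0) P.nil)) (P.cons (P.cons (P.lf 0 591 0) P.nil) P.nil)))))) 17202)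
 EL.nil)))
noncomputable def S183_198_216_364_24 : EL := (EL.cons 4 (TM.mk (P.cons (P.cons (P.lf 685599273 0 0) (P.cons (P.lf 0 157515453 0) (P.cons (P.lf 0 58897605 0) (P.cons (P.lf 15330153 0 0) (P.cons (P.lf 813303 0 0) (P.cons (P.lf 0 372912 0) P.nil)))))) (P.cons (P.cons (P.lf 0 82661979 0) (P.cons (P.lf 7664202 0 0) (P.cons (P.lf 3593946 0 0) (P.cons (P.lf 0 117921 0) (P.cons (P.lf 26049 0 0) P.nil))))) (P.cons (P.cons (P.lf 0 33486789 0) (P.cons (P.lf 5853621 0 0) (P.cons (P.lf 2275131 0 0) (P.cons (P.lf 0 495216 0) P.nil)))) (P.cons (P.cons (P.lf 2761974 0 0) (P.cons (P.lf 0 39591 0) (P.cons (P.lf 0 33849 0) P.nil))) (P.cons (P.cons (P.lf 497769 0 0) (P.cons (P.lf 0 82335 0) P.nil)) (P.cons (P.cons (P.lf 0 22530 0) P.nil) P.nil)))))) 222162)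
 (EL.cons 8 (TM.mk (P.cons (P.cons (P.lf 0 254734245 0) (P.cons (P.lf 58524831 0 0) (P.cons (P.lf 21883392 0 0) (P.cons (P.lf 0 5695917 0) (P.cons (P.lf 0 302181 0) (P.cons (P.lf 138555 0 0) P.nil)))))) (P.cons (P.cons (P.lf 65080164 0 0) (P.cons (P.lf 0 10743429 0) (P.cons (P.lf 0 4287696 0) (P.cons (P.lf 812268 0 0) (P.cons (P.lf 31089 0 0) P.nil))))) (P.cons (P.cons (P.lf 7299318 0 0) (P.cons (P.lf 0 1561191 0) (P.cons (P.lf 0 579342 0) (P.cons (P.lf 155745 0 0) P.nil)))) (P.cons (P.cons (P.lf 0 2523795 0) (P.cons (P.lf 283053 0 0) (P.cons (P.lf 116181 0 0) P.nil))) (P.cons (P.cons (P.lf 0 7401 0) (P.cons (P.lf 21306 0 0) P.nil)) (P.cons (P.cons (P.lf 26745 0 0) P.nil) P.nil)))))) 115944)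
 (EL.cons 11 (TM.mk (P.cons (P.cons (P.lf 0 207745449 0) (P.cons (P.lf 0 168481902 0) (P.cons (P.lf 54004128 0 0) (P.cons (P.lf 10599135 0 0) (P.cons (P.lf 0 2993469 0) (P.cons (P.lf 0 58530 0) P.nil)))))) (P.cons (P.cons (P.lf 0 21467337 0) (P.cons (P.lf 0 17707068 0) (P.cons (P.lf 5175723 0 0) (P.cons (P.lf 1018569 0 0) (P.cons (P.lf 0 277917 0) P.nil))))) (P.cons (P.cons (P.lf 5166987 0 0) (P.cons (P.lf 4455141 0 0) (P.cons (P.lf 0 982428 0) (P.cons (P.lf 0 195273 0) P.nil)))) (P.cons (P.cons (P.lf 430491 0 0) (P.cons (P.lf 350349 0 0) (P.cons (P.lf 0 110241 0) P.nil))) (P.cons (P.cons (P.lf 0 33936 0) (P.cons (P.lf 0 31446 0) P.nil)) (P.cons (P.cons (P.lf 0 3456 0) P.nil) P.nil)))))) 204549)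
 EL.nil)))
noncomputable def S183_198_216_364_25 : EL := (EL.cons 4 (TM.mk (P.cons (P.cons (P.lf 0 676761933 0) (P.cons (P.lf 73873788 0 0) (P.cons (P.lf 31855209 0 0) (P.lf 0 3539466 0)))) (P.cons (P.cons (P.lf 231995910 0 0) (P.cons (P.lf 0 13175289 0) (P.cons (P.lf 0 5681331 0) (P.lf 631260 0 0)))) (P.cons (P.cons (P.lf 0 9220638 0) (P.cons (P.lf 0 956154 0) (P.cons (P.lf 0 412302 0) (P.lf 45810 0 0)))) (P.cons (P.cons (P.lf 0 3003360 0) (P.cons (P.lf 198384 0 0) (P.cons (P.lf 85545 0 0) P.nil))) (P.cons (P.cons (P.lf 123675 0 0) (P.cons (P.lf 10206 0 0) P.nil)) (P.cons (P.cons (P.lf 22155 0 0) P.nil) P.nil)))))) 29979)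
 (EL.cons 8 (TM.mk (P.cons (P.cons (P.lf 251450733 0 0) (P.cons (P.lf 0 27447789 0) (P.cons (P.lf 0 11835795 0) (P.lf 1315089 0 0)))) (P.cons (P.cons (P.lf 0 120122160 0) (P.cons (P.lf 8598354 0 0) (P.cons (P.lf 3707706 0 0) (P.lf 0 411966 0)))) (P.cons (P.cons (P.lf 16041420 0 0) (P.cons (P.lf 0 412830 0) (P.cons (P.lf 0 178017 0) (P.lf 19779 0 0)))) (P.cons (P.cons (P.lf 255846 0 0) (P.cons (P.lf 0 95913 0) (P.cons (P.lf 0 41358 0) P.nil))) (P.cons (P.cons (P.lf 0 160200 0) (P.cons (P.lf 6120 0 0) P.nil)) (P.cons (P.cons (P.lf 600 0 0) P.nil) P.nil)))))) 17736)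
 (EL.cons 11 (TM.mk (P.cons (P.cons (P.lf 205067619 0 0) (P.cons (P.lf 191039460 0 0) (P.cons (P.lf 0 19606863 0) (P.cons (P.lf 0 4077681 0) (P.lf 339804 0 0))))) (P.cons (P.cons (P.lf 0 24382347 0) (P.cons (P.lf 0 22714413 0) (P.cons (P.lf 2331237 0 0) (P.cons (P.lf 484833 0 0) (P.lf 0 40401 0))))) (P.cons (P.cons (P.lf 0 2494236 0) (P.cons (P.lf 0 2323611 0) (P.cons (P.lf 238476 0 0) (P.cons (P.lf 49596 0 0) P.nil)))) (P.cons (P.cons (P.lf 204492 0 0) (P.cons (P.lf 190503 0 0) (P.cons (P.lf 0 19551 0) P.nil))) (P.cons (P.cons (P.lf 18414 0 0) (P.cons (P.lf 17154 0 0) P.nil)) (P.cons (P.cons (P.lf 0 381 0) P.nil) P.nil)))))) 17145)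
 EL.nil)))
noncomputable def S183_198_216_364_26 : EL := (EL.cons 4 (TM.mk (P.cons (P.cons (P.lf 0 324296787 0) (P.cons (P.lf 74506722 0 0) (P.cons (P.lf 27859281 0 0) (P.cons (P.lf 0 7251348 0) (P.cons (P.lf 0 384702 0) (P.cons (P.lf 176391 0 0) P.nil)))))) (P.cons (P.cons (P.lf 70615797 0 0) (P.cons (P.lf 0 10865943 0) (P.cons (P.lf 0 4407390 0) (P.cons (P.lf 760476 0 0) (P.cons (P.lf 25062 0 0) P.nil))))) (P.cons (P.cons (P.lf 12907380 0 0) (P.cons (P.lf 0 2615841 0) (P.cons (P.lf 0 985482 0) (P.cons (P.lf 248220 0 0) P.nil)))) (P.cons (P.cons (P.lf 0 2966595 0) (P.cons (P.lf 301230 0 0) (P.cons (P.lf 126534 0 0) P.nil))) (P.cons (P.cons (P.lf 0 150045 0) (P.cons (P.lf 44613 0 0) P.nil)) (P.cons (P.cons (P.lf 37959 0 0) P.nil) P.nil)))))) 156900)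
 (EL.cons 8 (TM.mk (P.cons (P.cons (P.lf 120492393 0 0) (P.cons (P.lf 0 27682956 0) (P.cons (P.lf 0 10351110 0) (P.cons (P.lf 2694237 0 0) (P.cons (P.lf 142935 0 0) (P.cons (P.lf 0 65538 0) P.nil)))))) (P.cons (P.cons (P.lf 0 42493350 0) (P.cons (P.lf 7772046 0 0) (P.cons (P.lf 3034068 0 0) (P.cons (P.lf 0 646041 0) (P.cons (P.lf 0 28596 0) P.nil))))) (P.cons (P.cons (P.lf 0 783387 0) (P.cons (P.lf 318663 0 0) (P.cons (P.lf 104628 0 0) (P.cons (P.lf 0 43539 0) P.nil)))) (P.cons (P.cons (P.lf 1617699 0 0) (P.cons (P.lf 0 220632 0) (P.cons (P.lf 0 87528 0) P.nil))) (P.cons (P.cons (P.lf 0 104391 0) (P.cons (P.lf 1113 0 0) P.nil)) (P.cons (P.cons (P.lf 0 16464 0) P.nil) P.nil)))))) 81405)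
 (EL.cons 11 (TM.mk (P.cons (P.cons (P.lf 98266122 0 0) (P.cons (P.lf 79693986 0 0) (P.cons (P.lf 0 25544607 0) (P.cons (P.lf 0 5013519 0) (P.cons (P.lf 1415946 0 0) (P.cons (P.lf 27684 0 0) P.nil)))))) (P.cons (P.cons (P.lf 604653 0 0) (P.cons (P.lf 630870 0 0) (P.cons (P.lf 34284 0 0) (P.cons (P.lf 5424 0 0) (P.cons (P.lf 0 6144 0) P.nil))))) (P.cons (P.cons (P.lf 0 3693732 0) (P.cons (P.lf 0 3134487 0) (P.cons (P.lf 770952 0 0) (P.cons (P.lf 152598 0 0) P.nil)))) (P.cons (P.cons (P.lf 11640 0 0) (P.cons (P.lf 20655 0 0) (P.cons (P.lf 12255 0 0) P.nil))) (P.cons (P.cons (P.lf 43233 0 0) (P.cons (P.lf 37317 0 0) P.nil)) (P.cons (P.cons (P.lf 534 0 0) P.nil) P.nil)))))) 143607)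
 EL.nil)))
noncomputable def S183_198_216_364_27 : EL := (EL.cons 13 (TM.mk (P.lf 0 4294967296 0) 0)
 EL.nil)
noncomputable def S183_198_216_364_28 : EL := (EL.cons 13 (TM.mk (P.cons (P.cons (P.lf 0 2058100535 0) (P.cons (P.lf 248188100 0 0) (P.cons (P.lf 107021508 0 0) (P.lf 0 11891276 0)))) (P.cons (P.cons (P.lf 0 257370203 0) (P.cons (P.lf 28093940 0 0) (P.cons (P.lf 12114424 0 0) (P.lf 0 1346044 0)))) (P.cons (P.cons (P.lf 21728407 0 0) (P.cons (P.lf 0 61736 0) (P.cons (P.lf 0 26620 0) (P.lf 2956 0 0)))) (P.cons (P.cons (P.lf 1261607 0 0) (P.cons (P.lf 0 118612 0) (P.cons (P.lf 0 51144 0) P.nil))) (P.cons (P.cons (P.lf 0 49745 0) (P.cons (P.lf 0 3180 0) P.nil)) (P.cons (P.cons (P.lf 0 4171 0) P.nil) P.nil)))))) 8947)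
 EL.nil)
noncomputable def S183_198_216_364_29 : EL := (EL.cons 13 (TM.mk (P.cons (P.cons (P.lf 0 986218874 0) (P.cons (P.lf 237857951 0 0) (P.cons (P.lf 88225284 0 0) (P.cons (P.lf 0 23764980 0) (P.cons (P.lf 0 1292456 0) (P.cons (P.lf 592610 0 0) P.nil)))))) (P.cons (P.cons (P.lf 0 246657874 0) (P.cons (P.lf 56669290 0 0) (P.cons (P.lf 21189576 0 0) (P.cons (P.lf 0 5515322 0) (P.cons (P.lf 0 292602 0) P.nil))))) (P.cons (P.cons (P.lf 5401454 0 0) (P.cons (P.lf 796631 0 0) (P.cons (P.lf 166886 0 0) (P.cons (P.lf 0 190500 0) P.nil)))) (P.cons (P.cons (P.lf 3813187 0 0) (P.cons (P.lf 0 551136 0) (P.cons (P.lf 0 223137 0) P.nil))) (P.cons (P.cons (P.lf 0 6399 0) (P.cons (P.lf 0 27393 0) P.nil)) (P.cons (P.cons (P.lf 0 22724 0) P.nil) P.nil)))))) 311847)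
 EL.nil)
noncomputable def S183_198_216_364_30 : EL := (EL.cons 13 (TM.mk (P.cons (P.lf 2031571728 0 0) (P.cons (P.lf 0 197431380 0) (P.cons (P.lf 0 5434720 0) (P.cons (P.lf 101656 0 0) (P.cons (P.lf 7148 0 0) (P.cons (P.lf 20 0 0) P.nil)))))) 56)
 EL.nil)
noncomputable def S183_198_216_364_31 : EL := (EL.cons 13 (TM.mk (P.cons (P.cons (P.lf 973506565 0 0) (P.cons (P.lf 0 117395987 0) (P.cons (P.lf 0 50622473 0) (P.lf 5624718 0 0)))) (P.cons (P.cons (P.lf 27132313 0 0) (P.cons (P.lf 0 1880045 0) (P.cons (P.lf 0 810697 0) (P.lf 90076 0 0)))) (P.cons (P.cons (P.lf 0 24712870 0) (P.cons (P.lf 1634675 0 0) (P.cons (P.lf 704890 0 0) (P.lf 0 78320 0)))) (P.cons (P.cons (P.lf 125101 0 0) (P.cons (P.lf 82941 0 0) (P.cons (P.lf 35764 0 0) P.nil))) (P.cons (P.cons (P.lf 118534 0 0) (P.cons (P.lf 0 5104 0) P.nil)) (P.cons (P.cons (P.lf 1206 0 0) P.nil) P.nil)))))) 10508)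
 EL.nil)
noncomputable def S183_198_216_364_32 : EL := (EL.cons 13 (TM.mk (P.cons (P.cons (P.lf 466493512 0 0) (P.cons (P.lf 0 112509701 0) (P.cons (P.lf 0 41731631 0) (P.cons (P.lf 11241124 0 0) (P.cons (P.lf 611347 0 0) (P.cons (P.lf 0 280311 0) P.nil)))))) (P.cons (P.cons (P.lf 71337588 0 0) (P.cons (P.lf 0 15871390 0) (P.cons (P.lf 0 5967380 0) (P.cons (P.lf 1516383 0 0) (P.cons (P.lf 78992 0 0) P.nil))))) (P.cons (P.cons (P.lf 0 15141272 0) (P.cons (P.lf 2529140 0 0) (P.cons (P.lf 1006742 0 0) (P.cons (P.lf 0 193491 0) P.nil)))) (P.cons (P.cons (P.lf 0 1844160 0) (P.cons (P.lf 363391 0 0) (P.cons (P.lf 137942 0 0) P.nil))) (P.cons (P.cons (P.lf 192625 0 0) (P.cons (P.lf 0 13106 0) P.nil)) (P.cons (P.cons (P.lf 15566 0 0) P.nil) P.nil)))))) 237270)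
 EL.nil)
noncomputable def S183_198_216_364_33 : EL := (EL.cons 14 (TM.mk (P.lf 8589934592 0 0) 0)
 EL.nil)
noncomputable def S183_198_216_364_34 : EL := (EL.cons 14 (TM.mk (P.cons (P.cons (P.lf 4116201070 0 0) (P.cons (P.lf 0 496376200 0) (P.cons (P.lf 0 214043016 0) (P.lf 23782552 0 0)))) (P.cons (P.cons (P.lf 514740406 0 0) (P.cons (P.lf 0 56187880 0) (P.cons (P.lf 0 24228848 0) (P.lf 2692088 0 0)))) (P.cons (P.cons (P.lf 0 43456814 0) (P.cons (P.lf 123472 0 0) (P.cons (P.lf 53240 0 0) (P.lf 0 5912 0)))) (P.cons (P.cons (P.lf 0 2523214 0) (P.cons (P.lf 237224 0 0) (P.cons (P.lf 102288 0 0) P.nil))) (P.cons (P.cons (P.lf 99490 0 0) (P.cons (P.lf 6360 0 0) P.nil)) (P.cons (P.cons (P.lf 8342 0 0) P.nil) P.nil)))))) 17894)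
 EL.nil)
noncomputable def S183_198_216_364_35 : EL := (EL.cons 14 (TM.mk (P.cons (P.cons (P.lf 1972437748 0 0) (P.cons (P.lf 0 475715902 0) (P.cons (P.lf 0 176450568 0) (P.cons (P.lf 47529960 0 0) (P.cons (P.lf 2584912 0 0) (P.cons (P.lf 0 1185220 0) P.nil)))))) (P.cons (P.cons (P.lf 493315748 0 0) (P.cons (P.lf 0 113338580 0) (P.cons (P.lf 0 42379152 0) (P.cons (P.lf 11030644 0 0) (P.cons (P.lf 585204 0 0) P.nil))))) (P.cons (P.cons (P.lf 0 10802908 0) (P.cons (P.lf 0 1593262 0) (P.cons (P.lf 0 333772 0) (P.cons (P.lf 381000 0 0) P.nil)))) (P.cons (P.cons (P.lf 0 7626374 0) (P.cons (P.lf 1102272 0 0) (P.cons (P.lf 446274 0 0) P.nil))) (P.cons (P.cons (P.lf 12798 0 0) (P.cons (P.lf 54786 0 0) P.nil)) (P.cons (P.cons (P.lf 45448 0 0) P.nil) P.nil)))))) 623694)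
 EL.nil)
noncomputable def S183_198_216_364_36 : EL := (EL.cons 14 (TM.mk (P.cons (P.lf 0 4063143456 0) (P.cons (P.lf 394862760 0 0) (P.cons (P.lf 10869440 0 0) (P.cons (P.lf 0 203312 0) (P.cons (P.lf 0 14296 0) (P.cons (P.lf 0 40 0) P.nil)))))) 112)
 EL.nil)
noncomputable def S183_198_216_364_37 : EL := (EL.cons 14 (TM.mk (P.cons (P.cons (P.lf 0 1947013130 0) (P.cons (P.lf 234791974 0 0) (P.cons (P.lf 101244946 0 0) (P.lf 0 11249436 0)))) (P.cons (P.cons (P.lf 0 54264626 0) (P.cons (P.lf 3760090 0 0) (P.cons (P.lf 1621394 0 0) (P.lf 0 180152 0)))) (P.cons (P.cons (P.lf 49425740 0 0) (P.cons (P.lf 0 3269350 0) (P.cons (P.lf 0 1409780 0) (P.lf 156640 0 0)))) (P.cons (P.cons (P.lf 0 250202 0) (P.cons (P.lf 0 165882 0) (P.cons (P.lf 0 71528 0) P.nil))) (P.cons (P.cons (P.lf 0 237068 0) (P.cons (P.lf 10208 0 0) P.nil)) (P.cons (P.cons (P.lf 0 2412 0) P.nil) P.nil))))))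 21016)
 EL.nil)
noncomputable def S183_198_216_364_38 : EL := (EL.cons 14 (TM.mk (P.cons (P.cons (P.lf 0 932987024 0) (P.cons (P.lf 225019402 0 0) (P.cons (P.lf 83463262 0 0) (P.cons (P.lf 0 22482248 0) (P.cons (P.lf 0 1222694 0) (P.cons (P.lf 560622 0 0) P.nil)))))) (P.cons (P.cons (P.lf 0 142675176 0) (P.cons (P.lf 31742780 0 0) (P.cons (P.lf 11934760 0 0) (P.cons (P.lf 0 3032766 0) (P.cons (P.lf 0 157984 0) P.nil))))) (P.cons (P.cons (P.lf 30282544 0 0) (P.cons (P.lf 0 5058280 0) (P.cons (P.lf 0 2013484 0) (P.cons (P.lf 386982 0 0) P.nil)))) (P.cons (P.cons (P.lf 3688320 0 0) (P.cons (P.lf 0 726782 0) (P.cons (P.lf 0 275884 0) P.nil))) (P.cons (P.cons (P.lf 0 385250 0) (P.cons (P.lf 26212 0 0) P.nil)) (P.cons (P.cons (P.lf 0 31132 0) P.nil) P.nil)))))) 474540)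
 EL.nil)
noncomputable def S183_198_216_364_39 : EL := (EL.cons 14 (TM.mk (P.cons (P.lf 1921916234 0 0) (P.cons (P.lf 0 373549768 0) (P.cons (P.lf 7868326 0 0) (P.cons (P.lf 1191632 0 0) (P.cons (P.lf 8586 0 0) (P.cons (P.lf 0 1790 0) P.nil)))))) 176)
 EL.nil)
noncomputable def S183_198_216_364_40 : EL := (EL.cons 14 (TM.mk (P.cons (P.cons (P.lf 920960872 0 0) (P.cons (P.lf 0 111059456 0) (P.cons (P.lf 0 47890090 0) (P.lf 5321120 0 0)))) (P.cons (P.cons (P.lf 0 63832616 0) (P.cons (P.lf 9014366 0 0) (P.cons (P.lf 3887096 0 0) (P.lf 0 431900 0)))) (P.cons (P.cons (P.lf 0 28337106 0) (P.cons (P.lf 2016384 0 0) (P.cons (P.lf 869486 0 0) (P.lf 0 96608 0)))) (P.cons (P.cons (P.lf 2367772 0 0) (P.cons (P.lf 0 72618 0) (P.cons (P.lf 0 31314 0) P.nil))) (P.cons (P.cons (P.lf 167700 0 0) (P.cons (P.lf 0 17070 0) P.nil)) (P.cons (P.cons (P.lf 0 11142 0) P.nil) P.nil))))))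 21358)
 EL.nil)
noncomputable def S183_198_216_364_41 : EL := (EL.cons 14 (TM.mk (P.cons (P.cons (P.lf 441314200 0 0) (P.cons (P.lf 0 106436912 0) (P.cons (P.lf 0 39479136 0) (P.cons (P.lf 10634376 0 0) (P.cons (P.lf 578348 0 0) (P.cons (P.lf 0 265180 0) P.nil)))))) (P.cons (P.cons (P.lf 24599474 0 0) (P.cons (P.lf 0 4671012 0) (P.cons (P.lf 0 1808640 0) (P.cons (P.lf 401070 0 0) (P.cons (P.lf 18522 0 0) P.nil))))) (P.cons (P.cons (P.lf 0 22063088 0) (P.cons (P.lf 4136514 0 0) (P.cons (P.lf 1606632 0 0) (P.cons (P.lf 0 350906 0) P.nil)))) (P.cons (P.cons (P.lf 0 511044 0) (P.cons (P.lf 146098 0 0) (P.cons (P.lf 51066 0 0) P.nil))) (P.cons (P.cons (P.lf 395020 0 0) (P.cons (P.lf 0 53334 0) P.nil)) (P.cons (P.cons (P.lf 1208 0 0) P.nil) P.nil)))))) 317956)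
 EL.nil)
noncomputable def S183_198_216_364_42 : EL := (EL.cons 14 (TM.mk (P.cons (P.lf 0 909089734 0) (P.cons (P.lf 265040370 0 0) (P.cons (P.lf 0 18461242 0) (P.cons (P.lf 0 720132 0) (P.cons (P.lf 66314 0 0) (P.cons (P.lf 3174 0 0) P.nil)))))) 276)
 EL.nil)
noncomputable def S183_198_216_364_43 : EL := (EL.cons 14 (TM.mk (P.cons (P.cons (P.lf 0 435625684 0) (P.cons (P.lf 52532472 0 0) (P.cons (P.lf 22652594 0 0) (P.lf 0 2516954 0)))) (P.cons (P.cons (P.lf 72528402 0 0) (P.cons (P.lf 0 9369094 0) (P.cons (P.lf 0 4040058 0) (P.lf 448894 0 0)))) (P.cons (P.cons (P.lf 11634890 0 0) (P.cons (P.lf 0 679932 0) (P.cons (P.lf 0 293194 0) (P.lf 32576 0 0)))) (P.cons (P.cons (P.lf 0 2525156 0) (P.cons (P.lf 141074 0 0) (P.cons (P.lf 60832 0 0) P.nil))) (P.cons (P.cons (P.lf 0 6362 0) (P.cons (P.lf 7258 0 0) P.nil)) (P.cons (P.cons (P.lf 16746 0 0) P.nil) P.nil))))))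 21242)
 EL.nil)
noncomputable def S183_198_216_364_44 : EL := (EL.cons 14 (TM.mk (P.cons (P.cons (P.lf 0 208746980 0) (P.cons (P.lf 50345952 0 0) (P.cons (P.lf 18674110 0 0) (P.cons (P.lf 0 5030188 0) (P.cons (P.lf 0 273566 0) (P.cons (P.lf 125434 0 0) P.nil)))))) (P.cons (P.cons (P.lf 8650512 0 0) (P.cons (P.lf 0 2683254 0) (P.cons (P.lf 0 959270 0) (P.cons (P.lf 299130 0 0) (P.cons (P.lf 17822 0 0) P.nil))))) (P.cons (P.cons (P.lf 12125324 0 0) (P.cons (P.lf 0 2306020 0) (P.cons (P.lf 0 893052 0) (P.cons (P.lf 197874 0 0) P.nil)))) (P.cons (P.cons (P.lf 0 751784 0) (P.cons (P.lf 117650 0 0) (P.cons (P.lf 48344 0 0) P.nil))) (P.cons (P.cons (P.lf 0 239576 0) (P.cons (P.lf 37464 0 0) P.nil)) (P.cons (P.cons (P.lf 17418 0 0) P.nil) P.nil)))))) 221752)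
 EL.nil)
noncomputable def S183_198_216_364_45 : EL := (EL.cons 14 (TM.mk (P.cons (P.cons (P.lf 945170220 0 0) (P.cons (P.lf 0 341936650 0) (P.cons (P.lf 0 106212506 0) (P.cons (P.lf 50286994 0 0) (P.cons (P.lf 1571786 0 0) (P.cons (P.lf 0 2390192 0) P.nil)))))) (P.cons (P.cons (P.lf 354587124 0 0) (P.cons (P.lf 0 124225842 0) (P.cons (P.lf 0 39075964 0) (P.cons (P.lf 17886980 0 0) (P.cons (P.lf 577818 0 0) P.nil))))) (P.cons (P.cons (P.lf 14406016 0 0) (P.cons (P.lf 0 7722706 0) (P.cons (P.lf 0 2090230 0) (P.cons (P.lf 1376844 0 0) P.nil)))) (P.cons (P.cons (P.lf 0 7376912 0) (P.cons (P.lf 1718764 0 0) (P.cons (P.lf 639084 0 0) P.nil))) (P.cons (P.cons (P.lf 0 518276 0) (P.cons (P.lf 192222 0 0) P.nil)) (P.cons (P.cons (P.lf 71928 0 0) P.nil) P.nil)))))) 2231208)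
 EL.nil)
noncomputable def S183_198_216_364_46 : EL := (EL.cons 15 (TM.mk (P.lf 4294967296 0 0) 0)
 EL.nil)
noncomputable def S183_198_216_364_47 : EL := (EL.cons 15 (TM.mk (P.cons (P.cons (P.lf 2058100535 0 0) (P.cons (P.lf 0 248188100 0) (P.cons (P.lf 0 107021508 0) (P.lf 11891276 0 0)))) (P.cons (P.cons (P.lf 257370203 0 0) (P.cons (P.lf 0 28093940 0) (P.cons (P.lf 0 12114424 0) (P.lf 1346044 0 0)))) (P.cons (P.cons (P.lf 0 21728407 0) (P.cons (P.lf 61736 0 0) (P.cons (P.lf 26620 0 0) (P.lf 0 2956 0)))) (P.cons (P.cons (P.lf 0 1261607 0) (P.cons (P.lf 118612 0 0) (P.cons (P.lf 51144 0 0) P.nil))) (P.cons (P.cons (P.lf 49745 0 0) (P.cons (P.lf 3180 0 0) P.nil)) (P.cons (P.cons (P.lf 4171 0 0) P.nil) P.nil)))))) 8947)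
 EL.nil)
noncomputable def S183_198_216_364_48 : EL := (EL.cons 15 (TM.mk (P.cons (P.cons (P.lf 986218874 0 0) (P.cons (P.lf 0 237857951 0) (P.cons (P.lf 0 88225284 0) (P.cons (P.lf 23764980 0 0) (P.cons (P.lf 1292456 0 0) (P.cons (P.lf 0 592610 0) P.nil)))))) (P.cons (P.cons (P.lf 246657874 0 0) (P.cons (P.lf 0 56669290 0) (P.cons (P.lf 0 21189576 0) (P.cons (P.lf 5515322 0 0) (P.cons (P.lf 292602 0 0) P.nil))))) (P.cons (P.cons (P.lf 0 5401454 0) (P.cons (P.lf 0 796631 0) (P.cons (P.lf 0 166886 0) (P.cons (P.lf 190500 0 0) P.nil)))) (P.cons (P.cons (P.lf 0 3813187 0) (P.cons (P.lf 551136 0 0) (P.cons (P.lf 223137 0 0) P.nil))) (P.cons (P.cons (P.lf 6399 0 0) (P.cons (P.lf 27393 0 0) P.nil)) (P.cons (P.cons (P.lf 22724 0 0) P.nil) P.nil)))))) 311847)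
 EL.nil)
noncomputable def S183_198_216_364 : SL := (SL.cons S183_198_216_364_0 (SL.cons S183_198_216_364_1 (SL.cons S183_198_216_364_2 (SL.cons S183_198_216_364_3 (SL.cons S183_198_216_364_4 (SL.cons S183_198_216_364_5 (SL.cons S183_198_216_364_6 (SL.cons S183_198_216_364_7 (SL.cons S183_198_216_364_8 (SL.cons S183_198_216_364_9 (SL.cons S183_198_216_364_10 (SL.cons S183_198_216_364_11 (SL.cons S183_198_216_364_12 (SL.cons S183_198_216_364_13 (SL.cons S183_198_216_364_14 (SL.cons S183_198_216_364_15 (SL.cons S183_198_216_364_16 (SL.cons S183_198_216_364_17 (SL.cons S183_198_216_364_18 (SL.cons S183_198_216_364_19 (SL.cons S183_198_216_364_20 (SL.cons S183_198_216_364_21 (SL.cons S183_198_216_364_22 (SL.cons S183_198_216_364_23 (SL.cons S183_198_216_364_24 (SL.cons S183_198_216_364_25 (SL.cons S183_198_216_364_26 (SL.cons S183_198_216_364_27 (SL.cons S183_198_216_364_28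 (SL.cons S183_198_216_364_29 (SL.cons S183_198_216_364_30 (SL.cons S183_198_216_364_31 (SL.cons S183_198_216_364_32 (SL.cons S183_198_216_364_33 (SL.cons S183_198_216_364_34 (SL.cons S183_198_216_364_35 (SL.cons S183_198_216_364_36 (SL.cons S183_198_216_364_37 (SL.cons S183_198_216_364_38 (SL.cons S183_198_216_364_39 (SL.cons S183_198_216_364_40 (SL.cons S183_198_216_364_41 (SL.cons S183_198_216_364_42 (SL.cons S183_198_216_364_43 (SL.cons S183_198_216_364_44 (SL.cons S183_198_216_364_45 (SL.cons S183_198_216_364_46 (SL.cons S183_198_216_364_47 (SL.cons S183_198_216_364_48 SL.nil)))))))))))))))))))))))))))))))))))))))))))))))))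
noncomputable def S183_198_290_308_0 : EL := (EL.cons 0 (TM.mk (P.cons (P.lf 6766532673 0 0) (P.cons (P.lf 328315225 0 0) (P.cons (P.lf 0 6915520 0) (P.cons (P.lf 0 1047332 0) (P.cons (P.lf 0 7546 0) (P.cons (P.lf 1573 0 0) P.nil)))))) 161)
 (EL.cons 1 (TM.mk (P.cons (P.lf 0 1616469420 0) (P.cons (P.lf 96098353 0 0) (P.cons (P.lf 12687056 0 0) (P.cons (P.lf 0 51723 0) (P.cons (P.lf 0 25867 0) (P.cons (P.lf 0 433 0) P.nil)))))) 140)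
 (EL.cons 5 (TM.mk (P.cons (P.lf 4895566122 0 0) (P.cons (P.lf 0 116734300 0) (P.cons (P.lf 2458850 0 0) (P.cons (P.lf 372384 0 0) (P.cons (P.lf 2686 0 0) (P.cons (P.lf 0 556 0) P.nil)))))) 123)
 (EL.cons 9 (TM.mk (P.lf 6442450944 0 0) 2)
 EL.nil))))
noncomputable def S183_198_290_308_1 : EL := (EL.cons 0 (TM.mk (P.cons (P.cons (P.lf 547233529 0 0) (P.cons (P.lf 0 13167477 0) (P.cons (P.lf 0 600829 0) (P.lf 8468 0 0)))) (P.cons (P.cons (P.lf 1210588992 0 0) (P.cons (P.lf 0 11668569 0) (P.cons (P.lf 0 532425 0) (P.lf 7493 0 0)))) (P.cons (P.cons (P.lf 1544584 0 0) (P.cons (P.lf 0 934451 0) (P.cons (P.lf 0 42633 0) (P.lf 593 0 0)))) (P.cons (P.cons (P.lf 0 12537030 0) (P.cons (P.lf 65555 0 0) (P.cons (P.lf 2991 0 0) P.nil))) (P.cons (P.cons (P.lf 0 300772 0) (P.cons (P.lf 8883 0 0) P.nil)) (P.cons (P.cons (P.lf 55765 0 0) P.nil) P.nil)))))) 7564)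
 (EL.cons 1 (TM.mk (P.cons (P.cons (P.lf 0 1536899268 0) (P.cons (P.lf 24023741 0 0) (P.cons (P.lf 1096186 0 0) (P.lf 0 15431 0)))) (P.cons (P.cons (P.lf 0 95250765 0) (P.cons (P.lf 3259911 0 0) (P.cons (P.lf 148740 0 0) (P.lf 0 2085 0)))) (P.cons (P.cons (P.lf 68215342 0 0) (P.cons (P.lf 0 440416 0) (P.cons (P.lf 0 20089 0) (P.lf 281 0 0)))) (P.cons (P.cons (P.lf 1939840 0 0) (P.cons (P.lf 0 59902 0) (P.cons (P.lf 0 2726 0) P.nil))) (P.cons (P.cons (P.lf 0 488815 0) (P.cons (P.lf 998 0 0) P.nil)) (P.cons (P.cons (P.lf 0 19710 0) P.nil) P.nil)))))) 4644)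
 (EL.cons 5 (TM.mk (P.cons (P.cons (P.lf 3250229622 0 0) (P.cons (P.lf 0 51906040 0) (P.cons (P.lf 0 2368442 0) (P.lf 33356 0 0)))) (P.cons (P.cons (P.lf 988584 0 0) (P.cons (P.lf 0 2256702 0) (P.cons (P.lf 0 102976 0) (P.lf 1458 0 0)))) (P.cons (P.cons (P.lf 0 37474062 0) (P.cons (P.lf 346320 0 0) (P.cons (P.lf 15798 0 0) (P.lf 0 218 0)))) (P.cons (P.cons (P.lf 2338657 0 0) (P.cons (P.lf 3742 0 0) (P.cons (P.lf 172 0 0) P.nil))) (P.cons (P.cons (P.lf 192203 0 0) (P.cons (P.lf 0 2432 0) P.nil)) (P.cons (P.cons (P.lf 0 12761 0) P.nil) P.nil)))))) 4631)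
 (EL.cons 9 (TM.mk (P.cons (P.cons (P.lf 3039530764 0 0) (P.cons (P.lf 0 49930416 0) (P.cons (P.lf 0 2278296 0) (P.lf 32082 0 0)))) (P.cons (P.cons (P.lf 380664898 0 0) (P.cons (P.lf 0 5651928 0) (P.cons (P.lf 0 257892 0) (P.lf 3630 0 0)))) (P.cons (P.cons (P.lf 0 32580760 0) (P.cons (P.lf 12420 0 0) (P.cons (P.lf 564 0 0) (P.lf 0 6 0)))) (P.cons (P.cons (P.lf 0 1869652 0) (P.cons (P.lf 23856 0 0) (P.cons (P.lf 1086 0 0) P.nil))) (P.cons (P.cons (P.lf 75223 0 0) (P.cons (P.lf 636 0 0) P.nil)) (P.cons (P.cons (P.lf 6214 0 0) P.nil) P.nil)))))) 1115)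
 (EL.cons 2 (TM.mk (P.cons (P.cons (P.lf 451900785 0 0) (P.cons (P.lf 44857679 0 0) (P.cons (P.lf 0 617546 0) (P.cons (P.lf 0 13947 0) (P.lf 146 0 0))))) (P.cons (P.cons (P.lf 0 9814142 0) (P.cons (P.lf 0 974196 0) (P.cons (P.lf 13410 0 0) (P.cons (P.lf 300 0 0) (P.lf 0 2 0))))) (P.cons (P.cons (P.lf 0 5241324 0) (P.cons (P.lf 0 520275 0) (P.cons (P.lf 7160 0 0) (P.cons (P.lf 160 0 0) P.nil)))) (P.cons (P.cons (P.lf 0 107592 0) (P.cons (P.lf 0 10679 0) (P.cons (P.lf 143 0 0) P.nil))) (P.cons (P.cons (P.lf 15004 0 0) (P.cons (P.lf 1487 0 0) P.nil)) (P.cons (P.cons (P.lf 615 0 0) P.nil) P.nil)))))) 319)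
 (EL.cons 6 (TM.mk (P.cons (P.cons (P.lf 432447690 0 0) (P.cons (P.lf 42926679 0 0) (P.cons (P.lf 0 590964 0) (P.cons (P.lf 0 13347 0) (P.lf 138 0 0))))) (P.cons (P.cons (P.lf 48951423 0 0) (P.cons (P.lf 4859133 0 0) (P.cons (P.lf 0 66894 0) (P.cons (P.lf 0 1509 0) (P.lf 15 0 0))))) (P.cons (P.cons (P.lf 0 107574 0) (P.cons (P.lf 0 10677 0) (P.cons (P.lf 144 0 0) (P.cons (P.lf 0 0 0) P.nil)))) (P.cons (P.cons (P.lf 0 206676 0) (P.cons (P.lf 0 20514 0) (P.cons (P.lf 279 0 0) P.nil))) (P.cons (P.cons (P.lf 0 5544 0) (P.cons (P.lf 0 549 0) P.nil)) (P.cons (P.cons (P.lf 369 0 0) P.nil) P.nil)))))) 237)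
 EL.nil))))))
noncomputable def S183_198_290_308_2 : EL := (EL.cons 0 (TM.mk (P.cons (P.cons (P.lf 0 989813959 0) (P.cons (P.lf 28576973 0 0) (P.cons (P.lf 1101610 0 0) (P.cons (P.lf 0 36818 0) (P.cons (P.lf 0 159 0) (P.cons (P.lf 9 0 0) P.nil)))))) (P.cons (P.cons (P.lf 756631126 0 0) (P.cons (P.lf 0 18091594 0) (P.cons (P.lf 0 733275 0) (P.cons (P.lf 20038 0 0) (P.cons (P.lf 77 0 0) P.nil))))) (P.cons (P.cons (P.lf 130882736 0 0) (P.cons (P.lf 0 3592711 0) (P.cons (P.lf 0 138058 0) (P.cons (P.lf 4660 0 0) P.nil)))) (P.cons (P.cons (P.lf 0 17273358 0) (P.cons (P.lf 149751 0 0) (P.cons (P.lf 7636 0 0) P.nil))) (P.cons (P.cons (P.lf 0 2149052 0) (P.cons (P.lf 54441 0 0) P.nil)) (P.cons (P.cons (P.lf 128898 0 0) P.nil) P.nil)))))) 35647)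
 (EL.cons 1 (TM.mk (P.cons (P.cons (P.lf 0 1090395522 0) (P.cons (P.lf 34669934 0 0) (P.cons (P.lf 1306681 0 0) (P.cons (P.lf 0 47392 0) (P.cons (P.lf 0 213 0) (P.cons (P.lf 10 0 0) P.nil)))))) (P.cons (P.cons (P.lf 0 202765461 0) (P.cons (P.lf 7972226 0 0) (P.cons (P.lf 287283 0 0) (P.cons (P.lf 0 12083 0) (P.cons (P.lf 0 52 0) P.nil))))) (P.cons (P.cons (P.lf 58404179 0 0) (P.cons (P.lf 0 947076 0) (P.cons (P.lf 0 42884 0) (P.cons (P.lf 634 0 0) P.nil)))) (P.cons (P.cons (P.lf 9765663 0 0) (P.cons (P.lf 0 265356 0) (P.cons (P.lf 0 10543 0) P.nil))) (P.cons (P.cons (P.lf 0 790217 0) (P.cons (P.lf 149 0 0) P.nil)) (P.cons (P.cons (P.lf 0 120006 0) P.nil) P.nil)))))) 17501)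
 (EL.cons 5 (TM.mk (P.cons (P.cons (P.lf 1977181807 0 0) (P.cons (P.lf 0 63556651 0) (P.cons (P.lf 0 2389539 0) (P.cons (P.lf 87424 0 0) (P.cons (P.lf 403 0 0) (P.cons (P.lf 0 18 0) P.nil)))))) (P.cons (P.cons (P.lf 138061378 0 0) (P.cons (P.lf 0 6298860 0) (P.cons (P.lf 0 220924 0) (P.cons (P.lf 10130 0 0) (P.cons (P.lf 49 0 0) P.nil))))) (P.cons (P.cons (P.lf 0 55886875 0) (P.cons (P.lf 1106073 0 0) (P.cons (P.lf 46673 0 0) (P.cons (P.lf 0 1045 0) P.nil)))) (P.cons (P.cons (P.lf 0 221358 0) (P.cons (P.lf 71576 0 0) (P.cons (P.lf 2538 0 0) P.nil))) (P.cons (P.cons (P.lf 780893 0 0) (P.cons (P.lf 0 13216 0) P.nil)) (P.cons (P.cons (P.lf 0 7653 0) P.nil) P.nil)))))) 18425)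
 (EL.cons 9 (TM.mk (P.cons (P.cons (P.lf 1434042315 0 0) (P.cons (P.lf 0 47114067 0) (P.cons (P.lf 0 1762815 0) (P.cons (P.lf 65586 0 0) (P.cons (P.lf 307 0 0) (P.cons (P.lf 0 22 0) P.nil)))))) (P.cons (P.cons (P.lf 359193318 0 0) (P.cons (P.lf 0 11233602 0) (P.cons (P.lf 0 424972 0) (P.cons (P.lf 15210 0 0) (P.cons (P.lf 69 0 0) P.nil))))) (P.cons (P.cons (P.lf 0 8250691 0) (P.cons (P.lf 0 151174 0) (P.cons (P.lf 0 2133 0) (P.cons (P.lf 532 0 0) P.nil)))) (P.cons (P.cons (P.lf 0 5614390 0) (P.cons (P.lf 110124 0 0) (P.cons (P.lf 4630 0 0) P.nil))) (P.cons (P.cons (P.lf 14803 0 0) (P.cons (P.lf 5407 0 0) P.nil)) (P.cons (P.cons (P.lf 33663 0 0) P.nil) P.nil)))))) 4519)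
 (EL.cons 2 (TM.mk (P.cons (P.cons (P.lf 426411112 0 0) (P.cons (P.lf 35322800 0 0) (P.cons (P.lf 0 1597646 0) (P.cons (P.lf 0 30813 0) (P.cons (P.lf 1237 0 0) (P.cons (P.lf 0 0 0) P.nil)))))) (P.cons (P.cons (P.lf 44142316 0 0) (P.cons (P.lf 3740985 0 0) (P.cons (P.lf 0 153163 0) (P.cons (P.lf 0 2975 0) (P.cons (P.lf 112 0 0) P.nil))))) (P.cons (P.cons (P.lf 0 10676165 0) (P.cons (P.lf 0 959557 0) (P.cons (P.lf 29103 0 0) (P.cons (P.lf 579 0 0) P.nil)))) (P.cons (P.cons (P.lf 0 883940 0) (P.cons (P.lf 0 73569 0) (P.cons (P.lf 3256 0 0) P.nil))) (P.cons (P.cons (P.lf 70706 0 0) (P.cons (P.lf 6969 0 0) P.nil)) (P.cons (P.cons (P.lf 7126 0 0) P.nil) P.nil)))))) 2052)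
 (EL.cons 6 (TM.mk (P.cons (P.cons (P.lf 408055272 0 0) (P.cons (P.lf 33802248 0 0) (P.cons (P.lf 0 1528866 0) (P.cons (P.lf 0 29484 0) (P.cons (P.lf 1182 0 0) (P.cons (P.lf 0 0 0) P.nil)))))) (P.cons (P.cons (P.lf 97294338 0 0) (P.cons (P.lf 8140326 0 0) (P.cons (P.lf 0 352836 0) (P.cons (P.lf 0 6822 0) (P.cons (P.lf 264 0 0) P.nil))))) (P.cons (P.cons (P.lf 1309326 0 0) (P.cons (P.lf 47412 0 0) (P.cons (P.lf 0 13746 0) (P.cons (P.lf 0 246 0) P.nil)))) (P.cons (P.cons (P.lf 0 953838 0) (P.cons (P.lf 0 87894 0) (P.cons (P.lf 2280 0 0) P.nil))) (P.cons (P.cons (P.lf 0 46878 0) (P.cons (P.lf 0 3750 0) P.nil)) (P.cons (P.cons (P.lf 3822 0 0) P.nil) P.nil)))))) 1758)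
 EL.nil))))))
noncomputable def S183_198_290_308_3 : EL := (EL.cons 0 (TM.mk (P.cons (P.lf 1689184190 0 0) (P.cons (P.lf 0 328315225 0) (P.cons (P.lf 6915520 0 0) (P.cons (P.lf 1047332 0 0) (P.cons (P.lf 7546 0 0) (P.cons (P.lf 0 1573 0) P.nil)))))) 161)
 (EL.cons 1 (TM.mk (P.cons (P.lf 1616469420 0 0) (P.cons (P.lf 0 96098353 0) (P.cons (P.lf 0 12687056 0) (P.cons (P.lf 51723 0 0) (P.cons (P.lf 25867 0 0) (P.cons (P.lf 433 0 0) P.nil)))))) 140)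
 (EL.cons 5 (TM.mk (P.cons (P.lf 1546884822 0 0) (P.cons (P.lf 116734300 0 0) (P.cons (P.lf 0 2458850 0) (P.cons (P.lf 0 372384 0) (P.cons (P.lf 0 2686 0) (P.cons (P.lf 556 0 0) P.nil)))))) 116)
 EL.nil)))
noncomputable def S183_198_290_308_4 : EL := (EL.cons 0 (TM.mk (P.cons (P.cons (P.lf 796952487 0 0) (P.cons (P.lf 0 13091549 0) (P.cons (P.lf 0 597359 0) (P.lf 8411 0 0)))) (P.cons (P.cons (P.lf 0 55089451 0) (P.cons (P.lf 1062602 0 0) (P.cons (P.lf 48485 0 0) (P.lf 0 682 0)))) (P.cons (P.cons (P.lf 0 24678968 0) (P.cons (P.lf 237687 0 0) (P.cons (P.lf 10843 0 0) (P.lf 0 151 0)))) (P.cons (P.cons (P.lf 2072886 0 0) (P.cons (P.lf 0 8560 0) (P.cons (P.lf 0 390 0) P.nil))) (P.cons (P.cons (P.lf 145473 0 0) (P.cons (P.lf 0 2012 0) P.nil)) (P.cons (P.cons (P.lf 0 9803 0) P.nil) P.nil)))))) 1541)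
 (EL.cons 1 (TM.mk (P.cons (P.cons (P.lf 762645856 0 0) (P.cons (P.lf 0 12527994 0) (P.cons (P.lf 0 571644 0) (P.lf 8047 0 0)))) (P.cons (P.cons (P.lf 50173335 0 0) (P.cons (P.lf 0 673335 0) (P.cons (P.lf 0 30721 0) (P.lf 431 0 0)))) (P.cons (P.cons (P.lf 0 19838686 0) (P.cons (P.lf 185748 0 0) (P.cons (P.lf 8473 0 0) (P.lf 0 118 0)))) (P.cons (P.cons (P.lf 0 708360 0) (P.cons (P.lf 16528 0 0) (P.cons (P.lf 751 0 0) P.nil))) (P.cons (P.cons (P.lf 126183 0 0) (P.cons (P.lf 0 465 0) P.nil)) (P.cons (P.cons (P.lf 5589 0 0) P.nil) P.nil)))))) 1063)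
 (EL.cons 5 (TM.mk (P.cons (P.cons (P.lf 729816034 0 0) (P.cons (P.lf 0 11988698 0) (P.cons (P.lf 0 547036 0) (P.lf 7702 0 0)))) (P.cons (P.cons (P.lf 146475658 0 0) (P.cons (P.lf 0 2261790 0) (P.cons (P.lf 0 103202 0) (P.lf 1452 0 0)))) (P.cons (P.cons (P.lf 0 2085508 0) (P.cons (P.lf 0 80370 0) (P.cons (P.lf 0 3666 0) (P.lf 50 0 0)))) (P.cons (P.cons (P.lf 0 1360242 0) (P.cons (P.lf 10994 0 0) (P.cons (P.lf 500 0 0) P.nil))) (P.cons (P.cons (P.lf 0 26650 0) (P.cons (P.lf 926 0 0) P.nil)) (P.cons (P.cons (P.lf 5554 0 0) P.nil) P.nil)))))) 828)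
 EL.nil)))
noncomputable def S183_198_290_308_5 : EL := (EL.cons 0 (TM.mk (P.cons (P.cons (P.lf 376000006 0 0) (P.cons (P.lf 0 12353113 0) (P.cons (P.lf 0 462202 0) (P.cons (P.lf 17194 0 0) (P.cons (P.lf 79 0 0) (P.cons (P.lf 0 5 0) P.nil)))))) (P.cons (P.cons (P.lf 21098452 0 0) (P.cons (P.lf 0 544412 0) (P.cons (P.lf 0 21589 0) (P.cons (P.lf 645 0 0) (P.cons (P.lf 1 0 0) P.nil))))) (P.cons (P.cons (P.lf 0 18928886 0) (P.cons (P.lf 482266 0 0) (P.cons (P.lf 19204 0 0) (P.cons (P.lf 0 564 0) P.nil)))) (P.cons (P.cons (P.lf 0 432907 0) (P.cons (P.lf 16859 0 0) (P.cons (P.lf 578 0 0) P.nil))) (P.cons (P.cons (P.lf 341212 0 0) (P.cons (P.lf 0 6236 0) P.nil)) (P.cons (P.cons (P.lf 773 0 0) P.nil) P.nil)))))) 5163)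
 (EL.cons 1 (TM.mk (P.cons (P.cons (P.lf 359814232 0 0) (P.cons (P.lf 0 11821346 0) (P.cons (P.lf 0 442305 0) (P.cons (P.lf 16455 0 0) (P.cons (P.lf 75 0 0) (P.cons (P.lf 0 3 0) P.nil)))))) (P.cons (P.cons (P.lf 68734074 0 0) (P.cons (P.lf 0 2115838 0) (P.cons (P.lf 0 80332 0) (P.cons (P.lf 2836 0 0) (P.cons (P.lf 11 0 0) P.nil))))) (P.cons (P.cons (P.lf 0 10252098 0) (P.cons (P.lf 222414 0 0) (P.cons (P.lf 9273 0 0) (P.cons (P.lf 0 221 0) P.nil)))) (P.cons (P.cons (P.lf 0 1981471 0) (P.cons (P.lf 51628 0 0) (P.cons (P.lf 2015 0 0) P.nil))) (P.cons (P.cons (P.lf 112350 0 0) (P.cons (P.lf 0 266 0) P.nil)) (P.cons (P.cons (P.lf 20752 0 0) P.nil) P.nil)))))) 3803)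
 (EL.cons 5 (TM.mk (P.cons (P.cons (P.lf 344325212 0 0) (P.cons (P.lf 0 11312468 0) (P.cons (P.lf 0 423264 0) (P.cons (P.lf 15746 0 0) (P.cons (P.lf 72 0 0) (P.cons (P.lf 0 4 0) P.nil)))))) (P.cons (P.cons (P.lf 112229432 0 0) (P.cons (P.lf 0 3550962 0) (P.cons (P.lf 0 133980 0) (P.cons (P.lf 4840 0 0) (P.cons (P.lf 20 0 0) P.nil))))) (P.cons (P.cons (P.lf 3980040 0 0) (P.cons (P.lf 0 221864 0) (P.cons (P.lf 0 7538 0) (P.cons (P.lf 378 0 0) P.nil)))) (P.cons (P.cons (P.lf 0 1717540 0) (P.cons (P.lf 30712 0 0) (P.cons (P.lf 1336 0 0) P.nil))) (P.cons (P.cons (P.lf 0 116386 0) (P.cons (P.lf 4020 0 0) P.nil)) (P.cons (P.cons (P.lf 10944 0 0) P.nil) P.nil)))))) 2686)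
 EL.nil)))
noncomputable def S183_198_290_308_6 : EL := (EL.cons 12 (TM.mk (P.lf 8589934592 0 0) 0)
 (EL.cons 3 (TM.mk (P.cons (P.lf 0 1904598495 0) (P.cons (P.lf 185091918 0 0) (P.cons (P.lf 5095050 0 0) (P.cons (P.lf 0 95302 0) (P.cons (P.lf 0 6701 0) (P.cons (P.lf 0 18 0) P.nil)))))) 59)
 (EL.cons 7 (TM.mk (P.cons (P.lf 0 1822610727 0) (P.cons (P.lf 0 68770857 0) (P.cons (P.lf 2745999 0 0) (P.cons (P.lf 115768 0 0) (P.cons (P.lf 0 717 0) (P.cons (P.lf 0 127 0) P.nil)))))) 49)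
 EL.nil)))
noncomputable def S183_198_290_308_7 : EL := (EL.cons 12 (TM.mk (P.cons (P.cons (P.lf 4052707686 0 0) (P.cons (P.lf 0 66573888 0) (P.cons (P.lf 0 3037728 0) (P.lf 42776 0 0)))) (P.cons (P.cons (P.lf 507553198 0 0) (P.cons (P.lf 0 7535904 0) (P.cons (P.lf 0 343856 0) (P.lf 4840 0 0)))) (P.cons (P.cons (P.lf 0 43441014 0) (P.cons (P.lf 16560 0 0) (P.cons (P.lf 752 0 0) (P.lf 0 8 0)))) (P.cons (P.cons (P.lf 0 2492870 0) (P.cons (P.lf 31808 0 0) (P.cons (P.lf 1448 0 0) P.nil))) (P.cons (P.cons (P.lf 100298 0 0) (P.cons (P.lf 848 0 0) P.nil)) (P.cons (P.cons (P.lf 8286 0 0) P.nil) P.nil)))))) 1462)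
 (EL.cons 3 (TM.mk (P.cons (P.cons (P.lf 2083944342 0 0) (P.cons (P.lf 0 29522116 0) (P.cons (P.lf 0 1347076 0) (P.lf 18966 0 0)))) (P.cons (P.cons (P.lf 0 474882178 0) (P.cons (P.lf 0 472780 0) (P.cons (P.lf 0 21570 0) (P.lf 300 0 0)))) (P.cons (P.cons (P.lf 0 34879739 0) (P.cons (P.lf 411078 0 0) (P.cons (P.lf 18752 0 0) (P.lf 0 262 0)))) (P.cons (P.cons (P.lf 1930187 0 0) (P.cons (P.lf 20852 0 0) (P.cons (P.lf 948 0 0) P.nil))) (P.cons (P.cons (P.lf 233102 0 0) (P.cons (P.lf 0 1284 0) P.nil)) (P.cons (P.cons (P.lf 0 360 0) P.nil) P.nil)))))) 3605)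
 (EL.cons 7 (TM.mk (P.cons (P.cons (P.lf 0 1968060596 0) (P.cons (P.lf 30579045 0 0) (P.cons (P.lf 1395306 0 0) (P.lf 0 19654 0)))) (P.cons (P.cons (P.lf 176442357 0 0) (P.cons (P.lf 175665 0 0) (P.cons (P.lf 8017 0 0) (P.lf 0 115 0)))) (P.cons (P.cons (P.lf 1057325 0 0) (P.cons (P.lf 0 164585 0) (P.cons (P.lf 0 7510 0) (P.lf 106 0 0)))) (P.cons (P.cons (P.lf 0 1652094 0) (P.cons (P.lf 6214 0 0) (P.cons (P.lf 283 0 0) P.nil))) (P.cons (P.cons (P.lf 880 0 0) (P.cons (P.lf 948 0 0) P.nil)) (P.cons (P.cons (P.lf 6884 0 0) P.nil) P.nil)))))) 2689)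
 (EL.cons 10 (TM.mk (P.cons (P.cons (P.lf 0 1019059452 0) (P.cons (P.lf 0 101156370 0) (P.cons (P.lf 1392603 0 0) (P.cons (P.lf 31455 0 0) (P.lf 0 330 0))))) (P.cons (P.cons (P.lf 0 76902423 0) (P.cons (P.lf 0 7633674 0) (P.cons (P.lf 105090 0 0) (P.cons (P.lf 2373 0 0) (P.lf 0 24 0))))) (P.cons (P.cons (P.lf 1619844 0 0) (P.cons (P.lf 160791 0 0) (P.cons (P.lf 0 2211 0) (P.cons (P.lf 0 48 0) P.nil)))) (P.cons (P.cons (P.lf 245319 0 0) (P.cons (P.lf 24351 0 0) (P.cons (P.lf 0 333 0) P.nil))) (P.cons (P.cons (P.lf 1767 0 0) (P.cons (P.lf 174 0 0) P.nil)) (P.cons (P.cons (P.lf 0 366 0) P.nil) P.nil)))))) 237)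
 EL.nil))))
noncomputable def S183_198_290_308_8 : EL := (EL.cons 12 (TM.mk (P.cons (P.cons (P.lf 1912056420 0 0) (P.cons (P.lf 0 62818756 0) (P.cons (P.lf 0 2350420 0) (P.cons (P.lf 87448 0 0) (P.cons (P.lf 410 0 0) (P.cons (P.lf 0 30 0) P.nil)))))) (P.cons (P.cons (P.lf 478924424 0 0) (P.cons (P.lf 0 14978136 0) (P.cons (P.lf 0 566630 0) (P.cons (P.lf 20280 0 0) (P.cons (P.lf 92 0 0) P.nil))))) (P.cons (P.cons (P.lf 0 11000922 0) (P.cons (P.lf 0 201566 0) (P.cons (P.lf 0 2844 0) (P.cons (P.lf 710 0 0) P.nil)))) (P.cons (P.cons (P.lf 0 7485854 0) (P.cons (P.lf 146832 0 0) (P.cons (P.lf 6174 0 0) P.nil))) (P.cons (P.cons (P.lf 19738 0 0) (P.cons (P.lf 7210 0 0) P.nil)) (P.cons (P.cons (P.lf 44884 0 0) P.nil) P.nil)))))) 5996)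
 (EL.cons 3 (TM.mk (P.cons (P.cons (P.lf 2390348154 0 0) (P.cons (P.lf 0 74087419 0) (P.cons (P.lf 0 2808555 0) (P.cons (P.lf 99796 0 0) (P.cons (P.lf 456 0 0) (P.cons (P.lf 0 30 0) P.nil)))))) (P.cons (P.cons (P.lf 0 136839167 0) (P.cons (P.lf 0 2197867 0) (P.cons (P.lf 0 26369 0) (P.cons (P.lf 8147 0 0) (P.cons (P.lf 55 0 0) P.nil))))) (P.cons (P.cons (P.lf 0 124001808 0) (P.cons (P.lf 2327835 0 0) (P.cons (P.lf 99138 0 0) (P.cons (P.lf 0 2136 0) P.nil)))) (P.cons (P.cons (P.lf 0 392580 0) (P.cons (P.lf 180136 0 0) (P.cons (P.lf 6630 0 0) P.nil))) (P.cons (P.cons (P.lf 1304138 0 0) (P.cons (P.lf 0 15218 0) P.nil)) (P.cons (P.cons (P.lf 35081 0 0) P.nil) P.nil)))))) 18706)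
 (EL.cons 7 (TM.mk (P.cons (P.cons (P.lf 0 1451351450 0) (P.cons (P.lf 46031151 0 0) (P.cons (P.lf 1735863 0 0) (P.cons (P.lf 0 62846 0) (P.cons (P.lf 0 284 0) (P.cons (P.lf 18 0 0) P.nil)))))) (P.cons (P.cons (P.lf 50842555 0 0) (P.cons (P.lf 816625 0 0) (P.cons (P.lf 9804 0 0) (P.cons (P.lf 0 3035 0) (P.cons (P.lf 0 22 0) P.nil))))) (P.cons (P.cons (P.lf 42643169 0 0) (P.cons (P.lf 0 919993 0) (P.cons (P.lf 0 37498 0) (P.cons (P.lf 999 0 0) P.nil)))) (P.cons (P.cons (P.lf 0 3931560 0) (P.cons (P.lf 11919 0 0) (P.cons (P.lf 858 0 0) P.nil))) (P.cons (P.cons (P.lf 0 411987 0) (P.cons (P.lf 10678 0 0) P.nil)) (P.cons (P.cons (P.lf 35307 0 0) P.nil) P.nil)))))) 10682)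
 (EL.cons 10 (TM.mk (P.cons (P.cons (P.lf 0 961578930 0) (P.cons (P.lf 0 79654722 0) (P.cons (P.lf 3602772 0 0) (P.cons (P.lf 69486 0 0) (P.cons (P.lf 0 2790 0) (P.cons (P.lf 0 0 0) P.nil)))))) (P.cons (P.cons (P.lf 0 192990972 0) (P.cons (P.lf 0 16177086 0) (P.cons (P.lf 695520 0 0) (P.cons (P.lf 13464 0 0) (P.cons (P.lf 0 528 0) P.nil))))) (P.cons (P.cons (P.lf 2747784 0 0) (P.cons (P.lf 378648 0 0) (P.cons (P.lf 11586 0 0) (P.cons (P.lf 180 0 0) P.nil)))) (P.cons (P.cons (P.lf 1792200 0 0) (P.cons (P.lf 163410 0 0) (P.cons (P.lf 0 4542 0) P.nil))) (P.cons (P.cons (P.lf 35106 0 0) (P.cons (P.lf 2256 0 0) P.nil)) (P.cons (P.cons (P.lf 0 7314 0) P.nil) P.nil)))))) 2544)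
 EL.nil))))
noncomputable def S183_198_290_308_9 : EL := (EL.cons 3 (TM.mk (P.cons (P.lf 0 1904598495 0) (P.cons (P.lf 185091918 0 0) (P.cons (P.lf 5095050 0 0) (P.cons (P.lf 0 95302 0) (P.cons (P.lf 0 6701 0) (P.cons (P.lf 0 18 0) P.nil)))))) 59)
 (EL.cons 7 (TM.mk (P.cons (P.lf 0 1822610727 0) (P.cons (P.lf 0 68770857 0) (P.cons (P.lf 2745999 0 0) (P.cons (P.lf 115768 0 0) (P.cons (P.lf 0 717 0) (P.cons (P.lf 0 127 0) P.nil)))))) 49)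
 EL.nil))
noncomputable def S183_198_290_308_10 : EL := (EL.cons 3 (TM.mk (P.cons (P.cons (P.lf 0 898584369 0) (P.cons (P.lf 14761058 0 0) (P.cons (P.lf 673538 0 0) (P.lf 0 9483 0)))) (P.cons (P.cons (P.lf 0 25211089 0) (P.cons (P.lf 236390 0 0) (P.cons (P.lf 10785 0 0) (P.lf 0 150 0)))) (P.cons (P.cons (P.lf 22972285 0 0) (P.cons (P.lf 0 205539 0) (P.cons (P.lf 0 9376 0) (P.lf 131 0 0)))) (P.cons (P.cons (P.lf 0 127228 0) (P.cons (P.lf 0 10426 0) (P.cons (P.lf 0 474 0) P.nil))) (P.cons (P.cons (P.lf 0 110512 0) (P.cons (P.lf 642 0 0) P.nil)) (P.cons (P.cons (P.lf 0 1077 0) P.nil) P.nil)))))) 817)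
 (EL.cons 7 (TM.mk (P.cons (P.cons (P.lf 0 859902764 0) (P.cons (P.lf 14125635 0 0) (P.cons (P.lf 644544 0 0) (P.lf 0 9076 0)))) (P.cons (P.cons (P.lf 0 140138445 0) (P.cons (P.lf 2131956 0 0) (P.cons (P.lf 97279 0 0) (P.lf 0 1369 0)))) (P.cons (P.cons (P.lf 6449399 0 0) (P.cons (P.lf 35536 0 0) (P.cons (P.lf 1622 0 0) (P.lf 0 23 0)))) (P.cons (P.cons (P.lf 1093596 0 0) (P.cons (P.lf 0 10187 0) (P.cons (P.lf 0 464 0) P.nil))) (P.cons (P.cons (P.lf 0 8708 0) (P.cons (P.lf 0 525 0) P.nil)) (P.cons (P.cons (P.lf 0 4045 0) P.nil) P.nil)))))) 555)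
 EL.nil))
noncomputable def S183_198_290_308_11 : EL := (EL.cons 3 (TM.mk (P.cons (P.cons (P.lf 0 423949650 0) (P.cons (P.lf 13928453 0 0) (P.cons (P.lf 521145 0 0) (P.cons (P.lf 0 19388 0) (P.cons (P.lf 0 90 0) (P.cons (P.lf 6 0 0) P.nil)))))) (P.cons (P.cons (P.lf 0 64989149 0) (P.cons (P.lf 1967429 0 0) (P.cons (P.lf 74989 0 0) (P.cons (P.lf 0 2611 0) (P.cons (P.lf 0 11 0) P.nil))))) (P.cons (P.cons (P.lf 13892934 0 0) (P.cons (P.lf 0 315309 0) (P.cons (P.lf 0 12972 0) (P.cons (P.lf 330 0 0) P.nil)))) (P.cons (P.cons (P.lf 1685610 0 0) (P.cons (P.lf 0 45086 0) (P.cons (P.lf 0 1740 0) P.nil))) (P.cons (P.cons (P.lf 0 179008 0) (P.cons (P.lf 1660 0 0) P.nil)) (P.cons (P.cons (P.lf 0 14221 0) P.nil) P.nil)))))) 3066)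
 (EL.cons 7 (TM.mk (P.cons (P.cons (P.lf 0 405699776 0) (P.cons (P.lf 13328871 0 0) (P.cons (P.lf 498711 0 0) (P.cons (P.lf 0 18554 0) (P.cons (P.lf 0 86 0) (P.cons (P.lf 6 0 0) P.nil)))))) (P.cons (P.cons (P.lf 0 116925983 0) (P.cons (P.lf 3680983 0 0) (P.cons (P.lf 139044 0 0) (P.cons (P.lf 0 5003 0) (P.cons (P.lf 0 22 0) P.nil))))) (P.cons (P.cons (P.lf 0 888847 0) (P.cons (P.lf 142601 0 0) (P.cons (P.lf 4388 0 0) (P.cons (P.lf 0 285 0) P.nil)))) (P.cons (P.cons (P.lf 1855290 0 0) (P.cons (P.lf 0 35175 0) (P.cons (P.lf 0 1500 0) P.nil))) (P.cons (P.cons (P.lf 58521 0 0) (P.cons (P.lf 0 2966 0) P.nil)) (P.cons (P.cons (P.lf 0 12291 0) P.nil) P.nil)))))) 2038)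
 EL.nil))
noncomputable def S183_198_290_308_12 : EL := (EL.cons 4 (TM.mk (P.cons (P.lf 1904598495 0 0) (P.cons (P.lf 0 185091918 0) (P.cons (P.lf 0 5095050 0) (P.cons (P.lf 95302 0 0) (P.cons (P.lf 6701 0 0) (P.cons (P.lf 18 0 0) P.nil)))))) 59)
 (EL.cons 8 (TM.mk (P.cons (P.lf 1822610727 0 0) (P.cons (P.lf 68770857 0 0) (P.cons (P.lf 0 2745999 0) (P.cons (P.lf 0 115768 0) (P.cons (P.lf 717 0 0) (P.cons (P.lf 127 0 0) P.nil)))))) 49)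
 EL.nil))
noncomputable def S183_198_290_308_13 : EL := (EL.cons 4 (TM.mk (P.cons (P.cons (P.lf 898584369 0 0) (P.cons (P.lf 0 14761058 0) (P.cons (P.lf 0 673538 0) (P.lf 9483 0 0)))) (P.cons (P.cons (P.lf 25211089 0 0) (P.cons (P.lf 0 236390 0) (P.cons (P.lf 0 10785 0) (P.lf 150 0 0)))) (P.cons (P.cons (P.lf 0 22972285 0) (P.cons (P.lf 205539 0 0) (P.cons (P.lf 9376 0 0) (P.lf 0 131 0)))) (P.cons (P.cons (P.lf 127228 0 0) (P.cons (P.lf 10426 0 0) (P.cons (P.lf 474 0 0) P.nil))) (P.cons (P.cons (P.lf 110512 0 0) (P.cons (P.lf 0 642 0) P.nil)) (P.cons (P.cons (P.lf 1077 0 0) P.nil) P.nil)))))) 817)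
 (EL.cons 8 (TM.mk (P.cons (P.cons (P.lf 859902764 0 0) (P.cons (P.lf 0 14125635 0) (P.cons (P.lf 0 644544 0) (P.lf 9076 0 0)))) (P.cons (P.cons (P.lf 140138445 0 0) (P.cons (P.lf 0 2131956 0) (P.cons (P.lf 0 97279 0) (P.lf 1369 0 0)))) (P.cons (P.cons (P.lf 0 6449399 0) (P.cons (P.lf 0 35536 0) (P.cons (P.lf 0 1622 0) (P.lf 23 0 0)))) (P.cons (P.cons (P.lf 0 1093596 0) (P.cons (P.lf 10187 0 0) (P.cons (P.lf 464 0 0) P.nil))) (P.cons (P.cons (P.lf 8708 0 0) (P.cons (P.lf 525 0 0) P.nil)) (P.cons (P.cons (P.lf 4045 0 0) P.nil) P.nil)))))) 555)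
 EL.nil))
noncomputable def S183_198_290_308_14 : EL := (EL.cons 4 (TM.mk (P.cons (P.cons (P.lf 423949650 0 0) (P.cons (P.lf 0 13928453 0) (P.cons (P.lf 0 521145 0) (P.cons (P.lf 19388 0 0) (P.cons (P.lf 90 0 0) (P.cons (P.lf 0 6 0) P.nil)))))) (P.cons (P.cons (P.lf 64989149 0 0) (P.cons (P.lf 0 1967429 0) (P.cons (P.lf 0 74989 0) (P.cons (P.lf 2611 0 0) (P.cons (P.lf 11 0 0) P.nil))))) (P.cons (P.cons (P.lf 0 13892934 0) (P.cons (P.lf 315309 0 0) (P.cons (P.lf 12972 0 0) (P.cons (P.lf 0 330 0) P.nil)))) (P.cons (P.cons (P.lf 0 1685610 0) (P.cons (P.lf 45086 0 0) (P.cons (P.lf 1740 0 0) P.nil))) (P.cons (P.cons (P.lf 179008 0 0) (P.cons (P.lf 0 1660 0) P.nil)) (P.cons (P.cons (P.lf 14221 0 0) P.nil) P.nil)))))) 3066)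
 (EL.cons 8 (TM.mk (P.cons (P.cons (P.lf 405699776 0 0) (P.cons (P.lf 0 13328871 0) (P.cons (P.lf 0 498711 0) (P.cons (P.lf 18554 0 0) (P.cons (P.lf 86 0 0) (P.cons (P.lf 0 6 0) P.nil)))))) (P.cons (P.cons (P.lf 116925983 0 0) (P.cons (P.lf 0 3680983 0) (P.cons (P.lf 0 139044 0) (P.cons (P.lf 5003 0 0) (P.cons (P.lf 22 0 0) P.nil))))) (P.cons (P.cons (P.lf 888847 0 0) (P.cons (P.lf 0 142601 0) (P.cons (P.lf 0 4388 0) (P.cons (P.lf 285 0 0) P.nil)))) (P.cons (P.cons (P.lf 0 1855290 0) (P.cons (P.lf 35175 0 0) (P.cons (P.lf 1500 0 0) P.nil))) (P.cons (P.cons (P.lf 0 58521 0) (P.cons (P.lf 2966 0 0) P.nil)) (P.cons (P.cons (P.lf 12291 0 0) P.nil) P.nil)))))) 2038)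
 EL.nil))
noncomputable def S183_198_290_308_15 : EL := (EL.cons 4 (TM.mk (P.cons (P.lf 0 900898234 0) (P.cons (P.lf 175101453 0 0) (P.cons (P.lf 0 3688277 0) (P.cons (P.lf 0 558577 0) (P.cons (P.lf 0 4024 0) (P.cons (P.lf 839 0 0) P.nil)))))) 89)
 (EL.cons 8 (TM.mk (P.cons (P.lf 0 862117024 0) (P.cons (P.lf 51252455 0 0) (P.cons (P.lf 6766430 0 0) (P.cons (P.lf 0 27586 0) (P.cons (P.lf 0 13796 0) (P.cons (P.lf 0 231 0) P.nil)))))) 71)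
 EL.nil))
noncomputable def S183_198_290_308_16 : EL := (EL.cons 4 (TM.mk (P.cons (P.cons (P.lf 0 425041326 0) (P.cons (P.lf 6982159 0 0) (P.cons (P.lf 318591 0 0) (P.lf 0 4485 0)))) (P.cons (P.cons (P.lf 29381040 0 0) (P.cons (P.lf 0 566721 0) (P.cons (P.lf 0 25859 0) (P.lf 363 0 0)))) (P.cons (P.cons (P.lf 13162116 0 0) (P.cons (P.lf 0 126766 0) (P.cons (P.lf 0 5783 0) (P.lf 80 0 0)))) (P.cons (P.cons (P.lf 0 1105539 0) (P.cons (P.lf 4565 0 0) (P.cons (P.lf 208 0 0) P.nil))) (P.cons (P.cons (P.lf 0 77585 0) (P.cons (P.lf 1073 0 0) P.nil)) (P.cons (P.cons (P.lf 5228 0 0) P.nil) P.nil)))))) 830)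
 (EL.cons 8 (TM.mk (P.cons (P.cons (P.lf 0 406744457 0) (P.cons (P.lf 6681597 0 0) (P.cons (P.lf 304877 0 0) (P.lf 0 4292 0)))) (P.cons (P.cons (P.lf 0 26759112 0) (P.cons (P.lf 359112 0 0) (P.cons (P.lf 16385 0 0) (P.lf 0 230 0)))) (P.cons (P.cons (P.lf 10580633 0 0) (P.cons (P.lf 0 99066 0) (P.cons (P.lf 0 4519 0) (P.lf 63 0 0)))) (P.cons (P.cons (P.lf 377792 0 0) (P.cons (P.lf 0 8815 0) (P.cons (P.lf 0 401 0) P.nil))) (P.cons (P.cons (P.lf 0 67298 0) (P.cons (P.lf 248 0 0) P.nil)) (P.cons (P.cons (P.lf 0 2981 0) P.nil) P.nil)))))) 557)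
 EL.nil))
noncomputable def S183_198_290_308_17 : EL := (EL.cons 4 (TM.mk (P.cons (P.cons (P.lf 0 200533336 0) (P.cons (P.lf 6588327 0 0) (P.cons (P.lf 246508 0 0) (P.cons (P.lf 0 9170 0) (P.cons (P.lf 0 42 0) (P.cons (P.lf 2 0 0) P.nil)))))) (P.cons (P.cons (P.lf 0 11252507 0) (P.cons (P.lf 290353 0 0) (P.cons (P.lf 11514 0 0) (P.cons (P.lf 0 344 0) (P.cons (P.lf 0 0 0) P.nil))))) (P.cons (P.cons (P.lf 10095405 0 0) (P.cons (P.lf 0 257208 0) (P.cons (P.lf 0 10242 0) (P.cons (P.lf 300 0 0) P.nil)))) (P.cons (P.cons (P.lf 230883 0 0) (P.cons (P.lf 0 8991 0) (P.cons (P.lf 0 308 0) P.nil))) (P.cons (P.cons (P.lf 0 181980 0) (P.cons (P.lf 3326 0 0) P.nil)) (P.cons (P.cons (P.lf 0 412 0) P.nil) P.nil)))))) 2764)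
 (EL.cons 8 (TM.mk (P.cons (P.cons (P.lf 0 191900924 0) (P.cons (P.lf 6304718 0 0) (P.cons (P.lf 235896 0 0) (P.cons (P.lf 0 8776 0) (P.cons (P.lf 0 40 0) (P.cons (P.lf 2 0 0) P.nil)))))) (P.cons (P.cons (P.lf 0 36658173 0) (P.cons (P.lf 1128447 0 0) (P.cons (P.lf 42844 0 0) (P.cons (P.lf 0 1513 0) (P.cons (P.lf 0 6 0) P.nil))))) (P.cons (P.cons (P.lf 5467786 0 0) (P.cons (P.lf 0 118621 0) (P.cons (P.lf 0 4946 0) (P.cons (P.lf 118 0 0) P.nil)))) (P.cons (P.cons (P.lf 1056785 0 0) (P.cons (P.lf 0 27535 0) (P.cons (P.lf 0 1075 0) P.nil))) (P.cons (P.cons (P.lf 0 59920 0) (P.cons (P.lf 142 0 0) P.nil)) (P.cons (P.cons (P.lf 0 11068 0) P.nil) P.nil)))))) 2017)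
 EL.nil))
noncomputable def S183_198_290_308_18 : EL := (EL.cons 4 (TM.mk (P.cons (P.lf 426135812 0 0) (P.cons (P.lf 0 124237673 0) (P.cons (P.lf 8653707 0 0) (P.cons (P.lf 337561 0 0) (P.cons (P.lf 0 31084 0) (P.cons (P.lf 0 1487 0) P.nil)))))) 136)
 (EL.cons 8 (TM.mk (P.cons (P.lf 407791829 0 0) (P.cons (P.lf 0 63872894 0) (P.cons (P.lf 0 1935523 0) (P.cons (P.lf 409346 0 0) (P.cons (P.lf 14041 0 0) (P.cons (P.lf 0 800 0) P.nil)))))) 99)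
 EL.nil))
noncomputable def S183_198_290_308_19 : EL := (EL.cons 4 (TM.mk (P.cons (P.cons (P.lf 201049712 0 0) (P.cons (P.lf 0 3302645 0) (P.cons (P.lf 0 150697 0) (P.lf 2121 0 0)))) (P.cons (P.cons (P.lf 0 33435921 0) (P.cons (P.lf 589021 0 0) (P.cons (P.lf 26876 0 0) (P.lf 0 377 0)))) (P.cons (P.cons (P.lf 0 5413085 0) (P.cons (P.lf 42746 0 0) (P.cons (P.lf 1950 0 0) (P.lf 0 27 0)))) (P.cons (P.cons (P.lf 1175207 0 0) (P.cons (P.lf 0 8868 0) (P.cons (P.lf 0 404 0) P.nil))) (P.cons (P.cons (P.lf 2546 0 0) (P.cons (P.lf 0 455 0) P.nil)) (P.cons (P.cons (P.lf 0 7796 0) P.nil) P.nil)))))) 939)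
 (EL.cons 8 (TM.mk (P.cons (P.cons (P.lf 192395071 0 0) (P.cons (P.lf 0 3160476 0) (P.cons (P.lf 0 144210 0) (P.lf 2030 0 0)))) (P.cons (P.cons (P.lf 0 6039873 0) (P.cons (P.lf 137275 0 0) (P.cons (P.lf 6263 0 0) (P.lf 0 88 0)))) (P.cons (P.cons (P.lf 0 6749515 0) (P.cons (P.lf 71822 0 0) (P.cons (P.lf 3276 0 0) (P.lf 0 45 0)))) (P.cons (P.cons (P.lf 283437 0 0) (P.cons (P.lf 0 87 0) (P.cons (P.lf 0 3 0) P.nil))) (P.cons (P.cons (P.lf 63897 0 0) (P.cons (P.lf 0 667 0) P.nil)) (P.cons (P.cons (P.lf 0 1408 0) P.nil) P.nil)))))) 627)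
 EL.nil))
noncomputable def S183_198_290_308_20 : EL := (EL.cons 4 (TM.mk (P.cons (P.cons (P.lf 94854705 0 0) (P.cons (P.lf 0 3116358 0) (P.cons (P.lf 0 116600 0) (P.cons (P.lf 4337 0 0) (P.cons (P.lf 19 0 0) (P.cons (P.lf 0 0 0) P.nil)))))) (P.cons (P.cons (P.lf 0 3895558 0) (P.cons (P.lf 165510 0 0) (P.cons (P.lf 5884 0 0) (P.cons (P.lf 0 257 0) (P.cons (P.lf 0 0 0) P.nil))))) (P.cons (P.cons (P.lf 0 5546254 0) (P.cons (P.lf 143346 0 0) (P.cons (P.lf 5685 0 0) (P.cons (P.lf 0 169 0) P.nil)))) (P.cons (P.cons (P.lf 345362 0 0) (P.cons (P.lf 0 7358 0) (P.cons (P.lf 0 315 0) P.nil))) (P.cons (P.cons (P.lf 110066 0 0) (P.cons (P.lf 0 2329 0) P.nil)) (P.cons (P.cons (P.lf 0 8096 0) P.nil) P.nil)))))) 2147)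
 (EL.cons 8 (TM.mk (P.cons (P.cons (P.lf 90771469 0 0) (P.cons (P.lf 0 2982208 0) (P.cons (P.lf 0 111581 0) (P.cons (P.lf 4151 0 0) (P.cons (P.lf 19 0 0) (P.cons (P.lf 0 1 0) P.nil)))))) (P.cons (P.cons (P.lf 8518445 0 0) (P.cons (P.lf 0 243953 0) (P.cons (P.lf 0 9422 0) (P.cons (P.lf 312 0 0) (P.cons (P.lf 1 0 0) P.nil))))) (P.cons (P.cons (P.lf 0 4514260 0) (P.cons (P.lf 115959 0 0) (P.cons (P.lf 4607 0 0) (P.cons (P.lf 0 136 0) P.nil)))) (P.cons (P.cons (P.lf 0 290372 0) (P.cons (P.lf 8850 0 0) (P.cons (P.lf 329 0 0) P.nil))) (P.cons (P.cons (P.lf 85026 0 0) (P.cons (P.lf 0 1520 0) P.nil)) (P.cons (P.cons (P.lf 3750 0 0) P.nil) P.nil)))))) 1553)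
 EL.nil))
noncomputable def S183_198_290_308_21 : EL := (EL.cons 4 (TM.mk (P.cons (P.cons (P.lf 0 2982528711 0) (P.cons (P.lf 44283174 0 0) (P.cons (P.lf 2020614 0 0) (P.lf 0 28449 0)))) (P.cons (P.cons (P.lf 449671089 0 0) (P.cons (P.lf 709170 0 0) (P.cons (P.lf 32355 0 0) (P.lf 0 450 0)))) (P.cons (P.cons (P.lf 57852024 0 0) (P.cons (P.lf 0 616617 0) (P.cons (P.lf 0 28128 0) (P.lf 393 0 0)))) (P.cons (P.cons (P.lf 0 2057415 0) (P.cons (P.lf 0 31278 0) (P.cons (P.lf 0 1422 0) P.nil))) (P.cons (P.cons (P.lf 0 343614 0) (P.cons (P.lf 1926 0 0) P.nil)) (P.cons (P.cons (P.lf 0 717 0) P.nil) P.nil)))))) 2769)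
 (EL.cons 8 (TM.mk (P.cons (P.cons (P.lf 1108157832 0 0) (P.cons (P.lf 0 16453410 0) (P.cons (P.lf 0 750762 0) (P.lf 10578 0 0)))) (P.cons (P.cons (P.lf 0 316580802 0) (P.cons (P.lf 1956291 0 0) (P.cons (P.lf 89262 0 0) (P.lf 0 1254 0)))) (P.cons (P.cons (P.lf 5392074 0 0) (P.cons (P.lf 200121 0 0) (P.cons (P.lf 9132 0 0) (P.lf 0 129 0)))) (P.cons (P.cons (P.lf 2745690 0 0) (P.cons (P.lf 0 16401 0) (P.cons (P.lf 0 747 0) P.nil))) (P.cons (P.cons (P.lf 0 9588 0) (P.cons (P.lf 0 1473 0) P.nil)) (P.cons (P.cons (P.lf 0 10929 0) P.nil) P.nil)))))) 2115)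
 (EL.cons 11 (TM.mk (P.cons (P.cons (P.lf 1019059452 0 0) (P.cons (P.lf 101156370 0 0) (P.cons (P.lf 0 1392603 0) (P.cons (P.lf 0 31455 0) (P.lf 330 0 0))))) (P.cons (P.cons (P.lf 76902423 0 0) (P.cons (P.lf 7633674 0 0) (P.cons (P.lf 0 105090 0) (P.cons (P.lf 0 2373 0) (P.lf 24 0 0))))) (P.cons (P.cons (P.lf 0 1619844 0) (P.cons (P.lf 0 160791 0) (P.cons (P.lf 2211 0 0) (P.cons (P.lf 48 0 0) P.nil)))) (P.cons (P.cons (P.lf 0 245319 0) (P.cons (P.lf 0 24351 0) (P.cons (P.lf 333 0 0) P.nil))) (P.cons (P.cons (P.lf 0 1767 0) (P.cons (P.lf 0 174 0) P.nil)) (P.cons (P.cons (P.lf 366 0 0) P.nil) P.nil)))))) 237)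
 EL.nil)))
noncomputable def S183_198_290_308_22 : EL := (EL.cons 4 (TM.mk (P.cons (P.cons (P.lf 0 1407148902 0) (P.cons (P.lf 44007936 0 0) (P.cons (P.lf 1664850 0 0) (P.cons (P.lf 0 59592 0) (P.cons (P.lf 0 273 0) (P.cons (P.lf 18 0 0) P.nil)))))) (P.cons (P.cons (P.lf 35925009 0 0) (P.cons (P.lf 2082648 0 0) (P.cons (P.lf 50679 0 0) (P.cons (P.lf 0 5379 0) (P.cons (P.lf 0 33 0) P.nil))))) (P.cons (P.cons (P.lf 68947371 0 0) (P.cons (P.lf 0 1321572 0) (P.cons (P.lf 0 56055 0) (P.cons (P.lf 1233 0 0) P.nil)))) (P.cons (P.cons (P.lf 1039095 0 0) (P.cons (P.lf 0 112611 0) (P.cons (P.lf 0 4185 0) P.nil))) (P.cons (P.cons (P.lf 0 741573 0) (P.cons (P.lf 8439 0 0) P.nil)) (P.cons (P.cons (P.lf 0 24651 0) P.nil) P.nil)))))) 7809)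
 (EL.cons 8 (TM.mk (P.cons (P.cons (P.lf 522825837 0 0) (P.cons (P.lf 0 16351140 0) (P.cons (P.lf 0 618576 0) (P.cons (P.lf 22146 0 0) (P.cons (P.lf 99 0 0) (P.cons (P.lf 0 6 0) P.nil)))))) (P.cons (P.cons (P.lf 0 83884269 0) (P.cons (P.lf 1432179 0 0) (P.cons (P.lf 64620 0 0) (P.cons (P.lf 0 984 0) (P.cons (P.lf 0 0 0) P.nil))))) (P.cons (P.cons (P.lf 0 21766008 0) (P.cons (P.lf 531297 0 0) (P.cons (P.lf 20943 0 0) (P.cons (P.lf 0 642 0) P.nil)))) (P.cons (P.cons (P.lf 2893425 0 0) (P.cons (P.lf 0 23547 0) (P.cons (P.lf 0 1179 0) P.nil))) (P.cons (P.cons (P.lf 235254 0 0) (P.cons (P.lf 0 6822 0) P.nil)) (P.cons (P.cons (P.lf 0 23799 0) P.nil) P.nil)))))) 4311)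
 (EL.cons 11 (TM.mk (P.cons (P.cons (P.lf 480789465 0 0) (P.cons (P.lf 39827361 0 0) (P.cons (P.lf 0 1801386 0) (P.cons (P.lf 0 34743 0) (P.cons (P.lf 1395 0 0) (P.cons (P.lf 0 0 0) P.nil)))))) (P.cons (P.cons (P.lf 96495486 0 0) (P.cons (P.lf 8088543 0 0) (P.cons (P.lf 0 347760 0) (P.cons (P.lf 0 6732 0) (P.cons (P.lf 264 0 0) P.nil))))) (P.cons (P.cons (P.lf 0 1373892 0) (P.cons (P.lf 0 189324 0) (P.cons (P.lf 0 5793 0) (P.cons (P.lf 0 90 0) P.nil)))) (P.cons (P.cons (P.lf 0 896100 0) (P.cons (P.lf 0 81705 0) (P.cons (P.lf 2271 0 0) P.nil))) (P.cons (P.cons (P.lf 0 17553 0) (P.cons (P.lf 0 1128 0) P.nil)) (P.cons (P.cons (P.lf 3657 0 0) P.nil) P.nil)))))) 1272)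
 EL.nil)))
noncomputable def S183_198_290_308_23 : EL := (EL.cons 4 (TM.mk (P.cons (P.cons (P.lf 1410772326 0 0) (P.cons (P.lf 0 20946477 0) (P.cons (P.lf 0 955773 0) (P.lf 13455 0 0)))) (P.cons (P.cons (P.lf 0 349800993 0) (P.cons (P.lf 1700166 0 0) (P.cons (P.lf 77577 0 0) (P.lf 0 1092 0)))) (P.cons (P.cons (P.lf 0 10468194 0) (P.cons (P.lf 380301 0 0) (P.cons (P.lf 17349 0 0) (P.lf 0 240 0)))) (P.cons (P.cons (P.lf 4272120 0 0) (P.cons (P.lf 0 13698 0) (P.cons (P.lf 0 627 0) P.nil))) (P.cons (P.cons (P.lf 135483 0 0) (P.cons (P.lf 0 3219 0) P.nil)) (P.cons (P.cons (P.lf 0 20163 0) P.nil) P.nil)))))) 2445)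
 (EL.cons 8 (TM.mk (P.cons (P.cons (P.lf 0 524172120 0) (P.cons (P.lf 7782660 0 0) (P.cons (P.lf 355119 0 0) (P.lf 0 5001 0)))) (P.cons (P.cons (P.lf 200686449 0 0) (P.cons (P.lf 0 1681680 0) (P.cons (P.lf 0 76731 0) (P.lf 1077 0 0)))) (P.cons (P.cons (P.lf 0 15700896 0) (P.cons (P.lf 0 25551 0) (P.cons (P.lf 0 1164 0) (P.lf 15 0 0)))) (P.cons (P.cons (P.lf 0 1477701 0) (P.cons (P.lf 19821 0 0) (P.cons (P.lf 903 0 0) P.nil))) (P.cons (P.cons (P.lf 143220 0 0) (P.cons (P.lf 177 0 0) P.nil)) (P.cons (P.cons (P.lf 8595 0 0) P.nil) P.nil)))))) 1941)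
 (EL.cons 11 (TM.mk (P.cons (P.cons (P.lf 0 482027505 0) (P.cons (P.lf 0 47848191 0) (P.cons (P.lf 658716 0 0) (P.cons (P.lf 14877 0 0) (P.lf 0 156 0))))) (P.cons (P.cons (P.lf 10468419 0 0) (P.cons (P.lf 1039143 0 0) (P.cons (P.lf 0 14304 0) (P.cons (P.lf 0 321 0) (P.lf 3 0 0))))) (P.cons (P.cons (P.lf 5590746 0 0) (P.cons (P.lf 554961 0 0) (P.cons (P.lf 0 7638 0) (P.cons (P.lf 0 171 0) P.nil)))) (P.cons (P.cons (P.lf 114765 0 0) (P.cons (P.lf 11391 0 0) (P.cons (P.lf 0 153 0) P.nil))) (P.cons (P.cons (P.lf 0 16005 0) (P.cons (P.lf 0 1587 0) P.nil)) (P.cons (P.cons (P.lf 0 657 0) P.nil) P.nil)))))) 318)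
 EL.nil)))
noncomputable def S183_198_290_308_24 : EL := (EL.cons 4 (TM.mk (P.cons (P.cons (P.lf 665598531 0 0) (P.cons (P.lf 0 20816286 0) (P.cons (P.lf 0 787494 0) (P.cons (P.lf 28188 0 0) (P.cons (P.lf 129 0 0) (P.cons (P.lf 0 9 0) P.nil)))))) (P.cons (P.cons (P.lf 0 81676893 0) (P.cons (P.lf 1037841 0 0) (P.cons (P.lf 52557 0 0) (P.cons (P.lf 0 192 0) (P.cons (P.lf 3 0 0) P.nil))))) (P.cons (P.cons (P.lf 0 32742102 0) (P.cons (P.lf 776541 0 0) (P.cons (P.lf 30948 0 0) (P.cons (P.lf 0 906 0) P.nil)))) (P.cons (P.cons (P.lf 2756634 0 0) (P.cons (P.lf 0 5886 0) (P.cons (P.lf 0 570 0) P.nil))) (P.cons (P.cons (P.lf 487272 0 0) (P.cons (P.lf 0 10962 0) P.nil)) (P.cons (P.cons (P.lf 0 22797 0) P.nil) P.nil)))))) 6555)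
 (EL.cons 8 (TM.mk (P.cons (P.cons (P.lf 0 247302975 0) (P.cons (P.lf 7734288 0 0) (P.cons (P.lf 292593 0 0) (P.cons (P.lf 0 10473 0) (P.cons (P.lf 0 48 0) (P.cons (P.lf 3 0 0) P.nil)))))) (P.cons (P.cons (P.lf 63711576 0 0) (P.cons (P.lf 0 1429068 0) (P.cons (P.lf 0 59001 0) (P.cons (P.lf 1482 0 0) (P.cons (P.lf 3 0 0) P.nil))))) (P.cons (P.cons (P.lf 7101156 0 0) (P.cons (P.lf 0 206163 0) (P.cons (P.lf 0 7716 0) (P.cons (P.lf 285 0 0) P.nil)))) (P.cons (P.cons (P.lf 0 2487684 0) (P.cons (P.lf 37758 0 0) (P.cons (P.lf 1617 0 0) P.nil))) (P.cons (P.cons (P.lf 0 4698 0) (P.cons (P.lf 2808 0 0) P.nil)) (P.cons (P.cons (P.lf 26385 0 0) P.nil) P.nil)))))) 2118)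
 (EL.cons 11 (TM.mk (P.cons (P.cons (P.lf 0 227419260 0) (P.cons (P.lf 0 18838827 0) (P.cons (P.lf 852078 0 0) (P.cons (P.lf 16434 0 0) (P.cons (P.lf 0 660 0) (P.cons (P.lf 0 0 0) P.nil)))))) (P.cons (P.cons (P.lf 0 23542569 0) (P.cons (P.lf 0 1995192 0) (P.cons (P.lf 81687 0 0) (P.cons (P.lf 1587 0 0) (P.cons (P.lf 0 60 0) P.nil))))) (P.cons (P.cons (P.lf 5693955 0 0) (P.cons (P.lf 511764 0 0) (P.cons (P.lf 0 15522 0) (P.cons (P.lf 0 309 0) P.nil)))) (P.cons (P.cons (P.lf 471435 0 0) (P.cons (P.lf 39237 0 0) (P.cons (P.lf 0 1737 0) P.nil))) (P.cons (P.cons (P.lf 0 37710 0) (P.cons (P.lf 0 3717 0) P.nil)) (P.cons (P.cons (P.lf 0 3801 0) P.nil) P.nil)))))) 1083)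
 EL.nil)))
noncomputable def S183_198_290_308_25 : EL := (EL.cons 4 (TM.mk (P.cons (P.cons (P.lf 0 667312455 0) (P.cons (P.lf 9907938 0 0) (P.cons (P.lf 452091 0 0) (P.lf 0 6363 0)))) (P.cons (P.cons (P.lf 230310609 0 0) (P.cons (P.lf 0 1767066 0) (P.cons (P.lf 0 80631 0) (P.lf 1134 0 0)))) (P.cons (P.cons (P.lf 0 9342945 0) (P.cons (P.lf 0 128238 0) (P.cons (P.lf 0 5847 0) (P.lf 81 0 0)))) (P.cons (P.cons (P.lf 0 2977986 0) (P.cons (P.lf 26607 0 0) (P.cons (P.lf 1212 0 0) P.nil))) (P.cons (P.cons (P.lf 124980 0 0) (P.cons (P.lf 1368 0 0) P.nil)) (P.cons (P.cons (P.lf 21993 0 0) P.nil) P.nil)))))) 2055)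
 (EL.cons 8 (TM.mk (P.cons (P.cons (P.lf 247939782 0 0) (P.cons (P.lf 0 3681294 0) (P.cons (P.lf 0 167973 0) (P.lf 2364 0 0)))) (P.cons (P.cons (P.lf 0 119022312 0) (P.cons (P.lf 1153209 0 0) (P.cons (P.lf 52617 0 0) (P.lf 0 738 0)))) (P.cons (P.cons (P.lf 15988611 0 0) (P.cons (P.lf 0 55368 0) (P.cons (P.lf 0 2526 0) (P.lf 33 0 0)))) (P.cons (P.cons (P.lf 243579 0 0) (P.cons (P.lf 0 12861 0) (P.cons (P.lf 0 585 0) P.nil))) (P.cons (P.cons (P.lf 0 159417 0) (P.cons (P.lf 819 0 0) P.nil)) (P.cons (P.cons (P.lf 687 0 0) P.nil) P.nil)))))) 1788)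
 (EL.cons 11 (TM.mk (P.cons (P.cons (P.lf 228004866 0 0) (P.cons (P.lf 22632774 0 0) (P.cons (P.lf 0 311580 0) (P.cons (P.lf 0 7035 0) (P.lf 72 0 0))))) (P.cons (P.cons (P.lf 0 27109566 0) (P.cons (P.lf 0 2691015 0) (P.cons (P.lf 37047 0 0) (P.cons (P.lf 834 0 0) (P.lf 0 6 0))))) (P.cons (P.cons (P.lf 0 2773221 0) (P.cons (P.lf 0 275280 0) (P.cons (P.lf 3789 0 0) (P.cons (P.lf 84 0 0) P.nil)))) (P.cons (P.cons (P.lf 227364 0 0) (P.cons (P.lf 22569 0 0) (P.cons (P.lf 0 309 0) P.nil))) (P.cons (P.cons (P.lf 20475 0 0) (P.cons (P.lf 2031 0 0) P.nil)) (P.cons (P.cons (P.lf 0 426 0) P.nil) P.nil)))))) 351)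
 EL.nil)))
noncomputable def S183_198_290_308_26 : EL := (EL.cons 4 (TM.mk (P.cons (P.cons (P.lf 0 314836194 0) (P.cons (P.lf 9846357 0 0) (P.cons (P.lf 372492 0 0) (P.cons (P.lf 0 13332 0) (P.cons (P.lf 0 60 0) (P.cons (P.lf 3 0 0) P.nil)))))) (P.cons (P.cons (P.lf 69230445 0 0) (P.cons (P.lf 0 1447794 0) (P.cons (P.lf 0 61059 0) (P.cons (P.lf 1386 0 0) (P.cons (P.lf 3 0 0) P.nil))))) (P.cons (P.cons (P.lf 12575109 0 0) (P.cons (P.lf 0 345945 0) (P.cons (P.lf 0 13218 0) (P.cons (P.lf 453 0 0) P.nil)))) (P.cons (P.cons (P.lf 0 2928117 0) (P.cons (P.lf 40284 0 0) (P.cons (P.lf 1776 0 0) P.nil))) (P.cons (P.cons (P.lf 0 144372 0) (P.cons (P.lf 5907 0 0) P.nil)) (P.cons (P.cons (P.lf 37578 0 0) P.nil) P.nil)))))) 5865)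
 (EL.cons 8 (TM.mk (P.cons (P.cons (P.lf 116977311 0 0) (P.cons (P.lf 0 3658410 0) (P.cons (P.lf 0 138399 0) (P.cons (P.lf 4953 0 0) (P.cons (P.lf 21 0 0) (P.cons (P.lf 0 0 0) P.nil)))))) (P.cons (P.cons (P.lf 0 41504391 0) (P.cons (P.lf 1031496 0 0) (P.cons (P.lf 41358 0 0) (P.cons (P.lf 0 1182 0) (P.cons (P.lf 0 3 0) P.nil))))) (P.cons (P.cons (P.lf 0 743163 0) (P.cons (P.lf 41613 0 0) (P.cons (P.lf 1308 0 0) (P.cons (P.lf 0 78 0) P.nil)))) (P.cons (P.cons (P.lf 1589604 0 0) (P.cons (P.lf 0 29328 0) (P.cons (P.lf 0 1200 0) P.nil))) (P.cons (P.cons (P.lf 0 104241 0) (P.cons (P.lf 165 0 0) P.nil)) (P.cons (P.cons (P.lf 0 16116 0) P.nil) P.nil)))))) 2679)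
 (EL.cons 11 (TM.mk (P.cons (P.cons (P.lf 107572074 0 0) (P.cons (P.lf 8910993 0 0) (P.cons (P.lf 0 403041 0) (P.cons (P.lf 0 7773 0) (P.cons (P.lf 312 0 0) (P.cons (P.lf 0 0 0) P.nil)))))) (P.cons (P.cons (P.lf 681897 0 0) (P.cons (P.lf 77763 0 0) (P.cons (P.lf 528 0 0) (P.cons (P.lf 3 0 0) (P.cons (P.lf 0 0 0) P.nil))))) (P.cons (P.cons (P.lf 0 4063284 0) (P.cons (P.lf 0 357624 0) (P.cons (P.lf 12174 0 0) (P.cons (P.lf 240 0 0) P.nil)))) (P.cons (P.cons (P.lf 14337 0 0) (P.cons (P.lf 2886 0 0) (P.cons (P.lf 192 0 0) P.nil))) (P.cons (P.cons (P.lf 47649 0 0) (P.cons (P.lf 4287 0 0) P.nil)) (P.cons (P.cons (P.lf 567 0 0) P.nil) P.nil)))))) 1191)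
 EL.nil)))
noncomputable def S183_198_290_308_27 : EL := (EL.cons 13 (TM.mk (P.lf 0 4294967296 0) 0)
 EL.nil)
noncomputable def S183_198_290_308_28 : EL := (EL.cons 13 (TM.mk (P.cons (P.cons (P.lf 0 2026353843 0) (P.cons (P.lf 33286944 0 0) (P.cons (P.lf 1518864 0 0) (P.lf 0 21388 0)))) (P.cons (P.cons (P.lf 0 253776599 0) (P.cons (P.lf 3767952 0 0) (P.cons (P.lf 171928 0 0) (P.lf 0 2420 0)))) (P.cons (P.cons (P.lf 21720507 0 0) (P.cons (P.lf 0 8280 0) (P.cons (P.lf 0 376 0) (P.lf 4 0 0)))) (P.cons (P.cons (P.lf 1246435 0 0) (P.cons (P.lf 0 15904 0) (P.cons (P.lf 0 724 0) P.nil))) (P.cons (P.cons (P.lf 0 50149 0) (P.cons (P.lf 0 424 0) P.nil)) (P.cons (P.cons (P.lf 0 4143 0) P.nil) P.nil)))))) 731)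
 EL.nil)
noncomputable def S183_198_290_308_29 : EL := (EL.cons 13 (TM.mk (P.cons (P.cons (P.lf 0 956028210 0) (P.cons (P.lf 31409378 0 0) (P.cons (P.lf 1175210 0 0) (P.cons (P.lf 0 43724 0) (P.cons (P.lf 0 205 0) (P.cons (P.lf 15 0 0) P.nil)))))) (P.cons (P.cons (P.lf 0 239462212 0) (P.cons (P.lf 7489068 0 0) (P.cons (P.lf 283315 0 0) (P.cons (P.lf 0 10140 0) (P.cons (P.lf 0 46 0) P.nil))))) (P.cons (P.cons (P.lf 5500461 0 0) (P.cons (P.lf 100783 0 0) (P.cons (P.lf 1422 0 0) (P.cons (P.lf 0 355 0) P.nil)))) (P.cons (P.cons (P.lf 3742927 0 0) (P.cons (P.lf 0 73416 0) (P.cons (P.lf 0 3087 0) P.nil))) (P.cons (P.cons (P.lf 0 9869 0) (P.cons (P.lf 0 3605 0) P.nil)) (P.cons (P.cons (P.lf 0 22442 0) P.nil) P.nil)))))) 2998)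
 EL.nil)
noncomputable def S183_198_290_308_30 : EL := (EL.cons 13 (TM.mk (P.cons (P.lf 2031571728 0 0) (P.cons (P.lf 0 197431380 0) (P.cons (P.lf 0 5434720 0) (P.cons (P.lf 101656 0 0) (P.cons (P.lf 7148 0 0) (P.cons (P.lf 20 0 0) P.nil)))))) 56)
 EL.nil)
noncomputable def S183_198_290_308_31 : EL := (EL.cons 13 (TM.mk (P.cons (P.cons (P.lf 958489994 0 0) (P.cons (P.lf 0 15745129 0) (P.cons (P.lf 0 718441 0) (P.lf 10116 0 0)))) (P.cons (P.cons (P.lf 26891829 0 0) (P.cons (P.lf 0 252150 0) (P.cons (P.lf 0 11504 0) (P.lf 161 0 0)))) (P.cons (P.cons (P.lf 0 24503771 0) (P.cons (P.lf 219242 0 0) (P.cons (P.lf 10002 0 0) (P.lf 0 140 0)))) (P.cons (P.cons (P.lf 135710 0 0) (P.cons (P.lf 11122 0 0) (P.cons (P.lf 506 0 0) P.nil))) (P.cons (P.cons (P.lf 117880 0 0) (P.cons (P.lf 0 685 0) P.nil)) (P.cons (P.cons (P.lf 1149 0 0) P.nil) P.nil)))))) 852)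
 EL.nil)
noncomputable def S183_198_290_308_32 : EL := (EL.cons 13 (TM.mk (P.cons (P.cons (P.lf 452212961 0 0) (P.cons (P.lf 0 14857017 0) (P.cons (P.lf 0 555888 0) (P.cons (P.lf 20681 0 0) (P.cons (P.lf 96 0 0) (P.cons (P.lf 0 7 0) P.nil)))))) (P.cons (P.cons (P.lf 69321759 0 0) (P.cons (P.lf 0 2098591 0) (P.cons (P.lf 0 79989 0) (P.cons (P.lf 2786 0 0) (P.cons (P.lf 12 0 0) P.nil))))) (P.cons (P.cons (P.lf 0 14819130 0) (P.cons (P.lf 336330 0 0) (P.cons (P.lf 13837 0 0) (P.cons (P.lf 0 353 0) P.nil)))) (P.cons (P.cons (P.lf 0 1797984 0) (P.cons (P.lf 48092 0 0) (P.cons (P.lf 1856 0 0) P.nil))) (P.cons (P.cons (P.lf 190942 0 0) (P.cons (P.lf 0 1771 0) P.nil)) (P.cons (P.cons (P.lf 15170 0 0) P.nil) P.nil)))))) 3247)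
 EL.nil)
noncomputable def S183_198_290_308_33 : EL := (EL.cons 14 (TM.mk (P.lf 8589934592 0 0) 0)
 EL.nil)
noncomputable def S183_198_290_308_34 : EL := (EL.cons 14 (TM.mk (P.cons (P.cons (P.lf 4052707686 0 0) (P.cons (P.lf 0 66573888 0) (P.cons (P.lf 0 3037728 0) (P.lf 42776 0 0)))) (P.cons (P.cons (P.lf 507553198 0 0) (P.cons (P.lf 0 7535904 0) (P.cons (P.lf 0 343856 0) (P.lf 4840 0 0)))) (P.cons (P.cons (P.lf 0 43441014 0) (P.cons (P.lf 16560 0 0) (P.cons (P.lf 752 0 0) (P.lf 0 8 0)))) (P.cons (P.cons (P.lf 0 2492870 0) (P.cons (P.lf 31808 0 0) (P.cons (P.lf 1448 0 0) P.nil))) (P.cons (P.cons (P.lf 100298 0 0) (P.cons (P.lf 848 0 0) P.nil)) (P.cons (P.cons (P.lf 8286 0 0) P.nil) P.nil)))))) 1462)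
 EL.nil)
noncomputable def S183_198_290_308_35 : EL := (EL.cons 14 (TM.mk (P.cons (P.cons (P.lf 1912056420 0 0) (P.cons (P.lf 0 62818756 0) (P.cons (P.lf 0 2350420 0) (P.cons (P.lf 87448 0 0) (P.cons (P.lf 410 0 0) (P.cons (P.lf 0 30 0) P.nil)))))) (P.cons (P.cons (P.lf 478924424 0 0) (P.cons (P.lf 0 14978136 0) (P.cons (P.lf 0 566630 0) (P.cons (P.lf 20280 0 0) (P.cons (P.lf 92 0 0) P.nil))))) (P.cons (P.cons (P.lf 0 11000922 0) (P.cons (P.lf 0 201566 0) (P.cons (P.lf 0 2844 0) (P.cons (P.lf 710 0 0) P.nil)))) (P.cons (P.cons (P.lf 0 7485854 0) (P.cons (P.lf 146832 0 0) (P.cons (P.lf 6174 0 0) P.nil))) (P.cons (P.cons (P.lf 19738 0 0) (P.cons (P.lf 7210 0 0) P.nil)) (P.cons (P.cons (P.lf 44884 0 0) P.nil) P.nil)))))) 5996)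
 EL.nil)
noncomputable def S183_198_290_308_36 : EL := (EL.cons 14 (TM.mk (P.cons (P.lf 0 4063143456 0) (P.cons (P.lf 394862760 0 0) (P.cons (P.lf 10869440 0 0) (P.cons (P.lf 0 203312 0) (P.cons (P.lf 0 14296 0) (P.cons (P.lf 0 40 0) P.nil)))))) 112)
 EL.nil)
noncomputable def S183_198_290_308_37 : EL := (EL.cons 14 (TM.mk (P.cons (P.cons (P.lf 0 1916979988 0) (P.cons (P.lf 31490258 0 0) (P.cons (P.lf 1436882 0 0) (P.lf 0 20232 0)))) (P.cons (P.cons (P.lf 0 53783658 0) (P.cons (P.lf 504300 0 0) (P.cons (P.lf 23008 0 0) (P.lf 0 322 0)))) (P.cons (P.cons (P.lf 49007542 0 0) (P.cons (P.lf 0 438484 0) (P.cons (P.lf 0 20004 0) (P.lf 280 0 0)))) (P.cons (P.cons (P.lf 0 271420 0) (P.cons (P.lf 0 22244 0) (P.cons (P.lf 0 1012 0) P.nil))) (P.cons (P.cons (P.lf 0 235760 0) (P.cons (P.lf 1370 0 0) P.nil)) (P.cons (P.cons (P.lf 0 2298 0) P.nil) P.nil)))))) 1704)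
 EL.nil)
noncomputable def S183_198_290_308_38 : EL := (EL.cons 14 (TM.mk (P.cons (P.cons (P.lf 0 904425922 0) (P.cons (P.lf 29714034 0 0) (P.cons (P.lf 1111776 0 0) (P.cons (P.lf 0 41362 0) (P.cons (P.lf 0 192 0) (P.cons (P.lf 14 0 0) P.nil)))))) (P.cons (P.cons (P.lf 0 138643518 0) (P.cons (P.lf 4197182 0 0) (P.cons (P.lf 159978 0 0) (P.cons (P.lf 0 5572 0) (P.cons (P.lf 0 24 0) P.nil))))) (P.cons (P.cons (P.lf 29638260 0 0) (P.cons (P.lf 0 672660 0) (P.cons (P.lf 0 27674 0) (P.cons (P.lf 706 0 0) P.nil)))) (P.cons (P.cons (P.lf 3595968 0 0) (P.cons (P.lf 0 96184 0) (P.cons (P.lf 0 3712 0) P.nil))) (P.cons (P.cons (P.lf 0 381884 0) (P.cons (P.lf 3542 0 0) P.nil)) (P.cons (P.cons (P.lf 0 30340 0) P.nil) P.nil)))))) 6494)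
 EL.nil)
noncomputable def S183_198_290_308_39 : EL := (EL.cons 14 (TM.mk (P.cons (P.lf 1921916234 0 0) (P.cons (P.lf 0 373549768 0) (P.cons (P.lf 7868326 0 0) (P.cons (P.lf 1191632 0 0) (P.cons (P.lf 8586 0 0) (P.cons (P.lf 0 1790 0) P.nil)))))) 176)
 EL.nil)
noncomputable def S183_198_290_308_40 : EL := (EL.cons 14 (TM.mk (P.cons (P.cons (P.lf 906754830 0 0) (P.cons (P.lf 0 14895274 0) (P.cons (P.lf 0 679662 0) (P.lf 9570 0 0)))) (P.cons (P.cons (P.lf 0 62679554 0) (P.cons (P.lf 1209006 0 0) (P.cons (P.lf 55166 0 0) (P.lf 0 776 0)))) (P.cons (P.cons (P.lf 0 28079182 0) (P.cons (P.lf 270436 0 0) (P.cons (P.lf 12338 0 0) (P.lf 0 172 0)))) (P.cons (P.cons (P.lf 2358484 0 0) (P.cons (P.lf 0 9740 0) (P.cons (P.lf 0 444 0) P.nil))) (P.cons (P.cons (P.lf 165516 0 0) (P.cons (P.lf 0 2290 0) P.nil)) (P.cons (P.cons (P.lf 0 11154 0) P.nil) P.nil)))))) 1732)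
 EL.nil)
noncomputable def S183_198_290_308_41 : EL := (EL.cons 14 (TM.mk (P.cons (P.cons (P.lf 427804452 0 0) (P.cons (P.lf 0 14055098 0) (P.cons (P.lf 0 525884 0) (P.cons (P.lf 19564 0 0) (P.cons (P.lf 90 0 0) (P.cons (P.lf 0 6 0) P.nil)))))) (P.cons (P.cons (P.lf 24005350 0 0) (P.cons (P.lf 0 619420 0) (P.cons (P.lf 0 24564 0) (P.cons (P.lf 734 0 0) (P.cons (P.lf 2 0 0) P.nil))))) (P.cons (P.cons (P.lf 0 21536866 0) (P.cons (P.lf 548712 0 0) (P.cons (P.lf 21850 0 0) (P.cons (P.lf 0 642 0) P.nil)))) (P.cons (P.cons (P.lf 0 492552 0) (P.cons (P.lf 19182 0 0) (P.cons (P.lf 658 0 0) P.nil))) (P.cons (P.cons (P.lf 388224 0 0) (P.cons (P.lf 0 7096 0) P.nil)) (P.cons (P.cons (P.lf 880 0 0) P.nil) P.nil)))))) 5850)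
 EL.nil)
noncomputable def S183_198_290_308_42 : EL := (EL.cons 14 (TM.mk (P.cons (P.lf 0 909089734 0) (P.cons (P.lf 265040370 0 0) (P.cons (P.lf 0 18461242 0) (P.cons (P.lf 0 720132 0) (P.cons (P.lf 66314 0 0) (P.cons (P.lf 3174 0 0) P.nil)))))) 276)
 EL.nil)
noncomputable def S183_198_290_308_43 : EL := (EL.cons 14 (TM.mk (P.cons (P.cons (P.lf 0 428906054 0) (P.cons (P.lf 7045644 0 0) (P.cons (P.lf 321488 0 0) (P.lf 0 4526 0)))) (P.cons (P.cons (P.lf 71329966 0 0) (P.cons (P.lf 0 1256580 0) (P.cons (P.lf 0 57336 0) (P.lf 806 0 0)))) (P.cons (P.cons (P.lf 11547916 0 0) (P.cons (P.lf 0 91192 0) (P.cons (P.lf 0 4160 0) (P.lf 58 0 0)))) (P.cons (P.cons (P.lf 0 2507110 0) (P.cons (P.lf 18920 0 0) (P.cons (P.lf 862 0 0) P.nil))) (P.cons (P.cons (P.lf 0 5432 0) (P.cons (P.lf 972 0 0) P.nil)) (P.cons (P.cons (P.lf 16632 0 0) P.nil) P.nil)))))) 1964)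
 EL.nil)
noncomputable def S183_198_290_308_44 : EL := (EL.cons 14 (TM.mk (P.cons (P.cons (P.lf 0 202356704 0) (P.cons (P.lf 6648232 0 0) (P.cons (P.lf 248748 0 0) (P.cons (P.lf 0 9254 0) (P.cons (P.lf 0 42 0) (P.cons (P.lf 2 0 0) P.nil)))))) (P.cons (P.cons (P.lf 8310524 0 0) (P.cons (P.lf 0 353090 0) (P.cons (P.lf 0 12554 0) (P.cons (P.lf 550 0 0) (P.cons (P.lf 2 0 0) P.nil))))) (P.cons (P.cons (P.lf 11832010 0 0) (P.cons (P.lf 0 305806 0) (P.cons (P.lf 0 12130 0) (P.cons (P.lf 362 0 0) P.nil)))) (P.cons (P.cons (P.lf 0 736774 0) (P.cons (P.lf 15698 0 0) (P.cons (P.lf 672 0 0) P.nil))) (P.cons (P.cons (P.lf 0 234808 0) (P.cons (P.lf 4970 0 0) P.nil)) (P.cons (P.cons (P.lf 17272 0 0) P.nil) P.nil)))))) 4534)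
 EL.nil)
noncomputable def S183_198_290_308_45 : EL := (EL.cons 14 (TM.mk (P.cons (P.cons (P.lf 902102998 0 0) (P.cons (P.lf 0 44456576 0) (P.cons (P.lf 0 1298238 0) (P.cons (P.lf 91210 0 0) (P.cons (P.lf 34 0 0) (P.cons (P.lf 0 58 0) P.nil)))))) (P.cons (P.cons (P.lf 338932852 0 0) (P.cons (P.lf 0 16167620 0) (P.cons (P.lf 0 480924 0) (P.cons (P.lf 32462 0 0) (P.cons (P.lf 18 0 0) P.nil))))) (P.cons (P.cons (P.lf 13438336 0 0) (P.cons (P.lf 0 993636 0) (P.cons (P.lf 0 23468 0) (P.cons (P.lf 2484 0 0) P.nil)))) (P.cons (P.cons (P.lf 0 7158726 0) (P.cons (P.lf 227014 0 0) (P.cons (P.lf 8520 0 0) P.nil))) (P.cons (P.cons (P.lf 0 494032 0) (P.cons (P.lf 25064 0 0) P.nil)) (P.cons (P.cons (P.lf 70828 0 0) P.nil) P.nil)))))) 13456)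
 EL.nil)
noncomputable def S183_198_290_308_46 : EL := (EL.cons 15 (TM.mk (P.lf 4294967296 0 0) 0)
 EL.nil)
noncomputable def S183_198_290_308_47 : EL := (EL.cons 15 (TM.mk (P.cons (P.cons (P.lf 2026353843 0 0) (P.cons (P.lf 0 33286944 0) (P.cons (P.lf 0 1518864 0) (P.lf 21388 0 0)))) (P.cons (P.cons (P.lf 253776599 0 0) (P.cons (P.lf 0 3767952 0) (P.cons (P.lf 0 171928 0) (P.lf 2420 0 0)))) (P.cons (P.cons (P.lf 0 21720507 0) (P.cons (P.lf 8280 0 0) (P.cons (P.lf 376 0 0) (P.lf 0 4 0)))) (P.cons (P.cons (P.lf 0 1246435 0) (P.cons (P.lf 15904 0 0) (P.cons (P.lf 724 0 0) P.nil))) (P.cons (P.cons (P.lf 50149 0 0) (P.cons (P.lf 424 0 0) P.nil)) (P.cons (P.cons (P.lf 4143 0 0) P.nil) P.nil)))))) 731)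
 EL.nil)
noncomputable def S183_198_290_308_48 : EL := (EL.cons 15 (TM.mk (P.cons (P.cons (P.lf 956028210 0 0) (P.cons (P.lf 0 31409378 0) (P.cons (P.lf 0 1175210 0) (P.cons (P.lf 43724 0 0) (P.cons (P.lf 205 0 0) (P.cons (P.lf 0 15 0) P.nil)))))) (P.cons (P.cons (P.lf 239462212 0 0) (P.cons (P.lf 0 7489068 0) (P.cons (P.lf 0 283315 0) (P.cons (P.lf 10140 0 0) (P.cons (P.lf 46 0 0) P.nil))))) (P.cons (P.cons (P.lf 0 5500461 0) (P.cons (P.lf 0 100783 0) (P.cons (P.lf 0 1422 0) (P.cons (P.lf 355 0 0) P.nil)))) (P.cons (P.cons (P.lf 0 3742927 0) (P.cons (P.lf 73416 0 0) (P.cons (P.lf 3087 0 0) P.nil))) (P.cons (P.cons (P.lf 9869 0 0) (P.cons (P.lf 3605 0 0) P.nil)) (P.cons (P.cons (P.lf 22442 0 0) P.nil) P.nil)))))) 2998)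
 EL.nil)
noncomputable def S183_198_290_308 : SL := (SL.cons S183_198_290_308_0 (SL.cons S183_198_290_308_1 (SL.cons S183_198_290_308_2 (SL.cons S183_198_290_308_3 (SL.cons S183_198_290_308_4 (SL.cons S183_198_290_308_5 (SL.cons S183_198_290_308_6 (SL.cons S183_198_290_308_7 (SL.cons S183_198_290_308_8 (SL.cons S183_198_290_308_9 (SL.cons S183_198_290_308_10 (SL.cons S183_198_290_308_11 (SL.cons S183_198_290_308_12 (SL.cons S183_198_290_308_13 (SL.cons S183_198_290_308_14 (SL.cons S183_198_290_308_15 (SL.cons S183_198_290_308_16 (SL.cons S183_198_290_308_17 (SL.cons S183_198_290_308_18 (SL.cons S183_198_290_308_19 (SL.cons S183_198_290_308_20 (SL.cons S183_198_290_308_21 (SL.cons S183_198_290_308_22 (SL.cons S183_198_290_308_23 (SL.cons S183_198_290_308_24 (SL.cons S183_198_290_308_25 (SL.cons S183_198_290_308_26 (SL.cons S183_198_290_308_27 (SL.cons S183_198_290_308_28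 (SL.cons S183_198_290_308_29 (SL.cons S183_198_290_308_30 (SL.cons S183_198_290_308_31 (SL.cons S183_198_290_308_32 (SL.cons S183_198_290_308_33 (SL.cons S183_198_290_308_34 (SL.cons S183_198_290_308_35 (SL.cons S183_198_290_308_36 (SL.cons S183_198_290_308_37 (SL.cons S183_198_290_308_38 (SL.cons S183_198_290_308_39 (SL.cons S183_198_290_308_40 (SL.cons S183_198_290_308_41 (SL.cons S183_198_290_308_42 (SL.cons S183_198_290_308_43 (SL.cons S183_198_290_308_44 (SL.cons S183_198_290_308_45 (SL.cons S183_198_290_308_46 (SL.cons S183_198_290_308_47 (SL.cons S183_198_290_308_48 SL.nil)))))))))))))))))))))))))))))))))))))))))))))))))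
theorem S176_183_216_364_ok : band (seq (shp 5 176 183 216 364) S176_183_216_364) (sok S176_183_216_364) = true := by decide +kernel

theorem S176_183_512_660_ok : band (seq (shp 5 176 183 512 660) S176_183_512_660) (sok S176_183_512_660) = true := by decide +kernel

theorem S183_190_216_290_ok : band (seq (shp 5 183 190 216 290) S183_190_216_290) (sok S183_190_216_290) = true := by decide +kernel

theorem S183_198_216_290_ok : band (seq (shp 5 183 198 216 290) S183_198_216_290) (sok S183_198_216_290) = true := by decide +kernel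

theorem S183_198_216_364_ok : band (seq (shp 5 183 198 216 364) S183_198_216_364) (sok S183_198_216_364) = true := by decide +kernel

theorem S183_198_290_308_ok : band (seq (shp 5 183 198 290 308) S183_198_290_308) (sok S183_198_290_308) = true := by decide +kernel

end Vale.Agent.P098.Ck
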