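import Vale.Agent.P098.CkDefs

namespace Vale.Agent.P098.Ck

noncomputable def S198_256_216_290_0 : EL := (EL.cons 0 (TM.mk (P.cons (P.lf 8080323868 0 0) (P.cons (P.lf 727079837 0 0) (P.cons (P.lf 0 317250402 0) (P.cons (P.lf 0 44091209 0) (P.cons (P.lf 8367597 0 0) (P.cons (P.lf 1467036 0 0) P.nil)))))) 311496)
 (EL.cons 1 (TM.mk (P.cons (P.lf 0 869508750 0) (P.cons (P.lf 786249082 0 0) (P.cons (P.lf 120498519 0 0) (P.cons (P.lf 0 33042157 0) (P.cons (P.lf 0 5010903 0) (P.cons (P.lf 683975 0 0) P.nil)))))) 177172)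
 (EL.cons 5 (TM.mk (P.cons (P.lf 4428440364 0 0) (P.cons (P.lf 0 258517274 0) (P.cons (P.lf 112800140 0 0) (P.cons (P.lf 15676876 0 0) (P.cons (P.lf 0 2975142 0) (P.cons (P.lf 0 521612 0) P.nil)))))) 117185)
 (EL.cons 9 (TM.mk (P.lf 6442450944 0 0) 2)
 EL.nil))))
noncomputable def S198_256_216_290_1 : EL := (EL.cons 0 (TM.mk (P.cons (P.cons (P.lf 5343539474 0 0) (P.cons (P.lf 0 159055645 0) (P.cons (P.lf 0 75084001 0) (P.lf 3575429 0 0)))) (P.cons (P.cons (P.lf 1649060457 0 0) (P.cons (P.lf 0 97143693 0) (P.cons (P.lf 0 45857762 0) (P.lf 2183691 0 0)))) (P.cons (P.cons (P.lf 0 2281389348 0) (P.cons (P.lf 28596900 0 0) (P.cons (P.lf 13499479 0 0) (P.lf 0 642827 0)))) (P.cons (P.cons (P.lf 0 207943597 0) (P.cons (P.lf 17535339 0 0) (P.cons (P.lf 8277743 0 0) P.nil))) (P.cons (P.cons (P.lf 262866899 0 0) (P.cons (P.lf 0 1552705 0) P.nil)) (P.cons (P.cons (P.lf 25349969 0 0) P.nil)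 P.nil)))))) 29057074)
 (EL.cons 1 (TM.mk (P.cons (P.cons (P.lf 0 555357151 0) (P.cons (P.lf 47741665 0 0) (P.cons (P.lf 22536985 0 0) (P.lf 0 1073185 0)))) (P.cons (P.cons (P.lf 1831482705 0 0) (P.cons (P.lf 0 29895151 0) (P.cons (P.lf 0 14112340 0) (P.lf 672013 0 0)))) (P.cons (P.cons (P.lf 370761695 0 0) (P.cons (P.lf 0 23855356 0) (P.cons (P.lf 0 11261180 0) (P.lf 536239 0 0)))) (P.cons (P.cons (P.lf 0 430521975 0) (P.cons (P.lf 3402751 0 0) (P.cons (P.lf 1606303 0 0) P.nil))) (P.cons (P.cons (P.lf 0 48170854 0) (P.cons (P.lf 2897275 0 0) P.nil)) (P.cons (P.cons (P.lf 37434145 0 0) P.nil) P.nil)))))) 12733294)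
 (EL.cons 5 (TM.mk (P.cons (P.cons (P.lf 2913604708 0 0) (P.cons (P.lf 0 110445982 0) (P.cons (P.lf 0 52137262 0) (P.lf 2482726 0 0)))) (P.cons (P.cons (P.lf 0 606964250 0) (P.cons (P.lf 2386110 0 0) (P.cons (P.lf 1126390 0 0) (P.lf 0 53632 0)))) (P.cons (P.cons (P.lf 57167821 0 0) (P.cons (P.lf 2830260 0 0) (P.cons (P.lf 1336058 0 0) (P.lf 0 63624 0)))) (P.cons (P.cons (P.lf 117087845 0 0) (P.cons (P.lf 0 3362418 0) (P.cons (P.lf 0 1587262 0) P.nil))) (P.cons (P.cons (P.lf 0 50986467 0) (P.cons (P.lf 80764 0 0) P.nil)) (P.cons (P.cons (P.lf 0 9518396 0) P.nil) P.nil)))))) 13896085)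
 (EL.cons 9 (TM.mk (P.cons (P.cons (P.lf 4247232210 0 0) (P.cons (P.lf 0 147352146 0) (P.cons (P.lf 0 69559230 0) (P.lf 3312342 0 0)))) (P.cons (P.cons (P.lf 0 18204402 0) (P.cons (P.lf 0 28371054 0) (P.cons (P.lf 0 13392870 0) (P.lf 637752 0 0)))) (P.cons (P.cons (P.lf 0 665287780 0) (P.cons (P.lf 11468862 0 0) (P.cons (P.lf 5413998 0 0) (P.lf 0 257808 0)))) (P.cons (P.cons (P.lf 38075601 0 0) (P.cons (P.lf 2534436 0 0) (P.cons (P.lf 1196406 0 0) P.nil))) (P.cons (P.cons (P.lf 37479970 0 0) (P.cons (P.lf 0 415854 0) P.nil)) (P.cons (P.cons (P.lf 0 445654 0) P.nil) P.nil)))))) 2651617)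
 (EL.cons 2 (TM.mk (P.cons (P.cons (P.lf 127946559 0 0) (P.cons (P.lf 126160703 0 0) (P.cons (P.lf 0 3947689 0) (P.cons (P.lf 0 723397 0) (P.lf 25832 0 0))))) (P.cons (P.cons (P.lf 0 107483481 0) (P.cons (P.lf 0 105983246 0) (P.cons (P.lf 3316317 0 0) (P.cons (P.lf 607699 0 0) (P.lf 0 21701 0))))) (P.cons (P.cons (P.lf 0 29002907 0) (P.cons (P.lf 0 28598090 0) (P.cons (P.lf 894858 0 0) (P.cons (P.lf 163977 0 0) P.nil)))) (P.cons (P.cons (P.lf 6951200 0 0) (P.cons (P.lf 6854175 0 0) (P.cons (P.lf 0 214472 0) P.nil))) (P.cons (P.cons (P.lf 1862296 0 0) (P.cons (P.lf 1836303 0 0) P.nil)) (P.cons (P.cons (P.lf 0 206805 0) P.nil) P.nil)))))) 737292)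
 (EL.cons 6 (TM.mk (P.cons (P.cons (P.lf 296357829 0 0) (P.cons (P.lf 292221315 0 0) (P.cons (P.lf 0 9143886 0) (P.cons (P.lf 0 1675578 0) (P.lf 59841 0 0))))) (P.cons (P.cons (P.lf 57060486 0 0) (P.cons (P.lf 56264046 0 0) (P.cons (P.lf 0 1760553 0) (P.cons (P.lf 0 322614 0) (P.lf 11520 0 0))))) (P.cons (P.cons (P.lf 0 23066424 0) (P.cons (P.lf 0 22744467 0) (P.cons (P.lf 711693 0 0) (P.cons (P.lf 130413 0 0) P.nil)))) (P.cons (P.cons (P.lf 0 5097318 0) (P.cons (P.lf 0 5026170 0) (P.cons (P.lf 157272 0 0) P.nil))) (P.cons (P.cons (P.lf 836376 0 0) (P.cons (P.lf 824703 0 0) P.nil)) (P.cons (P.cons (P.lf 235515 0 0) P.nil) P.nil)))))) 441840)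
 EL.nil))))))
noncomputable def S198_256_216_290_2 : EL := (EL.cons 0 (TM.mk (P.cons (P.cons (P.lf 3533662935 0 0) (P.cons (P.lf 0 210473212 0) (P.cons (P.lf 0 96307443 0) (P.cons (P.lf 7609681 0 0) (P.cons (P.lf 542339 0 0) (P.cons (P.lf 0 64714 0) P.nil)))))) (P.cons (P.cons (P.lf 1858213087 0 0) (P.cons (P.lf 0 181884665 0) (P.cons (P.lf 0 82024149 0) (P.cons (P.lf 7710739 0 0) (P.cons (P.lf 682447 0 0) P.nil))))) (P.cons (P.cons (P.lf 0 2880249957 0) (P.cons (P.lf 117188685 0 0) (P.cons (P.lf 54822181 0 0) (P.cons (P.lf 0 3104504 0) P.nil)))) (P.cons (P.cons (P.lf 0 489415594 0) (P.cons (P.lf 63258729 0 0) (P.cons (P.lf 28741129 0 0) P.nil))) (P.cons (P.cons (P.lf 699651757 0 0) (P.cons (P.lf 0 21093450 0) P.nil)) (P.cons (P.cons (P.lf 59974593 0 0) P.nil) P.nil)))))) 161695569)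
 (EL.cons 1 (TM.mk (P.cons (P.cons (P.lf 0 354340459 0) (P.cons (P.lf 62130499 0 0) (P.cons (P.lf 27600358 0 0) (P.cons (P.lf 0 3029051 0) (P.cons (P.lf 0 307566 0) (P.cons (P.lf 36690 0 0) P.nil)))))) (P.cons (P.cons (P.lf 2073015713 0 0) (P.cons (P.lf 0 99800572 0) (P.cons (P.lf 0 46401081 0) (P.cons (P.lf 2914590 0 0) (P.cons (P.lf 126449 0 0) P.nil))))) (P.cons (P.cons (P.lf 425378127 0 0) (P.cons (P.lf 0 61945662 0) (P.cons (P.lf 0 27992972 0) (P.cons (P.lf 2571822 0 0) P.nil)))) (P.cons (P.cons (P.lf 0 825429171 0) (P.cons (P.lf 28978747 0 0) (P.cons (P.lf 13677812 0 0) P.nil))) (P.cons (P.cons (P.lf 0 94680583 0) (P.cons (P.lf 14989518 0 0) P.nil)) (P.cons (P.cons (P.lf 142933188 0 0) P.nil) P.nil)))))) 71431938)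
 (EL.cons 5 (TM.mk (P.cons (P.cons (P.lf 1916940766 0 0) (P.cons (P.lf 0 145355800 0) (P.cons (P.lf 0 65881228 0) (P.cons (P.lf 5850206 0 0) (P.cons (P.lf 486615 0 0) (P.cons (P.lf 0 58048 0) P.nil)))))) (P.cons (P.cons (P.lf 0 687901108 0) (P.cons (P.lf 23218535 0 0) (P.cons (P.lf 11067316 0 0) (P.cons (P.lf 0 421137 0) (P.cons (P.lf 19001 0 0) P.nil))))) (P.cons (P.cons (P.lf 29996754 0 0) (P.cons (P.lf 10143485 0 0) (P.cons (P.lf 4512442 0 0) (P.cons (P.lf 0 488515 0) P.nil)))) (P.cons (P.cons (P.lf 235172529 0 0) (P.cons (P.lf 0 14111337 0) (P.cons (P.lf 0 6508763 0) P.nil))) (P.cons (P.cons (P.lf 0 115139968 0) (P.cons (P.lf 1854554 0 0) P.nil)) (P.cons (P.cons (P.lf 0 31142655 0) P.nil) P.nil)))))) 75965129)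
 (EL.cons 9 (TM.mk (P.cons (P.cons (P.lf 2800018440 0 0) (P.cons (P.lf 0 194285928 0) (P.cons (P.lf 0 88344598 0) (P.cons (P.lf 7549296 0 0) (P.cons (P.lf 599511 0 0) (P.cons (P.lf 0 71526 0) P.nil)))))) (P.cons (P.cons (P.lf 0 24002766 0) (P.cons (P.lf 0 36574899 0) (P.cons (P.lf 0 15967776 0) (P.cons (P.lf 2047455 0 0) (P.cons (P.lf 230859 0 0) P.nil))))) (P.cons (P.cons (P.lf 0 877140085 0) (P.cons (P.lf 45715203 0 0) (P.cons (P.lf 21180670 0 0) (P.cons (P.lf 0 1404993 0) P.nil)))) (P.cons (P.cons (P.lf 53963029 0 0) (P.cons (P.lf 7394685 0 0) (P.cons (P.lf 3273790 0 0) P.nil))) (P.cons (P.cons (P.lf 117904477 0 0) (P.cons (P.lf 0 4981165 0) P.nil)) (P.cons (P.cons (P.lf 0 8663265 0) P.nil) P.nil)))))) 17978201)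
 (EL.cons 2 (TM.mk (P.cons (P.cons (P.lf 168699380 0 0) (P.cons (P.lf 160491898 0 0) (P.cons (P.lf 0 13739073 0) (P.cons (P.lf 0 3365977 0) (P.cons (P.lf 282127 0 0) (P.cons (P.lf 10378 0 0) P.nil)))))) (P.cons (P.cons (P.lf 0 142441593 0) (P.cons (P.lf 0 136663576 0) (P.cons (P.lf 9920908 0 0) (P.cons (P.lf 2367292 0 0) (P.cons (P.lf 0 189388 0) P.nil))))) (P.cons (P.cons (P.lf 0 64058445 0) (P.cons (P.lf 0 60435410 0) (P.cons (P.lf 5955513 0 0) (P.cons (P.lf 1486873 0 0) P.nil)))) (P.cons (P.cons (P.lf 33040355 0 0) (P.cons (P.lf 32234630 0 0) (P.cons (P.lf 0 1521821 0) P.nil))) (P.cons (P.cons (P.lf 8624446 0 0) (P.cons (P.lf 8153308 0 0) P.nil)) (P.cons (P.cons (P.lf 0 3329977 0) P.nil) P.nil)))))) 9397282)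
 (EL.cons 6 (TM.mk (P.cons (P.cons (P.lf 390752064 0 0) (P.cons (P.lf 371741388 0 0) (P.cons (P.lf 0 31823310 0) (P.cons (P.lf 0 7796490 0) (P.cons (P.lf 653484 0 0) (P.cons (P.lf 24036 0 0) P.nil)))))) (P.cons (P.cons (P.lf 73560240 0 0) (P.cons (P.lf 67313130 0 0) (P.cons (P.lf 0 9881466 0) (P.cons (P.lf 0 2567412 0) (P.cons (P.lf 236106 0 0) P.nil))))) (P.cons (P.cons (P.lf 0 91943406 0) (P.cons (P.lf 0 89052330 0) (P.cons (P.lf 5181096 0 0) (P.cons (P.lf 1182450 0 0) P.nil)))) (P.cons (P.cons (P.lf 0 14872356 0) (P.cons (P.lf 0 13792110 0) (P.cons (P.lf 1731300 0 0) P.nil))) (P.cons (P.cons (P.lf 10018230 0 0) (P.cons (P.lf 9809544 0 0) P.nil)) (P.cons (P.cons (P.lf 1708830 0 0) P.nil) P.nil)))))) 6462210)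
 EL.nil))))))
noncomputable def S198_256_216_290_3 : EL := (EL.cons 0 (TM.mk (P.cons (P.lf 375392995 0 0) (P.cons (P.lf 0 727079837 0) (P.cons (P.lf 317250402 0 0) (P.cons (P.lf 44091209 0 0) (P.cons (P.lf 0 8367597 0) (P.cons (P.lf 0 1467036 0) P.nil)))))) 311496)
 (EL.cons 1 (TM.mk (P.cons (P.lf 869508750 0 0) (P.cons (P.lf 0 786249082 0) (P.cons (P.lf 0 120498519 0) (P.cons (P.lf 33042157 0 0) (P.cons (P.lf 5010903 0 0) (P.cons (P.lf 0 683975 0) P.nil)))))) 177172)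
 (EL.cons 5 (TM.mk (P.cons (P.lf 2014010580 0 0) (P.cons (P.lf 258517274 0 0) (P.cons (P.lf 0 112800140 0) (P.cons (P.lf 0 15676876 0) (P.cons (P.lf 2975142 0 0) (P.cons (P.lf 521612 0 0) P.nil)))))) 117178)
 EL.nil)))
noncomputable def S198_256_216_290_4 : EL := (EL.cons 0 (TM.mk (P.cons (P.cons (P.lf 247480535 0 0) (P.cons (P.lf 0 8586012 0) (P.cons (P.lf 0 4053121 0) (P.lf 193004 0 0)))) (P.cons (P.cons (P.lf 0 480393367 0) (P.cons (P.lf 14976671 0 0) (P.cons (P.lf 7069906 0 0) (P.lf 0 336661 0)))) (P.cons (P.cons (P.lf 172438690 0 0) (P.cons (P.lf 0 3386005 0) (P.cons (P.lf 0 1598401 0) (P.lf 76113 0 0)))) (P.cons (P.cons (P.lf 105472420 0 0) (P.cons (P.lf 0 3552222 0) (P.cons (P.lf 0 1676865 0) P.nil))) (P.cons (P.cons (P.lf 0 40515461 0) (P.cons (P.lf 251724 0 0) P.nil)) (P.cons (P.cons (P.lf 0 7877527 0) P.nil) P.nil)))))) 5668649)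
 (EL.cons 1 (TM.mk (P.cons (P.cons (P.lf 573229908 0 0) (P.cons (P.lf 0 19887457 0) (P.cons (P.lf 0 9388096 0) (P.lf 447050 0 0)))) (P.cons (P.cons (P.lf 0 520797339 0) (P.cons (P.lf 14154022 0 0) (P.cons (P.lf 6681564 0 0) (P.lf 0 318168 0)))) (P.cons (P.cons (P.lf 0 167008726 0) (P.cons (P.lf 7766407 0 0) (P.cons (P.lf 3666217 0 0) (P.lf 0 174579 0)))) (P.cons (P.cons (P.lf 108455664 0 0) (P.cons (P.lf 0 1282713 0) (P.cons (P.lf 0 605518 0) P.nil))) (P.cons (P.cons (P.lf 16065221 0 0) (P.cons (P.lf 0 840063 0) P.nil)) (P.cons (P.cons (P.lf 0 9223648 0) P.nil) P.nil)))))) 3336420)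
 (EL.cons 5 (TM.mk (P.cons (P.cons (P.lf 1327750988 0 0) (P.cons (P.lf 0 46064576 0) (P.cons (P.lf 0 21745298 0) (P.lf 1035488 0 0)))) (P.cons (P.cons (P.lf 164738396 0 0) (P.cons (P.lf 0 14782056 0) (P.cons (P.lf 0 6978034 0) (P.lf 332284 0 0)))) (P.cons (P.cons (P.lf 0 283074126 0) (P.cons (P.lf 5026866 0 0) (P.cons (P.lf 2372986 0 0) (P.lf 0 112998 0)))) (P.cons (P.cons (P.lf 0 24809438 0) (P.cons (P.lf 2107824 0 0) (P.cons (P.lf 995020 0 0) P.nil))) (P.cons (P.cons (P.lf 26898818 0 0) (P.cons (P.lf 0 228118 0) P.nil)) (P.cons (P.cons (P.lf 2652346 0 0) P.nil) P.nil)))))) 2873226)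
 EL.nil)))
noncomputable def S198_256_216_290_5 : EL := (EL.cons 0 (TM.mk (P.cons (P.cons (P.lf 163153327 0 0) (P.cons (P.lf 0 11320780 0) (P.cons (P.lf 0 5147720 0) (P.cons (P.lf 439887 0 0) (P.cons (P.lf 34931 0 0) (P.cons (P.lf 0 4166 0) P.nil)))))) (P.cons (P.cons (P.lf 0 317402092 0) (P.cons (P.lf 19795480 0 0) (P.cons (P.lf 9039941 0 0) (P.cons (P.lf 0 732693 0) (P.cons (P.lf 0 54207 0) P.nil))))) (P.cons (P.cons (P.lf 89482505 0 0) (P.cons (P.lf 0 2775844 0) (P.cons (P.lf 0 1314163 0) (P.cons (P.lf 58816 0 0) P.nil)))) (P.cons (P.cons (P.lf 120117253 0 0) (P.cons (P.lf 0 7859181 0) (P.cons (P.lf 0 3590571 0) P.nil))) (P.cons (P.cons (P.lf 0 46214662 0) (P.cons (P.lf 1128424 0 0) P.nil)) (P.cons (P.cons (P.lf 0 17763324 0) P.nil) P.nil)))))) 18699246)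
 (EL.cons 1 (TM.mk (P.cons (P.cons (P.lf 377905946 0 0) (P.cons (P.lf 0 26221901 0) (P.cons (P.lf 0 11923473 0) (P.cons (P.lf 1018893 0 0) (P.cons (P.lf 80911 0 0) (P.cons (P.lf 0 9652 0) P.nil)))))) (P.cons (P.cons (P.lf 0 344959171 0) (P.cons (P.lf 18774676 0 0) (P.cons (P.lf 8626644 0 0) (P.cons (P.lf 0 644994 0) (P.cons (P.lf 0 42005 0) P.nil))))) (P.cons (P.cons (P.lf 0 167825398 0) (P.cons (P.lf 14267536 0 0) (P.cons (P.lf 6459780 0 0) (P.cons (P.lf 0 580700 0) P.nil)))) (P.cons (P.cons (P.lf 129140735 0 0) (P.cons (P.lf 0 4893510 0) (P.cons (P.lf 0 2297523 0) P.nil))) (P.cons (P.cons (P.lf 27787899 0 0) (P.cons (P.lf 0 2768495 0) P.nil)) (P.cons (P.cons (P.lf 0 21382475 0) P.nil) P.nil)))))) 13698020)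
 (EL.cons 5 (TM.mk (P.cons (P.cons (P.lf 875329406 0 0) (P.cons (P.lf 0 60736808 0) (P.cons (P.lf 0 27617898 0) (P.cons (P.lf 2360026 0 0) (P.cons (P.lf 187416 0 0) (P.cons (P.lf 0 22358 0) P.nil)))))) (P.cons (P.cons (P.lf 104853154 0 0) (P.cons (P.lf 0 19230026 0) (P.cons (P.lf 0 8536792 0) (P.cons (P.lf 942996 0 0) (P.cons (P.lf 96226 0 0) P.nil))))) (P.cons (P.cons (P.lf 0 324196028 0) (P.cons (P.lf 16225366 0 0) (P.cons (P.lf 7527480 0 0) (P.cons (P.lf 0 489242 0) P.nil)))) (P.cons (P.cons (P.lf 0 24720680 0) (P.cons (P.lf 5259270 0 0) (P.cons (P.lf 2367910 0 0) P.nil))) (P.cons (P.cons (P.lf 55733370 0 0) (P.cons (P.lf 0 2061604 0) P.nil)) (P.cons (P.cons (P.lf 3428094 0 0) P.nil) P.nil)))))) 11867556)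
 EL.nil)))
noncomputable def S198_256_216_290_6 : EL := (EL.cons 12 (TM.mk (P.lf 8589934592 0 0) 0)
 (EL.cons 3 (TM.mk (P.cons (P.lf 0 897858742 0) (P.cons (P.lf 869508750 0 0) (P.cons (P.lf 41629830 0 0) (P.cons (P.lf 0 12412950 0) (P.cons (P.lf 0 1049171 0) (P.cons (P.lf 162840 0 0) P.nil)))))) 27209)
 (EL.cons 7 (TM.mk (P.cons (P.lf 0 2079676607 0) (P.cons (P.lf 0 133473065 0) (P.cons (P.lf 62522105 0 0) (P.cons (P.lf 4081356 0 0) (P.cons (P.lf 0 858201 0) (P.cons (P.lf 0 91532 0) P.nil)))))) 18219)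
 EL.nil)))
noncomputable def S198_256_216_290_7 : EL := (EL.cons 12 (TM.mk (P.cons (P.cons (P.lf 5662976280 0 0) (P.cons (P.lf 0 196469528 0) (P.cons (P.lf 0 92745640 0) (P.lf 4416456 0 0)))) (P.cons (P.cons (P.lf 0 24272536 0) (P.cons (P.lf 0 37828072 0) (P.cons (P.lf 0 17857160 0) (P.lf 850336 0 0)))) (P.cons (P.cons (P.lf 0 887050374 0) (P.cons (P.lf 15291816 0 0) (P.cons (P.lf 7218664 0 0) (P.lf 0 343744 0)))) (P.cons (P.cons (P.lf 50767468 0 0) (P.cons (P.lf 3379248 0 0) (P.cons (P.lf 1595208 0 0) P.nil))) (P.cons (P.cons (P.lf 49973294 0 0) (P.cons (P.lf 0 554472 0) P.nil)) (P.cons (P.cons (P.lf 0 594206 0) P.nil) P.nil)))))) 3535464)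
 (EL.cons 3 (TM.mk (P.cons (P.cons (P.lf 0 631450614 0) (P.cons (P.lf 0 41071762 0) (P.cons (P.lf 0 19388384 0) (P.lf 923254 0 0)))) (P.cons (P.cons (P.lf 0 2314861705 0) (P.cons (P.lf 31866994 0 0) (P.cons (P.lf 15043170 0 0) (P.lf 0 716340 0)))) (P.cons (P.cons (P.lf 272188022 0 0) (P.cons (P.lf 12759286 0 0) (P.cons (P.lf 6023160 0 0) (P.lf 0 286814 0)))) (P.cons (P.cons (P.lf 277342571 0 0) (P.cons (P.lf 0 2590534 0) (P.cons (P.lf 0 1222890 0) P.nil))) (P.cons (P.cons (P.lf 0 3307961 0) (P.cons (P.lf 0 1105572 0) P.nil)) (P.cons (P.cons (P.lf 0 15864870 0) P.nil) P.nil)))))) 7657317)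
 (EL.cons 7 (TM.mk (P.cons (P.cons (P.lf 0 1364973668 0) (P.cons (P.lf 57023515 0 0) (P.cons (P.lf 26918590 0 0) (P.lf 0 1281840 0)))) (P.cons (P.cons (P.lf 355340513 0 0) (P.cons (P.lf 0 4891707 0) (P.cons (P.lf 0 2309184 0) (P.lf 109958 0 0)))) (P.cons (P.cons (P.lf 0 225245066 0) (P.cons (P.lf 567000 0 0) (P.cons (P.lf 267656 0 0) (P.lf 0 12745 0)))) (P.cons (P.cons (P.lf 0 7891583 0) (P.cons (P.lf 1664484 0 0) (P.cons (P.lf 785735 0 0) P.nil))) (P.cons (P.cons (P.lf 30794642 0 0) (P.cons (P.lf 0 164611 0) P.nil)) (P.cons (P.cons (P.lf 1148665 0 0) P.nil) P.nil)))))) 7252580)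
 (EL.cons 10 (TM.mk (P.cons (P.cons (P.lf 0 612040923 0) (P.cons (P.lf 0 603498159 0) (P.cons (P.lf 18884040 0 0) (P.cons (P.lf 3460422 0 0) (P.lf 0 123585 0))))) (P.cons (P.cons (P.lf 0 78561231 0) (P.cons (P.lf 0 77464686 0) (P.cons (P.lf 2423943 0 0) (P.cons (P.lf 444177 0 0) (P.lf 0 15861 0))))) (P.cons (P.cons (P.lf 34279014 0 0) (P.cons (P.lf 33800553 0 0) (P.cons (P.lf 0 1057650 0) (P.cons (P.lf 0 193809 0) P.nil)))) (P.cons (P.cons (P.lf 4764069 0 0) (P.cons (P.lf 4697574 0 0) (P.cons (P.lf 0 146991 0) P.nil))) (P.cons (P.cons (P.lf 0 904119 0) (P.cons (P.lf 0 891501 0) P.nil)) (P.cons (P.cons (P.lf 0 158511 0) P.nil) P.nil)))))) 302268)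
 EL.nil))))
noncomputable def S198_256_216_290_8 : EL := (EL.cons 12 (TM.mk (P.cons (P.cons (P.lf 3733357920 0 0) (P.cons (P.lf 0 259047904 0) (P.cons (P.lf 0 117792798 0) (P.cons (P.lf 10065728 0 0) (P.cons (P.lf 799348 0 0) (P.cons (P.lf 0 95368 0) P.nil)))))) (P.cons (P.cons (P.lf 0 32003688 0) (P.cons (P.lf 0 48766532 0) (P.cons (P.lf 0 21290368 0) (P.cons (P.lf 2729940 0 0) (P.cons (P.lf 307812 0 0) P.nil))))) (P.cons (P.cons (P.lf 0 1169520114 0) (P.cons (P.lf 60953604 0 0) (P.cons (P.lf 28240894 0 0) (P.cons (P.lf 0 1873324 0) P.nil)))) (P.cons (P.cons (P.lf 71950706 0 0) (P.cons (P.lf 9859580 0 0) (P.cons (P.lf 4365054 0 0) P.nil))) (P.cons (P.cons (P.lf 157205970 0 0) (P.cons (P.lf 0 6641554 0) P.nil)) (P.cons (P.cons (P.lf 0 11551020 0) P.nil) P.nil)))))) 23970906)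
 (EL.cons 3 (TM.mk (P.cons (P.cons (P.lf 0 442349309 0) (P.cons (P.lf 0 52345408 0) (P.cons (P.lf 0 22361742 0) (P.cons (P.lf 3393933 0 0) (P.cons (P.lf 417756 0 0) (P.cons (P.lf 0 49841 0) P.nil)))))) (P.cons (P.cons (P.lf 0 3429861061 0) (P.cons (P.lf 174826655 0 0) (P.cons (P.lf 81158889 0 0) (P.cons (P.lf 0 5223372 0) (P.cons (P.lf 0 243696 0) P.nil))))) (P.cons (P.cons (P.lf 365283957 0 0) (P.cons (P.lf 43377798 0 0) (P.cons (P.lf 19213758 0 0) (P.cons (P.lf 0 2167705 0) P.nil)))) (P.cons (P.cons (P.lf 966226543 0 0) (P.cons (P.lf 0 39654979 0) (P.cons (P.lf 0 18610479 0) P.nil))) (P.cons (P.cons (P.lf 0 81627566 0) (P.cons (P.lf 0 9331309 0) P.nil)) (P.cons (P.cons (P.lf 0 121042886 0) P.nil) P.nil)))))) 55758267)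
 (EL.cons 7 (TM.mk (P.cons (P.cons (P.lf 0 895868275 0) (P.cons (P.lf 74908743 0 0) (P.cons (P.lf 33840963 0 0) (P.cons (P.lf 0 3119463 0) (P.cons (P.lf 0 270477 0) (P.cons (P.lf 32269 0 0) P.nil)))))) (P.cons (P.cons (P.lf 526497364 0 0) (P.cons (P.lf 0 26836583 0) (P.cons (P.lf 0 12458211 0) (P.cons (P.lf 801803 0 0) (P.cons (P.lf 37407 0 0) P.nil))))) (P.cons (P.cons (P.lf 0 327904336 0) (P.cons (P.lf 7197123 0 0) (P.cons (P.lf 3482806 0 0) (P.cons (P.lf 0 81220 0) P.nil)))) (P.cons (P.cons (P.lf 0 100949427 0) (P.cons (P.lf 10224032 0 0) (P.cons (P.lf 4679632 0 0) P.nil))) (P.cons (P.cons (P.lf 123565633 0 0) (P.cons (P.lf 0 3324343 0) P.nil)) (P.cons (P.cons (P.lf 4345967 0 0) P.nil) P.nil)))))) 44233521)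
 (EL.cons 10 (TM.mk (P.cons (P.cons (P.lf 0 806984772 0) (P.cons (P.lf 0 767723742 0) (P.cons (P.lf 65721798 0 0) (P.cons (P.lf 16101384 0 0) (P.cons (P.lf 0 1349592 0) (P.cons (P.lf 0 49650 0) P.nil)))))) (P.cons (P.cons (P.lf 0 100125228 0) (P.cons (P.lf 0 89743410 0) (P.cons (P.lf 16189296 0 0) (P.cons (P.lf 4268868 0 0) (P.cons (P.lf 0 401004 0) P.nil))))) (P.cons (P.cons (P.lf 172047696 0 0) (P.cons (P.lf 166591038 0 0) (P.cons (P.lf 0 9763254 0) (P.cons (P.lf 0 2231922 0) P.nil)))) (P.cons (P.cons (P.lf 15078756 0 0) (P.cons (P.lf 13587186 0 0) (P.cons (P.lf 0 2333214 0) P.nil))) (P.cons (P.cons (P.lf 0 16348644 0) (P.cons (P.lf 0 15981810 0) P.nil)) (P.cons (P.cons (P.lf 0 1612044 0) P.nil) P.nil)))))) 8172588)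
 EL.nil))))
noncomputable def S198_256_216_290_9 : EL := (EL.cons 3 (TM.mk (P.cons (P.lf 0 897858742 0) (P.cons (P.lf 869508750 0 0) (P.cons (P.lf 41629830 0 0) (P.cons (P.lf 0 12412950 0) (P.cons (P.lf 0 1049171 0) (P.cons (P.lf 162840 0 0) P.nil)))))) 27209)
 (EL.cons 7 (TM.mk (P.cons (P.lf 0 2079676607 0) (P.cons (P.lf 0 133473065 0) (P.cons (P.lf 62522105 0 0) (P.cons (P.lf 4081356 0 0) (P.cons (P.lf 0 858201 0) (P.cons (P.lf 0 91532 0) P.nil)))))) 18219)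
 EL.nil))
noncomputable def S198_256_216_290_10 : EL := (EL.cons 3 (TM.mk (P.cons (P.cons (P.lf 0 591919845 0) (P.cons (P.lf 20535881 0 0) (P.cons (P.lf 9694192 0 0) (P.lf 0 461627 0)))) (P.cons (P.cons (P.lf 575766983 0 0) (P.cons (P.lf 0 15933497 0) (P.cons (P.lf 0 7521585 0) (P.lf 358170 0 0)))) (P.cons (P.cons (P.lf 117706307 0 0) (P.cons (P.lf 0 6379643 0) (P.cons (P.lf 0 3011580 0) (P.lf 143407 0 0)))) (P.cons (P.cons (P.lf 0 103398316 0) (P.cons (P.lf 1295267 0 0) (P.cons (P.lf 611445 0 0) P.nil))) (P.cons (P.cons (P.lf 0 5040095 0) (P.cons (P.lf 552786 0 0) P.nil)) (P.cons (P.cons (P.lf 6758805 0 0) P.nil) P.nil)))))) 1787921)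
 (EL.cons 7 (TM.mk (P.cons (P.cons (P.lf 0 1371041789 0) (P.cons (P.lf 47566495 0 0) (P.cons (P.lf 22454296 0 0) (P.lf 0 1069251 0)))) (P.cons (P.cons (P.lf 0 82116547 0) (P.cons (P.lf 12211215 0 0) (P.cons (P.lf 5764440 0 0) (P.lf 0 274495 0)))) (P.cons (P.cons (P.lf 256355716 0 0) (P.cons (P.lf 0 4544469 0) (P.cons (P.lf 0 2145265 0) (P.lf 102155 0 0)))) (P.cons (P.cons (P.lf 4006138 0 0) (P.cons (P.lf 0 1424427 0) (P.cons (P.lf 0 672415 0) P.nil))) (P.cons (P.cons (P.lf 0 19921417 0) (P.cons (P.lf 194690 0 0) P.nil)) (P.cons (P.cons (P.lf 0 742511 0) P.nil) P.nil)))))) 1675576)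
 EL.nil))
noncomputable def S198_256_216_290_11 : EL := (EL.cons 3 (TM.mk (P.cons (P.cons (P.lf 0 390227423 0) (P.cons (P.lf 27076856 0 0) (P.cons (P.lf 12312234 0 0) (P.cons (P.lf 0 1052115 0) (P.cons (P.lf 0 83550 0) (P.cons (P.lf 9967 0 0) P.nil)))))) (P.cons (P.cons (P.lf 381251117 0 0) (P.cons (P.lf 0 21124603 0) (P.cons (P.lf 0 9698109 0) (P.cons (P.lf 733548 0 0) (P.cons (P.lf 48738 0 0) P.nil))))) (P.cons (P.cons (P.lf 137097135 0 0) (P.cons (P.lf 0 12562932 0) (P.cons (P.lf 0 5677830 0) (P.cons (P.lf 520925 0 0) P.nil)))) (P.cons (P.cons (P.lf 0 131454299 0) (P.cons (P.lf 5277407 0 0) (P.cons (P.lf 2469441 0 0) P.nil))) (P.cons (P.cons (P.lf 0 15226376 0) (P.cons (P.lf 2089745 0 0) P.nil)) (P.cons (P.cons (P.lf 19233808 0 0) P.nil) P.nil)))))) 9511643)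
 (EL.cons 7 (TM.mk (P.cons (P.cons (P.lf 0 903869179 0) (P.cons (P.lf 62717109 0 0) (P.cons (P.lf 28518369 0 0) (P.cons (P.lf 0 2436975 0) (P.cons (P.lf 0 193527 0) (P.cons (P.lf 23089 0 0) P.nil)))))) (P.cons (P.cons (P.lf 0 50261780 0) (P.cons (P.lf 15831847 0 0) (P.cons (P.lf 6984831 0 0) (P.cons (P.lf 0 817339 0) (P.cons (P.lf 0 86943 0) P.nil))))) (P.cons (P.cons (P.lf 310818740 0 0) (P.cons (P.lf 0 15884985 0) (P.cons (P.lf 0 7363838 0) (P.cons (P.lf 484388 0 0) P.nil)))) (P.cons (P.cons (P.lf 2293551 0 0) (P.cons (P.lf 0 3812212 0) (P.cons (P.lf 0 1706552 0) P.nil))) (P.cons (P.cons (P.lf 0 48079121 0) (P.cons (P.lf 1901123 0 0) P.nil)) (P.cons (P.cons (P.lf 285293 0 0) P.nil) P.nil)))))) 8768651)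
 EL.nil))
noncomputable def S198_256_216_290_12 : EL := (EL.cons 4 (TM.mk (P.cons (P.lf 897858742 0 0) (P.cons (P.lf 0 869508750 0) (P.cons (P.lf 0 41629830 0) (P.cons (P.lf 12412950 0 0) (P.cons (P.lf 1049171 0 0) (P.cons (P.lf 0 162840 0) P.nil)))))) 27209)
 (EL.cons 8 (TM.mk (P.cons (P.lf 2079676607 0 0) (P.cons (P.lf 133473065 0 0) (P.cons (P.lf 0 62522105 0) (P.cons (P.lf 0 4081356 0) (P.cons (P.lf 858201 0 0) (P.cons (P.lf 91532 0 0) P.nil)))))) 18219)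
 EL.nil))
noncomputable def S198_256_216_290_13 : EL := (EL.cons 4 (TM.mk (P.cons (P.cons (P.lf 591919845 0 0) (P.cons (P.lf 0 20535881 0) (P.cons (P.lf 0 9694192 0) (P.lf 461627 0 0)))) (P.cons (P.cons (P.lf 0 575766983 0) (P.cons (P.lf 15933497 0 0) (P.cons (P.lf 7521585 0 0) (P.lf 0 358170 0)))) (P.cons (P.cons (P.lf 0 117706307 0) (P.cons (P.lf 6379643 0 0) (P.cons (P.lf 3011580 0 0) (P.lf 0 143407 0)))) (P.cons (P.cons (P.lf 103398316 0 0) (P.cons (P.lf 0 1295267 0) (P.cons (P.lf 0 611445 0) P.nil))) (P.cons (P.cons (P.lf 5040095 0 0) (P.cons (P.lf 0 552786 0) P.nil)) (P.cons (P.cons (P.lf 0 6758805 0) P.nil) P.nil)))))) 1787921)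
 (EL.cons 8 (TM.mk (P.cons (P.cons (P.lf 1371041789 0 0) (P.cons (P.lf 0 47566495 0) (P.cons (P.lf 0 22454296 0) (P.lf 1069251 0 0)))) (P.cons (P.cons (P.lf 82116547 0 0) (P.cons (P.lf 0 12211215 0) (P.cons (P.lf 0 5764440 0) (P.lf 274495 0 0)))) (P.cons (P.cons (P.lf 0 256355716 0) (P.cons (P.lf 4544469 0 0) (P.cons (P.lf 2145265 0 0) (P.lf 0 102155 0)))) (P.cons (P.cons (P.lf 0 4006138 0) (P.cons (P.lf 1424427 0 0) (P.cons (P.lf 672415 0 0) P.nil))) (P.cons (P.cons (P.lf 19921417 0 0) (P.cons (P.lf 0 194690 0) P.nil)) (P.cons (P.cons (P.lf 742511 0 0) P.nil) P.nil)))))) 1675576)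
 EL.nil))
noncomputable def S198_256_216_290_14 : EL := (EL.cons 4 (TM.mk (P.cons (P.cons (P.lf 390227423 0 0) (P.cons (P.lf 0 27076856 0) (P.cons (P.lf 0 12312234 0) (P.cons (P.lf 1052115 0 0) (P.cons (P.lf 83550 0 0) (P.cons (P.lf 0 9967 0) P.nil)))))) (P.cons (P.cons (P.lf 0 381251117 0) (P.cons (P.lf 21124603 0 0) (P.cons (P.lf 9698109 0 0) (P.cons (P.lf 0 733548 0) (P.cons (P.lf 0 48738 0) P.nil))))) (P.cons (P.cons (P.lf 0 137097135 0) (P.cons (P.lf 12562932 0 0) (P.cons (P.lf 5677830 0 0) (P.cons (P.lf 0 520925 0) P.nil)))) (P.cons (P.cons (P.lf 131454299 0 0) (P.cons (P.lf 0 5277407 0) (P.cons (P.lf 0 2469441 0) P.nil))) (P.cons (P.cons (P.lf 15226376 0 0) (P.cons (P.lf 0 2089745 0) P.nil)) (P.cons (P.cons (P.lf 0 19233808 0) P.nil) P.nil)))))) 9511643)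
 (EL.cons 8 (TM.mk (P.cons (P.cons (P.lf 903869179 0 0) (P.cons (P.lf 0 62717109 0) (P.cons (P.lf 0 28518369 0) (P.cons (P.lf 2436975 0 0) (P.cons (P.lf 193527 0 0) (P.cons (P.lf 0 23089 0) P.nil)))))) (P.cons (P.cons (P.lf 50261780 0 0) (P.cons (P.lf 0 15831847 0) (P.cons (P.lf 0 6984831 0) (P.cons (P.lf 817339 0 0) (P.cons (P.lf 86943 0 0) P.nil))))) (P.cons (P.cons (P.lf 0 310818740 0) (P.cons (P.lf 15884985 0 0) (P.cons (P.lf 7363838 0 0) (P.cons (P.lf 0 484388 0) P.nil)))) (P.cons (P.cons (P.lf 0 2293551 0) (P.cons (P.lf 3812212 0 0) (P.cons (P.lf 1706552 0 0) P.nil))) (P.cons (P.cons (P.lf 48079121 0 0) (P.cons (P.lf 0 1901123 0) P.nil)) (P.cons (P.cons (P.lf 0 285293 0) P.nil) P.nil)))))) 8768651)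
 EL.nil))
noncomputable def S198_256_216_290_15 : EL := (EL.cons 4 (TM.mk (P.cons (P.lf 0 200209597 0) (P.cons (P.lf 387775913 0 0) (P.cons (P.lf 0 169200214 0) (P.cons (P.lf 0 23515311 0) (P.cons (P.lf 4462718 0 0) (P.cons (P.lf 782419 0 0) P.nil)))))) 166134)
 (EL.cons 8 (TM.mk (P.cons (P.lf 0 463738000 0) (P.cons (P.lf 419332844 0 0) (P.cons (P.lf 64265877 0 0) (P.cons (P.lf 0 17622484 0) (P.cons (P.lf 0 2672482 0) (P.cons (P.lf 364787 0 0) P.nil)))))) 94488)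
 EL.nil))
noncomputable def S198_256_216_290_16 : EL := (EL.cons 4 (TM.mk (P.cons (P.cons (P.lf 0 131989619 0) (P.cons (P.lf 4579206 0 0) (P.cons (P.lf 2161665 0 0) (P.lf 0 102935 0)))) (P.cons (P.cons (P.lf 256209795 0 0) (P.cons (P.lf 0 7987558 0) (P.cons (P.lf 0 3770616 0) (P.lf 179552 0 0)))) (P.cons (P.cons (P.lf 0 91967301 0) (P.cons (P.lf 1805869 0 0) (P.cons (P.lf 852480 0 0) (P.lf 0 40593 0)))) (P.cons (P.cons (P.lf 0 56251957 0) (P.cons (P.lf 1894518 0 0) (P.cons (P.lf 894328 0 0) P.nil))) (P.cons (P.cons (P.lf 21608246 0 0) (P.cons (P.lf 0 134252 0) P.nil)) (P.cons (P.cons (P.lf 4201348 0 0) P.nil) P.nil)))))) 3023288)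
 (EL.cons 8 (TM.mk (P.cons (P.cons (P.lf 0 305722618 0) (P.cons (P.lf 10606644 0 0) (P.cons (P.lf 5006985 0 0) (P.lf 0 238427 0)))) (P.cons (P.cons (P.lf 277758581 0 0) (P.cons (P.lf 0 7548812 0) (P.cons (P.lf 0 3563501 0) (P.lf 169690 0 0)))) (P.cons (P.cons (P.lf 89071321 0 0) (P.cons (P.lf 0 4142084 0) (P.cons (P.lf 0 1955316 0) (P.lf 93109 0 0)))) (P.cons (P.cons (P.lf 0 57843021 0) (P.cons (P.lf 684114 0 0) (P.cons (P.lf 322943 0 0) P.nil))) (P.cons (P.cons (P.lf 0 8568118 0) (P.cons (P.lf 448034 0 0) P.nil)) (P.cons (P.cons (P.lf 4919279 0 0) P.nil) P.nil)))))) 1779414)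
 EL.nil))
noncomputable def S198_256_216_290_17 : EL := (EL.cons 4 (TM.mk (P.cons (P.cons (P.lf 0 87015107 0) (P.cons (P.lf 6037749 0 0) (P.cons (P.lf 2745450 0 0) (P.cons (P.lf 0 234606 0) (P.cons (P.lf 0 18630 0) (P.cons (P.lf 2221 0 0) P.nil)))))) (P.cons (P.cons (P.lf 169281116 0 0) (P.cons (P.lf 0 10557589 0) (P.cons (P.lf 0 4821301 0) (P.cons (P.lf 390769 0 0) (P.cons (P.lf 28910 0 0) P.nil))))) (P.cons (P.cons (P.lf 0 47724002 0) (P.cons (P.lf 1480450 0 0) (P.cons (P.lf 700887 0 0) (P.cons (P.lf 0 31368 0) P.nil)))) (P.cons (P.cons (P.lf 0 64062535 0) (P.cons (P.lf 4191563 0 0) (P.cons (P.lf 1914971 0 0) P.nil))) (P.cons (P.cons (P.lf 24647820 0 0) (P.cons (P.lf 0 601826 0) P.nil)) (P.cons (P.cons (P.lf 9473773 0 0) P.nil) P.nil)))))) 9972941)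
 (EL.cons 8 (TM.mk (P.cons (P.cons (P.lf 0 201549838 0) (P.cons (P.lf 13985014 0 0) (P.cons (P.lf 6359186 0 0) (P.cons (P.lf 0 543410 0) (P.cons (P.lf 0 43153 0) (P.cons (P.lf 5148 0 0) P.nil)))))) (P.cons (P.cons (P.lf 183978225 0 0) (P.cons (P.lf 0 10013161 0) (P.cons (P.lf 0 4600877 0) (P.cons (P.lf 343997 0 0) (P.cons (P.lf 22403 0 0) P.nil))))) (P.cons (P.cons (P.lf 89506879 0 0) (P.cons (P.lf 0 7609353 0) (P.cons (P.lf 0 3445216 0) (P.cons (P.lf 309707 0 0) P.nil)))) (P.cons (P.cons (P.lf 0 68875059 0) (P.cons (P.lf 2609872 0 0) (P.cons (P.lf 1225346 0 0) P.nil))) (P.cons (P.cons (P.lf 0 14820213 0) (P.cons (P.lf 1476531 0 0) P.nil)) (P.cons (P.cons (P.lf 11403987 0 0) P.nil) P.nil)))))) 7305599)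
 EL.nil))
noncomputable def S198_256_216_290_18 : EL := (EL.cons 4 (TM.mk (P.cons (P.lf 44643862 0 0) (P.cons (P.lf 0 129702684 0) (P.cons (P.lf 119397478 0 0) (P.cons (P.lf 0 26667962 0) (P.cons (P.lf 0 8965736 0) (P.cons (P.lf 958581 0 0) P.nil)))))) 467642)
 (EL.cons 8 (TM.mk (P.cons (P.lf 103406910 0 0) (P.cons (P.lf 0 193647023 0) (P.cons (P.lf 71427862 0 0) (P.cons (P.lf 23572483 0 0) (P.cons (P.lf 0 3717003 0) (P.cons (P.lf 0 1166783 0) P.nil)))))) 289701)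
 EL.nil))
noncomputable def S198_256_216_290_19 : EL := (EL.cons 4 (TM.mk (P.cons (P.cons (P.lf 29431787 0 0) (P.cons (P.lf 0 1021096 0) (P.cons (P.lf 0 482020 0) (P.lf 22952 0 0)))) (P.cons (P.cons (P.lf 0 85633578 0) (P.cons (P.lf 2769966 0 0) (P.cons (P.lf 1307593 0 0) (P.lf 0 62265 0)))) (P.cons (P.cons (P.lf 74469943 0 0) (P.cons (P.lf 0 2080210 0) (P.cons (P.lf 0 981986 0) (P.lf 46760 0 0)))) (P.cons (P.cons (P.lf 0 4260666 0) (P.cons (P.lf 0 129180 0) (P.cons (P.lf 0 60980 0) P.nil))) (P.cons (P.cons (P.lf 0 18671935 0) (P.cons (P.lf 481149 0 0) P.nil)) (P.cons (P.cons (P.lf 3359184 0 0) P.nil) P.nil)))))) 3314928)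
 (EL.cons 8 (TM.mk (P.cons (P.cons (P.lf 68171750 0 0) (P.cons (P.lf 0 2365129 0) (P.cons (P.lf 0 1116485 0) (P.lf 53165 0 0)))) (P.cons (P.cons (P.lf 0 127955392 0) (P.cons (P.lf 3973726 0 0) (P.cons (P.lf 1875842 0 0) (P.lf 0 89325 0)))) (P.cons (P.cons (P.lf 36958076 0 0) (P.cons (P.lf 0 596841 0) (P.cons (P.lf 0 281745 0) (P.lf 13416 0 0)))) (P.cons (P.cons (P.lf 35946845 0 0) (P.cons (P.lf 0 1157753 0) (P.cons (P.lf 0 546530 0) P.nil))) (P.cons (P.cons (P.lf 0 10436046 0) (P.cons (P.lf 25508 0 0) P.nil)) (P.cons (P.cons (P.lf 0 3904527 0) P.nil) P.nil)))))) 2497273)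
 EL.nil))
noncomputable def S198_256_216_290_20 : EL := (EL.cons 4 (TM.mk (P.cons (P.cons (P.lf 19403117 0 0) (P.cons (P.lf 0 1346330 0) (P.cons (P.lf 0 612195 0) (P.cons (P.lf 52313 0 0) (P.cons (P.lf 4154 0 0) (P.cons (P.lf 0 495 0) P.nil)))))) (P.cons (P.cons (P.lf 0 56537718 0) (P.cons (P.lf 3658011 0 0) (P.cons (P.lf 1667946 0 0) (P.cons (P.lf 0 137797 0) (P.cons (P.lf 0 10469 0) P.nil))))) (P.cons (P.cons (P.lf 46297510 0 0) (P.cons (P.lf 0 2547552 0) (P.cons (P.lf 0 1169038 0) (P.cons (P.lf 88953 0 0) P.nil)))) (P.cons (P.cons (P.lf 5997699 0 0) (P.cons (P.lf 0 742728 0) (P.cons (P.lf 0 333968 0) P.nil))) (P.cons (P.cons (P.lf 0 20322680 0) (P.cons (P.lf 1085624 0 0) P.nil)) (P.cons (P.cons (P.lf 2647214 0 0) P.nil) P.nil)))))) 7948698)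
 (EL.cons 8 (TM.mk (P.cons (P.cons (P.lf 44942717 0 0) (P.cons (P.lf 0 3118456 0) (P.cons (P.lf 0 1418006 0) (P.cons (P.lf 121172 0 0) (P.cons (P.lf 9622 0 0) (P.cons (P.lf 0 1147 0) P.nil)))))) (P.cons (P.cons (P.lf 0 84548146 0) (P.cons (P.lf 5252782 0 0) (P.cons (P.lf 2399162 0 0) (P.cons (P.lf 0 194053 0) (P.cons (P.lf 0 14314 0) P.nil))))) (P.cons (P.cons (P.lf 17686599 0 0) (P.cons (P.lf 0 320924 0) (P.cons (P.lf 0 159555 0) (P.cons (P.lf 0 394 0) P.nil)))) (P.cons (P.cons (P.lf 37210160 0 0) (P.cons (P.lf 0 2371802 0) (P.cons (P.lf 0 1084383 0) P.nil))) (P.cons (P.cons (P.lf 0 11157766 0) (P.cons (P.lf 182895 0 0) P.nil)) (P.cons (P.cons (P.lf 0 6787384 0) P.nil) P.nil)))))) 6861700)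
 EL.nil))
noncomputable def S198_256_216_290_21 : EL := (EL.cons 4 (TM.mk (P.cons (P.cons (P.lf 39530769 0 0) (P.cons (P.lf 61607643 0 0) (P.cons (P.lf 29082576 0 0) (P.lf 0 1384881 0)))) (P.cons (P.cons (P.lf 2890628688 0 0) (P.cons (P.lf 0 47800491 0) (P.cons (P.lf 0 22564755 0) (P.lf 1074510 0 0)))) (P.cons (P.cons (P.lf 0 154481715 0) (P.cons (P.lf 0 19138929 0) (P.cons (P.lf 0 9034740 0) (P.lf 430221 0 0)))) (P.cons (P.cons (P.lf 0 380740887 0) (P.cons (P.lf 3885801 0 0) (P.cons (P.lf 1834335 0 0) P.nil))) (P.cons (P.cons (P.lf 0 1732134 0) (P.cons (P.lf 1658358 0 0) P.nil)) (P.cons (P.cons (P.lf 22623675 0 0) P.nil) P.nil)))))) 5869377)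
 (EL.cons 8 (TM.mk (P.cons (P.cons (P.lf 0 6068121 0) (P.cons (P.lf 0 9457020 0) (P.cons (P.lf 0 4464294 0) (P.lf 212589 0 0)))) (P.cons (P.cons (P.lf 0 437457060 0) (P.cons (P.lf 17102922 0 0) (P.cons (P.lf 8073624 0 0) (P.lf 0 384453 0)))) (P.cons (P.cons (P.lf 481600782 0 0) (P.cons (P.lf 0 5111469 0) (P.cons (P.lf 0 2412921 0) (P.lf 114900 0 0)))) (P.cons (P.cons (P.lf 11897721 0 0) (P.cons (P.lf 0 3088911 0) (P.cons (P.lf 0 1458150 0) P.nil))) (P.cons (P.cons (P.lf 0 50716059 0) (P.cons (P.lf 359301 0 0) P.nil)) (P.cons (P.cons (P.lf 0 1891176 0) P.nil) P.nil)))))) 5576985)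
 (EL.cons 11 (TM.mk (P.cons (P.cons (P.lf 612040923 0 0) (P.cons (P.lf 603498159 0 0) (P.cons (P.lf 0 18884040 0) (P.cons (P.lf 0 3460422 0) (P.lf 123585 0 0))))) (P.cons (P.cons (P.lf 78561231 0 0) (P.cons (P.lf 77464686 0 0) (P.cons (P.lf 0 2423943 0) (P.cons (P.lf 0 444177 0) (P.lf 15861 0 0))))) (P.cons (P.cons (P.lf 0 34279014 0) (P.cons (P.lf 0 33800553 0) (P.cons (P.lf 1057650 0 0) (P.cons (P.lf 193809 0 0) P.nil)))) (P.cons (P.cons (P.lf 0 4764069 0) (P.cons (P.lf 0 4697574 0) (P.cons (P.lf 146991 0 0) P.nil))) (P.cons (P.cons (P.lf 904119 0 0) (P.cons (P.lf 891501 0 0) P.nil)) (P.cons (P.cons (P.lf 158511 0 0) P.nil) P.nil)))))) 302268)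
 EL.nil)))
noncomputable def S198_256_216_290_22 : EL := (EL.cons 4 (TM.mk (P.cons (P.cons (P.lf 26060943 0 0) (P.cons (P.lf 39711132 0 0) (P.cons (P.lf 17336988 0 0) (P.cons (P.lf 0 2223024 0) (P.cons (P.lf 0 250653 0) (P.cons (P.lf 29904 0 0) P.nil)))))) (P.cons (P.cons (P.lf 1905556089 0 0) (P.cons (P.lf 0 97975629 0) (P.cons (P.lf 0 45428499 0) (P.cons (P.lf 2978460 0 0) (P.cons (P.lf 146217 0 0) P.nil))))) (P.cons (P.cons (P.lf 0 114093411 0) (P.cons (P.lf 0 27970365 0) (P.cons (P.lf 0 12445794 0) (P.cons (P.lf 1344315 0 0) P.nil)))) (P.cons (P.cons (P.lf 0 548840421 0) (P.cons (P.lf 22466193 0 0) (P.cons (P.lf 10539960 0 0) P.nil))) (P.cons (P.cons (P.lf 33200595 0 0) (P.cons (P.lf 5710527 0 0) P.nil)) (P.cons (P.cons (P.lf 70138347 0 0) P.nil) P.nil)))))) 23123301)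
 (EL.cons 8 (TM.mk (P.cons (P.cons (P.lf 0 4000452 0) (P.cons (P.lf 0 6095817 0) (P.cons (P.lf 0 2661297 0) (P.cons (P.lf 341244 0 0) (P.cons (P.lf 38475 0 0) (P.cons (P.lf 0 4590 0) P.nil)))))) (P.cons (P.cons (P.lf 0 288379572 0) (P.cons (P.lf 21334215 0 0) (P.cons (P.lf 9721521 0 0) (P.cons (P.lf 0 809571 0) (P.cons (P.lf 0 62175 0) P.nil))))) (P.cons (P.cons (P.lf 319361538 0 0) (P.cons (P.lf 0 11541054 0) (P.cons (P.lf 0 5423322 0) (P.cons (P.lf 282804 0 0) P.nil)))) (P.cons (P.cons (P.lf 51621489 0 0) (P.cons (P.lf 0 7018122 0) (P.cons (P.lf 0 3193092 0) P.nil))) (P.cons (P.cons (P.lf 0 85822377 0) (P.cons (P.lf 2612733 0 0) P.nil)) (P.cons (P.cons (P.lf 0 2030337 0) P.nil) P.nil)))))) 17732424)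
 (EL.cons 11 (TM.mk (P.cons (P.cons (P.lf 403492386 0 0) (P.cons (P.lf 383861871 0 0) (P.cons (P.lf 0 32860899 0) (P.cons (P.lf 0 8050692 0) (P.cons (P.lf 674796 0 0) (P.cons (P.lf 24825 0 0) P.nil)))))) (P.cons (P.cons (P.lf 50062614 0 0) (P.cons (P.lf 44871705 0 0) (P.cons (P.lf 0 8094648 0) (P.cons (P.lf 0 2134434 0) (P.cons (P.lf 200502 0 0) P.nil))))) (P.cons (P.cons (P.lf 0 86023848 0) (P.cons (P.lf 0 83295519 0) (P.cons (P.lf 4881627 0 0) (P.cons (P.lf 1115961 0 0) P.nil)))) (P.cons (P.cons (P.lf 0 7539378 0) (P.cons (P.lf 0 6793593 0) (P.cons (P.lf 1166607 0 0) P.nil))) (P.cons (P.cons (P.lf 8174322 0 0) (P.cons (P.lf 7990905 0 0) P.nil)) (P.cons (P.cons (P.lf 806022 0 0) P.nil) P.nil)))))) 4086294)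
 EL.nil)))
noncomputable def S198_256_216_290_23 : EL := (EL.cons 4 (TM.mk (P.cons (P.cons (P.lf 0 8814792 0) (P.cons (P.lf 0 13737618 0) (P.cons (P.lf 0 6484995 0) (P.lf 308808 0 0)))) (P.cons (P.cons (P.lf 0 636032196 0) (P.cons (P.lf 23962674 0 0) (P.cons (P.lf 11311848 0 0) (P.lf 0 538656 0)))) (P.cons (P.cons (P.lf 659072238 0 0) (P.cons (P.lf 0 5417607 0) (P.cons (P.lf 0 2557443 0) (P.lf 121782 0 0)))) (P.cons (P.cons (P.lf 81304215 0 0) (P.cons (P.lf 0 5683557 0) (P.cons (P.lf 0 2682984 0) P.nil))) (P.cons (P.cons (P.lf 0 92351454 0) (P.cons (P.lf 402759 0 0) P.nil)) (P.cons (P.cons (P.lf 0 9630594 0) P.nil) P.nil)))))) 10617708)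
 (EL.cons 8 (TM.mk (P.cons (P.cons (P.lf 1353102 0 0) (P.cons (P.lf 2108778 0 0) (P.cons (P.lf 995472 0 0) (P.lf 0 47403 0)))) (P.cons (P.cons (P.lf 96236259 0 0) (P.cons (P.lf 0 5855898 0) (P.cons (P.lf 0 2764341 0) (P.lf 131634 0 0)))) (P.cons (P.cons (P.lf 0 201919383 0) (P.cons (P.lf 4735296 0 0) (P.cons (P.lf 2235348 0 0) (P.lf 0 106443 0)))) (P.cons (P.cons (P.lf 96842070 0 0) (P.cons (P.lf 0 209031 0) (P.cons (P.lf 0 98676 0) P.nil))) (P.cons (P.cons (P.lf 20207583 0 0) (P.cons (P.lf 0 850260 0) P.nil)) (P.cons (P.cons (P.lf 0 11778090 0) P.nil) P.nil)))))) 4441572)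
 (EL.cons 11 (TM.mk (P.cons (P.cons (P.lf 0 136476330 0) (P.cons (P.lf 0 134571417 0) (P.cons (P.lf 4210869 0 0) (P.cons (P.lf 771624 0 0) (P.lf 0 27555 0))))) (P.cons (P.cons (P.lf 114649047 0 0) (P.cons (P.lf 113048796 0 0) (P.cons (P.lf 0 3537405 0) (P.cons (P.lf 0 648213 0) (P.lf 23148 0 0))))) (P.cons (P.cons (P.lf 30936435 0 0) (P.cons (P.lf 30504630 0 0) (P.cons (P.lf 0 954516 0) (P.cons (P.lf 0 174909 0) P.nil)))) (P.cons (P.cons (P.lf 0 7414614 0) (P.cons (P.lf 0 7311120 0) (P.cons (P.lf 228771 0 0) P.nil))) (P.cons (P.cons (P.lf 0 1986450 0) (P.cons (P.lf 0 1958724 0) P.nil)) (P.cons (P.cons (P.lf 220593 0 0) P.nil) P.nil)))))) 786423)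
 EL.nil)))
noncomputable def S198_256_216_290_24 : EL := (EL.cons 4 (TM.mk (P.cons (P.cons (P.lf 0 5811216 0) (P.cons (P.lf 0 8855010 0) (P.cons (P.lf 0 3865899 0) (P.cons (P.lf 495702 0 0) (P.cons (P.lf 55890 0 0) (P.cons (P.lf 0 6666 0) P.nil)))))) (P.cons (P.cons (P.lf 0 419283900 0) (P.cons (P.lf 30422568 0 0) (P.cons (P.lf 13873734 0 0) (P.cons (P.lf 0 1144203 0) (P.cons (P.lf 0 86730 0) P.nil))))) (P.cons (P.cons (P.lf 437205624 0 0) (P.cons (P.lf 0 14509770 0) (P.cons (P.lf 0 6855570 0) (P.cons (P.lf 320436 0 0) P.nil)))) (P.cons (P.cons (P.lf 117366618 0 0) (P.cons (P.lf 0 12185073 0) (P.cons (P.lf 0 5560989 0) P.nil))) (P.cons (P.cons (P.lf 0 132983325 0) (P.cons (P.lf 3580599 0 0) P.nil)) (P.cons (P.cons (P.lf 0 14288481 0) P.nil) P.nil)))))) 31839990)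
 (EL.cons 8 (TM.mk (P.cons (P.cons (P.lf 892041 0 0) (P.cons (P.lf 1359279 0 0) (P.cons (P.lf 593430 0 0) (P.cons (P.lf 0 76092 0) (P.cons (P.lf 0 8577 0) (P.cons (P.lf 1023 0 0) P.nil)))))) (P.cons (P.cons (P.lf 63440622 0 0) (P.cons (P.lf 0 6073581 0) (P.cons (P.lf 0 2742453 0) (P.cons (P.lf 254211 0 0) (P.cons (P.lf 22173 0 0) P.nil))))) (P.cons (P.cons (P.lf 0 133528473 0) (P.cons (P.lf 7117479 0 0) (P.cons (P.lf 3281118 0 0) (P.cons (P.lf 0 234354 0) P.nil)))) (P.cons (P.cons (P.lf 54484434 0 0) (P.cons (P.lf 0 687927 0) (P.cons (P.lf 0 350409 0) P.nil))) (P.cons (P.cons (P.lf 34476447 0 0) (P.cons (P.lf 0 2281629 0) P.nil)) (P.cons (P.cons (P.lf 0 18455997 0) P.nil) P.nil)))))) 11215884)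
 (EL.cons 11 (TM.mk (P.cons (P.cons (P.lf 0 89973003 0) (P.cons (P.lf 0 85595679 0) (P.cons (P.lf 7327506 0 0) (P.cons (P.lf 1795188 0 0) (P.cons (P.lf 0 150468 0) (P.cons (P.lf 0 5535 0) P.nil)))))) (P.cons (P.cons (P.lf 75968850 0 0) (P.cons (P.lf 72887241 0 0) (P.cons (P.lf 0 5291151 0) (P.cons (P.lf 0 1262556 0) (P.cons (P.lf 101007 0 0) P.nil))))) (P.cons (P.cons (P.lf 34164504 0 0) (P.cons (P.lf 32232219 0 0) (P.cons (P.lf 0 3176274 0) (P.cons (P.lf 0 792999 0) P.nil)))) (P.cons (P.cons (P.lf 0 17621523 0) (P.cons (P.lf 0 17191803 0) (P.cons (P.lf 811638 0 0) P.nil))) (P.cons (P.cons (P.lf 0 4599705 0) (P.cons (P.lf 0 4348431 0) P.nil)) (P.cons (P.cons (P.lf 1775988 0 0) P.nil) P.nil)))))) 5011872)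
 EL.nil)))
noncomputable def S198_256_216_290_25 : EL := (EL.cons 4 (TM.mk (P.cons (P.cons (P.lf 1965570 0 0) (P.cons (P.lf 3063291 0 0) (P.cons (P.lf 1446060 0 0) (P.lf 0 68859 0)))) (P.cons (P.cons (P.lf 139922529 0 0) (P.cons (P.lf 0 8309898 0) (P.cons (P.lf 0 3922779 0) (P.lf 186798 0 0)))) (P.cons (P.cons (P.lf 0 284402640 0) (P.cons (P.lf 6240633 0 0) (P.cons (P.lf 2945958 0 0) (P.lf 0 140283 0)))) (P.cons (P.cons (P.lf 117644886 0 0) (P.cons (P.lf 387543 0 0) (P.cons (P.lf 182943 0 0) P.nil))) (P.cons (P.cons (P.lf 46927389 0 0) (P.cons (P.lf 0 1443447 0) P.nil)) (P.cons (P.cons (P.lf 0 18821148 0) P.nil) P.nil)))))) 9835443)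
 (EL.cons 8 (TM.mk (P.cons (P.cons (P.lf 0 301722 0) (P.cons (P.lf 0 470226 0) (P.cons (P.lf 0 221976 0) (P.lf 10569 0 0)))) (P.cons (P.cons (P.lf 0 21167106 0) (P.cons (P.lf 1761159 0 0) (P.cons (P.lf 831375 0 0) (P.lf 0 39588 0)))) (P.cons (P.cons (P.lf 65820831 0 0) (P.cons (P.lf 0 2298651 0) (P.cons (P.lf 0 1085103 0) (P.lf 51669 0 0)))) (P.cons (P.cons (P.lf 0 64207032 0) (P.cons (P.lf 1002129 0 0) (P.cons (P.lf 473064 0 0) P.nil))) (P.cons (P.cons (P.lf 14021892 0 0) (P.cons (P.lf 210915 0 0) P.nil)) (P.cons (P.cons (P.lf 8588760 0 0) P.nil) P.nil)))))) 5393829)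
 (EL.cons 11 (TM.mk (P.cons (P.cons (P.lf 30432258 0 0) (P.cons (P.lf 30007491 0 0) (P.cons (P.lf 0 938961 0) (P.cons (P.lf 0 172059 0) (P.lf 6144 0 0))))) (P.cons (P.cons (P.lf 0 55036449 0) (P.cons (P.lf 0 54268257 0) (P.cons (P.lf 1698105 0 0) (P.cons (P.lf 311169 0 0) (P.lf 0 11112 0))))) (P.cons (P.cons (P.lf 16448475 0 0) (P.cons (P.lf 16218891 0 0) (P.cons (P.lf 0 507504 0) (P.cons (P.lf 0 92997 0) P.nil)))) (P.cons (P.cons (P.lf 9939984 0 0) (P.cons (P.lf 9801246 0 0) (P.cons (P.lf 0 306690 0) P.nil))) (P.cons (P.cons (P.lf 0 1156227 0) (P.cons (P.lf 0 1140087 0) P.nil)) (P.cons (P.cons (P.lf 0 685575 0) P.nil) P.nil)))))) 1300173)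
 EL.nil)))
noncomputable def S198_256_216_290_26 : EL := (EL.cons 4 (TM.mk (P.cons (P.cons (P.lf 1295817 0 0) (P.cons (P.lf 1974540 0 0) (P.cons (P.lf 862038 0 0) (P.cons (P.lf 0 110532 0) (P.cons (P.lf 0 12462 0) (P.cons (P.lf 1485 0 0) P.nil)))))) (P.cons (P.cons (P.lf 92239380 0 0) (P.cons (P.lf 0 8695989 0) (P.cons (P.lf 0 3928464 0) (P.cons (P.lf 362184 0 0) (P.cons (P.lf 31407 0 0) P.nil))))) (P.cons (P.cons (P.lf 0 188092845 0) (P.cons (P.lf 9713514 0 0) (P.cons (P.lf 4484685 0 0) (P.cons (P.lf 0 313410 0) P.nil)))) (P.cons (P.cons (P.lf 63924213 0 0) (P.cons (P.lf 0 74379 0) (P.cons (P.lf 0 85047 0) P.nil))) (P.cons (P.cons (P.lf 60812379 0 0) (P.cons (P.lf 0 3671217 0) P.nil)) (P.cons (P.cons (P.lf 0 25556292 0) P.nil) P.nil)))))) 22617264)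
 (EL.cons 8 (TM.mk (P.cons (P.cons (P.lf 0 198912 0) (P.cons (P.lf 0 303099 0) (P.cons (P.lf 0 132324 0) (P.cons (P.lf 16965 0 0) (P.cons (P.lf 1911 0 0) (P.cons (P.lf 0 228 0) P.nil)))))) (P.cons (P.cons (P.lf 0 13953714 0) (P.cons (P.lf 1647849 0 0) (P.cons (P.lf 739674 0 0) (P.cons (P.lf 0 73116 0) (P.cons (P.lf 0 6795 0) P.nil))))) (P.cons (P.cons (P.lf 43483827 0 0) (P.cons (P.lf 0 2884599 0) (P.cons (P.lf 0 1317723 0) (P.cons (P.lf 106365 0 0) P.nil)))) (P.cons (P.cons (P.lf 0 40330872 0) (P.cons (P.lf 1623396 0 0) (P.cons (P.lf 756492 0 0) P.nil))) (P.cons (P.cons (P.lf 2501538 0 0) (P.cons (P.lf 452172 0 0) P.nil)) (P.cons (P.cons (P.lf 12518886 0 0) P.nil) P.nil)))))) 9641691)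
 (EL.cons 11 (TM.mk (P.cons (P.cons (P.lf 20062686 0 0) (P.cons (P.lf 19086606 0 0) (P.cons (P.lf 0 1633929 0) (P.cons (P.lf 0 400299 0) (P.cons (P.lf 33552 0 0) (P.cons (P.lf 1233 0 0) P.nil)))))) (P.cons (P.cons (P.lf 0 36369168 0) (P.cons (P.lf 0 34736751 0) (P.cons (P.lf 2762187 0 0) (P.cons (P.lf 669192 0 0) (P.cons (P.lf 0 55014 0) P.nil))))) (P.cons (P.cons (P.lf 7856667 0 0) (P.cons (P.lf 7667337 0 0) (P.cons (P.lf 0 358572 0) (P.cons (P.lf 0 77253 0) P.nil)))) (P.cons (P.cons (P.lf 12369795 0 0) (P.cons (P.lf 11811351 0 0) (P.cons (P.lf 0 944175 0) P.nil))) (P.cons (P.cons (P.lf 0 2637138 0) (P.cons (P.lf 0 2611989 0) P.nil)) (P.cons (P.cons (P.lf 0 1700244 0) P.nil) P.nil)))))) 4533096)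
 EL.nil)))
noncomputable def S198_256_216_290_27 : EL := (EL.cons 13 (TM.mk (P.lf 0 4294967296 0) 0)
 EL.nil)
noncomputable def S198_256_216_290_28 : EL := (EL.cons 13 (TM.mk (P.cons (P.cons (P.lf 0 2831488140 0) (P.cons (P.lf 98234764 0 0) (P.cons (P.lf 46372820 0 0) (P.lf 0 2208228 0)))) (P.cons (P.cons (P.lf 12136268 0 0) (P.cons (P.lf 18914036 0 0) (P.cons (P.lf 8928580 0 0) (P.lf 0 425168 0)))) (P.cons (P.cons (P.lf 443525187 0 0) (P.cons (P.lf 0 7645908 0) (P.cons (P.lf 0 3609332 0) (P.lf 171872 0 0)))) (P.cons (P.cons (P.lf 0 25383734 0) (P.cons (P.lf 0 1689624 0) (P.cons (P.lf 0 797604 0) P.nil))) (P.cons (P.cons (P.lf 0 24986647 0) (P.cons (P.lf 277236 0 0) P.nil)) (P.cons (P.cons (P.lf 297103 0 0) P.nil) P.nil)))))) 1767732)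
 EL.nil)
noncomputable def S198_256_216_290_29 : EL := (EL.cons 13 (TM.mk (P.cons (P.cons (P.lf 0 1866678960 0) (P.cons (P.lf 129523952 0 0) (P.cons (P.lf 58896399 0 0) (P.cons (P.lf 0 5032864 0) (P.cons (P.lf 0 399674 0) (P.cons (P.lf 47684 0 0) P.nil)))))) (P.cons (P.cons (P.lf 16001844 0 0) (P.cons (P.lf 24383266 0 0) (P.cons (P.lf 10645184 0 0) (P.cons (P.lf 0 1364970 0) (P.cons (P.lf 0 153906 0) P.nil))))) (P.cons (P.cons (P.lf 584760057 0 0) (P.cons (P.lf 0 30476802 0) (P.cons (P.lf 0 14120447 0) (P.cons (P.lf 936662 0 0) P.nil)))) (P.cons (P.cons (P.lf 0 35975353 0) (P.cons (P.lf 0 4929790 0) (P.cons (P.lf 0 2182527 0) P.nil))) (P.cons (P.cons (P.lf 0 78602985 0) (P.cons (P.lf 3320777 0 0) P.nil)) (P.cons (P.cons (P.lf 5775510 0 0) P.nil) P.nil)))))) 11985453)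
 EL.nil)
noncomputable def S198_256_216_290_30 : EL := (EL.cons 13 (TM.mk (P.cons (P.lf 957715992 0 0) (P.cons (P.lf 0 927476000 0) (P.cons (P.lf 0 44405152 0) (P.cons (P.lf 13240480 0 0) (P.cons (P.lf 1119116 0 0) (P.cons (P.lf 0 173696 0) P.nil)))))) 29016)
 EL.nil)
noncomputable def S198_256_216_290_31 : EL := (EL.cons 13 (TM.mk (P.cons (P.cons (P.lf 631381169 0 0) (P.cons (P.lf 0 21904940 0) (P.cons (P.lf 0 10340472 0) (P.lf 492403 0 0)))) (P.cons (P.cons (P.lf 0 614151449 0) (P.cons (P.lf 16995731 0 0) (P.cons (P.lf 8023025 0 0) (P.lf 0 382049 0)))) (P.cons (P.cons (P.lf 0 125553395 0) (P.cons (P.lf 6804953 0 0) (P.cons (P.lf 3212352 0 0) (P.lf 0 152968 0)))) (P.cons (P.cons (P.lf 110291538 0 0) (P.cons (P.lf 0 1381619 0) (P.cons (P.lf 0 652208 0) P.nil))) (P.cons (P.cons (P.lf 5376102 0 0) (P.cons (P.lf 0 589639 0) P.nil)) (P.cons (P.cons (P.lf 0 7209393 0) P.nil) P.nil))))))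 1907096)
 EL.nil)
noncomputable def S198_256_216_290_32 : EL := (EL.cons 13 (TM.mk (P.cons (P.cons (P.lf 416242585 0 0) (P.cons (P.lf 0 28881980 0) (P.cons (P.lf 0 13133050 0) (P.cons (P.lf 1122256 0 0) (P.cons (P.lf 89121 0 0) (P.cons (P.lf 0 10632 0) P.nil)))))) (P.cons (P.cons (P.lf 0 406667859 0) (P.cons (P.lf 22532910 0 0) (P.cons (P.lf 10344650 0 0) (P.cons (P.lf 0 782452 0) (P.cons (P.lf 0 51988 0) P.nil))))) (P.cons (P.cons (P.lf 0 146236944 0) (P.cons (P.lf 13400461 0 0) (P.cons (P.lf 6056352 0 0) (P.cons (P.lf 0 555654 0) P.nil)))) (P.cons (P.cons (P.lf 140217919 0 0) (P.cons (P.lf 0 5629235 0) (P.cons (P.lf 0 2634071 0) P.nil))) (P.cons (P.cons (P.lf 16241468 0 0) (P.cons (P.lf 0 2229062 0) P.nil)) (P.cons (P.cons (P.lf 0 20516062 0) P.nil) P.nil)))))) 10145730)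
 EL.nil)
noncomputable def S198_256_216_290_33 : EL := (EL.cons 14 (TM.mk (P.lf 8589934592 0 0) 0)
 EL.nil)
noncomputable def S198_256_216_290_34 : EL := (EL.cons 14 (TM.mk (P.cons (P.cons (P.lf 5662976280 0 0) (P.cons (P.lf 0 196469528 0) (P.cons (P.lf 0 92745640 0) (P.lf 4416456 0 0)))) (P.cons (P.cons (P.lf 0 24272536 0) (P.cons (P.lf 0 37828072 0) (P.cons (P.lf 0 17857160 0) (P.lf 850336 0 0)))) (P.cons (P.cons (P.lf 0 887050374 0) (P.cons (P.lf 15291816 0 0) (P.cons (P.lf 7218664 0 0) (P.lf 0 343744 0)))) (P.cons (P.cons (P.lf 50767468 0 0) (P.cons (P.lf 3379248 0 0) (P.cons (P.lf 1595208 0 0) P.nil))) (P.cons (P.cons (P.lf 49973294 0 0) (P.cons (P.lf 0 554472 0) P.nil)) (P.cons (P.cons (P.lf 0 594206 0) P.nil) P.nil)))))) 3535464)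
 EL.nil)
noncomputable def S198_256_216_290_35 : EL := (EL.cons 14 (TM.mk (P.cons (P.cons (P.lf 3733357920 0 0) (P.cons (P.lf 0 259047904 0) (P.cons (P.lf 0 117792798 0) (P.cons (P.lf 10065728 0 0) (P.cons (P.lf 799348 0 0) (P.cons (P.lf 0 95368 0) P.nil)))))) (P.cons (P.cons (P.lf 0 32003688 0) (P.cons (P.lf 0 48766532 0) (P.cons (P.lf 0 21290368 0) (P.cons (P.lf 2729940 0 0) (P.cons (P.lf 307812 0 0) P.nil))))) (P.cons (P.cons (P.lf 0 1169520114 0) (P.cons (P.lf 60953604 0 0) (P.cons (P.lf 28240894 0 0) (P.cons (P.lf 0 1873324 0) P.nil)))) (P.cons (P.cons (P.lf 71950706 0 0) (P.cons (P.lf 9859580 0 0) (P.cons (P.lf 4365054 0 0) P.nil))) (P.cons (P.cons (P.lf 157205970 0 0) (P.cons (P.lf 0 6641554 0) P.nil)) (P.cons (P.cons (P.lf 0 11551020 0) P.nil) P.nil)))))) 23970906)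
 EL.nil)
noncomputable def S198_256_216_290_36 : EL := (EL.cons 14 (TM.mk (P.cons (P.lf 0 1915431984 0) (P.cons (P.lf 1854952000 0 0) (P.cons (P.lf 88810304 0 0) (P.cons (P.lf 0 26480960 0) (P.cons (P.lf 0 2238232 0) (P.cons (P.lf 347392 0 0) P.nil)))))) 58032)
 EL.nil)
noncomputable def S198_256_216_290_37 : EL := (EL.cons 14 (TM.mk (P.cons (P.cons (P.lf 0 1262762338 0) (P.cons (P.lf 43809880 0 0) (P.cons (P.lf 20680944 0 0) (P.lf 0 984806 0)))) (P.cons (P.cons (P.lf 1228302898 0 0) (P.cons (P.lf 0 33991462 0) (P.cons (P.lf 0 16046050 0) (P.lf 764098 0 0)))) (P.cons (P.cons (P.lf 251106790 0 0) (P.cons (P.lf 0 13609906 0) (P.cons (P.lf 0 6424704 0) (P.lf 305936 0 0)))) (P.cons (P.cons (P.lf 0 220583076 0) (P.cons (P.lf 2763238 0 0) (P.cons (P.lf 1304416 0 0) P.nil))) (P.cons (P.cons (P.lf 0 10752204 0) (P.cons (P.lf 1179278 0 0) P.nil)) (P.cons (P.cons (P.lf 14418786 0 0) P.nil)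 P.nil)))))) 3814192)
 EL.nil)
noncomputable def S198_256_216_290_38 : EL := (EL.cons 14 (TM.mk (P.cons (P.cons (P.lf 0 832485170 0) (P.cons (P.lf 57763960 0 0) (P.cons (P.lf 26266100 0 0) (P.cons (P.lf 0 2244512 0) (P.cons (P.lf 0 178242 0) (P.cons (P.lf 21264 0 0) P.nil)))))) (P.cons (P.cons (P.lf 813335718 0 0) (P.cons (P.lf 0 45065820 0) (P.cons (P.lf 0 20689300 0) (P.cons (P.lf 1564904 0 0) (P.cons (P.lf 103976 0 0) P.nil))))) (P.cons (P.cons (P.lf 292473888 0 0) (P.cons (P.lf 0 26800922 0) (P.cons (P.lf 0 12112704 0) (P.cons (P.lf 1111308 0 0) P.nil)))) (P.cons (P.cons (P.lf 0 280435838 0) (P.cons (P.lf 11258470 0 0) (P.cons (P.lf 5268142 0 0) P.nil))) (P.cons (P.cons (P.lf 0 32482936 0) (P.cons (P.lf 4458124 0 0) P.nil)) (P.cons (P.cons (P.lf 41032124 0 0) P.nil) P.nil)))))) 20291460)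
 EL.nil)
noncomputable def S198_256_216_290_39 : EL := (EL.cons 14 (TM.mk (P.cons (P.lf 427113808 0 0) (P.cons (P.lf 0 827255282 0) (P.cons (P.lf 360960458 0 0) (P.cons (P.lf 50165998 0 0) (P.cons (P.lf 0 9520466 0) (P.cons (P.lf 0 1669162 0) P.nil)))))) 354406)
 EL.nil)
noncomputable def S198_256_216_290_40 : EL := (EL.cons 14 (TM.mk (P.cons (P.cons (P.lf 281577854 0 0) (P.cons (P.lf 0 9768974 0) (P.cons (P.lf 0 4611552 0) (P.lf 219596 0 0)))) (P.cons (P.cons (P.lf 0 546580898 0) (P.cons (P.lf 17040124 0 0) (P.cons (P.lf 8043982 0 0) (P.lf 0 383046 0)))) (P.cons (P.cons (P.lf 196196910 0 0) (P.cons (P.lf 0 3852522 0) (P.cons (P.lf 0 1818626 0) (P.lf 86600 0 0)))) (P.cons (P.cons (P.lf 120004176 0 0) (P.cons (P.lf 0 4041640 0) (P.cons (P.lf 0 1907900 0) P.nil))) (P.cons (P.cons (P.lf 0 46097592 0) (P.cons (P.lf 286406 0 0) P.nil)) (P.cons (P.cons (P.lf 0 8962876 0) P.nil) P.nil))))))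 6449642)
 EL.nil)
noncomputable def S198_256_216_290_41 : EL := (EL.cons 14 (TM.mk (P.cons (P.cons (P.lf 185632230 0 0) (P.cons (P.lf 0 12880532 0) (P.cons (P.lf 0 5856962 0) (P.cons (P.lf 500494 0 0) (P.cons (P.lf 39744 0 0) (P.cons (P.lf 0 4740 0) P.nil)))))) (P.cons (P.cons (P.lf 0 361133048 0) (P.cons (P.lf 22522858 0 0) (P.cons (P.lf 10285444 0 0) (P.cons (P.lf 0 833642 0) (P.cons (P.lf 0 61676 0) P.nil))))) (P.cons (P.cons (P.lf 101811206 0 0) (P.cons (P.lf 0 3158294 0) (P.cons (P.lf 0 1495226 0) (P.cons (P.lf 66920 0 0) P.nil)))) (P.cons (P.cons (P.lf 136666742 0 0) (P.cons (P.lf 0 8942002 0) (P.cons (P.lf 0 4085272 0) P.nil))) (P.cons (P.cons (P.lf 0 52582016 0) (P.cons (P.lf 1283896 0 0) P.nil)) (P.cons (P.cons (P.lf 0 20210716 0) P.nil) P.nil)))))) 21275562)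
 EL.nil)
noncomputable def S198_256_216_290_42 : EL := (EL.cons 14 (TM.mk (P.cons (P.lf 0 95240240 0) (P.cons (P.lf 276699060 0 0) (P.cons (P.lf 0 254714620 0) (P.cons (P.lf 56891654 0 0) (P.cons (P.lf 19126904 0 0) (P.cons (P.lf 0 2044974 0) P.nil)))))) 997622)
 EL.nil)
noncomputable def S198_256_216_290_43 : EL := (EL.cons 14 (TM.mk (P.cons (P.cons (P.lf 0 62787814 0) (P.cons (P.lf 2178340 0 0) (P.cons (P.lf 1028310 0 0) (P.lf 0 48966 0)))) (P.cons (P.cons (P.lf 182684968 0 0) (P.cons (P.lf 0 5909262 0) (P.cons (P.lf 0 2789532 0) (P.lf 132834 0 0)))) (P.cons (P.cons (P.lf 0 158869212 0) (P.cons (P.lf 4437782 0 0) (P.cons (P.lf 2094904 0 0) (P.lf 0 99756 0)))) (P.cons (P.cons (P.lf 9089422 0 0) (P.cons (P.lf 275586 0 0) (P.cons (P.lf 130092 0 0) P.nil))) (P.cons (P.cons (P.lf 39833462 0 0) (P.cons (P.lf 0 1026452 0) P.nil)) (P.cons (P.cons (P.lf 0 7166260 0) P.nil) P.nil))))))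 7071806)
 EL.nil)
noncomputable def S198_256_216_290_44 : EL := (EL.cons 14 (TM.mk (P.cons (P.cons (P.lf 0 41393318 0) (P.cons (P.lf 2872172 0 0) (P.cons (P.lf 1306018 0 0) (P.cons (P.lf 0 111602 0) (P.cons (P.lf 0 8862 0) (P.cons (P.lf 1056 0 0) P.nil)))))) (P.cons (P.cons (P.lf 120613800 0 0) (P.cons (P.lf 0 7803758 0) (P.cons (P.lf 0 3558286 0) (P.cons (P.lf 293968 0 0) (P.cons (P.lf 22334 0 0) P.nil))))) (P.cons (P.cons (P.lf 0 98768022 0) (P.cons (P.lf 5434778 0 0) (P.cons (P.lf 2493948 0 0) (P.cons (P.lf 0 189768 0) P.nil)))) (P.cons (P.cons (P.lf 0 12795092 0) (P.cons (P.lf 1584488 0 0) (P.cons (P.lf 712466 0 0) P.nil))) (P.cons (P.cons (P.lf 43355052 0 0) (P.cons (P.lf 0 2315998 0) P.nil)) (P.cons (P.cons (P.lf 0 5647390 0) P.nil) P.nil)))))) 16957176)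
 EL.nil)
noncomputable def S198_256_216_290_45 : EL := (EL.cons 14 (TM.mk (P.cons (P.cons (P.lf 2461243110 0 0) (P.cons (P.lf 0 256168796 0) (P.cons (P.lf 0 112039906 0) (P.cons (P.lf 14046492 0 0) (P.cons (P.lf 1435374 0 0) (P.cons (P.lf 0 250396 0) P.nil)))))) (P.cons (P.cons (P.lf 0 31647992 0) (P.cons (P.lf 0 47126544 0) (P.cons (P.lf 0 18862338 0) (P.cons (P.lf 4195148 0 0) (P.cons (P.lf 517930 0 0) P.nil))))) (P.cons (P.cons (P.lf 0 1156454020 0) (P.cons (P.lf 100609212 0 0) (P.cons (P.lf 45032888 0 0) (P.cons (P.lf 0 4572330 0) P.nil)))) (P.cons (P.cons (P.lf 76108188 0 0) (P.cons (P.lf 14749046 0 0) (P.cons (P.lf 5938458 0 0) P.nil))) (P.cons (P.cons (P.lf 245738070 0 0) (P.cons (P.lf 0 18744104 0) P.nil)) (P.cons (P.cons (P.lf 0 22845822 0) P.nil) P.nil)))))) 66237702)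
 EL.nil)
noncomputable def S198_256_216_290_46 : EL := (EL.cons 15 (TM.mk (P.lf 4294967296 0 0) 0)
 EL.nil)
noncomputable def S198_256_216_290_47 : EL := (EL.cons 15 (TM.mk (P.cons (P.cons (P.lf 2831488140 0 0) (P.cons (P.lf 0 98234764 0) (P.cons (P.lf 0 46372820 0) (P.lf 2208228 0 0)))) (P.cons (P.cons (P.lf 0 12136268 0) (P.cons (P.lf 0 18914036 0) (P.cons (P.lf 0 8928580 0) (P.lf 425168 0 0)))) (P.cons (P.cons (P.lf 0 443525187 0) (P.cons (P.lf 7645908 0 0) (P.cons (P.lf 3609332 0 0) (P.lf 0 171872 0)))) (P.cons (P.cons (P.lf 25383734 0 0) (P.cons (P.lf 1689624 0 0) (P.cons (P.lf 797604 0 0) P.nil))) (P.cons (P.cons (P.lf 24986647 0 0) (P.cons (P.lf 0 277236 0) P.nil)) (P.cons (P.cons (P.lf 0 297103 0) P.nil) P.nil)))))) 1767732)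
 EL.nil)
noncomputable def S198_256_216_290_48 : EL := (EL.cons 15 (TM.mk (P.cons (P.cons (P.lf 1866678960 0 0) (P.cons (P.lf 0 129523952 0) (P.cons (P.lf 0 58896399 0) (P.cons (P.lf 5032864 0 0) (P.cons (P.lf 399674 0 0) (P.cons (P.lf 0 47684 0) P.nil)))))) (P.cons (P.cons (P.lf 0 16001844 0) (P.cons (P.lf 0 24383266 0) (P.cons (P.lf 0 10645184 0) (P.cons (P.lf 1364970 0 0) (P.cons (P.lf 153906 0 0) P.nil))))) (P.cons (P.cons (P.lf 0 584760057 0) (P.cons (P.lf 30476802 0 0) (P.cons (P.lf 14120447 0 0) (P.cons (P.lf 0 936662 0) P.nil)))) (P.cons (P.cons (P.lf 35975353 0 0) (P.cons (P.lf 4929790 0 0) (P.cons (P.lf 2182527 0 0) P.nil))) (P.cons (P.cons (P.lf 78602985 0 0) (P.cons (P.lf 0 3320777 0) P.nil)) (P.cons (P.cons (P.lf 0 5775510 0) P.nil) P.nil)))))) 11985453)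
 EL.nil)
noncomputable def S198_256_216_290 : SL := (SL.cons S198_256_216_290_0 (SL.cons S198_256_216_290_1 (SL.cons S198_256_216_290_2 (SL.cons S198_256_216_290_3 (SL.cons S198_256_216_290_4 (SL.cons S198_256_216_290_5 (SL.cons S198_256_216_290_6 (SL.cons S198_256_216_290_7 (SL.cons S198_256_216_290_8 (SL.cons S198_256_216_290_9 (SL.cons S198_256_216_290_10 (SL.cons S198_256_216_290_11 (SL.cons S198_256_216_290_12 (SL.cons S198_256_216_290_13 (SL.cons S198_256_216_290_14 (SL.cons S198_256_216_290_15 (SL.cons S198_256_216_290_16 (SL.cons S198_256_216_290_17 (SL.cons S198_256_216_290_18 (SL.cons S198_256_216_290_19 (SL.cons S198_256_216_290_20 (SL.cons S198_256_216_290_21 (SL.cons S198_256_216_290_22 (SL.cons S198_256_216_290_23 (SL.cons S198_256_216_290_24 (SL.cons S198_256_216_290_25 (SL.cons S198_256_216_290_26 (SL.cons S198_256_216_290_27 (SL.cons S198_256_216_290_28 (SL.cons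 S198_256_216_290_29 (SL.cons S198_256_216_290_30 (SL.cons S198_256_216_290_31 (SL.cons S198_256_216_290_32 (SL.cons S198_256_216_290_33 (SL.cons S198_256_216_290_34 (SL.cons S198_256_216_290_35 (SL.cons S198_256_216_290_36 (SL.cons S198_256_216_290_37 (SL.cons S198_256_216_290_38 (SL.cons S198_256_216_290_39 (SL.cons S198_256_216_290_40 (SL.cons S198_256_216_290_41 (SL.cons S198_256_216_290_42 (SL.cons S198_256_216_290_43 (SL.cons S198_256_216_290_44 (SL.cons S198_256_216_290_45 (SL.cons S198_256_216_290_46 (SL.cons S198_256_216_290_47 (SL.cons S198_256_216_290_48 SL.nil)))))))))))))))))))))))))))))))))))))))))))))))))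
noncomputable def S198_256_216_364_0 : EL := (EL.cons 0 (TM.mk (P.cons (P.lf 8080323868 0 0) (P.cons (P.lf 727079837 0 0) (P.cons (P.lf 0 317250402 0) (P.cons (P.lf 0 44091209 0) (P.cons (P.lf 8367597 0 0) (P.cons (P.lf 1467036 0 0) P.nil)))))) 311496)
 (EL.cons 1 (TM.mk (P.cons (P.lf 0 869508750 0) (P.cons (P.lf 786249082 0 0) (P.cons (P.lf 120498519 0 0) (P.cons (P.lf 0 33042157 0) (P.cons (P.lf 0 5010903 0) (P.cons (P.lf 683975 0 0) P.nil)))))) 177172)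
 (EL.cons 5 (TM.mk (P.cons (P.lf 4428440364 0 0) (P.cons (P.lf 0 258517274 0) (P.cons (P.lf 112800140 0 0) (P.cons (P.lf 15676876 0 0) (P.cons (P.lf 0 2975142 0) (P.cons (P.lf 0 521612 0) P.nil)))))) 117185)
 (EL.cons 9 (TM.mk (P.lf 6442450944 0 0) 2)
 EL.nil))))
noncomputable def S198_256_216_364_1 : EL := (EL.cons 0 (TM.mk (P.cons (P.cons (P.lf 5112975262 0 0) (P.cons (P.lf 0 596994711 0) (P.cons (P.lf 0 257430859 0) (P.lf 28603431 0 0)))) (P.cons (P.cons (P.lf 1508242678 0 0) (P.cons (P.lf 0 364616276 0) (P.cons (P.lf 0 157226643 0) (P.lf 17469617 0 0)))) (P.cons (P.cons (P.lf 0 2239935790 0) (P.cons (P.lf 107334757 0 0) (P.cons (P.lf 46283959 0 0) (P.lf 0 5142656 0)))) (P.cons (P.cons (P.lf 0 182524667 0) (P.cons (P.lf 65816651 0 0) (P.cons (P.lf 28380878 0 0) P.nil))) (P.cons (P.cons (P.lf 260616123 0 0) (P.cons (P.lf 0 5827882 0) P.nil)) (P.cons (P.cons (P.lf 23307616 0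 0) P.nil) P.nil)))))) 47054359)
 (EL.cons 1 (TM.mk (P.cons (P.cons (P.lf 0 486151684 0) (P.cons (P.lf 179192149 0 0) (P.cons (P.lf 77269675 0 0) (P.lf 0 8585514 0)))) (P.cons (P.cons (P.lf 1788147228 0 0) (P.cons (P.lf 0 112207572 0) (P.cons (P.lf 0 48385170 0) (P.lf 5376128 0 0)))) (P.cons (P.cons (P.lf 336181387 0 0) (P.cons (P.lf 0 89538006 0) (P.cons (P.lf 0 38609792 0) (P.lf 4289968 0 0)))) (P.cons (P.cons (P.lf 0 425589399 0) (P.cons (P.lf 12771795 0 0) (P.cons (P.lf 5507340 0 0) P.nil))) (P.cons (P.cons (P.lf 0 43971004 0) (P.cons (P.lf 10874572 0 0) P.nil)) (P.cons (P.cons (P.lf 37277075 0 0) P.nil) P.nil)))))) 23005972)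
 (EL.cons 5 (TM.mk (P.cons (P.cons (P.lf 2753504186 0 0) (P.cons (P.lf 0 414544660 0) (P.cons (P.lf 0 178756334 0) (P.lf 19861814 0 0)))) (P.cons (P.cons (P.lf 0 603505380 0) (P.cons (P.lf 8955974 0 0) (P.cons (P.lf 3861918 0 0) (P.lf 0 429100 0)))) (P.cons (P.cons (P.lf 61270511 0 0) (P.cons (P.lf 10623010 0 0) (P.cons (P.lf 4580764 0 0) (P.lf 0 508976 0)))) (P.cons (P.cons (P.lf 112213735 0 0) (P.cons (P.lf 0 12620424 0) (P.cons (P.lf 0 5442068 0) P.nil))) (P.cons (P.cons (P.lf 0 50869383 0) (P.cons (P.lf 303156 0 0) P.nil)) (P.cons (P.cons (P.lf 0 8984602 0) P.nil) P.nil)))))) 23205941)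
 (EL.cons 9 (TM.mk (P.cons (P.cons (P.lf 4033633176 0 0) (P.cons (P.lf 0 553067154 0) (P.cons (P.lf 0 238488798 0) (P.lf 26498754 0 0)))) (P.cons (P.cons (P.lf 0 59330580 0) (P.cons (P.lf 0 106487082 0) (P.cons (P.lf 0 45918426 0) (P.lf 5102046 0 0)))) (P.cons (P.cons (P.lf 0 648662722 0) (P.cons (P.lf 43046886 0 0) (P.cons (P.lf 18562302 0 0) (P.lf 0 2062476 0)))) (P.cons (P.cons (P.lf 41749479 0 0) (P.cons (P.lf 9512688 0 0) (P.cons (P.lf 4101978 0 0) P.nil))) (P.cons (P.cons (P.lf 36877156 0 0) (P.cons (P.lf 0 1560858 0) P.nil)) (P.cons (P.cons (P.lf 0 615400 0) P.nil) P.nil)))))) 4432273)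
 (EL.cons 2 (TM.mk (P.cons (P.cons (P.lf 249462011 0 0) (P.cons (P.lf 232396939 0 0) (P.cons (P.lf 0 23851485 0) (P.cons (P.lf 0 4960442 0) (P.lf 413370 0 0))))) (P.cons (P.cons (P.lf 0 209564415 0) (P.cons (P.lf 0 195228638 0) (P.cons (P.lf 20036806 0 0) (P.cons (P.lf 4167098 0 0) (P.lf 0 347256 0))))) (P.cons (P.cons (P.lf 0 56548015 0) (P.cons (P.lf 0 52679708 0) (P.cons (P.lf 5406651 0 0) (P.cons (P.lf 1124431 0 0) P.nil)))) (P.cons (P.cons (P.lf 13553007 0 0) (P.cons (P.lf 12625880 0 0) (P.cons (P.lf 0 1295825 0) P.nil))) (P.cons (P.cons (P.lf 3630990 0 0) (P.cons (P.lf 3382602 0 0) P.nil)) (P.cons (P.cons (P.lf 0 403219 0) P.nil) P.nil)))))) 2157056)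
 (EL.cons 6 (TM.mk (P.cons (P.cons (P.lf 577819521 0 0) (P.cons (P.lf 538292340 0 0) (P.cons (P.lf 0 55246302 0) (P.cons (P.lf 0 11489694 0) (P.lf 957471 0 0))))) (P.cons (P.cons (P.lf 111252885 0 0) (P.cons (P.lf 103642356 0 0) (P.cons (P.lf 0 10637076 0) (P.cons (P.lf 0 2212215 0) (P.lf 184350 0 0))))) (P.cons (P.cons (P.lf 0 44973438 0) (P.cons (P.lf 0 41896920 0) (P.cons (P.lf 4299984 0 0) (P.cons (P.lf 894276 0 0) P.nil)))) (P.cons (P.cons (P.lf 0 9938424 0) (P.cons (P.lf 0 9258564 0) (P.cons (P.lf 950229 0 0) P.nil))) (P.cons (P.cons (P.lf 1630713 0 0) (P.cons (P.lf 1519161 0 0) P.nil)) (P.cons (P.cons (P.lf 459195 0 0) P.nil) P.nil)))))) 1312485)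
 EL.nil))))))
noncomputable def S198_256_216_364_2 : EL := (EL.cons 0 (TM.mk (P.cons (P.cons (P.lf 3234971126 0 0) (P.cons (P.lf 0 756808012 0) (P.cons (P.lf 0 283393433 0) (P.cons (P.lf 73302142 0 0) (P.cons (P.lf 3870658 0 0) (P.cons (P.lf 0 1774759 0) P.nil)))))) (P.cons (P.cons (P.lf 1602617945 0 0) (P.cons (P.lf 0 640932820 0) (P.cons (P.lf 0 222329224 0) (P.cons (P.lf 77321002 0 0) (P.cons (P.lf 4870738 0 0) P.nil))))) (P.cons (P.cons (P.lf 0 2711421859 0) (P.cons (P.lf 434433044 0 0) (P.cons (P.lf 180316115 0 0) (P.cons (P.lf 0 26865728 0) P.nil)))) (P.cons (P.cons (P.lf 0 400072050 0) (P.cons (P.lf 225236938 0 0) (P.cons (P.lf 81334601 0 0) P.nil))) (P.cons (P.cons (P.lf 668970712 0 0) (P.cons (P.lf 0 79711941 0) P.nil)) (P.cons (P.cons (P.lf 45395816 0 0) P.nil) P.nil)))))) 323510901)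
 (EL.cons 1 (TM.mk (P.cons (P.cons (P.lf 0 267910392 0) (P.cons (P.lf 214384056 0 0) (P.cons (P.lf 68086563 0 0) (P.cons (P.lf 0 31278748 0) (P.cons (P.lf 0 2195125 0) (P.cons (P.lf 1006498 0 0) P.nil)))))) (P.cons (P.cons (P.lf 1929840375 0 0) (P.cons (P.lf 0 366852839 0) (P.cons (P.lf 0 148176223 0) (P.cons (P.lf 26213823 0 0) (P.cons (P.lf 902521 0 0) P.nil))))) (P.cons (P.cons (P.lf 338207621 0 0) (P.cons (P.lf 0 218912169 0) (P.cons (P.lf 0 76799535 0) (P.cons (P.lf 25665364 0 0) P.nil)))) (P.cons (P.cons (P.lf 0 783426116 0) (P.cons (P.lf 108747124 0 0) (P.cons (P.lf 46865999 0 0) P.nil))) (P.cons (P.cons (P.lf 0 73438644 0) (P.cons (P.lf 53741276 0 0) P.nil)) (P.cons (P.cons (P.lf 137577877 0 0) P.nil) P.nil)))))) 161708533)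
 (EL.cons 5 (TM.mk (P.cons (P.cons (P.lf 1711983875 0 0) (P.cons (P.lf 0 515806338 0) (P.cons (P.lf 0 183882963 0) (P.cons (P.lf 57950007 0 0) (P.cons (P.lf 3473021 0 0) (P.cons (P.lf 0 1592430 0) P.nil)))))) (P.cons (P.cons (P.lf 0 654019590 0) (P.cons (P.lf 88309424 0 0) (P.cons (P.lf 39583893 0 0) (P.cons (P.lf 0 2934122 0) (P.cons (P.lf 135532 0 0) P.nil))))) (P.cons (P.cons (P.lf 44120797 0 0) (P.cons (P.lf 35069939 0 0) (P.cons (P.lf 11235666 0 0) (P.cons (P.lf 0 5032435 0) P.nil)))) (P.cons (P.cons (P.lf 215037714 0 0) (P.cons (P.lf 0 51304076 0) (P.cons (P.lf 0 19972457 0) P.nil))) (P.cons (P.cons (P.lf 0 112373748 0) (P.cons (P.lf 7364118 0 0) P.nil)) (P.cons (P.cons (P.lf 0 27311972 0) P.nil) P.nil)))))) 157364747)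
 (EL.cons 9 (TM.mk (P.cons (P.cons (P.lf 2525466897 0 0) (P.cons (P.lf 0 692553202 0) (P.cons (P.lf 0 251157423 0) (P.cons (P.lf 74129107 0 0) (P.cons (P.lf 4278763 0 0) (P.cons (P.lf 0 1961878 0) P.nil)))))) (P.cons (P.cons (P.lf 0 74294020 0) (P.cons (P.lf 0 123156864 0) (P.cons (P.lf 0 34823361 0) (P.cons (P.lf 21668629 0 0) (P.cons (P.lf 1647658 0 0) P.nil))))) (P.cons (P.cons (P.lf 0 811712014 0) (P.cons (P.lf 167236765 0 0) (P.cons (P.lf 66483580 0 0) (P.cons (P.lf 0 12868833 0) P.nil)))) (P.cons (P.cons (P.lf 64226370 0 0) (P.cons (P.lf 25394257 0 0) (P.cons (P.lf 7893969 0 0) P.nil))) (P.cons (P.cons (P.lf 110719837 0 0) (P.cons (P.lf 0 18509898 0) P.nil)) (P.cons (P.cons (P.lf 0 9856984 0) P.nil) P.nil)))))) 42471547)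
 (EL.cons 2 (TM.mk (P.cons (P.cons (P.lf 312377461 0 0) (P.cons (P.lf 248177210 0 0) (P.cons (P.lf 0 88237580 0) (P.cons (P.lf 0 17270066 0) (P.cons (P.lf 5046952 0 0) (P.cons (P.lf 100068 0 0) P.nil)))))) (P.cons (P.cons (P.lf 0 267012258 0) (P.cons (P.lf 0 221012235 0) (P.cons (P.lf 63326019 0 0) (P.cons (P.lf 12470141 0 0) (P.cons (P.lf 0 3375309 0) P.nil))))) (P.cons (P.cons (P.lf 0 117184308 0) (P.cons (P.lf 0 89197576 0) (P.cons (P.lf 38419987 0 0) (P.cons (P.lf 7486312 0 0) P.nil)))) (P.cons (P.cons (P.lf 63446169 0 0) (P.cons (P.lf 56584535 0 0) (P.cons (P.lf 0 9502425 0) P.nil))) (P.cons (P.cons (P.lf 15824041 0 0) (P.cons (P.lf 12174676 0 0) P.nil)) (P.cons (P.cons (P.lf 0 6480675 0) P.nil) P.nil)))))) 33640272)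
 (EL.cons 6 (TM.mk (P.cons (P.cons (P.lf 723548232 0 0) (P.cons (P.lf 574843596 0 0) (P.cons (P.lf 0 204381414 0) (P.cons (P.lf 0 40002006 0) (P.cons (P.lf 11690070 0 0) (P.cons (P.lf 231786 0 0) P.nil)))))) (P.cons (P.cons (P.lf 128668716 0 0) (P.cons (P.lf 81663762 0 0) (P.cons (P.lf 0 64365492 0) (P.cons (P.lf 0 12422130 0) (P.cons (P.lf 4253106 0 0) P.nil))))) (P.cons (P.cons (P.lf 0 174721404 0) (P.cons (P.lf 0 151003542 0) (P.cons (P.lf 32739618 0 0) (P.cons (P.lf 6512010 0 0) P.nil)))) (P.cons (P.cons (P.lf 0 26530770 0) (P.cons (P.lf 0 18329658 0) (P.cons (P.lf 11239794 0 0) P.nil))) (P.cons (P.cons (P.lf 19338300 0 0) (P.cons (P.lf 17511534 0 0) P.nil)) (P.cons (P.cons (P.lf 3126648 0 0) P.nil) P.nil)))))) 25363134)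
 EL.nil))))))
noncomputable def S198_256_216_364_3 : EL := (EL.cons 0 (TM.mk (P.cons (P.lf 375392995 0 0) (P.cons (P.lf 0 727079837 0) (P.cons (P.lf 317250402 0 0) (P.cons (P.lf 44091209 0 0) (P.cons (P.lf 0 8367597 0) (P.cons (P.lf 0 1467036 0) P.nil)))))) 311496)
 (EL.cons 1 (TM.mk (P.cons (P.lf 869508750 0 0) (P.cons (P.lf 0 786249082 0) (P.cons (P.lf 0 120498519 0) (P.cons (P.lf 33042157 0 0) (P.cons (P.lf 5010903 0 0) (P.cons (P.lf 0 683975 0) P.nil)))))) 177172)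
 (EL.cons 5 (TM.mk (P.cons (P.lf 2014010580 0 0) (P.cons (P.lf 258517274 0 0) (P.cons (P.lf 0 112800140 0) (P.cons (P.lf 0 15676876 0) (P.cons (P.lf 2975142 0 0) (P.cons (P.lf 521612 0 0) P.nil)))))) 117178)
 EL.nil)))
noncomputable def S198_256_216_364_4 : EL := (EL.cons 0 (TM.mk (P.cons (P.cons (P.lf 235034405 0 0) (P.cons (P.lf 0 32226482 0) (P.cons (P.lf 0 13896421 0) (P.lf 1544046 0 0)))) (P.cons (P.cons (P.lf 0 458683451 0) (P.cons (P.lf 56212996 0 0) (P.cons (P.lf 24239677 0 0) (P.lf 0 2693297 0)))) (P.cons (P.cons (P.lf 167530398 0 0) (P.cons (P.lf 0 12708929 0) (P.cons (P.lf 0 5480233 0) (P.lf 608915 0 0)))) (P.cons (P.cons (P.lf 100323179 0 0) (P.cons (P.lf 0 13332812 0) (P.cons (P.lf 0 5749258 0) P.nil))) (P.cons (P.cons (P.lf 0 40150566 0) (P.cons (P.lf 944813 0 0) P.nil)) (P.cons (P.cons (P.lf 0 7422635 0) P.nil) P.nil)))))) 9728352)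
 (EL.cons 1 (TM.mk (P.cons (P.cons (P.lf 544401403 0 0) (P.cons (P.lf 0 74644995 0) (P.cons (P.lf 0 32187763 0) (P.lf 3576416 0 0)))) (P.cons (P.cons (P.lf 0 500279919 0) (P.cons (P.lf 53125291 0 0) (P.cons (P.lf 22908225 0 0) (P.lf 0 2545357 0)))) (P.cons (P.cons (P.lf 0 155750679 0) (P.cons (P.lf 29150206 0 0) (P.cons (P.lf 12569896 0 0) (P.lf 0 1396653 0)))) (P.cons (P.cons (P.lf 106596262 0 0) (P.cons (P.lf 0 4814503 0) (P.cons (P.lf 0 2076067 0) P.nil))) (P.cons (P.cons (P.lf 14847478 0 0) (P.cons (P.lf 0 3153075 0) P.nil)) (P.cons (P.cons (P.lf 0 9165750 0) P.nil) P.nil)))))) 6153979)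
 (EL.cons 5 (TM.mk (P.cons (P.cons (P.lf 1260976600 0 0) (P.cons (P.lf 0 172897412 0) (P.cons (P.lf 0 74555314 0) (P.lf 8283922 0 0)))) (P.cons (P.cons (P.lf 143310588 0 0) (P.cons (P.lf 0 55482536 0) (P.cons (P.lf 0 23924694 0) (P.lf 2658298 0 0)))) (P.cons (P.cons (P.lf 0 275787268 0) (P.cons (P.lf 18867692 0 0) (P.cons (P.lf 8135960 0 0) (P.lf 0 903994 0)))) (P.cons (P.cons (P.lf 0 21753970 0) (P.cons (P.lf 7911450 0 0) (P.cons (P.lf 3411506 0 0) P.nil))) (P.cons (P.cons (P.lf 26568140 0 0) (P.cons (P.lf 0 856218 0) P.nil)) (P.cons (P.cons (P.lf 2434026 0 0) P.nil) P.nil)))))) 4844092)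
 EL.nil)))
noncomputable def S198_256_216_364_5 : EL := (EL.cons 0 (TM.mk (P.cons (P.cons (P.lf 147155575 0 0) (P.cons (P.lf 0 40354147 0) (P.cons (P.lf 0 14634606 0) (P.cons (P.lf 4319402 0 0) (P.cons (P.lf 249317 0 0) (P.cons (P.lf 0 114315 0) P.nil)))))) (P.cons (P.cons (P.lf 0 289347257 0) (P.cons (P.lf 70983736 0 0) (P.cons (P.lf 26315924 0 0) (P.cons (P.lf 0 7103432 0) (P.cons (P.lf 0 386883 0) P.nil))))) (P.cons (P.cons (P.lf 85450717 0 0) (P.cons (P.lf 0 10460054 0) (P.cons (P.lf 0 4563938 0) (P.cons (P.lf 455073 0 0) P.nil)))) (P.cons (P.cons (P.lf 108975707 0 0) (P.cons (P.lf 0 28198696 0) (P.cons (P.lf 0 10476926 0) P.nil))) (P.cons (P.cons (P.lf 0 44557266 0) (P.cons (P.lf 4347515 0 0) P.nil)) (P.cons (P.cons (P.lf 0 15941016 0) P.nil) P.nil)))))) 36956175)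
 (EL.cons 1 (TM.mk (P.cons (P.cons (P.lf 340850955 0 0) (P.cons (P.lf 0 93470803 0) (P.cons (P.lf 0 33897590 0) (P.cons (P.lf 10004872 0 0) (P.cons (P.lf 577485 0 0) (P.cons (P.lf 0 264785 0) P.nil)))))) (P.cons (P.cons (P.lf 0 318239958 0) (P.cons (P.lf 67898591 0 0) (P.cons (P.lf 25951779 0 0) (P.cons (P.lf 0 6122338 0) (P.cons (P.lf 0 299810 0) P.nil))))) (P.cons (P.cons (P.lf 0 147722056 0) (P.cons (P.lf 50554893 0 0) (P.cons (P.lf 17920505 0 0) (P.cons (P.lf 0 5767826 0) P.nil)))) (P.cons (P.cons (P.lf 122073480 0 0) (P.cons (P.lf 0 18231018 0) (P.cons (P.lf 0 7685178 0) P.nil))) (P.cons (P.cons (P.lf 23870428 0 0) (P.cons (P.lf 0 9895642 0) P.nil)) (P.cons (P.cons (P.lf 0 20533123 0) P.nil) P.nil)))))) 29999502)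
 (EL.cons 5 (TM.mk (P.cons (P.cons (P.lf 789500314 0 0) (P.cons (P.lf 0 216502924 0) (P.cons (P.lf 0 78515724 0) (P.cons (P.lf 23173912 0 0) (P.cons (P.lf 1337606 0 0) (P.cons (P.lf 0 613312 0) P.nil)))))) (P.cons (P.cons (P.lf 78114350 0 0) (P.cons (P.lf 0 66290948 0) (P.cons (P.lf 0 20964558 0) (P.cons (P.lf 9748540 0 0) (P.cons (P.lf 686778 0 0) P.nil))))) (P.cons (P.cons (P.lf 0 300953148 0) (P.cons (P.lf 59464718 0 0) (P.cons (P.lf 23783926 0 0) (P.cons (P.lf 0 4451414 0) P.nil)))) (P.cons (P.cons (P.lf 0 17338128 0) (P.cons (P.lf 18490954 0 0) (P.cons (P.lf 6356450 0 0) P.nil))) (P.cons (P.cons (P.lf 52749194 0 0) (P.cons (P.lf 0 7715748 0) P.nil)) (P.cons (P.cons (P.lf 2382256 0 0) P.nil) P.nil)))))) 25791544)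
 EL.nil)))
noncomputable def S198_256_216_364_6 : EL := (EL.cons 12 (TM.mk (P.lf 8589934592 0 0) 0)
 (EL.cons 3 (TM.mk (P.cons (P.lf 0 897858742 0) (P.cons (P.lf 869508750 0 0) (P.cons (P.lf 41629830 0 0) (P.cons (P.lf 0 12412950 0) (P.cons (P.lf 0 1049171 0) (P.cons (P.lf 162840 0 0) P.nil)))))) 27209)
 (EL.cons 7 (TM.mk (P.cons (P.lf 0 2079676607 0) (P.cons (P.lf 0 133473065 0) (P.cons (P.lf 62522105 0 0) (P.cons (P.lf 4081356 0 0) (P.cons (P.lf 0 858201 0) (P.cons (P.lf 0 91532 0) P.nil)))))) 18219)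
 EL.nil)))
noncomputable def S198_256_216_364_7 : EL := (EL.cons 12 (TM.mk (P.cons (P.cons (P.lf 5378177568 0 0) (P.cons (P.lf 0 737422872 0) (P.cons (P.lf 0 317985064 0) (P.lf 35331672 0 0)))) (P.cons (P.cons (P.lf 0 79107440 0) (P.cons (P.lf 0 141982776 0) (P.cons (P.lf 0 61224568 0) (P.lf 6802728 0 0)))) (P.cons (P.cons (P.lf 0 864883630 0) (P.cons (P.lf 57395848 0 0) (P.cons (P.lf 24749736 0 0) (P.lf 0 2749968 0)))) (P.cons (P.cons (P.lf 55665972 0 0) (P.cons (P.lf 12683584 0 0) (P.cons (P.lf 5469304 0 0) P.nil))) (P.cons (P.cons (P.lf 49169542 0 0) (P.cons (P.lf 0 2081144 0) P.nil)) (P.cons (P.cons (P.lf 0 820534 0) P.nil) P.nil)))))) 5909672)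
 (EL.cons 3 (TM.mk (P.cons (P.cons (P.lf 0 690987511 0) (P.cons (P.lf 0 154157534 0) (P.cons (P.lf 0 66474468 0) (P.lf 7386050 0 0)))) (P.cons (P.cons (P.lf 0 2268667879 0) (P.cons (P.lf 119608630 0 0) (P.cons (P.lf 51576592 0 0) (P.lf 0 5730730 0)))) (P.cons (P.cons (P.lf 290683661 0 0) (P.cons (P.lf 47890332 0 0) (P.cons (P.lf 20650850 0 0) (P.lf 0 2294536 0)))) (P.cons (P.cons (P.lf 273587374 0 0) (P.cons (P.lf 0 9723240 0) (P.cons (P.lf 0 4192770 0) P.nil))) (P.cons (P.cons (P.lf 0 4910580 0) (P.cons (P.lf 0 4149632 0) P.nil)) (P.cons (P.cons (P.lf 0 15735477 0) P.nil) P.nil)))))) 14952661)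
 (EL.cons 7 (TM.mk (P.cons (P.cons (P.lf 0 1282313400 0) (P.cons (P.lf 214030368 0 0) (P.cons (P.lf 92292309 0 0) (P.lf 0 10254702 0)))) (P.cons (P.cons (P.lf 348249576 0 0) (P.cons (P.lf 0 18360398 0) (P.cons (P.lf 0 7917210 0) (P.lf 879689 0 0)))) (P.cons (P.cons (P.lf 0 224423157 0) (P.cons (P.lf 2128157 0 0) (P.cons (P.lf 917685 0 0) (P.lf 0 101965 0)))) (P.cons (P.cons (P.lf 0 5478775 0) (P.cons (P.lf 6247428 0 0) (P.cons (P.lf 2693961 0 0) P.nil))) (P.cons (P.cons (P.lf 30556023 0 0) (P.cons (P.lf 0 617855 0) P.nil)) (P.cons (P.cons (P.lf 961820 0 0) P.nil) P.nil)))))) 12646618)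
 (EL.cons 10 (TM.mk (P.cons (P.cons (P.lf 0 1193318205 0) (P.cons (P.lf 0 1111686303 0) (P.cons (P.lf 114095178 0 0) (P.cons (P.lf 23728623 0 0) (P.lf 0 1977384 0))))) (P.cons (P.cons (P.lf 0 153173658 0) (P.cons (P.lf 0 142695432 0) (P.cons (P.lf 14645193 0 0) (P.cons (P.lf 3045792 0 0) (P.lf 0 253815 0))))) (P.cons (P.cons (P.lf 66835029 0 0) (P.cons (P.lf 62263014 0 0) (P.cons (P.lf 0 6390210 0) (P.cons (P.lf 0 1328985 0) P.nil)))) (P.cons (P.cons (P.lf 9288678 0 0) (P.cons (P.lf 8653263 0 0) (P.cons (P.lf 0 888105 0) P.nil))) (P.cons (P.cons (P.lf 0 1762794 0) (P.cons (P.lf 0 1642206 0) P.nil)) (P.cons (P.cons (P.lf 0 309057 0) P.nil) P.nil)))))) 983838)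
 EL.nil))))
noncomputable def S198_256_216_364_8 : EL := (EL.cons 12 (TM.mk (P.cons (P.cons (P.lf 3367289196 0 0) (P.cons (P.lf 0 923404270 0) (P.cons (P.lf 0 334876564 0) (P.cons (P.lf 98838810 0 0) (P.cons (P.lf 5705018 0 0) (P.cons (P.lf 0 2615838 0) P.nil)))))) (P.cons (P.cons (P.lf 0 99058694 0) (P.cons (P.lf 0 164209152 0) (P.cons (P.lf 0 46431148 0) (P.cons (P.lf 28891506 0 0) (P.cons (P.lf 2196878 0 0) P.nil))))) (P.cons (P.cons (P.lf 0 1082282686 0) (P.cons (P.lf 222982354 0 0) (P.cons (P.lf 88644774 0 0) (P.cons (P.lf 0 17158444 0) P.nil)))) (P.cons (P.cons (P.lf 85635160 0 0) (P.cons (P.lf 33859010 0 0) (P.cons (P.lf 10525292 0 0) P.nil))) (P.cons (P.cons (P.lf 147626450 0 0) (P.cons (P.lf 0 24679864 0) P.nil)) (P.cons (P.cons (P.lf 0 13142646 0) P.nil) P.nil)))))) 56628700)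
 (EL.cons 3 (TM.mk (P.cons (P.cons (P.lf 0 513293431 0) (P.cons (P.lf 0 170916294 0) (P.cons (P.lf 0 40616007 0) (P.cons (P.lf 36722272 0 0) (P.cons (P.lf 2981571 0 0) (P.cons (P.lf 0 1367095 0) P.nil)))))) (P.cons (P.cons (P.lf 0 3179314196 0) (P.cons (P.lf 641281505 0 0) (P.cons (P.lf 257227782 0 0) (P.cons (P.lf 0 47370096 0) (P.cons (P.lf 0 1739285 0) P.nil))))) (P.cons (P.cons (P.lf 425509294 0 0) (P.cons (P.lf 149067218 0 0) (P.cons (P.lf 46483690 0 0) (P.cons (P.lf 0 22489625 0) P.nil)))) (P.cons (P.cons (P.lf 908972606 0 0) (P.cons (P.lf 0 147652805 0) (P.cons (P.lf 0 62132778 0) P.nil))) (P.cons (P.cons (P.lf 0 94762213 0) (P.cons (P.lf 0 32994577 0) P.nil)) (P.cons (P.cons (P.lf 0 115150884 0) P.nil) P.nil)))))) 150268316)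
 (EL.cons 7 (TM.mk (P.cons (P.cons (P.lf 0 790477005 0) (P.cons (P.lf 264614218 0 0) (P.cons (P.lf 92683491 0 0) (P.cons (P.lf 0 31152368 0) (P.cons (P.lf 0 1930436 0) (P.cons (P.lf 885130 0 0) P.nil)))))) (P.cons (P.cons (P.lf 488037418 0 0) (P.cons (P.lf 0 98439262 0) (P.cons (P.lf 0 39485485 0) (P.cons (P.lf 7271497 0 0) (P.cons (P.lf 266984 0 0) P.nil))))) (P.cons (P.cons (P.lf 0 317292213 0) (P.cons (P.lf 27942001 0 0) (P.cons (P.lf 13251013 0 0) (P.cons (P.lf 0 302038 0) P.nil)))) (P.cons (P.cons (P.lf 0 86437162 0) (P.cons (P.lf 36777942 0 0) (P.cons (P.lf 13791985 0 0) P.nil))) (P.cons (P.cons (P.lf 118721953 0 0) (P.cons (P.lf 0 12605752 0) P.nil)) (P.cons (P.cons (P.lf 2096833 0 0) P.nil) P.nil)))))) 90705641)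
 (EL.cons 10 (TM.mk (P.cons (P.cons (P.lf 0 1494278478 0) (P.cons (P.lf 0 1187172294 0) (P.cons (P.lf 422090382 0 0) (P.cons (P.lf 82612518 0 0) (P.cons (P.lf 0 24142452 0) (P.cons (P.lf 0 478698 0) P.nil)))))) (P.cons (P.cons (P.lf 0 169825452 0) (P.cons (P.lf 0 92460378 0) (P.cons (P.lf 105838566 0 0) (P.cons (P.lf 20352252 0 0) (P.cons (P.lf 0 7234110 0) P.nil))))) (P.cons (P.cons (P.lf 326812548 0 0) (P.cons (P.lf 282097590 0 0) (P.cons (P.lf 0 61717392 0) (P.cons (P.lf 0 12271254 0) P.nil)))) (P.cons (P.cons (P.lf 25778814 0 0) (P.cons (P.lf 14640150 0 0) (P.cons (P.lf 0 15241314 0) P.nil))) (P.cons (P.cons (P.lf 0 31483686 0) (P.cons (P.lf 0 28315332 0) P.nil)) (P.cons (P.cons (P.lf 0 2884356 0) P.nil) P.nil)))))) 35860884)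
 EL.nil))))
noncomputable def S198_256_216_364_9 : EL := (EL.cons 3 (TM.mk (P.cons (P.lf 0 897858742 0) (P.cons (P.lf 869508750 0 0) (P.cons (P.lf 41629830 0 0) (P.cons (P.lf 0 12412950 0) (P.cons (P.lf 0 1049171 0) (P.cons (P.lf 162840 0 0) P.nil)))))) 27209)
 (EL.cons 7 (TM.mk (P.cons (P.lf 0 2079676607 0) (P.cons (P.lf 0 133473065 0) (P.cons (P.lf 62522105 0 0) (P.cons (P.lf 4081356 0 0) (P.cons (P.lf 0 858201 0) (P.cons (P.lf 0 91532 0) P.nil)))))) 18219)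
 EL.nil))
noncomputable def S198_256_216_364_10 : EL := (EL.cons 3 (TM.mk (P.cons (P.cons (P.lf 0 562151398 0) (P.cons (P.lf 77078767 0 0) (P.cons (P.lf 33237234 0 0) (P.lf 0 3693025 0)))) (P.cons (P.cons (P.lf 552670070 0 0) (P.cons (P.lf 0 59804315 0) (P.cons (P.lf 0 25788296 0) (P.lf 2865365 0 0)))) (P.cons (P.cons (P.lf 108458489 0 0) (P.cons (P.lf 0 23945166 0) (P.cons (P.lf 0 10325425 0) (P.lf 1147268 0 0)))) (P.cons (P.cons (P.lf 0 101520719 0) (P.cons (P.lf 4861620 0 0) (P.cons (P.lf 2096385 0 0) P.nil))) (P.cons (P.cons (P.lf 0 4238784 0) (P.cons (P.lf 2074816 0 0) P.nil)) (P.cons (P.cons (P.lf 6694110 0 0) P.nil) P.nil)))))) 3611757)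
 (EL.cons 7 (TM.mk (P.cons (P.cons (P.lf 0 1302090249 0) (P.cons (P.lf 178534665 0 0) (P.cons (P.lf 76986162 0 0) (P.lf 0 8554017 0)))) (P.cons (P.cons (P.lf 0 64415385 0) (P.cons (P.lf 45833218 0 0) (P.cons (P.lf 19763799 0 0) (P.lf 0 2195977 0)))) (P.cons (P.cons (P.lf 249768135 0 0) (P.cons (P.lf 0 17057074 0) (P.cons (P.lf 0 7355202 0) (P.lf 817244 0 0)))) (P.cons (P.cons (P.lf 1941311 0 0) (P.cons (P.lf 0 5346408 0) (P.cons (P.lf 0 2305431 0) P.nil))) (P.cons (P.cons (P.lf 0 19639197 0) (P.cons (P.lf 730747 0 0) P.nil)) (P.cons (P.cons (P.lf 0 620527 0) P.nil) P.nil)))))) 2858490)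
 EL.nil))
noncomputable def S198_256_216_364_11 : EL := (EL.cons 3 (TM.mk (P.cons (P.cons (P.lf 0 351964267 0) (P.cons (P.lf 96518382 0 0) (P.cons (P.lf 35002809 0 0) (P.cons (P.lf 0 10331078 0) (P.cons (P.lf 0 596313 0) (P.cons (P.lf 273419 0 0) P.nil)))))) (P.cons (P.cons (P.lf 351205018 0 0) (P.cons (P.lf 0 76306921 0) (P.cons (P.lf 0 29044398 0) (P.cons (P.lf 6985002 0 0) (P.cons (P.lf 347857 0 0) P.nil))))) (P.cons (P.cons (P.lf 119417002 0 0) (P.cons (P.lf 0 44404192 0) (P.cons (P.lf 0 15588434 0) (P.cons (P.lf 5197003 0 0) P.nil)))) (P.cons (P.cons (P.lf 0 123850108 0) (P.cons (P.lf 19570657 0 0) (P.cons (P.lf 8131734 0 0) P.nil))) (P.cons (P.cons (P.lf 0 12275491 0) (P.cons (P.lf 7437725 0 0) P.nil)) (P.cons (P.cons (P.lf 18372000 0 0) P.nil) P.nil)))))) 22530202)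
 (EL.cons 7 (TM.mk (P.cons (P.cons (P.lf 0 815241663 0) (P.cons (P.lf 223561918 0 0) (P.cons (P.lf 81075699 0 0) (P.cons (P.lf 0 23929490 0) (P.cons (P.lf 0 1381220 0) (P.cons (P.lf 633310 0 0) P.nil)))))) (P.cons (P.cons (P.lf 0 28339256 0) (P.cons (P.lf 54104198 0 0) (P.cons (P.lf 16444685 0 0) (P.cons (P.lf 0 8530601 0) (P.cons (P.lf 0 620524 0) P.nil))))) (P.cons (P.cons (P.lf 288075495 0 0) (P.cons (P.lf 0 58154909 0) (P.cons (P.lf 0 23177399 0) (P.cons (P.lf 4424642 0 0) P.nil)))) (P.cons (P.cons (P.lf 0 3037054 0) (P.cons (P.lf 0 13296186 0) (P.cons (P.lf 0 4422689 0) P.nil))) (P.cons (P.cons (P.lf 0 45332819 0) (P.cons (P.lf 7086254 0 0) P.nil)) (P.cons (P.cons (P.lf 971137 0 0) P.nil) P.nil)))))) 19543639)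
 EL.nil))
noncomputable def S198_256_216_364_12 : EL := (EL.cons 4 (TM.mk (P.cons (P.lf 897858742 0 0) (P.cons (P.lf 0 869508750 0) (P.cons (P.lf 0 41629830 0) (P.cons (P.lf 12412950 0 0) (P.cons (P.lf 1049171 0 0) (P.cons (P.lf 0 162840 0) P.nil)))))) 27209)
 (EL.cons 8 (TM.mk (P.cons (P.lf 2079676607 0 0) (P.cons (P.lf 133473065 0 0) (P.cons (P.lf 0 62522105 0) (P.cons (P.lf 0 4081356 0) (P.cons (P.lf 858201 0 0) (P.cons (P.lf 91532 0 0) P.nil)))))) 18219)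
 EL.nil))
noncomputable def S198_256_216_364_13 : EL := (EL.cons 4 (TM.mk (P.cons (P.cons (P.lf 562151398 0 0) (P.cons (P.lf 0 77078767 0) (P.cons (P.lf 0 33237234 0) (P.lf 3693025 0 0)))) (P.cons (P.cons (P.lf 0 552670070 0) (P.cons (P.lf 59804315 0 0) (P.cons (P.lf 25788296 0 0) (P.lf 0 2865365 0)))) (P.cons (P.cons (P.lf 0 108458489 0) (P.cons (P.lf 23945166 0 0) (P.cons (P.lf 10325425 0 0) (P.lf 0 1147268 0)))) (P.cons (P.cons (P.lf 101520719 0 0) (P.cons (P.lf 0 4861620 0) (P.cons (P.lf 0 2096385 0) P.nil))) (P.cons (P.cons (P.lf 4238784 0 0) (P.cons (P.lf 0 2074816 0) P.nil)) (P.cons (P.cons (P.lf 0 6694110 0) P.nil) P.nil)))))) 3611757)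
 (EL.cons 8 (TM.mk (P.cons (P.cons (P.lf 1302090249 0 0) (P.cons (P.lf 0 178534665 0) (P.cons (P.lf 0 76986162 0) (P.lf 8554017 0 0)))) (P.cons (P.cons (P.lf 64415385 0 0) (P.cons (P.lf 0 45833218 0) (P.cons (P.lf 0 19763799 0) (P.lf 2195977 0 0)))) (P.cons (P.cons (P.lf 0 249768135 0) (P.cons (P.lf 17057074 0 0) (P.cons (P.lf 7355202 0 0) (P.lf 0 817244 0)))) (P.cons (P.cons (P.lf 0 1941311 0) (P.cons (P.lf 5346408 0 0) (P.cons (P.lf 2305431 0 0) P.nil))) (P.cons (P.cons (P.lf 19639197 0 0) (P.cons (P.lf 0 730747 0) P.nil)) (P.cons (P.cons (P.lf 620527 0 0) P.nil) P.nil)))))) 2858490)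
 EL.nil))
noncomputable def S198_256_216_364_14 : EL := (EL.cons 4 (TM.mk (P.cons (P.cons (P.lf 351964267 0 0) (P.cons (P.lf 0 96518382 0) (P.cons (P.lf 0 35002809 0) (P.cons (P.lf 10331078 0 0) (P.cons (P.lf 596313 0 0) (P.cons (P.lf 0 273419 0) P.nil)))))) (P.cons (P.cons (P.lf 0 351205018 0) (P.cons (P.lf 76306921 0 0) (P.cons (P.lf 29044398 0 0) (P.cons (P.lf 0 6985002 0) (P.cons (P.lf 0 347857 0) P.nil))))) (P.cons (P.cons (P.lf 0 119417002 0) (P.cons (P.lf 44404192 0 0) (P.cons (P.lf 15588434 0 0) (P.cons (P.lf 0 5197003 0) P.nil)))) (P.cons (P.cons (P.lf 123850108 0 0) (P.cons (P.lf 0 19570657 0) (P.cons (P.lf 0 8131734 0) P.nil))) (P.cons (P.cons (P.lf 12275491 0 0) (P.cons (P.lf 0 7437725 0) P.nil)) (P.cons (P.cons (P.lf 0 18372000 0) P.nil) P.nil)))))) 22530202)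
 (EL.cons 8 (TM.mk (P.cons (P.cons (P.lf 815241663 0 0) (P.cons (P.lf 0 223561918 0) (P.cons (P.lf 0 81075699 0) (P.cons (P.lf 23929490 0 0) (P.cons (P.lf 1381220 0 0) (P.cons (P.lf 0 633310 0) P.nil)))))) (P.cons (P.cons (P.lf 28339256 0 0) (P.cons (P.lf 0 54104198 0) (P.cons (P.lf 0 16444685 0) (P.cons (P.lf 8530601 0 0) (P.cons (P.lf 620524 0 0) P.nil))))) (P.cons (P.cons (P.lf 0 288075495 0) (P.cons (P.lf 58154909 0 0) (P.cons (P.lf 23177399 0 0) (P.cons (P.lf 0 4424642 0) P.nil)))) (P.cons (P.cons (P.lf 3037054 0 0) (P.cons (P.lf 13296186 0 0) (P.cons (P.lf 4422689 0 0) P.nil))) (P.cons (P.cons (P.lf 45332819 0 0) (P.cons (P.lf 0 7086254 0) P.nil)) (P.cons (P.cons (P.lf 0 971137 0) P.nil) P.nil)))))) 19543639)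
 EL.nil))
noncomputable def S198_256_216_364_15 : EL := (EL.cons 4 (TM.mk (P.cons (P.lf 0 200209597 0) (P.cons (P.lf 387775913 0 0) (P.cons (P.lf 0 169200214 0) (P.cons (P.lf 0 23515311 0) (P.cons (P.lf 4462718 0 0) (P.cons (P.lf 782419 0 0) P.nil)))))) 166134)
 (EL.cons 8 (TM.mk (P.cons (P.lf 0 463738000 0) (P.cons (P.lf 419332844 0 0) (P.cons (P.lf 64265877 0 0) (P.cons (P.lf 0 17622484 0) (P.cons (P.lf 0 2672482 0) (P.cons (P.lf 364787 0 0) P.nil)))))) 94488)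
 EL.nil))
noncomputable def S198_256_216_364_16 : EL := (EL.cons 4 (TM.mk (P.cons (P.cons (P.lf 0 125351683 0) (P.cons (P.lf 17187457 0 0) (P.cons (P.lf 7411425 0 0) (P.lf 0 823491 0)))) (P.cons (P.cons (P.lf 244631174 0 0) (P.cons (P.lf 0 29980264 0) (P.cons (P.lf 0 12927827 0) (P.lf 1436425 0 0)))) (P.cons (P.cons (P.lf 0 89349545 0) (P.cons (P.lf 6778095 0 0) (P.cons (P.lf 2922791 0 0) (P.lf 0 324754 0)))) (P.cons (P.cons (P.lf 0 53505695 0) (P.cons (P.lf 7110833 0 0) (P.cons (P.lf 3066270 0 0) P.nil))) (P.cons (P.cons (P.lf 21413635 0 0) (P.cons (P.lf 0 503900 0) P.nil)) (P.cons (P.cons (P.lf 3958739 0 0) P.nil) P.nil)))))) 5188463)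
 (EL.cons 8 (TM.mk (P.cons (P.cons (P.lf 0 290347415 0) (P.cons (P.lf 39810664 0 0) (P.cons (P.lf 17166807 0 0) (P.lf 0 1907422 0)))) (P.cons (P.cons (P.lf 266815957 0 0) (P.cons (P.lf 0 28333489 0) (P.cons (P.lf 0 12217720 0) (P.lf 1357524 0 0)))) (P.cons (P.cons (P.lf 83067029 0 0) (P.cons (P.lf 0 15546777 0) (P.cons (P.lf 0 6703945 0) (P.lf 744882 0 0)))) (P.cons (P.cons (P.lf 0 56851340 0) (P.cons (P.lf 2567735 0 0) (P.cons (P.lf 1107236 0 0) P.nil))) (P.cons (P.cons (P.lf 0 7918655 0) (P.cons (P.lf 1681640 0 0) P.nil)) (P.cons (P.cons (P.lf 4888400 0 0) P.nil) P.nil)))))) 3282112)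
 EL.nil))
noncomputable def S198_256_216_364_17 : EL := (EL.cons 4 (TM.mk (P.cons (P.cons (P.lf 0 78482973 0) (P.cons (P.lf 21522211 0 0) (P.cons (P.lf 7805123 0 0) (P.cons (P.lf 0 2303681 0) (P.cons (P.lf 0 132969 0) (P.cons (P.lf 60968 0 0) P.nil)))))) (P.cons (P.cons (P.lf 154318537 0 0) (P.cons (P.lf 0 37857992 0) (P.cons (P.lf 0 14035159 0) (P.cons (P.lf 3788497 0 0) (P.cons (P.lf 206338 0 0) P.nil))))) (P.cons (P.cons (P.lf 0 45573716 0) (P.cons (P.lf 5578695 0 0) (P.cons (P.lf 2434100 0 0) (P.cons (P.lf 0 242705 0) P.nil)))) (P.cons (P.cons (P.lf 0 58120377 0) (P.cons (P.lf 15039304 0 0) (P.cons (P.lf 5587694 0 0) P.nil))) (P.cons (P.cons (P.lf 23763875 0 0) (P.cons (P.lf 0 2318674 0) P.nil)) (P.cons (P.cons (P.lf 8501875 0 0) P.nil) P.nil)))))) 19709970)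
 (EL.cons 8 (TM.mk (P.cons (P.cons (P.lf 0 181787176 0) (P.cons (P.lf 49851095 0 0) (P.cons (P.lf 18078715 0 0) (P.cons (P.lf 0 5335932 0) (P.cons (P.lf 0 307992 0) (P.cons (P.lf 141219 0 0) P.nil)))))) (P.cons (P.cons (P.lf 169727978 0 0) (P.cons (P.lf 0 36212582 0) (P.cons (P.lf 0 13840949 0) (P.cons (P.lf 3265247 0 0) (P.cons (P.lf 159899 0 0) P.nil))))) (P.cons (P.cons (P.lf 78785097 0 0) (P.cons (P.lf 0 26962610 0) (P.cons (P.lf 0 9557603 0) (P.cons (P.lf 3076174 0 0) P.nil)))) (P.cons (P.cons (P.lf 0 65105856 0) (P.cons (P.lf 9723210 0 0) (P.cons (P.lf 4098762 0 0) P.nil))) (P.cons (P.cons (P.lf 0 12730895 0) (P.cons (P.lf 5277676 0 0) P.nil)) (P.cons (P.cons (P.lf 10950999 0 0) P.nil) P.nil)))))) 15999723)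
 EL.nil))
noncomputable def S198_256_216_364_18 : EL := (EL.cons 4 (TM.mk (P.cons (P.lf 44643862 0 0) (P.cons (P.lf 0 129702684 0) (P.cons (P.lf 119397478 0 0) (P.cons (P.lf 0 26667962 0) (P.cons (P.lf 0 8965736 0) (P.cons (P.lf 958581 0 0) P.nil)))))) 467642)
 (EL.cons 8 (TM.mk (P.cons (P.lf 103406910 0 0) (P.cons (P.lf 0 193647023 0) (P.cons (P.lf 71427862 0 0) (P.cons (P.lf 23572483 0 0) (P.cons (P.lf 0 3717003 0) (P.cons (P.lf 0 1166783 0) P.nil)))))) 289701)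
 EL.nil))
noncomputable def S198_256_216_364_19 : EL := (EL.cons 4 (TM.mk (P.cons (P.cons (P.lf 27951623 0 0) (P.cons (P.lf 0 3832555 0) (P.cons (P.lf 0 1652640 0) (P.lf 183626 0 0)))) (P.cons (P.cons (P.lf 0 81618284 0) (P.cons (P.lf 10396710 0 0) (P.cons (P.lf 4483178 0 0) (P.lf 0 498130 0)))) (P.cons (P.cons (P.lf 71454506 0 0) (P.cons (P.lf 0 7807801 0) (P.cons (P.lf 0 3366811 0) (P.lf 374089 0 0)))) (P.cons (P.cons (P.lf 0 4447925 0) (P.cons (P.lf 0 484865 0) (P.cons (P.lf 0 209079 0) P.nil))) (P.cons (P.cons (P.lf 0 17974469 0) (P.cons (P.lf 1805932 0 0) P.nil)) (P.cons (P.cons (P.lf 3394866 0 0) P.nil) P.nil)))))) 5234896)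
 (EL.cons 8 (TM.mk (P.cons (P.cons (P.lf 64743301 0 0) (P.cons (P.lf 0 8877206 0) (P.cons (P.lf 0 3827951 0) (P.lf 425327 0 0)))) (P.cons (P.cons (P.lf 0 122195148 0) (P.cons (P.lf 14914868 0 0) (P.cons (P.lf 6431459 0 0) (P.lf 0 714606 0)))) (P.cons (P.cons (P.lf 36092906 0 0) (P.cons (P.lf 0 2240164 0) (P.cons (P.lf 0 965984 0) (P.lf 107331 0 0)))) (P.cons (P.cons (P.lf 34268585 0 0) (P.cons (P.lf 0 4345478 0) (P.cons (P.lf 0 1873819 0) P.nil))) (P.cons (P.cons (P.lf 0 10399069 0) (P.cons (P.lf 95743 0 0) P.nil)) (P.cons (P.cons (P.lf 0 3725157 0) P.nil) P.nil)))))) 4013858)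
 EL.nil))
noncomputable def S198_256_216_364_20 : EL := (EL.cons 4 (TM.mk (P.cons (P.cons (P.lf 17500575 0 0) (P.cons (P.lf 0 4799143 0) (P.cons (P.lf 0 1740430 0) (P.cons (P.lf 513687 0 0) (P.cons (P.lf 29649 0 0) (P.cons (P.lf 0 13594 0) P.nil)))))) (P.cons (P.cons (P.lf 0 51358808 0) (P.cons (P.lf 13089398 0 0) (P.cons (P.lf 4815114 0 0) (P.cons (P.lf 0 1342248 0) (P.cons (P.lf 0 74724 0) P.nil))))) (P.cons (P.cons (P.lf 42675148 0 0) (P.cons (P.lf 0 9196691 0) (P.cons (P.lf 0 3492893 0) (P.cons (P.lf 848408 0 0) P.nil)))) (P.cons (P.cons (P.lf 4956027 0 0) (P.cons (P.lf 0 2606615 0) (P.cons (P.lf 0 889513 0) P.nil))) (P.cons (P.cons (P.lf 0 18776260 0) (P.cons (P.lf 3933468 0 0) P.nil)) (P.cons (P.cons (P.lf 2732100 0 0) P.nil) P.nil)))))) 14298135)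
 (EL.cons 8 (TM.mk (P.cons (P.cons (P.lf 40535927 0 0) (P.cons (P.lf 0 11116077 0) (P.cons (P.lf 0 4031293 0) (P.cons (P.lf 1189835 0 0) (P.cons (P.lf 68677 0 0) (P.cons (P.lf 0 31489 0) P.nil)))))) (P.cons (P.cons (P.lf 0 77102901 0) (P.cons (P.lf 18839971 0 0) (P.cons (P.lf 6990338 0 0) (P.cons (P.lf 0 1880370 0) (P.cons (P.lf 0 102164 0) P.nil))))) (P.cons (P.cons (P.lf 17204459 0 0) (P.cons (P.lf 0 1292240 0) (P.cons (P.lf 0 670759 0) (P.cons (P.lf 0 35997 0) P.nil)))) (P.cons (P.cons (P.lf 33846113 0 0) (P.cons (P.lf 0 8518650 0) (P.cons (P.lf 0 3176712 0) P.nil))) (P.cons (P.cons (P.lf 0 10881784 0) (P.cons (P.lf 742713 0 0) P.nil)) (P.cons (P.cons (P.lf 0 6158662 0) P.nil) P.nil)))))) 12894204)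
 EL.nil))
noncomputable def S198_256_216_364_21 : EL := (EL.cons 4 (TM.mk (P.cons (P.cons (P.lf 128836113 0 0) (P.cons (P.lf 231236301 0 0) (P.cons (P.lf 99711702 0 0) (P.lf 0 11079075 0)))) (P.cons (P.cons (P.lf 2821337949 0 0) (P.cons (P.lf 0 179412945 0) (P.cons (P.lf 0 77364888 0) (P.lf 8596095 0 0)))) (P.cons (P.cons (P.lf 0 182225172 0) (P.cons (P.lf 0 71835498 0) (P.cons (P.lf 0 30976275 0) (P.lf 3441804 0 0)))) (P.cons (P.cons (P.lf 0 375108093 0) (P.cons (P.lf 14584860 0 0) (P.cons (P.lf 6289155 0 0) P.nil))) (P.cons (P.cons (P.lf 671796 0 0) (P.cons (P.lf 6224448 0 0) P.nil)) (P.cons (P.cons (P.lf 22429587 0 0) P.nil) P.nil)))))) 11340885)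
 (EL.cons 8 (TM.mk (P.cons (P.cons (P.lf 0 19776849 0) (P.cons (P.lf 0 35495703 0) (P.cons (P.lf 0 15306147 0) (P.lf 1700685 0 0)))) (P.cons (P.cons (P.lf 0 412664961 0) (P.cons (P.lf 64193616 0 0) (P.cons (P.lf 27681009 0 0) (P.lf 0 3075666 0)))) (P.cons (P.cons (P.lf 474191292 0 0) (P.cons (P.lf 0 19185231 0) (P.cons (P.lf 0 8272887 0) (P.lf 919209 0 0)))) (P.cons (P.cons (P.lf 7420086 0 0) (P.cons (P.lf 0 11593836 0) (P.cons (P.lf 0 4999392 0) P.nil))) (P.cons (P.cons (P.lf 0 50195220 0) (P.cons (P.lf 1348602 0 0) P.nil)) (P.cons (P.cons (P.lf 0 1582347 0) P.nil) P.nil)))))) 9788109)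
 (EL.cons 11 (TM.mk (P.cons (P.cons (P.lf 1193318205 0 0) (P.cons (P.lf 1111686303 0 0) (P.cons (P.lf 0 114095178 0) (P.cons (P.lf 0 23728623 0) (P.lf 1977384 0 0))))) (P.cons (P.cons (P.lf 153173658 0 0) (P.cons (P.lf 142695432 0 0) (P.cons (P.lf 0 14645193 0) (P.cons (P.lf 0 3045792 0) (P.lf 253815 0 0))))) (P.cons (P.cons (P.lf 0 66835029 0) (P.cons (P.lf 0 62263014 0) (P.cons (P.lf 6390210 0 0) (P.cons (P.lf 1328985 0 0) P.nil)))) (P.cons (P.cons (P.lf 0 9288678 0) (P.cons (P.lf 0 8653263 0) (P.cons (P.lf 888105 0 0) P.nil))) (P.cons (P.cons (P.lf 1762794 0 0) (P.cons (P.lf 1642206 0 0) P.nil)) (P.cons (P.cons (P.lf 309057 0 0) P.nil) P.nil)))))) 983838)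
 EL.nil)))
noncomputable def S198_256_216_364_22 : EL := (EL.cons 4 (TM.mk (P.cons (P.cons (P.lf 80664582 0 0) (P.cons (P.lf 133717338 0 0) (P.cons (P.lf 37809408 0 0) (P.cons (P.lf 0 23526675 0) (P.cons (P.lf 0 1788942 0) (P.cons (P.lf 820257 0 0) P.nil)))))) (P.cons (P.cons (P.lf 1765259607 0 0) (P.cons (P.lf 0 358794213 0) (P.cons (P.lf 0 143136090 0) (P.cons (P.lf 27177549 0 0) (P.cons (P.lf 1043571 0 0) P.nil))))) (P.cons (P.cons (P.lf 0 153046146 0) (P.cons (P.lf 0 96735705 0) (P.cons (P.lf 0 31036062 0) (P.cons (P.lf 13843314 0 0) P.nil)))) (P.cons (P.cons (P.lf 0 516411357 0) (P.cons (P.lf 83611731 0 0) (P.cons (P.lf 35132256 0 0) P.nil))) (P.cons (P.cons (P.lf 41243361 0 0) (P.cons (P.lf 20216151 0 0) P.nil)) (P.cons (P.cons (P.lf 66761442 0 0) P.nil) P.nil)))))) 63869046)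
 (EL.cons 8 (TM.mk (P.cons (P.cons (P.lf 0 12382329 0) (P.cons (P.lf 0 20526150 0) (P.cons (P.lf 0 5803896 0) (P.cons (P.lf 3611439 0 0) (P.cons (P.lf 274608 0 0) (P.cons (P.lf 0 125910 0) P.nil)))))) (P.cons (P.cons (P.lf 0 258188337 0) (P.cons (P.lf 76271730 0 0) (P.cons (P.lf 27965085 0 0) (P.cons (P.lf 0 7901049 0) (P.cons (P.lf 0 443754 0) P.nil))))) (P.cons (P.cons (P.lf 302683854 0 0) (P.cons (P.lf 0 43048455 0) (P.cons (P.lf 0 18214206 0) (P.cons (P.lf 2363340 0 0) P.nil)))) (P.cons (P.cons (P.lf 41700054 0 0) (P.cons (P.lf 0 25037064 0) (P.cons (P.lf 0 9107337 0) P.nil))) (P.cons (P.cons (P.lf 0 82027386 0) (P.cons (P.lf 9846003 0 0) P.nil)) (P.cons (P.cons (P.lf 0 562848 0) P.nil) P.nil)))))) 35580990)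
 (EL.cons 11 (TM.mk (P.cons (P.cons (P.lf 747139239 0 0) (P.cons (P.lf 593586147 0 0) (P.cons (P.lf 0 211045191 0) (P.cons (P.lf 0 41306259 0) (P.cons (P.lf 12071226 0 0) (P.cons (P.lf 239349 0 0) P.nil)))))) (P.cons (P.cons (P.lf 84912726 0 0) (P.cons (P.lf 46230189 0 0) (P.cons (P.lf 0 52919283 0) (P.cons (P.lf 0 10176126 0) (P.cons (P.lf 3617055 0 0) P.nil))))) (P.cons (P.cons (P.lf 0 163406274 0) (P.cons (P.lf 0 141048795 0) (P.cons (P.lf 30858696 0 0) (P.cons (P.lf 6135627 0 0) P.nil)))) (P.cons (P.cons (P.lf 0 12889407 0) (P.cons (P.lf 0 7320075 0) (P.cons (P.lf 7620657 0 0) P.nil))) (P.cons (P.cons (P.lf 15741843 0 0) (P.cons (P.lf 14157666 0 0) P.nil)) (P.cons (P.cons (P.lf 1442178 0 0) P.nil) P.nil)))))) 17930442)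
 EL.nil)))
noncomputable def S198_256_216_364_23 : EL := (EL.cons 4 (TM.mk (P.cons (P.cons (P.lf 0 28728600 0) (P.cons (P.lf 0 51562371 0) (P.cons (P.lf 0 22234275 0) (P.lf 2470473 0 0)))) (P.cons (P.cons (P.lf 0 601296327 0) (P.cons (P.lf 89940792 0 0) (P.cons (P.lf 38783484 0 0) (P.lf 0 4309272 0)))) (P.cons (P.cons (P.lf 651218970 0 0) (P.cons (P.lf 0 20334288 0) (P.cons (P.lf 0 8768376 0) (P.lf 974262 0 0)))) (P.cons (P.cons (P.lf 73065429 0 0) (P.cons (P.lf 0 21332499 0) (P.cons (P.lf 0 9198813 0) P.nil))) (P.cons (P.cons (P.lf 0 91767621 0) (P.cons (P.lf 1511703 0 0) P.nil)) (P.cons (P.cons (P.lf 0 8902770 0) P.nil) P.nil)))))) 16804626)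
 (EL.cons 8 (TM.mk (P.cons (P.cons (P.lf 4409952 0 0) (P.cons (P.lf 7915029 0 0) (P.cons (P.lf 3413049 0 0) (P.lf 0 379227 0)))) (P.cons (P.cons (P.lf 87747648 0 0) (P.cons (P.lf 0 21979365 0) (P.cons (P.lf 0 9477750 0) (P.lf 1053081 0 0)))) (P.cons (P.cons (P.lf 0 195055179 0) (P.cons (P.lf 17773323 0 0) (P.cons (P.lf 7664055 0 0) (P.lf 0 851559 0)))) (P.cons (P.cons (P.lf 96539061 0 0) (P.cons (P.lf 0 784575 0) (P.cons (P.lf 0 338316 0) P.nil))) (P.cons (P.cons (P.lf 18975060 0 0) (P.cons (P.lf 0 3191346 0) P.nil)) (P.cons (P.cons (P.lf 0 11764947 0) P.nil) P.nil)))))) 7848909)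
 (EL.cons 11 (TM.mk (P.cons (P.cons (P.lf 0 266092812 0) (P.cons (P.lf 0 247890069 0) (P.cons (P.lf 25441584 0 0) (P.cons (P.lf 5291139 0 0) (P.lf 0 440928 0))))) (P.cons (P.cons (P.lf 223535376 0 0) (P.cons (P.lf 208243881 0 0) (P.cons (P.lf 0 21372594 0) (P.cons (P.lf 0 4444905 0) (P.lf 370407 0 0))))) (P.cons (P.cons (P.lf 60317883 0 0) (P.cons (P.lf 56191689 0 0) (P.cons (P.lf 0 5767095 0) (P.cons (P.lf 0 1199394 0) P.nil)))) (P.cons (P.cons (P.lf 0 14456541 0) (P.cons (P.lf 0 13467606 0) (P.cons (P.lf 1382214 0 0) P.nil))) (P.cons (P.cons (P.lf 0 3873057 0) (P.cons (P.lf 0 3608109 0) P.nil)) (P.cons (P.cons (P.lf 430101 0 0) P.nil) P.nil)))))) 2300838)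
 EL.nil)))
noncomputable def S198_256_216_364_24 : EL := (EL.cons 4 (TM.mk (P.cons (P.cons (P.lf 0 17987040 0) (P.cons (P.lf 0 29817045 0) (P.cons (P.lf 0 8430954 0) (P.cons (P.lf 5246109 0 0) (P.cons (P.lf 398907 0 0) (P.cons (P.lf 0 182904 0) P.nil)))))) (P.cons (P.cons (P.lf 0 376208424 0) (P.cons (P.lf 108881520 0 0) (P.cons (P.lf 40082037 0 0) (P.cons (P.lf 0 11140665 0) (P.cons (P.lf 0 619014 0) P.nil))))) (P.cons (P.cons (P.lf 416159766 0 0) (P.cons (P.lf 0 54526596 0) (P.cons (P.lf 0 23597994 0) (P.cons (P.lf 2538750 0 0) P.nil)))) (P.cons (P.cons (P.lf 100104921 0 0) (P.cons (P.lf 0 43655541 0) (P.cons (P.lf 0 16132491 0) P.nil))) (P.cons (P.cons (P.lf 0 127758309 0) (P.cons (P.lf 13618716 0 0) P.nil)) (P.cons (P.cons (P.lf 0 11304558 0) P.nil) P.nil)))))) 61549560)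
 (EL.cons 8 (TM.mk (P.cons (P.cons (P.lf 2761080 0 0) (P.cons (P.lf 4577034 0 0) (P.cons (P.lf 1294185 0 0) (P.cons (P.lf 0 805299 0) (P.cons (P.lf 0 61233 0) (P.cons (P.lf 28074 0 0) P.nil)))))) (P.cons (P.cons (P.lf 54898389 0 0) (P.cons (P.lf 0 21440016 0) (P.cons (P.lf 0 7489134 0) (P.cons (P.lf 2541690 0 0) (P.cons (P.lf 158250 0 0) P.nil))))) (P.cons (P.cons (P.lf 0 123376605 0) (P.cons (P.lf 25857456 0 0) (P.cons (P.lf 10040415 0 0) (P.cons (P.lf 0 2195841 0) P.nil)))) (P.cons (P.cons (P.lf 53433294 0 0) (P.cons (P.lf 0 2861343 0) (P.cons (P.lf 0 1595436 0) P.nil))) (P.cons (P.cons (P.lf 31224417 0 0) (P.cons (P.lf 0 8276994 0) P.nil)) (P.cons (P.cons (P.lf 0 18023085 0) P.nil) P.nil)))))) 22922301)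
 (EL.cons 11 (TM.mk (P.cons (P.cons (P.lf 0 166601313 0) (P.cons (P.lf 0 132361179 0) (P.cons (P.lf 47060043 0 0) (P.cons (P.lf 9210702 0 0) (P.cons (P.lf 0 2691708 0) (P.cons (P.lf 0 53370 0) P.nil)))))) (P.cons (P.cons (P.lf 142406538 0 0) (P.cons (P.lf 117873192 0 0) (P.cons (P.lf 0 33773877 0) (P.cons (P.lf 0 6650742 0) (P.cons (P.lf 1800165 0 0) P.nil))))) (P.cons (P.cons (P.lf 62498298 0 0) (P.cons (P.lf 47572041 0 0) (P.cons (P.lf 0 20490660 0) (P.cons (P.lf 0 3992700 0) P.nil)))) (P.cons (P.cons (P.lf 0 33837957 0) (P.cons (P.lf 0 30178419 0) (P.cons (P.lf 5067960 0 0) P.nil))) (P.cons (P.cons (P.lf 0 8439489 0) (P.cons (P.lf 0 6493161 0) P.nil)) (P.cons (P.cons (P.lf 3456360 0 0) P.nil) P.nil)))))) 17941467)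
 EL.nil)))
noncomputable def S198_256_216_364_25 : EL := (EL.cons 4 (TM.mk (P.cons (P.cons (P.lf 6406065 0 0) (P.cons (P.lf 11497668 0 0) (P.cons (P.lf 4957923 0 0) (P.lf 0 550878 0)))) (P.cons (P.cons (P.lf 127876647 0 0) (P.cons (P.lf 0 31190130 0) (P.cons (P.lf 0 13449537 0) (P.lf 1494390 0 0)))) (P.cons (P.cons (P.lf 0 275356329 0) (P.cons (P.lf 23423406 0 0) (P.cons (P.lf 10100436 0 0) (P.lf 0 1122270 0)))) (P.cons (P.cons (P.lf 118206663 0 0) (P.cons (P.lf 1454598 0 0) (P.cons (P.lf 627237 0 0) P.nil))) (P.cons (P.cons (P.lf 44834991 0 0) (P.cons (P.lf 0 5417796 0) P.nil)) (P.cons (P.cons (P.lf 0 18928194 0) P.nil) P.nil)))))) 15688125)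
 (EL.cons 8 (TM.mk (P.cons (P.cons (P.lf 0 983355 0) (P.cons (P.lf 0 1764936 0) (P.cons (P.lf 0 761061 0) (P.lf 84561 0 0)))) (P.cons (P.cons (P.lf 0 18614157 0) (P.cons (P.lf 6610293 0 0) (P.cons (P.lf 2850432 0 0) (P.lf 0 316713 0)))) (P.cons (P.cons (P.lf 62488746 0 0) (P.cons (P.lf 0 8627694 0) (P.cons (P.lf 0 3720357 0) (P.lf 413373 0 0)))) (P.cons (P.cons (P.lf 0 62754363 0) (P.cons (P.lf 3761364 0 0) (P.cons (P.lf 1621941 0 0) P.nil))) (P.cons (P.cons (P.lf 14327634 0 0) (P.cons (P.lf 791649 0 0) P.nil)) (P.cons (P.cons (P.lf 8297715 0 0) P.nil) P.nil)))))) 8050188)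
 (EL.cons 11 (TM.mk (P.cons (P.cons (P.lf 59334873 0 0) (P.cons (P.lf 55275921 0 0) (P.cons (P.lf 0 5673105 0) (P.cons (P.lf 0 1179846 0) (P.lf 98319 0 0))))) (P.cons (P.cons (P.lf 0 107306544 0) (P.cons (P.lf 0 99965973 0) (P.cons (P.lf 10259760 0 0) (P.cons (P.lf 2133744 0 0) (P.lf 0 177810 0))))) (P.cons (P.cons (P.lf 32070186 0 0) (P.cons (P.lf 29876343 0 0) (P.cons (P.lf 0 3066282 0) (P.cons (P.lf 0 637701 0) P.nil)))) (P.cons (P.cons (P.lf 19380348 0 0) (P.cons (P.lf 18054588 0 0) (P.cons (P.lf 0 1852986 0) P.nil))) (P.cons (P.cons (P.lf 0 2254338 0) (P.cons (P.lf 0 2100123 0) P.nil)) (P.cons (P.cons (P.lf 0 1336689 0) P.nil) P.nil)))))) 3481563)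
 EL.nil)))
noncomputable def S198_256_216_364_26 : EL := (EL.cons 4 (TM.mk (P.cons (P.cons (P.lf 4010850 0 0) (P.cons (P.lf 6648771 0 0) (P.cons (P.lf 1879980 0 0) (P.cons (P.lf 0 1169805 0) (P.cons (P.lf 0 88950 0) (P.cons (P.lf 40785 0 0) P.nil)))))) (P.cons (P.cons (P.lf 80004861 0 0) (P.cons (P.lf 0 30717849 0) (P.cons (P.lf 0 10758339 0) (P.cons (P.lf 3617079 0 0) (P.cons (P.lf 224172 0 0) P.nil))))) (P.cons (P.cons (P.lf 0 174223878 0) (P.cons (P.lf 35362773 0 0) (P.cons (P.lf 13830354 0 0) (P.cons (P.lf 0 2917635 0) P.nil)))) (P.cons (P.cons (P.lf 63711468 0 0) (P.cons (P.lf 0 822543 0) (P.cons (P.lf 0 1058154 0) P.nil))) (P.cons (P.cons (P.lf 55572489 0 0) (P.cons (P.lf 0 13355598 0) P.nil)) (P.cons (P.cons (P.lf 0 25218651 0) P.nil) P.nil)))))) 41258544)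
 (EL.cons 8 (TM.mk (P.cons (P.cons (P.lf 0 615681 0) (P.cons (P.lf 0 1020612 0) (P.cons (P.lf 0 288582 0) (P.cons (P.lf 179568 0 0) (P.cons (P.lf 13653 0 0) (P.cons (P.lf 0 6258 0) P.nil)))))) (P.cons (P.cons (P.lf 0 11645310 0) (P.cons (P.lf 5769201 0 0) (P.cons (P.lf 1949439 0 0) (P.cons (P.lf 0 740661 0) (P.cons (P.lf 0 48510 0) P.nil))))) (P.cons (P.cons (P.lf 39394779 0 0) (P.cons (P.lf 0 10348380 0) (P.cons (P.lf 0 3842727 0) (P.cons (P.lf 1030179 0 0) P.nil)))) (P.cons (P.cons (P.lf 0 37998321 0) (P.cons (P.lf 5986044 0 0) (P.cons (P.lf 2442516 0 0) P.nil))) (P.cons (P.cons (P.lf 3130509 0 0) (P.cons (P.lf 1559997 0 0) P.nil)) (P.cons (P.cons (P.lf 11680233 0 0) P.nil) P.nil)))))) 16600038)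
 (EL.cons 11 (TM.mk (P.cons (P.cons (P.lf 37149696 0 0) (P.cons (P.lf 29514639 0 0) (P.cons (P.lf 0 10493712 0) (P.cons (P.lf 0 2053854 0) (P.cons (P.lf 600210 0 0) (P.cons (P.lf 11901 0 0) P.nil)))))) (P.cons (P.cons (P.lf 0 67731303 0) (P.cons (P.lf 0 54866739 0) (P.cons (P.lf 17693463 0 0) (P.cons (P.lf 3472023 0 0) (P.cons (P.lf 0 982671 0) P.nil))))) (P.cons (P.cons (P.lf 15093261 0 0) (P.cons (P.lf 13477758 0 0) (P.cons (P.lf 0 2237622 0) (P.cons (P.lf 0 450648 0) P.nil)))) (P.cons (P.cons (P.lf 23027484 0 0) (P.cons (P.lf 18629007 0 0) (P.cons (P.lf 0 6049194 0) P.nil))) (P.cons (P.cons (P.lf 0 5174682 0) (P.cons (P.lf 0 4906038 0) P.nil)) (P.cons (P.cons (P.lf 0 3179541 0) P.nil) P.nil)))))) 14651682)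
 EL.nil)))
noncomputable def S198_256_216_364_27 : EL := (EL.cons 13 (TM.mk (P.lf 0 4294967296 0) 0)
 EL.nil)
noncomputable def S198_256_216_364_28 : EL := (EL.cons 13 (TM.mk (P.cons (P.cons (P.lf 0 2689088784 0) (P.cons (P.lf 368711436 0 0) (P.cons (P.lf 158992532 0 0) (P.lf 0 17665836 0)))) (P.cons (P.cons (P.lf 39553720 0 0) (P.cons (P.lf 70991388 0 0) (P.cons (P.lf 30612284 0 0) (P.lf 0 3401364 0)))) (P.cons (P.cons (P.lf 432441815 0 0) (P.cons (P.lf 0 28697924 0) (P.cons (P.lf 0 12374868 0) (P.lf 1374984 0 0)))) (P.cons (P.cons (P.lf 0 27832986 0) (P.cons (P.lf 0 6341792 0) (P.cons (P.lf 0 2734652 0) P.nil))) (P.cons (P.cons (P.lf 0 24584771 0) (P.cons (P.lf 1040572 0 0) P.nil)) (P.cons (P.cons (P.lf 410267 0 0) P.nil) P.nil)))))) 2954836)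
 EL.nil)
noncomputable def S198_256_216_364_29 : EL := (EL.cons 13 (TM.mk (P.cons (P.cons (P.lf 0 1683644598 0) (P.cons (P.lf 461702135 0 0) (P.cons (P.lf 167438282 0 0) (P.cons (P.lf 0 49419405 0) (P.cons (P.lf 0 2852509 0) (P.cons (P.lf 1307919 0 0) P.nil)))))) (P.cons (P.cons (P.lf 49529347 0 0) (P.cons (P.lf 82104576 0 0) (P.cons (P.lf 23215574 0 0) (P.cons (P.lf 0 14445753 0) (P.cons (P.lf 0 1098439 0) P.nil))))) (P.cons (P.cons (P.lf 541141343 0 0) (P.cons (P.lf 0 111491177 0) (P.cons (P.lf 0 44322387 0) (P.cons (P.lf 8579222 0 0) P.nil)))) (P.cons (P.cons (P.lf 0 42817580 0) (P.cons (P.lf 0 16929505 0) (P.cons (P.lf 0 5262646 0) P.nil))) (P.cons (P.cons (P.lf 0 73813225 0) (P.cons (P.lf 12339932 0 0) P.nil)) (P.cons (P.cons (P.lf 6571323 0 0) P.nil) P.nil)))))) 28314350)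
 EL.nil)
noncomputable def S198_256_216_364_30 : EL := (EL.cons 13 (TM.mk (P.cons (P.lf 957715992 0 0) (P.cons (P.lf 0 927476000 0) (P.cons (P.lf 0 44405152 0) (P.cons (P.lf 13240480 0 0) (P.cons (P.lf 1119116 0 0) (P.cons (P.lf 0 173696 0) P.nil)))))) 29016)
 EL.nil)
noncomputable def S198_256_216_364_31 : EL := (EL.cons 13 (TM.mk (P.cons (P.cons (P.lf 599628158 0 0) (P.cons (P.lf 0 82217352 0) (P.cons (P.lf 0 35453050 0) (P.lf 3939227 0 0)))) (P.cons (P.cons (P.lf 0 589514742 0) (P.cons (P.lf 63791270 0 0) (P.cons (P.lf 27507516 0 0) (P.lf 0 3056390 0)))) (P.cons (P.cons (P.lf 0 115689055 0) (P.cons (P.lf 25541511 0 0) (P.cons (P.lf 11013787 0 0) (P.lf 0 1223753 0)))) (P.cons (P.cons (P.lf 108288767 0 0) (P.cons (P.lf 0 5185728 0) (P.cons (P.lf 0 2236144 0) P.nil))) (P.cons (P.cons (P.lf 4521370 0 0) (P.cons (P.lf 0 2213138 0) P.nil)) (P.cons (P.cons (P.lf 0 7140384 0) P.nil)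 P.nil)))))) 3852521)
 EL.nil)
noncomputable def S198_256_216_364_32 : EL := (EL.cons 13 (TM.mk (P.cons (P.cons (P.lf 375428552 0 0) (P.cons (P.lf 0 102952941 0) (P.cons (P.lf 0 37336330 0) (P.cons (P.lf 11019817 0 0) (P.cons (P.lf 636068 0 0) (P.cons (P.lf 0 291647 0) P.nil)))))) (P.cons (P.cons (P.lf 0 374618686 0) (P.cons (P.lf 81394050 0 0) (P.cons (P.lf 30980692 0 0) (P.cons (P.lf 0 7450669 0) (P.cons (P.lf 0 371048 0) P.nil))))) (P.cons (P.cons (P.lf 0 127378136 0) (P.cons (P.lf 47364472 0 0) (P.cons (P.lf 16627663 0 0) (P.cons (P.lf 0 5543470 0) P.nil)))) (P.cons (P.cons (P.lf 132106782 0 0) (P.cons (P.lf 0 20875368 0) (P.cons (P.lf 0 8673850 0) P.nil))) (P.cons (P.cons (P.lf 13093858 0 0) (P.cons (P.lf 0 7933574 0) P.nil)) (P.cons (P.cons (P.lf 0 19596801 0) P.nil) P.nil)))))) 24032193)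
 EL.nil)
noncomputable def S198_256_216_364_33 : EL := (EL.cons 14 (TM.mk (P.lf 8589934592 0 0) 0)
 EL.nil)
noncomputable def S198_256_216_364_34 : EL := (EL.cons 14 (TM.mk (P.cons (P.cons (P.lf 5378177568 0 0) (P.cons (P.lf 0 737422872 0) (P.cons (P.lf 0 317985064 0) (P.lf 35331672 0 0)))) (P.cons (P.cons (P.lf 0 79107440 0) (P.cons (P.lf 0 141982776 0) (P.cons (P.lf 0 61224568 0) (P.lf 6802728 0 0)))) (P.cons (P.cons (P.lf 0 864883630 0) (P.cons (P.lf 57395848 0 0) (P.cons (P.lf 24749736 0 0) (P.lf 0 2749968 0)))) (P.cons (P.cons (P.lf 55665972 0 0) (P.cons (P.lf 12683584 0 0) (P.cons (P.lf 5469304 0 0) P.nil))) (P.cons (P.cons (P.lf 49169542 0 0) (P.cons (P.lf 0 2081144 0) P.nil)) (P.cons (P.cons (P.lf 0 820534 0) P.nil) P.nil)))))) 5909672)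
 EL.nil)
noncomputable def S198_256_216_364_35 : EL := (EL.cons 14 (TM.mk (P.cons (P.cons (P.lf 3367289196 0 0) (P.cons (P.lf 0 923404270 0) (P.cons (P.lf 0 334876564 0) (P.cons (P.lf 98838810 0 0) (P.cons (P.lf 5705018 0 0) (P.cons (P.lf 0 2615838 0) P.nil)))))) (P.cons (P.cons (P.lf 0 99058694 0) (P.cons (P.lf 0 164209152 0) (P.cons (P.lf 0 46431148 0) (P.cons (P.lf 28891506 0 0) (P.cons (P.lf 2196878 0 0) P.nil))))) (P.cons (P.cons (P.lf 0 1082282686 0) (P.cons (P.lf 222982354 0 0) (P.cons (P.lf 88644774 0 0) (P.cons (P.lf 0 17158444 0) P.nil)))) (P.cons (P.cons (P.lf 85635160 0 0) (P.cons (P.lf 33859010 0 0) (P.cons (P.lf 10525292 0 0) P.nil))) (P.cons (P.cons (P.lf 147626450 0 0) (P.cons (P.lf 0 24679864 0) P.nil)) (P.cons (P.cons (P.lf 0 13142646 0) P.nil) P.nil)))))) 56628700)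
 EL.nil)
noncomputable def S198_256_216_364_36 : EL := (EL.cons 14 (TM.mk (P.cons (P.lf 0 1915431984 0) (P.cons (P.lf 1854952000 0 0) (P.cons (P.lf 88810304 0 0) (P.cons (P.lf 0 26480960 0) (P.cons (P.lf 0 2238232 0) (P.cons (P.lf 347392 0 0) P.nil)))))) 58032)
 EL.nil)
noncomputable def S198_256_216_364_37 : EL := (EL.cons 14 (TM.mk (P.cons (P.cons (P.lf 0 1199256316 0) (P.cons (P.lf 164434704 0 0) (P.cons (P.lf 70906100 0 0) (P.lf 0 7878454 0)))) (P.cons (P.cons (P.lf 1179029484 0 0) (P.cons (P.lf 0 127582540 0) (P.cons (P.lf 0 55015032 0) (P.lf 6112780 0 0)))) (P.cons (P.cons (P.lf 231378110 0 0) (P.cons (P.lf 0 51083022 0) (P.cons (P.lf 0 22027574 0) (P.lf 2447506 0 0)))) (P.cons (P.cons (P.lf 0 216577534 0) (P.cons (P.lf 10371456 0 0) (P.cons (P.lf 4472288 0 0) P.nil))) (P.cons (P.cons (P.lf 0 9042740 0) (P.cons (P.lf 4426276 0 0) P.nil)) (P.cons (P.cons (P.lf 14280768 0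 0) P.nil) P.nil)))))) 7705042)
 EL.nil)
noncomputable def S198_256_216_364_38 : EL := (EL.cons 14 (TM.mk (P.cons (P.cons (P.lf 0 750857104 0) (P.cons (P.lf 205905882 0 0) (P.cons (P.lf 74672660 0 0) (P.cons (P.lf 0 22039634 0) (P.cons (P.lf 0 1272136 0) (P.cons (P.lf 583294 0 0) P.nil)))))) (P.cons (P.cons (P.lf 749237372 0 0) (P.cons (P.lf 0 162788100 0) (P.cons (P.lf 0 61961384 0) (P.cons (P.lf 14901338 0 0) (P.cons (P.lf 742096 0 0) P.nil))))) (P.cons (P.cons (P.lf 254756272 0 0) (P.cons (P.lf 0 94728944 0) (P.cons (P.lf 0 33255326 0) (P.cons (P.lf 11086940 0 0) P.nil)))) (P.cons (P.cons (P.lf 0 264213564 0) (P.cons (P.lf 41750736 0 0) (P.cons (P.lf 17347700 0 0) P.nil))) (P.cons (P.cons (P.lf 0 26187716 0) (P.cons (P.lf 15867148 0 0) P.nil)) (P.cons (P.cons (P.lf 39193602 0 0) P.nil) P.nil)))))) 48064386)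
 EL.nil)
noncomputable def S198_256_216_364_39 : EL := (EL.cons 14 (TM.mk (P.cons (P.lf 427113808 0 0) (P.cons (P.lf 0 827255282 0) (P.cons (P.lf 360960458 0 0) (P.cons (P.lf 50165998 0 0) (P.cons (P.lf 0 9520466 0) (P.cons (P.lf 0 1669162 0) P.nil)))))) 354406)
 EL.nil)
noncomputable def S198_256_216_364_40 : EL := (EL.cons 14 (TM.mk (P.cons (P.cons (P.lf 267416924 0 0) (P.cons (P.lf 0 36666576 0) (P.cons (P.lf 0 15811040 0) (P.lf 1756782 0 0)))) (P.cons (P.cons (P.lf 0 521879838 0) (P.cons (P.lf 63957898 0 0) (P.cons (P.lf 27579366 0 0) (P.lf 0 3064374 0)))) (P.cons (P.cons (P.lf 190612364 0 0) (P.cons (P.lf 0 14459938 0) (P.cons (P.lf 0 6235288 0) (P.lf 692810 0 0)))) (P.cons (P.cons (P.lf 114145484 0 0) (P.cons (P.lf 0 15169778 0) (P.cons (P.lf 0 6541378 0) P.nil))) (P.cons (P.cons (P.lf 0 45682422 0) (P.cons (P.lf 1074988 0 0) P.nil)) (P.cons (P.cons (P.lf 0 8445310 0) P.nil)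 P.nil)))))) 11068682)
 EL.nil)
noncomputable def S198_256_216_364_41 : EL := (EL.cons 14 (TM.mk (P.cons (P.cons (P.lf 167430344 0 0) (P.cons (P.lf 0 45914052 0) (P.cons (P.lf 0 16650930 0) (P.cons (P.lf 4914520 0 0) (P.cons (P.lf 283668 0 0) (P.cons (P.lf 0 130066 0) P.nil)))))) (P.cons (P.cons (P.lf 0 329212880 0) (P.cons (P.lf 80763718 0 0) (P.cons (P.lf 29941674 0 0) (P.cons (P.lf 0 8082128 0) (P.cons (P.lf 0 440188 0) P.nil))))) (P.cons (P.cons (P.lf 97223928 0 0) (P.cons (P.lf 0 11901218 0) (P.cons (P.lf 0 5192748 0) (P.cons (P.lf 517772 0 0) P.nil)))) (P.cons (P.cons (P.lf 123990138 0 0) (P.cons (P.lf 0 32083850 0) (P.cons (P.lf 0 11920414 0) P.nil))) (P.cons (P.cons (P.lf 0 50696268 0) (P.cons (P.lf 4946506 0 0) P.nil)) (P.cons (P.cons (P.lf 0 18137334 0) P.nil) P.nil)))))) 42047890)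
 EL.nil)
noncomputable def S198_256_216_364_42 : EL := (EL.cons 14 (TM.mk (P.cons (P.lf 0 95240240 0) (P.cons (P.lf 276699060 0 0) (P.cons (P.lf 0 254714620 0) (P.cons (P.lf 56891654 0 0) (P.cons (P.lf 19126904 0 0) (P.cons (P.lf 0 2044974 0) P.nil)))))) 997622)
 EL.nil)
noncomputable def S198_256_216_364_43 : EL := (EL.cons 14 (TM.mk (P.cons (P.cons (P.lf 0 59630130 0) (P.cons (P.lf 8176118 0 0) (P.cons (P.lf 3525634 0 0) (P.lf 0 391736 0)))) (P.cons (P.cons (P.lf 174119006 0 0) (P.cons (P.lf 0 22179648 0) (P.cons (P.lf 0 9564114 0) (P.lf 1062678 0 0)))) (P.cons (P.cons (P.lf 0 152436280 0) (P.cons (P.lf 16656644 0 0) (P.cons (P.lf 7182532 0 0) (P.lf 0 798058 0)))) (P.cons (P.cons (P.lf 9488908 0 0) (P.cons (P.lf 1034380 0 0) (P.cons (P.lf 446036 0 0) P.nil))) (P.cons (P.cons (P.lf 38345534 0 0) (P.cons (P.lf 0 3852656 0) P.nil)) (P.cons (P.cons (P.lf 0 7242382 0) P.nil) P.nil))))))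 11167738)
 EL.nil)
noncomputable def S198_256_216_364_44 : EL := (EL.cons 14 (TM.mk (P.cons (P.cons (P.lf 0 37334560 0) (P.cons (P.lf 10238172 0 0) (P.cons (P.lf 3712918 0 0) (P.cons (P.lf 0 1095866 0) (P.cons (P.lf 0 63252 0) (P.cons (P.lf 29002 0 0) P.nil)))))) (P.cons (P.cons (P.lf 109565458 0 0) (P.cons (P.lf 0 27924050 0) (P.cons (P.lf 0 10272244 0) (P.cons (P.lf 2863464 0 0) (P.cons (P.lf 159412 0 0) P.nil))))) (P.cons (P.cons (P.lf 0 91040316 0) (P.cons (P.lf 19619608 0 0) (P.cons (P.lf 7451506 0 0) (P.cons (P.lf 0 1809938 0) P.nil)))) (P.cons (P.cons (P.lf 0 10572858 0) (P.cons (P.lf 5560780 0 0) (P.cons (P.lf 1897628 0 0) P.nil))) (P.cons (P.cons (P.lf 40056022 0 0) (P.cons (P.lf 0 8391400 0) P.nil)) (P.cons (P.cons (P.lf 0 5828480 0) P.nil) P.nil)))))) 30502642)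
 EL.nil)
noncomputable def S198_256_216_364_45 : EL := (EL.cons 14 (TM.mk (P.cons (P.cons (P.lf 2108267416 0 0) (P.cons (P.lf 0 867218268 0) (P.cons (P.lf 0 255046628 0) (P.cons (P.lf 138664504 0 0) (P.cons (P.lf 3685350 0 0) (P.cons (P.lf 0 7163786 0) P.nil)))))) (P.cons (P.cons (P.lf 0 93031310 0) (P.cons (P.lf 0 141461700 0) (P.cons (P.lf 0 16960114 0) (P.cons (P.lf 41619500 0 0) (P.cons (P.lf 0 92100 0) P.nil))))) (P.cons (P.cons (P.lf 0 1015745276 0) (P.cons (P.lf 351143436 0 0) (P.cons (P.lf 117519722 0 0) (P.cons (P.lf 0 45393318 0) P.nil)))) (P.cons (P.cons (P.lf 95378534 0 0) (P.cons (P.lf 44542798 0 0) (P.cons (P.lf 5627786 0 0) P.nil))) (P.cons (P.cons (P.lf 219243732 0 0) (P.cons (P.lf 0 66847284 0) P.nil)) (P.cons (P.cons (P.lf 0 26112682 0) P.nil) P.nil)))))) 171770998)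
 EL.nil)
noncomputable def S198_256_216_364_46 : EL := (EL.cons 15 (TM.mk (P.lf 4294967296 0 0) 0)
 EL.nil)
noncomputable def S198_256_216_364_47 : EL := (EL.cons 15 (TM.mk (P.cons (P.cons (P.lf 2689088784 0 0) (P.cons (P.lf 0 368711436 0) (P.cons (P.lf 0 158992532 0) (P.lf 17665836 0 0)))) (P.cons (P.cons (P.lf 0 39553720 0) (P.cons (P.lf 0 70991388 0) (P.cons (P.lf 0 30612284 0) (P.lf 3401364 0 0)))) (P.cons (P.cons (P.lf 0 432441815 0) (P.cons (P.lf 28697924 0 0) (P.cons (P.lf 12374868 0 0) (P.lf 0 1374984 0)))) (P.cons (P.cons (P.lf 27832986 0 0) (P.cons (P.lf 6341792 0 0) (P.cons (P.lf 2734652 0 0) P.nil))) (P.cons (P.cons (P.lf 24584771 0 0) (P.cons (P.lf 0 1040572 0) P.nil)) (P.cons (P.cons (P.lf 0 410267 0) P.nil) P.nil)))))) 2954836)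
 EL.nil)
noncomputable def S198_256_216_364_48 : EL := (EL.cons 15 (TM.mk (P.cons (P.cons (P.lf 1683644598 0 0) (P.cons (P.lf 0 461702135 0) (P.cons (P.lf 0 167438282 0) (P.cons (P.lf 49419405 0 0) (P.cons (P.lf 2852509 0 0) (P.cons (P.lf 0 1307919 0) P.nil)))))) (P.cons (P.cons (P.lf 0 49529347 0) (P.cons (P.lf 0 82104576 0) (P.cons (P.lf 0 23215574 0) (P.cons (P.lf 14445753 0 0) (P.cons (P.lf 1098439 0 0) P.nil))))) (P.cons (P.cons (P.lf 0 541141343 0) (P.cons (P.lf 111491177 0 0) (P.cons (P.lf 44322387 0 0) (P.cons (P.lf 0 8579222 0) P.nil)))) (P.cons (P.cons (P.lf 42817580 0 0) (P.cons (P.lf 16929505 0 0) (P.cons (P.lf 5262646 0 0) P.nil))) (P.cons (P.cons (P.lf 73813225 0 0) (P.cons (P.lf 0 12339932 0) P.nil)) (P.cons (P.cons (P.lf 0 6571323 0) P.nil) P.nil)))))) 28314350)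
 EL.nil)
noncomputable def S198_256_216_364 : SL := (SL.cons S198_256_216_364_0 (SL.cons S198_256_216_364_1 (SL.cons S198_256_216_364_2 (SL.cons S198_256_216_364_3 (SL.cons S198_256_216_364_4 (SL.cons S198_256_216_364_5 (SL.cons S198_256_216_364_6 (SL.cons S198_256_216_364_7 (SL.cons S198_256_216_364_8 (SL.cons S198_256_216_364_9 (SL.cons S198_256_216_364_10 (SL.cons S198_256_216_364_11 (SL.cons S198_256_216_364_12 (SL.cons S198_256_216_364_13 (SL.cons S198_256_216_364_14 (SL.cons S198_256_216_364_15 (SL.cons S198_256_216_364_16 (SL.cons S198_256_216_364_17 (SL.cons S198_256_216_364_18 (SL.cons S198_256_216_364_19 (SL.cons S198_256_216_364_20 (SL.cons S198_256_216_364_21 (SL.cons S198_256_216_364_22 (SL.cons S198_256_216_364_23 (SL.cons S198_256_216_364_24 (SL.cons S198_256_216_364_25 (SL.cons S198_256_216_364_26 (SL.cons S198_256_216_364_27 (SL.cons S198_256_216_364_28 (SL.cons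 S198_256_216_364_29 (SL.cons S198_256_216_364_30 (SL.cons S198_256_216_364_31 (SL.cons S198_256_216_364_32 (SL.cons S198_256_216_364_33 (SL.cons S198_256_216_364_34 (SL.cons S198_256_216_364_35 (SL.cons S198_256_216_364_36 (SL.cons S198_256_216_364_37 (SL.cons S198_256_216_364_38 (SL.cons S198_256_216_364_39 (SL.cons S198_256_216_364_40 (SL.cons S198_256_216_364_41 (SL.cons S198_256_216_364_42 (SL.cons S198_256_216_364_43 (SL.cons S198_256_216_364_44 (SL.cons S198_256_216_364_45 (SL.cons S198_256_216_364_46 (SL.cons S198_256_216_364_47 (SL.cons S198_256_216_364_48 SL.nil)))))))))))))))))))))))))))))))))))))))))))))))))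
noncomputable def S198_256_290_364_0 : EL := (EL.cons 0 (TM.mk (P.cons (P.lf 8080323868 0 0) (P.cons (P.lf 727079837 0 0) (P.cons (P.lf 0 317250402 0) (P.cons (P.lf 0 44091209 0) (P.cons (P.lf 8367597 0 0) (P.cons (P.lf 1467036 0 0) P.nil)))))) 311496)
 (EL.cons 1 (TM.mk (P.cons (P.lf 0 869508750 0) (P.cons (P.lf 786249082 0 0) (P.cons (P.lf 120498519 0 0) (P.cons (P.lf 0 33042157 0) (P.cons (P.lf 0 5010903 0) (P.cons (P.lf 683975 0 0) P.nil)))))) 177172)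
 (EL.cons 5 (TM.mk (P.cons (P.lf 4428440364 0 0) (P.cons (P.lf 0 258517274 0) (P.cons (P.lf 112800140 0 0) (P.cons (P.lf 15676876 0 0) (P.cons (P.lf 0 2975142 0) (P.cons (P.lf 0 521612 0) P.nil)))))) 117185)
 (EL.cons 9 (TM.mk (P.lf 6442450944 0 0) 2)
 EL.nil))))
noncomputable def S198_256_290_364_1 : EL := (EL.cons 0 (TM.mk (P.cons (P.cons (P.lf 4753695619 0 0) (P.cons (P.lf 0 416486505 0) (P.cons (P.lf 0 53631426 0) (P.lf 3575429 0 0)))) (P.cons (P.cons (P.lf 1288811578 0 0) (P.cons (P.lf 0 254370347 0) (P.cons (P.lf 0 32755542 0) (P.lf 2183691 0 0)))) (P.cons (P.cons (P.lf 0 2175340245 0) (P.cons (P.lf 74880860 0 0) (P.cons (P.lf 9642482 0 0) (P.lf 0 642827 0)))) (P.cons (P.cons (P.lf 0 142915290 0) (P.cons (P.lf 45916225 0 0) (P.cons (P.lf 5912673 0 0) P.nil))) (P.cons (P.cons (P.lf 257108818 0 0) (P.cons (P.lf 0 4065751 0) P.nil)) (P.cons (P.cons (P.lf 20125072 0 0) P.nil)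 P.nil)))))) 31009973)
 (EL.cons 1 (TM.mk (P.cons (P.cons (P.lf 0 378311379 0) (P.cons (P.lf 125011339 0 0) (P.cons (P.lf 16097844 0 0) (P.lf 0 1073185 0)))) (P.cons (P.cons (P.lf 1720619161 0 0) (P.cons (P.lf 0 78280326 0) (P.cons (P.lf 0 10080237 0) (P.lf 672013 0 0)))) (P.cons (P.cons (P.lf 282296175 0 0) (P.cons (P.lf 0 62465159 0) (P.cons (P.lf 0 8043700 0) (P.lf 536239 0 0)))) (P.cons (P.cons (P.lf 0 417903152 0) (P.cons (P.lf 8910096 0 0) (P.cons (P.lf 1147358 0 0) P.nil))) (P.cons (P.cons (P.lf 0 37426530 0) (P.cons (P.lf 7586515 0 0) P.nil)) (P.cons (P.cons (P.lf 37032318 0 0) P.nil) P.nil)))))) 13437333)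
 (EL.cons 5 (TM.mk (P.cons (P.cons (P.lf 2504025498 0 0) (P.cons (P.lf 0 289202314 0) (P.cons (P.lf 0 37240904 0) (P.lf 2482726 0 0)))) (P.cons (P.cons (P.lf 0 598115550 0) (P.cons (P.lf 6248030 0 0) (P.cons (P.lf 804560 0 0) (P.lf 0 53632 0)))) (P.cons (P.cons (P.lf 67663583 0 0) (P.cons (P.lf 7411022 0 0) (P.cons (P.lf 954328 0 0) (P.lf 0 63624 0)))) (P.cons (P.cons (P.lf 104618589 0 0) (P.cons (P.lf 0 8804492 0) (P.cons (P.lf 0 1133758 0) P.nil))) (P.cons (P.cons (P.lf 0 50686935 0) (P.cons (P.lf 211494 0 0) P.nil)) (P.cons (P.cons (P.lf 0 8152816 0) P.nil) P.nil)))))) 14239437)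
 (EL.cons 9 (TM.mk (P.cons (P.cons (P.lf 3700789740 0 0) (P.cons (P.lf 0 385840944 0) (P.cons (P.lf 0 49685160 0) (P.lf 3312342 0 0)))) (P.cons (P.cons (P.lf 0 123415974 0) (P.cons (P.lf 0 74289486 0) (P.cons (P.lf 0 9566340 0) (P.lf 637752 0 0)))) (P.cons (P.cons (P.lf 0 622756510 0) (P.cons (P.lf 30031164 0 0) (P.cons (P.lf 3867144 0 0) (P.lf 0 257808 0)))) (P.cons (P.cons (P.lf 47474349 0 0) (P.cons (P.lf 6636414 0 0) (P.cons (P.lf 854574 0 0) P.nil))) (P.cons (P.cons (P.lf 35937808 0 0) (P.cons (P.lf 0 1088910 0) P.nil)) (P.cons (P.cons (P.lf 0 879916 0) P.nil) P.nil)))))) 2674693)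
 (EL.cons 2 (TM.mk (P.cons (P.cons (P.lf 359103389 0 0) (P.cons (P.lf 102515900 0 0) (P.cons (P.lf 0 7668022 0) (P.cons (P.lf 0 516712 0) (P.lf 25832 0 0))))) (P.cons (P.cons (P.lf 0 301670347 0) (P.cons (P.lf 0 86120066 0) (P.cons (P.lf 6441640 0 0) (P.cons (P.lf 434072 0 0) (P.lf 0 21701 0))))) (P.cons (P.cons (P.lf 0 81401509 0) (P.cons (P.lf 0 23238289 0) (P.cons (P.lf 1738184 0 0) (P.cons (P.lf 117126 0 0) P.nil)))) (P.cons (P.cons (P.lf 19509707 0 0) (P.cons (P.lf 5569579 0 0) (P.cons (P.lf 0 416595 0) P.nil))) (P.cons (P.cons (P.lf 5226854 0 0) (P.cons (P.lf 1492146 0 0) P.nil)) (P.cons (P.cons (P.lf 0 580440 0) P.nil) P.nil)))))) 861816)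
 (EL.cons 6 (TM.mk (P.cons (P.cons (P.lf 831777747 0 0) (P.cons (P.lf 237453750 0 0) (P.cons (P.lf 0 17761158 0) (P.cons (P.lf 0 1196841 0) (P.lf 59841 0 0))))) (P.cons (P.cons (P.lf 160149789 0 0) (P.cons (P.lf 45719145 0 0) (P.cons (P.lf 0 3419715 0) (P.cons (P.lf 0 230436 0) (P.lf 11520 0 0))))) (P.cons (P.cons (P.lf 0 64739775 0) (P.cons (P.lf 0 18481740 0) (P.cons (P.lf 1382403 0 0) (P.cons (P.lf 93153 0 0) P.nil)))) (P.cons (P.cons (P.lf 0 14306478 0) (P.cons (P.lf 0 4084176 0) (P.cons (P.lf 305487 0 0) P.nil))) (P.cons (P.cons (P.lf 2347434 0 0) (P.cons (P.lf 670137 0 0) P.nil)) (P.cons (P.cons (P.lf 661017 0 0) P.nil) P.nil)))))) 528210)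
 EL.nil))))))
noncomputable def S198_256_290_364_2 : EL := (EL.cons 0 (TM.mk (P.cons (P.cons (P.lf 2795069520 0 0) (P.cons (P.lf 0 491912822 0) (P.cons (P.lf 0 42440064 0) (P.cons (P.lf 9606638 0 0) (P.cons (P.lf 0 12291 0) (P.cons (P.lf 0 46225 0) P.nil)))))) (P.cons (P.cons (P.lf 1236470913 0 0) (P.cons (P.lf 0 401755273 0) (P.cons (P.lf 0 25429215 0) (P.cons (P.lf 10223656 0 0) (P.cons (P.lf 0 15443 0) P.nil))))) (P.cons (P.cons (P.lf 0 2452515216 0) (P.cons (P.lf 297185650 0 0) (P.cons (P.lf 34854070 0 0) (P.cons (P.lf 0 3430711 0) P.nil)))) (P.cons (P.cons (P.lf 0 270240200 0) (P.cons (P.lf 143875052 0 0) (P.cons (P.lf 10841892 0 0) P.nil))) (P.cons (P.cons (P.lf 620745571 0 0) (P.cons (P.lf 0 56197567 0) P.nil)) (P.cons (P.cons (P.lf 23858908 0 0) P.nil) P.nil)))))) 173991940)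
 (EL.cons 1 (TM.mk (P.cons (P.cons (P.lf 0 147713185 0) (P.cons (P.lf 129109010 0 0) (P.cons (P.lf 4770348 0 0) (P.cons (P.lf 0 4161563 0) (P.cons (P.lf 6961 0 0) (P.cons (P.lf 26209 0 0) P.nil)))))) (P.cons (P.cons (P.lf 1712690457 0 0) (P.cons (P.lf 0 247521222 0) (P.cons (P.lf 0 26999347 0) (P.cons (P.lf 3380224 0 0) (P.cons (P.lf 0 2861 0) P.nil))))) (P.cons (P.cons (P.lf 212836841 0 0) (P.cons (P.lf 0 137944685 0) (P.cons (P.lf 0 9198416 0) (P.cons (P.lf 3390019 0 0) P.nil)))) (P.cons (P.cons (P.lf 0 717990366 0) (P.cons (P.lf 75843522 0 0) (P.cons (P.lf 9753319 0 0) P.nil))) (P.cons (P.cons (P.lf 0 42277996 0) (P.cons (P.lf 34752473 0 0) P.nil)) (P.cons (P.cons (P.lf 129047890 0 0) P.nil) P.nil)))))) 80377744)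
 (EL.cons 5 (TM.mk (P.cons (P.cons (P.lf 1415522398 0 0) (P.cons (P.lf 0 327485660 0) (P.cons (P.lf 0 23413996 0) (P.cons (P.lf 7642012 0 0) (P.cons (P.lf 0 11013 0) (P.cons (P.lf 0 41468 0) P.nil)))))) (P.cons (P.cons (P.lf 0 600329079 0) (P.cons (P.lf 62870861 0 0) (P.cons (P.lf 8827881 0 0) (P.cons (P.lf 0 351205 0) (P.cons (P.lf 0 432 0) P.nil))))) (P.cons (P.cons (P.lf 63818613 0 0) (P.cons (P.lf 21202340 0 0) (P.cons (P.lf 838515 0 0) (P.cons (P.lf 0 669235 0) P.nil)))) (P.cons (P.cons (P.lf 184941059 0 0) (P.cons (P.lf 0 33985983 0) (P.cons (P.lf 0 3329782 0) P.nil))) (P.cons (P.cons (P.lf 0 107752826 0) (P.cons (P.lf 5575860 0 0) P.nil)) (P.cons (P.cons (P.lf 0 21591284 0) P.nil) P.nil)))))) 79946467)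
 (EL.cons 9 (TM.mk (P.cons (P.cons (P.lf 2125874890 0 0) (P.cons (P.lf 0 443283532 0) (P.cons (P.lf 0 33973936 0) (P.cons (P.lf 9756798 0 0) (P.cons (P.lf 0 13575 0) (P.cons (P.lf 0 51090 0) P.nil)))))) (P.cons (P.cons (P.lf 0 141789691 0) (P.cons (P.lf 0 70566568 0) (P.cons (P.lf 0 188482 0) (P.cons (P.lf 2897518 0 0) (P.cons (P.lf 0 5226 0) P.nil))))) (P.cons (P.cons (P.lf 0 713105980 0) (P.cons (P.lf 111942642 0 0) (P.cons (P.lf 11674467 0 0) (P.cons (P.lf 0 1666791 0) P.nil)))) (P.cons (P.cons (P.lf 78402051 0 0) (P.cons (P.lf 15149625 0 0) (P.cons (P.lf 463320 0 0) P.nil))) (P.cons (P.cons (P.lf 99667662 0 0) (P.cons (P.lf 0 12710718 0) P.nil)) (P.cons (P.cons (P.lf 0 11565984 0) P.nil) P.nil)))))) 19414727)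
 (EL.cons 2 (TM.mk (P.cons (P.cons (P.lf 412565388 0 0) (P.cons (P.lf 74764406 0 0) (P.cons (P.lf 0 26627962 0) (P.cons (P.lf 0 887130 0) (P.cons (P.lf 315258 0 0) (P.cons (P.lf 0 3009 0) P.nil)))))) (P.cons (P.cons (P.lf 0 360340385 0) (P.cons (P.lf 0 75016541 0) (P.cons (P.lf 19232291 0 0) (P.cons (P.lf 708536 0 0) (P.cons (P.lf 0 210841 0) P.nil))))) (P.cons (P.cons (P.lf 0 151387385 0) (P.cons (P.lf 0 23162180 0) (P.cons (P.lf 11540565 0 0) (P.cons (P.lf 354673 0 0) P.nil)))) (P.cons (P.cons (P.lf 89147109 0 0) (P.cons (P.lf 22917301 0 0) (P.cons (P.lf 0 2952528 0) P.nil))) (P.cons (P.cons (P.lf 20555150 0 0) (P.cons (P.lf 3290214 0 0) P.nil)) (P.cons (P.cons (P.lf 0 9302298 0) P.nil) P.nil)))))) 12033697)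
 (EL.cons 6 (TM.mk (P.cons (P.cons (P.lf 955609776 0 0) (P.cons (P.lf 173173992 0 0) (P.cons (P.lf 0 61677360 0) (P.cons (P.lf 0 2054826 0) (P.cons (P.lf 730230 0 0) (P.cons (P.lf 0 6966 0) P.nil)))))) (P.cons (P.cons (P.lf 152124102 0 0) (P.cons (P.lf 5062254 0 0) (P.cons (P.lf 0 19141290 0) (P.cons (P.lf 0 480666 0) (P.cons (P.lf 265662 0 0) P.nil))))) (P.cons (P.cons (P.lf 0 241320684 0) (P.cons (P.lf 0 57075888 0) (P.cons (P.lf 10047618 0 0) (P.cons (P.lf 427854 0 0) P.nil)))) (P.cons (P.cons (P.lf 0 32658858 0) (P.cons (P.lf 0 2909964 0) (P.cons (P.lf 3354108 0 0) P.nil))) (P.cons (P.cons (P.lf 27401184 0 0) (P.cons (P.lf 7316382 0 0) P.nil)) (P.cons (P.cons (P.lf 4040724 0 0) P.nil) P.nil)))))) 8628768)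
 EL.nil))))))
noncomputable def S198_256_290_364_3 : EL := (EL.cons 0 (TM.mk (P.cons (P.lf 375392995 0 0) (P.cons (P.lf 0 727079837 0) (P.cons (P.lf 317250402 0 0) (P.cons (P.lf 44091209 0 0) (P.cons (P.lf 0 8367597 0) (P.cons (P.lf 0 1467036 0) P.nil)))))) 311496)
 (EL.cons 1 (TM.mk (P.cons (P.lf 869508750 0 0) (P.cons (P.lf 0 786249082 0) (P.cons (P.lf 0 120498519 0) (P.cons (P.lf 33042157 0 0) (P.cons (P.lf 5010903 0 0) (P.cons (P.lf 0 683975 0) P.nil)))))) 177172)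
 (EL.cons 5 (TM.mk (P.cons (P.lf 2014010580 0 0) (P.cons (P.lf 258517274 0 0) (P.cons (P.lf 0 112800140 0) (P.cons (P.lf 0 15676876 0) (P.cons (P.lf 2975142 0 0) (P.cons (P.lf 521612 0 0) P.nil)))))) 117178)
 EL.nil)))
noncomputable def S198_256_290_364_4 : EL := (EL.cons 0 (TM.mk (P.cons (P.cons (P.lf 215640065 0 0) (P.cons (P.lf 0 22482434 0) (P.cons (P.lf 0 2895087 0) (P.lf 193004 0 0)))) (P.cons (P.cons (P.lf 0 424853695 0) (P.cons (P.lf 39216350 0 0) (P.cons (P.lf 5049931 0 0) (P.lf 0 336661 0)))) (P.cons (P.cons (P.lf 159881987 0 0) (P.cons (P.lf 0 8866239 0) (P.cons (P.lf 0 1141715 0) (P.lf 76113 0 0)))) (P.cons (P.cons (P.lf 92299308 0 0) (P.cons (P.lf 0 9301482 0) (P.cons (P.lf 0 1197761 0) P.nil))) (P.cons (P.cons (P.lf 0 39581964 0) (P.cons (P.lf 659139 0 0) P.nil)) (P.cons (P.cons (P.lf 0 6713794 0) P.nil) P.nil)))))) 6108551)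
 (EL.cons 1 (TM.mk (P.cons (P.cons (P.lf 499479015 0 0) (P.cons (P.lf 0 52075222 0) (P.cons (P.lf 0 6705781 0) (P.lf 447050 0 0)))) (P.cons (P.cons (P.lf 0 468308385 0) (P.cons (P.lf 37062249 0 0) (P.cons (P.lf 4772544 0 0) (P.lf 0 318168 0)))) (P.cons (P.cons (P.lf 0 138207682 0) (P.cons (P.lf 20336306 0 0) (P.cons (P.lf 2618726 0 0) (P.lf 0 174579 0)))) (P.cons (P.cons (P.lf 103698828 0 0) (P.cons (P.lf 0 3358783 0) (P.cons (P.lf 0 432513 0) P.nil))) (P.cons (P.cons (P.lf 12949912 0 0) (P.cons (P.lf 0 2199705 0) P.nil)) (P.cons (P.cons (P.lf 0 9075526 0) P.nil) P.nil)))))) 3560520)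
 (EL.cons 5 (TM.mk (P.cons (P.cons (P.lf 1156924554 0 0) (P.cons (P.lf 0 120619892 0) (P.cons (P.lf 0 15532354 0) (P.lf 1035488 0 0)))) (P.cons (P.cons (P.lf 109920432 0 0) (P.cons (P.lf 0 38706752 0) (P.cons (P.lf 0 4984310 0) (P.lf 332284 0 0)))) (P.cons (P.cons (P.lf 0 264432430 0) (P.cons (P.lf 13162828 0 0) (P.cons (P.lf 1694990 0 0) (P.lf 0 112998 0)))) (P.cons (P.cons (P.lf 0 16992750 0) (P.cons (P.lf 5519330 0 0) (P.cons (P.lf 710728 0 0) P.nil))) (P.cons (P.cons (P.lf 26052854 0 0) (P.cons (P.lf 0 597330 0) P.nil)) (P.cons (P.cons (P.lf 2093820 0 0) P.nil) P.nil)))))) 2958974)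
 EL.nil)))
noncomputable def S198_256_290_364_5 : EL := (EL.cons 0 (TM.mk (P.cons (P.cons (P.lf 123871884 0 0) (P.cons (P.lf 0 25829537 0) (P.cons (P.lf 0 1979615 0) (P.cons (P.lf 568515 0 0) (P.cons (P.lf 0 789 0) (P.cons (P.lf 0 2975 0) P.nil)))))) (P.cons (P.cons (P.lf 0 248183126 0) (P.cons (P.lf 45916115 0 0) (P.cons (P.lf 3823235 0 0) (P.cons (P.lf 0 932294 0) (P.cons (P.lf 1226 0 0) P.nil))))) (P.cons (P.cons (P.lf 79136356 0 0) (P.cons (P.lf 0 7342215 0) (P.cons (P.lf 0 971476 0) (P.cons (P.lf 56330 0 0) P.nil)))) (P.cons (P.cons (P.lf 92614770 0 0) (P.cons (P.lf 0 18259563 0) (P.cons (P.lf 0 1532348 0) P.nil))) (P.cons (P.cons (P.lf 0 41888297 0) (P.cons (P.lf 3154884 0 0) P.nil)) (P.cons (P.cons (P.lf 0 13241707 0) P.nil) P.nil)))))) 19654304)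
 (EL.cons 1 (TM.mk (P.cons (P.cons (P.lf 286919812 0 0) (P.cons (P.lf 0 59827991 0) (P.cons (P.lf 0 4585308 0) (P.cons (P.lf 1316829 0 0) (P.cons (P.lf 0 1831 0) (P.cons (P.lf 0 6894 0) P.nil)))))) (P.cons (P.cons (P.lf 0 278582570 0) (P.cons (P.lf 44575119 0 0) (P.cons (P.lf 4120805 0 0) (P.cons (P.lf 0 799672 0) (P.cons (P.lf 950 0 0) P.nil))))) (P.cons (P.cons (P.lf 0 118702440 0) (P.cons (P.lf 32011575 0 0) (P.cons (P.lf 2234094 0 0) (P.cons (P.lf 0 761066 0) P.nil)))) (P.cons (P.cons (P.lf 111165631 0 0) (P.cons (P.lf 0 12570671 0) (P.cons (P.lf 0 1532960 0) P.nil))) (P.cons (P.cons (P.lf 18147455 0 0) (P.cons (P.lf 0 6364860 0) P.nil)) (P.cons (P.cons (P.lf 0 19184430 0) P.nil) P.nil)))))) 15135755)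
 (EL.cons 5 (TM.mk (P.cons (P.cons (P.lf 664581624 0 0) (P.cons (P.lf 0 138577340 0) (P.cons (P.lf 0 10620780 0) (P.cons (P.lf 3050126 0 0) (P.cons (P.lf 0 4242 0) (P.cons (P.lf 0 15970 0) P.nil)))))) (P.cons (P.cons (P.lf 40979660 0 0) (P.cons (P.lf 0 39847918 0) (P.cons (P.lf 0 1422200 0) (P.cons (P.lf 1297320 0 0) (P.cons (P.lf 0 2178 0) P.nil))))) (P.cons (P.cons (P.lf 0 265839362 0) (P.cons (P.lf 39924778 0 0) (P.cons (P.lf 4236900 0 0) (P.cons (P.lf 0 575624 0) P.nil)))) (P.cons (P.cons (P.lf 0 6795680 0) (P.cons (P.lf 11542164 0 0) (P.cons (P.lf 699274 0 0) P.nil))) (P.cons (P.cons (P.lf 48116168 0 0) (P.cons (P.lf 0 5358642 0) P.nil)) (P.cons (P.cons (P.lf 852836 0 0) P.nil) P.nil)))))) 12655904)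
 EL.nil)))
noncomputable def S198_256_290_364_6 : EL := (EL.cons 12 (TM.mk (P.lf 8589934592 0 0) 0)
 (EL.cons 3 (TM.mk (P.cons (P.lf 0 897858742 0) (P.cons (P.lf 869508750 0 0) (P.cons (P.lf 41629830 0 0) (P.cons (P.lf 0 12412950 0) (P.cons (P.lf 0 1049171 0) (P.cons (P.lf 162840 0 0) P.nil)))))) 27209)
 (EL.cons 7 (TM.mk (P.cons (P.lf 0 2079676607 0) (P.cons (P.lf 0 133473065 0) (P.cons (P.lf 62522105 0 0) (P.cons (P.lf 4081356 0 0) (P.cons (P.lf 0 858201 0) (P.cons (P.lf 0 91532 0) P.nil)))))) 18219)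
 EL.nil)))
noncomputable def S198_256_290_364_7 : EL := (EL.cons 12 (TM.mk (P.cons (P.cons (P.lf 4934386320 0 0) (P.cons (P.lf 0 514454592 0) (P.cons (P.lf 0 66246880 0) (P.lf 4416456 0 0)))) (P.cons (P.cons (P.lf 0 164554632 0) (P.cons (P.lf 0 99052648 0) (P.cons (P.lf 0 12755120 0) (P.lf 850336 0 0)))) (P.cons (P.cons (P.lf 0 830342014 0) (P.cons (P.lf 40041552 0 0) (P.cons (P.lf 5156192 0 0) (P.lf 0 343744 0)))) (P.cons (P.cons (P.lf 63299132 0 0) (P.cons (P.lf 8848552 0 0) (P.cons (P.lf 1139432 0 0) P.nil))) (P.cons (P.cons (P.lf 47917078 0 0) (P.cons (P.lf 0 1451880 0) P.nil)) (P.cons (P.cons (P.lf 0 1173222 0) P.nil) P.nil)))))) 3566232)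
 (EL.cons 3 (TM.mk (P.cons (P.cons (P.lf 0 783761639 0) (P.cons (P.lf 0 107546230 0) (P.cons (P.lf 0 13848844 0) (P.lf 923254 0 0)))) (P.cons (P.cons (P.lf 0 2196685755 0) (P.cons (P.lf 83443588 0 0) (P.cons (P.lf 10745120 0 0) (P.lf 0 716340 0)))) (P.cons (P.cons (P.lf 319504725 0 0) (P.cons (P.lf 33410138 0 0) (P.cons (P.lf 4302258 0 0) (P.lf 0 286814 0)))) (P.cons (P.cons (P.lf 267735794 0 0) (P.cons (P.lf 0 6783306 0) (P.cons (P.lf 0 873492 0) P.nil))) (P.cons (P.cons (P.lf 0 7407891 0) (P.cons (P.lf 0 2894940 0) P.nil)) (P.cons (P.cons (P.lf 0 15533852 0) P.nil) P.nil)))))) 8380942)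
 (EL.cons 7 (TM.mk (P.cons (P.cons (P.lf 0 1153506978 0) (P.cons (P.lf 149315824 0 0) (P.cons (P.lf 19227568 0 0) (P.lf 0 1281840 0)))) (P.cons (P.cons (P.lf 337200036 0 0) (P.cons (P.lf 0 12808920 0) (P.cons (P.lf 0 1649418 0) (P.lf 109958 0 0)))) (P.cons (P.cons (P.lf 0 223142399 0) (P.cons (P.lf 1484685 0 0) (P.cons (P.lf 191185 0 0) (P.lf 0 12745 0)))) (P.cons (P.cons (P.lf 0 1718986 0) (P.cons (P.lf 4358444 0 0) (P.cons (P.lf 561238 0 0) P.nil))) (P.cons (P.cons (P.lf 30184187 0 0) (P.cons (P.lf 0 431037 0) P.nil)) (P.cons (P.cons (P.lf 670666 0 0) P.nil) P.nil)))))) 7514751)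
 (EL.cons 10 (TM.mk (P.cons (P.cons (P.lf 0 1717795071 0) (P.cons (P.lf 0 490391673 0) (P.cons (P.lf 36680508 0 0) (P.cons (P.lf 2471730 0 0) (P.lf 0 123585 0))))) (P.cons (P.cons (P.lf 0 220495215 0) (P.cons (P.lf 0 62946399 0) (P.cons (P.lf 4708287 0 0) (P.cons (P.lf 317268 0 0) (P.lf 0 15861 0))))) (P.cons (P.cons (P.lf 96209784 0 0) (P.cons (P.lf 27465717 0 0) (P.cons (P.lf 0 2054391 0) (P.cons (P.lf 0 138435 0) P.nil)))) (P.cons (P.cons (P.lf 13371159 0 0) (P.cons (P.lf 3817164 0 0) (P.cons (P.lf 0 285516 0) P.nil))) (P.cons (P.cons (P.lf 0 2537565 0) (P.cons (P.lf 0 724416 0) P.nil)) (P.cons (P.cons (P.lf 0 444894 0) P.nil) P.nil)))))) 353193)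
 EL.nil))))
noncomputable def S198_256_290_364_8 : EL := (EL.cons 12 (TM.mk (P.cons (P.cons (P.lf 2834499854 0 0) (P.cons (P.lf 0 591044710 0) (P.cons (P.lf 0 45298582 0) (P.cons (P.lf 13009064 0 0) (P.cons (P.lf 0 18100 0) (P.cons (P.lf 0 68120 0) P.nil)))))) (P.cons (P.cons (P.lf 0 189052922 0) (P.cons (P.lf 0 94088758 0) (P.cons (P.lf 0 251310 0) (P.cons (P.lf 3863358 0 0) (P.cons (P.lf 0 6968 0) P.nil))))) (P.cons (P.cons (P.lf 0 950807974 0) (P.cons (P.lf 149256856 0 0) (P.cons (P.lf 15565956 0 0) (P.cons (P.lf 0 2222388 0) P.nil)))) (P.cons (P.cons (P.lf 104536068 0 0) (P.cons (P.lf 20199500 0 0) (P.cons (P.lf 617760 0 0) P.nil))) (P.cons (P.cons (P.lf 132890216 0 0) (P.cons (P.lf 0 16947624 0) P.nil)) (P.cons (P.cons (P.lf 0 15421312 0) P.nil) P.nil)))))) 25886274)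
 (EL.cons 3 (TM.mk (P.cons (P.cons (P.lf 0 604170480 0) (P.cons (P.lf 0 91456384 0) (P.cons (P.lf 4325533 0 0) (P.cons (P.lf 4932189 0 0) (P.cons (P.lf 0 9455 0) (P.cons (P.lf 0 35601 0) P.nil)))))) (P.cons (P.cons (P.lf 0 2800372232 0) (P.cons (P.lf 431176488 0 0) (P.cons (P.lf 46129745 0 0) (P.cons (P.lf 0 6120707 0) (P.cons (P.lf 5515 0 0) P.nil))))) (P.cons (P.cons (P.lf 508774736 0 0) (P.cons (P.lf 89051974 0 0) (P.cons (P.lf 2806127 0 0) (P.cons (P.lf 0 2995100 0) P.nil)))) (P.cons (P.cons (P.lf 820669695 0 0) (P.cons (P.lf 0 101717858 0) (P.cons (P.lf 0 12350369 0) P.nil))) (P.cons (P.cons (P.lf 0 113667276 0) (P.cons (P.lf 0 20812185 0) P.nil)) (P.cons (P.cons (P.lf 0 105929297 0) P.nil) P.nil)))))) 70271532)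
 (EL.cons 7 (TM.mk (P.cons (P.cons (P.lf 0 638986831 0) (P.cons (P.lf 166617797 0 0) (P.cons (P.lf 11029900 0 0) (P.cons (P.lf 0 4115419 0) (P.cons (P.lf 6122 0 0) (P.cons (P.lf 23050 0 0) P.nil)))))) (P.cons (P.cons (P.lf 429868315 0 0) (P.cons (P.lf 0 66187307 0) (P.cons (P.lf 0 7081097 0) (P.cons (P.lf 939545 0 0) (P.cons (P.lf 0 846 0) P.nil))))) (P.cons (P.cons (P.lf 0 300040947 0) (P.cons (P.lf 20502822 0 0) (P.cons (P.lf 3225236 0 0) (P.cons (P.lf 0 25328 0) P.nil)))) (P.cons (P.cons (P.lf 0 65052344 0) (P.cons (P.lf 23921988 0 0) (P.cons (P.lf 2074406 0 0) P.nil))) (P.cons (P.cons (P.lf 111075498 0 0) (P.cons (P.lf 0 8933665 0) P.nil)) (P.cons (P.cons (P.lf 0 1231693 0) P.nil) P.nil)))))) 46348953)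
 (EL.cons 10 (TM.mk (P.cons (P.cons (P.lf 0 1973534118 0) (P.cons (P.lf 0 357640530 0) (P.cons (P.lf 127376664 0 0) (P.cons (P.lf 4243656 0 0) (P.cons (P.lf 0 1508082 0) (P.cons (P.lf 14394 0 0) P.nil)))))) (P.cons (P.cons (P.lf 0 187507230 0) (P.cons (P.lf 12498648 0 0) (P.cons (P.lf 31355772 0 0) (P.cons (P.lf 720324 0 0) (P.cons (P.lf 0 451866 0) P.nil))))) (P.cons (P.cons (P.lf 451080768 0 0) (P.cons (P.lf 106319616 0 0) (P.cons (P.lf 0 18933468 0) (P.cons (P.lf 0 802260 0) P.nil)))) (P.cons (P.cons (P.lf 28986996 0 0) (P.cons (P.lf 0 1139988 0) (P.cons (P.lf 0 4519158 0) P.nil))) (P.cons (P.cons (P.lf 0 44442132 0) (P.cons (P.lf 0 11668266 0) P.nil)) (P.cons (P.cons (P.lf 0 3571734 0) P.nil) P.nil)))))) 11746938)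
 EL.nil))))
noncomputable def S198_256_290_364_9 : EL := (EL.cons 3 (TM.mk (P.cons (P.lf 0 897858742 0) (P.cons (P.lf 869508750 0 0) (P.cons (P.lf 41629830 0 0) (P.cons (P.lf 0 12412950 0) (P.cons (P.lf 0 1049171 0) (P.cons (P.lf 162840 0 0) P.nil)))))) 27209)
 (EL.cons 7 (TM.mk (P.cons (P.lf 0 2079676607 0) (P.cons (P.lf 0 133473065 0) (P.cons (P.lf 62522105 0 0) (P.cons (P.lf 4081356 0 0) (P.cons (P.lf 0 858201 0) (P.cons (P.lf 0 91532 0) P.nil)))))) 18219)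
 EL.nil))
noncomputable def S198_256_290_364_10 : EL := (EL.cons 3 (TM.mk (P.cons (P.cons (P.lf 0 515764334 0) (P.cons (P.lf 53773115 0 0) (P.cons (P.lf 6924422 0 0) (P.lf 0 461627 0)))) (P.cons (P.cons (P.lf 516679008 0 0) (P.cons (P.lf 0 41721794 0) (P.cons (P.lf 0 5372560 0) (P.lf 358170 0 0)))) (P.cons (P.cons (P.lf 94047957 0 0) (P.cons (P.lf 0 16705069 0) (P.cons (P.lf 0 2151129 0) (P.lf 143407 0 0)))) (P.cons (P.cons (P.lf 0 98594929 0) (P.cons (P.lf 3391653 0 0) (P.cons (P.lf 436746 0 0) P.nil))) (P.cons (P.cons (P.lf 0 2990130 0) (P.cons (P.lf 1447470 0 0) P.nil)) (P.cons (P.cons (P.lf 6593296 0 0) P.nil) P.nil)))))) 1968828)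
 (EL.cons 7 (TM.mk (P.cons (P.cons (P.lf 0 1194645627 0) (P.cons (P.lf 124552657 0 0) (P.cons (P.lf 16038781 0 0) (P.lf 0 1069251 0)))) (P.cons (P.cons (P.lf 0 36832323 0) (P.cons (P.lf 31975017 0 0) (P.cons (P.lf 4117458 0 0) (P.lf 0 274495 0)))) (P.cons (P.cons (P.lf 239502952 0 0) (P.cons (P.lf 0 11899671 0) (P.cons (P.lf 0 1532333 0) (P.lf 102155 0 0)))) (P.cons (P.cons (P.lf 0 1276231 0) (P.cons (P.lf 0 3729859 0) (P.cons (P.lf 0 480296 0) P.nil))) (P.cons (P.cons (P.lf 0 19199422 0) (P.cons (P.lf 509796 0 0) P.nil)) (P.cons (P.cons (P.lf 0 430442 0) P.nil) P.nil)))))) 1739006)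
 EL.nil))
noncomputable def S198_256_290_364_11 : EL := (EL.cons 3 (TM.mk (P.cons (P.cons (P.lf 0 296274720 0) (P.cons (P.lf 61778660 0 0) (P.cons (P.lf 4734811 0 0) (P.cons (P.lf 0 1359765 0) (P.cons (P.lf 1891 0 0) (P.cons (P.lf 7119 0 0) P.nil)))))) (P.cons (P.cons (P.lf 306680476 0 0) (P.cons (P.lf 0 49993410 0) (P.cons (P.lf 0 4559041 0) (P.cons (P.lf 913015 0 0) (P.cons (P.lf 0 1103 0) P.nil))))) (P.cons (P.cons (P.lf 93983000 0 0) (P.cons (P.lf 0 27989462 0) (P.cons (P.lf 0 1871995 0) (P.cons (P.lf 686404 0 0) P.nil)))) (P.cons (P.cons (P.lf 0 112183533 0) (P.cons (P.lf 13395160 0 0) (P.cons (P.lf 1575319 0 0) P.nil))) (P.cons (P.cons (P.lf 0 7989672 0) (P.cons (P.lf 4747623 0 0) P.nil)) (P.cons (P.cons (P.lf 17021017 0 0) P.nil) P.nil)))))) 11009726)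
 (EL.cons 7 (TM.mk (P.cons (P.cons (P.lf 0 686250049 0) (P.cons (P.lf 143095601 0 0) (P.cons (P.lf 10967068 0 0) (P.cons (P.lf 0 3149575 0) (P.cons (P.lf 4382 0 0) (P.cons (P.lf 16492 0 0) P.nil)))))) (P.cons (P.cons (P.lf 1727551 0 0) (P.cons (P.lf 31963309 0 0) (P.cons (P.lf 764707 0 0) (P.cons (P.lf 0 1137481 0) (P.cons (P.lf 1968 0 0) P.nil))))) (P.cons (P.cons (P.lf 253765083 0 0) (P.cons (P.lf 0 38975970 0) (P.cons (P.lf 0 4094416 0) (P.cons (P.lf 572710 0 0) P.nil)))) (P.cons (P.cons (P.lf 0 10564148 0) (P.cons (P.lf 0 8175276 0) (P.cons (P.lf 0 414784 0) P.nil))) (P.cons (P.cons (P.lf 0 41091360 0) (P.cons (P.lf 4889975 0 0) P.nil)) (P.cons (P.cons (P.lf 1966499 0 0) P.nil) P.nil)))))) 9351965)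
 EL.nil))
noncomputable def S198_256_290_364_12 : EL := (EL.cons 4 (TM.mk (P.cons (P.lf 897858742 0 0) (P.cons (P.lf 0 869508750 0) (P.cons (P.lf 0 41629830 0) (P.cons (P.lf 12412950 0 0) (P.cons (P.lf 1049171 0 0) (P.cons (P.lf 0 162840 0) P.nil)))))) 27209)
 (EL.cons 8 (TM.mk (P.cons (P.lf 2079676607 0 0) (P.cons (P.lf 133473065 0 0) (P.cons (P.lf 0 62522105 0) (P.cons (P.lf 0 4081356 0) (P.cons (P.lf 858201 0 0) (P.cons (P.lf 91532 0 0) P.nil)))))) 18219)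
 EL.nil))
noncomputable def S198_256_290_364_13 : EL := (EL.cons 4 (TM.mk (P.cons (P.cons (P.lf 515764334 0 0) (P.cons (P.lf 0 53773115 0) (P.cons (P.lf 0 6924422 0) (P.lf 461627 0 0)))) (P.cons (P.cons (P.lf 0 516679008 0) (P.cons (P.lf 41721794 0 0) (P.cons (P.lf 5372560 0 0) (P.lf 0 358170 0)))) (P.cons (P.cons (P.lf 0 94047957 0) (P.cons (P.lf 16705069 0 0) (P.cons (P.lf 2151129 0 0) (P.lf 0 143407 0)))) (P.cons (P.cons (P.lf 98594929 0 0) (P.cons (P.lf 0 3391653 0) (P.cons (P.lf 0 436746 0) P.nil))) (P.cons (P.cons (P.lf 2990130 0 0) (P.cons (P.lf 0 1447470 0) P.nil)) (P.cons (P.cons (P.lf 0 6593296 0) P.nil) P.nil)))))) 1968828)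
 (EL.cons 8 (TM.mk (P.cons (P.cons (P.lf 1194645627 0 0) (P.cons (P.lf 0 124552657 0) (P.cons (P.lf 0 16038781 0) (P.lf 1069251 0 0)))) (P.cons (P.cons (P.lf 36832323 0 0) (P.cons (P.lf 0 31975017 0) (P.cons (P.lf 0 4117458 0) (P.lf 274495 0 0)))) (P.cons (P.cons (P.lf 0 239502952 0) (P.cons (P.lf 11899671 0 0) (P.cons (P.lf 1532333 0 0) (P.lf 0 102155 0)))) (P.cons (P.cons (P.lf 1276231 0 0) (P.cons (P.lf 3729859 0 0) (P.cons (P.lf 480296 0 0) P.nil))) (P.cons (P.cons (P.lf 19199422 0 0) (P.cons (P.lf 0 509796 0) P.nil)) (P.cons (P.cons (P.lf 430442 0 0) P.nil) P.nil)))))) 1739006)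
 EL.nil))
noncomputable def S198_256_290_364_14 : EL := (EL.cons 4 (TM.mk (P.cons (P.cons (P.lf 296274720 0 0) (P.cons (P.lf 0 61778660 0) (P.cons (P.lf 0 4734811 0) (P.cons (P.lf 1359765 0 0) (P.cons (P.lf 0 1891 0) (P.cons (P.lf 0 7119 0) P.nil)))))) (P.cons (P.cons (P.lf 0 306680476 0) (P.cons (P.lf 49993410 0 0) (P.cons (P.lf 4559041 0 0) (P.cons (P.lf 0 913015 0) (P.cons (P.lf 1103 0 0) P.nil))))) (P.cons (P.cons (P.lf 0 93983000 0) (P.cons (P.lf 27989462 0 0) (P.cons (P.lf 1871995 0 0) (P.cons (P.lf 0 686404 0) P.nil)))) (P.cons (P.cons (P.lf 112183533 0 0) (P.cons (P.lf 0 13395160 0) (P.cons (P.lf 0 1575319 0) P.nil))) (P.cons (P.cons (P.lf 7989672 0 0) (P.cons (P.lf 0 4747623 0) P.nil)) (P.cons (P.cons (P.lf 0 17021017 0) P.nil) P.nil)))))) 11009726)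
 (EL.cons 8 (TM.mk (P.cons (P.cons (P.lf 686250049 0 0) (P.cons (P.lf 0 143095601 0) (P.cons (P.lf 0 10967068 0) (P.cons (P.lf 3149575 0 0) (P.cons (P.lf 0 4382 0) (P.cons (P.lf 0 16492 0) P.nil)))))) (P.cons (P.cons (P.lf 0 1727551 0) (P.cons (P.lf 0 31963309 0) (P.cons (P.lf 0 764707 0) (P.cons (P.lf 1137481 0 0) (P.cons (P.lf 0 1968 0) P.nil))))) (P.cons (P.cons (P.lf 0 253765083 0) (P.cons (P.lf 38975970 0 0) (P.cons (P.lf 4094416 0 0) (P.cons (P.lf 0 572710 0) P.nil)))) (P.cons (P.cons (P.lf 10564148 0 0) (P.cons (P.lf 8175276 0 0) (P.cons (P.lf 414784 0 0) P.nil))) (P.cons (P.cons (P.lf 41091360 0 0) (P.cons (P.lf 0 4889975 0) P.nil)) (P.cons (P.cons (P.lf 0 1966499 0) P.nil) P.nil)))))) 9351965)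
 EL.nil))
noncomputable def S198_256_290_364_15 : EL := (EL.cons 4 (TM.mk (P.cons (P.lf 0 200209597 0) (P.cons (P.lf 387775913 0 0) (P.cons (P.lf 0 169200214 0) (P.cons (P.lf 0 23515311 0) (P.cons (P.lf 4462718 0 0) (P.cons (P.lf 782419 0 0) P.nil)))))) 166134)
 (EL.cons 8 (TM.mk (P.cons (P.lf 0 463738000 0) (P.cons (P.lf 419332844 0 0) (P.cons (P.lf 64265877 0 0) (P.cons (P.lf 0 17622484 0) (P.cons (P.lf 0 2672482 0) (P.cons (P.lf 364787 0 0) P.nil)))))) 94488)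
 EL.nil))
noncomputable def S198_256_290_364_16 : EL := (EL.cons 4 (TM.mk (P.cons (P.cons (P.lf 0 115008034 0) (P.cons (P.lf 11990631 0 0) (P.cons (P.lf 1544046 0 0) (P.lf 0 102935 0)))) (P.cons (P.cons (P.lf 226588637 0 0) (P.cons (P.lf 0 20915386 0) (P.cons (P.lf 0 2693296 0) (P.lf 179552 0 0)))) (P.cons (P.cons (P.lf 0 85270393 0) (P.cons (P.lf 4728660 0 0) (P.cons (P.lf 608914 0 0) (P.lf 0 40593 0)))) (P.cons (P.cons (P.lf 0 49226297 0) (P.cons (P.lf 4960790 0 0) (P.cons (P.lf 638805 0 0) P.nil))) (P.cons (P.cons (P.lf 21110381 0 0) (P.cons (P.lf 0 351540 0) P.nil)) (P.cons (P.cons (P.lf 3580690 0 0) P.nil) P.nil)))))) 3257902)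
 (EL.cons 8 (TM.mk (P.cons (P.cons (P.lf 0 266388808 0) (P.cons (P.lf 27773452 0 0) (P.cons (P.lf 3576417 0 0) (P.lf 0 238427 0)))) (P.cons (P.cons (P.lf 249764472 0 0) (P.cons (P.lf 0 19766533 0) (P.cons (P.lf 0 2545357 0) (P.lf 169690 0 0)))) (P.cons (P.cons (P.lf 73710764 0 0) (P.cons (P.lf 0 10846030 0) (P.cons (P.lf 0 1396654 0) (P.lf 93109 0 0)))) (P.cons (P.cons (P.lf 0 55306042 0) (P.cons (P.lf 1791351 0 0) (P.cons (P.lf 230674 0 0) P.nil))) (P.cons (P.cons (P.lf 0 6906620 0) (P.cons (P.lf 1173176 0 0) P.nil)) (P.cons (P.cons (P.lf 4840281 0 0) P.nil) P.nil)))))) 1898934)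
 EL.nil))
noncomputable def S198_256_290_364_17 : EL := (EL.cons 4 (TM.mk (P.cons (P.cons (P.lf 0 66065005 0) (P.cons (P.lf 13775753 0 0) (P.cons (P.lf 1055794 0 0) (P.cons (P.lf 0 303208 0) (P.cons (P.lf 420 0 0) (P.cons (P.lf 1587 0 0) P.nil)))))) (P.cons (P.cons (P.lf 132364334 0 0) (P.cons (P.lf 0 24488595 0) (P.cons (P.lf 0 2039058 0) (P.cons (P.lf 497223 0 0) (P.cons (P.lf 0 654 0) P.nil))))) (P.cons (P.cons (P.lf 0 42206056 0) (P.cons (P.lf 3915848 0 0) (P.cons (P.lf 518120 0 0) (P.cons (P.lf 0 30043 0) P.nil)))) (P.cons (P.cons (P.lf 0 49394544 0) (P.cons (P.lf 9738434 0 0) (P.cons (P.lf 817252 0 0) P.nil))) (P.cons (P.cons (P.lf 22340425 0 0) (P.cons (P.lf 0 1682605 0) P.nil)) (P.cons (P.cons (P.lf 7062243 0 0) P.nil) P.nil)))))) 10482306)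
 (EL.cons 8 (TM.mk (P.cons (P.cons (P.lf 0 153023900 0) (P.cons (P.lf 31908262 0 0) (P.cons (P.lf 2445498 0 0) (P.cons (P.lf 0 702309 0) (P.cons (P.lf 977 0 0) (P.cons (P.lf 3677 0 0) P.nil)))))) (P.cons (P.cons (P.lf 148577371 0 0) (P.cons (P.lf 0 23773397 0) (P.cons (P.lf 0 2197763 0) (P.cons (P.lf 426492 0 0) (P.cons (P.lf 0 507 0) P.nil))))) (P.cons (P.cons (P.lf 63307968 0 0) (P.cons (P.lf 0 17072840 0) (P.cons (P.lf 0 1191517 0) (P.cons (P.lf 405902 0 0) P.nil)))) (P.cons (P.cons (P.lf 0 59288337 0) (P.cons (P.lf 6704358 0 0) (P.cons (P.lf 817579 0 0) P.nil))) (P.cons (P.cons (P.lf 0 9678643 0) (P.cons (P.lf 3394592 0 0) P.nil)) (P.cons (P.cons (P.lf 10231696 0 0) P.nil) P.nil)))))) 8072391)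
 EL.nil))
noncomputable def S198_256_290_364_18 : EL := (EL.cons 4 (TM.mk (P.cons (P.lf 44643862 0 0) (P.cons (P.lf 0 129702684 0) (P.cons (P.lf 119397478 0 0) (P.cons (P.lf 0 26667962 0) (P.cons (P.lf 0 8965736 0) (P.cons (P.lf 958581 0 0) P.nil)))))) 467642)
 (EL.cons 8 (TM.mk (P.cons (P.lf 103406910 0 0) (P.cons (P.lf 0 193647023 0) (P.cons (P.lf 71427862 0 0) (P.cons (P.lf 23572483 0 0) (P.cons (P.lf 0 3717003 0) (P.cons (P.lf 0 1166783 0) P.nil)))))) 289701)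
 EL.nil))
noncomputable def S198_256_290_364_19 : EL := (EL.cons 4 (TM.mk (P.cons (P.cons (P.lf 25645138 0 0) (P.cons (P.lf 0 2673737 0) (P.cons (P.lf 0 344299 0) (P.lf 22952 0 0)))) (P.cons (P.cons (P.lf 0 75361400 0) (P.cons (P.lf 7253145 0 0) (P.cons (P.lf 933994 0 0) (P.lf 0 62265 0)))) (P.cons (P.cons (P.lf 66755663 0 0) (P.cons (P.lf 0 5447023 0) (P.cons (P.lf 0 701418 0) (P.lf 46760 0 0)))) (P.cons (P.cons (P.lf 0 4739725 0) (P.cons (P.lf 0 338261 0) (P.cons (P.lf 0 43558 0) P.nil))) (P.cons (P.cons (P.lf 0 16887633 0) (P.cons (P.lf 1259887 0 0) P.nil)) (P.cons (P.cons (P.lf 3450468 0 0) P.nil) P.nil)))))) 3523376)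
 (EL.cons 8 (TM.mk (P.cons (P.cons (P.lf 59400876 0 0) (P.cons (P.lf 0 6193080 0) (P.cons (P.lf 0 797489 0) (P.lf 53165 0 0)))) (P.cons (P.cons (P.lf 0 113219175 0) (P.cons (P.lf 10405186 0 0) (P.cons (P.lf 1339887 0 0) (P.lf 0 89325 0)))) (P.cons (P.cons (P.lf 34744743 0 0) (P.cons (P.lf 0 1562825 0) (P.cons (P.lf 0 201246 0) (P.lf 13416 0 0)))) (P.cons (P.cons (P.lf 31653416 0 0) (P.cons (P.lf 0 3031572 0) (P.cons (P.lf 0 390378 0) P.nil))) (P.cons (P.cons (P.lf 0 10341449 0) (P.cons (P.lf 66794 0 0) P.nil)) (P.cons (P.cons (P.lf 0 3445651 0) P.nil) P.nil)))))) 2630451)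
 EL.nil))
noncomputable def S198_256_290_364_20 : EL := (EL.cons 4 (TM.mk (P.cons (P.cons (P.lf 14731545 0 0) (P.cons (P.lf 0 3071794 0) (P.cons (P.lf 0 235426 0) (P.cons (P.lf 67610 0 0) (P.cons (P.lf 0 93 0) (P.cons (P.lf 0 353 0) P.nil)))))) (P.cons (P.cons (P.lf 0 43781740 0) (P.cons (P.lf 8435407 0 0) (P.cons (P.lf 682674 0 0) (P.cons (P.lf 0 176349 0) (P.cons (P.lf 236 0 0) P.nil))))) (P.cons (P.cons (P.lf 37311700 0 0) (P.cons (P.lf 0 6018937 0) (P.cons (P.lf 0 544941 0) (P.cons (P.lf 110937 0 0) P.nil)))) (P.cons (P.cons (P.lf 3472256 0 0) (P.cons (P.lf 0 1621575 0) (P.cons (P.lf 0 94686 0) P.nil))) (P.cons (P.cons (P.lf 0 16475290 0) (P.cons (P.lf 2590550 0 0) P.nil)) (P.cons (P.cons (P.lf 2831787 0 0) P.nil) P.nil)))))) 8069864)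
 (EL.cons 8 (TM.mk (P.cons (P.cons (P.lf 34122130 0 0) (P.cons (P.lf 0 7115083 0) (P.cons (P.lf 0 545310 0) (P.cons (P.lf 156604 0 0) (P.cons (P.lf 0 217 0) (P.cons (P.lf 0 819 0) P.nil)))))) (P.cons (P.cons (P.lf 0 66175339 0) (P.cons (P.lf 12191550 0 0) (P.cons (P.lf 1018162 0 0) (P.cons (P.lf 0 246761 0) (P.cons (P.lf 324 0 0) P.nil))))) (P.cons (P.cons (P.lf 16385652 0 0) (P.cons (P.lf 0 996848 0) (P.cons (P.lf 0 183620 0) (P.cons (P.lf 0 5673 0) P.nil)))) (P.cons (P.cons (P.lf 28899339 0 0) (P.cons (P.lf 0 5525923 0) (P.cons (P.lf 0 469871 0) P.nil))) (P.cons (P.cons (P.lf 0 10408438 0) (P.cons (P.lf 579286 0 0) P.nil)) (P.cons (P.cons (P.lf 0 5224616 0) P.nil) P.nil)))))) 7062214)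
 EL.nil))
noncomputable def S198_256_290_364_21 : EL := (EL.cons 4 (TM.mk (P.cons (P.cons (P.lf 267997305 0 0) (P.cons (P.lf 161319345 0 0) (P.cons (P.lf 20773266 0 0) (P.lf 0 1384881 0)))) (P.cons (P.cons (P.lf 2713364763 0 0) (P.cons (P.lf 0 125165382 0) (P.cons (P.lf 0 16117680 0) (P.lf 1074510 0 0)))) (P.cons (P.cons (P.lf 0 225456768 0) (P.cons (P.lf 0 50115207 0) (P.cons (P.lf 0 6453387 0) (P.lf 430221 0 0)))) (P.cons (P.cons (P.lf 0 366330723 0) (P.cons (P.lf 10174959 0 0) (P.cons (P.lf 1310238 0 0) P.nil))) (P.cons (P.cons (P.lf 4417761 0 0) (P.cons (P.lf 4342410 0 0) P.nil)) (P.cons (P.cons (P.lf 22127148 0 0) P.nil) P.nil)))))) 6412095)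
 (EL.cons 8 (TM.mk (P.cons (P.cons (P.lf 0 41138649 0) (P.cons (P.lf 0 24763167 0) (P.cons (P.lf 0 3188787 0) (P.lf 212589 0 0)))) (P.cons (P.cons (P.lf 0 374032359 0) (P.cons (P.lf 44783937 0 0) (P.cons (P.lf 5766876 0 0) (P.lf 0 384453 0)))) (P.cons (P.cons (P.lf 462645351 0 0) (P.cons (P.lf 0 13384356 0) (P.cons (P.lf 0 1723518 0) (P.lf 114900 0 0)))) (P.cons (P.cons (P.lf 442755 0 0) (P.cons (P.lf 0 8088303 0) (P.cons (P.lf 0 1041534 0) P.nil))) (P.cons (P.cons (P.lf 0 49383609 0) (P.cons (P.lf 940833 0 0) P.nil)) (P.cons (P.cons (P.lf 0 1101108 0) P.nil) P.nil)))))) 5775726)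
 (EL.cons 11 (TM.mk (P.cons (P.cons (P.lf 1717795071 0 0) (P.cons (P.lf 490391673 0 0) (P.cons (P.lf 0 36680508 0) (P.cons (P.lf 0 2471730 0) (P.lf 123585 0 0))))) (P.cons (P.cons (P.lf 220495215 0 0) (P.cons (P.lf 62946399 0 0) (P.cons (P.lf 0 4708287 0) (P.cons (P.lf 0 317268 0) (P.lf 15861 0 0))))) (P.cons (P.cons (P.lf 0 96209784 0) (P.cons (P.lf 0 27465717 0) (P.cons (P.lf 2054391 0 0) (P.cons (P.lf 138435 0 0) P.nil)))) (P.cons (P.cons (P.lf 0 13371159 0) (P.cons (P.lf 0 3817164 0) (P.cons (P.lf 285516 0 0) P.nil))) (P.cons (P.cons (P.lf 2537565 0 0) (P.cons (P.lf 724416 0 0) P.nil)) (P.cons (P.cons (P.lf 444894 0 0) P.nil) P.nil)))))) 353193)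
 EL.nil)))
noncomputable def S198_256_290_364_22 : EL := (EL.cons 4 (TM.mk (P.cons (P.cons (P.lf 153947880 0 0) (P.cons (P.lf 76617522 0 0) (P.cons (P.lf 204639 0 0) (P.cons (P.lf 0 3145977 0) (P.cons (P.lf 5673 0 0) (P.cons (P.lf 21360 0 0) P.nil)))))) (P.cons (P.cons (P.lf 1553526354 0 0) (P.cons (P.lf 0 240584949 0) (P.cons (P.lf 0 25344393 0) (P.cons (P.lf 3516861 0 0) (P.cons (P.lf 0 3309 0) P.nil))))) (P.cons (P.cons (P.lf 0 207395868 0) (P.cons (P.lf 0 58520718 0) (P.cons (P.lf 0 2339061 0) (P.cons (P.lf 1840752 0 0) P.nil)))) (P.cons (P.cons (P.lf 0 466426614 0) (P.cons (P.lf 57556509 0 0) (P.cons (P.lf 6962844 0 0) P.nil))) (P.cons (P.cons (P.lf 52838802 0 0) (P.cons (P.lf 12779904 0 0) P.nil)) (P.cons (P.cons (P.lf 61475157 0 0) P.nil) P.nil)))))) 29630892)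
 (EL.cons 8 (TM.mk (P.cons (P.cons (P.lf 0 23631609 0) (P.cons (P.lf 0 11761098 0) (P.cons (P.lf 0 31416 0) (P.cons (P.lf 482922 0 0) (P.cons (P.lf 0 870 0) (P.cons (P.lf 0 3279 0) P.nil)))))) (P.cons (P.cons (P.lf 0 214070382 0) (P.cons (P.lf 49075308 0 0) (P.cons (P.lf 3922902 0 0) (P.cons (P.lf 0 1038513 0) (P.cons (P.lf 1407 0 0) P.nil))))) (P.cons (P.cons (P.lf 276903015 0 0) (P.cons (P.lf 0 29739396 0) (P.cons (P.lf 0 3659826 0) (P.cons (P.lf 299019 0 0) P.nil)))) (P.cons (P.cons (P.lf 27244098 0 0) (P.cons (P.lf 0 16048632 0) (P.cons (P.lf 0 1244595 0) P.nil))) (P.cons (P.cons (P.lf 0 76083429 0) (P.cons (P.lf 6911820 0 0) P.nil)) (P.cons (P.cons (P.lf 1599096 0 0) P.nil) P.nil)))))) 18498483)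
 (EL.cons 11 (TM.mk (P.cons (P.cons (P.lf 986767059 0 0) (P.cons (P.lf 178820265 0 0) (P.cons (P.lf 0 63688332 0) (P.cons (P.lf 0 2121828 0) (P.cons (P.lf 754041 0 0) (P.cons (P.lf 0 7197 0) P.nil)))))) (P.cons (P.cons (P.lf 93753615 0 0) (P.cons (P.lf 0 6249324 0) (P.cons (P.lf 0 15677886 0) (P.cons (P.lf 0 360162 0) (P.cons (P.lf 225933 0 0) P.nil))))) (P.cons (P.cons (P.lf 0 225540384 0) (P.cons (P.lf 0 53159808 0) (P.cons (P.lf 9466734 0 0) (P.cons (P.lf 401130 0 0) P.nil)))) (P.cons (P.cons (P.lf 0 14493498 0) (P.cons (P.lf 569994 0 0) (P.cons (P.lf 2259579 0 0) P.nil))) (P.cons (P.cons (P.lf 22221066 0 0) (P.cons (P.lf 5834133 0 0) P.nil)) (P.cons (P.cons (P.lf 1785867 0 0) P.nil) P.nil)))))) 5873469)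
 EL.nil)))
noncomputable def S198_256_290_364_23 : EL := (EL.cons 4 (TM.mk (P.cons (P.cons (P.lf 0 59759547 0) (P.cons (P.lf 0 35971893 0) (P.cons (P.lf 0 4632138 0) (P.lf 308808 0 0)))) (P.cons (P.cons (P.lf 0 547168719 0) (P.cons (P.lf 62746158 0 0) (P.cons (P.lf 8079888 0 0) (P.lf 0 538656 0)))) (P.cons (P.cons (P.lf 638981514 0 0) (P.cons (P.lf 0 14185983 0) (P.cons (P.lf 0 1826742 0) (P.lf 121782 0 0)))) (P.cons (P.cons (P.lf 60227235 0 0) (P.cons (P.lf 0 14882373 0) (P.cons (P.lf 0 1916418 0) P.nil))) (P.cons (P.cons (P.lf 0 90857856 0) (P.cons (P.lf 1054623 0 0) P.nil)) (P.cons (P.cons (P.lf 0 7768623 0) P.nil) P.nil)))))) 11408487)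
 (EL.cons 8 (TM.mk (P.cons (P.cons (P.lf 9173325 0 0) (P.cons (P.lf 5521830 0 0) (P.cons (P.lf 711051 0 0) (P.lf 0 47403 0)))) (P.cons (P.cons (P.lf 74520162 0 0) (P.cons (P.lf 0 15333651 0) (P.cons (P.lf 0 1974531 0) (P.lf 131634 0 0)))) (P.cons (P.cons (P.lf 0 184358946 0) (P.cons (P.lf 12399354 0 0) (P.cons (P.lf 1596678 0 0) (P.lf 0 106443 0)))) (P.cons (P.cons (P.lf 96066891 0 0) (P.cons (P.lf 0 547350 0) (P.cons (P.lf 0 70482 0) P.nil))) (P.cons (P.cons (P.lf 17054460 0 0) (P.cons (P.lf 0 2226405 0) P.nil)) (P.cons (P.cons (P.lf 0 11744466 0) P.nil) P.nil)))))) 4410483)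
 (EL.cons 11 (TM.mk (P.cons (P.cons (P.lf 0 383043615 0) (P.cons (P.lf 0 109350294 0) (P.cons (P.lf 8179224 0 0) (P.cons (P.lf 551160 0 0) (P.lf 0 27555 0))))) (P.cons (P.cons (P.lf 321781704 0 0) (P.cons (P.lf 91861404 0 0) (P.cons (P.lf 0 6871083 0) (P.cons (P.lf 0 463011 0) (P.lf 23148 0 0))))) (P.cons (P.cons (P.lf 86828277 0 0) (P.cons (P.lf 24787509 0 0) (P.cons (P.lf 0 1854063 0) (P.cons (P.lf 0 124935 0) P.nil)))) (P.cons (P.cons (P.lf 0 20810355 0) (P.cons (P.lf 0 5940885 0) (P.cons (P.lf 444369 0 0) P.nil))) (P.cons (P.cons (P.lf 0 5575311 0) (P.cons (P.lf 0 1591623 0) P.nil)) (P.cons (P.cons (P.lf 619137 0 0) P.nil) P.nil)))))) 919248)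
 EL.nil)))
noncomputable def S198_256_290_364_24 : EL := (EL.cons 4 (TM.mk (P.cons (P.cons (P.lf 0 34328163 0) (P.cons (P.lf 0 17084607 0) (P.cons (P.lf 0 45630 0) (P.cons (P.lf 701505 0 0) (P.cons (P.lf 0 1263 0) (P.cons (P.lf 0 4761 0) P.nil)))))) (P.cons (P.cons (P.lf 0 313169802 0) (P.cons (P.lf 70192143 0 0) (P.cons (P.lf 5695626 0 0) (P.cons (P.lf 0 1463565 0) (P.cons (P.lf 1962 0 0) P.nil))))) (P.cons (P.cons (P.lf 383313936 0 0) (P.cons (P.lf 0 38111658 0) (P.cons (P.lf 0 4949295 0) (P.cons (P.lf 316458 0 0) P.nil)))) (P.cons (P.cons (P.lf 74807499 0 0) (P.cons (P.lf 0 28195095 0) (P.cons (P.lf 0 2320383 0) P.nil))) (P.cons (P.cons (P.lf 0 119478258 0) (P.cons (P.lf 9695964 0 0) P.nil)) (P.cons (P.cons (P.lf 0 6879348 0) P.nil) P.nil)))))) 34361556)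
 (EL.cons 8 (TM.mk (P.cons (P.cons (P.lf 5269509 0 0) (P.cons (P.lf 2622555 0 0) (P.cons (P.lf 7005 0 0) (P.cons (P.lf 0 107682 0) (P.cons (P.lf 192 0 0) (P.cons (P.lf 729 0 0) P.nil)))))) (P.cons (P.cons (P.lf 42631494 0 0) (P.cons (P.lf 0 13482837 0) (P.cons (P.lf 0 881535 0) (P.cons (P.lf 335856 0 0) (P.cons (P.lf 0 501 0) P.nil))))) (P.cons (P.cons (P.lf 0 108217110 0) (P.cons (P.lf 17107419 0 0) (P.cons (P.lf 1662894 0 0) (P.cons (P.lf 0 285945 0) P.nil)))) (P.cons (P.cons (P.lf 51580335 0 0) (P.cons (P.lf 0 2299812 0) (P.cons (P.lf 0 472137 0) P.nil))) (P.cons (P.cons (P.lf 26377692 0 0) (P.cons (P.lf 0 5462550 0) P.nil)) (P.cons (P.cons (P.lf 0 17303535 0) P.nil) P.nil)))))) 11065833)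
 (EL.cons 11 (TM.mk (P.cons (P.cons (P.lf 0 220034874 0) (P.cons (P.lf 0 39874350 0) (P.cons (P.lf 14201580 0 0) (P.cons (P.lf 473136 0 0) (P.cons (P.lf 0 168138 0) (P.cons (P.lf 1605 0 0) P.nil)))))) (P.cons (P.cons (P.lf 192181539 0 0) (P.cons (P.lf 40008822 0 0) (P.cons (P.lf 0 10257222 0) (P.cons (P.lf 0 377886 0) (P.cons (P.lf 112449 0 0) P.nil))))) (P.cons (P.cons (P.lf 80739939 0 0) (P.cons (P.lf 12353163 0 0) (P.cons (P.lf 0 6154968 0) (P.cons (P.lf 0 189159 0) P.nil)))) (P.cons (P.cons (P.lf 0 47545125 0) (P.cons (P.lf 0 12222561 0) (P.cons (P.lf 1574682 0 0) P.nil))) (P.cons (P.cons (P.lf 0 10962747 0) (P.cons (P.lf 0 1754781 0) P.nil)) (P.cons (P.cons (P.lf 4961226 0 0) P.nil) P.nil)))))) 6417960)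
 EL.nil)))
noncomputable def S198_256_290_364_25 : EL := (EL.cons 4 (TM.mk (P.cons (P.cons (P.lf 13325520 0 0) (P.cons (P.lf 8021214 0 0) (P.cons (P.lf 1032900 0 0) (P.lf 0 68859 0)))) (P.cons (P.cons (P.lf 109105995 0 0) (P.cons (P.lf 0 21759435 0) (P.cons (P.lf 0 2801985 0) (P.lf 186798 0 0)))) (P.cons (P.cons (P.lf 0 261259800 0) (P.cons (P.lf 16341069 0 0) (P.cons (P.lf 2104257 0 0) (P.lf 0 140283 0)))) (P.cons (P.cons (P.lf 119082060 0 0) (P.cons (P.lf 1014783 0 0) (P.cons (P.lf 130674 0 0) P.nil))) (P.cons (P.cons (P.lf 41574486 0 0) (P.cons (P.lf 0 3779664 0) P.nil)) (P.cons (P.cons (P.lf 0 19095000 0) P.nil) P.nil)))))) 10750077)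
 (EL.cons 8 (TM.mk (P.cons (P.cons (P.lf 0 2045520 0) (P.cons (P.lf 0 1231287 0) (P.cons (P.lf 0 158553 0) (P.lf 10569 0 0)))) (P.cons (P.cons (P.lf 0 14635992 0) (P.cons (P.lf 4611594 0 0) (P.cons (P.lf 593838 0 0) (P.lf 0 39588 0)))) (P.cons (P.cons (P.lf 57296481 0 0) (P.cons (P.lf 0 6019011 0) (P.cons (P.lf 0 775074 0) (P.lf 51669 0 0)))) (P.cons (P.cons (P.lf 0 60490722 0) (P.cons (P.lf 2624070 0 0) (P.cons (P.lf 337902 0 0) P.nil))) (P.cons (P.cons (P.lf 14804061 0 0) (P.cons (P.lf 552285 0 0) P.nil)) (P.cons (P.cons (P.lf 7844187 0 0) P.nil) P.nil)))))) 5448867)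
 (EL.cons 11 (TM.mk (P.cons (P.cons (P.lf 85413222 0 0) (P.cons (P.lf 24383544 0 0) (P.cons (P.lf 0 1823847 0) (P.cons (P.lf 0 122898 0) (P.lf 6144 0 0))))) (P.cons (P.cons (P.lf 0 154468986 0) (P.cons (P.lf 0 44097405 0) (P.cons (P.lf 3298413 0 0) (P.cons (P.lf 222264 0 0) (P.lf 0 11112 0))))) (P.cons (P.cons (P.lf 46165395 0 0) (P.cons (P.lf 13179177 0 0) (P.cons (P.lf 0 985779 0) (P.cons (P.lf 0 66426 0) P.nil)))) (P.cons (P.cons (P.lf 27898233 0 0) (P.cons (P.lf 7964313 0 0) (P.cons (P.lf 0 595716 0) P.nil))) (P.cons (P.cons (P.lf 0 3245145 0) (P.cons (P.lf 0 926415 0) P.nil)) (P.cons (P.cons (P.lf 0 1924182 0) P.nil) P.nil)))))) 1585104)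
 EL.nil)))
noncomputable def S198_256_290_364_26 : EL := (EL.cons 4 (TM.mk (P.cons (P.cons (P.lf 7654686 0 0) (P.cons (P.lf 3809619 0 0) (P.cons (P.lf 10173 0 0) (P.cons (P.lf 0 156426 0) (P.cons (P.lf 282 0 0) (P.cons (P.lf 1062 0 0) P.nil)))))) (P.cons (P.cons (P.lf 62419374 0 0) (P.cons (P.lf 0 19341171 0) (P.cons (P.lf 0 1279896 0) (P.cons (P.lf 477840 0 0) (P.cons (P.lf 0 711 0) P.nil))))) (P.cons (P.cons (P.lf 0 153455814 0) (P.cons (P.lf 23479347 0 0) (P.cons (P.lf 2333091 0 0) (P.cons (P.lf 0 379362 0) P.nil)))) (P.cons (P.cons (P.lf 62961666 0 0) (P.cons (P.lf 0 1164537 0) (P.cons (P.lf 0 492333 0) P.nil))) (P.cons (P.cons (P.lf 47733645 0 0) (P.cons (P.lf 0 8856612 0) P.nil)) (P.cons (P.cons (P.lf 0 24594753 0) P.nil) P.nil)))))) 23939469)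
 (EL.cons 8 (TM.mk (P.cons (P.cons (P.lf 0 1175022 0) (P.cons (P.lf 0 584790 0) (P.cons (P.lf 0 1560 0) (P.cons (P.lf 24012 0 0) (P.cons (P.lf 0 42 0) (P.cons (P.lf 0 162 0) P.nil)))))) (P.cons (P.cons (P.lf 0 8368287 0) (P.cons (P.lf 3572805 0 0) (P.cons (P.lf 198081 0 0) (P.cons (P.lf 0 98145 0) (P.cons (P.lf 153 0 0) P.nil))))) (P.cons (P.cons (P.lf 33391392 0 0) (P.cons (P.lf 0 6699141 0) (P.cons (P.lf 0 561090 0) (P.cons (P.lf 135174 0 0) P.nil)))) (P.cons (P.cons (P.lf 0 34446081 0) (P.cons (P.lf 4059600 0 0) (P.cons (P.lf 455235 0 0) P.nil))) (P.cons (P.cons (P.lf 4005018 0 0) (P.cons (P.lf 939189 0 0) P.nil)) (P.cons (P.cons (P.lf 10410564 0 0) P.nil) P.nil)))))) 9755244)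
 (EL.cons 11 (TM.mk (P.cons (P.cons (P.lf 49064613 0 0) (P.cons (P.lf 8891406 0 0) (P.cons (P.lf 0 3166746 0) (P.cons (P.lf 0 105501 0) (P.cons (P.lf 37491 0 0) (P.cons (P.lf 0 357 0) P.nil)))))) (P.cons (P.cons (P.lf 0 90369114 0) (P.cons (P.lf 0 17532051 0) (P.cons (P.lf 5353971 0 0) (P.cons (P.lf 186432 0 0) (P.cons (P.lf 0 61383 0) P.nil))))) (P.cons (P.cons (P.lf 21221847 0 0) (P.cons (P.lf 5472864 0 0) (P.cons (P.lf 0 695694 0) (P.cons (P.lf 0 34530 0) P.nil)))) (P.cons (P.cons (P.lf 30702516 0 0) (P.cons (P.lf 5929629 0 0) (P.cons (P.lf 0 1830093 0) P.nil))) (P.cons (P.cons (P.lf 0 7522950 0) (P.cons (P.lf 0 2233338 0) P.nil)) (P.cons (P.cons (P.lf 0 4273071 0) P.nil) P.nil)))))) 6220620)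
 EL.nil)))
noncomputable def S198_256_290_364_27 : EL := (EL.cons 13 (TM.mk (P.lf 0 4294967296 0) 0)
 EL.nil)
noncomputable def S198_256_290_364_28 : EL := (EL.cons 13 (TM.mk (P.cons (P.cons (P.lf 0 2467193160 0) (P.cons (P.lf 257227296 0 0) (P.cons (P.lf 33123440 0 0) (P.lf 0 2208228 0)))) (P.cons (P.cons (P.lf 82277316 0 0) (P.cons (P.lf 49526324 0 0) (P.cons (P.lf 6377560 0 0) (P.lf 0 425168 0)))) (P.cons (P.cons (P.lf 415171007 0 0) (P.cons (P.lf 0 20020776 0) (P.cons (P.lf 0 2578096 0) (P.lf 171872 0 0)))) (P.cons (P.cons (P.lf 0 31649566 0) (P.cons (P.lf 0 4424276 0) (P.cons (P.lf 0 569716 0) P.nil))) (P.cons (P.cons (P.lf 0 23958539 0) (P.cons (P.lf 725940 0 0) P.nil)) (P.cons (P.cons (P.lf 586611 0 0) P.nil) P.nil)))))) 1783116)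
 EL.nil)
noncomputable def S198_256_290_364_29 : EL := (EL.cons 13 (TM.mk (P.cons (P.cons (P.lf 0 1417249927 0) (P.cons (P.lf 295522355 0 0) (P.cons (P.lf 22649291 0 0) (P.cons (P.lf 0 6504532 0) (P.cons (P.lf 9050 0 0) (P.cons (P.lf 34060 0 0) P.nil)))))) (P.cons (P.cons (P.lf 94526461 0 0) (P.cons (P.lf 47044379 0 0) (P.cons (P.lf 125655 0 0) (P.cons (P.lf 0 1931679 0) (P.cons (P.lf 3484 0 0) P.nil))))) (P.cons (P.cons (P.lf 475403987 0 0) (P.cons (P.lf 0 74628428 0) (P.cons (P.lf 0 7782978 0) (P.cons (P.lf 1111194 0 0) P.nil)))) (P.cons (P.cons (P.lf 0 52268034 0) (P.cons (P.lf 0 10099750 0) (P.cons (P.lf 0 308880 0) P.nil))) (P.cons (P.cons (P.lf 0 66445108 0) (P.cons (P.lf 8473812 0 0) P.nil)) (P.cons (P.cons (P.lf 7710656 0 0) P.nil) P.nil)))))) 12943137)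
 EL.nil)
noncomputable def S198_256_290_364_30 : EL := (EL.cons 13 (TM.mk (P.cons (P.lf 957715992 0 0) (P.cons (P.lf 0 927476000 0) (P.cons (P.lf 0 44405152 0) (P.cons (P.lf 13240480 0 0) (P.cons (P.lf 1119116 0 0) (P.cons (P.lf 0 173696 0) P.nil)))))) 29016)
 EL.nil)
noncomputable def S198_256_290_364_31 : EL := (EL.cons 13 (TM.mk (P.cons (P.cons (P.lf 550148623 0 0) (P.cons (P.lf 0 57357990 0) (P.cons (P.lf 0 7386051 0) (P.lf 492403 0 0)))) (P.cons (P.cons (P.lf 0 551124276 0) (P.cons (P.lf 44503247 0 0) (P.cons (P.lf 5730731 0 0) (P.lf 0 382049 0)))) (P.cons (P.cons (P.lf 0 100317821 0) (P.cons (P.lf 17818741 0 0) (P.cons (P.lf 2294538 0 0) (P.lf 0 152968 0)))) (P.cons (P.cons (P.lf 105167925 0 0) (P.cons (P.lf 0 3617764 0) (P.cons (P.lf 0 465863 0) P.nil))) (P.cons (P.cons (P.lf 3189472 0 0) (P.cons (P.lf 0 1543969 0) P.nil)) (P.cons (P.cons (P.lf 0 7032850 0) P.nil) P.nil))))))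 2100063)
 EL.nil)
noncomputable def S198_256_290_364_32 : EL := (EL.cons 13 (TM.mk (P.cons (P.cons (P.lf 316026369 0 0) (P.cons (P.lf 0 65897238 0) (P.cons (P.lf 0 5050466 0) (P.cons (P.lf 1450417 0 0) (P.cons (P.lf 0 2018 0) (P.cons (P.lf 0 7594 0) P.nil)))))) (P.cons (P.cons (P.lf 0 327125842 0) (P.cons (P.lf 53326305 0 0) (P.cons (P.lf 4862978 0 0) (P.cons (P.lf 0 973883 0) (P.cons (P.lf 1177 0 0) P.nil))))) (P.cons (P.cons (P.lf 0 100248534 0) (P.cons (P.lf 29855427 0 0) (P.cons (P.lf 1996795 0 0) (P.cons (P.lf 0 732165 0) P.nil)))) (P.cons (P.cons (P.lf 119662436 0 0) (P.cons (P.lf 0 14288171 0) (P.cons (P.lf 0 1680341 0) P.nil))) (P.cons (P.cons (P.lf 8522317 0 0) (P.cons (P.lf 0 5064132 0) P.nil)) (P.cons (P.cons (P.lf 0 18155752 0) P.nil) P.nil)))))) 11743685)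
 EL.nil)
noncomputable def S198_256_290_364_33 : EL := (EL.cons 14 (TM.mk (P.lf 8589934592 0 0) 0)
 EL.nil)
noncomputable def S198_256_290_364_34 : EL := (EL.cons 14 (TM.mk (P.cons (P.cons (P.lf 4934386320 0 0) (P.cons (P.lf 0 514454592 0) (P.cons (P.lf 0 66246880 0) (P.lf 4416456 0 0)))) (P.cons (P.cons (P.lf 0 164554632 0) (P.cons (P.lf 0 99052648 0) (P.cons (P.lf 0 12755120 0) (P.lf 850336 0 0)))) (P.cons (P.cons (P.lf 0 830342014 0) (P.cons (P.lf 40041552 0 0) (P.cons (P.lf 5156192 0 0) (P.lf 0 343744 0)))) (P.cons (P.cons (P.lf 63299132 0 0) (P.cons (P.lf 8848552 0 0) (P.cons (P.lf 1139432 0 0) P.nil))) (P.cons (P.cons (P.lf 47917078 0 0) (P.cons (P.lf 0 1451880 0) P.nil)) (P.cons (P.cons (P.lf 0 1173222 0) P.nil) P.nil)))))) 3566232)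
 EL.nil)
noncomputable def S198_256_290_364_35 : EL := (EL.cons 14 (TM.mk (P.cons (P.cons (P.lf 2834499854 0 0) (P.cons (P.lf 0 591044710 0) (P.cons (P.lf 0 45298582 0) (P.cons (P.lf 13009064 0 0) (P.cons (P.lf 0 18100 0) (P.cons (P.lf 0 68120 0) P.nil)))))) (P.cons (P.cons (P.lf 0 189052922 0) (P.cons (P.lf 0 94088758 0) (P.cons (P.lf 0 251310 0) (P.cons (P.lf 3863358 0 0) (P.cons (P.lf 0 6968 0) P.nil))))) (P.cons (P.cons (P.lf 0 950807974 0) (P.cons (P.lf 149256856 0 0) (P.cons (P.lf 15565956 0 0) (P.cons (P.lf 0 2222388 0) P.nil)))) (P.cons (P.cons (P.lf 104536068 0 0) (P.cons (P.lf 20199500 0 0) (P.cons (P.lf 617760 0 0) P.nil))) (P.cons (P.cons (P.lf 132890216 0 0) (P.cons (P.lf 0 16947624 0) P.nil)) (P.cons (P.cons (P.lf 0 15421312 0) P.nil) P.nil)))))) 25886274)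
 EL.nil)
noncomputable def S198_256_290_364_36 : EL := (EL.cons 14 (TM.mk (P.cons (P.lf 0 1915431984 0) (P.cons (P.lf 1854952000 0 0) (P.cons (P.lf 88810304 0 0) (P.cons (P.lf 0 26480960 0) (P.cons (P.lf 0 2238232 0) (P.cons (P.lf 347392 0 0) P.nil)))))) 58032)
 EL.nil)
noncomputable def S198_256_290_364_37 : EL := (EL.cons 14 (TM.mk (P.cons (P.cons (P.lf 0 1100297246 0) (P.cons (P.lf 114715980 0 0) (P.cons (P.lf 14772102 0 0) (P.lf 0 984806 0)))) (P.cons (P.cons (P.lf 1102248552 0 0) (P.cons (P.lf 0 89006494 0) (P.cons (P.lf 0 11461462 0) (P.lf 764098 0 0)))) (P.cons (P.cons (P.lf 200635642 0 0) (P.cons (P.lf 0 35637482 0) (P.cons (P.lf 0 4589076 0) (P.lf 305936 0 0)))) (P.cons (P.cons (P.lf 0 210335850 0) (P.cons (P.lf 7235528 0 0) (P.cons (P.lf 931726 0 0) P.nil))) (P.cons (P.cons (P.lf 0 6378944 0) (P.cons (P.lf 3087938 0 0) P.nil)) (P.cons (P.cons (P.lf 14065700 0 0) P.nil)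 P.nil)))))) 4200126)
 EL.nil)
noncomputable def S198_256_290_364_38 : EL := (EL.cons 14 (TM.mk (P.cons (P.cons (P.lf 0 632052738 0) (P.cons (P.lf 131794476 0 0) (P.cons (P.lf 10100932 0 0) (P.cons (P.lf 0 2900834 0) (P.cons (P.lf 4036 0 0) (P.cons (P.lf 15188 0 0) P.nil)))))) (P.cons (P.cons (P.lf 654251684 0 0) (P.cons (P.lf 0 106652610 0) (P.cons (P.lf 0 9725956 0) (P.cons (P.lf 1947766 0 0) (P.cons (P.lf 0 2354 0) P.nil))))) (P.cons (P.cons (P.lf 200497068 0 0) (P.cons (P.lf 0 59710854 0) (P.cons (P.lf 0 3993590 0) (P.cons (P.lf 1464330 0 0) P.nil)))) (P.cons (P.cons (P.lf 0 239324872 0) (P.cons (P.lf 28576342 0 0) (P.cons (P.lf 3360682 0 0) P.nil))) (P.cons (P.cons (P.lf 0 17044634 0) (P.cons (P.lf 10128264 0 0) P.nil)) (P.cons (P.cons (P.lf 36311504 0 0) P.nil) P.nil)))))) 23487370)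
 EL.nil)
noncomputable def S198_256_290_364_39 : EL := (EL.cons 14 (TM.mk (P.cons (P.lf 427113808 0 0) (P.cons (P.lf 0 827255282 0) (P.cons (P.lf 360960458 0 0) (P.cons (P.lf 50165998 0 0) (P.cons (P.lf 0 9520466 0) (P.cons (P.lf 0 1669162 0) P.nil)))))) 354406)
 EL.nil)
noncomputable def S198_256_290_364_40 : EL := (EL.cons 14 (TM.mk (P.cons (P.cons (P.lf 245350474 0 0) (P.cons (P.lf 0 25580014 0) (P.cons (P.lf 0 3293966 0) (P.lf 219596 0 0)))) (P.cons (P.cons (P.lf 0 483389094 0) (P.cons (P.lf 44619492 0 0) (P.cons (P.lf 5745700 0 0) (P.lf 0 383046 0)))) (P.cons (P.cons (P.lf 181910172 0 0) (P.cons (P.lf 0 10087810 0) (P.cons (P.lf 0 1299018 0) (P.lf 86600 0 0)))) (P.cons (P.cons (P.lf 105016102 0 0) (P.cons (P.lf 0 10583020 0) (P.cons (P.lf 0 1362786 0) P.nil))) (P.cons (P.cons (P.lf 0 45035480 0) (P.cons (P.lf 749954 0 0) P.nil)) (P.cons (P.cons (P.lf 0 7638806 0) P.nil)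 P.nil)))))) 6950152)
 EL.nil)
noncomputable def S198_256_290_364_41 : EL := (EL.cons 14 (TM.mk (P.cons (P.cons (P.lf 140938678 0 0) (P.cons (P.lf 0 29388274 0) (P.cons (P.lf 0 2252362 0) (P.cons (P.lf 646844 0 0) (P.cons (P.lf 0 898 0) (P.cons (P.lf 0 3386 0) P.nil)))))) (P.cons (P.cons (P.lf 0 282377246 0) (P.cons (P.lf 52242336 0 0) (P.cons (P.lf 4349992 0 0) (P.cons (P.lf 0 1060744 0) (P.cons (P.lf 1396 0 0) P.nil))))) (P.cons (P.cons (P.lf 90039588 0 0) (P.cons (P.lf 0 8353810 0) (P.cons (P.lf 0 1105324 0) (P.cons (P.lf 64092 0 0) P.nil)))) (P.cons (P.cons (P.lf 105375028 0 0) (P.cons (P.lf 0 20775326 0) (P.cons (P.lf 0 1743472 0) P.nil))) (P.cons (P.cons (P.lf 0 47659574 0) (P.cons (P.lf 3589558 0 0) P.nil)) (P.cons (P.cons (P.lf 0 15066120 0) P.nil) P.nil)))))) 22362206)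
 EL.nil)
noncomputable def S198_256_290_364_42 : EL := (EL.cons 14 (TM.mk (P.cons (P.lf 0 95240240 0) (P.cons (P.lf 276699060 0 0) (P.cons (P.lf 0 254714620 0) (P.cons (P.lf 56891654 0 0) (P.cons (P.lf 19126904 0 0) (P.cons (P.lf 0 2044974 0) P.nil)))))) 997622)
 EL.nil)
noncomputable def S198_256_290_364_43 : EL := (EL.cons 14 (TM.mk (P.cons (P.cons (P.lf 0 54709628 0) (P.cons (P.lf 5703974 0 0) (P.cons (P.lf 734506 0 0) (P.lf 0 48966 0)))) (P.cons (P.cons (P.lf 160770988 0 0) (P.cons (P.lf 0 15473376 0) (P.cons (P.lf 0 1992522 0) (P.lf 132834 0 0)))) (P.cons (P.cons (P.lf 0 142412082 0) (P.cons (P.lf 11620316 0 0) (P.cons (P.lf 1496360 0 0) (P.lf 0 99756 0)))) (P.cons (P.cons (P.lf 10111414 0 0) (P.cons (P.lf 721624 0 0) (P.cons (P.lf 92924 0 0) P.nil))) (P.cons (P.cons (P.lf 36026952 0 0) (P.cons (P.lf 0 2687760 0) P.nil)) (P.cons (P.cons (P.lf 0 7361000 0) P.nil) P.nil))))))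 7516496)
 EL.nil)
noncomputable def S198_256_290_364_44 : EL := (EL.cons 14 (TM.mk (P.cons (P.cons (P.lf 0 31427298 0) (P.cons (P.lf 6553162 0 0) (P.cons (P.lf 502244 0 0) (P.cons (P.lf 0 144236 0) (P.cons (P.lf 200 0 0) (P.cons (P.lf 754 0 0) P.nil)))))) (P.cons (P.cons (P.lf 93401046 0 0) (P.cons (P.lf 0 17995536 0) (P.cons (P.lf 0 1456372 0) (P.cons (P.lf 376212 0 0) (P.cons (P.lf 0 504 0) P.nil))))) (P.cons (P.cons (P.lf 0 79598294 0) (P.cons (P.lf 12840400 0 0) (P.cons (P.lf 1162542 0 0) (P.cons (P.lf 0 236666 0) P.nil)))) (P.cons (P.cons (P.lf 0 7407480 0) (P.cons (P.lf 3459362 0 0) (P.cons (P.lf 201998 0 0) P.nil))) (P.cons (P.cons (P.lf 35147286 0 0) (P.cons (P.lf 0 5526508 0) P.nil)) (P.cons (P.cons (P.lf 0 6041146 0) P.nil) P.nil)))))) 17215664)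
 EL.nil)
noncomputable def S198_256_290_364_45 : EL := (EL.cons 14 (TM.mk (P.cons (P.cons (P.lf 1628244912 0 0) (P.cons (P.lf 0 509277962 0) (P.cons (P.lf 0 12483424 0) (P.cons (P.lf 16201418 0 0) (P.cons (P.lf 0 744046 0) (P.cons (P.lf 0 161664 0) P.nil)))))) (P.cons (P.cons (P.lf 0 162898822 0) (P.cons (P.lf 0 64088578 0) (P.cons (P.lf 10422982 0 0) (P.cons (P.lf 4294106 0 0) (P.cons (P.lf 0 422726 0) P.nil))))) (P.cons (P.cons (P.lf 0 816554370 0) (P.cons (P.lf 217011486 0 0) (P.cons (P.lf 12030976 0 0) (P.cons (P.lf 0 5735812 0) P.nil)))) (P.cons (P.cons (P.lf 117425942 0 0) (P.cons (P.lf 20225612 0 0) (P.cons (P.lf 0 3362984 0) P.nil))) (P.cons (P.cons (P.lf 180662568 0 0) (P.cons (P.lf 0 42810772 0) P.nil)) (P.cons (P.cons (P.lf 0 29957478 0) P.nil) P.nil)))))) 68740716)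
 EL.nil)
noncomputable def S198_256_290_364_46 : EL := (EL.cons 15 (TM.mk (P.lf 4294967296 0 0) 0)
 EL.nil)
noncomputable def S198_256_290_364_47 : EL := (EL.cons 15 (TM.mk (P.cons (P.cons (P.lf 2467193160 0 0) (P.cons (P.lf 0 257227296 0) (P.cons (P.lf 0 33123440 0) (P.lf 2208228 0 0)))) (P.cons (P.cons (P.lf 0 82277316 0) (P.cons (P.lf 0 49526324 0) (P.cons (P.lf 0 6377560 0) (P.lf 425168 0 0)))) (P.cons (P.cons (P.lf 0 415171007 0) (P.cons (P.lf 20020776 0 0) (P.cons (P.lf 2578096 0 0) (P.lf 0 171872 0)))) (P.cons (P.cons (P.lf 31649566 0 0) (P.cons (P.lf 4424276 0 0) (P.cons (P.lf 569716 0 0) P.nil))) (P.cons (P.cons (P.lf 23958539 0 0) (P.cons (P.lf 0 725940 0) P.nil)) (P.cons (P.cons (P.lf 0 586611 0) P.nil) P.nil)))))) 1783116)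
 EL.nil)
noncomputable def S198_256_290_364_48 : EL := (EL.cons 15 (TM.mk (P.cons (P.cons (P.lf 1417249927 0 0) (P.cons (P.lf 0 295522355 0) (P.cons (P.lf 0 22649291 0) (P.cons (P.lf 6504532 0 0) (P.cons (P.lf 0 9050 0) (P.cons (P.lf 0 34060 0) P.nil)))))) (P.cons (P.cons (P.lf 0 94526461 0) (P.cons (P.lf 0 47044379 0) (P.cons (P.lf 0 125655 0) (P.cons (P.lf 1931679 0 0) (P.cons (P.lf 0 3484 0) P.nil))))) (P.cons (P.cons (P.lf 0 475403987 0) (P.cons (P.lf 74628428 0 0) (P.cons (P.lf 7782978 0 0) (P.cons (P.lf 0 1111194 0) P.nil)))) (P.cons (P.cons (P.lf 52268034 0 0) (P.cons (P.lf 10099750 0 0) (P.cons (P.lf 308880 0 0) P.nil))) (P.cons (P.cons (P.lf 66445108 0 0) (P.cons (P.lf 0 8473812 0) P.nil)) (P.cons (P.cons (P.lf 0 7710656 0) P.nil) P.nil)))))) 12943137)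
 EL.nil)
noncomputable def S198_256_290_364 : SL := (SL.cons S198_256_290_364_0 (SL.cons S198_256_290_364_1 (SL.cons S198_256_290_364_2 (SL.cons S198_256_290_364_3 (SL.cons S198_256_290_364_4 (SL.cons S198_256_290_364_5 (SL.cons S198_256_290_364_6 (SL.cons S198_256_290_364_7 (SL.cons S198_256_290_364_8 (SL.cons S198_256_290_364_9 (SL.cons S198_256_290_364_10 (SL.cons S198_256_290_364_11 (SL.cons S198_256_290_364_12 (SL.cons S198_256_290_364_13 (SL.cons S198_256_290_364_14 (SL.cons S198_256_290_364_15 (SL.cons S198_256_290_364_16 (SL.cons S198_256_290_364_17 (SL.cons S198_256_290_364_18 (SL.cons S198_256_290_364_19 (SL.cons S198_256_290_364_20 (SL.cons S198_256_290_364_21 (SL.cons S198_256_290_364_22 (SL.cons S198_256_290_364_23 (SL.cons S198_256_290_364_24 (SL.cons S198_256_290_364_25 (SL.cons S198_256_290_364_26 (SL.cons S198_256_290_364_27 (SL.cons S198_256_290_364_28 (SL.cons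 S198_256_290_364_29 (SL.cons S198_256_290_364_30 (SL.cons S198_256_290_364_31 (SL.cons S198_256_290_364_32 (SL.cons S198_256_290_364_33 (SL.cons S198_256_290_364_34 (SL.cons S198_256_290_364_35 (SL.cons S198_256_290_364_36 (SL.cons S198_256_290_364_37 (SL.cons S198_256_290_364_38 (SL.cons S198_256_290_364_39 (SL.cons S198_256_290_364_40 (SL.cons S198_256_290_364_41 (SL.cons S198_256_290_364_42 (SL.cons S198_256_290_364_43 (SL.cons S198_256_290_364_44 (SL.cons S198_256_290_364_45 (SL.cons S198_256_290_364_46 (SL.cons S198_256_290_364_47 (SL.cons S198_256_290_364_48 SL.nil)))))))))))))))))))))))))))))))))))))))))))))))))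
noncomputable def S198_256_364_438_0 : EL := (EL.cons 0 (TM.mk (P.cons (P.lf 8080323868 0 0) (P.cons (P.lf 727079837 0 0) (P.cons (P.lf 0 317250402 0) (P.cons (P.lf 0 44091209 0) (P.cons (P.lf 8367597 0 0) (P.cons (P.lf 1467036 0 0) P.nil)))))) 311496)
 (EL.cons 1 (TM.mk (P.cons (P.lf 0 869508750 0) (P.cons (P.lf 786249082 0 0) (P.cons (P.lf 120498519 0 0) (P.cons (P.lf 0 33042157 0) (P.cons (P.lf 0 5010903 0) (P.cons (P.lf 683975 0 0) P.nil)))))) 177172)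
 (EL.cons 5 (TM.mk (P.cons (P.lf 4428440364 0 0) (P.cons (P.lf 0 258517274 0) (P.cons (P.lf 112800140 0 0) (P.cons (P.lf 15676876 0 0) (P.cons (P.lf 0 2975142 0) (P.cons (P.lf 0 521612 0) P.nil)))))) 117185)
 (EL.cons 9 (TM.mk (P.lf 6442450944 0 0) 2)
 EL.nil))))
noncomputable def S198_256_364_438_1 : EL := (EL.cons 0 (TM.mk (P.cons (P.cons (P.lf 3734800327 0 0) (P.cons (P.lf 0 588107069 0) (P.cons (P.lf 0 32178860 0) (P.lf 3575429 0 0)))) (P.cons (P.cons (P.lf 666518254 0 0) (P.cons (P.lf 0 359188122 0) (P.cons (P.lf 0 19653320 0) (P.lf 2183691 0 0)))) (P.cons (P.cons (P.lf 0 1992151208 0) (P.cons (P.lf 105736832 0 0) (P.cons (P.lf 5785489 0 0) (P.lf 0 642827 0)))) (P.cons (P.cons (P.lf 0 30585511 0) (P.cons (P.lf 64836819 0 0) (P.cons (P.lf 3547596 0 0) P.nil))) (P.cons (P.cons (P.lf 247162315 0 0) (P.cons (P.lf 0 5741118 0) P.nil)) (P.cons (P.cons (P.lf 11099600 0 0) P.nil)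 P.nil)))))) 31827176)
 (EL.cons 1 (TM.mk (P.cons (P.cons (P.lf 0 72482804 0) (P.cons (P.lf 176524458 0 0) (P.cons (P.lf 9658705 0 0) (P.lf 0 1073185 0)))) (P.cons (P.cons (P.lf 1529113670 0 0) (P.cons (P.lf 0 110537099 0) (P.cons (P.lf 0 6048142 0) (P.lf 672013 0 0)))) (P.cons (P.cons (P.lf 129480976 0 0) (P.cons (P.lf 0 88205030 0) (P.cons (P.lf 0 4826215 0) (P.lf 536239 0 0)))) (P.cons (P.cons (P.lf 0 396105422 0) (P.cons (P.lf 12581659 0 0) (P.cons (P.lf 688414 0 0) P.nil))) (P.cons (P.cons (P.lf 0 18866802 0) (P.cons (P.lf 10712680 0 0) P.nil)) (P.cons (P.cons (P.lf 36338200 0 0) P.nil) P.nil)))))) 13744930)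
 (EL.cons 5 (TM.mk (P.cons (P.cons (P.lf 1796519062 0 0) (P.cons (P.lf 0 408373212 0) (P.cons (P.lf 0 22344538 0) (P.lf 2482726 0 0)))) (P.cons (P.cons (P.lf 0 582830312 0) (P.cons (P.lf 8822648 0 0) (P.cons (P.lf 482734 0 0) (P.lf 0 53632 0)))) (P.cons (P.cons (P.lf 85793941 0 0) (P.cons (P.lf 10464862 0 0) (P.cons (P.lf 572598 0 0) (P.lf 0 63624 0)))) (P.cons (P.cons (P.lf 83079203 0 0) (P.cons (P.lf 0 12432540 0) (P.cons (P.lf 0 680254 0) P.nil))) (P.cons (P.cons (P.lf 0 50169531 0) (P.cons (P.lf 298642 0 0) P.nil)) (P.cons (P.cons (P.lf 0 5793930 0) P.nil) P.nil)))))) 13913719)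
 (EL.cons 9 (TM.mk (P.cons (P.cons (P.lf 2756865930 0 0) (P.cons (P.lf 0 544833474 0) (P.cons (P.lf 0 29811096 0) (P.lf 3312342 0 0)))) (P.cons (P.cons (P.lf 0 305158278 0) (P.cons (P.lf 0 104901780 0) (P.cons (P.lf 0 5739798 0) (P.lf 637752 0 0)))) (P.cons (P.cons (P.lf 0 549288064 0) (P.cons (P.lf 42406032 0 0) (P.cons (P.lf 2320284 0 0) (P.lf 0 257808 0)))) (P.cons (P.cons (P.lf 63709725 0 0) (P.cons (P.lf 9371070 0 0) (P.cons (P.lf 512742 0 0) P.nil))) (P.cons (P.cons (P.lf 33273874 0 0) (P.cons (P.lf 0 1537620 0) P.nil)) (P.cons (P.cons (P.lf 0 1630054 0) P.nil) P.nil)))))) 2540473)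
 (EL.cons 2 (TM.mk (P.cons (P.cons (P.lf 529742761 0 0) (P.cons (P.lf 66469986 0 0) (P.cons (P.lf 0 10148245 0) (P.cons (P.lf 0 310027 0) (P.lf 25832 0 0))))) (P.cons (P.cons (P.lf 0 445018590 0) (P.cons (P.lf 0 55839138 0) (P.cons (P.lf 8525190 0 0) (P.cons (P.lf 260443 0 0) (P.lf 0 21701 0))))) (P.cons (P.cons (P.lf 0 120082021 0) (P.cons (P.lf 0 15067406 0) (P.cons (P.lf 2300402 0 0) (P.cons (P.lf 70275 0 0) P.nil)))) (P.cons (P.cons (P.lf 28780365 0 0) (P.cons (P.lf 3611241 0 0) (P.cons (P.lf 0 551342 0) P.nil))) (P.cons (P.cons (P.lf 7710558 0 0) (P.cons (P.lf 967488 0 0) P.nil)) (P.cons (P.cons (P.lf 0 856257 0) P.nil) P.nil)))))) 871181)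
 (EL.cons 6 (TM.mk (P.cons (P.cons (P.lf 1227023340 0 0) (P.cons (P.lf 153961941 0 0) (P.cons (P.lf 0 23506002 0) (P.cons (P.lf 0 718104 0) (P.lf 59841 0 0))))) (P.cons (P.cons (P.lf 236250045 0 0) (P.cons (P.lf 29643702 0 0) (P.cons (P.lf 0 4525824 0) (P.cons (P.lf 0 138261 0) (P.lf 11520 0 0))))) (P.cons (P.cons (P.lf 0 95502936 0) (P.cons (P.lf 0 11983323 0) (P.cons (P.lf 1829541 0 0) (P.cons (P.lf 55890 0 0) P.nil)))) (P.cons (P.cons (P.lf 0 21104655 0) (P.cons (P.lf 0 2648127 0) (P.cons (P.lf 404298 0 0) P.nil))) (P.cons (P.cons (P.lf 3462891 0 0) (P.cons (P.lf 434508 0 0) P.nil)) (P.cons (P.cons (P.lf 975120 0 0) P.nil) P.nil)))))) 543147)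
 EL.nil))))))
noncomputable def S198_256_364_438_2 : EL := (EL.cons 0 (TM.mk (P.cons (P.cons (P.lf 1716759804 0 0) (P.cons (P.lf 0 550188102 0) (P.cons (P.lf 11577331 0 0) (P.cons (P.lf 7906184 0 0) (P.cons (P.lf 0 382028 0) (P.cons (P.lf 0 27737 0) P.nil)))))) (P.cons (P.cons (P.lf 411048537 0 0) (P.cons (P.lf 0 385563101 0) (P.cons (P.lf 31354488 0 0) (P.cons (P.lf 8083846 0 0) (P.cons (P.lf 0 480714 0) P.nil))))) (P.cons (P.cons (P.lf 0 1745915752 0) (P.cons (P.lf 396053170 0 0) (P.cons (P.lf 14861465 0 0) (P.cons (P.lf 0 3152935 0) P.nil)))) (P.cons (P.cons (P.lf 35742522 0 0) (P.cons (P.lf 150065541 0 0) (P.cons (P.lf 0 7112475 0) P.nil))) (P.cons (P.cons (P.lf 481225579 0 0) (P.cons (P.lf 0 81707263 0) P.nil)) (P.cons (P.cons (P.lf 0 29395034 0) P.nil) P.nil)))))) 169332187)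
 (EL.cons 1 (TM.mk (P.cons (P.cons (P.lf 97188012 0 0) (P.cons (P.lf 100403611 0 0) (P.cons (P.lf 0 18144716 0) (P.cons (P.lf 0 3197202 0) (P.cons (P.lf 216647 0 0) (P.cons (P.lf 15723 0 0) P.nil)))))) (P.cons (P.cons (P.lf 1136324692 0 0) (P.cons (P.lf 0 315840745 0) (P.cons (P.lf 0 7562643 0) (P.cons (P.lf 2983723 0 0) (P.cons (P.lf 0 89069 0) P.nil))))) (P.cons (P.cons (P.lf 0 73372091 0) (P.cons (P.lf 0 135612726 0) (P.cons (P.lf 9657603 0 0) (P.cons (P.lf 2693307 0 0) P.nil)))) (P.cons (P.cons (P.lf 0 532524816 0) (P.cons (P.lf 107005475 0 0) (P.cons (P.lf 5828719 0 0) P.nil))) (P.cons (P.cons (P.lf 33237607 0 0) (P.cons (P.lf 38102434 0 0) P.nil)) (P.cons (P.cons (P.lf 103631466 0 0) P.nil) P.nil)))))) 84624364)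
 (EL.cons 5 (TM.mk (P.cons (P.cons (P.lf 726616322 0 0) (P.cons (P.lf 0 332842252 0) (P.cons (P.lf 19187818 0 0) (P.cons (P.lf 6116241 0 0) (P.cons (P.lf 0 342771 0) (P.cons (P.lf 0 24876 0) P.nil)))))) (P.cons (P.cons (P.lf 0 442140781 0) (P.cons (P.lf 93834855 0 0) (P.cons (P.lf 6593714 0 0) (P.cons (P.lf 0 410748 0) (P.cons (P.lf 0 13392 0) P.nil))))) (P.cons (P.cons (P.lf 104366207 0 0) (P.cons (P.lf 16869101 0 0) (P.cons (P.lf 0 2848991 0) (P.cons (P.lf 0 515350 0) P.nil)))) (P.cons (P.cons (P.lf 108061372 0 0) (P.cons (P.lf 0 40759485 0) (P.cons (P.lf 0 143326 0) P.nil))) (P.cons (P.cons (P.lf 0 92591320 0) (P.cons (P.lf 9628945 0 0) P.nil)) (P.cons (P.cons (P.lf 0 7014364 0) P.nil) P.nil)))))) 78461041)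
 (EL.cons 9 (TM.mk (P.cons (P.cons (P.lf 1179723340 0 0) (P.cons (P.lf 0 466292364 0) (P.cons (P.lf 20562534 0 0) (P.cons (P.lf 7877053 0 0) (P.cons (P.lf 0 422299 0) (P.cons (P.lf 0 30654 0) P.nil)))))) (P.cons (P.cons (P.lf 0 261167827 0) (P.cons (P.lf 0 38165505 0) (P.cons (P.lf 15654678 0 0) (P.cons (P.lf 2173668 0 0) (P.cons (P.lf 0 162618 0) P.nil))))) (P.cons (P.cons (P.lf 0 455650426 0) (P.cons (P.lf 139136461 0 0) (P.cons (P.lf 2148592 0 0) (P.cons (P.lf 0 1443862 0) P.nil)))) (P.cons (P.cons (P.lf 106561608 0 0) (P.cons (P.lf 11115129 0 0) (P.cons (P.lf 0 2357824 0) P.nil))) (P.cons (P.cons (P.lf 69274488 0 0) (P.cons (P.lf 0 17137509 0) P.nil)) (P.cons (P.cons (P.lf 0 15411100 0) P.nil) P.nil)))))) 19284835)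
 (EL.cons 2 (TM.mk (P.cons (P.cons (P.lf 453377070 0 0) (P.cons (P.lf 0 32712001 0) (P.cons (P.lf 0 24830499 0) (P.cons (P.lf 1380695 0 0) (P.cons (P.lf 236812 0 0) (P.cons (P.lf 0 11930 0) P.nil)))))) (P.cons (P.cons (P.lf 0 431050848 0) (P.cons (P.lf 3931785 0 0) (P.cons (P.lf 18712040 0 0) (P.cons (P.lf 0 813577 0) (P.cons (P.lf 0 160048 0) P.nil))))) (P.cons (P.cons (P.lf 0 150945750 0) (P.cons (P.lf 22836650 0 0) (P.cons (P.lf 10419480 0 0) (P.cons (P.lf 0 679134 0) P.nil)))) (P.cons (P.cons (P.lf 122369821 0 0) (P.cons (P.lf 10079797 0 0) (P.cons (P.lf 0 3294680 0) P.nil))) (P.cons (P.cons (P.lf 21019516 0 0) (P.cons (P.lf 0 2732287 0) P.nil)) (P.cons (P.cons (P.lf 0 13610851 0) P.nil) P.nil)))))) 12311318)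
 (EL.cons 6 (TM.mk (P.cons (P.cons (P.lf 1050140346 0 0) (P.cons (P.lf 0 75769590 0) (P.cons (P.lf 0 57513954 0) (P.cons (P.lf 3198060 0 0) (P.cons (P.lf 548526 0 0) (P.cons (P.lf 0 27642 0) P.nil)))))) (P.cons (P.cons (P.lf 85952802 0 0) (P.cons (P.lf 0 69132972 0) (P.cons (P.lf 0 16047168 0) (P.cons (P.lf 1417860 0 0) (P.cons (P.lf 195690 0 0) P.nil))))) (P.cons (P.cons (P.lf 0 313350222 0) (P.cons (P.lf 0 14705130 0) (P.cons (P.lf 10437846 0 0) (P.cons (P.lf 0 268770 0) P.nil)))) (P.cons (P.cons (P.lf 0 25032462 0) (P.cons (P.lf 10218504 0 0) (P.cons (P.lf 2886810 0 0) P.nil))) (P.cons (P.cons (P.lf 38595510 0 0) (P.cons (P.lf 3788712 0 0) P.nil)) (P.cons (P.cons (P.lf 4035870 0 0) P.nil) P.nil)))))) 9517818)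
 EL.nil))))))
noncomputable def S198_256_364_438_3 : EL := (EL.cons 0 (TM.mk (P.cons (P.lf 375392995 0 0) (P.cons (P.lf 0 727079837 0) (P.cons (P.lf 317250402 0 0) (P.cons (P.lf 44091209 0 0) (P.cons (P.lf 0 8367597 0) (P.cons (P.lf 0 1467036 0) P.nil)))))) 311496)
 (EL.cons 1 (TM.mk (P.cons (P.lf 869508750 0 0) (P.cons (P.lf 0 786249082 0) (P.cons (P.lf 0 120498519 0) (P.cons (P.lf 33042157 0 0) (P.cons (P.lf 5010903 0 0) (P.cons (P.lf 0 683975 0) P.nil)))))) 177172)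
 (EL.cons 5 (TM.mk (P.cons (P.lf 2014010580 0 0) (P.cons (P.lf 258517274 0 0) (P.cons (P.lf 0 112800140 0) (P.cons (P.lf 0 15676876 0) (P.cons (P.lf 2975142 0 0) (P.cons (P.lf 521612 0 0) P.nil)))))) 117178)
 EL.nil)))
noncomputable def S198_256_364_438_4 : EL := (EL.cons 0 (TM.mk (P.cons (P.cons (P.lf 160638887 0 0) (P.cons (P.lf 0 31746716 0) (P.cons (P.lf 0 1737050 0) (P.lf 193004 0 0)))) (P.cons (P.cons (P.lf 0 328914558 0) (P.cons (P.lf 55376135 0 0) (P.cons (P.lf 3029958 0 0) (P.lf 0 336661 0)))) (P.cons (P.cons (P.lf 138191561 0 0) (P.cons (P.lf 0 12519727 0) (P.cons (P.lf 0 685028 0) (P.lf 76113 0 0)))) (P.cons (P.cons (P.lf 69544095 0 0) (P.cons (P.lf 0 13134322 0) (P.cons (P.lf 0 718655 0) P.nil))) (P.cons (P.cons (P.lf 0 37969442 0) (P.cons (P.lf 930747 0 0) P.nil)) (P.cons (P.cons (P.lf 0 4703565 0) P.nil) P.nil)))))) 6297143)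
 (EL.cons 1 (TM.mk (P.cons (P.cons (P.lf 372081845 0 0) (P.cons (P.lf 0 73533733 0) (P.cons (P.lf 0 4023468 0) (P.lf 447050 0 0)))) (P.cons (P.cons (P.lf 0 377639056 0) (P.cons (P.lf 52334398 0 0) (P.cons (P.lf 2863526 0 0) (P.lf 0 318168 0)))) (P.cons (P.cons (P.lf 0 88456803 0) (P.cons (P.lf 28716240 0 0) (P.cons (P.lf 1571235 0 0) (P.lf 0 174579 0)))) (P.cons (P.cons (P.lf 95481877 0 0) (P.cons (P.lf 0 4742827 0) (P.cons (P.lf 0 259507 0) P.nil))) (P.cons (P.cons (P.lf 7568533 0 0) (P.cons (P.lf 0 3106134 0) P.nil)) (P.cons (P.cons (P.lf 0 8819660 0) P.nil) P.nil)))))) 3614173)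
 (EL.cons 5 (TM.mk (P.cons (P.cons (P.lf 861839258 0 0) (P.cons (P.lf 0 170323434 0) (P.cons (P.lf 0 9319412 0) (P.lf 1035488 0 0)))) (P.cons (P.cons (P.lf 15227972 0 0) (P.cons (P.lf 0 54656552 0) (P.cons (P.lf 0 2990584 0) (P.lf 332284 0 0)))) (P.cons (P.cons (P.lf 0 232230798 0) (P.cons (P.lf 18586802 0 0) (P.cons (P.lf 1016994 0 0) (P.lf 0 112998 0)))) (P.cons (P.cons (P.lf 0 3490214 0) (P.cons (P.lf 7793670 0 0) (P.cons (P.lf 426436 0 0) P.nil))) (P.cons (P.cons (P.lf 24591536 0 0) (P.cons (P.lf 0 843472 0) P.nil)) (P.cons (P.cons (P.lf 1129028 0 0) P.nil) P.nil)))))) 2915112)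
 EL.nil)))
noncomputable def S198_256_364_438_5 : EL := (EL.cons 0 (TM.mk (P.cons (P.cons (P.lf 68740899 0 0) (P.cons (P.lf 0 27170231 0) (P.cons (P.lf 1198149 0 0) (P.cons (P.lf 458984 0 0) (P.cons (P.lf 0 24605 0) (P.cons (P.lf 0 1785 0) P.nil)))))) (P.cons (P.cons (P.lf 0 148358696 0) (P.cons (P.lf 50400803 0 0) (P.cons (P.lf 0 1408461 0) (P.cons (P.lf 0 762328 0) (P.cons (P.lf 38183 0 0) P.nil))))) (P.cons (P.cons (P.lf 61018637 0 0) (P.cons (P.lf 0 10547416 0) (P.cons (P.lf 0 628976 0) (P.cons (P.lf 58447 0 0) P.nil)))) (P.cons (P.cons (P.lf 52845811 0 0) (P.cons (P.lf 0 20125599 0) (P.cons (P.lf 531748 0 0) P.nil))) (P.cons (P.cons (P.lf 0 33747338 0) (P.cons (P.lf 4943023 0 0) P.nil)) (P.cons (P.cons (P.lf 0 6516481 0) P.nil) P.nil)))))) 18887198)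
 (EL.cons 1 (TM.mk (P.cons (P.cons (P.lf 159221973 0 0) (P.cons (P.lf 0 62933390 0) (P.cons (P.lf 2775232 0 0) (P.cons (P.lf 1063128 0 0) (P.cons (P.lf 0 56994 0) (P.cons (P.lf 0 4136 0) P.nil)))))) (P.cons (P.cons (P.lf 0 179224351 0) (P.cons (P.lf 51756187 0 0) (P.cons (P.lf 0 396646 0) (P.cons (P.lf 0 667959 0) (P.cons (P.lf 29589 0 0) P.nil))))) (P.cons (P.cons (P.lf 0 51689019 0) (P.cons (P.lf 32157868 0 0) (P.cons (P.lf 0 2005138 0) (P.cons (P.lf 0 607479 0) P.nil)))) (P.cons (P.cons (P.lf 80926020 0 0) (P.cons (P.lf 0 17158008 0) (P.cons (P.lf 0 767782 0) P.nil))) (P.cons (P.cons (P.lf 4445193 0 0) (P.cons (P.lf 0 6830291 0) P.nil)) (P.cons (P.cons (P.lf 0 15192798 0) P.nil) P.nil)))))) 15722251)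
 (EL.cons 5 (TM.mk (P.cons (P.cons (P.lf 368799902 0 0) (P.cons (P.lf 0 145770260 0) (P.cons (P.lf 6428168 0 0) (P.cons (P.lf 2462488 0 0) (P.cons (P.lf 0 132016 0) (P.cons (P.lf 0 9582 0) P.nil)))))) (P.cons (P.cons (P.lf 0 34306182 0) (P.cons (P.lf 0 30642120 0) (P.cons (P.lf 5719012 0 0) (P.cons (P.lf 995604 0 0) (P.cons (P.lf 0 67782 0) P.nil))))) (P.cons (P.cons (P.lf 0 173578990 0) (P.cons (P.lf 50129012 0 0) (P.cons (P.lf 939832 0 0) (P.cons (P.lf 0 502068 0) P.nil)))) (P.cons (P.cons (P.lf 16730912 0 0) (P.cons (P.lf 10860810 0 0) (P.cons (P.lf 0 975006 0) P.nil))) (P.cons (P.cons (P.lf 35090548 0 0) (P.cons (P.lf 0 7470022 0) P.nil)) (P.cons (P.cons (P.lf 0 2820060 0) P.nil) P.nil)))))) 12399150)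
 EL.nil)))
noncomputable def S198_256_364_438_6 : EL := (EL.cons 12 (TM.mk (P.lf 8589934592 0 0) 0)
 (EL.cons 3 (TM.mk (P.cons (P.lf 0 897858742 0) (P.cons (P.lf 869508750 0 0) (P.cons (P.lf 41629830 0 0) (P.cons (P.lf 0 12412950 0) (P.cons (P.lf 0 1049171 0) (P.cons (P.lf 162840 0 0) P.nil)))))) 27209)
 (EL.cons 7 (TM.mk (P.cons (P.lf 0 2079676607 0) (P.cons (P.lf 0 133473065 0) (P.cons (P.lf 62522105 0 0) (P.cons (P.lf 4081356 0 0) (P.cons (P.lf 0 858201 0) (P.cons (P.lf 0 91532 0) P.nil)))))) 18219)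
 EL.nil)))
noncomputable def S198_256_364_438_7 : EL := (EL.cons 12 (TM.mk (P.cons (P.cons (P.lf 3675821240 0 0) (P.cons (P.lf 0 726444632 0) (P.cons (P.lf 0 39748128 0) (P.lf 4416456 0 0)))) (P.cons (P.cons (P.lf 0 406877704 0) (P.cons (P.lf 0 139869040 0) (P.cons (P.lf 0 7653064 0) (P.lf 850336 0 0)))) (P.cons (P.cons (P.lf 0 732384086 0) (P.cons (P.lf 56541376 0 0) (P.cons (P.lf 3093712 0 0) (P.lf 0 343744 0)))) (P.cons (P.cons (P.lf 84946300 0 0) (P.cons (P.lf 12494760 0 0) (P.cons (P.lf 683656 0 0) P.nil))) (P.cons (P.cons (P.lf 44365166 0 0) (P.cons (P.lf 0 2050160 0) P.nil)) (P.cons (P.cons (P.lf 0 2173406 0) P.nil) P.nil)))))) 3387272)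
 (EL.cons 3 (TM.mk (P.cons (P.cons (P.lf 0 1046863447 0) (P.cons (P.lf 0 151862544 0) (P.cons (P.lf 0 8309306 0) (P.lf 923254 0 0)))) (P.cons (P.cons (P.lf 0 1992548821 0) (P.cons (P.lf 117827978 0 0) (P.cons (P.lf 6447072 0 0) (P.lf 0 716340 0)))) (P.cons (P.cons (P.lf 401239517 0 0) (P.cons (P.lf 47177374 0 0) (P.cons (P.lf 2581352 0 0) (P.lf 0 286814 0)))) (P.cons (P.cons (P.lf 251141066 0 0) (P.cons (P.lf 0 9578486 0) (P.cons (P.lf 0 524096 0) P.nil))) (P.cons (P.cons (P.lf 0 14490105 0) (P.cons (P.lf 0 4087858 0) P.nil)) (P.cons (P.cons (P.lf 0 14962047 0) P.nil) P.nil)))))) 8856546)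
 (EL.cons 7 (TM.mk (P.cons (P.cons (P.lf 0 788219778 0) (P.cons (P.lf 210844032 0 0) (P.cons (P.lf 11536540 0 0) (P.lf 0 1281840 0)))) (P.cons (P.cons (P.lf 305864200 0 0) (P.cons (P.lf 0 18087065 0) (P.cons (P.lf 0 989649 0) (P.lf 109958 0 0)))) (P.cons (P.cons (P.lf 0 219510253 0) (P.cons (P.lf 2096476 0 0) (P.cons (P.lf 114710 0 0) (P.lf 0 12745 0)))) (P.cons (P.cons (P.lf 8943547 0 0) (P.cons (P.lf 6154422 0 0) (P.cons (P.lf 336744 0 0) P.nil))) (P.cons (P.cons (P.lf 29129689 0 0) (P.cons (P.lf 0 608655 0) P.nil)) (P.cons (P.cons (P.lf 0 155019 0) P.nil) P.nil)))))) 7380815)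
 (EL.cons 10 (TM.mk (P.cons (P.cons (P.lf 0 2534059914 0) (P.cons (P.lf 0 317963625 0) (P.cons (P.lf 48544818 0 0) (P.cons (P.lf 1483038 0 0) (P.lf 0 123585 0))))) (P.cons (P.cons (P.lf 0 325270515 0) (P.cons (P.lf 0 40813632 0) (P.cons (P.lf 6231186 0 0) (P.cons (P.lf 190362 0 0) (P.lf 0 15861 0))))) (P.cons (P.cons (P.lf 141926916 0 0) (P.cons (P.lf 17808417 0 0) (P.cons (P.lf 0 2718882 0) (P.cons (P.lf 0 83061 0) P.nil)))) (P.cons (P.cons (P.lf 19724892 0 0) (P.cons (P.lf 2475000 0 0) (P.cons (P.lf 0 377868 0) P.nil))) (P.cons (P.cons (P.lf 0 3743370 0) (P.cons (P.lf 0 469701 0) P.nil)) (P.cons (P.cons (P.lf 0 656298 0) P.nil) P.nil)))))) 357816)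
 EL.nil))))
noncomputable def S198_256_364_438_8 : EL := (EL.cons 12 (TM.mk (P.cons (P.cons (P.lf 1572964454 0 0) (P.cons (P.lf 0 621723152 0) (P.cons (P.lf 27416712 0 0) (P.cons (P.lf 10502738 0 0) (P.cons (P.lf 0 563066 0) (P.cons (P.lf 0 40872 0) P.nil)))))) (P.cons (P.cons (P.lf 0 348223770 0) (P.cons (P.lf 0 50887340 0) (P.cons (P.lf 20872904 0 0) (P.cons (P.lf 2898224 0 0) (P.cons (P.lf 0 216824 0) P.nil))))) (P.cons (P.cons (P.lf 0 607533902 0) (P.cons (P.lf 185515282 0 0) (P.cons (P.lf 2864790 0 0) (P.cons (P.lf 0 1925150 0) P.nil)))) (P.cons (P.cons (P.lf 142082144 0 0) (P.cons (P.lf 14820172 0 0) (P.cons (P.lf 0 3143766 0) P.nil))) (P.cons (P.cons (P.lf 92365984 0 0) (P.cons (P.lf 0 22850012 0) P.nil)) (P.cons (P.cons (P.lf 0 20548134 0) P.nil) P.nil)))))) 25713084)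
 (EL.cons 3 (TM.mk (P.cons (P.cons (P.lf 0 731538265 0) (P.cons (P.lf 0 17890938 0) (P.cons (P.lf 31128344 0 0) (P.cons (P.lf 3622324 0 0) (P.cons (P.lf 0 294271 0) (P.cons (P.lf 0 21361 0) P.nil)))))) (P.cons (P.cons (P.lf 0 1801757359 0) (P.cons (P.lf 543952052 0 0) (P.cons (P.lf 11033196 0 0) (P.cons (P.lf 0 5356602 0) (P.cons (P.lf 171660 0 0) P.nil))))) (P.cons (P.cons (P.lf 674795688 0 0) (P.cons (P.lf 65907387 0 0) (P.cons (P.lf 0 13663671 0) (P.cons (P.lf 0 2290550 0) P.nil)))) (P.cons (P.cons (P.lf 576302824 0 0) (P.cons (P.lf 0 138464941 0) (P.cons (P.lf 0 6084882 0) P.nil))) (P.cons (P.cons (P.lf 0 156929584 0) (P.cons (P.lf 0 20553839 0) P.nil)) (P.cons (P.cons (P.lf 0 79510382 0) P.nil) P.nil)))))) 82173836)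
 (EL.cons 7 (TM.mk (P.cons (P.cons (P.lf 0 293768554 0) (P.cons (P.lf 163244885 0 0) (P.cons (P.lf 0 11855974 0) (P.cons (P.lf 0 3267338 0) (P.cons (P.lf 190525 0 0) (P.cons (P.lf 13825 0 0) P.nil)))))) (P.cons (P.cons (P.lf 276576944 0 0) (P.cons (P.lf 0 83498810 0) (P.cons (P.lf 0 1693643 0) (P.cons (P.lf 822256 0 0) (P.cons (P.lf 0 26345 0) P.nil))))) (P.cons (P.cons (P.lf 0 246381142 0) (P.cons (P.lf 32993573 0 0) (P.cons (P.lf 2971853 0 0) (P.cons (P.lf 0 72919 0) P.nil)))) (P.cons (P.cons (P.lf 0 12550514 0) (P.cons (P.lf 26828713 0 0) (P.cons (P.lf 0 538033 0) P.nil))) (P.cons (P.cons (P.lf 88736511 0 0) (P.cons (P.lf 0 13173205 0) P.nil)) (P.cons (P.cons (P.lf 0 9503617 0) P.nil) P.nil)))))) 44934413)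
 (EL.cons 10 (TM.mk (P.cons (P.cons (P.lf 0 2168759526 0) (P.cons (P.lf 156480066 0 0) (P.cons (P.lf 118778358 0 0) (P.cons (P.lf 0 6604668 0) (P.cons (P.lf 0 1132824 0) (P.cons (P.lf 57096 0 0) P.nil)))))) (P.cons (P.cons (P.lf 0 38320146 0) (P.cons (P.lf 132731214 0 0) (P.cons (P.lf 25517598 0 0) (P.cons (P.lf 0 2504298 0) (P.cons (P.lf 0 331446 0) P.nil))))) (P.cons (P.cons (P.lf 584392908 0 0) (P.cons (P.lf 26554848 0 0) (P.cons (P.lf 0 19623180 0) (P.cons (P.lf 517236 0 0) P.nil)))) (P.cons (P.cons (P.lf 8782884 0 0) (P.cons (P.lf 0 18510198 0) (P.cons (P.lf 0 3702216 0) P.nil))) (P.cons (P.cons (P.lf 0 61882914 0) (P.cons (P.lf 0 5642274 0) P.nil)) (P.cons (P.cons (P.lf 0 2841114 0) P.nil) P.nil)))))) 13167582)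
 EL.nil))))
noncomputable def S198_256_364_438_9 : EL := (EL.cons 3 (TM.mk (P.cons (P.lf 0 897858742 0) (P.cons (P.lf 869508750 0 0) (P.cons (P.lf 41629830 0 0) (P.cons (P.lf 0 12412950 0) (P.cons (P.lf 0 1049171 0) (P.cons (P.lf 162840 0 0) P.nil)))))) 27209)
 (EL.cons 7 (TM.mk (P.cons (P.lf 0 2079676607 0) (P.cons (P.lf 0 133473065 0) (P.cons (P.lf 62522105 0 0) (P.cons (P.lf 4081356 0 0) (P.cons (P.lf 0 858201 0) (P.cons (P.lf 0 91532 0) P.nil)))))) 18219)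
 EL.nil))
noncomputable def S198_256_364_438_10 : EL := (EL.cons 3 (TM.mk (P.cons (P.cons (P.lf 0 384213430 0) (P.cons (P.lf 75931272 0 0) (P.cons (P.lf 4154653 0 0) (P.lf 0 461627 0)))) (P.cons (P.cons (P.lf 414610541 0 0) (P.cons (P.lf 0 58913989 0) (P.cons (P.lf 0 3223536 0) (P.lf 358170 0 0)))) (P.cons (P.cons (P.lf 53180561 0 0) (P.cons (P.lf 0 23588687 0) (P.cons (P.lf 0 1290676 0) (P.lf 143407 0 0)))) (P.cons (P.cons (P.lf 0 90297565 0) (P.cons (P.lf 4789243 0 0) (P.cons (P.lf 262048 0 0) P.nil))) (P.cons (P.cons (P.lf 550977 0 0) (P.cons (P.lf 2043929 0 0) P.nil)) (P.cons (P.cons (P.lf 6307395 0 0) P.nil) P.nil)))))) 2087729)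
 (EL.cons 7 (TM.mk (P.cons (P.cons (P.lf 0 889939191 0) (P.cons (P.lf 175876764 0 0) (P.cons (P.lf 9623269 0 0) (P.lf 0 1069251 0)))) (P.cons (P.cons (P.lf 41391574 0 0) (P.cons (P.lf 45150886 0 0) (P.cons (P.lf 2470473 0 0) (P.lf 0 274495 0)))) (P.cons (P.cons (P.lf 210391514 0 0) (P.cons (P.lf 0 16803140 0) (P.cons (P.lf 0 919399 0) (P.lf 102155 0 0)))) (P.cons (P.cons (P.lf 0 10400987 0) (P.cons (P.lf 0 5266815 0) (P.cons (P.lf 0 288177 0) P.nil))) (P.cons (P.cons (P.lf 0 17952248 0) (P.cons (P.lf 719868 0 0) P.nil)) (P.cons (P.cons (P.lf 108621 0 0) P.nil) P.nil)))))) 1715887)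
 EL.nil))
noncomputable def S198_256_364_438_11 : EL := (EL.cons 3 (TM.mk (P.cons (P.cons (P.lf 0 164413345 0) (P.cons (P.lf 64985310 0 0) (P.cons (P.lf 0 2865718 0) (P.cons (P.lf 0 1097792 0) (P.cons (P.lf 58853 0 0) (P.cons (P.lf 4271 0 0) P.nil)))))) (P.cons (P.cons (P.lf 195619895 0 0) (P.cons (P.lf 0 57614416 0) (P.cons (P.lf 593502 0 0) (P.cons (P.lf 760194 0 0) (P.cons (P.lf 0 34332 0) P.nil))))) (P.cons (P.cons (P.lf 35876670 0 0) (P.cons (P.lf 0 27555009 0) (P.cons (P.lf 1946271 0 0) (P.cons (P.lf 545494 0 0) P.nil)))) (P.cons (P.cons (P.lf 0 80308802 0) (P.cons (P.lf 17881361 0 0) (P.cons (P.lf 680124 0 0) P.nil))) (P.cons (P.cons (P.lf 2094392 0 0) (P.cons (P.lf 4937089 0 0) P.nil)) (P.cons (P.cons (P.lf 13136302 0 0) P.nil) P.nil)))))) 12128086)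
 (EL.cons 7 (TM.mk (P.cons (P.cons (P.lf 0 380824480 0) (P.cons (P.lf 150523043 0 0) (P.cons (P.lf 0 6637756 0) (P.cons (P.lf 0 2542778 0) (P.cons (P.lf 136321 0 0) (P.cons (P.lf 9895 0 0) P.nil)))))) (P.cons (P.cons (P.lf 59865932 0 0) (P.cons (P.lf 21980668 0 0) (P.cons (P.lf 0 5479469 0) (P.cons (P.lf 0 864872 0) (P.cons (P.lf 61243 0 0) P.nil))))) (P.cons (P.cons (P.lf 163947416 0 0) (P.cons (P.lf 0 48648931 0) (P.cons (P.lf 0 818359 0) (P.cons (P.lf 497501 0 0) P.nil)))) (P.cons (P.cons (P.lf 0 26746112 0) (P.cons (P.lf 0 7136435 0) (P.cons (P.lf 881561 0 0) P.nil))) (P.cons (P.cons (P.lf 0 29314653 0) (P.cons (P.lf 6690065 0 0) P.nil)) (P.cons (P.cons (P.lf 4303139 0 0) P.nil) P.nil)))))) 9164461)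
 EL.nil))
noncomputable def S198_256_364_438_12 : EL := (EL.cons 4 (TM.mk (P.cons (P.lf 897858742 0 0) (P.cons (P.lf 0 869508750 0) (P.cons (P.lf 0 41629830 0) (P.cons (P.lf 12412950 0 0) (P.cons (P.lf 1049171 0 0) (P.cons (P.lf 0 162840 0) P.nil)))))) 27209)
 (EL.cons 8 (TM.mk (P.cons (P.lf 2079676607 0 0) (P.cons (P.lf 133473065 0 0) (P.cons (P.lf 0 62522105 0) (P.cons (P.lf 0 4081356 0) (P.cons (P.lf 858201 0 0) (P.cons (P.lf 91532 0 0) P.nil)))))) 18219)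
 EL.nil))
noncomputable def S198_256_364_438_13 : EL := (EL.cons 4 (TM.mk (P.cons (P.cons (P.lf 384213430 0 0) (P.cons (P.lf 0 75931272 0) (P.cons (P.lf 0 4154653 0) (P.lf 461627 0 0)))) (P.cons (P.cons (P.lf 0 414610541 0) (P.cons (P.lf 58913989 0 0) (P.cons (P.lf 3223536 0 0) (P.lf 0 358170 0)))) (P.cons (P.cons (P.lf 0 53180561 0) (P.cons (P.lf 23588687 0 0) (P.cons (P.lf 1290676 0 0) (P.lf 0 143407 0)))) (P.cons (P.cons (P.lf 90297565 0 0) (P.cons (P.lf 0 4789243 0) (P.cons (P.lf 0 262048 0) P.nil))) (P.cons (P.cons (P.lf 0 550977 0) (P.cons (P.lf 0 2043929 0) P.nil)) (P.cons (P.cons (P.lf 0 6307395 0) P.nil) P.nil)))))) 2087729)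
 (EL.cons 8 (TM.mk (P.cons (P.cons (P.lf 889939191 0 0) (P.cons (P.lf 0 175876764 0) (P.cons (P.lf 0 9623269 0) (P.lf 1069251 0 0)))) (P.cons (P.cons (P.lf 0 41391574 0) (P.cons (P.lf 0 45150886 0) (P.cons (P.lf 0 2470473 0) (P.lf 274495 0 0)))) (P.cons (P.cons (P.lf 0 210391514 0) (P.cons (P.lf 16803140 0 0) (P.cons (P.lf 919399 0 0) (P.lf 0 102155 0)))) (P.cons (P.cons (P.lf 10400987 0 0) (P.cons (P.lf 5266815 0 0) (P.cons (P.lf 288177 0 0) P.nil))) (P.cons (P.cons (P.lf 17952248 0 0) (P.cons (P.lf 0 719868 0) P.nil)) (P.cons (P.cons (P.lf 0 108621 0) P.nil) P.nil)))))) 1715887)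
 EL.nil))
noncomputable def S198_256_364_438_14 : EL := (EL.cons 4 (TM.mk (P.cons (P.cons (P.lf 164413345 0 0) (P.cons (P.lf 0 64985310 0) (P.cons (P.lf 2865718 0 0) (P.cons (P.lf 1097792 0 0) (P.cons (P.lf 0 58853 0) (P.cons (P.lf 0 4271 0) P.nil)))))) (P.cons (P.cons (P.lf 0 195619895 0) (P.cons (P.lf 57614416 0 0) (P.cons (P.lf 0 593502 0) (P.cons (P.lf 0 760194 0) (P.cons (P.lf 34332 0 0) P.nil))))) (P.cons (P.cons (P.lf 0 35876670 0) (P.cons (P.lf 27555009 0 0) (P.cons (P.lf 0 1946271 0) (P.cons (P.lf 0 545494 0) P.nil)))) (P.cons (P.cons (P.lf 80308802 0 0) (P.cons (P.lf 0 17881361 0) (P.cons (P.lf 0 680124 0) P.nil))) (P.cons (P.cons (P.lf 0 2094392 0) (P.cons (P.lf 0 4937089 0) P.nil)) (P.cons (P.cons (P.lf 0 13136302 0) P.nil) P.nil)))))) 12128086)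
 (EL.cons 8 (TM.mk (P.cons (P.cons (P.lf 380824480 0 0) (P.cons (P.lf 0 150523043 0) (P.cons (P.lf 6637756 0 0) (P.cons (P.lf 2542778 0 0) (P.cons (P.lf 0 136321 0) (P.cons (P.lf 0 9895 0) P.nil)))))) (P.cons (P.cons (P.lf 0 59865932 0) (P.cons (P.lf 0 21980668 0) (P.cons (P.lf 5479469 0 0) (P.cons (P.lf 864872 0 0) (P.cons (P.lf 0 61243 0) P.nil))))) (P.cons (P.cons (P.lf 0 163947416 0) (P.cons (P.lf 48648931 0 0) (P.cons (P.lf 818359 0 0) (P.cons (P.lf 0 497501 0) P.nil)))) (P.cons (P.cons (P.lf 26746112 0 0) (P.cons (P.lf 7136435 0 0) (P.cons (P.lf 0 881561 0) P.nil))) (P.cons (P.cons (P.lf 29314653 0 0) (P.cons (P.lf 0 6690065 0) P.nil)) (P.cons (P.cons (P.lf 0 4303139 0) P.nil) P.nil)))))) 9164461)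
 EL.nil))
noncomputable def S198_256_364_438_15 : EL := (EL.cons 4 (TM.mk (P.cons (P.lf 0 200209597 0) (P.cons (P.lf 387775913 0 0) (P.cons (P.lf 0 169200214 0) (P.cons (P.lf 0 23515311 0) (P.cons (P.lf 4462718 0 0) (P.cons (P.lf 782419 0 0) P.nil)))))) 166134)
 (EL.cons 8 (TM.mk (P.cons (P.lf 0 463738000 0) (P.cons (P.lf 419332844 0 0) (P.cons (P.lf 64265877 0 0) (P.cons (P.lf 0 17622484 0) (P.cons (P.lf 0 2672482 0) (P.cons (P.lf 364787 0 0) P.nil)))))) 94488)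
 EL.nil))
noncomputable def S198_256_364_438_16 : EL := (EL.cons 4 (TM.mk (P.cons (P.cons (P.lf 0 85674073 0) (P.cons (P.lf 16931581 0 0) (P.cons (P.lf 926427 0 0) (P.lf 0 102935 0)))) (P.cons (P.cons (P.lf 175421098 0 0) (P.cons (P.lf 0 29533938 0) (P.cons (P.lf 0 1615978 0) (P.lf 179552 0 0)))) (P.cons (P.cons (P.lf 0 73702166 0) (P.cons (P.lf 6677188 0 0) (P.cons (P.lf 365348 0 0) (P.lf 0 40593 0)))) (P.cons (P.cons (P.lf 0 37090184 0) (P.cons (P.lf 7004971 0 0) (P.cons (P.lf 383282 0 0) P.nil))) (P.cons (P.cons (P.lf 20250369 0 0) (P.cons (P.lf 0 496398 0) P.nil)) (P.cons (P.cons (P.lf 2508568 0 0) P.nil) P.nil)))))) 3358485)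
 (EL.cons 8 (TM.mk (P.cons (P.cons (P.lf 0 198443651 0) (P.cons (P.lf 39217991 0 0) (P.cons (P.lf 2145850 0 0) (P.lf 0 238427 0)))) (P.cons (P.cons (P.lf 201407497 0 0) (P.cons (P.lf 0 27911679 0) (P.cons (P.lf 0 1527214 0) (P.lf 169690 0 0)))) (P.cons (P.cons (P.lf 47176962 0 0) (P.cons (P.lf 0 15315328 0) (P.cons (P.lf 0 837992 0) (P.lf 93109 0 0)))) (P.cons (P.cons (P.lf 0 50923668 0) (P.cons (P.lf 2529508 0 0) (P.cons (P.lf 138404 0 0) P.nil))) (P.cons (P.cons (P.lf 0 4036551 0) (P.cons (P.lf 1656605 0 0) P.nil)) (P.cons (P.cons (P.lf 4703819 0 0) P.nil) P.nil)))))) 1927549)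
 EL.nil))
noncomputable def S198_256_364_438_17 : EL := (EL.cons 4 (TM.mk (P.cons (P.cons (P.lf 0 36661813 0) (P.cons (P.lf 14490790 0 0) (P.cons (P.lf 0 639013 0) (P.cons (P.lf 0 244791 0) (P.cons (P.lf 13123 0 0) (P.cons (P.lf 952 0 0) P.nil)))))) (P.cons (P.cons (P.lf 79124638 0 0) (P.cons (P.lf 0 26880428 0) (P.cons (P.lf 751179 0 0) (P.cons (P.lf 406575 0 0) (P.cons (P.lf 0 20364 0) P.nil))))) (P.cons (P.cons (P.lf 0 32543273 0) (P.cons (P.lf 5625288 0 0) (P.cons (P.lf 335454 0 0) (P.cons (P.lf 0 31171 0) P.nil)))) (P.cons (P.cons (P.lf 0 28184432 0) (P.cons (P.lf 10733653 0 0) (P.cons (P.lf 0 283599 0) P.nil))) (P.cons (P.cons (P.lf 17998580 0 0) (P.cons (P.lf 0 2636279 0) P.nil)) (P.cons (P.cons (P.lf 3475456 0 0) P.nil) P.nil)))))) 10073182)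
 (EL.cons 8 (TM.mk (P.cons (P.cons (P.lf 0 84918386 0) (P.cons (P.lf 33564475 0 0) (P.cons (P.lf 0 1480124 0) (P.cons (P.lf 0 567002 0) (P.cons (P.lf 30397 0 0) (P.cons (P.lf 2206 0 0) P.nil)))))) (P.cons (P.cons (P.lf 95586321 0 0) (P.cons (P.lf 0 27603300 0) (P.cons (P.lf 211545 0 0) (P.cons (P.lf 356245 0 0) (P.cons (P.lf 0 15781 0) P.nil))))) (P.cons (P.cons (P.lf 27567477 0 0) (P.cons (P.lf 0 17150863 0) (P.cons (P.lf 1069407 0 0) (P.cons (P.lf 323989 0 0) P.nil)))) (P.cons (P.cons (P.lf 0 43160544 0) (P.cons (P.lf 9150938 0 0) (P.cons (P.lf 409484 0 0) P.nil))) (P.cons (P.cons (P.lf 0 2370770 0) (P.cons (P.lf 3642822 0 0) P.nil)) (P.cons (P.cons (P.lf 8102826 0 0) P.nil) P.nil)))))) 8385189)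
 EL.nil))
noncomputable def S198_256_364_438_18 : EL := (EL.cons 4 (TM.mk (P.cons (P.lf 44643862 0 0) (P.cons (P.lf 0 129702684 0) (P.cons (P.lf 119397478 0 0) (P.cons (P.lf 0 26667962 0) (P.cons (P.lf 0 8965736 0) (P.cons (P.lf 958581 0 0) P.nil)))))) 467642)
 (EL.cons 8 (TM.mk (P.cons (P.lf 103406910 0 0) (P.cons (P.lf 0 193647023 0) (P.cons (P.lf 71427862 0 0) (P.cons (P.lf 23572483 0 0) (P.cons (P.lf 0 3717003 0) (P.cons (P.lf 0 1166783 0) P.nil)))))) 289701)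
 EL.nil))
noncomputable def S198_256_364_438_19 : EL := (EL.cons 4 (TM.mk (P.cons (P.cons (P.lf 19104086 0 0) (P.cons (P.lf 0 3775499 0) (P.cons (P.lf 0 206580 0) (P.lf 22952 0 0)))) (P.cons (P.cons (P.lf 0 57617257 0) (P.cons (P.lf 10241931 0 0) (P.cons (P.lf 560397 0 0) (P.lf 0 62265 0)))) (P.cons (P.cons (P.lf 53430029 0 0) (P.cons (P.lf 0 7691565 0) (P.cons (P.lf 0 420851 0) (P.lf 46760 0 0)))) (P.cons (P.cons (P.lf 0 5567250 0) (P.cons (P.lf 0 477647 0) (P.cons (P.lf 0 26134 0) P.nil))) (P.cons (P.cons (P.lf 0 13805434 0) (P.cons (P.lf 1779046 0 0) P.nil)) (P.cons (P.cons (P.lf 3608151 0 0) P.nil) P.nil)))))) 3566998)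
 (EL.cons 8 (TM.mk (P.cons (P.cons (P.lf 44250082 0 0) (P.cons (P.lf 0 8745048 0) (P.cons (P.lf 0 478493 0) (P.lf 53165 0 0)))) (P.cons (P.cons (P.lf 0 87763859 0) (P.cons (P.lf 14692825 0 0) (P.cons (P.lf 803932 0 0) (P.lf 0 89325 0)))) (P.cons (P.cons (P.lf 30921438 0 0) (P.cons (P.lf 0 2206814 0) (P.cons (P.lf 0 120747 0) (P.lf 13416 0 0)))) (P.cons (P.cons (P.lf 24236955 0 0) (P.cons (P.lf 0 4280785 0) (P.cons (P.lf 0 234226 0) P.nil))) (P.cons (P.cons (P.lf 0 10178042 0) (P.cons (P.lf 94318 0 0) P.nil)) (P.cons (P.cons (P.lf 0 2652991 0) P.nil) P.nil)))))) 2627775)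
 EL.nil))
noncomputable def S198_256_364_438_20 : EL := (EL.cons 4 (TM.mk (P.cons (P.cons (P.lf 8175057 0 0) (P.cons (P.lf 0 3231237 0) (P.cons (P.lf 142490 0 0) (P.cons (P.lf 54585 0 0) (P.cons (P.lf 0 2925 0) (P.cons (P.lf 0 211 0) P.nil)))))) (P.cons (P.cons (P.lf 0 25560585 0) (P.cons (P.lf 9123160 0 0) (P.cons (P.lf 0 305493 0) (P.cons (P.lf 0 143521 0) (P.cons (P.lf 7374 0 0) P.nil))))) (P.cons (P.cons (P.lf 23964196 0 0) (P.cons (P.lf 0 6909229 0) (P.cons (P.lf 80805 0 0) (P.cons (P.lf 92217 0 0) P.nil)))) (P.cons (P.cons (P.lf 188251 0 0) (P.cons (P.lf 0 1501283 0) (P.cons (P.lf 145414 0 0) P.nil))) (P.cons (P.cons (P.lf 0 10670539 0) (P.cons (P.lf 3042978 0 0) P.nil)) (P.cons (P.cons (P.lf 2898552 0 0) P.nil) P.nil)))))) 7306097)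
 (EL.cons 8 (TM.mk (P.cons (P.cons (P.lf 18935579 0 0) (P.cons (P.lf 0 7484395 0) (P.cons (P.lf 330045 0 0) (P.cons (P.lf 126433 0 0) (P.cons (P.lf 0 6778 0) (P.cons (P.lf 0 491 0) P.nil)))))) (P.cons (P.cons (P.lf 0 39652063 0) (P.cons (P.lf 13403214 0 0) (P.cons (P.lf 0 366796 0) (P.cons (P.lf 0 201878 0) (P.cons (P.lf 10083 0 0) P.nil))))) (P.cons (P.cons (P.lf 13616259 0 0) (P.cons (P.lf 0 1789374 0) (P.cons (P.lf 0 208082 0) (P.cons (P.lf 0 1178 0) P.nil)))) (P.cons (P.cons (P.lf 16827276 0 0) (P.cons (P.lf 0 6133027 0) (P.cons (P.lf 146373 0 0) P.nil))) (P.cons (P.cons (P.lf 0 8779177 0) (P.cons (P.lf 1062828 0 0) P.nil)) (P.cons (P.cons (P.lf 0 2878326 0) P.nil) P.nil)))))) 6583280)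
 EL.nil))
noncomputable def S198_256_364_438_21 : EL := (EL.cons 4 (TM.mk (P.cons (P.cons (P.lf 662650017 0 0) (P.cons (P.lf 227793816 0 0) (P.cons (P.lf 12463959 0 0) (P.lf 0 1384881 0)))) (P.cons (P.cons (P.lf 2407159362 0 0) (P.cons (P.lf 0 176741967 0) (P.cons (P.lf 0 9670608 0) (P.lf 1074510 0 0)))) (P.cons (P.cons (P.lf 0 348058956 0) (P.cons (P.lf 0 70766061 0) (P.cons (P.lf 0 3872028 0) (P.lf 430221 0 0)))) (P.cons (P.cons (P.lf 0 341438631 0) (P.cons (P.lf 14367729 0 0) (P.cons (P.lf 786144 0 0) P.nil))) (P.cons (P.cons (P.lf 15041082 0 0) (P.cons (P.lf 6131787 0 0) P.nil)) (P.cons (P.cons (P.lf 21269442 0 0) P.nil) P.nil)))))) 6768798)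
 (EL.cons 8 (TM.mk (P.cons (P.cons (P.lf 0 101719413 0) (P.cons (P.lf 0 34967268 0) (P.cons (P.lf 0 1913271 0) (P.lf 212589 0 0)))) (P.cons (P.cons (P.lf 0 264472626 0) (P.cons (P.lf 63237951 0 0) (P.cons (P.lf 3460122 0 0) (P.lf 0 384453 0)))) (P.cons (P.cons (P.lf 429901767 0 0) (P.cons (P.lf 0 18899616 0) (P.cons (P.lf 0 1034109 0) (P.lf 114900 0 0)))) (P.cons (P.cons (P.lf 0 19344534 0) (P.cons (P.lf 0 11421237 0) (P.cons (P.lf 0 624921 0) P.nil))) (P.cons (P.cons (P.lf 0 47081937 0) (P.cons (P.lf 1328523 0 0) P.nil)) (P.cons (P.cons (P.lf 263640 0 0) P.nil) P.nil)))))) 5664909)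
 (EL.cons 11 (TM.mk (P.cons (P.cons (P.lf 2534059914 0 0) (P.cons (P.lf 317963625 0 0) (P.cons (P.lf 0 48544818 0) (P.cons (P.lf 0 1483038 0) (P.lf 123585 0 0))))) (P.cons (P.cons (P.lf 325270515 0 0) (P.cons (P.lf 40813632 0 0) (P.cons (P.lf 0 6231186 0) (P.cons (P.lf 0 190362 0) (P.lf 15861 0 0))))) (P.cons (P.cons (P.lf 0 141926916 0) (P.cons (P.lf 0 17808417 0) (P.cons (P.lf 2718882 0 0) (P.cons (P.lf 83061 0 0) P.nil)))) (P.cons (P.cons (P.lf 0 19724892 0) (P.cons (P.lf 0 2475000 0) (P.cons (P.lf 377868 0 0) P.nil))) (P.cons (P.cons (P.lf 3743370 0 0) (P.cons (P.lf 469701 0 0) P.nil)) (P.cons (P.cons (P.lf 656298 0 0) P.nil) P.nil)))))) 357816)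
 EL.nil)))
noncomputable def S198_256_364_438_22 : EL := (EL.cons 4 (TM.mk (P.cons (P.cons (P.lf 283562460 0 0) (P.cons (P.lf 41438124 0 0) (P.cons (P.lf 0 16997031 0) (P.cons (P.lf 0 2360058 0) (P.cons (P.lf 176562 0 0) (P.cons (P.lf 12816 0 0) P.nil)))))) (P.cons (P.cons (P.lf 998688627 0 0) (P.cons (P.lf 0 300783234 0) (P.cons (P.lf 0 5219847 0) (P.cons (P.lf 3058398 0 0) (P.cons (P.lf 0 102996 0) P.nil))))) (P.cons (P.cons (P.lf 0 319459509 0) (P.cons (P.lf 0 46731198 0) (P.cons (P.lf 7804971 0 0) (P.cons (P.lf 1418022 0 0) P.nil)))) (P.cons (P.cons (P.lf 0 328305813 0) (P.cons (P.lf 78173151 0 0) (P.cons (P.lf 3382503 0 0) P.nil))) (P.cons (P.cons (P.lf 79511988 0 0) (P.cons (P.lf 12745464 0 0) P.nil)) (P.cons (P.cons (P.lf 46323342 0 0) P.nil) P.nil)))))) 35022864)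
 (EL.cons 8 (TM.mk (P.cons (P.cons (P.lf 0 43527963 0) (P.cons (P.lf 0 6360921 0) (P.cons (P.lf 2609109 0 0) (P.cons (P.lf 362280 0 0) (P.cons (P.lf 0 27102 0) (P.cons (P.lf 0 1965 0) P.nil)))))) (P.cons (P.cons (P.lf 0 108355506 0) (P.cons (P.lf 52739739 0 0) (P.cons (P.lf 0 1892913 0) (P.cons (P.lf 0 843564 0) (P.cons (P.lf 43794 0 0) P.nil))))) (P.cons (P.cons (P.lf 205164279 0 0) (P.cons (P.lf 0 40821252 0) (P.cons (P.lf 0 1895106 0) (P.cons (P.lf 285210 0 0) P.nil)))) (P.cons (P.cons (P.lf 0 7097799 0) (P.cons (P.lf 0 16982574 0) (P.cons (P.lf 709797 0 0) P.nil))) (P.cons (P.cons (P.lf 0 59025582 0) (P.cons (P.lf 9931635 0 0) P.nil)) (P.cons (P.cons (P.lf 6903378 0 0) P.nil) P.nil)))))) 17884965)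
 (EL.cons 11 (TM.mk (P.cons (P.cons (P.lf 1084379763 0 0) (P.cons (P.lf 0 78240033 0) (P.cons (P.lf 0 59389179 0) (P.cons (P.lf 3302334 0 0) (P.cons (P.lf 566412 0 0) (P.cons (P.lf 0 28548 0) P.nil)))))) (P.cons (P.cons (P.lf 19160073 0 0) (P.cons (P.lf 0 66365607 0) (P.cons (P.lf 0 12758799 0) (P.cons (P.lf 1252149 0 0) (P.cons (P.lf 165723 0 0) P.nil))))) (P.cons (P.cons (P.lf 0 292196454 0) (P.cons (P.lf 0 13277424 0) (P.cons (P.lf 9811590 0 0) (P.cons (P.lf 0 258618 0) P.nil)))) (P.cons (P.cons (P.lf 0 4391442 0) (P.cons (P.lf 9255099 0 0) (P.cons (P.lf 1851108 0 0) P.nil))) (P.cons (P.cons (P.lf 30941457 0 0) (P.cons (P.lf 2821137 0 0) P.nil)) (P.cons (P.cons (P.lf 1420557 0 0) P.nil) P.nil)))))) 6583791)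
 EL.nil)))
noncomputable def S198_256_364_438_23 : EL := (EL.cons 4 (TM.mk (P.cons (P.cons (P.lf 0 147761430 0) (P.cons (P.lf 0 50794746 0) (P.cons (P.lf 0 2779281 0) (P.lf 308808 0 0)))) (P.cons (P.cons (P.lf 0 393666099 0) (P.cons (P.lf 88601814 0 0) (P.cons (P.lf 4847934 0 0) (P.lf 0 538656 0)))) (P.cons (P.cons (P.lf 604276833 0 0) (P.cons (P.lf 0 20031567 0) (P.cons (P.lf 0 1096047 0) (P.lf 121782 0 0)))) (P.cons (P.cons (P.lf 23818896 0 0) (P.cons (P.lf 0 21014916 0) (P.cons (P.lf 0 1149849 0) P.nil))) (P.cons (P.cons (P.lf 0 88277820 0) (P.cons (P.lf 1489197 0 0) P.nil)) (P.cons (P.cons (P.lf 0 4552257 0) P.nil) P.nil)))))) 11837700)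
 (EL.cons 8 (TM.mk (P.cons (P.cons (P.lf 22681965 0 0) (P.cons (P.lf 7797198 0 0) (P.cons (P.lf 426630 0 0) (P.lf 0 47403 0)))) (P.cons (P.cons (P.lf 37007811 0 0) (P.cons (P.lf 0 21652155 0) (P.cons (P.lf 0 1184718 0) (P.lf 131634 0 0)))) (P.cons (P.cons (P.lf 0 154025076 0) (P.cons (P.lf 17508729 0 0) (P.cons (P.lf 958005 0 0) (P.lf 0 106443 0)))) (P.cons (P.cons (P.lf 94727847 0 0) (P.cons (P.lf 0 772896 0) (P.cons (P.lf 0 42288 0) P.nil))) (P.cons (P.cons (P.lf 11607762 0 0) (P.cons (P.lf 0 3143835 0) P.nil)) (P.cons (P.cons (P.lf 0 11686386 0) P.nil) P.nil)))))) 4231920)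
 (EL.cons 11 (TM.mk (P.cons (P.cons (P.lf 0 565058946 0) (P.cons (P.lf 0 70901319 0) (P.cons (P.lf 10824795 0 0) (P.cons (P.lf 330696 0 0) (P.lf 0 27555 0))))) (P.cons (P.cons (P.lf 474686496 0 0) (P.cons (P.lf 59561748 0 0) (P.cons (P.lf 0 9093537 0) (P.cons (P.lf 0 277806 0) (P.lf 23148 0 0))))) (P.cons (P.cons (P.lf 128087490 0 0) (P.cons (P.lf 16071900 0 0) (P.cons (P.lf 0 2453763 0) (P.cons (P.lf 0 74961 0) P.nil)))) (P.cons (P.cons (P.lf 0 30699057 0) (P.cons (P.lf 0 3851991 0) (P.cons (P.lf 588099 0 0) P.nil))) (P.cons (P.cons (P.lf 0 8224596 0) (P.cons (P.lf 0 1031988 0) P.nil)) (P.cons (P.cons (P.lf 913341 0 0) P.nil) P.nil)))))) 929238)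
 EL.nil)))
noncomputable def S198_256_364_438_24 : EL := (EL.cons 4 (TM.mk (P.cons (P.cons (P.lf 0 63230352 0) (P.cons (P.lf 0 9240105 0) (P.cons (P.lf 3790092 0 0) (P.cons (P.lf 526257 0 0) (P.cons (P.lf 0 39369 0) (P.cons (P.lf 0 2856 0) P.nil)))))) (P.cons (P.cons (P.lf 0 161459364 0) (P.cons (P.lf 76018686 0 0) (P.cons (P.lf 0 2506470 0) (P.cons (P.lf 0 1191621 0) (P.cons (P.lf 61092 0 0) P.nil))))) (P.cons (P.cons (P.lf 289828248 0 0) (P.cons (P.lf 0 54103773 0) (P.cons (P.lf 0 3043323 0) (P.cons (P.lf 319845 0 0) P.nil)))) (P.cons (P.cons (P.lf 13673007 0 0) (P.cons (P.lf 0 30760356 0) (P.cons (P.lf 929622 0 0) P.nil))) (P.cons (P.cons (P.lf 0 95081460 0) (P.cons (P.lf 14472336 0 0) P.nil)) (P.cons (P.cons (P.lf 4182519 0 0) P.nil) P.nil)))))) 33368979)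
 (EL.cons 8 (TM.mk (P.cons (P.cons (P.lf 9706110 0 0) (P.cons (P.lf 1418394 0 0) (P.cons (P.lf 0 581793 0) (P.cons (P.lf 0 80781 0) (P.cons (P.lf 6042 0 0) (P.cons (P.lf 438 0 0) P.nil)))))) (P.cons (P.cons (P.lf 14762082 0 0) (P.cons (P.lf 0 13133811 0) (P.cons (P.lf 985515 0 0) (P.cons (P.lf 266334 0 0) (P.cons (P.lf 0 15618 0) P.nil))))) (P.cons (P.cons (P.lf 0 69597528 0) (P.cons (P.lf 20425662 0 0) (P.cons (P.lf 40791 0 0) (P.cons (P.lf 0 242016 0) P.nil)))) (P.cons (P.cons (P.lf 44900784 0 0) (P.cons (P.lf 0 4463388 0) (P.cons (P.lf 0 595125 0) P.nil))) (P.cons (P.cons (P.lf 14095671 0 0) (P.cons (P.lf 0 6464886 0) P.nil)) (P.cons (P.cons (P.lf 0 14965011 0) P.nil) P.nil)))))) 10221093)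
 (EL.cons 11 (TM.mk (P.cons (P.cons (P.lf 0 241801104 0) (P.cons (P.lf 17446401 0 0) (P.cons (P.lf 13242933 0 0) (P.cons (P.lf 0 736371 0) (P.cons (P.lf 0 126300 0) (P.cons (P.lf 6363 0 0) P.nil)))))) (P.cons (P.cons (P.lf 229893786 0 0) (P.cons (P.lf 0 2096952 0) (P.cons (P.lf 0 9979755 0) (P.cons (P.lf 433908 0 0) (P.cons (P.lf 85359 0 0) P.nil))))) (P.cons (P.cons (P.lf 80504400 0 0) (P.cons (P.lf 0 12179547 0) (P.cons (P.lf 0 5557056 0) (P.cons (P.lf 362205 0 0) P.nil)))) (P.cons (P.cons (P.lf 0 65263905 0) (P.cons (P.lf 0 5375892 0) (P.cons (P.lf 1757163 0 0) P.nil))) (P.cons (P.cons (P.lf 0 11210409 0) (P.cons (P.lf 1457220 0 0) P.nil)) (P.cons (P.cons (P.lf 7259121 0 0) P.nil) P.nil)))))) 6566025)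
 EL.nil)))
noncomputable def S198_256_364_438_25 : EL := (EL.cons 4 (TM.mk (P.cons (P.cons (P.lf 32948676 0 0) (P.cons (P.lf 11326497 0 0) (P.cons (P.lf 619740 0 0) (P.lf 0 68859 0)))) (P.cons (P.cons (P.lf 55873563 0 0) (P.cons (P.lf 0 30725793 0) (P.cons (P.lf 0 1681191 0) (P.lf 186798 0 0)))) (P.cons (P.cons (P.lf 0 221282898 0) (P.cons (P.lf 23074695 0 0) (P.cons (P.lf 1262553 0 0) (P.lf 0 140283 0)))) (P.cons (P.cons (P.lf 121564638 0 0) (P.cons (P.lf 1432944 0 0) (P.cons (P.lf 78402 0 0) P.nil))) (P.cons (P.cons (P.lf 32327889 0 0) (P.cons (P.lf 0 5337141 0) P.nil)) (P.cons (P.cons (P.lf 0 19568046 0) P.nil) P.nil)))))) 11586972)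
 (EL.cons 8 (TM.mk (P.cons (P.cons (P.lf 0 5057751 0) (P.cons (P.lf 0 1738662 0) (P.cons (P.lf 0 95130 0) (P.lf 10569 0 0)))) (P.cons (P.cons (P.lf 0 3354156 0) (P.cons (P.lf 6511884 0 0) (P.cons (P.lf 356304 0 0) (P.lf 0 39588 0)))) (P.cons (P.cons (P.lf 42571530 0 0) (P.cons (P.lf 0 8499249 0) (P.cons (P.lf 0 465042 0) (P.lf 51669 0 0)))) (P.cons (P.cons (P.lf 0 54071172 0) (P.cons (P.lf 3705366 0 0) (P.cons (P.lf 202740 0 0) P.nil))) (P.cons (P.cons (P.lf 16155180 0 0) (P.cons (P.lf 779865 0 0) P.nil)) (P.cons (P.cons (P.lf 6558012 0 0) P.nil) P.nil)))))) 5435001)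
 (EL.cons 11 (TM.mk (P.cons (P.cons (P.lf 126000024 0 0) (P.cons (P.lf 15809973 0 0) (P.cons (P.lf 0 2413773 0) (P.cons (P.lf 0 73740 0) (P.lf 6144 0 0))))) (P.cons (P.cons (P.lf 0 227869827 0) (P.cons (P.lf 0 28592187 0) (P.cons (P.lf 4365285 0 0) (P.cons (P.lf 133356 0 0) (P.lf 0 11112 0))))) (P.cons (P.cons (P.lf 68102349 0 0) (P.cons (P.lf 8545206 0 0) (P.cons (P.lf 0 1304631 0) (P.cons (P.lf 0 39855 0) P.nil)))) (P.cons (P.cons (P.lf 41154963 0 0) (P.cons (P.lf 5163957 0 0) (P.cons (P.lf 0 788400 0) P.nil))) (P.cons (P.cons (P.lf 0 4787178 0) (P.cons (P.lf 0 600675 0) P.nil)) (P.cons (P.cons (P.lf 0 2838519 0) P.nil) P.nil)))))) 1650312)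
 EL.nil)))
noncomputable def S198_256_364_438_26 : EL := (EL.cons 4 (TM.mk (P.cons (P.cons (P.lf 14099460 0 0) (P.cons (P.lf 2060409 0 0) (P.cons (P.lf 0 845136 0) (P.cons (P.lf 0 117348 0) (P.cons (P.lf 8778 0 0) (P.cons (P.lf 636 0 0) P.nil)))))) (P.cons (P.cons (P.lf 22348848 0 0) (P.cons (P.lf 0 18946428 0) (P.cons (P.lf 1377357 0 0) (P.cons (P.lf 379356 0 0) (P.cons (P.lf 0 22125 0) P.nil))))) (P.cons (P.cons (P.lf 0 100147581 0) (P.cons (P.lf 28384674 0 0) (P.cons (P.lf 176541 0 0) (P.cons (P.lf 0 323202 0) P.nil)))) (P.cons (P.cons (P.lf 58063644 0 0) (P.cons (P.lf 0 4009878 0) (P.cons (P.lf 0 902079 0) P.nil))) (P.cons (P.cons (P.lf 27665133 0 0) (P.cons (P.lf 0 10660977 0) P.nil)) (P.cons (P.cons (P.lf 0 22177593 0) P.nil) P.nil)))))) 23052165)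
 (EL.cons 8 (TM.mk (P.cons (P.cons (P.lf 0 2164323 0) (P.cons (P.lf 0 316281 0) (P.cons (P.lf 129729 0 0) (P.cons (P.lf 18012 0 0) (P.cons (P.lf 0 1347 0) (P.cons (P.lf 0 96 0) P.nil)))))) (P.cons (P.cons (P.lf 0 1195746 0) (P.cons (P.lf 3234945 0 0) (P.cons (P.lf 0 345390 0) (P.cons (P.lf 0 76833 0) (P.cons (P.lf 4785 0 0) P.nil))))) (P.cons (P.cons (P.lf 18807393 0 0) (P.cons (P.lf 0 7376142 0) (P.cons (P.lf 197706 0 0) (P.cons (P.lf 110643 0 0) P.nil)))) (P.cons (P.cons (P.lf 0 24918753 0) (P.cons (P.lf 5265924 0 0) (P.cons (P.lf 153495 0 0) P.nil))) (P.cons (P.cons (P.lf 5785362 0 0) (P.cons (P.lf 729027 0 0) P.nil)) (P.cons (P.cons (P.lf 7056192 0 0) P.nil) P.nil)))))) 9285915)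
 (EL.cons 11 (TM.mk (P.cons (P.cons (P.lf 53918169 0 0) (P.cons (P.lf 0 3890295 0) (P.cons (P.lf 0 2952981 0) (P.cons (P.lf 164199 0 0) (P.cons (P.lf 28161 0 0) (P.cons (P.lf 0 1419 0) P.nil)))))) (P.cons (P.cons (P.lf 0 103478709 0) (P.cons (P.lf 4235049 0 0) (P.cons (P.lf 5085084 0 0) (P.cons (P.lf 0 255771 0) (P.cons (P.lf 0 46308 0) P.nil))))) (P.cons (P.cons (P.lf 29193096 0 0) (P.cons (P.lf 2443413 0 0) (P.cons (P.lf 0 779013 0) (P.cons (P.lf 5319 0 0) P.nil)))) (P.cons (P.cons (P.lf 35059686 0 0) (P.cons (P.lf 0 1506825 0) (P.cons (P.lf 0 1735842 0) P.nil))) (P.cons (P.cons (P.lf 0 11407026 0) (P.cons (P.lf 0 1609839 0) P.nil)) (P.cons (P.cons (P.lf 0 5032122 0) P.nil) P.nil)))))) 6698763)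
 EL.nil)))
noncomputable def S198_256_364_438_27 : EL := (EL.cons 13 (TM.mk (P.lf 0 4294967296 0) 0)
 EL.nil)
noncomputable def S198_256_364_438_28 : EL := (EL.cons 13 (TM.mk (P.cons (P.cons (P.lf 0 1837910620 0) (P.cons (P.lf 363222316 0 0) (P.cons (P.lf 19874064 0 0) (P.lf 0 2208228 0)))) (P.cons (P.cons (P.lf 203438852 0 0) (P.cons (P.lf 69934520 0 0) (P.cons (P.lf 3826532 0 0) (P.lf 0 425168 0)))) (P.cons (P.cons (P.lf 366192043 0 0) (P.cons (P.lf 0 28270688 0) (P.cons (P.lf 0 1546856 0) (P.lf 171872 0 0)))) (P.cons (P.cons (P.lf 0 42473150 0) (P.cons (P.lf 0 6247380 0) (P.cons (P.lf 0 341828 0) P.nil))) (P.cons (P.cons (P.lf 0 22182583 0) (P.cons (P.lf 1025080 0 0) P.nil)) (P.cons (P.cons (P.lf 1086703 0 0) P.nil) P.nil)))))) 1693636)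
 EL.nil)
noncomputable def S198_256_364_438_29 : EL := (EL.cons 13 (TM.mk (P.cons (P.cons (P.lf 0 786482227 0) (P.cons (P.lf 310861576 0 0) (P.cons (P.lf 0 13708356 0) (P.cons (P.lf 0 5251369 0) (P.cons (P.lf 281533 0 0) (P.cons (P.lf 20436 0 0) P.nil)))))) (P.cons (P.cons (P.lf 174111885 0 0) (P.cons (P.lf 25443670 0 0) (P.cons (P.lf 0 10436452 0) (P.cons (P.lf 0 1449112 0) (P.cons (P.lf 108412 0 0) P.nil))))) (P.cons (P.cons (P.lf 303766951 0 0) (P.cons (P.lf 0 92757641 0) (P.cons (P.lf 0 1432395 0) (P.cons (P.lf 962575 0 0) P.nil)))) (P.cons (P.cons (P.lf 0 71041072 0) (P.cons (P.lf 0 7410086 0) (P.cons (P.lf 1571883 0 0) P.nil))) (P.cons (P.cons (P.lf 0 46182992 0) (P.cons (P.lf 11425006 0 0) P.nil)) (P.cons (P.cons (P.lf 10274067 0 0) P.nil) P.nil)))))) 12856542)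
 EL.nil)
noncomputable def S198_256_364_438_30 : EL := (EL.cons 13 (TM.mk (P.cons (P.lf 957715992 0 0) (P.cons (P.lf 0 927476000 0) (P.cons (P.lf 0 44405152 0) (P.cons (P.lf 13240480 0 0) (P.cons (P.lf 1119116 0 0) (P.cons (P.lf 0 173696 0) P.nil)))))) 29016)
 EL.nil)
noncomputable def S198_256_364_438_31 : EL := (EL.cons 13 (TM.mk (P.cons (P.cons (P.lf 409827659 0 0) (P.cons (P.lf 0 80993357 0) (P.cons (P.lf 0 4431630 0) (P.lf 492403 0 0)))) (P.cons (P.cons (P.lf 0 442251244 0) (P.cons (P.lf 62841589 0 0) (P.cons (P.lf 3438439 0 0) (P.lf 0 382049 0)))) (P.cons (P.cons (P.lf 0 56725932 0) (P.cons (P.lf 25161267 0 0) (P.cons (P.lf 1376722 0 0) (P.lf 0 152968 0)))) (P.cons (P.cons (P.lf 96317403 0 0) (P.cons (P.lf 0 5108526 0) (P.cons (P.lf 0 279518 0) P.nil))) (P.cons (P.cons (P.lf 0 587709 0) (P.cons (P.lf 0 2180191 0) P.nil)) (P.cons (P.cons (P.lf 0 6727888 0) P.nil) P.nil))))))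 2226891)
 EL.nil)
noncomputable def S198_256_364_438_32 : EL := (EL.cons 13 (TM.mk (P.cons (P.cons (P.lf 175374235 0 0) (P.cons (P.lf 0 69317664 0) (P.cons (P.lf 3056766 0 0) (P.cons (P.lf 1170979 0 0) (P.cons (P.lf 0 62777 0) (P.cons (P.lf 0 4556 0) P.nil)))))) (P.cons (P.cons (P.lf 0 208661222 0) (P.cons (P.lf 61455378 0 0) (P.cons (P.lf 0 633069 0) (P.cons (P.lf 0 810874 0) (P.cons (P.lf 36621 0 0) P.nil))))) (P.cons (P.cons (P.lf 0 38268448 0) (P.cons (P.lf 29392010 0 0) (P.cons (P.lf 0 2076023 0) (P.cons (P.lf 0 581861 0) P.nil)))) (P.cons (P.cons (P.lf 85662723 0 0) (P.cons (P.lf 0 19073452 0) (P.cons (P.lf 0 725466 0) P.nil))) (P.cons (P.cons (P.lf 0 2234019 0) (P.cons (P.lf 0 5266229 0) P.nil)) (P.cons (P.cons (P.lf 0 14012056 0) P.nil) P.nil)))))) 12936602)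
 EL.nil)
noncomputable def S198_256_364_438_33 : EL := (EL.cons 14 (TM.mk (P.lf 8589934592 0 0) 0)
 EL.nil)
noncomputable def S198_256_364_438_34 : EL := (EL.cons 14 (TM.mk (P.cons (P.cons (P.lf 3675821240 0 0) (P.cons (P.lf 0 726444632 0) (P.cons (P.lf 0 39748128 0) (P.lf 4416456 0 0)))) (P.cons (P.cons (P.lf 0 406877704 0) (P.cons (P.lf 0 139869040 0) (P.cons (P.lf 0 7653064 0) (P.lf 850336 0 0)))) (P.cons (P.cons (P.lf 0 732384086 0) (P.cons (P.lf 56541376 0 0) (P.cons (P.lf 3093712 0 0) (P.lf 0 343744 0)))) (P.cons (P.cons (P.lf 84946300 0 0) (P.cons (P.lf 12494760 0 0) (P.cons (P.lf 683656 0 0) P.nil))) (P.cons (P.cons (P.lf 44365166 0 0) (P.cons (P.lf 0 2050160 0) P.nil)) (P.cons (P.cons (P.lf 0 2173406 0) P.nil) P.nil)))))) 3387272)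
 EL.nil)
noncomputable def S198_256_364_438_35 : EL := (EL.cons 14 (TM.mk (P.cons (P.cons (P.lf 1572964454 0 0) (P.cons (P.lf 0 621723152 0) (P.cons (P.lf 27416712 0 0) (P.cons (P.lf 10502738 0 0) (P.cons (P.lf 0 563066 0) (P.cons (P.lf 0 40872 0) P.nil)))))) (P.cons (P.cons (P.lf 0 348223770 0) (P.cons (P.lf 0 50887340 0) (P.cons (P.lf 20872904 0 0) (P.cons (P.lf 2898224 0 0) (P.cons (P.lf 0 216824 0) P.nil))))) (P.cons (P.cons (P.lf 0 607533902 0) (P.cons (P.lf 185515282 0 0) (P.cons (P.lf 2864790 0 0) (P.cons (P.lf 0 1925150 0) P.nil)))) (P.cons (P.cons (P.lf 142082144 0 0) (P.cons (P.lf 14820172 0 0) (P.cons (P.lf 0 3143766 0) P.nil))) (P.cons (P.cons (P.lf 92365984 0 0) (P.cons (P.lf 0 22850012 0) P.nil)) (P.cons (P.cons (P.lf 0 20548134 0) P.nil) P.nil)))))) 25713084)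
 EL.nil)
noncomputable def S198_256_364_438_36 : EL := (EL.cons 14 (TM.mk (P.cons (P.lf 0 1915431984 0) (P.cons (P.lf 1854952000 0 0) (P.cons (P.lf 88810304 0 0) (P.cons (P.lf 0 26480960 0) (P.cons (P.lf 0 2238232 0) (P.cons (P.lf 347392 0 0) P.nil)))))) 58032)
 EL.nil)
noncomputable def S198_256_364_438_37 : EL := (EL.cons 14 (TM.mk (P.cons (P.cons (P.lf 0 819655318 0) (P.cons (P.lf 161986714 0 0) (P.cons (P.lf 8863260 0 0) (P.lf 0 984806 0)))) (P.cons (P.cons (P.lf 884502488 0 0) (P.cons (P.lf 0 125683178 0) (P.cons (P.lf 0 6876878 0) (P.lf 764098 0 0)))) (P.cons (P.cons (P.lf 113451864 0 0) (P.cons (P.lf 0 50322534 0) (P.cons (P.lf 0 2753444 0) (P.lf 305936 0 0)))) (P.cons (P.cons (P.lf 0 192634806 0) (P.cons (P.lf 10217052 0 0) (P.cons (P.lf 559036 0 0) P.nil))) (P.cons (P.cons (P.lf 1175418 0 0) (P.cons (P.lf 4360382 0 0) P.nil)) (P.cons (P.cons (P.lf 13455776 0 0) P.nil)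 P.nil)))))) 4453782)
 EL.nil)
noncomputable def S198_256_364_438_38 : EL := (EL.cons 14 (TM.mk (P.cons (P.cons (P.lf 0 350748470 0) (P.cons (P.lf 138635328 0 0) (P.cons (P.lf 0 6113532 0) (P.cons (P.lf 0 2341958 0) (P.cons (P.lf 125554 0 0) (P.cons (P.lf 9112 0 0) P.nil)))))) (P.cons (P.cons (P.lf 417322444 0 0) (P.cons (P.lf 0 122910756 0) (P.cons (P.lf 1266138 0 0) (P.cons (P.lf 1621748 0 0) (P.cons (P.lf 0 73242 0) P.nil))))) (P.cons (P.cons (P.lf 76536896 0 0) (P.cons (P.lf 0 58784020 0) (P.cons (P.lf 4152046 0 0) (P.cons (P.lf 1163722 0 0) P.nil)))) (P.cons (P.cons (P.lf 0 171325446 0) (P.cons (P.lf 38146904 0 0) (P.cons (P.lf 1450932 0 0) P.nil))) (P.cons (P.cons (P.lf 4468038 0 0) (P.cons (P.lf 10532458 0 0) P.nil)) (P.cons (P.cons (P.lf 28024112 0 0) P.nil) P.nil)))))) 25873204)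
 EL.nil)
noncomputable def S198_256_364_438_39 : EL := (EL.cons 14 (TM.mk (P.cons (P.lf 427113808 0 0) (P.cons (P.lf 0 827255282 0) (P.cons (P.lf 360960458 0 0) (P.cons (P.lf 50165998 0 0) (P.cons (P.lf 0 9520466 0) (P.cons (P.lf 0 1669162 0) P.nil)))))) 354406)
 EL.nil)
noncomputable def S198_256_364_438_40 : EL := (EL.cons 14 (TM.mk (P.cons (P.cons (P.lf 182771356 0 0) (P.cons (P.lf 0 36120708 0) (P.cons (P.lf 0 1976378 0) (P.lf 219596 0 0)))) (P.cons (P.cons (P.lf 0 374231676 0) (P.cons (P.lf 63005736 0 0) (P.cons (P.lf 3447420 0 0) (P.lf 0 383046 0)))) (P.cons (P.cons (P.lf 157231288 0 0) (P.cons (P.lf 0 14244668 0) (P.cons (P.lf 0 779410 0) (P.lf 86600 0 0)))) (P.cons (P.cons (P.lf 79125726 0 0) (P.cons (P.lf 0 14943940 0) (P.cons (P.lf 0 817670 0) P.nil))) (P.cons (P.cons (P.lf 0 43200788 0) (P.cons (P.lf 1058984 0 0) P.nil)) (P.cons (P.cons (P.lf 0 5351612 0) P.nil) P.nil))))))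 7164728)
 EL.nil)
noncomputable def S198_256_364_438_41 : EL := (EL.cons 14 (TM.mk (P.cons (P.cons (P.lf 78211868 0 0) (P.cons (P.lf 0 30913686 0) (P.cons (P.lf 1363228 0 0) (P.cons (P.lf 522222 0 0) (P.cons (P.lf 0 27996 0) (P.cons (P.lf 0 2032 0) P.nil)))))) (P.cons (P.cons (P.lf 0 168799228 0) (P.cons (P.lf 57344914 0 0) (P.cons (P.lf 0 1602516 0) (P.cons (P.lf 0 867360 0) (P.cons (P.lf 43444 0 0) P.nil))))) (P.cons (P.cons (P.lf 69425650 0 0) (P.cons (P.lf 0 12000616 0) (P.cons (P.lf 0 715636 0) (P.cons (P.lf 66500 0 0) P.nil)))) (P.cons (P.cons (P.lf 60126790 0 0) (P.cons (P.lf 0 22898460 0) (P.cons (P.lf 605012 0 0) P.nil))) (P.cons (P.cons (P.lf 0 38396972 0) (P.cons (P.lf 5624062 0 0) P.nil)) (P.cons (P.cons (P.lf 0 7414308 0) P.nil) P.nil)))))) 21489410)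
 EL.nil)
noncomputable def S198_256_364_438_42 : EL := (EL.cons 14 (TM.mk (P.cons (P.lf 0 95240240 0) (P.cons (P.lf 276699060 0 0) (P.cons (P.lf 0 254714620 0) (P.cons (P.lf 56891654 0 0) (P.cons (P.lf 19126904 0 0) (P.cons (P.lf 0 2044974 0) P.nil)))))) 997622)
 EL.nil)
noncomputable def S198_256_364_438_43 : EL := (EL.cons 14 (TM.mk (P.cons (P.cons (P.lf 0 40755384 0) (P.cons (P.lf 8054398 0 0) (P.cons (P.lf 440704 0 0) (P.lf 0 48966 0)))) (P.cons (P.cons (P.lf 122916816 0 0) (P.cons (P.lf 0 21849454 0) (P.cons (P.lf 0 1195514 0) (P.lf 132834 0 0)))) (P.cons (P.cons (P.lf 0 113984062 0) (P.cons (P.lf 16408672 0 0) (P.cons (P.lf 897816 0 0) (P.lf 0 99756 0)))) (P.cons (P.cons (P.lf 11876802 0 0) (P.cons (P.lf 1018982 0 0) (P.cons (P.lf 55754 0 0) P.nil))) (P.cons (P.cons (P.lf 29451594 0 0) (P.cons (P.lf 0 3795300 0) P.nil)) (P.cons (P.cons (P.lf 0 7697390 0) P.nil) P.nil))))))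 7609556)
 EL.nil)
noncomputable def S198_256_364_438_44 : EL := (EL.cons 14 (TM.mk (P.cons (P.cons (P.lf 0 17440122 0) (P.cons (P.lf 6893306 0 0) (P.cons (P.lf 0 303980 0) (P.cons (P.lf 0 116448 0) (P.cons (P.lf 6242 0 0) (P.cons (P.lf 452 0 0) P.nil)))))) (P.cons (P.cons (P.lf 54529250 0 0) (P.cons (P.lf 0 19462742 0) (P.cons (P.lf 651720 0 0) (P.cons (P.lf 306180 0 0) (P.cons (P.lf 0 15732 0) P.nil))))) (P.cons (P.cons (P.lf 0 51123620 0) (P.cons (P.lf 14739690 0 0) (P.cons (P.lf 0 172384 0) (P.cons (P.lf 0 196730 0) P.nil)))) (P.cons (P.cons (P.lf 0 401604 0) (P.cons (P.lf 3202738 0 0) (P.cons (P.lf 0 310218 0) P.nil))) (P.cons (P.cons (P.lf 22763818 0 0) (P.cons (P.lf 0 6491688 0) P.nil)) (P.cons (P.cons (P.lf 0 6183578 0) P.nil) P.nil)))))) 15586294)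
 EL.nil)
noncomputable def S198_256_364_438_45 : EL := (EL.cons 14 (TM.mk (P.cons (P.cons (P.lf 673105956 0 0) (P.cons (P.lf 0 399073440 0) (P.cons (P.lf 57032330 0 0) (P.cons (P.lf 5861362 0 0) (P.cons (P.lf 0 1575676 0) (P.cons (P.lf 0 4374 0) P.nil)))))) (P.cons (P.cons (P.lf 0 223518872 0) (P.cons (P.lf 11509840 0 0) (P.cons (P.lf 22270216 0 0) (P.cons (P.lf 0 702838 0) (P.cons (P.lf 0 690948 0) P.nil))))) (P.cons (P.cons (P.lf 0 377594920 0) (P.cons (P.lf 202207490 0 0) (P.cons (P.lf 0 17365010 0) (P.cons (P.lf 0 3705032 0) P.nil)))) (P.cons (P.cons (P.lf 134821936 0 0) (P.cons (P.lf 0 6382422 0) (P.cons (P.lf 0 8619264 0) P.nil))) (P.cons (P.cons (P.lf 89274656 0 0) (P.cons (P.lf 0 45017200 0) P.nil)) (P.cons (P.cons (P.lf 0 33486526 0) P.nil) P.nil)))))) 62117606)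
 EL.nil)
noncomputable def S198_256_364_438_46 : EL := (EL.cons 15 (TM.mk (P.lf 4294967296 0 0) 0)
 EL.nil)
noncomputable def S198_256_364_438_47 : EL := (EL.cons 15 (TM.mk (P.cons (P.cons (P.lf 1837910620 0 0) (P.cons (P.lf 0 363222316 0) (P.cons (P.lf 0 19874064 0) (P.lf 2208228 0 0)))) (P.cons (P.cons (P.lf 0 203438852 0) (P.cons (P.lf 0 69934520 0) (P.cons (P.lf 0 3826532 0) (P.lf 425168 0 0)))) (P.cons (P.cons (P.lf 0 366192043 0) (P.cons (P.lf 28270688 0 0) (P.cons (P.lf 1546856 0 0) (P.lf 0 171872 0)))) (P.cons (P.cons (P.lf 42473150 0 0) (P.cons (P.lf 6247380 0 0) (P.cons (P.lf 341828 0 0) P.nil))) (P.cons (P.cons (P.lf 22182583 0 0) (P.cons (P.lf 0 1025080 0) P.nil)) (P.cons (P.cons (P.lf 0 1086703 0) P.nil) P.nil)))))) 1693636)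
 EL.nil)
noncomputable def S198_256_364_438_48 : EL := (EL.cons 15 (TM.mk (P.cons (P.cons (P.lf 786482227 0 0) (P.cons (P.lf 0 310861576 0) (P.cons (P.lf 13708356 0 0) (P.cons (P.lf 5251369 0 0) (P.cons (P.lf 0 281533 0) (P.cons (P.lf 0 20436 0) P.nil)))))) (P.cons (P.cons (P.lf 0 174111885 0) (P.cons (P.lf 0 25443670 0) (P.cons (P.lf 10436452 0 0) (P.cons (P.lf 1449112 0 0) (P.cons (P.lf 0 108412 0) P.nil))))) (P.cons (P.cons (P.lf 0 303766951 0) (P.cons (P.lf 92757641 0 0) (P.cons (P.lf 1432395 0 0) (P.cons (P.lf 0 962575 0) P.nil)))) (P.cons (P.cons (P.lf 71041072 0 0) (P.cons (P.lf 7410086 0 0) (P.cons (P.lf 0 1571883 0) P.nil))) (P.cons (P.cons (P.lf 46182992 0 0) (P.cons (P.lf 0 11425006 0) P.nil)) (P.cons (P.cons (P.lf 0 10274067 0) P.nil) P.nil)))))) 12856542)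
 EL.nil)
noncomputable def S198_256_364_438 : SL := (SL.cons S198_256_364_438_0 (SL.cons S198_256_364_438_1 (SL.cons S198_256_364_438_2 (SL.cons S198_256_364_438_3 (SL.cons S198_256_364_438_4 (SL.cons S198_256_364_438_5 (SL.cons S198_256_364_438_6 (SL.cons S198_256_364_438_7 (SL.cons S198_256_364_438_8 (SL.cons S198_256_364_438_9 (SL.cons S198_256_364_438_10 (SL.cons S198_256_364_438_11 (SL.cons S198_256_364_438_12 (SL.cons S198_256_364_438_13 (SL.cons S198_256_364_438_14 (SL.cons S198_256_364_438_15 (SL.cons S198_256_364_438_16 (SL.cons S198_256_364_438_17 (SL.cons S198_256_364_438_18 (SL.cons S198_256_364_438_19 (SL.cons S198_256_364_438_20 (SL.cons S198_256_364_438_21 (SL.cons S198_256_364_438_22 (SL.cons S198_256_364_438_23 (SL.cons S198_256_364_438_24 (SL.cons S198_256_364_438_25 (SL.cons S198_256_364_438_26 (SL.cons S198_256_364_438_27 (SL.cons S198_256_364_438_28 (SL.cons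 S198_256_364_438_29 (SL.cons S198_256_364_438_30 (SL.cons S198_256_364_438_31 (SL.cons S198_256_364_438_32 (SL.cons S198_256_364_438_33 (SL.cons S198_256_364_438_34 (SL.cons S198_256_364_438_35 (SL.cons S198_256_364_438_36 (SL.cons S198_256_364_438_37 (SL.cons S198_256_364_438_38 (SL.cons S198_256_364_438_39 (SL.cons S198_256_364_438_40 (SL.cons S198_256_364_438_41 (SL.cons S198_256_364_438_42 (SL.cons S198_256_364_438_43 (SL.cons S198_256_364_438_44 (SL.cons S198_256_364_438_45 (SL.cons S198_256_364_438_46 (SL.cons S198_256_364_438_47 (SL.cons S198_256_364_438_48 SL.nil)))))))))))))))))))))))))))))))))))))))))))))))))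
noncomputable def S198_256_364_512_0 : EL := (EL.cons 0 (TM.mk (P.cons (P.lf 8080323868 0 0) (P.cons (P.lf 727079837 0 0) (P.cons (P.lf 0 317250402 0) (P.cons (P.lf 0 44091209 0) (P.cons (P.lf 8367597 0 0) (P.cons (P.lf 1467036 0 0) P.nil)))))) 311496)
 (EL.cons 1 (TM.mk (P.cons (P.lf 0 869508750 0) (P.cons (P.lf 786249082 0 0) (P.cons (P.lf 120498519 0 0) (P.cons (P.lf 0 33042157 0) (P.cons (P.lf 0 5010903 0) (P.cons (P.lf 683975 0 0) P.nil)))))) 177172)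
 (EL.cons 5 (TM.mk (P.cons (P.lf 4428440364 0 0) (P.cons (P.lf 0 258517274 0) (P.cons (P.lf 112800140 0 0) (P.cons (P.lf 15676876 0 0) (P.cons (P.lf 0 2975142 0) (P.cons (P.lf 0 521612 0) P.nil)))))) 117185)
 (EL.cons 9 (TM.mk (P.lf 6442450944 0 0) 2)
 EL.nil))))
noncomputable def S198_256_364_512_1 : EL := (EL.cons 0 (TM.mk (P.cons (P.cons (P.lf 3118089831 0 0) (P.cons (P.lf 0 1283476995 0) (P.cons (P.lf 0 85810287 0) (P.lf 28603431 0 0)))) (P.cons (P.cons (P.lf 289860495 0 0) (P.cons (P.lf 0 783887362 0) (P.cons (P.lf 0 52408870 0) (P.lf 17469617 0 0)))) (P.cons (P.cons (P.lf 0 1881271704 0) (P.cons (P.lf 230758656 0 0) (P.cons (P.lf 15427979 0 0) (P.lf 0 5142656 0)))) (P.cons (P.cons (P.lf 37404751 0 0) (P.cons (P.lf 141499017 0 0) (P.cons (P.lf 9460278 0 0) P.nil))) (P.cons (P.cons (P.lf 241141961 0 0) (P.cons (P.lf 0 12529349 0) P.nil)) (P.cons (P.cons (P.lf 5636709 0 0)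 P.nil) P.nil)))))) 47141686)
 (EL.cons 1 (TM.mk (P.cons (P.cons (P.lf 112627176 0 0) (P.cons (P.lf 385244619 0 0) (P.cons (P.lf 25756551 0 0) (P.lf 0 8585514 0)))) (P.cons (P.cons (P.lf 1413200429 0 0) (P.cons (P.lf 0 241234698 0) (P.cons (P.lf 0 16128389 0) (P.lf 5376128 0 0)))) (P.cons (P.cons (P.lf 36985961 0 0) (P.cons (P.lf 0 192497483 0) (P.cons (P.lf 0 12869921 0) (P.lf 4289968 0 0)))) (P.cons (P.cons (P.lf 0 382911832 0) (P.cons (P.lf 27458049 0 0) (P.cons (P.lf 1835775 0 0) P.nil))) (P.cons (P.cons (P.lf 0 7633090 0) (P.cons (P.lf 23379218 0 0) P.nil)) (P.cons (P.cons (P.lf 35918075 0 0) P.nil) P.nil)))))) 22422270)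
 (EL.cons 5 (TM.mk (P.cons (P.cons (P.lf 1368284042 0 0) (P.cons (P.lf 0 891228220 0) (P.cons (P.lf 0 59585446 0) (P.lf 19861814 0 0)))) (P.cons (P.cons (P.lf 0 573578564 0) (P.cons (P.lf 19254426 0 0) (P.cons (P.lf 1287300 0 0) (P.lf 0 429100 0)))) (P.cons (P.cons (P.lf 96767769 0 0) (P.cons (P.lf 22838366 0 0) (P.cons (P.lf 1526926 0 0) (P.lf 0 508976 0)))) (P.cons (P.cons (P.lf 70041983 0 0) (P.cons (P.lf 0 27132616 0) (P.cons (P.lf 0 1814014 0) P.nil))) (P.cons (P.cons (P.lf 0 49856353 0) (P.cons (P.lf 651758 0 0) P.nil)) (P.cons (P.cons (P.lf 0 4366148 0) P.nil) P.nil)))))) 21280119)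
 (EL.cons 9 (TM.mk (P.cons (P.cons (P.lf 2185533696 0 0) (P.cons (P.lf 0 1189037286 0) (P.cons (P.lf 0 79496262 0) (P.lf 26498754 0 0)))) (P.cons (P.cons (P.lf 0 415162104 0) (P.cons (P.lf 0 228936240 0) (P.cons (P.lf 0 15306138 0) (P.lf 5102046 0 0)))) (P.cons (P.cons (P.lf 0 504819550 0) (P.cons (P.lf 92546364 0 0) (P.cons (P.lf 6187428 0 0) (P.lf 0 2062476 0)))) (P.cons (P.cons (P.lf 73536573 0 0) (P.cons (P.lf 20451300 0 0) (P.cons (P.lf 1367322 0 0) P.nil))) (P.cons (P.cons (P.lf 31661464 0 0) (P.cons (P.lf 0 3355686 0) P.nil)) (P.cons (P.cons (P.lf 0 2084098 0) P.nil) P.nil)))))) 3853087)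
 (EL.cons 2 (TM.mk (P.cons (P.cons (P.lf 585780311 0 0) (P.cons (P.lf 90693500 0 0) (P.cons (P.lf 0 43693267 0) (P.cons (P.lf 0 1653480 0) (P.lf 413370 0 0))))) (P.cons (P.cons (P.lf 0 492093795 0) (P.cons (P.lf 0 76188476 0) (P.cons (P.lf 36705203 0 0) (P.cons (P.lf 1389031 0 0) (P.lf 0 347256 0))))) (P.cons (P.cons (P.lf 0 132784605 0) (P.cons (P.lf 0 20558390 0) (P.cons (P.lf 9904381 0 0) (P.cons (P.lf 374810 0 0) P.nil)))) (P.cons (P.cons (P.lf 31824826 0 0) (P.cons (P.lf 4927280 0 0) (P.cons (P.lf 0 2373806 0) P.nil))) (P.cons (P.cons (P.lf 8526200 0 0) (P.cons (P.lf 1320069 0 0) P.nil)) (P.cons (P.cons (P.lf 0 946833 0) P.nil) P.nil)))))) 1886083)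
 (EL.cons 6 (TM.mk (P.cons (P.cons (P.lf 1356821016 0 0) (P.cons (P.lf 210069966 0 0) (P.cons (P.lf 0 101205084 0) (P.cons (P.lf 0 3829896 0) (P.lf 957471 0 0))))) (P.cons (P.cons (P.lf 261241179 0 0) (P.cons (P.lf 40446693 0 0) (P.cons (P.lf 0 19485939 0) (P.cons (P.lf 0 737403 0) (P.lf 184350 0 0))))) (P.cons (P.cons (P.lf 0 105605481 0) (P.cons (P.lf 0 16350378 0) (P.cons (P.lf 7877094 0 0) (P.cons (P.lf 298092 0 0) P.nil)))) (P.cons (P.cons (P.lf 0 23337159 0) (P.cons (P.lf 0 3613176 0) (P.cons (P.lf 1740714 0 0) P.nil))) (P.cons (P.cons (P.lf 3829206 0 0) (P.cons (P.lf 592857 0 0) P.nil)) (P.cons (P.cons (P.lf 1078272 0 0) P.nil) P.nil)))))) 1212498)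
 EL.nil))))))
noncomputable def S198_256_364_512_2 : EL := (EL.cons 0 (TM.mk (P.cons (P.cons (P.lf 1185646998 0 0) (P.cons (P.lf 0 1009944850 0) (P.cons (P.lf 130998104 0 0) (P.cons (P.lf 49052781 0 0) (P.cons (P.lf 0 7961049 0) (P.cons (P.lf 0 591595 0) P.nil)))))) (P.cons (P.cons (P.lf 64410082 0 0) (P.cons (P.lf 0 601376629 0) (P.cons (P.lf 209607323 0 0) (P.cons (P.lf 46806158 0 0) (P.cons (P.lf 0 10017990 0) P.nil))))) (P.cons (P.cons (P.lf 0 1338087338 0) (P.cons (P.lf 833176165 0 0) (P.cons (P.lf 23274429 0 0) (P.cons (P.lf 0 22904422 0) P.nil)))) (P.cons (P.cons (P.lf 176256468 0 0) (P.cons (P.lf 257364654 0 0) (P.cons (P.lf 0 55775941 0) P.nil))) (P.cons (P.cons (P.lf 394797764 0 0) (P.cons (P.lf 0 181424393 0) P.nil)) (P.cons (P.cons (P.lf 0 56008451 0) P.nil) P.nil)))))) 315374358)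
 (EL.cons 1 (TM.mk (P.cons (P.cons (P.lf 176481213 0 0) (P.cons (P.lf 110925124 0 0) (P.cons (P.lf 0 105169040 0) (P.cons (P.lf 0 17526435 0) (P.cons (P.lf 4514871 0 0) (P.cons (P.lf 335495 0 0) P.nil)))))) (P.cons (P.cons (P.lf 815809835 0 0) (P.cons (P.lf 0 644802688 0) (P.cons (P.lf 3179224 0 0) (P.cons (P.lf 20559579 0 0) (P.cons (P.lf 0 1856284 0) P.nil))))) (P.cons (P.cons (P.lf 0 196801157 0) (P.cons (P.lf 0 217793369 0) (P.cons (P.lf 66777103 0 0) (P.cons (P.lf 15729871 0 0) P.nil)))) (P.cons (P.cons (P.lf 0 420343759 0) (P.cons (P.lf 233407506 0 0) (P.cons (P.lf 15480388 0 0) P.nil))) (P.cons (P.cons (P.lf 69711685 0 0) (P.cons (P.lf 68662954 0 0) P.nil)) (P.cons (P.cons (P.lf 87366977 0 0) P.nil) P.nil)))))) 169292679)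
 (EL.cons 5 (TM.mk (P.cons (P.cons (P.lf 418711856 0 0) (P.cons (P.lf 0 555210177 0) (P.cons (P.lf 141007241 0 0) (P.cons (P.lf 36191698 0 0) (P.cons (P.lf 0 7143226 0) (P.cons (P.lf 0 530811 0) P.nil)))))) (P.cons (P.cons (P.lf 0 342137273 0) (P.cons (P.lf 211463876 0 0) (P.cons (P.lf 21089018 0 0) (P.cons (P.lf 0 3783193 0) (P.cons (P.lf 0 278754 0) P.nil))))) (P.cons (P.cons (P.lf 117907894 0 0) (P.cons (P.lf 19550135 0 0) (P.cons (P.lf 0 16658308 0) (P.cons (P.lf 0 2837948 0) P.nil)))) (P.cons (P.cons (P.lf 67614310 0 0) (P.cons (P.lf 0 79401195 0) (P.cons (P.lf 4630822 0 0) P.nil))) (P.cons (P.cons (P.lf 0 81936942 0) (P.cons (P.lf 23332953 0 0) P.nil)) (P.cons (P.cons (P.lf 625843 0 0) P.nil) P.nil)))))) 149651105)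
 (EL.cons 9 (TM.mk (P.cons (P.cons (P.lf 741419310 0 0) (P.cons (P.lf 0 806736775 0) (P.cons (P.lf 165515601 0 0) (P.cons (P.lf 47322964 0 0) (P.cons (P.lf 0 8800432 0) (P.cons (P.lf 0 653959 0) P.nil)))))) (P.cons (P.cons (P.lf 0 281678749 0) (P.cons (P.lf 0 2081395 0) (P.cons (P.lf 84367108 0 0) (P.cons (P.lf 11346165 0 0) (P.cons (P.lf 0 3388854 0) P.nil))))) (P.cons (P.cons (P.lf 0 315755713 0) (P.cons (P.lf 278638711 0 0) (P.cons (P.lf 0 7396734 0) (P.cons (P.lf 0 9689764 0) P.nil)))) (P.cons (P.cons (P.lf 114955816 0 0) (P.cons (P.lf 10681966 0 0) (P.cons (P.lf 0 13412310 0) P.nil))) (P.cons (P.cons (P.lf 51560808 0 0) (P.cons (P.lf 0 36329536 0) P.nil)) (P.cons (P.cons (P.lf 0 17019052 0) P.nil) P.nil)))))) 40689851)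
 (EL.cons 2 (TM.mk (P.cons (P.cons (P.lf 397439611 0 0) (P.cons (P.lf 0 154692961 0) (P.cons (P.lf 0 77578672 0) (P.cons (P.lf 17587040 0 0) (P.cons (P.lf 2715176 0 0) (P.cons (P.lf 0 471211 0) P.nil)))))) (P.cons (P.cons (P.lf 0 409372571 0) (P.cons (P.lf 76631248 0 0) (P.cons (P.lf 61573381 0 0) (P.cons (P.lf 0 10958962 0) (P.cons (P.lf 0 1865424 0) P.nil))))) (P.cons (P.cons (P.lf 0 118470403 0) (P.cons (P.lf 82475268 0 0) (P.cons (P.lf 31186181 0 0) (P.cons (P.lf 0 8388770 0) P.nil)))) (P.cons (P.cons (P.lf 129198099 0 0) (P.cons (P.lf 7274030 0 0) (P.cons (P.lf 0 12458683 0) P.nil))) (P.cons (P.cons (P.lf 17016463 0 0) (P.cons (P.lf 0 10323911 0) P.nil)) (P.cons (P.cons (P.lf 0 14975865 0) P.nil) P.nil)))))) 30093614)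
 (EL.cons 6 (TM.mk (P.cons (P.cons (P.lf 920574504 0 0) (P.cons (P.lf 0 358309530 0) (P.cons (P.lf 0 179692584 0) (P.cons (P.lf 40736214 0 0) (P.cons (P.lf 6289062 0 0) (P.cons (P.lf 0 1091448 0) P.nil)))))) (P.cons (P.cons (P.lf 2375100 0 0) (P.cons (P.lf 0 192493968 0) (P.cons (P.lf 0 42931266 0) (P.cons (P.lf 16680552 0 0) (P.cons (P.lf 2173296 0 0) P.nil))))) (P.cons (P.cons (P.lf 0 317957106 0) (P.cons (P.lf 10168938 0 0) (P.cons (P.lf 36883590 0 0) (P.cons (P.lf 0 4241766 0) P.nil)))) (P.cons (P.cons (P.lf 0 12189288 0) (P.cons (P.lf 30352488 0 0) (P.cons (P.lf 8056176 0 0) P.nil))) (P.cons (P.cons (P.lf 41455956 0 0) (P.cons (P.lf 3874638 0 0) P.nil)) (P.cons (P.cons (P.lf 3174432 0 0) P.nil) P.nil)))))) 24408300)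
 EL.nil))))))
noncomputable def S198_256_364_512_3 : EL := (EL.cons 0 (TM.mk (P.cons (P.lf 375392995 0 0) (P.cons (P.lf 0 727079837 0) (P.cons (P.lf 317250402 0 0) (P.cons (P.lf 44091209 0 0) (P.cons (P.lf 0 8367597 0) (P.cons (P.lf 0 1467036 0) P.nil)))))) 311496)
 (EL.cons 1 (TM.mk (P.cons (P.lf 869508750 0 0) (P.cons (P.lf 0 786249082 0) (P.cons (P.lf 0 120498519 0) (P.cons (P.lf 33042157 0 0) (P.cons (P.lf 5010903 0 0) (P.cons (P.lf 0 683975 0) P.nil)))))) 177172)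
 (EL.cons 5 (TM.mk (P.cons (P.lf 2014010580 0 0) (P.cons (P.lf 258517274 0 0) (P.cons (P.lf 0 112800140 0) (P.cons (P.lf 0 15676876 0) (P.cons (P.lf 2975142 0 0) (P.cons (P.lf 521612 0 0) P.nil)))))) 117178)
 EL.nil)))
noncomputable def S198_256_364_512_4 : EL := (EL.cons 0 (TM.mk (P.cons (P.cons (P.lf 127348122 0 0) (P.cons (P.lf 0 69283610 0) (P.cons (P.lf 0 4632140 0) (P.lf 1544046 0 0)))) (P.cons (P.cons (P.lf 0 270845124 0) (P.cons (P.lf 120852137 0 0) (P.cons (P.lf 8079892 0 0) (P.lf 0 2693297 0)))) (P.cons (P.cons (P.lf 125062917 0 0) (P.cons (P.lf 0 27322889 0) (P.cons (P.lf 0 1826745 0) (P.lf 608915 0 0)))) (P.cons (P.cons (P.lf 55770964 0 0) (P.cons (P.lf 0 28664172 0) (P.cons (P.lf 0 1916418 0) P.nil))) (P.cons (P.cons (P.lf 0 36993425 0) (P.cons (P.lf 2031252 0 0) P.nil)) (P.cons (P.cons (P.lf 0 3486826 0) P.nil) P.nil)))))) 9629426)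
 (EL.cons 1 (TM.mk (P.cons (P.cons (P.lf 294971694 0 0) (P.cons (P.lf 0 160479035 0) (P.cons (P.lf 0 10729252 0) (P.lf 3576416 0 0)))) (P.cons (P.cons (P.lf 0 322759297 0) (P.cons (P.lf 114213894 0 0) (P.cons (P.lf 7636074 0 0) (P.lf 0 2545357 0)))) (P.cons (P.cons (P.lf 0 58343908 0) (P.cons (P.lf 62669938 0 0) (P.cons (P.lf 4189963 0 0) (P.lf 0 1396653 0)))) (P.cons (P.cons (P.lf 90508374 0 0) (P.cons (P.lf 0 10350686 0) (P.cons (P.lf 0 692021 0) P.nil))) (P.cons (P.cons (P.lf 4311326 0 0) (P.cons (P.lf 0 6778786 0) P.nil)) (P.cons (P.cons (P.lf 0 8664791 0) P.nil) P.nil)))))) 6013959)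
 (EL.cons 5 (TM.mk (P.cons (P.cons (P.lf 683231896 0 0) (P.cons (P.lf 0 371711588 0) (P.cons (P.lf 0 24851768 0) (P.lf 8283922 0 0)))) (P.cons (P.cons (P.lf 0 42086878 0) (P.cons (P.lf 0 119281728 0) (P.cons (P.lf 0 7974894 0) (P.lf 2658298 0 0)))) (P.cons (P.cons (P.lf 0 212739998 0) (P.cons (P.lf 40563592 0 0) (P.cons (P.lf 2711984 0 0) (P.lf 0 903994 0)))) (P.cons (P.cons (P.lf 4682512 0 0) (P.cons (P.lf 17008804 0 0) (P.cons (P.lf 1137166 0 0) P.nil))) (P.cons (P.cons (P.lf 23707038 0 0) (P.cons (P.lf 0 1840784 0) P.nil)) (P.cons (P.cons (P.lf 545062 0 0) P.nil) P.nil)))))) 4504892)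
 EL.nil)))
noncomputable def S198_256_364_512_5 : EL := (EL.cons 0 (TM.mk (P.cons (P.cons (P.lf 43201509 0 0) (P.cons (P.lf 0 47007471 0) (P.cons (P.lf 9644371 0 0) (P.cons (P.lf 2757445 0 0) (P.cons (P.lf 0 512789 0) (P.cons (P.lf 0 38104 0) P.nil)))))) (P.cons (P.cons (P.lf 0 100087880 0) (P.cons (P.lf 90925131 0 0) (P.cons (P.lf 0 13763742 0) (P.cons (P.lf 0 4679630 0) (P.cons (P.lf 795731 0 0) P.nil))))) (P.cons (P.cons (P.lf 49901199 0 0) (P.cons (P.lf 0 23255931 0) (P.cons (P.lf 0 1801861 0) (P.cons (P.lf 485247 0 0) P.nil)))) (P.cons (P.cons (P.lf 33537018 0 0) (P.cons (P.lf 0 36447769 0) (P.cons (P.lf 5340577 0 0) P.nil))) (P.cons (P.cons (P.lf 0 28408995 0) (P.cons (P.lf 11432360 0 0) P.nil)) (P.cons (P.cons (P.lf 0 3113820 0) P.nil) P.nil)))))) 33732264)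
 (EL.cons 1 (TM.mk (P.cons (P.cons (P.lf 100066042 0 0) (P.cons (P.lf 0 108881647 0) (P.cons (P.lf 22338898 0 0) (P.cons (P.lf 6386968 0 0) (P.cons (P.lf 0 1187752 0) (P.cons (P.lf 0 88260 0) P.nil)))))) (P.cons (P.cons (P.lf 0 128501154 0) (P.cons (P.lf 98174786 0 0) (P.cons (P.lf 0 8813190 0) (P.cons (P.lf 0 4244043 0) (P.cons (P.lf 616642 0 0) P.nil))))) (P.cons (P.cons (P.lf 0 22106900 0) (P.cons (P.lf 52949703 0 0) (P.cons (P.lf 0 14390401 0) (P.cons (P.lf 0 3577610 0) P.nil)))) (P.cons (P.cons (P.lf 63121580 0 0) (P.cons (P.lf 0 36662581 0) (P.cons (P.lf 0 1636575 0) P.nil))) (P.cons (P.cons (P.lf 0 2032661 0) (P.cons (P.lf 0 12056643 0) P.nil)) (P.cons (P.cons (P.lf 0 12656934 0) P.nil) P.nil)))))) 31285291)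
 (EL.cons 5 (TM.mk (P.cons (P.cons (P.lf 231779230 0 0) (P.cons (P.lf 0 252198490 0) (P.cons (P.lf 51742756 0 0) (P.cons (P.lf 14793894 0 0) (P.cons (P.lf 0 2751150 0) (P.cons (P.lf 0 204436 0) P.nil)))))) (P.cons (P.cons (P.lf 0 58306112 0) (P.cons (P.lf 0 33022732 0) (P.cons (P.lf 33016142 0 0) (P.cons (P.lf 5445922 0 0) (P.cons (P.lf 0 1412544 0) P.nil))))) (P.cons (P.cons (P.lf 0 122994552 0) (P.cons (P.lf 101148344 0 0) (P.cons (P.lf 0 1824914 0) (P.cons (P.lf 0 3402452 0) P.nil)))) (P.cons (P.cons (P.lf 26394330 0 0) (P.cons (P.lf 16519862 0 0) (P.cons (P.lf 0 6369640 0) P.nil))) (P.cons (P.cons (P.lf 27287910 0 0) (P.cons (P.lf 0 16174682 0) P.nil)) (P.cons (P.cons (P.lf 0 4565880 0) P.nil) P.nil)))))) 24139578)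
 EL.nil)))
noncomputable def S198_256_364_512_6 : EL := (EL.cons 12 (TM.mk (P.lf 8589934592 0 0) 0)
 (EL.cons 3 (TM.mk (P.cons (P.lf 0 897858742 0) (P.cons (P.lf 869508750 0 0) (P.cons (P.lf 41629830 0 0) (P.cons (P.lf 0 12412950 0) (P.cons (P.lf 0 1049171 0) (P.cons (P.lf 162840 0 0) P.nil)))))) 27209)
 (EL.cons 7 (TM.mk (P.cons (P.lf 0 2079676607 0) (P.cons (P.lf 0 133473065 0) (P.cons (P.lf 62522105 0 0) (P.cons (P.lf 4081356 0 0) (P.cons (P.lf 0 858201 0) (P.cons (P.lf 0 91532 0) P.nil)))))) 18219)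
 EL.nil)))
noncomputable def S198_256_364_512_7 : EL := (EL.cons 12 (TM.mk (P.cons (P.cons (P.lf 2914044928 0 0) (P.cons (P.lf 0 1585383048 0) (P.cons (P.lf 0 105995016 0) (P.lf 35331672 0 0)))) (P.cons (P.cons (P.lf 0 553549472 0) (P.cons (P.lf 0 305248320 0) (P.cons (P.lf 0 20408184 0) (P.lf 6802728 0 0)))) (P.cons (P.cons (P.lf 0 673092734 0) (P.cons (P.lf 123395152 0 0) (P.cons (P.lf 8249904 0 0) (P.lf 0 2749968 0)))) (P.cons (P.cons (P.lf 98048764 0 0) (P.cons (P.lf 27268400 0 0) (P.cons (P.lf 1823096 0 0) P.nil))) (P.cons (P.cons (P.lf 42215286 0 0) (P.cons (P.lf 0 4474248 0) P.nil)) (P.cons (P.cons (P.lf 0 2778798 0) P.nil) P.nil)))))) 5137424)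
 (EL.cons 3 (TM.mk (P.cons (P.cons (P.lf 0 1206112044 0) (P.cons (P.lf 0 331422784 0) (P.cons (P.lf 0 22158152 0) (P.lf 7386050 0 0)))) (P.cons (P.cons (P.lf 0 1868990104 0) (P.cons (P.lf 257146208 0 0) (P.cons (P.lf 17192196 0 0) (P.lf 0 5730730 0)))) (P.cons (P.cons (P.lf 450711433 0 0) (P.cons (P.lf 102959276 0 0) (P.cons (P.lf 6883612 0 0) (P.lf 0 2294536 0)))) (P.cons (P.cons (P.lf 241096716 0 0) (P.cons (P.lf 0 20903962 0) (P.cons (P.lf 0 1397588 0) P.nil))) (P.cons (P.cons (P.lf 0 18776783 0) (P.cons (P.lf 0 8921286 0) P.nil)) (P.cons (P.cons (P.lf 0 14615949 0) P.nil) P.nil)))))) 14749133)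
 (EL.cons 7 (TM.mk (P.cons (P.cons (P.lf 0 567121049 0) (P.cons (P.lf 460143188 0 0) (P.cons (P.lf 30764107 0 0) (P.lf 0 10254702 0)))) (P.cons (P.cons (P.lf 286897447 0 0) (P.cons (P.lf 0 39472967 0) (P.cons (P.lf 0 2639067 0) (P.lf 879689 0 0)))) (P.cons (P.cons (P.lf 0 217311811 0) (P.cons (P.lf 4575321 0 0) (P.cons (P.lf 305892 0 0) (P.lf 0 101965 0)))) (P.cons (P.cons (P.lf 15397301 0 0) (P.cons (P.lf 13431330 0 0) (P.cons (P.lf 897983 0 0) P.nil))) (P.cons (P.cons (P.lf 28491428 0 0) (P.cons (P.lf 0 1328324 0) P.nil)) (P.cons (P.cons (P.lf 0 654791 0) P.nil) P.nil)))))) 11513194)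
 (EL.cons 10 (TM.mk (P.cons (P.cons (P.lf 0 2802119268 0) (P.cons (P.lf 0 433838430 0) (P.cons (P.lf 209009673 0 0) (P.cons (P.lf 7909539 0 0) (P.lf 0 1977384 0))))) (P.cons (P.cons (P.lf 0 359678463 0) (P.cons (P.lf 0 55687257 0) (P.cons (P.lf 26828364 0 0) (P.cons (P.lf 1015263 0 0) (P.lf 0 253815 0))))) (P.cons (P.cons (P.lf 156940308 0 0) (P.cons (P.lf 24298299 0 0) (P.cons (P.lf 0 11706153 0) (P.cons (P.lf 0 442995 0) P.nil)))) (P.cons (P.cons (P.lf 21811440 0 0) (P.cons (P.lf 3376959 0 0) (P.cons (P.lf 0 1626912 0) P.nil))) (P.cons (P.cons (P.lf 0 4139352 0) (P.cons (P.lf 0 640875 0) P.nil)) (P.cons (P.cons (P.lf 0 725724 0) P.nil) P.nil)))))) 881241)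
 EL.nil))))
noncomputable def S198_256_364_512_8 : EL := (EL.cons 12 (TM.mk (P.cons (P.cons (P.lf 988559080 0 0) (P.cons (P.lf 0 1075649034 0) (P.cons (P.lf 220687468 0 0) (P.cons (P.lf 63097286 0 0) (P.cons (P.lf 0 11733910 0) (P.cons (P.lf 0 871946 0) P.nil)))))) (P.cons (P.cons (P.lf 0 375571666 0) (P.cons (P.lf 0 2775194 0) (P.cons (P.lf 112489478 0 0) (P.cons (P.lf 15128220 0 0) (P.cons (P.lf 0 4518472 0) P.nil))))) (P.cons (P.cons (P.lf 0 421007618 0) (P.cons (P.lf 371518282 0 0) (P.cons (P.lf 0 9862312 0) (P.cons (P.lf 0 12919686 0) P.nil)))) (P.cons (P.cons (P.lf 153274422 0 0) (P.cons (P.lf 14242622 0 0) (P.cons (P.lf 0 17883080 0) P.nil))) (P.cons (P.cons (P.lf 68747744 0 0) (P.cons (P.lf 0 48439382 0) P.nil)) (P.cons (P.cons (P.lf 0 22692070 0) P.nil) P.nil)))))) 54253106)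
 (EL.cons 3 (TM.mk (P.cons (P.cons (P.lf 0 714992981 0) (P.cons (P.lf 107911946 0 0) (P.cons (P.lf 160135598 0 0) (P.cons (P.lf 18042947 0 0) (P.cons (P.lf 0 6132406 0) (P.cons (P.lf 0 455695 0) P.nil)))))) (P.cons (P.cons (P.lf 0 1251945265 0) (P.cons (P.lf 1101386890 0 0) (P.cons (P.lf 0 15569698 0) (P.cons (P.lf 0 36473576 0) (P.cons (P.lf 3577315 0 0) P.nil))))) (P.cons (P.cons (P.lf 724917990 0 0) (P.cons (P.lf 64790263 0 0) (P.cons (P.lf 0 77921324 0) (P.cons (P.lf 0 12442390 0) P.nil)))) (P.cons (P.cons (P.lf 432743390 0 0) (P.cons (P.lf 0 295358026 0) (P.cons (P.lf 0 12643895 0) P.nil))) (P.cons (P.cons (P.lf 0 175679439 0) (P.cons (P.lf 0 33186710 0) P.nil)) (P.cons (P.cons (P.lf 0 63327884 0) P.nil) P.nil)))))) 177102156)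
 (EL.cons 7 (TM.mk (P.cons (P.cons (P.lf 0 145443395 0) (P.cons (P.lf 261115127 0 0) (P.cons (P.lf 0 81552175 0) (P.cons (P.lf 0 19058303 0) (P.cons (P.lf 3970466 0 0) (P.cons (P.lf 295043 0 0) P.nil)))))) (P.cons (P.cons (P.lf 192178599 0 0) (P.cons (P.lf 0 169067281 0) (P.cons (P.lf 2390008 0 0) (P.cons (P.lf 5598837 0 0) (P.cons (P.lf 0 549129 0) P.nil))))) (P.cons (P.cons (P.lf 0 210500050 0) (P.cons (P.lf 77344258 0 0) (P.cons (P.lf 10727261 0 0) (P.cons (P.lf 0 980734 0) P.nil)))) (P.cons (P.cons (P.lf 13377195 0 0) (P.cons (P.lf 49369098 0 0) (P.cons (P.lf 0 6253452 0) P.nil))) (P.cons (P.cons (P.lf 74745429 0 0) (P.cons (P.lf 0 29486475 0) P.nil)) (P.cons (P.cons (P.lf 0 13671692 0) P.nil) P.nil)))))) 85087999)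
 (EL.cons 10 (TM.mk (P.cons (P.cons (P.lf 0 1901178954 0) (P.cons (P.lf 739984146 0 0) (P.cons (P.lf 371102790 0 0) (P.cons (P.lf 0 84128808 0) (P.cons (P.lf 0 12988236 0) (P.cons (P.lf 2254080 0 0) P.nil)))))) (P.cons (P.cons (P.lf 117112050 0 0) (P.cons (P.lf 350048346 0 0) (P.cons (P.lf 64844784 0 0) (P.cons (P.lf 0 29049474 0) (P.cons (P.lf 0 3654738 0) P.nil))))) (P.cons (P.cons (P.lf 591975876 0 0) (P.cons (P.lf 0 21220578 0) (P.cons (P.lf 0 69177456 0) (P.cons (P.lf 8095332 0 0) P.nil)))) (P.cons (P.cons (P.lf 0 13029684 0) (P.cons (P.lf 0 49346466 0) (P.cons (P.lf 0 9520164 0) P.nil))) (P.cons (P.cons (P.lf 0 65967822 0) (P.cons (P.lf 0 5091258 0) P.nil)) (P.cons (P.cons (P.lf 0 1516698 0) P.nil) P.nil)))))) 35577582)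
 EL.nil))))
noncomputable def S198_256_364_512_9 : EL := (EL.cons 3 (TM.mk (P.cons (P.lf 0 897858742 0) (P.cons (P.lf 869508750 0 0) (P.cons (P.lf 41629830 0 0) (P.cons (P.lf 0 12412950 0) (P.cons (P.lf 0 1049171 0) (P.cons (P.lf 162840 0 0) P.nil)))))) 27209)
 (EL.cons 7 (TM.mk (P.cons (P.lf 0 2079676607 0) (P.cons (P.lf 0 133473065 0) (P.cons (P.lf 62522105 0 0) (P.cons (P.lf 4081356 0 0) (P.cons (P.lf 0 858201 0) (P.cons (P.lf 0 91532 0) P.nil)))))) 18219)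
 EL.nil))
noncomputable def S198_256_364_512_10 : EL := (EL.cons 3 (TM.mk (P.cons (P.cons (P.lf 0 304589130 0) (P.cons (P.lf 165711392 0 0) (P.cons (P.lf 11079076 0 0) (P.lf 0 3693025 0)))) (P.cons (P.cons (P.lf 352831184 0 0) (P.cons (P.lf 0 128573104 0) (P.cons (P.lf 0 8596098 0) (P.lf 2865365 0 0)))) (P.cons (P.cons (P.lf 28444603 0 0) (P.cons (P.lf 0 51479638 0) (P.cons (P.lf 0 3441806 0) (P.lf 1147268 0 0)))) (P.cons (P.cons (P.lf 0 85275390 0) (P.cons (P.lf 10451981 0 0) (P.cons (P.lf 698794 0 0) P.nil))) (P.cons (P.cons (P.lf 2694316 0 0) (P.cons (P.lf 4460643 0 0) P.nil)) (P.cons (P.cons (P.lf 6134346 0 0) P.nil) P.nil)))))) 3560875)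
 (EL.cons 7 (TM.mk (P.cons (P.cons (P.lf 0 705508406 0) (P.cons (P.lf 383831099 0 0) (P.cons (P.lf 25662052 0 0) (P.lf 0 8554017 0)))) (P.cons (P.cons (P.lf 88738438 0 0) (P.cons (P.lf 98536690 0 0) (P.cons (P.lf 6587931 0 0) (P.lf 0 2195977 0)))) (P.cons (P.cons (P.lf 192771128 0 0) (P.cons (P.lf 0 36670950 0) (P.cons (P.lf 0 2451732 0) (P.lf 817244 0 0)))) (P.cons (P.cons (P.lf 0 15923962 0) (P.cons (P.lf 0 11494227 0) (P.cons (P.lf 0 768475 0) P.nil))) (P.cons (P.cons (P.lf 0 17197366 0) (P.cons (P.lf 1571032 0 0) P.nil)) (P.cons (P.cons (P.lf 434905 0 0) P.nil) P.nil)))))) 2624469)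
 EL.nil))
noncomputable def S198_256_364_512_11 : EL := (EL.cons 3 (TM.mk (P.cons (P.cons (P.lf 0 103328657 0) (P.cons (P.lf 112431692 0 0) (P.cons (P.lf 0 23067250 0) (P.cons (P.lf 0 6595213 0) (P.cons (P.lf 1226480 0 0) (P.cons (P.lf 91139 0 0) P.nil)))))) (P.cons (P.cons (P.lf 139322489 0 0) (P.cons (P.lf 0 108591572 0) (P.cons (P.lf 10580990 0 0) (P.cons (P.lf 4805698 0 0) (P.cons (P.lf 0 715463 0) P.nil))))) (P.cons (P.cons (P.lf 10779600 0 0) (P.cons (P.lf 0 44326655 0) (P.cons (P.lf 13487032 0 0) (P.cons (P.lf 3187556 0 0) P.nil)))) (P.cons (P.cons (P.lf 0 61885744 0) (P.cons (P.lf 37658840 0 0) (P.cons (P.lf 1097173 0 0) P.nil))) (P.cons (P.cons (P.lf 6710877 0 0) (P.cons (P.lf 8440696 0 0) P.nil)) (P.cons (P.cons (P.lf 10746622 0 0) P.nil) P.nil)))))) 25078034)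
 (EL.cons 7 (TM.mk (P.cons (P.cons (P.lf 0 239336303 0) (P.cons (P.lf 260421323 0 0) (P.cons (P.lf 0 53429809 0) (P.cons (P.lf 0 15276245 0) (P.cons (P.lf 2840852 0 0) (P.cons (P.lf 211103 0 0) P.nil)))))) (P.cons (P.cons (P.lf 75567699 0 0) (P.cons (P.lf 17385659 0 0) (P.cons (P.lf 0 30663512 0) (P.cons (P.lf 0 4643061 0) (P.cons (P.lf 1276275 0 0) P.nil))))) (P.cons (P.cons (P.lf 114959570 0 0) (P.cons (P.lf 0 97732910 0) (P.cons (P.lf 2246111 0 0) (P.cons (P.lf 3352124 0 0) P.nil)))) (P.cons (P.cons (P.lf 0 32830857 0) (P.cons (P.lf 0 9752268 0) (P.cons (P.lf 5406462 0 0) P.nil))) (P.cons (P.cons (P.lf 0 22367409 0) (P.cons (P.lf 14316423 0 0) P.nil)) (P.cons (P.cons (P.lf 5368234 0 0) P.nil) P.nil)))))) 18363381)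
 EL.nil))
noncomputable def S198_256_364_512_12 : EL := (EL.cons 4 (TM.mk (P.cons (P.lf 897858742 0 0) (P.cons (P.lf 0 869508750 0) (P.cons (P.lf 0 41629830 0) (P.cons (P.lf 12412950 0 0) (P.cons (P.lf 1049171 0 0) (P.cons (P.lf 0 162840 0) P.nil)))))) 27209)
 (EL.cons 8 (TM.mk (P.cons (P.lf 2079676607 0 0) (P.cons (P.lf 133473065 0 0) (P.cons (P.lf 0 62522105 0) (P.cons (P.lf 0 4081356 0) (P.cons (P.lf 858201 0 0) (P.cons (P.lf 91532 0 0) P.nil)))))) 18219)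
 EL.nil))
noncomputable def S198_256_364_512_13 : EL := (EL.cons 4 (TM.mk (P.cons (P.cons (P.lf 304589130 0 0) (P.cons (P.lf 0 165711392 0) (P.cons (P.lf 0 11079076 0) (P.lf 3693025 0 0)))) (P.cons (P.cons (P.lf 0 352831184 0) (P.cons (P.lf 128573104 0 0) (P.cons (P.lf 8596098 0 0) (P.lf 0 2865365 0)))) (P.cons (P.cons (P.lf 0 28444603 0) (P.cons (P.lf 51479638 0 0) (P.cons (P.lf 3441806 0 0) (P.lf 0 1147268 0)))) (P.cons (P.cons (P.lf 85275390 0 0) (P.cons (P.lf 0 10451981 0) (P.cons (P.lf 0 698794 0) P.nil))) (P.cons (P.cons (P.lf 0 2694316 0) (P.cons (P.lf 0 4460643 0) P.nil)) (P.cons (P.cons (P.lf 0 6134346 0) P.nil) P.nil)))))) 3560875)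
 (EL.cons 8 (TM.mk (P.cons (P.cons (P.lf 705508406 0 0) (P.cons (P.lf 0 383831099 0) (P.cons (P.lf 0 25662052 0) (P.lf 8554017 0 0)))) (P.cons (P.cons (P.lf 0 88738438 0) (P.cons (P.lf 0 98536690 0) (P.cons (P.lf 0 6587931 0) (P.lf 2195977 0 0)))) (P.cons (P.cons (P.lf 0 192771128 0) (P.cons (P.lf 36670950 0 0) (P.cons (P.lf 2451732 0 0) (P.lf 0 817244 0)))) (P.cons (P.cons (P.lf 15923962 0 0) (P.cons (P.lf 11494227 0 0) (P.cons (P.lf 768475 0 0) P.nil))) (P.cons (P.cons (P.lf 17197366 0 0) (P.cons (P.lf 0 1571032 0) P.nil)) (P.cons (P.cons (P.lf 0 434905 0) P.nil) P.nil)))))) 2624469)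
 EL.nil))
noncomputable def S198_256_364_512_14 : EL := (EL.cons 4 (TM.mk (P.cons (P.cons (P.lf 103328657 0 0) (P.cons (P.lf 0 112431692 0) (P.cons (P.lf 23067250 0 0) (P.cons (P.lf 6595213 0 0) (P.cons (P.lf 0 1226480 0) (P.cons (P.lf 0 91139 0) P.nil)))))) (P.cons (P.cons (P.lf 0 139322489 0) (P.cons (P.lf 108591572 0 0) (P.cons (P.lf 0 10580990 0) (P.cons (P.lf 0 4805698 0) (P.cons (P.lf 715463 0 0) P.nil))))) (P.cons (P.cons (P.lf 0 10779600 0) (P.cons (P.lf 44326655 0 0) (P.cons (P.lf 0 13487032 0) (P.cons (P.lf 0 3187556 0) P.nil)))) (P.cons (P.cons (P.lf 61885744 0 0) (P.cons (P.lf 0 37658840 0) (P.cons (P.lf 0 1097173 0) P.nil))) (P.cons (P.cons (P.lf 0 6710877 0) (P.cons (P.lf 0 8440696 0) P.nil)) (P.cons (P.cons (P.lf 0 10746622 0) P.nil) P.nil)))))) 25078034)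
 (EL.cons 8 (TM.mk (P.cons (P.cons (P.lf 239336303 0 0) (P.cons (P.lf 0 260421323 0) (P.cons (P.lf 53429809 0 0) (P.cons (P.lf 15276245 0 0) (P.cons (P.lf 0 2840852 0) (P.cons (P.lf 0 211103 0) P.nil)))))) (P.cons (P.cons (P.lf 0 75567699 0) (P.cons (P.lf 0 17385659 0) (P.cons (P.lf 30663512 0 0) (P.cons (P.lf 4643061 0 0) (P.cons (P.lf 0 1276275 0) P.nil))))) (P.cons (P.cons (P.lf 0 114959570 0) (P.cons (P.lf 97732910 0 0) (P.cons (P.lf 0 2246111 0) (P.cons (P.lf 0 3352124 0) P.nil)))) (P.cons (P.cons (P.lf 32830857 0 0) (P.cons (P.lf 9752268 0 0) (P.cons (P.lf 0 5406462 0) P.nil))) (P.cons (P.cons (P.lf 22367409 0 0) (P.cons (P.lf 0 14316423 0) P.nil)) (P.cons (P.cons (P.lf 0 5368234 0) P.nil) P.nil)))))) 18363381)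
 EL.nil))
noncomputable def S198_256_364_512_15 : EL := (EL.cons 4 (TM.mk (P.cons (P.lf 0 200209597 0) (P.cons (P.lf 387775913 0 0) (P.cons (P.lf 0 169200214 0) (P.cons (P.lf 0 23515311 0) (P.cons (P.lf 4462718 0 0) (P.cons (P.lf 782419 0 0) P.nil)))))) 166134)
 (EL.cons 8 (TM.mk (P.cons (P.lf 0 463738000 0) (P.cons (P.lf 419332844 0 0) (P.cons (P.lf 64265877 0 0) (P.cons (P.lf 0 17622484 0) (P.cons (P.lf 0 2672482 0) (P.cons (P.lf 364787 0 0) P.nil)))))) 94488)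
 EL.nil))
noncomputable def S198_256_364_512_16 : EL := (EL.cons 4 (TM.mk (P.cons (P.cons (P.lf 0 67918998 0) (P.cons (P.lf 36951258 0 0) (P.cons (P.lf 2470474 0 0) (P.lf 0 823491 0)))) (P.cons (P.cons (P.lf 144450733 0 0) (P.cons (P.lf 0 64454473 0) (P.cons (P.lf 0 4309275 0) (P.lf 1436425 0 0)))) (P.cons (P.cons (P.lf 0 66700222 0) (P.cons (P.lf 14572207 0 0) (P.cons (P.lf 974264 0 0) (P.lf 0 324754 0)))) (P.cons (P.cons (P.lf 0 29744514 0) (P.cons (P.lf 15287558 0 0) (P.cons (P.lf 1022089 0 0) P.nil))) (P.cons (P.cons (P.lf 19729827 0 0) (P.cons (P.lf 0 1083334 0) P.nil)) (P.cons (P.cons (P.lf 1859640 0 0) P.nil) P.nil)))))) 5135703)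
 (EL.cons 8 (TM.mk (P.cons (P.cons (P.lf 0 157318237 0) (P.cons (P.lf 85588819 0 0) (P.cons (P.lf 5722268 0 0) (P.lf 0 1907422 0)))) (P.cons (P.cons (P.lf 172138292 0 0) (P.cons (P.lf 0 60914077 0) (P.cons (P.lf 0 4072573 0) (P.lf 1357524 0 0)))) (P.cons (P.cons (P.lf 31116751 0 0) (P.cons (P.lf 0 33423967 0) (P.cons (P.lf 0 2234647 0) (P.lf 744882 0 0)))) (P.cons (P.cons (P.lf 0 48271133 0) (P.cons (P.lf 5520366 0 0) (P.cons (P.lf 369078 0 0) P.nil))) (P.cons (P.cons (P.lf 0 2299374 0) (P.cons (P.lf 3615353 0 0) P.nil)) (P.cons (P.cons (P.lf 4621222 0 0) P.nil) P.nil)))))) 3207435)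
 EL.nil))
noncomputable def S198_256_364_512_17 : EL := (EL.cons 4 (TM.mk (P.cons (P.cons (P.lf 0 23040805 0) (P.cons (P.lf 25070651 0 0) (P.cons (P.lf 0 5143665 0) (P.cons (P.lf 0 1470637 0) (P.cons (P.lf 273487 0 0) (P.cons (P.lf 20322 0 0) P.nil)))))) (P.cons (P.cons (P.lf 53380202 0 0) (P.cons (P.lf 0 48493403 0) (P.cons (P.lf 7340662 0 0) (P.cons (P.lf 2495803 0 0) (P.cons (P.lf 0 424390 0) P.nil))))) (P.cons (P.cons (P.lf 0 26613973 0) (P.cons (P.lf 12403163 0 0) (P.cons (P.lf 960992 0 0) (P.cons (P.lf 0 258798 0) P.nil)))) (P.cons (P.cons (P.lf 0 17886409 0) (P.cons (P.lf 19438810 0 0) (P.cons (P.lf 0 2848307 0) P.nil))) (P.cons (P.cons (P.lf 15151464 0 0) (P.cons (P.lf 0 6097259 0) P.nil)) (P.cons (P.cons (P.lf 1660704 0 0) P.nil) P.nil)))))) 17990551)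
 (EL.cons 8 (TM.mk (P.cons (P.cons (P.lf 0 53368556 0) (P.cons (P.lf 58070212 0 0) (P.cons (P.lf 0 11914079 0) (P.cons (P.lf 0 3406383 0) (P.cons (P.lf 633468 0 0) (P.cons (P.lf 47072 0 0) P.nil)))))) (P.cons (P.cons (P.lf 68533949 0 0) (P.cons (P.lf 0 52359886 0) (P.cons (P.lf 4700368 0 0) (P.cons (P.lf 2263490 0 0) (P.cons (P.lf 0 328876 0) P.nil))))) (P.cons (P.cons (P.lf 11790347 0 0) (P.cons (P.lf 0 28239842 0) (P.cons (P.lf 7674881 0 0) (P.cons (P.lf 1908059 0 0) P.nil)))) (P.cons (P.cons (P.lf 0 33664843 0) (P.cons (P.lf 19553377 0 0) (P.cons (P.lf 872840 0 0) P.nil))) (P.cons (P.cons (P.lf 1084086 0 0) (P.cons (P.lf 6430210 0 0) P.nil)) (P.cons (P.cons (P.lf 6750365 0 0) P.nil) P.nil)))))) 16685477)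
 EL.nil))
noncomputable def S198_256_364_512_18 : EL := (EL.cons 4 (TM.mk (P.cons (P.lf 44643862 0 0) (P.cons (P.lf 0 129702684 0) (P.cons (P.lf 119397478 0 0) (P.cons (P.lf 0 26667962 0) (P.cons (P.lf 0 8965736 0) (P.cons (P.lf 958581 0 0) P.nil)))))) 467642)
 (EL.cons 8 (TM.mk (P.cons (P.lf 103406910 0 0) (P.cons (P.lf 0 193647023 0) (P.cons (P.lf 71427862 0 0) (P.cons (P.lf 23572483 0 0) (P.cons (P.lf 0 3717003 0) (P.cons (P.lf 0 1166783 0) P.nil)))))) 289701)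
 EL.nil))
noncomputable def S198_256_364_512_19 : EL := (EL.cons 4 (TM.mk (P.cons (P.cons (P.lf 15144960 0 0) (P.cons (P.lf 0 8239599 0) (P.cons (P.lf 0 550879 0) (P.lf 183626 0 0)))) (P.cons (P.cons (P.lf 0 46877193 0) (P.cons (P.lf 22351854 0 0) (P.cons (P.lf 1494392 0 0) (P.lf 0 498130 0)))) (P.cons (P.cons (P.lf 45364373 0 0) (P.cons (P.lf 0 16785968 0) (P.cons (P.lf 0 1122270 0) (P.lf 374089 0 0)))) (P.cons (P.cons (P.lf 0 6068130 0) (P.cons (P.lf 0 1042412 0) (P.cons (P.lf 0 69692 0) P.nil))) (P.cons (P.cons (P.lf 0 11939861 0) (P.cons (P.lf 3882569 0 0) P.nil)) (P.cons (P.cons (P.lf 3703592 0 0) P.nil) P.nil)))))) 5153048)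
 (EL.cons 8 (TM.mk (P.cons (P.cons (P.lf 35079705 0 0) (P.cons (P.lf 0 19085076 0) (P.cons (P.lf 0 1275983 0) (P.lf 425327 0 0)))) (P.cons (P.cons (P.lf 0 72356426 0) (P.cons (P.lf 32065426 0 0) (P.cons (P.lf 2143819 0 0) (P.lf 0 714606 0)))) (P.cons (P.cons (P.lf 28607291 0 0) (P.cons (P.lf 0 4816122 0) (P.cons (P.lf 0 321994 0) (P.lf 107331 0 0)))) (P.cons (P.cons (P.lf 19747966 0 0) (P.cons (P.lf 0 9342330 0) (P.cons (P.lf 0 624606 0) P.nil))) (P.cons (P.cons (P.lf 0 10079136 0) (P.cons (P.lf 205839 0 0) P.nil)) (P.cons (P.cons (P.lf 0 2173215 0) P.nil) P.nil)))))) 3850665)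
 EL.nil))
noncomputable def S198_256_364_512_20 : EL := (EL.cons 4 (TM.mk (P.cons (P.cons (P.lf 5137768 0 0) (P.cons (P.lf 0 5590395 0) (P.cons (P.lf 1146962 0 0) (P.cons (P.lf 327930 0 0) (P.cons (P.lf 0 60983 0) (P.cons (P.lf 0 4530 0) P.nil)))))) (P.cons (P.cons (P.lf 0 16878560 0) (P.cons (P.lf 16227209 0 0) (P.cons (P.lf 0 2747610 0) (P.cons (P.lf 0 874104 0) (P.cons (P.lf 153690 0 0) P.nil))))) (P.cons (P.cons (P.lf 17223495 0 0) (P.cons (P.lf 0 12978424 0) (P.cons (P.lf 1317710 0 0) (P.cons (P.lf 581459 0 0) P.nil)))) (P.cons (P.cons (P.lf 0 1135815 0) (P.cons (P.lf 0 2234831 0) (P.cons (P.lf 934404 0 0) P.nil))) (P.cons (P.cons (P.lf 0 7674750 0) (P.cons (P.lf 5828508 0 0) P.nil)) (P.cons (P.cons (P.lf 2783846 0 0) P.nil) P.nil)))))) 11941318)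
 (EL.cons 8 (TM.mk (P.cons (P.cons (P.lf 11900420 0 0) (P.cons (P.lf 0 12948822 0) (P.cons (P.lf 2656668 0 0) (P.cons (P.lf 759574 0 0) (P.cons (P.lf 0 141254 0) (P.cons (P.lf 0 10496 0) P.nil)))))) (P.cons (P.cons (P.lf 0 26806749 0) (P.cons (P.lf 24215464 0 0) (P.cons (P.lf 0 3620898 0) (P.cons (P.lf 0 1240316 0) (P.cons (P.lf 210129 0 0) P.nil))))) (P.cons (P.cons (P.lf 11618703 0 0) (P.cons (P.lf 0 4409386 0) (P.cons (P.lf 0 819545 0) (P.cons (P.lf 28100 0 0) P.nil)))) (P.cons (P.cons (P.lf 10925929 0 0) (P.cons (P.lf 0 11178730 0) (P.cons (P.lf 1548045 0 0) P.nil))) (P.cons (P.cons (P.lf 0 7586955 0) (P.cons (P.lf 2642921 0 0) P.nil)) (P.cons (P.cons (P.lf 0 1675551 0) P.nil) P.nil)))))) 11468617)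
 EL.nil))
noncomputable def S198_256_364_512_21 : EL := (EL.cons 4 (TM.mk (P.cons (P.cons (P.lf 901522914 0 0) (P.cons (P.lf 497134176 0 0) (P.cons (P.lf 33237228 0 0) (P.lf 0 11079075 0)))) (P.cons (P.cons (P.lf 2221821288 0 0) (P.cons (P.lf 0 385719312 0) (P.cons (P.lf 0 25788294 0) (P.lf 8596095 0 0)))) (P.cons (P.cons (P.lf 0 422266830 0) (P.cons (P.lf 0 154438914 0) (P.cons (P.lf 0 10325418 0) (P.lf 3441804 0 0)))) (P.cons (P.cons (P.lf 0 326372106 0) (P.cons (P.lf 31355943 0 0) (P.cons (P.lf 2096382 0 0) P.nil))) (P.cons (P.cons (P.lf 21471099 0 0) (P.cons (P.lf 13381929 0 0) P.nil)) (P.cons (P.cons (P.lf 20750295 0 0) P.nil) P.nil)))))) 11188239)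
 (EL.cons 8 (TM.mk (P.cons (P.cons (P.lf 0 138387357 0) (P.cons (P.lf 0 76312089 0) (P.cons (P.lf 0 5102055 0) (P.lf 1700685 0 0)))) (P.cons (P.cons (P.lf 0 198159009 0) (P.cons (P.lf 138009657 0 0) (P.cons (P.lf 9226998 0 0) (P.lf 0 3075666 0)))) (P.cons (P.cons (P.lf 410082939 0 0) (P.cons (P.lf 0 41246271 0) (P.cons (P.lf 0 2757624 0) (P.lf 919209 0 0)))) (P.cons (P.cons (P.lf 0 31321263 0) (P.cons (P.lf 0 24925557 0) (P.cons (P.lf 0 1666458 0) P.nil))) (P.cons (P.cons (P.lf 0 45688794 0) (P.cons (P.lf 2899356 0 0) P.nil)) (P.cons (P.cons (P.lf 1089696 0 0) P.nil) P.nil)))))) 8888706)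
 (EL.cons 11 (TM.mk (P.cons (P.cons (P.lf 2802119268 0 0) (P.cons (P.lf 433838430 0 0) (P.cons (P.lf 0 209009673 0) (P.cons (P.lf 0 7909539 0) (P.lf 1977384 0 0))))) (P.cons (P.cons (P.lf 359678463 0 0) (P.cons (P.lf 55687257 0 0) (P.cons (P.lf 0 26828364 0) (P.cons (P.lf 0 1015263 0) (P.lf 253815 0 0))))) (P.cons (P.cons (P.lf 0 156940308 0) (P.cons (P.lf 0 24298299 0) (P.cons (P.lf 11706153 0 0) (P.cons (P.lf 442995 0 0) P.nil)))) (P.cons (P.cons (P.lf 0 21811440 0) (P.cons (P.lf 0 3376959 0) (P.cons (P.lf 1626912 0 0) P.nil))) (P.cons (P.cons (P.lf 4139352 0 0) (P.cons (P.lf 640875 0 0) P.nil)) (P.cons (P.cons (P.lf 725724 0 0) P.nil) P.nil)))))) 881241)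
 EL.nil)))
noncomputable def S198_256_364_512_22 : EL := (EL.cons 4 (TM.mk (P.cons (P.cons (P.lf 305832162 0 0) (P.cons (P.lf 2259873 0 0) (P.cons (P.lf 0 91601424 0) (P.cons (P.lf 0 12319080 0) (P.cons (P.lf 3679443 0 0) (P.cons (P.lf 273417 0 0) P.nil)))))) (P.cons (P.cons (P.lf 695633877 0 0) (P.cons (P.lf 0 604989231 0) (P.cons (P.lf 13075344 0 0) (P.cons (P.lf 20639637 0 0) (P.cons (P.lf 0 2146389 0) P.nil))))) (P.cons (P.cons (P.lf 0 357069195 0) (P.cons (P.lf 0 54558459 0) (P.cons (P.lf 45704178 0 0) (P.cons (P.lf 7814973 0 0) P.nil)))) (P.cons (P.cons (P.lf 0 247314567 0) (P.cons (P.lf 166508433 0 0) (P.cons (P.lf 6870534 0 0) P.nil))) (P.cons (P.cons (P.lf 91195158 0 0) (P.cons (P.lf 20813703 0 0) P.nil)) (P.cons (P.cons (P.lf 37037253 0 0) P.nil) P.nil)))))) 76012050)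
 (EL.cons 8 (TM.mk (P.cons (P.cons (P.lf 0 46946454 0) (P.cons (P.lf 0 346902 0) (P.cons (P.lf 14061183 0 0) (P.cons (P.lf 1891029 0 0) (P.cons (P.lf 0 564807 0) (P.cons (P.lf 0 41970 0) P.nil)))))) (P.cons (P.cons (P.lf 0 58305450 0) (P.cons (P.lf 93226470 0 0) (P.cons (P.lf 0 16526760 0) (P.cons (P.lf 0 5120949 0) (P.cons (P.lf 912702 0 0) P.nil))))) (P.cons (P.cons (P.lf 162729810 0 0) (P.cons (P.lf 0 87538584 0) (P.cons (P.lf 0 4240575 0) (P.cons (P.lf 2166429 0 0) P.nil)))) (P.cons (P.cons (P.lf 0 23104026 0) (P.cons (P.lf 0 29560683 0) (P.cons (P.lf 5829957 0 0) P.nil))) (P.cons (P.cons (P.lf 0 48556419 0) (P.cons (P.lf 21901449 0 0) P.nil)) (P.cons (P.cons (P.lf 9519963 0 0) P.nil) P.nil)))))) 33362298)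
 (EL.cons 11 (TM.mk (P.cons (P.cons (P.lf 950589477 0 0) (P.cons (P.lf 0 369992073 0) (P.cons (P.lf 0 185551395 0) (P.cons (P.lf 42064404 0 0) (P.cons (P.lf 6494118 0 0) (P.cons (P.lf 0 1127040 0) P.nil)))))) (P.cons (P.cons (P.lf 0 58556025 0) (P.cons (P.lf 0 175024173 0) (P.cons (P.lf 0 32422392 0) (P.cons (P.lf 14524737 0 0) (P.cons (P.lf 1827369 0 0) P.nil))))) (P.cons (P.cons (P.lf 0 295987938 0) (P.cons (P.lf 10610289 0 0) (P.cons (P.lf 34588728 0 0) (P.cons (P.lf 0 4047666 0) P.nil)))) (P.cons (P.cons (P.lf 6514842 0 0) (P.cons (P.lf 24673233 0 0) (P.cons (P.lf 4760082 0 0) P.nil))) (P.cons (P.cons (P.lf 32983911 0 0) (P.cons (P.lf 2545629 0 0) P.nil)) (P.cons (P.cons (P.lf 758349 0 0) P.nil) P.nil)))))) 17788791)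
 EL.nil)))
noncomputable def S198_256_364_512_23 : EL := (EL.cons 4 (TM.mk (P.cons (P.cons (P.lf 0 201026655 0) (P.cons (P.lf 0 110853777 0) (P.cons (P.lf 0 7411422 0) (P.lf 2470473 0 0)))) (P.cons (P.cons (P.lf 0 300755004 0) (P.cons (P.lf 193363419 0 0) (P.cons (P.lf 12927825 0 0) (P.lf 0 4309272 0)))) (P.cons (P.cons (P.lf 583271001 0 0) (P.cons (P.lf 0 43716621 0) (P.cons (P.lf 0 2922792 0) (P.lf 974262 0 0)))) (P.cons (P.cons (P.lf 1781886 0 0) (P.cons (P.lf 0 45862674 0) (P.cons (P.lf 0 3066267 0) P.nil))) (P.cons (P.cons (P.lf 0 86716194 0) (P.cons (P.lf 3250005 0 0) P.nil)) (P.cons (P.cons (P.lf 0 2605473 0) P.nil) P.nil)))))) 17309391)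
 (EL.cons 8 (TM.mk (P.cons (P.cons (P.lf 30858390 0 0) (P.cons (P.lf 17016498 0 0) (P.cons (P.lf 1137684 0 0) (P.lf 0 379227 0)))) (P.cons (P.cons (P.lf 14302575 0 0) (P.cons (P.lf 0 47253369 0) (P.cons (P.lf 0 3159249 0) (P.lf 1053081 0 0)))) (P.cons (P.cons (P.lf 0 135664785 0) (P.cons (P.lf 38210814 0 0) (P.cons (P.lf 2554683 0 0) (P.lf 0 851559 0)))) (P.cons (P.cons (P.lf 93917358 0 0) (P.cons (P.lf 0 1686756 0) (P.cons (P.lf 0 112773 0) P.nil))) (P.cons (P.cons (P.lf 8311017 0 0) (P.cons (P.lf 0 6861069 0) P.nil)) (P.cons (P.cons (P.lf 0 11651235 0) P.nil) P.nil)))))) 7050480)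
 (EL.cons 11 (TM.mk (P.cons (P.cons (P.lf 0 624832332 0) (P.cons (P.lf 0 96739734 0) (P.cons (P.lf 46606152 0 0) (P.cons (P.lf 1763712 0 0) (P.lf 0 440928 0))))) (P.cons (P.cons (P.lf 524900049 0 0) (P.cons (P.lf 81267708 0 0) (P.cons (P.lf 0 39152217 0) (P.cons (P.lf 0 1481634 0) (P.lf 370407 0 0))))) (P.cons (P.cons (P.lf 141636912 0 0) (P.cons (P.lf 21928950 0 0) (P.cons (P.lf 0 10564674 0) (P.cons (P.lf 0 399798 0) P.nil)))) (P.cons (P.cons (P.lf 0 33946482 0) (P.cons (P.lf 0 5255766 0) (P.cons (P.lf 2532060 0 0) P.nil))) (P.cons (P.cons (P.lf 0 9094614 0) (P.cons (P.lf 0 1408074 0) P.nil)) (P.cons (P.cons (P.lf 1009956 0 0) P.nil) P.nil)))))) 2011800)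
 EL.nil)))
noncomputable def S198_256_364_512_24 : EL := (EL.cons 4 (TM.mk (P.cons (P.cons (P.lf 0 68196177 0) (P.cons (P.lf 0 503919 0) (P.cons (P.lf 20425800 0 0) (P.cons (P.lf 2746977 0 0) (P.cons (P.lf 0 820461 0) (P.cons (P.lf 0 60966 0) P.nil)))))) (P.cons (P.cons (P.lf 0 89073483 0) (P.cons (P.lf 135391911 0 0) (P.cons (P.lf 0 22696467 0) (P.cons (P.lf 0 7262583 0) (P.cons (P.lf 1273170 0 0) P.nil))))) (P.cons (P.cons (P.lf 233001804 0 0) (P.cons (P.lf 0 118455180 0) (P.cons (P.lf 0 8314875 0) (P.cons (P.lf 2587029 0 0) P.nil)))) (P.cons (P.cons (P.lf 0 15710394 0) (P.cons (P.lf 0 55172481 0) (P.cons (P.lf 8755122 0 0) P.nil))) (P.cons (P.cons (P.lf 0 79657389 0) (P.cons (P.lf 32615871 0 0) P.nil)) (P.cons (P.cons (P.lf 9809271 0 0) P.nil) P.nil)))))) 60863118)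
 (EL.cons 8 (TM.mk (P.cons (P.cons (P.lf 10468383 0 0) (P.cons (P.lf 77352 0 0) (P.cons (P.lf 0 3135441 0) (P.cons (P.lf 0 421671 0) (P.cons (P.lf 125943 0 0) (P.cons (P.lf 9357 0 0) P.nil)))))) (P.cons (P.cons (P.lf 2863431 0 0) (P.cons (P.lf 0 20863074 0) (P.cons (P.lf 6721668 0 0) (P.cons (P.lf 1550256 0 0) (P.cons (P.lf 0 325485 0) P.nil))))) (P.cons (P.cons (P.lf 0 49362543 0) (P.cons (P.lf 39648033 0 0) (P.cons (P.lf 0 2477904 0) (P.cons (P.lf 0 1569372 0) P.nil)))) (P.cons (P.cons (P.lf 39834441 0 0) (P.cons (P.lf 0 11346969 0) (P.cons (P.lf 0 2429943 0) P.nil))) (P.cons (P.cons (P.lf 7712607 0 0) (P.cons (P.lf 0 12459543 0) P.nil)) (P.cons (P.cons (P.lf 0 13335561 0) P.nil) P.nil)))))) 20622462)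
 (EL.cons 11 (TM.mk (P.cons (P.cons (P.lf 0 211967793 0) (P.cons (P.lf 82502913 0 0) (P.cons (P.lf 41375292 0 0) (P.cons (P.lf 0 9379755 0) (P.cons (P.lf 0 1448094 0) (P.cons (P.lf 251313 0 0) P.nil)))))) (P.cons (P.cons (P.lf 218332038 0 0) (P.cons (P.lf 0 40869999 0) (P.cons (P.lf 0 32839137 0) (P.cons (P.lf 5844780 0 0) (P.cons (P.lf 994893 0 0) P.nil))))) (P.cons (P.cons (P.lf 63184215 0 0) (P.cons (P.lf 0 43986810 0) (P.cons (P.lf 0 16632630 0) (P.cons (P.lf 4474011 0 0) P.nil)))) (P.cons (P.cons (P.lf 0 68905653 0) (P.cons (P.lf 0 3879483 0) (P.cons (P.lf 6644631 0 0) P.nil))) (P.cons (P.cons (P.lf 0 9075447 0) (P.cons (P.lf 5506086 0 0) P.nil)) (P.cons (P.cons (P.lf 7987128 0 0) P.nil) P.nil)))))) 16049916)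
 EL.nil)))
noncomputable def S198_256_364_512_25 : EL := (EL.cons 4 (TM.mk (P.cons (P.cons (P.lf 44826054 0 0) (P.cons (P.lf 24718797 0 0) (P.cons (P.lf 1652640 0 0) (P.lf 0 550878 0)))) (P.cons (P.cons (P.lf 23653374 0 0) (P.cons (P.lf 0 67055562 0) (P.cons (P.lf 0 4483176 0) (P.lf 1494390 0 0)))) (P.cons (P.cons (P.lf 0 197085930 0) (P.cons (P.lf 50357904 0 0) (P.cons (P.lf 3366810 0 0) (P.lf 0 1122270 0)))) (P.cons (P.cons (P.lf 123067275 0 0) (P.cons (P.lf 3127236 0 0) (P.cons (P.lf 209076 0 0) P.nil))) (P.cons (P.cons (P.lf 26731167 0 0) (P.cons (P.lf 0 11647707 0) P.nil)) (P.cons (P.cons (P.lf 0 19854372 0) P.nil) P.nil)))))) 17014473)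
 (EL.cons 8 (TM.mk (P.cons (P.cons (P.lf 0 6880977 0) (P.cons (P.lf 0 3794433 0) (P.cons (P.lf 0 253686 0) (P.lf 84561 0 0)))) (P.cons (P.cons (P.lf 3474441 0 0) (P.cons (P.lf 14211447 0 0) (P.cons (P.lf 950142 0 0) (P.lf 0 316713 0)))) (P.cons (P.cons (P.lf 33658905 0 0) (P.cons (P.lf 0 18548652 0) (P.cons (P.lf 0 1240119 0) (P.lf 413373 0 0)))) (P.cons (P.cons (P.lf 0 50185587 0) (P.cons (P.lf 8086545 0 0) (P.cons (P.lf 540645 0 0) P.nil))) (P.cons (P.cons (P.lf 16972974 0 0) (P.cons (P.lf 1701966 0 0) P.nil)) (P.cons (P.cons (P.lf 5779527 0 0) P.nil) P.nil)))))) 7867383)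
 (EL.cons 11 (TM.mk (P.cons (P.cons (P.lf 139328631 0 0) (P.cons (P.lf 21571569 0 0) (P.cons (P.lf 0 10392501 0) (P.cons (P.lf 0 393282 0) (P.lf 98319 0 0))))) (P.cons (P.cons (P.lf 0 251974482 0) (P.cons (P.lf 0 39011976 0) (P.cons (P.lf 18794739 0 0) (P.cons (P.lf 711246 0 0) (P.lf 0 177810 0))))) (P.cons (P.cons (P.lf 75306390 0 0) (P.cons (P.lf 11659320 0 0) (P.cons (P.lf 0 5617092 0) (P.cons (P.lf 0 212565 0) P.nil)))) (P.cons (P.cons (P.lf 45508440 0 0) (P.cons (P.lf 7045848 0 0) (P.cons (P.lf 0 3394467 0) P.nil))) (P.cons (P.cons (P.lf 0 5293578 0) (P.cons (P.lf 0 819576 0) P.nil)) (P.cons (P.cons (P.lf 0 3138783 0) P.nil) P.nil)))))) 3252183)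
 EL.nil)))
noncomputable def S198_256_364_512_26 : EL := (EL.cons 4 (TM.mk (P.cons (P.cons (P.lf 15206766 0 0) (P.cons (P.lf 112365 0 0) (P.cons (P.lf 0 4554660 0) (P.cons (P.lf 0 612534 0) (P.cons (P.lf 182949 0 0) (P.cons (P.lf 13593 0 0) P.nil)))))) (P.cons (P.cons (P.lf 5135493 0 0) (P.cons (P.lf 0 30299268 0) (P.cons (P.lf 9471831 0 0) (P.cons (P.lf 2212647 0 0) (P.cons (P.lf 0 461073 0) P.nil))))) (P.cons (P.cons (P.lf 0 71896083 0) (P.cons (P.lf 55645776 0 0) (P.cons (P.lf 0 2835906 0) (P.cons (P.lf 0 2116785 0) P.nil)))) (P.cons (P.cons (P.lf 53108040 0 0) (P.cons (P.lf 0 11875758 0) (P.cons (P.lf 0 4045443 0) P.nil))) (P.cons (P.cons (P.lf 17071215 0 0) (P.cons (P.lf 0 20829030 0) P.nil)) (P.cons (P.cons (P.lf 0 20249199 0) P.nil) P.nil)))))) 39165885)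
 (EL.cons 8 (TM.mk (P.cons (P.cons (P.lf 0 2334297 0) (P.cons (P.lf 0 17247 0) (P.cons (P.lf 699156 0 0) (P.cons (P.lf 94026 0 0) (P.cons (P.lf 0 28083 0) (P.cons (P.lf 0 2085 0) P.nil)))))) (P.cons (P.cons (P.lf 1622088 0 0) (P.cons (P.lf 4668870 0 0) (P.cons (P.lf 0 2175918 0) (P.cons (P.lf 0 436740 0) (P.cons (P.lf 99774 0 0) P.nil))))) (P.cons (P.cons (P.lf 11733711 0 0) (P.cons (P.lf 0 13345413 0) (P.cons (P.lf 1971630 0 0) (P.cons (P.lf 680358 0 0) P.nil)))) (P.cons (P.cons (P.lf 0 19544760 0) (P.cons (P.lf 10876059 0 0) (P.cons (P.lf 85911 0 0) P.nil))) (P.cons (P.cons (P.lf 6360330 0 0) (P.cons (P.lf 802191 0 0) P.nil)) (P.cons (P.cons (P.lf 5202831 0 0) P.nil) P.nil)))))) 15348135)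
 (EL.cons 11 (TM.mk (P.cons (P.cons (P.lf 47265771 0 0) (P.cons (P.lf 0 18396963 0) (P.cons (P.lf 0 9226095 0) (P.cons (P.lf 2091549 0 0) (P.cons (P.lf 322902 0 0) (P.cons (P.lf 0 56037 0) P.nil)))))) (P.cons (P.cons (P.lf 0 94458255 0) (P.cons (P.lf 26929500 0 0) (P.cons (P.lf 16257435 0 0) (P.cons (P.lf 0 3328812 0) (P.cons (P.lf 0 534555 0) P.nil))))) (P.cons (P.cons (P.lf 30866991 0 0) (P.cons (P.lf 1835748 0 0) (P.cons (P.lf 0 2954829 0) (P.cons (P.lf 167532 0 0) P.nil)))) (P.cons (P.cons (P.lf 31920036 0 0) (P.cons (P.lf 0 9310542 0) (P.cons (P.lf 0 5540457 0) P.nil))) (P.cons (P.cons (P.lf 0 12820710 0) (P.cons (P.lf 0 2415810 0) P.nil)) (P.cons (P.cons (P.lf 0 4713462 0) P.nil) P.nil)))))) 14021895)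
 EL.nil)))
noncomputable def S198_256_364_512_27 : EL := (EL.cons 13 (TM.mk (P.lf 0 4294967296 0) 0)
 EL.nil)
noncomputable def S198_256_364_512_28 : EL := (EL.cons 13 (TM.mk (P.cons (P.cons (P.lf 0 1457022464 0) (P.cons (P.lf 792691524 0 0) (P.cons (P.lf 52997508 0 0) (P.lf 0 17665836 0)))) (P.cons (P.cons (P.lf 276774736 0 0) (P.cons (P.lf 152624160 0 0) (P.cons (P.lf 10204092 0 0) (P.lf 0 3401364 0)))) (P.cons (P.cons (P.lf 336546367 0 0) (P.cons (P.lf 0 61697576 0) (P.cons (P.lf 0 4124952 0) (P.lf 1374984 0 0)))) (P.cons (P.cons (P.lf 0 49024382 0) (P.cons (P.lf 0 13634200 0) (P.cons (P.lf 0 911548 0) P.nil))) (P.cons (P.cons (P.lf 0 21107643 0) (P.cons (P.lf 2237124 0 0) P.nil)) (P.cons (P.cons (P.lf 1389399 0 0) P.nil) P.nil)))))) 2568712)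
 EL.nil)
noncomputable def S198_256_364_512_29 : EL := (EL.cons 13 (TM.mk (P.cons (P.cons (P.lf 0 494279540 0) (P.cons (P.lf 537824517 0 0) (P.cons (P.lf 0 110343734 0) (P.cons (P.lf 0 31548643 0) (P.cons (P.lf 5866955 0 0) (P.cons (P.lf 435973 0 0) P.nil)))))) (P.cons (P.cons (P.lf 187785833 0 0) (P.cons (P.lf 1387597 0 0) (P.cons (P.lf 0 56244739 0) (P.cons (P.lf 0 7564110 0) (P.cons (P.lf 2259236 0 0) P.nil))))) (P.cons (P.cons (P.lf 210503809 0 0) (P.cons (P.lf 0 185759141 0) (P.cons (P.lf 4931156 0 0) (P.cons (P.lf 6459843 0 0) P.nil)))) (P.cons (P.cons (P.lf 0 76637211 0) (P.cons (P.lf 0 7121311 0) (P.cons (P.lf 8941540 0 0) P.nil))) (P.cons (P.cons (P.lf 0 34373872 0) (P.cons (P.lf 24219691 0 0) P.nil)) (P.cons (P.cons (P.lf 11346035 0 0) P.nil) P.nil)))))) 27126553)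
 EL.nil)
noncomputable def S198_256_364_512_30 : EL := (EL.cons 13 (TM.mk (P.cons (P.lf 957715992 0 0) (P.cons (P.lf 0 927476000 0) (P.cons (P.lf 0 44405152 0) (P.cons (P.lf 13240480 0 0) (P.cons (P.lf 1119116 0 0) (P.cons (P.lf 0 173696 0) P.nil)))))) 29016)
 EL.nil)
noncomputable def S198_256_364_512_31 : EL := (EL.cons 13 (TM.mk (P.cons (P.cons (P.lf 324895073 0 0) (P.cons (P.lf 0 176758819 0) (P.cons (P.lf 0 11817682 0) (P.lf 3939227 0 0)))) (P.cons (P.cons (P.lf 0 376353263 0) (P.cons (P.lf 137144645 0 0) (P.cons (P.lf 9169172 0 0) (P.lf 0 3056390 0)))) (P.cons (P.cons (P.lf 0 30340910 0) (P.cons (P.lf 54911614 0 0) (P.cons (P.lf 3671260 0 0) (P.lf 0 1223753 0)))) (P.cons (P.cons (P.lf 90960416 0 0) (P.cons (P.lf 0 11148780 0) (P.cons (P.lf 0 745381 0) P.nil))) (P.cons (P.cons (P.lf 0 2873938 0) (P.cons (P.lf 0 4758020 0) P.nil)) (P.cons (P.cons (P.lf 0 6543303 0) P.nil)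 P.nil)))))) 3798247)
 EL.nil)
noncomputable def S198_256_364_512_32 : EL := (EL.cons 13 (TM.mk (P.cons (P.cons (P.lf 110217235 0 0) (P.cons (P.lf 0 119927139 0) (P.cons (P.lf 24605067 0 0) (P.cons (P.lf 7034894 0 0) (P.cons (P.lf 0 1308246 0) (P.cons (P.lf 0 97215 0) P.nil)))))) (P.cons (P.cons (P.lf 0 148610655 0) (P.cons (P.lf 115831011 0 0) (P.cons (P.lf 0 11286390 0) (P.cons (P.lf 0 5126078 0) (P.cons (P.lf 763161 0 0) P.nil))))) (P.cons (P.cons (P.lf 0 11498241 0) (P.cons (P.lf 47281766 0 0) (P.cons (P.lf 0 14386168 0) (P.cons (P.lf 0 3400060 0) P.nil)))) (P.cons (P.cons (P.lf 66011461 0 0) (P.cons (P.lf 0 40169430 0) (P.cons (P.lf 0 1170318 0) P.nil))) (P.cons (P.cons (P.lf 0 7158269 0) (P.cons (P.lf 0 9003410 0) P.nil)) (P.cons (P.cons (P.lf 0 11463064 0) P.nil) P.nil)))))) 26749880)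
 EL.nil)
noncomputable def S198_256_364_512_33 : EL := (EL.cons 14 (TM.mk (P.lf 8589934592 0 0) 0)
 EL.nil)
noncomputable def S198_256_364_512_34 : EL := (EL.cons 14 (TM.mk (P.cons (P.cons (P.lf 2914044928 0 0) (P.cons (P.lf 0 1585383048 0) (P.cons (P.lf 0 105995016 0) (P.lf 35331672 0 0)))) (P.cons (P.cons (P.lf 0 553549472 0) (P.cons (P.lf 0 305248320 0) (P.cons (P.lf 0 20408184 0) (P.lf 6802728 0 0)))) (P.cons (P.cons (P.lf 0 673092734 0) (P.cons (P.lf 123395152 0 0) (P.cons (P.lf 8249904 0 0) (P.lf 0 2749968 0)))) (P.cons (P.cons (P.lf 98048764 0 0) (P.cons (P.lf 27268400 0 0) (P.cons (P.lf 1823096 0 0) P.nil))) (P.cons (P.cons (P.lf 42215286 0 0) (P.cons (P.lf 0 4474248 0) P.nil)) (P.cons (P.cons (P.lf 0 2778798 0) P.nil) P.nil)))))) 5137424)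
 EL.nil)
noncomputable def S198_256_364_512_35 : EL := (EL.cons 14 (TM.mk (P.cons (P.cons (P.lf 988559080 0 0) (P.cons (P.lf 0 1075649034 0) (P.cons (P.lf 220687468 0 0) (P.cons (P.lf 63097286 0 0) (P.cons (P.lf 0 11733910 0) (P.cons (P.lf 0 871946 0) P.nil)))))) (P.cons (P.cons (P.lf 0 375571666 0) (P.cons (P.lf 0 2775194 0) (P.cons (P.lf 112489478 0 0) (P.cons (P.lf 15128220 0 0) (P.cons (P.lf 0 4518472 0) P.nil))))) (P.cons (P.cons (P.lf 0 421007618 0) (P.cons (P.lf 371518282 0 0) (P.cons (P.lf 0 9862312 0) (P.cons (P.lf 0 12919686 0) P.nil)))) (P.cons (P.cons (P.lf 153274422 0 0) (P.cons (P.lf 14242622 0 0) (P.cons (P.lf 0 17883080 0) P.nil))) (P.cons (P.cons (P.lf 68747744 0 0) (P.cons (P.lf 0 48439382 0) P.nil)) (P.cons (P.cons (P.lf 0 22692070 0) P.nil) P.nil)))))) 54253106)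
 EL.nil)
noncomputable def S198_256_364_512_36 : EL := (EL.cons 14 (TM.mk (P.cons (P.lf 0 1915431984 0) (P.cons (P.lf 1854952000 0 0) (P.cons (P.lf 88810304 0 0) (P.cons (P.lf 0 26480960 0) (P.cons (P.lf 0 2238232 0) (P.cons (P.lf 347392 0 0) P.nil)))))) 58032)
 EL.nil)
noncomputable def S198_256_364_512_37 : EL := (EL.cons 14 (TM.mk (P.cons (P.cons (P.lf 0 649790146 0) (P.cons (P.lf 353517638 0 0) (P.cons (P.lf 23635364 0 0) (P.lf 0 7878454 0)))) (P.cons (P.cons (P.lf 752706526 0 0) (P.cons (P.lf 0 274289290 0) (P.cons (P.lf 0 18338344 0) (P.lf 6112780 0 0)))) (P.cons (P.cons (P.lf 60681820 0 0) (P.cons (P.lf 0 109823228 0) (P.cons (P.lf 0 7342520 0) (P.lf 2447506 0 0)))) (P.cons (P.cons (P.lf 0 181920832 0) (P.cons (P.lf 22297560 0 0) (P.cons (P.lf 1490762 0 0) P.nil))) (P.cons (P.cons (P.lf 5747876 0 0) (P.cons (P.lf 9516040 0 0) P.nil)) (P.cons (P.cons (P.lf 13086606 0 0)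 P.nil) P.nil)))))) 7596494)
 EL.nil)
noncomputable def S198_256_364_512_38 : EL := (EL.cons 14 (TM.mk (P.cons (P.cons (P.lf 0 220434470 0) (P.cons (P.lf 239854278 0 0) (P.cons (P.lf 0 49210134 0) (P.cons (P.lf 0 14069788 0) (P.cons (P.lf 2616492 0 0) (P.cons (P.lf 194430 0 0) P.nil)))))) (P.cons (P.cons (P.lf 297221310 0 0) (P.cons (P.lf 0 231662022 0) (P.cons (P.lf 22572780 0 0) (P.cons (P.lf 10252156 0 0) (P.cons (P.lf 0 1526322 0) P.nil))))) (P.cons (P.cons (P.lf 22996482 0 0) (P.cons (P.lf 0 94563532 0) (P.cons (P.lf 28772336 0 0) (P.cons (P.lf 6800120 0 0) P.nil)))) (P.cons (P.cons (P.lf 0 132022922 0) (P.cons (P.lf 80338860 0 0) (P.cons (P.lf 2340636 0 0) P.nil))) (P.cons (P.cons (P.lf 14316538 0 0) (P.cons (P.lf 18006820 0 0) P.nil)) (P.cons (P.cons (P.lf 22926128 0 0) P.nil) P.nil)))))) 53499760)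
 EL.nil)
noncomputable def S198_256_364_512_39 : EL := (EL.cons 14 (TM.mk (P.cons (P.lf 427113808 0 0) (P.cons (P.lf 0 827255282 0) (P.cons (P.lf 360960458 0 0) (P.cons (P.lf 50165998 0 0) (P.cons (P.lf 0 9520466 0) (P.cons (P.lf 0 1669162 0) P.nil)))))) 354406)
 EL.nil)
noncomputable def S198_256_364_512_40 : EL := (EL.cons 14 (TM.mk (P.cons (P.cons (P.lf 144893864 0 0) (P.cons (P.lf 0 78829352 0) (P.cons (P.lf 0 5270346 0) (P.lf 1756782 0 0)))) (P.cons (P.cons (P.lf 0 308161564 0) (P.cons (P.lf 137502876 0 0) (P.cons (P.lf 9193122 0 0) (P.lf 0 3064374 0)))) (P.cons (P.cons (P.lf 142293808 0 0) (P.cons (P.lf 0 31087376 0) (P.cons (P.lf 0 2078430 0) (P.lf 692810 0 0)))) (P.cons (P.cons (P.lf 63454964 0 0) (P.cons (P.lf 0 32613458 0) (P.cons (P.lf 0 2180458 0) P.nil))) (P.cons (P.cons (P.lf 0 42090298 0) (P.cons (P.lf 2311114 0 0) P.nil)) (P.cons (P.cons (P.lf 0 3967234 0) P.nil)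 P.nil)))))) 10956126)
 EL.nil)
noncomputable def S198_256_364_512_41 : EL := (EL.cons 14 (TM.mk (P.cons (P.cons (P.lf 49153718 0 0) (P.cons (P.lf 0 53484056 0) (P.cons (P.lf 10973152 0 0) (P.cons (P.lf 3137360 0 0) (P.cons (P.lf 0 583440 0) (P.cons (P.lf 0 43354 0) P.nil)))))) (P.cons (P.cons (P.lf 0 113877766 0) (P.cons (P.lf 103452594 0 0) (P.cons (P.lf 0 15660080 0) (P.cons (P.lf 0 5324380 0) (P.cons (P.lf 905366 0 0) P.nil))))) (P.cons (P.cons (P.lf 56776476 0 0) (P.cons (P.lf 0 26460082 0) (P.cons (P.lf 0 2050118 0) (P.cons (P.lf 552104 0 0) P.nil)))) (P.cons (P.cons (P.lf 38157674 0 0) (P.cons (P.lf 0 41469462 0) (P.cons (P.lf 6076390 0 0) P.nil))) (P.cons (P.cons (P.lf 0 32323124 0) (P.cons (P.lf 13007486 0 0) P.nil)) (P.cons (P.cons (P.lf 0 3542836 0) P.nil) P.nil)))))) 38379796)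
 EL.nil)
noncomputable def S198_256_364_512_42 : EL := (EL.cons 14 (TM.mk (P.cons (P.lf 0 95240240 0) (P.cons (P.lf 276699060 0 0) (P.cons (P.lf 0 254714620 0) (P.cons (P.lf 56891654 0 0) (P.cons (P.lf 19126904 0 0) (P.cons (P.lf 0 2044974 0) P.nil)))))) 997622)
 EL.nil)
noncomputable def S198_256_364_512_43 : EL := (EL.cons 14 (TM.mk (P.cons (P.cons (P.lf 0 32309248 0) (P.cons (P.lf 17577812 0 0) (P.cons (P.lf 1175210 0 0) (P.lf 0 391736 0)))) (P.cons (P.cons (P.lf 100004680 0 0) (P.cons (P.lf 0 47683956 0) (P.cons (P.lf 0 3188038 0) (P.lf 1062678 0 0)))) (P.cons (P.cons (P.lf 0 96777330 0) (P.cons (P.lf 35810066 0 0) (P.cons (P.lf 2394176 0 0) (P.lf 0 798058 0)))) (P.cons (P.cons (P.lf 12945344 0 0) (P.cons (P.lf 2223814 0 0) (P.cons (P.lf 148678 0 0) P.nil))) (P.cons (P.cons (P.lf 25471704 0 0) (P.cons (P.lf 0 8282814 0) P.nil)) (P.cons (P.cons (P.lf 0 7900998 0) P.nil) P.nil))))))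 10993130)
 EL.nil)
noncomputable def S198_256_364_512_44 : EL := (EL.cons 14 (TM.mk (P.cons (P.cons (P.lf 0 10960572 0) (P.cons (P.lf 11926176 0 0) (P.cons (P.lf 0 2446854 0) (P.cons (P.lf 0 699586 0) (P.cons (P.lf 130098 0 0) (P.cons (P.lf 9666 0 0) P.nil)))))) (P.cons (P.cons (P.lf 36007596 0 0) (P.cons (P.lf 0 34618046 0) (P.cons (P.lf 5861568 0 0) (P.cons (P.lf 1864756 0 0) (P.cons (P.lf 0 327874 0) P.nil))))) (P.cons (P.cons (P.lf 0 36743458 0) (P.cons (P.lf 27687306 0 0) (P.cons (P.lf 0 2811116 0) (P.cons (P.lf 0 1240446 0) P.nil)))) (P.cons (P.cons (P.lf 2423074 0 0) (P.cons (P.lf 4767640 0 0) (P.cons (P.lf 0 1993396 0) P.nil))) (P.cons (P.cons (P.lf 16372802 0 0) (P.cons (P.lf 0 12434152 0) P.nil)) (P.cons (P.cons (P.lf 0 5938872 0) P.nil) P.nil)))))) 25474766)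
 EL.nil)
noncomputable def S198_256_364_512_45 : EL := (EL.cons 14 (TM.mk (P.cons (P.cons (P.lf 335358266 0 0) (P.cons (P.lf 0 547353924 0) (P.cons (P.lf 261192512 0 0) (P.cons (P.lf 0 1986622 0) (P.cons (P.lf 0 22773486 0) (P.cons (P.lf 1998980 0 0) P.nil)))))) (P.cons (P.cons (P.lf 0 191113104 0) (P.cons (P.lf 102562698 0 0) (P.cons (P.lf 64961122 0 0) (P.cons (P.lf 0 25709744 0) (P.cons (P.lf 0 8586636 0) P.nil))))) (P.cons (P.cons (P.lf 0 196081766 0) (P.cons (P.lf 315747814 0 0) (P.cons (P.lf 0 104772324 0) (P.cons (P.lf 0 17265296 0) P.nil)))) (P.cons (P.cons (P.lf 119840102 0 0) (P.cons (P.lf 0 46754988 0) (P.cons (P.lf 0 32053802 0) P.nil))) (P.cons (P.cons (P.lf 47005500 0 0) (P.cons (P.lf 0 77669808 0) P.nil)) (P.cons (P.cons (P.lf 0 31109670 0) P.nil) P.nil)))))) 148495792)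
 EL.nil)
noncomputable def S198_256_364_512_46 : EL := (EL.cons 15 (TM.mk (P.lf 4294967296 0 0) 0)
 EL.nil)
noncomputable def S198_256_364_512_47 : EL := (EL.cons 15 (TM.mk (P.cons (P.cons (P.lf 1457022464 0 0) (P.cons (P.lf 0 792691524 0) (P.cons (P.lf 0 52997508 0) (P.lf 17665836 0 0)))) (P.cons (P.cons (P.lf 0 276774736 0) (P.cons (P.lf 0 152624160 0) (P.cons (P.lf 0 10204092 0) (P.lf 3401364 0 0)))) (P.cons (P.cons (P.lf 0 336546367 0) (P.cons (P.lf 61697576 0 0) (P.cons (P.lf 4124952 0 0) (P.lf 0 1374984 0)))) (P.cons (P.cons (P.lf 49024382 0 0) (P.cons (P.lf 13634200 0 0) (P.cons (P.lf 911548 0 0) P.nil))) (P.cons (P.cons (P.lf 21107643 0 0) (P.cons (P.lf 0 2237124 0) P.nil)) (P.cons (P.cons (P.lf 0 1389399 0) P.nil) P.nil)))))) 2568712)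
 EL.nil)
noncomputable def S198_256_364_512_48 : EL := (EL.cons 15 (TM.mk (P.cons (P.cons (P.lf 494279540 0 0) (P.cons (P.lf 0 537824517 0) (P.cons (P.lf 110343734 0 0) (P.cons (P.lf 31548643 0 0) (P.cons (P.lf 0 5866955 0) (P.cons (P.lf 0 435973 0) P.nil)))))) (P.cons (P.cons (P.lf 0 187785833 0) (P.cons (P.lf 0 1387597 0) (P.cons (P.lf 56244739 0 0) (P.cons (P.lf 7564110 0 0) (P.cons (P.lf 0 2259236 0) P.nil))))) (P.cons (P.cons (P.lf 0 210503809 0) (P.cons (P.lf 185759141 0 0) (P.cons (P.lf 0 4931156 0) (P.cons (P.lf 0 6459843 0) P.nil)))) (P.cons (P.cons (P.lf 76637211 0 0) (P.cons (P.lf 7121311 0 0) (P.cons (P.lf 0 8941540 0) P.nil))) (P.cons (P.cons (P.lf 34373872 0 0) (P.cons (P.lf 0 24219691 0) P.nil)) (P.cons (P.cons (P.lf 0 11346035 0) P.nil) P.nil)))))) 27126553)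
 EL.nil)
noncomputable def S198_256_364_512 : SL := (SL.cons S198_256_364_512_0 (SL.cons S198_256_364_512_1 (SL.cons S198_256_364_512_2 (SL.cons S198_256_364_512_3 (SL.cons S198_256_364_512_4 (SL.cons S198_256_364_512_5 (SL.cons S198_256_364_512_6 (SL.cons S198_256_364_512_7 (SL.cons S198_256_364_512_8 (SL.cons S198_256_364_512_9 (SL.cons S198_256_364_512_10 (SL.cons S198_256_364_512_11 (SL.cons S198_256_364_512_12 (SL.cons S198_256_364_512_13 (SL.cons S198_256_364_512_14 (SL.cons S198_256_364_512_15 (SL.cons S198_256_364_512_16 (SL.cons S198_256_364_512_17 (SL.cons S198_256_364_512_18 (SL.cons S198_256_364_512_19 (SL.cons S198_256_364_512_20 (SL.cons S198_256_364_512_21 (SL.cons S198_256_364_512_22 (SL.cons S198_256_364_512_23 (SL.cons S198_256_364_512_24 (SL.cons S198_256_364_512_25 (SL.cons S198_256_364_512_26 (SL.cons S198_256_364_512_27 (SL.cons S198_256_364_512_28 (SL.cons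 S198_256_364_512_29 (SL.cons S198_256_364_512_30 (SL.cons S198_256_364_512_31 (SL.cons S198_256_364_512_32 (SL.cons S198_256_364_512_33 (SL.cons S198_256_364_512_34 (SL.cons S198_256_364_512_35 (SL.cons S198_256_364_512_36 (SL.cons S198_256_364_512_37 (SL.cons S198_256_364_512_38 (SL.cons S198_256_364_512_39 (SL.cons S198_256_364_512_40 (SL.cons S198_256_364_512_41 (SL.cons S198_256_364_512_42 (SL.cons S198_256_364_512_43 (SL.cons S198_256_364_512_44 (SL.cons S198_256_364_512_45 (SL.cons S198_256_364_512_46 (SL.cons S198_256_364_512_47 (SL.cons S198_256_364_512_48 SL.nil)))))))))))))))))))))))))))))))))))))))))))))))))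
noncomputable def S198_256_438_512_0 : EL := (EL.cons 0 (TM.mk (P.cons (P.lf 8080323868 0 0) (P.cons (P.lf 727079837 0 0) (P.cons (P.lf 0 317250402 0) (P.cons (P.lf 0 44091209 0) (P.cons (P.lf 8367597 0 0) (P.cons (P.lf 1467036 0 0) P.nil)))))) 311496)
 (EL.cons 1 (TM.mk (P.cons (P.lf 0 869508750 0) (P.cons (P.lf 786249082 0 0) (P.cons (P.lf 120498519 0 0) (P.cons (P.lf 0 33042157 0) (P.cons (P.lf 0 5010903 0) (P.cons (P.lf 683975 0 0) P.nil)))))) 177172)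
 (EL.cons 5 (TM.mk (P.cons (P.lf 4428440364 0 0) (P.cons (P.lf 0 258517274 0) (P.cons (P.lf 112800140 0 0) (P.cons (P.lf 15676876 0 0) (P.cons (P.lf 0 2975142 0) (P.cons (P.lf 0 521612 0) P.nil)))))) 117185)
 (EL.cons 9 (TM.mk (P.lf 6442450944 0 0) 2)
 EL.nil))))
noncomputable def S198_256_438_512_1 : EL := (EL.cons 0 (TM.mk (P.cons (P.cons (P.lf 2458474188 0 0) (P.cons (P.lf 0 673917357 0) (P.cons (P.lf 0 10726287 0) (P.lf 3575429 0 0)))) (P.cons (P.cons (P.lf 0 113001714 0) (P.cons (P.lf 0 411597012 0) (P.cons (P.lf 0 6551099 0) (P.lf 2183691 0 0)))) (P.cons (P.cons (P.lf 0 1762678208 0) (P.cons (P.lf 121164814 0 0) (P.cons (P.lf 1928491 0 0) (P.lf 0 642827 0)))) (P.cons (P.cons (P.lf 110125155 0 0) (P.cons (P.lf 74297113 0 0) (P.cons (P.lf 1182520 0 0) P.nil))) (P.cons (P.cons (P.lf 234702765 0 0) (P.cons (P.lf 0 6578798 0) P.nil)) (P.cons (P.cons (P.lf 0 206233 0) P.nil)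 P.nil)))))) 31479397)
 (EL.cons 1 (TM.mk (P.cons (P.cons (P.lf 310615442 0 0) (P.cons (P.lf 202281020 0 0) (P.cons (P.lf 3219568 0 0) (P.lf 0 1073185 0)))) (P.cons (P.cons (P.lf 1289222993 0 0) (P.cons (P.lf 0 126665494 0) (P.cons (P.lf 0 2016046 0) (P.lf 672013 0 0)))) (P.cons (P.cons (P.lf 0 61944025 0) (P.cons (P.lf 0 101074959 0) (P.cons (P.lf 0 1608730 0) (P.lf 536239 0 0)))) (P.cons (P.cons (P.lf 0 368800353 0) (P.cons (P.lf 14417437 0 0) (P.cons (P.lf 229467 0 0) P.nil))) (P.cons (P.cons (P.lf 4382163 0 0) (P.cons (P.lf 12275760 0 0) P.nil)) (P.cons (P.cons (P.lf 35468714 0 0) P.nil) P.nil)))))) 14304850)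
 (EL.cons 5 (TM.mk (P.cons (P.cons (P.lf 910256298 0 0) (P.cons (P.lf 0 467958654 0) (P.cons (P.lf 0 7448178 0) (P.lf 2482726 0 0)))) (P.cons (P.cons (P.lf 0 563683158 0) (P.cons (P.lf 10109952 0 0) (P.cons (P.lf 160902 0 0) (P.lf 0 53632 0)))) (P.cons (P.cons (P.lf 108505059 0 0) (P.cons (P.lf 11991778 0 0) (P.cons (P.lf 190870 0 0) (P.lf 0 63624 0)))) (P.cons (P.cons (P.lf 56097757 0 0) (P.cons (P.lf 0 14246564 0) (P.cons (P.lf 0 226748 0) P.nil))) (P.cons (P.cons (P.lf 0 49521397 0) (P.cons (P.lf 342218 0 0) P.nil)) (P.cons (P.cons (P.lf 0 2839038 0) P.nil) P.nil)))))) 13293493)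
 (EL.cons 9 (TM.mk (P.cons (P.cons (P.lf 1574453328 0 0) (P.cons (P.lf 0 624329742 0) (P.cons (P.lf 0 9937032 0) (P.lf 3312342 0 0)))) (P.cons (P.cons (P.lf 0 532819008 0) (P.cons (P.lf 0 120207924 0) (P.cons (P.lf 0 1913262 0) (P.lf 637752 0 0)))) (P.cons (P.cons (P.lf 0 457257316 0) (P.cons (P.lf 48593466 0 0) (P.cons (P.lf 773424 0 0) (P.lf 0 257808 0)))) (P.cons (P.cons (P.lf 84047085 0 0) (P.cons (P.lf 10738398 0 0) (P.cons (P.lf 170910 0 0) P.nil))) (P.cons (P.cons (P.lf 29936878 0 0) (P.cons (P.lf 0 1761972 0) P.nil)) (P.cons (P.cons (P.lf 0 2569726 0) P.nil) P.nil)))))) 2280319)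
 (EL.cons 2 (TM.mk (P.cons (P.cons (P.lf 620022895 0 0) (P.cons (P.lf 22983401 0 0) (P.cons (P.lf 0 11388358 0) (P.cons (P.lf 0 103342 0) (P.lf 25832 0 0))))) (P.cons (P.cons (P.lf 0 520859809 0) (P.cons (P.lf 0 19307562 0) (P.cons (P.lf 9566966 0 0) (P.cons (P.lf 86813 0 0) (P.lf 0 21701 0))))) (P.cons (P.cons (P.lf 0 140546711 0) (P.cons (P.lf 0 5209872 0) (P.cons (P.lf 2581509 0 0) (P.cons (P.lf 23425 0 0) P.nil)))) (P.cons (P.cons (P.lf 33685188 0 0) (P.cons (P.lf 1248662 0 0) (P.cons (P.lf 0 618716 0) P.nil))) (P.cons (P.cons (P.lf 9024612 0 0) (P.cons (P.lf 334527 0 0) P.nil)) (P.cons (P.cons (P.lf 0 1002180 0) P.nil) P.nil)))))) 770190)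
 (EL.cons 6 (TM.mk (P.cons (P.cons (P.lf 1436135832 0 0) (P.cons (P.lf 53235594 0 0) (P.cons (P.lf 0 26378427 0) (P.cons (P.lf 0 239367 0) (P.lf 59841 0 0))))) (P.cons (P.cons (P.lf 276512388 0 0) (P.cons (P.lf 10249935 0 0) (P.cons (P.lf 0 5078880 0) (P.cons (P.lf 0 46086 0) (P.lf 11520 0 0))))) (P.cons (P.cons (P.lf 0 111778794 0) (P.cons (P.lf 0 4143486 0) (P.cons (P.lf 2053110 0 0) (P.cons (P.lf 18630 0 0) P.nil)))) (P.cons (P.cons (P.lf 0 24701367 0) (P.cons (P.lf 0 915645 0) (P.cons (P.lf 453702 0 0) P.nil))) (P.cons (P.cons (P.lf 4053048 0 0) (P.cons (P.lf 150240 0 0) P.nil)) (P.cons (P.cons (P.lf 1141305 0 0) P.nil) P.nil)))))) 488982)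
 EL.nil))))))
noncomputable def S198_256_438_512_2 : EL := (EL.cons 0 (TM.mk (P.cons (P.cons (P.lf 719041179 0 0) (P.cons (P.lf 0 423152033 0) (P.cons (P.lf 47997170 0 0) (P.cons (P.lf 3987278 0 0) (P.cons (P.lf 0 566898 0) (P.cons (P.lf 0 9250 0) P.nil)))))) (P.cons (P.cons (P.lf 0 178673090 0) (P.cons (P.lf 0 180941522 0) (P.cons (P.lf 65993832 0 0) (P.cons (P.lf 3152397 0 0) (P.cons (P.lf 0 713358 0) P.nil))))) (P.cons (P.cons (P.lf 0 918459635 0) (P.cons (P.lf 419974851 0 0) (P.cons (P.lf 0 2256446 0) (P.cons (P.lf 0 2512747 0) P.nil)))) (P.cons (P.cons (P.lf 289247152 0 0) (P.cons (P.lf 95746180 0 0) (P.cons (P.lf 0 18597428 0) P.nil))) (P.cons (P.cons (P.lf 300704489 0 0) (P.cons (P.lf 0 97005970 0) P.nil)) (P.cons (P.cons (P.lf 0 79782940 0) P.nil) P.nil)))))) 156663323)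
 (EL.cons 1 (TM.mk (P.cons (P.cons (P.lf 203752504 0 0) (P.cons (P.lf 0 2518473 0) (P.cons (P.lf 0 31079858 0) (P.cons (P.lf 0 974713 0) (P.cons (P.lf 321490 0 0) (P.cons (P.lf 5242 0 0) P.nil)))))) (P.cons (P.cons (P.lf 496653265 0 0) (P.cons (P.lf 0 313585358 0) (P.cons (P.lf 7770826 0 0) (P.cons (P.lf 2069949 0 0) (P.cons (P.lf 0 132179 0) P.nil))))) (P.cons (P.cons (P.lf 0 287248138 0) (P.cons (P.lf 0 70458957 0) (P.cons (P.lf 21303520 0 0) (P.cons (P.lf 1087650 0 0) P.nil)))) (P.cons (P.cons (P.lf 0 300421863 0) (P.cons (P.lf 122488357 0 0) (P.cons (P.lf 1915174 0 0) P.nil))) (P.cons (P.cons (P.lf 101016744 0 0) (P.cons (P.lf 27914629 0 0) P.nil)) (P.cons (P.cons (P.lf 69235981 0 0) P.nil) P.nil)))))) 83680671)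
 (EL.cons 5 (TM.mk (P.cons (P.cons (P.lf 180420886 0 0) (P.cons (P.lf 0 195390045 0) (P.cons (P.lf 45999840 0 0) (P.cons (P.lf 2599915 0 0) (P.cons (P.lf 0 508652 0) (P.cons (P.lf 0 8286 0) P.nil)))))) (P.cons (P.cons (P.lf 0 231623991 0) (P.cons (P.lf 114785141 0 0) (P.cons (P.lf 3743370 0 0) (P.cons (P.lf 0 547971 0) (P.cons (P.lf 0 19866 0) P.nil))))) (P.cons (P.cons (P.lf 123210201 0 0) (P.cons (P.lf 569332 0 0) (P.cons (P.lf 0 4943995 0) (P.cons (P.lf 0 160703 0) P.nil)))) (P.cons (P.cons (P.lf 29432965 0 0) (P.cons (P.lf 0 36327020 0) (P.cons (P.lf 2162099 0 0) P.nil))) (P.cons (P.cons (P.lf 0 69308143 0) (P.cons (P.lf 13553731 0 0) P.nil)) (P.cons (P.cons (P.lf 7810359 0 0) P.nil) P.nil)))))) 73250764)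
 (EL.cons 9 (TM.mk (P.cons (P.cons (P.lf 384776430 0 0) (P.cons (P.lf 0 305156545 0) (P.cons (P.lf 55646032 0 0) (P.cons (P.lf 3544959 0 0) (P.cons (P.lf 0 626662 0) (P.cons (P.lf 0 10218 0) P.nil)))))) (P.cons (P.cons (P.lf 0 260428419 0) (P.cons (P.lf 44515041 0 0) (P.cons (P.lf 24006912 0 0) (P.cons (P.lf 505474 0 0) (P.cons (P.lf 0 241312 0) P.nil))))) (P.cons (P.cons (P.lf 0 179429307 0) (P.cons (P.lf 132259152 0 0) (P.cons (P.lf 0 5070259 0) (P.cons (P.lf 0 930099 0) P.nil)))) (P.cons (P.cons (P.lf 116714463 0 0) (P.cons (P.lf 0 2015244 0) (P.cons (P.lf 0 3926751 0) P.nil))) (P.cons (P.cons (P.lf 33184407 0 0) (P.cons (P.lf 0 18474052 0) P.nil)) (P.cons (P.cons (P.lf 0 18138436 0) P.nil) P.nil)))))) 18029852)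
 (EL.cons 2 (TM.mk (P.cons (P.cons (P.lf 303051465 0 0) (P.cons (P.lf 0 108937552 0) (P.cons (P.lf 0 11933606 0) (P.cons (P.lf 2723411 0 0) (P.cons (P.lf 91417 0 0) (P.cons (P.lf 0 16396 0) P.nil)))))) (P.cons (P.cons (P.lf 0 357140300 0) (P.cons (P.lf 64575343 0 0) (P.cons (P.lf 10682797 0 0) (P.cons (P.lf 0 1736656 0) (P.cons (P.lf 0 65902 0) P.nil))))) (P.cons (P.cons (P.lf 0 70553964 0) (P.cons (P.lf 53415517 0 0) (P.cons (P.lf 4264695 0 0) (P.cons (P.lf 0 1281600 0) P.nil)))) (P.cons (P.cons (P.lf 129826299 0 0) (P.cons (P.lf 0 2261891 0) (P.cons (P.lf 0 2759433 0) P.nil))) (P.cons (P.cons (P.lf 10962140 0 0) (P.cons (P.lf 0 6795523 0) P.nil)) (P.cons (P.cons (P.lf 0 15766644 0) P.nil) P.nil)))))) 11297063)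
 (EL.cons 6 (TM.mk (P.cons (P.cons (P.lf 701946774 0 0) (P.cons (P.lf 0 252327990 0) (P.cons (P.lf 0 27641370 0) (P.cons (P.lf 6308130 0 0) (P.cons (P.lf 211752 0 0) (P.cons (P.lf 0 37980 0) P.nil)))))) (P.cons (P.cons (P.lf 0 102397242 0) (P.cons (P.lf 0 110981580 0) (P.cons (P.lf 0 3798432 0) (P.cons (P.lf 2491242 0 0) (P.cons (P.lf 66006 0 0) P.nil))))) (P.cons (P.cons (P.lf 0 304233642 0) (P.cons (P.lf 21733098 0 0) (P.cons (P.lf 7337112 0 0) (P.cons (P.lf 0 711276 0) P.nil)))) (P.cons (P.cons (P.lf 4635636 0 0) (P.cons (P.lf 18089544 0 0) (P.cons (P.lf 864216 0 0) P.nil))) (P.cons (P.cons (P.lf 42495576 0 0) (P.cons (P.lf 161508 0 0) P.nil)) (P.cons (P.cons (P.lf 1901460 0 0) P.nil) P.nil)))))) 8669214)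
 EL.nil))))))
noncomputable def S198_256_438_512_3 : EL := (EL.cons 0 (TM.mk (P.cons (P.lf 375392995 0 0) (P.cons (P.lf 0 727079837 0) (P.cons (P.lf 317250402 0 0) (P.cons (P.lf 44091209 0 0) (P.cons (P.lf 0 8367597 0) (P.cons (P.lf 0 1467036 0) P.nil)))))) 311496)
 (EL.cons 1 (TM.mk (P.cons (P.lf 869508750 0 0) (P.cons (P.lf 0 786249082 0) (P.cons (P.lf 0 120498519 0) (P.cons (P.lf 33042157 0 0) (P.cons (P.lf 5010903 0 0) (P.cons (P.lf 0 683975 0) P.nil)))))) 177172)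
 (EL.cons 5 (TM.mk (P.cons (P.lf 2014010580 0 0) (P.cons (P.lf 258517274 0 0) (P.cons (P.lf 0 112800140 0) (P.cons (P.lf 0 15676876 0) (P.cons (P.lf 2975142 0 0) (P.cons (P.lf 521612 0 0) P.nil)))))) 117178)
 EL.nil)))
noncomputable def S198_256_438_512_4 : EL := (EL.cons 0 (TM.mk (P.cons (P.cons (P.lf 91741287 0 0) (P.cons (P.lf 0 36378857 0) (P.cons (P.lf 0 579016 0) (P.lf 193004 0 0)))) (P.cons (P.cons (P.lf 0 208735743 0) (P.cons (P.lf 63456027 0 0) (P.cons (P.lf 1009986 0 0) (P.lf 0 336661 0)))) (P.cons (P.cons (P.lf 111020900 0 0) (P.cons (P.lf 0 14346472 0) (P.cons (P.lf 0 228343 0) (P.lf 76113 0 0)))) (P.cons (P.cons (P.lf 41039623 0 0) (P.cons (P.lf 0 15050742 0) (P.cons (P.lf 0 239551 0) P.nil))) (P.cons (P.cons (P.lf 0 35949506 0) (P.cons (P.lf 1066552 0 0) P.nil)) (P.cons (P.cons (P.lf 0 2185437 0) P.nil) P.nil)))))) 6241636)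
 (EL.cons 1 (TM.mk (P.cons (P.cons (P.lf 212496913 0 0) (P.cons (P.lf 0 84262987 0) (P.cons (P.lf 0 1341155 0) (P.lf 447050 0 0)))) (P.cons (P.cons (P.lf 0 264061500 0) (P.cons (P.lf 59970474 0 0) (P.cons (P.lf 954508 0 0) (P.lf 0 318168 0)))) (P.cons (P.cons (P.lf 0 26136026 0) (P.cons (P.lf 32906205 0 0) (P.cons (P.lf 523743 0 0) (P.lf 0 174579 0)))) (P.cons (P.cons (P.lf 85188860 0 0) (P.cons (P.lf 0 5434850 0) (P.cons (P.lf 0 86501 0) P.nil))) (P.cons (P.cons (P.lf 827512 0 0) (P.cons (P.lf 0 3559348 0) P.nil)) (P.cons (P.cons (P.lf 0 8499148 0) P.nil) P.nil)))))) 3728285)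
 (EL.cons 5 (TM.mk (P.cons (P.cons (P.lf 492198648 0 0) (P.cons (P.lf 0 195175206 0) (P.cons (P.lf 0 3106470 0) (P.lf 1035488 0 0)))) (P.cons (P.cons (P.lf 0 103389180 0) (P.cons (P.lf 0 62631450 0) (P.cons (P.lf 0 996858 0) (P.lf 332284 0 0)))) (P.cons (P.cons (P.lf 0 191893202 0) (P.cons (P.lf 21298790 0 0) (P.cons (P.lf 338996 0 0) (P.lf 0 112998 0)))) (P.cons (P.cons (P.lf 13423826 0 0) (P.cons (P.lf 8930840 0 0) (P.cons (P.lf 142142 0 0) P.nil))) (P.cons (P.cons (P.lf 22761006 0 0) (P.cons (P.lf 0 966542 0) P.nil)) (P.cons (P.cons (P.lf 0 79528 0) P.nil) P.nil)))))) 2837154)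
 EL.nil)))
noncomputable def S198_256_438_512_5 : EL := (EL.cons 0 (TM.mk (P.cons (P.cons (P.lf 22420406 0 0) (P.cons (P.lf 0 17781062 0) (P.cons (P.lf 3242418 0 0) (P.cons (P.lf 206558 0 0) (P.cons (P.lf 0 36513 0) (P.cons (P.lf 0 594 0) P.nil)))))) (P.cons (P.cons (P.lf 0 58599776 0) (P.cons (P.lf 37033080 0 0) (P.cons (P.lf 0 4881229 0) (P.cons (P.lf 0 370620 0) (P.cons (P.lf 56661 0 0) P.nil))))) (P.cons (P.cons (P.lf 37884063 0 0) (P.cons (P.lf 0 12344349 0) (P.cons (P.lf 0 264580 0) (P.cons (P.lf 63323 0 0) P.nil)))) (P.cons (P.cons (P.lf 16859647 0 0) (P.cons (P.lf 0 14940240 0) (P.cons (P.lf 1906433 0 0) P.nil))) (P.cons (P.cons (P.lf 0 22356369 0) (P.cons (P.lf 6364910 0 0) P.nil)) (P.cons (P.cons (P.lf 0 31916 0) P.nil) P.nil)))))) 16569737)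
 (EL.cons 1 (TM.mk (P.cons (P.cons (P.lf 51931550 0 0) (P.cons (P.lf 0 41185610 0) (P.cons (P.lf 7510295 0 0) (P.cons (P.lf 478445 0 0) (P.cons (P.lf 0 84575 0) (P.cons (P.lf 0 1378 0) P.nil)))))) (P.cons (P.cons (P.lf 0 82107710 0) (P.cons (P.lf 43249886 0 0) (P.cons (P.lf 0 3551041 0) (P.cons (P.lf 0 364410 0) (P.cons (P.lf 43908 0 0) P.nil))))) (P.cons (P.cons (P.lf 369618 0 0) (P.cons (P.lf 18125319 0 0) (P.cons (P.lf 0 4654951 0) (P.cons (P.lf 0 253522 0) P.nil)))) (P.cons (P.cons (P.lf 44494781 0 0) (P.cons (P.lf 0 18810841 0) (P.cons (P.lf 0 74814 0) P.nil))) (P.cons (P.cons (P.lf 0 7445701 0) (P.cons (P.lf 0 4730206 0) P.nil)) (P.cons (P.cons (P.lf 0 9844629 0) P.nil) P.nil)))))) 15201755)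
 (EL.cons 5 (TM.mk (P.cons (P.cons (P.lf 120287108 0 0) (P.cons (P.lf 0 95396692 0) (P.cons (P.lf 17395816 0 0) (P.cons (P.lf 1108208 0 0) (P.cons (P.lf 0 195902 0) (P.cons (P.lf 0 3192 0) P.nil)))))) (P.cons (P.cons (P.lf 0 65973996 0) (P.cons (P.lf 1671028 0 0) (P.cons (P.lf 9737850 0 0) (P.cons (P.lf 300266 0 0) (P.cons (P.lf 0 100582 0) P.nil))))) (P.cons (P.cons (P.lf 0 73279656 0) (P.cons (P.lf 48475484 0 0) (P.cons (P.lf 0 1596012 0) (P.cons (P.lf 0 332548 0) P.nil)))) (P.cons (P.cons (P.lf 32910278 0 0) (P.cons (P.lf 4640336 0 0) (P.cons (P.lf 0 1986758 0) P.nil))) (P.cons (P.cons (P.lf 19010398 0 0) (P.cons (P.lf 0 8421096 0) P.nil)) (P.cons (P.cons (P.lf 0 6034796 0) P.nil) P.nil)))))) 11242436)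
 EL.nil)))
noncomputable def S198_256_438_512_6 : EL := (EL.cons 12 (TM.mk (P.lf 8589934592 0 0) 0)
 (EL.cons 3 (TM.mk (P.cons (P.lf 0 897858742 0) (P.cons (P.lf 869508750 0 0) (P.cons (P.lf 41629830 0 0) (P.cons (P.lf 0 12412950 0) (P.cons (P.lf 0 1049171 0) (P.cons (P.lf 162840 0 0) P.nil)))))) 27209)
 (EL.cons 7 (TM.mk (P.cons (P.lf 0 2079676607 0) (P.cons (P.lf 0 133473065 0) (P.cons (P.lf 62522105 0 0) (P.cons (P.lf 4081356 0 0) (P.cons (P.lf 0 858201 0) (P.cons (P.lf 0 91532 0) P.nil)))))) 18219)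
 EL.nil)))
noncomputable def S198_256_438_512_7 : EL := (EL.cons 12 (TM.mk (P.cons (P.cons (P.lf 2099271104 0 0) (P.cons (P.lf 0 832439656 0) (P.cons (P.lf 0 13249376 0) (P.lf 4416456 0 0)))) (P.cons (P.cons (P.lf 0 710425344 0) (P.cons (P.lf 0 160277232 0) (P.cons (P.lf 0 2551016 0) (P.lf 850336 0 0)))) (P.cons (P.cons (P.lf 0 609676422 0) (P.cons (P.lf 64791288 0 0) (P.cons (P.lf 1031232 0 0) (P.lf 0 343744 0)))) (P.cons (P.cons (P.lf 112062780 0 0) (P.cons (P.lf 14317864 0 0) (P.cons (P.lf 227880 0 0) P.nil))) (P.cons (P.cons (P.lf 39915838 0 0) (P.cons (P.lf 0 2349296 0) P.nil)) (P.cons (P.cons (P.lf 0 3426302 0) P.nil) P.nil)))))) 3040400)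
 (EL.cons 3 (TM.mk (P.cons (P.cons (P.lf 0 1376439723 0) (P.cons (P.lf 0 174020700 0) (P.cons (P.lf 0 2769768 0) (P.lf 923254 0 0)))) (P.cons (P.cons (P.lf 0 1736835293 0) (P.cons (P.lf 135020176 0 0) (P.cons (P.lf 2149024 0 0) (P.lf 0 716340 0)))) (P.cons (P.cons (P.lf 503625161 0 0) (P.cons (P.lf 54060992 0 0) (P.cons (P.lf 860448 0 0) (P.lf 0 286814 0)))) (P.cons (P.cons (P.lf 230353571 0 0) (P.cons (P.lf 0 10976074 0) (P.cons (P.lf 0 174696 0) P.nil))) (P.cons (P.cons (P.lf 0 23361691 0) (P.cons (P.lf 0 4684314 0) P.nil)) (P.cons (P.cons (P.lf 0 14245776 0) P.nil) P.nil)))))) 9047881)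
 (EL.cons 7 (TM.mk (P.cons (P.cons (P.lf 0 330640267 0) (P.cons (P.lf 241608133 0 0) (P.cons (P.lf 3845514 0 0) (P.lf 0 1281840 0)))) (P.cons (P.cons (P.lf 266611154 0 0) (P.cons (P.lf 0 20726135 0) (P.cons (P.lf 0 329879 0) (P.lf 109958 0 0)))) (P.cons (P.cons (P.lf 0 214960420 0) (P.cons (P.lf 2402369 0 0) (P.cons (P.lf 38235 0 0) (P.lf 0 12745 0)))) (P.cons (P.cons (P.lf 22300048 0 0) (P.cons (P.lf 7052409 0 0) (P.cons (P.lf 112245 0 0) P.nil))) (P.cons (P.cons (P.lf 27808763 0 0) (P.cons (P.lf 0 697462 0) P.nil)) (P.cons (P.cons (P.lf 0 1189330 0) P.nil) P.nil)))))) 6906348)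
 (EL.cons 10 (TM.mk (P.cons (P.cons (P.lf 0 2965920960 0) (P.cons (P.lf 0 109942644 0) (P.cons (P.lf 54476976 0 0) (P.cons (P.lf 494346 0 0) (P.lf 0 123585 0))))) (P.cons (P.cons (P.lf 0 380703957 0) (P.cons (P.lf 0 14112174 0) (P.cons (P.lf 6992634 0 0) (P.cons (P.lf 63453 0 0) (P.lf 0 15861 0))))) (P.cons (P.cons (P.lf 166114467 0 0) (P.cons (P.lf 6157635 0 0) (P.cons (P.lf 0 3051129 0) (P.cons (P.lf 0 27687 0) P.nil)))) (P.cons (P.cons (P.lf 23086458 0 0) (P.cons (P.lf 855783 0 0) (P.cons (P.lf 0 424041 0) P.nil))) (P.cons (P.cons (P.lf 0 4381323 0) (P.cons (P.lf 0 162408 0) P.nil)) (P.cons (P.cons (P.lf 0 768147 0) P.nil) P.nil)))))) 318138)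
 EL.nil))))
noncomputable def S198_256_438_512_8 : EL := (EL.cons 12 (TM.mk (P.cons (P.cons (P.lf 513035240 0 0) (P.cons (P.lf 0 406875394 0) (P.cons (P.lf 74194710 0 0) (P.cons (P.lf 4726612 0 0) (P.cons (P.lf 0 835550 0) (P.cons (P.lf 0 13624 0) P.nil)))))) (P.cons (P.cons (P.lf 0 347237892 0) (P.cons (P.lf 59353388 0 0) (P.cons (P.lf 32009216 0 0) (P.cons (P.lf 673966 0 0) (P.cons (P.lf 0 321750 0) P.nil))))) (P.cons (P.cons (P.lf 0 239239076 0) (P.cons (P.lf 176345536 0 0) (P.cons (P.lf 0 6760346 0) (P.cons (P.lf 0 1240132 0) P.nil)))) (P.cons (P.cons (P.lf 155619284 0 0) (P.cons (P.lf 0 2686992 0) (P.cons (P.lf 0 5235668 0) P.nil))) (P.cons (P.cons (P.lf 44245876 0 0) (P.cons (P.lf 0 24632070 0) P.nil)) (P.cons (P.cons (P.lf 0 24184582 0) P.nil) P.nil)))))) 24039774)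
 (EL.cons 3 (TM.mk (P.cons (P.cons (P.lf 0 619144073 0) (P.cons (P.lf 139192688 0 0) (P.cons (P.lf 44375745 0 0) (P.cons (P.lf 603594 0 0) (P.cons (P.lf 0 436676 0) (P.cons (P.lf 0 7121 0) P.nil)))))) (P.cons (P.cons (P.lf 0 709472239 0) (P.cons (P.lf 530162716 0 0) (P.cons (P.lf 0 16155833 0) (P.cons (P.lf 0 3595632 0) (P.cons (P.lf 254730 0 0) P.nil))))) (P.cons (P.cons (P.lf 736490672 0 0) (P.cons (P.lf 0 10372335 0) (P.cons (P.lf 0 22842272 0) (P.cons (P.lf 0 666840 0) P.nil)))) (P.cons (P.cons (P.lf 282826495 0 0) (P.cons (P.lf 0 151250613 0) (P.cons (P.lf 0 449034 0) P.nil))) (P.cons (P.cons (P.lf 0 189527724 0) (P.cons (P.lf 0 10871675 0) P.nil)) (P.cons (P.cons (P.lf 0 45859458 0) P.nil) P.nil)))))) 87307069)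
 (EL.cons 7 (TM.mk (P.cons (P.cons (P.lf 0 37399559 0) (P.cons (P.lf 83668722 0 0) (P.cons (P.lf 0 25965302 0) (P.cons (P.lf 0 1312834 0) (P.cons (P.lf 282727 0 0) (P.cons (P.lf 4606 0 0) P.nil)))))) (P.cons (P.cons (P.lf 108906823 0 0) (P.cons (P.lf 0 81382092 0) (P.cons (P.lf 2479984 0 0) (P.cons (P.lf 551942 0 0) (P.cons (P.lf 0 39098 0) P.nil))))) (P.cons (P.cons (P.lf 0 169283099 0) (P.cons (P.lf 43609953 0 0) (P.cons (P.lf 2225951 0 0) (P.cons (P.lf 0 182604 0) P.nil)))) (P.cons (P.cons (P.lf 36225922 0 0) (P.cons (P.lf 20765944 0 0) (P.cons (P.lf 0 2303566 0) P.nil))) (P.cons (P.cons (P.lf 59388803 0 0) (P.cons (P.lf 0 15896653 0) P.nil)) (P.cons (P.cons (P.lf 0 17429734 0) P.nil) P.nil)))))) 41817380)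
 (EL.cons 10 (TM.mk (P.cons (P.cons (P.lf 0 1449666954 0) (P.cons (P.lf 521110092 0 0) (P.cons (P.lf 57085218 0 0) (P.cons (P.lf 0 13027620 0) (P.cons (P.lf 0 437322 0) (P.cons (P.lf 78444 0 0) P.nil)))))) (P.cons (P.cons (P.lf 304510956 0 0) (P.cons (P.lf 195755490 0 0) (P.cons (P.lf 4180854 0 0) (P.cons (P.lf 0 4308834 0) (P.cons (P.lf 0 108258 0) P.nil))))) (P.cons (P.cons (P.lf 565180812 0 0) (P.cons (P.lf 0 41780598 0) (P.cons (P.lf 0 13704834 0) (P.cons (P.lf 1353822 0 0) P.nil)))) (P.cons (P.cons (P.lf 0 39537042 0) (P.cons (P.lf 0 27769482 0) (P.cons (P.lf 0 667500 0) P.nil))) (P.cons (P.cons (P.lf 0 67037718 0) (P.cons (P.lf 361746 0 0) P.nil)) (P.cons (P.cons (P.lf 234240 0 0) P.nil) P.nil)))))) 12105978)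
 EL.nil))))
noncomputable def S198_256_438_512_9 : EL := (EL.cons 3 (TM.mk (P.cons (P.lf 0 897858742 0) (P.cons (P.lf 869508750 0 0) (P.cons (P.lf 41629830 0 0) (P.cons (P.lf 0 12412950 0) (P.cons (P.lf 0 1049171 0) (P.cons (P.lf 162840 0 0) P.nil)))))) 27209)
 (EL.cons 7 (TM.mk (P.cons (P.lf 0 2079676607 0) (P.cons (P.lf 0 133473065 0) (P.cons (P.lf 62522105 0 0) (P.cons (P.lf 4081356 0 0) (P.cons (P.lf 0 858201 0) (P.cons (P.lf 0 91532 0) P.nil)))))) 18219)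
 EL.nil))
noncomputable def S198_256_438_512_10 : EL := (EL.cons 3 (TM.mk (P.cons (P.cons (P.lf 0 219425292 0) (P.cons (P.lf 87010350 0 0) (P.cons (P.lf 1384884 0 0) (P.lf 0 461627 0)))) (P.cons (P.cons (P.lf 286753777 0 0) (P.cons (P.lf 0 67510088 0) (P.cons (P.lf 0 1074512 0) (P.lf 358170 0 0)))) (P.cons (P.cons (P.lf 1987739 0 0) (P.cons (P.lf 0 27030496 0) (P.cons (P.lf 0 430224 0) (P.lf 143407 0 0)))) (P.cons (P.cons (P.lf 0 79903816 0) (P.cons (P.lf 5488037 0 0) (P.cons (P.lf 87348 0 0) P.nil))) (P.cons (P.cons (P.lf 4986770 0 0) (P.cons (P.lf 2342157 0 0) P.nil)) (P.cons (P.cons (P.lf 5949258 0 0) P.nil) P.nil)))))) 2135562)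
 (EL.cons 7 (TM.mk (P.cons (P.cons (P.lf 0 508246594 0) (P.cons (P.lf 201538819 0 0) (P.cons (P.lf 3207756 0 0) (P.lf 0 1069251 0)))) (P.cons (P.cons (P.lf 139379270 0 0) (P.cons (P.lf 51738820 0 0) (P.cons (P.lf 823489 0 0) (P.lf 0 274495 0)))) (P.cons (P.cons (P.lf 173924873 0 0) (P.cons (P.lf 0 19254874 0) (P.cons (P.lf 0 306465 0) (P.lf 102155 0 0)))) (P.cons (P.cons (P.lf 0 21831176 0) (P.cons (P.lf 0 6035292 0) (P.cons (P.lf 0 96057 0) P.nil))) (P.cons (P.cons (P.lf 0 16389967 0) (P.cons (P.lf 824903 0 0) P.nil)) (P.cons (P.cons (P.lf 783887 0 0) P.nil) P.nil)))))) 1617728)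
 EL.nil))
noncomputable def S198_256_438_512_11 : EL := (EL.cons 3 (TM.mk (P.cons (P.cons (P.lf 0 53624759 0) (P.cons (P.lf 42528452 0 0) (P.cons (P.lf 0 7755165 0) (P.cons (P.lf 0 494046 0) (P.cons (P.lf 87334 0 0) (P.cons (P.lf 1423 0 0) P.nil)))))) (P.cons (P.cons (P.lf 88226423 0 0) (P.cons (P.lf 0 47389496 0) (P.cons (P.lf 4164547 0 0) (P.cons (P.lf 408000 0 0) (P.cons (P.lf 0 50946 0) P.nil))))) (P.cons (P.cons (P.lf 0 7656160 0) (P.cons (P.lf 0 14396295 0) (P.cons (P.lf 4306300 0 0) (P.cons (P.lf 220752 0 0) P.nil)))) (P.cons (P.cons (P.lf 0 42907001 0) (P.cons (P.lf 19006887 0 0) (P.cons (P.lf 0 89142 0) P.nil))) (P.cons (P.cons (P.lf 10407330 0 0) (P.cons (P.lf 3121225 0 0) P.nil)) (P.cons (P.cons (P.lf 8158668 0 0) P.nil) P.nil)))))) 12103125)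
 (EL.cons 7 (TM.mk (P.cons (P.cons (P.lf 0 124209023 0) (P.cons (P.lf 98507064 0 0) (P.cons (P.lf 0 17963000 0) (P.cons (P.lf 0 1144342 0) (P.cons (P.lf 202291 0 0) (P.cons (P.lf 3298 0 0) P.nil)))))) (P.cons (P.cons (P.lf 76096753 0 0) (P.cons (P.lf 0 8047668 0) (P.cons (P.lf 0 8902490 0) (P.cons (P.lf 0 236614 0) (P.cons (P.lf 90880 0 0) P.nil))))) (P.cons (P.cons (P.lf 67050901 0 0) (P.cons (P.lf 0 46578057 0) (P.cons (P.lf 1679381 0 0) (P.cons (P.lf 324174 0 0) P.nil)))) (P.cons (P.cons (P.lf 0 36242648 0) (P.cons (P.lf 0 1850888 0) (P.cons (P.lf 1640864 0 0) P.nil))) (P.cons (P.cons (P.lf 0 15087811 0) (P.cons (P.lf 7357715 0 0) P.nil)) (P.cons (P.cons (P.lf 6215966 0 0) P.nil) P.nil)))))) 8388496)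
 EL.nil))
noncomputable def S198_256_438_512_12 : EL := (EL.cons 4 (TM.mk (P.cons (P.lf 897858742 0 0) (P.cons (P.lf 0 869508750 0) (P.cons (P.lf 0 41629830 0) (P.cons (P.lf 12412950 0 0) (P.cons (P.lf 1049171 0 0) (P.cons (P.lf 0 162840 0) P.nil)))))) 27209)
 (EL.cons 8 (TM.mk (P.cons (P.lf 2079676607 0 0) (P.cons (P.lf 133473065 0 0) (P.cons (P.lf 0 62522105 0) (P.cons (P.lf 0 4081356 0) (P.cons (P.lf 858201 0 0) (P.cons (P.lf 91532 0 0) P.nil)))))) 18219)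
 EL.nil))
noncomputable def S198_256_438_512_13 : EL := (EL.cons 4 (TM.mk (P.cons (P.cons (P.lf 219425292 0 0) (P.cons (P.lf 0 87010350 0) (P.cons (P.lf 0 1384884 0) (P.lf 461627 0 0)))) (P.cons (P.cons (P.lf 0 286753777 0) (P.cons (P.lf 67510088 0 0) (P.cons (P.lf 1074512 0 0) (P.lf 0 358170 0)))) (P.cons (P.cons (P.lf 0 1987739 0) (P.cons (P.lf 27030496 0 0) (P.cons (P.lf 430224 0 0) (P.lf 0 143407 0)))) (P.cons (P.cons (P.lf 79903816 0 0) (P.cons (P.lf 0 5488037 0) (P.cons (P.lf 0 87348 0) P.nil))) (P.cons (P.cons (P.lf 0 4986770 0) (P.cons (P.lf 0 2342157 0) P.nil)) (P.cons (P.cons (P.lf 0 5949258 0) P.nil) P.nil)))))) 2135562)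
 (EL.cons 8 (TM.mk (P.cons (P.cons (P.lf 508246594 0 0) (P.cons (P.lf 0 201538819 0) (P.cons (P.lf 0 3207756 0) (P.lf 1069251 0 0)))) (P.cons (P.cons (P.lf 0 139379270 0) (P.cons (P.lf 0 51738820 0) (P.cons (P.lf 0 823489 0) (P.lf 274495 0 0)))) (P.cons (P.cons (P.lf 0 173924873 0) (P.cons (P.lf 19254874 0 0) (P.cons (P.lf 306465 0 0) (P.lf 0 102155 0)))) (P.cons (P.cons (P.lf 21831176 0 0) (P.cons (P.lf 6035292 0 0) (P.cons (P.lf 96057 0 0) P.nil))) (P.cons (P.cons (P.lf 16389967 0 0) (P.cons (P.lf 0 824903 0) P.nil)) (P.cons (P.cons (P.lf 0 783887 0) P.nil) P.nil)))))) 1617728)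
 EL.nil))
noncomputable def S198_256_438_512_14 : EL := (EL.cons 4 (TM.mk (P.cons (P.cons (P.lf 53624759 0 0) (P.cons (P.lf 0 42528452 0) (P.cons (P.lf 7755165 0 0) (P.cons (P.lf 494046 0 0) (P.cons (P.lf 0 87334 0) (P.cons (P.lf 0 1423 0) P.nil)))))) (P.cons (P.cons (P.lf 0 88226423 0) (P.cons (P.lf 47389496 0 0) (P.cons (P.lf 0 4164547 0) (P.cons (P.lf 0 408000 0) (P.cons (P.lf 50946 0 0) P.nil))))) (P.cons (P.cons (P.lf 7656160 0 0) (P.cons (P.lf 14396295 0 0) (P.cons (P.lf 0 4306300 0) (P.cons (P.lf 0 220752 0) P.nil)))) (P.cons (P.cons (P.lf 42907001 0 0) (P.cons (P.lf 0 19006887 0) (P.cons (P.lf 89142 0 0) P.nil))) (P.cons (P.cons (P.lf 0 10407330 0) (P.cons (P.lf 0 3121225 0) P.nil)) (P.cons (P.cons (P.lf 0 8158668 0) P.nil) P.nil)))))) 12103125)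
 (EL.cons 8 (TM.mk (P.cons (P.cons (P.lf 124209023 0 0) (P.cons (P.lf 0 98507064 0) (P.cons (P.lf 17963000 0 0) (P.cons (P.lf 1144342 0 0) (P.cons (P.lf 0 202291 0) (P.cons (P.lf 0 3298 0) P.nil)))))) (P.cons (P.cons (P.lf 0 76096753 0) (P.cons (P.lf 8047668 0 0) (P.cons (P.lf 8902490 0 0) (P.cons (P.lf 236614 0 0) (P.cons (P.lf 0 90880 0) P.nil))))) (P.cons (P.cons (P.lf 0 67050901 0) (P.cons (P.lf 46578057 0 0) (P.cons (P.lf 0 1679381 0) (P.cons (P.lf 0 324174 0) P.nil)))) (P.cons (P.cons (P.lf 36242648 0 0) (P.cons (P.lf 1850888 0 0) (P.cons (P.lf 0 1640864 0) P.nil))) (P.cons (P.cons (P.lf 15087811 0 0) (P.cons (P.lf 0 7357715 0) P.nil)) (P.cons (P.cons (P.lf 0 6215966 0) P.nil) P.nil)))))) 8388496)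
 EL.nil))
noncomputable def S198_256_438_512_15 : EL := (EL.cons 4 (TM.mk (P.cons (P.lf 0 200209597 0) (P.cons (P.lf 387775913 0 0) (P.cons (P.lf 0 169200214 0) (P.cons (P.lf 0 23515311 0) (P.cons (P.lf 4462718 0 0) (P.cons (P.lf 782419 0 0) P.nil)))))) 166134)
 (EL.cons 8 (TM.mk (P.cons (P.lf 0 463738000 0) (P.cons (P.lf 419332844 0 0) (P.cons (P.lf 64265877 0 0) (P.cons (P.lf 0 17622484 0) (P.cons (P.lf 0 2672482 0) (P.cons (P.lf 364787 0 0) P.nil)))))) 94488)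
 EL.nil))
noncomputable def S198_256_438_512_16 : EL := (EL.cons 4 (TM.mk (P.cons (P.cons (P.lf 0 48928686 0) (P.cons (P.lf 19402057 0 0) (P.cons (P.lf 308808 0 0) (P.lf 0 102935 0)))) (P.cons (P.cons (P.lf 111325729 0 0) (P.cons (P.lf 0 33843214 0) (P.cons (P.lf 0 538659 0) (P.lf 179552 0 0)))) (P.cons (P.cons (P.lf 0 59211147 0) (P.cons (P.lf 7651452 0 0) (P.cons (P.lf 121783 0 0) (P.lf 0 40593 0)))) (P.cons (P.cons (P.lf 0 21887799 0) (P.cons (P.lf 8027062 0 0) (P.cons (P.lf 127760 0 0) P.nil))) (P.cons (P.cons (P.lf 19173070 0 0) (P.cons (P.lf 0 568828 0) P.nil)) (P.cons (P.cons (P.lf 1165566 0 0) P.nil) P.nil)))))) 3328881)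
 (EL.cons 8 (TM.mk (P.cons (P.cons (P.lf 0 113331687 0) (P.cons (P.lf 44940260 0 0) (P.cons (P.lf 715283 0 0) (P.lf 0 238427 0)))) (P.cons (P.cons (P.lf 140832800 0 0) (P.cons (P.lf 0 31984253 0) (P.cons (P.lf 0 509071 0) (P.lf 169690 0 0)))) (P.cons (P.cons (P.lf 13939214 0 0) (P.cons (P.lf 0 17549976 0) (P.cons (P.lf 0 279330 0) (P.lf 93109 0 0)))) (P.cons (P.cons (P.lf 0 45434059 0) (P.cons (P.lf 2898587 0 0) (P.cons (P.lf 46134 0 0) P.nil))) (P.cons (P.cons (P.lf 0 441340 0) (P.cons (P.lf 1898319 0 0) P.nil)) (P.cons (P.cons (P.lf 4532879 0 0) P.nil) P.nil)))))) 1988409)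
 EL.nil))
noncomputable def S198_256_438_512_17 : EL := (EL.cons 4 (TM.mk (P.cons (P.cons (P.lf 0 11957550 0) (P.cons (P.lf 9483233 0 0) (P.cons (P.lf 0 1729290 0) (P.cons (P.lf 0 110164 0) (P.cons (P.lf 19473 0 0) (P.cons (P.lf 316 0 0) P.nil)))))) (P.cons (P.cons (P.lf 31253214 0 0) (P.cons (P.lf 0 19750976 0) (P.cons (P.lf 2603322 0 0) (P.cons (P.lf 197664 0 0) (P.cons (P.lf 0 30219 0) P.nil))))) (P.cons (P.cons (P.lf 0 20204834 0) (P.cons (P.lf 6583652 0 0) (P.cons (P.lf 141109 0 0) (P.cons (P.lf 0 33772 0) P.nil)))) (P.cons (P.cons (P.lf 0 8991811 0) (P.cons (P.lf 7968128 0 0) (P.cons (P.lf 0 1016764 0) P.nil))) (P.cons (P.cons (P.lf 11923396 0 0) (P.cons (P.lf 0 3394619 0) P.nil)) (P.cons (P.cons (P.lf 17022 0 0) P.nil) P.nil)))))) 8837203)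
 (EL.cons 8 (TM.mk (P.cons (P.cons (P.lf 0 27696827 0) (P.cons (P.lf 21965659 0 0) (P.cons (P.lf 0 4005491 0) (P.cons (P.lf 0 255171 0) (P.cons (P.lf 45107 0 0) (P.cons (P.lf 735 0 0) P.nil)))))) (P.cons (P.cons (P.lf 43790779 0 0) (P.cons (P.lf 0 23066606 0) (P.cons (P.lf 1893889 0 0) (P.cons (P.lf 194352 0 0) (P.cons (P.lf 0 23418 0) P.nil))))) (P.cons (P.cons (P.lf 0 197130 0) (P.cons (P.lf 0 9666837 0) (P.cons (P.lf 2482641 0 0) (P.cons (P.lf 135212 0 0) P.nil)))) (P.cons (P.cons (P.lf 0 23730550 0) (P.cons (P.lf 10032449 0 0) (P.cons (P.lf 39901 0 0) P.nil))) (P.cons (P.cons (P.lf 3971041 0 0) (P.cons (P.lf 2522777 0 0) P.nil)) (P.cons (P.cons (P.lf 5250469 0 0) P.nil) P.nil)))))) 8107591)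
 EL.nil))
noncomputable def S198_256_438_512_18 : EL := (EL.cons 4 (TM.mk (P.cons (P.lf 44643862 0 0) (P.cons (P.lf 0 129702684 0) (P.cons (P.lf 119397478 0 0) (P.cons (P.lf 0 26667962 0) (P.cons (P.lf 0 8965736 0) (P.cons (P.lf 958581 0 0) P.nil)))))) 467642)
 (EL.cons 8 (TM.mk (P.cons (P.lf 103406910 0 0) (P.cons (P.lf 0 193647023 0) (P.cons (P.lf 71427862 0 0) (P.cons (P.lf 23572483 0 0) (P.cons (P.lf 0 3717003 0) (P.cons (P.lf 0 1166783 0) P.nil)))))) 289701)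
 EL.nil))
noncomputable def S198_256_438_512_19 : EL := (EL.cons 4 (TM.mk (P.cons (P.cons (P.lf 10910393 0 0) (P.cons (P.lf 0 4326379 0) (P.cons (P.lf 0 68859 0) (P.lf 22952 0 0)))) (P.cons (P.cons (P.lf 0 35389935 0) (P.cons (P.lf 11736324 0 0) (P.cons (P.lf 186798 0 0) (P.lf 0 62265 0)))) (P.cons (P.cons (P.lf 36737582 0 0) (P.cons (P.lf 0 8813835 0) (P.cons (P.lf 0 140283 0) (P.lf 46760 0 0)))) (P.cons (P.cons (P.lf 0 6603855 0) (P.cons (P.lf 0 547340 0) (P.cons (P.lf 0 8711 0) P.nil))) (P.cons (P.cons (P.lf 0 9944497 0) (P.cons (P.lf 2038626 0 0) P.nil)) (P.cons (P.cons (P.lf 3805674 0 0) P.nil) P.nil)))))) 3461683)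
 (EL.cons 8 (TM.mk (P.cons (P.cons (P.lf 25271337 0 0) (P.cons (P.lf 0 10021032 0) (P.cons (P.lf 0 159497 0) (P.lf 53165 0 0)))) (P.cons (P.cons (P.lf 0 55877083 0) (P.cons (P.lf 16836645 0 0) (P.cons (P.lf 267977 0 0) (P.lf 0 89325 0)))) (P.cons (P.cons (P.lf 26132148 0 0) (P.cons (P.lf 0 2528809 0) (P.cons (P.lf 0 40249 0) (P.lf 13416 0 0)))) (P.cons (P.cons (P.lf 14946674 0 0) (P.cons (P.lf 0 4905392 0) (P.cons (P.lf 0 78075 0) P.nil))) (P.cons (P.cons (P.lf 0 9973349 0) (P.cons (P.lf 108080 0 0) P.nil)) (P.cons (P.cons (P.lf 0 1660059 0) P.nil) P.nil)))))) 2506160)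
 EL.nil))
noncomputable def S198_256_438_512_20 : EL := (EL.cons 4 (TM.mk (P.cons (P.cons (P.lf 2666361 0 0) (P.cons (P.lf 0 2114624 0) (P.cons (P.lf 385606 0 0) (P.cons (P.lf 24564 0 0) (P.cons (P.lf 0 4342 0) (P.cons (P.lf 0 70 0) P.nil)))))) (P.cons (P.cons (P.lf 0 9551188 0) (P.cons (P.lf 6452039 0 0) (P.cons (P.lf 0 953934 0) (P.cons (P.lf 0 67865 0) (P.cons (P.lf 10943 0 0) P.nil))))) (P.cons (P.cons (P.lf 11130729 0 0) (P.cons (P.lf 0 5635135 0) (P.cons (P.lf 512829 0 0) (P.cons (P.lf 49076 0 0) P.nil)))) (P.cons (P.cons (P.lf 0 1998098 0) (P.cons (P.lf 0 588510 0) (P.cons (P.lf 289441 0 0) P.nil))) (P.cons (P.cons (P.lf 0 4902608 0) (P.cons (P.lf 2604111 0 0) P.nil)) (P.cons (P.cons (P.lf 2531694 0 0) P.nil) P.nil)))))) 5979277)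
 (EL.cons 8 (TM.mk (P.cons (P.cons (P.lf 6175994 0 0) (P.cons (P.lf 0 4898026 0) (P.cons (P.lf 893166 0 0) (P.cons (P.lf 56899 0 0) (P.cons (P.lf 0 10058 0) (P.cons (P.lf 0 163 0) P.nil)))))) (P.cons (P.cons (P.lf 0 15745701 0) (P.cons (P.lf 9886892 0 0) (P.cons (P.lf 0 1287275 0) (P.cons (P.lf 0 98440 0) (P.cons (P.lf 14962 0 0) P.nil))))) (P.cons (P.cons (P.lf 9213995 0 0) (P.cons (P.lf 0 2598448 0) (P.cons (P.lf 0 186029 0) (P.cons (P.lf 9180 0 0) P.nil)))) (P.cons (P.cons (P.lf 5787133 0 0) (P.cons (P.lf 0 4630793 0) (P.cons (P.lf 559144 0 0) P.nil))) (P.cons (P.cons (P.lf 0 6139794 0) (P.cons (P.lf 1569354 0 0) P.nil)) (P.cons (P.cons (P.lf 0 570523 0) P.nil) P.nil)))))) 5603869)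
 EL.nil))
noncomputable def S198_256_438_512_21 : EL := (EL.cons 4 (TM.mk (P.cons (P.cons (P.lf 1157014431 0 0) (P.cons (P.lf 261031050 0 0) (P.cons (P.lf 4154652 0 0) (P.lf 0 1384881 0)))) (P.cons (P.cons (P.lf 2023589070 0 0) (P.cons (P.lf 0 202530264 0) (P.cons (P.lf 0 3223536 0) (P.lf 1074510 0 0)))) (P.cons (P.cons (P.lf 0 501637422 0) (P.cons (P.lf 0 81091488 0) (P.cons (P.lf 0 1290672 0) (P.lf 430221 0 0)))) (P.cons (P.cons (P.lf 0 310257387 0) (P.cons (P.lf 16464111 0 0) (P.cons (P.lf 262044 0 0) P.nil))) (P.cons (P.cons (P.lf 28348461 0 0) (P.cons (P.lf 7026471 0 0) P.nil)) (P.cons (P.cons (P.lf 20195034 0 0) P.nil) P.nil)))))) 6912300)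
 (EL.cons 8 (TM.mk (P.cons (P.cons (P.lf 0 177606327 0) (P.cons (P.lf 0 40069314 0) (P.cons (P.lf 0 637758 0) (P.lf 212589 0 0)))) (P.cons (P.cons (P.lf 0 127231884 0) (P.cons (P.lf 72464955 0 0) (P.cons (P.lf 1153368 0 0) (P.lf 0 384453 0)))) (P.cons (P.cons (P.lf 388885293 0 0) (P.cons (P.lf 0 21657243 0) (P.cons (P.lf 0 344700 0) (P.lf 114900 0 0)))) (P.cons (P.cons (P.lf 0 44131224 0) (P.cons (P.lf 0 13087701 0) (P.cons (P.lf 0 208302 0) P.nil))) (P.cons (P.cons (P.lf 0 44198730 0) (P.cons (P.lf 1522365 0 0) P.nil)) (P.cons (P.cons (P.lf 1973217 0 0) P.nil) P.nil)))))) 5288601)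
 (EL.cons 11 (TM.mk (P.cons (P.cons (P.lf 2965920960 0 0) (P.cons (P.lf 109942644 0 0) (P.cons (P.lf 0 54476976 0) (P.cons (P.lf 0 494346 0) (P.lf 123585 0 0))))) (P.cons (P.cons (P.lf 380703957 0 0) (P.cons (P.lf 14112174 0 0) (P.cons (P.lf 0 6992634 0) (P.cons (P.lf 0 63453 0) (P.lf 15861 0 0))))) (P.cons (P.cons (P.lf 0 166114467 0) (P.cons (P.lf 0 6157635 0) (P.cons (P.lf 3051129 0 0) (P.cons (P.lf 27687 0 0) P.nil)))) (P.cons (P.cons (P.lf 0 23086458 0) (P.cons (P.lf 0 855783 0) (P.cons (P.lf 424041 0 0) P.nil))) (P.cons (P.cons (P.lf 4381323 0 0) (P.cons (P.lf 162408 0 0) P.nil)) (P.cons (P.cons (P.lf 768147 0 0) P.nil) P.nil)))))) 318138)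
 EL.nil)))
noncomputable def S198_256_438_512_22 : EL := (EL.cons 4 (TM.mk (P.cons (P.cons (P.lf 282759657 0 0) (P.cons (P.lf 0 48332118 0) (P.cons (P.lf 0 26065455 0) (P.cons (P.lf 0 548820 0) (P.cons (P.lf 262005 0 0) (P.cons (P.lf 4272 0 0) P.nil)))))) (P.cons (P.cons (P.lf 398849331 0 0) (P.cons (P.lf 0 288776106 0) (P.cons (P.lf 10160190 0 0) (P.cons (P.lf 2001816 0 0) (P.cons (P.lf 0 152838 0) P.nil))))) (P.cons (P.cons (P.lf 0 372073416 0) (P.cons (P.lf 0 2011980 0) (P.cons (P.lf 13574286 0 0) (P.cons (P.lf 443796 0 0) P.nil)))) (P.cons (P.cons (P.lf 0 162866748 0) (P.cons (P.lf 85128750 0 0) (P.cons (P.lf 179946 0 0) P.nil))) (P.cons (P.cons (P.lf 99967527 0 0) (P.cons (P.lf 6996450 0 0) P.nil)) (P.cons (P.cons (P.lf 27009063 0 0) P.nil) P.nil)))))) 37601961)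
 (EL.cons 8 (TM.mk (P.cons (P.cons (P.lf 0 43404732 0) (P.cons (P.lf 7419171 0 0) (P.cons (P.lf 4001151 0 0) (P.cons (P.lf 84246 0 0) (P.cons (P.lf 0 40218 0) (P.cons (P.lf 0 654 0) P.nil)))))) (P.cons (P.cons (P.lf 0 16405035 0) (P.cons (P.lf 36667212 0 0) (P.cons (P.lf 0 5691237 0) (P.cons (P.lf 0 394278 0) (P.cons (P.lf 64989 0 0) P.nil))))) (P.cons (P.cons (P.lf 118167000 0 0) (P.cons (P.lf 0 45094005 0) (P.cons (P.lf 0 273285 0) (P.cons (P.lf 253389 0 0) P.nil)))) (P.cons (P.cons (P.lf 0 36234285 0) (P.cons (P.lf 0 11308416 0) (P.cons (P.lf 1972215 0 0) P.nil))) (P.cons (P.cons (P.lf 0 37238307 0) (P.cons (P.lf 11627184 0 0) P.nil)) (P.cons (P.cons (P.lf 11822850 0 0) P.nil) P.nil)))))) 16714431)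
 (EL.cons 11 (TM.mk (P.cons (P.cons (P.lf 724833477 0 0) (P.cons (P.lf 0 260555046 0) (P.cons (P.lf 0 28542609 0) (P.cons (P.lf 6513810 0 0) (P.cons (P.lf 218661 0 0) (P.cons (P.lf 0 39222 0) P.nil)))))) (P.cons (P.cons (P.lf 0 152255478 0) (P.cons (P.lf 0 97877745 0) (P.cons (P.lf 0 2090427 0) (P.cons (P.lf 2154417 0 0) (P.cons (P.lf 54129 0 0) P.nil))))) (P.cons (P.cons (P.lf 0 282590406 0) (P.cons (P.lf 20890299 0 0) (P.cons (P.lf 6852417 0 0) (P.cons (P.lf 0 676911 0) P.nil)))) (P.cons (P.cons (P.lf 19768521 0 0) (P.cons (P.lf 13884741 0 0) (P.cons (P.lf 333750 0 0) P.nil))) (P.cons (P.cons (P.lf 33518859 0 0) (P.cons (P.lf 0 180873 0) P.nil)) (P.cons (P.cons (P.lf 0 117120 0) P.nil) P.nil)))))) 6052989)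
 EL.nil)))
noncomputable def S198_256_438_512_23 : EL := (EL.cons 4 (TM.mk (P.cons (P.cons (P.lf 0 257997591 0) (P.cons (P.lf 0 58206171 0) (P.cons (P.lf 0 926427 0) (P.lf 308808 0 0)))) (P.cons (P.cons (P.lf 0 201379995 0) (P.cons (P.lf 101529645 0 0) (P.cons (P.lf 1615977 0 0) (P.lf 0 538656 0)))) (P.cons (P.cons (P.lf 560803776 0 0) (P.cons (P.lf 0 22954356 0) (P.cons (P.lf 0 365349 0) (P.lf 121782 0 0)))) (P.cons (P.cons (P.lf 0 21788256 0) (P.cons (P.lf 0 24081186 0) (P.cons (P.lf 0 383280 0) P.nil))) (P.cons (P.cons (P.lf 0 85045923 0) (P.cons (P.lf 1706484 0 0) P.nil)) (P.cons (P.cons (P.lf 0 523251 0) P.nil) P.nil)))))) 11863929)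
 (EL.cons 8 (TM.mk (P.cons (P.cons (P.lf 39603657 0 0) (P.cons (P.lf 8934879 0 0) (P.cons (P.lf 142209 0 0) (P.lf 0 47403 0)))) (P.cons (P.cons (P.lf 0 9982284 0) (P.cons (P.lf 0 24811404 0) (P.cons (P.lf 0 394905 0) (P.lf 131634 0 0)))) (P.cons (P.cons (P.lf 0 116027148 0) (P.cons (P.lf 20063412 0 0) (P.cons (P.lf 319332 0 0) (P.lf 0 106443 0)))) (P.cons (P.cons (P.lf 93050484 0 0) (P.cons (P.lf 0 885666 0) (P.cons (P.lf 0 14097 0) P.nil))) (P.cons (P.cons (P.lf 4784916 0 0) (P.cons (P.lf 0 3602550 0) P.nil)) (P.cons (P.cons (P.lf 0 11613633 0) P.nil) P.nil)))))) 4446558)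
 (EL.cons 11 (TM.mk (P.cons (P.cons (P.lf 0 661357755 0) (P.cons (P.lf 0 24515628 0) (P.cons (P.lf 12147582 0 0) (P.cons (P.lf 110232 0 0) (P.lf 0 27555 0))))) (P.cons (P.cons (P.lf 555583797 0 0) (P.cons (P.lf 20594733 0 0) (P.cons (P.lf 0 10204764 0) (P.cons (P.lf 0 92601 0) (P.lf 23148 0 0))))) (P.cons (P.cons (P.lf 149916492 0 0) (P.cons (P.lf 5557197 0 0) (P.cons (P.lf 0 2753610 0) (P.cons (P.lf 0 24987 0) P.nil)))) (P.cons (P.cons (P.lf 0 35930868 0) (P.cons (P.lf 0 1331907 0) (P.cons (P.lf 659964 0 0) P.nil))) (P.cons (P.cons (P.lf 0 9626253 0) (P.cons (P.lf 0 356829 0) P.nil)) (P.cons (P.cons (P.lf 1068993 0 0) P.nil) P.nil)))))) 821514)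
 EL.nil)))
noncomputable def S198_256_438_512_24 : EL := (EL.cons 4 (TM.mk (P.cons (P.cons (P.lf 0 63051339 0) (P.cons (P.lf 10777368 0 0) (P.cons (P.lf 5812221 0 0) (P.cons (P.lf 122379 0 0) (P.cons (P.lf 0 58422 0) (P.cons (P.lf 0 951 0) P.nil)))))) (P.cons (P.cons (P.lf 0 27877182 0) (P.cons (P.lf 53955849 0 0) (P.cons (P.lf 0 7894275 0) (P.cons (P.lf 0 564891 0) (P.cons (P.lf 90660 0 0) P.nil))))) (P.cons (P.cons (P.lf 172019895 0 0) (P.cons (P.lf 0 62410764 0) (P.cons (P.lf 0 1102317 0) (P.cons (P.lf 327645 0 0) P.nil)))) (P.cons (P.cons (P.lf 0 40778418 0) (P.cons (P.lf 0 22253586 0) (P.cons (P.lf 3076569 0 0) P.nil))) (P.cons (P.cons (P.lf 0 62611623 0) (P.cons (P.lf 17705031 0 0) P.nil)) (P.cons (P.cons (P.lf 14935509 0 0) P.nil) P.nil)))))) 31047849)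
 (EL.cons 8 (TM.mk (P.cons (P.cons (P.lf 9678630 0 0) (P.cons (P.lf 0 1654368 0) (P.cons (P.lf 0 892197 0) (P.cons (P.lf 0 18783 0) (P.cons (P.lf 8967 0 0) (P.cons (P.lf 144 0 0) P.nil)))))) (P.cons (P.cons (P.lf 0 5714940 0) (P.cons (P.lf 0 6574128 0) (P.cons (P.lf 2133090 0 0) (P.cons (P.lf 106110 0 0) (P.cons (P.lf 0 23175 0) P.nil))))) (P.cons (P.cons (P.lf 0 30340881 0) (P.cons (P.lf 18050115 0 0) (P.cons (P.lf 0 1126686 0) (P.cons (P.lf 0 140772 0) P.nil)))) (P.cons (P.cons (P.lf 33561474 0 0) (P.cons (P.lf 0 6859974 0) (P.cons (P.lf 0 569964 0) P.nil))) (P.cons (P.cons (P.lf 1762596 0 0) (P.cons (P.lf 0 5615880 0) P.nil)) (P.cons (P.cons (P.lf 0 11414130 0) P.nil) P.nil)))))) 9715740)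
 (EL.cons 11 (TM.mk (P.cons (P.cons (P.lf 0 161627448 0) (P.cons (P.lf 58100028 0 0) (P.cons (P.lf 6364590 0 0) (P.cons (P.lf 0 1452486 0) (P.cons (P.lf 0 48756 0) (P.cons (P.lf 8745 0 0) P.nil)))))) (P.cons (P.cons (P.lf 190474827 0 0) (P.cons (P.lf 0 34440183 0) (P.cons (P.lf 0 5697492 0) (P.cons (P.lf 926217 0 0) (P.cons (P.lf 35148 0 0) P.nil))))) (P.cons (P.cons (P.lf 37628781 0 0) (P.cons (P.lf 0 28488276 0) (P.cons (P.lf 0 2274504 0) (P.cons (P.lf 683520 0 0) P.nil)))) (P.cons (P.cons (P.lf 0 69240693 0) (P.cons (P.lf 1206342 0 0) (P.cons (P.lf 1471698 0 0) P.nil))) (P.cons (P.cons (P.lf 0 5846475 0) (P.cons (P.lf 3624279 0 0) P.nil)) (P.cons (P.cons (P.lf 8408877 0 0) P.nil) P.nil)))))) 6025089)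
 EL.nil)))
noncomputable def S198_256_438_512_25 : EL := (EL.cons 4 (TM.mk (P.cons (P.cons (P.lf 57529755 0 0) (P.cons (P.lf 12979140 0 0) (P.cons (P.lf 206580 0 0) (P.lf 0 68859 0)))) (P.cons (P.cons (P.lf 0 10808400 0) (P.cons (P.lf 0 35208972 0) (P.cons (P.lf 0 560397 0) (P.lf 186798 0 0)))) (P.cons (P.cons (P.lf 0 171205557 0) (P.cons (P.lf 26441505 0 0) (P.cons (P.lf 420849 0 0) (P.lf 0 140283 0)))) (P.cons (P.cons (P.lf 124674453 0 0) (P.cons (P.lf 1642023 0 0) (P.cons (P.lf 26133 0 0) P.nil))) (P.cons (P.cons (P.lf 20745075 0 0) (P.cons (P.lf 0 6115878 0) P.nil)) (P.cons (P.cons (P.lf 0 20160615 0) P.nil) P.nil)))))) 12115113)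
 (EL.cons 8 (TM.mk (P.cons (P.cons (P.lf 0 8831046 0) (P.cons (P.lf 0 1992348 0) (P.cons (P.lf 0 31710 0) (P.lf 10569 0 0)))) (P.cons (P.cons (P.lf 10778112 0 0) (P.cons (P.lf 7462026 0 0) (P.cons (P.lf 118767 0 0) (P.lf 0 39588 0)))) (P.cons (P.cons (P.lf 24126219 0 0) (P.cons (P.lf 0 9739371 0) (P.cons (P.lf 0 155013 0) (P.lf 51669 0 0)))) (P.cons (P.cons (P.lf 0 46029678 0) (P.cons (P.lf 4246014 0 0) (P.cons (P.lf 67578 0 0) P.nil))) (P.cons (P.cons (P.lf 17847666 0 0) (P.cons (P.lf 893655 0 0) P.nil)) (P.cons (P.cons (P.lf 4946877 0 0) P.nil) P.nil)))))) 5592957)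
 (EL.cons 11 (TM.mk (P.cons (P.cons (P.lf 147473274 0 0) (P.cons (P.lf 5466633 0 0) (P.cons (P.lf 0 2708736 0) (P.cons (P.lf 0 24579 0) (P.lf 6144 0 0))))) (P.cons (P.cons (P.lf 0 266703993 0) (P.cons (P.lf 0 9886353 0) (P.cons (P.lf 4898721 0 0) (P.cons (P.lf 44451 0 0) (P.lf 0 11112 0))))) (P.cons (P.cons (P.lf 79708527 0 0) (P.cons (P.lf 2954685 0 0) (P.cons (P.lf 0 1464057 0) (P.cons (P.lf 0 13284 0) P.nil)))) (P.cons (P.cons (P.lf 48168699 0 0) (P.cons (P.lf 1785546 0 0) (P.cons (P.lf 0 884745 0) P.nil))) (P.cons (P.cons (P.lf 0 5603019 0) (P.cons (P.lf 0 207696 0) P.nil)) (P.cons (P.cons (P.lf 0 3322266 0) P.nil) P.nil)))))) 1499892)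
 EL.nil)))
noncomputable def S198_256_438_512_26 : EL := (EL.cons 4 (TM.mk (P.cons (P.cons (P.lf 14059542 0 0) (P.cons (P.lf 0 2403198 0) (P.cons (P.lf 0 1296039 0) (P.cons (P.lf 0 27288 0) (P.cons (P.lf 13026 0 0) (P.cons (P.lf 210 0 0) P.nil)))))) (P.cons (P.cons (P.lf 0 7399398 0) (P.cons (P.lf 0 9704061 0) (P.cons (P.lf 3015429 0 0) (P.cons (P.lf 152388 0 0) (P.cons (P.lf 0 32832 0) P.nil))))) (P.cons (P.cons (P.lf 0 45029778 0) (P.cons (P.lf 25679616 0 0) (P.cons (P.lf 0 1398834 0) (P.cons (P.lf 0 193779 0) P.nil)))) (P.cons (P.cons (P.lf 46145964 0 0) (P.cons (P.lf 0 7990431 0) (P.cons (P.lf 0 1023606 0) P.nil))) (P.cons (P.cons (P.lf 7036464 0 0) (P.cons (P.lf 0 9567915 0) P.nil)) (P.cons (P.cons (P.lf 0 17798250 0) P.nil) P.nil)))))) 20267346)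
 (EL.cons 8 (TM.mk (P.cons (P.cons (P.lf 0 2158194 0) (P.cons (P.lf 368898 0 0) (P.cons (P.lf 198945 0 0) (P.cons (P.lf 4188 0 0) (P.cons (P.lf 0 1998 0) (P.cons (P.lf 0 30 0) P.nil)))))) (P.cons (P.cons (P.lf 3364398 0 0) (P.cons (P.lf 1108683 0 0) (P.cons (P.lf 0 668313 0) (P.cons (P.lf 0 27717 0) (P.cons (P.lf 7104 0 0) P.nil))))) (P.cons (P.cons (P.lf 5631534 0 0) (P.cons (P.lf 0 5461668 0) (P.cons (P.lf 702639 0 0) (P.cons (P.lf 54108 0 0) P.nil)))) (P.cons (P.cons (P.lf 0 14124606 0) (P.cons (P.lf 5364636 0 0) (P.cons (P.lf 0 91401 0) P.nil))) (P.cons (P.cons (P.lf 6555798 0 0) (P.cons (P.lf 0 21798 0) P.nil)) (P.cons (P.cons (P.lf 3368214 0 0) P.nil) P.nil)))))) 8134323)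
 (EL.cons 11 (TM.mk (P.cons (P.cons (P.lf 36040596 0 0) (P.cons (P.lf 0 12955470 0) (P.cons (P.lf 0 1419210 0) (P.cons (P.lf 323883 0 0) (P.cons (P.lf 10872 0 0) (P.cons (P.lf 0 1950 0) P.nil)))))) (P.cons (P.cons (P.lf 0 77375760 0) (P.cons (P.lf 20226066 0 0) (P.cons (P.lf 2644857 0 0) (P.cons (P.lf 0 520188 0) (P.cons (P.lf 0 18366 0) P.nil))))) (P.cons (P.cons (P.lf 31070328 0 0) (P.cons (P.lf 0 484011 0) (P.cons (P.lf 0 657357 0) (P.cons (P.lf 32577 0 0) P.nil)))) (P.cons (P.cons (P.lf 26032980 0 0) (P.cons (P.lf 0 6956076 0) (P.cons (P.lf 0 897861 0) P.nil))) (P.cons (P.cons (P.lf 0 13804527 0) (P.cons (P.lf 0 751161 0) P.nil)) (P.cons (P.cons (P.lf 0 4025613 0) P.nil) P.nil)))))) 6026622)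
 EL.nil)))
noncomputable def S198_256_438_512_27 : EL := (EL.cons 13 (TM.mk (P.lf 0 4294967296 0) 0)
 EL.nil)
noncomputable def S198_256_438_512_28 : EL := (EL.cons 13 (TM.mk (P.cons (P.cons (P.lf 0 1049635552 0) (P.cons (P.lf 416219828 0 0) (P.cons (P.lf 6624688 0 0) (P.lf 0 2208228 0)))) (P.cons (P.cons (P.lf 355212672 0 0) (P.cons (P.lf 80138616 0 0) (P.cons (P.lf 1275508 0 0) (P.lf 0 425168 0)))) (P.cons (P.cons (P.lf 304838211 0 0) (P.cons (P.lf 0 32395644 0) (P.cons (P.lf 0 515616 0) (P.lf 171872 0 0)))) (P.cons (P.cons (P.lf 0 56031390 0) (P.cons (P.lf 0 7158932 0) (P.cons (P.lf 0 113940 0) P.nil))) (P.cons (P.cons (P.lf 0 19957919 0) (P.cons (P.lf 1174648 0 0) P.nil)) (P.cons (P.cons (P.lf 1713151 0 0) P.nil) P.nil)))))) 1520200)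
 EL.nil)
noncomputable def S198_256_438_512_29 : EL := (EL.cons 13 (TM.mk (P.cons (P.cons (P.lf 0 256517620 0) (P.cons (P.lf 203437697 0 0) (P.cons (P.lf 0 37097355 0) (P.cons (P.lf 0 2363306 0) (P.cons (P.lf 417775 0 0) (P.cons (P.lf 6812 0 0) P.nil)))))) (P.cons (P.cons (P.lf 173618946 0 0) (P.cons (P.lf 0 29676694 0) (P.cons (P.lf 0 16004608 0) (P.cons (P.lf 0 336983 0) (P.cons (P.lf 160875 0 0) P.nil))))) (P.cons (P.cons (P.lf 119619538 0 0) (P.cons (P.lf 0 88172768 0) (P.cons (P.lf 3380173 0 0) (P.cons (P.lf 620066 0 0) P.nil)))) (P.cons (P.cons (P.lf 0 77809642 0) (P.cons (P.lf 1343496 0 0) (P.cons (P.lf 2617834 0 0) P.nil))) (P.cons (P.cons (P.lf 0 22122938 0) (P.cons (P.lf 12316035 0 0) P.nil)) (P.cons (P.cons (P.lf 12092291 0 0) P.nil) P.nil)))))) 12019887)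
 EL.nil)
noncomputable def S198_256_438_512_30 : EL := (EL.cons 13 (TM.mk (P.cons (P.lf 957715992 0 0) (P.cons (P.lf 0 927476000 0) (P.cons (P.lf 0 44405152 0) (P.cons (P.lf 13240480 0 0) (P.cons (P.lf 1119116 0 0) (P.cons (P.lf 0 173696 0) P.nil)))))) 29016)
 EL.nil)
noncomputable def S198_256_438_512_31 : EL := (EL.cons 13 (TM.mk (P.cons (P.cons (P.lf 234053645 0 0) (P.cons (P.lf 0 92811040 0) (P.cons (P.lf 0 1477210 0) (P.lf 492403 0 0)))) (P.cons (P.cons (P.lf 0 305870696 0) (P.cons (P.lf 72010761 0 0) (P.cons (P.lf 1146147 0 0) (P.lf 0 382049 0)))) (P.cons (P.cons (P.lf 0 2120255 0) (P.cons (P.lf 28832530 0 0) (P.cons (P.lf 458906 0 0) (P.lf 0 152968 0)))) (P.cons (P.cons (P.lf 85230738 0 0) (P.cons (P.lf 0 5853907 0) (P.cons (P.lf 0 93172 0) P.nil))) (P.cons (P.cons (P.lf 0 5319222 0) (P.cons (P.lf 0 2498301 0) P.nil)) (P.cons (P.cons (P.lf 0 6345876 0) P.nil) P.nil))))))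 2277913)
 EL.nil)
noncomputable def S198_256_438_512_32 : EL := (EL.cons 13 (TM.mk (P.cons (P.cons (P.lf 57199743 0 0) (P.cons (P.lf 0 45363683 0) (P.cons (P.lf 8272177 0 0) (P.cons (P.lf 526983 0 0) (P.cons (P.lf 0 93157 0) (P.cons (P.lf 0 1518 0) P.nil)))))) (P.cons (P.cons (P.lf 0 94108185 0) (P.cons (P.lf 50548796 0 0) (P.cons (P.lf 0 4442184 0) (P.cons (P.lf 0 435201 0) (P.cons (P.lf 54343 0 0) P.nil))))) (P.cons (P.cons (P.lf 8166571 0 0) (P.cons (P.lf 15356049 0 0) (P.cons (P.lf 0 4593387 0) (P.cons (P.lf 0 235469 0) P.nil)))) (P.cons (P.cons (P.lf 45767468 0 0) (P.cons (P.lf 0 20274013 0) (P.cons (P.lf 95085 0 0) P.nil))) (P.cons (P.cons (P.lf 0 11101152 0) (P.cons (P.lf 0 3329307 0) P.nil)) (P.cons (P.cons (P.lf 0 8702580 0) P.nil) P.nil)))))) 12909977)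
 EL.nil)
noncomputable def S198_256_438_512_33 : EL := (EL.cons 14 (TM.mk (P.lf 8589934592 0 0) 0)
 EL.nil)
noncomputable def S198_256_438_512_34 : EL := (EL.cons 14 (TM.mk (P.cons (P.cons (P.lf 2099271104 0 0) (P.cons (P.lf 0 832439656 0) (P.cons (P.lf 0 13249376 0) (P.lf 4416456 0 0)))) (P.cons (P.cons (P.lf 0 710425344 0) (P.cons (P.lf 0 160277232 0) (P.cons (P.lf 0 2551016 0) (P.lf 850336 0 0)))) (P.cons (P.cons (P.lf 0 609676422 0) (P.cons (P.lf 64791288 0 0) (P.cons (P.lf 1031232 0 0) (P.lf 0 343744 0)))) (P.cons (P.cons (P.lf 112062780 0 0) (P.cons (P.lf 14317864 0 0) (P.cons (P.lf 227880 0 0) P.nil))) (P.cons (P.cons (P.lf 39915838 0 0) (P.cons (P.lf 0 2349296 0) P.nil)) (P.cons (P.cons (P.lf 0 3426302 0) P.nil) P.nil)))))) 3040400)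
 EL.nil)
noncomputable def S198_256_438_512_35 : EL := (EL.cons 14 (TM.mk (P.cons (P.cons (P.lf 513035240 0 0) (P.cons (P.lf 0 406875394 0) (P.cons (P.lf 74194710 0 0) (P.cons (P.lf 4726612 0 0) (P.cons (P.lf 0 835550 0) (P.cons (P.lf 0 13624 0) P.nil)))))) (P.cons (P.cons (P.lf 0 347237892 0) (P.cons (P.lf 59353388 0 0) (P.cons (P.lf 32009216 0 0) (P.cons (P.lf 673966 0 0) (P.cons (P.lf 0 321750 0) P.nil))))) (P.cons (P.cons (P.lf 0 239239076 0) (P.cons (P.lf 176345536 0 0) (P.cons (P.lf 0 6760346 0) (P.cons (P.lf 0 1240132 0) P.nil)))) (P.cons (P.cons (P.lf 155619284 0 0) (P.cons (P.lf 0 2686992 0) (P.cons (P.lf 0 5235668 0) P.nil))) (P.cons (P.cons (P.lf 44245876 0 0) (P.cons (P.lf 0 24632070 0) P.nil)) (P.cons (P.cons (P.lf 0 24184582 0) P.nil) P.nil)))))) 24039774)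
 EL.nil)
noncomputable def S198_256_438_512_36 : EL := (EL.cons 14 (TM.mk (P.cons (P.lf 0 1915431984 0) (P.cons (P.lf 1854952000 0 0) (P.cons (P.lf 88810304 0 0) (P.cons (P.lf 0 26480960 0) (P.cons (P.lf 0 2238232 0) (P.cons (P.lf 347392 0 0) P.nil)))))) 58032)
 EL.nil)
noncomputable def S198_256_438_512_37 : EL := (EL.cons 14 (TM.mk (P.cons (P.cons (P.lf 0 468107290 0) (P.cons (P.lf 185622080 0 0) (P.cons (P.lf 2954420 0 0) (P.lf 0 984806 0)))) (P.cons (P.cons (P.lf 611741392 0 0) (P.cons (P.lf 0 144021522 0) (P.cons (P.lf 0 2292294 0) (P.lf 764098 0 0)))) (P.cons (P.cons (P.lf 4240510 0 0) (P.cons (P.lf 0 57665060 0) (P.cons (P.lf 0 917812 0) (P.lf 305936 0 0)))) (P.cons (P.cons (P.lf 0 170461476 0) (P.cons (P.lf 11707814 0 0) (P.cons (P.lf 186344 0 0) P.nil))) (P.cons (P.cons (P.lf 10638444 0 0) (P.cons (P.lf 4996602 0 0) P.nil)) (P.cons (P.cons (P.lf 12691752 0 0) P.nil)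 P.nil)))))) 4555826)
 EL.nil)
noncomputable def S198_256_438_512_38 : EL := (EL.cons 14 (TM.mk (P.cons (P.cons (P.lf 0 114399486 0) (P.cons (P.lf 90727366 0 0) (P.cons (P.lf 0 16544354 0) (P.cons (P.lf 0 1053966 0) (P.cons (P.lf 186314 0 0) (P.cons (P.lf 3036 0 0) P.nil)))))) (P.cons (P.cons (P.lf 188216370 0 0) (P.cons (P.lf 0 101097592 0) (P.cons (P.lf 8884368 0 0) (P.cons (P.lf 870402 0 0) (P.cons (P.lf 0 108686 0) P.nil))))) (P.cons (P.cons (P.lf 0 16333142 0) (P.cons (P.lf 0 30712098 0) (P.cons (P.lf 9186774 0 0) (P.cons (P.lf 470938 0 0) P.nil)))) (P.cons (P.cons (P.lf 0 91534936 0) (P.cons (P.lf 40548026 0 0) (P.cons (P.lf 0 190170 0) P.nil))) (P.cons (P.cons (P.lf 22202304 0 0) (P.cons (P.lf 6658614 0 0) P.nil)) (P.cons (P.cons (P.lf 17405160 0 0) P.nil) P.nil)))))) 25819954)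
 EL.nil)
noncomputable def S198_256_438_512_39 : EL := (EL.cons 14 (TM.mk (P.cons (P.lf 427113808 0 0) (P.cons (P.lf 0 827255282 0) (P.cons (P.lf 360960458 0 0) (P.cons (P.lf 50165998 0 0) (P.cons (P.lf 0 9520466 0) (P.cons (P.lf 0 1669162 0) P.nil)))))) 354406)
 EL.nil)
noncomputable def S198_256_438_512_40 : EL := (EL.cons 14 (TM.mk (P.cons (P.cons (P.lf 104381198 0 0) (P.cons (P.lf 0 41391056 0) (P.cons (P.lf 0 658792 0) (P.lf 219596 0 0)))) (P.cons (P.cons (P.lf 0 237494890 0) (P.cons (P.lf 72198858 0 0) (P.cons (P.lf 1149140 0 0) (P.lf 0 383046 0)))) (P.cons (P.cons (P.lf 126317114 0 0) (P.cons (P.lf 0 16323098 0) (P.cons (P.lf 0 259804 0) (P.lf 86600 0 0)))) (P.cons (P.cons (P.lf 46693972 0 0) (P.cons (P.lf 0 17124400 0) (P.cons (P.lf 0 272556 0) P.nil))) (P.cons (P.cons (P.lf 0 40902550 0) (P.cons (P.lf 1213500 0 0) P.nil)) (P.cons (P.cons (P.lf 0 2486542 0) P.nil) P.nil))))))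 7101574)
 EL.nil)
noncomputable def S198_256_438_512_41 : EL := (EL.cons 14 (TM.mk (P.cons (P.cons (P.lf 25509440 0 0) (P.cons (P.lf 0 20230898 0) (P.cons (P.lf 3689152 0 0) (P.cons (P.lf 235018 0 0) (P.cons (P.lf 0 41544 0) (P.cons (P.lf 0 676 0) P.nil)))))) (P.cons (P.cons (P.lf 0 66673524 0) (P.cons (P.lf 42135416 0 0) (P.cons (P.lf 0 5553754 0) (P.cons (P.lf 0 421684 0) (P.cons (P.lf 64468 0 0) P.nil))))) (P.cons (P.cons (P.lf 43103646 0 0) (P.cons (P.lf 0 14045126 0) (P.cons (P.lf 0 301034 0) (P.cons (P.lf 72048 0 0) P.nil)))) (P.cons (P.cons (P.lf 19182532 0 0) (P.cons (P.lf 0 16998674 0) (P.cons (P.lf 2169098 0 0) P.nil))) (P.cons (P.cons (P.lf 0 25436580 0) (P.cons (P.lf 7241854 0 0) P.nil)) (P.cons (P.cons (P.lf 0 36314 0) P.nil) P.nil)))))) 18852654)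
 EL.nil)
noncomputable def S198_256_438_512_42 : EL := (EL.cons 14 (TM.mk (P.cons (P.lf 0 95240240 0) (P.cons (P.lf 276699060 0 0) (P.cons (P.lf 0 254714620 0) (P.cons (P.lf 56891654 0 0) (P.cons (P.lf 19126904 0 0) (P.cons (P.lf 0 2044974 0) P.nil)))))) 997622)
 EL.nil)
noncomputable def S198_256_438_512_43 : EL := (EL.cons 14 (TM.mk (P.cons (P.cons (P.lf 0 23275506 0) (P.cons (P.lf 9229610 0 0) (P.cons (P.lf 146900 0 0) (P.lf 0 48966 0)))) (P.cons (P.cons (P.lf 75498528 0 0) (P.cons (P.lf 0 25037492 0) (P.cons (P.lf 0 398504 0) (P.lf 132834 0 0)))) (P.cons (P.cons (P.lf 0 78373510 0) (P.cons (P.lf 18802850 0 0) (P.cons (P.lf 299272 0 0) (P.lf 0 99756 0)))) (P.cons (P.cons (P.lf 14088226 0 0) (P.cons (P.lf 1167660 0 0) (P.cons (P.lf 18584 0 0) P.nil))) (P.cons (P.cons (P.lf 21214928 0 0) (P.cons (P.lf 0 4349070 0) P.nil)) (P.cons (P.cons (P.lf 0 8118772 0) P.nil) P.nil))))))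 7384884)
 EL.nil)
noncomputable def S198_256_438_512_44 : EL := (EL.cons 14 (TM.mk (P.cons (P.cons (P.lf 0 5688238 0) (P.cons (P.lf 4511198 0 0) (P.cons (P.lf 0 822628 0) (P.cons (P.lf 0 52404 0) (P.cons (P.lf 9264 0 0) (P.cons (P.lf 150 0 0) P.nil)))))) (P.cons (P.cons (P.lf 20375868 0 0) (P.cons (P.lf 0 13764350 0) (P.cons (P.lf 2035060 0 0) (P.cons (P.lf 144780 0 0) (P.cons (P.lf 0 23346 0) P.nil))))) (P.cons (P.cons (P.lf 0 23745556 0) (P.cons (P.lf 12021622 0 0) (P.cons (P.lf 0 1094036 0) (P.cons (P.lf 0 104696 0) P.nil)))) (P.cons (P.cons (P.lf 4262610 0 0) (P.cons (P.lf 1255488 0 0) (P.cons (P.lf 0 617476 0) P.nil))) (P.cons (P.cons (P.lf 10458898 0 0) (P.cons (P.lf 0 5555438 0) P.nil)) (P.cons (P.cons (P.lf 0 5400948 0) P.nil) P.nil)))))) 12755744)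
 EL.nil)
noncomputable def S198_256_438_512_45 : EL := (EL.cons 14 (TM.mk (P.cons (P.cons (P.lf 125379306 0 0) (P.cons (P.lf 0 149152780 0) (P.cons (P.lf 56770702 0 0) (P.cons (P.lf 0 5143640 0) (P.cons (P.lf 0 985880 0) (P.cons (P.lf 108498 0 0) P.nil)))))) (P.cons (P.cons (P.lf 0 127290806 0) (P.cons (P.lf 72233398 0 0) (P.cons (P.lf 3909562 0 0) (P.cons (P.lf 0 4811012 0) (P.cons (P.lf 0 244200 0) P.nil))))) (P.cons (P.cons (P.lf 0 66161920 0) (P.cons (P.lf 100599124 0 0) (P.cons (P.lf 0 30297562 0) (P.cons (P.lf 0 593152 0) P.nil)))) (P.cons (P.cons (P.lf 89155914 0 0) (P.cons (P.lf 0 37142834 0) (P.cons (P.lf 0 5481916 0) P.nil))) (P.cons (P.cons (P.lf 12776862 0 0) (P.cons (P.lf 0 29145216 0) P.nil)) (P.cons (P.cons (P.lf 0 25554174 0) P.nil) P.nil)))))) 50946130)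
 EL.nil)
noncomputable def S198_256_438_512_46 : EL := (EL.cons 15 (TM.mk (P.lf 4294967296 0 0) 0)
 EL.nil)
noncomputable def S198_256_438_512_47 : EL := (EL.cons 15 (TM.mk (P.cons (P.cons (P.lf 1049635552 0 0) (P.cons (P.lf 0 416219828 0) (P.cons (P.lf 0 6624688 0) (P.lf 2208228 0 0)))) (P.cons (P.cons (P.lf 0 355212672 0) (P.cons (P.lf 0 80138616 0) (P.cons (P.lf 0 1275508 0) (P.lf 425168 0 0)))) (P.cons (P.cons (P.lf 0 304838211 0) (P.cons (P.lf 32395644 0 0) (P.cons (P.lf 515616 0 0) (P.lf 0 171872 0)))) (P.cons (P.cons (P.lf 56031390 0 0) (P.cons (P.lf 7158932 0 0) (P.cons (P.lf 113940 0 0) P.nil))) (P.cons (P.cons (P.lf 19957919 0 0) (P.cons (P.lf 0 1174648 0) P.nil)) (P.cons (P.cons (P.lf 0 1713151 0) P.nil) P.nil)))))) 1520200)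
 EL.nil)
noncomputable def S198_256_438_512_48 : EL := (EL.cons 15 (TM.mk (P.cons (P.cons (P.lf 256517620 0 0) (P.cons (P.lf 0 203437697 0) (P.cons (P.lf 37097355 0 0) (P.cons (P.lf 2363306 0 0) (P.cons (P.lf 0 417775 0) (P.cons (P.lf 0 6812 0) P.nil)))))) (P.cons (P.cons (P.lf 0 173618946 0) (P.cons (P.lf 29676694 0 0) (P.cons (P.lf 16004608 0 0) (P.cons (P.lf 336983 0 0) (P.cons (P.lf 0 160875 0) P.nil))))) (P.cons (P.cons (P.lf 0 119619538 0) (P.cons (P.lf 88172768 0 0) (P.cons (P.lf 0 3380173 0) (P.cons (P.lf 0 620066 0) P.nil)))) (P.cons (P.cons (P.lf 77809642 0 0) (P.cons (P.lf 0 1343496 0) (P.cons (P.lf 0 2617834 0) P.nil))) (P.cons (P.cons (P.lf 22122938 0 0) (P.cons (P.lf 0 12316035 0) P.nil)) (P.cons (P.cons (P.lf 0 12092291 0) P.nil) P.nil)))))) 12019887)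
 EL.nil)
noncomputable def S198_256_438_512 : SL := (SL.cons S198_256_438_512_0 (SL.cons S198_256_438_512_1 (SL.cons S198_256_438_512_2 (SL.cons S198_256_438_512_3 (SL.cons S198_256_438_512_4 (SL.cons S198_256_438_512_5 (SL.cons S198_256_438_512_6 (SL.cons S198_256_438_512_7 (SL.cons S198_256_438_512_8 (SL.cons S198_256_438_512_9 (SL.cons S198_256_438_512_10 (SL.cons S198_256_438_512_11 (SL.cons S198_256_438_512_12 (SL.cons S198_256_438_512_13 (SL.cons S198_256_438_512_14 (SL.cons S198_256_438_512_15 (SL.cons S198_256_438_512_16 (SL.cons S198_256_438_512_17 (SL.cons S198_256_438_512_18 (SL.cons S198_256_438_512_19 (SL.cons S198_256_438_512_20 (SL.cons S198_256_438_512_21 (SL.cons S198_256_438_512_22 (SL.cons S198_256_438_512_23 (SL.cons S198_256_438_512_24 (SL.cons S198_256_438_512_25 (SL.cons S198_256_438_512_26 (SL.cons S198_256_438_512_27 (SL.cons S198_256_438_512_28 (SL.cons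 S198_256_438_512_29 (SL.cons S198_256_438_512_30 (SL.cons S198_256_438_512_31 (SL.cons S198_256_438_512_32 (SL.cons S198_256_438_512_33 (SL.cons S198_256_438_512_34 (SL.cons S198_256_438_512_35 (SL.cons S198_256_438_512_36 (SL.cons S198_256_438_512_37 (SL.cons S198_256_438_512_38 (SL.cons S198_256_438_512_39 (SL.cons S198_256_438_512_40 (SL.cons S198_256_438_512_41 (SL.cons S198_256_438_512_42 (SL.cons S198_256_438_512_43 (SL.cons S198_256_438_512_44 (SL.cons S198_256_438_512_45 (SL.cons S198_256_438_512_46 (SL.cons S198_256_438_512_47 (SL.cons S198_256_438_512_48 SL.nil)))))))))))))))))))))))))))))))))))))))))))))))))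
theorem S198_256_216_290_ok : band (seq (shp 5 198 256 216 290) S198_256_216_290) (sok S198_256_216_290) = true := by decide +kernel

theorem S198_256_216_364_ok : band (seq (shp 5 198 256 216 364) S198_256_216_364) (sok S198_256_216_364) = true := by decide +kernel

theorem S198_256_290_364_ok : band (seq (shp 5 198 256 290 364) S198_256_290_364) (sok S198_256_290_364) = true := by decide +kernel

theorem S198_256_364_438_ok : band (seq (shp 5 198 256 364 438) S198_256_364_438) (sok S198_256_364_438) = true := by decide +kernel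

theorem S198_256_364_512_ok : band (seq (shp 5 198 256 364 512) S198_256_364_512) (sok S198_256_364_512) = true := by decide +kernel

theorem S198_256_438_512_ok : band (seq (shp 5 198 256 438 512) S198_256_438_512) (sok S198_256_438_512) = true := by decide +kernel

end Vale.Agent.P098.Ck
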