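import Vale.Agent.P098.CkDefs

namespace Vale.Agent.P098.Ck

noncomputable def S198_212_216_290_0 : EL := (EL.cons 0 (TM.mk (P.cons (P.lf 7367797296 0 0) (P.cons (P.lf 270413532 0 0) (P.cons (P.lf 0 11357528 0) (P.cons (P.lf 0 846949 0) (P.cons (P.lf 7275 0 0) (P.cons (P.lf 1360 0 0) P.nil)))))) 123)
 (EL.cons 1 (TM.mk (P.cons (P.lf 0 1384003233 0) (P.cons (P.lf 134215061 0 0) (P.cons (P.lf 10263551 0 0) (P.cons (P.lf 0 214061 0) (P.cons (P.lf 0 21358 0) (P.cons (P.lf 0 5 0) P.nil)))))) 123)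
 (EL.cons 5 (TM.mk (P.cons (P.lf 4681783146 0 0) (P.cons (P.lf 0 96147034 0) (P.cons (P.lf 4038232 0 0) (P.cons (P.lf 301136 0 0) (P.cons (P.lf 0 2584 0) (P.cons (P.lf 0 484 0) P.nil)))))) 121)
 (EL.cons 9 (TM.mk (P.lf 6442450944 0 0) 2)
 EL.nil))))
noncomputable def S198_212_216_290_1 : EL := (EL.cons 0 (TM.mk (P.cons (P.cons (P.lf 2948359791 0 0) (P.cons (P.lf 0 76725599 0) (P.cons (P.lf 0 36219180 0) (P.lf 1724727 0 0)))) (P.cons (P.cons (P.lf 1051250675 0 0) (P.cons (P.lf 0 26506451 0) (P.cons (P.lf 0 12512665 0) (P.lf 595832 0 0)))) (P.cons (P.cons (P.lf 0 62760863 0) (P.cons (P.lf 0 628922 0) (P.cons (P.lf 0 296885 0) (P.lf 14134 0 0)))) (P.cons (P.cons (P.lf 0 10553489 0) (P.cons (P.lf 207524 0 0) (P.cons (P.lf 97962 0 0) P.nil))) (P.cons (P.cons (P.lf 238445 0 0) (P.cons (P.lf 10054 0 0) P.nil)) (P.cons (P.cons (P.lf 52012 0 0) P.nil) P.nil)))))) 20935)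
 (EL.cons 1 (TM.mk (P.cons (P.cons (P.lf 0 1567699053 0) (P.cons (P.lf 56158589 0 0) (P.cons (P.lf 26510287 0 0) (P.lf 0 1262386 0)))) (P.cons (P.cons (P.lf 160020276 0 0) (P.cons (P.lf 1739095 0 0) (P.cons (P.lf 820960 0 0) (P.lf 0 39094 0)))) (P.cons (P.cons (P.lf 61235524 0 0) (P.cons (P.lf 0 1281633 0) (P.cons (P.lf 0 605006 0) (P.lf 28797 0 0)))) (P.cons (P.cons (P.lf 0 1754183 0) (P.cons (P.lf 0 63500 0) (P.cons (P.lf 0 29974 0) P.nil))) (P.cons (P.cons (P.lf 0 444945 0) (P.cons (P.lf 6466 0 0) P.nil)) (P.cons (P.cons (P.lf 2579 0 0) P.nil) P.nil)))))) 12440)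
 (EL.cons 5 (TM.mk (P.cons (P.cons (P.lf 3342029950 0 0) (P.cons (P.lf 0 109221356 0) (P.cons (P.lf 0 51559166 0) (P.lf 2455196 0 0)))) (P.cons (P.cons (P.lf 0 102226864 0) (P.cons (P.lf 0 1756656 0) (P.cons (P.lf 0 829252 0) (P.lf 39496 0 0)))) (P.cons (P.cons (P.lf 0 19071692 0) (P.cons (P.lf 540584 0 0) (P.cons (P.lf 255192 0 0) (P.lf 0 12148 0)))) (P.cons (P.cons (P.lf 2675248 0 0) (P.cons (P.lf 0 24550 0) (P.cons (P.lf 0 11588 0) P.nil))) (P.cons (P.cons (P.lf 27021 0 0) (P.cons (P.lf 0 3392 0) P.nil)) (P.cons (P.cons (P.lf 0 14415 0) P.nil) P.nil)))))) 12235)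
 (EL.cons 9 (TM.mk (P.cons (P.cons (P.lf 3873825564 0 0) (P.cons (P.lf 0 120442554 0) (P.cons (P.lf 0 56856258 0) (P.lf 2707434 0 0)))) (P.cons (P.cons (P.lf 239603952 0 0) (P.cons (P.lf 0 9865740 0) (P.cons (P.lf 0 4657230 0) (P.lf 221772 0 0)))) (P.cons (P.cons (P.lf 0 36517632 0) (P.cons (P.lf 279672 0 0) (P.cons (P.lf 132024 0 0) (P.lf 0 6282 0)))) (P.cons (P.cons (P.lf 0 950382 0) (P.cons (P.lf 43434 0 0) (P.cons (P.lf 20502 0 0) P.nil))) (P.cons (P.cons (P.lf 98637 0 0) (P.cons (P.lf 156 0 0) P.nil)) (P.cons (P.cons (P.lf 3591 0 0) P.nil) P.nil)))))) 2849)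
 (EL.cons 2 (TM.mk (P.cons (P.cons (P.lf 190414316 0 0) (P.cons (P.lf 187756545 0 0) (P.cons (P.lf 0 5875081 0) (P.cons (P.lf 0 1076582 0) (P.lf 38446 0 0))))) (P.cons (P.cons (P.lf 0 13266514 0) (P.cons (P.lf 0 13081342 0) (P.cons (P.lf 409325 0 0) (P.cons (P.lf 75006 0 0) (P.lf 0 2677 0))))) (P.cons (P.cons (P.lf 0 2205613 0) (P.cons (P.lf 0 2174824 0) (P.cons (P.lf 68051 0 0) (P.cons (P.lf 12467 0 0) P.nil)))) (P.cons (P.cons (P.lf 10569 0 0) (P.cons (P.lf 10423 0 0) (P.cons (P.lf 0 326 0) P.nil))) (P.cons (P.cons (P.lf 6848 0 0) (P.cons (P.lf 6752 0 0) P.nil)) (P.cons (P.cons (P.lf 92 0 0) P.nil) P.nil)))))) 1877)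
 (EL.cons 6 (TM.mk (P.cons (P.cons (P.lf 242236683 0 0) (P.cons (P.lf 238855587 0 0) (P.cons (P.lf 0 7474020 0) (P.cons (P.lf 0 1369581 0) (P.lf 48912 0 0))))) (P.cons (P.cons (P.lf 19842189 0 0) (P.cons (P.lf 19565235 0 0) (P.cons (P.lf 0 612213 0) (P.cons (P.lf 0 112182 0) (P.lf 4005 0 0))))) (P.cons (P.cons (P.lf 0 562494 0) (P.cons (P.lf 0 554643 0) (P.cons (P.lf 17355 0 0) (P.cons (P.lf 3177 0 0) P.nil)))) (P.cons (P.cons (P.lf 0 87366 0) (P.cons (P.lf 0 86145 0) (P.cons (P.lf 2694 0 0) P.nil))) (P.cons (P.cons (P.lf 0 324 0) (P.cons (P.lf 0 318 0) P.nil)) (P.cons (P.cons (P.lf 183 0 0) P.nil) P.nil)))))) 1242)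
 EL.nil))))))
noncomputable def S198_212_216_290_2 : EL := (EL.cons 0 (TM.mk (P.cons (P.cons (P.lf 881793530 0 0) (P.cons (P.lf 0 36862043 0) (P.cons (P.lf 0 17107466 0) (P.cons (P.lf 1105908 0 0) (P.cons (P.lf 52249 0 0) (P.cons (P.lf 0 6243 0) P.nil)))))) (P.cons (P.cons (P.lf 1056231320 0 0) (P.cons (P.lf 0 56026286 0) (P.cons (P.lf 0 25738138 0) (P.cons (P.lf 1929447 0 0) (P.cons (P.lf 126233 0 0) P.nil))))) (P.cons (P.cons (P.lf 1339238 0 0) (P.cons (P.lf 0 2963448 0) (P.cons (P.lf 0 1317723 0) (P.cons (P.lf 143276 0 0) P.nil)))) (P.cons (P.cons (P.lf 0 23450346 0) (P.cons (P.lf 895312 0 0) (P.cons (P.lf 417049 0 0) P.nil))) (P.cons (P.cons (P.lf 0 162634 0) (P.cons (P.lf 62895 0 0) P.nil)) (P.cons (P.cons (P.lf 205339 0 0) P.nil) P.nil)))))) 181779)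
 (EL.cons 1 (TM.mk (P.cons (P.cons (P.lf 0 1384907720 0) (P.cons (P.lf 95036603 0 0) (P.cons (P.lf 43247024 0 0) (P.cons (P.lf 0 3662088 0) (P.cons (P.lf 0 287466 0) (P.cons (P.lf 34294 0 0) P.nil)))))) (P.cons (P.cons (P.lf 89204107 0 0) (P.cons (P.lf 3631024 0 0) (P.cons (P.lf 1509373 0 0) (P.cons (P.lf 0 274870 0) (P.cons (P.lf 0 36399 0) P.nil))))) (P.cons (P.cons (P.lf 86082852 0 0) (P.cons (P.lf 0 4091902 0) (P.cons (P.lf 0 1894427 0) (P.cons (P.lf 127089 0 0) P.nil)))) (P.cons (P.cons (P.lf 612292 0 0) (P.cons (P.lf 0 281635 0) (P.cons (P.lf 0 126880 0) P.nil))) (P.cons (P.cons (P.lf 0 1246764 0) (P.cons (P.lf 40773 0 0) P.nil)) (P.cons (P.cons (P.lf 0 19570 0) P.nil) P.nil)))))) 99643)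
 (EL.cons 5 (TM.mk (P.cons (P.cons (P.lf 2326368496 0 0) (P.cons (P.lf 0 151049422 0) (P.cons (P.lf 0 68857074 0) (P.cons (P.lf 5706188 0 0) (P.cons (P.lf 435365 0 0) (P.cons (P.lf 0 51937 0) P.nil)))))) (P.cons (P.cons (P.lf 0 48983192 0) (P.cons (P.lf 0 3679337 0) (P.cons (P.lf 0 1571136 0) (P.cons (P.lf 239194 0 0) (P.cons (P.lf 29493 0 0) P.nil))))) (P.cons (P.cons (P.lf 0 40148133 0) (P.cons (P.lf 2150620 0 0) (P.cons (P.lf 991619 0 0) (P.cons (P.lf 0 70611 0) P.nil)))) (P.cons (P.cons (P.lf 3964121 0 0) (P.cons (P.lf 0 68513 0) (P.cons (P.lf 0 33167 0) P.nil))) (P.cons (P.cons (P.lf 346745 0 0) (P.cons (P.lf 0 22952 0) P.nil)) (P.cons (P.cons (P.lf 0 47578 0) P.nil) P.nil)))))) 106228)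
 (EL.cons 9 (TM.mk (P.cons (P.cons (P.lf 2329319172 0 0) (P.cons (P.lf 0 144843460 0) (P.cons (P.lf 0 66123288 0) (P.cons (P.lf 5381814 0 0) (P.cons (P.lf 400539 0 0) (P.cons (P.lf 0 47787 0) P.nil)))))) (P.cons (P.cons (P.lf 288146209 0 0) (P.cons (P.lf 0 20823337 0) (P.cons (P.lf 0 9461002 0) (P.cons (P.lf 816358 0 0) (P.cons (P.lf 65617 0 0) P.nil))))) (P.cons (P.cons (P.lf 0 35004661 0) (P.cons (P.lf 967894 0 0) (P.cons (P.lf 461557 0 0) (P.cons (P.lf 0 17359 0) P.nil)))) (P.cons (P.cons (P.lf 0 3859209 0) (P.cons (P.lf 220414 0 0) (P.cons (P.lf 101566 0 0) P.nil))) (P.cons (P.cons (P.lf 254919 0 0) (P.cons (P.lf 0 528 0) P.nil)) (P.cons (P.cons (P.lf 22428 0 0) P.nil) P.nil)))))) 37070)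
 (EL.cons 2 (TM.mk (P.cons (P.cons (P.lf 228991061 0 0) (P.cons (P.lf 218675199 0 0) (P.cons (P.lf 0 17446516 0) (P.cons (P.lf 0 4228976 0) (P.cons (P.lf 347996 0 0) (P.cons (P.lf 12622 0 0) P.nil)))))) (P.cons (P.cons (P.lf 0 1790662 0) (P.cons (P.lf 0 1852818 0) (P.cons (P.lf 0 71820 0) (P.cons (P.lf 0 25790 0) (P.cons (P.lf 3330 0 0) P.nil))))) (P.cons (P.cons (P.lf 0 5797901 0) (P.cons (P.lf 0 5577339 0) (P.cons (P.lf 382483 0 0) (P.cons (P.lf 90326 0 0) P.nil)))) (P.cons (P.cons (P.lf 0 57127 0) (P.cons (P.lf 0 48555 0) (P.cons (P.lf 13095 0 0) P.nil))) (P.cons (P.cons (P.lf 43768 0 0) (P.cons (P.lf 42508 0 0) P.nil)) (P.cons (P.cons (P.lf 956 0 0) P.nil) P.nil)))))) 27539)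
 (EL.cons 6 (TM.mk (P.cons (P.cons (P.lf 291312318 0 0) (P.cons (P.lf 278188926 0 0) (P.cons (P.lf 0 22194690 0) (P.cons (P.lf 0 5379912 0) (P.cons (P.lf 442704 0 0) (P.cons (P.lf 16062 0 0) P.nil)))))) (P.cons (P.cons (P.lf 41880348 0 0) (P.cons (P.lf 39811980 0 0) (P.cons (P.lf 0 3455730 0) (P.cons (P.lf 0 848322 0) (P.cons (P.lf 71340 0 0) P.nil))))) (P.cons (P.cons (P.lf 0 1946664 0) (P.cons (P.lf 0 1938198 0) (P.cons (P.lf 32778 0 0) (P.cons (P.lf 3294 0 0) P.nil)))) (P.cons (P.cons (P.lf 0 443316 0) (P.cons (P.lf 0 427146 0) (P.cons (P.lf 28224 0 0) P.nil))) (P.cons (P.cons (P.lf 1050 0 0) (P.cons (P.lf 1542 0 0) P.nil)) (P.cons (P.cons (P.lf 2226 0 0) P.nil) P.nil)))))) 28332)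
 EL.nil))))))
noncomputable def S198_212_216_290_3 : EL := (EL.cons 0 (TM.mk (P.cons (P.lf 1087919567 0 0) (P.cons (P.lf 0 270413532 0) (P.cons (P.lf 11357528 0 0) (P.cons (P.lf 846949 0 0) (P.cons (P.lf 0 7275 0) (P.cons (P.lf 0 1360 0) P.nil)))))) 123)
 (EL.cons 1 (TM.mk (P.cons (P.lf 1384003233 0 0) (P.cons (P.lf 0 134215061 0) (P.cons (P.lf 0 10263551 0) (P.cons (P.lf 214061 0 0) (P.cons (P.lf 21358 0 0) (P.cons (P.lf 5 0 0) P.nil)))))) 123)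
 (EL.cons 5 (TM.mk (P.cons (P.lf 1760667798 0 0) (P.cons (P.lf 96147034 0 0) (P.cons (P.lf 0 4038232 0) (P.cons (P.lf 0 301136 0) (P.cons (P.lf 2584 0 0) (P.cons (P.lf 484 0 0) P.nil)))))) 114)
 EL.nil)))
noncomputable def S198_212_216_290_4 : EL := (EL.cons 0 (TM.mk (P.cons (P.cons (P.lf 654162625 0 0) (P.cons (P.lf 0 20338813 0) (P.cons (P.lf 0 9601164 0) (P.lf 457196 0 0)))) (P.cons (P.cons (P.lf 0 122137526 0) (P.cons (P.lf 3389417 0 0) (P.cons (P.lf 1600013 0 0) (P.lf 0 76190 0)))) (P.cons (P.cons (P.lf 0 9394453 0) (P.cons (P.lf 248997 0 0) (P.cons (P.lf 117541 0 0) (P.lf 0 5595 0)))) (P.cons (P.cons (P.lf 2303961 0 0) (P.cons (P.lf 0 37629 0) (P.cons (P.lf 0 17762 0) P.nil))) (P.cons (P.cons (P.lf 19293 0 0) (P.cons (P.lf 0 2464 0) P.nil)) (P.cons (P.cons (P.lf 0 11097 0) P.nil) P.nil)))))) 4367)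
 (EL.cons 1 (TM.mk (P.cons (P.cons (P.lf 832196806 0 0) (P.cons (P.lf 0 25874139 0) (P.cons (P.lf 0 12214177 0) (P.lf 581625 0 0)))) (P.cons (P.cons (P.lf 0 29230036 0) (P.cons (P.lf 389756 0 0) (P.cons (P.lf 183988 0 0) (P.lf 0 8760 0)))) (P.cons (P.cons (P.lf 0 19008011 0) (P.cons (P.lf 457490 0 0) (P.cons (P.lf 215962 0 0) (P.lf 0 10280 0)))) (P.cons (P.cons (P.lf 303600 0 0) (P.cons (P.lf 15217 0 0) (P.cons (P.lf 7183 0 0) P.nil))) (P.cons (P.cons (P.lf 119968 0 0) (P.cons (P.lf 0 2041 0) P.nil)) (P.cons (P.cons (P.lf 0 183 0) P.nil) P.nil)))))) 3189)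
 (EL.cons 5 (TM.mk (P.cons (P.cons (P.lf 1058684030 0 0) (P.cons (P.lf 0 32915938 0) (P.cons (P.lf 0 15538336 0) (P.lf 739918 0 0)))) (P.cons (P.cons (P.lf 123294658 0 0) (P.cons (P.lf 0 4493706 0) (P.cons (P.lf 0 2121302 0) (P.lf 101012 0 0)))) (P.cons (P.cons (P.lf 0 8832292 0) (P.cons (P.lf 4690 0 0) (P.cons (P.lf 2214 0 0) (P.lf 0 104 0)))) (P.cons (P.cons (P.lf 0 1135978 0) (P.cons (P.lf 27856 0 0) (P.cons (P.lf 13148 0 0) P.nil))) (P.cons (P.cons (P.lf 26016 0 0) (P.cons (P.lf 926 0 0) P.nil)) (P.cons (P.cons (P.lf 5142 0 0) P.nil) P.nil)))))) 2342)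
 EL.nil)))
noncomputable def S198_212_216_290_5 : EL := (EL.cons 0 (TM.mk (P.cons (P.cons (P.lf 393345936 0 0) (P.cons (P.lf 0 24459329 0) (P.cons (P.lf 0 11166062 0) (P.cons (P.lf 908811 0 0) (P.cons (P.lf 67637 0 0) (P.cons (P.lf 0 8068 0) P.nil)))))) (P.cons (P.cons (P.lf 0 49111669 0) (P.cons (P.lf 2563233 0 0) (P.cons (P.lf 1177783 0 0) (P.cons (P.lf 0 88038 0) (P.cons (P.lf 0 5730 0) P.nil))))) (P.cons (P.cons (P.lf 0 13899302 0) (P.cons (P.lf 782129 0 0) (P.cons (P.lf 358484 0 0) (P.cons (P.lf 0 27708 0) P.nil)))) (P.cons (P.cons (P.lf 1631780 0 0) (P.cons (P.lf 0 59155 0) (P.cons (P.lf 0 27592 0) P.nil))) (P.cons (P.cons (P.lf 178570 0 0) (P.cons (P.lf 0 10207 0) P.nil)) (P.cons (P.cons (P.lf 0 19133 0) P.nil) P.nil)))))) 26143)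
 (EL.cons 1 (TM.mk (P.cons (P.cons (P.lf 500397330 0 0) (P.cons (P.lf 0 31116078 0) (P.cons (P.lf 0 14204971 0) (P.cons (P.lf 1156149 0 0) (P.cons (P.lf 86045 0 0) (P.cons (P.lf 0 10263 0) P.nil)))))) (P.cons (P.cons (P.lf 13374656 0 0) (P.cons (P.lf 0 1455871 0) (P.cons (P.lf 0 654922 0) (P.cons (P.lf 63255 0 0) (P.cons (P.lf 5750 0 0) P.nil))))) (P.cons (P.cons (P.lf 0 17233691 0) (P.cons (P.lf 872490 0 0) (P.cons (P.lf 401595 0 0) (P.cons (P.lf 0 29308 0) P.nil)))) (P.cons (P.cons (P.lf 0 481460 0) (P.cons (P.lf 55546 0 0) (P.cons (P.lf 25078 0 0) P.nil))) (P.cons (P.cons (P.lf 208224 0 0) (P.cons (P.lf 0 7417 0) P.nil)) (P.cons (P.cons (P.lf 5450 0 0) P.nil) P.nil)))))) 21243)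
 (EL.cons 5 (TM.mk (P.cons (P.cons (P.lf 636583388 0 0) (P.cons (P.lf 0 39584502 0) (P.cons (P.lf 0 18070938 0) (P.cons (P.lf 1470802 0 0) (P.cons (P.lf 109462 0 0) (P.cons (P.lf 0 13058 0) P.nil)))))) (P.cons (P.cons (P.lf 113510662 0 0) (P.cons (P.lf 0 7852484 0) (P.cons (P.lf 0 3572434 0) (P.cons (P.lf 303420 0 0) (P.cons (P.lf 23908 0 0) P.nil))))) (P.cons (P.cons (P.lf 0 6726244 0) (P.cons (P.lf 44538 0 0) (P.cons (P.lf 26390 0 0) (P.cons (P.lf 4064 0 0) P.nil)))) (P.cons (P.cons (P.lf 0 1866590 0) (P.cons (P.lf 94504 0 0) (P.cons (P.lf 43666 0 0) P.nil))) (P.cons (P.cons (P.lf 21478 0 0) (P.cons (P.lf 3452 0 0) P.nil)) (P.cons (P.cons (P.lf 14278 0 0) P.nil) P.nil)))))) 17726)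
 EL.nil)))
noncomputable def S198_212_216_290_6 : EL := (EL.cons 12 (TM.mk (P.lf 8589934592 0 0) 0)
 (EL.cons 3 (TM.mk (P.cons (P.lf 0 1528492552 0) (P.cons (P.lf 189961226 0 0) (P.cons (P.lf 3825716 0 0) (P.cons (P.lf 0 119508 0) (P.cons (P.lf 0 4953 0) (P.cons (P.lf 41 0 0) P.nil)))))) 52)
 (EL.cons 7 (TM.mk (P.cons (P.lf 0 1944480730 0) (P.cons (P.lf 0 53092371 0) (P.cons (P.lf 2954732 0 0) (P.cons (P.lf 85611 0 0) (P.cons (P.lf 0 1520 0) (P.cons (P.lf 0 96 0) P.nil)))))) 47)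
 EL.nil)))
noncomputable def S198_212_216_290_7 : EL := (EL.cons 12 (TM.mk (P.cons (P.cons (P.lf 5165100752 0 0) (P.cons (P.lf 0 160590072 0) (P.cons (P.lf 0 75808344 0) (P.lf 3609912 0 0)))) (P.cons (P.cons (P.lf 319471936 0 0) (P.cons (P.lf 0 13154320 0) (P.cons (P.lf 0 6209640 0) (P.lf 295696 0 0)))) (P.cons (P.cons (P.lf 0 48690176 0) (P.cons (P.lf 372896 0 0) (P.cons (P.lf 176032 0 0) (P.lf 0 8376 0)))) (P.cons (P.cons (P.lf 0 1267176 0) (P.cons (P.lf 57912 0 0) (P.cons (P.lf 27336 0 0) P.nil))) (P.cons (P.cons (P.lf 131516 0 0) (P.cons (P.lf 208 0 0) P.nil)) (P.cons (P.cons (P.lf 4788 0 0) P.nil) P.nil)))))) 3774)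
 (EL.cons 3 (TM.mk (P.cons (P.cons (P.lf 1162907771 0 0) (P.cons (P.lf 0 57150778 0) (P.cons (P.lf 0 26978664 0) (P.lf 1284692 0 0)))) (P.cons (P.cons (P.lf 0 547414189 0) (P.cons (P.lf 2421346 0 0) (P.cons (P.lf 1143024 0 0) (P.lf 0 54428 0)))) (P.cons (P.cons (P.lf 0 17886447 0) (P.cons (P.lf 857550 0 0) (P.cons (P.lf 404816 0 0) (P.lf 0 19272 0)))) (P.cons (P.cons (P.lf 2916814 0 0) (P.cons (P.lf 11364 0 0) (P.cons (P.lf 5364 0 0) P.nil))) (P.cons (P.cons (P.lf 149426 0 0) (P.cons (P.lf 0 3368 0) P.nil)) (P.cons (P.cons (P.lf 0 6195 0) P.nil) P.nil)))))) 9466)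
 (EL.cons 7 (TM.mk (P.cons (P.cons (P.lf 0 1751105505 0) (P.cons (P.lf 60312011 0 0) (P.cons (P.lf 28470962 0 0) (P.lf 0 1355762 0)))) (P.cons (P.cons (P.lf 152997098 0 0) (P.cons (P.lf 0 676743 0) (P.cons (P.lf 0 319462 0) (P.lf 15210 0 0)))) (P.cons (P.cons (P.lf 0 6596876 0) (P.cons (P.lf 0 188390 0) (P.cons (P.lf 0 88932 0) (P.lf 4238 0 0)))) (P.cons (P.cons (P.lf 0 1159484 0) (P.cons (P.lf 20329 0 0) (P.cons (P.lf 9597 0 0) P.nil))) (P.cons (P.cons (P.lf 51372 0 0) (P.cons (P.lf 953 0 0) P.nil)) (P.cons (P.cons (P.lf 5039 0 0) P.nil) P.nil)))))) 7419)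
 (EL.cons 10 (TM.mk (P.cons (P.cons (P.lf 0 535052175 0) (P.cons (P.lf 0 527584008 0) (P.cons (P.lf 16508613 0 0) (P.cons (P.lf 3025134 0 0) (P.lf 0 108039 0))))) (P.cons (P.cons (P.lf 0 29218275 0) (P.cons (P.lf 0 28810452 0) (P.cons (P.lf 901506 0 0) (P.cons (P.lf 165195 0 0) (P.lf 0 5898 0))))) (P.cons (P.cons (P.lf 1227183 0 0) (P.cons (P.lf 1210053 0 0) (P.cons (P.lf 0 37863 0) (P.cons (P.lf 0 6936 0) P.nil)))) (P.cons (P.cons (P.lf 91512 0 0) (P.cons (P.lf 90234 0 0) (P.cons (P.lf 0 2823 0) P.nil))) (P.cons (P.cons (P.lf 0 783 0) (P.cons (P.lf 0 774 0) P.nil)) (P.cons (P.cons (P.lf 0 147 0) P.nil) P.nil)))))) 1137)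
 EL.nil))))
noncomputable def S198_212_216_290_8 : EL := (EL.cons 12 (TM.mk (P.cons (P.cons (P.lf 3105758896 0 0) (P.cons (P.lf 0 193124614 0) (P.cons (P.lf 0 88164384 0) (P.cons (P.lf 7175752 0 0) (P.cons (P.lf 534052 0 0) (P.cons (P.lf 0 63716 0) P.nil)))))) (P.cons (P.cons (P.lf 384194946 0 0) (P.cons (P.lf 0 27764450 0) (P.cons (P.lf 0 12614670 0) (P.cons (P.lf 1088478 0 0) (P.cons (P.lf 87490 0 0) P.nil))))) (P.cons (P.cons (P.lf 0 46672882 0) (P.cons (P.lf 1290526 0 0) (P.cons (P.lf 615410 0 0) (P.cons (P.lf 0 23146 0) P.nil)))) (P.cons (P.cons (P.lf 0 5145612 0) (P.cons (P.lf 293886 0 0) (P.cons (P.lf 135422 0 0) P.nil))) (P.cons (P.cons (P.lf 339892 0 0) (P.cons (P.lf 0 704 0) P.nil)) (P.cons (P.cons (P.lf 29904 0 0) P.nil) P.nil)))))) 49398)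
 (EL.cons 3 (TM.mk (P.cons (P.cons (P.lf 1951144185 0 0) (P.cons (P.lf 0 146575209 0) (P.cons (P.lf 0 66521359 0) (P.cons (P.lf 5816714 0 0) (P.cons (P.lf 475146 0 0) (P.cons (P.lf 0 56685 0) P.nil)))))) (P.cons (P.cons (P.lf 0 572134823 0) (P.cons (P.lf 14897586 0 0) (P.cons (P.lf 7138203 0 0) (P.cons (P.lf 0 235149 0) (P.cons (P.lf 18785 0 0) P.nil))))) (P.cons (P.cons (P.lf 0 93596167 0) (P.cons (P.lf 5235251 0 0) (P.cons (P.lf 2415807 0 0) (P.cons (P.lf 0 170120 0) P.nil)))) (P.cons (P.cons (P.lf 8028621 0 0) (P.cons (P.lf 14171 0 0) (P.cons (P.lf 2173 0 0) P.nil))) (P.cons (P.cons (P.lf 998741 0 0) (P.cons (P.lf 0 46485 0) P.nil)) (P.cons (P.cons (P.lf 0 39933 0) P.nil) P.nil)))))) 115819)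
 (EL.cons 7 (TM.mk (P.cons (P.cons (P.lf 0 1402826094 0) (P.cons (P.lf 94288077 0 0) (P.cons (P.lf 42934273 0 0) (P.cons (P.lf 0 3606947 0) (P.cons (P.lf 0 280245 0) (P.cons (P.lf 33431 0 0) P.nil)))))) (P.cons (P.cons (P.lf 159906275 0 0) (P.cons (P.lf 0 4163730 0) (P.cons (P.lf 0 1995058 0) (P.cons (P.lf 65719 0 0) (P.cons (P.lf 0 5255 0) P.nil))))) (P.cons (P.cons (P.lf 14039614 0 0) (P.cons (P.lf 0 1147629 0) (P.cons (P.lf 0 523984 0) (P.cons (P.lf 42566 0 0) P.nil)))) (P.cons (P.cons (P.lf 0 4719279 0) (P.cons (P.lf 139515 0 0) (P.cons (P.lf 65522 0 0) P.nil))) (P.cons (P.cons (P.lf 9469 0 0) (P.cons (P.lf 11331 0 0) P.nil)) (P.cons (P.cons (P.lf 38911 0 0) P.nil) P.nil)))))) 60522)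
 (EL.cons 10 (TM.mk (P.cons (P.cons (P.lf 0 643450392 0) (P.cons (P.lf 0 614463462 0) (P.cons (P.lf 49023612 0 0) (P.cons (P.lf 11883156 0 0) (P.cons (P.lf 0 977856 0) (P.cons (P.lf 0 35478 0) P.nil)))))) (P.cons (P.cons (P.lf 0 74936418 0) (P.cons (P.lf 0 71159274 0) (P.cons (P.lf 6294468 0 0) (P.cons (P.lf 1549314 0 0) (P.cons (P.lf 0 130884 0) P.nil))))) (P.cons (P.cons (P.lf 5368116 0 0) (P.cons (P.lf 5290332 0 0) (P.cons (P.lf 0 169782 0) (P.cons (P.lf 0 31524 0) P.nil)))) (P.cons (P.cons (P.lf 690426 0 0) (P.cons (P.lf 663858 0 0) (P.cons (P.lf 0 45984 0) P.nil))) (P.cons (P.cons (P.lf 0 15810 0) (P.cons (P.lf 0 16152 0) P.nil)) (P.cons (P.cons (P.lf 0 3120 0) P.nil) P.nil)))))) 46812)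
 EL.nil))))
noncomputable def S198_212_216_290_9 : EL := (EL.cons 3 (TM.mk (P.cons (P.lf 0 1528492552 0) (P.cons (P.lf 189961226 0 0) (P.cons (P.lf 3825716 0 0) (P.cons (P.lf 0 119508 0) (P.cons (P.lf 0 4953 0) (P.cons (P.lf 41 0 0) P.nil)))))) 52)
 (EL.cons 7 (TM.mk (P.cons (P.lf 0 1944480730 0) (P.cons (P.lf 0 53092371 0) (P.cons (P.lf 2954732 0 0) (P.cons (P.lf 85611 0 0) (P.cons (P.lf 0 1520 0) (P.cons (P.lf 0 96 0) P.nil)))))) 47)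
 EL.nil))
noncomputable def S198_212_216_290_10 : EL := (EL.cons 3 (TM.mk (P.cons (P.cons (P.lf 0 919077781 0) (P.cons (P.lf 28575389 0 0) (P.cons (P.lf 13489332 0 0) (P.lf 0 642346 0)))) (P.cons (P.cons (P.lf 57376268 0 0) (P.cons (P.lf 0 1210673 0) (P.cons (P.lf 0 571512 0) (P.lf 27214 0 0)))) (P.cons (P.cons (P.lf 18029247 0 0) (P.cons (P.lf 0 428775 0) (P.cons (P.lf 0 202408 0) (P.lf 9636 0 0)))) (P.cons (P.cons (P.lf 0 780848 0) (P.cons (P.lf 0 5682 0) (P.cons (P.lf 0 2682 0) P.nil))) (P.cons (P.cons (P.lf 0 80533 0) (P.cons (P.lf 1684 0 0) P.nil)) (P.cons (P.cons (P.lf 2010 0 0) P.nil) P.nil)))))) 2295)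
 (EL.cons 7 (TM.mk (P.cons (P.cons (P.lf 0 1169210169 0) (P.cons (P.lf 36352349 0 0) (P.cons (P.lf 17160533 0 0) (P.lf 0 817166 0)))) (P.cons (P.cons (P.lf 0 104242291 0) (P.cons (P.lf 3970278 0 0) (P.cons (P.lf 1874213 0 0) (P.lf 0 89247 0)))) (P.cons (P.cons (P.lf 10823956 0 0) (P.cons (P.lf 0 58346 0) (P.cons (P.lf 0 27543 0) (P.lf 1310 0 0)))) (P.cons (P.cons (P.lf 749158 0 0) (P.cons (P.lf 0 21539 0) (P.cons (P.lf 0 10167 0) P.nil))) (P.cons (P.cons (P.lf 0 36417 0) (P.cons (P.lf 0 379 0) P.nil)) (P.cons (P.cons (P.lf 0 2932 0) P.nil) P.nil)))))) 1577)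
 EL.nil))
noncomputable def S198_212_216_290_11 : EL := (EL.cons 3 (TM.mk (P.cons (P.cons (P.lf 0 552638589 0) (P.cons (P.lf 34364583 0 0) (P.cons (P.lf 15687965 0 0) (P.cons (P.lf 0 1276852 0) (P.cons (P.lf 0 95028 0) (P.cons (P.lf 11337 0 0) P.nil)))))) (P.cons (P.cons (P.lf 318355 0 0) (P.cons (P.lf 669570 0 0) (P.cons (P.lf 294951 0 0) (P.cons (P.lf 0 34995 0) (P.cons (P.lf 0 3757 0) P.nil))))) (P.cons (P.cons (P.lf 18184427 0 0) (P.cons (P.lf 0 929641 0) (P.cons (P.lf 0 427737 0) (P.cons (P.lf 31384 0 0) P.nil)))) (P.cons (P.cons (P.lf 11367 0 0) (P.cons (P.lf 0 33433 0) (P.cons (P.lf 0 14879 0) P.nil))) (P.cons (P.cons (P.lf 0 202195 0) (P.cons (P.lf 7695 0 0) P.nil)) (P.cons (P.cons (P.lf 345 0 0) P.nil) P.nil)))))) 19449)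
 (EL.cons 7 (TM.mk (P.cons (P.cons (P.lf 0 703042410 0) (P.cons (P.lf 43717107 0 0) (P.cons (P.lf 19957537 0 0) (P.cons (P.lf 0 1624355 0) (P.cons (P.lf 0 120891 0) (P.cons (P.lf 14423 0 0) P.nil)))))) (P.cons (P.cons (P.lf 0 106165159 0) (P.cons (P.lf 7478622 0 0) (P.cons (P.lf 3400472 0 0) (P.cons (P.lf 0 290747 0) (P.cons (P.lf 0 23105 0) P.nil))))) (P.cons (P.cons (P.lf 9258904 0 0) (P.cons (P.lf 0 186957 0) (P.cons (P.lf 0 91666 0) (P.cons (P.lf 980 0 0) P.nil)))) (P.cons (P.cons (P.lf 1616379 0 0) (P.cons (P.lf 0 85977 0) (P.cons (P.lf 0 39676 0) P.nil))) (P.cons (P.cons (P.lf 0 57911 0) (P.cons (P.lf 0 1455 0) P.nil)) (P.cons (P.cons (P.lf 0 11207 0) P.nil) P.nil)))))) 15092)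
 EL.nil))
noncomputable def S198_212_216_290_12 : EL := (EL.cons 4 (TM.mk (P.cons (P.lf 1528492552 0 0) (P.cons (P.lf 0 189961226 0) (P.cons (P.lf 0 3825716 0) (P.cons (P.lf 119508 0 0) (P.cons (P.lf 4953 0 0) (P.cons (P.lf 0 41 0) P.nil)))))) 52)
 (EL.cons 8 (TM.mk (P.cons (P.lf 1944480730 0 0) (P.cons (P.lf 53092371 0 0) (P.cons (P.lf 0 2954732 0) (P.cons (P.lf 0 85611 0) (P.cons (P.lf 1520 0 0) (P.cons (P.lf 96 0 0) P.nil)))))) 47)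
 EL.nil))
noncomputable def S198_212_216_290_13 : EL := (EL.cons 4 (TM.mk (P.cons (P.cons (P.lf 919077781 0 0) (P.cons (P.lf 0 28575389 0) (P.cons (P.lf 0 13489332 0) (P.lf 642346 0 0)))) (P.cons (P.cons (P.lf 0 57376268 0) (P.cons (P.lf 1210673 0 0) (P.cons (P.lf 571512 0 0) (P.lf 0 27214 0)))) (P.cons (P.cons (P.lf 0 18029247 0) (P.cons (P.lf 428775 0 0) (P.cons (P.lf 202408 0 0) (P.lf 0 9636 0)))) (P.cons (P.cons (P.lf 780848 0 0) (P.cons (P.lf 5682 0 0) (P.cons (P.lf 2682 0 0) P.nil))) (P.cons (P.cons (P.lf 80533 0 0) (P.cons (P.lf 0 1684 0) P.nil)) (P.cons (P.cons (P.lf 0 2010 0) P.nil) P.nil)))))) 2295)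
 (EL.cons 8 (TM.mk (P.cons (P.cons (P.lf 1169210169 0 0) (P.cons (P.lf 0 36352349 0) (P.cons (P.lf 0 17160533 0) (P.lf 817166 0 0)))) (P.cons (P.cons (P.lf 104242291 0 0) (P.cons (P.lf 0 3970278 0) (P.cons (P.lf 0 1874213 0) (P.lf 89247 0 0)))) (P.cons (P.cons (P.lf 0 10823956 0) (P.cons (P.lf 58346 0 0) (P.cons (P.lf 27543 0 0) (P.lf 0 1310 0)))) (P.cons (P.cons (P.lf 0 749158 0) (P.cons (P.lf 21539 0 0) (P.cons (P.lf 10167 0 0) P.nil))) (P.cons (P.cons (P.lf 36417 0 0) (P.cons (P.lf 379 0 0) P.nil)) (P.cons (P.cons (P.lf 2932 0 0) P.nil) P.nil)))))) 1577)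
 EL.nil))
noncomputable def S198_212_216_290_14 : EL := (EL.cons 4 (TM.mk (P.cons (P.cons (P.lf 552638589 0 0) (P.cons (P.lf 0 34364583 0) (P.cons (P.lf 0 15687965 0) (P.cons (P.lf 1276852 0 0) (P.cons (P.lf 95028 0 0) (P.cons (P.lf 0 11337 0) P.nil)))))) (P.cons (P.cons (P.lf 0 318355 0) (P.cons (P.lf 0 669570 0) (P.cons (P.lf 0 294951 0) (P.cons (P.lf 34995 0 0) (P.cons (P.lf 3757 0 0) P.nil))))) (P.cons (P.cons (P.lf 0 18184427 0) (P.cons (P.lf 929641 0 0) (P.cons (P.lf 427737 0 0) (P.cons (P.lf 0 31384 0) P.nil)))) (P.cons (P.cons (P.lf 0 11367 0) (P.cons (P.lf 33433 0 0) (P.cons (P.lf 14879 0 0) P.nil))) (P.cons (P.cons (P.lf 202195 0 0) (P.cons (P.lf 0 7695 0) P.nil)) (P.cons (P.cons (P.lf 0 345 0) P.nil) P.nil)))))) 19449)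
 (EL.cons 8 (TM.mk (P.cons (P.cons (P.lf 703042410 0 0) (P.cons (P.lf 0 43717107 0) (P.cons (P.lf 0 19957537 0) (P.cons (P.lf 1624355 0 0) (P.cons (P.lf 120891 0 0) (P.cons (P.lf 0 14423 0) P.nil)))))) (P.cons (P.cons (P.lf 106165159 0 0) (P.cons (P.lf 0 7478622 0) (P.cons (P.lf 0 3400472 0) (P.cons (P.lf 290747 0 0) (P.cons (P.lf 23105 0 0) P.nil))))) (P.cons (P.cons (P.lf 0 9258904 0) (P.cons (P.lf 186957 0 0) (P.cons (P.lf 91666 0 0) (P.cons (P.lf 0 980 0) P.nil)))) (P.cons (P.cons (P.lf 0 1616379 0) (P.cons (P.lf 85977 0 0) (P.cons (P.lf 39676 0 0) P.nil))) (P.cons (P.cons (P.lf 57911 0 0) (P.cons (P.lf 1455 0 0) P.nil)) (P.cons (P.cons (P.lf 11207 0 0) P.nil) P.nil)))))) 15092)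
 EL.nil))
noncomputable def S198_212_216_290_15 : EL := (EL.cons 4 (TM.mk (P.cons (P.lf 0 580223769 0) (P.cons (P.lf 144220550 0 0) (P.cons (P.lf 0 6057348 0) (P.cons (P.lf 0 451706 0) (P.cons (P.lf 3880 0 0) (P.cons (P.lf 725 0 0) P.nil)))))) 68)
 (EL.cons 8 (TM.mk (P.cons (P.lf 0 738135058 0) (P.cons (P.lf 71581366 0 0) (P.cons (P.lf 5473894 0 0) (P.cons (P.lf 0 114166 0) (P.cons (P.lf 0 11391 0) (P.cons (P.lf 0 3 0) P.nil)))))) 62)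
 EL.nil))
noncomputable def S198_212_216_290_16 : EL := (EL.cons 4 (TM.mk (P.cons (P.cons (P.lf 0 348886733 0) (P.cons (P.lf 10847367 0 0) (P.cons (P.lf 5120621 0 0) (P.lf 0 243838 0)))) (P.cons (P.cons (P.lf 65140014 0 0) (P.cons (P.lf 0 1807689 0) (P.cons (P.lf 0 853340 0) (P.lf 40635 0 0)))) (P.cons (P.cons (P.lf 5010375 0 0) (P.cons (P.lf 0 132798 0) (P.cons (P.lf 0 62688 0) (P.lf 2984 0 0)))) (P.cons (P.cons (P.lf 0 1228779 0) (P.cons (P.lf 20069 0 0) (P.cons (P.lf 9473 0 0) P.nil))) (P.cons (P.cons (P.lf 0 10290 0) (P.cons (P.lf 1314 0 0) P.nil)) (P.cons (P.cons (P.lf 5918 0 0) P.nil) P.nil)))))) 2338)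
 (EL.cons 8 (TM.mk (P.cons (P.cons (P.lf 0 443838297 0) (P.cons (P.lf 13799541 0 0) (P.cons (P.lf 6514228 0 0) (P.lf 0 310200 0)))) (P.cons (P.cons (P.lf 15589353 0 0) (P.cons (P.lf 0 207870 0) (P.cons (P.lf 0 98127 0) (P.lf 4672 0 0)))) (P.cons (P.cons (P.lf 10137606 0 0) (P.cons (P.lf 0 243995 0) (P.cons (P.lf 0 115180 0) (P.lf 5483 0 0)))) (P.cons (P.cons (P.lf 0 161920 0) (P.cons (P.lf 0 8116 0) (P.cons (P.lf 0 3831 0) P.nil))) (P.cons (P.cons (P.lf 0 63983 0) (P.cons (P.lf 1089 0 0) P.nil)) (P.cons (P.cons (P.lf 98 0 0) P.nil) P.nil)))))) 1691)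
 EL.nil))
noncomputable def S198_212_216_290_17 : EL := (EL.cons 4 (TM.mk (P.cons (P.cons (P.lf 0 209784499 0) (P.cons (P.lf 13044975 0 0) (P.cons (P.lf 5955233 0 0) (P.cons (P.lf 0 484699 0) (P.cons (P.lf 0 36073 0) (P.cons (P.lf 4303 0 0) P.nil)))))) (P.cons (P.cons (P.lf 26192890 0 0) (P.cons (P.lf 0 1367057 0) (P.cons (P.lf 0 628151 0) (P.cons (P.lf 46953 0 0) (P.cons (P.lf 3056 0 0) P.nil))))) (P.cons (P.cons (P.lf 7412961 0 0) (P.cons (P.lf 0 417135 0) (P.cons (P.lf 0 191191 0) (P.cons (P.lf 14777 0 0) P.nil)))) (P.cons (P.cons (P.lf 0 870283 0) (P.cons (P.lf 31549 0 0) (P.cons (P.lf 14715 0 0) P.nil))) (P.cons (P.cons (P.lf 0 95237 0) (P.cons (P.lf 5444 0 0) P.nil)) (P.cons (P.cons (P.lf 10204 0 0) P.nil) P.nil)))))) 13953)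
 (EL.cons 8 (TM.mk (P.cons (P.cons (P.lf 0 266878576 0) (P.cons (P.lf 16595242 0 0) (P.cons (P.lf 7575985 0 0) (P.cons (P.lf 0 616613 0) (P.cons (P.lf 0 45891 0) (P.cons (P.lf 5474 0 0) P.nil)))))) (P.cons (P.cons (P.lf 0 7133150 0) (P.cons (P.lf 776465 0 0) (P.cons (P.lf 349292 0 0) (P.cons (P.lf 0 33736 0) (P.cons (P.lf 0 3067 0) P.nil))))) (P.cons (P.cons (P.lf 9191302 0 0) (P.cons (P.lf 0 465328 0) (P.cons (P.lf 0 214184 0) (P.cons (P.lf 15631 0 0) P.nil)))) (P.cons (P.cons (P.lf 256779 0 0) (P.cons (P.lf 0 29625 0) (P.cons (P.lf 0 13375 0) P.nil))) (P.cons (P.cons (P.lf 0 111053 0) (P.cons (P.lf 3956 0 0) P.nil)) (P.cons (P.cons (P.lf 0 2907 0) P.nil) P.nil)))))) 11318)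
 EL.nil))
noncomputable def S198_212_216_290_18 : EL := (EL.cons 4 (TM.mk (P.cons (P.lf 220255978 0 0) (P.cons (P.lf 0 82120312 0) (P.cons (P.lf 8552062 0 0) (P.cons (P.lf 39948 0 0) (P.cons (P.lf 0 32104 0) (P.cons (P.lf 0 525 0) P.nil)))))) 109)
 (EL.cons 8 (TM.mk (P.cons (P.lf 280199929 0 0) (P.cons (P.lf 0 61995939 0) (P.cons (P.lf 597780 0 0) (P.cons (P.lf 391501 0 0) (P.cons (P.lf 2922 0 0) (P.cons (P.lf 0 902 0) P.nil)))))) 74)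
 EL.nil))
noncomputable def S198_212_216_290_19 : EL := (EL.cons 4 (TM.mk (P.cons (P.cons (P.lf 132439229 0 0) (P.cons (P.lf 0 4117716 0) (P.cons (P.lf 0 1943814 0) (P.lf 92562 0 0)))) (P.cons (P.cons (P.lf 0 41187051 0) (P.cons (P.lf 1197958 0 0) (P.cons (P.lf 565509 0 0) (P.lf 0 26928 0)))) (P.cons (P.cons (P.lf 839683 0 0) (P.cons (P.lf 0 24564 0) (P.cons (P.lf 0 11595 0) (P.lf 552 0 0)))) (P.cons (P.cons (P.lf 775073 0 0) (P.cons (P.lf 0 15922 0) (P.cons (P.lf 0 7515 0) P.nil))) (P.cons (P.cons (P.lf 0 50806 0) (P.cons (P.lf 361 0 0) P.nil)) (P.cons (P.cons (P.lf 0 4131 0) P.nil) P.nil)))))) 1984)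
 (EL.cons 8 (TM.mk (P.cons (P.cons (P.lf 168483339 0 0) (P.cons (P.lf 0 5238378 0) (P.cons (P.lf 0 2472835 0) (P.lf 117753 0 0)))) (P.cons (P.cons (P.lf 0 26856928 0) (P.cons (P.lf 729934 0 0) (P.cons (P.lf 344574 0 0) (P.lf 0 16408 0)))) (P.cons (P.cons (P.lf 0 3534526 0) (P.cons (P.lf 95926 0 0) (P.cons (P.lf 45282 0 0) (P.lf 0 2155 0)))) (P.cons (P.cons (P.lf 567716 0 0) (P.cons (P.lf 0 9036 0) (P.cons (P.lf 0 4265 0) P.nil))) (P.cons (P.cons (P.lf 26364 0 0) (P.cons (P.lf 0 1039 0) P.nil)) (P.cons (P.cons (P.lf 0 3533 0) P.nil) P.nil)))))) 1611)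
 EL.nil))
noncomputable def S198_212_216_290_20 : EL := (EL.cons 4 (TM.mk (P.cons (P.cons (P.lf 79635293 0 0) (P.cons (P.lf 0 4951940 0) (P.cons (P.lf 0 2260637 0) (P.cons (P.lf 183993 0 0) (P.cons (P.lf 13693 0 0) (P.cons (P.lf 0 1633 0) P.nil)))))) (P.cons (P.cons (P.lf 0 19840040 0) (P.cons (P.lf 1134370 0 0) (P.cons (P.lf 519401 0 0) (P.cons (P.lf 0 40690 0) (P.cons (P.lf 0 2862 0) P.nil))))) (P.cons (P.cons (P.lf 0 1777608 0) (P.cons (P.lf 106246 0 0) (P.cons (P.lf 48600 0 0) (P.cons (P.lf 0 3855 0) P.nil)))) (P.cons (P.cons (P.lf 711200 0 0) (P.cons (P.lf 0 33341 0) (P.cons (P.lf 0 15379 0) P.nil))) (P.cons (P.cons (P.lf 1619 0 0) (P.cons (P.lf 0 949 0) P.nil)) (P.cons (P.cons (P.lf 0 9448 0) P.nil) P.nil)))))) 9230)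
 (EL.cons 8 (TM.mk (P.cons (P.cons (P.lf 101308504 0 0) (P.cons (P.lf 0 6299640 0) (P.cons (P.lf 0 2875883 0) (P.cons (P.lf 234069 0 0) (P.cons (P.lf 17420 0 0) (P.cons (P.lf 0 2078 0) P.nil)))))) (P.cons (P.cons (P.lf 0 9882850 0) (P.cons (P.lf 488169 0 0) (P.cons (P.lf 224821 0 0) (P.cons (P.lf 0 16283 0) (P.cons (P.lf 0 1000 0) P.nil))))) (P.cons (P.cons (P.lf 0 4079158 0) (P.cons (P.lf 229040 0 0) (P.cons (P.lf 104982 0 0) (P.cons (P.lf 0 8111 0) P.nil)))) (P.cons (P.cons (P.lf 337290 0 0) (P.cons (P.lf 0 10461 0) (P.cons (P.lf 0 4919 0) P.nil))) (P.cons (P.cons (P.lf 63543 0 0) (P.cons (P.lf 0 3385 0) P.nil)) (P.cons (P.cons (P.lf 0 4158 0) P.nil) P.nil)))))) 8040)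
 EL.nil))
noncomputable def S198_212_216_290_21 : EL := (EL.cons 4 (TM.mk (P.cons (P.cons (P.lf 0 2081985552 0) (P.cons (P.lf 85726167 0 0) (P.cons (P.lf 40467996 0 0) (P.lf 0 1927038 0)))) (P.cons (P.cons (P.lf 604790457 0 0) (P.cons (P.lf 0 3632019 0) (P.cons (P.lf 0 1714536 0) (P.lf 81642 0 0)))) (P.cons (P.cons (P.lf 35915694 0 0) (P.cons (P.lf 0 1286325 0) (P.cons (P.lf 0 607224 0) (P.lf 28908 0 0)))) (P.cons (P.cons (P.lf 0 3697662 0) (P.cons (P.lf 0 17046 0) (P.cons (P.lf 0 8046 0) P.nil))) (P.cons (P.cons (P.lf 0 229959 0) (P.cons (P.lf 5052 0 0) P.nil)) (P.cons (P.cons (P.lf 8205 0 0) P.nil) P.nil)))))) 7152)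
 (EL.cons 8 (TM.mk (P.cons (P.cons (P.lf 581895336 0 0) (P.cons (P.lf 0 23959662 0) (P.cons (P.lf 0 11310429 0) (P.lf 538596 0 0)))) (P.cons (P.cons (P.lf 0 257239389 0) (P.cons (P.lf 4647021 0 0) (P.cons (P.lf 2193675 0 0) (P.lf 0 104457 0)))) (P.cons (P.cons (P.lf 17420832 0 0) (P.cons (P.lf 130044 0 0) (P.cons (P.lf 61389 0 0) (P.lf 0 2928 0)))) (P.cons (P.cons (P.lf 1908642 0 0) (P.cons (P.lf 0 41868 0) (P.cons (P.lf 0 19764 0) P.nil))) (P.cons (P.cons (P.lf 0 87789 0) (P.cons (P.lf 0 1332 0) P.nil)) (P.cons (P.cons (P.lf 0 7971 0) P.nil) P.nil)))))) 5823)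
 (EL.cons 11 (TM.mk (P.cons (P.cons (P.lf 535052175 0 0) (P.cons (P.lf 527584008 0 0) (P.cons (P.lf 0 16508613 0) (P.cons (P.lf 0 3025134 0) (P.lf 108039 0 0))))) (P.cons (P.cons (P.lf 29218275 0 0) (P.cons (P.lf 28810452 0 0) (P.cons (P.lf 0 901506 0) (P.cons (P.lf 0 165195 0) (P.lf 5898 0 0))))) (P.cons (P.cons (P.lf 0 1227183 0) (P.cons (P.lf 0 1210053 0) (P.cons (P.lf 37863 0 0) (P.cons (P.lf 6936 0 0) P.nil)))) (P.cons (P.cons (P.lf 0 91512 0) (P.cons (P.lf 0 90234 0) (P.cons (P.lf 2823 0 0) P.nil))) (P.cons (P.cons (P.lf 783 0 0) (P.cons (P.lf 774 0 0) P.nil)) (P.cons (P.cons (P.lf 147 0 0) P.nil) P.nil)))))) 1137)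
 EL.nil)))
noncomputable def S198_212_216_290_22 : EL := (EL.cons 4 (TM.mk (P.cons (P.cons (P.lf 0 1251891387 0) (P.cons (P.lf 90469896 0 0) (P.cons (P.lf 41104662 0 0) (P.cons (P.lf 0 3546783 0) (P.cons (P.lf 0 285087 0) (P.cons (P.lf 34011 0 0) P.nil)))))) (P.cons (P.cons (P.lf 286226589 0 0) (P.cons (P.lf 0 7114008 0) (P.cons (P.lf 0 3421626 0) (P.cons (P.lf 100077 0 0) (P.cons (P.lf 0 11271 0) P.nil))))) (P.cons (P.cons (P.lf 55890297 0 0) (P.cons (P.lf 0 3082446 0) (P.cons (P.lf 0 1421772 0) (P.cons (P.lf 100752 0 0) P.nil)))) (P.cons (P.cons (P.lf 0 4008627 0) (P.cons (P.lf 0 23802 0) (P.cons (P.lf 0 8526 0) P.nil))) (P.cons (P.cons (P.lf 0 600468 0) (P.cons (P.lf 27090 0 0) P.nil)) (P.cons (P.cons (P.lf 20139 0 0) P.nil) P.nil)))))) 48174)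
 (EL.cons 8 (TM.mk (P.cons (P.cons (P.lf 349891842 0 0) (P.cons (P.lf 0 25285485 0) (P.cons (P.lf 0 11488368 0) (P.cons (P.lf 991296 0 0) (P.cons (P.lf 79677 0 0) (P.cons (P.lf 0 9504 0) P.nil)))))) (P.cons (P.cons (P.lf 0 133035717 0) (P.cons (P.lf 5821176 0 0) (P.cons (P.lf 2697765 0 0) (P.cons (P.lf 0 178233 0) (P.cons (P.lf 0 8925 0) P.nil))))) (P.cons (P.cons (P.lf 0 2390355 0) (P.cons (P.lf 480336 0 0) (P.cons (P.lf 216159 0 0) (P.cons (P.lf 0 20793 0) P.nil)))) (P.cons (P.cons (P.lf 3167829 0 0) (P.cons (P.lf 0 112746 0) (P.cons (P.lf 0 52599 0) P.nil))) (P.cons (P.cons (P.lf 0 33690 0) (P.cons (P.lf 0 6393 0) P.nil)) (P.cons (P.cons (P.lf 0 25059 0) P.nil) P.nil)))))) 22704)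
 (EL.cons 11 (TM.mk (P.cons (P.cons (P.lf 321725196 0 0) (P.cons (P.lf 307231731 0 0) (P.cons (P.lf 0 24511806 0) (P.cons (P.lf 0 5941578 0) (P.cons (P.lf 488928 0 0) (P.cons (P.lf 17739 0 0) P.nil)))))) (P.cons (P.cons (P.lf 37468209 0 0) (P.cons (P.lf 35579637 0 0) (P.cons (P.lf 0 3147234 0) (P.cons (P.lf 0 774657 0) (P.cons (P.lf 65442 0 0) P.nil))))) (P.cons (P.cons (P.lf 0 2684058 0) (P.cons (P.lf 0 2645166 0) (P.cons (P.lf 84891 0 0) (P.cons (P.lf 15762 0 0) P.nil)))) (P.cons (P.cons (P.lf 0 345213 0) (P.cons (P.lf 0 331929 0) (P.cons (P.lf 22992 0 0) P.nil))) (P.cons (P.cons (P.lf 7905 0 0) (P.cons (P.lf 8076 0 0) P.nil)) (P.cons (P.cons (P.lf 1560 0 0) P.nil) P.nil)))))) 23406)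
 EL.nil)))
noncomputable def S198_212_216_290_23 : EL := (EL.cons 4 (TM.mk (P.cons (P.cons (P.lf 790332606 0 0) (P.cons (P.lf 0 32542101 0) (P.cons (P.lf 0 15361863 0) (P.lf 731511 0 0)))) (P.cons (P.cons (P.lf 0 327804246 0) (P.cons (P.lf 5423067 0 0) (P.cons (P.lf 2560020 0 0) (P.lf 0 121902 0)))) (P.cons (P.cons (P.lf 12920493 0 0) (P.cons (P.lf 398397 0 0) (P.cons (P.lf 188067 0 0) (P.lf 0 8952 0)))) (P.cons (P.cons (P.lf 3734481 0 0) (P.cons (P.lf 0 60207 0) (P.cons (P.lf 0 28422 0) P.nil))) (P.cons (P.cons (P.lf 0 68415 0) (P.cons (P.lf 0 3939 0) P.nil)) (P.cons (P.cons (P.lf 0 19308 0) P.nil) P.nil)))))) 6855)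
 (EL.cons 8 (TM.mk (P.cons (P.cons (P.lf 0 220890513 0) (P.cons (P.lf 9095211 0 0) (P.cons (P.lf 4293498 0 0) (P.lf 0 204453 0)))) (P.cons (P.cons (P.lf 125101713 0 0) (P.cons (P.lf 0 2894385 0) (P.cons (P.lf 0 1366326 0) (P.lf 65061 0 0)))) (P.cons (P.cons (P.lf 0 18196044 0) (P.cons (P.lf 147102 0 0) (P.cons (P.lf 69441 0 0) (P.lf 0 3303 0)))) (P.cons (P.cons (P.lf 0 164340 0) (P.cons (P.lf 27153 0 0) (P.cons (P.lf 12816 0 0) P.nil))) (P.cons (P.cons (P.lf 146838 0 0) (P.cons (P.lf 0 1452 0) P.nil)) (P.cons (P.cons (P.lf 501 0 0) P.nil) P.nil)))))) 4578)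
 (EL.cons 11 (TM.mk (P.cons (P.cons (P.lf 0 203108604 0) (P.cons (P.lf 0 200273649 0) (P.cons (P.lf 6266754 0 0) (P.cons (P.lf 1148355 0 0) (P.lf 0 41010 0))))) (P.cons (P.cons (P.lf 14150949 0 0) (P.cons (P.lf 13953432 0 0) (P.cons (P.lf 0 436614 0) (P.cons (P.lf 0 80007 0) (P.lf 2856 0 0))))) (P.cons (P.cons (P.lf 2352654 0 0) (P.cons (P.lf 2319813 0 0) (P.cons (P.lf 0 72588 0) (P.cons (P.lf 0 13299 0) P.nil)))) (P.cons (P.cons (P.lf 0 11274 0) (P.cons (P.lf 0 11118 0) (P.cons (P.lf 348 0 0) P.nil))) (P.cons (P.cons (P.lf 0 7305 0) (P.cons (P.lf 0 7203 0) P.nil)) (P.cons (P.cons (P.lf 0 99 0) P.nil) P.nil)))))) 1980)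
 EL.nil)))
noncomputable def S198_212_216_290_24 : EL := (EL.cons 4 (TM.mk (P.cons (P.cons (P.lf 475224519 0 0) (P.cons (P.lf 0 34342845 0) (P.cons (P.lf 0 15603543 0) (P.cons (P.lf 1346376 0 0) (P.cons (P.lf 108219 0 0) (P.cons (P.lf 0 12909 0) P.nil)))))) (P.cons (P.cons (P.lf 0 167714067 0) (P.cons (P.lf 6968646 0 0) (P.cons (P.lf 3238077 0 0) (P.cons (P.lf 0 205317 0) (P.cons (P.lf 0 9168 0) P.nil))))) (P.cons (P.cons (P.lf 0 8902281 0) (P.cons (P.lf 920448 0 0) (P.cons (P.lf 417342 0 0) (P.cons (P.lf 0 36894 0) P.nil)))) (P.cons (P.cons (P.lf 4467561 0 0) (P.cons (P.lf 0 145830 0) (P.cons (P.lf 0 68307 0) P.nil))) (P.cons (P.cons (P.lf 84972 0 0) (P.cons (P.lf 0 14235 0) P.nil)) (P.cons (P.cons (P.lf 0 41805 0) P.nil) P.nil)))))) 28536)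
 (EL.cons 8 (TM.mk (P.cons (P.cons (P.lf 0 132820773 0) (P.cons (P.lf 9598503 0 0) (P.cons (P.lf 4361043 0 0) (P.cons (P.lf 0 376299 0) (P.cons (P.lf 0 30246 0) (P.cons (P.lf 3606 0 0) P.nil)))))) (P.cons (P.cons (P.lf 67008033 0 0) (P.cons (P.lf 0 3402651 0) (P.cons (P.lf 0 1566075 0) (P.cons (P.lf 114423 0 0) (P.cons (P.lf 7146 0 0) P.nil))))) (P.cons (P.cons (P.lf 0 5036442 0) (P.cons (P.lf 68265 0 0) (P.cons (P.lf 34302 0 0) (P.cons (P.lf 426 0 0) P.nil)))) (P.cons (P.cons (P.lf 0 1452081 0) (P.cons (P.lf 71742 0 0) (P.cons (P.lf 33069 0 0) P.nil))) (P.cons (P.cons (P.lf 163485 0 0) (P.cons (P.lf 0 2577 0) P.nil)) (P.cons (P.cons (P.lf 11169 0 0) P.nil) P.nil)))))) 12783)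
 (EL.cons 11 (TM.mk (P.cons (P.cons (P.lf 0 122128566 0) (P.cons (P.lf 0 116626773 0) (P.cons (P.lf 9304809 0 0) (P.cons (P.lf 2255454 0 0) (P.cons (P.lf 0 185598 0) (P.cons (P.lf 0 6732 0) P.nil)))))) (P.cons (P.cons (P.lf 955020 0 0) (P.cons (P.lf 988170 0 0) (P.cons (P.lf 38304 0 0) (P.cons (P.lf 13755 0 0) (P.cons (P.lf 0 1776 0) P.nil))))) (P.cons (P.cons (P.lf 3092214 0 0) (P.cons (P.lf 2974581 0 0) (P.cons (P.lf 0 203991 0) (P.cons (P.lf 0 48174 0) P.nil)))) (P.cons (P.cons (P.lf 30468 0 0) (P.cons (P.lf 25896 0 0) (P.cons (P.lf 0 6984 0) P.nil))) (P.cons (P.cons (P.lf 0 23343 0) (P.cons (P.lf 0 22671 0) P.nil)) (P.cons (P.cons (P.lf 0 510 0) P.nil) P.nil)))))) 14676)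
 EL.nil)))
noncomputable def S198_212_216_290_25 : EL := (EL.cons 4 (TM.mk (P.cons (P.cons (P.lf 0 300014391 0) (P.cons (P.lf 12353151 0 0) (P.cons (P.lf 5831442 0 0) (P.lf 0 277686 0)))) (P.cons (P.cons (P.lf 161722029 0 0) (P.cons (P.lf 0 3593874 0) (P.cons (P.lf 0 1696527 0) (P.lf 80784 0 0)))) (P.cons (P.cons (P.lf 0 19618716 0) (P.cons (P.lf 73692 0 0) (P.cons (P.lf 34785 0 0) (P.lf 0 1656 0)))) (P.cons (P.cons (P.lf 0 1142985 0) (P.cons (P.lf 47769 0 0) (P.cons (P.lf 22548 0 0) P.nil))) (P.cons (P.cons (P.lf 223185 0 0) (P.cons (P.lf 0 1086 0) P.nil)) (P.cons (P.cons (P.lf 7677 0 0) P.nil) P.nil)))))) 5985)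
 (EL.cons 8 (TM.mk (P.cons (P.cons (P.lf 83851194 0 0) (P.cons (P.lf 0 3452589 0) (P.cons (P.lf 0 1629834 0) (P.lf 77610 0 0)))) (P.cons (P.cons (P.lf 0 57910299 0) (P.cons (P.lf 1527810 0 0) (P.cons (P.lf 721218 0 0) (P.lf 0 34341 0)))) (P.cons (P.cons (P.lf 12599409 0 0) (P.cons (P.lf 0 183747 0) (P.cons (P.lf 0 86739 0) (P.lf 4128 0 0)))) (P.cons (P.cons (P.lf 0 670638 0) (P.cons (P.lf 0 6387 0) (P.cons (P.lf 0 3015 0) P.nil))) (P.cons (P.cons (P.lf 0 84222 0) (P.cons (P.lf 2046 0 0) P.nil)) (P.cons (P.cons (P.lf 6963 0 0) P.nil) P.nil)))))) 3432)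
 (EL.cons 11 (TM.mk (P.cons (P.cons (P.lf 77101089 0 0) (P.cons (P.lf 76024923 0 0) (P.cons (P.lf 0 2378892 0) (P.cons (P.lf 0 435921 0) (P.lf 15567 0 0))))) (P.cons (P.cons (P.lf 0 14953905 0) (P.cons (P.lf 0 14745180 0) (P.cons (P.lf 461391 0 0) (P.cons (P.lf 84546 0 0) (P.lf 0 3018 0))))) (P.cons (P.cons (P.lf 0 418452 0) (P.cons (P.lf 0 412611 0) (P.cons (P.lf 12909 0 0) (P.cons (P.lf 2364 0 0) P.nil)))) (P.cons (P.cons (P.lf 134745 0 0) (P.cons (P.lf 132864 0 0) (P.cons (P.lf 0 4155 0) P.nil))) (P.cons (P.cons (P.lf 4305 0 0) (P.cons (P.lf 4245 0 0) P.nil)) (P.cons (P.cons (P.lf 0 405 0) P.nil) P.nil)))))) 2304)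
 EL.nil)))
noncomputable def S198_212_216_290_26 : EL := (EL.cons 4 (TM.mk (P.cons (P.cons (P.lf 0 180397713 0) (P.cons (P.lf 13036722 0 0) (P.cons (P.lf 5923185 0 0) (P.cons (P.lf 0 511089 0) (P.cons (P.lf 0 41079 0) (P.cons (P.lf 4899 0 0) P.nil)))))) (P.cons (P.cons (P.lf 86084985 0 0) (P.cons (P.lf 0 4265538 0) (P.cons (P.lf 0 1965324 0) (P.cons (P.lf 141456 0 0) (P.cons (P.lf 8586 0 0) P.nil))))) (P.cons (P.cons (P.lf 0 4081431 0) (P.cons (P.lf 0 53274 0) (P.cons (P.lf 0 20484 0) (P.cons (P.lf 5595 0 0) P.nil)))) (P.cons (P.cons (P.lf 0 2289348 0) (P.cons (P.lf 106422 0 0) (P.cons (P.lf 49158 0 0) P.nil))) (P.cons (P.cons (P.lf 174444 0 0) (P.cons (P.lf 0 765 0) P.nil)) (P.cons (P.cons (P.lf 24597 0 0) P.nil) P.nil)))))) 19026)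
 (EL.cons 8 (TM.mk (P.cons (P.cons (P.lf 50419458 0 0) (P.cons (P.lf 0 3643641 0) (P.cons (P.lf 0 1655475 0) (P.cons (P.lf 142845 0 0) (P.cons (P.lf 11481 0 0) (P.cons (P.lf 0 1368 0) P.nil)))))) (P.cons (P.cons (P.lf 0 31702737 0) (P.cons (P.lf 1744497 0 0) (P.cons (P.lf 800232 0 0) (P.cons (P.lf 0 61188 0) (P.cons (P.lf 0 4140 0) P.nil))))) (P.cons (P.cons (P.lf 4946925 0 0) (P.cons (P.lf 0 177321 0) (P.cons (P.lf 0 82761 0) (P.cons (P.lf 4878 0 0) P.nil)))) (P.cons (P.cons (P.lf 381219 0 0) (P.cons (P.lf 0 27528 0) (P.cons (P.lf 0 12552 0) P.nil))) (P.cons (P.cons (P.lf 0 137175 0) (P.cons (P.lf 4515 0 0) P.nil)) (P.cons (P.cons (P.lf 2157 0 0) P.nil) P.nil)))))) 8748)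
 (EL.cons 11 (TM.mk (P.cons (P.cons (P.lf 46360641 0 0) (P.cons (P.lf 44272131 0 0) (P.cons (P.lf 0 3532152 0) (P.cons (P.lf 0 856182 0) (P.cons (P.lf 70452 0 0) (P.cons (P.lf 2556 0 0) P.nil)))))) (P.cons (P.cons (P.lf 0 6124236 0) (P.cons (P.lf 0 5877261 0) (P.cons (P.lf 424434 0 0) (P.cons (P.lf 101184 0 0) (P.cons (P.lf 0 8079 0) P.nil))))) (P.cons (P.cons (P.lf 0 1244802 0) (P.cons (P.lf 0 1193358 0) (P.cons (P.lf 88083 0 0) (P.cons (P.lf 21078 0 0) P.nil)))) (P.cons (P.cons (P.lf 138846 0 0) (P.cons (P.lf 134901 0 0) (P.cons (P.lf 0 7209 0) P.nil))) (P.cons (P.cons (P.lf 13359 0 0) (P.cons (P.lf 12768 0 0) P.nil)) (P.cons (P.cons (P.lf 0 972 0) P.nil) P.nil)))))) 10560)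
 EL.nil)))
noncomputable def S198_212_216_290_27 : EL := (EL.cons 13 (TM.mk (P.lf 0 4294967296 0) 0)
 EL.nil)
noncomputable def S198_212_216_290_28 : EL := (EL.cons 13 (TM.mk (P.cons (P.cons (P.lf 0 2582550376 0) (P.cons (P.lf 80295036 0 0) (P.cons (P.lf 37904172 0 0) (P.lf 0 1804956 0)))) (P.cons (P.cons (P.lf 0 159735968 0) (P.cons (P.lf 6577160 0 0) (P.cons (P.lf 3104820 0 0) (P.lf 0 147848 0)))) (P.cons (P.cons (P.lf 24345088 0 0) (P.cons (P.lf 0 186448 0) (P.cons (P.lf 0 88016 0) (P.lf 4188 0 0)))) (P.cons (P.cons (P.lf 633588 0 0) (P.cons (P.lf 0 28956 0) (P.cons (P.lf 0 13668 0) P.nil))) (P.cons (P.cons (P.lf 0 65758 0) (P.cons (P.lf 0 104 0) P.nil)) (P.cons (P.cons (P.lf 0 2394 0) P.nil) P.nil)))))) 1887)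
 EL.nil)
noncomputable def S198_212_216_290_29 : EL := (EL.cons 13 (TM.mk (P.cons (P.cons (P.lf 0 1552879448 0) (P.cons (P.lf 96562307 0 0) (P.cons (P.lf 44082192 0 0) (P.cons (P.lf 0 3587876 0) (P.cons (P.lf 0 267026 0) (P.cons (P.lf 31858 0 0) P.nil)))))) (P.cons (P.cons (P.lf 0 192097473 0) (P.cons (P.lf 13882225 0 0) (P.cons (P.lf 6307335 0 0) (P.cons (P.lf 0 544239 0) (P.cons (P.lf 0 43745 0) P.nil))))) (P.cons (P.cons (P.lf 23336441 0 0) (P.cons (P.lf 0 645263 0) (P.cons (P.lf 0 307705 0) (P.cons (P.lf 11573 0 0) P.nil)))) (P.cons (P.cons (P.lf 2572806 0 0) (P.cons (P.lf 0 146943 0) (P.cons (P.lf 0 67711 0) P.nil))) (P.cons (P.cons (P.lf 0 169946 0) (P.cons (P.lf 352 0 0) P.nil)) (P.cons (P.cons (P.lf 0 14952 0) P.nil) P.nil)))))) 24699)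
 EL.nil)
noncomputable def S198_212_216_290_30 : EL := (EL.cons 13 (TM.mk (P.cons (P.lf 1630392056 0 0) (P.cons (P.lf 0 202625308 0) (P.cons (P.lf 0 4080764 0) (P.cons (P.lf 127476 0 0) (P.cons (P.lf 5284 0 0) (P.cons (P.lf 0 44 0) P.nil)))))) 48)
 EL.nil)
noncomputable def S198_212_216_290_31 : EL := (EL.cons 13 (TM.mk (P.cons (P.cons (P.lf 980349634 0 0) (P.cons (P.lf 0 30480415 0) (P.cons (P.lf 0 14388621 0) (P.lf 685170 0 0)))) (P.cons (P.cons (P.lf 0 61201353 0) (P.cons (P.lf 1291385 0 0) (P.cons (P.lf 609613 0 0) (P.lf 0 29029 0)))) (P.cons (P.cons (P.lf 0 19231197 0) (P.cons (P.lf 457360 0 0) (P.cons (P.lf 215902 0 0) (P.lf 0 10279 0)))) (P.cons (P.cons (P.lf 832905 0 0) (P.cons (P.lf 6061 0 0) (P.cons (P.lf 2861 0 0) P.nil))) (P.cons (P.cons (P.lf 85902 0 0) (P.cons (P.lf 0 1797 0) P.nil)) (P.cons (P.cons (P.lf 0 2144 0) P.nil) P.nil)))))) 2428)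
 EL.nil)
noncomputable def S198_212_216_290_32 : EL := (EL.cons 13 (TM.mk (P.cons (P.cons (P.lf 589481162 0 0) (P.cons (P.lf 0 36655556 0) (P.cons (P.lf 0 16733830 0) (P.cons (P.lf 1361976 0 0) (P.cons (P.lf 101364 0 0) (P.cons (P.lf 0 12093 0) P.nil)))))) (P.cons (P.cons (P.lf 0 339579 0) (P.cons (P.lf 0 714208 0) (P.cons (P.lf 0 314615 0) (P.cons (P.lf 37329 0 0) (P.cons (P.lf 4008 0 0) P.nil))))) (P.cons (P.cons (P.lf 0 19396723 0) (P.cons (P.lf 991618 0 0) (P.cons (P.lf 456253 0 0) (P.cons (P.lf 0 33477 0) P.nil)))) (P.cons (P.cons (P.lf 0 12125 0) (P.cons (P.lf 35662 0 0) (P.cons (P.lf 15871 0 0) P.nil))) (P.cons (P.cons (P.lf 215675 0 0) (P.cons (P.lf 0 8209 0) P.nil)) (P.cons (P.cons (P.lf 0 369 0) P.nil) P.nil)))))) 20723)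
 EL.nil)
noncomputable def S198_212_216_290_33 : EL := (EL.cons 14 (TM.mk (P.lf 8589934592 0 0) 0)
 EL.nil)
noncomputable def S198_212_216_290_34 : EL := (EL.cons 14 (TM.mk (P.cons (P.cons (P.lf 5165100752 0 0) (P.cons (P.lf 0 160590072 0) (P.cons (P.lf 0 75808344 0) (P.lf 3609912 0 0)))) (P.cons (P.cons (P.lf 319471936 0 0) (P.cons (P.lf 0 13154320 0) (P.cons (P.lf 0 6209640 0) (P.lf 295696 0 0)))) (P.cons (P.cons (P.lf 0 48690176 0) (P.cons (P.lf 372896 0 0) (P.cons (P.lf 176032 0 0) (P.lf 0 8376 0)))) (P.cons (P.cons (P.lf 0 1267176 0) (P.cons (P.lf 57912 0 0) (P.cons (P.lf 27336 0 0) P.nil))) (P.cons (P.cons (P.lf 131516 0 0) (P.cons (P.lf 208 0 0) P.nil)) (P.cons (P.cons (P.lf 4788 0 0) P.nil) P.nil)))))) 3774)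
 EL.nil)
noncomputable def S198_212_216_290_35 : EL := (EL.cons 14 (TM.mk (P.cons (P.cons (P.lf 3105758896 0 0) (P.cons (P.lf 0 193124614 0) (P.cons (P.lf 0 88164384 0) (P.cons (P.lf 7175752 0 0) (P.cons (P.lf 534052 0 0) (P.cons (P.lf 0 63716 0) P.nil)))))) (P.cons (P.cons (P.lf 384194946 0 0) (P.cons (P.lf 0 27764450 0) (P.cons (P.lf 0 12614670 0) (P.cons (P.lf 1088478 0 0) (P.cons (P.lf 87490 0 0) P.nil))))) (P.cons (P.cons (P.lf 0 46672882 0) (P.cons (P.lf 1290526 0 0) (P.cons (P.lf 615410 0 0) (P.cons (P.lf 0 23146 0) P.nil)))) (P.cons (P.cons (P.lf 0 5145612 0) (P.cons (P.lf 293886 0 0) (P.cons (P.lf 135422 0 0) P.nil))) (P.cons (P.cons (P.lf 339892 0 0) (P.cons (P.lf 0 704 0) P.nil)) (P.cons (P.cons (P.lf 29904 0 0) P.nil) P.nil)))))) 49398)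
 EL.nil)
noncomputable def S198_212_216_290_36 : EL := (EL.cons 14 (TM.mk (P.cons (P.lf 0 3260784112 0) (P.cons (P.lf 405250616 0 0) (P.cons (P.lf 8161528 0 0) (P.cons (P.lf 0 254952 0) (P.cons (P.lf 0 10568 0) (P.cons (P.lf 88 0 0) P.nil)))))) 96)
 EL.nil)
noncomputable def S198_212_216_290_37 : EL := (EL.cons 14 (TM.mk (P.cons (P.cons (P.lf 0 1960699268 0) (P.cons (P.lf 60960830 0 0) (P.cons (P.lf 28777242 0 0) (P.lf 0 1370340 0)))) (P.cons (P.cons (P.lf 122402706 0 0) (P.cons (P.lf 0 2582770 0) (P.cons (P.lf 0 1219226 0) (P.lf 58058 0 0)))) (P.cons (P.cons (P.lf 38462394 0 0) (P.cons (P.lf 0 914720 0) (P.cons (P.lf 0 431804 0) (P.lf 20558 0 0)))) (P.cons (P.cons (P.lf 0 1665810 0) (P.cons (P.lf 0 12122 0) (P.cons (P.lf 0 5722 0) P.nil))) (P.cons (P.cons (P.lf 0 171804 0) (P.cons (P.lf 3594 0 0) P.nil)) (P.cons (P.cons (P.lf 4288 0 0) P.nil) P.nil)))))) 4856)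
 EL.nil)
noncomputable def S198_212_216_290_38 : EL := (EL.cons 14 (TM.mk (P.cons (P.cons (P.lf 0 1178962324 0) (P.cons (P.lf 73311112 0 0) (P.cons (P.lf 33467660 0 0) (P.cons (P.lf 0 2723952 0) (P.cons (P.lf 0 202728 0) (P.cons (P.lf 24186 0 0) P.nil)))))) (P.cons (P.cons (P.lf 679158 0 0) (P.cons (P.lf 1428416 0 0) (P.cons (P.lf 629230 0 0) (P.cons (P.lf 0 74658 0) (P.cons (P.lf 0 8016 0) P.nil))))) (P.cons (P.cons (P.lf 38793446 0 0) (P.cons (P.lf 0 1983236 0) (P.cons (P.lf 0 912506 0) (P.cons (P.lf 66954 0 0) P.nil)))) (P.cons (P.cons (P.lf 24250 0 0) (P.cons (P.lf 0 71324 0) (P.cons (P.lf 0 31742 0) P.nil))) (P.cons (P.cons (P.lf 0 431350 0) (P.cons (P.lf 16418 0 0) P.nil)) (P.cons (P.cons (P.lf 738 0 0) P.nil) P.nil)))))) 41446)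
 EL.nil)
noncomputable def S198_212_216_290_39 : EL := (EL.cons 14 (TM.mk (P.cons (P.lf 1237810708 0 0) (P.cons (P.lf 0 307670508 0) (P.cons (P.lf 12922344 0 0) (P.cons (P.lf 963640 0 0) (P.cons (P.lf 0 8278 0) (P.cons (P.lf 0 1548 0) P.nil)))))) 132)
 EL.nil)
noncomputable def S198_212_216_290_40 : EL := (EL.cons 14 (TM.mk (P.cons (P.cons (P.lf 744291698 0 0) (P.cons (P.lf 0 23141050 0) (P.cons (P.lf 0 10923992 0) (P.lf 520188 0 0)))) (P.cons (P.cons (P.lf 0 138965364 0) (P.cons (P.lf 3856404 0 0) (P.cons (P.lf 1820460 0 0) (P.lf 0 86688 0)))) (P.cons (P.cons (P.lf 0 10688800 0) (P.cons (P.lf 283304 0 0) (P.cons (P.lf 133736 0 0) (P.lf 0 6366 0)))) (P.cons (P.cons (P.lf 2621396 0 0) (P.cons (P.lf 0 42814 0) (P.cons (P.lf 0 20210 0) P.nil))) (P.cons (P.cons (P.lf 21952 0 0) (P.cons (P.lf 0 2804 0) P.nil)) (P.cons (P.cons (P.lf 0 12626 0) P.nil) P.nil)))))) 4948)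
 EL.nil)
noncomputable def S198_212_216_290_41 : EL := (EL.cons 14 (TM.mk (P.cons (P.cons (P.lf 447540266 0 0) (P.cons (P.lf 0 27829282 0) (P.cons (P.lf 0 12704498 0) (P.cons (P.lf 1034026 0 0) (P.cons (P.lf 76956 0 0) (P.cons (P.lf 0 9180 0) P.nil)))))) (P.cons (P.cons (P.lf 0 55878166 0) (P.cons (P.lf 2916390 0 0) (P.cons (P.lf 1340056 0 0) (P.cons (P.lf 0 100168 0) (P.cons (P.lf 0 6520 0) P.nil))))) (P.cons (P.cons (P.lf 0 15814318 0) (P.cons (P.lf 889890 0 0) (P.cons (P.lf 407876 0 0) (P.cons (P.lf 0 31526 0) P.nil)))) (P.cons (P.cons (P.lf 1856604 0 0) (P.cons (P.lf 0 67306 0) (P.cons (P.lf 0 31394 0) P.nil))) (P.cons (P.cons (P.lf 203174 0 0) (P.cons (P.lf 0 11614 0) P.nil)) (P.cons (P.cons (P.lf 0 21770 0) P.nil) P.nil)))))) 29720)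
 EL.nil)
noncomputable def S198_212_216_290_42 : EL := (EL.cons 14 (TM.mk (P.cons (P.lf 0 469879420 0) (P.cons (P.lf 175190000 0 0) (P.cons (P.lf 0 18244400 0) (P.cons (P.lf 0 85224 0) (P.cons (P.lf 68490 0 0) (P.cons (P.lf 1120 0 0) P.nil)))))) 218)
 EL.nil)
noncomputable def S198_212_216_290_43 : EL := (EL.cons 14 (TM.mk (P.cons (P.cons (P.lf 0 282537022 0) (P.cons (P.lf 8784462 0 0) (P.cons (P.lf 4146804 0 0) (P.lf 0 197466 0)))) (P.cons (P.cons (P.lf 87865710 0 0) (P.cons (P.lf 0 2555644 0) (P.cons (P.lf 0 1206420 0) (P.lf 57448 0 0)))) (P.cons (P.cons (P.lf 0 1791324 0) (P.cons (P.lf 52404 0 0) (P.cons (P.lf 24736 0 0) (P.lf 0 1178 0)))) (P.cons (P.cons (P.lf 0 1653490 0) (P.cons (P.lf 33968 0 0) (P.cons (P.lf 16034 0 0) P.nil))) (P.cons (P.cons (P.lf 108388 0 0) (P.cons (P.lf 0 772 0) P.nil)) (P.cons (P.cons (P.lf 8814 0 0) P.nil) P.nil)))))) 4194)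
 EL.nil)
noncomputable def S198_212_216_290_44 : EL := (EL.cons 14 (TM.mk (P.cons (P.cons (P.lf 0 169888626 0) (P.cons (P.lf 10564140 0 0) (P.cons (P.lf 4822694 0 0) (P.cons (P.lf 0 392520 0) (P.cons (P.lf 0 29212 0) (P.cons (P.lf 3484 0 0) P.nil)))))) (P.cons (P.cons (P.lf 42325420 0 0) (P.cons (P.lf 0 2419990 0) (P.cons (P.lf 0 1108056 0) (P.cons (P.lf 86806 0 0) (P.cons (P.lf 6106 0 0) P.nil))))) (P.cons (P.cons (P.lf 3792232 0 0) (P.cons (P.lf 0 226660 0) (P.cons (P.lf 0 103682 0) (P.cons (P.lf 8224 0 0) P.nil)))) (P.cons (P.cons (P.lf 0 1517228 0) (P.cons (P.lf 71128 0 0) (P.cons (P.lf 32810 0 0) P.nil))) (P.cons (P.cons (P.lf 0 3454 0) (P.cons (P.lf 2026 0 0) P.nil)) (P.cons (P.cons (P.lf 20156 0 0) P.nil) P.nil)))))) 19644)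
 EL.nil)
noncomputable def S198_212_216_290_45 : EL := (EL.cons 14 (TM.mk (P.cons (P.cons (P.lf 1867483090 0 0) (P.cons (P.lf 0 174187836 0) (P.cons (P.lf 0 76811582 0) (P.cons (P.lf 8972568 0 0) (P.cons (P.lf 883884 0 0) (P.cons (P.lf 0 148674 0) P.nil)))))) (P.cons (P.cons (P.lf 346522826 0 0) (P.cons (P.lf 0 35815884 0) (P.cons (P.lf 0 15685078 0) (P.cons (P.lf 1945226 0 0) (P.cons (P.lf 197876 0 0) P.nil))))) (P.cons (P.cons (P.lf 0 31379816 0) (P.cons (P.lf 1257110 0 0) (P.cons (P.lf 608446 0 0) (P.cons (P.lf 0 14816 0) P.nil)))) (P.cons (P.cons (P.lf 0 7465754 0) (P.cons (P.lf 615862 0 0) (P.cons (P.lf 275756 0 0) P.nil))) (P.cons (P.cons (P.lf 268432 0 0) (P.cons (P.lf 6494 0 0) P.nil)) (P.cons (P.cons (P.lf 74286 0 0) P.nil) P.nil)))))) 163268)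
 EL.nil)
noncomputable def S198_212_216_290_46 : EL := (EL.cons 15 (TM.mk (P.lf 4294967296 0 0) 0)
 EL.nil)
noncomputable def S198_212_216_290_47 : EL := (EL.cons 15 (TM.mk (P.cons (P.cons (P.lf 2582550376 0 0) (P.cons (P.lf 0 80295036 0) (P.cons (P.lf 0 37904172 0) (P.lf 1804956 0 0)))) (P.cons (P.cons (P.lf 159735968 0 0) (P.cons (P.lf 0 6577160 0) (P.cons (P.lf 0 3104820 0) (P.lf 147848 0 0)))) (P.cons (P.cons (P.lf 0 24345088 0) (P.cons (P.lf 186448 0 0) (P.cons (P.lf 88016 0 0) (P.lf 0 4188 0)))) (P.cons (P.cons (P.lf 0 633588 0) (P.cons (P.lf 28956 0 0) (P.cons (P.lf 13668 0 0) P.nil))) (P.cons (P.cons (P.lf 65758 0 0) (P.cons (P.lf 104 0 0) P.nil)) (P.cons (P.cons (P.lf 2394 0 0) P.nil) P.nil)))))) 1887)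
 EL.nil)
noncomputable def S198_212_216_290_48 : EL := (EL.cons 15 (TM.mk (P.cons (P.cons (P.lf 1552879448 0 0) (P.cons (P.lf 0 96562307 0) (P.cons (P.lf 0 44082192 0) (P.cons (P.lf 3587876 0 0) (P.cons (P.lf 267026 0 0) (P.cons (P.lf 0 31858 0) P.nil)))))) (P.cons (P.cons (P.lf 192097473 0 0) (P.cons (P.lf 0 13882225 0) (P.cons (P.lf 0 6307335 0) (P.cons (P.lf 544239 0 0) (P.cons (P.lf 43745 0 0) P.nil))))) (P.cons (P.cons (P.lf 0 23336441 0) (P.cons (P.lf 645263 0 0) (P.cons (P.lf 307705 0 0) (P.cons (P.lf 0 11573 0) P.nil)))) (P.cons (P.cons (P.lf 0 2572806 0) (P.cons (P.lf 146943 0 0) (P.cons (P.lf 67711 0 0) P.nil))) (P.cons (P.cons (P.lf 169946 0 0) (P.cons (P.lf 0 352 0) P.nil)) (P.cons (P.cons (P.lf 14952 0 0) P.nil) P.nil)))))) 24699)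
 EL.nil)
noncomputable def S198_212_216_290 : SL := (SL.cons S198_212_216_290_0 (SL.cons S198_212_216_290_1 (SL.cons S198_212_216_290_2 (SL.cons S198_212_216_290_3 (SL.cons S198_212_216_290_4 (SL.cons S198_212_216_290_5 (SL.cons S198_212_216_290_6 (SL.cons S198_212_216_290_7 (SL.cons S198_212_216_290_8 (SL.cons S198_212_216_290_9 (SL.cons S198_212_216_290_10 (SL.cons S198_212_216_290_11 (SL.cons S198_212_216_290_12 (SL.cons S198_212_216_290_13 (SL.cons S198_212_216_290_14 (SL.cons S198_212_216_290_15 (SL.cons S198_212_216_290_16 (SL.cons S198_212_216_290_17 (SL.cons S198_212_216_290_18 (SL.cons S198_212_216_290_19 (SL.cons S198_212_216_290_20 (SL.cons S198_212_216_290_21 (SL.cons S198_212_216_290_22 (SL.cons S198_212_216_290_23 (SL.cons S198_212_216_290_24 (SL.cons S198_212_216_290_25 (SL.cons S198_212_216_290_26 (SL.cons S198_212_216_290_27 (SL.cons S198_212_216_290_28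 (SL.cons S198_212_216_290_29 (SL.cons S198_212_216_290_30 (SL.cons S198_212_216_290_31 (SL.cons S198_212_216_290_32 (SL.cons S198_212_216_290_33 (SL.cons S198_212_216_290_34 (SL.cons S198_212_216_290_35 (SL.cons S198_212_216_290_36 (SL.cons S198_212_216_290_37 (SL.cons S198_212_216_290_38 (SL.cons S198_212_216_290_39 (SL.cons S198_212_216_290_40 (SL.cons S198_212_216_290_41 (SL.cons S198_212_216_290_42 (SL.cons S198_212_216_290_43 (SL.cons S198_212_216_290_44 (SL.cons S198_212_216_290_45 (SL.cons S198_212_216_290_46 (SL.cons S198_212_216_290_47 (SL.cons S198_212_216_290_48 SL.nil)))))))))))))))))))))))))))))))))))))))))))))))))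
noncomputable def S198_212_216_364_0 : EL := (EL.cons 0 (TM.mk (P.cons (P.lf 7367797296 0 0) (P.cons (P.lf 270413532 0 0) (P.cons (P.lf 0 11357528 0) (P.cons (P.lf 0 846949 0) (P.cons (P.lf 7275 0 0) (P.cons (P.lf 1360 0 0) P.nil)))))) 123)
 (EL.cons 1 (TM.mk (P.cons (P.lf 0 1384003233 0) (P.cons (P.lf 134215061 0 0) (P.cons (P.lf 10263551 0 0) (P.cons (P.lf 0 214061 0) (P.cons (P.lf 0 21358 0) (P.cons (P.lf 0 5 0) P.nil)))))) 123)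
 (EL.cons 5 (TM.mk (P.cons (P.lf 4681783146 0 0) (P.cons (P.lf 0 96147034 0) (P.cons (P.lf 4038232 0 0) (P.cons (P.lf 301136 0 0) (P.cons (P.lf 0 2584 0) (P.cons (P.lf 0 484 0) P.nil)))))) 121)
 (EL.cons 9 (TM.mk (P.lf 6442450944 0 0) 2)
 EL.nil))))
noncomputable def S198_212_216_364_1 : EL := (EL.cons 0 (TM.mk (P.cons (P.cons (P.lf 2837139733 0 0) (P.cons (P.lf 0 287979582 0) (P.cons (P.lf 0 124180046 0) (P.lf 13797786 0 0)))) (P.cons (P.cons (P.lf 1012827382 0 0) (P.cons (P.lf 0 99488553 0) (P.cons (P.lf 0 42900583 0) (P.lf 4766723 0 0)))) (P.cons (P.cons (P.lf 0 63672530 0) (P.cons (P.lf 0 2360566 0) (P.cons (P.lf 0 1017901 0) (P.lf 113093 0 0)))) (P.cons (P.cons (P.lf 0 10252652 0) (P.cons (P.lf 778947 0 0) (P.cons (P.lf 335885 0 0) P.nil))) (P.cons (P.cons (P.lf 253040 0 0) (P.cons (P.lf 37780 0 0) P.nil)) (P.cons (P.cons (P.lf 51091 0 0) P.nil) P.nil))))))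 91480)
 (EL.cons 1 (TM.mk (P.cons (P.cons (P.lf 0 1486292559 0) (P.cons (P.lf 210783989 0 0) (P.cons (P.lf 90892430 0 0) (P.lf 0 10099153 0)))) (P.cons (P.cons (P.lf 162541238 0 0) (P.cons (P.lf 6527472 0 0) (P.cons (P.lf 2814720 0 0) (P.lf 0 312747 0)))) (P.cons (P.cons (P.lf 59377678 0 0) (P.cons (P.lf 0 4810480 0) (P.cons (P.lf 0 2074324 0) (P.lf 230472 0 0)))) (P.cons (P.cons (P.lf 0 1846248 0) (P.cons (P.lf 0 238369 0) (P.cons (P.lf 0 102783 0) P.nil))) (P.cons (P.cons (P.lf 0 435570 0) (P.cons (P.lf 24276 0 0) P.nil)) (P.cons (P.cons (P.lf 3222 0 0) P.nil) P.nil)))))) 49985)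
 (EL.cons 5 (TM.mk (P.cons (P.cons (P.lf 3183704628 0 0) (P.cons (P.lf 0 409948178 0) (P.cons (P.lf 0 176774284 0) (P.lf 19641582 0 0)))) (P.cons (P.cons (P.lf 0 104773284 0) (P.cons (P.lf 0 6593378 0) (P.cons (P.lf 0 2843144 0) (P.lf 315908 0 0)))) (P.cons (P.cons (P.lf 0 18288066 0) (P.cons (P.lf 2029018 0 0) (P.cons (P.lf 874936 0 0) (P.lf 0 97216 0)))) (P.cons (P.cons (P.lf 2639646 0 0) (P.cons (P.lf 0 92172 0) (P.cons (P.lf 0 39742 0) P.nil))) (P.cons (P.cons (P.lf 22097 0 0) (P.cons (P.lf 0 12740 0) P.nil)) (P.cons (P.cons (P.lf 0 14237 0) P.nil) P.nil)))))) 50395)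
 (EL.cons 9 (TM.mk (P.cons (P.cons (P.lf 3699234186 0 0) (P.cons (P.lf 0 452065512 0) (P.cons (P.lf 0 194935746 0) (P.lf 21659526 0 0)))) (P.cons (P.cons (P.lf 225302754 0 0) (P.cons (P.lf 0 37029774 0) (P.cons (P.lf 0 15967656 0) (P.lf 1774182 0 0)))) (P.cons (P.cons (P.lf 0 36112218 0) (P.cons (P.lf 1049736 0 0) (P.cons (P.lf 452652 0 0) (P.lf 0 50292 0)))) (P.cons (P.cons (P.lf 0 887412 0) (P.cons (P.lf 163038 0 0) (P.cons (P.lf 70302 0 0) P.nil))) (P.cons (P.cons (P.lf 98871 0 0) (P.cons (P.lf 606 0 0) P.nil)) (P.cons (P.cons (P.lf 3453 0 0) P.nil) P.nil)))))) 12107)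
 (EL.cons 2 (TM.mk (P.cons (P.cons (P.lf 371257644 0 0) (P.cons (P.lf 345860839 0 0) (P.cons (P.lf 0 35496570 0) (P.cons (P.lf 0 7382297 0) (P.lf 615189 0 0))))) (P.cons (P.cons (P.lf 0 25866199 0) (P.cons (P.lf 0 24096760 0) (P.cons (P.lf 2473110 0 0) (P.cons (P.lf 514335 0 0) (P.lf 0 42859 0))))) (P.cons (P.cons (P.lf 0 4300363 0) (P.cons (P.lf 0 4006186 0) (P.cons (P.lf 411162 0 0) (P.cons (P.lf 85508 0 0) P.nil)))) (P.cons (P.cons (P.lf 20610 0 0) (P.cons (P.lf 19200 0 0) (P.cons (P.lf 0 1968 0) P.nil))) (P.cons (P.cons (P.lf 13353 0 0) (P.cons (P.lf 12439 0 0) P.nil)) (P.cons (P.cons (P.lf 180 0 0) P.nil) P.nil)))))) 14797)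
 (EL.cons 6 (TM.mk (P.cons (P.cons (P.lf 472297581 0 0) (P.cons (P.lf 439988889 0 0) (P.cons (P.lf 0 45157173 0) (P.cons (P.lf 0 9391434 0) (P.lf 782616 0 0))))) (P.cons (P.cons (P.lf 38687034 0 0) (P.cons (P.lf 36040551 0 0) (P.cons (P.lf 0 3698931 0) (P.cons (P.lf 0 769272 0) (P.lf 64104 0 0))))) (P.cons (P.cons (P.lf 0 1096719 0) (P.cons (P.lf 0 1021695 0) (P.cons (P.lf 104856 0 0) (P.cons (P.lf 21807 0 0) P.nil)))) (P.cons (P.cons (P.lf 0 170340 0) (P.cons (P.lf 0 158688 0) (P.cons (P.lf 16284 0 0) P.nil))) (P.cons (P.cons (P.lf 0 633 0) (P.cons (P.lf 0 588 0) P.nil)) (P.cons (P.cons (P.lf 360 0 0) P.nil) P.nil)))))) 9132)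
 EL.nil))))))
noncomputable def S198_212_216_364_2 : EL := (EL.cons 0 (TM.mk (P.cons (P.cons (P.lf 828976101 0 0) (P.cons (P.lf 0 135161113 0) (P.cons (P.lf 0 54145632 0) (P.cons (P.lf 10044055 0 0) (P.cons (P.lf 372864 0 0) (P.cons (P.lf 0 170963 0) P.nil)))))) (P.cons (P.cons (P.lf 976507871 0 0) (P.cons (P.lf 0 202564790 0) (P.cons (P.lf 0 77350174 0) (P.cons (P.lf 18327880 0 0) (P.cons (P.lf 900996 0 0) P.nil))))) (P.cons (P.cons (P.lf 0 2785898 0) (P.cons (P.lf 0 10239319 0) (P.cons (P.lf 0 3271332 0) (P.cons (P.lf 1477176 0 0) P.nil)))) (P.cons (P.cons (P.lf 0 22164228 0) (P.cons (P.lf 3299726 0 0) (P.cons (P.lf 1344238 0 0) P.nil))) (P.cons (P.cons (P.lf 0 73812 0) (P.cons (P.lf 223855 0 0) P.nil)) (P.cons (P.cons (P.lf 197094 0 0) P.nil) P.nil)))))) 1867754)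
 (EL.cons 1 (TM.mk (P.cons (P.cons (P.lf 0 1250540159 0) (P.cons (P.lf 339122165 0 0) (P.cons (P.lf 123466512 0 0) (P.cons (P.lf 0 35882731 0) (P.cons (P.lf 0 2051704 0) (P.cons (P.lf 940736 0 0) P.nil)))))) (P.cons (P.cons (P.lf 94037463 0 0) (P.cons (P.lf 11401234 0 0) (P.cons (P.lf 2032743 0 0) (P.cons (P.lf 0 3033130 0) (P.cons (P.lf 0 259860 0) P.nil))))) (P.cons (P.cons (P.lf 80229452 0 0) (P.cons (P.lf 0 14953697 0) (P.cons (P.lf 0 5924159 0) (P.cons (P.lf 1168390 0 0) P.nil)))) (P.cons (P.cons (P.lf 216761 0 0) (P.cons (P.lf 0 991118 0) (P.cons (P.lf 0 341928 0) P.nil))) (P.cons (P.cons (P.lf 0 1187852 0) (P.cons (P.lf 152004 0 0) P.nil)) (P.cons (P.cons (P.lf 0 14457 0) P.nil) P.nil)))))) 967470)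
 (EL.cons 5 (TM.mk (P.cons (P.cons (P.lf 2112552836 0 0) (P.cons (P.lf 0 540311653 0) (P.cons (P.lf 0 198508684 0) (P.cons (P.lf 55623750 0 0) (P.cons (P.lf 3107253 0 0) (P.cons (P.lf 0 1424720 0) P.nil)))))) (P.cons (P.cons (P.lf 0 53968435 0) (P.cons (P.lf 0 12006444 0) (P.cons (P.lf 0 2842538 0) (P.cons (P.lf 2588841 0 0) (P.cons (P.lf 210420 0 0) P.nil))))) (P.cons (P.cons (P.lf 0 37080210 0) (P.cons (P.lf 7815285 0 0) (P.cons (P.lf 3037548 0 0) (P.cons (P.lf 0 661188 0) P.nil)))) (P.cons (P.cons (P.lf 3863051 0 0) (P.cons (P.lf 0 266188 0) (P.cons (P.lf 0 126431 0) P.nil))) (P.cons (P.cons (P.lf 314000 0 0) (P.cons (P.lf 0 83372 0) P.nil)) (P.cons (P.cons (P.lf 0 46455 0) P.nil) P.nil)))))) 1219173)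
 (EL.cons 9 (TM.mk (P.cons (P.cons (P.lf 2124088126 0 0) (P.cons (P.lf 0 519149065 0) (P.cons (P.lf 0 192141582 0) (P.cons (P.lf 52230862 0 0) (P.cons (P.lf 2858677 0 0) (P.cons (P.lf 0 1310748 0) P.nil)))))) (P.cons (P.cons (P.lf 258736203 0 0) (P.cons (P.lf 0 74143648 0) (P.cons (P.lf 0 26774832 0) (P.cons (P.lf 8034183 0 0) (P.cons (P.lf 468322 0 0) P.nil))))) (P.cons (P.cons (P.lf 0 33591838 0) (P.cons (P.lf 3683503 0 0) (P.cons (P.lf 1653880 0 0) (P.cons (P.lf 0 119974 0) P.nil)))) (P.cons (P.cons (P.lf 0 3544900 0) (P.cons (P.lf 800322 0 0) (P.cons (P.lf 310156 0 0) P.nil))) (P.cons (P.cons (P.lf 253896 0 0) (P.cons (P.lf 0 3342 0) P.nil)) (P.cons (P.cons (P.lf 20829 0 0) P.nil) P.nil)))))) 537479)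
 (EL.cons 2 (TM.mk (P.cons (P.cons (P.lf 426349839 0 0) (P.cons (P.lf 345082168 0 0) (P.cons (P.lf 0 111769036 0) (P.cons (P.lf 0 21929990 0) (P.cons (P.lf 6216187 0 0) (P.cons (P.lf 121730 0 0) P.nil)))))) (P.cons (P.cons (P.lf 0 3737632 0) (P.cons (P.lf 0 4119710 0) (P.cons (P.lf 0 511779 0) (P.cons (P.lf 0 90337 0) (P.cons (P.lf 61245 0 0) P.nil))))) (P.cons (P.cons (P.lf 0 10909732 0) (P.cons (P.lf 0 9141581 0) (P.cons (P.lf 2435664 0 0) (P.cons (P.lf 480763 0 0) P.nil)))) (P.cons (P.cons (P.lf 0 89409 0) (P.cons (P.lf 0 26386 0) (P.cons (P.lf 86090 0 0) P.nil))) (P.cons (P.cons (P.lf 83508 0 0) (P.cons (P.lf 73040 0 0) P.nil)) (P.cons (P.cons (P.lf 1698 0 0) P.nil) P.nil)))))) 418758)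
 (EL.cons 6 (TM.mk (P.cons (P.cons (P.lf 542383440 0 0) (P.cons (P.lf 438998292 0 0) (P.cons (P.lf 0 142187634 0) (P.cons (P.lf 0 27898362 0) (P.cons (P.lf 7907958 0 0) (P.cons (P.lf 154860 0 0) P.nil)))))) (P.cons (P.cons (P.lf 77461926 0 0) (P.cons (P.lf 61304304 0 0) (P.cons (P.lf 0 22204464 0) (P.cons (P.lf 0 4343874 0) (P.cons (P.lf 1276638 0 0) P.nil))))) (P.cons (P.cons (P.lf 0 3848358 0) (P.cons (P.lf 0 3722004 0) (P.cons (P.lf 181374 0 0) (P.cons (P.lf 41172 0 0) P.nil)))) (P.cons (P.cons (P.lf 0 836142 0) (P.cons (P.lf 0 705918 0) (P.cons (P.lf 179460 0 0) P.nil))) (P.cons (P.cons (P.lf 3486 0 0) (P.cons (P.lf 6984 0 0) P.nil)) (P.cons (P.cons (P.lf 4272 0 0) P.nil) P.nil)))))) 494916)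
 EL.nil))))))
noncomputable def S198_212_216_364_3 : EL := (EL.cons 0 (TM.mk (P.cons (P.lf 1087919567 0 0) (P.cons (P.lf 0 270413532 0) (P.cons (P.lf 11357528 0 0) (P.cons (P.lf 846949 0 0) (P.cons (P.lf 0 7275 0) (P.cons (P.lf 0 1360 0) P.nil)))))) 123)
 (EL.cons 1 (TM.mk (P.cons (P.lf 1384003233 0 0) (P.cons (P.lf 0 134215061 0) (P.cons (P.lf 0 10263551 0) (P.cons (P.lf 214061 0 0) (P.cons (P.lf 21358 0 0) (P.cons (P.lf 5 0 0) P.nil)))))) 123)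
 (EL.cons 5 (TM.mk (P.cons (P.lf 1760667798 0 0) (P.cons (P.lf 96147034 0 0) (P.cons (P.lf 0 4038232 0) (P.cons (P.lf 0 301136 0) (P.cons (P.lf 2584 0 0) (P.cons (P.lf 484 0 0) P.nil)))))) 114)
 EL.nil)))
noncomputable def S198_212_216_364_4 : EL := (EL.cons 0 (TM.mk (P.cons (P.cons (P.lf 624679843 0 0) (P.cons (P.lf 0 76339100 0) (P.cons (P.lf 0 32918280 0) (P.lf 3657585 0 0)))) (P.cons (P.cons (P.lf 0 117224284 0) (P.cons (P.lf 12721744 0 0) (P.cons (P.lf 5485758 0 0) (P.lf 0 609528 0)))) (P.cons (P.cons (P.lf 0 9033509 0) (P.cons (P.lf 934586 0 0) (P.cons (P.lf 403003 0 0) (P.lf 0 44776 0)))) (P.cons (P.cons (P.lf 2249414 0 0) (P.cons (P.lf 0 141240 0) (P.cons (P.lf 0 60902 0) P.nil))) (P.cons (P.cons (P.lf 15721 0 0) (P.cons (P.lf 0 9247 0) P.nil)) (P.cons (P.cons (P.lf 0 10914 0) P.nil) P.nil)))))) 18650)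
 (EL.cons 1 (TM.mk (P.cons (P.cons (P.lf 794690113 0 0) (P.cons (P.lf 0 97115231 0) (P.cons (P.lf 0 41877181 0) (P.lf 4653018 0 0)))) (P.cons (P.cons (P.lf 0 28665052 0) (P.cons (P.lf 1462901 0 0) (P.cons (P.lf 630819 0 0) (P.lf 0 70089 0)))) (P.cons (P.cons (P.lf 0 18344838 0) (P.cons (P.lf 1717138 0 0) (P.cons (P.lf 740446 0 0) (P.lf 0 82269 0)))) (P.cons (P.cons (P.lf 325663 0 0) (P.cons (P.lf 57125 0 0) (P.cons (P.lf 24631 0 0) P.nil))) (P.cons (P.cons (P.lf 117007 0 0) (P.cons (P.lf 0 7666 0) P.nil)) (P.cons (P.cons (P.lf 0 352 0) P.nil) P.nil)))))) 13314)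
 (EL.cons 5 (TM.mk (P.cons (P.cons (P.lf 1010969670 0 0) (P.cons (P.lf 0 123545710 0) (P.cons (P.lf 0 53274302 0) (P.lf 5919366 0 0)))) (P.cons (P.cons (P.lf 116780664 0 0) (P.cons (P.lf 0 16866544 0) (P.cons (P.lf 0 7273042 0) (P.lf 808114 0 0)))) (P.cons (P.cons (P.lf 0 8825490 0) (P.cons (P.lf 17612 0 0) (P.cons (P.lf 7592 0 0) (P.lf 0 842 0)))) (P.cons (P.cons (P.lf 0 1095594 0) (P.cons (P.lf 104562 0 0) (P.cons (P.lf 45088 0 0) P.nil))) (P.cons (P.cons (P.lf 27364 0 0) (P.cons (P.lf 3488 0 0) P.nil)) (P.cons (P.cons (P.lf 5030 0 0) P.nil) P.nil)))))) 9542)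
 EL.nil)))
noncomputable def S198_212_216_364_5 : EL := (EL.cons 0 (TM.mk (P.cons (P.cons (P.lf 358689114 0 0) (P.cons (P.lf 0 87667321 0) (P.cons (P.lf 0 32446437 0) (P.cons (P.lf 8820086 0 0) (P.cons (P.lf 482735 0 0) (P.cons (P.lf 0 221341 0) P.nil)))))) (P.cons (P.cons (P.lf 0 45463751 0) (P.cons (P.lf 9270166 0 0) (P.cons (P.lf 3543498 0 0) (P.cons (P.lf 0 835611 0) (P.cons (P.lf 0 40904 0) P.nil))))) (P.cons (P.cons (P.lf 0 12788082 0) (P.cons (P.lf 2818887 0 0) (P.cons (P.lf 1064394 0 0) (P.cons (P.lf 0 265405 0) P.nil)))) (P.cons (P.cons (P.lf 1546727 0 0) (P.cons (P.lf 0 218420 0) (P.cons (P.lf 0 89504 0) P.nil))) (P.cons (P.cons (P.lf 164061 0 0) (P.cons (P.lf 0 36822 0) P.nil)) (P.cons (P.cons (P.lf 0 18544 0) P.nil) P.nil)))))) 250236)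
 (EL.cons 1 (TM.mk (P.cons (P.cons (P.lf 456308454 0 0) (P.cons (P.lf 0 111526496 0) (P.cons (P.lf 0 41276925 0) (P.cons (P.lf 11220523 0 0) (P.cons (P.lf 614115 0 0) (P.cons (P.lf 0 281581 0) P.nil)))))) (P.cons (P.cons (P.lf 11332196 0 0) (P.cons (P.lf 0 5112560 0) (P.cons (P.lf 0 1749046 0) (P.cons (P.lf 637826 0 0) (P.cons (P.lf 41051 0 0) P.nil))))) (P.cons (P.cons (P.lf 0 15990526 0) (P.cons (P.lf 3163001 0 0) (P.cons (P.lf 1219196 0 0) (P.cons (P.lf 0 276356 0) P.nil)))) (P.cons (P.cons (P.lf 0 403336 0) (P.cons (P.lf 196059 0 0) (P.cons (P.lf 68443 0 0) P.nil))) (P.cons (P.cons (P.lf 197546 0 0) (P.cons (P.lf 0 27442 0) P.nil)) (P.cons (P.cons (P.lf 4576 0 0) P.nil) P.nil)))))) 228935)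
 (EL.cons 5 (TM.mk (P.cons (P.cons (P.lf 580495466 0 0) (P.cons (P.lf 0 141879084 0) (P.cons (P.lf 0 52510682 0) (P.cons (P.lf 14274256 0 0) (P.cons (P.lf 781252 0 0) (P.cons (P.lf 0 358216 0) P.nil)))))) (P.cons (P.cons (P.lf 102410290 0 0) (P.cons (P.lf 0 28010608 0) (P.cons (P.lf 0 10184854 0) (P.cons (P.lf 2975166 0 0) (P.cons (P.lf 170650 0 0) P.nil))))) (P.cons (P.cons (P.lf 0 6650404 0) (P.cons (P.lf 225562 0 0) (P.cons (P.lf 172840 0 0) (P.cons (P.lf 54374 0 0) P.nil)))) (P.cons (P.cons (P.lf 0 1731580 0) (P.cons (P.lf 344434 0 0) (P.cons (P.lf 135208 0 0) P.nil))) (P.cons (P.cons (P.lf 26296 0 0) (P.cons (P.lf 11978 0 0) P.nil)) (P.cons (P.cons (P.lf 13536 0 0) P.nil) P.nil)))))) 206794)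
 EL.nil)))
noncomputable def S198_212_216_364_6 : EL := (EL.cons 12 (TM.mk (P.lf 8589934592 0 0) 0)
 (EL.cons 3 (TM.mk (P.cons (P.lf 0 1528492552 0) (P.cons (P.lf 189961226 0 0) (P.cons (P.lf 3825716 0 0) (P.cons (P.lf 0 119508 0) (P.cons (P.lf 0 4953 0) (P.cons (P.lf 41 0 0) P.nil)))))) 52)
 (EL.cons 7 (TM.mk (P.cons (P.lf 0 1944480730 0) (P.cons (P.lf 0 53092371 0) (P.cons (P.lf 2954732 0 0) (P.cons (P.lf 85611 0 0) (P.cons (P.lf 0 1520 0) (P.cons (P.lf 0 96 0) P.nil)))))) 47)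
 EL.nil)))
noncomputable def S198_212_216_364_7 : EL := (EL.cons 12 (TM.mk (P.cons (P.cons (P.lf 4932312248 0 0) (P.cons (P.lf 0 602754016 0) (P.cons (P.lf 0 259914328 0) (P.lf 28879368 0 0)))) (P.cons (P.cons (P.lf 300403672 0 0) (P.cons (P.lf 0 49373032 0) (P.cons (P.lf 0 21290208 0) (P.lf 2365576 0 0)))) (P.cons (P.cons (P.lf 0 48149624 0) (P.cons (P.lf 1399648 0 0) (P.cons (P.lf 603536 0 0) (P.lf 0 67056 0)))) (P.cons (P.cons (P.lf 0 1183216 0) (P.cons (P.lf 217384 0 0) (P.cons (P.lf 93736 0 0) P.nil))) (P.cons (P.cons (P.lf 131828 0 0) (P.cons (P.lf 808 0 0) P.nil)) (P.cons (P.cons (P.lf 4604 0 0) P.nil) P.nil)))))) 16118)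
 (EL.cons 3 (TM.mk (P.cons (P.cons (P.lf 1080063021 0 0) (P.cons (P.lf 0 214508040 0) (P.cons (P.lf 0 92498284 0) (P.lf 10277584 0 0)))) (P.cons (P.cons (P.lf 0 543904247 0) (P.cons (P.lf 9088212 0 0) (P.cons (P.lf 3918938 0 0) (P.lf 0 435436 0)))) (P.cons (P.cons (P.lf 0 16643358 0) (P.cons (P.lf 3218714 0 0) (P.cons (P.lf 1387942 0 0) (P.lf 0 154212 0)))) (P.cons (P.cons (P.lf 2933291 0 0) (P.cons (P.lf 42662 0 0) (P.cons (P.lf 18394 0 0) P.nil))) (P.cons (P.cons (P.lf 144545 0 0) (P.cons (P.lf 0 12640 0) P.nil)) (P.cons (P.cons (P.lf 0 6354 0) P.nil) P.nil)))))) 38506)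
 (EL.cons 7 (TM.mk (P.cons (P.cons (P.lf 0 1663678296 0) (P.cons (P.lf 226373296 0 0) (P.cons (P.lf 97614723 0 0) (P.lf 0 10846081 0)))) (P.cons (P.cons (P.lf 152016108 0 0) (P.cons (P.lf 0 2540068 0) (P.cons (P.lf 0 1095306 0) (P.lf 121698 0 0)))) (P.cons (P.cons (P.lf 0 6869959 0) (P.cons (P.lf 0 707086 0) (P.cons (P.lf 0 304906 0) (P.lf 33880 0 0)))) (P.cons (P.cons (P.lf 0 1130011 0) (P.cons (P.lf 76309 0 0) (P.cons (P.lf 32905 0 0) P.nil))) (P.cons (P.cons (P.lf 52758 0 0) (P.cons (P.lf 3592 0 0) P.nil)) (P.cons (P.cons (P.lf 4933 0 0) P.nil) P.nil)))))) 31840)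
 (EL.cons 10 (TM.mk (P.cons (P.cons (P.lf 0 1043210475 0) (P.cons (P.lf 0 971847066 0) (P.cons (P.lf 99743124 0 0) (P.cons (P.lf 20743794 0 0) (P.lf 0 1728648 0))))) (P.cons (P.cons (P.lf 0 56967924 0) (P.cons (P.lf 0 53070891 0) (P.cons (P.lf 5446800 0 0) (P.cons (P.lf 1132782 0 0) (P.lf 0 94398 0))))) (P.cons (P.cons (P.lf 2392686 0 0) (P.cons (P.lf 2229006 0 0) (P.cons (P.lf 0 228768 0) (P.cons (P.lf 0 47577 0) P.nil)))) (P.cons (P.cons (P.lf 178425 0 0) (P.cons (P.lf 166218 0 0) (P.cons (P.lf 0 17058 0) P.nil))) (P.cons (P.cons (P.lf 0 1530 0) (P.cons (P.lf 0 1425 0) P.nil)) (P.cons (P.cons (P.lf 0 285 0) P.nil) P.nil)))))) 8535)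
 EL.nil))))
noncomputable def S198_212_216_364_8 : EL := (EL.cons 12 (TM.mk (P.cons (P.cons (P.lf 2832117502 0 0) (P.cons (P.lf 0 692198754 0) (P.cons (P.lf 0 256188776 0) (P.cons (P.lf 69641150 0 0) (P.cons (P.lf 3811570 0 0) (P.cons (P.lf 0 1747664 0) P.nil)))))) (P.cons (P.cons (P.lf 344981604 0 0) (P.cons (P.lf 0 98858198 0) (P.cons (P.lf 0 35699776 0) (P.cons (P.lf 10712244 0 0) (P.cons (P.lf 624430 0 0) P.nil))))) (P.cons (P.cons (P.lf 0 44789118 0) (P.cons (P.lf 4911338 0 0) (P.cons (P.lf 2205174 0 0) (P.cons (P.lf 0 159966 0) P.nil)))) (P.cons (P.cons (P.lf 0 4726534 0) (P.cons (P.lf 1067096 0 0) (P.cons (P.lf 413542 0 0) P.nil))) (P.cons (P.cons (P.lf 338528 0 0) (P.cons (P.lf 0 4456 0) P.nil)) (P.cons (P.cons (P.lf 27772 0 0) P.nil) P.nil)))))) 716610)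
 (EL.cons 3 (TM.mk (P.cons (P.cons (P.lf 1744284131 0 0) (P.cons (P.lf 0 521085053 0) (P.cons (P.lf 0 187067779 0) (P.cons (P.lf 57419342 0 0) (P.cons (P.lf 3391151 0 0) (P.cons (P.lf 0 1554895 0) P.nil)))))) (P.cons (P.cons (P.lf 0 550317583 0) (P.cons (P.lf 57065580 0 0) (P.cons (P.lf 26095383 0 0) (P.cons (P.lf 0 1450797 0) (P.cons (P.lf 134100 0 0) P.nil))))) (P.cons (P.cons (P.lf 0 86123965 0) (P.cons (P.lf 19045364 0 0) (P.cons (P.lf 7429954 0 0) (P.cons (P.lf 0 1587440 0) P.nil)))) (P.cons (P.cons (P.lf 8039688 0 0) (P.cons (P.lf 4077 0 0) (P.cons (P.lf 0 61844 0) P.nil))) (P.cons (P.cons (P.lf 931872 0 0) (P.cons (P.lf 0 171808 0) P.nil)) (P.cons (P.cons (P.lf 0 41898 0) P.nil) P.nil)))))) 1231607)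
 (EL.cons 7 (TM.mk (P.cons (P.cons (P.lf 0 1269458299 0) (P.cons (P.lf 336754359 0 0) (P.cons (P.lf 123017378 0 0) (P.cons (P.lf 0 35276080 0) (P.cons (P.lf 0 2000169 0) (P.cons (P.lf 917104 0 0) P.nil)))))) (P.cons (P.cons (P.lf 153808573 0 0) (P.cons (P.lf 0 15949288 0) (P.cons (P.lf 0 7293412 0) (P.cons (P.lf 405483 0 0) (P.cons (P.lf 0 37480 0) P.nil))))) (P.cons (P.cons (P.lf 12413360 0 0) (P.cons (P.lf 0 4114171 0) (P.cons (P.lf 0 1523822 0) (P.cons (P.lf 412943 0 0) P.nil)))) (P.cons (P.cons (P.lf 0 4517739 0) (P.cons (P.lf 519997 0 0) (P.cons (P.lf 219463 0 0) P.nil))) (P.cons (P.cons (P.lf 25511 0 0) (P.cons (P.lf 40522 0 0) P.nil)) (P.cons (P.cons (P.lf 37343 0 0) P.nil) P.nil)))))) 649450)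
 (EL.cons 10 (TM.mk (P.cons (P.cons (P.lf 0 1198016058 0) (P.cons (P.lf 0 969659040 0) (P.cons (P.lf 314063928 0 0) (P.cons (P.lf 61621890 0 0) (P.cons (P.lf 0 17467098 0) (P.cons (P.lf 0 342060 0) P.nil)))))) (P.cons (P.cons (P.lf 0 138387048 0) (P.cons (P.lf 0 108933198 0) (P.cons (P.lf 40469964 0 0) (P.cons (P.lf 7912224 0 0) (P.cons (P.lf 0 2342916 0) P.nil))))) (P.cons (P.cons (P.lf 10458354 0 0) (P.cons (P.lf 9722046 0 0) (P.cons (P.lf 0 1028382 0) (P.cons (P.lf 0 213342 0) P.nil)))) (P.cons (P.cons (P.lf 1298292 0 0) (P.cons (P.lf 1085568 0 0) (P.cons (P.lf 0 292992 0) P.nil))) (P.cons (P.cons (P.lf 0 32424 0) (P.cons (P.lf 0 34344 0) P.nil)) (P.cons (P.cons (P.lf 0 5958 0) P.nil) P.nil)))))) 924288)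
 EL.nil))))
noncomputable def S198_212_216_364_9 : EL := (EL.cons 3 (TM.mk (P.cons (P.lf 0 1528492552 0) (P.cons (P.lf 189961226 0 0) (P.cons (P.lf 3825716 0 0) (P.cons (P.lf 0 119508 0) (P.cons (P.lf 0 4953 0) (P.cons (P.lf 41 0 0) P.nil)))))) 52)
 (EL.cons 7 (TM.mk (P.cons (P.lf 0 1944480730 0) (P.cons (P.lf 0 53092371 0) (P.cons (P.lf 2954732 0 0) (P.cons (P.lf 85611 0 0) (P.cons (P.lf 0 1520 0) (P.cons (P.lf 0 96 0) P.nil)))))) 47)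
 EL.nil))
noncomputable def S198_212_216_364_10 : EL := (EL.cons 3 (TM.mk (P.cons (P.cons (P.lf 0 877655406 0) (P.cons (P.lf 107254020 0 0) (P.cons (P.lf 46249142 0 0) (P.lf 0 5138792 0)))) (P.cons (P.cons (P.lf 55621297 0 0) (P.cons (P.lf 0 4544106 0) (P.cons (P.lf 0 1959469 0) (P.lf 217718 0 0)))) (P.cons (P.cons (P.lf 17407701 0 0) (P.cons (P.lf 0 1609357 0) (P.cons (P.lf 0 693971 0) (P.lf 77106 0 0)))) (P.cons (P.cons (P.lf 0 789088 0) (P.cons (P.lf 0 21331 0) (P.cons (P.lf 0 9197 0) P.nil))) (P.cons (P.cons (P.lf 0 78091 0) (P.cons (P.lf 6320 0 0) P.nil)) (P.cons (P.cons (P.lf 2088 0 0) P.nil) P.nil)))))) 9555)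
 (EL.cons 7 (TM.mk (P.cons (P.cons (P.lf 0 1116514452 0) (P.cons (P.lf 136443829 0 0) (P.cons (P.lf 58836117 0 0) (P.lf 0 6537346 0)))) (P.cons (P.cons (P.lf 0 98487048 0) (P.cons (P.lf 14901923 0 0) (P.cons (P.lf 6425877 0 0) (P.lf 0 713985 0)))) (P.cons (P.cons (P.lf 10739375 0 0) (P.cons (P.lf 0 219004 0) (P.cons (P.lf 0 94435 0) (P.lf 10492 0 0)))) (P.cons (P.cons (P.lf 717932 0 0) (P.cons (P.lf 0 80849 0) (P.cons (P.lf 0 34862 0) P.nil))) (P.cons (P.cons (P.lf 0 36969 0) (P.cons (P.lf 0 1430 0) P.nil)) (P.cons (P.cons (P.lf 0 2852 0) P.nil) P.nil)))))) 6681)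
 EL.nil))
noncomputable def S198_212_216_364_11 : EL := (EL.cons 3 (TM.mk (P.cons (P.cons (P.lf 0 503946853 0) (P.cons (P.lf 123169813 0 0) (P.cons (P.lf 45586217 0 0) (P.cons (P.lf 0 12391942 0) (P.cons (P.lf 0 678229 0) (P.cons (P.lf 310979 0 0) P.nil)))))) (P.cons (P.cons (P.lf 1244561 0 0) (P.cons (P.lf 2283264 0 0) (P.cons (P.lf 686955 0 0) (P.cons (P.lf 0 366063 0) (P.cons (P.lf 0 26820 0) P.nil))))) (P.cons (P.cons (P.lf 16860179 0 0) (P.cons (P.lf 0 3368398 0) (P.cons (P.lf 0 1295966 0) (P.cons (P.lf 296374 0 0) P.nil)))) (P.cons (P.cons (P.lf 0 35202 0) (P.cons (P.lf 0 115665 0) (P.cons (P.lf 0 37154 0) P.nil))) (P.cons (P.cons (P.lf 0 191142 0) (P.cons (P.lf 28352 0 0) P.nil)) (P.cons (P.cons (P.lf 876 0 0) P.nil) P.nil)))))) 221221)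
 (EL.cons 7 (TM.mk (P.cons (P.cons (P.lf 0 641098933 0) (P.cons (P.lf 156691197 0 0) (P.cons (P.lf 57992774 0 0) (P.cons (P.lf 0 15764482 0) (P.cons (P.lf 0 862815 0) (P.cons (P.lf 395614 0 0) P.nil)))))) (P.cons (P.cons (P.lf 0 95597225 0) (P.cons (P.lf 26656586 0 0) (P.cons (P.lf 9664706 0 0) (P.cons (P.lf 0 2855337 0) (P.cons (P.lf 0 164908 0) P.nil))))) (P.cons (P.cons (P.lf 8980724 0 0) (P.cons (P.lf 0 738847 0) (P.cons (P.lf 0 366650 0) (P.cons (P.lf 0 6043 0) P.nil)))) (P.cons (P.cons (P.lf 1493655 0 0) (P.cons (P.lf 0 312815 0) (P.cons (P.lf 0 122075 0) P.nil))) (P.cons (P.cons (P.lf 0 59887 0) (P.cons (P.lf 0 4760 0) P.nil)) (P.cons (P.cons (P.lf 0 10543 0) P.nil) P.nil)))))) 194082)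
 EL.nil))
noncomputable def S198_212_216_364_12 : EL := (EL.cons 4 (TM.mk (P.cons (P.lf 1528492552 0 0) (P.cons (P.lf 0 189961226 0) (P.cons (P.lf 0 3825716 0) (P.cons (P.lf 119508 0 0) (P.cons (P.lf 4953 0 0) (P.cons (P.lf 0 41 0) P.nil)))))) 52)
 (EL.cons 8 (TM.mk (P.cons (P.lf 1944480730 0 0) (P.cons (P.lf 53092371 0 0) (P.cons (P.lf 0 2954732 0) (P.cons (P.lf 0 85611 0) (P.cons (P.lf 1520 0 0) (P.cons (P.lf 96 0 0) P.nil)))))) 47)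
 EL.nil))
noncomputable def S198_212_216_364_13 : EL := (EL.cons 4 (TM.mk (P.cons (P.cons (P.lf 877655406 0 0) (P.cons (P.lf 0 107254020 0) (P.cons (P.lf 0 46249142 0) (P.lf 5138792 0 0)))) (P.cons (P.cons (P.lf 0 55621297 0) (P.cons (P.lf 4544106 0 0) (P.cons (P.lf 1959469 0 0) (P.lf 0 217718 0)))) (P.cons (P.cons (P.lf 0 17407701 0) (P.cons (P.lf 1609357 0 0) (P.cons (P.lf 693971 0 0) (P.lf 0 77106 0)))) (P.cons (P.cons (P.lf 789088 0 0) (P.cons (P.lf 21331 0 0) (P.cons (P.lf 9197 0 0) P.nil))) (P.cons (P.cons (P.lf 78091 0 0) (P.cons (P.lf 0 6320 0) P.nil)) (P.cons (P.cons (P.lf 0 2088 0) P.nil) P.nil)))))) 9555)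
 (EL.cons 8 (TM.mk (P.cons (P.cons (P.lf 1116514452 0 0) (P.cons (P.lf 0 136443829 0) (P.cons (P.lf 0 58836117 0) (P.lf 6537346 0 0)))) (P.cons (P.cons (P.lf 98487048 0 0) (P.cons (P.lf 0 14901923 0) (P.cons (P.lf 0 6425877 0) (P.lf 713985 0 0)))) (P.cons (P.cons (P.lf 0 10739375 0) (P.cons (P.lf 219004 0 0) (P.cons (P.lf 94435 0 0) (P.lf 0 10492 0)))) (P.cons (P.cons (P.lf 0 717932 0) (P.cons (P.lf 80849 0 0) (P.cons (P.lf 34862 0 0) P.nil))) (P.cons (P.cons (P.lf 36969 0 0) (P.cons (P.lf 1430 0 0) P.nil)) (P.cons (P.cons (P.lf 2852 0 0) P.nil) P.nil)))))) 6681)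
 EL.nil))
noncomputable def S198_212_216_364_14 : EL := (EL.cons 4 (TM.mk (P.cons (P.cons (P.lf 503946853 0 0) (P.cons (P.lf 0 123169813 0) (P.cons (P.lf 0 45586217 0) (P.cons (P.lf 12391942 0 0) (P.cons (P.lf 678229 0 0) (P.cons (P.lf 0 310979 0) P.nil)))))) (P.cons (P.cons (P.lf 0 1244561 0) (P.cons (P.lf 0 2283264 0) (P.cons (P.lf 0 686955 0) (P.cons (P.lf 366063 0 0) (P.cons (P.lf 26820 0 0) P.nil))))) (P.cons (P.cons (P.lf 0 16860179 0) (P.cons (P.lf 3368398 0 0) (P.cons (P.lf 1295966 0 0) (P.cons (P.lf 0 296374 0) P.nil)))) (P.cons (P.cons (P.lf 35202 0 0) (P.cons (P.lf 115665 0 0) (P.cons (P.lf 37154 0 0) P.nil))) (P.cons (P.cons (P.lf 191142 0 0) (P.cons (P.lf 0 28352 0) P.nil)) (P.cons (P.cons (P.lf 0 876 0) P.nil) P.nil)))))) 221221)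
 (EL.cons 8 (TM.mk (P.cons (P.cons (P.lf 641098933 0 0) (P.cons (P.lf 0 156691197 0) (P.cons (P.lf 0 57992774 0) (P.cons (P.lf 15764482 0 0) (P.cons (P.lf 862815 0 0) (P.cons (P.lf 0 395614 0) P.nil)))))) (P.cons (P.cons (P.lf 95597225 0 0) (P.cons (P.lf 0 26656586 0) (P.cons (P.lf 0 9664706 0) (P.cons (P.lf 2855337 0 0) (P.cons (P.lf 164908 0 0) P.nil))))) (P.cons (P.cons (P.lf 0 8980724 0) (P.cons (P.lf 738847 0 0) (P.cons (P.lf 366650 0 0) (P.cons (P.lf 6043 0 0) P.nil)))) (P.cons (P.cons (P.lf 0 1493655 0) (P.cons (P.lf 312815 0 0) (P.cons (P.lf 122075 0 0) P.nil))) (P.cons (P.cons (P.lf 59887 0 0) (P.cons (P.lf 4760 0 0) P.nil)) (P.cons (P.cons (P.lf 10543 0 0) P.nil) P.nil)))))) 194082)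
 EL.nil))
noncomputable def S198_212_216_364_15 : EL := (EL.cons 4 (TM.mk (P.cons (P.lf 0 580223769 0) (P.cons (P.lf 144220550 0 0) (P.cons (P.lf 0 6057348 0) (P.cons (P.lf 0 451706 0) (P.cons (P.lf 3880 0 0) (P.cons (P.lf 725 0 0) P.nil)))))) 68)
 (EL.cons 8 (TM.mk (P.cons (P.lf 0 738135058 0) (P.cons (P.lf 71581366 0 0) (P.cons (P.lf 5473894 0 0) (P.cons (P.lf 0 114166 0) (P.cons (P.lf 0 11391 0) (P.cons (P.lf 0 3 0) P.nil)))))) 62)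
 EL.nil))
noncomputable def S198_212_216_364_16 : EL := (EL.cons 4 (TM.mk (P.cons (P.cons (P.lf 0 333162583 0) (P.cons (P.lf 40714186 0 0) (P.cons (P.lf 17556416 0 0) (P.lf 0 1950712 0)))) (P.cons (P.cons (P.lf 62519618 0 0) (P.cons (P.lf 0 6784930 0) (P.cons (P.lf 0 2925737 0) (P.lf 325081 0 0)))) (P.cons (P.cons (P.lf 4817871 0 0) (P.cons (P.lf 0 498446 0) (P.cons (P.lf 0 214935 0) (P.lf 23880 0 0)))) (P.cons (P.cons (P.lf 0 1199687 0) (P.cons (P.lf 75328 0 0) (P.cons (P.lf 32481 0 0) P.nil))) (P.cons (P.cons (P.lf 0 8385 0) (P.cons (P.lf 4932 0 0) P.nil)) (P.cons (P.cons (P.lf 5820 0 0) P.nil) P.nil)))))) 9955)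
 (EL.cons 8 (TM.mk (P.cons (P.cons (P.lf 0 423834727 0) (P.cons (P.lf 51794790 0 0) (P.cons (P.lf 22334497 0 0) (P.lf 0 2481610 0)))) (P.cons (P.cons (P.lf 15288028 0 0) (P.cons (P.lf 0 780214 0) (P.cons (P.lf 0 336437 0) (P.lf 37381 0 0)))) (P.cons (P.cons (P.lf 9783914 0 0) (P.cons (P.lf 0 915807 0) (P.cons (P.lf 0 394905 0) (P.lf 43877 0 0)))) (P.cons (P.cons (P.lf 0 173687 0) (P.cons (P.lf 0 30467 0) (P.cons (P.lf 0 13137 0) P.nil))) (P.cons (P.cons (P.lf 0 62404 0) (P.cons (P.lf 4089 0 0) P.nil)) (P.cons (P.cons (P.lf 188 0 0) P.nil) P.nil)))))) 7091)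
 EL.nil))
noncomputable def S198_212_216_364_17 : EL := (EL.cons 4 (TM.mk (P.cons (P.cons (P.lf 0 191300861 0) (P.cons (P.lf 46755904 0 0) (P.cons (P.lf 17304766 0 0) (P.cons (P.lf 0 4704045 0) (P.cons (P.lf 0 257459 0) (P.cons (P.lf 118049 0 0) P.nil)))))) (P.cons (P.cons (P.lf 24247334 0 0) (P.cons (P.lf 0 4944089 0) (P.cons (P.lf 0 1889865 0) (P.cons (P.lf 445659 0 0) (P.cons (P.lf 21815 0 0) P.nil))))) (P.cons (P.cons (P.lf 6820310 0 0) (P.cons (P.lf 0 1503406 0) (P.cons (P.lf 0 567676 0) (P.cons (P.lf 141549 0 0) P.nil)))) (P.cons (P.cons (P.lf 0 824921 0) (P.cons (P.lf 116490 0 0) (P.cons (P.lf 47735 0 0) P.nil))) (P.cons (P.cons (P.lf 0 87499 0) (P.cons (P.lf 19638 0 0) P.nil)) (P.cons (P.cons (P.lf 9890 0 0) P.nil) P.nil)))))) 133469)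
 (EL.cons 8 (TM.mk (P.cons (P.cons (P.lf 0 243364509 0) (P.cons (P.lf 59480798 0 0) (P.cons (P.lf 22014360 0 0) (P.cons (P.lf 0 5984279 0) (P.cons (P.lf 0 327528 0) (P.cons (P.lf 150177 0 0) P.nil)))))) (P.cons (P.cons (P.lf 0 6043838 0) (P.cons (P.lf 2726699 0 0) (P.cons (P.lf 932825 0 0) (P.cons (P.lf 0 340174 0) (P.cons (P.lf 0 21894 0) P.nil))))) (P.cons (P.cons (P.lf 8528281 0 0) (P.cons (P.lf 0 1686934 0) (P.cons (P.lf 0 650238 0) (P.cons (P.lf 147390 0 0) P.nil)))) (P.cons (P.cons (P.lf 215113 0 0) (P.cons (P.lf 0 104565 0) (P.cons (P.lf 0 36503 0) P.nil))) (P.cons (P.cons (P.lf 0 105358 0) (P.cons (P.lf 14636 0 0) P.nil)) (P.cons (P.cons (P.lf 0 2441 0) P.nil) P.nil)))))) 122087)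
 EL.nil))
noncomputable def S198_212_216_364_18 : EL := (EL.cons 4 (TM.mk (P.cons (P.lf 220255978 0 0) (P.cons (P.lf 0 82120312 0) (P.cons (P.lf 8552062 0 0) (P.cons (P.lf 39948 0 0) (P.cons (P.lf 0 32104 0) (P.cons (P.lf 0 525 0) P.nil)))))) 109)
 (EL.cons 8 (TM.mk (P.cons (P.lf 280199929 0 0) (P.cons (P.lf 0 61995939 0) (P.cons (P.lf 597780 0 0) (P.cons (P.lf 391501 0 0) (P.cons (P.lf 2922 0 0) (P.cons (P.lf 0 902 0) P.nil)))))) 74)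
 EL.nil))
noncomputable def S198_212_216_364_19 : EL := (EL.cons 4 (TM.mk (P.cons (P.cons (P.lf 126470259 0 0) (P.cons (P.lf 0 15455318 0) (P.cons (P.lf 0 6664507 0) (P.lf 740500 0 0)))) (P.cons (P.cons (P.lf 0 39450511 0) (P.cons (P.lf 4496383 0 0) (P.cons (P.lf 1938890 0 0) (P.lf 0 215431 0)))) (P.cons (P.cons (P.lf 804075 0 0) (P.cons (P.lf 0 92198 0) (P.cons (P.lf 0 39756 0) (P.lf 4417 0 0)))) (P.cons (P.cons (P.lf 751991 0 0) (P.cons (P.lf 0 59764 0) (P.cons (P.lf 0 25770 0) P.nil))) (P.cons (P.cons (P.lf 0 50282 0) (P.cons (P.lf 1358 0 0) P.nil)) (P.cons (P.cons (P.lf 0 3967 0) P.nil) P.nil)))))) 7640)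
 (EL.cons 8 (TM.mk (P.cons (P.cons (P.lf 160889879 0 0) (P.cons (P.lf 0 19661573 0) (P.cons (P.lf 0 8478292 0) (P.lf 942032 0 0)))) (P.cons (P.cons (P.lf 0 25798827 0) (P.cons (P.lf 2739715 0 0) (P.cons (P.lf 1181396 0 0) (P.lf 0 131266 0)))) (P.cons (P.cons (P.lf 0 3395472 0) (P.cons (P.lf 360048 0 0) (P.cons (P.lf 155256 0 0) (P.lf 0 17250 0)))) (P.cons (P.cons (P.lf 554617 0 0) (P.cons (P.lf 0 33918 0) (P.cons (P.lf 0 14625 0) P.nil))) (P.cons (P.cons (P.lf 24858 0 0) (P.cons (P.lf 0 3900 0) P.nil)) (P.cons (P.cons (P.lf 0 3494 0) P.nil) P.nil)))))) 6525)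
 EL.nil))
noncomputable def S198_212_216_364_20 : EL := (EL.cons 4 (TM.mk (P.cons (P.cons (P.lf 72618807 0 0) (P.cons (P.lf 0 17748785 0) (P.cons (P.lf 0 6568980 0) (P.cons (P.lf 1785679 0 0) (P.cons (P.lf 97732 0 0) (P.cons (P.lf 0 44811 0) P.nil)))))) (P.cons (P.cons (P.lf 0 18229487 0) (P.cons (P.lf 4082623 0 0) (P.cons (P.lf 1533795 0 0) (P.cons (P.lf 0 391098 0) (P.cons (P.lf 0 20427 0) P.nil))))) (P.cons (P.cons (P.lf 0 1626859 0) (P.cons (P.lf 381875 0 0) (P.cons (P.lf 142775 0 0) (P.cons (P.lf 0 37176 0) P.nil)))) (P.cons (P.cons (P.lf 663624 0 0) (P.cons (P.lf 0 121231 0) (P.cons (P.lf 0 47211 0) P.nil))) (P.cons (P.cons (P.lf 293 0 0) (P.cons (P.lf 0 3298 0) P.nil)) (P.cons (P.cons (P.lf 0 8900 0) P.nil) P.nil)))))) 78259)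
 (EL.cons 8 (TM.mk (P.cons (P.cons (P.lf 92382440 0 0) (P.cons (P.lf 0 22579221 0) (P.cons (P.lf 0 8356766 0) (P.cons (P.lf 2271663 0 0) (P.cons (P.lf 124331 0 0) (P.cons (P.lf 0 57007 0) P.nil)))))) (P.cons (P.cons (P.lf 0 9187027 0) (P.cons (P.lf 1771078 0 0) (P.cons (P.lf 684474 0 0) (P.cons (P.lf 0 153190 0) (P.cons (P.lf 0 7140 0) P.nil))))) (P.cons (P.cons (P.lf 0 3753740 0) (P.cons (P.lf 825521 0 0) (P.cons (P.lf 311758 0 0) (P.cons (P.lf 0 77684 0) P.nil)))) (P.cons (P.cons (P.lf 322164 0 0) (P.cons (P.lf 0 39066 0) (P.cons (P.lf 0 16586 0) P.nil))) (P.cons (P.cons (P.lf 58724 0 0) (P.cons (P.lf 0 12245 0) P.nil)) (P.cons (P.cons (P.lf 0 4087 0) P.nil) P.nil)))))) 72651)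
 EL.nil))
noncomputable def S198_212_216_364_21 : EL := (EL.cons 4 (TM.mk (P.cons (P.cons (P.lf 0 1957718427 0) (P.cons (P.lf 321762060 0 0) (P.cons (P.lf 138747426 0 0) (P.lf 0 15416376 0)))) (P.cons (P.cons (P.lf 599525544 0 0) (P.cons (P.lf 0 13632318 0) (P.cons (P.lf 0 5878407 0) (P.lf 653154 0 0)))) (P.cons (P.cons (P.lf 34051059 0 0) (P.cons (P.lf 0 4828071 0) (P.cons (P.lf 0 2081913 0) (P.lf 231318 0 0)))) (P.cons (P.cons (P.lf 0 3722379 0) (P.cons (P.lf 0 63993 0) (P.cons (P.lf 0 27591 0) P.nil))) (P.cons (P.cons (P.lf 0 222636 0) (P.cons (P.lf 18960 0 0) P.nil)) (P.cons (P.cons (P.lf 8442 0 0) P.nil) P.nil)))))) 28932)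
 (EL.cons 8 (TM.mk (P.cons (P.cons (P.lf 547163844 0 0) (P.cons (P.lf 0 89929467 0) (P.cons (P.lf 0 38778606 0) (P.lf 4308735 0 0)))) (P.cons (P.cons (P.lf 0 250503156 0) (P.cons (P.lf 17441991 0 0) (P.cons (P.lf 7521183 0 0) (P.lf 0 835683 0)))) (P.cons (P.cons (P.lf 17609334 0 0) (P.cons (P.lf 488082 0 0) (P.cons (P.lf 210471 0 0) (P.lf 0 23388 0)))) (P.cons (P.cons (P.lf 1847943 0 0) (P.cons (P.lf 0 157158 0) (P.cons (P.lf 0 67767 0) P.nil))) (P.cons (P.cons (P.lf 0 89727 0) (P.cons (P.lf 0 5022 0) P.nil)) (P.cons (P.cons (P.lf 0 7785 0) P.nil) P.nil)))))) 25140)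
 (EL.cons 11 (TM.mk (P.cons (P.cons (P.lf 1043210475 0 0) (P.cons (P.lf 971847066 0 0) (P.cons (P.lf 0 99743124 0) (P.cons (P.lf 0 20743794 0) (P.lf 1728648 0 0))))) (P.cons (P.cons (P.lf 56967924 0 0) (P.cons (P.lf 53070891 0 0) (P.cons (P.lf 0 5446800 0) (P.cons (P.lf 0 1132782 0) (P.lf 94398 0 0))))) (P.cons (P.cons (P.lf 0 2392686 0) (P.cons (P.lf 0 2229006 0) (P.cons (P.lf 228768 0 0) (P.cons (P.lf 47577 0 0) P.nil)))) (P.cons (P.cons (P.lf 0 178425 0) (P.cons (P.lf 0 166218 0) (P.cons (P.lf 17058 0 0) P.nil))) (P.cons (P.cons (P.lf 1530 0 0) (P.cons (P.lf 1425 0 0) P.nil)) (P.cons (P.cons (P.lf 285 0 0) P.nil) P.nil)))))) 8535)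
 EL.nil)))
noncomputable def S198_212_216_364_22 : EL := (EL.cons 4 (TM.mk (P.cons (P.cons (P.lf 0 1124115492 0) (P.cons (P.lf 322127433 0 0) (P.cons (P.lf 116326998 0 0) (P.cons (P.lf 0 34905642 0) (P.cons (P.lf 0 2034690 0) (P.cons (P.lf 932937 0 0) P.nil)))))) (P.cons (P.cons (P.lf 275781072 0 0) (P.cons (P.lf 0 27391158 0) (P.cons (P.lf 0 12704214 0) (P.cons (P.lf 542367 0 0) (P.cons (P.lf 0 80460 0) P.nil))))) (P.cons (P.cons (P.lf 51492072 0 0) (P.cons (P.lf 0 11206881 0) (P.cons (P.lf 0 4362960 0) (P.cons (P.lf 941907 0 0) P.nil)))) (P.cons (P.cons (P.lf 0 4037445 0) (P.cons (P.lf 0 59871 0) (P.cons (P.lf 12345 0 0) P.nil))) (P.cons (P.cons (P.lf 0 561507 0) (P.cons (P.lf 100080 0 0) P.nil)) (P.cons (P.cons (P.lf 21387 0 0) P.nil) P.nil)))))) 505182)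
 (EL.cons 8 (TM.mk (P.cons (P.cons (P.lf 314179683 0 0) (P.cons (P.lf 0 90031581 0) (P.cons (P.lf 0 32512302 0) (P.cons (P.lf 9755799 0 0) (P.cons (P.lf 568677 0 0) (P.cons (P.lf 0 260745 0) P.nil)))))) (P.cons (P.cons (P.lf 0 124702899 0) (P.cons (P.lf 21302937 0 0) (P.cons (P.lf 8479059 0 0) (P.cons (P.lf 0 1630410 0) (P.cons (P.lf 0 63714 0) P.nil))))) (P.cons (P.cons (P.lf 0 1716318 0) (P.cons (P.lf 1687662 0 0) (P.cons (P.lf 578586 0 0) (P.cons (P.lf 0 209493 0) P.nil)))) (P.cons (P.cons (P.lf 3005697 0 0) (P.cons (P.lf 0 416406 0) (P.cons (P.lf 0 170769 0) P.nil))) (P.cons (P.cons (P.lf 0 42699 0) (P.cons (P.lf 0 22641 0) P.nil)) (P.cons (P.cons (P.lf 0 23943 0) P.nil) P.nil)))))) 227673)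
 (EL.cons 11 (TM.mk (P.cons (P.cons (P.lf 599008029 0 0) (P.cons (P.lf 484829520 0 0) (P.cons (P.lf 0 157031964 0) (P.cons (P.lf 0 30810945 0) (P.cons (P.lf 8733549 0 0) (P.cons (P.lf 171030 0 0) P.nil)))))) (P.cons (P.cons (P.lf 69193524 0 0) (P.cons (P.lf 54466599 0 0) (P.cons (P.lf 0 20234982 0) (P.cons (P.lf 0 3956112 0) (P.cons (P.lf 1171458 0 0) P.nil))))) (P.cons (P.cons (P.lf 0 5229177 0) (P.cons (P.lf 0 4861023 0) (P.cons (P.lf 514191 0 0) (P.cons (P.lf 106671 0 0) P.nil)))) (P.cons (P.cons (P.lf 0 649146 0) (P.cons (P.lf 0 542784 0) (P.cons (P.lf 146496 0 0) P.nil))) (P.cons (P.cons (P.lf 16212 0 0) (P.cons (P.lf 17172 0 0) P.nil)) (P.cons (P.cons (P.lf 2979 0 0) P.nil) P.nil)))))) 462144)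
 EL.nil)))
noncomputable def S198_212_216_364_23 : EL := (EL.cons 4 (TM.mk (P.cons (P.cons (P.lf 743160156 0 0) (P.cons (P.lf 0 122142561 0) (P.cons (P.lf 0 52669248 0) (P.lf 5852136 0 0)))) (P.cons (P.cons (P.lf 0 319943058 0) (P.cons (P.lf 20354790 0 0) (P.cons (P.lf 8777214 0 0) (P.lf 0 975243 0)))) (P.cons (P.cons (P.lf 13498002 0 0) (P.cons (P.lf 1495338 0 0) (P.cons (P.lf 644802 0 0) (P.lf 0 71640 0)))) (P.cons (P.cons (P.lf 3647205 0 0) (P.cons (P.lf 0 225984 0) (P.cons (P.lf 0 97446 0) P.nil))) (P.cons (P.cons (P.lf 0 74130 0) (P.cons (P.lf 0 14793 0) P.nil)) (P.cons (P.cons (P.lf 0 19011 0) P.nil) P.nil)))))) 30381)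
 (EL.cons 8 (TM.mk (P.cons (P.cons (P.lf 0 207706257 0) (P.cons (P.lf 34137696 0 0) (P.cons (P.lf 14720559 0 0) (P.lf 0 1635618 0)))) (P.cons (P.cons (P.lf 120906063 0 0) (P.cons (P.lf 0 10863705 0) (P.cons (P.lf 0 4684551 0) (P.lf 520503 0 0)))) (P.cons (P.cons (P.lf 0 17982801 0) (P.cons (P.lf 552144 0 0) (P.cons (P.lf 238089 0 0) (P.lf 0 26451 0)))) (P.cons (P.cons (P.lf 0 124974 0) (P.cons (P.lf 101925 0 0) (P.cons (P.lf 43950 0 0) P.nil))) (P.cons (P.cons (P.lf 144732 0 0) (P.cons (P.lf 0 5451 0) P.nil)) (P.cons (P.cons (P.lf 267 0 0) P.nil) P.nil)))))) 17628)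
 (EL.cons 11 (TM.mk (P.cons (P.cons (P.lf 0 396008154 0) (P.cons (P.lf 0 368918229 0) (P.cons (P.lf 37863009 0 0) (P.cons (P.lf 7874451 0 0) (P.lf 0 656202 0))))) (P.cons (P.cons (P.lf 27590613 0 0) (P.cons (P.lf 25703211 0 0) (P.cons (P.lf 0 2637984 0) (P.cons (P.lf 0 548625 0) (P.lf 45717 0 0))))) (P.cons (P.cons (P.lf 4587054 0 0) (P.cons (P.lf 4273266 0 0) (P.cons (P.lf 0 438573 0) (P.cons (P.lf 0 91209 0) P.nil)))) (P.cons (P.cons (P.lf 0 21984 0) (P.cons (P.lf 0 20481 0) (P.cons (P.lf 2100 0 0) P.nil))) (P.cons (P.cons (P.lf 0 14244 0) (P.cons (P.lf 0 13269 0) P.nil)) (P.cons (P.cons (P.lf 0 192 0) P.nil) P.nil)))))) 15762)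
 EL.nil)))
noncomputable def S198_212_216_364_24 : EL := (EL.cons 4 (TM.mk (P.cons (P.cons (P.lf 426720120 0 0) (P.cons (P.lf 0 122281257 0) (P.cons (P.lf 0 44158335 0) (P.cons (P.lf 13250364 0 0) (P.cons (P.lf 772377 0 0) (P.cons (P.lf 0 354147 0) P.nil)))))) (P.cons (P.cons (P.lf 0 157720761 0) (P.cons (P.lf 25594956 0 0) (P.cons (P.lf 10310589 0 0) (P.cons (P.lf 0 1852641 0) (P.cons (P.lf 0 65445 0) P.nil))))) (P.cons (P.cons (P.lf 0 7604082 0) (P.cons (P.lf 3268008 0 0) (P.cons (P.lf 1167375 0 0) (P.cons (P.lf 0 365130 0) P.nil)))) (P.cons (P.cons (P.lf 4257285 0 0) (P.cons (P.lf 0 541569 0) (P.cons (P.lf 0 226041 0) P.nil))) (P.cons (P.cons (P.lf 64797 0 0) (P.cons (P.lf 0 51045 0) P.nil)) (P.cons (P.cons (P.lf 0 40323 0) P.nil) P.nil)))))) 243228)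
 (EL.cons 8 (TM.mk (P.cons (P.cons (P.lf 0 119264250 0) (P.cons (P.lf 34176459 0 0) (P.cons (P.lf 12341838 0 0) (P.cons (P.lf 0 3703350 0) (P.cons (P.lf 0 215871 0) (P.cons (P.lf 98979 0 0) P.nil)))))) (P.cons (P.cons (P.lf 62160045 0 0) (P.cons (P.lf 0 12334161 0) (P.cons (P.lf 0 4752540 0) (P.cons (P.lf 1079163 0 0) (P.cons (P.lf 51015 0 0) P.nil))))) (P.cons (P.cons (P.lf 0 4933122 0) (P.cons (P.lf 278829 0 0) (P.cons (P.lf 149493 0 0) (P.cons (P.lf 11874 0 0) P.nil)))) (P.cons (P.cons (P.lf 0 1349757 0) (P.cons (P.lf 260601 0 0) (P.cons (P.lf 101142 0 0) P.nil))) (P.cons (P.cons (P.lf 159693 0 0) (P.cons (P.lf 0 9966 0) P.nil)) (P.cons (P.cons (P.lf 10137 0 0) P.nil) P.nil)))))) 106500)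
 (EL.cons 11 (TM.mk (P.cons (P.cons (P.lf 0 227386581 0) (P.cons (P.lf 0 184043823 0) (P.cons (P.lf 59610153 0 0) (P.cons (P.lf 11695995 0 0) (P.cons (P.lf 0 3315300 0) (P.cons (P.lf 0 64923 0) P.nil)))))) (P.cons (P.cons (P.lf 1993404 0 0) (P.cons (P.lf 2197179 0 0) (P.cons (P.lf 272949 0 0) (P.cons (P.lf 48180 0 0) (P.cons (P.lf 0 32664 0) P.nil))))) (P.cons (P.cons (P.lf 5818524 0 0) (P.cons (P.lf 4875510 0 0) (P.cons (P.lf 0 1299021 0) (P.cons (P.lf 0 256407 0) P.nil)))) (P.cons (P.cons (P.lf 47685 0 0) (P.cons (P.lf 14073 0 0) (P.cons (P.lf 0 45915 0) P.nil))) (P.cons (P.cons (P.lf 0 44538 0) (P.cons (P.lf 0 38955 0) P.nil)) (P.cons (P.cons (P.lf 0 906 0) P.nil) P.nil)))))) 223326)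
 EL.nil)))
noncomputable def S198_212_216_364_25 : EL := (EL.cons 4 (TM.mk (P.cons (P.cons (P.lf 0 282107481 0) (P.cons (P.lf 46365954 0 0) (P.cons (P.lf 19993521 0 0) (P.lf 0 2221500 0)))) (P.cons (P.cons (P.lf 156512409 0 0) (P.cons (P.lf 0 13489149 0) (P.cons (P.lf 0 5816673 0) (P.lf 646296 0 0)))) (P.cons (P.cons (P.lf 0 19511889 0) (P.cons (P.lf 276594 0 0) (P.cons (P.lf 119271 0 0) (P.lf 0 13251 0)))) (P.cons (P.cons (P.lf 0 1073739 0) (P.cons (P.lf 179295 0 0) (P.cons (P.lf 77313 0 0) P.nil))) (P.cons (P.cons (P.lf 221610 0 0) (P.cons (P.lf 0 4077 0) P.nil)) (P.cons (P.cons (P.lf 7185 0 0) P.nil) P.nil)))))) 24723)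
 (EL.cons 8 (TM.mk (P.cons (P.cons (P.lf 78846381 0 0) (P.cons (P.lf 0 12958848 0) (P.cons (P.lf 0 5588001 0) (P.lf 620889 0 0)))) (P.cons (P.cons (P.lf 0 55695612 0) (P.cons (P.lf 5734446 0 0) (P.cons (P.lf 2472756 0 0) (P.lf 0 274749 0)))) (P.cons (P.cons (P.lf 12333048 0 0) (P.cons (P.lf 0 689682 0) (P.cons (P.lf 0 297396 0) (P.lf 33042 0 0)))) (P.cons (P.cons (P.lf 0 679899 0) (P.cons (P.lf 0 23976 0) (P.cons (P.lf 0 10338 0) P.nil))) (P.cons (P.cons (P.lf 0 81255 0) (P.cons (P.lf 7680 0 0) P.nil)) (P.cons (P.cons (P.lf 6990 0 0) P.nil) P.nil)))))) 12369)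
 (EL.cons 11 (TM.mk (P.cons (P.cons (P.lf 150326766 0 0) (P.cons (P.lf 140043288 0 0) (P.cons (P.lf 0 14372997 0) (P.cons (P.lf 0 2989182 0) (P.lf 249096 0 0))))) (P.cons (P.cons (P.lf 0 29156169 0) (P.cons (P.lf 0 27161667 0) (P.cons (P.lf 2787669 0 0) (P.cons (P.lf 579756 0 0) (P.lf 0 48312 0))))) (P.cons (P.cons (P.lf 0 815874 0) (P.cons (P.lf 0 760062 0) (P.cons (P.lf 78006 0 0) (P.cons (P.lf 16221 0 0) P.nil)))) (P.cons (P.cons (P.lf 262719 0 0) (P.cons (P.lf 244746 0 0) (P.cons (P.lf 0 25119 0) P.nil))) (P.cons (P.cons (P.lf 8397 0 0) (P.cons (P.lf 7821 0 0) P.nil)) (P.cons (P.cons (P.lf 0 792 0) P.nil) P.nil)))))) 16536)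
 EL.nil)))
noncomputable def S198_212_216_364_26 : EL := (EL.cons 4 (TM.mk (P.cons (P.cons (P.lf 0 161985189 0) (P.cons (P.lf 46418604 0 0) (P.cons (P.lf 16762734 0 0) (P.cons (P.lf 0 5029905 0) (P.cons (P.lf 0 293199 0) (P.cons (P.lf 134436 0 0) P.nil)))))) (P.cons (P.cons (P.lf 80003163 0 0) (P.cons (P.lf 0 15484887 0) (P.cons (P.lf 0 5997228 0) (P.cons (P.lf 1328388 0 0) (P.cons (P.lf 61281 0 0) P.nil))))) (P.cons (P.cons (P.lf 0 4148862 0) (P.cons (P.lf 0 149232 0) (P.cons (P.lf 1326 0 0) (P.cons (P.lf 63792 0 0) P.nil)))) (P.cons (P.cons (P.lf 0 2137347 0) (P.cons (P.lf 387705 0 0) (P.cons (P.lf 151986 0 0) P.nil))) (P.cons (P.cons (P.lf 173181 0 0) (P.cons (P.lf 0 3675 0) P.nil)) (P.cons (P.cons (P.lf 22833 0 0) P.nil) P.nil)))))) 149568)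
 (EL.cons 8 (TM.mk (P.cons (P.cons (P.lf 45273333 0 0) (P.cons (P.lf 0 12973563 0) (P.cons (P.lf 0 4685025 0) (P.cons (P.lf 1405812 0 0) (P.cons (P.lf 81945 0 0) (P.cons (P.lf 0 37572 0) P.nil)))))) (P.cons (P.cons (P.lf 0 29222853 0) (P.cons (P.lf 6294465 0 0) (P.cons (P.lf 2386344 0 0) (P.cons (P.lf 0 584370 0) (P.cons (P.lf 0 29547 0) P.nil))))) (P.cons (P.cons (P.lf 4691868 0 0) (P.cons (P.lf 0 655266 0) (P.cons (P.lf 0 269232 0) (P.cons (P.lf 42885 0 0) P.nil)))) (P.cons (P.cons (P.lf 342243 0 0) (P.cons (P.lf 0 98502 0) (P.cons (P.lf 0 36222 0) P.nil))) (P.cons (P.cons (P.lf 0 130683 0) (P.cons (P.lf 16665 0 0) P.nil)) (P.cons (P.cons (P.lf 2469 0 0) P.nil) P.nil)))))) 64632)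
 (EL.cons 11 (TM.mk (P.cons (P.cons (P.lf 86317134 0 0) (P.cons (P.lf 69863997 0 0) (P.cons (P.lf 0 22628325 0) (P.cons (P.lf 0 4439859 0) (P.cons (P.lf 1258503 0 0) (P.cons (P.lf 24645 0 0) P.nil)))))) (P.cons (P.cons (P.lf 0 11484210 0) (P.cons (P.lf 0 9516765 0) (P.cons (P.lf 2708637 0 0) (P.cons (P.lf 533496 0 0) (P.cons (P.lf 0 144006 0) P.nil))))) (P.cons (P.cons (P.lf 0 2330745 0) (P.cons (P.lf 0 1921977 0) (P.cons (P.lf 562629 0 0) (P.cons (P.lf 110718 0 0) P.nil)))) (P.cons (P.cons (P.lf 265041 0 0) (P.cons (P.lf 232221 0 0) (P.cons (P.lf 0 45363 0) P.nil))) (P.cons (P.cons (P.lf 24903 0 0) (P.cons (P.lf 20244 0 0) P.nil)) (P.cons (P.cons (P.lf 0 1887 0) P.nil) P.nil)))))) 137070)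
 EL.nil)))
noncomputable def S198_212_216_364_27 : EL := (EL.cons 13 (TM.mk (P.lf 0 4294967296 0) 0)
 EL.nil)
noncomputable def S198_212_216_364_28 : EL := (EL.cons 13 (TM.mk (P.cons (P.cons (P.lf 0 2466156124 0) (P.cons (P.lf 301377008 0 0) (P.cons (P.lf 129957164 0 0) (P.lf 0 14439684 0)))) (P.cons (P.cons (P.lf 0 150201836 0) (P.cons (P.lf 24686516 0 0) (P.cons (P.lf 10645104 0 0) (P.lf 0 1182788 0)))) (P.cons (P.cons (P.lf 24074812 0 0) (P.cons (P.lf 0 699824 0) (P.cons (P.lf 0 301768 0) (P.lf 33528 0 0)))) (P.cons (P.cons (P.lf 591608 0 0) (P.cons (P.lf 0 108692 0) (P.cons (P.lf 0 46868 0) P.nil))) (P.cons (P.cons (P.lf 0 65914 0) (P.cons (P.lf 0 404 0) P.nil)) (P.cons (P.cons (P.lf 0 2302 0) P.nil) P.nil)))))) 8059)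
 EL.nil)
noncomputable def S198_212_216_364_29 : EL := (EL.cons 13 (TM.mk (P.cons (P.cons (P.lf 0 1416058751 0) (P.cons (P.lf 346099377 0 0) (P.cons (P.lf 128094388 0 0) (P.cons (P.lf 0 34820575 0) (P.cons (P.lf 0 1905785 0) (P.cons (P.lf 873832 0 0) P.nil)))))) (P.cons (P.cons (P.lf 0 172490802 0) (P.cons (P.lf 49429099 0 0) (P.cons (P.lf 17849888 0 0) (P.cons (P.lf 0 5356122 0) (P.cons (P.lf 0 312215 0) P.nil))))) (P.cons (P.cons (P.lf 22394559 0 0) (P.cons (P.lf 0 2455669 0) (P.cons (P.lf 0 1102587 0) (P.cons (P.lf 79983 0 0) P.nil)))) (P.cons (P.cons (P.lf 2363267 0 0) (P.cons (P.lf 0 533548 0) (P.cons (P.lf 0 206771 0) P.nil))) (P.cons (P.cons (P.lf 0 169264 0) (P.cons (P.lf 2228 0 0) P.nil)) (P.cons (P.cons (P.lf 0 13886 0) P.nil) P.nil)))))) 358305)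
 EL.nil)
noncomputable def S198_212_216_364_30 : EL := (EL.cons 13 (TM.mk (P.cons (P.lf 1630392056 0 0) (P.cons (P.lf 0 202625308 0) (P.cons (P.lf 0 4080764 0) (P.cons (P.lf 127476 0 0) (P.cons (P.lf 5284 0 0) (P.cons (P.lf 0 44 0) P.nil)))))) 48)
 EL.nil)
noncomputable def S198_212_216_364_31 : EL := (EL.cons 13 (TM.mk (P.cons (P.cons (P.lf 936165767 0 0) (P.cons (P.lf 0 114404288 0) (P.cons (P.lf 0 49332419 0) (P.lf 5481379 0 0)))) (P.cons (P.cons (P.lf 0 59329384 0) (P.cons (P.lf 4847047 0 0) (P.cons (P.lf 2090101 0 0) (P.lf 0 232233 0)))) (P.cons (P.cons (P.lf 0 18568215 0) (P.cons (P.lf 1716648 0 0) (P.cons (P.lf 740236 0 0) (P.lf 0 82247 0)))) (P.cons (P.cons (P.lf 841694 0 0) (P.cons (P.lf 22754 0 0) (P.cons (P.lf 9811 0 0) P.nil))) (P.cons (P.cons (P.lf 83298 0 0) (P.cons (P.lf 0 6742 0) P.nil)) (P.cons (P.cons (P.lf 0 2228 0) P.nil) P.nil)))))) 10172)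
 EL.nil)
noncomputable def S198_212_216_364_32 : EL := (EL.cons 13 (TM.mk (P.cons (P.cons (P.lf 537543310 0 0) (P.cons (P.lf 0 131381134 0) (P.cons (P.lf 0 48625299 0) (P.cons (P.lf 13218072 0 0) (P.cons (P.lf 723445 0 0) (P.cons (P.lf 0 331711 0) P.nil)))))) (P.cons (P.cons (P.lf 0 1327532 0) (P.cons (P.lf 0 2435482 0) (P.cons (P.lf 0 732753 0) (P.cons (P.lf 390468 0 0) (P.cons (P.lf 28608 0 0) P.nil))))) (P.cons (P.cons (P.lf 0 17984191 0) (P.cons (P.lf 3592958 0 0) (P.cons (P.lf 1382364 0 0) (P.cons (P.lf 0 316133 0) P.nil)))) (P.cons (P.cons (P.lf 37549 0 0) (P.cons (P.lf 123377 0 0) (P.cons (P.lf 39631 0 0) P.nil))) (P.cons (P.cons (P.lf 203885 0 0) (P.cons (P.lf 0 30243 0) P.nil)) (P.cons (P.cons (P.lf 0 935 0) P.nil) P.nil)))))) 235946)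
 EL.nil)
noncomputable def S198_212_216_364_33 : EL := (EL.cons 14 (TM.mk (P.lf 8589934592 0 0) 0)
 EL.nil)
noncomputable def S198_212_216_364_34 : EL := (EL.cons 14 (TM.mk (P.cons (P.cons (P.lf 4932312248 0 0) (P.cons (P.lf 0 602754016 0) (P.cons (P.lf 0 259914328 0) (P.lf 28879368 0 0)))) (P.cons (P.cons (P.lf 300403672 0 0) (P.cons (P.lf 0 49373032 0) (P.cons (P.lf 0 21290208 0) (P.lf 2365576 0 0)))) (P.cons (P.cons (P.lf 0 48149624 0) (P.cons (P.lf 1399648 0 0) (P.cons (P.lf 603536 0 0) (P.lf 0 67056 0)))) (P.cons (P.cons (P.lf 0 1183216 0) (P.cons (P.lf 217384 0 0) (P.cons (P.lf 93736 0 0) P.nil))) (P.cons (P.cons (P.lf 131828 0 0) (P.cons (P.lf 808 0 0) P.nil)) (P.cons (P.cons (P.lf 4604 0 0) P.nil) P.nil)))))) 16118)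
 EL.nil)
noncomputable def S198_212_216_364_35 : EL := (EL.cons 14 (TM.mk (P.cons (P.cons (P.lf 2832117502 0 0) (P.cons (P.lf 0 692198754 0) (P.cons (P.lf 0 256188776 0) (P.cons (P.lf 69641150 0 0) (P.cons (P.lf 3811570 0 0) (P.cons (P.lf 0 1747664 0) P.nil)))))) (P.cons (P.cons (P.lf 344981604 0 0) (P.cons (P.lf 0 98858198 0) (P.cons (P.lf 0 35699776 0) (P.cons (P.lf 10712244 0 0) (P.cons (P.lf 624430 0 0) P.nil))))) (P.cons (P.cons (P.lf 0 44789118 0) (P.cons (P.lf 4911338 0 0) (P.cons (P.lf 2205174 0 0) (P.cons (P.lf 0 159966 0) P.nil)))) (P.cons (P.cons (P.lf 0 4726534 0) (P.cons (P.lf 1067096 0 0) (P.cons (P.lf 413542 0 0) P.nil))) (P.cons (P.cons (P.lf 338528 0 0) (P.cons (P.lf 0 4456 0) P.nil)) (P.cons (P.cons (P.lf 27772 0 0) P.nil) P.nil)))))) 716610)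
 EL.nil)
noncomputable def S198_212_216_364_36 : EL := (EL.cons 14 (TM.mk (P.cons (P.lf 0 3260784112 0) (P.cons (P.lf 405250616 0 0) (P.cons (P.lf 8161528 0 0) (P.cons (P.lf 0 254952 0) (P.cons (P.lf 0 10568 0) (P.cons (P.lf 88 0 0) P.nil)))))) 96)
 EL.nil)
noncomputable def S198_212_216_364_37 : EL := (EL.cons 14 (TM.mk (P.cons (P.cons (P.lf 0 1872331534 0) (P.cons (P.lf 228808576 0 0) (P.cons (P.lf 98664838 0 0) (P.lf 0 10962758 0)))) (P.cons (P.cons (P.lf 118658768 0 0) (P.cons (P.lf 0 9694094 0) (P.cons (P.lf 0 4180202 0) (P.lf 464466 0 0)))) (P.cons (P.cons (P.lf 37136430 0 0) (P.cons (P.lf 0 3433296 0) (P.cons (P.lf 0 1480472 0) (P.lf 164494 0 0)))) (P.cons (P.cons (P.lf 0 1683388 0) (P.cons (P.lf 0 45508 0) (P.cons (P.lf 0 19622 0) P.nil))) (P.cons (P.cons (P.lf 0 166596 0) (P.cons (P.lf 13484 0 0) P.nil)) (P.cons (P.cons (P.lf 4456 0 0) P.nil) P.nil))))))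 20344)
 EL.nil)
noncomputable def S198_212_216_364_38 : EL := (EL.cons 14 (TM.mk (P.cons (P.cons (P.lf 0 1075086620 0) (P.cons (P.lf 262762268 0 0) (P.cons (P.lf 97250598 0 0) (P.cons (P.lf 0 26436144 0) (P.cons (P.lf 0 1446890 0) (P.cons (P.lf 663422 0 0) P.nil)))))) (P.cons (P.cons (P.lf 2655064 0 0) (P.cons (P.lf 4870964 0 0) (P.cons (P.lf 1465506 0 0) (P.cons (P.lf 0 780936 0) (P.cons (P.lf 0 57216 0) P.nil))))) (P.cons (P.cons (P.lf 35968382 0 0) (P.cons (P.lf 0 7185916 0) (P.cons (P.lf 0 2764728 0) (P.cons (P.lf 632266 0 0) P.nil)))) (P.cons (P.cons (P.lf 0 75098 0) (P.cons (P.lf 0 246754 0) (P.cons (P.lf 0 79262 0) P.nil))) (P.cons (P.cons (P.lf 0 407770 0) (P.cons (P.lf 60486 0 0) P.nil)) (P.cons (P.cons (P.lf 1870 0 0) P.nil) P.nil)))))) 471892)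
 EL.nil)
noncomputable def S198_212_216_364_39 : EL := (EL.cons 14 (TM.mk (P.cons (P.lf 1237810708 0 0) (P.cons (P.lf 0 307670508 0) (P.cons (P.lf 12922344 0 0) (P.cons (P.lf 963640 0 0) (P.cons (P.lf 0 8278 0) (P.cons (P.lf 0 1548 0) P.nil)))))) 132)
 EL.nil)
noncomputable def S198_212_216_364_40 : EL := (EL.cons 14 (TM.mk (P.cons (P.cons (P.lf 710746844 0 0) (P.cons (P.lf 0 86856932 0) (P.cons (P.lf 0 37453688 0) (P.lf 4161520 0 0)))) (P.cons (P.cons (P.lf 0 133375186 0) (P.cons (P.lf 14474518 0 0) (P.cons (P.lf 6241574 0 0) (P.lf 0 693508 0)))) (P.cons (P.cons (P.lf 0 10278126 0) (P.cons (P.lf 1063352 0 0) (P.cons (P.lf 458528 0 0) (P.lf 0 50946 0)))) (P.cons (P.cons (P.lf 2559334 0 0) (P.cons (P.lf 0 160700 0) (P.cons (P.lf 0 69294 0) P.nil))) (P.cons (P.cons (P.lf 17888 0 0) (P.cons (P.lf 0 10522 0) P.nil)) (P.cons (P.cons (P.lf 0 12418 0) P.nil) P.nil))))))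 21198)
 EL.nil)
noncomputable def S198_212_216_364_41 : EL := (EL.cons 14 (TM.mk (P.cons (P.cons (P.lf 408108504 0 0) (P.cons (P.lf 0 99745930 0) (P.cons (P.lf 0 36916836 0) (P.cons (P.lf 10035298 0 0) (P.cons (P.lf 549246 0 0) (P.cons (P.lf 0 251838 0) P.nil)))))) (P.cons (P.cons (P.lf 0 51727646 0) (P.cons (P.lf 10547390 0 0) (P.cons (P.lf 4031714 0 0) (P.cons (P.lf 0 950740 0) (P.cons (P.lf 0 46540 0) P.nil))))) (P.cons (P.cons (P.lf 0 14549996 0) (P.cons (P.lf 3207268 0 0) (P.cons (P.lf 1211044 0 0) (P.cons (P.lf 0 301972 0) P.nil)))) (P.cons (P.cons (P.lf 1759832 0 0) (P.cons (P.lf 0 248514 0) (P.cons (P.lf 0 101836 0) P.nil))) (P.cons (P.cons (P.lf 186666 0 0) (P.cons (P.lf 0 41896 0) P.nil)) (P.cons (P.cons (P.lf 0 21100 0) P.nil) P.nil)))))) 284688)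
 EL.nil)
noncomputable def S198_212_216_364_42 : EL := (EL.cons 14 (TM.mk (P.cons (P.lf 0 469879420 0) (P.cons (P.lf 175190000 0 0) (P.cons (P.lf 0 18244400 0) (P.cons (P.lf 0 85224 0) (P.cons (P.lf 68490 0 0) (P.cons (P.lf 1120 0 0) P.nil)))))) 218)
 EL.nil)
noncomputable def S198_212_216_364_43 : EL := (EL.cons 14 (TM.mk (P.cons (P.cons (P.lf 0 269803220 0) (P.cons (P.lf 32971346 0 0) (P.cons (P.lf 14217616 0 0) (P.lf 0 1579734 0)))) (P.cons (P.cons (P.lf 84161092 0 0) (P.cons (P.lf 0 9592284 0) (P.cons (P.lf 0 4136300 0) (P.lf 459588 0 0)))) (P.cons (P.cons (P.lf 0 1715360 0) (P.cons (P.lf 196690 0 0) (P.cons (P.lf 84814 0 0) (P.lf 0 9424 0)))) (P.cons (P.cons (P.lf 0 1604248 0) (P.cons (P.lf 127498 0 0) (P.cons (P.lf 54978 0 0) P.nil))) (P.cons (P.cons (P.lf 107270 0 0) (P.cons (P.lf 0 2898 0) P.nil)) (P.cons (P.cons (P.lf 8464 0 0) P.nil) P.nil)))))) 16260)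
 EL.nil)
noncomputable def S198_212_216_364_44 : EL := (EL.cons 14 (TM.mk (P.cons (P.cons (P.lf 0 154920122 0) (P.cons (P.lf 37864076 0 0) (P.cons (P.lf 14013824 0 0) (P.cons (P.lf 0 3809450 0) (P.cons (P.lf 0 208496 0) (P.cons (P.lf 95598 0 0) P.nil)))))) (P.cons (P.cons (P.lf 38889574 0 0) (P.cons (P.lf 0 8709596 0) (P.cons (P.lf 0 3272098 0) (P.cons (P.lf 834344 0 0) (P.cons (P.lf 43578 0 0) P.nil))))) (P.cons (P.cons (P.lf 3470634 0 0) (P.cons (P.lf 0 814668 0) (P.cons (P.lf 0 304588 0) (P.cons (P.lf 79310 0 0) P.nil)))) (P.cons (P.cons (P.lf 0 1415732 0) (P.cons (P.lf 258628 0 0) (P.cons (P.lf 100718 0 0) P.nil))) (P.cons (P.cons (P.lf 0 626 0) (P.cons (P.lf 7036 0 0) P.nil)) (P.cons (P.cons (P.lf 18988 0 0) P.nil) P.nil)))))) 166906)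
 EL.nil)
noncomputable def S198_212_216_364_45 : EL := (EL.cons 14 (TM.mk (P.cons (P.cons (P.lf 1626192572 0 0) (P.cons (P.lf 0 596187378 0) (P.cons (P.lf 0 184225544 0) (P.cons (P.lf 88430574 0 0) (P.cons (P.lf 2726474 0 0) (P.cons (P.lf 0 4239468 0) P.nil)))))) (P.cons (P.cons (P.lf 297130956 0 0) (P.cons (P.lf 0 121457016 0) (P.cons (P.lf 0 36000436 0) (P.cons (P.lf 19210594 0 0) (P.cons (P.lf 532068 0 0) P.nil))))) (P.cons (P.cons (P.lf 0 29528230 0) (P.cons (P.lf 4864296 0 0) (P.cons (P.lf 2263732 0 0) (P.cons (P.lf 0 128782 0) P.nil)))) (P.cons (P.cons (P.lf 0 6604158 0) (P.cons (P.lf 2150942 0 0) (P.cons (P.lf 722408 0 0) P.nil))) (P.cons (P.cons (P.lf 276090 0 0) (P.cons (P.lf 15334 0 0) P.nil)) (P.cons (P.cons (P.lf 67260 0 0) P.nil) P.nil)))))) 2794478)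
 EL.nil)
noncomputable def S198_212_216_364_46 : EL := (EL.cons 15 (TM.mk (P.lf 4294967296 0 0) 0)
 EL.nil)
noncomputable def S198_212_216_364_47 : EL := (EL.cons 15 (TM.mk (P.cons (P.cons (P.lf 2466156124 0 0) (P.cons (P.lf 0 301377008 0) (P.cons (P.lf 0 129957164 0) (P.lf 14439684 0 0)))) (P.cons (P.cons (P.lf 150201836 0 0) (P.cons (P.lf 0 24686516 0) (P.cons (P.lf 0 10645104 0) (P.lf 1182788 0 0)))) (P.cons (P.cons (P.lf 0 24074812 0) (P.cons (P.lf 699824 0 0) (P.cons (P.lf 301768 0 0) (P.lf 0 33528 0)))) (P.cons (P.cons (P.lf 0 591608 0) (P.cons (P.lf 108692 0 0) (P.cons (P.lf 46868 0 0) P.nil))) (P.cons (P.cons (P.lf 65914 0 0) (P.cons (P.lf 404 0 0) P.nil)) (P.cons (P.cons (P.lf 2302 0 0) P.nil) P.nil)))))) 8059)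
 EL.nil)
noncomputable def S198_212_216_364_48 : EL := (EL.cons 15 (TM.mk (P.cons (P.cons (P.lf 1416058751 0 0) (P.cons (P.lf 0 346099377 0) (P.cons (P.lf 0 128094388 0) (P.cons (P.lf 34820575 0 0) (P.cons (P.lf 1905785 0 0) (P.cons (P.lf 0 873832 0) P.nil)))))) (P.cons (P.cons (P.lf 172490802 0 0) (P.cons (P.lf 0 49429099 0) (P.cons (P.lf 0 17849888 0) (P.cons (P.lf 5356122 0 0) (P.cons (P.lf 312215 0 0) P.nil))))) (P.cons (P.cons (P.lf 0 22394559 0) (P.cons (P.lf 2455669 0 0) (P.cons (P.lf 1102587 0 0) (P.cons (P.lf 0 79983 0) P.nil)))) (P.cons (P.cons (P.lf 0 2363267 0) (P.cons (P.lf 533548 0 0) (P.cons (P.lf 206771 0 0) P.nil))) (P.cons (P.cons (P.lf 169264 0 0) (P.cons (P.lf 0 2228 0) P.nil)) (P.cons (P.cons (P.lf 13886 0 0) P.nil) P.nil)))))) 358305)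
 EL.nil)
noncomputable def S198_212_216_364 : SL := (SL.cons S198_212_216_364_0 (SL.cons S198_212_216_364_1 (SL.cons S198_212_216_364_2 (SL.cons S198_212_216_364_3 (SL.cons S198_212_216_364_4 (SL.cons S198_212_216_364_5 (SL.cons S198_212_216_364_6 (SL.cons S198_212_216_364_7 (SL.cons S198_212_216_364_8 (SL.cons S198_212_216_364_9 (SL.cons S198_212_216_364_10 (SL.cons S198_212_216_364_11 (SL.cons S198_212_216_364_12 (SL.cons S198_212_216_364_13 (SL.cons S198_212_216_364_14 (SL.cons S198_212_216_364_15 (SL.cons S198_212_216_364_16 (SL.cons S198_212_216_364_17 (SL.cons S198_212_216_364_18 (SL.cons S198_212_216_364_19 (SL.cons S198_212_216_364_20 (SL.cons S198_212_216_364_21 (SL.cons S198_212_216_364_22 (SL.cons S198_212_216_364_23 (SL.cons S198_212_216_364_24 (SL.cons S198_212_216_364_25 (SL.cons S198_212_216_364_26 (SL.cons S198_212_216_364_27 (SL.cons S198_212_216_364_28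 (SL.cons S198_212_216_364_29 (SL.cons S198_212_216_364_30 (SL.cons S198_212_216_364_31 (SL.cons S198_212_216_364_32 (SL.cons S198_212_216_364_33 (SL.cons S198_212_216_364_34 (SL.cons S198_212_216_364_35 (SL.cons S198_212_216_364_36 (SL.cons S198_212_216_364_37 (SL.cons S198_212_216_364_38 (SL.cons S198_212_216_364_39 (SL.cons S198_212_216_364_40 (SL.cons S198_212_216_364_41 (SL.cons S198_212_216_364_42 (SL.cons S198_212_216_364_43 (SL.cons S198_212_216_364_44 (SL.cons S198_212_216_364_45 (SL.cons S198_212_216_364_46 (SL.cons S198_212_216_364_47 (SL.cons S198_212_216_364_48 SL.nil)))))))))))))))))))))))))))))))))))))))))))))))))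
noncomputable def S198_212_290_364_0 : EL := (EL.cons 0 (TM.mk (P.cons (P.lf 7367797296 0 0) (P.cons (P.lf 270413532 0 0) (P.cons (P.lf 0 11357528 0) (P.cons (P.lf 0 846949 0) (P.cons (P.lf 7275 0 0) (P.cons (P.lf 1360 0 0) P.nil)))))) 123)
 (EL.cons 1 (TM.mk (P.cons (P.lf 0 1384003233 0) (P.cons (P.lf 134215061 0 0) (P.cons (P.lf 10263551 0 0) (P.cons (P.lf 0 214061 0) (P.cons (P.lf 0 21358 0) (P.cons (P.lf 0 5 0) P.nil)))))) 123)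
 (EL.cons 5 (TM.mk (P.cons (P.lf 4681783146 0 0) (P.cons (P.lf 0 96147034 0) (P.cons (P.lf 4038232 0 0) (P.cons (P.lf 301136 0 0) (P.cons (P.lf 0 2584 0) (P.cons (P.lf 0 484 0) P.nil)))))) 121)
 (EL.cons 9 (TM.mk (P.lf 6442450944 0 0) 2)
 EL.nil))))
noncomputable def S198_212_290_364_1 : EL := (EL.cons 0 (TM.mk (P.cons (P.cons (P.lf 2663829653 0 0) (P.cons (P.lf 0 200905645 0) (P.cons (P.lf 0 25870851 0) (P.lf 1724727 0 0)))) (P.cons (P.cons (P.lf 952953797 0 0) (P.cons (P.lf 0 69407042 0) (P.cons (P.lf 0 8937613 0) (P.lf 595832 0 0)))) (P.cons (P.cons (P.lf 0 65093153 0) (P.cons (P.lf 0 1646820 0) (P.cons (P.lf 0 212057 0) (P.lf 14134 0 0)))) (P.cons (P.cons (P.lf 0 9783859 0) (P.cons (P.lf 543425 0 0) (P.cons (P.lf 69975 0 0) P.nil))) (P.cons (P.cons (P.lf 275780 0 0) (P.cons (P.lf 26352 0 0) P.nil)) (P.cons (P.cons (P.lf 49667 0 0) P.nil) P.nil)))))) 20325)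
 (EL.cons 1 (TM.mk (P.cons (P.cons (P.lf 0 1359439848 0) (P.cons (P.lf 147051026 0 0) (P.cons (P.lf 18935916 0 0) (P.lf 0 1262386 0)))) (P.cons (P.cons (P.lf 166469560 0 0) (P.cons (P.lf 4553818 0 0) (P.cons (P.lf 586397 0 0) (P.lf 0 39094 0)))) (P.cons (P.cons (P.lf 56482654 0 0) (P.cons (P.lf 0 3355970 0) (P.cons (P.lf 0 432144 0) (P.lf 28797 0 0)))) (P.cons (P.cons (P.lf 0 1989707 0) (P.cons (P.lf 0 166293 0) (P.cons (P.lf 0 21410 0) P.nil))) (P.cons (P.cons (P.lf 0 420961 0) (P.cons (P.lf 16935 0 0) P.nil)) (P.cons (P.cons (P.lf 4210 0 0) P.nil) P.nil)))))) 11718)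
 (EL.cons 5 (TM.mk (P.cons (P.cons (P.lf 2936992168 0 0) (P.cons (P.lf 0 285995636 0) (P.cons (P.lf 0 36827978 0) (P.lf 2455196 0 0)))) (P.cons (P.cons (P.lf 0 108741260 0) (P.cons (P.lf 0 4599792 0) (P.cons (P.lf 0 592326 0) (P.lf 39496 0 0)))) (P.cons (P.cons (P.lf 0 17066976 0) (P.cons (P.lf 1415522 0 0) (P.cons (P.lf 182278 0 0) (P.lf 0 12148 0)))) (P.cons (P.cons (P.lf 2584174 0 0) (P.cons (P.lf 0 64302 0) (P.cons (P.lf 0 8276 0) P.nil))) (P.cons (P.cons (P.lf 14423 0 0) (P.cons (P.lf 0 8890 0) P.nil)) (P.cons (P.cons (P.lf 0 13965 0) P.nil) P.nil)))))) 11741)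
 (EL.cons 9 (TM.mk (P.cons (P.cons (P.lf 3427174932 0 0) (P.cons (P.lf 0 315378306 0) (P.cons (P.lf 0 40611612 0) (P.lf 2707434 0 0)))) (P.cons (P.cons (P.lf 203017722 0 0) (P.cons (P.lf 0 25833396 0) (P.cons (P.lf 0 3326592 0) (P.lf 221772 0 0)))) (P.cons (P.cons (P.lf 0 35480466 0) (P.cons (P.lf 732336 0 0) (P.cons (P.lf 94302 0 0) (P.lf 0 6282 0)))) (P.cons (P.cons (P.lf 0 789288 0) (P.cons (P.lf 113742 0 0) (P.cons (P.lf 14646 0 0) P.nil))) (P.cons (P.cons (P.lf 99237 0 0) (P.cons (P.lf 420 0 0) P.nil)) (P.cons (P.cons (P.lf 3249 0 0) P.nil) P.nil)))))) 2747)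
 (EL.cons 2 (TM.mk (P.cons (P.cons (P.lf 534429582 0 0) (P.cons (P.lf 152567566 0 0) (P.cons (P.lf 0 11411805 0) (P.cons (P.lf 0 768988 0) (P.lf 38446 0 0))))) (P.cons (P.cons (P.lf 0 37234690 0) (P.cons (P.lf 0 10629660 0) (P.cons (P.lf 795079 0 0) (P.cons (P.lf 53575 0 0) (P.lf 0 2677 0))))) (P.cons (P.cons (P.lf 0 6190422 0) (P.cons (P.lf 0 1767223 0) (P.cons (P.lf 132184 0 0) (P.cons (P.lf 8904 0 0) P.nil)))) (P.cons (P.cons (P.lf 29669 0 0) (P.cons (P.lf 8468 0 0) (P.cons (P.lf 0 632 0) P.nil))) (P.cons (P.cons (P.lf 19223 0 0) (P.cons (P.lf 5487 0 0) P.nil)) (P.cons (P.cons (P.lf 261 0 0) P.nil) P.nil)))))) 1871)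
 (EL.cons 6 (TM.mk (P.cons (P.cons (P.lf 679877715 0 0) (P.cons (P.lf 194089722 0 0) (P.cons (P.lf 0 14517597 0) (P.cons (P.lf 0 978273 0) (P.lf 48912 0 0))))) (P.cons (P.cons (P.lf 55690422 0 0) (P.cons (P.lf 15898356 0 0) (P.cons (P.lf 0 1189170 0) (P.cons (P.lf 0 80130 0) (P.lf 4005 0 0))))) (P.cons (P.cons (P.lf 0 1578738 0) (P.cons (P.lf 0 450693 0) (P.cons (P.lf 33708 0 0) (P.cons (P.lf 2268 0 0) P.nil)))) (P.cons (P.cons (P.lf 0 245208 0) (P.cons (P.lf 0 69999 0) (P.cons (P.lf 5235 0 0) P.nil))) (P.cons (P.cons (P.lf 0 909 0) (P.cons (P.lf 0 261 0) P.nil)) (P.cons (P.cons (P.lf 519 0 0) P.nil) P.nil)))))) 1203)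
 EL.nil))))))
noncomputable def S198_212_290_364_2 : EL := (EL.cons 0 (TM.mk (P.cons (P.cons (P.lf 749132753 0 0) (P.cons (P.lf 0 90819458 0) (P.cons (P.lf 0 9681270 0) (P.cons (P.lf 1298272 0 0) (P.cons (P.lf 0 1192 0) (P.cons (P.lf 0 4454 0) P.nil)))))) (P.cons (P.cons (P.lf 858222671 0 0) (P.cons (P.lf 0 132921670 0) (P.cons (P.lf 0 12250421 0) (P.cons (P.lf 2394291 0 0) (P.cons (P.lf 0 2853 0) P.nil))))) (P.cons (P.cons (P.lf 0 8533742 0) (P.cons (P.lf 0 6182748 0) (P.cons (P.lf 0 239374 0) (P.cons (P.lf 196465 0 0) P.nil)))) (P.cons (P.cons (P.lf 0 20206878 0) (P.cons (P.lf 2235991 0 0) (P.cons (P.lf 249652 0 0) P.nil))) (P.cons (P.cons (P.lf 55188 0 0) (P.cons (P.lf 142866 0 0) P.nil)) (P.cons (P.cons (P.lf 184211 0 0) P.nil) P.nil)))))) 171865)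
 (EL.cons 1 (TM.mk (P.cons (P.cons (P.lf 0 1054697439 0) (P.cons (P.lf 217467473 0 0) (P.cons (P.lf 16922941 0 0) (P.cons (P.lf 0 4720604 0) (P.cons (P.lf 6503 0 0) (P.cons (P.lf 24495 0 0) P.nil)))))) (P.cons (P.cons (P.lf 99854497 0 0) (P.cons (P.lf 5532589 0 0) (P.cons (P.lf 0 691007 0) (P.cons (P.lf 0 408930 0) (P.cons (P.lf 817 0 0) P.nil))))) (P.cons (P.cons (P.lf 71419887 0 0) (P.cons (P.lf 0 9992240 0) (P.cons (P.lf 0 1031657 0) (P.cons (P.lf 151460 0 0) P.nil)))) (P.cons (P.cons (P.lf 0 348769 0) (P.cons (P.lf 0 619687 0) (P.cons (P.lf 0 38207 0) P.nil))) (P.cons (P.cons (P.lf 0 1096854 0) (P.cons (P.lf 104909 0 0) P.nil)) (P.cons (P.cons (P.lf 0 6921 0) P.nil) P.nil)))))) 93882)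
 (EL.cons 5 (TM.mk (P.cons (P.cons (P.lf 1799873719 0 0) (P.cons (P.lf 0 347989637 0) (P.cons (P.lf 0 28029712 0) (P.cons (P.lf 7309286 0 0) (P.cons (P.lf 0 9855 0) (P.cons (P.lf 0 37094 0) P.nil)))))) (P.cons (P.cons (P.lf 0 60348448 0) (P.cons (P.lf 0 6415646 0) (P.cons (P.lf 310175 0 0) (P.cons (P.lf 347743 0 0) (P.cons (P.lf 0 681 0) P.nil))))) (P.cons (P.cons (P.lf 0 32497284 0) (P.cons (P.lf 5173055 0 0) (P.cons (P.lf 504306 0 0) (P.cons (P.lf 0 86080 0) P.nil)))) (P.cons (P.cons (P.lf 3698636 0 0) (P.cons (P.lf 0 195480 0) (P.cons (P.lf 0 30834 0) P.nil))) (P.cons (P.cons (P.lf 265116 0 0) (P.cons (P.lf 0 55131 0) P.nil)) (P.cons (P.cons (P.lf 0 44618 0) P.nil) P.nil)))))) 99822)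
 (EL.cons 9 (TM.mk (P.cons (P.cons (P.lf 1823145897 0 0) (P.cons (P.lf 0 335542057 0) (P.cons (P.lf 0 27769356 0) (P.cons (P.lf 6856666 0 0) (P.cons (P.lf 0 9069 0) (P.cons (P.lf 0 34132 0) P.nil)))))) (P.cons (P.cons (P.lf 215997685 0 0) (P.cons (P.lf 0 47361772 0) (P.cons (P.lf 0 3569571 0) (P.cons (P.lf 1057975 0 0) (P.cons (P.lf 0 1485 0) P.nil))))) (P.cons (P.cons (P.lf 0 31351318 0) (P.cons (P.lf 2624769 0 0) (P.cons (P.lf 369880 0 0) (P.cons (P.lf 0 14314 0) P.nil)))) (P.cons (P.cons (P.lf 0 3075906 0) (P.cons (P.lf 528990 0 0) (P.cons (P.lf 51108 0 0) P.nil))) (P.cons (P.cons (P.lf 251238 0 0) (P.cons (P.lf 0 3835 0) P.nil)) (P.cons (P.cons (P.lf 18403 0 0) P.nil) P.nil)))))) 35174)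
 (EL.cons 2 (TM.mk (P.cons (P.cons (P.lf 568598405 0 0) (P.cons (P.lf 109997960 0 0) (P.cons (P.lf 0 33816571 0) (P.cons (P.lf 0 1175175 0) (P.cons (P.lf 388299 0 0) (P.cons (P.lf 0 3656 0) P.nil)))))) (P.cons (P.cons (P.lf 0 5932873 0) (P.cons (P.lf 0 2334172 0) (P.cons (P.lf 0 138628 0) (P.cons (P.lf 4162 0 0) (P.cons (P.lf 3819 0 0) P.nil))))) (P.cons (P.cons (P.lf 0 14819445 0) (P.cons (P.lf 0 3204421 0) (P.cons (P.lf 741538 0 0) (P.cons (P.lf 28321 0 0) P.nil)))) (P.cons (P.cons (P.lf 0 79408 0) (P.cons (P.lf 34475 0 0) (P.cons (P.lf 25363 0 0) P.nil))) (P.cons (P.cons (P.lf 116094 0 0) (P.cons (P.lf 28366 0 0) P.nil)) (P.cons (P.cons (P.lf 2070 0 0) P.nil) P.nil)))))) 29378)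
 (EL.cons 6 (TM.mk (P.cons (P.cons (P.lf 723345780 0 0) (P.cons (P.lf 139934550 0 0) (P.cons (P.lf 0 43019952 0) (P.cons (P.lf 0 1495002 0) (P.cons (P.lf 493980 0 0) (P.cons (P.lf 0 4650 0) P.nil)))))) (P.cons (P.cons (P.lf 102100284 0 0) (P.cons (P.lf 18242430 0 0) (P.cons (P.lf 0 6697500 0) (P.cons (P.lf 0 221316 0) (P.cons (P.lf 79740 0 0) P.nil))))) (P.cons (P.cons (P.lf 0 5658354 0) (P.cons (P.lf 0 1752816 0) (P.cons (P.lf 63864 0 0) (P.cons (P.lf 7200 0 0) P.nil)))) (P.cons (P.cons (P.lf 0 1140378 0) (P.cons (P.lf 0 252210 0) (P.cons (P.lf 54726 0 0) P.nil))) (P.cons (P.cons (P.lf 8262 0 0) (P.cons (P.lf 6108 0 0) P.nil)) (P.cons (P.cons (P.lf 5982 0 0) P.nil) P.nil)))))) 27708)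
 EL.nil))))))
noncomputable def S198_212_290_364_3 : EL := (EL.cons 0 (TM.mk (P.cons (P.lf 1087919567 0 0) (P.cons (P.lf 0 270413532 0) (P.cons (P.lf 11357528 0 0) (P.cons (P.lf 846949 0 0) (P.cons (P.lf 0 7275 0) (P.cons (P.lf 0 1360 0) P.nil)))))) 123)
 (EL.cons 1 (TM.mk (P.cons (P.lf 1384003233 0 0) (P.cons (P.lf 0 134215061 0) (P.cons (P.lf 0 10263551 0) (P.cons (P.lf 214061 0 0) (P.cons (P.lf 21358 0 0) (P.cons (P.lf 5 0 0) P.nil)))))) 123)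
 (EL.cons 5 (TM.mk (P.cons (P.lf 1760667798 0 0) (P.cons (P.lf 96147034 0 0) (P.cons (P.lf 0 4038232 0) (P.cons (P.lf 0 301136 0) (P.cons (P.lf 2584 0 0) (P.cons (P.lf 484 0 0) P.nil)))))) 114)
 EL.nil)))
noncomputable def S198_212_290_364_4 : EL := (EL.cons 0 (TM.mk (P.cons (P.cons (P.lf 578737921 0 0) (P.cons (P.lf 0 53257095 0) (P.cons (P.lf 0 6857973 0) (P.lf 457196 0 0)))) (P.cons (P.cons (P.lf 0 109568163 0) (P.cons (P.lf 8875177 0 0) (P.cons (P.lf 1142866 0 0) (P.lf 0 76190 0)))) (P.cons (P.cons (P.lf 0 8471060 0) (P.cons (P.lf 652002 0 0) (P.cons (P.lf 83958 0 0) (P.lf 0 5595 0)))) (P.cons (P.cons (P.lf 2164413 0 0) (P.cons (P.lf 0 98534 0) (P.cons (P.lf 0 12687 0) P.nil))) (P.cons (P.cons (P.lf 10156 0 0) (P.cons (P.lf 0 6451 0) P.nil)) (P.cons (P.cons (P.lf 0 10624 0) P.nil) P.nil)))))) 4037)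
 (EL.cons 1 (TM.mk (P.cons (P.cons (P.lf 736244827 0 0) (P.cons (P.lf 0 67751325 0) (P.cons (P.lf 0 8724410 0) (P.lf 581625 0 0)))) (P.cons (P.cons (P.lf 0 27784659 0) (P.cons (P.lf 1020575 0 0) (P.cons (P.lf 131420 0 0) (P.lf 0 8760 0)))) (P.cons (P.cons (P.lf 0 17311438 0) (P.cons (P.lf 1197941 0 0) (P.cons (P.lf 154258 0 0) (P.lf 0 10280 0)))) (P.cons (P.cons (P.lf 360045 0 0) (P.cons (P.lf 39853 0 0) (P.cons (P.lf 5131 0 0) P.nil))) (P.cons (P.cons (P.lf 112393 0 0) (P.cons (P.lf 0 5347 0) P.nil)) (P.cons (P.cons (P.lf 0 613 0) P.nil) P.nil)))))) 2994)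
 (EL.cons 5 (TM.mk (P.cons (P.cons (P.lf 936618158 0 0) (P.cons (P.lf 0 86190244 0) (P.cons (P.lf 0 11098810 0) (P.lf 739918 0 0)))) (P.cons (P.cons (P.lf 106630142 0 0) (P.cons (P.lf 0 11766750 0) (P.cons (P.lf 0 1515216 0) (P.lf 101012 0 0)))) (P.cons (P.cons (P.lf 0 8814888 0) (P.cons (P.lf 12286 0 0) (P.cons (P.lf 1580 0 0) (P.lf 0 104 0)))) (P.cons (P.cons (P.lf 0 1032664 0) (P.cons (P.lf 72948 0 0) (P.cons (P.lf 9392 0 0) P.nil))) (P.cons (P.cons (P.lf 29464 0 0) (P.cons (P.lf 2434 0 0) P.nil)) (P.cons (P.cons (P.lf 4860 0 0) P.nil) P.nil)))))) 2220)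
 EL.nil)))
noncomputable def S198_212_290_364_5 : EL := (EL.cons 0 (TM.mk (P.cons (P.cons (P.lf 307869800 0 0) (P.cons (P.lf 0 56662094 0) (P.cons (P.lf 0 4689335 0) (P.cons (P.lf 1157865 0 0) (P.cons (P.lf 0 1531 0) (P.cons (P.lf 0 5762 0) P.nil)))))) (P.cons (P.cons (P.lf 0 40049231 0) (P.cons (P.lf 6086086 0 0) (P.cons (P.lf 562797 0 0) (P.cons (P.lf 0 109140 0) (P.cons (P.lf 128 0 0) P.nil))))) (P.cons (P.cons (P.lf 0 11146375 0) (P.cons (P.lf 1839652 0 0) (P.cons (P.lf 163332 0 0) (P.cons (P.lf 0 34736 0) P.nil)))) (P.cons (P.cons (P.lf 1416974 0 0) (P.cons (P.lf 0 148447 0) (P.cons (P.lf 0 16838 0) P.nil))) (P.cons (P.cons (P.lf 142599 0 0) (P.cons (P.lf 0 24071 0) P.nil)) (P.cons (P.cons (P.lf 0 17609 0) P.nil) P.nil)))))) 19595)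
 (EL.cons 1 (TM.mk (P.cons (P.cons (P.lf 391658366 0 0) (P.cons (P.lf 0 72083013 0) (P.cons (P.lf 0 5965567 0) (P.cons (P.lf 1472985 0 0) (P.cons (P.lf 0 1948 0) (P.cons (P.lf 0 7331 0) P.nil)))))) (P.cons (P.cons (P.lf 8420375 0 0) (P.cons (P.lf 0 3184198 0) (P.cons (P.lf 0 188317 0) (P.cons (P.lf 84433 0 0) (P.cons (P.lf 0 129 0) P.nil))))) (P.cons (P.cons (P.lf 0 14139403 0) (P.cons (P.lf 2085106 0 0) (P.cons (P.lf 198061 0 0) (P.cons (P.lf 0 36037 0) P.nil)))) (P.cons (P.cons (P.lf 0 291174 0) (P.cons (P.lf 123260 0 0) (P.cons (P.lf 8036 0 0) P.nil))) (P.cons (P.cons (P.lf 181218 0 0) (P.cons (P.lf 0 18710 0) P.nil)) (P.cons (P.cons (P.lf 3296 0 0) P.nil) P.nil)))))) 16698)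
 (EL.cons 5 (TM.mk (P.cons (P.cons (P.lf 498250478 0 0) (P.cons (P.lf 0 91700828 0) (P.cons (P.lf 0 7589132 0) (P.cons (P.lf 1873868 0 0) (P.cons (P.lf 0 2478 0) (P.cons (P.lf 0 9326 0) P.nil)))))) (P.cons (P.cons (P.lf 86238954 0 0) (P.cons (P.lf 0 17951198 0) (P.cons (P.lf 0 1389962 0) (P.cons (P.lf 391464 0 0) (P.cons (P.lf 0 540 0) P.nil))))) (P.cons (P.cons (P.lf 0 6487282 0) (P.cons (P.lf 220822 0 0) (P.cons (P.lf 65218 0 0) (P.cons (P.lf 7578 0 0) P.nil)))) (P.cons (P.cons (P.lf 0 1529114 0) (P.cons (P.lf 229110 0 0) (P.cons (P.lf 23022 0 0) P.nil))) (P.cons (P.cons (P.lf 33042 0 0) (P.cons (P.lf 7280 0 0) P.nil)) (P.cons (P.cons (P.lf 12394 0 0) P.nil) P.nil)))))) 14944)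
 EL.nil)))
noncomputable def S198_212_290_364_6 : EL := (EL.cons 12 (TM.mk (P.lf 8589934592 0 0) 0)
 (EL.cons 3 (TM.mk (P.cons (P.lf 0 1528492552 0) (P.cons (P.lf 189961226 0 0) (P.cons (P.lf 3825716 0 0) (P.cons (P.lf 0 119508 0) (P.cons (P.lf 0 4953 0) (P.cons (P.lf 41 0 0) P.nil)))))) 52)
 (EL.cons 7 (TM.mk (P.cons (P.lf 0 1944480730 0) (P.cons (P.lf 0 53092371 0) (P.cons (P.lf 2954732 0 0) (P.cons (P.lf 85611 0 0) (P.cons (P.lf 0 1520 0) (P.cons (P.lf 0 96 0) P.nil)))))) 47)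
 EL.nil)))
noncomputable def S198_212_290_364_7 : EL := (EL.cons 12 (TM.mk (P.cons (P.cons (P.lf 4569566576 0 0) (P.cons (P.lf 0 420504408 0) (P.cons (P.lf 0 54148816 0) (P.lf 3609912 0 0)))) (P.cons (P.cons (P.lf 270690296 0 0) (P.cons (P.lf 0 34444528 0) (P.cons (P.lf 0 4435456 0) (P.lf 295696 0 0)))) (P.cons (P.cons (P.lf 0 47307288 0) (P.cons (P.lf 976448 0 0) (P.cons (P.lf 125736 0 0) (P.lf 0 8376 0)))) (P.cons (P.cons (P.lf 0 1052384 0) (P.cons (P.lf 151656 0 0) (P.cons (P.lf 19528 0 0) P.nil))) (P.cons (P.cons (P.lf 132316 0 0) (P.cons (P.lf 560 0 0) P.nil)) (P.cons (P.cons (P.lf 4332 0 0) P.nil) P.nil)))))) 3638)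
 (EL.cons 3 (TM.mk (P.cons (P.cons (P.lf 950969125 0 0) (P.cons (P.lf 0 149649066 0) (P.cons (P.lf 0 19270472 0) (P.lf 1284692 0 0)))) (P.cons (P.cons (P.lf 0 538434834 0) (P.cons (P.lf 6340286 0 0) (P.cons (P.lf 816446 0 0) (P.lf 0 54428 0)))) (P.cons (P.cons (P.lf 0 14706286 0) (P.cons (P.lf 2245498 0 0) (P.cons (P.lf 289152 0 0) (P.lf 0 19272 0)))) (P.cons (P.cons (P.lf 2958969 0 0) (P.cons (P.lf 29762 0 0) (P.cons (P.lf 3832 0 0) P.nil))) (P.cons (P.cons (P.lf 136937 0 0) (P.cons (P.lf 0 8820 0) P.nil)) (P.cons (P.cons (P.lf 0 6596 0) P.nil) P.nil)))))) 8634)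
 (EL.cons 7 (TM.mk (P.cons (P.cons (P.lf 0 1527443728 0) (P.cons (P.lf 157926730 0 0) (P.cons (P.lf 20336403 0 0) (P.lf 0 1355762 0)))) (P.cons (P.cons (P.lf 150487457 0 0) (P.cons (P.lf 0 1772049 0) (P.cons (P.lf 0 228186 0) (P.lf 15210 0 0)))) (P.cons (P.cons (P.lf 0 7295488 0) (P.cons (P.lf 0 493291 0) (P.cons (P.lf 0 63524 0) (P.lf 4238 0 0)))) (P.cons (P.cons (P.lf 0 1084083 0) (P.cons (P.lf 53237 0 0) (P.cons (P.lf 6855 0 0) P.nil))) (P.cons (P.cons (P.lf 54921 0 0) (P.cons (P.lf 2504 0 0) P.nil)) (P.cons (P.cons (P.lf 4770 0 0) P.nil) P.nil)))))) 7097)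
 (EL.cons 10 (TM.mk (P.cons (P.cons (P.lf 0 1501713294 0) (P.cons (P.lf 0 428705208 0) (P.cons (P.lf 32066460 0 0) (P.cons (P.lf 2160810 0 0) (P.lf 0 108039 0))))) (P.cons (P.cons (P.lf 0 82005972 0) (P.cons (P.lf 0 23410851 0) (P.cons (P.lf 1751094 0 0) (P.cons (P.lf 117996 0 0) (P.lf 0 5898 0))))) (P.cons (P.cons (P.lf 3444297 0 0) (P.cons (P.lf 983268 0 0) (P.cons (P.lf 0 73545 0) (P.cons (P.lf 0 4953 0) P.nil)))) (P.cons (P.cons (P.lf 256845 0 0) (P.cons (P.lf 73323 0 0) (P.cons (P.lf 0 5484 0) P.nil))) (P.cons (P.cons (P.lf 0 2202 0) (P.cons (P.lf 0 627 0) P.nil)) (P.cons (P.cons (P.lf 0 411 0) P.nil) P.nil)))))) 1047)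
 EL.nil))))
noncomputable def S198_212_290_364_8 : EL := (EL.cons 12 (TM.mk (P.cons (P.cons (P.lf 2430861196 0 0) (P.cons (P.lf 0 447389410 0) (P.cons (P.lf 0 37025808 0) (P.cons (P.lf 9142222 0 0) (P.cons (P.lf 0 12092 0) (P.cons (P.lf 0 45510 0) P.nil)))))) (P.cons (P.cons (P.lf 287996914 0 0) (P.cons (P.lf 0 63149030 0) (P.cons (P.lf 0 4759428 0) (P.cons (P.lf 1410634 0 0) (P.cons (P.lf 0 1980 0) P.nil))))) (P.cons (P.cons (P.lf 0 41801758 0) (P.cons (P.lf 3499692 0 0) (P.cons (P.lf 493174 0 0) (P.cons (P.lf 0 19086 0) P.nil)))) (P.cons (P.cons (P.lf 0 4101208 0) (P.cons (P.lf 705320 0 0) (P.cons (P.lf 68144 0 0) P.nil))) (P.cons (P.cons (P.lf 334984 0 0) (P.cons (P.lf 0 5114 0) P.nil)) (P.cons (P.cons (P.lf 24538 0 0) P.nil) P.nil)))))) 46870)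
 (EL.cons 3 (TM.mk (P.cons (P.cons (P.lf 1444316780 0 0) (P.cons (P.lf 0 331931226 0) (P.cons (P.lf 0 24428660 0) (P.cons (P.lf 7566285 0 0) (P.cons (P.lf 0 10755 0) (P.cons (P.lf 0 40491 0) P.nil)))))) (P.cons (P.cons (P.lf 0 515435780 0) (P.cons (P.lf 41060671 0 0) (P.cons (P.lf 6011666 0 0) (P.cons (P.lf 0 165964 0) (P.cons (P.lf 0 426 0) P.nil))))) (P.cons (P.cons (P.lf 0 74945636 0) (P.cons (P.lf 12629619 0 0) (P.cons (P.lf 1245426 0 0) (P.cons (P.lf 0 206510 0) P.nil)))) (P.cons (P.cons (P.lf 8019115 0 0) (P.cons (P.lf 0 50564 0) (P.cons (P.lf 0 37467 0) P.nil))) (P.cons (P.cons (P.lf 829718 0 0) (P.cons (P.lf 0 116974 0) P.nil)) (P.cons (P.cons (P.lf 0 44643 0) P.nil) P.nil)))))) 107023)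
 (EL.cons 7 (TM.mk (P.cons (P.cons (P.lf 0 1074833429 0) (P.cons (P.lf 216295819 0 0) (P.cons (P.lf 17050408 0 0) (P.cons (P.lf 0 4638874 0) (P.cons (P.lf 6343 0 0) (P.cons (P.lf 23879 0 0) P.nil)))))) (P.cons (P.cons (P.lf 144059433 0 0) (P.cons (P.lf 0 11476069 0) (P.cons (P.lf 0 1680202 0) (P.cons (P.lf 46381 0 0) (P.cons (P.lf 120 0 0) P.nil))))) (P.cons (P.cons (P.lf 10028035 0 0) (P.cons (P.lf 0 2660063 0) (P.cons (P.lf 0 220741 0) (P.cons (P.lf 54205 0 0) P.nil)))) (P.cons (P.cons (P.lf 0 4206519 0) (P.cons (P.lf 358766 0 0) (P.cons (P.lf 43877 0 0) P.nil))) (P.cons (P.cons (P.lf 48953 0 0) (P.cons (P.lf 26072 0 0) P.nil)) (P.cons (P.cons (P.lf 34888 0 0) P.nil) P.nil)))))) 58112)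
 (EL.cons 10 (TM.mk (P.cons (P.cons (P.lf 0 1597725522 0) (P.cons (P.lf 0 309087318 0) (P.cons (P.lf 95022432 0 0) (P.cons (P.lf 3302166 0 0) (P.cons (P.lf 0 1091106 0) (P.cons (P.lf 10284 0 0) P.nil)))))) (P.cons (P.cons (P.lf 0 181894506 0) (P.cons (P.lf 0 31854510 0) (P.cons (P.lf 12198936 0 0) (P.cons (P.lf 398682 0 0) (P.cons (P.lf 0 146346 0) P.nil))))) (P.cons (P.cons (P.lf 15036828 0 0) (P.cons (P.lf 4271712 0 0) (P.cons (P.lf 0 329760 0) (P.cons (P.lf 0 21774 0) P.nil)))) (P.cons (P.cons (P.lf 1761564 0 0) (P.cons (P.lf 378444 0 0) (P.cons (P.lf 0 89160 0) P.nil))) (P.cons (P.cons (P.lf 0 50262 0) (P.cons (P.lf 0 18498 0) P.nil)) (P.cons (P.cons (P.lf 0 8286 0) P.nil) P.nil)))))) 46404)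
 EL.nil))))
noncomputable def S198_212_290_364_9 : EL := (EL.cons 3 (TM.mk (P.cons (P.lf 0 1528492552 0) (P.cons (P.lf 189961226 0 0) (P.cons (P.lf 3825716 0 0) (P.cons (P.lf 0 119508 0) (P.cons (P.lf 0 4953 0) (P.cons (P.lf 41 0 0) P.nil)))))) 52)
 (EL.cons 7 (TM.mk (P.cons (P.lf 0 1944480730 0) (P.cons (P.lf 0 53092371 0) (P.cons (P.lf 2954732 0 0) (P.cons (P.lf 85611 0 0) (P.cons (P.lf 0 1520 0) (P.cons (P.lf 0 96 0) P.nil)))))) 47)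
 EL.nil))
noncomputable def S198_212_290_364_10 : EL := (EL.cons 3 (TM.mk (P.cons (P.cons (P.lf 0 813108458 0) (P.cons (P.lf 74824533 0 0) (P.cons (P.lf 9635236 0 0) (P.lf 0 642346 0)))) (P.cons (P.cons (P.lf 52886592 0 0) (P.cons (P.lf 0 3170143 0) (P.cons (P.lf 0 408223 0) (P.lf 27214 0 0)))) (P.cons (P.cons (P.lf 16439165 0 0) (P.cons (P.lf 0 1122749 0) (P.cons (P.lf 0 144576 0) (P.lf 9636 0 0)))) (P.cons (P.cons (P.lf 0 801927 0) (P.cons (P.lf 0 14881 0) (P.cons (P.lf 0 1916 0) P.nil))) (P.cons (P.cons (P.lf 0 74287 0) (P.cons (P.lf 4410 0 0) P.nil)) (P.cons (P.cons (P.lf 2209 0 0) P.nil) P.nil)))))) 2087)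
 (EL.cons 7 (TM.mk (P.cons (P.cons (P.lf 0 1034400676 0) (P.cons (P.lf 95188468 0 0) (P.cons (P.lf 12257523 0 0) (P.lf 0 817166 0)))) (P.cons (P.cons (P.lf 0 89518864 0) (P.cons (P.lf 10396155 0 0) (P.cons (P.lf 1338723 0 0) (P.lf 0 89247 0)))) (P.cons (P.cons (P.lf 10607573 0 0) (P.cons (P.lf 0 152785 0) (P.cons (P.lf 0 19673 0) (P.lf 1310 0 0)))) (P.cons (P.cons (P.lf 669273 0 0) (P.cons (P.lf 0 56404 0) (P.cons (P.lf 0 7263 0) P.nil))) (P.cons (P.cons (P.lf 0 37830 0) (P.cons (P.lf 0 997 0) P.nil)) (P.cons (P.cons (P.lf 0 2730 0) P.nil) P.nil)))))) 1495)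
 EL.nil))
noncomputable def S198_212_290_364_11 : EL := (EL.cons 3 (TM.mk (P.cons (P.cons (P.lf 0 432547324 0) (P.cons (P.lf 79608450 0 0) (P.cons (P.lf 6588370 0 0) (P.cons (P.lf 0 1626765 0) (P.cons (P.lf 2151 0 0) (P.cons (P.lf 8097 0 0) P.nil)))))) (P.cons (P.cons (P.lf 2510872 0 0) (P.cons (P.lf 1342987 0 0) (P.cons (P.lf 28088 0 0) (P.cons (P.lf 0 48832 0) (P.cons (P.lf 84 0 0) P.nil))))) (P.cons (P.cons (P.lf 14889718 0 0) (P.cons (P.lf 0 2218491 0) (P.cons (P.lf 0 209496 0) (P.cons (P.lf 38662 0 0) P.nil)))) (P.cons (P.cons (P.lf 0 100205 0) (P.cons (P.lf 0 70010 0) (P.cons (P.lf 0 2823 0) P.nil))) (P.cons (P.cons (P.lf 0 174328 0) (P.cons (P.lf 19202 0 0) P.nil)) (P.cons (P.cons (P.lf 1641 0 0) P.nil) P.nil)))))) 14925)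
 (EL.cons 7 (TM.mk (P.cons (P.cons (P.lf 0 550267607 0) (P.cons (P.lf 101274355 0 0) (P.cons (P.lf 8381434 0 0) (P.cons (P.lf 0 2069500 0) (P.cons (P.lf 2737 0 0) (P.cons (P.lf 10301 0 0) P.nil)))))) (P.cons (P.cons (P.lf 0 80217681 0) (P.cons (P.lf 17060087 0 0) (P.cons (P.lf 1306226 0 0) (P.cons (P.lf 0 375827 0) (P.cons (P.lf 522 0 0) P.nil))))) (P.cons (P.cons (P.lf 8518669 0 0) (P.cons (P.lf 0 555797 0) (P.cons (P.lf 0 94957 0) (P.cons (P.lf 0 1253 0) P.nil)))) (P.cons (P.cons (P.lf 1310037 0 0) (P.cons (P.lf 0 207472 0) (P.cons (P.lf 0 20479 0) P.nil))) (P.cons (P.cons (P.lf 0 62419 0) (P.cons (P.lf 0 2548 0) P.nil)) (P.cons (P.cons (P.lf 0 9530 0) P.nil) P.nil)))))) 13330)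
 EL.nil))
noncomputable def S198_212_290_364_12 : EL := (EL.cons 4 (TM.mk (P.cons (P.lf 1528492552 0 0) (P.cons (P.lf 0 189961226 0) (P.cons (P.lf 0 3825716 0) (P.cons (P.lf 119508 0 0) (P.cons (P.lf 4953 0 0) (P.cons (P.lf 0 41 0) P.nil)))))) 52)
 (EL.cons 8 (TM.mk (P.cons (P.lf 1944480730 0 0) (P.cons (P.lf 53092371 0 0) (P.cons (P.lf 0 2954732 0) (P.cons (P.lf 0 85611 0) (P.cons (P.lf 1520 0 0) (P.cons (P.lf 96 0 0) P.nil)))))) 47)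
 EL.nil))
noncomputable def S198_212_290_364_13 : EL := (EL.cons 4 (TM.mk (P.cons (P.cons (P.lf 813108458 0 0) (P.cons (P.lf 0 74824533 0) (P.cons (P.lf 0 9635236 0) (P.lf 642346 0 0)))) (P.cons (P.cons (P.lf 0 52886592 0) (P.cons (P.lf 3170143 0 0) (P.cons (P.lf 408223 0 0) (P.lf 0 27214 0)))) (P.cons (P.cons (P.lf 0 16439165 0) (P.cons (P.lf 1122749 0 0) (P.cons (P.lf 144576 0 0) (P.lf 0 9636 0)))) (P.cons (P.cons (P.lf 801927 0 0) (P.cons (P.lf 14881 0 0) (P.cons (P.lf 1916 0 0) P.nil))) (P.cons (P.cons (P.lf 74287 0 0) (P.cons (P.lf 0 4410 0) P.nil)) (P.cons (P.cons (P.lf 0 2209 0) P.nil) P.nil)))))) 2087)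
 (EL.cons 8 (TM.mk (P.cons (P.cons (P.lf 1034400676 0 0) (P.cons (P.lf 0 95188468 0) (P.cons (P.lf 0 12257523 0) (P.lf 817166 0 0)))) (P.cons (P.cons (P.lf 89518864 0 0) (P.cons (P.lf 0 10396155 0) (P.cons (P.lf 0 1338723 0) (P.lf 89247 0 0)))) (P.cons (P.cons (P.lf 0 10607573 0) (P.cons (P.lf 152785 0 0) (P.cons (P.lf 19673 0 0) (P.lf 0 1310 0)))) (P.cons (P.cons (P.lf 0 669273 0) (P.cons (P.lf 56404 0 0) (P.cons (P.lf 7263 0 0) P.nil))) (P.cons (P.cons (P.lf 37830 0 0) (P.cons (P.lf 997 0 0) P.nil)) (P.cons (P.cons (P.lf 2730 0 0) P.nil) P.nil)))))) 1495)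
 EL.nil))
noncomputable def S198_212_290_364_14 : EL := (EL.cons 4 (TM.mk (P.cons (P.cons (P.lf 432547324 0 0) (P.cons (P.lf 0 79608450 0) (P.cons (P.lf 0 6588370 0) (P.cons (P.lf 1626765 0 0) (P.cons (P.lf 0 2151 0) (P.cons (P.lf 0 8097 0) P.nil)))))) (P.cons (P.cons (P.lf 0 2510872 0) (P.cons (P.lf 0 1342987 0) (P.cons (P.lf 0 28088 0) (P.cons (P.lf 48832 0 0) (P.cons (P.lf 0 84 0) P.nil))))) (P.cons (P.cons (P.lf 0 14889718 0) (P.cons (P.lf 2218491 0 0) (P.cons (P.lf 209496 0 0) (P.cons (P.lf 0 38662 0) P.nil)))) (P.cons (P.cons (P.lf 100205 0 0) (P.cons (P.lf 70010 0 0) (P.cons (P.lf 2823 0 0) P.nil))) (P.cons (P.cons (P.lf 174328 0 0) (P.cons (P.lf 0 19202 0) P.nil)) (P.cons (P.cons (P.lf 0 1641 0) P.nil) P.nil)))))) 14925)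
 (EL.cons 8 (TM.mk (P.cons (P.cons (P.lf 550267607 0 0) (P.cons (P.lf 0 101274355 0) (P.cons (P.lf 0 8381434 0) (P.cons (P.lf 2069500 0 0) (P.cons (P.lf 0 2737 0) (P.cons (P.lf 0 10301 0) P.nil)))))) (P.cons (P.cons (P.lf 80217681 0 0) (P.cons (P.lf 0 17060087 0) (P.cons (P.lf 0 1306226 0) (P.cons (P.lf 375827 0 0) (P.cons (P.lf 0 522 0) P.nil))))) (P.cons (P.cons (P.lf 0 8518669 0) (P.cons (P.lf 555797 0 0) (P.cons (P.lf 94957 0 0) (P.cons (P.lf 1253 0 0) P.nil)))) (P.cons (P.cons (P.lf 0 1310037 0) (P.cons (P.lf 207472 0 0) (P.cons (P.lf 20479 0 0) P.nil))) (P.cons (P.cons (P.lf 62419 0 0) (P.cons (P.lf 2548 0 0) P.nil)) (P.cons (P.cons (P.lf 9530 0 0) P.nil) P.nil)))))) 13330)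
 EL.nil))
noncomputable def S198_212_290_364_15 : EL := (EL.cons 4 (TM.mk (P.cons (P.lf 0 580223769 0) (P.cons (P.lf 144220550 0 0) (P.cons (P.lf 0 6057348 0) (P.cons (P.lf 0 451706 0) (P.cons (P.lf 3880 0 0) (P.cons (P.lf 725 0 0) P.nil)))))) 68)
 (EL.cons 8 (TM.mk (P.cons (P.lf 0 738135058 0) (P.cons (P.lf 71581366 0 0) (P.cons (P.lf 5473894 0 0) (P.cons (P.lf 0 114166 0) (P.cons (P.lf 0 11391 0) (P.cons (P.lf 0 3 0) P.nil)))))) 62)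
 EL.nil))
noncomputable def S198_212_290_364_16 : EL := (EL.cons 4 (TM.mk (P.cons (P.cons (P.lf 0 308660224 0) (P.cons (P.lf 28403784 0 0) (P.cons (P.lf 3657585 0 0) (P.lf 0 243838 0)))) (P.cons (P.cons (P.lf 58436354 0 0) (P.cons (P.lf 0 4733428 0) (P.cons (P.lf 0 609528 0) (P.lf 40635 0 0)))) (P.cons (P.cons (P.lf 4517898 0 0) (P.cons (P.lf 0 347734 0) (P.cons (P.lf 0 44777 0) (P.lf 2984 0 0)))) (P.cons (P.cons (P.lf 0 1154354 0) (P.cons (P.lf 52551 0 0) (P.cons (P.lf 6766 0 0) P.nil))) (P.cons (P.cons (P.lf 0 5416 0) (P.cons (P.lf 3440 0 0) P.nil)) (P.cons (P.cons (P.lf 5666 0 0) P.nil) P.nil)))))) 2162)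
 (EL.cons 8 (TM.mk (P.cons (P.cons (P.lf 0 392663908 0) (P.cons (P.lf 36134040 0 0) (P.cons (P.lf 4653019 0 0) (P.lf 0 310200 0)))) (P.cons (P.cons (P.lf 14818485 0 0) (P.cons (P.lf 0 544307 0) (P.cons (P.lf 0 70091 0) (P.lf 4672 0 0)))) (P.cons (P.cons (P.lf 9232767 0 0) (P.cons (P.lf 0 638902 0) (P.cons (P.lf 0 82271 0) (P.lf 5483 0 0)))) (P.cons (P.cons (P.lf 0 192024 0) (P.cons (P.lf 0 21255 0) (P.cons (P.lf 0 2737 0) P.nil))) (P.cons (P.cons (P.lf 0 59943 0) (P.cons (P.lf 2852 0 0) P.nil)) (P.cons (P.cons (P.lf 327 0 0) P.nil) P.nil)))))) 1587)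
 EL.nil))
noncomputable def S198_212_290_364_17 : EL := (EL.cons 4 (TM.mk (P.cons (P.cons (P.lf 0 164197227 0) (P.cons (P.lf 30219783 0 0) (P.cons (P.lf 2500979 0 0) (P.cons (P.lf 0 617528 0) (P.cons (P.lf 816 0 0) (P.cons (P.lf 3073 0 0) P.nil)))))) (P.cons (P.cons (P.lf 21359590 0 0) (P.cons (P.lf 0 3245912 0) (P.cons (P.lf 0 300158 0) (P.cons (P.lf 58208 0 0) (P.cons (P.lf 0 68 0) P.nil))))) (P.cons (P.cons (P.lf 5944733 0 0) (P.cons (P.lf 0 981148 0) (P.cons (P.lf 0 87110 0) (P.cons (P.lf 18525 0 0) P.nil)))) (P.cons (P.cons (P.lf 0 755719 0) (P.cons (P.lf 79171 0 0) (P.cons (P.lf 8980 0 0) P.nil))) (P.cons (P.cons (P.lf 0 76052 0) (P.cons (P.lf 12838 0 0) P.nil)) (P.cons (P.cons (P.lf 9391 0 0) P.nil) P.nil)))))) 10461)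
 (EL.cons 8 (TM.mk (P.cons (P.cons (P.lf 0 208884462 0) (P.cons (P.lf 38444274 0 0) (P.cons (P.lf 3181636 0 0) (P.cons (P.lf 0 785592 0) (P.cons (P.lf 1039 0 0) (P.cons (P.lf 3910 0 0) P.nil)))))) (P.cons (P.cons (P.lf 0 4490867 0) (P.cons (P.lf 1698239 0 0) (P.cons (P.lf 100436 0 0) (P.cons (P.lf 0 45031 0) (P.cons (P.lf 69 0 0) P.nil))))) (P.cons (P.cons (P.lf 7541015 0 0) (P.cons (P.lf 0 1112057 0) (P.cons (P.lf 0 105633 0) (P.cons (P.lf 19220 0 0) P.nil)))) (P.cons (P.cons (P.lf 155293 0 0) (P.cons (P.lf 0 65739 0) (P.cons (P.lf 0 4286 0) P.nil))) (P.cons (P.cons (P.lf 0 96650 0) (P.cons (P.lf 9979 0 0) P.nil)) (P.cons (P.cons (P.lf 0 1758 0) P.nil) P.nil)))))) 8894)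
 EL.nil))
noncomputable def S198_212_290_364_18 : EL := (EL.cons 4 (TM.mk (P.cons (P.lf 220255978 0 0) (P.cons (P.lf 0 82120312 0) (P.cons (P.lf 8552062 0 0) (P.cons (P.lf 39948 0 0) (P.cons (P.lf 0 32104 0) (P.cons (P.lf 0 525 0) P.nil)))))) 109)
 (EL.cons 8 (TM.mk (P.cons (P.lf 280199929 0 0) (P.cons (P.lf 0 61995939 0) (P.cons (P.lf 597780 0 0) (P.cons (P.lf 391501 0 0) (P.cons (P.lf 2922 0 0) (P.cons (P.lf 0 902 0) P.nil)))))) 74)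
 EL.nil))
noncomputable def S198_212_290_364_19 : EL := (EL.cons 4 (TM.mk (P.cons (P.cons (P.lf 117169035 0 0) (P.cons (P.lf 0 10782225 0) (P.cons (P.lf 0 1388438 0) (P.lf 92562 0 0)))) (P.cons (P.cons (P.lf 0 36744525 0) (P.cons (P.lf 3136849 0 0) (P.cons (P.lf 403935 0 0) (P.lf 0 26928 0)))) (P.cons (P.cons (P.lf 748589 0 0) (P.cons (P.lf 0 64320 0) (P.cons (P.lf 0 8282 0) (P.lf 552 0 0)))) (P.cons (P.cons (P.lf 716024 0 0) (P.cons (P.lf 0 41694 0) (P.cons (P.lf 0 5368 0) P.nil))) (P.cons (P.cons (P.lf 0 49464 0) (P.cons (P.lf 947 0 0) P.nil)) (P.cons (P.cons (P.lf 0 3712 0) P.nil) P.nil)))))) 1930)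
 (EL.cons 8 (TM.mk (P.cons (P.cons (P.lf 149057273 0 0) (P.cons (P.lf 0 13716670 0) (P.cons (P.lf 0 1766310 0) (P.lf 117753 0 0)))) (P.cons (P.cons (P.lf 0 24150029 0) (P.cons (P.lf 1911331 0 0) (P.cons (P.lf 246124 0 0) (P.lf 0 16408 0)))) (P.cons (P.cons (P.lf 0 3178790 0) (P.cons (P.lf 251183 0 0) (P.cons (P.lf 32344 0 0) (P.lf 0 2155 0)))) (P.cons (P.cons (P.lf 534204 0 0) (P.cons (P.lf 0 23662 0) (P.cons (P.lf 0 3046 0) P.nil))) (P.cons (P.cons (P.lf 22511 0 0) (P.cons (P.lf 0 2720 0) P.nil)) (P.cons (P.cons (P.lf 0 3430 0) P.nil) P.nil)))))) 1518)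
 EL.nil))
noncomputable def S198_212_290_364_20 : EL := (EL.cons 4 (TM.mk (P.cons (P.cons (P.lf 62330126 0 0) (P.cons (P.lf 0 11471587 0) (P.cons (P.lf 0 949384 0) (P.cons (P.lf 234417 0 0) (P.cons (P.lf 0 309 0) (P.cons (P.lf 0 1166 0) P.nil)))))) (P.cons (P.cons (P.lf 0 15854607 0) (P.cons (P.lf 2657855 0 0) (P.cons (P.lf 231930 0 0) (P.cons (P.lf 0 51229 0) (P.cons (P.lf 64 0 0) P.nil))))) (P.cons (P.cons (P.lf 0 1404970 0) (P.cons (P.lf 248027 0 0) (P.cons (P.lf 21283 0 0) (P.cons (P.lf 0 4873 0) P.nil)))) (P.cons (P.cons (P.lf 592499 0 0) (P.cons (P.lf 0 80323 0) (P.cons (P.lf 0 7877 0) P.nil))) (P.cons (P.cons (P.lf 0 1565 0) (P.cons (P.lf 0 2010 0) P.nil)) (P.cons (P.cons (P.lf 0 8075 0) P.nil) P.nil)))))) 7249)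
 (EL.cons 8 (TM.mk (P.cons (P.cons (P.lf 79293634 0 0) (P.cons (P.lf 0 14593647 0) (P.cons (P.lf 0 1207765 0) (P.cons (P.lf 298214 0 0) (P.cons (P.lf 0 394 0) (P.cons (P.lf 0 1484 0) P.nil)))))) (P.cons (P.cons (P.lf 0 8149865 0) (P.cons (P.lf 1169039 0 0) (P.cons (P.lf 111974 0 0) (P.cons (P.lf 0 19967 0) (P.cons (P.lf 22 0 0) P.nil))))) (P.cons (P.cons (P.lf 0 3272943 0) (P.cons (P.lf 538788 0 0) (P.cons (P.lf 47860 0 0) (P.cons (P.lf 0 10167 0) P.nil)))) (P.cons (P.cons (P.lf 298747 0 0) (P.cons (P.lf 0 27035 0) (P.cons (P.lf 0 3355 0) P.nil))) (P.cons (P.cons (P.lf 51570 0 0) (P.cons (P.lf 0 8044 0) P.nil)) (P.cons (P.cons (P.lf 0 3965 0) P.nil) P.nil)))))) 6239)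
 EL.nil))
noncomputable def S198_212_290_364_21 : EL := (EL.cons 4 (TM.mk (P.cons (P.cons (P.lf 0 1764077583 0) (P.cons (P.lf 224473599 0 0) (P.cons (P.lf 28905708 0 0) (P.lf 0 1927038 0)))) (P.cons (P.cons (P.lf 591321426 0 0) (P.cons (P.lf 0 9510429 0) (P.cons (P.lf 0 1224669 0) (P.lf 81642 0 0)))) (P.cons (P.cons (P.lf 31145451 0 0) (P.cons (P.lf 0 3368247 0) (P.cons (P.lf 0 433728 0) (P.lf 28908 0 0)))) (P.cons (P.cons (P.lf 0 3760896 0) (P.cons (P.lf 0 44643 0) (P.cons (P.lf 0 5748 0) P.nil))) (P.cons (P.cons (P.lf 0 211224 0) (P.cons (P.lf 13230 0 0) P.nil)) (P.cons (P.cons (P.lf 8805 0 0) P.nil) P.nil)))))) 6528)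
 (EL.cons 8 (TM.mk (P.cons (P.cons (P.lf 493043052 0 0) (P.cons (P.lf 0 62738262 0) (P.cons (P.lf 0 8078880 0) (P.lf 538596 0 0)))) (P.cons (P.cons (P.lf 0 240006321 0) (P.cons (P.lf 12168204 0 0) (P.cons (P.lf 1566909 0 0) (P.lf 0 104457 0)))) (P.cons (P.cons (P.lf 17903061 0 0) (P.cons (P.lf 340506 0 0) (P.cons (P.lf 43851 0 0) (P.lf 0 2928 0)))) (P.cons (P.cons (P.lf 1753356 0 0) (P.cons (P.lf 0 109641 0) (P.cons (P.lf 0 14118 0) P.nil))) (P.cons (P.cons (P.lf 0 92751 0) (P.cons (P.lf 0 3501 0) P.nil)) (P.cons (P.cons (P.lf 0 7500 0) P.nil) P.nil)))))) 5583)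
 (EL.cons 11 (TM.mk (P.cons (P.cons (P.lf 1501713294 0 0) (P.cons (P.lf 428705208 0 0) (P.cons (P.lf 0 32066460 0) (P.cons (P.lf 0 2160810 0) (P.lf 108039 0 0))))) (P.cons (P.cons (P.lf 82005972 0 0) (P.cons (P.lf 23410851 0 0) (P.cons (P.lf 0 1751094 0) (P.cons (P.lf 0 117996 0) (P.lf 5898 0 0))))) (P.cons (P.cons (P.lf 0 3444297 0) (P.cons (P.lf 0 983268 0) (P.cons (P.lf 73545 0 0) (P.cons (P.lf 4953 0 0) P.nil)))) (P.cons (P.cons (P.lf 0 256845 0) (P.cons (P.lf 0 73323 0) (P.cons (P.lf 5484 0 0) P.nil))) (P.cons (P.cons (P.lf 2202 0 0) (P.cons (P.lf 627 0 0) P.nil)) (P.cons (P.cons (P.lf 411 0 0) P.nil) P.nil)))))) 1047)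
 EL.nil)))
noncomputable def S198_212_290_364_22 : EL := (EL.cons 4 (TM.mk (P.cons (P.cons (P.lf 0 938432052 0) (P.cons (P.lf 205769838 0 0) (P.cons (P.lf 15508515 0 0) (P.cons (P.lf 0 4596525 0) (P.cons (P.lf 6453 0 0) (P.cons (P.lf 24294 0 0) P.nil)))))) (P.cons (P.cons (P.lf 258973326 0 0) (P.cons (P.lf 0 19858842 0) (P.cons (P.lf 0 2991789 0) (P.cons (P.lf 58566 0 0) (P.cons (P.lf 255 0 0) P.nil))))) (P.cons (P.cons (P.lf 44917677 0 0) (P.cons (P.lf 0 7424055 0) (P.cons (P.lf 0 727461 0) (P.cons (P.lf 122586 0 0) P.nil)))) (P.cons (P.cons (P.lf 0 4059660 0) (P.cons (P.lf 0 9723 0) (P.cons (P.lf 17322 0 0) P.nil))) (P.cons (P.cons (P.lf 0 502023 0) (P.cons (P.lf 68088 0 0) P.nil)) (P.cons (P.cons (P.lf 23142 0 0) P.nil) P.nil)))))) 46038)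
 (EL.cons 8 (TM.mk (P.cons (P.cons (P.lf 262282911 0 0) (P.cons (P.lf 0 57510732 0) (P.cons (P.lf 0 4334487 0) (P.cons (P.lf 1284687 0 0) (P.cons (P.lf 0 1803 0) (P.cons (P.lf 0 6789 0) P.nil)))))) (P.cons (P.cons (P.lf 0 112138557 0) (P.cons (P.lf 14268078 0 0) (P.cons (P.lf 1493214 0 0) (P.cons (P.lf 0 211104 0) (P.cons (P.lf 201 0 0) P.nil))))) (P.cons (P.cons (P.lf 0 754683 0) (P.cons (P.lf 1052133 0 0) (P.cons (P.lf 62892 0 0) (P.cons (P.lf 0 27729 0) P.nil)))) (P.cons (P.cons (P.lf 2758278 0 0) (P.cons (P.lf 0 283119 0) (P.cons (P.lf 0 32178 0) P.nil))) (P.cons (P.cons (P.lf 0 55686 0) (P.cons (P.lf 0 14310 0) P.nil)) (P.cons (P.cons (P.lf 0 22209 0) P.nil) P.nil)))))) 22380)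
 (EL.cons 11 (TM.mk (P.cons (P.cons (P.lf 798862761 0 0) (P.cons (P.lf 154543659 0 0) (P.cons (P.lf 0 47511216 0) (P.cons (P.lf 0 1651083 0) (P.cons (P.lf 545553 0 0) (P.cons (P.lf 0 5142 0) P.nil)))))) (P.cons (P.cons (P.lf 90947253 0 0) (P.cons (P.lf 15927255 0 0) (P.cons (P.lf 0 6099468 0) (P.cons (P.lf 0 199341 0) (P.cons (P.lf 73173 0 0) P.nil))))) (P.cons (P.cons (P.lf 0 7518414 0) (P.cons (P.lf 0 2135856 0) (P.cons (P.lf 164880 0 0) (P.cons (P.lf 10887 0 0) P.nil)))) (P.cons (P.cons (P.lf 0 880782 0) (P.cons (P.lf 0 189222 0) (P.cons (P.lf 44580 0 0) P.nil))) (P.cons (P.cons (P.lf 25131 0 0) (P.cons (P.lf 9249 0 0) P.nil)) (P.cons (P.cons (P.lf 4143 0 0) P.nil) P.nil)))))) 23202)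
 EL.nil)))
noncomputable def S198_212_290_364_23 : EL := (EL.cons 4 (TM.mk (P.cons (P.cons (P.lf 669653079 0 0) (P.cons (P.lf 0 85211352 0) (P.cons (P.lf 0 10972755 0) (P.lf 731511 0 0)))) (P.cons (P.cons (P.lf 0 307693266 0) (P.cons (P.lf 14200284 0 0) (P.cons (P.lf 1828584 0 0) (P.lf 0 121902 0)))) (P.cons (P.cons (P.lf 14397921 0 0) (P.cons (P.lf 1043205 0 0) (P.cons (P.lf 134331 0 0) (P.lf 0 8952 0)))) (P.cons (P.cons (P.lf 3511203 0 0) (P.cons (P.lf 0 157656 0) (P.cons (P.lf 0 20301 0) P.nil))) (P.cons (P.cons (P.lf 0 83034 0) (P.cons (P.lf 0 10320 0) P.nil)) (P.cons (P.cons (P.lf 0 18549 0) P.nil) P.nil)))))) 6777)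
 (EL.cons 8 (TM.mk (P.cons (P.cons (P.lf 0 187161720 0) (P.cons (P.lf 23815770 0 0) (P.cons (P.lf 3066783 0 0) (P.lf 0 204453 0)))) (P.cons (P.cons (P.lf 114368133 0 0) (P.cons (P.lf 0 7578939 0) (P.cons (P.lf 0 975945 0) (P.lf 65061 0 0)))) (P.cons (P.cons (P.lf 0 17650509 0) (P.cons (P.lf 385194 0 0) (P.cons (P.lf 49599 0 0) (P.lf 0 3303 0)))) (P.cons (P.cons (P.lf 0 63633 0) (P.cons (P.lf 71106 0 0) (P.cons (P.lf 9156 0 0) P.nil))) (P.cons (P.cons (P.lf 141453 0 0) (P.cons (P.lf 0 3804 0) P.nil)) (P.cons (P.cons (P.lf 0 93 0) P.nil) P.nil)))))) 4329)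
 (EL.cons 11 (TM.mk (P.cons (P.cons (P.lf 0 570058221 0) (P.cons (P.lf 0 162738738 0) (P.cons (P.lf 12172593 0 0) (P.cons (P.lf 820254 0 0) (P.lf 0 41010 0))))) (P.cons (P.cons (P.lf 39717003 0 0) (P.cons (P.lf 11338305 0 0) (P.cons (P.lf 0 848085 0) (P.cons (P.lf 0 57147 0) (P.lf 2856 0 0))))) (P.cons (P.cons (P.lf 6603117 0 0) (P.cons (P.lf 1885038 0 0) (P.cons (P.lf 0 140997 0) (P.cons (P.lf 0 9498 0) P.nil)))) (P.cons (P.cons (P.lf 0 31647 0) (P.cons (P.lf 0 9033 0) (P.cons (P.lf 675 0 0) P.nil))) (P.cons (P.cons (P.lf 0 20505 0) (P.cons (P.lf 0 5853 0) P.nil)) (P.cons (P.cons (P.lf 0 279 0) P.nil) P.nil)))))) 1974)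
 EL.nil)))
noncomputable def S198_212_290_364_24 : EL := (EL.cons 4 (TM.mk (P.cons (P.cons (P.lf 356233716 0 0) (P.cons (P.lf 0 78111306 0) (P.cons (P.lf 0 5887113 0) (P.cons (P.lf 1744863 0 0) (P.cons (P.lf 0 2448 0) (P.cons (P.lf 0 9222 0) P.nil)))))) (P.cons (P.cons (P.lf 0 142580394 0) (P.cons (P.lf 17246202 0 0) (P.cons (P.lf 1867350 0 0) (P.cons (P.lf 0 239082 0) (P.cons (P.lf 207 0 0) P.nil))))) (P.cons (P.cons (P.lf 0 5724930 0) (P.cons (P.lf 2076828 0 0) (P.cons (P.lf 149736 0 0) (P.cons (P.lf 0 48138 0) P.nil)))) (P.cons (P.cons (P.lf 3934074 0 0) (P.cons (P.lf 0 371532 0) (P.cons (P.lf 0 44196 0) P.nil))) (P.cons (P.cons (P.lf 35190 0 0) (P.cons (P.lf 0 33021 0) P.nil)) (P.cons (P.cons (P.lf 0 37986 0) P.nil) P.nil)))))) 28302)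
 (EL.cons 8 (TM.mk (P.cons (P.cons (P.lf 0 99563964 0) (P.cons (P.lf 21831375 0 0) (P.cons (P.lf 1645392 0 0) (P.cons (P.lf 0 487674 0) (P.cons (P.lf 684 0 0) (P.cons (P.lf 2577 0 0) P.nil)))))) (P.cons (P.cons (P.lf 54942204 0 0) (P.cons (P.lf 0 8129442 0) (P.cons (P.lf 0 771321 0) (P.cons (P.lf 140742 0 0) (P.cons (P.lf 0 159 0) P.nil))))) (P.cons (P.cons (P.lf 0 4754718 0) (P.cons (P.lf 219090 0 0) (P.cons (P.lf 42453 0 0) (P.cons (P.lf 1785 0 0) P.nil)))) (P.cons (P.cons (P.lf 0 1196991 0) (P.cons (P.lf 172374 0 0) (P.cons (P.lf 16728 0 0) P.nil))) (P.cons (P.cons (P.lf 153555 0 0) (P.cons (P.lf 0 7275 0) P.nil)) (P.cons (P.cons (P.lf 8586 0 0) P.nil) P.nil)))))) 13197)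
 (EL.cons 11 (TM.mk (P.cons (P.cons (P.lf 0 303252483 0) (P.cons (P.lf 0 58665579 0) (P.cons (P.lf 18035505 0 0) (P.cons (P.lf 626760 0 0) (P.cons (P.lf 0 207093 0) (P.cons (P.lf 1950 0 0) P.nil)))))) (P.cons (P.cons (P.lf 3164199 0 0) (P.cons (P.lf 1244892 0 0) (P.cons (P.lf 73935 0 0) (P.cons (P.lf 0 2220 0) (P.cons (P.lf 0 2037 0) P.nil))))) (P.cons (P.cons (P.lf 7903704 0 0) (P.cons (P.lf 1709025 0 0) (P.cons (P.lf 0 395487 0) (P.cons (P.lf 0 15105 0) P.nil)))) (P.cons (P.cons (P.lf 42351 0 0) (P.cons (P.lf 0 18387 0) (P.cons (P.lf 0 13527 0) P.nil))) (P.cons (P.cons (P.lf 0 61917 0) (P.cons (P.lf 0 15129 0) P.nil)) (P.cons (P.cons (P.lf 0 1104 0) P.nil) P.nil)))))) 15657)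
 EL.nil)))
noncomputable def S198_212_290_364_25 : EL := (EL.cons 4 (TM.mk (P.cons (P.cons (P.lf 0 254203812 0) (P.cons (P.lf 32346675 0 0) (P.cons (P.lf 4165314 0 0) (P.lf 0 277686 0)))) (P.cons (P.cons (P.lf 148394451 0 0) (P.cons (P.lf 0 9410550 0) (P.cons (P.lf 0 1211805 0) (P.lf 80784 0 0)))) (P.cons (P.cons (P.lf 0 19345431 0) (P.cons (P.lf 192963 0 0) (P.cons (P.lf 24846 0 0) (P.lf 0 1656 0)))) (P.cons (P.cons (P.lf 0 965838 0) (P.cons (P.lf 125082 0 0) (P.cons (P.lf 16107 0 0) P.nil))) (P.cons (P.cons (P.lf 219156 0 0) (P.cons (P.lf 0 2844 0) P.nil)) (P.cons (P.cons (P.lf 6417 0 0) P.nil) P.nil)))))) 6042)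
 (EL.cons 8 (TM.mk (P.cons (P.cons (P.lf 71047566 0 0) (P.cons (P.lf 0 9040590 0) (P.cons (P.lf 0 1164165 0) (P.lf 77610 0 0)))) (P.cons (P.cons (P.lf 0 52244541 0) (P.cons (P.lf 4000569 0 0) (P.cons (P.lf 515157 0 0) (P.lf 0 34341 0)))) (P.cons (P.cons (P.lf 11917986 0 0) (P.cons (P.lf 0 481149 0) (P.cons (P.lf 0 61956 0) (P.lf 4128 0 0)))) (P.cons (P.cons (P.lf 0 694329 0) (P.cons (P.lf 0 16728 0) (P.cons (P.lf 0 2154 0) P.nil))) (P.cons (P.cons (P.lf 0 76632 0) (P.cons (P.lf 5358 0 0) P.nil)) (P.cons (P.cons (P.lf 7029 0 0) P.nil) P.nil)))))) 3273)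
 (EL.cons 11 (TM.mk (P.cons (P.cons (P.lf 216397083 0 0) (P.cons (P.lf 61776477 0 0) (P.cons (P.lf 0 4620780 0) (P.cons (P.lf 0 311373 0) (P.lf 15567 0 0))))) (P.cons (P.cons (P.lf 0 41970636 0) (P.cons (P.lf 0 11981667 0) (P.cons (P.lf 896208 0 0) (P.cons (P.lf 60390 0 0) (P.lf 0 3018 0))))) (P.cons (P.cons (P.lf 0 1174461 0) (P.cons (P.lf 0 335280 0) (P.cons (P.lf 25077 0 0) (P.cons (P.lf 1689 0 0) P.nil)))) (P.cons (P.cons (P.lf 378186 0 0) (P.cons (P.lf 107961 0 0) (P.cons (P.lf 0 8073 0) P.nil))) (P.cons (P.cons (P.lf 12087 0 0) (P.cons (P.lf 3450 0 0) P.nil)) (P.cons (P.cons (P.lf 0 1140 0) P.nil) P.nil)))))) 2283)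
 EL.nil)))
noncomputable def S198_212_290_364_26 : EL := (EL.cons 4 (TM.mk (P.cons (P.cons (P.lf 0 135228180 0) (P.cons (P.lf 29651460 0 0) (P.cons (P.lf 2234778 0 0) (P.cons (P.lf 0 662358 0) (P.cons (P.lf 930 0 0) (P.cons (P.lf 3498 0 0) P.nil)))))) (P.cons (P.cons (P.lf 70930437 0 0) (P.cons (P.lf 0 10231833 0) (P.cons (P.lf 0 986592 0) (P.cons (P.lf 173073 0 0) (P.cons (P.lf 0 192 0) P.nil))))) (P.cons (P.cons (P.lf 0 4214886 0) (P.cons (P.lf 0 48960 0) (P.cons (P.lf 25659 0 0) (P.cons (P.lf 8649 0 0) P.nil)))) (P.cons (P.cons (P.lf 0 1909524 0) (P.cons (P.lf 257718 0 0) (P.cons (P.lf 25788 0 0) P.nil))) (P.cons (P.cons (P.lf 170592 0 0) (P.cons (P.lf 0 3432 0) P.nil)) (P.cons (P.cons (P.lf 20166 0 0) P.nil) P.nil)))))) 19593)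
 (EL.cons 8 (TM.mk (P.cons (P.cons (P.lf 37795002 0 0) (P.cons (P.lf 0 8287302 0) (P.cons (P.lf 0 624600 0) (P.cons (P.lf 185121 0 0) (P.cons (P.lf 0 258 0) (P.cons (P.lf 0 978 0) P.nil)))))) (P.cons (P.cons (P.lf 0 25553514 0) (P.cons (P.lf 4115925 0 0) (P.cons (P.lf 370422 0 0) (P.cons (P.lf 0 76434 0) (P.cons (P.lf 93 0 0) P.nil))))) (P.cons (P.cons (P.lf 4302345 0 0) (P.cons (P.lf 0 445950 0) (P.cons (P.lf 0 50940 0) (P.cons (P.lf 5496 0 0) P.nil)))) (P.cons (P.cons (P.lf 285225 0 0) (P.cons (P.lf 0 63468 0) (P.cons (P.lf 0 5127 0) P.nil))) (P.cons (P.cons (P.lf 0 120786 0) (P.cons (P.lf 11316 0 0) P.nil)) (P.cons (P.cons (P.lf 2919 0 0) P.nil) P.nil)))))) 8718)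
 (EL.cons 11 (TM.mk (P.cons (P.cons (P.lf 115116228 0 0) (P.cons (P.lf 22269759 0 0) (P.cons (P.lf 0 6846372 0) (P.cons (P.lf 0 237921 0) (P.cons (P.lf 78612 0 0) (P.cons (P.lf 0 741 0) P.nil)))))) (P.cons (P.cons (P.lf 0 15507804 0) (P.cons (P.lf 0 3240255 0) (P.cons (P.lf 822801 0 0) (P.cons (P.lf 30411 0 0) (P.cons (P.lf 0 8994 0) P.nil))))) (P.cons (P.cons (P.lf 0 3139137 0) (P.cons (P.lf 0 645762 0) (P.cons (P.lf 170751 0 0) (P.cons (P.lf 6225 0 0) P.nil)))) (P.cons (P.cons (P.lf 368805 0 0) (P.cons (P.lf 90531 0 0) (P.cons (P.lf 0 13986 0) P.nil))) (P.cons (P.cons (P.lf 33291 0 0) (P.cons (P.lf 6534 0 0) P.nil)) (P.cons (P.cons (P.lf 0 2700 0) P.nil) P.nil)))))) 11142)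
 EL.nil)))
noncomputable def S198_212_290_364_27 : EL := (EL.cons 13 (TM.mk (P.lf 0 4294967296 0) 0)
 EL.nil)
noncomputable def S198_212_290_364_28 : EL := (EL.cons 13 (TM.mk (P.cons (P.cons (P.lf 0 2284783288 0) (P.cons (P.lf 210252204 0 0) (P.cons (P.lf 27074408 0 0) (P.lf 0 1804956 0)))) (P.cons (P.cons (P.lf 0 135345148 0) (P.cons (P.lf 17222264 0 0) (P.cons (P.lf 2217728 0 0) (P.lf 0 147848 0)))) (P.cons (P.cons (P.lf 23653644 0 0) (P.cons (P.lf 0 488224 0) (P.cons (P.lf 0 62868 0) (P.lf 4188 0 0)))) (P.cons (P.cons (P.lf 526192 0 0) (P.cons (P.lf 0 75828 0) (P.cons (P.lf 0 9764 0) P.nil))) (P.cons (P.cons (P.lf 0 66158 0) (P.cons (P.lf 0 280 0) P.nil)) (P.cons (P.cons (P.lf 0 2166 0) P.nil) P.nil)))))) 1819)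
 EL.nil)
noncomputable def S198_212_290_364_29 : EL := (EL.cons 13 (TM.mk (P.cons (P.cons (P.lf 0 1215430598 0) (P.cons (P.lf 223694705 0 0) (P.cons (P.lf 18512904 0 0) (P.cons (P.lf 0 4571111 0) (P.cons (P.lf 6046 0 0) (P.cons (P.lf 22755 0 0) P.nil)))))) (P.cons (P.cons (P.lf 0 143998457 0) (P.cons (P.lf 31574515 0 0) (P.cons (P.lf 2379714 0 0) (P.cons (P.lf 0 705317 0) (P.cons (P.lf 990 0 0) P.nil))))) (P.cons (P.cons (P.lf 20900879 0 0) (P.cons (P.lf 0 1749846 0) (P.cons (P.lf 0 246587 0) (P.cons (P.lf 9543 0 0) P.nil)))) (P.cons (P.cons (P.lf 2050604 0 0) (P.cons (P.lf 0 352660 0) (P.cons (P.lf 0 34072 0) P.nil))) (P.cons (P.cons (P.lf 0 167492 0) (P.cons (P.lf 2557 0 0) P.nil)) (P.cons (P.cons (P.lf 0 12269 0) P.nil) P.nil)))))) 23435)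
 EL.nil)
noncomputable def S198_212_290_364_30 : EL := (EL.cons 13 (TM.mk (P.cons (P.lf 1630392056 0 0) (P.cons (P.lf 0 202625308 0) (P.cons (P.lf 0 4080764 0) (P.cons (P.lf 127476 0 0) (P.cons (P.lf 5284 0 0) (P.cons (P.lf 0 44 0) P.nil)))))) 48)
 EL.nil)
noncomputable def S198_212_290_364_31 : EL := (EL.cons 13 (TM.mk (P.cons (P.cons (P.lf 867315689 0 0) (P.cons (P.lf 0 79812836 0) (P.cons (P.lf 0 10277586 0) (P.lf 685170 0 0)))) (P.cons (P.cons (P.lf 0 56412365 0) (P.cons (P.lf 3381486 0 0) (P.cons (P.lf 435438 0 0) (P.lf 0 29029 0)))) (P.cons (P.cons (P.lf 0 17535110 0) (P.cons (P.lf 1197599 0 0) (P.cons (P.lf 154215 0 0) (P.lf 0 10279 0)))) (P.cons (P.cons (P.lf 855389 0 0) (P.cons (P.lf 15874 0 0) (P.cons (P.lf 2044 0 0) P.nil))) (P.cons (P.cons (P.lf 79240 0 0) (P.cons (P.lf 0 4704 0) P.nil)) (P.cons (P.cons (P.lf 0 2357 0) P.nil) P.nil)))))) 2206)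
 EL.nil)
noncomputable def S198_212_290_364_32 : EL := (EL.cons 13 (TM.mk (P.cons (P.cons (P.lf 461383813 0 0) (P.cons (P.lf 0 84915680 0) (P.cons (P.lf 0 7027595 0) (P.cons (P.lf 1735217 0 0) (P.cons (P.lf 0 2295 0) (P.cons (P.lf 0 8637 0) P.nil)))))) (P.cons (P.cons (P.lf 0 2678264 0) (P.cons (P.lf 0 1432520 0) (P.cons (P.lf 0 29961 0) (P.cons (P.lf 52088 0 0) (P.cons (P.lf 0 90 0) P.nil))))) (P.cons (P.cons (P.lf 0 15882366 0) (P.cons (P.lf 2366391 0 0) (P.cons (P.lf 223463 0 0) (P.cons (P.lf 0 41240 0) P.nil)))) (P.cons (P.cons (P.lf 106886 0 0) (P.cons (P.lf 74678 0 0) (P.cons (P.lf 3012 0 0) P.nil))) (P.cons (P.cons (P.lf 185950 0 0) (P.cons (P.lf 0 20483 0) P.nil)) (P.cons (P.cons (P.lf 0 1751 0) P.nil) P.nil)))))) 15897)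
 EL.nil)
noncomputable def S198_212_290_364_33 : EL := (EL.cons 14 (TM.mk (P.lf 8589934592 0 0) 0)
 EL.nil)
noncomputable def S198_212_290_364_34 : EL := (EL.cons 14 (TM.mk (P.cons (P.cons (P.lf 4569566576 0 0) (P.cons (P.lf 0 420504408 0) (P.cons (P.lf 0 54148816 0) (P.lf 3609912 0 0)))) (P.cons (P.cons (P.lf 270690296 0 0) (P.cons (P.lf 0 34444528 0) (P.cons (P.lf 0 4435456 0) (P.lf 295696 0 0)))) (P.cons (P.cons (P.lf 0 47307288 0) (P.cons (P.lf 976448 0 0) (P.cons (P.lf 125736 0 0) (P.lf 0 8376 0)))) (P.cons (P.cons (P.lf 0 1052384 0) (P.cons (P.lf 151656 0 0) (P.cons (P.lf 19528 0 0) P.nil))) (P.cons (P.cons (P.lf 132316 0 0) (P.cons (P.lf 560 0 0) P.nil)) (P.cons (P.cons (P.lf 4332 0 0) P.nil) P.nil)))))) 3638)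
 EL.nil)
noncomputable def S198_212_290_364_35 : EL := (EL.cons 14 (TM.mk (P.cons (P.cons (P.lf 2430861196 0 0) (P.cons (P.lf 0 447389410 0) (P.cons (P.lf 0 37025808 0) (P.cons (P.lf 9142222 0 0) (P.cons (P.lf 0 12092 0) (P.cons (P.lf 0 45510 0) P.nil)))))) (P.cons (P.cons (P.lf 287996914 0 0) (P.cons (P.lf 0 63149030 0) (P.cons (P.lf 0 4759428 0) (P.cons (P.lf 1410634 0 0) (P.cons (P.lf 0 1980 0) P.nil))))) (P.cons (P.cons (P.lf 0 41801758 0) (P.cons (P.lf 3499692 0 0) (P.cons (P.lf 493174 0 0) (P.cons (P.lf 0 19086 0) P.nil)))) (P.cons (P.cons (P.lf 0 4101208 0) (P.cons (P.lf 705320 0 0) (P.cons (P.lf 68144 0 0) P.nil))) (P.cons (P.cons (P.lf 334984 0 0) (P.cons (P.lf 0 5114 0) P.nil)) (P.cons (P.cons (P.lf 24538 0 0) P.nil) P.nil)))))) 46870)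
 EL.nil)
noncomputable def S198_212_290_364_36 : EL := (EL.cons 14 (TM.mk (P.cons (P.lf 0 3260784112 0) (P.cons (P.lf 405250616 0 0) (P.cons (P.lf 8161528 0 0) (P.cons (P.lf 0 254952 0) (P.cons (P.lf 0 10568 0) (P.cons (P.lf 88 0 0) P.nil)))))) 96)
 EL.nil)
noncomputable def S198_212_290_364_37 : EL := (EL.cons 14 (TM.mk (P.cons (P.cons (P.lf 0 1734631378 0) (P.cons (P.lf 159625672 0 0) (P.cons (P.lf 20555172 0 0) (P.lf 0 1370340 0)))) (P.cons (P.cons (P.lf 112824730 0 0) (P.cons (P.lf 0 6762972 0) (P.cons (P.lf 0 870876 0) (P.lf 58058 0 0)))) (P.cons (P.cons (P.lf 35070220 0 0) (P.cons (P.lf 0 2395198 0) (P.cons (P.lf 0 308430 0) (P.lf 20558 0 0)))) (P.cons (P.cons (P.lf 0 1710778 0) (P.cons (P.lf 0 31748 0) (P.cons (P.lf 0 4088 0) P.nil))) (P.cons (P.cons (P.lf 0 158480 0) (P.cons (P.lf 9408 0 0) P.nil)) (P.cons (P.cons (P.lf 4714 0 0) P.nil) P.nil)))))) 4412)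
 EL.nil)
noncomputable def S198_212_290_364_38 : EL := (EL.cons 14 (TM.mk (P.cons (P.cons (P.lf 0 922767626 0) (P.cons (P.lf 169831360 0 0) (P.cons (P.lf 14055190 0 0) (P.cons (P.lf 0 3470434 0) (P.cons (P.lf 4590 0 0) (P.cons (P.lf 17274 0 0) P.nil)))))) (P.cons (P.cons (P.lf 5356528 0 0) (P.cons (P.lf 2865040 0 0) (P.cons (P.lf 59922 0 0) (P.cons (P.lf 0 104176 0) (P.cons (P.lf 180 0 0) P.nil))))) (P.cons (P.cons (P.lf 31764732 0 0) (P.cons (P.lf 0 4732782 0) (P.cons (P.lf 0 446926 0) (P.cons (P.lf 82480 0 0) P.nil)))) (P.cons (P.cons (P.lf 0 213772 0) (P.cons (P.lf 0 149356 0) (P.cons (P.lf 0 6024 0) P.nil))) (P.cons (P.cons (P.lf 0 371900 0) (P.cons (P.lf 40966 0 0) P.nil)) (P.cons (P.cons (P.lf 3502 0 0) P.nil) P.nil)))))) 31794)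
 EL.nil)
noncomputable def S198_212_290_364_39 : EL := (EL.cons 14 (TM.mk (P.cons (P.lf 1237810708 0 0) (P.cons (P.lf 0 307670508 0) (P.cons (P.lf 12922344 0 0) (P.cons (P.lf 963640 0 0) (P.cons (P.lf 0 8278 0) (P.cons (P.lf 0 1548 0) P.nil)))))) 132)
 EL.nil)
noncomputable def S198_212_290_364_40 : EL := (EL.cons 14 (TM.mk (P.cons (P.cons (P.lf 658475146 0 0) (P.cons (P.lf 0 60594740 0) (P.cons (P.lf 0 7802850 0) (P.lf 520188 0 0)))) (P.cons (P.cons (P.lf 0 124664222 0) (P.cons (P.lf 10097980 0 0) (P.cons (P.lf 1300328 0 0) (P.lf 0 86688 0)))) (P.cons (P.cons (P.lf 0 9638184 0) (P.cons (P.lf 741834 0 0) (P.cons (P.lf 95526 0 0) (P.lf 0 6366 0)))) (P.cons (P.cons (P.lf 2462622 0 0) (P.cons (P.lf 0 112110 0) (P.cons (P.lf 0 14436 0) P.nil))) (P.cons (P.cons (P.lf 11556 0 0) (P.cons (P.lf 0 7340 0) P.nil)) (P.cons (P.cons (P.lf 0 12088 0) P.nil) P.nil)))))) 4572)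
 EL.nil)
noncomputable def S198_212_290_364_41 : EL := (EL.cons 14 (TM.mk (P.cons (P.cons (P.lf 350287418 0 0) (P.cons (P.lf 0 64468872 0) (P.cons (P.lf 0 5335422 0) (P.cons (P.lf 1317394 0 0) (P.cons (P.lf 0 1742 0) (P.cons (P.lf 0 6556 0) P.nil)))))) (P.cons (P.cons (P.lf 0 45567126 0) (P.cons (P.lf 6924614 0 0) (P.cons (P.lf 640338 0 0) (P.cons (P.lf 0 124178 0) (P.cons (P.lf 146 0 0) P.nil))))) (P.cons (P.cons (P.lf 0 12682098 0) (P.cons (P.lf 2093116 0 0) (P.cons (P.lf 185836 0 0) (P.cons (P.lf 0 39522 0) P.nil)))) (P.cons (P.cons (P.lf 1612202 0 0) (P.cons (P.lf 0 168900 0) (P.cons (P.lf 0 19158 0) P.nil))) (P.cons (P.cons (P.lf 162246 0 0) (P.cons (P.lf 0 27388 0) P.nil)) (P.cons (P.cons (P.lf 0 20036 0) P.nil) P.nil)))))) 22270)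
 EL.nil)
noncomputable def S198_212_290_364_42 : EL := (EL.cons 14 (TM.mk (P.cons (P.lf 0 469879420 0) (P.cons (P.lf 175190000 0 0) (P.cons (P.lf 0 18244400 0) (P.cons (P.lf 0 85224 0) (P.cons (P.lf 68490 0 0) (P.cons (P.lf 1120 0 0) P.nil)))))) 218)
 EL.nil)
noncomputable def S198_212_290_364_43 : EL := (EL.cons 14 (TM.mk (P.cons (P.cons (P.lf 0 249960610 0) (P.cons (P.lf 23002080 0 0) (P.cons (P.lf 2962002 0 0) (P.lf 0 197466 0)))) (P.cons (P.cons (P.lf 78388322 0 0) (P.cons (P.lf 0 6691946 0) (P.cons (P.lf 0 861728 0) (P.lf 57448 0 0)))) (P.cons (P.cons (P.lf 0 1596990 0) (P.cons (P.lf 137218 0 0) (P.cons (P.lf 17670 0 0) (P.lf 0 1178 0)))) (P.cons (P.cons (P.lf 0 1527518 0) (P.cons (P.lf 88948 0 0) (P.cons (P.lf 11452 0 0) P.nil))) (P.cons (P.cons (P.lf 105524 0 0) (P.cons (P.lf 0 2022 0) P.nil)) (P.cons (P.cons (P.lf 7920 0 0) P.nil) P.nil)))))) 4078)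
 EL.nil)
noncomputable def S198_212_290_364_44 : EL := (EL.cons 14 (TM.mk (P.cons (P.cons (P.lf 0 132970936 0) (P.cons (P.lf 24472720 0 0) (P.cons (P.lf 2025354 0 0) (P.cons (P.lf 0 500090 0) (P.cons (P.lf 660 0 0) (P.cons (P.lf 2488 0 0) P.nil)))))) (P.cons (P.cons (P.lf 33823162 0 0) (P.cons (P.lf 0 5670092 0) (P.cons (P.lf 0 494786 0) (P.cons (P.lf 109290 0 0) (P.cons (P.lf 0 138 0) P.nil))))) (P.cons (P.cons (P.lf 2997270 0 0) (P.cons (P.lf 0 529126 0) (P.cons (P.lf 0 45404 0) (P.cons (P.lf 10396 0 0) P.nil)))) (P.cons (P.cons (P.lf 0 1263998 0) (P.cons (P.lf 171356 0 0) (P.cons (P.lf 16806 0 0) P.nil))) (P.cons (P.cons (P.lf 3340 0 0) (P.cons (P.lf 4290 0 0) P.nil)) (P.cons (P.cons (P.lf 17228 0 0) P.nil) P.nil)))))) 15418)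
 EL.nil)
noncomputable def S198_212_290_364_45 : EL := (EL.cons 14 (TM.mk (P.cons (P.cons (P.lf 1293139306 0 0) (P.cons (P.lf 0 356994980 0) (P.cons (P.lf 0 13118950 0) (P.cons (P.lf 10517694 0 0) (P.cons (P.lf 0 408586 0) (P.cons (P.lf 0 96808 0) P.nil)))))) (P.cons (P.cons (P.lf 229807524 0 0) (P.cons (P.lf 0 71537390 0) (P.cons (P.lf 0 1883966 0) (P.cons (P.lf 2253760 0 0) (P.cons (P.lf 0 99966 0) P.nil))))) (P.cons (P.cons (P.lf 0 26549142 0) (P.cons (P.lf 3503464 0 0) (P.cons (P.lf 497706 0 0) (P.cons (P.lf 0 31342 0) P.nil)))) (P.cons (P.cons (P.lf 0 5382884 0) (P.cons (P.lf 1332124 0 0) (P.cons (P.lf 76080 0 0) P.nil))) (P.cons (P.cons (P.lf 281336 0 0) (P.cons (P.lf 1614 0 0) P.nil)) (P.cons (P.cons (P.lf 56978 0 0) P.nil) P.nil)))))) 139560)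
 EL.nil)
noncomputable def S198_212_290_364_46 : EL := (EL.cons 15 (TM.mk (P.lf 4294967296 0 0) 0)
 EL.nil)
noncomputable def S198_212_290_364_47 : EL := (EL.cons 15 (TM.mk (P.cons (P.cons (P.lf 2284783288 0 0) (P.cons (P.lf 0 210252204 0) (P.cons (P.lf 0 27074408 0) (P.lf 1804956 0 0)))) (P.cons (P.cons (P.lf 135345148 0 0) (P.cons (P.lf 0 17222264 0) (P.cons (P.lf 0 2217728 0) (P.lf 147848 0 0)))) (P.cons (P.cons (P.lf 0 23653644 0) (P.cons (P.lf 488224 0 0) (P.cons (P.lf 62868 0 0) (P.lf 0 4188 0)))) (P.cons (P.cons (P.lf 0 526192 0) (P.cons (P.lf 75828 0 0) (P.cons (P.lf 9764 0 0) P.nil))) (P.cons (P.cons (P.lf 66158 0 0) (P.cons (P.lf 280 0 0) P.nil)) (P.cons (P.cons (P.lf 2166 0 0) P.nil) P.nil)))))) 1819)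
 EL.nil)
noncomputable def S198_212_290_364_48 : EL := (EL.cons 15 (TM.mk (P.cons (P.cons (P.lf 1215430598 0 0) (P.cons (P.lf 0 223694705 0) (P.cons (P.lf 0 18512904 0) (P.cons (P.lf 4571111 0 0) (P.cons (P.lf 0 6046 0) (P.cons (P.lf 0 22755 0) P.nil)))))) (P.cons (P.cons (P.lf 143998457 0 0) (P.cons (P.lf 0 31574515 0) (P.cons (P.lf 0 2379714 0) (P.cons (P.lf 705317 0 0) (P.cons (P.lf 0 990 0) P.nil))))) (P.cons (P.cons (P.lf 0 20900879 0) (P.cons (P.lf 1749846 0 0) (P.cons (P.lf 246587 0 0) (P.cons (P.lf 0 9543 0) P.nil)))) (P.cons (P.cons (P.lf 0 2050604 0) (P.cons (P.lf 352660 0 0) (P.cons (P.lf 34072 0 0) P.nil))) (P.cons (P.cons (P.lf 167492 0 0) (P.cons (P.lf 0 2557 0) P.nil)) (P.cons (P.cons (P.lf 12269 0 0) P.nil) P.nil)))))) 23435)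
 EL.nil)
noncomputable def S198_212_290_364 : SL := (SL.cons S198_212_290_364_0 (SL.cons S198_212_290_364_1 (SL.cons S198_212_290_364_2 (SL.cons S198_212_290_364_3 (SL.cons S198_212_290_364_4 (SL.cons S198_212_290_364_5 (SL.cons S198_212_290_364_6 (SL.cons S198_212_290_364_7 (SL.cons S198_212_290_364_8 (SL.cons S198_212_290_364_9 (SL.cons S198_212_290_364_10 (SL.cons S198_212_290_364_11 (SL.cons S198_212_290_364_12 (SL.cons S198_212_290_364_13 (SL.cons S198_212_290_364_14 (SL.cons S198_212_290_364_15 (SL.cons S198_212_290_364_16 (SL.cons S198_212_290_364_17 (SL.cons S198_212_290_364_18 (SL.cons S198_212_290_364_19 (SL.cons S198_212_290_364_20 (SL.cons S198_212_290_364_21 (SL.cons S198_212_290_364_22 (SL.cons S198_212_290_364_23 (SL.cons S198_212_290_364_24 (SL.cons S198_212_290_364_25 (SL.cons S198_212_290_364_26 (SL.cons S198_212_290_364_27 (SL.cons S198_212_290_364_28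 (SL.cons S198_212_290_364_29 (SL.cons S198_212_290_364_30 (SL.cons S198_212_290_364_31 (SL.cons S198_212_290_364_32 (SL.cons S198_212_290_364_33 (SL.cons S198_212_290_364_34 (SL.cons S198_212_290_364_35 (SL.cons S198_212_290_364_36 (SL.cons S198_212_290_364_37 (SL.cons S198_212_290_364_38 (SL.cons S198_212_290_364_39 (SL.cons S198_212_290_364_40 (SL.cons S198_212_290_364_41 (SL.cons S198_212_290_364_42 (SL.cons S198_212_290_364_43 (SL.cons S198_212_290_364_44 (SL.cons S198_212_290_364_45 (SL.cons S198_212_290_364_46 (SL.cons S198_212_290_364_47 (SL.cons S198_212_290_364_48 SL.nil)))))))))))))))))))))))))))))))))))))))))))))))))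
noncomputable def S198_212_364_401_0 : EL := (EL.cons 0 (TM.mk (P.cons (P.lf 7367797296 0 0) (P.cons (P.lf 270413532 0 0) (P.cons (P.lf 0 11357528 0) (P.cons (P.lf 0 846949 0) (P.cons (P.lf 7275 0 0) (P.cons (P.lf 1360 0 0) P.nil)))))) 123)
 (EL.cons 1 (TM.mk (P.cons (P.lf 0 1384003233 0) (P.cons (P.lf 134215061 0 0) (P.cons (P.lf 10263551 0 0) (P.cons (P.lf 0 214061 0) (P.cons (P.lf 0 21358 0) (P.cons (P.lf 0 5 0) P.nil)))))) 123)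
 (EL.cons 5 (TM.mk (P.cons (P.lf 4681783146 0 0) (P.cons (P.lf 0 96147034 0) (P.cons (P.lf 4038232 0 0) (P.cons (P.lf 301136 0 0) (P.cons (P.lf 0 2584 0) (P.cons (P.lf 0 484 0) P.nil)))))) 121)
 (EL.cons 9 (TM.mk (P.lf 6442450944 0 0) 2)
 EL.nil))))
noncomputable def S198_212_364_401_1 : EL := (EL.cons 0 (TM.mk (P.cons (P.cons (P.lf 2310082727 0 0) (P.cons (P.lf 0 133438152 0) (P.cons (P.lf 0 4527399 0) (P.lf 215588 0 0)))) (P.cons (P.cons (P.lf 830744532 0 0) (P.cons (P.lf 0 46098984 0) (P.cons (P.lf 0 1564075 0) (P.lf 74475 0 0)))) (P.cons (P.cons (P.lf 0 67992820 0) (P.cons (P.lf 0 1093791 0) (P.cons (P.lf 0 37107 0) (P.lf 1766 0 0)))) (P.cons (P.cons (P.lf 0 8827016 0) (P.cons (P.lf 360926 0 0) (P.cons (P.lf 12240 0 0) P.nil))) (P.cons (P.cons (P.lf 322198 0 0) (P.cons (P.lf 17500 0 0) P.nil)) (P.cons (P.cons (P.lf 46753 0 0) P.nil) P.nil)))))) 8494)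
 (EL.cons 1 (TM.mk (P.cons (P.cons (P.lf 0 1100518042 0) (P.cons (P.lf 97668820 0 0) (P.cons (P.lf 3313784 0 0) (P.lf 0 157791 0)))) (P.cons (P.cons (P.lf 174487748 0 0) (P.cons (P.lf 3024567 0 0) (P.cons (P.lf 102617 0 0) (P.lf 0 4887 0)))) (P.cons (P.cons (P.lf 50573573 0 0) (P.cons (P.lf 0 2228975 0) (P.cons (P.lf 0 75617 0) (P.lf 3590 0 0)))) (P.cons (P.cons (P.lf 0 2282523 0) (P.cons (P.lf 0 110443 0) (P.cons (P.lf 0 3736 0) P.nil))) (P.cons (P.cons (P.lf 0 391133 0) (P.cons (P.lf 11249 0 0) P.nil)) (P.cons (P.cons (P.lf 6245 0 0) P.nil) P.nil)))))) 5051)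
 (EL.cons 5 (TM.mk (P.cons (P.cons (P.lf 2433422066 0 0) (P.cons (P.lf 0 189953482 0) (P.cons (P.lf 0 6444894 0) (P.lf 306896 0 0)))) (P.cons (P.cons (P.lf 0 116840396 0) (P.cons (P.lf 0 3055110 0) (P.cons (P.lf 0 103660 0) (P.lf 4944 0 0)))) (P.cons (P.cons (P.lf 0 14574584 0) (P.cons (P.lf 940164 0 0) (P.cons (P.lf 31896 0 0) (P.lf 0 1514 0)))) (P.cons (P.cons (P.lf 2470944 0 0) (P.cons (P.lf 0 42706 0) (P.cons (P.lf 0 1442 0) P.nil))) (P.cons (P.cons (P.lf 0 1235 0) (P.cons (P.lf 0 5898 0) P.nil)) (P.cons (P.cons (P.lf 0 13413 0) P.nil) P.nil)))))) 5251)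
 (EL.cons 9 (TM.mk (P.cons (P.cons (P.lf 2871868938 0 0) (P.cons (P.lf 0 209468964 0) (P.cons (P.lf 0 7107030 0) (P.lf 338424 0 0)))) (P.cons (P.cons (P.lf 157531266 0 0) (P.cons (P.lf 0 17158104 0) (P.cons (P.lf 0 582150 0) (P.lf 27720 0 0)))) (P.cons (P.cons (P.lf 0 34190994 0) (P.cons (P.lf 486402 0 0) (P.cons (P.lf 16500 0 0) (P.lf 0 780 0)))) (P.cons (P.cons (P.lf 0 589008 0) (P.cons (P.lf 75540 0 0) (P.cons (P.lf 2556 0 0) P.nil))) (P.cons (P.cons (P.lf 99981 0 0) (P.cons (P.lf 276 0 0) P.nil)) (P.cons (P.cons (P.lf 2817 0 0) P.nil) P.nil)))))) 1241)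
 (EL.cons 2 (TM.mk (P.cons (P.cons (P.lf 735203677 0 0) (P.cons (P.lf 56830263 0 0) (P.cons (P.lf 0 3588297 0) (P.cons (P.lf 0 67283 0) (P.lf 2401 0 0))))) (P.cons (P.cons (P.lf 0 51222988 0) (P.cons (P.lf 0 3959468 0) (P.cons (P.lf 250003 0 0) (P.cons (P.lf 4688 0 0) (P.lf 0 165 0))))) (P.cons (P.cons (P.lf 0 8516036 0) (P.cons (P.lf 0 658276 0) (P.cons (P.lf 41563 0 0) (P.cons (P.lf 776 0 0) P.nil)))) (P.cons (P.cons (P.lf 40815 0 0) (P.cons (P.lf 3152 0 0) (P.cons (P.lf 0 199 0) P.nil))) (P.cons (P.cons (P.lf 26445 0 0) (P.cons (P.lf 2041 0 0) P.nil)) (P.cons (P.cons (P.lf 360 0 0) P.nil) P.nil)))))) 535)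
 (EL.cons 6 (TM.mk (P.cons (P.cons (P.lf 935293653 0 0) (P.cons (P.lf 72296952 0 0) (P.cons (P.lf 0 4564872 0) (P.cons (P.lf 0 85596 0) (P.lf 3054 0 0))))) (P.cons (P.cons (P.lf 76612158 0 0) (P.cons (P.lf 5922015 0 0) (P.cons (P.lf 0 373917 0) (P.cons (P.lf 0 7008 0) (P.lf 249 0 0))))) (P.cons (P.cons (P.lf 0 2171838 0) (P.cons (P.lf 0 167877 0) (P.cons (P.lf 10599 0 0) (P.cons (P.lf 198 0 0) P.nil)))) (P.cons (P.cons (P.lf 0 337329 0) (P.cons (P.lf 0 26073 0) (P.cons (P.lf 1644 0 0) P.nil))) (P.cons (P.cons (P.lf 0 1251 0) (P.cons (P.lf 0 96 0) P.nil)) (P.cons (P.cons (P.lf 717 0 0) P.nil) P.nil)))))) 393)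
 EL.nil))))))
noncomputable def S198_212_364_401_2 : EL := (EL.cons 0 (TM.mk (P.cons (P.cons (P.lf 595464258 0 0) (P.cons (P.lf 0 55610946 0) (P.cons (P.lf 0 998503 0) (P.cons (P.lf 150127 0 0) (P.cons (P.lf 0 1858 0) (P.cons (P.lf 0 99 0) P.nil)))))) (P.cons (P.cons (P.lf 639265396 0 0) (P.cons (P.lf 0 76902969 0) (P.cons (P.lf 0 462618 0) (P.cons (P.lf 269901 0 0) (P.cons (P.lf 0 4462 0) P.nil))))) (P.cons (P.cons (P.lf 0 17693955 0) (P.cons (P.lf 0 2804224 0) (P.cons (P.lf 150471 0 0) (P.cons (P.lf 21192 0 0) P.nil)))) (P.cons (P.cons (P.lf 0 16388481 0) (P.cons (P.lf 1395583 0 0) (P.cons (P.lf 30454 0 0) P.nil))) (P.cons (P.cons (P.lf 282847 0 0) (P.cons (P.lf 76848 0 0) P.nil)) (P.cons (P.cons (P.lf 157797 0 0) P.nil) P.nil)))))) 45635)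
 (EL.cons 1 (TM.mk (P.cons (P.cons (P.lf 0 706141974 0) (P.cons (P.lf 118521465 0 0) (P.cons (P.lf 0 866784 0) (P.cons (P.lf 0 523176 0) (P.cons (P.lf 10164 0 0) (P.cons (P.lf 538 0 0) P.nil)))))) (P.cons (P.cons (P.lf 105245004 0 0) (P.cons (P.lf 392079 0 0) (P.cons (P.lf 0 605814 0) (P.cons (P.lf 0 42634 0) (P.cons (P.lf 1281 0 0) P.nil))))) (P.cons (P.cons (P.lf 54616617 0 0) (P.cons (P.lf 0 6040138 0) (P.cons (P.lf 0 92414 0) (P.cons (P.lf 17385 0 0) P.nil)))) (P.cons (P.cons (P.lf 0 1310980 0) (P.cons (P.lf 0 314307 0) (P.cons (P.lf 7688 0 0) P.nil))) (P.cons (P.cons (P.lf 0 914147 0) (P.cons (P.lf 68149 0 0) P.nil)) (P.cons (P.cons (P.lf 6857 0 0) P.nil) P.nil)))))) 25346)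
 (EL.cons 5 (TM.mk (P.cons (P.cons (P.lf 1239173676 0 0) (P.cons (P.lf 0 191878466 0) (P.cons (P.lf 892675 0 0) (P.cons (P.lf 812347 0 0) (P.cons (P.lf 0 15396 0) (P.cons (P.lf 0 807 0) P.nil)))))) (P.cons (P.cons (P.lf 0 68121892 0) (P.cons (P.lf 0 1603346 0) (P.cons (P.lf 446879 0 0) (P.cons (P.lf 36612 0 0) (P.cons (P.lf 0 1056 0) P.nil))))) (P.cons (P.cons (P.lf 0 23890469 0) (P.cons (P.lf 3057356 0 0) (P.cons (P.lf 32352 0 0) (P.cons (P.lf 0 9769 0) P.nil)))) (P.cons (P.cons (P.lf 3336838 0 0) (P.cons (P.lf 0 143098 0) (P.cons (P.lf 0 7344 0) P.nil))) (P.cons (P.cons (P.lf 173476 0 0) (P.cons (P.lf 0 32511 0) P.nil)) (P.cons (P.cons (P.lf 0 40608 0) P.nil) P.nil)))))) 24688)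
 (EL.cons 9 (TM.mk (P.cons (P.cons (P.lf 1280200852 0 0) (P.cons (P.lf 0 186751102 0) (P.cons (P.lf 474403 0 0) (P.cons (P.lf 763873 0 0) (P.cons (P.lf 0 14166 0) (P.cons (P.lf 0 745 0) P.nil)))))) (P.cons (P.cons (P.lf 140446284 0 0) (P.cons (P.lf 0 25541128 0) (P.cons (P.lf 249175 0 0) (P.cons (P.lf 116976 0 0) (P.cons (P.lf 0 2320 0) P.nil))))) (P.cons (P.cons (P.lf 0 26630859 0) (P.cons (P.lf 1817908 0 0) (P.cons (P.lf 75744 0 0) (P.cons (P.lf 0 1977 0) P.nil)))) (P.cons (P.cons (P.lf 0 2197207 0) (P.cons (P.lf 311556 0 0) (P.cons (P.lf 3060 0 0) P.nil))) (P.cons (P.cons (P.lf 241788 0 0) (P.cons (P.lf 0 4585 0) P.nil)) (P.cons (P.cons (P.lf 13651 0 0) P.nil) P.nil)))))) 6910)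
 (EL.cons 2 (TM.mk (P.cons (P.cons (P.lf 655467496 0 0) (P.cons (P.lf 2858141 0 0) (P.cons (P.lf 0 8516761 0) (P.cons (P.lf 125201 0 0) (P.cons (P.lf 20401 0 0) (P.cons (P.lf 0 382 0) P.nil)))))) (P.cons (P.cons (P.lf 0 9713115 0) (P.cons (P.lf 0 1336010 0) (P.cons (P.lf 0 17679 0) (P.cons (P.lf 3155 0 0) (P.cons (P.lf 185 0 0) P.nil))))) (P.cons (P.cons (P.lf 0 17901106 0) (P.cons (P.lf 0 446090 0) (P.cons (P.lf 191655 0 0) (P.cons (P.lf 0 1991 0) P.nil)))) (P.cons (P.cons (P.lf 29176 0 0) (P.cons (P.lf 54466 0 0) (P.cons (P.lf 5658 0 0) P.nil))) (P.cons (P.cons (P.lf 148151 0 0) (P.cons (P.lf 7087 0 0) P.nil)) (P.cons (P.cons (P.lf 1788 0 0) P.nil) P.nil)))))) 5337)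
 (EL.cons 6 (TM.mk (P.cons (P.cons (P.lf 833856804 0 0) (P.cons (P.lf 3635994 0 0) (P.cons (P.lf 0 10834644 0) (P.cons (P.lf 159276 0 0) (P.cons (P.lf 25950 0 0) (P.cons (P.lf 0 486 0) P.nil)))))) (P.cons (P.cons (P.lf 114042954 0 0) (P.cons (P.lf 0 1148454 0) (P.cons (P.lf 0 1664856 0) (P.cons (P.lf 28158 0 0) (P.cons (P.lf 4176 0 0) P.nil))))) (P.cons (P.cons (P.lf 0 8117106 0) (P.cons (P.lf 0 753060 0) (P.cons (P.lf 25638 0 0) (P.cons (P.lf 1224 0 0) P.nil)))) (P.cons (P.cons (P.lf 0 1391154 0) (P.cons (P.lf 0 40524 0) (P.cons (P.lf 14232 0 0) P.nil))) (P.cons (P.cons (P.lf 20454 0 0) (P.cons (P.lf 5004 0 0) P.nil)) (P.cons (P.cons (P.lf 7746 0 0) P.nil) P.nil)))))) 4236)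
 EL.nil))))))
noncomputable def S198_212_364_401_3 : EL := (EL.cons 0 (TM.mk (P.cons (P.lf 1087919567 0 0) (P.cons (P.lf 0 270413532 0) (P.cons (P.lf 11357528 0 0) (P.cons (P.lf 846949 0 0) (P.cons (P.lf 0 7275 0) (P.cons (P.lf 0 1360 0) P.nil)))))) 123)
 (EL.cons 1 (TM.mk (P.cons (P.lf 1384003233 0 0) (P.cons (P.lf 0 134215061 0) (P.cons (P.lf 0 10263551 0) (P.cons (P.lf 214061 0 0) (P.cons (P.lf 21358 0 0) (P.cons (P.lf 5 0 0) P.nil)))))) 123)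
 (EL.cons 5 (TM.mk (P.cons (P.lf 1760667798 0 0) (P.cons (P.lf 96147034 0 0) (P.cons (P.lf 0 4038232 0) (P.cons (P.lf 0 301136 0) (P.cons (P.lf 2584 0 0) (P.cons (P.lf 484 0 0) P.nil)))))) 114)
 EL.nil)))
noncomputable def S198_212_364_401_4 : EL := (EL.cons 0 (TM.mk (P.cons (P.cons (P.lf 484964873 0 0) (P.cons (P.lf 0 35372466 0) (P.cons (P.lf 0 1200144 0) (P.lf 57148 0 0)))) (P.cons (P.cons (P.lf 0 93941091 0) (P.cons (P.lf 5894743 0 0) (P.cons (P.lf 200002 0 0) (P.lf 0 9523 0)))) (P.cons (P.cons (P.lf 0 7323036 0) (P.cons (P.lf 433049 0 0) (P.cons (P.lf 14691 0 0) (P.lf 0 697 0)))) (P.cons (P.cons (P.lf 1990919 0 0) (P.cons (P.lf 0 65445 0) (P.cons (P.lf 0 2220 0) P.nil))) (P.cons (P.cons (P.lf 0 1202 0) (P.cons (P.lf 0 4285 0) P.nil)) (P.cons (P.cons (P.lf 0 10037 0) P.nil) P.nil)))))) 1490)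
 (EL.cons 1 (TM.mk (P.cons (P.cons (P.lf 616950896 0 0) (P.cons (P.lf 0 44999289 0) (P.cons (P.lf 0 1526771 0) (P.lf 72701 0 0)))) (P.cons (P.cons (P.lf 0 25987668 0) (P.cons (P.lf 677850 0 0) (P.cons (P.lf 22998 0 0) (P.lf 0 1093 0)))) (P.cons (P.cons (P.lf 0 15202145 0) (P.cons (P.lf 795650 0 0) (P.cons (P.lf 26992 0 0) (P.lf 0 1282 0)))) (P.cons (P.cons (P.lf 430220 0 0) (P.cons (P.lf 26467 0 0) (P.cons (P.lf 896 0 0) P.nil))) (P.cons (P.cons (P.lf 102973 0 0) (P.cons (P.lf 0 3553 0) P.nil)) (P.cons (P.cons (P.lf 0 1149 0) P.nil) P.nil)))))) 1217)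
 (EL.cons 5 (TM.mk (P.cons (P.cons (P.lf 784857688 0 0) (P.cons (P.lf 0 57246110 0) (P.cons (P.lf 0 1942290 0) (P.lf 92488 0 0)))) (P.cons (P.cons (P.lf 85911698 0 0) (P.cons (P.lf 0 7815276 0) (P.cons (P.lf 0 265160 0) (P.lf 12624 0 0)))) (P.cons (P.cons (P.lf 0 8793250 0) (P.cons (P.lf 8160 0 0) (P.cons (P.lf 276 0 0) (P.lf 0 10 0)))) (P.cons (P.cons (P.lf 0 904218 0) (P.cons (P.lf 48448 0 0) (P.cons (P.lf 1640 0 0) P.nil))) (P.cons (P.cons (P.lf 33752 0 0) (P.cons (P.lf 1614 0 0) P.nil)) (P.cons (P.cons (P.lf 4506 0 0) P.nil) P.nil)))))) 956)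
 EL.nil)))
noncomputable def S198_212_364_401_5 : EL := (EL.cons 0 (TM.mk (P.cons (P.cons (P.lf 216184115 0 0) (P.cons (P.lf 0 31536161 0) (P.cons (P.lf 80110 0 0) (P.cons (P.lf 128991 0 0) (P.cons (P.lf 0 2390 0) (P.cons (P.lf 0 124 0) P.nil)))))) (P.cons (P.cons (P.lf 0 30017981 0) (P.cons (P.lf 3525572 0 0) (P.cons (P.lf 22164 0 0) (P.cons (P.lf 0 12308 0) (P.cons (P.lf 202 0 0) P.nil))))) (P.cons (P.cons (P.lf 0 8135240 0) (P.cons (P.lf 1049813 0 0) (P.cons (P.lf 3167 0 0) (P.cons (P.lf 0 3897 0) P.nil)))) (P.cons (P.cons (P.lf 1162654 0 0) (P.cons (P.lf 0 93269 0) (P.cons (P.lf 0 2160 0) P.nil))) (P.cons (P.cons (P.lf 103123 0 0) (P.cons (P.lf 0 13791 0) P.nil)) (P.cons (P.cons (P.lf 0 15646 0) P.nil) P.nil)))))) 4959)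
 (EL.cons 1 (TM.mk (P.cons (P.cons (P.lf 275019883 0 0) (P.cons (P.lf 0 40118911 0) (P.cons (P.lf 101911 0 0) (P.cons (P.lf 164098 0 0) (P.cons (P.lf 0 3041 0) (P.cons (P.lf 0 159 0) P.nil)))))) (P.cons (P.cons (P.lf 3501131 0 0) (P.cons (P.lf 0 1596315 0) (P.cons (P.lf 43644 0 0) (P.cons (P.lf 9213 0 0) (P.cons (P.lf 0 202 0) P.nil))))) (P.cons (P.cons (P.lf 0 10686399 0) (P.cons (P.lf 1220143 0 0) (P.cons (P.lf 10323 0 0) (P.cons (P.lf 0 4078 0) P.nil)))) (P.cons (P.cons (P.lf 0 98426 0) (P.cons (P.lf 63541 0 0) (P.cons (P.lf 0 1301 0) P.nil))) (P.cons (P.cons (P.lf 149051 0 0) (P.cons (P.lf 0 11838 0) P.nil)) (P.cons (P.cons (P.lf 976 0 0) P.nil) P.nil)))))) 4028)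
 (EL.cons 5 (TM.mk (P.cons (P.cons (P.lf 349868152 0 0) (P.cons (P.lf 0 51037508 0) (P.cons (P.lf 129648 0 0) (P.cons (P.lf 208758 0 0) (P.cons (P.lf 0 3870 0) (P.cons (P.lf 0 202 0) P.nil)))))) (P.cons (P.cons (P.lf 57488488 0 0) (P.cons (P.lf 0 9767246 0) (P.cons (P.lf 75176 0 0) (P.cons (P.lf 43368 0 0) (P.cons (P.lf 0 844 0) P.nil))))) (P.cons (P.cons (P.lf 0 5984422 0) (P.cons (P.lf 232700 0 0) (P.cons (P.lf 24120 0 0) (P.cons (P.lf 724 0 0) P.nil)))) (P.cons (P.cons (P.lf 0 1145790 0) (P.cons (P.lf 137014 0 0) (P.cons (P.lf 1788 0 0) P.nil))) (P.cons (P.cons (P.lf 43928 0 0) (P.cons (P.lf 3374 0 0) P.nil)) (P.cons (P.cons (P.lf 10112 0 0) P.nil) P.nil)))))) 3438)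
 EL.nil)))
noncomputable def S198_212_364_401_6 : EL := (EL.cons 12 (TM.mk (P.lf 8589934592 0 0) 0)
 (EL.cons 3 (TM.mk (P.cons (P.lf 0 1528492552 0) (P.cons (P.lf 189961226 0 0) (P.cons (P.lf 3825716 0 0) (P.cons (P.lf 0 119508 0) (P.cons (P.lf 0 4953 0) (P.cons (P.lf 41 0 0) P.nil)))))) 52)
 (EL.cons 7 (TM.mk (P.cons (P.lf 0 1944480730 0) (P.cons (P.lf 0 53092371 0) (P.cons (P.lf 2954732 0 0) (P.cons (P.lf 85611 0 0) (P.cons (P.lf 0 1520 0) (P.cons (P.lf 0 96 0) P.nil)))))) 47)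
 EL.nil)))
noncomputable def S198_212_364_401_7 : EL := (EL.cons 12 (TM.mk (P.cons (P.cons (P.lf 3829158584 0 0) (P.cons (P.lf 0 279291952 0) (P.cons (P.lf 0 9476040 0) (P.lf 451232 0 0)))) (P.cons (P.cons (P.lf 210041688 0 0) (P.cons (P.lf 0 22877472 0) (P.cons (P.lf 0 776200 0) (P.lf 36960 0 0)))) (P.cons (P.cons (P.lf 0 45587992 0) (P.cons (P.lf 648536 0 0) (P.cons (P.lf 22000 0 0) (P.lf 0 1040 0)))) (P.cons (P.cons (P.lf 0 785344 0) (P.cons (P.lf 100720 0 0) (P.cons (P.lf 3408 0 0) P.nil))) (P.cons (P.cons (P.lf 133308 0 0) (P.cons (P.lf 368 0 0) P.nil)) (P.cons (P.cons (P.lf 3756 0 0) P.nil) P.nil)))))) 1630)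
 (EL.cons 3 (TM.mk (P.cons (P.cons (P.lf 687472799 0 0) (P.cons (P.lf 0 99394392 0) (P.cons (P.lf 0 3372330 0) (P.lf 160584 0 0)))) (P.cons (P.cons (P.lf 0 527271103 0) (P.cons (P.lf 4211112 0 0) (P.cons (P.lf 142878 0 0) (P.lf 0 6802 0)))) (P.cons (P.cons (P.lf 0 10752494 0) (P.cons (P.lf 1491420 0 0) (P.cons (P.lf 50598 0 0) (P.lf 0 2404 0)))) (P.cons (P.cons (P.lf 3011381 0 0) (P.cons (P.lf 19766 0 0) (P.cons (P.lf 666 0 0) P.nil))) (P.cons (P.cons (P.lf 121404 0 0) (P.cons (P.lf 0 5858 0) P.nil)) (P.cons (P.cons (P.lf 0 7098 0) P.nil) P.nil)))))) 3489)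
 (EL.cons 7 (TM.mk (P.cons (P.cons (P.lf 0 1249372432 0) (P.cons (P.lf 104892273 0 0) (P.cons (P.lf 3558870 0 0) (P.lf 0 169473 0)))) (P.cons (P.cons (P.lf 147367297 0 0) (P.cons (P.lf 0 1176963 0) (P.cons (P.lf 0 39931 0) (P.lf 1901 0 0)))) (P.cons (P.cons (P.lf 0 8164055 0) (P.cons (P.lf 0 327637 0) (P.cons (P.lf 0 11116 0) (P.lf 531 0 0)))) (P.cons (P.cons (P.lf 0 990343 0) (P.cons (P.lf 35358 0 0) (P.cons (P.lf 1195 0 0) P.nil))) (P.cons (P.cons (P.lf 59335 0 0) (P.cons (P.lf 1661 0 0) P.nil)) (P.cons (P.cons (P.lf 4437 0 0) P.nil) P.nil)))))) 3033)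
 (EL.cons 10 (TM.mk (P.cons (P.cons (P.lf 0 2065875786 0) (P.cons (P.lf 0 159689445 0) (P.cons (P.lf 10082889 0 0) (P.cons (P.lf 189069 0 0) (P.lf 0 6750 0))))) (P.cons (P.cons (P.lf 0 112813914 0) (P.cons (P.lf 0 8720364 0) (P.cons (P.lf 550608 0 0) (P.cons (P.lf 10323 0 0) (P.lf 0 366 0))))) (P.cons (P.cons (P.lf 4738248 0 0) (P.cons (P.lf 366258 0 0) (P.cons (P.lf 0 23124 0) (P.cons (P.lf 0 432 0) P.nil)))) (P.cons (P.cons (P.lf 353337 0 0) (P.cons (P.lf 27312 0 0) (P.cons (P.lf 0 1722 0) P.nil))) (P.cons (P.cons (P.lf 0 3030 0) (P.cons (P.lf 0 234 0) P.nil)) (P.cons (P.cons (P.lf 0 567 0) P.nil) P.nil)))))) 363)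
 EL.nil))))
noncomputable def S198_212_364_401_8 : EL := (EL.cons 12 (TM.mk (P.cons (P.cons (P.lf 1706934470 0 0) (P.cons (P.lf 0 249001470 0) (P.cons (P.lf 632538 0 0) (P.cons (P.lf 1018498 0 0) (P.cons (P.lf 0 18888 0) (P.cons (P.lf 0 994 0) P.nil)))))) (P.cons (P.cons (P.lf 187261712 0 0) (P.cons (P.lf 0 34054838 0) (P.cons (P.lf 332234 0 0) (P.cons (P.lf 155968 0 0) (P.cons (P.lf 0 3094 0) P.nil))))) (P.cons (P.cons (P.lf 0 35507812 0) (P.cons (P.lf 2423878 0 0) (P.cons (P.lf 100992 0 0) (P.cons (P.lf 0 2636 0) P.nil)))) (P.cons (P.cons (P.lf 0 2929610 0) (P.cons (P.lf 415408 0 0) (P.cons (P.lf 4080 0 0) P.nil))) (P.cons (P.cons (P.lf 322384 0 0) (P.cons (P.lf 0 6114 0) P.nil)) (P.cons (P.cons (P.lf 18202 0 0) P.nil) P.nil)))))) 9184)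
 (EL.cons 3 (TM.mk (P.cons (P.cons (P.lf 916645087 0 0) (P.cons (P.lf 0 177626721 0) (P.cons (P.lf 2052577 0 0) (P.cons (P.lf 835212 0 0) (P.cons (P.lf 0 16806 0) (P.cons (P.lf 0 886 0) P.nil)))))) (P.cons (P.cons (P.lf 0 440892374 0) (P.cons (P.lf 28965760 0 0) (P.cons (P.lf 1302261 0 0) (P.cons (P.lf 0 25113 0) (P.cons (P.lf 0 660 0) P.nil))))) (P.cons (P.cons (P.lf 0 53888766 0) (P.cons (P.lf 7497480 0 0) (P.cons (P.lf 86343 0 0) (P.cons (P.lf 0 23505 0) P.nil)))) (P.cons (P.cons (P.lf 7834125 0 0) (P.cons (P.lf 0 105985 0) (P.cons (P.lf 0 17254 0) P.nil))) (P.cons (P.cons (P.lf 628941 0 0) (P.cons (P.lf 0 73776 0) P.nil)) (P.cons (P.cons (P.lf 0 49131 0) P.nil) P.nil)))))) 24280)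
 (EL.cons 7 (TM.mk (P.cons (P.cons (P.lf 0 727478080 0) (P.cons (P.lf 118394270 0 0) (P.cons (P.lf 0 748315 0) (P.cons (P.lf 0 514642 0) (P.cons (P.lf 9909 0 0) (P.cons (P.lf 519 0 0) P.nil)))))) (P.cons (P.cons (P.lf 123225253 0 0) (P.cons (P.lf 0 8095653 0) (P.cons (P.lf 0 363966 0) (P.cons (P.lf 7017 0 0) (P.cons (P.lf 187 0 0) P.nil))))) (P.cons (P.cons (P.lf 5721905 0 0) (P.cons (P.lf 0 1481892 0) (P.cons (P.lf 3449 0 0) (P.cons (P.lf 6038 0 0) P.nil)))) (P.cons (P.cons (P.lf 0 3581997 0) (P.cons (P.lf 232865 0 0) (P.cons (P.lf 6871 0 0) P.nil))) (P.cons (P.cons (P.lf 90913 0 0) (P.cons (P.lf 14331 0 0) P.nil)) (P.cons (P.cons (P.lf 29866 0 0) P.nil) P.nil)))))) 14875)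
 (EL.cons 10 (TM.mk (P.cons (P.cons (P.lf 0 1841822172 0) (P.cons (P.lf 0 8031192 0) (P.cons (P.lf 23931558 0 0) (P.cons (P.lf 0 351816 0) (P.cons (P.lf 0 57330 0) (P.cons (P.lf 1080 0 0) P.nil)))))) (P.cons (P.cons (P.lf 0 201608610 0) (P.cons (P.lf 2755998 0 0) (P.cons (P.lf 3023904 0 0) (P.cons (P.lf 0 52590 0) (P.cons (P.lf 0 7662 0) P.nil))))) (P.cons (P.cons (P.lf 20635080 0 0) (P.cons (P.lf 1575906 0 0) (P.cons (P.lf 0 102834 0) (P.cons (P.lf 0 1812 0) P.nil)))) (P.cons (P.cons (P.lf 2121924 0 0) (P.cons (P.lf 50322 0 0) (P.cons (P.lf 0 22992 0) P.nil))) (P.cons (P.cons (P.lf 0 79206 0) (P.cons (P.lf 0 9912 0) P.nil)) (P.cons (P.cons (P.lf 0 10578 0) P.nil) P.nil)))))) 6372)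
 EL.nil))))
noncomputable def S198_212_364_401_9 : EL := (EL.cons 3 (TM.mk (P.cons (P.lf 0 1528492552 0) (P.cons (P.lf 189961226 0 0) (P.cons (P.lf 3825716 0 0) (P.cons (P.lf 0 119508 0) (P.cons (P.lf 0 4953 0) (P.cons (P.lf 41 0 0) P.nil)))))) 52)
 (EL.cons 7 (TM.mk (P.cons (P.lf 0 1944480730 0) (P.cons (P.lf 0 53092371 0) (P.cons (P.lf 2954732 0 0) (P.cons (P.lf 85611 0 0) (P.cons (P.lf 0 1520 0) (P.cons (P.lf 0 96 0) P.nil)))))) 47)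
 EL.nil))
noncomputable def S198_212_364_401_10 : EL := (EL.cons 3 (TM.mk (P.cons (P.cons (P.lf 0 681360295 0) (P.cons (P.lf 49697196 0 0) (P.cons (P.lf 1686165 0 0) (P.lf 0 80292 0)))) (P.cons (P.cons (P.lf 47304725 0 0) (P.cons (P.lf 0 2105556 0) (P.cons (P.lf 0 71439 0) (P.lf 3401 0 0)))) (P.cons (P.cons (P.lf 14462269 0 0) (P.cons (P.lf 0 745710 0) (P.cons (P.lf 0 25299 0) (P.lf 1202 0 0)))) (P.cons (P.cons (P.lf 0 828133 0) (P.cons (P.lf 0 9883 0) (P.cons (P.lf 0 333 0) P.nil))) (P.cons (P.cons (P.lf 0 66522 0) (P.cons (P.lf 2929 0 0) P.nil)) (P.cons (P.cons (P.lf 2460 0 0) P.nil) P.nil)))))) 800)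
 (EL.cons 7 (TM.mk (P.cons (P.cons (P.lf 0 866796481 0) (P.cons (P.lf 63222579 0 0) (P.cons (P.lf 2145066 0 0) (P.lf 0 102144 0)))) (P.cons (P.cons (P.lf 0 71213711 0) (P.cons (P.lf 6904950 0 0) (P.cons (P.lf 234275 0 0) (P.lf 0 11155 0)))) (P.cons (P.cons (P.lf 10338553 0 0) (P.cons (P.lf 0 101476 0) (P.cons (P.lf 0 3442 0) (P.lf 162 0 0)))) (P.cons (P.cons (P.lf 569957 0 0) (P.cons (P.lf 0 37461 0) (P.cons (P.lf 0 1268 0) P.nil))) (P.cons (P.cons (P.lf 0 39587 0) (P.cons (P.lf 0 661 0) P.nil)) (P.cons (P.cons (P.lf 0 2478 0) P.nil) P.nil)))))) 629)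
 EL.nil))
noncomputable def S198_212_364_401_11 : EL := (EL.cons 3 (TM.mk (P.cons (P.cons (P.lf 0 303731837 0) (P.cons (P.lf 44307309 0 0) (P.cons (P.lf 0 112553 0) (P.cons (P.lf 0 181230 0) (P.cons (P.lf 3360 0 0) (P.cons (P.lf 176 0 0) P.nil)))))) (P.cons (P.cons (P.lf 4426486 0 0) (P.cons (P.lf 553198 0 0) (P.cons (P.lf 0 45129 0) (P.cons (P.lf 0 5229 0) (P.cons (P.lf 132 0 0) P.nil))))) (P.cons (P.cons (P.lf 11219658 0 0) (P.cons (P.lf 0 1295304 0) (P.cons (P.lf 0 10341 0) (P.cons (P.lf 4371 0 0) P.nil)))) (P.cons (P.cons (P.lf 0 204285 0) (P.cons (P.lf 0 32017 0) (P.cons (P.lf 1646 0 0) P.nil))) (P.cons (P.cons (P.lf 0 141555 0) (P.cons (P.lf 11970 0 0) P.nil)) (P.cons (P.cons (P.lf 2979 0 0) P.nil) P.nil)))))) 3294)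
 (EL.cons 7 (TM.mk (P.cons (P.cons (P.lf 0 386394232 0) (P.cons (P.lf 56365802 0 0) (P.cons (P.lf 0 143185 0) (P.cons (P.lf 0 230554 0) (P.cons (P.lf 4275 0 0) (P.cons (P.lf 225 0 0) P.nil)))))) (P.cons (P.cons (P.lf 0 52940099 0) (P.cons (P.lf 9247923 0 0) (P.cons (P.lf 0 79116 0) (P.cons (P.lf 0 41601 0) (P.cons (P.lf 817 0 0) P.nil))))) (P.cons (P.cons (P.lf 7467533 0 0) (P.cons (P.lf 0 423852 0) (P.cons (P.lf 0 24697 0) (P.cons (P.lf 0 16 0) P.nil)))) (P.cons (P.cons (P.lf 964059 0 0) (P.cons (P.lf 0 123211 0) (P.cons (P.lf 0 1427 0) P.nil))) (P.cons (P.cons (P.lf 0 65519 0) (P.cons (P.lf 0 645 0) P.nil)) (P.cons (P.cons (P.lf 0 7526 0) P.nil) P.nil)))))) 2847)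
 EL.nil))
noncomputable def S198_212_364_401_12 : EL := (EL.cons 4 (TM.mk (P.cons (P.lf 1528492552 0 0) (P.cons (P.lf 0 189961226 0) (P.cons (P.lf 0 3825716 0) (P.cons (P.lf 119508 0 0) (P.cons (P.lf 4953 0 0) (P.cons (P.lf 0 41 0) P.nil)))))) 52)
 (EL.cons 8 (TM.mk (P.cons (P.lf 1944480730 0 0) (P.cons (P.lf 53092371 0 0) (P.cons (P.lf 0 2954732 0) (P.cons (P.lf 0 85611 0) (P.cons (P.lf 1520 0 0) (P.cons (P.lf 96 0 0) P.nil)))))) 47)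
 EL.nil))
noncomputable def S198_212_364_401_13 : EL := (EL.cons 4 (TM.mk (P.cons (P.cons (P.lf 681360295 0 0) (P.cons (P.lf 0 49697196 0) (P.cons (P.lf 0 1686165 0) (P.lf 80292 0 0)))) (P.cons (P.cons (P.lf 0 47304725 0) (P.cons (P.lf 2105556 0 0) (P.cons (P.lf 71439 0 0) (P.lf 0 3401 0)))) (P.cons (P.cons (P.lf 0 14462269 0) (P.cons (P.lf 745710 0 0) (P.cons (P.lf 25299 0 0) (P.lf 0 1202 0)))) (P.cons (P.cons (P.lf 828133 0 0) (P.cons (P.lf 9883 0 0) (P.cons (P.lf 333 0 0) P.nil))) (P.cons (P.cons (P.lf 66522 0 0) (P.cons (P.lf 0 2929 0) P.nil)) (P.cons (P.cons (P.lf 0 2460 0) P.nil) P.nil)))))) 800)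
 (EL.cons 8 (TM.mk (P.cons (P.cons (P.lf 866796481 0 0) (P.cons (P.lf 0 63222579 0) (P.cons (P.lf 0 2145066 0) (P.lf 102144 0 0)))) (P.cons (P.cons (P.lf 71213711 0 0) (P.cons (P.lf 0 6904950 0) (P.cons (P.lf 0 234275 0) (P.lf 11155 0 0)))) (P.cons (P.cons (P.lf 0 10338553 0) (P.cons (P.lf 101476 0 0) (P.cons (P.lf 3442 0 0) (P.lf 0 162 0)))) (P.cons (P.cons (P.lf 0 569957 0) (P.cons (P.lf 37461 0 0) (P.cons (P.lf 1268 0 0) P.nil))) (P.cons (P.cons (P.lf 39587 0 0) (P.cons (P.lf 661 0 0) P.nil)) (P.cons (P.cons (P.lf 2478 0 0) P.nil) P.nil)))))) 629)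
 EL.nil))
noncomputable def S198_212_364_401_14 : EL := (EL.cons 4 (TM.mk (P.cons (P.cons (P.lf 303731837 0 0) (P.cons (P.lf 0 44307309 0) (P.cons (P.lf 112553 0 0) (P.cons (P.lf 181230 0 0) (P.cons (P.lf 0 3360 0) (P.cons (P.lf 0 176 0) P.nil)))))) (P.cons (P.cons (P.lf 0 4426486 0) (P.cons (P.lf 0 553198 0) (P.cons (P.lf 45129 0 0) (P.cons (P.lf 5229 0 0) (P.cons (P.lf 0 132 0) P.nil))))) (P.cons (P.cons (P.lf 0 11219658 0) (P.cons (P.lf 1295304 0 0) (P.cons (P.lf 10341 0 0) (P.cons (P.lf 0 4371 0) P.nil)))) (P.cons (P.cons (P.lf 204285 0 0) (P.cons (P.lf 32017 0 0) (P.cons (P.lf 0 1646 0) P.nil))) (P.cons (P.cons (P.lf 141555 0 0) (P.cons (P.lf 0 11970 0) P.nil)) (P.cons (P.cons (P.lf 0 2979 0) P.nil) P.nil)))))) 3294)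
 (EL.cons 8 (TM.mk (P.cons (P.cons (P.lf 386394232 0 0) (P.cons (P.lf 0 56365802 0) (P.cons (P.lf 143185 0 0) (P.cons (P.lf 230554 0 0) (P.cons (P.lf 0 4275 0) (P.cons (P.lf 0 225 0) P.nil)))))) (P.cons (P.cons (P.lf 52940099 0 0) (P.cons (P.lf 0 9247923 0) (P.cons (P.lf 79116 0 0) (P.cons (P.lf 41601 0 0) (P.cons (P.lf 0 817 0) P.nil))))) (P.cons (P.cons (P.lf 0 7467533 0) (P.cons (P.lf 423852 0 0) (P.cons (P.lf 24697 0 0) (P.cons (P.lf 16 0 0) P.nil)))) (P.cons (P.cons (P.lf 0 964059 0) (P.cons (P.lf 123211 0 0) (P.cons (P.lf 1427 0 0) P.nil))) (P.cons (P.cons (P.lf 65519 0 0) (P.cons (P.lf 645 0 0) P.nil)) (P.cons (P.cons (P.lf 7526 0 0) P.nil) P.nil)))))) 2847)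
 EL.nil))
noncomputable def S198_212_364_401_15 : EL := (EL.cons 4 (TM.mk (P.cons (P.lf 0 580223769 0) (P.cons (P.lf 144220550 0 0) (P.cons (P.lf 0 6057348 0) (P.cons (P.lf 0 451706 0) (P.cons (P.lf 3880 0 0) (P.cons (P.lf 725 0 0) P.nil)))))) 68)
 (EL.cons 8 (TM.mk (P.cons (P.lf 0 738135058 0) (P.cons (P.lf 71581366 0 0) (P.cons (P.lf 5473894 0 0) (P.cons (P.lf 0 114166 0) (P.cons (P.lf 0 11391 0) (P.cons (P.lf 0 3 0) P.nil)))))) 62)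
 EL.nil))
noncomputable def S198_212_364_401_16 : EL := (EL.cons 4 (TM.mk (P.cons (P.cons (P.lf 0 258647932 0) (P.cons (P.lf 18865315 0 0) (P.cons (P.lf 640077 0 0) (P.lf 0 30479 0)))) (P.cons (P.cons (P.lf 50101915 0 0) (P.cons (P.lf 0 3143863 0) (P.cons (P.lf 0 106667 0) (P.lf 5079 0 0)))) (P.cons (P.cons (P.lf 3905619 0 0) (P.cons (P.lf 0 230959 0) (P.cons (P.lf 0 7835 0) (P.lf 372 0 0)))) (P.cons (P.cons (P.lf 0 1061823 0) (P.cons (P.lf 34904 0 0) (P.cons (P.lf 1184 0 0) P.nil))) (P.cons (P.cons (P.lf 641 0 0) (P.cons (P.lf 2285 0 0) P.nil)) (P.cons (P.cons (P.lf 5353 0 0) P.nil) P.nil)))))) 803)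
 (EL.cons 8 (TM.mk (P.cons (P.cons (P.lf 0 329040478 0) (P.cons (P.lf 23999621 0 0) (P.cons (P.lf 814278 0 0) (P.lf 0 38774 0)))) (P.cons (P.cons (P.lf 13860090 0 0) (P.cons (P.lf 0 361520 0) (P.cons (P.lf 0 12266 0) (P.lf 583 0 0)))) (P.cons (P.cons (P.lf 8107811 0 0) (P.cons (P.lf 0 424347 0) (P.cons (P.lf 0 14396 0) (P.lf 684 0 0)))) (P.cons (P.cons (P.lf 0 229451 0) (P.cons (P.lf 0 14116 0) (P.cons (P.lf 0 478 0) P.nil))) (P.cons (P.cons (P.lf 0 54919 0) (P.cons (P.lf 1895 0 0) P.nil)) (P.cons (P.cons (P.lf 613 0 0) P.nil) P.nil)))))) 639)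
 EL.nil))
noncomputable def S198_212_364_401_17 : EL := (EL.cons 4 (TM.mk (P.cons (P.cons (P.lf 0 115298194 0) (P.cons (P.lf 16819286 0 0) (P.cons (P.lf 0 42725 0) (P.cons (P.lf 0 68795 0) (P.cons (P.lf 1275 0 0) (P.cons (P.lf 66 0 0) P.nil)))))) (P.cons (P.cons (P.lf 16009590 0 0) (P.cons (P.lf 0 1880305 0) (P.cons (P.lf 0 11820 0) (P.cons (P.lf 6564 0 0) (P.cons (P.lf 0 107 0) P.nil))))) (P.cons (P.cons (P.lf 4338795 0 0) (P.cons (P.lf 0 559900 0) (P.cons (P.lf 0 1689 0) (P.cons (P.lf 2078 0 0) P.nil)))) (P.cons (P.cons (P.lf 0 620082 0) (P.cons (P.lf 49743 0 0) (P.cons (P.lf 1152 0 0) P.nil))) (P.cons (P.cons (P.lf 0 54999 0) (P.cons (P.lf 7355 0 0) P.nil)) (P.cons (P.cons (P.lf 8344 0 0) P.nil) P.nil)))))) 2655)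
 (EL.cons 8 (TM.mk (P.cons (P.cons (P.lf 0 146677271 0) (P.cons (P.lf 21396753 0 0) (P.cons (P.lf 0 54353 0) (P.cons (P.lf 0 87519 0) (P.cons (P.lf 1622 0 0) (P.cons (P.lf 85 0 0) P.nil)))))) (P.cons (P.cons (P.lf 0 1867270 0) (P.cons (P.lf 851368 0 0) (P.cons (P.lf 0 23277 0) (P.cons (P.lf 0 4914 0) (P.cons (P.lf 108 0 0) P.nil))))) (P.cons (P.cons (P.lf 5699413 0 0) (P.cons (P.lf 0 650743 0) (P.cons (P.lf 0 5506 0) (P.cons (P.lf 2175 0 0) P.nil)))) (P.cons (P.cons (P.lf 52494 0 0) (P.cons (P.lf 0 33889 0) (P.cons (P.lf 694 0 0) P.nil))) (P.cons (P.cons (P.lf 0 79494 0) (P.cons (P.lf 6314 0 0) P.nil)) (P.cons (P.cons (P.lf 0 521 0) P.nil) P.nil)))))) 2137)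
 EL.nil))
noncomputable def S198_212_364_401_18 : EL := (EL.cons 4 (TM.mk (P.cons (P.lf 220255978 0 0) (P.cons (P.lf 0 82120312 0) (P.cons (P.lf 8552062 0 0) (P.cons (P.lf 39948 0 0) (P.cons (P.lf 0 32104 0) (P.cons (P.lf 0 525 0) P.nil)))))) 109)
 (EL.cons 8 (TM.mk (P.cons (P.lf 280199929 0 0) (P.cons (P.lf 0 61995939 0) (P.cons (P.lf 597780 0 0) (P.cons (P.lf 391501 0 0) (P.cons (P.lf 2922 0 0) (P.cons (P.lf 0 902 0) P.nil)))))) 74)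
 EL.nil))
noncomputable def S198_212_364_401_19 : EL := (EL.cons 4 (TM.mk (P.cons (P.cons (P.lf 98184107 0 0) (P.cons (P.lf 0 7161372 0) (P.cons (P.lf 0 242976 0) (P.lf 11569 0 0)))) (P.cons (P.cons (P.lf 0 31221280 0) (P.cons (P.lf 2083442 0 0) (P.cons (P.lf 70688 0 0) (P.lf 0 3365 0)))) (P.cons (P.cons (P.lf 635334 0 0) (P.cons (P.lf 0 42720 0) (P.cons (P.lf 0 1449 0) (P.lf 68 0 0)))) (P.cons (P.cons (P.lf 642610 0 0) (P.cons (P.lf 0 27692 0) (P.cons (P.lf 0 939 0) P.nil))) (P.cons (P.cons (P.lf 0 47794 0) (P.cons (P.lf 629 0 0) P.nil)) (P.cons (P.cons (P.lf 0 3190 0) P.nil) P.nil)))))) 880)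
 (EL.cons 8 (TM.mk (P.cons (P.cons (P.lf 124905487 0 0) (P.cons (P.lf 0 9110381 0) (P.cons (P.lf 0 309104 0) (P.lf 14718 0 0)))) (P.cons (P.cons (P.lf 0 20784630 0) (P.cons (P.lf 1269473 0 0) (P.cons (P.lf 43071 0 0) (P.lf 0 2051 0)))) (P.cons (P.cons (P.lf 0 2736515 0) (P.cons (P.lf 166831 0 0) (P.cons (P.lf 5660 0 0) (P.lf 0 269 0)))) (P.cons (P.cons (P.lf 492540 0 0) (P.cons (P.lf 0 15716 0) (P.cons (P.lf 0 533 0) P.nil))) (P.cons (P.cons (P.lf 17720 0 0) (P.cons (P.lf 0 1807 0) P.nil)) (P.cons (P.cons (P.lf 0 3302 0) P.nil) P.nil)))))) 613)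
 EL.nil))
noncomputable def S198_212_364_401_20 : EL := (EL.cons 4 (TM.mk (P.cons (P.cons (P.lf 43767797 0 0) (P.cons (P.lf 0 6384689 0) (P.cons (P.lf 16218 0 0) (P.cons (P.lf 26115 0 0) (P.cons (P.lf 0 483 0) (P.cons (P.lf 0 25 0) P.nil)))))) (P.cons (P.cons (P.lf 0 11516790 0) (P.cons (P.lf 1507262 0 0) (P.cons (P.lf 2471 0 0) (P.cons (P.lf 0 5737 0) (P.cons (P.lf 100 0 0) P.nil))))) (P.cons (P.cons (P.lf 0 1001286 0) (P.cons (P.lf 139813 0 0) (P.cons (P.lf 42 0 0) (P.cons (P.lf 0 543 0) P.nil)))) (P.cons (P.cons (P.lf 458712 0 0) (P.cons (P.lf 0 47582 0) (P.cons (P.lf 0 526 0) P.nil))) (P.cons (P.cons (P.lf 0 4586 0) (P.cons (P.lf 0 942 0) P.nil)) (P.cons (P.cons (P.lf 0 6500 0) P.nil) P.nil)))))) 2139)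
 (EL.cons 8 (TM.mk (P.cons (P.cons (P.lf 55679459 0 0) (P.cons (P.lf 0 8122319 0) (P.cons (P.lf 20632 0 0) (P.cons (P.lf 33222 0 0) (P.cons (P.lf 0 615 0) (P.cons (P.lf 0 32 0) P.nil)))))) (P.cons (P.cons (P.lf 0 6211023 0) (P.cons (P.lf 686258 0 0) (P.cons (P.lf 6271 0 0) (P.cons (P.lf 0 2262 0) (P.cons (P.lf 35 0 0) P.nil))))) (P.cons (P.cons (P.lf 0 2390982 0) (P.cons (P.lf 307520 0 0) (P.cons (P.lf 940 0 0) (P.cons (P.lf 0 1140 0) P.nil)))) (P.cons (P.cons (P.lf 251535 0 0) (P.cons (P.lf 0 17661 0) (P.cons (P.lf 0 543 0) P.nil))) (P.cons (P.cons (P.lf 38304 0 0) (P.cons (P.lf 0 4665 0) P.nil)) (P.cons (P.cons (P.lf 0 3670 0) P.nil) P.nil)))))) 1715)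
 EL.nil))
noncomputable def S198_212_364_401_21 : EL := (EL.cons 4 (TM.mk (P.cons (P.cons (P.lf 0 1368833094 0) (P.cons (P.lf 149091588 0 0) (P.cons (P.lf 5058495 0 0) (P.lf 0 240876 0)))) (P.cons (P.cons (P.lf 574575828 0 0) (P.cons (P.lf 0 6316668 0) (P.cons (P.lf 0 214317 0) (P.lf 10203 0 0)))) (P.cons (P.cons (P.lf 25214763 0 0) (P.cons (P.lf 0 2237130 0) (P.cons (P.lf 0 75897 0) (P.lf 3606 0 0)))) (P.cons (P.cons (P.lf 0 3839514 0) (P.cons (P.lf 0 29649 0) (P.cons (P.lf 0 999 0) P.nil))) (P.cons (P.cons (P.lf 0 187926 0) (P.cons (P.lf 8787 0 0) P.nil)) (P.cons (P.cons (P.lf 9558 0 0) P.nil) P.nil)))))) 2670)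
 (EL.cons 8 (TM.mk (P.cons (P.cons (P.lf 382575951 0 0) (P.cons (P.lf 0 41669694 0) (P.cons (P.lf 0 1413804 0) (P.lf 67329 0 0)))) (P.cons (P.cons (P.lf 0 218581008 0) (P.cons (P.lf 8081913 0 0) (P.cons (P.lf 274206 0 0) (P.lf 0 13056 0)))) (P.cons (P.cons (P.lf 18502608 0 0) (P.cons (P.lf 226161 0 0) (P.cons (P.lf 7674 0 0) (P.lf 0 369 0)))) (P.cons (P.cons (P.lf 1560300 0 0) (P.cons (P.lf 0 72819 0) (P.cons (P.lf 0 2463 0) P.nil))) (P.cons (P.cons (P.lf 0 98922 0) (P.cons (P.lf 0 2322 0) P.nil)) (P.cons (P.cons (P.lf 0 6915 0) P.nil) P.nil)))))) 2385)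
 (EL.cons 11 (TM.mk (P.cons (P.cons (P.lf 2065875786 0 0) (P.cons (P.lf 159689445 0 0) (P.cons (P.lf 0 10082889 0) (P.cons (P.lf 0 189069 0) (P.lf 6750 0 0))))) (P.cons (P.cons (P.lf 112813914 0 0) (P.cons (P.lf 8720364 0 0) (P.cons (P.lf 0 550608 0) (P.cons (P.lf 0 10323 0) (P.lf 366 0 0))))) (P.cons (P.cons (P.lf 0 4738248 0) (P.cons (P.lf 0 366258 0) (P.cons (P.lf 23124 0 0) (P.cons (P.lf 432 0 0) P.nil)))) (P.cons (P.cons (P.lf 0 353337 0) (P.cons (P.lf 0 27312 0) (P.cons (P.lf 1722 0 0) P.nil))) (P.cons (P.cons (P.lf 3030 0 0) (P.cons (P.lf 234 0 0) P.nil)) (P.cons (P.cons (P.lf 567 0 0) P.nil) P.nil)))))) 363)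
 EL.nil)))
noncomputable def S198_212_364_401_22 : EL := (EL.cons 4 (TM.mk (P.cons (P.cons (P.lf 0 610188462 0) (P.cons (P.lf 110967015 0 0) (P.cons (P.lf 0 1082565 0) (P.cons (P.lf 0 508221 0) (P.cons (P.lf 10083 0 0) (P.cons (P.lf 531 0 0) P.nil)))))) (P.cons (P.cons (P.lf 222659430 0 0) (P.cons (P.lf 0 14206281 0) (P.cons (P.lf 0 673695 0) (P.cons (P.lf 9942 0 0) (P.cons (P.lf 396 0 0) P.nil))))) (P.cons (P.cons (P.lf 32554212 0 0) (P.cons (P.lf 0 4396392 0) (P.cons (P.lf 0 48342 0) (P.cons (P.lf 13938 0 0) P.nil)))) (P.cons (P.cons (P.lf 0 4019205 0) (P.cons (P.lf 36984 0 0) (P.cons (P.lf 9450 0 0) P.nil))) (P.cons (P.cons (P.lf 0 385248 0) (P.cons (P.lf 42873 0 0) P.nil)) (P.cons (P.cons (P.lf 26055 0 0) P.nil) P.nil)))))) 10482)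
 (EL.cons 8 (TM.mk (P.cons (P.cons (P.lf 170541924 0 0) (P.cons (P.lf 0 31014234 0) (P.cons (P.lf 302565 0 0) (P.cons (P.lf 142044 0 0) (P.cons (P.lf 0 2817 0) (P.cons (P.lf 0 147 0) P.nil)))))) (P.cons (P.cons (P.lf 0 88082676 0) (P.cons (P.lf 8671788 0 0) (P.cons (P.lf 142425 0 0) (P.cons (P.lf 0 24309 0) (P.cons (P.lf 315 0 0) P.nil))))) (P.cons (P.cons (P.lf 872814 0 0) (P.cons (P.lf 529020 0 0) (P.cons (P.lf 0 14073 0) (P.cons (P.lf 0 3027 0) P.nil)))) (P.cons (P.cons (P.lf 2273028 0 0) (P.cons (P.lf 0 178038 0) (P.cons (P.lf 0 4149 0) P.nil))) (P.cons (P.cons (P.lf 0 78216 0) (P.cons (P.lf 0 7488 0) P.nil)) (P.cons (P.cons (P.lf 0 18696 0) P.nil) P.nil)))))) 6003)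
 (EL.cons 11 (TM.mk (P.cons (P.cons (P.lf 920911086 0 0) (P.cons (P.lf 4015596 0 0) (P.cons (P.lf 0 11965779 0) (P.cons (P.lf 175908 0 0) (P.cons (P.lf 28665 0 0) (P.cons (P.lf 0 540 0) P.nil)))))) (P.cons (P.cons (P.lf 100804305 0 0) (P.cons (P.lf 0 1377999 0) (P.cons (P.lf 0 1511952 0) (P.cons (P.lf 26295 0 0) (P.cons (P.lf 3831 0 0) P.nil))))) (P.cons (P.cons (P.lf 0 10317540 0) (P.cons (P.lf 0 787953 0) (P.cons (P.lf 51417 0 0) (P.cons (P.lf 906 0 0) P.nil)))) (P.cons (P.cons (P.lf 0 1060962 0) (P.cons (P.lf 0 25161 0) (P.cons (P.lf 11496 0 0) P.nil))) (P.cons (P.cons (P.lf 39603 0 0) (P.cons (P.lf 4956 0 0) P.nil)) (P.cons (P.cons (P.lf 5289 0 0) P.nil) P.nil)))))) 3186)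
 EL.nil)))
noncomputable def S198_212_364_401_23 : EL := (EL.cons 4 (TM.mk (P.cons (P.cons (P.lf 519616203 0 0) (P.cons (P.lf 0 56595945 0) (P.cons (P.lf 0 1920231 0) (P.lf 91437 0 0)))) (P.cons (P.cons (P.lf 0 282689949 0) (P.cons (P.lf 9431589 0 0) (P.cons (P.lf 320001 0 0) (P.lf 0 15237 0)))) (P.cons (P.cons (P.lf 16234761 0 0) (P.cons (P.lf 692877 0 0) (P.cons (P.lf 23505 0 0) (P.lf 0 1116 0)))) (P.cons (P.cons (P.lf 3233613 0 0) (P.cons (P.lf 0 104712 0) (P.cons (P.lf 0 3555 0) P.nil))) (P.cons (P.cons (P.lf 0 101211 0) (P.cons (P.lf 0 6855 0) P.nil)) (P.cons (P.cons (P.lf 0 17610 0) P.nil) P.nil)))))) 2880)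
 (EL.cons 8 (TM.mk (P.cons (P.cons (P.lf 0 145227831 0) (P.cons (P.lf 15818031 0 0) (P.cons (P.lf 536685 0 0) (P.lf 0 25557 0)))) (P.cons (P.cons (P.lf 101023425 0 0) (P.cons (P.lf 0 5033802 0) (P.cons (P.lf 0 170787 0) (P.lf 8130 0 0)))) (P.cons (P.cons (P.lf 0 16972269 0) (P.cons (P.lf 255840 0 0) (P.cons (P.lf 8679 0 0) (P.lf 0 411 0)))) (P.cons (P.cons (P.lf 61569 0 0) (P.cons (P.lf 47226 0 0) (P.cons (P.lf 1599 0 0) P.nil))) (P.cons (P.cons (P.lf 134757 0 0) (P.cons (P.lf 0 2526 0) P.nil)) (P.cons (P.cons (P.lf 0 834 0) P.nil) P.nil)))))) 1956)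
 (EL.cons 11 (TM.mk (P.cons (P.cons (P.lf 0 784217256 0) (P.cons (P.lf 0 60618948 0) (P.cons (P.lf 3827517 0 0) (P.cons (P.lf 71769 0 0) (P.lf 0 2562 0))))) (P.cons (P.cons (P.lf 54637854 0 0) (P.cons (P.lf 4223433 0 0) (P.cons (P.lf 0 266670 0) (P.cons (P.lf 0 5001 0) (P.lf 177 0 0))))) (P.cons (P.cons (P.lf 9083772 0 0) (P.cons (P.lf 702162 0 0) (P.cons (P.lf 0 44334 0) (P.cons (P.lf 0 828 0) P.nil)))) (P.cons (P.cons (P.lf 0 43536 0) (P.cons (P.lf 0 3363 0) (P.cons (P.lf 213 0 0) P.nil))) (P.cons (P.cons (P.lf 0 28209 0) (P.cons (P.lf 0 2178 0) P.nil)) (P.cons (P.cons (P.lf 0 384 0) P.nil) P.nil)))))) 549)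
 EL.nil)))
noncomputable def S198_212_364_401_24 : EL := (EL.cons 4 (TM.mk (P.cons (P.cons (P.lf 231630732 0 0) (P.cons (P.lf 0 42123657 0) (P.cons (P.lf 410946 0 0) (P.cons (P.lf 192924 0 0) (P.cons (P.lf 0 3825 0) (P.cons (P.lf 0 201 0) P.nil)))))) (P.cons (P.cons (P.lf 0 113309778 0) (P.cons (P.lf 10627911 0 0) (P.cons (P.lf 204666 0 0) (P.cons (P.lf 0 27750 0) (P.cons (P.lf 324 0 0) P.nil))))) (P.cons (P.cons (P.lf 0 2433015 0) (P.cons (P.lf 1104111 0 0) (P.cons (P.lf 0 14460 0) (P.cons (P.lf 0 5304 0) P.nil)))) (P.cons (P.cons (P.lf 3291198 0 0) (P.cons (P.lf 0 238239 0) (P.cons (P.lf 0 6474 0) P.nil))) (P.cons (P.cons (P.lf 0 18300 0) (P.cons (P.lf 0 18420 0) P.nil)) (P.cons (P.cons (P.lf 0 33129 0) P.nil) P.nil)))))) 8436)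
 (EL.cons 8 (TM.mk (P.cons (P.cons (P.lf 0 64738605 0) (P.cons (P.lf 11773164 0 0) (P.cons (P.lf 0 114855 0) (P.cons (P.lf 0 53919 0) (P.cons (P.lf 1068 0 0) (P.cons (P.lf 54 0 0) P.nil)))))) (P.cons (P.cons (P.lf 41482365 0 0) (P.cons (P.lf 0 4755024 0) (P.cons (P.lf 0 39789 0) (P.cons (P.lf 15927 0 0) (P.cons (P.lf 0 252 0) P.nil))))) (P.cons (P.cons (P.lf 0 4324797 0) (P.cons (P.lf 178824 0 0) (P.cons (P.lf 12348 0 0) (P.cons (P.lf 135 0 0) P.nil)))) (P.cons (P.cons (P.lf 0 910425 0) (P.cons (P.lf 101700 0 0) (P.cons (P.lf 1035 0 0) P.nil))) (P.cons (P.cons (P.lf 140160 0 0) (P.cons (P.lf 0 5271 0) P.nil)) (P.cons (P.cons (P.lf 5649 0 0) P.nil) P.nil)))))) 4176)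
 (EL.cons 11 (TM.mk (P.cons (P.cons (P.lf 0 349582665 0) (P.cons (P.lf 0 1524342 0) (P.cons (P.lf 4542273 0 0) (P.cons (P.lf 0 66774 0) (P.cons (P.lf 0 10881 0) (P.cons (P.lf 204 0 0) P.nil)))))) (P.cons (P.cons (P.lf 5180328 0 0) (P.cons (P.lf 712539 0 0) (P.cons (P.lf 9429 0 0) (P.cons (P.lf 0 1683 0) (P.cons (P.lf 0 99 0) P.nil))))) (P.cons (P.cons (P.lf 9547257 0 0) (P.cons (P.lf 237915 0 0) (P.cons (P.lf 0 102216 0) (P.cons (P.lf 1062 0 0) P.nil)))) (P.cons (P.cons (P.lf 0 15561 0) (P.cons (P.lf 0 29049 0) (P.cons (P.lf 0 3018 0) P.nil))) (P.cons (P.cons (P.lf 0 79014 0) (P.cons (P.lf 0 3780 0) P.nil)) (P.cons (P.cons (P.lf 0 954 0) P.nil) P.nil)))))) 2835)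
 EL.nil)))
noncomputable def S198_212_364_401_25 : EL := (EL.cons 4 (TM.mk (P.cons (P.cons (P.lf 0 197249028 0) (P.cons (P.lf 21484116 0 0) (P.cons (P.lf 728928 0 0) (P.lf 0 34710 0)))) (P.cons (P.cons (P.lf 131824713 0 0) (P.cons (P.lf 0 6250329 0) (P.cons (P.lf 0 212064 0) (P.lf 10095 0 0)))) (P.cons (P.cons (P.lf 0 19005669 0) (P.cons (P.lf 128163 0 0) (P.cons (P.lf 4347 0 0) (P.lf 0 207 0)))) (P.cons (P.cons (P.lf 0 745596 0) (P.cons (P.lf 83079 0 0) (P.cons (P.lf 2817 0 0) P.nil))) (P.cons (P.cons (P.lf 214149 0 0) (P.cons (P.lf 0 1887 0) P.nil)) (P.cons (P.cons (P.lf 4851 0 0) P.nil) P.nil)))))) 2835)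
 (EL.cons 8 (TM.mk (P.cons (P.cons (P.lf 55129245 0 0) (P.cons (P.lf 0 6004608 0) (P.cons (P.lf 0 203727 0) (P.lf 9702 0 0)))) (P.cons (P.cons (P.lf 0 45200487 0) (P.cons (P.lf 2657109 0 0) (P.cons (P.lf 90150 0 0) (P.lf 0 4290 0)))) (P.cons (P.cons (P.lf 11070798 0 0) (P.cons (P.lf 0 319569 0) (P.cons (P.lf 0 10842 0) (P.lf 513 0 0)))) (P.cons (P.cons (P.lf 0 723783 0) (P.cons (P.lf 0 11109 0) (P.cons (P.lf 0 375 0) P.nil))) (P.cons (P.cons (P.lf 0 67194 0) (P.cons (P.lf 3558 0 0) P.nil)) (P.cons (P.cons (P.lf 7110 0 0) P.nil) P.nil)))))) 1581)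
 (EL.cons 11 (TM.mk (P.cons (P.cons (P.lf 297692973 0 0) (P.cons (P.lf 23011269 0 0) (P.cons (P.lf 0 1452945 0) (P.cons (P.lf 0 27243 0) (P.lf 972 0 0))))) (P.cons (P.cons (P.lf 0 57738132 0) (P.cons (P.lf 0 4463079 0) (P.cons (P.lf 281799 0 0) (P.cons (P.lf 5283 0 0) (P.lf 0 189 0))))) (P.cons (P.cons (P.lf 0 1615680 0) (P.cons (P.lf 0 124887 0) (P.cons (P.lf 7884 0 0) (P.cons (P.lf 147 0 0) P.nil)))) (P.cons (P.cons (P.lf 520263 0 0) (P.cons (P.lf 40215 0 0) (P.cons (P.lf 0 2538 0) P.nil))) (P.cons (P.cons (P.lf 16629 0 0) (P.cons (P.lf 1284 0 0) P.nil)) (P.cons (P.cons (P.lf 0 1569 0) P.nil) P.nil)))))) 645)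
 EL.nil)))
noncomputable def S198_212_364_401_26 : EL := (EL.cons 4 (TM.mk (P.cons (P.cons (P.lf 0 87928236 0) (P.cons (P.lf 15990360 0 0) (P.cons (P.lf 0 155997 0) (P.cons (P.lf 0 73233 0) (P.cons (P.lf 1452 0 0) (P.cons (P.lf 75 0 0) P.nil)))))) (P.cons (P.cons (P.lf 53940714 0 0) (P.cons (P.lf 0 6021693 0) (P.cons (P.lf 0 58302 0) (P.cons (P.lf 19635 0 0) (P.cons (P.lf 0 303 0) P.nil))))) (P.cons (P.cons (P.lf 0 4201992 0) (P.cons (P.lf 42246 0 0) (P.cons (P.lf 15534 0 0) (P.cons (P.lf 885 0 0) P.nil)))) (P.cons (P.cons (P.lf 0 1478673 0) (P.cons (P.lf 153873 0 0) (P.cons (P.lf 1956 0 0) P.nil))) (P.cons (P.cons (P.lf 162981 0 0) (P.cons (P.lf 0 3459 0) P.nil)) (P.cons (P.cons (P.lf 15054 0 0) P.nil) P.nil)))))) 6432)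
 (EL.cons 8 (TM.mk (P.cons (P.cons (P.lf 24575112 0 0) (P.cons (P.lf 0 4469154 0) (P.cons (P.lf 43599 0 0) (P.cons (P.lf 20466 0 0) (P.cons (P.lf 0 405 0) (P.cons (P.lf 0 21 0) P.nil)))))) (P.cons (P.cons (P.lf 0 18801120 0) (P.cons (P.lf 2360460 0 0) (P.cons (P.lf 9684 0 0) (P.cons (P.lf 0 8589 0) (P.cons (P.lf 144 0 0) P.nil))))) (P.cons (P.cons (P.lf 3537234 0 0) (P.cons (P.lf 0 281025 0) (P.cons (P.lf 0 6672 0) (P.cons (P.lf 645 0 0) P.nil)))) (P.cons (P.cons (P.lf 182904 0 0) (P.cons (P.lf 0 35037 0) (P.cons (P.lf 153 0 0) P.nil))) (P.cons (P.cons (P.lf 0 101418 0) (P.cons (P.lf 7095 0 0) P.nil)) (P.cons (P.cons (P.lf 3678 0 0) P.nil) P.nil)))))) 2850)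
 (EL.cons 11 (TM.mk (P.cons (P.cons (P.lf 132703407 0 0) (P.cons (P.lf 578646 0 0) (P.cons (P.lf 0 1724268 0) (P.cons (P.lf 25347 0 0) (P.cons (P.lf 4131 0 0) (P.cons (P.lf 0 75 0) P.nil)))))) (P.cons (P.cons (P.lf 0 18458874 0) (P.cons (P.lf 0 342399 0) (P.cons (P.lf 210711 0 0) (P.cons (P.lf 0 2511 0) (P.cons (P.lf 0 474 0) P.nil))))) (P.cons (P.cons (P.lf 0 3711942 0) (P.cons (P.lf 0 58146 0) (P.cons (P.lf 43563 0 0) (P.cons (P.lf 0 546 0) P.nil)))) (P.cons (P.cons (P.lf 471618 0 0) (P.cons (P.lf 22974 0 0) (P.cons (P.lf 0 3801 0) P.nil))) (P.cons (P.cons (P.lf 38607 0 0) (P.cons (P.lf 270 0 0) P.nil)) (P.cons (P.cons (P.lf 0 3672 0) P.nil) P.nil)))))) 2280)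
 EL.nil)))
noncomputable def S198_212_364_401_27 : EL := (EL.cons 13 (TM.mk (P.lf 0 4294967296 0) 0)
 EL.nil)
noncomputable def S198_212_364_401_28 : EL := (EL.cons 13 (TM.mk (P.cons (P.cons (P.lf 0 1914579292 0) (P.cons (P.lf 139645976 0 0) (P.cons (P.lf 4738020 0 0) (P.lf 0 225616 0)))) (P.cons (P.cons (P.lf 0 105020844 0) (P.cons (P.lf 11438736 0 0) (P.cons (P.lf 388100 0 0) (P.lf 0 18480 0)))) (P.cons (P.cons (P.lf 22793996 0 0) (P.cons (P.lf 0 324268 0) (P.cons (P.lf 0 11000 0) (P.lf 520 0 0)))) (P.cons (P.cons (P.lf 392672 0 0) (P.cons (P.lf 0 50360 0) (P.cons (P.lf 0 1704 0) P.nil))) (P.cons (P.cons (P.lf 0 66654 0) (P.cons (P.lf 0 184 0) P.nil)) (P.cons (P.cons (P.lf 0 1878 0) P.nil) P.nil)))))) 815)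
 EL.nil)
noncomputable def S198_212_364_401_29 : EL := (EL.cons 13 (TM.mk (P.cons (P.cons (P.lf 0 853467235 0) (P.cons (P.lf 124500735 0 0) (P.cons (P.lf 0 316269 0) (P.cons (P.lf 0 509249 0) (P.cons (P.lf 9444 0 0) (P.cons (P.lf 497 0 0) P.nil)))))) (P.cons (P.cons (P.lf 0 93630856 0) (P.cons (P.lf 17027419 0 0) (P.cons (P.lf 0 166117 0) (P.cons (P.lf 0 77984 0) (P.cons (P.lf 1547 0 0) P.nil))))) (P.cons (P.cons (P.lf 17753906 0 0) (P.cons (P.lf 0 1211939 0) (P.cons (P.lf 0 50496 0) (P.cons (P.lf 1318 0 0) P.nil)))) (P.cons (P.cons (P.lf 1464805 0 0) (P.cons (P.lf 0 207704 0) (P.cons (P.lf 0 2040 0) P.nil))) (P.cons (P.cons (P.lf 0 161192 0) (P.cons (P.lf 3057 0 0) P.nil)) (P.cons (P.cons (P.lf 0 9101 0) P.nil) P.nil)))))) 4592)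
 EL.nil)
noncomputable def S198_212_364_401_30 : EL := (EL.cons 13 (TM.mk (P.cons (P.lf 1630392056 0 0) (P.cons (P.lf 0 202625308 0) (P.cons (P.lf 0 4080764 0) (P.cons (P.lf 127476 0 0) (P.cons (P.lf 5284 0 0) (P.cons (P.lf 0 44 0) P.nil)))))) 48)
 EL.nil)
noncomputable def S198_212_364_401_31 : EL := (EL.cons 13 (TM.mk (P.cons (P.cons (P.lf 726784315 0 0) (P.cons (P.lf 0 53010343 0) (P.cons (P.lf 0 1798577 0) (P.lf 85645 0 0)))) (P.cons (P.cons (P.lf 0 50458374 0) (P.cons (P.lf 2245927 0 0) (P.cons (P.lf 76202 0 0) (P.lf 0 3628 0)))) (P.cons (P.cons (P.lf 0 15426421 0) (P.cons (P.lf 795424 0 0) (P.cons (P.lf 26986 0 0) (P.lf 0 1283 0)))) (P.cons (P.cons (P.lf 883342 0 0) (P.cons (P.lf 10542 0 0) (P.cons (P.lf 356 0 0) P.nil))) (P.cons (P.cons (P.lf 70957 0 0) (P.cons (P.lf 0 3125 0) P.nil)) (P.cons (P.cons (P.lf 0 2625 0) P.nil) P.nil)))))) 834)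
 EL.nil)
noncomputable def S198_212_364_401_32 : EL := (EL.cons 13 (TM.mk (P.cons (P.cons (P.lf 323980627 0 0) (P.cons (P.lf 0 47261130 0) (P.cons (P.lf 120057 0 0) (P.cons (P.lf 193313 0 0) (P.cons (P.lf 0 3584 0) (P.cons (P.lf 0 188 0) P.nil)))))) (P.cons (P.cons (P.lf 0 4721586 0) (P.cons (P.lf 0 590078 0) (P.cons (P.lf 48138 0 0) (P.cons (P.lf 5578 0 0) (P.cons (P.lf 0 141 0) P.nil))))) (P.cons (P.cons (P.lf 0 11967636 0) (P.cons (P.lf 1381658 0 0) (P.cons (P.lf 11031 0 0) (P.cons (P.lf 0 4663 0) P.nil)))) (P.cons (P.cons (P.lf 217905 0 0) (P.cons (P.lf 34152 0 0) (P.cons (P.lf 0 1756 0) P.nil))) (P.cons (P.cons (P.lf 150992 0 0) (P.cons (P.lf 0 12769 0) P.nil)) (P.cons (P.cons (P.lf 0 3178 0) P.nil) P.nil)))))) 3491)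
 EL.nil)
noncomputable def S198_212_364_401_33 : EL := (EL.cons 14 (TM.mk (P.lf 8589934592 0 0) 0)
 EL.nil)
noncomputable def S198_212_364_401_34 : EL := (EL.cons 14 (TM.mk (P.cons (P.cons (P.lf 3829158584 0 0) (P.cons (P.lf 0 279291952 0) (P.cons (P.lf 0 9476040 0) (P.lf 451232 0 0)))) (P.cons (P.cons (P.lf 210041688 0 0) (P.cons (P.lf 0 22877472 0) (P.cons (P.lf 0 776200 0) (P.lf 36960 0 0)))) (P.cons (P.cons (P.lf 0 45587992 0) (P.cons (P.lf 648536 0 0) (P.cons (P.lf 22000 0 0) (P.lf 0 1040 0)))) (P.cons (P.cons (P.lf 0 785344 0) (P.cons (P.lf 100720 0 0) (P.cons (P.lf 3408 0 0) P.nil))) (P.cons (P.cons (P.lf 133308 0 0) (P.cons (P.lf 368 0 0) P.nil)) (P.cons (P.cons (P.lf 3756 0 0) P.nil) P.nil)))))) 1630)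
 EL.nil)
noncomputable def S198_212_364_401_35 : EL := (EL.cons 14 (TM.mk (P.cons (P.cons (P.lf 1706934470 0 0) (P.cons (P.lf 0 249001470 0) (P.cons (P.lf 632538 0 0) (P.cons (P.lf 1018498 0 0) (P.cons (P.lf 0 18888 0) (P.cons (P.lf 0 994 0) P.nil)))))) (P.cons (P.cons (P.lf 187261712 0 0) (P.cons (P.lf 0 34054838 0) (P.cons (P.lf 332234 0 0) (P.cons (P.lf 155968 0 0) (P.cons (P.lf 0 3094 0) P.nil))))) (P.cons (P.cons (P.lf 0 35507812 0) (P.cons (P.lf 2423878 0 0) (P.cons (P.lf 100992 0 0) (P.cons (P.lf 0 2636 0) P.nil)))) (P.cons (P.cons (P.lf 0 2929610 0) (P.cons (P.lf 415408 0 0) (P.cons (P.lf 4080 0 0) P.nil))) (P.cons (P.cons (P.lf 322384 0 0) (P.cons (P.lf 0 6114 0) P.nil)) (P.cons (P.cons (P.lf 18202 0 0) P.nil) P.nil)))))) 9184)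
 EL.nil)
noncomputable def S198_212_364_401_36 : EL := (EL.cons 14 (TM.mk (P.cons (P.lf 0 3260784112 0) (P.cons (P.lf 405250616 0 0) (P.cons (P.lf 8161528 0 0) (P.cons (P.lf 0 254952 0) (P.cons (P.lf 0 10568 0) (P.cons (P.lf 88 0 0) P.nil)))))) 96)
 EL.nil)
noncomputable def S198_212_364_401_37 : EL := (EL.cons 14 (TM.mk (P.cons (P.cons (P.lf 0 1453568630 0) (P.cons (P.lf 106020686 0 0) (P.cons (P.lf 3597154 0 0) (P.lf 0 171290 0)))) (P.cons (P.cons (P.lf 100916748 0 0) (P.cons (P.lf 0 4491854 0) (P.cons (P.lf 0 152404 0) (P.lf 7256 0 0)))) (P.cons (P.cons (P.lf 30852842 0 0) (P.cons (P.lf 0 1590848 0) (P.cons (P.lf 0 53972 0) (P.lf 2566 0 0)))) (P.cons (P.cons (P.lf 0 1766684 0) (P.cons (P.lf 0 21084 0) (P.cons (P.lf 0 712 0) P.nil))) (P.cons (P.cons (P.lf 0 141914 0) (P.cons (P.lf 6250 0 0) P.nil)) (P.cons (P.cons (P.lf 5250 0 0) P.nil) P.nil)))))) 1668)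
 EL.nil)
noncomputable def S198_212_364_401_38 : EL := (EL.cons 14 (TM.mk (P.cons (P.cons (P.lf 0 647961254 0) (P.cons (P.lf 94522260 0 0) (P.cons (P.lf 0 240114 0) (P.cons (P.lf 0 386626 0) (P.cons (P.lf 7168 0 0) (P.cons (P.lf 376 0 0) P.nil)))))) (P.cons (P.cons (P.lf 9443172 0 0) (P.cons (P.lf 1180156 0 0) (P.cons (P.lf 0 96276 0) (P.cons (P.lf 0 11156 0) (P.cons (P.lf 282 0 0) P.nil))))) (P.cons (P.cons (P.lf 23935272 0 0) (P.cons (P.lf 0 2763316 0) (P.cons (P.lf 0 22062 0) (P.cons (P.lf 9326 0 0) P.nil)))) (P.cons (P.cons (P.lf 0 435810 0) (P.cons (P.lf 0 68304 0) (P.cons (P.lf 3512 0 0) P.nil))) (P.cons (P.cons (P.lf 0 301984 0) (P.cons (P.lf 25538 0 0) P.nil)) (P.cons (P.cons (P.lf 6356 0 0) P.nil) P.nil)))))) 6982)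
 EL.nil)
noncomputable def S198_212_364_401_39 : EL := (EL.cons 14 (TM.mk (P.cons (P.lf 1237810708 0 0) (P.cons (P.lf 0 307670508 0) (P.cons (P.lf 12922344 0 0) (P.cons (P.lf 963640 0 0) (P.cons (P.lf 0 8278 0) (P.cons (P.lf 0 1548 0) P.nil)))))) 132)
 EL.nil)
noncomputable def S198_212_364_401_40 : EL := (EL.cons 14 (TM.mk (P.cons (P.cons (P.lf 551782256 0 0) (P.cons (P.lf 0 40246006 0) (P.cons (P.lf 0 1365498 0) (P.lf 65022 0 0)))) (P.cons (P.cons (P.lf 0 106884086 0) (P.cons (P.lf 6706908 0 0) (P.cons (P.lf 227558 0 0) (P.lf 0 10836 0)))) (P.cons (P.cons (P.lf 0 8331988 0) (P.cons (P.lf 492714 0 0) (P.cons (P.lf 16716 0 0) (P.lf 0 794 0)))) (P.cons (P.cons (P.lf 2265224 0 0) (P.cons (P.lf 0 74462 0) (P.cons (P.lf 0 2526 0) P.nil))) (P.cons (P.cons (P.lf 0 1368 0) (P.cons (P.lf 0 4876 0) P.nil)) (P.cons (P.cons (P.lf 0 11420 0) P.nil) P.nil)))))) 1674)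
 EL.nil)
noncomputable def S198_212_364_401_41 : EL := (EL.cons 14 (TM.mk (P.cons (P.cons (P.lf 245969482 0 0) (P.cons (P.lf 0 35881144 0) (P.cons (P.lf 91148 0 0) (P.cons (P.lf 146764 0 0) (P.cons (P.lf 0 2720 0) (P.cons (P.lf 0 142 0) P.nil)))))) (P.cons (P.cons (P.lf 0 34153792 0) (P.cons (P.lf 4011318 0 0) (P.cons (P.lf 25218 0 0) (P.cons (P.lf 0 14004 0) (P.cons (P.lf 230 0 0) P.nil))))) (P.cons (P.cons (P.lf 0 9256096 0) (P.cons (P.lf 1194454 0 0) (P.cons (P.lf 3604 0 0) (P.cons (P.lf 0 4434 0) P.nil)))) (P.cons (P.cons (P.lf 1322842 0 0) (P.cons (P.lf 0 106120 0) (P.cons (P.lf 0 2458 0) P.nil))) (P.cons (P.cons (P.lf 117332 0 0) (P.cons (P.lf 0 15692 0) P.nil)) (P.cons (P.cons (P.lf 0 17802 0) P.nil) P.nil)))))) 5618)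
 EL.nil)
noncomputable def S198_212_364_401_42 : EL := (EL.cons 14 (TM.mk (P.cons (P.lf 0 469879420 0) (P.cons (P.lf 175190000 0 0) (P.cons (P.lf 0 18244400 0) (P.cons (P.lf 0 85224 0) (P.cons (P.lf 68490 0 0) (P.cons (P.lf 1120 0 0) P.nil)))))) 218)
 EL.nil)
noncomputable def S198_212_364_401_43 : EL := (EL.cons 14 (TM.mk (P.cons (P.cons (P.lf 0 209459430 0) (P.cons (P.lf 15277594 0 0) (P.cons (P.lf 518350 0 0) (P.lf 0 24682 0)))) (P.cons (P.cons (P.lf 66605398 0 0) (P.cons (P.lf 0 4444678 0) (P.cons (P.lf 0 150802 0) (P.lf 7180 0 0)))) (P.cons (P.cons (P.lf 0 1355380 0) (P.cons (P.lf 91138 0 0) (P.cons (P.lf 3092 0 0) (P.lf 0 146 0)))) (P.cons (P.cons (P.lf 0 1370902 0) (P.cons (P.lf 59078 0 0) (P.cons (P.lf 2004 0 0) P.nil))) (P.cons (P.cons (P.lf 101962 0 0) (P.cons (P.lf 0 1342 0) P.nil)) (P.cons (P.cons (P.lf 6806 0 0) P.nil) P.nil)))))) 1838)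
 EL.nil)
noncomputable def S198_212_364_401_44 : EL := (EL.cons 14 (TM.mk (P.cons (P.cons (P.lf 0 93371302 0) (P.cons (P.lf 13620670 0 0) (P.cons (P.lf 0 34600 0) (P.cons (P.lf 0 55712 0) (P.cons (P.lf 1032 0 0) (P.cons (P.lf 54 0 0) P.nil)))))) (P.cons (P.cons (P.lf 24569152 0 0) (P.cons (P.lf 0 3215494 0) (P.cons (P.lf 0 5272 0) (P.cons (P.lf 12240 0 0) (P.cons (P.lf 0 214 0) P.nil))))) (P.cons (P.cons (P.lf 2136078 0 0) (P.cons (P.lf 0 298268 0) (P.cons (P.lf 0 90 0) (P.cons (P.lf 1160 0 0) P.nil)))) (P.cons (P.cons (P.lf 0 978586 0) (P.cons (P.lf 101510 0 0) (P.cons (P.lf 1124 0 0) P.nil))) (P.cons (P.cons (P.lf 9784 0 0) (P.cons (P.lf 2010 0 0) P.nil)) (P.cons (P.cons (P.lf 13868 0 0) P.nil) P.nil)))))) 4518)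
 EL.nil)
noncomputable def S198_212_364_401_45 : EL := (EL.cons 14 (TM.mk (P.cons (P.cons (P.lf 760904836 0 0) (P.cons (P.lf 0 166497096 0) (P.cons (P.lf 6494952 0 0) (P.cons (P.lf 797804 0 0) (P.cons (P.lf 0 55312 0) (P.cons (P.lf 0 918 0) P.nil)))))) (P.cons (P.cons (P.lf 125214246 0 0) (P.cons (P.lf 0 31903978 0) (P.cons (P.lf 1573164 0 0) (P.cons (P.lf 159192 0 0) (P.cons (P.lf 0 12908 0) P.nil))))) (P.cons (P.cons (P.lf 0 20308418 0) (P.cons (P.lf 2353910 0 0) (P.cons (P.lf 69496 0 0) (P.cons (P.lf 0 8386 0) P.nil)))) (P.cons (P.cons (P.lf 0 3324062 0) (P.cons (P.lf 671918 0 0) (P.cons (P.lf 0 15388 0) P.nil))) (P.cons (P.cons (P.lf 269888 0 0) (P.cons (P.lf 0 9274 0) P.nil)) (P.cons (P.cons (P.lf 38442 0 0) P.nil) P.nil)))))) 22258)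
 EL.nil)
noncomputable def S198_212_364_401_46 : EL := (EL.cons 15 (TM.mk (P.lf 4294967296 0 0) 0)
 EL.nil)
noncomputable def S198_212_364_401_47 : EL := (EL.cons 15 (TM.mk (P.cons (P.cons (P.lf 1914579292 0 0) (P.cons (P.lf 0 139645976 0) (P.cons (P.lf 0 4738020 0) (P.lf 225616 0 0)))) (P.cons (P.cons (P.lf 105020844 0 0) (P.cons (P.lf 0 11438736 0) (P.cons (P.lf 0 388100 0) (P.lf 18480 0 0)))) (P.cons (P.cons (P.lf 0 22793996 0) (P.cons (P.lf 324268 0 0) (P.cons (P.lf 11000 0 0) (P.lf 0 520 0)))) (P.cons (P.cons (P.lf 0 392672 0) (P.cons (P.lf 50360 0 0) (P.cons (P.lf 1704 0 0) P.nil))) (P.cons (P.cons (P.lf 66654 0 0) (P.cons (P.lf 184 0 0) P.nil)) (P.cons (P.cons (P.lf 1878 0 0) P.nil) P.nil)))))) 815)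
 EL.nil)
noncomputable def S198_212_364_401_48 : EL := (EL.cons 15 (TM.mk (P.cons (P.cons (P.lf 853467235 0 0) (P.cons (P.lf 0 124500735 0) (P.cons (P.lf 316269 0 0) (P.cons (P.lf 509249 0 0) (P.cons (P.lf 0 9444 0) (P.cons (P.lf 0 497 0) P.nil)))))) (P.cons (P.cons (P.lf 93630856 0 0) (P.cons (P.lf 0 17027419 0) (P.cons (P.lf 166117 0 0) (P.cons (P.lf 77984 0 0) (P.cons (P.lf 0 1547 0) P.nil))))) (P.cons (P.cons (P.lf 0 17753906 0) (P.cons (P.lf 1211939 0 0) (P.cons (P.lf 50496 0 0) (P.cons (P.lf 0 1318 0) P.nil)))) (P.cons (P.cons (P.lf 0 1464805 0) (P.cons (P.lf 207704 0 0) (P.cons (P.lf 2040 0 0) P.nil))) (P.cons (P.cons (P.lf 161192 0 0) (P.cons (P.lf 0 3057 0) P.nil)) (P.cons (P.cons (P.lf 9101 0 0) P.nil) P.nil)))))) 4592)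
 EL.nil)
noncomputable def S198_212_364_401 : SL := (SL.cons S198_212_364_401_0 (SL.cons S198_212_364_401_1 (SL.cons S198_212_364_401_2 (SL.cons S198_212_364_401_3 (SL.cons S198_212_364_401_4 (SL.cons S198_212_364_401_5 (SL.cons S198_212_364_401_6 (SL.cons S198_212_364_401_7 (SL.cons S198_212_364_401_8 (SL.cons S198_212_364_401_9 (SL.cons S198_212_364_401_10 (SL.cons S198_212_364_401_11 (SL.cons S198_212_364_401_12 (SL.cons S198_212_364_401_13 (SL.cons S198_212_364_401_14 (SL.cons S198_212_364_401_15 (SL.cons S198_212_364_401_16 (SL.cons S198_212_364_401_17 (SL.cons S198_212_364_401_18 (SL.cons S198_212_364_401_19 (SL.cons S198_212_364_401_20 (SL.cons S198_212_364_401_21 (SL.cons S198_212_364_401_22 (SL.cons S198_212_364_401_23 (SL.cons S198_212_364_401_24 (SL.cons S198_212_364_401_25 (SL.cons S198_212_364_401_26 (SL.cons S198_212_364_401_27 (SL.cons S198_212_364_401_28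 (SL.cons S198_212_364_401_29 (SL.cons S198_212_364_401_30 (SL.cons S198_212_364_401_31 (SL.cons S198_212_364_401_32 (SL.cons S198_212_364_401_33 (SL.cons S198_212_364_401_34 (SL.cons S198_212_364_401_35 (SL.cons S198_212_364_401_36 (SL.cons S198_212_364_401_37 (SL.cons S198_212_364_401_38 (SL.cons S198_212_364_401_39 (SL.cons S198_212_364_401_40 (SL.cons S198_212_364_401_41 (SL.cons S198_212_364_401_42 (SL.cons S198_212_364_401_43 (SL.cons S198_212_364_401_44 (SL.cons S198_212_364_401_45 (SL.cons S198_212_364_401_46 (SL.cons S198_212_364_401_47 (SL.cons S198_212_364_401_48 SL.nil)))))))))))))))))))))))))))))))))))))))))))))))))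
noncomputable def S198_212_364_438_0 : EL := (EL.cons 0 (TM.mk (P.cons (P.lf 7367797296 0 0) (P.cons (P.lf 270413532 0 0) (P.cons (P.lf 0 11357528 0) (P.cons (P.lf 0 846949 0) (P.cons (P.lf 7275 0 0) (P.cons (P.lf 1360 0 0) P.nil)))))) 123)
 (EL.cons 1 (TM.mk (P.cons (P.lf 0 1384003233 0) (P.cons (P.lf 134215061 0 0) (P.cons (P.lf 10263551 0 0) (P.cons (P.lf 0 214061 0) (P.cons (P.lf 0 21358 0) (P.cons (P.lf 0 5 0) P.nil)))))) 123)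
 (EL.cons 5 (TM.mk (P.cons (P.lf 4681783146 0 0) (P.cons (P.lf 0 96147034 0) (P.cons (P.lf 4038232 0 0) (P.cons (P.lf 301136 0 0) (P.cons (P.lf 0 2584 0) (P.cons (P.lf 0 484 0) P.nil)))))) 121)
 (EL.cons 9 (TM.mk (P.lf 6442450944 0 0) 2)
 EL.nil))))
noncomputable def S198_212_364_438_1 : EL := (EL.cons 0 (TM.mk (P.cons (P.cons (P.lf 2172332778 0 0) (P.cons (P.lf 0 283692344 0) (P.cons (P.lf 0 15522509 0) (P.lf 1724727 0 0)))) (P.cons (P.cons (P.lf 783155934 0 0) (P.cons (P.lf 0 98007431 0) (P.cons (P.lf 0 5362566 0) (P.lf 595832 0 0)))) (P.cons (P.cons (P.lf 0 69121957 0) (P.cons (P.lf 0 2325423 0) (P.cons (P.lf 0 127233 0) (P.lf 14134 0 0)))) (P.cons (P.cons (P.lf 0 8454417 0) (P.cons (P.lf 767350 0 0) (P.cons (P.lf 41979 0 0) P.nil))) (P.cons (P.cons (P.lf 340275 0 0) (P.cons (P.lf 37216 0 0) P.nil)) (P.cons (P.cons (P.lf 45625 0 0) P.nil) P.nil)))))) 18976)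
 (EL.cons 1 (TM.mk (P.cons (P.cons (P.lf 0 999693240 0) (P.cons (P.lf 207645985 0 0) (P.cons (P.lf 11361550 0 0) (P.lf 0 1262386 0)))) (P.cons (P.cons (P.lf 177610050 0 0) (P.cons (P.lf 6430297 0 0) (P.cons (P.lf 351839 0 0) (P.lf 0 39094 0)))) (P.cons (P.cons (P.lf 48272556 0 0) (P.cons (P.lf 0 4738864 0) (P.cons (P.lf 0 259281 0) (P.lf 28797 0 0)))) (P.cons (P.cons (P.lf 0 2396550 0) (P.cons (P.lf 0 234824 0) (P.cons (P.lf 0 12837 0) P.nil))) (P.cons (P.cons (P.lf 0 379520 0) (P.cons (P.lf 23914 0 0) P.nil)) (P.cons (P.cons (P.lf 7033 0 0) P.nil) P.nil)))))) 10584)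
 (EL.cons 5 (TM.mk (P.cons (P.cons (P.lf 2237330580 0 0) (P.cons (P.lf 0 403845156 0) (P.cons (P.lf 0 22096782 0) (P.lf 2455196 0 0)))) (P.cons (P.cons (P.lf 0 119994220 0) (P.cons (P.lf 0 6495222 0) (P.cons (P.lf 0 355396 0) (P.lf 39496 0 0)))) (P.cons (P.cons (P.lf 0 13604038 0) (P.cons (P.lf 1998812 0 0) (P.cons (P.lf 109370 0 0) (P.lf 0 12148 0)))) (P.cons (P.cons (P.lf 2426854 0 0) (P.cons (P.lf 0 90804 0) (P.cons (P.lf 0 4962 0) P.nil))) (P.cons (P.cons (P.lf 0 7339 0) (P.cons (P.lf 0 12550 0) P.nil)) (P.cons (P.cons (P.lf 0 13201 0) P.nil) P.nil)))))) 10811)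
 (EL.cons 9 (TM.mk (P.cons (P.cons (P.lf 2655631374 0 0) (P.cons (P.lf 0 445335474 0) (P.cons (P.lf 0 24366966 0) (P.lf 2707434 0 0)))) (P.cons (P.cons (P.lf 139818726 0 0) (P.cons (P.lf 0 36478500 0) (P.cons (P.lf 0 1995954 0) (P.lf 221772 0 0)))) (P.cons (P.cons (P.lf 0 33688866 0) (P.cons (P.lf 1034106 0 0) (P.cons (P.lf 56580 0 0) (P.lf 0 6282 0)))) (P.cons (P.cons (P.lf 0 511020 0) (P.cons (P.lf 160614 0 0) (P.cons (P.lf 8784 0 0) P.nil))) (P.cons (P.cons (P.lf 100269 0 0) (P.cons (P.lf 594 0 0) P.nil)) (P.cons (P.cons (P.lf 2655 0 0) P.nil) P.nil)))))) 2549)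
 (EL.cons 2 (TM.mk (P.cons (P.cons (P.lf 788380759 0 0) (P.cons (P.lf 98922839 0 0) (P.cons (P.lf 0 15102956 0) (P.cons (P.lf 0 461390 0) (P.lf 38446 0 0))))) (P.cons (P.cons (P.lf 0 54927933 0) (P.cons (P.lf 0 6892135 0) (P.cons (P.lf 1052249 0 0) (P.cons (P.lf 32144 0 0) (P.lf 0 2677 0))))) (P.cons (P.cons (P.lf 0 9131999 0) (P.cons (P.lf 0 1145846 0) (P.cons (P.lf 174940 0 0) (P.cons (P.lf 5343 0 0) P.nil)))) (P.cons (P.cons (P.lf 43768 0 0) (P.cons (P.lf 5490 0 0) (P.cons (P.lf 0 838 0) P.nil))) (P.cons (P.cons (P.lf 28361 0 0) (P.cons (P.lf 3555 0 0) P.nil)) (P.cons (P.cons (P.lf 385 0 0) P.nil) P.nil)))))) 1759)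
 (EL.cons 6 (TM.mk (P.cons (P.cons (P.lf 1002943191 0 0) (P.cons (P.lf 125845269 0 0) (P.cons (P.lf 0 19213314 0) (P.cons (P.lf 0 586962 0) (P.lf 48912 0 0))))) (P.cons (P.cons (P.lf 82153497 0 0) (P.cons (P.lf 10308288 0 0) (P.cons (P.lf 0 1573806 0) (P.cons (P.lf 0 48078 0) (P.lf 4005 0 0))))) (P.cons (P.cons (P.lf 0 2328927 0) (P.cons (P.lf 0 292224 0) (P.cons (P.lf 44613 0 0) (P.cons (P.lf 1362 0 0) P.nil)))) (P.cons (P.cons (P.lf 0 361728 0) (P.cons (P.lf 0 45387 0) (P.cons (P.lf 6927 0 0) P.nil))) (P.cons (P.cons (P.lf 0 1344 0) (P.cons (P.lf 0 168 0) P.nil)) (P.cons (P.cons (P.lf 768 0 0) P.nil) P.nil)))))) 1098)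
 EL.nil))))))
noncomputable def S198_212_364_438_2 : EL := (EL.cons 0 (TM.mk (P.cons (P.cons (P.lf 539002994 0 0) (P.cons (P.lf 0 114330884 0) (P.cons (P.lf 0 2240629 0) (P.cons (P.lf 1134467 0 0) (P.cons (P.lf 0 36803 0) (P.cons (P.lf 0 2676 0) P.nil)))))) (P.cons (P.cons (P.lf 562165005 0 0) (P.cons (P.lf 0 154074978 0) (P.cons (P.lf 1272212 0 0) (P.cons (P.lf 1998463 0 0) (P.cons (P.lf 0 88922 0) P.nil))))) (P.cons (P.cons (P.lf 0 20327051 0) (P.cons (P.lf 0 4883732 0) (P.cons (P.lf 842938 0 0) (P.cons (P.lf 151166 0 0) P.nil)))) (P.cons (P.cons (P.lf 0 14965770 0) (P.cons (P.lf 2892962 0 0) (P.cons (P.lf 81980 0 0) P.nil))) (P.cons (P.cons (P.lf 358569 0 0) (P.cons (P.lf 148475 0 0) P.nil)) (P.cons (P.cons (P.lf 147468 0 0) P.nil) P.nil)))))) 153563)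
 (EL.cons 1 (TM.mk (P.cons (P.cons (P.lf 0 588999790 0) (P.cons (P.lf 230523220 0 0) (P.cons (P.lf 0 9480658 0) (P.cons (P.lf 0 3819251 0) (P.cons (P.lf 202490 0 0) (P.cons (P.lf 14695 0 0) P.nil)))))) (P.cons (P.cons (P.lf 104989988 0 0) (P.cons (P.lf 0 1883984 0) (P.cons (P.lf 0 2901461 0) (P.cons (P.lf 0 294769 0) (P.cons (P.lf 25638 0 0) P.nil))))) (P.cons (P.cons (P.lf 48501178 0 0) (P.cons (P.lf 0 12347619 0) (P.cons (P.lf 0 167059 0) (P.cons (P.lf 130711 0 0) P.nil)))) (P.cons (P.cons (P.lf 0 1615903 0) (P.cons (P.lf 0 587712 0) (P.cons (P.lf 50773 0 0) P.nil))) (P.cons (P.cons (P.lf 0 844097 0) (P.cons (P.lf 143618 0 0) P.nil)) (P.cons (P.cons (P.lf 11620 0 0) P.nil) P.nil)))))) 82312)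
 (EL.cons 5 (TM.mk (P.cons (P.cons (P.lf 1048984058 0 0) (P.cons (P.lf 0 375443179 0) (P.cons (P.lf 12918068 0 0) (P.cons (P.lf 5944197 0 0) (P.cons (P.lf 0 306663 0) (P.cons (P.lf 0 22251 0) P.nil)))))) (P.cons (P.cons (P.lf 0 69242846 0) (P.cons (P.lf 0 1208378 0) (P.cons (P.lf 2199663 0 0) (P.cons (P.lf 255312 0 0) (P.cons (P.lf 0 20777 0) P.nil))))) (P.cons (P.cons (P.lf 0 20810385 0) (P.cons (P.lf 6186658 0 0) (P.cons (P.lf 15855 0 0) (P.cons (P.lf 0 72915 0) P.nil)))) (P.cons (P.cons (P.lf 3186431 0 0) (P.cons (P.lf 0 315214 0) (P.cons (P.lf 0 28544 0) P.nil))) (P.cons (P.cons (P.lf 140723 0 0) (P.cons (P.lf 0 65734 0) P.nil)) (P.cons (P.cons (P.lf 0 38951 0) P.nil) P.nil)))))) 85714)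
 (EL.cons 9 (TM.mk (P.cons (P.cons (P.lf 1094673138 0 0) (P.cons (P.lf 0 367141905 0) (P.cons (P.lf 10695358 0 0) (P.cons (P.lf 5600793 0 0) (P.cons (P.lf 0 282141 0) (P.cons (P.lf 0 20479 0) P.nil)))))) (P.cons (P.cons (P.lf 115268862 0 0) (P.cons (P.lf 0 49403460 0) (P.cons (P.lf 2340007 0 0) (P.cons (P.lf 852232 0 0) (P.cons (P.lf 0 46221 0) P.nil))))) (P.cons (P.cons (P.lf 0 24739209 0) (P.cons (P.lf 3926664 0 0) (P.cons (P.lf 278433 0 0) (P.cons (P.lf 0 16909 0) P.nil)))) (P.cons (P.cons (P.lf 0 1883572 0) (P.cons (P.lf 629454 0 0) (P.cons (P.lf 522 0 0) P.nil))) (P.cons (P.cons (P.lf 236647 0 0) (P.cons (P.lf 0 11428 0) P.nil)) (P.cons (P.cons (P.lf 11884 0 0) P.nil) P.nil)))))) 29560)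
 (EL.cons 2 (TM.mk (P.cons (P.cons (P.lf 649954091 0 0) (P.cons (P.lf 0 27440274 0) (P.cons (P.lf 0 32090945 0) (P.cons (P.lf 1621935 0 0) (P.cons (P.lf 292871 0 0) (P.cons (P.lf 0 14518 0) P.nil)))))) (P.cons (P.cons (P.lf 0 11063475 0) (P.cons (P.lf 0 2722348 0) (P.cons (P.lf 0 28456 0) (P.cons (P.lf 30982 0 0) (P.cons (P.lf 2655 0 0) P.nil))))) (P.cons (P.cons (P.lf 0 18157938 0) (P.cons (P.lf 0 140760 0) (P.cons (P.lf 733027 0 0) (P.cons (P.lf 0 28636 0) P.nil)))) (P.cons (P.cons (P.lf 89088 0 0) (P.cons (P.lf 130213 0 0) (P.cons (P.lf 19738 0 0) P.nil))) (P.cons (P.cons (P.lf 154040 0 0) (P.cons (P.lf 9382 0 0) P.nil)) (P.cons (P.cons (P.lf 1479 0 0) P.nil) P.nil)))))) 25947)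
 (EL.cons 6 (TM.mk (P.cons (P.cons (P.lf 826842894 0 0) (P.cons (P.lf 0 34908306 0) (P.cons (P.lf 0 40824684 0) (P.cons (P.lf 2063358 0 0) (P.cons (P.lf 372582 0 0) (P.cons (P.lf 0 18468 0) P.nil)))))) (P.cons (P.cons (P.lf 111261888 0 0) (P.cons (P.lf 0 8754798 0) (P.cons (P.lf 0 6224580 0) (P.cons (P.lf 352182 0 0) (P.cons (P.lf 59856 0 0) P.nil))))) (P.cons (P.cons (P.lf 0 8843274 0) (P.cons (P.lf 0 1396008 0) (P.cons (P.lf 117798 0 0) (P.cons (P.lf 10434 0 0) P.nil)))) (P.cons (P.cons (P.lf 0 1417602 0) (P.cons (P.lf 0 25104 0) (P.cons (P.lf 54678 0 0) P.nil))) (P.cons (P.cons (P.lf 25728 0 0) (P.cons (P.lf 11040 0 0) P.nil)) (P.cons (P.cons (P.lf 8106 0 0) P.nil) P.nil)))))) 24372)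
 EL.nil))))))
noncomputable def S198_212_364_438_3 : EL := (EL.cons 0 (TM.mk (P.cons (P.lf 1087919567 0 0) (P.cons (P.lf 0 270413532 0) (P.cons (P.lf 11357528 0 0) (P.cons (P.lf 846949 0 0) (P.cons (P.lf 0 7275 0) (P.cons (P.lf 0 1360 0) P.nil)))))) 123)
 (EL.cons 1 (TM.mk (P.cons (P.lf 1384003233 0 0) (P.cons (P.lf 0 134215061 0) (P.cons (P.lf 0 10263551 0) (P.cons (P.lf 214061 0 0) (P.cons (P.lf 21358 0 0) (P.cons (P.lf 5 0 0) P.nil)))))) 123)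
 (EL.cons 5 (TM.mk (P.cons (P.lf 1760667798 0 0) (P.cons (P.lf 96147034 0 0) (P.cons (P.lf 0 4038232 0) (P.cons (P.lf 0 301136 0) (P.cons (P.lf 2584 0 0) (P.cons (P.lf 484 0 0) P.nil)))))) 114)
 EL.nil)))
noncomputable def S198_212_364_438_4 : EL := (EL.cons 0 (TM.mk (P.cons (P.cons (P.lf 448449410 0 0) (P.cons (P.lf 0 75202616 0) (P.cons (P.lf 0 4114784 0) (P.lf 457196 0 0)))) (P.cons (P.cons (P.lf 0 87855869 0) (P.cons (P.lf 12532350 0 0) (P.cons (P.lf 685719 0 0) (P.lf 0 76190 0)))) (P.cons (P.cons (P.lf 0 6875991 0) (P.cons (P.lf 920671 0 0) (P.cons (P.lf 50373 0 0) (P.lf 0 5595 0)))) (P.cons (P.cons (P.lf 1923359 0 0) (P.cons (P.lf 0 139136 0) (P.cons (P.lf 0 7613 0) P.nil))) (P.cons (P.cons (P.lf 0 5626 0) (P.cons (P.lf 0 9110 0) P.nil)) (P.cons (P.cons (P.lf 0 9808 0) P.nil) P.nil)))))) 3555)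
 (EL.cons 1 (TM.mk (P.cons (P.cons (P.lf 570497538 0 0) (P.cons (P.lf 0 95669448 0) (P.cons (P.lf 0 5234645 0) (P.lf 581625 0 0)))) (P.cons (P.cons (P.lf 0 25287915 0) (P.cons (P.lf 1441121 0 0) (P.cons (P.lf 78851 0 0) (P.lf 0 8760 0)))) (P.cons (P.cons (P.lf 0 14380781 0) (P.cons (P.lf 1691574 0 0) (P.cons (P.lf 92553 0 0) (P.lf 0 10280 0)))) (P.cons (P.cons (P.lf 457546 0 0) (P.cons (P.lf 56276 0 0) (P.cons (P.lf 3076 0 0) P.nil))) (P.cons (P.cons (P.lf 99305 0 0) (P.cons (P.lf 0 7552 0) P.nil)) (P.cons (P.cons (P.lf 0 1355 0) P.nil) P.nil)))))) 2698)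
 (EL.cons 5 (TM.mk (P.cons (P.cons (P.lf 725761776 0 0) (P.cons (P.lf 0 121706448 0) (P.cons (P.lf 0 6659286 0) (P.lf 739918 0 0)))) (P.cons (P.cons (P.lf 77843884 0 0) (P.cons (P.lf 0 16615446 0) (P.cons (P.lf 0 909128 0) (P.lf 101012 0 0)))) (P.cons (P.cons (P.lf 0 8784824 0) (P.cons (P.lf 17350 0 0) (P.cons (P.lf 946 0 0) (P.lf 0 104 0)))) (P.cons (P.cons (P.lf 0 854200 0) (P.cons (P.lf 103008 0 0) (P.cons (P.lf 5634 0 0) P.nil))) (P.cons (P.cons (P.lf 35422 0 0) (P.cons (P.lf 3436 0 0) P.nil)) (P.cons (P.cons (P.lf 4372 0 0) P.nil) P.nil)))))) 2016)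
 EL.nil)))
noncomputable def S198_212_364_438_5 : EL := (EL.cons 0 (TM.mk (P.cons (P.cons (P.lf 184854541 0 0) (P.cons (P.lf 0 61998277 0) (P.cons (P.lf 1806096 0 0) (P.cons (P.lf 945791 0 0) (P.cons (P.lf 0 47643 0) (P.cons (P.lf 0 3457 0) P.nil)))))) (P.cons (P.cons (P.lf 0 26482340 0) (P.cons (P.lf 7067673 0 0) (P.cons (P.lf 0 53771 0) (P.cons (P.lf 0 91170 0) (P.cons (P.lf 4035 0 0) P.nil))))) (P.cons (P.cons (P.lf 0 7086083 0) (P.cons (P.lf 2089488 0 0) (P.cons (P.lf 0 32343 0) (P.cons (P.lf 0 28752 0) P.nil)))) (P.cons (P.cons (P.lf 1067440 0 0) (P.cons (P.lf 0 193881 0) (P.cons (P.lf 0 6066 0) P.nil))) (P.cons (P.cons (P.lf 89325 0 0) (P.cons (P.lf 0 27508 0) P.nil)) (P.cons (P.cons (P.lf 0 14858 0) P.nil) P.nil)))))) 17448)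
 (EL.cons 1 (TM.mk (P.cons (P.cons (P.lf 235163786 0 0) (P.cons (P.lf 0 78871470 0) (P.cons (P.lf 2297636 0 0) (P.cons (P.lf 1203191 0 0) (P.cons (P.lf 0 60609 0) (P.cons (P.lf 0 4398 0) P.nil)))))) (P.cons (P.cons (P.lf 1957462 0 0) (P.cons (P.lf 0 2964487 0) (P.cons (P.lf 279877 0 0) (P.cons (P.lf 66399 0 0) (P.cons (P.lf 0 4050 0) P.nil))))) (P.cons (P.cons (P.lf 0 9459937 0) (P.cons (P.lf 2457663 0 0) (P.cons (P.lf 0 5971 0) (P.cons (P.lf 0 30307 0) P.nil)))) (P.cons (P.cons (P.lf 0 36511 0) (P.cons (P.lf 119923 0 0) (P.cons (P.lf 0 9060 0) P.nil))) (P.cons (P.cons (P.lf 136948 0 0) (P.cons (P.lf 0 24680 0) P.nil)) (P.cons (P.cons (P.lf 185 0 0) P.nil) P.nil)))))) 14725)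
 (EL.cons 5 (TM.mk (P.cons (P.cons (P.lf 299164984 0 0) (P.cons (P.lf 0 100336802 0) (P.cons (P.lf 2922950 0 0) (P.cons (P.lf 1530648 0 0) (P.cons (P.lf 0 77106 0) (P.cons (P.lf 0 5596 0) P.nil)))))) (P.cons (P.cons (P.lf 47838896 0 0) (P.cons (P.lf 0 18980770 0) (P.cons (P.lf 799120 0 0) (P.cons (P.lf 316492 0 0) (P.cons (P.lf 0 16840 0) P.nil))))) (P.cons (P.cons (P.lf 0 5726904 0) (P.cons (P.lf 565958 0 0) (P.cons (P.lf 104310 0 0) (P.cons (P.lf 4586 0 0) P.nil)))) (P.cons (P.cons (P.lf 0 1007392 0) (P.cons (P.lf 278752 0 0) (P.cons (P.lf 2330 0 0) P.nil))) (P.cons (P.cons (P.lf 47120 0 0) (P.cons (P.lf 5970 0 0) P.nil)) (P.cons (P.cons (P.lf 9244 0 0) P.nil) P.nil)))))) 12870)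
 EL.nil)))
noncomputable def S198_212_364_438_6 : EL := (EL.cons 12 (TM.mk (P.lf 8589934592 0 0) 0)
 (EL.cons 3 (TM.mk (P.cons (P.lf 0 1528492552 0) (P.cons (P.lf 189961226 0 0) (P.cons (P.lf 3825716 0 0) (P.cons (P.lf 0 119508 0) (P.cons (P.lf 0 4953 0) (P.cons (P.lf 41 0 0) P.nil)))))) 52)
 (EL.cons 7 (TM.mk (P.cons (P.lf 0 1944480730 0) (P.cons (P.lf 0 53092371 0) (P.cons (P.lf 2954732 0 0) (P.cons (P.lf 85611 0 0) (P.cons (P.lf 0 1520 0) (P.cons (P.lf 0 96 0) P.nil)))))) 47)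
 EL.nil)))
noncomputable def S198_212_364_438_7 : EL := (EL.cons 12 (TM.mk (P.cons (P.cons (P.lf 3540841832 0 0) (P.cons (P.lf 0 593780632 0) (P.cons (P.lf 0 32489288 0) (P.lf 3609912 0 0)))) (P.cons (P.cons (P.lf 186424968 0 0) (P.cons (P.lf 0 48638000 0) (P.cons (P.lf 0 2661272 0) (P.lf 295696 0 0)))) (P.cons (P.cons (P.lf 0 44918488 0) (P.cons (P.lf 1378808 0 0) (P.cons (P.lf 75440 0 0) (P.lf 0 8376 0)))) (P.cons (P.cons (P.lf 0 681360 0) (P.cons (P.lf 214152 0 0) (P.cons (P.lf 11712 0 0) P.nil))) (P.cons (P.cons (P.lf 133692 0 0) (P.cons (P.lf 792 0 0) P.nil)) (P.cons (P.cons (P.lf 3540 0 0) P.nil) P.nil)))))) 3374)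
 (EL.cons 3 (TM.mk (P.cons (P.cons (P.lf 584866661 0 0) (P.cons (P.lf 0 211314594 0) (P.cons (P.lf 0 11562282 0) (P.lf 1284692 0 0)))) (P.cons (P.cons (P.lf 0 522923917 0) (P.cons (P.lf 8952912 0 0) (P.cons (P.lf 489868 0 0) (P.lf 0 54428 0)))) (P.cons (P.cons (P.lf 0 9212873 0) (P.cons (P.lf 3170794 0 0) (P.cons (P.lf 173490 0 0) (P.lf 0 19272 0)))) (P.cons (P.cons (P.lf 3031792 0 0) (P.cons (P.lf 42030 0 0) (P.cons (P.lf 2296 0 0) P.nil))) (P.cons (P.cons (P.lf 115357 0 0) (P.cons (P.lf 0 12454 0) P.nil)) (P.cons (P.cons (P.lf 0 7292 0) P.nil) P.nil)))))) 7550)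
 (EL.cons 7 (TM.mk (P.cons (P.cons (P.lf 0 1141090758 0) (P.cons (P.lf 223003208 0 0) (P.cons (P.lf 12201839 0 0) (P.lf 0 1355762 0)))) (P.cons (P.cons (P.lf 146152301 0 0) (P.cons (P.lf 0 2502250 0) (P.cons (P.lf 0 136910 0) (P.lf 15210 0 0)))) (P.cons (P.cons (P.lf 0 8502274 0) (P.cons (P.lf 0 696559 0) (P.cons (P.lf 0 38116 0) (P.lf 4238 0 0)))) (P.cons (P.cons (P.lf 0 953840 0) (P.cons (P.lf 75177 0 0) (P.cons (P.lf 4110 0 0) P.nil))) (P.cons (P.cons (P.lf 61054 0 0) (P.cons (P.lf 3536 0 0) P.nil)) (P.cons (P.cons (P.lf 4311 0 0) P.nil) P.nil)))))) 6518)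
 (EL.cons 10 (TM.mk (P.cons (P.cons (P.lf 0 2215300023 0) (P.cons (P.lf 0 277966920 0) (P.cons (P.lf 42438357 0 0) (P.cons (P.lf 1296486 0 0) (P.lf 0 108039 0))))) (P.cons (P.cons (P.lf 0 120973716 0) (P.cons (P.lf 0 15179292 0) (P.cons (P.lf 2317485 0 0) (P.cons (P.lf 70797 0 0) (P.lf 0 5898 0))))) (P.cons (P.cons (P.lf 5080965 0 0) (P.cons (P.lf 637539 0 0) (P.cons (P.lf 0 97335 0) (P.cons (P.lf 0 2973 0) P.nil)))) (P.cons (P.cons (P.lf 378894 0 0) (P.cons (P.lf 47541 0 0) (P.cons (P.lf 0 7257 0) P.nil))) (P.cons (P.cons (P.lf 0 3249 0) (P.cons (P.lf 0 405 0) P.nil)) (P.cons (P.cons (P.lf 0 606 0) P.nil) P.nil)))))) 912)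
 EL.nil))))
noncomputable def S198_212_364_438_8 : EL := (EL.cons 12 (TM.mk (P.cons (P.cons (P.lf 1459564184 0 0) (P.cons (P.lf 0 489522540 0) (P.cons (P.lf 14260478 0 0) (P.cons (P.lf 7467724 0 0) (P.cons (P.lf 0 376188 0) (P.cons (P.lf 0 27306 0) P.nil)))))) (P.cons (P.cons (P.lf 153691816 0 0) (P.cons (P.lf 0 65871280 0) (P.cons (P.lf 3120010 0 0) (P.cons (P.lf 1136310 0 0) (P.cons (P.lf 0 61628 0) P.nil))))) (P.cons (P.cons (P.lf 0 32985612 0) (P.cons (P.lf 5235552 0 0) (P.cons (P.lf 371244 0 0) (P.cons (P.lf 0 22546 0) P.nil)))) (P.cons (P.cons (P.lf 0 2511430 0) (P.cons (P.lf 839272 0 0) (P.cons (P.lf 696 0 0) P.nil))) (P.cons (P.cons (P.lf 315530 0 0) (P.cons (P.lf 0 15238 0) P.nil)) (P.cons (P.cons (P.lf 15846 0 0) P.nil) P.nil)))))) 39384)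
 (EL.cons 3 (TM.mk (P.cons (P.cons (P.lf 741888493 0 0) (P.cons (P.lf 0 342174854 0) (P.cons (P.lf 17795460 0 0) (P.cons (P.lf 6076485 0 0) (P.cons (P.lf 0 334690 0) (P.cons (P.lf 0 24296 0) P.nil)))))) (P.cons (P.cons (P.lf 0 410650166 0) (P.cons (P.lf 62984211 0 0) (P.cons (P.lf 4890332 0 0) (P.cons (P.lf 0 224880 0) (P.cons (P.lf 0 13236 0) P.nil))))) (P.cons (P.cons (P.lf 0 46328068 0) (P.cons (P.lf 15202258 0 0) (P.cons (P.lf 72312 0 0) (P.cons (P.lf 0 175525 0) P.nil)))) (P.cons (P.cons (P.lf 7710159 0 0) (P.cons (P.lf 0 285267 0) (P.cons (P.lf 0 77340 0) P.nil))) (P.cons (P.cons (P.lf 553566 0 0) (P.cons (P.lf 0 153609 0) P.nil)) (P.cons (P.cons (P.lf 0 50458 0) P.nil) P.nil)))))) 90213)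
 (EL.cons 7 (TM.mk (P.cons (P.cons (P.lf 0 610336352 0) (P.cons (P.lf 230791766 0 0) (P.cons (P.lf 0 8910976 0) (P.cons (P.lf 0 3760160 0) (P.cons (P.lf 197404 0 0) (P.cons (P.lf 14329 0 0) P.nil)))))) (P.cons (P.cons (P.lf 114772846 0 0) (P.cons (P.lf 0 17603489 0) (P.cons (P.lf 0 1366797 0) (P.cons (P.lf 62849 0 0) (P.cons (P.lf 3699 0 0) P.nil))))) (P.cons (P.cons (P.lf 4249393 0 0) (P.cons (P.lf 0 2914683 0) (P.cons (P.lf 83372 0 0) (P.cons (P.lf 44293 0 0) P.nil)))) (P.cons (P.cons (P.lf 0 3342691 0) (P.cons (P.lf 490586 0 0) (P.cons (P.lf 22212 0 0) P.nil))) (P.cons (P.cons (P.lf 105121 0 0) (P.cons (P.lf 28012 0 0) P.nil)) (P.cons (P.cons (P.lf 27907 0 0) P.nil) P.nil)))))) 50569)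
 (EL.cons 10 (TM.mk (P.cons (P.cons (P.lf 0 1826329848 0) (P.cons (P.lf 77105436 0 0) (P.cons (P.lf 90173538 0 0) (P.cons (P.lf 0 4557546 0) (P.cons (P.lf 0 822960 0) (P.cons (P.lf 40794 0 0) P.nil)))))) (P.cons (P.cons (P.lf 0 195888804 0) (P.cons (P.lf 17232300 0 0) (P.cons (P.lf 11286744 0 0) (P.cons (P.lf 0 653472 0) (P.cons (P.lf 0 109740 0) P.nil))))) (P.cons (P.cons (P.lf 22106406 0 0) (P.cons (P.lf 2730156 0 0) (P.cons (P.lf 0 431352 0) (P.cons (P.lf 0 12138 0) P.nil)))) (P.cons (P.cons (P.lf 2149536 0 0) (P.cons (P.lf 10494 0 0) (P.cons (P.lf 0 87882 0) P.nil))) (P.cons (P.cons (P.lf 0 89136 0) (P.cons (P.lf 0 19830 0) P.nil)) (P.cons (P.cons (P.lf 0 10998 0) P.nil) P.nil)))))) 40026)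
 EL.nil))))
noncomputable def S198_212_364_438_9 : EL := (EL.cons 3 (TM.mk (P.cons (P.lf 0 1528492552 0) (P.cons (P.lf 189961226 0 0) (P.cons (P.lf 3825716 0 0) (P.cons (P.lf 0 119508 0) (P.cons (P.lf 0 4953 0) (P.cons (P.lf 41 0 0) P.nil)))))) 52)
 (EL.cons 7 (TM.mk (P.cons (P.lf 0 1944480730 0) (P.cons (P.lf 0 53092371 0) (P.cons (P.lf 2954732 0 0) (P.cons (P.lf 85611 0 0) (P.cons (P.lf 0 1520 0) (P.cons (P.lf 0 96 0) P.nil)))))) 47)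
 EL.nil))
noncomputable def S198_212_364_438_10 : EL := (EL.cons 3 (TM.mk (P.cons (P.cons (P.lf 0 630057226 0) (P.cons (P.lf 105657297 0 0) (P.cons (P.lf 5781141 0 0) (P.lf 0 642346 0)))) (P.cons (P.cons (P.lf 45131132 0 0) (P.cons (P.lf 0 4476456 0) (P.cons (P.lf 0 244934 0) (P.lf 27214 0 0)))) (P.cons (P.cons (P.lf 13692460 0 0) (P.cons (P.lf 0 1585397 0) (P.cons (P.lf 0 86745 0) (P.lf 9636 0 0)))) (P.cons (P.cons (P.lf 0 838337 0) (P.cons (P.lf 0 21015 0) (P.cons (P.lf 0 1148 0) P.nil))) (P.cons (P.cons (P.lf 0 63497 0) (P.cons (P.lf 6227 0 0) P.nil)) (P.cons (P.cons (P.lf 2557 0 0) P.nil) P.nil)))))) 1816)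
 (EL.cons 7 (TM.mk (P.cons (P.cons (P.lf 0 801530982 0) (P.cons (P.lf 134412548 0 0) (P.cons (P.lf 7354514 0 0) (P.lf 0 817166 0)))) (P.cons (P.cons (P.lf 0 64085638 0) (P.cons (P.lf 14680073 0 0) (P.cons (P.lf 803233 0 0) (P.lf 0 89247 0)))) (P.cons (P.cons (P.lf 10233794 0 0) (P.cons (P.lf 0 215743 0) (P.cons (P.lf 0 11803 0) (P.lf 1310 0 0)))) (P.cons (P.cons (P.lf 531283 0 0) (P.cons (P.lf 0 79647 0) (P.cons (P.lf 0 4356 0) P.nil))) (P.cons (P.cons (P.lf 0 40271 0) (P.cons (P.lf 0 1408 0) P.nil)) (P.cons (P.cons (P.lf 0 2382 0) P.nil) P.nil)))))) 1360)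
 EL.nil))
noncomputable def S198_212_364_438_11 : EL := (EL.cons 3 (TM.mk (P.cons (P.cons (P.lf 0 259714781 0) (P.cons (P.lf 87105616 0 0) (P.cons (P.lf 0 2537508 0) (P.cons (P.lf 0 1328805 0) (P.cons (P.lf 66938 0 0) (P.cons (P.lf 4858 0 0) P.nil)))))) (P.cons (P.cons (P.lf 4929466 0 0) (P.cons (P.lf 895635 0 0) (P.cons (P.lf 0 239812 0) (P.cons (P.lf 0 37050 0) (P.cons (P.lf 2646 0 0) P.nil))))) (P.cons (P.cons (P.lf 9918308 0 0) (P.cons (P.lf 0 2606336 0) (P.cons (P.lf 9288 0 0) (P.cons (P.lf 32465 0 0) P.nil)))) (P.cons (P.cons (P.lf 0 234429 0) (P.cons (P.lf 0 56085 0) (P.cons (P.lf 9276 0 0) P.nil))) (P.cons (P.cons (P.lf 0 129354 0) (P.cons (P.lf 24801 0 0) P.nil)) (P.cons (P.cons (P.lf 3416 0 0) P.nil) P.nil)))))) 12917)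
 (EL.cons 7 (TM.mk (P.cons (P.cons (P.lf 0 330397676 0) (P.cons (P.lf 110811920 0 0) (P.cons (P.lf 0 3228106 0) (P.cons (P.lf 0 1690448 0) (P.cons (P.lf 85156 0 0) (P.cons (P.lf 6181 0 0) P.nil)))))) (P.cons (P.cons (P.lf 0 43812032 0) (P.cons (P.lf 17936731 0 0) (P.cons (P.lf 0 794409 0) (P.cons (P.lf 0 303379 0) (P.cons (P.lf 16275 0 0) P.nil))))) (P.cons (P.cons (P.lf 7018987 0 0) (P.cons (P.lf 0 946407 0) (P.cons (P.lf 0 98416 0) (P.cons (P.lf 649 0 0) P.nil)))) (P.cons (P.cons (P.lf 839795 0 0) (P.cons (P.lf 0 249880 0) (P.cons (P.lf 0 1236 0) P.nil))) (P.cons (P.cons (P.lf 0 65975 0) (P.cons (P.lf 0 506 0) P.nil)) (P.cons (P.cons (P.lf 0 6773 0) P.nil) P.nil)))))) 11433)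
 EL.nil))
noncomputable def S198_212_364_438_12 : EL := (EL.cons 4 (TM.mk (P.cons (P.lf 1528492552 0 0) (P.cons (P.lf 0 189961226 0) (P.cons (P.lf 0 3825716 0) (P.cons (P.lf 119508 0 0) (P.cons (P.lf 4953 0 0) (P.cons (P.lf 0 41 0) P.nil)))))) 52)
 (EL.cons 8 (TM.mk (P.cons (P.lf 1944480730 0 0) (P.cons (P.lf 53092371 0 0) (P.cons (P.lf 0 2954732 0) (P.cons (P.lf 0 85611 0) (P.cons (P.lf 1520 0 0) (P.cons (P.lf 96 0 0) P.nil)))))) 47)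
 EL.nil))
noncomputable def S198_212_364_438_13 : EL := (EL.cons 4 (TM.mk (P.cons (P.cons (P.lf 630057226 0 0) (P.cons (P.lf 0 105657297 0) (P.cons (P.lf 0 5781141 0) (P.lf 642346 0 0)))) (P.cons (P.cons (P.lf 0 45131132 0) (P.cons (P.lf 4476456 0 0) (P.cons (P.lf 244934 0 0) (P.lf 0 27214 0)))) (P.cons (P.cons (P.lf 0 13692460 0) (P.cons (P.lf 1585397 0 0) (P.cons (P.lf 86745 0 0) (P.lf 0 9636 0)))) (P.cons (P.cons (P.lf 838337 0 0) (P.cons (P.lf 21015 0 0) (P.cons (P.lf 1148 0 0) P.nil))) (P.cons (P.cons (P.lf 63497 0 0) (P.cons (P.lf 0 6227 0) P.nil)) (P.cons (P.cons (P.lf 0 2557 0) P.nil) P.nil)))))) 1816)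
 (EL.cons 8 (TM.mk (P.cons (P.cons (P.lf 801530982 0 0) (P.cons (P.lf 0 134412548 0) (P.cons (P.lf 0 7354514 0) (P.lf 817166 0 0)))) (P.cons (P.cons (P.lf 64085638 0 0) (P.cons (P.lf 0 14680073 0) (P.cons (P.lf 0 803233 0) (P.lf 89247 0 0)))) (P.cons (P.cons (P.lf 0 10233794 0) (P.cons (P.lf 215743 0 0) (P.cons (P.lf 11803 0 0) (P.lf 0 1310 0)))) (P.cons (P.cons (P.lf 0 531283 0) (P.cons (P.lf 79647 0 0) (P.cons (P.lf 4356 0 0) P.nil))) (P.cons (P.cons (P.lf 40271 0 0) (P.cons (P.lf 1408 0 0) P.nil)) (P.cons (P.cons (P.lf 2382 0 0) P.nil) P.nil)))))) 1360)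
 EL.nil))
noncomputable def S198_212_364_438_14 : EL := (EL.cons 4 (TM.mk (P.cons (P.cons (P.lf 259714781 0 0) (P.cons (P.lf 0 87105616 0) (P.cons (P.lf 2537508 0 0) (P.cons (P.lf 1328805 0 0) (P.cons (P.lf 0 66938 0) (P.cons (P.lf 0 4858 0) P.nil)))))) (P.cons (P.cons (P.lf 0 4929466 0) (P.cons (P.lf 0 895635 0) (P.cons (P.lf 239812 0 0) (P.cons (P.lf 37050 0 0) (P.cons (P.lf 0 2646 0) P.nil))))) (P.cons (P.cons (P.lf 0 9918308 0) (P.cons (P.lf 2606336 0 0) (P.cons (P.lf 0 9288 0) (P.cons (P.lf 0 32465 0) P.nil)))) (P.cons (P.cons (P.lf 234429 0 0) (P.cons (P.lf 56085 0 0) (P.cons (P.lf 0 9276 0) P.nil))) (P.cons (P.cons (P.lf 129354 0 0) (P.cons (P.lf 0 24801 0) P.nil)) (P.cons (P.cons (P.lf 0 3416 0) P.nil) P.nil)))))) 12917)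
 (EL.cons 8 (TM.mk (P.cons (P.cons (P.lf 330397676 0 0) (P.cons (P.lf 0 110811920 0) (P.cons (P.lf 3228106 0 0) (P.cons (P.lf 1690448 0 0) (P.cons (P.lf 0 85156 0) (P.cons (P.lf 0 6181 0) P.nil)))))) (P.cons (P.cons (P.lf 43812032 0 0) (P.cons (P.lf 0 17936731 0) (P.cons (P.lf 794409 0 0) (P.cons (P.lf 303379 0 0) (P.cons (P.lf 0 16275 0) P.nil))))) (P.cons (P.cons (P.lf 0 7018987 0) (P.cons (P.lf 946407 0 0) (P.cons (P.lf 98416 0 0) (P.cons (P.lf 0 649 0) P.nil)))) (P.cons (P.cons (P.lf 0 839795 0) (P.cons (P.lf 249880 0 0) (P.cons (P.lf 1236 0 0) P.nil))) (P.cons (P.cons (P.lf 65975 0 0) (P.cons (P.lf 506 0 0) P.nil)) (P.cons (P.cons (P.lf 6773 0 0) P.nil) P.nil)))))) 11433)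
 EL.nil))
noncomputable def S198_212_364_438_15 : EL := (EL.cons 4 (TM.mk (P.cons (P.lf 0 580223769 0) (P.cons (P.lf 144220550 0 0) (P.cons (P.lf 0 6057348 0) (P.cons (P.lf 0 451706 0) (P.cons (P.lf 3880 0 0) (P.cons (P.lf 725 0 0) P.nil)))))) 68)
 (EL.cons 8 (TM.mk (P.cons (P.lf 0 738135058 0) (P.cons (P.lf 71581366 0 0) (P.cons (P.lf 5473894 0 0) (P.cons (P.lf 0 114166 0) (P.cons (P.lf 0 11391 0) (P.cons (P.lf 0 3 0) P.nil)))))) 62)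
 EL.nil))
noncomputable def S198_212_364_438_16 : EL := (EL.cons 4 (TM.mk (P.cons (P.cons (P.lf 0 239173019 0) (P.cons (P.lf 40108062 0 0) (P.cons (P.lf 2194551 0 0) (P.lf 0 243838 0)))) (P.cons (P.cons (P.lf 46856463 0 0) (P.cons (P.lf 0 6683920 0) (P.cons (P.lf 0 365716 0) (P.lf 40635 0 0)))) (P.cons (P.cons (P.lf 3667195 0 0) (P.cons (P.lf 0 491025 0) (P.cons (P.lf 0 26865 0) (P.lf 2984 0 0)))) (P.cons (P.cons (P.lf 0 1025791 0) (P.cons (P.lf 74205 0 0) (P.cons (P.lf 4060 0 0) P.nil))) (P.cons (P.cons (P.lf 3000 0 0) (P.cons (P.lf 4859 0 0) P.nil)) (P.cons (P.cons (P.lf 5231 0 0) P.nil) P.nil)))))) 1905)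
 (EL.cons 8 (TM.mk (P.cons (P.cons (P.lf 0 304265354 0) (P.cons (P.lf 51023706 0 0) (P.cons (P.lf 2791811 0 0) (P.lf 0 310200 0)))) (P.cons (P.cons (P.lf 13486888 0 0) (P.cons (P.lf 0 768598 0) (P.cons (P.lf 0 42054 0) (P.lf 4672 0 0)))) (P.cons (P.cons (P.lf 7669750 0 0) (P.cons (P.lf 0 902173 0) (P.cons (P.lf 0 49362 0) (P.lf 5483 0 0)))) (P.cons (P.cons (P.lf 0 244025 0) (P.cons (P.lf 0 30014 0) (P.cons (P.lf 0 1641 0) P.nil))) (P.cons (P.cons (P.lf 0 52963 0) (P.cons (P.lf 4028 0 0) P.nil)) (P.cons (P.cons (P.lf 723 0 0) P.nil) P.nil)))))) 1429)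
 EL.nil))
noncomputable def S198_212_364_438_17 : EL := (EL.cons 4 (TM.mk (P.cons (P.cons (P.lf 0 98589089 0) (P.cons (P.lf 33065747 0 0) (P.cons (P.lf 0 963251 0) (P.cons (P.lf 0 504421 0) (P.cons (P.lf 25410 0 0) (P.cons (P.lf 1844 0 0) P.nil)))))) (P.cons (P.cons (P.lf 14123914 0 0) (P.cons (P.lf 0 3769425 0) (P.cons (P.lf 28678 0 0) (P.cons (P.lf 48624 0 0) (P.cons (P.lf 0 2152 0) P.nil))))) (P.cons (P.cons (P.lf 3779244 0 0) (P.cons (P.lf 0 1114394 0) (P.cons (P.lf 17250 0 0) (P.cons (P.lf 15334 0 0) P.nil)))) (P.cons (P.cons (P.lf 0 569301 0) (P.cons (P.lf 103403 0 0) (P.cons (P.lf 3235 0 0) P.nil))) (P.cons (P.cons (P.lf 0 47640 0) (P.cons (P.lf 14670 0 0) P.nil)) (P.cons (P.cons (P.lf 7924 0 0) P.nil) P.nil)))))) 9316)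
 (EL.cons 8 (TM.mk (P.cons (P.cons (P.lf 0 125420686 0) (P.cons (P.lf 42064784 0 0) (P.cons (P.lf 0 1225406 0) (P.cons (P.lf 0 641702 0) (P.cons (P.lf 32325 0 0) (P.cons (P.lf 2346 0 0) P.nil)))))) (P.cons (P.cons (P.lf 0 1043980 0) (P.cons (P.lf 1581060 0 0) (P.cons (P.lf 0 149268 0) (P.cons (P.lf 0 35413 0) (P.cons (P.lf 2160 0 0) P.nil))))) (P.cons (P.cons (P.lf 5045300 0 0) (P.cons (P.lf 0 1310754 0) (P.cons (P.lf 3185 0 0) (P.cons (P.lf 16164 0 0) P.nil)))) (P.cons (P.cons (P.lf 19473 0 0) (P.cons (P.lf 0 63959 0) (P.cons (P.lf 4832 0 0) P.nil))) (P.cons (P.cons (P.lf 0 73039 0) (P.cons (P.lf 13163 0 0) P.nil)) (P.cons (P.cons (P.lf 0 99 0) P.nil) P.nil)))))) 7842)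
 EL.nil))
noncomputable def S198_212_364_438_18 : EL := (EL.cons 4 (TM.mk (P.cons (P.lf 220255978 0 0) (P.cons (P.lf 0 82120312 0) (P.cons (P.lf 8552062 0 0) (P.cons (P.lf 39948 0 0) (P.cons (P.lf 0 32104 0) (P.cons (P.lf 0 525 0) P.nil)))))) 109)
 (EL.cons 8 (TM.mk (P.cons (P.lf 280199929 0 0) (P.cons (P.lf 0 61995939 0) (P.cons (P.lf 597780 0 0) (P.cons (P.lf 391501 0 0) (P.cons (P.lf 2922 0 0) (P.cons (P.lf 0 902 0) P.nil)))))) 74)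
 EL.nil))
noncomputable def S198_212_364_438_19 : EL := (EL.cons 4 (TM.mk (P.cons (P.cons (P.lf 90791328 0 0) (P.cons (P.lf 0 15225229 0) (P.cons (P.lf 0 833062 0) (P.lf 92562 0 0)))) (P.cons (P.cons (P.lf 0 29070514 0) (P.cons (P.lf 4429444 0 0) (P.cons (P.lf 242360 0 0) (P.lf 0 26928 0)))) (P.cons (P.cons (P.lf 591233 0 0) (P.cons (P.lf 0 90825 0) (P.cons (P.lf 0 4969 0) (P.lf 552 0 0)))) (P.cons (P.cons (P.lf 614022 0 0) (P.cons (P.lf 0 58875 0) (P.cons (P.lf 0 3221 0) P.nil))) (P.cons (P.cons (P.lf 0 47145 0) (P.cons (P.lf 1338 0 0) P.nil)) (P.cons (P.cons (P.lf 0 2986 0) P.nil) P.nil)))))) 1788)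
 (EL.cons 8 (TM.mk (P.cons (P.cons (P.lf 115500720 0 0) (P.cons (P.lf 0 19368865 0) (P.cons (P.lf 0 1059786 0) (P.lf 117753 0 0)))) (P.cons (P.cons (P.lf 0 19474135 0) (P.cons (P.lf 2698928 0 0) (P.cons (P.lf 147674 0 0) (P.lf 0 16408 0)))) (P.cons (P.cons (P.lf 0 2564292 0) (P.cons (P.lf 354687 0 0) (P.cons (P.lf 19406 0 0) (P.lf 0 2155 0)))) (P.cons (P.cons (P.lf 476316 0 0) (P.cons (P.lf 0 33412 0) (P.cons (P.lf 0 1828 0) P.nil))) (P.cons (P.cons (P.lf 15854 0 0) (P.cons (P.lf 0 3842 0) P.nil)) (P.cons (P.cons (P.lf 0 3252 0) P.nil) P.nil)))))) 1361)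
 EL.nil))
noncomputable def S198_212_364_438_20 : EL := (EL.cons 4 (TM.mk (P.cons (P.cons (P.lf 37424933 0 0) (P.cons (P.lf 0 12551930 0) (P.cons (P.lf 365655 0 0) (P.cons (P.lf 191480 0 0) (P.cons (P.lf 0 9645 0) (P.cons (P.lf 0 699 0) P.nil)))))) (P.cons (P.cons (P.lf 0 10012686 0) (P.cons (P.lf 2990849 0 0) (P.cons (P.lf 0 56329 0) (P.cons (P.lf 0 42255 0) (P.cons (P.lf 2015 0 0) P.nil))))) (P.cons (P.cons (P.lf 0 861963 0) (P.cons (P.lf 276614 0 0) (P.cons (P.lf 0 6110 0) (P.cons (P.lf 0 4005 0) P.nil)))) (P.cons (P.cons (P.lf 410750 0 0) (P.cons (P.lf 0 96389 0) (P.cons (P.lf 0 358 0) P.nil))) (P.cons (P.cons (P.lf 0 5479 0) (P.cons (P.lf 0 1678 0) P.nil)) (P.cons (P.cons (P.lf 0 5926 0) P.nil) P.nil)))))) 6682)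
 (EL.cons 8 (TM.mk (P.cons (P.cons (P.lf 47610348 0 0) (P.cons (P.lf 0 15968012 0) (P.cons (P.lf 465170 0 0) (P.cons (P.lf 243593 0 0) (P.cons (P.lf 0 12270 0) (P.cons (P.lf 0 890 0) P.nil)))))) (P.cons (P.cons (P.lf 0 5520719 0) (P.cons (P.lf 1384327 0 0) (P.cons (P.lf 0 1148 0) (P.cons (P.lf 0 16830 0) (P.cons (P.lf 704 0 0) P.nil))))) (P.cons (P.cons (P.lf 0 2083640 0) (P.cons (P.lf 612126 0 0) (P.cons (P.lf 0 9415 0) (P.cons (P.lf 0 8416 0) P.nil)))) (P.cons (P.cons (P.lf 233361 0 0) (P.cons (P.lf 0 37304 0) (P.cons (P.lf 0 1789 0) P.nil))) (P.cons (P.cons (P.lf 33623 0 0) (P.cons (P.lf 0 9358 0) P.nil)) (P.cons (P.cons (P.lf 0 3539 0) P.nil) P.nil)))))) 5507)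
 EL.nil))
noncomputable def S198_212_364_438_21 : EL := (EL.cons 4 (TM.mk (P.cons (P.cons (P.lf 0 1214923887 0) (P.cons (P.lf 316971891 0 0) (P.cons (P.lf 17343423 0 0) (P.lf 0 1927038 0)))) (P.cons (P.cons (P.lf 568055049 0 0) (P.cons (P.lf 0 13429368 0) (P.cons (P.lf 0 734802 0) (P.lf 81642 0 0)))) (P.cons (P.cons (P.lf 22905333 0 0) (P.cons (P.lf 0 4756191 0) (P.cons (P.lf 0 260235 0) (P.lf 28908 0 0)))) (P.cons (P.cons (P.lf 0 3870129 0) (P.cons (P.lf 0 63045 0) (P.cons (P.lf 0 3444 0) P.nil))) (P.cons (P.cons (P.lf 0 178854 0) (P.cons (P.lf 18681 0 0) P.nil)) (P.cons (P.cons (P.lf 9849 0 0) P.nil) P.nil)))))) 5715)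
 (EL.cons 8 (TM.mk (P.cons (P.cons (P.lf 339559776 0 0) (P.cons (P.lf 0 88590660 0) (P.cons (P.lf 0 4847325 0) (P.lf 538596 0 0)))) (P.cons (P.cons (P.lf 0 210237939 0) (P.cons (P.lf 17182323 0 0) (P.cons (P.lf 940143 0 0) (P.lf 0 104457 0)))) (P.cons (P.cons (P.lf 18736068 0 0) (P.cons (P.lf 480816 0 0) (P.cons (P.lf 26313 0 0) (P.lf 0 2928 0)))) (P.cons (P.cons (P.lf 1485123 0 0) (P.cons (P.lf 0 154824 0) (P.cons (P.lf 0 8466 0) P.nil))) (P.cons (P.cons (P.lf 0 101325 0) (P.cons (P.lf 0 4944 0) P.nil)) (P.cons (P.cons (P.lf 0 6693 0) P.nil) P.nil)))))) 5139)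
 (EL.cons 11 (TM.mk (P.cons (P.cons (P.lf 2215300023 0 0) (P.cons (P.lf 277966920 0 0) (P.cons (P.lf 0 42438357 0) (P.cons (P.lf 0 1296486 0) (P.lf 108039 0 0))))) (P.cons (P.cons (P.lf 120973716 0 0) (P.cons (P.lf 15179292 0 0) (P.cons (P.lf 0 2317485 0) (P.cons (P.lf 0 70797 0) (P.lf 5898 0 0))))) (P.cons (P.cons (P.lf 0 5080965 0) (P.cons (P.lf 0 637539 0) (P.cons (P.lf 97335 0 0) (P.cons (P.lf 2973 0 0) P.nil)))) (P.cons (P.cons (P.lf 0 378894 0) (P.cons (P.lf 0 47541 0) (P.cons (P.lf 7257 0 0) P.nil))) (P.cons (P.cons (P.lf 3249 0 0) (P.cons (P.lf 405 0 0) P.nil)) (P.cons (P.cons (P.lf 606 0 0) P.nil) P.nil)))))) 912)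
 EL.nil)))
noncomputable def S198_212_364_438_22 : EL := (EL.cons 4 (TM.mk (P.cons (P.cons (P.lf 0 500801637 0) (P.cons (P.lf 214640235 0 0) (P.cons (P.lf 0 10166484 0) (P.cons (P.lf 0 3702645 0) (P.cons (P.lf 200814 0 0) (P.cons (P.lf 14577 0 0) P.nil)))))) (P.cons (P.cons (P.lf 207789816 0 0) (P.cons (P.lf 0 31044288 0) (P.cons (P.lf 0 2565072 0) (P.cons (P.lf 93915 0 0) (P.cons (P.lf 7941 0 0) P.nil))))) (P.cons (P.cons (P.lf 28123188 0 0) (P.cons (P.lf 0 8904297 0) (P.cons (P.lf 0 31512 0) (P.cons (P.lf 103995 0 0) P.nil)))) (P.cons (P.cons (P.lf 0 3972294 0) (P.cons (P.lf 114591 0 0) (P.cons (P.lf 43308 0 0) P.nil))) (P.cons (P.cons (P.lf 0 341460 0) (P.cons (P.lf 89205 0 0) P.nil)) (P.cons (P.cons (P.lf 26937 0 0) P.nil) P.nil)))))) 38637)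
 (EL.cons 8 (TM.mk (P.cons (P.cons (P.lf 139969338 0 0) (P.cons (P.lf 0 59989923 0) (P.cons (P.lf 2841435 0 0) (P.cons (P.lf 1034856 0 0) (P.cons (P.lf 0 56124 0) (P.cons (P.lf 0 4074 0) P.nil)))))) (P.cons (P.cons (P.lf 0 79292439 0) (P.cons (P.lf 17770110 0 0) (P.cons (P.lf 286194 0 0) (P.cons (P.lf 0 183114 0) (P.cons (P.lf 6288 0 0) P.nil))))) (P.cons (P.cons (P.lf 1384797 0 0) (P.cons (P.lf 984138 0 0) (P.cons (P.lf 0 90894 0) (P.cons (P.lf 0 21822 0) P.nil)))) (P.cons (P.cons (P.lf 2091243 0 0) (P.cons (P.lf 0 370233 0) (P.cons (P.lf 0 11724 0) P.nil))) (P.cons (P.cons (P.lf 0 85548 0) (P.cons (P.lf 0 14259 0) P.nil)) (P.cons (P.cons (P.lf 0 17340 0) P.nil) P.nil)))))) 19557)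
 (EL.cons 11 (TM.mk (P.cons (P.cons (P.lf 913164924 0 0) (P.cons (P.lf 0 38552718 0) (P.cons (P.lf 0 45086769 0) (P.cons (P.lf 2278773 0 0) (P.cons (P.lf 411480 0 0) (P.cons (P.lf 0 20397 0) P.nil)))))) (P.cons (P.cons (P.lf 97944402 0 0) (P.cons (P.lf 0 8616150 0) (P.cons (P.lf 0 5643372 0) (P.cons (P.lf 326736 0 0) (P.cons (P.lf 54870 0 0) P.nil))))) (P.cons (P.cons (P.lf 0 11053203 0) (P.cons (P.lf 0 1365078 0) (P.cons (P.lf 215676 0 0) (P.cons (P.lf 6069 0 0) P.nil)))) (P.cons (P.cons (P.lf 0 1074768 0) (P.cons (P.lf 0 5247 0) (P.cons (P.lf 43941 0 0) P.nil))) (P.cons (P.cons (P.lf 44568 0 0) (P.cons (P.lf 9915 0 0) P.nil)) (P.cons (P.cons (P.lf 5499 0 0) P.nil) P.nil)))))) 20013)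
 EL.nil)))
noncomputable def S198_212_364_438_23 : EL := (EL.cons 4 (TM.mk (P.cons (P.cons (P.lf 461191461 0 0) (P.cons (P.lf 0 120324186 0) (P.cons (P.lf 0 6583653 0) (P.lf 731511 0 0)))) (P.cons (P.cons (P.lf 0 272953593 0) (P.cons (P.lf 20051760 0 0) (P.cons (P.lf 1097151 0 0) (P.lf 0 121902 0)))) (P.cons (P.cons (P.lf 16950033 0 0) (P.cons (P.lf 1473075 0 0) (P.cons (P.lf 80598 0 0) (P.lf 0 8952 0)))) (P.cons (P.cons (P.lf 3125517 0 0) (P.cons (P.lf 0 222618 0) (P.cons (P.lf 0 12180 0) P.nil))) (P.cons (P.cons (P.lf 0 108291 0) (P.cons (P.lf 0 14574 0) P.nil)) (P.cons (P.cons (P.lf 0 17244 0) P.nil) P.nil)))))) 6453)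
 (EL.cons 8 (TM.mk (P.cons (P.cons (P.lf 0 128898666 0) (P.cons (P.lf 33629478 0 0) (P.cons (P.lf 1840068 0 0) (P.lf 0 204453 0)))) (P.cons (P.cons (P.lf 95826960 0 0) (P.cons (P.lf 0 10701975 0) (P.cons (P.lf 0 585567 0) (P.lf 65061 0 0)))) (P.cons (P.cons (P.lf 0 16708158 0) (P.cons (P.lf 543924 0 0) (P.cons (P.lf 29757 0 0) (P.lf 0 3303 0)))) (P.cons (P.cons (P.lf 110325 0 0) (P.cons (P.lf 100410 0 0) (P.cons (P.lf 5490 0 0) P.nil))) (P.cons (P.cons (P.lf 132150 0 0) (P.cons (P.lf 0 5370 0) P.nil)) (P.cons (P.cons (P.lf 0 1122 0) P.nil) P.nil)))))) 3909)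
 (EL.cons 11 (TM.mk (P.cons (P.cons (P.lf 0 840939477 0) (P.cons (P.lf 0 105517695 0) (P.cons (P.lf 16109820 0 0) (P.cons (P.lf 492150 0 0) (P.lf 0 41010 0))))) (P.cons (P.cons (P.lf 58589796 0 0) (P.cons (P.lf 7351611 0 0) (P.cons (P.lf 0 1122399 0) (P.cons (P.lf 0 34287 0) (P.lf 2856 0 0))))) (P.cons (P.cons (P.lf 9740799 0 0) (P.cons (P.lf 1222236 0 0) (P.cons (P.lf 0 186603 0) (P.cons (P.lf 0 5700 0) P.nil)))) (P.cons (P.cons (P.lf 0 46686 0) (P.cons (P.lf 0 5856 0) (P.cons (P.lf 894 0 0) P.nil))) (P.cons (P.cons (P.lf 0 30252 0) (P.cons (P.lf 0 3792 0) P.nil)) (P.cons (P.cons (P.lf 0 411 0) P.nil) P.nil)))))) 1854)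
 EL.nil)))
noncomputable def S198_212_364_438_24 : EL := (EL.cons 4 (TM.mk (P.cons (P.cons (P.lf 190106922 0 0) (P.cons (P.lf 0 81478557 0) (P.cons (P.lf 3859251 0 0) (P.cons (P.lf 1405542 0 0) (P.cons (P.lf 0 76230 0) (P.cons (P.lf 0 5532 0) P.nil)))))) (P.cons (P.cons (P.lf 0 102504609 0) (P.cons (P.lf 21910737 0 0) (P.cons (P.lf 494085 0 0) (P.cons (P.lf 0 210330 0) (P.cons (P.lf 6459 0 0) P.nil))))) (P.cons (P.cons (P.lf 0 1348554 0) (P.cons (P.lf 2119464 0 0) (P.cons (P.lf 0 118707 0) (P.cons (P.lf 0 38562 0) P.nil)))) (P.cons (P.cons (P.lf 3046971 0 0) (P.cons (P.lf 0 499446 0) (P.cons (P.lf 0 20061 0) P.nil))) (P.cons (P.cons (P.lf 0 36612 0) (P.cons (P.lf 0 36258 0) P.nil)) (P.cons (P.cons (P.lf 0 31203 0) P.nil) P.nil)))))) 25959)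
 (EL.cons 8 (TM.mk (P.cons (P.cons (P.lf 0 53133093 0) (P.cons (P.lf 22772487 0 0) (P.cons (P.lf 0 1078623 0) (P.cons (P.lf 0 392835 0) (P.cons (P.lf 21306 0 0) (P.cons (P.lf 1545 0 0) P.nil)))))) (P.cons (P.cons (P.lf 36703209 0 0) (P.cons (P.lf 0 9575793 0) (P.cons (P.lf 25410 0 0) (P.cons (P.lf 118332 0 0) (P.cons (P.lf 0 5034 0) P.nil))))) (P.cons (P.cons (P.lf 0 4133496 0) (P.cons (P.lf 407763 0 0) (P.cons (P.lf 50706 0 0) (P.cons (P.lf 627 0 0) P.nil)))) (P.cons (P.cons (P.lf 0 808008 0) (P.cons (P.lf 205635 0 0) (P.cons (P.lf 348 0 0) P.nil))) (P.cons (P.cons (P.lf 134631 0 0) (P.cons (P.lf 0 11571 0) P.nil)) (P.cons (P.cons (P.lf 4590 0 0) P.nil) P.nil)))))) 11739)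
 (EL.cons 11 (TM.mk (P.cons (P.cons (P.lf 0 346642182 0) (P.cons (P.lf 14634813 0 0) (P.cons (P.lf 17115171 0 0) (P.cons (P.lf 0 865032 0) (P.cons (P.lf 0 156198 0) (P.cons (P.lf 7743 0 0) P.nil)))))) (P.cons (P.cons (P.lf 5900520 0 0) (P.cons (P.lf 1451919 0 0) (P.cons (P.lf 15177 0 0) (P.cons (P.lf 0 16524 0) (P.cons (P.lf 0 1416 0) P.nil))))) (P.cons (P.cons (P.lf 9684234 0 0) (P.cons (P.lf 75072 0 0) (P.cons (P.lf 0 390948 0) (P.cons (P.lf 15273 0 0) P.nil)))) (P.cons (P.cons (P.lf 0 47514 0) (P.cons (P.lf 0 69447 0) (P.cons (P.lf 0 10527 0) P.nil))) (P.cons (P.cons (P.lf 0 82155 0) (P.cons (P.lf 0 5004 0) P.nil)) (P.cons (P.cons (P.lf 0 789 0) P.nil) P.nil)))))) 13827)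
 EL.nil)))
noncomputable def S198_212_364_438_25 : EL := (EL.cons 4 (TM.mk (P.cons (P.cons (P.lf 0 175070691 0) (P.cons (P.lf 45675690 0 0) (P.cons (P.lf 2499189 0 0) (P.lf 0 277686 0)))) (P.cons (P.cons (P.lf 125372418 0 0) (P.cons (P.lf 0 13288332 0) (P.cons (P.lf 0 727083 0) (P.lf 80784 0 0)))) (P.cons (P.cons (P.lf 0 18873366 0) (P.cons (P.lf 272478 0 0) (P.cons (P.lf 14907 0 0) (P.lf 0 1656 0)))) (P.cons (P.cons (P.lf 0 659832 0) (P.cons (P.lf 176625 0 0) (P.cons (P.lf 9663 0 0) P.nil))) (P.cons (P.cons (P.lf 212199 0 0) (P.cons (P.lf 0 4014 0) P.nil)) (P.cons (P.cons (P.lf 4242 0 0) P.nil) P.nil)))))) 5850)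
 (EL.cons 8 (TM.mk (P.cons (P.cons (P.lf 48930606 0 0) (P.cons (P.lf 0 12765924 0) (P.cons (P.lf 0 698499 0) (P.lf 77610 0 0)))) (P.cons (P.cons (P.lf 0 42457515 0) (P.cons (P.lf 5649075 0 0) (P.cons (P.lf 309093 0 0) (P.lf 0 34341 0)))) (P.cons (P.cons (P.lf 10740897 0 0) (P.cons (P.lf 0 679413 0) (P.cons (P.lf 0 37173 0) (P.lf 4128 0 0)))) (P.cons (P.cons (P.lf 0 735252 0) (P.cons (P.lf 0 23619 0) (P.cons (P.lf 0 1290 0) P.nil))) (P.cons (P.cons (P.lf 0 63519 0) (P.cons (P.lf 7569 0 0) P.nil)) (P.cons (P.cons (P.lf 7140 0 0) P.nil) P.nil)))))) 2979)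
 (EL.cons 11 (TM.mk (P.cons (P.cons (P.lf 319225023 0 0) (P.cons (P.lf 40055067 0 0) (P.cons (P.lf 0 6115371 0) (P.cons (P.lf 0 186822 0) (P.lf 15567 0 0))))) (P.cons (P.cons (P.lf 0 61914315 0) (P.cons (P.lf 0 7768758 0) (P.cons (P.lf 1186086 0 0) (P.cons (P.lf 36234 0 0) (P.lf 0 3018 0))))) (P.cons (P.cons (P.lf 0 1732545 0) (P.cons (P.lf 0 217392 0) (P.cons (P.lf 33189 0 0) (P.cons (P.lf 1011 0 0) P.nil)))) (P.cons (P.cons (P.lf 557892 0 0) (P.cons (P.lf 70002 0 0) (P.cons (P.lf 0 10686 0) P.nil))) (P.cons (P.cons (P.lf 17829 0 0) (P.cons (P.lf 2235 0 0) P.nil)) (P.cons (P.cons (P.lf 0 1683 0) P.nil) P.nil)))))) 2106)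
 EL.nil)))
noncomputable def S198_212_364_438_26 : EL := (EL.cons 4 (TM.mk (P.cons (P.cons (P.lf 0 72165582 0) (P.cons (P.lf 30929685 0 0) (P.cons (P.lf 0 1464990 0) (P.cons (P.lf 0 533550 0) (P.cons (P.lf 28935 0 0) (P.cons (P.lf 2100 0 0) P.nil)))))) (P.cons (P.cons (P.lf 47880033 0 0) (P.cons (P.lf 0 12161373 0) (P.cons (P.lf 0 5487 0) (P.cons (P.lf 146151 0 0) (P.cons (P.lf 0 6048 0) P.nil))))) (P.cons (P.cons (P.lf 0 4143354 0) (P.cons (P.lf 151716 0 0) (P.cons (P.lf 72039 0 0) (P.cons (P.lf 6051 0 0) P.nil)))) (P.cons (P.cons (P.lf 0 1323300 0) (P.cons (P.lf 312819 0 0) (P.cons (P.lf 2370 0 0) P.nil))) (P.cons (P.cons (P.lf 159171 0 0) (P.cons (P.lf 0 8334 0) P.nil)) (P.cons (P.cons (P.lf 13179 0 0) P.nil) P.nil)))))) 17592)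
 (EL.cons 8 (TM.mk (P.cons (P.cons (P.lf 20169600 0 0) (P.cons (P.lf 0 8644554 0) (P.cons (P.lf 409449 0 0) (P.cons (P.lf 149121 0 0) (P.cons (P.lf 0 8085 0) (P.cons (P.lf 0 585 0) P.nil)))))) (P.cons (P.cons (P.lf 0 16439409 0) (P.cons (P.lf 4709367 0 0) (P.cons (P.lf 0 60531 0) (P.cons (P.lf 0 63450 0) (P.cons (P.lf 2916 0 0) P.nil))))) (P.cons (P.cons (P.lf 3250173 0 0) (P.cons (P.lf 0 584913 0) (P.cons (P.lf 0 19074 0) (P.cons (P.lf 4968 0 0) P.nil)))) (P.cons (P.cons (P.lf 148164 0 0) (P.cons (P.lf 0 68595 0) (P.cons (P.lf 2313 0 0) P.nil))) (P.cons (P.cons (P.lf 0 94176 0) (P.cons (P.lf 14736 0 0) P.nil)) (P.cons (P.cons (P.lf 3915 0 0) P.nil) P.nil)))))) 7695)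
 (EL.cons 11 (TM.mk (P.cons (P.cons (P.lf 131587185 0 0) (P.cons (P.lf 0 5555451 0) (P.cons (P.lf 0 6497007 0) (P.cons (P.lf 328371 0 0) (P.cons (P.lf 59292 0 0) (P.cons (P.lf 0 2937 0) P.nil)))))) (P.cons (P.cons (P.lf 0 18593538 0) (P.cons (P.lf 139275 0 0) (P.cons (P.lf 801684 0 0) (P.cons (P.lf 0 34536 0) (P.cons (P.lf 0 6831 0) P.nil))))) (P.cons (P.cons (P.lf 0 3727167 0) (P.cons (P.lf 53901 0 0) (P.cons (P.lf 165381 0 0) (P.cons (P.lf 0 7398 0) P.nil)))) (P.cons (P.cons (P.lf 490806 0 0) (P.cons (P.lf 30849 0 0) (P.cons (P.lf 0 14940 0) P.nil))) (P.cons (P.cons (P.lf 38397 0 0) (P.cons (P.lf 0 1365 0) P.nil)) (P.cons (P.cons (P.lf 0 3918 0) P.nil) P.nil)))))) 9885)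
 EL.nil)))
noncomputable def S198_212_364_438_27 : EL := (EL.cons 13 (TM.mk (P.lf 0 4294967296 0) 0)
 EL.nil)
noncomputable def S198_212_364_438_28 : EL := (EL.cons 13 (TM.mk (P.cons (P.cons (P.lf 0 1770420916 0) (P.cons (P.lf 296890316 0 0) (P.cons (P.lf 16244644 0 0) (P.lf 0 1804956 0)))) (P.cons (P.cons (P.lf 0 93212484 0) (P.cons (P.lf 24319000 0 0) (P.cons (P.lf 1330636 0 0) (P.lf 0 147848 0)))) (P.cons (P.cons (P.lf 22459244 0 0) (P.cons (P.lf 0 689404 0) (P.cons (P.lf 0 37720 0) (P.lf 4188 0 0)))) (P.cons (P.cons (P.lf 340680 0 0) (P.cons (P.lf 0 107076 0) (P.cons (P.lf 0 5856 0) P.nil))) (P.cons (P.cons (P.lf 0 66846 0) (P.cons (P.lf 0 396 0) P.nil)) (P.cons (P.cons (P.lf 0 1770 0) P.nil) P.nil)))))) 1687)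
 EL.nil)
noncomputable def S198_212_364_438_29 : EL := (EL.cons 13 (TM.mk (P.cons (P.cons (P.lf 0 729782092 0) (P.cons (P.lf 244761270 0 0) (P.cons (P.lf 0 7130239 0) (P.cons (P.lf 0 3733862 0) (P.cons (P.lf 188094 0 0) (P.cons (P.lf 13653 0 0) P.nil)))))) (P.cons (P.cons (P.lf 0 76845908 0) (P.cons (P.lf 32935640 0 0) (P.cons (P.lf 0 1560005 0) (P.cons (P.lf 0 568155 0) (P.cons (P.lf 30814 0 0) P.nil))))) (P.cons (P.cons (P.lf 16492806 0 0) (P.cons (P.lf 0 2617776 0) (P.cons (P.lf 0 185622 0) (P.cons (P.lf 11273 0 0) P.nil)))) (P.cons (P.cons (P.lf 1255715 0 0) (P.cons (P.lf 0 419636 0) (P.cons (P.lf 0 348 0) P.nil))) (P.cons (P.cons (P.lf 0 157765 0) (P.cons (P.lf 7619 0 0) P.nil)) (P.cons (P.cons (P.lf 0 7923 0) P.nil) P.nil)))))) 19692)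
 EL.nil)
noncomputable def S198_212_364_438_30 : EL := (EL.cons 13 (TM.mk (P.cons (P.lf 1630392056 0 0) (P.cons (P.lf 0 202625308 0) (P.cons (P.lf 0 4080764 0) (P.cons (P.lf 127476 0 0) (P.cons (P.lf 5284 0 0) (P.cons (P.lf 0 44 0) P.nil)))))) 48)
 EL.nil)
noncomputable def S198_212_364_438_31 : EL := (EL.cons 13 (TM.mk (P.cons (P.cons (P.lf 672061042 0 0) (P.cons (P.lf 0 112701117 0) (P.cons (P.lf 0 6166551 0) (P.lf 685170 0 0)))) (P.cons (P.cons (P.lf 0 48139875 0) (P.cons (P.lf 4774887 0 0) (P.cons (P.lf 261263 0 0) (P.lf 0 29029 0)))) (P.cons (P.cons (P.lf 0 14605291 0) (P.cons (P.lf 1691091 0 0) (P.cons (P.lf 92529 0 0) (P.lf 0 10279 0)))) (P.cons (P.cons (P.lf 894227 0 0) (P.cons (P.lf 22416 0 0) (P.cons (P.lf 1225 0 0) P.nil))) (P.cons (P.cons (P.lf 67731 0 0) (P.cons (P.lf 0 6643 0) P.nil)) (P.cons (P.cons (P.lf 0 2728 0) P.nil) P.nil)))))) 1917)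
 EL.nil)
noncomputable def S198_212_364_438_32 : EL := (EL.cons 13 (TM.mk (P.cons (P.cons (P.lf 277029100 0 0) (P.cons (P.lf 0 92912658 0) (P.cons (P.lf 2706676 0 0) (P.cons (P.lf 1417393 0 0) (P.cons (P.lf 0 71401 0) (P.cons (P.lf 0 5182 0) P.nil)))))) (P.cons (P.cons (P.lf 0 5258098 0) (P.cons (P.lf 0 955345 0) (P.cons (P.lf 255800 0 0) (P.cons (P.lf 39520 0 0) (P.cons (P.lf 0 2823 0) P.nil))))) (P.cons (P.cons (P.lf 0 10579529 0) (P.cons (P.lf 2780092 0 0) (P.cons (P.lf 0 9908 0) (P.cons (P.lf 0 34630 0) P.nil)))) (P.cons (P.cons (P.lf 250058 0 0) (P.cons (P.lf 59824 0 0) (P.cons (P.lf 0 9895 0) P.nil))) (P.cons (P.cons (P.lf 137978 0 0) (P.cons (P.lf 0 26455 0) P.nil)) (P.cons (P.cons (P.lf 0 3644 0) P.nil) P.nil)))))) 13755)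
 EL.nil)
noncomputable def S198_212_364_438_33 : EL := (EL.cons 14 (TM.mk (P.lf 8589934592 0 0) 0)
 EL.nil)
noncomputable def S198_212_364_438_34 : EL := (EL.cons 14 (TM.mk (P.cons (P.cons (P.lf 3540841832 0 0) (P.cons (P.lf 0 593780632 0) (P.cons (P.lf 0 32489288 0) (P.lf 3609912 0 0)))) (P.cons (P.cons (P.lf 186424968 0 0) (P.cons (P.lf 0 48638000 0) (P.cons (P.lf 0 2661272 0) (P.lf 295696 0 0)))) (P.cons (P.cons (P.lf 0 44918488 0) (P.cons (P.lf 1378808 0 0) (P.cons (P.lf 75440 0 0) (P.lf 0 8376 0)))) (P.cons (P.cons (P.lf 0 681360 0) (P.cons (P.lf 214152 0 0) (P.cons (P.lf 11712 0 0) P.nil))) (P.cons (P.cons (P.lf 133692 0 0) (P.cons (P.lf 792 0 0) P.nil)) (P.cons (P.cons (P.lf 3540 0 0) P.nil) P.nil)))))) 3374)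
 EL.nil)
noncomputable def S198_212_364_438_35 : EL := (EL.cons 14 (TM.mk (P.cons (P.cons (P.lf 1459564184 0 0) (P.cons (P.lf 0 489522540 0) (P.cons (P.lf 14260478 0 0) (P.cons (P.lf 7467724 0 0) (P.cons (P.lf 0 376188 0) (P.cons (P.lf 0 27306 0) P.nil)))))) (P.cons (P.cons (P.lf 153691816 0 0) (P.cons (P.lf 0 65871280 0) (P.cons (P.lf 3120010 0 0) (P.cons (P.lf 1136310 0 0) (P.cons (P.lf 0 61628 0) P.nil))))) (P.cons (P.cons (P.lf 0 32985612 0) (P.cons (P.lf 5235552 0 0) (P.cons (P.lf 371244 0 0) (P.cons (P.lf 0 22546 0) P.nil)))) (P.cons (P.cons (P.lf 0 2511430 0) (P.cons (P.lf 839272 0 0) (P.cons (P.lf 696 0 0) P.nil))) (P.cons (P.cons (P.lf 315530 0 0) (P.cons (P.lf 0 15238 0) P.nil)) (P.cons (P.cons (P.lf 15846 0 0) P.nil) P.nil)))))) 39384)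
 EL.nil)
noncomputable def S198_212_364_438_36 : EL := (EL.cons 14 (TM.mk (P.cons (P.lf 0 3260784112 0) (P.cons (P.lf 405250616 0 0) (P.cons (P.lf 8161528 0 0) (P.cons (P.lf 0 254952 0) (P.cons (P.lf 0 10568 0) (P.cons (P.lf 88 0 0) P.nil)))))) 96)
 EL.nil)
noncomputable def S198_212_364_438_37 : EL := (EL.cons 14 (TM.mk (P.cons (P.cons (P.lf 0 1344122084 0) (P.cons (P.lf 225402234 0 0) (P.cons (P.lf 12333102 0 0) (P.lf 0 1370340 0)))) (P.cons (P.cons (P.lf 96279750 0 0) (P.cons (P.lf 0 9549774 0) (P.cons (P.lf 0 522526 0) (P.lf 58058 0 0)))) (P.cons (P.cons (P.lf 29210582 0 0) (P.cons (P.lf 0 3382182 0) (P.cons (P.lf 0 185058 0) (P.lf 20558 0 0)))) (P.cons (P.cons (P.lf 0 1788454 0) (P.cons (P.lf 0 44832 0) (P.cons (P.lf 0 2450 0) P.nil))) (P.cons (P.cons (P.lf 0 135462 0) (P.cons (P.lf 13286 0 0) P.nil)) (P.cons (P.cons (P.lf 5456 0 0) P.nil) P.nil)))))) 3834)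
 EL.nil)
noncomputable def S198_212_364_438_38 : EL := (EL.cons 14 (TM.mk (P.cons (P.cons (P.lf 0 554058200 0) (P.cons (P.lf 185825316 0 0) (P.cons (P.lf 0 5413352 0) (P.cons (P.lf 0 2834786 0) (P.cons (P.lf 142802 0 0) (P.cons (P.lf 10364 0 0) P.nil)))))) (P.cons (P.cons (P.lf 10516196 0 0) (P.cons (P.lf 1910690 0 0) (P.cons (P.lf 0 511600 0) (P.cons (P.lf 0 79040 0) (P.cons (P.lf 5646 0 0) P.nil))))) (P.cons (P.cons (P.lf 21159058 0 0) (P.cons (P.lf 0 5560184 0) (P.cons (P.lf 19816 0 0) (P.cons (P.lf 69260 0 0) P.nil)))) (P.cons (P.cons (P.lf 0 500116 0) (P.cons (P.lf 0 119648 0) (P.cons (P.lf 19790 0 0) P.nil))) (P.cons (P.cons (P.lf 0 275956 0) (P.cons (P.lf 52910 0 0) P.nil)) (P.cons (P.cons (P.lf 7288 0 0) P.nil) P.nil)))))) 27510)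
 EL.nil)
noncomputable def S198_212_364_438_39 : EL := (EL.cons 14 (TM.mk (P.cons (P.lf 1237810708 0 0) (P.cons (P.lf 0 307670508 0) (P.cons (P.lf 12922344 0 0) (P.cons (P.lf 963640 0 0) (P.cons (P.lf 0 8278 0) (P.cons (P.lf 0 1548 0) P.nil)))))) 132)
 EL.nil)
noncomputable def S198_212_364_438_40 : EL := (EL.cons 14 (TM.mk (P.cons (P.cons (P.lf 510235774 0 0) (P.cons (P.lf 0 85563866 0) (P.cons (P.lf 0 4681710 0) (P.lf 520188 0 0)))) (P.cons (P.cons (P.lf 0 99960456 0) (P.cons (P.lf 14259030 0 0) (P.cons (P.lf 780196 0 0) (P.lf 0 86688 0)))) (P.cons (P.cons (P.lf 0 7823350 0) (P.cons (P.lf 1047520 0 0) (P.cons (P.lf 57314 0 0) (P.lf 0 6366 0)))) (P.cons (P.cons (P.lf 2188356 0 0) (P.cons (P.lf 0 158306 0) (P.cons (P.lf 0 8662 0) P.nil))) (P.cons (P.cons (P.lf 0 6402 0) (P.cons (P.lf 0 10366 0) P.nil)) (P.cons (P.cons (P.lf 0 11160 0) P.nil) P.nil)))))) 4024)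
 EL.nil)
noncomputable def S198_212_364_438_41 : EL := (EL.cons 14 (TM.mk (P.cons (P.cons (P.lf 210323390 0 0) (P.cons (P.lf 0 70540262 0) (P.cons (P.lf 2054936 0 0) (P.cons (P.lf 1076100 0 0) (P.cons (P.lf 0 54208 0) (P.cons (P.lf 0 3934 0) P.nil)))))) (P.cons (P.cons (P.lf 0 30131018 0) (P.cons (P.lf 8041442 0 0) (P.cons (P.lf 0 61180 0) (P.cons (P.lf 0 103732 0) (P.cons (P.lf 4592 0 0) P.nil))))) (P.cons (P.cons (P.lf 0 8062388 0) (P.cons (P.lf 2377374 0 0) (P.cons (P.lf 0 36800 0) (P.cons (P.lf 0 32714 0) P.nil)))) (P.cons (P.cons (P.lf 1214510 0 0) (P.cons (P.lf 0 220594 0) (P.cons (P.lf 0 6902 0) P.nil))) (P.cons (P.cons (P.lf 101632 0 0) (P.cons (P.lf 0 31298 0) P.nil)) (P.cons (P.cons (P.lf 0 16906 0) P.nil) P.nil)))))) 19828)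
 EL.nil)
noncomputable def S198_212_364_438_42 : EL := (EL.cons 14 (TM.mk (P.cons (P.lf 0 469879420 0) (P.cons (P.lf 175190000 0 0) (P.cons (P.lf 0 18244400 0) (P.cons (P.lf 0 85224 0) (P.cons (P.lf 68490 0 0) (P.cons (P.lf 1120 0 0) P.nil)))))) 218)
 EL.nil)
noncomputable def S198_212_364_438_43 : EL := (EL.cons 14 (TM.mk (P.cons (P.cons (P.lf 0 193688168 0) (P.cons (P.lf 32480490 0 0) (P.cons (P.lf 1777200 0 0) (P.lf 0 197466 0)))) (P.cons (P.cons (P.lf 62017098 0 0) (P.cons (P.lf 0 9449482 0) (P.cons (P.lf 0 517036 0) (P.lf 57448 0 0)))) (P.cons (P.cons (P.lf 0 1261298 0) (P.cons (P.lf 193762 0 0) (P.cons (P.lf 10602 0 0) (P.lf 0 1178 0)))) (P.cons (P.cons (P.lf 0 1309914 0) (P.cons (P.lf 125600 0 0) (P.cons (P.lf 6872 0 0) P.nil))) (P.cons (P.cons (P.lf 100576 0 0) (P.cons (P.lf 0 2856 0) P.nil)) (P.cons (P.cons (P.lf 6372 0 0) P.nil) P.nil)))))) 3774)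
 EL.nil)
noncomputable def S198_212_364_438_44 : EL := (EL.cons 14 (TM.mk (P.cons (P.cons (P.lf 0 79839858 0) (P.cons (P.lf 26777452 0 0) (P.cons (P.lf 0 780064 0) (P.cons (P.lf 0 408492 0) (P.cons (P.lf 20576 0 0) (P.cons (P.lf 1492 0 0) P.nil)))))) (P.cons (P.cons (P.lf 21360398 0 0) (P.cons (P.lf 0 6380478 0) (P.cons (P.lf 120170 0 0) (P.cons (P.lf 90144 0 0) (P.cons (P.lf 0 4300 0) P.nil))))) (P.cons (P.cons (P.lf 1838856 0 0) (P.cons (P.lf 0 590110 0) (P.cons (P.lf 13036 0 0) (P.cons (P.lf 8546 0 0) P.nil)))) (P.cons (P.cons (P.lf 0 876268 0) (P.cons (P.lf 205630 0 0) (P.cons (P.lf 764 0 0) P.nil))) (P.cons (P.cons (P.lf 11690 0 0) (P.cons (P.lf 3580 0 0) P.nil)) (P.cons (P.cons (P.lf 12644 0 0) P.nil) P.nil)))))) 14210)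
 EL.nil)
noncomputable def S198_212_364_438_45 : EL := (EL.cons 14 (TM.mk (P.cons (P.cons (P.lf 601644384 0 0) (P.cons (P.lf 0 302677838 0) (P.cons (P.lf 34196174 0 0) (P.cons (P.lf 4557376 0 0) (P.cons (P.lf 0 930932 0) (P.cons (P.lf 0 7502 0) P.nil)))))) (P.cons (P.cons (P.lf 95029548 0 0) (P.cons (P.lf 0 56664984 0) (P.cons (P.lf 7887232 0 0) (P.cons (P.lf 849682 0 0) (P.cons (P.lf 0 215150 0) P.nil))))) (P.cons (P.cons (P.lf 0 17893762 0) (P.cons (P.lf 4932544 0 0) (P.cons (P.lf 168626 0 0) (P.cons (P.lf 0 78410 0) P.nil)))) (P.cons (P.cons (P.lf 0 2670568 0) (P.cons (P.lf 1264294 0 0) (P.cons (P.lf 0 96480 0) P.nil))) (P.cons (P.cons (P.lf 258572 0 0) (P.cons (P.lf 0 26756 0) P.nil)) (P.cons (P.cons (P.lf 32122 0 0) P.nil) P.nil)))))) 115402)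
 EL.nil)
noncomputable def S198_212_364_438_46 : EL := (EL.cons 15 (TM.mk (P.lf 4294967296 0 0) 0)
 EL.nil)
noncomputable def S198_212_364_438_47 : EL := (EL.cons 15 (TM.mk (P.cons (P.cons (P.lf 1770420916 0 0) (P.cons (P.lf 0 296890316 0) (P.cons (P.lf 0 16244644 0) (P.lf 1804956 0 0)))) (P.cons (P.cons (P.lf 93212484 0 0) (P.cons (P.lf 0 24319000 0) (P.cons (P.lf 0 1330636 0) (P.lf 147848 0 0)))) (P.cons (P.cons (P.lf 0 22459244 0) (P.cons (P.lf 689404 0 0) (P.cons (P.lf 37720 0 0) (P.lf 0 4188 0)))) (P.cons (P.cons (P.lf 0 340680 0) (P.cons (P.lf 107076 0 0) (P.cons (P.lf 5856 0 0) P.nil))) (P.cons (P.cons (P.lf 66846 0 0) (P.cons (P.lf 396 0 0) P.nil)) (P.cons (P.cons (P.lf 1770 0 0) P.nil) P.nil)))))) 1687)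
 EL.nil)
noncomputable def S198_212_364_438_48 : EL := (EL.cons 15 (TM.mk (P.cons (P.cons (P.lf 729782092 0 0) (P.cons (P.lf 0 244761270 0) (P.cons (P.lf 7130239 0 0) (P.cons (P.lf 3733862 0 0) (P.cons (P.lf 0 188094 0) (P.cons (P.lf 0 13653 0) P.nil)))))) (P.cons (P.cons (P.lf 76845908 0 0) (P.cons (P.lf 0 32935640 0) (P.cons (P.lf 1560005 0 0) (P.cons (P.lf 568155 0 0) (P.cons (P.lf 0 30814 0) P.nil))))) (P.cons (P.cons (P.lf 0 16492806 0) (P.cons (P.lf 2617776 0 0) (P.cons (P.lf 185622 0 0) (P.cons (P.lf 0 11273 0) P.nil)))) (P.cons (P.cons (P.lf 0 1255715 0) (P.cons (P.lf 419636 0 0) (P.cons (P.lf 348 0 0) P.nil))) (P.cons (P.cons (P.lf 157765 0 0) (P.cons (P.lf 0 7619 0) P.nil)) (P.cons (P.cons (P.lf 7923 0 0) P.nil) P.nil)))))) 19692)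
 EL.nil)
noncomputable def S198_212_364_438 : SL := (SL.cons S198_212_364_438_0 (SL.cons S198_212_364_438_1 (SL.cons S198_212_364_438_2 (SL.cons S198_212_364_438_3 (SL.cons S198_212_364_438_4 (SL.cons S198_212_364_438_5 (SL.cons S198_212_364_438_6 (SL.cons S198_212_364_438_7 (SL.cons S198_212_364_438_8 (SL.cons S198_212_364_438_9 (SL.cons S198_212_364_438_10 (SL.cons S198_212_364_438_11 (SL.cons S198_212_364_438_12 (SL.cons S198_212_364_438_13 (SL.cons S198_212_364_438_14 (SL.cons S198_212_364_438_15 (SL.cons S198_212_364_438_16 (SL.cons S198_212_364_438_17 (SL.cons S198_212_364_438_18 (SL.cons S198_212_364_438_19 (SL.cons S198_212_364_438_20 (SL.cons S198_212_364_438_21 (SL.cons S198_212_364_438_22 (SL.cons S198_212_364_438_23 (SL.cons S198_212_364_438_24 (SL.cons S198_212_364_438_25 (SL.cons S198_212_364_438_26 (SL.cons S198_212_364_438_27 (SL.cons S198_212_364_438_28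 (SL.cons S198_212_364_438_29 (SL.cons S198_212_364_438_30 (SL.cons S198_212_364_438_31 (SL.cons S198_212_364_438_32 (SL.cons S198_212_364_438_33 (SL.cons S198_212_364_438_34 (SL.cons S198_212_364_438_35 (SL.cons S198_212_364_438_36 (SL.cons S198_212_364_438_37 (SL.cons S198_212_364_438_38 (SL.cons S198_212_364_438_39 (SL.cons S198_212_364_438_40 (SL.cons S198_212_364_438_41 (SL.cons S198_212_364_438_42 (SL.cons S198_212_364_438_43 (SL.cons S198_212_364_438_44 (SL.cons S198_212_364_438_45 (SL.cons S198_212_364_438_46 (SL.cons S198_212_364_438_47 (SL.cons S198_212_364_438_48 SL.nil)))))))))))))))))))))))))))))))))))))))))))))))))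
noncomputable def S198_212_364_512_0 : EL := (EL.cons 0 (TM.mk (P.cons (P.lf 7367797296 0 0) (P.cons (P.lf 270413532 0 0) (P.cons (P.lf 0 11357528 0) (P.cons (P.lf 0 846949 0) (P.cons (P.lf 7275 0 0) (P.cons (P.lf 1360 0 0) P.nil)))))) 123)
 (EL.cons 1 (TM.mk (P.cons (P.lf 0 1384003233 0) (P.cons (P.lf 134215061 0 0) (P.cons (P.lf 10263551 0 0) (P.cons (P.lf 0 214061 0) (P.cons (P.lf 0 21358 0) (P.cons (P.lf 0 5 0) P.nil)))))) 123)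
 (EL.cons 5 (TM.mk (P.cons (P.lf 4681783146 0 0) (P.cons (P.lf 0 96147034 0) (P.cons (P.lf 4038232 0 0) (P.cons (P.lf 301136 0 0) (P.cons (P.lf 0 2584 0) (P.cons (P.lf 0 484 0) P.nil)))))) 121)
 (EL.cons 9 (TM.mk (P.lf 6442450944 0 0) 2)
 EL.nil))))
noncomputable def S198_212_364_512_1 : EL := (EL.cons 0 (TM.mk (P.cons (P.cons (P.lf 1874842651 0 0) (P.cons (P.lf 0 619126374 0) (P.cons (P.lf 0 41393347 0) (P.lf 13797786 0 0)))) (P.cons (P.cons (P.lf 680381758 0 0) (P.cons (P.lf 0 213890124 0) (P.cons (P.lf 0 14300188 0) (P.lf 4766723 0 0)))) (P.cons (P.cons (P.lf 0 71560481 0) (P.cons (P.lf 0 5074974 0) (P.cons (P.lf 0 339298 0) (P.lf 113093 0 0)))) (P.cons (P.cons (P.lf 0 7649737 0) (P.cons (P.lf 1674667 0 0) (P.cons (P.lf 111960 0 0) P.nil))) (P.cons (P.cons (P.lf 379313 0 0) (P.cons (P.lf 81233 0 0) P.nil)) (P.cons (P.cons (P.lf 43174 0 0) P.nil) P.nil))))))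 78164)
 (EL.cons 1 (TM.mk (P.cons (P.cons (P.lf 0 781948080 0) (P.cons (P.lf 453163830 0 0) (P.cons (P.lf 30297469 0 0) (P.lf 0 10099153 0)))) (P.cons (P.cons (P.lf 184353090 0 0) (P.cons (P.lf 14033393 0 0) (P.cons (P.lf 938240 0 0) (P.lf 0 312747 0)))) (P.cons (P.cons (P.lf 43303202 0 0) (P.cons (P.lf 0 10342044 0) (P.cons (P.lf 0 691435 0) (P.lf 230472 0 0)))) (P.cons (P.cons (P.lf 0 2642806 0) (P.cons (P.lf 0 512483 0) (P.cons (P.lf 0 34251 0) P.nil))) (P.cons (P.cons (P.lf 0 354438 0) (P.cons (P.lf 52194 0 0) P.nil)) (P.cons (P.cons (P.lf 8743 0 0) P.nil) P.nil)))))) 40114)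
 (EL.cons 5 (TM.mk (P.cons (P.cons (P.lf 1813843836 0 0) (P.cons (P.lf 0 881346262 0) (P.cons (P.lf 0 58924756 0) (P.lf 19641582 0 0)))) (P.cons (P.cons (P.lf 0 126805338 0) (P.cons (P.lf 0 14175072 0) (P.cons (P.lf 0 947720 0) (P.lf 315908 0 0)))) (P.cons (P.cons (P.lf 0 11508014 0) (P.cons (P.lf 4362178 0 0) (P.cons (P.lf 291646 0 0) (P.lf 0 97216 0)))) (P.cons (P.cons (P.lf 2331630 0 0) (P.cons (P.lf 0 198164 0) (P.cons (P.lf 0 13244 0) P.nil))) (P.cons (P.cons (P.lf 0 20509 0) (P.cons (P.lf 0 27404 0) P.nil)) (P.cons (P.cons (P.lf 0 12737 0) P.nil) P.nil)))))) 42753)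
 (EL.cons 9 (TM.mk (P.cons (P.cons (P.lf 2188636362 0 0) (P.cons (P.lf 0 971894190 0) (P.cons (P.lf 0 64978578 0) (P.lf 21659526 0 0)))) (P.cons (P.cons (P.lf 101566038 0 0) (P.cons (P.lf 0 79610196 0) (P.cons (P.lf 0 5322552 0) (P.lf 1774182 0 0)))) (P.cons (P.cons (P.lf 0 32604462 0) (P.cons (P.lf 2256828 0 0) (P.cons (P.lf 150882 0 0) (P.lf 0 50292 0)))) (P.cons (P.cons (P.lf 0 342588 0) (P.cons (P.lf 350526 0 0) (P.cons (P.lf 23430 0 0) P.nil))) (P.cons (P.cons (P.lf 100899 0 0) (P.cons (P.lf 1302 0 0) P.nil)) (P.cons (P.cons (P.lf 2295 0 0) P.nil) P.nil)))))) 10613)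
 (EL.cons 2 (TM.mk (P.cons (P.cons (P.lf 871777698 0 0) (P.cons (P.lf 134973078 0 0) (P.cons (P.lf 0 65025770 0) (P.cons (P.lf 0 2460765 0) (P.lf 615189 0 0))))) (P.cons (P.cons (P.lf 0 60738353 0) (P.cons (P.lf 0 9403821 0) (P.cons (P.lf 4530465 0 0) (P.cons (P.lf 171444 0 0) (P.lf 0 42859 0))))) (P.cons (P.cons (P.lf 0 10098005 0) (P.cons (P.lf 0 1563423 0) (P.cons (P.lf 753207 0 0) (P.cons (P.lf 28501 0 0) P.nil)))) (P.cons (P.cons (P.lf 48397 0 0) (P.cons (P.lf 7492 0 0) (P.cons (P.lf 0 3608 0) P.nil))) (P.cons (P.cons (P.lf 31359 0 0) (P.cons (P.lf 4854 0 0) P.nil)) (P.cons (P.cons (P.lf 427 0 0) P.nil) P.nil)))))) 12199)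
 (EL.cons 6 (TM.mk (P.cons (P.cons (P.lf 1109037093 0 0) (P.cons (P.lf 171706791 0 0) (P.cons (P.lf 0 82722915 0) (P.cons (P.lf 0 3130476 0) (P.lf 782616 0 0))))) (P.cons (P.cons (P.lf 90843903 0 0) (P.cons (P.lf 14064915 0 0) (P.cons (P.lf 0 6776031 0) (P.cons (P.lf 0 256422 0) (P.lf 64104 0 0))))) (P.cons (P.cons (P.lf 0 2575290 0) (P.cons (P.lf 0 398718 0) (P.cons (P.lf 192090 0 0) (P.cons (P.lf 7266 0 0) P.nil)))) (P.cons (P.cons (P.lf 0 399990 0) (P.cons (P.lf 0 61926 0) (P.cons (P.lf 29835 0 0) P.nil))) (P.cons (P.cons (P.lf 0 1485 0) (P.cons (P.lf 0 228 0) P.nil)) (P.cons (P.cons (P.lf 849 0 0) P.nil) P.nil)))))) 7140)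
 EL.nil))))))
noncomputable def S198_212_364_512_2 : EL := (EL.cons 0 (TM.mk (P.cons (P.cons (P.lf 423526629 0 0) (P.cons (P.lf 0 231136847 0) (P.cons (P.lf 3669895 0 0) (P.cons (P.lf 7708155 0 0) (P.cons (P.lf 0 766883 0) (P.cons (P.lf 0 56994 0) P.nil)))))) (P.cons (P.cons (P.lf 411265673 0 0) (P.cons (P.lf 0 291841942 0) (P.cons (P.lf 26699626 0 0) (P.cons (P.lf 12683137 0 0) (P.cons (P.lf 0 1853158 0) P.nil))))) (P.cons (P.cons (P.lf 0 24227527 0) (P.cons (P.lf 0 5576896 0) (P.cons (P.lf 4914655 0 0) (P.cons (P.lf 831303 0 0) P.nil)))) (P.cons (P.cons (P.lf 0 12016003 0) (P.cons (P.lf 5964325 0 0) (P.cons (P.lf 35329 0 0) P.nil))) (P.cons (P.cons (P.lf 497369 0 0) (P.cons (P.lf 253674 0 0) P.nil)) (P.cons (P.cons (P.lf 125077 0 0) P.nil) P.nil)))))) 1292768)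
 (EL.cons 1 (TM.mk (P.cons (P.cons (P.lf 0 371560103 0) (P.cons (P.lf 401965413 0 0) (P.cons (P.lf 0 78354900 0) (P.cons (P.lf 0 23028933 0) (P.cons (P.lf 4219885 0 0) (P.cons (P.lf 313580 0 0) P.nil)))))) (P.cons (P.cons (P.lf 99937165 0 0) (P.cons (P.lf 0 16919929 0) (P.cons (P.lf 0 14459365 0) (P.cons (P.lf 0 1405099 0) (P.cons (P.lf 534477 0 0) P.nil))))) (P.cons (P.cons (P.lf 36112216 0 0) (P.cons (P.lf 0 24619662 0) (P.cons (P.lf 776092 0 0) (P.cons (P.lf 872525 0 0) P.nil)))) (P.cons (P.cons (P.lf 0 2141020 0) (P.cons (P.lf 0 903072 0) (P.cons (P.lf 334578 0 0) P.nil))) (P.cons (P.cons (P.lf 0 694924 0) (P.cons (P.lf 307452 0 0) P.nil)) (P.cons (P.cons (P.lf 20803 0 0) P.nil) P.nil)))))) 655555)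
 (EL.cons 5 (TM.mk (P.cons (P.cons (P.lf 692075436 0 0) (P.cons (P.lf 0 666210005 0) (P.cons (P.lf 114826288 0 0) (P.cons (P.lf 36156959 0 0) (P.cons (P.lf 0 6390919 0) (P.cons (P.lf 0 474903 0) P.nil)))))) (P.cons (P.cons (P.lf 0 68018443 0) (P.cons (P.lf 7733478 0 0) (P.cons (P.lf 11308552 0 0) (P.cons (P.lf 1270650 0 0) (P.cons (P.lf 0 432769 0) P.nil))))) (P.cons (P.cons (P.lf 0 14677644 0) (P.cons (P.lf 12024825 0 0) (P.cons (P.lf 0 732832 0) (P.cons (P.lf 0 473471 0) P.nil)))) (P.cons (P.cons (P.lf 2843443 0 0) (P.cons (P.lf 0 739689 0) (P.cons (P.lf 0 103305 0) P.nil))) (P.cons (P.cons (P.lf 75631 0 0) (P.cons (P.lf 0 127449 0) P.nil)) (P.cons (P.cons (P.lf 0 35156 0) P.nil) P.nil)))))) 773827)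
 (EL.cons 9 (TM.mk (P.cons (P.cons (P.lf 743525898 0 0) (P.cons (P.lf 0 660345877 0) (P.cons (P.lf 102468666 0 0) (P.cons (P.lf 34321449 0 0) (P.cons (P.lf 0 5879643 0) (P.cons (P.lf 0 436915 0) P.nil)))))) (P.cons (P.cons (P.lf 69008247 0 0) (P.cons (P.lf 0 84734587 0) (P.cons (P.lf 18354486 0 0) (P.cons (P.lf 5100178 0 0) (P.cons (P.lf 0 963231 0) P.nil))))) (P.cons (P.cons (P.lf 0 20551644 0) (P.cons (P.lf 8860531 0 0) (P.cons (P.lf 895224 0 0) (P.cons (P.lf 0 156967 0) P.nil)))) (P.cons (P.cons (P.lf 0 1260795 0) (P.cons (P.lf 1218478 0 0) (P.cons (P.lf 0 80073 0) P.nil))) (P.cons (P.cons (P.lf 222759 0 0) (P.cons (P.lf 0 32881 0) P.nil)) (P.cons (P.cons (P.lf 8208 0 0) P.nil) P.nil)))))) 331513)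
 (EL.cons 2 (TM.mk (P.cons (P.cons (P.lf 592322512 0 0) (P.cons (P.lf 0 171322588 0) (P.cons (P.lf 0 102490245 0) (P.cons (P.lf 21086499 0 0) (P.cons (P.lf 3379696 0 0) (P.cons (P.lf 0 573204 0) P.nil)))))) (P.cons (P.cons (P.lf 0 13780828 0) (P.cons (P.lf 0 5353239 0) (P.cons (P.lf 314173 0 0) (P.cons (P.lf 317475 0 0) (P.cons (P.lf 26527 0 0) P.nil))))) (P.cons (P.cons (P.lf 0 17600023 0) (P.cons (P.lf 2433678 0 0) (P.cons (P.lf 2456353 0 0) (P.cons (P.lf 0 396663 0) P.nil)))) (P.cons (P.cons (P.lf 236548 0 0) (P.cons (P.lf 323893 0 0) (P.cons (P.lf 46035 0 0) P.nil))) (P.cons (P.cons (P.lf 158805 0 0) (P.cons (P.lf 596 0 0) P.nil)) (P.cons (P.cons (P.lf 579 0 0) P.nil) P.nil)))))) 269954)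
 (EL.cons 6 (TM.mk (P.cons (P.cons (P.lf 753526542 0 0) (P.cons (P.lf 0 217949028 0) (P.cons (P.lf 0 130383564 0) (P.cons (P.lf 26825316 0 0) (P.cons (P.lf 4299498 0 0) (P.cons (P.lf 0 729204 0) P.nil)))))) (P.cons (P.cons (P.lf 96691386 0 0) (P.cons (P.lf 0 39847800 0) (P.cons (P.lf 0 19364412 0) (P.cons (P.lf 4470168 0 0) (P.cons (P.lf 685482 0 0) P.nil))))) (P.cons (P.cons (P.lf 0 10110828 0) (P.cons (P.lf 0 2256534 0) (P.cons (P.lf 600948 0 0) (P.cons (P.lf 88332 0 0) P.nil)))) (P.cons (P.cons (P.lf 0 1390416 0) (P.cons (P.lf 153384 0 0) (P.cons (P.lf 185430 0 0) P.nil))) (P.cons (P.cons (P.lf 37518 0 0) (P.cons (P.lf 24666 0 0) P.nil)) (P.cons (P.cons (P.lf 8484 0 0) P.nil) P.nil)))))) 336372)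
 EL.nil))))))
noncomputable def S198_212_364_512_3 : EL := (EL.cons 0 (TM.mk (P.cons (P.lf 1087919567 0 0) (P.cons (P.lf 0 270413532 0) (P.cons (P.lf 11357528 0 0) (P.cons (P.lf 846949 0 0) (P.cons (P.lf 0 7275 0) (P.cons (P.lf 0 1360 0) P.nil)))))) 123)
 (EL.cons 1 (TM.mk (P.cons (P.lf 1384003233 0 0) (P.cons (P.lf 0 134215061 0) (P.cons (P.lf 0 10263551 0) (P.cons (P.lf 214061 0 0) (P.cons (P.lf 21358 0 0) (P.cons (P.lf 5 0 0) P.nil)))))) 123)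
 (EL.cons 5 (TM.mk (P.cons (P.lf 1760667798 0 0) (P.cons (P.lf 96147034 0 0) (P.cons (P.lf 0 4038232 0) (P.cons (P.lf 0 301136 0) (P.cons (P.lf 2584 0 0) (P.cons (P.lf 484 0 0) P.nil)))))) 114)
 EL.nil)))
noncomputable def S198_212_364_512_4 : EL := (EL.cons 0 (TM.mk (P.cons (P.cons (P.lf 369589204 0 0) (P.cons (P.lf 0 164121187 0) (P.cons (P.lf 0 10972759 0) (P.lf 3657585 0 0)))) (P.cons (P.cons (P.lf 0 74713988 0) (P.cons (P.lf 27350435 0 0) (P.cons (P.lf 1828585 0 0) (P.lf 0 609528 0)))) (P.cons (P.cons (P.lf 0 5910539 0) (P.cons (P.lf 2009265 0 0) (P.cons (P.lf 134333 0 0) (P.lf 0 44776 0)))) (P.cons (P.cons (P.lf 1777456 0 0) (P.cons (P.lf 0 303649 0) (P.cons (P.lf 0 20300 0) P.nil))) (P.cons (P.cons (P.lf 0 15178 0) (P.cons (P.lf 0 19882 0) P.nil)) (P.cons (P.cons (P.lf 0 9314 0) P.nil) P.nil)))))) 14658)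
 (EL.cons 1 (TM.mk (P.cons (P.cons (P.lf 470175065 0 0) (P.cons (P.lf 0 208787728 0) (P.cons (P.lf 0 13959058 0) (P.lf 4653018 0 0)))) (P.cons (P.cons (P.lf 0 23776700 0) (P.cons (P.lf 3145085 0 0) (P.cons (P.lf 210271 0 0) (P.lf 0 70089 0)))) (P.cons (P.cons (P.lf 0 12606931 0) (P.cons (P.lf 3691672 0 0) (P.cons (P.lf 246815 0 0) (P.lf 0 82269 0)))) (P.cons (P.cons (P.lf 516562 0 0) (P.cons (P.lf 122820 0 0) (P.cons (P.lf 8208 0 0) P.nil))) (P.cons (P.cons (P.lf 91385 0 0) (P.cons (P.lf 0 16483 0) P.nil)) (P.cons (P.cons (P.lf 0 1805 0) P.nil) P.nil)))))) 10697)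
 (EL.cons 5 (TM.mk (P.cons (P.cons (P.lf 598135956 0 0) (P.cons (P.lf 0 265610528 0) (P.cons (P.lf 0 17758100 0) (P.lf 5919366 0 0)))) (P.cons (P.cons (P.lf 60420318 0 0) (P.cons (P.lf 0 36261330 0) (P.cons (P.lf 0 2424346 0) (P.lf 808114 0 0)))) (P.cons (P.cons (P.lf 0 8766628 0) (P.cons (P.lf 37868 0 0) (P.cons (P.lf 2528 0 0) (P.lf 0 842 0)))) (P.cons (P.cons (P.lf 0 746178 0) (P.cons (P.lf 224804 0 0) (P.cons (P.lf 15026 0 0) P.nil))) (P.cons (P.cons (P.lf 39028 0 0) (P.cons (P.lf 7502 0 0) P.nil)) (P.cons (P.cons (P.lf 4076 0 0) P.nil) P.nil)))))) 7798)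
 EL.nil)))
noncomputable def S198_212_364_512_5 : EL := (EL.cons 0 (TM.mk (P.cons (P.cons (P.lf 125557240 0 0) (P.cons (P.lf 0 111510852 0) (P.cons (P.lf 17303610 0 0) (P.cons (P.lf 5795771 0 0) (P.cons (P.lf 0 992879 0) (P.cons (P.lf 0 73780 0) P.nil)))))) (P.cons (P.cons (P.lf 0 19555296 0) (P.cons (P.lf 13408258 0 0) (P.cons (P.lf 0 1201515 0) (P.cons (P.lf 0 579343 0) (P.cons (P.lf 84130 0 0) P.nil))))) (P.cons (P.cons (P.lf 0 5056254 0) (P.cons (P.lf 3888740 0 0) (P.cons (P.lf 0 438586 0) (P.cons (P.lf 0 180073 0) P.nil)))) (P.cons (P.cons (P.lf 869124 0 0) (P.cons (P.lf 0 402338 0) (P.cons (P.lf 0 5268 0) P.nil))) (P.cons (P.cons (P.lf 62537 0 0) (P.cons (P.lf 0 51468 0) P.nil)) (P.cons (P.cons (P.lf 0 13122 0) P.nil) P.nil)))))) 178253)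
 (EL.cons 1 (TM.mk (P.cons (P.cons (P.lf 159728377 0 0) (P.cons (P.lf 0 141859183 0) (P.cons (P.lf 22012890 0 0) (P.cons (P.lf 7373124 0 0) (P.cons (P.lf 0 1263097 0) (P.cons (P.lf 0 93858 0) P.nil)))))) (P.cons (P.cons (P.lf 0 665077 0) (P.cons (P.lf 0 4446223 0) (P.cons (P.lf 1808289 0 0) (P.cons (P.lf 380630 0 0) (P.cons (P.lf 0 84435 0) P.nil))))) (P.cons (P.cons (P.lf 0 7037180 0) (P.cons (P.lf 4720741 0 0) (P.cons (P.lf 0 353302 0) (P.cons (P.lf 0 194649 0) P.nil)))) (P.cons (P.cons (P.lf 72065 0 0) (P.cons (P.lf 190218 0 0) (P.cons (P.lf 0 61685 0) P.nil))) (P.cons (P.cons (P.lf 111618 0 0) (P.cons (P.lf 0 51568 0) P.nil)) (P.cons (P.cons (P.lf 0 1320 0) P.nil) P.nil)))))) 154750)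
 (EL.cons 5 (TM.mk (P.cons (P.cons (P.lf 203199390 0 0) (P.cons (P.lf 0 180466988 0) (P.cons (P.lf 28003826 0 0) (P.cons (P.lf 9379762 0 0) (P.cons (P.lf 0 1606856 0) (P.cons (P.lf 0 119404 0) P.nil)))))) (P.cons (P.cons (P.lf 29955742 0 0) (P.cons (P.lf 0 33012242 0) (P.cons (P.lf 6545366 0 0) (P.cons (P.lf 1906048 0 0) (P.cons (P.lf 0 350990 0) P.nil))))) (P.cons (P.cons (P.lf 0 5052768 0) (P.cons (P.lf 1570846 0 0) (P.cons (P.lf 454348 0 0) (P.cons (P.lf 11704 0 0) P.nil)))) (P.cons (P.cons (P.lf 0 729286 0) (P.cons (P.lf 549212 0 0) (P.cons (P.lf 0 24816 0) P.nil))) (P.cons (P.cons (P.lf 52016 0 0) (P.cons (P.lf 7340 0 0) P.nil)) (P.cons (P.cons (P.lf 7400 0 0) P.nil) P.nil)))))) 137358)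
 EL.nil)))
noncomputable def S198_212_364_512_6 : EL := (EL.cons 12 (TM.mk (P.lf 8589934592 0 0) 0)
 (EL.cons 3 (TM.mk (P.cons (P.lf 0 1528492552 0) (P.cons (P.lf 189961226 0 0) (P.cons (P.lf 3825716 0 0) (P.cons (P.lf 0 119508 0) (P.cons (P.lf 0 4953 0) (P.cons (P.lf 41 0 0) P.nil)))))) 52)
 (EL.cons 7 (TM.mk (P.cons (P.lf 0 1944480730 0) (P.cons (P.lf 0 53092371 0) (P.cons (P.lf 2954732 0 0) (P.cons (P.lf 85611 0 0) (P.cons (P.lf 0 1520 0) (P.cons (P.lf 0 96 0) P.nil)))))) 47)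
 EL.nil)))
noncomputable def S198_212_364_512_7 : EL := (EL.cons 12 (TM.mk (P.cons (P.cons (P.lf 2918181816 0 0) (P.cons (P.lf 0 1295858920 0) (P.cons (P.lf 0 86638104 0) (P.lf 28879368 0 0)))) (P.cons (P.cons (P.lf 135421384 0 0) (P.cons (P.lf 0 106146928 0) (P.cons (P.lf 0 7096736 0) (P.lf 2365576 0 0)))) (P.cons (P.cons (P.lf 0 43472616 0) (P.cons (P.lf 3009104 0 0) (P.cons (P.lf 201176 0 0) (P.lf 0 67056 0)))) (P.cons (P.cons (P.lf 0 456784 0) (P.cons (P.lf 467368 0 0) (P.cons (P.lf 31240 0 0) P.nil))) (P.cons (P.cons (P.lf 134532 0 0) (P.cons (P.lf 1736 0 0) P.nil)) (P.cons (P.cons (P.lf 3060 0 0) P.nil) P.nil)))))) 14126)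
 (EL.cons 3 (TM.mk (P.cons (P.cons (P.lf 363274472 0 0) (P.cons (P.lf 0 461170146 0) (P.cons (P.lf 0 30832758 0) (P.lf 10277584 0 0)))) (P.cons (P.cons (P.lf 0 513535565 0) (P.cons (P.lf 19538718 0 0) (P.cons (P.lf 1306312 0 0) (P.lf 0 435436 0)))) (P.cons (P.cons (P.lf 0 5887859 0) (P.cons (P.lf 6919908 0 0) (P.cons (P.lf 462646 0 0) (P.lf 0 154212 0)))) (P.cons (P.cons (P.lf 3075870 0 0) (P.cons (P.lf 91728 0 0) (P.cons (P.lf 6128 0 0) P.nil))) (P.cons (P.cons (P.lf 102296 0 0) (P.cons (P.lf 0 27180 0) P.nil)) (P.cons (P.cons (P.lf 0 7712 0) P.nil) P.nil)))))) 29858)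
 (EL.cons 7 (TM.mk (P.cons (P.cons (P.lf 0 907241474 0) (P.cons (P.lf 486679211 0 0) (P.cons (P.lf 32538243 0 0) (P.lf 0 10846081 0)))) (P.cons (P.cons (P.lf 143528347 0 0) (P.cons (P.lf 0 5460884 0) (P.cons (P.lf 0 365102 0) (P.lf 121698 0 0)))) (P.cons (P.cons (P.lf 0 9232709 0) (P.cons (P.lf 0 1520157 0) (P.cons (P.lf 0 101638 0) (P.lf 33880 0 0)))) (P.cons (P.cons (P.lf 0 875006 0) (P.cons (P.lf 164062 0 0) (P.cons (P.lf 10965 0 0) P.nil))) (P.cons (P.cons (P.lf 64768 0 0) (P.cons (P.lf 7725 0 0) P.nil)) (P.cons (P.cons (P.lf 4030 0 0) P.nil) P.nil)))))) 27306)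
 (EL.cons 10 (TM.mk (P.cons (P.cons (P.lf 0 2449640142 0) (P.cons (P.lf 0 379265808 0) (P.cons (P.lf 182718306 0 0) (P.cons (P.lf 6914598 0 0) (P.lf 0 1728648 0))))) (P.cons (P.cons (P.lf 0 133770624 0) (P.cons (P.lf 0 20711052 0) (P.cons (P.lf 9977931 0 0) (P.cons (P.lf 377592 0 0) (P.lf 0 94398 0))))) (P.cons (P.cons (P.lf 5618445 0 0) (P.cons (P.lf 869874 0 0) (P.cons (P.lf 0 419079 0) (P.cons (P.lf 0 15858 0) P.nil)))) (P.cons (P.cons (P.lf 418974 0 0) (P.cons (P.lf 64866 0 0) (P.cons (P.lf 0 31251 0) P.nil))) (P.cons (P.cons (P.lf 0 3594 0) (P.cons (P.lf 0 555 0) P.nil)) (P.cons (P.cons (P.lf 0 672 0) P.nil) P.nil)))))) 6186)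
 EL.nil))))
noncomputable def S198_212_364_512_8 : EL := (EL.cons 12 (TM.mk (P.cons (P.cons (P.lf 991367864 0 0) (P.cons (P.lf 0 880461170 0) (P.cons (P.lf 136624888 0 0) (P.cons (P.lf 45761932 0 0) (P.cons (P.lf 0 7839524 0) (P.cons (P.lf 0 582554 0) P.nil)))))) (P.cons (P.cons (P.lf 92010996 0 0) (P.cons (P.lf 0 112979450 0) (P.cons (P.lf 24472648 0 0) (P.cons (P.lf 6800238 0 0) (P.cons (P.lf 0 1284308 0) P.nil))))) (P.cons (P.cons (P.lf 0 27402192 0) (P.cons (P.lf 11814042 0 0) (P.cons (P.lf 1193632 0 0) (P.cons (P.lf 0 209290 0) P.nil)))) (P.cons (P.cons (P.lf 0 1681060 0) (P.cons (P.lf 1624638 0 0) (P.cons (P.lf 0 106764 0) P.nil))) (P.cons (P.cons (P.lf 297012 0 0) (P.cons (P.lf 0 43842 0) P.nil)) (P.cons (P.cons (P.lf 10944 0 0) P.nil) P.nil)))))) 441988)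
 (EL.cons 3 (TM.mk (P.cons (P.cons (P.lf 423227939 0 0) (P.cons (P.lf 0 579613252 0) (P.cons (P.lf 135176235 0 0) (P.cons (P.lf 36174007 0 0) (P.cons (P.lf 0 6974820 0) (P.cons (P.lf 0 518295 0) P.nil)))))) (P.cons (P.cons (P.lf 0 343014641 0) (P.cons (P.lf 144065593 0 0) (P.cons (P.lf 16509810 0 0) (P.cons (P.lf 0 2290937 0) (P.cons (P.lf 0 275816 0) P.nil))))) (P.cons (P.cons (P.lf 0 31221575 0) (P.cons (P.lf 29701005 0 0) (P.cons (P.lf 0 1631551 0) (P.cons (P.lf 0 1145589 0) P.nil)))) (P.cons (P.cons (P.lf 7343140 0 0) (P.cons (P.lf 0 905091 0) (P.cons (P.lf 0 354503 0) P.nil))) (P.cons (P.cons (P.lf 396157 0 0) (P.cons (P.lf 0 319952 0) P.nil)) (P.cons (P.cons (P.lf 0 52550 0) P.nil) P.nil)))))) 819739)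
 (EL.cons 7 (TM.mk (P.cons (P.cons (P.lf 0 392004776 0) (P.cons (P.lf 405091671 0 0) (P.cons (P.lf 0 75502589 0) (P.cons (P.lf 0 22745161 0) (P.cons (P.lf 4113886 0 0) (P.cons (P.lf 305697 0 0) P.nil)))))) (P.cons (P.cons (P.lf 95869355 0 0) (P.cons (P.lf 0 40264970 0) (P.cons (P.lf 0 4614338 0) (P.cons (P.lf 640295 0 0) (P.cons (P.lf 77093 0 0) P.nil))))) (P.cons (P.cons (P.lf 1460006 0 0) (P.cons (P.lf 0 5249381 0) (P.cons (P.lf 805725 0 0) (P.cons (P.lf 271652 0 0) P.nil)))) (P.cons (P.cons (P.lf 0 2833325 0) (P.cons (P.lf 1049492 0 0) (P.cons (P.lf 48139 0 0) P.nil))) (P.cons (P.cons (P.lf 131711 0 0) (P.cons (P.lf 49518 0 0) P.nil)) (P.cons (P.cons (P.lf 23657 0 0) P.nil) P.nil)))))) 417146)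
 (EL.cons 10 (TM.mk (P.cons (P.cons (P.lf 0 1664388762 0) (P.cons (P.lf 481405626 0 0) (P.cons (P.lf 287991108 0 0) (P.cons (P.lf 0 59251734 0) (P.cons (P.lf 0 9496734 0) (P.cons (P.lf 1610676 0 0) P.nil)))))) (P.cons (P.cons (P.lf 0 168127158 0) (P.cons (P.lf 74871420 0 0) (P.cons (P.lf 34908756 0 0) (P.cons (P.lf 0 8255898 0) (P.cons (P.lf 0 1254792 0) P.nil))))) (P.cons (P.cons (P.lf 24394248 0 0) (P.cons (P.lf 3671460 0 0) (P.cons (P.lf 0 1842918 0) (P.cons (P.lf 0 59736 0) P.nil)))) (P.cons (P.cons (P.lf 2076336 0 0) (P.cons (P.lf 0 304080 0) (P.cons (P.lf 0 293538 0) P.nil))) (P.cons (P.cons (P.lf 0 108600 0) (P.cons (P.lf 0 37692 0) P.nil)) (P.cons (P.cons (P.lf 0 11340 0) P.nil) P.nil)))))) 594978)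
 EL.nil))))
noncomputable def S198_212_364_512_9 : EL := (EL.cons 3 (TM.mk (P.cons (P.lf 0 1528492552 0) (P.cons (P.lf 189961226 0 0) (P.cons (P.lf 3825716 0 0) (P.cons (P.lf 0 119508 0) (P.cons (P.lf 0 4953 0) (P.cons (P.lf 41 0 0) P.nil)))))) 52)
 (EL.cons 7 (TM.mk (P.cons (P.lf 0 1944480730 0) (P.cons (P.lf 0 53092371 0) (P.cons (P.lf 2954732 0 0) (P.cons (P.lf 85611 0 0) (P.cons (P.lf 0 1520 0) (P.cons (P.lf 0 96 0) P.nil)))))) 47)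
 EL.nil))
noncomputable def S198_212_364_512_10 : EL := (EL.cons 3 (TM.mk (P.cons (P.cons (P.lf 0 519261133 0) (P.cons (P.lf 230585073 0 0) (P.cons (P.lf 15416379 0 0) (P.lf 0 5138792 0)))) (P.cons (P.cons (P.lf 40436956 0 0) (P.cons (P.lf 0 9769359 0) (P.cons (P.lf 0 653156 0) (P.lf 217718 0 0)))) (P.cons (P.cons (P.lf 12029953 0 0) (P.cons (P.lf 0 3459954 0) (P.cons (P.lf 0 231323 0) (P.lf 77106 0 0)))) (P.cons (P.cons (P.lf 0 860376 0) (P.cons (P.lf 0 45864 0) (P.cons (P.lf 0 3064 0) P.nil))) (P.cons (P.cons (P.lf 0 56968 0) (P.cons (P.lf 13590 0 0) P.nil)) (P.cons (P.cons (P.lf 2767 0 0) P.nil) P.nil)))))) 7393)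
 (EL.cons 7 (TM.mk (P.cons (P.cons (P.lf 0 660581084 0) (P.cons (P.lf 293340149 0 0) (P.cons (P.lf 19612038 0 0) (P.lf 0 6537346 0)))) (P.cons (P.cons (P.lf 0 48691577 0) (P.cons (P.lf 32037598 0 0) (P.cons (P.lf 2141959 0 0) (P.lf 0 713985 0)))) (P.cons (P.cons (P.lf 10007557 0 0) (P.cons (P.lf 0 470838 0) (P.cons (P.lf 0 31477 0) (P.lf 10492 0 0)))) (P.cons (P.cons (P.lf 447760 0 0) (P.cons (P.lf 0 173822 0) (P.cons (P.lf 0 11619 0) P.nil))) (P.cons (P.cons (P.lf 0 41750 0) (P.cons (P.lf 0 3075 0) P.nil)) (P.cons (P.cons (P.lf 0 2171 0) P.nil) P.nil)))))) 5591)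
 EL.nil))
noncomputable def S198_212_364_512_11 : EL := (EL.cons 3 (TM.mk (P.cons (P.cons (P.lf 0 176403949 0) (P.cons (P.lf 156669218 0 0) (P.cons (P.lf 0 24311025 0) (P.cons (P.lf 0 8142875 0) (P.cons (P.lf 1394964 0 0) (P.cons (P.lf 103659 0 0) P.nil)))))) (P.cons (P.cons (P.lf 5551069 0 0) (P.cons (P.lf 632689 0 0) (P.cons (P.lf 0 1333284 0) (P.cons (P.lf 0 198035 0) (P.cons (P.lf 55162 0 0) P.nil))))) (P.cons (P.cons (P.lf 7352239 0 0) (P.cons (P.lf 0 4992795 0) (P.cons (P.lf 389651 0 0) (P.cons (P.lf 208005 0 0) P.nil)))) (P.cons (P.cons (P.lf 0 279668 0) (P.cons (P.lf 0 65895 0) (P.cons (P.lf 54391 0 0) P.nil))) (P.cons (P.cons (P.lf 0 104081 0) (P.cons (P.lf 51070 0 0) P.nil)) (P.cons (P.cons (P.lf 4204 0 0) P.nil) P.nil)))))) 148737)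
 (EL.cons 7 (TM.mk (P.cons (P.cons (P.lf 0 224413316 0) (P.cons (P.lf 199307661 0 0) (P.cons (P.lf 0 30927413 0) (P.cons (P.lf 0 10359007 0) (P.cons (P.lf 1774612 0 0) (P.cons (P.lf 131871 0 0) P.nil)))))) (P.cons (P.cons (P.lf 0 26955697 0) (P.cons (P.lf 31016782 0 0) (P.cons (P.lf 0 6384254 0) (P.cons (P.lf 0 1822195 0) (P.cons (P.lf 339179 0 0) P.nil))))) (P.cons (P.cons (P.lf 5975270 0 0) (P.cons (P.lf 0 2278871 0) (P.cons (P.lf 0 374463 0) (P.cons (P.lf 21086 0 0) P.nil)))) (P.cons (P.cons (P.lf 591433 0 0) (P.cons (P.lf 0 488422 0) (P.cons (P.lf 26569 0 0) P.nil))) (P.cons (P.cons (P.lf 0 65527 0) (P.cons (P.lf 2976 0 0) P.nil)) (P.cons (P.cons (P.lf 0 5191 0) P.nil) P.nil)))))) 124798)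
 EL.nil))
noncomputable def S198_212_364_512_12 : EL := (EL.cons 4 (TM.mk (P.cons (P.lf 1528492552 0 0) (P.cons (P.lf 0 189961226 0) (P.cons (P.lf 0 3825716 0) (P.cons (P.lf 119508 0 0) (P.cons (P.lf 4953 0 0) (P.cons (P.lf 0 41 0) P.nil)))))) 52)
 (EL.cons 8 (TM.mk (P.cons (P.lf 1944480730 0 0) (P.cons (P.lf 53092371 0 0) (P.cons (P.lf 0 2954732 0) (P.cons (P.lf 0 85611 0) (P.cons (P.lf 1520 0 0) (P.cons (P.lf 96 0 0) P.nil)))))) 47)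
 EL.nil))
noncomputable def S198_212_364_512_13 : EL := (EL.cons 4 (TM.mk (P.cons (P.cons (P.lf 519261133 0 0) (P.cons (P.lf 0 230585073 0) (P.cons (P.lf 0 15416379 0) (P.lf 5138792 0 0)))) (P.cons (P.cons (P.lf 0 40436956 0) (P.cons (P.lf 9769359 0 0) (P.cons (P.lf 653156 0 0) (P.lf 0 217718 0)))) (P.cons (P.cons (P.lf 0 12029953 0) (P.cons (P.lf 3459954 0 0) (P.cons (P.lf 231323 0 0) (P.lf 0 77106 0)))) (P.cons (P.cons (P.lf 860376 0 0) (P.cons (P.lf 45864 0 0) (P.cons (P.lf 3064 0 0) P.nil))) (P.cons (P.cons (P.lf 56968 0 0) (P.cons (P.lf 0 13590 0) P.nil)) (P.cons (P.cons (P.lf 0 2767 0) P.nil) P.nil)))))) 7393)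
 (EL.cons 8 (TM.mk (P.cons (P.cons (P.lf 660581084 0 0) (P.cons (P.lf 0 293340149 0) (P.cons (P.lf 0 19612038 0) (P.lf 6537346 0 0)))) (P.cons (P.cons (P.lf 48691577 0 0) (P.cons (P.lf 0 32037598 0) (P.cons (P.lf 0 2141959 0) (P.lf 713985 0 0)))) (P.cons (P.cons (P.lf 0 10007557 0) (P.cons (P.lf 470838 0 0) (P.cons (P.lf 31477 0 0) (P.lf 0 10492 0)))) (P.cons (P.cons (P.lf 0 447760 0) (P.cons (P.lf 173822 0 0) (P.cons (P.lf 11619 0 0) P.nil))) (P.cons (P.cons (P.lf 41750 0 0) (P.cons (P.lf 3075 0 0) P.nil)) (P.cons (P.cons (P.lf 2171 0 0) P.nil) P.nil)))))) 5591)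
 EL.nil))
noncomputable def S198_212_364_512_14 : EL := (EL.cons 4 (TM.mk (P.cons (P.cons (P.lf 176403949 0 0) (P.cons (P.lf 0 156669218 0) (P.cons (P.lf 24311025 0 0) (P.cons (P.lf 8142875 0 0) (P.cons (P.lf 0 1394964 0) (P.cons (P.lf 0 103659 0) P.nil)))))) (P.cons (P.cons (P.lf 0 5551069 0) (P.cons (P.lf 0 632689 0) (P.cons (P.lf 1333284 0 0) (P.cons (P.lf 198035 0 0) (P.cons (P.lf 0 55162 0) P.nil))))) (P.cons (P.cons (P.lf 0 7352239 0) (P.cons (P.lf 4992795 0 0) (P.cons (P.lf 0 389651 0) (P.cons (P.lf 0 208005 0) P.nil)))) (P.cons (P.cons (P.lf 279668 0 0) (P.cons (P.lf 65895 0 0) (P.cons (P.lf 0 54391 0) P.nil))) (P.cons (P.cons (P.lf 104081 0 0) (P.cons (P.lf 0 51070 0) P.nil)) (P.cons (P.cons (P.lf 0 4204 0) P.nil) P.nil)))))) 148737)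
 (EL.cons 8 (TM.mk (P.cons (P.cons (P.lf 224413316 0 0) (P.cons (P.lf 0 199307661 0) (P.cons (P.lf 30927413 0 0) (P.cons (P.lf 10359007 0 0) (P.cons (P.lf 0 1774612 0) (P.cons (P.lf 0 131871 0) P.nil)))))) (P.cons (P.cons (P.lf 26955697 0 0) (P.cons (P.lf 0 31016782 0) (P.cons (P.lf 6384254 0 0) (P.cons (P.lf 1822195 0 0) (P.cons (P.lf 0 339179 0) P.nil))))) (P.cons (P.cons (P.lf 0 5975270 0) (P.cons (P.lf 2278871 0 0) (P.cons (P.lf 374463 0 0) (P.cons (P.lf 0 21086 0) P.nil)))) (P.cons (P.cons (P.lf 0 591433 0) (P.cons (P.lf 488422 0 0) (P.cons (P.lf 0 26569 0) P.nil))) (P.cons (P.cons (P.lf 65527 0 0) (P.cons (P.lf 0 2976 0) P.nil)) (P.cons (P.cons (P.lf 5191 0 0) P.nil) P.nil)))))) 124798)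
 EL.nil))
noncomputable def S198_212_364_512_15 : EL := (EL.cons 4 (TM.mk (P.cons (P.lf 0 580223769 0) (P.cons (P.lf 144220550 0 0) (P.cons (P.lf 0 6057348 0) (P.cons (P.lf 0 451706 0) (P.cons (P.lf 3880 0 0) (P.cons (P.lf 725 0 0) P.nil)))))) 68)
 (EL.cons 8 (TM.mk (P.cons (P.lf 0 738135058 0) (P.cons (P.lf 71581366 0 0) (P.cons (P.lf 5473894 0 0) (P.cons (P.lf 0 114166 0) (P.cons (P.lf 0 11391 0) (P.cons (P.lf 0 3 0) P.nil)))))) 62)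
 EL.nil))
noncomputable def S198_212_364_512_16 : EL := (EL.cons 4 (TM.mk (P.cons (P.cons (P.lf 0 197114242 0) (P.cons (P.lf 87531300 0 0) (P.cons (P.lf 5852138 0 0) (P.lf 0 1950712 0)))) (P.cons (P.cons (P.lf 39847460 0 0) (P.cons (P.lf 0 14586899 0) (P.cons (P.lf 0 975245 0) (P.lf 325081 0 0)))) (P.cons (P.cons (P.lf 3152287 0 0) (P.cons (P.lf 0 1071608 0) (P.cons (P.lf 0 71644 0) (P.lf 23880 0 0)))) (P.cons (P.cons (P.lf 0 947976 0) (P.cons (P.lf 161946 0 0) (P.cons (P.lf 10827 0 0) P.nil))) (P.cons (P.cons (P.lf 8095 0 0) (P.cons (P.lf 10604 0 0) P.nil)) (P.cons (P.cons (P.lf 4967 0 0) P.nil) P.nil)))))) 7826)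
 (EL.cons 8 (TM.mk (P.cons (P.cons (P.lf 0 250760035 0) (P.cons (P.lf 111353455 0 0) (P.cons (P.lf 7444831 0 0) (P.lf 0 2481610 0)))) (P.cons (P.cons (P.lf 12680907 0 0) (P.cons (P.lf 0 1677379 0) (P.cons (P.lf 0 112145 0) (P.lf 37381 0 0)))) (P.cons (P.cons (P.lf 6723697 0 0) (P.cons (P.lf 0 1968892 0) (P.cons (P.lf 0 131635 0) (P.lf 43877 0 0)))) (P.cons (P.cons (P.lf 0 275500 0) (P.cons (P.lf 0 65504 0) (P.cons (P.lf 0 4378 0) P.nil))) (P.cons (P.cons (P.lf 0 48739 0) (P.cons (P.lf 8791 0 0) P.nil)) (P.cons (P.cons (P.lf 963 0 0) P.nil) P.nil)))))) 5695)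
 EL.nil))
noncomputable def S198_212_364_512_17 : EL := (EL.cons 4 (TM.mk (P.cons (P.cons (P.lf 0 66963861 0) (P.cons (P.lf 59472454 0 0) (P.cons (P.lf 0 9228592 0) (P.cons (P.lf 0 3091078 0) (P.cons (P.lf 529535 0 0) (P.cons (P.lf 39349 0 0) P.nil)))))) (P.cons (P.cons (P.lf 10429491 0 0) (P.cons (P.lf 0 7151070 0) (P.cons (P.lf 640808 0 0) (P.cons (P.lf 308983 0 0) (P.cons (P.lf 0 44869 0) P.nil))))) (P.cons (P.cons (P.lf 2696669 0 0) (P.cons (P.lf 0 2073994 0) (P.cons (P.lf 233912 0 0) (P.cons (P.lf 96039 0 0) P.nil)))) (P.cons (P.cons (P.lf 0 463532 0) (P.cons (P.lf 214580 0 0) (P.cons (P.lf 2809 0 0) P.nil))) (P.cons (P.cons (P.lf 0 33353 0) (P.cons (P.lf 27450 0 0) P.nil)) (P.cons (P.cons (P.lf 6998 0 0) P.nil) P.nil)))))) 95078)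
 (EL.cons 8 (TM.mk (P.cons (P.cons (P.lf 0 85188468 0) (P.cons (P.lf 75658231 0 0) (P.cons (P.lf 0 11740208 0) (P.cons (P.lf 0 3932333 0) (P.cons (P.lf 673652 0 0) (P.cons (P.lf 50058 0 0) P.nil)))))) (P.cons (P.cons (P.lf 354708 0 0) (P.cons (P.lf 2371319 0 0) (P.cons (P.lf 0 964421 0) (P.cons (P.lf 0 203003 0) (P.cons (P.lf 45032 0 0) P.nil))))) (P.cons (P.cons (P.lf 3753163 0 0) (P.cons (P.lf 0 2517729 0) (P.cons (P.lf 188428 0 0) (P.cons (P.lf 103813 0 0) P.nil)))) (P.cons (P.cons (P.lf 0 38435 0) (P.cons (P.lf 0 101450 0) (P.cons (P.lf 32899 0 0) P.nil))) (P.cons (P.cons (P.lf 0 59530 0) (P.cons (P.lf 27503 0 0) P.nil)) (P.cons (P.cons (P.lf 704 0 0) P.nil) P.nil)))))) 82522)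
 EL.nil))
noncomputable def S198_212_364_512_18 : EL := (EL.cons 4 (TM.mk (P.cons (P.lf 220255978 0 0) (P.cons (P.lf 0 82120312 0) (P.cons (P.lf 8552062 0 0) (P.cons (P.lf 39948 0 0) (P.cons (P.lf 0 32104 0) (P.cons (P.lf 0 525 0) P.nil)))))) 109)
 (EL.cons 8 (TM.mk (P.cons (P.lf 280199929 0 0) (P.cons (P.lf 0 61995939 0) (P.cons (P.lf 597780 0 0) (P.cons (P.lf 391501 0 0) (P.cons (P.lf 2922 0 0) (P.cons (P.lf 0 902 0) P.nil)))))) 74)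
 EL.nil))
noncomputable def S198_212_364_512_19 : EL := (EL.cons 4 (TM.mk (P.cons (P.cons (P.lf 74825596 0 0) (P.cons (P.lf 0 33227339 0) (P.cons (P.lf 0 2221501 0) (P.lf 740500 0 0)))) (P.cons (P.cons (P.lf 0 24425637 0) (P.cons (P.lf 9666760 0 0) (P.cons (P.lf 646296 0 0) (P.lf 0 215431 0)))) (P.cons (P.cons (P.lf 495990 0 0) (P.cons (P.lf 0 198216 0) (P.cons (P.lf 0 13251 0) (P.lf 4417 0 0)))) (P.cons (P.cons (P.lf 552284 0 0) (P.cons (P.lf 0 128488 0) (P.cons (P.lf 0 8590 0) P.nil))) (P.cons (P.cons (P.lf 0 45740 0) (P.cons (P.lf 2921 0 0) P.nil)) (P.cons (P.cons (P.lf 0 2549 0) P.nil) P.nil)))))) 6191)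
 (EL.cons 8 (TM.mk (P.cons (P.cons (P.lf 95189821 0 0) (P.cons (P.lf 0 42270353 0) (P.cons (P.lf 0 2826097 0) (P.lf 942032 0 0)))) (P.cons (P.cons (P.lf 0 16643940 0) (P.cons (P.lf 5890106 0 0) (P.cons (P.lf 393798 0 0) (P.lf 0 131266 0)))) (P.cons (P.cons (P.lf 0 2192352 0) (P.cons (P.lf 774067 0 0) (P.cons (P.lf 51752 0 0) (P.lf 0 17250 0)))) (P.cons (P.cons (P.lf 441278 0 0) (P.cons (P.lf 0 72919 0) (P.cons (P.lf 0 4875 0) P.nil))) (P.cons (P.cons (P.lf 11825 0 0) (P.cons (P.lf 0 8385 0) P.nil)) (P.cons (P.cons (P.lf 0 3144 0) P.nil) P.nil)))))) 5151)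
 EL.nil))
noncomputable def S198_212_364_512_20 : EL := (EL.cons 4 (TM.mk (P.cons (P.cons (P.lf 25419832 0 0) (P.cons (P.lf 0 22576054 0) (P.cons (P.lf 3503221 0 0) (P.cons (P.lf 1173389 0 0) (P.cons (P.lf 0 201014 0) (P.cons (P.lf 0 14937 0) P.nil)))))) (P.cons (P.cons (P.lf 0 7118268 0) (P.cons (P.lf 5520338 0 0) (P.cons (P.lf 0 678634 0) (P.cons (P.lf 0 263120 0) (P.cons (P.lf 42015 0 0) P.nil))))) (P.cons (P.cons (P.lf 0 595258 0) (P.cons (P.lf 506436 0 0) (P.cons (P.lf 0 67331 0) (P.cons (P.lf 0 24816 0) P.nil)))) (P.cons (P.cons (P.lf 315077 0 0) (P.cons (P.lf 0 187860 0) (P.cons (P.lf 10850 0 0) P.nil))) (P.cons (P.cons (P.lf 0 6871 0) (P.cons (P.lf 0 2128 0) P.nil)) (P.cons (P.cons (P.lf 0 4764 0) P.nil) P.nil)))))) 59357)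
 (EL.cons 8 (TM.mk (P.cons (P.cons (P.lf 32337988 0 0) (P.cons (P.lf 0 28720260 0) (P.cons (P.lf 4456644 0 0) (P.cons (P.lf 1492734 0 0) (P.cons (P.lf 0 255721 0) (P.cons (P.lf 0 19002 0) P.nil)))))) (P.cons (P.cons (P.lf 0 4153618 0) (P.cons (P.lf 2669191 0 0) (P.cons (P.lf 0 187772 0) (P.cons (P.lf 0 108455 0) (P.cons (P.lf 14686 0 0) P.nil))))) (P.cons (P.cons (P.lf 0 1488925 0) (P.cons (P.lf 1139500 0 0) (P.cons (P.lf 0 128182 0) (P.cons (P.lf 0 52721 0) P.nil)))) (P.cons (P.cons (P.lf 194520 0 0) (P.cons (P.lf 0 80260 0) (P.cons (P.lf 0 4167 0) P.nil))) (P.cons (P.cons (P.lf 24444 0 0) (P.cons (P.lf 0 17781 0) P.nil)) (P.cons (P.cons (P.lf 0 3225 0) P.nil) P.nil)))))) 51428)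
 EL.nil))
noncomputable def S198_212_364_512_21 : EL := (EL.cons 4 (TM.mk (P.cons (P.cons (P.lf 0 882535605 0) (P.cons (P.lf 691755219 0 0) (P.cons (P.lf 46249137 0 0) (P.lf 0 15416376 0)))) (P.cons (P.cons (P.lf 553972521 0 0) (P.cons (P.lf 0 29308077 0) (P.cons (P.lf 0 1959468 0) (P.lf 653154 0 0)))) (P.cons (P.cons (P.lf 17917812 0 0) (P.cons (P.lf 0 10379862 0) (P.cons (P.lf 0 693969 0) (P.lf 231318 0 0)))) (P.cons (P.cons (P.lf 0 3936246 0) (P.cons (P.lf 0 137592 0) (P.cons (P.lf 0 9192 0) P.nil))) (P.cons (P.cons (P.lf 0 159264 0) (P.cons (P.lf 40770 0 0) P.nil)) (P.cons (P.cons (P.lf 10479 0 0) P.nil) P.nil)))))) 22446)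
 (EL.cons 8 (TM.mk (P.cons (P.cons (P.lf 246660390 0 0) (P.cons (P.lf 0 193339062 0) (P.cons (P.lf 0 12926205 0) (P.lf 4308735 0 0)))) (P.cons (P.cons (P.lf 0 192219924 0) (P.cons (P.lf 37498482 0 0) (P.cons (P.lf 2507061 0 0) (P.lf 0 835683 0)))) (P.cons (P.cons (P.lf 19240266 0 0) (P.cons (P.lf 1049319 0 0) (P.cons (P.lf 70161 0 0) (P.lf 0 23388 0)))) (P.cons (P.cons (P.lf 1322766 0 0) (P.cons (P.lf 0 337884 0) (P.cons (P.lf 0 22584 0) P.nil))) (P.cons (P.cons (P.lf 0 106518 0) (P.cons (P.lf 0 10800 0) P.nil)) (P.cons (P.cons (P.lf 0 6201 0) P.nil) P.nil)))))) 21696)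
 (EL.cons 11 (TM.mk (P.cons (P.cons (P.lf 2449640142 0 0) (P.cons (P.lf 379265808 0 0) (P.cons (P.lf 0 182718306 0) (P.cons (P.lf 0 6914598 0) (P.lf 1728648 0 0))))) (P.cons (P.cons (P.lf 133770624 0 0) (P.cons (P.lf 20711052 0 0) (P.cons (P.lf 0 9977931 0) (P.cons (P.lf 0 377592 0) (P.lf 94398 0 0))))) (P.cons (P.cons (P.lf 0 5618445 0) (P.cons (P.lf 0 869874 0) (P.cons (P.lf 419079 0 0) (P.cons (P.lf 15858 0 0) P.nil)))) (P.cons (P.cons (P.lf 0 418974 0) (P.cons (P.lf 0 64866 0) (P.cons (P.lf 31251 0 0) P.nil))) (P.cons (P.cons (P.lf 3594 0 0) (P.cons (P.lf 555 0 0) P.nil)) (P.cons (P.cons (P.lf 672 0 0) P.nil) P.nil)))))) 6186)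
 EL.nil)))
noncomputable def S198_212_364_512_22 : EL := (EL.cons 4 (TM.mk (P.cons (P.cons (P.lf 0 299815944 0) (P.cons (P.lf 368141235 0 0) (P.cons (P.lf 0 79743630 0) (P.cons (P.lf 0 22158441 0) (P.cons (P.lf 4184892 0 0) (P.cons (P.lf 310977 0 0) P.nil)))))) (P.cons (P.cons (P.lf 174282855 0 0) (P.cons (P.lf 0 71716452 0) (P.cons (P.lf 0 8921547 0) (P.cons (P.lf 1046451 0 0) (P.cons (P.lf 165489 0 0) P.nil))))) (P.cons (P.cons (P.lf 19286907 0 0) (P.cons (P.lf 0 17346900 0) (P.cons (P.lf 1010601 0 0) (P.cons (P.lf 676797 0 0) P.nil)))) (P.cons (P.cons (P.lf 0 3811404 0) (P.cons (P.lf 419598 0 0) (P.cons (P.lf 204447 0 0) P.nil))) (P.cons (P.cons (P.lf 0 250119 0) (P.cons (P.lf 185511 0 0) P.nil)) (P.cons (P.cons (P.lf 28377 0 0) P.nil) P.nil)))))) 335490)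
 (EL.cons 8 (TM.mk (P.cons (P.cons (P.lf 83795730 0 0) (P.cons (P.lf 0 102892005 0) (P.cons (P.lf 22287588 0 0) (P.cons (P.lf 6193077 0 0) (P.cons (P.lf 0 1169637 0) (P.cons (P.lf 0 86913 0) P.nil)))))) (P.cons (P.cons (P.lf 0 61412526 0) (P.cons (P.lf 35640876 0 0) (P.cons (P.lf 0 884958 0) (P.cons (P.lf 0 1231245 0) (P.cons (P.lf 131043 0 0) P.nil))))) (P.cons (P.cons (P.lf 2257632 0 0) (P.cons (P.lf 1485255 0 0) (P.cons (P.lf 0 590094 0) (P.cons (P.lf 0 125283 0) P.nil)))) (P.cons (P.cons (P.lf 1712379 0 0) (P.cons (P.lf 0 768957 0) (P.cons (P.lf 0 10785 0) P.nil))) (P.cons (P.cons (P.lf 0 98619 0) (P.cons (P.lf 0 23271 0) P.nil)) (P.cons (P.cons (P.lf 0 14424 0) P.nil) P.nil)))))) 146163)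
 (EL.cons 11 (TM.mk (P.cons (P.cons (P.lf 832194381 0 0) (P.cons (P.lf 0 240702813 0) (P.cons (P.lf 0 143995554 0) (P.cons (P.lf 29625867 0 0) (P.cons (P.lf 4748367 0 0) (P.cons (P.lf 0 805338 0) P.nil)))))) (P.cons (P.cons (P.lf 84063579 0 0) (P.cons (P.lf 0 37435710 0) (P.cons (P.lf 0 17454378 0) (P.cons (P.lf 4127949 0 0) (P.cons (P.lf 627396 0 0) P.nil))))) (P.cons (P.cons (P.lf 0 12197124 0) (P.cons (P.lf 0 1835730 0) (P.cons (P.lf 921459 0 0) (P.cons (P.lf 29868 0 0) P.nil)))) (P.cons (P.cons (P.lf 0 1038168 0) (P.cons (P.lf 152040 0 0) (P.cons (P.lf 146769 0 0) P.nil))) (P.cons (P.cons (P.lf 54300 0 0) (P.cons (P.lf 18846 0 0) P.nil)) (P.cons (P.cons (P.lf 5670 0 0) P.nil) P.nil)))))) 297489)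
 EL.nil)))
noncomputable def S198_212_364_512_23 : EL := (EL.cons 4 (TM.mk (P.cons (P.cons (P.lf 335015130 0 0) (P.cons (P.lf 0 262593900 0) (P.cons (P.lf 0 17556414 0) (P.lf 5852136 0 0)))) (P.cons (P.cons (P.lf 0 251926584 0) (P.cons (P.lf 43760697 0 0) (P.cons (P.lf 2925735 0 0) (P.lf 0 975243 0)))) (P.cons (P.cons (P.lf 18494754 0 0) (P.cons (P.lf 3214824 0 0) (P.cons (P.lf 214932 0 0) (P.lf 0 71640 0)))) (P.cons (P.cons (P.lf 2892072 0 0) (P.cons (P.lf 0 485841 0) (P.cons (P.lf 0 32484 0) P.nil))) (P.cons (P.cons (P.lf 0 123576 0) (P.cons (P.lf 0 31809 0) P.nil)) (P.cons (P.cons (P.lf 0 16452 0) P.nil) P.nil)))))) 26454)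
 (EL.cons 8 (TM.mk (P.cons (P.cons (P.lf 0 93633573 0) (P.cons (P.lf 73392519 0 0) (P.cons (P.lf 4906854 0 0) (P.lf 0 1635618 0)))) (P.cons (P.cons (P.lf 84604479 0 0) (P.cons (P.lf 0 23355849 0) (P.cons (P.lf 0 1561515 0) (P.lf 520503 0 0)))) (P.cons (P.cons (P.lf 0 16137777 0) (P.cons (P.lf 1187055 0 0) (P.cons (P.lf 79359 0 0) (P.lf 0 26451 0)))) (P.cons (P.cons (P.lf 215622 0 0) (P.cons (P.lf 219132 0 0) (P.cons (P.lf 14646 0 0) P.nil))) (P.cons (P.cons (P.lf 126519 0 0) (P.cons (P.lf 0 11718 0) P.nil)) (P.cons (P.cons (P.lf 0 1746 0) P.nil) P.nil)))))) 14076)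
 (EL.cons 11 (TM.mk (P.cons (P.cons (P.lf 0 929896212 0) (P.cons (P.lf 0 143971284 0) (P.cons (P.lf 69360822 0 0) (P.cons (P.lf 2624817 0 0) (P.lf 0 656202 0))))) (P.cons (P.cons (P.lf 64787577 0 0) (P.cons (P.lf 10030743 0 0) (P.cons (P.lf 0 4832496 0) (P.cons (P.lf 0 182874 0) (P.lf 45717 0 0))))) (P.cons (P.cons (P.lf 10771206 0 0) (P.cons (P.lf 1667652 0 0) (P.cons (P.lf 0 803421 0) (P.cons (P.lf 0 30402 0) P.nil)))) (P.cons (P.cons (P.lf 0 51624 0) (P.cons (P.lf 0 7992 0) (P.cons (P.lf 3849 0 0) P.nil))) (P.cons (P.cons (P.lf 0 33450 0) (P.cons (P.lf 0 5178 0) P.nil)) (P.cons (P.cons (P.lf 0 456 0) P.nil) P.nil)))))) 12990)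
 EL.nil)))
noncomputable def S198_212_364_512_24 : EL := (EL.cons 4 (TM.mk (P.cons (P.cons (P.lf 113811699 0 0) (P.cons (P.lf 0 139748337 0) (P.cons (P.lf 30271098 0 0) (P.cons (P.lf 8411460 0 0) (P.cons (P.lf 0 1588605 0) (P.cons (P.lf 0 118047 0) P.nil)))))) (P.cons (P.cons (P.lf 0 80303214 0) (P.cons (P.lf 44591877 0 0) (P.cons (P.lf 0 375426 0) (P.cons (P.lf 0 1442616 0) (P.cons (P.lf 134610 0 0) P.nil))))) (P.cons (P.cons (P.lf 615933 0 0) (P.cons (P.lf 3551361 0 0) (P.cons (P.lf 0 880290 0) (P.cons (P.lf 0 228600 0) P.nil)))) (P.cons (P.cons (P.lf 2531223 0 0) (P.cons (P.lf 0 1056729 0) (P.cons (P.lf 0 36042 0) P.nil))) (P.cons (P.cons (P.lf 0 71343 0) (P.cons (P.lf 0 65430 0) P.nil)) (P.cons (P.cons (P.lf 0 26982 0) P.nil) P.nil)))))) 181182)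
 (EL.cons 8 (TM.mk (P.cons (P.cons (P.lf 0 31809297 0) (P.cons (P.lf 39058341 0 0) (P.cons (P.lf 0 8460483 0) (P.cons (P.lf 0 2350923 0) (P.cons (P.lf 444000 0 0) (P.cons (P.lf 32991 0 0) P.nil)))))) (P.cons (P.cons (P.lf 27265779 0 0) (P.cons (P.lf 0 18383637 0) (P.cons (P.lf 1387404 0 0) (P.cons (P.lf 759558 0 0) (P.cons (P.lf 0 104925 0) P.nil))))) (P.cons (P.cons (P.lf 0 3674673 0) (P.cons (P.lf 1019871 0 0) (P.cons (P.lf 203427 0 0) (P.cons (P.lf 0 4641 0) P.nil)))) (P.cons (P.cons (P.lf 0 604356 0) (P.cons (P.lf 398886 0 0) (P.cons (P.lf 0 25245 0) P.nil))) (P.cons (P.cons (P.lf 122085 0 0) (P.cons (P.lf 0 26961 0) P.nil)) (P.cons (P.cons (P.lf 2457 0 0) P.nil) P.nil)))))) 71979)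
 (EL.cons 11 (TM.mk (P.cons (P.cons (P.lf 0 315905340 0) (P.cons (P.lf 91372047 0 0) (P.cons (P.lf 54661464 0 0) (P.cons (P.lf 0 11246133 0) (P.cons (P.lf 0 1802505 0) (P.cons (P.lf 305709 0 0) P.nil)))))) (P.cons (P.cons (P.lf 7349775 0 0) (P.cons (P.lf 2855061 0 0) (P.cons (P.lf 0 167559 0) (P.cons (P.lf 0 169320 0) (P.cons (P.lf 0 14148 0) P.nil))))) (P.cons (P.cons (P.lf 9386679 0 0) (P.cons (P.lf 0 1297962 0) (P.cons (P.lf 0 1310055 0) (P.cons (P.lf 211554 0 0) P.nil)))) (P.cons (P.cons (P.lf 0 126159 0) (P.cons (P.lf 0 172743 0) (P.cons (P.lf 0 24552 0) P.nil))) (P.cons (P.cons (P.lf 0 84696 0) (P.cons (P.lf 0 318 0) P.nil)) (P.cons (P.cons (P.lf 0 309 0) P.nil) P.nil)))))) 143964)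
 EL.nil)))
noncomputable def S198_212_364_512_25 : EL := (EL.cons 4 (TM.mk (P.cons (P.cons (P.lf 0 127173495 0) (P.cons (P.lf 99682017 0 0) (P.cons (P.lf 6664506 0 0) (P.lf 0 2221500 0)))) (P.cons (P.cons (P.lf 111437784 0 0) (P.cons (P.lf 0 29000280 0) (P.cons (P.lf 0 1938888 0) (P.lf 646296 0 0)))) (P.cons (P.cons (P.lf 0 18587634 0) (P.cons (P.lf 594651 0 0) (P.cons (P.lf 39756 0 0) (P.lf 0 13251 0)))) (P.cons (P.cons (P.lf 0 474615 0) (P.cons (P.lf 385467 0 0) (P.cons (P.lf 25770 0 0) P.nil))) (P.cons (P.cons (P.lf 207987 0 0) (P.cons (P.lf 0 8766 0) P.nil)) (P.cons (P.cons (P.lf 2928 0 0) P.nil) P.nil)))))) 21669)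
 (EL.cons 8 (TM.mk (P.cons (P.cons (P.lf 35543793 0 0) (P.cons (P.lf 0 27860184 0) (P.cons (P.lf 0 1862667 0) (P.lf 620889 0 0)))) (P.cons (P.cons (P.lf 0 36533688 0) (P.cons (P.lf 12328467 0 0) (P.cons (P.lf 824250 0 0) (P.lf 0 274749 0)))) (P.cons (P.cons (P.lf 10028439 0 0) (P.cons (P.lf 0 1482747 0) (P.cons (P.lf 0 99132 0) (P.lf 33042 0 0)))) (P.cons (P.cons (P.lf 0 760023 0) (P.cons (P.lf 0 51549 0) (P.cons (P.lf 0 3444 0) P.nil))) (P.cons (P.cons (P.lf 0 55584 0) (P.cons (P.lf 16515 0 0) P.nil)) (P.cons (P.cons (P.lf 7209 0 0) P.nil) P.nil)))))) 9738)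
 (EL.cons 11 (TM.mk (P.cons (P.cons (P.lf 352993467 0 0) (P.cons (P.lf 54652251 0 0) (P.cons (P.lf 0 26329731 0) (P.cons (P.lf 0 996393 0) (P.lf 249096 0 0))))) (P.cons (P.cons (P.lf 0 68463771 0) (P.cons (P.lf 0 10599909 0) (P.cons (P.lf 5106702 0 0) (P.cons (P.lf 193251 0 0) (P.lf 0 48312 0))))) (P.cons (P.cons (P.lf 0 1915818 0) (P.cons (P.lf 0 296616 0) (P.cons (P.lf 142899 0 0) (P.cons (P.lf 5406 0 0) P.nil)))) (P.cons (P.cons (P.lf 616908 0 0) (P.cons (P.lf 95511 0 0) (P.cons (P.lf 0 46014 0) P.nil))) (P.cons (P.cons (P.lf 19716 0 0) (P.cons (P.lf 3051 0 0) P.nil)) (P.cons (P.cons (P.lf 0 1860 0) P.nil) P.nil)))))) 13164)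
 EL.nil)))
noncomputable def S198_212_364_512_26 : EL := (EL.cons 4 (TM.mk (P.cons (P.cons (P.lf 0 43203516 0) (P.cons (P.lf 53049198 0 0) (P.cons (P.lf 0 11491065 0) (P.cons (P.lf 0 3193032 0) (P.cons (P.lf 603042 0 0) (P.cons (P.lf 44811 0 0) P.nil)))))) (P.cons (P.cons (P.lf 35852856 0 0) (P.cons (P.lf 0 23520270 0) (P.cons (P.lf 1570623 0 0) (P.cons (P.lf 944454 0 0) (P.cons (P.lf 0 126045 0) P.nil))))) (P.cons (P.cons (P.lf 0 3914169 0) (P.cons (P.lf 622833 0 0) (P.cons (P.lf 345210 0 0) (P.cons (P.lf 26709 0 0) P.nil)))) (P.cons (P.cons (P.lf 0 1011483 0) (P.cons (P.lf 615198 0 0) (P.cons (P.lf 0 29103 0) P.nil))) (P.cons (P.cons (P.lf 149325 0 0) (P.cons (P.lf 0 22791 0) P.nil)) (P.cons (P.cons (P.lf 9363 0 0) P.nil) P.nil)))))) 103317)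
 (EL.cons 8 (TM.mk (P.cons (P.cons (P.lf 12074976 0 0) (P.cons (P.lf 0 14826750 0) (P.cons (P.lf 3211644 0 0) (P.cons (P.lf 892422 0 0) (P.cons (P.lf 0 168543 0) (P.cons (P.lf 0 12522 0) P.nil)))))) (P.cons (P.cons (P.lf 0 11850912 0) (P.cons (P.lf 8821194 0 0) (P.cons (P.lf 0 925809 0) (P.cons (P.lf 0 399243 0) (P.cons (P.lf 60777 0 0) P.nil))))) (P.cons (P.cons (P.lf 2651031 0 0) (P.cons (P.lf 0 1217328 0) (P.cons (P.lf 0 19806 0) (P.cons (P.lf 35361 0 0) P.nil)))) (P.cons (P.cons (P.lf 82905 0 0) (P.cons (P.lf 0 121929 0) (P.cons (P.lf 20748 0 0) P.nil))) (P.cons (P.cons (P.lf 0 79116 0) (P.cons (P.lf 30519 0 0) P.nil)) (P.cons (P.cons (P.lf 4326 0 0) P.nil) P.nil)))))) 43758)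
 (EL.cons 11 (TM.mk (P.cons (P.cons (P.lf 119919318 0 0) (P.cons (P.lf 0 34685307 0) (P.cons (P.lf 0 20749776 0) (P.cons (P.lf 4269090 0 0) (P.cons (P.lf 684240 0 0) (P.cons (P.lf 0 116049 0) P.nil)))))) (P.cons (P.cons (P.lf 0 17693598 0) (P.cons (P.lf 3226896 0 0) (P.cons (P.lf 2642391 0 0) (P.cons (P.lf 0 466287 0) (P.cons (P.lf 0 79665 0) P.nil))))) (P.cons (P.cons (P.lf 0 3516639 0) (P.cons (P.lf 714222 0 0) (P.cons (P.lf 541332 0 0) (P.cons (P.lf 0 98979 0) P.nil)))) (P.cons (P.cons (P.lf 507087 0 0) (P.cons (P.lf 4341 0 0) (P.cons (P.lf 0 54264 0) P.nil))) (P.cons (P.cons (P.lf 35289 0 0) (P.cons (P.lf 0 9459 0) P.nil)) (P.cons (P.cons (P.lf 0 4287 0) P.nil) P.nil)))))) 94686)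
 EL.nil)))
noncomputable def S198_212_364_512_27 : EL := (EL.cons 13 (TM.mk (P.lf 0 4294967296 0) 0)
 EL.nil)
noncomputable def S198_212_364_512_28 : EL := (EL.cons 13 (TM.mk (P.cons (P.cons (P.lf 0 1459090908 0) (P.cons (P.lf 647929460 0 0) (P.cons (P.lf 43319052 0 0) (P.lf 0 14439684 0)))) (P.cons (P.cons (P.lf 0 67710692 0) (P.cons (P.lf 53073464 0 0) (P.cons (P.lf 3548368 0 0) (P.lf 0 1182788 0)))) (P.cons (P.cons (P.lf 21736308 0 0) (P.cons (P.lf 0 1504552 0) (P.cons (P.lf 0 100588 0) (P.lf 33528 0 0)))) (P.cons (P.cons (P.lf 228392 0 0) (P.cons (P.lf 0 233684 0) (P.cons (P.lf 0 15620 0) P.nil))) (P.cons (P.cons (P.lf 0 67266 0) (P.cons (P.lf 0 868 0) P.nil)) (P.cons (P.cons (P.lf 0 1530 0) P.nil) P.nil)))))) 7063)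
 EL.nil)
noncomputable def S198_212_364_512_29 : EL := (EL.cons 13 (TM.mk (P.cons (P.cons (P.lf 0 495683932 0) (P.cons (P.lf 440230585 0 0) (P.cons (P.lf 0 68312444 0) (P.cons (P.lf 0 22880966 0) (P.cons (P.lf 3919762 0 0) (P.cons (P.lf 291277 0 0) P.nil)))))) (P.cons (P.cons (P.lf 0 46005498 0) (P.cons (P.lf 56489725 0 0) (P.cons (P.lf 0 12236324 0) (P.cons (P.lf 0 3400119 0) (P.cons (P.lf 642154 0 0) P.nil))))) (P.cons (P.cons (P.lf 13701096 0 0) (P.cons (P.lf 0 5907021 0) (P.cons (P.lf 0 596816 0) (P.cons (P.lf 104645 0 0) P.nil)))) (P.cons (P.cons (P.lf 840530 0 0) (P.cons (P.lf 0 812319 0) (P.cons (P.lf 53382 0 0) P.nil))) (P.cons (P.cons (P.lf 0 148506 0) (P.cons (P.lf 21921 0 0) P.nil)) (P.cons (P.cons (P.lf 0 5472 0) P.nil) P.nil)))))) 220994)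
 EL.nil)
noncomputable def S198_212_364_512_30 : EL := (EL.cons 13 (TM.mk (P.cons (P.lf 1630392056 0 0) (P.cons (P.lf 0 202625308 0) (P.cons (P.lf 0 4080764 0) (P.cons (P.lf 127476 0 0) (P.cons (P.lf 5284 0 0) (P.cons (P.lf 0 44 0) P.nil)))))) 48)
 EL.nil)
noncomputable def S198_212_364_512_31 : EL := (EL.cons 13 (TM.mk (P.cons (P.cons (P.lf 553878542 0 0) (P.cons (P.lf 0 245957412 0) (P.cons (P.lf 0 16444138 0) (P.lf 5481379 0 0)))) (P.cons (P.cons (P.lf 0 43132754 0) (P.cons (P.lf 10420650 0 0) (P.cons (P.lf 696700 0 0) (P.lf 0 232233 0)))) (P.cons (P.cons (P.lf 0 12831950 0) (P.cons (P.lf 3690618 0 0) (P.cons (P.lf 246745 0 0) (P.lf 0 82247 0)))) (P.cons (P.cons (P.lf 917735 0 0) (P.cons (P.lf 48922 0 0) (P.cons (P.lf 3269 0 0) P.nil))) (P.cons (P.cons (P.lf 60766 0 0) (P.cons (P.lf 0 14496 0) P.nil)) (P.cons (P.cons (P.lf 0 2952 0) P.nil) P.nil)))))) 7866)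
 EL.nil)
noncomputable def S198_212_364_512_32 : EL := (EL.cons 13 (TM.mk (P.cons (P.cons (P.lf 188164213 0 0) (P.cons (P.lf 0 167113833 0) (P.cons (P.lf 25931761 0 0) (P.cons (P.lf 8685734 0 0) (P.cons (P.lf 0 1487962 0) (P.cons (P.lf 0 110570 0) P.nil)))))) (P.cons (P.cons (P.lf 0 5921141 0) (P.cons (P.lf 0 674869 0) (P.cons (P.lf 1422170 0 0) (P.cons (P.lf 211238 0 0) (P.cons (P.lf 0 58840 0) P.nil))))) (P.cons (P.cons (P.lf 0 7842389 0) (P.cons (P.lf 5325648 0 0) (P.cons (P.lf 0 415628 0) (P.cons (P.lf 0 221872 0) P.nil)))) (P.cons (P.cons (P.lf 298313 0 0) (P.cons (P.lf 70288 0 0) (P.cons (P.lf 0 58018 0) P.nil))) (P.cons (P.cons (P.lf 111020 0 0) (P.cons (P.lf 0 54475 0) P.nil)) (P.cons (P.cons (P.lf 0 4485 0) P.nil) P.nil)))))) 158630)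
 EL.nil)
noncomputable def S198_212_364_512_33 : EL := (EL.cons 14 (TM.mk (P.lf 8589934592 0 0) 0)
 EL.nil)
noncomputable def S198_212_364_512_34 : EL := (EL.cons 14 (TM.mk (P.cons (P.cons (P.lf 2918181816 0 0) (P.cons (P.lf 0 1295858920 0) (P.cons (P.lf 0 86638104 0) (P.lf 28879368 0 0)))) (P.cons (P.cons (P.lf 135421384 0 0) (P.cons (P.lf 0 106146928 0) (P.cons (P.lf 0 7096736 0) (P.lf 2365576 0 0)))) (P.cons (P.cons (P.lf 0 43472616 0) (P.cons (P.lf 3009104 0 0) (P.cons (P.lf 201176 0 0) (P.lf 0 67056 0)))) (P.cons (P.cons (P.lf 0 456784 0) (P.cons (P.lf 467368 0 0) (P.cons (P.lf 31240 0 0) P.nil))) (P.cons (P.cons (P.lf 134532 0 0) (P.cons (P.lf 1736 0 0) P.nil)) (P.cons (P.cons (P.lf 3060 0 0) P.nil) P.nil)))))) 14126)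
 EL.nil)
noncomputable def S198_212_364_512_35 : EL := (EL.cons 14 (TM.mk (P.cons (P.cons (P.lf 991367864 0 0) (P.cons (P.lf 0 880461170 0) (P.cons (P.lf 136624888 0 0) (P.cons (P.lf 45761932 0 0) (P.cons (P.lf 0 7839524 0) (P.cons (P.lf 0 582554 0) P.nil)))))) (P.cons (P.cons (P.lf 92010996 0 0) (P.cons (P.lf 0 112979450 0) (P.cons (P.lf 24472648 0 0) (P.cons (P.lf 6800238 0 0) (P.cons (P.lf 0 1284308 0) P.nil))))) (P.cons (P.cons (P.lf 0 27402192 0) (P.cons (P.lf 11814042 0 0) (P.cons (P.lf 1193632 0 0) (P.cons (P.lf 0 209290 0) P.nil)))) (P.cons (P.cons (P.lf 0 1681060 0) (P.cons (P.lf 1624638 0 0) (P.cons (P.lf 0 106764 0) P.nil))) (P.cons (P.cons (P.lf 297012 0 0) (P.cons (P.lf 0 43842 0) P.nil)) (P.cons (P.cons (P.lf 10944 0 0) P.nil) P.nil)))))) 441988)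
 EL.nil)
noncomputable def S198_212_364_512_36 : EL := (EL.cons 14 (TM.mk (P.cons (P.lf 0 3260784112 0) (P.cons (P.lf 405250616 0 0) (P.cons (P.lf 8161528 0 0) (P.cons (P.lf 0 254952 0) (P.cons (P.lf 0 10568 0) (P.cons (P.lf 88 0 0) P.nil)))))) 96)
 EL.nil)
noncomputable def S198_212_364_512_37 : EL := (EL.cons 14 (TM.mk (P.cons (P.cons (P.lf 0 1107757084 0) (P.cons (P.lf 491914824 0 0) (P.cons (P.lf 32888276 0 0) (P.lf 0 10962758 0)))) (P.cons (P.cons (P.lf 86265508 0 0) (P.cons (P.lf 0 20841300 0) (P.cons (P.lf 0 1393400 0) (P.lf 464466 0 0)))) (P.cons (P.cons (P.lf 25663900 0 0) (P.cons (P.lf 0 7381236 0) (P.cons (P.lf 0 493490 0) (P.lf 164494 0 0)))) (P.cons (P.cons (P.lf 0 1835470 0) (P.cons (P.lf 0 97844 0) (P.cons (P.lf 0 6538 0) P.nil))) (P.cons (P.cons (P.lf 0 121532 0) (P.cons (P.lf 28992 0 0) P.nil)) (P.cons (P.cons (P.lf 5904 0 0) P.nil) P.nil))))))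 15732)
 EL.nil)
noncomputable def S198_212_364_512_38 : EL := (EL.cons 14 (TM.mk (P.cons (P.cons (P.lf 0 376328426 0) (P.cons (P.lf 334227666 0 0) (P.cons (P.lf 0 51863522 0) (P.cons (P.lf 0 17371468 0) (P.cons (P.lf 2975924 0 0) (P.cons (P.lf 221140 0 0) P.nil)))))) (P.cons (P.cons (P.lf 11842282 0 0) (P.cons (P.lf 1349738 0 0) (P.cons (P.lf 0 2844340 0) (P.cons (P.lf 0 422476 0) (P.cons (P.lf 117680 0 0) P.nil))))) (P.cons (P.cons (P.lf 15684778 0 0) (P.cons (P.lf 0 10651296 0) (P.cons (P.lf 831256 0 0) (P.cons (P.lf 443744 0 0) P.nil)))) (P.cons (P.cons (P.lf 0 596626 0) (P.cons (P.lf 0 140576 0) (P.cons (P.lf 116036 0 0) P.nil))) (P.cons (P.cons (P.lf 0 222040 0) (P.cons (P.lf 108950 0 0) P.nil)) (P.cons (P.cons (P.lf 8970 0 0) P.nil) P.nil)))))) 317260)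
 EL.nil)
noncomputable def S198_212_364_512_39 : EL := (EL.cons 14 (TM.mk (P.cons (P.lf 1237810708 0 0) (P.cons (P.lf 0 307670508 0) (P.cons (P.lf 12922344 0 0) (P.cons (P.lf 963640 0 0) (P.cons (P.lf 0 8278 0) (P.cons (P.lf 0 1548 0) P.nil)))))) 132)
 EL.nil)
noncomputable def S198_212_364_512_40 : EL := (EL.cons 14 (TM.mk (P.cons (P.cons (P.lf 420510384 0 0) (P.cons (P.lf 0 186733440 0) (P.cons (P.lf 0 12484562 0) (P.lf 4161520 0 0)))) (P.cons (P.cons (P.lf 0 85007916 0) (P.cons (P.lf 31118718 0 0) (P.cons (P.lf 2080524 0 0) (P.lf 0 693508 0)))) (P.cons (P.cons (P.lf 0 6724880 0) (P.cons (P.lf 2286098 0 0) (P.cons (P.lf 152842 0 0) (P.lf 0 50946 0)))) (P.cons (P.cons (P.lf 2022350 0 0) (P.cons (P.lf 0 345486 0) (P.cons (P.lf 0 23098 0) P.nil))) (P.cons (P.cons (P.lf 0 17270 0) (P.cons (P.lf 0 22622 0) P.nil)) (P.cons (P.cons (P.lf 0 10598 0) P.nil) P.nil))))))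 16656)
 EL.nil)
noncomputable def S198_212_364_512_41 : EL := (EL.cons 14 (TM.mk (P.cons (P.cons (P.lf 142856238 0 0) (P.cons (P.lf 0 126874570 0) (P.cons (P.lf 19687664 0 0) (P.cons (P.lf 6594300 0 0) (P.cons (P.lf 0 1129676 0) (P.cons (P.lf 0 83946 0) P.nil)))))) (P.cons (P.cons (P.lf 0 22249582 0) (P.cons (P.lf 15255618 0 0) (P.cons (P.lf 0 1367058 0) (P.cons (P.lf 0 659164 0) (P.cons (P.lf 95722 0 0) P.nil))))) (P.cons (P.cons (P.lf 0 5752894 0) (P.cons (P.lf 4424522 0 0) (P.cons (P.lf 0 499014 0) (P.cons (P.lf 0 204884 0) P.nil)))) (P.cons (P.cons (P.lf 988870 0 0) (P.cons (P.lf 0 457772 0) (P.cons (P.lf 0 5994 0) P.nil))) (P.cons (P.cons (P.lf 71154 0 0) (P.cons (P.lf 0 58560 0) P.nil)) (P.cons (P.cons (P.lf 0 14930 0) P.nil) P.nil)))))) 202788)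
 EL.nil)
noncomputable def S198_212_364_512_42 : EL := (EL.cons 14 (TM.mk (P.cons (P.lf 0 469879420 0) (P.cons (P.lf 175190000 0 0) (P.cons (P.lf 0 18244400 0) (P.cons (P.lf 0 85224 0) (P.cons (P.lf 68490 0 0) (P.cons (P.lf 1120 0 0) P.nil)))))) 218)
 EL.nil)
noncomputable def S198_212_364_512_43 : EL := (EL.cons 14 (TM.mk (P.cons (P.cons (P.lf 0 159627940 0) (P.cons (P.lf 70884990 0 0) (P.cons (P.lf 4739204 0 0) (P.lf 0 1579734 0)))) (P.cons (P.cons (P.lf 52108026 0 0) (P.cons (P.lf 0 20622422 0) (P.cons (P.lf 0 1378766 0) (P.lf 459588 0 0)))) (P.cons (P.cons (P.lf 0 1058112 0) (P.cons (P.lf 422862 0 0) (P.cons (P.lf 28270 0 0) (P.lf 0 9424 0)))) (P.cons (P.cons (P.lf 0 1178206 0) (P.cons (P.lf 274108 0 0) (P.cons (P.lf 18326 0 0) P.nil))) (P.cons (P.cons (P.lf 97580 0 0) (P.cons (P.lf 0 6232 0) P.nil)) (P.cons (P.cons (P.lf 5438 0 0) P.nil) P.nil)))))) 13168)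
 EL.nil)
noncomputable def S198_212_364_512_44 : EL := (EL.cons 14 (TM.mk (P.cons (P.cons (P.lf 0 54228976 0) (P.cons (P.lf 48162250 0 0) (P.cons (P.lf 0 7473540 0) (P.cons (P.lf 0 2503230 0) (P.cons (P.lf 428830 0 0) (P.cons (P.lf 31866 0 0) P.nil)))))) (P.cons (P.cons (P.lf 15185640 0 0) (P.cons (P.lf 0 11776722 0) (P.cons (P.lf 1447754 0 0) (P.cons (P.lf 561324 0 0) (P.cons (P.lf 0 89632 0) P.nil))))) (P.cons (P.cons (P.lf 1269884 0 0) (P.cons (P.lf 0 1080398 0) (P.cons (P.lf 143640 0 0) (P.cons (P.lf 52942 0 0) P.nil)))) (P.cons (P.cons (P.lf 0 672166 0) (P.cons (P.lf 400770 0 0) (P.cons (P.lf 0 23148 0) P.nil))) (P.cons (P.cons (P.lf 14660 0 0) (P.cons (P.lf 4540 0 0) P.nil)) (P.cons (P.cons (P.lf 10164 0 0) P.nil) P.nil)))))) 126582)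
 EL.nil)
noncomputable def S198_212_364_512_45 : EL := (EL.cons 14 (TM.mk (P.cons (P.cons (P.lf 336788556 0 0) (P.cons (P.lf 0 448666822 0) (P.cons (P.lf 169239878 0 0) (P.cons (P.lf 7148670 0 0) (P.cons (P.lf 0 13904906 0) (P.cons (P.lf 982524 0 0) P.nil)))))) (P.cons (P.cons (P.lf 46887110 0 0) (P.cons (P.lf 0 78393118 0) (P.cons (P.lf 36644528 0 0) (P.cons (P.lf 100718 0 0) (P.cons (P.lf 0 3133264 0) P.nil))))) (P.cons (P.cons (P.lf 0 12875728 0) (P.cons (P.lf 10032376 0 0) (P.cons (P.lf 0 371114 0) (P.cons (P.lf 0 751072 0) P.nil)))) (P.cons (P.cons (P.lf 0 1521464 0) (P.cons (P.lf 2035152 0 0) (P.cons (P.lf 0 581774 0) P.nil))) (P.cons (P.cons (P.lf 223710 0 0) (P.cons (P.lf 0 85278 0) P.nil)) (P.cons (P.cons (P.lf 20158 0 0) P.nil) P.nil)))))) 1797726)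
 EL.nil)
noncomputable def S198_212_364_512_46 : EL := (EL.cons 15 (TM.mk (P.lf 4294967296 0 0) 0)
 EL.nil)
noncomputable def S198_212_364_512_47 : EL := (EL.cons 15 (TM.mk (P.cons (P.cons (P.lf 1459090908 0 0) (P.cons (P.lf 0 647929460 0) (P.cons (P.lf 0 43319052 0) (P.lf 14439684 0 0)))) (P.cons (P.cons (P.lf 67710692 0 0) (P.cons (P.lf 0 53073464 0) (P.cons (P.lf 0 3548368 0) (P.lf 1182788 0 0)))) (P.cons (P.cons (P.lf 0 21736308 0) (P.cons (P.lf 1504552 0 0) (P.cons (P.lf 100588 0 0) (P.lf 0 33528 0)))) (P.cons (P.cons (P.lf 0 228392 0) (P.cons (P.lf 233684 0 0) (P.cons (P.lf 15620 0 0) P.nil))) (P.cons (P.cons (P.lf 67266 0 0) (P.cons (P.lf 868 0 0) P.nil)) (P.cons (P.cons (P.lf 1530 0 0) P.nil) P.nil)))))) 7063)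
 EL.nil)
noncomputable def S198_212_364_512_48 : EL := (EL.cons 15 (TM.mk (P.cons (P.cons (P.lf 495683932 0 0) (P.cons (P.lf 0 440230585 0) (P.cons (P.lf 68312444 0 0) (P.cons (P.lf 22880966 0 0) (P.cons (P.lf 0 3919762 0) (P.cons (P.lf 0 291277 0) P.nil)))))) (P.cons (P.cons (P.lf 46005498 0 0) (P.cons (P.lf 0 56489725 0) (P.cons (P.lf 12236324 0 0) (P.cons (P.lf 3400119 0 0) (P.cons (P.lf 0 642154 0) P.nil))))) (P.cons (P.cons (P.lf 0 13701096 0) (P.cons (P.lf 5907021 0 0) (P.cons (P.lf 596816 0 0) (P.cons (P.lf 0 104645 0) P.nil)))) (P.cons (P.cons (P.lf 0 840530 0) (P.cons (P.lf 812319 0 0) (P.cons (P.lf 0 53382 0) P.nil))) (P.cons (P.cons (P.lf 148506 0 0) (P.cons (P.lf 0 21921 0) P.nil)) (P.cons (P.cons (P.lf 5472 0 0) P.nil) P.nil)))))) 220994)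
 EL.nil)
noncomputable def S198_212_364_512 : SL := (SL.cons S198_212_364_512_0 (SL.cons S198_212_364_512_1 (SL.cons S198_212_364_512_2 (SL.cons S198_212_364_512_3 (SL.cons S198_212_364_512_4 (SL.cons S198_212_364_512_5 (SL.cons S198_212_364_512_6 (SL.cons S198_212_364_512_7 (SL.cons S198_212_364_512_8 (SL.cons S198_212_364_512_9 (SL.cons S198_212_364_512_10 (SL.cons S198_212_364_512_11 (SL.cons S198_212_364_512_12 (SL.cons S198_212_364_512_13 (SL.cons S198_212_364_512_14 (SL.cons S198_212_364_512_15 (SL.cons S198_212_364_512_16 (SL.cons S198_212_364_512_17 (SL.cons S198_212_364_512_18 (SL.cons S198_212_364_512_19 (SL.cons S198_212_364_512_20 (SL.cons S198_212_364_512_21 (SL.cons S198_212_364_512_22 (SL.cons S198_212_364_512_23 (SL.cons S198_212_364_512_24 (SL.cons S198_212_364_512_25 (SL.cons S198_212_364_512_26 (SL.cons S198_212_364_512_27 (SL.cons S198_212_364_512_28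 (SL.cons S198_212_364_512_29 (SL.cons S198_212_364_512_30 (SL.cons S198_212_364_512_31 (SL.cons S198_212_364_512_32 (SL.cons S198_212_364_512_33 (SL.cons S198_212_364_512_34 (SL.cons S198_212_364_512_35 (SL.cons S198_212_364_512_36 (SL.cons S198_212_364_512_37 (SL.cons S198_212_364_512_38 (SL.cons S198_212_364_512_39 (SL.cons S198_212_364_512_40 (SL.cons S198_212_364_512_41 (SL.cons S198_212_364_512_42 (SL.cons S198_212_364_512_43 (SL.cons S198_212_364_512_44 (SL.cons S198_212_364_512_45 (SL.cons S198_212_364_512_46 (SL.cons S198_212_364_512_47 (SL.cons S198_212_364_512_48 SL.nil)))))))))))))))))))))))))))))))))))))))))))))))))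
theorem S198_212_216_290_ok : band (seq (shp 5 198 212 216 290) S198_212_216_290) (sok S198_212_216_290) = true := by decide +kernel

theorem S198_212_216_364_ok : band (seq (shp 5 198 212 216 364) S198_212_216_364) (sok S198_212_216_364) = true := by decide +kernel

theorem S198_212_290_364_ok : band (seq (shp 5 198 212 290 364) S198_212_290_364) (sok S198_212_290_364) = true := by decide +kernel

theorem S198_212_364_401_ok : band (seq (shp 5 198 212 364 401) S198_212_364_401) (sok S198_212_364_401) = true := by decide +kernel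

theorem S198_212_364_438_ok : band (seq (shp 5 198 212 364 438) S198_212_364_438) (sok S198_212_364_438) = true := by decide +kernel

theorem S198_212_364_512_ok : band (seq (shp 5 198 212 364 512) S198_212_364_512) (sok S198_212_364_512) = true := by decide +kernel

end Vale.Agent.P098.Ck
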