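import Vale.Agent.P098.CkDefs

namespace Vale.Agent.P098.Ck

noncomputable def S212_219_364_512_0 : EL := (EL.cons 0 (TM.mk (P.cons (P.lf 7745051952 0 0) (P.cons (P.lf 115378518 0 0) (P.cons (P.lf 0 3756028 0) (P.cons (P.lf 0 96526 0) (P.cons (P.lf 1105 0 0) (P.cons (P.lf 38 0 0) P.nil)))))) 65)
 (EL.cons 1 (TM.mk (P.cons (P.lf 0 1160417966 0) (P.cons (P.lf 81636789 0 0) (P.cons (P.lf 2253468 0 0) (P.cons (P.lf 0 42547 0) (P.cons (P.lf 0 1273 0) (P.cons (P.lf 3 0 0) P.nil)))))) 83)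
 (EL.cons 5 (TM.mk (P.cons (P.lf 4547648156 0 0) (P.cons (P.lf 0 41023472 0) (P.cons (P.lf 1335476 0 0) (P.cons (P.lf 34320 0 0) (P.cons (P.lf 0 390 0) (P.cons (P.lf 0 14 0) P.nil)))))) 107)
 (EL.cons 9 (TM.mk (P.lf 6442450944 0 0) 2)
 EL.nil))))
noncomputable def S212_219_364_512_1 : EL := (EL.cons 0 (TM.mk (P.cons (P.cons (P.lf 2710824996 0 0) (P.cons (P.lf 0 945360008 0) (P.cons (P.lf 0 63204572 0) (P.lf 21068193 0 0)))) (P.cons (P.cons (P.lf 210119332 0 0) (P.cons (P.lf 0 108430230 0) (P.cons (P.lf 0 7249385 0) (P.lf 2416456 0 0)))) (P.cons (P.cons (P.lf 0 24868983 0) (P.cons (P.lf 839352 0 0) (P.cons (P.lf 56121 0 0) (P.lf 0 18708 0)))) (P.cons (P.cons (P.lf 0 558651 0) (P.cons (P.lf 252809 0 0) (P.cons (P.lf 16895 0 0) P.nil))) (P.cons (P.cons (P.lf 41581 0 0) (P.cons (P.lf 1932 0 0) P.nil)) (P.cons (P.cons (P.lf 946 0 0) P.nil) P.nil)))))) 9372)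
 (EL.cons 1 (TM.mk (P.cons (P.cons (P.lf 0 418616826 0) (P.cons (P.lf 449504430 0 0) (P.cons (P.lf 30052816 0 0) (P.lf 0 10017602 0)))) (P.cons (P.cons (P.lf 145963660 0 0) (P.cons (P.lf 0 9831706 0) (P.cons (P.lf 0 657323 0) (P.lf 219106 0 0)))) (P.cons (P.cons (P.lf 6758067 0 0) (P.cons (P.lf 0 2958472 0) (P.cons (P.lf 0 197792 0) (P.lf 65923 0 0)))) (P.cons (P.cons (P.lf 0 559247 0) (P.cons (P.lf 0 16113 0) (P.cons (P.lf 0 1075 0) P.nil))) (P.cons (P.cons (P.lf 0 14994 0) (P.cons (P.lf 4597 0 0) P.nil)) (P.cons (P.cons (P.lf 657 0 0) P.nil) P.nil)))))) 4764)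
 (EL.cons 5 (TM.mk (P.cons (P.cons (P.lf 1605412663 0 0) (P.cons (P.lf 0 893592858 0) (P.cons (P.lf 0 59743538 0) (P.lf 19914516 0 0)))) (P.cons (P.cons (P.lf 0 73092514 0) (P.cons (P.lf 0 1383182 0) (P.cons (P.lf 0 92480 0) (P.lf 30832 0 0)))) (P.cons (P.cons (P.lf 0 428203 0) (P.cons (P.lf 785484 0 0) (P.cons (P.lf 52518 0 0) (P.lf 0 17504 0)))) (P.cons (P.cons (P.lf 241511 0 0) (P.cons (P.lf 0 41622 0) (P.cons (P.lf 0 2778 0) P.nil))) (P.cons (P.cons (P.lf 0 6845 0) (P.cons (P.lf 0 1016 0) P.nil)) (P.cons (P.cons (P.lf 0 314 0) P.nil) P.nil)))))) 6217)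
 (EL.cons 9 (TM.mk (P.cons (P.cons (P.lf 2266995483 0 0) (P.cons (P.lf 0 1085047812 0) (P.cons (P.lf 0 72543768 0) (P.lf 24181254 0 0)))) (P.cons (P.cons (P.lf 1426386 0 0) (P.cons (P.lf 0 35237772 0) (P.cons (P.lf 0 2355912 0) (P.lf 785304 0 0)))) (P.cons (P.cons (P.lf 0 8179845 0) (P.cons (P.lf 956394 0 0) (P.cons (P.lf 63942 0 0) (P.lf 0 21312 0)))) (P.cons (P.cons (P.lf 37831 0 0) (P.cons (P.lf 42582 0 0) (P.cons (P.lf 2844 0 0) P.nil))) (P.cons (P.cons (P.lf 6988 0 0) (P.cons (P.lf 0 288 0) P.nil)) (P.cons (P.cons (P.lf 13 0 0) P.nil) P.nil)))))) 1643)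
 (EL.cons 2 (TM.mk (P.cons (P.cons (P.lf 758274395 0 0) (P.cons (P.lf 117399917 0 0) (P.cons (P.lf 0 56559577 0) (P.cons (P.lf 0 2140380 0) (P.lf 535095 0 0))))) (P.cons (P.cons (P.lf 0 45136991 0) (P.cons (P.lf 0 6988339 0) (P.cons (P.lf 3366759 0 0) (P.cons (P.lf 127406 0 0) (P.lf 0 31851 0))))) (P.cons (P.cons (P.lf 0 2361656 0) (P.cons (P.lf 0 365641 0) (P.cons (P.lf 176152 0 0) (P.cons (P.lf 6665 0 0) P.nil)))) (P.cons (P.cons (P.lf 30293 0 0) (P.cons (P.lf 4688 0 0) (P.cons (P.lf 0 2258 0) P.nil))) (P.cons (P.cons (P.lf 2033 0 0) (P.cons (P.lf 315 0 0) P.nil)) (P.cons (P.cons (P.lf 0 0 0) P.nil) P.nil)))))) 2310)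
 (EL.cons 6 (TM.mk (P.cons (P.cons (P.lf 1238157699 0 0) (P.cons (P.lf 191697903 0 0) (P.cons (P.lf 0 92354004 0) (P.cons (P.lf 0 3494946 0) (P.lf 873735 0 0))))) (P.cons (P.cons (P.lf 40210140 0 0) (P.cons (P.lf 6225537 0 0) (P.cons (P.lf 0 2999268 0) (P.cons (P.lf 0 113499 0) (P.lf 28374 0 0))))) (P.cons (P.cons (P.lf 0 1091355 0) (P.cons (P.lf 0 168966 0) (P.cons (P.lf 81402 0 0) (P.cons (P.lf 3078 0 0) P.nil)))) (P.cons (P.cons (P.lf 0 48594 0) (P.cons (P.lf 0 7521 0) (P.cons (P.lf 3624 0 0) P.nil))) (P.cons (P.cons (P.lf 330 0 0) (P.cons (P.lf 51 0 0) P.nil)) (P.cons (P.cons (P.lf 27 0 0) P.nil) P.nil)))))) 1671)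
 EL.nil))))))
noncomputable def S212_219_364_512_2 : EL := (EL.cons 0 (TM.mk (P.cons (P.cons (P.lf 948781360 0 0) (P.cons (P.lf 0 660418151 0) (P.cons (P.lf 54589214 0 0) (P.cons (P.lf 27921492 0 0) (P.cons (P.lf 0 3959795 0) (P.cons (P.lf 0 294255 0) P.nil)))))) (P.cons (P.cons (P.lf 133582384 0 0) (P.cons (P.lf 0 133093200 0) (P.cons (P.lf 20424876 0 0) (P.cons (P.lf 6887050 0 0) (P.cons (P.lf 0 1175909 0) P.nil))))) (P.cons (P.cons (P.lf 0 16925319 0) (P.cons (P.lf 5731253 0 0) (P.cons (P.lf 1055465 0 0) (P.cons (P.lf 0 37839 0) P.nil)))) (P.cons (P.cons (P.lf 0 817932 0) (P.cons (P.lf 784888 0 0) (P.cons (P.lf 0 44754 0) P.nil))) (P.cons (P.cons (P.lf 78207 0 0) (P.cons (P.lf 0 10430 0) P.nil)) (P.cons (P.cons (P.lf 2029 0 0) P.nil) P.nil)))))) 473950)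
 (EL.cons 1 (TM.mk (P.cons (P.cons (P.lf 0 150923447 0) (P.cons (P.lf 319811035 0 0) (P.cons (P.lf 0 97114458 0) (P.cons (P.lf 0 22972035 0) (P.cons (P.lf 4751919 0 0) (P.cons (P.lf 353110 0 0) P.nil)))))) (P.cons (P.cons (P.lf 92611541 0 0) (P.cons (P.lf 0 46184714 0) (P.cons (P.lf 0 4871026 0) (P.cons (P.lf 790818 0 0) (P.cons (P.lf 71513 0 0) P.nil))))) (P.cons (P.cons (P.lf 4555163 0 0) (P.cons (P.lf 0 6023151 0) (P.cons (P.lf 597222 0 0) (P.cons (P.lf 267927 0 0) P.nil)))) (P.cons (P.cons (P.lf 0 684150 0) (P.cons (P.lf 149691 0 0) (P.cons (P.lf 45040 0 0) P.nil))) (P.cons (P.cons (P.lf 0 22504 0) (P.cons (P.lf 22893 0 0) P.nil)) (P.cons (P.cons (P.lf 2008 0 0) P.nil) P.nil)))))) 219073)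
 (EL.cons 5 (TM.mk (P.cons (P.cons (P.lf 566737572 0 0) (P.cons (P.lf 0 630622877 0) (P.cons (P.lf 129840855 0 0) (P.cons (P.lf 37053407 0 0) (P.cons (P.lf 0 6897617 0) (P.cons (P.lf 0 512559 0) P.nil)))))) (P.cons (P.cons (P.lf 0 46358264 0) (P.cons (P.lf 18671703 0 0) (P.cons (P.lf 4274555 0 0) (P.cons (P.lf 0 11452 0) (P.cons (P.lf 0 121370 0) P.nil))))) (P.cons (P.cons (P.lf 0 506039 0) (P.cons (P.lf 1830082 0 0) (P.cons (P.lf 0 263346 0) (P.cons (P.lf 0 92352 0) P.nil)))) (P.cons (P.cons (P.lf 316883 0 0) (P.cons (P.lf 0 157641 0) (P.cons (P.lf 0 4094 0) P.nil))) (P.cons (P.cons (P.lf 0 10428 0) (P.cons (P.lf 0 2397 0) P.nil)) (P.cons (P.cons (P.lf 0 806 0) P.nil) P.nil)))))) 311400)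
 (EL.cons 9 (TM.mk (P.cons (P.cons (P.lf 797719464 0 0) (P.cons (P.lf 0 763621953 0) (P.cons (P.lf 131691489 0 0) (P.cons (P.lf 41453865 0 0) (P.cons (P.lf 0 7328427 0) (P.cons (P.lf 0 544575 0) P.nil)))))) (P.cons (P.cons (P.lf 1003843 0 0) (P.cons (P.lf 0 25279684 0) (P.cons (P.lf 10179463 0 0) (P.cons (P.lf 2150526 0 0) (P.cons (P.lf 0 475992 0) P.nil))))) (P.cons (P.cons (P.lf 0 5756397 0) (P.cons (P.lf 3412800 0 0) (P.cons (P.lf 98754 0 0) (P.cons (P.lf 0 93360 0) P.nil)))) (P.cons (P.cons (P.lf 23001 0 0) (P.cons (P.lf 107128 0 0) (P.cons (P.lf 0 17644 0) P.nil))) (P.cons (P.cons (P.lf 15319 0 0) (P.cons (P.lf 0 5379 0) P.nil)) (P.cons (P.cons (P.lf 0 82 0) P.nil) P.nil)))))) 168982)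
 (EL.cons 2 (TM.mk (P.cons (P.cons (P.lf 533649268 0 0) (P.cons (P.lf 0 172797243 0) (P.cons (P.lf 0 96426939 0) (P.cons (P.lf 20593715 0 0) (P.cons (P.lf 3252611 0 0) (P.cons (P.lf 0 556621 0) P.nil)))))) (P.cons (P.cons (P.lf 0 31430199 0) (P.cons (P.lf 2042949 0 0) (P.cons (P.lf 3876007 0 0) (P.cons (P.lf 0 509090 0) (P.cons (P.lf 0 99973 0) P.nil))))) (P.cons (P.cons (P.lf 0 3607571 0) (P.cons (P.lf 955861 0 0) (P.cons (P.lf 604800 0 0) (P.cons (P.lf 0 120847 0) P.nil)))) (P.cons (P.cons (P.lf 143797 0 0) (P.cons (P.lf 34515 0 0) (P.cons (P.lf 0 8004 0) P.nil))) (P.cons (P.cons (P.lf 8555 0 0) (P.cons (P.lf 0 1051 0) P.nil)) (P.cons (P.cons (P.lf 0 196 0) P.nil) P.nil)))))) 113208)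
 (EL.cons 6 (TM.mk (P.cons (P.cons (P.lf 871375794 0 0) (P.cons (P.lf 0 282154110 0) (P.cons (P.lf 0 157451916 0) (P.cons (P.lf 33626700 0 0) (P.cons (P.lf 5311062 0 0) (P.cons (P.lf 0 908886 0) P.nil)))))) (P.cons (P.cons (P.lf 28846878 0 0) (P.cons (P.lf 0 22622796 0) (P.cons (P.lf 0 8156844 0) (P.cons (P.lf 2262432 0 0) (P.cons (P.lf 325374 0 0) P.nil))))) (P.cons (P.cons (P.lf 0 3894378 0) (P.cons (P.lf 0 307584 0) (P.cons (P.lf 355950 0 0) (P.cons (P.lf 0 14562 0) P.nil)))) (P.cons (P.cons (P.lf 0 122244 0) (P.cons (P.lf 37680 0 0) (P.cons (P.lf 21666 0 0) P.nil))) (P.cons (P.cons (P.lf 6138 0 0) (P.cons (P.lf 1464 0 0) P.nil)) (P.cons (P.cons (P.lf 222 0 0) P.nil) P.nil)))))) 154434)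
 EL.nil))))))
noncomputable def S212_219_364_512_3 : EL := (EL.cons 0 (TM.mk (P.cons (P.lf 710664911 0 0) (P.cons (P.lf 0 115378518 0) (P.cons (P.lf 3756028 0 0) (P.cons (P.lf 96526 0 0) (P.cons (P.lf 0 1105 0) (P.cons (P.lf 0 38 0) P.nil)))))) 65)
 (EL.cons 1 (TM.mk (P.cons (P.lf 1160417966 0 0) (P.cons (P.lf 0 81636789 0) (P.cons (P.lf 0 2253468 0) (P.cons (P.lf 42547 0 0) (P.cons (P.lf 1273 0 0) (P.cons (P.lf 0 3 0) P.nil)))))) 83)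
 (EL.cons 5 (TM.mk (P.cons (P.lf 1894802788 0 0) (P.cons (P.lf 41023472 0 0) (P.cons (P.lf 0 1335476 0) (P.cons (P.lf 0 34320 0) (P.cons (P.lf 390 0 0) (P.cons (P.lf 14 0 0) P.nil)))))) 100)
 EL.nil)))
noncomputable def S212_219_364_512_4 : EL := (EL.cons 0 (TM.mk (P.cons (P.cons (P.lf 250071619 0 0) (P.cons (P.lf 0 119691311 0) (P.cons (P.lf 0 8002281 0) (P.lf 2667425 0 0)))) (P.cons (P.cons (P.lf 0 40442510 0) (P.cons (P.lf 15545163 0 0) (P.cons (P.lf 1039313 0 0) (P.lf 0 346436 0)))) (P.cons (P.cons (P.lf 393823 0 0) (P.cons (P.lf 103979 0 0) (P.cons (P.lf 6950 0 0) (P.lf 0 2316 0)))) (P.cons (P.cons (P.lf 185463 0 0) (P.cons (P.lf 0 49231 0) (P.cons (P.lf 0 3290 0) P.nil))) (P.cons (P.cons (P.lf 0 5043 0) (P.cons (P.lf 0 578 0) P.nil)) (P.cons (P.cons (P.lf 0 237 0) P.nil) P.nil)))))) 1727)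
 (EL.cons 1 (TM.mk (P.cons (P.cons (P.lf 408332527 0 0) (P.cons (P.lf 0 195439434 0) (P.cons (P.lf 0 13066623 0) (P.lf 4355540 0 0)))) (P.cons (P.cons (P.lf 0 28469758 0) (P.cons (P.lf 7402348 0 0) (P.cons (P.lf 494902 0 0) (P.lf 0 164966 0)))) (P.cons (P.cons (P.lf 0 2284391 0) (P.cons (P.lf 998319 0 0) (P.cons (P.lf 66744 0 0) (P.lf 0 22246 0)))) (P.cons (P.cons (P.lf 124938 0 0) (P.cons (P.lf 710 0 0) (P.cons (P.lf 46 0 0) P.nil))) (P.cons (P.cons (P.lf 4096 0 0) (P.cons (P.lf 0 1372 0) P.nil)) (P.cons (P.cons (P.lf 0 153 0) P.nil) P.nil)))))) 1342)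
 (EL.cons 5 (TM.mk (P.cons (P.cons (P.lf 666750806 0 0) (P.cons (P.lf 0 319125690 0) (P.cons (P.lf 0 21335998 0) (P.lf 7111998 0 0)))) (P.cons (P.cons (P.lf 14855020 0 0) (P.cons (P.lf 0 17273092 0) (P.cons (P.lf 0 1154836 0) (P.lf 384944 0 0)))) (P.cons (P.cons (P.lf 0 2866640 0) (P.cons (P.lf 281826 0 0) (P.cons (P.lf 18840 0 0) (P.lf 0 6280 0)))) (P.cons (P.cons (P.lf 0 53332 0) (P.cons (P.lf 31698 0 0) (P.cons (P.lf 2118 0 0) P.nil))) (P.cons (P.cons (P.lf 4120 0 0) (P.cons (P.lf 110 0 0) P.nil)) (P.cons (P.cons (P.lf 88 0 0) P.nil) P.nil)))))) 1106)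
 EL.nil)))
noncomputable def S212_219_364_512_5 : EL := (EL.cons 0 (TM.mk (P.cons (P.cons (P.lf 87996204 0 0) (P.cons (P.lf 0 84234916 0) (P.cons (P.lf 14526849 0 0) (P.cons (P.lf 4572762 0 0) (P.cons (P.lf 0 808395 0) (P.cons (P.lf 0 60071 0) P.nil)))))) (P.cons (P.cons (P.lf 0 14175704 0) (P.cons (P.lf 10887189 0 0) (P.cons (P.lf 0 1235582 0) (P.cons (P.lf 0 505175 0) (P.cons (P.lf 78737 0 0) P.nil))))) (P.cons (P.cons (P.lf 0 187883 0) (P.cons (P.lf 383999 0 0) (P.cons (P.lf 0 94633 0) (P.cons (P.lf 0 24642 0) P.nil)))) (P.cons (P.cons (P.lf 118165 0 0) (P.cons (P.lf 0 75482 0) (P.cons (P.lf 4192 0 0) P.nil))) (P.cons (P.cons (P.lf 0 2199 0) (P.cons (P.lf 0 769 0) P.nil)) (P.cons (P.cons (P.lf 0 360 0) P.nil) P.nil)))))) 49555)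
 (EL.cons 1 (TM.mk (P.cons (P.cons (P.lf 143685686 0 0) (P.cons (P.lf 0 137544024 0) (P.cons (P.lf 23720345 0 0) (P.cons (P.lf 7466692 0 0) (P.cons (P.lf 0 1320000 0) (P.cons (P.lf 0 98086 0) P.nil)))))) (P.cons (P.cons (P.lf 0 9927645 0) (P.cons (P.lf 5122993 0 0) (P.cons (P.lf 164775 0 0) (P.cons (P.lf 0 137936 0) (P.cons (P.lf 7126 0 0) P.nil))))) (P.cons (P.cons (P.lf 0 1328595 0) (P.cons (P.lf 1202154 0 0) (P.cons (P.lf 0 157265 0) (P.cons (P.lf 0 58565 0) P.nil)))) (P.cons (P.cons (P.lf 82001 0 0) (P.cons (P.lf 0 20148 0) (P.cons (P.lf 0 7119 0) P.nil))) (P.cons (P.cons (P.lf 4644 0 0) (P.cons (P.lf 0 3836 0) P.nil)) (P.cons (P.cons (P.lf 0 253 0) P.nil) P.nil)))))) 54477)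
 (EL.cons 5 (TM.mk (P.cons (P.cons (P.lf 234618948 0 0) (P.cons (P.lf 0 224590456 0) (P.cons (P.lf 38732058 0 0) (P.cons (P.lf 12192082 0 0) (P.cons (P.lf 0 2155378 0) (P.cons (P.lf 0 160164 0) P.nil)))))) (P.cons (P.cons (P.lf 5374864 0 0) (P.cons (P.lf 0 12297560 0) (P.cons (P.lf 3832472 0 0) (P.cons (P.lf 896458 0 0) (P.cons (P.lf 0 186658 0) P.nil))))) (P.cons (P.cons (P.lf 0 1851994 0) (P.cons (P.lf 1001066 0 0) (P.cons (P.lf 66564 0 0) (P.cons (P.lf 0 22356 0) P.nil)))) (P.cons (P.cons (P.lf 0 34346 0) (P.cons (P.lf 62546 0 0) (P.cons (P.lf 0 7370 0) P.nil))) (P.cons (P.cons (P.lf 5888 0 0) (P.cons (P.lf 0 1518 0) P.nil)) (P.cons (P.cons (P.lf 100 0 0) P.nil) P.nil)))))) 61334)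
 EL.nil)))
noncomputable def S212_219_364_512_6 : EL := (EL.cons 12 (TM.mk (P.lf 8589934592 0 0) 0)
 (EL.cons 3 (TM.mk (P.cons (P.lf 0 1235370907 0) (P.cons (P.lf 100283032 0 0) (P.cons (P.lf 805698 0 0) (P.cons (P.lf 0 18495 0) (P.cons (P.lf 0 277 0) (P.cons (P.lf 0 0 0) P.nil)))))) 44)
 (EL.cons 7 (TM.mk (P.cons (P.lf 0 2017190622 0) (P.cons (P.lf 0 21836617 0) (P.cons (P.lf 829062 0 0) (P.cons (P.lf 9294 0 0) (P.cons (P.lf 0 138 0) (P.cons (P.lf 0 3 0) P.nil)))))) 46)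
 EL.nil)))
noncomputable def S212_219_364_512_7 : EL := (EL.cons 12 (TM.mk (P.cons (P.cons (P.lf 3022660644 0 0) (P.cons (P.lf 0 1446730416 0) (P.cons (P.lf 0 96725024 0) (P.lf 32241672 0 0)))) (P.cons (P.cons (P.lf 1901848 0 0) (P.cons (P.lf 0 46983696 0) (P.cons (P.lf 0 3141216 0) (P.lf 1047072 0 0)))) (P.cons (P.cons (P.lf 0 10906460 0) (P.cons (P.lf 1275192 0 0) (P.cons (P.lf 85256 0 0) (P.lf 0 28416 0)))) (P.cons (P.cons (P.lf 50442 0 0) (P.cons (P.lf 56776 0 0) (P.cons (P.lf 3792 0 0) P.nil))) (P.cons (P.cons (P.lf 9318 0 0) (P.cons (P.lf 0 384 0) P.nil)) (P.cons (P.cons (P.lf 18 0 0) P.nil) P.nil)))))) 2166)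
 (EL.cons 3 (TM.mk (P.cons (P.cons (P.lf 0 409440703 0) (P.cons (P.lf 0 416126254 0) (P.cons (P.lf 0 27821230 0) (P.lf 9273742 0 0)))) (P.cons (P.cons (P.lf 0 254634585 0) (P.cons (P.lf 20265630 0 0) (P.cons (P.lf 1354912 0 0) (P.lf 0 451636 0)))) (P.cons (P.cons (P.lf 2261164 0 0) (P.cons (P.lf 1735200 0 0) (P.cons (P.lf 116010 0 0) (P.lf 0 38668 0)))) (P.cons (P.cons (P.lf 436263 0 0) (P.cons (P.lf 0 10858 0) (P.cons (P.lf 0 724 0) P.nil))) (P.cons (P.cons (P.lf 1983 0 0) (P.cons (P.lf 0 1970 0) P.nil)) (P.cons (P.cons (P.lf 0 328 0) P.nil) P.nil)))))) 4111)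
 (EL.cons 7 (TM.mk (P.cons (P.cons (P.lf 0 715318927 0) (P.cons (P.lf 475655608 0 0) (P.cons (P.lf 31801228 0 0) (P.lf 0 10600412 0)))) (P.cons (P.cons (P.lf 55446642 0 0) (P.cons (P.lf 0 4412835 0) (P.cons (P.lf 0 295032 0) (P.lf 98342 0 0)))) (P.cons (P.cons (P.lf 0 3042954 0) (P.cons (P.lf 0 174848 0) (P.cons (P.lf 0 11692 0) (P.lf 3898 0 0)))) (P.cons (P.cons (P.lf 0 50851 0) (P.cons (P.lf 24426 0 0) (P.cons (P.lf 1632 0 0) P.nil))) (P.cons (P.cons (P.lf 5564 0 0) (P.cons (P.lf 155 0 0) P.nil)) (P.cons (P.cons (P.lf 67 0 0) P.nil) P.nil)))))) 4051)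
 (EL.cons 10 (TM.mk (P.cons (P.cons (P.lf 0 2636263908 0) (P.cons (P.lf 0 408159855 0) (P.cons (P.lf 196638546 0 0) (P.cons (P.lf 7441380 0 0) (P.lf 0 1860345 0))))) (P.cons (P.cons (P.lf 0 57076491 0) (P.cons (P.lf 0 8836872 0) (P.cons (P.lf 4257327 0 0) (P.cons (P.lf 161109 0 0) (P.lf 0 40275 0))))) (P.cons (P.cons (P.lf 1858065 0 0) (P.cons (P.lf 287673 0 0) (P.cons (P.lf 0 138591 0) (P.cons (P.lf 0 5244 0) P.nil)))) (P.cons (P.cons (P.lf 47748 0 0) (P.cons (P.lf 7392 0 0) (P.cons (P.lf 0 3561 0) P.nil))) (P.cons (P.cons (P.lf 0 540 0) (P.cons (P.lf 0 84 0) P.nil)) (P.cons (P.cons (P.lf 0 18 0) P.nil) P.nil)))))) 1806)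
 EL.nil))))
noncomputable def S212_219_364_512_8 : EL := (EL.cons 12 (TM.mk (P.cons (P.cons (P.lf 1063625952 0 0) (P.cons (P.lf 0 1018162604 0) (P.cons (P.lf 175588652 0 0) (P.cons (P.lf 55271820 0 0) (P.cons (P.lf 0 9771236 0) (P.cons (P.lf 0 726100 0) P.nil)))))) (P.cons (P.cons (P.lf 1338458 0 0) (P.cons (P.lf 0 33706246 0) (P.cons (P.lf 13572618 0 0) (P.cons (P.lf 2867368 0 0) (P.cons (P.lf 0 634656 0) P.nil))))) (P.cons (P.cons (P.lf 0 7675196 0) (P.cons (P.lf 4550400 0 0) (P.cons (P.lf 131672 0 0) (P.cons (P.lf 0 124480 0) P.nil)))) (P.cons (P.cons (P.lf 30668 0 0) (P.cons (P.lf 142838 0 0) (P.cons (P.lf 0 23526 0) P.nil))) (P.cons (P.cons (P.lf 20426 0 0) (P.cons (P.lf 0 7172 0) P.nil)) (P.cons (P.cons (P.lf 0 110 0) P.nil) P.nil)))))) 225280)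
 (EL.cons 3 (TM.mk (P.cons (P.cons (P.lf 0 135184739 0) (P.cons (P.lf 0 301367220 0) (P.cons (P.lf 155062898 0 0) (P.cons (P.lf 30144711 0 0) (P.cons (P.lf 0 7026306 0) (P.cons (P.lf 0 522120 0) P.nil)))))) (P.cons (P.cons (P.lf 0 191609767 0) (P.cons (P.lf 111367951 0 0) (P.cons (P.lf 4603009 0 0) (P.cons (P.lf 0 2862055 0) (P.cons (P.lf 114000 0 0) P.nil))))) (P.cons (P.cons (P.lf 1299089 0 0) (P.cons (P.lf 5332552 0 0) (P.cons (P.lf 0 805641 0) (P.cons (P.lf 0 274237 0) P.nil)))) (P.cons (P.cons (P.lf 1046006 0 0) (P.cons (P.lf 0 347535 0) (P.cons (P.lf 0 41741 0) P.nil))) (P.cons (P.cons (P.lf 0 4692 0) (P.cons (P.lf 0 17788 0) P.nil)) (P.cons (P.cons (P.lf 0 2140 0) P.nil) P.nil)))))) 318018)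
 (EL.cons 7 (TM.mk (P.cons (P.cons (P.lf 0 253645284 0) (P.cons (P.lf 336604446 0 0) (P.cons (P.lf 0 80497461 0) (P.cons (P.lf 0 21274484 0) (P.cons (P.lf 4130567 0 0) (P.cons (P.lf 306939 0 0) P.nil)))))) (P.cons (P.cons (P.lf 41722998 0 0) (P.cons (P.lf 0 24250349 0) (P.cons (P.lf 0 1002308 0) (P.cons (P.lf 623210 0 0) (P.cons (P.lf 0 24819 0) P.nil))))) (P.cons (P.cons (P.lf 0 2202162 0) (P.cons (P.lf 0 45634 0) (P.cons (P.lf 221530 0 0) (P.cons (P.lf 31045 0 0) P.nil)))) (P.cons (P.cons (P.lf 0 199921 0) (P.cons (P.lf 140789 0 0) (P.cons (P.lf 0 1921 0) P.nil))) (P.cons (P.cons (P.lf 16347 0 0) (P.cons (P.lf 0 1620 0) P.nil)) (P.cons (P.cons (P.lf 287 0 0) P.nil) P.nil)))))) 138475)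
 (EL.cons 10 (TM.mk (P.cons (P.cons (P.lf 0 1855318236 0) (P.cons (P.lf 600757644 0 0) (P.cons (P.lf 335243892 0 0) (P.cons (P.lf 0 71597394 0) (P.cons (P.lf 0 11308230 0) (P.cons (P.lf 1935192 0 0) P.nil)))))) (P.cons (P.cons (P.lf 0 41335968 0) (P.cons (P.lf 41664714 0 0) (P.cons (P.lf 13738320 0 0) (P.cons (P.lf 0 4042080 0) (P.cons (P.lf 0 570372 0) P.nil))))) (P.cons (P.cons (P.lf 7976790 0 0) (P.cons (P.lf 450786 0 0) (P.cons (P.lf 0 768828 0) (P.cons (P.lf 45336 0 0) P.nil)))) (P.cons (P.cons (P.lf 148398 0 0) (P.cons (P.lf 0 65226 0) (P.cons (P.lf 0 30618 0) P.nil))) (P.cons (P.cons (P.lf 0 11466 0) (P.cons (P.lf 0 2082 0) P.nil)) (P.cons (P.cons (P.lf 0 246 0) P.nil) P.nil)))))) 289020)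
 EL.nil))))
noncomputable def S212_219_364_512_9 : EL := (EL.cons 3 (TM.mk (P.cons (P.lf 0 1235370907 0) (P.cons (P.lf 100283032 0 0) (P.cons (P.lf 805698 0 0) (P.cons (P.lf 0 18495 0) (P.cons (P.lf 0 277 0) (P.cons (P.lf 0 0 0) P.nil)))))) 44)
 (EL.cons 7 (TM.mk (P.cons (P.lf 0 2017190622 0) (P.cons (P.lf 0 21836617 0) (P.cons (P.lf 829062 0 0) (P.cons (P.lf 9294 0 0) (P.cons (P.lf 0 138 0) (P.cons (P.lf 0 3 0) P.nil)))))) 46)
 EL.nil))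
noncomputable def S212_219_364_512_10 : EL := (EL.cons 3 (TM.mk (P.cons (P.cons (P.lf 0 434707270 0) (P.cons (P.lf 208063127 0 0) (P.cons (P.lf 13910615 0 0) (P.lf 0 4636871 0)))) (P.cons (P.cons (P.lf 35014479 0 0) (P.cons (P.lf 0 10132815 0) (P.cons (P.lf 0 677456 0) (P.lf 225818 0 0)))) (P.cons (P.cons (P.lf 1874239 0 0) (P.cons (P.lf 0 867600 0) (P.cons (P.lf 0 58005 0) (P.lf 19334 0 0)))) (P.cons (P.cons (P.lf 0 140910 0) (P.cons (P.lf 5429 0 0) (P.cons (P.lf 362 0 0) P.nil))) (P.cons (P.cons (P.lf 0 1875 0) (P.cons (P.lf 985 0 0) P.nil)) (P.cons (P.cons (P.lf 134 0 0) P.nil) P.nil)))))) 978)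
 (EL.cons 7 (TM.mk (P.cons (P.cons (P.lf 0 709817128 0) (P.cons (P.lf 339738445 0 0) (P.cons (P.lf 22714120 0 0) (P.lf 0 7571372 0)))) (P.cons (P.cons (P.lf 0 8130570 0) (P.cons (P.lf 14711028 0 0) (P.cons (P.lf 983544 0 0) (P.lf 0 327847 0)))) (P.cons (P.cons (P.lf 2848083 0 0) (P.cons (P.lf 0 319649 0) (P.cons (P.lf 0 21370 0) (P.lf 7123 0 0)))) (P.cons (P.cons (P.lf 19334 0 0) (P.cons (P.lf 0 22674 0) (P.cons (P.lf 0 1515 0) P.nil))) (P.cons (P.cons (P.lf 0 3415 0) (P.cons (P.lf 41 0 0) P.nil)) (P.cons (P.cons (P.lf 0 35 0) P.nil) P.nil)))))) 804)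
 EL.nil))
noncomputable def S212_219_364_512_11 : EL := (EL.cons 3 (TM.mk (P.cons (P.cons (P.lf 0 152966537 0) (P.cons (P.lf 146428176 0 0) (P.cons (P.lf 0 25252474 0) (P.cons (P.lf 0 7948977 0) (P.cons (P.lf 1405260 0 0) (P.cons (P.lf 104424 0 0) P.nil)))))) (P.cons (P.cons (P.lf 12224789 0 0) (P.cons (P.lf 0 7039019 0) (P.cons (P.lf 97945 0 0) (P.cons (P.lf 232895 0 0) (P.cons (P.lf 0 22800 0) P.nil))))) (P.cons (P.cons (P.lf 1219205 0 0) (P.cons (P.lf 0 1143422 0) (P.cons (P.lf 155985 0 0) (P.cons (P.lf 56561 0 0) P.nil)))) (P.cons (P.cons (P.lf 0 96178 0) (P.cons (P.lf 31611 0 0) (P.cons (P.lf 5815 0 0) P.nil))) (P.cons (P.cons (P.lf 0 3336 0) (P.cons (P.lf 3230 0 0) P.nil)) (P.cons (P.cons (P.lf 272 0 0) P.nil) P.nil)))))) 54356)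
 (EL.cons 7 (TM.mk (P.cons (P.cons (P.lf 0 249773298 0) (P.cons (P.lf 239097054 0 0) (P.cons (P.lf 0 41233815 0) (P.cons (P.lf 0 12979586 0) (P.cons (P.lf 2294597 0 0) (P.cons (P.lf 170511 0 0) P.nil)))))) (P.cons (P.cons (P.lf 0 3018174 0) (P.cons (P.lf 10503589 0 0) (P.cons (P.lf 0 3633650 0) (P.cons (P.lf 0 813856 0) (P.cons (P.lf 173877 0 0) P.nil))))) (P.cons (P.cons (P.lf 1901634 0 0) (P.cons (P.lf 0 1081162 0) (P.cons (P.lf 0 48476 0) (P.cons (P.lf 27277 0 0) P.nil)))) (P.cons (P.cons (P.lf 13589 0 0) (P.cons (P.lf 0 49465 0) (P.cons (P.lf 6689 0 0) P.nil))) (P.cons (P.cons (P.lf 0 5631 0) (P.cons (P.lf 1740 0 0) P.nil)) (P.cons (P.cons (P.lf 0 31 0) P.nil) P.nil)))))) 58881)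
 EL.nil))
noncomputable def S212_219_364_512_12 : EL := (EL.cons 4 (TM.mk (P.cons (P.lf 1235370907 0 0) (P.cons (P.lf 0 100283032 0) (P.cons (P.lf 0 805698 0) (P.cons (P.lf 18495 0 0) (P.cons (P.lf 277 0 0) (P.cons (P.lf 0 0 0) P.nil)))))) 44)
 (EL.cons 8 (TM.mk (P.cons (P.lf 2017190622 0 0) (P.cons (P.lf 21836617 0 0) (P.cons (P.lf 0 829062 0) (P.cons (P.lf 0 9294 0) (P.cons (P.lf 138 0 0) (P.cons (P.lf 3 0 0) P.nil)))))) 46)
 EL.nil))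
noncomputable def S212_219_364_512_13 : EL := (EL.cons 4 (TM.mk (P.cons (P.cons (P.lf 434707270 0 0) (P.cons (P.lf 0 208063127 0) (P.cons (P.lf 0 13910615 0) (P.lf 4636871 0 0)))) (P.cons (P.cons (P.lf 0 35014479 0) (P.cons (P.lf 10132815 0 0) (P.cons (P.lf 677456 0 0) (P.lf 0 225818 0)))) (P.cons (P.cons (P.lf 0 1874239 0) (P.cons (P.lf 867600 0 0) (P.cons (P.lf 58005 0 0) (P.lf 0 19334 0)))) (P.cons (P.cons (P.lf 140910 0 0) (P.cons (P.lf 0 5429 0) (P.cons (P.lf 0 362 0) P.nil))) (P.cons (P.cons (P.lf 1875 0 0) (P.cons (P.lf 0 985 0) P.nil)) (P.cons (P.cons (P.lf 0 134 0) P.nil) P.nil)))))) 978)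
 (EL.cons 8 (TM.mk (P.cons (P.cons (P.lf 709817128 0 0) (P.cons (P.lf 0 339738445 0) (P.cons (P.lf 0 22714120 0) (P.lf 7571372 0 0)))) (P.cons (P.cons (P.lf 8130570 0 0) (P.cons (P.lf 0 14711028 0) (P.cons (P.lf 0 983544 0) (P.lf 327847 0 0)))) (P.cons (P.cons (P.lf 0 2848083 0) (P.cons (P.lf 319649 0 0) (P.cons (P.lf 21370 0 0) (P.lf 0 7123 0)))) (P.cons (P.cons (P.lf 0 19334 0) (P.cons (P.lf 22674 0 0) (P.cons (P.lf 1515 0 0) P.nil))) (P.cons (P.cons (P.lf 3415 0 0) (P.cons (P.lf 0 41 0) P.nil)) (P.cons (P.cons (P.lf 35 0 0) P.nil) P.nil)))))) 804)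
 EL.nil))
noncomputable def S212_219_364_512_14 : EL := (EL.cons 4 (TM.mk (P.cons (P.cons (P.lf 152966537 0 0) (P.cons (P.lf 0 146428176 0) (P.cons (P.lf 25252474 0 0) (P.cons (P.lf 7948977 0 0) (P.cons (P.lf 0 1405260 0) (P.cons (P.lf 0 104424 0) P.nil)))))) (P.cons (P.cons (P.lf 0 12224789 0) (P.cons (P.lf 7039019 0 0) (P.cons (P.lf 0 97945 0) (P.cons (P.lf 0 232895 0) (P.cons (P.lf 22800 0 0) P.nil))))) (P.cons (P.cons (P.lf 0 1219205 0) (P.cons (P.lf 1143422 0 0) (P.cons (P.lf 0 155985 0) (P.cons (P.lf 0 56561 0) P.nil)))) (P.cons (P.cons (P.lf 96178 0 0) (P.cons (P.lf 0 31611 0) (P.cons (P.lf 0 5815 0) P.nil))) (P.cons (P.cons (P.lf 3336 0 0) (P.cons (P.lf 0 3230 0) P.nil)) (P.cons (P.cons (P.lf 0 272 0) P.nil) P.nil)))))) 54356)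
 (EL.cons 8 (TM.mk (P.cons (P.cons (P.lf 249773298 0 0) (P.cons (P.lf 0 239097054 0) (P.cons (P.lf 41233815 0 0) (P.cons (P.lf 12979586 0 0) (P.cons (P.lf 0 2294597 0) (P.cons (P.lf 0 170511 0) P.nil)))))) (P.cons (P.cons (P.lf 3018174 0 0) (P.cons (P.lf 0 10503589 0) (P.cons (P.lf 3633650 0 0) (P.cons (P.lf 813856 0 0) (P.cons (P.lf 0 173877 0) P.nil))))) (P.cons (P.cons (P.lf 0 1901634 0) (P.cons (P.lf 1081162 0 0) (P.cons (P.lf 48476 0 0) (P.cons (P.lf 0 27277 0) P.nil)))) (P.cons (P.cons (P.lf 0 13589 0) (P.cons (P.lf 49465 0 0) (P.cons (P.lf 0 6689 0) P.nil))) (P.cons (P.cons (P.lf 5631 0 0) (P.cons (P.lf 0 1740 0) P.nil)) (P.cons (P.cons (P.lf 31 0 0) P.nil) P.nil)))))) 58881)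
 EL.nil))
noncomputable def S212_219_364_512_15 : EL := (EL.cons 4 (TM.mk (P.cons (P.lf 0 379021286 0) (P.cons (P.lf 61535209 0 0) (P.cons (P.lf 0 2003215 0) (P.cons (P.lf 0 51480 0) (P.cons (P.lf 589 0 0) (P.cons (P.lf 20 0 0) P.nil)))))) 37)
 (EL.cons 8 (TM.mk (P.cons (P.lf 0 618889582 0) (P.cons (P.lf 43539621 0 0) (P.cons (P.lf 1201850 0 0) (P.cons (P.lf 0 22692 0) (P.cons (P.lf 0 679 0) (P.cons (P.lf 2 0 0) P.nil)))))) 41)
 EL.nil))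
noncomputable def S212_219_364_512_16 : EL := (EL.cons 4 (TM.mk (P.cons (P.cons (P.lf 0 133371530 0) (P.cons (P.lf 63835365 0 0) (P.cons (P.lf 4267883 0 0) (P.lf 0 1422627 0)))) (P.cons (P.cons (P.lf 21569339 0 0) (P.cons (P.lf 0 8290754 0) (P.cons (P.lf 0 554300 0) (P.lf 184766 0 0)))) (P.cons (P.cons (P.lf 0 210039 0) (P.cons (P.lf 0 55455 0) (P.cons (P.lf 0 3706 0) (P.lf 1235 0 0)))) (P.cons (P.cons (P.lf 0 98913 0) (P.cons (P.lf 26256 0 0) (P.cons (P.lf 1755 0 0) P.nil))) (P.cons (P.cons (P.lf 2689 0 0) (P.cons (P.lf 308 0 0) P.nil)) (P.cons (P.cons (P.lf 126 0 0) P.nil) P.nil)))))) 930)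
 (EL.cons 8 (TM.mk (P.cons (P.cons (P.lf 0 217777348 0) (P.cons (P.lf 104234365 0 0) (P.cons (P.lf 6968866 0 0) (P.lf 0 2322955 0)))) (P.cons (P.cons (P.lf 15183871 0 0) (P.cons (P.lf 0 3947919 0) (P.cons (P.lf 0 263948 0) (P.lf 87982 0 0)))) (P.cons (P.cons (P.lf 1218342 0 0) (P.cons (P.lf 0 532437 0) (P.cons (P.lf 0 35597 0) (P.lf 11865 0 0)))) (P.cons (P.cons (P.lf 0 66634 0) (P.cons (P.lf 0 379 0) (P.cons (P.lf 0 25 0) P.nil))) (P.cons (P.cons (P.lf 0 2185 0) (P.cons (P.lf 732 0 0) P.nil)) (P.cons (P.cons (P.lf 82 0 0) P.nil) P.nil)))))) 706)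
 EL.nil))
noncomputable def S212_219_364_512_17 : EL := (EL.cons 4 (TM.mk (P.cons (P.cons (P.lf 0 46931309 0) (P.cons (P.lf 44925288 0 0) (P.cons (P.lf 0 7747652 0) (P.cons (P.lf 0 2438806 0) (P.cons (P.lf 431144 0 0) (P.cons (P.lf 32038 0 0) P.nil)))))) (P.cons (P.cons (P.lf 7560375 0 0) (P.cons (P.lf 0 5806500 0) (P.cons (P.lf 658977 0 0) (P.cons (P.lf 269427 0 0) (P.cons (P.lf 0 41993 0) P.nil))))) (P.cons (P.cons (P.lf 100204 0 0) (P.cons (P.lf 0 204799 0) (P.cons (P.lf 50471 0 0) (P.cons (P.lf 13142 0 0) P.nil)))) (P.cons (P.cons (P.lf 0 63021 0) (P.cons (P.lf 40257 0 0) (P.cons (P.lf 0 2235 0) P.nil))) (P.cons (P.cons (P.lf 1172 0 0) (P.cons (P.lf 410 0 0) P.nil)) (P.cons (P.cons (P.lf 192 0 0) P.nil) P.nil)))))) 26439)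
 (EL.cons 8 (TM.mk (P.cons (P.cons (P.lf 0 76632366 0) (P.cons (P.lf 73356813 0 0) (P.cons (P.lf 0 12650851 0) (P.cons (P.lf 0 3982236 0) (P.cons (P.lf 704000 0 0) (P.cons (P.lf 52313 0 0) P.nil)))))) (P.cons (P.cons (P.lf 5294744 0 0) (P.cons (P.lf 0 2732263 0) (P.cons (P.lf 0 87880 0) (P.cons (P.lf 73566 0 0) (P.cons (P.lf 0 3801 0) P.nil))))) (P.cons (P.cons (P.lf 708584 0 0) (P.cons (P.lf 0 641149 0) (P.cons (P.lf 83875 0 0) (P.cons (P.lf 31235 0 0) P.nil)))) (P.cons (P.cons (P.lf 0 43734 0) (P.cons (P.lf 10746 0 0) (P.cons (P.lf 3797 0 0) P.nil))) (P.cons (P.cons (P.lf 0 2477 0) (P.cons (P.lf 2046 0 0) P.nil)) (P.cons (P.cons (P.lf 135 0 0) P.nil) P.nil)))))) 29043)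
 EL.nil))
noncomputable def S212_219_364_512_18 : EL := (EL.cons 4 (TM.mk (P.cons (P.lf 116286642 0 0) (P.cons (P.lf 0 28319212 0) (P.cons (P.lf 2071329 0 0) (P.cons (P.lf 0 20041 0) (P.cons (P.lf 0 2119 0) (P.cons (P.lf 2 0 0) P.nil)))))) 28)
 (EL.cons 8 (TM.mk (P.cons (P.lf 189880079 0 0) (P.cons (P.lf 0 28772082 0) (P.cons (P.lf 591803 0 0) (P.cons (P.lf 48449 0 0) (P.cons (P.lf 0 273 0) (P.cons (P.lf 0 30 0) P.nil)))))) 28)
 EL.nil))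
noncomputable def S212_219_364_512_19 : EL := (EL.cons 4 (TM.mk (P.cons (P.cons (P.lf 40919409 0 0) (P.cons (P.lf 0 19585180 0) (P.cons (P.lf 0 1309419 0) (P.lf 436472 0 0)))) (P.cons (P.cons (P.lf 0 9939330 0) (P.cons (P.lf 4133521 0 0) (P.cons (P.lf 276357 0 0) (P.lf 0 92118 0)))) (P.cons (P.cons (P.lf 574950 0 0) (P.cons (P.lf 0 176698 0) (P.cons (P.lf 0 11813 0) (P.lf 3937 0 0)))) (P.cons (P.cons (P.lf 30045 0 0) (P.cons (P.lf 0 11388 0) (P.cons (P.lf 0 761 0) P.nil))) (P.cons (P.cons (P.lf 0 3420 0) (P.cons (P.lf 581 0 0) P.nil)) (P.cons (P.cons (P.lf 7 0 0) P.nil) P.nil)))))) 625)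
 (EL.cons 8 (TM.mk (P.cons (P.cons (P.lf 66815763 0 0) (P.cons (P.lf 0 31979903 0) (P.cons (P.lf 0 2138101 0) (P.lf 712700 0 0)))) (P.cons (P.cons (P.lf 0 10082395 0) (P.cons (P.lf 3807267 0 0) (P.cons (P.lf 254545 0 0) (P.lf 0 84848 0)))) (P.cons (P.cons (P.lf 0 39211 0) (P.cons (P.lf 85887 0 0) (P.cons (P.lf 5741 0 0) (P.lf 0 1913 0)))) (P.cons (P.cons (P.lf 54825 0 0) (P.cons (P.lf 0 14412 0) (P.cons (P.lf 0 963 0) P.nil))) (P.cons (P.cons (P.lf 0 799 0) (P.cons (P.lf 0 329 0) P.nil)) (P.cons (P.cons (P.lf 0 99 0) P.nil) P.nil)))))) 553)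
 EL.nil))
noncomputable def S212_219_364_512_20 : EL := (EL.cons 4 (TM.mk (P.cons (P.cons (P.lf 14398885 0 0) (P.cons (P.lf 0 13783423 0) (P.cons (P.lf 2377038 0 0) (P.cons (P.lf 748244 0 0) (P.cons (P.lf 0 132278 0) (P.cons (P.lf 0 9828 0) P.nil)))))) (P.cons (P.cons (P.lf 0 3488431 0) (P.cons (P.lf 2900368 0 0) (P.cons (P.lf 0 395138 0) (P.cons (P.lf 0 143401 0) (P.cons (P.lf 23621 0 0) P.nil))))) (P.cons (P.cons (P.lf 148160 0 0) (P.cons (P.lf 0 72790 0) (P.cons (P.lf 0 622 0) (P.cons (P.lf 2189 0 0) P.nil)))) (P.cons (P.cons (P.lf 23559 0 0) (P.cons (P.lf 0 18819 0) (P.cons (P.lf 2110 0 0) P.nil))) (P.cons (P.cons (P.lf 0 1940 0) (P.cons (P.lf 858 0 0) P.nil)) (P.cons (P.cons (P.lf 0 43 0) P.nil) P.nil)))))) 12658)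
 (EL.cons 8 (TM.mk (P.cons (P.cons (P.lf 23511398 0 0) (P.cons (P.lf 0 22506433 0) (P.cons (P.lf 3881378 0 0) (P.cons (P.lf 1221780 0 0) (P.cons (P.lf 0 215992 0) (P.cons (P.lf 0 16050 0) P.nil)))))) (P.cons (P.cons (P.lf 0 3533040 0) (P.cons (P.lf 2665272 0 0) (P.cons (P.lf 0 288113 0) (P.cons (P.lf 0 121750 0) (P.cons (P.lf 18699 0 0) P.nil))))) (P.cons (P.cons (P.lf 0 100864 0) (P.cons (P.lf 143339 0 0) (P.cons (P.lf 0 30453 0) (P.cons (P.lf 0 8547 0) P.nil)))) (P.cons (P.cons (P.lf 32477 0 0) (P.cons (P.lf 0 20149 0) (P.cons (P.lf 964 0 0) P.nil))) (P.cons (P.cons (P.lf 0 206 0) (P.cons (P.lf 0 481 0) P.nil)) (P.cons (P.cons (P.lf 0 115 0) P.nil) P.nil)))))) 14087)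
 EL.nil))
noncomputable def S212_219_364_512_21 : EL := (EL.cons 4 (TM.mk (P.cons (P.cons (P.lf 0 25266567 0) (P.cons (P.lf 624189381 0 0) (P.cons (P.lf 41731845 0 0) (P.lf 0 13910613 0)))) (P.cons (P.cons (P.lf 289649064 0 0) (P.cons (P.lf 0 30398445 0) (P.cons (P.lf 0 2032368 0) (P.lf 677454 0 0)))) (P.cons (P.cons (P.lf 0 386925 0) (P.cons (P.lf 0 2602800 0) (P.cons (P.lf 0 174015 0) (P.lf 58002 0 0)))) (P.cons (P.cons (P.lf 0 577173 0) (P.cons (P.lf 16287 0 0) (P.cons (P.lf 1086 0 0) P.nil))) (P.cons (P.cons (P.lf 0 3858 0) (P.cons (P.lf 2955 0 0) P.nil)) (P.cons (P.cons (P.lf 462 0 0) P.nil) P.nil)))))) 3114)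
 (EL.cons 8 (TM.mk (P.cons (P.cons (P.lf 5501799 0 0) (P.cons (P.lf 0 135917163 0) (P.cons (P.lf 0 9087108 0) (P.lf 3029040 0 0)))) (P.cons (P.cons (P.lf 0 63577212 0) (P.cons (P.lf 19123863 0 0) (P.cons (P.lf 1278576 0 0) (P.lf 0 426189 0)))) (P.cons (P.cons (P.lf 5891037 0 0) (P.cons (P.lf 0 144801 0) (P.cons (P.lf 0 9678 0) (P.lf 3225 0 0)))) (P.cons (P.cons (P.lf 70185 0 0) (P.cons (P.lf 0 47100 0) (P.cons (P.lf 0 3147 0) P.nil))) (P.cons (P.cons (P.lf 0 8979 0) (P.cons (P.lf 0 114 0) P.nil)) (P.cons (P.cons (P.lf 0 102 0) P.nil) P.nil)))))) 3228)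
 (EL.cons 11 (TM.mk (P.cons (P.cons (P.lf 2636263908 0 0) (P.cons (P.lf 408159855 0 0) (P.cons (P.lf 0 196638546 0) (P.cons (P.lf 0 7441380 0) (P.lf 1860345 0 0))))) (P.cons (P.cons (P.lf 57076491 0 0) (P.cons (P.lf 8836872 0 0) (P.cons (P.lf 0 4257327 0) (P.cons (P.lf 0 161109 0) (P.lf 40275 0 0))))) (P.cons (P.cons (P.lf 0 1858065 0) (P.cons (P.lf 0 287673 0) (P.cons (P.lf 138591 0 0) (P.cons (P.lf 5244 0 0) P.nil)))) (P.cons (P.cons (P.lf 0 47748 0) (P.cons (P.lf 0 7392 0) (P.cons (P.lf 3561 0 0) P.nil))) (P.cons (P.cons (P.lf 540 0 0) (P.cons (P.lf 84 0 0) P.nil)) (P.cons (P.cons (P.lf 18 0 0) P.nil) P.nil)))))) 1806)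
 EL.nil)))
noncomputable def S212_219_364_512_22 : EL := (EL.cons 4 (TM.mk (P.cons (P.cons (P.lf 0 8890899 0) (P.cons (P.lf 223897698 0 0) (P.cons (P.lf 0 90157686 0) (P.cons (P.lf 0 19046844 0) (P.cons (P.lf 4215783 0 0) (P.cons (P.lf 313272 0 0) P.nil)))))) (P.cons (P.cons (P.lf 101917278 0 0) (P.cons (P.lf 0 59203485 0) (P.cons (P.lf 0 2252532 0) (P.cons (P.lf 1547475 0 0) (P.cons (P.lf 0 68400 0) P.nil))))) (P.cons (P.cons (P.lf 0 39942 0) (P.cons (P.lf 0 3237987 0) (P.cons (P.lf 480813 0 0) (P.cons (P.lf 165399 0 0) P.nil)))) (P.cons (P.cons (P.lf 0 571092 0) (P.cons (P.lf 189573 0 0) (P.cons (P.lf 23778 0 0) P.nil))) (P.cons (P.cons (P.lf 678 0 0) (P.cons (P.lf 10509 0 0) P.nil)) (P.cons (P.cons (P.lf 1206 0 0) P.nil) P.nil)))))) 131820)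
 (EL.cons 8 (TM.mk (P.cons (P.cons (P.lf 1935993 0 0) (P.cons (P.lf 0 48753696 0) (P.cons (P.lf 19631823 0 0) (P.cons (P.lf 4147449 0 0) (P.cons (P.lf 0 917985 0) (P.cons (P.lf 0 68214 0) P.nil)))))) (P.cons (P.cons (P.lf 0 22370586 0) (P.cons (P.lf 17376969 0 0) (P.cons (P.lf 0 1315671 0) (P.cons (P.lf 0 718533 0) (P.cons (P.lf 99348 0 0) P.nil))))) (P.cons (P.cons (P.lf 2051898 0 0) (P.cons (P.lf 0 517764 0) (P.cons (P.lf 0 135003 0) (P.cons (P.lf 0 1884 0) P.nil)))) (P.cons (P.cons (P.lf 106755 0 0) (P.cons (P.lf 0 95127 0) (P.cons (P.lf 4305 0 0) P.nil))) (P.cons (P.cons (P.lf 0 10989 0) (P.cons (P.lf 1680 0 0) P.nil)) (P.cons (P.cons (P.lf 0 159 0) P.nil) P.nil)))))) 39786)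
 (EL.cons 11 (TM.mk (P.cons (P.cons (P.lf 927659118 0 0) (P.cons (P.lf 0 300378822 0) (P.cons (P.lf 0 167621946 0) (P.cons (P.lf 35798697 0 0) (P.cons (P.lf 5654115 0 0) (P.cons (P.lf 0 967596 0) P.nil)))))) (P.cons (P.cons (P.lf 20667984 0 0) (P.cons (P.lf 0 20832357 0) (P.cons (P.lf 0 6869160 0) (P.cons (P.lf 2021040 0 0) (P.cons (P.lf 285186 0 0) P.nil))))) (P.cons (P.cons (P.lf 0 3988395 0) (P.cons (P.lf 0 225393 0) (P.cons (P.lf 384414 0 0) (P.cons (P.lf 0 22668 0) P.nil)))) (P.cons (P.cons (P.lf 0 74199 0) (P.cons (P.lf 32613 0 0) (P.cons (P.lf 15309 0 0) P.nil))) (P.cons (P.cons (P.lf 5733 0 0) (P.cons (P.lf 1041 0 0) P.nil)) (P.cons (P.cons (P.lf 123 0 0) P.nil) P.nil)))))) 144510)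
 EL.nil)))
noncomputable def S212_219_364_512_23 : EL := (EL.cons 4 (TM.mk (P.cons (P.cons (P.lf 7751976 0 0) (P.cons (P.lf 0 191506098 0) (P.cons (P.lf 0 12803649 0) (P.lf 4267881 0 0)))) (P.cons (P.cons (P.lf 0 89495835 0) (P.cons (P.lf 24872262 0 0) (P.cons (P.lf 1662900 0 0) (P.lf 0 554298 0)))) (P.cons (P.cons (P.lf 7327527 0 0) (P.cons (P.lf 166365 0 0) (P.cons (P.lf 11121 0 0) (P.lf 0 3705 0)))) (P.cons (P.cons (P.lf 225516 0 0) (P.cons (P.lf 0 78768 0) (P.cons (P.lf 0 5265 0) P.nil))) (P.cons (P.cons (P.lf 0 14595 0) (P.cons (P.lf 0 924 0) P.nil)) (P.cons (P.cons (P.lf 0 369 0) P.nil) P.nil)))))) 2940)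
 (EL.cons 8 (TM.mk (P.cons (P.cons (P.lf 0 1687992 0) (P.cons (P.lf 41700429 0 0) (P.cons (P.lf 2787993 0 0) (P.lf 0 929331 0)))) (P.cons (P.cons (P.lf 19643001 0 0) (P.cons (P.lf 0 9252441 0) (P.cons (P.lf 0 618594 0) (P.lf 206196 0 0)))) (P.cons (P.cons (P.lf 0 3389739 0) (P.cons (P.lf 493518 0 0) (P.cons (P.lf 32994 0 0) (P.lf 0 10995 0)))) (P.cons (P.cons (P.lf 112437 0 0) (P.cons (P.lf 15294 0 0) (P.cons (P.lf 1020 0 0) P.nil))) (P.cons (P.cons (P.lf 5973 0 0) (P.cons (P.lf 0 1245 0) P.nil)) (P.cons (P.cons (P.lf 0 198 0) P.nil) P.nil)))))) 1419)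
 (EL.cons 11 (TM.mk (P.cons (P.cons (P.lf 0 808826022 0) (P.cons (P.lf 0 125226579 0) (P.cons (P.lf 60330216 0 0) (P.cons (P.lf 2283072 0 0) (P.lf 0 570768 0))))) (P.cons (P.cons (P.lf 48146124 0 0) (P.cons (P.lf 7454229 0 0) (P.cons (P.lf 0 3591210 0) (P.cons (P.lf 0 135900 0) (P.lf 33975 0 0))))) (P.cons (P.cons (P.lf 2519100 0 0) (P.cons (P.lf 390018 0 0) (P.cons (P.lf 0 187896 0) (P.cons (P.lf 0 7110 0) P.nil)))) (P.cons (P.cons (P.lf 0 32313 0) (P.cons (P.lf 0 5001 0) (P.cons (P.lf 2409 0 0) P.nil))) (P.cons (P.cons (P.lf 0 2169 0) (P.cons (P.lf 0 336 0) P.nil)) (P.cons (P.cons (P.lf 0 0 0) P.nil) P.nil)))))) 2442)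
 EL.nil)))
noncomputable def S212_219_364_512_24 : EL := (EL.cons 4 (TM.mk (P.cons (P.cons (P.lf 2727795 0 0) (P.cons (P.lf 0 68693532 0) (P.cons (P.lf 27661071 0 0) (P.cons (P.lf 5843718 0 0) (P.cons (P.lf 0 1293432 0) (P.cons (P.lf 0 96114 0) P.nil)))))) (P.cons (P.cons (P.lf 0 31490436 0) (P.cons (P.lf 23740380 0 0) (P.cons (P.lf 0 1554333 0) (P.cons (P.lf 0 949149 0) (P.cons (P.lf 125982 0 0) P.nil))))) (P.cons (P.cons (P.lf 2548782 0 0) (P.cons (P.lf 0 436254 0) (P.cons (P.lf 0 221658 0) (P.cons (P.lf 0 16014 0) P.nil)))) (P.cons (P.cons (P.lf 194655 0 0) (P.cons (P.lf 0 151680 0) (P.cons (P.lf 4641 0 0) P.nil))) (P.cons (P.cons (P.lf 0 14907 0) (P.cons (P.lf 1104 0 0) P.nil)) (P.cons (P.cons (P.lf 0 474 0) P.nil) P.nil)))))) 54036)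
 (EL.cons 8 (TM.mk (P.cons (P.cons (P.lf 0 593976 0) (P.cons (P.lf 14958009 0 0) (P.cons (P.lf 0 6023193 0) (P.cons (P.lf 0 1272468 0) (P.cons (P.lf 281643 0 0) (P.cons (P.lf 20928 0 0) P.nil)))))) (P.cons (P.cons (P.lf 6911682 0 0) (P.cons (P.lf 0 6545625 0) (P.cons (P.lf 892599 0 0) (P.cons (P.lf 323745 0 0) (P.cons (P.lf 0 53343 0) P.nil))))) (P.cons (P.cons (P.lf 0 1186302 0) (P.cons (P.lf 581880 0 0) (P.cons (P.lf 12579 0 0) (P.cons (P.lf 0 16485 0) P.nil)))) (P.cons (P.cons (P.lf 13863 0 0) (P.cons (P.lf 19992 0 0) (P.cons (P.lf 0 5034 0) P.nil))) (P.cons (P.cons (P.lf 6543 0 0) (P.cons (P.lf 0 3063 0) P.nil)) (P.cons (P.cons (P.lf 0 210 0) P.nil) P.nil)))))) 16245)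
 (EL.cons 11 (TM.mk (P.cons (P.cons (P.lf 0 284612943 0) (P.cons (P.lf 92158530 0 0) (P.cons (P.lf 51427701 0 0) (P.cons (P.lf 0 10983315 0) (P.cons (P.lf 0 1734726 0) (P.cons (P.lf 296865 0 0) P.nil)))))) (P.cons (P.cons (P.lf 16762773 0 0) (P.cons (P.lf 0 1089573 0) (P.cons (P.lf 0 2067204 0) (P.cons (P.lf 271515 0 0) (P.cons (P.lf 53319 0 0) P.nil))))) (P.cons (P.cons (P.lf 1924038 0 0) (P.cons (P.lf 0 509793 0) (P.cons (P.lf 0 322560 0) (P.cons (P.lf 64452 0 0) P.nil)))) (P.cons (P.cons (P.lf 0 76692 0) (P.cons (P.lf 0 18408 0) (P.cons (P.lf 4269 0 0) P.nil))) (P.cons (P.cons (P.lf 0 4563 0) (P.cons (P.lf 561 0 0) P.nil)) (P.cons (P.cons (P.lf 105 0 0) P.nil) P.nil)))))) 60366)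
 EL.nil)))
noncomputable def S212_219_364_512_25 : EL := (EL.cons 4 (TM.mk (P.cons (P.cons (P.lf 0 2378364 0) (P.cons (P.lf 58755540 0 0) (P.cons (P.lf 3928257 0 0) (P.lf 0 1309419 0)))) (P.cons (P.cons (P.lf 27651075 0 0) (P.cons (P.lf 0 12400566 0) (P.cons (P.lf 0 829071 0) (P.lf 276357 0 0)))) (P.cons (P.cons (P.lf 0 4475532 0) (P.cons (P.lf 530094 0 0) (P.cons (P.lf 35439 0 0) (P.lf 0 11811 0)))) (P.cons (P.cons (P.lf 95361 0 0) (P.cons (P.lf 34167 0 0) (P.cons (P.lf 2283 0 0) P.nil))) (P.cons (P.cons (P.lf 11970 0 0) (P.cons (P.lf 0 1743 0) P.nil)) (P.cons (P.cons (P.lf 0 231 0) P.nil) P.nil)))))) 2100)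
 (EL.cons 8 (TM.mk (P.cons (P.cons (P.lf 517887 0 0) (P.cons (P.lf 0 12794010 0) (P.cons (P.lf 0 855378 0) (P.lf 285126 0 0)))) (P.cons (P.cons (P.lf 0 6068664 0) (P.cons (P.lf 3877290 0 0) (P.cons (P.lf 259224 0 0) (P.lf 0 86406 0)))) (P.cons (P.cons (P.lf 1528878 0 0) (P.cons (P.lf 0 373506 0) (P.cons (P.lf 0 24969 0) (P.lf 8322 0 0)))) (P.cons (P.cons (P.lf 0 114981 0) (P.cons (P.lf 5553 0 0) (P.cons (P.lf 369 0 0) P.nil))) (P.cons (P.cons (P.lf 198 0 0) (P.cons (P.lf 900 0 0) P.nil)) (P.cons (P.cons (P.lf 246 0 0) P.nil) P.nil)))))) 831)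
 (EL.cons 11 (TM.mk (P.cons (P.cons (P.lf 248154036 0 0) (P.cons (P.lf 38420475 0 0) (P.cons (P.lf 0 18509772 0) (P.cons (P.lf 0 700464 0) (P.lf 175116 0 0))))) (P.cons (P.cons (P.lf 0 34915866 0) (P.cons (P.lf 0 5405853 0) (P.cons (P.lf 2604369 0 0) (P.cons (P.lf 98556 0 0) (P.lf 0 24639 0))))) (P.cons (P.cons (P.lf 264381 0 0) (P.cons (P.lf 40932 0 0) (P.cons (P.lf 0 19719 0) (P.cons (P.lf 0 744 0) P.nil)))) (P.cons (P.cons (P.lf 86001 0 0) (P.cons (P.lf 13314 0 0) (P.cons (P.lf 0 6414 0) P.nil))) (P.cons (P.cons (P.lf 198 0 0) (P.cons (P.lf 30 0 0) P.nil)) (P.cons (P.cons (P.lf 0 75 0) P.nil) P.nil)))))) 2358)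
 EL.nil)))
noncomputable def S212_219_364_512_26 : EL := (EL.cons 4 (TM.mk (P.cons (P.cons (P.lf 0 836907 0) (P.cons (P.lf 21075702 0 0) (P.cons (P.lf 0 8486628 0) (P.cons (P.lf 0 1792896 0) (P.cons (P.lf 396834 0 0) (P.cons (P.lf 29487 0 0) P.nil)))))) (P.cons (P.cons (P.lf 9729444 0 0) (P.cons (P.lf 0 8994582 0) (P.cons (P.lf 1165794 0 0) (P.cons (P.lf 436746 0 0) (P.cons (P.lf 0 70863 0) P.nil))))) (P.cons (P.cons (P.lf 0 1565727 0) (P.cons (P.lf 711366 0 0) (P.cons (P.lf 34827 0 0) (P.cons (P.lf 0 17553 0) P.nil)))) (P.cons (P.cons (P.lf 0 2556 0) (P.cons (P.lf 40737 0 0) (P.cons (P.lf 0 7380 0) P.nil))) (P.cons (P.cons (P.lf 10074 0 0) (P.cons (P.lf 0 4308 0) P.nil)) (P.cons (P.cons (P.lf 0 195 0) P.nil) P.nil)))))) 21237)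
 (EL.cons 8 (TM.mk (P.cons (P.cons (P.lf 182235 0 0) (P.cons (P.lf 0 4589232 0) (P.cons (P.lf 1847961 0 0) (P.cons (P.lf 390402 0 0) (P.cons (P.lf 0 86409 0) (P.cons (P.lf 0 6420 0) P.nil)))))) (P.cons (P.cons (P.lf 0 2135349 0) (P.cons (P.lf 2380785 0 0) (P.cons (P.lf 0 423867 0) (P.cons (P.lf 0 131019 0) (P.cons (P.lf 23379 0 0) P.nil))))) (P.cons (P.cons (P.lf 535986 0 0) (P.cons (P.lf 0 338553 0) (P.cons (P.lf 17163 0 0) (P.cons (P.lf 12864 0 0) P.nil)))) (P.cons (P.cons (P.lf 0 32412 0) (P.cons (P.lf 6978 0 0) (P.cons (P.lf 2064 0 0) P.nil))) (P.cons (P.cons (P.lf 0 1929 0) (P.cons (P.lf 1581 0 0) P.nil)) (P.cons (P.cons (P.lf 234 0 0) P.nil) P.nil)))))) 7002)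
 (EL.cons 11 (TM.mk (P.cons (P.cons (P.lf 87321438 0 0) (P.cons (P.lf 0 28274943 0) (P.cons (P.lf 0 15778413 0) (P.cons (P.lf 3369765 0 0) (P.cons (P.lf 532227 0 0) (P.cons (P.lf 0 91080 0) P.nil)))))) (P.cons (P.cons (P.lf 0 12231390 0) (P.cons (P.lf 2629548 0 0) (P.cons (P.lf 1915068 0 0) (P.cons (P.lf 0 356847 0) (P.cons (P.lf 0 59562 0) P.nil))))) (P.cons (P.cons (P.lf 0 229773 0) (P.cons (P.lf 147711 0 0) (P.cons (P.lf 57768 0 0) (P.cons (P.lf 0 15210 0) P.nil)))) (P.cons (P.cons (P.lf 76110 0 0) (P.cons (P.lf 0 7689 0) (P.cons (P.lf 0 9993 0) P.nil))) (P.cons (P.cons (P.lf 0 180 0) (P.cons (P.lf 0 732 0) P.nil)) (P.cons (P.cons (P.lf 0 171 0) P.nil) P.nil)))))) 29088)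
 EL.nil)))
noncomputable def S212_219_364_512_27 : EL := (EL.cons 13 (TM.mk (P.lf 0 4294967296 0) 0)
 EL.nil)
noncomputable def S212_219_364_512_28 : EL := (EL.cons 13 (TM.mk (P.cons (P.cons (P.lf 0 1511330322 0) (P.cons (P.lf 723365208 0 0) (P.cons (P.lf 48362512 0 0) (P.lf 0 16120836 0)))) (P.cons (P.cons (P.lf 0 950924 0) (P.cons (P.lf 23491848 0 0) (P.cons (P.lf 1570608 0 0) (P.lf 0 523536 0)))) (P.cons (P.cons (P.lf 5453230 0 0) (P.cons (P.lf 0 637596 0) (P.cons (P.lf 0 42628 0) (P.lf 14208 0 0)))) (P.cons (P.cons (P.lf 0 25221 0) (P.cons (P.lf 0 28388 0) (P.cons (P.lf 0 1896 0) P.nil))) (P.cons (P.cons (P.lf 0 4659 0) (P.cons (P.lf 192 0 0) P.nil)) (P.cons (P.cons (P.lf 0 9 0) P.nil) P.nil)))))) 1083)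
 EL.nil)
noncomputable def S212_219_364_512_29 : EL := (EL.cons 13 (TM.mk (P.cons (P.cons (P.lf 0 531812976 0) (P.cons (P.lf 509081302 0 0) (P.cons (P.lf 0 87794326 0) (P.cons (P.lf 0 27635910 0) (P.cons (P.lf 4885618 0 0) (P.cons (P.lf 363050 0 0) P.nil)))))) (P.cons (P.cons (P.lf 0 669229 0) (P.cons (P.lf 16853123 0 0) (P.cons (P.lf 0 6786309 0) (P.cons (P.lf 0 1433684 0) (P.cons (P.lf 317328 0 0) P.nil))))) (P.cons (P.cons (P.lf 3837598 0 0) (P.cons (P.lf 0 2275200 0) (P.cons (P.lf 0 65836 0) (P.cons (P.lf 62240 0 0) P.nil)))) (P.cons (P.cons (P.lf 0 15334 0) (P.cons (P.lf 0 71419 0) (P.cons (P.lf 11763 0 0) P.nil))) (P.cons (P.cons (P.lf 0 10213 0) (P.cons (P.lf 3586 0 0) P.nil)) (P.cons (P.cons (P.lf 55 0 0) P.nil) P.nil)))))) 112640)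
 EL.nil)
noncomputable def S212_219_364_512_30 : EL := (EL.cons 13 (TM.mk (P.cons (P.lf 1317728968 0 0) (P.cons (P.lf 0 106968568 0) (P.cons (P.lf 0 859412 0) (P.cons (P.lf 19728 0 0) (P.cons (P.lf 296 0 0) (P.cons (P.lf 0 0 0) P.nil)))))) 40)
 EL.nil)
noncomputable def S212_219_364_512_31 : EL := (EL.cons 13 (TM.mk (P.cons (P.cons (P.lf 463687755 0 0) (P.cons (P.lf 0 221934003 0) (P.cons (P.lf 0 14837990 0) (P.lf 4945996 0 0)))) (P.cons (P.cons (P.lf 0 37348778 0) (P.cons (P.lf 10808336 0 0) (P.cons (P.lf 722620 0 0) (P.lf 0 240873 0)))) (P.cons (P.cons (P.lf 0 1999189 0) (P.cons (P.lf 925440 0 0) (P.cons (P.lf 61872 0 0) (P.lf 0 20623 0)))) (P.cons (P.cons (P.lf 150305 0 0) (P.cons (P.lf 0 5791 0) (P.cons (P.lf 0 387 0) P.nil))) (P.cons (P.cons (P.lf 2000 0 0) (P.cons (P.lf 0 1051 0) P.nil)) (P.cons (P.cons (P.lf 0 143 0) P.nil) P.nil)))))) 1023)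
 EL.nil)
noncomputable def S212_219_364_512_32 : EL := (EL.cons 13 (TM.mk (P.cons (P.cons (P.lf 163164307 0 0) (P.cons (P.lf 0 156190055 0) (P.cons (P.lf 26935973 0 0) (P.cons (P.lf 8478909 0 0) (P.cons (P.lf 0 1498945 0) (P.cons (P.lf 0 111386 0) P.nil)))))) (P.cons (P.cons (P.lf 0 13039775 0) (P.cons (P.lf 7508287 0 0) (P.cons (P.lf 0 104475 0) (P.cons (P.lf 0 248422 0) (P.cons (P.lf 24320 0 0) P.nil))))) (P.cons (P.cons (P.lf 0 1300486 0) (P.cons (P.lf 1219651 0 0) (P.cons (P.lf 0 166385 0) (P.cons (P.lf 0 60332 0) P.nil)))) (P.cons (P.cons (P.lf 102590 0 0) (P.cons (P.lf 0 33719 0) (P.cons (P.lf 0 6203 0) P.nil))) (P.cons (P.cons (P.lf 3559 0 0) (P.cons (P.lf 0 3446 0) P.nil)) (P.cons (P.cons (P.lf 0 291 0) P.nil) P.nil)))))) 57957)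
 EL.nil)
noncomputable def S212_219_364_512_33 : EL := (EL.cons 14 (TM.mk (P.lf 8589934592 0 0) 0)
 EL.nil)
noncomputable def S212_219_364_512_34 : EL := (EL.cons 14 (TM.mk (P.cons (P.cons (P.lf 3022660644 0 0) (P.cons (P.lf 0 1446730416 0) (P.cons (P.lf 0 96725024 0) (P.lf 32241672 0 0)))) (P.cons (P.cons (P.lf 1901848 0 0) (P.cons (P.lf 0 46983696 0) (P.cons (P.lf 0 3141216 0) (P.lf 1047072 0 0)))) (P.cons (P.cons (P.lf 0 10906460 0) (P.cons (P.lf 1275192 0 0) (P.cons (P.lf 85256 0 0) (P.lf 0 28416 0)))) (P.cons (P.cons (P.lf 50442 0 0) (P.cons (P.lf 56776 0 0) (P.cons (P.lf 3792 0 0) P.nil))) (P.cons (P.cons (P.lf 9318 0 0) (P.cons (P.lf 0 384 0) P.nil)) (P.cons (P.cons (P.lf 18 0 0) P.nil) P.nil)))))) 2166)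
 EL.nil)
noncomputable def S212_219_364_512_35 : EL := (EL.cons 14 (TM.mk (P.cons (P.cons (P.lf 1063625952 0 0) (P.cons (P.lf 0 1018162604 0) (P.cons (P.lf 175588652 0 0) (P.cons (P.lf 55271820 0 0) (P.cons (P.lf 0 9771236 0) (P.cons (P.lf 0 726100 0) P.nil)))))) (P.cons (P.cons (P.lf 1338458 0 0) (P.cons (P.lf 0 33706246 0) (P.cons (P.lf 13572618 0 0) (P.cons (P.lf 2867368 0 0) (P.cons (P.lf 0 634656 0) P.nil))))) (P.cons (P.cons (P.lf 0 7675196 0) (P.cons (P.lf 4550400 0 0) (P.cons (P.lf 131672 0 0) (P.cons (P.lf 0 124480 0) P.nil)))) (P.cons (P.cons (P.lf 30668 0 0) (P.cons (P.lf 142838 0 0) (P.cons (P.lf 0 23526 0) P.nil))) (P.cons (P.cons (P.lf 20426 0 0) (P.cons (P.lf 0 7172 0) P.nil)) (P.cons (P.cons (P.lf 0 110 0) P.nil) P.nil)))))) 225280)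
 EL.nil)
noncomputable def S212_219_364_512_36 : EL := (EL.cons 14 (TM.mk (P.cons (P.lf 0 2635457936 0) (P.cons (P.lf 213937136 0 0) (P.cons (P.lf 1718824 0 0) (P.cons (P.lf 0 39456 0) (P.cons (P.lf 0 592 0) (P.cons (P.lf 0 0 0) P.nil)))))) 80)
 EL.nil)
noncomputable def S212_219_364_512_37 : EL := (EL.cons 14 (TM.mk (P.cons (P.cons (P.lf 0 927375510 0) (P.cons (P.lf 443868006 0 0) (P.cons (P.lf 29675980 0 0) (P.lf 0 9891992 0)))) (P.cons (P.cons (P.lf 74697556 0 0) (P.cons (P.lf 0 21616672 0) (P.cons (P.lf 0 1445240 0) (P.lf 481746 0 0)))) (P.cons (P.cons (P.lf 3998378 0 0) (P.cons (P.lf 0 1850880 0) (P.cons (P.lf 0 123744 0) (P.lf 41246 0 0)))) (P.cons (P.cons (P.lf 0 300610 0) (P.cons (P.lf 11582 0 0) (P.cons (P.lf 774 0 0) P.nil))) (P.cons (P.cons (P.lf 0 4000 0) (P.cons (P.lf 2102 0 0) P.nil)) (P.cons (P.cons (P.lf 286 0 0) P.nil) P.nil)))))) 2046)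
 EL.nil)
noncomputable def S212_219_364_512_38 : EL := (EL.cons 14 (TM.mk (P.cons (P.cons (P.lf 0 326328614 0) (P.cons (P.lf 312380110 0 0) (P.cons (P.lf 0 53871946 0) (P.cons (P.lf 0 16957818 0) (P.cons (P.lf 2997890 0 0) (P.cons (P.lf 222772 0 0) P.nil)))))) (P.cons (P.cons (P.lf 26079550 0 0) (P.cons (P.lf 0 15016574 0) (P.cons (P.lf 208950 0 0) (P.cons (P.lf 496844 0 0) (P.cons (P.lf 0 48640 0) P.nil))))) (P.cons (P.cons (P.lf 2600972 0 0) (P.cons (P.lf 0 2439302 0) (P.cons (P.lf 332770 0 0) (P.cons (P.lf 120664 0 0) P.nil)))) (P.cons (P.cons (P.lf 0 205180 0) (P.cons (P.lf 67438 0 0) (P.cons (P.lf 12406 0 0) P.nil))) (P.cons (P.cons (P.lf 0 7118 0) (P.cons (P.lf 6892 0 0) P.nil)) (P.cons (P.cons (P.lf 582 0 0) P.nil) P.nil)))))) 115914)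
 EL.nil)
noncomputable def S212_219_364_512_39 : EL := (EL.cons 14 (TM.mk (P.cons (P.lf 808578744 0 0) (P.cons (P.lf 0 131275114 0) (P.cons (P.lf 4273526 0 0) (P.cons (P.lf 109826 0 0) (P.cons (P.lf 0 1258 0) (P.cons (P.lf 0 44 0) P.nil)))))) 66)
 EL.nil)
noncomputable def S212_219_364_512_40 : EL := (EL.cons 14 (TM.mk (P.cons (P.cons (P.lf 284525932 0 0) (P.cons (P.lf 0 136182114 0) (P.cons (P.lf 0 9104818 0) (P.lf 3034938 0 0)))) (P.cons (P.cons (P.lf 0 46014590 0) (P.cons (P.lf 17686942 0 0) (P.cons (P.lf 1182508 0 0) (P.lf 0 394168 0)))) (P.cons (P.cons (P.lf 448084 0 0) (P.cons (P.lf 118306 0 0) (P.cons (P.lf 7908 0 0) (P.lf 0 2636 0)))) (P.cons (P.cons (P.lf 211016 0 0) (P.cons (P.lf 0 56014 0) (P.cons (P.lf 0 3744 0) P.nil))) (P.cons (P.cons (P.lf 0 5738 0) (P.cons (P.lf 0 658 0) P.nil)) (P.cons (P.cons (P.lf 0 270 0) P.nil) P.nil)))))) 1944)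
 EL.nil)
noncomputable def S212_219_364_512_41 : EL := (EL.cons 14 (TM.mk (P.cons (P.cons (P.lf 100120126 0 0) (P.cons (P.lf 0 95840616 0) (P.cons (P.lf 16528326 0 0) (P.cons (P.lf 5202788 0 0) (P.cons (P.lf 0 919774 0) (P.cons (P.lf 0 68348 0) P.nil)))))) (P.cons (P.cons (P.lf 0 16128802 0) (P.cons (P.lf 12387202 0 0) (P.cons (P.lf 0 1405818 0) (P.cons (P.lf 0 574778 0) (P.cons (P.lf 89586 0 0) P.nil))))) (P.cons (P.cons (P.lf 0 213770 0) (P.cons (P.lf 436906 0 0) (P.cons (P.lf 0 107672 0) (P.cons (P.lf 0 28038 0) P.nil)))) (P.cons (P.cons (P.lf 134446 0 0) (P.cons (P.lf 0 85882 0) (P.cons (P.lf 4770 0 0) P.nil))) (P.cons (P.cons (P.lf 0 2502 0) (P.cons (P.lf 0 876 0) P.nil)) (P.cons (P.cons (P.lf 0 410 0) P.nil) P.nil)))))) 56358)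
 EL.nil)
noncomputable def S212_219_364_512_42 : EL := (EL.cons 14 (TM.mk (P.cons (P.lf 0 248078170 0) (P.cons (P.lf 60414320 0 0) (P.cons (P.lf 0 4418836 0) (P.cons (P.lf 42756 0 0) (P.cons (P.lf 4522 0 0) (P.cons (P.lf 0 6 0) P.nil)))))) 46)
 EL.nil)
noncomputable def S212_219_364_512_43 : EL := (EL.cons 14 (TM.mk (P.cons (P.cons (P.lf 0 87294740 0) (P.cons (P.lf 41781718 0 0) (P.cons (P.lf 2793428 0 0) (P.lf 0 931142 0)))) (P.cons (P.cons (P.lf 21203906 0 0) (P.cons (P.lf 0 8818180 0) (P.cons (P.lf 0 589562 0) (P.lf 196520 0 0)))) (P.cons (P.cons (P.lf 0 1226562 0) (P.cons (P.lf 376956 0 0) (P.cons (P.lf 25202 0 0) (P.lf 0 8400 0)))) (P.cons (P.cons (P.lf 0 64096 0) (P.cons (P.lf 24296 0 0) (P.cons (P.lf 1624 0 0) P.nil))) (P.cons (P.cons (P.lf 7296 0 0) (P.cons (P.lf 0 1240 0) P.nil)) (P.cons (P.cons (P.lf 0 16 0) P.nil) P.nil)))))) 1294)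
 EL.nil)
noncomputable def S212_219_364_512_44 : EL := (EL.cons 14 (TM.mk (P.cons (P.cons (P.lf 0 30717622 0) (P.cons (P.lf 29404636 0 0) (P.cons (P.lf 0 5071016 0) (P.cons (P.lf 0 1596254 0) (P.cons (P.lf 282194 0 0) (P.cons (P.lf 20968 0 0) P.nil)))))) (P.cons (P.cons (P.lf 7441988 0 0) (P.cons (P.lf 0 6187452 0) (P.cons (P.lf 842962 0 0) (P.cons (P.lf 305924 0 0) (P.cons (P.lf 0 50392 0) P.nil))))) (P.cons (P.cons (P.lf 0 316076 0) (P.cons (P.lf 155286 0 0) (P.cons (P.lf 1328 0 0) (P.cons (P.lf 0 4670 0) P.nil)))) (P.cons (P.cons (P.lf 0 50260 0) (P.cons (P.lf 40148 0 0) (P.cons (P.lf 0 4502 0) P.nil))) (P.cons (P.cons (P.lf 4140 0 0) (P.cons (P.lf 0 1832 0) P.nil)) (P.cons (P.cons (P.lf 92 0 0) P.nil) P.nil)))))) 26958)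
 EL.nil)
noncomputable def S212_219_364_512_45 : EL := (EL.cons 14 (TM.mk (P.cons (P.cons (P.lf 374272966 0 0) (P.cons (P.lf 0 537412712 0) (P.cons (P.lf 221290680 0 0) (P.cons (P.lf 5333380 0 0) (P.cons (P.lf 0 18546082 0) (P.cons (P.lf 1426866 0 0) P.nil)))))) (P.cons (P.cons (P.lf 706472 0 0) (P.cons (P.lf 0 18129170 0) (P.cons (P.lf 15656662 0 0) (P.cons (P.lf 0 1338562 0) (P.cons (P.lf 0 1478396 0) P.nil))))) (P.cons (P.cons (P.lf 0 4050946 0) (P.cons (P.lf 4329734 0 0) (P.cons (P.lf 0 810284 0) (P.cons (P.lf 0 264874 0) P.nil)))) (P.cons (P.cons (P.lf 13638 0 0) (P.cons (P.lf 132130 0 0) (P.cons (P.lf 0 82186 0) P.nil))) (P.cons (P.cons (P.lf 18100 0 0) (P.cons (P.lf 0 14358 0) P.nil)) (P.cons (P.cons (P.lf 0 114 0) P.nil) P.nil)))))) 1061802)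
 EL.nil)
noncomputable def S212_219_364_512_46 : EL := (EL.cons 15 (TM.mk (P.lf 4294967296 0 0) 0)
 EL.nil)
noncomputable def S212_219_364_512_47 : EL := (EL.cons 15 (TM.mk (P.cons (P.cons (P.lf 1511330322 0 0) (P.cons (P.lf 0 723365208 0) (P.cons (P.lf 0 48362512 0) (P.lf 16120836 0 0)))) (P.cons (P.cons (P.lf 950924 0 0) (P.cons (P.lf 0 23491848 0) (P.cons (P.lf 0 1570608 0) (P.lf 523536 0 0)))) (P.cons (P.cons (P.lf 0 5453230 0) (P.cons (P.lf 637596 0 0) (P.cons (P.lf 42628 0 0) (P.lf 0 14208 0)))) (P.cons (P.cons (P.lf 25221 0 0) (P.cons (P.lf 28388 0 0) (P.cons (P.lf 1896 0 0) P.nil))) (P.cons (P.cons (P.lf 4659 0 0) (P.cons (P.lf 0 192 0) P.nil)) (P.cons (P.cons (P.lf 9 0 0) P.nil) P.nil)))))) 1083)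
 EL.nil)
noncomputable def S212_219_364_512_48 : EL := (EL.cons 15 (TM.mk (P.cons (P.cons (P.lf 531812976 0 0) (P.cons (P.lf 0 509081302 0) (P.cons (P.lf 87794326 0 0) (P.cons (P.lf 27635910 0 0) (P.cons (P.lf 0 4885618 0) (P.cons (P.lf 0 363050 0) P.nil)))))) (P.cons (P.cons (P.lf 669229 0 0) (P.cons (P.lf 0 16853123 0) (P.cons (P.lf 6786309 0 0) (P.cons (P.lf 1433684 0 0) (P.cons (P.lf 0 317328 0) P.nil))))) (P.cons (P.cons (P.lf 0 3837598 0) (P.cons (P.lf 2275200 0 0) (P.cons (P.lf 65836 0 0) (P.cons (P.lf 0 62240 0) P.nil)))) (P.cons (P.cons (P.lf 15334 0 0) (P.cons (P.lf 71419 0 0) (P.cons (P.lf 0 11763 0) P.nil))) (P.cons (P.cons (P.lf 10213 0 0) (P.cons (P.lf 0 3586 0) P.nil)) (P.cons (P.cons (P.lf 0 55 0) P.nil) P.nil)))))) 112640)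
 EL.nil)
noncomputable def S212_219_364_512 : SL := (SL.cons S212_219_364_512_0 (SL.cons S212_219_364_512_1 (SL.cons S212_219_364_512_2 (SL.cons S212_219_364_512_3 (SL.cons S212_219_364_512_4 (SL.cons S212_219_364_512_5 (SL.cons S212_219_364_512_6 (SL.cons S212_219_364_512_7 (SL.cons S212_219_364_512_8 (SL.cons S212_219_364_512_9 (SL.cons S212_219_364_512_10 (SL.cons S212_219_364_512_11 (SL.cons S212_219_364_512_12 (SL.cons S212_219_364_512_13 (SL.cons S212_219_364_512_14 (SL.cons S212_219_364_512_15 (SL.cons S212_219_364_512_16 (SL.cons S212_219_364_512_17 (SL.cons S212_219_364_512_18 (SL.cons S212_219_364_512_19 (SL.cons S212_219_364_512_20 (SL.cons S212_219_364_512_21 (SL.cons S212_219_364_512_22 (SL.cons S212_219_364_512_23 (SL.cons S212_219_364_512_24 (SL.cons S212_219_364_512_25 (SL.cons S212_219_364_512_26 (SL.cons S212_219_364_512_27 (SL.cons S212_219_364_512_28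 (SL.cons S212_219_364_512_29 (SL.cons S212_219_364_512_30 (SL.cons S212_219_364_512_31 (SL.cons S212_219_364_512_32 (SL.cons S212_219_364_512_33 (SL.cons S212_219_364_512_34 (SL.cons S212_219_364_512_35 (SL.cons S212_219_364_512_36 (SL.cons S212_219_364_512_37 (SL.cons S212_219_364_512_38 (SL.cons S212_219_364_512_39 (SL.cons S212_219_364_512_40 (SL.cons S212_219_364_512_41 (SL.cons S212_219_364_512_42 (SL.cons S212_219_364_512_43 (SL.cons S212_219_364_512_44 (SL.cons S212_219_364_512_45 (SL.cons S212_219_364_512_46 (SL.cons S212_219_364_512_47 (SL.cons S212_219_364_512_48 SL.nil)))))))))))))))))))))))))))))))))))))))))))))))))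
noncomputable def S212_219_438_512_0 : EL := (EL.cons 0 (TM.mk (P.cons (P.lf 7745051952 0 0) (P.cons (P.lf 115378518 0 0) (P.cons (P.lf 0 3756028 0) (P.cons (P.lf 0 96526 0) (P.cons (P.lf 1105 0 0) (P.cons (P.lf 38 0 0) P.nil)))))) 65)
 (EL.cons 1 (TM.mk (P.cons (P.lf 0 1160417966 0) (P.cons (P.lf 81636789 0 0) (P.cons (P.lf 2253468 0 0) (P.cons (P.lf 0 42547 0) (P.cons (P.lf 0 1273 0) (P.cons (P.lf 3 0 0) P.nil)))))) 83)
 (EL.cons 5 (TM.mk (P.cons (P.lf 4547648156 0 0) (P.cons (P.lf 0 41023472 0) (P.cons (P.lf 1335476 0 0) (P.cons (P.lf 34320 0 0) (P.cons (P.lf 0 390 0) (P.cons (P.lf 0 14 0) P.nil)))))) 107)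
 (EL.cons 9 (TM.mk (P.lf 6442450944 0 0) 2)
 EL.nil))))
noncomputable def S212_219_438_512_1 : EL := (EL.cons 0 (TM.mk (P.cons (P.cons (P.lf 2224977371 0 0) (P.cons (P.lf 0 496381715 0) (P.cons (P.lf 0 7900571 0) (P.lf 2633524 0 0)))) (P.cons (P.cons (P.lf 154393926 0 0) (P.cons (P.lf 0 56933634 0) (P.cons (P.lf 0 906165 0) (P.lf 302048 0 0)))) (P.cons (P.cons (P.lf 0 24437615 0) (P.cons (P.lf 440726 0 0) (P.cons (P.lf 7022 0 0) (P.lf 0 2347 0)))) (P.cons (P.cons (P.lf 0 428712 0) (P.cons (P.lf 132738 0 0) (P.cons (P.lf 2107 0 0) P.nil))) (P.cons (P.cons (P.lf 42575 0 0) (P.cons (P.lf 1011 0 0) P.nil)) (P.cons (P.cons (P.lf 818 0 0) P.nil) P.nil)))))) 2406)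
 (EL.cons 1 (TM.mk (P.cons (P.cons (P.lf 0 187603605 0) (P.cons (P.lf 236022022 0 0) (P.cons (P.lf 3756597 0 0) (P.lf 0 1252194 0)))) (P.cons (P.cons (P.lf 140910861 0 0) (P.cons (P.lf 0 5162351 0) (P.cons (P.lf 0 82165 0) (P.lf 27387 0 0)))) (P.cons (P.cons (P.lf 5237617 0 0) (P.cons (P.lf 0 1553405 0) (P.cons (P.lf 0 24716 0) (P.lf 8233 0 0)))) (P.cons (P.cons (P.lf 0 567538 0) (P.cons (P.lf 0 8455 0) (P.cons (P.lf 0 132 0) P.nil))) (P.cons (P.cons (P.lf 0 12626 0) (P.cons (P.lf 2407 0 0) P.nil)) (P.cons (P.cons (P.lf 690 0 0) P.nil) P.nil)))))) 1389)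
 (EL.cons 5 (TM.mk (P.cons (P.cons (P.lf 1146169677 0 0) (P.cons (P.lf 0 469200256 0) (P.cons (P.lf 0 7467938 0) (P.lf 2489316 0 0)))) (P.cons (P.cons (P.lf 0 73803368 0) (P.cons (P.lf 0 726272 0) (P.cons (P.lf 0 11564 0) (P.lf 3856 0 0)))) (P.cons (P.cons (P.lf 0 24517 0) (P.cons (P.lf 412434 0 0) (P.cons (P.lf 6562 0 0) (P.lf 0 2186 0)))) (P.cons (P.cons (P.lf 220115 0 0) (P.cons (P.lf 0 21850 0) (P.cons (P.lf 0 340 0) P.nil))) (P.cons (P.cons (P.lf 0 7369 0) (P.cons (P.lf 0 532 0) P.nil)) (P.cons (P.cons (P.lf 0 282 0) P.nil) P.nil)))))) 2205)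
 (EL.cons 9 (TM.mk (P.cons (P.cons (P.lf 1709358291 0 0) (P.cons (P.lf 0 569727816 0) (P.cons (P.lf 0 9067968 0) (P.lf 3022650 0 0)))) (P.cons (P.cons (P.lf 0 16683316 0) (P.cons (P.lf 0 18502356 0) (P.cons (P.lf 0 294486 0) (P.lf 98160 0 0)))) (P.cons (P.cons (P.lf 0 7688325 0) (P.cons (P.lf 502176 0 0) (P.cons (P.lf 7992 0 0) (P.lf 0 2664 0)))) (P.cons (P.cons (P.lf 59725 0 0) (P.cons (P.lf 22356 0 0) (P.cons (P.lf 354 0 0) P.nil))) (P.cons (P.cons (P.lf 6838 0 0) (P.cons (P.lf 0 150 0) P.nil)) (P.cons (P.cons (P.lf 1 0 0) P.nil) P.nil)))))) 635)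
 (EL.cons 2 (TM.mk (P.cons (P.cons (P.lf 802600354 0 0) (P.cons (P.lf 29751300 0 0) (P.cons (P.lf 0 14741873 0) (P.cons (P.lf 0 133770 0) (P.lf 33440 0 0))))) (P.cons (P.cons (P.lf 0 47775532 0) (P.cons (P.lf 0 1770972 0) (P.cons (P.lf 877522 0 0) (P.cons (P.lf 7962 0 0) (P.lf 0 1988 0))))) (P.cons (P.cons (P.lf 0 2499707 0) (P.cons (P.lf 0 92657 0) (P.cons (P.lf 45911 0 0) (P.cons (P.lf 416 0 0) P.nil)))) (P.cons (P.cons (P.lf 32065 0 0) (P.cons (P.lf 1186 0 0) (P.cons (P.lf 0 587 0) P.nil))) (P.cons (P.cons (P.lf 2151 0 0) (P.cons (P.lf 78 0 0) P.nil)) (P.cons (P.cons (P.lf 0 2 0) P.nil) P.nil)))))) 352)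
 (EL.cons 6 (TM.mk (P.cons (P.cons (P.lf 1310535891 0 0) (P.cons (P.lf 48579777 0 0) (P.cons (P.lf 0 24071451 0) (P.cons (P.lf 0 218433 0) (P.lf 54606 0 0))))) (P.cons (P.cons (P.lf 42560682 0 0) (P.cons (P.lf 1577664 0 0) (P.cons (P.lf 0 781737 0) (P.cons (P.lf 0 7092 0) (P.lf 1773 0 0))))) (P.cons (P.cons (P.lf 0 1155150 0) (P.cons (P.lf 0 42816 0) (P.cons (P.lf 21216 0 0) (P.cons (P.lf 192 0 0) P.nil)))) (P.cons (P.cons (P.lf 0 51435 0) (P.cons (P.lf 0 1905 0) (P.cons (P.lf 942 0 0) P.nil))) (P.cons (P.cons (P.lf 348 0 0) (P.cons (P.lf 12 0 0) P.nil)) (P.cons (P.cons (P.lf 27 0 0) P.nil) P.nil)))))) 327)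
 EL.nil))))))
noncomputable def S212_219_438_512_2 : EL := (EL.cons 0 (TM.mk (P.cons (P.cons (P.lf 635453851 0 0) (P.cons (P.lf 0 293475235 0) (P.cons (P.lf 22552487 0 0) (P.cons (P.lf 2423616 0 0) (P.cons (P.lf 0 281980 0) (P.cons (P.lf 0 4604 0) P.nil)))))) (P.cons (P.cons (P.lf 72926881 0 0) (P.cons (P.lf 0 54057781 0) (P.cons (P.lf 7224000 0 0) (P.cons (P.lf 544135 0 0) (P.cons (P.lf 0 83729 0) P.nil))))) (P.cons (P.cons (P.lf 0 13802291 0) (P.cons (P.lf 3372152 0 0) (P.cons (P.lf 239016 0 0) (P.cons (P.lf 0 11982 0) P.nil)))) (P.cons (P.cons (P.lf 0 440226 0) (P.cons (P.lf 359639 0 0) (P.cons (P.lf 0 21077 0) P.nil))) (P.cons (P.cons (P.lf 71851 0 0) (P.cons (P.lf 0 7485 0) P.nil)) (P.cons (P.cons (P.lf 1075 0 0) P.nil) P.nil)))))) 19766)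
 (EL.cons 1 (TM.mk (P.cons (P.cons (P.lf 0 17860934 0) (P.cons (P.lf 103971407 0 0) (P.cons (P.lf 0 31014606 0) (P.cons (P.lf 0 1591564 0) (P.cons (P.lf 338366 0 0) (P.cons (P.lf 5514 0 0) P.nil)))))) (P.cons (P.cons (P.lf 68404899 0 0) (P.cons (P.lf 0 25212692 0) (P.cons (P.lf 0 892923 0) (P.cons (P.lf 118110 0 0) (P.cons (P.lf 5097 0 0) P.nil))))) (P.cons (P.cons (P.lf 1723792 0 0) (P.cons (P.lf 0 2622933 0) (P.cons (P.lf 233918 0 0) (P.cons (P.lf 22681 0 0) P.nil)))) (P.cons (P.cons (P.lf 0 597962 0) (P.cons (P.lf 97509 0 0) (P.cons (P.lf 11208 0 0) P.nil))) (P.cons (P.cons (P.lf 0 11262 0) (P.cons (P.lf 10941 0 0) P.nil)) (P.cons (P.cons (P.lf 1929 0 0) P.nil) P.nil)))))) 10001)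
 (EL.cons 5 (TM.mk (P.cons (P.cons (P.lf 288072262 0 0) (P.cons (P.lf 0 238292461 0) (P.cons (P.lf 43628467 0 0) (P.cons (P.lf 2773775 0 0) (P.cons (P.lf 0 491160 0) (P.cons (P.lf 0 8000 0) P.nil)))))) (P.cons (P.cons (P.lf 0 35963047 0) (P.cons (P.lf 11437210 0 0) (P.cons (P.lf 1016378 0 0) (P.cons (P.lf 0 34106 0) (P.cons (P.lf 0 8652 0) P.nil))))) (P.cons (P.cons (P.lf 332603 0 0) (P.cons (P.lf 752756 0 0) (P.cons (P.lf 0 94353 0) (P.cons (P.lf 0 7386 0) P.nil)))) (P.cons (P.cons (P.lf 237564 0 0) (P.cons (P.lf 0 79288 0) (P.cons (P.lf 504 0 0) P.nil))) (P.cons (P.cons (P.lf 0 11374 0) (P.cons (P.lf 0 696 0) P.nil)) (P.cons (P.cons (P.lf 0 571 0) P.nil) P.nil)))))) 11765)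
 (EL.cons 9 (TM.mk (P.cons (P.cons (P.lf 453539466 0 0) (P.cons (P.lf 0 302328717 0) (P.cons (P.lf 45571005 0 0) (P.cons (P.lf 3207805 0 0) (P.cons (P.lf 0 521842 0) (P.cons (P.lf 0 8508 0) P.nil)))))) (P.cons (P.cons (P.lf 0 8853079 0) (P.cons (P.lf 0 6867636 0) (P.cons (P.lf 3163146 0 0) (P.cons (P.lf 140604 0 0) (P.cons (P.lf 0 33894 0) P.nil))))) (P.cons (P.cons (P.lf 0 4036641 0) (P.cons (P.lf 1722118 0 0) (P.cons (P.lf 0 8271 0) (P.cons (P.lf 0 10272 0) P.nil)))) (P.cons (P.cons (P.lf 71512 0 0) (P.cons (P.lf 42859 0 0) (P.cons (P.lf 0 6156 0) P.nil))) (P.cons (P.cons (P.lf 12493 0 0) (P.cons (P.lf 0 2946 0) P.nil)) (P.cons (P.cons (P.lf 0 177 0) P.nil) P.nil)))))) 5099)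
 (EL.cons 2 (TM.mk (P.cons (P.cons (P.lf 425903613 0 0) (P.cons (P.lf 0 126165678 0) (P.cons (P.lf 0 15344235 0) (P.cons (P.lf 3205726 0 0) (P.cons (P.lf 110818 0 0) (P.cons (P.lf 0 19366 0) P.nil)))))) (P.cons (P.cons (P.lf 0 29509121 0) (P.cons (P.lf 2745995 0 0) (P.cons (P.lf 745464 0 0) (P.cons (P.lf 0 83716 0) (P.cons (P.lf 0 3746 0) P.nil))))) (P.cons (P.cons (P.lf 0 2994665 0) (P.cons (P.lf 730642 0 0) (P.cons (P.lf 99596 0 0) (P.cons (P.lf 0 18922 0) P.nil)))) (P.cons (P.cons (P.lf 158866 0 0) (P.cons (P.lf 12695 0 0) (P.cons (P.lf 0 2553 0) P.nil))) (P.cons (P.cons (P.lf 7756 0 0) (P.cons (P.lf 0 1035 0) P.nil)) (P.cons (P.cons (P.lf 0 230 0) P.nil) P.nil)))))) 3948)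
 (EL.cons 6 (TM.mk (P.cons (P.cons (P.lf 695441964 0 0) (P.cons (P.lf 0 206011188 0) (P.cons (P.lf 0 25055022 0) (P.cons (P.lf 5234514 0 0) (P.cons (P.lf 180954 0 0) (P.cons (P.lf 0 31626 0) P.nil)))))) (P.cons (P.cons (P.lf 15797514 0 0) (P.cons (P.lf 0 14469546 0) (P.cons (P.lf 0 1087854 0) (P.cons (P.lf 344880 0 0) (P.cons (P.lf 10524 0 0) P.nil))))) (P.cons (P.cons (P.lf 0 3961362 0) (P.cons (P.lf 17304 0 0) (P.cons (P.lf 81456 0 0) (P.cons (P.lf 0 3126 0) P.nil)))) (P.cons (P.cons (P.lf 0 98592 0) (P.cons (P.lf 27804 0 0) (P.cons (P.lf 3474 0 0) P.nil))) (P.cons (P.cons (P.lf 6774 0 0) (P.cons (P.lf 534 0 0) P.nil)) (P.cons (P.cons (P.lf 198 0 0) P.nil) P.nil)))))) 4932)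
 EL.nil))))))
noncomputable def S212_219_438_512_3 : EL := (EL.cons 0 (TM.mk (P.cons (P.lf 710664911 0 0) (P.cons (P.lf 0 115378518 0) (P.cons (P.lf 3756028 0 0) (P.cons (P.lf 96526 0 0) (P.cons (P.lf 0 1105 0) (P.cons (P.lf 0 38 0) P.nil)))))) 65)
 (EL.cons 1 (TM.mk (P.cons (P.lf 1160417966 0 0) (P.cons (P.lf 0 81636789 0) (P.cons (P.lf 0 2253468 0) (P.cons (P.lf 42547 0 0) (P.cons (P.lf 1273 0 0) (P.cons (P.lf 0 3 0) P.nil)))))) 83)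
 (EL.cons 5 (TM.mk (P.cons (P.lf 1894802788 0 0) (P.cons (P.lf 41023472 0 0) (P.cons (P.lf 0 1335476 0) (P.cons (P.lf 0 34320 0) (P.cons (P.lf 390 0 0) (P.cons (P.lf 14 0 0) P.nil)))))) 100)
 EL.nil)))
noncomputable def S212_219_438_512_4 : EL := (EL.cons 0 (TM.mk (P.cons (P.cons (P.lf 188558820 0 0) (P.cons (P.lf 0 62846511 0) (P.cons (P.lf 0 1000283 0) (P.lf 333427 0 0)))) (P.cons (P.cons (P.lf 0 32453404 0) (P.cons (P.lf 8162323 0 0) (P.cons (P.lf 129912 0 0) (P.lf 0 43303 0)))) (P.cons (P.cons (P.lf 447263 0 0) (P.cons (P.lf 54595 0 0) (P.cons (P.lf 868 0 0) (P.lf 0 288 0)))) (P.cons (P.cons (P.lf 160163 0 0) (P.cons (P.lf 0 25850 0) (P.cons (P.lf 0 411 0) P.nil))) (P.cons (P.cons (P.lf 0 5340 0) (P.cons (P.lf 0 302 0) P.nil)) (P.cons (P.cons (P.lf 0 209 0) P.nil) P.nil)))))) 360)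
 (EL.cons 1 (TM.mk (P.cons (P.cons (P.lf 307890596 0 0) (P.cons (P.lf 0 102619700 0) (P.cons (P.lf 0 1633325 0) (P.lf 544440 0 0)))) (P.cons (P.cons (P.lf 0 24665478 0) (P.cons (P.lf 3886762 0 0) (P.cons (P.lf 61861 0 0) (P.lf 0 20619 0)))) (P.cons (P.cons (P.lf 0 1771325 0) (P.cons (P.lf 524188 0 0) (P.cons (P.lf 8341 0 0) (P.lf 0 2778 0)))) (P.cons (P.cons (P.lf 125306 0 0) (P.cons (P.lf 371 0 0) (P.cons (P.lf 5 0 0) P.nil))) (P.cons (P.cons (P.lf 3390 0 0) (P.cons (P.lf 0 720 0) P.nil)) (P.cons (P.cons (P.lf 0 161 0) P.nil) P.nil)))))) 345)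
 (EL.cons 5 (TM.mk (P.cons (P.cons (P.lf 502742958 0 0) (P.cons (P.lf 0 167563844 0) (P.cons (P.lf 0 2666998 0) (P.lf 888996 0 0)))) (P.cons (P.cons (P.lf 5977882 0 0) (P.cons (P.lf 0 9069610 0) (P.cons (P.lf 0 144352 0) (P.lf 48116 0 0)))) (P.cons (P.cons (P.lf 0 2721800 0) (P.cons (P.lf 147978 0 0) (P.cons (P.lf 2354 0 0) (P.lf 0 784 0)))) (P.cons (P.cons (P.lf 0 37036 0) (P.cons (P.lf 16642 0 0) (P.cons (P.lf 262 0 0) P.nil))) (P.cons (P.cons (P.lf 4176 0 0) (P.cons (P.lf 58 0 0) P.nil)) (P.cons (P.cons (P.lf 74 0 0) P.nil) P.nil)))))) 346)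
 EL.nil)))
noncomputable def S212_219_438_512_5 : EL := (EL.cons 0 (TM.mk (P.cons (P.cons (P.lf 50029806 0 0) (P.cons (P.lf 0 33349793 0) (P.cons (P.lf 5026923 0 0) (P.cons (P.lf 353851 0 0) (P.cons (P.lf 0 57563 0) (P.cons (P.lf 0 936 0) P.nil)))))) (P.cons (P.cons (P.lf 0 9099065 0) (P.cons (P.lf 4656868 0 0) (P.cons (P.lf 0 467208 0) (P.cons (P.lf 0 41937 0) (P.cons (P.lf 5605 0 0) P.nil))))) (P.cons (P.cons (P.lf 0 22310 0) (P.cons (P.lf 136698 0 0) (P.cons (P.lf 0 30991 0) (P.cons (P.lf 0 1780 0) P.nil)))) (P.cons (P.cons (P.lf 81813 0 0) (P.cons (P.lf 0 34646 0) (P.cons (P.lf 1995 0 0) P.nil))) (P.cons (P.cons (P.lf 0 2466 0) (P.cons (P.lf 0 138 0) P.nil)) (P.cons (P.cons (P.lf 0 261 0) P.nil) P.nil)))))) 2437)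
 (EL.cons 1 (TM.mk (P.cons (P.cons (P.lf 81691788 0 0) (P.cons (P.lf 0 54455621 0) (P.cons (P.lf 8208273 0 0) (P.cons (P.lf 577790 0 0) (P.cons (P.lf 0 93993 0) (P.cons (P.lf 0 1531 0) P.nil)))))) (P.cons (P.cons (P.lf 0 7341735 0) (P.cons (P.lf 2594013 0 0) (P.cons (P.lf 0 7713 0) (P.cons (P.lf 0 15320 0) (P.cons (P.lf 506 0 0) P.nil))))) (P.cons (P.cons (P.lf 0 773538 0) (P.cons (P.lf 502961 0 0) (P.cons (P.lf 0 57510 0) (P.cons (P.lf 0 4753 0) P.nil)))) (P.cons (P.cons (P.lf 70123 0 0) (P.cons (P.lf 0 13695 0) (P.cons (P.lf 0 1807 0) P.nil))) (P.cons (P.cons (P.lf 2786 0 0) (P.cons (P.lf 0 1779 0) P.nil)) (P.cons (P.cons (P.lf 0 241 0) P.nil) P.nil)))))) 2326)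
 (EL.cons 5 (TM.mk (P.cons (P.cons (P.lf 133391444 0 0) (P.cons (P.lf 0 88918532 0) (P.cons (P.lf 13402982 0 0) (P.cons (P.lf 943454 0 0) (P.cons (P.lf 0 153478 0) (P.cons (P.lf 0 2500 0) P.nil)))))) (P.cons (P.cons (P.lf 284196 0 0) (P.cons (P.lf 0 3944986 0) (P.cons (P.lf 1220500 0 0) (P.cons (P.lf 61778 0 0) (P.cons (P.lf 0 13290 0) P.nil))))) (P.cons (P.cons (P.lf 0 1337612 0) (P.cons (P.lf 525434 0 0) (P.cons (P.lf 8262 0 0) (P.cons (P.lf 0 2790 0) P.nil)))) (P.cons (P.cons (P.lf 0 5252 0) (P.cons (P.lf 26604 0 0) (P.cons (P.lf 0 2760 0) P.nil))) (P.cons (P.cons (P.lf 5040 0 0) (P.cons (P.lf 0 930 0) P.nil)) (P.cons (P.cons (P.lf 34 0 0) P.nil) P.nil)))))) 2250)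
 EL.nil)))
noncomputable def S212_219_438_512_6 : EL := (EL.cons 12 (TM.mk (P.lf 8589934592 0 0) 0)
 (EL.cons 3 (TM.mk (P.cons (P.lf 0 1235370907 0) (P.cons (P.lf 100283032 0 0) (P.cons (P.lf 805698 0 0) (P.cons (P.lf 0 18495 0) (P.cons (P.lf 0 277 0) (P.cons (P.lf 0 0 0) P.nil)))))) 44)
 (EL.cons 7 (TM.mk (P.cons (P.lf 0 2017190622 0) (P.cons (P.lf 0 21836617 0) (P.cons (P.lf 829062 0 0) (P.cons (P.lf 9294 0 0) (P.cons (P.lf 0 138 0) (P.cons (P.lf 0 3 0) P.nil)))))) 46)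
 EL.nil)))
noncomputable def S212_219_438_512_7 : EL := (EL.cons 12 (TM.mk (P.cons (P.cons (P.lf 2279144388 0 0) (P.cons (P.lf 0 759637088 0) (P.cons (P.lf 0 12090624 0) (P.lf 4030200 0 0)))) (P.cons (P.cons (P.lf 0 22244422 0) (P.cons (P.lf 0 24669808 0) (P.cons (P.lf 0 392648 0) (P.lf 130880 0 0)))) (P.cons (P.cons (P.lf 0 10251100 0) (P.cons (P.lf 669568 0 0) (P.cons (P.lf 10656 0 0) (P.lf 0 3552 0)))) (P.cons (P.cons (P.lf 79634 0 0) (P.cons (P.lf 29808 0 0) (P.cons (P.lf 472 0 0) P.nil))) (P.cons (P.cons (P.lf 9118 0 0) (P.cons (P.lf 0 200 0) P.nil)) (P.cons (P.cons (P.lf 2 0 0) P.nil) P.nil)))))) 822)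
 (EL.cons 3 (TM.mk (P.cons (P.cons (P.lf 0 623299917 0) (P.cons (P.lf 0 218496088 0) (P.cons (P.lf 0 3477652 0) (P.lf 1159214 0 0)))) (P.cons (P.cons (P.lf 0 244219497 0) (P.cons (P.lf 10640906 0 0) (P.cons (P.lf 169364 0 0) (P.lf 0 56454 0)))) (P.cons (P.cons (P.lf 3152934 0 0) (P.cons (P.lf 911102 0 0) (P.cons (P.lf 14498 0 0) (P.lf 0 4830 0)))) (P.cons (P.cons (P.lf 430685 0 0) (P.cons (P.lf 0 5700 0) (P.cons (P.lf 0 90 0) P.nil))) (P.cons (P.cons (P.lf 972 0 0) (P.cons (P.lf 0 1032 0) P.nil)) (P.cons (P.cons (P.lf 0 333 0) P.nil) P.nil)))))) 1231)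
 (EL.cons 7 (TM.mk (P.cons (P.cons (P.lf 0 470865871 0) (P.cons (P.lf 249753264 0 0) (P.cons (P.lf 3975154 0 0) (P.lf 0 1325055 0)))) (P.cons (P.cons (P.lf 53178761 0 0) (P.cons (P.lf 0 2317053 0) (P.cons (P.lf 0 36877 0) (P.lf 12291 0 0)))) (P.cons (P.cons (P.lf 0 3132814 0) (P.cons (P.lf 0 91807 0) (P.cons (P.lf 0 1462 0) (P.lf 488 0 0)))) (P.cons (P.cons (P.lf 0 38292 0) (P.cons (P.lf 12825 0 0) (P.cons (P.lf 202 0 0) P.nil))) (P.cons (P.cons (P.lf 5640 0 0) (P.cons (P.lf 81 0 0) P.nil)) (P.cons (P.cons (P.lf 54 0 0) P.nil) P.nil)))))) 1401)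
 (EL.cons 10 (TM.mk (P.cons (P.cons (P.lf 0 2790370296 0) (P.cons (P.lf 0 103435221 0) (P.cons (P.lf 51252522 0 0) (P.cons (P.lf 465084 0 0) (P.lf 0 116271 0))))) (P.cons (P.cons (P.lf 0 60412977 0) (P.cons (P.lf 0 2239425 0) (P.cons (P.lf 1109643 0 0) (P.cons (P.lf 10068 0 0) (P.lf 0 2517 0))))) (P.cons (P.cons (P.lf 1966680 0 0) (P.cons (P.lf 72900 0 0) (P.cons (P.lf 0 36123 0) (P.cons (P.lf 0 327 0) P.nil)))) (P.cons (P.cons (P.lf 50541 0 0) (P.cons (P.lf 1872 0 0) (P.cons (P.lf 0 927 0) P.nil))) (P.cons (P.cons (P.lf 0 573 0) (P.cons (P.lf 0 21 0) P.nil)) (P.cons (P.cons (P.lf 0 18 0) P.nil) P.nil)))))) 369)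
 EL.nil))))
noncomputable def S212_219_438_512_8 : EL := (EL.cons 12 (TM.mk (P.cons (P.cons (P.lf 604719288 0 0) (P.cons (P.lf 0 403104956 0) (P.cons (P.lf 60761340 0 0) (P.cons (P.lf 4277074 0 0) (P.cons (P.lf 0 695790 0) (P.cons (P.lf 0 11344 0) P.nil)))))) (P.cons (P.cons (P.lf 0 11804106 0) (P.cons (P.lf 0 9156848 0) (P.cons (P.lf 4217528 0 0) (P.cons (P.lf 187472 0 0) (P.cons (P.lf 0 45192 0) P.nil))))) (P.cons (P.cons (P.lf 0 5382188 0) (P.cons (P.lf 2296158 0 0) (P.cons (P.lf 0 11028 0) (P.cons (P.lf 0 13696 0) P.nil)))) (P.cons (P.cons (P.lf 95350 0 0) (P.cons (P.lf 57146 0 0) (P.cons (P.lf 0 8208 0) P.nil))) (P.cons (P.cons (P.lf 16658 0 0) (P.cons (P.lf 0 3928 0) P.nil)) (P.cons (P.cons (P.lf 0 236 0) P.nil) P.nil)))))) 6770)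
 (EL.cons 3 (TM.mk (P.cons (P.cons (P.lf 0 243788630 0) (P.cons (P.lf 0 63677888 0) (P.cons (P.lf 47292362 0 0) (P.cons (P.lf 1875537 0 0) (P.cons (P.lf 0 500325 0) (P.cons (P.lf 0 8155 0) P.nil)))))) (P.cons (P.cons (P.lf 0 135125428 0) (P.cons (P.lf 56941900 0 0) (P.cons (P.lf 122542 0 0) (P.cons (P.lf 0 327046 0) (P.cons (P.lf 8116 0 0) P.nil))))) (P.cons (P.cons (P.lf 3732689 0 0) (P.cons (P.lf 2172752 0 0) (P.cons (P.lf 0 285827 0) (P.cons (P.lf 0 21721 0) P.nil)))) (P.cons (P.cons (P.lf 862510 0 0) (P.cons (P.lf 0 192466 0) (P.cons (P.lf 0 8164 0) P.nil))) (P.cons (P.cons (P.lf 0 13307 0) (P.cons (P.lf 0 8259 0) P.nil)) (P.cons (P.cons (P.lf 0 1918 0) P.nil) P.nil)))))) 12941)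
 (EL.cons 7 (TM.mk (P.cons (P.cons (P.lf 0 107859792 0) (P.cons (P.lf 121151366 0 0) (P.cons (P.lf 0 26469400 0) (P.cons (P.lf 0 1546733 0) (P.cons (P.lf 294127 0 0) (P.cons (P.lf 4793 0 0) P.nil)))))) (P.cons (P.cons (P.lf 29423541 0 0) (P.cons (P.lf 0 12399087 0) (P.cons (P.lf 0 26688 0) (P.cons (P.lf 71211 0 0) (P.cons (P.lf 0 1767 0) P.nil))))) (P.cons (P.cons (P.lf 0 2166293 0) (P.cons (P.lf 97247 0 0) (P.cons (P.lf 63463 0 0) (P.cons (P.lf 1460 0 0) P.nil)))) (P.cons (P.cons (P.lf 0 130550 0) (P.cons (P.lf 67804 0 0) (P.cons (P.lf 0 2042 0) P.nil))) (P.cons (P.cons (P.lf 15350 0 0) (P.cons (P.lf 0 1183 0) P.nil)) (P.cons (P.cons (P.lf 124 0 0) P.nil) P.nil)))))) 5895)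
 (EL.cons 10 (TM.mk (P.cons (P.cons (P.lf 0 1480722984 0) (P.cons (P.lf 438635460 0 0) (P.cons (P.lf 53346726 0 0) (P.cons (P.lf 0 11145246 0) (P.cons (P.lf 0 385290 0) (P.cons (P.lf 67344 0 0) P.nil)))))) (P.cons (P.cons (P.lf 0 17606586 0) (P.cons (P.lf 26059968 0 0) (P.cons (P.lf 1738752 0 0) (P.cons (P.lf 0 613668 0) (P.cons (P.lf 0 18246 0) P.nil))))) (P.cons (P.cons (P.lf 8016486 0 0) (P.cons (P.lf 0 138678 0) (P.cons (P.lf 0 170334 0) (P.cons (P.lf 8724 0 0) P.nil)))) (P.cons (P.cons (P.lf 109086 0 0) (P.cons (P.lf 0 44976 0) (P.cons (P.lf 0 4596 0) P.nil))) (P.cons (P.cons (P.lf 0 12300 0) (P.cons (P.lf 0 624 0) P.nil)) (P.cons (P.cons (P.lf 0 216 0) P.nil) P.nil)))))) 8388)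
 EL.nil))))
noncomputable def S212_219_438_512_9 : EL := (EL.cons 3 (TM.mk (P.cons (P.lf 0 1235370907 0) (P.cons (P.lf 100283032 0 0) (P.cons (P.lf 805698 0 0) (P.cons (P.lf 0 18495 0) (P.cons (P.lf 0 277 0) (P.cons (P.lf 0 0 0) P.nil)))))) 44)
 (EL.cons 7 (TM.mk (P.cons (P.lf 0 2017190622 0) (P.cons (P.lf 0 21836617 0) (P.cons (P.lf 829062 0 0) (P.cons (P.lf 9294 0 0) (P.cons (P.lf 0 138 0) (P.cons (P.lf 0 3 0) P.nil)))))) 46)
 EL.nil))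
noncomputable def S212_219_438_512_10 : EL := (EL.cons 3 (TM.mk (P.cons (P.cons (P.lf 0 327777660 0) (P.cons (P.lf 109248044 0 0) (P.cons (P.lf 1738826 0 0) (P.lf 0 579607 0)))) (P.cons (P.cons (P.lf 29806935 0 0) (P.cons (P.lf 0 5320453 0) (P.cons (P.lf 0 84682 0) (P.lf 28227 0 0)))) (P.cons (P.cons (P.lf 1428354 0 0) (P.cons (P.lf 0 455551 0) (P.cons (P.lf 0 7249 0) (P.lf 2415 0 0)))) (P.cons (P.cons (P.lf 0 138121 0) (P.cons (P.lf 2850 0 0) (P.cons (P.lf 45 0 0) P.nil))) (P.cons (P.cons (P.lf 0 1368 0) (P.cons (P.lf 516 0 0) P.nil)) (P.cons (P.cons (P.lf 135 0 0) P.nil) P.nil)))))) 258)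
 (EL.cons 7 (TM.mk (P.cons (P.cons (P.lf 0 535215796 0) (P.cons (P.lf 178387017 0 0) (P.cons (P.lf 2839264 0 0) (P.lf 0 946419 0)))) (P.cons (P.cons (P.lf 0 570151 0) (P.cons (P.lf 7724343 0 0) (P.cons (P.lf 122942 0 0) (P.lf 0 40980 0)))) (P.cons (P.cons (P.lf 2683805 0 0) (P.cons (P.lf 0 167839 0) (P.cons (P.lf 0 2671 0) (P.lf 890 0 0)))) (P.cons (P.cons (P.lf 7677 0 0) (P.cons (P.lf 0 11904 0) (P.cons (P.lf 0 188 0) P.nil))) (P.cons (P.cons (P.lf 0 3393 0) (P.cons (P.lf 21 0 0) P.nil)) (P.cons (P.cons (P.lf 0 27 0) P.nil) P.nil)))))) 266)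
 EL.nil))
noncomputable def S212_219_438_512_11 : EL := (EL.cons 3 (TM.mk (P.cons (P.cons (P.lf 0 86968370 0) (P.cons (P.lf 57972982 0 0) (P.cons (P.lf 0 8738458 0) (P.cons (P.lf 0 615111 0) (P.cons (P.lf 100065 0 0) (P.cons (P.lf 1631 0 0) P.nil)))))) (P.cons (P.cons (P.lf 8757404 0 0) (P.cons (P.lf 0 3389138 0) (P.cons (P.lf 102808 0 0) (P.cons (P.lf 22970 0 0) (P.cons (P.lf 0 1622 0) P.nil))))) (P.cons (P.cons (P.lf 692957 0 0) (P.cons (P.lf 0 474934 0) (P.cons (P.lf 56521 0 0) (P.cons (P.lf 4559 0 0) P.nil)))) (P.cons (P.cons (P.lf 0 78956 0) (P.cons (P.lf 18596 0 0) (P.cons (P.lf 1316 0 0) P.nil))) (P.cons (P.cons (P.lf 0 1781 0) (P.cons (P.lf 1479 0 0) P.nil)) (P.cons (P.cons (P.lf 248 0 0) P.nil) P.nil)))))) 2191)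
 (EL.cons 7 (TM.mk (P.cons (P.cons (P.lf 0 142007376 0) (P.cons (P.lf 94661900 0 0) (P.cons (P.lf 0 14268700 0) (P.cons (P.lf 0 1004393 0) (P.cons (P.lf 163393 0 0) (P.cons (P.lf 2663 0 0) P.nil)))))) (P.cons (P.cons (P.lf 1234713 0 0) (P.cons (P.lf 3175059 0 0) (P.cons (P.lf 0 1144872 0) (P.cons (P.lf 0 54897 0) (P.cons (P.lf 12381 0 0) P.nil))))) (P.cons (P.cons (P.lf 1352281 0 0) (P.cons (P.lf 0 554839 0) (P.cons (P.lf 0 2267 0) (P.cons (P.lf 3152 0 0) P.nil)))) (P.cons (P.cons (P.lf 0 9194 0) (P.cons (P.lf 0 20576 0) (P.cons (P.lf 2428 0 0) P.nil))) (P.cons (P.cons (P.lf 0 4696 0) (P.cons (P.lf 995 0 0) P.nil)) (P.cons (P.cons (P.lf 16 0 0) P.nil) P.nil)))))) 1961)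
 EL.nil))
noncomputable def S212_219_438_512_12 : EL := (EL.cons 4 (TM.mk (P.cons (P.lf 1235370907 0 0) (P.cons (P.lf 0 100283032 0) (P.cons (P.lf 0 805698 0) (P.cons (P.lf 18495 0 0) (P.cons (P.lf 277 0 0) (P.cons (P.lf 0 0 0) P.nil)))))) 44)
 (EL.cons 8 (TM.mk (P.cons (P.lf 2017190622 0 0) (P.cons (P.lf 21836617 0 0) (P.cons (P.lf 0 829062 0) (P.cons (P.lf 0 9294 0) (P.cons (P.lf 138 0 0) (P.cons (P.lf 3 0 0) P.nil)))))) 46)
 EL.nil))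
noncomputable def S212_219_438_512_13 : EL := (EL.cons 4 (TM.mk (P.cons (P.cons (P.lf 327777660 0 0) (P.cons (P.lf 0 109248044 0) (P.cons (P.lf 0 1738826 0) (P.lf 579607 0 0)))) (P.cons (P.cons (P.lf 0 29806935 0) (P.cons (P.lf 5320453 0 0) (P.cons (P.lf 84682 0 0) (P.lf 0 28227 0)))) (P.cons (P.cons (P.lf 0 1428354 0) (P.cons (P.lf 455551 0 0) (P.cons (P.lf 7249 0 0) (P.lf 0 2415 0)))) (P.cons (P.cons (P.lf 138121 0 0) (P.cons (P.lf 0 2850 0) (P.cons (P.lf 0 45 0) P.nil))) (P.cons (P.cons (P.lf 1368 0 0) (P.cons (P.lf 0 516 0) P.nil)) (P.cons (P.cons (P.lf 0 135 0) P.nil) P.nil)))))) 258)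
 (EL.cons 8 (TM.mk (P.cons (P.cons (P.lf 535215796 0 0) (P.cons (P.lf 0 178387017 0) (P.cons (P.lf 0 2839264 0) (P.lf 946419 0 0)))) (P.cons (P.cons (P.lf 570151 0 0) (P.cons (P.lf 0 7724343 0) (P.cons (P.lf 0 122942 0) (P.lf 40980 0 0)))) (P.cons (P.cons (P.lf 0 2683805 0) (P.cons (P.lf 167839 0 0) (P.cons (P.lf 2671 0 0) (P.lf 0 890 0)))) (P.cons (P.cons (P.lf 0 7677 0) (P.cons (P.lf 11904 0 0) (P.cons (P.lf 188 0 0) P.nil))) (P.cons (P.cons (P.lf 3393 0 0) (P.cons (P.lf 0 21 0) P.nil)) (P.cons (P.cons (P.lf 27 0 0) P.nil) P.nil)))))) 266)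
 EL.nil))
noncomputable def S212_219_438_512_14 : EL := (EL.cons 4 (TM.mk (P.cons (P.cons (P.lf 86968370 0 0) (P.cons (P.lf 0 57972982 0) (P.cons (P.lf 8738458 0 0) (P.cons (P.lf 615111 0 0) (P.cons (P.lf 0 100065 0) (P.cons (P.lf 0 1631 0) P.nil)))))) (P.cons (P.cons (P.lf 0 8757404 0) (P.cons (P.lf 3389138 0 0) (P.cons (P.lf 0 102808 0) (P.cons (P.lf 0 22970 0) (P.cons (P.lf 1622 0 0) P.nil))))) (P.cons (P.cons (P.lf 0 692957 0) (P.cons (P.lf 474934 0 0) (P.cons (P.lf 0 56521 0) (P.cons (P.lf 0 4559 0) P.nil)))) (P.cons (P.cons (P.lf 78956 0 0) (P.cons (P.lf 0 18596 0) (P.cons (P.lf 0 1316 0) P.nil))) (P.cons (P.cons (P.lf 1781 0 0) (P.cons (P.lf 0 1479 0) P.nil)) (P.cons (P.cons (P.lf 0 248 0) P.nil) P.nil)))))) 2191)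
 (EL.cons 8 (TM.mk (P.cons (P.cons (P.lf 142007376 0 0) (P.cons (P.lf 0 94661900 0) (P.cons (P.lf 14268700 0 0) (P.cons (P.lf 1004393 0 0) (P.cons (P.lf 0 163393 0) (P.cons (P.lf 0 2663 0) P.nil)))))) (P.cons (P.cons (P.lf 0 1234713 0) (P.cons (P.lf 0 3175059 0) (P.cons (P.lf 1144872 0 0) (P.cons (P.lf 54897 0 0) (P.cons (P.lf 0 12381 0) P.nil))))) (P.cons (P.cons (P.lf 0 1352281 0) (P.cons (P.lf 554839 0 0) (P.cons (P.lf 2267 0 0) (P.cons (P.lf 0 3152 0) P.nil)))) (P.cons (P.cons (P.lf 9194 0 0) (P.cons (P.lf 20576 0 0) (P.cons (P.lf 0 2428 0) P.nil))) (P.cons (P.cons (P.lf 4696 0 0) (P.cons (P.lf 0 995 0) P.nil)) (P.cons (P.cons (P.lf 0 16 0) P.nil) P.nil)))))) 1961)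
 EL.nil))
noncomputable def S212_219_438_512_15 : EL := (EL.cons 4 (TM.mk (P.cons (P.lf 0 379021286 0) (P.cons (P.lf 61535209 0 0) (P.cons (P.lf 0 2003215 0) (P.cons (P.lf 0 51480 0) (P.cons (P.lf 589 0 0) (P.cons (P.lf 20 0 0) P.nil)))))) 37)
 (EL.cons 8 (TM.mk (P.cons (P.lf 0 618889582 0) (P.cons (P.lf 43539621 0 0) (P.cons (P.lf 1201850 0 0) (P.cons (P.lf 0 22692 0) (P.cons (P.lf 0 679 0) (P.cons (P.lf 2 0 0) P.nil)))))) 41)
 EL.nil))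
noncomputable def S212_219_438_512_16 : EL := (EL.cons 4 (TM.mk (P.cons (P.cons (P.lf 0 100564704 0) (P.cons (P.lf 33518139 0 0) (P.cons (P.lf 533484 0 0) (P.lf 0 177827 0)))) (P.cons (P.cons (P.lf 17308482 0 0) (P.cons (P.lf 0 4353239 0) (P.cons (P.lf 0 69286 0) (P.lf 23095 0 0)))) (P.cons (P.cons (P.lf 0 238540 0) (P.cons (P.lf 0 29117 0) (P.cons (P.lf 0 463 0) (P.lf 153 0 0)))) (P.cons (P.cons (P.lf 0 85420 0) (P.cons (P.lf 13786 0 0) (P.cons (P.lf 219 0 0) P.nil))) (P.cons (P.cons (P.lf 2848 0 0) (P.cons (P.lf 161 0 0) P.nil)) (P.cons (P.cons (P.lf 111 0 0) P.nil) P.nil)))))) 200)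
 (EL.cons 8 (TM.mk (P.cons (P.cons (P.lf 0 164208318 0) (P.cons (P.lf 54730507 0 0) (P.cons (P.lf 871107 0 0) (P.lf 0 290368 0)))) (P.cons (P.cons (P.lf 13154922 0 0) (P.cons (P.lf 0 2072940 0) (P.cons (P.lf 0 32993 0) (P.lf 10997 0 0)))) (P.cons (P.cons (P.lf 944707 0 0) (P.cons (P.lf 0 279567 0) (P.cons (P.lf 0 4449 0) (P.lf 1482 0 0)))) (P.cons (P.cons (P.lf 0 66830 0) (P.cons (P.lf 0 198 0) (P.cons (P.lf 0 3 0) P.nil))) (P.cons (P.cons (P.lf 0 1808 0) (P.cons (P.lf 384 0 0) P.nil)) (P.cons (P.cons (P.lf 86 0 0) P.nil) P.nil)))))) 174)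
 EL.nil))
noncomputable def S212_219_438_512_17 : EL := (EL.cons 4 (TM.mk (P.cons (P.cons (P.lf 0 26682563 0) (P.cons (P.lf 17786556 0 0) (P.cons (P.lf 0 2681025 0) (P.cons (P.lf 0 188720 0) (P.cons (P.lf 30700 0 0) (P.cons (P.lf 499 0 0) P.nil)))))) (P.cons (P.cons (P.lf 4852834 0 0) (P.cons (P.lf 0 2483663 0) (P.cons (P.lf 249178 0 0) (P.cons (P.lf 22366 0 0) (P.cons (P.lf 0 2989 0) P.nil))))) (P.cons (P.cons (P.lf 11898 0 0) (P.cons (P.lf 0 72905 0) (P.cons (P.lf 16529 0 0) (P.cons (P.lf 949 0 0) P.nil)))) (P.cons (P.cons (P.lf 0 43634 0) (P.cons (P.lf 18478 0 0) (P.cons (P.lf 0 1064 0) P.nil))) (P.cons (P.cons (P.lf 1315 0 0) (P.cons (P.lf 74 0 0) P.nil)) (P.cons (P.cons (P.lf 139 0 0) P.nil) P.nil)))))) 1310)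
 (EL.cons 8 (TM.mk (P.cons (P.cons (P.lf 0 43568954 0) (P.cons (P.lf 29042998 0 0) (P.cons (P.lf 0 4377746 0) (P.cons (P.lf 0 308155 0) (P.cons (P.lf 50130 0 0) (P.cons (P.lf 817 0 0) P.nil)))))) (P.cons (P.cons (P.lf 3915592 0 0) (P.cons (P.lf 0 1383474 0) (P.cons (P.lf 4114 0 0) (P.cons (P.lf 8171 0 0) (P.cons (P.lf 0 270 0) P.nil))))) (P.cons (P.cons (P.lf 412554 0 0) (P.cons (P.lf 0 268246 0) (P.cons (P.lf 30672 0 0) (P.cons (P.lf 2535 0 0) P.nil)))) (P.cons (P.cons (P.lf 0 37399 0) (P.cons (P.lf 7304 0 0) (P.cons (P.lf 964 0 0) P.nil))) (P.cons (P.cons (P.lf 0 1486 0) (P.cons (P.lf 949 0 0) P.nil)) (P.cons (P.cons (P.lf 129 0 0) P.nil) P.nil)))))) 1229)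
 EL.nil))
noncomputable def S212_219_438_512_18 : EL := (EL.cons 4 (TM.mk (P.cons (P.lf 116286642 0 0) (P.cons (P.lf 0 28319212 0) (P.cons (P.lf 2071329 0 0) (P.cons (P.lf 0 20041 0) (P.cons (P.lf 0 2119 0) (P.cons (P.lf 2 0 0) P.nil)))))) 28)
 (EL.cons 8 (TM.mk (P.cons (P.lf 189880079 0 0) (P.cons (P.lf 0 28772082 0) (P.cons (P.lf 591803 0 0) (P.cons (P.lf 48449 0 0) (P.cons (P.lf 0 273 0) (P.cons (P.lf 0 30 0) P.nil)))))) 28)
 EL.nil))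
noncomputable def S212_219_438_512_19 : EL := (EL.cons 4 (TM.mk (P.cons (P.cons (P.lf 30854023 0 0) (P.cons (P.lf 0 10283622 0) (P.cons (P.lf 0 163677 0) (P.lf 54558 0 0)))) (P.cons (P.cons (P.lf 0 7814995 0) (P.cons (P.lf 2170395 0 0) (P.cons (P.lf 34544 0 0) (P.lf 0 11514 0)))) (P.cons (P.cons (P.lf 484140 0 0) (P.cons (P.lf 0 92778 0) (P.cons (P.lf 0 1476 0) (P.lf 492 0 0)))) (P.cons (P.cons (P.lf 24192 0 0) (P.cons (P.lf 0 5979 0) (P.cons (P.lf 0 94 0) P.nil))) (P.cons (P.cons (P.lf 0 3120 0) (P.cons (P.lf 304 0 0) P.nil)) (P.cons (P.cons (P.lf 18 0 0) P.nil) P.nil)))))) 142)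
 (EL.cons 8 (TM.mk (P.cons (P.cons (P.lf 50380373 0 0) (P.cons (P.lf 0 16791740 0) (P.cons (P.lf 0 267262 0) (P.lf 89087 0 0)))) (P.cons (P.cons (P.lf 0 8125731 0) (P.cons (P.lf 1999087 0 0) (P.cons (P.lf 31817 0 0) (P.lf 0 10605 0)))) (P.cons (P.cons (P.lf 4929 0 0) (P.cons (P.lf 45097 0 0) (P.cons (P.lf 717 0 0) (P.lf 0 238 0)))) (P.cons (P.cons (P.lf 47418 0 0) (P.cons (P.lf 0 7567 0) (P.cons (P.lf 0 120 0) P.nil))) (P.cons (P.cons (P.lf 0 969 0) (P.cons (P.lf 0 172 0) P.nil)) (P.cons (P.cons (P.lf 0 89 0) P.nil) P.nil)))))) 126)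
 EL.nil))
noncomputable def S212_219_438_512_20 : EL := (EL.cons 4 (TM.mk (P.cons (P.cons (P.lf 8186415 0 0) (P.cons (P.lf 0 5457051 0) (P.cons (P.lf 822558 0 0) (P.cons (P.lf 57900 0 0) (P.cons (P.lf 0 9419 0) (P.cons (P.lf 0 152 0) P.nil)))))) (P.cons (P.cons (P.lf 0 2153430 0) (P.cons (P.lf 1204990 0 0) (P.cons (P.lf 0 143221 0) (P.cons (P.lf 0 11562 0) (P.cons (P.lf 1681 0 0) P.nil))))) (P.cons (P.cons (P.lf 111871 0 0) (P.cons (P.lf 0 35929 0) (P.cons (P.lf 597 0 0) (P.cons (P.lf 227 0 0) P.nil)))) (P.cons (P.cons (P.lf 14776 0 0) (P.cons (P.lf 0 8063 0) (P.cons (P.lf 799 0 0) P.nil))) (P.cons (P.cons (P.lf 0 1507 0) (P.cons (P.lf 432 0 0) P.nil)) (P.cons (P.cons (P.lf 0 18 0) P.nil) P.nil)))))) 735)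
 (EL.cons 8 (TM.mk (P.cons (P.cons (P.lf 13367289 0 0) (P.cons (P.lf 0 8910615 0) (P.cons (P.lf 1343126 0 0) (P.cons (P.lf 94544 0 0) (P.cons (P.lf 0 15380 0) (P.cons (P.lf 0 250 0) P.nil)))))) (P.cons (P.cons (P.lf 0 2286443 0) (P.cons (P.lf 1147792 0 0) (P.cons (P.lf 0 110292 0) (P.cons (P.lf 0 10181 0) (P.cons (P.lf 1331 0 0) P.nil))))) (P.cons (P.cons (P.lf 0 37772 0) (P.cons (P.lf 53655 0 0) (P.cons (P.lf 0 10184 0) (P.cons (P.lf 0 635 0) P.nil)))) (P.cons (P.cons (P.lf 22732 0 0) (P.cons (P.lf 0 9332 0) (P.cons (P.lf 488 0 0) P.nil))) (P.cons (P.cons (P.lf 0 407 0) (P.cons (P.lf 0 158 0) P.nil)) (P.cons (P.cons (P.lf 0 86 0) P.nil) P.nil)))))) 727)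
 EL.nil))
noncomputable def S212_219_438_512_21 : EL := (EL.cons 4 (TM.mk (P.cons (P.cons (P.lf 295522257 0 0) (P.cons (P.lf 327744132 0 0) (P.cons (P.lf 5216478 0 0) (P.lf 0 1738821 0)))) (P.cons (P.cons (P.lf 274026432 0 0) (P.cons (P.lf 0 15961359 0) (P.cons (P.lf 0 254046 0) (P.lf 84681 0 0)))) (P.cons (P.cons (P.lf 0 1724580 0) (P.cons (P.lf 0 1366653 0) (P.cons (P.lf 0 21747 0) (P.lf 7245 0 0)))) (P.cons (P.cons (P.lf 0 568806 0) (P.cons (P.lf 8550 0 0) (P.cons (P.lf 135 0 0) P.nil))) (P.cons (P.cons (P.lf 0 2340 0) (P.cons (P.lf 1548 0 0) P.nil)) (P.cons (P.cons (P.lf 468 0 0) P.nil) P.nil)))))) 954)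
 (EL.cons 8 (TM.mk (P.cons (P.cons (P.lf 0 64349925 0) (P.cons (P.lf 0 71366247 0) (P.cons (P.lf 0 1135890 0) (P.lf 378636 0 0)))) (P.cons (P.cons (P.lf 0 53748912 0) (P.cons (P.lf 10041396 0 0) (P.cons (P.lf 159819 0 0) (P.lf 0 53271 0)))) (P.cons (P.cons (P.lf 5816619 0 0) (P.cons (P.lf 0 76032 0) (P.cons (P.lf 0 1209 0) (P.lf 402 0 0)))) (P.cons (P.cons (P.lf 45969 0 0) (P.cons (P.lf 0 24729 0) (P.cons (P.lf 0 390 0) P.nil))) (P.cons (P.cons (P.lf 0 9033 0) (P.cons (P.lf 0 60 0) P.nil)) (P.cons (P.cons (P.lf 0 81 0) P.nil) P.nil)))))) 1116)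
 (EL.cons 11 (TM.mk (P.cons (P.cons (P.lf 2790370296 0 0) (P.cons (P.lf 103435221 0 0) (P.cons (P.lf 0 51252522 0) (P.cons (P.lf 0 465084 0) (P.lf 116271 0 0))))) (P.cons (P.cons (P.lf 60412977 0 0) (P.cons (P.lf 2239425 0 0) (P.cons (P.lf 0 1109643 0) (P.cons (P.lf 0 10068 0) (P.lf 2517 0 0))))) (P.cons (P.cons (P.lf 0 1966680 0) (P.cons (P.lf 0 72900 0) (P.cons (P.lf 36123 0 0) (P.cons (P.lf 327 0 0) P.nil)))) (P.cons (P.cons (P.lf 0 50541 0) (P.cons (P.lf 0 1872 0) (P.cons (P.lf 927 0 0) P.nil))) (P.cons (P.cons (P.lf 573 0 0) (P.cons (P.lf 21 0 0) P.nil)) (P.cons (P.cons (P.lf 18 0 0) P.nil) P.nil)))))) 369)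
 EL.nil)))
noncomputable def S212_219_438_512_22 : EL := (EL.cons 4 (TM.mk (P.cons (P.cons (P.lf 78410130 0 0) (P.cons (P.lf 60825435 0 0) (P.cons (P.lf 0 28015410 0) (P.cons (P.lf 0 1245324 0) (P.cons (P.lf 300195 0 0) (P.cons (P.lf 4893 0 0) P.nil)))))) (P.cons (P.cons (P.lf 71941416 0 0) (P.cons (P.lf 0 30165519 0) (P.cons (P.lf 0 9867 0) (P.cons (P.lf 175008 0 0) (P.cons (P.lf 0 4869 0) P.nil))))) (P.cons (P.cons (P.lf 0 1519866 0) (P.cons (P.lf 0 1323843 0) (P.cons (P.lf 171174 0 0) (P.cons (P.lf 13140 0 0) P.nil)))) (P.cons (P.cons (P.lf 0 470733 0) (P.cons (P.lf 105531 0 0) (P.cons (P.lf 4740 0 0) P.nil))) (P.cons (P.cons (P.lf 5763 0 0) (P.cons (P.lf 4869 0 0) P.nil)) (P.cons (P.cons (P.lf 1083 0 0) P.nil) P.nil)))))) 5364)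
 (EL.cons 8 (TM.mk (P.cons (P.cons (P.lf 0 17073792 0) (P.cons (P.lf 0 13244733 0) (P.cons (P.lf 6100350 0 0) (P.cons (P.lf 271170 0 0) (P.cons (P.lf 0 65367 0) (P.cons (P.lf 0 1065 0) P.nil)))))) (P.cons (P.cons (P.lf 0 14094414 0) (P.cons (P.lf 7787073 0 0) (P.cons (P.lf 0 559092 0) (P.cons (P.lf 0 63054 0) (P.cons (P.lf 7074 0 0) P.nil))))) (P.cons (P.cons (P.lf 1759287 0 0) (P.cons (P.lf 0 326043 0) (P.cons (P.lf 0 32865 0) (P.cons (P.lf 846 0 0) P.nil)))) (P.cons (P.cons (P.lf 60678 0 0) (P.cons (P.lf 0 44190 0) (P.cons (P.lf 2235 0 0) P.nil))) (P.cons (P.cons (P.lf 0 10023 0) (P.cons (P.lf 1089 0 0) P.nil)) (P.cons (P.cons (P.lf 0 54 0) P.nil) P.nil)))))) 1956)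
 (EL.cons 11 (TM.mk (P.cons (P.cons (P.lf 740361492 0 0) (P.cons (P.lf 0 219317730 0) (P.cons (P.lf 0 26673363 0) (P.cons (P.lf 5572623 0 0) (P.cons (P.lf 192645 0 0) (P.cons (P.lf 0 33672 0) P.nil)))))) (P.cons (P.cons (P.lf 8803293 0 0) (P.cons (P.lf 0 13029984 0) (P.cons (P.lf 0 869376 0) (P.cons (P.lf 306834 0 0) (P.cons (P.lf 9123 0 0) P.nil))))) (P.cons (P.cons (P.lf 0 4008243 0) (P.cons (P.lf 69339 0 0) (P.cons (P.lf 85167 0 0) (P.cons (P.lf 0 4362 0) P.nil)))) (P.cons (P.cons (P.lf 0 54543 0) (P.cons (P.lf 22488 0 0) (P.cons (P.lf 2298 0 0) P.nil))) (P.cons (P.cons (P.lf 6150 0 0) (P.cons (P.lf 312 0 0) P.nil)) (P.cons (P.cons (P.lf 108 0 0) P.nil) P.nil)))))) 4194)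
 EL.nil)))
noncomputable def S212_219_438_512_23 : EL := (EL.cons 4 (TM.mk (P.cons (P.cons (P.lf 0 90668499 0) (P.cons (P.lf 0 100554417 0) (P.cons (P.lf 0 1600455 0) (P.lf 533481 0 0)))) (P.cons (P.cons (P.lf 0 76713267 0) (P.cons (P.lf 13059717 0 0) (P.cons (P.lf 207861 0 0) (P.lf 0 69285 0)))) (P.cons (P.cons (P.lf 7413027 0 0) (P.cons (P.lf 87351 0 0) (P.cons (P.lf 1386 0 0) (P.lf 0 459 0)))) (P.cons (P.cons (P.lf 185034 0 0) (P.cons (P.lf 0 41358 0) (P.cons (P.lf 0 657 0) P.nil))) (P.cons (P.cons (P.lf 0 15072 0) (P.cons (P.lf 0 483 0) P.nil)) (P.cons (P.cons (P.lf 0 324 0) P.nil) P.nil)))))) 660)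
 (EL.cons 8 (TM.mk (P.cons (P.cons (P.lf 19743051 0 0) (P.cons (P.lf 21895710 0 0) (P.cons (P.lf 348498 0 0) (P.lf 0 116166 0)))) (P.cons (P.cons (P.lf 14887908 0 0) (P.cons (P.lf 0 4858191 0) (P.cons (P.lf 0 77322 0) (P.lf 25773 0 0)))) (P.cons (P.cons (P.lf 0 3136104 0) (P.cons (P.lf 259131 0 0) (P.cons (P.lf 4122 0 0) (P.lf 0 1374 0)))) (P.cons (P.cons (P.lf 120303 0 0) (P.cons (P.lf 8028 0 0) (P.cons (P.lf 126 0 0) P.nil))) (P.cons (P.cons (P.lf 5331 0 0) (P.cons (P.lf 0 651 0) P.nil)) (P.cons (P.cons (P.lf 0 213 0) P.nil) P.nil)))))) 474)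
 (EL.cons 11 (TM.mk (P.cons (P.cons (P.lf 0 856107045 0) (P.cons (P.lf 0 31734720 0) (P.cons (P.lf 15724665 0 0) (P.cons (P.lf 142689 0 0) (P.lf 0 35670 0))))) (P.cons (P.cons (P.lf 50960568 0 0) (P.cons (P.lf 1889037 0 0) (P.cons (P.lf 0 936024 0) (P.cons (P.lf 0 8493 0) (P.lf 2121 0 0))))) (P.cons (P.cons (P.lf 2666355 0 0) (P.cons (P.lf 98835 0 0) (P.cons (P.lf 0 48972 0) (P.cons (P.lf 0 444 0) P.nil)))) (P.cons (P.cons (P.lf 0 34203 0) (P.cons (P.lf 0 1266 0) (P.cons (P.lf 627 0 0) P.nil))) (P.cons (P.cons (P.lf 0 2295 0) (P.cons (P.lf 0 84 0) P.nil)) (P.cons (P.cons (P.lf 3 0 0) P.nil) P.nil)))))) 354)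
 EL.nil)))
noncomputable def S212_219_438_512_24 : EL := (EL.cons 4 (TM.mk (P.cons (P.cons (P.lf 0 24056829 0) (P.cons (P.lf 0 18661710 0) (P.cons (P.lf 8595342 0 0) (P.cons (P.lf 382074 0 0) (P.cons (P.lf 0 92100 0) (P.cons (P.lf 0 1500 0) P.nil)))))) (P.cons (P.cons (P.lf 0 20119329 0) (P.cons (P.lf 10769904 0 0) (P.cons (P.lf 0 694710 0) (P.cons (P.lf 0 84708 0) (P.cons (P.lf 8970 0 0) P.nil))))) (P.cons (P.cons (P.lf 2273736 0 0) (P.cons (P.lf 0 332952 0) (P.cons (P.lf 0 58368 0) (P.cons (P.lf 75 0 0) P.nil)))) (P.cons (P.cons (P.lf 120606 0 0) (P.cons (P.lf 0 71664 0) (P.cons (P.lf 2934 0 0) P.nil))) (P.cons (P.cons (P.lf 0 14130 0) (P.cons (P.lf 1002 0 0) P.nil)) (P.cons (P.cons (P.lf 0 279 0) P.nil) P.nil)))))) 2844)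
 (EL.cons 8 (TM.mk (P.cons (P.cons (P.lf 5238369 0 0) (P.cons (P.lf 4063584 0 0) (P.cons (P.lf 0 1871634 0) (P.cons (P.lf 0 83196 0) (P.cons (P.lf 20055 0 0) (P.cons (P.lf 327 0 0) P.nil)))))) (P.cons (P.cons (P.lf 3899040 0 0) (P.cons (P.lf 0 2718999 0) (P.cons (P.lf 323466 0 0) (P.cons (P.lf 26097 0 0) (P.cons (P.lf 0 3798 0) P.nil))))) (P.cons (P.cons (P.lf 0 894207 0) (P.cons (P.lf 291324 0 0) (P.cons (P.lf 0 2619 0) (P.cons (P.lf 0 1776 0) P.nil)))) (P.cons (P.cons (P.lf 22455 0 0) (P.cons (P.lf 7056 0 0) (P.cons (P.lf 0 1644 0) P.nil))) (P.cons (P.cons (P.lf 5004 0 0) (P.cons (P.lf 0 1533 0) P.nil)) (P.cons (P.cons (P.lf 0 225 0) P.nil) P.nil)))))) 948)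
 (EL.cons 11 (TM.mk (P.cons (P.cons (P.lf 0 227148594 0) (P.cons (P.lf 67288362 0 0) (P.cons (P.lf 8183592 0 0) (P.cons (P.lf 0 1709721 0) (P.cons (P.lf 0 59103 0) (P.cons (P.lf 10329 0 0) P.nil)))))) (P.cons (P.cons (P.lf 15738198 0 0) (P.cons (P.lf 0 1464531 0) (P.cons (P.lf 0 397581 0) (P.cons (P.lf 44649 0 0) (P.cons (P.lf 1998 0 0) P.nil))))) (P.cons (P.cons (P.lf 1597155 0 0) (P.cons (P.lf 0 389676 0) (P.cons (P.lf 0 53118 0) (P.cons (P.lf 10092 0 0) P.nil)))) (P.cons (P.cons (P.lf 0 84729 0) (P.cons (P.lf 0 6771 0) (P.cons (P.lf 1362 0 0) P.nil))) (P.cons (P.cons (P.lf 0 4137 0) (P.cons (P.lf 552 0 0) P.nil)) (P.cons (P.cons (P.lf 123 0 0) P.nil) P.nil)))))) 2094)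
 EL.nil)))
noncomputable def S212_219_438_512_25 : EL := (EL.cons 4 (TM.mk (P.cons (P.cons (P.lf 27817791 0 0) (P.cons (P.lf 30850866 0 0) (P.cons (P.lf 491031 0 0) (P.lf 0 163674 0)))) (P.cons (P.cons (P.lf 21278070 0 0) (P.cons (P.lf 0 6511185 0) (P.cons (P.lf 0 103632 0) (P.lf 34542 0 0)))) (P.cons (P.cons (P.lf 0 4203102 0) (P.cons (P.lf 278337 0 0) (P.cons (P.lf 4428 0 0) (P.lf 0 1476 0)))) (P.cons (P.cons (P.lf 112920 0 0) (P.cons (P.lf 17940 0 0) (P.cons (P.lf 285 0 0) P.nil))) (P.cons (P.cons (P.lf 11073 0 0) (P.cons (P.lf 0 915 0) P.nil)) (P.cons (P.cons (P.lf 0 264 0) P.nil) P.nil)))))) 432)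
 (EL.cons 8 (TM.mk (P.cons (P.cons (P.lf 0 6057318 0) (P.cons (P.lf 0 6717771 0) (P.cons (P.lf 0 106920 0) (P.lf 35640 0 0)))) (P.cons (P.cons (P.lf 0 4076010 0) (P.cons (P.lf 2035854 0 0) (P.cons (P.lf 32403 0 0) (P.lf 0 10800 0)))) (P.cons (P.cons (P.lf 1336923 0 0) (P.cons (P.lf 0 196116 0) (P.cons (P.lf 0 3120 0) (P.lf 1038 0 0)))) (P.cons (P.cons (P.lf 0 112128 0) (P.cons (P.lf 2916 0 0) (P.cons (P.lf 45 0 0) P.nil))) (P.cons (P.cons (P.lf 663 0 0) (P.cons (P.lf 471 0 0) P.nil)) (P.cons (P.cons (P.lf 234 0 0) P.nil) P.nil)))))) 252)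
 (EL.cons 11 (TM.mk (P.cons (P.cons (P.lf 262660218 0 0) (P.cons (P.lf 9736455 0 0) (P.cons (P.lf 0 4824447 0) (P.cons (P.lf 0 43776 0) (P.lf 10944 0 0))))) (P.cons (P.cons (P.lf 0 36956919 0) (P.cons (P.lf 0 1369941 0) (P.cons (P.lf 678810 0 0) (P.cons (P.lf 6159 0 0) (P.lf 0 1539 0))))) (P.cons (P.cons (P.lf 279837 0 0) (P.cons (P.lf 10371 0 0) (P.cons (P.lf 0 5139 0) (P.cons (P.lf 0 45 0) P.nil)))) (P.cons (P.cons (P.lf 91029 0 0) (P.cons (P.lf 3372 0 0) (P.cons (P.lf 0 1671 0) P.nil))) (P.cons (P.cons (P.lf 210 0 0) (P.cons (P.lf 6 0 0) P.nil)) (P.cons (P.cons (P.lf 0 78 0) P.nil) P.nil)))))) 300)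
 EL.nil)))
noncomputable def S212_219_438_512_26 : EL := (EL.cons 4 (TM.mk (P.cons (P.cons (P.lf 7380819 0 0) (P.cons (P.lf 5725554 0 0) (P.cons (P.lf 0 2637117 0) (P.cons (P.lf 0 117222 0) (P.cons (P.lf 28257 0 0) (P.cons (P.lf 459 0 0) P.nil)))))) (P.cons (P.cons (P.lf 5573616 0 0) (P.cons (P.lf 0 3769068 0) (P.cons (P.lf 427212 0 0) (P.cons (P.lf 35505 0 0) (P.cons (P.lf 0 5046 0) P.nil))))) (P.cons (P.cons (P.lf 0 1203495 0) (P.cons (P.lf 366648 0 0) (P.cons (P.lf 2325 0 0) (P.cons (P.lf 0 2055 0) P.nil)))) (P.cons (P.cons (P.lf 15708 0 0) (P.cons (P.lf 15933 0 0) (P.cons (P.lf 0 2532 0) P.nil))) (P.cons (P.cons (P.lf 7887 0 0) (P.cons (P.lf 0 2205 0) P.nil)) (P.cons (P.cons (P.lf 0 249 0) P.nil) P.nil)))))) 1158)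
 (EL.cons 8 (TM.mk (P.cons (P.cons (P.lf 0 1607172 0) (P.cons (P.lf 0 1246737 0) (P.cons (P.lf 574230 0 0) (P.cons (P.lf 25524 0 0) (P.cons (P.lf 0 6153 0) (P.cons (P.lf 0 99 0) P.nil)))))) (P.cons (P.cons (P.lf 0 1065789 0) (P.cons (P.lf 935415 0 0) (P.cons (P.lf 0 145854 0) (P.cons (P.lf 0 10077 0) (P.cons (P.lf 1662 0 0) P.nil))))) (P.cons (P.cons (P.lf 372504 0 0) (P.cons (P.lf 0 156285 0) (P.cons (P.lf 8484 0 0) (P.cons (P.lf 1176 0 0) P.nil)))) (P.cons (P.cons (P.lf 0 28404 0) (P.cons (P.lf 4527 0 0) (P.cons (P.lf 510 0 0) P.nil))) (P.cons (P.cons (P.lf 0 1173 0) (P.cons (P.lf 717 0 0) P.nil)) (P.cons (P.cons (P.lf 201 0 0) P.nil) P.nil)))))) 510)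
 (EL.cons 11 (TM.mk (P.cons (P.cons (P.lf 69690933 0 0) (P.cons (P.lf 0 20644587 0) (P.cons (P.lf 0 2510787 0) (P.cons (P.lf 524556 0 0) (P.cons (P.lf 18132 0 0) (P.cons (P.lf 0 3168 0) P.nil)))))) (P.cons (P.cons (P.lf 0 10485861 0) (P.cons (P.lf 2125182 0 0) (P.cons (P.lf 325797 0 0) (P.cons (P.lf 0 56280 0) (P.cons (P.lf 0 2085 0) P.nil))))) (P.cons (P.cons (P.lf 0 143502 0) (P.cons (P.lf 96543 0 0) (P.cons (P.lf 8031 0 0) (P.cons (P.lf 0 2325 0) P.nil)))) (P.cons (P.cons (P.lf 69966 0 0) (P.cons (P.lf 0 8229 0) (P.cons (P.lf 0 1857 0) P.nil))) (P.cons (P.cons (P.lf 0 576 0) (P.cons (P.lf 0 411 0) P.nil)) (P.cons (P.cons (P.lf 0 165 0) P.nil) P.nil)))))) 1254)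
 EL.nil)))
noncomputable def S212_219_438_512_27 : EL := (EL.cons 13 (TM.mk (P.lf 0 4294967296 0) 0)
 EL.nil)
noncomputable def S212_219_438_512_28 : EL := (EL.cons 13 (TM.mk (P.cons (P.cons (P.lf 0 1139572194 0) (P.cons (P.lf 379818544 0 0) (P.cons (P.lf 6045312 0 0) (P.lf 0 2015100 0)))) (P.cons (P.cons (P.lf 11122211 0 0) (P.cons (P.lf 12334904 0 0) (P.cons (P.lf 196324 0 0) (P.lf 0 65440 0)))) (P.cons (P.cons (P.lf 5125550 0 0) (P.cons (P.lf 0 334784 0) (P.cons (P.lf 0 5328 0) (P.lf 1776 0 0)))) (P.cons (P.cons (P.lf 0 39817 0) (P.cons (P.lf 0 14904 0) (P.cons (P.lf 0 236 0) P.nil))) (P.cons (P.cons (P.lf 0 4559 0) (P.cons (P.lf 100 0 0) P.nil)) (P.cons (P.cons (P.lf 0 1 0) P.nil) P.nil)))))) 411)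
 EL.nil)
noncomputable def S212_219_438_512_29 : EL := (EL.cons 13 (TM.mk (P.cons (P.cons (P.lf 0 302359644 0) (P.cons (P.lf 201552478 0 0) (P.cons (P.lf 0 30380670 0) (P.cons (P.lf 0 2138537 0) (P.cons (P.lf 347895 0 0) (P.cons (P.lf 5672 0 0) P.nil)))))) (P.cons (P.cons (P.lf 5902053 0 0) (P.cons (P.lf 4578424 0 0) (P.cons (P.lf 0 2108764 0) (P.cons (P.lf 0 93736 0) (P.cons (P.lf 22596 0 0) P.nil))))) (P.cons (P.cons (P.lf 2691094 0 0) (P.cons (P.lf 0 1148079 0) (P.cons (P.lf 5514 0 0) (P.cons (P.lf 6848 0 0) P.nil)))) (P.cons (P.cons (P.lf 0 47675 0) (P.cons (P.lf 0 28573 0) (P.cons (P.lf 4104 0 0) P.nil))) (P.cons (P.cons (P.lf 0 8329 0) (P.cons (P.lf 1964 0 0) P.nil)) (P.cons (P.cons (P.lf 118 0 0) P.nil) P.nil)))))) 3385)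
 EL.nil)
noncomputable def S212_219_438_512_30 : EL := (EL.cons 13 (TM.mk (P.cons (P.lf 1317728968 0 0) (P.cons (P.lf 0 106968568 0) (P.cons (P.lf 0 859412 0) (P.cons (P.lf 19728 0 0) (P.cons (P.lf 296 0 0) (P.cons (P.lf 0 0 0) P.nil)))))) 40)
 EL.nil)
noncomputable def S212_219_438_512_31 : EL := (EL.cons 13 (TM.mk (P.cons (P.cons (P.lf 349629505 0 0) (P.cons (P.lf 0 116531247 0) (P.cons (P.lf 0 1854748 0) (P.lf 618248 0 0)))) (P.cons (P.cons (P.lf 0 31794064 0) (P.cons (P.lf 5675150 0 0) (P.cons (P.lf 90328 0 0) (P.lf 0 30109 0)))) (P.cons (P.cons (P.lf 0 1523578 0) (P.cons (P.lf 485922 0 0) (P.cons (P.lf 7733 0 0) (P.lf 0 2577 0)))) (P.cons (P.cons (P.lf 147330 0 0) (P.cons (P.lf 0 3041 0) (P.cons (P.lf 0 48 0) P.nil))) (P.cons (P.cons (P.lf 1460 0 0) (P.cons (P.lf 0 551 0) P.nil)) (P.cons (P.cons (P.lf 0 145 0) P.nil) P.nil)))))) 255)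
 EL.nil)
noncomputable def S212_219_438_512_32 : EL := (EL.cons 13 (TM.mk (P.cons (P.cons (P.lf 92766262 0 0) (P.cons (P.lf 0 61837848 0) (P.cons (P.lf 9321022 0 0) (P.cons (P.lf 656119 0 0) (P.cons (P.lf 0 106736 0) (P.cons (P.lf 0 1740 0) P.nil)))))) (P.cons (P.cons (P.lf 0 9341231 0) (P.cons (P.lf 3615081 0 0) (P.cons (P.lf 0 109662 0) (P.cons (P.lf 0 24502 0) (P.cons (P.lf 1731 0 0) P.nil))))) (P.cons (P.cons (P.lf 0 739155 0) (P.cons (P.lf 506597 0 0) (P.cons (P.lf 0 60290 0) (P.cons (P.lf 0 4863 0) P.nil)))) (P.cons (P.cons (P.lf 84220 0 0) (P.cons (P.lf 0 19836 0) (P.cons (P.lf 0 1404 0) P.nil))) (P.cons (P.cons (P.lf 1900 0 0) (P.cons (P.lf 0 1578 0) P.nil)) (P.cons (P.cons (P.lf 0 265 0) P.nil) P.nil)))))) 2314)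
 EL.nil)
noncomputable def S212_219_438_512_33 : EL := (EL.cons 14 (TM.mk (P.lf 8589934592 0 0) 0)
 EL.nil)
noncomputable def S212_219_438_512_34 : EL := (EL.cons 14 (TM.mk (P.cons (P.cons (P.lf 2279144388 0 0) (P.cons (P.lf 0 759637088 0) (P.cons (P.lf 0 12090624 0) (P.lf 4030200 0 0)))) (P.cons (P.cons (P.lf 0 22244422 0) (P.cons (P.lf 0 24669808 0) (P.cons (P.lf 0 392648 0) (P.lf 130880 0 0)))) (P.cons (P.cons (P.lf 0 10251100 0) (P.cons (P.lf 669568 0 0) (P.cons (P.lf 10656 0 0) (P.lf 0 3552 0)))) (P.cons (P.cons (P.lf 79634 0 0) (P.cons (P.lf 29808 0 0) (P.cons (P.lf 472 0 0) P.nil))) (P.cons (P.cons (P.lf 9118 0 0) (P.cons (P.lf 0 200 0) P.nil)) (P.cons (P.cons (P.lf 2 0 0) P.nil) P.nil)))))) 822)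
 EL.nil)
noncomputable def S212_219_438_512_35 : EL := (EL.cons 14 (TM.mk (P.cons (P.cons (P.lf 604719288 0 0) (P.cons (P.lf 0 403104956 0) (P.cons (P.lf 60761340 0 0) (P.cons (P.lf 4277074 0 0) (P.cons (P.lf 0 695790 0) (P.cons (P.lf 0 11344 0) P.nil)))))) (P.cons (P.cons (P.lf 0 11804106 0) (P.cons (P.lf 0 9156848 0) (P.cons (P.lf 4217528 0 0) (P.cons (P.lf 187472 0 0) (P.cons (P.lf 0 45192 0) P.nil))))) (P.cons (P.cons (P.lf 0 5382188 0) (P.cons (P.lf 2296158 0 0) (P.cons (P.lf 0 11028 0) (P.cons (P.lf 0 13696 0) P.nil)))) (P.cons (P.cons (P.lf 95350 0 0) (P.cons (P.lf 57146 0 0) (P.cons (P.lf 0 8208 0) P.nil))) (P.cons (P.cons (P.lf 16658 0 0) (P.cons (P.lf 0 3928 0) P.nil)) (P.cons (P.cons (P.lf 0 236 0) P.nil) P.nil)))))) 6770)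
 EL.nil)
noncomputable def S212_219_438_512_36 : EL := (EL.cons 14 (TM.mk (P.cons (P.lf 0 2635457936 0) (P.cons (P.lf 213937136 0 0) (P.cons (P.lf 1718824 0 0) (P.cons (P.lf 0 39456 0) (P.cons (P.lf 0 592 0) (P.cons (P.lf 0 0 0) P.nil)))))) 80)
 EL.nil)
noncomputable def S212_219_438_512_37 : EL := (EL.cons 14 (TM.mk (P.cons (P.cons (P.lf 0 699259010 0) (P.cons (P.lf 233062494 0 0) (P.cons (P.lf 3709496 0 0) (P.lf 0 1236496 0)))) (P.cons (P.cons (P.lf 63588128 0 0) (P.cons (P.lf 0 11350300 0) (P.cons (P.lf 0 180656 0) (P.lf 60218 0 0)))) (P.cons (P.cons (P.lf 3047156 0 0) (P.cons (P.lf 0 971844 0) (P.cons (P.lf 0 15466 0) (P.lf 5154 0 0)))) (P.cons (P.cons (P.lf 0 294660 0) (P.cons (P.lf 6082 0 0) (P.cons (P.lf 96 0 0) P.nil))) (P.cons (P.cons (P.lf 0 2920 0) (P.cons (P.lf 1102 0 0) P.nil)) (P.cons (P.cons (P.lf 290 0 0) P.nil) P.nil)))))) 510)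
 EL.nil)
noncomputable def S212_219_438_512_38 : EL := (EL.cons 14 (TM.mk (P.cons (P.cons (P.lf 0 185532524 0) (P.cons (P.lf 123675696 0 0) (P.cons (P.lf 0 18642044 0) (P.cons (P.lf 0 1312238 0) (P.cons (P.lf 213472 0 0) (P.cons (P.lf 3480 0 0) P.nil)))))) (P.cons (P.cons (P.lf 18682462 0 0) (P.cons (P.lf 0 7230162 0) (P.cons (P.lf 219324 0 0) (P.cons (P.lf 49004 0 0) (P.cons (P.lf 0 3462 0) P.nil))))) (P.cons (P.cons (P.lf 1478310 0 0) (P.cons (P.lf 0 1013194 0) (P.cons (P.lf 120580 0 0) (P.cons (P.lf 9726 0 0) P.nil)))) (P.cons (P.cons (P.lf 0 168440 0) (P.cons (P.lf 39672 0 0) (P.cons (P.lf 2808 0 0) P.nil))) (P.cons (P.cons (P.lf 0 3800 0) (P.cons (P.lf 3156 0 0) P.nil)) (P.cons (P.cons (P.lf 530 0 0) P.nil) P.nil)))))) 4628)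
 EL.nil)
noncomputable def S212_219_438_512_39 : EL := (EL.cons 14 (TM.mk (P.cons (P.lf 808578744 0 0) (P.cons (P.lf 0 131275114 0) (P.cons (P.lf 4273526 0 0) (P.cons (P.lf 109826 0 0) (P.cons (P.lf 0 1258 0) (P.cons (P.lf 0 44 0) P.nil)))))) 66)
 EL.nil)
noncomputable def S212_219_438_512_40 : EL := (EL.cons 14 (TM.mk (P.cons (P.cons (P.lf 214538036 0 0) (P.cons (P.lf 0 71505364 0) (P.cons (P.lf 0 1138100 0) (P.lf 379366 0 0)))) (P.cons (P.cons (P.lf 0 36924762 0) (P.cons (P.lf 9286910 0 0) (P.cons (P.lf 147812 0 0) (P.lf 0 49270 0)))) (P.cons (P.cons (P.lf 508886 0 0) (P.cons (P.lf 62118 0 0) (P.cons (P.lf 988 0 0) (P.lf 0 328 0)))) (P.cons (P.cons (P.lf 182230 0 0) (P.cons (P.lf 0 29412 0) (P.cons (P.lf 0 468 0) P.nil))) (P.cons (P.cons (P.lf 0 6076 0) (P.cons (P.lf 0 344 0) P.nil)) (P.cons (P.cons (P.lf 0 238 0) P.nil) P.nil)))))) 388)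
 EL.nil)
noncomputable def S212_219_438_512_41 : EL := (EL.cons 14 (TM.mk (P.cons (P.cons (P.lf 56922802 0 0) (P.cons (P.lf 0 37944654 0) (P.cons (P.lf 5719522 0 0) (P.cons (P.lf 402604 0 0) (P.cons (P.lf 0 65494 0) (P.cons (P.lf 0 1066 0) P.nil)))))) (P.cons (P.cons (P.lf 0 10352714 0) (P.cons (P.lf 5298482 0 0) (P.cons (P.lf 0 531580 0) (P.cons (P.lf 0 47716 0) (P.cons (P.lf 6378 0 0) P.nil))))) (P.cons (P.cons (P.lf 0 25384 0) (P.cons (P.lf 155532 0 0) (P.cons (P.lf 0 35262 0) (P.cons (P.lf 0 2026 0) P.nil)))) (P.cons (P.cons (P.lf 93086 0 0) (P.cons (P.lf 0 39420 0) (P.cons (P.lf 2270 0 0) P.nil))) (P.cons (P.cons (P.lf 0 2806 0) (P.cons (P.lf 0 158 0) P.nil)) (P.cons (P.cons (P.lf 0 298 0) P.nil) P.nil)))))) 2748)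
 EL.nil)
noncomputable def S212_219_438_512_42 : EL := (EL.cons 14 (TM.mk (P.cons (P.lf 0 248078170 0) (P.cons (P.lf 60414320 0 0) (P.cons (P.lf 0 4418836 0) (P.cons (P.lf 42756 0 0) (P.cons (P.lf 4522 0 0) (P.cons (P.lf 0 6 0) P.nil)))))) 46)
 EL.nil)
noncomputable def S212_219_438_512_43 : EL := (EL.cons 14 (TM.mk (P.cons (P.cons (P.lf 0 65821916 0) (P.cons (P.lf 21938394 0 0) (P.cons (P.lf 349178 0 0) (P.lf 0 116392 0)))) (P.cons (P.cons (P.lf 16671990 0 0) (P.cons (P.lf 0 4630176 0) (P.cons (P.lf 0 73694 0) (P.lf 24564 0 0)))) (P.cons (P.cons (P.lf 0 1032832 0) (P.cons (P.lf 197928 0 0) (P.cons (P.lf 3150 0 0) (P.lf 0 1050 0)))) (P.cons (P.cons (P.lf 0 51610 0) (P.cons (P.lf 12756 0 0) (P.cons (P.lf 202 0 0) P.nil))) (P.cons (P.cons (P.lf 6658 0 0) (P.cons (P.lf 0 650 0) P.nil)) (P.cons (P.cons (P.lf 0 40 0) P.nil) P.nil)))))) 264)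
 EL.nil)
noncomputable def S212_219_438_512_44 : EL := (EL.cons 14 (TM.mk (P.cons (P.cons (P.lf 0 17464352 0) (P.cons (P.lf 11641710 0 0) (P.cons (P.lf 0 1754792 0) (P.cons (P.lf 0 123522 0) (P.cons (P.lf 20094 0 0) (P.cons (P.lf 326 0 0) P.nil)))))) (P.cons (P.cons (P.lf 4593986 0 0) (P.cons (P.lf 0 2570646 0) (P.cons (P.lf 305540 0 0) (P.cons (P.lf 24666 0 0) (P.cons (P.lf 0 3588 0) P.nil))))) (P.cons (P.cons (P.lf 0 238660 0) (P.cons (P.lf 76650 0 0) (P.cons (P.lf 0 1274 0) (P.cons (P.lf 0 486 0) P.nil)))) (P.cons (P.cons (P.lf 0 31524 0) (P.cons (P.lf 17202 0 0) (P.cons (P.lf 0 1706 0) P.nil))) (P.cons (P.cons (P.lf 3216 0 0) (P.cons (P.lf 0 922 0) P.nil)) (P.cons (P.cons (P.lf 40 0 0) P.nil) P.nil)))))) 1522)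
 EL.nil)
noncomputable def S212_219_438_512_45 : EL := (EL.cons 14 (TM.mk (P.cons (P.cons (P.lf 160448552 0 0) (P.cons (P.lf 0 160432140 0) (P.cons (P.lf 50918420 0 0) (P.cons (P.lf 0 3387402 0) (P.cons (P.lf 0 837498 0) (P.cons (P.lf 81008 0 0) P.nil)))))) (P.cons (P.cons (P.lf 0 4697926 0) (P.cons (P.lf 0 2078526 0) (P.cons (P.lf 2918116 0 0) (P.cons (P.lf 0 473816 0) (P.cons (P.lf 0 58202 0) P.nil))))) (P.cons (P.cons (P.lf 0 2119136 0) (P.cons (P.lf 1671006 0 0) (P.cons (P.lf 0 285674 0) (P.cons (P.lf 0 21892 0) P.nil)))) (P.cons (P.cons (P.lf 58928 0 0) (P.cons (P.lf 24610 0 0) (P.cons (P.lf 0 20248 0) P.nil))) (P.cons (P.cons (P.lf 11128 0 0) (P.cons (P.lf 0 6664 0) P.nil)) (P.cons (P.cons (P.lf 0 280 0) P.nil) P.nil)))))) 25138)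
 EL.nil)
noncomputable def S212_219_438_512_46 : EL := (EL.cons 15 (TM.mk (P.lf 4294967296 0 0) 0)
 EL.nil)
noncomputable def S212_219_438_512_47 : EL := (EL.cons 15 (TM.mk (P.cons (P.cons (P.lf 1139572194 0 0) (P.cons (P.lf 0 379818544 0) (P.cons (P.lf 0 6045312 0) (P.lf 2015100 0 0)))) (P.cons (P.cons (P.lf 0 11122211 0) (P.cons (P.lf 0 12334904 0) (P.cons (P.lf 0 196324 0) (P.lf 65440 0 0)))) (P.cons (P.cons (P.lf 0 5125550 0) (P.cons (P.lf 334784 0 0) (P.cons (P.lf 5328 0 0) (P.lf 0 1776 0)))) (P.cons (P.cons (P.lf 39817 0 0) (P.cons (P.lf 14904 0 0) (P.cons (P.lf 236 0 0) P.nil))) (P.cons (P.cons (P.lf 4559 0 0) (P.cons (P.lf 0 100 0) P.nil)) (P.cons (P.cons (P.lf 1 0 0) P.nil) P.nil)))))) 411)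
 EL.nil)
noncomputable def S212_219_438_512_48 : EL := (EL.cons 15 (TM.mk (P.cons (P.cons (P.lf 302359644 0 0) (P.cons (P.lf 0 201552478 0) (P.cons (P.lf 30380670 0 0) (P.cons (P.lf 2138537 0 0) (P.cons (P.lf 0 347895 0) (P.cons (P.lf 0 5672 0) P.nil)))))) (P.cons (P.cons (P.lf 0 5902053 0) (P.cons (P.lf 0 4578424 0) (P.cons (P.lf 2108764 0 0) (P.cons (P.lf 93736 0 0) (P.cons (P.lf 0 22596 0) P.nil))))) (P.cons (P.cons (P.lf 0 2691094 0) (P.cons (P.lf 1148079 0 0) (P.cons (P.lf 0 5514 0) (P.cons (P.lf 0 6848 0) P.nil)))) (P.cons (P.cons (P.lf 47675 0 0) (P.cons (P.lf 28573 0 0) (P.cons (P.lf 0 4104 0) P.nil))) (P.cons (P.cons (P.lf 8329 0 0) (P.cons (P.lf 0 1964 0) P.nil)) (P.cons (P.cons (P.lf 0 118 0) P.nil) P.nil)))))) 3385)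
 EL.nil)
noncomputable def S212_219_438_512 : SL := (SL.cons S212_219_438_512_0 (SL.cons S212_219_438_512_1 (SL.cons S212_219_438_512_2 (SL.cons S212_219_438_512_3 (SL.cons S212_219_438_512_4 (SL.cons S212_219_438_512_5 (SL.cons S212_219_438_512_6 (SL.cons S212_219_438_512_7 (SL.cons S212_219_438_512_8 (SL.cons S212_219_438_512_9 (SL.cons S212_219_438_512_10 (SL.cons S212_219_438_512_11 (SL.cons S212_219_438_512_12 (SL.cons S212_219_438_512_13 (SL.cons S212_219_438_512_14 (SL.cons S212_219_438_512_15 (SL.cons S212_219_438_512_16 (SL.cons S212_219_438_512_17 (SL.cons S212_219_438_512_18 (SL.cons S212_219_438_512_19 (SL.cons S212_219_438_512_20 (SL.cons S212_219_438_512_21 (SL.cons S212_219_438_512_22 (SL.cons S212_219_438_512_23 (SL.cons S212_219_438_512_24 (SL.cons S212_219_438_512_25 (SL.cons S212_219_438_512_26 (SL.cons S212_219_438_512_27 (SL.cons S212_219_438_512_28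 (SL.cons S212_219_438_512_29 (SL.cons S212_219_438_512_30 (SL.cons S212_219_438_512_31 (SL.cons S212_219_438_512_32 (SL.cons S212_219_438_512_33 (SL.cons S212_219_438_512_34 (SL.cons S212_219_438_512_35 (SL.cons S212_219_438_512_36 (SL.cons S212_219_438_512_37 (SL.cons S212_219_438_512_38 (SL.cons S212_219_438_512_39 (SL.cons S212_219_438_512_40 (SL.cons S212_219_438_512_41 (SL.cons S212_219_438_512_42 (SL.cons S212_219_438_512_43 (SL.cons S212_219_438_512_44 (SL.cons S212_219_438_512_45 (SL.cons S212_219_438_512_46 (SL.cons S212_219_438_512_47 (SL.cons S212_219_438_512_48 SL.nil)))))))))))))))))))))))))))))))))))))))))))))))))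
noncomputable def S212_219_660_808_0 : EL := (EL.cons 0 (TM.mk (P.cons (P.lf 7745051952 0 0) (P.cons (P.lf 115378518 0 0) (P.cons (P.lf 0 3756028 0) (P.cons (P.lf 0 96526 0) (P.cons (P.lf 1105 0 0) (P.cons (P.lf 38 0 0) P.nil)))))) 65)
 (EL.cons 1 (TM.mk (P.cons (P.lf 0 1160417966 0) (P.cons (P.lf 81636789 0 0) (P.cons (P.lf 2253468 0 0) (P.cons (P.lf 0 42547 0) (P.cons (P.lf 0 1273 0) (P.cons (P.lf 3 0 0) P.nil)))))) 83)
 (EL.cons 5 (TM.mk (P.cons (P.lf 4547648156 0 0) (P.cons (P.lf 0 41023472 0) (P.cons (P.lf 1335476 0 0) (P.cons (P.lf 34320 0 0) (P.cons (P.lf 0 390 0) (P.cons (P.lf 0 14 0) P.nil)))))) 107)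
 (EL.cons 9 (TM.mk (P.lf 6442450944 0 0) 2)
 EL.nil))))
noncomputable def S212_219_660_808_1 : EL := (EL.cons 0 (TM.mk (P.cons (P.cons (P.lf 0 733523989 0) (P.cons (P.lf 0 439723450 0) (P.cons (P.lf 189613711 0 0) (P.lf 21068193 0 0)))) (P.cons (P.cons (P.lf 0 184938178 0) (P.cons (P.lf 0 50435085 0) (P.cons (P.lf 21748168 0 0) (P.lf 2416456 0 0)))) (P.cons (P.cons (P.lf 0 21810875 0) (P.cons (P.lf 390412 0 0) (P.cons (P.lf 0 168355 0) (P.lf 0 18708 0)))) (P.cons (P.cons (P.lf 362475 0 0) (P.cons (P.lf 117584 0 0) (P.cons (P.lf 0 50701 0) P.nil))) (P.cons (P.cons (P.lf 48633 0 0) (P.cons (P.lf 898 0 0) P.nil)) (P.cons (P.cons (P.lf 51 0 0) P.nil) P.nil)))))) 10439)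
 (EL.cons 1 (TM.mk (P.cons (P.cons (P.lf 1219119209 0 0) (P.cons (P.lf 209081867 0 0) (P.cons (P.lf 0 90158455 0) (P.lf 0 10017602 0)))) (P.cons (P.cons (P.lf 110142556 0 0) (P.cons (P.lf 0 4573109 0) (P.cons (P.lf 1971975 0 0) (P.lf 219106 0 0)))) (P.cons (P.cons (P.lf 0 4020931 0) (P.cons (P.lf 0 1376097 0) (P.cons (P.lf 593384 0 0) (P.lf 65923 0 0)))) (P.cons (P.cons (P.lf 0 617969 0) (P.cons (P.lf 0 7488 0) (P.cons (P.lf 3228 0 0) P.nil))) (P.cons (P.cons (P.lf 1764 0 0) (P.cons (P.lf 2131 0 0) P.nil)) (P.cons (P.cons (P.lf 879 0 0) P.nil) P.nil)))))) 5564)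
 (EL.cons 5 (TM.mk (P.cons (P.cons (P.lf 0 1650326545 0) (P.cons (P.lf 0 415644542 0) (P.cons (P.lf 179230614 0 0) (P.lf 19914516 0 0)))) (P.cons (P.cons (P.lf 0 78132028 0) (P.cons (P.lf 0 643378 0) (P.cons (P.lf 277434 0 0) (P.lf 30832 0 0)))) (P.cons (P.cons (P.lf 2433649 0 0) (P.cons (P.lf 365360 0 0) (P.cons (P.lf 0 157550 0) (P.lf 0 17504 0)))) (P.cons (P.cons (P.lf 89851 0 0) (P.cons (P.lf 0 19354 0) (P.cons (P.lf 8348 0 0) P.nil))) (P.cons (P.cons (P.lf 0 10559 0) (P.cons (P.lf 0 472 0) P.nil)) (P.cons (P.cons (P.lf 0 99 0) P.nil) P.nil)))))) 7039)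
 (EL.cons 9 (TM.mk (P.cons (P.cons (P.lf 0 1686295651 0) (P.cons (P.lf 0 504697638 0) (P.cons (P.lf 217631310 0 0) (P.lf 24181254 0 0)))) (P.cons (P.cons (P.lf 0 126959836 0) (P.cons (P.lf 0 16390446 0) (P.cons (P.lf 7067742 0 0) (P.lf 785304 0 0)))) (P.cons (P.cons (P.lf 0 4695285 0) (P.cons (P.lf 444852 0 0) (P.cons (P.lf 0 191826 0) (P.lf 0 21312 0)))) (P.cons (P.cons (P.lf 192985 0 0) (P.cons (P.lf 19800 0 0) (P.cons (P.lf 0 8538 0) P.nil))) (P.cons (P.cons (P.lf 5938 0 0) (P.cons (P.lf 0 132 0) P.nil)) (P.cons (P.cons (P.lf 0 63 0) P.nil) P.nil)))))) 1853)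
 (EL.cons 2 (TM.mk (P.cons (P.cons (P.lf 322920815 0 0) (P.cons (P.lf 0 300830613 0) (P.cons (P.lf 0 30875006 0) (P.cons (P.lf 6421140 0 0) (P.lf 535095 0 0))))) (P.cons (P.cons (P.lf 0 19222163 0) (P.cons (P.lf 17907221 0 0) (P.cons (P.lf 1837861 0 0) (P.cons (P.lf 0 382224 0) (P.lf 0 31851 0))))) (P.cons (P.cons (P.lf 0 1005738 0) (P.cons (P.lf 936939 0 0) (P.cons (P.lf 96159 0 0) (P.cons (P.lf 0 19996 0) P.nil)))) (P.cons (P.cons (P.lf 12900 0 0) (P.cons (P.lf 0 12017 0) (P.cons (P.lf 0 1231 0) P.nil))) (P.cons (P.cons (P.lf 866 0 0) (P.cons (P.lf 0 804 0) P.nil)) (P.cons (P.cons (P.lf 0 0 0) P.nil) P.nil)))))) 2681)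
 (EL.cons 6 (TM.mk (P.cons (P.cons (P.lf 527285235 0 0) (P.cons (P.lf 0 491214978 0) (P.cons (P.lf 0 50414634 0) (P.cons (P.lf 10484841 0 0) (P.lf 873735 0 0))))) (P.cons (P.cons (P.lf 17124000 0 0) (P.cons (P.lf 0 15952590 0) (P.cons (P.lf 0 1637253 0) (P.cons (P.lf 340500 0 0) (P.lf 28374 0 0))))) (P.cons (P.cons (P.lf 0 464766 0) (P.cons (P.lf 432972 0 0) (P.cons (P.lf 44436 0 0) (P.cons (P.lf 0 9240 0) P.nil)))) (P.cons (P.cons (P.lf 0 20694 0) (P.cons (P.lf 19278 0 0) (P.cons (P.lf 1977 0 0) P.nil))) (P.cons (P.cons (P.lf 141 0 0) (P.cons (P.lf 0 129 0) P.nil)) (P.cons (P.cons (P.lf 9 0 0) P.nil) P.nil)))))) 1887)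
 EL.nil))))))
noncomputable def S212_219_660_808_2 : EL := (EL.cons 0 (TM.mk (P.cons (P.cons (P.lf 0 146631037 0) (P.cons (P.lf 27493938 0 0) (P.cons (P.lf 9507788 0 0) (P.cons (P.lf 0 19741654 0) (P.cons (P.lf 1925248 0 0) (P.cons (P.lf 882755 0 0) P.nil)))))) (P.cons (P.cons (P.lf 37919213 0 0) (P.cons (P.lf 37481083 0 0) (P.cons (P.lf 0 9818079 0) (P.cons (P.lf 0 7267168 0) (P.cons (P.lf 571719 0 0) P.nil))))) (P.cons (P.cons (P.lf 12880405 0 0) (P.cons (P.lf 4944468 0 0) (P.cons (P.lf 0 1986659 0) (P.cons (P.lf 0 362334 0) P.nil)))) (P.cons (P.cons (P.lf 751018 0 0) (P.cons (P.lf 35515 0 0) (P.cons (P.lf 0 36351 0) P.nil))) (P.cons (P.cons (P.lf 0 9318 0) (P.cons (P.lf 0 17487 0) P.nil)) (P.cons (P.cons (P.lf 0 3282 0) P.nil) P.nil)))))) 703318)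
 (EL.cons 1 (TM.mk (P.cons (P.cons (P.lf 0 558700598 0) (P.cons (P.lf 0 252874354 0) (P.cons (P.lf 83405131 0 0) (P.cons (P.lf 34225847 0 0) (P.cons (P.lf 0 2310375 0) (P.cons (P.lf 0 1059338 0) P.nil)))))) (P.cons (P.cons (P.lf 0 99330612 0) (P.cons (P.lf 0 27526360 0) (P.cons (P.lf 11483863 0 0) (P.cons (P.lf 1651572 0 0) (P.cons (P.lf 0 34773 0) P.nil))))) (P.cons (P.cons (P.lf 0 4116362 0) (P.cons (P.lf 587494 0 0) (P.cons (P.lf 0 36995 0) (P.cons (P.lf 0 214717 0) P.nil)))) (P.cons (P.cons (P.lf 326430 0 0) (P.cons (P.lf 188387 0 0) (P.cons (P.lf 0 73647 0) P.nil))) (P.cons (P.cons (P.lf 34541 0 0) (P.cons (P.lf 3908 0 0) P.nil)) (P.cons (P.cons (P.lf 328 0 0) P.nil) P.nil)))))) 336143)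
 (EL.cons 5 (TM.mk (P.cons (P.cons (P.lf 552370366 0 0) (P.cons (P.lf 289658666 0 0) (P.cons (P.lf 0 87690590 0) (P.cons (P.lf 0 45971974 0) (P.cons (P.lf 3353610 0 0) (P.cons (P.lf 1537685 0 0) P.nil)))))) (P.cons (P.cons (P.lf 61842171 0 0) (P.cons (P.lf 18941921 0 0) (P.cons (P.lf 0 7513239 0) (P.cons (P.lf 0 1472223 0) (P.cons (P.lf 59014 0 0) P.nil))))) (P.cons (P.cons (P.lf 1041559 0 0) (P.cons (P.lf 0 456080 0) (P.cons (P.lf 113215 0 0) (P.cons (P.lf 93816 0 0) P.nil)))) (P.cons (P.cons (P.lf 0 171790 0) (P.cons (P.lf 0 51431 0) (P.cons (P.lf 23568 0 0) P.nil))) (P.cons (P.cons (P.lf 0 4953 0) (P.cons (P.lf 2504 0 0) P.nil)) (P.cons (P.cons (P.lf 620 0 0) P.nil) P.nil)))))) 477995)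
 (EL.cons 9 (TM.mk (P.cons (P.cons (P.lf 441383728 0 0) (P.cons (P.lf 264206724 0 0) (P.cons (P.lf 0 74391214 0) (P.cons (P.lf 0 46756972 0) (P.cons (P.lf 3563076 0 0) (P.cons (P.lf 1633725 0 0) P.nil)))))) (P.cons (P.cons (P.lf 66462847 0 0) (P.cons (P.lf 28472227 0 0) (P.cons (P.lf 0 9709509 0) (P.cons (P.lf 0 3578901 0) (P.cons (P.lf 231426 0 0) P.nil))))) (P.cons (P.cons (P.lf 4959925 0 0) (P.cons (P.lf 1148778 0 0) (P.cons (P.lf 0 523365 0) (P.cons (P.lf 0 30894 0) P.nil)))) (P.cons (P.cons (P.lf 84030 0 0) (P.cons (P.lf 0 34243 0) (P.cons (P.lf 9400 0 0) P.nil))) (P.cons (P.cons (P.lf 0 7293 0) (P.cons (P.lf 0 3271 0) P.nil)) (P.cons (P.cons (P.lf 0 481 0) P.nil) P.nil)))))) 252181)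
 (EL.cons 2 (TM.mk (P.cons (P.cons (P.lf 0 169047450 0) (P.cons (P.lf 106888505 0 0) (P.cons (P.lf 85113742 0 0) (P.cons (P.lf 0 16424471 0) (P.cons (P.lf 0 5630428 0) (P.cons (P.lf 118209 0 0) P.nil)))))) (P.cons (P.cons (P.lf 0 2664736 0) (P.cons (P.lf 3851043 0 0) (P.cons (P.lf 0 1610347 0) (P.cons (P.lf 300369 0 0) (P.cons (P.lf 140310 0 0) P.nil))))) (P.cons (P.cons (P.lf 813420 0 0) (P.cons (P.lf 0 457796 0) (P.cons (P.lf 0 486585 0) (P.cons (P.lf 93622 0 0) P.nil)))) (P.cons (P.cons (P.lf 80246 0 0) (P.cons (P.lf 0 72331 0) (P.cons (P.lf 0 10974 0) P.nil))) (P.cons (P.cons (P.lf 0 50 0) (P.cons (P.lf 0 421 0) P.nil)) (P.cons (P.cons (P.lf 0 151 0) P.nil) P.nil)))))) 195338)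
 (EL.cons 6 (TM.mk (P.cons (P.cons (P.lf 0 276031218 0) (P.cons (P.lf 174534210 0 0) (P.cons (P.lf 138979026 0 0) (P.cons (P.lf 0 26818902 0) (P.cons (P.lf 0 9193716 0) (P.cons (P.lf 193020 0 0) P.nil)))))) (P.cons (P.cons (P.lf 0 29746494 0) (P.cons (P.lf 22345674 0 0) (P.cons (P.lf 10156824 0 0) (P.cons (P.lf 0 1976916 0) (P.cons (P.lf 0 616722 0) P.nil))))) (P.cons (P.cons (P.lf 0 1200186 0) (P.cons (P.lf 1176588 0 0) (P.cons (P.lf 35022 0 0) (P.cons (P.lf 0 8754 0) P.nil)))) (P.cons (P.cons (P.lf 35778 0 0) (P.cons (P.lf 0 22116 0) (P.cons (P.lf 0 18696 0) P.nil))) (P.cons (P.cons (P.lf 3414 0 0) (P.cons (P.lf 0 3078 0) P.nil)) (P.cons (P.cons (P.lf 12 0 0) P.nil) P.nil)))))) 267900)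
 EL.nil))))))
noncomputable def S212_219_660_808_3 : EL := (EL.cons 0 (TM.mk (P.cons (P.lf 710664911 0 0) (P.cons (P.lf 0 115378518 0) (P.cons (P.lf 3756028 0 0) (P.cons (P.lf 96526 0 0) (P.cons (P.lf 0 1105 0) (P.cons (P.lf 0 38 0) P.nil)))))) 65)
 (EL.cons 1 (TM.mk (P.cons (P.lf 1160417966 0 0) (P.cons (P.lf 0 81636789 0) (P.cons (P.lf 0 2253468 0) (P.cons (P.lf 42547 0 0) (P.cons (P.lf 1273 0 0) (P.cons (P.lf 0 3 0) P.nil)))))) 83)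
 (EL.cons 5 (TM.mk (P.cons (P.lf 1894802788 0 0) (P.cons (P.lf 41023472 0 0) (P.cons (P.lf 0 1335476 0) (P.cons (P.lf 0 34320 0) (P.cons (P.lf 390 0 0) (P.cons (P.lf 14 0 0) P.nil)))))) 100)
 EL.nil)))
noncomputable def S212_219_660_808_4 : EL := (EL.cons 0 (TM.mk (P.cons (P.cons (P.lf 0 186014787 0) (P.cons (P.lf 0 55673050 0) (P.cons (P.lf 24006846 0 0) (P.lf 2667425 0 0)))) (P.cons (P.cons (P.lf 16195137 0 0) (P.cons (P.lf 7230656 0 0) (P.cons (P.lf 0 3117939 0) (P.lf 0 346436 0)))) (P.cons (P.cons (P.lf 772669 0 0) (P.cons (P.lf 48364 0 0) (P.cons (P.lf 0 20854 0) (P.lf 0 2316 0)))) (P.cons (P.cons (P.lf 6090 0 0) (P.cons (P.lf 0 22899 0) (P.cons (P.lf 9873 0 0) P.nil))) (P.cons (P.cons (P.lf 0 7150 0) (P.cons (P.lf 0 267 0) P.nil)) (P.cons (P.cons (P.lf 0 38 0) P.nil) P.nil)))))) 1996)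
 (EL.cons 1 (TM.mk (P.cons (P.cons (P.lf 0 303736541 0) (P.cons (P.lf 0 90906427 0) (P.cons (P.lf 39199875 0 0) (P.lf 4355540 0 0)))) (P.cons (P.cons (P.lf 0 1499850 0) (P.cons (P.lf 3443118 0 0) (P.cons (P.lf 0 1484711 0) (P.lf 0 164966 0)))) (P.cons (P.cons (P.lf 1352917 0 0) (P.cons (P.lf 464356 0 0) (P.cons (P.lf 0 200235 0) (P.lf 0 22246 0)))) (P.cons (P.cons (P.lf 127528 0 0) (P.cons (P.lf 328 0 0) (P.cons (P.lf 0 140 0) P.nil))) (P.cons (P.cons (P.lf 0 903 0) (P.cons (P.lf 0 637 0) P.nil)) (P.cons (P.cons (P.lf 0 208 0) P.nil) P.nil)))))) 1537)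
 (EL.cons 5 (TM.mk (P.cons (P.cons (P.lf 0 495959958 0) (P.cons (P.lf 0 148437682 0) (P.cons (P.lf 64008000 0 0) (P.lf 7111998 0 0)))) (P.cons (P.cons (P.lf 0 48078216 0) (P.cons (P.lf 0 8034380 0) (P.cons (P.lf 3464514 0 0) (P.lf 384944 0 0)))) (P.cons (P.cons (P.lf 0 1839820 0) (P.cons (P.lf 131086 0 0) (P.cons (P.lf 0 56524 0) (P.lf 0 6280 0)))) (P.cons (P.cons (P.lf 62160 0 0) (P.cons (P.lf 14740 0 0) (P.cons (P.lf 0 6356 0) P.nil))) (P.cons (P.cons (P.lf 4522 0 0) (P.cons (P.lf 52 0 0) P.nil)) (P.cons (P.cons (P.lf 0 6 0) P.nil) P.nil)))))) 1250)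
 EL.nil)))
noncomputable def S212_219_660_808_5 : EL := (EL.cons 0 (TM.mk (P.cons (P.cons (P.lf 48688911 0 0) (P.cons (P.lf 29144566 0 0) (P.cons (P.lf 0 8206073 0) (P.cons (P.lf 0 5157747 0) (P.cons (P.lf 393041 0 0) (P.cons (P.lf 180214 0 0) P.nil)))))) (P.cons (P.cons (P.lf 0 573287 0) (P.cons (P.lf 0 1590941 0) (P.cons (P.lf 261226 0 0) (P.cons (P.lf 442587 0 0) (P.cons (P.lf 0 38281 0) P.nil))))) (P.cons (P.cons (P.lf 0 385829 0) (P.cons (P.lf 0 229153 0) (P.cons (P.lf 72783 0 0) (P.cons (P.lf 33426 0 0) P.nil)))) (P.cons (P.cons (P.lf 0 34196 0) (P.cons (P.lf 0 3791 0) (P.cons (P.lf 3633 0 0) P.nil))) (P.cons (P.cons (P.lf 1501 0 0) (P.cons (P.lf 1302 0 0) P.nil)) (P.cons (P.cons (P.lf 186 0 0) P.nil) P.nil)))))) 73391)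
 (EL.cons 1 (TM.mk (P.cons (P.cons (P.lf 79502289 0 0) (P.cons (P.lf 47589065 0 0) (P.cons (P.lf 0 13399387 0) (P.cons (P.lf 0 8421890 0) (P.cons (P.lf 641782 0 0) (P.cons (P.lf 294266 0 0) P.nil)))))) (P.cons (P.cons (P.lf 6378243 0 0) (P.cons (P.lf 1780485 0 0) (P.cons (P.lf 0 806218 0) (P.cons (P.lf 0 52141 0) (P.cons (P.lf 0 3463 0) P.nil))))) (P.cons (P.cons (P.lf 0 103200 0) (P.cons (P.lf 0 246286 0) (P.cons (P.lf 54787 0 0) (P.cons (P.lf 56139 0 0) P.nil)))) (P.cons (P.cons (P.lf 0 68047 0) (P.cons (P.lf 0 28938 0) (P.cons (P.lf 11227 0 0) P.nil))) (P.cons (P.cons (P.lf 0 3585 0) (P.cons (P.lf 0 315 0) P.nil)) (P.cons (P.cons (P.lf 20 0 0) P.nil) P.nil)))))) 83834)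
 (EL.cons 5 (TM.mk (P.cons (P.cons (P.lf 129816294 0 0) (P.cons (P.lf 77706394 0 0) (P.cons (P.lf 0 21879356 0) (P.cons (P.lf 0 13751790 0) (P.cons (P.lf 1047942 0 0) (P.cons (P.lf 480496 0 0) P.nil)))))) (P.cons (P.cons (P.lf 22358116 0 0) (P.cons (P.lf 10056410 0 0) (P.cons (P.lf 0 3329382 0) (P.cons (P.lf 0 1350330 0) (P.cons (P.lf 90752 0 0) P.nil))))) (P.cons (P.cons (P.lf 1790490 0 0) (P.cons (P.lf 464402 0 0) (P.cons (P.lf 0 200332 0) (P.cons (P.lf 0 22182 0) P.nil)))) (P.cons (P.cons (P.lf 40168 0 0) (P.cons (P.lf 0 10064 0) (P.cons (P.lf 1840 0 0) P.nil))) (P.cons (P.cons (P.lf 0 2964 0) (P.cons (P.lf 0 1552 0) P.nil)) (P.cons (P.cons (P.lf 0 226 0) P.nil) P.nil)))))) 90934)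
 EL.nil)))
noncomputable def S212_219_660_808_6 : EL := (EL.cons 12 (TM.mk (P.lf 8589934592 0 0) 0)
 (EL.cons 3 (TM.mk (P.cons (P.lf 0 1235370907 0) (P.cons (P.lf 100283032 0 0) (P.cons (P.lf 805698 0 0) (P.cons (P.lf 0 18495 0) (P.cons (P.lf 0 277 0) (P.cons (P.lf 0 0 0) P.nil)))))) 44)
 (EL.cons 7 (TM.mk (P.cons (P.lf 0 2017190622 0) (P.cons (P.lf 0 21836617 0) (P.cons (P.lf 829062 0 0) (P.cons (P.lf 9294 0 0) (P.cons (P.lf 0 138 0) (P.cons (P.lf 0 3 0) P.nil)))))) 46)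
 EL.nil)))
noncomputable def S212_219_660_808_7 : EL := (EL.cons 12 (TM.mk (P.cons (P.cons (P.lf 0 2248394202 0) (P.cons (P.lf 0 672930184 0) (P.cons (P.lf 290175080 0 0) (P.lf 32241672 0 0)))) (P.cons (P.cons (P.lf 0 169279782 0) (P.cons (P.lf 0 21853928 0) (P.cons (P.lf 9423656 0 0) (P.lf 1047072 0 0)))) (P.cons (P.cons (P.lf 0 6260380 0) (P.cons (P.lf 593136 0 0) (P.cons (P.lf 0 255768 0) (P.lf 0 28416 0)))) (P.cons (P.cons (P.lf 257314 0 0) (P.cons (P.lf 26400 0 0) (P.cons (P.lf 0 11384 0) P.nil))) (P.cons (P.cons (P.lf 7918 0 0) (P.cons (P.lf 0 176 0) P.nil)) (P.cons (P.cons (P.lf 0 84 0) P.nil) P.nil)))))) 2446)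
 (EL.cons 3 (TM.mk (P.cons (P.cons (P.lf 0 1925565819 0) (P.cons (P.lf 0 193556390 0) (P.cons (P.lf 83463696 0 0) (P.lf 9273742 0 0)))) (P.cons (P.cons (P.lf 0 180798271 0) (P.cons (P.lf 9426328 0 0) (P.cons (P.lf 0 4064738 0) (P.lf 0 451636 0)))) (P.cons (P.cons (P.lf 8583243 0 0) (P.cons (P.lf 807106 0 0) (P.cons (P.lf 0 348032 0) (P.lf 0 38668 0)))) (P.cons (P.cons (P.lf 396699 0 0) (P.cons (P.lf 0 5052 0) (P.cons (P.lf 2178 0 0) P.nil))) (P.cons (P.cons (P.lf 0 5195 0) (P.cons (P.lf 0 914 0) P.nil)) (P.cons (P.cons (P.lf 0 354 0) P.nil) P.nil)))))) 4738)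
 (EL.cons 7 (TM.mk (P.cons (P.cons (P.lf 1017696951 0 0) (P.cons (P.lf 221245790 0 0) (P.cons (P.lf 0 95403682 0) (P.lf 0 10600412 0)))) (P.cons (P.cons (P.lf 39368807 0 0) (P.cons (P.lf 0 2052577 0) (P.cons (P.lf 885092 0 0) (P.lf 98342 0 0)))) (P.cons (P.cons (P.lf 0 3679997 0) (P.cons (P.lf 0 81330 0) (P.cons (P.lf 35072 0 0) (P.lf 3898 0 0)))) (P.cons (P.cons (P.lf 38152 0 0) (P.cons (P.lf 11359 0 0) (P.cons (P.lf 0 4900 0) P.nil))) (P.cons (P.cons (P.lf 6123 0 0) (P.cons (P.lf 72 0 0) P.nil)) (P.cons (P.cons (P.lf 0 18 0) P.nil) P.nil)))))) 4558)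
 (EL.cons 10 (TM.mk (P.cons (P.cons (P.lf 0 1122686586 0) (P.cons (P.lf 1045886415 0 0) (P.cons (P.lf 107341968 0 0) (P.cons (P.lf 0 22324143 0) (P.lf 0 1860345 0))))) (P.cons (P.cons (P.lf 0 24306750 0) (P.cons (P.lf 22643988 0 0) (P.cons (P.lf 2324007 0 0) (P.cons (P.lf 0 483327 0) (P.lf 0 40275 0))))) (P.cons (P.cons (P.lf 791280 0 0) (P.cons (P.lf 0 737151 0) (P.cons (P.lf 0 75654 0) (P.cons (P.lf 15732 0 0) P.nil)))) (P.cons (P.cons (P.lf 20334 0 0) (P.cons (P.lf 0 18942 0) (P.cons (P.lf 0 1944 0) P.nil))) (P.cons (P.cons (P.lf 0 231 0) (P.cons (P.lf 213 0 0) P.nil)) (P.cons (P.cons (P.lf 0 6 0) P.nil) P.nil)))))) 2013)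
 EL.nil))))
noncomputable def S212_219_660_808_8 : EL := (EL.cons 12 (TM.mk (P.cons (P.cons (P.lf 588511638 0 0) (P.cons (P.lf 352275632 0 0) (P.cons (P.lf 0 99188286 0) (P.cons (P.lf 0 62342630 0) (P.cons (P.lf 4750768 0 0) (P.cons (P.lf 2178300 0 0) P.nil)))))) (P.cons (P.cons (P.lf 88617130 0 0) (P.cons (P.lf 37962970 0 0) (P.cons (P.lf 0 12946012 0) (P.cons (P.lf 0 4771868 0) (P.cons (P.lf 308568 0 0) P.nil))))) (P.cons (P.cons (P.lf 6613234 0 0) (P.cons (P.lf 1531704 0 0) (P.cons (P.lf 0 697820 0) (P.cons (P.lf 0 41192 0) P.nil)))) (P.cons (P.cons (P.lf 112040 0 0) (P.cons (P.lf 0 45658 0) (P.cons (P.lf 12534 0 0) P.nil))) (P.cons (P.cons (P.lf 0 9724 0) (P.cons (P.lf 0 4362 0) P.nil)) (P.cons (P.cons (P.lf 0 642 0) P.nil) P.nil)))))) 336212)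
 (EL.cons 3 (TM.mk (P.cons (P.cons (P.lf 1092661659 0 0) (P.cons (P.lf 453684001 0 0) (P.cons (P.lf 0 157725932 0) (P.cons (P.lf 0 54429539 0) (P.cons (P.lf 3416180 0 0) (P.cons (P.lf 1566370 0 0) P.nil)))))) (P.cons (P.cons (P.lf 176414333 0 0) (P.cons (P.lf 42166192 0 0) (P.cons (P.lf 0 18797585 0) (P.cons (P.lf 0 1489844 0) (P.cons (P.lf 0 55425 0) P.nil))))) (P.cons (P.cons (P.lf 5300660 0 0) (P.cons (P.lf 0 1458647 0) (P.cons (P.lf 377545 0 0) (P.cons (P.lf 286728 0 0) P.nil)))) (P.cons (P.cons (P.lf 0 465929 0) (P.cons (P.lf 0 224384 0) (P.cons (P.lf 92749 0 0) P.nil))) (P.cons (P.cons (P.lf 0 42922 0) (P.cons (P.lf 0 1488 0) P.nil)) (P.cons (P.cons (P.lf 57 0 0) P.nil) P.nil)))))) 482592)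
 (EL.cons 7 (TM.mk (P.cons (P.cons (P.lf 0 394558029 0) (P.cons (P.lf 0 192547028 0) (P.cons (P.lf 60743547 0 0) (P.cons (P.lf 28444381 0 0) (P.cons (P.lf 0 2008275 0) (P.cons (P.lf 0 920824 0) P.nil)))))) (P.cons (P.cons (P.lf 0 38414201 0) (P.cons (P.lf 0 9181690 0) (P.cons (P.lf 4093170 0 0) (P.cons (P.lf 324421 0 0) (P.cons (P.lf 12068 0 0) P.nil))))) (P.cons (P.cons (P.lf 612864 0 0) (P.cons (P.lf 739983 0 0) (P.cons (P.lf 0 270497 0) (P.cons (P.lf 0 77358 0) P.nil)))) (P.cons (P.cons (P.lf 162586 0 0) (P.cons (P.lf 27067 0 0) (P.cons (P.lf 0 14124 0) P.nil))) (P.cons (P.cons (P.lf 2171 0 0) (P.cons (P.lf 0 2865 0) P.nil)) (P.cons (P.cons (P.lf 0 643 0) P.nil) P.nil)))))) 221543)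
 (EL.cons 10 (TM.mk (P.cons (P.cons (P.lf 587720892 0 0) (P.cons (P.lf 0 371615226 0) (P.cons (P.lf 0 295911744 0) (P.cons (P.lf 57102342 0 0) (P.cons (P.lf 19575108 0 0) (P.cons (P.lf 0 410976 0) P.nil)))))) (P.cons (P.cons (P.lf 56973492 0 0) (P.cons (P.lf 0 43555200 0) (P.cons (P.lf 0 18422418 0) (P.cons (P.lf 3591078 0 0) (P.cons (P.lf 1101216 0 0) P.nil))))) (P.cons (P.cons (P.lf 2180220 0 0) (P.cons (P.lf 0 2186412 0) (P.cons (P.lf 3240 0 0) (P.cons (P.lf 3240 0 0) P.nil)))) (P.cons (P.cons (P.lf 0 73662 0) (P.cons (P.lf 51150 0 0) (P.cons (P.lf 30846 0 0) P.nil))) (P.cons (P.cons (P.lf 0 5358 0) (P.cons (P.lf 4932 0 0) P.nil)) (P.cons (P.cons (P.lf 6 0 0) P.nil) P.nil)))))) 536586)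
 EL.nil))))
noncomputable def S212_219_660_808_9 : EL := (EL.cons 3 (TM.mk (P.cons (P.lf 0 1235370907 0) (P.cons (P.lf 100283032 0 0) (P.cons (P.lf 805698 0 0) (P.cons (P.lf 0 18495 0) (P.cons (P.lf 0 277 0) (P.cons (P.lf 0 0 0) P.nil)))))) 44)
 (EL.cons 7 (TM.mk (P.cons (P.lf 0 2017190622 0) (P.cons (P.lf 0 21836617 0) (P.cons (P.lf 829062 0 0) (P.cons (P.lf 9294 0 0) (P.cons (P.lf 0 138 0) (P.cons (P.lf 0 3 0) P.nil)))))) 46)
 EL.nil))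
noncomputable def S212_219_660_808_10 : EL := (EL.cons 3 (TM.mk (P.cons (P.cons (P.lf 323355288 0 0) (P.cons (P.lf 96778195 0 0) (P.cons (P.lf 0 41731848 0) (P.lf 0 4636871 0)))) (P.cons (P.cons (P.lf 0 1903678 0) (P.cons (P.lf 0 4713164 0) (P.cons (P.lf 2032369 0 0) (P.lf 225818 0 0)))) (P.cons (P.cons (P.lf 0 1286799 0) (P.cons (P.lf 0 403553 0) (P.cons (P.lf 174016 0 0) (P.lf 19334 0 0)))) (P.cons (P.cons (P.lf 0 121128 0) (P.cons (P.lf 2526 0 0) (P.cons (P.lf 0 1089 0) P.nil))) (P.cons (P.cons (P.lf 1714 0 0) (P.cons (P.lf 457 0 0) P.nil)) (P.cons (P.cons (P.lf 147 0 0) P.nil) P.nil)))))) 1134)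
 (EL.cons 7 (TM.mk (P.cons (P.cons (P.lf 527994672 0 0) (P.cons (P.lf 158025470 0 0) (P.cons (P.lf 0 68142364 0) (P.lf 0 7571372 0)))) (P.cons (P.cons (P.lf 45467972 0 0) (P.cons (P.lf 6842666 0 0) (P.cons (P.lf 0 2950633 0) (P.lf 0 327847 0)))) (P.cons (P.cons (P.lf 1683460 0 0) (P.cons (P.lf 0 148680 0) (P.cons (P.lf 64112 0 0) (P.lf 7123 0 0)))) (P.cons (P.cons (P.lf 0 63281 0) (P.cons (P.lf 0 10544 0) (P.cons (P.lf 4547 0 0) P.nil))) (P.cons (P.cons (P.lf 0 3264 0) (P.cons (P.lf 18 0 0) P.nil)) (P.cons (P.cons (P.lf 21 0 0) P.nil) P.nil)))))) 906)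
 EL.nil))
noncomputable def S212_219_660_808_11 : EL := (EL.cons 3 (TM.mk (P.cons (P.cons (P.lf 0 84637449 0) (P.cons (P.lf 0 50662907 0) (P.cons (P.lf 14264872 0 0) (P.cons (P.lf 8965873 0 0) (P.cons (P.lf 0 683236 0) (P.cons (P.lf 0 313274 0) P.nil)))))) (P.cons (P.cons (P.lf 0 5874001 0) (P.cons (P.lf 0 1347050 0) (P.cons (P.lf 703873 0 0) (P.cons (P.lf 0 41546 0) (P.cons (P.lf 11085 0 0) P.nil))))) (P.cons (P.cons (P.lf 138668 0 0) (P.cons (P.lf 255955 0 0) (P.cons (P.lf 0 60083 0) (P.cons (P.lf 0 55632 0) P.nil)))) (P.cons (P.cons (P.lf 68137 0 0) (P.cons (P.lf 27250 0 0) (P.cons (P.lf 0 10949 0) P.nil))) (P.cons (P.cons (P.lf 3116 0 0) (P.cons (P.lf 144 0 0) P.nil)) (P.cons (P.cons (P.lf 0 27 0) P.nil) P.nil)))))) 83480)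
 (EL.cons 7 (TM.mk (P.cons (P.cons (P.lf 0 138201303 0) (P.cons (P.lf 0 82725554 0) (P.cons (P.lf 23292573 0 0) (P.cons (P.lf 14640037 0 0) (P.cons (P.lf 0 1115631 0) (P.cons (P.lf 0 511534 0) P.nil)))))) (P.cons (P.cons (P.lf 0 22306193 0) (P.cons (P.lf 0 9810442 0) (P.cons (P.lf 3292284 0 0) (P.cons (P.lf 1279069 0 0) (P.cons (P.lf 0 84538 0) P.nil))))) (P.cons (P.cons (P.lf 0 1721472 0) (P.cons (P.lf 0 422199 0) (P.cons (P.lf 187207 0 0) (P.cons (P.lf 15786 0 0) P.nil)))) (P.cons (P.cons (P.lf 0 33932 0) (P.cons (P.lf 10873 0 0) (P.cons (P.lf 0 2526 0) P.nil))) (P.cons (P.cons (P.lf 2723 0 0) (P.cons (P.lf 1323 0 0) P.nil)) (P.cons (P.cons (P.lf 191 0 0) P.nil) P.nil)))))) 87679)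
 EL.nil))
noncomputable def S212_219_660_808_12 : EL := (EL.cons 4 (TM.mk (P.cons (P.lf 1235370907 0 0) (P.cons (P.lf 0 100283032 0) (P.cons (P.lf 0 805698 0) (P.cons (P.lf 18495 0 0) (P.cons (P.lf 277 0 0) (P.cons (P.lf 0 0 0) P.nil)))))) 44)
 (EL.cons 8 (TM.mk (P.cons (P.lf 2017190622 0 0) (P.cons (P.lf 21836617 0 0) (P.cons (P.lf 0 829062 0) (P.cons (P.lf 0 9294 0) (P.cons (P.lf 138 0 0) (P.cons (P.lf 3 0 0) P.nil)))))) 46)
 EL.nil))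
noncomputable def S212_219_660_808_13 : EL := (EL.cons 4 (TM.mk (P.cons (P.cons (P.lf 0 323355288 0) (P.cons (P.lf 0 96778195 0) (P.cons (P.lf 41731848 0 0) (P.lf 4636871 0 0)))) (P.cons (P.cons (P.lf 1903678 0 0) (P.cons (P.lf 4713164 0 0) (P.cons (P.lf 0 2032369 0) (P.lf 0 225818 0)))) (P.cons (P.cons (P.lf 1286799 0 0) (P.cons (P.lf 403553 0 0) (P.cons (P.lf 0 174016 0) (P.lf 0 19334 0)))) (P.cons (P.cons (P.lf 121128 0 0) (P.cons (P.lf 0 2526 0) (P.cons (P.lf 1089 0 0) P.nil))) (P.cons (P.cons (P.lf 0 1714 0) (P.cons (P.lf 0 457 0) P.nil)) (P.cons (P.cons (P.lf 0 147 0) P.nil) P.nil)))))) 1134)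
 (EL.cons 8 (TM.mk (P.cons (P.cons (P.lf 0 527994672 0) (P.cons (P.lf 0 158025470 0) (P.cons (P.lf 68142364 0 0) (P.lf 7571372 0 0)))) (P.cons (P.cons (P.lf 0 45467972 0) (P.cons (P.lf 0 6842666 0) (P.cons (P.lf 2950633 0 0) (P.lf 327847 0 0)))) (P.cons (P.cons (P.lf 0 1683460 0) (P.cons (P.lf 148680 0 0) (P.cons (P.lf 0 64112 0) (P.lf 0 7123 0)))) (P.cons (P.cons (P.lf 63281 0 0) (P.cons (P.lf 10544 0 0) (P.cons (P.lf 0 4547 0) P.nil))) (P.cons (P.cons (P.lf 3264 0 0) (P.cons (P.lf 0 18 0) P.nil)) (P.cons (P.cons (P.lf 0 21 0) P.nil) P.nil)))))) 906)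
 EL.nil))
noncomputable def S212_219_660_808_14 : EL := (EL.cons 4 (TM.mk (P.cons (P.cons (P.lf 84637449 0 0) (P.cons (P.lf 50662907 0 0) (P.cons (P.lf 0 14264872 0) (P.cons (P.lf 0 8965873 0) (P.cons (P.lf 683236 0 0) (P.cons (P.lf 313274 0 0) P.nil)))))) (P.cons (P.cons (P.lf 5874001 0 0) (P.cons (P.lf 1347050 0 0) (P.cons (P.lf 0 703873 0) (P.cons (P.lf 41546 0 0) (P.cons (P.lf 0 11085 0) P.nil))))) (P.cons (P.cons (P.lf 0 138668 0) (P.cons (P.lf 0 255955 0) (P.cons (P.lf 60083 0 0) (P.cons (P.lf 55632 0 0) P.nil)))) (P.cons (P.cons (P.lf 0 68137 0) (P.cons (P.lf 0 27250 0) (P.cons (P.lf 10949 0 0) P.nil))) (P.cons (P.cons (P.lf 0 3116 0) (P.cons (P.lf 0 144 0) P.nil)) (P.cons (P.cons (P.lf 27 0 0) P.nil) P.nil)))))) 83480)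
 (EL.cons 8 (TM.mk (P.cons (P.cons (P.lf 138201303 0 0) (P.cons (P.lf 82725554 0 0) (P.cons (P.lf 0 23292573 0) (P.cons (P.lf 0 14640037 0) (P.cons (P.lf 1115631 0 0) (P.cons (P.lf 511534 0 0) P.nil)))))) (P.cons (P.cons (P.lf 22306193 0 0) (P.cons (P.lf 9810442 0 0) (P.cons (P.lf 0 3292284 0) (P.cons (P.lf 0 1279069 0) (P.cons (P.lf 84538 0 0) P.nil))))) (P.cons (P.cons (P.lf 1721472 0 0) (P.cons (P.lf 422199 0 0) (P.cons (P.lf 0 187207 0) (P.cons (P.lf 0 15786 0) P.nil)))) (P.cons (P.cons (P.lf 33932 0 0) (P.cons (P.lf 0 10873 0) (P.cons (P.lf 2526 0 0) P.nil))) (P.cons (P.cons (P.lf 0 2723 0) (P.cons (P.lf 0 1323 0) P.nil)) (P.cons (P.cons (P.lf 0 191 0) P.nil) P.nil)))))) 87679)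
 EL.nil))
noncomputable def S212_219_660_808_15 : EL := (EL.cons 4 (TM.mk (P.cons (P.lf 0 379021286 0) (P.cons (P.lf 61535209 0 0) (P.cons (P.lf 0 2003215 0) (P.cons (P.lf 0 51480 0) (P.cons (P.lf 589 0 0) (P.cons (P.lf 20 0 0) P.nil)))))) 37)
 (EL.cons 8 (TM.mk (P.cons (P.lf 0 618889582 0) (P.cons (P.lf 43539621 0 0) (P.cons (P.lf 1201850 0 0) (P.cons (P.lf 0 22692 0) (P.cons (P.lf 0 679 0) (P.cons (P.lf 2 0 0) P.nil)))))) 41)
 EL.nil))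
noncomputable def S212_219_660_808_16 : EL := (EL.cons 4 (TM.mk (P.cons (P.cons (P.lf 99207886 0 0) (P.cons (P.lf 29692293 0 0) (P.cons (P.lf 0 12803651 0) (P.lf 0 1422627 0)))) (P.cons (P.cons (P.lf 0 8637406 0) (P.cons (P.lf 0 3856350 0) (P.cons (P.lf 1662900 0 0) (P.lf 184766 0 0)))) (P.cons (P.cons (P.lf 0 412090 0) (P.cons (P.lf 0 25794 0) (P.cons (P.lf 11122 0 0) (P.lf 1235 0 0)))) (P.cons (P.cons (P.lf 0 3248 0) (P.cons (P.lf 12212 0 0) (P.cons (P.lf 0 5265 0) P.nil))) (P.cons (P.cons (P.lf 3813 0 0) (P.cons (P.lf 142 0 0) P.nil)) (P.cons (P.cons (P.lf 20 0 0) P.nil) P.nil)))))) 1073)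
 (EL.cons 8 (TM.mk (P.cons (P.cons (P.lf 161992822 0 0) (P.cons (P.lf 48483428 0 0) (P.cons (P.lf 0 20906600 0) (P.lf 0 2322955 0)))) (P.cons (P.cons (P.lf 799920 0 0) (P.cons (P.lf 0 1836330 0) (P.cons (P.lf 791846 0 0) (P.lf 87982 0 0)))) (P.cons (P.cons (P.lf 0 721556 0) (P.cons (P.lf 0 247657 0) (P.cons (P.lf 106792 0 0) (P.lf 11865 0 0)))) (P.cons (P.cons (P.lf 0 68015 0) (P.cons (P.lf 0 175 0) (P.cons (P.lf 75 0 0) P.nil))) (P.cons (P.cons (P.lf 482 0 0) (P.cons (P.lf 340 0 0) P.nil)) (P.cons (P.cons (P.lf 111 0 0) P.nil) P.nil)))))) 810)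
 EL.nil))
noncomputable def S212_219_660_808_17 : EL := (EL.cons 4 (TM.mk (P.cons (P.cons (P.lf 0 25967419 0) (P.cons (P.lf 0 15543768 0) (P.cons (P.lf 4376572 0 0) (P.cons (P.lf 2750798 0 0) (P.cons (P.lf 0 209622 0) (P.cons (P.lf 0 96114 0) P.nil)))))) (P.cons (P.cons (P.lf 305753 0 0) (P.cons (P.lf 848502 0 0) (P.cons (P.lf 0 139320 0) (P.cons (P.lf 0 236046 0) (P.cons (P.lf 20416 0 0) P.nil))))) (P.cons (P.cons (P.lf 205775 0 0) (P.cons (P.lf 122215 0 0) (P.cons (P.lf 0 38818 0) (P.cons (P.lf 0 17827 0) P.nil)))) (P.cons (P.cons (P.lf 18238 0 0) (P.cons (P.lf 2022 0 0) (P.cons (P.lf 0 1937 0) P.nil))) (P.cons (P.cons (P.lf 0 800 0) (P.cons (P.lf 0 694 0) P.nil)) (P.cons (P.cons (P.lf 0 99 0) P.nil) P.nil)))))) 39152)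
 (EL.cons 8 (TM.mk (P.cons (P.cons (P.lf 0 42401221 0) (P.cons (P.lf 0 25380835 0) (P.cons (P.lf 7146340 0 0) (P.cons (P.lf 4491675 0 0) (P.cons (P.lf 0 342284 0) (P.cons (P.lf 0 156942 0) P.nil)))))) (P.cons (P.cons (P.lf 0 3401730 0) (P.cons (P.lf 0 949592 0) (P.cons (P.lf 429983 0 0) (P.cons (P.lf 27809 0 0) (P.cons (P.lf 1847 0 0) P.nil))))) (P.cons (P.cons (P.lf 55040 0 0) (P.cons (P.lf 131353 0 0) (P.cons (P.lf 0 29220 0) (P.cons (P.lf 0 29941 0) P.nil)))) (P.cons (P.cons (P.lf 36292 0 0) (P.cons (P.lf 15434 0 0) (P.cons (P.lf 0 5988 0) P.nil))) (P.cons (P.cons (P.lf 1912 0 0) (P.cons (P.lf 168 0 0) P.nil)) (P.cons (P.cons (P.lf 0 11 0) P.nil) P.nil)))))) 44700)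
 EL.nil))
noncomputable def S212_219_660_808_18 : EL := (EL.cons 4 (TM.mk (P.cons (P.lf 116286642 0 0) (P.cons (P.lf 0 28319212 0) (P.cons (P.lf 2071329 0 0) (P.cons (P.lf 0 20041 0) (P.cons (P.lf 0 2119 0) (P.cons (P.lf 2 0 0) P.nil)))))) 28)
 (EL.cons 8 (TM.mk (P.cons (P.lf 189880079 0 0) (P.cons (P.lf 0 28772082 0) (P.cons (P.lf 591803 0 0) (P.cons (P.lf 48449 0 0) (P.cons (P.lf 0 273 0) (P.cons (P.lf 0 30 0) P.nil)))))) 28)
 EL.nil))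
noncomputable def S212_219_660_808_19 : EL := (EL.cons 4 (TM.mk (P.cons (P.cons (P.lf 0 30437741 0) (P.cons (P.lf 0 9109823 0) (P.cons (P.lf 3928258 0 0) (P.lf 436472 0 0)))) (P.cons (P.cons (P.lf 5120850 0 0) (P.cons (P.lf 1922660 0 0) (P.cons (P.lf 0 829072 0) (P.lf 0 92118 0)))) (P.cons (P.cons (P.lf 0 68835 0) (P.cons (P.lf 0 82188 0) (P.cons (P.lf 35440 0 0) (P.lf 3937 0 0)))) (P.cons (P.cons (P.lf 0 11450 0) (P.cons (P.lf 0 5296 0) (P.cons (P.lf 2283 0 0) P.nil))) (P.cons (P.cons (P.lf 0 1300 0) (P.cons (P.lf 270 0 0) P.nil)) (P.cons (P.cons (P.lf 90 0 0) P.nil) P.nil)))))) 742)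
 (EL.cons 8 (TM.mk (P.cons (P.cons (P.lf 0 49700642 0) (P.cons (P.lf 0 14875088 0) (P.cons (P.lf 6414305 0 0) (P.lf 712700 0 0)))) (P.cons (P.cons (P.lf 3789099 0 0) (P.cons (P.lf 1770907 0 0) (P.cons (P.lf 0 763634 0) (P.lf 0 84848 0)))) (P.cons (P.cons (P.lf 273715 0 0) (P.cons (P.lf 39949 0 0) (P.cons (P.lf 0 17226 0) (P.lf 0 1913 0)))) (P.cons (P.cons (P.lf 2312 0 0) (P.cons (P.lf 0 6703 0) (P.cons (P.lf 2890 0 0) P.nil))) (P.cons (P.cons (P.lf 0 2001 0) (P.cons (P.lf 0 152 0) P.nil)) (P.cons (P.cons (P.lf 0 32 0) P.nil) P.nil)))))) 644)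
 EL.nil))
noncomputable def S212_219_660_808_20 : EL := (EL.cons 4 (TM.mk (P.cons (P.cons (P.lf 7967003 0 0) (P.cons (P.lf 4768947 0 0) (P.cons (P.lf 0 1342765 0) (P.cons (P.lf 0 843965 0) (P.cons (P.lf 64313 0 0) (P.cons (P.lf 29488 0 0) P.nil)))))) (P.cons (P.cons (P.lf 0 740540 0) (P.cons (P.lf 0 647452 0) (P.cons (P.lf 151745 0 0) (P.cons (P.lf 140930 0 0) (P.cons (P.lf 0 11484 0) P.nil))))) (P.cons (P.cons (P.lf 0 60714 0) (P.cons (P.lf 0 19473 0) (P.cons (P.lf 9315 0 0) (P.cons (P.lf 140 0 0) P.nil)))) (P.cons (P.cons (P.lf 0 289 0) (P.cons (P.lf 2664 0 0) (P.cons (P.lf 0 420 0) P.nil))) (P.cons (P.cons (P.lf 741 0 0) (P.cons (P.lf 285 0 0) P.nil)) (P.cons (P.cons (P.lf 13 0 0) P.nil) P.nil)))))) 17538)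
 (EL.cons 8 (TM.mk (P.cons (P.cons (P.lf 13009020 0 0) (P.cons (P.lf 7787035 0 0) (P.cons (P.lf 0 2192552 0) (P.cons (P.lf 0 1378080 0) (P.cons (P.lf 105015 0 0) (P.cons (P.lf 48150 0 0) P.nil)))))) (P.cons (P.cons (P.lf 0 12348 0) (P.cons (P.lf 0 340781 0) (P.cons (P.lf 46061 0 0) (P.cons (P.lf 103335 0 0) (P.cons (P.lf 0 9091 0) P.nil))))) (P.cons (P.cons (P.lf 0 110093 0) (P.cons (P.lf 0 69028 0) (P.cons (P.lf 21103 0 0) (P.cons (P.lf 10777 0 0) P.nil)))) (P.cons (P.cons (P.lf 0 10249 0) (P.cons (P.lf 0 1537 0) (P.cons (P.lf 1162 0 0) P.nil))) (P.cons (P.cons (P.lf 346 0 0) (P.cons (P.lf 364 0 0) P.nil)) (P.cons (P.cons (P.lf 58 0 0) P.nil) P.nil)))))) 20727)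
 EL.nil))
noncomputable def S212_219_660_808_21 : EL := (EL.cons 4 (TM.mk (P.cons (P.cons (P.lf 2248921107 0 0) (P.cons (P.lf 290334585 0 0) (P.cons (P.lf 0 125195544 0) (P.lf 0 13910613 0)))) (P.cons (P.cons (P.lf 178894593 0 0) (P.cons (P.lf 0 14139492 0) (P.cons (P.lf 6097107 0 0) (P.lf 677454 0 0)))) (P.cons (P.cons (P.lf 0 9870042 0) (P.cons (P.lf 0 1210659 0) (P.cons (P.lf 522048 0 0) (P.lf 58002 0 0)))) (P.cons (P.cons (P.lf 0 517827 0) (P.cons (P.lf 7578 0 0) (P.cons (P.lf 0 3267 0) P.nil))) (P.cons (P.cons (P.lf 6909 0 0) (P.cons (P.lf 1371 0 0) P.nil)) (P.cons (P.cons (P.lf 501 0 0) P.nil) P.nil)))))) 3585)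
 (EL.cons 8 (TM.mk (P.cons (P.cons (P.lf 0 489702279 0) (P.cons (P.lf 0 63220320 0) (P.cons (P.lf 27261318 0 0) (P.lf 3029040 0 0)))) (P.cons (P.cons (P.lf 6099165 0 0) (P.cons (P.lf 8895243 0 0) (P.cons (P.lf 0 3835725 0) (P.lf 0 426189 0)))) (P.cons (P.cons (P.lf 5363457 0 0) (P.cons (P.lf 0 67350 0) (P.cons (P.lf 29040 0 0) (P.lf 3225 0 0)))) (P.cons (P.cons (P.lf 0 101433 0) (P.cons (P.lf 0 21903 0) (P.cons (P.lf 9447 0 0) P.nil))) (P.cons (P.cons (P.lf 0 9387 0) (P.cons (P.lf 0 54 0) P.nil)) (P.cons (P.cons (P.lf 39 0 0) P.nil) P.nil)))))) 3633)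
 (EL.cons 11 (TM.mk (P.cons (P.cons (P.lf 1122686586 0 0) (P.cons (P.lf 0 1045886415 0) (P.cons (P.lf 0 107341968 0) (P.cons (P.lf 22324143 0 0) (P.lf 1860345 0 0))))) (P.cons (P.cons (P.lf 24306750 0 0) (P.cons (P.lf 0 22643988 0) (P.cons (P.lf 0 2324007 0) (P.cons (P.lf 483327 0 0) (P.lf 40275 0 0))))) (P.cons (P.cons (P.lf 0 791280 0) (P.cons (P.lf 737151 0 0) (P.cons (P.lf 75654 0 0) (P.cons (P.lf 0 15732 0) P.nil)))) (P.cons (P.cons (P.lf 0 20334 0) (P.cons (P.lf 18942 0 0) (P.cons (P.lf 1944 0 0) P.nil))) (P.cons (P.cons (P.lf 231 0 0) (P.cons (P.lf 0 213 0) P.nil)) (P.cons (P.cons (P.lf 6 0 0) P.nil) P.nil)))))) 2013)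
 EL.nil)))
noncomputable def S212_219_660_808_22 : EL := (EL.cons 4 (TM.mk (P.cons (P.cons (P.lf 0 588649554 0) (P.cons (P.lf 0 252173454 0) (P.cons (P.lf 85995402 0 0) (P.cons (P.lf 31697706 0 0) (P.cons (P.lf 0 2049708 0) (P.cons (P.lf 0 939822 0) P.nil)))))) (P.cons (P.cons (P.lf 0 91144167 0) (P.cons (P.lf 0 21756621 0) (P.cons (P.lf 9750729 0 0) (P.cons (P.lf 724149 0 0) (P.cons (P.lf 33255 0 0) P.nil))))) (P.cons (P.cons (P.lf 0 2580996 0) (P.cons (P.lf 857301 0 0) (P.cons (P.lf 0 218814 0) (P.cons (P.lf 0 171180 0) P.nil)))) (P.cons (P.cons (P.lf 267033 0 0) (P.cons (P.lf 125817 0 0) (P.cons (P.lf 0 51849 0) P.nil))) (P.cons (P.cons (P.lf 23019 0 0) (P.cons (P.lf 816 0 0) P.nil)) (P.cons (P.cons (P.lf 0 42 0) P.nil) P.nil)))))) 199545)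
 (EL.cons 8 (TM.mk (P.cons (P.cons (P.lf 128178363 0 0) (P.cons (P.lf 54910737 0 0) (P.cons (P.lf 0 18725487 0) (P.cons (P.lf 0 6902172 0) (P.cons (P.lf 446322 0 0) (P.cons (P.lf 204645 0 0) P.nil)))))) (P.cons (P.cons (P.lf 8054004 0 0) (P.cons (P.lf 0 314376 0) (P.cons (P.lf 0 400443 0) (P.cons (P.lf 477324 0 0) (P.cons (P.lf 0 48303 0) P.nil))))) (P.cons (P.cons (P.lf 0 1167168 0) (P.cons (P.lf 0 581091 0) (P.cons (P.lf 228852 0 0) (P.cons (P.lf 46572 0 0) P.nil)))) (P.cons (P.cons (P.lf 0 98259 0) (P.cons (P.lf 0 8097 0) (P.cons (P.lf 5799 0 0) P.nil))) (P.cons (P.cons (P.lf 276 0 0) (P.cons (P.lf 2094 0 0) P.nil)) (P.cons (P.cons (P.lf 417 0 0) P.nil) P.nil)))))) 66921)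
 (EL.cons 11 (TM.mk (P.cons (P.cons (P.lf 0 293860446 0) (P.cons (P.lf 185807613 0 0) (P.cons (P.lf 147955872 0 0) (P.cons (P.lf 0 28551171 0) (P.cons (P.lf 0 9787554 0) (P.cons (P.lf 205488 0 0) P.nil)))))) (P.cons (P.cons (P.lf 0 28486746 0) (P.cons (P.lf 21777600 0 0) (P.cons (P.lf 9211209 0 0) (P.cons (P.lf 0 1795539 0) (P.cons (P.lf 0 550608 0) P.nil))))) (P.cons (P.cons (P.lf 0 1090110 0) (P.cons (P.lf 1093206 0 0) (P.cons (P.lf 0 1620 0) (P.cons (P.lf 0 1620 0) P.nil)))) (P.cons (P.cons (P.lf 36831 0 0) (P.cons (P.lf 0 25575 0) (P.cons (P.lf 0 15423 0) P.nil))) (P.cons (P.cons (P.lf 2679 0 0) (P.cons (P.lf 0 2466 0) P.nil)) (P.cons (P.cons (P.lf 0 3 0) P.nil) P.nil)))))) 268293)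
 EL.nil)))
noncomputable def S212_219_660_808_23 : EL := (EL.cons 4 (TM.mk (P.cons (P.cons (P.lf 0 689986275 0) (P.cons (P.lf 0 89076879 0) (P.cons (P.lf 38410953 0 0) (P.lf 4267881 0 0)))) (P.cons (P.cons (P.lf 1124403 0 0) (P.cons (P.lf 11569050 0 0) (P.cons (P.lf 0 4988703 0) (P.lf 0 554298 0)))) (P.cons (P.cons (P.lf 7933677 0 0) (P.cons (P.lf 77382 0 0) (P.cons (P.lf 0 33366 0) (P.lf 0 3705 0)))) (P.cons (P.cons (P.lf 0 61479 0) (P.cons (P.lf 0 36639 0) (P.cons (P.lf 15798 0 0) P.nil))) (P.cons (P.cons (P.lf 0 17967 0) (P.cons (P.lf 0 429 0) P.nil)) (P.cons (P.cons (P.lf 0 51 0) P.nil) P.nil)))))) 3219)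
 (EL.cons 8 (TM.mk (P.cons (P.cons (P.lf 150244419 0 0) (P.cons (P.lf 19396479 0 0) (P.cons (P.lf 0 8363979 0) (P.lf 0 929331 0)))) (P.cons (P.cons (P.lf 0 14067579 0) (P.cons (P.lf 0 4303665 0) (P.cons (P.lf 1855788 0 0) (P.lf 206196 0 0)))) (P.cons (P.cons (P.lf 0 1591632 0) (P.cons (P.lf 229554 0 0) (P.cons (P.lf 0 98985 0) (P.lf 0 10995 0)))) (P.cons (P.cons (P.lf 168168 0 0) (P.cons (P.lf 7110 0 0) (P.cons (P.lf 0 3066 0) P.nil))) (P.cons (P.cons (P.lf 1431 0 0) (P.cons (P.lf 0 576 0) P.nil)) (P.cons (P.cons (P.lf 0 291 0) P.nil) P.nil)))))) 1722)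
 (EL.cons 11 (TM.mk (P.cons (P.cons (P.lf 0 344448870 0) (P.cons (P.lf 320885988 0 0) (P.cons (P.lf 32933340 0 0) (P.cons (P.lf 0 6849216 0) (P.lf 0 570768 0))))) (P.cons (P.cons (P.lf 20503641 0 0) (P.cons (P.lf 0 19101036 0) (P.cons (P.lf 0 1960386 0) (P.cons (P.lf 407706 0 0) (P.lf 33975 0 0))))) (P.cons (P.cons (P.lf 1072788 0 0) (P.cons (P.lf 0 999402 0) (P.cons (P.lf 0 102570 0) (P.cons (P.lf 21330 0 0) P.nil)))) (P.cons (P.cons (P.lf 0 13761 0) (P.cons (P.lf 12819 0 0) (P.cons (P.lf 1314 0 0) P.nil))) (P.cons (P.cons (P.lf 0 924 0) (P.cons (P.lf 858 0 0) P.nil)) (P.cons (P.cons (P.lf 0 0 0) P.nil) P.nil)))))) 2838)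
 EL.nil)))
noncomputable def S212_219_660_808_24 : EL := (EL.cons 4 (TM.mk (P.cons (P.cons (P.lf 180602205 0 0) (P.cons (P.lf 77368752 0 0) (P.cons (P.lf 0 26384049 0) (P.cons (P.lf 0 9725100 0) (P.cons (P.lf 628866 0 0) (P.cons (P.lf 288345 0 0) P.nil)))))) (P.cons (P.cons (P.lf 13303083 0 0) (P.cons (P.lf 394575 0 0) (P.cons (P.lf 0 849834 0) (P.cons (P.lf 567273 0 0) (P.cons (P.lf 0 61251 0) P.nil))))) (P.cons (P.cons (P.lf 0 1595913 0) (P.cons (P.lf 0 855345 0) (P.cons (P.lf 327189 0 0) (P.cons (P.lf 76896 0 0) P.nil)))) (P.cons (P.cons (P.lf 0 161742 0) (P.cons (P.lf 0 20445 0) (P.cons (P.lf 12015 0 0) P.nil))) (P.cons (P.cons (P.lf 0 468 0) (P.cons (P.lf 3171 0 0) P.nil)) (P.cons (P.cons (P.lf 657 0 0) P.nil) P.nil)))))) 79725)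
 (EL.cons 8 (TM.mk (P.cons (P.cons (P.lf 0 39326106 0) (P.cons (P.lf 0 16847034 0) (P.cons (P.lf 5745123 0 0) (P.cons (P.lf 2117637 0 0) (P.cons (P.lf 0 136935 0) (P.cons (P.lf 0 62787 0) P.nil)))))) (P.cons (P.cons (P.lf 721323 0 0) (P.cons (P.lf 1464036 0 0) (P.cons (P.lf 0 343509 0) (P.cons (P.lf 0 318348 0) (P.cons (P.lf 25935 0 0) P.nil))))) (P.cons (P.cons (P.lf 584334 0 0) (P.cons (P.lf 181440 0 0) (P.cons (P.lf 0 83934 0) (P.cons (P.lf 0 3780 0) P.nil)))) (P.cons (P.cons (P.lf 2100 0 0) (P.cons (P.lf 0 12300 0) (P.cons (P.lf 3924 0 0) P.nil))) (P.cons (P.cons (P.lf 0 2811 0) (P.cons (P.lf 0 963 0) P.nil)) (P.cons (P.cons (P.lf 0 135 0) P.nil) P.nil)))))) 25893)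
 (EL.cons 11 (TM.mk (P.cons (P.cons (P.lf 90158640 0 0) (P.cons (P.lf 0 57007203 0) (P.cons (P.lf 0 45393996 0) (P.cons (P.lf 8759718 0 0) (P.cons (P.lf 3002895 0 0) (P.cons (P.lf 0 63045 0) P.nil)))))) (P.cons (P.cons (P.lf 1421193 0 0) (P.cons (P.lf 0 2053890 0) (P.cons (P.lf 858852 0 0) (P.cons (P.lf 0 160197 0) (P.cons (P.lf 0 74832 0) P.nil))))) (P.cons (P.cons (P.lf 0 433824 0) (P.cons (P.lf 244158 0 0) (P.cons (P.lf 259512 0 0) (P.cons (P.lf 0 49932 0) P.nil)))) (P.cons (P.cons (P.lf 0 42798 0) (P.cons (P.lf 38577 0 0) (P.cons (P.lf 5853 0 0) P.nil))) (P.cons (P.cons (P.lf 27 0 0) (P.cons (P.lf 225 0 0) P.nil)) (P.cons (P.cons (P.lf 81 0 0) P.nil) P.nil)))))) 104169)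
 EL.nil)))
noncomputable def S212_219_660_808_25 : EL := (EL.cons 4 (TM.mk (P.cons (P.cons (P.lf 211693089 0 0) (P.cons (P.lf 27329469 0 0) (P.cons (P.lf 0 11784774 0) (P.lf 0 1309419 0)))) (P.cons (P.cons (P.lf 0 17529471 0) (P.cons (P.lf 0 5767983 0) (P.cons (P.lf 2487219 0 0) (P.lf 276357 0 0)))) (P.cons (P.cons (P.lf 0 2544174 0) (P.cons (P.lf 246567 0 0) (P.cons (P.lf 0 106323 0) (P.lf 0 11811 0)))) (P.cons (P.cons (P.lf 219846 0 0) (P.cons (P.lf 15891 0 0) (P.cons (P.lf 0 6852 0) P.nil))) (P.cons (P.cons (P.lf 5610 0 0) (P.cons (P.lf 0 810 0) P.nil)) (P.cons (P.cons (P.lf 0 477 0) P.nil) P.nil)))))) 2394)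
 (EL.cons 8 (TM.mk (P.cons (P.cons (P.lf 0 46096143 0) (P.cons (P.lf 0 5950989 0) (P.cons (P.lf 2566131 0 0) (P.lf 285126 0 0)))) (P.cons (P.cons (P.lf 8057961 0 0) (P.cons (P.lf 1803477 0 0) (P.cons (P.lf 0 777678 0) (P.lf 0 86406 0)))) (P.cons (P.cons (P.lf 168027 0 0) (P.cons (P.lf 0 173733 0) (P.cons (P.lf 74913 0 0) (P.lf 8322 0 0)))) (P.cons (P.cons (P.lf 0 94740 0) (P.cons (P.lf 2583 0 0) (P.cons (P.lf 0 1113 0) P.nil))) (P.cons (P.cons (P.lf 3483 0 0) (P.cons (P.lf 417 0 0) P.nil)) (P.cons (P.cons (P.lf 165 0 0) P.nil) P.nil)))))) 1008)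
 (EL.cons 11 (TM.mk (P.cons (P.cons (P.lf 105679560 0 0) (P.cons (P.lf 0 98450286 0) (P.cons (P.lf 0 10104201 0) (P.cons (P.lf 2101392 0 0) (P.lf 175116 0 0))))) (P.cons (P.cons (P.lf 0 14869365 0) (P.cons (P.lf 13852188 0 0) (P.cons (P.lf 1421685 0 0) (P.cons (P.lf 0 295671 0) (P.lf 0 24639 0))))) (P.cons (P.cons (P.lf 112590 0 0) (P.cons (P.lf 0 104886 0) (P.cons (P.lf 0 10764 0) (P.cons (P.lf 2238 0 0) P.nil)))) (P.cons (P.cons (P.lf 36624 0 0) (P.cons (P.lf 0 34119 0) (P.cons (P.lf 0 3501 0) P.nil))) (P.cons (P.cons (P.lf 84 0 0) (P.cons (P.lf 0 78 0) P.nil)) (P.cons (P.cons (P.lf 0 30 0) P.nil) P.nil)))))) 2817)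
 EL.nil)))
noncomputable def S212_219_660_808_26 : EL := (EL.cons 4 (TM.mk (P.cons (P.cons (P.lf 0 55410144 0) (P.cons (P.lf 0 23737326 0) (P.cons (P.lf 8094828 0 0) (P.cons (P.lf 2983734 0 0) (P.cons (P.lf 0 192939 0) (P.cons (P.lf 0 88464 0) P.nil)))))) (P.cons (P.cons (P.lf 416508 0 0) (P.cons (P.lf 1805850 0 0) (P.cons (P.lf 0 396372 0) (P.cons (P.lf 0 416250 0) (P.cons (P.lf 34455 0 0) P.nil))))) (P.cons (P.cons (P.lf 857097 0 0) (P.cons (P.lf 287733 0 0) (P.cons (P.lf 0 126828 0) (P.cons (P.lf 0 11409 0) P.nil)))) (P.cons (P.cons (P.lf 11709 0 0) (P.cons (P.lf 0 15306 0) (P.cons (P.lf 4413 0 0) P.nil))) (P.cons (P.cons (P.lf 0 4275 0) (P.cons (P.lf 0 1659 0) P.nil)) (P.cons (P.cons (P.lf 0 237 0) P.nil) P.nil)))))) 34905)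
 (EL.cons 8 (TM.mk (P.cons (P.cons (P.lf 12065550 0 0) (P.cons (P.lf 5168799 0 0) (P.cons (P.lf 0 1762647 0) (P.cons (P.lf 0 649707 0) (P.cons (P.lf 42012 0 0) (P.cons (P.lf 19263 0 0) P.nil)))))) (P.cons (P.cons (P.lf 0 1200744 0) (P.cons (P.lf 0 868761 0) (P.cons (P.lf 248475 0 0) (P.cons (P.lf 150411 0 0) (P.cons (P.lf 0 11367 0) P.nil))))) (P.cons (P.cons (P.lf 0 169182 0) (P.cons (P.lf 0 22575 0) (P.cons (P.lf 18345 0 0) (P.cons (P.lf 0 6342 0) P.nil)))) (P.cons (P.cons (P.lf 14232 0 0) (P.cons (P.lf 8661 0 0) (P.cons (P.lf 0 3390 0) P.nil))) (P.cons (P.cons (P.lf 1029 0 0) (P.cons (P.lf 18 0 0) P.nil)) (P.cons (P.cons (P.lf 0 30 0) P.nil) P.nil)))))) 11208)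
 (EL.cons 11 (TM.mk (P.cons (P.cons (P.lf 0 27661362 0) (P.cons (P.lf 17490246 0 0) (P.cons (P.lf 13927227 0 0) (P.cons (P.lf 0 2687547 0) (P.cons (P.lf 0 921309 0) (P.cons (P.lf 19341 0 0) P.nil)))))) (P.cons (P.cons (P.lf 1809417 0 0) (P.cons (P.lf 0 789645 0) (P.cons (P.lf 0 1394064 0) (P.cons (P.lf 267315 0 0) (P.cons (P.lf 97746 0 0) P.nil))))) (P.cons (P.cons (P.lf 186534 0 0) (P.cons (P.lf 0 137469 0) (P.cons (P.lf 0 67311 0) (P.cons (P.lf 13083 0 0) P.nil)))) (P.cons (P.cons (P.lf 2196 0 0) (P.cons (P.lf 0 5904 0) (P.cons (P.lf 5046 0 0) P.nil))) (P.cons (P.cons (P.lf 0 1173 0) (P.cons (P.lf 951 0 0) P.nil)) (P.cons (P.cons (P.lf 0 30 0) P.nil) P.nil)))))) 43866)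
 EL.nil)))
noncomputable def S212_219_660_808_27 : EL := (EL.cons 13 (TM.mk (P.lf 0 4294967296 0) 0)
 EL.nil)
noncomputable def S212_219_660_808_28 : EL := (EL.cons 13 (TM.mk (P.cons (P.cons (P.lf 1124197101 0 0) (P.cons (P.lf 336465092 0 0) (P.cons (P.lf 0 145087540 0) (P.lf 0 16120836 0)))) (P.cons (P.cons (P.lf 84639891 0 0) (P.cons (P.lf 10926964 0 0) (P.cons (P.lf 0 4711828 0) (P.lf 0 523536 0)))) (P.cons (P.cons (P.lf 3130190 0 0) (P.cons (P.lf 0 296568 0) (P.cons (P.lf 127884 0 0) (P.lf 14208 0 0)))) (P.cons (P.cons (P.lf 0 128657 0) (P.cons (P.lf 0 13200 0) (P.cons (P.lf 5692 0 0) P.nil))) (P.cons (P.cons (P.lf 0 3959 0) (P.cons (P.lf 88 0 0) P.nil)) (P.cons (P.cons (P.lf 42 0 0) P.nil) P.nil)))))) 1223)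
 EL.nil)
noncomputable def S212_219_660_808_29 : EL := (EL.cons 13 (TM.mk (P.cons (P.cons (P.lf 0 294255819 0) (P.cons (P.lf 0 176137816 0) (P.cons (P.lf 49594143 0 0) (P.cons (P.lf 31171315 0 0) (P.cons (P.lf 0 2375384 0) (P.cons (P.lf 0 1089150 0) P.nil)))))) (P.cons (P.cons (P.lf 0 44308565 0) (P.cons (P.lf 0 18981485 0) (P.cons (P.lf 6473006 0 0) (P.cons (P.lf 2385934 0 0) (P.cons (P.lf 0 154284 0) P.nil))))) (P.cons (P.cons (P.lf 0 3306617 0) (P.cons (P.lf 0 765852 0) (P.cons (P.lf 348910 0 0) (P.cons (P.lf 20596 0 0) P.nil)))) (P.cons (P.cons (P.lf 0 56020 0) (P.cons (P.lf 22829 0 0) (P.cons (P.lf 0 6267 0) P.nil))) (P.cons (P.cons (P.lf 4862 0 0) (P.cons (P.lf 2181 0 0) P.nil)) (P.cons (P.cons (P.lf 321 0 0) P.nil) P.nil)))))) 168106)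
 EL.nil)
noncomputable def S212_219_660_808_30 : EL := (EL.cons 13 (TM.mk (P.cons (P.lf 1317728968 0 0) (P.cons (P.lf 0 106968568 0) (P.cons (P.lf 0 859412 0) (P.cons (P.lf 19728 0 0) (P.cons (P.lf 296 0 0) (P.cons (P.lf 0 0 0) P.nil)))))) 40)
 EL.nil)
noncomputable def S212_219_660_808_31 : EL := (EL.cons 13 (TM.mk (P.cons (P.cons (P.lf 0 344912308 0) (P.cons (P.lf 0 103230075 0) (P.cons (P.lf 44513972 0 0) (P.lf 4945996 0 0)))) (P.cons (P.cons (P.lf 2030590 0 0) (P.cons (P.lf 5027375 0 0) (P.cons (P.lf 0 2167861 0) (P.lf 0 240873 0)))) (P.cons (P.cons (P.lf 1372586 0 0) (P.cons (P.lf 430457 0 0) (P.cons (P.lf 0 185618 0) (P.lf 0 20623 0)))) (P.cons (P.cons (P.lf 129204 0 0) (P.cons (P.lf 0 2695 0) (P.cons (P.lf 1162 0 0) P.nil))) (P.cons (P.cons (P.lf 0 1829 0) (P.cons (P.lf 0 488 0) P.nil)) (P.cons (P.cons (P.lf 0 157 0) P.nil) P.nil)))))) 1190)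
 EL.nil)
noncomputable def S212_219_660_808_32 : EL := (EL.cons 13 (TM.mk (P.cons (P.cons (P.lf 90279946 0 0) (P.cons (P.lf 54040435 0 0) (P.cons (P.lf 0 15215864 0) (P.cons (P.lf 0 9563598 0) (P.cons (P.lf 728786 0 0) (P.cons (P.lf 334159 0 0) P.nil)))))) (P.cons (P.cons (P.lf 6265602 0 0) (P.cons (P.lf 1436854 0 0) (P.cons (P.lf 0 750798 0) (P.cons (P.lf 44316 0 0) (P.cons (P.lf 0 11824 0) P.nil))))) (P.cons (P.cons (P.lf 0 147913 0) (P.cons (P.lf 0 273019 0) (P.cons (P.lf 64089 0 0) (P.cons (P.lf 59341 0 0) P.nil)))) (P.cons (P.cons (P.lf 0 72680 0) (P.cons (P.lf 0 29067 0) (P.cons (P.lf 11679 0 0) P.nil))) (P.cons (P.cons (P.lf 0 3324 0) (P.cons (P.lf 0 154 0) P.nil)) (P.cons (P.cons (P.lf 29 0 0) P.nil) P.nil)))))) 89022)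
 EL.nil)
noncomputable def S212_219_660_808_33 : EL := (EL.cons 14 (TM.mk (P.lf 8589934592 0 0) 0)
 EL.nil)
noncomputable def S212_219_660_808_34 : EL := (EL.cons 14 (TM.mk (P.cons (P.cons (P.lf 0 2248394202 0) (P.cons (P.lf 0 672930184 0) (P.cons (P.lf 290175080 0 0) (P.lf 32241672 0 0)))) (P.cons (P.cons (P.lf 0 169279782 0) (P.cons (P.lf 0 21853928 0) (P.cons (P.lf 9423656 0 0) (P.lf 1047072 0 0)))) (P.cons (P.cons (P.lf 0 6260380 0) (P.cons (P.lf 593136 0 0) (P.cons (P.lf 0 255768 0) (P.lf 0 28416 0)))) (P.cons (P.cons (P.lf 257314 0 0) (P.cons (P.lf 26400 0 0) (P.cons (P.lf 0 11384 0) P.nil))) (P.cons (P.cons (P.lf 7918 0 0) (P.cons (P.lf 0 176 0) P.nil)) (P.cons (P.cons (P.lf 0 84 0) P.nil) P.nil)))))) 2446)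
 EL.nil)
noncomputable def S212_219_660_808_35 : EL := (EL.cons 14 (TM.mk (P.cons (P.cons (P.lf 588511638 0 0) (P.cons (P.lf 352275632 0 0) (P.cons (P.lf 0 99188286 0) (P.cons (P.lf 0 62342630 0) (P.cons (P.lf 4750768 0 0) (P.cons (P.lf 2178300 0 0) P.nil)))))) (P.cons (P.cons (P.lf 88617130 0 0) (P.cons (P.lf 37962970 0 0) (P.cons (P.lf 0 12946012 0) (P.cons (P.lf 0 4771868 0) (P.cons (P.lf 308568 0 0) P.nil))))) (P.cons (P.cons (P.lf 6613234 0 0) (P.cons (P.lf 1531704 0 0) (P.cons (P.lf 0 697820 0) (P.cons (P.lf 0 41192 0) P.nil)))) (P.cons (P.cons (P.lf 112040 0 0) (P.cons (P.lf 0 45658 0) (P.cons (P.lf 12534 0 0) P.nil))) (P.cons (P.cons (P.lf 0 9724 0) (P.cons (P.lf 0 4362 0) P.nil)) (P.cons (P.cons (P.lf 0 642 0) P.nil) P.nil)))))) 336212)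
 EL.nil)
noncomputable def S212_219_660_808_36 : EL := (EL.cons 14 (TM.mk (P.cons (P.lf 0 2635457936 0) (P.cons (P.lf 213937136 0 0) (P.cons (P.lf 1718824 0 0) (P.cons (P.lf 0 39456 0) (P.cons (P.lf 0 592 0) (P.cons (P.lf 0 0 0) P.nil)))))) 80)
 EL.nil)
noncomputable def S212_219_660_808_37 : EL := (EL.cons 14 (TM.mk (P.cons (P.cons (P.lf 689824616 0 0) (P.cons (P.lf 206460150 0 0) (P.cons (P.lf 0 89027944 0) (P.lf 0 9891992 0)))) (P.cons (P.cons (P.lf 0 4061180 0) (P.cons (P.lf 0 10054750 0) (P.cons (P.lf 4335722 0 0) (P.lf 481746 0 0)))) (P.cons (P.cons (P.lf 0 2745172 0) (P.cons (P.lf 0 860914 0) (P.cons (P.lf 371236 0 0) (P.lf 41246 0 0)))) (P.cons (P.cons (P.lf 0 258408 0) (P.cons (P.lf 5390 0 0) (P.cons (P.lf 0 2324 0) P.nil))) (P.cons (P.cons (P.lf 3658 0 0) (P.cons (P.lf 976 0 0) P.nil)) (P.cons (P.cons (P.lf 314 0 0) P.nil) P.nil)))))) 2380)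
 EL.nil)
noncomputable def S212_219_660_808_38 : EL := (EL.cons 14 (TM.mk (P.cons (P.cons (P.lf 0 180559892 0) (P.cons (P.lf 0 108080870 0) (P.cons (P.lf 30431728 0 0) (P.cons (P.lf 19127196 0 0) (P.cons (P.lf 0 1457572 0) (P.cons (P.lf 0 668318 0) P.nil)))))) (P.cons (P.cons (P.lf 0 12531204 0) (P.cons (P.lf 0 2873708 0) (P.cons (P.lf 1501596 0 0) (P.cons (P.lf 0 88632 0) (P.cons (P.lf 23648 0 0) P.nil))))) (P.cons (P.cons (P.lf 295826 0 0) (P.cons (P.lf 546038 0 0) (P.cons (P.lf 0 128178 0) (P.cons (P.lf 0 118682 0) P.nil)))) (P.cons (P.cons (P.lf 145360 0 0) (P.cons (P.lf 58134 0 0) (P.cons (P.lf 0 23358 0) P.nil))) (P.cons (P.cons (P.lf 6648 0 0) (P.cons (P.lf 308 0 0) P.nil)) (P.cons (P.cons (P.lf 0 58 0) P.nil) P.nil)))))) 178044)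
 EL.nil)
noncomputable def S212_219_660_808_39 : EL := (EL.cons 14 (TM.mk (P.cons (P.lf 808578744 0 0) (P.cons (P.lf 0 131275114 0) (P.cons (P.lf 4273526 0 0) (P.cons (P.lf 109826 0 0) (P.cons (P.lf 0 1258 0) (P.cons (P.lf 0 44 0) P.nil)))))) 66)
 EL.nil)
noncomputable def S212_219_660_808_40 : EL := (EL.cons 14 (TM.mk (P.cons (P.cons (P.lf 0 211643492 0) (P.cons (P.lf 0 63343560 0) (P.cons (P.lf 27314456 0 0) (P.lf 3034938 0 0)))) (P.cons (P.cons (P.lf 18426468 0 0) (P.cons (P.lf 8226880 0 0) (P.cons (P.lf 0 3547522 0) (P.lf 0 394168 0)))) (P.cons (P.cons (P.lf 879126 0 0) (P.cons (P.lf 55028 0 0) (P.cons (P.lf 0 23728 0) (P.lf 0 2636 0)))) (P.cons (P.cons (P.lf 6930 0 0) (P.cons (P.lf 0 26054 0) (P.cons (P.lf 11234 0 0) P.nil))) (P.cons (P.cons (P.lf 0 8136 0) (P.cons (P.lf 0 304 0) P.nil)) (P.cons (P.cons (P.lf 0 44 0) P.nil) P.nil)))))) 2250)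
 EL.nil)
noncomputable def S212_219_660_808_41 : EL := (EL.cons 14 (TM.mk (P.cons (P.cons (P.lf 55397162 0 0) (P.cons (P.lf 33160040 0 0) (P.cons (P.lf 0 9336688 0) (P.cons (P.lf 0 5868370 0) (P.cons (P.lf 447194 0 0) (P.cons (P.lf 205044 0 0) P.nil)))))) (P.cons (P.cons (P.lf 0 652274 0) (P.cons (P.lf 0 1810138 0) (P.cons (P.lf 297218 0 0) (P.cons (P.lf 503566 0 0) (P.cons (P.lf 0 43556 0) P.nil))))) (P.cons (P.cons (P.lf 0 438988 0) (P.cons (P.lf 0 260726 0) (P.cons (P.lf 82812 0 0) (P.cons (P.lf 38032 0 0) P.nil)))) (P.cons (P.cons (P.lf 0 38908 0) (P.cons (P.lf 0 4314 0) (P.cons (P.lf 4134 0 0) P.nil))) (P.cons (P.cons (P.lf 1708 0 0) (P.cons (P.lf 1482 0 0) P.nil)) (P.cons (P.cons (P.lf 212 0 0) P.nil) P.nil)))))) 83478)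
 EL.nil)
noncomputable def S212_219_660_808_42 : EL := (EL.cons 14 (TM.mk (P.cons (P.lf 0 248078170 0) (P.cons (P.lf 60414320 0 0) (P.cons (P.lf 0 4418836 0) (P.cons (P.lf 42756 0 0) (P.cons (P.lf 4522 0 0) (P.cons (P.lf 0 6 0) P.nil)))))) 46)
 EL.nil)
noncomputable def S212_219_660_808_43 : EL := (EL.cons 14 (TM.mk (P.cons (P.cons (P.lf 64933848 0 0) (P.cons (P.lf 19434290 0 0) (P.cons (P.lf 0 8380284 0) (P.lf 0 931142 0)))) (P.cons (P.cons (P.lf 0 10924482 0) (P.cons (P.lf 0 4101676 0) (P.cons (P.lf 1768688 0 0) (P.lf 196520 0 0)))) (P.cons (P.cons (P.lf 146848 0 0) (P.cons (P.lf 175336 0 0) (P.cons (P.lf 0 75606 0) (P.lf 0 8400 0)))) (P.cons (P.cons (P.lf 24428 0 0) (P.cons (P.lf 11300 0 0) (P.cons (P.lf 0 4872 0) P.nil))) (P.cons (P.cons (P.lf 2774 0 0) (P.cons (P.lf 0 576 0) P.nil)) (P.cons (P.cons (P.lf 0 192 0) P.nil) P.nil)))))) 1544)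
 EL.nil)
noncomputable def S212_219_660_808_44 : EL := (EL.cons 14 (TM.mk (P.cons (P.cons (P.lf 0 16996274 0) (P.cons (P.lf 0 10173754 0) (P.cons (P.lf 2864566 0 0) (P.cons (P.lf 1800460 0 0) (P.cons (P.lf 0 137202 0) (P.cons (P.lf 0 62908 0) P.nil)))))) (P.cons (P.cons (P.lf 1579820 0 0) (P.cons (P.lf 1381232 0 0) (P.cons (P.lf 0 323724 0) (P.cons (P.lf 0 300652 0) (P.cons (P.lf 24500 0 0) P.nil))))) (P.cons (P.cons (P.lf 129524 0 0) (P.cons (P.lf 41544 0 0) (P.cons (P.lf 0 19872 0) (P.cons (P.lf 0 300 0) P.nil)))) (P.cons (P.cons (P.lf 618 0 0) (P.cons (P.lf 0 5684 0) (P.cons (P.lf 896 0 0) P.nil))) (P.cons (P.cons (P.lf 0 1582 0) (P.cons (P.lf 0 608 0) P.nil)) (P.cons (P.cons (P.lf 0 28 0) P.nil) P.nil)))))) 37368)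
 EL.nil)
noncomputable def S212_219_660_808_45 : EL := (EL.cons 14 (TM.mk (P.cons (P.cons (P.lf 0 154041470 0) (P.cons (P.lf 0 138310916 0) (P.cons (P.lf 18245642 0 0) (P.cons (P.lf 38197474 0 0) (P.cons (P.lf 1611958 0 0) (P.cons (P.lf 0 3420618 0) P.nil)))))) (P.cons (P.cons (P.lf 0 34792972 0) (P.cons (P.lf 0 25318386 0) (P.cons (P.lf 5112226 0 0) (P.cons (P.lf 5817368 0 0) (P.cons (P.lf 0 2666 0) P.nil))))) (P.cons (P.cons (P.lf 0 3906262 0) (P.cons (P.lf 0 2108680 0) (P.cons (P.lf 620910 0 0) (P.cons (P.lf 347586 0 0) P.nil)))) (P.cons (P.cons (P.lf 0 206606 0) (P.cons (P.lf 0 53022 0) (P.cons (P.lf 27940 0 0) P.nil))) (P.cons (P.cons (P.lf 0 1284 0) (P.cons (P.lf 3580 0 0) P.nil)) (P.cons (P.cons (P.lf 552 0 0) P.nil) P.nil)))))) 1343946)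
 EL.nil)
noncomputable def S212_219_660_808_46 : EL := (EL.cons 15 (TM.mk (P.lf 4294967296 0 0) 0)
 EL.nil)
noncomputable def S212_219_660_808_47 : EL := (EL.cons 15 (TM.mk (P.cons (P.cons (P.lf 0 1124197101 0) (P.cons (P.lf 0 336465092 0) (P.cons (P.lf 145087540 0 0) (P.lf 16120836 0 0)))) (P.cons (P.cons (P.lf 0 84639891 0) (P.cons (P.lf 0 10926964 0) (P.cons (P.lf 4711828 0 0) (P.lf 523536 0 0)))) (P.cons (P.cons (P.lf 0 3130190 0) (P.cons (P.lf 296568 0 0) (P.cons (P.lf 0 127884 0) (P.lf 0 14208 0)))) (P.cons (P.cons (P.lf 128657 0 0) (P.cons (P.lf 13200 0 0) (P.cons (P.lf 0 5692 0) P.nil))) (P.cons (P.cons (P.lf 3959 0 0) (P.cons (P.lf 0 88 0) P.nil)) (P.cons (P.cons (P.lf 0 42 0) P.nil) P.nil)))))) 1223)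
 EL.nil)
noncomputable def S212_219_660_808_48 : EL := (EL.cons 15 (TM.mk (P.cons (P.cons (P.lf 294255819 0 0) (P.cons (P.lf 176137816 0 0) (P.cons (P.lf 0 49594143 0) (P.cons (P.lf 0 31171315 0) (P.cons (P.lf 2375384 0 0) (P.cons (P.lf 1089150 0 0) P.nil)))))) (P.cons (P.cons (P.lf 44308565 0 0) (P.cons (P.lf 18981485 0 0) (P.cons (P.lf 0 6473006 0) (P.cons (P.lf 0 2385934 0) (P.cons (P.lf 154284 0 0) P.nil))))) (P.cons (P.cons (P.lf 3306617 0 0) (P.cons (P.lf 765852 0 0) (P.cons (P.lf 0 348910 0) (P.cons (P.lf 0 20596 0) P.nil)))) (P.cons (P.cons (P.lf 56020 0 0) (P.cons (P.lf 0 22829 0) (P.cons (P.lf 6267 0 0) P.nil))) (P.cons (P.cons (P.lf 0 4862 0) (P.cons (P.lf 0 2181 0) P.nil)) (P.cons (P.cons (P.lf 0 321 0) P.nil) P.nil)))))) 168106)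
 EL.nil)
noncomputable def S212_219_660_808 : SL := (SL.cons S212_219_660_808_0 (SL.cons S212_219_660_808_1 (SL.cons S212_219_660_808_2 (SL.cons S212_219_660_808_3 (SL.cons S212_219_660_808_4 (SL.cons S212_219_660_808_5 (SL.cons S212_219_660_808_6 (SL.cons S212_219_660_808_7 (SL.cons S212_219_660_808_8 (SL.cons S212_219_660_808_9 (SL.cons S212_219_660_808_10 (SL.cons S212_219_660_808_11 (SL.cons S212_219_660_808_12 (SL.cons S212_219_660_808_13 (SL.cons S212_219_660_808_14 (SL.cons S212_219_660_808_15 (SL.cons S212_219_660_808_16 (SL.cons S212_219_660_808_17 (SL.cons S212_219_660_808_18 (SL.cons S212_219_660_808_19 (SL.cons S212_219_660_808_20 (SL.cons S212_219_660_808_21 (SL.cons S212_219_660_808_22 (SL.cons S212_219_660_808_23 (SL.cons S212_219_660_808_24 (SL.cons S212_219_660_808_25 (SL.cons S212_219_660_808_26 (SL.cons S212_219_660_808_27 (SL.cons S212_219_660_808_28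 (SL.cons S212_219_660_808_29 (SL.cons S212_219_660_808_30 (SL.cons S212_219_660_808_31 (SL.cons S212_219_660_808_32 (SL.cons S212_219_660_808_33 (SL.cons S212_219_660_808_34 (SL.cons S212_219_660_808_35 (SL.cons S212_219_660_808_36 (SL.cons S212_219_660_808_37 (SL.cons S212_219_660_808_38 (SL.cons S212_219_660_808_39 (SL.cons S212_219_660_808_40 (SL.cons S212_219_660_808_41 (SL.cons S212_219_660_808_42 (SL.cons S212_219_660_808_43 (SL.cons S212_219_660_808_44 (SL.cons S212_219_660_808_45 (SL.cons S212_219_660_808_46 (SL.cons S212_219_660_808_47 (SL.cons S212_219_660_808_48 SL.nil)))))))))))))))))))))))))))))))))))))))))))))))))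
noncomputable def S212_227_216_253_0 : EL := (EL.cons 0 (TM.mk (P.cons (P.lf 7871865163 0 0) (P.cons (P.lf 228047217 0 0) (P.cons (P.lf 0 18724113 0) (P.cons (P.lf 0 894670 0) (P.cons (P.lf 28400 0 0) (P.cons (P.lf 1893 0 0) P.nil)))))) 140)
 (EL.cons 1 (TM.mk (P.cons (P.lf 0 1064241138 0) (P.cons (P.lf 185599968 0 0) (P.cons (P.lf 9632411 0 0) (P.cons (P.lf 0 474855 0) (P.cons (P.lf 0 25702 0) (P.cons (P.lf 519 0 0) P.nil)))))) 134)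
 (EL.cons 5 (TM.mk (P.cons (P.lf 4502559014 0 0) (P.cons (P.lf 0 81083452 0) (P.cons (P.lf 6657460 0 0) (P.cons (P.lf 318104 0 0) (P.cons (P.lf 0 10096 0) (P.cons (P.lf 0 672 0) P.nil)))))) 143)
 (EL.cons 9 (TM.mk (P.lf 6442450944 0 0) 2)
 EL.nil))))
noncomputable def S212_227_216_253_1 : EL := (EL.cons 0 (TM.mk (P.cons (P.cons (P.lf 4819382853 0 0) (P.cons (P.lf 0 33815111 0) (P.cons (P.lf 0 16732238 0) (P.lf 371824 0 0)))) (P.cons (P.cons (P.lf 726964676 0 0) (P.cons (P.lf 0 7159992 0) (P.cons (P.lf 0 3542868 0) (P.lf 78716 0 0)))) (P.cons (P.cons (P.lf 0 135475343 0) (P.cons (P.lf 249733 0 0) (P.cons (P.lf 123572 0 0) (P.lf 0 2742 0)))) (P.cons (P.cons (P.lf 0 8037310 0) (P.cons (P.lf 80462 0 0) (P.cons (P.lf 39805 0 0) P.nil))) (P.cons (P.cons (P.lf 963397 0 0) (P.cons (P.lf 282 0 0) P.nil)) (P.cons (P.cons (P.lf 54696 0 0) P.nil) P.nil)))))) 11705)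
 (EL.cons 1 (TM.mk (P.cons (P.cons (P.lf 0 1017440137 0) (P.cons (P.lf 13756153 0 0) (P.cons (P.lf 6806750 0 0) (P.lf 0 151253 0)))) (P.cons (P.cons (P.lf 404465603 0 0) (P.cons (P.lf 0 1128447 0) (P.cons (P.lf 0 558375 0) (P.lf 12405 0 0)))) (P.cons (P.cons (P.lf 46078455 0 0) (P.cons (P.lf 0 432862 0) (P.cons (P.lf 0 214183 0) (P.lf 4752 0 0)))) (P.cons (P.cons (P.lf 0 6185854 0) (P.cons (P.lf 1751 0 0) (P.cons (P.lf 869 0 0) P.nil))) (P.cons (P.cons (P.lf 0 412299 0) (P.cons (P.lf 3252 0 0) P.nil)) (P.cons (P.cons (P.lf 32561 0 0) P.nil) P.nil)))))) 6544)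
 (EL.cons 5 (TM.mk (P.cons (P.cons (P.lf 3114179141 0 0) (P.cons (P.lf 0 28317812 0) (P.cons (P.lf 0 14012088 0) (P.lf 311384 0 0)))) (P.cons (P.cons (P.lf 0 157719086 0) (P.cons (P.lf 16522 0 0) (P.cons (P.lf 8166 0 0) (P.lf 0 180 0)))) (P.cons (P.cons (P.lf 0 3630405 0) (P.cons (P.lf 92446 0 0) (P.cons (P.lf 45750 0 0) (P.lf 0 1020 0)))) (P.cons (P.cons (P.lf 2825553 0 0) (P.cons (P.lf 0 14160 0) (P.cons (P.lf 0 7002 0) P.nil))) (P.cons (P.cons (P.lf 0 155637 0) (P.cons (P.lf 0 432 0) P.nil)) (P.cons (P.cons (P.lf 0 17399 0) P.nil) P.nil)))))) 7570)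
 (EL.cons 9 (TM.mk (P.cons (P.cons (P.lf 4259768365 0 0) (P.cons (P.lf 0 35594958 0) (P.cons (P.lf 0 17612928 0) (P.lf 391392 0 0)))) (P.cons (P.cons (P.lf 88903441 0 0) (P.cons (P.lf 0 2231688 0) (P.cons (P.lf 0 1104270 0) (P.lf 24534 0 0)))) (P.cons (P.cons (P.lf 0 45705351 0) (P.cons (P.lf 159912 0 0) (P.cons (P.lf 79128 0 0) (P.lf 0 1758 0)))) (P.cons (P.cons (P.lf 0 28366 0) (P.cons (P.lf 12744 0 0) (P.cons (P.lf 6300 0 0) P.nil))) (P.cons (P.cons (P.lf 164896 0 0) (P.cons (P.lf 0 288 0) P.nil)) (P.cons (P.cons (P.lf 1804 0 0) P.nil) P.nil)))))) 1748)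
 (EL.cons 2 (TM.mk (P.cons (P.cons (P.lf 76843884 0 0) (P.cons (P.lf 77811038 0 0) (P.cons (P.lf 0 848013 0) (P.cons (P.lf 0 116375 0) (P.lf 1937 0 0))))) (P.cons (P.cons (P.lf 0 11795349 0) (P.cons (P.lf 0 11943804 0) (P.cons (P.lf 130168 0 0) (P.cons (P.lf 17862 0 0) (P.lf 0 295 0))))) (P.cons (P.cons (P.lf 0 1124223 0) (P.cons (P.lf 0 1138373 0) (P.cons (P.lf 12403 0 0) (P.cons (P.lf 1701 0 0) P.nil)))) (P.cons (P.cons (P.lf 42477 0 0) (P.cons (P.lf 43014 0 0) (P.cons (P.lf 0 466 0) P.nil))) (P.cons (P.cons (P.lf 4595 0 0) (P.cons (P.lf 4654 0 0) P.nil)) (P.cons (P.cons (P.lf 0 50 0) P.nil) P.nil)))))) 591)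
 (EL.cons 6 (TM.mk (P.cons (P.cons (P.lf 140070543 0 0) (P.cons (P.lf 141833463 0 0) (P.cons (P.lf 0 1545756 0) (P.cons (P.lf 0 212133 0) (P.lf 3534 0 0))))) (P.cons (P.cons (P.lf 8781984 0 0) (P.cons (P.lf 8892513 0 0) (P.cons (P.lf 0 96912 0) (P.cons (P.lf 0 13299 0) (P.lf 219 0 0))))) (P.cons (P.cons (P.lf 0 629286 0) (P.cons (P.lf 0 637206 0) (P.cons (P.lf 6942 0 0) (P.cons (P.lf 951 0 0) P.nil)))) (P.cons (P.cons (P.lf 0 50160 0) (P.cons (P.lf 0 50790 0) (P.cons (P.lf 552 0 0) P.nil))) (P.cons (P.cons (P.lf 1158 0 0) (P.cons (P.lf 1173 0 0) P.nil)) (P.cons (P.cons (P.lf 144 0 0) P.nil) P.nil)))))) 432)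
 EL.nil))))))
noncomputable def S212_227_216_253_2 : EL := (EL.cons 0 (TM.mk (P.cons (P.cons (P.lf 2931684675 0 0) (P.cons (P.lf 0 40457278 0) (P.cons (P.lf 0 19885524 0) (P.cons (P.lf 576845 0 0) (P.cons (P.lf 29722 0 0) (P.cons (P.lf 0 1455 0) P.nil)))))) (P.cons (P.cons (P.lf 851002682 0 0) (P.cons (P.lf 0 15301091 0) (P.cons (P.lf 0 7505755 0) (P.cons (P.lf 233003 0 0) (P.cons (P.lf 14575 0 0) P.nil))))) (P.cons (P.cons (P.lf 0 151094300 0) (P.cons (P.lf 1047260 0 0) (P.cons (P.lf 519639 0 0) (P.cons (P.lf 0 10092 0) P.nil)))) (P.cons (P.cons (P.lf 0 20308791 0) (P.cons (P.lf 346800 0 0) (P.cons (P.lf 170473 0 0) P.nil))) (P.cons (P.cons (P.lf 2430820 0 0) (P.cons (P.lf 0 7277 0) P.nil)) (P.cons (P.cons (P.lf 212580 0 0) P.nil) P.nil)))))) 63781)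
 (EL.cons 1 (TM.mk (P.cons (P.cons (P.lf 0 880194031 0) (P.cons (P.lf 21658319 0 0) (P.cons (P.lf 10597336 0 0) (P.cons (P.lf 0 356424 0) (P.cons (P.lf 0 26628 0) (P.cons (P.lf 1296 0 0) P.nil)))))) (P.cons (P.cons (P.lf 445065876 0 0) (P.cons (P.lf 0 4170846 0) (P.cons (P.lf 0 2062453 0) (P.cons (P.lf 47191 0 0) (P.cons (P.lf 302 0 0) P.nil))))) (P.cons (P.cons (P.lf 69153786 0 0) (P.cons (P.lf 0 1346755 0) (P.cons (P.lf 0 661307 0) (P.cons (P.lf 19822 0 0) P.nil)))) (P.cons (P.cons (P.lf 0 11115259 0) (P.cons (P.lf 51090 0 0) (P.cons (P.lf 25528 0 0) P.nil))) (P.cons (P.cons (P.lf 0 1190081 0) (P.cons (P.lf 20355 0 0) P.nil)) (P.cons (P.cons (P.lf 122603 0 0) P.nil) P.nil)))))) 33264)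
 (EL.cons 5 (TM.mk (P.cons (P.cons (P.lf 2149738084 0 0) (P.cons (P.lf 0 38962314 0) (P.cons (P.lf 0 19103682 0) (P.cons (P.lf 602069 0 0) (P.cons (P.lf 39091 0 0) (P.cons (P.lf 0 1905 0) P.nil)))))) (P.cons (P.cons (P.lf 0 169336721 0) (P.cons (P.lf 982301 0 0) (P.cons (P.lf 490724 0 0) (P.cons (P.lf 0 6166 0) (P.cons (P.lf 1046 0 0) P.nil))))) (P.cons (P.cons (P.lf 0 13387037 0) (P.cons (P.lf 369907 0 0) (P.cons (P.lf 181402 0 0) (P.cons (P.lf 0 5692 0) P.nil)))) (P.cons (P.cons (P.lf 5748751 0 0) (P.cons (P.lf 0 62956 0) (P.cons (P.lf 0 31031 0) P.nil))) (P.cons (P.cons (P.lf 0 250533 0) (P.cons (P.lf 0 2069 0) P.nil)) (P.cons (P.cons (P.lf 0 67256 0) P.nil) P.nil)))))) 34627)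
 (EL.cons 9 (TM.mk (P.cons (P.cons (P.lf 2816571934 0 0) (P.cons (P.lf 0 47070990 0) (P.cons (P.lf 0 23094778 0) (P.cons (P.lf 712203 0 0) (P.cons (P.lf 43825 0 0) (P.cons (P.lf 0 2139 0) P.nil)))))) (P.cons (P.cons (P.lf 117566457 0 0) (P.cons (P.lf 0 3933591 0) (P.cons (P.lf 0 1921735 0) (P.cons (P.lf 67650 0 0) (P.cons (P.lf 5494 0 0) P.nil))))) (P.cons (P.cons (P.lf 0 59214201 0) (P.cons (P.lf 654925 0 0) (P.cons (P.lf 323074 0 0) (P.cons (P.lf 0 8184 0) P.nil)))) (P.cons (P.cons (P.lf 0 1298944 0) (P.cons (P.lf 53244 0 0) (P.cons (P.lf 26086 0 0) P.nil))) (P.cons (P.cons (P.lf 541528 0 0) (P.cons (P.lf 0 4099 0) P.nil)) (P.cons (P.cons (P.lf 7339 0 0) P.nil) P.nil)))))) 9373)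
 (EL.cons 2 (TM.mk (P.cons (P.cons (P.lf 101618825 0 0) (P.cons (P.lf 102048660 0 0) (P.cons (P.lf 0 2401402 0) (P.cons (P.lf 0 560643 0) (P.cons (P.lf 17938 0 0) (P.cons (P.lf 506 0 0) P.nil)))))) (P.cons (P.cons (P.lf 0 13477410 0) (P.cons (P.lf 0 13569930 0) (P.cons (P.lf 264954 0 0) (P.cons (P.lf 57341 0 0) (P.cons (P.lf 0 1732 0) P.nil))))) (P.cons (P.cons (P.lf 0 2902545 0) (P.cons (P.lf 0 2914666 0) (P.cons (P.lf 68821 0 0) (P.cons (P.lf 16087 0 0) P.nil)))) (P.cons (P.cons (P.lf 191829 0 0) (P.cons (P.lf 194276 0 0) (P.cons (P.lf 0 2070 0) P.nil))) (P.cons (P.cons (P.lf 27236 0 0) (P.cons (P.lf 27393 0 0) P.nil)) (P.cons (P.cons (P.lf 0 1096 0) P.nil) P.nil)))))) 6097)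
 (EL.cons 6 (TM.mk (P.cons (P.cons (P.lf 185230146 0 0) (P.cons (P.lf 186013644 0 0) (P.cons (P.lf 0 4377264 0) (P.cons (P.lf 0 1021938 0) (P.cons (P.lf 32700 0 0) (P.cons (P.lf 930 0 0) P.nil)))))) (P.cons (P.cons (P.lf 15479190 0 0) (P.cons (P.lf 15479928 0 0) (P.cons (P.lf 0 463380 0) (P.cons (P.lf 0 116406 0) (P.cons (P.lf 3900 0 0) P.nil))))) (P.cons (P.cons (P.lf 0 2577228 0) (P.cons (P.lf 0 2601840 0) (P.cons (P.lf 40230 0 0) (P.cons (P.lf 7644 0 0) P.nil)))) (P.cons (P.cons (P.lf 0 209538 0) (P.cons (P.lf 0 210192 0) (P.cons (P.lf 5292 0 0) P.nil))) (P.cons (P.cons (P.lf 16164 0 0) (P.cons (P.lf 16380 0 0) P.nil)) (P.cons (P.cons (P.lf 1464 0 0) P.nil) P.nil)))))) 4860)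
 EL.nil))))))
noncomputable def S212_227_216_253_3 : EL := (EL.cons 0 (TM.mk (P.cons (P.lf 583851700 0 0) (P.cons (P.lf 0 228047217 0) (P.cons (P.lf 18724113 0 0) (P.cons (P.lf 894670 0 0) (P.cons (P.lf 0 28400 0) (P.cons (P.lf 0 1893 0) P.nil)))))) 140)
 (EL.cons 1 (TM.mk (P.cons (P.lf 1064241138 0 0) (P.cons (P.lf 0 185599968 0) (P.cons (P.lf 0 9632411 0) (P.cons (P.lf 474855 0 0) (P.cons (P.lf 25702 0 0) (P.cons (P.lf 0 519 0) P.nil)))))) 134)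
 (EL.cons 5 (TM.mk (P.cons (P.lf 1939891930 0 0) (P.cons (P.lf 81083452 0 0) (P.cons (P.lf 0 6657460 0) (P.cons (P.lf 0 318104 0) (P.cons (P.lf 10096 0 0) (P.cons (P.lf 672 0 0) P.nil)))))) 136)
 EL.nil)))
noncomputable def S212_227_216_253_4 : EL := (EL.cons 0 (TM.mk (P.cons (P.cons (P.lf 386044537 0 0) (P.cons (P.lf 0 3225817 0) (P.cons (P.lf 0 1596183 0) (P.lf 35469 0 0)))) (P.cons (P.cons (P.lf 0 142728583 0) (P.cons (P.lf 1057726 0 0) (P.cons (P.lf 523379 0 0) (P.lf 0 11629 0)))) (P.cons (P.cons (P.lf 5091393 0 0) (P.cons (P.lf 0 9963 0) (P.cons (P.lf 0 4928 0) (P.lf 108 0 0)))) (P.cons (P.cons (P.lf 2465231 0 0) (P.cons (P.lf 0 15934 0) (P.cons (P.lf 0 7883 0) P.nil))) (P.cons (P.cons (P.lf 0 123321 0) (P.cons (P.lf 0 165 0) P.nil)) (P.cons (P.cons (P.lf 0 13746 0) P.nil) P.nil)))))) 2202)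
 (EL.cons 1 (TM.mk (P.cons (P.cons (P.lf 703679510 0 0) (P.cons (P.lf 0 5880000 0) (P.cons (P.lf 0 2909512 0) (P.lf 64653 0 0)))) (P.cons (P.cons (P.lf 0 108033135 0) (P.cons (P.lf 656793 0 0) (P.cons (P.lf 324991 0 0) (P.lf 0 7220 0)))) (P.cons (P.cons (P.lf 0 16480346 0) (P.cons (P.lf 143926 0 0) (P.cons (P.lf 71216 0 0) (P.lf 0 1580 0)))) (P.cons (P.cons (P.lf 1493085 0 0) (P.cons (P.lf 0 1786 0) (P.cons (P.lf 0 885 0) P.nil))) (P.cons (P.cons (P.lf 119940 0 0) (P.cons (P.lf 0 960 0) P.nil)) (P.cons (P.cons (P.lf 0 7768 0) P.nil) P.nil)))))) 1672)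
 (EL.cons 5 (TM.mk (P.cons (P.cons (P.lf 1282662506 0 0) (P.cons (P.lf 0 10718026 0) (P.cons (P.lf 0 5303442 0) (P.lf 117850 0 0)))) (P.cons (P.cons (P.lf 80382418 0 0) (P.cons (P.lf 0 1119976 0) (P.cons (P.lf 0 554178 0) (P.lf 12312 0 0)))) (P.cons (P.cons (P.lf 0 17045388 0) (P.cons (P.lf 56846 0 0) (P.cons (P.lf 28128 0 0) (P.lf 0 624 0)))) (P.cons (P.cons (P.lf 0 885980 0) (P.cons (P.lf 9912 0 0) (P.cons (P.lf 4902 0 0) P.nil))) (P.cons (P.cons (P.lf 98810 0 0) (P.cons (P.lf 0 36 0) P.nil)) (P.cons (P.cons (P.lf 5488 0 0) P.nil) P.nil)))))) 1436)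
 EL.nil)))
noncomputable def S212_227_216_253_5 : EL := (EL.cons 0 (TM.mk (P.cons (P.cons (P.lf 255253833 0 0) (P.cons (P.lf 0 4265841 0) (P.cons (P.lf 0 2092979 0) (P.cons (P.lf 64543 0 0) (P.cons (P.lf 3970 0 0) (P.cons (P.lf 0 193 0) P.nil)))))) (P.cons (P.cons (P.lf 0 89045305 0) (P.cons (P.lf 1309714 0 0) (P.cons (P.lf 643340 0 0) (P.cons (P.lf 0 19079 0) (P.cons (P.lf 0 1052 0) P.nil))))) (P.cons (P.cons (P.lf 0 1341910 0) (P.cons (P.lf 61787 0 0) (P.cons (P.lf 30181 0 0) (P.cons (P.lf 0 1065 0) P.nil)))) (P.cons (P.cons (P.lf 2711153 0 0) (P.cons (P.lf 0 36325 0) (P.cons (P.lf 0 17862 0) P.nil))) (P.cons (P.cons (P.lf 0 73132 0) (P.cons (P.lf 0 690 0) P.nil)) (P.cons (P.cons (P.lf 0 31846 0) P.nil) P.nil)))))) 7633)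
 (EL.cons 1 (TM.mk (P.cons (P.cons (P.lf 465275055 0 0) (P.cons (P.lf 0 7775748 0) (P.cons (P.lf 0 3815070 0) (P.cons (P.lf 117648 0 0) (P.cons (P.lf 7237 0 0) (P.cons (P.lf 0 352 0) P.nil)))))) (P.cons (P.cons (P.lf 0 61721323 0) (P.cons (P.lf 706263 0 0) (P.cons (P.lf 347878 0 0) (P.cons (P.lf 0 9341 0) (P.cons (P.lf 0 354 0) P.nil))))) (P.cons (P.cons (P.lf 0 17379858 0) (P.cons (P.lf 291888 0 0) (P.cons (P.lf 143261 0 0) (P.cons (P.lf 0 4365 0) P.nil)))) (P.cons (P.cons (P.lf 1523141 0 0) (P.cons (P.lf 0 7659 0) (P.cons (P.lf 0 3825 0) P.nil))) (P.cons (P.cons (P.lf 235312 0 0) (P.cons (P.lf 0 3665 0) P.nil)) (P.cons (P.cons (P.lf 0 16567 0) P.nil) P.nil)))))) 6065)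
 (EL.cons 5 (TM.mk (P.cons (P.cons (P.lf 848100390 0 0) (P.cons (P.lf 0 14173584 0) (P.cons (P.lf 0 6954088 0) (P.cons (P.lf 214450 0 0) (P.cons (P.lf 13194 0 0) (P.cons (P.lf 0 642 0) P.nil)))))) (P.cons (P.cons (P.lf 70849370 0 0) (P.cons (P.lf 0 1776872 0) (P.cons (P.lf 0 869320 0) (P.cons (P.lf 29332 0 0) (P.cons (P.lf 2204 0 0) P.nil))))) (P.cons (P.cons (P.lf 0 19260940 0) (P.cons (P.lf 196338 0 0) (P.cons (P.lf 96960 0 0) (P.cons (P.lf 0 2348 0) P.nil)))) (P.cons (P.cons (P.lf 0 1396944 0) (P.cons (P.lf 30664 0 0) (P.cons (P.lf 15046 0 0) P.nil))) (P.cons (P.cons (P.lf 206510 0 0) (P.cons (P.lf 0 1118 0) P.nil)) (P.cons (P.cons (P.lf 13768 0 0) P.nil) P.nil)))))) 5562)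
 EL.nil)))
noncomputable def S212_227_216_253_6 : EL := (EL.cons 12 (TM.mk (P.lf 8589934592 0 0) 0)
 (EL.cons 3 (TM.mk (P.cons (P.lf 0 1119737460 0) (P.cons (P.lf 218679686 0 0) (P.cons (P.lf 3398598 0 0) (P.cons (P.lf 0 194190 0) (P.cons (P.lf 0 5531 0) (P.cons (P.lf 146 0 0) P.nil)))))) 52)
 (EL.cons 7 (TM.mk (P.cons (P.lf 0 2041050269 0) (P.cons (P.lf 0 42655831 0) (P.cons (P.lf 3948043 0 0) (P.cons (P.lf 84836 0 0) (P.cons (P.lf 0 3266 0) (P.cons (P.lf 0 122 0) P.nil)))))) 52)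
 EL.nil)))
noncomputable def S212_227_216_253_7 : EL := (EL.cons 12 (TM.mk (P.cons (P.cons (P.lf 5679691154 0 0) (P.cons (P.lf 0 47459944 0) (P.cons (P.lf 0 23483904 0) (P.lf 521856 0 0)))) (P.cons (P.cons (P.lf 118537922 0 0) (P.cons (P.lf 0 2975584 0) (P.cons (P.lf 0 1472360 0) (P.lf 32712 0 0)))) (P.cons (P.cons (P.lf 0 60940468 0) (P.cons (P.lf 213216 0 0) (P.cons (P.lf 105504 0 0) (P.lf 0 2344 0)))) (P.cons (P.cons (P.lf 0 37822 0) (P.cons (P.lf 16992 0 0) (P.cons (P.lf 8400 0 0) P.nil))) (P.cons (P.cons (P.lf 219862 0 0) (P.cons (P.lf 0 384 0) P.nil)) (P.cons (P.cons (P.lf 2406 0 0) P.nil) P.nil)))))) 2306)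
 (EL.cons 3 (TM.mk (P.cons (P.cons (P.lf 0 1008684 0) (P.cons (P.lf 0 12373242 0) (P.cons (P.lf 0 6122468 0) (P.lf 136050 0 0)))) (P.cons (P.cons (P.lf 0 623154977 0) (P.cons (P.lf 1640674 0 0) (P.cons (P.lf 811830 0 0) (P.lf 0 18040 0)))) (P.cons (P.cons (P.lf 3541112 0 0) (P.cons (P.lf 244644 0 0) (P.cons (P.lf 121052 0 0) (P.lf 0 2688 0)))) (P.cons (P.cons (P.lf 4687411 0 0) (P.cons (P.lf 0 6214 0) (P.cons (P.lf 0 3076 0) P.nil))) (P.cons (P.cons (P.lf 74699 0 0) (P.cons (P.lf 0 1328 0) P.nil)) (P.cons (P.cons (P.lf 0 16359 0) P.nil) P.nil)))))) 4519)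
 (EL.cons 7 (TM.mk (P.cons (P.cons (P.lf 0 1493769871 0) (P.cons (P.lf 14897244 0 0) (P.cons (P.lf 7371386 0 0) (P.lf 0 163813 0)))) (P.cons (P.cons (P.lf 121553099 0 0) (P.cons (P.lf 0 320030 0) (P.cons (P.lf 0 158351 0) (P.lf 3517 0 0)))) (P.cons (P.cons (P.lf 0 13830280 0) (P.cons (P.lf 0 13128 0) (P.cons (P.lf 0 6497 0) (P.lf 145 0 0)))) (P.cons (P.cons (P.lf 0 676307 0) (P.cons (P.lf 7723 0 0) (P.cons (P.lf 3820 0 0) P.nil))) (P.cons (P.cons (P.lf 124152 0 0) (P.cons (P.lf 6 0 0) P.nil)) (P.cons (P.cons (P.lf 4075 0 0) P.nil) P.nil)))))) 4376)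
 (EL.cons 10 (TM.mk (P.cons (P.cons (P.lf 0 294749433 0) (P.cons (P.lf 0 298459131 0) (P.cons (P.lf 3252726 0 0) (P.cons (P.lf 446391 0 0) (P.lf 0 7437 0))))) (P.cons (P.cons (P.lf 0 12319911 0) (P.cons (P.lf 0 12474969 0) (P.cons (P.lf 135957 0 0) (P.cons (P.lf 18657 0 0) (P.lf 0 309 0))))) (P.cons (P.cons (P.lf 1011540 0 0) (P.cons (P.lf 1024272 0 0) (P.cons (P.lf 0 11160 0) (P.cons (P.lf 0 1530 0) P.nil)))) (P.cons (P.cons (P.lf 48333 0 0) (P.cons (P.lf 48939 0 0) (P.cons (P.lf 0 531 0) P.nil))) (P.cons (P.cons (P.lf 0 1533 0) (P.cons (P.lf 0 1551 0) P.nil)) (P.cons (P.cons (P.lf 0 102 0) P.nil) P.nil)))))) 372)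
 EL.nil))))
noncomputable def S212_227_216_253_8 : EL := (EL.cons 12 (TM.mk (P.cons (P.cons (P.lf 3755429246 0 0) (P.cons (P.lf 0 62761320 0) (P.cons (P.lf 0 30793038 0) (P.cons (P.lf 949604 0 0) (P.cons (P.lf 58434 0 0) (P.cons (P.lf 0 2852 0) P.nil)))))) (P.cons (P.cons (P.lf 156755276 0 0) (P.cons (P.lf 0 5244788 0) (P.cons (P.lf 0 2562314 0) (P.cons (P.lf 90200 0 0) (P.cons (P.lf 7326 0 0) P.nil))))) (P.cons (P.cons (P.lf 0 78952268 0) (P.cons (P.lf 873234 0 0) (P.cons (P.lf 430766 0 0) (P.cons (P.lf 0 10912 0) P.nil)))) (P.cons (P.cons (P.lf 0 1731926 0) (P.cons (P.lf 70992 0 0) (P.cons (P.lf 34782 0 0) P.nil))) (P.cons (P.cons (P.lf 722038 0 0) (P.cons (P.lf 0 5466 0) P.nil)) (P.cons (P.cons (P.lf 9786 0 0) P.nil) P.nil)))))) 12468)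
 (EL.cons 3 (TM.mk (P.cons (P.cons (P.lf 488203569 0 0) (P.cons (P.lf 0 24532527 0) (P.cons (P.lf 0 11968157 0) (P.cons (P.lf 438884 0 0) (P.cons (P.lf 38086 0 0) (P.cons (P.lf 0 1855 0) P.nil)))))) (P.cons (P.cons (P.lf 0 899262500 0) (P.cons (P.lf 9628857 0 0) (P.cons (P.lf 4752559 0 0) (P.cons (P.lf 0 117694 0) (P.cons (P.lf 0 2660 0) P.nil))))) (P.cons (P.cons (P.lf 0 28269763 0) (P.cons (P.lf 1209087 0 0) (P.cons (P.lf 592705 0 0) (P.cons (P.lf 0 18796 0) P.nil)))) (P.cons (P.cons (P.lf 16945276 0 0) (P.cons (P.lf 0 122141 0) (P.cons (P.lf 0 60522 0) P.nil))) (P.cons (P.cons (P.lf 358752 0 0) (P.cons (P.lf 0 15433 0) P.nil)) (P.cons (P.cons (P.lf 0 136177 0) P.nil) P.nil)))))) 29126)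
 (EL.cons 7 (TM.mk (P.cons (P.cons (P.lf 0 1083044701 0) (P.cons (P.lf 21293867 0 0) (P.cons (P.lf 10434223 0 0) (P.cons (P.lf 0 335398 0) (P.cons (P.lf 0 22794 0) (P.cons (P.lf 1109 0 0) P.nil)))))) (P.cons (P.cons (P.lf 175410844 0 0) (P.cons (P.lf 0 1878209 0) (P.cons (P.lf 0 927030 0) (P.cons (P.lf 22951 0 0) (P.cons (P.lf 520 0 0) P.nil))))) (P.cons (P.cons (P.lf 0 13447097 0) (P.cons (P.lf 0 32822 0) (P.cons (P.lf 0 15409 0) (P.cons (P.lf 1189 0 0) P.nil)))) (P.cons (P.cons (P.lf 0 3900314 0) (P.cons (P.lf 55673 0 0) (P.cons (P.lf 27409 0 0) P.nil))) (P.cons (P.cons (P.lf 463337 0 0) (P.cons (P.lf 0 1123 0) P.nil)) (P.cons (P.cons (P.lf 31515 0 0) P.nil) P.nil)))))) 20225)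
 (EL.cons 10 (TM.mk (P.cons (P.cons (P.lf 0 389778462 0) (P.cons (P.lf 0 391427166 0) (P.cons (P.lf 9211056 0 0) (P.cons (P.lf 2150460 0 0) (P.cons (P.lf 0 68814 0) (P.cons (P.lf 0 1962 0) P.nil)))))) (P.cons (P.cons (P.lf 0 24426792 0) (P.cons (P.lf 0 24393882 0) (P.cons (P.lf 782592 0 0) (P.cons (P.lf 200016 0 0) (P.cons (P.lf 0 6774 0) P.nil))))) (P.cons (P.cons (P.lf 5179788 0 0) (P.cons (P.lf 5227704 0 0) (P.cons (P.lf 0 83196 0) (P.cons (P.lf 0 16116 0) P.nil)))) (P.cons (P.cons (P.lf 269232 0 0) (P.cons (P.lf 269604 0 0) (P.cons (P.lf 0 7506 0) P.nil))) (P.cons (P.cons (P.lf 0 30024 0) (P.cons (P.lf 0 30390 0) P.nil)) (P.cons (P.cons (P.lf 0 1662 0) P.nil) P.nil)))))) 6564)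
 EL.nil))))
noncomputable def S212_227_216_253_9 : EL := (EL.cons 3 (TM.mk (P.cons (P.lf 0 1119737460 0) (P.cons (P.lf 218679686 0 0) (P.cons (P.lf 3398598 0 0) (P.cons (P.lf 0 194190 0) (P.cons (P.lf 0 5531 0) (P.cons (P.lf 146 0 0) P.nil)))))) 52)
 (EL.cons 7 (TM.mk (P.cons (P.lf 0 2041050269 0) (P.cons (P.lf 0 42655831 0) (P.cons (P.lf 3948043 0 0) (P.cons (P.lf 84836 0 0) (P.cons (P.lf 0 3266 0) (P.cons (P.lf 0 122 0) P.nil)))))) 52)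
 EL.nil))
noncomputable def S212_227_216_253_10 : EL := (EL.cons 3 (TM.mk (P.cons (P.cons (P.lf 0 740373849 0) (P.cons (P.lf 6186621 0 0) (P.cons (P.lf 3061234 0 0) (P.lf 0 68025 0)))) (P.cons (P.cons (P.lf 129139717 0 0) (P.cons (P.lf 0 820337 0) (P.cons (P.lf 0 405915 0) (P.lf 9020 0 0)))) (P.cons (P.cons (P.lf 13208732 0 0) (P.cons (P.lf 0 122322 0) (P.cons (P.lf 0 60526 0) (P.lf 1344 0 0)))) (P.cons (P.cons (P.lf 0 1627970 0) (P.cons (P.lf 3107 0 0) (P.cons (P.lf 1538 0 0) P.nil))) (P.cons (P.cons (P.lf 0 60070 0) (P.cons (P.lf 664 0 0) P.nil)) (P.cons (P.cons (P.lf 6666 0 0) P.nil) P.nil)))))) 1047)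
 (EL.cons 7 (TM.mk (P.cons (P.cons (P.lf 0 1349548711 0) (P.cons (P.lf 11276934 0 0) (P.cons (P.lf 5579999 0 0) (P.lf 0 123997 0)))) (P.cons (P.cons (P.lf 0 56369905 0) (P.cons (P.lf 942703 0 0) (P.cons (P.lf 466462 0 0) (P.lf 0 10364 0)))) (P.cons (P.cons (P.lf 16501859 0 0) (P.cons (P.lf 0 57699 0) (P.cons (P.lf 0 28550 0) (P.lf 634 0 0)))) (P.cons (P.cons (P.lf 422179 0 0) (P.cons (P.lf 0 6932 0) (P.cons (P.lf 0 3428 0) P.nil))) (P.cons (P.cons (P.lf 0 81051 0) (P.cons (P.lf 93 0 0) P.nil)) (P.cons (P.cons (P.lf 0 2408 0) P.nil) P.nil)))))) 925)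
 EL.nil))
noncomputable def S212_227_216_253_11 : EL := (EL.cons 3 (TM.mk (P.cons (P.cons (P.lf 0 489537465 0) (P.cons (P.lf 8181225 0 0) (P.cons (P.lf 4014013 0 0) (P.cons (P.lf 0 123784 0) (P.cons (P.lf 0 7616 0) (P.cons (P.lf 371 0 0) P.nil)))))) (P.cons (P.cons (P.lf 75170692 0 0) (P.cons (P.lf 0 914073 0) (P.cons (P.lf 0 449909 0) (P.cons (P.lf 12416 0 0) (P.cons (P.lf 532 0 0) P.nil))))) (P.cons (P.cons (P.lf 15768245 0 0) (P.cons (P.lf 0 272181 0) (P.cons (P.lf 0 133565 0) (P.cons (P.lf 4094 0 0) P.nil)))) (P.cons (P.cons (P.lf 0 1807052 0) (P.cons (P.lf 12319 0 0) (P.cons (P.lf 6114 0 0) P.nil))) (P.cons (P.cons (P.lf 0 175410 0) (P.cons (P.lf 3023 0 0) P.nil)) (P.cons (P.cons (P.lf 18167 0 0) P.nil) P.nil)))))) 4648)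
 (EL.cons 7 (TM.mk (P.cons (P.cons (P.lf 0 892325755 0) (P.cons (P.lf 14912687 0 0) (P.cons (P.lf 7316719 0 0) (P.cons (P.lf 0 225634 0) (P.cons (P.lf 0 13884 0) (P.cons (P.lf 677 0 0) P.nil)))))) (P.cons (P.cons (P.lf 0 55895228 0) (P.cons (P.lf 1557871 0 0) (P.cons (P.lf 761742 0 0) (P.cons (P.lf 0 26147 0) (P.cons (P.lf 0 2030 0) P.nil))))) (P.cons (P.cons (P.lf 19707439 0 0) (P.cons (P.lf 0 210290 0) (P.cons (P.lf 0 103783 0) (P.cons (P.lf 2581 0 0) P.nil)))) (P.cons (P.cons (P.lf 912718 0 0) (P.cons (P.lf 0 24235 0) (P.cons (P.lf 0 11885 0) P.nil))) (P.cons (P.cons (P.lf 0 199129 0) (P.cons (P.lf 1319 0 0) P.nil)) (P.cons (P.cons (P.lf 0 7599 0) P.nil) P.nil)))))) 4219)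
 EL.nil))
noncomputable def S212_227_216_253_12 : EL := (EL.cons 4 (TM.mk (P.cons (P.lf 1119737460 0 0) (P.cons (P.lf 0 218679686 0) (P.cons (P.lf 0 3398598 0) (P.cons (P.lf 194190 0 0) (P.cons (P.lf 5531 0 0) (P.cons (P.lf 0 146 0) P.nil)))))) 52)
 (EL.cons 8 (TM.mk (P.cons (P.lf 2041050269 0 0) (P.cons (P.lf 42655831 0 0) (P.cons (P.lf 0 3948043 0) (P.cons (P.lf 0 84836 0) (P.cons (P.lf 3266 0 0) (P.cons (P.lf 122 0 0) P.nil)))))) 52)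
 EL.nil))
noncomputable def S212_227_216_253_13 : EL := (EL.cons 4 (TM.mk (P.cons (P.cons (P.lf 740373849 0 0) (P.cons (P.lf 0 6186621 0) (P.cons (P.lf 0 3061234 0) (P.lf 68025 0 0)))) (P.cons (P.cons (P.lf 0 129139717 0) (P.cons (P.lf 820337 0 0) (P.cons (P.lf 405915 0 0) (P.lf 0 9020 0)))) (P.cons (P.cons (P.lf 0 13208732 0) (P.cons (P.lf 122322 0 0) (P.cons (P.lf 60526 0 0) (P.lf 0 1344 0)))) (P.cons (P.cons (P.lf 1627970 0 0) (P.cons (P.lf 0 3107 0) (P.cons (P.lf 0 1538 0) P.nil))) (P.cons (P.cons (P.lf 60070 0 0) (P.cons (P.lf 0 664 0) P.nil)) (P.cons (P.cons (P.lf 0 6666 0) P.nil) P.nil)))))) 1047)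
 (EL.cons 8 (TM.mk (P.cons (P.cons (P.lf 1349548711 0 0) (P.cons (P.lf 0 11276934 0) (P.cons (P.lf 0 5579999 0) (P.lf 123997 0 0)))) (P.cons (P.cons (P.lf 56369905 0 0) (P.cons (P.lf 0 942703 0) (P.cons (P.lf 0 466462 0) (P.lf 10364 0 0)))) (P.cons (P.cons (P.lf 0 16501859 0) (P.cons (P.lf 57699 0 0) (P.cons (P.lf 28550 0 0) (P.lf 0 634 0)))) (P.cons (P.cons (P.lf 0 422179 0) (P.cons (P.lf 6932 0 0) (P.cons (P.lf 3428 0 0) P.nil))) (P.cons (P.cons (P.lf 81051 0 0) (P.cons (P.lf 0 93 0) P.nil)) (P.cons (P.cons (P.lf 2408 0 0) P.nil) P.nil)))))) 925)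
 EL.nil))
noncomputable def S212_227_216_253_14 : EL := (EL.cons 4 (TM.mk (P.cons (P.cons (P.lf 489537465 0 0) (P.cons (P.lf 0 8181225 0) (P.cons (P.lf 0 4014013 0) (P.cons (P.lf 123784 0 0) (P.cons (P.lf 7616 0 0) (P.cons (P.lf 0 371 0) P.nil)))))) (P.cons (P.cons (P.lf 0 75170692 0) (P.cons (P.lf 914073 0 0) (P.cons (P.lf 449909 0 0) (P.cons (P.lf 0 12416 0) (P.cons (P.lf 0 532 0) P.nil))))) (P.cons (P.cons (P.lf 0 15768245 0) (P.cons (P.lf 272181 0 0) (P.cons (P.lf 133565 0 0) (P.cons (P.lf 0 4094 0) P.nil)))) (P.cons (P.cons (P.lf 1807052 0 0) (P.cons (P.lf 0 12319 0) (P.cons (P.lf 0 6114 0) P.nil))) (P.cons (P.cons (P.lf 175410 0 0) (P.cons (P.lf 0 3023 0) P.nil)) (P.cons (P.cons (P.lf 0 18167 0) P.nil) P.nil)))))) 4648)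
 (EL.cons 8 (TM.mk (P.cons (P.cons (P.lf 892325755 0 0) (P.cons (P.lf 0 14912687 0) (P.cons (P.lf 0 7316719 0) (P.cons (P.lf 225634 0 0) (P.cons (P.lf 13884 0 0) (P.cons (P.lf 0 677 0) P.nil)))))) (P.cons (P.cons (P.lf 55895228 0 0) (P.cons (P.lf 0 1557871 0) (P.cons (P.lf 0 761742 0) (P.cons (P.lf 26147 0 0) (P.cons (P.lf 2030 0 0) P.nil))))) (P.cons (P.cons (P.lf 0 19707439 0) (P.cons (P.lf 210290 0 0) (P.cons (P.lf 103783 0 0) (P.cons (P.lf 0 2581 0) P.nil)))) (P.cons (P.cons (P.lf 0 912718 0) (P.cons (P.lf 24235 0 0) (P.cons (P.lf 11885 0 0) P.nil))) (P.cons (P.cons (P.lf 199129 0 0) (P.cons (P.lf 0 1319 0) P.nil)) (P.cons (P.cons (P.lf 7599 0 0) P.nil) P.nil)))))) 4219)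
 EL.nil))
noncomputable def S212_227_216_253_15 : EL := (EL.cons 4 (TM.mk (P.cons (P.lf 0 311387573 0) (P.cons (P.lf 121625182 0 0) (P.cons (P.lf 0 9986193 0) (P.cons (P.lf 0 477157 0) (P.cons (P.lf 15147 0 0) (P.cons (P.lf 1009 0 0) P.nil)))))) 78)
 (EL.cons 8 (TM.mk (P.cons (P.lf 0 567595274 0) (P.cons (P.lf 98986650 0 0) (P.cons (P.lf 5137286 0 0) (P.cons (P.lf 0 253256 0) (P.cons (P.lf 0 13708 0) (P.cons (P.lf 277 0 0) P.nil)))))) 68)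
 EL.nil))
noncomputable def S212_227_216_253_16 : EL := (EL.cons 4 (TM.mk (P.cons (P.cons (P.lf 0 205890420 0) (P.cons (P.lf 1720436 0 0) (P.cons (P.lf 851297 0 0) (P.lf 0 18916 0)))) (P.cons (P.cons (P.lf 76121910 0 0) (P.cons (P.lf 0 564120 0) (P.cons (P.lf 0 279135 0) (P.lf 6202 0 0)))) (P.cons (P.cons (P.lf 0 2715409 0) (P.cons (P.lf 5313 0 0) (P.cons (P.lf 2628 0 0) (P.lf 0 58 0)))) (P.cons (P.cons (P.lf 0 1314790 0) (P.cons (P.lf 8498 0 0) (P.cons (P.lf 4204 0 0) P.nil))) (P.cons (P.cons (P.lf 65771 0 0) (P.cons (P.lf 88 0 0) P.nil)) (P.cons (P.cons (P.lf 7331 0 0) P.nil) P.nil)))))) 1183)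
 (EL.cons 8 (TM.mk (P.cons (P.cons (P.lf 0 375295739 0) (P.cons (P.lf 3136000 0 0) (P.cons (P.lf 1551740 0 0) (P.lf 0 34482 0)))) (P.cons (P.cons (P.lf 57617672 0 0) (P.cons (P.lf 0 350290 0) (P.cons (P.lf 0 173329 0) (P.lf 3851 0 0)))) (P.cons (P.cons (P.lf 8789518 0 0) (P.cons (P.lf 0 76761 0) (P.cons (P.lf 0 37982 0) (P.lf 843 0 0)))) (P.cons (P.cons (P.lf 0 796312 0) (P.cons (P.lf 953 0 0) (P.cons (P.lf 472 0 0) P.nil))) (P.cons (P.cons (P.lf 0 63968 0) (P.cons (P.lf 512 0 0) P.nil)) (P.cons (P.cons (P.lf 4143 0 0) P.nil) P.nil)))))) 882)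
 EL.nil))
noncomputable def S212_227_216_253_17 : EL := (EL.cons 4 (TM.mk (P.cons (P.cons (P.lf 0 136135378 0) (P.cons (P.lf 2275115 0 0) (P.cons (P.lf 1116255 0 0) (P.cons (P.lf 0 34423 0) (P.cons (P.lf 0 2117 0) (P.cons (P.lf 103 0 0) P.nil)))))) (P.cons (P.cons (P.lf 47490829 0 0) (P.cons (P.lf 0 698514 0) (P.cons (P.lf 0 343114 0) (P.cons (P.lf 10175 0 0) (P.cons (P.lf 561 0 0) P.nil))))) (P.cons (P.cons (P.lf 715685 0 0) (P.cons (P.lf 0 32953 0) (P.cons (P.lf 0 16096 0) (P.cons (P.lf 568 0 0) P.nil)))) (P.cons (P.cons (P.lf 0 1445948 0) (P.cons (P.lf 19373 0 0) (P.cons (P.lf 9526 0 0) P.nil))) (P.cons (P.cons (P.lf 39003 0 0) (P.cons (P.lf 368 0 0) P.nil)) (P.cons (P.cons (P.lf 16984 0 0) P.nil) P.nil)))))) 4081)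
 (EL.cons 8 (TM.mk (P.cons (P.cons (P.lf 0 248146696 0) (P.cons (P.lf 4147066 0 0) (P.cons (P.lf 2034704 0 0) (P.cons (P.lf 0 62746 0) (P.cons (P.lf 0 3860 0) (P.cons (P.lf 188 0 0) P.nil)))))) (P.cons (P.cons (P.lf 32918039 0 0) (P.cons (P.lf 0 376674 0) (P.cons (P.lf 0 185535 0) (P.cons (P.lf 4982 0 0) (P.cons (P.lf 189 0 0) P.nil))))) (P.cons (P.cons (P.lf 9269258 0 0) (P.cons (P.lf 0 155674 0) (P.cons (P.lf 0 76406 0) (P.cons (P.lf 2328 0 0) P.nil)))) (P.cons (P.cons (P.lf 0 812342 0) (P.cons (P.lf 4085 0 0) (P.cons (P.lf 2040 0 0) P.nil))) (P.cons (P.cons (P.lf 0 125500 0) (P.cons (P.lf 1955 0 0) P.nil)) (P.cons (P.cons (P.lf 8836 0 0) P.nil) P.nil)))))) 3223)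
 EL.nil))
noncomputable def S212_227_216_253_18 : EL := (EL.cons 4 (TM.mk (P.cons (P.lf 86593710 0 0) (P.cons (P.lf 0 50734084 0) (P.cons (P.lf 9119656 0 0) (P.cons (P.lf 0 291978 0) (P.cons (P.lf 0 43993 0) (P.cons (P.lf 441 0 0) P.nil)))))) 153)
 (EL.cons 8 (TM.mk (P.cons (P.lf 157842459 0 0) (P.cons (P.lf 0 58353100 0) (P.cons (P.lf 3468227 0 0) (P.cons (P.lf 460355 0 0) (P.cons (P.lf 0 9599 0) (P.cons (P.lf 0 1439 0) P.nil)))))) 99)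
 EL.nil))
noncomputable def S212_227_216_253_19 : EL := (EL.cons 4 (TM.mk (P.cons (P.cons (P.lf 57256026 0 0) (P.cons (P.lf 0 478435 0) (P.cons (P.lf 0 236736 0) (P.lf 5260 0 0)))) (P.cons (P.cons (P.lf 0 32350571 0) (P.cons (P.lf 250312 0 0) (P.cons (P.lf 123857 0 0) (P.lf 0 2751 0)))) (P.cons (P.cons (P.lf 4715502 0 0) (P.cons (P.lf 0 30662 0) (P.cons (P.lf 0 15171 0) (P.lf 336 0 0)))) (P.cons (P.cons (P.lf 292336 0 0) (P.cons (P.lf 0 2633 0) (P.cons (P.lf 0 1303 0) P.nil))) (P.cons (P.cons (P.lf 0 95375 0) (P.cons (P.lf 465 0 0) P.nil)) (P.cons (P.cons (P.lf 441 0 0) P.nil) P.nil)))))) 1233)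
 (EL.cons 8 (TM.mk (P.cons (P.cons (P.lf 104365919 0 0) (P.cons (P.lf 0 872089 0) (P.cons (P.lf 0 431523 0) (P.lf 9588 0 0)))) (P.cons (P.cons (P.lf 0 36405081 0) (P.cons (P.lf 267727 0 0) (P.cons (P.lf 132475 0 0) (P.lf 0 2943 0)))) (P.cons (P.cons (P.lf 368153 0 0) (P.cons (P.lf 4969 0 0) (P.cons (P.lf 2459 0 0) (P.lf 0 54 0)))) (P.cons (P.cons (P.lf 765533 0 0) (P.cons (P.lf 0 4881 0) (P.cons (P.lf 0 2414 0) P.nil))) (P.cons (P.cons (P.lf 0 20302 0) (P.cons (P.lf 0 142 0) P.nil)) (P.cons (P.cons (P.lf 0 5814 0) P.nil) P.nil)))))) 886)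
 EL.nil))
noncomputable def S212_227_216_253_20 : EL := (EL.cons 4 (TM.mk (P.cons (P.cons (P.lf 37857860 0 0) (P.cons (P.lf 0 632685 0) (P.cons (P.lf 0 310419 0) (P.cons (P.lf 9571 0 0) (P.cons (P.lf 588 0 0) (P.cons (P.lf 0 28 0) P.nil)))))) (P.cons (P.cons (P.lf 0 20600185 0) (P.cons (P.lf 317809 0 0) (P.cons (P.lf 156040 0 0) (P.cons (P.lf 0 4698 0) (P.cons (P.lf 0 270 0) P.nil))))) (P.cons (P.cons (P.lf 2265281 0 0) (P.cons (P.lf 0 26850 0) (P.cons (P.lf 0 13215 0) (P.cons (P.lf 364 0 0) P.nil)))) (P.cons (P.cons (P.lf 487621 0 0) (P.cons (P.lf 0 7875 0) (P.cons (P.lf 0 3867 0) P.nil))) (P.cons (P.cons (P.lf 0 90874 0) (P.cons (P.lf 951 0 0) P.nil)) (P.cons (P.cons (P.lf 0 3930 0) P.nil) P.nil)))))) 3179)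
 (EL.cons 8 (TM.mk (P.cons (P.cons (P.lf 69007066 0 0) (P.cons (P.lf 0 1153256 0) (P.cons (P.lf 0 565830 0) (P.cons (P.lf 17449 0 0) (P.cons (P.lf 1073 0 0) (P.cons (P.lf 0 52 0) P.nil)))))) (P.cons (P.cons (P.lf 0 22630940 0) (P.cons (P.lf 329975 0 0) (P.cons (P.lf 162099 0 0) (P.cons (P.lf 0 4793 0) (P.cons (P.lf 0 262 0) P.nil))))) (P.cons (P.cons (P.lf 0 999366 0) (P.cons (P.lf 26334 0 0) (P.cons (P.lf 12888 0 0) (P.cons (P.lf 0 429 0) P.nil)))) (P.cons (P.cons (P.lf 769066 0 0) (P.cons (P.lf 0 10108 0) (P.cons (P.lf 0 4971 0) P.nil))) (P.cons (P.cons (P.lf 0 2640 0) (P.cons (P.lf 0 440 0) P.nil)) (P.cons (P.cons (P.lf 0 10459 0) P.nil) P.nil)))))) 2586)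
 EL.nil))
noncomputable def S212_227_216_253_21 : EL := (EL.cons 4 (TM.mk (P.cons (P.cons (P.lf 0 739365165 0) (P.cons (P.lf 18559863 0 0) (P.cons (P.lf 9183702 0 0) (P.lf 0 204075 0)))) (P.cons (P.cons (P.lf 752294694 0 0) (P.cons (P.lf 0 2461011 0) (P.cons (P.lf 0 1217745 0) (P.lf 27060 0 0)))) (P.cons (P.cons (P.lf 9667620 0 0) (P.cons (P.lf 0 366966 0) (P.cons (P.lf 0 181578 0) (P.lf 4032 0 0)))) (P.cons (P.cons (P.lf 0 6315381 0) (P.cons (P.lf 9321 0 0) (P.cons (P.lf 4614 0 0) P.nil))) (P.cons (P.cons (P.lf 0 134769 0) (P.cons (P.lf 1992 0 0) P.nil)) (P.cons (P.cons (P.lf 23025 0 0) P.nil) P.nil)))))) 3453)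
 (EL.cons 8 (TM.mk (P.cons (P.cons (P.lf 144221160 0 0) (P.cons (P.lf 0 3620310 0) (P.cons (P.lf 0 1791387 0) (P.lf 39816 0 0)))) (P.cons (P.cons (P.lf 0 177923004 0) (P.cons (P.lf 1262733 0 0) (P.cons (P.lf 624813 0 0) (P.lf 0 13881 0)))) (P.cons (P.cons (P.lf 30332139 0 0) (P.cons (P.lf 0 44571 0) (P.cons (P.lf 0 22053 0) (P.lf 489 0 0)))) (P.cons (P.cons (P.lf 1098486 0 0) (P.cons (P.lf 0 14655 0) (P.cons (P.lf 0 7248 0) P.nil))) (P.cons (P.cons (P.lf 0 205203 0) (P.cons (P.lf 87 0 0) P.nil)) (P.cons (P.cons (P.lf 0 6483 0) P.nil) P.nil)))))) 3432)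
 (EL.cons 11 (TM.mk (P.cons (P.cons (P.lf 294749433 0 0) (P.cons (P.lf 298459131 0 0) (P.cons (P.lf 0 3252726 0) (P.cons (P.lf 0 446391 0) (P.lf 7437 0 0))))) (P.cons (P.cons (P.lf 12319911 0 0) (P.cons (P.lf 12474969 0 0) (P.cons (P.lf 0 135957 0) (P.cons (P.lf 0 18657 0) (P.lf 309 0 0))))) (P.cons (P.cons (P.lf 0 1011540 0) (P.cons (P.lf 0 1024272 0) (P.cons (P.lf 11160 0 0) (P.cons (P.lf 1530 0 0) P.nil)))) (P.cons (P.cons (P.lf 0 48333 0) (P.cons (P.lf 0 48939 0) (P.cons (P.lf 531 0 0) P.nil))) (P.cons (P.cons (P.lf 1533 0 0) (P.cons (P.lf 1551 0 0) P.nil)) (P.cons (P.cons (P.lf 102 0 0) P.nil) P.nil)))))) 372)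
 EL.nil)))
noncomputable def S212_227_216_253_22 : EL := (EL.cons 4 (TM.mk (P.cons (P.cons (P.lf 0 488870517 0) (P.cons (P.lf 16356876 0 0) (P.cons (P.lf 7991085 0 0) (P.cons (P.lf 0 281334 0) (P.cons (P.lf 0 22851 0) (P.cons (P.lf 1113 0 0) P.nil)))))) (P.cons (P.cons (P.lf 487216596 0 0) (P.cons (P.lf 0 5271465 0) (P.cons (P.lf 0 2601234 0) (P.cons (P.lf 65055 0 0) (P.cons (P.lf 1596 0 0) P.nil))))) (P.cons (P.cons (P.lf 22019004 0 0) (P.cons (P.lf 0 740634 0) (P.cons (P.lf 0 363135 0) (P.cons (P.lf 11445 0 0) P.nil)))) (P.cons (P.cons (P.lf 0 9376164 0) (P.cons (P.lf 67230 0 0) (P.cons (P.lf 33318 0 0) P.nil))) (P.cons (P.cons (P.lf 0 267081 0) (P.cons (P.lf 9228 0 0) P.nil)) (P.cons (P.cons (P.lf 77172 0 0) P.nil) P.nil)))))) 12228)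
 (EL.cons 8 (TM.mk (P.cons (P.cons (P.lf 95359473 0 0) (P.cons (P.lf 0 3190590 0) (P.cons (P.lf 0 1558752 0) (P.cons (P.lf 54882 0 0) (P.cons (P.lf 4455 0 0) (P.cons (P.lf 0 216 0) P.nil)))))) (P.cons (P.cons (P.lf 0 115653036 0) (P.cons (P.lf 1718040 0 0) (P.cons (P.lf 844386 0 0) (P.cons (P.lf 0 24549 0) (P.cons (P.lf 0 1275 0) P.nil))))) (P.cons (P.cons (P.lf 16577268 0 0) (P.cons (P.lf 0 88734 0) (P.cons (P.lf 0 44187 0) (P.cons (P.lf 696 0 0) P.nil)))) (P.cons (P.cons (P.lf 2406516 0 0) (P.cons (P.lf 0 39954 0) (P.cons (P.lf 0 19647 0) P.nil))) (P.cons (P.cons (P.lf 0 331233 0) (P.cons (P.lf 1221 0 0) P.nil)) (P.cons (P.cons (P.lf 0 19557 0) P.nil) P.nil)))))) 7992)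
 (EL.cons 11 (TM.mk (P.cons (P.cons (P.lf 194889231 0 0) (P.cons (P.lf 195713583 0 0) (P.cons (P.lf 0 4605528 0) (P.cons (P.lf 0 1075230 0) (P.cons (P.lf 34407 0 0) (P.cons (P.lf 981 0 0) P.nil)))))) (P.cons (P.cons (P.lf 12213396 0 0) (P.cons (P.lf 12196941 0 0) (P.cons (P.lf 0 391296 0) (P.cons (P.lf 0 100008 0) (P.cons (P.lf 3387 0 0) P.nil))))) (P.cons (P.cons (P.lf 0 2589894 0) (P.cons (P.lf 0 2613852 0) (P.cons (P.lf 41598 0 0) (P.cons (P.lf 8058 0 0) P.nil)))) (P.cons (P.cons (P.lf 0 134616 0) (P.cons (P.lf 0 134802 0) (P.cons (P.lf 3753 0 0) P.nil))) (P.cons (P.cons (P.lf 15012 0 0) (P.cons (P.lf 15195 0 0) P.nil)) (P.cons (P.cons (P.lf 831 0 0) P.nil) P.nil)))))) 3282)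
 EL.nil)))
noncomputable def S212_227_216_253_23 : EL := (EL.cons 4 (TM.mk (P.cons (P.cons (P.lf 205609914 0 0) (P.cons (P.lf 0 5161308 0) (P.cons (P.lf 0 2553891 0) (P.lf 56751 0 0)))) (P.cons (P.cons (P.lf 0 249360174 0) (P.cons (P.lf 1692360 0 0) (P.cons (P.lf 837405 0 0) (P.lf 0 18606 0)))) (P.cons (P.cons (P.lf 37544361 0 0) (P.cons (P.lf 0 15939 0) (P.cons (P.lf 0 7887 0) (P.lf 174 0 0)))) (P.cons (P.cons (P.lf 2951919 0 0) (P.cons (P.lf 0 25494 0) (P.cons (P.lf 0 12615 0) P.nil))) (P.cons (P.cons (P.lf 0 332613 0) (P.cons (P.lf 0 264 0) P.nil)) (P.cons (P.cons (P.lf 0 20577 0) P.nil) P.nil)))))) 3858)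
 (EL.cons 8 (TM.mk (P.cons (P.cons (P.lf 0 40106433 0) (P.cons (P.lf 1006770 0 0) (P.cons (P.lf 498165 0 0) (P.lf 0 11070 0)))) (P.cons (P.cons (P.lf 57311178 0 0) (P.cons (P.lf 0 547770 0) (P.cons (P.lf 0 271041 0) (P.lf 6021 0 0)))) (P.cons (P.cons (P.lf 0 17976270 0) (P.cons (P.lf 77916 0 0) (P.cons (P.lf 38553 0 0) (P.lf 0 855 0)))) (P.cons (P.cons (P.lf 1184718 0 0) (P.cons (P.lf 2895 0 0) (P.cons (P.lf 1431 0 0) P.nil))) (P.cons (P.cons (P.lf 150705 0 0) (P.cons (P.lf 0 912 0) P.nil)) (P.cons (P.cons (P.lf 0 9627 0) P.nil) P.nil)))))) 2364)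
 (EL.cons 11 (TM.mk (P.cons (P.cons (P.lf 0 81966810 0) (P.cons (P.lf 0 82998441 0) (P.cons (P.lf 904548 0 0) (P.cons (P.lf 124134 0 0) (P.lf 0 2067 0))))) (P.cons (P.cons (P.lf 12581706 0 0) (P.cons (P.lf 12740058 0 0) (P.cons (P.lf 0 138846 0) (P.cons (P.lf 0 19053 0) (P.lf 315 0 0))))) (P.cons (P.cons (P.lf 1199172 0 0) (P.cons (P.lf 1214265 0 0) (P.cons (P.lf 0 13230 0) (P.cons (P.lf 0 1815 0) P.nil)))) (P.cons (P.cons (P.lf 0 45309 0) (P.cons (P.lf 0 45882 0) (P.cons (P.lf 498 0 0) P.nil))) (P.cons (P.cons (P.lf 0 4902 0) (P.cons (P.lf 0 4965 0) P.nil)) (P.cons (P.cons (P.lf 54 0 0) P.nil) P.nil)))))) 609)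
 EL.nil)))
noncomputable def S212_227_216_253_24 : EL := (EL.cons 4 (TM.mk (P.cons (P.cons (P.lf 135949908 0 0) (P.cons (P.lf 0 4548681 0) (P.cons (P.lf 0 2222238 0) (P.cons (P.lf 78234 0 0) (P.cons (P.lf 6354 0 0) (P.cons (P.lf 0 309 0) P.nil)))))) (P.cons (P.cons (P.lf 0 162040374 0) (P.cons (P.lf 2354277 0 0) (P.cons (P.lf 1157370 0 0) (P.cons (P.lf 0 33369 0) (P.cons (P.lf 0 1683 0) P.nil))))) (P.cons (P.cons (P.lf 19924686 0 0) (P.cons (P.lf 0 66522 0) (P.cons (P.lf 0 33543 0) (P.cons (P.lf 111 0 0) P.nil)))) (P.cons (P.cons (P.lf 4238073 0 0) (P.cons (P.lf 0 64158 0) (P.cons (P.lf 0 31566 0) P.nil))) (P.cons (P.cons (P.lf 0 439182 0) (P.cons (P.lf 690 0 0) P.nil)) (P.cons (P.cons (P.lf 0 45627 0) P.nil) P.nil)))))) 11700)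
 (EL.cons 8 (TM.mk (P.cons (P.cons (P.lf 0 26518497 0) (P.cons (P.lf 887268 0 0) (P.cons (P.lf 433473 0 0) (P.cons (P.lf 0 15261 0) (P.cons (P.lf 0 1239 0) (P.cons (P.lf 60 0 0) P.nil)))))) (P.cons (P.cons (P.lf 37340874 0 0) (P.cons (P.lf 0 651048 0) (P.cons (P.lf 0 319470 0) (P.cons (P.lf 9807 0 0) (P.cons (P.lf 594 0 0) P.nil))))) (P.cons (P.cons (P.lf 0 10810560 0) (P.cons (P.lf 115287 0 0) (P.cons (P.lf 56829 0 0) (P.cons (P.lf 0 1479 0) P.nil)))) (P.cons (P.cons (P.lf 128862 0 0) (P.cons (P.lf 7893 0 0) (P.cons (P.lf 3849 0 0) P.nil))) (P.cons (P.cons (P.lf 242247 0 0) (P.cons (P.lf 0 2661 0) P.nil)) (P.cons (P.cons (P.lf 0 11154 0) P.nil) P.nil)))))) 5415)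
 (EL.cons 11 (TM.mk (P.cons (P.cons (P.lf 0 54196707 0) (P.cons (P.lf 0 54425952 0) (P.cons (P.lf 1280748 0 0) (P.cons (P.lf 299010 0 0) (P.cons (P.lf 0 9567 0) (P.cons (P.lf 0 270 0) P.nil)))))) (P.cons (P.cons (P.lf 7187952 0 0) (P.cons (P.lf 7237296 0 0) (P.cons (P.lf 0 141309 0) (P.cons (P.lf 0 30582 0) (P.cons (P.lf 924 0 0) P.nil))))) (P.cons (P.cons (P.lf 1548024 0 0) (P.cons (P.lf 1554489 0 0) (P.cons (P.lf 0 36705 0) (P.cons (P.lf 0 8580 0) P.nil)))) (P.cons (P.cons (P.lf 0 102309 0) (P.cons (P.lf 0 103614 0) (P.cons (P.lf 1104 0 0) P.nil))) (P.cons (P.cons (P.lf 0 14526 0) (P.cons (P.lf 0 14610 0) P.nil)) (P.cons (P.cons (P.lf 585 0 0) P.nil) P.nil)))))) 3240)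
 EL.nil)))
noncomputable def S212_227_216_253_25 : EL := (EL.cons 4 (TM.mk (P.cons (P.cons (P.lf 0 57178020 0) (P.cons (P.lf 1435305 0 0) (P.cons (P.lf 710211 0 0) (P.lf 0 15780 0)))) (P.cons (P.cons (P.lf 80511132 0 0) (P.cons (P.lf 0 750936 0) (P.cons (P.lf 0 371574 0) (P.lf 8256 0 0)))) (P.cons (P.cons (P.lf 0 23809830 0) (P.cons (P.lf 91986 0 0) (P.cons (P.lf 45516 0 0) (P.lf 0 1011 0)))) (P.cons (P.cons (P.lf 997734 0 0) (P.cons (P.lf 7899 0 0) (P.cons (P.lf 3909 0 0) P.nil))) (P.cons (P.cons (P.lf 296247 0 0) (P.cons (P.lf 0 1398 0) P.nil)) (P.cons (P.cons (P.lf 0 11310 0) P.nil) P.nil)))))) 3756)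
 (EL.cons 8 (TM.mk (P.cons (P.cons (P.lf 11153190 0 0) (P.cons (P.lf 0 279972 0) (P.cons (P.lf 0 138534 0) (P.lf 3078 0 0)))) (P.cons (P.cons (P.lf 0 18115821 0) (P.cons (P.lf 207006 0 0) (P.cons (P.lf 102429 0 0) (P.lf 0 2274 0)))) (P.cons (P.cons (P.lf 8077716 0 0) (P.cons (P.lf 0 50565 0) (P.cons (P.lf 0 25020 0) (P.lf 555 0 0)))) (P.cons (P.cons (P.lf 0 1255434 0) (P.cons (P.lf 2913 0 0) (P.cons (P.lf 1440 0 0) P.nil))) (P.cons (P.cons (P.lf 4548 0 0) (P.cons (P.lf 501 0 0) P.nil)) (P.cons (P.cons (P.lf 12648 0 0) P.nil) P.nil)))))) 1977)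
 (EL.cons 11 (TM.mk (P.cons (P.cons (P.lf 22794135 0 0) (P.cons (P.lf 23081019 0 0) (P.cons (P.lf 0 251544 0) (P.cons (P.lf 0 34521 0) (P.lf 573 0 0))))) (P.cons (P.cons (P.lf 0 7950435 0) (P.cons (P.lf 0 8050500 0) (P.cons (P.lf 87735 0 0) (P.cons (P.lf 12039 0 0) (P.lf 0 198 0))))) (P.cons (P.cons (P.lf 280644 0 0) (P.cons (P.lf 284178 0 0) (P.cons (P.lf 0 3096 0) (P.cons (P.lf 0 423 0) P.nil)))) (P.cons (P.cons (P.lf 92298 0 0) (P.cons (P.lf 93462 0 0) (P.cons (P.lf 0 1017 0) P.nil))) (P.cons (P.cons (P.lf 0 579 0) (P.cons (P.lf 0 585 0) P.nil)) (P.cons (P.cons (P.lf 0 396 0) P.nil) P.nil)))))) 822)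
 EL.nil)))
noncomputable def S212_227_216_253_26 : EL := (EL.cons 4 (TM.mk (P.cons (P.cons (P.lf 0 37806282 0) (P.cons (P.lf 1264941 0 0) (P.cons (P.lf 617982 0 0) (P.cons (P.lf 0 21756 0) (P.cons (P.lf 0 1767 0) (P.cons (P.lf 84 0 0) P.nil)))))) (P.cons (P.cons (P.lf 52445172 0 0) (P.cons (P.lf 0 901737 0) (P.cons (P.lf 0 442539 0) (P.cons (P.lf 13527 0 0) (P.cons (P.lf 813 0 0) P.nil))))) (P.cons (P.cons (P.lf 0 14226465 0) (P.cons (P.lf 142518 0 0) (P.cons (P.lf 70308 0 0) (P.cons (P.lf 0 1776 0) P.nil)))) (P.cons (P.cons (P.lf 0 239787 0) (P.cons (P.lf 16434 0 0) (P.cons (P.lf 8040 0 0) P.nil))) (P.cons (P.cons (P.lf 376746 0 0) (P.cons (P.lf 0 3840 0) P.nil)) (P.cons (P.cons (P.lf 0 8319 0) P.nil) P.nil)))))) 8157)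
 (EL.cons 8 (TM.mk (P.cons (P.cons (P.lf 7374522 0 0) (P.cons (P.lf 0 246738 0) (P.cons (P.lf 0 120543 0) (P.cons (P.lf 4242 0 0) (P.cons (P.lf 342 0 0) (P.cons (P.lf 0 15 0) P.nil)))))) (P.cons (P.cons (P.lf 0 11824326 0) (P.cons (P.lf 229236 0 0) (P.cons (P.lf 112383 0 0) (P.cons (P.lf 0 3555 0) (P.cons (P.lf 0 231 0) P.nil))))) (P.cons (P.cons (P.lf 5011893 0 0) (P.cons (P.lf 0 66669 0) (P.cons (P.lf 0 32787 0) (P.cons (P.lf 930 0 0) P.nil)))) (P.cons (P.cons (P.lf 0 590154 0) (P.cons (P.lf 3471 0 0) (P.cons (P.lf 1722 0 0) P.nil))) (P.cons (P.cons (P.lf 0 71256 0) (P.cons (P.lf 1296 0 0) P.nil)) (P.cons (P.cons (P.lf 16836 0 0) P.nil) P.nil)))))) 3165)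
 (EL.cons 11 (TM.mk (P.cons (P.cons (P.lf 15071550 0 0) (P.cons (P.lf 15135300 0 0) (P.cons (P.lf 0 356163 0) (P.cons (P.lf 0 83151 0) (P.cons (P.lf 2658 0 0) (P.cons (P.lf 75 0 0) P.nil)))))) (P.cons (P.cons (P.lf 0 4942302 0) (P.cons (P.lf 0 4968474 0) (P.cons (P.lf 108852 0 0) (P.cons (P.lf 24744 0 0) (P.cons (P.lf 0 777 0) P.nil))))) (P.cons (P.cons (P.lf 0 85857 0) (P.cons (P.lf 0 85170 0) (P.cons (P.lf 3612 0 0) (P.cons (P.lf 975 0 0) P.nil)))) (P.cons (P.cons (P.lf 121203 0 0) (P.cons (P.lf 121971 0 0) (P.cons (P.lf 0 2481 0) P.nil))) (P.cons (P.cons (P.lf 0 480 0) (P.cons (P.lf 0 525 0) P.nil)) (P.cons (P.cons (P.lf 0 1122 0) P.nil) P.nil)))))) 2481)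
 EL.nil)))
noncomputable def S212_227_216_253_27 : EL := (EL.cons 13 (TM.mk (P.lf 0 4294967296 0) 0)
 EL.nil)
noncomputable def S212_227_216_253_28 : EL := (EL.cons 13 (TM.mk (P.cons (P.cons (P.lf 0 2839845577 0) (P.cons (P.lf 23729972 0 0) (P.cons (P.lf 11741952 0 0) (P.lf 0 260928 0)))) (P.cons (P.cons (P.lf 0 59268961 0) (P.cons (P.lf 1487792 0 0) (P.cons (P.lf 736180 0 0) (P.lf 0 16356 0)))) (P.cons (P.cons (P.lf 30470234 0 0) (P.cons (P.lf 0 106608 0) (P.cons (P.lf 0 52752 0) (P.lf 1172 0 0)))) (P.cons (P.cons (P.lf 18911 0 0) (P.cons (P.lf 0 8496 0) (P.cons (P.lf 0 4200 0) P.nil))) (P.cons (P.cons (P.lf 0 109931 0) (P.cons (P.lf 192 0 0) P.nil)) (P.cons (P.cons (P.lf 0 1203 0) P.nil) P.nil)))))) 1153)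
 EL.nil)
noncomputable def S212_227_216_253_29 : EL := (EL.cons 13 (TM.mk (P.cons (P.cons (P.lf 0 1877714623 0) (P.cons (P.lf 31380660 0 0) (P.cons (P.lf 15396519 0 0) (P.cons (P.lf 0 474802 0) (P.cons (P.lf 0 29217 0) (P.cons (P.lf 1426 0 0) P.nil)))))) (P.cons (P.cons (P.lf 0 78377638 0) (P.cons (P.lf 2622394 0 0) (P.cons (P.lf 1281157 0 0) (P.cons (P.lf 0 45100 0) (P.cons (P.lf 0 3663 0) P.nil))))) (P.cons (P.cons (P.lf 39476134 0 0) (P.cons (P.lf 0 436617 0) (P.cons (P.lf 0 215383 0) (P.cons (P.lf 5456 0 0) P.nil)))) (P.cons (P.cons (P.lf 865963 0 0) (P.cons (P.lf 0 35496 0) (P.cons (P.lf 0 17391 0) P.nil))) (P.cons (P.cons (P.lf 0 361019 0) (P.cons (P.lf 2733 0 0) P.nil)) (P.cons (P.cons (P.lf 0 4893 0) P.nil) P.nil)))))) 6234)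
 EL.nil)
noncomputable def S212_227_216_253_30 : EL := (EL.cons 13 (TM.mk (P.cons (P.lf 1194386624 0 0) (P.cons (P.lf 0 233258332 0) (P.cons (P.lf 0 3625172 0) (P.cons (P.lf 207136 0 0) (P.cons (P.lf 5900 0 0) (P.cons (P.lf 0 156 0) P.nil)))))) 48)
 EL.nil)
noncomputable def S212_227_216_253_31 : EL := (EL.cons 13 (TM.mk (P.cons (P.cons (P.lf 789732106 0 0) (P.cons (P.lf 0 6599063 0) (P.cons (P.lf 0 3265317 0) (P.lf 72561 0 0)))) (P.cons (P.cons (P.lf 0 137749032 0) (P.cons (P.lf 875027 0 0) (P.cons (P.lf 432977 0 0) (P.lf 0 9622 0)))) (P.cons (P.cons (P.lf 0 14089315 0) (P.cons (P.lf 130477 0 0) (P.cons (P.lf 64562 0 0) (P.lf 0 1434 0)))) (P.cons (P.cons (P.lf 1736502 0 0) (P.cons (P.lf 0 3315 0) (P.cons (P.lf 0 1641 0) P.nil))) (P.cons (P.cons (P.lf 64075 0 0) (P.cons (P.lf 0 709 0) P.nil)) (P.cons (P.cons (P.lf 0 7111 0) P.nil) P.nil)))))) 1097)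
 EL.nil)
noncomputable def S212_227_216_253_32 : EL := (EL.cons 13 (TM.mk (P.cons (P.cons (P.lf 522173296 0 0) (P.cons (P.lf 0 8726641 0) (P.cons (P.lf 0 4281614 0) (P.cons (P.lf 132037 0 0) (P.cons (P.lf 8124 0 0) (P.cons (P.lf 0 396 0) P.nil)))))) (P.cons (P.cons (P.lf 0 80182072 0) (P.cons (P.lf 975012 0 0) (P.cons (P.lf 479903 0 0) (P.cons (P.lf 0 13244 0) (P.cons (P.lf 0 568 0) P.nil))))) (P.cons (P.cons (P.lf 0 16819462 0) (P.cons (P.lf 290327 0 0) (P.cons (P.lf 142470 0 0) (P.cons (P.lf 0 4367 0) P.nil)))) (P.cons (P.cons (P.lf 1927523 0 0) (P.cons (P.lf 0 13141 0) (P.cons (P.lf 0 6522 0) P.nil))) (P.cons (P.cons (P.lf 187105 0 0) (P.cons (P.lf 0 3225 0) P.nil)) (P.cons (P.cons (P.lf 0 19379 0) P.nil) P.nil)))))) 4935)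
 EL.nil)
noncomputable def S212_227_216_253_33 : EL := (EL.cons 14 (TM.mk (P.lf 8589934592 0 0) 0)
 EL.nil)
noncomputable def S212_227_216_253_34 : EL := (EL.cons 14 (TM.mk (P.cons (P.cons (P.lf 5679691154 0 0) (P.cons (P.lf 0 47459944 0) (P.cons (P.lf 0 23483904 0) (P.lf 521856 0 0)))) (P.cons (P.cons (P.lf 118537922 0 0) (P.cons (P.lf 0 2975584 0) (P.cons (P.lf 0 1472360 0) (P.lf 32712 0 0)))) (P.cons (P.cons (P.lf 0 60940468 0) (P.cons (P.lf 213216 0 0) (P.cons (P.lf 105504 0 0) (P.lf 0 2344 0)))) (P.cons (P.cons (P.lf 0 37822 0) (P.cons (P.lf 16992 0 0) (P.cons (P.lf 8400 0 0) P.nil))) (P.cons (P.cons (P.lf 219862 0 0) (P.cons (P.lf 0 384 0) P.nil)) (P.cons (P.cons (P.lf 2406 0 0) P.nil) P.nil)))))) 2306)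
 EL.nil)
noncomputable def S212_227_216_253_35 : EL := (EL.cons 14 (TM.mk (P.cons (P.cons (P.lf 3755429246 0 0) (P.cons (P.lf 0 62761320 0) (P.cons (P.lf 0 30793038 0) (P.cons (P.lf 949604 0 0) (P.cons (P.lf 58434 0 0) (P.cons (P.lf 0 2852 0) P.nil)))))) (P.cons (P.cons (P.lf 156755276 0 0) (P.cons (P.lf 0 5244788 0) (P.cons (P.lf 0 2562314 0) (P.cons (P.lf 90200 0 0) (P.cons (P.lf 7326 0 0) P.nil))))) (P.cons (P.cons (P.lf 0 78952268 0) (P.cons (P.lf 873234 0 0) (P.cons (P.lf 430766 0 0) (P.cons (P.lf 0 10912 0) P.nil)))) (P.cons (P.cons (P.lf 0 1731926 0) (P.cons (P.lf 70992 0 0) (P.cons (P.lf 34782 0 0) P.nil))) (P.cons (P.cons (P.lf 722038 0 0) (P.cons (P.lf 0 5466 0) P.nil)) (P.cons (P.cons (P.lf 9786 0 0) P.nil) P.nil)))))) 12468)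
 EL.nil)
noncomputable def S212_227_216_253_36 : EL := (EL.cons 14 (TM.mk (P.cons (P.lf 0 2388773248 0) (P.cons (P.lf 466516664 0 0) (P.cons (P.lf 7250344 0 0) (P.cons (P.lf 0 414272 0) (P.cons (P.lf 0 11800 0) (P.cons (P.lf 312 0 0) P.nil)))))) 96)
 EL.nil)
noncomputable def S212_227_216_253_37 : EL := (EL.cons 14 (TM.mk (P.cons (P.cons (P.lf 0 1579464212 0) (P.cons (P.lf 13198126 0 0) (P.cons (P.lf 6530634 0 0) (P.lf 0 145122 0)))) (P.cons (P.cons (P.lf 275498064 0 0) (P.cons (P.lf 0 1750054 0) (P.cons (P.lf 0 865954 0) (P.lf 19244 0 0)))) (P.cons (P.cons (P.lf 28178630 0 0) (P.cons (P.lf 0 260954 0) (P.cons (P.lf 0 129124 0) (P.lf 2868 0 0)))) (P.cons (P.cons (P.lf 0 3473004 0) (P.cons (P.lf 6630 0 0) (P.cons (P.lf 3282 0 0) P.nil))) (P.cons (P.cons (P.lf 0 128150 0) (P.cons (P.lf 1418 0 0) P.nil)) (P.cons (P.cons (P.lf 14222 0 0) P.nil) P.nil)))))) 2194)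
 EL.nil)
noncomputable def S212_227_216_253_38 : EL := (EL.cons 14 (TM.mk (P.cons (P.cons (P.lf 0 1044346592 0) (P.cons (P.lf 17453282 0 0) (P.cons (P.lf 8563228 0 0) (P.cons (P.lf 0 264074 0) (P.cons (P.lf 0 16248 0) (P.cons (P.lf 792 0 0) P.nil)))))) (P.cons (P.cons (P.lf 160364144 0 0) (P.cons (P.lf 0 1950024 0) (P.cons (P.lf 0 959806 0) (P.cons (P.lf 26488 0 0) (P.cons (P.lf 1136 0 0) P.nil))))) (P.cons (P.cons (P.lf 33638924 0 0) (P.cons (P.lf 0 580654 0) (P.cons (P.lf 0 284940 0) (P.cons (P.lf 8734 0 0) P.nil)))) (P.cons (P.cons (P.lf 0 3855046 0) (P.cons (P.lf 26282 0 0) (P.cons (P.lf 13044 0 0) P.nil))) (P.cons (P.cons (P.lf 0 374210 0) (P.cons (P.lf 6450 0 0) P.nil)) (P.cons (P.cons (P.lf 38758 0 0) P.nil) P.nil)))))) 9870)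
 EL.nil)
noncomputable def S212_227_216_253_39 : EL := (EL.cons 14 (TM.mk (P.cons (P.lf 664293490 0 0) (P.cons (P.lf 0 259467056 0) (P.cons (P.lf 21303880 0 0) (P.cons (P.lf 1017936 0 0) (P.cons (P.lf 0 32314 0) (P.cons (P.lf 0 2154 0) P.nil)))))) 152)
 EL.nil)
noncomputable def S212_227_216_253_40 : EL := (EL.cons 14 (TM.mk (P.cons (P.cons (P.lf 439232896 0 0) (P.cons (P.lf 0 3670264 0) (P.cons (P.lf 0 1816102 0) (P.lf 40356 0 0)))) (P.cons (P.cons (P.lf 0 162393410 0) (P.cons (P.lf 1203458 0 0) (P.cons (P.lf 595490 0 0) (P.lf 0 13232 0)))) (P.cons (P.cons (P.lf 5792874 0 0) (P.cons (P.lf 0 11336 0) (P.cons (P.lf 0 5608 0) (P.lf 124 0 0)))) (P.cons (P.cons (P.lf 2804886 0 0) (P.cons (P.lf 0 18130 0) (P.cons (P.lf 0 8970 0) P.nil))) (P.cons (P.cons (P.lf 0 140312 0) (P.cons (P.lf 0 188 0) P.nil)) (P.cons (P.cons (P.lf 0 15640 0) P.nil) P.nil)))))) 2484)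
 EL.nil)
noncomputable def S212_227_216_253_41 : EL := (EL.cons 14 (TM.mk (P.cons (P.cons (P.lf 290422140 0 0) (P.cons (P.lf 0 4853580 0) (P.cons (P.lf 0 2381346 0) (P.cons (P.lf 73436 0 0) (P.cons (P.lf 4518 0 0) (P.cons (P.lf 0 220 0) P.nil)))))) (P.cons (P.cons (P.lf 0 101313770 0) (P.cons (P.lf 1490164 0 0) (P.cons (P.lf 731978 0 0) (P.cons (P.lf 0 21708 0) (P.cons (P.lf 0 1198 0) P.nil))))) (P.cons (P.cons (P.lf 0 1526796 0) (P.cons (P.lf 70300 0 0) (P.cons (P.lf 34340 0 0) (P.cons (P.lf 0 1212 0) P.nil)))) (P.cons (P.cons (P.lf 3084690 0 0) (P.cons (P.lf 0 41330 0) (P.cons (P.lf 0 20324 0) P.nil))) (P.cons (P.cons (P.lf 0 83208 0) (P.cons (P.lf 0 786 0) P.nil)) (P.cons (P.cons (P.lf 0 36234 0) P.nil) P.nil)))))) 8660)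
 EL.nil)
noncomputable def S212_227_216_253_42 : EL := (EL.cons 14 (TM.mk (P.cons (P.lf 0 184733248 0) (P.cons (P.lf 108232714 0 0) (P.cons (P.lf 0 19455268 0) (P.cons (P.lf 622888 0 0) (P.cons (P.lf 93852 0 0) (P.cons (P.lf 0 942 0) P.nil)))))) 312)
 EL.nil)
noncomputable def S212_227_216_253_43 : EL := (EL.cons 14 (TM.mk (P.cons (P.cons (P.lf 0 122146190 0) (P.cons (P.lf 1020662 0 0) (P.cons (P.lf 505038 0 0) (P.lf 0 11222 0)))) (P.cons (P.cons (P.lf 69014552 0 0) (P.cons (P.lf 0 534000 0) (P.cons (P.lf 0 264230 0) (P.lf 5870 0 0)))) (P.cons (P.cons (P.lf 0 10059738 0) (P.cons (P.lf 65414 0 0) (P.cons (P.lf 32366 0 0) (P.lf 0 718 0)))) (P.cons (P.cons (P.lf 0 623652 0) (P.cons (P.lf 5618 0 0) (P.cons (P.lf 2780 0 0) P.nil))) (P.cons (P.cons (P.lf 203468 0 0) (P.cons (P.lf 0 994 0) P.nil)) (P.cons (P.cons (P.lf 0 942 0) P.nil) P.nil)))))) 2590)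
 EL.nil)
noncomputable def S212_227_216_253_44 : EL := (EL.cons 14 (TM.mk (P.cons (P.cons (P.lf 0 80763436 0) (P.cons (P.lf 1349730 0 0) (P.cons (P.lf 662228 0 0) (P.cons (P.lf 0 20420 0) (P.cons (P.lf 0 1256 0) (P.cons (P.lf 60 0 0) P.nil)))))) (P.cons (P.cons (P.lf 43947062 0 0) (P.cons (P.lf 0 677994 0) (P.cons (P.lf 0 332886 0) (P.cons (P.lf 10024 0 0) (P.cons (P.lf 578 0 0) P.nil))))) (P.cons (P.cons (P.lf 0 4832600 0) (P.cons (P.lf 57282 0 0) (P.cons (P.lf 28192 0 0) (P.cons (P.lf 0 778 0) P.nil)))) (P.cons (P.cons (P.lf 0 1040260 0) (P.cons (P.lf 16802 0 0) (P.cons (P.lf 8250 0 0) P.nil))) (P.cons (P.cons (P.lf 193866 0 0) (P.cons (P.lf 0 2030 0) P.nil)) (P.cons (P.cons (P.lf 8384 0 0) P.nil) P.nil)))))) 6736)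
 EL.nil)
noncomputable def S212_227_216_253_45 : EL := (EL.cons 14 (TM.mk (P.cons (P.cons (P.lf 2483101360 0 0) (P.cons (P.lf 0 62246966 0) (P.cons (P.lf 0 30280606 0) (P.cons (P.lf 1197746 0 0) (P.cons (P.lf 113760 0 0) (P.cons (P.lf 0 6674 0) P.nil)))))) (P.cons (P.cons (P.lf 155470604 0 0) (P.cons (P.lf 0 6500930 0) (P.cons (P.lf 0 3140674 0) (P.cons (P.lf 146488 0 0) (P.cons (P.lf 16548 0 0) P.nil))))) (P.cons (P.cons (P.lf 0 76682850 0) (P.cons (P.lf 1425394 0 0) (P.cons (P.lf 698460 0 0) (P.cons (P.lf 0 22446 0) P.nil)))) (P.cons (P.cons (P.lf 0 3363286 0) (P.cons (P.lf 144712 0 0) (P.cons (P.lf 70172 0 0) P.nil))) (P.cons (P.cons (P.lf 1109064 0 0) (P.cons (P.lf 0 15618 0) P.nil)) (P.cons (P.cons (P.lf 34132 0 0) P.nil) P.nil)))))) 33686)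
 EL.nil)
noncomputable def S212_227_216_253_46 : EL := (EL.cons 15 (TM.mk (P.lf 4294967296 0 0) 0)
 EL.nil)
noncomputable def S212_227_216_253_47 : EL := (EL.cons 15 (TM.mk (P.cons (P.cons (P.lf 2839845577 0 0) (P.cons (P.lf 0 23729972 0) (P.cons (P.lf 0 11741952 0) (P.lf 260928 0 0)))) (P.cons (P.cons (P.lf 59268961 0 0) (P.cons (P.lf 0 1487792 0) (P.cons (P.lf 0 736180 0) (P.lf 16356 0 0)))) (P.cons (P.cons (P.lf 0 30470234 0) (P.cons (P.lf 106608 0 0) (P.cons (P.lf 52752 0 0) (P.lf 0 1172 0)))) (P.cons (P.cons (P.lf 0 18911 0) (P.cons (P.lf 8496 0 0) (P.cons (P.lf 4200 0 0) P.nil))) (P.cons (P.cons (P.lf 109931 0 0) (P.cons (P.lf 0 192 0) P.nil)) (P.cons (P.cons (P.lf 1203 0 0) P.nil) P.nil)))))) 1153)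
 EL.nil)
noncomputable def S212_227_216_253_48 : EL := (EL.cons 15 (TM.mk (P.cons (P.cons (P.lf 1877714623 0 0) (P.cons (P.lf 0 31380660 0) (P.cons (P.lf 0 15396519 0) (P.cons (P.lf 474802 0 0) (P.cons (P.lf 29217 0 0) (P.cons (P.lf 0 1426 0) P.nil)))))) (P.cons (P.cons (P.lf 78377638 0 0) (P.cons (P.lf 0 2622394 0) (P.cons (P.lf 0 1281157 0) (P.cons (P.lf 45100 0 0) (P.cons (P.lf 3663 0 0) P.nil))))) (P.cons (P.cons (P.lf 0 39476134 0) (P.cons (P.lf 436617 0 0) (P.cons (P.lf 215383 0 0) (P.cons (P.lf 0 5456 0) P.nil)))) (P.cons (P.cons (P.lf 0 865963 0) (P.cons (P.lf 35496 0 0) (P.cons (P.lf 17391 0 0) P.nil))) (P.cons (P.cons (P.lf 361019 0 0) (P.cons (P.lf 0 2733 0) P.nil)) (P.cons (P.cons (P.lf 4893 0 0) P.nil) P.nil)))))) 6234)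
 EL.nil)
noncomputable def S212_227_216_253 : SL := (SL.cons S212_227_216_253_0 (SL.cons S212_227_216_253_1 (SL.cons S212_227_216_253_2 (SL.cons S212_227_216_253_3 (SL.cons S212_227_216_253_4 (SL.cons S212_227_216_253_5 (SL.cons S212_227_216_253_6 (SL.cons S212_227_216_253_7 (SL.cons S212_227_216_253_8 (SL.cons S212_227_216_253_9 (SL.cons S212_227_216_253_10 (SL.cons S212_227_216_253_11 (SL.cons S212_227_216_253_12 (SL.cons S212_227_216_253_13 (SL.cons S212_227_216_253_14 (SL.cons S212_227_216_253_15 (SL.cons S212_227_216_253_16 (SL.cons S212_227_216_253_17 (SL.cons S212_227_216_253_18 (SL.cons S212_227_216_253_19 (SL.cons S212_227_216_253_20 (SL.cons S212_227_216_253_21 (SL.cons S212_227_216_253_22 (SL.cons S212_227_216_253_23 (SL.cons S212_227_216_253_24 (SL.cons S212_227_216_253_25 (SL.cons S212_227_216_253_26 (SL.cons S212_227_216_253_27 (SL.cons S212_227_216_253_28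 (SL.cons S212_227_216_253_29 (SL.cons S212_227_216_253_30 (SL.cons S212_227_216_253_31 (SL.cons S212_227_216_253_32 (SL.cons S212_227_216_253_33 (SL.cons S212_227_216_253_34 (SL.cons S212_227_216_253_35 (SL.cons S212_227_216_253_36 (SL.cons S212_227_216_253_37 (SL.cons S212_227_216_253_38 (SL.cons S212_227_216_253_39 (SL.cons S212_227_216_253_40 (SL.cons S212_227_216_253_41 (SL.cons S212_227_216_253_42 (SL.cons S212_227_216_253_43 (SL.cons S212_227_216_253_44 (SL.cons S212_227_216_253_45 (SL.cons S212_227_216_253_46 (SL.cons S212_227_216_253_47 (SL.cons S212_227_216_253_48 SL.nil)))))))))))))))))))))))))))))))))))))))))))))))))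
noncomputable def S212_227_216_290_0 : EL := (EL.cons 0 (TM.mk (P.cons (P.lf 7871865163 0 0) (P.cons (P.lf 228047217 0 0) (P.cons (P.lf 0 18724113 0) (P.cons (P.lf 0 894670 0) (P.cons (P.lf 28400 0 0) (P.cons (P.lf 1893 0 0) P.nil)))))) 140)
 (EL.cons 1 (TM.mk (P.cons (P.lf 0 1064241138 0) (P.cons (P.lf 185599968 0 0) (P.cons (P.lf 9632411 0 0) (P.cons (P.lf 0 474855 0) (P.cons (P.lf 0 25702 0) (P.cons (P.lf 519 0 0) P.nil)))))) 134)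
 (EL.cons 5 (TM.mk (P.cons (P.lf 4502559014 0 0) (P.cons (P.lf 0 81083452 0) (P.cons (P.lf 6657460 0 0) (P.cons (P.lf 318104 0 0) (P.cons (P.lf 0 10096 0) (P.cons (P.lf 0 672 0) P.nil)))))) 143)
 (EL.cons 9 (TM.mk (P.lf 6442450944 0 0) 2)
 EL.nil))))
noncomputable def S212_227_216_290_1 : EL := (EL.cons 0 (TM.mk (P.cons (P.cons (P.lf 4769207325 0 0) (P.cons (P.lf 0 132328215 0) (P.cons (P.lf 0 62467018 0) (P.lf 2974620 0 0)))) (P.cons (P.cons (P.lf 716340518 0 0) (P.cons (P.lf 0 28019137 0) (P.cons (P.lf 0 13226739 0) (P.lf 629833 0 0)))) (P.cons (P.cons (P.lf 0 135104774 0) (P.cons (P.lf 977301 0 0) (P.cons (P.lf 461344 0 0) (P.lf 0 21966 0)))) (P.cons (P.cons (P.lf 0 7917913 0) (P.cons (P.lf 314892 0 0) (P.cons (P.lf 148644 0 0) P.nil))) (P.cons (P.cons (P.lf 963805 0 0) (P.cons (P.lf 1082 0 0) P.nil)) (P.cons (P.cons (P.lf 54109 0 0) P.nil) P.nil))))))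 28706)
 (EL.cons 1 (TM.mk (P.cons (P.cons (P.lf 0 997028485 0) (P.cons (P.lf 53831778 0 0) (P.cons (P.lf 25411894 0 0) (P.lf 0 1210083 0)))) (P.cons (P.cons (P.lf 402791193 0 0) (P.cons (P.lf 0 4415946 0) (P.cons (P.lf 0 2084599 0) (P.lf 99268 0 0)))) (P.cons (P.cons (P.lf 45436154 0 0) (P.cons (P.lf 0 1693945 0) (P.cons (P.lf 0 799636 0) (P.lf 38068 0 0)))) (P.cons (P.cons (P.lf 0 6183252 0) (P.cons (P.lf 6871 0 0) (P.cons (P.lf 3240 0 0) P.nil))) (P.cons (P.cons (P.lf 0 407462 0) (P.cons (P.lf 12756 0 0) P.nil)) (P.cons (P.cons (P.lf 32631 0 0) P.nil) P.nil)))))) 16471)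
 (EL.cons 5 (TM.mk (P.cons (P.cons (P.lf 3072160629 0 0) (P.cons (P.lf 0 110815684 0) (P.cons (P.lf 0 52311784 0) (P.lf 2491040 0 0)))) (P.cons (P.cons (P.lf 0 157694560 0) (P.cons (P.lf 64670 0 0) (P.cons (P.lf 30522 0 0) (P.lf 0 1450 0)))) (P.cons (P.cons (P.lf 0 3493241 0) (P.cons (P.lf 361754 0 0) (P.cons (P.lf 170772 0 0) (P.lf 0 8136 0)))) (P.cons (P.cons (P.lf 2804537 0 0) (P.cons (P.lf 0 55422 0) (P.cons (P.lf 0 26162 0) P.nil))) (P.cons (P.cons (P.lf 0 156281 0) (P.cons (P.lf 0 1696 0) P.nil)) (P.cons (P.cons (P.lf 0 17251 0) P.nil) P.nil)))))) 17190)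
 (EL.cons 9 (TM.mk (P.cons (P.cons (P.lf 4206951865 0 0) (P.cons (P.lf 0 139293270 0) (P.cons (P.lf 0 65754948 0) (P.lf 3131184 0 0)))) (P.cons (P.cons (P.lf 85592005 0 0) (P.cons (P.lf 0 8733246 0) (P.cons (P.lf 0 4122624 0) (P.lf 196308 0 0)))) (P.cons (P.cons (P.lf 0 45468069 0) (P.cons (P.lf 625794 0 0) (P.cons (P.lf 295410 0 0) (P.lf 0 14064 0)))) (P.cons (P.cons (P.lf 0 9454 0) (P.cons (P.lf 49878 0 0) (P.cons (P.lf 23544 0 0) P.nil))) (P.cons (P.cons (P.lf 164458 0 0) (P.cons (P.lf 0 1152 0) P.nil)) (P.cons (P.cons (P.lf 1750 0 0) P.nil) P.nil)))))) 3848)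
 (EL.cons 2 (TM.mk (P.cons (P.cons (P.lf 153692471 0 0) (P.cons (P.lf 151547256 0 0) (P.cons (P.lf 0 4742057 0) (P.cons (P.lf 0 868961 0) (P.lf 31033 0 0))))) (P.cons (P.cons (P.lf 0 23591421 0) (P.cons (P.lf 0 23262136 0) (P.cons (P.lf 727894 0 0) (P.cons (P.lf 133382 0 0) (P.lf 0 4761 0))))) (P.cons (P.cons (P.lf 0 2248517 0) (P.cons (P.lf 0 2217133 0) (P.cons (P.lf 69373 0 0) (P.cons (P.lf 12709 0 0) P.nil)))) (P.cons (P.cons (P.lf 84960 0 0) (P.cons (P.lf 83775 0 0) (P.cons (P.lf 0 2621 0) P.nil))) (P.cons (P.cons (P.lf 9194 0 0) (P.cons (P.lf 9064 0 0) P.nil)) (P.cons (P.cons (P.lf 0 104 0) P.nil) P.nil)))))) 2445)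
 (EL.cons 6 (TM.mk (P.cons (P.cons (P.lf 280149651 0 0) (P.cons (P.lf 276239370 0 0) (P.cons (P.lf 0 8643795 0) (P.cons (P.lf 0 1583940 0) (P.lf 56568 0 0))))) (P.cons (P.cons (P.lf 17564508 0 0) (P.cons (P.lf 17319345 0 0) (P.cons (P.lf 0 541935 0) (P.cons (P.lf 0 99306 0) (P.lf 3543 0 0))))) (P.cons (P.cons (P.lf 0 1258614 0) (P.cons (P.lf 0 1241046 0) (P.cons (P.lf 38832 0 0) (P.cons (P.lf 7113 0 0) P.nil)))) (P.cons (P.cons (P.lf 0 100326 0) (P.cons (P.lf 0 98925 0) (P.cons (P.lf 3093 0 0) P.nil))) (P.cons (P.cons (P.lf 2316 0 0) (P.cons (P.lf 2286 0 0) P.nil)) (P.cons (P.cons (P.lf 291 0 0) P.nil) P.nil)))))) 1617)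
 EL.nil))))))
noncomputable def S212_227_216_290_2 : EL := (EL.cons 0 (TM.mk (P.cons (P.cons (P.lf 2871947002 0 0) (P.cons (P.lf 0 156772165 0) (P.cons (P.lf 0 71963773 0) (P.cons (P.lf 5452263 0 0) (P.cons (P.lf 363297 0 0) (P.cons (P.lf 0 43347 0) P.nil)))))) (P.cons (P.cons (P.lf 828442701 0 0) (P.cons (P.lf 0 59117474 0) (P.cons (P.lf 0 26904728 0) (P.cons (P.lf 2275212 0 0) (P.cons (P.lf 178285 0 0) P.nil))))) (P.cons (P.cons (P.lf 0 149537202 0) (P.cons (P.lf 4114911 0 0) (P.cons (P.lf 1964462 0 0) (P.cons (P.lf 0 71757 0) P.nil)))) (P.cons (P.cons (P.lf 0 19796629 0) (P.cons (P.lf 1344275 0 0) (P.cons (P.lf 617581 0 0) P.nil))) (P.cons (P.cons (P.lf 2419872 0 0) (P.cons (P.lf 0 29239 0) P.nil)) (P.cons (P.cons (P.lf 207415 0 0) P.nil) P.nil)))))) 250717)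
 (EL.cons 1 (TM.mk (P.cons (P.cons (P.lf 0 848320140 0) (P.cons (P.lf 83367202 0 0) (P.cons (P.lf 37524110 0 0) (P.cons (P.lf 0 3602042 0) (P.cons (P.lf 0 325578 0) (P.cons (P.lf 38844 0 0) P.nil)))))) (P.cons (P.cons (P.lf 438880060 0 0) (P.cons (P.lf 0 16306086 0) (P.cons (P.lf 0 7676847 0) (P.cons (P.lf 386025 0 0) (P.cons (P.lf 3662 0 0) P.nil))))) (P.cons (P.cons (P.lf 67166603 0 0) (P.cons (P.lf 0 5211297 0) (P.cons (P.lf 0 2382258 0) (P.cons (P.lf 190567 0 0) P.nil)))) (P.cons (P.cons (P.lf 0 11038918 0) (P.cons (P.lf 202755 0 0) (P.cons (P.lf 99442 0 0) P.nil))) (P.cons (P.cons (P.lf 0 1159971 0) (P.cons (P.lf 79079 0 0) P.nil)) (P.cons (P.cons (P.lf 122407 0 0) P.nil) P.nil)))))) 136228)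
 (EL.cons 5 (TM.mk (P.cons (P.cons (P.lf 2092311378 0 0) (P.cons (P.lf 0 150432942 0) (P.cons (P.lf 0 68326454 0) (P.cons (P.lf 5918542 0 0) (P.cons (P.lf 477976 0 0) (P.cons (P.lf 0 57020 0) P.nil)))))) (P.cons (P.cons (P.lf 0 167868855 0) (P.cons (P.lf 3898375 0 0) (P.cons (P.lf 1911882 0 0) (P.cons (P.lf 0 20007 0) (P.cons (P.lf 12752 0 0) P.nil))))) (P.cons (P.cons (P.lf 0 12841782 0) (P.cons (P.lf 1428506 0 0) (P.cons (P.lf 649279 0 0) (P.cons (P.lf 0 55777 0) P.nil)))) (P.cons (P.cons (P.lf 5655570 0 0) (P.cons (P.lf 0 245109 0) (P.cons (P.lf 0 114021 0) P.nil))) (P.cons (P.cons (P.lf 0 253555 0) (P.cons (P.lf 0 7870 0) P.nil)) (P.cons (P.cons (P.lf 0 66041 0) P.nil) P.nil)))))) 137461)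
 (EL.cons 9 (TM.mk (P.cons (P.cons (P.lf 2747160070 0 0) (P.cons (P.lf 0 181918368 0) (P.cons (P.lf 0 82864920 0) (P.cons (P.lf 6932752 0 0) (P.cons (P.lf 535728 0 0) (P.cons (P.lf 0 63916 0) P.nil)))))) (P.cons (P.cons (P.lf 111783993 0 0) (P.cons (P.lf 0 15106900 0) (P.cons (P.lf 0 6753732 0) (P.cons (P.lf 696123 0 0) (P.cons (P.lf 67176 0 0) P.nil))))) (P.cons (P.cons (P.lf 0 58244596 0) (P.cons (P.lf 2551384 0 0) (P.cons (P.lf 1189183 0 0) (P.cons (P.lf 0 71719 0) P.nil)))) (P.cons (P.cons (P.lf 0 1220490 0) (P.cons (P.lf 205449 0 0) (P.cons (P.lf 93129 0 0) P.nil))) (P.cons (P.cons (P.lf 535426 0 0) (P.cons (P.lf 0 16098 0) P.nil)) (P.cons (P.cons (P.lf 6789 0 0) P.nil) P.nil)))))) 47681)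
 (EL.cons 2 (TM.mk (P.cons (P.cons (P.lf 200723861 0 0) (P.cons (P.lf 191276173 0 0) (P.cons (P.lf 0 15883756 0) (P.cons (P.lf 0 3873954 0) (P.cons (P.lf 322216 0 0) (P.cons (P.lf 11784 0 0) P.nil)))))) (P.cons (P.cons (P.lf 0 26726821 0) (P.cons (P.lf 0 25750310 0) (P.cons (P.lf 1704543 0 0) (P.cons (P.lf 399819 0 0) (P.cons (P.lf 0 30971 0) P.nil))))) (P.cons (P.cons (P.lf 0 5732831 0) (P.cons (P.lf 0 5461762 0) (P.cons (P.lf 455445 0 0) (P.cons (P.lf 111150 0 0) P.nil)))) (P.cons (P.cons (P.lf 383760 0 0) (P.cons (P.lf 378618 0 0) (P.cons (P.lf 0 11520 0) P.nil))) (P.cons (P.cons (P.lf 53915 0 0) (P.cons (P.lf 51682 0 0) P.nil)) (P.cons (P.cons (P.lf 0 2205 0) P.nil) P.nil)))))) 39329)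
 (EL.cons 6 (TM.mk (P.cons (P.cons (P.lf 365878176 0 0) (P.cons (P.lf 348656988 0 0) (P.cons (P.lf 0 28952808 0) (P.cons (P.lf 0 7061424 0) (P.cons (P.lf 587328 0 0) (P.cons (P.lf 21480 0 0) P.nil)))))) (P.cons (P.cons (P.lf 30383346 0 0) (P.cons (P.lf 28440198 0 0) (P.cons (P.lf 0 3152394 0) (P.cons (P.lf 0 797844 0) (P.cons (P.lf 70512 0 0) P.nil))))) (P.cons (P.cons (P.lf 0 5131404 0) (P.cons (P.lf 0 4998552 0) (P.cons (P.lf 247602 0 0) (P.cons (P.lf 54240 0 0) P.nil)))) (P.cons (P.cons (P.lf 0 413214 0) (P.cons (P.lf 0 391944 0) (P.cons (P.lf 35346 0 0) P.nil))) (P.cons (P.cons (P.lf 32376 0 0) (P.cons (P.lf 32022 0 0) P.nil)) (P.cons (P.cons (P.lf 2910 0 0) P.nil) P.nil)))))) 36570)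
 EL.nil))))))
noncomputable def S212_227_216_290_3 : EL := (EL.cons 0 (TM.mk (P.cons (P.lf 583851700 0 0) (P.cons (P.lf 0 228047217 0) (P.cons (P.lf 18724113 0 0) (P.cons (P.lf 894670 0 0) (P.cons (P.lf 0 28400 0) (P.cons (P.lf 0 1893 0) P.nil)))))) 140)
 (EL.cons 1 (TM.mk (P.cons (P.lf 1064241138 0 0) (P.cons (P.lf 0 185599968 0) (P.cons (P.lf 0 9632411 0) (P.cons (P.lf 474855 0 0) (P.cons (P.lf 25702 0 0) (P.cons (P.lf 0 519 0) P.nil)))))) 134)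
 (EL.cons 5 (TM.mk (P.cons (P.lf 1939891930 0 0) (P.cons (P.lf 81083452 0 0) (P.cons (P.lf 0 6657460 0) (P.cons (P.lf 0 318104 0) (P.cons (P.lf 10096 0 0) (P.cons (P.lf 672 0 0) P.nil)))))) 136)
 EL.nil)))
noncomputable def S212_227_216_290_4 : EL := (EL.cons 0 (TM.mk (P.cons (P.cons (P.lf 381258005 0 0) (P.cons (P.lf 0 12623551 0) (P.cons (P.lf 0 5959088 0) (P.lf 283765 0 0)))) (P.cons (P.cons (P.lf 0 141159107 0) (P.cons (P.lf 4139187 0 0) (P.cons (P.lf 1953949 0 0) (P.lf 0 93044 0)))) (P.cons (P.cons (P.lf 5076609 0 0) (P.cons (P.lf 0 38986 0) (P.cons (P.lf 0 18404 0) (P.lf 875 0 0)))) (P.cons (P.cons (P.lf 2441587 0 0) (P.cons (P.lf 0 62356 0) (P.cons (P.lf 0 29436 0) P.nil))) (P.cons (P.cons (P.lf 0 123567 0) (P.cons (P.lf 0 648 0) P.nil)) (P.cons (P.cons (P.lf 0 13617 0) P.nil) P.nil)))))) 6113)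
 (EL.cons 1 (TM.mk (P.cons (P.cons (P.lf 694954650 0 0) (P.cons (P.lf 0 23010127 0) (P.cons (P.lf 0 10862188 0) (P.lf 517245 0 0)))) (P.cons (P.cons (P.lf 0 107058571 0) (P.cons (P.lf 2570223 0 0) (P.cons (P.lf 1213303 0 0) (P.lf 0 57776 0)))) (P.cons (P.cons (P.lf 0 16266781 0) (P.cons (P.lf 563235 0 0) (P.cons (P.lf 265878 0 0) (P.lf 0 12658 0)))) (P.cons (P.cons (P.lf 1490433 0 0) (P.cons (P.lf 0 6997 0) (P.cons (P.lf 0 3301 0) P.nil))) (P.cons (P.cons (P.lf 118513 0 0) (P.cons (P.lf 0 3761 0) P.nil)) (P.cons (P.cons (P.lf 0 7783 0) P.nil) P.nil)))))) 4464)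
 (EL.cons 5 (TM.mk (P.cons (P.cons (P.lf 1266758884 0 0) (P.cons (P.lf 0 41942714 0) (P.cons (P.lf 0 19799528 0) (P.lf 942832 0 0)))) (P.cons (P.cons (P.lf 78720570 0 0) (P.cons (P.lf 0 4382792 0) (P.cons (P.lf 0 2068944 0) (P.lf 98518 0 0)))) (P.cons (P.cons (P.lf 0 16961038 0) (P.cons (P.lf 222460 0 0) (P.cons (P.lf 105012 0 0) (P.lf 0 4998 0)))) (P.cons (P.cons (P.lf 0 871270 0) (P.cons (P.lf 38796 0 0) (P.cons (P.lf 18314 0 0) P.nil))) (P.cons (P.cons (P.lf 98752 0 0) (P.cons (P.lf 0 152 0) P.nil)) (P.cons (P.cons (P.lf 5424 0 0) P.nil) P.nil)))))) 3436)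
 EL.nil)))
noncomputable def S212_227_216_290_5 : EL := (EL.cons 0 (TM.mk (P.cons (P.cons (P.lf 248963334 0 0) (P.cons (P.lf 0 16486481 0) (P.cons (P.lf 0 7509691 0) (P.cons (P.lf 628284 0 0) (P.cons (P.lf 48549 0 0) (P.cons (P.lf 0 5791 0) P.nil)))))) (P.cons (P.cons (P.lf 0 87112332 0) (P.cons (P.lf 5070396 0 0) (P.cons (P.lf 2321156 0 0) (P.cons (P.lf 0 182315 0) (P.cons (P.lf 0 12874 0) P.nil))))) (P.cons (P.cons (P.lf 0 1251091 0) (P.cons (P.lf 237246 0 0) (P.cons (P.lf 105999 0 0) (P.cons (P.lf 0 10989 0) P.nil)))) (P.cons (P.cons (P.lf 2657496 0 0) (P.cons (P.lf 0 140862 0) (P.cons (P.lf 0 64789 0) P.nil))) (P.cons (P.cons (P.lf 0 74141 0) (P.cons (P.lf 0 2610 0) P.nil)) (P.cons (P.cons (P.lf 0 31273 0) P.nil) P.nil)))))) 31507)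
 (EL.cons 1 (TM.mk (P.cons (P.cons (P.lf 453808771 0 0) (P.cons (P.lf 0 30051451 0) (P.cons (P.lf 0 13688617 0) (P.cons (P.lf 1145233 0 0) (P.cons (P.lf 88496 0 0) (P.cons (P.lf 0 10556 0) P.nil)))))) (P.cons (P.cons (P.lf 0 60676860 0) (P.cons (P.lf 2745330 0 0) (P.cons (P.lf 1271583 0 0) (P.cons (P.lf 0 84729 0) (P.cons (P.lf 0 4335 0) P.nil))))) (P.cons (P.cons (P.lf 0 16949321 0) (P.cons (P.lf 1128675 0 0) (P.cons (P.lf 514905 0 0) (P.cons (P.lf 0 42266 0) P.nil)))) (P.cons (P.cons (P.lf 1511700 0 0) (P.cons (P.lf 0 30384 0) (P.cons (P.lf 0 14883 0) P.nil))) (P.cons (P.cons (P.lf 229891 0 0) (P.cons (P.lf 0 14231 0) P.nil)) (P.cons (P.cons (P.lf 0 16546 0) P.nil) P.nil)))))) 27241)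
 (EL.cons 5 (TM.mk (P.cons (P.cons (P.lf 827199724 0 0) (P.cons (P.lf 0 54777594 0) (P.cons (P.lf 0 24951526 0) (P.cons (P.lf 2087526 0 0) (P.cons (P.lf 161312 0 0) (P.cons (P.lf 0 19244 0) P.nil)))))) (P.cons (P.cons (P.lf 68234604 0 0) (P.cons (P.lf 0 6838440 0) (P.cons (P.lf 0 3076542 0) (P.cons (P.lf 296862 0 0) (P.cons (P.lf 26968 0 0) P.nil))))) (P.cons (P.cons (P.lf 0 18970030 0) (P.cons (P.lf 766106 0 0) (P.cons (P.lf 358704 0 0) (P.cons (P.lf 0 19998 0) P.nil)))) (P.cons (P.cons (P.lf 0 1351716 0) (P.cons (P.lf 118566 0 0) (P.cons (P.lf 54078 0 0) P.nil))) (P.cons (P.cons (P.lf 204834 0 0) (P.cons (P.lf 0 4436 0) P.nil)) (P.cons (P.cons (P.lf 13382 0 0) P.nil) P.nil)))))) 24728)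
 EL.nil)))
noncomputable def S212_227_216_290_6 : EL := (EL.cons 12 (TM.mk (P.lf 8589934592 0 0) 0)
 (EL.cons 3 (TM.mk (P.cons (P.lf 0 1119737460 0) (P.cons (P.lf 218679686 0 0) (P.cons (P.lf 3398598 0 0) (P.cons (P.lf 0 194190 0) (P.cons (P.lf 0 5531 0) (P.cons (P.lf 146 0 0) P.nil)))))) 52)
 (EL.cons 7 (TM.mk (P.cons (P.lf 0 2041050269 0) (P.cons (P.lf 0 42655831 0) (P.cons (P.lf 3948043 0 0) (P.cons (P.lf 84836 0 0) (P.cons (P.lf 0 3266 0) (P.cons (P.lf 0 122 0) P.nil)))))) 52)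
 EL.nil)))
noncomputable def S212_227_216_290_7 : EL := (EL.cons 12 (TM.mk (P.cons (P.cons (P.lf 5609269154 0 0) (P.cons (P.lf 0 185724360 0) (P.cons (P.lf 0 87673264 0) (P.lf 4174912 0 0)))) (P.cons (P.cons (P.lf 114122674 0 0) (P.cons (P.lf 0 11644328 0) (P.cons (P.lf 0 5496832 0) (P.lf 261744 0 0)))) (P.cons (P.cons (P.lf 0 60624092 0) (P.cons (P.lf 834392 0 0) (P.cons (P.lf 393880 0 0) (P.lf 0 18752 0)))) (P.cons (P.cons (P.lf 0 12606 0) (P.cons (P.lf 66504 0 0) (P.cons (P.lf 31392 0 0) P.nil))) (P.cons (P.cons (P.lf 219278 0 0) (P.cons (P.lf 0 1536 0) P.nil)) (P.cons (P.cons (P.lf 2334 0 0) P.nil) P.nil)))))) 5106)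
 (EL.cons 3 (TM.mk (P.cons (P.cons (P.lf 0 19368346 0) (P.cons (P.lf 0 48420046 0) (P.cons (P.lf 0 22857224 0) (P.lf 1088436 0 0)))) (P.cons (P.cons (P.lf 0 620720513 0) (P.cons (P.lf 6420432 0 0) (P.cons (P.lf 3030838 0 0) (P.lf 0 144326 0)))) (P.cons (P.cons (P.lf 3904125 0 0) (P.cons (P.lf 957370 0 0) (P.cons (P.lf 451934 0 0) (P.lf 0 21516 0)))) (P.cons (P.cons (P.lf 4678189 0 0) (P.cons (P.lf 0 24328 0) (P.cons (P.lf 0 11484 0) P.nil))) (P.cons (P.cons (P.lf 72723 0 0) (P.cons (P.lf 0 5210 0) P.nil)) (P.cons (P.cons (P.lf 0 16355 0) P.nil) P.nil)))))) 12383)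
 (EL.cons 7 (TM.mk (P.cons (P.cons (P.lf 0 1471665058 0) (P.cons (P.lf 58297163 0 0) (P.cons (P.lf 27519830 0 0) (P.lf 0 1310472 0)))) (P.cons (P.cons (P.lf 121078228 0 0) (P.cons (P.lf 0 1252370 0) (P.cons (P.lf 0 591193 0) (P.lf 28148 0 0)))) (P.cons (P.cons (P.lf 0 13849758 0) (P.cons (P.lf 0 51368 0) (P.cons (P.lf 0 24251 0) (P.lf 1156 0 0)))) (P.cons (P.cons (P.lf 0 664847 0) (P.cons (P.lf 30232 0 0) (P.cons (P.lf 14271 0 0) P.nil))) (P.cons (P.cons (P.lf 124156 0 0) (P.cons (P.lf 16 0 0) P.nil)) (P.cons (P.cons (P.lf 4019 0 0) P.nil) P.nil)))))) 10324)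
 (EL.cons 10 (TM.mk (P.cons (P.cons (P.lf 0 589516887 0) (P.cons (P.lf 0 581288511 0) (P.cons (P.lf 18189078 0 0) (P.cons (P.lf 3333075 0 0) (P.lf 0 119037 0))))) (P.cons (P.cons (P.lf 0 24640581 0) (P.cons (P.lf 0 24296649 0) (P.cons (P.lf 760263 0 0) (P.cons (P.lf 139314 0 0) (P.lf 0 4974 0))))) (P.cons (P.cons (P.lf 2023146 0 0) (P.cons (P.lf 1994907 0 0) (P.cons (P.lf 0 62421 0) (P.cons (P.lf 0 11436 0) P.nil)))) (P.cons (P.cons (P.lf 96669 0 0) (P.cons (P.lf 95319 0 0) (P.cons (P.lf 0 2982 0) P.nil))) (P.cons (P.cons (P.lf 0 3066 0) (P.cons (P.lf 0 3024 0) P.nil)) (P.cons (P.cons (P.lf 0 204 0) P.nil) P.nil)))))) 1485)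
 EL.nil))))
noncomputable def S212_227_216_290_8 : EL := (EL.cons 12 (TM.mk (P.cons (P.cons (P.lf 3662880094 0 0) (P.cons (P.lf 0 242557824 0) (P.cons (P.lf 0 110486560 0) (P.cons (P.lf 9243670 0 0) (P.cons (P.lf 714304 0 0) (P.cons (P.lf 0 85222 0) P.nil)))))) (P.cons (P.cons (P.lf 149045324 0 0) (P.cons (P.lf 0 20142534 0) (P.cons (P.lf 0 9004976 0) (P.cons (P.lf 928164 0 0) (P.cons (P.lf 89568 0 0) P.nil))))) (P.cons (P.cons (P.lf 0 77659462 0) (P.cons (P.lf 3401846 0 0) (P.cons (P.lf 1585578 0 0) (P.cons (P.lf 0 95626 0) P.nil)))) (P.cons (P.cons (P.lf 0 1627320 0) (P.cons (P.lf 273932 0 0) (P.cons (P.lf 124172 0 0) P.nil))) (P.cons (P.cons (P.lf 713902 0 0) (P.cons (P.lf 0 21464 0) P.nil)) (P.cons (P.cons (P.lf 9052 0 0) P.nil) P.nil)))))) 63546)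
 (EL.cons 3 (TM.mk (P.cons (P.cons (P.lf 452178005 0 0) (P.cons (P.lf 0 94018041 0) (P.cons (P.lf 0 41765022 0) (P.cons (P.lf 4584434 0 0) (P.cons (P.lf 465560 0 0) (P.cons (P.lf 0 55546 0) P.nil)))))) (P.cons (P.cons (P.lf 0 885001311 0) (P.cons (P.lf 37541752 0 0) (P.cons (P.lf 17539055 0 0) (P.cons (P.lf 0 1016634 0) (P.cons (P.lf 0 32540 0) P.nil))))) (P.cons (P.cons (P.lf 0 26487937 0) (P.cons (P.lf 4666867 0 0) (P.cons (P.lf 2117772 0 0) (P.cons (P.lf 0 185394 0) P.nil)))) (P.cons (P.cons (P.lf 16763847 0 0) (P.cons (P.lf 0 478992 0) (P.cons (P.lf 0 227417 0) P.nil))) (P.cons (P.cons (P.lf 335945 0 0) (P.cons (P.lf 0 59851 0) P.nil)) (P.cons (P.cons (P.lf 0 135240 0) P.nil) P.nil)))))) 149904)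
 (EL.cons 7 (TM.mk (P.cons (P.cons (P.lf 0 1051673711 0) (P.cons (P.lf 82140827 0 0) (P.cons (P.lf 37208730 0 0) (P.cons (P.lf 0 3325674 0) (P.cons (P.lf 0 278697 0) (P.cons (P.lf 33245 0 0) P.nil)))))) (P.cons (P.cons (P.lf 172629046 0 0) (P.cons (P.lf 0 7322917 0) (P.cons (P.lf 0 3421173 0) (P.cons (P.lf 198294 0 0) (P.cons (P.lf 6347 0 0) P.nil))))) (P.cons (P.cons (P.lf 0 13493955 0) (P.cons (P.lf 0 118742 0) (P.cons (P.lf 0 43284 0) (P.cons (P.lf 14735 0 0) P.nil)))) (P.cons (P.cons (P.lf 0 3818003 0) (P.cons (P.lf 216289 0 0) (P.cons (P.lf 100000 0 0) P.nil))) (P.cons (P.cons (P.lf 461644 0 0) (P.cons (P.lf 0 4518 0) P.nil)) (P.cons (P.cons (P.lf 30673 0 0) P.nil) P.nil)))))) 77073)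
 (EL.cons 10 (TM.mk (P.cons (P.cons (P.lf 0 769914798 0) (P.cons (P.lf 0 733676382 0) (P.cons (P.lf 60925194 0 0) (P.cons (P.lf 14859306 0 0) (P.cons (P.lf 0 1235922 0) (P.cons (P.lf 0 45210 0) P.nil)))))) (P.cons (P.cons (P.lf 0 47845038 0) (P.cons (P.lf 0 44513436 0) (P.cons (P.lf 5360292 0 0) (P.cons (P.lf 1368360 0 0) (P.cons (P.lf 0 122556 0) P.nil))))) (P.cons (P.cons (P.lf 10308630 0 0) (P.cons (P.lf 10029540 0 0) (P.cons (P.lf 0 515208 0) (P.cons (P.lf 0 114000 0) P.nil)))) (P.cons (P.cons (P.lf 529542 0 0) (P.cons (P.lf 498570 0 0) (P.cons (P.lf 0 50718 0) P.nil))) (P.cons (P.cons (P.lf 0 60012 0) (P.cons (P.lf 0 59088 0) P.nil)) (P.cons (P.cons (P.lf 0 3294 0) P.nil) P.nil)))))) 57444)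
 EL.nil))))
noncomputable def S212_227_216_290_9 : EL := (EL.cons 3 (TM.mk (P.cons (P.lf 0 1119737460 0) (P.cons (P.lf 218679686 0 0) (P.cons (P.lf 3398598 0 0) (P.cons (P.lf 0 194190 0) (P.cons (P.lf 0 5531 0) (P.cons (P.lf 146 0 0) P.nil)))))) 52)
 (EL.cons 7 (TM.mk (P.cons (P.lf 0 2041050269 0) (P.cons (P.lf 0 42655831 0) (P.cons (P.lf 3948043 0 0) (P.cons (P.lf 84836 0 0) (P.cons (P.lf 0 3266 0) (P.cons (P.lf 0 122 0) P.nil)))))) 52)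
 EL.nil))
noncomputable def S212_227_216_290_10 : EL := (EL.cons 3 (TM.mk (P.cons (P.cons (P.lf 0 731194018 0) (P.cons (P.lf 24210023 0 0) (P.cons (P.lf 11428612 0 0) (P.lf 0 544218 0)))) (P.cons (P.cons (P.lf 127922485 0 0) (P.cons (P.lf 0 3210216 0) (P.cons (P.lf 0 1515419 0) (P.lf 72163 0 0)))) (P.cons (P.cons (P.lf 13027227 0 0) (P.cons (P.lf 0 478685 0) (P.cons (P.lf 0 225967 0) (P.lf 10758 0 0)))) (P.cons (P.cons (P.lf 0 1623359 0) (P.cons (P.lf 12164 0 0) (P.cons (P.lf 5742 0 0) P.nil))) (P.cons (P.cons (P.lf 0 59082 0) (P.cons (P.lf 2605 0 0) P.nil)) (P.cons (P.cons (P.lf 6664 0 0) P.nil) P.nil)))))) 3013)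
 (EL.cons 7 (TM.mk (P.cons (P.cons (P.lf 0 1332815773 0) (P.cons (P.lf 44129876 0 0) (P.cons (P.lf 20832002 0 0) (P.lf 0 991998 0)))) (P.cons (P.cons (P.lf 0 54971099 0) (P.cons (P.lf 3689071 0 0) (P.cons (P.lf 1741466 0 0) (P.lf 0 82924 0)))) (P.cons (P.cons (P.lf 16416243 0 0) (P.cons (P.lf 0 225797 0) (P.cons (P.lf 0 106589 0) (P.lf 5074 0 0)))) (P.cons (P.cons (P.lf 411892 0 0) (P.cons (P.lf 0 27131 0) (P.cons (P.lf 0 12807 0) P.nil))) (P.cons (P.cons (P.lf 0 80909 0) (P.cons (P.lf 373 0 0) P.nil)) (P.cons (P.cons (P.lf 0 2371 0) P.nil) P.nil)))))) 2208)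
 EL.nil))
noncomputable def S212_227_216_290_11 : EL := (EL.cons 3 (TM.mk (P.cons (P.cons (P.lf 0 477473257 0) (P.cons (P.lf 31618527 0 0) (P.cons (P.lf 14402430 0 0) (P.cons (P.lf 0 1204954 0) (P.cons (P.lf 0 93112 0) (P.cons (P.lf 11108 0 0) P.nil)))))) (P.cons (P.cons (P.lf 73819635 0 0) (P.cons (P.lf 0 3549284 0) (P.cons (P.lf 0 1638889 0) (P.cons (P.lf 114330 0 0) (P.cons (P.lf 6508 0 0) P.nil))))) (P.cons (P.cons (P.lf 15366827 0 0) (P.cons (P.lf 0 1052195 0) (P.cons (P.lf 0 479646 0) (P.cons (P.lf 39750 0 0) P.nil)))) (P.cons (P.cons (P.lf 0 1788735 0) (P.cons (P.lf 48408 0 0) (P.cons (P.lf 23113 0 0) P.nil))) (P.cons (P.cons (P.lf 0 170941 0) (P.cons (P.lf 11729 0 0) P.nil)) (P.cons (P.cons (P.lf 18072 0 0) P.nil) P.nil)))))) 23444)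
 (EL.cons 7 (TM.mk (P.cons (P.cons (P.lf 0 870335195 0) (P.cons (P.lf 57634049 0 0) (P.cons (P.lf 26252658 0 0) (P.cons (P.lf 0 2196384 0) (P.cons (P.lf 0 169725 0) (P.cons (P.lf 20249 0 0) P.nil)))))) (P.cons (P.cons (P.lf 0 53603690 0) (P.cons (P.lf 5990549 0 0) (P.cons (P.lf 2688321 0 0) (P.cons (P.lf 0 266442 0) (P.cons (P.lf 0 24829 0) P.nil))))) (P.cons (P.cons (P.lf 19396005 0 0) (P.cons (P.lf 0 819770 0) (P.cons (P.lf 0 382812 0) (P.cons (P.lf 22361 0 0) P.nil)))) (P.cons (P.cons (P.lf 876985 0 0) (P.cons (P.lf 0 93635 0) (P.cons (P.lf 0 42608 0) P.nil))) (P.cons (P.cons (P.lf 0 197162 0) (P.cons (P.lf 5196 0 0) P.nil)) (P.cons (P.cons (P.lf 0 7319 0) P.nil) P.nil)))))) 20111)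
 EL.nil))
noncomputable def S212_227_216_290_12 : EL := (EL.cons 4 (TM.mk (P.cons (P.lf 1119737460 0 0) (P.cons (P.lf 0 218679686 0) (P.cons (P.lf 0 3398598 0) (P.cons (P.lf 194190 0 0) (P.cons (P.lf 5531 0 0) (P.cons (P.lf 0 146 0) P.nil)))))) 52)
 (EL.cons 8 (TM.mk (P.cons (P.lf 2041050269 0 0) (P.cons (P.lf 42655831 0 0) (P.cons (P.lf 0 3948043 0) (P.cons (P.lf 0 84836 0) (P.cons (P.lf 3266 0 0) (P.cons (P.lf 122 0 0) P.nil)))))) 52)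
 EL.nil))
noncomputable def S212_227_216_290_13 : EL := (EL.cons 4 (TM.mk (P.cons (P.cons (P.lf 731194018 0 0) (P.cons (P.lf 0 24210023 0) (P.cons (P.lf 0 11428612 0) (P.lf 544218 0 0)))) (P.cons (P.cons (P.lf 0 127922485 0) (P.cons (P.lf 3210216 0 0) (P.cons (P.lf 1515419 0 0) (P.lf 0 72163 0)))) (P.cons (P.cons (P.lf 0 13027227 0) (P.cons (P.lf 478685 0 0) (P.cons (P.lf 225967 0 0) (P.lf 0 10758 0)))) (P.cons (P.cons (P.lf 1623359 0 0) (P.cons (P.lf 0 12164 0) (P.cons (P.lf 0 5742 0) P.nil))) (P.cons (P.cons (P.lf 59082 0 0) (P.cons (P.lf 0 2605 0) P.nil)) (P.cons (P.cons (P.lf 0 6664 0) P.nil) P.nil)))))) 3013)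
 (EL.cons 8 (TM.mk (P.cons (P.cons (P.lf 1332815773 0 0) (P.cons (P.lf 0 44129876 0) (P.cons (P.lf 0 20832002 0) (P.lf 991998 0 0)))) (P.cons (P.cons (P.lf 54971099 0 0) (P.cons (P.lf 0 3689071 0) (P.cons (P.lf 0 1741466 0) (P.lf 82924 0 0)))) (P.cons (P.cons (P.lf 0 16416243 0) (P.cons (P.lf 225797 0 0) (P.cons (P.lf 106589 0 0) (P.lf 0 5074 0)))) (P.cons (P.cons (P.lf 0 411892 0) (P.cons (P.lf 27131 0 0) (P.cons (P.lf 12807 0 0) P.nil))) (P.cons (P.cons (P.lf 80909 0 0) (P.cons (P.lf 0 373 0) P.nil)) (P.cons (P.cons (P.lf 2371 0 0) P.nil) P.nil)))))) 2208)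
 EL.nil))
noncomputable def S212_227_216_290_14 : EL := (EL.cons 4 (TM.mk (P.cons (P.cons (P.lf 477473257 0 0) (P.cons (P.lf 0 31618527 0) (P.cons (P.lf 0 14402430 0) (P.cons (P.lf 1204954 0 0) (P.cons (P.lf 93112 0 0) (P.cons (P.lf 0 11108 0) P.nil)))))) (P.cons (P.cons (P.lf 0 73819635 0) (P.cons (P.lf 3549284 0 0) (P.cons (P.lf 1638889 0 0) (P.cons (P.lf 0 114330 0) (P.cons (P.lf 0 6508 0) P.nil))))) (P.cons (P.cons (P.lf 0 15366827 0) (P.cons (P.lf 1052195 0 0) (P.cons (P.lf 479646 0 0) (P.cons (P.lf 0 39750 0) P.nil)))) (P.cons (P.cons (P.lf 1788735 0 0) (P.cons (P.lf 0 48408 0) (P.cons (P.lf 0 23113 0) P.nil))) (P.cons (P.cons (P.lf 170941 0 0) (P.cons (P.lf 0 11729 0) P.nil)) (P.cons (P.cons (P.lf 0 18072 0) P.nil) P.nil)))))) 23444)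
 (EL.cons 8 (TM.mk (P.cons (P.cons (P.lf 870335195 0 0) (P.cons (P.lf 0 57634049 0) (P.cons (P.lf 0 26252658 0) (P.cons (P.lf 2196384 0 0) (P.cons (P.lf 169725 0 0) (P.cons (P.lf 0 20249 0) P.nil)))))) (P.cons (P.cons (P.lf 53603690 0 0) (P.cons (P.lf 0 5990549 0) (P.cons (P.lf 0 2688321 0) (P.cons (P.lf 266442 0 0) (P.cons (P.lf 24829 0 0) P.nil))))) (P.cons (P.cons (P.lf 0 19396005 0) (P.cons (P.lf 819770 0 0) (P.cons (P.lf 382812 0 0) (P.cons (P.lf 0 22361 0) P.nil)))) (P.cons (P.cons (P.lf 0 876985 0) (P.cons (P.lf 93635 0 0) (P.cons (P.lf 42608 0 0) P.nil))) (P.cons (P.cons (P.lf 197162 0 0) (P.cons (P.lf 0 5196 0) P.nil)) (P.cons (P.cons (P.lf 7319 0 0) P.nil) P.nil)))))) 20111)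
 EL.nil))
noncomputable def S212_227_216_290_15 : EL := (EL.cons 4 (TM.mk (P.cons (P.lf 0 311387573 0) (P.cons (P.lf 121625182 0 0) (P.cons (P.lf 0 9986193 0) (P.cons (P.lf 0 477157 0) (P.cons (P.lf 15147 0 0) (P.cons (P.lf 1009 0 0) P.nil)))))) 78)
 (EL.cons 8 (TM.mk (P.cons (P.lf 0 567595274 0) (P.cons (P.lf 98986650 0 0) (P.cons (P.lf 5137286 0 0) (P.cons (P.lf 0 253256 0) (P.cons (P.lf 0 13708 0) (P.cons (P.lf 277 0 0) P.nil)))))) 68)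
 EL.nil))
noncomputable def S212_227_216_290_16 : EL := (EL.cons 4 (TM.mk (P.cons (P.cons (P.lf 0 203337602 0) (P.cons (P.lf 6732560 0 0) (P.cons (P.lf 3178180 0 0) (P.lf 0 151341 0)))) (P.cons (P.cons (P.lf 75284857 0 0) (P.cons (P.lf 0 2207566 0) (P.cons (P.lf 0 1042106 0) (P.lf 49623 0 0)))) (P.cons (P.cons (P.lf 0 2707525 0) (P.cons (P.lf 20792 0 0) (P.cons (P.lf 9815 0 0) (P.lf 0 466 0)))) (P.cons (P.cons (P.lf 0 1302180 0) (P.cons (P.lf 33256 0 0) (P.cons (P.lf 15699 0 0) P.nil))) (P.cons (P.cons (P.lf 65902 0 0) (P.cons (P.lf 345 0 0) P.nil)) (P.cons (P.cons (P.lf 7262 0 0) P.nil) P.nil)))))) 3269)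
 (EL.cons 8 (TM.mk (P.cons (P.cons (P.lf 0 370642480 0) (P.cons (P.lf 12272068 0 0) (P.cons (P.lf 5793167 0 0) (P.lf 0 275864 0)))) (P.cons (P.cons (P.lf 57097905 0 0) (P.cons (P.lf 0 1370786 0) (P.cons (P.lf 0 647095 0) (P.lf 30814 0 0)))) (P.cons (P.cons (P.lf 8675617 0 0) (P.cons (P.lf 0 300392 0) (P.cons (P.lf 0 141802 0) (P.lf 6751 0 0)))) (P.cons (P.cons (P.lf 0 794898 0) (P.cons (P.lf 3732 0 0) (P.cons (P.lf 1761 0 0) P.nil))) (P.cons (P.cons (P.lf 0 63207 0) (P.cons (P.lf 2006 0 0) P.nil)) (P.cons (P.cons (P.lf 4151 0 0) P.nil) P.nil)))))) 2371)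
 EL.nil))
noncomputable def S212_227_216_290_17 : EL := (EL.cons 4 (TM.mk (P.cons (P.cons (P.lf 0 132780445 0) (P.cons (P.lf 8792790 0 0) (P.cons (P.lf 4005168 0 0) (P.cons (P.lf 0 335085 0) (P.cons (P.lf 0 25892 0) (P.cons (P.lf 3089 0 0) P.nil)))))) (P.cons (P.cons (P.lf 46459910 0 0) (P.cons (P.lf 0 2704211 0) (P.cons (P.lf 0 1237950 0) (P.cons (P.lf 97234 0 0) (P.cons (P.lf 6866 0 0) P.nil))))) (P.cons (P.cons (P.lf 667248 0 0) (P.cons (P.lf 0 126531 0) (P.cons (P.lf 0 56533 0) (P.cons (P.lf 5861 0 0) P.nil)))) (P.cons (P.cons (P.lf 0 1417331 0) (P.cons (P.lf 75126 0 0) (P.cons (P.lf 34554 0 0) P.nil))) (P.cons (P.cons (P.lf 39541 0 0) (P.cons (P.lf 1392 0 0) P.nil)) (P.cons (P.cons (P.lf 16679 0 0) P.nil) P.nil)))))) 16814)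
 (EL.cons 8 (TM.mk (P.cons (P.cons (P.lf 0 242031345 0) (P.cons (P.lf 16027441 0 0) (P.cons (P.lf 7300596 0 0) (P.cons (P.lf 0 610791 0) (P.cons (P.lf 0 47198 0) (P.cons (P.lf 5630 0 0) P.nil)))))) (P.cons (P.cons (P.lf 32360992 0 0) (P.cons (P.lf 0 1464176 0) (P.cons (P.lf 0 678178 0) (P.cons (P.lf 45189 0 0) (P.cons (P.lf 2312 0 0) P.nil))))) (P.cons (P.cons (P.lf 9039638 0 0) (P.cons (P.lf 0 601960 0) (P.cons (P.lf 0 274616 0) (P.cons (P.lf 22542 0 0) P.nil)))) (P.cons (P.cons (P.lf 0 806240 0) (P.cons (P.lf 16205 0 0) (P.cons (P.lf 7938 0 0) P.nil))) (P.cons (P.cons (P.lf 0 122609 0) (P.cons (P.lf 7590 0 0) P.nil)) (P.cons (P.cons (P.lf 8825 0 0) P.nil) P.nil)))))) 14517)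
 EL.nil))
noncomputable def S212_227_216_290_18 : EL := (EL.cons 4 (TM.mk (P.cons (P.lf 86593710 0 0) (P.cons (P.lf 0 50734084 0) (P.cons (P.lf 9119656 0 0) (P.cons (P.lf 0 291978 0) (P.cons (P.lf 0 43993 0) (P.cons (P.lf 441 0 0) P.nil)))))) 153)
 (EL.cons 8 (TM.mk (P.cons (P.lf 157842459 0 0) (P.cons (P.lf 0 58353100 0) (P.cons (P.lf 3468227 0 0) (P.cons (P.lf 460355 0 0) (P.cons (P.lf 0 9599 0) (P.cons (P.lf 0 1439 0) P.nil)))))) 99)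
 EL.nil))
noncomputable def S212_227_216_290_19 : EL := (EL.cons 4 (TM.mk (P.cons (P.cons (P.lf 56546114 0 0) (P.cons (P.lf 0 1872255 0) (P.cons (P.lf 0 883818 0) (P.lf 42086 0 0)))) (P.cons (P.cons (P.lf 0 31979152 0) (P.cons (P.lf 979545 0 0) (P.cons (P.lf 462405 0 0) (P.lf 0 22019 0)))) (P.cons (P.cons (P.lf 4670004 0 0) (P.cons (P.lf 0 119991 0) (P.cons (P.lf 0 56642 0) (P.lf 2697 0 0)))) (P.cons (P.cons (P.lf 288428 0 0) (P.cons (P.lf 0 10306 0) (P.cons (P.lf 0 4864 0) P.nil))) (P.cons (P.cons (P.lf 0 94683 0) (P.cons (P.lf 1824 0 0) P.nil)) (P.cons (P.cons (P.lf 479 0 0) P.nil) P.nil)))))) 2896)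
 (EL.cons 8 (TM.mk (P.cons (P.cons (P.lf 103071895 0 0) (P.cons (P.lf 0 3412737 0) (P.cons (P.lf 0 1611020 0) (P.lf 76715 0 0)))) (P.cons (P.cons (P.lf 0 36007822 0) (P.cons (P.lf 1047693 0 0) (P.cons (P.lf 494575 0 0) (P.lf 0 23551 0)))) (P.cons (P.cons (P.lf 375527 0 0) (P.cons (P.lf 19447 0 0) (P.cons (P.lf 9180 0 0) (P.lf 0 437 0)))) (P.cons (P.cons (P.lf 758291 0 0) (P.cons (P.lf 0 19100 0) (P.cons (P.lf 0 9016 0) P.nil))) (P.cons (P.cons (P.lf 0 20514 0) (P.cons (P.lf 0 559 0) P.nil)) (P.cons (P.cons (P.lf 0 5768 0) P.nil) P.nil)))))) 2207)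
 EL.nil))
noncomputable def S212_227_216_290_20 : EL := (EL.cons 4 (TM.mk (P.cons (P.cons (P.lf 36924887 0 0) (P.cons (P.lf 0 2445184 0) (P.cons (P.lf 0 1113795 0) (P.cons (P.lf 93183 0 0) (P.cons (P.lf 7200 0 0) (P.cons (P.lf 0 858 0) P.nil)))))) (P.cons (P.cons (P.lf 0 20131291 0) (P.cons (P.lf 1229547 0 0) (P.cons (P.lf 561780 0 0) (P.cons (P.lf 0 45238 0) (P.cons (P.lf 0 3315 0) P.nil))))) (P.cons (P.cons (P.lf 2225594 0 0) (P.cons (P.lf 0 104255 0) (P.cons (P.lf 0 48130 0) (P.cons (P.lf 3367 0 0) P.nil)))) (P.cons (P.cons (P.lf 476001 0 0) (P.cons (P.lf 0 30469 0) (P.cons (P.lf 0 13917 0) P.nil))) (P.cons (P.cons (P.lf 0 89465 0) (P.cons (P.lf 3704 0 0) P.nil)) (P.cons (P.cons (P.lf 0 3787 0) P.nil) P.nil)))))) 10830)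
 (EL.cons 8 (TM.mk (P.cons (P.cons (P.lf 67306449 0 0) (P.cons (P.lf 0 4457068 0) (P.cons (P.lf 0 2030221 0) (P.cons (P.lf 169854 0 0) (P.cons (P.lf 13125 0 0) (P.cons (P.lf 0 1565 0) P.nil)))))) (P.cons (P.cons (P.lf 0 22143908 0) (P.cons (P.lf 1277617 0 0) (P.cons (P.lf 585087 0 0) (P.cons (P.lf 0 45738 0) (P.cons (P.lf 0 3206 0) P.nil))))) (P.cons (P.cons (P.lf 0 960602 0) (P.cons (P.lf 101407 0 0) (P.cons (P.lf 45698 0 0) (P.cons (P.lf 0 4329 0) P.nil)))) (P.cons (P.cons (P.lf 754133 0 0) (P.cons (P.lf 0 39207 0) (P.cons (P.lf 0 18046 0) P.nil))) (P.cons (P.cons (P.lf 0 3288 0) (P.cons (P.lf 0 1689 0) P.nil)) (P.cons (P.cons (P.lf 0 10282 0) P.nil) P.nil)))))) 9896)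
 EL.nil))
noncomputable def S212_227_216_290_21 : EL := (EL.cons 4 (TM.mk (P.cons (P.cons (P.lf 0 711825672 0) (P.cons (P.lf 72630069 0 0) (P.cons (P.lf 34285836 0 0) (P.lf 0 1632654 0)))) (P.cons (P.cons (P.lf 748642998 0 0) (P.cons (P.lf 0 9630648 0) (P.cons (P.lf 0 4546257 0) (P.lf 216489 0 0)))) (P.cons (P.cons (P.lf 9123102 0 0) (P.cons (P.lf 0 1436055 0) (P.cons (P.lf 0 677901 0) (P.lf 32274 0 0)))) (P.cons (P.cons (P.lf 0 6301548 0) (P.cons (P.lf 36492 0 0) (P.cons (P.lf 17226 0 0) P.nil))) (P.cons (P.cons (P.lf 0 131805 0) (P.cons (P.lf 7815 0 0) P.nil)) (P.cons (P.cons (P.lf 23019 0 0) P.nil) P.nil)))))) 9351)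
 (EL.cons 8 (TM.mk (P.cons (P.cons (P.lf 138849285 0 0) (P.cons (P.lf 0 14167287 0) (P.cons (P.lf 0 6687828 0) (P.lf 318474 0 0)))) (P.cons (P.cons (P.lf 0 176049327 0) (P.cons (P.lf 4941441 0 0) (P.cons (P.lf 2332659 0 0) (P.lf 0 111072 0)))) (P.cons (P.cons (P.lf 30266001 0 0) (P.cons (P.lf 0 174429 0) (P.cons (P.lf 0 82338 0) (P.lf 3918 0 0)))) (P.cons (P.cons (P.lf 1076739 0 0) (P.cons (P.lf 0 57363 0) (P.cons (P.lf 0 27078 0) P.nil))) (P.cons (P.cons (P.lf 0 205065 0) (P.cons (P.lf 357 0 0) P.nil)) (P.cons (P.cons (P.lf 0 6390 0) P.nil) P.nil)))))) 8097)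
 (EL.cons 11 (TM.mk (P.cons (P.cons (P.lf 589516887 0 0) (P.cons (P.lf 581288511 0 0) (P.cons (P.lf 0 18189078 0) (P.cons (P.lf 0 3333075 0) (P.lf 119037 0 0))))) (P.cons (P.cons (P.lf 24640581 0 0) (P.cons (P.lf 24296649 0 0) (P.cons (P.lf 0 760263 0) (P.cons (P.lf 0 139314 0) (P.lf 4974 0 0))))) (P.cons (P.cons (P.lf 0 2023146 0) (P.cons (P.lf 0 1994907 0) (P.cons (P.lf 62421 0 0) (P.cons (P.lf 11436 0 0) P.nil)))) (P.cons (P.cons (P.lf 0 96669 0) (P.cons (P.lf 0 95319 0) (P.cons (P.lf 2982 0 0) P.nil))) (P.cons (P.cons (P.lf 3066 0 0) (P.cons (P.lf 3024 0 0) P.nil)) (P.cons (P.cons (P.lf 204 0 0) P.nil) P.nil)))))) 1485)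
 EL.nil)))
noncomputable def S212_227_216_290_22 : EL := (EL.cons 4 (TM.mk (P.cons (P.cons (P.lf 0 464825631 0) (P.cons (P.lf 62818284 0 0) (P.cons (P.lf 28083726 0 0) (P.cons (P.lf 0 2894694 0) (P.cons (P.lf 0 279336 0) (P.cons (P.lf 33327 0 0) P.nil)))))) (P.cons (P.cons (P.lf 479410473 0 0) (P.cons (P.lf 0 20545518 0) (P.cons (P.lf 0 9588972 0) (P.cons (P.lf 565482 0 0) (P.cons (P.lf 19524 0 0) P.nil))))) (P.cons (P.cons (P.lf 20927382 0 0) (P.cons (P.lf 0 2859531 0) (P.cons (P.lf 0 1298709 0) (P.cons (P.lf 112572 0 0) P.nil)))) (P.cons (P.cons (P.lf 0 9276291 0) (P.cons (P.lf 263700 0 0) (P.cons (P.lf 125265 0 0) P.nil))) (P.cons (P.cons (P.lf 0 253443 0) (P.cons (P.lf 35790 0 0) P.nil)) (P.cons (P.cons (P.lf 76656 0 0) P.nil) P.nil)))))) 63219)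
 (EL.cons 8 (TM.mk (P.cons (P.cons (P.lf 90669258 0 0) (P.cons (P.lf 0 12253389 0) (P.cons (P.lf 0 5478036 0) (P.cons (P.lf 564645 0 0) (P.cons (P.lf 54486 0 0) (P.cons (P.lf 0 6498 0) P.nil)))))) (P.cons (P.cons (P.lf 0 113116368 0) (P.cons (P.lf 6656733 0 0) (P.cons (P.lf 3054747 0 0) (P.cons (P.lf 0 232368 0) (P.cons (P.lf 0 15588 0) P.nil))))) (P.cons (P.cons (P.lf 16444980 0 0) (P.cons (P.lf 0 350514 0) (P.cons (P.lf 0 169764 0) (P.cons (P.lf 3813 0 0) P.nil)))) (P.cons (P.cons (P.lf 2347494 0 0) (P.cons (P.lf 0 154962 0) (P.cons (P.lf 0 71304 0) P.nil))) (P.cons (P.cons (P.lf 0 329403 0) (P.cons (P.lf 4857 0 0) P.nil)) (P.cons (P.cons (P.lf 0 18996 0) P.nil) P.nil)))))) 28470)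
 (EL.cons 11 (TM.mk (P.cons (P.cons (P.lf 384957399 0 0) (P.cons (P.lf 366838191 0 0) (P.cons (P.lf 0 30462597 0) (P.cons (P.lf 0 7429653 0) (P.cons (P.lf 617961 0 0) (P.cons (P.lf 22605 0 0) P.nil)))))) (P.cons (P.cons (P.lf 23922519 0 0) (P.cons (P.lf 22256718 0 0) (P.cons (P.lf 0 2680146 0) (P.cons (P.lf 0 684180 0) (P.cons (P.lf 61278 0 0) P.nil))))) (P.cons (P.cons (P.lf 0 5154315 0) (P.cons (P.lf 0 5014770 0) (P.cons (P.lf 257604 0 0) (P.cons (P.lf 57000 0 0) P.nil)))) (P.cons (P.cons (P.lf 0 264771 0) (P.cons (P.lf 0 249285 0) (P.cons (P.lf 25359 0 0) P.nil))) (P.cons (P.cons (P.lf 30006 0 0) (P.cons (P.lf 29544 0 0) P.nil)) (P.cons (P.cons (P.lf 1647 0 0) P.nil) P.nil)))))) 28722)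
 EL.nil)))
noncomputable def S212_227_216_290_23 : EL := (EL.cons 4 (TM.mk (P.cons (P.cons (P.lf 197951463 0 0) (P.cons (P.lf 0 20197680 0) (P.cons (P.lf 0 9534540 0) (P.lf 454023 0 0)))) (P.cons (P.cons (P.lf 0 246849015 0) (P.cons (P.lf 6622701 0 0) (P.cons (P.lf 3126318 0 0) (P.lf 0 148872 0)))) (P.cons (P.cons (P.lf 37520706 0 0) (P.cons (P.lf 0 62379 0) (P.cons (P.lf 0 29448 0) (P.lf 1404 0 0)))) (P.cons (P.cons (P.lf 2914089 0 0) (P.cons (P.lf 0 99771 0) (P.cons (P.lf 0 47097 0) P.nil))) (P.cons (P.cons (P.lf 0 333006 0) (P.cons (P.lf 0 1038 0) P.nil)) (P.cons (P.cons (P.lf 0 20370 0) P.nil) P.nil)))))) 9369)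
 (EL.cons 8 (TM.mk (P.cons (P.cons (P.lf 0 38612568 0) (P.cons (P.lf 3939777 0 0) (P.cons (P.lf 1859814 0 0) (P.lf 0 88563 0)))) (P.cons (P.cons (P.lf 56498382 0 0) (P.cons (P.lf 0 2143584 0) (P.cons (P.lf 0 1011900 0) (P.lf 48183 0 0)))) (P.cons (P.cons (P.lf 0 17860653 0) (P.cons (P.lf 304917 0 0) (P.cons (P.lf 143937 0 0) (P.lf 0 6852 0)))) (P.cons (P.cons (P.lf 1189014 0 0) (P.cons (P.lf 11331 0 0) (P.cons (P.lf 5349 0 0) P.nil))) (P.cons (P.cons (P.lf 149349 0 0) (P.cons (P.lf 0 3579 0) P.nil)) (P.cons (P.cons (P.lf 0 9663 0) P.nil) P.nil)))))) 5508)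
 (EL.cons 11 (TM.mk (P.cons (P.cons (P.lf 0 163938636 0) (P.cons (P.lf 0 161650407 0) (P.cons (P.lf 5058195 0 0) (P.cons (P.lf 926892 0 0) (P.lf 0 33102 0))))) (P.cons (P.cons (P.lf 25164183 0 0) (P.cons (P.lf 24812946 0 0) (P.cons (P.lf 0 776421 0) (P.cons (P.lf 0 142275 0) (P.lf 5079 0 0))))) (P.cons (P.cons (P.lf 2398419 0 0) (P.cons (P.lf 2364942 0 0) (P.cons (P.lf 0 73998 0) (P.cons (P.lf 0 13557 0) P.nil)))) (P.cons (P.cons (P.lf 0 90624 0) (P.cons (P.lf 0 89361 0) (P.cons (P.lf 2796 0 0) P.nil))) (P.cons (P.cons (P.lf 0 9807 0) (P.cons (P.lf 0 9669 0) P.nil)) (P.cons (P.cons (P.lf 111 0 0) P.nil) P.nil)))))) 2586)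
 EL.nil)))
noncomputable def S212_227_216_290_24 : EL := (EL.cons 4 (TM.mk (P.cons (P.cons (P.lf 129263268 0 0) (P.cons (P.lf 0 17469123 0) (P.cons (P.lf 0 7809798 0) (P.cons (P.lf 804984 0 0) (P.cons (P.lf 77679 0 0) (P.cons (P.lf 0 9267 0) P.nil)))))) (P.cons (P.cons (P.lf 0 158563701 0) (P.cons (P.lf 9125139 0 0) (P.cons (P.lf 4191813 0 0) (P.cons (P.lf 0 314463 0) (P.cons (P.lf 0 20598 0) P.nil))))) (P.cons (P.cons (P.lf 19824603 0 0) (P.cons (P.lf 0 267591 0) (P.cons (P.lf 0 135909 0) (P.cons (P.lf 0 3036 0) P.nil)))) (P.cons (P.cons (P.lf 4143264 0 0) (P.cons (P.lf 0 249003 0) (P.cons (P.lf 0 114816 0) P.nil))) (P.cons (P.cons (P.lf 0 438129 0) (P.cons (P.lf 2859 0 0) P.nil)) (P.cons (P.cons (P.lf 0 44595 0) P.nil) P.nil)))))) 41775)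
 (EL.cons 8 (TM.mk (P.cons (P.cons (P.lf 0 25214196 0) (P.cons (P.lf 3407541 0 0) (P.cons (P.lf 1523385 0 0) (P.cons (P.lf 0 157020 0) (P.cons (P.lf 0 15150 0) (P.cons (P.lf 1806 0 0) P.nil)))))) (P.cons (P.cons (P.lf 36380727 0 0) (P.cons (P.lf 0 2516646 0) (P.cons (P.lf 0 1147002 0) (P.cons (P.lf 95283 0 0) (P.cons (P.lf 7293 0 0) P.nil))))) (P.cons (P.cons (P.lf 0 10639965 0) (P.cons (P.lf 448656 0 0) (P.cons (P.lf 208488 0 0) (P.cons (P.lf 0 13203 0) P.nil)))) (P.cons (P.cons (P.lf 140457 0 0) (P.cons (P.lf 30264 0 0) (P.cons (P.lf 13449 0 0) P.nil))) (P.cons (P.cons (P.lf 238305 0 0) (P.cons (P.lf 0 10365 0) P.nil)) (P.cons (P.cons (P.lf 0 11259 0) P.nil) P.nil)))))) 17307)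
 (EL.cons 11 (TM.mk (P.cons (P.cons (P.lf 0 107052726 0) (P.cons (P.lf 0 102013959 0) (P.cons (P.lf 8471337 0 0) (P.cons (P.lf 2066109 0 0) (P.cons (P.lf 0 171849 0) (P.cons (P.lf 0 6285 0) P.nil)))))) (P.cons (P.cons (P.lf 14254305 0 0) (P.cons (P.lf 13733499 0 0) (P.cons (P.lf 0 909090 0) (P.cons (P.lf 0 213237 0) (P.cons (P.lf 16518 0 0) P.nil))))) (P.cons (P.cons (P.lf 3057510 0 0) (P.cons (P.lf 2912940 0 0) (P.cons (P.lf 0 242904 0) (P.cons (P.lf 0 59280 0) P.nil)))) (P.cons (P.cons (P.lf 0 204672 0) (P.cons (P.lf 0 201930 0) (P.cons (P.lf 6144 0 0) P.nil))) (P.cons (P.cons (P.lf 0 28755 0) (P.cons (P.lf 0 27564 0) P.nil)) (P.cons (P.cons (P.lf 1176 0 0) P.nil) P.nil)))))) 20964)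
 EL.nil)))
noncomputable def S212_227_216_290_25 : EL := (EL.cons 4 (TM.mk (P.cons (P.cons (P.lf 0 55048284 0) (P.cons (P.lf 5616768 0 0) (P.cons (P.lf 2651457 0 0) (P.lf 0 126258 0)))) (P.cons (P.cons (P.lf 79396875 0 0) (P.cons (P.lf 0 2938635 0) (P.cons (P.lf 0 1387215 0) (P.lf 66057 0 0)))) (P.cons (P.cons (P.lf 0 23673336 0) (P.cons (P.lf 359976 0 0) (P.cons (P.lf 169929 0 0) (P.lf 0 8091 0)))) (P.cons (P.cons (P.lf 1009458 0 0) (P.cons (P.lf 30921 0 0) (P.cons (P.lf 14595 0 0) P.nil))) (P.cons (P.cons (P.lf 294171 0 0) (P.cons (P.lf 0 5472 0) P.nil)) (P.cons (P.cons (P.lf 0 11421 0) P.nil) P.nil)))))) 8640)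
 (EL.cons 8 (TM.mk (P.cons (P.cons (P.lf 10737762 0 0) (P.cons (P.lf 0 1095612 0) (P.cons (P.lf 0 517194 0) (P.lf 24627 0 0)))) (P.cons (P.cons (P.lf 0 17808660 0) (P.cons (P.lf 810075 0 0) (P.cons (P.lf 382404 0 0) (P.lf 0 18207 0)))) (P.cons (P.cons (P.lf 8002683 0 0) (P.cons (P.lf 0 197886 0) (P.cons (P.lf 0 93414 0) (P.lf 4446 0 0)))) (P.cons (P.cons (P.lf 0 1251108 0) (P.cons (P.lf 11409 0 0) (P.cons (P.lf 5385 0 0) P.nil))) (P.cons (P.cons (P.lf 5295 0 0) (P.cons (P.lf 1965 0 0) P.nil)) (P.cons (P.cons (P.lf 12582 0 0) P.nil) P.nil)))))) 4074)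
 (EL.cons 11 (TM.mk (P.cons (P.cons (P.lf 45589662 0 0) (P.cons (P.lf 44953329 0 0) (P.cons (P.lf 0 1406631 0) (P.cons (P.lf 0 257757 0) (P.lf 9204 0 0))))) (P.cons (P.cons (P.lf 0 15901356 0) (P.cons (P.lf 0 15679410 0) (P.cons (P.lf 490623 0 0) (P.cons (P.lf 89904 0 0) (P.lf 0 3210 0))))) (P.cons (P.cons (P.lf 561309 0 0) (P.cons (P.lf 553473 0 0) (P.cons (P.lf 0 17316 0) (P.cons (P.lf 0 3171 0) P.nil)))) (P.cons (P.cons (P.lf 184605 0 0) (P.cons (P.lf 182028 0 0) (P.cons (P.lf 0 5694 0) P.nil))) (P.cons (P.cons (P.lf 0 1158 0) (P.cons (P.lf 0 1140 0) P.nil)) (P.cons (P.cons (P.lf 0 795 0) P.nil) P.nil)))))) 3168)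
 EL.nil)))
noncomputable def S212_227_216_290_26 : EL := (EL.cons 4 (TM.mk (P.cons (P.cons (P.lf 0 35946795 0) (P.cons (P.lf 4857984 0 0) (P.cons (P.lf 2171823 0 0) (P.cons (P.lf 0 223857 0) (P.cons (P.lf 0 21600 0) (P.cons (P.lf 2577 0 0) P.nil)))))) (P.cons (P.cons (P.lf 51115194 0 0) (P.cons (P.lf 0 3486351 0) (P.cons (P.lf 0 1589847 0) (P.cons (P.lf 131166 0 0) (P.cons (P.lf 9945 0 0) P.nil))))) (P.cons (P.cons (P.lf 0 14015460 0) (P.cons (P.lf 555252 0 0) (P.cons (P.lf 258858 0 0) (P.cons (P.lf 0 15552 0) P.nil)))) (P.cons (P.cons (P.lf 0 215601 0) (P.cons (P.lf 63255 0 0) (P.cons (P.lf 28461 0 0) P.nil))) (P.cons (P.cons (P.lf 371061 0 0) (P.cons (P.lf 0 14958 0) P.nil)) (P.cons (P.cons (P.lf 0 8628 0) P.nil) P.nil)))))) 23325)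
 (EL.cons 8 (TM.mk (P.cons (P.cons (P.lf 7011810 0 0) (P.cons (P.lf 0 947601 0) (P.cons (P.lf 0 423636 0) (P.cons (P.lf 43665 0 0) (P.cons (P.lf 4212 0 0) (P.cons (P.lf 0 501 0) P.nil)))))) (P.cons (P.cons (P.lf 0 11486484 0) (P.cons (P.lf 884916 0 0) (P.cons (P.lf 401703 0 0) (P.cons (P.lf 0 35025 0) (P.cons (P.lf 0 2850 0) P.nil))))) (P.cons (P.cons (P.lf 4913409 0 0) (P.cons (P.lf 0 258567 0) (P.cons (P.lf 0 118986 0) (P.cons (P.lf 8712 0 0) P.nil)))) (P.cons (P.cons (P.lf 0 584988 0) (P.cons (P.lf 13659 0 0) (P.cons (P.lf 6540 0 0) P.nil))) (P.cons (P.cons (P.lf 0 69342 0) (P.cons (P.lf 5022 0 0) P.nil)) (P.cons (P.cons (P.lf 16653 0 0) P.nil) P.nil)))))) 8691)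
 (EL.cons 11 (TM.mk (P.cons (P.cons (P.lf 29770272 0 0) (P.cons (P.lf 28369041 0 0) (P.cons (P.lf 0 2355792 0) (P.cons (P.lf 0 574563 0) (P.cons (P.lf 47787 0 0) (P.cons (P.lf 1746 0 0) P.nil)))))) (P.cons (P.cons (P.lf 0 9777975 0) (P.cons (P.lf 0 9359493 0) (P.cons (P.lf 712884 0 0) (P.cons (P.lf 171507 0 0) (P.cons (P.lf 0 13926 0) P.nil))))) (P.cons (P.cons (P.lf 0 166473 0) (P.cons (P.lf 0 150300 0) (P.cons (P.lf 25326 0 0) (P.cons (P.lf 6648 0 0) P.nil)))) (P.cons (P.cons (P.lf 240162 0 0) (P.cons (P.lf 230865 0 0) (P.cons (P.lf 0 16074 0) P.nil))) (P.cons (P.cons (P.lf 0 1077 0) (P.cons (P.lf 0 1362 0) P.nil)) (P.cons (P.cons (P.lf 0 2232 0) P.nil) P.nil)))))) 12564)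
 EL.nil)))
noncomputable def S212_227_216_290_27 : EL := (EL.cons 13 (TM.mk (P.lf 0 4294967296 0) 0)
 EL.nil)
noncomputable def S212_227_216_290_28 : EL := (EL.cons 13 (TM.mk (P.cons (P.cons (P.lf 0 2804634577 0) (P.cons (P.lf 92862180 0 0) (P.cons (P.lf 43836632 0 0) (P.lf 0 2087456 0)))) (P.cons (P.cons (P.lf 0 57061337 0) (P.cons (P.lf 5822164 0 0) (P.cons (P.lf 2748416 0 0) (P.lf 0 130872 0)))) (P.cons (P.cons (P.lf 30312046 0 0) (P.cons (P.lf 0 417196 0) (P.cons (P.lf 0 196940 0) (P.lf 9376 0 0)))) (P.cons (P.cons (P.lf 6303 0 0) (P.cons (P.lf 0 33252 0) (P.cons (P.lf 0 15696 0) P.nil))) (P.cons (P.cons (P.lf 0 109639 0) (P.cons (P.lf 768 0 0) P.nil)) (P.cons (P.cons (P.lf 0 1167 0) P.nil) P.nil)))))) 2553)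
 EL.nil)
noncomputable def S212_227_216_290_29 : EL := (EL.cons 13 (TM.mk (P.cons (P.cons (P.lf 0 1831440047 0) (P.cons (P.lf 121278912 0 0) (P.cons (P.lf 55243280 0 0) (P.cons (P.lf 0 4621835 0) (P.cons (P.lf 0 357152 0) (P.cons (P.lf 42611 0 0) P.nil)))))) (P.cons (P.cons (P.lf 0 74522662 0) (P.cons (P.lf 10071267 0 0) (P.cons (P.lf 4502488 0 0) (P.cons (P.lf 0 464082 0) (P.cons (P.lf 0 44784 0) P.nil))))) (P.cons (P.cons (P.lf 38829731 0 0) (P.cons (P.lf 0 1700923 0) (P.cons (P.lf 0 792789 0) (P.cons (P.lf 47813 0 0) P.nil)))) (P.cons (P.cons (P.lf 813660 0 0) (P.cons (P.lf 0 136966 0) (P.cons (P.lf 0 62086 0) P.nil))) (P.cons (P.cons (P.lf 0 356951 0) (P.cons (P.lf 10732 0 0) P.nil)) (P.cons (P.cons (P.lf 0 4526 0) P.nil) P.nil)))))) 31773)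
 EL.nil)
noncomputable def S212_227_216_290_30 : EL := (EL.cons 13 (TM.mk (P.cons (P.lf 1194386624 0 0) (P.cons (P.lf 0 233258332 0) (P.cons (P.lf 0 3625172 0) (P.cons (P.lf 207136 0 0) (P.cons (P.lf 5900 0 0) (P.cons (P.lf 0 156 0) P.nil)))))) 48)
 EL.nil)
noncomputable def S212_227_216_290_31 : EL := (EL.cons 13 (TM.mk (P.cons (P.cons (P.lf 779940286 0 0) (P.cons (P.lf 0 25824025 0) (P.cons (P.lf 0 12190520 0) (P.lf 580500 0 0)))) (P.cons (P.cons (P.lf 0 136450651 0) (P.cons (P.lf 3424231 0 0) (P.cons (P.lf 1616447 0 0) (P.lf 0 76974 0)))) (P.cons (P.cons (P.lf 0 13895709 0) (P.cons (P.lf 510598 0 0) (P.cons (P.lf 241032 0 0) (P.lf 0 11476 0)))) (P.cons (P.cons (P.lf 1731583 0 0) (P.cons (P.lf 0 12975 0) (P.cons (P.lf 0 6125 0) P.nil))) (P.cons (P.cons (P.lf 63021 0 0) (P.cons (P.lf 0 2779 0) P.nil)) (P.cons (P.cons (P.lf 0 7109 0) P.nil) P.nil)))))) 3194)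
 EL.nil)
noncomputable def S212_227_216_290_32 : EL := (EL.cons 13 (TM.mk (P.cons (P.cons (P.lf 509304808 0 0) (P.cons (P.lf 0 33726429 0) (P.cons (P.lf 0 15362593 0) (P.cons (P.lf 1285285 0 0) (P.cons (P.lf 99320 0 0) (P.cons (P.lf 0 11849 0) P.nil)))))) (P.cons (P.cons (P.lf 0 78740944 0) (P.cons (P.lf 3785903 0 0) (P.cons (P.lf 1748149 0 0) (P.cons (P.lf 0 121953 0) (P.cons (P.lf 0 6942 0) P.nil))))) (P.cons (P.cons (P.lf 0 16391283 0) (P.cons (P.lf 1122342 0 0) (P.cons (P.lf 511623 0 0) (P.cons (P.lf 0 42401 0) P.nil)))) (P.cons (P.cons (P.lf 1907985 0 0) (P.cons (P.lf 0 51636 0) (P.cons (P.lf 0 24654 0) P.nil))) (P.cons (P.cons (P.lf 182338 0 0) (P.cons (P.lf 0 12511 0) P.nil)) (P.cons (P.cons (P.lf 0 19277 0) P.nil) P.nil)))))) 24984)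
 EL.nil)
noncomputable def S212_227_216_290_33 : EL := (EL.cons 14 (TM.mk (P.lf 8589934592 0 0) 0)
 EL.nil)
noncomputable def S212_227_216_290_34 : EL := (EL.cons 14 (TM.mk (P.cons (P.cons (P.lf 5609269154 0 0) (P.cons (P.lf 0 185724360 0) (P.cons (P.lf 0 87673264 0) (P.lf 4174912 0 0)))) (P.cons (P.cons (P.lf 114122674 0 0) (P.cons (P.lf 0 11644328 0) (P.cons (P.lf 0 5496832 0) (P.lf 261744 0 0)))) (P.cons (P.cons (P.lf 0 60624092 0) (P.cons (P.lf 834392 0 0) (P.cons (P.lf 393880 0 0) (P.lf 0 18752 0)))) (P.cons (P.cons (P.lf 0 12606 0) (P.cons (P.lf 66504 0 0) (P.cons (P.lf 31392 0 0) P.nil))) (P.cons (P.cons (P.lf 219278 0 0) (P.cons (P.lf 0 1536 0) P.nil)) (P.cons (P.cons (P.lf 2334 0 0) P.nil) P.nil)))))) 5106)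
 EL.nil)
noncomputable def S212_227_216_290_35 : EL := (EL.cons 14 (TM.mk (P.cons (P.cons (P.lf 3662880094 0 0) (P.cons (P.lf 0 242557824 0) (P.cons (P.lf 0 110486560 0) (P.cons (P.lf 9243670 0 0) (P.cons (P.lf 714304 0 0) (P.cons (P.lf 0 85222 0) P.nil)))))) (P.cons (P.cons (P.lf 149045324 0 0) (P.cons (P.lf 0 20142534 0) (P.cons (P.lf 0 9004976 0) (P.cons (P.lf 928164 0 0) (P.cons (P.lf 89568 0 0) P.nil))))) (P.cons (P.cons (P.lf 0 77659462 0) (P.cons (P.lf 3401846 0 0) (P.cons (P.lf 1585578 0 0) (P.cons (P.lf 0 95626 0) P.nil)))) (P.cons (P.cons (P.lf 0 1627320 0) (P.cons (P.lf 273932 0 0) (P.cons (P.lf 124172 0 0) P.nil))) (P.cons (P.cons (P.lf 713902 0 0) (P.cons (P.lf 0 21464 0) P.nil)) (P.cons (P.cons (P.lf 9052 0 0) P.nil) P.nil)))))) 63546)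
 EL.nil)
noncomputable def S212_227_216_290_36 : EL := (EL.cons 14 (TM.mk (P.cons (P.lf 0 2388773248 0) (P.cons (P.lf 466516664 0 0) (P.cons (P.lf 7250344 0 0) (P.cons (P.lf 0 414272 0) (P.cons (P.lf 0 11800 0) (P.cons (P.lf 312 0 0) P.nil)))))) 96)
 EL.nil)
noncomputable def S212_227_216_290_37 : EL := (EL.cons 14 (TM.mk (P.cons (P.cons (P.lf 0 1559880572 0) (P.cons (P.lf 51648050 0 0) (P.cons (P.lf 24381040 0 0) (P.lf 0 1161000 0)))) (P.cons (P.cons (P.lf 272901302 0 0) (P.cons (P.lf 0 6848462 0) (P.cons (P.lf 0 3232894 0) (P.lf 153948 0 0)))) (P.cons (P.cons (P.lf 27791418 0 0) (P.cons (P.lf 0 1021196 0) (P.cons (P.lf 0 482064 0) (P.lf 22952 0 0)))) (P.cons (P.cons (P.lf 0 3463166 0) (P.cons (P.lf 25950 0 0) (P.cons (P.lf 12250 0 0) P.nil))) (P.cons (P.cons (P.lf 0 126042 0) (P.cons (P.lf 5558 0 0) P.nil)) (P.cons (P.cons (P.lf 14218 0 0) P.nil) P.nil))))))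 6388)
 EL.nil)
noncomputable def S212_227_216_290_38 : EL := (EL.cons 14 (TM.mk (P.cons (P.cons (P.lf 0 1018609616 0) (P.cons (P.lf 67452858 0 0) (P.cons (P.lf 30725186 0 0) (P.cons (P.lf 0 2570570 0) (P.cons (P.lf 0 198640 0) (P.cons (P.lf 23698 0 0) P.nil)))))) (P.cons (P.cons (P.lf 157481888 0 0) (P.cons (P.lf 0 7571806 0) (P.cons (P.lf 0 3496298 0) (P.cons (P.lf 243906 0 0) (P.cons (P.lf 13884 0 0) P.nil))))) (P.cons (P.cons (P.lf 32782566 0 0) (P.cons (P.lf 0 2244684 0) (P.cons (P.lf 0 1023246 0) (P.cons (P.lf 84802 0 0) P.nil)))) (P.cons (P.cons (P.lf 0 3815970 0) (P.cons (P.lf 103272 0 0) (P.cons (P.lf 49308 0 0) P.nil))) (P.cons (P.cons (P.lf 0 364676 0) (P.cons (P.lf 25022 0 0) P.nil)) (P.cons (P.cons (P.lf 38554 0 0) P.nil) P.nil)))))) 49968)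
 EL.nil)
noncomputable def S212_227_216_290_39 : EL := (EL.cons 14 (TM.mk (P.cons (P.lf 664293490 0 0) (P.cons (P.lf 0 259467056 0) (P.cons (P.lf 21303880 0 0) (P.cons (P.lf 1017936 0 0) (P.cons (P.lf 0 32314 0) (P.cons (P.lf 0 2154 0) P.nil)))))) 152)
 EL.nil)
noncomputable def S212_227_216_290_40 : EL := (EL.cons 14 (TM.mk (P.cons (P.cons (P.lf 433786886 0 0) (P.cons (P.lf 0 14362796 0) (P.cons (P.lf 0 6780118 0) (P.lf 322862 0 0)))) (P.cons (P.cons (P.lf 0 160607696 0) (P.cons (P.lf 4709476 0 0) (P.cons (P.lf 2223160 0 0) (P.lf 0 105864 0)))) (P.cons (P.cons (P.lf 5776054 0 0) (P.cons (P.lf 0 44358 0) (P.cons (P.lf 0 20940 0) (P.lf 996 0 0)))) (P.cons (P.cons (P.lf 2777984 0 0) (P.cons (P.lf 0 70948 0) (P.cons (P.lf 0 33492 0) P.nil))) (P.cons (P.cons (P.lf 0 140592 0) (P.cons (P.lf 0 738 0) P.nil)) (P.cons (P.cons (P.lf 0 15494 0) P.nil) P.nil)))))) 6934)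
 EL.nil)
noncomputable def S212_227_216_290_41 : EL := (EL.cons 14 (TM.mk (P.cons (P.cons (P.lf 283264950 0 0) (P.cons (P.lf 0 18757952 0) (P.cons (P.lf 0 8544360 0) (P.cons (P.lf 714848 0 0) (P.cons (P.lf 55238 0 0) (P.cons (P.lf 0 6590 0) P.nil)))))) (P.cons (P.cons (P.lf 0 99114476 0) (P.cons (P.lf 5768984 0 0) (P.cons (P.lf 2640960 0 0) (P.cons (P.lf 0 207434 0) (P.cons (P.lf 0 14648 0) P.nil))))) (P.cons (P.cons (P.lf 0 1423464 0) (P.cons (P.lf 269934 0 0) (P.cons (P.lf 120604 0 0) (P.cons (P.lf 0 12504 0) P.nil)))) (P.cons (P.cons (P.lf 3023640 0 0) (P.cons (P.lf 0 160270 0) (P.cons (P.lf 0 73716 0) P.nil))) (P.cons (P.cons (P.lf 0 84356 0) (P.cons (P.lf 0 2970 0) P.nil)) (P.cons (P.cons (P.lf 0 35582 0) P.nil) P.nil)))))) 35824)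
 EL.nil)
noncomputable def S212_227_216_290_42 : EL := (EL.cons 14 (TM.mk (P.cons (P.lf 0 184733248 0) (P.cons (P.lf 108232714 0 0) (P.cons (P.lf 0 19455268 0) (P.cons (P.lf 622888 0 0) (P.cons (P.lf 93852 0 0) (P.cons (P.lf 0 942 0) P.nil)))))) 312)
 EL.nil)
noncomputable def S212_227_216_290_43 : EL := (EL.cons 14 (TM.mk (P.cons (P.cons (P.lf 0 120631710 0) (P.cons (P.lf 3994146 0 0) (P.cons (P.lf 1885480 0 0) (P.lf 0 89784 0)))) (P.cons (P.cons (P.lf 68222192 0 0) (P.cons (P.lf 0 2089696 0) (P.cons (P.lf 0 986464 0) (P.lf 46974 0 0)))) (P.cons (P.cons (P.lf 0 9962676 0) (P.cons (P.lf 255982 0 0) (P.cons (P.lf 120838 0 0) (P.lf 0 5754 0)))) (P.cons (P.cons (P.lf 0 615314 0) (P.cons (P.lf 21988 0 0) (P.cons (P.lf 10378 0 0) P.nil))) (P.cons (P.cons (P.lf 201992 0 0) (P.cons (P.lf 0 3892 0) P.nil)) (P.cons (P.cons (P.lf 0 1022 0) P.nil) P.nil)))))) 6138)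
 EL.nil)
noncomputable def S212_227_216_290_44 : EL := (EL.cons 14 (TM.mk (P.cons (P.cons (P.lf 0 78773094 0) (P.cons (P.lf 5216394 0 0) (P.cons (P.lf 2376098 0 0) (P.cons (P.lf 0 198792 0) (P.cons (P.lf 0 15360 0) (P.cons (P.lf 1832 0 0) P.nil)))))) (P.cons (P.cons (P.lf 42946756 0 0) (P.cons (P.lf 0 2623034 0) (P.cons (P.lf 0 1198464 0) (P.cons (P.lf 96508 0 0) (P.cons (P.lf 7072 0 0) P.nil))))) (P.cons (P.cons (P.lf 0 4747934 0) (P.cons (P.lf 222412 0 0) (P.cons (P.lf 102678 0 0) (P.cons (P.lf 0 7184 0) P.nil)))) (P.cons (P.cons (P.lf 0 1015470 0) (P.cons (P.lf 65002 0 0) (P.cons (P.lf 29690 0 0) P.nil))) (P.cons (P.cons (P.lf 190860 0 0) (P.cons (P.lf 0 7902 0) P.nil)) (P.cons (P.cons (P.lf 8080 0 0) P.nil) P.nil)))))) 23058)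
 EL.nil)
noncomputable def S212_227_216_290_45 : EL := (EL.cons 14 (TM.mk (P.cons (P.cons (P.lf 2391878552 0 0) (P.cons (P.lf 0 237587160 0) (P.cons (P.lf 0 104289106 0) (P.cons (P.lf 12680924 0 0) (P.cons (P.lf 1276378 0 0) (P.cons (P.lf 0 219138 0) P.nil)))))) (P.cons (P.cons (P.lf 145990984 0 0) (P.cons (P.lf 0 24563558 0) (P.cons (P.lf 0 10449030 0) (P.cons (P.lf 1618226 0 0) (P.cons (P.lf 180810 0 0) P.nil))))) (P.cons (P.cons (P.lf 0 74582890 0) (P.cons (P.lf 5498528 0 0) (P.cons (P.lf 2490924 0 0) (P.cons (P.lf 0 222310 0) P.nil)))) (P.cons (P.cons (P.lf 0 3151676 0) (P.cons (P.lf 549880 0 0) (P.cons (P.lf 238022 0 0) P.nil))) (P.cons (P.cons (P.lf 1085932 0 0) (P.cons (P.lf 0 60820 0) P.nil)) (P.cons (P.cons (P.lf 31794 0 0) P.nil) P.nil)))))) 212850)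
 EL.nil)
noncomputable def S212_227_216_290_46 : EL := (EL.cons 15 (TM.mk (P.lf 4294967296 0 0) 0)
 EL.nil)
noncomputable def S212_227_216_290_47 : EL := (EL.cons 15 (TM.mk (P.cons (P.cons (P.lf 2804634577 0 0) (P.cons (P.lf 0 92862180 0) (P.cons (P.lf 0 43836632 0) (P.lf 2087456 0 0)))) (P.cons (P.cons (P.lf 57061337 0 0) (P.cons (P.lf 0 5822164 0) (P.cons (P.lf 0 2748416 0) (P.lf 130872 0 0)))) (P.cons (P.cons (P.lf 0 30312046 0) (P.cons (P.lf 417196 0 0) (P.cons (P.lf 196940 0 0) (P.lf 0 9376 0)))) (P.cons (P.cons (P.lf 0 6303 0) (P.cons (P.lf 33252 0 0) (P.cons (P.lf 15696 0 0) P.nil))) (P.cons (P.cons (P.lf 109639 0 0) (P.cons (P.lf 0 768 0) P.nil)) (P.cons (P.cons (P.lf 1167 0 0) P.nil) P.nil)))))) 2553)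
 EL.nil)
noncomputable def S212_227_216_290_48 : EL := (EL.cons 15 (TM.mk (P.cons (P.cons (P.lf 1831440047 0 0) (P.cons (P.lf 0 121278912 0) (P.cons (P.lf 0 55243280 0) (P.cons (P.lf 4621835 0 0) (P.cons (P.lf 357152 0 0) (P.cons (P.lf 0 42611 0) P.nil)))))) (P.cons (P.cons (P.lf 74522662 0 0) (P.cons (P.lf 0 10071267 0) (P.cons (P.lf 0 4502488 0) (P.cons (P.lf 464082 0 0) (P.cons (P.lf 44784 0 0) P.nil))))) (P.cons (P.cons (P.lf 0 38829731 0) (P.cons (P.lf 1700923 0 0) (P.cons (P.lf 792789 0 0) (P.cons (P.lf 0 47813 0) P.nil)))) (P.cons (P.cons (P.lf 0 813660 0) (P.cons (P.lf 136966 0 0) (P.cons (P.lf 62086 0 0) P.nil))) (P.cons (P.cons (P.lf 356951 0 0) (P.cons (P.lf 0 10732 0) P.nil)) (P.cons (P.cons (P.lf 4526 0 0) P.nil) P.nil)))))) 31773)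
 EL.nil)
noncomputable def S212_227_216_290 : SL := (SL.cons S212_227_216_290_0 (SL.cons S212_227_216_290_1 (SL.cons S212_227_216_290_2 (SL.cons S212_227_216_290_3 (SL.cons S212_227_216_290_4 (SL.cons S212_227_216_290_5 (SL.cons S212_227_216_290_6 (SL.cons S212_227_216_290_7 (SL.cons S212_227_216_290_8 (SL.cons S212_227_216_290_9 (SL.cons S212_227_216_290_10 (SL.cons S212_227_216_290_11 (SL.cons S212_227_216_290_12 (SL.cons S212_227_216_290_13 (SL.cons S212_227_216_290_14 (SL.cons S212_227_216_290_15 (SL.cons S212_227_216_290_16 (SL.cons S212_227_216_290_17 (SL.cons S212_227_216_290_18 (SL.cons S212_227_216_290_19 (SL.cons S212_227_216_290_20 (SL.cons S212_227_216_290_21 (SL.cons S212_227_216_290_22 (SL.cons S212_227_216_290_23 (SL.cons S212_227_216_290_24 (SL.cons S212_227_216_290_25 (SL.cons S212_227_216_290_26 (SL.cons S212_227_216_290_27 (SL.cons S212_227_216_290_28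 (SL.cons S212_227_216_290_29 (SL.cons S212_227_216_290_30 (SL.cons S212_227_216_290_31 (SL.cons S212_227_216_290_32 (SL.cons S212_227_216_290_33 (SL.cons S212_227_216_290_34 (SL.cons S212_227_216_290_35 (SL.cons S212_227_216_290_36 (SL.cons S212_227_216_290_37 (SL.cons S212_227_216_290_38 (SL.cons S212_227_216_290_39 (SL.cons S212_227_216_290_40 (SL.cons S212_227_216_290_41 (SL.cons S212_227_216_290_42 (SL.cons S212_227_216_290_43 (SL.cons S212_227_216_290_44 (SL.cons S212_227_216_290_45 (SL.cons S212_227_216_290_46 (SL.cons S212_227_216_290_47 (SL.cons S212_227_216_290_48 SL.nil)))))))))))))))))))))))))))))))))))))))))))))))))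
noncomputable def S212_227_216_364_0 : EL := (EL.cons 0 (TM.mk (P.cons (P.lf 7871865163 0 0) (P.cons (P.lf 228047217 0 0) (P.cons (P.lf 0 18724113 0) (P.cons (P.lf 0 894670 0) (P.cons (P.lf 28400 0 0) (P.cons (P.lf 1893 0 0) P.nil)))))) 140)
 (EL.cons 1 (TM.mk (P.cons (P.lf 0 1064241138 0) (P.cons (P.lf 185599968 0 0) (P.cons (P.lf 9632411 0 0) (P.cons (P.lf 0 474855 0) (P.cons (P.lf 0 25702 0) (P.cons (P.lf 519 0 0) P.nil)))))) 134)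
 (EL.cons 5 (TM.mk (P.cons (P.lf 4502559014 0 0) (P.cons (P.lf 0 81083452 0) (P.cons (P.lf 6657460 0 0) (P.cons (P.lf 318104 0 0) (P.cons (P.lf 0 10096 0) (P.cons (P.lf 0 672 0) P.nil)))))) 143)
 (EL.cons 9 (TM.mk (P.lf 6442450944 0 0) 2)
 EL.nil))))
noncomputable def S212_227_216_364_1 : EL := (EL.cons 0 (TM.mk (P.cons (P.cons (P.lf 4577386708 0 0) (P.cons (P.lf 0 496676781 0) (P.cons (P.lf 0 214172632 0) (P.lf 23796958 0 0)))) (P.cons (P.cons (P.lf 675724459 0 0) (P.cons (P.lf 0 105166227 0) (P.cons (P.lf 0 45348858 0) (P.lf 5038754 0 0)))) (P.cons (P.cons (P.lf 0 133688086 0) (P.cons (P.lf 3668200 0 0) (P.cons (P.lf 1581760 0 0) (P.lf 0 175745 0)))) (P.cons (P.cons (P.lf 0 7461440 0) (P.cons (P.lf 1181919 0 0) (P.cons (P.lf 509652 0 0) P.nil))) (P.cons (P.cons (P.lf 965387 0 0) (P.cons (P.lf 4080 0 0) P.nil)) (P.cons (P.cons (P.lf 51873 0 0) P.nil) P.nil))))))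 122191)
 (EL.cons 1 (TM.mk (P.cons (P.cons (P.lf 0 918994888 0) (P.cons (P.lf 202050611 0 0) (P.cons (P.lf 87126502 0 0) (P.lf 0 9680716 0)))) (P.cons (P.cons (P.lf 396389915 0 0) (P.cons (P.lf 0 16574682 0) (P.cons (P.lf 0 7147190 0) (P.lf 794132 0 0)))) (P.cons (P.cons (P.lf 42980629 0 0) (P.cons (P.lf 0 6358013 0) (P.cons (P.lf 0 2741641 0) (P.lf 304621 0 0)))) (P.cons (P.cons (P.lf 0 6173294 0) (P.cons (P.lf 25780 0 0) (P.cons (P.lf 11115 0 0) P.nil))) (P.cons (P.cons (P.lf 0 388959 0) (P.cons (P.lf 47900 0 0) P.nil)) (P.cons (P.cons (P.lf 32921 0 0) P.nil) P.nil)))))) 67483)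
 (EL.cons 5 (TM.mk (P.cons (P.cons (P.lf 2911524199 0 0) (P.cons (P.lf 0 415932274 0) (P.cons (P.lf 0 179354690 0) (P.lf 19928294 0 0)))) (P.cons (P.cons (P.lf 0 157600808 0) (P.cons (P.lf 242746 0 0) (P.cons (P.lf 104674 0 0) (P.lf 0 11624 0)))) (P.cons (P.cons (P.lf 0 2968853 0) (P.cons (P.lf 1357784 0 0) (P.cons (P.lf 585490 0 0) (P.lf 0 65056 0)))) (P.cons (P.cons (P.lf 2724186 0 0) (P.cons (P.lf 0 208042 0) (P.cons (P.lf 0 89710 0) P.nil))) (P.cons (P.cons (P.lf 0 158735 0) (P.cons (P.lf 0 6358 0) P.nil)) (P.cons (P.cons (P.lf 0 16695 0) P.nil) P.nil)))))) 69326)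
 (EL.cons 9 (TM.mk (P.cons (P.cons (P.lf 4005034819 0 0) (P.cons (P.lf 0 522819228 0) (P.cons (P.lf 0 225445548 0) (P.lf 25049502 0 0)))) (P.cons (P.cons (P.lf 72932437 0 0) (P.cons (P.lf 0 32779128 0) (P.cons (P.lf 0 14134728 0) (P.lf 1570524 0 0)))) (P.cons (P.cons (P.lf 0 44560923 0) (P.cons (P.lf 2348844 0 0) (P.cons (P.lf 1012842 0 0) (P.lf 0 112536 0)))) (P.cons (P.cons (P.lf 62856 0 0) (P.cons (P.lf 187224 0 0) (P.cons (P.lf 80730 0 0) P.nil))) (P.cons (P.cons (P.lf 162790 0 0) (P.cons (P.lf 0 4326 0) P.nil)) (P.cons (P.cons (P.lf 1540 0 0) P.nil) P.nil)))))) 15716)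
 (EL.cons 2 (TM.mk (P.cons (P.cons (P.lf 299659741 0 0) (P.cons (P.lf 279160770 0 0) (P.cons (P.lf 0 28650974 0) (P.cons (P.lf 0 5958604 0) (P.lf 496549 0 0))))) (P.cons (P.cons (P.lf 0 45997042 0) (P.cons (P.lf 0 42850501 0) (P.cons (P.lf 4397855 0 0) (P.cons (P.lf 914630 0 0) (P.lf 0 76218 0))))) (P.cons (P.cons (P.lf 0 4384018 0) (P.cons (P.lf 0 4084118 0) (P.cons (P.lf 419160 0 0) (P.cons (P.lf 87173 0 0) P.nil)))) (P.cons (P.cons (P.lf 165653 0 0) (P.cons (P.lf 154321 0 0) (P.cons (P.lf 0 15837 0) P.nil))) (P.cons (P.cons (P.lf 17926 0 0) (P.cons (P.lf 16700 0 0) P.nil)) (P.cons (P.cons (P.lf 0 205 0) P.nil) P.nil)))))) 17841)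
 (EL.cons 6 (TM.mk (P.cons (P.cons (P.lf 546217857 0 0) (P.cons (P.lf 508852464 0 0) (P.cons (P.lf 0 52224816 0) (P.cons (P.lf 0 10861308 0) (P.lf 905106 0 0))))) (P.cons (P.cons (P.lf 34246155 0 0) (P.cons (P.lf 31903461 0 0) (P.cons (P.lf 0 3274332 0) (P.cons (P.lf 0 680967 0) (P.lf 56745 0 0))))) (P.cons (P.cons (P.lf 0 2453967 0) (P.cons (P.lf 0 2286099 0) (P.cons (P.lf 234627 0 0) (P.cons (P.lf 48795 0 0) P.nil)))) (P.cons (P.cons (P.lf 0 195609 0) (P.cons (P.lf 0 182226 0) (P.cons (P.lf 18699 0 0) P.nil))) (P.cons (P.cons (P.lf 4518 0 0) (P.cons (P.lf 4209 0 0) P.nil)) (P.cons (P.cons (P.lf 567 0 0) P.nil) P.nil)))))) 11910)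
 EL.nil))))))
noncomputable def S212_227_216_364_2 : EL := (EL.cons 0 (TM.mk (P.cons (P.cons (P.lf 2648984297 0 0) (P.cons (P.lf 0 566200591 0) (P.cons (P.lf 0 215380847 0) (P.cons (P.lf 51940982 0 0) (P.cons (P.lf 2592830 0 0) (P.cons (P.lf 0 1188852 0) P.nil)))))) (P.cons (P.cons (P.lf 744853219 0 0) (P.cons (P.lf 0 210982805 0) (P.cons (P.lf 0 76857495 0) (P.cons (P.lf 22286654 0 0) (P.cons (P.lf 1272531 0 0) P.nil))))) (P.cons (P.cons (P.lf 0 143526107 0) (P.cons (P.lf 15683975 0 0) (P.cons (P.lf 7072748 0 0) (P.cons (P.lf 0 484408 0) P.nil)))) (P.cons (P.cons (P.lf 0 17883685 0) (P.cons (P.lf 4860656 0 0) (P.cons (P.lf 1856522 0 0) P.nil))) (P.cons (P.cons (P.lf 2375525 0 0) (P.cons (P.lf 0 119905 0) P.nil)) (P.cons (P.cons (P.lf 187971 0 0) P.nil) P.nil)))))) 2517520)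
 (EL.cons 1 (TM.mk (P.cons (P.cons (P.lf 0 731318518 0) (P.cons (P.lf 292991271 0 0) (P.cons (P.lf 100556178 0 0) (P.cons (P.lf 0 36275430 0) (P.cons (P.lf 0 2323694 0) (P.cons (P.lf 1065453 0 0) P.nil)))))) (P.cons (P.cons (P.lf 415286402 0 0) (P.cons (P.lf 0 60978294 0) (P.cons (P.lf 0 26003894 0) (P.cons (P.lf 3172259 0 0) (P.cons (P.lf 26190 0 0) P.nil))))) (P.cons (P.cons (P.lf 59775824 0 0) (P.cons (P.lf 0 18713549 0) (P.cons (P.lf 0 6973685 0) (P.cons (P.lf 1841636 0 0) P.nil)))) (P.cons (P.cons (P.lf 0 10737174 0) (P.cons (P.lf 801607 0 0) (P.cons (P.lf 398215 0 0) P.nil))) (P.cons (P.cons (P.lf 0 1047038 0) (P.cons (P.lf 287967 0 0) P.nil)) (P.cons (P.cons (P.lf 121510 0 0) P.nil) P.nil)))))) 1301157)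
 (EL.cons 5 (TM.mk (P.cons (P.cons (P.lf 1879892824 0 0) (P.cons (P.lf 0 535390538 0) (P.cons (P.lf 0 193011207 0) (P.cons (P.lf 58299018 0 0) (P.cons (P.lf 3411444 0 0) (P.cons (P.lf 0 1564200 0) P.nil)))))) (P.cons (P.cons (P.lf 0 162067348 0) (P.cons (P.lf 15411355 0 0) (P.cons (P.lf 7654422 0 0) (P.cons (P.lf 131701 0 0) (P.cons (P.lf 90928 0 0) P.nil))))) (P.cons (P.cons (P.lf 0 10823740 0) (P.cons (P.lf 5088904 0 0) (P.cons (P.lf 1841257 0 0) (P.cons (P.lf 0 548366 0) P.nil)))) (P.cons (P.cons (P.lf 5303766 0 0) (P.cons (P.lf 0 901774 0) (P.cons (P.lf 0 365246 0) P.nil))) (P.cons (P.cons (P.lf 0 264300 0) (P.cons (P.lf 0 26169 0) P.nil)) (P.cons (P.cons (P.lf 0 61459 0) P.nil) P.nil)))))) 1489619)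
 (EL.cons 9 (TM.mk (P.cons (P.cons (P.lf 2489782854 0 0) (P.cons (P.lf 0 650034972 0) (P.cons (P.lf 0 237874467 0) (P.cons (P.lf 67735522 0 0) (P.cons (P.lf 3823540 0 0) (P.cons (P.lf 0 1753152 0) P.nil)))))) (P.cons (P.cons (P.lf 90678828 0 0) (P.cons (P.lf 0 52592415 0) (P.cons (P.lf 0 17358241 0) (P.cons (P.lf 7108083 0 0) (P.cons (P.lf 479448 0 0) P.nil))))) (P.cons (P.cons (P.lf 0 54578134 0) (P.cons (P.lf 9410656 0 0) (P.cons (P.lf 3843525 0 0) (P.cons (P.lf 0 635826 0) P.nil)))) (P.cons (P.cons (P.lf 0 930762 0) (P.cons (P.lf 729210 0 0) (P.cons (P.lf 260149 0 0) P.nil))) (P.cons (P.cons (P.lf 512041 0 0) (P.cons (P.lf 0 60693 0) P.nil)) (P.cons (P.cons (P.lf 4731 0 0) P.nil) P.nil)))))) 665983)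
 (EL.cons 2 (TM.mk (P.cons (P.cons (P.lf 372574878 0 0) (P.cons (P.lf 298451857 0 0) (P.cons (P.lf 0 101903985 0) (P.cons (P.lf 0 19965802 0) (P.cons (P.lf 5760551 0 0) (P.cons (P.lf 113630 0 0) P.nil)))))) (P.cons (P.cons (P.lf 0 50404680 0) (P.cons (P.lf 0 42540429 0) (P.cons (P.lf 10837681 0 0) (P.cons (P.lf 2142489 0 0) (P.cons (P.lf 0 550524 0) P.nil))))) (P.cons (P.cons (P.lf 0 10637544 0) (P.cons (P.lf 0 8511744 0) (P.cons (P.lf 2922429 0 0) (P.cons (P.lf 572495 0 0) P.nil)))) (P.cons (P.cons (P.lf 748850 0 0) (P.cons (P.lf 699226 0 0) (P.cons (P.lf 0 69412 0) P.nil))) (P.cons (P.cons (P.lf 100929 0 0) (P.cons (P.lf 83160 0 0) P.nil)) (P.cons (P.cons (P.lf 0 4410 0) P.nil) P.nil)))))) 561937)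
 (EL.cons 6 (TM.mk (P.cons (P.cons (P.lf 679127106 0 0) (P.cons (P.lf 544016130 0 0) (P.cons (P.lf 0 185749938 0) (P.cons (P.lf 0 36393540 0) (P.cons (P.lf 10500300 0 0) (P.cons (P.lf 207126 0 0) P.nil)))))) (P.cons (P.cons (P.lf 54946182 0 0) (P.cons (P.lf 40070844 0 0) (P.cons (P.lf 0 20403246 0) (P.cons (P.lf 0 3962766 0) (P.cons (P.lf 1266606 0 0) P.nil))))) (P.cons (P.cons (P.lf 0 9831828 0) (P.cons (P.lf 0 8711166 0) (P.cons (P.lf 1550694 0 0) (P.cons (P.lf 311190 0 0) P.nil)))) (P.cons (P.cons (P.lf 0 761850 0) (P.cons (P.lf 0 596298 0) (P.cons (P.lf 227430 0 0) P.nil))) (P.cons (P.cons (P.lf 63408 0 0) (P.cons (P.lf 59796 0 0) P.nil)) (P.cons (P.cons (P.lf 5454 0 0) P.nil) P.nil)))))) 614670)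
 EL.nil))))))
noncomputable def S212_227_216_364_3 : EL := (EL.cons 0 (TM.mk (P.cons (P.lf 583851700 0 0) (P.cons (P.lf 0 228047217 0) (P.cons (P.lf 18724113 0 0) (P.cons (P.lf 894670 0 0) (P.cons (P.lf 0 28400 0) (P.cons (P.lf 0 1893 0) P.nil)))))) 140)
 (EL.cons 1 (TM.mk (P.cons (P.lf 1064241138 0 0) (P.cons (P.lf 0 185599968 0) (P.cons (P.lf 0 9632411 0) (P.cons (P.lf 474855 0 0) (P.cons (P.lf 25702 0 0) (P.cons (P.lf 0 519 0) P.nil)))))) 134)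
 (EL.cons 5 (TM.mk (P.cons (P.lf 1939891930 0 0) (P.cons (P.lf 81083452 0 0) (P.cons (P.lf 0 6657460 0) (P.cons (P.lf 0 318104 0) (P.cons (P.lf 10096 0 0) (P.cons (P.lf 672 0 0) P.nil)))))) 136)
 EL.nil)))
noncomputable def S212_227_216_364_4 : EL := (EL.cons 0 (TM.mk (P.cons (P.cons (P.lf 362959129 0 0) (P.cons (P.lf 0 47380863 0) (P.cons (P.lf 0 20431161 0) (P.lf 2270128 0 0)))) (P.cons (P.cons (P.lf 0 135159013 0) (P.cons (P.lf 15535907 0 0) (P.cons (P.lf 6699257 0 0) (P.lf 0 744361 0)))) (P.cons (P.cons (P.lf 5020094 0 0) (P.cons (P.lf 0 146334 0) (P.cons (P.lf 0 63101 0) (P.lf 7010 0 0)))) (P.cons (P.cons (P.lf 2351197 0 0) (P.cons (P.lf 0 234047 0) (P.cons (P.lf 0 100923 0) P.nil))) (P.cons (P.cons (P.lf 0 124509 0) (P.cons (P.lf 0 2439 0) P.nil)) (P.cons (P.cons (P.lf 0 13125 0) P.nil) P.nil)))))) 26354)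
 (EL.cons 1 (TM.mk (P.cons (P.cons (P.lf 661599575 0 0) (P.cons (P.lf 0 86365533 0) (P.cons (P.lf 0 37241791 0) (P.lf 4137975 0 0)))) (P.cons (P.cons (P.lf 0 103332821 0) (P.cons (P.lf 9647000 0 0) (P.cons (P.lf 4159895 0 0) (P.lf 0 462210 0)))) (P.cons (P.cons (P.lf 0 15450324 0) (P.cons (P.lf 2114030 0 0) (P.cons (P.lf 911591 0 0) (P.lf 0 101285 0)))) (P.cons (P.cons (P.lf 1480288 0 0) (P.cons (P.lf 0 26263 0) (P.cons (P.lf 0 11325 0) P.nil))) (P.cons (P.cons (P.lf 113058 0 0) (P.cons (P.lf 0 14120 0) P.nil)) (P.cons (P.cons (P.lf 0 7845 0) P.nil) P.nil)))))) 19138)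
 (EL.cons 5 (TM.mk (P.cons (P.cons (P.lf 1205959470 0 0) (P.cons (P.lf 0 157426544 0) (P.cons (P.lf 0 67884100 0) (P.lf 7542676 0 0)))) (P.cons (P.cons (P.lf 72367348 0 0) (P.cons (P.lf 0 16450252 0) (P.cons (P.lf 0 7093534 0) (P.lf 788168 0 0)))) (P.cons (P.cons (P.lf 0 16638562 0) (P.cons (P.lf 834976 0 0) (P.cons (P.lf 360050 0 0) (P.lf 0 40004 0)))) (P.cons (P.cons (P.lf 0 815028 0) (P.cons (P.lf 145624 0 0) (P.cons (P.lf 62794 0 0) P.nil))) (P.cons (P.cons (P.lf 98530 0 0) (P.cons (P.lf 0 572 0) P.nil)) (P.cons (P.cons (P.lf 5180 0 0) P.nil) P.nil)))))) 13974)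
 EL.nil)))
noncomputable def S212_227_216_364_5 : EL := (EL.cons 0 (TM.mk (P.cons (P.cons (P.lf 225638340 0 0) (P.cons (P.lf 0 58909881 0) (P.cons (P.lf 0 21557541 0) (P.cons (P.lf 6138578 0 0) (P.cons (P.lf 346510 0 0) (P.cons (P.lf 0 158879 0) P.nil)))))) (P.cons (P.cons (P.lf 0 79914469 0) (P.cons (P.lf 18243442 0 0) (P.cons (P.lf 6847078 0 0) (P.cons (P.lf 0 1753498 0) (P.cons (P.lf 0 91893 0) P.nil))))) (P.cons (P.cons (P.lf 0 919775 0) (P.cons (P.lf 825252 0 0) (P.cons (P.lf 271411 0 0) (P.cons (P.lf 0 112366 0) P.nil)))) (P.cons (P.cons (P.lf 2456887 0 0) (P.cons (P.lf 0 510152 0) (P.cons (P.lf 0 195957 0) P.nil))) (P.cons (P.cons (P.lf 0 77654 0) (P.cons (P.lf 0 8398 0) P.nil)) (P.cons (P.cons (P.lf 0 29111 0) P.nil) P.nil)))))) 273286)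
 (EL.cons 1 (TM.mk (P.cons (P.cons (P.lf 411292125 0 0) (P.cons (P.lf 0 107380554 0) (P.cons (P.lf 0 39294948 0) (P.cons (P.lf 11189362 0 0) (P.cons (P.lf 631616 0 0) (P.cons (P.lf 0 289605 0) P.nil)))))) (P.cons (P.cons (P.lf 0 56748506 0) (P.cons (P.lf 10038950 0 0) (P.cons (P.lf 3985458 0 0) (P.cons (P.lf 0 777187 0) (P.cons (P.lf 0 30950 0) P.nil))))) (P.cons (P.cons (P.lf 0 15350818 0) (P.cons (P.lf 4041592 0 0) (P.cons (P.lf 1490647 0 0) (P.cons (P.lf 0 411082 0) P.nil)))) (P.cons (P.cons (P.lf 1466518 0 0) (P.cons (P.lf 0 119928 0) (P.cons (P.lf 0 59332 0) P.nil))) (P.cons (P.cons (P.lf 209617 0 0) (P.cons (P.lf 0 51571 0) P.nil)) (P.cons (P.cons (P.lf 0 16440 0) P.nil) P.nil)))))) 280707)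
 (EL.cons 5 (TM.mk (P.cons (P.cons (P.lf 749700650 0 0) (P.cons (P.lf 0 195732586 0) (P.cons (P.lf 0 71626584 0) (P.cons (P.lf 20395900 0 0) (P.cons (P.lf 1151308 0 0) (P.cons (P.lf 0 527892 0) P.nil)))))) (P.cons (P.cons (P.lf 58640308 0 0) (P.cons (P.lf 0 24017362 0) (P.cons (P.lf 0 8220596 0) (P.cons (P.lf 2992826 0 0) (P.cons (P.lf 192488 0 0) P.nil))))) (P.cons (P.cons (P.lf 0 17865678 0) (P.cons (P.lf 2843460 0 0) (P.cons (P.lf 1184672 0 0) (P.cons (P.lf 0 171988 0) P.nil)))) (P.cons (P.cons (P.lf 0 1183812 0) (P.cons (P.lf 424456 0 0) (P.cons (P.lf 156388 0 0) P.nil))) (P.cons (P.cons (P.lf 198290 0 0) (P.cons (P.lf 0 17244 0) P.nil)) (P.cons (P.cons (P.lf 11926 0 0) P.nil) P.nil)))))) 279256)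
 EL.nil)))
noncomputable def S212_227_216_364_6 : EL := (EL.cons 12 (TM.mk (P.lf 8589934592 0 0) 0)
 (EL.cons 3 (TM.mk (P.cons (P.lf 0 1119737460 0) (P.cons (P.lf 218679686 0 0) (P.cons (P.lf 3398598 0 0) (P.cons (P.lf 0 194190 0) (P.cons (P.lf 0 5531 0) (P.cons (P.lf 146 0 0) P.nil)))))) 52)
 (EL.cons 7 (TM.mk (P.cons (P.lf 0 2041050269 0) (P.cons (P.lf 0 42655831 0) (P.cons (P.lf 3948043 0 0) (P.cons (P.lf 84836 0 0) (P.cons (P.lf 0 3266 0) (P.cons (P.lf 0 122 0) P.nil)))))) 52)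
 EL.nil)))
noncomputable def S212_227_216_364_7 : EL := (EL.cons 12 (TM.mk (P.cons (P.cons (P.lf 5340046426 0 0) (P.cons (P.lf 0 697092304 0) (P.cons (P.lf 0 300594064 0) (P.lf 33399336 0 0)))) (P.cons (P.cons (P.lf 97243250 0 0) (P.cons (P.lf 0 43705504 0) (P.cons (P.lf 0 18846304 0) (P.lf 2094032 0 0)))) (P.cons (P.cons (P.lf 0 59414564 0) (P.cons (P.lf 3131792 0 0) (P.cons (P.lf 1350456 0 0) (P.lf 0 150048 0)))) (P.cons (P.cons (P.lf 83808 0 0) (P.cons (P.lf 249632 0 0) (P.cons (P.lf 107640 0 0) P.nil))) (P.cons (P.cons (P.lf 217054 0 0) (P.cons (P.lf 0 5768 0) P.nil)) (P.cons (P.cons (P.lf 2054 0 0) P.nil) P.nil)))))) 20930)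
 (EL.cons 3 (TM.mk (P.cons (P.cons (P.lf 0 89557186 0) (P.cons (P.lf 0 181738370 0) (P.cons (P.lf 0 78367634 0) (P.lf 8707512 0 0)))) (P.cons (P.cons (P.lf 0 611413572 0) (P.cons (P.lf 24098258 0 0) (P.cons (P.lf 10391440 0 0) (P.lf 0 1154604 0)))) (P.cons (P.cons (P.lf 5291916 0 0) (P.cons (P.lf 3593372 0 0) (P.cons (P.lf 1549500 0 0) (P.lf 0 172164 0)))) (P.cons (P.cons (P.lf 4642923 0 0) (P.cons (P.lf 0 91306 0) (P.cons (P.lf 0 39372 0) P.nil))) (P.cons (P.cons (P.lf 65167 0 0) (P.cons (P.lf 0 19564 0) P.nil)) (P.cons (P.cons (P.lf 0 16352 0) P.nil) P.nil)))))) 54014)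
 (EL.cons 7 (TM.mk (P.cons (P.cons (P.lf 0 1387158542 0) (P.cons (P.lf 218810821 0 0) (P.cons (P.lf 94353696 0 0) (P.lf 0 10483744 0)))) (P.cons (P.cons (P.lf 119262810 0 0) (P.cons (P.lf 0 4700621 0) (P.cons (P.lf 0 2026960 0) (P.lf 225217 0 0)))) (P.cons (P.cons (P.lf 0 13924220 0) (P.cons (P.lf 0 192804 0) (P.cons (P.lf 0 83142 0) (P.lf 9237 0 0)))) (P.cons (P.cons (P.lf 0 621019 0) (P.cons (P.lf 113477 0 0) (P.cons (P.lf 48931 0 0) P.nil))) (P.cons (P.cons (P.lf 124179 0 0) (P.cons (P.lf 56 0 0) P.nil)) (P.cons (P.cons (P.lf 3804 0 0) P.nil) P.nil)))))) 43167)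
 (EL.cons 10 (TM.mk (P.cons (P.cons (P.lf 0 1149402282 0) (P.cons (P.lf 0 1070774556 0) (P.cons (P.lf 109896303 0 0) (P.cons (P.lf 22855374 0 0) (P.lf 0 1904613 0))))) (P.cons (P.cons (P.lf 0 48042627 0) (P.cons (P.lf 0 44756151 0) (P.cons (P.lf 4593435 0 0) (P.cons (P.lf 955305 0 0) (P.lf 0 79608 0))))) (P.cons (P.cons (P.lf 3944601 0 0) (P.cons (P.lf 3674760 0 0) (P.cons (P.lf 0 377148 0) (P.cons (P.lf 0 78435 0) P.nil)))) (P.cons (P.cons (P.lf 188478 0 0) (P.cons (P.lf 175584 0 0) (P.cons (P.lf 0 18018 0) P.nil))) (P.cons (P.cons (P.lf 0 5979 0) (P.cons (P.lf 0 5571 0) P.nil)) (P.cons (P.cons (P.lf 0 396 0) P.nil) P.nil)))))) 11988)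
 EL.nil))))
noncomputable def S212_227_216_364_8 : EL := (EL.cons 12 (TM.mk (P.cons (P.cons (P.lf 3319710472 0 0) (P.cons (P.lf 0 866713296 0) (P.cons (P.lf 0 317165956 0) (P.cons (P.lf 90314030 0 0) (P.cons (P.lf 5098054 0 0) (P.cons (P.lf 0 2337536 0) P.nil)))))) (P.cons (P.cons (P.lf 120905104 0 0) (P.cons (P.lf 0 70123220 0) (P.cons (P.lf 0 23144322 0) (P.cons (P.lf 9477444 0 0) (P.cons (P.lf 639264 0 0) P.nil))))) (P.cons (P.cons (P.lf 0 72770846 0) (P.cons (P.lf 12547542 0 0) (P.cons (P.lf 5124700 0 0) (P.cons (P.lf 0 847768 0) P.nil)))) (P.cons (P.cons (P.lf 0 1241016 0) (P.cons (P.lf 972280 0 0) (P.cons (P.lf 346866 0 0) P.nil))) (P.cons (P.cons (P.lf 682722 0 0) (P.cons (P.lf 0 80924 0) P.nil)) (P.cons (P.cons (P.lf 6308 0 0) P.nil) P.nil)))))) 887948)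
 (EL.cons 3 (TM.mk (P.cons (P.cons (P.lf 321390701 0 0) (P.cons (P.lf 0 324404651 0) (P.cons (P.lf 0 103015757 0) (P.cons (P.lf 47341528 0 0) (P.cons (P.lf 3322770 0 0) (P.cons (P.lf 0 1523540 0) P.nil)))))) (P.cons (P.cons (P.lf 0 830965887 0) (P.cons (P.lf 138917314 0 0) (P.cons (P.lf 57325349 0 0) (P.cons (P.lf 0 8878629 0) (P.cons (P.lf 0 232265 0) P.nil))))) (P.cons (P.cons (P.lf 0 19902081 0) (P.cons (P.lf 16588673 0 0) (P.cons (P.lf 5952015 0 0) (P.cons (P.lf 0 1830738 0) P.nil)))) (P.cons (P.cons (P.lf 16066760 0 0) (P.cons (P.lf 0 1812064 0) (P.cons (P.lf 0 799802 0) P.nil))) (P.cons (P.cons (P.lf 250731 0 0) (P.cons (P.lf 0 216601 0) P.nil)) (P.cons (P.cons (P.lf 0 131608 0) P.nil) P.nil)))))) 1684166)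
 (EL.cons 7 (TM.mk (P.cons (P.cons (P.lf 0 935896074 0) (P.cons (P.lf 291255949 0 0) (P.cons (P.lf 103520593 0 0) (P.cons (P.lf 0 32990369 0) (P.cons (P.lf 0 1989114 0) (P.cons (P.lf 912036 0 0) P.nil)))))) (P.cons (P.cons (P.lf 162088856 0 0) (P.cons (P.lf 0 27097311 0) (P.cons (P.lf 0 11181921 0) (P.cons (P.lf 1731867 0 0) (P.cons (P.lf 45305 0 0) P.nil))))) (P.cons (P.cons (P.lf 0 13639231 0) (P.cons (P.lf 0 306662 0) (P.cons (P.lf 47725 0 0) (P.cons (P.lf 169898 0 0) P.nil)))) (P.cons (P.cons (P.lf 0 3508881 0) (P.cons (P.lf 788966 0 0) (P.cons (P.lf 310604 0 0) P.nil))) (P.cons (P.cons (P.lf 454749 0 0) (P.cons (P.lf 0 18722 0) P.nil)) (P.cons (P.cons (P.lf 27491 0 0) P.nil) P.nil)))))) 767692)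
 (EL.cons 10 (TM.mk (P.cons (P.cons (P.lf 0 1429082250 0) (P.cons (P.lf 0 1144769214 0) (P.cons (P.lf 390872256 0 0) (P.cons (P.lf 76582674 0 0) (P.cons (P.lf 0 22095708 0) (P.cons (P.lf 0 435864 0) P.nil)))))) (P.cons (P.cons (P.lf 0 85756524 0) (P.cons (P.lf 0 60396306 0) (P.cons (P.lf 34765584 0 0) (P.cons (P.lf 6738324 0 0) (P.cons (P.lf 0 2203536 0) P.nil))))) (P.cons (P.cons (P.lf 19716972 0 0) (P.cons (P.lf 17378718 0 0) (P.cons (P.lf 0 3233610 0) (P.cons (P.lf 0 647526 0) P.nil)))) (P.cons (P.cons (P.lf 965820 0 0) (P.cons (P.lf 727182 0 0) (P.cons (P.lf 0 327510 0) P.nil))) (P.cons (P.cons (P.lf 0 116754 0) (P.cons (P.lf 0 108090 0) P.nil)) (P.cons (P.cons (P.lf 0 6132 0) P.nil) P.nil)))))) 1110834)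
 EL.nil))))
noncomputable def S212_227_216_364_9 : EL := (EL.cons 3 (TM.mk (P.cons (P.lf 0 1119737460 0) (P.cons (P.lf 218679686 0 0) (P.cons (P.lf 3398598 0 0) (P.cons (P.lf 0 194190 0) (P.cons (P.lf 0 5531 0) (P.cons (P.lf 146 0 0) P.nil)))))) 52)
 (EL.cons 7 (TM.mk (P.cons (P.lf 0 2041050269 0) (P.cons (P.lf 0 42655831 0) (P.cons (P.lf 3948043 0 0) (P.cons (P.lf 84836 0 0) (P.cons (P.lf 0 3266 0) (P.cons (P.lf 0 122 0) P.nil)))))) 52)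
 EL.nil))
noncomputable def S212_227_216_364_10 : EL := (EL.cons 3 (TM.mk (P.cons (P.cons (P.lf 0 696099598 0) (P.cons (P.lf 90869185 0 0) (P.cons (P.lf 39183817 0 0) (P.lf 0 4353756 0)))) (P.cons (P.cons (P.lf 123269013 0 0) (P.cons (P.lf 0 12049129 0) (P.cons (P.lf 0 5195720 0) (P.lf 577302 0 0)))) (P.cons (P.cons (P.lf 12333330 0 0) (P.cons (P.lf 0 1796686 0) (P.cons (P.lf 0 774750 0) (P.lf 86082 0 0)))) (P.cons (P.cons (P.lf 0 1605726 0) (P.cons (P.lf 45653 0 0) (P.cons (P.lf 19686 0 0) P.nil))) (P.cons (P.cons (P.lf 0 55304 0) (P.cons (P.lf 9782 0 0) P.nil)) (P.cons (P.cons (P.lf 6661 0 0) P.nil) P.nil)))))) 13420)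
 (EL.cons 7 (TM.mk (P.cons (P.cons (P.lf 0 1268845889 0) (P.cons (P.lf 165635770 0 0) (P.cons (P.lf 71424012 0 0) (P.lf 0 7936000 0)))) (P.cons (P.cons (P.lf 0 49623483 0) (P.cons (P.lf 13846459 0 0) (P.cons (P.lf 5970749 0 0) (P.lf 0 663416 0)))) (P.cons (P.cons (P.lf 16088929 0 0) (P.cons (P.lf 0 847503 0) (P.cons (P.lf 0 365451 0) (P.lf 40605 0 0)))) (P.cons (P.cons (P.lf 372560 0 0) (P.cons (P.lf 0 101839 0) (P.cons (P.lf 0 43913 0) P.nil))) (P.cons (P.cons (P.lf 0 80367 0) (P.cons (P.lf 1403 0 0) P.nil)) (P.cons (P.cons (P.lf 0 2226 0) P.nil) P.nil)))))) 9167)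
 EL.nil))
noncomputable def S212_227_216_364_11 : EL := (EL.cons 3 (TM.mk (P.cons (P.cons (P.lf 0 432739519 0) (P.cons (P.lf 112980061 0 0) (P.cons (P.lf 41344039 0 0) (P.cons (P.lf 0 11772848 0) (P.cons (P.lf 0 664554 0) (P.cons (P.lf 304708 0 0) P.nil)))))) (P.cons (P.cons (P.lf 68751543 0 0) (P.cons (P.lf 0 12923612 0) (P.cons (P.lf 0 5057335 0) (P.cons (P.lf 1063755 0 0) (P.cons (P.lf 46453 0 0) P.nil))))) (P.cons (P.cons (P.lf 13877415 0 0) (P.cons (P.lf 0 3763717 0) (P.cons (P.lf 0 1382715 0) (P.cons (P.lf 387516 0 0) P.nil)))) (P.cons (P.cons (P.lf 0 1718014 0) (P.cons (P.lf 184538 0 0) (P.cons (P.lf 83260 0 0) P.nil))) (P.cons (P.cons (P.lf 0 154251 0) (P.cons (P.lf 42407 0 0) P.nil)) (P.cons (P.cons (P.lf 17690 0 0) P.nil) P.nil)))))) 261220)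
 (EL.cons 7 (TM.mk (P.cons (P.cons (P.lf 0 788794824 0) (P.cons (P.lf 205939333 0 0) (P.cons (P.lf 75361651 0 0) (P.cons (P.lf 0 21459473 0) (P.cons (P.lf 0 1211346 0) (P.cons (P.lf 555420 0 0) P.nil)))))) (P.cons (P.cons (P.lf 0 45213196 0) (P.cons (P.lf 20965863 0 0) (P.cons (P.lf 7074291 0 0) (P.cons (P.lf 0 2700411 0) (P.cons (P.lf 0 177211 0) P.nil))))) (P.cons (P.cons (P.lf 18216437 0 0) (P.cons (P.lf 0 3031550 0) (P.cons (P.lf 0 1248521 0) (P.cons (P.lf 195884 0 0) P.nil)))) (P.cons (P.cons (P.lf 744597 0 0) (P.cons (P.lf 0 334120 0) (P.cons (P.lf 0 121636 0) P.nil))) (P.cons (P.cons (P.lf 0 189573 0) (P.cons (P.lf 19804 0 0) P.nil)) (P.cons (P.cons (P.lf 0 6271 0) P.nil) P.nil)))))) 250548)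
 EL.nil))
noncomputable def S212_227_216_364_12 : EL := (EL.cons 4 (TM.mk (P.cons (P.lf 1119737460 0 0) (P.cons (P.lf 0 218679686 0) (P.cons (P.lf 0 3398598 0) (P.cons (P.lf 194190 0 0) (P.cons (P.lf 5531 0 0) (P.cons (P.lf 0 146 0) P.nil)))))) 52)
 (EL.cons 8 (TM.mk (P.cons (P.lf 2041050269 0 0) (P.cons (P.lf 42655831 0 0) (P.cons (P.lf 0 3948043 0) (P.cons (P.lf 0 84836 0) (P.cons (P.lf 3266 0 0) (P.cons (P.lf 122 0 0) P.nil)))))) 52)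
 EL.nil))
noncomputable def S212_227_216_364_13 : EL := (EL.cons 4 (TM.mk (P.cons (P.cons (P.lf 696099598 0 0) (P.cons (P.lf 0 90869185 0) (P.cons (P.lf 0 39183817 0) (P.lf 4353756 0 0)))) (P.cons (P.cons (P.lf 0 123269013 0) (P.cons (P.lf 12049129 0 0) (P.cons (P.lf 5195720 0 0) (P.lf 0 577302 0)))) (P.cons (P.cons (P.lf 0 12333330 0) (P.cons (P.lf 1796686 0 0) (P.cons (P.lf 774750 0 0) (P.lf 0 86082 0)))) (P.cons (P.cons (P.lf 1605726 0 0) (P.cons (P.lf 0 45653 0) (P.cons (P.lf 0 19686 0) P.nil))) (P.cons (P.cons (P.lf 55304 0 0) (P.cons (P.lf 0 9782 0) P.nil)) (P.cons (P.cons (P.lf 0 6661 0) P.nil) P.nil)))))) 13420)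
 (EL.cons 8 (TM.mk (P.cons (P.cons (P.lf 1268845889 0 0) (P.cons (P.lf 0 165635770 0) (P.cons (P.lf 0 71424012 0) (P.lf 7936000 0 0)))) (P.cons (P.cons (P.lf 49623483 0 0) (P.cons (P.lf 0 13846459 0) (P.cons (P.lf 0 5970749 0) (P.lf 663416 0 0)))) (P.cons (P.cons (P.lf 0 16088929 0) (P.cons (P.lf 847503 0 0) (P.cons (P.lf 365451 0 0) (P.lf 0 40605 0)))) (P.cons (P.cons (P.lf 0 372560 0) (P.cons (P.lf 101839 0 0) (P.cons (P.lf 43913 0 0) P.nil))) (P.cons (P.cons (P.lf 80367 0 0) (P.cons (P.lf 0 1403 0) P.nil)) (P.cons (P.cons (P.lf 2226 0 0) P.nil) P.nil)))))) 9167)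
 EL.nil))
noncomputable def S212_227_216_364_14 : EL := (EL.cons 4 (TM.mk (P.cons (P.cons (P.lf 432739519 0 0) (P.cons (P.lf 0 112980061 0) (P.cons (P.lf 0 41344039 0) (P.cons (P.lf 11772848 0 0) (P.cons (P.lf 664554 0 0) (P.cons (P.lf 0 304708 0) P.nil)))))) (P.cons (P.cons (P.lf 0 68751543 0) (P.cons (P.lf 12923612 0 0) (P.cons (P.lf 5057335 0 0) (P.cons (P.lf 0 1063755 0) (P.cons (P.lf 0 46453 0) P.nil))))) (P.cons (P.cons (P.lf 0 13877415 0) (P.cons (P.lf 3763717 0 0) (P.cons (P.lf 1382715 0 0) (P.cons (P.lf 0 387516 0) P.nil)))) (P.cons (P.cons (P.lf 1718014 0 0) (P.cons (P.lf 0 184538 0) (P.cons (P.lf 0 83260 0) P.nil))) (P.cons (P.cons (P.lf 154251 0 0) (P.cons (P.lf 0 42407 0) P.nil)) (P.cons (P.cons (P.lf 0 17690 0) P.nil) P.nil)))))) 261220)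
 (EL.cons 8 (TM.mk (P.cons (P.cons (P.lf 788794824 0 0) (P.cons (P.lf 0 205939333 0) (P.cons (P.lf 0 75361651 0) (P.cons (P.lf 21459473 0 0) (P.cons (P.lf 1211346 0 0) (P.cons (P.lf 0 555420 0) P.nil)))))) (P.cons (P.cons (P.lf 45213196 0 0) (P.cons (P.lf 0 20965863 0) (P.cons (P.lf 0 7074291 0) (P.cons (P.lf 2700411 0 0) (P.cons (P.lf 177211 0 0) P.nil))))) (P.cons (P.cons (P.lf 0 18216437 0) (P.cons (P.lf 3031550 0 0) (P.cons (P.lf 1248521 0 0) (P.cons (P.lf 0 195884 0) P.nil)))) (P.cons (P.cons (P.lf 0 744597 0) (P.cons (P.lf 334120 0 0) (P.cons (P.lf 121636 0 0) P.nil))) (P.cons (P.cons (P.lf 189573 0 0) (P.cons (P.lf 0 19804 0) P.nil)) (P.cons (P.cons (P.lf 6271 0 0) P.nil) P.nil)))))) 250548)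
 EL.nil))
noncomputable def S212_227_216_364_15 : EL := (EL.cons 4 (TM.mk (P.cons (P.lf 0 311387573 0) (P.cons (P.lf 121625182 0 0) (P.cons (P.lf 0 9986193 0) (P.cons (P.lf 0 477157 0) (P.cons (P.lf 15147 0 0) (P.cons (P.lf 1009 0 0) P.nil)))))) 78)
 (EL.cons 8 (TM.mk (P.cons (P.lf 0 567595274 0) (P.cons (P.lf 98986650 0 0) (P.cons (P.lf 5137286 0 0) (P.cons (P.lf 0 253256 0) (P.cons (P.lf 0 13708 0) (P.cons (P.lf 277 0 0) P.nil)))))) 68)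
 EL.nil))
noncomputable def S212_227_216_364_16 : EL := (EL.cons 4 (TM.mk (P.cons (P.cons (P.lf 0 193578202 0) (P.cons (P.lf 25269794 0 0) (P.cons (P.lf 10896619 0 0) (P.lf 0 1210735 0)))) (P.cons (P.cons (P.lf 72084807 0 0) (P.cons (P.lf 0 8285817 0) (P.cons (P.lf 0 3572937 0) (P.lf 396992 0 0)))) (P.cons (P.cons (P.lf 0 2677383 0) (P.cons (P.lf 78045 0 0) (P.cons (P.lf 33654 0 0) (P.lf 0 3738 0)))) (P.cons (P.cons (P.lf 0 1253971 0) (P.cons (P.lf 124825 0 0) (P.cons (P.lf 53825 0 0) P.nil))) (P.cons (P.cons (P.lf 66405 0 0) (P.cons (P.lf 1301 0 0) P.nil)) (P.cons (P.cons (P.lf 7000 0 0) P.nil) P.nil)))))) 14064)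
 (EL.cons 8 (TM.mk (P.cons (P.cons (P.lf 0 352853107 0) (P.cons (P.lf 46061618 0 0) (P.cons (P.lf 19862289 0 0) (P.lf 0 2206920 0)))) (P.cons (P.cons (P.lf 55110838 0 0) (P.cons (P.lf 0 5145067 0) (P.cons (P.lf 0 2218611 0) (P.lf 246512 0 0)))) (P.cons (P.cons (P.lf 8240173 0 0) (P.cons (P.lf 0 1127483 0) (P.cons (P.lf 0 486182 0) (P.lf 54019 0 0)))) (P.cons (P.cons (P.lf 0 789487 0) (P.cons (P.lf 14007 0 0) (P.cons (P.lf 6040 0 0) P.nil))) (P.cons (P.cons (P.lf 0 60298 0) (P.cons (P.lf 7531 0 0) P.nil)) (P.cons (P.cons (P.lf 4184 0 0) P.nil) P.nil)))))) 10197)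
 EL.nil))
noncomputable def S212_227_216_364_17 : EL := (EL.cons 4 (TM.mk (P.cons (P.cons (P.lf 0 120340448 0) (P.cons (P.lf 31418603 0 0) (P.cons (P.lf 11497355 0 0) (P.cons (P.lf 0 3273908 0) (P.cons (P.lf 0 184805 0) (P.cons (P.lf 84735 0 0) P.nil)))))) (P.cons (P.cons (P.lf 42621050 0 0) (P.cons (P.lf 0 9729836 0) (P.cons (P.lf 0 3651775 0) (P.cons (P.lf 935199 0 0) (P.cons (P.lf 49009 0 0) P.nil))))) (P.cons (P.cons (P.lf 490546 0 0) (P.cons (P.lf 0 440134 0) (P.cons (P.lf 0 144752 0) (P.cons (P.lf 59928 0 0) P.nil)))) (P.cons (P.cons (P.lf 0 1310340 0) (P.cons (P.lf 272081 0 0) (P.cons (P.lf 104510 0 0) P.nil))) (P.cons (P.cons (P.lf 41415 0 0) (P.cons (P.lf 4479 0 0) P.nil)) (P.cons (P.cons (P.lf 15525 0 0) P.nil) P.nil)))))) 145762)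
 (EL.cons 8 (TM.mk (P.cons (P.cons (P.lf 0 219355800 0) (P.cons (P.lf 57269629 0 0) (P.cons (P.lf 20957306 0 0) (P.cons (P.lf 0 5967660 0) (P.cons (P.lf 0 336862 0) (P.cons (P.lf 154456 0 0) P.nil)))))) (P.cons (P.cons (P.lf 30265870 0 0) (P.cons (P.lf 0 5354107 0) (P.cons (P.lf 0 2125578 0) (P.cons (P.lf 414500 0 0) (P.cons (P.lf 16507 0 0) P.nil))))) (P.cons (P.cons (P.lf 8187103 0 0) (P.cons (P.lf 0 2155516 0) (P.cons (P.lf 0 795012 0) (P.cons (P.lf 219244 0 0) P.nil)))) (P.cons (P.cons (P.lf 0 782143 0) (P.cons (P.lf 63962 0 0) (P.cons (P.lf 31644 0 0) P.nil))) (P.cons (P.cons (P.lf 0 111796 0) (P.cons (P.lf 27505 0 0) P.nil)) (P.cons (P.cons (P.lf 8768 0 0) P.nil) P.nil)))))) 149699)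
 EL.nil))
noncomputable def S212_227_216_364_18 : EL := (EL.cons 4 (TM.mk (P.cons (P.lf 86593710 0 0) (P.cons (P.lf 0 50734084 0) (P.cons (P.lf 9119656 0 0) (P.cons (P.lf 0 291978 0) (P.cons (P.lf 0 43993 0) (P.cons (P.lf 441 0 0) P.nil)))))) 153)
 (EL.cons 8 (TM.mk (P.cons (P.lf 157842459 0 0) (P.cons (P.lf 0 58353100 0) (P.cons (P.lf 3468227 0 0) (P.cons (P.lf 460355 0 0) (P.cons (P.lf 0 9599 0) (P.cons (P.lf 0 1439 0) P.nil)))))) 99)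
 EL.nil))
noncomputable def S212_227_216_364_19 : EL := (EL.cons 4 (TM.mk (P.cons (P.cons (P.lf 53832124 0 0) (P.cons (P.lf 0 7027272 0) (P.cons (P.lf 0 3030238 0) (P.lf 336692 0 0)))) (P.cons (P.cons (P.lf 0 30559220 0) (P.cons (P.lf 3676595 0 0) (P.cons (P.lf 1585389 0 0) (P.lf 0 176154 0)))) (P.cons (P.cons (P.lf 4496066 0 0) (P.cons (P.lf 0 450374 0) (P.cons (P.lf 0 194205 0) (P.lf 21578 0 0)))) (P.cons (P.cons (P.lf 273487 0 0) (P.cons (P.lf 0 38685 0) (P.cons (P.lf 0 16681 0) P.nil))) (P.cons (P.cons (P.lf 0 92039 0) (P.cons (P.lf 6847 0 0) P.nil)) (P.cons (P.cons (P.lf 623 0 0) P.nil) P.nil)))))) 10973)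
 (EL.cons 8 (TM.mk (P.cons (P.cons (P.lf 98124852 0 0) (P.cons (P.lf 0 12809266 0) (P.cons (P.lf 0 5523499 0) (P.lf 613722 0 0)))) (P.cons (P.cons (P.lf 0 34489104 0) (P.cons (P.lf 3932382 0 0) (P.cons (P.lf 1695687 0 0) (P.lf 0 188409 0)))) (P.cons (P.cons (P.lf 403717 0 0) (P.cons (P.lf 72993 0 0) (P.cons (P.lf 31475 0 0) (P.lf 0 3497 0)))) (P.cons (P.cons (P.lf 730603 0 0) (P.cons (P.lf 0 71692 0) (P.cons (P.lf 0 30914 0) P.nil))) (P.cons (P.cons (P.lf 0 21325 0) (P.cons (P.lf 0 2100 0) P.nil)) (P.cons (P.cons (P.lf 0 5590 0) P.nil) P.nil)))))) 8848)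
 EL.nil))
noncomputable def S212_227_216_364_20 : EL := (EL.cons 4 (TM.mk (P.cons (P.cons (P.lf 33465451 0 0) (P.cons (P.lf 0 8737192 0) (P.cons (P.lf 0 3197296 0) (P.cons (P.lf 910440 0 0) (P.cons (P.lf 51391 0 0) (P.cons (P.lf 0 23564 0) P.nil)))))) (P.cons (P.cons (P.lf 0 18388131 0) (P.cons (P.lf 4412102 0 0) (P.cons (P.lf 1639938 0 0) (P.cons (P.lf 0 437874 0) (P.cons (P.lf 0 23665 0) P.nil))))) (P.cons (P.cons (P.lf 2076745 0 0) (P.cons (P.lf 0 379507 0) (P.cons (P.lf 0 148367 0) (P.cons (P.lf 31361 0 0) P.nil)))) (P.cons (P.cons (P.lf 432811 0 0) (P.cons (P.lf 0 109293 0) (P.cons (P.lf 0 40560 0) P.nil))) (P.cons (P.cons (P.lf 0 84157 0) (P.cons (P.lf 13585 0 0) P.nil)) (P.cons (P.cons (P.lf 0 3260 0) P.nil) P.nil)))))) 76062)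
 (EL.cons 8 (TM.mk (P.cons (P.cons (P.lf 61000611 0 0) (P.cons (P.lf 0 15926100 0) (P.cons (P.lf 0 5828013 0) (P.cons (P.lf 1659545 0 0) (P.cons (P.lf 93678 0 0) (P.cons (P.lf 0 42952 0) P.nil)))))) (P.cons (P.cons (P.lf 0 20329774 0) (P.cons (P.lf 4599218 0 0) (P.cons (P.lf 1729286 0 0) (P.cons (P.lf 0 439370 0) (P.cons (P.lf 0 22885 0) P.nil))))) (P.cons (P.cons (P.lf 0 818167 0) (P.cons (P.lf 356985 0 0) (P.cons (P.lf 123334 0 0) (P.cons (P.lf 0 43495 0) P.nil)))) (P.cons (P.cons (P.lf 698269 0 0) (P.cons (P.lf 0 142133 0) (P.cons (P.lf 0 54781 0) P.nil))) (P.cons (P.cons (P.lf 0 5635 0) (P.cons (P.lf 0 5814 0) P.nil)) (P.cons (P.cons (P.lf 0 9614 0) P.nil) P.nil)))))) 81073)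
 EL.nil))
noncomputable def S212_227_216_364_21 : EL := (EL.cons 4 (TM.mk (P.cons (P.cons (P.lf 0 606542412 0) (P.cons (P.lf 272607555 0 0) (P.cons (P.lf 117551451 0 0) (P.lf 0 13061268 0)))) (P.cons (P.cons (P.lf 734682585 0 0) (P.cons (P.lf 0 36147387 0) (P.cons (P.lf 0 15587160 0) (P.lf 1731906 0 0)))) (P.cons (P.cons (P.lf 7041414 0 0) (P.cons (P.lf 0 5390058 0) (P.cons (P.lf 0 2324250 0) (P.lf 258246 0 0)))) (P.cons (P.cons (P.lf 0 6248649 0) (P.cons (P.lf 136959 0 0) (P.cons (P.lf 59058 0 0) P.nil))) (P.cons (P.cons (P.lf 0 120471 0) (P.cons (P.lf 29346 0 0) P.nil)) (P.cons (P.cons (P.lf 23013 0 0) P.nil) P.nil)))))) 40575)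
 (EL.cons 8 (TM.mk (P.cons (P.cons (P.lf 118312653 0 0) (P.cons (P.lf 0 53175051 0) (P.cons (P.lf 0 22929684 0) (P.lf 2547744 0 0)))) (P.cons (P.cons (P.lf 0 168886293 0) (P.cons (P.lf 18547080 0 0) (P.cons (P.lf 7997709 0 0) (P.lf 0 888633 0)))) (P.cons (P.cons (P.lf 30013149 0 0) (P.cons (P.lf 0 654699 0) (P.cons (P.lf 0 282309 0) (P.lf 31368 0 0)))) (P.cons (P.cons (P.lf 993579 0 0) (P.cons (P.lf 0 215316 0) (P.cons (P.lf 0 92844 0) P.nil))) (P.cons (P.cons (P.lf 0 204546 0) (P.cons (P.lf 1347 0 0) P.nil)) (P.cons (P.cons (P.lf 0 6030 0) P.nil) P.nil)))))) 33981)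
 (EL.cons 11 (TM.mk (P.cons (P.cons (P.lf 1149402282 0 0) (P.cons (P.lf 1070774556 0 0) (P.cons (P.lf 0 109896303 0) (P.cons (P.lf 0 22855374 0) (P.lf 1904613 0 0))))) (P.cons (P.cons (P.lf 48042627 0 0) (P.cons (P.lf 44756151 0 0) (P.cons (P.lf 0 4593435 0) (P.cons (P.lf 0 955305 0) (P.lf 79608 0 0))))) (P.cons (P.cons (P.lf 0 3944601 0) (P.cons (P.lf 0 3674760 0) (P.cons (P.lf 377148 0 0) (P.cons (P.lf 78435 0 0) P.nil)))) (P.cons (P.cons (P.lf 0 188478 0) (P.cons (P.lf 0 175584 0) (P.cons (P.lf 18018 0 0) P.nil))) (P.cons (P.cons (P.lf 5979 0 0) (P.cons (P.lf 5571 0 0) P.nil)) (P.cons (P.cons (P.lf 396 0 0) P.nil) P.nil)))))) 11988)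
 EL.nil)))
noncomputable def S212_227_216_364_22 : EL := (EL.cons 4 (TM.mk (P.cons (P.cons (P.lf 0 377065110 0) (P.cons (P.lf 218692356 0 0) (P.cons (P.lf 72179898 0 0) (P.cons (P.lf 0 29557188 0) (P.cons (P.lf 0 1993662 0) (P.cons (P.lf 914124 0 0) P.nil)))))) (P.cons (P.cons (P.lf 449858715 0 0) (P.cons (P.lf 0 75920463 0) (P.cons (P.lf 0 31191342 0) (P.cons (P.lf 4971192 0 0) (P.cons (P.lf 139359 0 0) P.nil))))) (P.cons (P.cons (P.lf 16889748 0 0) (P.cons (P.lf 0 10176195 0) (P.cons (P.lf 0 3667365 0) (P.cons (P.lf 1109127 0 0) P.nil)))) (P.cons (P.cons (P.lf 0 8892387 0) (P.cons (P.lf 998301 0 0) (P.cons (P.lf 441531 0 0) P.nil))) (P.cons (P.cons (P.lf 0 202491 0) (P.cons (P.lf 129504 0 0) P.nil)) (P.cons (P.cons (P.lf 74649 0 0) P.nil) P.nil)))))) 711462)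
 (EL.cons 8 (TM.mk (P.cons (P.cons (P.lf 73550625 0 0) (P.cons (P.lf 0 42658308 0) (P.cons (P.lf 0 14079471 0) (P.cons (P.lf 5765448 0 0) (P.cons (P.lf 388884 0 0) (P.cons (P.lf 0 178308 0) P.nil)))))) (P.cons (P.cons (P.lf 0 103651026 0) (P.cons (P.lf 24031587 0 0) (P.cons (P.lf 9128106 0 0) (P.cons (P.lf 0 2216139 0) (P.cons (P.lf 0 111258 0) P.nil))))) (P.cons (P.cons (P.lf 15927834 0 0) (P.cons (P.lf 0 1362444 0) (P.cons (P.lf 0 648123 0) (P.cons (P.lf 12993 0 0) P.nil)))) (P.cons (P.cons (P.lf 2126739 0 0) (P.cons (P.lf 0 561543 0) (P.cons (P.lf 0 216120 0) P.nil))) (P.cons (P.cons (P.lf 0 322161 0) (P.cons (P.lf 19263 0 0) P.nil)) (P.cons (P.cons (P.lf 0 16881 0) P.nil) P.nil)))))) 258561)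
 (EL.cons 11 (TM.mk (P.cons (P.cons (P.lf 714541125 0 0) (P.cons (P.lf 572384607 0 0) (P.cons (P.lf 0 195436128 0) (P.cons (P.lf 0 38291337 0) (P.cons (P.lf 11047854 0 0) (P.cons (P.lf 217932 0 0) P.nil)))))) (P.cons (P.cons (P.lf 42878262 0 0) (P.cons (P.lf 30198153 0 0) (P.cons (P.lf 0 17382792 0) (P.cons (P.lf 0 3369162 0) (P.cons (P.lf 1101768 0 0) P.nil))))) (P.cons (P.cons (P.lf 0 9858486 0) (P.cons (P.lf 0 8689359 0) (P.cons (P.lf 1616805 0 0) (P.cons (P.lf 323763 0 0) P.nil)))) (P.cons (P.cons (P.lf 0 482910 0) (P.cons (P.lf 0 363591 0) (P.cons (P.lf 163755 0 0) P.nil))) (P.cons (P.cons (P.lf 58377 0 0) (P.cons (P.lf 54045 0 0) P.nil)) (P.cons (P.cons (P.lf 3066 0 0) P.nil) P.nil)))))) 555417)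
 EL.nil)))
noncomputable def S212_227_216_364_23 : EL := (EL.cons 4 (TM.mk (P.cons (P.cons (P.lf 168673260 0 0) (P.cons (P.lf 0 75809382 0) (P.cons (P.lf 0 32689860 0) (P.lf 3632205 0 0)))) (P.cons (P.cons (P.lf 0 237248865 0) (P.cons (P.lf 24857448 0 0) (P.cons (P.lf 10718811 0 0) (P.lf 0 1190976 0)))) (P.cons (P.cons (P.lf 37430283 0 0) (P.cons (P.lf 0 234138 0) (P.cons (P.lf 0 100962 0) (P.lf 11217 0 0)))) (P.cons (P.cons (P.lf 2769462 0 0) (P.cons (P.lf 0 374475 0) (P.cons (P.lf 0 161478 0) P.nil))) (P.cons (P.cons (P.lf 0 334515 0) (P.cons (P.lf 0 3903 0) P.nil)) (P.cons (P.cons (P.lf 0 19587 0) P.nil) P.nil)))))) 40125)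
 (EL.cons 8 (TM.mk (P.cons (P.cons (P.lf 0 32901540 0) (P.cons (P.lf 14787438 0 0) (P.cons (P.lf 6376509 0 0) (P.lf 0 708501 0)))) (P.cons (P.cons (P.lf 53391078 0 0) (P.cons (P.lf 0 8045673 0) (P.cons (P.lf 0 3469383 0) (P.lf 385485 0 0)))) (P.cons (P.cons (P.lf 0 17418648 0) (P.cons (P.lf 1144467 0 0) (P.cons (P.lf 493506 0 0) (P.lf 0 54834 0)))) (P.cons (P.cons (P.lf 1205445 0 0) (P.cons (P.lf 42537 0 0) (P.cons (P.lf 18342 0 0) P.nil))) (P.cons (P.cons (P.lf 144156 0 0) (P.cons (P.lf 0 13440 0) P.nil)) (P.cons (P.cons (P.lf 0 9804 0) P.nil) P.nil)))))) 20787)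
 (EL.cons 11 (TM.mk (P.cons (P.cons (P.lf 0 319637058 0) (P.cons (P.lf 0 297771489 0) (P.cons (P.lf 30561039 0 0) (P.cons (P.lf 6355845 0 0) (P.lf 0 529653 0))))) (P.cons (P.cons (P.lf 49063512 0 0) (P.cons (P.lf 45707202 0 0) (P.cons (P.lf 0 4691046 0) (P.cons (P.lf 0 975606 0) (P.lf 81300 0 0))))) (P.cons (P.cons (P.lf 4676286 0 0) (P.cons (P.lf 4356393 0 0) (P.cons (P.lf 0 447105 0) (P.cons (P.lf 0 92985 0) P.nil)))) (P.cons (P.cons (P.lf 0 176697 0) (P.cons (P.lf 0 164610 0) (P.cons (P.lf 16893 0 0) P.nil))) (P.cons (P.cons (P.lf 0 19122 0) (P.cons (P.lf 0 17814 0) P.nil)) (P.cons (P.cons (P.lf 219 0 0) P.nil) P.nil)))))) 19008)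
 EL.nil)))
noncomputable def S212_227_216_364_24 : EL := (EL.cons 4 (TM.mk (P.cons (P.cons (P.lf 104857962 0 0) (P.cons (P.lf 0 60816114 0) (P.cons (P.lf 0 20072493 0) (P.cons (P.lf 8219550 0 0) (P.cons (P.lf 554415 0 0) (P.cons (P.lf 0 254208 0) P.nil)))))) (P.cons (P.cons (P.lf 0 145579410 0) (P.cons (P.lf 32989818 0 0) (P.cons (P.lf 12594060 0 0) (P.cons (P.lf 0 2987679 0) (P.cons (P.lf 0 147030 0) P.nil))))) (P.cons (P.cons (P.lf 19416555 0 0) (P.cons (P.lf 0 1108731 0) (P.cons (P.lf 0 613209 0) (P.cons (P.lf 0 63399 0) P.nil)))) (P.cons (P.cons (P.lf 3788046 0 0) (P.cons (P.lf 0 904911 0) (P.cons (P.lf 0 351765 0) P.nil))) (P.cons (P.cons (P.lf 0 433551 0) (P.cons (P.lf 12972 0 0) P.nil)) (P.cons (P.cons (P.lf 0 40707 0) P.nil) P.nil)))))) 365376)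
 (EL.cons 8 (TM.mk (P.cons (P.cons (P.lf 0 20453679 0) (P.cons (P.lf 11862840 0 0) (P.cons (P.lf 3915357 0 0) (P.cons (P.lf 0 1603311 0) (P.cons (P.lf 0 108144 0) (P.cons (P.lf 49584 0 0) P.nil)))))) (P.cons (P.cons (P.lf 32818803 0 0) (P.cons (P.lf 0 8999697 0) (P.cons (P.lf 0 3303084 0) (P.cons (P.lf 929406 0 0) (P.cons (P.lf 52059 0 0) P.nil))))) (P.cons (P.cons (P.lf 0 9996540 0) (P.cons (P.lf 1648023 0 0) (P.cons (P.lf 664095 0 0) (P.cons (P.lf 0 119103 0) P.nil)))) (P.cons (P.cons (P.lf 182577 0 0) (P.cons (P.lf 104505 0 0) (P.cons (P.lf 33285 0 0) P.nil))) (P.cons (P.cons (P.lf 223434 0 0) (P.cons (P.lf 0 38103 0) P.nil)) (P.cons (P.cons (P.lf 0 11628 0) P.nil) P.nil)))))) 128928)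
 (EL.cons 11 (TM.mk (P.cons (P.cons (P.lf 0 198706602 0) (P.cons (P.lf 0 159174324 0) (P.cons (P.lf 54348792 0 0) (P.cons (P.lf 10648428 0 0) (P.cons (P.lf 0 3072294 0) (P.cons (P.lf 0 60603 0) P.nil)))))) (P.cons (P.cons (P.lf 26882496 0 0) (P.cons (P.lf 22688229 0 0) (P.cons (P.lf 0 5780097 0) (P.cons (P.lf 0 1142661 0) (P.cons (P.lf 293613 0 0) P.nil))))) (P.cons (P.cons (P.lf 5673357 0 0) (P.cons (P.lf 4539597 0 0) (P.cons (P.lf 0 1558629 0) (P.cons (P.lf 0 305331 0) P.nil)))) (P.cons (P.cons (P.lf 0 399387 0) (P.cons (P.lf 0 372921 0) (P.cons (P.lf 37020 0 0) P.nil))) (P.cons (P.cons (P.lf 0 53829 0) (P.cons (P.lf 0 44352 0) P.nil)) (P.cons (P.cons (P.lf 2352 0 0) P.nil) P.nil)))))) 299688)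
 EL.nil)))
noncomputable def S212_227_216_364_25 : EL := (EL.cons 4 (TM.mk (P.cons (P.cons (P.lf 0 46906314 0) (P.cons (P.lf 21081816 0 0) (P.cons (P.lf 9090714 0 0) (P.lf 0 1010079 0)))) (P.cons (P.cons (P.lf 75137082 0 0) (P.cons (P.lf 0 11029785 0) (P.cons (P.lf 0 4756167 0) (P.lf 528462 0 0)))) (P.cons (P.cons (P.lf 0 23151522 0) (P.cons (P.lf 1351122 0 0) (P.cons (P.lf 582618 0 0) (P.lf 0 64734 0)))) (P.cons (P.cons (P.lf 1054281 0 0) (P.cons (P.lf 116058 0 0) (P.cons (P.lf 50043 0 0) P.nil))) (P.cons (P.cons (P.lf 286236 0 0) (P.cons (P.lf 0 20544 0) P.nil)) (P.cons (P.cons (P.lf 0 11853 0) P.nil) P.nil)))))) 33744)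
 (EL.cons 8 (TM.mk (P.cons (P.cons (P.lf 9149583 0 0) (P.cons (P.lf 0 4112235 0) (P.cons (P.lf 0 1773240 0) (P.lf 197025 0 0)))) (P.cons (P.cons (P.lf 0 16634385 0) (P.cons (P.lf 3040521 0 0) (P.cons (P.lf 1311105 0 0) (P.lf 0 145677 0)))) (P.cons (P.cons (P.lf 7715829 0 0) (P.cons (P.lf 0 742740 0) (P.cons (P.lf 0 320277 0) (P.lf 35586 0 0)))) (P.cons (P.cons (P.lf 0 1234572 0) (P.cons (P.lf 42819 0 0) (P.cons (P.lf 18465 0 0) P.nil))) (P.cons (P.cons (P.lf 8145 0 0) (P.cons (P.lf 7380 0 0) P.nil)) (P.cons (P.cons (P.lf 12336 0 0) P.nil) P.nil)))))) 14100)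
 (EL.cons 11 (TM.mk (P.cons (P.cons (P.lf 88887807 0 0) (P.cons (P.lf 82807215 0 0) (P.cons (P.lf 0 8498712 0) (P.cons (P.lf 0 1767495 0) (P.lf 147291 0 0))))) (P.cons (P.cons (P.lf 0 31003449 0) (P.cons (P.lf 0 28882581 0) (P.cons (P.lf 2964291 0 0) (P.cons (P.lf 616488 0 0) (P.lf 0 51372 0))))) (P.cons (P.cons (P.lf 1094406 0 0) (P.cons (P.lf 1019538 0 0) (P.cons (P.lf 0 104637 0) (P.cons (P.lf 0 21759 0) P.nil)))) (P.cons (P.cons (P.lf 359931 0 0) (P.cons (P.lf 335310 0 0) (P.cons (P.lf 0 34413 0) P.nil))) (P.cons (P.cons (P.lf 0 2256 0) (P.cons (P.lf 0 2103 0) P.nil)) (P.cons (P.cons (P.lf 0 1551 0) P.nil) P.nil)))))) 21048)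
 EL.nil)))
noncomputable def S212_227_216_364_26 : EL := (EL.cons 4 (TM.mk (P.cons (P.cons (P.lf 0 29159928 0) (P.cons (P.lf 16912341 0 0) (P.cons (P.lf 5581956 0 0) (P.cons (P.lf 0 2285772 0) (P.cons (P.lf 0 154176 0) (P.cons (P.lf 70692 0 0) P.nil)))))) (P.cons (P.cons (P.lf 46178952 0 0) (P.cons (P.lf 0 12477036 0) (P.cons (P.lf 0 4592409 0) (P.cons (P.lf 1277244 0 0) (P.cons (P.lf 70995 0 0) P.nil))))) (P.cons (P.cons (P.lf 0 13217412 0) (P.cons (P.lf 2048661 0 0) (P.cons (P.lf 837564 0 0) (P.cons (P.lf 0 137688 0) P.nil)))) (P.cons (P.cons (P.lf 0 126843 0) (P.cons (P.lf 222207 0 0) (P.cons (P.lf 76116 0 0) P.nil))) (P.cons (P.cons (P.lf 349557 0 0) (P.cons (P.lf 0 55194 0) P.nil)) (P.cons (P.cons (P.lf 0 9759 0) P.nil) P.nil)))))) 163911)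
 (EL.cons 8 (TM.mk (P.cons (P.cons (P.lf 5687958 0 0) (P.cons (P.lf 0 3298935 0) (P.cons (P.lf 0 1088820 0) (P.cons (P.lf 445863 0 0) (P.cons (P.lf 30072 0 0) (P.cons (P.lf 0 13788 0) P.nil)))))) (P.cons (P.cons (P.lf 0 10237407 0) (P.cons (P.lf 3146991 0 0) (P.cons (P.lf 1131195 0 0) (P.cons (P.lf 0 345531 0) (P.cons (P.lf 0 20349 0) P.nil))))) (P.cons (P.cons (P.lf 4545051 0 0) (P.cons (P.lf 0 937056 0) (P.cons (P.lf 0 360762 0) (P.cons (P.lf 82242 0 0) P.nil)))) (P.cons (P.cons (P.lf 0 564993 0) (P.cons (P.lf 52272 0 0) (P.cons (P.lf 23832 0 0) P.nil))) (P.cons (P.cons (P.lf 0 62211 0) (P.cons (P.lf 18081 0 0) P.nil)) (P.cons (P.cons (P.lf 15957 0 0) P.nil) P.nil)))))) 56136)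
 (EL.cons 11 (TM.mk (P.cons (P.cons (P.lf 55258278 0 0) (P.cons (P.lf 44264757 0 0) (P.cons (P.lf 0 15113844 0) (P.cons (P.lf 0 2961219 0) (P.cons (P.lf 854373 0 0) (P.cons (P.lf 16851 0 0) P.nil)))))) (P.cons (P.cons (P.lf 0 18267441 0) (P.cons (P.lf 0 14954073 0) (P.cons (P.lf 4559052 0 0) (P.cons (P.lf 896073 0 0) (P.cons (P.lf 0 248505 0) P.nil))))) (P.cons (P.cons (P.lf 0 285441 0) (P.cons (P.lf 0 164574 0) (P.cons (P.lf 165396 0 0) (P.cons (P.lf 31839 0 0) P.nil)))) (P.cons (P.cons (P.lf 451455 0 0) (P.cons (P.lf 377076 0 0) (P.cons (P.lf 0 102441 0) P.nil))) (P.cons (P.cons (P.lf 0 2955 0) (P.cons (P.lf 0 4962 0) P.nil)) (P.cons (P.cons (P.lf 0 4230 0) P.nil) P.nil)))))) 137934)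
 EL.nil)))
noncomputable def S212_227_216_364_27 : EL := (EL.cons 13 (TM.mk (P.lf 0 4294967296 0) 0)
 EL.nil)
noncomputable def S212_227_216_364_28 : EL := (EL.cons 13 (TM.mk (P.cons (P.cons (P.lf 0 2670023213 0) (P.cons (P.lf 348546152 0 0) (P.cons (P.lf 150297032 0 0) (P.lf 0 16699668 0)))) (P.cons (P.cons (P.lf 0 48621625 0) (P.cons (P.lf 21852752 0 0) (P.cons (P.lf 9423152 0 0) (P.lf 0 1047016 0)))) (P.cons (P.cons (P.lf 29707282 0 0) (P.cons (P.lf 0 1565896 0) (P.cons (P.lf 0 675228 0) (P.lf 75024 0 0)))) (P.cons (P.cons (P.lf 0 41904 0) (P.cons (P.lf 0 124816 0) (P.cons (P.lf 0 53820 0) P.nil))) (P.cons (P.cons (P.lf 0 108527 0) (P.cons (P.lf 2884 0 0) P.nil)) (P.cons (P.cons (P.lf 0 1027 0) P.nil) P.nil)))))) 10465)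
 EL.nil)
noncomputable def S212_227_216_364_29 : EL := (EL.cons 13 (TM.mk (P.cons (P.cons (P.lf 0 1659855236 0) (P.cons (P.lf 433356648 0 0) (P.cons (P.lf 158582978 0 0) (P.cons (P.lf 0 45157015 0) (P.cons (P.lf 0 2549027 0) (P.cons (P.lf 1168768 0 0) P.nil)))))) (P.cons (P.cons (P.lf 0 60452552 0) (P.cons (P.lf 35061610 0 0) (P.cons (P.lf 11572161 0 0) (P.cons (P.lf 0 4738722 0) (P.cons (P.lf 0 319632 0) P.nil))))) (P.cons (P.cons (P.lf 36385423 0 0) (P.cons (P.lf 0 6273771 0) (P.cons (P.lf 0 2562350 0) (P.cons (P.lf 423884 0 0) P.nil)))) (P.cons (P.cons (P.lf 620508 0 0) (P.cons (P.lf 0 486140 0) (P.cons (P.lf 0 173433 0) P.nil))) (P.cons (P.cons (P.lf 0 341361 0) (P.cons (P.lf 40462 0 0) P.nil)) (P.cons (P.cons (P.lf 0 3154 0) P.nil) P.nil)))))) 443974)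
 EL.nil)
noncomputable def S212_227_216_364_30 : EL := (EL.cons 13 (TM.mk (P.cons (P.lf 1194386624 0 0) (P.cons (P.lf 0 233258332 0) (P.cons (P.lf 0 3625172 0) (P.cons (P.lf 207136 0 0) (P.cons (P.lf 5900 0 0) (P.cons (P.lf 0 156 0) P.nil)))))) 48)
 EL.nil)
noncomputable def S212_227_216_364_31 : EL := (EL.cons 13 (TM.mk (P.cons (P.cons (P.lf 742506238 0 0) (P.cons (P.lf 0 96927131 0) (P.cons (P.lf 0 41796072 0) (P.lf 4644007 0 0)))) (P.cons (P.cons (P.lf 0 131486948 0) (P.cons (P.lf 12852405 0 0) (P.cons (P.lf 5542102 0 0) (P.lf 0 615789 0)))) (P.cons (P.cons (P.lf 0 13155553 0) (P.cons (P.lf 1916466 0 0) (P.cons (P.lf 826400 0 0) (P.lf 0 91821 0)))) (P.cons (P.cons (P.lf 1712775 0 0) (P.cons (P.lf 0 48697 0) (P.cons (P.lf 0 20999 0) P.nil))) (P.cons (P.cons (P.lf 58991 0 0) (P.cons (P.lf 0 10435 0) P.nil)) (P.cons (P.cons (P.lf 0 7106 0) P.nil) P.nil))))))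 14295)
 EL.nil)
noncomputable def S212_227_216_364_32 : EL := (EL.cons 13 (TM.mk (P.cons (P.cons (P.lf 461588821 0 0) (P.cons (P.lf 0 120512066 0) (P.cons (P.lf 0 44100309 0) (P.cons (P.lf 12557705 0 0) (P.cons (P.lf 708858 0 0) (P.cons (P.lf 0 325022 0) P.nil)))))) (P.cons (P.cons (P.lf 0 73334980 0) (P.cons (P.lf 13785187 0 0) (P.cons (P.lf 5394491 0 0) (P.cons (P.lf 0 1134673 0) (P.cons (P.lf 0 49550 0) P.nil))))) (P.cons (P.cons (P.lf 0 14802577 0) (P.cons (P.lf 4014632 0 0) (P.cons (P.lf 1474896 0 0) (P.cons (P.lf 0 413351 0) P.nil)))) (P.cons (P.cons (P.lf 1832549 0 0) (P.cons (P.lf 0 196841 0) (P.cons (P.lf 0 88811 0) P.nil))) (P.cons (P.cons (P.lf 164535 0 0) (P.cons (P.lf 0 45235 0) P.nil)) (P.cons (P.cons (P.lf 0 18870 0) P.nil) P.nil)))))) 278612)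
 EL.nil)
noncomputable def S212_227_216_364_33 : EL := (EL.cons 14 (TM.mk (P.lf 8589934592 0 0) 0)
 EL.nil)
noncomputable def S212_227_216_364_34 : EL := (EL.cons 14 (TM.mk (P.cons (P.cons (P.lf 5340046426 0 0) (P.cons (P.lf 0 697092304 0) (P.cons (P.lf 0 300594064 0) (P.lf 33399336 0 0)))) (P.cons (P.cons (P.lf 97243250 0 0) (P.cons (P.lf 0 43705504 0) (P.cons (P.lf 0 18846304 0) (P.lf 2094032 0 0)))) (P.cons (P.cons (P.lf 0 59414564 0) (P.cons (P.lf 3131792 0 0) (P.cons (P.lf 1350456 0 0) (P.lf 0 150048 0)))) (P.cons (P.cons (P.lf 83808 0 0) (P.cons (P.lf 249632 0 0) (P.cons (P.lf 107640 0 0) P.nil))) (P.cons (P.cons (P.lf 217054 0 0) (P.cons (P.lf 0 5768 0) P.nil)) (P.cons (P.cons (P.lf 2054 0 0) P.nil) P.nil)))))) 20930)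
 EL.nil)
noncomputable def S212_227_216_364_35 : EL := (EL.cons 14 (TM.mk (P.cons (P.cons (P.lf 3319710472 0 0) (P.cons (P.lf 0 866713296 0) (P.cons (P.lf 0 317165956 0) (P.cons (P.lf 90314030 0 0) (P.cons (P.lf 5098054 0 0) (P.cons (P.lf 0 2337536 0) P.nil)))))) (P.cons (P.cons (P.lf 120905104 0 0) (P.cons (P.lf 0 70123220 0) (P.cons (P.lf 0 23144322 0) (P.cons (P.lf 9477444 0 0) (P.cons (P.lf 639264 0 0) P.nil))))) (P.cons (P.cons (P.lf 0 72770846 0) (P.cons (P.lf 12547542 0 0) (P.cons (P.lf 5124700 0 0) (P.cons (P.lf 0 847768 0) P.nil)))) (P.cons (P.cons (P.lf 0 1241016 0) (P.cons (P.lf 972280 0 0) (P.cons (P.lf 346866 0 0) P.nil))) (P.cons (P.cons (P.lf 682722 0 0) (P.cons (P.lf 0 80924 0) P.nil)) (P.cons (P.cons (P.lf 6308 0 0) P.nil) P.nil)))))) 887948)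
 EL.nil)
noncomputable def S212_227_216_364_36 : EL := (EL.cons 14 (TM.mk (P.cons (P.lf 0 2388773248 0) (P.cons (P.lf 466516664 0 0) (P.cons (P.lf 7250344 0 0) (P.cons (P.lf 0 414272 0) (P.cons (P.lf 0 11800 0) (P.cons (P.lf 312 0 0) P.nil)))))) 96)
 EL.nil)
noncomputable def S212_227_216_364_37 : EL := (EL.cons 14 (TM.mk (P.cons (P.cons (P.lf 0 1485012476 0) (P.cons (P.lf 193854262 0 0) (P.cons (P.lf 83592144 0 0) (P.lf 0 9288014 0)))) (P.cons (P.cons (P.lf 262973896 0 0) (P.cons (P.lf 0 25704810 0) (P.cons (P.lf 0 11084204 0) (P.lf 1231578 0 0)))) (P.cons (P.cons (P.lf 26311106 0 0) (P.cons (P.lf 0 3832932 0) (P.cons (P.lf 0 1652800 0) (P.lf 183642 0 0)))) (P.cons (P.cons (P.lf 0 3425550 0) (P.cons (P.lf 97394 0 0) (P.cons (P.lf 41998 0 0) P.nil))) (P.cons (P.cons (P.lf 0 117982 0) (P.cons (P.lf 20870 0 0) P.nil)) (P.cons (P.cons (P.lf 14212 0 0) P.nil)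 P.nil)))))) 28590)
 EL.nil)
noncomputable def S212_227_216_364_38 : EL := (EL.cons 14 (TM.mk (P.cons (P.cons (P.lf 0 923177642 0) (P.cons (P.lf 241024132 0 0) (P.cons (P.lf 88200618 0 0) (P.cons (P.lf 0 25115410 0) (P.cons (P.lf 0 1417716 0) (P.cons (P.lf 650044 0 0) P.nil)))))) (P.cons (P.cons (P.lf 146669960 0 0) (P.cons (P.lf 0 27570374 0) (P.cons (P.lf 0 10788982 0) (P.cons (P.lf 2269346 0 0) (P.cons (P.lf 99100 0 0) P.nil))))) (P.cons (P.cons (P.lf 29605154 0 0) (P.cons (P.lf 0 8029264 0) (P.cons (P.lf 0 2949792 0) (P.cons (P.lf 826702 0 0) P.nil)))) (P.cons (P.cons (P.lf 0 3665098 0) (P.cons (P.lf 393682 0 0) (P.cons (P.lf 177622 0 0) P.nil))) (P.cons (P.cons (P.lf 0 329070 0) (P.cons (P.lf 90470 0 0) P.nil)) (P.cons (P.cons (P.lf 37740 0 0) P.nil) P.nil)))))) 557224)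
 EL.nil)
noncomputable def S212_227_216_364_39 : EL := (EL.cons 14 (TM.mk (P.cons (P.lf 664293490 0 0) (P.cons (P.lf 0 259467056 0) (P.cons (P.lf 21303880 0 0) (P.cons (P.lf 1017936 0 0) (P.cons (P.lf 0 32314 0) (P.cons (P.lf 0 2154 0) P.nil)))))) 152)
 EL.nil)
noncomputable def S212_227_216_364_40 : EL := (EL.cons 14 (TM.mk (P.cons (P.cons (P.lf 412966832 0 0) (P.cons (P.lf 0 53908894 0) (P.cons (P.lf 0 23246122 0) (P.lf 2582902 0 0)))) (P.cons (P.cons (P.lf 0 153780922 0) (P.cons (P.lf 17676410 0 0) (P.cons (P.lf 7622266 0 0) (P.lf 0 846918 0)))) (P.cons (P.cons (P.lf 5711752 0 0) (P.cons (P.lf 0 166496 0) (P.cons (P.lf 0 71796 0) (P.lf 7976 0 0)))) (P.cons (P.cons (P.lf 2675140 0 0) (P.cons (P.lf 0 266294 0) (P.cons (P.lf 0 114828 0) P.nil))) (P.cons (P.cons (P.lf 0 141664 0) (P.cons (P.lf 0 2776 0) P.nil)) (P.cons (P.cons (P.lf 0 14934 0) P.nil) P.nil))))))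 29964)
 EL.nil)
noncomputable def S212_227_216_364_41 : EL := (EL.cons 14 (TM.mk (P.cons (P.cons (P.lf 256726290 0 0) (P.cons (P.lf 0 67026354 0) (P.cons (P.lf 0 24527692 0) (P.cons (P.lf 6984338 0 0) (P.cons (P.lf 394252 0 0) (P.cons (P.lf 0 180770 0) P.nil)))))) (P.cons (P.cons (P.lf 0 90924908 0) (P.cons (P.lf 20756984 0 0) (P.cons (P.lf 7790454 0 0) (P.cons (P.lf 0 1995092 0) (P.cons (P.lf 0 104554 0) P.nil))))) (P.cons (P.cons (P.lf 0 1046500 0) (P.cons (P.lf 938954 0 0) (P.cons (P.lf 308806 0 0) (P.cons (P.lf 0 127848 0) P.nil)))) (P.cons (P.cons (P.lf 2795392 0 0) (P.cons (P.lf 0 580440 0) (P.cons (P.lf 0 222956 0) P.nil))) (P.cons (P.cons (P.lf 0 88354 0) (P.cons (P.lf 0 9556 0) P.nil)) (P.cons (P.cons (P.lf 0 33122 0) P.nil) P.nil)))))) 310914)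
 EL.nil)
noncomputable def S212_227_216_364_42 : EL := (EL.cons 14 (TM.mk (P.cons (P.lf 0 184733248 0) (P.cons (P.lf 108232714 0 0) (P.cons (P.lf 0 19455268 0) (P.cons (P.lf 622888 0 0) (P.cons (P.lf 93852 0 0) (P.cons (P.lf 0 942 0) P.nil)))))) 312)
 EL.nil)
noncomputable def S212_227_216_364_43 : EL := (EL.cons 14 (TM.mk (P.cons (P.cons (P.lf 0 114841866 0) (P.cons (P.lf 14991514 0 0) (P.cons (P.lf 6464508 0 0) (P.lf 0 718278 0)))) (P.cons (P.cons (P.lf 65193004 0 0) (P.cons (P.lf 0 7843404 0) (P.cons (P.lf 0 3382164 0) (P.lf 375796 0 0)))) (P.cons (P.cons (P.lf 0 9591608 0) (P.cons (P.lf 960798 0 0) (P.cons (P.lf 414306 0 0) (P.lf 0 46034 0)))) (P.cons (P.cons (P.lf 0 583440 0) (P.cons (P.lf 82530 0 0) (P.cons (P.lf 35588 0 0) P.nil))) (P.cons (P.cons (P.lf 196350 0 0) (P.cons (P.lf 0 14608 0) P.nil)) (P.cons (P.cons (P.lf 0 1330 0) P.nil) P.nil)))))) 23370)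
 EL.nil)
noncomputable def S212_227_216_364_44 : EL := (EL.cons 14 (TM.mk (P.cons (P.cons (P.lf 0 71392964 0) (P.cons (P.lf 18639344 0 0) (P.cons (P.lf 6820900 0 0) (P.cons (P.lf 0 1942272 0) (P.cons (P.lf 0 109636 0) (P.cons (P.lf 50270 0 0) P.nil)))))) (P.cons (P.cons (P.lf 39228014 0 0) (P.cons (P.lf 0 9412486 0) (P.cons (P.lf 0 3498536 0) (P.cons (P.lf 934132 0 0) (P.cons (P.lf 50486 0 0) P.nil))))) (P.cons (P.cons (P.lf 0 4430390 0) (P.cons (P.lf 809616 0 0) (P.cons (P.lf 316518 0 0) (P.cons (P.lf 0 66904 0) P.nil)))) (P.cons (P.cons (P.lf 0 923332 0) (P.cons (P.lf 233160 0 0) (P.cons (P.lf 86530 0 0) P.nil))) (P.cons (P.cons (P.lf 179536 0 0) (P.cons (P.lf 0 28982 0) P.nil)) (P.cons (P.cons (P.lf 6956 0 0) P.nil) P.nil)))))) 162220)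
 EL.nil)
noncomputable def S212_227_216_364_45 : EL := (EL.cons 14 (TM.mk (P.cons (P.cons (P.lf 2063741912 0 0) (P.cons (P.lf 0 808205672 0) (P.cons (P.lf 0 243003832 0) (P.cons (P.lf 125120866 0 0) (P.cons (P.lf 3568966 0 0) (P.cons (P.lf 0 6260508 0) P.nil)))))) (P.cons (P.cons (P.lf 112743384 0 0) (P.cons (P.lf 0 80107118 0) (P.cons (P.lf 0 19392362 0) (P.cons (P.lf 16040952 0 0) (P.cons (P.lf 248316 0 0) P.nil))))) (P.cons (P.cons (P.lf 0 66831898 0) (P.cons (P.lf 19502040 0 0) (P.cons (P.lf 6943286 0 0) (P.cons (P.lf 0 2191130 0) P.nil)))) (P.cons (P.cons (P.lf 0 2399186 0) (P.cons (P.lf 1834568 0 0) (P.cons (P.lf 500832 0 0) P.nil))) (P.cons (P.cons (P.lf 998776 0 0) (P.cons (P.lf 0 223010 0) P.nil)) (P.cons (P.cons (P.lf 23372 0 0) P.nil) P.nil)))))) 3607170)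
 EL.nil)
noncomputable def S212_227_216_364_46 : EL := (EL.cons 15 (TM.mk (P.lf 4294967296 0 0) 0)
 EL.nil)
noncomputable def S212_227_216_364_47 : EL := (EL.cons 15 (TM.mk (P.cons (P.cons (P.lf 2670023213 0 0) (P.cons (P.lf 0 348546152 0) (P.cons (P.lf 0 150297032 0) (P.lf 16699668 0 0)))) (P.cons (P.cons (P.lf 48621625 0 0) (P.cons (P.lf 0 21852752 0) (P.cons (P.lf 0 9423152 0) (P.lf 1047016 0 0)))) (P.cons (P.cons (P.lf 0 29707282 0) (P.cons (P.lf 1565896 0 0) (P.cons (P.lf 675228 0 0) (P.lf 0 75024 0)))) (P.cons (P.cons (P.lf 41904 0 0) (P.cons (P.lf 124816 0 0) (P.cons (P.lf 53820 0 0) P.nil))) (P.cons (P.cons (P.lf 108527 0 0) (P.cons (P.lf 0 2884 0) P.nil)) (P.cons (P.cons (P.lf 1027 0 0) P.nil) P.nil)))))) 10465)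
 EL.nil)
noncomputable def S212_227_216_364_48 : EL := (EL.cons 15 (TM.mk (P.cons (P.cons (P.lf 1659855236 0 0) (P.cons (P.lf 0 433356648 0) (P.cons (P.lf 0 158582978 0) (P.cons (P.lf 45157015 0 0) (P.cons (P.lf 2549027 0 0) (P.cons (P.lf 0 1168768 0) P.nil)))))) (P.cons (P.cons (P.lf 60452552 0 0) (P.cons (P.lf 0 35061610 0) (P.cons (P.lf 0 11572161 0) (P.cons (P.lf 4738722 0 0) (P.cons (P.lf 319632 0 0) P.nil))))) (P.cons (P.cons (P.lf 0 36385423 0) (P.cons (P.lf 6273771 0 0) (P.cons (P.lf 2562350 0 0) (P.cons (P.lf 0 423884 0) P.nil)))) (P.cons (P.cons (P.lf 0 620508 0) (P.cons (P.lf 486140 0 0) (P.cons (P.lf 173433 0 0) P.nil))) (P.cons (P.cons (P.lf 341361 0 0) (P.cons (P.lf 0 40462 0) P.nil)) (P.cons (P.cons (P.lf 3154 0 0) P.nil) P.nil)))))) 443974)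
 EL.nil)
noncomputable def S212_227_216_364 : SL := (SL.cons S212_227_216_364_0 (SL.cons S212_227_216_364_1 (SL.cons S212_227_216_364_2 (SL.cons S212_227_216_364_3 (SL.cons S212_227_216_364_4 (SL.cons S212_227_216_364_5 (SL.cons S212_227_216_364_6 (SL.cons S212_227_216_364_7 (SL.cons S212_227_216_364_8 (SL.cons S212_227_216_364_9 (SL.cons S212_227_216_364_10 (SL.cons S212_227_216_364_11 (SL.cons S212_227_216_364_12 (SL.cons S212_227_216_364_13 (SL.cons S212_227_216_364_14 (SL.cons S212_227_216_364_15 (SL.cons S212_227_216_364_16 (SL.cons S212_227_216_364_17 (SL.cons S212_227_216_364_18 (SL.cons S212_227_216_364_19 (SL.cons S212_227_216_364_20 (SL.cons S212_227_216_364_21 (SL.cons S212_227_216_364_22 (SL.cons S212_227_216_364_23 (SL.cons S212_227_216_364_24 (SL.cons S212_227_216_364_25 (SL.cons S212_227_216_364_26 (SL.cons S212_227_216_364_27 (SL.cons S212_227_216_364_28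 (SL.cons S212_227_216_364_29 (SL.cons S212_227_216_364_30 (SL.cons S212_227_216_364_31 (SL.cons S212_227_216_364_32 (SL.cons S212_227_216_364_33 (SL.cons S212_227_216_364_34 (SL.cons S212_227_216_364_35 (SL.cons S212_227_216_364_36 (SL.cons S212_227_216_364_37 (SL.cons S212_227_216_364_38 (SL.cons S212_227_216_364_39 (SL.cons S212_227_216_364_40 (SL.cons S212_227_216_364_41 (SL.cons S212_227_216_364_42 (SL.cons S212_227_216_364_43 (SL.cons S212_227_216_364_44 (SL.cons S212_227_216_364_45 (SL.cons S212_227_216_364_46 (SL.cons S212_227_216_364_47 (SL.cons S212_227_216_364_48 SL.nil)))))))))))))))))))))))))))))))))))))))))))))))))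
theorem S212_219_364_512_ok : band (seq (shp 5 212 219 364 512) S212_219_364_512) (sok S212_219_364_512) = true := by decide +kernel

theorem S212_219_438_512_ok : band (seq (shp 5 212 219 438 512) S212_219_438_512) (sok S212_219_438_512) = true := by decide +kernel

theorem S212_219_660_808_ok : band (seq (shp 5 212 219 660 808) S212_219_660_808) (sok S212_219_660_808) = true := by decide +kernel

theorem S212_227_216_253_ok : band (seq (shp 5 212 227 216 253) S212_227_216_253) (sok S212_227_216_253) = true := by decide +kernel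

theorem S212_227_216_290_ok : band (seq (shp 5 212 227 216 290) S212_227_216_290) (sok S212_227_216_290) = true := by decide +kernel

theorem S212_227_216_364_ok : band (seq (shp 5 212 227 216 364) S212_227_216_364) (sok S212_227_216_364) = true := by decide +kernel

end Vale.Agent.P098.Ck
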