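import Vale.Agent.P098.CkDefs

namespace Vale.Agent.P098.Ck

noncomputable def S212_227_253_290_0 : EL := (EL.cons 0 (TM.mk (P.cons (P.lf 7871865163 0 0) (P.cons (P.lf 228047217 0 0) (P.cons (P.lf 0 18724113 0) (P.cons (P.lf 0 894670 0) (P.cons (P.lf 28400 0 0) (P.cons (P.lf 1893 0 0) P.nil)))))) 140)
 (EL.cons 1 (TM.mk (P.cons (P.lf 0 1064241138 0) (P.cons (P.lf 185599968 0 0) (P.cons (P.lf 9632411 0 0) (P.cons (P.lf 0 474855 0) (P.cons (P.lf 0 25702 0) (P.cons (P.lf 519 0 0) P.nil)))))) 134)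
 (EL.cons 5 (TM.mk (P.cons (P.lf 4502559014 0 0) (P.cons (P.lf 0 81083452 0) (P.cons (P.lf 6657460 0 0) (P.cons (P.lf 318104 0 0) (P.cons (P.lf 0 10096 0) (P.cons (P.lf 0 672 0) P.nil)))))) 143)
 (EL.cons 9 (TM.mk (P.lf 6442450944 0 0) 2)
 EL.nil))))
noncomputable def S212_227_253_290_1 : EL := (EL.cons 0 (TM.mk (P.cons (P.cons (P.lf 4687798287 0 0) (P.cons (P.lf 0 96282131 0) (P.cons (P.lf 0 14501274 0) (P.lf 371824 0 0)))) (P.cons (P.cons (P.lf 699102985 0 0) (P.cons (P.lf 0 20386745 0) (P.cons (P.lf 0 3070487 0) (P.lf 78716 0 0)))) (P.cons (P.cons (P.lf 0 134503526 0) (P.cons (P.lf 711086 0 0) (P.cons (P.lf 107094 0 0) (P.lf 0 2742 0)))) (P.cons (P.cons (P.lf 0 7724184 0) (P.cons (P.lf 229107 0 0) (P.cons (P.lf 34496 0 0) P.nil))) (P.cons (P.cons (P.lf 964478 0 0) (P.cons (P.lf 788 0 0) P.nil)) (P.cons (P.cons (P.lf 53165 0 0) P.nil) P.nil)))))) 12126)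
 (EL.cons 1 (TM.mk (P.cons (P.cons (P.lf 0 963910874 0) (P.cons (P.lf 39168052 0 0) (P.cons (P.lf 5899182 0 0) (P.lf 0 151253 0)))) (P.cons (P.cons (P.lf 400074475 0 0) (P.cons (P.lf 0 3213047 0) (P.cons (P.lf 0 483924 0) (P.lf 12405 0 0)))) (P.cons (P.cons (P.lf 44394026 0 0) (P.cons (P.lf 0 1232511 0) (P.cons (P.lf 0 185624 0) (P.lf 4752 0 0)))) (P.cons (P.cons (P.lf 0 6179028 0) (P.cons (P.lf 4996 0 0) (P.cons (P.lf 754 0 0) P.nil))) (P.cons (P.cons (P.lf 0 399610 0) (P.cons (P.lf 9277 0 0) P.nil)) (P.cons (P.cons (P.lf 32752 0 0) P.nil) P.nil)))))) 6575)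
 (EL.cons 5 (TM.mk (P.cons (P.cons (P.lf 3003986221 0 0) (P.cons (P.lf 0 80629592 0) (P.cons (P.lf 0 12143808 0) (P.lf 311384 0 0)))) (P.cons (P.cons (P.lf 0 157654772 0) (P.cons (P.lf 47054 0 0) (P.cons (P.lf 7080 0 0) (P.lf 0 180 0)))) (P.cons (P.cons (P.lf 0 3270689 0) (P.cons (P.lf 263214 0 0) (P.cons (P.lf 39650 0 0) (P.lf 0 1020 0)))) (P.cons (P.cons (P.lf 2770436 0 0) (P.cons (P.lf 0 40322 0) (P.cons (P.lf 0 6072 0) P.nil))) (P.cons (P.cons (P.lf 0 157321 0) (P.cons (P.lf 0 1230 0) P.nil)) (P.cons (P.cons (P.lf 0 17011 0) P.nil) P.nil)))))) 7658)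
 (EL.cons 9 (TM.mk (P.cons (P.cons (P.lf 4121257885 0 0) (P.cons (P.lf 0 101349912 0) (P.cons (P.lf 0 15264540 0) (P.lf 391392 0 0)))) (P.cons (P.cons (P.lf 80219263 0 0) (P.cons (P.lf 0 6354318 0) (P.cons (P.lf 0 957036 0) (P.lf 24534 0 0)))) (P.cons (P.cons (P.lf 0 45083073 0) (P.cons (P.lf 455328 0 0) (P.cons (P.lf 68574 0 0) (P.lf 0 1758 0)))) (P.cons (P.cons (P.lf 21234 0 0) (P.cons (P.lf 36288 0 0) (P.cons (P.lf 5460 0 0) P.nil))) (P.cons (P.cons (P.lf 163750 0 0) (P.cons (P.lf 0 834 0) P.nil)) (P.cons (P.cons (P.lf 1666 0 0) P.nil) P.nil)))))) 1760)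
 (EL.cons 2 (TM.mk (P.cons (P.cons (P.lf 228173903 0 0) (P.cons (P.lf 73084494 0 0) (P.cons (P.lf 0 1499737 0) (P.cons (P.lf 0 100859 0) (P.lf 1937 0 0))))) (P.cons (P.cons (P.lf 0 35024141 0) (P.cons (P.lf 0 11218291 0) (P.cons (P.lf 230205 0 0) (P.cons (P.lf 15480 0 0) (P.lf 0 295 0))))) (P.cons (P.cons (P.lf 0 3338181 0) (P.cons (P.lf 0 1069225 0) (P.cons (P.lf 21940 0 0) (P.cons (P.lf 1473 0 0) P.nil)))) (P.cons (P.cons (P.lf 126135 0 0) (P.cons (P.lf 40401 0 0) (P.cons (P.lf 0 826 0) P.nil))) (P.cons (P.cons (P.lf 13651 0 0) (P.cons (P.lf 4370 0 0) P.nil)) (P.cons (P.cons (P.lf 0 157 0) P.nil) P.nil)))))) 639)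
 (EL.cons 6 (TM.mk (P.cons (P.cons (P.lf 415913931 0 0) (P.cons (P.lf 133217949 0 0) (P.cons (P.lf 0 2733711 0) (P.cons (P.lf 0 183849 0) (P.lf 3534 0 0))))) (P.cons (P.cons (P.lf 26076507 0 0) (P.cons (P.lf 8352348 0 0) (P.cons (P.lf 0 171393 0) (P.cons (P.lf 0 11526 0) (P.lf 219 0 0))))) (P.cons (P.cons (P.lf 0 1868556 0) (P.cons (P.lf 0 598500 0) (P.cons (P.lf 12279 0 0) (P.cons (P.lf 825 0 0) P.nil)))) (P.cons (P.cons (P.lf 0 148944 0) (P.cons (P.lf 0 47706 0) (P.cons (P.lf 978 0 0) P.nil))) (P.cons (P.cons (P.lf 3441 0 0) (P.cons (P.lf 1101 0 0) P.nil)) (P.cons (P.cons (P.lf 432 0 0) P.nil) P.nil)))))) 471)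
 EL.nil))))))
noncomputable def S212_227_253_290_2 : EL := (EL.cons 0 (TM.mk (P.cons (P.cons (P.lf 2776272867 0 0) (P.cons (P.lf 0 112239229 0) (P.cons (P.lf 0 15823427 0) (P.cons (P.lf 759134 0 0) (P.cons (P.lf 16184 0 0) (P.cons (P.lf 0 1265 0) P.nil)))))) (P.cons (P.cons (P.lf 792452652 0 0) (P.cons (P.lf 0 42116587 0) (P.cons (P.lf 0 5812619 0) (P.cons (P.lf 322472 0 0) (P.cons (P.lf 7929 0 0) P.nil))))) (P.cons (P.cons (P.lf 0 146997369 0) (P.cons (P.lf 3013691 0 0) (P.cons (P.lf 465525 0 0) (P.cons (P.lf 0 8145 0) P.nil)))) (P.cons (P.cons (P.lf 0 18976055 0) (P.cons (P.lf 962870 0 0) (P.cons (P.lf 136007 0 0) P.nil))) (P.cons (P.cons (P.lf 2401534 0 0) (P.cons (P.lf 0 22104 0) P.nil)) (P.cons (P.cons (P.lf 199106 0 0) P.nil) P.nil)))))) 68883)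
 (EL.cons 1 (TM.mk (P.cons (P.cons (P.lf 0 797724910 0) (P.cons (P.lf 59019474 0 0) (P.cons (P.lf 7920080 0 0) (P.cons (P.lf 0 519788 0) (P.cons (P.lf 0 14491 0) (P.cons (P.lf 1128 0 0) P.nil)))))) (P.cons (P.cons (P.lf 428856271 0 0) (P.cons (P.lf 0 11845854 0) (P.cons (P.lf 0 1773207 0) (P.cons (P.lf 49033 0 0) (P.cons (P.lf 159 0 0) P.nil))))) (P.cons (P.cons (P.lf 63990013 0 0) (P.cons (P.lf 0 3722106 0) (P.cons (P.lf 0 519397 0) (P.cons (P.lf 26764 0 0) P.nil)))) (P.cons (P.cons (P.lf 0 10912774 0) (P.cons (P.lf 150866 0 0) (P.cons (P.lf 24699 0 0) P.nil))) (P.cons (P.cons (P.lf 0 1111622 0) (P.cons (P.lf 56803 0 0) P.nil)) (P.cons (P.cons (P.lf 122058 0 0) P.nil) P.nil)))))) 35086)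
 (EL.cons 5 (TM.mk (P.cons (P.cons (P.lf 2000781217 0 0) (P.cons (P.lf 0 107049526 0) (P.cons (P.lf 0 14700416 0) (P.cons (P.lf 841913 0 0) (P.cons (P.lf 21267 0 0) (P.cons (P.lf 0 1646 0) P.nil)))))) (P.cons (P.cons (P.lf 0 165443442 0) (P.cons (P.lf 2900576 0 0) (P.cons (P.lf 474766 0 0) (P.cons (P.lf 232 0 0) (P.cons (P.lf 579 0 0) P.nil))))) (P.cons (P.cons (P.lf 0 11972454 0) (P.cons (P.lf 1016932 0 0) (P.cons (P.lf 139902 0 0) (P.cons (P.lf 0 7917 0) P.nil)))) (P.cons (P.cons (P.lf 5505406 0 0) (P.cons (P.lf 0 176840 0) (P.cons (P.lf 0 25735 0) P.nil))) (P.cons (P.cons (P.lf 0 258269 0) (P.cons (P.lf 0 5442 0) P.nil)) (P.cons (P.cons (P.lf 0 64088 0) P.nil) P.nil)))))) 36548)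
 (EL.cons 9 (TM.mk (P.cons (P.cons (P.lf 2636382753 0 0) (P.cons (P.lf 0 129667770 0) (P.cons (P.lf 0 17935162 0) (P.cons (P.lf 981019 0 0) (P.cons (P.lf 23851 0 0) (P.cons (P.lf 0 1854 0) P.nil)))))) (P.cons (P.cons (P.lf 102633073 0 0) (P.cons (P.lf 0 10653708 0) (P.cons (P.lf 0 1404648 0) (P.cons (P.lf 101358 0 0) (P.cons (P.lf 2991 0 0) P.nil))))) (P.cons (P.cons (P.lf 0 56680728 0) (P.cons (P.lf 1842760 0 0) (P.cons (P.lf 269478 0 0) (P.cons (P.lf 0 9543 0) P.nil)))) (P.cons (P.cons (P.lf 0 1095552 0) (P.cons (P.lf 146029 0 0) (P.cons (P.lf 19947 0 0) P.nil))) (P.cons (P.cons (P.lf 525514 0 0) (P.cons (P.lf 0 11728 0) P.nil)) (P.cons (P.cons (P.lf 5911 0 0) P.nil) P.nil)))))) 9940)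
 (EL.cons 2 (TM.mk (P.cons (P.cons (P.lf 291927251 0 0) (P.cons (P.lf 86325733 0 0) (P.cons (P.lf 0 5299498 0) (P.cons (P.lf 0 400460 0) (P.cons (P.lf 21639 0 0) (P.cons (P.lf 230 0 0) P.nil)))))) (P.cons (P.cons (P.lf 0 39127831 0) (P.cons (P.lf 0 11880843 0) (P.cons (P.lf 564148 0 0) (P.cons (P.lf 41940 0 0) (P.cons (P.lf 0 2070 0) P.nil))))) (P.cons (P.cons (P.lf 0 8336542 0) (P.cons (P.lf 0 2463834 0) (P.cons (P.lf 151976 0 0) (P.cons (P.lf 11486 0 0) P.nil)))) (P.cons (P.cons (P.lf 569936 0 0) (P.cons (P.lf 182784 0 0) (P.cons (P.lf 0 3633 0) P.nil))) (P.cons (P.cons (P.lf 78693 0 0) (P.cons (P.lf 23602 0 0) P.nil)) (P.cons (P.cons (P.lf 0 3307 0) P.nil) P.nil)))))) 7126)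
 (EL.cons 6 (TM.mk (P.cons (P.cons (P.lf 532123122 0 0) (P.cons (P.lf 157353990 0 0) (P.cons (P.lf 0 9659892 0) (P.cons (P.lf 0 729954 0) (P.cons (P.lf 39444 0 0) (P.cons (P.lf 426 0 0) P.nil)))))) (P.cons (P.cons (P.lf 43720104 0 0) (P.cons (P.lf 12362724 0 0) (P.cons (P.lf 0 1060080 0) (P.cons (P.lf 0 81360 0) (P.cons (P.lf 4746 0 0) P.nil))))) (P.cons (P.cons (P.lf 0 7562226 0) (P.cons (P.lf 0 2356050 0) (P.cons (P.lf 80844 0 0) (P.cons (P.lf 5838 0 0) P.nil)))) (P.cons (P.cons (P.lf 0 599304 0) (P.cons (P.lf 0 175212 0) (P.cons (P.lf 11820 0 0) P.nil))) (P.cons (P.cons (P.lf 48156 0 0) (P.cons (P.lf 15528 0 0) P.nil)) (P.cons (P.cons (P.lf 4248 0 0) P.nil) P.nil)))))) 5568)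
 EL.nil))))))
noncomputable def S212_227_253_290_3 : EL := (EL.cons 0 (TM.mk (P.cons (P.lf 583851700 0 0) (P.cons (P.lf 0 228047217 0) (P.cons (P.lf 18724113 0 0) (P.cons (P.lf 894670 0 0) (P.cons (P.lf 0 28400 0) (P.cons (P.lf 0 1893 0) P.nil)))))) 140)
 (EL.cons 1 (TM.mk (P.cons (P.lf 1064241138 0 0) (P.cons (P.lf 0 185599968 0) (P.cons (P.lf 0 9632411 0) (P.cons (P.lf 474855 0 0) (P.cons (P.lf 25702 0 0) (P.cons (P.lf 0 519 0) P.nil)))))) 134)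
 (EL.cons 5 (TM.mk (P.cons (P.lf 1939891930 0 0) (P.cons (P.lf 81083452 0 0) (P.cons (P.lf 0 6657460 0) (P.cons (P.lf 0 318104 0) (P.cons (P.lf 10096 0 0) (P.cons (P.lf 672 0 0) P.nil)))))) 136)
 EL.nil)))
noncomputable def S212_227_253_290_4 : EL := (EL.cons 0 (TM.mk (P.cons (P.cons (P.lf 373491926 0 0) (P.cons (P.lf 0 9184907 0) (P.cons (P.lf 0 1383359 0) (P.lf 35469 0 0)))) (P.cons (P.cons (P.lf 0 138612656 0) (P.cons (P.lf 3011675 0 0) (P.cons (P.lf 453594 0 0) (P.lf 0 11629 0)))) (P.cons (P.cons (P.lf 5052624 0 0) (P.cons (P.lf 0 28367 0) (P.cons (P.lf 0 4271 0) (P.lf 108 0 0)))) (P.cons (P.cons (P.lf 2403225 0 0) (P.cons (P.lf 0 45370 0) (P.cons (P.lf 0 6832 0) P.nil))) (P.cons (P.cons (P.lf 0 123966 0) (P.cons (P.lf 0 471 0) P.nil)) (P.cons (P.cons (P.lf 0 13408 0) P.nil) P.nil)))))) 2263)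
 (EL.cons 1 (TM.mk (P.cons (P.cons (P.lf 680798692 0 0) (P.cons (P.lf 0 16742190 0) (P.cons (P.lf 0 2521576 0) (P.lf 64653 0 0)))) (P.cons (P.cons (P.lf 0 105477356 0) (P.cons (P.lf 1870096 0 0) (P.cons (P.lf 281658 0 0) (P.lf 0 7220 0)))) (P.cons (P.cons (P.lf 0 15920276 0) (P.cons (P.lf 409809 0 0) (P.cons (P.lf 61721 0 0) (P.lf 0 1580 0)))) (P.cons (P.cons (P.lf 1486126 0 0) (P.cons (P.lf 0 5090 0) (P.cons (P.lf 0 766 0) P.nil))) (P.cons (P.cons (P.lf 116199 0 0) (P.cons (P.lf 0 2735 0) P.nil)) (P.cons (P.cons (P.lf 0 7809 0) P.nil) P.nil)))))) 1693)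
 (EL.cons 5 (TM.mk (P.cons (P.cons (P.lf 1240955496 0 0) (P.cons (P.lf 0 30517558 0) (P.cons (P.lf 0 4596318 0) (P.lf 117850 0 0)))) (P.cons (P.cons (P.lf 76024252 0 0) (P.cons (P.lf 0 3188924 0) (P.cons (P.lf 0 480288 0) (P.lf 12312 0 0)))) (P.cons (P.cons (P.lf 0 16824178 0) (P.cons (P.lf 161862 0 0) (P.cons (P.lf 24376 0 0) (P.lf 0 624 0)))) (P.cons (P.cons (P.lf 0 847400 0) (P.cons (P.lf 28226 0 0) (P.cons (P.lf 4248 0 0) P.nil))) (P.cons (P.cons (P.lf 98658 0 0) (P.cons (P.lf 0 108 0) P.nil)) (P.cons (P.cons (P.lf 5322 0 0) P.nil) P.nil)))))) 1458)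
 EL.nil)))
noncomputable def S212_227_253_290_5 : EL := (EL.cons 0 (TM.mk (P.cons (P.cons (P.lf 238924061 0 0) (P.cons (P.lf 0 11751233 0) (P.cons (P.lf 0 1625385 0) (P.cons (P.lf 88904 0 0) (P.cons (P.lf 2160 0 0) (P.cons (P.lf 0 166 0) P.nil)))))) (P.cons (P.cons (P.lf 0 84020391 0) (P.cons (P.lf 3624424 0 0) (P.cons (P.lf 507563 0 0) (P.cons (P.lf 0 25539 0) (P.cons (P.lf 0 573 0) P.nil))))) (P.cons (P.cons (P.lf 0 1107402 0) (P.cons (P.lf 167254 0 0) (P.cons (P.lf 22016 0 0) (P.cons (P.lf 0 1601 0) P.nil)))) (P.cons (P.cons (P.lf 2571481 0 0) (P.cons (P.lf 0 100965 0) (P.cons (P.lf 0 14303 0) P.nil))) (P.cons (P.cons (P.lf 0 75698 0) (P.cons (P.lf 0 1782 0) P.nil)) (P.cons (P.cons (P.lf 0 30348 0) P.nil) P.nil)))))) 7884)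
 (EL.cons 1 (TM.mk (P.cons (P.cons (P.lf 435509250 0 0) (P.cons (P.lf 0 21420073 0) (P.cons (P.lf 0 2962743 0) (P.cons (P.lf 162054 0 0) (P.cons (P.lf 3937 0 0) (P.cons (P.lf 0 305 0) P.nil)))))) (P.cons (P.cons (P.lf 0 58997145 0) (P.cons (P.lf 1975678 0 0) (P.cons (P.lf 284655 0 0) (P.cons (P.lf 0 11518 0) (P.cons (P.lf 0 191 0) P.nil))))) (P.cons (P.cons (P.lf 0 16261726 0) (P.cons (P.lf 805201 0 0) (P.cons (P.lf 111796 0 0) (P.cons (P.lf 0 5962 0) P.nil)))) (P.cons (P.cons (P.lf 1492801 0 0) (P.cons (P.lf 0 22591 0) (P.cons (P.lf 0 3690 0) P.nil))) (P.cons (P.cons (P.lf 221201 0 0) (P.cons (P.lf 0 10200 0) P.nil)) (P.cons (P.cons (P.lf 0 16505 0) P.nil) P.nil)))))) 6282)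
 (EL.cons 5 (TM.mk (P.cons (P.cons (P.lf 793843472 0 0) (P.cons (P.lf 0 39044372 0) (P.cons (P.lf 0 5400470 0) (P.cons (P.lf 295394 0 0) (P.cons (P.lf 7180 0 0) (P.cons (P.lf 0 556 0) P.nil)))))) (P.cons (P.cons (P.lf 64084940 0 0) (P.cons (P.lf 0 4839920 0) (P.cons (P.lf 0 648682 0) (P.cons (P.lf 42866 0 0) (P.cons (P.lf 1200 0 0) P.nil))))) (P.cons (P.cons (P.lf 0 18499830 0) (P.cons (P.lf 554784 0 0) (P.cons (P.lf 81996 0 0) (P.cons (P.lf 0 2610 0) P.nil)))) (P.cons (P.cons (P.lf 0 1279486 0) (P.cons (P.lf 84574 0 0) (P.cons (P.lf 11734 0 0) P.nil))) (P.cons (P.cons (P.lf 202084 0 0) (P.cons (P.lf 0 3274 0) P.nil)) (P.cons (P.cons (P.lf 12760 0 0) P.nil) P.nil)))))) 5788)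
 EL.nil)))
noncomputable def S212_227_253_290_6 : EL := (EL.cons 12 (TM.mk (P.lf 8589934592 0 0) 0)
 (EL.cons 3 (TM.mk (P.cons (P.lf 0 1119737460 0) (P.cons (P.lf 218679686 0 0) (P.cons (P.lf 3398598 0 0) (P.cons (P.lf 0 194190 0) (P.cons (P.lf 0 5531 0) (P.cons (P.lf 146 0 0) P.nil)))))) 52)
 (EL.cons 7 (TM.mk (P.cons (P.lf 0 2041050269 0) (P.cons (P.lf 0 42655831 0) (P.cons (P.lf 3948043 0 0) (P.cons (P.lf 84836 0 0) (P.cons (P.lf 0 3266 0) (P.cons (P.lf 0 122 0) P.nil)))))) 52)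
 EL.nil)))
noncomputable def S212_227_253_290_7 : EL := (EL.cons 12 (TM.mk (P.cons (P.cons (P.lf 5495010514 0 0) (P.cons (P.lf 0 135133216 0) (P.cons (P.lf 0 20352720 0) (P.lf 521856 0 0)))) (P.cons (P.cons (P.lf 106959018 0 0) (P.cons (P.lf 0 8472424 0) (P.cons (P.lf 0 1276048 0) (P.lf 32712 0 0)))) (P.cons (P.cons (P.lf 0 60110764 0) (P.cons (P.lf 607104 0 0) (P.cons (P.lf 91432 0 0) (P.lf 0 2344 0)))) (P.cons (P.cons (P.lf 28312 0 0) (P.cons (P.lf 48384 0 0) (P.cons (P.lf 7280 0 0) P.nil))) (P.cons (P.cons (P.lf 218334 0 0) (P.cons (P.lf 0 1112 0) P.nil)) (P.cons (P.cons (P.lf 2222 0 0) P.nil) P.nil)))))) 2322)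
 (EL.cons 3 (TM.mk (P.cons (P.cons (P.lf 0 49156621 0) (P.cons (P.lf 0 35230470 0) (P.cons (P.lf 0 5306138 0) (P.lf 136050 0 0)))) (P.cons (P.cons (P.lf 0 616770627 0) (P.cons (P.lf 4671510 0 0) (P.cons (P.lf 703586 0 0) (P.lf 0 18040 0)))) (P.cons (P.cons (P.lf 4493106 0 0) (P.cons (P.lf 696582 0 0) (P.cons (P.lf 104910 0 0) (P.lf 0 2688 0)))) (P.cons (P.cons (P.lf 4663224 0 0) (P.cons (P.lf 0 17700 0) (P.cons (P.lf 0 2666 0) P.nil))) (P.cons (P.cons (P.lf 69517 0 0) (P.cons (P.lf 0 3788 0) P.nil)) (P.cons (P.cons (P.lf 0 16354 0) P.nil) P.nil)))))) 4523)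
 (EL.cons 7 (TM.mk (P.cons (P.cons (P.lf 0 1435800331 0) (P.cons (P.lf 42417071 0 0) (P.cons (P.lf 6388533 0 0) (P.lf 0 163813 0)))) (P.cons (P.cons (P.lf 120307763 0 0) (P.cons (P.lf 0 911226 0) (P.cons (P.lf 0 137241 0) (P.lf 3517 0 0)))) (P.cons (P.cons (P.lf 0 13881358 0) (P.cons (P.lf 0 37375 0) (P.cons (P.lf 0 5632 0) (P.lf 145 0 0)))) (P.cons (P.cons (P.lf 0 646245 0) (P.cons (P.lf 21994 0 0) (P.cons (P.lf 3311 0 0) P.nil))) (P.cons (P.cons (P.lf 124167 0 0) (P.cons (P.lf 12 0 0) P.nil)) (P.cons (P.cons (P.lf 3929 0 0) P.nil) P.nil)))))) 4423)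
 (EL.cons 10 (TM.mk (P.cons (P.cons (P.lf 0 875204676 0) (P.cons (P.lf 0 280329570 0) (P.cons (P.lf 5752533 0 0) (P.cons (P.lf 386874 0 0) (P.lf 0 7437 0))))) (P.cons (P.cons (P.lf 0 36581736 0) (P.cons (P.lf 0 11717193 0) (P.cons (P.lf 240441 0 0) (P.cons (P.lf 16170 0 0) (P.lf 0 309 0))))) (P.cons (P.cons (P.lf 3003588 0 0) (P.cons (P.lf 962055 0 0) (P.cons (P.lf 0 19740 0) (P.cons (P.lf 0 1326 0) P.nil)))) (P.cons (P.cons (P.lf 143514 0 0) (P.cons (P.lf 45966 0 0) (P.cons (P.lf 0 942 0) P.nil))) (P.cons (P.cons (P.lf 0 4554 0) (P.cons (P.lf 0 1458 0) P.nil)) (P.cons (P.cons (P.lf 0 303 0) P.nil) P.nil)))))) 408)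
 EL.nil))))
noncomputable def S212_227_253_290_8 : EL := (EL.cons 12 (TM.mk (P.cons (P.cons (P.lf 3515177004 0 0) (P.cons (P.lf 0 172890360 0) (P.cons (P.lf 0 23913550 0) (P.cons (P.lf 1308026 0 0) (P.cons (P.lf 31802 0 0) (P.cons (P.lf 0 2472 0) P.nil)))))) (P.cons (P.cons (P.lf 136844098 0 0) (P.cons (P.lf 0 14204944 0) (P.cons (P.lf 0 1872864 0) (P.cons (P.lf 135144 0 0) (P.cons (P.lf 3988 0 0) P.nil))))) (P.cons (P.cons (P.lf 0 75574304 0) (P.cons (P.lf 2457014 0 0) (P.cons (P.lf 359304 0 0) (P.cons (P.lf 0 12724 0) P.nil)))) (P.cons (P.cons (P.lf 0 1460736 0) (P.cons (P.lf 194706 0 0) (P.cons (P.lf 26596 0 0) P.nil))) (P.cons (P.cons (P.lf 700686 0 0) (P.cons (P.lf 0 15638 0) P.nil)) (P.cons (P.cons (P.lf 7882 0 0) P.nil) P.nil)))))) 13224)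
 (EL.cons 3 (TM.mk (P.cons (P.cons (P.lf 395328160 0 0) (P.cons (P.lf 0 66064534 0) (P.cons (P.lf 0 8564544 0) (P.cons (P.lf 672488 0 0) (P.cons (P.lf 20726 0 0) (P.cons (P.lf 0 1611 0) P.nil)))))) (P.cons (P.cons (P.lf 0 861974661 0) (P.cons (P.lf 27151622 0 0) (P.cons (P.lf 3992512 0 0) (P.cons (P.lf 0 134024 0) (P.cons (P.lf 0 1445 0) P.nil))))) (P.cons (P.cons (P.lf 0 23649117 0) (P.cons (P.lf 3319279 0 0) (P.cons (P.lf 454774 0 0) (P.cons (P.lf 0 26406 0) P.nil)))) (P.cons (P.cons (P.lf 16468677 0 0) (P.cons (P.lf 0 349683 0) (P.cons (P.lf 0 53357 0) P.nil))) (P.cons (P.cons (P.lf 299400 0 0) (P.cons (P.lf 0 42877 0) P.nil)) (P.cons (P.cons (P.lf 0 133715 0) P.nil) P.nil)))))) 30740)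
 (EL.cons 7 (TM.mk (P.cons (P.cons (P.lf 0 1001733222 0) (P.cons (P.lf 58363096 0 0) (P.cons (P.lf 7960749 0 0) (P.cons (P.lf 0 475241 0) (P.cons (P.lf 0 12404 0) (P.cons (P.lf 959 0 0) P.nil)))))) (P.cons (P.cons (P.lf 168137451 0 0) (P.cons (P.lf 0 5296213 0) (P.cons (P.lf 0 778776 0) (P.cons (P.lf 26140 0 0) (P.cons (P.lf 281 0 0) P.nil))))) (P.cons (P.cons (P.lf 0 13562167 0) (P.cons (P.lf 0 74957 0) (P.cons (P.lf 0 4534 0) (P.cons (P.lf 2329 0 0) P.nil)))) (P.cons (P.cons (P.lf 0 3685730 0) (P.cons (P.lf 155485 0 0) (P.cons (P.lf 22300 0 0) P.nil))) (P.cons (P.cons (P.lf 458803 0 0) (P.cons (P.lf 0 3433 0) P.nil)) (P.cons (P.cons (P.lf 29314 0 0) P.nil) P.nil)))))) 21506)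
 (EL.cons 10 (TM.mk (P.cons (P.cons (P.lf 0 1119742842 0) (P.cons (P.lf 0 331118868 0) (P.cons (P.lf 20327244 0 0) (P.cons (P.lf 1536042 0 0) (P.cons (P.lf 0 83004 0) (P.cons (P.lf 0 900 0) P.nil)))))) (P.cons (P.cons (P.lf 0 68598438 0) (P.cons (P.lf 0 19094754 0) (P.cons (P.lf 1805904 0 0) (P.cons (P.lf 139110 0 0) (P.cons (P.lf 0 8256 0) P.nil))))) (P.cons (P.cons (P.lf 15180840 0 0) (P.cons (P.lf 4716396 0 0) (P.cons (P.lf 0 168552 0) (P.cons (P.lf 0 12228 0) P.nil)))) (P.cons (P.cons (P.lf 764622 0 0) (P.cons (P.lf 219438 0 0) (P.cons (P.lf 0 17016 0) P.nil))) (P.cons (P.cons (P.lf 0 89016 0) (P.cons (P.lf 0 28410 0) P.nil)) (P.cons (P.cons (P.lf 0 4800 0) P.nil) P.nil)))))) 7710)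
 EL.nil))))
noncomputable def S212_227_253_290_9 : EL := (EL.cons 3 (TM.mk (P.cons (P.lf 0 1119737460 0) (P.cons (P.lf 218679686 0 0) (P.cons (P.lf 3398598 0 0) (P.cons (P.lf 0 194190 0) (P.cons (P.lf 0 5531 0) (P.cons (P.lf 146 0 0) P.nil)))))) 52)
 (EL.cons 7 (TM.mk (P.cons (P.lf 0 2041050269 0) (P.cons (P.lf 0 42655831 0) (P.cons (P.lf 3948043 0 0) (P.cons (P.lf 84836 0 0) (P.cons (P.lf 0 3266 0) (P.cons (P.lf 0 122 0) P.nil)))))) 52)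
 EL.nil))
noncomputable def S212_227_253_290_10 : EL := (EL.cons 3 (TM.mk (P.cons (P.cons (P.lf 0 716299879 0) (P.cons (P.lf 17615235 0 0) (P.cons (P.lf 2653069 0 0) (P.lf 0 68025 0)))) (P.cons (P.cons (P.lf 125947542 0 0) (P.cons (P.lf 0 2335755 0) (P.cons (P.lf 0 351793 0) (P.lf 9020 0 0)))) (P.cons (P.cons (P.lf 12732735 0 0) (P.cons (P.lf 0 348291 0) (P.cons (P.lf 0 52455 0) (P.lf 1344 0 0)))) (P.cons (P.cons (P.lf 0 1615875 0) (P.cons (P.lf 8850 0 0) (P.cons (P.lf 1333 0 0) P.nil))) (P.cons (P.cons (P.lf 0 57479 0) (P.cons (P.lf 1894 0 0) P.nil)) (P.cons (P.cons (P.lf 6662 0 0) P.nil) P.nil)))))) 1048)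
 (EL.cons 7 (TM.mk (P.cons (P.cons (P.lf 0 1305666832 0) (P.cons (P.lf 32108939 0 0) (P.cons (P.lf 4836000 0 0) (P.lf 0 123997 0)))) (P.cons (P.cons (P.lf 0 52701562 0) (P.cons (P.lf 2684172 0 0) (P.cons (P.lf 404268 0 0) (P.lf 0 10364 0)))) (P.cons (P.cons (P.lf 16277330 0 0) (P.cons (P.lf 0 164290 0) (P.cons (P.lf 0 24742 0) (P.lf 634 0 0)))) (P.cons (P.cons (P.lf 395199 0 0) (P.cons (P.lf 0 19739 0) (P.cons (P.lf 0 2971 0) P.nil))) (P.cons (P.cons (P.lf 0 80679 0) (P.cons (P.lf 270 0 0) P.nil)) (P.cons (P.cons (P.lf 0 2311 0) P.nil) P.nil)))))) 936)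
 EL.nil))
noncomputable def S212_227_253_290_11 : EL := (EL.cons 3 (TM.mk (P.cons (P.cons (P.lf 0 458219480 0) (P.cons (P.lf 22537052 0 0) (P.cons (P.lf 3117240 0 0) (P.cons (P.lf 0 170506 0) (P.cons (P.lf 0 4144 0) (P.cons (P.lf 321 0 0) P.nil)))))) (P.cons (P.cons (P.lf 71649945 0 0) (P.cons (P.lf 0 2549704 0) (P.cons (P.lf 0 364646 0) (P.cons (P.lf 15682 0 0) (P.cons (P.lf 289 0 0) P.nil))))) (P.cons (P.cons (P.lf 14725965 0 0) (P.cons (P.lf 0 750311 0) (P.cons (P.lf 0 103976 0) (P.cons (P.lf 5616 0 0) P.nil)))) (P.cons (P.cons (P.lf 0 1758855 0) (P.cons (P.lf 35457 0 0) (P.cons (P.lf 5479 0 0) P.nil))) (P.cons (P.cons (P.lf 0 163782 0) (P.cons (P.lf 8399 0 0) P.nil)) (P.cons (P.cons (P.lf 17911 0 0) P.nil) P.nil)))))) 4762)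
 (EL.cons 7 (TM.mk (P.cons (P.cons (P.lf 0 835239534 0) (P.cons (P.lf 41080396 0 0) (P.cons (P.lf 5682087 0 0) (P.cons (P.lf 0 310799 0) (P.cons (P.lf 0 7556 0) (P.cons (P.lf 587 0 0) P.nil)))))) (P.cons (P.cons (P.lf 0 49971099 0) (P.cons (P.lf 4233767 0 0) (P.cons (P.lf 563760 0 0) (P.cons (P.lf 0 38606 0) (P.cons (P.lf 0 1105 0) P.nil))))) (P.cons (P.cons (P.lf 18893255 0 0) (P.cons (P.lf 0 592733 0) (P.cons (P.lf 0 87064 0) (P.cons (P.lf 2953 0 0) P.nil)))) (P.cons (P.cons (P.lf 819982 0 0) (P.cons (P.lf 0 66701 0) (P.cons (P.lf 0 9200 0) P.nil))) (P.cons (P.cons (P.lf 0 193955 0) (P.cons (P.lf 3803 0 0) P.nil)) (P.cons (P.cons (P.lf 0 6872 0) P.nil) P.nil)))))) 4426)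
 EL.nil))
noncomputable def S212_227_253_290_12 : EL := (EL.cons 4 (TM.mk (P.cons (P.lf 1119737460 0 0) (P.cons (P.lf 0 218679686 0) (P.cons (P.lf 0 3398598 0) (P.cons (P.lf 194190 0 0) (P.cons (P.lf 5531 0 0) (P.cons (P.lf 0 146 0) P.nil)))))) 52)
 (EL.cons 8 (TM.mk (P.cons (P.lf 2041050269 0 0) (P.cons (P.lf 42655831 0 0) (P.cons (P.lf 0 3948043 0) (P.cons (P.lf 0 84836 0) (P.cons (P.lf 3266 0 0) (P.cons (P.lf 122 0 0) P.nil)))))) 52)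
 EL.nil))
noncomputable def S212_227_253_290_13 : EL := (EL.cons 4 (TM.mk (P.cons (P.cons (P.lf 716299879 0 0) (P.cons (P.lf 0 17615235 0) (P.cons (P.lf 0 2653069 0) (P.lf 68025 0 0)))) (P.cons (P.cons (P.lf 0 125947542 0) (P.cons (P.lf 2335755 0 0) (P.cons (P.lf 351793 0 0) (P.lf 0 9020 0)))) (P.cons (P.cons (P.lf 0 12732735 0) (P.cons (P.lf 348291 0 0) (P.cons (P.lf 52455 0 0) (P.lf 0 1344 0)))) (P.cons (P.cons (P.lf 1615875 0 0) (P.cons (P.lf 0 8850 0) (P.cons (P.lf 0 1333 0) P.nil))) (P.cons (P.cons (P.lf 57479 0 0) (P.cons (P.lf 0 1894 0) P.nil)) (P.cons (P.cons (P.lf 0 6662 0) P.nil) P.nil)))))) 1048)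
 (EL.cons 8 (TM.mk (P.cons (P.cons (P.lf 1305666832 0 0) (P.cons (P.lf 0 32108939 0) (P.cons (P.lf 0 4836000 0) (P.lf 123997 0 0)))) (P.cons (P.cons (P.lf 52701562 0 0) (P.cons (P.lf 0 2684172 0) (P.cons (P.lf 0 404268 0) (P.lf 10364 0 0)))) (P.cons (P.cons (P.lf 0 16277330 0) (P.cons (P.lf 164290 0 0) (P.cons (P.lf 24742 0 0) (P.lf 0 634 0)))) (P.cons (P.cons (P.lf 0 395199 0) (P.cons (P.lf 19739 0 0) (P.cons (P.lf 2971 0 0) P.nil))) (P.cons (P.cons (P.lf 80679 0 0) (P.cons (P.lf 0 270 0) P.nil)) (P.cons (P.cons (P.lf 2311 0 0) P.nil) P.nil)))))) 936)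
 EL.nil))
noncomputable def S212_227_253_290_14 : EL := (EL.cons 4 (TM.mk (P.cons (P.cons (P.lf 458219480 0 0) (P.cons (P.lf 0 22537052 0) (P.cons (P.lf 0 3117240 0) (P.cons (P.lf 170506 0 0) (P.cons (P.lf 4144 0 0) (P.cons (P.lf 0 321 0) P.nil)))))) (P.cons (P.cons (P.lf 0 71649945 0) (P.cons (P.lf 2549704 0 0) (P.cons (P.lf 364646 0 0) (P.cons (P.lf 0 15682 0) (P.cons (P.lf 0 289 0) P.nil))))) (P.cons (P.cons (P.lf 0 14725965 0) (P.cons (P.lf 750311 0 0) (P.cons (P.lf 103976 0 0) (P.cons (P.lf 0 5616 0) P.nil)))) (P.cons (P.cons (P.lf 1758855 0 0) (P.cons (P.lf 0 35457 0) (P.cons (P.lf 0 5479 0) P.nil))) (P.cons (P.cons (P.lf 163782 0 0) (P.cons (P.lf 0 8399 0) P.nil)) (P.cons (P.cons (P.lf 0 17911 0) P.nil) P.nil)))))) 4762)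
 (EL.cons 8 (TM.mk (P.cons (P.cons (P.lf 835239534 0 0) (P.cons (P.lf 0 41080396 0) (P.cons (P.lf 0 5682087 0) (P.cons (P.lf 310799 0 0) (P.cons (P.lf 7556 0 0) (P.cons (P.lf 0 587 0) P.nil)))))) (P.cons (P.cons (P.lf 49971099 0 0) (P.cons (P.lf 0 4233767 0) (P.cons (P.lf 0 563760 0) (P.cons (P.lf 38606 0 0) (P.cons (P.lf 1105 0 0) P.nil))))) (P.cons (P.cons (P.lf 0 18893255 0) (P.cons (P.lf 592733 0 0) (P.cons (P.lf 87064 0 0) (P.cons (P.lf 0 2953 0) P.nil)))) (P.cons (P.cons (P.lf 0 819982 0) (P.cons (P.lf 66701 0 0) (P.cons (P.lf 9200 0 0) P.nil))) (P.cons (P.cons (P.lf 193955 0 0) (P.cons (P.lf 0 3803 0) P.nil)) (P.cons (P.cons (P.lf 6872 0 0) P.nil) P.nil)))))) 4426)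
 EL.nil))
noncomputable def S212_227_253_290_15 : EL := (EL.cons 4 (TM.mk (P.cons (P.lf 0 311387573 0) (P.cons (P.lf 121625182 0 0) (P.cons (P.lf 0 9986193 0) (P.cons (P.lf 0 477157 0) (P.cons (P.lf 15147 0 0) (P.cons (P.lf 1009 0 0) P.nil)))))) 78)
 (EL.cons 8 (TM.mk (P.cons (P.lf 0 567595274 0) (P.cons (P.lf 98986650 0 0) (P.cons (P.lf 5137286 0 0) (P.cons (P.lf 0 253256 0) (P.cons (P.lf 0 13708 0) (P.cons (P.lf 277 0 0) P.nil)))))) 68)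
 EL.nil))
noncomputable def S212_227_253_290_16 : EL := (EL.cons 4 (TM.mk (P.cons (P.cons (P.lf 0 199195694 0) (P.cons (P.lf 4898617 0 0) (P.cons (P.lf 737791 0 0) (P.lf 0 18916 0)))) (P.cons (P.cons (P.lf 73926750 0 0) (P.cons (P.lf 0 1606227 0) (P.cons (P.lf 0 241917 0) (P.lf 6202 0 0)))) (P.cons (P.cons (P.lf 0 2694733 0) (P.cons (P.lf 15129 0 0) (P.cons (P.lf 2278 0 0) (P.lf 0 58 0)))) (P.cons (P.cons (P.lf 0 1281720 0) (P.cons (P.lf 24197 0 0) (P.cons (P.lf 3644 0 0) P.nil))) (P.cons (P.cons (P.lf 66115 0 0) (P.cons (P.lf 251 0 0) P.nil)) (P.cons (P.cons (P.lf 7151 0 0) P.nil) P.nil)))))) 1216)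
 (EL.cons 8 (TM.mk (P.cons (P.cons (P.lf 0 363092636 0) (P.cons (P.lf 8929168 0 0) (P.cons (P.lf 1344841 0 0) (P.lf 0 34482 0)))) (P.cons (P.cons (P.lf 56254590 0 0) (P.cons (P.lf 0 997385 0) (P.cons (P.lf 0 150218 0) (P.lf 3851 0 0)))) (P.cons (P.cons (P.lf 8490814 0 0) (P.cons (P.lf 0 218565 0) (P.cons (P.lf 0 32918 0) (P.lf 843 0 0)))) (P.cons (P.cons (P.lf 0 792601 0) (P.cons (P.lf 2715 0 0) (P.cons (P.lf 409 0 0) P.nil))) (P.cons (P.cons (P.lf 0 61973 0) (P.cons (P.lf 1459 0 0) P.nil)) (P.cons (P.cons (P.lf 4165 0 0) P.nil) P.nil)))))) 893)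
 EL.nil))
noncomputable def S212_227_253_290_17 : EL := (EL.cons 4 (TM.mk (P.cons (P.cons (P.lf 0 127426166 0) (P.cons (P.lf 6267324 0 0) (P.cons (P.lf 866872 0 0) (P.cons (P.lf 0 47415 0) (P.cons (P.lf 0 1152 0) (P.cons (P.lf 89 0 0) P.nil)))))) (P.cons (P.cons (P.lf 44810875 0 0) (P.cons (P.lf 0 1933026 0) (P.cons (P.lf 0 270700 0) (P.cons (P.lf 13620 0 0) (P.cons (P.lf 305 0 0) P.nil))))) (P.cons (P.cons (P.lf 590614 0 0) (P.cons (P.lf 0 89202 0) (P.cons (P.lf 0 11742 0) (P.cons (P.lf 854 0 0) P.nil)))) (P.cons (P.cons (P.lf 0 1371456 0) (P.cons (P.lf 53848 0 0) (P.cons (P.lf 7628 0 0) P.nil))) (P.cons (P.cons (P.lf 40372 0 0) (P.cons (P.lf 950 0 0) P.nil)) (P.cons (P.cons (P.lf 16185 0 0) P.nil) P.nil)))))) 4215)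
 (EL.cons 8 (TM.mk (P.cons (P.cons (P.lf 0 232271600 0) (P.cons (P.lf 11424039 0 0) (P.cons (P.lf 1580130 0 0) (P.cons (P.lf 0 86429 0) (P.cons (P.lf 0 2100 0) (P.cons (P.lf 163 0 0) P.nil)))))) (P.cons (P.cons (P.lf 31465144 0 0) (P.cons (P.lf 0 1053695 0) (P.cons (P.lf 0 151816 0) (P.cons (P.lf 6143 0 0) (P.cons (P.lf 102 0 0) P.nil))))) (P.cons (P.cons (P.lf 8672921 0 0) (P.cons (P.lf 0 429441 0) (P.cons (P.lf 0 59625 0) (P.cons (P.lf 3180 0 0) P.nil)))) (P.cons (P.cons (P.lf 0 796161 0) (P.cons (P.lf 12049 0 0) (P.cons (P.lf 1968 0 0) P.nil))) (P.cons (P.cons (P.lf 0 117974 0) (P.cons (P.lf 5440 0 0) P.nil)) (P.cons (P.cons (P.lf 8803 0 0) P.nil) P.nil)))))) 3339)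
 EL.nil))
noncomputable def S212_227_253_290_18 : EL := (EL.cons 4 (TM.mk (P.cons (P.lf 86593710 0 0) (P.cons (P.lf 0 50734084 0) (P.cons (P.lf 9119656 0 0) (P.cons (P.lf 0 291978 0) (P.cons (P.lf 0 43993 0) (P.cons (P.lf 441 0 0) P.nil)))))) 153)
 (EL.cons 8 (TM.mk (P.cons (P.lf 157842459 0 0) (P.cons (P.lf 0 58353100 0) (P.cons (P.lf 3468227 0 0) (P.cons (P.lf 460355 0 0) (P.cons (P.lf 0 9599 0) (P.cons (P.lf 0 1439 0) P.nil)))))) 99)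
 EL.nil))
noncomputable def S212_227_253_290_19 : EL := (EL.cons 4 (TM.mk (P.cons (P.cons (P.lf 55394292 0 0) (P.cons (P.lf 0 1362255 0) (P.cons (P.lf 0 205171 0) (P.lf 5260 0 0)))) (P.cons (P.cons (P.lf 0 31376530 0) (P.cons (P.lf 712717 0 0) (P.cons (P.lf 107343 0 0) (P.lf 0 2751 0)))) (P.cons (P.cons (P.lf 4596184 0 0) (P.cons (P.lf 0 87305 0) (P.cons (P.lf 0 13149 0) (P.lf 336 0 0)))) (P.cons (P.cons (P.lf 282088 0 0) (P.cons (P.lf 0 7499 0) (P.cons (P.lf 0 1128 0) P.nil))) (P.cons (P.cons (P.lf 0 93561 0) (P.cons (P.lf 1327 0 0) P.nil)) (P.cons (P.cons (P.lf 540 0 0) P.nil) P.nil)))))) 1264)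
 (EL.cons 8 (TM.mk (P.cons (P.cons (P.lf 100972360 0 0) (P.cons (P.lf 0 2483110 0) (P.cons (P.lf 0 373986 0) (P.lf 9588 0 0)))) (P.cons (P.cons (P.lf 0 35363275 0) (P.cons (P.lf 762302 0 0) (P.cons (P.lf 114811 0 0) (P.lf 0 2943 0)))) (P.cons (P.cons (P.lf 387491 0 0) (P.cons (P.lf 14149 0 0) (P.cons (P.lf 2131 0 0) (P.lf 0 54 0)))) (P.cons (P.cons (P.lf 746540 0 0) (P.cons (P.lf 0 13897 0) (P.cons (P.lf 0 2092 0) P.nil))) (P.cons (P.cons (P.lf 0 20858 0) (P.cons (P.lf 0 406 0) P.nil)) (P.cons (P.cons (P.lf 0 5692 0) P.nil) P.nil)))))) 911)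
 EL.nil))
noncomputable def S212_227_253_290_20 : EL := (EL.cons 4 (TM.mk (P.cons (P.cons (P.lf 35435917 0 0) (P.cons (P.lf 0 1742879 0) (P.cons (P.lf 0 241067 0) (P.cons (P.lf 13185 0 0) (P.cons (P.lf 319 0 0) (P.cons (P.lf 0 24 0) P.nil)))))) (P.cons (P.cons (P.lf 0 19381922 0) (P.cons (P.lf 877931 0 0) (P.cons (P.lf 122358 0 0) (P.cons (P.lf 0 6362 0) (P.cons (P.lf 0 147 0) P.nil))))) (P.cons (P.cons (P.lf 2161865 0 0) (P.cons (P.lf 0 74885 0) (P.cons (P.lf 0 10704 0) (P.cons (P.lf 462 0 0) P.nil)))) (P.cons (P.cons (P.lf 457432 0 0) (P.cons (P.lf 0 21752 0) (P.cons (P.lf 0 3029 0) P.nil))) (P.cons (P.cons (P.lf 0 87197 0) (P.cons (P.lf 2669 0 0) P.nil)) (P.cons (P.cons (P.lf 0 3560 0) P.nil) P.nil)))))) 3267)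
 (EL.cons 8 (TM.mk (P.cons (P.cons (P.lf 64592364 0 0) (P.cons (P.lf 0 3176908 0) (P.cons (P.lf 0 439417 0) (P.cons (P.lf 24035 0 0) (P.cons (P.lf 584 0 0) (P.cons (P.lf 0 45 0) P.nil)))))) (P.cons (P.cons (P.lf 0 21364733 0) (P.cons (P.lf 913457 0 0) (P.cons (P.lf 128034 0 0) (P.cons (P.lf 0 6402 0) (P.cons (P.lf 0 142 0) P.nil))))) (P.cons (P.cons (P.lf 0 899037 0) (P.cons (P.lf 71839 0 0) (P.cons (P.lf 9669 0 0) (P.cons (P.lf 0 623 0) P.nil)))) (P.cons (P.cons (P.lf 730187 0 0) (P.cons (P.lf 0 28113 0) (P.cons (P.lf 0 3989 0) P.nil))) (P.cons (P.cons (P.lf 0 4309 0) (P.cons (P.lf 0 1185 0) P.nil)) (P.cons (P.cons (P.lf 0 9997 0) P.nil) P.nil)))))) 2664)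
 EL.nil))
noncomputable def S212_227_253_290_21 : EL := (EL.cons 4 (TM.mk (P.cons (P.cons (P.lf 0 667143258 0) (P.cons (P.lf 52845705 0 0) (P.cons (P.lf 7959207 0 0) (P.lf 0 204075 0)))) (P.cons (P.cons (P.lf 742718169 0 0) (P.cons (P.lf 0 7007265 0) (P.cons (P.lf 0 1055379 0) (P.lf 27060 0 0)))) (P.cons (P.cons (P.lf 8239629 0 0) (P.cons (P.lf 0 1044873 0) (P.cons (P.lf 0 157365 0) (P.lf 4032 0 0)))) (P.cons (P.cons (P.lf 0 6279099 0) (P.cons (P.lf 26550 0 0) (P.cons (P.lf 3999 0 0) P.nil))) (P.cons (P.cons (P.lf 0 126996 0) (P.cons (P.lf 5682 0 0) P.nil)) (P.cons (P.cons (P.lf 23016 0 0) P.nil) P.nil)))))) 3456)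
 (EL.cons 8 (TM.mk (P.cons (P.cons (P.lf 130133499 0 0) (P.cons (P.lf 0 10308132 0) (P.cons (P.lf 0 1552533 0) (P.lf 39816 0 0)))) (P.cons (P.cons (P.lf 0 173009325 0) (P.cons (P.lf 3595398 0 0) (P.cons (P.lf 541509 0 0) (P.lf 0 13881 0)))) (P.cons (P.cons (P.lf 30158688 0 0) (P.cons (P.lf 0 126915 0) (P.cons (P.lf 0 19110 0) (P.lf 489 0 0)))) (P.cons (P.cons (P.lf 1041444 0 0) (P.cons (P.lf 0 41733 0) (P.cons (P.lf 0 6282 0) P.nil))) (P.cons (P.cons (P.lf 0 204846 0) (P.cons (P.lf 258 0 0) P.nil)) (P.cons (P.cons (P.lf 0 6240 0) P.nil) P.nil)))))) 3468)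
 (EL.cons 11 (TM.mk (P.cons (P.cons (P.lf 875204676 0 0) (P.cons (P.lf 280329570 0 0) (P.cons (P.lf 0 5752533 0) (P.cons (P.lf 0 386874 0) (P.lf 7437 0 0))))) (P.cons (P.cons (P.lf 36581736 0 0) (P.cons (P.lf 11717193 0 0) (P.cons (P.lf 0 240441 0) (P.cons (P.lf 0 16170 0) (P.lf 309 0 0))))) (P.cons (P.cons (P.lf 0 3003588 0) (P.cons (P.lf 0 962055 0) (P.cons (P.lf 19740 0 0) (P.cons (P.lf 1326 0 0) P.nil)))) (P.cons (P.cons (P.lf 0 143514 0) (P.cons (P.lf 0 45966 0) (P.cons (P.lf 942 0 0) P.nil))) (P.cons (P.cons (P.lf 4554 0 0) (P.cons (P.lf 1458 0 0) P.nil)) (P.cons (P.cons (P.lf 303 0 0) P.nil) P.nil)))))) 408)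
 EL.nil)))
noncomputable def S212_227_253_290_22 : EL := (EL.cons 4 (TM.mk (P.cons (P.cons (P.lf 0 426773820 0) (P.cons (P.lf 44300793 0 0) (P.cons (P.lf 5840892 0 0) (P.cons (P.lf 0 421497 0) (P.cons (P.lf 0 12435 0) (P.cons (P.lf 966 0 0) P.nil)))))) (P.cons (P.cons (P.lf 466812303 0 0) (P.cons (P.lf 0 14850663 0) (P.cons (P.lf 0 2178579 0) (P.cons (P.lf 74853 0 0) (P.cons (P.lf 867 0 0) P.nil))))) (P.cons (P.cons (P.lf 19187541 0 0) (P.cons (P.lf 0 2034795 0) (P.cons (P.lf 0 279375 0) (P.cons (P.lf 16011 0 0) P.nil)))) (P.cons (P.cons (P.lf 0 9113766 0) (P.cons (P.lf 192570 0 0) (P.cons (P.lf 29418 0 0) P.nil))) (P.cons (P.cons (P.lf 0 231591 0) (P.cons (P.lf 25638 0 0) P.nil)) (P.cons (P.cons (P.lf 75813 0 0) P.nil) P.nil)))))) 12978)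
 (EL.cons 8 (TM.mk (P.cons (P.cons (P.lf 83246844 0 0) (P.cons (P.lf 0 8641350 0) (P.cons (P.lf 0 1139331 0) (P.cons (P.lf 82221 0 0) (P.cons (P.lf 2424 0 0) (P.cons (P.lf 0 186 0) P.nil)))))) (P.cons (P.cons (P.lf 0 109054275 0) (P.cons (P.lf 4764990 0 0) (P.cons (P.lf 671268 0 0) (P.cons (P.lf 0 32373 0) (P.cons (P.lf 0 693 0) P.nil))))) (P.cons (P.cons (P.lf 16227711 0 0) (P.cons (P.lf 0 258888 0) (P.cons (P.lf 0 41265 0) (P.cons (P.lf 312 0 0) P.nil)))) (P.cons (P.cons (P.lf 2252856 0 0) (P.cons (P.lf 0 111093 0) (P.cons (P.lf 0 15750 0) P.nil))) (P.cons (P.cons (P.lf 0 326379 0) (P.cons (P.lf 3618 0 0) P.nil)) (P.cons (P.cons (P.lf 0 18093 0) P.nil) P.nil)))))) 8529)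
 (EL.cons 11 (TM.mk (P.cons (P.cons (P.lf 559871421 0 0) (P.cons (P.lf 165559434 0 0) (P.cons (P.lf 0 10163622 0) (P.cons (P.lf 0 768021 0) (P.cons (P.lf 41502 0 0) (P.cons (P.lf 450 0 0) P.nil)))))) (P.cons (P.cons (P.lf 34299219 0 0) (P.cons (P.lf 9547377 0 0) (P.cons (P.lf 0 902952 0) (P.cons (P.lf 0 69555 0) (P.cons (P.lf 4128 0 0) P.nil))))) (P.cons (P.cons (P.lf 0 7590420 0) (P.cons (P.lf 0 2358198 0) (P.cons (P.lf 84276 0 0) (P.cons (P.lf 6114 0 0) P.nil)))) (P.cons (P.cons (P.lf 0 382311 0) (P.cons (P.lf 0 109719 0) (P.cons (P.lf 8508 0 0) P.nil))) (P.cons (P.cons (P.lf 44508 0 0) (P.cons (P.lf 14205 0 0) P.nil)) (P.cons (P.cons (P.lf 2400 0 0) P.nil) P.nil)))))) 3855)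
 EL.nil)))
noncomputable def S212_227_253_290_23 : EL := (EL.cons 4 (TM.mk (P.cons (P.cons (P.lf 185525739 0 0) (P.cons (P.lf 0 14695851 0) (P.cons (P.lf 0 2213373 0) (P.lf 56751 0 0)))) (P.cons (P.cons (P.lf 0 242774691 0) (P.cons (P.lf 4818681 0 0) (P.cons (P.lf 725751 0 0) (P.lf 0 18606 0)))) (P.cons (P.cons (P.lf 37482330 0 0) (P.cons (P.lf 0 45387 0) (P.cons (P.lf 0 6837 0) (P.lf 174 0 0)))) (P.cons (P.cons (P.lf 2852709 0 0) (P.cons (P.lf 0 72591 0) (P.cons (P.lf 0 10932 0) P.nil))) (P.cons (P.cons (P.lf 0 333648 0) (P.cons (P.lf 0 753 0) P.nil)) (P.cons (P.cons (P.lf 0 20037 0) P.nil) P.nil)))))) 4041)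
 (EL.cons 8 (TM.mk (P.cons (P.cons (P.lf 0 36188799 0) (P.cons (P.lf 2866584 0 0) (P.cons (P.lf 431742 0 0) (P.lf 0 11070 0)))) (P.cons (P.cons (P.lf 55179639 0 0) (P.cons (P.lf 0 1559673 0) (P.cons (P.lf 0 234903 0) (P.lf 6021 0 0)))) (P.cons (P.cons (P.lf 0 17673066 0) (P.cons (P.lf 221856 0 0) (P.cons (P.lf 33411 0 0) (P.lf 0 855 0)))) (P.cons (P.cons (P.lf 1195989 0 0) (P.cons (P.lf 8244 0 0) (P.cons (P.lf 1239 0 0) P.nil))) (P.cons (P.cons (P.lf 147144 0 0) (P.cons (P.lf 0 2604 0) P.nil)) (P.cons (P.cons (P.lf 0 9720 0) P.nil) P.nil)))))) 2340)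
 (EL.cons 11 (TM.mk (P.cons (P.cons (P.lf 0 243385497 0) (P.cons (P.lf 0 77956794 0) (P.cons (P.lf 1599720 0 0) (P.cons (P.lf 107583 0 0) (P.lf 0 2067 0))))) (P.cons (P.cons (P.lf 37359084 0 0) (P.cons (P.lf 11966178 0 0) (P.cons (P.lf 0 245553 0) (P.cons (P.lf 0 16512 0) (P.lf 315 0 0))))) (P.cons (P.cons (P.lf 3560727 0 0) (P.cons (P.lf 1140507 0 0) (P.cons (P.lf 0 23403 0) (P.cons (P.lf 0 1572 0) P.nil)))) (P.cons (P.cons (P.lf 0 134544 0) (P.cons (P.lf 0 43095 0) (P.cons (P.lf 882 0 0) P.nil))) (P.cons (P.cons (P.lf 0 14562 0) (P.cons (P.lf 0 4662 0) P.nil)) (P.cons (P.cons (P.lf 168 0 0) P.nil) P.nil)))))) 660)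
 EL.nil)))
noncomputable def S212_227_253_290_24 : EL := (EL.cons 4 (TM.mk (P.cons (P.cons (P.lf 118681449 0 0) (P.cons (P.lf 0 12319596 0) (P.cons (P.lf 0 1624290 0) (P.cons (P.lf 117213 0 0) (P.cons (P.lf 3456 0 0) (P.cons (P.lf 0 267 0) P.nil)))))) (P.cons (P.cons (P.lf 0 152993694 0) (P.cons (P.lf 6535779 0 0) (P.cons (P.lf 923055 0 0) (P.cons (P.lf 0 43707 0) (P.cons (P.lf 0 915 0) P.nil))))) (P.cons (P.cons (P.lf 19656351 0 0) (P.cons (P.lf 0 203286 0) (P.cons (P.lf 0 35694 0) (P.cons (P.lf 0 741 0) P.nil)))) (P.cons (P.cons (P.lf 3991110 0 0) (P.cons (P.lf 0 178731 0) (P.cons (P.lf 0 25473 0) P.nil))) (P.cons (P.cons (P.lf 0 436293 0) (P.cons (P.lf 2265 0 0) P.nil)) (P.cons (P.cons (P.lf 0 42933 0) P.nil) P.nil)))))) 12795)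
 (EL.cons 8 (TM.mk (P.cons (P.cons (P.lf 0 23150097 0) (P.cons (P.lf 2403069 0 0) (P.cons (P.lf 316836 0 0) (P.cons (P.lf 0 22863 0) (P.cons (P.lf 0 672 0) (P.cons (P.lf 51 0 0) P.nil)))))) (P.cons (P.cons (P.lf 34847991 0 0) (P.cons (P.lf 0 1794402 0) (P.cons (P.lf 0 248550 0) (P.cons (P.lf 13467 0 0) (P.cons (P.lf 324 0 0) P.nil))))) (P.cons (P.cons (P.lf 0 10365198 0) (P.cons (P.lf 323484 0 0) (P.cons (P.lf 46968 0 0) (P.cons (P.lf 0 1773 0) P.nil)))) (P.cons (P.cons (P.lf 158763 0 0) (P.cons (P.lf 21270 0 0) (P.cons (P.lf 2760 0 0) P.nil))) (P.cons (P.cons (P.lf 231957 0 0) (P.cons (P.lf 0 7476 0) P.nil)) (P.cons (P.cons (P.lf 0 11421 0) P.nil) P.nil)))))) 5685)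
 (EL.cons 11 (TM.mk (P.cons (P.cons (P.lf 0 155694534 0) (P.cons (P.lf 0 46040391 0) (P.cons (P.lf 2826399 0 0) (P.cons (P.lf 213579 0 0) (P.cons (P.lf 0 11541 0) (P.cons (P.lf 0 123 0) P.nil)))))) (P.cons (P.cons (P.lf 20868177 0 0) (P.cons (P.lf 6336450 0 0) (P.cons (P.lf 0 300879 0) (P.cons (P.lf 0 22368 0) (P.cons (P.lf 1104 0 0) P.nil))))) (P.cons (P.cons (P.lf 4446156 0 0) (P.cons (P.lf 1314045 0 0) (P.cons (P.lf 0 81054 0) (P.cons (P.lf 0 6126 0) P.nil)))) (P.cons (P.cons (P.lf 0 303966 0) (P.cons (P.lf 0 97485 0) (P.cons (P.lf 1938 0 0) P.nil))) (P.cons (P.cons (P.lf 0 41970 0) (P.cons (P.lf 0 12588 0) P.nil)) (P.cons (P.cons (P.lf 1764 0 0) P.nil) P.nil)))))) 3789)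
 EL.nil)))
noncomputable def S212_227_253_290_25 : EL := (EL.cons 4 (TM.mk (P.cons (P.cons (P.lf 0 51592815 0) (P.cons (P.lf 4086765 0 0) (P.cons (P.lf 615516 0 0) (P.lf 0 15780 0)))) (P.cons (P.cons (P.lf 77589012 0 0) (P.cons (P.lf 0 2138151 0) (P.cons (P.lf 0 322029 0) (P.lf 8256 0 0)))) (P.cons (P.cons (P.lf 0 23451876 0) (P.cons (P.lf 261918 0 0) (P.cons (P.lf 39447 0 0) (P.lf 0 1011 0)))) (P.cons (P.cons (P.lf 1028481 0 0) (P.cons (P.lf 22497 0 0) (P.cons (P.lf 3387 0 0) P.nil))) (P.cons (P.cons (P.lf 290802 0 0) (P.cons (P.lf 0 3981 0) P.nil)) (P.cons (P.cons (P.lf 0 11607 0) P.nil) P.nil)))))) 3891)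
 (EL.cons 8 (TM.mk (P.cons (P.cons (P.lf 10063734 0 0) (P.cons (P.lf 0 797166 0) (P.cons (P.lf 0 120063 0) (P.lf 3078 0 0)))) (P.cons (P.cons (P.lf 0 17310297 0) (P.cons (P.lf 589413 0 0) (P.cons (P.lf 88770 0 0) (P.lf 0 2274 0)))) (P.cons (P.cons (P.lf 7880943 0 0) (P.cons (P.lf 0 143982 0) (P.cons (P.lf 0 21684 0) (P.lf 555 0 0)))) (P.cons (P.cons (P.lf 0 1244091 0) (P.cons (P.lf 8301 0 0) (P.cons (P.lf 1248 0 0) P.nil))) (P.cons (P.cons (P.lf 6504 0 0) (P.cons (P.lf 1428 0 0) P.nil)) (P.cons (P.cons (P.lf 12477 0 0) P.nil) P.nil)))))) 2010)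
 (EL.cons 11 (TM.mk (P.cons (P.cons (P.lf 67683024 0 0) (P.cons (P.lf 21678990 0 0) (P.cons (P.lf 0 444864 0) (P.cons (P.lf 0 29916 0) (P.lf 573 0 0))))) (P.cons (P.cons (P.lf 0 23607369 0) (P.cons (P.lf 0 7561479 0) (P.cons (P.lf 155166 0 0) (P.cons (P.lf 10434 0 0) (P.lf 0 198 0))))) (P.cons (P.cons (P.lf 833328 0 0) (P.cons (P.lf 266916 0 0) (P.cons (P.lf 0 5475 0) (P.cons (P.lf 0 366 0) P.nil)))) (P.cons (P.cons (P.lf 274068 0 0) (P.cons (P.lf 87783 0 0) (P.cons (P.lf 0 1800 0) P.nil))) (P.cons (P.cons (P.lf 0 1719 0) (P.cons (P.lf 0 549 0) P.nil)) (P.cons (P.cons (P.lf 0 1182 0) P.nil) P.nil)))))) 888)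
 EL.nil)))
noncomputable def S212_227_253_290_26 : EL := (EL.cons 4 (TM.mk (P.cons (P.cons (P.lf 0 33004101 0) (P.cons (P.lf 3425952 0 0) (P.cons (P.lf 451698 0 0) (P.cons (P.lf 0 32595 0) (P.cons (P.lf 0 960 0) (P.cons (P.lf 72 0 0) P.nil)))))) (P.cons (P.cons (P.lf 48991539 0 0) (P.cons (P.lf 0 2486607 0) (P.cons (P.lf 0 344907 0) (P.cons (P.lf 18519 0 0) (P.cons (P.lf 441 0 0) P.nil))))) (P.cons (P.cons (P.lf 0 13675095 0) (P.cons (P.lf 401088 0 0) (P.cons (P.lf 58686 0 0) (P.cons (P.lf 0 2067 0) P.nil)))) (P.cons (P.cons (P.lf 0 177213 0) (P.cons (P.lf 44772 0 0) (P.cons (P.lf 6003 0 0) P.nil))) (P.cons (P.cons (P.lf 361890 0 0) (P.cons (P.lf 0 10806 0) P.nil)) (P.cons (P.cons (P.lf 0 9117 0) P.nil) P.nil)))))) 8478)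
 (EL.cons 8 (TM.mk (P.cons (P.cons (P.lf 6437805 0 0) (P.cons (P.lf 0 668268 0) (P.cons (P.lf 0 88107 0) (P.cons (P.lf 6357 0 0) (P.cons (P.lf 186 0 0) (P.cons (P.lf 0 12 0) P.nil)))))) (P.cons (P.cons (P.lf 0 10948146 0) (P.cons (P.lf 629514 0 0) (P.cons (P.lf 86325 0 0) (P.cons (P.lf 0 4986 0) (P.cons (P.lf 0 126 0) P.nil))))) (P.cons (P.cons (P.lf 4755498 0 0) (P.cons (P.lf 0 185382 0) (P.cons (P.lf 0 26292 0) (P.cons (P.lf 1203 0 0) P.nil)))) (P.cons (P.cons (P.lf 0 576549 0) (P.cons (P.lf 10020 0 0) (P.cons (P.lf 1557 0 0) P.nil))) (P.cons (P.cons (P.lf 0 66279 0) (P.cons (P.lf 3588 0 0) P.nil)) (P.cons (P.cons (P.lf 16356 0 0) P.nil) P.nil)))))) 3354)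
 (EL.cons 11 (TM.mk (P.cons (P.cons (P.lf 43297062 0 0) (P.cons (P.lf 12803361 0 0) (P.cons (P.lf 0 785991 0) (P.cons (P.lf 0 59394 0) (P.cons (P.lf 3207 0 0) (P.cons (P.lf 33 0 0) P.nil)))))) (P.cons (P.cons (P.lf 0 14258949 0) (P.cons (P.lf 0 4262541 0) (P.cons (P.lf 237171 0 0) (P.cons (P.lf 17817 0 0) (P.cons (P.lf 0 933 0) P.nil))))) (P.cons (P.cons (P.lf 0 234501 0) (P.cons (P.lf 0 60150 0) (P.cons (P.lf 8583 0 0) (P.cons (P.lf 669 0 0) P.nil)))) (P.cons (P.cons (P.lf 351120 0 0) (P.cons (P.lf 106044 0 0) (P.cons (P.lf 0 5331 0) P.nil))) (P.cons (P.cons (P.lf 0 1875 0) (P.cons (P.lf 0 924 0) P.nil)) (P.cons (P.cons (P.lf 0 3273 0) P.nil) P.nil)))))) 2853)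
 EL.nil)))
noncomputable def S212_227_253_290_27 : EL := (EL.cons 13 (TM.mk (P.lf 0 4294967296 0) 0)
 EL.nil)
noncomputable def S212_227_253_290_28 : EL := (EL.cons 13 (TM.mk (P.cons (P.cons (P.lf 0 2747505257 0) (P.cons (P.lf 67566608 0 0) (P.cons (P.lf 10176360 0 0) (P.lf 0 260928 0)))) (P.cons (P.cons (P.lf 0 53479509 0) (P.cons (P.lf 4236212 0 0) (P.cons (P.lf 638024 0 0) (P.lf 0 16356 0)))) (P.cons (P.cons (P.lf 30055382 0 0) (P.cons (P.lf 0 303552 0) (P.cons (P.lf 0 45716 0) (P.lf 1172 0 0)))) (P.cons (P.cons (P.lf 0 14156 0) (P.cons (P.lf 0 24192 0) (P.cons (P.lf 0 3640 0) P.nil))) (P.cons (P.cons (P.lf 0 109167 0) (P.cons (P.lf 556 0 0) P.nil)) (P.cons (P.cons (P.lf 0 1111 0) P.nil) P.nil)))))) 1161)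
 EL.nil)
noncomputable def S212_227_253_290_29 : EL := (EL.cons 13 (TM.mk (P.cons (P.cons (P.lf 0 1757588502 0) (P.cons (P.lf 86445180 0 0) (P.cons (P.lf 11956775 0 0) (P.cons (P.lf 0 654013 0) (P.cons (P.lf 0 15901 0) (P.cons (P.lf 1236 0 0) P.nil)))))) (P.cons (P.cons (P.lf 0 68422049 0) (P.cons (P.lf 7102472 0 0) (P.cons (P.lf 936432 0 0) (P.cons (P.lf 0 67572 0) (P.cons (P.lf 0 1994 0) P.nil))))) (P.cons (P.cons (P.lf 37787152 0 0) (P.cons (P.lf 0 1228507 0) (P.cons (P.lf 0 179652 0) (P.cons (P.lf 6362 0 0) P.nil)))) (P.cons (P.cons (P.lf 730368 0 0) (P.cons (P.lf 0 97353 0) (P.cons (P.lf 0 13298 0) P.nil))) (P.cons (P.cons (P.lf 0 350343 0) (P.cons (P.lf 7819 0 0) P.nil)) (P.cons (P.cons (P.lf 0 3941 0) P.nil) P.nil)))))) 6612)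
 EL.nil)
noncomputable def S212_227_253_290_30 : EL := (EL.cons 13 (TM.mk (P.cons (P.lf 1194386624 0 0) (P.cons (P.lf 0 233258332 0) (P.cons (P.lf 0 3625172 0) (P.cons (P.lf 207136 0 0) (P.cons (P.lf 5900 0 0) (P.cons (P.lf 0 156 0) P.nil)))))) 48)
 EL.nil)
noncomputable def S212_227_253_290_31 : EL := (EL.cons 13 (TM.mk (P.cons (P.cons (P.lf 764053205 0 0) (P.cons (P.lf 0 18789584 0) (P.cons (P.lf 0 2829941 0) (P.lf 72561 0 0)))) (P.cons (P.cons (P.lf 0 134344045 0) (P.cons (P.lf 2491473 0 0) (P.cons (P.lf 375246 0 0) (P.lf 0 9622 0)))) (P.cons (P.cons (P.lf 0 13581585 0) (P.cons (P.lf 371511 0 0) (P.cons (P.lf 55953 0 0) (P.lf 0 1434 0)))) (P.cons (P.cons (P.lf 1723601 0 0) (P.cons (P.lf 0 9441 0) (P.cons (P.lf 0 1422 0) P.nil))) (P.cons (P.cons (P.lf 61311 0 0) (P.cons (P.lf 0 2021 0) P.nil)) (P.cons (P.cons (P.lf 0 7107 0) P.nil) P.nil)))))) 1098)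
 EL.nil)
noncomputable def S212_227_253_290_32 : EL := (EL.cons 13 (TM.mk (P.cons (P.cons (P.lf 488767446 0 0) (P.cons (P.lf 0 24039523 0) (P.cons (P.lf 0 3325057 0) (P.cons (P.lf 181874 0 0) (P.cons (P.lf 4421 0 0) (P.cons (P.lf 0 343 0) P.nil)))))) (P.cons (P.cons (P.lf 0 76426608 0) (P.cons (P.lf 2719685 0 0) (P.cons (P.lf 388956 0 0) (P.cons (P.lf 0 16728 0) (P.cons (P.lf 0 309 0) P.nil))))) (P.cons (P.cons (P.lf 0 15707696 0) (P.cons (P.lf 800332 0 0) (P.cons (P.lf 110908 0 0) (P.cons (P.lf 0 5991 0) P.nil)))) (P.cons (P.cons (P.lf 1876113 0 0) (P.cons (P.lf 0 37821 0) (P.cons (P.lf 0 5845 0) P.nil))) (P.cons (P.cons (P.lf 174701 0 0) (P.cons (P.lf 0 8959 0) P.nil)) (P.cons (P.cons (P.lf 0 19106 0) P.nil) P.nil)))))) 5057)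
 EL.nil)
noncomputable def S212_227_253_290_33 : EL := (EL.cons 14 (TM.mk (P.lf 8589934592 0 0) 0)
 EL.nil)
noncomputable def S212_227_253_290_34 : EL := (EL.cons 14 (TM.mk (P.cons (P.cons (P.lf 5495010514 0 0) (P.cons (P.lf 0 135133216 0) (P.cons (P.lf 0 20352720 0) (P.lf 521856 0 0)))) (P.cons (P.cons (P.lf 106959018 0 0) (P.cons (P.lf 0 8472424 0) (P.cons (P.lf 0 1276048 0) (P.lf 32712 0 0)))) (P.cons (P.cons (P.lf 0 60110764 0) (P.cons (P.lf 607104 0 0) (P.cons (P.lf 91432 0 0) (P.lf 0 2344 0)))) (P.cons (P.cons (P.lf 28312 0 0) (P.cons (P.lf 48384 0 0) (P.cons (P.lf 7280 0 0) P.nil))) (P.cons (P.cons (P.lf 218334 0 0) (P.cons (P.lf 0 1112 0) P.nil)) (P.cons (P.cons (P.lf 2222 0 0) P.nil) P.nil)))))) 2322)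
 EL.nil)
noncomputable def S212_227_253_290_35 : EL := (EL.cons 14 (TM.mk (P.cons (P.cons (P.lf 3515177004 0 0) (P.cons (P.lf 0 172890360 0) (P.cons (P.lf 0 23913550 0) (P.cons (P.lf 1308026 0 0) (P.cons (P.lf 31802 0 0) (P.cons (P.lf 0 2472 0) P.nil)))))) (P.cons (P.cons (P.lf 136844098 0 0) (P.cons (P.lf 0 14204944 0) (P.cons (P.lf 0 1872864 0) (P.cons (P.lf 135144 0 0) (P.cons (P.lf 3988 0 0) P.nil))))) (P.cons (P.cons (P.lf 0 75574304 0) (P.cons (P.lf 2457014 0 0) (P.cons (P.lf 359304 0 0) (P.cons (P.lf 0 12724 0) P.nil)))) (P.cons (P.cons (P.lf 0 1460736 0) (P.cons (P.lf 194706 0 0) (P.cons (P.lf 26596 0 0) P.nil))) (P.cons (P.cons (P.lf 700686 0 0) (P.cons (P.lf 0 15638 0) P.nil)) (P.cons (P.cons (P.lf 7882 0 0) P.nil) P.nil)))))) 13224)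
 EL.nil)
noncomputable def S212_227_253_290_36 : EL := (EL.cons 14 (TM.mk (P.cons (P.lf 0 2388773248 0) (P.cons (P.lf 466516664 0 0) (P.cons (P.lf 7250344 0 0) (P.cons (P.lf 0 414272 0) (P.cons (P.lf 0 11800 0) (P.cons (P.lf 312 0 0) P.nil)))))) 96)
 EL.nil)
noncomputable def S212_227_253_290_37 : EL := (EL.cons 14 (TM.mk (P.cons (P.cons (P.lf 0 1528106410 0) (P.cons (P.lf 37579168 0 0) (P.cons (P.lf 5659882 0 0) (P.lf 0 145122 0)))) (P.cons (P.cons (P.lf 268688090 0 0) (P.cons (P.lf 0 4982946 0) (P.cons (P.lf 0 750492 0) (P.lf 19244 0 0)))) (P.cons (P.cons (P.lf 27163170 0 0) (P.cons (P.lf 0 743022 0) (P.cons (P.lf 0 111906 0) (P.lf 2868 0 0)))) (P.cons (P.cons (P.lf 0 3447202 0) (P.cons (P.lf 18882 0 0) (P.cons (P.lf 2844 0 0) P.nil))) (P.cons (P.cons (P.lf 0 122622 0) (P.cons (P.lf 4042 0 0) P.nil)) (P.cons (P.cons (P.lf 14214 0 0) P.nil) P.nil)))))) 2196)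
 EL.nil)
noncomputable def S212_227_253_290_38 : EL := (EL.cons 14 (TM.mk (P.cons (P.cons (P.lf 0 977534892 0) (P.cons (P.lf 48079046 0 0) (P.cons (P.lf 6650114 0 0) (P.cons (P.lf 0 363748 0) (P.cons (P.lf 0 8842 0) (P.cons (P.lf 686 0 0) P.nil)))))) (P.cons (P.cons (P.lf 152853216 0 0) (P.cons (P.lf 0 5439370 0) (P.cons (P.lf 0 777912 0) (P.cons (P.lf 33456 0 0) (P.cons (P.lf 618 0 0) P.nil))))) (P.cons (P.cons (P.lf 31415392 0 0) (P.cons (P.lf 0 1600664 0) (P.cons (P.lf 0 221816 0) (P.cons (P.lf 11982 0 0) P.nil)))) (P.cons (P.cons (P.lf 0 3752226 0) (P.cons (P.lf 75642 0 0) (P.cons (P.lf 11690 0 0) P.nil))) (P.cons (P.cons (P.lf 0 349402 0) (P.cons (P.lf 17918 0 0) P.nil)) (P.cons (P.cons (P.lf 38212 0 0) P.nil) P.nil)))))) 10114)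
 EL.nil)
noncomputable def S212_227_253_290_39 : EL := (EL.cons 14 (TM.mk (P.cons (P.lf 664293490 0 0) (P.cons (P.lf 0 259467056 0) (P.cons (P.lf 21303880 0 0) (P.cons (P.lf 1017936 0 0) (P.cons (P.lf 0 32314 0) (P.cons (P.lf 0 2154 0) P.nil)))))) 152)
 EL.nil)
noncomputable def S212_227_253_290_40 : EL := (EL.cons 14 (TM.mk (P.cons (P.cons (P.lf 424950814 0 0) (P.cons (P.lf 0 10450384 0) (P.cons (P.lf 0 1573956 0) (P.lf 40356 0 0)))) (P.cons (P.cons (P.lf 0 157710400 0) (P.cons (P.lf 3426618 0 0) (P.cons (P.lf 516090 0 0) (P.lf 0 13232 0)))) (P.cons (P.cons (P.lf 5748764 0 0) (P.cons (P.lf 0 32276 0) (P.cons (P.lf 0 4860 0) (P.lf 124 0 0)))) (P.cons (P.cons (P.lf 2734336 0 0) (P.cons (P.lf 0 51622 0) (P.cons (P.lf 0 7774 0) P.nil))) (P.cons (P.cons (P.lf 0 141046 0) (P.cons (P.lf 0 536 0) P.nil)) (P.cons (P.cons (P.lf 0 15256 0) P.nil) P.nil)))))) 2554)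
 EL.nil)
noncomputable def S212_227_253_290_41 : EL := (EL.cons 14 (TM.mk (P.cons (P.cons (P.lf 271842488 0 0) (P.cons (P.lf 0 13370292 0) (P.cons (P.lf 0 1849328 0) (P.cons (P.lf 101154 0 0) (P.cons (P.lf 2458 0 0) (P.cons (P.lf 0 190 0) P.nil)))))) (P.cons (P.cons (P.lf 0 95596534 0) (P.cons (P.lf 4123790 0 0) (P.cons (P.lf 577494 0 0) (P.cons (P.lf 0 29058 0) (P.cons (P.lf 0 652 0) P.nil))))) (P.cons (P.cons (P.lf 0 1259978 0) (P.cons (P.lf 190298 0 0) (P.cons (P.lf 25050 0 0) (P.cons (P.lf 0 1822 0) P.nil)))) (P.cons (P.cons (P.lf 2925774 0 0) (P.cons (P.lf 0 114876 0) (P.cons (P.lf 0 16274 0) P.nil))) (P.cons (P.cons (P.lf 0 86128 0) (P.cons (P.lf 0 2028 0) P.nil)) (P.cons (P.cons (P.lf 0 34530 0) P.nil) P.nil)))))) 8946)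
 EL.nil)
noncomputable def S212_227_253_290_42 : EL := (EL.cons 14 (TM.mk (P.cons (P.lf 0 184733248 0) (P.cons (P.lf 108232714 0 0) (P.cons (P.lf 0 19455268 0) (P.cons (P.lf 622888 0 0) (P.cons (P.lf 93852 0 0) (P.cons (P.lf 0 942 0) P.nil)))))) 312)
 EL.nil)
noncomputable def S212_227_253_290_43 : EL := (EL.cons 14 (TM.mk (P.cons (P.cons (P.lf 0 118174490 0) (P.cons (P.lf 2906144 0 0) (P.cons (P.lf 437700 0 0) (P.lf 0 11222 0)))) (P.cons (P.cons (P.lf 66936598 0 0) (P.cons (P.lf 0 1520464 0) (P.cons (P.lf 0 229000 0) (P.lf 5870 0 0)))) (P.cons (P.cons (P.lf 0 9805194 0) (P.cons (P.lf 186252 0 0) (P.cons (P.lf 28052 0 0) (P.lf 0 718 0)))) (P.cons (P.cons (P.lf 0 601788 0) (P.cons (P.lf 15998 0 0) (P.cons (P.lf 2408 0 0) P.nil))) (P.cons (P.cons (P.lf 199598 0 0) (P.cons (P.lf 0 2832 0) P.nil)) (P.cons (P.cons (P.lf 0 1152 0) P.nil) P.nil)))))) 2656)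
 EL.nil)
noncomputable def S212_227_253_290_44 : EL := (EL.cons 14 (TM.mk (P.cons (P.cons (P.lf 0 75596624 0) (P.cons (P.lf 3718142 0 0) (P.cons (P.lf 514278 0 0) (P.cons (P.lf 0 28130 0) (P.cons (P.lf 0 682 0) (P.cons (P.lf 52 0 0) P.nil)))))) (P.cons (P.cons (P.lf 41348102 0 0) (P.cons (P.lf 0 1872920 0) (P.cons (P.lf 0 261032 0) (P.cons (P.lf 13574 0 0) (P.cons (P.lf 314 0 0) P.nil))))) (P.cons (P.cons (P.lf 0 4611980 0) (P.cons (P.lf 159756 0 0) (P.cons (P.lf 22836 0 0) (P.cons (P.lf 0 986 0) P.nil)))) (P.cons (P.cons (P.lf 0 975856 0) (P.cons (P.lf 46406 0 0) (P.cons (P.lf 6462 0 0) P.nil))) (P.cons (P.cons (P.lf 186022 0 0) (P.cons (P.lf 0 5694 0) P.nil)) (P.cons (P.cons (P.lf 7596 0 0) P.nil) P.nil)))))) 6924)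
 EL.nil)
noncomputable def S212_227_253_290_45 : EL := (EL.cons 14 (TM.mk (P.cons (P.cons (P.lf 2248670742 0 0) (P.cons (P.lf 0 165897830 0) (P.cons (P.lf 0 20906490 0) (P.cons (P.lf 1836140 0 0) (P.cons (P.lf 45922 0 0) (P.cons (P.lf 0 6632 0) P.nil)))))) (P.cons (P.cons (P.lf 131309454 0 0) (P.cons (P.lf 0 16859586 0) (P.cons (P.lf 0 1948268 0) (P.cons (P.lf 236828 0 0) (P.cons (P.lf 5998 0 0) P.nil))))) (P.cons (P.cons (P.lf 0 71239756 0) (P.cons (P.lf 3907108 0 0) (P.cons (P.lf 533158 0 0) (P.cons (P.lf 0 31686 0) P.nil)))) (P.cons (P.cons (P.lf 0 2821486 0) (P.cons (P.lf 380972 0 0) (P.cons (P.lf 46172 0 0) P.nil))) (P.cons (P.cons (P.lf 1048694 0 0) (P.cons (P.lf 0 43820 0) P.nil)) (P.cons (P.cons (P.lf 28126 0 0) P.nil) P.nil)))))) 36122)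
 EL.nil)
noncomputable def S212_227_253_290_46 : EL := (EL.cons 15 (TM.mk (P.lf 4294967296 0 0) 0)
 EL.nil)
noncomputable def S212_227_253_290_47 : EL := (EL.cons 15 (TM.mk (P.cons (P.cons (P.lf 2747505257 0 0) (P.cons (P.lf 0 67566608 0) (P.cons (P.lf 0 10176360 0) (P.lf 260928 0 0)))) (P.cons (P.cons (P.lf 53479509 0 0) (P.cons (P.lf 0 4236212 0) (P.cons (P.lf 0 638024 0) (P.lf 16356 0 0)))) (P.cons (P.cons (P.lf 0 30055382 0) (P.cons (P.lf 303552 0 0) (P.cons (P.lf 45716 0 0) (P.lf 0 1172 0)))) (P.cons (P.cons (P.lf 14156 0 0) (P.cons (P.lf 24192 0 0) (P.cons (P.lf 3640 0 0) P.nil))) (P.cons (P.cons (P.lf 109167 0 0) (P.cons (P.lf 0 556 0) P.nil)) (P.cons (P.cons (P.lf 1111 0 0) P.nil) P.nil)))))) 1161)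
 EL.nil)
noncomputable def S212_227_253_290_48 : EL := (EL.cons 15 (TM.mk (P.cons (P.cons (P.lf 1757588502 0 0) (P.cons (P.lf 0 86445180 0) (P.cons (P.lf 0 11956775 0) (P.cons (P.lf 654013 0 0) (P.cons (P.lf 15901 0 0) (P.cons (P.lf 0 1236 0) P.nil)))))) (P.cons (P.cons (P.lf 68422049 0 0) (P.cons (P.lf 0 7102472 0) (P.cons (P.lf 0 936432 0) (P.cons (P.lf 67572 0 0) (P.cons (P.lf 1994 0 0) P.nil))))) (P.cons (P.cons (P.lf 0 37787152 0) (P.cons (P.lf 1228507 0 0) (P.cons (P.lf 179652 0 0) (P.cons (P.lf 0 6362 0) P.nil)))) (P.cons (P.cons (P.lf 0 730368 0) (P.cons (P.lf 97353 0 0) (P.cons (P.lf 13298 0 0) P.nil))) (P.cons (P.cons (P.lf 350343 0 0) (P.cons (P.lf 0 7819 0) P.nil)) (P.cons (P.cons (P.lf 3941 0 0) P.nil) P.nil)))))) 6612)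
 EL.nil)
noncomputable def S212_227_253_290 : SL := (SL.cons S212_227_253_290_0 (SL.cons S212_227_253_290_1 (SL.cons S212_227_253_290_2 (SL.cons S212_227_253_290_3 (SL.cons S212_227_253_290_4 (SL.cons S212_227_253_290_5 (SL.cons S212_227_253_290_6 (SL.cons S212_227_253_290_7 (SL.cons S212_227_253_290_8 (SL.cons S212_227_253_290_9 (SL.cons S212_227_253_290_10 (SL.cons S212_227_253_290_11 (SL.cons S212_227_253_290_12 (SL.cons S212_227_253_290_13 (SL.cons S212_227_253_290_14 (SL.cons S212_227_253_290_15 (SL.cons S212_227_253_290_16 (SL.cons S212_227_253_290_17 (SL.cons S212_227_253_290_18 (SL.cons S212_227_253_290_19 (SL.cons S212_227_253_290_20 (SL.cons S212_227_253_290_21 (SL.cons S212_227_253_290_22 (SL.cons S212_227_253_290_23 (SL.cons S212_227_253_290_24 (SL.cons S212_227_253_290_25 (SL.cons S212_227_253_290_26 (SL.cons S212_227_253_290_27 (SL.cons S212_227_253_290_28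 (SL.cons S212_227_253_290_29 (SL.cons S212_227_253_290_30 (SL.cons S212_227_253_290_31 (SL.cons S212_227_253_290_32 (SL.cons S212_227_253_290_33 (SL.cons S212_227_253_290_34 (SL.cons S212_227_253_290_35 (SL.cons S212_227_253_290_36 (SL.cons S212_227_253_290_37 (SL.cons S212_227_253_290_38 (SL.cons S212_227_253_290_39 (SL.cons S212_227_253_290_40 (SL.cons S212_227_253_290_41 (SL.cons S212_227_253_290_42 (SL.cons S212_227_253_290_43 (SL.cons S212_227_253_290_44 (SL.cons S212_227_253_290_45 (SL.cons S212_227_253_290_46 (SL.cons S212_227_253_290_47 (SL.cons S212_227_253_290_48 SL.nil)))))))))))))))))))))))))))))))))))))))))))))))))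
noncomputable def S212_227_290_364_0 : EL := (EL.cons 0 (TM.mk (P.cons (P.lf 7871865163 0 0) (P.cons (P.lf 228047217 0 0) (P.cons (P.lf 0 18724113 0) (P.cons (P.lf 0 894670 0) (P.cons (P.lf 28400 0 0) (P.cons (P.lf 1893 0 0) P.nil)))))) 140)
 (EL.cons 1 (TM.mk (P.cons (P.lf 0 1064241138 0) (P.cons (P.lf 185599968 0 0) (P.cons (P.lf 9632411 0 0) (P.cons (P.lf 0 474855 0) (P.cons (P.lf 0 25702 0) (P.cons (P.lf 519 0 0) P.nil)))))) 134)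
 (EL.cons 5 (TM.mk (P.cons (P.lf 4502559014 0 0) (P.cons (P.lf 0 81083452 0) (P.cons (P.lf 6657460 0 0) (P.cons (P.lf 318104 0 0) (P.cons (P.lf 0 10096 0) (P.cons (P.lf 0 672 0) P.nil)))))) 143)
 (EL.cons 9 (TM.mk (P.lf 6442450944 0 0) 2)
 EL.nil))))
noncomputable def S212_227_290_364_1 : EL := (EL.cons 0 (TM.mk (P.cons (P.cons (P.lf 4278479778 0 0) (P.cons (P.lf 0 346500848 0) (P.cons (P.lf 0 44619301 0) (P.lf 2974620 0 0)))) (P.cons (P.cons (P.lf 612433968 0 0) (P.cons (P.lf 0 73368011 0) (P.cons (P.lf 0 9447672 0) (P.lf 629833 0 0)))) (P.cons (P.cons (P.lf 0 131480508 0) (P.cons (P.lf 2559076 0 0) (P.cons (P.lf 329523 0 0) (P.lf 0 21966 0)))) (P.cons (P.cons (P.lf 0 6750138 0) (P.cons (P.lf 824552 0 0) (P.cons (P.lf 106171 0 0) P.nil))) (P.cons (P.cons (P.lf 967841 0 0) (P.cons (P.lf 2850 0 0) P.nil)) (P.cons (P.cons (P.lf 48380 0 0) P.nil) P.nil)))))) 28422)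
 (EL.cons 1 (TM.mk (P.cons (P.cons (P.lf 0 797398040 0) (P.cons (P.lf 140958288 0 0) (P.cons (P.lf 18151349 0 0) (P.lf 0 1210083 0)))) (P.cons (P.cons (P.lf 386415043 0 0) (P.cons (P.lf 0 11563135 0) (P.cons (P.lf 0 1488996 0) (P.lf 99268 0 0)))) (P.cons (P.cons (P.lf 39154287 0 0) (P.cons (P.lf 0 4435591 0) (P.cons (P.lf 0 571165 0) (P.lf 38068 0 0)))) (P.cons (P.cons (P.lf 0 6157781 0) (P.cons (P.lf 17984 0 0) (P.cons (P.lf 2315 0 0) P.nil))) (P.cons (P.cons (P.lf 0 360129 0) (P.cons (P.lf 33413 0 0) P.nil)) (P.cons (P.cons (P.lf 33363 0 0) P.nil) P.nil)))))) 15330)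
 (EL.cons 5 (TM.mk (P.cons (P.cons (P.lf 2661210429 0 0) (P.cons (P.lf 0 290170368 0) (P.cons (P.lf 0 37365562 0) (P.lf 2491040 0 0)))) (P.cons (P.cons (P.lf 0 157454718 0) (P.cons (P.lf 169348 0 0) (P.cons (P.lf 21804 0 0) (P.lf 0 1450 0)))) (P.cons (P.cons (P.lf 0 2151721 0) (P.cons (P.lf 947244 0 0) (P.cons (P.lf 121980 0 0) (P.lf 0 8136 0)))) (P.cons (P.cons (P.lf 2598978 0 0) (P.cons (P.lf 0 145134 0) (P.cons (P.lf 0 18684 0) P.nil))) (P.cons (P.cons (P.lf 0 162559 0) (P.cons (P.lf 0 4432 0) P.nil)) (P.cons (P.cons (P.lf 0 15823 0) P.nil) P.nil)))))) 16432)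
 (EL.cons 9 (TM.mk (P.cons (P.cons (P.lf 3690395005 0 0) (P.cons (P.lf 0 364738824 0) (P.cons (P.lf 0 46967820 0) (P.lf 3131184 0 0)))) (P.cons (P.cons (P.lf 53205505 0 0) (P.cons (P.lf 0 22867986 0) (P.cons (P.lf 0 2944734 0) (P.lf 196308 0 0)))) (P.cons (P.cons (P.lf 0 43147353 0) (P.cons (P.lf 1638642 0 0) (P.cons (P.lf 211002 0 0) (P.lf 0 14064 0)))) (P.cons (P.cons (P.lf 175536 0 0) (P.cons (P.lf 130614 0 0) (P.cons (P.lf 16818 0 0) P.nil))) (P.cons (P.cons (P.lf 160186 0 0) (P.cons (P.lf 0 3012 0) P.nil)) (P.cons (P.cons (P.lf 1216 0 0) P.nil) P.nil)))))) 3674)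
 (EL.cons 2 (TM.mk (P.cons (P.cons (P.lf 431363590 0 0) (P.cons (P.lf 123144555 0 0) (P.cons (P.lf 0 9211013 0) (P.cons (P.lf 0 620687 0) (P.lf 31033 0 0))))) (P.cons (P.cons (P.lf 0 66213264 0) (P.cons (P.lf 0 18902390 0) (P.cons (P.lf 1413866 0 0) (P.cons (P.lf 95273 0 0) (P.lf 0 4761 0))))) (P.cons (P.cons (P.lf 0 6310845 0) (P.cons (P.lf 0 1801603 0) (P.cons (P.lf 134755 0 0) (P.cons (P.lf 9078 0 0) P.nil)))) (P.cons (P.cons (P.lf 238460 0 0) (P.cons (P.lf 68073 0 0) (P.cons (P.lf 0 5090 0) P.nil))) (P.cons (P.cons (P.lf 25807 0 0) (P.cons (P.lf 7365 0 0) P.nil)) (P.cons (P.cons (P.lf 0 298 0) P.nil) P.nil)))))) 2417)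
 (EL.cons 6 (TM.mk (P.cons (P.cons (P.lf 786286791 0 0) (P.cons (P.lf 224467107 0 0) (P.cons (P.lf 0 16789776 0) (P.cons (P.lf 0 1131384 0) (P.lf 56568 0 0))))) (P.cons (P.cons (P.lf 49297731 0 0) (P.cons (P.lf 14073387 0 0) (P.cons (P.lf 0 1052664 0) (P.cons (P.lf 0 70932 0) (P.lf 3543 0 0))))) (P.cons (P.cons (P.lf 0 3532515 0) (P.cons (P.lf 0 1008450 0) (P.cons (P.lf 75429 0 0) (P.cons (P.lf 5082 0 0) P.nil)))) (P.cons (P.cons (P.lf 0 281583 0) (P.cons (P.lf 0 80385 0) (P.cons (P.lf 6012 0 0) P.nil))) (P.cons (P.cons (P.lf 6507 0 0) (P.cons (P.lf 1857 0 0) P.nil)) (P.cons (P.cons (P.lf 816 0 0) P.nil) P.nil)))))) 1614)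
 EL.nil))))))
noncomputable def S212_227_290_364_2 : EL := (EL.cons 0 (TM.mk (P.cons (P.cons (P.lf 2318657345 0 0) (P.cons (P.lf 0 370844212 0) (P.cons (P.lf 0 33751073 0) (P.cons (P.lf 6789954 0 0) (P.cons (P.lf 0 8230 0) (P.cons (P.lf 0 30967 0) P.nil)))))) (P.cons (P.cons (P.lf 622995067 0 0) (P.cons (P.lf 0 135332659 0) (P.cons (P.lf 0 10554410 0) (P.cons (P.lf 2931737 0 0) (P.cons (P.lf 0 4028 0) P.nil))))) (P.cons (P.cons (P.lf 0 133975120 0) (P.cons (P.lf 11201757 0 0) (P.cons (P.lf 1593163 0 0) (P.cons (P.lf 0 57358 0) P.nil)))) (P.cons (P.cons (P.lf 0 15045189 0) (P.cons (P.lf 3189927 0 0) (P.cons (P.lf 294226 0 0) P.nil))) (P.cons (P.cons (P.lf 2298584 0 0) (P.cons (P.lf 0 94724 0) P.nil)) (P.cons (P.cons (P.lf 158658 0 0) P.nil) P.nil)))))) 249054)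
 (EL.cons 1 (TM.mk (P.cons (P.cons (P.lf 0 564331128 0) (P.cons (P.lf 182750443 0 0) (P.cons (P.lf 10983445 0 0) (P.cons (P.lf 0 4800892 0) (P.cons (P.lf 7367 0 0) (P.cons (P.lf 27740 0 0) P.nil)))))) (P.cons (P.cons (P.lf 378694085 0 0) (P.cons (P.lf 0 42296754 0) (P.cons (P.lf 0 5305146 0) (P.cons (P.lf 399536 0 0) (P.cons (P.lf 0 76 0) P.nil))))) (P.cons (P.cons (P.lf 48910619 0 0) (P.cons (P.lf 0 12135147 0) (P.cons (P.lf 0 1029314 0) (P.cons (P.lf 241512 0 0) P.nil)))) (P.cons (P.cons (P.lf 0 10235715 0) (P.cons (P.lf 603360 0 0) (P.cons (P.lf 103273 0 0) P.nil))) (P.cons (P.cons (P.lf 0 877893 0) (P.cons (P.lf 191216 0 0) P.nil)) (P.cons (P.cons (P.lf 119608 0 0) P.nil) P.nil)))))) 128864)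
 (EL.cons 5 (TM.mk (P.cons (P.cons (P.lf 1571397821 0 0) (P.cons (P.lf 0 341722136 0) (P.cons (P.lf 0 25579803 0) (P.cons (P.lf 7678586 0 0) (P.cons (P.lf 0 10818 0) (P.cons (P.lf 0 40728 0) P.nil)))))) (P.cons (P.cons (P.lf 0 152427175 0) (P.cons (P.lf 11598698 0 0) (P.cons (P.lf 1984585 0 0) (P.cons (P.lf 26904 0 0) (P.cons (P.lf 0 299 0) P.nil))))) (P.cons (P.cons (P.lf 0 7889075 0) (P.cons (P.lf 3253692 0 0) (P.cons (P.lf 247123 0 0) (P.cons (P.lf 0 72198 0) P.nil)))) (P.cons (P.cons (P.lf 4769605 0 0) (P.cons (P.lf 0 609283 0) (P.cons (P.lf 0 66961 0) P.nil))) (P.cons (P.cons (P.lf 0 278479 0) (P.cons (P.lf 0 14647 0) P.nil)) (P.cons (P.cons (P.lf 0 54494 0) P.nil) P.nil)))))) 132260)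
 (EL.cons 9 (TM.mk (P.cons (P.cons (P.lf 2113949397 0 0) (P.cons (P.lf 0 417862812 0) (P.cons (P.lf 0 33158995 0) (P.cons (P.lf 8905396 0 0) (P.cons (P.lf 0 12130 0) (P.cons (P.lf 0 45654 0) P.nil)))))) (P.cons (P.cons (P.lf 60954855 0 0) (P.cons (P.lf 0 32223144 0) (P.cons (P.lf 0 1560069 0) (P.cons (P.lf 943482 0 0) (P.cons (P.lf 0 1519 0) P.nil))))) (P.cons (P.cons (P.lf 0 48992335 0) (P.cons (P.lf 6385162 0 0) (P.cons (P.lf 717843 0 0) (P.cons (P.lf 0 81690 0) P.nil)))) (P.cons (P.cons (P.lf 0 511569 0) (P.cons (P.lf 463137 0 0) (P.cons (P.lf 33214 0 0) P.nil))) (P.cons (P.cons (P.lf 475389 0 0) (P.cons (P.lf 0 42625 0) P.nil)) (P.cons (P.cons (P.lf 1687 0 0) P.nil) P.nil)))))) 46670)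
 (EL.cons 2 (TM.mk (P.cons (P.cons (P.lf 494191434 0 0) (P.cons (P.lf 92237259 0 0) (P.cons (P.lf 0 30785821 0) (P.cons (P.lf 0 1044360 0) (P.cons (P.lf 359836 0 0) (P.cons (P.lf 0 3414 0) P.nil)))))) (P.cons (P.cons (P.lf 0 68732285 0) (P.cons (P.lf 0 15186515 0) (P.cons (P.lf 3304845 0 0) (P.cons (P.lf 129155 0 0) (P.cons (P.lf 0 34385 0) P.nil))))) (P.cons (P.cons (P.lf 0 14101655 0) (P.cons (P.lf 0 2621632 0) (P.cons (P.lf 882742 0 0) (P.cons (P.lf 29868 0 0) P.nil)))) (P.cons (P.cons (P.lf 1079364 0 0) (P.cons (P.lf 309740 0 0) (P.cons (P.lf 0 22376 0) P.nil))) (P.cons (P.cons (P.lf 135877 0 0) (P.cons (P.lf 27877 0 0) P.nil)) (P.cons (P.cons (P.lf 0 6581 0) P.nil) P.nil)))))) 41978)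
 (EL.cons 6 (TM.mk (P.cons (P.cons (P.lf 900808980 0 0) (P.cons (P.lf 168129480 0 0) (P.cons (P.lf 0 56116206 0) (P.cons (P.lf 0 1903650 0) (P.cons (P.lf 655908 0 0) (P.cons (P.lf 0 6222 0) P.nil)))))) (P.cons (P.cons (P.lf 69465138 0 0) (P.cons (P.lf 8666772 0 0) (P.cons (P.lf 0 6107946 0) (P.cons (P.lf 0 176124 0) (P.cons (P.lf 79116 0 0) P.nil))))) (P.cons (P.cons (P.lf 0 13764840 0) (P.cons (P.lf 0 3479544 0) (P.cons (P.lf 480324 0 0) (P.cons (P.lf 22872 0 0) P.nil)))) (P.cons (P.cons (P.lf 0 998418 0) (P.cons (P.lf 0 171102 0) (P.cons (P.lf 68508 0 0) P.nil))) (P.cons (P.cons (P.lf 91902 0 0) (P.cons (P.lf 26964 0 0) P.nil)) (P.cons (P.cons (P.lf 7368 0 0) P.nil) P.nil)))))) 36318)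
 EL.nil))))))
noncomputable def S212_227_290_364_3 : EL := (EL.cons 0 (TM.mk (P.cons (P.lf 583851700 0 0) (P.cons (P.lf 0 228047217 0) (P.cons (P.lf 18724113 0 0) (P.cons (P.lf 894670 0 0) (P.cons (P.lf 0 28400 0) (P.cons (P.lf 0 1893 0) P.nil)))))) 140)
 (EL.cons 1 (TM.mk (P.cons (P.lf 1064241138 0 0) (P.cons (P.lf 0 185599968 0) (P.cons (P.lf 0 9632411 0) (P.cons (P.lf 474855 0 0) (P.cons (P.lf 25702 0 0) (P.cons (P.lf 0 519 0) P.nil)))))) 134)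
 (EL.cons 5 (TM.mk (P.cons (P.lf 1939891930 0 0) (P.cons (P.lf 81083452 0 0) (P.cons (P.lf 0 6657460 0) (P.cons (P.lf 0 318104 0) (P.cons (P.lf 10096 0 0) (P.cons (P.lf 672 0 0) P.nil)))))) 136)
 EL.nil)))
noncomputable def S212_227_290_364_4 : EL := (EL.cons 0 (TM.mk (P.cons (P.cons (P.lf 334444672 0 0) (P.cons (P.lf 0 33054714 0) (P.cons (P.lf 0 4256491 0) (P.lf 283765 0 0)))) (P.cons (P.cons (P.lf 0 125809289 0) (P.cons (P.lf 10838445 0 0) (P.cons (P.lf 1395678 0 0) (P.lf 0 93044 0)))) (P.cons (P.cons (P.lf 4932028 0 0) (P.cons (P.lf 0 102088 0) (P.cons (P.lf 0 13146 0) (P.lf 875 0 0)))) (P.cons (P.cons (P.lf 2210343 0 0) (P.cons (P.lf 0 163279 0) (P.cons (P.lf 0 21025 0) P.nil))) (P.cons (P.cons (P.lf 0 125977 0) (P.cons (P.lf 0 1701 0) P.nil)) (P.cons (P.cons (P.lf 0 12359 0) P.nil) P.nil)))))) 5877)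
 (EL.cons 1 (TM.mk (P.cons (P.cons (P.lf 609623606 0 0) (P.cons (P.lf 0 60251923 0) (P.cons (P.lf 0 7758705 0) (P.lf 517245 0 0)))) (P.cons (P.cons (P.lf 0 97527123 0) (P.cons (P.lf 6730117 0 0) (P.cons (P.lf 866643 0 0) (P.lf 0 57776 0)))) (P.cons (P.cons (P.lf 0 14178071 0) (P.cons (P.lf 1474828 0 0) (P.cons (P.lf 189913 0 0) (P.lf 0 12658 0)))) (P.cons (P.cons (P.lf 1464481 0 0) (P.cons (P.lf 0 18322 0) (P.cons (P.lf 0 2358 0) P.nil))) (P.cons (P.cons (P.lf 104561 0 0) (P.cons (P.lf 0 9849 0) P.nil)) (P.cons (P.cons (P.lf 0 7940 0) P.nil) P.nil)))))) 4205)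
 (EL.cons 5 (TM.mk (P.cons (P.cons (P.lf 1111218004 0 0) (P.cons (P.lf 0 109826820 0) (P.cons (P.lf 0 14142518 0) (P.lf 942832 0 0)))) (P.cons (P.cons (P.lf 62467358 0 0) (P.cons (P.lf 0 11476330 0) (P.cons (P.lf 0 1477818 0) (P.lf 98518 0 0)))) (P.cons (P.cons (P.lf 0 16136060 0) (P.cons (P.lf 582510 0 0) (P.cons (P.lf 75006 0 0) (P.lf 0 4998 0)))) (P.cons (P.cons (P.lf 0 727386 0) (P.cons (P.lf 101592 0 0) (P.cons (P.lf 13080 0 0) P.nil))) (P.cons (P.cons (P.lf 98184 0 0) (P.cons (P.lf 0 398 0) P.nil)) (P.cons (P.cons (P.lf 4800 0 0) P.nil) P.nil)))))) 3272)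
 EL.nil)))
noncomputable def S212_227_290_364_5 : EL := (EL.cons 0 (TM.mk (P.cons (P.cons (P.lf 191578167 0 0) (P.cons (P.lf 0 37869113 0) (P.cons (P.lf 0 3005056 0) (P.cons (P.lf 807057 0 0) (P.cons (P.lf 0 1098 0) (P.cons (P.lf 0 4136 0) P.nil)))))) (P.cons (P.cons (P.lf 0 69304630 0) (P.cons (P.lf 11871089 0 0) (P.cons (P.lf 1032365 0 0) (P.cons (P.lf 0 229725 0) (P.cons (P.lf 290 0 0) P.nil))))) (P.cons (P.cons (P.lf 0 453710 0) (P.cons (P.lf 504819 0 0) (P.cons (P.lf 23904 0 0) (P.cons (P.lf 0 14916 0) P.nil)))) (P.cons (P.cons (P.lf 2158572 0 0) (P.cons (P.lf 0 335728 0) (P.cons (P.lf 0 31538 0) P.nil))) (P.cons (P.cons (P.lf 0 82052 0) (P.cons (P.lf 0 4331 0) P.nil)) (P.cons (P.cons (P.lf 0 25853 0) P.nil) P.nil)))))) 25209)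
 (EL.cons 1 (TM.mk (P.cons (P.cons (P.lf 349207456 0 0) (P.cons (P.lf 0 69027577 0) (P.cons (P.lf 0 5477598 0) (P.cons (P.lf 1471098 0 0) (P.cons (P.lf 0 2002 0) (P.cons (P.lf 0 7539 0) P.nil)))))) (P.cons (P.cons (P.lf 0 50831317 0) (P.cons (P.lf 6715164 0 0) (P.cons (P.lf 697561 0 0) (P.cons (P.lf 0 100696 0) (P.cons (P.lf 97 0 0) P.nil))))) (P.cons (P.cons (P.lf 0 13009846 0) (P.cons (P.lf 2607856 0 0) (P.cons (P.lf 213101 0 0) (P.cons (P.lf 0 53988 0) P.nil)))) (P.cons (P.cons (P.lf 1391583 0 0) (P.cons (P.lf 0 90061 0) (P.cons (P.lf 0 15303 0) P.nil))) (P.cons (P.cons (P.lf 179445 0 0) (P.cons (P.lf 0 33971 0) P.nil)) (P.cons (P.cons (P.lf 0 16188 0) P.nil) P.nil)))))) 22634)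
 (EL.cons 5 (TM.mk (P.cons (P.cons (P.lf 636533116 0 0) (P.cons (P.lf 0 125823028 0) (P.cons (P.lf 0 9984532 0) (P.cons (P.lf 2681510 0 0) (P.cons (P.lf 0 3652 0) (P.cons (P.lf 0 13746 0) P.nil)))))) (P.cons (P.cons (P.lf 44959930 0 0) (P.cons (P.lf 0 14961878 0) (P.cons (P.lf 0 887086 0) (P.cons (P.lf 396174 0 0) (P.cons (P.lf 0 608 0) P.nil))))) (P.cons (P.cons (P.lf 0 16169456 0) (P.cons (P.lf 1948894 0 0) (P.cons (P.lf 230780 0 0) (P.cons (P.lf 0 21924 0) P.nil)))) (P.cons (P.cons (P.lf 0 938014 0) (P.cons (P.lf 273748 0 0) (P.cons (P.lf 22284 0 0) P.nil))) (P.cons (P.cons (P.lf 187636 0 0) (P.cons (P.lf 0 12666 0) P.nil)) (P.cons (P.cons (P.lf 9754 0 0) P.nil) P.nil)))))) 21978)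
 EL.nil)))
noncomputable def S212_227_290_364_6 : EL := (EL.cons 12 (TM.mk (P.lf 8589934592 0 0) 0)
 (EL.cons 3 (TM.mk (P.cons (P.lf 0 1119737460 0) (P.cons (P.lf 218679686 0 0) (P.cons (P.lf 3398598 0 0) (P.cons (P.lf 0 194190 0) (P.cons (P.lf 0 5531 0) (P.cons (P.lf 146 0 0) P.nil)))))) 52)
 (EL.cons 7 (TM.mk (P.cons (P.lf 0 2041050269 0) (P.cons (P.lf 0 42655831 0) (P.cons (P.lf 3948043 0 0) (P.cons (P.lf 84836 0 0) (P.cons (P.lf 0 3266 0) (P.cons (P.lf 0 122 0) P.nil)))))) 52)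
 EL.nil)))
noncomputable def S212_227_290_364_7 : EL := (EL.cons 12 (TM.mk (P.cons (P.cons (P.lf 4920526674 0 0) (P.cons (P.lf 0 486318432 0) (P.cons (P.lf 0 62623760 0) (P.lf 4174912 0 0)))) (P.cons (P.cons (P.lf 70940674 0 0) (P.cons (P.lf 0 30490648 0) (P.cons (P.lf 0 3926312 0) (P.lf 261744 0 0)))) (P.cons (P.cons (P.lf 0 57529804 0) (P.cons (P.lf 2184856 0 0) (P.cons (P.lf 281336 0 0) (P.lf 0 18752 0)))) (P.cons (P.cons (P.lf 234048 0 0) (P.cons (P.lf 174152 0 0) (P.cons (P.lf 22424 0 0) P.nil))) (P.cons (P.cons (P.lf 213582 0 0) (P.cons (P.lf 0 4016 0) P.nil)) (P.cons (P.cons (P.lf 1622 0 0) P.nil) P.nil)))))) 4874)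
 (EL.cons 3 (TM.mk (P.cons (P.cons (P.lf 0 198929842 0) (P.cons (P.lf 0 126787684 0) (P.cons (P.lf 0 16326588 0) (P.lf 1088436 0 0)))) (P.cons (P.cons (P.lf 0 596910908 0) (P.cons (P.lf 16811870 0 0) (P.cons (P.lf 2164882 0 0) (P.lf 0 144326 0)))) (P.cons (P.cons (P.lf 7454461 0 0) (P.cons (P.lf 2506874 0 0) (P.cons (P.lf 322808 0 0) (P.lf 0 21516 0)))) (P.cons (P.cons (P.lf 4587975 0 0) (P.cons (P.lf 0 63698 0) (P.cons (P.lf 0 8200 0) P.nil))) (P.cons (P.cons (P.lf 53394 0 0) (P.cons (P.lf 0 13646 0) P.nil)) (P.cons (P.cons (P.lf 0 16339 0) P.nil) P.nil)))))) 11462)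
 (EL.cons 7 (TM.mk (P.cons (P.cons (P.lf 0 1255475179 0) (P.cons (P.lf 152650853 0 0) (P.cons (P.lf 19657021 0 0) (P.lf 0 1310472 0)))) (P.cons (P.cons (P.lf 116433910 0 0) (P.cons (P.lf 0 3279335 0) (P.cons (P.lf 0 422283 0) (P.lf 28148 0 0)))) (P.cons (P.cons (P.lf 0 14040252 0) (P.cons (P.lf 0 134509 0) (P.cons (P.lf 0 17324 0) (P.lf 1156 0 0)))) (P.cons (P.cons (P.lf 0 552724 0) (P.cons (P.lf 79164 0 0) (P.cons (P.lf 10193 0 0) P.nil))) (P.cons (P.cons (P.lf 124211 0 0) (P.cons (P.lf 41 0 0) P.nil)) (P.cons (P.cons (P.lf 3472 0 0) P.nil) P.nil)))))) 9854)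
 (EL.cons 10 (TM.mk (P.cons (P.cons (P.lf 0 1654577601 0) (P.cons (P.lf 0 472344513 0) (P.cons (P.lf 35330610 0 0) (P.cons (P.lf 2380767 0 0) (P.lf 0 119037 0))))) (P.cons (P.cons (P.lf 0 69157905 0) (P.cons (P.lf 0 19743018 0) (P.cons (P.lf 1476744 0 0) (P.cons (P.lf 99510 0 0) (P.lf 0 4974 0))))) (P.cons (P.cons (P.lf 5678295 0 0) (P.cons (P.lf 1621023 0 0) (P.cons (P.lf 0 121248 0) (P.cons (P.lf 0 8169 0) P.nil)))) (P.cons (P.cons (P.lf 271317 0 0) (P.cons (P.lf 77454 0 0) (P.cons (P.lf 0 5793 0) P.nil))) (P.cons (P.cons (P.lf 0 8610 0) (P.cons (P.lf 0 2457 0) P.nil)) (P.cons (P.cons (P.lf 0 573 0) P.nil) P.nil)))))) 1452)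
 EL.nil))))
noncomputable def S212_227_290_364_8 : EL := (EL.cons 12 (TM.mk (P.cons (P.cons (P.lf 2818599196 0 0) (P.cons (P.lf 0 557150416 0) (P.cons (P.lf 0 44211994 0) (P.cons (P.lf 11873862 0 0) (P.cons (P.lf 0 16174 0) (P.cons (P.lf 0 60872 0) P.nil)))))) (P.cons (P.cons (P.lf 81273140 0 0) (P.cons (P.lf 0 42964192 0) (P.cons (P.lf 0 2080092 0) (P.cons (P.lf 1257976 0 0) (P.cons (P.lf 0 2026 0) P.nil))))) (P.cons (P.cons (P.lf 0 65323114 0) (P.cons (P.lf 8513550 0 0) (P.cons (P.lf 957124 0 0) (P.cons (P.lf 0 108920 0) P.nil)))) (P.cons (P.cons (P.lf 0 682092 0) (P.cons (P.lf 617516 0 0) (P.cons (P.lf 44286 0 0) P.nil))) (P.cons (P.cons (P.lf 633852 0 0) (P.cons (P.lf 0 56834 0) P.nil)) (P.cons (P.cons (P.lf 2250 0 0) P.nil) P.nil)))))) 62198)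
 (EL.cons 3 (TM.mk (P.cons (P.cons (P.lf 139513507 0 0) (P.cons (P.lf 0 195356553 0) (P.cons (P.lf 0 7211086 0) (P.cons (P.lf 6298719 0 0) (P.cons (P.lf 0 10541 0) (P.cons (P.lf 0 39676 0) P.nil)))))) (P.cons (P.cons (P.lf 0 748297002 0) (P.cons (P.lf 94749858 0 0) (P.cons (P.lf 10946638 0 0) (P.cons (P.lf 0 1136463 0) (P.cons (P.lf 735 0 0) P.nil))))) (P.cons (P.cons (P.lf 0 10353836 0) (P.cons (P.lf 10564246 0 0) (P.cons (P.lf 775733 0 0) (P.cons (P.lf 0 241244 0) P.nil)))) (P.cons (P.cons (P.lf 14969563 0 0) (P.cons (P.lf 0 1279629 0) (P.cons (P.lf 0 173741 0) P.nil))) (P.cons (P.cons (P.lf 124164 0 0) (P.cons (P.lf 0 142322 0) P.nil)) (P.cons (P.cons (P.lf 0 125684 0) P.nil) P.nil)))))) 142486)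
 (EL.cons 7 (TM.mk (P.cons (P.cons (P.lf 0 768608359 0) (P.cons (P.lf 184657355 0 0) (P.cons (P.lf 13035972 0 0) (P.cons (P.lf 0 4351900 0) (P.cons (P.lf 6309 0 0) (P.cons (P.lf 23745 0 0) P.nil)))))) (P.cons (P.cons (P.lf 145963396 0 0) (P.cons (P.lf 0 18481976 0) (P.cons (P.lf 0 2135255 0) (P.cons (P.lf 221670 0 0) (P.cons (P.lf 0 141 0) P.nil))))) (P.cons (P.cons (P.lf 0 13758604 0) (P.cons (P.lf 0 62828 0) (P.cons (P.lf 79490 0 0) (P.cons (P.lf 23104 0 0) P.nil)))) (P.cons (P.cons (P.lf 0 3044787 0) (P.cons (P.lf 525547 0 0) (P.cons (P.lf 53262 0 0) P.nil))) (P.cons (P.cons (P.lf 442664 0 0) (P.cons (P.lf 0 14956 0) P.nil)) (P.cons (P.cons (P.lf 22691 0 0) P.nil) P.nil)))))) 75772)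
 (EL.cons 10 (TM.mk (P.cons (P.cons (P.lf 0 1895565822 0) (P.cons (P.lf 0 353793654 0) (P.cons (P.lf 118084932 0 0) (P.cons (P.lf 4005840 0 0) (P.cons (P.lf 0 1380234 0) (P.cons (P.lf 13104 0 0) P.nil)))))) (P.cons (P.cons (P.lf 0 106559634 0) (P.cons (P.lf 0 10843518 0) (P.cons (P.lf 10385064 0 0) (P.cons (P.lf 286908 0 0) (P.cons (P.lf 0 137640 0) P.nil))))) (P.cons (P.cons (P.lf 27525612 0 0) (P.cons (P.lf 6864258 0 0) (P.cons (P.lf 0 999378 0) (P.cons (P.lf 0 46380 0) P.nil)))) (P.cons (P.cons (P.lf 1240806 0 0) (P.cons (P.lf 180918 0 0) (P.cons (P.lf 0 98280 0) P.nil))) (P.cons (P.cons (P.lf 0 167484 0) (P.cons (P.lf 0 47130 0) P.nil)) (P.cons (P.cons (P.lf 0 8184 0) P.nil) P.nil)))))) 59484)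
 EL.nil))))
noncomputable def S212_227_290_364_9 : EL := (EL.cons 3 (TM.mk (P.cons (P.lf 0 1119737460 0) (P.cons (P.lf 218679686 0 0) (P.cons (P.lf 3398598 0 0) (P.cons (P.lf 0 194190 0) (P.cons (P.lf 0 5531 0) (P.cons (P.lf 146 0 0) P.nil)))))) 52)
 (EL.cons 7 (TM.mk (P.cons (P.lf 0 2041050269 0) (P.cons (P.lf 0 42655831 0) (P.cons (P.lf 3948043 0 0) (P.cons (P.lf 84836 0 0) (P.cons (P.lf 0 3266 0) (P.cons (P.lf 0 122 0) P.nil)))))) 52)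
 EL.nil))
noncomputable def S212_227_290_364_10 : EL := (EL.cons 3 (TM.mk (P.cons (P.cons (P.lf 0 641413270 0) (P.cons (P.lf 63393842 0 0) (P.cons (P.lf 8163294 0 0) (P.lf 0 544218 0)))) (P.cons (P.cons (P.lf 116017681 0 0) (P.cons (P.lf 0 8405935 0) (P.cons (P.lf 0 1082441 0) (P.lf 72163 0 0)))) (P.cons (P.cons (P.lf 11252059 0 0) (P.cons (P.lf 0 1253437 0) (P.cons (P.lf 0 161404 0) (P.lf 10758 0 0)))) (P.cons (P.cons (P.lf 0 1578252 0) (P.cons (P.lf 31849 0 0) (P.cons (P.lf 4100 0 0) P.nil))) (P.cons (P.cons (P.lf 0 49416 0) (P.cons (P.lf 6823 0 0) P.nil)) (P.cons (P.cons (P.lf 6656 0 0) P.nil) P.nil)))))) 2782)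
 (EL.cons 7 (TM.mk (P.cons (P.cons (P.lf 0 1169164000 0) (P.cons (P.lf 115553891 0 0) (P.cons (P.lf 14880001 0 0) (P.lf 0 991998 0)))) (P.cons (P.cons (P.lf 0 41290493 0) (P.cons (P.lf 9659824 0 0) (P.cons (P.lf 1243905 0 0) (P.lf 0 82924 0)))) (P.cons (P.cons (P.lf 15578889 0 0) (P.cons (P.lf 0 591250 0) (P.cons (P.lf 0 76133 0) (P.lf 5074 0 0)))) (P.cons (P.cons (P.lf 311270 0 0) (P.cons (P.lf 0 71046 0) (P.cons (P.lf 0 9148 0) P.nil))) (P.cons (P.cons (P.lf 0 79522 0) (P.cons (P.lf 977 0 0) P.nil)) (P.cons (P.cons (P.lf 0 2003 0) P.nil) P.nil)))))) 2104)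
 EL.nil))
noncomputable def S212_227_290_364_11 : EL := (EL.cons 3 (TM.mk (P.cons (P.cons (P.lf 0 367417361 0) (P.cons (P.lf 72627117 0 0) (P.cons (P.lf 5763236 0 0) (P.cons (P.lf 0 1547811 0) (P.cons (P.lf 2107 0 0) (P.cons (P.lf 7934 0 0) P.nil)))))) (P.cons (P.cons (P.lf 61160628 0 0) (P.cons (P.lf 0 8583168 0) (P.cons (P.lf 0 854384 0) (P.cons (P.lf 138297 0 0) (P.cons (P.lf 0 147 0) P.nil))))) (P.cons (P.cons (P.lf 11699368 0 0) (P.cons (P.lf 0 2423984 0) (P.cons (P.lf 0 195211 0) (P.cons (P.lf 50920 0 0) P.nil)))) (P.cons (P.cons (P.lf 0 1605623 0) (P.cons (P.lf 131835 0 0) (P.cons (P.lf 18769 0 0) P.nil))) (P.cons (P.cons (P.lf 0 129486 0) (P.cons (P.lf 27826 0 0) P.nil)) (P.cons (P.cons (P.lf 17044 0 0) P.nil) P.nil)))))) 19008)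
 (EL.cons 7 (TM.mk (P.cons (P.cons (P.lf 0 669726013 0) (P.cons (P.lf 132384245 0 0) (P.cons (P.lf 10505190 0 0) (P.cons (P.lf 0 2821342 0) (P.cons (P.lf 3843 0 0) (P.cons (P.lf 14463 0 0) P.nil)))))) (P.cons (P.cons (P.lf 0 33307850 0) (P.cons (P.lf 12975394 0 0) (P.cons (P.lf 713797 0 0) (P.cons (P.lf 0 357870 0) (P.cons (P.lf 561 0 0) P.nil))))) (P.cons (P.cons (P.lf 16413272 0 0) (P.cons (P.lf 0 2065622 0) (P.cons (P.lf 0 237412 0) (P.cons (P.lf 25090 0 0) P.nil)))) (P.cons (P.cons (P.lf 551643 0 0) (P.cons (P.lf 0 214253 0) (P.cons (P.lf 0 16668 0) P.nil))) (P.cons (P.cons (P.lf 0 177514 0) (P.cons (P.lf 14138 0 0) P.nil)) (P.cons (P.cons (P.lf 0 4711 0) P.nil) P.nil)))))) 18600)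
 EL.nil))
noncomputable def S212_227_290_364_12 : EL := (EL.cons 4 (TM.mk (P.cons (P.lf 1119737460 0 0) (P.cons (P.lf 0 218679686 0) (P.cons (P.lf 0 3398598 0) (P.cons (P.lf 194190 0 0) (P.cons (P.lf 5531 0 0) (P.cons (P.lf 0 146 0) P.nil)))))) 52)
 (EL.cons 8 (TM.mk (P.cons (P.lf 2041050269 0 0) (P.cons (P.lf 42655831 0 0) (P.cons (P.lf 0 3948043 0) (P.cons (P.lf 0 84836 0) (P.cons (P.lf 3266 0 0) (P.cons (P.lf 122 0 0) P.nil)))))) 52)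
 EL.nil))
noncomputable def S212_227_290_364_13 : EL := (EL.cons 4 (TM.mk (P.cons (P.cons (P.lf 641413270 0 0) (P.cons (P.lf 0 63393842 0) (P.cons (P.lf 0 8163294 0) (P.lf 544218 0 0)))) (P.cons (P.cons (P.lf 0 116017681 0) (P.cons (P.lf 8405935 0 0) (P.cons (P.lf 1082441 0 0) (P.lf 0 72163 0)))) (P.cons (P.cons (P.lf 0 11252059 0) (P.cons (P.lf 1253437 0 0) (P.cons (P.lf 161404 0 0) (P.lf 0 10758 0)))) (P.cons (P.cons (P.lf 1578252 0 0) (P.cons (P.lf 0 31849 0) (P.cons (P.lf 0 4100 0) P.nil))) (P.cons (P.cons (P.lf 49416 0 0) (P.cons (P.lf 0 6823 0) P.nil)) (P.cons (P.cons (P.lf 0 6656 0) P.nil) P.nil)))))) 2782)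
 (EL.cons 8 (TM.mk (P.cons (P.cons (P.lf 1169164000 0 0) (P.cons (P.lf 0 115553891 0) (P.cons (P.lf 0 14880001 0) (P.lf 991998 0 0)))) (P.cons (P.cons (P.lf 41290493 0 0) (P.cons (P.lf 0 9659824 0) (P.cons (P.lf 0 1243905 0) (P.lf 82924 0 0)))) (P.cons (P.cons (P.lf 0 15578889 0) (P.cons (P.lf 591250 0 0) (P.cons (P.lf 76133 0 0) (P.lf 0 5074 0)))) (P.cons (P.cons (P.lf 0 311270 0) (P.cons (P.lf 71046 0 0) (P.cons (P.lf 9148 0 0) P.nil))) (P.cons (P.cons (P.lf 79522 0 0) (P.cons (P.lf 0 977 0) P.nil)) (P.cons (P.cons (P.lf 2003 0 0) P.nil) P.nil)))))) 2104)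
 EL.nil))
noncomputable def S212_227_290_364_14 : EL := (EL.cons 4 (TM.mk (P.cons (P.cons (P.lf 367417361 0 0) (P.cons (P.lf 0 72627117 0) (P.cons (P.lf 0 5763236 0) (P.cons (P.lf 1547811 0 0) (P.cons (P.lf 0 2107 0) (P.cons (P.lf 0 7934 0) P.nil)))))) (P.cons (P.cons (P.lf 0 61160628 0) (P.cons (P.lf 8583168 0 0) (P.cons (P.lf 854384 0 0) (P.cons (P.lf 0 138297 0) (P.cons (P.lf 147 0 0) P.nil))))) (P.cons (P.cons (P.lf 0 11699368 0) (P.cons (P.lf 2423984 0 0) (P.cons (P.lf 195211 0 0) (P.cons (P.lf 0 50920 0) P.nil)))) (P.cons (P.cons (P.lf 1605623 0 0) (P.cons (P.lf 0 131835 0) (P.cons (P.lf 0 18769 0) P.nil))) (P.cons (P.cons (P.lf 129486 0 0) (P.cons (P.lf 0 27826 0) P.nil)) (P.cons (P.cons (P.lf 0 17044 0) P.nil) P.nil)))))) 19008)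
 (EL.cons 8 (TM.mk (P.cons (P.cons (P.lf 669726013 0 0) (P.cons (P.lf 0 132384245 0) (P.cons (P.lf 0 10505190 0) (P.cons (P.lf 2821342 0 0) (P.cons (P.lf 0 3843 0) (P.cons (P.lf 0 14463 0) P.nil)))))) (P.cons (P.cons (P.lf 33307850 0 0) (P.cons (P.lf 0 12975394 0) (P.cons (P.lf 0 713797 0) (P.cons (P.lf 357870 0 0) (P.cons (P.lf 0 561 0) P.nil))))) (P.cons (P.cons (P.lf 0 16413272 0) (P.cons (P.lf 2065622 0 0) (P.cons (P.lf 237412 0 0) (P.cons (P.lf 0 25090 0) P.nil)))) (P.cons (P.cons (P.lf 0 551643 0) (P.cons (P.lf 214253 0 0) (P.cons (P.lf 16668 0 0) P.nil))) (P.cons (P.cons (P.lf 177514 0 0) (P.cons (P.lf 0 14138 0) P.nil)) (P.cons (P.cons (P.lf 4711 0 0) P.nil) P.nil)))))) 18600)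
 EL.nil))
noncomputable def S212_227_290_364_15 : EL := (EL.cons 4 (TM.mk (P.cons (P.lf 0 311387573 0) (P.cons (P.lf 121625182 0 0) (P.cons (P.lf 0 9986193 0) (P.cons (P.lf 0 477157 0) (P.cons (P.lf 15147 0 0) (P.cons (P.lf 1009 0 0) P.nil)))))) 78)
 (EL.cons 8 (TM.mk (P.cons (P.lf 0 567595274 0) (P.cons (P.lf 98986650 0 0) (P.cons (P.lf 5137286 0 0) (P.cons (P.lf 0 253256 0) (P.cons (P.lf 0 13708 0) (P.cons (P.lf 277 0 0) P.nil)))))) 68)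
 EL.nil))
noncomputable def S212_227_290_364_16 : EL := (EL.cons 4 (TM.mk (P.cons (P.cons (P.lf 0 178370491 0) (P.cons (P.lf 17629181 0 0) (P.cons (P.lf 2270129 0 0) (P.lf 0 151341 0)))) (P.cons (P.cons (P.lf 67098287 0 0) (P.cons (P.lf 0 5780504 0) (P.cons (P.lf 0 744361 0) (P.lf 49623 0 0)))) (P.cons (P.cons (P.lf 0 2630415 0) (P.cons (P.lf 54447 0 0) (P.cons (P.lf 7011 0 0) (P.lf 0 466 0)))) (P.cons (P.cons (P.lf 0 1178850 0) (P.cons (P.lf 87082 0 0) (P.cons (P.lf 11213 0 0) P.nil))) (P.cons (P.cons (P.lf 67187 0 0) (P.cons (P.lf 907 0 0) P.nil)) (P.cons (P.cons (P.lf 6591 0 0) P.nil) P.nil)))))) 3143)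
 (EL.cons 8 (TM.mk (P.cons (P.cons (P.lf 0 325132590 0) (P.cons (P.lf 32134359 0 0) (P.cons (P.lf 4137976 0 0) (P.lf 0 275864 0)))) (P.cons (P.cons (P.lf 52014466 0 0) (P.cons (P.lf 0 3589396 0) (P.cons (P.lf 0 462210 0) (P.lf 30814 0 0)))) (P.cons (P.cons (P.lf 7561638 0 0) (P.cons (P.lf 0 786575 0) (P.cons (P.lf 0 101287 0) (P.lf 6751 0 0)))) (P.cons (P.cons (P.lf 0 781057 0) (P.cons (P.lf 9772 0 0) (P.cons (P.lf 1258 0 0) P.nil))) (P.cons (P.cons (P.lf 0 55766 0) (P.cons (P.lf 5253 0 0) P.nil)) (P.cons (P.cons (P.lf 4235 0 0) P.nil) P.nil)))))) 2233)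
 EL.nil))
noncomputable def S212_227_290_364_17 : EL := (EL.cons 4 (TM.mk (P.cons (P.cons (P.lf 0 102175022 0) (P.cons (P.lf 20196860 0 0) (P.cons (P.lf 1602696 0 0) (P.cons (P.lf 0 430430 0) (P.cons (P.lf 585 0 0) (P.cons (P.lf 2205 0 0) P.nil)))))) (P.cons (P.cons (P.lf 36962469 0 0) (P.cons (P.lf 0 6331247 0) (P.cons (P.lf 0 550594 0) (P.cons (P.lf 122520 0 0) (P.cons (P.lf 0 154 0) P.nil))))) (P.cons (P.cons (P.lf 241979 0 0) (P.cons (P.lf 0 269236 0) (P.cons (P.lf 0 12749 0) (P.cons (P.lf 7955 0 0) P.nil)))) (P.cons (P.cons (P.lf 0 1151238 0) (P.cons (P.lf 179055 0 0) (P.cons (P.lf 16820 0 0) P.nil))) (P.cons (P.cons (P.lf 43761 0 0) (P.cons (P.lf 2310 0 0) P.nil)) (P.cons (P.cons (P.lf 13788 0 0) P.nil) P.nil)))))) 13455)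
 (EL.cons 8 (TM.mk (P.cons (P.cons (P.lf 0 186243977 0) (P.cons (P.lf 36814708 0 0) (P.cons (P.lf 2921386 0 0) (P.cons (P.lf 0 784586 0) (P.cons (P.lf 1068 0 0) (P.cons (P.lf 4021 0 0) P.nil)))))) (P.cons (P.cons (P.lf 27110036 0 0) (P.cons (P.lf 0 3581421 0) (P.cons (P.lf 0 372033 0) (P.cons (P.lf 53705 0 0) (P.cons (P.lf 0 52 0) P.nil))))) (P.cons (P.cons (P.lf 6938585 0 0) (P.cons (P.lf 0 1390857 0) (P.cons (P.lf 0 113654 0) (P.cons (P.lf 28794 0 0) P.nil)))) (P.cons (P.cons (P.lf 0 742178 0) (P.cons (P.lf 48033 0 0) (P.cons (P.lf 8162 0 0) P.nil))) (P.cons (P.cons (P.lf 0 95704 0) (P.cons (P.lf 18118 0 0) P.nil)) (P.cons (P.cons (P.lf 8634 0 0) P.nil) P.nil)))))) 12060)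
 EL.nil))
noncomputable def S212_227_290_364_18 : EL := (EL.cons 4 (TM.mk (P.cons (P.lf 86593710 0 0) (P.cons (P.lf 0 50734084 0) (P.cons (P.lf 9119656 0 0) (P.cons (P.lf 0 291978 0) (P.cons (P.lf 0 43993 0) (P.cons (P.lf 441 0 0) P.nil)))))) 153)
 (EL.cons 8 (TM.mk (P.cons (P.lf 157842459 0 0) (P.cons (P.lf 0 58353100 0) (P.cons (P.lf 3468227 0 0) (P.cons (P.lf 460355 0 0) (P.cons (P.lf 0 9599 0) (P.cons (P.lf 0 1439 0) P.nil)))))) 99)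
 EL.nil))
noncomputable def S212_227_290_364_19 : EL := (EL.cons 4 (TM.mk (P.cons (P.cons (P.lf 49603015 0 0) (P.cons (P.lf 0 4902495 0) (P.cons (P.lf 0 631299 0) (P.lf 42086 0 0)))) (P.cons (P.cons (P.lf 0 28346595 0) (P.cons (P.lf 2564934 0 0) (P.cons (P.lf 330288 0 0) (P.lf 0 22019 0)))) (P.cons (P.cons (P.lf 4225023 0 0) (P.cons (P.lf 0 314198 0) (P.cons (P.lf 0 40459 0) (P.lf 2697 0 0)))) (P.cons (P.cons (P.lf 250205 0 0) (P.cons (P.lf 0 26988 0) (P.cons (P.lf 0 3475 0) P.nil))) (P.cons (P.cons (P.lf 0 87917 0) (P.cons (P.lf 4777 0 0) P.nil)) (P.cons (P.cons (P.lf 848 0 0) P.nil) P.nil)))))) 2788)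
 (EL.cons 8 (TM.mk (P.cons (P.cons (P.lf 90416059 0 0) (P.cons (P.lf 0 8936237 0) (P.cons (P.lf 0 1150729 0) (P.lf 76715 0 0)))) (P.cons (P.cons (P.lf 0 32122541 0) (P.cons (P.lf 2743381 0 0) (P.cons (P.lf 353268 0 0) (P.lf 0 23551 0)))) (P.cons (P.cons (P.lf 447646 0 0) (P.cons (P.lf 50923 0 0) (P.cons (P.lf 6557 0 0) (P.lf 0 437 0)))) (P.cons (P.cons (P.lf 687457 0 0) (P.cons (P.lf 0 50015 0) (P.cons (P.lf 0 6440 0) P.nil))) (P.cons (P.cons (P.lf 0 22589 0) (P.cons (P.lf 0 1465 0) P.nil)) (P.cons (P.cons (P.lf 0 5313 0) P.nil) P.nil)))))) 2134)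
 EL.nil))
noncomputable def S212_227_290_364_20 : EL := (EL.cons 4 (TM.mk (P.cons (P.cons (P.lf 28413831 0 0) (P.cons (P.lf 0 5616540 0) (P.cons (P.lf 0 445693 0) (P.cons (P.lf 119698 0 0) (P.cons (P.lf 0 162 0) (P.cons (P.lf 0 613 0) P.nil)))))) (P.cons (P.cons (P.lf 0 15827979 0) (P.cons (P.lf 2857540 0 0) (P.cons (P.lf 240156 0 0) (P.cons (P.lf 0 57448 0) (P.cons (P.lf 75 0 0) P.nil))))) (P.cons (P.cons (P.lf 1853886 0 0) (P.cons (P.lf 0 251928 0) (P.cons (P.lf 0 25004 0) (P.cons (P.lf 4078 0 0) P.nil)))) (P.cons (P.cons (P.lf 369415 0 0) (P.cons (P.lf 0 70733 0) (P.cons (P.lf 0 5911 0) P.nil))) (P.cons (P.cons (P.lf 0 76130 0) (P.cons (P.lf 9132 0 0) P.nil)) (P.cons (P.cons (P.lf 0 2495 0) P.nil) P.nil)))))) 8657)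
 (EL.cons 8 (TM.mk (P.cons (P.cons (P.lf 51792551 0 0) (P.cons (P.lf 0 10237795 0) (P.cons (P.lf 0 812407 0) (P.cons (P.lf 218185 0 0) (P.cons (P.lf 0 297 0) (P.cons (P.lf 0 1118 0) P.nil)))))) (P.cons (P.cons (P.lf 0 17653876 0) (P.cons (P.lf 2995352 0 0) (P.cons (P.lf 262118 0 0) (P.cons (P.lf 0 57545 0) (P.cons (P.lf 72 0 0) P.nil))))) (P.cons (P.cons (P.lf 0 614411 0) (P.cons (P.lf 223350 0 0) (P.cons (P.lf 13866 0 0) (P.cons (P.lf 0 5752 0) P.nil)))) (P.cons (P.cons (P.lf 615089 0 0) (P.cons (P.lf 0 93693 0) (P.cons (P.lf 0 8897 0) P.nil))) (P.cons (P.cons (P.lf 0 8887 0) (P.cons (P.lf 0 3481 0) P.nil)) (P.cons (P.cons (P.lf 0 8603 0) P.nil) P.nil)))))) 7911)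
 EL.nil))
noncomputable def S212_227_290_364_21 : EL := (EL.cons 4 (TM.mk (P.cons (P.cons (P.lf 0 442483428 0) (P.cons (P.lf 190181526 0 0) (P.cons (P.lf 24489882 0 0) (P.lf 0 1632654 0)))) (P.cons (P.cons (P.lf 712928589 0 0) (P.cons (P.lf 0 25217805 0) (P.cons (P.lf 0 3247323 0) (P.lf 216489 0 0)))) (P.cons (P.cons (P.lf 3797598 0 0) (P.cons (P.lf 0 3760311 0) (P.cons (P.lf 0 484212 0) (P.lf 32274 0 0)))) (P.cons (P.cons (P.lf 0 6166227 0) (P.cons (P.lf 95547 0 0) (P.cons (P.lf 12300 0 0) P.nil))) (P.cons (P.cons (P.lf 0 102810 0) (P.cons (P.lf 20469 0 0) P.nil)) (P.cons (P.cons (P.lf 22995 0 0) P.nil) P.nil)))))) 8661)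
 (EL.cons 8 (TM.mk (P.cons (P.cons (P.lf 86311179 0 0) (P.cons (P.lf 0 37096962 0) (P.cons (P.lf 0 4777020 0) (P.lf 318474 0 0)))) (P.cons (P.cons (P.lf 0 157724403 0) (P.cons (P.lf 12939159 0 0) (P.cons (P.lf 1666188 0 0) (P.lf 0 111072 0)))) (P.cons (P.cons (P.lf 29619141 0 0) (P.cons (P.lf 0 456741 0) (P.cons (P.lf 0 58809 0) (P.lf 3918 0 0)))) (P.cons (P.cons (P.lf 863994 0 0) (P.cons (P.lf 0 150210 0) (P.cons (P.lf 0 19341 0) P.nil))) (P.cons (P.cons (P.lf 0 203733 0) (P.cons (P.lf 936 0 0) P.nil)) (P.cons (P.cons (P.lf 0 5475 0) P.nil) P.nil)))))) 7731)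
 (EL.cons 11 (TM.mk (P.cons (P.cons (P.lf 1654577601 0 0) (P.cons (P.lf 472344513 0 0) (P.cons (P.lf 0 35330610 0) (P.cons (P.lf 0 2380767 0) (P.lf 119037 0 0))))) (P.cons (P.cons (P.lf 69157905 0 0) (P.cons (P.lf 19743018 0 0) (P.cons (P.lf 0 1476744 0) (P.cons (P.lf 0 99510 0) (P.lf 4974 0 0))))) (P.cons (P.cons (P.lf 0 5678295 0) (P.cons (P.lf 0 1621023 0) (P.cons (P.lf 121248 0 0) (P.cons (P.lf 8169 0 0) P.nil)))) (P.cons (P.cons (P.lf 0 271317 0) (P.cons (P.lf 0 77454 0) (P.cons (P.lf 5793 0 0) P.nil))) (P.cons (P.cons (P.lf 8610 0 0) (P.cons (P.lf 2457 0 0) P.nil)) (P.cons (P.cons (P.lf 573 0 0) P.nil) P.nil)))))) 1452)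
 EL.nil)))
noncomputable def S212_227_290_364_22 : EL := (EL.cons 4 (TM.mk (P.cons (P.cons (P.lf 0 253465434 0) (P.cons (P.lf 133991835 0 0) (P.cons (P.lf 6487161 0 0) (P.cons (P.lf 0 3923265 0) (P.cons (P.lf 6324 0 0) (P.cons (P.lf 23805 0 0) P.nil)))))) (P.cons (P.cons (P.lf 404728815 0 0) (P.cons (P.lf 0 51666513 0) (P.cons (P.lf 0 5900511 0) (P.cons (P.lf 637380 0 0) (P.cons (P.lf 0 441 0) P.nil))))) (P.cons (P.cons (P.lf 11026602 0 0) (P.cons (P.lf 0 6494115 0) (P.cons (P.lf 0 485472 0) (P.cons (P.lf 146082 0 0) P.nil)))) (P.cons (P.cons (P.lf 0 8287593 0) (P.cons (P.lf 705732 0 0) (P.cons (P.lf 96255 0 0) P.nil))) (P.cons (P.cons (P.lf 0 126825 0) (P.cons (P.lf 85074 0 0) P.nil)) (P.cons (P.cons (P.lf 71364 0 0) P.nil) P.nil)))))) 61728)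
 (EL.cons 8 (TM.mk (P.cons (P.cons (P.lf 49441173 0 0) (P.cons (P.lf 0 26136555 0) (P.cons (P.lf 0 1265391 0) (P.cons (P.lf 765279 0 0) (P.cons (P.lf 0 1233 0) (P.cons (P.lf 0 4641 0) P.nil)))))) (P.cons (P.cons (P.lf 0 89635623 0) (P.cons (P.lf 15728685 0 0) (P.cons (P.lf 1424526 0 0) (P.cons (P.lf 0 289770 0) (P.cons (P.lf 351 0 0) P.nil))))) (P.cons (P.cons (P.lf 15085938 0 0) (P.cons (P.lf 0 1001397 0) (P.cons (P.lf 0 158451 0) (P.cons (P.lf 993 0 0) P.nil)))) (P.cons (P.cons (P.lf 1798215 0 0) (P.cons (P.lf 0 369900 0) (P.cons (P.lf 0 34965 0) P.nil))) (P.cons (P.cons (P.lf 0 310089 0) (P.cons (P.lf 14547 0 0) P.nil)) (P.cons (P.cons (P.lf 0 13701 0) P.nil) P.nil)))))) 28575)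
 (EL.cons 11 (TM.mk (P.cons (P.cons (P.lf 947782911 0 0) (P.cons (P.lf 176896827 0 0) (P.cons (P.lf 0 59042466 0) (P.cons (P.lf 0 2002920 0) (P.cons (P.lf 690117 0 0) (P.cons (P.lf 0 6552 0) P.nil)))))) (P.cons (P.cons (P.lf 53279817 0 0) (P.cons (P.lf 5421759 0 0) (P.cons (P.lf 0 5192532 0) (P.cons (P.lf 0 143454 0) (P.cons (P.lf 68820 0 0) P.nil))))) (P.cons (P.cons (P.lf 0 13762806 0) (P.cons (P.lf 0 3432129 0) (P.cons (P.lf 499689 0 0) (P.cons (P.lf 23190 0 0) P.nil)))) (P.cons (P.cons (P.lf 0 620403 0) (P.cons (P.lf 0 90459 0) (P.cons (P.lf 49140 0 0) P.nil))) (P.cons (P.cons (P.lf 83742 0 0) (P.cons (P.lf 23565 0 0) P.nil)) (P.cons (P.cons (P.lf 4092 0 0) P.nil) P.nil)))))) 29742)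
 EL.nil)))
noncomputable def S212_227_290_364_23 : EL := (EL.cons 4 (TM.mk (P.cons (P.cons (P.lf 123050130 0 0) (P.cons (P.lf 0 52887543 0) (P.cons (P.lf 0 6810384 0) (P.lf 454023 0 0)))) (P.cons (P.cons (P.lf 0 222289308 0) (P.cons (P.lf 17341512 0 0) (P.cons (P.lf 2233083 0 0) (P.lf 0 148872 0)))) (P.cons (P.cons (P.lf 37289376 0 0) (P.cons (P.lf 0 163344 0) (P.cons (P.lf 0 21033 0) (P.lf 1404 0 0)))) (P.cons (P.cons (P.lf 2544099 0 0) (P.cons (P.lf 0 261249 0) (P.cons (P.lf 0 33639 0) P.nil))) (P.cons (P.cons (P.lf 0 336864 0) (P.cons (P.lf 0 2721 0) P.nil)) (P.cons (P.cons (P.lf 0 18360 0) P.nil) P.nil)))))) 9465)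
 (EL.cons 8 (TM.mk (P.cons (P.cons (P.lf 0 24002259 0) (P.cons (P.lf 10316286 0 0) (P.cons (P.lf 1328439 0 0) (P.lf 0 88563 0)))) (P.cons (P.cons (P.lf 48549081 0 0) (P.cons (P.lf 0 5612970 0) (P.cons (P.lf 0 722787 0) (P.lf 48183 0 0)))) (P.cons (P.cons (P.lf 0 16729893 0) (P.cons (P.lf 798423 0 0) (P.cons (P.lf 102810 0 0) (P.lf 0 6852 0)))) (P.cons (P.cons (P.lf 1231047 0 0) (P.cons (P.lf 29676 0 0) (P.cons (P.lf 3819 0 0) P.nil))) (P.cons (P.cons (P.lf 136065 0 0) (P.cons (P.lf 0 9375 0) P.nil)) (P.cons (P.cons (P.lf 0 10020 0) P.nil) P.nil)))))) 4980)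
 (EL.cons 11 (TM.mk (P.cons (P.cons (P.lf 0 460121163 0) (P.cons (P.lf 0 131354193 0) (P.cons (P.lf 9825081 0 0) (P.cons (P.lf 662067 0 0) (P.lf 0 33102 0))))) (P.cons (P.cons (P.lf 70627482 0 0) (P.cons (P.lf 20162550 0 0) (P.cons (P.lf 0 1508124 0) (P.cons (P.lf 0 101625 0) (P.lf 5079 0 0))))) (P.cons (P.cons (P.lf 6731568 0 0) (P.cons (P.lf 1921710 0 0) (P.cons (P.lf 0 143739 0) (P.cons (P.lf 0 9684 0) P.nil)))) (P.cons (P.cons (P.lf 0 254358 0) (P.cons (P.lf 0 72612 0) (P.cons (P.lf 5430 0 0) P.nil))) (P.cons (P.cons (P.lf 0 27528 0) (P.cons (P.lf 0 7857 0) P.nil)) (P.cons (P.cons (P.lf 318 0 0) P.nil) P.nil)))))) 2556)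
 EL.nil)))
noncomputable def S212_227_290_364_24 : EL := (EL.cons 4 (TM.mk (P.cons (P.cons (P.lf 70486152 0 0) (P.cons (P.lf 0 37261764 0) (P.cons (P.lf 0 1804014 0) (P.cons (P.lf 1091019 0 0) (P.cons (P.lf 0 1758 0) (P.cons (P.lf 0 6618 0) P.nil)))))) (P.cons (P.cons (P.lf 0 126316584 0) (P.cons (P.lf 21644985 0 0) (P.cons (P.lf 1993188 0 0) (P.cons (P.lf 0 390318 0) (P.cons (P.lf 465 0 0) P.nil))))) (P.cons (P.cons (P.lf 18700371 0 0) (P.cons (P.lf 0 886947 0) (P.cons (P.lf 0 179973 0) (P.cons (P.lf 0 9318 0) P.nil)))) (P.cons (P.cons (P.lf 3257382 0 0) (P.cons (P.lf 0 599022 0) (P.cons (P.lf 0 58425 0) P.nil))) (P.cons (P.cons (P.lf 0 424689 0) (P.cons (P.lf 11496 0 0) P.nil)) (P.cons (P.cons (P.lf 0 34824 0) P.nil) P.nil)))))) 43365)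
 (EL.cons 8 (TM.mk (P.cons (P.cons (P.lf 0 13749084 0) (P.cons (P.lf 7268307 0 0) (P.cons (P.lf 351891 0 0) (P.cons (P.lf 0 212814 0) (P.cons (P.lf 342 0 0) (P.cons (P.lf 1290 0 0) P.nil)))))) (P.cons (P.cons (P.lf 27611886 0 0) (P.cons (P.lf 0 5793453 0) (P.cons (P.lf 0 464868 0) (P.cons (P.lf 122142 0 0) (P.cons (P.lf 0 165 0) P.nil))))) (P.cons (P.cons (P.lf 0 9021597 0) (P.cons (P.lf 1110636 0 0) (P.cons (P.lf 120360 0 0) (P.cons (P.lf 0 15366 0) P.nil)))) (P.cons (P.cons (P.lf 241203 0 0) (P.cons (P.lf 63015 0 0) (P.cons (P.lf 2379 0 0) P.nil))) (P.cons (P.cons (P.lf 200880 0 0) (P.cons (P.lf 0 25701 0) P.nil)) (P.cons (P.cons (P.lf 0 12114 0) P.nil) P.nil)))))) 17085)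
 (EL.cons 11 (TM.mk (P.cons (P.cons (P.lf 0 263568765 0) (P.cons (P.lf 0 49193205 0) (P.cons (P.lf 16419105 0 0) (P.cons (P.lf 556992 0 0) (P.cons (P.lf 0 191913 0) (P.cons (P.lf 1821 0 0) P.nil)))))) (P.cons (P.cons (P.lf 36657219 0 0) (P.cons (P.lf 8099475 0 0) (P.cons (P.lf 0 1762584 0) (P.cons (P.lf 0 68883 0) (P.cons (P.lf 18339 0 0) P.nil))))) (P.cons (P.cons (P.lf 7520883 0 0) (P.cons (P.lf 1398204 0 0) (P.cons (P.lf 0 470796 0) (P.cons (P.lf 0 15930 0) P.nil)))) (P.cons (P.cons (P.lf 0 575661 0) (P.cons (P.lf 0 165195 0) (P.cons (P.lf 11934 0 0) P.nil))) (P.cons (P.cons (P.lf 0 72468 0) (P.cons (P.lf 0 14868 0) P.nil)) (P.cons (P.cons (P.lf 3510 0 0) P.nil) P.nil)))))) 22377)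
 EL.nil)))
noncomputable def S212_227_290_364_25 : EL := (EL.cons 4 (TM.mk (P.cons (P.cons (P.lf 0 34218987 0) (P.cons (P.lf 14707485 0 0) (P.cons (P.lf 1893897 0 0) (P.lf 0 126258 0)))) (P.cons (P.cons (P.lf 68499204 0 0) (P.cons (P.lf 0 7694802 0) (P.cons (P.lf 0 990867 0) (P.lf 66057 0 0)))) (P.cons (P.cons (P.lf 0 22338396 0) (P.cons (P.lf 942594 0 0) (P.cons (P.lf 121377 0 0) (P.lf 0 8091 0)))) (P.cons (P.cons (P.lf 1124127 0 0) (P.cons (P.lf 80967 0 0) (P.cons (P.lf 10425 0 0) P.nil))) (P.cons (P.cons (P.lf 273873 0 0) (P.cons (P.lf 0 14331 0) P.nil)) (P.cons (P.cons (P.lf 0 12528 0) P.nil) P.nil)))))) 8517)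
 (EL.cons 8 (TM.mk (P.cons (P.cons (P.lf 6674781 0 0) (P.cons (P.lf 0 2868852 0) (P.cons (P.lf 0 369423 0) (P.lf 24627 0 0)))) (P.cons (P.cons (P.lf 0 14804559 0) (P.cons (P.lf 2121183 0 0) (P.cons (P.lf 273147 0 0) (P.lf 0 18207 0)))) (P.cons (P.cons (P.lf 7268838 0 0) (P.cons (P.lf 0 518163 0) (P.cons (P.lf 0 66723 0) (P.lf 4446 0 0)))) (P.cons (P.cons (P.lf 0 1208799 0) (P.cons (P.lf 29874 0 0) (P.cons (P.lf 3846 0 0) P.nil))) (P.cons (P.cons (P.lf 12588 0 0) (P.cons (P.lf 5148 0 0) P.nil)) (P.cons (P.cons (P.lf 11952 0 0) P.nil) P.nil)))))) 3894)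
 (EL.cons 11 (TM.mk (P.cons (P.cons (P.lf 127955004 0 0) (P.cons (P.lf 36528261 0 0) (P.cons (P.lf 0 2732253 0) (P.cons (P.lf 0 184113 0) (P.lf 9204 0 0))))) (P.cons (P.cons (P.lf 0 44629818 0) (P.cons (P.lf 0 12740805 0) (P.cons (P.lf 952989 0 0) (P.cons (P.lf 64215 0 0) (P.lf 0 3210 0))))) (P.cons (P.cons (P.lf 1575408 0 0) (P.cons (P.lf 449742 0 0) (P.cons (P.lf 0 33639 0) (P.cons (P.lf 0 2265 0) P.nil)))) (P.cons (P.cons (P.lf 518127 0 0) (P.cons (P.lf 147912 0 0) (P.cons (P.lf 0 11061 0) P.nil))) (P.cons (P.cons (P.lf 0 3249 0) (P.cons (P.lf 0 927 0) P.nil)) (P.cons (P.cons (P.lf 0 2235 0) P.nil) P.nil)))))) 3174)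
 EL.nil)))
noncomputable def S212_227_290_364_26 : EL := (EL.cons 4 (TM.mk (P.cons (P.cons (P.lf 0 19601478 0) (P.cons (P.lf 10362114 0 0) (P.cons (P.lf 501675 0 0) (P.cons (P.lf 0 303399 0) (P.cons (P.lf 489 0 0) (P.cons (P.lf 1839 0 0) P.nil)))))) (P.cons (P.cons (P.lf 38955435 0 0) (P.cons (P.lf 0 8042922 0) (P.cons (P.lf 0 652260 0) (P.cons (P.lf 167796 0 0) (P.cons (P.lf 0 225 0) P.nil))))) (P.cons (P.cons (P.lf 0 12001101 0) (P.cons (P.lf 1390731 0 0) (P.cons (P.lf 156774 0 0) (P.cons (P.lf 0 17685 0) P.nil)))) (P.cons (P.cons (P.lf 0 249 0) (P.cons (P.lf 138477 0 0) (P.cons (P.lf 8241 0 0) P.nil))) (P.cons (P.cons (P.lf 316788 0 0) (P.cons (P.lf 0 37470 0) P.nil)) (P.cons (P.cons (P.lf 0 11355 0) P.nil) P.nil)))))) 22839)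
 (EL.cons 8 (TM.mk (P.cons (P.cons (P.lf 3823479 0 0) (P.cons (P.lf 0 2021241 0) (P.cons (P.lf 0 97857 0) (P.cons (P.lf 59181 0 0) (P.cons (P.lf 0 93 0) (P.cons (P.lf 0 357 0) P.nil)))))) (P.cons (P.cons (P.lf 0 8425293 0) (P.cons (P.lf 2005839 0 0) (P.cons (P.lf 148386 0 0) (P.cons (P.lf 0 45525 0) (P.cons (P.lf 63 0 0) P.nil))))) (P.cons (P.cons (P.lf 3996801 0 0) (P.cons (P.lf 0 617361 0) (P.cons (P.lf 0 58419 0) (P.cons (P.lf 10725 0 0) P.nil)))) (P.cons (P.cons (P.lf 0 533067 0) (P.cons (P.lf 37551 0 0) (P.cons (P.lf 5463 0 0) P.nil))) (P.cons (P.cons (P.lf 0 51690 0) (P.cons (P.lf 11775 0 0) P.nil)) (P.cons (P.cons (P.lf 14877 0 0) P.nil) P.nil)))))) 8838)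
 (EL.cons 11 (TM.mk (P.cons (P.cons (P.lf 73295787 0 0) (P.cons (P.lf 13680126 0 0) (P.cons (P.lf 0 4565985 0) (P.cons (P.lf 0 154893 0) (P.cons (P.lf 53367 0 0) (P.cons (P.lf 0 504 0) P.nil)))))) (P.cons (P.cons (P.lf 0 24508335 0) (P.cons (P.lf 0 4924047 0) (P.cons (P.lf 1381872 0 0) (P.cons (P.lf 49404 0 0) (P.cons (P.lf 0 15522 0) P.nil))))) (P.cons (P.cons (P.lf 0 323103 0) (P.cons (P.lf 9531 0 0) (P.cons (P.lf 49056 0 0) (P.cons (P.lf 1158 0 0) P.nil)))) (P.cons (P.cons (P.lf 612192 0 0) (P.cons (P.lf 131082 0 0) (P.cons (P.lf 0 31167 0) P.nil))) (P.cons (P.cons (P.lf 0 6168 0) (P.cons (P.lf 0 3978 0) P.nil)) (P.cons (P.cons (P.lf 0 5820 0) P.nil) P.nil)))))) 13251)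
 EL.nil)))
noncomputable def S212_227_290_364_27 : EL := (EL.cons 13 (TM.mk (P.lf 0 4294967296 0) 0)
 EL.nil)
noncomputable def S212_227_290_364_28 : EL := (EL.cons 13 (TM.mk (P.cons (P.cons (P.lf 0 2460263337 0) (P.cons (P.lf 243159216 0 0) (P.cons (P.lf 31311880 0 0) (P.lf 0 2087456 0)))) (P.cons (P.cons (P.lf 0 35470337 0) (P.cons (P.lf 15245324 0 0) (P.cons (P.lf 1963156 0 0) (P.lf 0 130872 0)))) (P.cons (P.cons (P.lf 28764902 0 0) (P.cons (P.lf 0 1092428 0) (P.cons (P.lf 0 140668 0) (P.lf 9376 0 0)))) (P.cons (P.cons (P.lf 0 117024 0) (P.cons (P.lf 0 87076 0) (P.cons (P.lf 0 11212 0) P.nil))) (P.cons (P.cons (P.lf 0 106791 0) (P.cons (P.lf 2008 0 0) P.nil)) (P.cons (P.cons (P.lf 0 811 0) P.nil) P.nil)))))) 2437)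
 EL.nil)
noncomputable def S212_227_290_364_29 : EL := (EL.cons 13 (TM.mk (P.cons (P.cons (P.lf 0 1409299598 0) (P.cons (P.lf 278575208 0 0) (P.cons (P.lf 22105997 0 0) (P.cons (P.lf 0 5936931 0) (P.cons (P.lf 8087 0 0) (P.cons (P.lf 30436 0 0) P.nil)))))) (P.cons (P.cons (P.lf 0 40636570 0) (P.cons (P.lf 21482096 0 0) (P.cons (P.lf 1040046 0 0) (P.cons (P.lf 0 628988 0) (P.cons (P.lf 1013 0 0) P.nil))))) (P.cons (P.cons (P.lf 32661557 0 0) (P.cons (P.lf 0 4256775 0) (P.cons (P.lf 0 478562 0) (P.cons (P.lf 54460 0 0) P.nil)))) (P.cons (P.cons (P.lf 341046 0 0) (P.cons (P.lf 0 308758 0) (P.cons (P.lf 0 22143 0) P.nil))) (P.cons (P.cons (P.lf 0 316926 0) (P.cons (P.lf 28417 0 0) P.nil)) (P.cons (P.cons (P.lf 0 1125 0) P.nil) P.nil)))))) 31099)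
 EL.nil)
noncomputable def S212_227_290_364_30 : EL := (EL.cons 13 (TM.mk (P.cons (P.lf 1194386624 0 0) (P.cons (P.lf 0 233258332 0) (P.cons (P.lf 0 3625172 0) (P.cons (P.lf 207136 0 0) (P.cons (P.lf 5900 0 0) (P.cons (P.lf 0 156 0) P.nil)))))) 48)
 EL.nil)
noncomputable def S212_227_290_364_31 : EL := (EL.cons 13 (TM.mk (P.cons (P.cons (P.lf 684174155 0 0) (P.cons (P.lf 0 67620099 0) (P.cons (P.lf 0 8707514 0) (P.lf 580500 0 0)))) (P.cons (P.cons (P.lf 0 123752194 0) (P.cons (P.lf 8966331 0 0) (P.cons (P.lf 1154604 0 0) (P.lf 0 76974 0)))) (P.cons (P.cons (P.lf 0 12002197 0) (P.cons (P.lf 1337000 0 0) (P.cons (P.lf 172165 0 0) (P.lf 0 11476 0)))) (P.cons (P.cons (P.lf 1683469 0 0) (P.cons (P.lf 0 33973 0) (P.cons (P.lf 0 4374 0) P.nil))) (P.cons (P.cons (P.lf 52711 0 0) (P.cons (P.lf 0 7278 0) P.nil)) (P.cons (P.cons (P.lf 0 7100 0) P.nil) P.nil)))))) 2948)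
 EL.nil)
noncomputable def S212_227_290_364_32 : EL := (EL.cons 13 (TM.mk (P.cons (P.cons (P.lf 391911852 0 0) (P.cons (P.lf 0 77468925 0) (P.cons (P.lf 0 6147452 0) (P.cons (P.lf 1650999 0 0) (P.cons (P.lf 0 2248 0) (P.cons (P.lf 0 8463 0) P.nil)))))) (P.cons (P.cons (P.lf 0 65238004 0) (P.cons (P.lf 9155380 0 0) (P.cons (P.lf 911343 0 0) (P.cons (P.lf 0 147517 0) (P.cons (P.lf 157 0 0) P.nil))))) (P.cons (P.cons (P.lf 0 12479326 0) (P.cons (P.lf 2585583 0 0) (P.cons (P.lf 208226 0 0) (P.cons (P.lf 0 54315 0) P.nil)))) (P.cons (P.cons (P.lf 1712665 0 0) (P.cons (P.lf 0 140624 0) (P.cons (P.lf 0 20021 0) P.nil))) (P.cons (P.cons (P.lf 138119 0 0) (P.cons (P.lf 0 29682 0) P.nil)) (P.cons (P.cons (P.lf 0 18181 0) P.nil) P.nil)))))) 20252)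
 EL.nil)
noncomputable def S212_227_290_364_33 : EL := (EL.cons 14 (TM.mk (P.lf 8589934592 0 0) 0)
 EL.nil)
noncomputable def S212_227_290_364_34 : EL := (EL.cons 14 (TM.mk (P.cons (P.cons (P.lf 4920526674 0 0) (P.cons (P.lf 0 486318432 0) (P.cons (P.lf 0 62623760 0) (P.lf 4174912 0 0)))) (P.cons (P.cons (P.lf 70940674 0 0) (P.cons (P.lf 0 30490648 0) (P.cons (P.lf 0 3926312 0) (P.lf 261744 0 0)))) (P.cons (P.cons (P.lf 0 57529804 0) (P.cons (P.lf 2184856 0 0) (P.cons (P.lf 281336 0 0) (P.lf 0 18752 0)))) (P.cons (P.cons (P.lf 234048 0 0) (P.cons (P.lf 174152 0 0) (P.cons (P.lf 22424 0 0) P.nil))) (P.cons (P.cons (P.lf 213582 0 0) (P.cons (P.lf 0 4016 0) P.nil)) (P.cons (P.cons (P.lf 1622 0 0) P.nil) P.nil)))))) 4874)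
 EL.nil)
noncomputable def S212_227_290_364_35 : EL := (EL.cons 14 (TM.mk (P.cons (P.cons (P.lf 2818599196 0 0) (P.cons (P.lf 0 557150416 0) (P.cons (P.lf 0 44211994 0) (P.cons (P.lf 11873862 0 0) (P.cons (P.lf 0 16174 0) (P.cons (P.lf 0 60872 0) P.nil)))))) (P.cons (P.cons (P.lf 81273140 0 0) (P.cons (P.lf 0 42964192 0) (P.cons (P.lf 0 2080092 0) (P.cons (P.lf 1257976 0 0) (P.cons (P.lf 0 2026 0) P.nil))))) (P.cons (P.cons (P.lf 0 65323114 0) (P.cons (P.lf 8513550 0 0) (P.cons (P.lf 957124 0 0) (P.cons (P.lf 0 108920 0) P.nil)))) (P.cons (P.cons (P.lf 0 682092 0) (P.cons (P.lf 617516 0 0) (P.cons (P.lf 44286 0 0) P.nil))) (P.cons (P.cons (P.lf 633852 0 0) (P.cons (P.lf 0 56834 0) P.nil)) (P.cons (P.cons (P.lf 2250 0 0) P.nil) P.nil)))))) 62198)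
 EL.nil)
noncomputable def S212_227_290_364_36 : EL := (EL.cons 14 (TM.mk (P.cons (P.lf 0 2388773248 0) (P.cons (P.lf 466516664 0 0) (P.cons (P.lf 7250344 0 0) (P.cons (P.lf 0 414272 0) (P.cons (P.lf 0 11800 0) (P.cons (P.lf 312 0 0) P.nil)))))) 96)
 EL.nil)
noncomputable def S212_227_290_364_37 : EL := (EL.cons 14 (TM.mk (P.cons (P.cons (P.lf 0 1368348310 0) (P.cons (P.lf 135240198 0 0) (P.cons (P.lf 17415028 0 0) (P.lf 0 1161000 0)))) (P.cons (P.cons (P.lf 247504388 0 0) (P.cons (P.lf 0 17932662 0) (P.cons (P.lf 0 2309208 0) (P.lf 153948 0 0)))) (P.cons (P.cons (P.lf 24004394 0 0) (P.cons (P.lf 0 2674000 0) (P.cons (P.lf 0 344330 0) (P.lf 22952 0 0)))) (P.cons (P.cons (P.lf 0 3366938 0) (P.cons (P.lf 67946 0 0) (P.cons (P.lf 8748 0 0) P.nil))) (P.cons (P.cons (P.lf 0 105422 0) (P.cons (P.lf 14556 0 0) P.nil)) (P.cons (P.cons (P.lf 14200 0 0) P.nil) P.nil))))))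 5896)
 EL.nil)
noncomputable def S212_227_290_364_38 : EL := (EL.cons 14 (TM.mk (P.cons (P.cons (P.lf 0 783823704 0) (P.cons (P.lf 154937850 0 0) (P.cons (P.lf 12294904 0 0) (P.cons (P.lf 0 3301998 0) (P.cons (P.lf 4496 0 0) (P.cons (P.lf 16926 0 0) P.nil)))))) (P.cons (P.cons (P.lf 130476008 0 0) (P.cons (P.lf 0 18310760 0) (P.cons (P.lf 0 1822686 0) (P.cons (P.lf 295034 0 0) (P.cons (P.lf 0 314 0) P.nil))))) (P.cons (P.cons (P.lf 24958652 0 0) (P.cons (P.lf 0 5171166 0) (P.cons (P.lf 0 416452 0) (P.cons (P.lf 108630 0 0) P.nil)))) (P.cons (P.cons (P.lf 0 3425330 0) (P.cons (P.lf 281248 0 0) (P.cons (P.lf 40042 0 0) P.nil))) (P.cons (P.cons (P.lf 0 276238 0) (P.cons (P.lf 59364 0 0) P.nil)) (P.cons (P.cons (P.lf 36362 0 0) P.nil) P.nil)))))) 40504)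
 EL.nil)
noncomputable def S212_227_290_364_39 : EL := (EL.cons 14 (TM.mk (P.cons (P.lf 664293490 0 0) (P.cons (P.lf 0 259467056 0) (P.cons (P.lf 21303880 0 0) (P.cons (P.lf 1017936 0 0) (P.cons (P.lf 0 32314 0) (P.cons (P.lf 0 2154 0) P.nil)))))) 152)
 EL.nil)
noncomputable def S212_227_290_364_40 : EL := (EL.cons 14 (TM.mk (P.cons (P.cons (P.lf 380523716 0 0) (P.cons (P.lf 0 37608920 0) (P.cons (P.lf 0 4842942 0) (P.lf 322862 0 0)))) (P.cons (P.cons (P.lf 0 143143014 0) (P.cons (P.lf 12331742 0 0) (P.cons (P.lf 1587972 0 0) (P.lf 0 105864 0)))) (P.cons (P.cons (P.lf 5611552 0 0) (P.cons (P.lf 0 116154 0) (P.cons (P.lf 0 14958 0) (P.lf 996 0 0)))) (P.cons (P.cons (P.lf 2514880 0 0) (P.cons (P.lf 0 185776 0) (P.cons (P.lf 0 23922 0) P.nil))) (P.cons (P.cons (P.lf 0 143334 0) (P.cons (P.lf 0 1936 0) P.nil)) (P.cons (P.cons (P.lf 0 14062 0) P.nil) P.nil))))))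 6666)
 EL.nil)
noncomputable def S212_227_290_364_41 : EL := (EL.cons 14 (TM.mk (P.cons (P.cons (P.lf 217973382 0 0) (P.cons (P.lf 0 43086636 0) (P.cons (P.lf 0 3419086 0) (P.cons (P.lf 918252 0 0) (P.cons (P.lf 0 1250 0) (P.cons (P.lf 0 4706 0) P.nil)))))) (P.cons (P.cons (P.lf 0 78853268 0) (P.cons (P.lf 13506662 0 0) (P.cons (P.lf 1174602 0 0) (P.cons (P.lf 0 261376 0) (P.cons (P.lf 330 0 0) P.nil))))) (P.cons (P.cons (P.lf 0 516222 0) (P.cons (P.lf 574372 0 0) (P.cons (P.lf 27198 0 0) (P.cons (P.lf 0 16972 0) P.nil)))) (P.cons (P.cons (P.lf 2455976 0 0) (P.cons (P.lf 0 381984 0) (P.cons (P.lf 0 35884 0) P.nil))) (P.cons (P.cons (P.lf 0 93358 0) (P.cons (P.lf 0 4928 0) P.nil)) (P.cons (P.cons (P.lf 0 29416 0) P.nil) P.nil)))))) 28658)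
 EL.nil)
noncomputable def S212_227_290_364_42 : EL := (EL.cons 14 (TM.mk (P.cons (P.lf 0 184733248 0) (P.cons (P.lf 108232714 0 0) (P.cons (P.lf 0 19455268 0) (P.cons (P.lf 622888 0 0) (P.cons (P.lf 93852 0 0) (P.cons (P.lf 0 942 0) P.nil)))))) 312)
 EL.nil)
noncomputable def S212_227_290_364_43 : EL := (EL.cons 14 (TM.mk (P.cons (P.cons (P.lf 0 105819766 0) (P.cons (P.lf 10458656 0 0) (P.cons (P.lf 1346772 0 0) (P.lf 0 89784 0)))) (P.cons (P.cons (P.lf 60472736 0 0) (P.cons (P.lf 0 5471860 0) (P.cons (P.lf 0 704616 0) (P.lf 46974 0 0)))) (P.cons (P.cons (P.lf 0 9013384 0) (P.cons (P.lf 670290 0 0) (P.cons (P.lf 86314 0 0) (P.lf 0 5754 0)))) (P.cons (P.cons (P.lf 0 533772 0) (P.cons (P.lf 57576 0 0) (P.cons (P.lf 7414 0 0) P.nil))) (P.cons (P.cons (P.lf 187558 0 0) (P.cons (P.lf 0 10192 0) P.nil)) (P.cons (P.cons (P.lf 0 1810 0) P.nil) P.nil)))))) 5908)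
 EL.nil)
noncomputable def S212_227_290_364_44 : EL := (EL.cons 14 (TM.mk (P.cons (P.cons (P.lf 0 60616174 0) (P.cons (P.lf 11981954 0 0) (P.cons (P.lf 950812 0 0) (P.cons (P.lf 0 255356 0) (P.cons (P.lf 346 0 0) (P.cons (P.lf 1308 0 0) P.nil)))))) (P.cons (P.cons (P.lf 33766356 0 0) (P.cons (P.lf 0 6096086 0) (P.cons (P.lf 0 512334 0) (P.cons (P.lf 122556 0 0) (P.cons (P.lf 0 160 0) P.nil))))) (P.cons (P.cons (P.lf 0 3954958 0) (P.cons (P.lf 537448 0 0) (P.cons (P.lf 53342 0 0) (P.cons (P.lf 0 8700 0) P.nil)))) (P.cons (P.cons (P.lf 0 788086 0) (P.cons (P.lf 150898 0 0) (P.cons (P.lf 12612 0 0) P.nil))) (P.cons (P.cons (P.lf 162412 0 0) (P.cons (P.lf 0 19482 0) P.nil)) (P.cons (P.cons (P.lf 5324 0 0) P.nil) P.nil)))))) 18422)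
 EL.nil)
noncomputable def S212_227_290_364_45 : EL := (EL.cons 14 (TM.mk (P.cons (P.cons (P.lf 1614563228 0 0) (P.cons (P.lf 0 478724276 0) (P.cons (P.lf 0 14331314 0) (P.cons (P.lf 14736434 0 0) (P.cons (P.lf 0 629968 0) (P.cons (P.lf 0 142006 0) P.nil)))))) (P.cons (P.cons (P.lf 69832892 0 0) (P.cons (P.lf 0 43818332 0) (P.cons (P.lf 972562 0 0) (P.cons (P.lf 1786632 0 0) (P.cons (P.lf 0 117146 0) P.nil))))) (P.cons (P.cons (P.lf 0 55624638 0) (P.cons (P.lf 12380070 0 0) (P.cons (P.lf 887382 0 0) (P.cons (P.lf 0 285676 0) P.nil)))) (P.cons (P.cons (P.lf 0 1397712 0) (P.cons (P.lf 1044906 0 0) (P.cons (P.lf 3444 0 0) P.nil))) (P.cons (P.cons (P.lf 867240 0 0) (P.cons (P.lf 0 149246 0) P.nil)) (P.cons (P.cons (P.lf 11864 0 0) P.nil) P.nil)))))) 183550)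
 EL.nil)
noncomputable def S212_227_290_364_46 : EL := (EL.cons 15 (TM.mk (P.lf 4294967296 0 0) 0)
 EL.nil)
noncomputable def S212_227_290_364_47 : EL := (EL.cons 15 (TM.mk (P.cons (P.cons (P.lf 2460263337 0 0) (P.cons (P.lf 0 243159216 0) (P.cons (P.lf 0 31311880 0) (P.lf 2087456 0 0)))) (P.cons (P.cons (P.lf 35470337 0 0) (P.cons (P.lf 0 15245324 0) (P.cons (P.lf 0 1963156 0) (P.lf 130872 0 0)))) (P.cons (P.cons (P.lf 0 28764902 0) (P.cons (P.lf 1092428 0 0) (P.cons (P.lf 140668 0 0) (P.lf 0 9376 0)))) (P.cons (P.cons (P.lf 117024 0 0) (P.cons (P.lf 87076 0 0) (P.cons (P.lf 11212 0 0) P.nil))) (P.cons (P.cons (P.lf 106791 0 0) (P.cons (P.lf 0 2008 0) P.nil)) (P.cons (P.cons (P.lf 811 0 0) P.nil) P.nil)))))) 2437)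
 EL.nil)
noncomputable def S212_227_290_364_48 : EL := (EL.cons 15 (TM.mk (P.cons (P.cons (P.lf 1409299598 0 0) (P.cons (P.lf 0 278575208 0) (P.cons (P.lf 0 22105997 0) (P.cons (P.lf 5936931 0 0) (P.cons (P.lf 0 8087 0) (P.cons (P.lf 0 30436 0) P.nil)))))) (P.cons (P.cons (P.lf 40636570 0 0) (P.cons (P.lf 0 21482096 0) (P.cons (P.lf 0 1040046 0) (P.cons (P.lf 628988 0 0) (P.cons (P.lf 0 1013 0) P.nil))))) (P.cons (P.cons (P.lf 0 32661557 0) (P.cons (P.lf 4256775 0 0) (P.cons (P.lf 478562 0 0) (P.cons (P.lf 0 54460 0) P.nil)))) (P.cons (P.cons (P.lf 0 341046 0) (P.cons (P.lf 308758 0 0) (P.cons (P.lf 22143 0 0) P.nil))) (P.cons (P.cons (P.lf 316926 0 0) (P.cons (P.lf 0 28417 0) P.nil)) (P.cons (P.cons (P.lf 1125 0 0) P.nil) P.nil)))))) 31099)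
 EL.nil)
noncomputable def S212_227_290_364 : SL := (SL.cons S212_227_290_364_0 (SL.cons S212_227_290_364_1 (SL.cons S212_227_290_364_2 (SL.cons S212_227_290_364_3 (SL.cons S212_227_290_364_4 (SL.cons S212_227_290_364_5 (SL.cons S212_227_290_364_6 (SL.cons S212_227_290_364_7 (SL.cons S212_227_290_364_8 (SL.cons S212_227_290_364_9 (SL.cons S212_227_290_364_10 (SL.cons S212_227_290_364_11 (SL.cons S212_227_290_364_12 (SL.cons S212_227_290_364_13 (SL.cons S212_227_290_364_14 (SL.cons S212_227_290_364_15 (SL.cons S212_227_290_364_16 (SL.cons S212_227_290_364_17 (SL.cons S212_227_290_364_18 (SL.cons S212_227_290_364_19 (SL.cons S212_227_290_364_20 (SL.cons S212_227_290_364_21 (SL.cons S212_227_290_364_22 (SL.cons S212_227_290_364_23 (SL.cons S212_227_290_364_24 (SL.cons S212_227_290_364_25 (SL.cons S212_227_290_364_26 (SL.cons S212_227_290_364_27 (SL.cons S212_227_290_364_28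 (SL.cons S212_227_290_364_29 (SL.cons S212_227_290_364_30 (SL.cons S212_227_290_364_31 (SL.cons S212_227_290_364_32 (SL.cons S212_227_290_364_33 (SL.cons S212_227_290_364_34 (SL.cons S212_227_290_364_35 (SL.cons S212_227_290_364_36 (SL.cons S212_227_290_364_37 (SL.cons S212_227_290_364_38 (SL.cons S212_227_290_364_39 (SL.cons S212_227_290_364_40 (SL.cons S212_227_290_364_41 (SL.cons S212_227_290_364_42 (SL.cons S212_227_290_364_43 (SL.cons S212_227_290_364_44 (SL.cons S212_227_290_364_45 (SL.cons S212_227_290_364_46 (SL.cons S212_227_290_364_47 (SL.cons S212_227_290_364_48 SL.nil)))))))))))))))))))))))))))))))))))))))))))))))))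
noncomputable def S212_227_364_401_0 : EL := (EL.cons 0 (TM.mk (P.cons (P.lf 7871865163 0 0) (P.cons (P.lf 228047217 0 0) (P.cons (P.lf 0 18724113 0) (P.cons (P.lf 0 894670 0) (P.cons (P.lf 28400 0 0) (P.cons (P.lf 1893 0 0) P.nil)))))) 140)
 (EL.cons 1 (TM.mk (P.cons (P.lf 0 1064241138 0) (P.cons (P.lf 185599968 0 0) (P.cons (P.lf 9632411 0 0) (P.cons (P.lf 0 474855 0) (P.cons (P.lf 0 25702 0) (P.cons (P.lf 519 0 0) P.nil)))))) 134)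
 (EL.cons 5 (TM.mk (P.cons (P.lf 4502559014 0 0) (P.cons (P.lf 0 81083452 0) (P.cons (P.lf 6657460 0 0) (P.cons (P.lf 318104 0 0) (P.cons (P.lf 0 10096 0) (P.cons (P.lf 0 672 0) P.nil)))))) 143)
 (EL.cons 9 (TM.mk (P.lf 6442450944 0 0) 2)
 EL.nil))))
noncomputable def S212_227_364_401_1 : EL := (EL.cons 0 (TM.mk (P.cons (P.cons (P.lf 3668374432 0 0) (P.cons (P.lf 0 230140029 0) (P.cons (P.lf 0 7808374 0) (P.lf 371824 0 0)))) (P.cons (P.cons (P.lf 483250381 0 0) (P.cons (P.lf 0 48729789 0) (P.cons (P.lf 0 1653334 0) (P.lf 78716 0 0)))) (P.cons (P.cons (P.lf 0 126974577 0) (P.cons (P.lf 1699692 0 0) (P.cons (P.lf 57663 0 0) (P.lf 0 2742 0)))) (P.cons (P.cons (P.lf 0 5298282 0) (P.cons (P.lf 547651 0 0) (P.cons (P.lf 18574 0 0) P.nil))) (P.cons (P.cons (P.lf 972857 0 0) (P.cons (P.lf 1886 0 0) P.nil)) (P.cons (P.cons (P.lf 41250 0 0) P.nil) P.nil)))))) 12301)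
 (EL.cons 1 (TM.mk (P.cons (P.cons (P.lf 0 549204110 0) (P.cons (P.lf 93622117 0 0) (P.cons (P.lf 3176483 0 0) (P.lf 0 151253 0)))) (P.cons (P.cons (P.lf 366055122 0 0) (P.cons (P.lf 0 7680039 0) (P.cons (P.lf 0 260570 0) (P.lf 12405 0 0)))) (P.cons (P.cons (P.lf 31344243 0 0) (P.cons (P.lf 0 2946044 0) (P.cons (P.lf 0 99950 0) (P.lf 4752 0 0)))) (P.cons (P.cons (P.lf 0 6126110 0) (P.cons (P.lf 11942 0 0) (P.cons (P.lf 406 0 0) P.nil))) (P.cons (P.cons (P.lf 0 301274 0) (P.cons (P.lf 22193 0 0) P.nil)) (P.cons (P.cons (P.lf 34278 0 0) P.nil) P.nil)))))) 6038)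
 (EL.cons 5 (TM.mk (P.cons (P.cons (P.lf 2150289617 0 0) (P.cons (P.lf 0 192726274 0) (P.cons (P.lf 0 6538976 0) (P.lf 311384 0 0)))) (P.cons (P.cons (P.lf 0 157156522 0) (P.cons (P.lf 112478 0 0) (P.cons (P.lf 3808 0 0) (P.lf 0 180 0)))) (P.cons (P.cons (P.lf 0 483865 0) (P.cons (P.lf 629146 0 0) (P.cons (P.lf 21352 0 0) (P.lf 0 1020 0)))) (P.cons (P.cons (P.lf 2343420 0 0) (P.cons (P.lf 0 96396 0) (P.cons (P.lf 0 3264 0) P.nil))) (P.cons (P.cons (P.lf 0 170369 0) (P.cons (P.lf 0 2946 0) P.nil)) (P.cons (P.cons (P.lf 0 14047 0) P.nil) P.nil)))))) 7226)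
 (EL.cons 9 (TM.mk (P.cons (P.cons (P.lf 3048176923 0 0) (P.cons (P.lf 0 242253384 0) (P.cons (P.lf 0 8219364 0) (P.lf 391392 0 0)))) (P.cons (P.cons (P.lf 12940429 0 0) (P.cons (P.lf 0 15188526 0) (P.cons (P.lf 0 515328 0) (P.lf 24534 0 0)))) (P.cons (P.cons (P.lf 0 40262085 0) (P.cons (P.lf 1088358 0 0) (P.cons (P.lf 36924 0 0) (P.lf 0 1758 0)))) (P.cons (P.cons (P.lf 405522 0 0) (P.cons (P.lf 86754 0 0) (P.cons (P.lf 2940 0 0) P.nil))) (P.cons (P.cons (P.lf 154870 0 0) (P.cons (P.lf 0 2004 0) P.nil)) (P.cons (P.cons (P.lf 544 0 0) P.nil) P.nil)))))) 1640)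
 (EL.cons 2 (TM.mk (P.cons (P.cons (P.lf 593417930 0 0) (P.cons (P.lf 45870415 0 0) (P.cons (P.lf 0 2896284 0) (P.cons (P.lf 0 54309 0) (P.lf 1937 0 0))))) (P.cons (P.cons (P.lf 0 91088215 0) (P.cons (P.lf 0 7040995 0) (P.cons (P.lf 444571 0 0) (P.cons (P.lf 8336 0 0) (P.lf 0 295 0))))) (P.cons (P.cons (P.lf 0 8681698 0) (P.cons (P.lf 0 671082 0) (P.cons (P.lf 42370 0 0) (P.cons (P.lf 793 0 0) P.nil)))) (P.cons (P.cons (P.lf 328047 0 0) (P.cons (P.lf 25357 0 0) (P.cons (P.lf 0 1600 0) P.nil))) (P.cons (P.cons (P.lf 35505 0 0) (P.cons (P.lf 2742 0 0) P.nil)) (P.cons (P.cons (P.lf 0 410 0) P.nil) P.nil)))))) 687)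
 (EL.cons 6 (TM.mk (P.cons (P.cons (P.lf 1081678407 0 0) (P.cons (P.lf 83612298 0 0) (P.cons (P.lf 0 5279331 0) (P.cons (P.lf 0 98994 0) (P.lf 3534 0 0))))) (P.cons (P.cons (P.lf 67817862 0 0) (P.cons (P.lf 5242230 0 0) (P.cons (P.lf 0 330996 0) (P.cons (P.lf 0 6204 0) (P.lf 219 0 0))))) (P.cons (P.cons (P.lf 0 4859607 0) (P.cons (P.lf 0 375639 0) (P.cons (P.lf 23715 0 0) (P.cons (P.lf 444 0 0) P.nil)))) (P.cons (P.cons (P.lf 0 387366 0) (P.cons (P.lf 0 29940 0) (P.cons (P.lf 1890 0 0) P.nil))) (P.cons (P.cons (P.lf 8952 0 0) (P.cons (P.lf 690 0 0) P.nil)) (P.cons (P.cons (P.lf 1125 0 0) P.nil) P.nil)))))) 519)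
 EL.nil))))))
noncomputable def S212_227_364_401_2 : EL := (EL.cons 0 (TM.mk (P.cons (P.cons (P.lf 1709102211 0 0) (P.cons (P.lf 0 213556483 0) (P.cons (P.lf 0 1068461 0) (P.cons (P.lf 764209 0 0) (P.cons (P.lf 0 12859 0) (P.cons (P.lf 0 679 0) P.nil)))))) (P.cons (P.cons (P.lf 406013250 0 0) (P.cons (P.lf 0 73811282 0) (P.cons (P.lf 527420 0 0) (P.cons (P.lf 324966 0 0) (P.cons (P.lf 0 6294 0) P.nil))))) (P.cons (P.cons (P.lf 0 113784241 0) (P.cons (P.lf 7792517 0 0) (P.cons (P.lf 330862 0 0) (P.cons (P.lf 0 8090 0) P.nil)))) (P.cons (P.cons (P.lf 0 9789744 0) (P.cons (P.lf 1846130 0 0) (P.cons (P.lf 11219 0 0) P.nil))) (P.cons (P.cons (P.lf 2111892 0 0) (P.cons (P.lf 0 77926 0) P.nil)) (P.cons (P.cons (P.lf 102568 0 0) P.nil) P.nil)))))) 69060)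
 (EL.cons 1 (TM.mk (P.cons (P.cons (P.lf 0 281458230 0) (P.cons (P.lf 92027222 0 0) (P.cons (P.lf 0 2413717 0) (P.cons (P.lf 0 524340 0) (P.cons (P.lf 11510 0 0) (P.cons (P.lf 604 0 0) P.nil)))))) (P.cons (P.cons (P.lf 304658117 0 0) (P.cons (P.lf 0 27761953 0) (P.cons (P.lf 0 879516 0) (P.cons (P.lf 49088 0 0) (P.cons (P.lf 0 129 0) P.nil))))) (P.cons (P.cons (P.lf 29196946 0 0) (P.cons (P.lf 0 6812546 0) (P.cons (P.lf 4134 0 0) (P.cons (P.lf 26956 0 0) P.nil)))) (P.cons (P.cons (P.lf 0 9094035 0) (P.cons (P.lf 460561 0 0) (P.cons (P.lf 26904 0 0) P.nil))) (P.cons (P.cons (P.lf 0 558564 0) (P.cons (P.lf 113882 0 0) P.nil)) (P.cons (P.cons (P.lf 113873 0 0) P.nil) P.nil)))))) 32366)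
 (EL.cons 5 (TM.mk (P.cons (P.cons (P.lf 1026826588 0 0) (P.cons (P.lf 0 183873243 0) (P.cons (P.lf 1888997 0 0) (P.cons (P.lf 848598 0 0) (P.cons (P.lf 0 16904 0) (P.cons (P.lf 0 877 0) P.nil)))))) (P.cons (P.cons (P.lf 0 130482294 0) (P.cons (P.lf 8852133 0 0) (P.cons (P.lf 516944 0 0) (P.cons (P.lf 400 0 0) (P.cons (P.lf 0 462 0) P.nil))))) (P.cons (P.cons (P.lf 0 2692987 0) (P.cons (P.lf 1759042 0 0) (P.cons (P.lf 0 16129 0) (P.cons (P.lf 0 7982 0) P.nil)))) (P.cons (P.cons (P.lf 3732378 0 0) (P.cons (P.lf 0 377800 0) (P.cons (P.lf 0 7744 0) P.nil))) (P.cons (P.cons (P.lf 0 297779 0) (P.cons (P.lf 0 4848 0) P.nil)) (P.cons (P.cons (P.lf 0 40918 0) P.nil) P.nil)))))) 34277)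
 (EL.cons 9 (TM.mk (P.cons (P.cons (P.lf 1442212386 0 0) (P.cons (P.lf 0 229239207 0) (P.cons (P.lf 1331565 0 0) (P.cons (P.lf 988506 0 0) (P.cons (P.lf 0 18948 0) (P.cons (P.lf 0 997 0) P.nil)))))) (P.cons (P.cons (P.lf 12245251 0 0) (P.cons (P.lf 0 15345766 0) (P.cons (P.lf 621594 0 0) (P.cons (P.lf 102298 0 0) (P.cons (P.lf 0 2374 0) P.nil))))) (P.cons (P.cons (P.lf 0 38073159 0) (P.cons (P.lf 3996798 0 0) (P.cons (P.lf 89560 0 0) (P.cons (P.lf 0 9580 0) P.nil)))) (P.cons (P.cons (P.lf 221994 0 0) (P.cons (P.lf 245809 0 0) (P.cons (P.lf 0 3318 0) P.nil))) (P.cons (P.cons (P.lf 399796 0 0) (P.cons (P.lf 0 28710 0) P.nil)) (P.cons (P.cons (P.lf 0 3930 0) P.nil) P.nil)))))) 9599)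
 (EL.cons 2 (TM.mk (P.cons (P.cons (P.lf 561538721 0 0) (P.cons (P.lf 0 1222003 0) (P.cons (P.lf 0 7704573 0) (P.cons (P.lf 121477 0 0) (P.cons (P.lf 18877 0 0) (P.cons (P.lf 0 354 0) P.nil)))))) (P.cons (P.cons (P.lf 0 83810930 0) (P.cons (P.lf 0 2426197 0) (P.cons (P.lf 859775 0 0) (P.cons (P.lf 0 8026 0) (P.cons (P.lf 0 1816 0) P.nil))))) (P.cons (P.cons (P.lf 0 15998355 0) (P.cons (P.lf 46248 0 0) (P.cons (P.lf 220770 0 0) (P.cons (P.lf 0 3504 0) P.nil)))) (P.cons (P.cons (P.lf 1488763 0 0) (P.cons (P.lf 116550 0 0) (P.cons (P.lf 0 7098 0) P.nil))) (P.cons (P.cons (P.lf 160486 0 0) (P.cons (P.lf 2430 0 0) P.nil)) (P.cons (P.cons (P.lf 0 9714 0) P.nil) P.nil)))))) 7683)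
 (EL.cons 6 (TM.mk (P.cons (P.cons (P.lf 1023569190 0 0) (P.cons (P.lf 0 2227464 0) (P.cons (P.lf 0 14043846 0) (P.cons (P.lf 221430 0 0) (P.cons (P.lf 34416 0 0) (P.cons (P.lf 0 648 0) P.nil)))))) (P.cons (P.cons (P.lf 68519952 0 0) (P.cons (P.lf 0 4904022 0) (P.cons (P.lf 0 1468998 0) (P.cons (P.lf 33240 0 0) (P.cons (P.lf 4116 0 0) P.nil))))) (P.cons (P.cons (P.lf 0 17845992 0) (P.cons (P.lf 0 968304 0) (P.cons (P.lf 132828 0 0) (P.cons (P.lf 36 0 0) P.nil)))) (P.cons (P.cons (P.lf 0 1097556 0) (P.cons (P.lf 19248 0 0) (P.cons (P.lf 16926 0 0) P.nil))) (P.cons (P.cons (P.lf 128196 0 0) (P.cons (P.lf 10572 0 0) P.nil)) (P.cons (P.cons (P.lf 8772 0 0) P.nil) P.nil)))))) 5940)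
 EL.nil))))))
noncomputable def S212_227_364_401_3 : EL := (EL.cons 0 (TM.mk (P.cons (P.lf 583851700 0 0) (P.cons (P.lf 0 228047217 0) (P.cons (P.lf 18724113 0 0) (P.cons (P.lf 894670 0 0) (P.cons (P.lf 0 28400 0) (P.cons (P.lf 0 1893 0) P.nil)))))) 140)
 (EL.cons 1 (TM.mk (P.cons (P.lf 1064241138 0 0) (P.cons (P.lf 0 185599968 0) (P.cons (P.lf 0 9632411 0) (P.cons (P.lf 474855 0 0) (P.cons (P.lf 25702 0 0) (P.cons (P.lf 0 519 0) P.nil)))))) 134)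
 (EL.cons 5 (TM.mk (P.cons (P.lf 1939891930 0 0) (P.cons (P.lf 81083452 0 0) (P.cons (P.lf 0 6657460 0) (P.cons (P.lf 0 318104 0) (P.cons (P.lf 10096 0 0) (P.cons (P.lf 672 0 0) P.nil)))))) 136)
 EL.nil)))
noncomputable def S212_227_364_401_4 : EL := (EL.cons 0 (TM.mk (P.cons (P.cons (P.lf 276243201 0 0) (P.cons (P.lf 0 21954383 0) (P.cons (P.lf 0 744885 0) (P.lf 35469 0 0)))) (P.cons (P.cons (P.lf 0 106725371 0) (P.cons (P.lf 7198713 0 0) (P.cons (P.lf 244242 0 0) (P.lf 0 11629 0)))) (P.cons (P.cons (P.lf 4752274 0 0) (P.cons (P.lf 0 67805 0) (P.cons (P.lf 0 2299 0) (P.lf 108 0 0)))) (P.cons (P.cons (P.lf 1922842 0 0) (P.cons (P.lf 0 108448 0) (P.cons (P.lf 0 3679 0) P.nil))) (P.cons (P.cons (P.lf 0 128975 0) (P.cons (P.lf 0 1130 0) P.nil)) (P.cons (P.cons (P.lf 0 10796 0) P.nil) P.nil)))))) 2253)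
 (EL.cons 1 (TM.mk (P.cons (P.cons (P.lf 503534338 0 0) (P.cons (P.lf 0 40018312 0) (P.cons (P.lf 0 1357771 0) (P.lf 64653 0 0)))) (P.cons (P.cons (P.lf 0 85676988 0) (P.cons (P.lf 4470031 0 0) (P.cons (P.lf 151661 0 0) (P.lf 0 7220 0)))) (P.cons (P.cons (P.lf 0 11581243 0) (P.cons (P.lf 979556 0 0) (P.cons (P.lf 33232 0 0) (P.lf 0 1580 0)))) (P.cons (P.cons (P.lf 1432218 0 0) (P.cons (P.lf 0 12168 0) (P.cons (P.lf 0 412 0) P.nil))) (P.cons (P.cons (P.lf 87211 0 0) (P.cons (P.lf 0 6541 0) P.nil)) (P.cons (P.cons (P.lf 0 8139 0) P.nil) P.nil)))))) 1588)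
 (EL.cons 5 (TM.mk (P.cons (P.cons (P.lf 917839166 0 0) (P.cons (P.lf 0 72945122 0) (P.cons (P.lf 0 2474938 0) (P.lf 117850 0 0)))) (P.cons (P.cons (P.lf 42260274 0 0) (P.cons (P.lf 0 7622384 0) (P.cons (P.lf 0 258616 0) (P.lf 12312 0 0)))) (P.cons (P.cons (P.lf 0 15110390 0) (P.cons (P.lf 386894 0 0) (P.cons (P.lf 13124 0 0) (P.lf 0 624 0)))) (P.cons (P.cons (P.lf 0 548502 0) (P.cons (P.lf 67476 0 0) (P.cons (P.lf 2286 0 0) P.nil))) (P.cons (P.cons (P.lf 97480 0 0) (P.cons (P.lf 0 264 0) P.nil)) (P.cons (P.cons (P.lf 4020 0 0) P.nil) P.nil)))))) 1380)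
 EL.nil)))
noncomputable def S212_227_364_401_5 : EL := (EL.cons 0 (TM.mk (P.cons (P.cons (P.lf 130701522 0 0) (P.cons (P.lf 0 20774965 0) (P.cons (P.lf 120673 0 0) (P.cons (P.lf 89583 0 0) (P.cons (P.lf 0 1715 0) (P.cons (P.lf 0 89 0) P.nil)))))) (P.cons (P.cons (P.lf 0 49941101 0) (P.cons (P.lf 6723792 0 0) (P.cons (P.lf 9196 0 0) (P.cons (P.lf 0 25718 0) (P.cons (P.lf 455 0 0) P.nil))))) (P.cons (P.cons (P.lf 307734 0 0) (P.cons (P.lf 239162 0 0) (P.cons (P.lf 0 10016 0) (P.cons (P.lf 0 1615 0) P.nil)))) (P.cons (P.cons (P.lf 1603685 0 0) (P.cons (P.lf 0 195633 0) (P.cons (P.lf 0 1478 0) P.nil))) (P.cons (P.cons (P.lf 0 86937 0) (P.cons (P.lf 0 806 0) P.nil)) (P.cons (P.cons (P.lf 0 19627 0) P.nil) P.nil)))))) 6989)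
 (EL.cons 1 (TM.mk (P.cons (P.cons (P.lf 238241898 0 0) (P.cons (P.lf 0 37868475 0) (P.cons (P.lf 219961 0 0) (P.cons (P.lf 163291 0 0) (P.cons (P.lf 0 3127 0) (P.cons (P.lf 0 163 0) P.nil)))))) (P.cons (P.cons (P.lf 0 39525744 0) (P.cons (P.lf 4069132 0 0) (P.cons (P.lf 64320 0 0) (P.cons (P.lf 0 11578 0) (P.cons (P.lf 151 0 0) P.nil))))) (P.cons (P.cons (P.lf 0 8798471 0) (P.cons (P.lf 1445079 0 0) (P.cons (P.lf 0 5101 0) (P.cons (P.lf 0 6005 0) P.nil)))) (P.cons (P.cons (P.lf 1221510 0 0) (P.cons (P.lf 0 68488 0) (P.cons (P.lf 0 3958 0) P.nil))) (P.cons (P.cons (P.lf 123228 0 0) (P.cons (P.lf 0 19843 0) P.nil)) (P.cons (P.cons (P.lf 0 15371 0) P.nil) P.nil)))))) 5804)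
 (EL.cons 5 (TM.mk (P.cons (P.cons (P.lf 434265806 0 0) (P.cons (P.lf 0 69026412 0) (P.cons (P.lf 400948 0 0) (P.cons (P.lf 297648 0 0) (P.cons (P.lf 0 5704 0) (P.cons (P.lf 0 300 0) P.nil)))))) (P.cons (P.cons (P.lf 21838586 0 0) (P.cons (P.lf 0 7505936 0) (P.cons (P.lf 203926 0 0) (P.cons (P.lf 43242 0 0) (P.cons (P.lf 0 952 0) P.nil))))) (P.cons (P.cons (P.lf 0 12800468 0) (P.cons (P.lf 1247228 0 0) (P.cons (P.lf 33414 0 0) (P.cons (P.lf 0 2618 0) P.nil)))) (P.cons (P.cons (P.lf 0 496200 0) (P.cons (P.lf 151494 0 0) (P.cons (P.lf 0 578 0) P.nil))) (P.cons (P.cons (P.lf 164176 0 0) (P.cons (P.lf 0 9282 0) P.nil)) (P.cons (P.cons (P.lf 5668 0 0) P.nil) P.nil)))))) 5214)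
 EL.nil)))
noncomputable def S212_227_364_401_6 : EL := (EL.cons 12 (TM.mk (P.lf 8589934592 0 0) 0)
 (EL.cons 3 (TM.mk (P.cons (P.lf 0 1119737460 0) (P.cons (P.lf 218679686 0 0) (P.cons (P.lf 3398598 0 0) (P.cons (P.lf 0 194190 0) (P.cons (P.lf 0 5531 0) (P.cons (P.lf 146 0 0) P.nil)))))) 52)
 (EL.cons 7 (TM.mk (P.cons (P.lf 0 2041050269 0) (P.cons (P.lf 0 42655831 0) (P.cons (P.lf 3948043 0 0) (P.cons (P.lf 84836 0 0) (P.cons (P.lf 0 3266 0) (P.cons (P.lf 0 122 0) P.nil)))))) 52)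
 EL.nil)))
noncomputable def S212_227_364_401_7 : EL := (EL.cons 12 (TM.mk (P.cons (P.cons (P.lf 4064235898 0 0) (P.cons (P.lf 0 323004512 0) (P.cons (P.lf 0 10959152 0) (P.lf 521856 0 0)))) (P.cons (P.cons (P.lf 17253906 0 0) (P.cons (P.lf 0 20251368 0) (P.cons (P.lf 0 687104 0) (P.lf 32712 0 0)))) (P.cons (P.cons (P.lf 0 53682780 0) (P.cons (P.lf 1451144 0 0) (P.cons (P.lf 49232 0 0) (P.lf 0 2344 0)))) (P.cons (P.cons (P.lf 540696 0 0) (P.cons (P.lf 115672 0 0) (P.cons (P.lf 3920 0 0) P.nil))) (P.cons (P.cons (P.lf 206494 0 0) (P.cons (P.lf 0 2672 0) P.nil)) (P.cons (P.cons (P.lf 726 0 0) P.nil) P.nil)))))) 2162)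
 (EL.cons 3 (TM.mk (P.cons (P.cons (P.lf 0 422172720 0) (P.cons (P.lf 0 84210244 0) (P.cons (P.lf 0 2857150 0) (P.lf 136050 0 0)))) (P.cons (P.cons (P.lf 0 567309211 0) (P.cons (P.lf 11166162 0 0) (P.cons (P.lf 378852 0 0) (P.lf 0 18040 0)))) (P.cons (P.cons (P.lf 11868474 0 0) (P.cons (P.lf 1665024 0 0) (P.cons (P.lf 56490 0 0) (P.lf 0 2688 0)))) (P.cons (P.cons (P.lf 4475815 0 0) (P.cons (P.lf 0 42306 0) (P.cons (P.lf 0 1436 0) P.nil))) (P.cons (P.cons (P.lf 29358 0 0) (P.cons (P.lf 0 9064 0) P.nil)) (P.cons (P.cons (P.lf 0 16324 0) P.nil) P.nil)))))) 4146)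
 (EL.cons 7 (TM.mk (P.cons (P.cons (P.lf 0 986693434 0) (P.cons (P.lf 101388128 0 0) (P.cons (P.lf 3439981 0 0) (P.lf 0 163813 0)))) (P.cons (P.cons (P.lf 110659777 0 0) (P.cons (P.lf 0 2178077 0) (P.cons (P.lf 0 73899 0) (P.lf 3517 0 0)))) (P.cons (P.cons (P.lf 0 14277082 0) (P.cons (P.lf 0 89338 0) (P.cons (P.lf 0 3032 0) (P.lf 145 0 0)))) (P.cons (P.cons (P.lf 0 413330 0) (P.cons (P.lf 52580 0 0) (P.cons (P.lf 1782 0 0) P.nil))) (P.cons (P.cons (P.lf 124279 0 0) (P.cons (P.lf 26 0 0) P.nil)) (P.cons (P.cons (P.lf 2786 0 0) P.nil) P.nil)))))) 4159)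
 (EL.cons 10 (TM.mk (P.cons (P.cons (P.lf 0 2276168037 0) (P.cons (P.lf 0 175944756 0) (P.cons (P.lf 11109261 0 0) (P.cons (P.lf 208317 0 0) (P.lf 0 7437 0))))) (P.cons (P.cons (P.lf 0 95139093 0) (P.cons (P.lf 0 7354125 0) (P.cons (P.lf 464343 0 0) (P.cons (P.lf 8706 0 0) (P.lf 0 309 0))))) (P.cons (P.cons (P.lf 7811514 0 0) (P.cons (P.lf 603819 0 0) (P.cons (P.lf 0 38124 0) (P.cons (P.lf 0 714 0) P.nil)))) (P.cons (P.cons (P.lf 373245 0 0) (P.cons (P.lf 28851 0 0) (P.cons (P.lf 0 1821 0) P.nil))) (P.cons (P.cons (P.lf 0 11844 0) (P.cons (P.lf 0 915 0) P.nil)) (P.cons (P.cons (P.lf 0 786 0) P.nil) P.nil)))))) 465)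
 EL.nil))))
noncomputable def S212_227_364_401_8 : EL := (EL.cons 12 (TM.mk (P.cons (P.cons (P.lf 1922949848 0 0) (P.cons (P.lf 0 305652276 0) (P.cons (P.lf 1775420 0 0) (P.cons (P.lf 1318008 0 0) (P.cons (P.lf 0 25264 0) (P.cons (P.lf 0 1330 0) P.nil)))))) (P.cons (P.cons (P.lf 16327002 0 0) (P.cons (P.lf 0 20461022 0) (P.cons (P.lf 828792 0 0) (P.cons (P.lf 136398 0 0) (P.cons (P.lf 0 3166 0) P.nil))))) (P.cons (P.cons (P.lf 0 50764212 0) (P.cons (P.lf 5329064 0 0) (P.cons (P.lf 119414 0 0) (P.cons (P.lf 0 12774 0) P.nil)))) (P.cons (P.cons (P.lf 295992 0 0) (P.cons (P.lf 327746 0 0) (P.cons (P.lf 0 4424 0) P.nil))) (P.cons (P.cons (P.lf 533062 0 0) (P.cons (P.lf 0 38280 0) P.nil)) (P.cons (P.cons (P.lf 0 5240 0) P.nil) P.nil)))))) 12770)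
 (EL.cons 3 (TM.mk (P.cons (P.cons (P.lf 0 148827687 0) (P.cons (P.lf 0 87779887 0) (P.cons (P.lf 4938058 0 0) (P.cons (P.lf 678998 0 0) (P.cons (P.lf 0 16466 0) (P.cons (P.lf 0 866 0) P.nil)))))) (P.cons (P.cons (P.lf 0 585354081 0) (P.cons (P.lf 59997300 0 0) (P.cons (P.lf 1482264 0 0) (P.cons (P.lf 0 134480 0) (P.cons (P.lf 1151 0 0) P.nil))))) (P.cons (P.cons (P.lf 6434796 0 0) (P.cons (P.lf 5649192 0 0) (P.cons (P.lf 0 66233 0) (P.cons (P.lf 0 26622 0) P.nil)))) (P.cons (P.cons (P.lf 12688627 0 0) (P.cons (P.lf 0 870879 0) (P.cons (P.lf 0 33501 0) P.nil))) (P.cons (P.cons (P.lf 0 110649 0) (P.cons (P.lf 0 82618 0) P.nil)) (P.cons (P.cons (P.lf 0 112662 0) P.nil) P.nil)))))) 29533)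
 (EL.cons 7 (TM.mk (P.cons (P.cons (P.lf 0 476775739 0) (P.cons (P.lf 97520149 0 0) (P.cons (P.lf 0 1430216 0) (P.cons (P.lf 0 479137 0) (P.cons (P.lf 9854 0 0) (P.cons (P.lf 514 0 0) P.nil)))))) (P.cons (P.cons (P.lf 114179622 0 0) (P.cons (P.lf 0 11703117 0) (P.cons (P.lf 0 289127 0) (P.cons (P.lf 26230 0 0) (P.cons (P.lf 0 221 0) P.nil))))) (P.cons (P.cons (P.lf 0 13597665 0) (P.cons (P.lf 163136 0 0) (P.cons (P.lf 44167 0 0) (P.cons (P.lf 2363 0 0) P.nil)))) (P.cons (P.cons (P.lf 0 2164079 0) (P.cons (P.lf 315359 0 0) (P.cons (P.lf 4336 0 0) P.nil))) (P.cons (P.cons (P.lf 412916 0 0) (P.cons (P.lf 0 12501 0) P.nil)) (P.cons (P.cons (P.lf 13458 0 0) P.nil) P.nil)))))) 20491)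
 (EL.cons 10 (TM.mk (P.cons (P.cons (P.lf 0 2153889240 0) (P.cons (P.lf 4687242 0 0) (P.cons (P.lf 29552370 0 0) (P.cons (P.lf 0 465966 0) (P.cons (P.lf 0 72426 0) (P.cons (P.lf 1374 0 0) P.nil)))))) (P.cons (P.cons (P.lf 0 99172002 0) (P.cons (P.lf 10221552 0 0) (P.cons (P.lf 2473596 0 0) (P.cons (P.lf 0 60210 0) (P.cons (P.lf 0 7152 0) P.nil))))) (P.cons (P.cons (P.lf 35459484 0 0) (P.cons (P.lf 1833042 0 0) (P.cons (P.lf 0 274044 0) (P.cons (P.lf 270 0 0) P.nil)))) (P.cons (P.cons (P.lf 1287168 0 0) (P.cons (P.lf 0 58848 0) (P.cons (P.lf 0 23886 0) P.nil))) (P.cons (P.cons (P.lf 0 228750 0) (P.cons (P.lf 0 17058 0) P.nil)) (P.cons (P.cons (P.lf 0 9432 0) P.nil) P.nil)))))) 8850)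
 EL.nil))))
noncomputable def S212_227_364_401_9 : EL := (EL.cons 3 (TM.mk (P.cons (P.lf 0 1119737460 0) (P.cons (P.lf 218679686 0 0) (P.cons (P.lf 3398598 0 0) (P.cons (P.lf 0 194190 0) (P.cons (P.lf 0 5531 0) (P.cons (P.lf 146 0 0) P.nil)))))) 52)
 (EL.cons 7 (TM.mk (P.cons (P.lf 0 2041050269 0) (P.cons (P.lf 0 42655831 0) (P.cons (P.lf 3948043 0 0) (P.cons (P.lf 84836 0 0) (P.cons (P.lf 0 3266 0) (P.cons (P.lf 0 122 0) P.nil)))))) 52)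
 EL.nil))
noncomputable def S212_227_364_401_10 : EL := (EL.cons 3 (TM.mk (P.cons (P.cons (P.lf 0 529791831 0) (P.cons (P.lf 42105122 0 0) (P.cons (P.lf 1428575 0 0) (P.lf 0 68025 0)))) (P.cons (P.cons (P.lf 101216834 0 0) (P.cons (P.lf 0 5583081 0) (P.cons (P.lf 0 189426 0) (P.lf 9020 0 0)))) (P.cons (P.cons (P.lf 9045051 0 0) (P.cons (P.lf 0 832512 0) (P.cons (P.lf 0 28245 0) (P.lf 1344 0 0)))) (P.cons (P.cons (P.lf 0 1522172 0) (P.cons (P.lf 21153 0 0) (P.cons (P.lf 718 0 0) P.nil))) (P.cons (P.cons (P.lf 0 37398 0) (P.cons (P.lf 4532 0 0) P.nil)) (P.cons (P.cons (P.lf 6647 0 0) P.nil) P.nil)))))) 953)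
 (EL.cons 7 (TM.mk (P.cons (P.cons (P.lf 0 965701156 0) (P.cons (P.lf 76748948 0 0) (P.cons (P.lf 2603998 0 0) (P.lf 0 123997 0)))) (P.cons (P.cons (P.lf 0 24281843 0) (P.cons (P.lf 6415891 0 0) (P.cons (P.lf 217683 0 0) (P.lf 0 10364 0)))) (P.cons (P.cons (P.lf 14537834 0 0) (P.cons (P.lf 0 392698 0) (P.cons (P.lf 0 13322 0) (P.lf 634 0 0)))) (P.cons (P.cons (P.lf 186172 0 0) (P.cons (P.lf 0 47188 0) (P.cons (P.lf 0 1599 0) P.nil))) (P.cons (P.cons (P.lf 0 77798 0) (P.cons (P.lf 650 0 0) P.nil)) (P.cons (P.cons (P.lf 0 1543 0) P.nil) P.nil)))))) 885)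
 EL.nil))
noncomputable def S212_227_364_401_11 : EL := (EL.cons 3 (TM.mk (P.cons (P.cons (P.lf 0 250665351 0) (P.cons (P.lf 39843179 0 0) (P.cons (P.lf 0 231434 0) (P.cons (P.lf 0 171808 0) (P.cons (P.lf 3292 0 0) (P.cons (P.lf 172 0 0) P.nil)))))) (P.cons (P.cons (P.lf 46825515 0 0) (P.cons (P.lf 0 5114004 0) (P.cons (P.lf 0 62838 0) (P.cons (P.lf 15772 0 0) (P.cons (P.lf 0 229 0) P.nil))))) (P.cons (P.cons (P.lf 7793808 0 0) (P.cons (P.lf 0 1336488 0) (P.cons (P.lf 6235 0 0) (P.cons (P.lf 5658 0 0) P.nil)))) (P.cons (P.cons (P.lf 0 1367933 0) (P.cons (P.lf 91755 0 0) (P.cons (P.lf 3903 0 0) P.nil))) (P.cons (P.cons (P.lf 0 83643 0) (P.cons (P.lf 16100 0 0) P.nil)) (P.cons (P.cons (P.lf 15540 0 0) P.nil) P.nil)))))) 4449)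
 (EL.cons 7 (TM.mk (P.cons (P.cons (P.lf 0 456911197 0) (P.cons (P.lf 72625891 0 0) (P.cons (P.lf 0 421856 0) (P.cons (P.lf 0 313171 0) (P.cons (P.lf 6002 0 0) (P.cons (P.lf 316 0 0) P.nil)))))) (P.cons (P.cons (P.lf 0 13428420 0) (P.cons (P.lf 6379539 0 0) (P.cons (P.lf 0 205745 0) (P.cons (P.lf 0 38954 0) (P.cons (P.lf 877 0 0) P.nil))))) (P.cons (P.cons (P.lf 12864795 0 0) (P.cons (P.lf 0 1305112 0) (P.cons (P.lf 0 31673 0) (P.cons (P.lf 2963 0 0) P.nil)))) (P.cons (P.cons (P.lf 208249 0 0) (P.cons (P.lf 0 116761 0) (P.cons (P.lf 856 0 0) P.nil))) (P.cons (P.cons (P.lf 0 152032 0) (P.cons (P.lf 9831 0 0) P.nil)) (P.cons (P.cons (P.lf 0 1800 0) P.nil) P.nil)))))) 4143)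
 EL.nil))
noncomputable def S212_227_364_401_12 : EL := (EL.cons 4 (TM.mk (P.cons (P.lf 1119737460 0 0) (P.cons (P.lf 0 218679686 0) (P.cons (P.lf 0 3398598 0) (P.cons (P.lf 194190 0 0) (P.cons (P.lf 5531 0 0) (P.cons (P.lf 0 146 0) P.nil)))))) 52)
 (EL.cons 8 (TM.mk (P.cons (P.lf 2041050269 0 0) (P.cons (P.lf 42655831 0 0) (P.cons (P.lf 0 3948043 0) (P.cons (P.lf 0 84836 0) (P.cons (P.lf 3266 0 0) (P.cons (P.lf 122 0 0) P.nil)))))) 52)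
 EL.nil))
noncomputable def S212_227_364_401_13 : EL := (EL.cons 4 (TM.mk (P.cons (P.cons (P.lf 529791831 0 0) (P.cons (P.lf 0 42105122 0) (P.cons (P.lf 0 1428575 0) (P.lf 68025 0 0)))) (P.cons (P.cons (P.lf 0 101216834 0) (P.cons (P.lf 5583081 0 0) (P.cons (P.lf 189426 0 0) (P.lf 0 9020 0)))) (P.cons (P.cons (P.lf 0 9045051 0) (P.cons (P.lf 832512 0 0) (P.cons (P.lf 28245 0 0) (P.lf 0 1344 0)))) (P.cons (P.cons (P.lf 1522172 0 0) (P.cons (P.lf 0 21153 0) (P.cons (P.lf 0 718 0) P.nil))) (P.cons (P.cons (P.lf 37398 0 0) (P.cons (P.lf 0 4532 0) P.nil)) (P.cons (P.cons (P.lf 0 6647 0) P.nil) P.nil)))))) 953)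
 (EL.cons 8 (TM.mk (P.cons (P.cons (P.lf 965701156 0 0) (P.cons (P.lf 0 76748948 0) (P.cons (P.lf 0 2603998 0) (P.lf 123997 0 0)))) (P.cons (P.cons (P.lf 24281843 0 0) (P.cons (P.lf 0 6415891 0) (P.cons (P.lf 0 217683 0) (P.lf 10364 0 0)))) (P.cons (P.cons (P.lf 0 14537834 0) (P.cons (P.lf 392698 0 0) (P.cons (P.lf 13322 0 0) (P.lf 0 634 0)))) (P.cons (P.cons (P.lf 0 186172 0) (P.cons (P.lf 47188 0 0) (P.cons (P.lf 1599 0 0) P.nil))) (P.cons (P.cons (P.lf 77798 0 0) (P.cons (P.lf 0 650 0) P.nil)) (P.cons (P.cons (P.lf 1543 0 0) P.nil) P.nil)))))) 885)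
 EL.nil))
noncomputable def S212_227_364_401_14 : EL := (EL.cons 4 (TM.mk (P.cons (P.cons (P.lf 250665351 0 0) (P.cons (P.lf 0 39843179 0) (P.cons (P.lf 231434 0 0) (P.cons (P.lf 171808 0 0) (P.cons (P.lf 0 3292 0) (P.cons (P.lf 0 172 0) P.nil)))))) (P.cons (P.cons (P.lf 0 46825515 0) (P.cons (P.lf 5114004 0 0) (P.cons (P.lf 62838 0 0) (P.cons (P.lf 0 15772 0) (P.cons (P.lf 229 0 0) P.nil))))) (P.cons (P.cons (P.lf 0 7793808 0) (P.cons (P.lf 1336488 0 0) (P.cons (P.lf 0 6235 0) (P.cons (P.lf 0 5658 0) P.nil)))) (P.cons (P.cons (P.lf 1367933 0 0) (P.cons (P.lf 0 91755 0) (P.cons (P.lf 0 3903 0) P.nil))) (P.cons (P.cons (P.lf 83643 0 0) (P.cons (P.lf 0 16100 0) P.nil)) (P.cons (P.cons (P.lf 0 15540 0) P.nil) P.nil)))))) 4449)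
 (EL.cons 8 (TM.mk (P.cons (P.cons (P.lf 456911197 0 0) (P.cons (P.lf 0 72625891 0) (P.cons (P.lf 421856 0 0) (P.cons (P.lf 313171 0 0) (P.cons (P.lf 0 6002 0) (P.cons (P.lf 0 316 0) P.nil)))))) (P.cons (P.cons (P.lf 13428420 0 0) (P.cons (P.lf 0 6379539 0) (P.cons (P.lf 205745 0 0) (P.cons (P.lf 38954 0 0) (P.cons (P.lf 0 877 0) P.nil))))) (P.cons (P.cons (P.lf 0 12864795 0) (P.cons (P.lf 1305112 0 0) (P.cons (P.lf 31673 0 0) (P.cons (P.lf 0 2963 0) P.nil)))) (P.cons (P.cons (P.lf 0 208249 0) (P.cons (P.lf 116761 0 0) (P.cons (P.lf 0 856 0) P.nil))) (P.cons (P.cons (P.lf 152032 0 0) (P.cons (P.lf 0 9831 0) P.nil)) (P.cons (P.cons (P.lf 1800 0 0) P.nil) P.nil)))))) 4143)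
 EL.nil))
noncomputable def S212_227_364_401_15 : EL := (EL.cons 4 (TM.mk (P.cons (P.lf 0 311387573 0) (P.cons (P.lf 121625182 0 0) (P.cons (P.lf 0 9986193 0) (P.cons (P.lf 0 477157 0) (P.cons (P.lf 15147 0 0) (P.cons (P.lf 1009 0 0) P.nil)))))) 78)
 (EL.cons 8 (TM.mk (P.cons (P.lf 0 567595274 0) (P.cons (P.lf 98986650 0 0) (P.cons (P.lf 5137286 0 0) (P.cons (P.lf 0 253256 0) (P.cons (P.lf 0 13708 0) (P.cons (P.lf 277 0 0) P.nil)))))) 68)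
 EL.nil))
noncomputable def S212_227_364_401_16 : EL := (EL.cons 4 (TM.mk (P.cons (P.cons (P.lf 0 147329707 0) (P.cons (P.lf 11709004 0 0) (P.cons (P.lf 397272 0 0) (P.lf 0 18916 0)))) (P.cons (P.cons (P.lf 56920198 0 0) (P.cons (P.lf 0 3839313 0) (P.cons (P.lf 0 130262 0) (P.lf 6202 0 0)))) (P.cons (P.cons (P.lf 0 2534546 0) (P.cons (P.lf 36163 0 0) (P.cons (P.lf 1226 0 0) (P.lf 0 58 0)))) (P.cons (P.cons (P.lf 0 1025516 0) (P.cons (P.lf 57839 0 0) (P.cons (P.lf 1962 0 0) P.nil))) (P.cons (P.cons (P.lf 68787 0 0) (P.cons (P.lf 602 0 0) P.nil)) (P.cons (P.cons (P.lf 5758 0 0) P.nil) P.nil)))))) 1210)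
 (EL.cons 8 (TM.mk (P.cons (P.cons (P.lf 0 268551647 0) (P.cons (P.lf 21343100 0 0) (P.cons (P.lf 724145 0 0) (P.lf 0 34482 0)))) (P.cons (P.cons (P.lf 45694394 0 0) (P.cons (P.lf 0 2384017 0) (P.cons (P.lf 0 80886 0) (P.lf 3851 0 0)))) (P.cons (P.cons (P.lf 6176663 0 0) (P.cons (P.lf 0 522430 0) (P.cons (P.lf 0 17724 0) (P.lf 843 0 0)))) (P.cons (P.cons (P.lf 0 763850 0) (P.cons (P.lf 6490 0 0) (P.cons (P.lf 220 0 0) P.nil))) (P.cons (P.cons (P.lf 0 46513 0) (P.cons (P.lf 3489 0 0) P.nil)) (P.cons (P.cons (P.lf 4341 0 0) P.nil) P.nil)))))) 837)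
 EL.nil))
noncomputable def S212_227_364_401_17 : EL := (EL.cons 4 (TM.mk (P.cons (P.cons (P.lf 0 69707478 0) (P.cons (P.lf 11079981 0 0) (P.cons (P.lf 0 64359 0) (P.cons (P.lf 0 47777 0) (P.cons (P.lf 915 0 0) (P.cons (P.lf 47 0 0) P.nil)))))) (P.cons (P.cons (P.lf 26635254 0 0) (P.cons (P.lf 0 3586022 0) (P.cons (P.lf 0 4905 0) (P.cons (P.lf 13716 0 0) (P.cons (P.lf 0 242 0) P.nil))))) (P.cons (P.cons (P.lf 0 164125 0) (P.cons (P.lf 0 127553 0) (P.cons (P.lf 5341 0 0) (P.cons (P.lf 861 0 0) P.nil)))) (P.cons (P.cons (P.lf 0 855299 0) (P.cons (P.lf 104338 0 0) (P.cons (P.lf 788 0 0) P.nil))) (P.cons (P.cons (P.lf 46366 0 0) (P.cons (P.lf 430 0 0) P.nil)) (P.cons (P.cons (P.lf 10468 0 0) P.nil) P.nil)))))) 3738)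
 (EL.cons 8 (TM.mk (P.cons (P.cons (P.lf 0 127062346 0) (P.cons (P.lf 20196520 0 0) (P.cons (P.lf 0 117313 0) (P.cons (P.lf 0 87089 0) (P.cons (P.lf 1668 0 0) (P.cons (P.lf 87 0 0) P.nil)))))) (P.cons (P.cons (P.lf 21080397 0 0) (P.cons (P.lf 0 2170204 0) (P.cons (P.lf 0 34304 0) (P.cons (P.lf 6175 0 0) (P.cons (P.lf 0 81 0) P.nil))))) (P.cons (P.cons (P.lf 4692518 0 0) (P.cons (P.lf 0 770709 0) (P.cons (P.lf 2721 0 0) (P.cons (P.lf 3203 0 0) P.nil)))) (P.cons (P.cons (P.lf 0 651472 0) (P.cons (P.lf 36527 0 0) (P.cons (P.lf 2111 0 0) P.nil))) (P.cons (P.cons (P.lf 0 65722 0) (P.cons (P.lf 10583 0 0) P.nil)) (P.cons (P.cons (P.lf 8198 0 0) P.nil) P.nil)))))) 3084)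
 EL.nil))
noncomputable def S212_227_364_401_18 : EL := (EL.cons 4 (TM.mk (P.cons (P.lf 86593710 0 0) (P.cons (P.lf 0 50734084 0) (P.cons (P.lf 9119656 0 0) (P.cons (P.lf 0 291978 0) (P.cons (P.lf 0 43993 0) (P.cons (P.lf 441 0 0) P.nil)))))) 153)
 (EL.cons 8 (TM.mk (P.cons (P.lf 157842459 0 0) (P.cons (P.lf 0 58353100 0) (P.cons (P.lf 3468227 0 0) (P.cons (P.lf 460355 0 0) (P.cons (P.lf 0 9599 0) (P.cons (P.lf 0 1439 0) P.nil)))))) 99)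
 EL.nil))
noncomputable def S212_227_364_401_19 : EL := (EL.cons 4 (TM.mk (P.cons (P.cons (P.lf 40970889 0 0) (P.cons (P.lf 0 3256155 0) (P.cons (P.lf 0 110476 0) (P.lf 5260 0 0)))) (P.cons (P.cons (P.lf 0 23830356 0) (P.cons (P.lf 1703586 0 0) (P.cons (P.lf 57800 0 0) (P.lf 0 2751 0)))) (P.cons (P.cons (P.lf 3671795 0 0) (P.cons (P.lf 0 208684 0) (P.cons (P.lf 0 7080 0) (P.lf 336 0 0)))) (P.cons (P.cons (P.lf 202683 0 0) (P.cons (P.lf 0 17925 0) (P.cons (P.lf 0 607 0) P.nil))) (P.cons (P.cons (P.lf 0 79505 0) (P.cons (P.lf 3172 0 0) P.nil)) (P.cons (P.cons (P.lf 1306 0 0) P.nil) P.nil)))))) 1244)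
 (EL.cons 8 (TM.mk (P.cons (P.cons (P.lf 74681475 0 0) (P.cons (P.lf 0 5935298 0) (P.cons (P.lf 0 201377 0) (P.lf 9588 0 0)))) (P.cons (P.cons (P.lf 0 27292101 0) (P.cons (P.lf 1822107 0 0) (P.cons (P.lf 61821 0 0) (P.lf 0 2943 0)))) (P.cons (P.cons (P.lf 537309 0 0) (P.cons (P.lf 33822 0 0) (P.cons (P.lf 1147 0 0) (P.lf 0 54 0)))) (P.cons (P.cons (P.lf 599391 0 0) (P.cons (P.lf 0 33219 0) (P.cons (P.lf 0 1126 0) P.nil))) (P.cons (P.cons (P.lf 0 25170 0) (P.cons (P.lf 0 973 0) P.nil)) (P.cons (P.cons (P.lf 0 4748 0) P.nil) P.nil)))))) 905)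
 EL.nil))
noncomputable def S212_227_364_401_20 : EL := (EL.cons 4 (TM.mk (P.cons (P.cons (P.lf 19384938 0 0) (P.cons (P.lf 0 3081229 0) (P.cons (P.lf 17896 0 0) (P.cons (P.lf 13286 0 0) (P.cons (P.lf 0 254 0) (P.cons (P.lf 0 13 0) P.nil)))))) (P.cons (P.cons (P.lf 0 11192783 0) (P.cons (P.lf 1598985 0 0) (P.cons (P.lf 0 2130 0) (P.cons (P.lf 0 6408 0) (P.cons (P.lf 117 0 0) P.nil))))) (P.cons (P.cons (P.lf 1433356 0 0) (P.cons (P.lf 0 149931 0) (P.cons (P.lf 0 1805 0) (P.cons (P.lf 464 0 0) P.nil)))) (P.cons (P.cons (P.lf 254779 0 0) (P.cons (P.lf 0 39503 0) (P.cons (P.lf 69 0 0) P.nil))) (P.cons (P.cons (P.lf 0 60672 0) (P.cons (P.lf 5596 0 0) P.nil)) (P.cons (P.cons (P.lf 0 1145 0) P.nil) P.nil)))))) 2712)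
 (EL.cons 8 (TM.mk (P.cons (P.cons (P.lf 35334743 0 0) (P.cons (P.lf 0 5616446 0) (P.cons (P.lf 32623 0 0) (P.cons (P.lf 24218 0 0) (P.cons (P.lf 0 463 0) (P.cons (P.lf 0 24 0) P.nil)))))) (P.cons (P.cons (P.lf 0 12762959 0) (P.cons (P.lf 1700378 0 0) (P.cons (P.lf 3168 0 0) (P.cons (P.lf 0 6446 0) (P.cons (P.lf 113 0 0) P.nil))))) (P.cons (P.cons (P.lf 0 267319 0) (P.cons (P.lf 113510 0 0) (P.cons (P.lf 0 2718 0) (P.cons (P.lf 0 628 0) P.nil)))) (P.cons (P.cons (P.lf 459937 0 0) (P.cons (P.lf 0 54820 0) (P.cons (P.lf 0 462 0) P.nil))) (P.cons (P.cons (P.lf 0 13985 0) (P.cons (P.lf 0 1533 0) P.nil)) (P.cons (P.cons (P.lf 0 6659 0) P.nil) P.nil)))))) 2297)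
 EL.nil))
noncomputable def S212_227_364_401_21 : EL := (EL.cons 4 (TM.mk (P.cons (P.cons (P.lf 0 107619111 0) (P.cons (P.lf 126315366 0 0) (P.cons (P.lf 4285725 0 0) (P.lf 0 204075 0)))) (P.cons (P.cons (P.lf 668526045 0 0) (P.cons (P.lf 0 16749243 0) (P.cons (P.lf 0 568278 0) (P.lf 27060 0 0)))) (P.cons (P.cons (P.lf 0 2823423 0) (P.cons (P.lf 0 2497536 0) (P.cons (P.lf 0 84735 0) (P.lf 4032 0 0)))) (P.cons (P.cons (P.lf 0 5997987 0) (P.cons (P.lf 63459 0 0) (P.cons (P.lf 2154 0 0) P.nil))) (P.cons (P.cons (P.lf 0 66756 0) (P.cons (P.lf 13596 0 0) P.nil)) (P.cons (P.cons (P.lf 22971 0 0) P.nil) P.nil)))))) 3174)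
 (EL.cons 8 (TM.mk (P.cons (P.cons (P.lf 20992278 0 0) (P.cons (P.lf 0 24639180 0) (P.cons (P.lf 0 835983 0) (P.lf 39816 0 0)))) (P.cons (P.cons (P.lf 0 134941620 0) (P.cons (P.lf 8593968 0 0) (P.cons (P.lf 291582 0 0) (P.lf 0 13881 0)))) (P.cons (P.cons (P.lf 28814916 0 0) (P.cons (P.lf 0 303360 0) (P.cons (P.lf 0 10290 0) (P.lf 489 0 0)))) (P.cons (P.cons (P.lf 599502 0 0) (P.cons (P.lf 0 99768 0) (P.cons (P.lf 0 3381 0) P.nil))) (P.cons (P.cons (P.lf 0 202077 0) (P.cons (P.lf 624 0 0) P.nil)) (P.cons (P.cons (P.lf 0 4329 0) P.nil) P.nil)))))) 3255)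
 (EL.cons 11 (TM.mk (P.cons (P.cons (P.lf 2276168037 0 0) (P.cons (P.lf 175944756 0 0) (P.cons (P.lf 0 11109261 0) (P.cons (P.lf 0 208317 0) (P.lf 7437 0 0))))) (P.cons (P.cons (P.lf 95139093 0 0) (P.cons (P.lf 7354125 0 0) (P.cons (P.lf 0 464343 0) (P.cons (P.lf 0 8706 0) (P.lf 309 0 0))))) (P.cons (P.cons (P.lf 0 7811514 0) (P.cons (P.lf 0 603819 0) (P.cons (P.lf 38124 0 0) (P.cons (P.lf 714 0 0) P.nil)))) (P.cons (P.cons (P.lf 0 373245 0) (P.cons (P.lf 0 28851 0) (P.cons (P.lf 1821 0 0) P.nil))) (P.cons (P.cons (P.lf 11844 0 0) (P.cons (P.lf 915 0 0) P.nil)) (P.cons (P.cons (P.lf 786 0 0) P.nil) P.nil)))))) 465)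
 EL.nil)))
noncomputable def S212_227_364_401_22 : EL := (EL.cons 4 (TM.mk (P.cons (P.cons (P.lf 0 50918832 0) (P.cons (P.lf 63811533 0 0) (P.cons (P.lf 0 2584746 0) (P.cons (P.lf 0 425403 0) (P.cons (P.lf 9879 0 0) (P.cons (P.lf 519 0 0) P.nil)))))) (P.cons (P.cons (P.lf 316089798 0 0) (P.cons (P.lf 0 32555652 0) (P.cons (P.lf 0 772551 0) (P.cons (P.lf 75126 0 0) (P.cons (P.lf 0 690 0) P.nil))))) (P.cons (P.cons (P.lf 679506 0 0) (P.cons (P.lf 0 3492840 0) (P.cons (P.lf 36234 0 0) (P.cons (P.lf 16140 0 0) P.nil)))) (P.cons (P.cons (P.lf 0 7028280 0) (P.cons (P.lf 481317 0 0) (P.cons (P.lf 18702 0 0) P.nil))) (P.cons (P.cons (P.lf 13503 0 0) (P.cons (P.lf 49359 0 0) P.nil)) (P.cons (P.cons (P.lf 64101 0 0) P.nil) P.nil)))))) 12531)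
 (EL.cons 8 (TM.mk (P.cons (P.cons (P.lf 9932271 0 0) (P.cons (P.lf 0 12447129 0) (P.cons (P.lf 504180 0 0) (P.cons (P.lf 82983 0 0) (P.cons (P.lf 0 1926 0) (P.cons (P.lf 0 99 0) P.nil)))))) (P.cons (P.cons (P.lf 0 63804021 0) (P.cons (P.lf 9041328 0 0) (P.cons (P.lf 41691 0 0) (P.cons (P.lf 0 32592 0) (P.cons (P.lf 549 0 0) P.nil))))) (P.cons (P.cons (P.lf 13231230 0 0) (P.cons (P.lf 0 734124 0) (P.cons (P.lf 0 37920 0) (P.cons (P.lf 300 0 0) P.nil)))) (P.cons (P.cons (P.lf 1186164 0 0) (P.cons (P.lf 0 216060 0) (P.cons (P.lf 0 1740 0) P.nil))) (P.cons (P.cons (P.lf 0 282474 0) (P.cons (P.lf 11166 0 0) P.nil)) (P.cons (P.cons (P.lf 0 7629 0) P.nil) P.nil)))))) 8163)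
 (EL.cons 11 (TM.mk (P.cons (P.cons (P.lf 1076944620 0 0) (P.cons (P.lf 0 2343621 0) (P.cons (P.lf 0 14776185 0) (P.cons (P.lf 232983 0 0) (P.cons (P.lf 36213 0 0) (P.cons (P.lf 0 687 0) P.nil)))))) (P.cons (P.cons (P.lf 49586001 0 0) (P.cons (P.lf 0 5110776 0) (P.cons (P.lf 0 1236798 0) (P.cons (P.lf 30105 0 0) (P.cons (P.lf 3576 0 0) P.nil))))) (P.cons (P.cons (P.lf 0 17729742 0) (P.cons (P.lf 0 916521 0) (P.cons (P.lf 137022 0 0) (P.cons (P.lf 0 135 0) P.nil)))) (P.cons (P.cons (P.lf 0 643584 0) (P.cons (P.lf 29424 0 0) (P.cons (P.lf 11943 0 0) P.nil))) (P.cons (P.cons (P.lf 114375 0 0) (P.cons (P.lf 8529 0 0) P.nil)) (P.cons (P.cons (P.lf 4716 0 0) P.nil) P.nil)))))) 4425)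
 EL.nil)))
noncomputable def S212_227_364_401_23 : EL := (EL.cons 4 (TM.mk (P.cons (P.cons (P.lf 29927775 0 0) (P.cons (P.lf 0 35127015 0) (P.cons (P.lf 0 1191816 0) (P.lf 56751 0 0)))) (P.cons (P.cons (P.lf 0 191755038 0) (P.cons (P.lf 11517939 0 0) (P.cons (P.lf 390786 0 0) (P.lf 0 18606 0)))) (P.cons (P.cons (P.lf 37001769 0 0) (P.cons (P.lf 0 108489 0) (P.cons (P.lf 0 3681 0) (P.lf 174 0 0)))) (P.cons (P.cons (P.lf 2084100 0 0) (P.cons (P.lf 0 173514 0) (P.cons (P.lf 0 5886 0) P.nil))) (P.cons (P.cons (P.lf 0 341661 0) (P.cons (P.lf 0 1806 0) P.nil)) (P.cons (P.cons (P.lf 0 15861 0) P.nil) P.nil)))))) 4224)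
 (EL.cons 8 (TM.mk (P.cons (P.cons (P.lf 0 5837736 0) (P.cons (P.lf 6851904 0 0) (P.cons (P.lf 232476 0 0) (P.lf 0 11070 0)))) (P.cons (P.cons (P.lf 38665971 0 0) (P.cons (P.lf 0 3728040 0) (P.cons (P.lf 0 126486 0) (P.lf 6021 0 0)))) (P.cons (P.cons (P.lf 0 15324051 0) (P.cons (P.lf 530298 0 0) (P.cons (P.lf 17991 0 0) (P.lf 0 855 0)))) (P.cons (P.cons (P.lf 1283301 0 0) (P.cons (P.lf 19710 0 0) (P.cons (P.lf 666 0 0) P.nil))) (P.cons (P.cons (P.lf 119553 0 0) (P.cons (P.lf 0 6228 0) P.nil)) (P.cons (P.cons (P.lf 0 10467 0) P.nil) P.nil)))))) 2043)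
 (EL.cons 11 (TM.mk (P.cons (P.cons (P.lf 0 632979126 0) (P.cons (P.lf 0 48928443 0) (P.cons (P.lf 3089370 0 0) (P.cons (P.lf 57930 0 0) (P.lf 0 2067 0))))) (P.cons (P.cons (P.lf 97160763 0 0) (P.cons (P.lf 7510395 0 0) (P.cons (P.lf 0 474210 0) (P.cons (P.lf 0 8892 0) (P.lf 315 0 0))))) (P.cons (P.cons (P.lf 9260478 0 0) (P.cons (P.lf 715821 0 0) (P.cons (P.lf 0 45195 0) (P.cons (P.lf 0 846 0) P.nil)))) (P.cons (P.cons (P.lf 0 349917 0) (P.cons (P.lf 0 27048 0) (P.cons (P.lf 1707 0 0) P.nil))) (P.cons (P.cons (P.lf 0 37872 0) (P.cons (P.lf 0 2925 0) P.nil)) (P.cons (P.cons (P.lf 438 0 0) P.nil) P.nil)))))) 711)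
 EL.nil)))
noncomputable def S212_227_364_401_24 : EL := (EL.cons 4 (TM.mk (P.cons (P.cons (P.lf 14160006 0 0) (P.cons (P.lf 0 17745336 0) (P.cons (P.lf 718791 0 0) (P.cons (P.lf 118299 0 0) (P.cons (P.lf 0 2745 0) (P.cons (P.lf 0 144 0) P.nil)))))) (P.cons (P.cons (P.lf 0 90666735 0) (P.cons (P.lf 12518979 0 0) (P.cons (P.lf 74460 0 0) (P.cons (P.lf 0 43995 0) (P.cons (P.lf 726 0 0) P.nil))))) (P.cons (P.cons (P.lf 16934796 0 0) (P.cons (P.lf 0 742902 0) (P.cons (P.lf 0 54213 0) (P.cons (P.lf 0 765 0) P.nil)))) (P.cons (P.cons (P.lf 2260647 0 0) (P.cons (P.lf 0 354099 0) (P.cons (P.lf 0 3759 0) P.nil))) (P.cons (P.cons (P.lf 0 400059 0) (P.cons (P.lf 10947 0 0) P.nil)) (P.cons (P.cons (P.lf 0 23493 0) P.nil) P.nil)))))) 13200)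
 (EL.cons 8 (TM.mk (P.cons (P.cons (P.lf 0 2762061 0) (P.cons (P.lf 3461418 0 0) (P.cons (P.lf 0 140205 0) (P.cons (P.lf 0 23076 0) (P.cons (P.lf 534 0 0) (P.cons (P.lf 27 0 0) P.nil)))))) (P.cons (P.cons (P.lf 18282666 0 0) (P.cons (P.lf 0 3190299 0) (P.cons (P.lf 15786 0 0) (P.cons (P.lf 13569 0 0) (P.cons (P.lf 0 255 0) P.nil))))) (P.cons (P.cons (P.lf 0 7136262 0) (P.cons (P.lf 684678 0 0) (P.cons (P.lf 13233 0 0) (P.cons (P.lf 0 1782 0) P.nil)))) (P.cons (P.cons (P.lf 334389 0 0) (P.cons (P.lf 28446 0 0) (P.cons (P.lf 0 1563 0) P.nil))) (P.cons (P.cons (P.lf 157203 0 0) (P.cons (P.lf 0 15876 0) P.nil)) (P.cons (P.cons (P.lf 0 12768 0) P.nil) P.nil)))))) 4944)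
 (EL.cons 11 (TM.mk (P.cons (P.cons (P.lf 0 299487318 0) (P.cons (P.lf 651735 0 0) (P.cons (P.lf 4109106 0 0) (P.cons (P.lf 0 64788 0) (P.cons (P.lf 0 10068 0) (P.cons (P.lf 189 0 0) P.nil)))))) (P.cons (P.cons (P.lf 44699163 0 0) (P.cons (P.lf 1293972 0 0) (P.cons (P.lf 0 458547 0) (P.cons (P.lf 4281 0 0) (P.cons (P.lf 969 0 0) P.nil))))) (P.cons (P.cons (P.lf 8532456 0 0) (P.cons (P.lf 0 24666 0) (P.cons (P.lf 0 117744 0) (P.cons (P.lf 1869 0 0) P.nil)))) (P.cons (P.cons (P.lf 0 794007 0) (P.cons (P.lf 0 62160 0) (P.cons (P.lf 3786 0 0) P.nil))) (P.cons (P.cons (P.lf 0 85593 0) (P.cons (P.lf 0 1296 0) P.nil)) (P.cons (P.cons (P.lf 5181 0 0) P.nil) P.nil)))))) 4086)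
 EL.nil)))
noncomputable def S212_227_364_401_25 : EL := (EL.cons 4 (TM.mk (P.cons (P.cons (P.lf 0 8322609 0) (P.cons (P.lf 9768462 0 0) (P.cons (P.lf 331431 0 0) (P.lf 0 15780 0)))) (P.cons (P.cons (P.lf 54950487 0 0) (P.cons (P.lf 0 5110758 0) (P.cons (P.lf 0 173400 0) (P.lf 8256 0 0)))) (P.cons (P.cons (P.lf 0 20678709 0) (P.cons (P.lf 626055 0 0) (P.cons (P.lf 21240 0 0) (P.lf 0 1011 0)))) (P.cons (P.cons (P.lf 1266693 0 0) (P.cons (P.lf 53775 0 0) (P.cons (P.lf 1824 0 0) P.nil))) (P.cons (P.cons (P.lf 248637 0 0) (P.cons (P.lf 0 9519 0) P.nil)) (P.cons (P.cons (P.lf 0 13905 0) P.nil) P.nil)))))) 3885)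
 (EL.cons 8 (TM.mk (P.cons (P.cons (P.lf 1623414 0 0) (P.cons (P.lf 0 1905444 0) (P.cons (P.lf 0 64647 0) (P.lf 3078 0 0)))) (P.cons (P.cons (P.lf 0 11069658 0) (P.cons (P.lf 1408854 0 0) (P.cons (P.lf 47799 0 0) (P.lf 0 2274 0)))) (P.cons (P.cons (P.lf 6356472 0 0) (P.cons (P.lf 0 344154 0) (P.cons (P.lf 0 11676 0) (P.lf 555 0 0)))) (P.cons (P.cons (P.lf 0 1156200 0) (P.cons (P.lf 19839 0 0) (P.cons (P.lf 672 0 0) P.nil))) (P.cons (P.cons (P.lf 21657 0 0) (P.cons (P.lf 3420 0 0) P.nil)) (P.cons (P.cons (P.lf 11172 0 0) P.nil) P.nil)))))) 1902)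
 (EL.cons 11 (TM.mk (P.cons (P.cons (P.lf 176025042 0 0) (P.cons (P.lf 13606500 0 0) (P.cons (P.lf 0 859122 0) (P.cons (P.lf 0 16107 0) (P.lf 573 0 0))))) (P.cons (P.cons (P.lf 0 61396314 0) (P.cons (P.lf 0 4745853 0) (P.cons (P.lf 299655 0 0) (P.cons (P.lf 5619 0 0) (P.lf 0 198 0))))) (P.cons (P.cons (P.lf 2167257 0 0) (P.cons (P.lf 167526 0 0) (P.cons (P.lf 0 10575 0) (P.cons (P.lf 0 198 0) P.nil)))) (P.cons (P.cons (P.lf 712776 0 0) (P.cons (P.lf 55095 0 0) (P.cons (P.lf 0 3477 0) P.nil))) (P.cons (P.cons (P.lf 0 4470 0) (P.cons (P.lf 0 345 0) P.nil)) (P.cons (P.cons (P.lf 0 3075 0) P.nil) P.nil)))))) 930)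
 EL.nil)))
noncomputable def S212_227_364_401_26 : EL := (EL.cons 4 (TM.mk (P.cons (P.cons (P.lf 0 3937752 0) (P.cons (P.lf 4934796 0 0) (P.cons (P.lf 0 199887 0) (P.cons (P.lf 0 32898 0) (P.cons (P.lf 762 0 0) (P.cons (P.lf 39 0 0) P.nil)))))) (P.cons (P.cons (P.lf 25982520 0 0) (P.cons (P.lf 0 4445142 0) (P.cons (P.lf 18330 0 0) (P.cons (P.lf 18657 0 0) (P.cons (P.lf 0 351 0) P.nil))))) (P.cons (P.cons (P.lf 0 9621522 0) (P.cons (P.lf 871515 0 0) (P.cons (P.lf 19725 0 0) (P.cons (P.lf 0 2073 0) P.nil)))) (P.cons (P.cons (P.lf 213849 0 0) (P.cons (P.lf 69546 0 0) (P.cons (P.lf 0 1869 0) P.nil))) (P.cons (P.cons (P.lf 252672 0 0) (P.cons (P.lf 0 23481 0) P.nil)) (P.cons (P.cons (P.lf 0 13977 0) P.nil) P.nil)))))) 7434)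
 (EL.cons 8 (TM.mk (P.cons (P.cons (P.lf 768099 0 0) (P.cons (P.lf 0 962583 0) (P.cons (P.lf 38988 0 0) (P.cons (P.lf 6417 0 0) (P.cons (P.lf 0 147 0) (P.cons (P.lf 0 6 0) P.nil)))))) (P.cons (P.cons (P.lf 0 5234229 0) (P.cons (P.lf 1075176 0 0) (P.cons (P.lf 0 12003 0) (P.cons (P.lf 0 5025 0) (P.cons (P.lf 99 0 0) P.nil))))) (P.cons (P.cons (P.lf 2975115 0 0) (P.cons (P.lf 0 360744 0) (P.cons (P.lf 0 2940 0) (P.cons (P.lf 1212 0 0) P.nil)))) (P.cons (P.cons (P.lf 0 464994 0) (P.cons (P.lf 26412 0 0) (P.cons (P.lf 1173 0 0) P.nil))) (P.cons (P.cons (P.lf 0 32457 0) (P.cons (P.lf 6687 0 0) P.nil)) (P.cons (P.cons (P.lf 12687 0 0) P.nil) P.nil)))))) 3237)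
 (EL.cons 11 (TM.mk (P.cons (P.cons (P.lf 83284368 0 0) (P.cons (P.lf 0 181239 0) (P.cons (P.lf 0 1142700 0) (P.cons (P.lf 18015 0 0) (P.cons (P.lf 2799 0 0) (P.cons (P.lf 0 51 0) P.nil)))))) (P.cons (P.cons (P.lf 0 28695444 0) (P.cons (P.lf 0 324444 0) (P.cons (P.lf 350679 0 0) (P.cons (P.lf 0 4707 0) (P.cons (P.lf 0 816 0) P.nil))))) (P.cons (P.cons (P.lf 0 197973 0) (P.cons (P.lf 77685 0 0) (P.cons (P.lf 11307 0 0) (P.cons (P.lf 0 342 0) P.nil)))) (P.cons (P.cons (P.lf 736371 0 0) (P.cons (P.lf 17007 0 0) (P.cons (P.lf 0 8031 0) P.nil))) (P.cons (P.cons (P.lf 0 13860 0) (P.cons (P.lf 0 3099 0) P.nil)) (P.cons (P.cons (P.lf 0 7242 0) P.nil) P.nil)))))) 3180)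
 EL.nil)))
noncomputable def S212_227_364_401_27 : EL := (EL.cons 13 (TM.mk (P.lf 0 4294967296 0) 0)
 EL.nil)
noncomputable def S212_227_364_401_28 : EL := (EL.cons 13 (TM.mk (P.cons (P.cons (P.lf 0 2032117949 0) (P.cons (P.lf 161502256 0 0) (P.cons (P.lf 5479576 0 0) (P.lf 0 260928 0)))) (P.cons (P.cons (P.lf 0 8626953 0) (P.cons (P.lf 10125684 0 0) (P.cons (P.lf 343552 0 0) (P.lf 0 16356 0)))) (P.cons (P.cons (P.lf 26841390 0 0) (P.cons (P.lf 0 725572 0) (P.cons (P.lf 0 24616 0) (P.lf 1172 0 0)))) (P.cons (P.cons (P.lf 0 270348 0) (P.cons (P.lf 0 57836 0) (P.cons (P.lf 0 1960 0) P.nil))) (P.cons (P.cons (P.lf 0 103247 0) (P.cons (P.lf 1336 0 0) P.nil)) (P.cons (P.cons (P.lf 0 363 0) P.nil) P.nil)))))) 1081)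
 EL.nil)
noncomputable def S212_227_364_401_29 : EL := (EL.cons 13 (TM.mk (P.cons (P.cons (P.lf 0 961474924 0) (P.cons (P.lf 152826138 0 0) (P.cons (P.lf 0 887710 0) (P.cons (P.lf 0 659004 0) (P.cons (P.lf 12632 0 0) (P.cons (P.lf 665 0 0) P.nil)))))) (P.cons (P.cons (P.lf 0 8163501 0) (P.cons (P.lf 10230511 0 0) (P.cons (P.lf 0 414396 0) (P.cons (P.lf 0 68199 0) (P.cons (P.lf 1583 0 0) P.nil))))) (P.cons (P.cons (P.lf 25382106 0 0) (P.cons (P.lf 0 2664532 0) (P.cons (P.lf 0 59707 0) (P.cons (P.lf 6387 0 0) P.nil)))) (P.cons (P.cons (P.lf 0 147996 0) (P.cons (P.lf 0 163873 0) (P.cons (P.lf 2212 0 0) P.nil))) (P.cons (P.cons (P.lf 0 266531 0) (P.cons (P.lf 19140 0 0) P.nil)) (P.cons (P.cons (P.lf 2620 0 0) P.nil) P.nil)))))) 6385)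
 EL.nil)
noncomputable def S212_227_364_401_30 : EL := (EL.cons 13 (TM.mk (P.cons (P.lf 1194386624 0 0) (P.cons (P.lf 0 233258332 0) (P.cons (P.lf 0 3625172 0) (P.cons (P.lf 207136 0 0) (P.cons (P.lf 5900 0 0) (P.cons (P.lf 0 156 0) P.nil)))))) 48)
 EL.nil)
noncomputable def S212_227_364_401_31 : EL := (EL.cons 13 (TM.mk (P.cons (P.cons (P.lf 565111287 0 0) (P.cons (P.lf 0 44912131 0) (P.cons (P.lf 0 1523814 0) (P.lf 72561 0 0)))) (P.cons (P.cons (P.lf 0 107964623 0) (P.cons (P.lf 5955287 0 0) (P.cons (P.lf 202055 0 0) (P.lf 0 9622 0)))) (P.cons (P.cons (P.lf 0 9648055 0) (P.cons (P.lf 888013 0 0) (P.cons (P.lf 30128 0 0) (P.lf 0 1434 0)))) (P.cons (P.cons (P.lf 1623651 0 0) (P.cons (P.lf 0 22564 0) (P.cons (P.lf 0 766 0) P.nil))) (P.cons (P.cons (P.lf 39892 0 0) (P.cons (P.lf 0 4835 0) P.nil)) (P.cons (P.cons (P.lf 0 7091 0) P.nil) P.nil)))))) 997)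
 EL.nil)
noncomputable def S212_227_364_401_32 : EL := (EL.cons 13 (TM.mk (P.cons (P.cons (P.lf 267376375 0 0) (P.cons (P.lf 0 42499391 0) (P.cons (P.lf 246863 0 0) (P.cons (P.lf 183262 0 0) (P.cons (P.lf 0 3512 0) (P.cons (P.lf 0 184 0) P.nil)))))) (P.cons (P.cons (P.lf 0 49947216 0) (P.cons (P.lf 5454938 0 0) (P.cons (P.lf 67028 0 0) (P.cons (P.lf 0 16824 0) (P.cons (P.lf 245 0 0) P.nil))))) (P.cons (P.cons (P.lf 0 8313396 0) (P.cons (P.lf 1425588 0 0) (P.cons (P.lf 0 6651 0) (P.cons (P.lf 0 6036 0) P.nil)))) (P.cons (P.cons (P.lf 1459129 0 0) (P.cons (P.lf 0 97873 0) (P.cons (P.lf 0 4164 0) P.nil))) (P.cons (P.cons (P.lf 89220 0 0) (P.cons (P.lf 0 17174 0) P.nil)) (P.cons (P.cons (P.lf 0 16576 0) P.nil) P.nil)))))) 4723)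
 EL.nil)
noncomputable def S212_227_364_401_33 : EL := (EL.cons 14 (TM.mk (P.lf 8589934592 0 0) 0)
 EL.nil)
noncomputable def S212_227_364_401_34 : EL := (EL.cons 14 (TM.mk (P.cons (P.cons (P.lf 4064235898 0 0) (P.cons (P.lf 0 323004512 0) (P.cons (P.lf 0 10959152 0) (P.lf 521856 0 0)))) (P.cons (P.cons (P.lf 17253906 0 0) (P.cons (P.lf 0 20251368 0) (P.cons (P.lf 0 687104 0) (P.lf 32712 0 0)))) (P.cons (P.cons (P.lf 0 53682780 0) (P.cons (P.lf 1451144 0 0) (P.cons (P.lf 49232 0 0) (P.lf 0 2344 0)))) (P.cons (P.cons (P.lf 540696 0 0) (P.cons (P.lf 115672 0 0) (P.cons (P.lf 3920 0 0) P.nil))) (P.cons (P.cons (P.lf 206494 0 0) (P.cons (P.lf 0 2672 0) P.nil)) (P.cons (P.cons (P.lf 726 0 0) P.nil) P.nil)))))) 2162)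
 EL.nil)
noncomputable def S212_227_364_401_35 : EL := (EL.cons 14 (TM.mk (P.cons (P.cons (P.lf 1922949848 0 0) (P.cons (P.lf 0 305652276 0) (P.cons (P.lf 1775420 0 0) (P.cons (P.lf 1318008 0 0) (P.cons (P.lf 0 25264 0) (P.cons (P.lf 0 1330 0) P.nil)))))) (P.cons (P.cons (P.lf 16327002 0 0) (P.cons (P.lf 0 20461022 0) (P.cons (P.lf 828792 0 0) (P.cons (P.lf 136398 0 0) (P.cons (P.lf 0 3166 0) P.nil))))) (P.cons (P.cons (P.lf 0 50764212 0) (P.cons (P.lf 5329064 0 0) (P.cons (P.lf 119414 0 0) (P.cons (P.lf 0 12774 0) P.nil)))) (P.cons (P.cons (P.lf 295992 0 0) (P.cons (P.lf 327746 0 0) (P.cons (P.lf 0 4424 0) P.nil))) (P.cons (P.cons (P.lf 533062 0 0) (P.cons (P.lf 0 38280 0) P.nil)) (P.cons (P.cons (P.lf 0 5240 0) P.nil) P.nil)))))) 12770)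
 EL.nil)
noncomputable def S212_227_364_401_36 : EL := (EL.cons 14 (TM.mk (P.cons (P.lf 0 2388773248 0) (P.cons (P.lf 466516664 0 0) (P.cons (P.lf 7250344 0 0) (P.cons (P.lf 0 414272 0) (P.cons (P.lf 0 11800 0) (P.cons (P.lf 312 0 0) P.nil)))))) 96)
 EL.nil)
noncomputable def S212_227_364_401_37 : EL := (EL.cons 14 (TM.mk (P.cons (P.cons (P.lf 0 1130222574 0) (P.cons (P.lf 89824262 0 0) (P.cons (P.lf 3047628 0 0) (P.lf 0 145122 0)))) (P.cons (P.cons (P.lf 215929246 0 0) (P.cons (P.lf 0 11910574 0) (P.cons (P.lf 0 404110 0) (P.lf 19244 0 0)))) (P.cons (P.cons (P.lf 19296110 0 0) (P.cons (P.lf 0 1776026 0) (P.cons (P.lf 0 60256 0) (P.lf 2868 0 0)))) (P.cons (P.cons (P.lf 0 3247302 0) (P.cons (P.lf 45128 0 0) (P.cons (P.lf 1532 0 0) P.nil))) (P.cons (P.cons (P.lf 0 79784 0) (P.cons (P.lf 9670 0 0) P.nil)) (P.cons (P.cons (P.lf 14182 0 0) P.nil) P.nil)))))) 1994)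
 EL.nil)
noncomputable def S212_227_364_401_38 : EL := (EL.cons 14 (TM.mk (P.cons (P.cons (P.lf 0 534752750 0) (P.cons (P.lf 84998782 0 0) (P.cons (P.lf 0 493726 0) (P.cons (P.lf 0 366524 0) (P.cons (P.lf 7024 0 0) (P.cons (P.lf 368 0 0) P.nil)))))) (P.cons (P.cons (P.lf 99894432 0 0) (P.cons (P.lf 0 10909876 0) (P.cons (P.lf 0 134056 0) (P.cons (P.lf 33648 0 0) (P.cons (P.lf 0 490 0) P.nil))))) (P.cons (P.cons (P.lf 16626792 0 0) (P.cons (P.lf 0 2851176 0) (P.cons (P.lf 13302 0 0) (P.cons (P.lf 12072 0 0) P.nil)))) (P.cons (P.cons (P.lf 0 2918258 0) (P.cons (P.lf 195746 0 0) (P.cons (P.lf 8328 0 0) P.nil))) (P.cons (P.cons (P.lf 0 178440 0) (P.cons (P.lf 34348 0 0) P.nil)) (P.cons (P.cons (P.lf 33152 0 0) P.nil) P.nil)))))) 9446)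
 EL.nil)
noncomputable def S212_227_364_401_39 : EL := (EL.cons 14 (TM.mk (P.cons (P.lf 664293490 0 0) (P.cons (P.lf 0 259467056 0) (P.cons (P.lf 21303880 0 0) (P.cons (P.lf 1017936 0 0) (P.cons (P.lf 0 32314 0) (P.cons (P.lf 0 2154 0) P.nil)))))) 152)
 EL.nil)
noncomputable def S212_227_364_401_40 : EL := (EL.cons 14 (TM.mk (P.cons (P.cons (P.lf 314303376 0 0) (P.cons (P.lf 0 24979210 0) (P.cons (P.lf 0 847514 0) (P.lf 40356 0 0)))) (P.cons (P.cons (P.lf 0 121429756 0) (P.cons (P.lf 8190536 0 0) (P.cons (P.lf 277894 0 0) (P.lf 0 13232 0)))) (P.cons (P.cons (P.lf 5407032 0 0) (P.cons (P.lf 0 77148 0) (P.cons (P.lf 0 2616 0) (P.lf 124 0 0)))) (P.cons (P.cons (P.lf 2187768 0 0) (P.cons (P.lf 0 123390 0) (P.cons (P.lf 0 4186 0) P.nil))) (P.cons (P.cons (P.lf 0 146746 0) (P.cons (P.lf 0 1286 0) P.nil)) (P.cons (P.cons (P.lf 0 12284 0) P.nil) P.nil)))))) 2542)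
 EL.nil)
noncomputable def S212_227_364_401_41 : EL := (EL.cons 14 (TM.mk (P.cons (P.cons (P.lf 148709288 0 0) (P.cons (P.lf 0 23637294 0) (P.cons (P.lf 137300 0 0) (P.cons (P.lf 101926 0 0) (P.cons (P.lf 0 1952 0) (P.cons (P.lf 0 102 0) P.nil)))))) (P.cons (P.cons (P.lf 0 56821876 0) (P.cons (P.lf 7650182 0 0) (P.cons (P.lf 10464 0 0) (P.cons (P.lf 0 29262 0) (P.cons (P.lf 518 0 0) P.nil))))) (P.cons (P.cons (P.lf 350134 0 0) (P.cons (P.lf 272114 0 0) (P.cons (P.lf 0 11396 0) (P.cons (P.lf 0 1838 0) P.nil)))) (P.cons (P.cons (P.lf 1824638 0 0) (P.cons (P.lf 0 222588 0) (P.cons (P.lf 0 1682 0) P.nil))) (P.cons (P.cons (P.lf 0 98916 0) (P.cons (P.lf 0 918 0) P.nil)) (P.cons (P.cons (P.lf 0 22332 0) P.nil) P.nil)))))) 7928)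
 EL.nil)
noncomputable def S212_227_364_401_42 : EL := (EL.cons 14 (TM.mk (P.cons (P.lf 0 184733248 0) (P.cons (P.lf 108232714 0 0) (P.cons (P.lf 0 19455268 0) (P.cons (P.lf 622888 0 0) (P.cons (P.lf 93852 0 0) (P.cons (P.lf 0 942 0) P.nil)))))) 312)
 EL.nil)
noncomputable def S212_227_364_401_43 : EL := (EL.cons 14 (TM.mk (P.cons (P.cons (P.lf 0 87404564 0) (P.cons (P.lf 6946464 0 0) (P.cons (P.lf 235684 0 0) (P.lf 0 11222 0)))) (P.cons (P.cons (P.lf 50838094 0 0) (P.cons (P.lf 0 3634318 0) (P.cons (P.lf 0 123308 0) (P.lf 5870 0 0)))) (P.cons (P.cons (P.lf 0 7833164 0) (P.cons (P.lf 445194 0 0) (P.cons (P.lf 15104 0 0) (P.lf 0 718 0)))) (P.cons (P.cons (P.lf 0 432392 0) (P.cons (P.lf 38240 0 0) (P.cons (P.lf 1296 0 0) P.nil))) (P.cons (P.cons (P.lf 169612 0 0) (P.cons (P.lf 0 6768 0) P.nil)) (P.cons (P.cons (P.lf 0 2788 0) P.nil) P.nil)))))) 2614)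
 EL.nil)
noncomputable def S212_227_364_401_44 : EL := (EL.cons 14 (TM.mk (P.cons (P.cons (P.lf 0 41354536 0) (P.cons (P.lf 6573290 0 0) (P.cons (P.lf 0 38180 0) (P.cons (P.lf 0 28344 0) (P.cons (P.lf 542 0 0) (P.cons (P.lf 28 0 0) P.nil)))))) (P.cons (P.cons (P.lf 23877938 0 0) (P.cons (P.lf 0 3411170 0) (P.cons (P.lf 4546 0 0) (P.cons (P.lf 13672 0 0) (P.cons (P.lf 0 250 0) P.nil))))) (P.cons (P.cons (P.lf 0 3057828 0) (P.cons (P.lf 319854 0 0) (P.cons (P.lf 3852 0 0) (P.cons (P.lf 0 990 0) P.nil)))) (P.cons (P.cons (P.lf 0 543530 0) (P.cons (P.lf 84274 0 0) (P.cons (P.lf 0 148 0) P.nil))) (P.cons (P.cons (P.lf 129434 0 0) (P.cons (P.lf 0 11940 0) P.nil)) (P.cons (P.cons (P.lf 2444 0 0) P.nil) P.nil)))))) 5740)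
 EL.nil)
noncomputable def S212_227_364_401_45 : EL := (EL.cons 14 (TM.mk (P.cons (P.cons (P.lf 909823202 0 0) (P.cons (P.lf 0 216924168 0) (P.cons (P.lf 9880038 0 0) (P.cons (P.lf 1063618 0 0) (P.cons (P.lf 0 82348 0) (P.cons (P.lf 0 1252 0) P.nil)))))) (P.cons (P.cons (P.lf 11587420 0 0) (P.cons (P.lf 0 15442280 0) (P.cons (P.lf 1711038 0 0) (P.cons (P.lf 90700 0 0) (P.cons (P.lf 0 13390 0) P.nil))))) (P.cons (P.cons (P.lf 0 36003220 0) (P.cons (P.lf 6585696 0 0) (P.cons (P.lf 0 82234 0) (P.cons (P.lf 0 30610 0) P.nil)))) (P.cons (P.cons (P.lf 57084 0 0) (P.cons (P.lf 411608 0 0) (P.cons (P.lf 0 34726 0) P.nil))) (P.cons (P.cons (P.lf 617310 0 0) (P.cons (P.lf 0 89088 0) P.nil)) (P.cons (P.cons (P.lf 0 5898 0) P.nil) P.nil)))))) 29478)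
 EL.nil)
noncomputable def S212_227_364_401_46 : EL := (EL.cons 15 (TM.mk (P.lf 4294967296 0 0) 0)
 EL.nil)
noncomputable def S212_227_364_401_47 : EL := (EL.cons 15 (TM.mk (P.cons (P.cons (P.lf 2032117949 0 0) (P.cons (P.lf 0 161502256 0) (P.cons (P.lf 0 5479576 0) (P.lf 260928 0 0)))) (P.cons (P.cons (P.lf 8626953 0 0) (P.cons (P.lf 0 10125684 0) (P.cons (P.lf 0 343552 0) (P.lf 16356 0 0)))) (P.cons (P.cons (P.lf 0 26841390 0) (P.cons (P.lf 725572 0 0) (P.cons (P.lf 24616 0 0) (P.lf 0 1172 0)))) (P.cons (P.cons (P.lf 270348 0 0) (P.cons (P.lf 57836 0 0) (P.cons (P.lf 1960 0 0) P.nil))) (P.cons (P.cons (P.lf 103247 0 0) (P.cons (P.lf 0 1336 0) P.nil)) (P.cons (P.cons (P.lf 363 0 0) P.nil) P.nil)))))) 1081)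
 EL.nil)
noncomputable def S212_227_364_401_48 : EL := (EL.cons 15 (TM.mk (P.cons (P.cons (P.lf 961474924 0 0) (P.cons (P.lf 0 152826138 0) (P.cons (P.lf 887710 0 0) (P.cons (P.lf 659004 0 0) (P.cons (P.lf 0 12632 0) (P.cons (P.lf 0 665 0) P.nil)))))) (P.cons (P.cons (P.lf 8163501 0 0) (P.cons (P.lf 0 10230511 0) (P.cons (P.lf 414396 0 0) (P.cons (P.lf 68199 0 0) (P.cons (P.lf 0 1583 0) P.nil))))) (P.cons (P.cons (P.lf 0 25382106 0) (P.cons (P.lf 2664532 0 0) (P.cons (P.lf 59707 0 0) (P.cons (P.lf 0 6387 0) P.nil)))) (P.cons (P.cons (P.lf 147996 0 0) (P.cons (P.lf 163873 0 0) (P.cons (P.lf 0 2212 0) P.nil))) (P.cons (P.cons (P.lf 266531 0 0) (P.cons (P.lf 0 19140 0) P.nil)) (P.cons (P.cons (P.lf 0 2620 0) P.nil) P.nil)))))) 6385)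
 EL.nil)
noncomputable def S212_227_364_401 : SL := (SL.cons S212_227_364_401_0 (SL.cons S212_227_364_401_1 (SL.cons S212_227_364_401_2 (SL.cons S212_227_364_401_3 (SL.cons S212_227_364_401_4 (SL.cons S212_227_364_401_5 (SL.cons S212_227_364_401_6 (SL.cons S212_227_364_401_7 (SL.cons S212_227_364_401_8 (SL.cons S212_227_364_401_9 (SL.cons S212_227_364_401_10 (SL.cons S212_227_364_401_11 (SL.cons S212_227_364_401_12 (SL.cons S212_227_364_401_13 (SL.cons S212_227_364_401_14 (SL.cons S212_227_364_401_15 (SL.cons S212_227_364_401_16 (SL.cons S212_227_364_401_17 (SL.cons S212_227_364_401_18 (SL.cons S212_227_364_401_19 (SL.cons S212_227_364_401_20 (SL.cons S212_227_364_401_21 (SL.cons S212_227_364_401_22 (SL.cons S212_227_364_401_23 (SL.cons S212_227_364_401_24 (SL.cons S212_227_364_401_25 (SL.cons S212_227_364_401_26 (SL.cons S212_227_364_401_27 (SL.cons S212_227_364_401_28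 (SL.cons S212_227_364_401_29 (SL.cons S212_227_364_401_30 (SL.cons S212_227_364_401_31 (SL.cons S212_227_364_401_32 (SL.cons S212_227_364_401_33 (SL.cons S212_227_364_401_34 (SL.cons S212_227_364_401_35 (SL.cons S212_227_364_401_36 (SL.cons S212_227_364_401_37 (SL.cons S212_227_364_401_38 (SL.cons S212_227_364_401_39 (SL.cons S212_227_364_401_40 (SL.cons S212_227_364_401_41 (SL.cons S212_227_364_401_42 (SL.cons S212_227_364_401_43 (SL.cons S212_227_364_401_44 (SL.cons S212_227_364_401_45 (SL.cons S212_227_364_401_46 (SL.cons S212_227_364_401_47 (SL.cons S212_227_364_401_48 SL.nil)))))))))))))))))))))))))))))))))))))))))))))))))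
noncomputable def S212_227_364_438_0 : EL := (EL.cons 0 (TM.mk (P.cons (P.lf 7871865163 0 0) (P.cons (P.lf 228047217 0 0) (P.cons (P.lf 0 18724113 0) (P.cons (P.lf 0 894670 0) (P.cons (P.lf 28400 0 0) (P.cons (P.lf 1893 0 0) P.nil)))))) 140)
 (EL.cons 1 (TM.mk (P.cons (P.lf 0 1064241138 0) (P.cons (P.lf 185599968 0 0) (P.cons (P.lf 9632411 0 0) (P.cons (P.lf 0 474855 0) (P.cons (P.lf 0 25702 0) (P.cons (P.lf 519 0 0) P.nil)))))) 134)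
 (EL.cons 5 (TM.mk (P.cons (P.lf 4502559014 0 0) (P.cons (P.lf 0 81083452 0) (P.cons (P.lf 6657460 0 0) (P.cons (P.lf 318104 0 0) (P.cons (P.lf 0 10096 0) (P.cons (P.lf 0 672 0) P.nil)))))) 143)
 (EL.cons 9 (TM.mk (P.lf 6442450944 0 0) 2)
 EL.nil))))
noncomputable def S212_227_364_438_1 : EL := (EL.cons 0 (TM.mk (P.cons (P.cons (P.lf 3430797840 0 0) (P.cons (P.lf 0 489282601 0) (P.cons (P.lf 0 26771580 0) (P.lf 2974620 0 0)))) (P.cons (P.cons (P.lf 432945963 0 0) (P.cons (P.lf 0 103600590 0) (P.cons (P.lf 0 5668601 0) (P.lf 629833 0 0)))) (P.cons (P.cons (P.lf 0 125219962 0) (P.cons (P.lf 3613585 0 0) (P.cons (P.lf 197714 0 0) (P.lf 0 21966 0)))) (P.cons (P.cons (P.lf 0 4732923 0) (P.cons (P.lf 1164330 0 0) (P.cons (P.lf 63693 0 0) P.nil))) (P.cons (P.cons (P.lf 974804 0 0) (P.cons (P.lf 4017 0 0) P.nil)) (P.cons (P.cons (P.lf 38475 0 0) P.nil) P.nil))))))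 26936)
 (EL.cons 1 (TM.mk (P.cons (P.cons (P.lf 0 452556760 0) (P.cons (P.lf 199042621 0 0) (P.cons (P.lf 10890807 0 0) (P.lf 0 1210083 0)))) (P.cons (P.cons (P.lf 358126912 0 0) (P.cons (P.lf 0 16327924 0) (P.cons (P.lf 0 893398 0) (P.lf 99268 0 0)))) (P.cons (P.cons (P.lf 28303001 0 0) (P.cons (P.lf 0 6263361 0) (P.cons (P.lf 0 342697 0) (P.lf 38068 0 0)))) (P.cons (P.cons (P.lf 0 6113782 0) (P.cons (P.lf 25393 0 0) (P.cons (P.lf 1390 0 0) P.nil))) (P.cons (P.cons (P.lf 0 278355 0) (P.cons (P.lf 47190 0 0) P.nil)) (P.cons (P.cons (P.lf 34629 0 0) P.nil) P.nil)))))) 13590)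
 (EL.cons 5 (TM.mk (P.cons (P.cons (P.lf 1951335753 0 0) (P.cons (P.lf 0 409740164 0) (P.cons (P.lf 0 22419336 0) (P.lf 2491040 0 0)))) (P.cons (P.cons (P.lf 0 157040407 0) (P.cons (P.lf 239132 0 0) (P.cons (P.lf 13078 0 0) (P.lf 0 1450 0)))) (P.cons (P.cons (P.lf 165605 0 0) (P.cons (P.lf 1337568 0 0) (P.cons (P.lf 73190 0 0) (P.lf 0 8136 0)))) (P.cons (P.cons (P.lf 2243906 0 0) (P.cons (P.lf 0 204944 0) (P.cons (P.lf 0 11206 0) P.nil))) (P.cons (P.cons (P.lf 0 173409 0) (P.cons (P.lf 0 6264 0) P.nil)) (P.cons (P.cons (P.lf 0 13355 0) P.nil) P.nil)))))) 15012)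
 (EL.cons 9 (TM.mk (P.cons (P.cons (P.lf 2798095561 0 0) (P.cons (P.lf 0 515035854 0) (P.cons (P.lf 0 28180692 0) (P.lf 3131184 0 0)))) (P.cons (P.cons (P.lf 0 2738889 0) (P.cons (P.lf 0 32291142 0) (P.cons (P.lf 0 1766838 0) (P.lf 196308 0 0)))) (P.cons (P.cons (P.lf 0 39138561 0) (P.cons (P.lf 2313876 0 0) (P.cons (P.lf 126600 0 0) (P.lf 0 14064 0)))) (P.cons (P.cons (P.lf 495084 0 0) (P.cons (P.lf 184440 0 0) (P.cons (P.lf 10086 0 0) P.nil))) (P.cons (P.cons (P.lf 152794 0 0) (P.cons (P.lf 0 4260 0) P.nil)) (P.cons (P.cons (P.lf 286 0 0) P.nil) P.nil)))))) 3362)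
 (EL.cons 2 (TM.mk (P.cons (P.cons (P.lf 636339690 0 0) (P.cons (P.lf 79845339 0 0) (P.cons (P.lf 0 12190317 0) (P.cons (P.lf 0 372411 0) (P.lf 31033 0 0))))) (P.cons (P.cons (P.lf 0 97676600 0) (P.cons (P.lf 0 12256065 0) (P.cons (P.lf 1871184 0 0) (P.cons (P.lf 57164 0 0) (P.lf 0 4761 0))))) (P.cons (P.cons (P.lf 0 9309642 0) (P.cons (P.lf 0 1168135 0) (P.cons (P.lf 178343 0 0) (P.cons (P.lf 5447 0 0) P.nil)))) (P.cons (P.cons (P.lf 351773 0 0) (P.cons (P.lf 44139 0 0) (P.cons (P.lf 0 6738 0) P.nil))) (P.cons (P.cons (P.lf 38072 0 0) (P.cons (P.lf 4775 0 0) P.nil)) (P.cons (P.cons (P.lf 0 438 0) P.nil) P.nil)))))) 2228)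
 (EL.cons 6 (TM.mk (P.cons (P.cons (P.lf 1159915914 0 0) (P.cons (P.lf 145541574 0 0) (P.cons (P.lf 0 22220433 0) (P.cons (P.lf 0 678828 0) (P.lf 56568 0 0))))) (P.cons (P.cons (P.lf 72723111 0 0) (P.cons (P.lf 9125001 0 0) (P.cons (P.lf 0 1393149 0) (P.cons (P.lf 0 42558 0) (P.lf 3543 0 0))))) (P.cons (P.cons (P.lf 0 5211102 0) (P.cons (P.lf 0 653865 0) (P.cons (P.lf 99828 0 0) (P.cons (P.lf 3048 0 0) P.nil)))) (P.cons (P.cons (P.lf 0 415386 0) (P.cons (P.lf 0 52119 0) (P.cons (P.lf 7956 0 0) P.nil))) (P.cons (P.cons (P.lf 9600 0 0) (P.cons (P.lf 1203 0 0) P.nil)) (P.cons (P.cons (P.lf 1206 0 0) P.nil) P.nil)))))) 1509)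
 EL.nil))))))
noncomputable def S212_227_364_438_2 : EL := (EL.cons 0 (TM.mk (P.cons (P.cons (P.lf 1495227937 0 0) (P.cons (P.lf 0 426910957 0) (P.cons (P.lf 4562107 0 0) (P.cons (P.lf 5650879 0 0) (P.cons (P.lf 0 255911 0) (P.cons (P.lf 0 18574 0) P.nil)))))) (P.cons (P.cons (P.lf 333047721 0 0) (P.cons (P.lf 0 143616746 0) (P.cons (P.lf 5845223 0 0) (P.cons (P.lf 2372690 0 0) (P.cons (P.lf 0 125589 0) P.nil))))) (P.cons (P.cons (P.lf 0 105669058 0) (P.cons (P.lf 16858894 0 0) (P.cons (P.lf 1222940 0 0) (P.cons (P.lf 0 69617 0) P.nil)))) (P.cons (P.cons (P.lf 0 7938729 0) (P.cons (P.lf 3699277 0 0) (P.cons (P.lf 0 29961 0) P.nil))) (P.cons (P.cons (P.lf 2028419 0 0) (P.cons (P.lf 0 178097 0) P.nil)) (P.cons (P.cons (P.lf 82078 0 0) P.nil) P.nil)))))) 227822)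
 (EL.cons 1 (TM.mk (P.cons (P.cons (P.lf 0 192356959 0) (P.cons (P.lf 171351512 0 0) (P.cons (P.lf 0 15647266 0) (P.cons (P.lf 0 3780034 0) (P.cons (P.lf 229342 0 0) (P.cons (P.lf 16645 0 0) P.nil)))))) (P.cons (P.cons (P.lf 276065586 0 0) (P.cons (P.lf 0 58748590 0) (P.cons (P.lf 0 2932439 0) (P.cons (P.lf 388032 0 0) (P.cons (P.lf 0 2584 0) P.nil))))) (P.cons (P.cons (P.lf 22414981 0 0) (P.cons (P.lf 0 13450925 0) (P.cons (P.lf 327436 0 0) (P.cons (P.lf 198129 0 0) P.nil)))) (P.cons (P.cons (P.lf 0 8606559 0) (P.cons (P.lf 1028710 0 0) (P.cons (P.lf 107277 0 0) P.nil))) (P.cons (P.cons (P.lf 0 443614 0) (P.cons (P.lf 231281 0 0) P.nil)) (P.cons (P.cons (P.lf 110947 0 0) P.nil) P.nil)))))) 115118)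
 (EL.cons 5 (TM.mk (P.cons (P.cons (P.lf 845673184 0 0) (P.cons (P.lf 0 355242804 0) (P.cons (P.lf 17299027 0 0) (P.cons (P.lf 6179853 0 0) (P.cons (P.lf 0 336690 0) (P.cons (P.lf 0 24437 0) P.nil)))))) (P.cons (P.cons (P.lf 0 121113291 0) (P.cons (P.lf 19770608 0 0) (P.cons (P.lf 2060840 0 0) (P.cons (P.lf 0 13050 0) (P.cons (P.lf 0 8977 0) P.nil))))) (P.cons (P.cons (P.lf 0 957905 0) (P.cons (P.lf 3406945 0 0) (P.cons (P.lf 0 156279 0) (P.cons (P.lf 0 58208 0) P.nil)))) (P.cons (P.cons (P.lf 3347759 0 0) (P.cons (P.lf 0 780997 0) (P.cons (P.lf 0 19825 0) P.nil))) (P.cons (P.cons (P.lf 0 301783 0) (P.cons (P.lf 0 6231 0) P.nil)) (P.cons (P.cons (P.lf 0 35863 0) P.nil) P.nil)))))) 115299)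
 (EL.cons 9 (TM.mk (P.cons (P.cons (P.lf 1215273322 0 0) (P.cons (P.lf 0 447382384 0) (P.cons (P.lf 16695103 0 0) (P.cons (P.lf 7225639 0 0) (P.cons (P.lf 0 377370 0) (P.cons (P.lf 0 27391 0) P.nil)))))) (P.cons (P.cons (P.lf 0 2379117 0) (P.cons (P.lf 0 27611563 0) (P.cons (P.lf 3652180 0 0) (P.cons (P.lf 732852 0 0) (P.cons (P.lf 0 47317 0) P.nil))))) (P.cons (P.cons (P.lf 0 33996279 0) (P.cons (P.lf 8295181 0 0) (P.cons (P.lf 245763 0 0) (P.cons (P.lf 0 73200 0) P.nil)))) (P.cons (P.cons (P.lf 463329 0 0) (P.cons (P.lf 471430 0 0) (P.cons (P.lf 0 26895 0) P.nil))) (P.cons (P.cons (P.lf 370072 0 0) (P.cons (P.lf 0 61363 0) P.nil)) (P.cons (P.cons (P.lf 0 5895 0) P.nil) P.nil)))))) 40463)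
 (EL.cons 2 (TM.mk (P.cons (P.cons (P.lf 552752133 0 0) (P.cons (P.lf 0 32386078 0) (P.cons (P.lf 0 28922338 0) (P.cons (P.lf 1545620 0 0) (P.cons (P.lf 270759 0 0) (P.cons (P.lf 0 13550 0) P.nil)))))) (P.cons (P.cons (P.lf 0 85387168 0) (P.cons (P.lf 0 1475685 0) (P.cons (P.lf 3300429 0 0) (P.cons (P.lf 0 119745 0) (P.cons (P.lf 0 26296 0) P.nil))))) (P.cons (P.cons (P.lf 0 15735363 0) (P.cons (P.lf 950343 0 0) (P.cons (P.lf 828455 0 0) (P.cons (P.lf 0 44516 0) P.nil)))) (P.cons (P.cons (P.lf 1598073 0 0) (P.cons (P.lf 203866 0 0) (P.cons (P.lf 0 30009 0) P.nil))) (P.cons (P.cons (P.lf 161055 0 0) (P.cons (P.lf 0 2525 0) P.nil)) (P.cons (P.cons (P.lf 0 10693 0) P.nil) P.nil)))))) 36466)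
 (EL.cons 6 (TM.mk (P.cons (P.cons (P.lf 1007553054 0 0) (P.cons (P.lf 0 59033136 0) (P.cons (P.lf 0 52719450 0) (P.cons (P.lf 2817348 0 0) (P.cons (P.lf 493536 0 0) (P.cons (P.lf 0 24702 0) P.nil)))))) (P.cons (P.cons (P.lf 62184198 0 0) (P.cons (P.lf 0 15452502 0) (P.cons (P.lf 0 5381640 0) (P.cons (P.lf 390816 0 0) (P.cons (P.lf 58752 0 0) P.nil))))) (P.cons (P.cons (P.lf 0 18681642 0) (P.cons (P.lf 0 1406718 0) (P.cons (P.lf 526782 0 0) (P.cons (P.lf 0 6282 0) P.nil)))) (P.cons (P.cons (P.lf 0 1061718 0) (P.cons (P.lf 104082 0 0) (P.cons (P.lf 63090 0 0) P.nil))) (P.cons (P.cons (P.lf 138204 0 0) (P.cons (P.lf 18852 0 0) P.nil)) (P.cons (P.cons (P.lf 8832 0 0) P.nil) P.nil)))))) 32622)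
 EL.nil))))))
noncomputable def S212_227_364_438_3 : EL := (EL.cons 0 (TM.mk (P.cons (P.lf 583851700 0 0) (P.cons (P.lf 0 228047217 0) (P.cons (P.lf 18724113 0 0) (P.cons (P.lf 894670 0 0) (P.cons (P.lf 0 28400 0) (P.cons (P.lf 0 1893 0) P.nil)))))) 140)
 (EL.cons 1 (TM.mk (P.cons (P.lf 1064241138 0 0) (P.cons (P.lf 0 185599968 0) (P.cons (P.lf 0 9632411 0) (P.cons (P.lf 474855 0 0) (P.cons (P.lf 25702 0 0) (P.cons (P.lf 0 519 0) P.nil)))))) 134)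
 (EL.cons 5 (TM.mk (P.cons (P.lf 1939891930 0 0) (P.cons (P.lf 81083452 0 0) (P.cons (P.lf 0 6657460 0) (P.cons (P.lf 0 318104 0) (P.cons (P.lf 10096 0 0) (P.cons (P.lf 672 0 0) P.nil)))))) 136)
 EL.nil)))
noncomputable def S212_227_364_438_4 : EL := (EL.cons 0 (TM.mk (P.cons (P.cons (P.lf 253579399 0 0) (P.cons (P.lf 0 46675490 0) (P.cons (P.lf 0 2553894 0) (P.lf 283765 0 0)))) (P.cons (P.cons (P.lf 0 99294043 0) (P.cons (P.lf 15304617 0 0) (P.cons (P.lf 837406 0 0) (P.lf 0 93044 0)))) (P.cons (P.cons (P.lf 4682276 0 0) (P.cons (P.lf 0 144156 0) (P.cons (P.lf 0 7887 0) (P.lf 875 0 0)))) (P.cons (P.cons (P.lf 1810891 0 0) (P.cons (P.lf 0 230563 0) (P.cons (P.lf 0 12615 0) P.nil))) (P.cons (P.cons (P.lf 0 130143 0) (P.cons (P.lf 0 2402 0) P.nil)) (P.cons (P.cons (P.lf 0 10188 0) P.nil) P.nil)))))) 5397)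
 (EL.cons 1 (TM.mk (P.cons (P.cons (P.lf 462222907 0 0) (P.cons (P.lf 0 85079784 0) (P.cons (P.lf 0 4655221 0) (P.lf 517245 0 0)))) (P.cons (P.cons (P.lf 0 81062516 0) (P.cons (P.lf 9503381 0 0) (P.cons (P.lf 519986 0 0) (P.lf 0 57776 0)))) (P.cons (P.cons (P.lf 0 10570035 0) (P.cons (P.lf 2082558 0 0) (P.cons (P.lf 113947 0 0) (P.lf 0 12658 0)))) (P.cons (P.cons (P.lf 1419656 0 0) (P.cons (P.lf 0 25873 0) (P.cons (P.lf 0 1415 0) P.nil))) (P.cons (P.cons (P.lf 80456 0 0) (P.cons (P.lf 0 13910 0) P.nil)) (P.cons (P.cons (P.lf 0 8216 0) P.nil) P.nil)))))) 3776)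
 (EL.cons 5 (TM.mk (P.cons (P.cons (P.lf 842536954 0 0) (P.cons (P.lf 0 155082886 0) (P.cons (P.lf 0 8485512 0) (P.lf 942832 0 0)))) (P.cons (P.cons (P.lf 34391584 0 0) (P.cons (P.lf 0 16205354 0) (P.cons (P.lf 0 886690 0) (P.lf 98518 0 0)))) (P.cons (P.cons (P.lf 0 14710994 0) (P.cons (P.lf 822546 0 0) (P.cons (P.lf 45004 0 0) (P.lf 0 4998 0)))) (P.cons (P.cons (P.lf 0 478844 0) (P.cons (P.lf 143456 0 0) (P.cons (P.lf 7846 0 0) P.nil))) (P.cons (P.cons (P.lf 97202 0 0) (P.cons (P.lf 0 564 0) P.nil)) (P.cons (P.cons (P.lf 3718 0 0) P.nil) P.nil)))))) 2974)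
 EL.nil)))
noncomputable def S212_227_364_438_5 : EL := (EL.cons 0 (TM.mk (P.cons (P.cons (P.lf 110135009 0 0) (P.cons (P.lf 0 40544346 0) (P.cons (P.lf 1513005 0 0) (P.cons (P.lf 654827 0 0) (P.cons (P.lf 0 34198 0) (P.cons (P.lf 0 2482 0) P.nil)))))) (P.cons (P.cons (P.lf 0 43233350 0) (P.cons (P.lf 13333937 0 0) (P.cons (P.lf 0 259983 0) (P.cons (P.lf 0 189353 0) (P.cons (P.lf 9068 0 0) P.nil))))) (P.cons (P.cons (P.lf 535304 0 0) (P.cons (P.lf 428881 0 0) (P.cons (P.lf 0 58482 0) (P.cons (P.lf 0 11573 0) P.nil)))) (P.cons (P.cons (P.lf 1407227 0 0) (P.cons (P.lf 0 393282 0) (P.cons (P.lf 1794 0 0) P.nil))) (P.cons (P.cons (P.lf 0 87354 0) (P.cons (P.lf 0 1 0) P.nil)) (P.cons (P.cons (P.lf 0 17354 0) P.nil) P.nil)))))) 24645)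
 (EL.cons 1 (TM.mk (P.cons (P.cons (P.lf 200753388 0 0) (P.cons (P.lf 0 73903974 0) (P.cons (P.lf 2757896 0 0) (P.cons (P.lf 1193615 0 0) (P.cons (P.lf 0 62336 0) (P.cons (P.lf 0 4524 0) P.nil)))))) (P.cons (P.cons (P.lf 0 35403706 0) (P.cons (P.lf 8327386 0 0) (P.cons (P.lf 122341 0 0) (P.cons (P.lf 0 87101 0) (P.cons (P.lf 3052 0 0) P.nil))))) (P.cons (P.cons (P.lf 0 7364383 0) (P.cons (P.lf 2834656 0 0) (P.cons (P.lf 0 89578 0) (P.cons (P.lf 0 44006 0) P.nil)))) (P.cons (P.cons (P.lf 1149063 0 0) (P.cons (P.lf 0 152790 0) (P.cons (P.lf 0 15751 0) P.nil))) (P.cons (P.cons (P.lf 103286 0 0) (P.cons (P.lf 0 39939 0) P.nil)) (P.cons (P.cons (P.lf 0 14940 0) P.nil) P.nil)))))) 21983)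
 (EL.cons 5 (TM.mk (P.cons (P.cons (P.lf 365931990 0 0) (P.cons (P.lf 0 134711692 0) (P.cons (P.lf 5027076 0 0) (P.cons (P.lf 2175718 0 0) (P.cons (P.lf 0 113628 0) (P.cons (P.lf 0 8246 0) P.nil)))))) (P.cons (P.cons (P.lf 14578818 0 0) (P.cons (P.lf 0 13944808 0) (P.cons (P.lf 1309832 0 0) (P.cons (P.lf 311610 0 0) (P.cons (P.lf 0 18996 0) P.nil))))) (P.cons (P.cons (P.lf 0 11522422 0) (P.cons (P.lf 2612568 0 0) (P.cons (P.lf 102714 0 0) (P.cons (P.lf 0 20284 0) P.nil)))) (P.cons (P.cons (P.lf 0 345902 0) (P.cons (P.lf 296976 0 0) (P.cons (P.lf 0 9602 0) P.nil))) (P.cons (P.cons (P.lf 154416 0 0) (P.cons (P.lf 0 20452 0) P.nil)) (P.cons (P.cons (P.lf 4204 0 0) P.nil) P.nil)))))) 19864)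
 EL.nil)))
noncomputable def S212_227_364_438_6 : EL := (EL.cons 12 (TM.mk (P.lf 8589934592 0 0) 0)
 (EL.cons 3 (TM.mk (P.cons (P.lf 0 1119737460 0) (P.cons (P.lf 218679686 0 0) (P.cons (P.lf 3398598 0 0) (P.cons (P.lf 0 194190 0) (P.cons (P.lf 0 5531 0) (P.cons (P.lf 146 0 0) P.nil)))))) 52)
 (EL.cons 7 (TM.mk (P.cons (P.lf 0 2041050269 0) (P.cons (P.lf 0 42655831 0) (P.cons (P.lf 3948043 0 0) (P.cons (P.lf 84836 0 0) (P.cons (P.lf 0 3266 0) (P.cons (P.lf 0 122 0) P.nil)))))) 52)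
 EL.nil)))
noncomputable def S212_227_364_438_7 : EL := (EL.cons 12 (TM.mk (P.cons (P.cons (P.lf 3730794082 0 0) (P.cons (P.lf 0 686714472 0) (P.cons (P.lf 0 37574256 0) (P.lf 4174912 0 0)))) (P.cons (P.cons (P.lf 0 3651852 0) (P.cons (P.lf 0 43054856 0) (P.cons (P.lf 0 2355784 0) (P.lf 261744 0 0)))) (P.cons (P.cons (P.lf 0 52184748 0) (P.cons (P.lf 3085168 0 0) (P.cons (P.lf 168800 0 0) (P.lf 0 18752 0)))) (P.cons (P.cons (P.lf 660112 0 0) (P.cons (P.lf 245920 0 0) (P.cons (P.lf 13448 0 0) P.nil))) (P.cons (P.cons (P.lf 203726 0 0) (P.cons (P.lf 0 5680 0) P.nil)) (P.cons (P.cons (P.lf 382 0 0) P.nil) P.nil)))))) 4458)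
 (EL.cons 3 (TM.mk (P.cons (P.cons (P.lf 0 509104063 0) (P.cons (P.lf 0 179032774 0) (P.cons (P.lf 0 9795952 0) (P.lf 1088436 0 0)))) (P.cons (P.cons (P.lf 0 555782234 0) (P.cons (P.lf 23739496 0 0) (P.cons (P.lf 1298930 0 0) (P.lf 0 144326 0)))) (P.cons (P.cons (P.lf 13587300 0 0) (P.cons (P.lf 3539878 0 0) (P.cons (P.lf 193684 0 0) (P.lf 0 21516 0)))) (P.cons (P.cons (P.lf 4432141 0 0) (P.cons (P.lf 0 89946 0) (P.cons (P.lf 0 4920 0) P.nil))) (P.cons (P.cons (P.lf 19996 0 0) (P.cons (P.lf 0 19272 0) P.nil)) (P.cons (P.cons (P.lf 0 16313 0) P.nil) P.nil)))))) 10150)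
 (EL.cons 7 (TM.mk (P.cons (P.cons (P.lf 0 882029142 0) (P.cons (P.lf 215553318 0 0) (P.cons (P.lf 11794213 0 0) (P.lf 0 1310472 0)))) (P.cons (P.cons (P.lf 108411318 0 0) (P.cons (P.lf 0 4630644 0) (P.cons (P.lf 0 253369 0) (P.lf 28148 0 0)))) (P.cons (P.cons (P.lf 0 14369308 0) (P.cons (P.lf 0 189934 0) (P.cons (P.lf 0 10396 0) (P.lf 1156 0 0)))) (P.cons (P.cons (P.lf 0 359049 0) (P.cons (P.lf 111789 0 0) (P.cons (P.lf 6114 0 0) P.nil))) (P.cons (P.cons (P.lf 124302 0 0) (P.cons (P.lf 56 0 0) P.nil)) (P.cons (P.cons (P.lf 2522 0 0) P.nil) P.nil)))))) 9003)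
 (EL.cons 10 (TM.mk (P.cons (P.cons (P.lf 0 2440802658 0) (P.cons (P.lf 0 306262083 0) (P.cons (P.lf 46758297 0 0) (P.cons (P.lf 1428459 0 0) (P.lf 0 119037 0))))) (P.cons (P.cons (P.lf 0 102020478 0) (P.cons (P.lf 0 12801117 0) (P.cons (P.lf 1954398 0 0) (P.cons (P.lf 59706 0 0) (P.lf 0 4974 0))))) (P.cons (P.cons (P.lf 8376519 0 0) (P.cons (P.lf 1051050 0 0) (P.cons (P.lf 0 160467 0) (P.cons (P.lf 0 4902 0) P.nil)))) (P.cons (P.cons (P.lf 400242 0 0) (P.cons (P.lf 50220 0 0) (P.cons (P.lf 0 7665 0) P.nil))) (P.cons (P.cons (P.lf 0 12702 0) (P.cons (P.lf 0 1593 0) P.nil)) (P.cons (P.cons (P.lf 0 843 0) P.nil) P.nil)))))) 1341)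
 EL.nil))))
noncomputable def S212_227_364_438_8 : EL := (EL.cons 12 (TM.mk (P.cons (P.cons (P.lf 1620364430 0 0) (P.cons (P.lf 0 596509846 0) (P.cons (P.lf 22260138 0 0) (P.cons (P.lf 9634186 0 0) (P.cons (P.lf 0 503160 0) (P.cons (P.lf 0 36522 0) P.nil)))))) (P.cons (P.cons (P.lf 0 3172156 0) (P.cons (P.lf 0 36815418 0) (P.cons (P.lf 4869574 0 0) (P.cons (P.lf 977136 0 0) (P.cons (P.lf 0 63090 0) P.nil))))) (P.cons (P.cons (P.lf 0 45328372 0) (P.cons (P.lf 11060242 0 0) (P.cons (P.lf 327684 0 0) (P.cons (P.lf 0 97600 0) P.nil)))) (P.cons (P.cons (P.lf 617772 0 0) (P.cons (P.lf 628574 0 0) (P.cons (P.lf 0 35860 0) P.nil))) (P.cons (P.cons (P.lf 493430 0 0) (P.cons (P.lf 0 81818 0) P.nil)) (P.cons (P.cons (P.lf 0 7860 0) P.nil) P.nil)))))) 53922)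
 (EL.cons 3 (TM.mk (P.cons (P.cons (P.lf 0 231007821 0) (P.cons (P.lf 0 151873679 0) (P.cons (P.lf 27471610 0 0) (P.cons (P.lf 4838958 0 0) (P.cons (P.lf 0 327946 0) (P.cons (P.lf 0 23806 0) P.nil)))))) (P.cons (P.cons (P.lf 0 524007777 0) (P.cons (P.lf 125126575 0 0) (P.cons (P.lf 4345233 0 0) (P.cons (P.lf 0 1034423 0) (P.cons (P.lf 22920 0 0) P.nil))))) (P.cons (P.cons (P.lf 11991692 0 0) (P.cons (P.lf 10878273 0 0) (P.cons (P.lf 0 570492 0) (P.cons (P.lf 0 193689 0) P.nil)))) (P.cons (P.cons (P.lf 11785389 0 0) (P.cons (P.lf 0 1868877 0) (P.cons (P.lf 0 120129 0) P.nil))) (P.cons (P.cons (P.lf 0 193553 0) (P.cons (P.lf 0 165789 0) P.nil)) (P.cons (P.cons (P.lf 0 107240 0) P.nil) P.nil)))))) 127920)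
 (EL.cons 7 (TM.mk (P.cons (P.cons (P.lf 0 381154586 0) (P.cons (P.lf 186528526 0 0) (P.cons (P.lf 0 11213860 0) (P.cons (P.lf 0 3478038 0) (P.cons (P.lf 196319 0 0) (P.cons (P.lf 14245 0 0) P.nil)))))) (P.cons (P.cons (P.lf 102213366 0 0) (P.cons (P.lf 0 24407283 0) (P.cons (P.lf 0 847584 0) (P.cons (P.lf 201770 0 0) (P.cons (P.lf 0 4471 0) P.nil))))) (P.cons (P.cons (P.lf 0 13388087 0) (P.cons (P.lf 516430 0 0) (P.cons (P.lf 202897 0 0) (P.cons (P.lf 15974 0 0) P.nil)))) (P.cons (P.cons (P.lf 0 1845297 0) (P.cons (P.lf 642568 0 0) (P.cons (P.lf 6429 0 0) P.nil))) (P.cons (P.cons (P.lf 399486 0 0) (P.cons (P.lf 0 28715 0) P.nil)) (P.cons (P.cons (P.lf 10068 0 0) P.nil) P.nil)))))) 65915)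
 (EL.cons 10 (TM.mk (P.cons (P.cons (P.lf 0 2120186598 0) (P.cons (P.lf 124223004 0 0) (P.cons (P.lf 110937168 0 0) (P.cons (P.lf 0 5928534 0) (P.cons (P.lf 0 1038552 0) (P.cons (P.lf 51984 0 0) P.nil)))))) (P.cons (P.cons (P.lf 0 86544066 0) (P.cons (P.lf 29920464 0 0) (P.cons (P.lf 9006078 0 0) (P.cons (P.lf 0 698502 0) (P.cons (P.lf 0 101934 0) P.nil))))) (P.cons (P.cons (P.lf 37019208 0 0) (P.cons (P.lf 2575134 0 0) (P.cons (P.lf 0 1082142 0) (P.cons (P.lf 16356 0 0) P.nil)))) (P.cons (P.cons (P.lf 1204974 0 0) (P.cons (P.lf 0 209802 0) (P.cons (P.lf 0 88122 0) P.nil))) (P.cons (P.cons (P.lf 0 244602 0) (P.cons (P.lf 0 29268 0) P.nil)) (P.cons (P.cons (P.lf 0 9348 0) P.nil) P.nil)))))) 52716)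
 EL.nil))))
noncomputable def S212_227_364_438_9 : EL := (EL.cons 3 (TM.mk (P.cons (P.lf 0 1119737460 0) (P.cons (P.lf 218679686 0 0) (P.cons (P.lf 3398598 0 0) (P.cons (P.lf 0 194190 0) (P.cons (P.lf 0 5531 0) (P.cons (P.lf 146 0 0) P.nil)))))) 52)
 (EL.cons 7 (TM.mk (P.cons (P.lf 0 2041050269 0) (P.cons (P.lf 0 42655831 0) (P.cons (P.lf 3948043 0 0) (P.cons (P.lf 84836 0 0) (P.cons (P.lf 0 3266 0) (P.cons (P.lf 0 122 0) P.nil)))))) 52)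
 EL.nil))
noncomputable def S212_227_364_438_10 : EL := (EL.cons 3 (TM.mk (P.cons (P.cons (P.lf 0 486326158 0) (P.cons (P.lf 89516387 0 0) (P.cons (P.lf 4897976 0 0) (P.lf 0 544218 0)))) (P.cons (P.cons (P.lf 95453344 0 0) (P.cons (P.lf 0 11869748 0) (P.cons (P.lf 0 649465 0) (P.lf 72163 0 0)))) (P.cons (P.cons (P.lf 8185638 0 0) (P.cons (P.lf 0 1769939 0) (P.cons (P.lf 0 96842 0) (P.lf 10758 0 0)))) (P.cons (P.cons (P.lf 0 1500335 0) (P.cons (P.lf 44973 0 0) (P.cons (P.lf 2460 0 0) P.nil))) (P.cons (P.cons (P.lf 0 32717 0) (P.cons (P.lf 9636 0 0) P.nil)) (P.cons (P.cons (P.lf 6643 0 0) P.nil) P.nil)))))) 2454)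
 (EL.cons 7 (TM.mk (P.cons (P.cons (P.lf 0 886472205 0) (P.cons (P.lf 163169898 0 0) (P.cons (P.lf 8928001 0 0) (P.lf 0 991998 0)))) (P.cons (P.cons (P.lf 0 17658633 0) (P.cons (P.lf 13640325 0 0) (P.cons (P.lf 746342 0 0) (P.lf 0 82924 0)))) (P.cons (P.cons (P.lf 14132447 0 0) (P.cons (P.lf 0 834886 0) (P.cons (P.lf 0 45679 0) (P.lf 5074 0 0)))) (P.cons (P.cons (P.lf 137457 0 0) (P.cons (P.lf 0 100323 0) (P.cons (P.lf 0 5487 0) P.nil))) (P.cons (P.cons (P.lf 0 77124 0) (P.cons (P.lf 1382 0 0) P.nil)) (P.cons (P.cons (P.lf 0 1366 0) P.nil) P.nil)))))) 1919)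
 EL.nil))
noncomputable def S212_227_364_438_11 : EL := (EL.cons 3 (TM.mk (P.cons (P.cons (P.lf 0 211221951 0) (P.cons (P.lf 77757799 0 0) (P.cons (P.lf 0 2901710 0) (P.cons (P.lf 0 1255860 0) (P.cons (P.lf 65588 0 0) (P.cons (P.lf 4760 0 0) P.nil)))))) (P.cons (P.cons (P.lf 41664201 0 0) (P.cons (P.lf 0 10386689 0) (P.cons (P.lf 0 68079 0) (P.cons (P.lf 117889 0 0) (P.cons (P.lf 0 4584 0) P.nil))))) (P.cons (P.cons (P.lf 6469100 0 0) (P.cons (P.lf 0 2614995 0) (P.cons (P.lf 90060 0 0) (P.cons (P.lf 41409 0 0) P.nil)))) (P.cons (P.cons (P.lf 0 1272369 0) (P.cons (P.lf 198549 0 0) (P.cons (P.lf 14439 0 0) P.nil))) (P.cons (P.cons (P.lf 0 67499 0) (P.cons (P.lf 32259 0 0) P.nil)) (P.cons (P.cons (P.lf 14884 0 0) P.nil) P.nil)))))) 18746)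
 (EL.cons 7 (TM.mk (P.cons (P.cons (P.lf 0 385014020 0) (P.cons (P.lf 141736420 0 0) (P.cons (P.lf 0 5289220 0) (P.cons (P.lf 0 2289174 0) (P.cons (P.lf 119555 0 0) (P.cons (P.lf 8677 0 0) P.nil)))))) (P.cons (P.cons (P.lf 0 7292658 0) (P.cons (P.lf 11709837 0 0) (P.cons (P.lf 0 1267596 0) (P.cons (P.lf 0 280018 0) (P.cons (P.lf 17489 0 0) P.nil))))) (P.cons (P.cons (P.lf 11530945 0 0) (P.cons (P.lf 0 2719364 0) (P.cons (P.lf 0 91811 0) (P.cons (P.lf 22766 0 0) P.nil)))) (P.cons (P.cons (P.lf 92847 0 0) (P.cons (P.lf 0 227090 0) (P.cons (P.lf 9351 0 0) P.nil))) (P.cons (P.cons (P.lf 0 141792 0) (P.cons (P.lf 21265 0 0) P.nil)) (P.cons (P.cons (P.lf 0 768 0) P.nil) P.nil)))))) 16591)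
 EL.nil))
noncomputable def S212_227_364_438_12 : EL := (EL.cons 4 (TM.mk (P.cons (P.lf 1119737460 0 0) (P.cons (P.lf 0 218679686 0) (P.cons (P.lf 0 3398598 0) (P.cons (P.lf 194190 0 0) (P.cons (P.lf 5531 0 0) (P.cons (P.lf 0 146 0) P.nil)))))) 52)
 (EL.cons 8 (TM.mk (P.cons (P.lf 2041050269 0 0) (P.cons (P.lf 42655831 0 0) (P.cons (P.lf 0 3948043 0) (P.cons (P.lf 0 84836 0) (P.cons (P.lf 3266 0 0) (P.cons (P.lf 122 0 0) P.nil)))))) 52)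
 EL.nil))
noncomputable def S212_227_364_438_13 : EL := (EL.cons 4 (TM.mk (P.cons (P.cons (P.lf 486326158 0 0) (P.cons (P.lf 0 89516387 0) (P.cons (P.lf 0 4897976 0) (P.lf 544218 0 0)))) (P.cons (P.cons (P.lf 0 95453344 0) (P.cons (P.lf 11869748 0 0) (P.cons (P.lf 649465 0 0) (P.lf 0 72163 0)))) (P.cons (P.cons (P.lf 0 8185638 0) (P.cons (P.lf 1769939 0 0) (P.cons (P.lf 96842 0 0) (P.lf 0 10758 0)))) (P.cons (P.cons (P.lf 1500335 0 0) (P.cons (P.lf 0 44973 0) (P.cons (P.lf 0 2460 0) P.nil))) (P.cons (P.cons (P.lf 32717 0 0) (P.cons (P.lf 0 9636 0) P.nil)) (P.cons (P.cons (P.lf 0 6643 0) P.nil) P.nil)))))) 2454)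
 (EL.cons 8 (TM.mk (P.cons (P.cons (P.lf 886472205 0 0) (P.cons (P.lf 0 163169898 0) (P.cons (P.lf 0 8928001 0) (P.lf 991998 0 0)))) (P.cons (P.cons (P.lf 17658633 0 0) (P.cons (P.lf 0 13640325 0) (P.cons (P.lf 0 746342 0) (P.lf 82924 0 0)))) (P.cons (P.cons (P.lf 0 14132447 0) (P.cons (P.lf 834886 0 0) (P.cons (P.lf 45679 0 0) (P.lf 0 5074 0)))) (P.cons (P.cons (P.lf 0 137457 0) (P.cons (P.lf 100323 0 0) (P.cons (P.lf 5487 0 0) P.nil))) (P.cons (P.cons (P.lf 77124 0 0) (P.cons (P.lf 0 1382 0) P.nil)) (P.cons (P.cons (P.lf 1366 0 0) P.nil) P.nil)))))) 1919)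
 EL.nil))
noncomputable def S212_227_364_438_14 : EL := (EL.cons 4 (TM.mk (P.cons (P.cons (P.lf 211221951 0 0) (P.cons (P.lf 0 77757799 0) (P.cons (P.lf 2901710 0 0) (P.cons (P.lf 1255860 0 0) (P.cons (P.lf 0 65588 0) (P.cons (P.lf 0 4760 0) P.nil)))))) (P.cons (P.cons (P.lf 0 41664201 0) (P.cons (P.lf 10386689 0 0) (P.cons (P.lf 68079 0 0) (P.cons (P.lf 0 117889 0) (P.cons (P.lf 4584 0 0) P.nil))))) (P.cons (P.cons (P.lf 0 6469100 0) (P.cons (P.lf 2614995 0 0) (P.cons (P.lf 0 90060 0) (P.cons (P.lf 0 41409 0) P.nil)))) (P.cons (P.cons (P.lf 1272369 0 0) (P.cons (P.lf 0 198549 0) (P.cons (P.lf 0 14439 0) P.nil))) (P.cons (P.cons (P.lf 67499 0 0) (P.cons (P.lf 0 32259 0) P.nil)) (P.cons (P.cons (P.lf 0 14884 0) P.nil) P.nil)))))) 18746)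
 (EL.cons 8 (TM.mk (P.cons (P.cons (P.lf 385014020 0 0) (P.cons (P.lf 0 141736420 0) (P.cons (P.lf 5289220 0 0) (P.cons (P.lf 2289174 0 0) (P.cons (P.lf 0 119555 0) (P.cons (P.lf 0 8677 0) P.nil)))))) (P.cons (P.cons (P.lf 7292658 0 0) (P.cons (P.lf 0 11709837 0) (P.cons (P.lf 1267596 0 0) (P.cons (P.lf 280018 0 0) (P.cons (P.lf 0 17489 0) P.nil))))) (P.cons (P.cons (P.lf 0 11530945 0) (P.cons (P.lf 2719364 0 0) (P.cons (P.lf 91811 0 0) (P.cons (P.lf 0 22766 0) P.nil)))) (P.cons (P.cons (P.lf 0 92847 0) (P.cons (P.lf 227090 0 0) (P.cons (P.lf 0 9351 0) P.nil))) (P.cons (P.cons (P.lf 141792 0 0) (P.cons (P.lf 0 21265 0) P.nil)) (P.cons (P.cons (P.lf 768 0 0) P.nil) P.nil)))))) 16591)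
 EL.nil))
noncomputable def S212_227_364_438_15 : EL := (EL.cons 4 (TM.mk (P.cons (P.lf 0 311387573 0) (P.cons (P.lf 121625182 0 0) (P.cons (P.lf 0 9986193 0) (P.cons (P.lf 0 477157 0) (P.cons (P.lf 15147 0 0) (P.cons (P.lf 1009 0 0) P.nil)))))) 78)
 (EL.cons 8 (TM.mk (P.cons (P.lf 0 567595274 0) (P.cons (P.lf 98986650 0 0) (P.cons (P.lf 5137286 0 0) (P.cons (P.lf 0 253256 0) (P.cons (P.lf 0 13708 0) (P.cons (P.lf 277 0 0) P.nil)))))) 68)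
 EL.nil))
noncomputable def S212_227_364_438_16 : EL := (EL.cons 4 (TM.mk (P.cons (P.cons (P.lf 0 135242346 0) (P.cons (P.lf 24893595 0 0) (P.cons (P.lf 1362076 0 0) (P.lf 0 151341 0)))) (P.cons (P.cons (P.lf 52956823 0 0) (P.cons (P.lf 0 8162462 0) (P.cons (P.lf 0 446616 0) (P.lf 49623 0 0)))) (P.cons (P.cons (P.lf 0 2497214 0) (P.cons (P.lf 76883 0 0) (P.cons (P.lf 4206 0 0) (P.lf 0 466 0)))) (P.cons (P.cons (P.lf 0 965808 0) (P.cons (P.lf 122967 0 0) (P.cons (P.lf 6728 0 0) P.nil))) (P.cons (P.cons (P.lf 69409 0 0) (P.cons (P.lf 1281 0 0) P.nil)) (P.cons (P.cons (P.lf 5433 0 0) P.nil) P.nil)))))) 2887)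
 (EL.cons 8 (TM.mk (P.cons (P.cons (P.lf 0 246518884 0) (P.cons (P.lf 45375885 0 0) (P.cons (P.lf 2482785 0 0) (P.lf 0 275864 0)))) (P.cons (P.cons (P.lf 43233342 0 0) (P.cons (P.lf 0 5068470 0) (P.cons (P.lf 0 277326 0) (P.lf 30814 0 0)))) (P.cons (P.cons (P.lf 5637352 0 0) (P.cons (P.lf 0 1110698 0) (P.cons (P.lf 0 60772 0) (P.lf 6751 0 0)))) (P.cons (P.cons (P.lf 0 757150 0) (P.cons (P.lf 13799 0 0) (P.cons (P.lf 755 0 0) P.nil))) (P.cons (P.cons (P.lf 0 42910 0) (P.cons (P.lf 7419 0 0) P.nil)) (P.cons (P.cons (P.lf 4382 0 0) P.nil) P.nil)))))) 2004)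
 EL.nil))
noncomputable def S212_227_364_438_17 : EL := (EL.cons 4 (TM.mk (P.cons (P.cons (P.lf 0 58738671 0) (P.cons (P.lf 21623651 0 0) (P.cons (P.lf 0 806936 0) (P.cons (P.lf 0 349241 0) (P.cons (P.lf 18239 0 0) (P.cons (P.lf 1323 0 0) P.nil)))))) (P.cons (P.cons (P.lf 23057787 0 0) (P.cons (P.lf 0 7111433 0) (P.cons (P.lf 138658 0 0) (P.cons (P.lf 100988 0 0) (P.cons (P.lf 0 4836 0) P.nil))))) (P.cons (P.cons (P.lf 0 285495 0) (P.cons (P.lf 0 228736 0) (P.cons (P.lf 31190 0 0) (P.cons (P.lf 6172 0 0) P.nil)))) (P.cons (P.cons (P.lf 0 750521 0) (P.cons (P.lf 209750 0 0) (P.cons (P.lf 0 957 0) P.nil))) (P.cons (P.cons (P.lf 46589 0 0) (P.cons (P.lf 0 0 0) P.nil)) (P.cons (P.cons (P.lf 9255 0 0) P.nil) P.nil)))))) 13154)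
 (EL.cons 8 (TM.mk (P.cons (P.cons (P.lf 0 107068474 0) (P.cons (P.lf 39415453 0 0) (P.cons (P.lf 0 1470878 0) (P.cons (P.lf 0 636595 0) (P.cons (P.lf 33246 0 0) (P.cons (P.lf 2413 0 0) P.nil)))))) (P.cons (P.cons (P.lf 18881977 0 0) (P.cons (P.lf 0 4441273 0) (P.cons (P.lf 0 65249 0) (P.cons (P.lf 46454 0 0) (P.cons (P.lf 0 1628 0) P.nil))))) (P.cons (P.cons (P.lf 3927671 0 0) (P.cons (P.lf 0 1511817 0) (P.cons (P.lf 47775 0 0) (P.cons (P.lf 23470 0 0) P.nil)))) (P.cons (P.cons (P.lf 0 612834 0) (P.cons (P.lf 81488 0 0) (P.cons (P.lf 8401 0 0) P.nil))) (P.cons (P.cons (P.lf 0 55086 0) (P.cons (P.lf 21301 0 0) P.nil)) (P.cons (P.cons (P.lf 7968 0 0) P.nil) P.nil)))))) 11713)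
 EL.nil))
noncomputable def S212_227_364_438_18 : EL := (EL.cons 4 (TM.mk (P.cons (P.lf 86593710 0 0) (P.cons (P.lf 0 50734084 0) (P.cons (P.lf 9119656 0 0) (P.cons (P.lf 0 291978 0) (P.cons (P.lf 0 43993 0) (P.cons (P.lf 441 0 0) P.nil)))))) 153)
 (EL.cons 8 (TM.mk (P.cons (P.lf 157842459 0 0) (P.cons (P.lf 0 58353100 0) (P.cons (P.lf 3468227 0 0) (P.cons (P.lf 460355 0 0) (P.cons (P.lf 0 9599 0) (P.cons (P.lf 0 1439 0) P.nil)))))) 99)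
 EL.nil))
noncomputable def S212_227_364_438_19 : EL := (EL.cons 4 (TM.mk (P.cons (P.cons (P.lf 37609517 0 0) (P.cons (P.lf 0 6922654 0) (P.cons (P.lf 0 378779 0) (P.lf 42086 0 0)))) (P.cons (P.cons (P.lf 0 22071721 0) (P.cons (P.lf 3621860 0 0) (P.cons (P.lf 198173 0 0) (P.lf 0 22019 0)))) (P.cons (P.cons (P.lf 3456366 0 0) (P.cons (P.lf 0 443669 0) (P.cons (P.lf 0 24275 0) (P.lf 2697 0 0)))) (P.cons (P.cons (P.lf 184179 0 0) (P.cons (P.lf 0 38110 0) (P.cons (P.lf 0 2085 0) P.nil))) (P.cons (P.cons (P.lf 0 76230 0) (P.cons (P.lf 6745 0 0) P.nil)) (P.cons (P.cons (P.lf 1485 0 0) P.nil) P.nil)))))) 2552)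
 (EL.cons 8 (TM.mk (P.cons (P.cons (P.lf 68554388 0 0) (P.cons (P.lf 0 12618571 0) (P.cons (P.lf 0 690437 0) (P.lf 76715 0 0)))) (P.cons (P.cons (P.lf 0 25411114 0) (P.cons (P.lf 3873839 0 0) (P.cons (P.lf 211960 0 0) (P.lf 0 23551 0)))) (P.cons (P.cons (P.lf 572224 0 0) (P.cons (P.lf 71906 0 0) (P.cons (P.lf 3934 0 0) (P.lf 0 437 0)))) (P.cons (P.cons (P.lf 565098 0 0) (P.cons (P.lf 0 70625 0) (P.cons (P.lf 0 3864 0) P.nil))) (P.cons (P.cons (P.lf 0 26175 0) (P.cons (P.lf 0 2069 0) P.nil)) (P.cons (P.cons (P.lf 0 4528 0) P.nil) P.nil)))))) 1965)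
 EL.nil))
noncomputable def S212_227_364_438_20 : EL := (EL.cons 4 (TM.mk (P.cons (P.cons (P.lf 16334625 0 0) (P.cons (P.lf 0 6013316 0) (P.cons (P.lf 224400 0 0) (P.cons (P.lf 97120 0 0) (P.cons (P.lf 0 5071 0) (P.cons (P.lf 0 367 0) P.nil)))))) (P.cons (P.cons (P.lf 0 9602214 0) (P.cons (P.lf 3151990 0 0) (P.cons (P.lf 0 82383 0) (P.cons (P.lf 0 47051 0) (P.cons (P.lf 2335 0 0) P.nil))))) (P.cons (P.cons (P.lf 1282076 0 0) (P.cons (P.lf 0 304358 0) (P.cons (P.lf 0 1824 0) (P.cons (P.lf 3472 0 0) P.nil)))) (P.cons (P.cons (P.lf 215501 0 0) (P.cons (P.lf 0 77797 0) (P.cons (P.lf 2115 0 0) P.nil))) (P.cons (P.cons (P.lf 0 54988 0) (P.cons (P.lf 11510 0 0) P.nil)) (P.cons (P.cons (P.lf 0 696 0) P.nil) P.nil)))))) 8087)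
 (EL.cons 8 (TM.mk (P.cons (P.cons (P.lf 29774651 0 0) (P.cons (P.lf 0 10961035 0) (P.cons (P.lf 409036 0 0) (P.cons (P.lf 177030 0 0) (P.cons (P.lf 0 9245 0) (P.cons (P.lf 0 671 0) P.nil)))))) (P.cons (P.cons (P.lf 0 11065740 0) (P.cons (P.lf 3375713 0 0) (P.cons (P.lf 0 61737 0) (P.cons (P.lf 0 47491 0) (P.cons (P.lf 2258 0 0) P.nil))))) (P.cons (P.cons (P.lf 0 157142 0) (P.cons (P.lf 212485 0 0) (P.cons (P.lf 0 18070 0) (P.cons (P.lf 0 4541 0) P.nil)))) (P.cons (P.cons (P.lf 404834 0 0) (P.cons (P.lf 0 110416 0) (P.cons (P.lf 273 0 0) P.nil))) (P.cons (P.cons (P.lf 0 15411 0) (P.cons (P.lf 0 2614 0) P.nil)) (P.cons (P.cons (P.lf 0 5944 0) P.nil) P.nil)))))) 7542)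
 EL.nil))
noncomputable def S212_227_364_438_21 : EL := (EL.cons 4 (TM.mk (P.cons (P.cons (P.lf 22777905 0 0) (P.cons (P.lf 268549161 0 0) (P.cons (P.lf 14693928 0 0) (P.lf 0 1632654 0)))) (P.cons (P.cons (P.lf 651235578 0 0) (P.cons (P.lf 0 35609244 0) (P.cons (P.lf 0 1948395 0) (P.lf 216489 0 0)))) (P.cons (P.cons (P.lf 0 5401662 0) (P.cons (P.lf 0 5309817 0) (P.cons (P.lf 0 290526 0) (P.lf 32274 0 0)))) (P.cons (P.cons (P.lf 0 5932476 0) (P.cons (P.lf 134919 0 0) (P.cons (P.lf 7380 0 0) P.nil))) (P.cons (P.cons (P.lf 0 52713 0) (P.cons (P.lf 28908 0 0) P.nil)) (P.cons (P.cons (P.lf 22956 0 0) P.nil) P.nil)))))) 7677)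
 (EL.cons 8 (TM.mk (P.cons (P.cons (P.lf 0 4443063 0) (P.cons (P.lf 0 52383420 0) (P.cons (P.lf 0 2866212 0) (P.lf 318474 0 0)))) (P.cons (P.cons (P.lf 0 126069951 0) (P.cons (P.lf 18270969 0 0) (P.cons (P.lf 999711 0 0) (P.lf 0 111072 0)))) (P.cons (P.cons (P.lf 28501755 0 0) (P.cons (P.lf 0 644952 0) (P.cons (P.lf 0 35283 0) (P.lf 3918 0 0)))) (P.cons (P.cons (P.lf 496506 0 0) (P.cons (P.lf 0 212112 0) (P.cons (P.lf 0 11601 0) P.nil))) (P.cons (P.cons (P.lf 0 201426 0) (P.cons (P.lf 1326 0 0) P.nil)) (P.cons (P.cons (P.lf 0 3888 0) P.nil) P.nil)))))) 7065)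
 (EL.cons 11 (TM.mk (P.cons (P.cons (P.lf 2440802658 0 0) (P.cons (P.lf 306262083 0 0) (P.cons (P.lf 0 46758297 0) (P.cons (P.lf 0 1428459 0) (P.lf 119037 0 0))))) (P.cons (P.cons (P.lf 102020478 0 0) (P.cons (P.lf 12801117 0 0) (P.cons (P.lf 0 1954398 0) (P.cons (P.lf 0 59706 0) (P.lf 4974 0 0))))) (P.cons (P.cons (P.lf 0 8376519 0) (P.cons (P.lf 0 1051050 0) (P.cons (P.lf 160467 0 0) (P.cons (P.lf 4902 0 0) P.nil)))) (P.cons (P.cons (P.lf 0 400242 0) (P.cons (P.lf 0 50220 0) (P.cons (P.lf 7665 0 0) P.nil))) (P.cons (P.cons (P.lf 12702 0 0) (P.cons (P.lf 1593 0 0) P.nil)) (P.cons (P.cons (P.lf 843 0 0) P.nil) P.nil)))))) 1341)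
 EL.nil)))
noncomputable def S212_227_364_438_22 : EL := (EL.cons 4 (TM.mk (P.cons (P.cons (P.lf 9892935 0 0) (P.cons (P.lf 114815739 0 0) (P.cons (P.lf 0 15186660 0) (P.cons (P.lf 0 3047409 0) (P.cons (P.lf 196767 0 0) (P.cons (P.lf 14283 0 0) P.nil)))))) (P.cons (P.cons (P.lf 282835989 0 0) (P.cons (P.lf 0 67756632 0) (P.cons (P.lf 0 2206656 0) (P.cons (P.lf 576156 0 0) (P.cons (P.lf 0 13752 0) P.nil))))) (P.cons (P.cons (P.lf 0 2761296 0) (P.cons (P.lf 0 6746634 0) (P.cons (P.lf 330276 0 0) (P.cons (P.lf 117549 0 0) P.nil)))) (P.cons (P.cons (P.lf 0 6528879 0) (P.cons (P.lf 1033713 0 0) (P.cons (P.lf 67284 0 0) P.nil))) (P.cons (P.cons (P.lf 63027 0 0) (P.cons (P.lf 99024 0 0) P.nil)) (P.cons (P.cons (P.lf 61062 0 0) P.nil) P.nil)))))) 54576)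
 (EL.cons 8 (TM.mk (P.cons (P.cons (P.lf 0 1929717 0) (P.cons (P.lf 0 22396053 0) (P.cons (P.lf 2962320 0 0) (P.cons (P.lf 594432 0 0) (P.cons (P.lf 0 38382 0) (P.cons (P.lf 0 2784 0) P.nil)))))) (P.cons (P.cons (P.lf 0 54753012 0) (P.cons (P.lf 18058560 0 0) (P.cons (P.lf 0 210006 0) (P.cons (P.lf 0 240894 0) (P.cons (P.lf 10980 0 0) P.nil))))) (P.cons (P.cons (P.lf 12459516 0 0) (P.cons (P.lf 0 1617897 0) (P.cons (P.lf 0 147354 0) (P.cons (P.lf 3396 0 0) P.nil)))) (P.cons (P.cons (P.lf 969072 0 0) (P.cons (P.lf 0 434829 0) (P.cons (P.lf 1461 0 0) P.nil))) (P.cons (P.cons (P.lf 0 270639 0) (P.cons (P.lf 24990 0 0) P.nil)) (P.cons (P.cons (P.lf 0 5418 0) P.nil) P.nil)))))) 24651)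
 (EL.cons 11 (TM.mk (P.cons (P.cons (P.lf 1060093299 0 0) (P.cons (P.lf 0 62111502 0) (P.cons (P.lf 0 55468584 0) (P.cons (P.lf 2964267 0 0) (P.cons (P.lf 519276 0 0) (P.cons (P.lf 0 25992 0) P.nil)))))) (P.cons (P.cons (P.lf 43272033 0 0) (P.cons (P.lf 0 14960232 0) (P.cons (P.lf 0 4503039 0) (P.cons (P.lf 349251 0 0) (P.cons (P.lf 50967 0 0) P.nil))))) (P.cons (P.cons (P.lf 0 18509604 0) (P.cons (P.lf 0 1287567 0) (P.cons (P.lf 541071 0 0) (P.cons (P.lf 0 8178 0) P.nil)))) (P.cons (P.cons (P.lf 0 602487 0) (P.cons (P.lf 104901 0 0) (P.cons (P.lf 44061 0 0) P.nil))) (P.cons (P.cons (P.lf 122301 0 0) (P.cons (P.lf 14634 0 0) P.nil)) (P.cons (P.cons (P.lf 4674 0 0) P.nil) P.nil)))))) 26358)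
 EL.nil)))
noncomputable def S212_227_364_438_23 : EL := (EL.cons 4 (TM.mk (P.cons (P.cons (P.lf 0 6334302 0) (P.cons (P.lf 0 74680782 0) (P.cons (P.lf 0 4086231 0) (P.lf 454023 0 0)))) (P.cons (P.cons (P.lf 0 179864913 0) (P.cons (P.lf 24487386 0 0) (P.cons (P.lf 1339851 0 0) (P.lf 0 148872 0)))) (P.cons (P.cons (P.lf 36889773 0 0) (P.cons (P.lf 0 230649 0) (P.cons (P.lf 0 12621 0) (P.lf 1404 0 0)))) (P.cons (P.cons (P.lf 1904976 0 0) (P.cons (P.lf 0 368901 0) (P.cons (P.lf 0 20181 0) P.nil))) (P.cons (P.cons (P.lf 0 343530 0) (P.cons (P.lf 0 3843 0) P.nil)) (P.cons (P.cons (P.lf 0 14886 0) P.nil) P.nil)))))) 9147)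
 (EL.cons 8 (TM.mk (P.cons (P.cons (P.lf 1235568 0 0) (P.cons (P.lf 14567295 0 0) (P.cons (P.lf 797064 0 0) (P.lf 0 88563 0)))) (P.cons (P.cons (P.lf 34817466 0 0) (P.cons (P.lf 0 7925895 0) (P.cons (P.lf 0 433671 0) (P.lf 48183 0 0)))) (P.cons (P.cons (P.lf 0 14776617 0) (P.cons (P.lf 1127430 0 0) (P.cons (P.lf 61686 0 0) (P.lf 0 6852 0)))) (P.cons (P.cons (P.lf 1303650 0 0) (P.cons (P.lf 41907 0 0) (P.cons (P.lf 2289 0 0) P.nil))) (P.cons (P.cons (P.lf 113121 0 0) (P.cons (P.lf 0 13242 0) P.nil)) (P.cons (P.cons (P.lf 0 10638 0) P.nil) P.nil)))))) 4257)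
 (EL.cons 11 (TM.mk (P.cons (P.cons (P.lf 0 678762336 0) (P.cons (P.lf 0 85168362 0) (P.cons (P.lf 13003005 0 0) (P.cons (P.lf 397239 0 0) (P.lf 0 33102 0))))) (P.cons (P.cons (P.lf 104188374 0 0) (P.cons (P.lf 13073136 0 0) (P.cons (P.lf 0 1995930 0) (P.cons (P.lf 0 60975 0) (P.lf 5079 0 0))))) (P.cons (P.cons (P.lf 9930285 0 0) (P.cons (P.lf 1246011 0 0) (P.cons (P.lf 0 190233 0) (P.cons (P.lf 0 5811 0) P.nil)))) (P.cons (P.cons (P.lf 0 375225 0) (P.cons (P.lf 0 47082 0) (P.cons (P.lf 7188 0 0) P.nil))) (P.cons (P.cons (P.lf 0 40611 0) (P.cons (P.lf 0 5094 0) P.nil)) (P.cons (P.cons (P.lf 468 0 0) P.nil) P.nil)))))) 2355)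
 EL.nil)))
noncomputable def S212_227_364_438_24 : EL := (EL.cons 4 (TM.mk (P.cons (P.cons (P.lf 0 2751123 0) (P.cons (P.lf 0 31929087 0) (P.cons (P.lf 4223256 0 0) (P.cons (P.lf 847452 0 0) (P.cons (P.lf 0 54717 0) (P.cons (P.lf 0 3972 0) P.nil)))))) (P.cons (P.cons (P.lf 0 78116523 0) (P.cons (P.lf 25078035 0 0) (P.cons (P.lf 0 211134 0) (P.cons (P.lf 0 325725 0) (P.cons (P.lf 14511 0 0) P.nil))))) (P.cons (P.cons (P.lf 16136970 0 0) (P.cons (P.lf 0 1706760 0) (P.cons (P.lf 0 224505 0) (P.cons (P.lf 0 3969 0) P.nil)))) (P.cons (P.cons (P.lf 1903899 0 0) (P.cons (P.lf 0 716598 0) (P.cons (P.lf 0 1902 0) P.nil))) (P.cons (P.cons (P.lf 0 388092 0) (P.cons (P.lf 26016 0 0) P.nil)) (P.cons (P.cons (P.lf 0 19323 0) P.nil) P.nil)))))) 40026)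
 (EL.cons 8 (TM.mk (P.cons (P.cons (P.lf 536634 0 0) (P.cons (P.lf 6228114 0 0) (P.cons (P.lf 0 823791 0) (P.cons (P.lf 0 165306 0) (P.cons (P.lf 10671 0 0) (P.cons (P.lf 774 0 0) P.nil)))))) (P.cons (P.cons (P.lf 15121452 0 0) (P.cons (P.lf 0 6238224 0) (P.cons (P.lf 219282 0 0) (P.cons (P.lf 99273 0 0) (P.cons (P.lf 0 5136 0) P.nil))))) (P.cons (P.cons (P.lf 0 6440112 0) (P.cons (P.lf 1411770 0 0) (P.cons (P.lf 32070 0 0) (P.cons (P.lf 0 13524 0) P.nil)))) (P.cons (P.cons (P.lf 361059 0 0) (P.cons (P.lf 49377 0 0) (P.cons (P.lf 0 8727 0) P.nil))) (P.cons (P.cons (P.lf 141051 0 0) (P.cons (P.lf 0 32769 0) P.nil)) (P.cons (P.cons (P.lf 0 12897 0) P.nil) P.nil)))))) 14280)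
 (EL.cons 11 (TM.mk (P.cons (P.cons (P.lf 0 294801138 0) (P.cons (P.lf 17272575 0 0) (P.cons (P.lf 15425247 0 0) (P.cons (P.lf 0 824331 0) (P.cons (P.lf 0 144405 0) (P.cons (P.lf 7227 0 0) P.nil)))))) (P.cons (P.cons (P.lf 45539823 0 0) (P.cons (P.lf 787032 0 0) (P.cons (P.lf 0 1760229 0) (P.cons (P.lf 63864 0 0) (P.cons (P.lf 14025 0 0) P.nil))))) (P.cons (P.cons (P.lf 8392194 0 0) (P.cons (P.lf 0 506850 0) (P.cons (P.lf 0 441843 0) (P.cons (P.lf 23742 0 0) P.nil)))) (P.cons (P.cons (P.lf 0 852306 0) (P.cons (P.lf 0 108729 0) (P.cons (P.lf 16005 0 0) P.nil))) (P.cons (P.cons (P.lf 0 85896 0) (P.cons (P.lf 1347 0 0) P.nil)) (P.cons (P.cons (P.lf 5703 0 0) P.nil) P.nil)))))) 19437)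
 EL.nil)))
noncomputable def S212_227_364_438_25 : EL := (EL.cons 4 (TM.mk (P.cons (P.cons (P.lf 1761504 0 0) (P.cons (P.lf 20767962 0 0) (P.cons (P.lf 1136337 0 0) (P.lf 0 126258 0)))) (P.cons (P.cons (P.lf 49674585 0 0) (P.cons (P.lf 0 10865583 0) (P.cons (P.lf 0 594519 0) (P.lf 66057 0 0)))) (P.cons (P.cons (P.lf 0 20032422 0) (P.cons (P.lf 1331007 0 0) (P.cons (P.lf 72825 0 0) (P.lf 0 8091 0)))) (P.cons (P.cons (P.lf 1322205 0 0) (P.cons (P.lf 114330 0 0) (P.cons (P.lf 6255 0 0) P.nil))) (P.cons (P.cons (P.lf 238809 0 0) (P.cons (P.lf 0 20238 0) P.nil)) (P.cons (P.cons (P.lf 0 14439 0) P.nil) P.nil)))))) 8001)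
 (EL.cons 8 (TM.mk (P.cons (P.cons (P.lf 0 343599 0) (P.cons (P.lf 0 4051014 0) (P.cons (P.lf 0 221655 0) (P.lf 24627 0 0)))) (P.cons (P.cons (P.lf 0 9615279 0) (P.cons (P.lf 2995254 0 0) (P.cons (P.lf 163887 0 0) (P.lf 0 18207 0)))) (P.cons (P.cons (P.lf 6001194 0 0) (P.cons (P.lf 0 731682 0) (P.cons (P.lf 0 40032 0) (P.lf 4446 0 0)))) (P.cons (P.cons (P.lf 0 1135716 0) (P.cons (P.lf 42183 0 0) (P.cons (P.lf 2307 0 0) P.nil))) (P.cons (P.cons (P.lf 25188 0 0) (P.cons (P.lf 7272 0 0) P.nil)) (P.cons (P.cons (P.lf 10866 0 0) P.nil) P.nil)))))) 3522)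
 (EL.cons 11 (TM.mk (P.cons (P.cons (P.lf 188756886 0 0) (P.cons (P.lf 23684451 0 0) (P.cons (P.lf 0 3616002 0) (P.cons (P.lf 0 110466 0) (P.lf 9204 0 0))))) (P.cons (P.cons (P.lf 0 65837094 0) (P.cons (P.lf 0 8260971 0) (P.cons (P.lf 1261236 0 0) (P.cons (P.lf 38529 0 0) (P.lf 0 3210 0))))) (P.cons (P.cons (P.lf 2324016 0 0) (P.cons (P.lf 291606 0 0) (P.cons (P.lf 0 44520 0) (P.cons (P.lf 0 1359 0) P.nil)))) (P.cons (P.cons (P.lf 764331 0 0) (P.cons (P.lf 95904 0 0) (P.cons (P.lf 0 14640 0) P.nil))) (P.cons (P.cons (P.lf 0 4794 0) (P.cons (P.lf 0 600 0) P.nil)) (P.cons (P.cons (P.lf 0 3297 0) P.nil) P.nil)))))) 2931)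
 EL.nil)))
noncomputable def S212_227_364_438_26 : EL := (EL.cons 4 (TM.mk (P.cons (P.cons (P.lf 765057 0 0) (P.cons (P.lf 8879151 0 0) (P.cons (P.lf 0 1174443 0) (P.cons (P.lf 0 235668 0) (P.cons (P.lf 15216 0 0) (P.cons (P.lf 1104 0 0) P.nil)))))) (P.cons (P.cons (P.lf 21573996 0 0) (P.cons (P.lf 0 8708004 0) (P.cons (P.lf 288078 0 0) (P.cons (P.lf 136605 0 0) (P.cons (P.lf 0 7005 0) P.nil))))) (P.cons (P.cons (P.lf 0 8732331 0) (P.cons (P.lf 1809663 0 0) (P.cons (P.lf 54531 0 0) (P.cons (P.lf 0 15870 0) P.nil)))) (P.cons (P.cons (P.lf 281136 0 0) (P.cons (P.lf 129291 0 0) (P.cons (P.lf 0 12045 0) P.nil))) (P.cons (P.cons (P.lf 228714 0 0) (P.cons (P.lf 0 48759 0) P.nil)) (P.cons (P.cons (P.lf 0 14766 0) P.nil) P.nil)))))) 19482)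
 (EL.cons 8 (TM.mk (P.cons (P.cons (P.lf 0 149232 0) (P.cons (P.lf 0 1731975 0) (P.cons (P.lf 229086 0 0) (P.cons (P.lf 45969 0 0) (P.cons (P.lf 0 2967 0) (P.cons (P.lf 0 213 0) P.nil)))))) (P.cons (P.cons (P.lf 0 4175976 0) (P.cons (P.lf 2073033 0 0) (P.cons (P.lf 0 105720 0) (P.cons (P.lf 0 36582 0) (P.cons (P.lf 2007 0 0) P.nil))))) (P.cons (P.cons (P.lf 2612622 0 0) (P.cons (P.lf 0 726138 0) (P.cons (P.lf 2292 0 0) (P.cons (P.lf 9012 0 0) P.nil)))) (P.cons (P.cons (P.lf 0 437430 0) (P.cons (P.lf 57375 0 0) (P.cons (P.lf 4392 0 0) P.nil))) (P.cons (P.cons (P.lf 0 25779 0) (P.cons (P.lf 13278 0 0) P.nil)) (P.cons (P.cons (P.lf 11841 0 0) P.nil) P.nil)))))) 8022)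
 (EL.cons 11 (TM.mk (P.cons (P.cons (P.lf 81981189 0 0) (P.cons (P.lf 0 4803327 0) (P.cons (P.lf 0 4289601 0) (P.cons (P.lf 229236 0 0) (P.cons (P.lf 40155 0 0) (P.cons (P.lf 0 2010 0) P.nil)))))) (P.cons (P.cons (P.lf 0 28674717 0) (P.cons (P.lf 719202 0 0) (P.cons (P.lf 1327242 0 0) (P.cons (P.lf 0 62529 0) (P.cons (P.lf 0 11742 0) P.nil))))) (P.cons (P.cons (P.lf 0 109356 0) (P.cons (P.lf 198270 0 0) (P.cons (P.lf 40293 0 0) (P.cons (P.lf 0 3828 0) P.nil)))) (P.cons (P.cons (P.lf 745449 0 0) (P.cons (P.lf 2541 0 0) (P.cons (P.lf 0 30675 0) P.nil))) (P.cons (P.cons (P.lf 0 17106 0) (P.cons (P.lf 0 6768 0) P.nil)) (P.cons (P.cons (P.lf 0 7446 0) P.nil) P.nil)))))) 12150)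
 EL.nil)))
noncomputable def S212_227_364_438_27 : EL := (EL.cons 13 (TM.mk (P.lf 0 4294967296 0) 0)
 EL.nil)
noncomputable def S212_227_364_438_28 : EL := (EL.cons 13 (TM.mk (P.cons (P.cons (P.lf 0 1865397041 0) (P.cons (P.lf 343357236 0 0) (P.cons (P.lf 18787128 0 0) (P.lf 0 2087456 0)))) (P.cons (P.cons (P.lf 1825926 0 0) (P.cons (P.lf 21527428 0 0) (P.cons (P.lf 1177892 0 0) (P.lf 0 130872 0)))) (P.cons (P.cons (P.lf 26092374 0 0) (P.cons (P.lf 0 1542584 0) (P.cons (P.lf 0 84400 0) (P.lf 9376 0 0)))) (P.cons (P.cons (P.lf 0 330056 0) (P.cons (P.lf 0 122960 0) (P.cons (P.lf 0 6724 0) P.nil))) (P.cons (P.cons (P.lf 0 101863 0) (P.cons (P.lf 2840 0 0) P.nil)) (P.cons (P.cons (P.lf 0 191 0) P.nil) P.nil)))))) 2229)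
 EL.nil)
noncomputable def S212_227_364_438_29 : EL := (EL.cons 13 (TM.mk (P.cons (P.cons (P.lf 0 810182215 0) (P.cons (P.lf 298254923 0 0) (P.cons (P.lf 0 11130069 0) (P.cons (P.lf 0 4817093 0) (P.cons (P.lf 251580 0 0) (P.cons (P.lf 18261 0 0) P.nil)))))) (P.cons (P.cons (P.lf 1586078 0 0) (P.cons (P.lf 18407709 0 0) (P.cons (P.lf 0 2434787 0) (P.cons (P.lf 0 488568 0) (P.cons (P.lf 31545 0 0) P.nil))))) (P.cons (P.cons (P.lf 22664186 0 0) (P.cons (P.lf 0 5530121 0) (P.cons (P.lf 0 163842 0) (P.cons (P.lf 48800 0 0) P.nil)))) (P.cons (P.cons (P.lf 0 308886 0) (P.cons (P.lf 0 314287 0) (P.cons (P.lf 17930 0 0) P.nil))) (P.cons (P.cons (P.lf 0 246715 0) (P.cons (P.lf 40909 0 0) P.nil)) (P.cons (P.cons (P.lf 3930 0 0) P.nil) P.nil)))))) 26961)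
 EL.nil)
noncomputable def S212_227_364_438_30 : EL := (EL.cons 13 (TM.mk (P.cons (P.lf 1194386624 0 0) (P.cons (P.lf 0 233258332 0) (P.cons (P.lf 0 3625172 0) (P.cons (P.lf 207136 0 0) (P.cons (P.lf 5900 0 0) (P.cons (P.lf 0 156 0) P.nil)))))) 48)
 EL.nil)
noncomputable def S212_227_364_438_31 : EL := (EL.cons 13 (TM.mk (P.cons (P.cons (P.lf 518747902 0 0) (P.cons (P.lf 0 95484147 0) (P.cons (P.lf 0 5224508 0) (P.lf 580500 0 0)))) (P.cons (P.cons (P.lf 0 101816901 0) (P.cons (P.lf 12661065 0 0) (P.cons (P.lf 692763 0 0) (P.lf 0 76974 0)))) (P.cons (P.cons (P.lf 0 8731348 0) (P.cons (P.lf 1887935 0 0) (P.cons (P.lf 103299 0 0) (P.lf 0 11476 0)))) (P.cons (P.cons (P.lf 1600358 0 0) (P.cons (P.lf 0 47972 0) (P.cons (P.lf 0 2625 0) P.nil))) (P.cons (P.cons (P.lf 34899 0 0) (P.cons (P.lf 0 10279 0) P.nil)) (P.cons (P.cons (P.lf 0 7086 0) P.nil) P.nil)))))) 2598)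
 EL.nil)
noncomputable def S212_227_364_438_32 : EL := (EL.cons 13 (TM.mk (P.cons (P.cons (P.lf 225303415 0 0) (P.cons (P.lf 0 82941653 0) (P.cons (P.lf 3095158 0 0) (P.cons (P.lf 1339584 0 0) (P.cons (P.lf 0 69961 0) (P.cons (P.lf 0 5078 0) P.nil)))))) (P.cons (P.cons (P.lf 0 44441815 0) (P.cons (P.lf 11079135 0 0) (P.cons (P.lf 72618 0 0) (P.cons (P.lf 0 125749 0) (P.cons (P.lf 4890 0 0) P.nil))))) (P.cons (P.cons (P.lf 0 6900374 0) (P.cons (P.lf 2789329 0 0) (P.cons (P.lf 0 96064 0) (P.cons (P.lf 0 44170 0) P.nil)))) (P.cons (P.cons (P.lf 1357194 0 0) (P.cons (P.lf 0 211786 0) (P.cons (P.lf 0 15402 0) P.nil))) (P.cons (P.cons (P.lf 71999 0 0) (P.cons (P.lf 0 34410 0) P.nil)) (P.cons (P.cons (P.lf 0 15877 0) P.nil) P.nil)))))) 19973)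
 EL.nil)
noncomputable def S212_227_364_438_33 : EL := (EL.cons 14 (TM.mk (P.lf 8589934592 0 0) 0)
 EL.nil)
noncomputable def S212_227_364_438_34 : EL := (EL.cons 14 (TM.mk (P.cons (P.cons (P.lf 3730794082 0 0) (P.cons (P.lf 0 686714472 0) (P.cons (P.lf 0 37574256 0) (P.lf 4174912 0 0)))) (P.cons (P.cons (P.lf 0 3651852 0) (P.cons (P.lf 0 43054856 0) (P.cons (P.lf 0 2355784 0) (P.lf 261744 0 0)))) (P.cons (P.cons (P.lf 0 52184748 0) (P.cons (P.lf 3085168 0 0) (P.cons (P.lf 168800 0 0) (P.lf 0 18752 0)))) (P.cons (P.cons (P.lf 660112 0 0) (P.cons (P.lf 245920 0 0) (P.cons (P.lf 13448 0 0) P.nil))) (P.cons (P.cons (P.lf 203726 0 0) (P.cons (P.lf 0 5680 0) P.nil)) (P.cons (P.cons (P.lf 382 0 0) P.nil) P.nil)))))) 4458)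
 EL.nil)
noncomputable def S212_227_364_438_35 : EL := (EL.cons 14 (TM.mk (P.cons (P.cons (P.lf 1620364430 0 0) (P.cons (P.lf 0 596509846 0) (P.cons (P.lf 22260138 0 0) (P.cons (P.lf 9634186 0 0) (P.cons (P.lf 0 503160 0) (P.cons (P.lf 0 36522 0) P.nil)))))) (P.cons (P.cons (P.lf 0 3172156 0) (P.cons (P.lf 0 36815418 0) (P.cons (P.lf 4869574 0 0) (P.cons (P.lf 977136 0 0) (P.cons (P.lf 0 63090 0) P.nil))))) (P.cons (P.cons (P.lf 0 45328372 0) (P.cons (P.lf 11060242 0 0) (P.cons (P.lf 327684 0 0) (P.cons (P.lf 0 97600 0) P.nil)))) (P.cons (P.cons (P.lf 617772 0 0) (P.cons (P.lf 628574 0 0) (P.cons (P.lf 0 35860 0) P.nil))) (P.cons (P.cons (P.lf 493430 0 0) (P.cons (P.lf 0 81818 0) P.nil)) (P.cons (P.cons (P.lf 0 7860 0) P.nil) P.nil)))))) 53922)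
 EL.nil)
noncomputable def S212_227_364_438_36 : EL := (EL.cons 14 (TM.mk (P.cons (P.lf 0 2388773248 0) (P.cons (P.lf 466516664 0 0) (P.cons (P.lf 7250344 0 0) (P.cons (P.lf 0 414272 0) (P.cons (P.lf 0 11800 0) (P.cons (P.lf 312 0 0) P.nil)))))) 96)
 EL.nil)
noncomputable def S212_227_364_438_37 : EL := (EL.cons 14 (TM.mk (P.cons (P.cons (P.lf 0 1037495804 0) (P.cons (P.lf 190968294 0 0) (P.cons (P.lf 10449016 0 0) (P.lf 0 1161000 0)))) (P.cons (P.cons (P.lf 203633802 0 0) (P.cons (P.lf 0 25322130 0) (P.cons (P.lf 0 1385526 0) (P.lf 153948 0 0)))) (P.cons (P.cons (P.lf 17462696 0 0) (P.cons (P.lf 0 3775870 0) (P.cons (P.lf 0 206598 0) (P.lf 22952 0 0)))) (P.cons (P.cons (P.lf 0 3200716 0) (P.cons (P.lf 95944 0 0) (P.cons (P.lf 5250 0 0) P.nil))) (P.cons (P.cons (P.lf 0 69798 0) (P.cons (P.lf 20558 0 0) P.nil)) (P.cons (P.cons (P.lf 14172 0 0) P.nil) P.nil))))))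 5196)
 EL.nil)
noncomputable def S212_227_364_438_38 : EL := (EL.cons 14 (TM.mk (P.cons (P.cons (P.lf 0 450606830 0) (P.cons (P.lf 165883306 0 0) (P.cons (P.lf 0 6190316 0) (P.cons (P.lf 0 2679168 0) (P.cons (P.lf 139922 0 0) (P.cons (P.lf 10156 0 0) P.nil)))))) (P.cons (P.cons (P.lf 88883630 0 0) (P.cons (P.lf 0 22158270 0) (P.cons (P.lf 0 145236 0) (P.cons (P.lf 251498 0 0) (P.cons (P.lf 0 9780 0) P.nil))))) (P.cons (P.cons (P.lf 13800748 0 0) (P.cons (P.lf 0 5578658 0) (P.cons (P.lf 192128 0 0) (P.cons (P.lf 88340 0 0) P.nil)))) (P.cons (P.cons (P.lf 0 2714388 0) (P.cons (P.lf 423572 0 0) (P.cons (P.lf 30804 0 0) P.nil))) (P.cons (P.cons (P.lf 0 143998 0) (P.cons (P.lf 68820 0 0) P.nil)) (P.cons (P.cons (P.lf 31754 0 0) P.nil) P.nil)))))) 39946)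
 EL.nil)
noncomputable def S212_227_364_438_39 : EL := (EL.cons 14 (TM.mk (P.cons (P.lf 664293490 0 0) (P.cons (P.lf 0 259467056 0) (P.cons (P.lf 21303880 0 0) (P.cons (P.lf 1017936 0 0) (P.cons (P.lf 0 32314 0) (P.cons (P.lf 0 2154 0) P.nil)))))) 152)
 EL.nil)
noncomputable def S212_227_364_438_40 : EL := (EL.cons 14 (TM.mk (P.cons (P.cons (P.lf 288517006 0 0) (P.cons (P.lf 0 53106336 0) (P.cons (P.lf 0 2905764 0) (P.lf 322862 0 0)))) (P.cons (P.cons (P.lf 0 112974556 0) (P.cons (P.lf 17413254 0 0) (P.cons (P.lf 952782 0 0) (P.lf 0 105864 0)))) (P.cons (P.cons (P.lf 5327390 0 0) (P.cons (P.lf 0 164018 0) (P.cons (P.lf 0 8974 0) (P.lf 996 0 0)))) (P.cons (P.cons (P.lf 2060392 0 0) (P.cons (P.lf 0 262330 0) (P.cons (P.lf 0 14354 0) P.nil))) (P.cons (P.cons (P.lf 0 148074 0) (P.cons (P.lf 0 2734 0) P.nil)) (P.cons (P.cons (P.lf 0 11592 0) P.nil) P.nil)))))) 6120)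
 EL.nil)
noncomputable def S212_227_364_438_41 : EL := (EL.cons 14 (TM.mk (P.cons (P.cons (P.lf 125309166 0 0) (P.cons (P.lf 0 46130456 0) (P.cons (P.lf 1721464 0 0) (P.cons (P.lf 745048 0 0) (P.cons (P.lf 0 38910 0) (P.cons (P.lf 0 2824 0) P.nil)))))) (P.cons (P.cons (P.lf 0 49189946 0) (P.cons (P.lf 15171058 0 0) (P.cons (P.lf 0 295804 0) (P.cons (P.lf 0 215442 0) (P.cons (P.lf 10318 0 0) P.nil))))) (P.cons (P.cons (P.lf 609058 0 0) (P.cons (P.lf 487972 0 0) (P.cons (P.lf 0 66540 0) (P.cons (P.lf 0 13168 0) P.nil)))) (P.cons (P.cons (P.lf 1601112 0 0) (P.cons (P.lf 0 447468 0) (P.cons (P.lf 2042 0 0) P.nil))) (P.cons (P.cons (P.lf 0 99390 0) (P.cons (P.lf 0 2 0) P.nil)) (P.cons (P.cons (P.lf 0 19746 0) P.nil) P.nil)))))) 28016)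
 EL.nil)
noncomputable def S212_227_364_438_42 : EL := (EL.cons 14 (TM.mk (P.cons (P.lf 0 184733248 0) (P.cons (P.lf 108232714 0 0) (P.cons (P.lf 0 19455268 0) (P.cons (P.lf 622888 0 0) (P.cons (P.lf 93852 0 0) (P.cons (P.lf 0 942 0) P.nil)))))) 312)
 EL.nil)
noncomputable def S212_227_364_438_43 : EL := (EL.cons 14 (TM.mk (P.cons (P.cons (P.lf 0 80233638 0) (P.cons (P.lf 14768330 0 0) (P.cons (P.lf 808062 0 0) (P.lf 0 89784 0)))) (P.cons (P.cons (P.lf 47086340 0 0) (P.cons (P.lf 0 7726636 0) (P.cons (P.lf 0 422770 0) (P.lf 46974 0 0)))) (P.cons (P.cons (P.lf 0 7373582 0) (P.cons (P.lf 946494 0 0) (P.cons (P.lf 51788 0 0) (P.lf 0 5754 0)))) (P.cons (P.cons (P.lf 0 392916 0) (P.cons (P.lf 81302 0 0) (P.cons (P.lf 4448 0 0) P.nil))) (P.cons (P.cons (P.lf 162626 0 0) (P.cons (P.lf 0 14390 0) P.nil)) (P.cons (P.cons (P.lf 0 3168 0) P.nil) P.nil)))))) 5404)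
 EL.nil)
noncomputable def S212_227_364_438_44 : EL := (EL.cons 14 (TM.mk (P.cons (P.cons (P.lf 0 34847200 0) (P.cons (P.lf 12828408 0 0) (P.cons (P.lf 0 478720 0) (P.cons (P.lf 0 207190 0) (P.cons (P.lf 10820 0 0) (P.cons (P.lf 784 0 0) P.nil)))))) (P.cons (P.cons (P.lf 20484724 0 0) (P.cons (P.lf 0 6724246 0) (P.cons (P.lf 175752 0 0) (P.cons (P.lf 100376 0 0) (P.cons (P.lf 0 4982 0) P.nil))))) (P.cons (P.cons (P.lf 0 2735096 0) (P.cons (P.lf 649298 0 0) (P.cons (P.lf 3892 0 0) (P.cons (P.lf 0 7408 0) P.nil)))) (P.cons (P.cons (P.lf 0 459736 0) (P.cons (P.lf 165968 0 0) (P.cons (P.lf 0 4514 0) P.nil))) (P.cons (P.cons (P.lf 117308 0 0) (P.cons (P.lf 0 24556 0) P.nil)) (P.cons (P.cons (P.lf 1486 0 0) P.nil) P.nil)))))) 17206)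
 EL.nil)
noncomputable def S212_227_364_438_45 : EL := (EL.cons 14 (TM.mk (P.cons (P.cons (P.lf 703759260 0 0) (P.cons (P.lf 0 388615660 0) (P.cons (P.lf 50267664 0 0) (P.cons (P.lf 5801568 0 0) (P.cons (P.lf 0 1376018 0) (P.cons (P.lf 0 6960 0) P.nil)))))) (P.cons (P.cons (P.lf 0 2066602 0) (P.cons (P.lf 0 23604204 0) (P.cons (P.lf 7608016 0 0) (P.cons (P.lf 291892 0 0) (P.cons (P.lf 0 217066 0) P.nil))))) (P.cons (P.cons (P.lf 0 29529624 0) (P.cons (P.lf 12664818 0 0) (P.cons (P.lf 0 677910 0) (P.cons (P.lf 0 219612 0) P.nil)))) (P.cons (P.cons (P.lf 431372 0 0) (P.cons (P.lf 669178 0 0) (P.cons (P.lf 0 167370 0) P.nil))) (P.cons (P.cons (P.lf 527604 0 0) (P.cons (P.lf 0 179956 0) P.nil)) (P.cons (P.cons (P.lf 0 10862 0) P.nil) P.nil)))))) 158346)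
 EL.nil)
noncomputable def S212_227_364_438_46 : EL := (EL.cons 15 (TM.mk (P.lf 4294967296 0 0) 0)
 EL.nil)
noncomputable def S212_227_364_438_47 : EL := (EL.cons 15 (TM.mk (P.cons (P.cons (P.lf 1865397041 0 0) (P.cons (P.lf 0 343357236 0) (P.cons (P.lf 0 18787128 0) (P.lf 2087456 0 0)))) (P.cons (P.cons (P.lf 0 1825926 0) (P.cons (P.lf 0 21527428 0) (P.cons (P.lf 0 1177892 0) (P.lf 130872 0 0)))) (P.cons (P.cons (P.lf 0 26092374 0) (P.cons (P.lf 1542584 0 0) (P.cons (P.lf 84400 0 0) (P.lf 0 9376 0)))) (P.cons (P.cons (P.lf 330056 0 0) (P.cons (P.lf 122960 0 0) (P.cons (P.lf 6724 0 0) P.nil))) (P.cons (P.cons (P.lf 101863 0 0) (P.cons (P.lf 0 2840 0) P.nil)) (P.cons (P.cons (P.lf 191 0 0) P.nil) P.nil)))))) 2229)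
 EL.nil)
noncomputable def S212_227_364_438_48 : EL := (EL.cons 15 (TM.mk (P.cons (P.cons (P.lf 810182215 0 0) (P.cons (P.lf 0 298254923 0) (P.cons (P.lf 11130069 0 0) (P.cons (P.lf 4817093 0 0) (P.cons (P.lf 0 251580 0) (P.cons (P.lf 0 18261 0) P.nil)))))) (P.cons (P.cons (P.lf 0 1586078 0) (P.cons (P.lf 0 18407709 0) (P.cons (P.lf 2434787 0 0) (P.cons (P.lf 488568 0 0) (P.cons (P.lf 0 31545 0) P.nil))))) (P.cons (P.cons (P.lf 0 22664186 0) (P.cons (P.lf 5530121 0 0) (P.cons (P.lf 163842 0 0) (P.cons (P.lf 0 48800 0) P.nil)))) (P.cons (P.cons (P.lf 308886 0 0) (P.cons (P.lf 314287 0 0) (P.cons (P.lf 0 17930 0) P.nil))) (P.cons (P.cons (P.lf 246715 0 0) (P.cons (P.lf 0 40909 0) P.nil)) (P.cons (P.cons (P.lf 0 3930 0) P.nil) P.nil)))))) 26961)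
 EL.nil)
noncomputable def S212_227_364_438 : SL := (SL.cons S212_227_364_438_0 (SL.cons S212_227_364_438_1 (SL.cons S212_227_364_438_2 (SL.cons S212_227_364_438_3 (SL.cons S212_227_364_438_4 (SL.cons S212_227_364_438_5 (SL.cons S212_227_364_438_6 (SL.cons S212_227_364_438_7 (SL.cons S212_227_364_438_8 (SL.cons S212_227_364_438_9 (SL.cons S212_227_364_438_10 (SL.cons S212_227_364_438_11 (SL.cons S212_227_364_438_12 (SL.cons S212_227_364_438_13 (SL.cons S212_227_364_438_14 (SL.cons S212_227_364_438_15 (SL.cons S212_227_364_438_16 (SL.cons S212_227_364_438_17 (SL.cons S212_227_364_438_18 (SL.cons S212_227_364_438_19 (SL.cons S212_227_364_438_20 (SL.cons S212_227_364_438_21 (SL.cons S212_227_364_438_22 (SL.cons S212_227_364_438_23 (SL.cons S212_227_364_438_24 (SL.cons S212_227_364_438_25 (SL.cons S212_227_364_438_26 (SL.cons S212_227_364_438_27 (SL.cons S212_227_364_438_28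 (SL.cons S212_227_364_438_29 (SL.cons S212_227_364_438_30 (SL.cons S212_227_364_438_31 (SL.cons S212_227_364_438_32 (SL.cons S212_227_364_438_33 (SL.cons S212_227_364_438_34 (SL.cons S212_227_364_438_35 (SL.cons S212_227_364_438_36 (SL.cons S212_227_364_438_37 (SL.cons S212_227_364_438_38 (SL.cons S212_227_364_438_39 (SL.cons S212_227_364_438_40 (SL.cons S212_227_364_438_41 (SL.cons S212_227_364_438_42 (SL.cons S212_227_364_438_43 (SL.cons S212_227_364_438_44 (SL.cons S212_227_364_438_45 (SL.cons S212_227_364_438_46 (SL.cons S212_227_364_438_47 (SL.cons S212_227_364_438_48 SL.nil)))))))))))))))))))))))))))))))))))))))))))))))))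
noncomputable def S212_227_364_512_0 : EL := (EL.cons 0 (TM.mk (P.cons (P.lf 7871865163 0 0) (P.cons (P.lf 228047217 0 0) (P.cons (P.lf 0 18724113 0) (P.cons (P.lf 0 894670 0) (P.cons (P.lf 28400 0 0) (P.cons (P.lf 1893 0 0) P.nil)))))) 140)
 (EL.cons 1 (TM.mk (P.cons (P.lf 0 1064241138 0) (P.cons (P.lf 185599968 0 0) (P.cons (P.lf 9632411 0 0) (P.cons (P.lf 0 474855 0) (P.cons (P.lf 0 25702 0) (P.cons (P.lf 519 0 0) P.nil)))))) 134)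
 (EL.cons 5 (TM.mk (P.cons (P.lf 4502559014 0 0) (P.cons (P.lf 0 81083452 0) (P.cons (P.lf 6657460 0 0) (P.cons (P.lf 318104 0 0) (P.cons (P.lf 0 10096 0) (P.cons (P.lf 0 672 0) P.nil)))))) 143)
 (EL.cons 9 (TM.mk (P.lf 6442450944 0 0) 2)
 EL.nil))))
noncomputable def S212_227_364_512_1 : EL := (EL.cons 0 (TM.mk (P.cons (P.cons (P.lf 2917718278 0 0) (P.cons (P.lf 0 1067803800 0) (P.cons (P.lf 0 71390877 0) (P.lf 23796958 0 0)))) (P.cons (P.cons (P.lf 324306597 0 0) (P.cons (P.lf 0 226096555 0) (P.cons (P.lf 0 15116281 0) (P.lf 5038754 0 0)))) (P.cons (P.cons (P.lf 0 121430607 0) (P.cons (P.lf 7886251 0 0) (P.cons (P.lf 527253 0 0) (P.lf 0 175745 0)))) (P.cons (P.cons (P.lf 0 3511948 0) (P.cons (P.lf 2541025 0 0) (P.cons (P.lf 169870 0 0) P.nil))) (P.cons (P.cons (P.lf 979018 0 0) (P.cons (P.lf 8772 0 0) P.nil)) (P.cons (P.cons (P.lf 32479 0 0) P.nil) P.nil))))))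 105042)
 (EL.cons 1 (TM.mk (P.cons (P.cons (P.lf 0 243833408 0) (P.cons (P.lf 434387966 0 0) (P.cons (P.lf 29042161 0 0) (P.lf 0 9680716 0)))) (P.cons (P.cons (P.lf 341004853 0 0) (P.cons (P.lf 0 35633855 0) (P.cons (P.lf 0 2382400 0) (P.lf 794132 0 0)))) (P.cons (P.cons (P.lf 21735001 0 0) (P.cons (P.lf 0 13669087 0) (P.cons (P.lf 0 913876 0) (P.lf 304621 0 0)))) (P.cons (P.cons (P.lf 0 6087153 0) (P.cons (P.lf 55422 0 0) (P.cons (P.lf 3706 0 0) P.nil))) (P.cons (P.cons (P.lf 0 228864 0) (P.cons (P.lf 102992 0 0) P.nil)) (P.cons (P.cons (P.lf 35394 0 0) P.nil) P.nil)))))) 52777)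
 (EL.cons 5 (TM.mk (P.cons (P.cons (P.lf 1521667291 0 0) (P.cons (P.lf 0 894211446 0) (P.cons (P.lf 0 59784896 0) (P.lf 19928294 0 0)))) (P.cons (P.cons (P.lf 0 156789639 0) (P.cons (P.lf 521890 0 0) (P.cons (P.lf 34888 0 0) (P.lf 0 11624 0)))) (P.cons (P.cons (P.lf 1568223 0 0) (P.cons (P.lf 2919090 0 0) (P.cons (P.lf 195164 0 0) (P.lf 0 65056 0)))) (P.cons (P.cons (P.lf 2028986 0 0) (P.cons (P.lf 0 447276 0) (P.cons (P.lf 0 29898 0) P.nil))) (P.cons (P.cons (P.lf 0 179975 0) (P.cons (P.lf 0 13666 0) P.nil)) (P.cons (P.cons (P.lf 0 11858 0) P.nil) P.nil)))))) 57234)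
 (EL.cons 9 (TM.mk (P.cons (P.cons (P.lf 2258010193 0 0) (P.cons (P.lf 0 1124007366 0) (P.cons (P.lf 0 75148512 0) (P.lf 25049502 0 0)))) (P.cons (P.cons (P.lf 0 36600561 0) (P.cons (P.lf 0 70471752 0) (P.cons (P.lf 0 4711572 0) (P.lf 1570524 0 0)))) (P.cons (P.cons (P.lf 0 36712137 0) (P.cons (P.lf 5049774 0 0) (P.cons (P.lf 337614 0 0) (P.lf 0 112536 0)))) (P.cons (P.cons (P.lf 688500 0 0) (P.cons (P.lf 402522 0 0) (P.cons (P.lf 26904 0 0) P.nil))) (P.cons (P.cons (P.lf 148324 0 0) (P.cons (P.lf 0 9300 0) P.nil)) (P.cons (P.cons (P.lf 0 276 0) P.nil) P.nil)))))) 13214)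
 (EL.cons 2 (TM.mk (P.cons (P.cons (P.lf 703653333 0 0) (P.cons (P.lf 108943205 0 0) (P.cons (P.lf 0 52485398 0) (P.cons (P.lf 0 1986201 0) (P.lf 496549 0 0))))) (P.cons (P.cons (P.lf 0 108009081 0) (P.cons (P.lf 0 16722517 0) (P.cons (P.lf 8056380 0 0) (P.cons (P.lf 304875 0 0) (P.lf 0 76218 0))))) (P.cons (P.cons (P.lf 0 10294441 0) (P.cons (P.lf 0 1593835 0) (P.cons (P.lf 767857 0 0) (P.cons (P.lf 29055 0 0) P.nil)))) (P.cons (P.cons (P.lf 388985 0 0) (P.cons (P.lf 60224 0 0) (P.cons (P.lf 0 29013 0) P.nil))) (P.cons (P.cons (P.lf 42100 0 0) (P.cons (P.lf 6516 0 0) P.nil)) (P.cons (P.cons (P.lf 0 486 0) P.nil) P.nil)))))) 14167)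
 (EL.cons 6 (TM.mk (P.cons (P.cons (P.lf 1282614792 0 0) (P.cons (P.lf 198580977 0 0) (P.cons (P.lf 0 95670051 0) (P.cons (P.lf 0 3620436 0) (P.lf 905106 0 0))))) (P.cons (P.cons (P.lf 80415948 0 0) (P.cons (P.lf 12450405 0 0) (P.cons (P.lf 0 5998212 0) (P.cons (P.lf 0 226989 0) (P.lf 56745 0 0))))) (P.cons (P.cons (P.lf 0 5762349 0) (P.cons (P.lf 0 892155 0) (P.cons (P.lf 429810 0 0) (P.cons (P.lf 16263 0 0) P.nil)))) (P.cons (P.cons (P.lf 0 459327 0) (P.cons (P.lf 0 71112 0) (P.cons (P.lf 34260 0 0) P.nil))) (P.cons (P.cons (P.lf 10617 0 0) (P.cons (P.lf 1641 0 0) P.nil)) (P.cons (P.cons (P.lf 1335 0 0) P.nil) P.nil)))))) 9768)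
 EL.nil))))))
noncomputable def S212_227_364_512_2 : EL := (EL.cons 0 (TM.mk (P.cons (P.cons (P.lf 1078256516 0 0) (P.cons (P.lf 0 803888845 0) (P.cons (P.lf 79236142 0 0) (P.cons (P.lf 35697153 0 0) (P.cons (P.lf 0 5332834 0) (P.cons (P.lf 0 396287 0) P.nil)))))) (P.cons (P.cons (P.lf 197514684 0 0) (P.cons (P.lf 0 250706197 0) (P.cons (P.lf 48504847 0 0) (P.cons (P.lf 14314336 0 0) (P.cons (P.lf 0 2617299 0) P.nil))))) (P.cons (P.cons (P.lf 0 87659762 0) (P.cons (P.lf 38168056 0 0) (P.cons (P.lf 3983071 0 0) (P.cons (P.lf 0 659220 0) P.nil)))) (P.cons (P.cons (P.lf 0 4315020 0) (P.cons (P.lf 7009756 0 0) (P.cons (P.lf 0 638018 0) P.nil))) (P.cons (P.cons (P.lf 1827585 0 0) (P.cons (P.lf 0 447261 0) P.nil)) (P.cons (P.cons (P.lf 40419 0 0) P.nil) P.nil)))))) 1764935)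
 (EL.cons 1 (TM.mk (P.cons (P.cons (P.lf 0 40187685 0) (P.cons (P.lf 259423777 0 0) (P.cons (P.lf 0 101835057 0) (P.cons (P.lf 0 21717613 0) (P.cons (P.lf 4779313 0 0) (P.cons (P.lf 355148 0 0) P.nil)))))) (P.cons (P.cons (P.lf 214769809 0 0) (P.cons (P.lf 0 126921231 0) (P.cons (P.lf 0 7142330 0) (P.cons (P.lf 3008173 0 0) (P.cons (P.lf 0 53870 0) P.nil))))) (P.cons (P.cons (P.lf 9479217 0 0) (P.cons (P.lf 0 24487817 0) (P.cons (P.lf 3427638 0 0) (P.cons (P.lf 1222969 0 0) P.nil)))) (P.cons (P.cons (P.lf 0 7471729 0) (P.cons (P.lf 2478482 0 0) (P.cons (P.lf 408615 0 0) P.nil))) (P.cons (P.cons (P.lf 0 213369 0) (P.cons (P.lf 453594 0 0) P.nil)) (P.cons (P.cons (P.lf 103352 0 0) P.nil) P.nil)))))) 894955)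
 (EL.cons 5 (TM.mk (P.cons (P.cons (P.lf 513549484 0 0) (P.cons (P.lf 0 607132011 0) (P.cons (P.lf 134377549 0 0) (P.cons (P.lf 36926516 0 0) (P.cons (P.lf 0 7016577 0) (P.cons (P.lf 0 521399 0) P.nil)))))) (P.cons (P.cons (P.lf 0 99304476 0) (P.cons (P.lf 47628376 0 0) (P.cons (P.lf 7847423 0 0) (P.cons (P.lf 0 437909 0) (P.cons (P.lf 0 187009 0) P.nil))))) (P.cons (P.cons (P.lf 2237881 0 0) (P.cons (P.lf 5866669 0 0) (P.cons (P.lf 0 1240002 0) (P.cons (P.lf 0 349011 0) P.nil)))) (P.cons (P.cons (P.lf 2553949 0 0) (P.cons (P.lf 0 1599621 0) (P.cons (P.lf 2138 0 0) P.nil))) (P.cons (P.cons (P.lf 0 303716 0) (P.cons (P.lf 5490 0 0) P.nil)) (P.cons (P.cons (P.lf 0 25388 0) P.nil) P.nil)))))) 991054)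
 (EL.cons 9 (TM.mk (P.cons (P.cons (P.lf 791408436 0 0) (P.cons (P.lf 0 787905133 0) (P.cons (P.lf 143426833 0 0) (P.cons (P.lf 43781322 0 0) (P.cons (P.lf 0 7864141 0) (P.cons (P.lf 0 584383 0) P.nil)))))) (P.cons (P.cons (P.lf 0 25656210 0) (P.cons (P.lf 0 36627871 0) (P.cons (P.lf 22141407 0 0) (P.cons (P.lf 4104376 0 0) (P.cons (P.lf 0 986113 0) P.nil))))) (P.cons (P.cons (P.lf 0 25526488 0) (P.cons (P.lf 17150757 0 0) (P.cons (P.lf 155466 0 0) (P.cons (P.lf 0 514753 0) P.nil)))) (P.cons (P.cons (P.lf 899757 0 0) (P.cons (P.lf 787701 0 0) (P.cons (P.lf 0 198271 0) P.nil))) (P.cons (P.cons (P.lf 305352 0 0) (P.cons (P.lf 0 135462 0) P.nil)) (P.cons (P.cons (P.lf 0 9724 0) P.nil) P.nil)))))) 441680)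
 (EL.cons 2 (TM.mk (P.cons (P.cons (P.lf 493245945 0 0) (P.cons (P.lf 0 169164393 0) (P.cons (P.lf 0 91221193 0) (P.cons (P.lf 19852177 0 0) (P.cons (P.lf 3112756 0 0) (P.cons (P.lf 0 535072 0) P.nil)))))) (P.cons (P.cons (P.lf 0 83707183 0) (P.cons (P.lf 9334434 0 0) (P.cons (P.lf 11185993 0 0) (P.cons (P.lf 0 1692731 0) (P.cons (P.lf 0 310100 0) P.nil))))) (P.cons (P.cons (P.lf 0 14008449 0) (P.cons (P.lf 4889295 0 0) (P.cons (P.lf 2609555 0 0) (P.cons (P.lf 0 571156 0) P.nil)))) (P.cons (P.cons (P.lf 1771008 0 0) (P.cons (P.lf 282285 0 0) (P.cons (P.lf 0 130303 0) P.nil))) (P.cons (P.cons (P.lf 151728 0 0) (P.cons (P.lf 0 31370 0) P.nil)) (P.cons (P.cons (P.lf 0 12481 0) P.nil) P.nil)))))) 371564)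
 (EL.cons 6 (TM.mk (P.cons (P.cons (P.lf 899085546 0 0) (P.cons (P.lf 0 308351772 0) (P.cons (P.lf 0 166277406 0) (P.cons (P.lf 36186426 0 0) (P.cons (P.lf 5673912 0 0) (P.cons (P.lf 0 975330 0) P.nil)))))) (P.cons (P.cons (P.lf 41796390 0 0) (P.cons (P.lf 0 49649196 0) (P.cons (P.lf 0 15558492 0) (P.cons (P.lf 4737798 0 0) (P.cons (P.lf 661404 0 0) P.nil))))) (P.cons (P.cons (P.lf 0 19570884 0) (P.cons (P.lf 0 767946 0) (P.cons (P.lf 1961256 0 0) (P.cons (P.lf 0 140478 0) P.nil)))) (P.cons (P.cons (P.lf 0 898854 0) (P.cons (P.lf 433512 0 0) (P.cons (P.lf 193992 0 0) P.nil))) (P.cons (P.cons (P.lf 154578 0 0) (P.cons (P.lf 27582 0 0) P.nil)) (P.cons (P.cons (P.lf 8406 0 0) P.nil) P.nil)))))) 414324)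
 EL.nil))))))
noncomputable def S212_227_364_512_3 : EL := (EL.cons 0 (TM.mk (P.cons (P.lf 583851700 0 0) (P.cons (P.lf 0 228047217 0) (P.cons (P.lf 18724113 0 0) (P.cons (P.lf 894670 0 0) (P.cons (P.lf 0 28400 0) (P.cons (P.lf 0 1893 0) P.nil)))))) 140)
 (EL.cons 1 (TM.mk (P.cons (P.lf 1064241138 0 0) (P.cons (P.lf 0 185599968 0) (P.cons (P.lf 0 9632411 0) (P.cons (P.lf 474855 0 0) (P.cons (P.lf 25702 0 0) (P.cons (P.lf 0 519 0) P.nil)))))) 134)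
 (EL.cons 5 (TM.mk (P.cons (P.lf 1939891930 0 0) (P.cons (P.lf 81083452 0 0) (P.cons (P.lf 0 6657460 0) (P.cons (P.lf 0 318104 0) (P.cons (P.lf 10096 0 0) (P.cons (P.lf 672 0 0) P.nil)))))) 136)
 EL.nil)))
noncomputable def S212_227_364_512_4 : EL := (EL.cons 0 (TM.mk (P.cons (P.cons (P.lf 204633778 0 0) (P.cons (P.lf 0 101863966 0) (P.cons (P.lf 0 6810386 0) (P.lf 2270128 0 0)))) (P.cons (P.cons (P.lf 0 83245062 0) (P.cons (P.lf 33400594 0 0) (P.cons (P.lf 2233086 0 0) (P.lf 0 744361 0)))) (P.cons (P.cons (P.lf 4531108 0 0) (P.cons (P.lf 0 314604 0) (P.cons (P.lf 0 21033 0) (P.lf 7010 0 0)))) (P.cons (P.cons (P.lf 1569113 0 0) (P.cons (P.lf 0 503179 0) (P.cons (P.lf 0 33641 0) P.nil))) (P.cons (P.cons (P.lf 0 132663 0) (P.cons (P.lf 0 5245 0) P.nil)) (P.cons (P.cons (P.lf 0 8873 0) P.nil) P.nil)))))) 21353)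
 (EL.cons 1 (TM.mk (P.cons (P.cons (P.lf 373005142 0 0) (P.cons (P.lf 0 185676986 0) (P.cons (P.lf 0 12413928 0) (P.lf 4137975 0 0)))) (P.cons (P.cons (P.lf 0 71096923 0) (P.cons (P.lf 20740055 0 0) (P.cons (P.lf 1386631 0 0) (P.lf 0 462210 0)))) (P.cons (P.cons (P.lf 0 8386185 0) (P.cons (P.lf 4544951 0 0) (P.cons (P.lf 303862 0 0) (P.lf 0 101285 0)))) (P.cons (P.cons (P.lf 1392525 0 0) (P.cons (P.lf 0 56465 0) (P.cons (P.lf 0 3774 0) P.nil))) (P.cons (P.cons (P.lf 65866 0 0) (P.cons (P.lf 0 30360 0) P.nil)) (P.cons (P.cons (P.lf 0 8381 0) P.nil) P.nil)))))) 15339)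
 (EL.cons 5 (TM.mk (P.cons (P.cons (P.lf 679911384 0 0) (P.cons (P.lf 0 338450820 0) (P.cons (P.lf 0 22628032 0) (P.lf 7542676 0 0)))) (P.cons (P.cons (P.lf 17398056 0 0) (P.cons (P.lf 0 35366350 0) (P.cons (P.lf 0 2364508 0) (P.lf 788168 0 0)))) (P.cons (P.cons (P.lf 0 13848438 0) (P.cons (P.lf 1795116 0 0) (P.cons (P.lf 120016 0 0) (P.lf 0 40004 0)))) (P.cons (P.cons (P.lf 0 328406 0) (P.cons (P.lf 313080 0 0) (P.cons (P.lf 20928 0 0) P.nil))) (P.cons (P.cons (P.lf 96610 0 0) (P.cons (P.lf 0 1232 0) P.nil)) (P.cons (P.cons (P.lf 3062 0 0) P.nil) P.nil)))))) 11332)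
 EL.nil)))
noncomputable def S212_227_364_512_5 : EL := (EL.cons 0 (TM.mk (P.cons (P.cons (P.lf 71721950 0 0) (P.cons (P.lf 0 71404461 0) (P.cons (P.lf 12998158 0 0) (P.cons (P.lf 3967713 0 0) (P.cons (P.lf 0 712692 0) (P.cons (P.lf 0 52959 0) P.nil)))))) (P.cons (P.cons (P.lf 0 30339059 0) (P.cons (P.lf 24570513 0 0) (P.cons (P.lf 0 3070381 0) (P.cons (P.lf 0 1177790 0) (P.cons (P.lf 189003 0 0) P.nil))))) (P.cons (P.cons (P.lf 894932 0 0) (P.cons (P.lf 560896 0 0) (P.cons (P.lf 0 352812 0) (P.cons (P.lf 0 64689 0) P.nil)))) (P.cons (P.cons (P.lf 1020454 0 0) (P.cons (P.lf 0 751579 0) (P.cons (P.lf 60795 0 0) P.nil))) (P.cons (P.cons (P.lf 0 85417 0) (P.cons (P.lf 8073 0 0) P.nil)) (P.cons (P.cons (P.lf 0 12738 0) P.nil) P.nil)))))) 204056)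
 (EL.cons 1 (TM.mk (P.cons (P.cons (P.lf 130734313 0 0) (P.cons (P.lf 0 130155596 0) (P.cons (P.lf 23692959 0 0) (P.cons (P.lf 7232321 0 0) (P.cons (P.lf 0 1299091 0) (P.cons (P.lf 0 96534 0) P.nil)))))) (P.cons (P.cons (P.lf 0 27037811 0) (P.cons (P.lf 16648053 0 0) (P.cons (P.lf 0 474386 0) (P.cons (P.lf 0 583280 0) (P.cons (P.lf 63658 0 0) P.nil))))) (P.cons (P.cons (P.lf 0 4660914 0) (P.cons (P.lf 5066409 0 0) (P.cons (P.lf 0 826631 0) (P.cons (P.lf 0 268734 0) P.nil)))) (P.cons (P.cons (P.lf 980713 0 0) (P.cons (P.lf 0 367280 0) (P.cons (P.lf 0 59763 0) P.nil))) (P.cons (P.cons (P.lf 63950 0 0) (P.cons (P.lf 0 76554 0) P.nil)) (P.cons (P.cons (P.lf 0 13794 0) P.nil) P.nil)))))) 200433)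
 (EL.cons 5 (TM.mk (P.cons (P.cons (P.lf 238301672 0 0) (P.cons (P.lf 0 237246790 0) (P.cons (P.lf 43187376 0 0) (P.cons (P.lf 13183030 0 0) (P.cons (P.lf 0 2367976 0) (P.cons (P.lf 0 175964 0) P.nil)))))) (P.cons (P.cons (P.lf 2235150 0 0) (P.cons (P.lf 0 20945472 0) (P.cons (P.lf 8472160 0 0) (P.cons (P.lf 1786894 0 0) (P.cons (P.lf 0 395904 0) P.nil))))) (P.cons (P.cons (P.lf 0 8827026 0) (P.cons (P.lf 5517488 0 0) (P.cons (P.lf 177264 0 0) (P.cons (P.lf 0 148582 0) P.nil)))) (P.cons (P.cons (P.lf 0 62908 0) (P.cons (P.lf 529794 0 0) (P.cons (P.lf 0 87706 0) P.nil))) (P.cons (P.cons (P.lf 132152 0 0) (P.cons (P.lf 0 48024 0) P.nil)) (P.cons (P.cons (P.lf 1288 0 0) P.nil) P.nil)))))) 193982)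
 EL.nil)))
noncomputable def S212_227_364_512_6 : EL := (EL.cons 12 (TM.mk (P.lf 8589934592 0 0) 0)
 (EL.cons 3 (TM.mk (P.cons (P.lf 0 1119737460 0) (P.cons (P.lf 218679686 0 0) (P.cons (P.lf 3398598 0 0) (P.cons (P.lf 0 194190 0) (P.cons (P.lf 0 5531 0) (P.cons (P.lf 146 0 0) P.nil)))))) 52)
 (EL.cons 7 (TM.mk (P.cons (P.lf 0 2041050269 0) (P.cons (P.lf 0 42655831 0) (P.cons (P.lf 3948043 0 0) (P.cons (P.lf 84836 0 0) (P.cons (P.lf 0 3266 0) (P.cons (P.lf 0 122 0) P.nil)))))) 52)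
 EL.nil)))
noncomputable def S212_227_364_512_7 : EL := (EL.cons 12 (TM.mk (P.cons (P.cons (P.lf 3010680258 0 0) (P.cons (P.lf 0 1498676488 0) (P.cons (P.lf 0 100198016 0) (P.lf 33399336 0 0)))) (P.cons (P.cons (P.lf 0 48800748 0) (P.cons (P.lf 0 93962336 0) (P.cons (P.lf 0 6282096 0) (P.lf 2094032 0 0)))) (P.cons (P.cons (P.lf 0 48949516 0) (P.cons (P.lf 6733032 0 0) (P.cons (P.lf 450152 0 0) (P.lf 0 150048 0)))) (P.cons (P.cons (P.lf 918000 0 0) (P.cons (P.lf 536696 0 0) (P.cons (P.lf 35872 0 0) P.nil))) (P.cons (P.cons (P.lf 197766 0 0) (P.cons (P.lf 0 12400 0) P.nil)) (P.cons (P.cons (P.lf 0 368 0) P.nil) P.nil)))))) 17594)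
 (EL.cons 3 (TM.mk (P.cons (P.cons (P.lf 0 696844356 0) (P.cons (P.lf 0 390718738 0) (P.cons (P.lf 0 26122542 0) (P.lf 8707512 0 0)))) (P.cons (P.cons (P.lf 0 530888131 0) (P.cons (P.lf 51808766 0 0) (P.cons (P.lf 3463814 0 0) (P.lf 0 1154604 0)))) (P.cons (P.cons (P.lf 17299350 0 0) (P.cons (P.lf 7725386 0 0) (P.cons (P.lf 516498 0 0) (P.lf 0 172164 0)))) (P.cons (P.cons (P.lf 4337819 0 0) (P.cons (P.lf 0 196298 0) (P.cons (P.lf 0 13124 0) P.nil))) (P.cons (P.cons (P.lf 0 216 0) (P.cons (P.lf 0 42062 0) P.nil)) (P.cons (P.cons (P.lf 0 16295 0) P.nil) P.nil)))))) 42786)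
 (EL.cons 7 (TM.mk (P.cons (P.cons (P.lf 0 655992084 0) (P.cons (P.lf 470420671 0 0) (P.cons (P.lf 31451234 0 0) (P.lf 0 10483744 0)))) (P.cons (P.cons (P.lf 103555456 0 0) (P.cons (P.lf 0 10105855 0) (P.cons (P.lf 0 675651 0) (P.lf 225217 0 0)))) (P.cons (P.cons (P.lf 0 14568477 0) (P.cons (P.lf 0 414508 0) (P.cons (P.lf 0 27713 0) (P.lf 9237 0 0)))) (P.cons (P.cons (P.lf 0 241819 0) (P.cons (P.lf 243966 0 0) (P.cons (P.lf 16307 0 0) P.nil))) (P.cons (P.cons (P.lf 124357 0 0) (P.cons (P.lf 119 0 0) P.nil)) (P.cons (P.cons (P.lf 1948 0 0) P.nil) P.nil)))))) 35939)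
 (EL.cons 10 (TM.mk (P.cons (P.cons (P.lf 0 2698997019 0) (P.cons (P.lf 0 417872517 0) (P.cons (P.lf 201317799 0 0) (P.cons (P.lf 7618458 0 0) (P.lf 0 1904613 0))))) (P.cons (P.cons (P.lf 0 112812465 0) (P.cons (P.lf 0 17466201 0) (P.cons (P.lf 8414664 0 0) (P.cons (P.lf 318435 0 0) (P.lf 0 79608 0))))) (P.cons (P.cons (P.lf 9262611 0 0) (P.cons (P.lf 1434084 0 0) (P.cons (P.lf 0 690894 0) (P.cons (P.lf 0 26145 0) P.nil)))) (P.cons (P.cons (P.lf 442581 0 0) (P.cons (P.lf 68520 0 0) (P.cons (P.lf 0 33012 0) P.nil))) (P.cons (P.cons (P.lf 0 14046 0) (P.cons (P.lf 0 2172 0) P.nil)) (P.cons (P.cons (P.lf 0 933 0) P.nil) P.nil)))))) 9756)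
 EL.nil))))
noncomputable def S212_227_364_512_8 : EL := (EL.cons 12 (TM.mk (P.cons (P.cons (P.lf 1055211248 0 0) (P.cons (P.lf 0 1050540178 0) (P.cons (P.lf 191235778 0 0) (P.cons (P.lf 58375096 0 0) (P.cons (P.lf 0 10485522 0) (P.cons (P.lf 0 779178 0) P.nil)))))) (P.cons (P.cons (P.lf 0 34208280 0) (P.cons (P.lf 0 48837162 0) (P.cons (P.lf 29521876 0 0) (P.cons (P.lf 5472502 0 0) (P.cons (P.lf 0 1314818 0) P.nil))))) (P.cons (P.cons (P.lf 0 34035318 0) (P.cons (P.lf 22867676 0 0) (P.cons (P.lf 207288 0 0) (P.cons (P.lf 0 686338 0) P.nil)))) (P.cons (P.cons (P.lf 1199676 0 0) (P.cons (P.lf 1050268 0 0) (P.cons (P.lf 0 264362 0) P.nil))) (P.cons (P.cons (P.lf 407136 0 0) (P.cons (P.lf 0 180616 0) P.nil)) (P.cons (P.cons (P.lf 0 12966 0) P.nil) P.nil)))))) 588878)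
 (EL.cons 3 (TM.mk (P.cons (P.cons (P.lf 0 350921355 0) (P.cons (P.lf 0 167672880 0) (P.cons (P.lf 159210458 0 0) (P.cons (P.lf 26524593 0 0) (P.cons (P.lf 0 6834175 0) (P.cons (P.lf 0 507846 0) P.nil)))))) (P.cons (P.cons (P.lf 0 395545887 0) (P.cons (P.lf 261626481 0 0) (P.cons (P.lf 5579030 0 0) (P.cons (P.lf 0 7423489 0) (P.cons (P.lf 477721 0 0) P.nil))))) (P.cons (P.cons (P.lf 22117192 0 0) (P.cons (P.lf 18405089 0 0) (P.cons (P.lf 0 4321516 0) (P.cons (P.lf 0 1152558 0) P.nil)))) (P.cons (P.cons (P.lf 9805949 0 0) (P.cons (P.lf 0 4160448 0) (P.cons (P.lf 0 363306 0) P.nil))) (P.cons (P.cons (P.lf 0 356248 0) (P.cons (P.lf 0 315355 0) P.nil)) (P.cons (P.cons (P.lf 0 94884 0) P.nil) P.nil)))))) 1159237)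
 (EL.cons 7 (TM.mk (P.cons (P.cons (P.lf 0 209108186 0) (P.cons (P.lf 309036921 0 0) (P.cons (P.lf 0 81357722 0) (P.cons (P.lf 0 20528696 0) (P.cons (P.lf 4091155 0 0) (P.cons (P.lf 304012 0 0) P.nil)))))) (P.cons (P.cons (P.lf 77155491 0 0) (P.cons (P.lf 0 51033061 0) (P.cons (P.lf 0 1088250 0) (P.cons (P.lf 1448029 0 0) (P.cons (P.lf 0 93180 0) P.nil))))) (P.cons (P.cons (P.lf 0 12654487 0) (P.cons (P.lf 1926416 0 0) (P.cons (P.lf 960594 0 0) (P.cons (P.lf 68295 0 0) P.nil)))) (P.cons (P.cons (P.lf 0 1203059 0) (P.cons (P.lf 1270845 0 0) (P.cons (P.lf 0 51866 0) P.nil))) (P.cons (P.cons (P.lf 366958 0 0) (P.cons (P.lf 0 72694 0) P.nil)) (P.cons (P.cons (P.lf 3144 0 0) P.nil) P.nil)))))) 498647)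
 (EL.cons 10 (TM.mk (P.cons (P.cons (P.lf 0 1891939206 0) (P.cons (P.lf 648862410 0 0) (P.cons (P.lf 349896348 0 0) (P.cons (P.lf 0 76146846 0) (P.cons (P.lf 0 11939574 0) (P.cons (P.lf 2052384 0 0) P.nil)))))) (P.cons (P.cons (P.lf 0 48412284 0) (P.cons (P.lf 90915894 0 0) (P.cons (P.lf 25427154 0 0) (P.cons (P.lf 0 8378334 0) (P.cons (P.lf 0 1142274 0) P.nil))))) (P.cons (P.cons (P.lf 38535024 0 0) (P.cons (P.lf 971046 0 0) (P.cons (P.lf 0 3981654 0) (P.cons (P.lf 323424 0 0) P.nil)))) (P.cons (P.cons (P.lf 913830 0 0) (P.cons (P.lf 0 729702 0) (P.cons (P.lf 0 261282 0) P.nil))) (P.cons (P.cons (P.lf 0 268830 0) (P.cons (P.lf 0 38184 0) P.nil)) (P.cons (P.cons (P.lf 0 8520 0) P.nil) P.nil)))))) 712344)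
 EL.nil))))
noncomputable def S212_227_364_512_9 : EL := (EL.cons 3 (TM.mk (P.cons (P.lf 0 1119737460 0) (P.cons (P.lf 218679686 0 0) (P.cons (P.lf 3398598 0 0) (P.cons (P.lf 0 194190 0) (P.cons (P.lf 0 5531 0) (P.cons (P.lf 146 0 0) P.nil)))))) 52)
 (EL.cons 7 (TM.mk (P.cons (P.lf 0 2041050269 0) (P.cons (P.lf 0 42655831 0) (P.cons (P.lf 3948043 0 0) (P.cons (P.lf 84836 0 0) (P.cons (P.lf 0 3266 0) (P.cons (P.lf 0 122 0) P.nil)))))) 52)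
 EL.nil))
noncomputable def S212_227_364_512_10 : EL := (EL.cons 3 (TM.mk (P.cons (P.cons (P.lf 0 392456010 0) (P.cons (P.lf 195359369 0 0) (P.cons (P.lf 13061271 0 0) (P.lf 0 4353756 0)))) (P.cons (P.cons (P.lf 83006294 0 0) (P.cons (P.lf 0 25904383 0) (P.cons (P.lf 0 1731907 0) (P.lf 577302 0 0)))) (P.cons (P.cons (P.lf 6329613 0 0) (P.cons (P.lf 0 3862693 0) (P.cons (P.lf 0 258249 0) (P.lf 86082 0 0)))) (P.cons (P.cons (P.lf 0 1453174 0) (P.cons (P.lf 98149 0 0) (P.cons (P.lf 6562 0 0) P.nil))) (P.cons (P.cons (P.lf 0 22611 0) (P.cons (P.lf 21031 0 0) P.nil)) (P.cons (P.cons (P.lf 6634 0 0) P.nil) P.nil)))))) 10613)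
 (EL.cons 7 (TM.mk (P.cons (P.cons (P.lf 0 715366302 0) (P.cons (P.lf 356099806 0 0) (P.cons (P.lf 23808002 0 0) (P.lf 0 7936000 0)))) (P.cons (P.cons (P.lf 0 3354890 0) (P.cons (P.lf 29768462 0 0) (P.cons (P.lf 1990248 0 0) (P.lf 0 663416 0)))) (P.cons (P.cons (P.lf 13256952 0 0) (P.cons (P.lf 0 1822045 0) (P.cons (P.lf 0 121817 0) (P.lf 40605 0 0)))) (P.cons (P.cons (P.lf 32252 0 0) (P.cons (P.lf 0 218946 0) (P.cons (P.lf 0 14635 0) P.nil))) (P.cons (P.cons (P.lf 0 75674 0) (P.cons (P.lf 3017 0 0) P.nil)) (P.cons (P.cons (P.lf 0 980 0) P.nil) P.nil)))))) 7549)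
 EL.nil))
noncomputable def S212_227_364_512_11 : EL := (EL.cons 3 (TM.mk (P.cons (P.cons (P.lf 0 137551635 0) (P.cons (P.lf 136942740 0 0) (P.cons (P.lf 0 24928462 0) (P.cons (P.lf 0 7609461 0) (P.cons (P.lf 1366835 0 0) (P.cons (P.lf 101568 0 0) P.nil)))))) (P.cons (P.cons (P.lf 31322421 0 0) (P.cons (P.lf 0 20378151 0) (P.cons (P.lf 1020104 0 0) (P.cons (P.lf 772727 0 0) (P.cons (P.lf 0 95543 0) P.nil))))) (P.cons (P.cons (P.lf 3983290 0 0) (P.cons (P.lf 0 4639831 0) (P.cons (P.lf 800198 0 0) (P.cons (P.lf 251880 0 0) P.nil)))) (P.cons (P.cons (P.lf 0 1060231 0) (P.cons (P.lf 449676 0 0) (P.cons (P.lf 47094 0 0) P.nil))) (P.cons (P.cons (P.lf 0 35902 0) (P.cons (P.lf 61109 0 0) P.nil)) (P.cons (P.cons (P.lf 13338 0 0) P.nil) P.nil)))))) 186039)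
 (EL.cons 7 (TM.mk (P.cons (P.cons (P.lf 0 250728242 0) (P.cons (P.lf 249618351 0 0) (P.cons (P.lf 0 45439442 0) (P.cons (P.lf 0 13870478 0) (P.cons (P.lf 2491459 0 0) (P.cons (P.lf 185140 0 0) P.nil)))))) (P.cons (P.cons (P.lf 2888253 0 0) (P.cons (P.lf 16820939 0 0) (P.cons (P.lf 0 7964316 0) (P.cons (P.lf 0 1590197 0) (P.cons (P.lf 364482 0 0) P.nil))))) (P.cons (P.cons (P.lf 8741975 0 0) (P.cons (P.lf 0 5673904 0) (P.cons (P.lf 0 107958 0) (P.cons (P.lf 162735 0 0) P.nil)))) (P.cons (P.cons (P.lf 0 121343 0) (P.cons (P.lf 0 395931 0) (P.cons (P.lf 77242 0 0) P.nil))) (P.cons (P.cons (P.lf 0 119078 0) (P.cons (P.lf 48128 0 0) P.nil)) (P.cons (P.cons (P.lf 1272 0 0) P.nil) P.nil)))))) 170317)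
 EL.nil))
noncomputable def S212_227_364_512_12 : EL := (EL.cons 4 (TM.mk (P.cons (P.lf 1119737460 0 0) (P.cons (P.lf 0 218679686 0) (P.cons (P.lf 0 3398598 0) (P.cons (P.lf 194190 0 0) (P.cons (P.lf 5531 0 0) (P.cons (P.lf 0 146 0) P.nil)))))) 52)
 (EL.cons 8 (TM.mk (P.cons (P.lf 2041050269 0 0) (P.cons (P.lf 42655831 0 0) (P.cons (P.lf 0 3948043 0) (P.cons (P.lf 0 84836 0) (P.cons (P.lf 3266 0 0) (P.cons (P.lf 122 0 0) P.nil)))))) 52)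
 EL.nil))
noncomputable def S212_227_364_512_13 : EL := (EL.cons 4 (TM.mk (P.cons (P.cons (P.lf 392456010 0 0) (P.cons (P.lf 0 195359369 0) (P.cons (P.lf 0 13061271 0) (P.lf 4353756 0 0)))) (P.cons (P.cons (P.lf 0 83006294 0) (P.cons (P.lf 25904383 0 0) (P.cons (P.lf 1731907 0 0) (P.lf 0 577302 0)))) (P.cons (P.cons (P.lf 0 6329613 0) (P.cons (P.lf 3862693 0 0) (P.cons (P.lf 258249 0 0) (P.lf 0 86082 0)))) (P.cons (P.cons (P.lf 1453174 0 0) (P.cons (P.lf 0 98149 0) (P.cons (P.lf 0 6562 0) P.nil))) (P.cons (P.cons (P.lf 22611 0 0) (P.cons (P.lf 0 21031 0) P.nil)) (P.cons (P.cons (P.lf 0 6634 0) P.nil) P.nil)))))) 10613)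
 (EL.cons 8 (TM.mk (P.cons (P.cons (P.lf 715366302 0 0) (P.cons (P.lf 0 356099806 0) (P.cons (P.lf 0 23808002 0) (P.lf 7936000 0 0)))) (P.cons (P.cons (P.lf 3354890 0 0) (P.cons (P.lf 0 29768462 0) (P.cons (P.lf 0 1990248 0) (P.lf 663416 0 0)))) (P.cons (P.cons (P.lf 0 13256952 0) (P.cons (P.lf 1822045 0 0) (P.cons (P.lf 121817 0 0) (P.lf 0 40605 0)))) (P.cons (P.cons (P.lf 0 32252 0) (P.cons (P.lf 218946 0 0) (P.cons (P.lf 14635 0 0) P.nil))) (P.cons (P.cons (P.lf 75674 0 0) (P.cons (P.lf 0 3017 0) P.nil)) (P.cons (P.cons (P.lf 980 0 0) P.nil) P.nil)))))) 7549)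
 EL.nil))
noncomputable def S212_227_364_512_14 : EL := (EL.cons 4 (TM.mk (P.cons (P.cons (P.lf 137551635 0 0) (P.cons (P.lf 0 136942740 0) (P.cons (P.lf 24928462 0 0) (P.cons (P.lf 7609461 0 0) (P.cons (P.lf 0 1366835 0) (P.cons (P.lf 0 101568 0) P.nil)))))) (P.cons (P.cons (P.lf 0 31322421 0) (P.cons (P.lf 20378151 0 0) (P.cons (P.lf 0 1020104 0) (P.cons (P.lf 0 772727 0) (P.cons (P.lf 95543 0 0) P.nil))))) (P.cons (P.cons (P.lf 0 3983290 0) (P.cons (P.lf 4639831 0 0) (P.cons (P.lf 0 800198 0) (P.cons (P.lf 0 251880 0) P.nil)))) (P.cons (P.cons (P.lf 1060231 0 0) (P.cons (P.lf 0 449676 0) (P.cons (P.lf 0 47094 0) P.nil))) (P.cons (P.cons (P.lf 35902 0 0) (P.cons (P.lf 0 61109 0) P.nil)) (P.cons (P.cons (P.lf 0 13338 0) P.nil) P.nil)))))) 186039)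
 (EL.cons 8 (TM.mk (P.cons (P.cons (P.lf 250728242 0 0) (P.cons (P.lf 0 249618351 0) (P.cons (P.lf 45439442 0 0) (P.cons (P.lf 13870478 0 0) (P.cons (P.lf 0 2491459 0) (P.cons (P.lf 0 185140 0) P.nil)))))) (P.cons (P.cons (P.lf 0 2888253 0) (P.cons (P.lf 0 16820939 0) (P.cons (P.lf 7964316 0 0) (P.cons (P.lf 1590197 0 0) (P.cons (P.lf 0 364482 0) P.nil))))) (P.cons (P.cons (P.lf 0 8741975 0) (P.cons (P.lf 5673904 0 0) (P.cons (P.lf 107958 0 0) (P.cons (P.lf 0 162735 0) P.nil)))) (P.cons (P.cons (P.lf 121343 0 0) (P.cons (P.lf 395931 0 0) (P.cons (P.lf 0 77242 0) P.nil))) (P.cons (P.cons (P.lf 119078 0 0) (P.cons (P.lf 0 48128 0) P.nil)) (P.cons (P.cons (P.lf 0 1272 0) P.nil) P.nil)))))) 170317)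
 EL.nil))
noncomputable def S212_227_364_512_15 : EL := (EL.cons 4 (TM.mk (P.cons (P.lf 0 311387573 0) (P.cons (P.lf 121625182 0 0) (P.cons (P.lf 0 9986193 0) (P.cons (P.lf 0 477157 0) (P.cons (P.lf 15147 0 0) (P.cons (P.lf 1009 0 0) P.nil)))))) 78)
 (EL.cons 8 (TM.mk (P.cons (P.lf 0 567595274 0) (P.cons (P.lf 98986650 0 0) (P.cons (P.lf 5137286 0 0) (P.cons (P.lf 0 253256 0) (P.cons (P.lf 0 13708 0) (P.cons (P.lf 277 0 0) P.nil)))))) 68)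
 EL.nil))
noncomputable def S212_227_364_512_16 : EL := (EL.cons 4 (TM.mk (P.cons (P.cons (P.lf 0 109138015 0) (P.cons (P.lf 54327449 0 0) (P.cons (P.lf 3632205 0 0) (P.lf 0 1210735 0)))) (P.cons (P.cons (P.lf 44397366 0 0) (P.cons (P.lf 0 17813650 0) (P.cons (P.lf 0 1190979 0) (P.lf 396992 0 0)))) (P.cons (P.cons (P.lf 0 2416590 0) (P.cons (P.lf 167789 0 0) (P.cons (P.lf 11218 0 0) (P.lf 0 3738 0)))) (P.cons (P.cons (P.lf 0 836860 0) (P.cons (P.lf 268362 0 0) (P.cons (P.lf 17941 0 0) P.nil))) (P.cons (P.cons (P.lf 70754 0 0) (P.cons (P.lf 2797 0 0) P.nil)) (P.cons (P.cons (P.lf 4732 0 0) P.nil) P.nil)))))) 11397)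
 (EL.cons 8 (TM.mk (P.cons (P.cons (P.lf 0 198936076 0) (P.cons (P.lf 99027726 0 0) (P.cons (P.lf 6620762 0 0) (P.lf 0 2206920 0)))) (P.cons (P.cons (P.lf 37918359 0 0) (P.cons (P.lf 0 11061363 0) (P.cons (P.lf 0 739537 0) (P.lf 246512 0 0)))) (P.cons (P.cons (P.lf 4472632 0 0) (P.cons (P.lf 0 2423974 0) (P.cons (P.lf 0 162060 0) (P.lf 54019 0 0)))) (P.cons (P.cons (P.lf 0 742680 0) (P.cons (P.lf 30115 0 0) (P.cons (P.lf 2013 0 0) P.nil))) (P.cons (P.cons (P.lf 0 35129 0) (P.cons (P.lf 16192 0 0) P.nil)) (P.cons (P.cons (P.lf 4470 0 0) P.nil) P.nil)))))) 8171)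
 EL.nil))
noncomputable def S212_227_364_512_17 : EL := (EL.cons 4 (TM.mk (P.cons (P.cons (P.lf 0 38251707 0) (P.cons (P.lf 38082379 0 0) (P.cons (P.lf 0 6932351 0) (P.cons (P.lf 0 2116113 0) (P.cons (P.lf 380102 0 0) (P.cons (P.lf 28245 0 0) P.nil)))))) (P.cons (P.cons (P.lf 16180831 0 0) (P.cons (P.lf 0 13104273 0) (P.cons (P.lf 1637536 0 0) (P.cons (P.lf 628155 0 0) (P.cons (P.lf 0 100801 0) P.nil))))) (P.cons (P.cons (P.lf 0 477297 0) (P.cons (P.lf 0 299145 0) (P.cons (P.lf 188166 0 0) (P.cons (P.lf 34500 0 0) P.nil)))) (P.cons (P.cons (P.lf 0 544242 0) (P.cons (P.lf 400842 0 0) (P.cons (P.lf 0 32424 0) P.nil))) (P.cons (P.cons (P.lf 45555 0 0) (P.cons (P.lf 0 4305 0) P.nil)) (P.cons (P.cons (P.lf 6794 0 0) P.nil) P.nil)))))) 108840)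
 (EL.cons 8 (TM.mk (P.cons (P.cons (P.lf 0 69724967 0) (P.cons (P.lf 69416318 0 0) (P.cons (P.lf 0 12636245 0) (P.cons (P.lf 0 3857238 0) (P.cons (P.lf 692849 0 0) (P.cons (P.lf 51485 0 0) P.nil)))))) (P.cons (P.cons (P.lf 14420166 0 0) (P.cons (P.lf 0 8878962 0) (P.cons (P.lf 253006 0 0) (P.cons (P.lf 311083 0 0) (P.cons (P.lf 0 33951 0) P.nil))))) (P.cons (P.cons (P.lf 2485821 0 0) (P.cons (P.lf 0 2702085 0) (P.cons (P.lf 440870 0 0) (P.cons (P.lf 143325 0 0) P.nil)))) (P.cons (P.cons (P.lf 0 523047 0) (P.cons (P.lf 195883 0 0) (P.cons (P.lf 31874 0 0) P.nil))) (P.cons (P.cons (P.lf 0 34107 0) (P.cons (P.lf 40829 0 0) P.nil)) (P.cons (P.cons (P.lf 7357 0 0) P.nil) P.nil)))))) 106886)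
 EL.nil))
noncomputable def S212_227_364_512_18 : EL := (EL.cons 4 (TM.mk (P.cons (P.lf 86593710 0 0) (P.cons (P.lf 0 50734084 0) (P.cons (P.lf 9119656 0 0) (P.cons (P.lf 0 291978 0) (P.cons (P.lf 0 43993 0) (P.cons (P.lf 441 0 0) P.nil)))))) 153)
 (EL.cons 8 (TM.mk (P.cons (P.lf 157842459 0 0) (P.cons (P.lf 0 58353100 0) (P.cons (P.lf 3468227 0 0) (P.cons (P.lf 460355 0 0) (P.cons (P.lf 0 9599 0) (P.cons (P.lf 0 1439 0) P.nil)))))) 99)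
 EL.nil))
noncomputable def S212_227_364_512_19 : EL := (EL.cons 4 (TM.mk (P.cons (P.cons (P.lf 30350169 0 0) (P.cons (P.lf 0 15107909 0) (P.cons (P.lf 0 1010079 0) (P.lf 336692 0 0)))) (P.cons (P.cons (P.lf 0 18273705 0) (P.cons (P.lf 7904300 0 0) (P.cons (P.lf 528463 0 0) (P.lf 0 176154 0)))) (P.cons (P.cons (P.lf 2991118 0 0) (P.cons (P.lf 0 968258 0) (P.cons (P.lf 0 64735 0) (P.lf 21578 0 0)))) (P.cons (P.cons (P.lf 144214 0 0) (P.cons (P.lf 0 83171 0) (P.cons (P.lf 0 5560 0) P.nil))) (P.cons (P.cons (P.lf 0 69156 0) (P.cons (P.lf 14722 0 0) P.nil)) (P.cons (P.cons (P.lf 1871 0 0) P.nil) P.nil)))))) 8612)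
 (EL.cons 8 (TM.mk (P.cons (P.cons (P.lf 55322094 0 0) (P.cons (P.lf 0 27538601 0) (P.cons (P.lf 0 1841166 0) (P.lf 613722 0 0)))) (P.cons (P.cons (P.lf 0 21348864 0) (P.cons (P.lf 8454216 0 0) (P.cons (P.lf 565229 0 0) (P.lf 0 188409 0)))) (P.cons (P.cons (P.lf 647628 0 0) (P.cons (P.lf 156928 0 0) (P.cons (P.lf 10491 0 0) (P.lf 0 3497 0)))) (P.cons (P.cons (P.lf 491037 0 0) (P.cons (P.lf 0 154132 0) (P.cons (P.lf 0 10304 0) P.nil))) (P.cons (P.cons (P.lf 0 28345 0) (P.cons (P.lf 0 4515 0) P.nil)) (P.cons (P.cons (P.lf 0 4052 0) P.nil) P.nil)))))) 7107)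
 EL.nil))
noncomputable def S212_227_364_512_20 : EL := (EL.cons 4 (TM.mk (P.cons (P.cons (P.lf 10637409 0 0) (P.cons (P.lf 0 10590321 0) (P.cons (P.lf 1927815 0 0) (P.cons (P.lf 588469 0 0) (P.cons (P.lf 0 105702 0) (P.cons (P.lf 0 7854 0) P.nil)))))) (P.cons (P.cons (P.lf 0 6577162 0) (P.cons (P.lf 5712406 0 0) (P.cons (P.lf 0 831875 0) (P.cons (P.lf 0 289608 0) (P.cons (P.lf 48675 0 0) P.nil))))) (P.cons (P.cons (P.lf 979220 0 0) (P.cons (P.lf 0 596355 0) (P.cons (P.lf 30755 0 0) (P.cons (P.lf 22733 0 0) P.nil)))) (P.cons (P.cons (P.lf 140927 0 0) (P.cons (P.lf 0 140613 0) (P.cons (P.lf 20952 0 0) P.nil))) (P.cons (P.cons (P.lf 0 43356 0) (P.cons (P.lf 23294 0 0) P.nil)) (P.cons (P.cons (P.lf 123 0 0) P.nil) P.nil)))))) 58097)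
 (EL.cons 8 (TM.mk (P.cons (P.cons (P.lf 19389802 0 0) (P.cons (P.lf 0 19303970 0) (P.cons (P.lf 3514011 0 0) (P.cons (P.lf 1072658 0 0) (P.cons (P.lf 0 192674 0) (P.cons (P.lf 0 14317 0) P.nil)))))) (P.cons (P.cons (P.lf 0 7796842 0) (P.cons (P.lf 6239127 0 0) (P.cons (P.lf 0 756628 0) (P.cons (P.lf 0 295994 0) (P.cons (P.lf 47069 0 0) P.nil))))) (P.cons (P.cons (P.lf 33021 0 0) (P.cons (P.lf 327799 0 0) (P.cons (P.lf 0 119526 0) (P.cons (P.lf 0 26217 0) P.nil)))) (P.cons (P.cons (P.lf 295992 0 0) (P.cons (P.lf 0 212064 0) (P.cons (P.lf 15902 0 0) P.nil))) (P.cons (P.cons (P.lf 0 17422 0) (P.cons (P.lf 0 2664 0) P.nil)) (P.cons (P.cons (P.lf 0 4482 0) P.nil) P.nil)))))) 60613)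
 EL.nil))
noncomputable def S212_227_364_512_21 : EL := (EL.cons 4 (TM.mk (P.cons (P.cons (P.lf 304388346 0 0) (P.cons (P.lf 586078107 0 0) (P.cons (P.lf 39183813 0 0) (P.lf 0 13061268 0)))) (P.cons (P.cons (P.lf 613894425 0 0) (P.cons (P.lf 0 77713149 0) (P.cons (P.lf 0 5195721 0) (P.lf 1731906 0 0)))) (P.cons (P.cons (P.lf 0 10969737 0) (P.cons (P.lf 0 11588079 0) (P.cons (P.lf 0 774747 0) (P.lf 258246 0 0)))) (P.cons (P.cons (P.lf 0 5790993 0) (P.cons (P.lf 294447 0 0) (P.cons (P.lf 19686 0 0) P.nil))) (P.cons (P.cons (P.lf 0 22395 0) (P.cons (P.lf 63093 0 0) P.nil)) (P.cons (P.cons (P.lf 22929 0 0) P.nil) P.nil)))))) 32154)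
 (EL.cons 8 (TM.mk (P.cons (P.cons (P.lf 0 59374218 0) (P.cons (P.lf 0 114320865 0) (P.cons (P.lf 0 7643232 0) (P.lf 2547744 0 0)))) (P.cons (P.cons (P.lf 0 106910346 0) (P.cons (P.lf 39874317 0 0) (P.cons (P.lf 2665899 0 0) (P.lf 0 888633 0)))) (P.cons (P.cons (P.lf 27825429 0 0) (P.cons (P.lf 0 1407537 0) (P.cons (P.lf 0 94104 0) (P.lf 31368 0 0)))) (P.cons (P.cons (P.lf 274071 0 0) (P.cons (P.lf 0 462912 0) (P.cons (P.lf 0 30942 0) P.nil))) (P.cons (P.cons (P.lf 0 200031 0) (P.cons (P.lf 2898 0 0) P.nil)) (P.cons (P.cons (P.lf 0 2928 0) P.nil) P.nil)))))) 28371)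
 (EL.cons 11 (TM.mk (P.cons (P.cons (P.lf 2698997019 0 0) (P.cons (P.lf 417872517 0 0) (P.cons (P.lf 0 201317799 0) (P.cons (P.lf 0 7618458 0) (P.lf 1904613 0 0))))) (P.cons (P.cons (P.lf 112812465 0 0) (P.cons (P.lf 17466201 0 0) (P.cons (P.lf 0 8414664 0) (P.cons (P.lf 0 318435 0) (P.lf 79608 0 0))))) (P.cons (P.cons (P.lf 0 9262611 0) (P.cons (P.lf 0 1434084 0) (P.cons (P.lf 690894 0 0) (P.cons (P.lf 26145 0 0) P.nil)))) (P.cons (P.cons (P.lf 0 442581 0) (P.cons (P.lf 0 68520 0) (P.cons (P.lf 33012 0 0) P.nil))) (P.cons (P.cons (P.lf 14046 0 0) (P.cons (P.lf 2172 0 0) P.nil)) (P.cons (P.cons (P.lf 933 0 0) P.nil) P.nil)))))) 9756)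
 EL.nil)))
noncomputable def S212_227_364_512_22 : EL := (EL.cons 4 (TM.mk (P.cons (P.cons (P.lf 106684860 0 0) (P.cons (P.lf 152307810 0 0) (P.cons (P.lf 0 92069460 0) (P.cons (P.lf 0 17067027 0) (P.cons (P.lf 4100505 0 0) (P.cons (P.lf 304707 0 0) P.nil)))))) (P.cons (P.cons (P.lf 213434154 0 0) (P.cons (P.lf 0 141002316 0) (P.cons (P.lf 0 2279463 0) (P.cons (P.lf 4098108 0 0) (P.cons (P.lf 0 286632 0) P.nil))))) (P.cons (P.cons (P.lf 0 9066951 0) (P.cons (P.lf 0 11522460 0) (P.cons (P.lf 2560857 0 0) (P.cons (P.lf 702219 0 0) P.nil)))) (P.cons (P.cons (P.lf 0 5433090 0) (P.cons (P.lf 2305062 0 0) (P.cons (P.lf 205200 0 0) P.nil))) (P.cons (P.cons (P.lf 160173 0 0) (P.cons (P.lf 188232 0 0) P.nil)) (P.cons (P.cons (P.lf 54111 0 0) P.nil) P.nil)))))) 486588)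
 (EL.cons 8 (TM.mk (P.cons (P.cons (P.lf 0 20810028 0) (P.cons (P.lf 0 29709285 0) (P.cons (P.lf 17959140 0 0) (P.cons (P.lf 3329109 0 0) (P.cons (P.lf 0 799848 0) (P.cons (P.lf 0 59436 0) P.nil)))))) (P.cons (P.cons (P.lf 0 37133619 0) (P.cons (P.lf 33927000 0 0) (P.cons (P.lf 0 3438033 0) (P.cons (P.lf 0 1519113 0) (P.cons (P.lf 228831 0 0) P.nil))))) (P.cons (P.cons (P.lf 10698231 0 0) (P.cons (P.lf 0 3800160 0) (P.cons (P.lf 0 534276 0) (P.cons (P.lf 47220 0 0) P.nil)))) (P.cons (P.cons (P.lf 540858 0 0) (P.cons (P.lf 0 833388 0) (P.cons (P.lf 64554 0 0) P.nil))) (P.cons (P.cons (P.lf 0 243018 0) (P.cons (P.lf 60411 0 0) P.nil)) (P.cons (P.cons (P.lf 0 936 0) P.nil) P.nil)))))) 164154)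
 (EL.cons 11 (TM.mk (P.cons (P.cons (P.lf 945969603 0 0) (P.cons (P.lf 0 324431205 0) (P.cons (P.lf 0 174948174 0) (P.cons (P.lf 38073423 0 0) (P.cons (P.lf 5969787 0 0) (P.cons (P.lf 0 1026192 0) P.nil)))))) (P.cons (P.cons (P.lf 24206142 0 0) (P.cons (P.lf 0 45457947 0) (P.cons (P.lf 0 12713577 0) (P.cons (P.lf 4189167 0 0) (P.cons (P.lf 571137 0 0) P.nil))))) (P.cons (P.cons (P.lf 0 19267512 0) (P.cons (P.lf 0 485523 0) (P.cons (P.lf 1990827 0 0) (P.cons (P.lf 0 161712 0) P.nil)))) (P.cons (P.cons (P.lf 0 456915 0) (P.cons (P.lf 364851 0 0) (P.cons (P.lf 130641 0 0) P.nil))) (P.cons (P.cons (P.lf 134415 0 0) (P.cons (P.lf 19092 0 0) P.nil)) (P.cons (P.cons (P.lf 4260 0 0) P.nil) P.nil)))))) 356172)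
 EL.nil)))
noncomputable def S212_227_364_512_23 : EL := (EL.cons 4 (TM.mk (P.cons (P.cons (P.lf 0 84647295 0) (P.cons (P.lf 0 162982347 0) (P.cons (P.lf 0 10896618 0) (P.lf 3632205 0 0)))) (P.cons (P.cons (P.lf 0 154186545 0) (P.cons (P.lf 53440953 0 0) (P.cons (P.lf 3572937 0 0) (P.lf 0 1190976 0)))) (P.cons (P.cons (P.lf 36647904 0 0) (P.cons (P.lf 0 503370 0) (P.cons (P.lf 0 33654 0) (P.lf 11217 0 0)))) (P.cons (P.cons (P.lf 1518129 0 0) (P.cons (P.lf 0 805086 0) (P.cons (P.lf 0 53823 0) P.nil))) (P.cons (P.cons (P.lf 0 347562 0) (P.cons (P.lf 0 8391 0) P.nil)) (P.cons (P.cons (P.lf 0 12783 0) P.nil) P.nil)))))) 35397)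
 (EL.cons 8 (TM.mk (P.cons (P.cons (P.lf 16511364 0 0) (P.cons (P.lf 31791465 0 0) (P.cons (P.lf 2125503 0 0) (P.lf 0 708501 0)))) (P.cons (P.cons (P.lf 26506080 0 0) (P.cons (P.lf 0 17297370 0) (P.cons (P.lf 0 1156458 0) (P.lf 385485 0 0)))) (P.cons (P.cons (P.lf 0 13594350 0) (P.cons (P.lf 2460489 0 0) (P.cons (P.lf 164502 0 0) (P.lf 0 54834 0)))) (P.cons (P.cons (P.lf 1347597 0 0) (P.cons (P.lf 91455 0 0) (P.cons (P.lf 6111 0 0) P.nil))) (P.cons (P.cons (P.lf 99234 0 0) (P.cons (P.lf 0 28899 0) P.nil)) (P.cons (P.cons (P.lf 0 11013 0) P.nil) P.nil)))))) 15204)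
 (EL.cons 11 (TM.mk (P.cons (P.cons (P.lf 0 750563556 0) (P.cons (P.lf 0 116206086 0) (P.cons (P.lf 55984425 0 0) (P.cons (P.lf 2118615 0 0) (P.lf 0 529653 0))))) (P.cons (P.cons (P.lf 115209687 0 0) (P.cons (P.lf 17837352 0 0) (P.cons (P.lf 0 8593473 0) (P.cons (P.lf 0 325200 0) (P.lf 81300 0 0))))) (P.cons (P.cons (P.lf 10980738 0 0) (P.cons (P.lf 1700091 0 0) (P.cons (P.lf 0 819048 0) (P.cons (P.lf 0 30993 0) P.nil)))) (P.cons (P.cons (P.lf 0 414918 0) (P.cons (P.lf 0 64239 0) (P.cons (P.lf 30948 0 0) P.nil))) (P.cons (P.cons (P.lf 0 44907 0) (P.cons (P.lf 0 6951 0) P.nil)) (P.cons (P.cons (P.lf 519 0 0) P.nil) P.nil)))))) 15090)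
 EL.nil)))
noncomputable def S212_227_364_512_24 : EL := (EL.cons 4 (TM.mk (P.cons (P.cons (P.lf 0 29667972 0) (P.cons (P.lf 0 42355248 0) (P.cons (P.lf 25603578 0 0) (P.cons (P.lf 4746165 0 0) (P.cons (P.lf 0 1140309 0) (P.cons (P.lf 0 84735 0) P.nil)))))) (P.cons (P.cons (P.lf 0 53559840 0) (P.cons (P.lf 47483094 0 0) (P.cons (P.lf 0 4366365 0) (P.cons (P.lf 0 2066547 0) (P.cons (P.lf 302406 0 0) P.nil))))) (P.cons (P.cons (P.lf 14203017 0 0) (P.cons (P.lf 0 4324956 0) (P.cons (P.lf 0 913656 0) (P.cons (P.lf 12879 0 0) P.nil)))) (P.cons (P.cons (P.lf 1193466 0 0) (P.cons (P.lf 0 1393152 0) (P.cons (P.lf 84531 0 0) P.nil))) (P.cons (P.cons (P.lf 0 357705 0) (P.cons (P.lf 69705 0 0) P.nil)) (P.cons (P.cons (P.lf 0 10785 0) P.nil) P.nil)))))) 261654)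
 (EL.cons 8 (TM.mk (P.cons (P.cons (P.lf 5787054 0 0) (P.cons (P.lf 8261847 0 0) (P.cons (P.lf 0 4994253 0) (P.cons (P.lf 0 925791 0) (P.cons (P.lf 222429 0 0) (P.cons (P.lf 16527 0 0) P.nil)))))) (P.cons (P.cons (P.lf 9196293 0 0) (P.cons (P.lf 0 11048253 0) (P.cons (P.lf 1931436 0 0) (P.cons (P.lf 603252 0 0) (P.cons (P.lf 0 107073 0) P.nil))))) (P.cons (P.cons (P.lf 0 5009349 0) (P.cons (P.lf 2874273 0 0) (P.cons (P.lf 0 22980 0) (P.cons (P.lf 0 92823 0) P.nil)))) (P.cons (P.cons (P.lf 400269 0 0) (P.cons (P.lf 55440 0 0) (P.cons (P.lf 0 50736 0) P.nil))) (P.cons (P.cons (P.lf 107802 0 0) (P.cons (P.lf 0 66864 0) P.nil)) (P.cons (P.cons (P.lf 0 12945 0) P.nil) P.nil)))))) 83583)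
 (EL.cons 11 (TM.mk (P.cons (P.cons (P.lf 0 263064504 0) (P.cons (P.lf 90221010 0 0) (P.cons (P.lf 48651303 0 0) (P.cons (P.lf 0 10587828 0) (P.cons (P.lf 0 1660137 0) (P.cons (P.lf 285372 0 0) P.nil)))))) (P.cons (P.cons (P.lf 44643831 0 0) (P.cons (P.lf 0 4978365 0) (P.cons (P.lf 0 5965863 0) (P.cons (P.lf 902790 0 0) (P.cons (P.lf 165387 0 0) P.nil))))) (P.cons (P.cons (P.lf 7471173 0 0) (P.cons (P.lf 0 2607624 0) (P.cons (P.lf 0 1391763 0) (P.cons (P.lf 304617 0 0) P.nil)))) (P.cons (P.cons (P.lf 0 944538 0) (P.cons (P.lf 0 150552 0) (P.cons (P.lf 69495 0 0) P.nil))) (P.cons (P.cons (P.lf 0 80922 0) (P.cons (P.lf 16731 0 0) P.nil)) (P.cons (P.cons (P.lf 6657 0 0) P.nil) P.nil)))))) 198156)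
 EL.nil)))
noncomputable def S212_227_364_512_25 : EL := (EL.cons 4 (TM.mk (P.cons (P.cons (P.lf 23539548 0 0) (P.cons (P.lf 45323727 0 0) (P.cons (P.lf 3030237 0 0) (P.lf 0 1010079 0)))) (P.cons (P.cons (P.lf 38280537 0 0) (P.cons (P.lf 0 23712903 0) (P.cons (P.lf 0 1585389 0) (P.lf 528462 0 0)))) (P.cons (P.cons (P.lf 0 18636678 0) (P.cons (P.lf 2904777 0 0) (P.cons (P.lf 194205 0 0) (P.lf 0 64734 0)))) (P.cons (P.cons (P.lf 1442100 0 0) (P.cons (P.lf 249513 0 0) (P.cons (P.lf 16680 0 0) P.nil))) (P.cons (P.cons (P.lf 217587 0 0) (P.cons (P.lf 0 44166 0) P.nil)) (P.cons (P.cons (P.lf 0 15597 0) P.nil) P.nil)))))) 28095)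
 (EL.cons 8 (TM.mk (P.cons (P.cons (P.lf 0 4591641 0) (P.cons (P.lf 0 8840880 0) (P.cons (P.lf 0 591081 0) (P.lf 197025 0 0)))) (P.cons (P.cons (P.lf 0 6474342 0) (P.cons (P.lf 6536805 0 0) (P.cons (P.lf 437034 0 0) (P.lf 0 145677 0)))) (P.cons (P.cons (P.lf 5233923 0 0) (P.cons (P.lf 0 1596816 0) (P.cons (P.lf 0 106758 0) (P.lf 35586 0 0)))) (P.cons (P.cons (P.lf 0 1091481 0) (P.cons (P.lf 92061 0 0) (P.cons (P.lf 6153 0 0) P.nil))) (P.cons (P.cons (P.lf 32814 0 0) (P.cons (P.lf 15870 0 0) P.nil)) (P.cons (P.cons (P.lf 10209 0 0) P.nil) P.nil)))))) 10908)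
 (EL.cons 11 (TM.mk (P.cons (P.cons (P.lf 208724073 0 0) (P.cons (P.lf 32315727 0 0) (P.cons (P.lf 0 15568698 0) (P.cons (P.lf 0 589164 0) (P.lf 147291 0 0))))) (P.cons (P.cons (P.lf 0 72801510 0) (P.cons (P.lf 0 11271501 0) (P.cons (P.lf 5430252 0 0) (P.cons (P.lf 205494 0 0) (P.lf 0 51372 0))))) (P.cons (P.cons (P.lf 2569854 0 0) (P.cons (P.lf 397878 0 0) (P.cons (P.lf 0 191685 0) (P.cons (P.lf 0 7251 0) P.nil)))) (P.cons (P.cons (P.lf 845184 0 0) (P.cons (P.lf 130854 0 0) (P.cons (P.lf 0 63042 0) P.nil))) (P.cons (P.cons (P.lf 0 5301 0) (P.cons (P.lf 0 819 0) P.nil)) (P.cons (P.cons (P.lf 0 3648 0) P.nil) P.nil)))))) 16893)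
 EL.nil)))
noncomputable def S212_227_364_512_26 : EL := (EL.cons 4 (TM.mk (P.cons (P.cons (P.lf 8250360 0 0) (P.cons (P.lf 11778561 0 0) (P.cons (P.lf 0 7120092 0) (P.cons (P.lf 0 1319859 0) (P.cons (P.lf 317106 0 0) (P.cons (P.lf 23562 0 0) P.nil)))))) (P.cons (P.cons (P.lf 13283187 0 0) (P.cons (P.lf 0 15504864 0) (P.cons (P.lf 2604762 0 0) (P.cons (P.lf 832446 0 0) (P.cons (P.lf 0 146025 0) P.nil))))) (P.cons (P.cons (P.lf 0 6883572 0) (P.cons (P.lf 3745767 0 0) (P.cons (P.lf 38553 0 0) (P.cons (P.lf 0 111807 0) P.nil)))) (P.cons (P.cons (P.lf 395691 0 0) (P.cons (P.lf 194655 0 0) (P.cons (P.lf 0 78045 0) P.nil))) (P.cons (P.cons (P.lf 178902 0 0) (P.cons (P.lf 0 100926 0) P.nil)) (P.cons (P.cons (P.lf 0 16032 0) P.nil) P.nil)))))) 108180)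
 (EL.cons 8 (TM.mk (P.cons (P.cons (P.lf 0 1609320 0) (P.cons (P.lf 0 2297535 0) (P.cons (P.lf 1388850 0 0) (P.cons (P.lf 257451 0 0) (P.cons (P.lf 0 61854 0) (P.cons (P.lf 0 4596 0) P.nil)))))) (P.cons (P.cons (P.lf 0 2243100 0) (P.cons (P.lf 3521103 0 0) (P.cons (P.lf 0 808347 0) (P.cons (P.lf 0 218037 0) (P.cons (P.lf 41856 0 0) P.nil))))) (P.cons (P.cons (P.lf 1897380 0 0) (P.cons (P.lf 0 1392360 0) (P.cons (P.lf 107070 0 0) (P.cons (P.lf 57792 0 0) P.nil)))) (P.cons (P.cons (P.lf 0 375882 0) (P.cons (P.lf 130959 0 0) (P.cons (P.lf 14730 0 0) P.nil))) (P.cons (P.cons (P.lf 0 12918 0) (P.cons (P.lf 24552 0 0) P.nil)) (P.cons (P.cons (P.lf 10020 0 0) P.nil) P.nil)))))) 39663)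
 (EL.cons 11 (TM.mk (P.cons (P.cons (P.lf 73155555 0 0) (P.cons (P.lf 0 25089543 0) (P.cons (P.lf 0 13529430 0) (P.cons (P.lf 2944365 0 0) (P.cons (P.lf 461667 0 0) (P.cons (P.lf 0 79359 0) P.nil)))))) (P.cons (P.cons (P.lf 0 26701944 0) (P.cons (P.lf 6284307 0 0) (P.cons (P.lf 4301280 0 0) (P.cons (P.lf 0 826077 0) (P.cons (P.lf 0 136152 0) P.nil))))) (P.cons (P.cons (P.lf 124893 0 0) (P.cons (P.lf 530931 0 0) (P.cons (P.lf 104094 0 0) (P.cons (P.lf 0 44616 0) P.nil)))) (P.cons (P.cons (P.lf 718791 0 0) (P.cons (P.lf 0 108303 0) (P.cons (P.lf 0 102294 0) P.nil))) (P.cons (P.cons (P.lf 0 24276 0) (P.cons (P.lf 0 14913 0) P.nil)) (P.cons (P.cons (P.lf 0 7473 0) P.nil) P.nil)))))) 102240)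
 EL.nil)))
noncomputable def S212_227_364_512_27 : EL := (EL.cons 13 (TM.mk (P.lf 0 4294967296 0) 0)
 EL.nil)
noncomputable def S212_227_364_512_28 : EL := (EL.cons 13 (TM.mk (P.cons (P.cons (P.lf 0 1505340129 0) (P.cons (P.lf 749338244 0 0) (P.cons (P.lf 50099008 0 0) (P.lf 0 16699668 0)))) (P.cons (P.cons (P.lf 24400374 0 0) (P.cons (P.lf 46981168 0 0) (P.cons (P.lf 3141048 0 0) (P.lf 0 1047016 0)))) (P.cons (P.cons (P.lf 24474758 0 0) (P.cons (P.lf 0 3366516 0) (P.cons (P.lf 0 225076 0) (P.lf 75024 0 0)))) (P.cons (P.cons (P.lf 0 459000 0) (P.cons (P.lf 0 268348 0) (P.cons (P.lf 0 17936 0) P.nil))) (P.cons (P.cons (P.lf 0 98883 0) (P.cons (P.lf 6200 0 0) P.nil)) (P.cons (P.cons (P.lf 184 0 0) P.nil) P.nil)))))) 8797)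
 EL.nil)
noncomputable def S212_227_364_512_29 : EL := (EL.cons 13 (TM.mk (P.cons (P.cons (P.lf 0 527605624 0) (P.cons (P.lf 525270089 0 0) (P.cons (P.lf 0 95617889 0) (P.cons (P.lf 0 29187548 0) (P.cons (P.lf 5242761 0 0) (P.cons (P.lf 389589 0 0) P.nil)))))) (P.cons (P.cons (P.lf 17104140 0 0) (P.cons (P.lf 24418581 0 0) (P.cons (P.lf 0 14760938 0) (P.cons (P.lf 0 2736251 0) (P.cons (P.lf 657409 0 0) P.nil))))) (P.cons (P.cons (P.lf 17017659 0 0) (P.cons (P.lf 0 11433838 0) (P.cons (P.lf 0 103644 0) (P.cons (P.lf 343169 0 0) P.nil)))) (P.cons (P.cons (P.lf 0 599838 0) (P.cons (P.lf 0 525134 0) (P.cons (P.lf 132181 0 0) P.nil))) (P.cons (P.cons (P.lf 0 203568 0) (P.cons (P.lf 90308 0 0) P.nil)) (P.cons (P.cons (P.lf 6483 0 0) P.nil) P.nil)))))) 294439)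
 EL.nil)
noncomputable def S212_227_364_512_30 : EL := (EL.cons 13 (TM.mk (P.cons (P.lf 1194386624 0 0) (P.cons (P.lf 0 233258332 0) (P.cons (P.lf 0 3625172 0) (P.cons (P.lf 207136 0 0) (P.cons (P.lf 5900 0 0) (P.cons (P.lf 0 156 0) P.nil)))))) 48)
 EL.nil)
noncomputable def S212_227_364_512_31 : EL := (EL.cons 13 (TM.mk (P.cons (P.cons (P.lf 418619745 0 0) (P.cons (P.lf 0 208383327 0) (P.cons (P.lf 0 13932023 0) (P.lf 4644007 0 0)))) (P.cons (P.cons (P.lf 0 88540047 0) (P.cons (P.lf 27631342 0 0) (P.cons (P.lf 1847368 0 0) (P.lf 0 615789 0)))) (P.cons (P.cons (P.lf 0 6751588 0) (P.cons (P.lf 4120206 0 0) (P.cons (P.lf 275466 0 0) (P.lf 0 91821 0)))) (P.cons (P.cons (P.lf 1550053 0 0) (P.cons (P.lf 0 104693 0) (P.cons (P.lf 0 7000 0) P.nil))) (P.cons (P.cons (P.lf 24119 0 0) (P.cons (P.lf 0 22434 0) P.nil)) (P.cons (P.cons (P.lf 0 7077 0) P.nil) P.nil))))))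 11301)
 EL.nil)
noncomputable def S212_227_364_512_32 : EL := (EL.cons 13 (TM.mk (P.cons (P.cons (P.lf 146721745 0 0) (P.cons (P.lf 0 146072257 0) (P.cons (P.lf 26590360 0 0) (P.cons (P.lf 8116759 0 0) (P.cons (P.lf 0 1457958 0) (P.cons (P.lf 0 108340 0) P.nil)))))) (P.cons (P.cons (P.lf 0 33410583 0) (P.cons (P.lf 21736695 0 0) (P.cons (P.lf 0 1088111 0) (P.cons (P.lf 0 824243 0) (P.cons (P.lf 101913 0 0) P.nil))))) (P.cons (P.cons (P.lf 0 4248843 0) (P.cons (P.lf 4949154 0 0) (P.cons (P.lf 0 853545 0) (P.cons (P.lf 0 268672 0) P.nil)))) (P.cons (P.cons (P.lf 1130914 0 0) (P.cons (P.lf 0 479655 0) (P.cons (P.lf 0 50234 0) P.nil))) (P.cons (P.cons (P.lf 38296 0 0) (P.cons (P.lf 0 65183 0) P.nil)) (P.cons (P.cons (P.lf 0 14228 0) P.nil) P.nil)))))) 198419)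
 EL.nil)
noncomputable def S212_227_364_512_33 : EL := (EL.cons 14 (TM.mk (P.lf 8589934592 0 0) 0)
 EL.nil)
noncomputable def S212_227_364_512_34 : EL := (EL.cons 14 (TM.mk (P.cons (P.cons (P.lf 3010680258 0 0) (P.cons (P.lf 0 1498676488 0) (P.cons (P.lf 0 100198016 0) (P.lf 33399336 0 0)))) (P.cons (P.cons (P.lf 0 48800748 0) (P.cons (P.lf 0 93962336 0) (P.cons (P.lf 0 6282096 0) (P.lf 2094032 0 0)))) (P.cons (P.cons (P.lf 0 48949516 0) (P.cons (P.lf 6733032 0 0) (P.cons (P.lf 450152 0 0) (P.lf 0 150048 0)))) (P.cons (P.cons (P.lf 918000 0 0) (P.cons (P.lf 536696 0 0) (P.cons (P.lf 35872 0 0) P.nil))) (P.cons (P.cons (P.lf 197766 0 0) (P.cons (P.lf 0 12400 0) P.nil)) (P.cons (P.cons (P.lf 0 368 0) P.nil) P.nil)))))) 17594)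
 EL.nil)
noncomputable def S212_227_364_512_35 : EL := (EL.cons 14 (TM.mk (P.cons (P.cons (P.lf 1055211248 0 0) (P.cons (P.lf 0 1050540178 0) (P.cons (P.lf 191235778 0 0) (P.cons (P.lf 58375096 0 0) (P.cons (P.lf 0 10485522 0) (P.cons (P.lf 0 779178 0) P.nil)))))) (P.cons (P.cons (P.lf 0 34208280 0) (P.cons (P.lf 0 48837162 0) (P.cons (P.lf 29521876 0 0) (P.cons (P.lf 5472502 0 0) (P.cons (P.lf 0 1314818 0) P.nil))))) (P.cons (P.cons (P.lf 0 34035318 0) (P.cons (P.lf 22867676 0 0) (P.cons (P.lf 207288 0 0) (P.cons (P.lf 0 686338 0) P.nil)))) (P.cons (P.cons (P.lf 1199676 0 0) (P.cons (P.lf 1050268 0 0) (P.cons (P.lf 0 264362 0) P.nil))) (P.cons (P.cons (P.lf 407136 0 0) (P.cons (P.lf 0 180616 0) P.nil)) (P.cons (P.cons (P.lf 0 12966 0) P.nil) P.nil)))))) 588878)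
 EL.nil)
noncomputable def S212_227_364_512_36 : EL := (EL.cons 14 (TM.mk (P.cons (P.lf 0 2388773248 0) (P.cons (P.lf 466516664 0 0) (P.cons (P.lf 7250344 0 0) (P.cons (P.lf 0 414272 0) (P.cons (P.lf 0 11800 0) (P.cons (P.lf 312 0 0) P.nil)))))) 96)
 EL.nil)
noncomputable def S212_227_364_512_37 : EL := (EL.cons 14 (TM.mk (P.cons (P.cons (P.lf 0 837239490 0) (P.cons (P.lf 416766654 0 0) (P.cons (P.lf 27864046 0 0) (P.lf 0 9288014 0)))) (P.cons (P.cons (P.lf 177080094 0 0) (P.cons (P.lf 0 55262684 0) (P.cons (P.lf 0 3694736 0) (P.lf 1231578 0 0)))) (P.cons (P.cons (P.lf 13503176 0 0) (P.cons (P.lf 0 8240412 0) (P.cons (P.lf 0 550932 0) (P.lf 183642 0 0)))) (P.cons (P.cons (P.lf 0 3100106 0) (P.cons (P.lf 209386 0 0) (P.cons (P.lf 14000 0 0) P.nil))) (P.cons (P.cons (P.lf 0 48238 0) (P.cons (P.lf 44868 0 0) P.nil)) (P.cons (P.cons (P.lf 14154 0 0) P.nil) P.nil))))))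 22602)
 EL.nil)
noncomputable def S212_227_364_512_38 : EL := (EL.cons 14 (TM.mk (P.cons (P.cons (P.lf 0 293443490 0) (P.cons (P.lf 292144514 0 0) (P.cons (P.lf 0 53180720 0) (P.cons (P.lf 0 16233518 0) (P.cons (P.lf 2915916 0 0) (P.cons (P.lf 216680 0 0) P.nil)))))) (P.cons (P.cons (P.lf 66821166 0 0) (P.cons (P.lf 0 43473390 0) (P.cons (P.lf 2176222 0 0) (P.cons (P.lf 1648486 0 0) (P.cons (P.lf 0 203826 0) P.nil))))) (P.cons (P.cons (P.lf 8497686 0 0) (P.cons (P.lf 0 9898308 0) (P.cons (P.lf 1707090 0 0) (P.cons (P.lf 537344 0 0) P.nil)))) (P.cons (P.cons (P.lf 0 2261828 0) (P.cons (P.lf 959310 0 0) (P.cons (P.lf 100468 0 0) P.nil))) (P.cons (P.cons (P.lf 0 76592 0) (P.cons (P.lf 130366 0 0) P.nil)) (P.cons (P.cons (P.lf 28456 0 0) P.nil) P.nil)))))) 396838)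
 EL.nil)
noncomputable def S212_227_364_512_39 : EL := (EL.cons 14 (TM.mk (P.cons (P.lf 664293490 0 0) (P.cons (P.lf 0 259467056 0) (P.cons (P.lf 21303880 0 0) (P.cons (P.lf 1017936 0 0) (P.cons (P.lf 0 32314 0) (P.cons (P.lf 0 2154 0) P.nil)))))) 152)
 EL.nil)
noncomputable def S212_227_364_512_40 : EL := (EL.cons 14 (TM.mk (P.cons (P.cons (P.lf 232827766 0 0) (P.cons (P.lf 0 115898558 0) (P.cons (P.lf 0 7748706 0) (P.lf 2582902 0 0)))) (P.cons (P.cons (P.lf 0 94714382 0) (P.cons (P.lf 38002454 0 0) (P.cons (P.lf 2540756 0 0) (P.lf 0 846918 0)))) (P.cons (P.cons (P.lf 5155394 0 0) (P.cons (P.lf 0 357950 0) (P.cons (P.lf 0 23932 0) (P.lf 7976 0 0)))) (P.cons (P.cons (P.lf 1785302 0 0) (P.cons (P.lf 0 572506 0) (P.cons (P.lf 0 38276 0) P.nil))) (P.cons (P.cons (P.lf 0 150942 0) (P.cons (P.lf 0 5968 0) P.nil)) (P.cons (P.cons (P.lf 0 10096 0) P.nil) P.nil))))))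 24274)
 EL.nil)
noncomputable def S212_227_364_512_41 : EL := (EL.cons 14 (TM.mk (P.cons (P.cons (P.lf 81603642 0 0) (P.cons (P.lf 0 81242410 0) (P.cons (P.lf 14789016 0 0) (P.cons (P.lf 4514376 0 0) (P.cons (P.lf 0 810886 0) (P.cons (P.lf 0 60256 0) P.nil)))))) (P.cons (P.cons (P.lf 0 34519108 0) (P.cons (P.lf 27955784 0 0) (P.cons (P.lf 0 3493412 0) (P.cons (P.lf 0 1340064 0) (P.cons (P.lf 215044 0 0) P.nil))))) (P.cons (P.cons (P.lf 1018234 0 0) (P.cons (P.lf 638176 0 0) (P.cons (P.lf 0 401422 0) (P.cons (P.lf 0 73602 0) P.nil)))) (P.cons (P.cons (P.lf 1161050 0 0) (P.cons (P.lf 0 855130 0) (P.cons (P.lf 69172 0 0) P.nil))) (P.cons (P.cons (P.lf 0 97186 0) (P.cons (P.lf 9186 0 0) P.nil)) (P.cons (P.cons (P.lf 0 14494 0) P.nil) P.nil)))))) 232146)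
 EL.nil)
noncomputable def S212_227_364_512_42 : EL := (EL.cons 14 (TM.mk (P.cons (P.lf 0 184733248 0) (P.cons (P.lf 108232714 0 0) (P.cons (P.lf 0 19455268 0) (P.cons (P.lf 622888 0 0) (P.cons (P.lf 93852 0 0) (P.cons (P.lf 0 942 0) P.nil)))))) 312)
 EL.nil)
noncomputable def S212_227_364_512_43 : EL := (EL.cons 14 (TM.mk (P.cons (P.cons (P.lf 0 64747028 0) (P.cons (P.lf 32230206 0 0) (P.cons (P.lf 2154836 0 0) (P.lf 0 718278 0)))) (P.cons (P.cons (P.lf 38983906 0 0) (P.cons (P.lf 0 16862508 0) (P.cons (P.lf 0 1127388 0) (P.lf 375796 0 0)))) (P.cons (P.cons (P.lf 0 6381052 0) (P.cons (P.lf 2065618 0 0) (P.cons (P.lf 138102 0 0) (P.lf 0 46034 0)))) (P.cons (P.cons (P.lf 0 307658 0) (P.cons (P.lf 177432 0 0) (P.cons (P.lf 11862 0 0) P.nil))) (P.cons (P.cons (P.lf 147534 0 0) (P.cons (P.lf 0 31408 0) P.nil)) (P.cons (P.cons (P.lf 0 3992 0) P.nil) P.nil))))))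 18332)
 EL.nil)
noncomputable def S212_227_364_512_44 : EL := (EL.cons 14 (TM.mk (P.cons (P.cons (P.lf 0 22693140 0) (P.cons (P.lf 22592686 0 0) (P.cons (P.lf 0 4112674 0) (P.cons (P.lf 0 1255402 0) (P.cons (P.lf 225498 0 0) (P.cons (P.lf 16756 0 0) P.nil)))))) (P.cons (P.cons (P.lf 14031280 0 0) (P.cons (P.lf 0 12186468 0) (P.cons (P.lf 1774668 0 0) (P.cons (P.lf 617832 0 0) (P.cons (P.lf 0 103840 0) P.nil))))) (P.cons (P.cons (P.lf 0 2089004 0) (P.cons (P.lf 1272226 0 0) (P.cons (P.lf 0 65612 0) (P.cons (P.lf 0 48498 0) P.nil)))) (P.cons (P.cons (P.lf 0 300646 0) (P.cons (P.lf 299976 0 0) (P.cons (P.lf 0 44698 0) P.nil))) (P.cons (P.cons (P.lf 92494 0 0) (P.cons (P.lf 0 49694 0) P.nil)) (P.cons (P.cons (P.lf 0 264 0) P.nil) P.nil)))))) 123894)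
 EL.nil)
noncomputable def S212_227_364_512_45 : EL := (EL.cons 14 (TM.mk (P.cons (P.cons (P.lf 369840262 0 0) (P.cons (P.lf 0 552304654 0) (P.cons (P.lf 238004090 0 0) (P.cons (P.lf 3452130 0 0) (P.cons (P.lf 0 20175092 0) (P.cons (P.lf 1618944 0 0) P.nil)))))) (P.cons (P.cons (P.lf 0 17984454 0) (P.cons (P.lf 0 16722932 0) (P.cons (P.lf 28900040 0 0) (P.cons (P.lf 0 4193908 0) (P.cons (P.lf 0 2924788 0) P.nil))))) (P.cons (P.cons (P.lf 0 17747766 0) (P.cons (P.lf 21418204 0 0) (P.cons (P.lf 0 4986422 0) (P.cons (P.lf 0 1258678 0) P.nil)))) (P.cons (P.cons (P.lf 921538 0 0) (P.cons (P.lf 606328 0 0) (P.cons (P.lf 0 765412 0) P.nil))) (P.cons (P.cons (P.lf 350468 0 0) (P.cons (P.lf 0 343480 0) P.nil)) (P.cons (P.cons (P.lf 0 18162 0) P.nil) P.nil)))))) 2433390)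
 EL.nil)
noncomputable def S212_227_364_512_46 : EL := (EL.cons 15 (TM.mk (P.lf 4294967296 0 0) 0)
 EL.nil)
noncomputable def S212_227_364_512_47 : EL := (EL.cons 15 (TM.mk (P.cons (P.cons (P.lf 1505340129 0 0) (P.cons (P.lf 0 749338244 0) (P.cons (P.lf 0 50099008 0) (P.lf 16699668 0 0)))) (P.cons (P.cons (P.lf 0 24400374 0) (P.cons (P.lf 0 46981168 0) (P.cons (P.lf 0 3141048 0) (P.lf 1047016 0 0)))) (P.cons (P.cons (P.lf 0 24474758 0) (P.cons (P.lf 3366516 0 0) (P.cons (P.lf 225076 0 0) (P.lf 0 75024 0)))) (P.cons (P.cons (P.lf 459000 0 0) (P.cons (P.lf 268348 0 0) (P.cons (P.lf 17936 0 0) P.nil))) (P.cons (P.cons (P.lf 98883 0 0) (P.cons (P.lf 0 6200 0) P.nil)) (P.cons (P.cons (P.lf 0 184 0) P.nil) P.nil)))))) 8797)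
 EL.nil)
noncomputable def S212_227_364_512_48 : EL := (EL.cons 15 (TM.mk (P.cons (P.cons (P.lf 527605624 0 0) (P.cons (P.lf 0 525270089 0) (P.cons (P.lf 95617889 0 0) (P.cons (P.lf 29187548 0 0) (P.cons (P.lf 0 5242761 0) (P.cons (P.lf 0 389589 0) P.nil)))))) (P.cons (P.cons (P.lf 0 17104140 0) (P.cons (P.lf 0 24418581 0) (P.cons (P.lf 14760938 0 0) (P.cons (P.lf 2736251 0 0) (P.cons (P.lf 0 657409 0) P.nil))))) (P.cons (P.cons (P.lf 0 17017659 0) (P.cons (P.lf 11433838 0 0) (P.cons (P.lf 103644 0 0) (P.cons (P.lf 0 343169 0) P.nil)))) (P.cons (P.cons (P.lf 599838 0 0) (P.cons (P.lf 525134 0 0) (P.cons (P.lf 0 132181 0) P.nil))) (P.cons (P.cons (P.lf 203568 0 0) (P.cons (P.lf 0 90308 0) P.nil)) (P.cons (P.cons (P.lf 0 6483 0) P.nil) P.nil)))))) 294439)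
 EL.nil)
noncomputable def S212_227_364_512 : SL := (SL.cons S212_227_364_512_0 (SL.cons S212_227_364_512_1 (SL.cons S212_227_364_512_2 (SL.cons S212_227_364_512_3 (SL.cons S212_227_364_512_4 (SL.cons S212_227_364_512_5 (SL.cons S212_227_364_512_6 (SL.cons S212_227_364_512_7 (SL.cons S212_227_364_512_8 (SL.cons S212_227_364_512_9 (SL.cons S212_227_364_512_10 (SL.cons S212_227_364_512_11 (SL.cons S212_227_364_512_12 (SL.cons S212_227_364_512_13 (SL.cons S212_227_364_512_14 (SL.cons S212_227_364_512_15 (SL.cons S212_227_364_512_16 (SL.cons S212_227_364_512_17 (SL.cons S212_227_364_512_18 (SL.cons S212_227_364_512_19 (SL.cons S212_227_364_512_20 (SL.cons S212_227_364_512_21 (SL.cons S212_227_364_512_22 (SL.cons S212_227_364_512_23 (SL.cons S212_227_364_512_24 (SL.cons S212_227_364_512_25 (SL.cons S212_227_364_512_26 (SL.cons S212_227_364_512_27 (SL.cons S212_227_364_512_28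 (SL.cons S212_227_364_512_29 (SL.cons S212_227_364_512_30 (SL.cons S212_227_364_512_31 (SL.cons S212_227_364_512_32 (SL.cons S212_227_364_512_33 (SL.cons S212_227_364_512_34 (SL.cons S212_227_364_512_35 (SL.cons S212_227_364_512_36 (SL.cons S212_227_364_512_37 (SL.cons S212_227_364_512_38 (SL.cons S212_227_364_512_39 (SL.cons S212_227_364_512_40 (SL.cons S212_227_364_512_41 (SL.cons S212_227_364_512_42 (SL.cons S212_227_364_512_43 (SL.cons S212_227_364_512_44 (SL.cons S212_227_364_512_45 (SL.cons S212_227_364_512_46 (SL.cons S212_227_364_512_47 (SL.cons S212_227_364_512_48 SL.nil)))))))))))))))))))))))))))))))))))))))))))))))))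
noncomputable def S212_227_401_438_0 : EL := (EL.cons 0 (TM.mk (P.cons (P.lf 7871865163 0 0) (P.cons (P.lf 228047217 0 0) (P.cons (P.lf 0 18724113 0) (P.cons (P.lf 0 894670 0) (P.cons (P.lf 28400 0 0) (P.cons (P.lf 1893 0 0) P.nil)))))) 140)
 (EL.cons 1 (TM.mk (P.cons (P.lf 0 1064241138 0) (P.cons (P.lf 185599968 0 0) (P.cons (P.lf 9632411 0 0) (P.cons (P.lf 0 474855 0) (P.cons (P.lf 0 25702 0) (P.cons (P.lf 519 0 0) P.nil)))))) 134)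
 (EL.cons 5 (TM.mk (P.cons (P.lf 4502559014 0 0) (P.cons (P.lf 0 81083452 0) (P.cons (P.lf 6657460 0 0) (P.cons (P.lf 318104 0 0) (P.cons (P.lf 0 10096 0) (P.cons (P.lf 0 672 0) P.nil)))))) 143)
 (EL.cons 9 (TM.mk (P.lf 6442450944 0 0) 2)
 EL.nil))))
noncomputable def S212_227_401_438_1 : EL := (EL.cons 0 (TM.mk (P.cons (P.cons (P.lf 3179835475 0 0) (P.cons (P.lf 0 256911608 0) (P.cons (P.lf 0 5577410 0) (P.lf 371824 0 0)))) (P.cons (P.cons (P.lf 379807242 0 0) (P.cons (P.lf 0 54398400 0) (P.cons (P.lf 0 1180953 0) (P.lf 78716 0 0)))) (P.cons (P.cons (P.lf 0 123366477 0) (P.cons (P.lf 1897414 0 0) (P.cons (P.lf 41181 0 0) (P.lf 0 2742 0)))) (P.cons (P.cons (P.lf 0 4135712 0) (P.cons (P.lf 611355 0 0) (P.cons (P.lf 13264 0 0) P.nil))) (P.cons (P.cons (P.lf 976866 0 0) (P.cons (P.lf 2110 0 0) P.nil)) (P.cons (P.cons (P.lf 35540 0 0) P.nil) P.nil)))))) 12052)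
 (EL.cons 1 (TM.mk (P.cons (P.cons (P.lf 0 350464004 0) (P.cons (P.lf 104512927 0 0) (P.cons (P.lf 2268907 0 0) (P.lf 0 151253 0)))) (P.cons (P.cons (P.lf 349752007 0 0) (P.cons (P.lf 0 8573435 0) (P.cons (P.lf 0 186126 0) (P.lf 12405 0 0)))) (P.cons (P.cons (P.lf 25090399 0 0) (P.cons (P.lf 0 3288749 0) (P.cons (P.lf 0 71387 0) (P.lf 4752 0 0)))) (P.cons (P.cons (P.lf 0 6100757 0) (P.cons (P.lf 13338 0 0) (P.cons (P.lf 288 0 0) P.nil))) (P.cons (P.cons (P.lf 0 254149 0) (P.cons (P.lf 24772 0 0) P.nil)) (P.cons (P.cons (P.lf 35007 0 0) P.nil) P.nil)))))) 5683)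
 (EL.cons 5 (TM.mk (P.cons (P.cons (P.lf 1741172221 0 0) (P.cons (P.lf 0 215145608 0) (P.cons (P.lf 0 4670692 0) (P.lf 311384 0 0)))) (P.cons (P.cons (P.lf 0 156917747 0) (P.cons (P.lf 125558 0 0) (P.cons (P.lf 2720 0 0) (P.lf 0 180 0)))) (P.cons (P.cons (P.lf 851669 0 0) (P.cons (P.lf 702328 0 0) (P.cons (P.lf 15250 0 0) (P.lf 0 1020 0)))) (P.cons (P.cons (P.lf 2138780 0 0) (P.cons (P.lf 0 107610 0) (P.cons (P.lf 0 2328 0) P.nil))) (P.cons (P.cons (P.lf 0 176623 0) (P.cons (P.lf 0 3288 0) P.nil)) (P.cons (P.cons (P.lf 0 12625 0) P.nil) P.nil)))))) 6878)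
 (EL.cons 9 (TM.mk (P.cons (P.cons (P.lf 2533923859 0 0) (P.cons (P.lf 0 270434076 0) (P.cons (P.lf 0 5870970 0) (P.lf 391392 0 0)))) (P.cons (P.cons (P.lf 0 19301631 0) (P.cons (P.lf 0 16955370 0) (P.cons (P.lf 0 368088 0) (P.lf 24534 0 0)))) (P.cons (P.cons (P.lf 0 37951725 0) (P.cons (P.lf 1214964 0 0) (P.cons (P.lf 26370 0 0) (P.lf 0 1758 0)))) (P.cons (P.cons (P.lf 589686 0 0) (P.cons (P.lf 96840 0 0) (P.cons (P.lf 2100 0 0) P.nil))) (P.cons (P.cons (P.lf 150610 0 0) (P.cons (P.lf 0 2232 0) P.nil)) (P.cons (P.cons (P.lf 10 0 0) P.nil) P.nil)))))) 1556)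
 (EL.cons 2 (TM.mk (P.cons (P.cons (P.lf 673170170 0 0) (P.cons (P.lf 33695614 0 0) (P.cons (P.lf 0 3175593 0) (P.cons (P.lf 0 38790 0) (P.lf 1937 0 0))))) (P.cons (P.cons (P.lf 0 103329990 0) (P.cons (P.lf 0 5172193 0) (P.cons (P.lf 487445 0 0) (P.cons (P.lf 5954 0 0) (P.lf 0 295 0))))) (P.cons (P.cons (P.lf 0 9848472 0) (P.cons (P.lf 0 492963 0) (P.cons (P.lf 46456 0 0) (P.cons (P.lf 565 0 0) P.nil)))) (P.cons (P.cons (P.lf 372133 0 0) (P.cons (P.lf 18627 0 0) (P.cons (P.lf 0 1755 0) P.nil))) (P.cons (P.cons (P.lf 40277 0 0) (P.cons (P.lf 2013 0 0) P.nil)) (P.cons (P.cons (P.lf 0 464 0) P.nil) P.nil)))))) 670)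
 (EL.cons 6 (TM.mk (P.cons (P.cons (P.lf 1227050274 0 0) (P.cons (P.lf 61420149 0 0) (P.cons (P.lf 0 5788455 0) (P.cons (P.lf 0 70710 0) (P.lf 3534 0 0))))) (P.cons (P.cons (P.lf 76932225 0 0) (P.cons (P.lf 3850848 0 0) (P.cons (P.lf 0 362916 0) (P.cons (P.lf 0 4431 0) (P.lf 219 0 0))))) (P.cons (P.cons (P.lf 0 5512713 0) (P.cons (P.lf 0 275937 0) (P.cons (P.lf 26004 0 0) (P.cons (P.lf 315 0 0) P.nil)))) (P.cons (P.cons (P.lf 0 439428 0) (P.cons (P.lf 0 21993 0) (P.cons (P.lf 2070 0 0) P.nil))) (P.cons (P.cons (P.lf 10155 0 0) (P.cons (P.lf 507 0 0) P.nil)) (P.cons (P.cons (P.lf 1275 0 0) P.nil) P.nil)))))) 513)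
 EL.nil))))))
noncomputable def S212_227_401_438_2 : EL := (EL.cons 0 (TM.mk (P.cons (P.cons (P.lf 1283602787 0 0) (P.cons (P.lf 0 209122132 0) (P.cons (P.lf 3158089 0 0) (P.cons (P.lf 636904 0 0) (P.cons (P.lf 0 18661 0) (P.cons (P.lf 0 489 0) P.nil)))))) (P.cons (P.cons (P.lf 262989103 0 0) (P.cons (P.lf 0 68028756 0) (P.cons (P.lf 2301242 0 0) (P.cons (P.lf 262479 0 0) (P.cons (P.lf 0 9147 0) P.nil))))) (P.cons (P.cons (P.lf 0 96942753 0) (P.cons (P.lf 9014100 0 0) (P.cons (P.lf 278528 0 0) (P.cons (P.lf 0 9457 0) P.nil)))) (P.cons (P.cons (P.lf 0 6102422 0) (P.cons (P.lf 1817241 0 0) (P.cons (P.lf 0 24610 0) P.nil))) (P.cons (P.cons (P.lf 1933702 0 0) (P.cons (P.lf 0 100408 0) P.nil)) (P.cons (P.cons (P.lf 61253 0 0) P.nil) P.nil)))))) 66664)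
 (EL.cons 1 (TM.mk (P.cons (P.cons (P.lf 0 111050677 0) (P.cons (P.lf 76494453 0 0) (P.cons (P.lf 0 5238349 0) (P.cons (P.lf 0 410248 0) (P.cons (P.lf 16718 0 0) (P.cons (P.lf 430 0 0) P.nil)))))) (P.cons (P.cons (P.lf 246006509 0 0) (P.cons (P.lf 0 30695682 0) (P.cons (P.lf 0 588616 0) (P.cons (P.lf 47800 0 0) (P.cons (P.lf 0 189 0) P.nil))))) (P.cons (P.cons (P.lf 15795516 0 0) (P.cons (P.lf 0 6489976 0) (P.cons (P.lf 152300 0 0) (P.cons (P.lf 22110 0 0) P.nil)))) (P.cons (P.cons (P.lf 0 8065493 0) (P.cons (P.lf 567627 0 0) (P.cons (P.lf 26372 0 0) P.nil))) (P.cons (P.cons (P.lf 0 327923 0) (P.cons (P.lf 115414 0 0) P.nil)) (P.cons (P.cons (P.lf 107452 0 0) P.nil) P.nil)))))) 31190)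
 (EL.cons 5 (TM.mk (P.cons (P.cons (P.lf 673127231 0 0) (P.cons (P.lf 0 166742304 0) (P.cons (P.lf 6508618 0 0) (P.cons (P.lf 681092 0 0) (P.cons (P.lf 0 24530 0) (P.cons (P.lf 0 632 0) P.nil)))))) (P.cons (P.cons (P.lf 0 110714977 0) (P.cons (P.lf 10908478 0 0) (P.cons (P.lf 506757 0 0) (P.cons (P.lf 0 4053 0) (P.cons (P.lf 0 662 0) P.nil))))) (P.cons (P.cons (P.lf 699416 0 0) (P.cons (P.lf 1604324 0 0) (P.cons (P.lf 0 59648 0) (P.cons (P.lf 0 6425 0) P.nil)))) (P.cons (P.cons (P.lf 2953193 0 0) (P.cons (P.lf 0 397741 0) (P.cons (P.lf 0 2330 0) P.nil))) (P.cons (P.cons (P.lf 0 303879 0) (P.cons (P.lf 0 1030 0) P.nil)) (P.cons (P.cons (P.lf 0 30664 0) P.nil) P.nil)))))) 32102)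
 (EL.cons 9 (TM.mk (P.cons (P.cons (P.lf 996634693 0 0) (P.cons (P.lf 0 212732502 0) (P.cons (P.lf 6733680 0 0) (P.cons (P.lf 800772 0 0) (P.cons (P.lf 0 27508 0) (P.cons (P.lf 0 712 0) P.nil)))))) (P.cons (P.cons (P.lf 0 15183309 0) (P.cons (P.lf 0 11717215 0) (P.cons (P.lf 1169095 0 0) (P.cons (P.lf 78759 0 0) (P.cons (P.lf 0 3448 0) P.nil))))) (P.cons (P.cons (P.lf 0 29796270 0) (P.cons (P.lf 4243518 0 0) (P.cons (P.lf 34741 0 0) (P.cons (P.lf 0 8631 0) P.nil)))) (P.cons (P.cons (P.lf 691273 0 0) (P.cons (P.lf 219154 0 0) (P.cons (P.lf 0 9768 0) P.nil))) (P.cons (P.cons (P.lf 338511 0 0) (P.cons (P.lf 0 32398 0) P.nil)) (P.cons (P.cons (P.lf 0 7840 0) P.nil) P.nil)))))) 9002)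
 (EL.cons 2 (TM.mk (P.cons (P.cons (P.lf 529538203 0 0) (P.cons (P.lf 0 30009082 0) (P.cons (P.lf 0 6553811 0) (P.cons (P.lf 256466 0 0) (P.cons (P.lf 14658 0 0) (P.cons (P.lf 0 472 0) P.nil)))))) (P.cons (P.cons (P.lf 0 85316473 0) (P.cons (P.lf 861086 0 0) (P.cons (P.lf 770737 0 0) (P.cons (P.lf 0 21138 0) (P.cons (P.lf 0 1434 0) P.nil))))) (P.cons (P.cons (P.lf 0 15059115 0) (P.cons (P.lf 870823 0 0) (P.cons (P.lf 187621 0 0) (P.cons (P.lf 0 7380 0) P.nil)))) (P.cons (P.cons (P.lf 1692382 0 0) (P.cons (P.lf 86568 0 0) (P.cons (P.lf 0 7846 0) P.nil))) (P.cons (P.cons (P.lf 158040 0 0) (P.cons (P.lf 0 4713 0) P.nil)) (P.cons (P.cons (P.lf 0 11621 0) P.nil) P.nil)))))) 7042)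
 (EL.cons 6 (TM.mk (P.cons (P.cons (P.lf 965238846 0 0) (P.cons (P.lf 0 54700362 0) (P.cons (P.lf 0 11946252 0) (P.cons (P.lf 467484 0 0) (P.cons (P.lf 26724 0 0) (P.cons (P.lf 0 864 0) P.nil)))))) (P.cons (P.cons (P.lf 53164956 0 0) (P.cons (P.lf 0 10256322 0) (P.cons (P.lf 0 1177812 0) (P.cons (P.lf 62526 0 0) (P.cons (P.lf 3150 0 0) P.nil))))) (P.cons (P.cons (P.lf 0 19254282 0) (P.cons (P.lf 0 443088 0) (P.cons (P.lf 128190 0 0) (P.cons (P.lf 0 1530 0) P.nil)))) (P.cons (P.cons (P.lf 0 994404 0) (P.cons (P.lf 82038 0 0) (P.cons (P.lf 14142 0 0) P.nil))) (P.cons (P.cons (P.lf 147024 0 0) (P.cons (P.lf 8202 0 0) P.nil)) (P.cons (P.cons (P.lf 8712 0 0) P.nil) P.nil)))))) 5790)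
 EL.nil))))))
noncomputable def S212_227_401_438_3 : EL := (EL.cons 0 (TM.mk (P.cons (P.lf 583851700 0 0) (P.cons (P.lf 0 228047217 0) (P.cons (P.lf 18724113 0 0) (P.cons (P.lf 894670 0 0) (P.cons (P.lf 0 28400 0) (P.cons (P.lf 0 1893 0) P.nil)))))) 140)
 (EL.cons 1 (TM.mk (P.cons (P.lf 1064241138 0 0) (P.cons (P.lf 0 185599968 0) (P.cons (P.lf 0 9632411 0) (P.cons (P.lf 474855 0 0) (P.cons (P.lf 25702 0 0) (P.cons (P.lf 0 519 0) P.nil)))))) 134)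
 (EL.cons 5 (TM.mk (P.cons (P.lf 1939891930 0 0) (P.cons (P.lf 81083452 0 0) (P.cons (P.lf 0 6657460 0) (P.cons (P.lf 0 318104 0) (P.cons (P.lf 10096 0 0) (P.cons (P.lf 672 0 0) P.nil)))))) 136)
 EL.nil)))
noncomputable def S212_227_401_438_4 : EL := (EL.cons 0 (TM.mk (P.cons (P.cons (P.lf 229638650 0 0) (P.cons (P.lf 0 24508279 0) (P.cons (P.lf 0 532059 0) (P.lf 35469 0 0)))) (P.cons (P.cons (P.lf 0 91444013 0) (P.cons (P.lf 8036121 0 0) (P.cons (P.lf 174459 0 0) (P.lf 0 11629 0)))) (P.cons (P.cons (P.lf 4608335 0 0) (P.cons (P.lf 0 75693 0) (P.cons (P.lf 0 1643 0) (P.lf 108 0 0)))) (P.cons (P.cons (P.lf 1692631 0 0) (P.cons (P.lf 0 121064 0) (P.cons (P.lf 0 2627 0) P.nil))) (P.cons (P.cons (P.lf 0 131375 0) (P.cons (P.lf 0 1260 0) P.nil)) (P.cons (P.cons (P.lf 0 9544 0) P.nil) P.nil)))))) 2193)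
 (EL.cons 1 (TM.mk (P.cons (P.cons (P.lf 418583863 0 0) (P.cons (P.lf 0 44673534 0) (P.cons (P.lf 0 969834 0) (P.lf 64653 0 0)))) (P.cons (P.cons (P.lf 0 76188048 0) (P.cons (P.lf 4990018 0 0) (P.cons (P.lf 108330 0 0) (P.lf 0 7220 0)))) (P.cons (P.cons (P.lf 0 9501849 0) (P.cons (P.lf 1093505 0 0) (P.cons (P.lf 23737 0 0) (P.lf 0 1580 0)))) (P.cons (P.cons (P.lf 1406385 0 0) (P.cons (P.lf 0 13586 0) (P.cons (P.lf 0 294 0) P.nil))) (P.cons (P.cons (P.lf 73321 0 0) (P.cons (P.lf 0 7303 0) P.nil)) (P.cons (P.cons (P.lf 0 8296 0) P.nil) P.nil)))))) 1502)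
 (EL.cons 5 (TM.mk (P.cons (P.cons (P.lf 762991986 0 0) (P.cons (P.lf 0 81430636 0) (P.cons (P.lf 0 1767812 0) (P.lf 117850 0 0)))) (P.cons (P.cons (P.lf 26079548 0 0) (P.cons (P.lf 0 8509076 0) (P.cons (P.lf 0 184724 0) (P.lf 12312 0 0)))) (P.cons (P.cons (P.lf 0 14289092 0) (P.cons (P.lf 431900 0 0) (P.cons (P.lf 9374 0 0) (P.lf 0 624 0)))) (P.cons (P.cons (P.lf 0 405260 0) (P.cons (P.lf 75324 0 0) (P.cons (P.lf 1632 0 0) P.nil))) (P.cons (P.cons (P.lf 96912 0 0) (P.cons (P.lf 0 294 0) P.nil)) (P.cons (P.cons (P.lf 3396 0 0) P.nil) P.nil)))))) 1314)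
 EL.nil)))
noncomputable def S212_227_401_438_5 : EL := (EL.cons 0 (TM.mk (P.cons (P.cons (P.lf 90320726 0 0) (P.cons (P.lf 0 19279033 0) (P.cons (P.lf 610243 0 0) (P.cons (P.lf 72569 0 0) (P.cons (P.lf 0 2492 0) (P.cons (P.lf 0 63 0) P.nil)))))) (P.cons (P.cons (P.lf 0 36654459 0) (P.cons (P.lf 6468335 0 0) (P.cons (P.lf 0 132405 0) (P.cons (P.lf 0 21206 0) (P.cons (P.lf 660 0 0) P.nil))))) (P.cons (P.cons (P.lf 733726 0 0) (P.cons (P.lf 181054 0 0) (P.cons (P.lf 0 18662 0) (P.cons (P.lf 0 1241 0) P.nil)))) (P.cons (P.cons (P.lf 1211637 0 0) (P.cons (P.lf 0 193944 0) (P.cons (P.lf 2216 0 0) P.nil))) (P.cons (P.cons (P.lf 0 86892 0) (P.cons (P.lf 949 0 0) P.nil)) (P.cons (P.cons (P.lf 0 15046 0) P.nil) P.nil)))))) 7076)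
 (EL.cons 1 (TM.mk (P.cons (P.cons (P.lf 164636043 0 0) (P.cons (P.lf 0 35141700 0) (P.cons (P.lf 1112349 0 0) (P.cons (P.lf 132279 0 0) (P.cons (P.lf 0 4543 0) (P.cons (P.lf 0 116 0) P.nil)))))) (P.cons (P.cons (P.lf 0 31220115 0) (P.cons (P.lf 4193000 0 0) (P.cons (P.lf 0 864 0) (P.cons (P.lf 0 10057 0) (P.cons (P.lf 221 0 0) P.nil))))) (P.cons (P.cons (P.lf 0 5974803 0) (P.cons (P.lf 1356620 0 0) (P.cons (P.lf 0 38008 0) (P.cons (P.lf 0 4890 0) P.nil)))) (P.cons (P.cons (P.lf 1068750 0 0) (P.cons (P.lf 0 84208 0) (P.cons (P.lf 0 3864 0) P.nil))) (P.cons (P.cons (P.lf 83411 0 0) (P.cons (P.lf 0 19721 0) P.nil)) (P.cons (P.cons (P.lf 0 14416 0) P.nil) P.nil)))))) 6018)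
 (EL.cons 5 (TM.mk (P.cons (P.cons (P.lf 300097526 0 0) (P.cons (P.lf 0 64056066 0) (P.cons (P.lf 2027582 0 0) (P.cons (P.lf 241120 0 0) (P.cons (P.lf 0 8282 0) (P.cons (P.lf 0 212 0) P.nil)))))) (P.cons (P.cons (P.lf 7971592 0 0) (P.cons (P.lf 0 6205590 0) (P.cons (P.lf 436774 0 0) (P.cons (P.lf 33792 0 0) (P.cons (P.lf 0 1382 0) P.nil))))) (P.cons (P.cons (P.lf 0 10192970 0) (P.cons (P.lf 1350130 0 0) (P.cons (P.lf 18214 0 0) (P.cons (P.lf 0 2434 0) P.nil)))) (P.cons (P.cons (P.lf 0 200380 0) (P.cons (P.lf 142008 0 0) (P.cons (P.lf 0 4042 0) P.nil))) (P.cons (P.cons (P.lf 143730 0 0) (P.cons (P.lf 0 11136 0) P.nil)) (P.cons (P.cons (P.lf 2736 0 0) P.nil) P.nil)))))) 4992)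
 EL.nil)))
noncomputable def S212_227_401_438_6 : EL := (EL.cons 12 (TM.mk (P.lf 8589934592 0 0) 0)
 (EL.cons 3 (TM.mk (P.cons (P.lf 0 1119737460 0) (P.cons (P.lf 218679686 0 0) (P.cons (P.lf 3398598 0 0) (P.cons (P.lf 0 194190 0) (P.cons (P.lf 0 5531 0) (P.cons (P.lf 146 0 0) P.nil)))))) 52)
 (EL.cons 7 (TM.mk (P.cons (P.lf 0 2041050269 0) (P.cons (P.lf 0 42655831 0) (P.cons (P.lf 3948043 0 0) (P.cons (P.lf 84836 0 0) (P.cons (P.lf 0 3266 0) (P.cons (P.lf 0 122 0) P.nil)))))) 52)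
 EL.nil)))
noncomputable def S212_227_401_438_7 : EL := (EL.cons 12 (TM.mk (P.cons (P.cons (P.lf 3378565146 0 0) (P.cons (P.lf 0 360578768 0) (P.cons (P.lf 0 7827960 0) (P.lf 521856 0 0)))) (P.cons (P.cons (P.lf 0 25735508 0) (P.cons (P.lf 0 22607160 0) (P.cons (P.lf 0 490784 0) (P.lf 32712 0 0)))) (P.cons (P.cons (P.lf 0 50602300 0) (P.cons (P.lf 1619952 0 0) (P.cons (P.lf 35160 0 0) (P.lf 0 2344 0)))) (P.cons (P.cons (P.lf 786248 0 0) (P.cons (P.lf 129120 0 0) (P.cons (P.lf 2800 0 0) P.nil))) (P.cons (P.cons (P.lf 200814 0 0) (P.cons (P.lf 0 2976 0) P.nil)) (P.cons (P.cons (P.lf 14 0 0) P.nil) P.nil)))))) 2050)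
 (EL.cons 3 (TM.mk (P.cons (P.cons (P.lf 0 600933387 0) (P.cons (P.lf 0 94006198 0) (P.cons (P.lf 0 2040818 0) (P.lf 136050 0 0)))) (P.cons (P.cons (P.lf 0 543605791 0) (P.cons (P.lf 12465090 0 0) (P.cons (P.lf 270610 0 0) (P.lf 0 18040 0)))) (P.cons (P.cons (P.lf 15402972 0 0) (P.cons (P.lf 1858710 0 0) (P.cons (P.lf 40348 0 0) (P.lf 0 2688 0)))) (P.cons (P.cons (P.lf 4386005 0 0) (P.cons (P.lf 0 47230 0) (P.cons (P.lf 0 1024 0) P.nil))) (P.cons (P.cons (P.lf 10109 0 0) (P.cons (P.lf 0 10116 0) P.nil)) (P.cons (P.cons (P.lf 0 16305 0) P.nil) P.nil)))))) 3906)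
 (EL.cons 7 (TM.mk (P.cons (P.cons (P.lf 0 771467739 0) (P.cons (P.lf 113182341 0 0) (P.cons (P.lf 2457132 0 0) (P.lf 0 163813 0)))) (P.cons (P.cons (P.lf 106036172 0 0) (P.cons (P.lf 0 2431447 0) (P.cons (P.lf 0 52783 0) (P.lf 3517 0 0)))) (P.cons (P.cons (P.lf 0 14466728 0) (P.cons (P.lf 0 99731 0) (P.cons (P.lf 0 2168 0) (P.lf 145 0 0)))) (P.cons (P.cons (P.lf 0 301709 0) (P.cons (P.lf 58696 0 0) (P.cons (P.lf 1273 0 0) P.nil))) (P.cons (P.cons (P.lf 124330 0 0) (P.cons (P.lf 31 0 0) P.nil)) (P.cons (P.cons (P.lf 2240 0 0) P.nil) P.nil)))))) 3953)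
 (EL.cons 10 (TM.mk (P.cons (P.cons (P.lf 0 2582073006 0) (P.cons (P.lf 0 129245979 0) (P.cons (P.lf 12180606 0 0) (P.cons (P.lf 148797 0 0) (P.lf 0 7437 0))))) (P.cons (P.cons (P.lf 0 107925285 0) (P.cons (P.lf 0 5402211 0) (P.cons (P.lf 509124 0 0) (P.cons (P.lf 6219 0 0) (P.lf 0 309 0))))) (P.cons (P.cons (P.lf 8861340 0 0) (P.cons (P.lf 443553 0 0) (P.cons (P.lf 0 41802 0) (P.cons (P.lf 0 510 0) P.nil)))) (P.cons (P.cons (P.lf 423408 0 0) (P.cons (P.lf 21192 0 0) (P.cons (P.lf 0 1995 0) P.nil))) (P.cons (P.cons (P.lf 0 13437 0) (P.cons (P.lf 0 672 0) P.nil)) (P.cons (P.cons (P.lf 0 894 0) P.nil) P.nil)))))) 465)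
 EL.nil))))
noncomputable def S212_227_401_438_8 : EL := (EL.cons 12 (TM.mk (P.cons (P.cons (P.lf 1328846258 0 0) (P.cons (P.lf 0 283643336 0) (P.cons (P.lf 8978240 0 0) (P.cons (P.lf 1067696 0 0) (P.cons (P.lf 0 36678 0) (P.cons (P.lf 0 950 0) P.nil)))))) (P.cons (P.cons (P.lf 0 20244412 0) (P.cons (P.lf 0 15622954 0) (P.cons (P.lf 1558794 0 0) (P.cons (P.lf 105012 0 0) (P.cons (P.lf 0 4598 0) P.nil))))) (P.cons (P.cons (P.lf 0 39728360 0) (P.cons (P.lf 5658024 0 0) (P.cons (P.lf 46322 0 0) (P.cons (P.lf 0 11508 0) P.nil)))) (P.cons (P.cons (P.lf 921698 0 0) (P.cons (P.lf 292206 0 0) (P.cons (P.lf 0 13024 0) P.nil))) (P.cons (P.cons (P.lf 451348 0 0) (P.cons (P.lf 0 43198 0) P.nil)) (P.cons (P.cons (P.lf 0 10454 0) P.nil) P.nil)))))) 11974)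
 (EL.cons 3 (TM.mk (P.cons (P.cons (P.lf 0 299493113 0) (P.cons (P.lf 0 60471998 0) (P.cons (P.lf 8552412 0 0) (P.cons (P.lf 515848 0 0) (P.cons (P.lf 0 23906 0) (P.cons (P.lf 0 615 0) P.nil)))))) (P.cons (P.cons (P.lf 0 460485997 0) (P.cons (P.lf 64353977 0 0) (P.cons (P.lf 707490 0 0) (P.cons (P.lf 0 123075 0) (P.cons (P.lf 1671 0 0) P.nil))))) (P.cons (P.cons (P.lf 17264683 0 0) (P.cons (P.lf 5084034 0 0) (P.cons (P.lf 0 211023 0) (P.cons (P.lf 0 21307 0) P.nil)))) (P.cons (P.cons (P.lf 10822095 0 0) (P.cons (P.lf 0 990932 0) (P.cons (P.lf 0 26434 0) P.nil))) (P.cons (P.cons (P.lf 0 275923 0) (P.cons (P.lf 0 81579 0) P.nil)) (P.cons (P.cons (P.lf 0 101308 0) P.nil) P.nil)))))) 29248)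
 (EL.cons 7 (TM.mk (P.cons (P.cons (P.lf 0 291115842 0) (P.cons (P.lf 86404298 0 0) (P.cons (P.lf 0 4029837 0) (P.cons (P.lf 0 381470 0) (P.cons (P.lf 14307 0 0) (P.cons (P.lf 369 0 0) P.nil)))))) (P.cons (P.cons (P.lf 89822755 0 0) (P.cons (P.lf 0 12552930 0) (P.cons (P.lf 0 138002 0) (P.cons (P.lf 24005 0 0) (P.cons (P.lf 0 322 0) P.nil))))) (P.cons (P.cons (P.lf 0 13077250 0) (P.cons (P.lf 365236 0 0) (P.cons (P.lf 56078 0 0) (P.cons (P.lf 1563 0 0) P.nil)))) (P.cons (P.cons (P.lf 0 1523266 0) (P.cons (P.lf 321923 0 0) (P.cons (P.lf 0 933 0) P.nil))) (P.cons (P.cons (P.lf 384176 0 0) (P.cons (P.lf 0 16251 0) P.nil)) (P.cons (P.cons (P.lf 6610 0 0) P.nil) P.nil)))))) 19107)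
 (EL.cons 10 (TM.mk (P.cons (P.cons (P.lf 0 2031145116 0) (P.cons (P.lf 115105584 0 0) (P.cons (P.lf 25138416 0 0) (P.cons (P.lf 0 983724 0) (P.cons (P.lf 0 56244 0) (P.cons (P.lf 1830 0 0) P.nil)))))) (P.cons (P.cons (P.lf 0 69425820 0) (P.cons (P.lf 19176720 0 0) (P.cons (P.lf 1953102 0 0) (P.cons (P.lf 0 111018 0) (P.cons (P.lf 0 5460 0) P.nil))))) (P.cons (P.cons (P.lf 38038692 0 0) (P.cons (P.lf 754272 0 0) (P.cons (P.lf 0 261948 0) (P.cons (P.lf 3642 0 0) P.nil)))) (P.cons (P.cons (P.lf 1078836 0 0) (P.cons (P.lf 0 146520 0) (P.cons (P.lf 0 19470 0) P.nil))) (P.cons (P.cons (P.lf 0 257988 0) (P.cons (P.lf 0 12126 0) P.nil)) (P.cons (P.cons (P.lf 0 9042 0) P.nil) P.nil)))))) 8472)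
 EL.nil))))
noncomputable def S212_227_401_438_9 : EL := (EL.cons 3 (TM.mk (P.cons (P.lf 0 1119737460 0) (P.cons (P.lf 218679686 0 0) (P.cons (P.lf 3398598 0 0) (P.cons (P.lf 0 194190 0) (P.cons (P.lf 0 5531 0) (P.cons (P.lf 146 0 0) P.nil)))))) 52)
 (EL.cons 7 (TM.mk (P.cons (P.lf 0 2041050269 0) (P.cons (P.lf 0 42655831 0) (P.cons (P.lf 3948043 0 0) (P.cons (P.lf 84836 0 0) (P.cons (P.lf 0 3266 0) (P.cons (P.lf 0 122 0) P.nil)))))) 52)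
 EL.nil))
noncomputable def S212_227_401_438_10 : EL := (EL.cons 3 (TM.mk (P.cons (P.cons (P.lf 0 440411496 0) (P.cons (P.lf 47003099 0 0) (P.cons (P.lf 1020409 0 0) (P.lf 0 68025 0)))) (P.cons (P.cons (P.lf 89365124 0 0) (P.cons (P.lf 0 6232545 0) (P.cons (P.lf 0 135305 0) (P.lf 9020 0 0)))) (P.cons (P.cons (P.lf 7277802 0 0) (P.cons (P.lf 0 929355 0) (P.cons (P.lf 0 20174 0) (P.lf 1344 0 0)))) (P.cons (P.cons (P.lf 0 1477267 0) (P.cons (P.lf 23615 0 0) (P.cons (P.lf 512 0 0) P.nil))) (P.cons (P.cons (P.lf 0 27775 0) (P.cons (P.lf 5058 0 0) P.nil)) (P.cons (P.cons (P.lf 6639 0 0) P.nil) P.nil)))))) 893)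
 (EL.cons 7 (TM.mk (P.cons (P.cons (P.lf 0 802779255 0) (P.cons (P.lf 85676949 0 0) (P.cons (P.lf 1859997 0 0) (P.lf 0 123997 0)))) (P.cons (P.cons (P.lf 0 10662250 0) (P.cons (P.lf 7162235 0 0) (P.cons (P.lf 155486 0 0) (P.lf 0 10364 0)))) (P.cons (P.cons (P.lf 13704217 0 0) (P.cons (P.lf 0 438380 0) (P.cons (P.lf 0 9515 0) (P.lf 634 0 0)))) (P.cons (P.cons (P.lf 85999 0 0) (P.cons (P.lf 0 52676 0) (P.cons (P.lf 0 1142 0) P.nil))) (P.cons (P.cons (P.lf 0 76415 0) (P.cons (P.lf 724 0 0) P.nil)) (P.cons (P.cons (P.lf 0 1177 0) P.nil) P.nil)))))) 844)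
 EL.nil))
noncomputable def S212_227_401_438_11 : EL := (EL.cons 3 (TM.mk (P.cons (P.cons (P.lf 0 173221217 0) (P.cons (P.lf 36974212 0 0) (P.cons (P.lf 0 1170354 0) (P.cons (P.lf 0 139178 0) (P.cons (P.lf 4780 0 0) (P.cons (P.lf 123 0 0) P.nil)))))) (P.cons (P.cons (P.lf 36468275 0 0) (P.cons (P.lf 0 5184373 0) (P.cons (P.lf 25368 0 0) (P.cons (P.lf 13491 0 0) (P.cons (P.lf 0 333 0) P.nil))))) (P.cons (P.cons (P.lf 5189155 0 0) (P.cons (P.lf 0 1247496 0) (P.cons (P.lf 37197 0 0) (P.cons (P.lf 4595 0 0) P.nil)))) (P.cons (P.cons (P.lf 0 1169589 0) (P.cons (P.lf 106180 0 0) (P.cons (P.lf 3290 0 0) P.nil))) (P.cons (P.cons (P.lf 0 51487 0) (P.cons (P.lf 15843 0 0) P.nil)) (P.cons (P.cons (P.lf 14150 0 0) P.nil) P.nil)))))) 4740)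
 (EL.cons 7 (TM.mk (P.cons (P.cons (P.lf 0 315746526 0) (P.cons (P.lf 67396358 0 0) (P.cons (P.lf 0 2133315 0) (P.cons (P.lf 0 253694 0) (P.cons (P.lf 8715 0 0) (P.cons (P.lf 225 0 0) P.nil)))))) (P.cons (P.cons (P.lf 0 1788509 0) (P.cons (P.lf 5120676 0 0) (P.cons (P.lf 0 414968 0) (P.cons (P.lf 0 30253 0) (P.cons (P.lf 1274 0 0) P.nil))))) (P.cons (P.cons (P.lf 10151120 0 0) (P.cons (P.lf 0 1397186 0) (P.cons (P.lf 0 14620 0) (P.cons (P.lf 2703 0 0) P.nil)))) (P.cons (P.cons (P.lf 0 17902 0) (P.cons (P.lf 0 107509 0) (P.cons (P.lf 3669 0 0) P.nil))) (P.cons (P.cons (P.lf 0 130786 0) (P.cons (P.lf 11367 0 0) P.nil)) (P.cons (P.cons (P.lf 262 0 0) P.nil) P.nil)))))) 3959)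
 EL.nil))
noncomputable def S212_227_401_438_12 : EL := (EL.cons 4 (TM.mk (P.cons (P.lf 1119737460 0 0) (P.cons (P.lf 0 218679686 0) (P.cons (P.lf 0 3398598 0) (P.cons (P.lf 194190 0 0) (P.cons (P.lf 5531 0 0) (P.cons (P.lf 0 146 0) P.nil)))))) 52)
 (EL.cons 8 (TM.mk (P.cons (P.lf 2041050269 0 0) (P.cons (P.lf 42655831 0 0) (P.cons (P.lf 0 3948043 0) (P.cons (P.lf 0 84836 0) (P.cons (P.lf 3266 0 0) (P.cons (P.lf 122 0 0) P.nil)))))) 52)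
 EL.nil))
noncomputable def S212_227_401_438_13 : EL := (EL.cons 4 (TM.mk (P.cons (P.cons (P.lf 440411496 0 0) (P.cons (P.lf 0 47003099 0) (P.cons (P.lf 0 1020409 0) (P.lf 68025 0 0)))) (P.cons (P.cons (P.lf 0 89365124 0) (P.cons (P.lf 6232545 0 0) (P.cons (P.lf 135305 0 0) (P.lf 0 9020 0)))) (P.cons (P.cons (P.lf 0 7277802 0) (P.cons (P.lf 929355 0 0) (P.cons (P.lf 20174 0 0) (P.lf 0 1344 0)))) (P.cons (P.cons (P.lf 1477267 0 0) (P.cons (P.lf 0 23615 0) (P.cons (P.lf 0 512 0) P.nil))) (P.cons (P.cons (P.lf 27775 0 0) (P.cons (P.lf 0 5058 0) P.nil)) (P.cons (P.cons (P.lf 0 6639 0) P.nil) P.nil)))))) 893)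
 (EL.cons 8 (TM.mk (P.cons (P.cons (P.lf 802779255 0 0) (P.cons (P.lf 0 85676949 0) (P.cons (P.lf 0 1859997 0) (P.lf 123997 0 0)))) (P.cons (P.cons (P.lf 10662250 0 0) (P.cons (P.lf 0 7162235 0) (P.cons (P.lf 0 155486 0) (P.lf 10364 0 0)))) (P.cons (P.cons (P.lf 0 13704217 0) (P.cons (P.lf 438380 0 0) (P.cons (P.lf 9515 0 0) (P.lf 0 634 0)))) (P.cons (P.cons (P.lf 0 85999 0) (P.cons (P.lf 52676 0 0) (P.cons (P.lf 1142 0 0) P.nil))) (P.cons (P.cons (P.lf 76415 0 0) (P.cons (P.lf 0 724 0) P.nil)) (P.cons (P.cons (P.lf 1177 0 0) P.nil) P.nil)))))) 844)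
 EL.nil))
noncomputable def S212_227_401_438_14 : EL := (EL.cons 4 (TM.mk (P.cons (P.cons (P.lf 173221217 0 0) (P.cons (P.lf 0 36974212 0) (P.cons (P.lf 1170354 0 0) (P.cons (P.lf 139178 0 0) (P.cons (P.lf 0 4780 0) (P.cons (P.lf 0 123 0) P.nil)))))) (P.cons (P.cons (P.lf 0 36468275 0) (P.cons (P.lf 5184373 0 0) (P.cons (P.lf 0 25368 0) (P.cons (P.lf 0 13491 0) (P.cons (P.lf 333 0 0) P.nil))))) (P.cons (P.cons (P.lf 0 5189155 0) (P.cons (P.lf 1247496 0 0) (P.cons (P.lf 0 37197 0) (P.cons (P.lf 0 4595 0) P.nil)))) (P.cons (P.cons (P.lf 1169589 0 0) (P.cons (P.lf 0 106180 0) (P.cons (P.lf 0 3290 0) P.nil))) (P.cons (P.cons (P.lf 51487 0 0) (P.cons (P.lf 0 15843 0) P.nil)) (P.cons (P.cons (P.lf 0 14150 0) P.nil) P.nil)))))) 4740)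
 (EL.cons 8 (TM.mk (P.cons (P.cons (P.lf 315746526 0 0) (P.cons (P.lf 0 67396358 0) (P.cons (P.lf 2133315 0 0) (P.cons (P.lf 253694 0 0) (P.cons (P.lf 0 8715 0) (P.cons (P.lf 0 225 0) P.nil)))))) (P.cons (P.cons (P.lf 1788509 0 0) (P.cons (P.lf 0 5120676 0) (P.cons (P.lf 414968 0 0) (P.cons (P.lf 30253 0 0) (P.cons (P.lf 0 1274 0) P.nil))))) (P.cons (P.cons (P.lf 0 10151120 0) (P.cons (P.lf 1397186 0 0) (P.cons (P.lf 14620 0 0) (P.cons (P.lf 0 2703 0) P.nil)))) (P.cons (P.cons (P.lf 17902 0 0) (P.cons (P.lf 107509 0 0) (P.cons (P.lf 0 3669 0) P.nil))) (P.cons (P.cons (P.lf 130786 0 0) (P.cons (P.lf 0 11367 0) P.nil)) (P.cons (P.cons (P.lf 0 262 0) P.nil) P.nil)))))) 3959)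
 EL.nil))
noncomputable def S212_227_401_438_15 : EL := (EL.cons 4 (TM.mk (P.cons (P.lf 0 311387573 0) (P.cons (P.lf 121625182 0 0) (P.cons (P.lf 0 9986193 0) (P.cons (P.lf 0 477157 0) (P.cons (P.lf 15147 0 0) (P.cons (P.lf 1009 0 0) P.nil)))))) 78)
 (EL.cons 8 (TM.mk (P.cons (P.lf 0 567595274 0) (P.cons (P.lf 98986650 0 0) (P.cons (P.lf 5137286 0 0) (P.cons (P.lf 0 253256 0) (P.cons (P.lf 0 13708 0) (P.cons (P.lf 277 0 0) P.nil)))))) 68)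
 EL.nil))
noncomputable def S212_227_401_438_16 : EL := (EL.cons 4 (TM.mk (P.cons (P.cons (P.lf 0 122473947 0) (P.cons (P.lf 13071082 0 0) (P.cons (P.lf 283765 0 0) (P.lf 0 18916 0)))) (P.cons (P.cons (P.lf 48770140 0 0) (P.cons (P.lf 0 4285931 0) (P.cons (P.lf 0 93045 0) (P.lf 6202 0 0)))) (P.cons (P.cons (P.lf 0 2457779 0) (P.cons (P.lf 40369 0 0) (P.cons (P.lf 876 0 0) (P.lf 0 58 0)))) (P.cons (P.cons (P.lf 0 902736 0) (P.cons (P.lf 64567 0 0) (P.cons (P.lf 1401 0 0) P.nil))) (P.cons (P.cons (P.lf 70066 0 0) (P.cons (P.lf 672 0 0) P.nil)) (P.cons (P.cons (P.lf 5090 0 0) P.nil) P.nil)))))) 1178)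
 (EL.cons 8 (TM.mk (P.cons (P.cons (P.lf 0 223244727 0) (P.cons (P.lf 23825885 0 0) (P.cons (P.lf 517245 0 0) (P.lf 0 34482 0)))) (P.cons (P.cons (P.lf 40633626 0 0) (P.cons (P.lf 0 2661343 0) (P.cons (P.lf 0 57776 0) (P.lf 3851 0 0)))) (P.cons (P.cons (P.lf 5067653 0 0) (P.cons (P.lf 0 583203 0) (P.cons (P.lf 0 12660 0) (P.lf 843 0 0)))) (P.cons (P.cons (P.lf 0 750072 0) (P.cons (P.lf 7246 0 0) (P.cons (P.lf 157 0 0) P.nil))) (P.cons (P.cons (P.lf 0 39105 0) (P.cons (P.lf 3895 0 0) P.nil)) (P.cons (P.cons (P.lf 4425 0 0) P.nil) P.nil)))))) 791)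
 EL.nil))
noncomputable def S212_227_401_438_17 : EL := (EL.cons 4 (TM.mk (P.cons (P.cons (P.lf 0 48171054 0) (P.cons (P.lf 10282151 0 0) (P.cons (P.lf 0 325463 0) (P.cons (P.lf 0 38703 0) (P.cons (P.lf 1329 0 0) (P.cons (P.lf 33 0 0) P.nil)))))) (P.cons (P.cons (P.lf 19549045 0 0) (P.cons (P.lf 0 3449778 0) (P.cons (P.lf 70616 0 0) (P.cons (P.lf 11310 0 0) (P.cons (P.lf 0 352 0) P.nil))))) (P.cons (P.cons (P.lf 0 391320 0) (P.cons (P.lf 0 96562 0) (P.cons (P.lf 9953 0 0) (P.cons (P.lf 661 0 0) P.nil)))) (P.cons (P.cons (P.lf 0 646206 0) (P.cons (P.lf 103437 0 0) (P.cons (P.lf 0 1182 0) P.nil))) (P.cons (P.cons (P.lf 46342 0 0) (P.cons (P.lf 0 506 0) P.nil)) (P.cons (P.cons (P.lf 8025 0 0) P.nil) P.nil)))))) 3784)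
 (EL.cons 8 (TM.mk (P.cons (P.cons (P.lf 0 87805890 0) (P.cons (P.lf 18742240 0 0) (P.cons (P.lf 0 593253 0) (P.cons (P.lf 0 70549 0) (P.cons (P.lf 2423 0 0) (P.cons (P.lf 62 0 0) P.nil)))))) (P.cons (P.cons (P.lf 16650728 0 0) (P.cons (P.lf 0 2236267 0) (P.cons (P.lf 461 0 0) (P.cons (P.lf 5364 0 0) (P.cons (P.lf 0 118 0) P.nil))))) (P.cons (P.cons (P.lf 3186562 0 0) (P.cons (P.lf 0 723531 0) (P.cons (P.lf 20271 0 0) (P.cons (P.lf 2608 0 0) P.nil)))) (P.cons (P.cons (P.lf 0 570000 0) (P.cons (P.lf 44911 0 0) (P.cons (P.lf 2061 0 0) P.nil))) (P.cons (P.cons (P.lf 0 44486 0) (P.cons (P.lf 10518 0 0) P.nil)) (P.cons (P.cons (P.lf 7689 0 0) P.nil) P.nil)))))) 3198)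
 EL.nil))
noncomputable def S212_227_401_438_18 : EL := (EL.cons 4 (TM.mk (P.cons (P.lf 86593710 0 0) (P.cons (P.lf 0 50734084 0) (P.cons (P.lf 9119656 0 0) (P.cons (P.lf 0 291978 0) (P.cons (P.lf 0 43993 0) (P.cons (P.lf 441 0 0) P.nil)))))) 153)
 (EL.cons 8 (TM.mk (P.cons (P.lf 157842459 0 0) (P.cons (P.lf 0 58353100 0) (P.cons (P.lf 3468227 0 0) (P.cons (P.lf 460355 0 0) (P.cons (P.lf 0 9599 0) (P.cons (P.lf 0 1439 0) P.nil)))))) 99)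
 EL.nil))
noncomputable def S212_227_401_438_19 : EL := (EL.cons 4 (TM.mk (P.cons (P.cons (P.lf 34058756 0 0) (P.cons (P.lf 0 3634934 0) (P.cons (P.lf 0 78912 0) (P.lf 5260 0 0)))) (P.cons (P.cons (P.lf 0 20214000 0) (P.cons (P.lf 1901760 0 0) (P.cons (P.lf 41285 0 0) (P.lf 0 2751 0)))) (P.cons (P.cons (P.lf 3228799 0 0) (P.cons (P.lf 0 232961 0) (P.cons (P.lf 0 5056 0) (P.lf 336 0 0)))) (P.cons (P.cons (P.lf 164631 0 0) (P.cons (P.lf 0 20010 0) (P.cons (P.lf 0 434 0) P.nil))) (P.cons (P.cons (P.lf 0 72770 0) (P.cons (P.lf 3541 0 0) P.nil)) (P.cons (P.cons (P.lf 1673 0 0) P.nil) P.nil)))))) 1204)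
 (EL.cons 8 (TM.mk (P.cons (P.cons (P.lf 62082082 0 0) (P.cons (P.lf 0 6625735 0) (P.cons (P.lf 0 143840 0) (P.lf 9588 0 0)))) (P.cons (P.cons (P.lf 0 23424148 0) (P.cons (P.lf 2034068 0 0) (P.cons (P.lf 44158 0 0) (P.lf 0 2943 0)))) (P.cons (P.cons (P.lf 609106 0 0) (P.cons (P.lf 37756 0 0) (P.cons (P.lf 819 0 0) (P.lf 0 54 0)))) (P.cons (P.cons (P.lf 528873 0 0) (P.cons (P.lf 0 37083 0) (P.cons (P.lf 0 804 0) P.nil))) (P.cons (P.cons (P.lf 0 27236 0) (P.cons (P.lf 0 1086 0) P.nil)) (P.cons (P.cons (P.lf 0 4295 0) P.nil) P.nil)))))) 879)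
 EL.nil))
noncomputable def S212_227_401_438_20 : EL := (EL.cons 4 (TM.mk (P.cons (P.cons (P.lf 13395878 0 0) (P.cons (P.lf 0 2859360 0) (P.cons (P.lf 90508 0 0) (P.cons (P.lf 10762 0 0) (P.cons (P.lf 0 369 0) (P.cons (P.lf 0 9 0) P.nil)))))) (P.cons (P.cons (P.lf 0 8052544 0) (P.cons (P.lf 1517768 0 0) (P.cons (P.lf 0 37313 0) (P.cons (P.lf 0 5247 0) (P.cons (P.lf 169 0 0) P.nil))))) (P.cons (P.cons (P.lf 1129865 0 0) (P.cons (P.lf 0 151824 0) (P.cons (P.lf 792 0 0) (P.cons (P.lf 396 0 0) P.nil)))) (P.cons (P.cons (P.lf 177274 0 0) (P.cons (P.lf 0 37416 0) (P.cons (P.lf 944 0 0) P.nil))) (P.cons (P.cons (P.lf 0 49188 0) (P.cons (P.lf 5828 0 0) P.nil)) (P.cons (P.cons (P.lf 0 270 0) P.nil) P.nil)))))) 2597)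
 (EL.cons 8 (TM.mk (P.cons (P.cons (P.lf 24417922 0 0) (P.cons (P.lf 0 5212025 0) (P.cons (P.lf 164977 0 0) (P.cons (P.lf 19618 0 0) (P.cons (P.lf 0 673 0) (P.cons (P.lf 0 17 0) P.nil)))))) (P.cons (P.cons (P.lf 0 9399108 0) (P.cons (P.lf 1639768 0 0) (P.cons (P.lf 0 32347 0) (P.cons (P.lf 0 5323 0) (P.cons (P.lf 164 0 0) P.nil))))) (P.cons (P.cons (P.lf 0 55967 0) (P.cons (P.lf 95575 0 0) (P.cons (P.lf 0 6112 0) (P.cons (P.lf 0 493 0) P.nil)))) (P.cons (P.cons (P.lf 349860 0 0) (P.cons (P.lf 0 54575 0) (P.cons (P.lf 556 0 0) P.nil))) (P.cons (P.cons (P.lf 0 16578 0) (P.cons (P.lf 0 1014 0) P.nil)) (P.cons (P.cons (P.lf 0 5215 0) P.nil) P.nil)))))) 2294)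
 EL.nil))
noncomputable def S212_227_401_438_21 : EL := (EL.cons 4 (TM.mk (P.cons (P.cons (P.lf 160521891 0 0) (P.cons (P.lf 141009297 0 0) (P.cons (P.lf 3061227 0 0) (P.lf 0 204075 0)))) (P.cons (P.cons (P.lf 632970915 0 0) (P.cons (P.lf 0 18697635 0) (P.cons (P.lf 0 405915 0) (P.lf 27060 0 0)))) (P.cons (P.cons (P.lf 0 8125170 0) (P.cons (P.lf 0 2788065 0) (P.cons (P.lf 0 60522 0) (P.lf 4032 0 0)))) (P.cons (P.cons (P.lf 0 5863272 0) (P.cons (P.lf 70845 0 0) (P.cons (P.lf 1536 0 0) P.nil))) (P.cons (P.cons (P.lf 0 37884 0) (P.cons (P.lf 15174 0 0) P.nil)) (P.cons (P.cons (P.lf 22944 0 0) P.nil) P.nil)))))) 2994)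
 (EL.cons 8 (TM.mk (P.cons (P.cons (P.lf 0 31311516 0) (P.cons (P.lf 0 27505392 0) (P.cons (P.lf 0 597135 0) (P.lf 39816 0 0)))) (P.cons (P.cons (P.lf 0 116698422 0) (P.cons (P.lf 9593682 0 0) (P.cons (P.lf 208269 0 0) (P.lf 0 13881 0)))) (P.cons (P.cons (P.lf 28170945 0 0) (P.cons (P.lf 0 338649 0) (P.cons (P.lf 0 7347 0) (P.lf 489 0 0)))) (P.cons (P.cons (P.lf 387708 0 0) (P.cons (P.lf 0 111372 0) (P.cons (P.lf 0 2415 0) P.nil))) (P.cons (P.cons (P.lf 0 200745 0) (P.cons (P.lf 693 0 0) P.nil)) (P.cons (P.cons (P.lf 0 3417 0) P.nil) P.nil)))))) 3090)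
 (EL.cons 11 (TM.mk (P.cons (P.cons (P.lf 2582073006 0 0) (P.cons (P.lf 129245979 0 0) (P.cons (P.lf 0 12180606 0) (P.cons (P.lf 0 148797 0) (P.lf 7437 0 0))))) (P.cons (P.cons (P.lf 107925285 0 0) (P.cons (P.lf 5402211 0 0) (P.cons (P.lf 0 509124 0) (P.cons (P.lf 0 6219 0) (P.lf 309 0 0))))) (P.cons (P.cons (P.lf 0 8861340 0) (P.cons (P.lf 0 443553 0) (P.cons (P.lf 41802 0 0) (P.cons (P.lf 510 0 0) P.nil)))) (P.cons (P.cons (P.lf 0 423408 0) (P.cons (P.lf 0 21192 0) (P.cons (P.lf 1995 0 0) P.nil))) (P.cons (P.cons (P.lf 13437 0 0) (P.cons (P.lf 672 0 0) P.nil)) (P.cons (P.cons (P.lf 894 0 0) P.nil) P.nil)))))) 465)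
 EL.nil)))
noncomputable def S212_227_401_438_22 : EL := (EL.cons 4 (TM.mk (P.cons (P.cons (P.lf 63135948 0 0) (P.cons (P.lf 48723105 0 0) (P.cons (P.lf 0 4861383 0) (P.cons (P.lf 0 327513 0) (P.cons (P.lf 14343 0 0) (P.cons (P.lf 369 0 0) P.nil)))))) (P.cons (P.cons (P.lf 248477136 0 0) (P.cons (P.lf 0 34769175 0) (P.cons (P.lf 0 341061 0) (P.cons (P.lf 68283 0 0) (P.cons (P.lf 0 1002 0) P.nil))))) (P.cons (P.cons (P.lf 0 6037764 0) (P.cons (P.lf 0 3165765 0) (P.cons (P.lf 124110 0 0) (P.cons (P.lf 12951 0 0) P.nil)))) (P.cons (P.cons (P.lf 0 5995842 0) (P.cons (P.lf 548556 0 0) (P.cons (P.lf 14862 0 0) P.nil))) (P.cons (P.cons (P.lf 112218 0 0) (P.cons (P.lf 48711 0 0) P.nil)) (P.cons (P.cons (P.lf 57729 0 0) P.nil) P.nil)))))) 12243)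
 (EL.cons 8 (TM.mk (P.cons (P.cons (P.lf 0 12315342 0) (P.cons (P.lf 0 9503970 0) (P.cons (P.lf 948261 0 0) (P.cons (P.lf 63888 0 0) (P.cons (P.lf 0 2796 0) (P.cons (P.lf 0 72 0) P.nil)))))) (P.cons (P.cons (P.lf 0 45805632 0) (P.cons (P.lf 8836803 0 0) (P.cons (P.lf 0 138483 0) (P.cons (P.lf 0 27129 0) (P.cons (P.lf 798 0 0) P.nil))))) (P.cons (P.cons (P.lf 11614185 0 0) (P.cons (P.lf 0 881211 0) (P.cons (P.lf 0 35349 0) (P.cons (P.lf 570 0 0) P.nil)))) (P.cons (P.cons (P.lf 752682 0 0) (P.cons (P.lf 0 214716 0) (P.cons (P.lf 2301 0 0) P.nil))) (P.cons (P.cons (P.lf 0 257481 0) (P.cons (P.lf 13809 0 0) P.nil)) (P.cons (P.cons (P.lf 0 3174 0) P.nil) P.nil)))))) 7563)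
 (EL.cons 11 (TM.mk (P.cons (P.cons (P.lf 1015572558 0 0) (P.cons (P.lf 0 57552792 0) (P.cons (P.lf 0 12569208 0) (P.cons (P.lf 491862 0 0) (P.cons (P.lf 28122 0 0) (P.cons (P.lf 0 915 0) P.nil)))))) (P.cons (P.cons (P.lf 34712910 0 0) (P.cons (P.lf 0 9588360 0) (P.cons (P.lf 0 976551 0) (P.cons (P.lf 55509 0 0) (P.cons (P.lf 2730 0 0) P.nil))))) (P.cons (P.cons (P.lf 0 19019346 0) (P.cons (P.lf 0 377136 0) (P.cons (P.lf 130974 0 0) (P.cons (P.lf 0 1821 0) P.nil)))) (P.cons (P.cons (P.lf 0 539418 0) (P.cons (P.lf 73260 0 0) (P.cons (P.lf 9735 0 0) P.nil))) (P.cons (P.cons (P.lf 128994 0 0) (P.cons (P.lf 6063 0 0) P.nil)) (P.cons (P.cons (P.lf 4521 0 0) P.nil) P.nil)))))) 4236)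
 EL.nil)))
noncomputable def S212_227_401_438_23 : EL := (EL.cons 4 (TM.mk (P.cons (P.cons (P.lf 0 44639499 0) (P.cons (P.lf 0 39213246 0) (P.cons (P.lf 0 851295 0) (P.lf 56751 0 0)))) (P.cons (P.cons (P.lf 0 167304864 0) (P.cons (P.lf 12857790 0 0) (P.cons (P.lf 279135 0 0) (P.lf 0 18606 0)))) (P.cons (P.cons (P.lf 36771468 0 0) (P.cons (P.lf 0 121110 0) (P.cons (P.lf 0 2628 0) (P.lf 174 0 0)))) (P.cons (P.cons (P.lf 1715757 0 0) (P.cons (P.lf 0 193701 0) (P.cons (P.lf 0 4203 0) P.nil))) (P.cons (P.cons (P.lf 0 345501 0) (P.cons (P.lf 0 2016 0) P.nil)) (P.cons (P.cons (P.lf 0 13857 0) P.nil) P.nil)))))) 4182)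
 (EL.cons 8 (TM.mk (P.cons (P.cons (P.lf 8707413 0 0) (P.cons (P.lf 7648968 0 0) (P.cons (P.lf 166056 0 0) (P.lf 0 11070 0)))) (P.cons (P.cons (P.lf 30752121 0 0) (P.cons (P.lf 0 4161714 0) (P.cons (P.lf 0 90345 0) (P.lf 6021 0 0)))) (P.cons (P.cons (P.lf 0 14198334 0) (P.cons (P.lf 591987 0 0) (P.cons (P.lf 12849 0 0) (P.lf 0 855 0)))) (P.cons (P.cons (P.lf 1325148 0 0) (P.cons (P.lf 22002 0 0) (P.cons (P.lf 477 0 0) P.nil))) (P.cons (P.cons (P.lf 106329 0 0) (P.cons (P.lf 0 6951 0) P.nil)) (P.cons (P.cons (P.lf 0 10824 0) P.nil) P.nil)))))) 1881)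
 (EL.cons 11 (TM.mk (P.cons (P.cons (P.lf 0 718048182 0) (P.cons (P.lf 0 35941989 0) (P.cons (P.lf 3387300 0 0) (P.cons (P.lf 41376 0 0) (P.lf 0 2067 0))))) (P.cons (P.cons (P.lf 110218656 0 0) (P.cons (P.lf 5517006 0 0) (P.cons (P.lf 0 519942 0) (P.cons (P.lf 0 6351 0) (P.lf 315 0 0))))) (P.cons (P.cons (P.lf 10505037 0 0) (P.cons (P.lf 525828 0 0) (P.cons (P.lf 0 49554 0) (P.cons (P.lf 0 603 0) P.nil)))) (P.cons (P.cons (P.lf 0 396942 0) (P.cons (P.lf 0 19869 0) (P.cons (P.lf 1872 0 0) P.nil))) (P.cons (P.cons (P.lf 0 42963 0) (P.cons (P.lf 0 2148 0) P.nil)) (P.cons (P.cons (P.lf 495 0 0) P.nil) P.nil)))))) 693)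
 EL.nil)))
noncomputable def S212_227_401_438_24 : EL := (EL.cons 4 (TM.mk (P.cons (P.cons (P.lf 0 17557461 0) (P.cons (P.lf 0 13549398 0) (P.cons (P.lf 1351899 0 0) (P.cons (P.lf 91077 0 0) (P.cons (P.lf 0 3987 0) (P.cons (P.lf 0 102 0) P.nil)))))) (P.cons (P.cons (P.lf 0 65670063 0) (P.cons (P.lf 12315087 0 0) (P.cons (P.lf 0 169173 0) (P.cons (P.lf 0 36774 0) (P.cons (P.lf 1056 0 0) P.nil))))) (P.cons (P.cons (P.lf 15227046 0 0) (P.cons (P.lf 0 966810 0) (P.cons (P.lf 0 57138 0) (P.cons (P.lf 0 168 0) P.nil)))) (P.cons (P.cons (P.lf 1546155 0 0) (P.cons (P.lf 0 356175 0) (P.cons (P.lf 2553 0 0) P.nil))) (P.cons (P.cons (P.lf 0 374004 0) (P.cons (P.lf 15183 0 0) P.nil)) (P.cons (P.cons (P.lf 0 15066 0) P.nil) P.nil)))))) 12747)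
 (EL.cons 8 (TM.mk (P.cons (P.cons (P.lf 3424770 0 0) (P.cons (P.lf 2642955 0 0) (P.cons (P.lf 0 263700 0) (P.cons (P.lf 0 17766 0) (P.cons (P.lf 777 0 0) (P.cons (P.lf 18 0 0) P.nil)))))) (P.cons (P.cons (P.lf 12069237 0 0) (P.cons (P.lf 0 2973582 0) (P.cons (P.lf 90009 0 0) (P.cons (P.lf 11013 0 0) (P.cons (P.lf 0 372 0) P.nil))))) (P.cons (P.cons (P.lf 0 5727870 0) (P.cons (P.lf 716958 0 0) (P.cons (P.lf 3108 0 0) (P.cons (P.lf 0 1578 0) P.nil)))) (P.cons (P.cons (P.lf 383379 0 0) (P.cons (P.lf 19767 0 0) (P.cons (P.lf 0 2721 0) P.nil))) (P.cons (P.cons (P.lf 124509 0 0) (P.cons (P.lf 0 16659 0) P.nil)) (P.cons (P.cons (P.lf 0 12960 0) P.nil) P.nil)))))) 4299)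
 (EL.cons 11 (TM.mk (P.cons (P.cons (P.lf 0 282420375 0) (P.cons (P.lf 16004844 0 0) (P.cons (P.lf 3495366 0 0) (P.cons (P.lf 0 136782 0) (P.cons (P.lf 0 7818 0) (P.cons (P.lf 252 0 0) P.nil)))))) (P.cons (P.cons (P.lf 45502119 0 0) (P.cons (P.lf 0 459246 0) (P.cons (P.lf 0 411060 0) (P.cons (P.lf 11274 0 0) (P.cons (P.lf 765 0 0) P.nil))))) (P.cons (P.cons (P.lf 8031528 0 0) (P.cons (P.lf 0 464439 0) (P.cons (P.lf 0 100065 0) (P.cons (P.lf 3936 0 0) P.nil)))) (P.cons (P.cons (P.lf 0 902604 0) (P.cons (P.lf 0 46170 0) (P.cons (P.lf 4185 0 0) P.nil))) (P.cons (P.cons (P.lf 0 84288 0) (P.cons (P.lf 2514 0 0) P.nil)) (P.cons (P.cons (P.lf 6198 0 0) P.nil) P.nil)))))) 3744)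
 EL.nil)))
noncomputable def S212_227_401_438_25 : EL := (EL.cons 4 (TM.mk (P.cons (P.cons (P.lf 12413790 0 0) (P.cons (P.lf 10904802 0 0) (P.cons (P.lf 236736 0 0) (P.lf 0 15780 0)))) (P.cons (P.cons (P.lf 44101419 0 0) (P.cons (P.lf 0 5705280 0) (P.cons (P.lf 0 123858 0) (P.lf 8256 0 0)))) (P.cons (P.cons (P.lf 0 19349721 0) (P.cons (P.lf 698883 0 0) (P.cons (P.lf 15171 0 0) (P.lf 0 1011 0)))) (P.cons (P.cons (P.lf 1380849 0 0) (P.cons (P.lf 60030 0 0) (P.cons (P.lf 1302 0 0) P.nil))) (P.cons (P.cons (P.lf 228429 0 0) (P.cons (P.lf 0 10626 0) P.nil)) (P.cons (P.cons (P.lf 0 15006 0) P.nil) P.nil)))))) 3795)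
 (EL.cons 8 (TM.mk (P.cons (P.cons (P.lf 0 2421441 0) (P.cons (P.lf 0 2127099 0) (P.cons (P.lf 0 46176 0) (P.lf 3078 0 0)))) (P.cons (P.cons (P.lf 0 8078955 0) (P.cons (P.lf 1572741 0 0) (P.cons (P.lf 34143 0 0) (P.lf 0 2274 0)))) (P.cons (P.cons (P.lf 5625900 0 0) (P.cons (P.lf 0 384189 0) (P.cons (P.lf 0 8340 0) (P.lf 555 0 0)))) (P.cons (P.cons (P.lf 0 1114080 0) (P.cons (P.lf 22149 0 0) (P.cons (P.lf 480 0 0) P.nil))) (P.cons (P.cons (P.lf 28917 0 0) (P.cons (P.lf 3816 0 0) P.nil)) (P.cons (P.cons (P.lf 10545 0 0) P.nil) P.nil)))))) 1806)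
 (EL.cons 11 (TM.mk (P.cons (P.cons (P.lf 199681878 0 0) (P.cons (P.lf 9995100 0 0) (P.cons (P.lf 0 941973 0) (P.cons (P.lf 0 11505 0) (P.lf 573 0 0))))) (P.cons (P.cons (P.lf 0 69647655 0) (P.cons (P.lf 0 3486222 0) (P.cons (P.lf 328554 0 0) (P.cons (P.lf 4011 0 0) (P.lf 0 198 0))))) (P.cons (P.cons (P.lf 2458527 0 0) (P.cons (P.lf 123060 0 0) (P.cons (P.lf 0 11595 0) (P.cons (P.lf 0 141 0) P.nil)))) (P.cons (P.cons (P.lf 808569 0 0) (P.cons (P.lf 40473 0 0) (P.cons (P.lf 0 3813 0) P.nil))) (P.cons (P.cons (P.lf 0 5070 0) (P.cons (P.lf 0 252 0) P.nil)) (P.cons (P.cons (P.lf 0 3489 0) P.nil) P.nil)))))) 894)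
 EL.nil)))
noncomputable def S212_227_401_438_26 : EL := (EL.cons 4 (TM.mk (P.cons (P.cons (P.lf 4882551 0 0) (P.cons (P.lf 3767949 0 0) (P.cons (P.lf 0 375948 0) (P.cons (P.lf 0 25326 0) (P.cons (P.lf 1107 0 0) (P.cons (P.lf 27 0 0) P.nil)))))) (P.cons (P.cons (P.lf 17308635 0 0) (P.cons (P.lf 0 4160562 0) (P.cons (P.lf 120465 0 0) (P.cons (P.lf 15171 0 0) (P.cons (P.lf 0 510 0) P.nil))))) (P.cons (P.cons (P.lf 0 7815825 0) (P.cons (P.lf 926250 0 0) (P.cons (P.lf 7842 0 0) (P.cons (P.lf 0 1872 0) P.nil)))) (P.cons (P.cons (P.lf 342423 0 0) (P.cons (P.lf 57588 0 0) (P.cons (P.lf 0 4020 0) P.nil))) (P.cons (P.cons (P.lf 204021 0 0) (P.cons (P.lf 0 24957 0) P.nil)) (P.cons (P.cons (P.lf 0 15459 0) P.nil) P.nil)))))) 6912)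
 (EL.cons 8 (TM.mk (P.cons (P.cons (P.lf 0 952392 0) (P.cons (P.lf 0 734979 0) (P.cons (P.lf 73332 0 0) (P.cons (P.lf 4938 0 0) (P.cons (P.lf 0 216 0) (P.cons (P.lf 0 3 0) P.nil)))))) (P.cons (P.cons (P.lf 0 3170331 0) (P.cons (P.lf 970461 0 0) (P.cons (P.lf 0 39351 0) (P.cons (P.lf 0 4026 0) (P.cons (P.lf 144 0 0) P.nil))))) (P.cons (P.cons (P.lf 2251227 0 0) (P.cons (P.lf 0 358641 0) (P.cons (P.lf 3801 0 0) (P.cons (P.lf 1020 0 0) P.nil)))) (P.cons (P.cons (P.lf 0 407670 0) (P.cons (P.lf 30801 0 0) (P.cons (P.lf 1014 0 0) P.nil))) (P.cons (P.cons (P.lf 0 19224 0) (P.cons (P.lf 6450 0 0) P.nil)) (P.cons (P.cons (P.lf 10950 0 0) P.nil) P.nil)))))) 3048)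
 (EL.cons 11 (TM.mk (P.cons (P.cons (P.lf 78538227 0 0) (P.cons (P.lf 0 4450782 0) (P.cons (P.lf 0 972024 0) (P.cons (P.lf 38037 0 0) (P.cons (P.lf 2172 0 0) (P.cons (P.lf 0 69 0) P.nil)))))) (P.cons (P.cons (P.lf 0 27991836 0) (P.cons (P.lf 996930 0 0) (P.cons (P.lf 304143 0 0) (P.cons (P.lf 0 10563 0) (P.cons (P.lf 0 636 0) P.nil))))) (P.cons (P.cons (P.lf 0 657 0) (P.cons (P.lf 117723 0 0) (P.cons (P.lf 8451 0 0) (P.cons (P.lf 0 597 0) P.nil)))) (P.cons (P.cons (P.lf 739221 0 0) (P.cons (P.lf 0 13542 0) (P.cons (P.lf 0 7113 0) P.nil))) (P.cons (P.cons (P.lf 0 20604 0) (P.cons (P.lf 0 3597 0) P.nil)) (P.cons (P.cons (P.lf 0 7521 0) P.nil) P.nil)))))) 3027)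
 EL.nil)))
noncomputable def S212_227_401_438_27 : EL := (EL.cons 13 (TM.mk (P.lf 0 4294967296 0) 0)
 EL.nil)
noncomputable def S212_227_401_438_28 : EL := (EL.cons 13 (TM.mk (P.cons (P.cons (P.lf 0 1689282573 0) (P.cons (P.lf 180289384 0 0) (P.cons (P.lf 3913980 0 0) (P.lf 0 260928 0)))) (P.cons (P.cons (P.lf 12867754 0 0) (P.cons (P.lf 11303580 0 0) (P.cons (P.lf 245392 0 0) (P.lf 0 16356 0)))) (P.cons (P.cons (P.lf 25301150 0 0) (P.cons (P.lf 0 809976 0) (P.cons (P.lf 0 17580 0) (P.lf 1172 0 0)))) (P.cons (P.cons (P.lf 0 393124 0) (P.cons (P.lf 0 64560 0) (P.cons (P.lf 0 1400 0) P.nil))) (P.cons (P.cons (P.lf 0 100407 0) (P.cons (P.lf 1488 0 0) P.nil)) (P.cons (P.cons (P.lf 0 7 0) P.nil) P.nil)))))) 1025)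
 EL.nil)
noncomputable def S212_227_401_438_29 : EL := (EL.cons 13 (TM.mk (P.cons (P.cons (P.lf 0 664423129 0) (P.cons (P.lf 141821668 0 0) (P.cons (P.lf 0 4489120 0) (P.cons (P.lf 0 533848 0) (P.cons (P.lf 18339 0 0) (P.cons (P.lf 475 0 0) P.nil)))))) (P.cons (P.cons (P.lf 10122206 0 0) (P.cons (P.lf 7811477 0 0) (P.cons (P.lf 0 779397 0) (P.cons (P.lf 0 52506 0) (P.cons (P.lf 2299 0 0) P.nil))))) (P.cons (P.cons (P.lf 19864180 0 0) (P.cons (P.lf 0 2829012 0) (P.cons (P.lf 0 23161 0) (P.cons (P.lf 5754 0 0) P.nil)))) (P.cons (P.cons (P.lf 0 460849 0) (P.cons (P.lf 0 146103 0) (P.cons (P.lf 6512 0 0) P.nil))) (P.cons (P.cons (P.lf 0 225674 0) (P.cons (P.lf 21599 0 0) P.nil)) (P.cons (P.cons (P.lf 5227 0 0) P.nil) P.nil)))))) 5987)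
 EL.nil)
noncomputable def S212_227_401_438_30 : EL := (EL.cons 13 (TM.mk (P.cons (P.lf 1194386624 0 0) (P.cons (P.lf 0 233258332 0) (P.cons (P.lf 0 3625172 0) (P.cons (P.lf 207136 0 0) (P.cons (P.lf 5900 0 0) (P.cons (P.lf 0 156 0) P.nil)))))) 48)
 EL.nil)
noncomputable def S212_227_401_438_31 : EL := (EL.cons 13 (TM.mk (P.cons (P.cons (P.lf 469772263 0 0) (P.cons (P.lf 0 50136639 0) (P.cons (P.lf 0 1088437 0) (P.lf 72561 0 0)))) (P.cons (P.cons (P.lf 0 95322799 0) (P.cons (P.lf 6648049 0 0) (P.cons (P.lf 144326 0 0) (P.lf 0 9622 0)))) (P.cons (P.cons (P.lf 0 7762989 0) (P.cons (P.lf 991313 0 0) (P.cons (P.lf 21519 0 0) (P.lf 0 1434 0)))) (P.cons (P.cons (P.lf 1575752 0 0) (P.cons (P.lf 0 25190 0) (P.cons (P.lf 0 547 0) P.nil))) (P.cons (P.cons (P.lf 29627 0 0) (P.cons (P.lf 0 5396 0) P.nil)) (P.cons (P.cons (P.lf 0 7082 0) P.nil) P.nil)))))) 933)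
 EL.nil)
noncomputable def S212_227_401_438_32 : EL := (EL.cons 13 (TM.mk (P.cons (P.cons (P.lf 184769299 0 0) (P.cons (P.lf 0 39439160 0) (P.cons (P.lf 1248378 0 0) (P.cons (P.lf 148457 0 0) (P.cons (P.lf 0 5099 0) (P.cons (P.lf 0 132 0) P.nil)))))) (P.cons (P.cons (P.lf 0 38899494 0) (P.cons (P.lf 5529998 0 0) (P.cons (P.lf 0 27060 0) (P.cons (P.lf 0 14391 0) (P.cons (P.lf 356 0 0) P.nil))))) (P.cons (P.cons (P.lf 0 5535099 0) (P.cons (P.lf 1330663 0 0) (P.cons (P.lf 0 39677 0) (P.cons (P.lf 0 4902 0) P.nil)))) (P.cons (P.cons (P.lf 1247562 0 0) (P.cons (P.lf 0 113259 0) (P.cons (P.lf 0 3510 0) P.nil))) (P.cons (P.cons (P.lf 54920 0 0) (P.cons (P.lf 0 16900 0) P.nil)) (P.cons (P.cons (P.lf 0 15094 0) P.nil) P.nil)))))) 5033)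
 EL.nil)
noncomputable def S212_227_401_438_33 : EL := (EL.cons 14 (TM.mk (P.lf 8589934592 0 0) 0)
 EL.nil)
noncomputable def S212_227_401_438_34 : EL := (EL.cons 14 (TM.mk (P.cons (P.cons (P.lf 3378565146 0 0) (P.cons (P.lf 0 360578768 0) (P.cons (P.lf 0 7827960 0) (P.lf 521856 0 0)))) (P.cons (P.cons (P.lf 0 25735508 0) (P.cons (P.lf 0 22607160 0) (P.cons (P.lf 0 490784 0) (P.lf 32712 0 0)))) (P.cons (P.cons (P.lf 0 50602300 0) (P.cons (P.lf 1619952 0 0) (P.cons (P.lf 35160 0 0) (P.lf 0 2344 0)))) (P.cons (P.cons (P.lf 786248 0 0) (P.cons (P.lf 129120 0 0) (P.cons (P.lf 2800 0 0) P.nil))) (P.cons (P.cons (P.lf 200814 0 0) (P.cons (P.lf 0 2976 0) P.nil)) (P.cons (P.cons (P.lf 14 0 0) P.nil) P.nil)))))) 2050)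
 EL.nil)
noncomputable def S212_227_401_438_35 : EL := (EL.cons 14 (TM.mk (P.cons (P.cons (P.lf 1328846258 0 0) (P.cons (P.lf 0 283643336 0) (P.cons (P.lf 8978240 0 0) (P.cons (P.lf 1067696 0 0) (P.cons (P.lf 0 36678 0) (P.cons (P.lf 0 950 0) P.nil)))))) (P.cons (P.cons (P.lf 0 20244412 0) (P.cons (P.lf 0 15622954 0) (P.cons (P.lf 1558794 0 0) (P.cons (P.lf 105012 0 0) (P.cons (P.lf 0 4598 0) P.nil))))) (P.cons (P.cons (P.lf 0 39728360 0) (P.cons (P.lf 5658024 0 0) (P.cons (P.lf 46322 0 0) (P.cons (P.lf 0 11508 0) P.nil)))) (P.cons (P.cons (P.lf 921698 0 0) (P.cons (P.lf 292206 0 0) (P.cons (P.lf 0 13024 0) P.nil))) (P.cons (P.cons (P.lf 451348 0 0) (P.cons (P.lf 0 43198 0) P.nil)) (P.cons (P.cons (P.lf 0 10454 0) P.nil) P.nil)))))) 11974)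
 EL.nil)
noncomputable def S212_227_401_438_36 : EL := (EL.cons 14 (TM.mk (P.cons (P.lf 0 2388773248 0) (P.cons (P.lf 466516664 0 0) (P.cons (P.lf 7250344 0 0) (P.cons (P.lf 0 414272 0) (P.cons (P.lf 0 11800 0) (P.cons (P.lf 312 0 0) P.nil)))))) 96)
 EL.nil)
noncomputable def S212_227_401_438_37 : EL := (EL.cons 14 (TM.mk (P.cons (P.cons (P.lf 0 939544526 0) (P.cons (P.lf 100273278 0 0) (P.cons (P.lf 2176874 0 0) (P.lf 0 145122 0)))) (P.cons (P.cons (P.lf 190645598 0 0) (P.cons (P.lf 0 13296098 0) (P.cons (P.lf 0 288652 0) (P.lf 19244 0 0)))) (P.cons (P.cons (P.lf 15525978 0 0) (P.cons (P.lf 0 1982626 0) (P.cons (P.lf 0 43038 0) (P.lf 2868 0 0)))) (P.cons (P.cons (P.lf 0 3151504 0) (P.cons (P.lf 50380 0 0) (P.cons (P.lf 1094 0 0) P.nil))) (P.cons (P.cons (P.lf 0 59254 0) (P.cons (P.lf 10792 0 0) P.nil)) (P.cons (P.cons (P.lf 14164 0 0) P.nil) P.nil)))))) 1866)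
 EL.nil)
noncomputable def S212_227_401_438_38 : EL := (EL.cons 14 (TM.mk (P.cons (P.cons (P.lf 0 369538598 0) (P.cons (P.lf 78878320 0 0) (P.cons (P.lf 0 2496756 0) (P.cons (P.lf 0 296914 0) (P.cons (P.lf 10198 0 0) (P.cons (P.lf 264 0 0) P.nil)))))) (P.cons (P.cons (P.lf 77798988 0 0) (P.cons (P.lf 0 11059996 0) (P.cons (P.lf 54120 0 0) (P.cons (P.lf 28782 0 0) (P.cons (P.lf 0 712 0) P.nil))))) (P.cons (P.cons (P.lf 11070198 0 0) (P.cons (P.lf 0 2661326 0) (P.cons (P.lf 79354 0 0) (P.cons (P.lf 9804 0 0) P.nil)))) (P.cons (P.cons (P.lf 0 2495124 0) (P.cons (P.lf 226518 0 0) (P.cons (P.lf 7020 0 0) P.nil))) (P.cons (P.cons (P.lf 0 109840 0) (P.cons (P.lf 33800 0 0) P.nil)) (P.cons (P.cons (P.lf 30188 0 0) P.nil) P.nil)))))) 10066)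
 EL.nil)
noncomputable def S212_227_401_438_39 : EL := (EL.cons 14 (TM.mk (P.cons (P.lf 664293490 0 0) (P.cons (P.lf 0 259467056 0) (P.cons (P.lf 21303880 0 0) (P.cons (P.lf 1017936 0 0) (P.cons (P.lf 0 32314 0) (P.cons (P.lf 0 2154 0) P.nil)))))) 152)
 EL.nil)
noncomputable def S212_227_401_438_40 : EL := (EL.cons 14 (TM.mk (P.cons (P.cons (P.lf 261277754 0 0) (P.cons (P.lf 0 27884976 0) (P.cons (P.lf 0 605366 0) (P.lf 40356 0 0)))) (P.cons (P.cons (P.lf 0 104042966 0) (P.cons (P.lf 9143320 0 0) (P.cons (P.lf 198496 0 0) (P.lf 0 13232 0)))) (P.cons (P.cons (P.lf 5243262 0 0) (P.cons (P.lf 0 86122 0) (P.cons (P.lf 0 1870 0) (P.lf 124 0 0)))) (P.cons (P.cons (P.lf 1925838 0 0) (P.cons (P.lf 0 137744 0) (P.cons (P.lf 0 2990 0) P.nil))) (P.cons (P.cons (P.lf 0 149476 0) (P.cons (P.lf 0 1434 0) P.nil)) (P.cons (P.cons (P.lf 0 10860 0) P.nil) P.nil)))))) 2474)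
 EL.nil)
noncomputable def S212_227_401_438_41 : EL := (EL.cons 14 (TM.mk (P.cons (P.cons (P.lf 102764916 0 0) (P.cons (P.lf 0 21935256 0) (P.cons (P.lf 694322 0 0) (P.cons (P.lf 82568 0 0) (P.cons (P.lf 0 2836 0) (P.cons (P.lf 0 72 0) P.nil)))))) (P.cons (P.cons (P.lf 0 41704630 0) (P.cons (P.lf 7359528 0 0) (P.cons (P.lf 0 150648 0) (P.cons (P.lf 0 24128 0) (P.cons (P.lf 752 0 0) P.nil))))) (P.cons (P.cons (P.lf 834818 0 0) (P.cons (P.lf 206000 0 0) (P.cons (P.lf 0 21234 0) (P.cons (P.lf 0 1412 0) P.nil)))) (P.cons (P.cons (P.lf 1378574 0 0) (P.cons (P.lf 0 220666 0) (P.cons (P.lf 2522 0 0) P.nil))) (P.cons (P.cons (P.lf 0 98864 0) (P.cons (P.lf 1080 0 0) P.nil)) (P.cons (P.cons (P.lf 0 17120 0) P.nil) P.nil)))))) 8026)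
 EL.nil)
noncomputable def S212_227_401_438_42 : EL := (EL.cons 14 (TM.mk (P.cons (P.lf 0 184733248 0) (P.cons (P.lf 108232714 0 0) (P.cons (P.lf 0 19455268 0) (P.cons (P.lf 622888 0 0) (P.cons (P.lf 93852 0 0) (P.cons (P.lf 0 942 0) P.nil)))))) 312)
 EL.nil)
noncomputable def S212_227_401_438_43 : EL := (EL.cons 14 (TM.mk (P.cons (P.cons (P.lf 0 72658680 0) (P.cons (P.lf 7754526 0 0) (P.cons (P.lf 168346 0 0) (P.lf 0 11222 0)))) (P.cons (P.cons (P.lf 43123200 0 0) (P.cons (P.lf 0 4057088 0) (P.cons (P.lf 0 88076 0) (P.lf 5870 0 0)))) (P.cons (P.cons (P.lf 0 6888106 0) (P.cons (P.lf 496984 0 0) (P.cons (P.lf 10788 0 0) (P.lf 0 718 0)))) (P.cons (P.cons (P.lf 0 351214 0) (P.cons (P.lf 42690 0 0) (P.cons (P.lf 926 0 0) P.nil))) (P.cons (P.cons (P.lf 155244 0 0) (P.cons (P.lf 0 7556 0) P.nil)) (P.cons (P.cons (P.lf 0 3570 0) P.nil) P.nil)))))) 2530)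
 EL.nil)
noncomputable def S212_227_401_438_44 : EL := (EL.cons 14 (TM.mk (P.cons (P.cons (P.lf 0 28577874 0) (P.cons (P.lf 6099970 0 0) (P.cons (P.lf 0 193084 0) (P.cons (P.lf 0 22960 0) (P.cons (P.lf 788 0 0) (P.cons (P.lf 20 0 0) P.nil)))))) (P.cons (P.cons (P.lf 17178762 0 0) (P.cons (P.lf 0 3237906 0) (P.cons (P.lf 79602 0 0) (P.cons (P.lf 11194 0 0) (P.cons (P.lf 0 362 0) P.nil))))) (P.cons (P.cons (P.lf 0 2410380 0) (P.cons (P.lf 323892 0 0) (P.cons (P.lf 0 1690 0) (P.cons (P.lf 0 846 0) P.nil)))) (P.cons (P.cons (P.lf 0 378186 0) (P.cons (P.lf 79822 0 0) (P.cons (P.lf 0 2014 0) P.nil))) (P.cons (P.cons (P.lf 104936 0 0) (P.cons (P.lf 0 12434 0) P.nil)) (P.cons (P.cons (P.lf 576 0 0) P.nil) P.nil)))))) 5494)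
 EL.nil)
noncomputable def S212_227_401_438_45 : EL := (EL.cons 14 (TM.mk (P.cons (P.cons (P.lf 522657488 0 0) (P.cons (P.lf 0 167342512 0) (P.cons (P.lf 14226786 0 0) (P.cons (P.lf 382276 0 0) (P.cons (P.lf 0 84658 0) (P.cons (P.lf 738 0 0) P.nil)))))) (P.cons (P.cons (P.lf 0 11943698 0) (P.cons (P.lf 0 7942458 0) (P.cons (P.lf 1931026 0 0) (P.cons (P.lf 0 16684 0) (P.cons (P.lf 0 12878 0) P.nil))))) (P.cons (P.cons (P.lf 0 23393254 0) (P.cons (P.lf 5914668 0 0) (P.cons (P.lf 0 246420 0) (P.cons (P.lf 0 23762 0) P.nil)))) (P.cons (P.cons (P.lf 722434 0 0) (P.cons (P.lf 246072 0 0) (P.cons (P.lf 0 46208 0) P.nil))) (P.cons (P.cons (P.lf 438008 0 0) (P.cons (P.lf 0 88886 0) P.nil)) (P.cons (P.cons (P.lf 0 15000 0) P.nil) P.nil)))))) 27040)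
 EL.nil)
noncomputable def S212_227_401_438_46 : EL := (EL.cons 15 (TM.mk (P.lf 4294967296 0 0) 0)
 EL.nil)
noncomputable def S212_227_401_438_47 : EL := (EL.cons 15 (TM.mk (P.cons (P.cons (P.lf 1689282573 0 0) (P.cons (P.lf 0 180289384 0) (P.cons (P.lf 0 3913980 0) (P.lf 260928 0 0)))) (P.cons (P.cons (P.lf 0 12867754 0) (P.cons (P.lf 0 11303580 0) (P.cons (P.lf 0 245392 0) (P.lf 16356 0 0)))) (P.cons (P.cons (P.lf 0 25301150 0) (P.cons (P.lf 809976 0 0) (P.cons (P.lf 17580 0 0) (P.lf 0 1172 0)))) (P.cons (P.cons (P.lf 393124 0 0) (P.cons (P.lf 64560 0 0) (P.cons (P.lf 1400 0 0) P.nil))) (P.cons (P.cons (P.lf 100407 0 0) (P.cons (P.lf 0 1488 0) P.nil)) (P.cons (P.cons (P.lf 7 0 0) P.nil) P.nil)))))) 1025)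
 EL.nil)
noncomputable def S212_227_401_438_48 : EL := (EL.cons 15 (TM.mk (P.cons (P.cons (P.lf 664423129 0 0) (P.cons (P.lf 0 141821668 0) (P.cons (P.lf 4489120 0 0) (P.cons (P.lf 533848 0 0) (P.cons (P.lf 0 18339 0) (P.cons (P.lf 0 475 0) P.nil)))))) (P.cons (P.cons (P.lf 0 10122206 0) (P.cons (P.lf 0 7811477 0) (P.cons (P.lf 779397 0 0) (P.cons (P.lf 52506 0 0) (P.cons (P.lf 0 2299 0) P.nil))))) (P.cons (P.cons (P.lf 0 19864180 0) (P.cons (P.lf 2829012 0 0) (P.cons (P.lf 23161 0 0) (P.cons (P.lf 0 5754 0) P.nil)))) (P.cons (P.cons (P.lf 460849 0 0) (P.cons (P.lf 146103 0 0) (P.cons (P.lf 0 6512 0) P.nil))) (P.cons (P.cons (P.lf 225674 0 0) (P.cons (P.lf 0 21599 0) P.nil)) (P.cons (P.cons (P.lf 0 5227 0) P.nil) P.nil)))))) 5987)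
 EL.nil)
noncomputable def S212_227_401_438 : SL := (SL.cons S212_227_401_438_0 (SL.cons S212_227_401_438_1 (SL.cons S212_227_401_438_2 (SL.cons S212_227_401_438_3 (SL.cons S212_227_401_438_4 (SL.cons S212_227_401_438_5 (SL.cons S212_227_401_438_6 (SL.cons S212_227_401_438_7 (SL.cons S212_227_401_438_8 (SL.cons S212_227_401_438_9 (SL.cons S212_227_401_438_10 (SL.cons S212_227_401_438_11 (SL.cons S212_227_401_438_12 (SL.cons S212_227_401_438_13 (SL.cons S212_227_401_438_14 (SL.cons S212_227_401_438_15 (SL.cons S212_227_401_438_16 (SL.cons S212_227_401_438_17 (SL.cons S212_227_401_438_18 (SL.cons S212_227_401_438_19 (SL.cons S212_227_401_438_20 (SL.cons S212_227_401_438_21 (SL.cons S212_227_401_438_22 (SL.cons S212_227_401_438_23 (SL.cons S212_227_401_438_24 (SL.cons S212_227_401_438_25 (SL.cons S212_227_401_438_26 (SL.cons S212_227_401_438_27 (SL.cons S212_227_401_438_28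 (SL.cons S212_227_401_438_29 (SL.cons S212_227_401_438_30 (SL.cons S212_227_401_438_31 (SL.cons S212_227_401_438_32 (SL.cons S212_227_401_438_33 (SL.cons S212_227_401_438_34 (SL.cons S212_227_401_438_35 (SL.cons S212_227_401_438_36 (SL.cons S212_227_401_438_37 (SL.cons S212_227_401_438_38 (SL.cons S212_227_401_438_39 (SL.cons S212_227_401_438_40 (SL.cons S212_227_401_438_41 (SL.cons S212_227_401_438_42 (SL.cons S212_227_401_438_43 (SL.cons S212_227_401_438_44 (SL.cons S212_227_401_438_45 (SL.cons S212_227_401_438_46 (SL.cons S212_227_401_438_47 (SL.cons S212_227_401_438_48 SL.nil)))))))))))))))))))))))))))))))))))))))))))))))))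
theorem S212_227_253_290_ok : band (seq (shp 5 212 227 253 290) S212_227_253_290) (sok S212_227_253_290) = true := by decide +kernel

theorem S212_227_290_364_ok : band (seq (shp 5 212 227 290 364) S212_227_290_364) (sok S212_227_290_364) = true := by decide +kernel

theorem S212_227_364_401_ok : band (seq (shp 5 212 227 364 401) S212_227_364_401) (sok S212_227_364_401) = true := by decide +kernel

theorem S212_227_364_438_ok : band (seq (shp 5 212 227 364 438) S212_227_364_438) (sok S212_227_364_438) = true := by decide +kernel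

theorem S212_227_364_512_ok : band (seq (shp 5 212 227 364 512) S212_227_364_512) (sok S212_227_364_512) = true := by decide +kernel

theorem S212_227_401_438_ok : band (seq (shp 5 212 227 401 438) S212_227_401_438) (sok S212_227_401_438) = true := by decide +kernel

end Vale.Agent.P098.Ck
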