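import Vale.Agent.P098.CkDefs

namespace Vale.Agent.P098.Ck

noncomputable def S198_212_401_438_0 : EL := (EL.cons 0 (TM.mk (P.cons (P.lf 7367797296 0 0) (P.cons (P.lf 270413532 0 0) (P.cons (P.lf 0 11357528 0) (P.cons (P.lf 0 846949 0) (P.cons (P.lf 7275 0 0) (P.cons (P.lf 1360 0 0) P.nil)))))) 123)
 (EL.cons 1 (TM.mk (P.cons (P.lf 0 1384003233 0) (P.cons (P.lf 134215061 0 0) (P.cons (P.lf 10263551 0 0) (P.cons (P.lf 0 214061 0) (P.cons (P.lf 0 21358 0) (P.cons (P.lf 0 5 0) P.nil)))))) 123)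
 (EL.cons 5 (TM.mk (P.cons (P.lf 4681783146 0 0) (P.cons (P.lf 0 96147034 0) (P.cons (P.lf 4038232 0 0) (P.cons (P.lf 301136 0 0) (P.cons (P.lf 0 2584 0) (P.cons (P.lf 0 484 0) P.nil)))))) 121)
 (EL.cons 9 (TM.mk (P.lf 6442450944 0 0) 2)
 EL.nil))))
noncomputable def S198_212_401_438_1 : EL := (EL.cons 0 (TM.mk (P.cons (P.cons (P.lf 2026821566 0 0) (P.cons (P.lf 0 148960655 0) (P.cons (P.lf 0 3233861 0) (P.lf 215588 0 0)))) (P.cons (P.cons (P.lf 732886050 0 0) (P.cons (P.lf 0 51461560 0) (P.cons (P.lf 0 1117194 0) (P.lf 74475 0 0)))) (P.cons (P.cons (P.lf 0 70314712 0) (P.cons (P.lf 0 1221030 0) (P.cons (P.lf 0 26503 0) (P.lf 1766 0 0)))) (P.cons (P.cons (P.lf 0 8060822 0) (P.cons (P.lf 402919 0 0) (P.cons (P.lf 8738 0 0) P.nil))) (P.cons (P.cons (P.lf 359366 0 0) (P.cons (P.lf 19541 0 0) P.nil)) (P.cons (P.cons (P.lf 44429 0 0) P.nil) P.nil)))))) 8235)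
 (EL.cons 1 (TM.mk (P.cons (P.cons (P.lf 0 893187650 0) (P.cons (P.lf 109030370 0 0) (P.cons (P.lf 2366986 0 0) (P.lf 0 157791 0)))) (P.cons (P.cons (P.lf 180908272 0 0) (P.cons (P.lf 3376410 0 0) (P.cons (P.lf 73295 0 0) (P.lf 0 4887 0)))) (P.cons (P.cons (P.lf 45841900 0 0) (P.cons (P.lf 0 2488267 0) (P.cons (P.lf 0 54011 0) (P.lf 3590 0 0)))) (P.cons (P.cons (P.lf 0 2517002 0) (P.cons (P.lf 0 123297 0) (P.cons (P.lf 0 2663 0) P.nil))) (P.cons (P.cons (P.lf 0 367253 0) (P.cons (P.lf 12558 0 0) P.nil)) (P.cons (P.cons (P.lf 7866 0 0) P.nil) P.nil)))))) 4826)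
 (EL.cons 5 (TM.mk (P.cons (P.cons (P.lf 2030190706 0 0) (P.cons (P.lf 0 212050268 0) (P.cons (P.lf 0 4603494 0) (P.lf 306896 0 0)))) (P.cons (P.cons (P.lf 0 123325734 0) (P.cons (P.lf 0 3410496 0) (P.cons (P.lf 0 74044 0) (P.lf 4944 0 0)))) (P.cons (P.cons (P.lf 0 12578808 0) (P.cons (P.lf 1049532 0 0) (P.cons (P.lf 22784 0 0) (P.lf 0 1514 0)))) (P.cons (P.cons (P.lf 2380276 0 0) (P.cons (P.lf 0 47672 0) (P.cons (P.lf 0 1026 0) P.nil))) (P.cons (P.cons (P.lf 0 13777 0) (P.cons (P.lf 0 6586 0) P.nil)) (P.cons (P.cons (P.lf 0 12973 0) P.nil) P.nil)))))) 5013)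
 (EL.cons 9 (TM.mk (P.cons (P.cons (P.lf 2427210318 0 0) (P.cons (P.lf 0 233835930 0) (P.cons (P.lf 0 5076450 0) (P.lf 338424 0 0)))) (P.cons (P.cons (P.lf 121108206 0 0) (P.cons (P.lf 0 19154064 0) (P.cons (P.lf 0 415818 0) (P.lf 27720 0 0)))) (P.cons (P.cons (P.lf 0 33158454 0) (P.cons (P.lf 542982 0 0) (P.cons (P.lf 11784 0 0) (P.lf 0 780 0)))) (P.cons (P.cons (P.lf 0 428634 0) (P.cons (P.lf 84336 0 0) (P.cons (P.lf 1824 0 0) P.nil))) (P.cons (P.cons (P.lf 100575 0 0) (P.cons (P.lf 312 0 0) P.nil)) (P.cons (P.cons (P.lf 2481 0 0) P.nil) P.nil)))))) 1181)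
 (EL.cons 2 (TM.mk (P.cons (P.cons (P.lf 834011170 0 0) (P.cons (P.lf 41746528 0 0) (P.cons (P.lf 0 3934341 0) (P.cons (P.lf 0 48060 0) (P.lf 2401 0 0))))) (P.cons (P.cons (P.lf 0 58107088 0) (P.cons (P.lf 0 2908555 0) (P.cons (P.lf 274111 0 0) (P.cons (P.lf 3346 0 0) (P.lf 0 165 0))))) (P.cons (P.cons (P.lf 0 9660546 0) (P.cons (P.lf 0 483558 0) (P.cons (P.lf 45570 0 0) (P.cons (P.lf 554 0 0) P.nil)))) (P.cons (P.cons (P.lf 46302 0 0) (P.cons (P.lf 2317 0 0) (P.cons (P.lf 0 216 0) P.nil))) (P.cons (P.cons (P.lf 30000 0 0) (P.cons (P.lf 1499 0 0) P.nil)) (P.cons (P.cons (P.lf 407 0 0) P.nil) P.nil)))))) 530)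
 (EL.cons 6 (TM.mk (P.cons (P.cons (P.lf 1060992183 0 0) (P.cons (P.lf 53108091 0 0) (P.cons (P.lf 0 5005095 0) (P.cons (P.lf 0 61140 0) (P.lf 3054 0 0))))) (P.cons (P.cons (P.lf 86908431 0 0) (P.cons (P.lf 4350210 0 0) (P.cons (P.lf 0 409977 0) (P.cons (P.lf 0 5007 0) (P.lf 249 0 0))))) (P.cons (P.cons (P.lf 0 2463723 0) (P.cons (P.lf 0 123318 0) (P.cons (P.lf 11622 0 0) (P.cons (P.lf 141 0 0) P.nil)))) (P.cons (P.cons (P.lf 0 382662 0) (P.cons (P.lf 0 19152 0) (P.cons (P.lf 1803 0 0) P.nil))) (P.cons (P.cons (P.lf 0 1422 0) (P.cons (P.lf 0 69 0) P.nil)) (P.cons (P.cons (P.lf 813 0 0) P.nil) P.nil)))))) 390)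
 EL.nil))))))
noncomputable def S198_212_401_438_2 : EL := (EL.cons 0 (TM.mk (P.cons (P.cons (P.lf 481416823 0 0) (P.cons (P.lf 0 57869948 0) (P.cons (P.lf 0 149331 0) (P.cons (P.lf 131830 0 0) (P.cons (P.lf 0 2686 0) (P.cons (P.lf 0 69 0) P.nil)))))) (P.cons (P.cons (P.lf 485689616 0 0) (P.cons (P.lf 0 75675156 0) (P.cons (P.lf 1032210 0 0) (P.cons (P.lf 225664 0 0) (P.cons (P.lf 0 6470 0) P.nil))))) (P.cons (P.cons (P.lf 0 22539940 0) (P.cons (P.lf 0 1966354 0) (P.cons (P.lf 263390 0 0) (P.cons (P.lf 16126 0 0) P.nil)))) (P.cons (P.cons (P.lf 0 13501993 0) (P.cons (P.lf 1477926 0 0) (P.cons (P.lf 11045 0 0) P.nil))) (P.cons (P.cons (P.lf 430684 0 0) (P.cons (P.lf 69673 0 0) P.nil)) (P.cons (P.cons (P.lf 136528 0 0) P.nil) P.nil)))))) 43354)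
 (EL.cons 1 (TM.mk (P.cons (P.cons (P.lf 0 476572647 0) (P.cons (P.lf 109141893 0 0) (P.cons (P.lf 0 3722047 0) (P.cons (P.lf 0 422439 0) (P.cons (P.lf 14757 0 0) (P.cons (P.lf 381 0 0) P.nil)))))) (P.cons (P.cons (P.lf 103287438 0 0) (P.cons (P.lf 0 2496567 0) (P.cons (P.lf 0 825729 0) (P.cons (P.lf 0 29880 0) (P.cons (P.lf 1862 0 0) P.nil))))) (P.cons (P.cons (P.lf 42301637 0 0) (P.cons (P.lf 0 6209529 0) (P.cons (P.lf 5405 0 0) (P.cons (P.lf 15065 0 0) P.nil)))) (P.cons (P.cons (P.lf 0 1895544 0) (P.cons (P.lf 0 263922 0) (P.cons (P.lf 17129 0 0) P.nil))) (P.cons (P.cons (P.lf 0 770774 0) (P.cons (P.lf 74699 0 0) P.nil)) (P.cons (P.cons (P.lf 16303 0 0) P.nil) P.nil)))))) 23588)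
 (EL.cons 5 (TM.mk (P.cons (P.cons (P.lf 865215160 0 0) (P.cons (P.lf 0 179113497 0) (P.cons (P.lf 5336910 0 0) (P.cons (P.lf 659778 0 0) (P.cons (P.lf 0 22350 0) (P.cons (P.lf 0 568 0) P.nil)))))) (P.cons (P.cons (P.lf 0 69266548 0) (P.cons (P.lf 585952 0 0) (P.cons (P.lf 637411 0 0) (P.cons (P.lf 26281 0 0) (P.cons (P.lf 0 1531 0) P.nil))))) (P.cons (P.cons (P.lf 0 17722022 0) (P.cons (P.lf 3074668 0 0) (P.cons (P.lf 0 22204 0) (P.cons (P.lf 0 8298 0) P.nil)))) (P.cons (P.cons (P.lf 3021777 0 0) (P.cons (P.lf 0 171599 0) (P.cons (P.lf 0 6829 0) P.nil))) (P.cons (P.cons (P.lf 107921 0 0) (P.cons (P.lf 0 32618 0) P.nil)) (P.cons (P.cons (P.lf 0 37130 0) P.nil) P.nil)))))) 22836)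
 (EL.cons 9 (TM.mk (P.cons (P.cons (P.lf 914457862 0 0) (P.cons (P.lf 0 176196601 0) (P.cons (P.lf 4662202 0 0) (P.cons (P.lf 623514 0 0) (P.cons (P.lf 0 20566 0) (P.cons (P.lf 0 532 0) P.nil)))))) (P.cons (P.cons (P.lf 91255669 0 0) (P.cons (P.lf 0 23224201 0) (P.cons (P.lf 886255 0 0) (P.cons (P.lf 93981 0 0) (P.cons (P.lf 0 3369 0) P.nil))))) (P.cons (P.cons (P.lf 0 22708420 0) (P.cons (P.lf 2096050 0 0) (P.cons (P.lf 63031 0 0) (P.cons (P.lf 0 2266 0) P.nil)))) (P.cons (P.cons (P.lf 0 1569633 0) (P.cons (P.lf 312244 0 0) (P.cons (P.lf 0 2577 0) P.nil))) (P.cons (P.cons (P.lf 230329 0 0) (P.cons (P.lf 0 6934 0) P.nil)) (P.cons (P.cons (P.lf 10062 0 0) P.nil) P.nil)))))) 6362)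
 (EL.cons 2 (TM.mk (P.cons (P.cons (P.lf 628431795 0 0) (P.cons (P.lf 0 29086492 0) (P.cons (P.lf 0 7309366 0) (P.cons (P.lf 271215 0 0) (P.cons (P.lf 15885 0 0) (P.cons (P.lf 0 511 0) P.nil)))))) (P.cons (P.cons (P.lf 0 12427728 0) (P.cons (P.lf 0 1363145 0) (P.cons (P.lf 5439 0 0) (P.cons (P.lf 4477 0 0) (P.cons (P.lf 135 0 0) P.nil))))) (P.cons (P.cons (P.lf 0 18049010 0) (P.cons (P.lf 283933 0 0) (P.cons (P.lf 170353 0 0) (P.cons (P.lf 0 4983 0) P.nil)))) (P.cons (P.cons (P.lf 158838 0 0) (P.cons (P.lf 74070 0 0) (P.cons (P.lf 3988 0 0) P.nil))) (P.cons (P.cons (P.lf 157561 0 0) (P.cons (P.lf 2362 0 0) P.nil)) (P.cons (P.cons (P.lf 1068 0 0) P.nil) P.nil)))))) 5028)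
 (EL.cons 6 (TM.mk (P.cons (P.cons (P.lf 799463178 0 0) (P.cons (P.lf 0 37002552 0) (P.cons (P.lf 0 9298656 0) (P.cons (P.lf 345030 0 0) (P.cons (P.lf 20202 0 0) (P.cons (P.lf 0 648 0) P.nil)))))) (P.cons (P.cons (P.lf 105376008 0 0) (P.cons (P.lf 0 7343142 0) (P.cons (P.lf 0 1402596 0) (P.cons (P.lf 57996 0 0) (P.cons (P.lf 3234 0 0) P.nil))))) (P.cons (P.cons (P.lf 0 9510510 0) (P.cons (P.lf 0 635130 0) (P.cons (P.lf 33444 0 0) (P.cons (P.lf 1356 0 0) P.nil)))) (P.cons (P.cons (P.lf 0 1416756 0) (P.cons (P.lf 13938 0 0) (P.cons (P.lf 12768 0 0) P.nil))) (P.cons (P.cons (P.lf 31458 0 0) (P.cons (P.lf 5910 0 0) P.nil)) (P.cons (P.cons (P.lf 8352 0 0) P.nil) P.nil)))))) 3990)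
 EL.nil))))))
noncomputable def S198_212_401_438_3 : EL := (EL.cons 0 (TM.mk (P.cons (P.lf 1087919567 0 0) (P.cons (P.lf 0 270413532 0) (P.cons (P.lf 11357528 0 0) (P.cons (P.lf 846949 0 0) (P.cons (P.lf 0 7275 0) (P.cons (P.lf 0 1360 0) P.nil)))))) 123)
 (EL.cons 1 (TM.mk (P.cons (P.lf 1384003233 0 0) (P.cons (P.lf 0 134215061 0) (P.cons (P.lf 0 10263551 0) (P.cons (P.lf 214061 0 0) (P.cons (P.lf 21358 0 0) (P.cons (P.lf 5 0 0) P.nil)))))) 123)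
 (EL.cons 5 (TM.mk (P.cons (P.lf 1760667798 0 0) (P.cons (P.lf 96147034 0 0) (P.cons (P.lf 0 4038232 0) (P.cons (P.lf 0 301136 0) (P.cons (P.lf 2584 0 0) (P.cons (P.lf 484 0 0) P.nil)))))) 114)
 EL.nil)))
noncomputable def S198_212_401_438_4 : EL := (EL.cons 0 (TM.mk (P.cons (P.cons (P.lf 409876555 0 0) (P.cons (P.lf 0 39487250 0) (P.cons (P.lf 0 857246 0) (P.lf 57148 0 0)))) (P.cons (P.cons (P.lf 0 81427786 0) (P.cons (P.lf 6580464 0 0) (P.cons (P.lf 142859 0 0) (P.lf 0 9523 0)))) (P.cons (P.cons (P.lf 0 6403760 0) (P.cons (P.lf 483423 0 0) (P.cons (P.lf 10492 0 0) (P.lf 0 697 0)))) (P.cons (P.cons (P.lf 1851994 0 0) (P.cons (P.lf 0 73056 0) (P.cons (P.lf 0 1585 0) P.nil))) (P.cons (P.cons (P.lf 0 10299 0) (P.cons (P.lf 0 4783 0) P.nil)) (P.cons (P.cons (P.lf 0 9566 0) P.nil) P.nil)))))) 1393)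
 (EL.cons 1 (TM.mk (P.cons (P.cons (P.lf 521426853 0 0) (P.cons (P.lf 0 50233936 0) (P.cons (P.lf 0 1090548 0) (P.lf 72701 0 0)))) (P.cons (P.cons (P.lf 0 24548735 0) (P.cons (P.lf 756701 0 0) (P.cons (P.lf 16426 0 0) (P.lf 0 1093 0)))) (P.cons (P.cons (P.lf 0 13513140 0) (P.cons (P.lf 888208 0 0) (P.cons (P.lf 19280 0 0) (P.lf 0 1282 0)))) (P.cons (P.cons (P.lf 486414 0 0) (P.cons (P.lf 29548 0 0) (P.cons (P.lf 637 0 0) P.nil))) (P.cons (P.cons (P.lf 95431 0 0) (P.cons (P.lf 0 3965 0) P.nil)) (P.cons (P.cons (P.lf 0 1575 0) P.nil) P.nil)))))) 1162)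
 (EL.cons 5 (TM.mk (P.cons (P.cons (P.lf 663336218 0 0) (P.cons (P.lf 0 63905398 0) (P.cons (P.lf 0 1387350 0) (P.lf 92488 0 0)))) (P.cons (P.cons (P.lf 69321504 0 0) (P.cons (P.lf 0 8724408 0) (P.cons (P.lf 0 189398 0) (P.lf 12624 0 0)))) (P.cons (P.cons (P.lf 0 8775924 0) (P.cons (P.lf 9108 0 0) (P.cons (P.lf 196 0 0) (P.lf 0 10 0)))) (P.cons (P.cons (P.lf 0 801364 0) (P.cons (P.lf 54086 0 0) (P.cons (P.lf 1170 0 0) P.nil))) (P.cons (P.cons (P.lf 37186 0 0) (P.cons (P.lf 1804 0 0) P.nil)) (P.cons (P.cons (P.lf 4228 0 0) P.nil) P.nil)))))) 910)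
 EL.nil)))
noncomputable def S198_212_401_438_5 : EL := (EL.cons 0 (TM.mk (P.cons (P.cons (P.lf 154422068 0 0) (P.cons (P.lf 0 29753850 0) (P.cons (P.lf 787292 0 0) (P.cons (P.lf 105289 0 0) (P.cons (P.lf 0 3471 0) (P.cons (P.lf 0 89 0) P.nil)))))) (P.cons (P.cons (P.lf 0 22973080 0) (P.cons (P.lf 3473813 0 0) (P.cons (P.lf 0 46030 0) (P.cons (P.lf 0 10300 0) (P.cons (P.lf 293 0 0) P.nil))))) (P.cons (P.cons (P.lf 0 6052932 0) (P.cons (P.lf 1018139 0 0) (P.cons (P.lf 0 18335 0) (P.cons (P.lf 0 3227 0) P.nil)))) (P.cons (P.cons (P.lf 969191 0 0) (P.cons (P.lf 0 99356 0) (P.cons (P.lf 0 905 0) P.nil))) (P.cons (P.cons (P.lf 75708 0 0) (P.cons (P.lf 0 13434 0) P.nil)) (P.cons (P.cons (P.lf 0 14016 0) P.nil) P.nil)))))) 4736)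
 (EL.cons 1 (TM.mk (P.cons (P.cons (P.lf 196448936 0 0) (P.cons (P.lf 0 37851534 0) (P.cons (P.lf 1001559 0 0) (P.cons (P.lf 133944 0 0) (P.cons (P.lf 0 4417 0) (P.cons (P.lf 0 112 0) P.nil)))))) (P.cons (P.cons (P.lf 553224 0 0) (P.cons (P.lf 0 1318460 0) (P.cons (P.lf 93262 0 0) (P.cons (P.lf 7198 0 0) (P.cons (P.lf 0 294 0) P.nil))))) (P.cons (P.cons (P.lf 0 8236305 0) (P.cons (P.lf 1214812 0 0) (P.cons (P.lf 0 12348 0) (P.cons (P.lf 0 3436 0) P.nil)))) (P.cons (P.cons (P.lf 20887 0 0) (P.cons (P.lf 54553 0 0) (P.cons (P.lf 0 3121 0) P.nil))) (P.cons (P.cons (P.lf 124419 0 0) (P.cons (P.lf 0 12688 0) P.nil)) (P.cons (P.cons (P.lf 0 586 0) P.nil) P.nil)))))) 3862)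
 (EL.cons 5 (TM.mk (P.cons (P.cons (P.lf 249913662 0 0) (P.cons (P.lf 0 48153052 0) (P.cons (P.lf 1274140 0 0) (P.cons (P.lf 170400 0 0) (P.cons (P.lf 0 5620 0) (P.cons (P.lf 0 144 0) P.nil)))))) (P.cons (P.cons (P.lf 38586762 0 0) (P.cons (P.lf 0 8976534 0) (P.cons (P.lf 311784 0 0) (P.cons (P.lf 34988 0 0) (P.cons (P.lf 0 1226 0) P.nil))))) (P.cons (P.cons (P.lf 0 5417318 0) (P.cons (P.lf 336678 0 0) (P.cons (P.lf 27528 0 0) (P.cons (P.lf 392 0 0) P.nil)))) (P.cons (P.cons (P.lf 0 867810 0) (P.cons (P.lf 139408 0 0) (P.cons (P.lf 0 536 0) P.nil))) (P.cons (P.cons (P.lf 49856 0 0) (P.cons (P.lf 2464 0 0) P.nil)) (P.cons (P.cons (P.lf 8336 0 0) P.nil) P.nil)))))) 3190)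
 EL.nil)))
noncomputable def S198_212_401_438_6 : EL := (EL.cons 12 (TM.mk (P.lf 8589934592 0 0) 0)
 (EL.cons 3 (TM.mk (P.cons (P.lf 0 1528492552 0) (P.cons (P.lf 189961226 0 0) (P.cons (P.lf 3825716 0 0) (P.cons (P.lf 0 119508 0) (P.cons (P.lf 0 4953 0) (P.cons (P.lf 41 0 0) P.nil)))))) 52)
 (EL.cons 7 (TM.mk (P.cons (P.lf 0 1944480730 0) (P.cons (P.lf 0 53092371 0) (P.cons (P.lf 2954732 0 0) (P.cons (P.lf 85611 0 0) (P.cons (P.lf 0 1520 0) (P.cons (P.lf 0 96 0) P.nil)))))) 47)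
 EL.nil)))
noncomputable def S198_212_401_438_7 : EL := (EL.cons 12 (TM.mk (P.cons (P.cons (P.lf 3236280424 0 0) (P.cons (P.lf 0 311781240 0) (P.cons (P.lf 0 6768600 0) (P.lf 451232 0 0)))) (P.cons (P.cons (P.lf 161477608 0 0) (P.cons (P.lf 0 25538752 0) (P.cons (P.lf 0 554424 0) (P.lf 36960 0 0)))) (P.cons (P.cons (P.lf 0 44211272 0) (P.cons (P.lf 723976 0 0) (P.cons (P.lf 15712 0 0) (P.lf 0 1040 0)))) (P.cons (P.cons (P.lf 0 571512 0) (P.cons (P.lf 112448 0 0) (P.cons (P.lf 2432 0 0) P.nil))) (P.cons (P.cons (P.lf 134100 0 0) (P.cons (P.lf 416 0 0) P.nil)) (P.cons (P.cons (P.lf 3308 0 0) P.nil) P.nil)))))) 1550)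
 (EL.cons 3 (TM.mk (P.cons (P.cons (P.lf 476479377 0 0) (P.cons (P.lf 0 110956676 0) (P.cons (P.lf 0 2408806 0) (P.lf 160584 0 0)))) (P.cons (P.cons (P.lf 0 518331797 0) (P.cons (P.lf 4700978 0 0) (P.cons (P.lf 102058 0 0) (P.lf 0 6802 0)))) (P.cons (P.cons (P.lf 0 7586511 0) (P.cons (P.lf 1664912 0 0) (P.cons (P.lf 36140 0 0) (P.lf 0 2404 0)))) (P.cons (P.cons (P.lf 3053351 0 0) (P.cons (P.lf 22068 0 0) (P.cons (P.lf 474 0 0) P.nil))) (P.cons (P.cons (P.lf 108969 0 0) (P.cons (P.lf 0 6540 0) P.nil)) (P.cons (P.cons (P.lf 0 7496 0) P.nil) P.nil)))))) 3274)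
 (EL.cons 7 (TM.mk (P.cons (P.cons (P.lf 0 1026708166 0) (P.cons (P.lf 117094115 0 0) (P.cons (P.lf 2542050 0 0) (P.lf 0 169473 0)))) (P.cons (P.cons (P.lf 144868846 0 0) (P.cons (P.lf 0 1313879 0) (P.cons (P.lf 0 28520 0) (P.lf 1901 0 0)))) (P.cons (P.cons (P.lf 0 8859553 0) (P.cons (P.lf 0 365751 0) (P.cons (P.lf 0 7942 0) (P.lf 531 0 0)))) (P.cons (P.cons (P.lf 0 915278 0) (P.cons (P.lf 39473 0 0) (P.cons (P.lf 853 0 0) P.nil))) (P.cons (P.cons (P.lf 62869 0 0) (P.cons (P.lf 1856 0 0) P.nil)) (P.cons (P.cons (P.lf 4174 0 0) P.nil) P.nil)))))) 2874)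
 (EL.cons 10 (TM.mk (P.cons (P.cons (P.lf 0 2343518586 0) (P.cons (P.lf 0 117305106 0) (P.cons (P.lf 11055255 0 0) (P.cons (P.lf 135048 0 0) (P.lf 0 6750 0))))) (P.cons (P.cons (P.lf 0 127975509 0) (P.cons (P.lf 0 6405828 0) (P.cons (P.lf 603708 0 0) (P.cons (P.lf 7374 0 0) (P.lf 0 366 0))))) (P.cons (P.cons (P.lf 5375046 0 0) (P.cons (P.lf 269046 0 0) (P.cons (P.lf 0 25356 0) (P.cons (P.lf 0 309 0) P.nil)))) (P.cons (P.cons (P.lf 400821 0 0) (P.cons (P.lf 20061 0 0) (P.cons (P.lf 0 1890 0) P.nil))) (P.cons (P.cons (P.lf 0 3438 0) (P.cons (P.lf 0 171 0) P.nil)) (P.cons (P.cons (P.lf 0 642 0) P.nil) P.nil)))))) 360)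
 EL.nil))))
noncomputable def S198_212_401_438_8 : EL := (EL.cons 12 (TM.mk (P.cons (P.cons (P.lf 1219277150 0 0) (P.cons (P.lf 0 234928802 0) (P.cons (P.lf 6216270 0 0) (P.cons (P.lf 831352 0 0) (P.cons (P.lf 0 27422 0) (P.cons (P.lf 0 710 0) P.nil)))))) (P.cons (P.cons (P.lf 121674226 0 0) (P.cons (P.lf 0 30965602 0) (P.cons (P.lf 1181674 0 0) (P.cons (P.lf 125308 0 0) (P.cons (P.lf 0 4492 0) P.nil))))) (P.cons (P.cons (P.lf 0 30277894 0) (P.cons (P.lf 2794734 0 0) (P.cons (P.lf 84042 0 0) (P.cons (P.lf 0 3022 0) P.nil)))) (P.cons (P.cons (P.lf 0 2092844 0) (P.cons (P.lf 416326 0 0) (P.cons (P.lf 0 3436 0) P.nil))) (P.cons (P.cons (P.lf 307106 0 0) (P.cons (P.lf 0 9246 0) P.nil)) (P.cons (P.cons (P.lf 13416 0 0) P.nil) P.nil)))))) 8454)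
 (EL.cons 3 (TM.mk (P.cons (P.cons (P.lf 575987831 0 0) (P.cons (P.lf 0 159998357 0) (P.cons (P.lf 6594764 0 0) (P.cons (P.lf 668712 0 0) (P.cons (P.lf 0 24396 0) (P.cons (P.lf 0 631 0) P.nil)))))) (P.cons (P.cons (P.lf 0 377964440 0) (P.cons (P.lf 33849482 0 0) (P.cons (P.lf 1132999 0 0) (P.cons (P.lf 0 31698 0) (P.cons (P.lf 0 960 0) P.nil))))) (P.cons (P.cons (P.lf 0 38730348 0) (P.cons (P.lf 7573274 0 0) (P.cons (P.lf 0 44987 0) (P.cons (P.lf 0 20040 0) P.nil)))) (P.cons (P.cons (P.lf 7547605 0 0) (P.cons (P.lf 0 183035 0) (P.cons (P.lf 0 20995 0) P.nil))) (P.cons (P.cons (P.lf 475656 0 0) (P.cons (P.lf 0 78856 0) P.nil)) (P.cons (P.cons (P.lf 0 51618 0) P.nil) P.nil)))))) 21725)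
 (EL.cons 7 (TM.mk (P.cons (P.cons (P.lf 0 497625457 0) (P.cons (P.lf 109581848 0 0) (P.cons (P.lf 0 3559480 0) (P.cons (P.lf 0 416436 0) (P.cons (P.lf 14385 0 0) (P.cons (P.lf 370 0 0) P.nil)))))) (P.cons (P.cons (P.lf 105637494 0 0) (P.cons (P.lf 0 9460611 0) (P.cons (P.lf 0 316659 0) (P.cons (P.lf 8856 0 0) (P.cons (P.lf 274 0 0) P.nil))))) (P.cons (P.cons (P.lf 2818286 0 0) (P.cons (P.lf 0 1399621 0) (P.cons (P.lf 36573 0 0) (P.cons (P.lf 4929 0 0) P.nil)))) (P.cons (P.cons (P.lf 0 3092278 0) (P.cons (P.lf 255105 0 0) (P.cons (P.lf 4254 0 0) P.nil))) (P.cons (P.cons (P.lf 118823 0 0) (P.cons (P.lf 13336 0 0) P.nil)) (P.cons (P.cons (P.lf 25833 0 0) P.nil) P.nil)))))) 13845)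
 (EL.cons 10 (TM.mk (P.cons (P.cons (P.lf 0 1765853562 0) (P.cons (P.lf 81731214 0 0) (P.cons (P.lf 20538870 0 0) (P.cons (P.lf 0 762108 0) (P.cons (P.lf 0 44634 0) (P.cons (P.lf 1434 0 0) P.nil)))))) (P.cons (P.cons (P.lf 0 184539330 0) (P.cons (P.lf 13987926 0 0) (P.cons (P.lf 2537268 0 0) (P.cons (P.lf 0 107298 0) (P.cons (P.lf 0 5928 0) P.nil))))) (P.cons (P.cons (P.lf 23362206 0 0) (P.cons (P.lf 1145142 0 0) (P.cons (P.lf 0 111942 0) (P.cons (P.lf 0 1224 0) P.nil)))) (P.cons (P.cons (P.lf 2133288 0 0) (P.cons (P.lf 0 37200 0) (P.cons (P.lf 0 20388 0) P.nil))) (P.cons (P.cons (P.lf 0 98988 0) (P.cons (P.lf 0 9756 0) P.nil)) (P.cons (P.cons (P.lf 0 11250 0) P.nil) P.nil)))))) 5880)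
 EL.nil))))
noncomputable def S198_212_401_438_9 : EL := (EL.cons 3 (TM.mk (P.cons (P.lf 0 1528492552 0) (P.cons (P.lf 189961226 0 0) (P.cons (P.lf 3825716 0 0) (P.cons (P.lf 0 119508 0) (P.cons (P.lf 0 4953 0) (P.cons (P.lf 41 0 0) P.nil)))))) 52)
 (EL.cons 7 (TM.mk (P.cons (P.lf 0 1944480730 0) (P.cons (P.lf 0 53092371 0) (P.cons (P.lf 2954732 0 0) (P.cons (P.lf 85611 0 0) (P.cons (P.lf 0 1520 0) (P.cons (P.lf 0 96 0) P.nil)))))) 47)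
 EL.nil))
noncomputable def S198_212_401_438_10 : EL := (EL.cons 3 (TM.mk (P.cons (P.cons (P.lf 0 575863584 0) (P.cons (P.lf 55478338 0 0) (P.cons (P.lf 1204403 0 0) (P.lf 0 80292 0)))) (P.cons (P.cons (P.lf 42835072 0 0) (P.cons (P.lf 0 2350489 0) (P.cons (P.lf 0 51029 0) (P.lf 3401 0 0)))) (P.cons (P.cons (P.lf 12879279 0 0) (P.cons (P.lf 0 832456 0) (P.cons (P.lf 0 18070 0) (P.lf 1202 0 0)))) (P.cons (P.cons (P.lf 0 849118 0) (P.cons (P.lf 0 11034 0) (P.cons (P.lf 0 237 0) P.nil))) (P.cons (P.cons (P.lf 0 60303 0) (P.cons (P.lf 3270 0 0) P.nil)) (P.cons (P.cons (P.lf 2659 0 0) P.nil) P.nil)))))) 747)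
 (EL.cons 7 (TM.mk (P.cons (P.cons (P.lf 0 732588223 0) (P.cons (P.lf 70577093 0 0) (P.cons (P.lf 1532190 0 0) (P.lf 0 102144 0)))) (P.cons (P.cons (P.lf 0 56555948 0) (P.cons (P.lf 7708186 0 0) (P.cons (P.lf 167338 0 0) (P.lf 0 11155 0)))) (P.cons (P.cons (P.lf 10123136 0 0) (P.cons (P.lf 0 113280 0) (P.cons (P.lf 0 2458 0) (P.lf 162 0 0)))) (P.cons (P.cons (P.lf 490429 0 0) (P.cons (P.lf 0 41821 0) (P.cons (P.lf 0 905 0) P.nil))) (P.cons (P.cons (P.lf 0 40994 0) (P.cons (P.lf 0 739 0) P.nil)) (P.cons (P.cons (P.lf 0 2279 0) P.nil) P.nil)))))) 596)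
 EL.nil))
noncomputable def S198_212_401_438_11 : EL := (EL.cons 3 (TM.mk (P.cons (P.cons (P.lf 0 216958117 0) (P.cons (P.lf 41803219 0 0) (P.cons (P.lf 0 1106122 0) (P.cons (P.lf 0 147930 0) (P.cons (P.lf 4878 0 0) (P.cons (P.lf 125 0 0) P.nil)))))) (P.cons (P.cons (P.lf 5312872 0 0) (P.cons (P.lf 314708 0 0) (P.cons (P.lf 0 72797 0) (P.cons (P.lf 0 3912 0) (P.cons (P.lf 192 0 0) P.nil))))) (P.cons (P.cons (P.lf 8621430 0 0) (P.cons (P.lf 0 1286710 0) (P.cons (P.lf 13945 0 0) (P.cons (P.lf 3678 0 0) P.nil)))) (P.cons (P.cons (P.lf 0 259949 0) (P.cons (P.lf 0 22799 0) (P.cons (P.lf 2909 0 0) P.nil))) (P.cons (P.cons (P.lf 0 116808 0) (P.cons (P.lf 12662 0 0) P.nil)) (P.cons (P.cons (P.lf 3828 0 0) P.nil) P.nil)))))) 3103)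
 (EL.cons 7 (TM.mk (P.cons (P.cons (P.lf 0 276004537 0) (P.cons (P.lf 53180210 0 0) (P.cons (P.lf 0 1407160 0) (P.cons (P.lf 0 188190 0) (P.cons (P.lf 6207 0 0) (P.cons (P.lf 160 0 0) P.nil)))))) (P.cons (P.cons (P.lf 0 35079138 0) (P.cons (P.lf 8461641 0 0) (P.cons (P.lf 0 305913 0) (P.cons (P.lf 0 33504 0) (P.cons (P.lf 1186 0 0) P.nil))))) (P.cons (P.cons (P.lf 6521288 0 0) (P.cons (P.lf 0 522055 0) (P.cons (P.lf 0 24189 0) (P.cons (P.lf 195 0 0) P.nil)))) (P.cons (P.cons (P.lf 714896 0 0) (P.cons (P.lf 0 124509 0) (P.cons (P.lf 726 0 0) P.nil))) (P.cons (P.cons (P.lf 0 66001 0) (P.cons (P.lf 214 0 0) P.nil)) (P.cons (P.cons (P.lf 0 5991 0) P.nil) P.nil)))))) 2651)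
 EL.nil))
noncomputable def S198_212_401_438_12 : EL := (EL.cons 4 (TM.mk (P.cons (P.lf 1528492552 0 0) (P.cons (P.lf 0 189961226 0) (P.cons (P.lf 0 3825716 0) (P.cons (P.lf 119508 0 0) (P.cons (P.lf 4953 0 0) (P.cons (P.lf 0 41 0) P.nil)))))) 52)
 (EL.cons 8 (TM.mk (P.cons (P.lf 1944480730 0 0) (P.cons (P.lf 53092371 0 0) (P.cons (P.lf 0 2954732 0) (P.cons (P.lf 0 85611 0) (P.cons (P.lf 1520 0 0) (P.cons (P.lf 96 0 0) P.nil)))))) 47)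
 EL.nil))
noncomputable def S198_212_401_438_13 : EL := (EL.cons 4 (TM.mk (P.cons (P.cons (P.lf 575863584 0 0) (P.cons (P.lf 0 55478338 0) (P.cons (P.lf 0 1204403 0) (P.lf 80292 0 0)))) (P.cons (P.cons (P.lf 0 42835072 0) (P.cons (P.lf 2350489 0 0) (P.cons (P.lf 51029 0 0) (P.lf 0 3401 0)))) (P.cons (P.cons (P.lf 0 12879279 0) (P.cons (P.lf 832456 0 0) (P.cons (P.lf 18070 0 0) (P.lf 0 1202 0)))) (P.cons (P.cons (P.lf 849118 0 0) (P.cons (P.lf 11034 0 0) (P.cons (P.lf 237 0 0) P.nil))) (P.cons (P.cons (P.lf 60303 0 0) (P.cons (P.lf 0 3270 0) P.nil)) (P.cons (P.cons (P.lf 0 2659 0) P.nil) P.nil)))))) 747)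
 (EL.cons 8 (TM.mk (P.cons (P.cons (P.lf 732588223 0 0) (P.cons (P.lf 0 70577093 0) (P.cons (P.lf 0 1532190 0) (P.lf 102144 0 0)))) (P.cons (P.cons (P.lf 56555948 0 0) (P.cons (P.lf 0 7708186 0) (P.cons (P.lf 0 167338 0) (P.lf 11155 0 0)))) (P.cons (P.cons (P.lf 0 10123136 0) (P.cons (P.lf 113280 0 0) (P.cons (P.lf 2458 0 0) (P.lf 0 162 0)))) (P.cons (P.cons (P.lf 0 490429 0) (P.cons (P.lf 41821 0 0) (P.cons (P.lf 905 0 0) P.nil))) (P.cons (P.cons (P.lf 40994 0 0) (P.cons (P.lf 739 0 0) P.nil)) (P.cons (P.cons (P.lf 2279 0 0) P.nil) P.nil)))))) 596)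
 EL.nil))
noncomputable def S198_212_401_438_14 : EL := (EL.cons 4 (TM.mk (P.cons (P.cons (P.lf 216958117 0 0) (P.cons (P.lf 0 41803219 0) (P.cons (P.lf 1106122 0 0) (P.cons (P.lf 147930 0 0) (P.cons (P.lf 0 4878 0) (P.cons (P.lf 0 125 0) P.nil)))))) (P.cons (P.cons (P.lf 0 5312872 0) (P.cons (P.lf 0 314708 0) (P.cons (P.lf 72797 0 0) (P.cons (P.lf 3912 0 0) (P.cons (P.lf 0 192 0) P.nil))))) (P.cons (P.cons (P.lf 0 8621430 0) (P.cons (P.lf 1286710 0 0) (P.cons (P.lf 0 13945 0) (P.cons (P.lf 0 3678 0) P.nil)))) (P.cons (P.cons (P.lf 259949 0 0) (P.cons (P.lf 22799 0 0) (P.cons (P.lf 0 2909 0) P.nil))) (P.cons (P.cons (P.lf 116808 0 0) (P.cons (P.lf 0 12662 0) P.nil)) (P.cons (P.cons (P.lf 0 3828 0) P.nil) P.nil)))))) 3103)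
 (EL.cons 8 (TM.mk (P.cons (P.cons (P.lf 276004537 0 0) (P.cons (P.lf 0 53180210 0) (P.cons (P.lf 1407160 0 0) (P.cons (P.lf 188190 0 0) (P.cons (P.lf 0 6207 0) (P.cons (P.lf 0 160 0) P.nil)))))) (P.cons (P.cons (P.lf 35079138 0 0) (P.cons (P.lf 0 8461641 0) (P.cons (P.lf 305913 0 0) (P.cons (P.lf 33504 0 0) (P.cons (P.lf 0 1186 0) P.nil))))) (P.cons (P.cons (P.lf 0 6521288 0) (P.cons (P.lf 522055 0 0) (P.cons (P.lf 24189 0 0) (P.cons (P.lf 0 195 0) P.nil)))) (P.cons (P.cons (P.lf 0 714896 0) (P.cons (P.lf 124509 0 0) (P.cons (P.lf 0 726 0) P.nil))) (P.cons (P.cons (P.lf 66001 0 0) (P.cons (P.lf 0 214 0) P.nil)) (P.cons (P.cons (P.lf 5991 0 0) P.nil) P.nil)))))) 2651)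
 EL.nil))
noncomputable def S198_212_401_438_15 : EL := (EL.cons 4 (TM.mk (P.cons (P.lf 0 580223769 0) (P.cons (P.lf 144220550 0 0) (P.cons (P.lf 0 6057348 0) (P.cons (P.lf 0 451706 0) (P.cons (P.lf 3880 0 0) (P.cons (P.lf 725 0 0) P.nil)))))) 68)
 (EL.cons 8 (TM.mk (P.cons (P.lf 0 738135058 0) (P.cons (P.lf 71581366 0 0) (P.cons (P.lf 5473894 0 0) (P.cons (P.lf 0 114166 0) (P.cons (P.lf 0 11391 0) (P.cons (P.lf 0 3 0) P.nil)))))) 62)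
 EL.nil))
noncomputable def S198_212_401_438_16 : EL := (EL.cons 4 (TM.mk (P.cons (P.cons (P.lf 0 218600829 0) (P.cons (P.lf 21059866 0 0) (P.cons (P.lf 457198 0 0) (P.lf 0 30479 0)))) (P.cons (P.cons (P.lf 43428152 0 0) (P.cons (P.lf 0 3509580 0) (P.cons (P.lf 0 76191 0) (P.lf 5079 0 0)))) (P.cons (P.cons (P.lf 3415338 0 0) (P.cons (P.lf 0 257825 0) (P.cons (P.lf 0 5595 0) (P.lf 372 0 0)))) (P.cons (P.cons (P.lf 0 987730 0) (P.cons (P.lf 38963 0 0) (P.cons (P.lf 845 0 0) P.nil))) (P.cons (P.cons (P.lf 5492 0 0) (P.cons (P.lf 2550 0 0) P.nil)) (P.cons (P.cons (P.lf 5101 0 0) P.nil) P.nil)))))) 752)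
 (EL.cons 8 (TM.mk (P.cons (P.cons (P.lf 0 278094322 0) (P.cons (P.lf 26791433 0 0) (P.cons (P.lf 581626 0 0) (P.lf 0 38774 0)))) (P.cons (P.cons (P.lf 13092659 0 0) (P.cons (P.lf 0 403574 0) (P.cons (P.lf 0 8761 0) (P.lf 583 0 0)))) (P.cons (P.cons (P.lf 7207008 0 0) (P.cons (P.lf 0 473711 0) (P.cons (P.lf 0 10283 0) (P.lf 684 0 0)))) (P.cons (P.cons (P.lf 0 259421 0) (P.cons (P.lf 0 15759 0) (P.cons (P.lf 0 340 0) P.nil))) (P.cons (P.cons (P.lf 0 50897 0) (P.cons (P.lf 2115 0 0) P.nil)) (P.cons (P.cons (P.lf 840 0 0) P.nil) P.nil)))))) 610)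
 EL.nil))
noncomputable def S198_212_401_438_17 : EL := (EL.cons 4 (TM.mk (P.cons (P.cons (P.lf 0 82358436 0) (P.cons (P.lf 15868720 0 0) (P.cons (P.lf 0 419889 0) (P.cons (P.lf 0 56154 0) (P.cons (P.lf 1851 0 0) (P.cons (P.lf 47 0 0) P.nil)))))) (P.cons (P.cons (P.lf 12252309 0 0) (P.cons (P.lf 0 1852700 0) (P.cons (P.lf 24549 0 0) (P.cons (P.lf 5493 0 0) (P.cons (P.lf 0 156 0) P.nil))))) (P.cons (P.cons (P.lf 3228230 0 0) (P.cons (P.lf 0 543007 0) (P.cons (P.lf 9779 0 0) (P.cons (P.lf 1721 0 0) P.nil)))) (P.cons (P.cons (P.lf 0 516901 0) (P.cons (P.lf 52990 0 0) (P.cons (P.lf 482 0 0) P.nil))) (P.cons (P.cons (P.lf 0 40378 0) (P.cons (P.lf 7165 0 0) P.nil)) (P.cons (P.cons (P.lf 7475 0 0) P.nil) P.nil)))))) 2536)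
 (EL.cons 8 (TM.mk (P.cons (P.cons (P.lf 0 104772766 0) (P.cons (P.lf 20187485 0 0) (P.cons (P.lf 0 534165 0) (P.cons (P.lf 0 71437 0) (P.cons (P.lf 2356 0 0) (P.cons (P.lf 60 0 0) P.nil)))))) (P.cons (P.cons (P.lf 0 295053 0) (P.cons (P.lf 703179 0 0) (P.cons (P.lf 0 49740 0) (P.cons (P.lf 0 3839 0) (P.cons (P.lf 157 0 0) P.nil))))) (P.cons (P.cons (P.lf 4392696 0 0) (P.cons (P.lf 0 647900 0) (P.cons (P.lf 6586 0 0) (P.cons (P.lf 1833 0 0) P.nil)))) (P.cons (P.cons (P.lf 0 11140 0) (P.cons (P.lf 0 29095 0) (P.cons (P.lf 1665 0 0) P.nil))) (P.cons (P.cons (P.lf 0 66357 0) (P.cons (P.lf 6767 0 0) P.nil)) (P.cons (P.cons (P.lf 313 0 0) P.nil) P.nil)))))) 2048)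
 EL.nil))
noncomputable def S198_212_401_438_18 : EL := (EL.cons 4 (TM.mk (P.cons (P.lf 220255978 0 0) (P.cons (P.lf 0 82120312 0) (P.cons (P.lf 8552062 0 0) (P.cons (P.lf 39948 0 0) (P.cons (P.lf 0 32104 0) (P.cons (P.lf 0 525 0) P.nil)))))) 109)
 (EL.cons 8 (TM.mk (P.cons (P.lf 280199929 0 0) (P.cons (P.lf 0 61995939 0) (P.cons (P.lf 597780 0 0) (P.cons (P.lf 391501 0 0) (P.cons (P.lf 2922 0 0) (P.cons (P.lf 0 902 0) P.nil)))))) 74)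
 EL.nil))
noncomputable def S198_212_401_438_19 : EL := (EL.cons 4 (TM.mk (P.cons (P.cons (P.lf 82982017 0 0) (P.cons (P.lf 0 7994435 0) (P.cons (P.lf 0 173554 0) (P.lf 11569 0 0)))) (P.cons (P.cons (P.lf 0 26798567 0) (P.cons (P.lf 2325804 0 0) (P.cons (P.lf 50491 0 0) (P.lf 0 3365 0)))) (P.cons (P.cons (P.lf 544647 0 0) (P.cons (P.lf 0 47690 0) (P.cons (P.lf 0 1035 0) (P.lf 68 0 0)))) (P.cons (P.cons (P.lf 583824 0 0) (P.cons (P.lf 0 30914 0) (P.cons (P.lf 0 671 0) P.nil))) (P.cons (P.cons (P.lf 0 46457 0) (P.cons (P.lf 702 0 0) P.nil)) (P.cons (P.cons (P.lf 0 2772 0) P.nil) P.nil)))))) 853)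
 (EL.cons 8 (TM.mk (P.cons (P.cons (P.lf 105566059 0 0) (P.cons (P.lf 0 10170168 0) (P.cons (P.lf 0 220788 0) (P.lf 14718 0 0)))) (P.cons (P.cons (P.lf 0 18089803 0) (P.cons (P.lf 1417148 0 0) (P.cons (P.lf 30765 0 0) (P.lf 0 2051 0)))) (P.cons (P.cons (P.lf 0 2382365 0) (P.cons (P.lf 186238 0 0) (P.cons (P.lf 4042 0 0) (P.lf 0 269 0)))) (P.cons (P.cons (P.lf 459178 0 0) (P.cons (P.lf 0 17544 0) (P.cons (P.lf 0 380 0) P.nil))) (P.cons (P.cons (P.lf 13883 0 0) (P.cons (P.lf 0 2017 0) P.nil)) (P.cons (P.cons (P.lf 0 3199 0) P.nil) P.nil)))))) 585)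
 EL.nil))
noncomputable def S198_212_401_438_20 : EL := (EL.cons 4 (TM.mk (P.cons (P.cons (P.lf 31263692 0 0) (P.cons (P.lf 0 6023849 0) (P.cons (P.lf 159391 0 0) (P.cons (P.lf 21315 0 0) (P.cons (P.lf 0 703 0) (P.cons (P.lf 0 17 0) P.nil)))))) (P.cons (P.cons (P.lf 0 8536496 0) (P.cons (P.lf 1451939 0 0) (P.cons (P.lf 0 29128 0) (P.cons (P.lf 0 4734 0) (P.cons (P.lf 146 0 0) P.nil))))) (P.cons (P.cons (P.lf 0 725671 0) (P.cons (P.lf 133800 0 0) (P.cons (P.lf 0 2952 0) (P.cons (P.lf 0 447 0) P.nil)))) (P.cons (P.cons (P.lf 362603 0 0) (P.cons (P.lf 0 47964 0) (P.cons (P.lf 313 0 0) P.nil))) (P.cons (P.cons (P.lf 0 6253 0) (P.cons (P.lf 0 700 0) P.nil)) (P.cons (P.cons (P.lf 0 5345 0) P.nil) P.nil)))))) 2031)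
 (EL.cons 8 (TM.mk (P.cons (P.cons (P.lf 39772290 0 0) (P.cons (P.lf 0 7663275 0) (P.cons (P.lf 202771 0 0) (P.cons (P.lf 27117 0 0) (P.cons (P.lf 0 894 0) (P.cons (P.lf 0 23 0) P.nil)))))) (P.cons (P.cons (P.lf 0 4830900 0) (P.cons (P.lf 685461 0 0) (P.cons (P.lf 0 6318 0) (P.cons (P.lf 0 1912 0) (P.cons (P.lf 51 0 0) P.nil))))) (P.cons (P.cons (P.lf 0 1780957 0) (P.cons (P.lf 298301 0 0) (P.cons (P.lf 0 5354 0) (P.cons (P.lf 0 944 0) P.nil)))) (P.cons (P.cons (P.lf 214294 0 0) (P.cons (P.lf 0 19452 0) (P.cons (P.lf 0 353 0) P.nil))) (P.cons (P.cons (P.lf 28975 0 0) (P.cons (P.lf 0 4602 0) P.nil)) (P.cons (P.cons (P.lf 0 3391 0) P.nil) P.nil)))))) 1621)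
 EL.nil))
noncomputable def S198_212_401_438_21 : EL := (EL.cons 4 (TM.mk (P.cons (P.cons (P.lf 0 1052342961 0) (P.cons (P.lf 166435014 0 0) (P.cons (P.lf 3613209 0 0) (P.lf 0 240876 0)))) (P.cons (P.cons (P.lf 561166869 0 0) (P.cons (P.lf 0 7051467 0) (P.cons (P.lf 0 153087 0) (P.lf 10203 0 0)))) (P.cons (P.cons (P.lf 20465790 0 0) (P.cons (P.lf 0 2497368 0) (P.cons (P.lf 0 54210 0) (P.lf 3606 0 0)))) (P.cons (P.cons (P.lf 0 3902469 0) (P.cons (P.lf 0 33102 0) (P.cons (P.lf 0 711 0) P.nil))) (P.cons (P.cons (P.lf 0 169272 0) (P.cons (P.lf 9810 0 0) P.nil)) (P.cons (P.cons (P.lf 10155 0 0) P.nil) P.nil)))))) 2508)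
 (EL.cons 8 (TM.mk (P.cons (P.cons (P.lf 294119943 0 0) (P.cons (P.lf 0 46517022 0) (P.cons (P.lf 0 1009860 0) (P.lf 67329 0 0)))) (P.cons (P.cons (P.lf 0 201424794 0) (P.cons (P.lf 9022065 0 0) (P.cons (P.lf 195858 0 0) (P.lf 0 13056 0)))) (P.cons (P.cons (P.lf 18982689 0 0) (P.cons (P.lf 252471 0 0) (P.cons (P.lf 5484 0 0) (P.lf 0 369 0)))) (P.cons (P.cons (P.lf 1405707 0 0) (P.cons (P.lf 0 81294 0) (P.cons (P.lf 0 1758 0) P.nil))) (P.cons (P.cons (P.lf 0 103863 0) (P.cons (P.lf 0 2595 0) P.nil)) (P.cons (P.cons (P.lf 0 6453 0) P.nil) P.nil)))))) 2259)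
 (EL.cons 11 (TM.mk (P.cons (P.cons (P.lf 2343518586 0 0) (P.cons (P.lf 117305106 0 0) (P.cons (P.lf 0 11055255 0) (P.cons (P.lf 0 135048 0) (P.lf 6750 0 0))))) (P.cons (P.cons (P.lf 127975509 0 0) (P.cons (P.lf 6405828 0 0) (P.cons (P.lf 0 603708 0) (P.cons (P.lf 0 7374 0) (P.lf 366 0 0))))) (P.cons (P.cons (P.lf 0 5375046 0) (P.cons (P.lf 0 269046 0) (P.cons (P.lf 25356 0 0) (P.cons (P.lf 309 0 0) P.nil)))) (P.cons (P.cons (P.lf 0 400821 0) (P.cons (P.lf 0 20061 0) (P.cons (P.lf 1890 0 0) P.nil))) (P.cons (P.cons (P.lf 3438 0 0) (P.cons (P.lf 171 0 0) P.nil)) (P.cons (P.cons (P.lf 642 0 0) P.nil) P.nil)))))) 360)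
 EL.nil)))
noncomputable def S198_212_401_438_22 : EL := (EL.cons 4 (TM.mk (P.cons (P.cons (P.lf 0 396472974 0) (P.cons (P.lf 100900788 0 0) (P.cons (P.lf 0 3850443 0) (P.cons (P.lf 0 408321 0) (P.cons (P.lf 14637 0 0) (P.cons (P.lf 378 0 0) P.nil)))))) (P.cons (P.cons (P.lf 191638656 0 0) (P.cons (P.lf 0 16767387 0) (P.cons (P.lf 0 602898 0) (P.cons (P.lf 13893 0 0) (P.cons (P.lf 576 0 0) P.nil))))) (P.cons (P.cons (P.lf 23675889 0 0) (P.cons (P.lf 0 4429992 0) (P.cons (P.lf 29466 0 0) (P.cons (P.lf 11859 0 0) P.nil)))) (P.cons (P.cons (P.lf 0 3903777 0) (P.cons (P.lf 80118 0 0) (P.cons (P.lf 11952 0 0) P.nil))) (P.cons (P.cons (P.lf 0 296232 0) (P.cons (P.lf 45759 0 0) P.nil)) (P.cons (P.cons (P.lf 27723 0 0) P.nil) P.nil)))))) 9300)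
 (EL.cons 8 (TM.mk (P.cons (P.cons (P.lf 110810460 0 0) (P.cons (P.lf 0 28200819 0) (P.cons (P.lf 1076160 0 0) (P.cons (P.lf 114123 0 0) (P.cons (P.lf 0 4089 0) (P.cons (P.lf 0 105 0) P.nil)))))) (P.cons (P.cons (P.lf 0 70358316 0) (P.cons (P.lf 8961126 0 0) (P.cons (P.lf 5373 0 0) (P.cons (P.lf 0 21180 0) (P.cons (P.lf 456 0 0) P.nil))))) (P.cons (P.cons (P.lf 1851501 0 0) (P.cons (P.lf 438783 0 0) (P.cons (P.lf 0 30381 0) (P.cons (P.lf 0 2367 0) P.nil)))) (P.cons (P.cons (P.lf 1903587 0 0) (P.cons (P.lf 0 189807 0) (P.cons (P.lf 0 1764 0) P.nil))) (P.cons (P.cons (P.lf 0 92412 0) (P.cons (P.lf 0 6561 0) P.nil)) (P.cons (P.cons (P.lf 0 15912 0) P.nil) P.nil)))))) 5586)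
 (EL.cons 11 (TM.mk (P.cons (P.cons (P.lf 882926781 0 0) (P.cons (P.lf 0 40865607 0) (P.cons (P.lf 0 10269435 0) (P.cons (P.lf 381054 0 0) (P.cons (P.lf 22317 0 0) (P.cons (P.lf 0 717 0) P.nil)))))) (P.cons (P.cons (P.lf 92269665 0 0) (P.cons (P.lf 0 6993963 0) (P.cons (P.lf 0 1268634 0) (P.cons (P.lf 53649 0 0) (P.cons (P.lf 2964 0 0) P.nil))))) (P.cons (P.cons (P.lf 0 11681103 0) (P.cons (P.lf 0 572571 0) (P.cons (P.lf 55971 0 0) (P.cons (P.lf 612 0 0) P.nil)))) (P.cons (P.cons (P.lf 0 1066644 0) (P.cons (P.lf 18600 0 0) (P.cons (P.lf 10194 0 0) P.nil))) (P.cons (P.cons (P.lf 49494 0 0) (P.cons (P.lf 4878 0 0) P.nil)) (P.cons (P.cons (P.lf 5625 0 0) P.nil) P.nil)))))) 2940)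
 EL.nil)))
noncomputable def S198_212_401_438_23 : EL := (EL.cons 4 (TM.mk (P.cons (P.cons (P.lf 399474891 0 0) (P.cons (P.lf 0 63179601 0) (P.cons (P.lf 0 1371591 0) (P.lf 91437 0 0)))) (P.cons (P.cons (P.lf 0 262668663 0) (P.cons (P.lf 10528740 0 0) (P.cons (P.lf 228573 0 0) (P.lf 0 15237 0)))) (P.cons (P.cons (P.lf 17705601 0 0) (P.cons (P.lf 773478 0 0) (P.cons (P.lf 16788 0 0) (P.lf 0 1116 0)))) (P.cons (P.cons (P.lf 3011331 0 0) (P.cons (P.lf 0 116892 0) (P.cons (P.lf 0 2538 0) P.nil))) (P.cons (P.cons (P.lf 0 115767 0) (P.cons (P.lf 0 7653 0) P.nil)) (P.cons (P.cons (P.lf 0 16857 0) P.nil) P.nil)))))) 2835)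
 (EL.cons 8 (TM.mk (P.cons (P.cons (P.lf 0 111649467 0) (P.cons (P.lf 17658102 0 0) (P.cons (P.lf 383346 0 0) (P.lf 0 25557 0)))) (P.cons (P.cons (P.lf 90337713 0 0) (P.cons (P.lf 0 5619372 0) (P.cons (P.lf 0 121989 0) (P.lf 8130 0 0)))) (P.cons (P.cons (P.lf 0 16429170 0) (P.cons (P.lf 285600 0 0) (P.cons (P.lf 6198 0 0) (P.lf 0 411 0)))) (P.cons (P.cons (P.lf 161829 0 0) (P.cons (P.lf 52722 0 0) (P.cons (P.lf 1140 0 0) P.nil))) (P.cons (P.cons (P.lf 129396 0 0) (P.cons (P.lf 0 2820 0) P.nil)) (P.cons (P.cons (P.lf 0 1425 0) P.nil) P.nil)))))) 1863)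
 (EL.cons 11 (TM.mk (P.cons (P.cons (P.lf 0 889611915 0) (P.cons (P.lf 0 44529630 0) (P.cons (P.lf 4196631 0 0) (P.cons (P.lf 51264 0 0) (P.lf 0 2562 0))))) (P.cons (P.cons (P.lf 61980894 0 0) (P.cons (P.lf 3102459 0 0) (P.cons (P.lf 0 292386 0) (P.cons (P.lf 0 3570 0) (P.lf 177 0 0))))) (P.cons (P.cons (P.lf 10304583 0 0) (P.cons (P.lf 515796 0 0) (P.cons (P.lf 0 48609 0) (P.cons (P.lf 0 591 0) P.nil)))) (P.cons (P.cons (P.lf 0 49389 0) (P.cons (P.lf 0 2472 0) (P.cons (P.lf 231 0 0) P.nil))) (P.cons (P.cons (P.lf 0 32001 0) (P.cons (P.lf 0 1599 0) P.nil)) (P.cons (P.cons (P.lf 0 435 0) P.nil) P.nil)))))) 543)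
 EL.nil)))
noncomputable def S198_212_401_438_24 : EL := (EL.cons 4 (TM.mk (P.cons (P.cons (P.lf 150503214 0 0) (P.cons (P.lf 0 38302464 0) (P.cons (P.lf 1461648 0 0) (P.cons (P.lf 154998 0 0) (P.cons (P.lf 0 5556 0) (P.cons (P.lf 0 144 0) P.nil)))))) (P.cons (P.cons (P.lf 0 91451592 0) (P.cons (P.lf 11125221 0 0) (P.cons (P.lf 47208 0 0) (P.cons (P.lf 0 24537 0) (P.cons (P.lf 468 0 0) P.nil))))) (P.cons (P.cons (P.lf 0 323181 0) (P.cons (P.lf 986475 0 0) (P.cons (P.lf 0 43287 0) (P.cons (P.lf 0 4233 0) P.nil)))) (P.cons (P.cons (P.lf 2792709 0 0) (P.cons (P.lf 0 258333 0) (P.cons (P.lf 0 3606 0) P.nil))) (P.cons (P.cons (P.lf 0 54423 0) (P.cons (P.lf 0 17424 0) P.nil)) (P.cons (P.cons (P.lf 0 29148 0) P.nil) P.nil)))))) 8079)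
 (EL.cons 8 (TM.mk (P.cons (P.cons (P.lf 0 42064230 0) (P.cons (P.lf 10705179 0 0) (P.cons (P.lf 0 408516 0) (P.cons (P.lf 0 43320 0) (P.cons (P.lf 1551 0 0) (P.cons (P.lf 39 0 0) P.nil)))))) (P.cons (P.cons (P.lf 31936131 0 0) (P.cons (P.lf 0 4732131 0) (P.cons (P.lf 48729 0 0) (P.cons (P.lf 13422 0 0) (P.cons (P.lf 0 366 0) P.nil))))) (P.cons (P.cons (P.lf 0 3916875 0) (P.cons (P.lf 229401 0 0) (P.cons (P.lf 12807 0 0) (P.cons (P.lf 6 0 0) P.nil)))) (P.cons (P.cons (P.lf 0 705399 0) (P.cons (P.lf 102102 0 0) (P.cons (P.lf 0 789 0) P.nil))) (P.cons (P.cons (P.lf 128598 0 0) (P.cons (P.lf 0 6276 0) P.nil)) (P.cons (P.cons (P.lf 3522 0 0) P.nil) P.nil)))))) 3897)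
 (EL.cons 11 (TM.mk (P.cons (P.cons (P.lf 0 335163624 0) (P.cons (P.lf 15512796 0 0) (P.cons (P.lf 3898329 0 0) (P.cons (P.lf 0 144648 0) (P.cons (P.lf 0 8472 0) (P.cons (P.lf 273 0 0) P.nil)))))) (P.cons (P.cons (P.lf 6628122 0 0) (P.cons (P.lf 727011 0 0) (P.cons (P.lf 0 2901 0) (P.cons (P.lf 0 2388 0) (P.cons (P.lf 0 72 0) P.nil))))) (P.cons (P.cons (P.lf 9626139 0 0) (P.cons (P.lf 0 151431 0) (P.cons (P.lf 0 90855 0) (P.cons (P.lf 2658 0 0) P.nil)))) (P.cons (P.cons (P.lf 0 84714 0) (P.cons (P.lf 0 39504 0) (P.cons (P.lf 0 2127 0) P.nil))) (P.cons (P.cons (P.lf 0 84033 0) (P.cons (P.lf 0 1260 0) P.nil)) (P.cons (P.cons (P.lf 0 570 0) P.nil) P.nil)))))) 2670)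
 EL.nil)))
noncomputable def S198_212_401_438_25 : EL := (EL.cons 4 (TM.mk (P.cons (P.cons (P.lf 0 151642758 0) (P.cons (P.lf 23983305 0 0) (P.cons (P.lf 520662 0 0) (P.lf 0 34710 0)))) (P.cons (P.cons (P.lf 118556577 0 0) (P.cons (P.lf 0 6977412 0) (P.cons (P.lf 0 151476 0) (P.lf 10095 0 0)))) (P.cons (P.cons (P.lf 0 18733605 0) (P.cons (P.lf 143073 0 0) (P.cons (P.lf 3105 0 0) (P.lf 0 207 0)))) (P.cons (P.cons (P.lf 0 569238 0) (P.cons (P.lf 92742 0 0) (P.cons (P.lf 2013 0 0) P.nil))) (P.cons (P.cons (P.lf 210138 0 0) (P.cons (P.lf 0 2109 0) P.nil)) (P.cons (P.cons (P.lf 3600 0 0) P.nil) P.nil)))))) 2817)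
 (EL.cons 8 (TM.mk (P.cons (P.cons (P.lf 42382722 0 0) (P.cons (P.lf 0 6703107 0) (P.cons (P.lf 0 145518 0) (P.lf 9702 0 0)))) (P.cons (P.cons (P.lf 0 39559998 0) (P.cons (P.lf 2966205 0 0) (P.cons (P.lf 64392 0 0) (P.lf 0 4290 0)))) (P.cons (P.cons (P.lf 10392414 0 0) (P.cons (P.lf 0 356745 0) (P.cons (P.lf 0 7743 0) (P.lf 513 0 0)))) (P.cons (P.cons (P.lf 0 747369 0) (P.cons (P.lf 0 12402 0) (P.cons (P.lf 0 267 0) P.nil))) (P.cons (P.cons (P.lf 0 59637 0) (P.cons (P.lf 3972 0 0) P.nil)) (P.cons (P.cons (P.lf 7173 0 0) P.nil) P.nil)))))) 1518)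
 (EL.cons 11 (TM.mk (P.cons (P.cons (P.lf 337701336 0 0) (P.cons (P.lf 16903680 0 0) (P.cons (P.lf 0 1593063 0) (P.cons (P.lf 0 19458 0) (P.lf 972 0 0))))) (P.cons (P.cons (P.lf 0 65497830 0) (P.cons (P.lf 0 3278502 0) (P.cons (P.lf 308976 0 0) (P.cons (P.lf 3774 0 0) (P.lf 0 189 0))))) (P.cons (P.cons (P.lf 0 1832820 0) (P.cons (P.lf 0 91740 0) (P.cons (P.lf 8646 0 0) (P.cons (P.lf 105 0 0) P.nil)))) (P.cons (P.cons (P.lf 590184 0 0) (P.cons (P.lf 29541 0 0) (P.cons (P.lf 0 2784 0) P.nil))) (P.cons (P.cons (P.lf 18864 0 0) (P.cons (P.lf 942 0 0) P.nil)) (P.cons (P.cons (P.lf 0 1782 0) P.nil) P.nil)))))) 624)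
 EL.nil)))
noncomputable def S198_212_401_438_26 : EL := (EL.cons 4 (TM.mk (P.cons (P.cons (P.lf 0 57131808 0) (P.cons (P.lf 14539815 0 0) (P.cons (P.lf 0 554847 0) (P.cons (P.lf 0 58839 0) (P.cons (P.lf 2109 0 0) (P.cons (P.lf 54 0 0) P.nil)))))) (P.cons (P.cons (P.lf 41815848 0 0) (P.cons (P.lf 0 6030201 0) (P.cons (P.lf 51033 0 0) (P.cons (P.lf 16626 0 0) (P.cons (P.lf 0 438 0) P.nil))))) (P.cons (P.cons (P.lf 0 4048767 0) (P.cons (P.lf 113994 0 0) (P.cons (P.lf 20046 0 0) (P.cons (P.lf 597 0 0) P.nil)))) (P.cons (P.cons (P.lf 0 1166730 0) (P.cons (P.lf 156309 0 0) (P.cons (P.lf 0 672 0) P.nil))) (P.cons (P.cons (P.lf 154632 0 0) (P.cons (P.lf 0 4917 0) P.nil)) (P.cons (P.cons (P.lf 11274 0 0) P.nil) P.nil)))))) 6090)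
 (EL.cons 8 (TM.mk (P.cons (P.cons (P.lf 15967800 0 0) (P.cons (P.lf 0 4063740 0) (P.cons (P.lf 155073 0 0) (P.cons (P.lf 16443 0 0) (P.cons (P.lf 0 588 0) (P.cons (P.lf 0 15 0) P.nil)))))) (P.cons (P.cons (P.lf 0 14107602 0) (P.cons (P.lf 2301384 0 0) (P.cons (P.lf 0 37770 0) (P.cons (P.lf 0 7137 0) (P.cons (P.lf 210 0 0) P.nil))))) (P.cons (P.cons (P.lf 2953563 0 0) (P.cons (P.lf 0 300159 0) (P.cons (P.lf 0 2949 0) (P.cons (P.lf 588 0 0) P.nil)))) (P.cons (P.cons (P.lf 114576 0 0) (P.cons (P.lf 0 32748 0) (P.cons (P.lf 960 0 0) P.nil))) (P.cons (P.cons (P.lf 0 86712 0) (P.cons (P.lf 7545 0 0) P.nil)) (P.cons (P.cons (P.lf 4134 0 0) P.nil) P.nil)))))) 2664)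
 (EL.cons 11 (TM.mk (P.cons (P.cons (P.lf 127229865 0 0) (P.cons (P.lf 0 5888739 0) (P.cons (P.lf 0 1479825 0) (P.cons (P.lf 54909 0 0) (P.cons (P.lf 3216 0 0) (P.cons (P.lf 0 102 0) P.nil)))))) (P.cons (P.cons (P.lf 0 18328212 0) (P.cons (P.lf 455874 0 0) (P.cons (P.lf 185013 0 0) (P.cons (P.lf 0 5916 0) (P.cons (P.lf 0 372 0) P.nil))))) (P.cons (P.cons (P.lf 0 3659883 0) (P.cons (P.lf 106521 0 0) (P.cons (P.lf 38055 0 0) (P.cons (P.lf 0 1257 0) P.nil)))) (P.cons (P.cons (P.lf 502539 0 0) (P.cons (P.lf 8082 0 0) (P.cons (P.lf 0 3594 0) P.nil))) (P.cons (P.cons (P.lf 37263 0 0) (P.cons (P.lf 0 1569 0) P.nil)) (P.cons (P.cons (P.lf 0 4122 0) P.nil) P.nil)))))) 2163)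
 EL.nil)))
noncomputable def S198_212_401_438_27 : EL := (EL.cons 13 (TM.mk (P.lf 0 4294967296 0) 0)
 EL.nil)
noncomputable def S198_212_401_438_28 : EL := (EL.cons 13 (TM.mk (P.cons (P.cons (P.lf 0 1618140212 0) (P.cons (P.lf 155890620 0 0) (P.cons (P.lf 3384300 0 0) (P.lf 0 225616 0)))) (P.cons (P.cons (P.lf 0 80738804 0) (P.cons (P.lf 12769376 0 0) (P.cons (P.lf 277212 0 0) (P.lf 0 18480 0)))) (P.cons (P.cons (P.lf 22105636 0 0) (P.cons (P.lf 0 361988 0) (P.cons (P.lf 0 7856 0) (P.lf 520 0 0)))) (P.cons (P.cons (P.lf 285756 0 0) (P.cons (P.lf 0 56224 0) (P.cons (P.lf 0 1216 0) P.nil))) (P.cons (P.cons (P.lf 0 67050 0) (P.cons (P.lf 0 208 0) P.nil)) (P.cons (P.cons (P.lf 0 1654 0) P.nil) P.nil)))))) 775)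
 EL.nil)
noncomputable def S198_212_401_438_29 : EL := (EL.cons 13 (TM.mk (P.cons (P.cons (P.lf 0 609638575 0) (P.cons (P.lf 117464401 0 0) (P.cons (P.lf 0 3108135 0) (P.cons (P.lf 0 415676 0) (P.cons (P.lf 13711 0 0) (P.cons (P.lf 355 0 0) P.nil)))))) (P.cons (P.cons (P.lf 0 60837113 0) (P.cons (P.lf 15482801 0 0) (P.cons (P.lf 0 590837 0) (P.cons (P.lf 0 62654 0) (P.cons (P.lf 2246 0 0) P.nil))))) (P.cons (P.cons (P.lf 15138947 0 0) (P.cons (P.lf 0 1397367 0) (P.cons (P.lf 0 42021 0) (P.cons (P.lf 1511 0 0) P.nil)))) (P.cons (P.cons (P.lf 1046422 0 0) (P.cons (P.lf 0 208163 0) (P.cons (P.lf 1718 0 0) P.nil))) (P.cons (P.cons (P.lf 0 153553 0) (P.cons (P.lf 4623 0 0) P.nil)) (P.cons (P.cons (P.lf 0 6708 0) P.nil) P.nil)))))) 4227)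
 EL.nil)
noncomputable def S198_212_401_438_30 : EL := (EL.cons 13 (TM.mk (P.cons (P.lf 1630392056 0 0) (P.cons (P.lf 0 202625308 0) (P.cons (P.lf 0 4080764 0) (P.cons (P.lf 127476 0 0) (P.cons (P.lf 5284 0 0) (P.cons (P.lf 0 44 0) P.nil)))))) 48)
 EL.nil)
noncomputable def S198_212_401_438_31 : EL := (EL.cons 13 (TM.mk (P.cons (P.cons (P.lf 614254490 0 0) (P.cons (P.lf 0 59176894 0) (P.cons (P.lf 0 1284697 0) (P.lf 85645 0 0)))) (P.cons (P.cons (P.lf 0 45690744 0) (P.cons (P.lf 2507189 0 0) (P.cons (P.lf 54431 0 0) (P.lf 0 3628 0)))) (P.cons (P.cons (P.lf 0 13737898 0) (P.cons (P.lf 887954 0 0) (P.cons (P.lf 19275 0 0) (P.lf 0 1283 0)))) (P.cons (P.cons (P.lf 905726 0 0) (P.cons (P.lf 11770 0 0) (P.cons (P.lf 253 0 0) P.nil))) (P.cons (P.cons (P.lf 64324 0 0) (P.cons (P.lf 0 3488 0) P.nil)) (P.cons (P.cons (P.lf 0 2837 0) P.nil) P.nil)))))) 777)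
 EL.nil)
noncomputable def S198_212_401_438_32 : EL := (EL.cons 13 (TM.mk (P.cons (P.cons (P.lf 231421992 0 0) (P.cons (P.lf 0 44590101 0) (P.cons (P.lf 1179864 0 0) (P.cons (P.lf 157792 0 0) (P.cons (P.lf 0 5204 0) (P.cons (P.lf 0 134 0) P.nil)))))) (P.cons (P.cons (P.lf 0 5667064 0) (P.cons (P.lf 0 335689 0) (P.cons (P.lf 77651 0 0) (P.cons (P.lf 4173 0 0) (P.cons (P.lf 0 205 0) P.nil))))) (P.cons (P.cons (P.lf 0 9196193 0) (P.cons (P.lf 1372491 0 0) (P.cons (P.lf 0 14875 0) (P.cons (P.lf 0 3924 0) P.nil)))) (P.cons (P.cons (P.lf 277279 0 0) (P.cons (P.lf 24319 0 0) (P.cons (P.lf 0 3103 0) P.nil))) (P.cons (P.cons (P.lf 124596 0 0) (P.cons (P.lf 0 13507 0) P.nil)) (P.cons (P.cons (P.lf 0 4084 0) P.nil) P.nil)))))) 3287)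
 EL.nil)
noncomputable def S198_212_401_438_33 : EL := (EL.cons 14 (TM.mk (P.lf 8589934592 0 0) 0)
 EL.nil)
noncomputable def S198_212_401_438_34 : EL := (EL.cons 14 (TM.mk (P.cons (P.cons (P.lf 3236280424 0 0) (P.cons (P.lf 0 311781240 0) (P.cons (P.lf 0 6768600 0) (P.lf 451232 0 0)))) (P.cons (P.cons (P.lf 161477608 0 0) (P.cons (P.lf 0 25538752 0) (P.cons (P.lf 0 554424 0) (P.lf 36960 0 0)))) (P.cons (P.cons (P.lf 0 44211272 0) (P.cons (P.lf 723976 0 0) (P.cons (P.lf 15712 0 0) (P.lf 0 1040 0)))) (P.cons (P.cons (P.lf 0 571512 0) (P.cons (P.lf 112448 0 0) (P.cons (P.lf 2432 0 0) P.nil))) (P.cons (P.cons (P.lf 134100 0 0) (P.cons (P.lf 416 0 0) P.nil)) (P.cons (P.cons (P.lf 3308 0 0) P.nil) P.nil)))))) 1550)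
 EL.nil)
noncomputable def S198_212_401_438_35 : EL := (EL.cons 14 (TM.mk (P.cons (P.cons (P.lf 1219277150 0 0) (P.cons (P.lf 0 234928802 0) (P.cons (P.lf 6216270 0 0) (P.cons (P.lf 831352 0 0) (P.cons (P.lf 0 27422 0) (P.cons (P.lf 0 710 0) P.nil)))))) (P.cons (P.cons (P.lf 121674226 0 0) (P.cons (P.lf 0 30965602 0) (P.cons (P.lf 1181674 0 0) (P.cons (P.lf 125308 0 0) (P.cons (P.lf 0 4492 0) P.nil))))) (P.cons (P.cons (P.lf 0 30277894 0) (P.cons (P.lf 2794734 0 0) (P.cons (P.lf 84042 0 0) (P.cons (P.lf 0 3022 0) P.nil)))) (P.cons (P.cons (P.lf 0 2092844 0) (P.cons (P.lf 416326 0 0) (P.cons (P.lf 0 3436 0) P.nil))) (P.cons (P.cons (P.lf 307106 0 0) (P.cons (P.lf 0 9246 0) P.nil)) (P.cons (P.cons (P.lf 13416 0 0) P.nil) P.nil)))))) 8454)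
 EL.nil)
noncomputable def S198_212_401_438_36 : EL := (EL.cons 14 (TM.mk (P.cons (P.lf 0 3260784112 0) (P.cons (P.lf 405250616 0 0) (P.cons (P.lf 8161528 0 0) (P.cons (P.lf 0 254952 0) (P.cons (P.lf 0 10568 0) (P.cons (P.lf 88 0 0) P.nil)))))) 96)
 EL.nil)
noncomputable def S198_212_401_438_37 : EL := (EL.cons 14 (TM.mk (P.cons (P.cons (P.lf 0 1228508980 0) (P.cons (P.lf 118353788 0 0) (P.cons (P.lf 2569394 0 0) (P.lf 0 171290 0)))) (P.cons (P.cons (P.lf 91381488 0 0) (P.cons (P.lf 0 5014378 0) (P.cons (P.lf 0 108862 0) (P.lf 7256 0 0)))) (P.cons (P.cons (P.lf 27475796 0 0) (P.cons (P.lf 0 1775908 0) (P.cons (P.lf 0 38550 0) (P.lf 2566 0 0)))) (P.cons (P.cons (P.lf 0 1811452 0) (P.cons (P.lf 0 23540 0) (P.cons (P.lf 0 506 0) P.nil))) (P.cons (P.cons (P.lf 0 128648 0) (P.cons (P.lf 6976 0 0) P.nil)) (P.cons (P.cons (P.lf 5674 0 0) P.nil) P.nil)))))) 1554)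
 EL.nil)
noncomputable def S198_212_401_438_38 : EL := (EL.cons 14 (TM.mk (P.cons (P.cons (P.lf 0 462843984 0) (P.cons (P.lf 89180202 0 0) (P.cons (P.lf 0 2359728 0) (P.cons (P.lf 0 315584 0) (P.cons (P.lf 10408 0 0) (P.cons (P.lf 268 0 0) P.nil)))))) (P.cons (P.cons (P.lf 11334128 0 0) (P.cons (P.lf 671378 0 0) (P.cons (P.lf 0 155302 0) (P.cons (P.lf 0 8346 0) (P.cons (P.lf 410 0 0) P.nil))))) (P.cons (P.cons (P.lf 18392386 0 0) (P.cons (P.lf 0 2744982 0) (P.cons (P.lf 29750 0 0) (P.cons (P.lf 7848 0 0) P.nil)))) (P.cons (P.cons (P.lf 0 554558 0) (P.cons (P.lf 0 48638 0) (P.cons (P.lf 6206 0 0) P.nil))) (P.cons (P.cons (P.lf 0 249192 0) (P.cons (P.lf 27014 0 0) P.nil)) (P.cons (P.cons (P.lf 8168 0 0) P.nil) P.nil)))))) 6574)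
 EL.nil)
noncomputable def S198_212_401_438_39 : EL := (EL.cons 14 (TM.mk (P.cons (P.lf 1237810708 0 0) (P.cons (P.lf 0 307670508 0) (P.cons (P.lf 12922344 0 0) (P.cons (P.lf 963640 0 0) (P.cons (P.lf 0 8278 0) (P.cons (P.lf 0 1548 0) P.nil)))))) 132)
 EL.nil)
noncomputable def S198_212_401_438_40 : EL := (EL.cons 14 (TM.mk (P.cons (P.cons (P.lf 466348436 0 0) (P.cons (P.lf 0 44927716 0) (P.cons (P.lf 0 975356 0) (P.lf 65022 0 0)))) (P.cons (P.cons (P.lf 0 92646726 0) (P.cons (P.lf 7487106 0 0) (P.cons (P.lf 162542 0 0) (P.lf 0 10836 0)))) (P.cons (P.cons (P.lf 0 7286056 0) (P.cons (P.lf 550028 0 0) (P.cons (P.lf 11938 0 0) (P.lf 0 794 0)))) (P.cons (P.cons (P.lf 2107158 0 0) (P.cons (P.lf 0 83122 0) (P.cons (P.lf 0 1804 0) P.nil))) (P.cons (P.cons (P.lf 0 11718 0) (P.cons (P.lf 0 5442 0) P.nil)) (P.cons (P.cons (P.lf 0 10884 0) P.nil) P.nil)))))) 1564)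
 EL.nil)
noncomputable def S198_212_401_438_41 : EL := (EL.cons 14 (TM.mk (P.cons (P.cons (P.lf 175697998 0 0) (P.cons (P.lf 0 33853270 0) (P.cons (P.lf 895764 0 0) (P.cons (P.lf 119796 0 0) (P.cons (P.lf 0 3950 0) (P.cons (P.lf 0 102 0) P.nil)))))) (P.cons (P.cons (P.lf 0 26138260 0) (P.cons (P.lf 3952428 0 0) (P.cons (P.lf 0 52372 0) (P.cons (P.lf 0 11720 0) (P.cons (P.lf 334 0 0) P.nil))))) (P.cons (P.cons (P.lf 0 6886892 0) (P.cons (P.lf 1158416 0 0) (P.cons (P.lf 0 20862 0) (P.cons (P.lf 0 3672 0) P.nil)))) (P.cons (P.cons (P.lf 1102724 0 0) (P.cons (P.lf 0 113046 0) (P.cons (P.lf 0 1030 0) P.nil))) (P.cons (P.cons (P.lf 86140 0 0) (P.cons (P.lf 0 15286 0) P.nil)) (P.cons (P.cons (P.lf 0 15948 0) P.nil) P.nil)))))) 5364)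
 EL.nil)
noncomputable def S198_212_401_438_42 : EL := (EL.cons 14 (TM.mk (P.cons (P.lf 0 469879420 0) (P.cons (P.lf 175190000 0 0) (P.cons (P.lf 0 18244400 0) (P.cons (P.lf 0 85224 0) (P.cons (P.lf 68490 0 0) (P.cons (P.lf 1120 0 0) P.nil)))))) 218)
 EL.nil)
noncomputable def S198_212_401_438_43 : EL := (EL.cons 14 (TM.mk (P.cons (P.cons (P.lf 0 177028304 0) (P.cons (P.lf 17054796 0 0) (P.cons (P.lf 370250 0 0) (P.lf 0 24682 0)))) (P.cons (P.cons (P.lf 57170278 0 0) (P.cons (P.lf 0 4961716 0) (P.cons (P.lf 0 107716 0) (P.lf 7180 0 0)))) (P.cons (P.cons (P.lf 0 1161914 0) (P.cons (P.lf 101740 0 0) (P.cons (P.lf 2208 0 0) (P.lf 0 146 0)))) (P.cons (P.cons (P.lf 0 1245492 0) (P.cons (P.lf 65950 0 0) (P.cons (P.lf 1432 0 0) P.nil))) (P.cons (P.cons (P.lf 99110 0 0) (P.cons (P.lf 0 1498 0) P.nil)) (P.cons (P.cons (P.lf 5914 0 0) P.nil) P.nil)))))) 1780)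
 EL.nil)
noncomputable def S198_212_401_438_44 : EL := (EL.cons 14 (TM.mk (P.cons (P.cons (P.lf 0 66695878 0) (P.cons (P.lf 12850878 0 0) (P.cons (P.lf 0 340036 0) (P.cons (P.lf 0 45474 0) (P.cons (P.lf 1500 0 0) (P.cons (P.lf 38 0 0) P.nil)))))) (P.cons (P.cons (P.lf 18211192 0 0) (P.cons (P.lf 0 3097470 0) (P.cons (P.lf 62140 0 0) (P.cons (P.lf 10100 0 0) (P.cons (P.lf 0 312 0) P.nil))))) (P.cons (P.cons (P.lf 1548100 0 0) (P.cons (P.lf 0 285440 0) (P.cons (P.lf 6298 0 0) (P.cons (P.lf 954 0 0) P.nil)))) (P.cons (P.cons (P.lf 0 773554 0) (P.cons (P.lf 102324 0 0) (P.cons (P.lf 0 668 0) P.nil))) (P.cons (P.cons (P.lf 13340 0 0) (P.cons (P.lf 1494 0 0) P.nil)) (P.cons (P.cons (P.lf 11404 0 0) P.nil) P.nil)))))) 4286)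
 EL.nil)
noncomputable def S198_212_401_438_45 : EL := (EL.cons 14 (TM.mk (P.cons (P.cons (P.lf 459365868 0 0) (P.cons (P.lf 0 132765064 0) (P.cons (P.lf 9908246 0 0) (P.cons (P.lf 336752 0 0) (P.cons (P.lf 0 57744 0) (P.cons (P.lf 398 0 0) P.nil)))))) (P.cons (P.cons (P.lf 68761626 0 0) (P.cons (P.lf 0 24124010 0) (P.cons (P.lf 2209880 0 0) (P.cons (P.lf 52666 0 0) (P.cons (P.lf 0 13196 0) P.nil))))) (P.cons (P.cons (P.lf 0 15395446 0) (P.cons (P.lf 2519948 0 0) (P.cons (P.lf 10942 0 0) (P.cons (P.lf 0 10948 0) P.nil)))) (P.cons (P.cons (P.lf 0 2065024 0) (P.cons (P.lf 576592 0 0) (P.cons (P.lf 0 31144 0) P.nil))) (P.cons (P.cons (P.lf 243136 0 0) (P.cons (P.lf 0 17472 0) P.nil)) (P.cons (P.cons (P.lf 25982 0 0) P.nil) P.nil)))))) 19922)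
 EL.nil)
noncomputable def S198_212_401_438_46 : EL := (EL.cons 15 (TM.mk (P.lf 4294967296 0 0) 0)
 EL.nil)
noncomputable def S198_212_401_438_47 : EL := (EL.cons 15 (TM.mk (P.cons (P.cons (P.lf 1618140212 0 0) (P.cons (P.lf 0 155890620 0) (P.cons (P.lf 0 3384300 0) (P.lf 225616 0 0)))) (P.cons (P.cons (P.lf 80738804 0 0) (P.cons (P.lf 0 12769376 0) (P.cons (P.lf 0 277212 0) (P.lf 18480 0 0)))) (P.cons (P.cons (P.lf 0 22105636 0) (P.cons (P.lf 361988 0 0) (P.cons (P.lf 7856 0 0) (P.lf 0 520 0)))) (P.cons (P.cons (P.lf 0 285756 0) (P.cons (P.lf 56224 0 0) (P.cons (P.lf 1216 0 0) P.nil))) (P.cons (P.cons (P.lf 67050 0 0) (P.cons (P.lf 208 0 0) P.nil)) (P.cons (P.cons (P.lf 1654 0 0) P.nil) P.nil)))))) 775)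
 EL.nil)
noncomputable def S198_212_401_438_48 : EL := (EL.cons 15 (TM.mk (P.cons (P.cons (P.lf 609638575 0 0) (P.cons (P.lf 0 117464401 0) (P.cons (P.lf 3108135 0 0) (P.cons (P.lf 415676 0 0) (P.cons (P.lf 0 13711 0) (P.cons (P.lf 0 355 0) P.nil)))))) (P.cons (P.cons (P.lf 60837113 0 0) (P.cons (P.lf 0 15482801 0) (P.cons (P.lf 590837 0 0) (P.cons (P.lf 62654 0 0) (P.cons (P.lf 0 2246 0) P.nil))))) (P.cons (P.cons (P.lf 0 15138947 0) (P.cons (P.lf 1397367 0 0) (P.cons (P.lf 42021 0 0) (P.cons (P.lf 0 1511 0) P.nil)))) (P.cons (P.cons (P.lf 0 1046422 0) (P.cons (P.lf 208163 0 0) (P.cons (P.lf 0 1718 0) P.nil))) (P.cons (P.cons (P.lf 153553 0 0) (P.cons (P.lf 0 4623 0) P.nil)) (P.cons (P.cons (P.lf 6708 0 0) P.nil) P.nil)))))) 4227)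
 EL.nil)
noncomputable def S198_212_401_438 : SL := (SL.cons S198_212_401_438_0 (SL.cons S198_212_401_438_1 (SL.cons S198_212_401_438_2 (SL.cons S198_212_401_438_3 (SL.cons S198_212_401_438_4 (SL.cons S198_212_401_438_5 (SL.cons S198_212_401_438_6 (SL.cons S198_212_401_438_7 (SL.cons S198_212_401_438_8 (SL.cons S198_212_401_438_9 (SL.cons S198_212_401_438_10 (SL.cons S198_212_401_438_11 (SL.cons S198_212_401_438_12 (SL.cons S198_212_401_438_13 (SL.cons S198_212_401_438_14 (SL.cons S198_212_401_438_15 (SL.cons S198_212_401_438_16 (SL.cons S198_212_401_438_17 (SL.cons S198_212_401_438_18 (SL.cons S198_212_401_438_19 (SL.cons S198_212_401_438_20 (SL.cons S198_212_401_438_21 (SL.cons S198_212_401_438_22 (SL.cons S198_212_401_438_23 (SL.cons S198_212_401_438_24 (SL.cons S198_212_401_438_25 (SL.cons S198_212_401_438_26 (SL.cons S198_212_401_438_27 (SL.cons S198_212_401_438_28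 (SL.cons S198_212_401_438_29 (SL.cons S198_212_401_438_30 (SL.cons S198_212_401_438_31 (SL.cons S198_212_401_438_32 (SL.cons S198_212_401_438_33 (SL.cons S198_212_401_438_34 (SL.cons S198_212_401_438_35 (SL.cons S198_212_401_438_36 (SL.cons S198_212_401_438_37 (SL.cons S198_212_401_438_38 (SL.cons S198_212_401_438_39 (SL.cons S198_212_401_438_40 (SL.cons S198_212_401_438_41 (SL.cons S198_212_401_438_42 (SL.cons S198_212_401_438_43 (SL.cons S198_212_401_438_44 (SL.cons S198_212_401_438_45 (SL.cons S198_212_401_438_46 (SL.cons S198_212_401_438_47 (SL.cons S198_212_401_438_48 SL.nil)))))))))))))))))))))))))))))))))))))))))))))))))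
noncomputable def S198_212_438_475_0 : EL := (EL.cons 0 (TM.mk (P.cons (P.lf 7367797296 0 0) (P.cons (P.lf 270413532 0 0) (P.cons (P.lf 0 11357528 0) (P.cons (P.lf 0 846949 0) (P.cons (P.lf 7275 0 0) (P.cons (P.lf 1360 0 0) P.nil)))))) 123)
 (EL.cons 1 (TM.mk (P.cons (P.lf 0 1384003233 0) (P.cons (P.lf 134215061 0 0) (P.cons (P.lf 10263551 0 0) (P.cons (P.lf 0 214061 0) (P.cons (P.lf 0 21358 0) (P.cons (P.lf 0 5 0) P.nil)))))) 123)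
 (EL.cons 5 (TM.mk (P.cons (P.lf 4681783146 0 0) (P.cons (P.lf 0 96147034 0) (P.cons (P.lf 4038232 0 0) (P.cons (P.lf 301136 0 0) (P.cons (P.lf 0 2584 0) (P.cons (P.lf 0 484 0) P.nil)))))) 121)
 (EL.cons 9 (TM.mk (P.lf 6442450944 0 0) 2)
 EL.nil))))
noncomputable def S198_212_438_475_1 : EL := (EL.cons 0 (TM.mk (P.cons (P.cons (P.lf 1717689563 0 0) (P.cons (P.lf 0 159308990 0) (P.cons (P.lf 0 1940319 0) (P.lf 215588 0 0)))) (P.cons (P.cons (P.lf 626089942 0 0) (P.cons (P.lf 0 55036611 0) (P.cons (P.lf 0 670313 0) (P.lf 74475 0 0)))) (P.cons (P.cons (P.lf 0 72848668 0) (P.cons (P.lf 0 1305854 0) (P.cons (P.lf 0 15901 0) (P.lf 1766 0 0)))) (P.cons (P.cons (P.lf 0 7224657 0) (P.cons (P.lf 430909 0 0) (P.cons (P.lf 5241 0 0) P.nil))) (P.cons (P.cons (P.lf 399932 0 0) (P.cons (P.lf 20893 0 0) P.nil)) (P.cons (P.cons (P.lf 41880 0 0) P.nil) P.nil)))))) 7897)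
 (EL.cons 1 (TM.mk (P.cons (P.cons (P.lf 0 666921333 0) (P.cons (P.lf 116604738 0 0) (P.cons (P.lf 1420190 0 0) (P.lf 0 157791 0)))) (P.cons (P.cons (P.lf 187915196 0 0) (P.cons (P.lf 3610972 0 0) (P.cons (P.lf 43983 0 0) (P.lf 0 4887 0)))) (P.cons (P.cons (P.lf 40678082 0 0) (P.cons (P.lf 0 2661127 0) (P.cons (P.lf 0 32400 0) (P.lf 3590 0 0)))) (P.cons (P.cons (P.lf 0 2772889 0) (P.cons (P.lf 0 131862 0) (P.cons (P.lf 0 1596 0) P.nil))) (P.cons (P.cons (P.lf 0 341190 0) (P.cons (P.lf 13427 0 0) P.nil)) (P.cons (P.cons (P.lf 9640 0 0) P.nil) P.nil)))))) 4553)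
 (EL.cons 5 (TM.mk (P.cons (P.cons (P.lf 1590131372 0 0) (P.cons (P.lf 0 226781458 0) (P.cons (P.lf 0 2762094 0) (P.lf 306896 0 0)))) (P.cons (P.cons (P.lf 0 130403400 0) (P.cons (P.lf 0 3647428 0) (P.cons (P.lf 0 44430 0) (P.lf 4944 0 0)))) (P.cons (P.cons (P.lf 0 10400756 0) (P.cons (P.lf 1122440 0 0) (P.cons (P.lf 13666 0 0) (P.lf 0 1514 0)))) (P.cons (P.cons (P.lf 2281330 0 0) (P.cons (P.lf 0 50984 0) (P.cons (P.lf 0 618 0) P.nil))) (P.cons (P.cons (P.lf 0 27467 0) (P.cons (P.lf 0 7046 0) P.nil)) (P.cons (P.cons (P.lf 0 12491 0) P.nil) P.nil)))))) 4733)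
 (EL.cons 9 (TM.mk (P.cons (P.cons (P.lf 1941940086 0 0) (P.cons (P.lf 0 250080576 0) (P.cons (P.lf 0 3045870 0) (P.lf 338424 0 0)))) (P.cons (P.cons (P.lf 81358548 0 0) (P.cons (P.lf 0 20484702 0) (P.cons (P.lf 0 249492 0) (P.lf 27720 0 0)))) (P.cons (P.cons (P.lf 0 32031612 0) (P.cons (P.lf 580704 0 0) (P.cons (P.lf 7068 0 0) (P.lf 0 780 0)))) (P.cons (P.cons (P.lf 0 253614 0) (P.cons (P.lf 90192 0 0) (P.cons (P.lf 1092 0 0) P.nil))) (P.cons (P.cons (P.lf 101229 0 0) (P.cons (P.lf 330 0 0) P.nil)) (P.cons (P.cons (P.lf 2109 0 0) P.nil) P.nil)))))) 1115)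
 (EL.cons 2 (TM.mk (P.cons (P.cons (P.lf 901420813 0 0) (P.cons (P.lf 25509310 0 0) (P.cons (P.lf 0 4165039 0) (P.cons (P.lf 0 28836 0) (P.lf 2401 0 0))))) (P.cons (P.cons (P.lf 0 62803642 0) (P.cons (P.lf 0 1777280 0) (P.cons (P.lf 290185 0 0) (P.cons (P.lf 2008 0 0) (P.lf 0 165 0))))) (P.cons (P.cons (P.lf 0 10441369 0) (P.cons (P.lf 0 295478 0) (P.cons (P.lf 48242 0 0) (P.cons (P.lf 331 0 0) P.nil)))) (P.cons (P.cons (P.lf 50045 0 0) (P.cons (P.lf 1414 0 0) (P.cons (P.lf 0 230 0) P.nil))) (P.cons (P.cons (P.lf 32428 0 0) (P.cons (P.lf 916 0 0) P.nil)) (P.cons (P.cons (P.lf 441 0 0) P.nil) P.nil)))))) 513)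
 (EL.cons 6 (TM.mk (P.cons (P.cons (P.lf 1146747753 0 0) (P.cons (P.lf 32451819 0 0) (P.cons (P.lf 0 5298579 0) (P.cons (P.lf 0 36684 0) (P.lf 3054 0 0))))) (P.cons (P.cons (P.lf 93932877 0 0) (P.cons (P.lf 2658204 0 0) (P.cons (P.lf 0 434016 0) (P.cons (P.lf 0 3003 0) (P.lf 249 0 0))))) (P.cons (P.cons (P.lf 0 2662857 0) (P.cons (P.lf 0 75354 0) (P.cons (P.lf 12300 0 0) (P.cons (P.lf 81 0 0) P.nil)))) (P.cons (P.cons (P.lf 0 413592 0) (P.cons (P.lf 0 11703 0) (P.cons (P.lf 1908 0 0) P.nil))) (P.cons (P.cons (P.lf 0 1536 0) (P.cons (P.lf 0 42 0) P.nil)) (P.cons (P.cons (P.lf 879 0 0) P.nil) P.nil)))))) 375)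
 EL.nil))))))
noncomputable def S198_212_438_475_2 : EL := (EL.cons 0 (TM.mk (P.cons (P.cons (P.lf 366089171 0 0) (P.cons (P.lf 0 56976404 0) (P.cons (P.lf 572202 0 0) (P.cons (P.lf 107946 0 0) (P.cons (P.lf 0 3245 0) (P.cons (P.lf 0 51 0) P.nil)))))) (P.cons (P.cons (P.lf 340164719 0 0) (P.cons (P.lf 0 69058094 0) (P.cons (P.lf 2218553 0 0) (P.cons (P.lf 167975 0 0) (P.cons (P.lf 0 7820 0) P.nil))))) (P.cons (P.cons (P.lf 0 25302437 0) (P.cons (P.lf 0 744307 0) (P.cons (P.lf 341015 0 0) (P.cons (P.lf 9525 0 0) P.nil)))) (P.cons (P.cons (P.lf 0 10525487 0) (P.cons (P.lf 1487212 0 0) (P.cons (P.lf 0 5948 0) P.nil))) (P.cons (P.cons (P.lf 557045 0 0) (P.cons (P.lf 55703 0 0) P.nil)) (P.cons (P.cons (P.lf 113205 0 0) P.nil) P.nil)))))) 40546)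
 (EL.cons 1 (TM.mk (P.cons (P.cons (P.lf 0 276308984 0) (P.cons (P.lf 89684895 0 0) (P.cons (P.lf 0 5874887 0) (P.cons (P.lf 0 291076 0) (P.cons (P.lf 17818 0 0) (P.cons (P.lf 220 0 0) P.nil)))))) (P.cons (P.cons (P.lf 94783644 0 0) (P.cons (P.lf 0 6094732 0) (P.cons (P.lf 0 956674 0) (P.cons (P.lf 0 13247 0) (P.cons (P.lf 2249 0 0) P.nil))))) (P.cons (P.cons (P.lf 30019063 0 0) (P.cons (P.lf 0 6018541 0) (P.cons (P.lf 87070 0 0) (P.cons (P.lf 12038 0 0) P.nil)))) (P.cons (P.cons (P.lf 0 2344800 0) (P.cons (P.lf 0 180777 0) (P.cons (P.lf 23940 0 0) P.nil))) (P.cons (P.cons (P.lf 0 617288 0) (P.cons (P.lf 78294 0 0) P.nil)) (P.cons (P.cons (P.lf 25033 0 0) P.nil) P.nil)))))) 21421)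
 (EL.cons 5 (TM.mk (P.cons (P.cons (P.lf 533239133 0 0) (P.cons (P.lf 0 150606409 0) (P.cons (P.lf 8717361 0 0) (P.cons (P.lf 460831 0 0) (P.cons (P.lf 0 26986 0) (P.cons (P.lf 0 341 0) P.nil)))))) (P.cons (P.cons (P.lf 0 65360154 0) (P.cons (P.lf 3399590 0 0) (P.cons (P.lf 755922 0 0) (P.cons (P.lf 12815 0 0) (P.cons (P.lf 0 1844 0) P.nil))))) (P.cons (P.cons (P.lf 0 11724388 0) (P.cons (P.lf 2893384 0 0) (P.cons (P.lf 0 66505 0) (P.cons (P.lf 0 6384 0) P.nil)))) (P.cons (P.cons (P.lf 2652218 0 0) (P.cons (P.lf 0 197361 0) (P.cons (P.lf 0 5971 0) P.nil))) (P.cons (P.cons (P.lf 44342 0 0) (P.cons (P.lf 0 30613 0) P.nil)) (P.cons (P.cons (P.lf 0 33038 0) P.nil) P.nil)))))) 20658)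
 (EL.cons 9 (TM.mk (P.cons (P.cons (P.lf 585356617 0 0) (P.cons (P.lf 0 150762961 0) (P.cons (P.lf 7871305 0 0) (P.cons (P.lf 440487 0 0) (P.cons (P.lf 0 24832 0) (P.cons (P.lf 0 319 0) P.nil)))))) (P.cons (P.cons (P.lf 49047613 0 0) (P.cons (P.lf 0 18665646 0) (P.cons (P.lf 1362996 0 0) (P.cons (P.lf 63997 0 0) (P.cons (P.lf 0 4068 0) P.nil))))) (P.cons (P.cons (P.lf 0 18283060 0) (P.cons (P.lf 2319480 0 0) (P.cons (P.lf 48297 0 0) (P.cons (P.lf 0 2646 0) P.nil)))) (P.cons (P.cons (P.lf 0 961915 0) (P.cons (P.lf 292426 0 0) (P.cons (P.lf 0 7137 0) P.nil))) (P.cons (P.cons (P.lf 213880 0 0) (P.cons (P.lf 0 9543 0) P.nil)) (P.cons (P.cons (P.lf 6349 0 0) P.nil) P.nil)))))) 5692)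
 (EL.cons 2 (TM.mk (P.cons (P.cons (P.lf 543428336 0 0) (P.cons (P.lf 0 54603528 0) (P.cons (P.lf 0 5343693 0) (P.cons (P.lf 376548 0 0) (P.cons (P.lf 10305 0 0) (P.cons (P.lf 0 596 0) P.nil)))))) (P.cons (P.cons (P.lf 0 15094445 0) (P.cons (P.lf 0 1283776 0) (P.cons (P.lf 35066 0 0) (P.cons (P.lf 5304 0 0) (P.cons (P.lf 67 0 0) P.nil))))) (P.cons (P.cons (P.lf 0 16844546 0) (P.cons (P.lf 895820 0 0) (P.cons (P.lf 133380 0 0) (P.cons (P.lf 0 7183 0) P.nil)))) (P.cons (P.cons (P.lf 319995 0 0) (P.cons (P.lf 85483 0 0) (P.cons (P.lf 1608 0 0) P.nil))) (P.cons (P.cons (P.lf 157910 0 0) (P.cons (P.lf 0 1912 0) P.nil)) (P.cons (P.cons (P.lf 22 0 0) P.nil) P.nil)))))) 4510)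
 (EL.cons 6 (TM.mk (P.cons (P.cons (P.lf 691325532 0 0) (P.cons (P.lf 0 69464196 0) (P.cons (P.lf 0 6798012 0) (P.cons (P.lf 479028 0 0) (P.cons (P.lf 13104 0 0) (P.cons (P.lf 0 756 0) P.nil)))))) (P.cons (P.cons (P.lf 85591566 0 0) (P.cons (P.lf 0 12162840 0) (P.cons (P.lf 0 985854 0) (P.cons (P.lf 79362 0 0) (P.cons (P.lf 2070 0 0) P.nil))))) (P.cons (P.cons (P.lf 0 10636026 0) (P.cons (P.lf 0 484872 0) (P.cons (P.lf 41694 0 0) (P.cons (P.lf 1374 0 0) P.nil)))) (P.cons (P.cons (P.lf 0 1340934 0) (P.cons (P.lf 60132 0 0) (P.cons (P.lf 10158 0 0) P.nil))) (P.cons (P.cons (P.lf 43746 0 0) (P.cons (P.lf 6252 0 0) P.nil)) (P.cons (P.cons (P.lf 8514 0 0) P.nil) P.nil)))))) 3624)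
 EL.nil))))))
noncomputable def S198_212_438_475_3 : EL := (EL.cons 0 (TM.mk (P.cons (P.lf 1087919567 0 0) (P.cons (P.lf 0 270413532 0) (P.cons (P.lf 11357528 0 0) (P.cons (P.lf 846949 0 0) (P.cons (P.lf 0 7275 0) (P.cons (P.lf 0 1360 0) P.nil)))))) 123)
 (EL.cons 1 (TM.mk (P.cons (P.lf 1384003233 0 0) (P.cons (P.lf 0 134215061 0) (P.cons (P.lf 0 10263551 0) (P.cons (P.lf 214061 0 0) (P.cons (P.lf 21358 0 0) (P.cons (P.lf 5 0 0) P.nil)))))) 123)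
 (EL.cons 5 (TM.mk (P.cons (P.lf 1760667798 0 0) (P.cons (P.lf 96147034 0 0) (P.cons (P.lf 0 4038232 0) (P.cons (P.lf 0 301136 0) (P.cons (P.lf 2584 0 0) (P.cons (P.lf 484 0 0) P.nil)))))) 114)
 EL.nil)))
noncomputable def S198_212_438_475_4 : EL := (EL.cons 0 (TM.mk (P.cons (P.cons (P.lf 327930259 0 0) (P.cons (P.lf 0 42230441 0) (P.cons (P.lf 0 514346 0) (P.lf 57148 0 0)))) (P.cons (P.cons (P.lf 0 67771617 0) (P.cons (P.lf 7037609 0 0) (P.cons (P.lf 85714 0 0) (P.lf 0 9523 0)))) (P.cons (P.cons (P.lf 0 5400525 0) (P.cons (P.lf 517007 0 0) (P.cons (P.lf 6294 0 0) (P.lf 0 697 0)))) (P.cons (P.cons (P.lf 1700381 0 0) (P.cons (P.lf 0 78133 0) (P.cons (P.lf 0 950 0) P.nil))) (P.cons (P.cons (P.lf 0 20227 0) (P.cons (P.lf 0 5115 0) P.nil)) (P.cons (P.cons (P.lf 0 9052 0) P.nil) P.nil)))))) 1277)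
 (EL.cons 1 (TM.mk (P.cons (P.cons (P.lf 417178395 0 0) (P.cons (P.lf 0 53723701 0) (P.cons (P.lf 0 654330 0) (P.lf 72701 0 0)))) (P.cons (P.cons (P.lf 0 22978383 0) (P.cons (P.lf 809268 0 0) (P.cons (P.lf 9855 0 0) (P.lf 0 1093 0)))) (P.cons (P.cons (P.lf 0 11669874 0) (P.cons (P.lf 949910 0 0) (P.cons (P.lf 11566 0 0) (P.lf 0 1282 0)))) (P.cons (P.cons (P.lf 547738 0 0) (P.cons (P.lf 31601 0 0) (P.cons (P.lf 382 0 0) P.nil))) (P.cons (P.cons (P.lf 87200 0 0) (P.cons (P.lf 0 4241 0) P.nil)) (P.cons (P.cons (P.lf 0 2041 0) P.nil) P.nil)))))) 1093)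
 (EL.cons 5 (TM.mk (P.cons (P.cons (P.lf 530715934 0 0) (P.cons (P.lf 0 68344922 0) (P.cons (P.lf 0 832410 0) (P.lf 92488 0 0)))) (P.cons (P.cons (P.lf 51216090 0 0) (P.cons (P.lf 0 9330494 0) (P.cons (P.lf 0 113640 0) (P.lf 12624 0 0)))) (P.cons (P.cons (P.lf 0 8757016 0) (P.cons (P.lf 9742 0 0) (P.cons (P.lf 116 0 0) (P.lf 0 10 0)))) (P.cons (P.cons (P.lf 0 689116 0) (P.cons (P.lf 57842 0 0) (P.cons (P.lf 702 0 0) P.nil))) (P.cons (P.cons (P.lf 40934 0 0) (P.cons (P.lf 1928 0 0) P.nil)) (P.cons (P.cons (P.lf 3920 0 0) P.nil) P.nil)))))) 858)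
 EL.nil)))
noncomputable def S198_212_438_475_5 : EL := (EL.cons 0 (TM.mk (P.cons (P.cons (P.lf 98847615 0 0) (P.cons (P.lf 0 25458939 0) (P.cons (P.lf 1329205 0 0) (P.cons (P.lf 74383 0 0) (P.cons (P.lf 0 4192 0) (P.cons (P.lf 0 52 0) P.nil)))))) (P.cons (P.cons (P.lf 0 16287045 0) (P.cons (P.lf 3176061 0 0) (P.cons (P.lf 0 100221 0) (P.cons (P.lf 0 7681 0) (P.cons (P.lf 355 0 0) P.nil))))) (P.cons (P.cons (P.lf 0 4114183 0) (P.cons (P.lf 909367 0 0) (P.cons (P.lf 0 35177 0) (P.cons (P.lf 0 2355 0) P.nil)))) (P.cons (P.cons (P.lf 768390 0 0) (P.cons (P.lf 0 100701 0) (P.cons (P.lf 203 0 0) P.nil))) (P.cons (P.cons (P.lf 50046 0 0) (P.cons (P.lf 0 12079 0) P.nil)) (P.cons (P.cons (P.lf 0 12183 0) P.nil) P.nil)))))) 4597)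
 (EL.cons 1 (TM.mk (P.cons (P.cons (P.lf 125749571 0 0) (P.cons (P.lf 0 32387737 0) (P.cons (P.lf 1690955 0 0) (P.cons (P.lf 94627 0 0) (P.cons (P.lf 0 5332 0) (P.cons (P.lf 0 67 0) P.nil)))))) (P.cons (P.cons (P.lf 0 1658004 0) (P.cons (P.lf 0 869025 0) (P.cons (P.lf 128821 0 0) (P.cons (P.lf 4569 0 0) (P.cons (P.lf 0 354 0) P.nil))))) (P.cons (P.cons (P.lf 0 5882011 0) (P.cons (P.lf 1127325 0 0) (P.cons (P.lf 0 30558 0) (P.cons (P.lf 0 2602 0) P.nil)))) (P.cons (P.cons (P.lf 115554 0 0) (P.cons (P.lf 39225 0 0) (P.cons (P.lf 0 4447 0) P.nil))) (P.cons (P.cons (P.lf 98681 0 0) (P.cons (P.lf 0 12956 0) P.nil)) (P.cons (P.cons (P.lf 0 2002 0) P.nil) P.nil)))))) 3745)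
 (EL.cons 5 (TM.mk (P.cons (P.cons (P.lf 159973052 0 0) (P.cons (P.lf 0 41202252 0) (P.cons (P.lf 2151160 0 0) (P.cons (P.lf 120380 0 0) (P.cons (P.lf 0 6786 0) (P.cons (P.lf 0 86 0) P.nil)))))) (P.cons (P.cons (P.lf 22140152 0 0) (P.cons (P.lf 0 7351148 0) (P.cons (P.lf 489966 0 0) (P.cons (P.lf 24062 0 0) (P.cons (P.lf 0 1480 0) P.nil))))) (P.cons (P.cons (P.lf 0 4631532 0) (P.cons (P.lf 449828 0 0) (P.cons (P.lf 28606 0 0) (P.cons (P.lf 0 42 0) P.nil)))) (P.cons (P.cons (P.lf 0 593842 0) (P.cons (P.lf 133280 0 0) (P.cons (P.lf 0 2450 0) P.nil))) (P.cons (P.cons (P.lf 53498 0 0) (P.cons (P.lf 1114 0 0) P.nil)) (P.cons (P.cons (P.lf 6448 0 0) P.nil) P.nil)))))) 3002)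
 EL.nil)))
noncomputable def S198_212_438_475_6 : EL := (EL.cons 12 (TM.mk (P.lf 8589934592 0 0) 0)
 (EL.cons 3 (TM.mk (P.cons (P.lf 0 1528492552 0) (P.cons (P.lf 189961226 0 0) (P.cons (P.lf 3825716 0 0) (P.cons (P.lf 0 119508 0) (P.cons (P.lf 0 4953 0) (P.cons (P.lf 41 0 0) P.nil)))))) 52)
 (EL.cons 7 (TM.mk (P.cons (P.lf 0 1944480730 0) (P.cons (P.lf 0 53092371 0) (P.cons (P.lf 2954732 0 0) (P.cons (P.lf 85611 0 0) (P.cons (P.lf 0 1520 0) (P.cons (P.lf 0 96 0) P.nil)))))) 47)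
 EL.nil)))
noncomputable def S198_212_438_475_7 : EL := (EL.cons 12 (TM.mk (P.cons (P.cons (P.lf 2589253448 0 0) (P.cons (P.lf 0 333440768 0) (P.cons (P.lf 0 4061160 0) (P.lf 451232 0 0)))) (P.cons (P.cons (P.lf 108478064 0 0) (P.cons (P.lf 0 27312936 0) (P.cons (P.lf 0 332656 0) (P.lf 36960 0 0)))) (P.cons (P.cons (P.lf 0 42708816 0) (P.cons (P.lf 774272 0 0) (P.cons (P.lf 9424 0 0) (P.lf 0 1040 0)))) (P.cons (P.cons (P.lf 0 338152 0) (P.cons (P.lf 120256 0 0) (P.cons (P.lf 1456 0 0) P.nil))) (P.cons (P.cons (P.lf 134972 0 0) (P.cons (P.lf 440 0 0) P.nil)) (P.cons (P.cons (P.lf 2812 0 0) P.nil) P.nil)))))) 1462)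
 (EL.cons 3 (TM.mk (P.cons (P.cons (P.lf 246215477 0 0) (P.cons (P.lf 0 118664868 0) (P.cons (P.lf 0 1445282 0) (P.lf 160584 0 0)))) (P.cons (P.cons (P.lf 0 508576044 0) (P.cons (P.lf 5027556 0 0) (P.cons (P.lf 61232 0 0) (P.lf 0 6802 0)))) (P.cons (P.cons (P.lf 0 4131377 0) (P.cons (P.lf 1780574 0 0) (P.cons (P.lf 21682 0 0) (P.lf 0 2404 0)))) (P.cons (P.cons (P.lf 3099154 0 0) (P.cons (P.lf 23600 0 0) (P.cons (P.lf 282 0 0) P.nil))) (P.cons (P.cons (P.lf 95396 0 0) (P.cons (P.lf 0 6994 0) P.nil)) (P.cons (P.cons (P.lf 0 7929 0) P.nil) P.nil)))))) 3030)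
 (EL.cons 7 (TM.mk (P.cons (P.cons (P.lf 0 783707499 0) (P.cons (P.lf 125228674 0 0) (P.cons (P.lf 1525230 0 0) (P.lf 0 169473 0)))) (P.cons (P.cons (P.lf 142142208 0 0) (P.cons (P.lf 0 1405155 0) (P.cons (P.lf 0 17113 0) (P.lf 1901 0 0)))) (P.cons (P.cons (P.lf 0 9618576 0) (P.cons (P.lf 0 391159 0) (P.cons (P.lf 0 4765 0) (P.lf 531 0 0)))) (P.cons (P.cons (P.lf 0 833363 0) (P.cons (P.lf 42215 0 0) (P.cons (P.lf 511 0 0) P.nil))) (P.cons (P.cons (P.lf 66729 0 0) (P.cons (P.lf 1983 0 0) P.nil)) (P.cons (P.cons (P.lf 3883 0 0) P.nil) P.nil)))))) 2693)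
 (EL.cons 10 (TM.mk (P.cons (P.cons (P.lf 0 2532935412 0) (P.cons (P.lf 0 71679552 0) (P.cons (P.lf 11703498 0 0) (P.cons (P.lf 81030 0 0) (P.lf 0 6750 0))))) (P.cons (P.cons (P.lf 0 138319236 0) (P.cons (P.lf 0 3914295 0) (P.cons (P.lf 639105 0 0) (P.cons (P.lf 4422 0 0) (P.lf 0 366 0))))) (P.cons (P.cons (P.lf 5809488 0 0) (P.cons (P.lf 164400 0 0) (P.cons (P.lf 0 26841 0) (P.cons (P.lf 0 183 0) P.nil)))) (P.cons (P.cons (P.lf 433218 0 0) (P.cons (P.lf 12258 0 0) (P.cons (P.lf 0 2001 0) P.nil))) (P.cons (P.cons (P.lf 0 3717 0) (P.cons (P.lf 0 105 0) P.nil)) (P.cons (P.cons (P.lf 0 696 0) P.nil) P.nil)))))) 348)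
 EL.nil))))
noncomputable def S198_212_438_475_8 : EL := (EL.cons 12 (TM.mk (P.cons (P.cons (P.lf 780475490 0 0) (P.cons (P.lf 0 201017282 0) (P.cons (P.lf 10495074 0 0) (P.cons (P.lf 587316 0 0) (P.cons (P.lf 0 33110 0) (P.cons (P.lf 0 426 0) P.nil)))))) (P.cons (P.cons (P.lf 65396818 0 0) (P.cons (P.lf 0 24887528 0) (P.cons (P.lf 1817328 0 0) (P.cons (P.lf 85330 0 0) (P.cons (P.lf 0 5424 0) P.nil))))) (P.cons (P.cons (P.lf 0 24377414 0) (P.cons (P.lf 3092640 0 0) (P.cons (P.lf 64396 0 0) (P.cons (P.lf 0 3528 0) P.nil)))) (P.cons (P.cons (P.lf 0 1282554 0) (P.cons (P.lf 389902 0 0) (P.cons (P.lf 0 9516 0) P.nil))) (P.cons (P.cons (P.lf 285174 0 0) (P.cons (P.lf 0 12724 0) P.nil)) (P.cons (P.cons (P.lf 8466 0 0) P.nil) P.nil)))))) 7560)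
 (EL.cons 3 (TM.mk (P.cons (P.cons (P.lf 287310630 0 0) (P.cons (P.lf 0 126422012 0) (P.cons (P.lf 9975956 0 0) (P.cons (P.lf 451592 0 0) (P.cons (P.lf 0 29455 0) (P.cons (P.lf 0 375 0) P.nil)))))) (P.cons (P.cons (P.lf 0 306003271 0) (P.cons (P.lf 37968330 0 0) (P.cons (P.lf 917822 0 0) (P.cons (P.lf 0 40282 0) (P.cons (P.lf 0 1166 0) P.nil))))) (P.cons (P.cons (P.lf 0 23915620 0) (P.cons (P.lf 7169920 0 0) (P.cons (P.lf 0 152176 0) (P.cons (P.lf 0 15531 0) P.nil)))) (P.cons (P.cons (P.lf 7094463 0 0) (P.cons (P.lf 0 271294 0) (P.cons (P.lf 0 22770 0) P.nil))) (P.cons (P.cons (P.lf 315970 0 0) (P.cons (P.lf 0 80251 0) P.nil)) (P.cons (P.cons (P.lf 0 53217 0) P.nil) P.nil)))))) 18751)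
 (EL.cons 7 (TM.mk (P.cons (P.cons (P.lf 0 295789810 0) (P.cons (P.lf 90834607 0 0) (P.cons (P.lf 0 5685870 0) (P.cons (P.lf 0 288373 0) (P.cons (P.lf 17371 0 0) (P.cons (P.lf 222 0 0) P.nil)))))) (P.cons (P.cons (P.lf 85525030 0 0) (P.cons (P.lf 0 10611790 0) (P.cons (P.lf 0 256525 0) (P.cons (P.lf 11255 0 0) (P.cons (P.lf 328 0 0) P.nil))))) (P.cons (P.cons (P.lf 202071 0 0) (P.cons (P.lf 0 1199637 0) (P.cons (P.lf 61969 0 0) (P.cons (P.lf 3485 0 0) P.nil)))) (P.cons (P.cons (P.lf 0 2568352 0) (P.cons (P.lf 267170 0 0) (P.cons (P.lf 1795 0 0) P.nil))) (P.cons (P.cons (P.lf 143504 0 0) (P.cons (P.lf 11155 0 0) P.nil)) (P.cons (P.cons (P.lf 21405 0 0) P.nil) P.nil)))))) 12581)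
 (EL.cons 10 (TM.mk (P.cons (P.cons (P.lf 0 1526999226 0) (P.cons (P.lf 153432456 0 0) (P.cons (P.lf 15015444 0 0) (P.cons (P.lf 0 1058088 0) (P.cons (P.lf 0 28956 0) (P.cons (P.lf 1674 0 0) P.nil)))))) (P.cons (P.cons (P.lf 0 147361188 0) (P.cons (P.lf 22675938 0 0) (P.cons (P.lf 1767570 0 0) (P.cons (P.lf 0 146406 0) (P.cons (P.lf 0 3786 0) P.nil))))) (P.cons (P.cons (P.lf 25196070 0 0) (P.cons (P.lf 684990 0 0) (P.cons (P.lf 0 117546 0) (P.cons (P.lf 0 648 0) P.nil)))) (P.cons (P.cons (P.lf 1982754 0 0) (P.cons (P.lf 0 110322 0) (P.cons (P.lf 0 15888 0) P.nil))) (P.cons (P.cons (P.lf 0 117774 0) (P.cons (P.lf 0 8880 0) P.nil)) (P.cons (P.cons (P.lf 0 11280 0) P.nil) P.nil)))))) 5178)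
 EL.nil))))
noncomputable def S198_212_438_475_9 : EL := (EL.cons 3 (TM.mk (P.cons (P.lf 0 1528492552 0) (P.cons (P.lf 189961226 0 0) (P.cons (P.lf 3825716 0 0) (P.cons (P.lf 0 119508 0) (P.cons (P.lf 0 4953 0) (P.cons (P.lf 41 0 0) P.nil)))))) 52)
 (EL.cons 7 (TM.mk (P.cons (P.lf 0 1944480730 0) (P.cons (P.lf 0 53092371 0) (P.cons (P.lf 2954732 0 0) (P.cons (P.lf 85611 0 0) (P.cons (P.lf 0 1520 0) (P.cons (P.lf 0 96 0) P.nil)))))) 47)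
 EL.nil))
noncomputable def S198_212_438_475_10 : EL := (EL.cons 3 (TM.mk (P.cons (P.cons (P.lf 0 460731634 0) (P.cons (P.lf 59332434 0 0) (P.cons (P.lf 722641 0 0) (P.lf 0 80292 0)))) (P.cons (P.cons (P.lf 37957197 0 0) (P.cons (P.lf 0 2513778 0) (P.cons (P.lf 0 30616 0) (P.lf 3401 0 0)))) (P.cons (P.cons (P.lf 11151712 0 0) (P.cons (P.lf 0 890287 0) (P.cons (P.lf 0 10841 0) (P.lf 1202 0 0)))) (P.cons (P.cons (P.lf 0 872018 0) (P.cons (P.lf 0 11800 0) (P.cons (P.lf 0 141 0) P.nil))) (P.cons (P.cons (P.lf 0 53518 0) (P.cons (P.lf 3497 0 0) P.nil)) (P.cons (P.cons (P.lf 2877 0 0) P.nil) P.nil)))))) 686)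
 (EL.cons 7 (TM.mk (P.cons (P.cons (P.lf 0 586122441 0) (P.cons (P.lf 75480103 0 0) (P.cons (P.lf 919314 0 0) (P.lf 0 102144 0)))) (P.cons (P.cons (P.lf 0 40559460 0) (P.cons (P.lf 8243676 0 0) (P.cons (P.lf 100403 0 0) (P.lf 0 11155 0)))) (P.cons (P.cons (P.lf 9888045 0 0) (P.cons (P.lf 0 121150 0) (P.cons (P.lf 0 1474 0) (P.lf 162 0 0)))) (P.cons (P.cons (P.lf 403639 0 0) (P.cons (P.lf 0 44725 0) (P.cons (P.lf 0 542 0) P.nil))) (P.cons (P.cons (P.lf 0 42531 0) (P.cons (P.lf 0 789 0) P.nil)) (P.cons (P.cons (P.lf 0 2060 0) P.nil) P.nil)))))) 559)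
 EL.nil))
noncomputable def S198_212_438_475_11 : EL := (EL.cons 3 (TM.mk (P.cons (P.cons (P.lf 0 138877770 0) (P.cons (P.lf 35769004 0 0) (P.cons (P.lf 0 1867492 0) (P.cons (P.lf 0 104506 0) (P.cons (P.lf 5891 0 0) (P.cons (P.lf 75 0 0) P.nil)))))) (P.cons (P.cons (P.lf 5623037 0 0) (P.cons (P.lf 0 16890 0) (P.cons (P.lf 0 91282 0) (P.cons (P.lf 0 2194 0) (P.cons (P.lf 232 0 0) P.nil))))) (P.cons (P.cons (P.lf 6131528 0 0) (P.cons (P.lf 0 1190204 0) (P.cons (P.lf 33404 0 0) (P.cons (P.lf 2775 0 0) P.nil)))) (P.cons (P.cons (P.lf 0 292605 0) (P.cons (P.lf 0 9274 0) (P.cons (P.lf 3780 0 0) P.nil))) (P.cons (P.cons (P.lf 0 91322 0) (P.cons (P.lf 12725 0 0) P.nil)) (P.cons (P.cons (P.lf 4533 0 0) P.nil) P.nil)))))) 2997)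
 (EL.cons 7 (TM.mk (P.cons (P.cons (P.lf 0 176674168 0) (P.cons (P.lf 45503749 0 0) (P.cons (P.lf 0 2375742 0) (P.cons (P.lf 0 132949 0) (P.cons (P.lf 7495 0 0) (P.cons (P.lf 96 0 0) P.nil)))))) (P.cons (P.cons (P.lf 0 19627640 0) (P.cons (P.lf 6876164 0 0) (P.cons (P.lf 0 476251 0) (P.cons (P.lf 0 22945 0) (P.cons (P.lf 1432 0 0) P.nil))))) (P.cons (P.cons (P.lf 5382513 0 0) (P.cons (P.lf 0 615393 0) (P.cons (P.lf 0 22199 0) (P.cons (P.lf 473 0 0) P.nil)))) (P.cons (P.cons (P.lf 471272 0 0) (P.cons (P.lf 0 117940 0) (P.cons (P.lf 2485 0 0) P.nil))) (P.cons (P.cons (P.lf 0 64498 0) (P.cons (P.lf 1321 0 0) P.nil)) (P.cons (P.cons (P.lf 0 4383 0) P.nil) P.nil)))))) 2437)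
 EL.nil))
noncomputable def S198_212_438_475_12 : EL := (EL.cons 4 (TM.mk (P.cons (P.lf 1528492552 0 0) (P.cons (P.lf 0 189961226 0) (P.cons (P.lf 0 3825716 0) (P.cons (P.lf 119508 0 0) (P.cons (P.lf 4953 0 0) (P.cons (P.lf 0 41 0) P.nil)))))) 52)
 (EL.cons 8 (TM.mk (P.cons (P.lf 1944480730 0 0) (P.cons (P.lf 53092371 0 0) (P.cons (P.lf 0 2954732 0) (P.cons (P.lf 0 85611 0) (P.cons (P.lf 1520 0 0) (P.cons (P.lf 96 0 0) P.nil)))))) 47)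
 EL.nil))
noncomputable def S198_212_438_475_13 : EL := (EL.cons 4 (TM.mk (P.cons (P.cons (P.lf 460731634 0 0) (P.cons (P.lf 0 59332434 0) (P.cons (P.lf 0 722641 0) (P.lf 80292 0 0)))) (P.cons (P.cons (P.lf 0 37957197 0) (P.cons (P.lf 2513778 0 0) (P.cons (P.lf 30616 0 0) (P.lf 0 3401 0)))) (P.cons (P.cons (P.lf 0 11151712 0) (P.cons (P.lf 890287 0 0) (P.cons (P.lf 10841 0 0) (P.lf 0 1202 0)))) (P.cons (P.cons (P.lf 872018 0 0) (P.cons (P.lf 11800 0 0) (P.cons (P.lf 141 0 0) P.nil))) (P.cons (P.cons (P.lf 53518 0 0) (P.cons (P.lf 0 3497 0) P.nil)) (P.cons (P.cons (P.lf 0 2877 0) P.nil) P.nil)))))) 686)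
 (EL.cons 8 (TM.mk (P.cons (P.cons (P.lf 586122441 0 0) (P.cons (P.lf 0 75480103 0) (P.cons (P.lf 0 919314 0) (P.lf 102144 0 0)))) (P.cons (P.cons (P.lf 40559460 0 0) (P.cons (P.lf 0 8243676 0) (P.cons (P.lf 0 100403 0) (P.lf 11155 0 0)))) (P.cons (P.cons (P.lf 0 9888045 0) (P.cons (P.lf 121150 0 0) (P.cons (P.lf 1474 0 0) (P.lf 0 162 0)))) (P.cons (P.cons (P.lf 0 403639 0) (P.cons (P.lf 44725 0 0) (P.cons (P.lf 542 0 0) P.nil))) (P.cons (P.cons (P.lf 42531 0 0) (P.cons (P.lf 789 0 0) P.nil)) (P.cons (P.cons (P.lf 2060 0 0) P.nil) P.nil)))))) 559)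
 EL.nil))
noncomputable def S198_212_438_475_14 : EL := (EL.cons 4 (TM.mk (P.cons (P.cons (P.lf 138877770 0 0) (P.cons (P.lf 0 35769004 0) (P.cons (P.lf 1867492 0 0) (P.cons (P.lf 104506 0 0) (P.cons (P.lf 0 5891 0) (P.cons (P.lf 0 75 0) P.nil)))))) (P.cons (P.cons (P.lf 0 5623037 0) (P.cons (P.lf 16890 0 0) (P.cons (P.lf 91282 0 0) (P.cons (P.lf 2194 0 0) (P.cons (P.lf 0 232 0) P.nil))))) (P.cons (P.cons (P.lf 0 6131528 0) (P.cons (P.lf 1190204 0 0) (P.cons (P.lf 0 33404 0) (P.cons (P.lf 0 2775 0) P.nil)))) (P.cons (P.cons (P.lf 292605 0 0) (P.cons (P.lf 9274 0 0) (P.cons (P.lf 0 3780 0) P.nil))) (P.cons (P.cons (P.lf 91322 0 0) (P.cons (P.lf 0 12725 0) P.nil)) (P.cons (P.cons (P.lf 0 4533 0) P.nil) P.nil)))))) 2997)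
 (EL.cons 8 (TM.mk (P.cons (P.cons (P.lf 176674168 0 0) (P.cons (P.lf 0 45503749 0) (P.cons (P.lf 2375742 0 0) (P.cons (P.lf 132949 0 0) (P.cons (P.lf 0 7495 0) (P.cons (P.lf 0 96 0) P.nil)))))) (P.cons (P.cons (P.lf 19627640 0 0) (P.cons (P.lf 0 6876164 0) (P.cons (P.lf 476251 0 0) (P.cons (P.lf 22945 0 0) (P.cons (P.lf 0 1432 0) P.nil))))) (P.cons (P.cons (P.lf 0 5382513 0) (P.cons (P.lf 615393 0 0) (P.cons (P.lf 22199 0 0) (P.cons (P.lf 0 473 0) P.nil)))) (P.cons (P.cons (P.lf 0 471272 0) (P.cons (P.lf 117940 0 0) (P.cons (P.lf 0 2485 0) P.nil))) (P.cons (P.cons (P.lf 64498 0 0) (P.cons (P.lf 0 1321 0) P.nil)) (P.cons (P.cons (P.lf 4383 0 0) P.nil) P.nil)))))) 2437)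
 EL.nil))
noncomputable def S198_212_438_475_15 : EL := (EL.cons 4 (TM.mk (P.cons (P.lf 0 580223769 0) (P.cons (P.lf 144220550 0 0) (P.cons (P.lf 0 6057348 0) (P.cons (P.lf 0 451706 0) (P.cons (P.lf 3880 0 0) (P.cons (P.lf 725 0 0) P.nil)))))) 68)
 (EL.cons 8 (TM.mk (P.cons (P.lf 0 738135058 0) (P.cons (P.lf 71581366 0 0) (P.cons (P.lf 5473894 0 0) (P.cons (P.lf 0 114166 0) (P.cons (P.lf 0 11391 0) (P.cons (P.lf 0 3 0) P.nil)))))) 62)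
 EL.nil))
noncomputable def S198_212_438_475_16 : EL := (EL.cons 4 (TM.mk (P.cons (P.cons (P.lf 0 174896138 0) (P.cons (P.lf 22522902 0 0) (P.cons (P.lf 274318 0 0) (P.lf 0 30479 0)))) (P.cons (P.cons (P.lf 36144862 0 0) (P.cons (P.lf 0 3753391 0) (P.cons (P.lf 0 45714 0) (P.lf 5079 0 0)))) (P.cons (P.cons (P.lf 2880280 0 0) (P.cons (P.lf 0 275737 0) (P.cons (P.lf 0 3357 0) (P.lf 372 0 0)))) (P.cons (P.cons (P.lf 0 906870 0) (P.cons (P.lf 41670 0 0) (P.cons (P.lf 507 0 0) P.nil))) (P.cons (P.cons (P.lf 10787 0 0) (P.cons (P.lf 2728 0 0) P.nil)) (P.cons (P.cons (P.lf 4828 0 0) P.nil) P.nil)))))) 690)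
 (EL.cons 8 (TM.mk (P.cons (P.cons (P.lf 0 222495144 0) (P.cons (P.lf 28652641 0 0) (P.cons (P.lf 348976 0 0) (P.lf 0 38774 0)))) (P.cons (P.cons (P.lf 12255138 0 0) (P.cons (P.lf 0 431610 0) (P.cons (P.lf 0 5256 0) (P.lf 583 0 0)))) (P.cons (P.cons (P.lf 6223933 0 0) (P.cons (P.lf 0 506619 0) (P.cons (P.lf 0 6169 0) (P.lf 684 0 0)))) (P.cons (P.cons (P.lf 0 292127 0) (P.cons (P.lf 0 16854 0) (P.cons (P.lf 0 204 0) P.nil))) (P.cons (P.cons (P.lf 0 46507 0) (P.cons (P.lf 2262 0 0) P.nil)) (P.cons (P.cons (P.lf 1089 0 0) P.nil) P.nil)))))) 573)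
 EL.nil))
noncomputable def S198_212_438_475_17 : EL := (EL.cons 4 (TM.mk (P.cons (P.cons (P.lf 0 52718728 0) (P.cons (P.lf 13578101 0 0) (P.cons (P.lf 0 708909 0) (P.cons (P.lf 0 39671 0) (P.cons (P.lf 2235 0 0) (P.cons (P.lf 28 0 0) P.nil)))))) (P.cons (P.cons (P.lf 8686424 0 0) (P.cons (P.lf 0 1693899 0) (P.cons (P.lf 53451 0 0) (P.cons (P.lf 4096 0 0) (P.cons (P.lf 0 189 0) P.nil))))) (P.cons (P.cons (P.lf 2194230 0 0) (P.cons (P.lf 0 484995 0) (P.cons (P.lf 18761 0 0) (P.cons (P.lf 1256 0 0) P.nil)))) (P.cons (P.cons (P.lf 0 409808 0) (P.cons (P.lf 53707 0 0) (P.cons (P.lf 0 108 0) P.nil))) (P.cons (P.cons (P.lf 0 26691 0) (P.cons (P.lf 6442 0 0) P.nil)) (P.cons (P.cons (P.lf 6497 0 0) P.nil) P.nil)))))) 2462)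
 (EL.cons 8 (TM.mk (P.cons (P.cons (P.lf 0 67066438 0) (P.cons (P.lf 17273460 0 0) (P.cons (P.lf 0 901843 0) (P.cons (P.lf 0 50468 0) (P.cons (P.lf 2844 0 0) (P.cons (P.lf 36 0 0) P.nil)))))) (P.cons (P.cons (P.lf 884269 0 0) (P.cons (P.lf 463480 0 0) (P.cons (P.lf 0 68705 0) (P.cons (P.lf 0 2437 0) (P.cons (P.lf 189 0 0) P.nil))))) (P.cons (P.cons (P.lf 3137073 0 0) (P.cons (P.lf 0 601240 0) (P.cons (P.lf 16298 0 0) (P.cons (P.lf 1388 0 0) P.nil)))) (P.cons (P.cons (P.lf 0 61629 0) (P.cons (P.lf 0 20920 0) (P.cons (P.lf 2372 0 0) P.nil))) (P.cons (P.cons (P.lf 0 52630 0) (P.cons (P.lf 6910 0 0) P.nil)) (P.cons (P.cons (P.lf 1068 0 0) P.nil) P.nil)))))) 1986)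
 EL.nil))
noncomputable def S198_212_438_475_18 : EL := (EL.cons 4 (TM.mk (P.cons (P.lf 220255978 0 0) (P.cons (P.lf 0 82120312 0) (P.cons (P.lf 8552062 0 0) (P.cons (P.lf 39948 0 0) (P.cons (P.lf 0 32104 0) (P.cons (P.lf 0 525 0) P.nil)))))) 109)
 (EL.cons 8 (TM.mk (P.cons (P.lf 280199929 0 0) (P.cons (P.lf 0 61995939 0) (P.cons (P.lf 597780 0 0) (P.cons (P.lf 391501 0 0) (P.cons (P.lf 2922 0 0) (P.cons (P.lf 0 902 0) P.nil)))))) 74)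
 EL.nil))
noncomputable def S198_212_438_475_19 : EL := (EL.cons 4 (TM.mk (P.cons (P.cons (P.lf 66391488 0 0) (P.cons (P.lf 0 8549811 0) (P.cons (P.lf 0 104132 0) (P.lf 11569 0 0)))) (P.cons (P.cons (P.lf 0 21971920 0) (P.cons (P.lf 2487378 0 0) (P.cons (P.lf 30294 0 0) (P.lf 0 3365 0)))) (P.cons (P.cons (P.lf 445676 0 0) (P.cons (P.lf 0 51003 0) (P.cons (P.lf 0 620 0) (P.lf 68 0 0)))) (P.cons (P.cons (P.lf 519669 0 0) (P.cons (P.lf 0 33060 0) (P.cons (P.lf 0 402 0) P.nil))) (P.cons (P.cons (P.lf 0 44999 0) (P.cons (P.lf 750 0 0) P.nil)) (P.cons (P.cons (P.lf 0 2316 0) P.nil) P.nil)))))) 814)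
 (EL.cons 8 (TM.mk (P.cons (P.cons (P.lf 84460320 0 0) (P.cons (P.lf 0 10876692 0) (P.cons (P.lf 0 132472 0) (P.lf 14718 0 0)))) (P.cons (P.cons (P.lf 0 15148852 0) (P.cons (P.lf 1515598 0 0) (P.cons (P.lf 18459 0 0) (P.lf 0 2051 0)))) (P.cons (P.cons (P.lf 0 1995870 0) (P.cons (P.lf 199176 0 0) (P.cons (P.lf 2425 0 0) (P.lf 0 269 0)))) (P.cons (P.cons (P.lf 422769 0 0) (P.cons (P.lf 0 18763 0) (P.cons (P.lf 0 228 0) P.nil))) (P.cons (P.cons (P.lf 9696 0 0) (P.cons (P.lf 0 2157 0) P.nil)) (P.cons (P.cons (P.lf 0 3087 0) P.nil) P.nil)))))) 550)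
 EL.nil))
noncomputable def S198_212_438_475_20 : EL := (EL.cons 4 (TM.mk (P.cons (P.cons (P.lf 20012304 0 0) (P.cons (P.lf 0 5154317 0) (P.cons (P.lf 269105 0 0) (P.cons (P.lf 15059 0 0) (P.cons (P.lf 0 848 0) (P.cons (P.lf 0 10 0) P.nil)))))) (P.cons (P.cons (P.lf 0 5784542 0) (P.cons (P.lf 1283592 0 0) (P.cons (P.lf 0 53734 0) (P.cons (P.lf 0 3426 0) (P.cons (P.lf 177 0 0) P.nil))))) (P.cons (P.cons (P.lf 0 473228 0) (P.cons (P.lf 117093 0 0) (P.cons (P.lf 0 5273 0) (P.cons (P.lf 0 320 0) P.nil)))) (P.cons (P.cons (P.lf 268901 0 0) (P.cons (P.lf 0 45280 0) (P.cons (P.lf 998 0 0) P.nil))) (P.cons (P.cons (P.lf 0 7308 0) (P.cons (P.lf 0 338 0) P.nil)) (P.cons (P.cons (P.lf 0 4191 0) P.nil) P.nil)))))) 1914)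
 (EL.cons 8 (TM.mk (P.cons (P.cons (P.lf 25458770 0 0) (P.cons (P.lf 0 6557096 0) (P.cons (P.lf 342344 0 0) (P.cons (P.lf 19157 0 0) (P.cons (P.lf 0 1079 0) (P.cons (P.lf 0 13 0) P.nil)))))) (P.cons (P.cons (P.lf 0 3499692 0) (P.cons (P.lf 638976 0 0) (P.cons (P.lf 0 16465 0) (P.cons (P.lf 0 1455 0) (P.cons (P.lf 61 0 0) P.nil))))) (P.cons (P.cons (P.lf 0 1212853 0) (P.cons (P.lf 266511 0 0) (P.cons (P.lf 0 10285 0) (P.cons (P.lf 0 689 0) P.nil)))) (P.cons (P.cons (P.lf 174224 0 0) (P.cons (P.lf 0 20495 0) (P.cons (P.lf 0 170 0) P.nil))) (P.cons (P.cons (P.lf 20108 0 0) (P.cons (P.lf 0 4216 0) P.nil)) (P.cons (P.cons (P.lf 0 3042 0) P.nil) P.nil)))))) 1541)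
 EL.nil))
noncomputable def S198_212_438_475_21 : EL := (EL.cons 4 (TM.mk (P.cons (P.cons (P.lf 0 706947111 0) (P.cons (P.lf 177997302 0 0) (P.cons (P.lf 2167923 0 0) (P.lf 0 240876 0)))) (P.cons (P.cons (P.lf 546533241 0 0) (P.cons (P.lf 0 7541334 0) (P.cons (P.lf 0 91848 0) (P.lf 10203 0 0)))) (P.cons (P.cons (P.lf 15283089 0 0) (P.cons (P.lf 0 2670861 0) (P.cons (P.lf 0 32523 0) (P.lf 3606 0 0)))) (P.cons (P.cons (P.lf 0 3971172 0) (P.cons (P.lf 0 35400 0) (P.cons (P.lf 0 423 0) P.nil))) (P.cons (P.cons (P.lf 0 148914 0) (P.cons (P.lf 10491 0 0) P.nil)) (P.cons (P.cons (P.lf 10806 0 0) P.nil) P.nil)))))) 2325)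
 (EL.cons 8 (TM.mk (P.cons (P.cons (P.lf 197585058 0 0) (P.cons (P.lf 0 49748571 0) (P.cons (P.lf 0 605916 0) (P.lf 67329 0 0)))) (P.cons (P.cons (P.lf 0 182701668 0) (P.cons (P.lf 9648831 0 0) (P.cons (P.lf 117516 0 0) (P.lf 0 13056 0)))) (P.cons (P.cons (P.lf 19506621 0 0) (P.cons (P.lf 270009 0 0) (P.cons (P.lf 3291 0 0) (P.lf 0 369 0)))) (P.cons (P.cons (P.lf 1237002 0 0) (P.cons (P.lf 0 86940 0) (P.cons (P.lf 0 1053 0) P.nil))) (P.cons (P.cons (P.lf 0 109260 0) (P.cons (P.lf 0 2772 0) P.nil)) (P.cons (P.cons (P.lf 0 5943 0) P.nil) P.nil)))))) 2115)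
 (EL.cons 11 (TM.mk (P.cons (P.cons (P.lf 2532935412 0 0) (P.cons (P.lf 71679552 0 0) (P.cons (P.lf 0 11703498 0) (P.cons (P.lf 0 81030 0) (P.lf 6750 0 0))))) (P.cons (P.cons (P.lf 138319236 0 0) (P.cons (P.lf 3914295 0 0) (P.cons (P.lf 0 639105 0) (P.cons (P.lf 0 4422 0) (P.lf 366 0 0))))) (P.cons (P.cons (P.lf 0 5809488 0) (P.cons (P.lf 0 164400 0) (P.cons (P.lf 26841 0 0) (P.cons (P.lf 183 0 0) P.nil)))) (P.cons (P.cons (P.lf 0 433218 0) (P.cons (P.lf 0 12258 0) (P.cons (P.lf 2001 0 0) P.nil))) (P.cons (P.cons (P.lf 3717 0 0) (P.cons (P.lf 105 0 0) P.nil)) (P.cons (P.cons (P.lf 696 0 0) P.nil) P.nil)))))) 348)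
 EL.nil)))
noncomputable def S198_212_438_475_22 : EL := (EL.cons 4 (TM.mk (P.cons (P.cons (P.lf 0 213094200 0) (P.cons (P.lf 81095508 0 0) (P.cons (P.lf 0 5921724 0) (P.cons (P.lf 0 278049 0) (P.cons (P.lf 17673 0 0) (P.cons (P.lf 225 0 0) P.nil)))))) (P.cons (P.cons (P.lf 155813154 0 0) (P.cons (P.lf 0 18992610 0) (P.cons (P.lf 0 504552 0) (P.cons (P.lf 19044 0 0) (P.cons (P.lf 699 0 0) P.nil))))) (P.cons (P.cons (P.lf 15023574 0 0) (P.cons (P.lf 0 4180062 0) (P.cons (P.lf 92790 0 0) (P.cons (P.lf 9153 0 0) P.nil)))) (P.cons (P.cons (P.lf 0 3693534 0) (P.cons (P.lf 131010 0 0) (P.cons (P.lf 13275 0 0) P.nil))) (P.cons (P.cons (P.lf 0 203646 0) (P.cons (P.lf 46488 0 0) P.nil)) (P.cons (P.cons (P.lf 28875 0 0) P.nil) P.nil)))))) 7866)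
 (EL.cons 8 (TM.mk (P.cons (P.cons (P.lf 59557821 0 0) (P.cons (P.lf 0 22665429 0) (P.cons (P.lf 1655064 0 0) (P.cons (P.lf 77712 0 0) (P.cons (P.lf 0 4938 0) (P.cons (P.lf 0 63 0) P.nil)))))) (P.cons (P.cons (P.lf 0 52576335 0) (P.cons (P.lf 8743977 0 0) (P.cons (P.lf 0 109863 0) (P.cons (P.lf 0 17100 0) (P.cons (P.lf 552 0 0) P.nil))))) (P.cons (P.cons (P.lf 2590221 0 0) (P.cons (P.lf 292122 0 0) (P.cons (P.lf 0 42084 0) (P.cons (P.lf 0 1506 0) P.nil)))) (P.cons (P.cons (P.lf 1519812 0 0) (P.cons (P.lf 0 192555 0) (P.cons (P.lf 345 0 0) P.nil))) (P.cons (P.cons (P.lf 0 104001 0) (P.cons (P.lf 0 4917 0) P.nil)) (P.cons (P.cons (P.lf 0 12894 0) P.nil) P.nil)))))) 5061)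
 (EL.cons 11 (TM.mk (P.cons (P.cons (P.lf 763499613 0 0) (P.cons (P.lf 0 76716228 0) (P.cons (P.lf 0 7507722 0) (P.cons (P.lf 529044 0 0) (P.cons (P.lf 14478 0 0) (P.cons (P.lf 0 837 0) P.nil)))))) (P.cons (P.cons (P.lf 73680594 0 0) (P.cons (P.lf 0 11337969 0) (P.cons (P.lf 0 883785 0) (P.cons (P.lf 73203 0 0) (P.cons (P.lf 1893 0 0) P.nil))))) (P.cons (P.cons (P.lf 0 12598035 0) (P.cons (P.lf 0 342495 0) (P.cons (P.lf 58773 0 0) (P.cons (P.lf 324 0 0) P.nil)))) (P.cons (P.cons (P.lf 0 991377 0) (P.cons (P.lf 55161 0 0) (P.cons (P.lf 7944 0 0) P.nil))) (P.cons (P.cons (P.lf 58887 0 0) (P.cons (P.lf 4440 0 0) P.nil)) (P.cons (P.cons (P.lf 5640 0 0) P.nil) P.nil)))))) 2589)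
 EL.nil)))
noncomputable def S198_212_438_475_23 : EL := (EL.cons 4 (TM.mk (P.cons (P.cons (P.lf 268360821 0 0) (P.cons (P.lf 0 67568706 0) (P.cons (P.lf 0 822954 0) (P.lf 91437 0 0)))) (P.cons (P.cons (P.lf 0 240818790 0) (P.cons (P.lf 11260176 0 0) (P.cons (P.lf 137142 0 0) (P.lf 0 15237 0)))) (P.cons (P.cons (P.lf 19310775 0 0) (P.cons (P.lf 827211 0 0) (P.cons (P.lf 10071 0 0) (P.lf 0 1116 0)))) (P.cons (P.cons (P.lf 2768751 0 0) (P.cons (P.lf 0 125013 0) (P.cons (P.lf 0 1524 0) P.nil))) (P.cons (P.cons (P.lf 0 131649 0) (P.cons (P.lf 0 8184 0) P.nil)) (P.cons (P.cons (P.lf 0 16032 0) P.nil) P.nil)))))) 2763)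
 (EL.cons 8 (TM.mk (P.cons (P.cons (P.lf 0 75004320 0) (P.cons (P.lf 18884817 0 0) (P.cons (P.lf 230007 0 0) (P.lf 0 25557 0)))) (P.cons (P.cons (P.lf 78676053 0 0) (P.cons (P.lf 0 6009753 0) (P.cons (P.lf 0 73194 0) (P.lf 8130 0 0)))) (P.cons (P.cons (P.lf 0 15836469 0) (P.cons (P.lf 305442 0 0) (P.cons (P.lf 3717 0 0) (P.lf 0 411 0)))) (P.cons (P.cons (P.lf 271242 0 0) (P.cons (P.lf 56385 0 0) (P.cons (P.lf 684 0 0) P.nil))) (P.cons (P.cons (P.lf 123546 0 0) (P.cons (P.lf 0 3015 0) P.nil)) (P.cons (P.cons (P.lf 0 2073 0) P.nil) P.nil)))))) 1755)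
 (EL.cons 11 (TM.mk (P.cons (P.cons (P.lf 0 961515534 0) (P.cons (P.lf 0 27209931 0) (P.cons (P.lf 4442709 0 0) (P.cons (P.lf 30759 0 0) (P.lf 0 2562 0))))) (P.cons (P.cons (P.lf 66990552 0 0) (P.cons (P.lf 1895766 0 0) (P.cons (P.lf 0 309531 0) (P.cons (P.lf 0 2142 0) (P.lf 177 0 0))))) (P.cons (P.cons (P.lf 11137461 0 0) (P.cons (P.lf 315177 0 0) (P.cons (P.lf 0 51459 0) (P.cons (P.lf 0 354 0) P.nil)))) (P.cons (P.cons (P.lf 0 53382 0) (P.cons (P.lf 0 1509 0) (P.cons (P.lf 246 0 0) P.nil))) (P.cons (P.cons (P.lf 0 34590 0) (P.cons (P.lf 0 978 0) P.nil)) (P.cons (P.cons (P.lf 0 471 0) P.nil) P.nil)))))) 525)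
 EL.nil)))
noncomputable def S198_212_438_475_24 : EL := (EL.cons 4 (TM.mk (P.cons (P.cons (P.lf 80891673 0 0) (P.cons (P.lf 0 30784278 0) (P.cons (P.lf 2247915 0 0) (P.cons (P.lf 105549 0 0) (P.cons (P.lf 0 6708 0) (P.cons (P.lf 0 84 0) P.nil)))))) (P.cons (P.cons (P.lf 0 69200715 0) (P.cons (P.lf 11035566 0 0) (P.cons (P.lf 0 87840 0) (P.cons (P.lf 0 20346 0) (P.cons (P.lf 567 0 0) P.nil))))) (P.cons (P.cons (P.lf 1445361 0 0) (P.cons (P.lf 767802 0 0) (P.cons (P.lf 0 64653 0) (P.cons (P.lf 0 2838 0) P.nil)))) (P.cons (P.cons (P.lf 2265222 0 0) (P.cons (P.lf 0 267387 0) (P.cons (P.lf 0 966 0) P.nil))) (P.cons (P.cons (P.lf 0 87033 0) (P.cons (P.lf 0 14973 0) P.nil)) (P.cons (P.cons (P.lf 0 24717 0) P.nil) P.nil)))))) 7602)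
 (EL.cons 8 (TM.mk (P.cons (P.cons (P.lf 0 22608459 0) (P.cons (P.lf 8603916 0 0) (P.cons (P.lf 0 628269 0) (P.cons (P.lf 0 29499 0) (P.cons (P.lf 1875 0 0) (P.cons (P.lf 24 0 0) P.nil)))))) (P.cons (P.cons (P.lf 22768032 0 0) (P.cons (P.lf 0 4388553 0) (P.cons (P.lf 119784 0 0) (P.cons (P.lf 10158 0 0) (P.cons (P.lf 0 441 0) P.nil))))) (P.cons (P.cons (P.lf 0 3407088 0) (P.cons (P.lf 280089 0 0) (P.cons (P.lf 12363 0 0) (P.cons (P.lf 0 159 0) P.nil)))) (P.cons (P.cons (P.lf 0 506451 0) (P.cons (P.lf 95856 0 0) (P.cons (P.lf 0 2268 0) P.nil))) (P.cons (P.cons (P.lf 115128 0 0) (P.cons (P.lf 0 7170 0) P.nil)) (P.cons (P.cons (P.lf 1419 0 0) P.nil) P.nil)))))) 3507)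
 (EL.cons 11 (TM.mk (P.cons (P.cons (P.lf 0 289828446 0) (P.cons (P.lf 29121882 0 0) (P.cons (P.lf 2849970 0 0) (P.cons (P.lf 0 200826 0) (P.cons (P.lf 0 5496 0) (P.cons (P.lf 318 0 0) P.nil)))))) (P.cons (P.cons (P.lf 8050371 0 0) (P.cons (P.lf 684681 0 0) (P.cons (P.lf 0 18702 0) (P.cons (P.lf 0 2829 0) (P.cons (P.lf 0 36 0) P.nil))))) (P.cons (P.cons (P.lf 8983758 0 0) (P.cons (P.lf 0 477771 0) (P.cons (P.lf 0 71136 0) (P.cons (P.lf 3831 0 0) P.nil)))) (P.cons (P.cons (P.lf 0 170664 0) (P.cons (P.lf 0 45591 0) (P.cons (P.lf 0 858 0) P.nil))) (P.cons (P.cons (P.lf 0 84219 0) (P.cons (P.lf 1020 0 0) P.nil)) (P.cons (P.cons (P.lf 0 12 0) P.nil) P.nil)))))) 2394)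
 EL.nil)))
noncomputable def S198_212_438_475_25 : EL := (EL.cons 4 (TM.mk (P.cons (P.cons (P.lf 0 101871171 0) (P.cons (P.lf 25649433 0 0) (P.cons (P.lf 312396 0 0) (P.lf 0 34710 0)))) (P.cons (P.cons (P.lf 104076633 0 0) (P.cons (P.lf 0 7462134 0) (P.cons (P.lf 0 90885 0) (P.lf 10095 0 0)))) (P.cons (P.cons (P.lf 0 18436692 0) (P.cons (P.lf 153012 0 0) (P.cons (P.lf 1863 0 0) (P.lf 0 207 0)))) (P.cons (P.cons (P.lf 0 376773 0) (P.cons (P.lf 99183 0 0) (P.cons (P.lf 1206 0 0) P.nil))) (P.cons (P.cons (P.lf 205761 0 0) (P.cons (P.lf 0 2253 0) P.nil)) (P.cons (P.cons (P.lf 2232 0 0) P.nil) P.nil)))))) 2766)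
 (EL.cons 8 (TM.mk (P.cons (P.cons (P.lf 28472031 0 0) (P.cons (P.lf 0 7168773 0) (P.cons (P.lf 0 87312 0) (P.lf 9702 0 0)))) (P.cons (P.cons (P.lf 0 33404349 0) (P.cons (P.lf 3172269 0 0) (P.cons (P.lf 38634 0 0) (P.lf 0 4290 0)))) (P.cons (P.cons (P.lf 9652071 0 0) (P.cons (P.lf 0 381528 0) (P.cons (P.lf 0 4644 0) (P.lf 513 0 0)))) (P.cons (P.cons (P.lf 0 773109 0) (P.cons (P.lf 0 13263 0) (P.cons (P.lf 0 159 0) P.nil))) (P.cons (P.cons (P.lf 0 51390 0) (P.cons (P.lf 4251 0 0) P.nil)) (P.cons (P.cons (P.lf 7245 0 0) P.nil) P.nil)))))) 1437)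
 (EL.cons 11 (TM.mk (P.cons (P.cons (P.lf 364996326 0 0) (P.cons (P.lf 10329030 0 0) (P.cons (P.lf 0 1686474 0) (P.cons (P.lf 0 11676 0) (P.lf 972 0 0))))) (P.cons (P.cons (P.lf 0 70791747 0) (P.cons (P.lf 0 2003334 0) (P.cons (P.lf 327093 0 0) (P.cons (P.lf 2265 0 0) (P.lf 0 189 0))))) (P.cons (P.cons (P.lf 0 1980960 0) (P.cons (P.lf 0 56058 0) (P.cons (P.lf 9150 0 0) (P.cons (P.lf 60 0 0) P.nil)))) (P.cons (P.cons (P.lf 637887 0 0) (P.cons (P.lf 18051 0 0) (P.cons (P.lf 0 2946 0) P.nil))) (P.cons (P.cons (P.lf 20388 0 0) (P.cons (P.lf 576 0 0) P.nil)) (P.cons (P.cons (P.lf 0 1926 0) P.nil) P.nil)))))) 591)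
 EL.nil)))
noncomputable def S198_212_438_475_26 : EL := (EL.cons 4 (TM.mk (P.cons (P.cons (P.lf 0 30706902 0) (P.cons (P.lf 11685873 0 0) (P.cons (P.lf 0 853320 0) (P.cons (P.lf 0 40065 0) (P.cons (P.lf 2547 0 0) (P.cons (P.lf 30 0 0) P.nil)))))) (P.cons (P.cons (P.lf 30085209 0 0) (P.cons (P.lf 0 5641479 0) (P.cons (P.lf 139395 0 0) (P.cons (P.lf 12702 0 0) (P.cons (P.lf 0 531 0) P.nil))))) (P.cons (P.cons (P.lf 0 3736518 0) (P.cons (P.lf 199917 0 0) (P.cons (P.lf 22533 0 0) (P.cons (P.lf 216 0 0) P.nil)))) (P.cons (P.cons (P.lf 0 859851 0) (P.cons (P.lf 149124 0 0) (P.cons (P.lf 0 2832 0) P.nil))) (P.cons (P.cons (P.lf 143232 0 0) (P.cons (P.lf 0 6489 0) P.nil)) (P.cons (P.cons (P.lf 7470 0 0) P.nil) P.nil)))))) 5583)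
 (EL.cons 8 (TM.mk (P.cons (P.cons (P.lf 8582289 0 0) (P.cons (P.lf 0 3266091 0) (P.cons (P.lf 238494 0 0) (P.cons (P.lf 11196 0 0) (P.cons (P.lf 0 711 0) (P.cons (P.lf 0 9 0) P.nil)))))) (P.cons (P.cons (P.lf 0 9709470 0) (P.cons (P.lf 2071827 0 0) (P.cons (P.lf 0 75111 0) (P.cons (P.lf 0 5247 0) (P.cons (P.lf 255 0 0) P.nil))))) (P.cons (P.cons (P.lf 2346003 0 0) (P.cons (P.lf 0 305190 0) (P.cons (P.lf 360 0 0) (P.cons (P.lf 510 0 0) P.nil)))) (P.cons (P.cons (P.lf 53817 0 0) (P.cons (P.lf 0 27597 0) (P.cons (P.lf 1575 0 0) P.nil))) (P.cons (P.cons (P.lf 0 71481 0) (P.cons (P.lf 7629 0 0) P.nil)) (P.cons (P.cons (P.lf 4482 0 0) P.nil) P.nil)))))) 2430)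
 (EL.cons 11 (TM.mk (P.cons (P.cons (P.lf 110020392 0 0) (P.cons (P.lf 0 11054817 0) (P.cons (P.lf 0 1081863 0) (P.cons (P.lf 76233 0 0) (P.cons (P.lf 2085 0 0) (P.cons (P.lf 0 120 0) P.nil)))))) (P.cons (P.cons (P.lf 0 16729308 0) (P.cons (P.lf 1113984 0 0) (P.cons (P.lf 141552 0 0) (P.cons (P.lf 0 8400 0) (P.cons (P.lf 0 243 0) P.nil))))) (P.cons (P.cons (P.lf 0 3305859 0) (P.cons (P.lf 241335 0 0) (P.cons (P.lf 28827 0 0) (P.cons (P.lf 0 1776 0) P.nil)))) (P.cons (P.cons (P.lf 504864 0 0) (P.cons (P.lf 0 5445 0) (P.cons (P.lf 0 3129 0) P.nil))) (P.cons (P.cons (P.lf 32571 0 0) (P.cons (P.lf 0 3048 0) P.nil)) (P.cons (P.cons (P.lf 0 4407 0) P.nil) P.nil)))))) 1956)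
 EL.nil)))
noncomputable def S198_212_438_475_27 : EL := (EL.cons 13 (TM.mk (P.lf 0 4294967296 0) 0)
 EL.nil)
noncomputable def S198_212_438_475_28 : EL := (EL.cons 13 (TM.mk (P.cons (P.cons (P.lf 0 1294626724 0) (P.cons (P.lf 166720384 0 0) (P.cons (P.lf 2030580 0 0) (P.lf 0 225616 0)))) (P.cons (P.cons (P.lf 0 54239032 0) (P.cons (P.lf 13656468 0 0) (P.cons (P.lf 166328 0 0) (P.lf 0 18480 0)))) (P.cons (P.cons (P.lf 21354408 0 0) (P.cons (P.lf 0 387136 0) (P.cons (P.lf 0 4712 0) (P.lf 520 0 0)))) (P.cons (P.cons (P.lf 169076 0 0) (P.cons (P.lf 0 60128 0) (P.cons (P.lf 0 728 0) P.nil))) (P.cons (P.cons (P.lf 0 67486 0) (P.cons (P.lf 0 220 0) P.nil)) (P.cons (P.cons (P.lf 0 1406 0) P.nil) P.nil)))))) 731)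
 EL.nil)
noncomputable def S198_212_438_475_29 : EL := (EL.cons 13 (TM.mk (P.cons (P.cons (P.lf 0 390237745 0) (P.cons (P.lf 100508641 0 0) (P.cons (P.lf 0 5247537 0) (P.cons (P.lf 0 293658 0) (P.cons (P.lf 16555 0 0) (P.cons (P.lf 213 0 0) P.nil)))))) (P.cons (P.cons (P.lf 0 32698409 0) (P.cons (P.lf 12443764 0 0) (P.cons (P.lf 0 908664 0) (P.cons (P.lf 0 42665 0) (P.cons (P.lf 2712 0 0) P.nil))))) (P.cons (P.cons (P.lf 12188707 0 0) (P.cons (P.lf 0 1546320 0) (P.cons (P.lf 0 32198 0) (P.cons (P.lf 1764 0 0) P.nil)))) (P.cons (P.cons (P.lf 641277 0 0) (P.cons (P.lf 0 194951 0) (P.cons (P.lf 4758 0 0) P.nil))) (P.cons (P.cons (P.lf 0 142587 0) (P.cons (P.lf 6362 0 0) P.nil)) (P.cons (P.cons (P.lf 0 4233 0) P.nil) P.nil)))))) 3780)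
 EL.nil)
noncomputable def S198_212_438_475_30 : EL := (EL.cons 13 (TM.mk (P.cons (P.lf 1630392056 0 0) (P.cons (P.lf 0 202625308 0) (P.cons (P.lf 0 4080764 0) (P.cons (P.lf 127476 0 0) (P.cons (P.lf 5284 0 0) (P.cons (P.lf 0 44 0) P.nil)))))) 48)
 EL.nil)
noncomputable def S198_212_438_475_31 : EL := (EL.cons 13 (TM.mk (P.cons (P.cons (P.lf 491447077 0 0) (P.cons (P.lf 0 63287930 0) (P.cons (P.lf 0 770818 0) (P.lf 85645 0 0)))) (P.cons (P.cons (P.lf 0 40487677 0) (P.cons (P.lf 2681364 0 0) (P.cons (P.lf 32658 0 0) (P.lf 0 3628 0)))) (P.cons (P.cons (P.lf 0 11895160 0) (P.cons (P.lf 949640 0 0) (P.cons (P.lf 11564 0 0) (P.lf 0 1283 0)))) (P.cons (P.cons (P.lf 930153 0 0) (P.cons (P.lf 12587 0 0) (P.cons (P.lf 151 0 0) P.nil))) (P.cons (P.cons (P.lf 57086 0 0) (P.cons (P.lf 0 3731 0) P.nil)) (P.cons (P.cons (P.lf 0 3069 0) P.nil) P.nil)))))) 712)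
 EL.nil)
noncomputable def S198_212_438_475_32 : EL := (EL.cons 13 (TM.mk (P.cons (P.cons (P.lf 148136289 0 0) (P.cons (P.lf 0 38153605 0) (P.cons (P.lf 1991992 0 0) (P.cons (P.lf 111474 0 0) (P.cons (P.lf 0 6284 0) (P.cons (P.lf 0 80 0) P.nil)))))) (P.cons (P.cons (P.lf 0 5997907 0) (P.cons (P.lf 18016 0 0) (P.cons (P.lf 97368 0 0) (P.cons (P.lf 2341 0 0) (P.cons (P.lf 0 248 0) P.nil))))) (P.cons (P.cons (P.lf 0 6540297 0) (P.cons (P.lf 1269551 0 0) (P.cons (P.lf 0 35631 0) (P.cons (P.lf 0 2961 0) P.nil)))) (P.cons (P.cons (P.lf 312113 0 0) (P.cons (P.lf 9893 0 0) (P.cons (P.lf 0 4032 0) P.nil))) (P.cons (P.cons (P.lf 97411 0 0) (P.cons (P.lf 0 13574 0) P.nil)) (P.cons (P.cons (P.lf 0 4836 0) P.nil) P.nil)))))) 3174)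
 EL.nil)
noncomputable def S198_212_438_475_33 : EL := (EL.cons 14 (TM.mk (P.lf 8589934592 0 0) 0)
 EL.nil)
noncomputable def S198_212_438_475_34 : EL := (EL.cons 14 (TM.mk (P.cons (P.cons (P.lf 2589253448 0 0) (P.cons (P.lf 0 333440768 0) (P.cons (P.lf 0 4061160 0) (P.lf 451232 0 0)))) (P.cons (P.cons (P.lf 108478064 0 0) (P.cons (P.lf 0 27312936 0) (P.cons (P.lf 0 332656 0) (P.lf 36960 0 0)))) (P.cons (P.cons (P.lf 0 42708816 0) (P.cons (P.lf 774272 0 0) (P.cons (P.lf 9424 0 0) (P.lf 0 1040 0)))) (P.cons (P.cons (P.lf 0 338152 0) (P.cons (P.lf 120256 0 0) (P.cons (P.lf 1456 0 0) P.nil))) (P.cons (P.cons (P.lf 134972 0 0) (P.cons (P.lf 440 0 0) P.nil)) (P.cons (P.cons (P.lf 2812 0 0) P.nil) P.nil)))))) 1462)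
 EL.nil)
noncomputable def S198_212_438_475_35 : EL := (EL.cons 14 (TM.mk (P.cons (P.cons (P.lf 780475490 0 0) (P.cons (P.lf 0 201017282 0) (P.cons (P.lf 10495074 0 0) (P.cons (P.lf 587316 0 0) (P.cons (P.lf 0 33110 0) (P.cons (P.lf 0 426 0) P.nil)))))) (P.cons (P.cons (P.lf 65396818 0 0) (P.cons (P.lf 0 24887528 0) (P.cons (P.lf 1817328 0 0) (P.cons (P.lf 85330 0 0) (P.cons (P.lf 0 5424 0) P.nil))))) (P.cons (P.cons (P.lf 0 24377414 0) (P.cons (P.lf 3092640 0 0) (P.cons (P.lf 64396 0 0) (P.cons (P.lf 0 3528 0) P.nil)))) (P.cons (P.cons (P.lf 0 1282554 0) (P.cons (P.lf 389902 0 0) (P.cons (P.lf 0 9516 0) P.nil))) (P.cons (P.cons (P.lf 285174 0 0) (P.cons (P.lf 0 12724 0) P.nil)) (P.cons (P.cons (P.lf 8466 0 0) P.nil) P.nil)))))) 7560)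
 EL.nil)
noncomputable def S198_212_438_475_36 : EL := (EL.cons 14 (TM.mk (P.cons (P.lf 0 3260784112 0) (P.cons (P.lf 405250616 0 0) (P.cons (P.lf 8161528 0 0) (P.cons (P.lf 0 254952 0) (P.cons (P.lf 0 10568 0) (P.cons (P.lf 88 0 0) P.nil)))))) 96)
 EL.nil)
noncomputable def S198_212_438_475_37 : EL := (EL.cons 14 (TM.mk (P.cons (P.cons (P.lf 0 982894154 0) (P.cons (P.lf 126575860 0 0) (P.cons (P.lf 1541636 0 0) (P.lf 0 171290 0)))) (P.cons (P.cons (P.lf 80975354 0 0) (P.cons (P.lf 0 5362728 0) (P.cons (P.lf 0 65316 0) (P.lf 7256 0 0)))) (P.cons (P.cons (P.lf 23790320 0 0) (P.cons (P.lf 0 1899280 0) (P.cons (P.lf 0 23128 0) (P.lf 2566 0 0)))) (P.cons (P.cons (P.lf 0 1860306 0) (P.cons (P.lf 0 25174 0) (P.cons (P.lf 0 302 0) P.nil))) (P.cons (P.cons (P.lf 0 114172 0) (P.cons (P.lf 7462 0 0) P.nil)) (P.cons (P.cons (P.lf 6138 0 0) P.nil) P.nil)))))) 1424)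
 EL.nil)
noncomputable def S198_212_438_475_38 : EL := (EL.cons 14 (TM.mk (P.cons (P.cons (P.lf 0 296272578 0) (P.cons (P.lf 76307210 0 0) (P.cons (P.lf 0 3983984 0) (P.cons (P.lf 0 222948 0) (P.cons (P.lf 12568 0 0) (P.cons (P.lf 160 0 0) P.nil)))))) (P.cons (P.cons (P.lf 11995814 0 0) (P.cons (P.lf 0 36032 0) (P.cons (P.lf 0 194736 0) (P.cons (P.lf 0 4682 0) (P.cons (P.lf 496 0 0) P.nil))))) (P.cons (P.cons (P.lf 13080594 0 0) (P.cons (P.lf 0 2539102 0) (P.cons (P.lf 71262 0 0) (P.cons (P.lf 5922 0 0) P.nil)))) (P.cons (P.cons (P.lf 0 624226 0) (P.cons (P.lf 0 19786 0) (P.cons (P.lf 8064 0 0) P.nil))) (P.cons (P.cons (P.lf 0 194822 0) (P.cons (P.lf 27148 0 0) P.nil)) (P.cons (P.cons (P.lf 9672 0 0) P.nil) P.nil)))))) 6348)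
 EL.nil)
noncomputable def S198_212_438_475_39 : EL := (EL.cons 14 (TM.mk (P.cons (P.lf 1237810708 0 0) (P.cons (P.lf 0 307670508 0) (P.cons (P.lf 12922344 0 0) (P.cons (P.lf 963640 0 0) (P.cons (P.lf 0 8278 0) (P.cons (P.lf 0 1548 0) P.nil)))))) 132)
 EL.nil)
noncomputable def S198_212_438_475_40 : EL := (EL.cons 14 (TM.mk (P.cons (P.cons (P.lf 373111762 0 0) (P.cons (P.lf 0 48048858 0) (P.cons (P.lf 0 585212 0) (P.lf 65022 0 0)))) (P.cons (P.cons (P.lf 0 77109040 0) (P.cons (P.lf 8007236 0 0) (P.cons (P.lf 97524 0 0) (P.lf 0 10836 0)))) (P.cons (P.cons (P.lf 0 6144598 0) (P.cons (P.lf 588240 0 0) (P.cons (P.lf 7162 0 0) (P.lf 0 794 0)))) (P.cons (P.cons (P.lf 1934656 0 0) (P.cons (P.lf 0 88898 0) (P.cons (P.lf 0 1082 0) P.nil))) (P.cons (P.cons (P.lf 0 23014 0) (P.cons (P.lf 0 5820 0) P.nil)) (P.cons (P.cons (P.lf 0 10300 0) P.nil) P.nil)))))) 1432)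
 EL.nil)
noncomputable def S198_212_438_475_41 : EL := (EL.cons 14 (TM.mk (P.cons (P.cons (P.lf 112466620 0 0) (P.cons (P.lf 0 28966616 0) (P.cons (P.lf 1512340 0 0) (P.cons (P.lf 84632 0 0) (P.cons (P.lf 0 4770 0) (P.cons (P.lf 0 60 0) P.nil)))))) (P.cons (P.cons (P.lf 0 18531038 0) (P.cons (P.lf 3613652 0 0) (P.cons (P.lf 0 114030 0) (P.cons (P.lf 0 8740 0) (P.cons (P.lf 404 0 0) P.nil))))) (P.cons (P.cons (P.lf 0 4681026 0) (P.cons (P.lf 1034658 0 0) (P.cons (P.lf 0 40024 0) (P.cons (P.lf 0 2680 0) P.nil)))) (P.cons (P.cons (P.lf 874258 0 0) (P.cons (P.lf 0 114576 0) (P.cons (P.lf 232 0 0) P.nil))) (P.cons (P.cons (P.lf 56942 0 0) (P.cons (P.lf 0 13744 0) P.nil)) (P.cons (P.cons (P.lf 0 13862 0) P.nil) P.nil)))))) 5206)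
 EL.nil)
noncomputable def S198_212_438_475_42 : EL := (EL.cons 14 (TM.mk (P.cons (P.lf 0 469879420 0) (P.cons (P.lf 175190000 0 0) (P.cons (P.lf 0 18244400 0) (P.cons (P.lf 0 85224 0) (P.cons (P.lf 68490 0 0) (P.cons (P.lf 1120 0 0) P.nil)))))) 218)
 EL.nil)
noncomputable def S198_212_438_475_43 : EL := (EL.cons 14 (TM.mk (P.cons (P.cons (P.lf 0 141635176 0) (P.cons (P.lf 18239598 0 0) (P.cons (P.lf 222150 0 0) (P.lf 0 24682 0)))) (P.cons (P.cons (P.lf 46873430 0 0) (P.cons (P.lf 0 5306408 0) (P.cons (P.lf 0 64628 0) (P.lf 7180 0 0)))) (P.cons (P.cons (P.lf 0 950776 0) (P.cons (P.lf 108808 0 0) (P.cons (P.lf 1324 0 0) (P.lf 0 146 0)))) (P.cons (P.cons (P.lf 0 1108628 0) (P.cons (P.lf 70530 0 0) (P.cons (P.lf 858 0 0) P.nil))) (P.cons (P.cons (P.lf 95998 0 0) (P.cons (P.lf 0 1602 0) P.nil)) (P.cons (P.cons (P.lf 4942 0 0) P.nil) P.nil)))))) 1696)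
 EL.nil)
noncomputable def S198_212_438_475_44 : EL := (EL.cons 14 (TM.mk (P.cons (P.cons (P.lf 0 42692916 0) (P.cons (P.lf 10995878 0 0) (P.cons (P.lf 0 574092 0) (P.cons (P.lf 0 32126 0) (P.cons (P.lf 1810 0 0) (P.cons (P.lf 22 0 0) P.nil)))))) (P.cons (P.cons (P.lf 12340358 0 0) (P.cons (P.lf 0 2738330 0) (P.cons (P.lf 114634 0 0) (P.cons (P.lf 7310 0 0) (P.cons (P.lf 0 378 0) P.nil))))) (P.cons (P.cons (P.lf 1009554 0 0) (P.cons (P.lf 0 249800 0) (P.cons (P.lf 11250 0 0) (P.cons (P.lf 684 0 0) P.nil)))) (P.cons (P.cons (P.lf 0 573656 0) (P.cons (P.lf 96598 0 0) (P.cons (P.lf 0 2130 0) P.nil))) (P.cons (P.cons (P.lf 15592 0 0) (P.cons (P.lf 722 0 0) P.nil)) (P.cons (P.cons (P.lf 8942 0 0) P.nil) P.nil)))))) 4038)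
 EL.nil)
noncomputable def S198_212_438_475_45 : EL := (EL.cons 14 (TM.mk (P.cons (P.cons (P.lf 235257768 0 0) (P.cons (P.lf 0 90888588 0) (P.cons (P.lf 10597534 0 0) (P.cons (P.lf 0 94322 0) (P.cons (P.lf 0 48298 0) (P.cons (P.lf 1430 0 0) P.nil)))))) (P.cons (P.cons (P.lf 29568724 0 0) (P.cons (P.lf 0 15060548 0) (P.cons (P.lf 2224426 0 0) (P.cons (P.lf 0 44432 0) (P.cons (P.lf 0 10670 0) P.nil))))) (P.cons (P.cons (P.lf 0 10402682 0) (P.cons (P.lf 2426052 0 0) (P.cons (P.lf 0 59004 0) (P.cons (P.lf 0 12050 0) P.nil)))) (P.cons (P.cons (P.lf 0 1050322 0) (P.cons (P.lf 432354 0 0) (P.cons (P.lf 0 39774 0) P.nil))) (P.cons (P.cons (P.lf 200654 0 0) (P.cons (P.lf 0 24700 0) P.nil)) (P.cons (P.cons (P.lf 14772 0 0) P.nil) P.nil)))))) 17060)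
 EL.nil)
noncomputable def S198_212_438_475_46 : EL := (EL.cons 15 (TM.mk (P.lf 4294967296 0 0) 0)
 EL.nil)
noncomputable def S198_212_438_475_47 : EL := (EL.cons 15 (TM.mk (P.cons (P.cons (P.lf 1294626724 0 0) (P.cons (P.lf 0 166720384 0) (P.cons (P.lf 0 2030580 0) (P.lf 225616 0 0)))) (P.cons (P.cons (P.lf 54239032 0 0) (P.cons (P.lf 0 13656468 0) (P.cons (P.lf 0 166328 0) (P.lf 18480 0 0)))) (P.cons (P.cons (P.lf 0 21354408 0) (P.cons (P.lf 387136 0 0) (P.cons (P.lf 4712 0 0) (P.lf 0 520 0)))) (P.cons (P.cons (P.lf 0 169076 0) (P.cons (P.lf 60128 0 0) (P.cons (P.lf 728 0 0) P.nil))) (P.cons (P.cons (P.lf 67486 0 0) (P.cons (P.lf 220 0 0) P.nil)) (P.cons (P.cons (P.lf 1406 0 0) P.nil) P.nil)))))) 731)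
 EL.nil)
noncomputable def S198_212_438_475_48 : EL := (EL.cons 15 (TM.mk (P.cons (P.cons (P.lf 390237745 0 0) (P.cons (P.lf 0 100508641 0) (P.cons (P.lf 5247537 0 0) (P.cons (P.lf 293658 0 0) (P.cons (P.lf 0 16555 0) (P.cons (P.lf 0 213 0) P.nil)))))) (P.cons (P.cons (P.lf 32698409 0 0) (P.cons (P.lf 0 12443764 0) (P.cons (P.lf 908664 0 0) (P.cons (P.lf 42665 0 0) (P.cons (P.lf 0 2712 0) P.nil))))) (P.cons (P.cons (P.lf 0 12188707 0) (P.cons (P.lf 1546320 0 0) (P.cons (P.lf 32198 0 0) (P.cons (P.lf 0 1764 0) P.nil)))) (P.cons (P.cons (P.lf 0 641277 0) (P.cons (P.lf 194951 0 0) (P.cons (P.lf 0 4758 0) P.nil))) (P.cons (P.cons (P.lf 142587 0 0) (P.cons (P.lf 0 6362 0) P.nil)) (P.cons (P.cons (P.lf 4233 0 0) P.nil) P.nil)))))) 3780)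
 EL.nil)
noncomputable def S198_212_438_475 : SL := (SL.cons S198_212_438_475_0 (SL.cons S198_212_438_475_1 (SL.cons S198_212_438_475_2 (SL.cons S198_212_438_475_3 (SL.cons S198_212_438_475_4 (SL.cons S198_212_438_475_5 (SL.cons S198_212_438_475_6 (SL.cons S198_212_438_475_7 (SL.cons S198_212_438_475_8 (SL.cons S198_212_438_475_9 (SL.cons S198_212_438_475_10 (SL.cons S198_212_438_475_11 (SL.cons S198_212_438_475_12 (SL.cons S198_212_438_475_13 (SL.cons S198_212_438_475_14 (SL.cons S198_212_438_475_15 (SL.cons S198_212_438_475_16 (SL.cons S198_212_438_475_17 (SL.cons S198_212_438_475_18 (SL.cons S198_212_438_475_19 (SL.cons S198_212_438_475_20 (SL.cons S198_212_438_475_21 (SL.cons S198_212_438_475_22 (SL.cons S198_212_438_475_23 (SL.cons S198_212_438_475_24 (SL.cons S198_212_438_475_25 (SL.cons S198_212_438_475_26 (SL.cons S198_212_438_475_27 (SL.cons S198_212_438_475_28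 (SL.cons S198_212_438_475_29 (SL.cons S198_212_438_475_30 (SL.cons S198_212_438_475_31 (SL.cons S198_212_438_475_32 (SL.cons S198_212_438_475_33 (SL.cons S198_212_438_475_34 (SL.cons S198_212_438_475_35 (SL.cons S198_212_438_475_36 (SL.cons S198_212_438_475_37 (SL.cons S198_212_438_475_38 (SL.cons S198_212_438_475_39 (SL.cons S198_212_438_475_40 (SL.cons S198_212_438_475_41 (SL.cons S198_212_438_475_42 (SL.cons S198_212_438_475_43 (SL.cons S198_212_438_475_44 (SL.cons S198_212_438_475_45 (SL.cons S198_212_438_475_46 (SL.cons S198_212_438_475_47 (SL.cons S198_212_438_475_48 SL.nil)))))))))))))))))))))))))))))))))))))))))))))))))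
noncomputable def S198_212_438_512_0 : EL := (EL.cons 0 (TM.mk (P.cons (P.lf 7367797296 0 0) (P.cons (P.lf 270413532 0 0) (P.cons (P.lf 0 11357528 0) (P.cons (P.lf 0 846949 0) (P.cons (P.lf 7275 0 0) (P.cons (P.lf 1360 0 0) P.nil)))))) 123)
 (EL.cons 1 (TM.mk (P.cons (P.lf 0 1384003233 0) (P.cons (P.lf 134215061 0 0) (P.cons (P.lf 10263551 0 0) (P.cons (P.lf 0 214061 0) (P.cons (P.lf 0 21358 0) (P.cons (P.lf 0 5 0) P.nil)))))) 123)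
 (EL.cons 5 (TM.mk (P.cons (P.lf 4681783146 0 0) (P.cons (P.lf 0 96147034 0) (P.cons (P.lf 4038232 0 0) (P.cons (P.lf 301136 0 0) (P.cons (P.lf 0 2584 0) (P.cons (P.lf 0 484 0) P.nil)))))) 121)
 (EL.cons 9 (TM.mk (P.lf 6442450944 0 0) 2)
 EL.nil))))
noncomputable def S198_212_438_512_1 : EL := (EL.cons 0 (TM.mk (P.cons (P.cons (P.lf 1556655850 0 0) (P.cons (P.lf 0 325085692 0) (P.cons (P.lf 0 5174174 0) (P.lf 1724727 0 0)))) (P.cons (P.cons (P.lf 570457485 0 0) (P.cons (P.lf 0 112307627 0) (P.cons (P.lf 0 1787516 0) (P.lf 595832 0 0)))) (P.cons (P.cons (P.lf 0 74168662 0) (P.cons (P.lf 0 2664727 0) (P.cons (P.lf 0 42411 0) (P.lf 14134 0 0)))) (P.cons (P.cons (P.lf 0 6789074 0) (P.cons (P.lf 879318 0 0) (P.cons (P.lf 13990 0 0) P.nil))) (P.cons (P.cons (P.lf 421063 0 0) (P.cons (P.lf 42651 0 0) P.nil)) (P.cons (P.cons (P.lf 40554 0 0) P.nil) P.nil)))))) 16963)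
 (EL.cons 1 (TM.mk (P.cons (P.cons (P.lf 0 549054187 0) (P.cons (P.lf 237943467 0 0) (P.cons (P.lf 3787179 0 0) (P.lf 0 1262386 0)))) (P.cons (P.cons (P.lf 191565256 0 0) (P.cons (P.lf 7368538 0 0) (P.cons (P.lf 117277 0 0) (P.lf 0 39094 0)))) (P.cons (P.cons (P.lf 37988129 0 0) (P.cons (P.lf 0 5430310 0) (P.cons (P.lf 0 86422 0) (P.lf 28797 0 0)))) (P.cons (P.cons (P.lf 0 2906192 0) (P.cons (P.lf 0 269088 0) (P.cons (P.lf 0 4277 0) P.nil))) (P.cons (P.cons (P.lf 0 327612 0) (P.cons (P.lf 27404 0 0) P.nil)) (P.cons (P.cons (P.lf 10569 0 0) P.nil) P.nil)))))) 9080)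
 (EL.cons 5 (TM.mk (P.cons (P.cons (P.lf 1360894712 0 0) (P.cons (P.lf 0 462769916 0) (P.cons (P.lf 0 7365594 0) (P.lf 2455196 0 0)))) (P.cons (P.cons (P.lf 0 134090308 0) (P.cons (P.lf 0 7442934 0) (P.cons (P.lf 0 118472 0) (P.lf 39496 0 0)))) (P.cons (P.cons (P.lf 0 9266162 0) (P.cons (P.lf 2290454 0 0) (P.cons (P.lf 36454 0 0) (P.lf 0 12148 0)))) (P.cons (P.cons (P.lf 2229786 0 0) (P.cons (P.lf 0 104046 0) (P.cons (P.lf 0 1656 0) P.nil))) (P.cons (P.cons (P.lf 0 34595 0) (P.cons (P.lf 0 14384 0) P.nil)) (P.cons (P.cons (P.lf 0 12241 0) P.nil) P.nil)))))) 9507)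
 (EL.cons 9 (TM.mk (P.cons (P.cons (P.lf 1689152064 0 0) (P.cons (P.lf 0 510314058 0) (P.cons (P.lf 0 8122320 0) (P.lf 2707434 0 0)))) (P.cons (P.cons (P.lf 60652074 0 0) (P.cons (P.lf 0 41801052 0) (P.cons (P.lf 0 665316 0) (P.lf 221772 0 0)))) (P.cons (P.cons (P.lf 0 31444614 0) (P.cons (P.lf 1184994 0 0) (P.cons (P.lf 18858 0 0) (P.lf 0 6282 0)))) (P.cons (P.cons (P.lf 0 162438 0) (P.cons (P.lf 184050 0 0) (P.cons (P.lf 2928 0 0) P.nil))) (P.cons (P.cons (P.lf 101565 0 0) (P.cons (P.lf 684 0 0) P.nil)) (P.cons (P.cons (P.lf 1911 0 0) P.nil) P.nil)))))) 2273)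
 (EL.cons 2 (TM.mk (P.cons (P.cons (P.lf 922738649 0 0) (P.cons (P.lf 34204663 0 0) (P.cons (P.lf 0 16948532 0) (P.cons (P.lf 0 153795 0) (P.lf 38446 0 0))))) (P.cons (P.cons (P.lf 0 64288895 0) (P.cons (P.lf 0 2383101 0) (P.cons (P.lf 1180833 0 0) (P.cons (P.lf 10715 0 0) (P.lf 0 2677 0))))) (P.cons (P.cons (P.lf 0 10688298 0) (P.cons (P.lf 0 396196 0) (P.cons (P.lf 196318 0 0) (P.cons (P.lf 1780 0 0) P.nil)))) (P.cons (P.cons (P.lf 51226 0 0) (P.cons (P.lf 1898 0 0) (P.cons (P.lf 0 939 0) P.nil))) (P.cons (P.cons (P.lf 33193 0 0) (P.cons (P.lf 1229 0 0) P.nil)) (P.cons (P.cons (P.lf 450 0 0) P.nil) P.nil)))))) 1539)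
 (EL.cons 6 (TM.mk (P.cons (P.cons (P.lf 1173867363 0 0) (P.cons (P.lf 43513662 0 0) (P.cons (P.lf 0 21561174 0) (P.cons (P.lf 0 195654 0) (P.lf 48912 0 0))))) (P.cons (P.cons (P.lf 96154308 0 0) (P.cons (P.lf 3564306 0 0) (P.cons (P.lf 0 1766124 0) (P.cons (P.lf 0 16023 0) (P.lf 4005 0 0))))) (P.cons (P.cons (P.lf 0 2725830 0) (P.cons (P.lf 0 101040 0) (P.cons (P.lf 50067 0 0) (P.cons (P.lf 453 0 0) P.nil)))) (P.cons (P.cons (P.lf 0 423375 0) (P.cons (P.lf 0 15693 0) (P.cons (P.lf 7776 0 0) P.nil))) (P.cons (P.cons (P.lf 0 1572 0) (P.cons (P.lf 0 57 0) P.nil)) (P.cons (P.cons (P.lf 900 0 0) P.nil) P.nil)))))) 930)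
 EL.nil))))))
noncomputable def S198_212_438_512_2 : EL := (EL.cons 0 (TM.mk (P.cons (P.cons (P.lf 309789638 0 0) (P.cons (P.lf 0 111042653 0) (P.cons (P.lf 3504877 0 0) (P.cons (P.lf 756970 0 0) (P.cons (P.lf 0 54610 0) (P.cons (P.lf 0 900 0) P.nil)))))) (P.cons (P.cons (P.lf 273485230 0 0) (P.cons (P.lf 0 128297622 0) (P.cons (P.lf 10698488 0 0) (P.cons (P.lf 1086223 0 0) (P.cons (P.lf 0 131957 0) P.nil))))) (P.cons (P.cons (P.lf 0 25697093 0) (P.cons (P.lf 0 74597 0) (P.cons (P.lf 1456575 0 0) (P.cons (P.lf 46796 0 0) P.nil)))) (P.cons (P.cons (P.lf 0 9046748 0) (P.cons (P.lf 2935544 0 0) (P.cons (P.lf 0 53462 0) P.nil))) (P.cons (P.cons (P.lf 608405 0 0) (P.cons (P.lf 93680 0 0) P.nil)) (P.cons (P.cons (P.lf 101001 0 0) P.nil) P.nil)))))) 128352)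
 (EL.cons 1 (TM.mk (P.cons (P.cons (P.lf 0 192772009 0) (P.cons (P.lf 154268469 0 0) (P.cons (P.lf 0 26556370 0) (P.cons (P.lf 0 1741974 0) (P.cons (P.lf 300491 0 0) (P.cons (P.lf 4894 0 0) P.nil)))))) (P.cons (P.cons (P.lf 87721264 0 0) (P.cons (P.lf 0 16077361 0) (P.cons (P.lf 0 3930453 0) (P.cons (P.lf 0 31673 0) (P.cons (P.lf 38053 0 0) P.nil))))) (P.cons (P.cons (P.lf 24099202 0 0) (P.cons (P.lf 0 11619875 0) (P.cons (P.lf 482823 0 0) (P.cons (P.lf 82890 0 0) P.nil)))) (P.cons (P.cons (P.lf 0 2500821 0) (P.cons (P.lf 0 261016 0) (P.cons (P.lf 104725 0 0) P.nil))) (P.cons (P.cons (P.lf 0 538561 0) (P.cons (P.lf 158067 0 0) P.nil)) (P.cons (P.cons (P.lf 28921 0 0) P.nil) P.nil)))))) 65735)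
 (EL.cons 5 (TM.mk (P.cons (P.cons (P.lf 391783601 0 0) (P.cons (P.lf 0 263797496 0) (P.cons (P.lf 39738974 0 0) (P.cons (P.lf 2798200 0 0) (P.cons (P.lf 0 455073 0) (P.cons (P.lf 0 7410 0) P.nil)))))) (P.cons (P.cons (P.lf 0 61193690 0) (P.cons (P.lf 9884789 0 0) (P.cons (P.lf 3132561 0 0) (P.cons (P.lf 42274 0 0) (P.cons (P.lf 0 30829 0) P.nil))))) (P.cons (P.cons (P.lf 0 8903643 0) (P.cons (P.lf 5484494 0 0) (P.cons (P.lf 0 336392 0) (P.cons (P.lf 0 42576 0) P.nil)))) (P.cons (P.cons (P.lf 2449062 0 0) (P.cons (P.lf 0 417458 0) (P.cons (P.lf 0 21505 0) P.nil))) (P.cons (P.cons (P.lf 14524 0 0) (P.cons (P.lf 0 57926 0) P.nil)) (P.cons (P.cons (P.lf 0 30802 0) P.nil) P.nil)))))) 66045)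
 (EL.cons 9 (TM.mk (P.cons (P.cons (P.lf 442880313 0 0) (P.cons (P.lf 0 267599412 0) (P.cons (P.lf 36163374 0 0) (P.cons (P.lf 2706486 0 0) (P.cons (P.lf 0 418677 0) (P.cons (P.lf 0 6826 0) P.nil)))))) (P.cons (P.cons (P.lf 31804843 0 0) (P.cons (P.lf 0 31528354 0) (P.cons (P.lf 6120405 0 0) (P.cons (P.lf 378072 0 0) (P.cons (P.lf 0 68589 0) P.nil))))) (P.cons (P.cons (P.lf 0 15917977 0) (P.cons (P.lf 4815850 0 0) (P.cons (P.lf 160140 0 0) (P.cons (P.lf 0 22888 0) P.nil)))) (P.cons (P.cons (P.lf 0 677245 0) (P.cons (P.lf 552606 0 0) (P.cons (P.lf 0 35739 0) P.nil))) (P.cons (P.cons (P.lf 203676 0 0) (P.cons (P.lf 0 21724 0) P.nil)) (P.cons (P.cons (P.lf 4500 0 0) P.nil) P.nil)))))) 21671)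
 (EL.cons 2 (TM.mk (P.cons (P.cons (P.lf 483867365 0 0) (P.cons (P.lf 0 128246101 0) (P.cons (P.lf 0 16632967 0) (P.cons (P.lf 3293685 0 0) (P.cons (P.lf 116010 0 0) (P.cons (P.lf 0 19946 0) P.nil)))))) (P.cons (P.cons (P.lf 0 16337790 0) (P.cons (P.lf 0 2394973 0) (P.cons (P.lf 205278 0 0) (P.cons (P.lf 44026 0 0) (P.cons (P.lf 489 0 0) P.nil))))) (P.cons (P.cons (P.lf 0 15822725 0) (P.cons (P.lf 2280448 0 0) (P.cons (P.lf 442530 0 0) (P.cons (P.lf 0 63534 0) P.nil)))) (P.cons (P.cons (P.lf 406648 0 0) (P.cons (P.lf 174729 0 0) (P.cons (P.lf 984 0 0) P.nil))) (P.cons (P.cons (P.lf 155041 0 0) (P.cons (P.lf 0 7582 0) P.nil)) (P.cons (P.cons (P.lf 0 573 0) P.nil) P.nil)))))) 18680)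
 (EL.cons 6 (TM.mk (P.cons (P.cons (P.lf 615554700 0 0) (P.cons (P.lf 0 163149030 0) (P.cons (P.lf 0 21159726 0) (P.cons (P.lf 4190082 0 0) (P.cons (P.lf 147582 0 0) (P.cons (P.lf 0 25374 0) P.nil)))))) (P.cons (P.cons (P.lf 72524178 0 0) (P.cons (P.lf 0 27777600 0) (P.cons (P.lf 0 2946330 0) (P.cons (P.lf 691158 0 0) (P.cons (P.lf 22992 0 0) P.nil))))) (P.cons (P.cons (P.lf 0 11077824 0) (P.cons (P.lf 0 794742 0) (P.cons (P.lf 183120 0 0) (P.cons (P.lf 10710 0 0) P.nil)))) (P.cons (P.cons (P.lf 0 1271154 0) (P.cons (P.lf 157764 0 0) (P.cons (P.lf 34200 0 0) P.nil))) (P.cons (P.cons (P.lf 49974 0 0) (P.cons (P.lf 12330 0 0) P.nil)) (P.cons (P.cons (P.lf 8436 0 0) P.nil) P.nil)))))) 18504)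
 EL.nil))))))
noncomputable def S198_212_438_512_3 : EL := (EL.cons 0 (TM.mk (P.cons (P.lf 1087919567 0 0) (P.cons (P.lf 0 270413532 0) (P.cons (P.lf 11357528 0 0) (P.cons (P.lf 846949 0 0) (P.cons (P.lf 0 7275 0) (P.cons (P.lf 0 1360 0) P.nil)))))) 123)
 (EL.cons 1 (TM.mk (P.cons (P.lf 1384003233 0 0) (P.cons (P.lf 0 134215061 0) (P.cons (P.lf 0 10263551 0) (P.cons (P.lf 214061 0 0) (P.cons (P.lf 21358 0 0) (P.cons (P.lf 5 0 0) P.nil)))))) 123)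
 (EL.cons 5 (TM.mk (P.cons (P.lf 1760667798 0 0) (P.cons (P.lf 96147034 0 0) (P.cons (P.lf 0 4038232 0) (P.cons (P.lf 0 301136 0) (P.cons (P.lf 2584 0 0) (P.cons (P.lf 484 0 0) P.nil)))))) 114)
 EL.nil)))
noncomputable def S198_212_438_512_4 : EL := (EL.cons 0 (TM.mk (P.cons (P.cons (P.lf 285242617 0 0) (P.cons (P.lf 0 86175377 0) (P.cons (P.lf 0 1371592 0) (P.lf 457196 0 0)))) (P.cons (P.cons (P.lf 0 60657815 0) (P.cons (P.lf 14360937 0 0) (P.cons (P.lf 228573 0 0) (P.lf 0 76190 0)))) (P.cons (P.cons (P.lf 0 4877919 0) (P.cons (P.lf 1055007 0 0) (P.cons (P.lf 16790 0 0) (P.lf 0 5595 0)))) (P.cons (P.cons (P.lf 1621402 0 0) (P.cons (P.lf 0 159437 0) (P.cons (P.lf 0 2536 0) P.nil))) (P.cons (P.cons (P.lf 0 25398 0) (P.cons (P.lf 0 10439 0) P.nil)) (P.cons (P.cons (P.lf 0 8785 0) P.nil) P.nil)))))) 2945)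
 (EL.cons 1 (TM.mk (P.cons (P.cons (P.lf 362873062 0 0) (P.cons (P.lf 0 109628510 0) (P.cons (P.lf 0 1744880 0) (P.lf 581625 0 0)))) (P.cons (P.cons (P.lf 0 22160351 0) (P.cons (P.lf 1651395 0 0) (P.cons (P.lf 26283 0 0) (P.lf 0 8760 0)))) (P.cons (P.cons (P.lf 0 10709675 0) (P.cons (P.lf 1938391 0 0) (P.cons (P.lf 30849 0 0) (P.lf 0 10280 0)))) (P.cons (P.cons (P.lf 579684 0 0) (P.cons (P.lf 64488 0 0) (P.cons (P.lf 1025 0 0) P.nil))) (P.cons (P.cons (P.lf 82912 0 0) (P.cons (P.lf 0 8655 0) P.nil)) (P.cons (P.cons (P.lf 0 2287 0) P.nil) P.nil)))))) 2308)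
 (EL.cons 5 (TM.mk (P.cons (P.cons (P.lf 461631088 0 0) (P.cons (P.lf 0 139464550 0) (P.cons (P.lf 0 2219760 0) (P.lf 739918 0 0)))) (P.cons (P.cons (P.lf 41784580 0 0) (P.cons (P.lf 0 19039794 0) (P.cons (P.lf 0 303040 0) (P.lf 101012 0 0)))) (P.cons (P.cons (P.lf 0 8747164 0) (P.cons (P.lf 19882 0 0) (P.cons (P.lf 314 0 0) (P.lf 0 104 0)))) (P.cons (P.cons (P.lf 0 630642 0) (P.cons (P.lf 118038 0 0) (P.cons (P.lf 1878 0 0) P.nil))) (P.cons (P.cons (P.lf 42884 0 0) (P.cons (P.lf 3938 0 0) P.nil)) (P.cons (P.cons (P.lf 3760 0 0) P.nil) P.nil)))))) 1738)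
 EL.nil)))
noncomputable def S198_212_438_512_5 : EL := (EL.cons 0 (TM.mk (P.cons (P.cons (P.lf 74788020 0 0) (P.cons (P.lf 0 45188801 0) (P.cons (P.lf 6106811 0 0) (P.cons (P.lf 457036 0 0) (P.cons (P.lf 0 70699 0) (P.cons (P.lf 0 1151 0) P.nil)))))) (P.cons (P.cons (P.lf 0 13218526 0) (P.cons (P.lf 5908028 0 0) (P.cons (P.lf 0 484374 0) (P.cons (P.lf 0 49756 0) (P.cons (P.lf 5990 0 0) P.nil))))) (P.cons (P.cons (P.lf 0 3242230 0) (P.cons (P.lf 1664843 0 0) (P.cons (P.lf 0 166099 0) (P.cons (P.lf 0 14962 0) P.nil)))) (P.cons (P.cons (P.lf 668063 0 0) (P.cons (P.lf 0 199582 0) (P.cons (P.lf 2786 0 0) P.nil))) (P.cons (P.cons (P.lf 38438 0 0) (P.cons (P.lf 0 22215 0) P.nil)) (P.cons (P.cons (P.lf 0 11204 0) P.nil) P.nil)))))) 17035)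
 (EL.cons 1 (TM.mk (P.cons (P.cons (P.lf 95142016 0 0) (P.cons (P.lf 0 57487196 0) (P.cons (P.lf 7768816 0 0) (P.cons (P.lf 581420 0 0) (P.cons (P.lf 0 89941 0) (P.cons (P.lf 0 1464 0) P.nil)))))) (P.cons (P.cons (P.lf 0 2393994 0) (P.cons (P.lf 0 1198218 0) (P.cons (P.lf 561429 0 0) (P.cons (P.lf 24834 0 0) (P.cons (P.lf 0 6011 0) P.nil))))) (P.cons (P.cons (P.lf 0 4787733 0) (P.cons (P.lf 2117711 0 0) (P.cons (P.lf 0 150714 0) (P.cons (P.lf 0 17103 0) P.nil)))) (P.cons (P.cons (P.lf 150174 0 0) (P.cons (P.lf 59720 0 0) (P.cons (P.lf 0 19561 0) P.nil))) (P.cons (P.cons (P.lf 85747 0 0) (P.cons (P.lf 0 25785 0) P.nil)) (P.cons (P.cons (P.lf 0 2619 0) P.nil) P.nil)))))) 13760)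
 (EL.cons 5 (TM.mk (P.cons (P.cons (P.lf 121035472 0 0) (P.cons (P.lf 0 73132672 0) (P.cons (P.lf 9883144 0 0) (P.cons (P.lf 739658 0 0) (P.cons (P.lf 0 114420 0) (P.cons (P.lf 0 1864 0) P.nil)))))) (P.cons (P.cons (P.lf 15301534 0 0) (P.cons (P.lf 0 12610084 0) (P.cons (P.lf 2212356 0 0) (P.cons (P.lf 143714 0 0) (P.cons (P.lf 0 24992 0) P.nil))))) (P.cons (P.cons (P.lf 0 4153198 0) (P.cons (P.lf 1013336 0 0) (P.cons (P.lf 112436 0 0) (P.cons (P.lf 0 2308 0) P.nil)))) (P.cons (P.cons (P.lf 0 463280 0) (P.cons (P.lf 255164 0 0) (P.cons (P.lf 0 12902 0) P.nil))) (P.cons (P.cons (P.lf 54224 0 0) (P.cons (P.lf 658 0 0) P.nil)) (P.cons (P.cons (P.lf 5482 0 0) P.nil) P.nil)))))) 11050)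
 EL.nil)))
noncomputable def S198_212_438_512_6 : EL := (EL.cons 12 (TM.mk (P.lf 8589934592 0 0) 0)
 (EL.cons 3 (TM.mk (P.cons (P.lf 0 1528492552 0) (P.cons (P.lf 189961226 0 0) (P.cons (P.lf 3825716 0 0) (P.cons (P.lf 0 119508 0) (P.cons (P.lf 0 4953 0) (P.cons (P.lf 41 0 0) P.nil)))))) 52)
 (EL.cons 7 (TM.mk (P.cons (P.lf 0 1944480730 0) (P.cons (P.lf 0 53092371 0) (P.cons (P.lf 2954732 0 0) (P.cons (P.lf 85611 0 0) (P.cons (P.lf 0 1520 0) (P.cons (P.lf 0 96 0) P.nil)))))) 47)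
 EL.nil)))
noncomputable def S198_212_438_512_7 : EL := (EL.cons 12 (TM.mk (P.cons (P.cons (P.lf 2252202752 0 0) (P.cons (P.lf 0 680418744 0) (P.cons (P.lf 0 10829760 0) (P.lf 3609912 0 0)))) (P.cons (P.cons (P.lf 80869432 0 0) (P.cons (P.lf 0 55734736 0) (P.cons (P.lf 0 887088 0) (P.lf 295696 0 0)))) (P.cons (P.cons (P.lf 0 41926152 0) (P.cons (P.lf 1579992 0 0) (P.cons (P.lf 25144 0 0) (P.lf 0 8376 0)))) (P.cons (P.cons (P.lf 0 216584 0) (P.cons (P.lf 245400 0 0) (P.cons (P.lf 3904 0 0) P.nil))) (P.cons (P.cons (P.lf 135420 0 0) (P.cons (P.lf 912 0 0) P.nil)) (P.cons (P.cons (P.lf 2548 0 0) P.nil) P.nil)))))) 3006)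
 (EL.cons 3 (TM.mk (P.cons (P.cons (P.lf 126265907 0 0) (P.cons (P.lf 0 242147356 0) (P.cons (P.lf 0 3854092 0) (P.lf 1284692 0 0)))) (P.cons (P.cons (P.lf 0 503494057 0) (P.cons (P.lf 10259226 0 0) (P.cons (P.lf 163290 0 0) (P.lf 0 54428 0)))) (P.cons (P.cons (P.lf 0 2331522 0) (P.cons (P.lf 3633446 0 0) (P.cons (P.lf 57828 0 0) (P.lf 0 19272 0)))) (P.cons (P.cons (P.lf 3123013 0 0) (P.cons (P.lf 48162 0 0) (P.cons (P.lf 764 0 0) P.nil))) (P.cons (P.cons (P.lf 88327 0 0) (P.cons (P.lf 0 14270 0) P.nil)) (P.cons (P.cons (P.lf 0 8160 0) P.nil) P.nil)))))) 6250)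
 (EL.cons 7 (TM.mk (P.cons (P.cons (P.lf 0 657123068 0) (P.cons (P.lf 255541449 0 0) (P.cons (P.lf 4067280 0 0) (P.lf 0 1355762 0)))) (P.cons (P.cons (P.lf 140721839 0 0) (P.cons (P.lf 0 2867354 0) (P.cons (P.lf 0 45634 0) (P.lf 15210 0 0)))) (P.cons (P.cons (P.lf 0 10013963 0) (P.cons (P.lf 0 798194 0) (P.cons (P.lf 0 12706 0) (P.lf 4238 0 0)))) (P.cons (P.cons (P.lf 0 790685 0) (P.cons (P.lf 86143 0 0) (P.cons (P.lf 1371 0 0) P.nil))) (P.cons (P.cons (P.lf 68738 0 0) (P.cons (P.lf 4053 0 0) P.nil)) (P.cons (P.cons (P.lf 3728 0 0) P.nil) P.nil)))))) 5720)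
 (EL.cons 10 (TM.mk (P.cons (P.cons (P.lf 0 2592837186 0) (P.cons (P.lf 0 96112938 0) (P.cons (P.lf 47624307 0 0) (P.cons (P.lf 432162 0 0) (P.lf 0 108039 0))))) (P.cons (P.cons (P.lf 0 141590370 0) (P.cons (P.lf 0 5248560 0) (P.cons (P.lf 2600679 0 0) (P.cons (P.lf 23598 0 0) (P.lf 0 5898 0))))) (P.cons (P.cons (P.lf 5946876 0 0) (P.cons (P.lf 220440 0 0) (P.cons (P.lf 0 109230 0) (P.cons (P.lf 0 990 0) P.nil)))) (P.cons (P.cons (P.lf 443466 0 0) (P.cons (P.lf 16437 0 0) (P.cons (P.lf 0 8145 0) P.nil))) (P.cons (P.cons (P.lf 0 3804 0) (P.cons (P.lf 0 141 0) P.nil)) (P.cons (P.cons (P.lf 0 711 0) P.nil) P.nil)))))) 735)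
 EL.nil))))
noncomputable def S198_212_438_512_8 : EL := (EL.cons 12 (TM.mk (P.cons (P.cons (P.lf 590507084 0 0) (P.cons (P.lf 0 356799216 0) (P.cons (P.lf 48217832 0 0) (P.cons (P.lf 3608648 0 0) (P.cons (P.lf 0 558236 0) (P.cons (P.lf 0 9102 0) P.nil)))))) (P.cons (P.cons (P.lf 42406458 0 0) (P.cons (P.lf 0 42037806 0) (P.cons (P.lf 8160540 0 0) (P.cons (P.lf 504096 0 0) (P.cons (P.lf 0 91452 0) P.nil))))) (P.cons (P.cons (P.lf 0 21223970 0) (P.cons (P.lf 6421134 0 0) (P.cons (P.lf 213520 0 0) (P.cons (P.lf 0 30518 0) P.nil)))) (P.cons (P.cons (P.lf 0 902994 0) (P.cons (P.lf 736808 0 0) (P.cons (P.lf 0 47652 0) P.nil))) (P.cons (P.cons (P.lf 271568 0 0) (P.cons (P.lf 0 28966 0) P.nil)) (P.cons (P.cons (P.lf 6000 0 0) P.nil) P.nil)))))) 28866)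
 (EL.cons 3 (TM.mk (P.cons (P.cons (P.lf 171286344 0 0) (P.cons (P.lf 0 210469845 0) (P.cons (P.lf 44602034 0 0) (P.cons (P.lf 2643065 0 0) (P.cons (P.lf 0 496661 0) (P.cons (P.lf 0 8095 0) P.nil)))))) (P.cons (P.cons (P.lf 0 267158583 0) (P.cons (P.lf 79356759 0 0) (P.cons (P.lf 3159311 0 0) (P.cons (P.lf 0 360655 0) (P.cons (P.lf 0 19641 0) P.nil))))) (P.cons (P.cons (P.lf 0 16912786 0) (P.cons (P.lf 13642907 0 0) (P.cons (P.lf 0 780142 0) (P.cons (P.lf 0 104120 0) P.nil)))) (P.cons (P.cons (P.lf 6800343 0 0) (P.cons (P.lf 0 633903 0) (P.cons (P.lf 0 91140 0) P.nil))) (P.cons (P.cons (P.lf 235923 0 0) (P.cons (P.lf 0 159415 0) P.nil)) (P.cons (P.cons (P.lf 0 53589 0) P.nil) P.nil)))))) 67587)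
 (EL.cons 7 (TM.mk (P.cons (P.cons (P.lf 0 210911863 0) (P.cons (P.lf 157336560 0 0) (P.cons (P.lf 0 25778784 0) (P.cons (P.lf 0 1735060 0) (P.cons (P.lf 292938 0 0) (P.cons (P.lf 4772 0 0) P.nil)))))) (P.cons (P.cons (P.lf 74668303 0 0) (P.cons (P.lf 0 22179459 0) (P.cons (P.lf 0 882998 0) (P.cons (P.lf 100795 0 0) (P.cons (P.lf 5492 0 0) P.nil))))) (P.cons (P.cons (P.lf 0 932299 0) (P.cons (P.lf 0 2132037 0) (P.cons (P.lf 284966 0 0) (P.cons (P.lf 21461 0 0) P.nil)))) (P.cons (P.cons (P.lf 0 2299780 0) (P.cons (P.lf 539170 0 0) (P.cons (P.lf 2512 0 0) P.nil))) (P.cons (P.cons (P.lf 153971 0 0) (P.cons (P.lf 19467 0 0) P.nil)) (P.cons (P.cons (P.lf 19090 0 0) P.nil) P.nil)))))) 39299)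
 (EL.cons 10 (TM.mk (P.cons (P.cons (P.lf 0 1359636672 0) (P.cons (P.lf 360363438 0 0) (P.cons (P.lf 46737594 0 0) (P.cons (P.lf 0 9255060 0) (P.cons (P.lf 0 325980 0) (P.cons (P.lf 56052 0 0) P.nil)))))) (P.cons (P.cons (P.lf 0 123067638 0) (P.cons (P.lf 51515736 0 0) (P.cons (P.lf 5231730 0 0) (P.cons (P.lf 0 1273932 0) (P.cons (P.lf 0 41892 0) P.nil))))) (P.cons (P.cons (P.lf 25762920 0 0) (P.cons (P.lf 896430 0 0) (P.cons (P.lf 0 476304 0) (P.cons (P.lf 0 2940 0) P.nil)))) (P.cons (P.cons (P.lf 1857426 0 0) (P.cons (P.lf 0 278802 0) (P.cons (P.lf 0 52530 0) P.nil))) (P.cons (P.cons (P.lf 0 126306 0) (P.cons (P.lf 0 16284 0) P.nil)) (P.cons (P.cons (P.lf 0 11070 0) P.nil) P.nil)))))) 29682)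
 EL.nil))))
noncomputable def S198_212_438_512_9 : EL := (EL.cons 3 (TM.mk (P.cons (P.lf 0 1528492552 0) (P.cons (P.lf 189961226 0 0) (P.cons (P.lf 3825716 0 0) (P.cons (P.lf 0 119508 0) (P.cons (P.lf 0 4953 0) (P.cons (P.lf 41 0 0) P.nil)))))) 52)
 (EL.cons 7 (TM.mk (P.cons (P.lf 0 1944480730 0) (P.cons (P.lf 0 53092371 0) (P.cons (P.lf 2954732 0 0) (P.cons (P.lf 85611 0 0) (P.cons (P.lf 0 1520 0) (P.cons (P.lf 0 96 0) P.nil)))))) 47)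
 EL.nil))
noncomputable def S198_212_438_512_10 : EL := (EL.cons 3 (TM.mk (P.cons (P.cons (P.lf 0 400756849 0) (P.cons (P.lf 121073678 0 0) (P.cons (P.lf 1927046 0 0) (P.lf 0 642346 0)))) (P.cons (P.cons (P.lf 35416202 0 0) (P.cons (P.lf 0 5129613 0) (P.cons (P.lf 0 81645 0) (P.lf 27214 0 0)))) (P.cons (P.cons (P.lf 10251783 0 0) (P.cons (P.lf 0 1816723 0) (P.cons (P.lf 0 28914 0) (P.lf 9636 0 0)))) (P.cons (P.cons (P.lf 0 883949 0) (P.cons (P.lf 0 24081 0) (P.cons (P.lf 0 382 0) P.nil))) (P.cons (P.cons (P.lf 0 49982 0) (P.cons (P.lf 7135 0 0) P.nil)) (P.cons (P.cons (P.lf 2991 0 0) P.nil) P.nil)))))) 1491)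
 (EL.cons 7 (TM.mk (P.cons (P.cons (P.lf 0 509825168 0) (P.cons (P.lf 154024587 0 0) (P.cons (P.lf 2451504 0 0) (P.lf 0 817166 0)))) (P.cons (P.cons (P.lf 0 32226535 0) (P.cons (P.lf 16822033 0 0) (P.cons (P.lf 267743 0 0) (P.lf 0 89247 0)))) (P.cons (P.cons (P.lf 9765580 0 0) (P.cons (P.lf 0 247223 0) (P.cons (P.lf 0 3934 0) (P.lf 1310 0 0)))) (P.cons (P.cons (P.lf 358426 0 0) (P.cons (P.lf 0 91268 0) (P.cons (P.lf 0 1452 0) P.nil))) (P.cons (P.cons (P.lf 0 43330 0) (P.cons (P.lf 0 1614 0) P.nil)) (P.cons (P.cons (P.lf 0 1945 0) P.nil) P.nil)))))) 1180)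
 EL.nil))
noncomputable def S198_212_438_512_11 : EL := (EL.cons 3 (TM.mk (P.cons (P.cons (P.lf 0 105074802 0) (P.cons (P.lf 63488835 0 0) (P.cons (P.lf 0 8579878 0) (P.cons (P.lf 0 642121 0) (P.cons (P.lf 99331 0 0) (P.cons (P.lf 1619 0 0) P.nil)))))) (P.cons (P.cons (P.lf 5512905 0 0) (P.cons (P.lf 0 410193 0) (P.cons (P.lf 0 385777 0) (P.cons (P.lf 0 9895 0) (P.cons (P.lf 3927 0 0) P.nil))))) (P.cons (P.cons (P.lf 4977380 0 0) (P.cons (P.lf 0 2231125 0) (P.cons (P.lf 163946 0 0) (P.cons (P.lf 18184 0 0) P.nil)))) (P.cons (P.cons (P.lf 0 298005 0) (P.cons (P.lf 0 2865 0) (P.cons (P.lf 16164 0 0) P.nil))) (P.cons (P.cons (P.lf 0 78675 0) (P.cons (P.lf 25097 0 0) P.nil)) (P.cons (P.cons (P.lf 4809 0 0) P.nil) P.nil)))))) 12053)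
 (EL.cons 7 (TM.mk (P.cons (P.cons (P.lf 0 133671523 0) (P.cons (P.lf 80767692 0 0) (P.cons (P.lf 0 10914942 0) (P.cons (P.lf 0 816880 0) (P.cons (P.lf 126366 0 0) (P.cons (P.lf 2060 0 0) P.nil)))))) (P.cons (P.cons (P.lf 0 13249223 0) (P.cons (P.lf 11721279 0 0) (P.cons (P.lf 0 2145302 0) (P.cons (P.lf 0 136415 0) (P.cons (P.lf 24152 0 0) P.nil))))) (P.cons (P.cons (P.lf 4745429 0 0) (P.cons (P.lf 0 1316439 0) (P.cons (P.lf 0 82186 0) (P.cons (P.lf 5033 0 0) P.nil)))) (P.cons (P.cons (P.lf 356060 0 0) (P.cons (P.lf 0 224492 0) (P.cons (P.lf 12754 0 0) P.nil))) (P.cons (P.cons (P.lf 0 62875 0) (P.cons (P.lf 3855 0 0) P.nil)) (P.cons (P.cons (P.lf 0 3572 0) P.nil) P.nil)))))) 9175)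
 EL.nil))
noncomputable def S198_212_438_512_12 : EL := (EL.cons 4 (TM.mk (P.cons (P.lf 1528492552 0 0) (P.cons (P.lf 0 189961226 0) (P.cons (P.lf 0 3825716 0) (P.cons (P.lf 119508 0 0) (P.cons (P.lf 4953 0 0) (P.cons (P.lf 0 41 0) P.nil)))))) 52)
 (EL.cons 8 (TM.mk (P.cons (P.lf 1944480730 0 0) (P.cons (P.lf 53092371 0 0) (P.cons (P.lf 0 2954732 0) (P.cons (P.lf 0 85611 0) (P.cons (P.lf 1520 0 0) (P.cons (P.lf 96 0 0) P.nil)))))) 47)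
 EL.nil))
noncomputable def S198_212_438_512_13 : EL := (EL.cons 4 (TM.mk (P.cons (P.cons (P.lf 400756849 0 0) (P.cons (P.lf 0 121073678 0) (P.cons (P.lf 0 1927046 0) (P.lf 642346 0 0)))) (P.cons (P.cons (P.lf 0 35416202 0) (P.cons (P.lf 5129613 0 0) (P.cons (P.lf 81645 0 0) (P.lf 0 27214 0)))) (P.cons (P.cons (P.lf 0 10251783 0) (P.cons (P.lf 1816723 0 0) (P.cons (P.lf 28914 0 0) (P.lf 0 9636 0)))) (P.cons (P.cons (P.lf 883949 0 0) (P.cons (P.lf 24081 0 0) (P.cons (P.lf 382 0 0) P.nil))) (P.cons (P.cons (P.lf 49982 0 0) (P.cons (P.lf 0 7135 0) P.nil)) (P.cons (P.cons (P.lf 0 2991 0) P.nil) P.nil)))))) 1491)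
 (EL.cons 8 (TM.mk (P.cons (P.cons (P.lf 509825168 0 0) (P.cons (P.lf 0 154024587 0) (P.cons (P.lf 0 2451504 0) (P.lf 817166 0 0)))) (P.cons (P.cons (P.lf 32226535 0 0) (P.cons (P.lf 0 16822033 0) (P.cons (P.lf 0 267743 0) (P.lf 89247 0 0)))) (P.cons (P.cons (P.lf 0 9765580 0) (P.cons (P.lf 247223 0 0) (P.cons (P.lf 3934 0 0) (P.lf 0 1310 0)))) (P.cons (P.cons (P.lf 0 358426 0) (P.cons (P.lf 91268 0 0) (P.cons (P.lf 1452 0 0) P.nil))) (P.cons (P.cons (P.lf 43330 0 0) (P.cons (P.lf 1614 0 0) P.nil)) (P.cons (P.cons (P.lf 1945 0 0) P.nil) P.nil)))))) 1180)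
 EL.nil))
noncomputable def S198_212_438_512_14 : EL := (EL.cons 4 (TM.mk (P.cons (P.cons (P.lf 105074802 0 0) (P.cons (P.lf 0 63488835 0) (P.cons (P.lf 8579878 0 0) (P.cons (P.lf 642121 0 0) (P.cons (P.lf 0 99331 0) (P.cons (P.lf 0 1619 0) P.nil)))))) (P.cons (P.cons (P.lf 0 5512905 0) (P.cons (P.lf 410193 0 0) (P.cons (P.lf 385777 0 0) (P.cons (P.lf 9895 0 0) (P.cons (P.lf 0 3927 0) P.nil))))) (P.cons (P.cons (P.lf 0 4977380 0) (P.cons (P.lf 2231125 0 0) (P.cons (P.lf 0 163946 0) (P.cons (P.lf 0 18184 0) P.nil)))) (P.cons (P.cons (P.lf 298005 0 0) (P.cons (P.lf 2865 0 0) (P.cons (P.lf 0 16164 0) P.nil))) (P.cons (P.cons (P.lf 78675 0 0) (P.cons (P.lf 0 25097 0) P.nil)) (P.cons (P.cons (P.lf 0 4809 0) P.nil) P.nil)))))) 12053)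
 (EL.cons 8 (TM.mk (P.cons (P.cons (P.lf 133671523 0 0) (P.cons (P.lf 0 80767692 0) (P.cons (P.lf 10914942 0 0) (P.cons (P.lf 816880 0 0) (P.cons (P.lf 0 126366 0) (P.cons (P.lf 0 2060 0) P.nil)))))) (P.cons (P.cons (P.lf 13249223 0 0) (P.cons (P.lf 0 11721279 0) (P.cons (P.lf 2145302 0 0) (P.cons (P.lf 136415 0 0) (P.cons (P.lf 0 24152 0) P.nil))))) (P.cons (P.cons (P.lf 0 4745429 0) (P.cons (P.lf 1316439 0 0) (P.cons (P.lf 82186 0 0) (P.cons (P.lf 0 5033 0) P.nil)))) (P.cons (P.cons (P.lf 0 356060 0) (P.cons (P.lf 224492 0 0) (P.cons (P.lf 0 12754 0) P.nil))) (P.cons (P.cons (P.lf 62875 0 0) (P.cons (P.lf 0 3855 0) P.nil)) (P.cons (P.cons (P.lf 3572 0 0) P.nil) P.nil)))))) 9175)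
 EL.nil))
noncomputable def S198_212_438_512_15 : EL := (EL.cons 4 (TM.mk (P.cons (P.lf 0 580223769 0) (P.cons (P.lf 144220550 0 0) (P.cons (P.lf 0 6057348 0) (P.cons (P.lf 0 451706 0) (P.cons (P.lf 3880 0 0) (P.cons (P.lf 725 0 0) P.nil)))))) 68)
 (EL.cons 8 (TM.mk (P.cons (P.lf 0 738135058 0) (P.cons (P.lf 71581366 0 0) (P.cons (P.lf 5473894 0 0) (P.cons (P.lf 0 114166 0) (P.cons (P.lf 0 11391 0) (P.cons (P.lf 0 3 0) P.nil)))))) 62)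
 EL.nil))
noncomputable def S198_212_438_512_16 : EL := (EL.cons 4 (TM.mk (P.cons (P.cons (P.lf 0 152129396 0) (P.cons (P.lf 45960201 0 0) (P.cons (P.lf 731516 0 0) (P.lf 0 243838 0)))) (P.cons (P.cons (P.lf 32350834 0 0) (P.cons (P.lf 0 7659166 0) (P.cons (P.lf 0 121905 0) (P.lf 40635 0 0)))) (P.cons (P.cons (P.lf 2601556 0 0) (P.cons (P.lf 0 562670 0) (P.cons (P.lf 0 8955 0) (P.lf 2984 0 0)))) (P.cons (P.cons (P.lf 0 864748 0) (P.cons (P.lf 85033 0 0) (P.cons (P.lf 1352 0 0) P.nil))) (P.cons (P.cons (P.lf 13545 0 0) (P.cons (P.lf 5567 0 0) P.nil)) (P.cons (P.cons (P.lf 4685 0 0) P.nil) P.nil)))))) 1579)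
 (EL.cons 8 (TM.mk (P.cons (P.cons (P.lf 0 193532300 0) (P.cons (P.lf 58468539 0 0) (P.cons (P.lf 930603 0 0) (P.lf 0 310200 0)))) (P.cons (P.cons (P.lf 11818854 0 0) (P.cons (P.lf 0 880744 0) (P.cons (P.lf 0 14018 0) (P.lf 4672 0 0)))) (P.cons (P.cons (P.lf 5711827 0 0) (P.cons (P.lf 0 1033809 0) (P.cons (P.lf 0 16453 0) (P.lf 5483 0 0)))) (P.cons (P.cons (P.lf 0 309165 0) (P.cons (P.lf 0 34394 0) (P.cons (P.lf 0 547 0) P.nil))) (P.cons (P.cons (P.lf 0 44220 0) (P.cons (P.lf 4616 0 0) P.nil)) (P.cons (P.cons (P.lf 1220 0 0) P.nil) P.nil)))))) 1221)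
 EL.nil))
noncomputable def S198_212_438_512_17 : EL := (EL.cons 4 (TM.mk (P.cons (P.cons (P.lf 0 39886944 0) (P.cons (P.lf 24100694 0 0) (P.cons (P.lf 0 3256965 0) (P.cons (P.lf 0 243752 0) (P.cons (P.lf 37706 0 0) (P.cons (P.lf 614 0 0) P.nil)))))) (P.cons (P.cons (P.lf 7049880 0 0) (P.cons (P.lf 0 3150948 0) (P.cons (P.lf 258332 0 0) (P.cons (P.lf 26536 0 0) (P.cons (P.lf 0 3195 0) P.nil))))) (P.cons (P.cons (P.lf 1729189 0 0) (P.cons (P.lf 0 887916 0) (P.cons (P.lf 88586 0 0) (P.cons (P.lf 7980 0 0) P.nil)))) (P.cons (P.cons (P.lf 0 356300 0) (P.cons (P.lf 106443 0 0) (P.cons (P.lf 0 1485 0) P.nil))) (P.cons (P.cons (P.lf 0 20500 0) (P.cons (P.lf 11848 0 0) P.nil)) (P.cons (P.cons (P.lf 5975 0 0) P.nil) P.nil)))))) 9096)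
 (EL.cons 8 (TM.mk (P.cons (P.cons (P.lf 0 50742409 0) (P.cons (P.lf 30659838 0 0) (P.cons (P.lf 0 4143369 0) (P.cons (P.lf 0 310091 0) (P.cons (P.lf 47969 0 0) (P.cons (P.lf 781 0 0) P.nil)))))) (P.cons (P.cons (P.lf 1276797 0 0) (P.cons (P.lf 639050 0 0) (P.cons (P.lf 0 299429 0) (P.cons (P.lf 0 13245 0) (P.cons (P.lf 3206 0 0) P.nil))))) (P.cons (P.cons (P.lf 2553458 0 0) (P.cons (P.lf 0 1129446 0) (P.cons (P.lf 80381 0 0) (P.cons (P.lf 9122 0 0) P.nil)))) (P.cons (P.cons (P.lf 0 80093 0) (P.cons (P.lf 0 31851 0) (P.cons (P.lf 10433 0 0) P.nil))) (P.cons (P.cons (P.lf 0 45732 0) (P.cons (P.lf 13752 0 0) P.nil)) (P.cons (P.cons (P.lf 1397 0 0) P.nil) P.nil)))))) 7327)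
 EL.nil))
noncomputable def S198_212_438_512_18 : EL := (EL.cons 4 (TM.mk (P.cons (P.lf 220255978 0 0) (P.cons (P.lf 0 82120312 0) (P.cons (P.lf 8552062 0 0) (P.cons (P.lf 39948 0 0) (P.cons (P.lf 0 32104 0) (P.cons (P.lf 0 525 0) P.nil)))))) 109)
 (EL.cons 8 (TM.mk (P.cons (P.lf 280199929 0 0) (P.cons (P.lf 0 61995939 0) (P.cons (P.lf 597780 0 0) (P.cons (P.lf 391501 0 0) (P.cons (P.lf 2922 0 0) (P.cons (P.lf 0 902 0) P.nil)))))) 74)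
 EL.nil))
noncomputable def S198_212_438_512_19 : EL := (EL.cons 4 (TM.mk (P.cons (P.cons (P.lf 57749114 0 0) (P.cons (P.lf 0 17446732 0) (P.cons (P.lf 0 277687 0) (P.lf 92562 0 0)))) (P.cons (P.cons (P.lf 0 19457611 0) (P.cons (P.lf 5075741 0 0) (P.cons (P.lf 80787 0 0) (P.lf 0 26928 0)))) (P.cons (P.cons (P.lf 394120 0 0) (P.cons (P.lf 0 104078 0) (P.cons (P.lf 0 1656 0) (P.lf 552 0 0)))) (P.cons (P.cons (P.lf 486249 0 0) (P.cons (P.lf 0 67465 0) (P.cons (P.lf 0 1073 0) P.nil))) (P.cons (P.cons (P.lf 0 44239 0) (P.cons (P.lf 1533 0 0) P.nil)) (P.cons (P.cons (P.lf 0 2079 0) P.nil) P.nil)))))) 1564)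
 (EL.cons 8 (TM.mk (P.cons (P.cons (P.lf 73465873 0 0) (P.cons (P.lf 0 22194963 0) (P.cons (P.lf 0 353261 0) (P.lf 117753 0 0)))) (P.cons (P.cons (P.lf 0 13616846 0) (P.cons (P.lf 3092727 0 0) (P.cons (P.lf 49224 0 0) (P.lf 0 16408 0)))) (P.cons (P.cons (P.lf 0 1794537 0) (P.cons (P.lf 406440 0 0) (P.cons (P.lf 6468 0 0) (P.lf 0 2155 0)))) (P.cons (P.cons (P.lf 403803 0 0) (P.cons (P.lf 0 38287 0) (P.cons (P.lf 0 609 0) P.nil))) (P.cons (P.cons (P.lf 7515 0 0) (P.cons (P.lf 0 4403 0) P.nil)) (P.cons (P.cons (P.lf 0 3029 0) P.nil) P.nil)))))) 1157)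
 EL.nil))
noncomputable def S198_212_438_512_20 : EL := (EL.cons 4 (TM.mk (P.cons (P.cons (P.lf 15141292 0 0) (P.cons (P.lf 0 9148749 0) (P.cons (P.lf 1236360 0 0) (P.cons (P.lf 92529 0 0) (P.cons (P.lf 0 14313 0) (P.cons (P.lf 0 232 0) P.nil)))))) (P.cons (P.cons (P.lf 0 4557932 0) (P.cons (P.lf 2333123 0 0) (P.cons (P.lf 0 251719 0) (P.cons (P.lf 0 21572 0) (P.cons (P.lf 2991 0 0) P.nil))))) (P.cons (P.cons (P.lf 0 361711 0) (P.cons (P.lf 211303 0 0) (P.cons (P.lf 0 24534 0) (P.cons (P.lf 0 2008 0) P.nil)))) (P.cons (P.cons (P.lf 224714 0 0) (P.cons (P.lf 0 86005 0) (P.cons (P.lf 5085 0 0) P.nil))) (P.cons (P.cons (P.lf 0 7544 0) (P.cons (P.lf 0 255 0) P.nil)) (P.cons (P.cons (P.lf 0 3633 0) P.nil) P.nil)))))) 6261)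
 (EL.cons 8 (TM.mk (P.cons (P.cons (P.lf 19262084 0 0) (P.cons (P.lf 0 11638635 0) (P.cons (P.lf 1572844 0 0) (P.cons (P.lf 117712 0 0) (P.cons (P.lf 0 18208 0) (P.cons (P.lf 0 296 0) P.nil)))))) (P.cons (P.cons (P.lf 0 2878572 0) (P.cons (P.lf 1203863 0 0) (P.cons (P.lf 0 81808 0) (P.cons (P.lf 0 9601 0) (P.cons (P.lf 1045 0 0) P.nil))))) (P.cons (P.cons (P.lf 0 957281 0) (P.cons (P.lf 488022 0 0) (P.cons (P.lf 0 48576 0) (P.cons (P.lf 0 4382 0) P.nil)))) (P.cons (P.cons (P.lf 153588 0 0) (P.cons (P.lf 0 41495 0) (P.cons (P.lf 0 330 0) P.nil))) (P.cons (P.cons (P.lf 16031 0 0) (P.cons (P.lf 0 7852 0) P.nil)) (P.cons (P.cons (P.lf 0 2841 0) P.nil) P.nil)))))) 5218)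
 EL.nil))
noncomputable def S198_212_438_512_21 : EL := (EL.cons 4 (TM.mk (P.cons (P.cons (P.lf 0 527022756 0) (P.cons (P.lf 363221034 0 0) (P.cons (P.lf 5781138 0 0) (P.lf 0 1927038 0)))) (P.cons (P.cons (P.lf 538910259 0 0) (P.cons (P.lf 0 15388839 0) (P.cons (P.lf 0 244935 0) (P.lf 81642 0 0)))) (P.cons (P.cons (P.lf 12583305 0 0) (P.cons (P.lf 0 5450169 0) (P.cons (P.lf 0 86742 0) (P.lf 28908 0 0)))) (P.cons (P.cons (P.lf 0 4006962 0) (P.cons (P.lf 0 72243 0) (P.cons (P.lf 0 1146 0) P.nil))) (P.cons (P.cons (P.lf 0 138309 0) (P.cons (P.lf 21405 0 0) P.nil)) (P.cons (P.cons (P.lf 11151 0 0) P.nil) P.nil)))))) 4740)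
 (EL.cons 8 (TM.mk (P.cons (P.cons (P.lf 147297900 0 0) (P.cons (P.lf 0 101516862 0) (P.cons (P.lf 0 1615776 0) (P.lf 538596 0 0)))) (P.cons (P.cons (P.lf 0 172948374 0) (P.cons (P.lf 19689387 0 0) (P.cons (P.lf 313377 0 0) (P.lf 0 104457 0)))) (P.cons (P.cons (P.lf 19779543 0 0) (P.cons (P.lf 550971 0 0) (P.cons (P.lf 8772 0 0) (P.lf 0 2928 0)))) (P.cons (P.cons (P.lf 1149111 0 0) (P.cons (P.lf 0 177411 0) (P.cons (P.lf 0 2823 0) P.nil))) (P.cons (P.cons (P.lf 0 112068 0) (P.cons (P.lf 0 5667 0) P.nil)) (P.cons (P.cons (P.lf 0 5673 0) P.nil) P.nil)))))) 4521)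
 (EL.cons 11 (TM.mk (P.cons (P.cons (P.lf 2592837186 0 0) (P.cons (P.lf 96112938 0 0) (P.cons (P.lf 0 47624307 0) (P.cons (P.lf 0 432162 0) (P.lf 108039 0 0))))) (P.cons (P.cons (P.lf 141590370 0 0) (P.cons (P.lf 5248560 0 0) (P.cons (P.lf 0 2600679 0) (P.cons (P.lf 0 23598 0) (P.lf 5898 0 0))))) (P.cons (P.cons (P.lf 0 5946876 0) (P.cons (P.lf 0 220440 0) (P.cons (P.lf 109230 0 0) (P.cons (P.lf 990 0 0) P.nil)))) (P.cons (P.cons (P.lf 0 443466 0) (P.cons (P.lf 0 16437 0) (P.cons (P.lf 8145 0 0) P.nil))) (P.cons (P.cons (P.lf 3804 0 0) (P.cons (P.lf 141 0 0) P.nil)) (P.cons (P.cons (P.lf 711 0 0) P.nil) P.nil)))))) 735)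
 EL.nil)))
noncomputable def S198_212_438_512_22 : EL := (EL.cons 4 (TM.mk (P.cons (P.cons (P.lf 0 138180573 0) (P.cons (P.lf 136979340 0 0) (P.cons (P.lf 0 26590956 0) (P.cons (P.lf 0 1642593 0) (P.cons (P.lf 297996 0 0) (P.cons (P.lf 4857 0 0) P.nil)))))) (P.cons (P.cons (P.lf 136335744 0 0) (P.cons (P.lf 0 39883476 0) (P.cons (P.lf 0 1772544 0) (P.cons (P.lf 175380 0 0) (P.cons (P.lf 11784 0 0) P.nil))))) (P.cons (P.cons (P.lf 10945083 0 0) (P.cons (P.lf 0 7937016 0) (P.cons (P.lf 472044 0 0) (P.cons (P.lf 61152 0 0) P.nil)))) (P.cons (P.cons (P.lf 0 3549174 0) (P.cons (P.lf 315519 0 0) (P.cons (P.lf 53652 0 0) P.nil))) (P.cons (P.cons (P.lf 0 157299 0) (P.cons (P.lf 92256 0 0) P.nil)) (P.cons (P.cons (P.lf 29199 0 0) P.nil) P.nil)))))) 27756)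
 (EL.cons 8 (TM.mk (P.cons (P.cons (P.lf 38620170 0 0) (P.cons (P.lf 0 38284434 0) (P.cons (P.lf 7431921 0 0) (P.cons (P.lf 459090 0 0) (P.cons (P.lf 0 83286 0) (P.cons (P.lf 0 1356 0) P.nil)))))) (P.cons (P.cons (P.lf 0 43958763 0) (P.cons (P.lf 16950369 0 0) (P.cons (P.lf 0 631152 0) (P.cons (P.lf 0 118605 0) (P.cons (P.lf 9330 0 0) P.nil))))) (P.cons (P.cons (P.lf 2838864 0 0) (P.cons (P.lf 407799 0 0) (P.cons (P.lf 0 183576 0) (P.cons (P.lf 0 8214 0) P.nil)))) (P.cons (P.cons (P.lf 1327920 0 0) (P.cons (P.lf 0 381831 0) (P.cons (P.lf 5121 0 0) P.nil))) (P.cons (P.cons (P.lf 0 108423 0) (P.cons (P.lf 0 7806 0) P.nil)) (P.cons (P.cons (P.lf 0 11331 0) P.nil) P.nil)))))) 15051)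
 (EL.cons 11 (TM.mk (P.cons (P.cons (P.lf 679818336 0 0) (P.cons (P.lf 0 180181719 0) (P.cons (P.lf 0 23368797 0) (P.cons (P.lf 4627530 0 0) (P.cons (P.lf 162990 0 0) (P.cons (P.lf 0 28026 0) P.nil)))))) (P.cons (P.cons (P.lf 61533819 0 0) (P.cons (P.lf 0 25757868 0) (P.cons (P.lf 0 2615865 0) (P.cons (P.lf 636966 0 0) (P.cons (P.lf 20946 0 0) P.nil))))) (P.cons (P.cons (P.lf 0 12881460 0) (P.cons (P.lf 0 448215 0) (P.cons (P.lf 238152 0 0) (P.cons (P.lf 1470 0 0) P.nil)))) (P.cons (P.cons (P.lf 0 928713 0) (P.cons (P.lf 139401 0 0) (P.cons (P.lf 26265 0 0) P.nil))) (P.cons (P.cons (P.lf 63153 0 0) (P.cons (P.lf 8142 0 0) P.nil)) (P.cons (P.cons (P.lf 5535 0 0) P.nil) P.nil)))))) 14841)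
 EL.nil)))
noncomputable def S198_212_438_512_23 : EL := (EL.cons 4 (TM.mk (P.cons (P.cons (P.lf 200060595 0 0) (P.cons (P.lf 0 137880603 0) (P.cons (P.lf 0 2194548 0) (P.lf 731511 0 0)))) (P.cons (P.cons (P.lf 0 229436706 0) (P.cons (P.lf 22977498 0 0) (P.cons (P.lf 365715 0 0) (P.lf 0 121902 0)))) (P.cons (P.cons (P.lf 20146947 0 0) (P.cons (P.lf 1688013 0 0) (P.cons (P.lf 26865 0 0) (P.lf 0 8952 0)))) (P.cons (P.cons (P.lf 2642385 0 0) (P.cons (P.lf 0 255102 0) (P.cons (P.lf 0 4059 0) P.nil))) (P.cons (P.cons (P.lf 0 139926 0) (P.cons (P.lf 0 16701 0) P.nil)) (P.cons (P.cons (P.lf 0 15606 0) P.nil) P.nil)))))) 5898)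
 (EL.cons 8 (TM.mk (P.cons (P.cons (P.lf 0 55915053 0) (P.cons (P.lf 38536329 0 0) (P.cons (P.lf 613356 0 0) (P.lf 0 204453 0)))) (P.cons (P.cons (P.lf 72601236 0 0) (P.cons (P.lf 0 12263493 0) (P.cons (P.lf 0 195186 0) (P.lf 65061 0 0)))) (P.cons (P.cons (P.lf 0 15527715 0) (P.cons (P.lf 623286 0 0) (P.cons (P.lf 9918 0 0) (P.lf 0 3303 0)))) (P.cons (P.cons (P.lf 328242 0 0) (P.cons (P.lf 115059 0 0) (P.cons (P.lf 1830 0 0) P.nil))) (P.cons (P.cons (P.lf 120498 0 0) (P.cons (P.lf 0 6153 0) P.nil)) (P.cons (P.cons (P.lf 0 2412 0) P.nil) P.nil)))))) 3345)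
 (EL.cons 11 (TM.mk (P.cons (P.cons (P.lf 0 984254559 0) (P.cons (P.lf 0 36484974 0) (P.cons (P.lf 18078435 0 0) (P.cons (P.lf 164049 0 0) (P.lf 0 41010 0))))) (P.cons (P.cons (P.lf 68574822 0 0) (P.cons (P.lf 2541975 0 0) (P.cons (P.lf 0 1259556 0) (P.cons (P.lf 0 11430 0) (P.lf 2856 0 0))))) (P.cons (P.cons (P.lf 11400852 0 0) (P.cons (P.lf 422610 0 0) (P.cons (P.lf 0 209406 0) (P.cons (P.lf 0 1899 0) P.nil)))) (P.cons (P.cons (P.lf 0 54642 0) (P.cons (P.lf 0 2025 0) (P.cons (P.lf 1002 0 0) P.nil))) (P.cons (P.cons (P.lf 0 35406 0) (P.cons (P.lf 0 1311 0) P.nil)) (P.cons (P.cons (P.lf 0 480 0) P.nil) P.nil)))))) 1620)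
 EL.nil)))
noncomputable def S198_212_438_512_24 : EL := (EL.cons 4 (TM.mk (P.cons (P.cons (P.lf 52454067 0 0) (P.cons (P.lf 0 51998073 0) (P.cons (P.lf 10094064 0 0) (P.cons (P.lf 623535 0 0) (P.cons (P.lf 0 113121 0) (P.cons (P.lf 0 1842 0) P.nil)))))) (P.cons (P.cons (P.lf 0 58272759 0) (P.cons (P.lf 21602301 0 0) (P.cons (P.lf 0 581622 0) (P.cons (P.lf 0 144066 0) (P.cons (P.lf 9585 0 0) P.nil))))) (P.cons (P.cons (P.lf 2145861 0 0) (P.cons (P.lf 1261482 0 0) (P.cons (P.lf 0 288078 0) (P.cons (P.lf 0 16500 0) P.nil)))) (P.cons (P.cons (P.lf 1997280 0 0) (P.cons (P.lf 0 536178 0) (P.cons (P.lf 1005 0 0) P.nil))) (P.cons (P.cons (P.lf 0 101205 0) (P.cons (P.lf 0 26661 0) P.nil)) (P.cons (P.cons (P.lf 0 22371 0) P.nil) P.nil)))))) 22107)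
 (EL.cons 8 (TM.mk (P.cons (P.cons (P.lf 0 14660418 0) (P.cons (P.lf 14532972 0 0) (P.cons (P.lf 0 2821194 0) (P.cons (P.lf 0 174273 0) (P.cons (P.lf 31614 0 0) (P.cons (P.lf 513 0 0) P.nil)))))) (P.cons (P.cons (P.lf 18508974 0 0) (P.cons (P.lf 0 8240607 0) (P.cons (P.lf 590205 0 0) (P.cons (P.lf 66681 0 0) (P.cons (P.lf 0 7470 0) P.nil))))) (P.cons (P.cons (P.lf 0 3114813 0) (P.cons (P.lf 608496 0 0) (P.cons (P.lf 46971 0 0) (P.cons (P.lf 0 2040 0) P.nil)))) (P.cons (P.cons (P.lf 0 413067 0) (P.cons (P.lf 181425 0 0) (P.cons (P.lf 0 11424 0) P.nil))) (P.cons (P.cons (P.lf 107760 0 0) (P.cons (P.lf 0 15117 0) P.nil)) (P.cons (P.cons (P.lf 417 0 0) P.nil) P.nil)))))) 8898)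
 (EL.cons 11 (TM.mk (P.cons (P.cons (P.lf 0 258062595 0) (P.cons (P.lf 68397921 0 0) (P.cons (P.lf 8870916 0 0) (P.cons (P.lf 0 1756632 0) (P.cons (P.lf 0 61872 0) (P.cons (P.lf 10638 0 0) P.nil)))))) (P.cons (P.cons (P.lf 8713488 0 0) (P.cons (P.lf 1277319 0 0) (P.cons (P.lf 0 109482 0) (P.cons (P.lf 0 23481 0) (P.cons (P.lf 0 261 0) P.nil))))) (P.cons (P.cons (P.lf 8438787 0 0) (P.cons (P.lf 0 1216239 0) (P.cons (P.lf 0 236016 0) (P.cons (P.lf 33885 0 0) P.nil)))) (P.cons (P.cons (P.lf 0 216879 0) (P.cons (P.lf 0 93189 0) (P.cons (P.lf 0 525 0) P.nil))) (P.cons (P.cons (P.lf 0 82689 0) (P.cons (P.lf 4044 0 0) P.nil)) (P.cons (P.cons (P.lf 306 0 0) P.nil) P.nil)))))) 9951)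
 EL.nil)))
noncomputable def S198_212_438_512_25 : EL := (EL.cons 4 (TM.mk (P.cons (P.cons (P.lf 0 75944046 0) (P.cons (P.lf 52340196 0 0) (P.cons (P.lf 833061 0 0) (P.lf 0 277686 0)))) (P.cons (P.cons (P.lf 96533709 0 0) (P.cons (P.lf 0 15227223 0) (P.cons (P.lf 0 242361 0) (P.lf 80784 0 0)))) (P.cons (P.cons (P.lf 0 18282024 0) (P.cons (P.lf 312234 0 0) (P.cons (P.lf 4968 0 0) (P.lf 0 1656 0)))) (P.cons (P.cons (P.lf 0 276513 0) (P.cons (P.lf 202398 0 0) (P.cons (P.lf 3219 0 0) P.nil))) (P.cons (P.cons (P.lf 203481 0 0) (P.cons (P.lf 0 4602 0) P.nil)) (P.cons (P.cons (P.lf 1518 0 0) P.nil) P.nil)))))) 5415)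
 (EL.cons 8 (TM.mk (P.cons (P.cons (P.lf 21225645 0 0) (P.cons (P.lf 0 14628591 0) (P.cons (P.lf 0 232833 0) (P.lf 77610 0 0)))) (P.cons (P.cons (P.lf 0 30197733 0) (P.cons (P.lf 6473328 0 0) (P.cons (P.lf 103029 0 0) (P.lf 0 34341 0)))) (P.cons (P.cons (P.lf 9266412 0 0) (P.cons (P.lf 0 778548 0) (P.cons (P.lf 0 12390 0) (P.lf 4128 0 0)))) (P.cons (P.cons (P.lf 0 786519 0) (P.cons (P.lf 0 27066 0) (P.cons (P.lf 0 429 0) P.nil))) (P.cons (P.cons (P.lf 0 47094 0) (P.cons (P.lf 8673 0 0) P.nil)) (P.cons (P.cons (P.lf 7284 0 0) P.nil) P.nil)))))) 2559)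
 (EL.cons 11 (TM.mk (P.cons (P.cons (P.lf 373628178 0 0) (P.cons (P.lf 13849887 0 0) (P.cons (P.lf 0 6862668 0) (P.cons (P.lf 0 62274 0) (P.lf 15567 0 0))))) (P.cons (P.cons (P.lf 0 72465912 0) (P.cons (P.lf 0 2686212 0) (P.cons (P.lf 1331028 0 0) (P.cons (P.lf 12078 0 0) (P.lf 0 3018 0))))) (P.cons (P.cons (P.lf 0 2027808 0) (P.cons (P.lf 0 75165 0) (P.cons (P.lf 37245 0 0) (P.cons (P.lf 336 0 0) P.nil)))) (P.cons (P.cons (P.lf 652971 0 0) (P.cons (P.lf 24204 0 0) (P.cons (P.lf 0 11991 0) P.nil))) (P.cons (P.cons (P.lf 20871 0 0) (P.cons (P.lf 771 0 0) P.nil)) (P.cons (P.cons (P.lf 0 1971 0) P.nil) P.nil)))))) 1785)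
 EL.nil)))
noncomputable def S198_212_438_512_26 : EL := (EL.cons 4 (TM.mk (P.cons (P.cons (P.lf 0 19911837 0) (P.cons (P.lf 19738740 0 0) (P.cons (P.lf 0 3831759 0) (P.cons (P.lf 0 236697 0) (P.cons (P.lf 42939 0 0) (P.cons (P.lf 699 0 0) P.nil)))))) (P.cons (P.cons (P.lf 24595290 0 0) (P.cons (P.lf 0 10653480 0) (P.cons (P.lf 696999 0 0) (P.cons (P.lf 84105 0 0) (P.cons (P.lf 0 8973 0) P.nil))))) (P.cons (P.cons (P.lf 0 3513897 0) (P.cons (P.lf 490869 0 0) (P.cons (P.lf 91506 0 0) (P.cons (P.lf 57 0 0) P.nil)))) (P.cons (P.cons (P.lf 0 713865 0) (P.cons (P.lf 285117 0 0) (P.cons (P.lf 0 14823 0) P.nil))) (P.cons (P.cons (P.lf 136347 0 0) (P.cons (P.lf 0 14553 0) P.nil)) (P.cons (P.cons (P.lf 5622 0 0) P.nil) P.nil)))))) 13842)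
 (EL.cons 8 (TM.mk (P.cons (P.cons (P.lf 5565171 0 0) (P.cons (P.lf 0 5516790 0) (P.cons (P.lf 1070940 0 0) (P.cons (P.lf 66153 0 0) (P.cons (P.lf 0 12000 0) (P.cons (P.lf 0 195 0) P.nil)))))) (P.cons (P.cons (P.lf 0 7717743 0) (P.cons (P.lf 3813804 0 0) (P.cons (P.lf 0 357141 0) (P.cons (P.lf 0 33534 0) (P.cons (P.lf 4326 0 0) P.nil))))) (P.cons (P.cons (P.lf 2041674 0 0) (P.cons (P.lf 0 605949 0) (P.cons (P.lf 7332 0 0) (P.cons (P.lf 3753 0 0) P.nil)))) (P.cons (P.cons (P.lf 27873 0 0) (P.cons (P.lf 0 48423 0) (P.cons (P.lf 7197 0 0) P.nil))) (P.cons (P.cons (P.lf 0 63882 0) (P.cons (P.lf 15102 0 0) P.nil)) (P.cons (P.cons (P.lf 4599 0 0) P.nil) P.nil)))))) 6096)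
 (EL.cons 11 (TM.mk (P.cons (P.cons (P.lf 97961910 0 0) (P.cons (P.lf 0 25964208 0) (P.cons (P.lf 0 3367446 0) (P.cons (P.lf 666825 0 0) (P.cons (P.lf 23487 0 0) (P.cons (P.lf 0 4038 0) P.nil)))))) (P.cons (P.cons (P.lf 0 15482403 0) (P.cons (P.lf 2741955 0 0) (P.cons (P.lf 460065 0 0) (P.cons (P.lf 0 73959 0) (P.cons (P.lf 0 2817 0) P.nil))))) (P.cons (P.cons (P.lf 0 3037518 0) (P.cons (P.lf 586935 0 0) (P.cons (P.lf 92856 0 0) (P.cons (P.lf 0 15639 0) P.nil)))) (P.cons (P.cons (P.lf 496386 0 0) (P.cons (P.lf 0 22818 0) (P.cons (P.lf 0 11301 0) P.nil))) (P.cons (P.cons (P.lf 29232 0 0) (P.cons (P.lf 0 7209 0) P.nil)) (P.cons (P.cons (P.lf 0 4485 0) P.nil) P.nil)))))) 7464)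
 EL.nil)))
noncomputable def S198_212_438_512_27 : EL := (EL.cons 13 (TM.mk (P.lf 0 4294967296 0) 0)
 EL.nil)
noncomputable def S198_212_438_512_28 : EL := (EL.cons 13 (TM.mk (P.cons (P.cons (P.lf 0 1126101376 0) (P.cons (P.lf 340209372 0 0) (P.cons (P.lf 5414880 0 0) (P.lf 0 1804956 0)))) (P.cons (P.cons (P.lf 0 40434716 0) (P.cons (P.lf 27867368 0 0) (P.cons (P.lf 443544 0 0) (P.lf 0 147848 0)))) (P.cons (P.cons (P.lf 20963076 0 0) (P.cons (P.lf 0 789996 0) (P.cons (P.lf 0 12572 0) (P.lf 4188 0 0)))) (P.cons (P.cons (P.lf 108292 0 0) (P.cons (P.lf 0 122700 0) (P.cons (P.lf 0 1952 0) P.nil))) (P.cons (P.cons (P.lf 0 67710 0) (P.cons (P.lf 0 456 0) P.nil)) (P.cons (P.cons (P.lf 0 1274 0) P.nil) P.nil)))))) 1503)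
 EL.nil)
noncomputable def S198_212_438_512_29 : EL := (EL.cons 13 (TM.mk (P.cons (P.cons (P.lf 0 295253542 0) (P.cons (P.lf 178399608 0 0) (P.cons (P.lf 0 24108916 0) (P.cons (P.lf 0 1804324 0) (P.cons (P.lf 279118 0 0) (P.cons (P.lf 4551 0 0) P.nil)))))) (P.cons (P.cons (P.lf 0 21203229 0) (P.cons (P.lf 21018903 0 0) (P.cons (P.lf 0 4080270 0) (P.cons (P.lf 0 252048 0) (P.cons (P.lf 45726 0 0) P.nil))))) (P.cons (P.cons (P.lf 10611985 0 0) (P.cons (P.lf 0 3210567 0) (P.cons (P.lf 0 106760 0) (P.cons (P.lf 15259 0 0) P.nil)))) (P.cons (P.cons (P.lf 451497 0 0) (P.cons (P.lf 0 368404 0) (P.cons (P.lf 23826 0 0) P.nil))) (P.cons (P.cons (P.lf 0 135784 0) (P.cons (P.lf 14483 0 0) P.nil)) (P.cons (P.cons (P.lf 0 3000 0) P.nil) P.nil)))))) 14433)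
 EL.nil)
noncomputable def S198_212_438_512_30 : EL := (EL.cons 13 (TM.mk (P.cons (P.lf 1630392056 0 0) (P.cons (P.lf 0 202625308 0) (P.cons (P.lf 0 4080764 0) (P.cons (P.lf 127476 0 0) (P.cons (P.lf 5284 0 0) (P.cons (P.lf 0 44 0) P.nil)))))) 48)
 EL.nil)
noncomputable def S198_212_438_512_31 : EL := (EL.cons 13 (TM.mk (P.cons (P.cons (P.lf 427473973 0 0) (P.cons (P.lf 0 129145257 0) (P.cons (P.lf 0 2055516 0) (P.lf 685170 0 0)))) (P.cons (P.cons (P.lf 0 37777283 0) (P.cons (P.lf 5471588 0 0) (P.cons (P.lf 87088 0 0) (P.lf 0 29029 0)))) (P.cons (P.cons (P.lf 0 10935236 0) (P.cons (P.lf 1937838 0 0) (P.cons (P.lf 30842 0 0) (P.lf 0 10279 0)))) (P.cons (P.cons (P.lf 942879 0 0) (P.cons (P.lf 25687 0 0) (P.cons (P.lf 408 0 0) P.nil))) (P.cons (P.cons (P.lf 53315 0 0) (P.cons (P.lf 0 7611 0) P.nil)) (P.cons (P.cons (P.lf 0 3191 0) P.nil) P.nil)))))) 1571)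
 EL.nil)
noncomputable def S198_212_438_512_32 : EL := (EL.cons 13 (TM.mk (P.cons (P.cons (P.lf 112079789 0 0) (P.cons (P.lf 0 67721424 0) (P.cons (P.lf 9151870 0 0) (P.cons (P.lf 684930 0 0) (P.cons (P.lf 0 105954 0) (P.cons (P.lf 0 1727 0) P.nil)))))) (P.cons (P.cons (P.lf 0 5880432 0) (P.cons (P.lf 437540 0 0) (P.cons (P.lf 411496 0 0) (P.cons (P.lf 10555 0 0) (P.cons (P.lf 0 4189 0) P.nil))))) (P.cons (P.cons (P.lf 0 5309206 0) (P.cons (P.lf 2379867 0 0) (P.cons (P.lf 0 174876 0) (P.cons (P.lf 0 19397 0) P.nil)))) (P.cons (P.cons (P.lf 317872 0 0) (P.cons (P.lf 3057 0 0) (P.cons (P.lf 0 17242 0) P.nil))) (P.cons (P.cons (P.lf 83920 0 0) (P.cons (P.lf 0 26771 0) P.nil)) (P.cons (P.cons (P.lf 0 5130 0) P.nil) P.nil)))))) 12834)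
 EL.nil)
noncomputable def S198_212_438_512_33 : EL := (EL.cons 14 (TM.mk (P.lf 8589934592 0 0) 0)
 EL.nil)
noncomputable def S198_212_438_512_34 : EL := (EL.cons 14 (TM.mk (P.cons (P.cons (P.lf 2252202752 0 0) (P.cons (P.lf 0 680418744 0) (P.cons (P.lf 0 10829760 0) (P.lf 3609912 0 0)))) (P.cons (P.cons (P.lf 80869432 0 0) (P.cons (P.lf 0 55734736 0) (P.cons (P.lf 0 887088 0) (P.lf 295696 0 0)))) (P.cons (P.cons (P.lf 0 41926152 0) (P.cons (P.lf 1579992 0 0) (P.cons (P.lf 25144 0 0) (P.lf 0 8376 0)))) (P.cons (P.cons (P.lf 0 216584 0) (P.cons (P.lf 245400 0 0) (P.cons (P.lf 3904 0 0) P.nil))) (P.cons (P.cons (P.lf 135420 0 0) (P.cons (P.lf 912 0 0) P.nil)) (P.cons (P.cons (P.lf 2548 0 0) P.nil) P.nil)))))) 3006)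
 EL.nil)
noncomputable def S198_212_438_512_35 : EL := (EL.cons 14 (TM.mk (P.cons (P.cons (P.lf 590507084 0 0) (P.cons (P.lf 0 356799216 0) (P.cons (P.lf 48217832 0 0) (P.cons (P.lf 3608648 0 0) (P.cons (P.lf 0 558236 0) (P.cons (P.lf 0 9102 0) P.nil)))))) (P.cons (P.cons (P.lf 42406458 0 0) (P.cons (P.lf 0 42037806 0) (P.cons (P.lf 8160540 0 0) (P.cons (P.lf 504096 0 0) (P.cons (P.lf 0 91452 0) P.nil))))) (P.cons (P.cons (P.lf 0 21223970 0) (P.cons (P.lf 6421134 0 0) (P.cons (P.lf 213520 0 0) (P.cons (P.lf 0 30518 0) P.nil)))) (P.cons (P.cons (P.lf 0 902994 0) (P.cons (P.lf 736808 0 0) (P.cons (P.lf 0 47652 0) P.nil))) (P.cons (P.cons (P.lf 271568 0 0) (P.cons (P.lf 0 28966 0) P.nil)) (P.cons (P.cons (P.lf 6000 0 0) P.nil) P.nil)))))) 28866)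
 EL.nil)
noncomputable def S198_212_438_512_36 : EL := (EL.cons 14 (TM.mk (P.cons (P.lf 0 3260784112 0) (P.cons (P.lf 405250616 0 0) (P.cons (P.lf 8161528 0 0) (P.cons (P.lf 0 254952 0) (P.cons (P.lf 0 10568 0) (P.cons (P.lf 88 0 0) P.nil)))))) 96)
 EL.nil)
noncomputable def S198_212_438_512_37 : EL := (EL.cons 14 (TM.mk (P.cons (P.cons (P.lf 0 854947946 0) (P.cons (P.lf 258290514 0 0) (P.cons (P.lf 4111032 0 0) (P.lf 0 1370340 0)))) (P.cons (P.cons (P.lf 75554566 0 0) (P.cons (P.lf 0 10943176 0) (P.cons (P.lf 0 174176 0) (P.lf 58058 0 0)))) (P.cons (P.cons (P.lf 21870472 0 0) (P.cons (P.lf 0 3875676 0) (P.cons (P.lf 0 61684 0) (P.lf 20558 0 0)))) (P.cons (P.cons (P.lf 0 1885758 0) (P.cons (P.lf 0 51374 0) (P.cons (P.lf 0 816 0) P.nil))) (P.cons (P.cons (P.lf 0 106630 0) (P.cons (P.lf 15222 0 0) P.nil)) (P.cons (P.cons (P.lf 6382 0 0) P.nil) P.nil))))))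 3142)
 EL.nil)
noncomputable def S198_212_438_512_38 : EL := (EL.cons 14 (TM.mk (P.cons (P.cons (P.lf 0 224159578 0) (P.cons (P.lf 135442848 0 0) (P.cons (P.lf 0 18303740 0) (P.cons (P.lf 0 1369860 0) (P.cons (P.lf 211908 0 0) (P.cons (P.lf 3454 0 0) P.nil)))))) (P.cons (P.cons (P.lf 11760864 0 0) (P.cons (P.lf 0 875080 0) (P.cons (P.lf 0 822992 0) (P.cons (P.lf 0 21110 0) (P.cons (P.lf 8378 0 0) P.nil))))) (P.cons (P.cons (P.lf 10618412 0 0) (P.cons (P.lf 0 4759734 0) (P.cons (P.lf 349752 0 0) (P.cons (P.lf 38794 0 0) P.nil)))) (P.cons (P.cons (P.lf 0 635744 0) (P.cons (P.lf 0 6114 0) (P.cons (P.lf 34484 0 0) P.nil))) (P.cons (P.cons (P.lf 0 167840 0) (P.cons (P.lf 53542 0 0) P.nil)) (P.cons (P.cons (P.lf 10260 0 0) P.nil) P.nil)))))) 25668)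
 EL.nil)
noncomputable def S198_212_438_512_39 : EL := (EL.cons 14 (TM.mk (P.cons (P.lf 1237810708 0 0) (P.cons (P.lf 0 307670508 0) (P.cons (P.lf 12922344 0 0) (P.cons (P.lf 963640 0 0) (P.cons (P.lf 0 8278 0) (P.cons (P.lf 0 1548 0) P.nil)))))) 132)
 EL.nil)
noncomputable def S198_212_438_512_40 : EL := (EL.cons 14 (TM.mk (P.cons (P.cons (P.lf 324542712 0 0) (P.cons (P.lf 0 98048430 0) (P.cons (P.lf 0 1560568 0) (P.lf 520188 0 0)))) (P.cons (P.cons (P.lf 0 69015114 0) (P.cons (P.lf 16339556 0 0) (P.cons (P.lf 260066 0 0) (P.lf 0 86688 0)))) (P.cons (P.cons (P.lf 0 5549988 0) (P.cons (P.lf 1200364 0 0) (P.cons (P.lf 19104 0 0) (P.lf 0 6366 0)))) (P.cons (P.cons (P.lf 1844796 0 0) (P.cons (P.lf 0 181404 0) (P.cons (P.lf 0 2886 0) P.nil))) (P.cons (P.cons (P.lf 0 28898 0) (P.cons (P.lf 0 11878 0) P.nil)) (P.cons (P.cons (P.lf 0 9996 0) P.nil) P.nil))))))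 3330)
 EL.nil)
noncomputable def S198_212_438_512_41 : EL := (EL.cons 14 (TM.mk (P.cons (P.cons (P.lf 85092148 0 0) (P.cons (P.lf 0 51414814 0) (P.cons (P.lf 6948194 0 0) (P.cons (P.lf 520006 0 0) (P.cons (P.lf 0 80440 0) (P.cons (P.lf 0 1310 0) P.nil)))))) (P.cons (P.cons (P.lf 0 15039746 0) (P.cons (P.lf 6722024 0 0) (P.cons (P.lf 0 551110 0) (P.cons (P.lf 0 56612 0) (P.cons (P.lf 6816 0 0) P.nil))))) (P.cons (P.cons (P.lf 0 3688938 0) (P.cons (P.lf 1894222 0 0) (P.cons (P.lf 0 188984 0) (P.cons (P.lf 0 17024 0) P.nil)))) (P.cons (P.cons (P.lf 760108 0 0) (P.cons (P.lf 0 227080 0) (P.cons (P.lf 3170 0 0) P.nil))) (P.cons (P.cons (P.lf 43734 0 0) (P.cons (P.lf 0 25276 0) P.nil)) (P.cons (P.cons (P.lf 0 12748 0) P.nil) P.nil)))))) 19358)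
 EL.nil)
noncomputable def S198_212_438_512_42 : EL := (EL.cons 14 (TM.mk (P.cons (P.lf 0 469879420 0) (P.cons (P.lf 175190000 0 0) (P.cons (P.lf 0 18244400 0) (P.cons (P.lf 0 85224 0) (P.cons (P.lf 68490 0 0) (P.cons (P.lf 1120 0 0) P.nil)))))) 218)
 EL.nil)
noncomputable def S198_212_438_512_43 : EL := (EL.cons 14 (TM.mk (P.cons (P.cons (P.lf 0 123198110 0) (P.cons (P.lf 37219696 0 0) (P.cons (P.lf 592400 0 0) (P.lf 0 197466 0)))) (P.cons (P.cons (P.lf 41509572 0 0) (P.cons (P.lf 0 10828248 0) (P.cons (P.lf 0 172346 0) (P.lf 57448 0 0)))) (P.cons (P.cons (P.lf 0 840790 0) (P.cons (P.lf 222034 0 0) (P.cons (P.lf 3534 0 0) (P.lf 0 1178 0)))) (P.cons (P.cons (P.lf 0 1037332 0) (P.cons (P.lf 143926 0 0) (P.cons (P.lf 2290 0 0) P.nil))) (P.cons (P.cons (P.lf 94378 0 0) (P.cons (P.lf 0 3272 0) P.nil)) (P.cons (P.cons (P.lf 4436 0 0) P.nil) P.nil)))))) 3298)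
 EL.nil)
noncomputable def S198_212_438_512_44 : EL := (EL.cons 14 (TM.mk (P.cons (P.cons (P.lf 0 32301424 0) (P.cons (P.lf 19517332 0 0) (P.cons (P.lf 0 2637570 0) (P.cons (P.lf 0 197396 0) (P.cons (P.lf 30536 0 0) (P.cons (P.lf 496 0 0) P.nil)))))) (P.cons (P.cons (P.lf 9723590 0 0) (P.cons (P.lf 0 4977330 0) (P.cons (P.lf 537002 0 0) (P.cons (P.lf 46022 0 0) (P.cons (P.lf 0 6382 0) P.nil))))) (P.cons (P.cons (P.lf 771652 0 0) (P.cons (P.lf 0 450780 0) (P.cons (P.lf 52340 0 0) (P.cons (P.lf 4284 0 0) P.nil)))) (P.cons (P.cons (P.lf 0 479390 0) (P.cons (P.lf 183478 0 0) (P.cons (P.lf 0 10848 0) P.nil))) (P.cons (P.cons (P.lf 16094 0 0) (P.cons (P.lf 544 0 0) P.nil)) (P.cons (P.cons (P.lf 7752 0 0) P.nil) P.nil)))))) 13310)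
 EL.nil)
noncomputable def S198_212_438_512_45 : EL := (EL.cons 14 (TM.mk (P.cons (P.cons (P.lf 154825588 0 0) (P.cons (P.lf 0 140324264 0) (P.cons (P.lf 40160276 0 0) (P.cons (P.lf 0 2175240 0) (P.cons (P.lf 0 642944 0) (P.cons (P.lf 57544 0 0) P.nil)))))) (P.cons (P.cons (P.lf 16677880 0 0) (P.cons (P.lf 0 21571492 0) (P.cons (P.lf 8124028 0 0) (P.cons (P.lf 0 665122 0) (P.cons (P.lf 0 137794 0) P.nil))))) (P.cons (P.cons (P.lf 0 8047672 0) (P.cons (P.lf 4543924 0 0) (P.cons (P.lf 0 379922 0) (P.cons (P.lf 0 94694 0) P.nil)))) (P.cons (P.cons (P.lf 0 658436 0) (P.cons (P.lf 701718 0 0) (P.cons (P.lf 0 165758 0) P.nil))) (P.cons (P.cons (P.lf 174532 0 0) (P.cons (P.lf 0 54844 0) P.nil)) (P.cons (P.cons (P.lf 9916 0 0) P.nil) P.nil)))))) 89102)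
 EL.nil)
noncomputable def S198_212_438_512_46 : EL := (EL.cons 15 (TM.mk (P.lf 4294967296 0 0) 0)
 EL.nil)
noncomputable def S198_212_438_512_47 : EL := (EL.cons 15 (TM.mk (P.cons (P.cons (P.lf 1126101376 0 0) (P.cons (P.lf 0 340209372 0) (P.cons (P.lf 0 5414880 0) (P.lf 1804956 0 0)))) (P.cons (P.cons (P.lf 40434716 0 0) (P.cons (P.lf 0 27867368 0) (P.cons (P.lf 0 443544 0) (P.lf 147848 0 0)))) (P.cons (P.cons (P.lf 0 20963076 0) (P.cons (P.lf 789996 0 0) (P.cons (P.lf 12572 0 0) (P.lf 0 4188 0)))) (P.cons (P.cons (P.lf 0 108292 0) (P.cons (P.lf 122700 0 0) (P.cons (P.lf 1952 0 0) P.nil))) (P.cons (P.cons (P.lf 67710 0 0) (P.cons (P.lf 456 0 0) P.nil)) (P.cons (P.cons (P.lf 1274 0 0) P.nil) P.nil)))))) 1503)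
 EL.nil)
noncomputable def S198_212_438_512_48 : EL := (EL.cons 15 (TM.mk (P.cons (P.cons (P.lf 295253542 0 0) (P.cons (P.lf 0 178399608 0) (P.cons (P.lf 24108916 0 0) (P.cons (P.lf 1804324 0 0) (P.cons (P.lf 0 279118 0) (P.cons (P.lf 0 4551 0) P.nil)))))) (P.cons (P.cons (P.lf 21203229 0 0) (P.cons (P.lf 0 21018903 0) (P.cons (P.lf 4080270 0 0) (P.cons (P.lf 252048 0 0) (P.cons (P.lf 0 45726 0) P.nil))))) (P.cons (P.cons (P.lf 0 10611985 0) (P.cons (P.lf 3210567 0 0) (P.cons (P.lf 106760 0 0) (P.cons (P.lf 0 15259 0) P.nil)))) (P.cons (P.cons (P.lf 0 451497 0) (P.cons (P.lf 368404 0 0) (P.cons (P.lf 0 23826 0) P.nil))) (P.cons (P.cons (P.lf 135784 0 0) (P.cons (P.lf 0 14483 0) P.nil)) (P.cons (P.cons (P.lf 3000 0 0) P.nil) P.nil)))))) 14433)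
 EL.nil)
noncomputable def S198_212_438_512 : SL := (SL.cons S198_212_438_512_0 (SL.cons S198_212_438_512_1 (SL.cons S198_212_438_512_2 (SL.cons S198_212_438_512_3 (SL.cons S198_212_438_512_4 (SL.cons S198_212_438_512_5 (SL.cons S198_212_438_512_6 (SL.cons S198_212_438_512_7 (SL.cons S198_212_438_512_8 (SL.cons S198_212_438_512_9 (SL.cons S198_212_438_512_10 (SL.cons S198_212_438_512_11 (SL.cons S198_212_438_512_12 (SL.cons S198_212_438_512_13 (SL.cons S198_212_438_512_14 (SL.cons S198_212_438_512_15 (SL.cons S198_212_438_512_16 (SL.cons S198_212_438_512_17 (SL.cons S198_212_438_512_18 (SL.cons S198_212_438_512_19 (SL.cons S198_212_438_512_20 (SL.cons S198_212_438_512_21 (SL.cons S198_212_438_512_22 (SL.cons S198_212_438_512_23 (SL.cons S198_212_438_512_24 (SL.cons S198_212_438_512_25 (SL.cons S198_212_438_512_26 (SL.cons S198_212_438_512_27 (SL.cons S198_212_438_512_28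 (SL.cons S198_212_438_512_29 (SL.cons S198_212_438_512_30 (SL.cons S198_212_438_512_31 (SL.cons S198_212_438_512_32 (SL.cons S198_212_438_512_33 (SL.cons S198_212_438_512_34 (SL.cons S198_212_438_512_35 (SL.cons S198_212_438_512_36 (SL.cons S198_212_438_512_37 (SL.cons S198_212_438_512_38 (SL.cons S198_212_438_512_39 (SL.cons S198_212_438_512_40 (SL.cons S198_212_438_512_41 (SL.cons S198_212_438_512_42 (SL.cons S198_212_438_512_43 (SL.cons S198_212_438_512_44 (SL.cons S198_212_438_512_45 (SL.cons S198_212_438_512_46 (SL.cons S198_212_438_512_47 (SL.cons S198_212_438_512_48 SL.nil)))))))))))))))))))))))))))))))))))))))))))))))))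
noncomputable def S198_212_475_512_0 : EL := (EL.cons 0 (TM.mk (P.cons (P.lf 7367797296 0 0) (P.cons (P.lf 270413532 0 0) (P.cons (P.lf 0 11357528 0) (P.cons (P.lf 0 846949 0) (P.cons (P.lf 7275 0 0) (P.cons (P.lf 1360 0 0) P.nil)))))) 123)
 (EL.cons 1 (TM.mk (P.cons (P.lf 0 1384003233 0) (P.cons (P.lf 134215061 0 0) (P.cons (P.lf 10263551 0 0) (P.cons (P.lf 0 214061 0) (P.cons (P.lf 0 21358 0) (P.cons (P.lf 0 5 0) P.nil)))))) 123)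
 (EL.cons 5 (TM.mk (P.cons (P.lf 4681783146 0 0) (P.cons (P.lf 0 96147034 0) (P.cons (P.lf 4038232 0 0) (P.cons (P.lf 301136 0 0) (P.cons (P.lf 0 2584 0) (P.cons (P.lf 0 484 0) P.nil)))))) 121)
 (EL.cons 9 (TM.mk (P.lf 6442450944 0 0) 2)
 EL.nil))))
noncomputable def S198_212_475_512_1 : EL := (EL.cons 0 (TM.mk (P.cons (P.cons (P.lf 1393035049 0 0) (P.cons (P.lf 0 164483165 0) (P.cons (P.lf 0 646775 0) (P.lf 215588 0 0)))) (P.cons (P.cons (P.lf 513931264 0 0) (P.cons (P.lf 0 56824133 0) (P.cons (P.lf 0 223432 0) (P.lf 74475 0 0)))) (P.cons (P.cons (P.lf 0 75509862 0) (P.cons (P.lf 0 1348265 0) (P.cons (P.lf 0 5298 0) (P.lf 1766 0 0)))) (P.cons (P.cons (P.lf 0 6346500 0) (P.cons (P.lf 444906 0 0) (P.cons (P.lf 1745 0 0) P.nil))) (P.cons (P.cons (P.lf 442528 0 0) (P.cons (P.lf 21576 0 0) P.nil)) (P.cons (P.cons (P.lf 39207 0 0) P.nil) P.nil)))))) 7464)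
 (EL.cons 1 (TM.mk (P.cons (P.cons (P.lf 0 429293453 0) (P.cons (P.lf 120391928 0 0) (P.cons (P.lf 473395 0 0) (P.lf 0 157791 0)))) (P.cons (P.cons (P.lf 195273961 0 0) (P.cons (P.lf 3728247 0 0) (P.cons (P.lf 14660 0 0) (P.lf 0 4887 0)))) (P.cons (P.cons (P.lf 35254962 0 0) (P.cons (P.lf 0 2747562 0) (P.cons (P.lf 0 10792 0) (P.lf 3590 0 0)))) (P.cons (P.cons (P.lf 0 3041631 0) (P.cons (P.lf 0 136142 0) (P.cons (P.lf 0 522 0) P.nil))) (P.cons (P.cons (P.lf 0 313815 0) (P.cons (P.lf 13869 0 0) P.nil)) (P.cons (P.cons (P.lf 11505 0 0) P.nil) P.nil)))))) 4226)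
 (EL.cons 5 (TM.mk (P.cons (P.cons (P.lf 1127975254 0 0) (P.cons (P.lf 0 234147060 0) (P.cons (P.lf 0 920694 0) (P.lf 306896 0 0)))) (P.cons (P.cons (P.lf 0 137836448 0) (P.cons (P.lf 0 3765890 0) (P.cons (P.lf 0 14814 0) (P.lf 4944 0 0)))) (P.cons (P.cons (P.lf 0 8113340 0) (P.cons (P.lf 1158898 0 0) (P.cons (P.lf 4554 0 0) (P.lf 0 1514 0)))) (P.cons (P.cons (P.lf 2177414 0 0) (P.cons (P.lf 0 52642 0) (P.cons (P.lf 0 202 0) P.nil))) (P.cons (P.cons (P.lf 0 41839 0) (P.cons (P.lf 0 7270 0) P.nil)) (P.cons (P.cons (P.lf 0 11983 0) P.nil) P.nil)))))) 4385)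
 (EL.cons 9 (TM.mk (P.cons (P.cons (P.lf 1432302876 0 0) (P.cons (P.lf 0 258202902 0) (P.cons (P.lf 0 1015290 0) (P.lf 338424 0 0)))) (P.cons (P.cons (P.lf 39612936 0 0) (P.cons (P.lf 0 21150018 0) (P.cons (P.lf 0 83160 0) (P.lf 27720 0 0)))) (P.cons (P.cons (P.lf 0 30848184 0) (P.cons (P.lf 599568 0 0) (P.cons (P.lf 2352 0 0) (P.lf 0 780 0)))) (P.cons (P.cons (P.lf 0 69804 0) (P.cons (P.lf 93120 0 0) (P.cons (P.lf 360 0 0) P.nil))) (P.cons (P.cons (P.lf 101907 0 0) (P.cons (P.lf 342 0 0) P.nil)) (P.cons (P.cons (P.lf 1719 0 0) P.nil) P.nil)))))) 1031)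
 (EL.cons 2 (TM.mk (P.cons (P.cons (P.lf 935587026 0 0) (P.cons (P.lf 8580000 0 0) (P.cons (P.lf 0 4280385 0) (P.cons (P.lf 0 9610 0) (P.lf 2401 0 0))))) (P.cons (P.cons (P.lf 0 65184063 0) (P.cons (P.lf 0 597782 0) (P.cons (P.lf 298223 0 0) (P.cons (P.lf 669 0 0) (P.lf 0 165 0))))) (P.cons (P.cons (P.lf 0 10837125 0) (P.cons (P.lf 0 99382 0) (P.cons (P.lf 49578 0 0) (P.cons (P.lf 109 0 0) P.nil)))) (P.cons (P.cons (P.lf 51941 0 0) (P.cons (P.lf 475 0 0) (P.cons (P.lf 0 236 0) P.nil))) (P.cons (P.cons (P.lf 33657 0 0) (P.cons (P.lf 306 0 0) P.nil)) (P.cons (P.cons (P.lf 458 0 0) P.nil) P.nil)))))) 485)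
 (EL.cons 6 (TM.mk (P.cons (P.cons (P.lf 1190212500 0 0) (P.cons (P.lf 10915098 0 0) (P.cons (P.lf 0 5445321 0) (P.cons (P.lf 0 12225 0) (P.lf 3054 0 0))))) (P.cons (P.cons (P.lf 97493178 0 0) (P.cons (P.lf 894081 0 0) (P.cons (P.lf 0 446037 0) (P.cons (P.lf 0 999 0) (P.lf 249 0 0))))) (P.cons (P.cons (P.lf 0 2763786 0) (P.cons (P.lf 0 25344 0) (P.cons (P.lf 12642 0 0) (P.cons (P.lf 27 0 0) P.nil)))) (P.cons (P.cons (P.lf 0 429267 0) (P.cons (P.lf 0 3936 0) (P.cons (P.lf 1962 0 0) P.nil))) (P.cons (P.cons (P.lf 0 1593 0) (P.cons (P.lf 0 15 0) P.nil)) (P.cons (P.cons (P.lf 912 0 0) P.nil) P.nil)))))) 354)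
 EL.nil))))))
noncomputable def S198_212_475_512_2 : EL := (EL.cons 0 (TM.mk (P.cons (P.cons (P.lf 255235708 0 0) (P.cons (P.lf 0 53498811 0) (P.cons (P.lf 1139357 0 0) (P.cons (P.lf 80742 0 0) (P.cons (P.lf 0 3524 0) (P.cons (P.lf 0 20 0) P.nil)))))) (P.cons (P.cons (P.lf 212138502 0 0) (P.cons (P.lf 0 58425517 0) (P.cons (P.lf 3031881 0 0) (P.cons (P.lf 102219 0 0) (P.cons (P.lf 0 8489 0) P.nil))))) (P.cons (P.cons (P.lf 0 25365349 0) (P.cons (P.lf 704738 0 0) (P.cons (P.lf 375954 0 0) (P.cons (P.lf 2002 0 0) P.nil)))) (P.cons (P.cons (P.lf 0 7594622 0) (P.cons (P.lf 1434261 0 0) (P.cons (P.lf 0 20000 0) P.nil))) (P.cons (P.cons (P.lf 650438 0 0) (P.cons (P.lf 37113 0 0) P.nil)) (P.cons (P.cons (P.lf 88563 0 0) P.nil) P.nil)))))) 37140)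
 (EL.cons 1 (TM.mk (P.cons (P.cons (P.lf 0 122475690 0) (P.cons (P.lf 63278619 0 0) (P.cons (P.lf 0 7178313 0) (P.cons (P.lf 0 141339 0) (P.cons (P.lf 19354 0 0) (P.cons (P.lf 75 0 0) P.nil)))))) (P.cons (P.cons (P.lf 78698401 0 0) (P.cons (P.lf 0 10006192 0) (P.cons (P.lf 0 980044 0) (P.cons (P.lf 5717 0 0) (P.cons (P.lf 2444 0 0) P.nil))))) (P.cons (P.cons (P.lf 18419892 0 0) (P.cons (P.lf 0 5539172 0) (P.cons (P.lf 149170 0 0) (P.cons (P.lf 8590 0 0) P.nil)))) (P.cons (P.cons (P.lf 0 2604607 0) (P.cons (P.lf 0 76603 0) (P.cons (P.lf 27568 0 0) P.nil))) (P.cons (P.cons (P.lf 0 459430 0) (P.cons (P.lf 79103 0 0) P.nil)) (P.cons (P.cons (P.lf 32397 0 0) P.nil) P.nil)))))) 18660)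
 (EL.cons 5 (TM.mk (P.cons (P.cons (P.lf 270140705 0 0) (P.cons (P.lf 0 111094738 0) (P.cons (P.lf 10811377 0 0) (P.cons (P.lf 234063 0 0) (P.cons (P.lf 0 29305 0) (P.cons (P.lf 0 114 0) P.nil)))))) (P.cons (P.cons (P.lf 0 55464821 0) (P.cons (P.lf 6516734 0 0) (P.cons (P.lf 787296 0 0) (P.cons (P.lf 0 2537 0) (P.cons (P.lf 0 1993 0) P.nil))))) (P.cons (P.cons (P.lf 0 6250537 0) (P.cons (P.lf 2559170 0 0) (P.cons (P.lf 0 98391 0) (P.cons (P.lf 0 4194 0) P.nil)))) (P.cons (P.cons (P.lf 2235193 0 0) (P.cons (P.lf 0 218769 0) (P.cons (P.lf 0 4664 0) P.nil))) (P.cons (P.cons (P.lf 0 13466 0) (P.cons (P.lf 0 26956 0) P.nil)) (P.cons (P.cons (P.lf 0 28437 0) P.nil) P.nil)))))) 18251)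
 (EL.cons 9 (TM.mk (P.cons (P.cons (P.lf 318433395 0 0) (P.cons (P.lf 0 114808714 0) (P.cons (P.lf 9896905 0 0) (P.cons (P.lf 231859 0 0) (P.cons (P.lf 0 26965 0) (P.cons (P.lf 0 106 0) P.nil)))))) (P.cons (P.cons (P.lf 17613706 0 0) (P.cons (P.lf 0 12579499 0) (P.cons (P.lf 1645854 0 0) (P.cons (P.lf 29818 0 0) (P.cons (P.lf 0 4417 0) P.nil))))) (P.cons (P.cons (P.lf 0 13472931 0) (P.cons (P.lf 2479192 0 0) (P.cons (P.lf 31119 0 0) (P.cons (P.lf 0 3078 0) P.nil)))) (P.cons (P.cons (P.lf 0 410392 0) (P.cons (P.lf 256917 0 0) (P.cons (P.lf 0 10392 0) P.nil))) (P.cons (P.cons (P.lf 192162 0 0) (P.cons (P.lf 0 12154 0) P.nil)) (P.cons (P.cons (P.lf 2685 0 0) P.nil) P.nil)))))) 4939)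
 (EL.cons 2 (TM.mk (P.cons (P.cons (P.lf 416004401 0 0) (P.cons (P.lf 0 71178536 0) (P.cons (P.lf 0 2885883 0) (P.cons (P.lf 434413 0 0) (P.cons (P.lf 4083 0 0) (P.cons (P.lf 0 635 0) P.nil)))))) (P.cons (P.cons (P.lf 0 17478433 0) (P.cons (P.lf 0 1078250 0) (P.cons (P.lf 67938 0 0) (P.cons (P.lf 5546 0 0) (P.cons (P.lf 0 5 0) P.nil))))) (P.cons (P.cons (P.lf 0 14579955 0) (P.cons (P.lf 1337085 0 0) (P.cons (P.lf 85972 0 0) (P.cons (P.lf 0 8448 0) P.nil)))) (P.cons (P.cons (P.lf 493785 0 0) (P.cons (P.lf 86428 0 0) (P.cons (P.lf 0 1186 0) P.nil))) (P.cons (P.cons (P.lf 150395 0 0) (P.cons (P.lf 0 5461 0) P.nil)) (P.cons (P.cons (P.lf 0 1203 0) P.nil) P.nil)))))) 3830)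
 (EL.cons 6 (TM.mk (P.cons (P.cons (P.lf 529222434 0 0) (P.cons (P.lf 0 90550188 0) (P.cons (P.lf 0 3671292 0) (P.cons (P.lf 552642 0 0) (P.cons (P.lf 5196 0 0) (P.cons (P.lf 0 810 0) P.nil)))))) (P.cons (P.cons (P.lf 57986490 0 0) (P.cons (P.lf 0 15097686 0) (P.cons (P.lf 0 470076 0) (P.cons (P.lf 90828 0 0) (P.cons (P.lf 774 0 0) P.nil))))) (P.cons (P.cons (P.lf 0 11428092 0) (P.cons (P.lf 0 301848 0) (P.cons (P.lf 49698 0 0) (P.cons (P.lf 1266 0 0) P.nil)))) (P.cons (P.cons (P.lf 0 1184292 0) (P.cons (P.lf 94242 0 0) (P.cons (P.lf 6792 0 0) P.nil))) (P.cons (P.cons (P.lf 56016 0 0) (P.cons (P.lf 5886 0 0) P.nil)) (P.cons (P.cons (P.lf 8274 0 0) P.nil) P.nil)))))) 3096)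
 EL.nil))))))
noncomputable def S198_212_475_512_3 : EL := (EL.cons 0 (TM.mk (P.cons (P.lf 1087919567 0 0) (P.cons (P.lf 0 270413532 0) (P.cons (P.lf 11357528 0 0) (P.cons (P.lf 846949 0 0) (P.cons (P.lf 0 7275 0) (P.cons (P.lf 0 1360 0) P.nil)))))) 123)
 (EL.cons 1 (TM.mk (P.cons (P.lf 1384003233 0 0) (P.cons (P.lf 0 134215061 0) (P.cons (P.lf 0 10263551 0) (P.cons (P.lf 214061 0 0) (P.cons (P.lf 21358 0 0) (P.cons (P.lf 5 0 0) P.nil)))))) 123)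
 (EL.cons 5 (TM.mk (P.cons (P.lf 1760667798 0 0) (P.cons (P.lf 96147034 0 0) (P.cons (P.lf 0 4038232 0) (P.cons (P.lf 0 301136 0) (P.cons (P.lf 2584 0 0) (P.cons (P.lf 484 0 0) P.nil)))))) 114)
 EL.nil)))
noncomputable def S198_212_475_512_4 : EL := (EL.cons 0 (TM.mk (P.cons (P.cons (P.lf 241869178 0 0) (P.cons (P.lf 0 43602036 0) (P.cons (P.lf 0 171448 0) (P.lf 57148 0 0)))) (P.cons (P.cons (P.lf 0 53429725 0) (P.cons (P.lf 7266183 0 0) (P.cons (P.lf 28571 0 0) (P.lf 0 9523 0)))) (P.cons (P.cons (P.lf 0 4346915 0) (P.cons (P.lf 533800 0 0) (P.cons (P.lf 2097 0 0) (P.lf 0 697 0)))) (P.cons (P.cons (P.lf 1541155 0 0) (P.cons (P.lf 0 80671 0) (P.cons (P.lf 0 316 0) P.nil))) (P.cons (P.cons (P.lf 0 30652 0) (P.cons (P.lf 0 5282 0) P.nil)) (P.cons (P.cons (P.lf 0 8511 0) P.nil) P.nil)))))) 1145)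
 (EL.cons 1 (TM.mk (P.cons (P.cons (P.lf 307695288 0 0) (P.cons (P.lf 0 55468586 0) (P.cons (P.lf 0 218109 0) (P.lf 72701 0 0)))) (P.cons (P.cons (P.lf 0 21329176 0) (P.cons (P.lf 835554 0 0) (P.cons (P.lf 3285 0 0) (P.lf 0 1093 0)))) (P.cons (P.cons (P.lf 0 9734051 0) (P.cons (P.lf 980763 0 0) (P.cons (P.lf 3853 0 0) (P.lf 0 1282 0)))) (P.cons (P.cons (P.lf 612144 0 0) (P.cons (P.lf 32626 0 0) (P.cons (P.lf 125 0 0) P.nil))) (P.cons (P.cons (P.lf 78555 0 0) (P.cons (P.lf 0 4380 0) P.nil)) (P.cons (P.cons (P.lf 0 2533 0) P.nil) P.nil)))))) 1012)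
 (EL.cons 5 (TM.mk (P.cons (P.cons (P.lf 391436360 0 0) (P.cons (P.lf 0 70564686 0) (P.cons (P.lf 0 277470 0) (P.lf 92488 0 0)))) (P.cons (P.cons (P.lf 32201546 0 0) (P.cons (P.lf 0 9633538 0) (P.cons (P.lf 0 37878 0) (P.lf 12624 0 0)))) (P.cons (P.cons (P.lf 0 8737156 0) (P.cons (P.lf 10058 0 0) (P.cons (P.lf 36 0 0) (P.lf 0 10 0)))) (P.cons (P.cons (P.lf 0 571232 0) (P.cons (P.lf 59722 0 0) (P.cons (P.lf 232 0 0) P.nil))) (P.cons (P.cons (P.lf 44866 0 0) (P.cons (P.lf 1990 0 0) P.nil)) (P.cons (P.cons (P.lf 3598 0 0) P.nil) P.nil)))))) 792)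
 EL.nil)))
noncomputable def S198_212_475_512_5 : EL := (EL.cons 0 (TM.mk (P.cons (P.cons (P.lf 53772999 0 0) (P.cons (P.lf 0 19387441 0) (P.cons (P.lf 1671263 0 0) (P.cons (P.lf 39151 0 0) (P.cons (P.lf 0 4552 0) (P.cons (P.lf 0 17 0) P.nil)))))) (P.cons (P.cons (P.lf 0 10391449 0) (P.cons (P.lf 2694679 0 0) (P.cons (P.lf 0 137478 0) (P.cons (P.lf 0 4695 0) (P.cons (P.lf 384 0 0) P.nil))))) (P.cons (P.cons (P.lf 0 2453076 0) (P.cons (P.lf 744263 0 0) (P.cons (P.lf 0 46379 0) (P.cons (P.lf 0 1362 0) P.nil)))) (P.cons (P.cons (P.lf 569119 0 0) (P.cons (P.lf 0 97945 0) (P.cons (P.lf 1140 0 0) P.nil))) (P.cons (P.cons (P.lf 27878 0 0) (P.cons (P.lf 0 9989 0) P.nil)) (P.cons (P.cons (P.lf 0 10193 0) P.nil) P.nil)))))) 4282)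
 (EL.cons 1 (TM.mk (P.cons (P.cons (P.lf 68407636 0 0) (P.cons (P.lf 0 24663847 0) (P.cons (P.lf 2126107 0 0) (P.cons (P.lf 49807 0 0) (P.cons (P.lf 0 5791 0) (P.cons (P.lf 0 20 0) P.nil)))))) (P.cons (P.cons (P.lf 0 2850020 0) (P.cons (P.lf 0 310597 0) (P.cons (P.lf 147388 0 0) (P.cons (P.lf 1573 0 0) (P.cons (P.lf 0 386 0) P.nil))))) (P.cons (P.cons (P.lf 0 3768573 0) (P.cons (P.lf 977563 0 0) (P.cons (P.lf 0 43368 0) (P.cons (P.lf 0 1650 0) P.nil)))) (P.cons (P.cons (P.lf 175035 0 0) (P.cons (P.lf 19768 0 0) (P.cons (P.lf 0 5173 0) P.nil))) (P.cons (P.cons (P.lf 72933 0 0) (P.cons (P.lf 0 12710 0) P.nil)) (P.cons (P.cons (P.lf 0 3159 0) P.nil) P.nil)))))) 3511)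
 (EL.cons 5 (TM.mk (P.cons (P.cons (P.lf 87025174 0 0) (P.cons (P.lf 0 31376256 0) (P.cons (P.lf 2704740 0 0) (P.cons (P.lf 63364 0 0) (P.cons (P.lf 0 7368 0) (P.cons (P.lf 0 28 0) P.nil)))))) (P.cons (P.cons (P.lf 9565972 0 0) (P.cons (P.lf 0 5151274 0) (P.cons (P.lf 597498 0 0) (P.cons (P.lf 11608 0 0) (P.cons (P.lf 0 1608 0) P.nil))))) (P.cons (P.cons (P.lf 0 3618770 0) (P.cons (P.lf 561770 0 0) (P.cons (P.lf 26862 0 0) (P.cons (P.lf 0 540 0) P.nil)))) (P.cons (P.cons (P.lf 0 339150 0) (P.cons (P.lf 120462 0 0) (P.cons (P.lf 0 3868 0) P.nil))) (P.cons (P.cons (P.lf 54140 0 0) (P.cons (P.lf 0 498 0) P.nil)) (P.cons (P.cons (P.lf 4518 0 0) P.nil) P.nil)))))) 2728)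
 EL.nil)))
noncomputable def S198_212_475_512_6 : EL := (EL.cons 12 (TM.mk (P.lf 8589934592 0 0) 0)
 (EL.cons 3 (TM.mk (P.cons (P.lf 0 1528492552 0) (P.cons (P.lf 189961226 0 0) (P.cons (P.lf 3825716 0 0) (P.cons (P.lf 0 119508 0) (P.cons (P.lf 0 4953 0) (P.cons (P.lf 41 0 0) P.nil)))))) 52)
 (EL.cons 7 (TM.mk (P.cons (P.lf 0 1944480730 0) (P.cons (P.lf 0 53092371 0) (P.cons (P.lf 2954732 0 0) (P.cons (P.lf 85611 0 0) (P.cons (P.lf 0 1520 0) (P.cons (P.lf 0 96 0) P.nil)))))) 47)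
 EL.nil)))
noncomputable def S198_212_475_512_7 : EL := (EL.cons 12 (TM.mk (P.cons (P.cons (P.lf 1909737168 0 0) (P.cons (P.lf 0 344270536 0) (P.cons (P.lf 0 1353720 0) (P.lf 451232 0 0)))) (P.cons (P.cons (P.lf 52817248 0 0) (P.cons (P.lf 0 28200024 0) (P.cons (P.lf 0 110880 0) (P.lf 36960 0 0)))) (P.cons (P.cons (P.lf 0 41130912 0) (P.cons (P.lf 799424 0 0) (P.cons (P.lf 3136 0 0) (P.lf 0 1040 0)))) (P.cons (P.cons (P.lf 0 93072 0) (P.cons (P.lf 124160 0 0) (P.cons (P.lf 480 0 0) P.nil))) (P.cons (P.cons (P.lf 135876 0 0) (P.cons (P.lf 456 0 0) P.nil)) (P.cons (P.cons (P.lf 2292 0 0) P.nil) P.nil)))))) 1350)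
 (EL.cons 3 (TM.mk (P.cons (P.cons (P.lf 4389289 0 0) (P.cons (P.lf 0 122518964 0) (P.cons (P.lf 0 481760 0) (P.lf 160584 0 0)))) (P.cons (P.cons (P.lf 0 498330427 0) (P.cons (P.lf 5190846 0 0) (P.cons (P.lf 20412 0 0) (P.lf 0 6802 0)))) (P.cons (P.cons (P.lf 0 502748 0) (P.cons (P.lf 1838406 0 0) (P.cons (P.lf 7224 0 0) (P.lf 0 2404 0)))) (P.cons (P.cons (P.lf 3147255 0 0) (P.cons (P.lf 24366 0 0) (P.cons (P.lf 90 0 0) P.nil))) (P.cons (P.cons (P.lf 81143 0 0) (P.cons (P.lf 0 7222 0) P.nil)) (P.cons (P.cons (P.lf 0 8388 0) P.nil) P.nil)))))) 2758)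
 (EL.cons 7 (TM.mk (P.cons (P.cons (P.lf 0 528504998 0) (P.cons (P.lf 129295955 0 0) (P.cons (P.lf 508410 0 0) (P.lf 0 169473 0)))) (P.cons (P.cons (P.lf 139278653 0 0) (P.cons (P.lf 0 1450791 0) (P.cons (P.lf 0 5702 0) (P.lf 1901 0 0)))) (P.cons (P.cons (P.lf 0 10415706 0) (P.cons (P.lf 0 403861 0) (P.cons (P.lf 0 1591 0) (P.lf 531 0 0)))) (P.cons (P.cons (P.lf 0 747329 0) (P.cons (P.lf 43585 0 0) (P.cons (P.lf 169 0 0) P.nil))) (P.cons (P.cons (P.lf 70779 0 0) (P.cons (P.lf 2047 0 0) P.nil)) (P.cons (P.cons (P.lf 3578 0 0) P.nil) P.nil)))))) 2470)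
 (EL.cons 10 (TM.mk (P.cons (P.cons (P.lf 0 2628940311 0) (P.cons (P.lf 0 24109263 0) (P.cons (P.lf 12027621 0 0) (P.cons (P.lf 27009 0 0) (P.lf 0 6750 0))))) (P.cons (P.cons (P.lf 0 143561898 0) (P.cons (P.lf 0 1316565 0) (P.cons (P.lf 656805 0 0) (P.cons (P.lf 1473 0 0) (P.lf 0 366 0))))) (P.cons (P.cons (P.lf 6029682 0 0) (P.cons (P.lf 55296 0 0) (P.cons (P.lf 0 27585 0) (P.cons (P.lf 0 60 0) P.nil)))) (P.cons (P.cons (P.lf 449640 0 0) (P.cons (P.lf 4122 0 0) (P.cons (P.lf 0 2055 0) P.nil))) (P.cons (P.cons (P.lf 0 3858 0) (P.cons (P.lf 0 33 0) P.nil)) (P.cons (P.cons (P.lf 0 720 0) P.nil) P.nil)))))) 330)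
 EL.nil))))
noncomputable def S198_212_475_512_8 : EL := (EL.cons 12 (TM.mk (P.cons (P.cons (P.lf 424577860 0 0) (P.cons (P.lf 0 153078286 0) (P.cons (P.lf 13195874 0 0) (P.cons (P.lf 309146 0 0) (P.cons (P.lf 0 35954 0) (P.cons (P.lf 0 142 0) P.nil)))))) (P.cons (P.cons (P.lf 23484942 0 0) (P.cons (P.lf 0 16772666 0) (P.cons (P.lf 2194472 0 0) (P.cons (P.lf 39758 0 0) (P.cons (P.lf 0 5890 0) P.nil))))) (P.cons (P.cons (P.lf 0 17963908 0) (P.cons (P.lf 3305590 0 0) (P.cons (P.lf 41492 0 0) (P.cons (P.lf 0 4104 0) P.nil)))) (P.cons (P.cons (P.lf 0 547190 0) (P.cons (P.lf 342556 0 0) (P.cons (P.lf 0 13856 0) P.nil))) (P.cons (P.cons (P.lf 256216 0 0) (P.cons (P.lf 0 16206 0) P.nil)) (P.cons (P.cons (P.lf 3580 0 0) P.nil) P.nil)))))) 6556)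
 (EL.cons 3 (TM.mk (P.cons (P.cons (P.lf 77501037 0 0) (P.cons (P.lf 0 82068058 0) (P.cons (P.lf 11953198 0 0) (P.cons (P.lf 204108 0 0) (P.cons (P.lf 0 31985 0) (P.cons (P.lf 0 126 0) P.nil)))))) (P.cons (P.cons (P.lf 0 226736691 0) (P.cons (P.lf 41117836 0 0) (P.cons (P.lf 647123 0 0) (P.cons (P.lf 0 50073 0) (P.cons (P.lf 0 1266 0) P.nil))))) (P.cons (P.cons (P.lf 0 10298727 0) (P.cons (P.lf 6394938 0 0) (P.cons (P.lf 0 230165 0) (P.cons (P.lf 0 10386 0) P.nil)))) (P.cons (P.cons (P.lf 6460756 0 0) (P.cons (P.lf 0 362020 0) (P.cons (P.lf 0 22176 0) P.nil))) (P.cons (P.cons (P.lf 156799 0 0) (P.cons (P.lf 0 78426 0) P.nil)) (P.cons (P.cons (P.lf 0 53645 0) P.nil) P.nil)))))) 15342)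
 (EL.cons 7 (TM.mk (P.cons (P.cons (P.lf 0 138886713 0) (P.cons (P.lf 65202143 0 0) (P.cons (P.lf 0 6984183 0) (P.cons (P.lf 0 142400 0) (P.cons (P.lf 18866 0 0) (P.cons (P.lf 74 0 0) P.nil)))))) (P.cons (P.cons (P.lf 63370766 0 0) (P.cons (P.lf 0 11492044 0) (P.cons (P.lf 0 180865 0) (P.cons (P.lf 13990 0 0) (P.cons (P.lf 355 0 0) P.nil))))) (P.cons (P.cons (P.lf 0 1924605 0) (P.cons (P.lf 0 916319 0) (P.cons (P.lf 78034 0 0) (P.cons (P.lf 1839 0 0) P.nil)))) (P.cons (P.cons (P.lf 0 2029944 0) (P.cons (P.lf 269707 0 0) (P.cons (P.lf 0 494 0) P.nil))) (P.cons (P.cons (P.lf 162923 0 0) (P.cons (P.lf 8146 0 0) P.nil)) (P.cons (P.cons (P.lf 16736 0 0) P.nil) P.nil)))))) 11117)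
 (EL.cons 10 (TM.mk (P.cons (P.cons (P.lf 0 1168946040 0) (P.cons (P.lf 200007186 0 0) (P.cons (P.lf 8109150 0 0) (P.cons (P.lf 0 1220682 0) (P.cons (P.lf 0 11490 0) (P.cons (P.lf 1794 0 0) P.nil)))))) (P.cons (P.cons (P.lf 0 96163452 0) (P.cons (P.lf 27886734 0 0) (P.cons (P.lf 816900 0 0) (P.cons (P.lf 0 167298 0) (P.cons (P.lf 0 1404 0) P.nil))))) (P.cons (P.cons (P.lf 26091762 0 0) (P.cons (P.lf 209232 0 0) (P.cons (P.lf 0 119760 0) (P.cons (P.lf 0 96 0) P.nil)))) (P.cons (P.cons (P.lf 1705872 0 0) (P.cons (P.lf 0 162702 0) (P.cons (P.lf 0 10134 0) P.nil))) (P.cons (P.cons (P.lf 0 133986 0) (P.cons (P.lf 0 7176 0) P.nil)) (P.cons (P.cons (P.lf 0 10746 0) P.nil) P.nil)))))) 4314)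
 EL.nil))))
noncomputable def S198_212_475_512_9 : EL := (EL.cons 3 (TM.mk (P.cons (P.lf 0 1528492552 0) (P.cons (P.lf 189961226 0 0) (P.cons (P.lf 3825716 0 0) (P.cons (P.lf 0 119508 0) (P.cons (P.lf 0 4953 0) (P.cons (P.lf 41 0 0) P.nil)))))) 52)
 (EL.cons 7 (TM.mk (P.cons (P.lf 0 1944480730 0) (P.cons (P.lf 0 53092371 0) (P.cons (P.lf 2954732 0 0) (P.cons (P.lf 85611 0 0) (P.cons (P.lf 0 1520 0) (P.cons (P.lf 0 96 0) P.nil)))))) 47)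
 EL.nil))
noncomputable def S198_212_475_512_10 : EL := (EL.cons 3 (TM.mk (P.cons (P.cons (P.lf 0 339818540 0) (P.cons (P.lf 61259482 0 0) (P.cons (P.lf 240880 0 0) (P.lf 0 80292 0)))) (P.cons (P.cons (P.lf 32834387 0 0) (P.cons (P.lf 0 2595423 0) (P.cons (P.lf 0 10206 0) (P.lf 3401 0 0)))) (P.cons (P.cons (P.lf 9337396 0 0) (P.cons (P.lf 0 919203 0) (P.cons (P.lf 0 3612 0) (P.lf 1202 0 0)))) (P.cons (P.cons (P.lf 0 896070 0) (P.cons (P.lf 0 12183 0) (P.cons (P.lf 0 45 0) P.nil))) (P.cons (P.cons (P.lf 0 46390 0) (P.cons (P.lf 3611 0 0) P.nil)) (P.cons (P.cons (P.lf 3105 0 0) P.nil) P.nil)))))) 618)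
 (EL.cons 7 (TM.mk (P.cons (P.cons (P.lf 0 432302141 0) (P.cons (P.lf 77931608 0 0) (P.cons (P.lf 306438 0 0) (P.lf 0 102144 0)))) (P.cons (P.cons (P.lf 0 23759737 0) (P.cons (P.lf 8511420 0 0) (P.cons (P.lf 33466 0 0) (P.lf 0 11155 0)))) (P.cons (P.cons (P.lf 9641148 0 0) (P.cons (P.lf 0 125086 0) (P.cons (P.lf 0 490 0) (P.lf 162 0 0)))) (P.cons (P.cons (P.lf 312490 0 0) (P.cons (P.lf 0 46178 0) (P.cons (P.lf 0 179 0) P.nil))) (P.cons (P.cons (P.lf 0 44142 0) (P.cons (P.lf 0 815 0) P.nil)) (P.cons (P.cons (P.lf 0 1831 0) P.nil) P.nil)))))) 513)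
 EL.nil))
noncomputable def S198_212_475_512_11 : EL := (EL.cons 3 (TM.mk (P.cons (P.cons (P.lf 0 75549363 0) (P.cons (P.lf 27238742 0 0) (P.cons (P.lf 0 2348072 0) (P.cons (P.lf 0 55008 0) (P.cons (P.lf 6397 0 0) (P.cons (P.lf 24 0 0) P.nil)))))) (P.cons (P.cons (P.lf 5210373 0 0) (P.cons (P.lf 0 400706 0) (P.cons (P.lf 0 98665 0) (P.cons (P.lf 0 237 0) (P.cons (P.lf 252 0 0) P.nil))))) (P.cons (P.cons (P.lf 3904947 0 0) (P.cons (P.lf 0 1027290 0) (P.cons (P.lf 47023 0 0) (P.cons (P.lf 1746 0 0) P.nil)))) (P.cons (P.cons (P.lf 0 295340 0) (P.cons (P.lf 6806 0 0) (P.cons (P.lf 4176 0 0) P.nil))) (P.cons (P.cons (P.lf 0 66263 0) (P.cons (P.lf 12252 0 0) P.nil)) (P.cons (P.cons (P.lf 5023 0 0) P.nil) P.nil)))))) 2798)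
 (EL.cons 7 (TM.mk (P.cons (P.cons (P.lf 0 96110565 0) (P.cons (P.lf 34651925 0 0) (P.cons (P.lf 0 2987115 0) (P.cons (P.lf 0 69980 0) (P.cons (P.lf 8138 0 0) (P.cons (P.lf 32 0 0) P.nil)))))) (P.cons (P.cons (P.lf 0 7940440 0) (P.cons (P.lf 4742924 0 0) (P.cons (P.lf 0 578317 0) (P.cons (P.lf 0 10910 0) (P.cons (P.lf 1555 0 0) P.nil))))) (P.cons (P.cons (P.lf 4067331 0 0) (P.cons (P.lf 0 697265 0) (P.cons (P.lf 0 18416 0) (P.cons (P.lf 789 0 0) P.nil)))) (P.cons (P.cons (P.lf 247206 0 0) (P.cons (P.lf 0 105269 0) (P.cons (P.lf 3766 0 0) P.nil))) (P.cons (P.cons (P.lf 0 60637 0) (P.cons (P.lf 2548 0 0) P.nil)) (P.cons (P.cons (P.lf 0 2770 0) P.nil) P.nil)))))) 2167)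
 EL.nil))
noncomputable def S198_212_475_512_12 : EL := (EL.cons 4 (TM.mk (P.cons (P.lf 1528492552 0 0) (P.cons (P.lf 0 189961226 0) (P.cons (P.lf 0 3825716 0) (P.cons (P.lf 119508 0 0) (P.cons (P.lf 4953 0 0) (P.cons (P.lf 0 41 0) P.nil)))))) 52)
 (EL.cons 8 (TM.mk (P.cons (P.lf 1944480730 0 0) (P.cons (P.lf 53092371 0 0) (P.cons (P.lf 0 2954732 0) (P.cons (P.lf 0 85611 0) (P.cons (P.lf 1520 0 0) (P.cons (P.lf 96 0 0) P.nil)))))) 47)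
 EL.nil))
noncomputable def S198_212_475_512_13 : EL := (EL.cons 4 (TM.mk (P.cons (P.cons (P.lf 339818540 0 0) (P.cons (P.lf 0 61259482 0) (P.cons (P.lf 0 240880 0) (P.lf 80292 0 0)))) (P.cons (P.cons (P.lf 0 32834387 0) (P.cons (P.lf 2595423 0 0) (P.cons (P.lf 10206 0 0) (P.lf 0 3401 0)))) (P.cons (P.cons (P.lf 0 9337396 0) (P.cons (P.lf 919203 0 0) (P.cons (P.lf 3612 0 0) (P.lf 0 1202 0)))) (P.cons (P.cons (P.lf 896070 0 0) (P.cons (P.lf 12183 0 0) (P.cons (P.lf 45 0 0) P.nil))) (P.cons (P.cons (P.lf 46390 0 0) (P.cons (P.lf 0 3611 0) P.nil)) (P.cons (P.cons (P.lf 0 3105 0) P.nil) P.nil)))))) 618)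
 (EL.cons 8 (TM.mk (P.cons (P.cons (P.lf 432302141 0 0) (P.cons (P.lf 0 77931608 0) (P.cons (P.lf 0 306438 0) (P.lf 102144 0 0)))) (P.cons (P.cons (P.lf 23759737 0 0) (P.cons (P.lf 0 8511420 0) (P.cons (P.lf 0 33466 0) (P.lf 11155 0 0)))) (P.cons (P.cons (P.lf 0 9641148 0) (P.cons (P.lf 125086 0 0) (P.cons (P.lf 490 0 0) (P.lf 0 162 0)))) (P.cons (P.cons (P.lf 0 312490 0) (P.cons (P.lf 46178 0 0) (P.cons (P.lf 179 0 0) P.nil))) (P.cons (P.cons (P.lf 44142 0 0) (P.cons (P.lf 815 0 0) P.nil)) (P.cons (P.cons (P.lf 1831 0 0) P.nil) P.nil)))))) 513)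
 EL.nil))
noncomputable def S198_212_475_512_14 : EL := (EL.cons 4 (TM.mk (P.cons (P.cons (P.lf 75549363 0 0) (P.cons (P.lf 0 27238742 0) (P.cons (P.lf 2348072 0 0) (P.cons (P.lf 55008 0 0) (P.cons (P.lf 0 6397 0) (P.cons (P.lf 0 24 0) P.nil)))))) (P.cons (P.cons (P.lf 0 5210373 0) (P.cons (P.lf 400706 0 0) (P.cons (P.lf 98665 0 0) (P.cons (P.lf 237 0 0) (P.cons (P.lf 0 252 0) P.nil))))) (P.cons (P.cons (P.lf 0 3904947 0) (P.cons (P.lf 1027290 0 0) (P.cons (P.lf 0 47023 0) (P.cons (P.lf 0 1746 0) P.nil)))) (P.cons (P.cons (P.lf 295340 0 0) (P.cons (P.lf 0 6806 0) (P.cons (P.lf 0 4176 0) P.nil))) (P.cons (P.cons (P.lf 66263 0 0) (P.cons (P.lf 0 12252 0) P.nil)) (P.cons (P.cons (P.lf 0 5023 0) P.nil) P.nil)))))) 2798)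
 (EL.cons 8 (TM.mk (P.cons (P.cons (P.lf 96110565 0 0) (P.cons (P.lf 0 34651925 0) (P.cons (P.lf 2987115 0 0) (P.cons (P.lf 69980 0 0) (P.cons (P.lf 0 8138 0) (P.cons (P.lf 0 32 0) P.nil)))))) (P.cons (P.cons (P.lf 7940440 0 0) (P.cons (P.lf 0 4742924 0) (P.cons (P.lf 578317 0 0) (P.cons (P.lf 10910 0 0) (P.cons (P.lf 0 1555 0) P.nil))))) (P.cons (P.cons (P.lf 0 4067331 0) (P.cons (P.lf 697265 0 0) (P.cons (P.lf 18416 0 0) (P.cons (P.lf 0 789 0) P.nil)))) (P.cons (P.cons (P.lf 0 247206 0) (P.cons (P.lf 105269 0 0) (P.cons (P.lf 0 3766 0) P.nil))) (P.cons (P.cons (P.lf 60637 0 0) (P.cons (P.lf 0 2548 0) P.nil)) (P.cons (P.cons (P.lf 2770 0 0) P.nil) P.nil)))))) 2167)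
 EL.nil))
noncomputable def S198_212_475_512_15 : EL := (EL.cons 4 (TM.mk (P.cons (P.lf 0 580223769 0) (P.cons (P.lf 144220550 0 0) (P.cons (P.lf 0 6057348 0) (P.cons (P.lf 0 451706 0) (P.cons (P.lf 3880 0 0) (P.cons (P.lf 725 0 0) P.nil)))))) 68)
 (EL.cons 8 (TM.mk (P.cons (P.lf 0 738135058 0) (P.cons (P.lf 71581366 0 0) (P.cons (P.lf 5473894 0 0) (P.cons (P.lf 0 114166 0) (P.cons (P.lf 0 11391 0) (P.cons (P.lf 0 3 0) P.nil)))))) 62)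
 EL.nil))
noncomputable def S198_212_475_512_16 : EL := (EL.cons 4 (TM.mk (P.cons (P.cons (P.lf 0 128996895 0) (P.cons (P.lf 23254419 0 0) (P.cons (P.lf 91439 0 0) (P.lf 0 30479 0)))) (P.cons (P.cons (P.lf 28495853 0 0) (P.cons (P.lf 0 3875297 0) (P.cons (P.lf 0 15238 0) (P.lf 5079 0 0)))) (P.cons (P.cons (P.lf 2318355 0 0) (P.cons (P.lf 0 284693 0) (P.cons (P.lf 0 1118 0) (P.lf 372 0 0)))) (P.cons (P.cons (P.lf 0 821949 0) (P.cons (P.lf 43024 0 0) (P.cons (P.lf 168 0 0) P.nil))) (P.cons (P.cons (P.lf 16348 0 0) (P.cons (P.lf 2817 0 0) P.nil)) (P.cons (P.cons (P.lf 4539 0 0) P.nil) P.nil)))))) 619)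
 (EL.cons 8 (TM.mk (P.cons (P.cons (P.lf 0 164104154 0) (P.cons (P.lf 29583246 0 0) (P.cons (P.lf 116325 0 0) (P.lf 0 38774 0)))) (P.cons (P.cons (P.lf 11375561 0 0) (P.cons (P.lf 0 445629 0) (P.cons (P.lf 0 1752 0) (P.lf 583 0 0)))) (P.cons (P.cons (P.lf 5191494 0 0) (P.cons (P.lf 0 523074 0) (P.cons (P.lf 0 2055 0) (P.lf 684 0 0)))) (P.cons (P.cons (P.lf 0 326477 0) (P.cons (P.lf 0 17401 0) (P.cons (P.lf 0 67 0) P.nil))) (P.cons (P.cons (P.lf 0 41896 0) (P.cons (P.lf 2336 0 0) P.nil)) (P.cons (P.cons (P.lf 1351 0 0) P.nil) P.nil)))))) 530)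
 EL.nil))
noncomputable def S198_212_475_512_17 : EL := (EL.cons 4 (TM.mk (P.cons (P.cons (P.lf 0 28678933 0) (P.cons (P.lf 10339968 0 0) (P.cons (P.lf 0 891340 0) (P.cons (P.lf 0 20880 0) (P.cons (P.lf 2428 0 0) (P.cons (P.lf 9 0 0) P.nil)))))) (P.cons (P.cons (P.lf 5542106 0 0) (P.cons (P.lf 0 1437162 0) (P.cons (P.lf 73321 0 0) (P.cons (P.lf 2504 0 0) (P.cons (P.lf 0 205 0) P.nil))))) (P.cons (P.cons (P.lf 1308307 0 0) (P.cons (P.lf 0 396940 0) (P.cons (P.lf 24735 0 0) (P.cons (P.lf 726 0 0) P.nil)))) (P.cons (P.cons (P.lf 0 303530 0) (P.cons (P.lf 52237 0 0) (P.cons (P.lf 0 608 0) P.nil))) (P.cons (P.cons (P.lf 0 14868 0) (P.cons (P.lf 5327 0 0) P.nil)) (P.cons (P.cons (P.lf 5436 0 0) P.nil) P.nil)))))) 2294)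
 (EL.cons 8 (TM.mk (P.cons (P.cons (P.lf 0 36484073 0) (P.cons (P.lf 13154052 0 0) (P.cons (P.lf 0 1133924 0) (P.cons (P.lf 0 26564 0) (P.cons (P.lf 3089 0 0) (P.cons (P.lf 11 0 0) P.nil)))))) (P.cons (P.cons (P.lf 1520011 0 0) (P.cons (P.lf 165652 0 0) (P.cons (P.lf 0 78607 0) (P.cons (P.lf 0 839 0) (P.cons (P.lf 206 0 0) P.nil))))) (P.cons (P.cons (P.lf 2009906 0 0) (P.cons (P.lf 0 521367 0) (P.cons (P.lf 23130 0 0) (P.cons (P.lf 880 0 0) P.nil)))) (P.cons (P.cons (P.lf 0 93352 0) (P.cons (P.lf 0 10543 0) (P.cons (P.lf 2759 0 0) P.nil))) (P.cons (P.cons (P.lf 0 38898 0) (P.cons (P.lf 6779 0 0) P.nil)) (P.cons (P.cons (P.lf 1685 0 0) P.nil) P.nil)))))) 1861)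
 EL.nil))
noncomputable def S198_212_475_512_18 : EL := (EL.cons 4 (TM.mk (P.cons (P.lf 220255978 0 0) (P.cons (P.lf 0 82120312 0) (P.cons (P.lf 8552062 0 0) (P.cons (P.lf 39948 0 0) (P.cons (P.lf 0 32104 0) (P.cons (P.lf 0 525 0) P.nil)))))) 109)
 (EL.cons 8 (TM.mk (P.cons (P.lf 280199929 0 0) (P.cons (P.lf 0 61995939 0) (P.cons (P.lf 597780 0 0) (P.cons (P.lf 391501 0 0) (P.cons (P.lf 2922 0 0) (P.cons (P.lf 0 902 0) P.nil)))))) 74)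
 EL.nil))
noncomputable def S198_212_475_512_19 : EL := (EL.cons 4 (TM.mk (P.cons (P.cons (P.lf 48967895 0 0) (P.cons (P.lf 0 8827499 0) (P.cons (P.lf 0 34710 0) (P.lf 11569 0 0)))) (P.cons (P.cons (P.lf 0 16902910 0) (P.cons (P.lf 2568165 0 0) (P.cons (P.lf 10097 0 0) (P.lf 0 3365 0)))) (P.cons (P.cons (P.lf 341735 0 0) (P.cons (P.lf 0 52660 0) (P.cons (P.lf 0 207 0) (P.lf 68 0 0)))) (P.cons (P.cons (P.lf 452293 0 0) (P.cons (P.lf 0 34135 0) (P.cons (P.lf 0 134 0) P.nil))) (P.cons (P.cons (P.lf 0 43467 0) (P.cons (P.lf 775 0 0) P.nil)) (P.cons (P.cons (P.lf 0 1837 0) P.nil) P.nil)))))) 765)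
 (EL.cons 8 (TM.mk (P.cons (P.cons (P.lf 62294795 0 0) (P.cons (P.lf 0 11229954 0) (P.cons (P.lf 0 44157 0) (P.lf 14718 0 0)))) (P.cons (P.cons (P.lf 0 12060226 0) (P.cons (P.lf 1564823 0 0) (P.cons (P.lf 6153 0 0) (P.lf 0 2051 0)))) (P.cons (P.cons (P.lf 0 1589968 0) (P.cons (P.lf 205646 0 0) (P.cons (P.lf 808 0 0) (P.lf 0 269 0)))) (P.cons (P.cons (P.lf 384532 0 0) (P.cons (P.lf 0 19372 0) (P.cons (P.lf 0 75 0) P.nil))) (P.cons (P.cons (P.lf 5298 0 0) (P.cons (P.lf 0 2227 0) P.nil)) (P.cons (P.cons (P.lf 0 2969 0) P.nil) P.nil)))))) 508)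
 EL.nil))
noncomputable def S198_212_475_512_20 : EL := (EL.cons 4 (TM.mk (P.cons (P.cons (P.lf 10886672 0 0) (P.cons (P.lf 0 3925106 0) (P.cons (P.lf 338356 0 0) (P.cons (P.lf 7926 0 0) (P.cons (P.lf 0 921 0) (P.cons (P.lf 0 2 0) P.nil)))))) (P.cons (P.cons (P.lf 0 3456809 0) (P.cons (P.lf 1033366 0 0) (P.cons (P.lf 0 69884 0) (P.cons (P.lf 0 1935 0) (P.cons (P.lf 192 0 0) P.nil))))) (P.cons (P.cons (P.lf 0 262426 0) (P.cons (P.lf 92702 0 0) (P.cons (P.lf 0 6777 0) (P.cons (P.lf 0 177 0) P.nil)))) (P.cons (P.cons (P.lf 183060 0 0) (P.cons (P.lf 0 40228 0) (P.cons (P.lf 1493 0 0) P.nil))) (P.cons (P.cons (P.lf 0 7560 0) (P.cons (P.lf 94 0 0) P.nil)) (P.cons (P.cons (P.lf 0 3099 0) P.nil) P.nil)))))) 1715)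
 (EL.cons 8 (TM.mk (P.cons (P.cons (P.lf 13849544 0 0) (P.cons (P.lf 0 4993346 0) (P.cons (P.lf 430443 0 0) (P.cons (P.lf 10083 0 0) (P.cons (P.lf 0 1172 0) (P.cons (P.lf 0 4 0) P.nil)))))) (P.cons (P.cons (P.lf 0 2298227 0) (P.cons (P.lf 557691 0 0) (P.cons (P.lf 0 23655 0) (P.cons (P.lf 0 933 0) (P.cons (P.lf 67 0 0) P.nil))))) (P.cons (P.cons (P.lf 0 725925 0) (P.cons (P.lf 218226 0 0) (P.cons (P.lf 0 13566 0) (P.cons (P.lf 0 399 0) P.nil)))) (P.cons (P.cons (P.lf 132786 0 0) (P.cons (P.lf 0 20827 0) (P.cons (P.lf 2 0 0) P.nil))) (P.cons (P.cons (P.lf 12271 0 0) (P.cons (P.lf 0 3587 0) P.nil)) (P.cons (P.cons (P.lf 0 2625 0) P.nil) P.nil)))))) 1415)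
 EL.nil))
noncomputable def S198_212_475_512_21 : EL := (EL.cons 4 (TM.mk (P.cons (P.cons (P.lf 0 344207829 0) (P.cons (P.lf 183778446 0 0) (P.cons (P.lf 722640 0 0) (P.lf 0 240876 0)))) (P.cons (P.cons (P.lf 531164814 0 0) (P.cons (P.lf 0 7786269 0) (P.cons (P.lf 0 30618 0) (P.lf 10203 0 0)))) (P.cons (P.cons (P.lf 9840144 0 0) (P.cons (P.lf 0 2757609 0) (P.cons (P.lf 0 10836 0) (P.lf 3606 0 0)))) (P.cons (P.cons (P.lf 0 4043325 0) (P.cons (P.lf 0 36549 0) (P.cons (P.lf 0 135 0) P.nil))) (P.cons (P.cons (P.lf 0 127533 0) (P.cons (P.lf 10833 0 0) P.nil)) (P.cons (P.cons (P.lf 11493 0 0) P.nil) P.nil)))))) 2121)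
 (EL.cons 8 (TM.mk (P.cons (P.cons (P.lf 96202857 0 0) (P.cons (P.lf 0 51364347 0) (P.cons (P.lf 0 201972 0) (P.lf 67329 0 0)))) (P.cons (P.cons (P.lf 0 163038390 0) (P.cons (P.lf 9962211 0 0) (P.cons (P.lf 39168 0 0) (P.lf 0 13056 0)))) (P.cons (P.cons (P.lf 20056854 0 0) (P.cons (P.lf 278775 0 0) (P.cons (P.lf 1101 0 0) (P.lf 0 369 0)))) (P.cons (P.cons (P.lf 1059819 0 0) (P.cons (P.lf 0 89763 0) (P.cons (P.lf 0 348 0) P.nil))) (P.cons (P.cons (P.lf 0 114921 0) (P.cons (P.lf 0 2862 0) P.nil)) (P.cons (P.cons (P.lf 0 5409 0) P.nil) P.nil)))))) 1938)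
 (EL.cons 11 (TM.mk (P.cons (P.cons (P.lf 2628940311 0 0) (P.cons (P.lf 24109263 0 0) (P.cons (P.lf 0 12027621 0) (P.cons (P.lf 0 27009 0) (P.lf 6750 0 0))))) (P.cons (P.cons (P.lf 143561898 0 0) (P.cons (P.lf 1316565 0 0) (P.cons (P.lf 0 656805 0) (P.cons (P.lf 0 1473 0) (P.lf 366 0 0))))) (P.cons (P.cons (P.lf 0 6029682 0) (P.cons (P.lf 0 55296 0) (P.cons (P.lf 27585 0 0) (P.cons (P.lf 60 0 0) P.nil)))) (P.cons (P.cons (P.lf 0 449640 0) (P.cons (P.lf 0 4122 0) (P.cons (P.lf 2055 0 0) P.nil))) (P.cons (P.cons (P.lf 3858 0 0) (P.cons (P.lf 33 0 0) P.nil)) (P.cons (P.cons (P.lf 720 0 0) P.nil) P.nil)))))) 330)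
 EL.nil)))
noncomputable def S198_212_475_512_22 : EL := (EL.cons 4 (TM.mk (P.cons (P.cons (P.lf 0 76525200 0) (P.cons (P.lf 54653400 0 0) (P.cons (P.lf 0 7150635 0) (P.cons (P.lf 0 129558 0) (P.cons (P.lf 19191 0 0) (P.cons (P.lf 75 0 0) P.nil)))))) (P.cons (P.cons (P.lf 115973532 0 0) (P.cons (P.lf 0 20759271 0) (P.cons (P.lf 0 372894 0) (P.cons (P.lf 24918 0 0) (P.cons (P.lf 759 0 0) P.nil))))) (P.cons (P.cons (P.lf 7101837 0 0) (P.cons (P.lf 0 3711114 0) (P.cons (P.lf 138594 0 0) (P.cons (P.lf 6066 0 0) P.nil)))) (P.cons (P.cons (P.lf 0 3378048 0) (P.cons (P.lf 184413 0 0) (P.cons (P.lf 13176 0 0) P.nil))) (P.cons (P.cons (P.lf 0 111531 0) (P.cons (P.lf 45339 0 0) P.nil)) (P.cons (P.cons (P.lf 29334 0 0) P.nil) P.nil)))))) 6261)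
 (EL.cons 8 (TM.mk (P.cons (P.cons (P.lf 21388074 0 0) (P.cons (P.lf 0 15275109 0) (P.cons (P.lf 1998534 0 0) (P.cons (P.lf 36210 0 0) (P.cons (P.lf 0 5364 0) (P.cons (P.lf 0 21 0) P.nil)))))) (P.cons (P.cons (P.lf 0 35655603 0) (P.cons (P.lf 8117484 0 0) (P.cons (P.lf 0 198726 0) (P.cons (P.lf 0 12450 0) (P.cons (P.lf 600 0 0) P.nil))))) (P.cons (P.cons (P.lf 2995968 0 0) (P.cons (P.lf 109527 0 0) (P.cons (P.lf 0 48225 0) (P.cons (P.lf 0 525 0) P.nil)))) (P.cons (P.cons (P.lf 1138575 0 0) (P.cons (P.lf 0 187488 0) (P.cons (P.lf 2130 0 0) P.nil))) (P.cons (P.cons (P.lf 0 111780 0) (P.cons (P.lf 0 2799 0) P.nil)) (P.cons (P.cons (P.lf 0 9753 0) P.nil) P.nil)))))) 4464)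
 (EL.cons 11 (TM.mk (P.cons (P.cons (P.lf 584473020 0 0) (P.cons (P.lf 0 100003593 0) (P.cons (P.lf 0 4054575 0) (P.cons (P.lf 610341 0 0) (P.cons (P.lf 5745 0 0) (P.cons (P.lf 0 897 0) P.nil)))))) (P.cons (P.cons (P.lf 48081726 0 0) (P.cons (P.lf 0 13943367 0) (P.cons (P.lf 0 408450 0) (P.cons (P.lf 83649 0 0) (P.cons (P.lf 702 0 0) P.nil))))) (P.cons (P.cons (P.lf 0 13045881 0) (P.cons (P.lf 0 104616 0) (P.cons (P.lf 59880 0 0) (P.cons (P.lf 48 0 0) P.nil)))) (P.cons (P.cons (P.lf 0 852936 0) (P.cons (P.lf 81351 0 0) (P.cons (P.lf 5067 0 0) P.nil))) (P.cons (P.cons (P.lf 66993 0 0) (P.cons (P.lf 3588 0 0) P.nil)) (P.cons (P.cons (P.lf 5373 0 0) P.nil) P.nil)))))) 2157)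
 EL.nil)))
noncomputable def S198_212_475_512_23 : EL := (EL.cons 4 (TM.mk (P.cons (P.cons (P.lf 130663092 0 0) (P.cons (P.lf 0 69763257 0) (P.cons (P.lf 0 274317 0) (P.lf 91437 0 0)))) (P.cons (P.cons (P.lf 0 217871766 0) (P.cons (P.lf 11625894 0 0) (P.cons (P.lf 45714 0 0) (P.lf 0 15237 0)))) (P.cons (P.cons (P.lf 20996553 0 0) (P.cons (P.lf 854079 0 0) (P.cons (P.lf 3354 0 0) (P.lf 0 1116 0)))) (P.cons (P.cons (P.lf 2513988 0 0) (P.cons (P.lf 0 129075 0) (P.cons (P.lf 0 510 0) P.nil))) (P.cons (P.cons (P.lf 0 148332 0) (P.cons (P.lf 0 8451 0) P.nil)) (P.cons (P.cons (P.lf 0 15168 0) P.nil) P.nil)))))) 2661)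
 (EL.cons 8 (TM.mk (P.cons (P.cons (P.lf 0 36519105 0) (P.cons (P.lf 19498173 0 0) (P.cons (P.lf 76668 0 0) (P.lf 0 25557 0)))) (P.cons (P.cons (P.lf 66428823 0 0) (P.cons (P.lf 0 6204942 0) (P.cons (P.lf 0 24396 0) (P.lf 8130 0 0)))) (P.cons (P.cons (P.lf 0 15214005 0) (P.cons (P.lf 315363 0 0) (P.cons (P.lf 1236 0 0) (P.lf 0 411 0)))) (P.cons (P.cons (P.lf 386154 0 0) (P.cons (P.lf 58215 0 0) (P.cons (P.lf 225 0 0) P.nil))) (P.cons (P.cons (P.lf 117399 0 0) (P.cons (P.lf 0 3114 0) P.nil)) (P.cons (P.cons (P.lf 0 2754 0) P.nil) P.nil)))))) 1620)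
 (EL.cons 11 (TM.mk (P.cons (P.cons (P.lf 0 997959495 0) (P.cons (P.lf 0 9152001 0) (P.cons (P.lf 4565745 0 0) (P.cons (P.lf 10251 0 0) (P.lf 0 2562 0))))) (P.cons (P.cons (P.lf 69529668 0 0) (P.cons (P.lf 637635 0 0) (P.cons (P.lf 0 318105 0) (P.cons (P.lf 0 714 0) (P.lf 177 0 0))))) (P.cons (P.cons (P.lf 11559600 0 0) (P.cons (P.lf 106008 0 0) (P.cons (P.lf 0 52884 0) (P.cons (P.lf 0 117 0) P.nil)))) (P.cons (P.cons (P.lf 0 55404 0) (P.cons (P.lf 0 507 0) (P.cons (P.lf 252 0 0) P.nil))) (P.cons (P.cons (P.lf 0 35901 0) (P.cons (P.lf 0 327 0) P.nil)) (P.cons (P.cons (P.lf 0 489 0) P.nil) P.nil)))))) 495)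
 EL.nil)))
noncomputable def S198_212_475_512_24 : EL := (EL.cons 4 (TM.mk (P.cons (P.cons (P.lf 29049366 0 0) (P.cons (P.lf 0 20746716 0) (P.cons (P.lf 2714418 0 0) (P.cons (P.lf 49179 0 0) (P.cons (P.lf 0 7284 0) (P.cons (P.lf 0 27 0) P.nil)))))) (P.cons (P.cons (P.lf 0 47634417 0) (P.cons (P.lf 10458732 0 0) (P.cons (P.lf 0 195792 0) (P.cons (P.lf 0 15570 0) (P.cons (P.lf 615 0 0) P.nil))))) (P.cons (P.cons (P.lf 2702721 0 0) (P.cons (P.lf 481317 0 0) (P.cons (P.lf 0 76995 0) (P.cons (P.lf 0 1248 0) P.nil)))) (P.cons (P.cons (P.lf 1729830 0 0) (P.cons (P.lf 0 266430 0) (P.cons (P.lf 1392 0 0) P.nil))) (P.cons (P.cons (P.lf 0 113628 0) (P.cons (P.lf 0 11487 0) P.nil)) (P.cons (P.cons (P.lf 0 19959 0) P.nil) P.nil)))))) 7041)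
 (EL.cons 8 (TM.mk (P.cons (P.cons (P.lf 0 8119023 0) (P.cons (P.lf 5798511 0 0) (P.cons (P.lf 0 758652 0) (P.cons (P.lf 0 13746 0) (P.cons (P.lf 2034 0 0) (P.cons (P.lf 6 0 0) P.nil)))))) (P.cons (P.cons (P.lf 14544087 0 0) (P.cons (P.lf 0 3802077 0) (P.cons (P.lf 169722 0 0) (P.cons (P.lf 6435 0 0) (P.cons (P.lf 0 480 0) P.nil))))) (P.cons (P.cons (P.lf 0 2799099 0) (P.cons (P.lf 326871 0 0) (P.cons (P.lf 10830 0 0) (P.cons (P.lf 0 351 0) P.nil)))) (P.cons (P.cons (P.lf 0 325377 0) (P.cons (P.lf 84504 0 0) (P.cons (P.lf 0 3330 0) P.nil))) (P.cons (P.cons (P.lf 100026 0 0) (P.cons (P.lf 0 7899 0) P.nil)) (P.cons (P.cons (P.lf 0 531 0) P.nil) P.nil)))))) 3030)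
 (EL.cons 11 (TM.mk (P.cons (P.cons (P.lf 0 221869014 0) (P.cons (P.lf 37961886 0 0) (P.cons (P.lf 1539138 0 0) (P.cons (P.lf 0 231687 0) (P.cons (P.lf 0 2178 0) (P.cons (P.lf 339 0 0) P.nil)))))) (P.cons (P.cons (P.lf 9321831 0 0) (P.cons (P.lf 575067 0 0) (P.cons (P.lf 0 36234 0) (P.cons (P.lf 0 2958 0) (P.cons (P.lf 3 0 0) P.nil))))) (P.cons (P.cons (P.lf 7775976 0 0) (P.cons (P.lf 0 713112 0) (P.cons (P.lf 0 45852 0) (P.cons (P.lf 4506 0 0) P.nil)))) (P.cons (P.cons (P.lf 0 263352 0) (P.cons (P.lf 0 46095 0) (P.cons (P.lf 633 0 0) P.nil))) (P.cons (P.cons (P.lf 0 80211 0) (P.cons (P.lf 2913 0 0) P.nil)) (P.cons (P.cons (P.lf 642 0 0) P.nil) P.nil)))))) 2031)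
 EL.nil)))
noncomputable def S198_212_475_512_25 : EL := (EL.cons 4 (TM.mk (P.cons (P.cons (P.lf 0 49600392 0) (P.cons (P.lf 26482497 0 0) (P.cons (P.lf 104130 0 0) (P.lf 0 34710 0)))) (P.cons (P.cons (P.lf 88869603 0 0) (P.cons (P.lf 0 7704498 0) (P.cons (P.lf 0 30294 0) (P.lf 10095 0 0)))) (P.cons (P.cons (P.lf 0 18124872 0) (P.cons (P.lf 157980 0 0) (P.cons (P.lf 621 0 0) (P.lf 0 207 0)))) (P.cons (P.cons (P.lf 0 174645 0) (P.cons (P.lf 102405 0 0) (P.cons (P.lf 402 0 0) P.nil))) (P.cons (P.cons (P.lf 201165 0 0) (P.cons (P.lf 0 2328 0) P.nil)) (P.cons (P.cons (P.lf 795 0 0) P.nil) P.nil)))))) 2685)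
 (EL.cons 8 (TM.mk (P.cons (P.cons (P.lf 13862844 0 0) (P.cons (P.lf 0 7401609 0) (P.cons (P.lf 0 29103 0) (P.lf 9702 0 0)))) (P.cons (P.cons (P.lf 0 26939604 0) (P.cons (P.lf 3275301 0 0) (P.cons (P.lf 12876 0 0) (P.lf 0 4290 0)))) (P.cons (P.cons (P.lf 8874555 0 0) (P.cons (P.lf 0 393918 0) (P.cons (P.lf 0 1548 0) (P.lf 513 0 0)))) (P.cons (P.cons (P.lf 0 800142 0) (P.cons (P.lf 0 13695 0) (P.cons (P.lf 0 51 0) P.nil))) (P.cons (P.cons (P.lf 0 42729 0) (P.cons (P.lf 4389 0 0) P.nil)) (P.cons (P.cons (P.lf 7320 0 0) P.nil) P.nil)))))) 1341)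
 (EL.cons 11 (TM.mk (P.cons (P.cons (P.lf 378830643 0 0) (P.cons (P.lf 3474147 0 0) (P.cons (P.lf 0 1733181 0) (P.cons (P.lf 0 3891 0) (P.lf 972 0 0))))) (P.cons (P.cons (P.lf 0 73474941 0) (P.cons (P.lf 0 673815 0) (P.cons (P.lf 336153 0 0) (P.cons (P.lf 753 0 0) (P.lf 0 189 0))))) (P.cons (P.cons (P.lf 0 2056044 0) (P.cons (P.lf 0 18855 0) (P.cons (P.lf 9405 0 0) (P.cons (P.lf 18 0 0) P.nil)))) (P.cons (P.cons (P.lf 662064 0 0) (P.cons (P.lf 6069 0 0) (P.cons (P.lf 0 3027 0) P.nil))) (P.cons (P.cons (P.lf 21159 0 0) (P.cons (P.lf 192 0 0) P.nil)) (P.cons (P.cons (P.lf 0 1998 0) P.nil) P.nil)))))) 543)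
 EL.nil)))
noncomputable def S198_212_475_512_26 : EL := (EL.cons 4 (TM.mk (P.cons (P.cons (P.lf 0 11027289 0) (P.cons (P.lf 7875561 0 0) (P.cons (P.lf 0 1030407 0) (P.cons (P.lf 0 18669 0) (P.cons (P.lf 2763 0 0) (P.cons (P.lf 9 0 0) P.nil)))))) (P.cons (P.cons (P.lf 19452747 0 0) (P.cons (P.lf 0 4948965 0) (P.cons (P.lf 202383 0 0) (P.cons (P.lf 8229 0 0) (P.cons (P.lf 0 576 0) P.nil))))) (P.cons (P.cons (P.lf 0 3245634 0) (P.cons (P.lf 290991 0 0) (P.cons (P.lf 22569 0 0) (P.cons (P.lf 0 213 0) P.nil)))) (P.cons (P.cons (P.lf 0 575265 0) (P.cons (P.lf 134397 0 0) (P.cons (P.lf 0 4428 0) P.nil))) (P.cons (P.cons (P.lf 128688 0 0) (P.cons (P.lf 0 8034 0) P.nil)) (P.cons (P.cons (P.lf 3837 0 0) P.nil) P.nil)))))) 4944)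
 (EL.cons 8 (TM.mk (P.cons (P.cons (P.lf 3082023 0 0) (P.cons (P.lf 0 2201145 0) (P.cons (P.lf 287988 0 0) (P.cons (P.lf 5217 0 0) (P.cons (P.lf 0 771 0) (P.cons (P.lf 0 3 0) P.nil)))))) (P.cons (P.cons (P.lf 0 5904045 0) (P.cons (P.lf 1716846 0 0) (P.cons (P.lf 0 100218 0) (P.cons (P.lf 0 3090 0) (P.cons (P.lf 276 0 0) P.nil))))) (P.cons (P.cons (P.lf 1740990 0 0) (P.cons (P.lf 0 297942 0) (P.cons (P.lf 3174 0 0) (P.cons (P.lf 423 0 0) P.nil)))) (P.cons (P.cons (P.lf 5520 0 0) (P.cons (P.lf 0 20442 0) (P.cons (P.lf 1959 0 0) P.nil))) (P.cons (P.cons (P.lf 0 56400 0) (P.cons (P.lf 7401 0 0) P.nil)) (P.cons (P.cons (P.lf 4677 0 0) P.nil) P.nil)))))) 2160)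
 (EL.cons 11 (TM.mk (P.cons (P.cons (P.lf 84222636 0 0) (P.cons (P.lf 0 14410530 0) (P.cons (P.lf 0 584262 0) (P.cons (P.lf 87948 0 0) (P.cons (P.lf 825 0 0) (P.cons (P.lf 0 129 0) P.nil)))))) (P.cons (P.cons (P.lf 0 14005812 0) (P.cons (P.lf 1572642 0 0) (P.cons (P.lf 86364 0 0) (P.cons (P.lf 0 9804 0) (P.cons (P.lf 0 102 0) P.nil))))) (P.cons (P.cons (P.lf 0 2722824 0) (P.cons (P.lf 333900 0 0) (P.cons (P.lf 17157 0 0) (P.cons (P.lf 0 2070 0) P.nil)))) (P.cons (P.cons (P.lf 482262 0 0) (P.cons (P.lf 0 16722 0) (P.cons (P.lf 0 2481 0) P.nil))) (P.cons (P.cons (P.lf 25407 0 0) (P.cons (P.lf 0 4020 0) P.nil)) (P.cons (P.cons (P.lf 0 4521 0) P.nil) P.nil)))))) 1674)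
 EL.nil)))
noncomputable def S198_212_475_512_27 : EL := (EL.cons 13 (TM.mk (P.lf 0 4294967296 0) 0)
 EL.nil)
noncomputable def S198_212_475_512_28 : EL := (EL.cons 13 (TM.mk (P.cons (P.cons (P.lf 0 954868584 0) (P.cons (P.lf 172135268 0 0) (P.cons (P.lf 676860 0 0) (P.lf 0 225616 0)))) (P.cons (P.cons (P.lf 0 26408624 0) (P.cons (P.lf 14100012 0 0) (P.cons (P.lf 55440 0 0) (P.lf 0 18480 0)))) (P.cons (P.cons (P.lf 20565456 0 0) (P.cons (P.lf 0 399712 0) (P.cons (P.lf 0 1568 0) (P.lf 520 0 0)))) (P.cons (P.cons (P.lf 46536 0 0) (P.cons (P.lf 0 62080 0) (P.cons (P.lf 0 240 0) P.nil))) (P.cons (P.cons (P.lf 0 67938 0) (P.cons (P.lf 0 228 0) P.nil)) (P.cons (P.cons (P.lf 0 1146 0) P.nil) P.nil)))))) 675)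
 EL.nil)
noncomputable def S198_212_475_512_29 : EL := (EL.cons 13 (TM.mk (P.cons (P.cons (P.lf 0 212288930 0) (P.cons (P.lf 76539143 0 0) (P.cons (P.lf 0 6597937 0) (P.cons (P.lf 0 154573 0) (P.cons (P.lf 17977 0 0) (P.cons (P.lf 71 0 0) P.nil)))))) (P.cons (P.cons (P.lf 0 11742471 0) (P.cons (P.lf 8386333 0 0) (P.cons (P.lf 0 1097236 0) (P.cons (P.lf 0 19879 0) (P.cons (P.lf 2945 0 0) P.nil))))) (P.cons (P.cons (P.lf 8981954 0 0) (P.cons (P.lf 0 1652795 0) (P.cons (P.lf 0 20746 0) (P.cons (P.lf 2052 0 0) P.nil)))) (P.cons (P.cons (P.lf 273595 0 0) (P.cons (P.lf 0 171278 0) (P.cons (P.lf 6928 0 0) P.nil))) (P.cons (P.cons (P.lf 0 128108 0) (P.cons (P.lf 8103 0 0) P.nil)) (P.cons (P.cons (P.lf 0 1790 0) P.nil) P.nil)))))) 3278)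
 EL.nil)
noncomputable def S198_212_475_512_30 : EL := (EL.cons 13 (TM.mk (P.cons (P.lf 1630392056 0 0) (P.cons (P.lf 0 202625308 0) (P.cons (P.lf 0 4080764 0) (P.cons (P.lf 127476 0 0) (P.cons (P.lf 5284 0 0) (P.cons (P.lf 0 44 0) P.nil)))))) 48)
 EL.nil)
noncomputable def S198_212_475_512_31 : EL := (EL.cons 13 (TM.mk (P.cons (P.cons (P.lf 362473110 0 0) (P.cons (P.lf 0 65343448 0) (P.cons (P.lf 0 256939 0) (P.lf 85645 0 0)))) (P.cons (P.cons (P.lf 0 35023347 0) (P.cons (P.lf 2768452 0 0) (P.cons (P.lf 10887 0 0) (P.lf 0 3628 0)))) (P.cons (P.cons (P.lf 0 9959890 0) (P.cons (P.lf 980484 0 0) (P.cons (P.lf 3853 0 0) (P.lf 0 1283 0)))) (P.cons (P.cons (P.lf 955808 0 0) (P.cons (P.lf 12996 0 0) (P.cons (P.lf 49 0 0) P.nil))) (P.cons (P.cons (P.lf 49483 0 0) (P.cons (P.lf 0 3852 0) P.nil)) (P.cons (P.cons (P.lf 0 3313 0) P.nil) P.nil)))))) 639)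
 EL.nil)
noncomputable def S198_212_475_512_32 : EL := (EL.cons 13 (TM.mk (P.cons (P.cons (P.lf 80585988 0 0) (P.cons (P.lf 0 29054659 0) (P.cons (P.lf 2504611 0 0) (P.cons (P.lf 58676 0 0) (P.cons (P.lf 0 6824 0) (P.cons (P.lf 0 26 0) P.nil)))))) (P.cons (P.cons (P.lf 0 5557732 0) (P.cons (P.lf 427420 0 0) (P.cons (P.lf 105243 0 0) (P.cons (P.lf 253 0 0) (P.cons (P.lf 0 269 0) P.nil))))) (P.cons (P.cons (P.lf 0 4165277 0) (P.cons (P.lf 1095776 0 0) (P.cons (P.lf 0 50158 0) (P.cons (P.lf 0 1863 0) P.nil)))) (P.cons (P.cons (P.lf 315030 0 0) (P.cons (P.lf 0 7260 0) (P.cons (P.lf 0 4455 0) P.nil))) (P.cons (P.cons (P.lf 70681 0 0) (P.cons (P.lf 0 13069 0) P.nil)) (P.cons (P.cons (P.lf 0 5358 0) P.nil) P.nil)))))) 2962)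
 EL.nil)
noncomputable def S198_212_475_512_33 : EL := (EL.cons 14 (TM.mk (P.lf 8589934592 0 0) 0)
 EL.nil)
noncomputable def S198_212_475_512_34 : EL := (EL.cons 14 (TM.mk (P.cons (P.cons (P.lf 1909737168 0 0) (P.cons (P.lf 0 344270536 0) (P.cons (P.lf 0 1353720 0) (P.lf 451232 0 0)))) (P.cons (P.cons (P.lf 52817248 0 0) (P.cons (P.lf 0 28200024 0) (P.cons (P.lf 0 110880 0) (P.lf 36960 0 0)))) (P.cons (P.cons (P.lf 0 41130912 0) (P.cons (P.lf 799424 0 0) (P.cons (P.lf 3136 0 0) (P.lf 0 1040 0)))) (P.cons (P.cons (P.lf 0 93072 0) (P.cons (P.lf 124160 0 0) (P.cons (P.lf 480 0 0) P.nil))) (P.cons (P.cons (P.lf 135876 0 0) (P.cons (P.lf 456 0 0) P.nil)) (P.cons (P.cons (P.lf 2292 0 0) P.nil) P.nil)))))) 1350)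
 EL.nil)
noncomputable def S198_212_475_512_35 : EL := (EL.cons 14 (TM.mk (P.cons (P.cons (P.lf 424577860 0 0) (P.cons (P.lf 0 153078286 0) (P.cons (P.lf 13195874 0 0) (P.cons (P.lf 309146 0 0) (P.cons (P.lf 0 35954 0) (P.cons (P.lf 0 142 0) P.nil)))))) (P.cons (P.cons (P.lf 23484942 0 0) (P.cons (P.lf 0 16772666 0) (P.cons (P.lf 2194472 0 0) (P.cons (P.lf 39758 0 0) (P.cons (P.lf 0 5890 0) P.nil))))) (P.cons (P.cons (P.lf 0 17963908 0) (P.cons (P.lf 3305590 0 0) (P.cons (P.lf 41492 0 0) (P.cons (P.lf 0 4104 0) P.nil)))) (P.cons (P.cons (P.lf 0 547190 0) (P.cons (P.lf 342556 0 0) (P.cons (P.lf 0 13856 0) P.nil))) (P.cons (P.cons (P.lf 256216 0 0) (P.cons (P.lf 0 16206 0) P.nil)) (P.cons (P.cons (P.lf 3580 0 0) P.nil) P.nil)))))) 6556)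
 EL.nil)
noncomputable def S198_212_475_512_36 : EL := (EL.cons 14 (TM.mk (P.cons (P.lf 0 3260784112 0) (P.cons (P.lf 405250616 0 0) (P.cons (P.lf 8161528 0 0) (P.cons (P.lf 0 254952 0) (P.cons (P.lf 0 10568 0) (P.cons (P.lf 88 0 0) P.nil)))))) 96)
 EL.nil)
noncomputable def S198_212_475_512_37 : EL := (EL.cons 14 (TM.mk (P.cons (P.cons (P.lf 0 724946220 0) (P.cons (P.lf 130686896 0 0) (P.cons (P.lf 513878 0 0) (P.lf 0 171290 0)))) (P.cons (P.cons (P.lf 70046694 0 0) (P.cons (P.lf 0 5536904 0) (P.cons (P.lf 0 21774 0) (P.lf 7256 0 0)))) (P.cons (P.cons (P.lf 19919780 0 0) (P.cons (P.lf 0 1960968 0) (P.cons (P.lf 0 7706 0) (P.lf 2566 0 0)))) (P.cons (P.cons (P.lf 0 1911616 0) (P.cons (P.lf 0 25992 0) (P.cons (P.lf 0 98 0) P.nil))) (P.cons (P.cons (P.lf 0 98966 0) (P.cons (P.lf 7704 0 0) P.nil)) (P.cons (P.cons (P.lf 6626 0 0) P.nil) P.nil)))))) 1278)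
 EL.nil)
noncomputable def S198_212_475_512_38 : EL := (EL.cons 14 (TM.mk (P.cons (P.cons (P.lf 0 161171976 0) (P.cons (P.lf 58109318 0 0) (P.cons (P.lf 0 5009222 0) (P.cons (P.lf 0 117352 0) (P.cons (P.lf 13648 0 0) (P.cons (P.lf 52 0 0) P.nil)))))) (P.cons (P.cons (P.lf 11115464 0 0) (P.cons (P.lf 0 854840 0) (P.cons (P.lf 0 210486 0) (P.cons (P.lf 0 506 0) (P.cons (P.lf 538 0 0) P.nil))))) (P.cons (P.cons (P.lf 8330554 0 0) (P.cons (P.lf 0 2191552 0) (P.cons (P.lf 100316 0 0) (P.cons (P.lf 3726 0 0) P.nil)))) (P.cons (P.cons (P.lf 0 630060 0) (P.cons (P.lf 14520 0 0) (P.cons (P.lf 8910 0 0) P.nil))) (P.cons (P.cons (P.lf 0 141362 0) (P.cons (P.lf 26138 0 0) P.nil)) (P.cons (P.cons (P.lf 10716 0 0) P.nil) P.nil)))))) 5924)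
 EL.nil)
noncomputable def S198_212_475_512_39 : EL := (EL.cons 14 (TM.mk (P.cons (P.lf 1237810708 0 0) (P.cons (P.lf 0 307670508 0) (P.cons (P.lf 12922344 0 0) (P.cons (P.lf 963640 0 0) (P.cons (P.lf 0 8278 0) (P.cons (P.lf 0 1548 0) P.nil)))))) 132)
 EL.nil)
noncomputable def S198_212_475_512_40 : EL := (EL.cons 14 (TM.mk (P.cons (P.cons (P.lf 275193376 0 0) (P.cons (P.lf 0 49609428 0) (P.cons (P.lf 0 195070 0) (P.lf 65022 0 0)))) (P.cons (P.cons (P.lf 0 60791154 0) (P.cons (P.lf 8267302 0 0) (P.cons (P.lf 32508 0 0) (P.lf 0 10836 0)))) (P.cons (P.cons (P.lf 0 4945824 0) (P.cons (P.lf 607346 0 0) (P.cons (P.lf 2386 0 0) (P.lf 0 794 0)))) (P.cons (P.cons (P.lf 1753492 0 0) (P.cons (P.lf 0 91786 0) (P.cons (P.lf 0 360 0) P.nil))) (P.cons (P.cons (P.lf 0 34876 0) (P.cons (P.lf 0 6010 0) P.nil)) (P.cons (P.cons (P.lf 0 9684 0) P.nil) P.nil)))))) 1282)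
 EL.nil)
noncomputable def S198_212_475_512_41 : EL := (EL.cons 14 (TM.mk (P.cons (P.cons (P.lf 61181724 0 0) (P.cons (P.lf 0 22058600 0) (P.cons (P.lf 1901526 0 0) (P.cons (P.lf 44546 0 0) (P.cons (P.lf 0 5180 0) (P.cons (P.lf 0 20 0) P.nil)))))) (P.cons (P.cons (P.lf 0 11823160 0) (P.cons (P.lf 3065946 0 0) (P.cons (P.lf 0 156420 0) (P.cons (P.lf 0 5342 0) (P.cons (P.lf 438 0 0) P.nil))))) (P.cons (P.cons (P.lf 0 2791056 0) (P.cons (P.lf 846806 0 0) (P.cons (P.lf 0 52770 0) (P.cons (P.lf 0 1550 0) P.nil)))) (P.cons (P.cons (P.lf 647532 0 0) (P.cons (P.lf 0 111440 0) (P.cons (P.lf 1298 0 0) P.nil))) (P.cons (P.cons (P.lf 31720 0 0) (P.cons (P.lf 0 11366 0) P.nil)) (P.cons (P.cons (P.lf 0 11598 0) P.nil) P.nil)))))) 4848)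
 EL.nil)
noncomputable def S198_212_475_512_42 : EL := (EL.cons 14 (TM.mk (P.cons (P.lf 0 469879420 0) (P.cons (P.lf 175190000 0 0) (P.cons (P.lf 0 18244400 0) (P.cons (P.lf 0 85224 0) (P.cons (P.lf 68490 0 0) (P.cons (P.lf 1120 0 0) P.nil)))))) 218)
 EL.nil)
noncomputable def S198_212_475_512_43 : EL := (EL.cons 14 (TM.mk (P.cons (P.cons (P.lf 0 104464844 0) (P.cons (P.lf 18831998 0 0) (P.cons (P.lf 74050 0 0) (P.lf 0 24682 0)))) (P.cons (P.cons (P.lf 36059542 0 0) (P.cons (P.lf 0 5478754 0) (P.cons (P.lf 0 21542 0) (P.lf 7180 0 0)))) (P.cons (P.cons (P.lf 0 729036 0) (P.cons (P.lf 112342 0 0) (P.cons (P.lf 442 0 0) (P.lf 0 146 0)))) (P.cons (P.cons (P.lf 0 964892 0) (P.cons (P.lf 72822 0 0) (P.cons (P.lf 286 0 0) P.nil))) (P.cons (P.cons (P.lf 92730 0 0) (P.cons (P.lf 0 1654 0) P.nil)) (P.cons (P.cons (P.lf 3920 0 0) P.nil) P.nil)))))) 1592)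
 EL.nil)
noncomputable def S198_212_475_512_44 : EL := (EL.cons 14 (TM.mk (P.cons (P.cons (P.lf 0 23224902 0) (P.cons (P.lf 8373560 0 0) (P.cons (P.lf 0 721828 0) (P.cons (P.lf 0 16910 0) (P.cons (P.lf 1966 0 0) (P.cons (P.lf 6 0 0) P.nil)))))) (P.cons (P.cons (P.lf 7374526 0 0) (P.cons (P.lf 0 2204516 0) (P.cons (P.lf 149086 0 0) (P.cons (P.lf 4130 0 0) (P.cons (P.lf 0 410 0) P.nil))))) (P.cons (P.cons (P.lf 559844 0 0) (P.cons (P.lf 0 197766 0) (P.cons (P.lf 14458 0 0) (P.cons (P.lf 378 0 0) P.nil)))) (P.cons (P.cons (P.lf 0 390530 0) (P.cons (P.lf 85820 0 0) (P.cons (P.lf 0 3186 0) P.nil))) (P.cons (P.cons (P.lf 16130 0 0) (P.cons (P.lf 0 202 0) P.nil)) (P.cons (P.cons (P.lf 6612 0 0) P.nil) P.nil)))))) 3612)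
 EL.nil)
noncomputable def S198_212_475_512_45 : EL := (EL.cons 14 (TM.mk (P.cons (P.cons (P.lf 94393282 0 0) (P.cons (P.lf 0 51049158 0) (P.cons (P.lf 9001958 0 0) (P.cons (P.lf 0 413710 0) (P.cons (P.lf 0 30504 0) (P.cons (P.lf 2052 0 0) P.nil)))))) (P.cons (P.cons (P.lf 7831852 0 0) (P.cons (P.lf 0 7005272 0) (P.cons (P.lf 1734600 0 0) (P.cons (P.lf 0 112852 0) (P.cons (P.lf 0 6194 0) P.nil))))) (P.cons (P.cons (P.lf 0 5882372 0) (P.cons (P.lf 2047134 0 0) (P.cons (P.lf 0 129450 0) (P.cons (P.lf 0 11040 0) P.nil)))) (P.cons (P.cons (P.lf 0 349160 0) (P.cons (P.lf 267680 0 0) (P.cons (P.lf 0 41480 0) P.nil))) (P.cons (P.cons (P.lf 146074 0 0) (P.cons (P.lf 0 29346 0) P.nil)) (P.cons (P.cons (P.lf 5670 0 0) P.nil) P.nil)))))) 13482)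
 EL.nil)
noncomputable def S198_212_475_512_46 : EL := (EL.cons 15 (TM.mk (P.lf 4294967296 0 0) 0)
 EL.nil)
noncomputable def S198_212_475_512_47 : EL := (EL.cons 15 (TM.mk (P.cons (P.cons (P.lf 954868584 0 0) (P.cons (P.lf 0 172135268 0) (P.cons (P.lf 0 676860 0) (P.lf 225616 0 0)))) (P.cons (P.cons (P.lf 26408624 0 0) (P.cons (P.lf 0 14100012 0) (P.cons (P.lf 0 55440 0) (P.lf 18480 0 0)))) (P.cons (P.cons (P.lf 0 20565456 0) (P.cons (P.lf 399712 0 0) (P.cons (P.lf 1568 0 0) (P.lf 0 520 0)))) (P.cons (P.cons (P.lf 0 46536 0) (P.cons (P.lf 62080 0 0) (P.cons (P.lf 240 0 0) P.nil))) (P.cons (P.cons (P.lf 67938 0 0) (P.cons (P.lf 228 0 0) P.nil)) (P.cons (P.cons (P.lf 1146 0 0) P.nil) P.nil)))))) 675)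
 EL.nil)
noncomputable def S198_212_475_512_48 : EL := (EL.cons 15 (TM.mk (P.cons (P.cons (P.lf 212288930 0 0) (P.cons (P.lf 0 76539143 0) (P.cons (P.lf 6597937 0 0) (P.cons (P.lf 154573 0 0) (P.cons (P.lf 0 17977 0) (P.cons (P.lf 0 71 0) P.nil)))))) (P.cons (P.cons (P.lf 11742471 0 0) (P.cons (P.lf 0 8386333 0) (P.cons (P.lf 1097236 0 0) (P.cons (P.lf 19879 0 0) (P.cons (P.lf 0 2945 0) P.nil))))) (P.cons (P.cons (P.lf 0 8981954 0) (P.cons (P.lf 1652795 0 0) (P.cons (P.lf 20746 0 0) (P.cons (P.lf 0 2052 0) P.nil)))) (P.cons (P.cons (P.lf 0 273595 0) (P.cons (P.lf 171278 0 0) (P.cons (P.lf 0 6928 0) P.nil))) (P.cons (P.cons (P.lf 128108 0 0) (P.cons (P.lf 0 8103 0) P.nil)) (P.cons (P.cons (P.lf 1790 0 0) P.nil) P.nil)))))) 3278)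
 EL.nil)
noncomputable def S198_212_475_512 : SL := (SL.cons S198_212_475_512_0 (SL.cons S198_212_475_512_1 (SL.cons S198_212_475_512_2 (SL.cons S198_212_475_512_3 (SL.cons S198_212_475_512_4 (SL.cons S198_212_475_512_5 (SL.cons S198_212_475_512_6 (SL.cons S198_212_475_512_7 (SL.cons S198_212_475_512_8 (SL.cons S198_212_475_512_9 (SL.cons S198_212_475_512_10 (SL.cons S198_212_475_512_11 (SL.cons S198_212_475_512_12 (SL.cons S198_212_475_512_13 (SL.cons S198_212_475_512_14 (SL.cons S198_212_475_512_15 (SL.cons S198_212_475_512_16 (SL.cons S198_212_475_512_17 (SL.cons S198_212_475_512_18 (SL.cons S198_212_475_512_19 (SL.cons S198_212_475_512_20 (SL.cons S198_212_475_512_21 (SL.cons S198_212_475_512_22 (SL.cons S198_212_475_512_23 (SL.cons S198_212_475_512_24 (SL.cons S198_212_475_512_25 (SL.cons S198_212_475_512_26 (SL.cons S198_212_475_512_27 (SL.cons S198_212_475_512_28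 (SL.cons S198_212_475_512_29 (SL.cons S198_212_475_512_30 (SL.cons S198_212_475_512_31 (SL.cons S198_212_475_512_32 (SL.cons S198_212_475_512_33 (SL.cons S198_212_475_512_34 (SL.cons S198_212_475_512_35 (SL.cons S198_212_475_512_36 (SL.cons S198_212_475_512_37 (SL.cons S198_212_475_512_38 (SL.cons S198_212_475_512_39 (SL.cons S198_212_475_512_40 (SL.cons S198_212_475_512_41 (SL.cons S198_212_475_512_42 (SL.cons S198_212_475_512_43 (SL.cons S198_212_475_512_44 (SL.cons S198_212_475_512_45 (SL.cons S198_212_475_512_46 (SL.cons S198_212_475_512_47 (SL.cons S198_212_475_512_48 SL.nil)))))))))))))))))))))))))))))))))))))))))))))))))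
noncomputable def S198_212_512_586_0 : EL := (EL.cons 0 (TM.mk (P.cons (P.lf 7367797296 0 0) (P.cons (P.lf 270413532 0 0) (P.cons (P.lf 0 11357528 0) (P.cons (P.lf 0 846949 0) (P.cons (P.lf 7275 0 0) (P.cons (P.lf 1360 0 0) P.nil)))))) 123)
 (EL.cons 1 (TM.mk (P.cons (P.lf 0 1384003233 0) (P.cons (P.lf 134215061 0 0) (P.cons (P.lf 10263551 0 0) (P.cons (P.lf 0 214061 0) (P.cons (P.lf 0 21358 0) (P.cons (P.lf 0 5 0) P.nil)))))) 123)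
 (EL.cons 5 (TM.mk (P.cons (P.lf 4681783146 0 0) (P.cons (P.lf 0 96147034 0) (P.cons (P.lf 4038232 0 0) (P.cons (P.lf 301136 0 0) (P.cons (P.lf 0 2584 0) (P.cons (P.lf 0 484 0) P.nil)))))) 121)
 (EL.cons 9 (TM.mk (P.lf 6442450944 0 0) 2)
 EL.nil))))
noncomputable def S198_212_512_586_1 : EL := (EL.cons 0 (TM.mk (P.cons (P.cons (P.lf 899585572 0 0) (P.cons (P.lf 0 325085692 0) (P.cons (P.lf 5174174 0 0) (P.lf 1724727 0 0)))) (P.cons (P.cons (P.lf 343458843 0 0) (P.cons (P.lf 0 112307627 0) (P.cons (P.lf 1787516 0 0) (P.lf 595832 0 0)))) (P.cons (P.cons (P.lf 0 79554671 0) (P.cons (P.lf 0 2664727 0) (P.cons (P.lf 42411 0 0) (P.lf 14134 0 0)))) (P.cons (P.cons (P.lf 0 5011779 0) (P.cons (P.lf 879318 0 0) (P.cons (P.lf 0 13990 0) P.nil))) (P.cons (P.cons (P.lf 507274 0 0) (P.cons (P.lf 42651 0 0) P.nil)) (P.cons (P.cons (P.lf 35151 0 0) P.nil) P.nil)))))) 16851)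
 (EL.cons 1 (TM.mk (P.cons (P.cons (P.lf 0 68117667 0) (P.cons (P.lf 237943467 0 0) (P.cons (P.lf 0 3787179 0) (P.lf 0 1262386 0)))) (P.cons (P.cons (P.lf 206458704 0 0) (P.cons (P.lf 7368538 0 0) (P.cons (P.lf 0 117277 0) (P.lf 0 39094 0)))) (P.cons (P.cons (P.lf 27012253 0 0) (P.cons (P.lf 0 5430310 0) (P.cons (P.lf 86422 0 0) (P.lf 28797 0 0)))) (P.cons (P.cons (P.lf 0 3450084 0) (P.cons (P.lf 0 269088 0) (P.cons (P.lf 4277 0 0) P.nil))) (P.cons (P.cons (P.lf 0 272210 0) (P.cons (P.lf 27404 0 0) P.nil)) (P.cons (P.cons (P.lf 14335 0 0) P.nil) P.nil)))))) 8904)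
 (EL.cons 5 (TM.mk (P.cons (P.cons (P.lf 425534094 0 0) (P.cons (P.lf 0 462769916 0) (P.cons (P.lf 7365594 0 0) (P.lf 2455196 0 0)))) (P.cons (P.cons (P.lf 0 149134114 0) (P.cons (P.lf 0 7442934 0) (P.cons (P.lf 118472 0 0) (P.lf 39496 0 0)))) (P.cons (P.cons (P.lf 0 4636642 0) (P.cons (P.lf 2290454 0 0) (P.cons (P.lf 0 36454 0) (P.lf 0 12148 0)))) (P.cons (P.cons (P.lf 2019470 0 0) (P.cons (P.lf 0 104046 0) (P.cons (P.lf 1656 0 0) P.nil))) (P.cons (P.cons (P.lf 0 63685 0) (P.cons (P.lf 0 14384 0) P.nil)) (P.cons (P.cons (P.lf 0 11213 0) P.nil) P.nil)))))) 9397)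
 (EL.cons 9 (TM.mk (P.cons (P.cons (P.lf 657694176 0 0) (P.cons (P.lf 0 510314058 0) (P.cons (P.lf 8122320 0 0) (P.lf 2707434 0 0)))) (P.cons (P.cons (P.lf 0 23837128 0) (P.cons (P.lf 0 41801052 0) (P.cons (P.lf 665316 0 0) (P.lf 221772 0 0)))) (P.cons (P.cons (P.lf 0 29049474 0) (P.cons (P.lf 1184994 0 0) (P.cons (P.lf 0 18858 0) (P.lf 0 6282 0)))) (P.cons (P.cons (P.lf 209560 0 0) (P.cons (P.lf 184050 0 0) (P.cons (P.lf 0 2928 0) P.nil))) (P.cons (P.cons (P.lf 102945 0 0) (P.cons (P.lf 684 0 0) P.nil)) (P.cons (P.cons (P.lf 1131 0 0) P.nil) P.nil)))))) 2273)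
 (EL.cons 2 (TM.mk (P.cons (P.cons (P.lf 922738649 0 0) (P.cons (P.lf 0 34204663 0) (P.cons (P.lf 0 16948532 0) (P.cons (P.lf 153795 0 0) (P.lf 38446 0 0))))) (P.cons (P.cons (P.lf 0 64288895 0) (P.cons (P.lf 2383101 0 0) (P.cons (P.lf 1180833 0 0) (P.cons (P.lf 0 10715 0) (P.lf 0 2677 0))))) (P.cons (P.cons (P.lf 0 10688298 0) (P.cons (P.lf 396196 0 0) (P.cons (P.lf 196318 0 0) (P.cons (P.lf 0 1780 0) P.nil)))) (P.cons (P.cons (P.lf 51226 0 0) (P.cons (P.lf 0 1898 0) (P.cons (P.lf 0 939 0) P.nil))) (P.cons (P.cons (P.lf 33193 0 0) (P.cons (P.lf 0 1229 0) P.nil)) (P.cons (P.cons (P.lf 450 0 0) P.nil) P.nil)))))) 1539)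
 (EL.cons 6 (TM.mk (P.cons (P.cons (P.lf 1173867363 0 0) (P.cons (P.lf 0 43513662 0) (P.cons (P.lf 0 21561174 0) (P.cons (P.lf 195654 0 0) (P.lf 48912 0 0))))) (P.cons (P.cons (P.lf 96154308 0 0) (P.cons (P.lf 0 3564306 0) (P.cons (P.lf 0 1766124 0) (P.cons (P.lf 16023 0 0) (P.lf 4005 0 0))))) (P.cons (P.cons (P.lf 0 2725830 0) (P.cons (P.lf 101040 0 0) (P.cons (P.lf 50067 0 0) (P.cons (P.lf 0 453 0) P.nil)))) (P.cons (P.cons (P.lf 0 423375 0) (P.cons (P.lf 15693 0 0) (P.cons (P.lf 7776 0 0) P.nil))) (P.cons (P.cons (P.lf 0 1572 0) (P.cons (P.lf 57 0 0) P.nil)) (P.cons (P.cons (P.lf 900 0 0) P.nil) P.nil)))))) 930)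
 EL.nil))))))
noncomputable def S198_212_512_586_2 : EL := (EL.cons 0 (TM.mk (P.cons (P.cons (P.lf 106886766 0 0) (P.cons (P.lf 0 89729837 0) (P.cons (P.lf 6700429 0 0) (P.cons (P.lf 308225 0 0) (P.cons (P.lf 0 54610 0) (P.cons (P.lf 900 0 0) P.nil)))))) (P.cons (P.cons (P.lf 66216592 0 0) (P.cons (P.lf 0 76794788 0) (P.cons (P.lf 13962797 0 0) (P.cons (P.lf 1862 0 0) (P.cons (P.lf 0 131957 0) P.nil))))) (P.cons (P.cons (P.lf 0 19892392 0) (P.cons (P.lf 5818355 0 0) (P.cons (P.lf 1365152 0 0) (P.cons (P.lf 0 77259 0) P.nil)))) (P.cons (P.cons (P.lf 0 3522687 0) (P.cons (P.lf 2530509 0 0) (P.cons (P.lf 0 140465 0) P.nil))) (P.cons (P.cons (P.lf 715280 0 0) (P.cons (P.lf 12069 0 0) P.nil)) (P.cons (P.cons (P.lf 50860 0 0) P.nil) P.nil)))))) 120746)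
 (EL.cons 1 (TM.mk (P.cons (P.cons (P.lf 515970 0 0) (P.cons (P.lf 36990082 0 0) (P.cons (P.lf 0 29600496 0) (P.cons (P.lf 727269 0 0) (P.cons (P.lf 300491 0 0) (P.cons (P.lf 0 4894 0) P.nil)))))) (P.cons (P.cons (P.lf 40213487 0 0) (P.cons (P.lf 0 30931607 0) (P.cons (P.lf 0 3182246 0) (P.cons (P.lf 281076 0 0) (P.cons (P.lf 38053 0 0) P.nil))))) (P.cons (P.cons (P.lf 3340931 0 0) (P.cons (P.lf 0 8920433 0) (P.cons (P.lf 809747 0 0) (P.cons (P.lf 26064 0 0) P.nil)))) (P.cons (P.cons (P.lf 0 2583530 0) (P.cons (P.lf 179164 0 0) (P.cons (P.lf 106032 0 0) P.nil))) (P.cons (P.cons (P.lf 0 226071 0) (P.cons (P.lf 151127 0 0) P.nil)) (P.cons (P.cons (P.lf 40101 0 0) P.nil) P.nil)))))) 58577)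
 (EL.cons 5 (TM.mk (P.cons (P.cons (P.lf 38090555 0 0) (P.cons (P.lf 0 86181963 0) (P.cons (P.lf 45309367 0 0) (P.cons (P.lf 0 941417 0) (P.cons (P.lf 0 455073 0) (P.cons (P.lf 7410 0 0) P.nil)))))) (P.cons (P.cons (P.lf 0 29059554 0) (P.cons (P.lf 21911946 0 0) (P.cons (P.lf 2626478 0 0) (P.cons (P.lf 0 210954 0) (P.cons (P.lf 0 30829 0) P.nil))))) (P.cons (P.cons (P.lf 450798 0 0) (P.cons (P.lf 3771731 0 0) (P.cons (P.lf 0 483719 0) (P.cons (P.lf 0 6531 0) P.nil)))) (P.cons (P.cons (P.lf 1544630 0 0) (P.cons (P.lf 0 477472 0) (P.cons (P.lf 0 7262 0) P.nil))) (P.cons (P.cons (P.lf 0 83803 0) (P.cons (P.lf 0 39358 0) P.nil)) (P.cons (P.cons (P.lf 0 20819 0) P.nil) P.nil)))))) 61443)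
 (EL.cons 9 (TM.mk (P.cons (P.cons (P.lf 67142401 0 0) (P.cons (P.lf 0 104193445 0) (P.cons (P.lf 42080947 0 0) (P.cons (P.lf 0 733965 0) (P.cons (P.lf 0 418677 0) (P.cons (P.lf 6826 0 0) P.nil)))))) (P.cons (P.cons (P.lf 0 4866948 0) (P.cons (P.lf 0 4758402 0) (P.cons (P.lf 6697954 0 0) (P.cons (P.lf 0 185556 0) (P.cons (P.lf 0 68589 0) P.nil))))) (P.cons (P.cons (P.lf 0 5842981 0) (P.cons (P.lf 5153359 0 0) (P.cons (P.lf 1468 0 0) (P.cons (P.lf 0 29997 0) P.nil)))) (P.cons (P.cons (P.lf 257752 0 0) (P.cons (P.lf 372577 0 0) (P.cons (P.lf 0 50464 0) P.nil))) (P.cons (P.cons (P.lf 150453 0 0) (P.cons (P.lf 0 30936 0) P.nil)) (P.cons (P.cons (P.lf 0 2419 0) P.nil) P.nil)))))) 20351)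
 (EL.cons 2 (TM.mk (P.cons (P.cons (P.lf 188400296 0 0) (P.cons (P.lf 0 153166151 0) (P.cons (P.lf 4284995 0 0) (P.cons (P.lf 3405735 0 0) (P.cons (P.lf 0 87997 0) (P.cons (P.lf 0 19946 0) P.nil)))))) (P.cons (P.cons (P.lf 0 19954473 0) (P.cons (P.lf 0 1049670 0) (P.cons (P.lf 461323 0 0) (P.cons (P.lf 37974 0 0) (P.cons (P.lf 0 2002 0) P.nil))))) (P.cons (P.cons (P.lf 0 10027929 0) (P.cons (P.lf 3238695 0 0) (P.cons (P.lf 32281 0 0) (P.cons (P.lf 0 67843 0) P.nil)))) (P.cons (P.cons (P.lf 729348 0 0) (P.cons (P.lf 132615 0 0) (P.cons (P.lf 0 21853 0) P.nil))) (P.cons (P.cons (P.lf 128092 0 0) (P.cons (P.lf 0 18078 0) P.nil)) (P.cons (P.cons (P.lf 0 3037 0) P.nil) P.nil)))))) 17729)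
 (EL.cons 6 (TM.mk (P.cons (P.cons (P.lf 239674536 0 0) (P.cons (P.lf 0 194851212 0) (P.cons (P.lf 5451180 0 0) (P.cons (P.lf 4332630 0 0) (P.cons (P.lf 0 111948 0) (P.cons (P.lf 0 25374 0) P.nil)))))) (P.cons (P.cons (P.lf 10945674 0 0) (P.cons (P.lf 0 30871716 0) (P.cons (P.lf 1413186 0 0) (P.cons (P.lf 705066 0 0) (P.cons (P.lf 0 19518 0) P.nil))))) (P.cons (P.cons (P.lf 0 11854194 0) (P.cons (P.lf 55308 0 0) (P.cons (P.lf 238080 0 0) (P.cons (P.lf 6888 0 0) P.nil)))) (P.cons (P.cons (P.lf 0 857034 0) (P.cons (P.lf 236652 0 0) (P.cons (P.lf 4884 0 0) P.nil))) (P.cons (P.cons (P.lf 71160 0 0) (P.cons (P.lf 7842 0 0) P.nil)) (P.cons (P.cons (P.lf 7320 0 0) P.nil) P.nil)))))) 17340)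
 EL.nil))))))
noncomputable def S198_212_512_586_3 : EL := (EL.cons 0 (TM.mk (P.cons (P.lf 1087919567 0 0) (P.cons (P.lf 0 270413532 0) (P.cons (P.lf 11357528 0 0) (P.cons (P.lf 846949 0 0) (P.cons (P.lf 0 7275 0) (P.cons (P.lf 0 1360 0) P.nil)))))) 123)
 (EL.cons 1 (TM.mk (P.cons (P.lf 1384003233 0 0) (P.cons (P.lf 0 134215061 0) (P.cons (P.lf 0 10263551 0) (P.cons (P.lf 214061 0 0) (P.cons (P.lf 21358 0 0) (P.cons (P.lf 5 0 0) P.nil)))))) 123)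
 (EL.cons 5 (TM.mk (P.cons (P.lf 1760667798 0 0) (P.cons (P.lf 96147034 0 0) (P.cons (P.lf 0 4038232 0) (P.cons (P.lf 0 301136 0) (P.cons (P.lf 2584 0 0) (P.cons (P.lf 484 0 0) P.nil)))))) 114)
 EL.nil)))
noncomputable def S198_212_512_586_4 : EL := (EL.cons 0 (TM.mk (P.cons (P.cons (P.lf 111063067 0 0) (P.cons (P.lf 0 86175377 0) (P.cons (P.lf 1371592 0 0) (P.lf 457196 0 0)))) (P.cons (P.cons (P.lf 0 31631173 0) (P.cons (P.lf 14360937 0 0) (P.cons (P.lf 0 228573 0) (P.lf 0 76190 0)))) (P.cons (P.cons (P.lf 0 2745511 0) (P.cons (P.lf 1055007 0 0) (P.cons (P.lf 0 16790 0) (P.lf 0 5595 0)))) (P.cons (P.cons (P.lf 1299141 0 0) (P.cons (P.lf 0 159437 0) (P.cons (P.lf 2536 0 0) P.nil))) (P.cons (P.cons (P.lf 0 46499 0) (P.cons (P.lf 0 10439 0) P.nil)) (P.cons (P.cons (P.lf 0 7690 0) P.nil) P.nil)))))) 2889)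
 (EL.cons 1 (TM.mk (P.cons (P.cons (P.lf 141289528 0 0) (P.cons (P.lf 0 109628510 0) (P.cons (P.lf 1744880 0 0) (P.lf 581625 0 0)))) (P.cons (P.cons (P.lf 0 18822513 0) (P.cons (P.lf 1651395 0 0) (P.cons (P.lf 0 26283 0) (P.lf 0 8760 0)))) (P.cons (P.cons (P.lf 0 6791752 0) (P.cons (P.lf 1938391 0 0) (P.cons (P.lf 0 30849 0) (P.lf 0 10280 0)))) (P.cons (P.cons (P.lf 710032 0 0) (P.cons (P.lf 64488 0 0) (P.cons (P.lf 0 1025 0) P.nil))) (P.cons (P.cons (P.lf 65415 0 0) (P.cons (P.lf 0 8655 0) P.nil)) (P.cons (P.cons (P.lf 0 3277 0) P.nil) P.nil)))))) 2263)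
 (EL.cons 5 (TM.mk (P.cons (P.cons (P.lf 179742300 0 0) (P.cons (P.lf 0 139464550 0) (P.cons (P.lf 2219760 0 0) (P.lf 739918 0 0)))) (P.cons (P.cons (P.lf 3300930 0 0) (P.cons (P.lf 0 19039794 0) (P.cons (P.lf 303040 0 0) (P.lf 101012 0 0)))) (P.cons (P.cons (P.lf 0 8706974 0) (P.cons (P.lf 19882 0 0) (P.cons (P.lf 0 314 0) (P.lf 0 104 0)))) (P.cons (P.cons (P.lf 0 392062 0) (P.cons (P.lf 118038 0 0) (P.cons (P.lf 0 1878 0) P.nil))) (P.cons (P.cons (P.lf 50848 0 0) (P.cons (P.lf 3938 0 0) P.nil)) (P.cons (P.cons (P.lf 3110 0 0) P.nil) P.nil)))))) 1700)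
 EL.nil)))
noncomputable def S198_212_512_586_5 : EL := (EL.cons 0 (TM.mk (P.cons (P.cons (P.lf 11338157 0 0) (P.cons (P.lf 0 17594869 0) (P.cons (P.lf 7106097 0 0) (P.cons (P.lf 0 123941 0) (P.cons (P.lf 0 70699 0) (P.cons (P.lf 1151 0 0) P.nil)))))) (P.cons (P.cons (P.lf 0 3640083 0) (P.cons (P.lf 3569844 0 0) (P.cons (P.lf 0 635225 0) (P.cons (P.lf 0 525 0) (P.cons (P.lf 5990 0 0) P.nil))))) (P.cons (P.cons (P.lf 0 664036 0) (P.cons (P.lf 886276 0 0) (P.cons (P.lf 0 206702 0) (P.cons (P.lf 1427 0 0) P.nil)))) (P.cons (P.cons (P.lf 289023 0 0) (P.cons (P.lf 0 175475 0) (P.cons (P.lf 8755 0 0) P.nil))) (P.cons (P.cons (P.lf 3570 0 0) (P.cons (P.lf 0 12285 0) P.nil)) (P.cons (P.cons (P.lf 0 7045 0) P.nil) P.nil)))))) 16629)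
 (EL.cons 1 (TM.mk (P.cons (P.cons (P.lf 14423902 0 0) (P.cons (P.lf 0 22383416 0) (P.cons (P.lf 9040061 0 0) (P.cons (P.lf 0 157672 0) (P.cons (P.lf 0 89941 0) (P.cons (P.lf 1464 0 0) P.nil)))))) (P.cons (P.cons (P.lf 0 2444315 0) (P.cons (P.lf 1148426 0 0) (P.cons (P.lf 562220 0 0) (P.cons (P.lf 0 24570 0) (P.cons (P.lf 0 6011 0) P.nil))))) (P.cons (P.cons (P.lf 0 1260793 0) (P.cons (P.lf 1372194 0 0) (P.cons (P.lf 0 206261 0) (P.cons (P.lf 0 1408 0) P.nil)))) (P.cons (P.cons (P.lf 187081 0 0) (P.cons (P.lf 0 23199 0) (P.cons (P.lf 0 20143 0) P.nil))) (P.cons (P.cons (P.lf 36318 0 0) (P.cons (P.lf 0 23118 0) P.nil)) (P.cons (P.cons (P.lf 0 4273 0) P.nil) P.nil)))))) 13364)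
 (EL.cons 5 (TM.mk (P.cons (P.cons (P.lf 18349454 0 0) (P.cons (P.lf 0 28475194 0) (P.cons (P.lf 11500368 0 0) (P.cons (P.lf 0 200584 0) (P.cons (P.lf 0 114420 0) (P.cons (P.lf 1864 0 0) P.nil)))))) (P.cons (P.cons (P.lf 0 328062 0) (P.cons (P.lf 0 2855412 0) (P.cons (P.lf 2458508 0 0) (P.cons (P.lf 0 61662 0) (P.cons (P.lf 0 24992 0) P.nil))))) (P.cons (P.cons (P.lf 0 1711556 0) (P.cons (P.lf 1402664 0 0) (P.cons (P.lf 73984 0 0) (P.cons (P.lf 0 10506 0) P.nil)))) (P.cons (P.cons (P.lf 0 16846 0) (P.cons (P.lf 186582 0 0) (P.cons (P.lf 0 19934 0) P.nil))) (P.cons (P.cons (P.lf 48880 0 0) (P.cons (P.lf 0 5942 0) P.nil)) (P.cons (P.cons (P.lf 1696 0 0) P.nil) P.nil)))))) 10636)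
 EL.nil)))
noncomputable def S198_212_512_586_6 : EL := (EL.cons 12 (TM.mk (P.lf 8589934592 0 0) 0)
 (EL.cons 3 (TM.mk (P.cons (P.lf 0 1528492552 0) (P.cons (P.lf 189961226 0 0) (P.cons (P.lf 3825716 0 0) (P.cons (P.lf 0 119508 0) (P.cons (P.lf 0 4953 0) (P.cons (P.lf 41 0 0) P.nil)))))) 52)
 (EL.cons 7 (TM.mk (P.cons (P.lf 0 1944480730 0) (P.cons (P.lf 0 53092371 0) (P.cons (P.lf 2954732 0 0) (P.cons (P.lf 85611 0 0) (P.cons (P.lf 0 1520 0) (P.cons (P.lf 0 96 0) P.nil)))))) 47)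
 EL.nil)))
noncomputable def S198_212_512_586_7 : EL := (EL.cons 12 (TM.mk (P.cons (P.cons (P.lf 876925568 0 0) (P.cons (P.lf 0 680418744 0) (P.cons (P.lf 10829760 0 0) (P.lf 3609912 0 0)))) (P.cons (P.cons (P.lf 0 31782838 0) (P.cons (P.lf 0 55734736 0) (P.cons (P.lf 887088 0 0) (P.lf 295696 0 0)))) (P.cons (P.cons (P.lf 0 38732632 0) (P.cons (P.lf 1579992 0 0) (P.cons (P.lf 0 25144 0) (P.lf 0 8376 0)))) (P.cons (P.cons (P.lf 279414 0 0) (P.cons (P.lf 245400 0 0) (P.cons (P.lf 0 3904 0) P.nil))) (P.cons (P.cons (P.lf 137260 0 0) (P.cons (P.lf 912 0 0) P.nil)) (P.cons (P.cons (P.lf 1508 0 0) P.nil) P.nil)))))) 3006)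
 (EL.cons 3 (TM.mk (P.cons (P.cons (P.lf 0 363167605 0) (P.cons (P.lf 0 242147356 0) (P.cons (P.lf 3854092 0 0) (P.lf 1284692 0 0)))) (P.cons (P.cons (P.lf 0 482757885 0) (P.cons (P.lf 10259226 0 0) (P.cons (P.lf 0 163290 0) (P.lf 0 54428 0)))) (P.cons (P.cons (P.lf 5012482 0 0) (P.cons (P.lf 3633446 0 0) (P.cons (P.lf 0 57828 0) (P.lf 0 19272 0)))) (P.cons (P.cons (P.lf 3220361 0 0) (P.cons (P.lf 48162 0 0) (P.cons (P.lf 0 764 0) P.nil))) (P.cons (P.cons (P.lf 59479 0 0) (P.cons (P.lf 0 14270 0) P.nil)) (P.cons (P.cons (P.lf 0 9082 0) P.nil) P.nil)))))) 6125)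
 (EL.cons 7 (TM.mk (P.cons (P.cons (P.lf 0 140617138 0) (P.cons (P.lf 255541449 0 0) (P.cons (P.lf 0 4067280 0) (P.lf 0 1355762 0)))) (P.cons (P.cons (P.lf 134926279 0 0) (P.cons (P.lf 0 2867354 0) (P.cons (P.lf 45634 0 0) (P.lf 15210 0 0)))) (P.cons (P.cons (P.lf 0 11627287 0) (P.cons (P.lf 0 798194 0) (P.cons (P.lf 12706 0 0) (P.lf 4238 0 0)))) (P.cons (P.cons (P.lf 0 616573 0) (P.cons (P.lf 86143 0 0) (P.cons (P.lf 0 1371 0) P.nil))) (P.cons (P.cons (P.lf 76932 0 0) (P.cons (P.lf 4053 0 0) P.nil)) (P.cons (P.cons (P.lf 3116 0 0) P.nil) P.nil)))))) 5660)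
 (EL.cons 10 (TM.mk (P.cons (P.cons (P.lf 0 2592837186 0) (P.cons (P.lf 96112938 0 0) (P.cons (P.lf 47624307 0 0) (P.cons (P.lf 0 432162 0) (P.lf 0 108039 0))))) (P.cons (P.cons (P.lf 0 141590370 0) (P.cons (P.lf 5248560 0 0) (P.cons (P.lf 2600679 0 0) (P.cons (P.lf 0 23598 0) (P.lf 0 5898 0))))) (P.cons (P.cons (P.lf 5946876 0 0) (P.cons (P.lf 0 220440 0) (P.cons (P.lf 0 109230 0) (P.cons (P.lf 990 0 0) P.nil)))) (P.cons (P.cons (P.lf 443466 0 0) (P.cons (P.lf 0 16437 0) (P.cons (P.lf 0 8145 0) P.nil))) (P.cons (P.cons (P.lf 0 3804 0) (P.cons (P.lf 141 0 0) P.nil)) (P.cons (P.cons (P.lf 0 711 0) P.nil) P.nil)))))) 735)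
 EL.nil))))
noncomputable def S198_212_512_586_8 : EL := (EL.cons 12 (TM.mk (P.cons (P.cons (P.lf 89523202 0 0) (P.cons (P.lf 0 138924594 0) (P.cons (P.lf 56107930 0 0) (P.cons (P.lf 0 978620 0) (P.cons (P.lf 0 558236 0) (P.cons (P.lf 9102 0 0) P.nil)))))) (P.cons (P.cons (P.lf 0 6489264 0) (P.cons (P.lf 0 6344536 0) (P.cons (P.lf 8930606 0 0) (P.cons (P.lf 0 247408 0) (P.cons (P.lf 0 91452 0) P.nil))))) (P.cons (P.cons (P.lf 0 7790642 0) (P.cons (P.lf 6871146 0 0) (P.cons (P.lf 1958 0 0) (P.cons (P.lf 0 39996 0) P.nil)))) (P.cons (P.cons (P.lf 343670 0 0) (P.cons (P.lf 496770 0 0) (P.cons (P.lf 0 67286 0) P.nil))) (P.cons (P.cons (P.lf 200604 0 0) (P.cons (P.lf 0 41248 0) P.nil)) (P.cons (P.cons (P.lf 0 3226 0) P.nil) P.nil)))))) 27106)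
 (EL.cons 3 (TM.mk (P.cons (P.cons (P.lf 0 58220039 0) (P.cons (P.lf 0 16626845 0) (P.cons (P.lf 48216573 0 0) (P.cons (P.lf 0 1438221 0) (P.cons (P.lf 0 496661 0) (P.cons (P.lf 8095 0 0) P.nil)))))) (P.cons (P.cons (P.lf 0 99014164 0) (P.cons (P.lf 87022224 0 0) (P.cons (P.lf 511171 0 0) (P.cons (P.lf 0 522047 0) (P.cons (P.lf 0 19641 0) P.nil))))) (P.cons (P.cons (P.lf 6588305 0 0) (P.cons (P.lf 9611433 0 0) (P.cons (P.lf 0 1150263 0) (P.cons (P.lf 0 19245 0) P.nil)))) (P.cons (P.cons (P.lf 5187952 0 0) (P.cons (P.lf 0 961556 0) (P.cons (P.lf 0 65746 0) P.nil))) (P.cons (P.cons (P.lf 0 68372 0) (P.cons (P.lf 0 141689 0) P.nil)) (P.cons (P.cons (P.lf 0 51839 0) P.nil) P.nil)))))) 62177)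
 (EL.cons 7 (TM.mk (P.cons (P.cons (P.lf 0 8445399 0) (P.cons (P.lf 43004112 0 0) (P.cons (P.lf 0 28967471 0) (P.cons (P.lf 672163 0 0) (P.cons (P.lf 292938 0 0) (P.cons (P.lf 0 4772 0) P.nil)))))) (P.cons (P.cons (P.lf 27673523 0 0) (P.cons (P.lf 0 24321888 0) (P.cons (P.lf 0 142873 0) (P.cons (P.lf 145903 0 0) (P.cons (P.lf 5492 0 0) P.nil))))) (P.cons (P.cons (P.lf 0 3938805 0) (P.cons (P.lf 0 842901 0) (P.cons (P.lf 332317 0 0) (P.cons (P.lf 0 5678 0) P.nil)))) (P.cons (P.cons (P.lf 0 1234793 0) (P.cons (P.lf 514628 0 0) (P.cons (P.lf 0 14258 0) P.nil))) (P.cons (P.cons (P.lf 179704 0 0) (P.cons (P.lf 5993 0 0) P.nil)) (P.cons (P.cons (P.lf 9600 0 0) P.nil) P.nil)))))) 36251)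
 (EL.cons 10 (TM.mk (P.cons (P.cons (P.lf 0 529392906 0) (P.cons (P.lf 430387188 0 0) (P.cons (P.lf 0 12040572 0) (P.cons (P.lf 0 9569916 0) (P.cons (P.lf 247272 0 0) (P.cons (P.lf 56052 0 0) P.nil)))))) (P.cons (P.cons (P.lf 0 9722190 0) (P.cons (P.lf 56438076 0 0) (P.cons (P.lf 0 2792694 0) (P.cons (P.lf 0 1296060 0) (P.cons (P.lf 36360 0 0) P.nil))))) (P.cons (P.cons (P.lf 25644552 0 0) (P.cons (P.lf 0 1009170 0) (P.cons (P.lf 0 467928 0) (P.cons (P.lf 5622 0 0) P.nil)))) (P.cons (P.cons (P.lf 1154736 0 0) (P.cons (P.lf 0 390462 0) (P.cons (P.lf 0 2790 0) P.nil))) (P.cons (P.cons (P.lf 0 149760 0) (P.cons (P.lf 0 6048 0) P.nil)) (P.cons (P.cons (P.lf 0 9162 0) P.nil) P.nil)))))) 29064)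
 EL.nil))))
noncomputable def S198_212_512_586_9 : EL := (EL.cons 3 (TM.mk (P.cons (P.lf 0 1528492552 0) (P.cons (P.lf 189961226 0 0) (P.cons (P.lf 3825716 0 0) (P.cons (P.lf 0 119508 0) (P.cons (P.lf 0 4953 0) (P.cons (P.lf 41 0 0) P.nil)))))) 52)
 (EL.cons 7 (TM.mk (P.cons (P.lf 0 1944480730 0) (P.cons (P.lf 0 53092371 0) (P.cons (P.lf 2954732 0 0) (P.cons (P.lf 85611 0 0) (P.cons (P.lf 0 1520 0) (P.cons (P.lf 0 96 0) P.nil)))))) 47)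
 EL.nil))
noncomputable def S198_212_512_586_10 : EL := (EL.cons 3 (TM.mk (P.cons (P.cons (P.lf 0 156040093 0) (P.cons (P.lf 121073678 0 0) (P.cons (P.lf 0 1927046 0) (P.lf 0 642346 0)))) (P.cons (P.cons (P.lf 25048116 0 0) (P.cons (P.lf 0 5129613 0) (P.cons (P.lf 81645 0 0) (P.lf 27214 0 0)))) (P.cons (P.cons (P.lf 6579781 0 0) (P.cons (P.lf 0 1816723 0) (P.cons (P.lf 28914 0 0) (P.lf 9636 0 0)))) (P.cons (P.cons (P.lf 0 932623 0) (P.cons (P.lf 0 24081 0) (P.cons (P.lf 382 0 0) P.nil))) (P.cons (P.cons (P.lf 0 35558 0) (P.cons (P.lf 7135 0 0) P.nil)) (P.cons (P.cons (P.lf 3452 0 0) P.nil) P.nil)))))) 1459)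
 (EL.cons 7 (TM.mk (P.cons (P.cons (P.lf 0 198507316 0) (P.cons (P.lf 154024587 0 0) (P.cons (P.lf 0 2451504 0) (P.lf 0 817166 0)))) (P.cons (P.cons (P.lf 1774525 0 0) (P.cons (P.lf 16822033 0 0) (P.cons (P.lf 0 267743 0) (P.lf 0 89247 0)))) (P.cons (P.cons (P.lf 9265886 0 0) (P.cons (P.lf 0 247223 0) (P.cons (P.lf 3934 0 0) (P.lf 1310 0 0)))) (P.cons (P.cons (P.lf 173954 0 0) (P.cons (P.lf 0 91268 0) (P.cons (P.lf 1452 0 0) P.nil))) (P.cons (P.cons (P.lf 0 46593 0) (P.cons (P.lf 0 1614 0) P.nil)) (P.cons (P.cons (P.lf 0 1483 0) P.nil) P.nil)))))) 1165)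
 EL.nil))
noncomputable def S198_212_512_586_11 : EL := (EL.cons 3 (TM.mk (P.cons (P.cons (P.lf 0 15929753 0) (P.cons (P.lf 24720235 0 0) (P.cons (P.lf 0 9983841 0) (P.cons (P.lf 174135 0 0) (P.cons (P.lf 99331 0 0) (P.cons (P.lf 0 1619 0) P.nil)))))) (P.cons (P.cons (P.lf 3134450 0 0) (P.cons (P.lf 0 1943286 0) (P.cons (P.lf 0 348317 0) (P.cons (P.lf 22381 0 0) (P.cons (P.lf 3927 0 0) P.nil))))) (P.cons (P.cons (P.lf 1282631 0 0) (P.cons (P.lf 0 1424829 0) (P.cons (P.lf 222135 0 0) (P.cons (P.lf 1209 0 0) P.nil)))) (P.cons (P.cons (P.lf 0 237572 0) (P.cons (P.lf 62662 0 0) (P.cons (P.lf 15212 0 0) P.nil))) (P.cons (P.cons (P.lf 0 31526 0) (P.cons (P.lf 21553 0 0) P.nil)) (P.cons (P.cons (P.lf 5275 0 0) P.nil) P.nil)))))) 12157)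
 (EL.cons 7 (TM.mk (P.cons (P.cons (P.lf 0 20265129 0) (P.cons (P.lf 31447992 0 0) (P.cons (P.lf 0 12701003 0) (P.cons (P.lf 221527 0 0) (P.cons (P.lf 126366 0 0) (P.cons (P.lf 0 2060 0) P.nil)))))) (P.cons (P.cons (P.lf 915635 0 0) (P.cons (P.lf 2294856 0 0) (P.cons (P.lf 0 2368387 0) (P.cons (P.lf 62053 0 0) (P.cons (P.lf 24152 0 0) P.nil))))) (P.cons (P.cons (P.lf 1834449 0 0) (P.cons (P.lf 0 1563975 0) (P.cons (P.lf 0 36341 0) (P.cons (P.lf 10246 0 0) P.nil)))) (P.cons (P.cons (P.lf 0 30983 0) (P.cons (P.lf 0 158488 0) (P.cons (P.lf 18850 0 0) P.nil))) (P.cons (P.cons (P.lf 0 50294 0) (P.cons (P.lf 8591 0 0) P.nil)) (P.cons (P.cons (P.lf 0 468 0) P.nil) P.nil)))))) 8707)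
 EL.nil))
noncomputable def S198_212_512_586_12 : EL := (EL.cons 4 (TM.mk (P.cons (P.lf 1528492552 0 0) (P.cons (P.lf 0 189961226 0) (P.cons (P.lf 0 3825716 0) (P.cons (P.lf 119508 0 0) (P.cons (P.lf 4953 0 0) (P.cons (P.lf 0 41 0) P.nil)))))) 52)
 (EL.cons 8 (TM.mk (P.cons (P.lf 1944480730 0 0) (P.cons (P.lf 53092371 0 0) (P.cons (P.lf 0 2954732 0) (P.cons (P.lf 0 85611 0) (P.cons (P.lf 1520 0 0) (P.cons (P.lf 96 0 0) P.nil)))))) 47)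
 EL.nil))
noncomputable def S198_212_512_586_13 : EL := (EL.cons 4 (TM.mk (P.cons (P.cons (P.lf 156040093 0 0) (P.cons (P.lf 0 121073678 0) (P.cons (P.lf 1927046 0 0) (P.lf 642346 0 0)))) (P.cons (P.cons (P.lf 0 25048116 0) (P.cons (P.lf 5129613 0 0) (P.cons (P.lf 0 81645 0) (P.lf 0 27214 0)))) (P.cons (P.cons (P.lf 0 6579781 0) (P.cons (P.lf 1816723 0 0) (P.cons (P.lf 0 28914 0) (P.lf 0 9636 0)))) (P.cons (P.cons (P.lf 932623 0 0) (P.cons (P.lf 24081 0 0) (P.cons (P.lf 0 382 0) P.nil))) (P.cons (P.cons (P.lf 35558 0 0) (P.cons (P.lf 0 7135 0) P.nil)) (P.cons (P.cons (P.lf 0 3452 0) P.nil) P.nil)))))) 1459)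
 (EL.cons 8 (TM.mk (P.cons (P.cons (P.lf 198507316 0 0) (P.cons (P.lf 0 154024587 0) (P.cons (P.lf 2451504 0 0) (P.lf 817166 0 0)))) (P.cons (P.cons (P.lf 0 1774525 0) (P.cons (P.lf 0 16822033 0) (P.cons (P.lf 267743 0 0) (P.lf 89247 0 0)))) (P.cons (P.cons (P.lf 0 9265886 0) (P.cons (P.lf 247223 0 0) (P.cons (P.lf 0 3934 0) (P.lf 0 1310 0)))) (P.cons (P.cons (P.lf 0 173954 0) (P.cons (P.lf 91268 0 0) (P.cons (P.lf 0 1452 0) P.nil))) (P.cons (P.cons (P.lf 46593 0 0) (P.cons (P.lf 1614 0 0) P.nil)) (P.cons (P.cons (P.lf 1483 0 0) P.nil) P.nil)))))) 1165)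
 EL.nil))
noncomputable def S198_212_512_586_14 : EL := (EL.cons 4 (TM.mk (P.cons (P.cons (P.lf 15929753 0 0) (P.cons (P.lf 0 24720235 0) (P.cons (P.lf 9983841 0 0) (P.cons (P.lf 0 174135 0) (P.cons (P.lf 0 99331 0) (P.cons (P.lf 1619 0 0) P.nil)))))) (P.cons (P.cons (P.lf 0 3134450 0) (P.cons (P.lf 1943286 0 0) (P.cons (P.lf 348317 0 0) (P.cons (P.lf 0 22381 0) (P.cons (P.lf 0 3927 0) P.nil))))) (P.cons (P.cons (P.lf 0 1282631 0) (P.cons (P.lf 1424829 0 0) (P.cons (P.lf 0 222135 0) (P.cons (P.lf 0 1209 0) P.nil)))) (P.cons (P.cons (P.lf 237572 0 0) (P.cons (P.lf 0 62662 0) (P.cons (P.lf 0 15212 0) P.nil))) (P.cons (P.cons (P.lf 31526 0 0) (P.cons (P.lf 0 21553 0) P.nil)) (P.cons (P.cons (P.lf 0 5275 0) P.nil) P.nil)))))) 12157)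
 (EL.cons 8 (TM.mk (P.cons (P.cons (P.lf 20265129 0 0) (P.cons (P.lf 0 31447992 0) (P.cons (P.lf 12701003 0 0) (P.cons (P.lf 0 221527 0) (P.cons (P.lf 0 126366 0) (P.cons (P.lf 2060 0 0) P.nil)))))) (P.cons (P.cons (P.lf 0 915635 0) (P.cons (P.lf 0 2294856 0) (P.cons (P.lf 2368387 0 0) (P.cons (P.lf 0 62053 0) (P.cons (P.lf 0 24152 0) P.nil))))) (P.cons (P.cons (P.lf 0 1834449 0) (P.cons (P.lf 1563975 0 0) (P.cons (P.lf 36341 0 0) (P.cons (P.lf 0 10246 0) P.nil)))) (P.cons (P.cons (P.lf 30983 0 0) (P.cons (P.lf 158488 0 0) (P.cons (P.lf 0 18850 0) P.nil))) (P.cons (P.cons (P.lf 50294 0 0) (P.cons (P.lf 0 8591 0) P.nil)) (P.cons (P.cons (P.lf 468 0 0) P.nil) P.nil)))))) 8707)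
 EL.nil))
noncomputable def S198_212_512_586_15 : EL := (EL.cons 4 (TM.mk (P.cons (P.lf 0 580223769 0) (P.cons (P.lf 144220550 0 0) (P.cons (P.lf 0 6057348 0) (P.cons (P.lf 0 451706 0) (P.cons (P.lf 3880 0 0) (P.cons (P.lf 725 0 0) P.nil)))))) 68)
 (EL.cons 8 (TM.mk (P.cons (P.lf 0 738135058 0) (P.cons (P.lf 71581366 0 0) (P.cons (P.lf 5473894 0 0) (P.cons (P.lf 0 114166 0) (P.cons (P.lf 0 11391 0) (P.cons (P.lf 0 3 0) P.nil)))))) 62)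
 EL.nil))
noncomputable def S198_212_512_586_16 : EL := (EL.cons 4 (TM.mk (P.cons (P.cons (P.lf 0 59233635 0) (P.cons (P.lf 45960201 0 0) (P.cons (P.lf 0 731516 0) (P.lf 0 243838 0)))) (P.cons (P.cons (P.lf 16869959 0 0) (P.cons (P.lf 0 7659166 0) (P.cons (P.lf 121905 0 0) (P.lf 40635 0 0)))) (P.cons (P.cons (P.lf 1464272 0 0) (P.cons (P.lf 0 562670 0) (P.cons (P.lf 8955 0 0) (P.lf 2984 0 0)))) (P.cons (P.cons (P.lf 0 692875 0) (P.cons (P.lf 85033 0 0) (P.cons (P.lf 0 1352 0) P.nil))) (P.cons (P.cons (P.lf 24799 0 0) (P.cons (P.lf 5567 0 0) P.nil)) (P.cons (P.cons (P.lf 4101 0 0) P.nil) P.nil)))))) 1549)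
 (EL.cons 8 (TM.mk (P.cons (P.cons (P.lf 0 75354415 0) (P.cons (P.lf 58468539 0 0) (P.cons (P.lf 0 930603 0) (P.lf 0 310200 0)))) (P.cons (P.cons (P.lf 10038674 0 0) (P.cons (P.lf 0 880744 0) (P.cons (P.lf 14018 0 0) (P.lf 4672 0 0)))) (P.cons (P.cons (P.lf 3622268 0 0) (P.cons (P.lf 0 1033809 0) (P.cons (P.lf 16453 0 0) (P.lf 5483 0 0)))) (P.cons (P.cons (P.lf 0 378684 0) (P.cons (P.lf 0 34394 0) (P.cons (P.lf 547 0 0) P.nil))) (P.cons (P.cons (P.lf 0 34888 0) (P.cons (P.lf 4616 0 0) P.nil)) (P.cons (P.cons (P.lf 1748 0 0) P.nil) P.nil)))))) 1197)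
 EL.nil))
noncomputable def S198_212_512_586_17 : EL := (EL.cons 4 (TM.mk (P.cons (P.cons (P.lf 0 6047017 0) (P.cons (P.lf 9383930 0 0) (P.cons (P.lf 0 3789918 0) (P.cons (P.lf 66102 0 0) (P.cons (P.lf 37706 0 0) (P.cons (P.lf 0 614 0) P.nil)))))) (P.cons (P.cons (P.lf 1941377 0 0) (P.cons (P.lf 0 1903917 0) (P.cons (P.lf 338787 0 0) (P.cons (P.lf 280 0 0) (P.cons (P.lf 0 3195 0) P.nil))))) (P.cons (P.cons (P.lf 354152 0 0) (P.cons (P.lf 0 472680 0) (P.cons (P.lf 110241 0 0) (P.cons (P.lf 0 761 0) P.nil)))) (P.cons (P.cons (P.lf 0 154145 0) (P.cons (P.lf 93586 0 0) (P.cons (P.lf 0 4669 0) P.nil))) (P.cons (P.cons (P.lf 0 1904 0) (P.cons (P.lf 6552 0 0) P.nil)) (P.cons (P.cons (P.lf 3757 0 0) P.nil) P.nil)))))) 8879)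
 (EL.cons 8 (TM.mk (P.cons (P.cons (P.lf 0 7692748 0) (P.cons (P.lf 11937822 0 0) (P.cons (P.lf 0 4821366 0) (P.cons (P.lf 84092 0 0) (P.cons (P.lf 47969 0 0) (P.cons (P.lf 0 781 0) P.nil)))))) (P.cons (P.cons (P.lf 1303635 0 0) (P.cons (P.lf 0 612494 0) (P.cons (P.lf 0 299851 0) (P.cons (P.lf 13104 0 0) (P.cons (P.lf 3206 0 0) P.nil))))) (P.cons (P.cons (P.lf 672423 0 0) (P.cons (P.lf 0 731837 0) (P.cons (P.lf 110006 0 0) (P.cons (P.lf 751 0 0) P.nil)))) (P.cons (P.cons (P.lf 0 99777 0) (P.cons (P.lf 12373 0 0) (P.cons (P.lf 10743 0 0) P.nil))) (P.cons (P.cons (P.lf 0 19370 0) (P.cons (P.lf 12330 0 0) P.nil)) (P.cons (P.cons (P.lf 2279 0 0) P.nil) P.nil)))))) 7116)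
 EL.nil))
noncomputable def S198_212_512_586_18 : EL := (EL.cons 4 (TM.mk (P.cons (P.lf 220255978 0 0) (P.cons (P.lf 0 82120312 0) (P.cons (P.lf 8552062 0 0) (P.cons (P.lf 39948 0 0) (P.cons (P.lf 0 32104 0) (P.cons (P.lf 0 525 0) P.nil)))))) 109)
 (EL.cons 8 (TM.mk (P.cons (P.lf 280199929 0 0) (P.cons (P.lf 0 61995939 0) (P.cons (P.lf 597780 0 0) (P.cons (P.lf 391501 0 0) (P.cons (P.lf 2922 0 0) (P.cons (P.lf 0 902 0) P.nil)))))) 74)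
 EL.nil))
noncomputable def S198_212_512_586_19 : EL := (EL.cons 4 (TM.mk (P.cons (P.cons (P.lf 22485397 0 0) (P.cons (P.lf 0 17446732 0) (P.cons (P.lf 277687 0 0) (P.lf 92562 0 0)))) (P.cons (P.cons (P.lf 0 9198412 0) (P.cons (P.lf 5075741 0 0) (P.cons (P.lf 0 80787 0) (P.lf 0 26928 0)))) (P.cons (P.cons (P.lf 183754 0 0) (P.cons (P.lf 0 104078 0) (P.cons (P.lf 1656 0 0) (P.lf 552 0 0)))) (P.cons (P.cons (P.lf 349886 0 0) (P.cons (P.lf 0 67465 0) (P.cons (P.lf 1073 0 0) P.nil))) (P.cons (P.cons (P.lf 0 41138 0) (P.cons (P.lf 1533 0 0) P.nil)) (P.cons (P.cons (P.lf 0 1110 0) P.nil) P.nil)))))) 1524)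
 (EL.cons 8 (TM.mk (P.cons (P.cons (P.lf 28604930 0 0) (P.cons (P.lf 0 22194963 0) (P.cons (P.lf 353261 0 0) (P.lf 117753 0 0)))) (P.cons (P.cons (P.lf 0 7365757 0) (P.cons (P.lf 3092727 0 0) (P.cons (P.lf 0 49224 0) (P.lf 0 16408 0)))) (P.cons (P.cons (P.lf 0 973029 0) (P.cons (P.lf 406440 0 0) (P.cons (P.lf 0 6468 0) (P.lf 0 2155 0)))) (P.cons (P.cons (P.lf 326413 0 0) (P.cons (P.lf 0 38287 0) (P.cons (P.lf 609 0 0) P.nil))) (P.cons (P.cons (P.lf 0 1384 0) (P.cons (P.lf 0 4403 0) P.nil)) (P.cons (P.cons (P.lf 0 2789 0) P.nil) P.nil)))))) 1137)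
 EL.nil))
noncomputable def S198_212_512_586_20 : EL := (EL.cons 4 (TM.mk (P.cons (P.cons (P.lf 2295479 0 0) (P.cons (P.lf 0 3562188 0) (P.cons (P.lf 1438672 0 0) (P.cons (P.lf 0 25092 0) (P.cons (P.lf 0 14313 0) (P.cons (P.lf 232 0 0) P.nil)))))) (P.cons (P.cons (P.lf 0 1022239 0) (P.cons (P.lf 1165445 0 0) (P.cons (P.lf 0 307403 0) (P.cons (P.lf 3011 0 0) (P.cons (P.lf 2991 0 0) P.nil))))) (P.cons (P.cons (P.lf 0 48594 0) (P.cons (P.lf 98525 0 0) (P.cons (P.lf 0 29465 0) (P.cons (P.lf 364 0 0) P.nil)))) (P.cons (P.cons (P.lf 77246 0 0) (P.cons (P.lf 0 59912 0) (P.cons (P.lf 7408 0 0) P.nil))) (P.cons (P.cons (P.lf 0 6262 0) (P.cons (P.lf 1523 0 0) P.nil)) (P.cons (P.cons (P.lf 0 1675 0) P.nil) P.nil)))))) 5624)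
 (EL.cons 8 (TM.mk (P.cons (P.cons (P.lf 2920207 0 0) (P.cons (P.lf 0 4531659 0) (P.cons (P.lf 1830216 0 0) (P.cons (P.lf 0 31921 0) (P.cons (P.lf 0 18208 0) (P.cons (P.lf 296 0 0) P.nil)))))) (P.cons (P.cons (P.lf 0 857790 0) (P.cons (P.lf 795700 0 0) (P.cons (P.lf 0 113633 0) (P.cons (P.lf 0 1006 0) (P.cons (P.lf 1045 0 0) P.nil))))) (P.cons (P.cons (P.lf 0 201062 0) (P.cons (P.lf 260256 0 0) (P.cons (P.lf 0 60485 0) (P.cons (P.lf 412 0 0) P.nil)))) (P.cons (P.cons (P.lf 71065 0 0) (P.cons (P.lf 0 40159 0) (P.cons (P.lf 969 0 0) P.nil))) (P.cons (P.cons (P.lf 3255 0 0) (P.cons (P.lf 0 4789 0) P.nil)) (P.cons (P.cons (P.lf 0 1895 0) P.nil) P.nil)))))) 4904)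
 EL.nil))
noncomputable def S198_212_512_586_21 : EL := (EL.cons 4 (TM.mk (P.cons (P.cons (P.lf 207127512 0 0) (P.cons (P.lf 363221034 0 0) (P.cons (P.lf 0 5781138 0) (P.lf 0 1927038 0)))) (P.cons (P.cons (P.lf 507806001 0 0) (P.cons (P.lf 0 15388839 0) (P.cons (P.lf 244935 0 0) (P.lf 81642 0 0)))) (P.cons (P.cons (P.lf 1567299 0 0) (P.cons (P.lf 0 5450169 0) (P.cons (P.lf 86742 0 0) (P.lf 28908 0 0)))) (P.cons (P.cons (P.lf 0 4152984 0) (P.cons (P.lf 0 72243 0) (P.cons (P.lf 1146 0 0) P.nil))) (P.cons (P.cons (P.lf 0 95037 0) (P.cons (P.lf 21405 0 0) P.nil)) (P.cons (P.cons (P.lf 12534 0 0) P.nil) P.nil)))))) 4647)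
 (EL.cons 8 (TM.mk (P.cons (P.cons (P.lf 0 57890178 0) (P.cons (P.lf 0 101516862 0) (P.cons (P.lf 1615776 0 0) (P.lf 538596 0 0)))) (P.cons (P.cons (P.lf 0 133151754 0) (P.cons (P.lf 19689387 0 0) (P.cons (P.lf 0 313377 0) (P.lf 0 104457 0)))) (P.cons (P.cons (P.lf 20893173 0 0) (P.cons (P.lf 550971 0 0) (P.cons (P.lf 0 8772 0) (P.lf 0 2928 0)))) (P.cons (P.cons (P.lf 790527 0 0) (P.cons (P.lf 0 177411 0) (P.cons (P.lf 2823 0 0) P.nil))) (P.cons (P.cons (P.lf 0 123525 0) (P.cons (P.lf 0 5667 0) P.nil)) (P.cons (P.cons (P.lf 0 4599 0) P.nil) P.nil)))))) 4476)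
 (EL.cons 11 (TM.mk (P.cons (P.cons (P.lf 2592837186 0 0) (P.cons (P.lf 0 96112938 0) (P.cons (P.lf 0 47624307 0) (P.cons (P.lf 432162 0 0) (P.lf 108039 0 0))))) (P.cons (P.cons (P.lf 141590370 0 0) (P.cons (P.lf 0 5248560 0) (P.cons (P.lf 0 2600679 0) (P.cons (P.lf 23598 0 0) (P.lf 5898 0 0))))) (P.cons (P.cons (P.lf 0 5946876 0) (P.cons (P.lf 220440 0 0) (P.cons (P.lf 109230 0 0) (P.cons (P.lf 0 990 0) P.nil)))) (P.cons (P.cons (P.lf 0 443466 0) (P.cons (P.lf 16437 0 0) (P.cons (P.lf 8145 0 0) P.nil))) (P.cons (P.cons (P.lf 3804 0 0) (P.cons (P.lf 0 141 0) P.nil)) (P.cons (P.cons (P.lf 711 0 0) P.nil) P.nil)))))) 735)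
 EL.nil)))
noncomputable def S198_212_512_586_22 : EL := (EL.cons 4 (TM.mk (P.cons (P.cons (P.lf 21145143 0 0) (P.cons (P.lf 20673540 0 0) (P.cons (P.lf 0 29100207 0) (P.cons (P.lf 806178 0 0) (P.cons (P.lf 297996 0 0) (P.cons (P.lf 0 4857 0) P.nil)))))) (P.cons (P.cons (P.lf 51074307 0 0) (P.cons (P.lf 0 44482755 0) (P.cons (P.lf 0 429744 0) (P.cons (P.lf 272214 0 0) (P.cons (P.lf 11784 0 0) P.nil))))) (P.cons (P.cons (P.lf 0 2652837 0) (P.cons (P.lf 0 5518131 0) (P.cons (P.lf 686199 0 0) (P.cons (P.lf 10227 0 0) P.nil)))) (P.cons (P.cons (P.lf 0 2712762 0) (P.cons (P.lf 512109 0 0) (P.cons (P.lf 40479 0 0) P.nil))) (P.cons (P.cons (P.lf 18423 0 0) (P.cons (P.lf 81621 0 0) P.nil)) (P.cons (P.cons (P.lf 28557 0 0) P.nil) P.nil)))))) 24999)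
 (EL.cons 8 (TM.mk (P.cons (P.cons (P.lf 0 5909865 0) (P.cons (P.lf 0 5778060 0) (P.cons (P.lf 8133234 0 0) (P.cons (P.lf 0 225318 0) (P.cons (P.lf 0 83286 0) (P.cons (P.lf 1356 0 0) P.nil)))))) (P.cons (P.cons (P.lf 0 13378944 0) (P.cons (P.lf 13308372 0 0) (P.cons (P.lf 0 1112757 0) (P.cons (P.lf 0 41925 0) (P.cons (P.lf 9330 0 0) P.nil))))) (P.cons (P.cons (P.lf 2886627 0 0) (P.cons (P.lf 0 360537 0) (P.cons (P.lf 0 184329 0) (P.cons (P.lf 7962 0 0) P.nil)))) (P.cons (P.cons (P.lf 601905 0 0) (P.cons (P.lf 0 336558 0) (P.cons (P.lf 16554 0 0) P.nil))) (P.cons (P.cons (P.lf 0 114999 0) (P.cons (P.lf 1299 0 0) P.nil)) (P.cons (P.cons (P.lf 0 5034 0) P.nil) P.nil)))))) 13761)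
 (EL.cons 11 (TM.mk (P.cons (P.cons (P.lf 264696453 0 0) (P.cons (P.lf 0 215193594 0) (P.cons (P.lf 6020286 0 0) (P.cons (P.lf 4784958 0 0) (P.cons (P.lf 0 123636 0) (P.cons (P.lf 0 28026 0) P.nil)))))) (P.cons (P.cons (P.lf 4861095 0 0) (P.cons (P.lf 0 28219038 0) (P.cons (P.lf 1396347 0 0) (P.cons (P.lf 648030 0 0) (P.cons (P.lf 0 18180 0) P.nil))))) (P.cons (P.cons (P.lf 0 12822276 0) (P.cons (P.lf 504585 0 0) (P.cons (P.lf 233964 0 0) (P.cons (P.lf 0 2811 0) P.nil)))) (P.cons (P.cons (P.lf 0 577368 0) (P.cons (P.lf 195231 0 0) (P.cons (P.lf 1395 0 0) P.nil))) (P.cons (P.cons (P.lf 74880 0 0) (P.cons (P.lf 3024 0 0) P.nil)) (P.cons (P.cons (P.lf 4581 0 0) P.nil) P.nil)))))) 14532)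
 EL.nil)))
noncomputable def S198_212_512_586_23 : EL := (EL.cons 4 (TM.mk (P.cons (P.cons (P.lf 0 78626685 0) (P.cons (P.lf 0 137880603 0) (P.cons (P.lf 2194548 0 0) (P.lf 731511 0 0)))) (P.cons (P.cons (P.lf 0 182994081 0) (P.cons (P.lf 22977498 0 0) (P.cons (P.lf 0 365715 0) (P.lf 0 121902 0)))) (P.cons (P.cons (P.lf 23558799 0 0) (P.cons (P.lf 1688013 0 0) (P.cons (P.lf 0 26865 0) (P.lf 0 8952 0)))) (P.cons (P.cons (P.lf 2126766 0 0) (P.cons (P.lf 0 255102 0) (P.cons (P.lf 4059 0 0) P.nil))) (P.cons (P.cons (P.lf 0 173685 0) (P.cons (P.lf 0 16701 0) P.nil)) (P.cons (P.cons (P.lf 0 13854 0) P.nil) P.nil)))))) 5868)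
 (EL.cons 8 (TM.mk (P.cons (P.cons (P.lf 21975414 0 0) (P.cons (P.lf 38536329 0 0) (P.cons (P.lf 0 613356 0) (P.lf 0 204453 0)))) (P.cons (P.cons (P.lf 47813994 0 0) (P.cons (P.lf 0 12263493 0) (P.cons (P.lf 195186 0 0) (P.lf 65061 0 0)))) (P.cons (P.cons (P.lf 0 14267910 0) (P.cons (P.lf 623286 0 0) (P.cons (P.lf 0 9918 0) (P.lf 0 3303 0)))) (P.cons (P.cons (P.lf 560802 0 0) (P.cons (P.lf 115059 0 0) (P.cons (P.lf 0 1830 0) P.nil))) (P.cons (P.cons (P.lf 108060 0 0) (P.cons (P.lf 0 6153 0) P.nil)) (P.cons (P.cons (P.lf 0 3786 0) P.nil) P.nil)))))) 3273)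
 (EL.cons 11 (TM.mk (P.cons (P.cons (P.lf 0 984254559 0) (P.cons (P.lf 36484974 0 0) (P.cons (P.lf 18078435 0 0) (P.cons (P.lf 0 164049 0) (P.lf 0 41010 0))))) (P.cons (P.cons (P.lf 68574822 0 0) (P.cons (P.lf 0 2541975 0) (P.cons (P.lf 0 1259556 0) (P.cons (P.lf 11430 0 0) (P.lf 2856 0 0))))) (P.cons (P.cons (P.lf 11400852 0 0) (P.cons (P.lf 0 422610 0) (P.cons (P.lf 0 209406 0) (P.cons (P.lf 1899 0 0) P.nil)))) (P.cons (P.cons (P.lf 0 54642 0) (P.cons (P.lf 2025 0 0) (P.cons (P.lf 1002 0 0) P.nil))) (P.cons (P.cons (P.lf 0 35406 0) (P.cons (P.lf 1311 0 0) P.nil)) (P.cons (P.cons (P.lf 0 480 0) P.nil) P.nil)))))) 1620)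
 EL.nil)))
noncomputable def S198_212_512_586_24 : EL := (EL.cons 4 (TM.mk (P.cons (P.cons (P.lf 0 8026806 0) (P.cons (P.lf 0 7847784 0) (P.cons (P.lf 11046591 0 0) (P.cons (P.lf 0 306030 0) (P.cons (P.lf 0 113121 0) (P.cons (P.lf 1842 0 0) P.nil)))))) (P.cons (P.cons (P.lf 0 18390501 0) (P.cons (P.lf 17861211 0 0) (P.cons (P.lf 0 1209735 0) (P.cons (P.lf 0 65301 0) (P.cons (P.lf 9585 0 0) P.nil))))) (P.cons (P.cons (P.lf 3436671 0 0) (P.cons (P.lf 15774 0 0) (P.cons (P.lf 0 308406 0) (P.cons (P.lf 9723 0 0) P.nil)))) (P.cons (P.cons (P.lf 952524 0 0) (P.cons (P.lf 0 497607 0) (P.cons (P.lf 17460 0 0) P.nil))) (P.cons (P.cons (P.lf 0 139035 0) (P.cons (P.lf 0 10770 0) P.nil)) (P.cons (P.cons (P.lf 0 12531 0) P.nil) P.nil)))))) 20649)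
 (EL.cons 8 (TM.mk (P.cons (P.cons (P.lf 2243415 0 0) (P.cons (P.lf 2193381 0 0) (P.cons (P.lf 0 3087417 0) (P.cons (P.lf 85530 0 0) (P.cons (P.lf 31614 0 0) (P.cons (P.lf 0 513 0) P.nil)))))) (P.cons (P.cons (P.lf 4799904 0 0) (P.cons (P.lf 0 5324520 0) (P.cons (P.lf 806112 0 0) (P.cons (P.lf 5283 0 0) (P.cons (P.lf 0 7470 0) P.nil))))) (P.cons (P.cons (P.lf 0 1732575 0) (P.cons (P.lf 759225 0 0) (P.cons (P.lf 25203 0 0) (P.cons (P.lf 0 5214 0) P.nil)))) (P.cons (P.cons (P.lf 0 104838 0) (P.cons (P.lf 123564 0 0) (P.cons (P.lf 0 16278 0) P.nil))) (P.cons (P.cons (P.lf 75198 0 0) (P.cons (P.lf 0 17100 0) P.nil)) (P.cons (P.cons (P.lf 0 3009 0) P.nil) P.nil)))))) 7560)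
 (EL.cons 11 (TM.mk (P.cons (P.cons (P.lf 0 100480158 0) (P.cons (P.lf 81688614 0 0) (P.cons (P.lf 0 2285331 0) (P.cons (P.lf 0 1816392 0) (P.cons (P.lf 46932 0 0) (P.cons (P.lf 10638 0 0) P.nil)))))) (P.cons (P.cons (P.lf 10642386 0 0) (P.cons (P.lf 559824 0 0) (P.cons (P.lf 0 246039 0) (P.cons (P.lf 0 20253 0) (P.cons (P.lf 1068 0 0) P.nil))))) (P.cons (P.cons (P.lf 5348229 0 0) (P.cons (P.lf 0 1727304 0) (P.cons (P.lf 0 17217 0) (P.cons (P.lf 36183 0 0) P.nil)))) (P.cons (P.cons (P.lf 0 388986 0) (P.cons (P.lf 0 70728 0) (P.cons (P.lf 11655 0 0) P.nil))) (P.cons (P.cons (P.lf 0 68316 0) (P.cons (P.lf 9642 0 0) P.nil)) (P.cons (P.cons (P.lf 1620 0 0) P.nil) P.nil)))))) 9444)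
 EL.nil)))
noncomputable def S198_212_512_586_25 : EL := (EL.cons 4 (TM.mk (P.cons (P.cons (P.lf 29847099 0 0) (P.cons (P.lf 52340196 0 0) (P.cons (P.lf 0 833061 0) (P.lf 0 277686 0)))) (P.cons (P.cons (P.lf 65756109 0 0) (P.cons (P.lf 0 15227223 0) (P.cons (P.lf 242361 0 0) (P.lf 80784 0 0)))) (P.cons (P.cons (P.lf 0 17650929 0) (P.cons (P.lf 312234 0 0) (P.cons (P.lf 0 4968 0) (P.lf 0 1656 0)))) (P.cons (P.cons (P.lf 132576 0 0) (P.cons (P.lf 202398 0 0) (P.cons (P.lf 0 3219 0) P.nil))) (P.cons (P.cons (P.lf 194178 0 0) (P.cons (P.lf 0 4602 0) P.nil)) (P.cons (P.cons (P.lf 0 1386 0) P.nil) P.nil)))))) 5373)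
 (EL.cons 8 (TM.mk (P.cons (P.cons (P.lf 0 8341980 0) (P.cons (P.lf 0 14628591 0) (P.cons (P.lf 232833 0 0) (P.lf 77610 0 0)))) (P.cons (P.cons (P.lf 0 17113698 0) (P.cons (P.lf 6473328 0 0) (P.cons (P.lf 0 103029 0) (P.lf 0 34341 0)))) (P.cons (P.cons (P.lf 7692792 0 0) (P.cons (P.lf 0 778548 0) (P.cons (P.lf 12390 0 0) (P.lf 4128 0 0)))) (P.cons (P.cons (P.lf 0 841227 0) (P.cons (P.lf 0 27066 0) (P.cons (P.lf 429 0 0) P.nil))) (P.cons (P.cons (P.lf 0 29565 0) (P.cons (P.lf 8673 0 0) P.nil)) (P.cons (P.cons (P.lf 7431 0 0) P.nil) P.nil)))))) 2481)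
 (EL.cons 11 (TM.mk (P.cons (P.cons (P.lf 373628178 0 0) (P.cons (P.lf 0 13849887 0) (P.cons (P.lf 0 6862668 0) (P.cons (P.lf 62274 0 0) (P.lf 15567 0 0))))) (P.cons (P.cons (P.lf 0 72465912 0) (P.cons (P.lf 2686212 0 0) (P.cons (P.lf 1331028 0 0) (P.cons (P.lf 0 12078 0) (P.lf 0 3018 0))))) (P.cons (P.cons (P.lf 0 2027808 0) (P.cons (P.lf 75165 0 0) (P.cons (P.lf 37245 0 0) (P.cons (P.lf 0 336 0) P.nil)))) (P.cons (P.cons (P.lf 652971 0 0) (P.cons (P.lf 0 24204 0) (P.cons (P.lf 0 11991 0) P.nil))) (P.cons (P.cons (P.lf 20871 0 0) (P.cons (P.lf 0 771 0) P.nil)) (P.cons (P.cons (P.lf 0 1971 0) P.nil) P.nil)))))) 1785)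
 EL.nil)))
noncomputable def S198_212_512_586_26 : EL := (EL.cons 4 (TM.mk (P.cons (P.cons (P.lf 3047016 0 0) (P.cons (P.lf 2979060 0 0) (P.cons (P.lf 0 4193343 0) (P.cons (P.lf 116169 0 0) (P.cons (P.lf 42939 0 0) (P.cons (P.lf 0 699 0) P.nil)))))) (P.cons (P.cons (P.lf 6602445 0 0) (P.cons (P.lf 0 7150446 0) (P.cons (P.lf 980370 0 0) (P.cons (P.lf 10350 0 0) (P.cons (P.lf 0 8973 0) P.nil))))) (P.cons (P.cons (P.lf 0 2179821 0) (P.cons (P.lf 829200 0 0) (P.cons (P.lf 70494 0 0) (P.cons (P.lf 0 7062 0) P.nil)))) (P.cons (P.cons (P.lf 0 216684 0) (P.cons (P.lf 206841 0 0) (P.cons (P.lf 0 22653 0) P.nil))) (P.cons (P.cons (P.lf 101535 0 0) (P.cons (P.lf 0 19890 0) P.nil)) (P.cons (P.cons (P.lf 0 975 0) P.nil) P.nil)))))) 12054)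
 (EL.cons 8 (TM.mk (P.cons (P.cons (P.lf 0 851610 0) (P.cons (P.lf 0 832617 0) (P.cons (P.lf 1171998 0 0) (P.cons (P.lf 0 32466 0) (P.cons (P.lf 0 12000 0) (P.cons (P.lf 195 0 0) P.nil)))))) (P.cons (P.cons (P.lf 0 1716228 0) (P.cons (P.lf 2124693 0 0) (P.cons (P.lf 0 451659 0) (P.cons (P.lf 2028 0 0) (P.cons (P.lf 4326 0 0) P.nil))))) (P.cons (P.cons (P.lf 886272 0 0) (P.cons (P.lf 0 537318 0) (P.cons (P.lf 25527 0 0) (P.cons (P.lf 2310 0 0) P.nil)))) (P.cons (P.cons (P.lf 0 37446 0) (P.cons (P.lf 0 16212 0) (P.cons (P.lf 8226 0 0) P.nil))) (P.cons (P.cons (P.lf 0 35283 0) (P.cons (P.lf 13197 0 0) P.nil)) (P.cons (P.cons (P.lf 4635 0 0) P.nil) P.nil)))))) 5448)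
 (EL.cons 11 (TM.mk (P.cons (P.cons (P.lf 38142792 0 0) (P.cons (P.lf 0 31009425 0) (P.cons (P.lf 867522 0 0) (P.cons (P.lf 689511 0 0) (P.cons (P.lf 0 17814 0) (P.cons (P.lf 0 4038 0) P.nil)))))) (P.cons (P.cons (P.lf 0 8780295 0) (P.cons (P.lf 3641340 0 0) (P.cons (P.lf 0 14415 0) (P.cons (P.lf 0 78003 0) (P.cons (P.lf 1806 0 0) P.nil))))) (P.cons (P.cons (P.lf 0 1623603 0) (P.cons (P.lf 759717 0 0) (P.cons (P.lf 0 7242 0) (P.cons (P.lf 0 16416 0) P.nil)))) (P.cons (P.cons (P.lf 413070 0 0) (P.cons (P.lf 0 56532 0) (P.cons (P.lf 0 5403 0) P.nil))) (P.cons (P.cons (P.lf 12471 0 0) (P.cons (P.lf 0 8754 0) P.nil)) (P.cons (P.cons (P.lf 0 4380 0) P.nil) P.nil)))))) 7245)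
 EL.nil)))
noncomputable def S198_212_512_586_27 : EL := (EL.cons 13 (TM.mk (P.lf 0 4294967296 0) 0)
 EL.nil)
noncomputable def S198_212_512_586_28 : EL := (EL.cons 13 (TM.mk (P.cons (P.cons (P.lf 0 438462784 0) (P.cons (P.lf 340209372 0 0) (P.cons (P.lf 0 5414880 0) (P.lf 0 1804956 0)))) (P.cons (P.cons (P.lf 15891419 0 0) (P.cons (P.lf 27867368 0 0) (P.cons (P.lf 0 443544 0) (P.lf 0 147848 0)))) (P.cons (P.cons (P.lf 19366316 0 0) (P.cons (P.lf 0 789996 0) (P.cons (P.lf 12572 0 0) (P.lf 4188 0 0)))) (P.cons (P.cons (P.lf 0 139707 0) (P.cons (P.lf 0 122700 0) (P.cons (P.lf 1952 0 0) P.nil))) (P.cons (P.cons (P.lf 0 68630 0) (P.cons (P.lf 0 456 0) P.nil)) (P.cons (P.cons (P.lf 0 754 0) P.nil) P.nil)))))) 1503)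
 EL.nil)
noncomputable def S198_212_512_586_29 : EL := (EL.cons 13 (TM.mk (P.cons (P.cons (P.lf 0 44761601 0) (P.cons (P.lf 69462297 0 0) (P.cons (P.lf 0 28053965 0) (P.cons (P.lf 489310 0 0) (P.cons (P.lf 279118 0 0) (P.cons (P.lf 0 4551 0) P.nil)))))) (P.cons (P.cons (P.lf 3244632 0 0) (P.cons (P.lf 3172268 0 0) (P.cons (P.lf 0 4465303 0) (P.cons (P.lf 123704 0 0) (P.cons (P.lf 45726 0 0) P.nil))))) (P.cons (P.cons (P.lf 3895321 0 0) (P.cons (P.lf 0 3435573 0) (P.cons (P.lf 0 979 0) (P.cons (P.lf 19998 0 0) P.nil)))) (P.cons (P.cons (P.lf 0 171835 0) (P.cons (P.lf 0 248385 0) (P.cons (P.lf 33643 0 0) P.nil))) (P.cons (P.cons (P.lf 0 100302 0) (P.cons (P.lf 20624 0 0) P.nil)) (P.cons (P.cons (P.lf 1613 0 0) P.nil) P.nil)))))) 13553)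
 EL.nil)
noncomputable def S198_212_512_586_30 : EL := (EL.cons 13 (TM.mk (P.cons (P.lf 1630392056 0 0) (P.cons (P.lf 0 202625308 0) (P.cons (P.lf 0 4080764 0) (P.cons (P.lf 127476 0 0) (P.cons (P.lf 5284 0 0) (P.cons (P.lf 0 44 0) P.nil)))))) 48)
 EL.nil)
noncomputable def S198_212_512_586_31 : EL := (EL.cons 13 (TM.mk (P.cons (P.cons (P.lf 166442766 0 0) (P.cons (P.lf 0 129145257 0) (P.cons (P.lf 2055516 0 0) (P.lf 685170 0 0)))) (P.cons (P.cons (P.lf 0 26717991 0) (P.cons (P.lf 5471588 0 0) (P.cons (P.lf 0 87088 0) (P.lf 0 29029 0)))) (P.cons (P.cons (P.lf 0 7018434 0) (P.cons (P.lf 1937838 0 0) (P.cons (P.lf 0 30842 0) (P.lf 0 10279 0)))) (P.cons (P.cons (P.lf 994798 0 0) (P.cons (P.lf 25687 0 0) (P.cons (P.lf 0 408 0) P.nil))) (P.cons (P.cons (P.lf 37929 0 0) (P.cons (P.lf 0 7611 0) P.nil)) (P.cons (P.cons (P.lf 0 3683 0) P.nil) P.nil)))))) 1537)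
 EL.nil)
noncomputable def S198_212_512_586_32 : EL := (EL.cons 13 (TM.mk (P.cons (P.cons (P.lf 16991737 0 0) (P.cons (P.lf 0 26368251 0) (P.cons (P.lf 10649431 0 0) (P.cons (P.lf 0 185744 0) (P.cons (P.lf 0 105954 0) (P.cons (P.lf 1727 0 0) P.nil)))))) (P.cons (P.cons (P.lf 0 3343414 0) (P.cons (P.lf 2072839 0 0) (P.cons (P.lf 371539 0 0) (P.cons (P.lf 0 23874 0) (P.cons (P.lf 0 4189 0) P.nil))))) (P.cons (P.cons (P.lf 0 1368140 0) (P.cons (P.lf 1519818 0 0) (P.cons (P.lf 0 236944 0) (P.cons (P.lf 0 1290 0) P.nil)))) (P.cons (P.cons (P.lf 253411 0 0) (P.cons (P.lf 0 66840 0) (P.cons (P.lf 0 16227 0) P.nil))) (P.cons (P.cons (P.lf 33628 0 0) (P.cons (P.lf 0 22990 0) P.nil)) (P.cons (P.cons (P.lf 0 5627 0) P.nil) P.nil)))))) 12944)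
 EL.nil)
noncomputable def S198_212_512_586_33 : EL := (EL.cons 14 (TM.mk (P.lf 8589934592 0 0) 0)
 EL.nil)
noncomputable def S198_212_512_586_34 : EL := (EL.cons 14 (TM.mk (P.cons (P.cons (P.lf 876925568 0 0) (P.cons (P.lf 0 680418744 0) (P.cons (P.lf 10829760 0 0) (P.lf 3609912 0 0)))) (P.cons (P.cons (P.lf 0 31782838 0) (P.cons (P.lf 0 55734736 0) (P.cons (P.lf 887088 0 0) (P.lf 295696 0 0)))) (P.cons (P.cons (P.lf 0 38732632 0) (P.cons (P.lf 1579992 0 0) (P.cons (P.lf 0 25144 0) (P.lf 0 8376 0)))) (P.cons (P.cons (P.lf 279414 0 0) (P.cons (P.lf 245400 0 0) (P.cons (P.lf 0 3904 0) P.nil))) (P.cons (P.cons (P.lf 137260 0 0) (P.cons (P.lf 912 0 0) P.nil)) (P.cons (P.cons (P.lf 1508 0 0) P.nil) P.nil)))))) 3006)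
 EL.nil)
noncomputable def S198_212_512_586_35 : EL := (EL.cons 14 (TM.mk (P.cons (P.cons (P.lf 89523202 0 0) (P.cons (P.lf 0 138924594 0) (P.cons (P.lf 56107930 0 0) (P.cons (P.lf 0 978620 0) (P.cons (P.lf 0 558236 0) (P.cons (P.lf 9102 0 0) P.nil)))))) (P.cons (P.cons (P.lf 0 6489264 0) (P.cons (P.lf 0 6344536 0) (P.cons (P.lf 8930606 0 0) (P.cons (P.lf 0 247408 0) (P.cons (P.lf 0 91452 0) P.nil))))) (P.cons (P.cons (P.lf 0 7790642 0) (P.cons (P.lf 6871146 0 0) (P.cons (P.lf 1958 0 0) (P.cons (P.lf 0 39996 0) P.nil)))) (P.cons (P.cons (P.lf 343670 0 0) (P.cons (P.lf 496770 0 0) (P.cons (P.lf 0 67286 0) P.nil))) (P.cons (P.cons (P.lf 200604 0 0) (P.cons (P.lf 0 41248 0) P.nil)) (P.cons (P.cons (P.lf 0 3226 0) P.nil) P.nil)))))) 27106)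
 EL.nil)
noncomputable def S198_212_512_586_36 : EL := (EL.cons 14 (TM.mk (P.cons (P.lf 0 3260784112 0) (P.cons (P.lf 405250616 0 0) (P.cons (P.lf 8161528 0 0) (P.cons (P.lf 0 254952 0) (P.cons (P.lf 0 10568 0) (P.cons (P.lf 88 0 0) P.nil)))))) 96)
 EL.nil)
noncomputable def S198_212_512_586_37 : EL := (EL.cons 14 (TM.mk (P.cons (P.cons (P.lf 0 332885532 0) (P.cons (P.lf 258290514 0 0) (P.cons (P.lf 0 4111032 0) (P.lf 0 1370340 0)))) (P.cons (P.cons (P.lf 53435982 0 0) (P.cons (P.lf 0 10943176 0) (P.cons (P.lf 174176 0 0) (P.lf 58058 0 0)))) (P.cons (P.cons (P.lf 14036868 0 0) (P.cons (P.lf 0 3875676 0) (P.cons (P.lf 61684 0 0) (P.lf 20558 0 0)))) (P.cons (P.cons (P.lf 0 1989596 0) (P.cons (P.lf 0 51374 0) (P.cons (P.lf 816 0 0) P.nil))) (P.cons (P.cons (P.lf 0 75858 0) (P.cons (P.lf 15222 0 0) P.nil)) (P.cons (P.cons (P.lf 7366 0 0) P.nil) P.nil)))))) 3074)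
 EL.nil)
noncomputable def S198_212_512_586_38 : EL := (EL.cons 14 (TM.mk (P.cons (P.cons (P.lf 0 33983474 0) (P.cons (P.lf 52736502 0 0) (P.cons (P.lf 0 21298862 0) (P.cons (P.lf 371488 0 0) (P.cons (P.lf 211908 0 0) (P.cons (P.lf 0 3454 0) P.nil)))))) (P.cons (P.cons (P.lf 6686828 0 0) (P.cons (P.lf 0 4145678 0) (P.cons (P.lf 0 743078 0) (P.cons (P.lf 47748 0 0) (P.cons (P.lf 8378 0 0) P.nil))))) (P.cons (P.cons (P.lf 2736280 0 0) (P.cons (P.lf 0 3039636 0) (P.cons (P.lf 473888 0 0) (P.cons (P.lf 2580 0 0) P.nil)))) (P.cons (P.cons (P.lf 0 506822 0) (P.cons (P.lf 133680 0 0) (P.cons (P.lf 32454 0 0) P.nil))) (P.cons (P.cons (P.lf 0 67256 0) (P.cons (P.lf 45980 0 0) P.nil)) (P.cons (P.cons (P.lf 11254 0 0) P.nil) P.nil)))))) 25888)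
 EL.nil)
noncomputable def S198_212_512_586_39 : EL := (EL.cons 14 (TM.mk (P.cons (P.lf 1237810708 0 0) (P.cons (P.lf 0 307670508 0) (P.cons (P.lf 12922344 0 0) (P.cons (P.lf 963640 0 0) (P.cons (P.lf 0 8278 0) (P.cons (P.lf 0 1548 0) P.nil)))))) 132)
 EL.nil)
noncomputable def S198_212_512_586_40 : EL := (EL.cons 14 (TM.mk (P.cons (P.cons (P.lf 126365090 0 0) (P.cons (P.lf 0 98048430 0) (P.cons (P.lf 1560568 0 0) (P.lf 520188 0 0)))) (P.cons (P.cons (P.lf 0 35989246 0) (P.cons (P.lf 16339556 0 0) (P.cons (P.lf 0 260066 0) (P.lf 0 86688 0)))) (P.cons (P.cons (P.lf 0 3123782 0) (P.cons (P.lf 1200364 0 0) (P.cons (P.lf 0 19104 0) (P.lf 0 6366 0)))) (P.cons (P.cons (P.lf 1478134 0 0) (P.cons (P.lf 0 181404 0) (P.cons (P.lf 2886 0 0) P.nil))) (P.cons (P.cons (P.lf 0 52906 0) (P.cons (P.lf 0 11878 0) P.nil)) (P.cons (P.cons (P.lf 0 8750 0) P.nil) P.nil))))))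 3266)
 EL.nil)
noncomputable def S198_212_512_586_41 : EL := (EL.cons 14 (TM.mk (P.cons (P.cons (P.lf 12900304 0 0) (P.cons (P.lf 0 20019052 0) (P.cons (P.lf 8085160 0 0) (P.cons (P.lf 0 141018 0) (P.cons (P.lf 0 80440 0) (P.cons (P.lf 1310 0 0) P.nil)))))) (P.cons (P.cons (P.lf 0 4141606 0) (P.cons (P.lf 4061690 0 0) (P.cons (P.lf 0 722746 0) (P.cons (P.lf 0 598 0) (P.cons (P.lf 6816 0 0) P.nil))))) (P.cons (P.cons (P.lf 0 755526 0) (P.cons (P.lf 1008386 0 0) (P.cons (P.lf 0 235182 0) (P.cons (P.lf 1624 0 0) P.nil)))) (P.cons (P.cons (P.lf 328844 0 0) (P.cons (P.lf 0 199652 0) (P.cons (P.lf 9962 0 0) P.nil))) (P.cons (P.cons (P.lf 4062 0 0) (P.cons (P.lf 0 13978 0) P.nil)) (P.cons (P.cons (P.lf 0 8016 0) P.nil) P.nil)))))) 18896)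
 EL.nil)
noncomputable def S198_212_512_586_42 : EL := (EL.cons 14 (TM.mk (P.cons (P.lf 0 469879420 0) (P.cons (P.lf 175190000 0 0) (P.cons (P.lf 0 18244400 0) (P.cons (P.lf 0 85224 0) (P.cons (P.lf 68490 0 0) (P.cons (P.lf 1120 0 0) P.nil)))))) 218)
 EL.nil)
noncomputable def S198_212_512_586_43 : EL := (EL.cons 14 (TM.mk (P.cons (P.cons (P.lf 0 47968848 0) (P.cons (P.lf 37219696 0 0) (P.cons (P.lf 0 592400 0) (P.lf 0 197466 0)))) (P.cons (P.cons (P.lf 19623280 0 0) (P.cons (P.lf 0 10828248 0) (P.cons (P.lf 172346 0 0) (P.lf 57448 0 0)))) (P.cons (P.cons (P.lf 0 392010 0) (P.cons (P.lf 222034 0 0) (P.cons (P.lf 0 3534 0) (P.lf 0 1178 0)))) (P.cons (P.cons (P.lf 0 746424 0) (P.cons (P.lf 143926 0 0) (P.cons (P.lf 0 2290 0) P.nil))) (P.cons (P.cons (P.lf 87762 0 0) (P.cons (P.lf 0 3272 0) P.nil)) (P.cons (P.cons (P.lf 2368 0 0) P.nil) P.nil)))))) 3212)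
 EL.nil)
noncomputable def S198_212_512_586_44 : EL := (EL.cons 14 (TM.mk (P.cons (P.cons (P.lf 0 4897022 0) (P.cons (P.lf 7599336 0 0) (P.cons (P.lf 0 3069168 0) (P.cons (P.lf 53530 0 0) (P.cons (P.lf 30536 0 0) (P.cons (P.lf 0 496 0) P.nil)))))) (P.cons (P.cons (P.lf 2180778 0 0) (P.cons (P.lf 0 2486284 0) (P.cons (P.lf 655794 0 0) (P.cons (P.lf 0 6424 0) (P.cons (P.lf 0 6382 0) P.nil))))) (P.cons (P.cons (P.lf 103668 0 0) (P.cons (P.lf 0 210188 0) (P.cons (P.lf 62860 0 0) (P.cons (P.lf 0 778 0) P.nil)))) (P.cons (P.cons (P.lf 0 164792 0) (P.cons (P.lf 127814 0 0) (P.cons (P.lf 0 15804 0) P.nil))) (P.cons (P.cons (P.lf 13360 0 0) (P.cons (P.lf 0 3250 0) P.nil)) (P.cons (P.cons (P.lf 3574 0 0) P.nil) P.nil)))))) 11952)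
 EL.nil)
noncomputable def S198_212_512_586_45 : EL := (EL.cons 14 (TM.mk (P.cons (P.cons (P.lf 9139206 0 0) (P.cons (P.lf 0 21273710 0) (P.cons (P.lf 16845166 0 0) (P.cons (P.lf 0 4681806 0) (P.cons (P.lf 32882 0 0) (P.cons (P.lf 67492 0 0) P.nil)))))) (P.cons (P.cons (P.lf 0 993708 0) (P.cons (P.lf 0 200514 0) (P.cons (P.lf 2109120 0 0) (P.cons (P.lf 0 1115080 0) (P.cons (P.lf 28280 0 0) P.nil))))) (P.cons (P.cons (P.lf 0 1174982 0) (P.cons (P.lf 2027030 0 0) (P.cons (P.lf 0 825250 0) (P.cons (P.lf 0 41704 0) P.nil)))) (P.cons (P.cons (P.lf 96082 0 0) (P.cons (P.lf 74068 0 0) (P.cons (P.lf 0 134780 0) P.nil))) (P.cons (P.cons (P.lf 55554 0 0) (P.cons (P.lf 0 59186 0) P.nil)) (P.cons (P.cons (P.lf 0 2962 0) P.nil) P.nil)))))) 69658)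
 EL.nil)
noncomputable def S198_212_512_586_46 : EL := (EL.cons 15 (TM.mk (P.lf 4294967296 0 0) 0)
 EL.nil)
noncomputable def S198_212_512_586_47 : EL := (EL.cons 15 (TM.mk (P.cons (P.cons (P.lf 438462784 0 0) (P.cons (P.lf 0 340209372 0) (P.cons (P.lf 5414880 0 0) (P.lf 1804956 0 0)))) (P.cons (P.cons (P.lf 0 15891419 0) (P.cons (P.lf 0 27867368 0) (P.cons (P.lf 443544 0 0) (P.lf 147848 0 0)))) (P.cons (P.cons (P.lf 0 19366316 0) (P.cons (P.lf 789996 0 0) (P.cons (P.lf 0 12572 0) (P.lf 0 4188 0)))) (P.cons (P.cons (P.lf 139707 0 0) (P.cons (P.lf 122700 0 0) (P.cons (P.lf 0 1952 0) P.nil))) (P.cons (P.cons (P.lf 68630 0 0) (P.cons (P.lf 456 0 0) P.nil)) (P.cons (P.cons (P.lf 754 0 0) P.nil) P.nil)))))) 1503)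
 EL.nil)
noncomputable def S198_212_512_586_48 : EL := (EL.cons 15 (TM.mk (P.cons (P.cons (P.lf 44761601 0 0) (P.cons (P.lf 0 69462297 0) (P.cons (P.lf 28053965 0 0) (P.cons (P.lf 0 489310 0) (P.cons (P.lf 0 279118 0) (P.cons (P.lf 4551 0 0) P.nil)))))) (P.cons (P.cons (P.lf 0 3244632 0) (P.cons (P.lf 0 3172268 0) (P.cons (P.lf 4465303 0 0) (P.cons (P.lf 0 123704 0) (P.cons (P.lf 0 45726 0) P.nil))))) (P.cons (P.cons (P.lf 0 3895321 0) (P.cons (P.lf 3435573 0 0) (P.cons (P.lf 979 0 0) (P.cons (P.lf 0 19998 0) P.nil)))) (P.cons (P.cons (P.lf 171835 0 0) (P.cons (P.lf 248385 0 0) (P.cons (P.lf 0 33643 0) P.nil))) (P.cons (P.cons (P.lf 100302 0 0) (P.cons (P.lf 0 20624 0) P.nil)) (P.cons (P.cons (P.lf 0 1613 0) P.nil) P.nil)))))) 13553)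
 EL.nil)
noncomputable def S198_212_512_586 : SL := (SL.cons S198_212_512_586_0 (SL.cons S198_212_512_586_1 (SL.cons S198_212_512_586_2 (SL.cons S198_212_512_586_3 (SL.cons S198_212_512_586_4 (SL.cons S198_212_512_586_5 (SL.cons S198_212_512_586_6 (SL.cons S198_212_512_586_7 (SL.cons S198_212_512_586_8 (SL.cons S198_212_512_586_9 (SL.cons S198_212_512_586_10 (SL.cons S198_212_512_586_11 (SL.cons S198_212_512_586_12 (SL.cons S198_212_512_586_13 (SL.cons S198_212_512_586_14 (SL.cons S198_212_512_586_15 (SL.cons S198_212_512_586_16 (SL.cons S198_212_512_586_17 (SL.cons S198_212_512_586_18 (SL.cons S198_212_512_586_19 (SL.cons S198_212_512_586_20 (SL.cons S198_212_512_586_21 (SL.cons S198_212_512_586_22 (SL.cons S198_212_512_586_23 (SL.cons S198_212_512_586_24 (SL.cons S198_212_512_586_25 (SL.cons S198_212_512_586_26 (SL.cons S198_212_512_586_27 (SL.cons S198_212_512_586_28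 (SL.cons S198_212_512_586_29 (SL.cons S198_212_512_586_30 (SL.cons S198_212_512_586_31 (SL.cons S198_212_512_586_32 (SL.cons S198_212_512_586_33 (SL.cons S198_212_512_586_34 (SL.cons S198_212_512_586_35 (SL.cons S198_212_512_586_36 (SL.cons S198_212_512_586_37 (SL.cons S198_212_512_586_38 (SL.cons S198_212_512_586_39 (SL.cons S198_212_512_586_40 (SL.cons S198_212_512_586_41 (SL.cons S198_212_512_586_42 (SL.cons S198_212_512_586_43 (SL.cons S198_212_512_586_44 (SL.cons S198_212_512_586_45 (SL.cons S198_212_512_586_46 (SL.cons S198_212_512_586_47 (SL.cons S198_212_512_586_48 SL.nil)))))))))))))))))))))))))))))))))))))))))))))))))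
noncomputable def S198_212_512_660_0 : EL := (EL.cons 0 (TM.mk (P.cons (P.lf 7367797296 0 0) (P.cons (P.lf 270413532 0 0) (P.cons (P.lf 0 11357528 0) (P.cons (P.lf 0 846949 0) (P.cons (P.lf 7275 0 0) (P.cons (P.lf 1360 0 0) P.nil)))))) 123)
 (EL.cons 1 (TM.mk (P.cons (P.lf 0 1384003233 0) (P.cons (P.lf 134215061 0 0) (P.cons (P.lf 10263551 0 0) (P.cons (P.lf 0 214061 0) (P.cons (P.lf 0 21358 0) (P.cons (P.lf 0 5 0) P.nil)))))) 123)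
 (EL.cons 5 (TM.mk (P.cons (P.lf 4681783146 0 0) (P.cons (P.lf 0 96147034 0) (P.cons (P.lf 4038232 0 0) (P.cons (P.lf 301136 0 0) (P.cons (P.lf 0 2584 0) (P.cons (P.lf 0 484 0) P.nil)))))) 121)
 (EL.cons 9 (TM.mk (P.lf 6442450944 0 0) 2)
 EL.nil))))
noncomputable def S198_212_512_660_1 : EL := (EL.cons 0 (TM.mk (P.cons (P.cons (P.lf 581398777 0 0) (P.cons (P.lf 0 619126374 0) (P.cons (P.lf 41393347 0 0) (P.lf 13797786 0 0)))) (P.cons (P.cons (P.lf 233534563 0 0) (P.cons (P.lf 0 213890124 0) (P.cons (P.lf 14300188 0 0) (P.lf 4766723 0 0)))) (P.cons (P.cons (P.lf 0 82162846 0) (P.cons (P.lf 0 5074974 0) (P.cons (P.lf 339298 0 0) (P.lf 113093 0 0)))) (P.cons (P.cons (P.lf 0 4151121 0) (P.cons (P.lf 1674667 0 0) (P.cons (P.lf 0 111960 0) P.nil))) (P.cons (P.cons (P.lf 549030 0 0) (P.cons (P.lf 81233 0 0) P.nil)) (P.cons (P.cons (P.lf 32531 0 0) P.nil) P.nil))))))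 77971)
 (EL.cons 1 (TM.mk (P.cons (P.cons (P.lf 164776221 0 0) (P.cons (P.lf 453163830 0 0) (P.cons (P.lf 0 30297469 0) (P.lf 0 10099153 0)))) (P.cons (P.cons (P.lf 213670868 0 0) (P.cons (P.lf 14033393 0 0) (P.cons (P.lf 0 938240 0) (P.lf 0 312747 0)))) (P.cons (P.cons (P.lf 21697179 0 0) (P.cons (P.lf 0 10342044 0) (P.cons (P.lf 691435 0 0) (P.lf 230472 0 0)))) (P.cons (P.cons (P.lf 0 3713473 0) (P.cons (P.lf 0 512483 0) (P.cons (P.lf 34251 0 0) P.nil))) (P.cons (P.cons (P.lf 0 245375 0) (P.cons (P.lf 52194 0 0) P.nil)) (P.cons (P.cons (P.lf 16162 0 0) P.nil) P.nil)))))) 39776)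
 (EL.cons 5 (TM.mk (P.cons (P.cons (P.lf 0 27415030 0) (P.cons (P.lf 0 881346262 0) (P.cons (P.lf 58924756 0 0) (P.lf 19641582 0 0)))) (P.cons (P.cons (P.lf 0 156419090 0) (P.cons (P.lf 0 14175072 0) (P.cons (P.lf 947720 0 0) (P.lf 315908 0 0)))) (P.cons (P.cons (P.lf 0 2394794 0) (P.cons (P.lf 4362178 0 0) (P.cons (P.lf 0 291646 0) (P.lf 0 97216 0)))) (P.cons (P.cons (P.lf 1917626 0 0) (P.cons (P.lf 0 198164 0) (P.cons (P.lf 13244 0 0) P.nil))) (P.cons (P.cons (P.lf 0 77769 0) (P.cons (P.lf 0 27404 0) P.nil)) (P.cons (P.cons (P.lf 0 10717 0) P.nil) P.nil)))))) 42541)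
 (EL.cons 9 (TM.mk (P.cons (P.cons (P.lf 158209878 0 0) (P.cons (P.lf 0 971894190 0) (P.cons (P.lf 64978578 0 0) (P.lf 21659526 0 0)))) (P.cons (P.cons (P.lf 0 64751092 0) (P.cons (P.lf 0 79610196 0) (P.cons (P.lf 5322552 0 0) (P.lf 1774182 0 0)))) (P.cons (P.cons (P.lf 0 27889626 0) (P.cons (P.lf 2256828 0 0) (P.cons (P.lf 0 150882 0) (P.lf 0 50292 0)))) (P.cons (P.cons (P.lf 389710 0 0) (P.cons (P.lf 350526 0 0) (P.cons (P.lf 0 23430 0) P.nil))) (P.cons (P.cons (P.lf 103611 0 0) (P.cons (P.lf 1302 0 0) P.nil)) (P.cons (P.cons (P.lf 747 0 0) P.nil) P.nil)))))) 10613)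
 (EL.cons 2 (TM.mk (P.cons (P.cons (P.lf 871777698 0 0) (P.cons (P.lf 0 134973078 0) (P.cons (P.lf 0 65025770 0) (P.cons (P.lf 2460765 0 0) (P.lf 615189 0 0))))) (P.cons (P.cons (P.lf 0 60738353 0) (P.cons (P.lf 9403821 0 0) (P.cons (P.lf 4530465 0 0) (P.cons (P.lf 0 171444 0) (P.lf 0 42859 0))))) (P.cons (P.cons (P.lf 0 10098005 0) (P.cons (P.lf 1563423 0 0) (P.cons (P.lf 753207 0 0) (P.cons (P.lf 0 28501 0) P.nil)))) (P.cons (P.cons (P.lf 48397 0 0) (P.cons (P.lf 0 7492 0) (P.cons (P.lf 0 3608 0) P.nil))) (P.cons (P.cons (P.lf 31359 0 0) (P.cons (P.lf 0 4854 0) P.nil)) (P.cons (P.cons (P.lf 427 0 0) P.nil) P.nil)))))) 12199)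
 (EL.cons 6 (TM.mk (P.cons (P.cons (P.lf 1109037093 0 0) (P.cons (P.lf 0 171706791 0) (P.cons (P.lf 0 82722915 0) (P.cons (P.lf 3130476 0 0) (P.lf 782616 0 0))))) (P.cons (P.cons (P.lf 90843903 0 0) (P.cons (P.lf 0 14064915 0) (P.cons (P.lf 0 6776031 0) (P.cons (P.lf 256422 0 0) (P.lf 64104 0 0))))) (P.cons (P.cons (P.lf 0 2575290 0) (P.cons (P.lf 398718 0 0) (P.cons (P.lf 192090 0 0) (P.cons (P.lf 0 7266 0) P.nil)))) (P.cons (P.cons (P.lf 0 399990 0) (P.cons (P.lf 61926 0 0) (P.cons (P.lf 29835 0 0) P.nil))) (P.cons (P.cons (P.lf 0 1485 0) (P.cons (P.lf 228 0 0) P.nil)) (P.cons (P.cons (P.lf 849 0 0) P.nil) P.nil)))))) 7140)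
 EL.nil))))))
noncomputable def S198_212_512_660_2 : EL := (EL.cons 0 (TM.mk (P.cons (P.cons (P.lf 24112016 0 0) (P.cons (P.lf 0 151234766 0) (P.cons (P.lf 29234371 0 0) (P.cons (P.lf 813330 0 0) (P.cons (P.lf 0 766883 0) (P.cons (P.lf 56994 0 0) P.nil)))))) (P.cons (P.cons (P.lf 3257029 0 0) (P.cons (P.lf 0 98756999 0) (P.cons (P.lf 52814165 0 0) (P.cons (P.lf 0 3978300 0) (P.cons (P.lf 0 1853158 0) P.nil))))) (P.cons (P.cons (P.lf 0 12800958 0) (P.cons (P.lf 16515883 0 0) (P.cons (P.lf 4183301 0 0) (P.cons (P.lf 0 1075089 0) P.nil)))) (P.cons (P.cons (P.lf 0 1141855 0) (P.cons (P.lf 4445806 0 0) (P.cons (P.lf 0 660654 0) P.nil))) (P.cons (P.cons (P.lf 707767 0 0) (P.cons (P.lf 0 52258 0) P.nil)) (P.cons (P.cons (P.lf 26375 0 0) P.nil) P.nil)))))) 1235312)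
 (EL.cons 1 (TM.mk (P.cons (P.cons (P.lf 8927601 0 0) (P.cons (P.lf 0 37713078 0) (P.cons (P.lf 0 102707954 0) (P.cons (P.lf 14911248 0 0) (P.cons (P.lf 4219885 0 0) (P.cons (P.lf 0 313580 0) P.nil)))))) (P.cons (P.cons (P.lf 6418031 0 0) (P.cons (P.lf 0 72608746 0) (P.cons (P.lf 0 8473690 0) (P.cons (P.lf 3400319 0 0) (P.cons (P.lf 534477 0 0) P.nil))))) (P.cons (P.cons (P.lf 0 4750472 0) (P.cons (P.lf 0 14499413 0) (P.cons (P.lf 3391497 0 0) (P.cons (P.lf 0 738 0) P.nil)))) (P.cons (P.cons (P.lf 0 2303845 0) (P.cons (P.lf 747184 0 0) (P.cons (P.lf 344999 0 0) P.nil))) (P.cons (P.cons (P.lf 0 79792 0) (P.cons (P.lf 281426 0 0) P.nil)) (P.cons (P.cons (P.lf 42826 0 0) P.nil) P.nil)))))) 605200)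
 (EL.cons 5 (TM.mk (P.cons (P.cons (P.lf 0 4169898 0) (P.cons (P.lf 0 326628 0) (P.cons (P.lf 159389389 0 0) (P.cons (P.lf 0 21302597 0) (P.cons (P.lf 0 6390919 0) (P.cons (P.lf 474903 0 0) P.nil)))))) (P.cons (P.cons (P.lf 0 4762321 0) (P.cons (P.lf 52823485 0 0) (P.cons (P.lf 7259860 0 0) (P.cons (P.lf 0 2620195 0) (P.cons (P.lf 0 432769 0) P.nil))))) (P.cons (P.cons (P.lf 3736584 0 0) (P.cons (P.lf 5603673 0 0) (P.cons (P.lf 0 1911435 0) (P.cons (P.lf 80601 0 0) P.nil)))) (P.cons (P.cons (P.lf 1063044 0 0) (P.cons (P.lf 0 964710 0) (P.cons (P.lf 10630 0 0) P.nil))) (P.cons (P.cons (P.lf 0 117920 0) (P.cons (P.lf 0 57819 0) P.nil)) (P.cons (P.cons (P.lf 0 15521 0) P.nil) P.nil)))))) 738073)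
 (EL.cons 9 (TM.mk (P.cons (P.cons (P.lf 3885223 0 0) (P.cons (P.lf 0 47734398 0) (P.cons (P.lf 149809261 0 0) (P.cons (P.lf 0 18541251 0) (P.cons (P.lf 0 5879643 0) (P.cons (P.lf 436915 0 0) P.nil)))))) (P.cons (P.cons (P.lf 0 3180237 0) (P.cons (P.lf 15626379 0 0) (P.cons (P.lf 22974900 0 0) (P.cons (P.lf 0 3560041 0) (P.cons (P.lf 0 963231 0) P.nil))))) (P.cons (P.cons (P.lf 0 718999 0) (P.cons (P.lf 10125855 0 0) (P.cons (P.lf 0 374157 0) (P.cons (P.lf 0 266157 0) P.nil)))) (P.cons (P.cons (P.lf 579760 0 0) (P.cons (P.lf 543540 0 0) (P.cons (P.lf 0 197874 0) P.nil))) (P.cons (P.cons (P.lf 117990 0 0) (P.cons (P.lf 0 67413 0) P.nil)) (P.cons (P.cons (P.lf 0 5419 0) P.nil) P.nil)))))) 320269)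
 (EL.cons 2 (TM.mk (P.cons (P.cons (P.lf 42817190 0 0) (P.cons (P.lf 0 269658163 0) (P.cons (P.lf 55115263 0 0) (P.cons (P.lf 22879310 0 0) (P.cons (P.lf 0 2931491 0) (P.cons (P.lf 0 573204 0) P.nil)))))) (P.cons (P.cons (P.lf 0 20507090 0) (P.cons (P.lf 0 44611 0) (P.cons (P.lf 2243356 0 0) (P.cons (P.lf 220691 0 0) (P.cons (P.lf 0 50720 0) P.nil))))) (P.cons (P.cons (P.lf 0 6822956 0) (P.cons (P.lf 6214972 0 0) (P.cons (P.lf 0 634646 0) (P.cons (P.lf 0 465598 0) P.nil)))) (P.cons (P.cons (P.lf 836707 0 0) (P.cons (P.lf 157725 0 0) (P.cons (P.lf 0 126090 0) P.nil))) (P.cons (P.cons (P.lf 108686 0 0) (P.cons (P.lf 0 40815 0) P.nil)) (P.cons (P.cons (P.lf 0 3999 0) P.nil) P.nil)))))) 256032)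
 (EL.cons 6 (TM.mk (P.cons (P.cons (P.lf 54470142 0 0) (P.cons (P.lf 0 343047210 0) (P.cons (P.lf 70115208 0 0) (P.cons (P.lf 29106042 0 0) (P.cons (P.lf 0 3729318 0) (P.cons (P.lf 0 729204 0) P.nil)))))) (P.cons (P.cons (P.lf 0 17831400 0) (P.cons (P.lf 0 52057302 0) (P.cons (P.lf 13482258 0 0) (P.cons (P.lf 4692768 0 0) (P.cons (P.lf 0 629832 0) P.nil))))) (P.cons (P.cons (P.lf 0 11554704 0) (P.cons (P.lf 1097820 0 0) (P.cons (P.lf 1015074 0 0) (P.cons (P.lf 27186 0 0) P.nil)))) (P.cons (P.cons (P.lf 0 620232 0) (P.cons (P.lf 464682 0 0) (P.cons (P.lf 0 35454 0) P.nil))) (P.cons (P.cons (P.lf 76926 0 0) (P.cons (P.lf 6954 0 0) P.nil)) (P.cons (P.cons (P.lf 6396 0 0) P.nil) P.nil)))))) 327246)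
 EL.nil))))))
noncomputable def S198_212_512_660_3 : EL := (EL.cons 0 (TM.mk (P.cons (P.lf 1087919567 0 0) (P.cons (P.lf 0 270413532 0) (P.cons (P.lf 11357528 0 0) (P.cons (P.lf 846949 0 0) (P.cons (P.lf 0 7275 0) (P.cons (P.lf 0 1360 0) P.nil)))))) 123)
 (EL.cons 1 (TM.mk (P.cons (P.lf 1384003233 0 0) (P.cons (P.lf 0 134215061 0) (P.cons (P.lf 0 10263551 0) (P.cons (P.lf 214061 0 0) (P.cons (P.lf 21358 0 0) (P.cons (P.lf 5 0 0) P.nil)))))) 123)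
 (EL.cons 5 (TM.mk (P.cons (P.lf 1760667798 0 0) (P.cons (P.lf 96147034 0 0) (P.cons (P.lf 0 4038232 0) (P.cons (P.lf 0 301136 0) (P.cons (P.lf 2584 0 0) (P.cons (P.lf 484 0 0) P.nil)))))) 114)
 EL.nil)))
noncomputable def S198_212_512_660_4 : EL := (EL.cons 0 (TM.mk (P.cons (P.cons (P.lf 26716480 0 0) (P.cons (P.lf 0 164121187 0) (P.cons (P.lf 10972759 0 0) (P.lf 3657585 0 0)))) (P.cons (P.cons (P.lf 0 17574997 0) (P.cons (P.lf 27350435 0 0) (P.cons (P.lf 0 1828585 0) (P.lf 0 609528 0)))) (P.cons (P.cons (P.lf 0 1712891 0) (P.cons (P.lf 2009265 0 0) (P.cons (P.lf 0 134333 0) (P.lf 0 44776 0)))) (P.cons (P.cons (P.lf 1143087 0 0) (P.cons (P.lf 0 303649 0) (P.cons (P.lf 20300 0 0) P.nil))) (P.cons (P.cons (P.lf 0 56719 0) (P.cons (P.lf 0 19882 0) P.nil)) (P.cons (P.cons (P.lf 0 7161 0) P.nil) P.nil)))))) 14549)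
 (EL.cons 1 (TM.mk (P.cons (P.cons (P.lf 33987526 0 0) (P.cons (P.lf 0 208787728 0) (P.cons (P.lf 13959058 0 0) (P.lf 4653018 0 0)))) (P.cons (P.cons (P.lf 0 17206162 0) (P.cons (P.lf 3145085 0 0) (P.cons (P.lf 0 210271 0) (P.lf 0 70089 0)))) (P.cons (P.cons (P.lf 0 4894496 0) (P.cons (P.lf 3691672 0 0) (P.cons (P.lf 0 246815 0) (P.lf 0 82269 0)))) (P.cons (P.cons (P.lf 773154 0 0) (P.cons (P.lf 122820 0 0) (P.cons (P.lf 0 8208 0) P.nil))) (P.cons (P.cons (P.lf 56941 0 0) (P.cons (P.lf 0 16483 0) P.nil)) (P.cons (P.cons (P.lf 0 3759 0) P.nil) P.nil)))))) 10609)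
 (EL.cons 5 (TM.mk (P.cons (P.cons (P.lf 43237432 0 0) (P.cons (P.lf 0 265610528 0) (P.cons (P.lf 17758100 0 0) (P.lf 5919366 0 0)))) (P.cons (P.cons (P.lf 0 15334808 0) (P.cons (P.lf 0 36261330 0) (P.cons (P.lf 2424346 0 0) (P.lf 808114 0 0)))) (P.cons (P.cons (P.lf 0 8687512 0) (P.cons (P.lf 37868 0 0) (P.cons (P.lf 0 2528 0) (P.lf 0 842 0)))) (P.cons (P.cons (P.lf 0 276526 0) (P.cons (P.lf 224804 0 0) (P.cons (P.lf 0 15026 0) P.nil))) (P.cons (P.cons (P.lf 54702 0 0) (P.cons (P.lf 7502 0 0) P.nil)) (P.cons (P.cons (P.lf 2794 0 0) P.nil) P.nil)))))) 7724)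
 EL.nil)))
noncomputable def S198_212_512_660_5 : EL := (EL.cons 0 (TM.mk (P.cons (P.cons (P.lf 656085 0 0) (P.cons (P.lf 0 8060779 0) (P.cons (P.lf 25297890 0 0) (P.cons (P.lf 0 3131010 0) (P.cons (P.lf 0 992879 0) (P.cons (P.lf 73780 0 0) P.nil)))))) (P.cons (P.cons (P.lf 0 700113 0) (P.cons (P.lf 4642374 0 0) (P.cons (P.lf 0 2408338 0) (P.cons (P.lf 177069 0 0) (P.cons (P.lf 84130 0 0) P.nil))))) (P.cons (P.cons (P.lf 18919 0 0) (P.cons (P.lf 969876 0 0) (P.cons (P.lf 0 763421 0) (P.cons (P.lf 71796 0 0) P.nil)))) (P.cons (P.cons (P.lf 122985 0 0) (P.cons (P.lf 0 311960 0) (P.cons (P.lf 42486 0 0) P.nil))) (P.cons (P.cons (P.lf 0 6099 0) (P.cons (P.lf 0 14238 0) P.nil)) (P.cons (P.cons (P.lf 0 4935 0) P.nil) P.nil)))))) 180196)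
 (EL.cons 1 (TM.mk (P.cons (P.cons (P.lf 834645 0 0) (P.cons (P.lf 0 10254568 0) (P.cons (P.lf 32182860 0 0) (P.cons (P.lf 0 3983133 0) (P.cons (P.lf 0 1263097 0) (P.cons (P.lf 93858 0 0) P.nil)))))) (P.cons (P.cons (P.lf 0 764135 0) (P.cons (P.lf 4351391 0 0) (P.cons (P.lf 1814630 0 0) (P.cons (P.lf 0 378517 0) (P.cons (P.lf 0 84435 0) P.nil))))) (P.cons (P.cons (P.lf 0 94393 0) (P.cons (P.lf 1925795 0 0) (P.cons (P.lf 0 797673 0) (P.cons (P.lf 46526 0 0) P.nil)))) (P.cons (P.cons (P.lf 144720 0 0) (P.cons (P.lf 0 120663 0) (P.cons (P.lf 0 66335 0) P.nil))) (P.cons (P.cons (P.lf 14321 0 0) (P.cons (P.lf 0 41574 0) P.nil)) (P.cons (P.cons (P.lf 0 4578 0) P.nil) P.nil)))))) 153301)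
 (EL.cons 5 (TM.mk (P.cons (P.cons (P.lf 1061798 0 0) (P.cons (P.lf 0 13045410 0) (P.cons (P.lf 40941612 0 0) (P.cons (P.lf 0 5067166 0) (P.cons (P.lf 0 1606856 0) (P.cons (P.lf 119404 0 0) P.nil)))))) (P.cons (P.cons (P.lf 0 811148 0) (P.cons (P.lf 3558170 0 0) (P.cons (P.lf 8514596 0 0) (P.cons (P.lf 0 1249638 0) (P.cons (P.lf 0 350990 0) P.nil))))) (P.cons (P.cons (P.lf 0 246392 0) (P.cons (P.lf 3030438 0 0) (P.cons (P.lf 146718 0 0) (P.cons (P.lf 0 114246 0) P.nil)))) (P.cons (P.cons (P.lf 149524 0 0) (P.cons (P.lf 292098 0 0) (P.cons (P.lf 0 81064 0) P.nil))) (P.cons (P.cons (P.lf 41498 0 0) (P.cons (P.lf 0 17406 0) P.nil)) (P.cons (P.cons (P.lf 0 50 0) P.nil) P.nil)))))) 136632)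
 EL.nil)))
noncomputable def S198_212_512_660_6 : EL := (EL.cons 12 (TM.mk (P.lf 8589934592 0 0) 0)
 (EL.cons 3 (TM.mk (P.cons (P.lf 0 1528492552 0) (P.cons (P.lf 189961226 0 0) (P.cons (P.lf 3825716 0 0) (P.cons (P.lf 0 119508 0) (P.cons (P.lf 0 4953 0) (P.cons (P.lf 41 0 0) P.nil)))))) 52)
 (EL.cons 7 (TM.mk (P.cons (P.lf 0 1944480730 0) (P.cons (P.lf 0 53092371 0) (P.cons (P.lf 2954732 0 0) (P.cons (P.lf 85611 0 0) (P.cons (P.lf 0 1520 0) (P.cons (P.lf 0 96 0) P.nil)))))) 47)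
 EL.nil)))
noncomputable def S198_212_512_660_7 : EL := (EL.cons 12 (TM.mk (P.cons (P.cons (P.lf 210946504 0 0) (P.cons (P.lf 0 1295858920 0) (P.cons (P.lf 86638104 0 0) (P.lf 28879368 0 0)))) (P.cons (P.cons (P.lf 0 86334790 0) (P.cons (P.lf 0 106146928 0) (P.cons (P.lf 7096736 0 0) (P.lf 2365576 0 0)))) (P.cons (P.cons (P.lf 0 37186168 0) (P.cons (P.lf 3009104 0 0) (P.cons (P.lf 0 201176 0) (P.lf 0 67056 0)))) (P.cons (P.cons (P.lf 519614 0 0) (P.cons (P.lf 467368 0 0) (P.cons (P.lf 0 31240 0) P.nil))) (P.cons (P.cons (P.lf 138148 0 0) (P.cons (P.lf 1736 0 0) P.nil)) (P.cons (P.cons (P.lf 996 0 0) P.nil) P.nil)))))) 14126)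
 (EL.cons 3 (TM.mk (P.cons (P.cons (P.lf 0 600176168 0) (P.cons (P.lf 0 461170146 0) (P.cons (P.lf 30832758 0 0) (P.lf 10277584 0 0)))) (P.cons (P.cons (P.lf 0 472716377 0) (P.cons (P.lf 19538718 0 0) (P.cons (P.lf 0 1306312 0) (P.lf 0 435436 0)))) (P.cons (P.cons (P.lf 8568820 0 0) (P.cons (P.lf 6919908 0 0) (P.cons (P.lf 0 462646 0) (P.lf 0 154212 0)))) (P.cons (P.cons (P.lf 3267508 0 0) (P.cons (P.lf 91728 0 0) (P.cons (P.lf 0 6128 0) P.nil))) (P.cons (P.cons (P.lf 45506 0 0) (P.cons (P.lf 0 27180 0) P.nil)) (P.cons (P.cons (P.lf 0 9530 0) P.nil) P.nil)))))) 29606)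
 (EL.cons 7 (TM.mk (P.cons (P.cons (P.lf 109501270 0 0) (P.cons (P.lf 486679211 0 0) (P.cons (P.lf 0 32538243 0) (P.lf 0 10846081 0)))) (P.cons (P.cons (P.lf 132119773 0 0) (P.cons (P.lf 0 5460884 0) (P.cons (P.lf 365102 0 0) (P.lf 121698 0 0)))) (P.cons (P.cons (P.lf 0 12408541 0) (P.cons (P.lf 0 1520157 0) (P.cons (P.lf 101638 0 0) (P.lf 33880 0 0)))) (P.cons (P.cons (P.lf 0 532252 0) (P.cons (P.lf 164062 0 0) (P.cons (P.lf 0 10965 0) P.nil))) (P.cons (P.cons (P.lf 80900 0 0) (P.cons (P.lf 7725 0 0) P.nil)) (P.cons (P.cons (P.lf 2816 0 0) P.nil) P.nil)))))) 27190)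
 (EL.cons 10 (TM.mk (P.cons (P.cons (P.lf 0 2449640142 0) (P.cons (P.lf 379265808 0 0) (P.cons (P.lf 182718306 0 0) (P.cons (P.lf 0 6914598 0) (P.lf 0 1728648 0))))) (P.cons (P.cons (P.lf 0 133770624 0) (P.cons (P.lf 20711052 0 0) (P.cons (P.lf 9977931 0 0) (P.cons (P.lf 0 377592 0) (P.lf 0 94398 0))))) (P.cons (P.cons (P.lf 5618445 0 0) (P.cons (P.lf 0 869874 0) (P.cons (P.lf 0 419079 0) (P.cons (P.lf 15858 0 0) P.nil)))) (P.cons (P.cons (P.lf 418974 0 0) (P.cons (P.lf 0 64866 0) (P.cons (P.lf 0 31251 0) P.nil))) (P.cons (P.cons (P.lf 0 3594 0) (P.cons (P.lf 555 0 0) P.nil)) (P.cons (P.cons (P.lf 0 672 0) P.nil) P.nil)))))) 6186)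
 EL.nil))))
noncomputable def S198_212_512_660_8 : EL := (EL.cons 12 (TM.mk (P.cons (P.cons (P.lf 5180298 0 0) (P.cons (P.lf 0 63645864 0) (P.cons (P.lf 199745682 0 0) (P.cons (P.lf 0 24721668 0) (P.cons (P.lf 0 7839524 0) (P.cons (P.lf 582554 0 0) P.nil)))))) (P.cons (P.cons (P.lf 0 4240316 0) (P.cons (P.lf 20835172 0 0) (P.cons (P.lf 30633200 0 0) (P.cons (P.lf 0 4746722 0) (P.cons (P.lf 0 1284308 0) P.nil))))) (P.cons (P.cons (P.lf 0 958666 0) (P.cons (P.lf 13501140 0 0) (P.cons (P.lf 0 498876 0) (P.cons (P.lf 0 354876 0) P.nil)))) (P.cons (P.cons (P.lf 773014 0 0) (P.cons (P.lf 724720 0 0) (P.cons (P.lf 0 263832 0) P.nil))) (P.cons (P.cons (P.lf 157320 0 0) (P.cons (P.lf 0 89884 0) P.nil)) (P.cons (P.cons (P.lf 0 7226 0) P.nil) P.nil)))))) 426996)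
 (EL.cons 3 (TM.mk (P.cons (P.cons (P.lf 0 28555753 0) (P.cons (P.lf 147107121 0 0) (P.cons (P.lf 164092582 0 0) (P.cons (P.lf 0 26535228 0) (P.cons (P.lf 0 6974820 0) (P.cons (P.lf 518295 0 0) P.nil)))))) (P.cons (P.cons (P.lf 0 12022082 0) (P.cons (P.lf 172803540 0 0) (P.cons (P.lf 0 4675314 0) (P.cons (P.lf 0 4770760 0) (P.cons (P.lf 0 275816 0) P.nil))))) (P.cons (P.cons (P.lf 15040359 0 0) (P.cons (P.lf 14586936 0 0) (P.cons (P.lf 0 4592535 0) (P.cons (P.lf 158601 0 0) P.nil)))) (P.cons (P.cons (P.lf 4169154 0 0) (P.cons (P.lf 0 2133463 0) (P.cons (P.lf 0 151349 0) P.nil))) (P.cons (P.cons (P.lf 0 202855 0) (P.cons (P.lf 0 253502 0) P.nil)) (P.cons (P.cons (P.lf 0 49104 0) P.nil) P.nil)))))) 786762)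
 (EL.cons 7 (TM.mk (P.cons (P.cons (P.lf 6550784 0 0) (P.cons (P.lf 0 23542433 0) (P.cons (P.lf 0 101012090 0) (P.cons (P.lf 14241992 0 0) (P.cons (P.lf 4113886 0 0) (P.cons (P.lf 0 305697 0) P.nil)))))) (P.cons (P.cons (P.lf 3360058 0 0) (P.cons (P.lf 0 48296956 0) (P.cons (P.lf 1306701 0 0) (P.cons (P.lf 1333381 0 0) (P.cons (P.lf 77093 0 0) P.nil))))) (P.cons (P.cons (P.lf 0 4458304 0) (P.cons (P.lf 0 416389 0) (P.cons (P.lf 1184531 0 0) (P.cons (P.lf 0 145385 0) P.nil)))) (P.cons (P.cons (P.lf 0 736896 0) (P.cons (P.lf 957479 0 0) (P.cons (P.lf 0 86030 0) P.nil))) (P.cons (P.cons (P.lf 182372 0 0) (P.cons (P.lf 0 1020 0) P.nil)) (P.cons (P.cons (P.lf 4970 0 0) P.nil) P.nil)))))) 390477)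
 (EL.cons 10 (TM.mk (P.cons (P.cons (P.lf 0 120313608 0) (P.cons (P.lf 757722372 0 0) (P.cons (P.lf 0 154870410 0) (P.cons (P.lf 0 64289412 0) (P.cons (P.lf 8237316 0 0) (P.cons (P.lf 1610676 0 0) P.nil)))))) (P.cons (P.cons (P.lf 42671040 0 0) (P.cons (P.lf 94295178 0 0) (P.cons (P.lf 0 25551000 0) (P.cons (P.lf 0 8610018 0) (P.cons (P.lf 1166262 0 0) P.nil))))) (P.cons (P.cons (P.lf 24174102 0 0) (P.cons (P.lf 0 3848130 0) (P.cons (P.lf 0 1779786 0) (P.cons (P.lf 77346 0 0) P.nil)))) (P.cons (P.cons (P.lf 769470 0 0) (P.cons (P.lf 0 744684 0) (P.cons (P.lf 81270 0 0) P.nil))) (P.cons (P.cons (P.lf 0 152220 0) (P.cons (P.lf 2682 0 0) P.nil)) (P.cons (P.cons (P.lf 0 7776 0) P.nil) P.nil)))))) 585510)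
 EL.nil))))
noncomputable def S198_212_512_660_9 : EL := (EL.cons 3 (TM.mk (P.cons (P.lf 0 1528492552 0) (P.cons (P.lf 189961226 0 0) (P.cons (P.lf 3825716 0 0) (P.cons (P.lf 0 119508 0) (P.cons (P.lf 0 4953 0) (P.cons (P.lf 41 0 0) P.nil)))))) 52)
 (EL.cons 7 (TM.mk (P.cons (P.lf 0 1944480730 0) (P.cons (P.lf 0 53092371 0) (P.cons (P.lf 2954732 0 0) (P.cons (P.lf 85611 0 0) (P.cons (P.lf 0 1520 0) (P.cons (P.lf 0 96 0) P.nil)))))) 47)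
 EL.nil))
noncomputable def S198_212_512_660_10 : EL := (EL.cons 3 (TM.mk (P.cons (P.cons (P.lf 0 37535810 0) (P.cons (P.lf 230585073 0 0) (P.cons (P.lf 0 15416379 0) (P.lf 0 5138792 0)))) (P.cons (P.cons (P.lf 20027362 0 0) (P.cons (P.lf 0 9769359 0) (P.cons (P.lf 653156 0 0) (P.lf 217718 0 0)))) (P.cons (P.cons (P.lf 4801612 0 0) (P.cons (P.lf 0 3459954 0) (P.cons (P.lf 231323 0 0) (P.lf 77106 0 0)))) (P.cons (P.cons (P.lf 0 956195 0) (P.cons (P.lf 0 45864 0) (P.cons (P.lf 3064 0 0) P.nil))) (P.cons (P.cons (P.lf 0 28573 0) (P.cons (P.lf 13590 0 0) P.nil)) (P.cons (P.cons (P.lf 3676 0 0) P.nil) P.nil)))))) 7330)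
 (EL.cons 7 (TM.mk (P.cons (P.cons (P.lf 0 47751401 0) (P.cons (P.lf 293340149 0 0) (P.cons (P.lf 0 19612038 0) (P.lf 0 6537346 0)))) (P.cons (P.cons (P.lf 18239566 0 0) (P.cons (P.lf 32037598 0 0) (P.cons (P.lf 0 2141959 0) (P.lf 0 713985 0)))) (P.cons (P.cons (P.lf 9023909 0 0) (P.cons (P.lf 0 470838 0) (P.cons (P.lf 31477 0 0) (P.lf 10492 0 0)))) (P.cons (P.cons (P.lf 84620 0 0) (P.cons (P.lf 0 173822 0) (P.cons (P.lf 11619 0 0) P.nil))) (P.cons (P.cons (P.lf 0 48172 0) (P.cons (P.lf 0 3075 0) P.nil)) (P.cons (P.cons (P.lf 0 1258 0) P.nil) P.nil)))))) 5562)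
 EL.nil))
noncomputable def S198_212_512_660_11 : EL := (EL.cons 3 (TM.mk (P.cons (P.cons (P.lf 0 921781 0) (P.cons (P.lf 11325141 0 0) (P.cons (P.lf 0 35542736 0) (P.cons (P.lf 4398972 0 0) (P.cons (P.lf 1394964 0 0) (P.cons (P.lf 0 103659 0) P.nil)))))) (P.cons (P.cons (P.lf 869080 0 0) (P.cons (P.lf 0 5114898 0) (P.cons (P.lf 0 1033614 0) (P.cons (P.lf 297926 0 0) (P.cons (P.lf 55162 0 0) P.nil))))) (P.cons (P.cons (P.lf 79119 0 0) (P.cons (P.lf 0 1969980 0) (P.cons (P.lf 855165 0 0) (P.cons (P.lf 0 52833 0) P.nil)))) (P.cons (P.cons (P.lf 0 160710 0) (P.cons (P.lf 179777 0 0) (P.cons (P.lf 46777 0 0) P.nil))) (P.cons (P.cons (P.lf 0 11269 0) (P.cons (P.lf 37780 0 0) P.nil)) (P.cons (P.cons (P.lf 5124 0 0) P.nil) P.nil)))))) 151526)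
 (EL.cons 7 (TM.mk (P.cons (P.cons (P.lf 0 1172650 0) (P.cons (P.lf 14407345 0 0) (P.cons (P.lf 0 45215900 0) (P.cons (P.lf 5596178 0 0) (P.cons (P.lf 1774612 0 0) (P.cons (P.lf 0 131871 0) P.nil)))))) (P.cons (P.cons (P.lf 927850 0 0) (P.cons (P.lf 0 4323022 0) (P.cons (P.lf 0 8168937 0) (P.cons (P.lf 1227301 0 0) (P.cons (P.lf 339179 0 0) P.nil))))) (P.cons (P.cons (P.lf 245000 0 0) (P.cons (P.lf 0 3206887 0) (P.cons (P.lf 0 7699 0) (P.cons (P.lf 101167 0 0) P.nil)))) (P.cons (P.cons (P.lf 0 170466 0) (P.cons (P.lf 0 240967 0) (P.cons (P.lf 75334 0 0) P.nil))) (P.cons (P.cons (P.lf 0 40762 0) (P.cons (P.lf 20730 0 0) P.nil)) (P.cons (P.cons (P.lf 920 0 0) P.nil) P.nil)))))) 122045)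
 EL.nil))
noncomputable def S198_212_512_660_12 : EL := (EL.cons 4 (TM.mk (P.cons (P.lf 1528492552 0 0) (P.cons (P.lf 0 189961226 0) (P.cons (P.lf 0 3825716 0) (P.cons (P.lf 119508 0 0) (P.cons (P.lf 4953 0 0) (P.cons (P.lf 0 41 0) P.nil)))))) 52)
 (EL.cons 8 (TM.mk (P.cons (P.lf 1944480730 0 0) (P.cons (P.lf 53092371 0 0) (P.cons (P.lf 0 2954732 0) (P.cons (P.lf 0 85611 0) (P.cons (P.lf 1520 0 0) (P.cons (P.lf 96 0 0) P.nil)))))) 47)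
 EL.nil))
noncomputable def S198_212_512_660_13 : EL := (EL.cons 4 (TM.mk (P.cons (P.cons (P.lf 37535810 0 0) (P.cons (P.lf 0 230585073 0) (P.cons (P.lf 15416379 0 0) (P.lf 5138792 0 0)))) (P.cons (P.cons (P.lf 0 20027362 0) (P.cons (P.lf 9769359 0 0) (P.cons (P.lf 0 653156 0) (P.lf 0 217718 0)))) (P.cons (P.cons (P.lf 0 4801612 0) (P.cons (P.lf 3459954 0 0) (P.cons (P.lf 0 231323 0) (P.lf 0 77106 0)))) (P.cons (P.cons (P.lf 956195 0 0) (P.cons (P.lf 45864 0 0) (P.cons (P.lf 0 3064 0) P.nil))) (P.cons (P.cons (P.lf 28573 0 0) (P.cons (P.lf 0 13590 0) P.nil)) (P.cons (P.cons (P.lf 0 3676 0) P.nil) P.nil)))))) 7330)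
 (EL.cons 8 (TM.mk (P.cons (P.cons (P.lf 47751401 0 0) (P.cons (P.lf 0 293340149 0) (P.cons (P.lf 19612038 0 0) (P.lf 6537346 0 0)))) (P.cons (P.cons (P.lf 0 18239566 0) (P.cons (P.lf 0 32037598 0) (P.cons (P.lf 2141959 0 0) (P.lf 713985 0 0)))) (P.cons (P.cons (P.lf 0 9023909 0) (P.cons (P.lf 470838 0 0) (P.cons (P.lf 0 31477 0) (P.lf 0 10492 0)))) (P.cons (P.cons (P.lf 0 84620 0) (P.cons (P.lf 173822 0 0) (P.cons (P.lf 0 11619 0) P.nil))) (P.cons (P.cons (P.lf 48172 0 0) (P.cons (P.lf 3075 0 0) P.nil)) (P.cons (P.cons (P.lf 1258 0 0) P.nil) P.nil)))))) 5562)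
 EL.nil))
noncomputable def S198_212_512_660_14 : EL := (EL.cons 4 (TM.mk (P.cons (P.cons (P.lf 921781 0 0) (P.cons (P.lf 0 11325141 0) (P.cons (P.lf 35542736 0 0) (P.cons (P.lf 0 4398972 0) (P.cons (P.lf 0 1394964 0) (P.cons (P.lf 103659 0 0) P.nil)))))) (P.cons (P.cons (P.lf 0 869080 0) (P.cons (P.lf 5114898 0 0) (P.cons (P.lf 1033614 0 0) (P.cons (P.lf 0 297926 0) (P.cons (P.lf 0 55162 0) P.nil))))) (P.cons (P.cons (P.lf 0 79119 0) (P.cons (P.lf 1969980 0 0) (P.cons (P.lf 0 855165 0) (P.cons (P.lf 52833 0 0) P.nil)))) (P.cons (P.cons (P.lf 160710 0 0) (P.cons (P.lf 0 179777 0) (P.cons (P.lf 0 46777 0) P.nil))) (P.cons (P.cons (P.lf 11269 0 0) (P.cons (P.lf 0 37780 0) P.nil)) (P.cons (P.cons (P.lf 0 5124 0) P.nil) P.nil)))))) 151526)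
 (EL.cons 8 (TM.mk (P.cons (P.cons (P.lf 1172650 0 0) (P.cons (P.lf 0 14407345 0) (P.cons (P.lf 45215900 0 0) (P.cons (P.lf 0 5596178 0) (P.cons (P.lf 0 1774612 0) (P.cons (P.lf 131871 0 0) P.nil)))))) (P.cons (P.cons (P.lf 0 927850 0) (P.cons (P.lf 4323022 0 0) (P.cons (P.lf 8168937 0 0) (P.cons (P.lf 0 1227301 0) (P.cons (P.lf 0 339179 0) P.nil))))) (P.cons (P.cons (P.lf 0 245000 0) (P.cons (P.lf 3206887 0 0) (P.cons (P.lf 7699 0 0) (P.cons (P.lf 0 101167 0) P.nil)))) (P.cons (P.cons (P.lf 170466 0 0) (P.cons (P.lf 240967 0 0) (P.cons (P.lf 0 75334 0) P.nil))) (P.cons (P.cons (P.lf 40762 0 0) (P.cons (P.lf 0 20730 0) P.nil)) (P.cons (P.cons (P.lf 0 920 0) P.nil) P.nil)))))) 122045)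
 EL.nil))
noncomputable def S198_212_512_660_15 : EL := (EL.cons 4 (TM.mk (P.cons (P.lf 0 580223769 0) (P.cons (P.lf 144220550 0 0) (P.cons (P.lf 0 6057348 0) (P.cons (P.lf 0 451706 0) (P.cons (P.lf 3880 0 0) (P.cons (P.lf 725 0 0) P.nil)))))) 68)
 (EL.cons 8 (TM.mk (P.cons (P.lf 0 738135058 0) (P.cons (P.lf 71581366 0 0) (P.cons (P.lf 5473894 0 0) (P.cons (P.lf 0 114166 0) (P.cons (P.lf 0 11391 0) (P.cons (P.lf 0 3 0) P.nil)))))) 62)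
 EL.nil))
noncomputable def S198_212_512_660_16 : EL := (EL.cons 4 (TM.mk (P.cons (P.cons (P.lf 0 14248789 0) (P.cons (P.lf 87531300 0 0) (P.cons (P.lf 0 5852138 0) (P.lf 0 1950712 0)))) (P.cons (P.cons (P.lf 9373332 0 0) (P.cons (P.lf 0 14586899 0) (P.cons (P.lf 975245 0 0) (P.lf 325081 0 0)))) (P.cons (P.cons (P.lf 913542 0 0) (P.cons (P.lf 0 1071608 0) (P.cons (P.lf 71644 0 0) (P.lf 23880 0 0)))) (P.cons (P.cons (P.lf 0 609646 0) (P.cons (P.lf 161946 0 0) (P.cons (P.lf 0 10827 0) P.nil))) (P.cons (P.cons (P.lf 30250 0 0) (P.cons (P.lf 10604 0 0) P.nil)) (P.cons (P.cons (P.lf 3819 0 0) P.nil) P.nil)))))) 7768)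
 (EL.cons 8 (TM.mk (P.cons (P.cons (P.lf 0 18126681 0) (P.cons (P.lf 111353455 0 0) (P.cons (P.lf 0 7444831 0) (P.lf 0 2481610 0)))) (P.cons (P.cons (P.lf 9176620 0 0) (P.cons (P.lf 0 1677379 0) (P.cons (P.lf 112145 0 0) (P.lf 37381 0 0)))) (P.cons (P.cons (P.lf 2610398 0 0) (P.cons (P.lf 0 1968892 0) (P.cons (P.lf 131635 0 0) (P.lf 43877 0 0)))) (P.cons (P.cons (P.lf 0 412349 0) (P.cons (P.lf 0 65504 0) (P.cons (P.lf 4378 0 0) P.nil))) (P.cons (P.cons (P.lf 0 30369 0) (P.cons (P.lf 8791 0 0) P.nil)) (P.cons (P.cons (P.lf 2005 0 0) P.nil) P.nil)))))) 5648)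
 EL.nil))
noncomputable def S198_212_512_660_17 : EL := (EL.cons 4 (TM.mk (P.cons (P.cons (P.lf 0 349912 0) (P.cons (P.lf 4299082 0 0) (P.cons (P.lf 0 13492208 0) (P.cons (P.lf 1669872 0 0) (P.cons (P.lf 529535 0 0) (P.cons (P.lf 0 39349 0) P.nil)))))) (P.cons (P.cons (P.lf 373394 0 0) (P.cons (P.lf 0 2475932 0) (P.cons (P.lf 1284447 0 0) (P.cons (P.lf 0 94437 0) (P.cons (P.lf 0 44869 0) P.nil))))) (P.cons (P.cons (P.lf 0 10090 0) (P.cons (P.lf 0 517267 0) (P.cons (P.lf 407158 0 0) (P.cons (P.lf 0 38291 0) P.nil)))) (P.cons (P.cons (P.lf 0 65592 0) (P.cons (P.lf 166379 0 0) (P.cons (P.lf 0 22659 0) P.nil))) (P.cons (P.cons (P.lf 3253 0 0) (P.cons (P.lf 7593 0 0) P.nil)) (P.cons (P.cons (P.lf 2632 0 0) P.nil) P.nil)))))) 96114)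
 (EL.cons 8 (TM.mk (P.cons (P.cons (P.lf 0 445144 0) (P.cons (P.lf 5469103 0 0) (P.cons (P.lf 0 17164192 0) (P.cons (P.lf 2124338 0 0) (P.cons (P.lf 673652 0 0) (P.cons (P.lf 0 50058 0) P.nil)))))) (P.cons (P.cons (P.lf 407539 0 0) (P.cons (P.lf 0 2320742 0) (P.cons (P.lf 0 967803 0) (P.cons (P.lf 201876 0 0) (P.cons (P.lf 45032 0 0) P.nil))))) (P.cons (P.cons (P.lf 50343 0 0) (P.cons (P.lf 0 1027091 0) (P.cons (P.lf 425426 0 0) (P.cons (P.lf 0 24814 0) P.nil)))) (P.cons (P.cons (P.lf 0 77184 0) (P.cons (P.lf 64354 0 0) (P.cons (P.lf 35379 0 0) P.nil))) (P.cons (P.cons (P.lf 0 7638 0) (P.cons (P.lf 22173 0 0) P.nil)) (P.cons (P.cons (P.lf 2442 0 0) P.nil) P.nil)))))) 81749)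
 EL.nil))
noncomputable def S198_212_512_660_18 : EL := (EL.cons 4 (TM.mk (P.cons (P.lf 220255978 0 0) (P.cons (P.lf 0 82120312 0) (P.cons (P.lf 8552062 0 0) (P.cons (P.lf 39948 0 0) (P.cons (P.lf 0 32104 0) (P.cons (P.lf 0 525 0) P.nil)))))) 109)
 (EL.cons 8 (TM.mk (P.cons (P.lf 280199929 0 0) (P.cons (P.lf 0 61995939 0) (P.cons (P.lf 597780 0 0) (P.cons (P.lf 391501 0 0) (P.cons (P.lf 2922 0 0) (P.cons (P.lf 0 902 0) P.nil)))))) 74)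
 EL.nil))
noncomputable def S198_212_512_660_19 : EL := (EL.cons 4 (TM.mk (P.cons (P.cons (P.lf 5408914 0 0) (P.cons (P.lf 0 33227339 0) (P.cons (P.lf 2221501 0 0) (P.lf 740500 0 0)))) (P.cons (P.cons (P.lf 0 4230386 0) (P.cons (P.lf 9666760 0 0) (P.cons (P.lf 0 646296 0) (P.lf 0 215431 0)))) (P.cons (P.cons (P.lf 81885 0 0) (P.cons (P.lf 0 198216 0) (P.cons (P.lf 13251 0 0) (P.lf 4417 0 0)))) (P.cons (P.cons (P.lf 283851 0 0) (P.cons (P.lf 0 128488 0) (P.cons (P.lf 8590 0 0) P.nil))) (P.cons (P.cons (P.lf 0 39636 0) (P.cons (P.lf 2921 0 0) P.nil)) (P.cons (P.cons (P.lf 0 640 0) P.nil) P.nil)))))) 6114)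
 (EL.cons 8 (TM.mk (P.cons (P.cons (P.lf 6880982 0 0) (P.cons (P.lf 0 42270353 0) (P.cons (P.lf 2826097 0 0) (P.lf 942032 0 0)))) (P.cons (P.cons (P.lf 0 4338662 0) (P.cons (P.lf 5890106 0 0) (P.cons (P.lf 0 393798 0) (P.lf 0 131266 0)))) (P.cons (P.cons (P.lf 0 575214 0) (P.cons (P.lf 774067 0 0) (P.cons (P.lf 0 51752 0) (P.lf 0 17250 0)))) (P.cons (P.cons (P.lf 288938 0 0) (P.cons (P.lf 0 72919 0) (P.cons (P.lf 4875 0 0) P.nil))) (P.cons (P.cons (P.lf 0 5694 0) (P.cons (P.lf 0 8385 0) P.nil)) (P.cons (P.cons (P.lf 0 2674 0) P.nil) P.nil)))))) 5111)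
 EL.nil))
noncomputable def S198_212_512_660_20 : EL := (EL.cons 4 (TM.mk (P.cons (P.cons (P.lf 132828 0 0) (P.cons (P.lf 0 1631954 0) (P.cons (P.lf 5121712 0 0) (P.cons (P.lf 0 633892 0) (P.cons (P.lf 0 201014 0) (P.cons (P.lf 14937 0 0) P.nil)))))) (P.cons (P.cons (P.lf 0 158250 0) (P.cons (P.lf 1142696 0 0) (P.cons (P.lf 0 1124109 0) (P.cons (P.lf 114629 0 0) (P.cons (P.lf 42015 0 0) P.nil))))) (P.cons (P.cons (P.lf 21113 0 0) (P.cons (P.lf 83633 0 0) (P.cons (P.lf 0 106781 0) (P.cons (P.lf 11666 0 0) P.nil)))) (P.cons (P.cons (P.lf 24787 0 0) (P.cons (P.lf 0 90041 0) (P.cons (P.lf 29430 0 0) P.nil))) (P.cons (P.cons (P.lf 0 4349 0) (P.cons (P.lf 4543 0 0) P.nil)) (P.cons (P.cons (P.lf 0 908 0) P.nil) P.nil)))))) 58247)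
 (EL.cons 8 (TM.mk (P.cons (P.cons (P.lf 168978 0 0) (P.cons (P.lf 0 2076100 0) (P.cons (P.lf 6515617 0 0) (P.cons (P.lf 0 806409 0) (P.cons (P.lf 0 255721 0) (P.cons (P.lf 19002 0 0) P.nil)))))) (P.cons (P.cons (P.lf 0 175704 0) (P.cons (P.lf 1138983 0 0) (P.cons (P.lf 0 442378 0) (P.cons (P.lf 23587 0 0) (P.cons (P.lf 14686 0 0) P.nil))))) (P.cons (P.cons (P.lf 0 307 0) (P.cons (P.lf 285598 0 0) (P.cons (P.lf 0 223460 0) (P.cons (P.lf 20962 0 0) P.nil)))) (P.cons (P.cons (P.lf 32075 0 0) (P.cons (P.lf 0 75252 0) (P.cons (P.lf 6229 0 0) P.nil))) (P.cons (P.cons (P.lf 0 705 0) (P.cons (P.lf 0 6294 0) P.nil)) (P.cons (P.cons (P.lf 0 1362 0) P.nil) P.nil)))))) 50923)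
 EL.nil))
noncomputable def S198_212_512_660_21 : EL := (EL.cons 4 (TM.mk (P.cons (P.cons (P.lf 562640358 0 0) (P.cons (P.lf 691755219 0 0) (P.cons (P.lf 0 46249137 0) (P.lf 0 15416376 0)))) (P.cons (P.cons (P.lf 492743739 0 0) (P.cons (P.lf 0 29308077 0) (P.cons (P.lf 1959468 0 0) (P.lf 653154 0 0)))) (P.cons (P.cons (P.lf 0 3767208 0) (P.cons (P.lf 0 10379862 0) (P.cons (P.lf 693969 0 0) (P.lf 231318 0 0)))) (P.cons (P.cons (P.lf 0 4223703 0) (P.cons (P.lf 0 137592 0) (P.cons (P.lf 9192 0 0) P.nil))) (P.cons (P.cons (P.lf 0 74079 0) (P.cons (P.lf 40770 0 0) P.nil)) (P.cons (P.cons (P.lf 13206 0 0) P.nil) P.nil)))))) 22257)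
 (EL.cons 8 (TM.mk (P.cons (P.cons (P.lf 0 157252671 0) (P.cons (P.lf 0 193339062 0) (P.cons (P.lf 12926205 0 0) (P.lf 4308735 0 0)))) (P.cons (P.cons (P.lf 0 113880207 0) (P.cons (P.lf 37498482 0 0) (P.cons (P.lf 0 2507061 0) (P.lf 0 835683 0)))) (P.cons (P.cons (P.lf 21432450 0 0) (P.cons (P.lf 1049319 0 0) (P.cons (P.lf 0 70161 0) (P.lf 0 23388 0)))) (P.cons (P.cons (P.lf 616872 0 0) (P.cons (P.lf 0 337884 0) (P.cons (P.lf 22584 0 0) P.nil))) (P.cons (P.cons (P.lf 0 129072 0) (P.cons (P.lf 0 10800 0) P.nil)) (P.cons (P.cons (P.lf 0 4074 0) P.nil) P.nil)))))) 21609)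
 (EL.cons 11 (TM.mk (P.cons (P.cons (P.lf 2449640142 0 0) (P.cons (P.lf 0 379265808 0) (P.cons (P.lf 0 182718306 0) (P.cons (P.lf 6914598 0 0) (P.lf 1728648 0 0))))) (P.cons (P.cons (P.lf 133770624 0 0) (P.cons (P.lf 0 20711052 0) (P.cons (P.lf 0 9977931 0) (P.cons (P.lf 377592 0 0) (P.lf 94398 0 0))))) (P.cons (P.cons (P.lf 0 5618445 0) (P.cons (P.lf 869874 0 0) (P.cons (P.lf 419079 0 0) (P.cons (P.lf 0 15858 0) P.nil)))) (P.cons (P.cons (P.lf 0 418974 0) (P.cons (P.lf 64866 0 0) (P.cons (P.lf 31251 0 0) P.nil))) (P.cons (P.cons (P.lf 3594 0 0) (P.cons (P.lf 0 555 0) P.nil)) (P.cons (P.cons (P.lf 672 0 0) P.nil) P.nil)))))) 6186)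
 EL.nil)))
noncomputable def S198_212_512_660_22 : EL := (EL.cons 4 (TM.mk (P.cons (P.cons (P.lf 13816986 0 0) (P.cons (P.lf 0 67890990 0) (P.cons (P.lf 0 99817659 0) (P.cons (P.lf 15467100 0 0) (P.cons (P.lf 4184892 0 0) (P.cons (P.lf 0 310977 0) P.nil)))))) (P.cons (P.cons (P.lf 6445581 0 0) (P.cons (P.lf 0 88959219 0) (P.cons (P.lf 1820850 0 0) (P.cons (P.lf 2534343 0 0) (P.cons (P.lf 165489 0 0) P.nil))))) (P.cons (P.cons (P.lf 0 7480620 0) (P.cons (P.lf 0 8278458 0) (P.cons (P.lf 2723850 0 0) (P.cons (P.lf 0 105717 0) P.nil)))) (P.cons (P.cons (P.lf 0 2164932 0) (P.cons (P.lf 1156620 0 0) (P.cons (P.lf 99063 0 0) P.nil))) (P.cons (P.cons (P.lf 95793 0 0) (P.cons (P.lf 145641 0 0) P.nil)) (P.cons (P.cons (P.lf 27114 0 0) P.nil) P.nil)))))) 317607)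
 (EL.cons 8 (TM.mk (P.cons (P.cons (P.lf 0 3861717 0) (P.cons (P.lf 18974889 0 0) (P.cons (P.lf 27898095 0 0) (P.cons (P.lf 0 4322907 0) (P.cons (P.lf 0 1169637 0) (P.cons (P.lf 86913 0 0) P.nil)))))) (P.cons (P.cons (P.lf 0 1216104 0) (P.cons (P.lf 21986967 0 0) (P.cons (P.lf 0 4737819 0) (P.cons (P.lf 0 53040 0) (P.cons (P.lf 131043 0 0) P.nil))))) (P.cons (P.cons (P.lf 2351652 0 0) (P.cons (P.lf 0 1395249 0) (P.cons (P.lf 0 596115 0) (P.cons (P.lf 123276 0 0) P.nil)))) (P.cons (P.cons (P.lf 283215 0 0) (P.cons (P.lf 0 599223 0) (P.cons (P.lf 80682 0 0) P.nil))) (P.cons (P.cons (P.lf 0 111567 0) (P.cons (P.lf 10875 0 0) P.nil)) (P.cons (P.cons (P.lf 0 2025 0) P.nil) P.nil)))))) 134205)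
 (EL.cons 11 (TM.mk (P.cons (P.cons (P.lf 60156804 0 0) (P.cons (P.lf 0 378861186 0) (P.cons (P.lf 77435205 0 0) (P.cons (P.lf 32144706 0 0) (P.cons (P.lf 0 4118658 0) (P.cons (P.lf 0 805338 0) P.nil)))))) (P.cons (P.cons (P.lf 0 21335520 0) (P.cons (P.lf 0 47147589 0) (P.cons (P.lf 12775500 0 0) (P.cons (P.lf 4305009 0 0) (P.cons (P.lf 0 583131 0) P.nil))))) (P.cons (P.cons (P.lf 0 12087051 0) (P.cons (P.lf 1924065 0 0) (P.cons (P.lf 889893 0 0) (P.cons (P.lf 0 38673 0) P.nil)))) (P.cons (P.cons (P.lf 0 384735 0) (P.cons (P.lf 372342 0 0) (P.cons (P.lf 0 40635 0) P.nil))) (P.cons (P.cons (P.lf 76110 0 0) (P.cons (P.lf 0 1341 0) P.nil)) (P.cons (P.cons (P.lf 3888 0 0) P.nil) P.nil)))))) 292755)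
 EL.nil)))
noncomputable def S198_212_512_660_23 : EL := (EL.cons 4 (TM.mk (P.cons (P.cons (P.lf 0 213581223 0) (P.cons (P.lf 0 262593900 0) (P.cons (P.lf 17556414 0 0) (P.lf 5852136 0 0)))) (P.cons (P.cons (P.lf 0 160504200 0) (P.cons (P.lf 43760697 0 0) (P.cons (P.lf 0 2925735 0) (P.lf 0 975243 0)))) (P.cons (P.cons (P.lf 25210989 0 0) (P.cons (P.lf 3214824 0 0) (P.cons (P.lf 0 214932 0) (P.lf 0 71640 0)))) (P.cons (P.cons (P.lf 1877082 0 0) (P.cons (P.lf 0 485841 0) (P.cons (P.lf 32484 0 0) P.nil))) (P.cons (P.cons (P.lf 0 190038 0) (P.cons (P.lf 0 31809 0) P.nil)) (P.cons (P.cons (P.lf 0 13008 0) P.nil) P.nil)))))) 26409)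
 (EL.cons 8 (TM.mk (P.cons (P.cons (P.lf 59693934 0 0) (P.cons (P.lf 73392519 0 0) (P.cons (P.lf 0 4906854 0) (P.lf 0 1635618 0)))) (P.cons (P.cons (P.lf 35810751 0 0) (P.cons (P.lf 0 23355849 0) (P.cons (P.lf 1561515 0 0) (P.lf 520503 0 0)))) (P.cons (P.cons (P.lf 0 13657848 0) (P.cons (P.lf 1187055 0 0) (P.cons (P.lf 0 79359 0) (P.lf 0 26451 0)))) (P.cons (P.cons (P.lf 673425 0 0) (P.cons (P.lf 219132 0 0) (P.cons (P.lf 0 14646 0) P.nil))) (P.cons (P.cons (P.lf 102033 0 0) (P.cons (P.lf 0 11718 0) P.nil)) (P.cons (P.cons (P.lf 0 4452 0) P.nil) P.nil)))))) 13938)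
 (EL.cons 11 (TM.mk (P.cons (P.cons (P.lf 0 929896212 0) (P.cons (P.lf 143971284 0 0) (P.cons (P.lf 69360822 0 0) (P.cons (P.lf 0 2624817 0) (P.lf 0 656202 0))))) (P.cons (P.cons (P.lf 64787577 0 0) (P.cons (P.lf 0 10030743 0) (P.cons (P.lf 0 4832496 0) (P.cons (P.lf 182874 0 0) (P.lf 45717 0 0))))) (P.cons (P.cons (P.lf 10771206 0 0) (P.cons (P.lf 0 1667652 0) (P.cons (P.lf 0 803421 0) (P.cons (P.lf 30402 0 0) P.nil)))) (P.cons (P.cons (P.lf 0 51624 0) (P.cons (P.lf 7992 0 0) (P.cons (P.lf 3849 0 0) P.nil))) (P.cons (P.cons (P.lf 0 33450 0) (P.cons (P.lf 5178 0 0) P.nil)) (P.cons (P.cons (P.lf 0 456 0) P.nil) P.nil)))))) 12990)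
 EL.nil)))
noncomputable def S198_212_512_660_24 : EL := (EL.cons 4 (TM.mk (P.cons (P.cons (P.lf 0 5244999 0) (P.cons (P.lf 25771773 0 0) (P.cons (P.lf 37891305 0 0) (P.cons (P.lf 0 5871390 0) (P.cons (P.lf 0 1588605 0) (P.cons (P.lf 118047 0 0) P.nil)))))) (P.cons (P.cons (P.lf 0 1794927 0) (P.cons (P.lf 30566466 0 0) (P.cons (P.lf 0 5400339 0) (P.cons (P.lf 0 232353 0) (P.cons (P.lf 134610 0 0) P.nil))))) (P.cons (P.cons (P.lf 3156894 0 0) (P.cons (P.lf 0 1118820 0) (P.cons (P.lf 0 1042923 0) (P.cons (P.lf 174390 0 0) P.nil)))) (P.cons (P.cons (P.lf 474615 0 0) (P.cons (P.lf 0 912120 0) (P.cons (P.lf 95589 0 0) P.nil))) (P.cons (P.cons (P.lf 0 145815 0) (P.cons (P.lf 0 5862 0) P.nil)) (P.cons (P.cons (P.lf 0 7614 0) P.nil) P.nil)))))) 169278)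
 (EL.cons 8 (TM.mk (P.cons (P.cons (P.lf 1465926 0 0) (P.cons (P.lf 0 7202967 0) (P.cons (P.lf 0 10590261 0) (P.cons (P.lf 1640997 0 0) (P.cons (P.lf 444000 0 0) (P.cons (P.lf 0 32991 0) P.nil)))))) (P.cons (P.cons (P.lf 279453 0 0) (P.cons (P.lf 0 7451181 0) (P.cons (P.lf 3114660 0 0) (P.cons (P.lf 0 183807 0) (P.cons (P.lf 0 104925 0) P.nil))))) (P.cons (P.cons (P.lf 0 953739 0) (P.cons (P.lf 1584960 0 0) (P.cons (P.lf 29277 0 0) (P.cons (P.lf 0 53406 0) P.nil)))) (P.cons (P.cons (P.lf 2391 0 0) (P.cons (P.lf 181971 0 0) (P.cons (P.lf 0 64080 0) P.nil))) (P.cons (P.cons (P.lf 57987 0 0) (P.cons (P.lf 0 34398 0) P.nil)) (P.cons (P.cons (P.lf 0 4293 0) P.nil) P.nil)))))) 62469)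
 (EL.cons 11 (TM.mk (P.cons (P.cons (P.lf 0 22835835 0) (P.cons (P.lf 143817687 0 0) (P.cons (P.lf 0 29394807 0) (P.cons (P.lf 0 12202299 0) (P.cons (P.lf 1563462 0 0) (P.cons (P.lf 305709 0 0) P.nil)))))) (P.cons (P.cons (P.lf 10937115 0 0) (P.cons (P.lf 23793 0 0) (P.cons (P.lf 0 1196457 0) (P.cons (P.lf 0 117702 0) (P.cons (P.lf 27051 0 0) P.nil))))) (P.cons (P.cons (P.lf 3638910 0 0) (P.cons (P.lf 0 3314652 0) (P.cons (P.lf 338478 0 0) (P.cons (P.lf 248319 0 0) P.nil)))) (P.cons (P.cons (P.lf 0 446244 0) (P.cons (P.lf 0 84120 0) (P.cons (P.lf 67248 0 0) P.nil))) (P.cons (P.cons (P.lf 0 57966 0) (P.cons (P.lf 21768 0 0) P.nil)) (P.cons (P.cons (P.lf 2133 0 0) P.nil) P.nil)))))) 136539)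
 EL.nil)))
noncomputable def S198_212_512_660_25 : EL := (EL.cons 4 (TM.mk (P.cons (P.cons (P.lf 81076548 0 0) (P.cons (P.lf 99682017 0 0) (P.cons (P.lf 0 6664506 0) (P.lf 0 2221500 0)))) (P.cons (P.cons (P.lf 50852031 0 0) (P.cons (P.lf 0 29000280 0) (P.cons (P.lf 1938888 0 0) (P.lf 646296 0 0)))) (P.cons (P.cons (P.lf 0 17345319 0) (P.cons (P.lf 594651 0 0) (P.cons (P.lf 0 39756 0) (P.lf 0 13251 0)))) (P.cons (P.cons (P.lf 330675 0 0) (P.cons (P.lf 385467 0 0) (P.cons (P.lf 0 25770 0) P.nil))) (P.cons (P.cons (P.lf 189675 0 0) (P.cons (P.lf 0 8766 0) P.nil)) (P.cons (P.cons (P.lf 0 2796 0) P.nil) P.nil)))))) 21600)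
 (EL.cons 8 (TM.mk (P.cons (P.cons (P.lf 0 22660128 0) (P.cons (P.lf 0 27860184 0) (P.cons (P.lf 1862667 0 0) (P.lf 620889 0 0)))) (P.cons (P.cons (P.lf 0 10777743 0) (P.cons (P.lf 12328467 0 0) (P.cons (P.lf 0 824250 0) (P.lf 0 274749 0)))) (P.cons (P.cons (P.lf 6930765 0 0) (P.cons (P.lf 0 1482747 0) (P.cons (P.lf 99132 0 0) (P.lf 33042 0 0)))) (P.cons (P.cons (P.lf 0 867723 0) (P.cons (P.lf 0 51549 0) (P.cons (P.lf 3444 0 0) P.nil))) (P.cons (P.cons (P.lf 0 21075 0) (P.cons (P.lf 16515 0 0) P.nil)) (P.cons (P.cons (P.lf 7506 0 0) P.nil) P.nil)))))) 9585)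
 (EL.cons 11 (TM.mk (P.cons (P.cons (P.lf 352993467 0 0) (P.cons (P.lf 0 54652251 0) (P.cons (P.lf 0 26329731 0) (P.cons (P.lf 996393 0 0) (P.lf 249096 0 0))))) (P.cons (P.cons (P.lf 0 68463771 0) (P.cons (P.lf 10599909 0 0) (P.cons (P.lf 5106702 0 0) (P.cons (P.lf 0 193251 0) (P.lf 0 48312 0))))) (P.cons (P.cons (P.lf 0 1915818 0) (P.cons (P.lf 296616 0 0) (P.cons (P.lf 142899 0 0) (P.cons (P.lf 0 5406 0) P.nil)))) (P.cons (P.cons (P.lf 616908 0 0) (P.cons (P.lf 0 95511 0) (P.cons (P.lf 0 46014 0) P.nil))) (P.cons (P.cons (P.lf 19716 0 0) (P.cons (P.lf 0 3051 0) P.nil)) (P.cons (P.cons (P.lf 0 1860 0) P.nil) P.nil)))))) 13164)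
 EL.nil)))
noncomputable def S198_212_512_660_26 : EL := (EL.cons 4 (TM.mk (P.cons (P.cons (P.lf 1991028 0 0) (P.cons (P.lf 0 9783099 0) (P.cons (P.lf 0 14383737 0) (P.cons (P.lf 2228811 0 0) (P.cons (P.lf 603042 0 0) (P.cons (P.lf 0 44811 0) P.nil)))))) (P.cons (P.cons (P.lf 433917 0 0) (P.cons (P.lf 0 10387344 0) (P.cons (P.lf 3837609 0 0) (P.cons (P.lf 0 188793 0) (P.cons (P.lf 0 126045 0) P.nil))))) (P.cons (P.cons (P.lf 0 1288035 0) (P.cons (P.lf 1891242 0 0) (P.cons (P.lf 177126 0 0) (P.cons (P.lf 0 82737 0) P.nil)))) (P.cons (P.cons (P.lf 0 32781 0) (P.cons (P.lf 321738 0 0) (P.cons (P.lf 0 91743 0) P.nil))) (P.cons (P.cons (P.lf 80802 0 0) (P.cons (P.lf 0 42807 0) P.nil)) (P.cons (P.cons (P.lf 0 3627 0) P.nil) P.nil)))))) 92418)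
 (EL.cons 8 (TM.mk (P.cons (P.cons (P.lf 0 556473 0) (P.cons (P.lf 2734284 0 0) (P.cons (P.lf 4020117 0 0) (P.cons (P.lf 0 622929 0) (P.cons (P.lf 0 168543 0) (P.cons (P.lf 12522 0 0) P.nil)))))) (P.cons (P.cons (P.lf 0 36921 0) (P.cons (P.lf 2488689 0 0) (P.cons (P.lf 0 1681962 0) (P.cons (P.lf 147192 0 0) (P.cons (P.lf 60777 0 0) P.nil))))) (P.cons (P.cons (P.lf 376620 0 0) (P.cons (P.lf 0 960030 0) (P.cons (P.lf 125763 0 0) (P.cons (P.lf 13158 0 0) P.nil)))) (P.cons (P.cons (P.lf 0 45681 0) (P.cons (P.lf 0 1167 0) (P.cons (P.lf 28980 0 0) P.nil))) (P.cons (P.cons (P.lf 0 22815 0) (P.cons (P.lf 23379 0 0) P.nil)) (P.cons (P.cons (P.lf 4395 0 0) P.nil) P.nil)))))) 38973)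
 (EL.cons 11 (TM.mk (P.cons (P.cons (P.lf 8668602 0 0) (P.cons (P.lf 0 54593946 0) (P.cons (P.lf 11158422 0 0) (P.cons (P.lf 4632054 0 0) (P.cons (P.lf 0 593499 0) (P.cons (P.lf 0 116049 0) P.nil)))))) (P.cons (P.cons (P.lf 0 5229120 0) (P.cons (P.lf 6775908 0 0) (P.cons (P.lf 0 932586 0) (P.cons (P.lf 0 530991 0) (P.cons (P.lf 63489 0 0) P.nil))))) (P.cons (P.cons (P.lf 0 887061 0) (P.cons (P.lf 1396026 0 0) (P.cons (P.lf 0 212862 0) (P.cons (P.lf 0 111408 0) P.nil)))) (P.cons (P.cons (P.lf 352140 0 0) (P.cons (P.lf 0 128688 0) (P.cons (P.lf 0 9822 0) P.nil))) (P.cons (P.cons (P.lf 4113 0 0) (P.cons (P.lf 0 15558 0) P.nil)) (P.cons (P.cons (P.lf 0 4089 0) P.nil) P.nil)))))) 91002)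
 EL.nil)))
noncomputable def S198_212_512_660_27 : EL := (EL.cons 13 (TM.mk (P.lf 0 4294967296 0) 0)
 EL.nil)
noncomputable def S198_212_512_660_28 : EL := (EL.cons 13 (TM.mk (P.cons (P.cons (P.lf 0 105473252 0) (P.cons (P.lf 647929460 0 0) (P.cons (P.lf 0 43319052 0) (P.lf 0 14439684 0)))) (P.cons (P.cons (P.lf 43167395 0 0) (P.cons (P.lf 53073464 0 0) (P.cons (P.lf 0 3548368 0) (P.lf 0 1182788 0)))) (P.cons (P.cons (P.lf 18593084 0 0) (P.cons (P.lf 0 1504552 0) (P.cons (P.lf 100588 0 0) (P.lf 33528 0 0)))) (P.cons (P.cons (P.lf 0 259807 0) (P.cons (P.lf 0 233684 0) (P.cons (P.lf 15620 0 0) P.nil))) (P.cons (P.cons (P.lf 0 69074 0) (P.cons (P.lf 0 868 0) P.nil)) (P.cons (P.cons (P.lf 0 498 0) P.nil) P.nil)))))) 7063)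
 EL.nil)
noncomputable def S198_212_512_660_29 : EL := (EL.cons 13 (TM.mk (P.cons (P.cons (P.lf 0 2590149 0) (P.cons (P.lf 31822932 0 0) (P.cons (P.lf 0 99872841 0) (P.cons (P.lf 12360834 0 0) (P.cons (P.lf 3919762 0 0) (P.cons (P.lf 0 291277 0) P.nil)))))) (P.cons (P.cons (P.lf 2120158 0 0) (P.cons (P.lf 0 10417586 0) (P.cons (P.lf 0 15316600 0) (P.cons (P.lf 2373361 0 0) (P.cons (P.lf 642154 0 0) P.nil))))) (P.cons (P.cons (P.lf 479333 0 0) (P.cons (P.lf 0 6750570 0) (P.cons (P.lf 249438 0 0) (P.cons (P.lf 177438 0 0) P.nil)))) (P.cons (P.cons (P.lf 0 386507 0) (P.cons (P.lf 0 362360 0) (P.cons (P.lf 131916 0 0) P.nil))) (P.cons (P.cons (P.lf 0 78660 0) (P.cons (P.lf 44942 0 0) P.nil)) (P.cons (P.cons (P.lf 3613 0 0) P.nil) P.nil)))))) 213498)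
 EL.nil)
noncomputable def S198_212_512_660_30 : EL := (EL.cons 13 (TM.mk (P.cons (P.lf 1630392056 0 0) (P.cons (P.lf 0 202625308 0) (P.cons (P.lf 0 4080764 0) (P.cons (P.lf 127476 0 0) (P.cons (P.lf 5284 0 0) (P.cons (P.lf 0 44 0) P.nil)))))) 48)
 EL.nil)
noncomputable def S198_212_512_660_31 : EL := (EL.cons 13 (TM.mk (P.cons (P.cons (P.lf 40038198 0 0) (P.cons (P.lf 0 245957412 0) (P.cons (P.lf 16444138 0 0) (P.lf 5481379 0 0)))) (P.cons (P.cons (P.lf 0 21362520 0) (P.cons (P.lf 10420650 0 0) (P.cons (P.lf 0 696700 0) (P.lf 0 232233 0)))) (P.cons (P.cons (P.lf 0 5121720 0) (P.cons (P.lf 3690618 0 0) (P.cons (P.lf 0 246745 0) (P.lf 0 82247 0)))) (P.cons (P.cons (P.lf 1019942 0 0) (P.cons (P.lf 48922 0 0) (P.cons (P.lf 0 3269 0) P.nil))) (P.cons (P.cons (P.lf 30478 0 0) (P.cons (P.lf 0 14496 0) P.nil)) (P.cons (P.cons (P.lf 0 3922 0) P.nil) P.nil))))))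 7799)
 EL.nil)
noncomputable def S198_212_512_660_32 : EL := (EL.cons 13 (TM.mk (P.cons (P.cons (P.lf 983234 0 0) (P.cons (P.lf 0 12080151 0) (P.cons (P.lf 37912252 0 0) (P.cons (P.lf 0 4692237 0) (P.cons (P.lf 0 1487962 0) (P.cons (P.lf 110570 0 0) P.nil)))))) (P.cons (P.cons (P.lf 0 927019 0) (P.cons (P.lf 5455892 0 0) (P.cons (P.lf 1102522 0 0) (P.cons (P.lf 0 317788 0) (P.cons (P.lf 0 58840 0) P.nil))))) (P.cons (P.cons (P.lf 0 84394 0) (P.cons (P.lf 2101313 0 0) (P.cons (P.lf 0 912176 0) (P.cons (P.lf 56356 0 0) P.nil)))) (P.cons (P.cons (P.lf 171425 0 0) (P.cons (P.lf 0 191763 0) (P.cons (P.lf 0 49896 0) P.nil))) (P.cons (P.cons (P.lf 12021 0 0) (P.cons (P.lf 0 40299 0) P.nil)) (P.cons (P.cons (P.lf 0 5466 0) P.nil) P.nil)))))) 161605)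
 EL.nil)
noncomputable def S198_212_512_660_33 : EL := (EL.cons 14 (TM.mk (P.lf 8589934592 0 0) 0)
 EL.nil)
noncomputable def S198_212_512_660_34 : EL := (EL.cons 14 (TM.mk (P.cons (P.cons (P.lf 210946504 0 0) (P.cons (P.lf 0 1295858920 0) (P.cons (P.lf 86638104 0 0) (P.lf 28879368 0 0)))) (P.cons (P.cons (P.lf 0 86334790 0) (P.cons (P.lf 0 106146928 0) (P.cons (P.lf 7096736 0 0) (P.lf 2365576 0 0)))) (P.cons (P.cons (P.lf 0 37186168 0) (P.cons (P.lf 3009104 0 0) (P.cons (P.lf 0 201176 0) (P.lf 0 67056 0)))) (P.cons (P.cons (P.lf 519614 0 0) (P.cons (P.lf 467368 0 0) (P.cons (P.lf 0 31240 0) P.nil))) (P.cons (P.cons (P.lf 138148 0 0) (P.cons (P.lf 1736 0 0) P.nil)) (P.cons (P.cons (P.lf 996 0 0) P.nil) P.nil)))))) 14126)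
 EL.nil)
noncomputable def S198_212_512_660_35 : EL := (EL.cons 14 (TM.mk (P.cons (P.cons (P.lf 5180298 0 0) (P.cons (P.lf 0 63645864 0) (P.cons (P.lf 199745682 0 0) (P.cons (P.lf 0 24721668 0) (P.cons (P.lf 0 7839524 0) (P.cons (P.lf 582554 0 0) P.nil)))))) (P.cons (P.cons (P.lf 0 4240316 0) (P.cons (P.lf 20835172 0 0) (P.cons (P.lf 30633200 0 0) (P.cons (P.lf 0 4746722 0) (P.cons (P.lf 0 1284308 0) P.nil))))) (P.cons (P.cons (P.lf 0 958666 0) (P.cons (P.lf 13501140 0 0) (P.cons (P.lf 0 498876 0) (P.cons (P.lf 0 354876 0) P.nil)))) (P.cons (P.cons (P.lf 773014 0 0) (P.cons (P.lf 724720 0 0) (P.cons (P.lf 0 263832 0) P.nil))) (P.cons (P.cons (P.lf 157320 0 0) (P.cons (P.lf 0 89884 0) P.nil)) (P.cons (P.cons (P.lf 0 7226 0) P.nil) P.nil)))))) 426996)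
 EL.nil)
noncomputable def S198_212_512_660_36 : EL := (EL.cons 14 (TM.mk (P.cons (P.lf 0 3260784112 0) (P.cons (P.lf 405250616 0 0) (P.cons (P.lf 8161528 0 0) (P.cons (P.lf 0 254952 0) (P.cons (P.lf 0 10568 0) (P.cons (P.lf 88 0 0) P.nil)))))) 96)
 EL.nil)
noncomputable def S198_212_512_660_37 : EL := (EL.cons 14 (TM.mk (P.cons (P.cons (P.lf 0 80076396 0) (P.cons (P.lf 491914824 0 0) (P.cons (P.lf 0 32888276 0) (P.lf 0 10962758 0)))) (P.cons (P.cons (P.lf 42725040 0 0) (P.cons (P.lf 0 20841300 0) (P.cons (P.lf 1393400 0 0) (P.lf 464466 0 0)))) (P.cons (P.cons (P.lf 10243440 0 0) (P.cons (P.lf 0 7381236 0) (P.cons (P.lf 493490 0 0) (P.lf 164494 0 0)))) (P.cons (P.cons (P.lf 0 2039884 0) (P.cons (P.lf 0 97844 0) (P.cons (P.lf 6538 0 0) P.nil))) (P.cons (P.cons (P.lf 0 60956 0) (P.cons (P.lf 28992 0 0) P.nil)) (P.cons (P.cons (P.lf 7844 0 0) P.nil) P.nil))))))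 15598)
 EL.nil)
noncomputable def S198_212_512_660_38 : EL := (EL.cons 14 (TM.mk (P.cons (P.cons (P.lf 0 1966468 0) (P.cons (P.lf 24160302 0 0) (P.cons (P.lf 0 75824504 0) (P.cons (P.lf 9384474 0 0) (P.cons (P.lf 2975924 0 0) (P.cons (P.lf 0 221140 0) P.nil)))))) (P.cons (P.cons (P.lf 1854038 0 0) (P.cons (P.lf 0 10911784 0) (P.cons (P.lf 0 2205044 0) (P.cons (P.lf 635576 0 0) (P.cons (P.lf 117680 0 0) P.nil))))) (P.cons (P.cons (P.lf 168788 0 0) (P.cons (P.lf 0 4202626 0) (P.cons (P.lf 1824352 0 0) (P.cons (P.lf 0 112712 0) P.nil)))) (P.cons (P.cons (P.lf 0 342850 0) (P.cons (P.lf 383526 0 0) (P.cons (P.lf 99792 0 0) P.nil))) (P.cons (P.cons (P.lf 0 24042 0) (P.cons (P.lf 80598 0 0) P.nil)) (P.cons (P.cons (P.lf 10932 0 0) P.nil) P.nil)))))) 323210)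
 EL.nil)
noncomputable def S198_212_512_660_39 : EL := (EL.cons 14 (TM.mk (P.cons (P.lf 1237810708 0 0) (P.cons (P.lf 0 307670508 0) (P.cons (P.lf 12922344 0 0) (P.cons (P.lf 963640 0 0) (P.cons (P.lf 0 8278 0) (P.cons (P.lf 0 1548 0) P.nil)))))) 132)
 EL.nil)
noncomputable def S198_212_512_660_40 : EL := (EL.cons 14 (TM.mk (P.cons (P.cons (P.lf 30397418 0 0) (P.cons (P.lf 0 186733440 0) (P.cons (P.lf 12484562 0 0) (P.lf 4161520 0 0)))) (P.cons (P.cons (P.lf 0 19996442 0) (P.cons (P.lf 31118718 0 0) (P.cons (P.lf 0 2080524 0) (P.lf 0 693508 0)))) (P.cons (P.cons (P.lf 0 1948890 0) (P.cons (P.lf 2286098 0 0) (P.cons (P.lf 0 152842 0) (P.lf 0 50946 0)))) (P.cons (P.cons (P.lf 1300580 0 0) (P.cons (P.lf 0 345486 0) (P.cons (P.lf 23098 0 0) P.nil))) (P.cons (P.cons (P.lf 0 64534 0) (P.cons (P.lf 0 22622 0) P.nil)) (P.cons (P.cons (P.lf 0 8148 0) P.nil) P.nil))))))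 16532)
 EL.nil)
noncomputable def S198_212_512_660_41 : EL := (EL.cons 14 (TM.mk (P.cons (P.cons (P.lf 746480 0 0) (P.cons (P.lf 0 9171376 0) (P.cons (P.lf 28783378 0 0) (P.cons (P.lf 0 3562394 0) (P.cons (P.lf 0 1129676 0) (P.cons (P.lf 83946 0 0) P.nil)))))) (P.cons (P.cons (P.lf 0 796574 0) (P.cons (P.lf 5281990 0 0) (P.cons (P.lf 0 2740154 0) (P.cons (P.lf 201466 0 0) (P.cons (P.lf 95722 0 0) P.nil))))) (P.cons (P.cons (P.lf 21526 0 0) (P.cons (P.lf 1103504 0 0) (P.cons (P.lf 0 868604 0) (P.cons (P.lf 81688 0 0) P.nil)))) (P.cons (P.cons (P.lf 139930 0 0) (P.cons (P.lf 0 354942 0) (P.cons (P.lf 48340 0 0) P.nil))) (P.cons (P.cons (P.lf 0 6940 0) (P.cons (P.lf 0 16200 0) P.nil)) (P.cons (P.cons (P.lf 0 5616 0) P.nil) P.nil)))))) 204998)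
 EL.nil)
noncomputable def S198_212_512_660_42 : EL := (EL.cons 14 (TM.mk (P.cons (P.lf 0 469879420 0) (P.cons (P.lf 175190000 0 0) (P.cons (P.lf 0 18244400 0) (P.cons (P.lf 0 85224 0) (P.cons (P.lf 68490 0 0) (P.cons (P.lf 1120 0 0) P.nil)))))) 218)
 EL.nil)
noncomputable def S198_212_512_660_43 : EL := (EL.cons 14 (TM.mk (P.cons (P.cons (P.lf 0 11539018 0) (P.cons (P.lf 70884990 0 0) (P.cons (P.lf 0 4739204 0) (P.lf 0 1579734 0)))) (P.cons (P.cons (P.lf 9024824 0 0) (P.cons (P.lf 0 20622422 0) (P.cons (P.lf 1378766 0 0) (P.lf 459588 0 0)))) (P.cons (P.cons (P.lf 0 174688 0) (P.cons (P.lf 422862 0 0) (P.cons (P.lf 0 28270 0) (P.lf 0 9424 0)))) (P.cons (P.cons (P.lf 0 605550 0) (P.cons (P.lf 274108 0 0) (P.cons (P.lf 0 18326 0) P.nil))) (P.cons (P.cons (P.lf 84558 0 0) (P.cons (P.lf 0 6232 0) P.nil)) (P.cons (P.cons (P.lf 1366 0 0) P.nil) P.nil)))))) 13004)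
 EL.nil)
noncomputable def S198_212_512_660_44 : EL := (EL.cons 14 (TM.mk (P.cons (P.cons (P.lf 0 283368 0) (P.cons (P.lf 3481502 0 0) (P.cons (P.lf 0 10926320 0) (P.cons (P.lf 1352304 0 0) (P.cons (P.lf 428830 0 0) (P.cons (P.lf 0 31866 0) P.nil)))))) (P.cons (P.cons (P.lf 337600 0 0) (P.cons (P.lf 0 2437752 0) (P.cons (P.lf 2398100 0 0) (P.cons (P.lf 0 244542 0) (P.cons (P.lf 0 89632 0) P.nil))))) (P.cons (P.cons (P.lf 0 45042 0) (P.cons (P.lf 0 178418 0) (P.cons (P.lf 227800 0 0) (P.cons (P.lf 0 24888 0) P.nil)))) (P.cons (P.cons (P.lf 0 52880 0) (P.cons (P.lf 192088 0 0) (P.cons (P.lf 0 62786 0) P.nil))) (P.cons (P.cons (P.lf 9278 0 0) (P.cons (P.lf 0 9692 0) P.nil)) (P.cons (P.cons (P.lf 1938 0 0) P.nil) P.nil)))))) 124214)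
 EL.nil)
noncomputable def S198_212_512_660_45 : EL := (EL.cons 14 (TM.mk (P.cons (P.cons (P.lf 127214 0 0) (P.cons (P.lf 0 2344464 0) (P.cons (P.lf 14558960 0 0) (P.cons (P.lf 0 31364816 0) (P.cons (P.lf 5337596 0 0) (P.cons (P.lf 1619160 0 0) P.nil)))))) (P.cons (P.cons (P.lf 0 156196 0) (P.cons (P.lf 1727014 0 0) (P.cons (P.lf 0 3650466 0) (P.cons (P.lf 0 6812906 0) (P.cons (P.lf 1595332 0 0) P.nil))))) (P.cons (P.cons (P.lf 0 3348 0) (P.cons (P.lf 596504 0 0) (P.cons (P.lf 0 3514646 0) (P.cons (P.lf 63152 0 0) P.nil)))) (P.cons (P.cons (P.lf 47288 0 0) (P.cons (P.lf 0 317916 0) (P.cons (P.lf 0 387238 0) P.nil))) (P.cons (P.cons (P.lf 70 0 0) (P.cons (P.lf 0 101552 0) P.nil)) (P.cons (P.cons (P.lf 0 5230 0) P.nil) P.nil)))))) 1466464)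
 EL.nil)
noncomputable def S198_212_512_660_46 : EL := (EL.cons 15 (TM.mk (P.lf 4294967296 0 0) 0)
 EL.nil)
noncomputable def S198_212_512_660_47 : EL := (EL.cons 15 (TM.mk (P.cons (P.cons (P.lf 105473252 0 0) (P.cons (P.lf 0 647929460 0) (P.cons (P.lf 43319052 0 0) (P.lf 14439684 0 0)))) (P.cons (P.cons (P.lf 0 43167395 0) (P.cons (P.lf 0 53073464 0) (P.cons (P.lf 3548368 0 0) (P.lf 1182788 0 0)))) (P.cons (P.cons (P.lf 0 18593084 0) (P.cons (P.lf 1504552 0 0) (P.cons (P.lf 0 100588 0) (P.lf 0 33528 0)))) (P.cons (P.cons (P.lf 259807 0 0) (P.cons (P.lf 233684 0 0) (P.cons (P.lf 0 15620 0) P.nil))) (P.cons (P.cons (P.lf 69074 0 0) (P.cons (P.lf 868 0 0) P.nil)) (P.cons (P.cons (P.lf 498 0 0) P.nil) P.nil)))))) 7063)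
 EL.nil)
noncomputable def S198_212_512_660_48 : EL := (EL.cons 15 (TM.mk (P.cons (P.cons (P.lf 2590149 0 0) (P.cons (P.lf 0 31822932 0) (P.cons (P.lf 99872841 0 0) (P.cons (P.lf 0 12360834 0) (P.cons (P.lf 0 3919762 0) (P.cons (P.lf 291277 0 0) P.nil)))))) (P.cons (P.cons (P.lf 0 2120158 0) (P.cons (P.lf 10417586 0 0) (P.cons (P.lf 15316600 0 0) (P.cons (P.lf 0 2373361 0) (P.cons (P.lf 0 642154 0) P.nil))))) (P.cons (P.cons (P.lf 0 479333 0) (P.cons (P.lf 6750570 0 0) (P.cons (P.lf 0 249438 0) (P.cons (P.lf 0 177438 0) P.nil)))) (P.cons (P.cons (P.lf 386507 0 0) (P.cons (P.lf 362360 0 0) (P.cons (P.lf 0 131916 0) P.nil))) (P.cons (P.cons (P.lf 78660 0 0) (P.cons (P.lf 0 44942 0) P.nil)) (P.cons (P.cons (P.lf 0 3613 0) P.nil) P.nil)))))) 213498)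
 EL.nil)
noncomputable def S198_212_512_660 : SL := (SL.cons S198_212_512_660_0 (SL.cons S198_212_512_660_1 (SL.cons S198_212_512_660_2 (SL.cons S198_212_512_660_3 (SL.cons S198_212_512_660_4 (SL.cons S198_212_512_660_5 (SL.cons S198_212_512_660_6 (SL.cons S198_212_512_660_7 (SL.cons S198_212_512_660_8 (SL.cons S198_212_512_660_9 (SL.cons S198_212_512_660_10 (SL.cons S198_212_512_660_11 (SL.cons S198_212_512_660_12 (SL.cons S198_212_512_660_13 (SL.cons S198_212_512_660_14 (SL.cons S198_212_512_660_15 (SL.cons S198_212_512_660_16 (SL.cons S198_212_512_660_17 (SL.cons S198_212_512_660_18 (SL.cons S198_212_512_660_19 (SL.cons S198_212_512_660_20 (SL.cons S198_212_512_660_21 (SL.cons S198_212_512_660_22 (SL.cons S198_212_512_660_23 (SL.cons S198_212_512_660_24 (SL.cons S198_212_512_660_25 (SL.cons S198_212_512_660_26 (SL.cons S198_212_512_660_27 (SL.cons S198_212_512_660_28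 (SL.cons S198_212_512_660_29 (SL.cons S198_212_512_660_30 (SL.cons S198_212_512_660_31 (SL.cons S198_212_512_660_32 (SL.cons S198_212_512_660_33 (SL.cons S198_212_512_660_34 (SL.cons S198_212_512_660_35 (SL.cons S198_212_512_660_36 (SL.cons S198_212_512_660_37 (SL.cons S198_212_512_660_38 (SL.cons S198_212_512_660_39 (SL.cons S198_212_512_660_40 (SL.cons S198_212_512_660_41 (SL.cons S198_212_512_660_42 (SL.cons S198_212_512_660_43 (SL.cons S198_212_512_660_44 (SL.cons S198_212_512_660_45 (SL.cons S198_212_512_660_46 (SL.cons S198_212_512_660_47 (SL.cons S198_212_512_660_48 SL.nil)))))))))))))))))))))))))))))))))))))))))))))))))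
theorem S198_212_401_438_ok : band (seq (shp 5 198 212 401 438) S198_212_401_438) (sok S198_212_401_438) = true := by decide +kernel

theorem S198_212_438_475_ok : band (seq (shp 5 198 212 438 475) S198_212_438_475) (sok S198_212_438_475) = true := by decide +kernel

theorem S198_212_438_512_ok : band (seq (shp 5 198 212 438 512) S198_212_438_512) (sok S198_212_438_512) = true := by decide +kernel

theorem S198_212_475_512_ok : band (seq (shp 5 198 212 475 512) S198_212_475_512) (sok S198_212_475_512) = true := by decide +kernel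

theorem S198_212_512_586_ok : band (seq (shp 5 198 212 512 586) S198_212_512_586) (sok S198_212_512_586) = true := by decide +kernel

theorem S198_212_512_660_ok : band (seq (shp 5 198 212 512 660) S198_212_512_660) (sok S198_212_512_660) = true := by decide +kernel

end Vale.Agent.P098.Ck
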