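import Vale.Agent.P098.CkDefs

namespace Vale.Agent.P098.Ck

noncomputable def S212_227_438_475_0 : EL := (EL.cons 0 (TM.mk (P.cons (P.lf 7871865163 0 0) (P.cons (P.lf 228047217 0 0) (P.cons (P.lf 0 18724113 0) (P.cons (P.lf 0 894670 0) (P.cons (P.lf 28400 0 0) (P.cons (P.lf 1893 0 0) P.nil)))))) 140)
 (EL.cons 1 (TM.mk (P.cons (P.lf 0 1064241138 0) (P.cons (P.lf 185599968 0 0) (P.cons (P.lf 9632411 0 0) (P.cons (P.lf 0 474855 0) (P.cons (P.lf 0 25702 0) (P.cons (P.lf 519 0 0) P.nil)))))) 134)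
 (EL.cons 5 (TM.mk (P.cons (P.lf 4502559014 0 0) (P.cons (P.lf 0 81083452 0) (P.cons (P.lf 6657460 0 0) (P.cons (P.lf 318104 0 0) (P.cons (P.lf 0 10096 0) (P.cons (P.lf 0 672 0) P.nil)))))) 143)
 (EL.cons 9 (TM.mk (P.lf 6442450944 0 0) 2)
 EL.nil))))
noncomputable def S212_227_438_475_1 : EL := (EL.cons 0 (TM.mk (P.cons (P.cons (P.lf 2646677230 0 0) (P.cons (P.lf 0 274759331 0) (P.cons (P.lf 0 3346445 0) (P.lf 371824 0 0)))) (P.cons (P.cons (P.lf 266916420 0 0) (P.cons (P.lf 0 58177475 0) (P.cons (P.lf 0 708566 0) (P.lf 78716 0 0)))) (P.cons (P.cons (P.lf 0 119428839 0) (P.cons (P.lf 2029229 0 0) (P.cons (P.lf 24711 0 0) (P.lf 0 2742 0)))) (P.cons (P.cons (P.lf 0 2866966 0) (P.cons (P.lf 653829 0 0) (P.cons (P.lf 7953 0 0) P.nil))) (P.cons (P.cons (P.lf 981249 0 0) (P.cons (P.lf 2258 0 0) P.nil)) (P.cons (P.cons (P.lf 29309 0 0) P.nil) P.nil)))))) 11801)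
 (EL.cons 1 (TM.mk (P.cons (P.cons (P.lf 0 133572541 0) (P.cons (P.lf 111773474 0 0) (P.cons (P.lf 1361344 0 0) (P.lf 0 151253 0)))) (P.cons (P.cons (P.lf 331959896 0 0) (P.cons (P.lf 0 9169036 0) (P.cons (P.lf 0 111671 0) (P.lf 12405 0 0)))) (P.cons (P.cons (P.lf 18265372 0 0) (P.cons (P.lf 0 3517217 0) (P.cons (P.lf 0 42831 0) (P.lf 4752 0 0)))) (P.cons (P.cons (P.lf 0 6073080 0) (P.cons (P.lf 14260 0 0) (P.cons (P.lf 175 0 0) P.nil))) (P.cons (P.cons (P.lf 0 202722 0) (P.cons (P.lf 26493 0 0) P.nil)) (P.cons (P.cons (P.lf 35803 0 0) P.nil) P.nil)))))) 5373)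
 (EL.cons 5 (TM.mk (P.cons (P.cons (P.lf 1294689251 0 0) (P.cons (P.lf 0 230091830 0) (P.cons (P.lf 0 2802414 0) (P.lf 311384 0 0)))) (P.cons (P.cons (P.lf 0 156657173 0) (P.cons (P.lf 134284 0 0) (P.cons (P.lf 1628 0 0) (P.lf 0 180 0)))) (P.cons (P.cons (P.lf 2309177 0 0) (P.cons (P.lf 751122 0 0) (P.cons (P.lf 9148 0 0) (P.lf 0 1020 0)))) (P.cons (P.cons (P.lf 1915456 0 0) (P.cons (P.lf 0 115088 0) (P.cons (P.lf 0 1398 0) P.nil))) (P.cons (P.cons (P.lf 0 183447 0) (P.cons (P.lf 0 3514 0) P.nil)) (P.cons (P.cons (P.lf 0 11074 0) P.nil) P.nil)))))) 6502)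
 (EL.cons 9 (TM.mk (P.cons (P.cons (P.lf 1972702969 0 0) (P.cons (P.lf 0 289221210 0) (P.cons (P.lf 0 3522582 0) (P.lf 391392 0 0)))) (P.cons (P.cons (P.lf 0 54488433 0) (P.cons (P.lf 0 18133266 0) (P.cons (P.lf 0 220854 0) (P.lf 24534 0 0)))) (P.cons (P.cons (P.lf 0 35430351 0) (P.cons (P.lf 1299366 0 0) (P.cons (P.lf 15822 0 0) (P.lf 0 1758 0)))) (P.cons (P.cons (P.lf 790668 0 0) (P.cons (P.lf 103572 0 0) (P.cons (P.lf 1254 0 0) P.nil))) (P.cons (P.cons (P.lf 145966 0 0) (P.cons (P.lf 0 2388 0) P.nil)) (P.cons (P.cons (P.lf 0 576 0) P.nil) P.nil)))))) 1460)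
 (EL.cons 2 (TM.mk (P.cons (P.cons (P.lf 727579704 0 0) (P.cons (P.lf 20589780 0 0) (P.cons (P.lf 0 3361800 0) (P.cons (P.lf 0 23273 0) (P.lf 1937 0 0))))) (P.cons (P.cons (P.lf 0 111681720 0) (P.cons (P.lf 0 3160482 0) (P.cons (P.lf 516026 0 0) (P.cons (P.lf 3571 0 0) (P.lf 0 295 0))))) (P.cons (P.cons (P.lf 0 10644482 0) (P.cons (P.lf 0 301227 0) (P.cons (P.lf 49182 0 0) (P.cons (P.lf 337 0 0) P.nil)))) (P.cons (P.cons (P.lf 402212 0 0) (P.cons (P.lf 11382 0 0) (P.cons (P.lf 0 1859 0) P.nil))) (P.cons (P.cons (P.lf 43531 0 0) (P.cons (P.lf 1229 0 0) P.nil)) (P.cons (P.cons (P.lf 0 500 0) P.nil) P.nil)))))) 636)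
 (EL.cons 6 (TM.mk (P.cons (P.cons (P.lf 1326227625 0 0) (P.cons (P.lf 37530921 0 0) (P.cons (P.lf 0 6127872 0) (P.cons (P.lf 0 42426 0) (P.lf 3534 0 0))))) (P.cons (P.cons (P.lf 83150337 0 0) (P.cons (P.lf 2353068 0 0) (P.cons (P.lf 0 384198 0) (P.cons (P.lf 0 2658 0) (P.lf 219 0 0))))) (P.cons (P.cons (P.lf 0 5958285 0) (P.cons (P.lf 0 168612 0) (P.cons (P.lf 27528 0 0) (P.cons (P.lf 189 0 0) P.nil)))) (P.cons (P.cons (P.lf 0 474945 0) (P.cons (P.lf 0 13437 0) (P.cons (P.lf 2193 0 0) P.nil))) (P.cons (P.cons (P.lf 10977 0 0) (P.cons (P.lf 309 0 0) P.nil)) (P.cons (P.cons (P.lf 1380 0 0) P.nil) P.nil)))))) 495)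
 EL.nil))))))
noncomputable def S212_227_438_475_2 : EL := (EL.cons 0 (TM.mk (P.cons (P.cons (P.lf 882773134 0 0) (P.cons (P.lf 0 189479559 0) (P.cons (P.lf 6496954 0 0) (P.cons (P.lf 470896 0 0) (P.cons (P.lf 0 22528 0) (P.cons (P.lf 0 297 0) P.nil)))))) (P.cons (P.cons (P.lf 138082943 0 0) (P.cons (P.lf 0 55984247 0) (P.cons (P.lf 3639405 0 0) (P.cons (P.lf 181005 0 0) (P.cons (P.lf 0 11044 0) P.nil))))) (P.cons (P.cons (P.lf 0 77879327 0) (P.cons (P.lf 10008071 0 0) (P.cons (P.lf 216643 0 0) (P.cons (P.lf 0 11233 0) P.nil)))) (P.cons (P.cons (P.lf 0 2607036 0) (P.cons (P.lf 1659127 0 0) (P.cons (P.lf 0 53068 0) P.nil))) (P.cons (P.cons (P.lf 1710125 0 0) (P.cons (P.lf 0 123039 0) P.nil)) (P.cons (P.cons (P.lf 19847 0 0) P.nil) P.nil)))))) 62972)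
 (EL.cons 1 (TM.mk (P.cons (P.cons (P.lf 17983228 0 0) (P.cons (P.lf 51184866 0 0) (P.cons (P.lf 0 7267436 0) (P.cons (P.lf 0 261470 0) (P.cons (P.lf 20175 0 0) (P.cons (P.lf 256 0 0) P.nil)))))) (P.cons (P.cons (P.lf 182639892 0 0) (P.cons (P.lf 0 32482948 0) (P.cons (P.lf 0 306681 0) (P.cons (P.lf 46121 0 0) (P.cons (P.lf 0 228 0) P.nil))))) (P.cons (P.cons (P.lf 3589784 0 0) (P.cons (P.lf 0 5639399 0) (P.cons (P.lf 266646 0 0) (P.cons (P.lf 15787 0 0) P.nil)))) (P.cons (P.cons (P.lf 0 6826969 0) (P.cons (P.lf 669477 0 0) (P.cons (P.lf 24230 0 0) P.nil))) (P.cons (P.cons (P.lf 0 101661 0) (P.cons (P.lf 109747 0 0) P.nil)) (P.cons (P.cons (P.lf 98621 0 0) P.nil) P.nil)))))) 29525)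
 (EL.cons 5 (TM.mk (P.cons (P.cons (P.lf 370714160 0 0) (P.cons (P.lf 0 133366927 0) (P.cons (P.lf 9960301 0 0) (P.cons (P.lf 462661 0 0) (P.cons (P.lf 0 29634 0) (P.cons (P.lf 0 371 0) P.nil)))))) (P.cons (P.cons (P.lf 0 86914500 0) (P.cons (P.lf 12864498 0 0) (P.cons (P.lf 465439 0 0) (P.cons (P.lf 0 9873 0) (P.cons (P.lf 0 802 0) P.nil))))) (P.cons (P.cons (P.lf 3621853 0 0) (P.cons (P.lf 1296359 0 0) (P.cons (P.lf 0 92273 0) (P.cons (P.lf 0 4395 0) P.nil)))) (P.cons (P.cons (P.lf 2154939 0 0) (P.cons (P.lf 0 397343 0) (P.cons (P.lf 2375 0 0) P.nil))) (P.cons (P.cons (P.lf 0 301054 0) (P.cons (P.lf 3997 0 0) P.nil)) (P.cons (P.cons (P.lf 0 20111 0) P.nil) P.nil)))))) 29823)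
 (EL.cons 9 (TM.mk (P.cons (P.cons (P.lf 604049148 0 0) (P.cons (P.lf 0 177121267 0) (P.cons (P.lf 10826763 0 0) (P.cons (P.lf 555969 0 0) (P.cons (P.lf 0 33214 0) (P.cons (P.lf 0 427 0) P.nil)))))) (P.cons (P.cons (P.lf 0 33369130 0) (P.cons (P.lf 0 6212646 0) (P.cons (P.lf 1552447 0 0) (P.cons (P.lf 48063 0 0) (P.cons (P.lf 0 4164 0) P.nil))))) (P.cons (P.cons (P.lf 0 21236968 0) (P.cons (P.lf 4283625 0 0) (P.cons (P.lf 0 13455 0) (P.cons (P.lf 0 7393 0) P.nil)))) (P.cons (P.cons (P.lf 1083529 0 0) (P.cons (P.lf 169905 0 0) (P.cons (P.lf 0 14548 0) P.nil))) (P.cons (P.cons (P.lf 270865 0 0) (P.cons (P.lf 0 35062 0) P.nil)) (P.cons (P.cons (P.lf 0 11517 0) P.nil) P.nil)))))) 8393)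
 (EL.cons 2 (TM.mk (P.cons (P.cons (P.lf 445575341 0 0) (P.cons (P.lf 0 52717185 0) (P.cons (P.lf 0 4703113 0) (P.cons (P.lf 353475 0 0) (P.cons (P.lf 9450 0 0) (P.cons (P.lf 0 556 0) P.nil)))))) (P.cons (P.cons (P.lf 0 80702060 0) (P.cons (P.lf 3647902 0 0) (P.cons (P.lf 612990 0 0) (P.cons (P.lf 0 30808 0) (P.cons (P.lf 0 961 0) P.nil))))) (P.cons (P.cons (P.lf 0 12632287 0) (P.cons (P.lf 1520420 0 0) (P.cons (P.lf 134375 0 0) (P.cons (P.lf 0 10164 0) P.nil)))) (P.cons (P.cons (P.lf 1833350 0 0) (P.cons (P.lf 54033 0 0) (P.cons (P.lf 0 8381 0) P.nil))) (P.cons (P.cons (P.lf 142486 0 0) (P.cons (P.lf 0 10558 0) P.nil)) (P.cons (P.cons (P.lf 0 13269 0) P.nil) P.nil)))))) 6142)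
 (EL.cons 6 (TM.mk (P.cons (P.cons (P.lf 812191878 0 0) (P.cons (P.lf 0 96092556 0) (P.cons (P.lf 0 8572806 0) (P.cons (P.lf 644310 0 0) (P.cons (P.lf 17232 0 0) (P.cons (P.lf 0 1014 0) P.nil)))))) (P.cons (P.cons (P.lf 28488174 0 0) (P.cons (P.lf 0 14125296 0) (P.cons (P.lf 0 736032 0) (P.cons (P.lf 83136 0 0) (P.cons (P.lf 1962 0 0) P.nil))))) (P.cons (P.cons (P.lf 0 19642638 0) (P.cons (P.lf 45990 0 0) (P.cons (P.lf 115116 0 0) (P.cons (P.lf 0 2754 0) P.nil)))) (P.cons (P.cons (P.lf 0 779112 0) (P.cons (P.lf 130314 0 0) (P.cons (P.lf 9756 0 0) P.nil))) (P.cons (P.cons (P.lf 160794 0 0) (P.cons (P.lf 5520 0 0) P.nil)) (P.cons (P.cons (P.lf 7950 0 0) P.nil) P.nil)))))) 5394)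
 EL.nil))))))
noncomputable def S212_227_438_475_3 : EL := (EL.cons 0 (TM.mk (P.cons (P.lf 583851700 0 0) (P.cons (P.lf 0 228047217 0) (P.cons (P.lf 18724113 0 0) (P.cons (P.lf 894670 0 0) (P.cons (P.lf 0 28400 0) (P.cons (P.lf 0 1893 0) P.nil)))))) 140)
 (EL.cons 1 (TM.mk (P.cons (P.lf 1064241138 0 0) (P.cons (P.lf 0 185599968 0) (P.cons (P.lf 0 9632411 0) (P.cons (P.lf 474855 0 0) (P.cons (P.lf 25702 0 0) (P.cons (P.lf 0 519 0) P.nil)))))) 134)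
 (EL.cons 5 (TM.mk (P.cons (P.lf 1939891930 0 0) (P.cons (P.lf 81083452 0 0) (P.cons (P.lf 0 6657460 0) (P.cons (P.lf 0 318104 0) (P.cons (P.lf 10096 0 0) (P.cons (P.lf 672 0 0) P.nil)))))) 136)
 EL.nil)))
noncomputable def S212_227_438_475_4 : EL := (EL.cons 0 (TM.mk (P.cons (P.cons (P.lf 178777608 0 0) (P.cons (P.lf 0 26210877 0) (P.cons (P.lf 0 319236 0) (P.lf 35469 0 0)))) (P.cons (P.cons (P.lf 0 74766976 0) (P.cons (P.lf 8594391 0 0) (P.cons (P.lf 104674 0 0) (P.lf 0 11629 0)))) (P.cons (P.cons (P.lf 4451252 0 0) (P.cons (P.lf 0 80952 0) (P.cons (P.lf 0 986 0) (P.lf 108 0 0)))) (P.cons (P.cons (P.lf 1441390 0 0) (P.cons (P.lf 0 129473 0) (P.cons (P.lf 0 1576 0) P.nil))) (P.cons (P.cons (P.lf 0 133996 0) (P.cons (P.lf 0 1348 0) P.nil)) (P.cons (P.cons (P.lf 0 8179 0) P.nil) P.nil)))))) 2158)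
 (EL.cons 1 (TM.mk (P.cons (P.cons (P.lf 325874681 0 0) (P.cons (P.lf 0 47777019 0) (P.cons (P.lf 0 581900 0) (P.lf 64653 0 0)))) (P.cons (P.cons (P.lf 0 65832466 0) (P.cons (P.lf 5336675 0 0) (P.cons (P.lf 64996 0 0) (P.lf 0 7220 0)))) (P.cons (P.cons (P.lf 0 7232536 0) (P.cons (P.lf 1169471 0 0) (P.cons (P.lf 14240 0 0) (P.lf 0 1580 0)))) (P.cons (P.cons (P.lf 1378190 0 0) (P.cons (P.lf 0 14529 0) (P.cons (P.lf 0 176 0) P.nil))) (P.cons (P.cons (P.lf 58160 0 0) (P.cons (P.lf 0 7809 0) P.nil)) (P.cons (P.cons (P.lf 0 8469 0) P.nil) P.nil)))))) 1436)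
 (EL.cons 5 (TM.mk (P.cons (P.cons (P.lf 594002282 0 0) (P.cons (P.lf 0 87087646 0) (P.cons (P.lf 0 1060686 0) (P.lf 117850 0 0)))) (P.cons (P.cons (P.lf 8421002 0 0) (P.cons (P.lf 0 9100204 0) (P.cons (P.lf 0 110834 0) (P.lf 12312 0 0)))) (P.cons (P.cons (P.lf 0 13392782 0) (P.cons (P.lf 461904 0 0) (P.cons (P.lf 5624 0 0) (P.lf 0 624 0)))) (P.cons (P.cons (P.lf 0 248938 0) (P.cons (P.lf 80558 0 0) (P.cons (P.lf 978 0 0) P.nil))) (P.cons (P.cons (P.lf 96296 0 0) (P.cons (P.lf 0 314 0) P.nil)) (P.cons (P.cons (P.lf 2716 0 0) P.nil) P.nil)))))) 1244)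
 EL.nil)))
noncomputable def S212_227_438_475_5 : EL := (EL.cons 0 (TM.mk (P.cons (P.cons (P.lf 54742382 0 0) (P.cons (P.lf 0 16051740 0) (P.cons (P.lf 981182 0 0) (P.cons (P.lf 50384 0 0) (P.cons (P.lf 0 3009 0) (P.cons (P.lf 0 38 0) P.nil)))))) (P.cons (P.cons (P.lf 0 24405982 0) (P.cons (P.lf 5706639 0 0) (P.cons (P.lf 0 242548 0) (P.cons (P.lf 0 15322 0) (P.cons (P.lf 798 0 0) P.nil))))) (P.cons (P.cons (P.lf 1012157 0 0) (P.cons (P.lf 93339 0 0) (P.cons (P.lf 0 24704 0) (P.cons (P.lf 0 754 0) P.nil)))) (P.cons (P.cons (P.lf 836834 0 0) (P.cons (P.lf 0 178883 0) (P.cons (P.lf 5173 0 0) P.nil))) (P.cons (P.cons (P.lf 0 82824 0) (P.cons (P.lf 3174 0 0) P.nil)) (P.cons (P.cons (P.lf 0 10460 0) P.nil) P.nil)))))) 6917)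
 (EL.cons 1 (TM.mk (P.cons (P.cons (P.lf 99784065 0 0) (P.cons (P.lf 0 29259009 0) (P.cons (P.lf 1788493 0 0) (P.cons (P.lf 91839 0 0) (P.cons (P.lf 0 5484 0) (P.cons (P.lf 0 69 0) P.nil)))))) (P.cons (P.cons (P.lf 0 22914307 0) (P.cons (P.lf 4076388 0 0) (P.cons (P.lf 0 55453 0) (P.cons (P.lf 0 8075 0) (P.cons (P.lf 268 0 0) P.nil))))) (P.cons (P.cons (P.lf 0 3449988 0) (P.cons (P.lf 1151420 0 0) (P.cons (P.lf 0 63133 0) (P.cons (P.lf 0 3435 0) P.nil)))) (P.cons (P.cons (P.lf 885217 0 0) (P.cons (P.lf 0 99105 0) (P.cons (P.lf 0 3538 0) P.nil))) (P.cons (P.cons (P.lf 45230 0 0) (P.cons (P.lf 0 18255 0) P.nil)) (P.cons (P.cons (P.lf 0 13070 0) P.nil) P.nil)))))) 6027)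
 (EL.cons 5 (TM.mk (P.cons (P.cons (P.lf 181885756 0 0) (P.cons (P.lf 0 53333136 0) (P.cons (P.lf 3260054 0 0) (P.cons (P.lf 167408 0 0) (P.cons (P.lf 0 10000 0) (P.cons (P.lf 0 128 0) P.nil)))))) (P.cons (P.cons (P.lf 0 2445358 0) (P.cons (P.lf 0 4099908 0) (P.cons (P.lf 603720 0 0) (P.cons (P.lf 21468 0 0) (P.cons (P.lf 0 1670 0) P.nil))))) (P.cons (P.cons (P.lf 0 7438866 0) (P.cons (P.lf 1394686 0 0) (P.cons (P.lf 4298 0 0) (P.cons (P.lf 0 2194 0) P.nil)))) (P.cons (P.cons (P.lf 63634 0 0) (P.cons (P.lf 120236 0 0) (P.cons (P.lf 0 6688 0) P.nil))) (P.cons (P.cons (P.lf 119736 0 0) (P.cons (P.lf 0 12816 0) P.nil)) (P.cons (P.cons (P.lf 0 118 0) P.nil) P.nil)))))) 4762)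
 EL.nil)))
noncomputable def S212_227_438_475_6 : EL := (EL.cons 12 (TM.mk (P.lf 8589934592 0 0) 0)
 (EL.cons 3 (TM.mk (P.cons (P.lf 0 1119737460 0) (P.cons (P.lf 218679686 0 0) (P.cons (P.lf 3398598 0 0) (P.cons (P.lf 0 194190 0) (P.cons (P.lf 0 5531 0) (P.cons (P.lf 146 0 0) P.nil)))))) 52)
 (EL.cons 7 (TM.mk (P.cons (P.lf 0 2041050269 0) (P.cons (P.lf 0 42655831 0) (P.cons (P.lf 3948043 0 0) (P.cons (P.lf 84836 0 0) (P.cons (P.lf 0 3266 0) (P.cons (P.lf 0 122 0) P.nil)))))) 52)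
 EL.nil)))
noncomputable def S212_227_438_475_7 : EL := (EL.cons 12 (TM.mk (P.cons (P.cons (P.lf 2630270626 0 0) (P.cons (P.lf 0 385628280 0) (P.cons (P.lf 0 4696776 0) (P.lf 521856 0 0)))) (P.cons (P.cons (P.lf 0 72651244 0) (P.cons (P.lf 0 24177688 0) (P.cons (P.lf 0 294472 0) (P.lf 32712 0 0)))) (P.cons (P.cons (P.lf 0 47240468 0) (P.cons (P.lf 1732488 0 0) (P.cons (P.lf 21096 0 0) (P.lf 0 2344 0)))) (P.cons (P.cons (P.lf 1054224 0 0) (P.cons (P.lf 138096 0 0) (P.cons (P.lf 1672 0 0) P.nil))) (P.cons (P.cons (P.lf 194622 0 0) (P.cons (P.lf 0 3184 0) P.nil)) (P.cons (P.cons (P.lf 0 768 0) P.nil) P.nil)))))) 1922)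
 (EL.cons 3 (TM.mk (P.cons (P.cons (P.lf 0 796020647 0) (P.cons (P.lf 0 100536836 0) (P.cons (P.lf 0 1224490 0) (P.lf 136050 0 0)))) (P.cons (P.cons (P.lf 0 517737494 0) (P.cons (P.lf 13331044 0 0) (P.cons (P.lf 162364 0 0) (P.lf 0 18040 0)))) (P.cons (P.cons (P.lf 19260288 0 0) (P.cons (P.lf 1987834 0 0) (P.cons (P.lf 24208 0 0) (P.lf 0 2688 0)))) (P.cons (P.cons (P.lf 4287991 0 0) (P.cons (P.lf 0 50510 0) (P.cons (P.lf 0 616 0) P.nil))) (P.cons (P.cons (P.lf 0 10892 0) (P.cons (P.lf 0 10820 0) P.nil)) (P.cons (P.cons (P.lf 0 16290 0) P.nil) P.nil)))))) 3786)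
 (EL.cons 7 (TM.mk (P.cons (P.cons (P.lf 0 536585021 0) (P.cons (P.lf 121045146 0 0) (P.cons (P.lf 1474279 0 0) (P.lf 0 163813 0)))) (P.cons (P.cons (P.lf 100990285 0 0) (P.cons (P.lf 0 2600361 0) (P.cons (P.lf 0 31670 0) (P.lf 3517 0 0)))) (P.cons (P.cons (P.lf 0 14673692 0) (P.cons (P.lf 0 106661 0) (P.cons (P.lf 0 1299 0) (P.lf 145 0 0)))) (P.cons (P.cons (P.lf 0 179897 0) (P.cons (P.lf 62775 0 0) (P.cons (P.lf 760 0 0) P.nil))) (P.cons (P.cons (P.lf 124388 0 0) (P.cons (P.lf 33 0 0) P.nil)) (P.cons (P.cons (P.lf 1643 0 0) P.nil) P.nil)))))) 3744)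
 (EL.cons 10 (TM.mk (P.cons (P.cons (P.lf 0 2790771189 0) (P.cons (P.lf 0 78976047 0) (P.cons (P.lf 12894837 0 0) (P.cons (P.lf 89277 0 0) (P.lf 0 7437 0))))) (P.cons (P.cons (P.lf 0 116648436 0) (P.cons (P.lf 0 3301032 0) (P.cons (P.lf 538977 0 0) (P.cons (P.lf 3729 0 0) (P.lf 0 309 0))))) (P.cons (P.cons (P.lf 9577566 0 0) (P.cons (P.lf 271035 0 0) (P.cons (P.lf 0 44253 0) (P.cons (P.lf 0 306 0) P.nil)))) (P.cons (P.cons (P.lf 457629 0 0) (P.cons (P.lf 12948 0 0) (P.cons (P.lf 0 2112 0) P.nil))) (P.cons (P.cons (P.lf 0 14523 0) (P.cons (P.lf 0 411 0) P.nil)) (P.cons (P.cons (P.lf 0 966 0) P.nil) P.nil)))))) 453)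
 EL.nil))))
noncomputable def S212_227_438_475_8 : EL := (EL.cons 12 (TM.mk (P.cons (P.cons (P.lf 805398864 0 0) (P.cons (P.lf 0 236161690 0) (P.cons (P.lf 14435684 0 0) (P.cons (P.lf 741292 0 0) (P.cons (P.lf 0 44286 0) (P.cons (P.lf 0 570 0) P.nil)))))) (P.cons (P.cons (P.lf 0 44492174 0) (P.cons (P.lf 0 8283528 0) (P.cons (P.lf 2069930 0 0) (P.cons (P.lf 64084 0 0) (P.cons (P.lf 0 5552 0) P.nil))))) (P.cons (P.cons (P.lf 0 28315958 0) (P.cons (P.lf 5711500 0 0) (P.cons (P.lf 0 17940 0) (P.cons (P.lf 0 9858 0) P.nil)))) (P.cons (P.cons (P.lf 1444706 0 0) (P.cons (P.lf 226540 0 0) (P.cons (P.lf 0 19398 0) P.nil))) (P.cons (P.cons (P.lf 361154 0 0) (P.cons (P.lf 0 46750 0) P.nil)) (P.cons (P.cons (P.lf 0 15356 0) P.nil) P.nil)))))) 11162)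
 (EL.cons 3 (TM.mk (P.cons (P.cons (P.lf 0 382501652 0) (P.cons (P.lf 0 20882709 0) (P.cons (P.lf 11029169 0 0) (P.cons (P.lf 303114 0 0) (P.cons (P.lf 0 28860 0) (P.cons (P.lf 0 370 0) P.nil)))))) (P.cons (P.cons (P.lf 0 329904672 0) (P.cons (P.lf 65763649 0 0) (P.cons (P.lf 12233 0 0) (P.cons (P.lf 0 108205 0) (P.cons (P.lf 2015 0 0) P.nil))))) (P.cons (P.cons (P.lf 26431249 0 0) (P.cons (P.lf 4010604 0 0) (P.cons (P.lf 0 318749 0) (P.cons (P.lf 0 14377 0) P.nil)))) (P.cons (P.cons (P.lf 8744414 0 0) (P.cons (P.lf 0 1081655 0) (P.cons (P.lf 0 18808 0) P.nil))) (P.cons (P.cons (P.lf 0 433185 0) (P.cons (P.lf 0 74826 0) P.nil)) (P.cons (P.cons (P.lf 0 87997 0) P.nil) P.nil)))))) 29151)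
 (EL.cons 7 (TM.mk (P.cons (P.cons (P.lf 0 137238308 0) (P.cons (P.lf 66192562 0 0) (P.cons (P.lf 0 5948466 0) (P.cons (P.lf 0 254114 0) (P.cons (P.lf 17278 0 0) (P.cons (P.lf 219 0 0) P.nil)))))) (P.cons (P.cons (P.lf 64351462 0 0) (P.cons (P.lf 0 12827905 0) (P.cons (P.lf 0 2387 0) (P.cons (P.lf 21100 0 0) (P.cons (P.lf 0 393 0) P.nil))))) (P.cons (P.cons (P.lf 0 12111911 0) (P.cons (P.lf 604343 0 0) (P.cons (P.lf 62430 0 0) (P.cons (P.lf 528 0 0) P.nil)))) (P.cons (P.cons (P.lf 0 889295 0) (P.cons (P.lf 309129 0 0) (P.cons (P.lf 0 5296 0) P.nil))) (P.cons (P.cons (P.lf 347837 0 0) (P.cons (P.lf 0 20066 0) P.nil)) (P.cons (P.cons (P.lf 0 293 0) P.nil) P.nil)))))) 17441)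
 (EL.cons 10 (TM.mk (P.cons (P.cons (P.lf 0 1709089488 0) (P.cons (P.lf 202206870 0 0) (P.cons (P.lf 18039702 0 0) (P.cons (P.lf 0 1355826 0) (P.cons (P.lf 0 36264 0) (P.cons (P.lf 2136 0 0) P.nil)))))) (P.cons (P.cons (P.lf 0 24229272 0) (P.cons (P.lf 25497846 0 0) (P.cons (P.lf 1171818 0 0) (P.cons (P.lf 0 146610 0) (P.cons (P.lf 0 3372 0) P.nil))))) (P.cons (P.cons (P.lf 38534304 0 0) (P.cons (P.lf 0 238530 0) (P.cons (P.lf 0 231840 0) (P.cons (P.lf 6246 0 0) P.nil)))) (P.cons (P.cons (P.lf 716250 0 0) (P.cons (P.lf 0 211518 0) (P.cons (P.lf 0 12678 0) P.nil))) (P.cons (P.cons (P.lf 0 277068 0) (P.cons (P.lf 0 6930 0) P.nil)) (P.cons (P.cons (P.lf 0 7812 0) P.nil) P.nil)))))) 7866)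
 EL.nil))))
noncomputable def S212_227_438_475_9 : EL := (EL.cons 3 (TM.mk (P.cons (P.lf 0 1119737460 0) (P.cons (P.lf 218679686 0 0) (P.cons (P.lf 3398598 0 0) (P.cons (P.lf 0 194190 0) (P.cons (P.lf 0 5531 0) (P.cons (P.lf 146 0 0) P.nil)))))) 52)
 (EL.cons 7 (TM.mk (P.cons (P.lf 0 2041050269 0) (P.cons (P.lf 0 42655831 0) (P.cons (P.lf 3948043 0 0) (P.cons (P.lf 84836 0 0) (P.cons (P.lf 0 3266 0) (P.cons (P.lf 0 122 0) P.nil)))))) 52)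
 EL.nil))
noncomputable def S212_227_438_475_10 : EL := (EL.cons 3 (TM.mk (P.cons (P.cons (P.lf 0 342867866 0) (P.cons (P.lf 50268418 0 0) (P.cons (P.lf 612245 0 0) (P.lf 0 68025 0)))) (P.cons (P.cons (P.lf 76430974 0 0) (P.cons (P.lf 0 6665522 0) (P.cons (P.lf 0 81182 0) (P.lf 9020 0 0)))) (P.cons (P.cons (P.lf 5349144 0 0) (P.cons (P.lf 0 993917 0) (P.cons (P.lf 0 12104 0) (P.lf 1344 0 0)))) (P.cons (P.cons (P.lf 0 1428260 0) (P.cons (P.lf 25255 0 0) (P.cons (P.lf 308 0 0) P.nil))) (P.cons (P.cons (P.lf 0 17273 0) (P.cons (P.lf 5410 0 0) P.nil)) (P.cons (P.cons (P.lf 6630 0 0) P.nil) P.nil)))))) 863)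
 (EL.cons 7 (TM.mk (P.cons (P.cons (P.lf 0 624977351 0) (P.cons (P.lf 91628952 0 0) (P.cons (P.lf 1115998 0 0) (P.lf 0 123997 0)))) (P.cons (P.cons (P.lf 4201249 0 0) (P.cons (P.lf 7659798 0 0) (P.cons (P.lf 93292 0 0) (P.lf 0 10364 0)))) (P.cons (P.cons (P.lf 12794461 0 0) (P.cons (P.lf 0 468833 0) (P.cons (P.lf 0 5709 0) (P.lf 634 0 0)))) (P.cons (P.cons (P.lf 0 23321 0) (P.cons (P.lf 0 56337 0) (P.cons (P.lf 0 683 0) P.nil))) (P.cons (P.cons (P.lf 0 74908 0) (P.cons (P.lf 774 0 0) P.nil)) (P.cons (P.cons (P.lf 0 775 0) P.nil) P.nil)))))) 803)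
 EL.nil))
noncomputable def S212_227_438_475_11 : EL := (EL.cons 3 (TM.mk (P.cons (P.cons (P.lf 0 104987444 0) (P.cons (P.lf 30784761 0 0) (P.cons (P.lf 0 1881757 0) (P.cons (P.lf 0 96630 0) (P.cons (P.lf 5772 0 0) (P.cons (P.lf 74 0 0) P.nil)))))) (P.cons (P.cons (P.lf 26303334 0 0) (P.cons (P.lf 0 4932329 0) (P.cons (P.lf 97673 0 0) (P.cons (P.lf 10517 0 0) (P.cons (P.lf 0 403 0) P.nil))))) (P.cons (P.cons (P.lf 2877103 0 0) (P.cons (P.lf 0 1048836 0) (P.cons (P.lf 60745 0 0) (P.cons (P.lf 3209 0 0) P.nil)))) (P.cons (P.cons (P.lf 0 944992 0) (P.cons (P.lf 117931 0 0) (P.cons (P.lf 2564 0 0) P.nil))) (P.cons (P.cons (P.lf 0 21015 0) (P.cons (P.lf 14460 0 0) P.nil)) (P.cons (P.cons (P.lf 12449 0 0) P.nil) P.nil)))))) 4883)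
 (EL.cons 7 (TM.mk (P.cons (P.cons (P.lf 0 191370440 0) (P.cons (P.lf 56114266 0 0) (P.cons (P.lf 0 3430056 0) (P.cons (P.lf 0 176138 0) (P.cons (P.lf 10522 0 0) (P.cons (P.lf 135 0 0) P.nil)))))) (P.cons (P.cons (P.lf 6572320 0 0) (P.cons (P.lf 3140975 0 0) (P.cons (P.lf 0 563519 0) (P.cons (P.lf 0 18908 0) (P.cons (P.lf 1539 0 0) P.nil))))) (P.cons (P.cons (P.lf 7319251 0 0) (P.cons (P.lf 0 1424515 0) (P.cons (P.lf 618 0 0) (P.cons (P.lf 2364 0 0) P.nil)))) (P.cons (P.cons (P.lf 0 215159 0) (P.cons (P.lf 0 88329 0) (P.cons (P.lf 5792 0 0) P.nil))) (P.cons (P.cons (P.lf 0 106747 0) (P.cons (P.lf 12616 0 0) P.nil)) (P.cons (P.cons (P.lf 2245 0 0) P.nil) P.nil)))))) 3733)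
 EL.nil))
noncomputable def S212_227_438_475_12 : EL := (EL.cons 4 (TM.mk (P.cons (P.lf 1119737460 0 0) (P.cons (P.lf 0 218679686 0) (P.cons (P.lf 0 3398598 0) (P.cons (P.lf 194190 0 0) (P.cons (P.lf 5531 0 0) (P.cons (P.lf 0 146 0) P.nil)))))) 52)
 (EL.cons 8 (TM.mk (P.cons (P.lf 2041050269 0 0) (P.cons (P.lf 42655831 0 0) (P.cons (P.lf 0 3948043 0) (P.cons (P.lf 0 84836 0) (P.cons (P.lf 3266 0 0) (P.cons (P.lf 122 0 0) P.nil)))))) 52)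
 EL.nil))
noncomputable def S212_227_438_475_13 : EL := (EL.cons 4 (TM.mk (P.cons (P.cons (P.lf 342867866 0 0) (P.cons (P.lf 0 50268418 0) (P.cons (P.lf 0 612245 0) (P.lf 68025 0 0)))) (P.cons (P.cons (P.lf 0 76430974 0) (P.cons (P.lf 6665522 0 0) (P.cons (P.lf 81182 0 0) (P.lf 0 9020 0)))) (P.cons (P.cons (P.lf 0 5349144 0) (P.cons (P.lf 993917 0 0) (P.cons (P.lf 12104 0 0) (P.lf 0 1344 0)))) (P.cons (P.cons (P.lf 1428260 0 0) (P.cons (P.lf 0 25255 0) (P.cons (P.lf 0 308 0) P.nil))) (P.cons (P.cons (P.lf 17273 0 0) (P.cons (P.lf 0 5410 0) P.nil)) (P.cons (P.cons (P.lf 0 6630 0) P.nil) P.nil)))))) 863)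
 (EL.cons 8 (TM.mk (P.cons (P.cons (P.lf 624977351 0 0) (P.cons (P.lf 0 91628952 0) (P.cons (P.lf 0 1115998 0) (P.lf 123997 0 0)))) (P.cons (P.cons (P.lf 0 4201249 0) (P.cons (P.lf 0 7659798 0) (P.cons (P.lf 0 93292 0) (P.lf 10364 0 0)))) (P.cons (P.cons (P.lf 0 12794461 0) (P.cons (P.lf 468833 0 0) (P.cons (P.lf 5709 0 0) (P.lf 0 634 0)))) (P.cons (P.cons (P.lf 23321 0 0) (P.cons (P.lf 56337 0 0) (P.cons (P.lf 683 0 0) P.nil))) (P.cons (P.cons (P.lf 74908 0 0) (P.cons (P.lf 0 774 0) P.nil)) (P.cons (P.cons (P.lf 775 0 0) P.nil) P.nil)))))) 803)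
 EL.nil))
noncomputable def S212_227_438_475_14 : EL := (EL.cons 4 (TM.mk (P.cons (P.cons (P.lf 104987444 0 0) (P.cons (P.lf 0 30784761 0) (P.cons (P.lf 1881757 0 0) (P.cons (P.lf 96630 0 0) (P.cons (P.lf 0 5772 0) (P.cons (P.lf 0 74 0) P.nil)))))) (P.cons (P.cons (P.lf 0 26303334 0) (P.cons (P.lf 4932329 0 0) (P.cons (P.lf 0 97673 0) (P.cons (P.lf 0 10517 0) (P.cons (P.lf 403 0 0) P.nil))))) (P.cons (P.cons (P.lf 0 2877103 0) (P.cons (P.lf 1048836 0 0) (P.cons (P.lf 0 60745 0) (P.cons (P.lf 0 3209 0) P.nil)))) (P.cons (P.cons (P.lf 944992 0 0) (P.cons (P.lf 0 117931 0) (P.cons (P.lf 0 2564 0) P.nil))) (P.cons (P.cons (P.lf 21015 0 0) (P.cons (P.lf 0 14460 0) P.nil)) (P.cons (P.cons (P.lf 0 12449 0) P.nil) P.nil)))))) 4883)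
 (EL.cons 8 (TM.mk (P.cons (P.cons (P.lf 191370440 0 0) (P.cons (P.lf 0 56114266 0) (P.cons (P.lf 3430056 0 0) (P.cons (P.lf 176138 0 0) (P.cons (P.lf 0 10522 0) (P.cons (P.lf 0 135 0) P.nil)))))) (P.cons (P.cons (P.lf 0 6572320 0) (P.cons (P.lf 0 3140975 0) (P.cons (P.lf 563519 0 0) (P.cons (P.lf 18908 0 0) (P.cons (P.lf 0 1539 0) P.nil))))) (P.cons (P.cons (P.lf 0 7319251 0) (P.cons (P.lf 1424515 0 0) (P.cons (P.lf 0 618 0) (P.cons (P.lf 0 2364 0) P.nil)))) (P.cons (P.cons (P.lf 215159 0 0) (P.cons (P.lf 88329 0 0) (P.cons (P.lf 0 5792 0) P.nil))) (P.cons (P.cons (P.lf 106747 0 0) (P.cons (P.lf 0 12616 0) P.nil)) (P.cons (P.cons (P.lf 0 2245 0) P.nil) P.nil)))))) 3733)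
 EL.nil))
noncomputable def S212_227_438_475_15 : EL := (EL.cons 4 (TM.mk (P.cons (P.lf 0 311387573 0) (P.cons (P.lf 121625182 0 0) (P.cons (P.lf 0 9986193 0) (P.cons (P.lf 0 477157 0) (P.cons (P.lf 15147 0 0) (P.cons (P.lf 1009 0 0) P.nil)))))) 78)
 (EL.cons 8 (TM.mk (P.cons (P.lf 0 567595274 0) (P.cons (P.lf 98986650 0 0) (P.cons (P.lf 5137286 0 0) (P.cons (P.lf 0 253256 0) (P.cons (P.lf 0 13708 0) (P.cons (P.lf 277 0 0) P.nil)))))) 68)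
 EL.nil))
noncomputable def S212_227_438_475_16 : EL := (EL.cons 4 (TM.mk (P.cons (P.cons (P.lf 0 95348057 0) (P.cons (P.lf 13979134 0 0) (P.cons (P.lf 170259 0 0) (P.lf 0 18916 0)))) (P.cons (P.cons (P.lf 39875720 0 0) (P.cons (P.lf 0 4583675 0) (P.cons (P.lf 0 55826 0) (P.lf 6202 0 0)))) (P.cons (P.cons (P.lf 0 2374001 0) (P.cons (P.lf 43174 0 0) (P.cons (P.lf 525 0 0) (P.lf 0 58 0)))) (P.cons (P.cons (P.lf 0 768741 0) (P.cons (P.lf 69052 0 0) (P.cons (P.lf 840 0 0) P.nil))) (P.cons (P.cons (P.lf 71464 0 0) (P.cons (P.lf 719 0 0) P.nil)) (P.cons (P.cons (P.lf 4362 0 0) P.nil) P.nil)))))) 1159)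
 (EL.cons 8 (TM.mk (P.cons (P.cons (P.lf 0 173799830 0) (P.cons (P.lf 25481077 0 0) (P.cons (P.lf 310347 0 0) (P.lf 0 34482 0)))) (P.cons (P.cons (P.lf 35110649 0 0) (P.cons (P.lf 0 2846227 0) (P.cons (P.lf 0 34665 0) (P.lf 3851 0 0)))) (P.cons (P.cons (P.lf 3857353 0 0) (P.cons (P.lf 0 623718 0) (P.cons (P.lf 0 7595 0) (P.lf 843 0 0)))) (P.cons (P.cons (P.lf 0 735035 0) (P.cons (P.lf 7749 0 0) (P.cons (P.lf 94 0 0) P.nil))) (P.cons (P.cons (P.lf 0 31019 0) (P.cons (P.lf 4165 0 0) P.nil)) (P.cons (P.cons (P.lf 4517 0 0) P.nil) P.nil)))))) 756)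
 EL.nil))
noncomputable def S212_227_438_475_17 : EL := (EL.cons 4 (TM.mk (P.cons (P.cons (P.lf 0 29195937 0) (P.cons (P.lf 8560928 0 0) (P.cons (P.lf 0 523297 0) (P.cons (P.lf 0 26871 0) (P.cons (P.lf 1605 0 0) (P.cons (P.lf 20 0 0) P.nil)))))) (P.cons (P.cons (P.lf 13016523 0 0) (P.cons (P.lf 0 3043541 0) (P.cons (P.lf 129359 0 0) (P.cons (P.lf 8172 0 0) (P.cons (P.lf 0 425 0) P.nil))))) (P.cons (P.cons (P.lf 0 539817 0) (P.cons (P.lf 0 49781 0) (P.cons (P.lf 13175 0 0) (P.cons (P.lf 402 0 0) P.nil)))) (P.cons (P.cons (P.lf 0 446311 0) (P.cons (P.lf 95404 0 0) (P.cons (P.lf 0 2759 0) P.nil))) (P.cons (P.cons (P.lf 44173 0 0) (P.cons (P.lf 0 1693 0) P.nil)) (P.cons (P.cons (P.lf 5579 0 0) P.nil) P.nil)))))) 3699)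
 (EL.cons 8 (TM.mk (P.cons (P.cons (P.lf 0 53218168 0) (P.cons (P.lf 15604805 0 0) (P.cons (P.lf 0 953863 0) (P.cons (P.lf 0 48981 0) (P.cons (P.lf 2925 0 0) (P.cons (P.lf 37 0 0) P.nil)))))) (P.cons (P.cons (P.lf 12220964 0 0) (P.cons (P.lf 0 2174074 0) (P.cons (P.lf 29575 0 0) (P.cons (P.lf 4307 0 0) (P.cons (P.lf 0 143 0) P.nil))))) (P.cons (P.cons (P.lf 1839994 0 0) (P.cons (P.lf 0 614091 0) (P.cons (P.lf 33671 0 0) (P.cons (P.lf 1832 0 0) P.nil)))) (P.cons (P.cons (P.lf 0 472116 0) (P.cons (P.lf 52856 0 0) (P.cons (P.lf 1887 0 0) P.nil))) (P.cons (P.cons (P.lf 0 24123 0) (P.cons (P.lf 9736 0 0) P.nil)) (P.cons (P.cons (P.lf 6971 0 0) P.nil) P.nil)))))) 3203)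
 EL.nil))
noncomputable def S212_227_438_475_18 : EL := (EL.cons 4 (TM.mk (P.cons (P.lf 86593710 0 0) (P.cons (P.lf 0 50734084 0) (P.cons (P.lf 9119656 0 0) (P.cons (P.lf 0 291978 0) (P.cons (P.lf 0 43993 0) (P.cons (P.lf 441 0 0) P.nil)))))) 153)
 (EL.cons 8 (TM.mk (P.cons (P.lf 157842459 0 0) (P.cons (P.lf 0 58353100 0) (P.cons (P.lf 3468227 0 0) (P.cons (P.lf 460355 0 0) (P.cons (P.lf 0 9599 0) (P.cons (P.lf 0 1439 0) P.nil)))))) 99)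
 EL.nil))
noncomputable def S212_227_438_475_19 : EL := (EL.cons 4 (TM.mk (P.cons (P.cons (P.lf 26515322 0 0) (P.cons (P.lf 0 3887454 0) (P.cons (P.lf 0 47346 0) (P.lf 5260 0 0)))) (P.cons (P.cons (P.lf 0 16267354 0) (P.cons (P.lf 2033875 0 0) (P.cons (P.lf 24771 0 0) (P.lf 0 2751 0)))) (P.cons (P.cons (P.lf 2745344 0 0) (P.cons (P.lf 0 249145 0) (P.cons (P.lf 0 3033 0) (P.lf 336 0 0)))) (P.cons (P.cons (P.lf 123103 0 0) (P.cons (P.lf 0 21400 0) (P.cons (P.lf 0 260 0) P.nil))) (P.cons (P.cons (P.lf 0 65418 0) (P.cons (P.lf 3787 0 0) P.nil)) (P.cons (P.cons (P.lf 2074 0 0) P.nil) P.nil)))))) 1162)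
 (EL.cons 8 (TM.mk (P.cons (P.cons (P.lf 48331960 0 0) (P.cons (P.lf 0 7086027 0) (P.cons (P.lf 0 86304 0) (P.lf 9588 0 0)))) (P.cons (P.cons (P.lf 0 19202927 0) (P.cons (P.lf 2175376 0 0) (P.cons (P.lf 26494 0 0) (P.lf 0 2943 0)))) (P.cons (P.cons (P.lf 687461 0 0) (P.cons (P.lf 40379 0 0) (P.cons (P.lf 491 0 0) (P.lf 0 54 0)))) (P.cons (P.cons (P.lf 451914 0 0) (P.cons (P.lf 0 39659 0) (P.cons (P.lf 0 482 0) P.nil))) (P.cons (P.cons (P.lf 0 29491 0) (P.cons (P.lf 0 1161 0) P.nil)) (P.cons (P.cons (P.lf 0 3801 0) P.nil) P.nil)))))) 856)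
 EL.nil))
noncomputable def S212_227_438_475_20 : EL := (EL.cons 4 (TM.mk (P.cons (P.cons (P.lf 8119092 0 0) (P.cons (P.lf 0 2380706 0) (P.cons (P.lf 145523 0 0) (P.cons (P.lf 7472 0 0) (P.cons (P.lf 0 446 0) (P.cons (P.lf 0 5 0) P.nil)))))) (P.cons (P.cons (P.lf 0 5205384 0) (P.cons (P.lf 1311318 0 0) (P.cons (P.lf 0 64393 0) (P.cons (P.lf 0 3732 0) (P.cons (P.lf 205 0 0) P.nil))))) (P.cons (P.cons (P.lf 832397 0 0) (P.cons (P.lf 0 144224 0) (P.cons (P.lf 2919 0 0) (P.cons (P.lf 308 0 0) P.nil)))) (P.cons (P.cons (P.lf 107191 0 0) (P.cons (P.lf 0 32216 0) (P.cons (P.lf 1617 0 0) P.nil))) (P.cons (P.cons (P.lf 0 37566 0) (P.cons (P.lf 5745 0 0) P.nil)) (P.cons (P.cons (P.lf 477 0 0) P.nil) P.nil)))))) 2390)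
 (EL.cons 8 (TM.mk (P.cons (P.cons (P.lf 14799429 0 0) (P.cons (P.lf 0 4339537 0) (P.cons (P.lf 265259 0 0) (P.cons (P.lf 13621 0 0) (P.cons (P.lf 0 813 0) (P.cons (P.lf 0 10 0) P.nil)))))) (P.cons (P.cons (P.lf 0 6288787 0) (P.cons (P.lf 1452080 0 0) (P.cons (P.lf 0 60028 0) (P.cons (P.lf 0 3857 0) (P.cons (P.lf 198 0 0) P.nil))))) (P.cons (P.cons (P.lf 107113 0 0) (P.cons (P.lf 65870 0 0) (P.cons (P.lf 0 8562 0) (P.cons (P.lf 0 316 0) P.nil)))) (P.cons (P.cons (P.lf 244101 0 0) (P.cons (P.lf 0 50637 0) (P.cons (P.lf 1374 0 0) P.nil))) (P.cons (P.cons (P.lf 0 17894 0) (P.cons (P.lf 0 272 0) P.nil)) (P.cons (P.cons (P.lf 0 3754 0) P.nil) P.nil)))))) 2237)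
 EL.nil))
noncomputable def S212_227_438_475_21 : EL := (EL.cons 4 (TM.mk (P.cons (P.cons (P.lf 453152781 0 0) (P.cons (P.lf 150805254 0 0) (P.cons (P.lf 1836735 0 0) (P.lf 0 204075 0)))) (P.cons (P.cons (P.lf 594168468 0 0) (P.cons (P.lf 0 19996566 0) (P.cons (P.lf 0 243546 0) (P.lf 27060 0 0)))) (P.cons (P.cons (P.lf 0 13911144 0) (P.cons (P.lf 0 2981751 0) (P.cons (P.lf 0 36312 0) (P.lf 4032 0 0)))) (P.cons (P.cons (P.lf 0 5716251 0) (P.cons (P.lf 75765 0 0) (P.cons (P.lf 924 0 0) P.nil))) (P.cons (P.cons (P.lf 0 6381 0) (P.cons (P.lf 16230 0 0) P.nil)) (P.cons (P.cons (P.lf 22920 0 0) P.nil) P.nil)))))) 2904)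
 (EL.cons 8 (TM.mk (P.cons (P.cons (P.lf 0 88392330 0) (P.cons (P.lf 0 29416194 0) (P.cons (P.lf 0 358281 0) (P.lf 39816 0 0)))) (P.cons (P.cons (P.lf 0 96789036 0) (P.cons (P.lf 10260159 0 0) (P.cons (P.lf 124962 0 0) (P.lf 0 13881 0)))) (P.cons (P.cons (P.lf 27468153 0 0) (P.cons (P.lf 0 362172 0) (P.cons (P.lf 0 4410 0) (P.lf 489 0 0)))) (P.cons (P.cons (P.lf 156576 0 0) (P.cons (P.lf 0 119112 0) (P.cons (P.lf 0 1443 0) P.nil))) (P.cons (P.cons (P.lf 0 199296 0) (P.cons (P.lf 741 0 0) P.nil)) (P.cons (P.cons (P.lf 0 2418 0) P.nil) P.nil)))))) 2922)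
 (EL.cons 11 (TM.mk (P.cons (P.cons (P.lf 2790771189 0 0) (P.cons (P.lf 78976047 0 0) (P.cons (P.lf 0 12894837 0) (P.cons (P.lf 0 89277 0) (P.lf 7437 0 0))))) (P.cons (P.cons (P.lf 116648436 0 0) (P.cons (P.lf 3301032 0 0) (P.cons (P.lf 0 538977 0) (P.cons (P.lf 0 3729 0) (P.lf 309 0 0))))) (P.cons (P.cons (P.lf 0 9577566 0) (P.cons (P.lf 0 271035 0) (P.cons (P.lf 44253 0 0) (P.cons (P.lf 306 0 0) P.nil)))) (P.cons (P.cons (P.lf 0 457629 0) (P.cons (P.lf 0 12948 0) (P.cons (P.lf 2112 0 0) P.nil))) (P.cons (P.cons (P.lf 14523 0 0) (P.cons (P.lf 411 0 0) P.nil)) (P.cons (P.cons (P.lf 966 0 0) P.nil) P.nil)))))) 453)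
 EL.nil)))
noncomputable def S212_227_438_475_22 : EL := (EL.cons 4 (TM.mk (P.cons (P.cons (P.lf 138757104 0 0) (P.cons (P.lf 25833735 0 0) (P.cons (P.lf 0 6455463 0) (P.cons (P.lf 0 199872 0) (P.cons (P.lf 17316 0 0) (P.cons (P.lf 222 0 0) P.nil)))))) (P.cons (P.cons (P.lf 178104003 0 0) (P.cons (P.lf 0 35347989 0) (P.cons (P.lf 42720 0 0) (P.cons (P.lf 59361 0 0) (P.cons (P.lf 0 1209 0) P.nil))))) (P.cons (P.cons (P.lf 0 11777073 0) (P.cons (P.lf 0 2529720 0) (P.cons (P.lf 189747 0 0) (P.cons (P.lf 8793 0 0) P.nil)))) (P.cons (P.cons (P.lf 0 4844703 0) (P.cons (P.lf 599793 0 0) (P.cons (P.lf 10686 0 0) P.nil))) (P.cons (P.cons (P.lf 206085 0 0) (P.cons (P.lf 44643 0 0) P.nil)) (P.cons (P.cons (P.lf 50223 0 0) P.nil) P.nil)))))) 12123)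
 (EL.cons 8 (TM.mk (P.cons (P.cons (P.lf 0 27066066 0) (P.cons (P.lf 0 5039148 0) (P.cons (P.lf 1259205 0 0) (P.cons (P.lf 38988 0 0) (P.cons (P.lf 0 3378 0) (P.cons (P.lf 0 42 0) P.nil)))))) (P.cons (P.cons (P.lf 0 28889571 0) (P.cons (P.lf 7984440 0 0) (P.cons (P.lf 0 280566 0) (P.cons (P.lf 0 20004 0) (P.cons (P.lf 966 0 0) P.nil))))) (P.cons (P.cons (P.lf 9715581 0 0) (P.cons (P.lf 0 1014429 0) (P.cons (P.lf 0 30906 0) (P.cons (P.lf 918 0 0) P.nil)))) (P.cons (P.cons (P.lf 337068 0 0) (P.cons (P.lf 0 198729 0) (P.cons (P.lf 5544 0 0) P.nil))) (P.cons (P.cons (P.lf 0 227292 0) (P.cons (P.lf 16341 0 0) P.nil)) (P.cons (P.cons (P.lf 1269 0 0) P.nil) P.nil)))))) 6843)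
 (EL.cons 11 (TM.mk (P.cons (P.cons (P.lf 854544744 0 0) (P.cons (P.lf 0 101103435 0) (P.cons (P.lf 0 9019851 0) (P.cons (P.lf 677913 0 0) (P.cons (P.lf 18132 0 0) (P.cons (P.lf 0 1068 0) P.nil)))))) (P.cons (P.cons (P.lf 12114636 0 0) (P.cons (P.lf 0 12748923 0) (P.cons (P.lf 0 585909 0) (P.cons (P.lf 73305 0 0) (P.cons (P.lf 1686 0 0) P.nil))))) (P.cons (P.cons (P.lf 0 19267152 0) (P.cons (P.lf 119265 0 0) (P.cons (P.lf 115920 0 0) (P.cons (P.lf 0 3123 0) P.nil)))) (P.cons (P.cons (P.lf 0 358125 0) (P.cons (P.lf 105759 0 0) (P.cons (P.lf 6339 0 0) P.nil))) (P.cons (P.cons (P.lf 138534 0 0) (P.cons (P.lf 3465 0 0) P.nil)) (P.cons (P.cons (P.lf 3906 0 0) P.nil) P.nil)))))) 3933)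
 EL.nil)))
noncomputable def S212_227_438_475_23 : EL := (EL.cons 4 (TM.mk (P.cons (P.cons (P.lf 0 126017169 0) (P.cons (P.lf 0 41937402 0) (P.cons (P.lf 0 510777 0) (P.lf 56751 0 0)))) (P.cons (P.cons (P.lf 0 140621607 0) (P.cons (P.lf 13751025 0 0) (P.cons (P.lf 167478 0 0) (P.lf 0 18606 0)))) (P.cons (P.cons (P.lf 36520134 0 0) (P.cons (P.lf 0 129525 0) (P.cons (P.lf 0 1578 0) (P.lf 174 0 0)))) (P.cons (P.cons (P.lf 1313775 0 0) (P.cons (P.lf 0 207156 0) (P.cons (P.lf 0 2523 0) P.nil))) (P.cons (P.cons (P.lf 0 349692 0) (P.cons (P.lf 0 2157 0) P.nil)) (P.cons (P.cons (P.lf 0 11673 0) P.nil) P.nil)))))) 4134)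
 (EL.cons 8 (TM.mk (P.cons (P.cons (P.lf 24581004 0 0) (P.cons (P.lf 8180343 0 0) (P.cons (P.lf 99633 0 0) (P.lf 0 11070 0)))) (P.cons (P.cons (P.lf 22115484 0 0) (P.cons (P.lf 0 4450827 0) (P.cons (P.lf 0 54207 0) (P.lf 6021 0 0)))) (P.cons (P.cons (P.lf 0 12969801 0) (P.cons (P.lf 633111 0 0) (P.cons (P.lf 7710 0 0) (P.lf 0 855 0)))) (P.cons (P.cons (P.lf 1370811 0 0) (P.cons (P.lf 23532 0 0) (P.cons (P.lf 282 0 0) P.nil))) (P.cons (P.cons (P.lf 91899 0 0) (P.cons (P.lf 0 7434 0) P.nil)) (P.cons (P.cons (P.lf 0 11214 0) P.nil) P.nil)))))) 1707)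
 (EL.cons 11 (TM.mk (P.cons (P.cons (P.lf 0 776085018 0) (P.cons (P.lf 0 21962433 0) (P.cons (P.lf 3585921 0 0) (P.cons (P.lf 24825 0 0) (P.lf 0 2067 0))))) (P.cons (P.cons (P.lf 119127168 0 0) (P.cons (P.lf 3371181 0 0) (P.cons (P.lf 0 550428 0) (P.cons (P.lf 0 3810 0) (P.lf 315 0 0))))) (P.cons (P.cons (P.lf 11354115 0 0) (P.cons (P.lf 321309 0 0) (P.cons (P.lf 0 52461 0) (P.cons (P.lf 0 360 0) P.nil)))) (P.cons (P.cons (P.lf 0 429027 0) (P.cons (P.lf 0 12141 0) (P.cons (P.lf 1983 0 0) P.nil))) (P.cons (P.cons (P.lf 0 46434 0) (P.cons (P.lf 0 1311 0) P.nil)) (P.cons (P.cons (P.lf 534 0 0) P.nil) P.nil)))))) 657)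
 EL.nil)))
noncomputable def S212_227_438_475_24 : EL := (EL.cons 4 (TM.mk (P.cons (P.cons (P.lf 0 38586936 0) (P.cons (P.lf 0 7184097 0) (P.cons (P.lf 1795197 0 0) (P.cons (P.lf 55581 0 0) (P.cons (P.lf 0 4815 0) (P.cons (P.lf 0 60 0) P.nil)))))) (P.cons (P.cons (P.lf 0 41993052 0) (P.cons (P.lf 11232936 0 0) (P.cons (P.lf 0 362472 0) (P.cons (P.lf 0 27360 0) (P.cons (P.lf 1275 0 0) P.nil))))) (P.cons (P.cons (P.lf 13064973 0 0) (P.cons (P.lf 0 1194441 0) (P.cons (P.lf 0 55893 0) (P.cons (P.lf 609 0 0) P.nil)))) (P.cons (P.cons (P.lf 851289 0 0) (P.cons (P.lf 0 335265 0) (P.cons (P.lf 7680 0 0) P.nil))) (P.cons (P.cons (P.lf 0 339144 0) (P.cons (P.lf 19692 0 0) P.nil)) (P.cons (P.cons (P.lf 0 6534 0) P.nil) P.nil)))))) 12018)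
 (EL.cons 8 (TM.mk (P.cons (P.cons (P.lf 7526796 0 0) (P.cons (P.lf 1401336 0 0) (P.cons (P.lf 0 350172 0) (P.cons (P.lf 0 10842 0) (P.cons (P.lf 939 0 0) (P.cons (P.lf 12 0 0) P.nil)))))) (P.cons (P.cons (P.lf 6563946 0 0) (P.cons (P.lf 0 2494065 0) (P.cons (P.lf 146409 0 0) (P.cons (P.lf 7680 0 0) (P.cons (P.lf 0 450 0) P.nil))))) (P.cons (P.cons (P.lf 0 4293633 0) (P.cons (P.lf 711480 0 0) (P.cons (P.lf 0 5577 0) (P.cons (P.lf 0 1308 0) P.nil)))) (P.cons (P.cons (P.lf 410835 0 0) (P.cons (P.lf 7152 0 0) (P.cons (P.lf 0 3516 0) P.nil))) (P.cons (P.cons (P.lf 91143 0 0) (P.cons (P.lf 0 16569 0) P.nil)) (P.cons (P.cons (P.lf 0 12840 0) P.nil) P.nil)))))) 3537)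
 (EL.cons 11 (TM.mk (P.cons (P.cons (P.lf 0 237640182 0) (P.cons (P.lf 28115832 0 0) (P.cons (P.lf 2508327 0 0) (P.cons (P.lf 0 188520 0) (P.cons (P.lf 0 5040 0) (P.cons (P.lf 297 0 0) P.nil)))))) (P.cons (P.cons (P.lf 43041099 0 0) (P.cons (P.lf 0 1945548 0) (P.cons (P.lf 0 326928 0) (P.cons (P.lf 16431 0 0) (P.cons (P.lf 513 0 0) P.nil))))) (P.cons (P.cons (P.lf 6737220 0 0) (P.cons (P.lf 0 810891 0) (P.cons (P.lf 0 71667 0) (P.cons (P.lf 5421 0 0) P.nil)))) (P.cons (P.cons (P.lf 0 977787 0) (P.cons (P.lf 0 28818 0) (P.cons (P.lf 4470 0 0) P.nil))) (P.cons (P.cons (P.lf 0 75993 0) (P.cons (P.lf 5631 0 0) P.nil)) (P.cons (P.cons (P.lf 7077 0 0) P.nil) P.nil)))))) 3264)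
 EL.nil)))
noncomputable def S212_227_438_475_25 : EL := (EL.cons 4 (TM.mk (P.cons (P.cons (P.lf 35044089 0 0) (P.cons (P.lf 11662362 0 0) (P.cons (P.lf 142041 0 0) (P.lf 0 15780 0)))) (P.cons (P.cons (P.lf 32261481 0 0) (P.cons (P.lf 0 6101625 0) (P.cons (P.lf 0 74313 0) (P.lf 8256 0 0)))) (P.cons (P.cons (P.lf 0 17899356 0) (P.cons (P.lf 747435 0 0) (P.cons (P.lf 9102 0 0) (P.lf 0 1011 0)))) (P.cons (P.cons (P.lf 1505433 0 0) (P.cons (P.lf 64203 0 0) (P.cons (P.lf 780 0 0) P.nil))) (P.cons (P.cons (P.lf 206376 0 0) (P.cons (P.lf 0 11364 0) P.nil)) (P.cons (P.cons (P.lf 0 16206 0) P.nil) P.nil)))))) 3675)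
 (EL.cons 8 (TM.mk (P.cons (P.cons (P.lf 0 6835725 0) (P.cons (P.lf 0 2274870 0) (P.cons (P.lf 0 27705 0) (P.lf 3078 0 0)))) (P.cons (P.cons (P.lf 0 4815102 0) (P.cons (P.lf 1682001 0 0) (P.cons (P.lf 20484 0 0) (P.lf 0 2274 0)))) (P.cons (P.cons (P.lf 4828602 0 0) (P.cons (P.lf 0 410880 0) (P.cons (P.lf 0 5004 0) (P.lf 555 0 0)))) (P.cons (P.cons (P.lf 0 1068111 0) (P.cons (P.lf 23688 0 0) (P.cons (P.lf 288 0 0) P.nil))) (P.cons (P.cons (P.lf 36843 0 0) (P.cons (P.lf 4083 0 0) P.nil)) (P.cons (P.cons (P.lf 9861 0 0) P.nil) P.nil)))))) 1692)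
 (EL.cons 11 (TM.mk (P.cons (P.cons (P.lf 215821332 0 0) (P.cons (P.lf 6107526 0 0) (P.cons (P.lf 0 997206 0) (P.cons (P.lf 0 6903 0) (P.lf 573 0 0))))) (P.cons (P.cons (P.lf 0 75276984 0) (P.cons (P.lf 0 2130261 0) (P.cons (P.lf 347817 0 0) (P.cons (P.lf 2406 0 0) (P.lf 0 198 0))))) (P.cons (P.cons (P.lf 2657238 0 0) (P.cons (P.lf 75195 0 0) (P.cons (P.lf 0 12276 0) (P.cons (P.lf 0 84 0) P.nil)))) (P.cons (P.cons (P.lf 873924 0 0) (P.cons (P.lf 24729 0 0) (P.cons (P.lf 0 4038 0) P.nil))) (P.cons (P.cons (P.lf 0 5481 0) (P.cons (P.lf 0 153 0) P.nil)) (P.cons (P.cons (P.lf 0 3771 0) P.nil) P.nil)))))) 834)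
 EL.nil)))
noncomputable def S212_227_438_475_26 : EL := (EL.cons 4 (TM.mk (P.cons (P.cons (P.lf 10730631 0 0) (P.cons (P.lf 1997823 0 0) (P.cons (P.lf 0 499224 0) (P.cons (P.lf 0 15456 0) (P.cons (P.lf 1338 0 0) (P.cons (P.lf 15 0 0) P.nil)))))) (P.cons (P.cons (P.lf 9582195 0 0) (P.cons (P.lf 0 3513930 0) (P.cons (P.lf 198297 0 0) (P.cons (P.lf 10626 0 0) (P.cons (P.lf 0 615 0) P.nil))))) (P.cons (P.cons (P.lf 0 5946435 0) (P.cons (P.lf 936153 0 0) (P.cons (P.lf 0 2625 0) (P.cons (P.lf 0 1608 0) P.nil)))) (P.cons (P.cons (P.lf 439233 0 0) (P.cons (P.lf 38190 0 0) (P.cons (P.lf 0 5562 0) P.nil))) (P.cons (P.cons (P.lf 153651 0 0) (P.cons (P.lf 0 25224 0) P.nil)) (P.cons (P.cons (P.lf 0 16455 0) P.nil) P.nil)))))) 6333)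
 (EL.cons 8 (TM.mk (P.cons (P.cons (P.lf 0 2093124 0) (P.cons (P.lf 0 389697 0) (P.cons (P.lf 97377 0 0) (P.cons (P.lf 3015 0 0) (P.cons (P.lf 0 261 0) (P.cons (P.lf 0 3 0) P.nil)))))) (P.cons (P.cons (P.lf 0 1416588 0) (P.cons (P.lf 769680 0 0) (P.cons (P.lf 0 59730 0) (P.cons (P.lf 0 2724 0) (P.cons (P.lf 174 0 0) P.nil))))) (P.cons (P.cons (P.lf 1556853 0 0) (P.cons (P.lf 0 332124 0) (P.cons (P.lf 9207 0 0) (P.cons (P.lf 771 0 0) P.nil)))) (P.cons (P.cons (P.lf 0 342255 0) (P.cons (P.lf 34476 0 0) (P.cons (P.lf 813 0 0) P.nil))) (P.cons (P.cons (P.lf 0 6984 0) (P.cons (P.lf 5715 0 0) P.nil)) (P.cons (P.cons (P.lf 9066 0 0) P.nil) P.nil)))))) 2826)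
 (EL.cons 11 (TM.mk (P.cons (P.cons (P.lf 66085311 0 0) (P.cons (P.lf 0 7818726 0) (P.cons (P.lf 0 697539 0) (P.cons (P.lf 52425 0 0) (P.cons (P.lf 1401 0 0) (P.cons (P.lf 0 81 0) P.nil)))))) (P.cons (P.cons (P.lf 0 24875454 0) (P.cons (P.lf 2067999 0 0) (P.cons (P.lf 227139 0 0) (P.cons (P.lf 0 14805 0) (P.cons (P.lf 0 417 0) P.nil))))) (P.cons (P.cons (P.lf 263415 0 0) (P.cons (P.lf 143568 0 0) (P.cons (P.lf 4290 0 0) (P.cons (P.lf 0 774 0) P.nil)))) (P.cons (P.cons (P.lf 685596 0 0) (P.cons (P.lf 0 39021 0) (P.cons (P.lf 0 5532 0) P.nil))) (P.cons (P.cons (P.lf 0 28032 0) (P.cons (P.lf 0 3759 0) P.nil)) (P.cons (P.cons (P.lf 0 7311 0) P.nil) P.nil)))))) 2790)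
 EL.nil)))
noncomputable def S212_227_438_475_27 : EL := (EL.cons 13 (TM.mk (P.lf 0 4294967296 0) 0)
 EL.nil)
noncomputable def S212_227_438_475_28 : EL := (EL.cons 13 (TM.mk (P.cons (P.cons (P.lf 0 1315135313 0) (P.cons (P.lf 192814140 0 0) (P.cons (P.lf 2348388 0 0) (P.lf 0 260928 0)))) (P.cons (P.cons (P.lf 36325622 0 0) (P.cons (P.lf 12088844 0 0) (P.cons (P.lf 147236 0 0) (P.lf 0 16356 0)))) (P.cons (P.cons (P.lf 23620234 0 0) (P.cons (P.lf 0 866244 0) (P.cons (P.lf 0 10548 0) (P.lf 1172 0 0)))) (P.cons (P.cons (P.lf 0 527112 0) (P.cons (P.lf 0 69048 0) (P.cons (P.lf 0 836 0) P.nil))) (P.cons (P.cons (P.lf 0 97311 0) (P.cons (P.lf 1592 0 0) P.nil)) (P.cons (P.cons (P.lf 384 0 0) P.nil) P.nil)))))) 961)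
 EL.nil)
noncomputable def S212_227_438_475_29 : EL := (EL.cons 13 (TM.mk (P.cons (P.cons (P.lf 0 402699432 0) (P.cons (P.lf 118080845 0 0) (P.cons (P.lf 0 7217842 0) (P.cons (P.lf 0 370646 0) (P.cons (P.lf 22143 0 0) (P.cons (P.lf 285 0 0) P.nil)))))) (P.cons (P.cons (P.lf 22246087 0 0) (P.cons (P.lf 4141764 0 0) (P.cons (P.lf 0 1034965 0) (P.cons (P.lf 0 32042 0) (P.cons (P.lf 2776 0 0) P.nil))))) (P.cons (P.cons (P.lf 14157979 0 0) (P.cons (P.lf 0 2855750 0) (P.cons (P.lf 8970 0 0) (P.cons (P.lf 4929 0 0) P.nil)))) (P.cons (P.cons (P.lf 0 722353 0) (P.cons (P.lf 0 113270 0) (P.cons (P.lf 9699 0 0) P.nil))) (P.cons (P.cons (P.lf 0 180577 0) (P.cons (P.lf 23375 0 0) P.nil)) (P.cons (P.cons (P.lf 7678 0 0) P.nil) P.nil)))))) 5581)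
 EL.nil)
noncomputable def S212_227_438_475_30 : EL := (EL.cons 13 (TM.mk (P.cons (P.lf 1194386624 0 0) (P.cons (P.lf 0 233258332 0) (P.cons (P.lf 0 3625172 0) (P.cons (P.lf 207136 0 0) (P.cons (P.lf 5900 0 0) (P.cons (P.lf 0 156 0) P.nil)))))) 48)
 EL.nil)
noncomputable def S212_227_438_475_31 : EL := (EL.cons 13 (TM.mk (P.cons (P.cons (P.lf 365725724 0 0) (P.cons (P.lf 0 53619646 0) (P.cons (P.lf 0 653062 0) (P.lf 72561 0 0)))) (P.cons (P.cons (P.lf 0 81526373 0) (P.cons (P.lf 7109891 0 0) (P.cons (P.lf 86595 0 0) (P.lf 0 9622 0)))) (P.cons (P.cons (P.lf 0 5705754 0) (P.cons (P.lf 1060179 0 0) (P.cons (P.lf 12911 0 0) (P.lf 0 1434 0)))) (P.cons (P.cons (P.lf 1523478 0 0) (P.cons (P.lf 0 26939 0) (P.cons (P.lf 0 329 0) P.nil))) (P.cons (P.cons (P.lf 18425 0 0) (P.cons (P.lf 0 5771 0) P.nil)) (P.cons (P.cons (P.lf 0 7073 0) P.nil) P.nil)))))) 901)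
 EL.nil)
noncomputable def S212_227_438_475_32 : EL := (EL.cons 13 (TM.mk (P.cons (P.cons (P.lf 111986607 0 0) (P.cons (P.lf 0 32837079 0) (P.cons (P.lf 2007208 0 0) (P.cons (P.lf 103072 0 0) (P.cons (P.lf 0 6157 0) (P.cons (P.lf 0 79 0) P.nil)))))) (P.cons (P.cons (P.lf 0 28056890 0) (P.cons (P.lf 5261151 0 0) (P.cons (P.lf 0 104185 0) (P.cons (P.lf 0 11219 0) (P.cons (P.lf 430 0 0) P.nil))))) (P.cons (P.cons (P.lf 0 3068910 0) (P.cons (P.lf 1118759 0 0) (P.cons (P.lf 0 64795 0) (P.cons (P.lf 0 3423 0) P.nil)))) (P.cons (P.cons (P.lf 1007992 0 0) (P.cons (P.lf 0 125794 0) (P.cons (P.lf 0 2735 0) P.nil))) (P.cons (P.cons (P.lf 22416 0 0) (P.cons (P.lf 0 15424 0) P.nil)) (P.cons (P.cons (P.lf 0 13279 0) P.nil) P.nil)))))) 5186)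
 EL.nil)
noncomputable def S212_227_438_475_33 : EL := (EL.cons 14 (TM.mk (P.lf 8589934592 0 0) 0)
 EL.nil)
noncomputable def S212_227_438_475_34 : EL := (EL.cons 14 (TM.mk (P.cons (P.cons (P.lf 2630270626 0 0) (P.cons (P.lf 0 385628280 0) (P.cons (P.lf 0 4696776 0) (P.lf 521856 0 0)))) (P.cons (P.cons (P.lf 0 72651244 0) (P.cons (P.lf 0 24177688 0) (P.cons (P.lf 0 294472 0) (P.lf 32712 0 0)))) (P.cons (P.cons (P.lf 0 47240468 0) (P.cons (P.lf 1732488 0 0) (P.cons (P.lf 21096 0 0) (P.lf 0 2344 0)))) (P.cons (P.cons (P.lf 1054224 0 0) (P.cons (P.lf 138096 0 0) (P.cons (P.lf 1672 0 0) P.nil))) (P.cons (P.cons (P.lf 194622 0 0) (P.cons (P.lf 0 3184 0) P.nil)) (P.cons (P.cons (P.lf 0 768 0) P.nil) P.nil)))))) 1922)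
 EL.nil)
noncomputable def S212_227_438_475_35 : EL := (EL.cons 14 (TM.mk (P.cons (P.cons (P.lf 805398864 0 0) (P.cons (P.lf 0 236161690 0) (P.cons (P.lf 14435684 0 0) (P.cons (P.lf 741292 0 0) (P.cons (P.lf 0 44286 0) (P.cons (P.lf 0 570 0) P.nil)))))) (P.cons (P.cons (P.lf 0 44492174 0) (P.cons (P.lf 0 8283528 0) (P.cons (P.lf 2069930 0 0) (P.cons (P.lf 64084 0 0) (P.cons (P.lf 0 5552 0) P.nil))))) (P.cons (P.cons (P.lf 0 28315958 0) (P.cons (P.lf 5711500 0 0) (P.cons (P.lf 0 17940 0) (P.cons (P.lf 0 9858 0) P.nil)))) (P.cons (P.cons (P.lf 1444706 0 0) (P.cons (P.lf 226540 0 0) (P.cons (P.lf 0 19398 0) P.nil))) (P.cons (P.cons (P.lf 361154 0 0) (P.cons (P.lf 0 46750 0) P.nil)) (P.cons (P.cons (P.lf 0 15356 0) P.nil) P.nil)))))) 11162)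
 EL.nil)
noncomputable def S212_227_438_475_36 : EL := (EL.cons 14 (TM.mk (P.cons (P.lf 0 2388773248 0) (P.cons (P.lf 466516664 0 0) (P.cons (P.lf 7250344 0 0) (P.cons (P.lf 0 414272 0) (P.cons (P.lf 0 11800 0) (P.cons (P.lf 312 0 0) P.nil)))))) 96)
 EL.nil)
noncomputable def S212_227_438_475_37 : EL := (EL.cons 14 (TM.mk (P.cons (P.cons (P.lf 0 731451448 0) (P.cons (P.lf 107239292 0 0) (P.cons (P.lf 1306124 0 0) (P.lf 0 145122 0)))) (P.cons (P.cons (P.lf 163052746 0 0) (P.cons (P.lf 0 14219782 0) (P.cons (P.lf 0 173190 0) (P.lf 19244 0 0)))) (P.cons (P.cons (P.lf 11411508 0 0) (P.cons (P.lf 0 2120358 0) (P.cons (P.lf 0 25822 0) (P.lf 2868 0 0)))) (P.cons (P.cons (P.lf 0 3046956 0) (P.cons (P.lf 53878 0 0) (P.cons (P.lf 658 0 0) P.nil))) (P.cons (P.cons (P.lf 0 36850 0) (P.cons (P.lf 11542 0 0) P.nil)) (P.cons (P.cons (P.lf 14146 0 0) P.nil) P.nil)))))) 1802)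
 EL.nil)
noncomputable def S212_227_438_475_38 : EL := (EL.cons 14 (TM.mk (P.cons (P.cons (P.lf 0 223973214 0) (P.cons (P.lf 65674158 0 0) (P.cons (P.lf 0 4014416 0) (P.cons (P.lf 0 206144 0) (P.cons (P.lf 12314 0 0) (P.cons (P.lf 158 0 0) P.nil)))))) (P.cons (P.cons (P.lf 56113780 0 0) (P.cons (P.lf 0 10522302 0) (P.cons (P.lf 208370 0 0) (P.cons (P.lf 22438 0 0) (P.cons (P.lf 0 860 0) P.nil))))) (P.cons (P.cons (P.lf 6137820 0 0) (P.cons (P.lf 0 2237518 0) (P.cons (P.lf 129590 0 0) (P.cons (P.lf 6846 0 0) P.nil)))) (P.cons (P.cons (P.lf 0 2015984 0) (P.cons (P.lf 251588 0 0) (P.cons (P.lf 5470 0 0) P.nil))) (P.cons (P.cons (P.lf 0 44832 0) (P.cons (P.lf 30848 0 0) P.nil)) (P.cons (P.cons (P.lf 26558 0 0) P.nil) P.nil)))))) 10372)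
 EL.nil)
noncomputable def S212_227_438_475_39 : EL := (EL.cons 14 (TM.mk (P.cons (P.lf 664293490 0 0) (P.cons (P.lf 0 259467056 0) (P.cons (P.lf 21303880 0 0) (P.cons (P.lf 1017936 0 0) (P.cons (P.lf 0 32314 0) (P.cons (P.lf 0 2154 0) P.nil)))))) 152)
 EL.nil)
noncomputable def S212_227_438_475_40 : EL := (EL.cons 14 (TM.mk (P.cons (P.cons (P.lf 203409190 0 0) (P.cons (P.lf 0 29822154 0) (P.cons (P.lf 0 363220 0) (P.lf 40356 0 0)))) (P.cons (P.cons (P.lf 0 85068204 0) (P.cons (P.lf 9778508 0 0) (P.cons (P.lf 119096 0 0) (P.lf 0 13232 0)))) (P.cons (P.cons (P.lf 5064536 0 0) (P.cons (P.lf 0 92106 0) (P.cons (P.lf 0 1122 0) (P.lf 124 0 0)))) (P.cons (P.cons (P.lf 1639982 0 0) (P.cons (P.lf 0 147312 0) (P.cons (P.lf 0 1794 0) P.nil))) (P.cons (P.cons (P.lf 0 152458 0) (P.cons (P.lf 0 1534 0) P.nil)) (P.cons (P.cons (P.lf 0 9306 0) P.nil) P.nil)))))) 2434)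
 EL.nil)
noncomputable def S212_227_438_475_41 : EL := (EL.cons 14 (TM.mk (P.cons (P.cons (P.lf 62284666 0 0) (P.cons (P.lf 0 18263314 0) (P.cons (P.lf 1116368 0 0) (P.cons (P.lf 57326 0 0) (P.cons (P.lf 0 3424 0) (P.cons (P.lf 0 44 0) P.nil)))))) (P.cons (P.cons (P.lf 0 27768584 0) (P.cons (P.lf 6492888 0 0) (P.cons (P.lf 0 275966 0) (P.cons (P.lf 0 17434 0) (P.cons (P.lf 908 0 0) P.nil))))) (P.cons (P.cons (P.lf 1151610 0 0) (P.cons (P.lf 106200 0 0) (P.cons (P.lf 0 28108 0) (P.cons (P.lf 0 858 0) P.nil)))) (P.cons (P.cons (P.lf 952132 0 0) (P.cons (P.lf 0 203530 0) (P.cons (P.lf 5886 0 0) P.nil))) (P.cons (P.cons (P.lf 0 94236 0) (P.cons (P.lf 3612 0 0) P.nil)) (P.cons (P.cons (P.lf 0 11902 0) P.nil) P.nil)))))) 7846)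
 EL.nil)
noncomputable def S212_227_438_475_42 : EL := (EL.cons 14 (TM.mk (P.cons (P.lf 0 184733248 0) (P.cons (P.lf 108232714 0 0) (P.cons (P.lf 0 19455268 0) (P.cons (P.lf 622888 0 0) (P.cons (P.lf 93852 0 0) (P.cons (P.lf 0 942 0) P.nil)))))) 312)
 EL.nil)
noncomputable def S212_227_438_475_43 : EL := (EL.cons 14 (TM.mk (P.cons (P.cons (P.lf 0 56566022 0) (P.cons (P.lf 8293236 0 0) (P.cons (P.lf 101006 0 0) (P.lf 0 11222 0)))) (P.cons (P.cons (P.lf 34703690 0 0) (P.cons (P.lf 0 4338934 0) (P.cons (P.lf 0 52846 0) (P.lf 5870 0 0)))) (P.cons (P.cons (P.lf 0 5856734 0) (P.cons (P.lf 531510 0 0) (P.cons (P.lf 6472 0 0) (P.lf 0 718 0)))) (P.cons (P.cons (P.lf 0 262620 0) (P.cons (P.lf 45654 0 0) (P.cons (P.lf 556 0 0) P.nil))) (P.cons (P.cons (P.lf 139560 0 0) (P.cons (P.lf 0 8080 0) P.nil)) (P.cons (P.cons (P.lf 0 4426 0) P.nil) P.nil)))))) 2440)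
 EL.nil)
noncomputable def S212_227_438_475_44 : EL := (EL.cons 14 (TM.mk (P.cons (P.cons (P.lf 0 17320730 0) (P.cons (P.lf 5078840 0 0) (P.cons (P.lf 0 310450 0) (P.cons (P.lf 0 15942 0) (P.cons (P.lf 952 0 0) (P.cons (P.lf 12 0 0) P.nil)))))) (P.cons (P.cons (P.lf 11104820 0 0) (P.cons (P.lf 0 2797480 0) (P.cons (P.lf 137372 0 0) (P.cons (P.lf 7962 0 0) (P.cons (P.lf 0 438 0) P.nil))))) (P.cons (P.cons (P.lf 0 1775782 0) (P.cons (P.lf 307678 0 0) (P.cons (P.lf 0 6228 0) (P.cons (P.lf 0 658 0) P.nil)))) (P.cons (P.cons (P.lf 0 228676 0) (P.cons (P.lf 68728 0 0) (P.cons (P.lf 0 3450 0) P.nil))) (P.cons (P.cons (P.lf 80142 0 0) (P.cons (P.lf 0 12256 0) P.nil)) (P.cons (P.cons (P.lf 0 1018 0) P.nil) P.nil)))))) 5052)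
 EL.nil)
noncomputable def S212_227_438_475_45 : EL := (EL.cons 14 (TM.mk (P.cons (P.cons (P.lf 246616192 0 0) (P.cons (P.lf 0 108470410 0) (P.cons (P.lf 14581904 0 0) (P.cons (P.lf 0 243016 0) (P.cons (P.lf 0 69078 0) (P.cons (P.lf 2284 0 0) P.nil)))))) (P.cons (P.cons (P.lf 0 20435508 0) (P.cons (P.lf 0 808588 0) (P.cons (P.lf 1545030 0 0) (P.cons (P.lf 0 107214 0) (P.cons (P.lf 0 9318 0) P.nil))))) (P.cons (P.cons (P.lf 0 12723454 0) (P.cons (P.lf 4676576 0 0) (P.cons (P.lf 0 364126 0) (P.cons (P.lf 0 15274 0) P.nil)))) (P.cons (P.cons (P.lf 1025392 0 0) (P.cons (P.lf 56448 0 0) (P.cons (P.lf 0 46884 0) P.nil))) (P.cons (P.cons (P.lf 266878 0 0) (P.cons (P.lf 0 81012 0) P.nil)) (P.cons (P.cons (P.lf 0 20256 0) P.nil) P.nil)))))) 24430)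
 EL.nil)
noncomputable def S212_227_438_475_46 : EL := (EL.cons 15 (TM.mk (P.lf 4294967296 0 0) 0)
 EL.nil)
noncomputable def S212_227_438_475_47 : EL := (EL.cons 15 (TM.mk (P.cons (P.cons (P.lf 1315135313 0 0) (P.cons (P.lf 0 192814140 0) (P.cons (P.lf 0 2348388 0) (P.lf 260928 0 0)))) (P.cons (P.cons (P.lf 0 36325622 0) (P.cons (P.lf 0 12088844 0) (P.cons (P.lf 0 147236 0) (P.lf 16356 0 0)))) (P.cons (P.cons (P.lf 0 23620234 0) (P.cons (P.lf 866244 0 0) (P.cons (P.lf 10548 0 0) (P.lf 0 1172 0)))) (P.cons (P.cons (P.lf 527112 0 0) (P.cons (P.lf 69048 0 0) (P.cons (P.lf 836 0 0) P.nil))) (P.cons (P.cons (P.lf 97311 0 0) (P.cons (P.lf 0 1592 0) P.nil)) (P.cons (P.cons (P.lf 0 384 0) P.nil) P.nil)))))) 961)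
 EL.nil)
noncomputable def S212_227_438_475_48 : EL := (EL.cons 15 (TM.mk (P.cons (P.cons (P.lf 402699432 0 0) (P.cons (P.lf 0 118080845 0) (P.cons (P.lf 7217842 0 0) (P.cons (P.lf 370646 0 0) (P.cons (P.lf 0 22143 0) (P.cons (P.lf 0 285 0) P.nil)))))) (P.cons (P.cons (P.lf 0 22246087 0) (P.cons (P.lf 0 4141764 0) (P.cons (P.lf 1034965 0 0) (P.cons (P.lf 32042 0 0) (P.cons (P.lf 0 2776 0) P.nil))))) (P.cons (P.cons (P.lf 0 14157979 0) (P.cons (P.lf 2855750 0 0) (P.cons (P.lf 0 8970 0) (P.cons (P.lf 0 4929 0) P.nil)))) (P.cons (P.cons (P.lf 722353 0 0) (P.cons (P.lf 113270 0 0) (P.cons (P.lf 0 9699 0) P.nil))) (P.cons (P.cons (P.lf 180577 0 0) (P.cons (P.lf 0 23375 0) P.nil)) (P.cons (P.cons (P.lf 0 7678 0) P.nil) P.nil)))))) 5581)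
 EL.nil)
noncomputable def S212_227_438_475 : SL := (SL.cons S212_227_438_475_0 (SL.cons S212_227_438_475_1 (SL.cons S212_227_438_475_2 (SL.cons S212_227_438_475_3 (SL.cons S212_227_438_475_4 (SL.cons S212_227_438_475_5 (SL.cons S212_227_438_475_6 (SL.cons S212_227_438_475_7 (SL.cons S212_227_438_475_8 (SL.cons S212_227_438_475_9 (SL.cons S212_227_438_475_10 (SL.cons S212_227_438_475_11 (SL.cons S212_227_438_475_12 (SL.cons S212_227_438_475_13 (SL.cons S212_227_438_475_14 (SL.cons S212_227_438_475_15 (SL.cons S212_227_438_475_16 (SL.cons S212_227_438_475_17 (SL.cons S212_227_438_475_18 (SL.cons S212_227_438_475_19 (SL.cons S212_227_438_475_20 (SL.cons S212_227_438_475_21 (SL.cons S212_227_438_475_22 (SL.cons S212_227_438_475_23 (SL.cons S212_227_438_475_24 (SL.cons S212_227_438_475_25 (SL.cons S212_227_438_475_26 (SL.cons S212_227_438_475_27 (SL.cons S212_227_438_475_28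 (SL.cons S212_227_438_475_29 (SL.cons S212_227_438_475_30 (SL.cons S212_227_438_475_31 (SL.cons S212_227_438_475_32 (SL.cons S212_227_438_475_33 (SL.cons S212_227_438_475_34 (SL.cons S212_227_438_475_35 (SL.cons S212_227_438_475_36 (SL.cons S212_227_438_475_37 (SL.cons S212_227_438_475_38 (SL.cons S212_227_438_475_39 (SL.cons S212_227_438_475_40 (SL.cons S212_227_438_475_41 (SL.cons S212_227_438_475_42 (SL.cons S212_227_438_475_43 (SL.cons S212_227_438_475_44 (SL.cons S212_227_438_475_45 (SL.cons S212_227_438_475_46 (SL.cons S212_227_438_475_47 (SL.cons S212_227_438_475_48 SL.nil)))))))))))))))))))))))))))))))))))))))))))))))))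
noncomputable def S212_227_438_512_0 : EL := (EL.cons 0 (TM.mk (P.cons (P.lf 7871865163 0 0) (P.cons (P.lf 228047217 0 0) (P.cons (P.lf 0 18724113 0) (P.cons (P.lf 0 894670 0) (P.cons (P.lf 28400 0 0) (P.cons (P.lf 1893 0 0) P.nil)))))) 140)
 (EL.cons 1 (TM.mk (P.cons (P.lf 0 1064241138 0) (P.cons (P.lf 185599968 0 0) (P.cons (P.lf 9632411 0 0) (P.cons (P.lf 0 474855 0) (P.cons (P.lf 0 25702 0) (P.cons (P.lf 519 0 0) P.nil)))))) 134)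
 (EL.cons 5 (TM.mk (P.cons (P.lf 4502559014 0 0) (P.cons (P.lf 0 81083452 0) (P.cons (P.lf 6657460 0 0) (P.cons (P.lf 318104 0 0) (P.cons (P.lf 0 10096 0) (P.cons (P.lf 0 672 0) P.nil)))))) 143)
 (EL.cons 9 (TM.mk (P.lf 6442450944 0 0) 2)
 EL.nil))))
noncomputable def S212_227_438_512_1 : EL := (EL.cons 0 (TM.mk (P.cons (P.cons (P.lf 2368943276 0 0) (P.cons (P.lf 0 560673479 0) (P.cons (P.lf 0 8923857 0) (P.lf 2974620 0 0)))) (P.cons (P.cons (P.lf 208109090 0 0) (P.cons (P.lf 0 118716877 0) (P.cons (P.lf 0 1889526 0) (P.lf 629833 0 0)))) (P.cons (P.cons (P.lf 0 117377632 0) (P.cons (P.lf 4140847 0 0) (P.cons (P.lf 65900 0 0) (P.lf 0 21966 0)))) (P.cons (P.cons (P.lf 0 2206043 0) (P.cons (P.lf 1334214 0 0) (P.cons (P.lf 21225 0 0) P.nil))) (P.cons (P.cons (P.lf 983527 0 0) (P.cons (P.lf 4601 0 0) P.nil)) (P.cons (P.cons (P.lf 26066 0 0) P.nil) P.nil)))))) 24613)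
 (EL.cons 1 (TM.mk (P.cons (P.cons (P.lf 0 20588970 0) (P.cons (P.lf 228084787 0 0) (P.cons (P.lf 3630262 0 0) (P.lf 0 1210083 0)))) (P.cons (P.cons (P.lf 322691595 0 0) (P.cons (P.lf 0 18710327 0) (P.cons (P.lf 0 297800 0) (P.lf 99268 0 0)))) (P.cons (P.cons (P.lf 14710062 0 0) (P.cons (P.lf 0 7177247 0) (P.cons (P.lf 0 114224 0) (P.lf 38068 0 0)))) (P.cons (P.cons (P.lf 0 6058670 0) (P.cons (P.lf 29101 0 0) (P.cons (P.lf 461 0 0) P.nil))) (P.cons (P.cons (P.lf 0 175930 0) (P.cons (P.lf 54075 0 0) P.nil)) (P.cons (P.cons (P.lf 36212 0 0) P.nil) P.nil)))))) 11518)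
 (EL.cons 5 (TM.mk (P.cons (P.cons (P.lf 1062106379 0 0) (P.cons (P.lf 0 469525056 0) (P.cons (P.lf 0 7473116 0) (P.lf 2491040 0 0)))) (P.cons (P.cons (P.lf 0 156521429 0) (P.cons (P.lf 274022 0 0) (P.cons (P.lf 4356 0 0) (P.lf 0 1450 0)))) (P.cons (P.cons (P.lf 3068423 0 0) (P.cons (P.lf 1532736 0 0) (P.cons (P.lf 24402 0 0) (P.lf 0 8136 0)))) (P.cons (P.cons (P.lf 1799120 0 0) (P.cons (P.lf 0 234846 0) (P.cons (P.lf 0 3730 0) P.nil))) (P.cons (P.cons (P.lf 0 187001 0) (P.cons (P.lf 0 7178 0) P.nil)) (P.cons (P.cons (P.lf 0 10264 0) P.nil) P.nil)))))) 13078)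
 (EL.cons 9 (TM.mk (P.cons (P.cons (P.lf 1680350569 0 0) (P.cons (P.lf 0 590184372 0) (P.cons (P.lf 0 9393558 0) (P.lf 3131184 0 0)))) (P.cons (P.cons (P.lf 0 72818019 0) (P.cons (P.lf 0 37002714 0) (P.cons (P.lf 0 588942 0) (P.lf 196308 0 0)))) (P.cons (P.cons (P.lf 0 34116909 0) (P.cons (P.lf 2651496 0 0) (P.cons (P.lf 42198 0 0) (P.lf 0 14064 0)))) (P.cons (P.cons (P.lf 895368 0 0) (P.cons (P.lf 211350 0 0) (P.cons (P.lf 3360 0 0) P.nil))) (P.cons (P.cons (P.lf 143542 0 0) (P.cons (P.lf 0 4884 0) P.nil)) (P.cons (P.cons (P.lf 0 876 0) P.nil) P.nil)))))) 2930)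
 (EL.cons 2 (TM.mk (P.cons (P.cons (P.lf 744786345 0 0) (P.cons (P.lf 27608211 0 0) (P.cons (P.lf 0 13679966 0) (P.cons (P.lf 0 124135 0) (P.lf 31033 0 0))))) (P.cons (P.cons (P.lf 0 114322899 0) (P.cons (P.lf 0 4237793 0) (P.cons (P.lf 2099840 0 0) (P.cons (P.lf 19054 0 0) (P.lf 0 4761 0))))) (P.cons (P.cons (P.lf 0 10896215 0) (P.cons (P.lf 0 403905 0) (P.cons (P.lf 200134 0 0) (P.cons (P.lf 1814 0 0) P.nil)))) (P.cons (P.cons (P.lf 411724 0 0) (P.cons (P.lf 15260 0 0) (P.cons (P.lf 0 7560 0) P.nil))) (P.cons (P.cons (P.lf 44561 0 0) (P.cons (P.lf 1650 0 0) P.nil)) (P.cons (P.cons (P.lf 0 514 0) P.nil) P.nil)))))) 1894)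
 (EL.cons 6 (TM.mk (P.cons (P.cons (P.lf 1357591785 0 0) (P.cons (P.lf 50324076 0 0) (P.cons (P.lf 0 24935757 0) (P.cons (P.lf 0 226275 0) (P.lf 56568 0 0))))) (P.cons (P.cons (P.lf 85116771 0 0) (P.cons (P.lf 3155160 0 0) (P.cons (P.lf 0 1563393 0) (P.cons (P.lf 0 14184 0) (P.lf 3543 0 0))))) (P.cons (P.cons (P.lf 0 6099192 0) (P.cons (P.lf 0 226086 0) (P.cons (P.lf 112026 0 0) (P.cons (P.lf 1014 0 0) P.nil)))) (P.cons (P.cons (P.lf 0 486177 0) (P.cons (P.lf 0 18021 0) (P.cons (P.lf 8928 0 0) P.nil))) (P.cons (P.cons (P.lf 11235 0 0) (P.cons (P.lf 414 0 0) P.nil)) (P.cons (P.cons (P.lf 1410 0 0) P.nil) P.nil)))))) 1305)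
 EL.nil))))))
noncomputable def S212_227_438_512_2 : EL := (EL.cons 0 (TM.mk (P.cons (P.cons (P.lf 700238615 0 0) (P.cons (P.lf 0 350328853 0) (P.cons (P.lf 31087302 0 0) (P.cons (P.lf 3025739 0 0) (P.cons (P.lf 0 379746 0) (P.cons (P.lf 0 6196 0) P.nil)))))) (P.cons (P.cons (P.lf 85907931 0 0) (P.cons (P.lf 0 96414458 0) (P.cons (P.lf 16459418 0 0) (P.cons (P.lf 1084299 0 0) (P.cons (P.lf 0 186358 0) P.nil))))) (P.cons (P.cons (P.lf 0 67666074 0) (P.cons (P.lf 20813410 0 0) (P.cons (P.lf 725854 0 0) (P.cons (P.lf 0 97858 0) P.nil)))) (P.cons (P.cons (P.lf 0 1004796 0) (P.cons (P.lf 3083349 0 0) (P.cons (P.lf 0 256033 0) P.nil))) (P.cons (P.cons (P.lf 1581615 0 0) (P.cons (P.lf 0 267740 0) P.nil)) (P.cons (P.cons (P.lf 0 207 0) P.nil) P.nil)))))) 191204)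
 (EL.cons 1 (TM.mk (P.cons (P.cons (P.lf 61659610 0 0) (P.cons (P.lf 71895018 0 0) (P.cons (P.lf 0 31713513 0) (P.cons (P.lf 0 1427374 0) (P.cons (P.lf 340322 0 0) (P.cons (P.lf 5547 0 0) P.nil)))))) (P.cons (P.cons (P.lf 149896150 0 0) (P.cons (P.lf 0 65917749 0) (P.cons (P.lf 0 678819 0) (P.cons (P.lf 361510 0 0) (P.cons (P.lf 0 3834 0) P.nil))))) (P.cons (P.cons (P.lf 0 1768047 0) (P.cons (P.lf 0 10124361 0) (P.cons (P.lf 1235231 0 0) (P.cons (P.lf 98148 0 0) P.nil)))) (P.cons (P.cons (P.lf 0 6133805 0) (P.cons (P.lf 1432474 0 0) (P.cons (P.lf 89759 0 0) P.nil))) (P.cons (P.cons (P.lf 5690 0 0) (P.cons (P.lf 209425 0 0) P.nil)) (P.cons (P.cons (P.lf 93261 0 0) P.nil) P.nil)))))) 96378)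
 (EL.cons 5 (TM.mk (P.cons (P.cons (P.lf 247740205 0 0) (P.cons (P.lf 0 224357250 0) (P.cons (P.lf 44668035 0 0) (P.cons (P.lf 2725888 0 0) (P.cons (P.lf 0 499636 0) (P.cons (P.lf 0 8134 0) P.nil)))))) (P.cons (P.cons (P.lf 0 73595255 0) (P.cons (P.lf 27524976 0 0) (P.cons (P.lf 1723716 0 0) (P.cons (P.lf 0 105103 0) (P.cons (P.lf 0 13322 0) P.nil))))) (P.cons (P.cons (P.lf 4821817 0 0) (P.cons (P.lf 2199510 0 0) (P.cons (P.lf 0 414996 0) (P.cons (P.lf 0 25999 0) P.nil)))) (P.cons (P.cons (P.lf 1760674 0 0) (P.cons (P.lf 0 781033 0) (P.cons (P.lf 17635 0 0) P.nil))) (P.cons (P.cons (P.lf 0 295660 0) (P.cons (P.lf 13587 0 0) P.nil)) (P.cons (P.cons (P.lf 0 14877 0) P.nil) P.nil)))))) 93063)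
 (EL.cons 9 (TM.mk (P.cons (P.cons (P.lf 438276993 0 0) (P.cons (P.lf 0 307869366 0) (P.cons (P.lf 49165861 0 0) (P.cons (P.lf 3354442 0 0) (P.cons (P.lf 0 559990 0) (P.cons (P.lf 0 9130 0) P.nil)))))) (P.cons (P.cons (P.lf 0 37985481 0) (P.cons (P.lf 0 5960922 0) (P.cons (P.lf 6684664 0 0) (P.cons (P.lf 247431 0 0) (P.cons (P.lf 0 70216 0) P.nil))))) (P.cons (P.cons (P.lf 0 16974016 0) (P.cons (P.lf 8470432 0 0) (P.cons (P.lf 0 138456 0) (P.cons (P.lf 0 53635 0) P.nil)))) (P.cons (P.cons (P.lf 1238304 0 0) (P.cons (P.lf 278170 0 0) (P.cons (P.lf 0 64755 0) P.nil))) (P.cons (P.cons (P.lf 235308 0 0) (P.cons (P.lf 0 71992 0) P.nil)) (P.cons (P.cons (P.lf 0 13183 0) P.nil) P.nil)))))) 32083)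
 (EL.cons 2 (TM.mk (P.cons (P.cons (P.lf 388517400 0 0) (P.cons (P.lf 0 122055963 0) (P.cons (P.lf 0 14366351 0) (P.cons (P.lf 3085104 0 0) (P.cons (P.lf 105660 0 0) (P.cons (P.lf 0 18618 0) P.nil)))))) (P.cons (P.cons (P.lf 0 76472887 0) (P.cons (P.lf 9555716 0 0) (P.cons (P.lf 2061135 0 0) (P.cons (P.lf 0 273262 0) (P.cons (P.lf 0 11306 0) P.nil))))) (P.cons (P.cons (P.lf 0 10987897 0) (P.cons (P.lf 3515366 0 0) (P.cons (P.lf 409657 0 0) (P.cons (P.lf 0 88711 0) P.nil)))) (P.cons (P.cons (P.lf 1878935 0 0) (P.cons (P.lf 74143 0 0) (P.cons (P.lf 0 34273 0) P.nil))) (P.cons (P.cons (P.lf 130753 0 0) (P.cons (P.lf 0 25644 0) P.nil)) (P.cons (P.cons (P.lf 0 13961 0) P.nil) P.nil)))))) 25261)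
 (EL.cons 6 (TM.mk (P.cons (P.cons (P.lf 708187032 0 0) (P.cons (P.lf 0 222482826 0) (P.cons (P.lf 0 26186898 0) (P.cons (P.lf 5623512 0 0) (P.cons (P.lf 192594 0 0) (P.cons (P.lf 0 33942 0) P.nil)))))) (P.cons (P.cons (P.lf 13711824 0 0) (P.cons (P.lf 0 30681450 0) (P.cons (P.lf 0 1904436 0) (P.cons (P.lf 717660 0 0) (P.cons (P.lf 21018 0 0) P.nil))))) (P.cons (P.cons (P.lf 0 19484400 0) (P.cons (P.lf 534942 0 0) (P.cons (P.lf 424488 0 0) (P.cons (P.lf 0 25770 0) P.nil)))) (P.cons (P.cons (P.lf 0 639876 0) (P.cons (P.lf 294552 0 0) (P.cons (P.lf 28614 0 0) P.nil))) (P.cons (P.cons (P.lf 165600 0 0) (P.cons (P.lf 8166 0 0) P.nil)) (P.cons (P.cons (P.lf 7356 0 0) P.nil) P.nil)))))) 25644)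
 EL.nil))))))
noncomputable def S212_227_438_512_3 : EL := (EL.cons 0 (TM.mk (P.cons (P.lf 583851700 0 0) (P.cons (P.lf 0 228047217 0) (P.cons (P.lf 18724113 0 0) (P.cons (P.lf 894670 0 0) (P.cons (P.lf 0 28400 0) (P.cons (P.lf 0 1893 0) P.nil)))))) 140)
 (EL.cons 1 (TM.mk (P.cons (P.lf 1064241138 0 0) (P.cons (P.lf 0 185599968 0) (P.cons (P.lf 0 9632411 0) (P.cons (P.lf 474855 0 0) (P.cons (P.lf 25702 0 0) (P.cons (P.lf 0 519 0) P.nil)))))) 134)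
 (EL.cons 5 (TM.mk (P.cons (P.lf 1939891930 0 0) (P.cons (P.lf 81083452 0 0) (P.cons (P.lf 0 6657460 0) (P.cons (P.lf 0 318104 0) (P.cons (P.lf 10096 0 0) (P.cons (P.lf 672 0 0) P.nil)))))) 136)
 EL.nil)))
noncomputable def S212_227_438_512_4 : EL := (EL.cons 0 (TM.mk (P.cons (P.cons (P.lf 152282965 0 0) (P.cons (P.lf 0 53485878 0) (P.cons (P.lf 0 851296 0) (P.lf 283765 0 0)))) (P.cons (P.cons (P.lf 0 66079539 0) (P.cons (P.lf 17537704 0 0) (P.cons (P.lf 279135 0 0) (P.lf 0 93044 0)))) (P.cons (P.cons (P.lf 4369424 0 0) (P.cons (P.lf 0 165190 0) (P.cons (P.lf 0 2629 0) (P.lf 875 0 0)))) (P.cons (P.cons (P.lf 1310516 0 0) (P.cons (P.lf 0 264204 0) (P.cons (P.lf 0 4204 0) P.nil))) (P.cons (P.cons (P.lf 0 135360 0) (P.cons (P.lf 0 2754 0) P.nil)) (P.cons (P.cons (P.lf 0 7467 0) P.nil) P.nil)))))) 4794)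
 (EL.cons 1 (TM.mk (P.cons (P.cons (P.lf 277580413 0 0) (P.cons (P.lf 0 97493715 0) (P.cons (P.lf 0 1551738 0) (P.lf 517245 0 0)))) (P.cons (P.cons (P.lf 0 60438013 0) (P.cons (P.lf 10890015 0 0) (P.cons (P.lf 173328 0 0) (P.lf 0 57776 0)))) (P.cons (P.cons (P.lf 0 6050401 0) (P.cons (P.lf 2386425 0 0) (P.cons (P.lf 37980 0 0) (P.lf 0 12658 0)))) (P.cons (P.cons (P.lf 1363505 0 0) (P.cons (P.lf 0 29649 0) (P.cons (P.lf 0 470 0) P.nil))) (P.cons (P.cons (P.lf 50263 0 0) (P.cons (P.lf 0 15939 0) P.nil)) (P.cons (P.cons (P.lf 0 8557 0) P.nil) P.nil)))))) 3255)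
 (EL.cons 5 (TM.mk (P.cons (P.cons (P.lf 505971800 0 0) (P.cons (P.lf 0 177710922 0) (P.cons (P.lf 0 2828500 0) (P.lf 942832 0 0)))) (P.cons (P.cons (P.lf 0 777724 0) (P.cons (P.lf 0 18569864 0) (P.cons (P.lf 0 295560 0) (P.lf 98518 0 0)))) (P.cons (P.cons (P.lf 0 12925874 0) (P.cons (P.lf 942564 0 0) (P.cons (P.lf 15000 0 0) (P.lf 0 4998 0)))) (P.cons (P.cons (P.lf 0 167504 0) (P.cons (P.lf 164388 0 0) (P.cons (P.lf 2614 0 0) P.nil))) (P.cons (P.cons (P.lf 95974 0 0) (P.cons (P.lf 0 646 0) P.nil)) (P.cons (P.cons (P.lf 2362 0 0) P.nil) P.nil)))))) 2576)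
 EL.nil)))
noncomputable def S212_227_438_512_5 : EL := (EL.cons 0 (TM.mk (P.cons (P.cons (P.lf 39719163 0 0) (P.cons (P.lf 0 27900878 0) (P.cons (P.lf 4455690 0 0) (P.cons (P.lf 303997 0 0) (P.cons (P.lf 0 50748 0) (P.cons (P.lf 0 826 0) P.nil)))))) (P.cons (P.cons (P.lf 0 18956408 0) (P.cons (P.lf 10357618 0 0) (P.cons (P.lf 0 1134550 0) (P.cons (P.lf 0 96314 0) (P.cons (P.lf 13457 0 0) P.nil))))) (P.cons (P.cons (P.lf 1080103 0 0) (P.cons (P.lf 83859 0 0) (P.cons (P.lf 0 106273 0) (P.cons (P.lf 0 3868 0) P.nil)))) (P.cons (P.cons (P.lf 663525 0 0) (P.cons (P.lf 0 334701 0) (P.cons (P.lf 25287 0 0) P.nil))) (P.cons (P.cons (P.lf 0 79047 0) (P.cons (P.lf 8775 0 0) P.nil)) (P.cons (P.cons (P.lf 0 8242 0) P.nil) P.nil)))))) 22820)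
 (EL.cons 1 (TM.mk (P.cons (P.cons (P.lf 72399838 0 0) (P.cons (P.lf 0 50857545 0) (P.cons (P.lf 8121804 0 0) (P.cons (P.lf 554124 0 0) (P.cons (P.lf 0 92505 0) (P.cons (P.lf 0 1507 0) P.nil)))))) (P.cons (P.cons (P.lf 0 18901175 0) (P.cons (P.lf 7884682 0 0) (P.cons (P.lf 0 312161 0) (P.cons (P.lf 0 55762 0) (P.cons (P.lf 4531 0 0) P.nil))))) (P.cons (P.cons (P.lf 0 2364937 0) (P.cons (P.lf 2031283 0 0) (P.cons (P.lf 0 288958 0) (P.cons (P.lf 0 21001 0) P.nil)))) (P.cons (P.cons (P.lf 782656 0 0) (P.cons (P.lf 0 211850 0) (P.cons (P.lf 0 13078 0) P.nil))) (P.cons (P.cons (P.lf 27523 0 0) (P.cons (P.lf 0 34237 0) P.nil)) (P.cons (P.cons (P.lf 0 12245 0) P.nil) P.nil)))))) 20660)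
 (EL.cons 5 (TM.mk (P.cons (P.cons (P.lf 131969960 0 0) (P.cons (P.lf 0 92702808 0) (P.cons (P.lf 14804374 0 0) (P.cons (P.lf 1010058 0 0) (P.cons (P.lf 0 168618 0) (P.cons (P.lf 0 2748 0) P.nil)))))) (P.cons (P.cons (P.lf 0 5921770 0) (P.cons (P.lf 0 5669682 0) (P.cons (P.lf 2631616 0 0) (P.cons (P.lf 116722 0 0) (P.cons (P.lf 0 28190 0) P.nil))))) (P.cons (P.cons (P.lf 0 6042042 0) (P.cons (P.lf 2793658 0 0) (P.cons (P.lf 0 8364 0) (P.cons (P.lf 0 16500 0) P.nil)))) (P.cons (P.cons (P.lf 176846 0 0) (P.cons (P.lf 211728 0 0) (P.cons (P.lf 0 30574 0) P.nil))) (P.cons (P.cons (P.lf 106540 0 0) (P.cons (P.lf 0 27116 0) P.nil)) (P.cons (P.cons (P.lf 0 1462 0) P.nil) P.nil)))))) 16940)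
 EL.nil)))
noncomputable def S212_227_438_512_6 : EL := (EL.cons 12 (TM.mk (P.lf 8589934592 0 0) 0)
 (EL.cons 3 (TM.mk (P.cons (P.lf 0 1119737460 0) (P.cons (P.lf 218679686 0 0) (P.cons (P.lf 3398598 0 0) (P.cons (P.lf 0 194190 0) (P.cons (P.lf 0 5531 0) (P.cons (P.lf 146 0 0) P.nil)))))) 52)
 (EL.cons 7 (TM.mk (P.cons (P.lf 0 2041050269 0) (P.cons (P.lf 0 42655831 0) (P.cons (P.lf 3948043 0 0) (P.cons (P.lf 84836 0 0) (P.cons (P.lf 0 3266 0) (P.cons (P.lf 0 122 0) P.nil)))))) 52)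
 EL.nil)))
noncomputable def S212_227_438_512_7 : EL := (EL.cons 12 (TM.mk (P.cons (P.cons (P.lf 2240467426 0 0) (P.cons (P.lf 0 786912496 0) (P.cons (P.lf 0 12524744 0) (P.lf 4174912 0 0)))) (P.cons (P.cons (P.lf 0 97090692 0) (P.cons (P.lf 0 49336952 0) (P.cons (P.lf 0 785256 0) (P.lf 261744 0 0)))) (P.cons (P.cons (P.lf 0 45489212 0) (P.cons (P.lf 3535328 0 0) (P.cons (P.lf 56264 0 0) (P.lf 0 18752 0)))) (P.cons (P.cons (P.lf 1193824 0 0) (P.cons (P.lf 281800 0 0) (P.cons (P.lf 4480 0 0) P.nil))) (P.cons (P.cons (P.lf 191390 0 0) (P.cons (P.lf 0 6512 0) P.nil)) (P.cons (P.cons (P.lf 0 1168 0) P.nil) P.nil)))))) 3882)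
 (EL.cons 3 (TM.mk (P.cons (P.cons (P.lf 0 897645925 0) (P.cons (P.lf 0 205155320 0) (P.cons (P.lf 0 3265314 0) (P.lf 1088436 0 0)))) (P.cons (P.cons (P.lf 0 504262122 0) (P.cons (P.lf 27203312 0 0) (P.cons (P.lf 432976 0 0) (P.lf 0 144326 0)))) (P.cons (P.cons (P.lf 21269648 0 0) (P.cons (P.lf 4056380 0 0) (P.cons (P.lf 64560 0 0) (P.lf 0 21516 0)))) (P.cons (P.cons (P.lf 4236935 0 0) (P.cons (P.lf 0 103072 0) (P.cons (P.lf 0 1640 0) P.nil))) (P.cons (P.cons (P.lf 0 21836 0) (P.cons (P.lf 0 22084 0) P.nil)) (P.cons (P.cons (P.lf 0 16277 0) P.nil) P.nil)))))) 8743)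
 (EL.cons 7 (TM.mk (P.cons (P.cons (P.lf 0 414229409 0) (P.cons (P.lf 247004549 0 0) (P.cons (P.lf 3931408 0 0) (P.lf 0 1310472 0)))) (P.cons (P.cons (P.lf 98361767 0 0) (P.cons (P.lf 0 5306295 0) (P.cons (P.lf 0 84455 0) (P.lf 28148 0 0)))) (P.cons (P.cons (P.lf 0 14781502 0) (P.cons (P.lf 0 217646 0) (P.cons (P.lf 0 3468 0) (P.lf 1156 0 0)))) (P.cons (P.cons (P.lf 0 116441 0) (P.cons (P.lf 128099 0 0) (P.cons (P.lf 2036 0 0) P.nil))) (P.cons (P.cons (P.lf 124418 0 0) (P.cons (P.lf 63 0 0) P.nil)) (P.cons (P.cons (P.lf 1334 0 0) P.nil) P.nil)))))) 7869)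
 (EL.cons 10 (TM.mk (P.cons (P.cons (P.lf 0 2856770559 0) (P.cons (P.lf 0 105896589 0) (P.cons (P.lf 52472139 0 0) (P.cons (P.lf 476151 0 0) (P.lf 0 119037 0))))) (P.cons (P.cons (P.lf 0 119407071 0) (P.cons (P.lf 0 4426257 0) (P.cons (P.lf 2193225 0 0) (P.cons (P.lf 19902 0 0) (P.lf 0 4974 0))))) (P.cons (P.cons (P.lf 9804069 0 0) (P.cons (P.lf 363423 0 0) (P.cons (P.lf 0 180075 0) (P.cons (P.lf 0 1632 0) P.nil)))) (P.cons (P.cons (P.lf 468453 0 0) (P.cons (P.lf 17364 0 0) (P.cons (P.lf 0 8604 0) P.nil))) (P.cons (P.cons (P.lf 0 14865 0) (P.cons (P.lf 0 549 0) P.nil)) (P.cons (P.cons (P.lf 0 987 0) P.nil) P.nil)))))) 1158)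
 EL.nil))))
noncomputable def S212_227_438_512_8 : EL := (EL.cons 12 (TM.mk (P.cons (P.cons (P.lf 584369324 0 0) (P.cons (P.lf 0 410492488 0) (P.cons (P.lf 65554482 0 0) (P.cons (P.lf 4472590 0 0) (P.cons (P.lf 0 746654 0) (P.cons (P.lf 0 12174 0) P.nil)))))) (P.cons (P.cons (P.lf 0 50647308 0) (P.cons (P.lf 0 7947896 0) (P.cons (P.lf 8912886 0 0) (P.cons (P.lf 329908 0 0) (P.cons (P.lf 0 93622 0) P.nil))))) (P.cons (P.cons (P.lf 0 22632022 0) (P.cons (P.lf 11293910 0 0) (P.cons (P.lf 0 184608 0) (P.cons (P.lf 0 71514 0) P.nil)))) (P.cons (P.cons (P.lf 1651072 0 0) (P.cons (P.lf 370894 0 0) (P.cons (P.lf 0 86340 0) P.nil))) (P.cons (P.cons (P.lf 313744 0 0) (P.cons (P.lf 0 95990 0) P.nil)) (P.cons (P.cons (P.lf 0 17578 0) P.nil) P.nil)))))) 42748)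
 (EL.cons 3 (TM.mk (P.cons (P.cons (P.lf 0 392081293 0) (P.cons (P.lf 3935554 0 0) (P.cons (P.lf 47047655 0 0) (P.cons (P.lf 1474775 0 0) (P.cons (P.lf 0 486645 0) (P.cons (P.lf 0 7936 0) P.nil)))))) (P.cons (P.cons (P.lf 0 264234955 0) (P.cons (P.lf 130943367 0 0) (P.cons (P.lf 0 1200200 0) (P.cons (P.lf 0 799258 0) (P.cons (P.lf 34015 0 0) P.nil))))) (P.cons (P.cons (P.lf 30109682 0 0) (P.cons (P.lf 6667562 0 0) (P.cons (P.lf 0 1424573 0) (P.cons (P.lf 0 84095 0) P.nil)))) (P.cons (P.cons (P.lf 7645287 0 0) (P.cons (P.lf 0 2230489 0) (P.cons (P.lf 0 58974 0) P.nil))) (P.cons (P.cons (P.lf 0 505554 0) (P.cons (P.lf 0 139484 0) P.nil)) (P.cons (P.cons (P.lf 0 80669 0) P.nil) P.nil)))))) 111453)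
 (EL.cons 7 (TM.mk (P.cons (P.cons (P.lf 0 77230840 0) (P.cons (P.lf 107206878 0 0) (P.cons (P.lf 0 26420373 0) (P.cons (P.lf 0 1464129 0) (P.cons (P.lf 291322 0 0) (P.cons (P.lf 4746 0 0) P.nil)))))) (P.cons (P.cons (P.lf 51541878 0 0) (P.cons (P.lf 0 25541910 0) (P.cons (P.lf 234112 0 0) (P.cons (P.lf 155901 0 0) (P.cons (P.lf 0 6633 0) P.nil))))) (P.cons (P.cons (P.lf 0 11444747 0) (P.cons (P.lf 1460428 0 0) (P.cons (P.lf 252568 0 0) (P.cons (P.lf 0 447 0) P.nil)))) (P.cons (P.cons (P.lf 0 586079 0) (P.cons (P.lf 593432 0 0) (P.cons (P.lf 0 28281 0) P.nil))) (P.cons (P.cons (P.lf 326843 0 0) (P.cons (P.lf 0 43804 0) P.nil)) (P.cons (P.cons (P.lf 0 3657 0) P.nil) P.nil)))))) 50824)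
 (EL.cons 10 (TM.mk (P.cons (P.cons (P.lf 0 1490232852 0) (P.cons (P.lf 468169008 0 0) (P.cons (P.lf 55104906 0 0) (P.cons (P.lf 0 11833524 0) (P.cons (P.lf 0 405282 0) (P.cons (P.lf 71424 0 0) P.nil)))))) (P.cons (P.cons (P.lf 2290626 0 0) (P.cons (P.lf 54778518 0 0) (P.cons (P.lf 2855856 0 0) (P.cons (P.lf 0 1262868 0) (P.cons (P.lf 0 35760 0) P.nil))))) (P.cons (P.cons (P.lf 38070426 0 0) (P.cons (P.lf 0 1364910 0) (P.cons (P.lf 0 846348 0) (P.cons (P.lf 57732 0 0) P.nil)))) (P.cons (P.cons (P.lf 493350 0 0) (P.cons (P.lf 0 465882 0) (P.cons (P.lf 0 34710 0) P.nil))) (P.cons (P.cons (P.lf 0 282672 0) (P.cons (P.lf 0 8562 0) P.nil)) (P.cons (P.cons (P.lf 0 6954 0) P.nil) P.nil)))))) 40356)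
 EL.nil))))
noncomputable def S212_227_438_512_9 : EL := (EL.cons 3 (TM.mk (P.cons (P.lf 0 1119737460 0) (P.cons (P.lf 218679686 0 0) (P.cons (P.lf 3398598 0 0) (P.cons (P.lf 0 194190 0) (P.cons (P.lf 0 5531 0) (P.cons (P.lf 146 0 0) P.nil)))))) 52)
 (EL.cons 7 (TM.mk (P.cons (P.lf 0 2041050269 0) (P.cons (P.lf 0 42655831 0) (P.cons (P.lf 3948043 0 0) (P.cons (P.lf 84836 0 0) (P.cons (P.lf 0 3266 0) (P.cons (P.lf 0 122 0) P.nil)))))) 52)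
 EL.nil))
noncomputable def S212_227_438_512_10 : EL := (EL.cons 3 (TM.mk (P.cons (P.cons (P.lf 0 292055227 0) (P.cons (P.lf 102577660 0 0) (P.cons (P.lf 1632657 0 0) (P.lf 0 544218 0)))) (P.cons (P.cons (P.lf 69693288 0 0) (P.cons (P.lf 0 13601656 0) (P.cons (P.lf 0 216488 0) (P.lf 72163 0 0)))) (P.cons (P.cons (P.lf 4344464 0 0) (P.cons (P.lf 0 2028190 0) (P.cons (P.lf 0 32280 0) (P.lf 10758 0 0)))) (P.cons (P.cons (P.lf 0 1402732 0) (P.cons (P.lf 51536 0 0) (P.cons (P.lf 820 0 0) P.nil))) (P.cons (P.cons (P.lf 0 11801 0) (P.cons (P.lf 11042 0 0) P.nil)) (P.cons (P.cons (P.lf 6625 0 0) P.nil) P.nil)))))) 2103)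
 (EL.cons 7 (TM.mk (P.cons (P.cons (P.lf 0 532356398 0) (P.cons (P.lf 186977903 0 0) (P.cons (P.lf 2975998 0 0) (P.lf 0 991998 0)))) (P.cons (P.cons (P.lf 11943977 0 0) (P.cons (P.lf 15630573 0 0) (P.cons (P.lf 248779 0 0) (P.lf 0 82924 0)))) (P.cons (P.cons (P.lf 12320549 0 0) (P.cons (P.lf 0 956705 0) (P.cons (P.lf 0 15225 0) (P.lf 5074 0 0)))) (P.cons (P.cons (P.lf 0 80270 0) (P.cons (P.lf 0 114961 0) (P.cons (P.lf 0 1828 0) P.nil))) (P.cons (P.cons (P.lf 0 74122 0) (P.cons (P.lf 1584 0 0) P.nil)) (P.cons (P.cons (P.lf 0 568 0) P.nil) P.nil)))))) 1676)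
 EL.nil))
noncomputable def S212_227_438_512_11 : EL := (EL.cons 3 (TM.mk (P.cons (P.cons (P.lf 0 76175227 0) (P.cons (P.lf 53509582 0 0) (P.cons (P.lf 0 8545327 0) (P.cons (P.lf 0 583021 0) (P.cons (P.lf 97329 0 0) (P.cons (P.lf 1586 0 0) P.nil)))))) (P.cons (P.cons (P.lf 21478787 0 0) (P.cons (P.lf 0 9414135 0) (P.cons (P.lf 507028 0 0) (P.cons (P.lf 70856 0 0) (P.cons (P.lf 0 6803 0) P.nil))))) (P.cons (P.cons (P.lf 1892030 0 0) (P.cons (P.lf 0 1836958 0) (P.cons (P.lf 276901 0 0) (P.cons (P.lf 19489 0 0) P.nil)))) (P.cons (P.cons (P.lf 0 824631 0) (P.cons (P.lf 245303 0 0) (P.cons (P.lf 8598 0 0) P.nil))) (P.cons (P.cons (P.lf 0 7050 0) (P.cons (P.lf 26866 0 0) P.nil)) (P.cons (P.cons (P.lf 11485 0 0) P.nil) P.nil)))))) 17987)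
 (EL.cons 7 (TM.mk (P.cons (P.cons (P.lf 0 138851716 0) (P.cons (P.lf 97536924 0 0) (P.cons (P.lf 0 15576369 0) (P.cons (P.lf 0 1062729 0) (P.cons (P.lf 177412 0 0) (P.cons (P.lf 2892 0 0) P.nil)))))) (P.cons (P.cons (P.lf 9132426 0 0) (P.cons (P.lf 3926916 0 0) (P.cons (P.lf 0 2443316 0) (P.cons (P.lf 0 100599 0) (P.cons (P.lf 25953 0 0) P.nil))))) (P.cons (P.cons (P.lf 5897671 0 0) (P.cons (P.lf 0 2832740 0) (P.cons (P.lf 29734 0 0) (P.cons (P.lf 17409 0 0) P.nil)))) (P.cons (P.cons (P.lf 0 297431 0) (P.cons (P.lf 0 151918 0) (P.cons (P.lf 26175 0 0) P.nil))) (P.cons (P.cons (P.lf 0 93871 0) (P.cons (P.lf 26234 0 0) P.nil)) (P.cons (P.cons (P.lf 3165 0 0) P.nil) P.nil)))))) 13698)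
 EL.nil))
noncomputable def S212_227_438_512_12 : EL := (EL.cons 4 (TM.mk (P.cons (P.lf 1119737460 0 0) (P.cons (P.lf 0 218679686 0) (P.cons (P.lf 0 3398598 0) (P.cons (P.lf 194190 0 0) (P.cons (P.lf 5531 0 0) (P.cons (P.lf 0 146 0) P.nil)))))) 52)
 (EL.cons 8 (TM.mk (P.cons (P.lf 2041050269 0 0) (P.cons (P.lf 42655831 0 0) (P.cons (P.lf 0 3948043 0) (P.cons (P.lf 0 84836 0) (P.cons (P.lf 3266 0 0) (P.cons (P.lf 122 0 0) P.nil)))))) 52)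
 EL.nil))
noncomputable def S212_227_438_512_13 : EL := (EL.cons 4 (TM.mk (P.cons (P.cons (P.lf 292055227 0 0) (P.cons (P.lf 0 102577660 0) (P.cons (P.lf 0 1632657 0) (P.lf 544218 0 0)))) (P.cons (P.cons (P.lf 0 69693288 0) (P.cons (P.lf 13601656 0 0) (P.cons (P.lf 216488 0 0) (P.lf 0 72163 0)))) (P.cons (P.cons (P.lf 0 4344464 0) (P.cons (P.lf 2028190 0 0) (P.cons (P.lf 32280 0 0) (P.lf 0 10758 0)))) (P.cons (P.cons (P.lf 1402732 0 0) (P.cons (P.lf 0 51536 0) (P.cons (P.lf 0 820 0) P.nil))) (P.cons (P.cons (P.lf 11801 0 0) (P.cons (P.lf 0 11042 0) P.nil)) (P.cons (P.cons (P.lf 0 6625 0) P.nil) P.nil)))))) 2103)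
 (EL.cons 8 (TM.mk (P.cons (P.cons (P.lf 532356398 0 0) (P.cons (P.lf 0 186977903 0) (P.cons (P.lf 0 2975998 0) (P.lf 991998 0 0)))) (P.cons (P.cons (P.lf 0 11943977 0) (P.cons (P.lf 0 15630573 0) (P.cons (P.lf 0 248779 0) (P.lf 82924 0 0)))) (P.cons (P.cons (P.lf 0 12320549 0) (P.cons (P.lf 956705 0 0) (P.cons (P.lf 15225 0 0) (P.lf 0 5074 0)))) (P.cons (P.cons (P.lf 80270 0 0) (P.cons (P.lf 114961 0 0) (P.cons (P.lf 1828 0 0) P.nil))) (P.cons (P.cons (P.lf 74122 0 0) (P.cons (P.lf 0 1584 0) P.nil)) (P.cons (P.cons (P.lf 568 0 0) P.nil) P.nil)))))) 1676)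
 EL.nil))
noncomputable def S212_227_438_512_14 : EL := (EL.cons 4 (TM.mk (P.cons (P.cons (P.lf 76175227 0 0) (P.cons (P.lf 0 53509582 0) (P.cons (P.lf 8545327 0 0) (P.cons (P.lf 583021 0 0) (P.cons (P.lf 0 97329 0) (P.cons (P.lf 0 1586 0) P.nil)))))) (P.cons (P.cons (P.lf 0 21478787 0) (P.cons (P.lf 9414135 0 0) (P.cons (P.lf 0 507028 0) (P.cons (P.lf 0 70856 0) (P.cons (P.lf 6803 0 0) P.nil))))) (P.cons (P.cons (P.lf 0 1892030 0) (P.cons (P.lf 1836958 0 0) (P.cons (P.lf 0 276901 0) (P.cons (P.lf 0 19489 0) P.nil)))) (P.cons (P.cons (P.lf 824631 0 0) (P.cons (P.lf 0 245303 0) (P.cons (P.lf 0 8598 0) P.nil))) (P.cons (P.cons (P.lf 7050 0 0) (P.cons (P.lf 0 26866 0) P.nil)) (P.cons (P.cons (P.lf 0 11485 0) P.nil) P.nil)))))) 17987)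
 (EL.cons 8 (TM.mk (P.cons (P.cons (P.lf 138851716 0 0) (P.cons (P.lf 0 97536924 0) (P.cons (P.lf 15576369 0 0) (P.cons (P.lf 1062729 0 0) (P.cons (P.lf 0 177412 0) (P.cons (P.lf 0 2892 0) P.nil)))))) (P.cons (P.cons (P.lf 0 9132426 0) (P.cons (P.lf 0 3926916 0) (P.cons (P.lf 2443316 0 0) (P.cons (P.lf 100599 0 0) (P.cons (P.lf 0 25953 0) P.nil))))) (P.cons (P.cons (P.lf 0 5897671 0) (P.cons (P.lf 2832740 0 0) (P.cons (P.lf 0 29734 0) (P.cons (P.lf 0 17409 0) P.nil)))) (P.cons (P.cons (P.lf 297431 0 0) (P.cons (P.lf 151918 0 0) (P.cons (P.lf 0 26175 0) P.nil))) (P.cons (P.cons (P.lf 93871 0 0) (P.cons (P.lf 0 26234 0) P.nil)) (P.cons (P.cons (P.lf 0 3165 0) P.nil) P.nil)))))) 13698)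
 EL.nil))
noncomputable def S212_227_438_512_15 : EL := (EL.cons 4 (TM.mk (P.cons (P.lf 0 311387573 0) (P.cons (P.lf 121625182 0 0) (P.cons (P.lf 0 9986193 0) (P.cons (P.lf 0 477157 0) (P.cons (P.lf 15147 0 0) (P.cons (P.lf 1009 0 0) P.nil)))))) 78)
 (EL.cons 8 (TM.mk (P.cons (P.lf 0 567595274 0) (P.cons (P.lf 98986650 0 0) (P.cons (P.lf 5137286 0 0) (P.cons (P.lf 0 253256 0) (P.cons (P.lf 0 13708 0) (P.cons (P.lf 277 0 0) P.nil)))))) 68)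
 EL.nil))
noncomputable def S212_227_438_512_16 : EL := (EL.cons 4 (TM.mk (P.cons (P.cons (P.lf 0 81217581 0) (P.cons (P.lf 28525801 0 0) (P.cons (P.lf 454024 0 0) (P.lf 0 151341 0)))) (P.cons (P.cons (P.lf 35242421 0 0) (P.cons (P.lf 0 9353442 0) (P.cons (P.lf 0 148872 0) (P.lf 49623 0 0)))) (P.cons (P.cons (P.lf 0 2330359 0) (P.cons (P.lf 88101 0 0) (P.cons (P.lf 1402 0 0) (P.lf 0 466 0)))) (P.cons (P.cons (P.lf 0 698941 0) (P.cons (P.lf 140909 0 0) (P.cons (P.lf 2242 0 0) P.nil))) (P.cons (P.cons (P.lf 72192 0 0) (P.cons (P.lf 1469 0 0) P.nil)) (P.cons (P.cons (P.lf 3982 0 0) P.nil) P.nil)))))) 2566)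
 (EL.cons 8 (TM.mk (P.cons (P.cons (P.lf 0 148042887 0) (P.cons (P.lf 51996648 0 0) (P.cons (P.lf 827594 0 0) (P.lf 0 275864 0)))) (P.cons (P.cons (P.lf 32233607 0 0) (P.cons (P.lf 0 5808008 0) (P.cons (P.lf 0 92442 0) (P.lf 30814 0 0)))) (P.cons (P.cons (P.lf 3226881 0 0) (P.cons (P.lf 0 1272760 0) (P.cons (P.lf 0 20256 0) (P.lf 6751 0 0)))) (P.cons (P.cons (P.lf 0 727203 0) (P.cons (P.lf 15813 0 0) (P.cons (P.lf 251 0 0) P.nil))) (P.cons (P.cons (P.lf 0 26807 0) (P.cons (P.lf 8501 0 0) P.nil)) (P.cons (P.cons (P.lf 4564 0 0) P.nil) P.nil)))))) 1726)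
 EL.nil))
noncomputable def S212_227_438_512_17 : EL := (EL.cons 4 (TM.mk (P.cons (P.cons (P.lf 0 21183554 0) (P.cons (P.lf 14880468 0 0) (P.cons (P.lf 0 2376368 0) (P.cons (P.lf 0 162132 0) (P.cons (P.lf 27065 0 0) (P.cons (P.lf 440 0 0) P.nil)))))) (P.cons (P.cons (P.lf 10110084 0 0) (P.cons (P.lf 0 5524063 0) (P.cons (P.lf 605093 0 0) (P.cons (P.lf 51367 0 0) (P.cons (P.lf 0 7177 0) P.nil))))) (P.cons (P.cons (P.lf 0 576055 0) (P.cons (P.lf 0 44725 0) (P.cons (P.lf 56679 0 0) (P.cons (P.lf 2063 0 0) P.nil)))) (P.cons (P.cons (P.lf 0 353880 0) (P.cons (P.lf 178507 0 0) (P.cons (P.lf 0 13486 0) P.nil))) (P.cons (P.cons (P.lf 42158 0 0) (P.cons (P.lf 0 4680 0) P.nil)) (P.cons (P.cons (P.lf 4395 0 0) P.nil) P.nil)))))) 12181)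
 (EL.cons 8 (TM.mk (P.cons (P.cons (P.lf 0 38613247 0) (P.cons (P.lf 27124024 0 0) (P.cons (P.lf 0 4331629 0) (P.cons (P.lf 0 295533 0) (P.cons (P.lf 49336 0 0) (P.cons (P.lf 804 0 0) P.nil)))))) (P.cons (P.cons (P.lf 10080627 0 0) (P.cons (P.lf 0 4205164 0) (P.cons (P.lf 166486 0 0) (P.cons (P.lf 29740 0 0) (P.cons (P.lf 0 2417 0) P.nil))))) (P.cons (P.cons (P.lf 1261300 0 0) (P.cons (P.lf 0 1083351 0) (P.cons (P.lf 154111 0 0) (P.cons (P.lf 11201 0 0) P.nil)))) (P.cons (P.cons (P.lf 0 417417 0) (P.cons (P.lf 112987 0 0) (P.cons (P.lf 6975 0 0) P.nil))) (P.cons (P.cons (P.lf 0 14679 0) (P.cons (P.lf 18260 0 0) P.nil)) (P.cons (P.cons (P.lf 6531 0 0) P.nil) P.nil)))))) 11007)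
 EL.nil))
noncomputable def S212_227_438_512_18 : EL := (EL.cons 4 (TM.mk (P.cons (P.lf 86593710 0 0) (P.cons (P.lf 0 50734084 0) (P.cons (P.lf 9119656 0 0) (P.cons (P.lf 0 291978 0) (P.cons (P.lf 0 43993 0) (P.cons (P.lf 441 0 0) P.nil)))))) 153)
 (EL.cons 8 (TM.mk (P.cons (P.lf 157842459 0 0) (P.cons (P.lf 0 58353100 0) (P.cons (P.lf 3468227 0 0) (P.cons (P.lf 460355 0 0) (P.cons (P.lf 0 9599 0) (P.cons (P.lf 0 1439 0) P.nil)))))) 99)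
 EL.nil))
noncomputable def S212_227_438_512_19 : EL := (EL.cons 4 (TM.mk (P.cons (P.cons (P.lf 22585781 0 0) (P.cons (P.lf 0 7932734 0) (P.cons (P.lf 0 126259 0) (P.lf 42086 0 0)))) (P.cons (P.cons (P.lf 0 14211459 0) (P.cons (P.lf 4150323 0 0) (P.cons (P.lf 66057 0 0) (P.lf 0 22019 0)))) (P.cons (P.cons (P.lf 2493501 0 0) (P.cons (P.lf 0 508405 0) (P.cons (P.lf 0 8091 0) (P.lf 2697 0 0)))) (P.cons (P.cons (P.lf 101470 0 0) (P.cons (P.lf 0 43670 0) (P.cons (P.lf 0 694 0) P.nil))) (P.cons (P.cons (P.lf 0 61590 0) (P.cons (P.lf 7729 0 0) P.nil)) (P.cons (P.cons (P.lf 2283 0 0) P.nil) P.nil)))))) 2225)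
 (EL.cons 8 (TM.mk (P.cons (P.cons (P.lf 41169217 0 0) (P.cons (P.lf 0 14459738 0) (P.cons (P.lf 0 230145 0) (P.lf 76715 0 0)))) (P.cons (P.cons (P.lf 0 17004000 0) (P.cons (P.lf 4439069 0 0) (P.cons (P.lf 70653 0 0) (P.lf 0 23551 0)))) (P.cons (P.cons (P.lf 728278 0 0) (P.cons (P.lf 82398 0 0) (P.cons (P.lf 1311 0 0) (P.lf 0 437 0)))) (P.cons (P.cons (P.lf 411825 0 0) (P.cons (P.lf 0 80930 0) (P.cons (P.lf 0 1287 0) P.nil))) (P.cons (P.cons (P.lf 0 30666 0) (P.cons (P.lf 0 2371 0) P.nil)) (P.cons (P.cons (P.lf 0 3544 0) P.nil) P.nil)))))) 1737)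
 EL.nil))
noncomputable def S212_227_438_512_20 : EL := (EL.cons 4 (TM.mk (P.cons (P.cons (P.lf 5890930 0 0) (P.cons (P.lf 0 4138106 0) (P.cons (P.lf 660843 0 0) (P.cons (P.lf 45087 0 0) (P.cons (P.lf 0 7526 0) (P.cons (P.lf 0 121 0) P.nil)))))) (P.cons (P.cons (P.lf 0 3961982 0) (P.cons (P.lf 2344338 0 0) (P.cons (P.lf 0 297330 0) (P.cons (P.lf 0 23089 0) (P.cons (P.lf 3465 0 0) P.nil))))) (P.cons (P.cons (P.lf 691390 0 0) (P.cons (P.lf 0 275011 0) (P.cons (P.lf 15093 0 0) (P.cons (P.lf 2078 0 0) P.nil)))) (P.cons (P.cons (P.lf 76680 0 0) (P.cons (P.lf 0 57450 0) (P.cons (P.lf 7454 0 0) P.nil))) (P.cons (P.cons (P.lf 0 31887 0) (P.cons (P.lf 11204 0 0) P.nil)) (P.cons (P.cons (P.lf 780 0 0) P.nil) P.nil)))))) 7130)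
 (EL.cons 8 (TM.mk (P.cons (P.cons (P.lf 10737950 0 0) (P.cons (P.lf 0 7542914 0) (P.cons (P.lf 1204581 0 0) (P.cons (P.lf 82184 0 0) (P.cons (P.lf 0 13719 0) (P.cons (P.lf 0 223 0) P.nil)))))) (P.cons (P.cons (P.lf 0 4900392 0) (P.cons (P.lf 2642510 0 0) (P.cons (P.lf 0 281547 0) (P.cons (P.lf 0 24320 0) (P.cons (P.lf 3351 0 0) P.nil))))) (P.cons (P.cons (P.lf 164128 0 0) (P.cons (P.lf 95781 0 0) (P.cons (P.lf 0 37471 0) (P.cons (P.lf 0 1749 0) P.nil)))) (P.cons (P.cons (P.lf 194951 0 0) (P.cons (P.lf 0 95114 0) (P.cons (P.lf 6779 0 0) P.nil))) (P.cons (P.cons (P.lf 0 17955 0) (P.cons (P.lf 308 0 0) P.nil)) (P.cons (P.cons (P.lf 0 3041 0) P.nil) P.nil)))))) 7091)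
 EL.nil))
noncomputable def S212_227_438_512_21 : EL := (EL.cons 4 (TM.mk (P.cons (P.cons (P.lf 605590698 0 0) (P.cons (P.lf 307732980 0 0) (P.cons (P.lf 4897971 0 0) (P.lf 0 1632654 0)))) (P.cons (P.cons (P.lf 573955410 0 0) (P.cons (P.lf 0 40804968 0) (P.cons (P.lf 0 649464 0) (P.lf 216489 0 0)))) (P.cons (P.cons (P.lf 0 16925184 0) (P.cons (P.lf 0 6084570 0) (P.cons (P.lf 0 96840 0) (P.lf 32274 0 0)))) (P.cons (P.cons (P.lf 0 5639667 0) (P.cons (P.lf 154608 0 0) (P.cons (P.lf 2460 0 0) P.nil))) (P.cons (P.cons (P.lf 10035 0 0) (P.cons (P.lf 33126 0 0) P.nil)) (P.cons (P.cons (P.lf 22902 0 0) P.nil) P.nil)))))) 6621)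
 (EL.cons 8 (TM.mk (P.cons (P.cons (P.lf 0 118126989 0) (P.cons (P.lf 0 60026646 0) (P.cons (P.lf 0 955410 0) (P.lf 318474 0 0)))) (P.cons (P.cons (P.lf 0 86417790 0) (P.cons (P.lf 20936868 0 0) (P.cons (P.lf 333234 0 0) (P.lf 0 111072 0)))) (P.cons (P.cons (P.lf 27102051 0 0) (P.cons (P.lf 0 739059 0) (P.cons (P.lf 0 11757 0) (P.lf 3918 0 0)))) (P.cons (P.cons (P.lf 36171 0 0) (P.cons (P.lf 0 243060 0) (P.cons (P.lf 0 3864 0) P.nil))) (P.cons (P.cons (P.lf 0 198540 0) (P.cons (P.lf 1521 0 0) P.nil)) (P.cons (P.cons (P.lf 0 1902 0) P.nil) P.nil)))))) 6174)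
 (EL.cons 11 (TM.mk (P.cons (P.cons (P.lf 2856770559 0 0) (P.cons (P.lf 105896589 0 0) (P.cons (P.lf 0 52472139 0) (P.cons (P.lf 0 476151 0) (P.lf 119037 0 0))))) (P.cons (P.cons (P.lf 119407071 0 0) (P.cons (P.lf 4426257 0 0) (P.cons (P.lf 0 2193225 0) (P.cons (P.lf 0 19902 0) (P.lf 4974 0 0))))) (P.cons (P.cons (P.lf 0 9804069 0) (P.cons (P.lf 0 363423 0) (P.cons (P.lf 180075 0 0) (P.cons (P.lf 1632 0 0) P.nil)))) (P.cons (P.cons (P.lf 0 468453 0) (P.cons (P.lf 0 17364 0) (P.cons (P.lf 8604 0 0) P.nil))) (P.cons (P.cons (P.lf 14865 0 0) (P.cons (P.lf 549 0 0) P.nil)) (P.cons (P.cons (P.lf 987 0 0) P.nil) P.nil)))))) 1158)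
 EL.nil)))
noncomputable def S212_227_438_512_22 : EL := (EL.cons 4 (TM.mk (P.cons (P.cons (P.lf 157953033 0 0) (P.cons (P.lf 24787014 0 0) (P.cons (P.lf 0 27796491 0) (P.cons (P.lf 0 1028898 0) (P.cons (P.lf 291987 0 0) (P.cons (P.lf 4761 0 0) P.nil)))))) (P.cons (P.cons (P.lf 142856871 0 0) (P.cons (P.lf 0 70178751 0) (P.cons (P.lf 853614 0 0) (P.cons (P.lf 435057 0 0) (P.cons (P.lf 0 20409 0) P.nil))))) (P.cons (P.cons (P.lf 0 14108826 0) (P.cons (P.lf 0 4252260 0) (P.cons (P.lf 850737 0 0) (P.cons (P.lf 51792 0 0) P.nil)))) (P.cons (P.cons (P.lf 0 4234959 0) (P.cons (P.lf 1237896 0 0) (P.cons (P.lf 33786 0 0) P.nil))) (P.cons (P.cons (P.lf 249252 0 0) (P.cons (P.lf 83175 0 0) P.nil)) (P.cons (P.cons (P.lf 46077 0 0) P.nil) P.nil)))))) 46722)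
 (EL.cons 8 (TM.mk (P.cons (P.cons (P.lf 0 30810438 0) (P.cons (P.lf 0 4834977 0) (P.cons (P.lf 5422002 0 0) (P.cons (P.lf 200700 0 0) (P.cons (P.lf 0 56955 0) (P.cons (P.lf 0 927 0) P.nil)))))) (P.cons (P.cons (P.lf 0 21204726 0) (P.cons (P.lf 14734413 0 0) (P.cons (P.lf 0 1338714 0) (P.cons (P.lf 0 128250 0) (P.cons (P.lf 16293 0 0) P.nil))))) (P.cons (P.cons (P.lf 8671209 0 0) (P.cons (P.lf 0 2146584 0) (P.cons (P.lf 0 111417 0) (P.cons (P.lf 8928 0 0) P.nil)))) (P.cons (P.cons (P.lf 144324 0 0) (P.cons (P.lf 0 372675 0) (P.cons (P.lf 27228 0 0) P.nil))) (P.cons (P.cons (P.lf 0 210357 0) (P.cons (P.lf 35019 0 0) P.nil)) (P.cons (P.cons (P.lf 3411 0 0) P.nil) P.nil)))))) 18552)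
 (EL.cons 11 (TM.mk (P.cons (P.cons (P.lf 745116426 0 0) (P.cons (P.lf 0 234084504 0) (P.cons (P.lf 0 27552453 0) (P.cons (P.lf 5916762 0 0) (P.cons (P.lf 202641 0 0) (P.cons (P.lf 0 35712 0) P.nil)))))) (P.cons (P.cons (P.lf 0 1145313 0) (P.cons (P.lf 0 27389259 0) (P.cons (P.lf 0 1427928 0) (P.cons (P.lf 631434 0 0) (P.cons (P.lf 17880 0 0) P.nil))))) (P.cons (P.cons (P.lf 0 19035213 0) (P.cons (P.lf 682455 0 0) (P.cons (P.lf 423174 0 0) (P.cons (P.lf 0 28866 0) P.nil)))) (P.cons (P.cons (P.lf 0 246675 0) (P.cons (P.lf 232941 0 0) (P.cons (P.lf 17355 0 0) P.nil))) (P.cons (P.cons (P.lf 141336 0 0) (P.cons (P.lf 4281 0 0) P.nil)) (P.cons (P.cons (P.lf 3477 0 0) P.nil) P.nil)))))) 20178)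
 EL.nil)))
noncomputable def S212_227_438_512_23 : EL := (EL.cons 4 (TM.mk (P.cons (P.cons (P.lf 0 168408597 0) (P.cons (P.lf 0 85577403 0) (P.cons (P.lf 0 1362075 0) (P.lf 454023 0 0)))) (P.cons (P.cons (P.lf 0 126721707 0) (P.cons (P.lf 28060326 0 0) (P.cons (P.lf 446616 0 0) (P.lf 0 148872 0)))) (P.cons (P.cons (P.lf 36389208 0 0) (P.cons (P.lf 0 264303 0) (P.cons (P.lf 0 4206 0) (P.lf 1404 0 0)))) (P.cons (P.cons (P.lf 1104372 0 0) (P.cons (P.lf 0 422727 0) (P.cons (P.lf 0 6726 0) P.nil))) (P.cons (P.cons (P.lf 0 351876 0) (P.cons (P.lf 0 4404 0) P.nil)) (P.cons (P.cons (P.lf 0 10533 0) P.nil) P.nil)))))) 8532)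
 (EL.cons 8 (TM.mk (P.cons (P.cons (P.lf 32849910 0 0) (P.cons (P.lf 16692798 0 0) (P.cons (P.lf 265689 0 0) (P.lf 0 88563 0)))) (P.cons (P.cons (P.lf 17616465 0 0) (P.cons (P.lf 0 9082356 0) (P.cons (P.lf 0 144555 0) (P.lf 48183 0 0)))) (P.cons (P.cons (P.lf 0 12329832 0) (P.cons (P.lf 1291932 0 0) (P.cons (P.lf 20559 0 0) (P.lf 0 6852 0)))) (P.cons (P.cons (P.lf 1394601 0 0) (P.cons (P.lf 48021 0 0) (P.cons (P.lf 762 0 0) P.nil))) (P.cons (P.cons (P.lf 84381 0 0) (P.cons (P.lf 0 15174 0) P.nil)) (P.cons (P.cons (P.lf 0 11415 0) P.nil) P.nil)))))) 3384)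
 (EL.cons 11 (TM.mk (P.cons (P.cons (P.lf 0 794438769 0) (P.cons (P.lf 0 29448759 0) (P.cons (P.lf 14591964 0 0) (P.cons (P.lf 132411 0 0) (P.lf 0 33102 0))))) (P.cons (P.cons (P.lf 121944426 0 0) (P.cons (P.lf 4520313 0 0) (P.cons (P.lf 0 2239830 0) (P.cons (P.lf 0 20325 0) (P.lf 5079 0 0))))) (P.cons (P.cons (P.lf 11622630 0 0) (P.cons (P.lf 430833 0 0) (P.cons (P.lf 0 213477 0) (P.cons (P.lf 0 1935 0) P.nil)))) (P.cons (P.cons (P.lf 0 439173 0) (P.cons (P.lf 0 16278 0) (P.cons (P.lf 8064 0 0) P.nil))) (P.cons (P.cons (P.lf 0 47532 0) (P.cons (P.lf 0 1761 0) P.nil)) (P.cons (P.cons (P.lf 549 0 0) P.nil) P.nil)))))) 1998)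
 EL.nil)))
noncomputable def S212_227_438_512_24 : EL := (EL.cons 4 (TM.mk (P.cons (P.cons (P.lf 0 43925127 0) (P.cons (P.lf 0 6893016 0) (P.cons (P.lf 7729920 0 0) (P.cons (P.lf 286125 0 0) (P.cons (P.lf 0 81198 0) (P.cons (P.lf 0 1323 0) P.nil)))))) (P.cons (P.cons (P.lf 0 31148658 0) (P.cons (P.lf 20862168 0 0) (P.cons (P.lf 0 1746999 0) (P.cons (P.lf 0 176862 0) (P.cons (P.lf 21531 0 0) P.nil))))) (P.cons (P.cons (P.lf 11815353 0 0) (P.cons (P.lf 0 2607954 0) (P.cons (P.lf 0 213681 0) (P.cons (P.lf 8355 0 0) P.nil)))) (P.cons (P.cons (P.lf 524412 0 0) (P.cons (P.lf 0 635613 0) (P.cons (P.lf 38868 0 0) P.nil))) (P.cons (P.cons (P.lf 0 318327 0) (P.cons (P.lf 43860 0 0) P.nil)) (P.cons (P.cons (P.lf 0 2361 0) P.nil) P.nil)))))) 33681)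
 (EL.cons 8 (TM.mk (P.cons (P.cons (P.lf 8568069 0 0) (P.cons (P.lf 1344558 0 0) (P.cons (P.lf 0 1507803 0) (P.cons (P.lf 0 55812 0) (P.cons (P.lf 15837 0 0) (P.cons (P.lf 258 0 0) P.nil)))))) (P.cons (P.cons (P.lf 4223511 0 0) (P.cons (P.lf 0 4360074 0) (P.cons (P.lf 666750 0 0) (P.cons (P.lf 46563 0 0) (P.cons (P.lf 0 7623 0) P.nil))))) (P.cons (P.cons (P.lf 0 3589002 0) (P.cons (P.lf 1393083 0 0) (P.cons (P.lf 0 37143 0) (P.cons (P.lf 0 9276 0) P.nil)))) (P.cons (P.cons (P.lf 414381 0 0) (P.cons (P.lf 0 270 0) (P.cons (P.lf 0 15012 0) P.nil))) (P.cons (P.cons (P.lf 74718 0 0) (P.cons (P.lf 0 32493 0) P.nil)) (P.cons (P.cons (P.lf 0 12642 0) P.nil) P.nil)))))) 9900)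
 (EL.cons 11 (TM.mk (P.cons (P.cons (P.lf 0 207209280 0) (P.cons (P.lf 65096514 0 0) (P.cons (P.lf 7662054 0 0) (P.cons (P.lf 0 1645389 0) (P.cons (P.lf 0 56352 0) (P.cons (P.lf 9930 0 0) P.nil)))))) (P.cons (P.cons (P.lf 40785540 0 0) (P.cons (P.lf 0 5096382 0) (P.cons (P.lf 0 1099272 0) (P.cons (P.lf 145740 0 0) (P.cons (P.lf 6030 0 0) P.nil))))) (P.cons (P.cons (P.lf 5860212 0 0) (P.cons (P.lf 0 1874862 0) (P.cons (P.lf 0 218484 0) (P.cons (P.lf 47313 0 0) P.nil)))) (P.cons (P.cons (P.lf 0 1002099 0) (P.cons (P.lf 0 39543 0) (P.cons (P.lf 18279 0 0) P.nil))) (P.cons (P.cons (P.lf 0 69735 0) (P.cons (P.lf 13677 0 0) P.nil)) (P.cons (P.cons (P.lf 7446 0 0) P.nil) P.nil)))))) 13461)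
 EL.nil)))
noncomputable def S212_227_438_512_25 : EL := (EL.cons 4 (TM.mk (P.cons (P.cons (P.lf 46832712 0 0) (P.cons (P.lf 23798202 0 0) (P.cons (P.lf 378777 0 0) (P.lf 0 126258 0)))) (P.cons (P.cons (P.lf 26093796 0 0) (P.cons (P.lf 0 12450972 0) (P.cons (P.lf 0 198171 0) (P.lf 66057 0 0)))) (P.cons (P.cons (P.lf 0 17143830 0) (P.cons (P.lf 1525215 0 0) (P.cons (P.lf 24276 0 0) (P.lf 0 8091 0)))) (P.cons (P.cons (P.lf 1570332 0 0) (P.cons (P.lf 131013 0 0) (P.cons (P.lf 2085 0 0) P.nil))) (P.cons (P.cons (P.lf 194886 0 0) (P.cons (P.lf 0 23190 0) P.nil)) (P.cons (P.cons (P.lf 0 16833 0) P.nil) P.nil)))))) 7224)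
 (EL.cons 8 (TM.mk (P.cons (P.cons (P.lf 0 9135225 0) (P.cons (P.lf 0 4642095 0) (P.cons (P.lf 0 73884 0) (P.lf 24627 0 0)))) (P.cons (P.cons (P.lf 0 3114891 0) (P.cons (P.lf 3432291 0 0) (P.cons (P.lf 54627 0 0) (P.lf 0 18207 0)))) (P.cons (P.cons (P.lf 4413270 0 0) (P.cons (P.lf 0 838443 0) (P.cons (P.lf 0 13344 0) (P.lf 4446 0 0)))) (P.cons (P.cons (P.lf 0 1044168 0) (P.cons (P.lf 48339 0 0) (P.cons (P.lf 768 0 0) P.nil))) (P.cons (P.cons (P.lf 40971 0 0) (P.cons (P.lf 8331 0 0) P.nil)) (P.cons (P.cons (P.lf 9504 0 0) P.nil) P.nil)))))) 2985)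
 (EL.cons 11 (TM.mk (P.cons (P.cons (P.lf 220925322 0 0) (P.cons (P.lf 8189400 0 0) (P.cons (P.lf 0 4057875 0) (P.cons (P.lf 0 36822 0) (P.lf 9204 0 0))))) (P.cons (P.cons (P.lf 0 77057223 0) (P.cons (P.lf 0 2856405 0) (P.cons (P.lf 1415358 0 0) (P.cons (P.lf 12843 0 0) (P.lf 0 3210 0))))) (P.cons (P.cons (P.lf 2720079 0 0) (P.cons (P.lf 100827 0 0) (P.cons (P.lf 0 49959 0) (P.cons (P.lf 0 453 0) P.nil)))) (P.cons (P.cons (P.lf 894591 0 0) (P.cons (P.lf 33159 0 0) (P.cons (P.lf 0 16431 0) P.nil))) (P.cons (P.cons (P.lf 0 5610 0) (P.cons (P.lf 0 207 0) P.nil)) (P.cons (P.cons (P.lf 0 3861 0) P.nil) P.nil)))))) 2463)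
 EL.nil)))
noncomputable def S212_227_438_512_26 : EL := (EL.cons 4 (TM.mk (P.cons (P.cons (P.lf 12215130 0 0) (P.cons (P.lf 1916877 0 0) (P.cons (P.lf 0 2149611 0) (P.cons (P.lf 0 79566 0) (P.cons (P.lf 22578 0 0) (P.cons (P.lf 366 0 0) P.nil)))))) (P.cons (P.cons (P.lf 6276564 0 0) (P.cons (P.lf 0 6175914 0) (P.cons (P.lf 905631 0 0) (P.cons (P.lf 64722 0 0) (P.cons (P.lf 0 10398 0) P.nil))))) (P.cons (P.cons (P.lf 0 5014476 0) (P.cons (P.lf 1852443 0 0) (P.cons (P.lf 0 28929 0) (P.cons (P.lf 0 11685 0) P.nil)))) (P.cons (P.cons (P.lf 471681 0 0) (P.cons (P.lf 53061 0 0) (P.cons (P.lf 0 24261 0) P.nil))) (P.cons (P.cons (P.lf 128538 0 0) (P.cons (P.lf 0 49914 0) P.nil)) (P.cons (P.cons (P.lf 0 16716 0) P.nil) P.nil)))))) 15411)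
 (EL.cons 8 (TM.mk (P.cons (P.cons (P.lf 0 2382690 0) (P.cons (P.lf 0 373905 0) (P.cons (P.lf 419304 0 0) (P.cons (P.lf 15519 0 0) (P.cons (P.lf 0 4404 0) (P.cons (P.lf 0 69 0) P.nil)))))) (P.cons (P.cons (P.lf 0 709185 0) (P.cons (P.lf 1285515 0 0) (P.cons (P.lf 0 267303 0) (P.cons (P.lf 0 15978 0) (P.cons (P.lf 2979 0 0) P.nil))))) (P.cons (P.cons (P.lf 1234674 0 0) (P.cons (P.lf 0 623061 0) (P.cons (P.lf 45267 0 0) (P.cons (P.lf 5061 0 0) P.nil)))) (P.cons (P.cons (P.lf 0 306999 0) (P.cons (P.lf 71988 0 0) (P.cons (P.lf 2793 0 0) P.nil))) (P.cons (P.cons (P.lf 0 1518 0) (P.cons (P.lf 10404 0 0) P.nil)) (P.cons (P.cons (P.lf 8091 0 0) P.nil) P.nil)))))) 6705)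
 (EL.cons 11 (TM.mk (P.cons (P.cons (P.lf 57622788 0 0) (P.cons (P.lf 0 18102675 0) (P.cons (P.lf 0 2130738 0) (P.cons (P.lf 457566 0 0) (P.cons (P.lf 15669 0 0) (P.cons (P.lf 0 2760 0) P.nil)))))) (P.cons (P.cons (P.lf 0 22595514 0) (P.cons (P.lf 4952622 0 0) (P.cons (P.lf 721818 0 0) (P.cons (P.lf 0 129888 0) (P.cons (P.lf 0 4737 0) P.nil))))) (P.cons (P.cons (P.lf 410487 0 0) (P.cons (P.lf 299541 0 0) (P.cons (P.lf 7524 0 0) (P.cons (P.lf 0 6630 0) P.nil)))) (P.cons (P.cons (P.lf 641358 0 0) (P.cons (P.lf 0 98265 0) (P.cons (P.lf 0 18246 0) P.nil))) (P.cons (P.cons (P.lf 0 31764 0) (P.cons (P.lf 0 7377 0) P.nil)) (P.cons (P.cons (P.lf 0 7047 0) P.nil) P.nil)))))) 9753)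
 EL.nil)))
noncomputable def S212_227_438_512_27 : EL := (EL.cons 13 (TM.mk (P.lf 0 4294967296 0) 0)
 EL.nil)
noncomputable def S212_227_438_512_28 : EL := (EL.cons 13 (TM.mk (P.cons (P.cons (P.lf 0 1120233713 0) (P.cons (P.lf 393456248 0 0) (P.cons (P.lf 6262372 0 0) (P.lf 0 2087456 0)))) (P.cons (P.cons (P.lf 48545346 0 0) (P.cons (P.lf 24668476 0 0) (P.cons (P.lf 392628 0 0) (P.lf 0 130872 0)))) (P.cons (P.cons (P.lf 22744606 0 0) (P.cons (P.lf 0 1767664 0) (P.cons (P.lf 0 28132 0) (P.lf 9376 0 0)))) (P.cons (P.cons (P.lf 0 596912 0) (P.cons (P.lf 0 140900 0) (P.cons (P.lf 0 2240 0) P.nil))) (P.cons (P.cons (P.lf 0 95695 0) (P.cons (P.lf 3256 0 0) P.nil)) (P.cons (P.cons (P.lf 584 0 0) P.nil) P.nil)))))) 1941)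
 EL.nil)
noncomputable def S212_227_438_512_29 : EL := (EL.cons 13 (TM.mk (P.cons (P.cons (P.lf 0 292184662 0) (P.cons (P.lf 205246244 0 0) (P.cons (P.lf 0 32777241 0) (P.cons (P.lf 0 2236295 0) (P.cons (P.lf 373327 0 0) (P.cons (P.lf 6087 0 0) P.nil)))))) (P.cons (P.cons (P.lf 25323654 0 0) (P.cons (P.lf 3973948 0 0) (P.cons (P.lf 0 4456443 0) (P.cons (P.lf 0 164954 0) (P.cons (P.lf 46811 0 0) P.nil))))) (P.cons (P.cons (P.lf 11316011 0 0) (P.cons (P.lf 0 5646955 0) (P.cons (P.lf 92304 0 0) (P.cons (P.lf 35757 0 0) P.nil)))) (P.cons (P.cons (P.lf 0 825536 0) (P.cons (P.lf 0 185447 0) (P.cons (P.lf 43170 0 0) P.nil))) (P.cons (P.cons (P.lf 0 156872 0) (P.cons (P.lf 47995 0 0) P.nil)) (P.cons (P.cons (P.lf 8789 0 0) P.nil) P.nil)))))) 21374)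
 EL.nil)
noncomputable def S212_227_438_512_30 : EL := (EL.cons 13 (TM.mk (P.cons (P.lf 1194386624 0 0) (P.cons (P.lf 0 233258332 0) (P.cons (P.lf 0 3625172 0) (P.cons (P.lf 207136 0 0) (P.cons (P.lf 5900 0 0) (P.cons (P.lf 0 156 0) P.nil)))))) 48)
 EL.nil)
noncomputable def S212_227_438_512_31 : EL := (EL.cons 13 (TM.mk (P.cons (P.cons (P.lf 311525576 0 0) (P.cons (P.lf 0 109416171 0) (P.cons (P.lf 0 1741501 0) (P.lf 580500 0 0)))) (P.cons (P.cons (P.lf 0 74339508 0) (P.cons (P.lf 14508434 0 0) (P.cons (P.lf 230921 0 0) (P.lf 0 76974 0)))) (P.cons (P.cons (P.lf 0 4634095 0) (P.cons (P.lf 2163403 0 0) (P.cons (P.lf 34432 0 0) (P.lf 0 11476 0)))) (P.cons (P.cons (P.lf 1496248 0 0) (P.cons (P.lf 0 54972 0) (P.cons (P.lf 0 875 0) P.nil))) (P.cons (P.cons (P.lf 12588 0 0) (P.cons (P.lf 0 11779 0) P.nil)) (P.cons (P.cons (P.lf 0 7067 0) P.nil) P.nil)))))) 2223)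
 EL.nil)
noncomputable def S212_227_438_512_32 : EL := (EL.cons 13 (TM.mk (P.cons (P.cons (P.lf 81253576 0 0) (P.cons (P.lf 0 57076888 0) (P.cons (P.lf 9115016 0 0) (P.cons (P.lf 621890 0 0) (P.cons (P.lf 0 103818 0) (P.cons (P.lf 0 1692 0) P.nil)))))) (P.cons (P.cons (P.lf 0 22910707 0) (P.cons (P.lf 10041744 0 0) (P.cons (P.lf 0 540830 0) (P.cons (P.lf 0 75580 0) (P.cons (P.lf 7257 0 0) P.nil))))) (P.cons (P.cons (P.lf 0 2018166 0) (P.cons (P.lf 1959422 0 0) (P.cons (P.lf 0 295362 0) (P.cons (P.lf 0 20789 0) P.nil)))) (P.cons (P.cons (P.lf 879607 0 0) (P.cons (P.lf 0 261657 0) (P.cons (P.lf 0 9172 0) P.nil))) (P.cons (P.cons (P.lf 7521 0 0) (P.cons (P.lf 0 28658 0) P.nil)) (P.cons (P.cons (P.lf 0 12251 0) P.nil) P.nil)))))) 19163)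
 EL.nil)
noncomputable def S212_227_438_512_33 : EL := (EL.cons 14 (TM.mk (P.lf 8589934592 0 0) 0)
 EL.nil)
noncomputable def S212_227_438_512_34 : EL := (EL.cons 14 (TM.mk (P.cons (P.cons (P.lf 2240467426 0 0) (P.cons (P.lf 0 786912496 0) (P.cons (P.lf 0 12524744 0) (P.lf 4174912 0 0)))) (P.cons (P.cons (P.lf 0 97090692 0) (P.cons (P.lf 0 49336952 0) (P.cons (P.lf 0 785256 0) (P.lf 261744 0 0)))) (P.cons (P.cons (P.lf 0 45489212 0) (P.cons (P.lf 3535328 0 0) (P.cons (P.lf 56264 0 0) (P.lf 0 18752 0)))) (P.cons (P.cons (P.lf 1193824 0 0) (P.cons (P.lf 281800 0 0) (P.cons (P.lf 4480 0 0) P.nil))) (P.cons (P.cons (P.lf 191390 0 0) (P.cons (P.lf 0 6512 0) P.nil)) (P.cons (P.cons (P.lf 0 1168 0) P.nil) P.nil)))))) 3882)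
 EL.nil)
noncomputable def S212_227_438_512_35 : EL := (EL.cons 14 (TM.mk (P.cons (P.cons (P.lf 584369324 0 0) (P.cons (P.lf 0 410492488 0) (P.cons (P.lf 65554482 0 0) (P.cons (P.lf 4472590 0 0) (P.cons (P.lf 0 746654 0) (P.cons (P.lf 0 12174 0) P.nil)))))) (P.cons (P.cons (P.lf 0 50647308 0) (P.cons (P.lf 0 7947896 0) (P.cons (P.lf 8912886 0 0) (P.cons (P.lf 329908 0 0) (P.cons (P.lf 0 93622 0) P.nil))))) (P.cons (P.cons (P.lf 0 22632022 0) (P.cons (P.lf 11293910 0 0) (P.cons (P.lf 0 184608 0) (P.cons (P.lf 0 71514 0) P.nil)))) (P.cons (P.cons (P.lf 1651072 0 0) (P.cons (P.lf 370894 0 0) (P.cons (P.lf 0 86340 0) P.nil))) (P.cons (P.cons (P.lf 313744 0 0) (P.cons (P.lf 0 95990 0) P.nil)) (P.cons (P.cons (P.lf 0 17578 0) P.nil) P.nil)))))) 42748)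
 EL.nil)
noncomputable def S212_227_438_512_36 : EL := (EL.cons 14 (TM.mk (P.cons (P.lf 0 2388773248 0) (P.cons (P.lf 466516664 0 0) (P.cons (P.lf 7250344 0 0) (P.cons (P.lf 0 414272 0) (P.cons (P.lf 0 11800 0) (P.cons (P.lf 312 0 0) P.nil)))))) 96)
 EL.nil)
noncomputable def S212_227_438_512_37 : EL := (EL.cons 14 (TM.mk (P.cons (P.cons (P.lf 0 623051152 0) (P.cons (P.lf 218832342 0 0) (P.cons (P.lf 3483002 0 0) (P.lf 0 1161000 0)))) (P.cons (P.cons (P.lf 148679016 0 0) (P.cons (P.lf 0 29016868 0) (P.cons (P.lf 0 461842 0) (P.lf 153948 0 0)))) (P.cons (P.cons (P.lf 9268190 0 0) (P.cons (P.lf 0 4326806 0) (P.cons (P.lf 0 68864 0) (P.lf 22952 0 0)))) (P.cons (P.cons (P.lf 0 2992496 0) (P.cons (P.lf 109944 0 0) (P.cons (P.lf 1750 0 0) P.nil))) (P.cons (P.cons (P.lf 0 25176 0) (P.cons (P.lf 23558 0 0) P.nil)) (P.cons (P.cons (P.lf 14134 0 0) P.nil) P.nil))))))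 4446)
 EL.nil)
noncomputable def S212_227_438_512_38 : EL := (EL.cons 14 (TM.mk (P.cons (P.cons (P.lf 0 162507152 0) (P.cons (P.lf 114153776 0 0) (P.cons (P.lf 0 18230032 0) (P.cons (P.lf 0 1243780 0) (P.cons (P.lf 207636 0 0) (P.cons (P.lf 3384 0 0) P.nil)))))) (P.cons (P.cons (P.lf 45821414 0 0) (P.cons (P.lf 0 20083488 0) (P.cons (P.lf 1081660 0 0) (P.cons (P.lf 151160 0 0) (P.cons (P.lf 0 14514 0) P.nil))))) (P.cons (P.cons (P.lf 4036332 0 0) (P.cons (P.lf 0 3918844 0) (P.cons (P.lf 590724 0 0) (P.cons (P.lf 41578 0 0) P.nil)))) (P.cons (P.cons (P.lf 0 1759214 0) (P.cons (P.lf 523314 0 0) (P.cons (P.lf 18344 0 0) P.nil))) (P.cons (P.cons (P.lf 0 15042 0) (P.cons (P.lf 57316 0 0) P.nil)) (P.cons (P.cons (P.lf 24502 0 0) P.nil) P.nil)))))) 38326)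
 EL.nil)
noncomputable def S212_227_438_512_39 : EL := (EL.cons 14 (TM.mk (P.cons (P.lf 664293490 0 0) (P.cons (P.lf 0 259467056 0) (P.cons (P.lf 21303880 0 0) (P.cons (P.lf 1017936 0 0) (P.cons (P.lf 0 32314 0) (P.cons (P.lf 0 2154 0) P.nil)))))) 152)
 EL.nil)
noncomputable def S212_227_438_512_40 : EL := (EL.cons 14 (TM.mk (P.cons (P.cons (P.lf 173264174 0 0) (P.cons (P.lf 0 60855044 0) (P.cons (P.lf 0 968586 0) (P.lf 322862 0 0)))) (P.cons (P.cons (P.lf 0 75183832 0) (P.cons (P.lf 19954010 0 0) (P.cons (P.lf 317594 0 0) (P.lf 0 105864 0)))) (P.cons (P.cons (P.lf 4971434 0 0) (P.cons (P.lf 0 187950 0) (P.cons (P.lf 0 2992 0) (P.lf 996 0 0)))) (P.cons (P.cons (P.lf 1491076 0 0) (P.cons (P.lf 0 300606 0) (P.cons (P.lf 0 4784 0) P.nil))) (P.cons (P.cons (P.lf 0 154010 0) (P.cons (P.lf 0 3134 0) P.nil)) (P.cons (P.cons (P.lf 0 8496 0) P.nil) P.nil)))))) 5434)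
 EL.nil)
noncomputable def S212_227_438_512_41 : EL := (EL.cons 14 (TM.mk (P.cons (P.cons (P.lf 45191582 0 0) (P.cons (P.lf 0 31745000 0) (P.cons (P.lf 5069586 0 0) (P.cons (P.lf 345882 0 0) (P.cons (P.lf 0 57740 0) (P.cons (P.lf 0 940 0) P.nil)))))) (P.cons (P.cons (P.lf 0 21568180 0) (P.cons (P.lf 11784668 0 0) (P.cons (P.lf 0 1290866 0) (P.cons (P.lf 0 109584 0) (P.cons (P.lf 15312 0 0) P.nil))))) (P.cons (P.cons (P.lf 1228918 0 0) (P.cons (P.lf 95414 0 0) (P.cons (P.lf 0 120916 0) (P.cons (P.lf 0 4402 0) P.nil)))) (P.cons (P.cons (P.lf 754944 0 0) (P.cons (P.lf 0 380816 0) (P.cons (P.lf 28772 0 0) P.nil))) (P.cons (P.cons (P.lf 0 89938 0) (P.cons (P.lf 9984 0 0) P.nil)) (P.cons (P.cons (P.lf 0 9378 0) P.nil) P.nil)))))) 25940)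
 EL.nil)
noncomputable def S212_227_438_512_42 : EL := (EL.cons 14 (TM.mk (P.cons (P.lf 0 184733248 0) (P.cons (P.lf 108232714 0 0) (P.cons (P.lf 0 19455268 0) (P.cons (P.lf 622888 0 0) (P.cons (P.lf 93852 0 0) (P.cons (P.lf 0 942 0) P.nil)))))) 312)
 EL.nil)
noncomputable def S212_227_438_512_43 : EL := (EL.cons 14 (TM.mk (P.cons (P.cons (P.lf 0 48183000 0) (P.cons (P.lf 16923166 0 0) (P.cons (P.lf 269354 0 0) (P.lf 0 89784 0)))) (P.cons (P.cons (P.lf 30317780 0 0) (P.cons (P.lf 0 8854024 0) (P.cons (P.lf 0 140922 0) (P.lf 46974 0 0)))) (P.cons (P.cons (P.lf 0 5319470 0) (P.cons (P.lf 1084598 0 0) (P.cons (P.lf 17262 0 0) (P.lf 0 5754 0)))) (P.cons (P.cons (P.lf 0 216470 0) (P.cons (P.lf 93164 0 0) (P.cons (P.lf 1482 0 0) P.nil))) (P.cons (P.cons (P.lf 131392 0 0) (P.cons (P.lf 0 16490 0) P.nil)) (P.cons (P.cons (P.lf 0 4872 0) P.nil) P.nil)))))) 4708)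
 EL.nil)
noncomputable def S212_227_438_512_44 : EL := (EL.cons 14 (TM.mk (P.cons (P.cons (P.lf 0 12567318 0) (P.cons (P.lf 8827960 0 0) (P.cons (P.lf 0 1409800 0) (P.cons (P.lf 0 96186 0) (P.cons (P.lf 16056 0 0) (P.cons (P.lf 260 0 0) P.nil)))))) (P.cons (P.cons (P.lf 8452230 0 0) (P.cons (P.lf 0 5001256 0) (P.cons (P.lf 634304 0 0) (P.cons (P.lf 49258 0 0) (P.cons (P.lf 0 7394 0) P.nil))))) (P.cons (P.cons (P.lf 0 1474966 0) (P.cons (P.lf 586692 0 0) (P.cons (P.lf 0 32200 0) (P.cons (P.lf 0 4434 0) P.nil)))) (P.cons (P.cons (P.lf 0 163584 0) (P.cons (P.lf 122560 0 0) (P.cons (P.lf 0 15902 0) P.nil))) (P.cons (P.cons (P.lf 68026 0 0) (P.cons (P.lf 0 23902 0) P.nil)) (P.cons (P.cons (P.lf 0 1666 0) P.nil) P.nil)))))) 15164)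
 EL.nil)
noncomputable def S212_227_438_512_45 : EL := (EL.cons 14 (TM.mk (P.cons (P.cons (P.lf 152417974 0 0) (P.cons (P.lf 0 160599892 0) (P.cons (P.lf 53850848 0 0) (P.cons (P.lf 0 3956250 0) (P.cons (P.lf 0 899566 0) (P.cons (P.lf 90564 0 0) P.nil)))))) (P.cons (P.cons (P.lf 0 19815106 0) (P.cons (P.lf 3850086 0 0) (P.cons (P.lf 4689966 0 0) (P.cons (P.lf 0 1115214 0) (P.cons (P.lf 0 107250 0) P.nil))))) (P.cons (P.cons (P.lf 0 8425142 0) (P.cons (P.lf 7814078 0 0) (P.cons (P.lf 0 1612502 0) (P.cons (P.lf 0 85614 0) P.nil)))) (P.cons (P.cons (P.lf 1035870 0 0) (P.cons (P.lf 0 68812 0) (P.cons (P.lf 0 174468 0) P.nil))) (P.cons (P.cons (P.lf 189002 0 0) (P.cons (P.lf 0 148930 0) P.nil)) (P.cons (P.cons (P.lf 0 21226 0) P.nil) P.nil)))))) 130482)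
 EL.nil)
noncomputable def S212_227_438_512_46 : EL := (EL.cons 15 (TM.mk (P.lf 4294967296 0 0) 0)
 EL.nil)
noncomputable def S212_227_438_512_47 : EL := (EL.cons 15 (TM.mk (P.cons (P.cons (P.lf 1120233713 0 0) (P.cons (P.lf 0 393456248 0) (P.cons (P.lf 0 6262372 0) (P.lf 2087456 0 0)))) (P.cons (P.cons (P.lf 0 48545346 0) (P.cons (P.lf 0 24668476 0) (P.cons (P.lf 0 392628 0) (P.lf 130872 0 0)))) (P.cons (P.cons (P.lf 0 22744606 0) (P.cons (P.lf 1767664 0 0) (P.cons (P.lf 28132 0 0) (P.lf 0 9376 0)))) (P.cons (P.cons (P.lf 596912 0 0) (P.cons (P.lf 140900 0 0) (P.cons (P.lf 2240 0 0) P.nil))) (P.cons (P.cons (P.lf 95695 0 0) (P.cons (P.lf 0 3256 0) P.nil)) (P.cons (P.cons (P.lf 0 584 0) P.nil) P.nil)))))) 1941)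
 EL.nil)
noncomputable def S212_227_438_512_48 : EL := (EL.cons 15 (TM.mk (P.cons (P.cons (P.lf 292184662 0 0) (P.cons (P.lf 0 205246244 0) (P.cons (P.lf 32777241 0 0) (P.cons (P.lf 2236295 0 0) (P.cons (P.lf 0 373327 0) (P.cons (P.lf 0 6087 0) P.nil)))))) (P.cons (P.cons (P.lf 0 25323654 0) (P.cons (P.lf 0 3973948 0) (P.cons (P.lf 4456443 0 0) (P.cons (P.lf 164954 0 0) (P.cons (P.lf 0 46811 0) P.nil))))) (P.cons (P.cons (P.lf 0 11316011 0) (P.cons (P.lf 5646955 0 0) (P.cons (P.lf 0 92304 0) (P.cons (P.lf 0 35757 0) P.nil)))) (P.cons (P.cons (P.lf 825536 0 0) (P.cons (P.lf 185447 0 0) (P.cons (P.lf 0 43170 0) P.nil))) (P.cons (P.cons (P.lf 156872 0 0) (P.cons (P.lf 0 47995 0) P.nil)) (P.cons (P.cons (P.lf 0 8789 0) P.nil) P.nil)))))) 21374)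
 EL.nil)
noncomputable def S212_227_438_512 : SL := (SL.cons S212_227_438_512_0 (SL.cons S212_227_438_512_1 (SL.cons S212_227_438_512_2 (SL.cons S212_227_438_512_3 (SL.cons S212_227_438_512_4 (SL.cons S212_227_438_512_5 (SL.cons S212_227_438_512_6 (SL.cons S212_227_438_512_7 (SL.cons S212_227_438_512_8 (SL.cons S212_227_438_512_9 (SL.cons S212_227_438_512_10 (SL.cons S212_227_438_512_11 (SL.cons S212_227_438_512_12 (SL.cons S212_227_438_512_13 (SL.cons S212_227_438_512_14 (SL.cons S212_227_438_512_15 (SL.cons S212_227_438_512_16 (SL.cons S212_227_438_512_17 (SL.cons S212_227_438_512_18 (SL.cons S212_227_438_512_19 (SL.cons S212_227_438_512_20 (SL.cons S212_227_438_512_21 (SL.cons S212_227_438_512_22 (SL.cons S212_227_438_512_23 (SL.cons S212_227_438_512_24 (SL.cons S212_227_438_512_25 (SL.cons S212_227_438_512_26 (SL.cons S212_227_438_512_27 (SL.cons S212_227_438_512_28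 (SL.cons S212_227_438_512_29 (SL.cons S212_227_438_512_30 (SL.cons S212_227_438_512_31 (SL.cons S212_227_438_512_32 (SL.cons S212_227_438_512_33 (SL.cons S212_227_438_512_34 (SL.cons S212_227_438_512_35 (SL.cons S212_227_438_512_36 (SL.cons S212_227_438_512_37 (SL.cons S212_227_438_512_38 (SL.cons S212_227_438_512_39 (SL.cons S212_227_438_512_40 (SL.cons S212_227_438_512_41 (SL.cons S212_227_438_512_42 (SL.cons S212_227_438_512_43 (SL.cons S212_227_438_512_44 (SL.cons S212_227_438_512_45 (SL.cons S212_227_438_512_46 (SL.cons S212_227_438_512_47 (SL.cons S212_227_438_512_48 SL.nil)))))))))))))))))))))))))))))))))))))))))))))))))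
noncomputable def S212_227_475_512_0 : EL := (EL.cons 0 (TM.mk (P.cons (P.lf 7871865163 0 0) (P.cons (P.lf 228047217 0 0) (P.cons (P.lf 0 18724113 0) (P.cons (P.lf 0 894670 0) (P.cons (P.lf 28400 0 0) (P.cons (P.lf 1893 0 0) P.nil)))))) 140)
 (EL.cons 1 (TM.mk (P.cons (P.lf 0 1064241138 0) (P.cons (P.lf 185599968 0 0) (P.cons (P.lf 9632411 0 0) (P.cons (P.lf 0 474855 0) (P.cons (P.lf 0 25702 0) (P.cons (P.lf 519 0 0) P.nil)))))) 134)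
 (EL.cons 5 (TM.mk (P.cons (P.lf 4502559014 0 0) (P.cons (P.lf 0 81083452 0) (P.cons (P.lf 6657460 0 0) (P.cons (P.lf 318104 0 0) (P.cons (P.lf 0 10096 0) (P.cons (P.lf 0 672 0) P.nil)))))) 143)
 (EL.cons 9 (TM.mk (P.lf 6442450944 0 0) 2)
 EL.nil))))
noncomputable def S212_227_475_512_1 : EL := (EL.cons 0 (TM.mk (P.cons (P.cons (P.lf 2086747400 0 0) (P.cons (P.lf 0 283683190 0) (P.cons (P.lf 0 1115488 0) (P.lf 371824 0 0)))) (P.cons (P.cons (P.lf 148356992 0 0) (P.cons (P.lf 0 60067015 0) (P.cons (P.lf 0 236179 0) (P.lf 78716 0 0)))) (P.cons (P.cons (P.lf 0 115293477 0) (P.cons (P.lf 2095136 0 0) (P.cons (P.lf 8235 0 0) (P.lf 0 2742 0)))) (P.cons (P.cons (P.lf 0 1534504 0) (P.cons (P.lf 675068 0 0) (P.cons (P.lf 2643 0 0) P.nil))) (P.cons (P.cons (P.lf 985842 0 0) (P.cons (P.lf 2329 0 0) P.nil)) (P.cons (P.cons (P.lf 22769 0 0) P.nil) P.nil)))))) 11496)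
 (EL.cons 1 (TM.mk (P.cons (P.cons (P.lf 94209735 0 0) (P.cons (P.lf 115403747 0 0) (P.cons (P.lf 453781 0 0) (P.lf 0 151253 0)))) (P.cons (P.cons (P.lf 313274389 0 0) (P.cons (P.lf 0 9466834 0) (P.cons (P.lf 0 37221 0) (P.lf 12405 0 0)))) (P.cons (P.cons (P.lf 11097634 0 0) (P.cons (P.lf 0 3631457 0) (P.cons (P.lf 0 14272 0) (P.lf 4752 0 0)))) (P.cons (P.cons (P.lf 0 6044021 0) (P.cons (P.lf 14721 0 0) (P.cons (P.lf 57 0 0) P.nil))) (P.cons (P.cons (P.lf 0 148708 0) (P.cons (P.lf 27354 0 0) P.nil)) (P.cons (P.cons (P.lf 36636 0 0) P.nil) P.nil)))))) 5056)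
 (EL.cons 5 (TM.mk (P.cons (P.cons (P.lf 825786951 0 0) (P.cons (P.lf 0 237564942 0) (P.cons (P.lf 0 934134 0) (P.lf 311384 0 0)))) (P.cons (P.cons (P.lf 0 156383503 0) (P.cons (P.lf 138644 0 0) (P.cons (P.lf 540 0 0) (P.lf 0 180 0)))) (P.cons (P.cons (P.lf 3839867 0 0) (P.cons (P.lf 775516 0 0) (P.cons (P.lf 3052 0 0) (P.lf 0 1020 0)))) (P.cons (P.cons (P.lf 1680912 0 0) (P.cons (P.lf 0 118822 0) (P.cons (P.lf 0 462 0) P.nil))) (P.cons (P.cons (P.lf 0 190611 0) (P.cons (P.lf 0 3628 0) P.nil)) (P.cons (P.cons (P.lf 0 9442 0) P.nil) P.nil)))))) 6060)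
 (EL.cons 9 (TM.mk (P.cons (P.cons (P.lf 1383301387 0 0) (P.cons (P.lf 0 298614774 0) (P.cons (P.lf 0 1174194 0) (P.lf 391392 0 0)))) (P.cons (P.cons (P.lf 0 91442073 0) (P.cons (P.lf 0 18722214 0) (P.cons (P.lf 0 73614 0) (P.lf 24534 0 0)))) (P.cons (P.cons (P.lf 0 32782371 0) (P.cons (P.lf 1341570 0 0) (P.cons (P.lf 5274 0 0) (P.lf 0 1758 0)))) (P.cons (P.cons (P.lf 1001748 0 0) (P.cons (P.lf 106938 0 0) (P.cons (P.lf 414 0 0) P.nil))) (P.cons (P.cons (P.lf 141082 0 0) (P.cons (P.lf 0 2466 0) P.nil)) (P.cons (P.cons (P.lf 0 1188 0) P.nil) P.nil)))))) 1346)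
 (EL.cons 2 (TM.mk (P.cons (P.cons (P.lf 755156885 0 0) (P.cons (P.lf 6925328 0 0) (P.cons (P.lf 0 3454903 0) (P.cons (P.lf 0 7756 0) (P.lf 1937 0 0))))) (P.cons (P.cons (P.lf 0 115914751 0) (P.cons (P.lf 0 1063020 0) (P.cons (P.lf 530319 0 0) (P.cons (P.lf 1189 0 0) (P.lf 0 295 0))))) (P.cons (P.cons (P.lf 0 11047938 0) (P.cons (P.lf 0 101314 0) (P.cons (P.lf 50543 0 0) (P.cons (P.lf 112 0 0) P.nil)))) (P.cons (P.cons (P.lf 417456 0 0) (P.cons (P.lf 3827 0 0) (P.cons (P.lf 0 1909 0) P.nil))) (P.cons (P.cons (P.lf 45182 0 0) (P.cons (P.lf 413 0 0) P.nil)) (P.cons (P.cons (P.lf 0 520 0) P.nil) P.nil)))))) 589)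
 (EL.cons 6 (TM.mk (P.cons (P.cons (P.lf 1376495133 0 0) (P.cons (P.lf 12623445 0 0) (P.cons (P.lf 0 6297579 0) (P.cons (P.lf 0 14139 0) (P.lf 3534 0 0))))) (P.cons (P.cons (P.lf 86301954 0 0) (P.cons (P.lf 791448 0 0) (P.cons (P.lf 0 394836 0) (P.cons (P.lf 0 885 0) (P.lf 219 0 0))))) (P.cons (P.cons (P.lf 0 6184119 0) (P.cons (P.lf 0 56712 0) (P.cons (P.lf 28290 0 0) (P.cons (P.lf 63 0 0) P.nil)))) (P.cons (P.cons (P.lf 0 492945 0) (P.cons (P.lf 0 4518 0) (P.cons (P.lf 2253 0 0) P.nil))) (P.cons (P.cons (P.lf 11394 0 0) (P.cons (P.lf 102 0 0) P.nil)) (P.cons (P.cons (P.lf 1431 0 0) P.nil) P.nil)))))) 465)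
 EL.nil))))))
noncomputable def S212_227_475_512_2 : EL := (EL.cons 0 (TM.mk (P.cons (P.cons (P.lf 533200315 0 0) (P.cons (P.lf 0 158581931 0) (P.cons (P.lf 8762382 0 0) (P.cons (P.lf 281670 0 0) (P.cons (P.lf 0 24462 0) (P.cons (P.lf 0 107 0) P.nil)))))) (P.cons (P.cons (P.lf 41939354 0 0) (P.cons (P.lf 0 39617921 0) (P.cons (P.lf 4450747 0 0) (P.cons (P.lf 88144 0 0) (P.cons (P.lf 0 11997 0) P.nil))))) (P.cons (P.cons (P.lf 0 57090385 0) (P.cons (P.lf 10731899 0 0) (P.cons (P.lf 143205 0 0) (P.cons (P.lf 0 13268 0) P.nil)))) (P.cons (P.cons (P.lf 469816 0 0) (P.cons (P.lf 1404669 0 0) (P.cons (P.lf 0 72584 0) P.nil))) (P.cons (P.cons (P.lf 1442593 0 0) (P.cons (P.lf 0 144012 0) P.nil)) (P.cons (P.cons (P.lf 0 19519 0) P.nil) P.nil)))))) 58441)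
 (EL.cons 1 (TM.mk (P.cons (P.cons (P.lf 89521750 0 0) (P.cons (P.lf 19641349 0 0) (P.cons (P.lf 0 8334509 0) (P.cons (P.lf 0 91887 0) (P.cons (P.lf 21912 0 0) (P.cons (P.lf 82 0 0) P.nil)))))) (P.cons (P.cons (P.lf 116812519 0 0) (P.cons (P.lf 0 33163684 0) (P.cons (P.lf 0 35591 0) (P.cons (P.lf 44215 0 0) (P.cons (P.lf 0 243 0) P.nil))))) (P.cons (P.cons (P.lf 0 6510060 0) (P.cons (P.lf 0 4411389 0) (P.cons (P.lf 340128 0 0) (P.cons (P.lf 8582 0 0) P.nil)))) (P.cons (P.cons (P.lf 0 5395848 0) (P.cons (P.lf 758889 0 0) (P.cons (P.lf 20122 0 0) P.nil))) (P.cons (P.cons (P.lf 107383 0 0) (P.cons (P.lf 98480 0 0) P.nil)) (P.cons (P.cons (P.lf 87276 0 0) P.nil) P.nil)))))) 27705)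
 (EL.cons 5 (TM.mk (P.cons (P.cons (P.lf 147037874 0 0) (P.cons (P.lf 0 88948454 0) (P.cons (P.lf 11999612 0 0) (P.cons (P.lf 213703 0 0) (P.cons (P.lf 0 32169 0) (P.cons (P.lf 0 112 0) P.nil)))))) (P.cons (P.cons (P.lf 0 59415807 0) (P.cons (P.lf 14581559 0 0) (P.cons (P.lf 386464 0 0) (P.cons (P.lf 0 16511 0) (P.cons (P.lf 0 871 0) P.nil))))) (P.cons (P.cons (P.lf 5814866 0 0) (P.cons (P.lf 883684 0 0) (P.cons (P.lf 0 111727 0) (P.cons (P.lf 0 2069 0) P.nil)))) (P.cons (P.cons (P.lf 1375174 0 0) (P.cons (P.lf 0 379848 0) (P.cons (P.lf 6194 0 0) P.nil))) (P.cons (P.cons (P.lf 0 287418 0) (P.cons (P.lf 9652 0 0) P.nil)) (P.cons (P.cons (P.lf 0 9735 0) P.nil) P.nil)))))) 27248)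
 (EL.cons 9 (TM.mk (P.cons (P.cons (P.lf 297017818 0 0) (P.cons (P.lf 0 128235118 0) (P.cons (P.lf 13336888 0 0) (P.cons (P.lf 276927 0 0) (P.cons (P.lf 0 36067 0) (P.cons (P.lf 0 142 0) P.nil)))))) (P.cons (P.cons (P.lf 0 39268267 0) (P.cons (P.lf 436941 0 0) (P.cons (P.lf 1737310 0 0) (P.cons (P.lf 13072 0 0) (P.cons (P.lf 0 4521 0) P.nil))))) (P.cons (P.cons (P.lf 0 12779940 0) (P.cons (P.lf 4146586 0 0) (P.cons (P.lf 0 53653 0) (P.cons (P.lf 0 5983 0) P.nil)))) (P.cons (P.cons (P.lf 1360788 0 0) (P.cons (P.lf 105510 0 0) (P.cons (P.lf 0 17298 0) P.nil))) (P.cons (P.cons (P.lf 198960 0 0) (P.cons (P.lf 0 36648 0) P.nil)) (P.cons (P.cons (P.lf 0 14709 0) P.nil) P.nil)))))) 7636)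
 (EL.cons 2 (TM.mk (P.cons (P.cons (P.lf 324289485 0 0) (P.cons (P.lf 0 67030756 0) (P.cons (P.lf 0 2400907 0) (P.cons (P.lf 406170 0 0) (P.cons (P.lf 3650 0 0) (P.cons (P.lf 0 596 0) P.nil)))))) (P.cons (P.cons (P.lf 0 71214553 0) (P.cons (P.lf 5703384 0 0) (P.cons (P.lf 409100 0 0) (P.cons (P.lf 0 36450 0) (P.cons (P.lf 0 438 0) P.nil))))) (P.cons (P.cons (P.lf 0 9139055 0) (P.cons (P.lf 1928570 0 0) (P.cons (P.lf 68175 0 0) (P.cons (P.lf 0 11671 0) P.nil)))) (P.cons (P.cons (P.lf 1907392 0 0) (P.cons (P.lf 19800 0 0) (P.cons (P.lf 0 8696 0) P.nil))) (P.cons (P.cons (P.lf 117011 0 0) (P.cons (P.lf 0 14568 0) P.nil)) (P.cons (P.cons (P.lf 0 14540 0) P.nil) P.nil)))))) 5011)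
 (EL.cons 6 (TM.mk (P.cons (P.cons (P.lf 591112800 0 0) (P.cons (P.lf 0 122183232 0) (P.cons (P.lf 0 4376364 0) (P.cons (P.lf 740370 0 0) (P.cons (P.lf 6654 0 0) (P.cons (P.lf 0 1086 0) P.nil)))))) (P.cons (P.cons (P.lf 0 2014122 0) (P.cons (P.lf 0 16019232 0) (P.cons (P.lf 0 200430 0) (P.cons (P.lf 93612 0 0) (P.cons (P.lf 636 0 0) P.nil))))) (P.cons (P.cons (P.lf 0 19114122 0) (P.cons (P.lf 469668 0 0) (P.cons (P.lf 95892 0 0) (P.cons (P.lf 0 3570 0) P.nil)))) (P.cons (P.cons (P.lf 0 486360 0) (P.cons (P.lf 158814 0 0) (P.cons (P.lf 4356 0 0) P.nil))) (P.cons (P.cons (P.lf 168942 0 0) (P.cons (P.lf 2592 0 0) P.nil)) (P.cons (P.cons (P.lf 6654 0 0) P.nil) P.nil)))))) 4752)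
 EL.nil))))))
noncomputable def S212_227_475_512_3 : EL := (EL.cons 0 (TM.mk (P.cons (P.lf 583851700 0 0) (P.cons (P.lf 0 228047217 0) (P.cons (P.lf 18724113 0 0) (P.cons (P.lf 894670 0 0) (P.cons (P.lf 0 28400 0) (P.cons (P.lf 0 1893 0) P.nil)))))) 140)
 (EL.cons 1 (TM.mk (P.cons (P.lf 1064241138 0 0) (P.cons (P.lf 0 185599968 0) (P.cons (P.lf 0 9632411 0) (P.cons (P.lf 474855 0 0) (P.cons (P.lf 25702 0 0) (P.cons (P.lf 0 519 0) P.nil)))))) 134)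
 (EL.cons 5 (TM.mk (P.cons (P.lf 1939891930 0 0) (P.cons (P.lf 81083452 0 0) (P.cons (P.lf 0 6657460 0) (P.cons (P.lf 0 318104 0) (P.cons (P.lf 10096 0 0) (P.cons (P.lf 672 0 0) P.nil)))))) 136)
 EL.nil)))
noncomputable def S212_227_475_512_4 : EL := (EL.cons 0 (TM.mk (P.cons (P.cons (P.lf 125362671 0 0) (P.cons (P.lf 0 27062175 0) (P.cons (P.lf 0 106410 0) (P.lf 35469 0 0)))) (P.cons (P.cons (P.lf 0 57252533 0) (P.cons (P.lf 8873527 0 0) (P.cons (P.lf 34890 0 0) (P.lf 0 11629 0)))) (P.cons (P.cons (P.lf 4286279 0 0) (P.cons (P.lf 0 83580 0) (P.cons (P.lf 0 328 0) (P.lf 108 0 0)))) (P.cons (P.cons (P.lf 1177537 0 0) (P.cons (P.lf 0 133678 0) (P.cons (P.lf 0 525 0) P.nil))) (P.cons (P.cons (P.lf 0 136747 0) (P.cons (P.lf 0 1392 0) P.nil)) (P.cons (P.cons (P.lf 0 6744 0) P.nil) P.nil)))))) 2098)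
 (EL.cons 1 (TM.mk (P.cons (P.cons (P.lf 228510273 0 0) (P.cons (P.lf 0 49328760 0) (P.cons (P.lf 0 193966 0) (P.lf 64653 0 0)))) (P.cons (P.cons (P.lf 0 54956895 0) (P.cons (P.lf 5510004 0 0) (P.cons (P.lf 21665 0 0) (P.lf 0 7220 0)))) (P.cons (P.cons (P.lf 0 4849275 0) (P.cons (P.lf 1207455 0 0) (P.cons (P.lf 4745 0 0) (P.lf 0 1580 0)))) (P.cons (P.cons (P.lf 1348582 0 0) (P.cons (P.lf 0 15000 0) (P.cons (P.lf 0 58 0) P.nil))) (P.cons (P.cons (P.lf 42238 0 0) (P.cons (P.lf 0 8064 0) P.nil)) (P.cons (P.cons (P.lf 0 8649 0) P.nil) P.nil)))))) 1354)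
 (EL.cons 5 (TM.mk (P.cons (P.cons (P.lf 416527066 0 0) (P.cons (P.lf 0 89916150 0) (P.cons (P.lf 0 353562 0) (P.lf 117850 0 0)))) (P.cons (P.cons (P.lf 0 10124234 0) (P.cons (P.lf 0 9395768 0) (P.cons (P.lf 0 36942 0) (P.lf 12312 0 0)))) (P.cons (P.cons (P.lf 0 12451466 0) (P.cons (P.lf 476906 0 0) (P.cons (P.lf 1874 0 0) (P.lf 0 624 0)))) (P.cons (P.cons (P.lf 0 84762 0) (P.cons (P.lf 83176 0 0) (P.cons (P.lf 324 0 0) P.nil))) (P.cons (P.cons (P.lf 95648 0 0) (P.cons (P.lf 0 326 0) P.nil)) (P.cons (P.cons (P.lf 2002 0 0) P.nil) P.nil)))))) 1168)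
 EL.nil)))
noncomputable def S212_227_475_512_5 : EL := (EL.cons 0 (TM.mk (P.cons (P.cons (P.lf 26917449 0 0) (P.cons (P.lf 0 11621397 0) (P.cons (P.lf 1208664 0 0) (P.cons (P.lf 25096 0 0) (P.cons (P.lf 0 3267 0) (P.cons (P.lf 0 12 0) P.nil)))))) (P.cons (P.cons (P.lf 0 14072428 0) (P.cons (P.lf 4578811 0 0) (P.cons (P.lf 0 314648 0) (P.cons (P.lf 0 8616 0) (P.cons (P.lf 866 0 0) P.nil))))) (P.cons (P.cons (P.lf 1095052 0 0) (P.cons (P.lf 0 12376 0) (P.cons (P.lf 0 27595 0) (P.cons (P.lf 0 198 0) P.nil)))) (P.cons (P.cons (P.lf 502820 0 0) (P.cons (P.lf 0 153754 0) (P.cons (P.lf 7231 0 0) P.nil))) (P.cons (P.cons (P.lf 0 74042 0) (P.cons (P.lf 5619 0 0) P.nil)) (P.cons (P.cons (P.lf 0 6108 0) P.nil) P.nil)))))) 6597)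
 (EL.cons 1 (TM.mk (P.cons (P.cons (P.lf 49064956 0 0) (P.cons (P.lf 0 21183410 0) (P.cons (P.lf 2203145 0 0) (P.cons (P.lf 45744 0 0) (P.cons (P.lf 0 5956 0) (P.cons (P.lf 0 22 0) P.nil)))))) (P.cons (P.cons (P.lf 0 15043560 0) (P.cons (P.lf 3766490 0 0) (P.cons (P.lf 0 97230 0) (P.cons (P.lf 0 5816 0) (P.cons (P.lf 290 0 0) P.nil))))) (P.cons (P.cons (P.lf 0 1423951 0) (P.cons (P.lf 864123 0 0) (P.cons (P.lf 0 78853 0) (P.cons (P.lf 0 1777 0) P.nil)))) (P.cons (P.cons (P.lf 673571 0 0) (P.cons (P.lf 0 112132 0) (P.cons (P.lf 0 2925 0) P.nil))) (P.cons (P.cons (P.lf 11062 0 0) (P.cons (P.lf 0 15772 0) P.nil)) (P.cons (P.cons (P.lf 0 11317 0) P.nil) P.nil)))))) 5838)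
 (EL.cons 5 (TM.mk (P.cons (P.cons (P.lf 89435288 0 0) (P.cons (P.lf 0 38612984 0) (P.cons (P.lf 4015880 0 0) (P.cons (P.lf 83384 0 0) (P.cons (P.lf 0 10858 0) (P.cons (P.lf 0 42 0) P.nil)))))) (P.cons (P.cons (P.lf 0 8085892 0) (P.cons (P.lf 0 1482374 0) (P.cons (P.lf 690978 0 0) (P.cons (P.lf 7420 0 0) (P.cons (P.lf 0 1814 0) P.nil))))) (P.cons (P.cons (P.lf 0 4649330 0) (P.cons (P.lf 1386594 0 0) (P.cons (P.lf 0 8070 0) (P.cons (P.lf 0 1922 0) P.nil)))) (P.cons (P.cons (P.lf 274814 0 0) (P.cons (P.lf 89838 0 0) (P.cons (P.lf 0 8336 0) P.nil))) (P.cons (P.cons (P.lf 92646 0 0) (P.cons (P.lf 0 14212 0) P.nil)) (P.cons (P.cons (P.lf 0 2730 0) P.nil) P.nil)))))) 4456)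
 EL.nil)))
noncomputable def S212_227_475_512_6 : EL := (EL.cons 12 (TM.mk (P.lf 8589934592 0 0) 0)
 (EL.cons 3 (TM.mk (P.cons (P.lf 0 1119737460 0) (P.cons (P.lf 218679686 0 0) (P.cons (P.lf 3398598 0 0) (P.cons (P.lf 0 194190 0) (P.cons (P.lf 0 5531 0) (P.cons (P.lf 146 0 0) P.nil)))))) 52)
 (EL.cons 7 (TM.mk (P.cons (P.lf 0 2041050269 0) (P.cons (P.lf 0 42655831 0) (P.cons (P.lf 3948043 0 0) (P.cons (P.lf 84836 0 0) (P.cons (P.lf 0 3266 0) (P.cons (P.lf 0 122 0) P.nil)))))) 52)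
 EL.nil)))
noncomputable def S212_227_475_512_7 : EL := (EL.cons 12 (TM.mk (P.cons (P.cons (P.lf 1844401850 0 0) (P.cons (P.lf 0 398153032 0) (P.cons (P.lf 0 1565592 0) (P.lf 521856 0 0)))) (P.cons (P.cons (P.lf 0 121922764 0) (P.cons (P.lf 0 24962952 0) (P.cons (P.lf 0 98152 0) (P.lf 32712 0 0)))) (P.cons (P.cons (P.lf 0 43709828 0) (P.cons (P.lf 1788760 0 0) (P.cons (P.lf 7032 0 0) (P.lf 0 2344 0)))) (P.cons (P.cons (P.lf 1335664 0 0) (P.cons (P.lf 142584 0 0) (P.cons (P.lf 552 0 0) P.nil))) (P.cons (P.cons (P.lf 188110 0 0) (P.cons (P.lf 0 3288 0) P.nil)) (P.cons (P.cons (P.lf 0 1584 0) P.nil) P.nil)))))) 1770)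
 (EL.cons 3 (TM.mk (P.cons (P.cons (P.lf 0 1000903860 0) (P.cons (P.lf 0 103802154 0) (P.cons (P.lf 0 408162 0) (P.lf 136050 0 0)))) (P.cons (P.cons (P.lf 0 490570261 0) (P.cons (P.lf 13764022 0 0) (P.cons (P.lf 54120 0 0) (P.lf 0 18040 0)))) (P.cons (P.cons (P.lf 23311292 0 0) (P.cons (P.lf 2052398 0 0) (P.cons (P.lf 8068 0 0) (P.lf 0 2688 0)))) (P.cons (P.cons (P.lf 4185057 0 0) (P.cons (P.lf 0 52148 0) (P.cons (P.lf 0 206 0) P.nil))) (P.cons (P.cons (P.lf 0 32951 0) (P.cons (P.lf 0 11172 0) P.nil)) (P.cons (P.cons (P.lf 0 16269 0) P.nil) P.nil)))))) 3627)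
 (EL.cons 7 (TM.mk (P.cons (P.cons (P.lf 0 289908092 0) (P.cons (P.lf 124976550 0 0) (P.cons (P.lf 491426 0 0) (P.lf 0 163813 0)))) (P.cons (P.cons (P.lf 95691023 0 0) (P.cons (P.lf 0 2684819 0) (P.cons (P.lf 0 10556 0) (P.lf 3517 0 0)))) (P.cons (P.cons (P.lf 0 14891047 0) (P.cons (P.lf 0 110123 0) (P.cons (P.lf 0 433 0) (P.lf 145 0 0)))) (P.cons (P.cons (P.lf 0 51962 0) (P.cons (P.lf 64815 0 0) (P.cons (P.lf 251 0 0) P.nil))) (P.cons (P.cons (P.lf 124448 0 0) (P.cons (P.lf 35 0 0) P.nil)) (P.cons (P.cons (P.lf 1016 0 0) P.nil) P.nil)))))) 3490)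
 (EL.cons 10 (TM.mk (P.cons (P.cons (P.lf 0 2896548741 0) (P.cons (P.lf 0 26563425 0) (P.cons (P.lf 13251951 0 0) (P.cons (P.lf 29757 0 0) (P.lf 0 7437 0))))) (P.cons (P.cons (P.lf 0 121069719 0) (P.cons (P.lf 0 1110294 0) (P.cons (P.lf 553902 0 0) (P.cons (P.lf 1242 0 0) (P.lf 0 309 0))))) (P.cons (P.cons (P.lf 9940581 0 0) (P.cons (P.lf 91161 0 0) (P.cons (P.lf 0 45477 0) (P.cons (P.lf 0 102 0) P.nil)))) (P.cons (P.cons (P.lf 474975 0 0) (P.cons (P.lf 4353 0 0) (P.cons (P.lf 0 2172 0) P.nil))) (P.cons (P.cons (P.lf 0 15072 0) (P.cons (P.lf 0 138 0) P.nil)) (P.cons (P.cons (P.lf 0 1002 0) P.nil) P.nil)))))) 429)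
 EL.nil))))
noncomputable def S212_227_475_512_8 : EL := (EL.cons 12 (TM.mk (P.cons (P.cons (P.lf 396023758 0 0) (P.cons (P.lf 0 170980158 0) (P.cons (P.lf 17782518 0 0) (P.cons (P.lf 369236 0 0) (P.cons (P.lf 0 48090 0) (P.cons (P.lf 0 190 0) P.nil)))))) (P.cons (P.cons (P.lf 0 52357690 0) (P.cons (P.lf 582588 0 0) (P.cons (P.lf 2316414 0 0) (P.cons (P.lf 17430 0 0) (P.cons (P.lf 0 6028 0) P.nil))))) (P.cons (P.cons (P.lf 0 17039920 0) (P.cons (P.lf 5528782 0 0) (P.cons (P.lf 0 71538 0) (P.cons (P.lf 0 7978 0) P.nil)))) (P.cons (P.cons (P.lf 1814384 0 0) (P.cons (P.lf 140680 0 0) (P.cons (P.lf 0 23064 0) P.nil))) (P.cons (P.cons (P.lf 265280 0 0) (P.cons (P.lf 0 48864 0) P.nil)) (P.cons (P.cons (P.lf 0 19612 0) P.nil) P.nil)))))) 10152)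
 (EL.cons 3 (TM.mk (P.cons (P.cons (P.lf 0 378197895 0) (P.cons (P.lf 25921865 0 0) (P.cons (P.lf 12130292 0 0) (P.cons (P.lf 60613 0 0) (P.cons (P.lf 0 31340 0) (P.cons (P.lf 0 120 0) P.nil)))))) (P.cons (P.cons (P.lf 0 199161081 0) (P.cons (P.lf 64580446 0 0) (P.cons (P.lf 0 586865 0) (P.cons (P.lf 0 91256 0) (P.cons (P.lf 2191 0 0) P.nil))))) (P.cons (P.cons (P.lf 33077807 0 0) (P.cons (P.lf 2593952 0 0) (P.cons (P.lf 0 381666 0) (P.cons (P.lf 0 6477 0) P.nil)))) (P.cons (P.cons (P.lf 6516697 0 0) (P.cons (P.lf 0 1140507 0) (P.cons (P.lf 0 10493 0) P.nil))) (P.cons (P.cons (P.lf 0 572383 0) (P.cons (P.lf 0 63785 0) P.nil)) (P.cons (P.cons (P.lf 0 72959 0) P.nil) P.nil)))))) 29279)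
 (EL.cons 7 (TM.mk (P.cons (P.cons (P.lf 0 30397166 0) (P.cons (P.lf 39917703 0 0) (P.cons (P.lf 0 7043591 0) (P.cons (P.lf 0 108949 0) (P.cons (P.lf 18758 0 0) (P.cons (P.lf 69 0 0) P.nil)))))) (P.cons (P.cons (P.lf 38848516 0 0) (P.cons (P.lf 0 12597107 0) (P.cons (P.lf 114474 0 0) (P.cons (P.lf 17797 0 0) (P.cons (P.lf 0 423 0) P.nil))))) (P.cons (P.cons (P.lf 0 10651596 0) (P.cons (P.lf 855732 0 0) (P.cons (P.lf 62070 0 0) (P.cons (P.lf 0 656 0) P.nil)))) (P.cons (P.cons (P.lf 0 296949 0) (P.cons (P.lf 281042 0 0) (P.cons (P.lf 0 8555 0) P.nil))) (P.cons (P.cons (P.lf 304064 0 0) (P.cons (P.lf 0 23623 0) P.nil)) (P.cons (P.cons (P.lf 0 6922 0) P.nil) P.nil)))))) 15513)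
 (EL.cons 10 (TM.mk (P.cons (P.cons (P.lf 0 1243874394 0) (P.cons (P.lf 257109294 0 0) (P.cons (P.lf 9209160 0 0) (P.cons (P.lf 0 1557966 0) (P.cons (P.lf 0 14010 0) (P.cons (P.lf 2286 0 0) P.nil)))))) (P.cons (P.cons (P.lf 30233988 0 0) (P.cons (P.lf 28335846 0 0) (P.cons (P.lf 229314 0 0) (P.cons (P.lf 0 164436 0) (P.cons (P.lf 0 1050 0) P.nil))))) (P.cons (P.cons (P.lf 37183800 0 0) (P.cons (P.lf 0 1083186 0) (P.cons (P.lf 0 188772 0) (P.cons (P.lf 7944 0 0) P.nil)))) (P.cons (P.cons (P.lf 253128 0 0) (P.cons (P.lf 0 246066 0) (P.cons (P.lf 0 4404 0) P.nil))) (P.cons (P.cons (P.lf 0 285630 0) (P.cons (P.lf 0 1644 0) P.nil)) (P.cons (P.cons (P.lf 0 5976 0) P.nil) P.nil)))))) 6936)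
 EL.nil))))
noncomputable def S212_227_475_512_9 : EL := (EL.cons 3 (TM.mk (P.cons (P.lf 0 1119737460 0) (P.cons (P.lf 218679686 0 0) (P.cons (P.lf 3398598 0 0) (P.cons (P.lf 0 194190 0) (P.cons (P.lf 0 5531 0) (P.cons (P.lf 146 0 0) P.nil)))))) 52)
 (EL.cons 7 (TM.mk (P.cons (P.lf 0 2041050269 0) (P.cons (P.lf 0 42655831 0) (P.cons (P.lf 3948043 0 0) (P.cons (P.lf 84836 0 0) (P.cons (P.lf 0 3266 0) (P.cons (P.lf 0 122 0) P.nil)))))) 52)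
 EL.nil))
noncomputable def S212_227_475_512_10 : EL := (EL.cons 3 (TM.mk (P.cons (P.cons (P.lf 0 240426258 0) (P.cons (P.lf 51901077 0 0) (P.cons (P.lf 204081 0 0) (P.lf 0 68025 0)))) (P.cons (P.cons (P.lf 62847359 0 0) (P.cons (P.lf 0 6882011 0) (P.cons (P.lf 0 27060 0) (P.lf 9020 0 0)))) (P.cons (P.cons (P.lf 3323642 0 0) (P.cons (P.lf 0 1026199 0) (P.cons (P.lf 0 4034 0) (P.lf 1344 0 0)))) (P.cons (P.cons (P.lf 0 1376793 0) (P.cons (P.lf 26074 0 0) (P.cons (P.lf 103 0 0) P.nil))) (P.cons (P.cons (P.lf 0 6242 0) (P.cons (P.lf 5586 0 0) P.nil)) (P.cons (P.cons (P.lf 6621 0 0) P.nil) P.nil)))))) 824)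
 (EL.cons 7 (TM.mk (P.cons (P.cons (P.lf 0 438247445 0) (P.cons (P.lf 94604952 0 0) (P.cons (P.lf 371999 0 0) (P.lf 0 123997 0)))) (P.cons (P.cons (P.lf 19811093 0 0) (P.cons (P.lf 7908580 0 0) (P.cons (P.lf 31096 0 0) (P.lf 0 10364 0)))) (P.cons (P.cons (P.lf 11839025 0 0) (P.cons (P.lf 0 484061 0) (P.cons (P.lf 0 1903 0) (P.lf 634 0 0)))) (P.cons (P.cons (P.lf 0 138134 0) (P.cons (P.lf 0 58167 0) (P.cons (P.lf 0 226 0) P.nil))) (P.cons (P.cons (P.lf 0 73324 0) (P.cons (P.lf 800 0 0) P.nil)) (P.cons (P.cons (P.lf 0 355 0) P.nil) P.nil)))))) 753)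
 EL.nil))
noncomputable def S212_227_475_512_11 : EL := (EL.cons 3 (TM.mk (P.cons (P.cons (P.lf 0 51623517 0) (P.cons (P.lf 22288049 0 0) (P.cons (P.lf 0 2318032 0) (P.cons (P.lf 0 48131 0) (P.cons (P.lf 6268 0 0) (P.cons (P.lf 24 0 0) P.nil)))))) (P.cons (P.cons (P.lf 16906905 0 0) (P.cons (P.lf 0 4428698 0) (P.cons (P.lf 150745 0 0) (P.cons (P.lf 7126 0 0) (P.cons (P.lf 0 437 0) P.nil))))) (P.cons (P.cons (P.lf 1045013 0 0) (P.cons (P.lf 0 773518 0) (P.cons (P.lf 75330 0 0) (P.cons (P.lf 1629 0 0) P.nil)))) (P.cons (P.cons (P.lf 0 699977 0) (P.cons (P.lf 126507 0 0) (P.cons (P.lf 1699 0 0) P.nil))) (P.cons (P.cons (P.lf 5795 0 0) (P.cons (P.lf 12235 0 0) P.nil)) (P.cons (P.cons (P.lf 10453 0 0) P.nil) P.nil)))))) 4855)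
 (EL.cons 7 (TM.mk (P.cons (P.cons (P.lf 0 94099016 0) (P.cons (P.lf 40626513 0 0) (P.cons (P.lf 0 4225295 0) (P.cons (P.lf 0 87733 0) (P.cons (P.lf 11426 0 0) (P.cons (P.lf 45 0 0) P.nil)))))) (P.cons (P.cons (P.lf 10474114 0 0) (P.cons (P.lf 710623 0 0) (P.cons (P.lf 0 638706 0) (P.cons (P.lf 0 5975 0) (P.cons (P.lf 1671 0 0) P.nil))))) (P.cons (P.cons (P.lf 4490862 0 0) (P.cons (P.lf 0 1395168 0) (P.cons (P.lf 13668 0 0) (P.cons (P.lf 1978 0 0) P.nil)))) (P.cons (P.cons (P.lf 0 366651 0) (P.cons (P.lf 0 62302 0) (P.cons (P.lf 7075 0 0) P.nil))) (P.cons (P.cons (P.lf 0 80542 0) (P.cons (P.lf 13523 0 0) P.nil)) (P.cons (P.cons (P.lf 4022 0 0) P.nil) P.nil)))))) 3443)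
 EL.nil))
noncomputable def S212_227_475_512_12 : EL := (EL.cons 4 (TM.mk (P.cons (P.lf 1119737460 0 0) (P.cons (P.lf 0 218679686 0) (P.cons (P.lf 0 3398598 0) (P.cons (P.lf 194190 0 0) (P.cons (P.lf 5531 0 0) (P.cons (P.lf 0 146 0) P.nil)))))) 52)
 (EL.cons 8 (TM.mk (P.cons (P.lf 2041050269 0 0) (P.cons (P.lf 42655831 0 0) (P.cons (P.lf 0 3948043 0) (P.cons (P.lf 0 84836 0) (P.cons (P.lf 3266 0 0) (P.cons (P.lf 122 0 0) P.nil)))))) 52)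
 EL.nil))
noncomputable def S212_227_475_512_13 : EL := (EL.cons 4 (TM.mk (P.cons (P.cons (P.lf 240426258 0 0) (P.cons (P.lf 0 51901077 0) (P.cons (P.lf 0 204081 0) (P.lf 68025 0 0)))) (P.cons (P.cons (P.lf 0 62847359 0) (P.cons (P.lf 6882011 0 0) (P.cons (P.lf 27060 0 0) (P.lf 0 9020 0)))) (P.cons (P.cons (P.lf 0 3323642 0) (P.cons (P.lf 1026199 0 0) (P.cons (P.lf 4034 0 0) (P.lf 0 1344 0)))) (P.cons (P.cons (P.lf 1376793 0 0) (P.cons (P.lf 0 26074 0) (P.cons (P.lf 0 103 0) P.nil))) (P.cons (P.cons (P.lf 6242 0 0) (P.cons (P.lf 0 5586 0) P.nil)) (P.cons (P.cons (P.lf 0 6621 0) P.nil) P.nil)))))) 824)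
 (EL.cons 8 (TM.mk (P.cons (P.cons (P.lf 438247445 0 0) (P.cons (P.lf 0 94604952 0) (P.cons (P.lf 0 371999 0) (P.lf 123997 0 0)))) (P.cons (P.cons (P.lf 0 19811093 0) (P.cons (P.lf 0 7908580 0) (P.cons (P.lf 0 31096 0) (P.lf 10364 0 0)))) (P.cons (P.cons (P.lf 0 11839025 0) (P.cons (P.lf 484061 0 0) (P.cons (P.lf 1903 0 0) (P.lf 0 634 0)))) (P.cons (P.cons (P.lf 138134 0 0) (P.cons (P.lf 58167 0 0) (P.cons (P.lf 226 0 0) P.nil))) (P.cons (P.cons (P.lf 73324 0 0) (P.cons (P.lf 0 800 0) P.nil)) (P.cons (P.cons (P.lf 355 0 0) P.nil) P.nil)))))) 753)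
 EL.nil))
noncomputable def S212_227_475_512_14 : EL := (EL.cons 4 (TM.mk (P.cons (P.cons (P.lf 51623517 0 0) (P.cons (P.lf 0 22288049 0) (P.cons (P.lf 2318032 0 0) (P.cons (P.lf 48131 0 0) (P.cons (P.lf 0 6268 0) (P.cons (P.lf 0 24 0) P.nil)))))) (P.cons (P.cons (P.lf 0 16906905 0) (P.cons (P.lf 4428698 0 0) (P.cons (P.lf 0 150745 0) (P.cons (P.lf 0 7126 0) (P.cons (P.lf 437 0 0) P.nil))))) (P.cons (P.cons (P.lf 0 1045013 0) (P.cons (P.lf 773518 0 0) (P.cons (P.lf 0 75330 0) (P.cons (P.lf 0 1629 0) P.nil)))) (P.cons (P.cons (P.lf 699977 0 0) (P.cons (P.lf 0 126507 0) (P.cons (P.lf 0 1699 0) P.nil))) (P.cons (P.cons (P.lf 0 5795 0) (P.cons (P.lf 0 12235 0) P.nil)) (P.cons (P.cons (P.lf 0 10453 0) P.nil) P.nil)))))) 4855)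
 (EL.cons 8 (TM.mk (P.cons (P.cons (P.lf 94099016 0 0) (P.cons (P.lf 0 40626513 0) (P.cons (P.lf 4225295 0 0) (P.cons (P.lf 87733 0 0) (P.cons (P.lf 0 11426 0) (P.cons (P.lf 0 45 0) P.nil)))))) (P.cons (P.cons (P.lf 0 10474114 0) (P.cons (P.lf 0 710623 0) (P.cons (P.lf 638706 0 0) (P.cons (P.lf 5975 0 0) (P.cons (P.lf 0 1671 0) P.nil))))) (P.cons (P.cons (P.lf 0 4490862 0) (P.cons (P.lf 1395168 0 0) (P.cons (P.lf 0 13668 0) (P.cons (P.lf 0 1978 0) P.nil)))) (P.cons (P.cons (P.lf 366651 0 0) (P.cons (P.lf 62302 0 0) (P.cons (P.lf 0 7075 0) P.nil))) (P.cons (P.cons (P.lf 80542 0 0) (P.cons (P.lf 0 13523 0) P.nil)) (P.cons (P.cons (P.lf 0 4022 0) P.nil) P.nil)))))) 3443)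
 EL.nil))
noncomputable def S212_227_475_512_15 : EL := (EL.cons 4 (TM.mk (P.cons (P.lf 0 311387573 0) (P.cons (P.lf 121625182 0 0) (P.cons (P.lf 0 9986193 0) (P.cons (P.lf 0 477157 0) (P.cons (P.lf 15147 0 0) (P.cons (P.lf 1009 0 0) P.nil)))))) 78)
 (EL.cons 8 (TM.mk (P.cons (P.lf 0 567595274 0) (P.cons (P.lf 98986650 0 0) (P.cons (P.lf 5137286 0 0) (P.cons (P.lf 0 253256 0) (P.cons (P.lf 0 13708 0) (P.cons (P.lf 277 0 0) P.nil)))))) 68)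
 EL.nil))
noncomputable def S212_227_475_512_16 : EL := (EL.cons 4 (TM.mk (P.cons (P.cons (P.lf 0 66860091 0) (P.cons (P.lf 14433160 0 0) (P.cons (P.lf 56752 0 0) (P.lf 0 18916 0)))) (P.cons (P.cons (P.lf 30534684 0 0) (P.cons (P.lf 0 4732547 0) (P.cons (P.lf 0 18608 0) (P.lf 6202 0 0)))) (P.cons (P.cons (P.lf 0 2286015 0) (P.cons (P.lf 44576 0 0) (P.cons (P.lf 175 0 0) (P.lf 0 58 0)))) (P.cons (P.cons (P.lf 0 628020 0) (P.cons (P.lf 71295 0 0) (P.cons (P.lf 280 0 0) P.nil))) (P.cons (P.cons (P.lf 72931 0 0) (P.cons (P.lf 742 0 0) P.nil)) (P.cons (P.cons (P.lf 3597 0 0) P.nil) P.nil)))))) 1128)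
 (EL.cons 8 (TM.mk (P.cons (P.cons (P.lf 0 121872146 0) (P.cons (P.lf 26308672 0 0) (P.cons (P.lf 103449 0 0) (P.lf 0 34482 0)))) (P.cons (P.cons (P.lf 29310344 0 0) (P.cons (P.lf 0 2938669 0) (P.cons (P.lf 0 11555 0) (P.lf 3851 0 0)))) (P.cons (P.cons (P.lf 2586280 0 0) (P.cons (P.lf 0 643976 0) (P.cons (P.lf 0 2531 0) (P.lf 843 0 0)))) (P.cons (P.cons (P.lf 0 719244 0) (P.cons (P.lf 8000 0 0) (P.cons (P.lf 31 0 0) P.nil))) (P.cons (P.cons (P.lf 0 22527 0) (P.cons (P.lf 4301 0 0) P.nil)) (P.cons (P.cons (P.lf 4613 0 0) P.nil) P.nil)))))) 712)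
 EL.nil))
noncomputable def S212_227_475_512_17 : EL := (EL.cons 4 (TM.mk (P.cons (P.cons (P.lf 0 14355973 0) (P.cons (P.lf 6198078 0 0) (P.cons (P.lf 0 644621 0) (P.cons (P.lf 0 13384 0) (P.cons (P.lf 1742 0 0) (P.cons (P.lf 6 0 0) P.nil)))))) (P.cons (P.cons (P.lf 7505295 0 0) (P.cons (P.lf 0 2442032 0) (P.cons (P.lf 167812 0 0) (P.cons (P.lf 4595 0 0) (P.cons (P.lf 0 462 0) P.nil))))) (P.cons (P.cons (P.lf 0 584027 0) (P.cons (P.lf 6600 0 0) (P.cons (P.lf 14717 0 0) (P.cons (P.lf 105 0 0) P.nil)))) (P.cons (P.cons (P.lf 0 268170 0) (P.cons (P.lf 82002 0 0) (P.cons (P.lf 0 3856 0) P.nil))) (P.cons (P.cons (P.lf 39489 0 0) (P.cons (P.lf 0 2997 0) P.nil)) (P.cons (P.cons (P.lf 3257 0 0) P.nil) P.nil)))))) 3529)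
 (EL.cons 8 (TM.mk (P.cons (P.cons (P.lf 0 26167977 0) (P.cons (P.lf 11297819 0 0) (P.cons (P.lf 0 1175011 0) (P.cons (P.lf 0 24397 0) (P.cons (P.lf 3177 0 0) (P.cons (P.lf 12 0 0) P.nil)))))) (P.cons (P.cons (P.lf 8023232 0 0) (P.cons (P.lf 0 2008795 0) (P.cons (P.lf 51856 0 0) (P.cons (P.lf 3102 0 0) (P.cons (P.lf 0 155 0) P.nil))))) (P.cons (P.cons (P.lf 759441 0 0) (P.cons (P.lf 0 460866 0) (P.cons (P.lf 42055 0 0) (P.cons (P.lf 948 0 0) P.nil)))) (P.cons (P.cons (P.lf 0 359238 0) (P.cons (P.lf 59804 0 0) (P.cons (P.lf 1560 0 0) P.nil))) (P.cons (P.cons (P.lf 0 5900 0) (P.cons (P.lf 8412 0 0) P.nil)) (P.cons (P.cons (P.lf 6036 0 0) P.nil) P.nil)))))) 3102)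
 EL.nil))
noncomputable def S212_227_475_512_18 : EL := (EL.cons 4 (TM.mk (P.cons (P.lf 86593710 0 0) (P.cons (P.lf 0 50734084 0) (P.cons (P.lf 9119656 0 0) (P.cons (P.lf 0 291978 0) (P.cons (P.lf 0 43993 0) (P.cons (P.lf 441 0 0) P.nil)))))) 153)
 (EL.cons 8 (TM.mk (P.cons (P.lf 157842459 0 0) (P.cons (P.lf 0 58353100 0) (P.cons (P.lf 3468227 0 0) (P.cons (P.lf 460355 0 0) (P.cons (P.lf 0 9599 0) (P.cons (P.lf 0 1439 0) P.nil)))))) 99)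
 EL.nil))
noncomputable def S212_227_475_512_19 : EL := (EL.cons 4 (TM.mk (P.cons (P.cons (P.lf 18593109 0 0) (P.cons (P.lf 0 4013714 0) (P.cons (P.lf 0 15781 0) (P.lf 5260 0 0)))) (P.cons (P.cons (P.lf 0 12122535 0) (P.cons (P.lf 2099933 0 0) (P.cons (P.lf 8256 0 0) (P.lf 0 2751 0)))) (P.cons (P.cons (P.lf 2237612 0 0) (P.cons (P.lf 0 257236 0) (P.cons (P.lf 0 1010 0) (P.lf 336 0 0)))) (P.cons (P.cons (P.lf 79489 0 0) (P.cons (P.lf 0 22095 0) (P.cons (P.lf 0 86 0) P.nil))) (P.cons (P.cons (P.lf 0 57699 0) (P.cons (P.lf 3911 0 0) P.nil)) (P.cons (P.cons (P.lf 2495 0 0) P.nil) P.nil)))))) 1107)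
 (EL.cons 8 (TM.mk (P.cons (P.cons (P.lf 33891401 0 0) (P.cons (P.lf 0 7316173 0) (P.cons (P.lf 0 28767 0) (P.lf 9588 0 0)))) (P.cons (P.cons (P.lf 0 14769746 0) (P.cons (P.lf 2246029 0 0) (P.cons (P.lf 8831 0 0) (P.lf 0 2943 0)))) (P.cons (P.cons (P.lf 769750 0 0) (P.cons (P.lf 41691 0 0) (P.cons (P.lf 163 0 0) (P.lf 0 54 0)))) (P.cons (P.cons (P.lf 371091 0 0) (P.cons (P.lf 0 40947 0) (P.cons (P.lf 0 160 0) P.nil))) (P.cons (P.cons (P.lf 0 31860 0) (P.cons (P.lf 0 1199 0) P.nil)) (P.cons (P.cons (P.lf 0 3282 0) P.nil) P.nil)))))) 823)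
 EL.nil))
noncomputable def S212_227_475_512_20 : EL := (EL.cons 4 (TM.mk (P.cons (P.cons (P.lf 3992250 0 0) (P.cons (P.lf 0 1723621 0) (P.cons (P.lf 179262 0 0) (P.cons (P.lf 3721 0 0) (P.cons (P.lf 0 484 0) (P.cons (P.lf 0 1 0) P.nil)))))) (P.cons (P.cons (P.lf 0 2866814 0) (P.cons (P.lf 1015719 0 0) (P.cons (P.lf 0 81675 0) (P.cons (P.lf 0 2004 0) (P.cons (P.lf 223 0 0) P.nil))))) (P.cons (P.cons (P.lf 557905 0 0) (P.cons (P.lf 0 129229 0) (P.cons (P.lf 4476 0 0) (P.cons (P.lf 208 0 0) P.nil)))) (P.cons (P.cons (P.lf 49884 0 0) (P.cons (P.lf 0 24805 0) (P.cons (P.lf 2044 0 0) P.nil))) (P.cons (P.cons (P.lf 0 26380 0) (P.cons (P.lf 5401 0 0) P.nil)) (P.cons (P.cons (P.lf 1029 0 0) P.nil) P.nil)))))) 2152)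
 (EL.cons 8 (TM.mk (P.cons (P.cons (P.lf 7277047 0 0) (P.cons (P.lf 0 3141808 0) (P.cons (P.lf 326758 0 0) (P.cons (P.lf 6784 0 0) (P.cons (P.lf 0 883 0) (P.cons (P.lf 0 3 0) P.nil)))))) (P.cons (P.cons (P.lf 0 3652353 0) (P.cons (P.lf 1172206 0 0) (P.cons (P.lf 0 78235 0) (P.cons (P.lf 0 2187 0) (P.cons (P.lf 215 0 0) P.nil))))) (P.cons (P.cons (P.lf 202458 0 0) (P.cons (P.lf 28601 0 0) (P.cons (P.lf 0 9870 0) (P.cons (P.lf 0 115 0) P.nil)))) (P.cons (P.cons (P.lf 149179 0 0) (P.cons (P.lf 0 43900 0) (P.cons (P.lf 1950 0 0) P.nil))) (P.cons (P.cons (P.lf 0 17579 0) (P.cons (P.lf 600 0 0) P.nil)) (P.cons (P.cons (P.lf 0 2350 0) P.nil) P.nil)))))) 2121)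
 EL.nil))
noncomputable def S212_227_475_512_21 : EL := (EL.cons 4 (TM.mk (P.cons (P.cons (P.lf 760477602 0 0) (P.cons (P.lf 155703231 0 0) (P.cons (P.lf 612243 0 0) (P.lf 0 204075 0)))) (P.cons (P.cons (P.lf 553417620 0 0) (P.cons (P.lf 0 20646033 0) (P.cons (P.lf 0 81180 0) (P.lf 27060 0 0)))) (P.cons (P.cons (P.lf 0 19987650 0) (P.cons (P.lf 0 3078597 0) (P.cons (P.lf 0 12102 0) (P.lf 4032 0 0)))) (P.cons (P.cons (P.lf 0 5561850 0) (P.cons (P.lf 78222 0 0) (P.cons (P.lf 309 0 0) P.nil))) (P.cons (P.cons (P.lf 26709 0 0) (P.cons (P.lf 16758 0 0) P.nil)) (P.cons (P.cons (P.lf 22890 0 0) P.nil) P.nil)))))) 2784)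
 (EL.cons 8 (TM.mk (P.cons (P.cons (P.lf 0 148339353 0) (P.cons (P.lf 0 30371598 0) (P.cons (P.lf 0 119427 0) (P.lf 39816 0 0)))) (P.cons (P.cons (P.lf 0 75879930 0) (P.cons (P.lf 10593399 0 0) (P.cons (P.lf 41652 0 0) (P.lf 0 13881 0)))) (P.cons (P.cons (P.lf 26730072 0 0) (P.cons (P.lf 0 373938 0) (P.cons (P.lf 0 1470 0) (P.lf 489 0 0)))) (P.cons (P.cons (P.lf 0 86172 0) (P.cons (P.lf 0 122982 0) (P.cons (P.lf 0 477 0) P.nil))) (P.cons (P.cons (P.lf 0 197772 0) (P.cons (P.lf 765 0 0) P.nil)) (P.cons (P.cons (P.lf 0 1371 0) P.nil) P.nil)))))) 2718)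
 (EL.cons 11 (TM.mk (P.cons (P.cons (P.lf 2896548741 0 0) (P.cons (P.lf 26563425 0 0) (P.cons (P.lf 0 13251951 0) (P.cons (P.lf 0 29757 0) (P.lf 7437 0 0))))) (P.cons (P.cons (P.lf 121069719 0 0) (P.cons (P.lf 1110294 0 0) (P.cons (P.lf 0 553902 0) (P.cons (P.lf 0 1242 0) (P.lf 309 0 0))))) (P.cons (P.cons (P.lf 0 9940581 0) (P.cons (P.lf 0 91161 0) (P.cons (P.lf 45477 0 0) (P.cons (P.lf 102 0 0) P.nil)))) (P.cons (P.cons (P.lf 0 474975 0) (P.cons (P.lf 0 4353 0) (P.cons (P.lf 2172 0 0) P.nil))) (P.cons (P.cons (P.lf 15072 0 0) (P.cons (P.lf 138 0 0) P.nil)) (P.cons (P.cons (P.lf 1002 0 0) P.nil) P.nil)))))) 429)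
 EL.nil)))
noncomputable def S212_227_475_512_22 : EL := (EL.cons 4 (TM.mk (P.cons (P.cons (P.lf 163287189 0 0) (P.cons (P.lf 0 1816908 0) (P.cons (P.lf 0 7224162 0) (P.cons (P.lf 0 54372 0) (P.cons (P.lf 18804 0 0) (P.cons (P.lf 72 0 0) P.nil)))))) (P.cons (P.cons (P.lf 108033993 0 0) (P.cons (P.lf 0 34504572 0) (P.cons (P.lf 368805 0 0) (P.cons (P.lf 49191 0 0) (P.cons (P.lf 0 1314 0) P.nil))))) (P.cons (P.cons (P.lf 0 16016397 0) (P.cons (P.lf 0 1683735 0) (P.cons (P.lf 228498 0 0) (P.cons (P.lf 4053 0 0) P.nil)))) (P.cons (P.cons (P.lf 0 3608337 0) (P.cons (P.lf 633507 0 0) (P.cons (P.lf 6096 0 0) P.nil))) (P.cons (P.cons (P.lf 289089 0 0) (P.cons (P.lf 38010 0 0) P.nil)) (P.cons (P.cons (P.lf 41706 0 0) P.nil) P.nil)))))) 12201)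
 (EL.cons 8 (TM.mk (P.cons (P.cons (P.lf 0 31850925 0) (P.cons (P.lf 354405 0 0) (P.cons (P.lf 1409148 0 0) (P.cons (P.lf 10608 0 0) (P.cons (P.lf 0 3666 0) (P.cons (P.lf 0 12 0) P.nil)))))) (P.cons (P.cons (P.lf 0 14187201 0) (P.cons (P.lf 6653865 0 0) (P.cons (P.lf 0 376590 0) (P.cons (P.lf 0 11886 0) (P.cons (P.lf 1047 0 0) P.nil))))) (P.cons (P.cons (P.lf 7571229 0 0) (P.cons (P.lf 0 1125450 0) (P.cons (P.lf 0 24201 0) (P.cons (P.lf 1317 0 0) P.nil)))) (P.cons (P.cons (P.lf 0 34851 0) (P.cons (P.lf 0 171672 0) (P.cons (P.lf 7815 0 0) P.nil))) (P.cons (P.cons (P.lf 0 192303 0) (P.cons (P.lf 18573 0 0) P.nil)) (P.cons (P.cons (P.lf 5472 0 0) P.nil) P.nil)))))) 6024)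
 (EL.cons 11 (TM.mk (P.cons (P.cons (P.lf 621937197 0 0) (P.cons (P.lf 0 128554647 0) (P.cons (P.lf 0 4604580 0) (P.cons (P.lf 778983 0 0) (P.cons (P.lf 7005 0 0) (P.cons (P.lf 0 1143 0) P.nil)))))) (P.cons (P.cons (P.lf 0 15116994 0) (P.cons (P.lf 0 14167923 0) (P.cons (P.lf 0 114657 0) (P.cons (P.lf 82218 0 0) (P.cons (P.lf 525 0 0) P.nil))))) (P.cons (P.cons (P.lf 0 18591900 0) (P.cons (P.lf 541593 0 0) (P.cons (P.lf 94386 0 0) (P.cons (P.lf 0 3972 0) P.nil)))) (P.cons (P.cons (P.lf 0 126564 0) (P.cons (P.lf 123033 0 0) (P.cons (P.lf 2202 0 0) P.nil))) (P.cons (P.cons (P.lf 142815 0 0) (P.cons (P.lf 822 0 0) P.nil)) (P.cons (P.cons (P.lf 2988 0 0) P.nil) P.nil)))))) 3468)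
 EL.nil)))
noncomputable def S212_227_475_512_23 : EL := (EL.cons 4 (TM.mk (P.cons (P.cons (P.lf 0 211481067 0) (P.cons (P.lf 0 43299480 0) (P.cons (P.lf 0 170256 0) (P.lf 56751 0 0)))) (P.cons (P.cons (P.lf 0 112598496 0) (P.cons (P.lf 14197644 0 0) (P.cons (P.lf 55824 0 0) (P.lf 0 18606 0)))) (P.cons (P.cons (P.lf 36256179 0 0) (P.cons (P.lf 0 133731 0) (P.cons (P.lf 0 525 0) (P.lf 174 0 0)))) (P.cons (P.cons (P.lf 891606 0 0) (P.cons (P.lf 0 213885 0) (P.cons (P.lf 0 840 0) P.nil))) (P.cons (P.cons (P.lf 0 354093 0) (P.cons (P.lf 0 2226 0) P.nil)) (P.cons (P.cons (P.lf 0 9378 0) P.nil) P.nil)))))) 4083)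
 (EL.cons 8 (TM.mk (P.cons (P.cons (P.lf 41251659 0 0) (P.cons (P.lf 8446029 0 0) (P.cons (P.lf 33210 0 0) (P.lf 0 11070 0)))) (P.cons (P.cons (P.lf 13045170 0 0) (P.cons (P.lf 0 4595388 0) (P.cons (P.lf 0 18069 0) (P.lf 6021 0 0)))) (P.cons (P.cons (P.lf 0 11679579 0) (P.cons (P.lf 653676 0 0) (P.cons (P.lf 2568 0 0) (P.lf 0 855 0)))) (P.cons (P.cons (P.lf 1418772 0 0) (P.cons (P.lf 24297 0 0) (P.cons (P.lf 93 0 0) P.nil))) (P.cons (P.cons (P.lf 76743 0 0) (P.cons (P.lf 0 7674 0) P.nil)) (P.cons (P.cons (P.lf 0 11622 0) P.nil) P.nil)))))) 1521)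
 (EL.cons 11 (TM.mk (P.cons (P.cons (P.lf 0 805500678 0) (P.cons (P.lf 0 7387017 0) (P.cons (P.lf 3685230 0 0) (P.cons (P.lf 8274 0 0) (P.lf 0 2067 0))))) (P.cons (P.cons (P.lf 123642402 0 0) (P.cons (P.lf 1133889 0 0) (P.cons (P.lf 0 565674 0) (P.cons (P.lf 0 1269 0) (P.lf 315 0 0))))) (P.cons (P.cons (P.lf 11784468 0 0) (P.cons (P.lf 108069 0 0) (P.cons (P.lf 0 53913 0) (P.cons (P.lf 0 120 0) P.nil)))) (P.cons (P.cons (P.lf 0 445287 0) (P.cons (P.lf 0 4083 0) (P.cons (P.lf 2037 0 0) P.nil))) (P.cons (P.cons (P.lf 0 48195 0) (P.cons (P.lf 0 441 0) P.nil)) (P.cons (P.cons (P.lf 555 0 0) P.nil) P.nil)))))) 606)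
 EL.nil)))
noncomputable def S212_227_475_512_24 : EL := (EL.cons 4 (TM.mk (P.cons (P.cons (P.lf 0 45408501 0) (P.cons (P.lf 505263 0 0) (P.cons (P.lf 2008965 0 0) (P.cons (P.lf 15120 0 0) (P.cons (P.lf 0 5229 0) (P.cons (P.lf 0 18 0) P.nil)))))) (P.cons (P.cons (P.lf 0 21175074 0) (P.cons (P.lf 9496692 0 0) (P.cons (P.lf 0 494901 0) (P.cons (P.lf 0 16632 0) (P.cons (P.lf 1386 0 0) P.nil))))) (P.cons (P.cons (P.lf 10459110 0 0) (P.cons (P.lf 0 1407234 0) (P.cons (P.lf 0 49608 0) (P.cons (P.lf 1497 0 0) P.nil)))) (P.cons (P.cons (P.lf 216906 0 0) (P.cons (P.lf 0 296649 0) (P.cons (P.lf 11373 0 0) P.nil))) (P.cons (P.cons (P.lf 0 295311 0) (P.cons (P.lf 24078 0 0) P.nil)) (P.cons (P.cons (P.lf 1686 0 0) P.nil) P.nil)))))) 11160)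
 (EL.cons 8 (TM.mk (P.cons (P.cons (P.lf 8857416 0 0) (P.cons (P.lf 0 98556 0) (P.cons (P.lf 0 391869 0) (P.cons (P.lf 0 2949 0) (P.cons (P.lf 1020 0 0) (P.cons (P.lf 3 0 0) P.nil)))))) (P.cons (P.cons (P.lf 2215500 0 0) (P.cons (P.lf 0 1831122 0) (P.cons (P.lf 181254 0 0) (P.cons (P.lf 3879 0 0) (P.cons (P.lf 0 489 0) P.nil))))) (P.cons (P.cons (P.lf 0 2902866 0) (P.cons (P.lf 674643 0 0) (P.cons (P.lf 0 12531 0) (P.cons (P.lf 0 1002 0) P.nil)))) (P.cons (P.cons (P.lf 410442 0 0) (P.cons (P.lf 0 7782 0) (P.cons (P.lf 0 3873 0) P.nil))) (P.cons (P.cons (P.lf 58701 0 0) (P.cons (P.lf 0 15759 0) P.nil)) (P.cons (P.cons (P.lf 0 12342 0) P.nil) P.nil)))))) 2805)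
 (EL.cons 11 (TM.mk (P.cons (P.cons (P.lf 0 172954392 0) (P.cons (P.lf 35749737 0 0) (P.cons (P.lf 1280484 0 0) (P.cons (P.lf 0 216624 0) (P.cons (P.lf 0 1947 0) (P.cons (P.lf 318 0 0) P.nil)))))) (P.cons (P.cons (P.lf 37981095 0 0) (P.cons (P.lf 0 3041805 0) (P.cons (P.lf 0 218187 0) (P.cons (P.lf 19440 0 0) (P.cons (P.lf 234 0 0) P.nil))))) (P.cons (P.cons (P.lf 4874163 0 0) (P.cons (P.lf 0 1028571 0) (P.cons (P.lf 0 36360 0) (P.cons (P.lf 6225 0 0) P.nil)))) (P.cons (P.cons (P.lf 0 1017276 0) (P.cons (P.lf 0 10560 0) (P.cons (P.lf 4638 0 0) P.nil))) (P.cons (P.cons (P.lf 0 62406 0) (P.cons (P.lf 7770 0 0) P.nil)) (P.cons (P.cons (P.lf 7755 0 0) P.nil) P.nil)))))) 2661)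
 EL.nil)))
noncomputable def S212_227_475_512_25 : EL := (EL.cons 4 (TM.mk (P.cons (P.cons (P.lf 58810728 0 0) (P.cons (P.lf 12041142 0 0) (P.cons (P.lf 47346 0 0) (P.lf 0 15780 0)))) (P.cons (P.cons (P.lf 19827021 0 0) (P.cons (P.lf 0 6299799 0) (P.cons (P.lf 0 24771 0) (P.lf 8256 0 0)))) (P.cons (P.cons (P.lf 0 16376163 0) (P.cons (P.lf 771711 0 0) (P.cons (P.lf 3033 0 0) (P.lf 0 1011 0)))) (P.cons (P.cons (P.lf 1636275 0 0) (P.cons (P.lf 66288 0 0) (P.cons (P.lf 258 0 0) P.nil))) (P.cons (P.cons (P.lf 183216 0 0) (P.cons (P.lf 0 11733 0) P.nil)) (P.cons (P.cons (P.lf 0 17469 0) P.nil) P.nil)))))) 3645)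
 (EL.cons 8 (TM.mk (P.cons (P.cons (P.lf 0 11471664 0) (P.cons (P.lf 0 2348754 0) (P.cons (P.lf 0 9234 0) (P.lf 3078 0 0)))) (P.cons (P.cons (P.lf 0 1387362 0) (P.cons (P.lf 1736631 0 0) (P.cons (P.lf 6828 0 0) (P.lf 0 2274 0)))) (P.cons (P.cons (P.lf 3991269 0 0) (P.cons (P.lf 0 424224 0) (P.cons (P.lf 0 1668 0) (P.lf 555 0 0)))) (P.cons (P.cons (P.lf 0 1019838 0) (P.cons (P.lf 24456 0 0) (P.cons (P.lf 96 0 0) P.nil))) (P.cons (P.cons (P.lf 45165 0 0) (P.cons (P.lf 4215 0 0) P.nil)) (P.cons (P.cons (P.lf 9144 0 0) P.nil) P.nil)))))) 1581)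
 (EL.cons 11 (TM.mk (P.cons (P.cons (P.lf 224001525 0 0) (P.cons (P.lf 2054253 0 0) (P.cons (P.lf 0 1024824 0) (P.cons (P.lf 0 2301 0) (P.lf 573 0 0))))) (P.cons (P.cons (P.lf 0 78130179 0) (P.cons (P.lf 0 716508 0) (P.cons (P.lf 357450 0 0) (P.cons (P.lf 801 0 0) (P.lf 0 198 0))))) (P.cons (P.cons (P.lf 2757954 0 0) (P.cons (P.lf 25290 0 0) (P.cons (P.lf 0 12618 0) (P.cons (P.lf 0 27 0) P.nil)))) (P.cons (P.cons (P.lf 907047 0 0) (P.cons (P.lf 8316 0 0) (P.cons (P.lf 0 4149 0) P.nil))) (P.cons (P.cons (P.lf 0 5688 0) (P.cons (P.lf 0 51 0) P.nil)) (P.cons (P.cons (P.lf 0 3915 0) P.nil) P.nil)))))) 753)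
 EL.nil)))
noncomputable def S212_227_475_512_26 : EL := (EL.cons 4 (TM.mk (P.cons (P.cons (P.lf 12627639 0 0) (P.cons (P.lf 0 140508 0) (P.cons (P.lf 0 558672 0) (P.cons (P.lf 0 4203 0) (P.cons (P.lf 1452 0 0) (P.cons (P.lf 3 0 0) P.nil)))))) (P.cons (P.cons (P.lf 3422451 0 0) (P.cons (P.lf 0 2613492 0) (P.cons (P.lf 246732 0 0) (P.cons (P.lf 5445 0 0) (P.cons (P.lf 0 669 0) P.nil))))) (P.cons (P.cons (P.lf 0 4096911 0) (P.cons (P.lf 907524 0 0) (P.cons (P.lf 0 11385 0) (P.cons (P.lf 0 1305 0) P.nil)))) (P.cons (P.cons (P.lf 492027 0 0) (P.cons (P.lf 14058 0 0) (P.cons (P.lf 0 6369 0) P.nil))) (P.cons (P.cons (P.lf 103815 0 0) (P.cons (P.lf 0 24453 0) P.nil)) (P.cons (P.cons (P.lf 0 16800 0) P.nil) P.nil)))))) 5760)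
 (EL.cons 8 (TM.mk (P.cons (P.cons (P.lf 0 2463156 0) (P.cons (P.lf 27405 0 0) (P.cons (P.lf 108975 0 0) (P.cons (P.lf 819 0 0) (P.cons (P.lf 0 282 0) (P.cons (P.lf 0 0 0) P.nil)))))) (P.cons (P.cons (P.lf 0 135063 0) (P.cons (P.lf 503862 0 0) (P.cons (P.lf 0 71685 0) (P.cons (P.lf 0 1239 0) (P.cons (P.lf 189 0 0) P.nil))))) (P.cons (P.cons (P.lf 935055 0 0) (P.cons (P.lf 0 287142 0) (P.cons (P.lf 12996 0 0) (P.cons (P.lf 486 0 0) P.nil)))) (P.cons (P.cons (P.lf 0 270351 0) (P.cons (P.lf 37263 0 0) (P.cons (P.lf 567 0 0) P.nil))) (P.cons (P.cons (P.lf 3396 0 0) (P.cons (P.lf 4617 0 0) P.nil)) (P.cons (P.cons (P.lf 7104 0 0) P.nil) P.nil)))))) 2613)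
 (EL.cons 11 (TM.mk (P.cons (P.cons (P.lf 48096852 0 0) (P.cons (P.lf 0 9941637 0) (P.cons (P.lf 0 356088 0) (P.cons (P.lf 60240 0 0) (P.cons (P.lf 540 0 0) (P.cons (P.lf 0 87 0) P.nil)))))) (P.cons (P.cons (P.lf 0 19955253 0) (P.cons (P.lf 2787450 0 0) (P.cons (P.lf 130218 0 0) (P.cons (P.lf 0 17169 0) (P.cons (P.lf 0 168 0) P.nil))))) (P.cons (P.cons (P.lf 561300 0 0) (P.cons (P.lf 151011 0 0) (P.cons (P.lf 0 654 0) (P.cons (P.lf 0 858 0) P.nil)))) (P.cons (P.cons (P.lf 588006 0 0) (P.cons (P.lf 0 57216 0) (P.cons (P.lf 0 3510 0) P.nil))) (P.cons (P.cons (P.lf 0 35370 0) (P.cons (P.lf 0 3504 0) P.nil)) (P.cons (P.cons (P.lf 0 6696 0) P.nil) P.nil)))))) 2472)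
 EL.nil)))
noncomputable def S212_227_475_512_27 : EL := (EL.cons 13 (TM.mk (P.lf 0 4294967296 0) 0)
 EL.nil)
noncomputable def S212_227_475_512_28 : EL := (EL.cons 13 (TM.mk (P.cons (P.cons (P.lf 0 922200925 0) (P.cons (P.lf 199076516 0 0) (P.cons (P.lf 782796 0 0) (P.lf 0 260928 0)))) (P.cons (P.cons (P.lf 60961382 0 0) (P.cons (P.lf 12481476 0 0) (P.cons (P.lf 49076 0 0) (P.lf 0 16356 0)))) (P.cons (P.cons (P.lf 21854914 0 0) (P.cons (P.lf 0 894380 0) (P.cons (P.lf 0 3516 0) (P.lf 1172 0 0)))) (P.cons (P.cons (P.lf 0 667832 0) (P.cons (P.lf 0 71292 0) (P.cons (P.lf 0 276 0) P.nil))) (P.cons (P.cons (P.lf 0 94055 0) (P.cons (P.lf 1644 0 0) P.nil)) (P.cons (P.cons (P.lf 792 0 0) P.nil) P.nil)))))) 885)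
 EL.nil)
noncomputable def S212_227_475_512_29 : EL := (EL.cons 13 (TM.mk (P.cons (P.cons (P.lf 0 198011879 0) (P.cons (P.lf 85490079 0 0) (P.cons (P.lf 0 8891259 0) (P.cons (P.lf 0 184618 0) (P.cons (P.lf 24045 0 0) (P.cons (P.lf 95 0 0) P.nil)))))) (P.cons (P.cons (P.lf 26178845 0 0) (P.cons (P.lf 0 291294 0) (P.cons (P.lf 0 1158207 0) (P.cons (P.lf 0 8715 0) (P.cons (P.lf 3014 0 0) P.nil))))) (P.cons (P.cons (P.lf 8519960 0 0) (P.cons (P.lf 0 2764391 0) (P.cons (P.lf 35769 0 0) (P.cons (P.lf 3989 0 0) P.nil)))) (P.cons (P.cons (P.lf 0 907192 0) (P.cons (P.lf 0 70340 0) (P.cons (P.lf 11532 0 0) P.nil))) (P.cons (P.cons (P.lf 0 132640 0) (P.cons (P.lf 24432 0 0) P.nil)) (P.cons (P.cons (P.lf 9806 0 0) P.nil) P.nil)))))) 5076)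
 EL.nil)
noncomputable def S212_227_475_512_30 : EL := (EL.cons 13 (TM.mk (P.cons (P.lf 1194386624 0 0) (P.cons (P.lf 0 233258332 0) (P.cons (P.lf 0 3625172 0) (P.cons (P.lf 207136 0 0) (P.cons (P.lf 5900 0 0) (P.cons (P.lf 0 156 0) P.nil)))))) 48)
 EL.nil)
noncomputable def S212_227_475_512_31 : EL := (EL.cons 13 (TM.mk (P.cons (P.cons (P.lf 256454676 0 0) (P.cons (P.lf 0 55361149 0) (P.cons (P.lf 0 217687 0) (P.lf 72561 0 0)))) (P.cons (P.cons (P.lf 0 67037183 0) (P.cons (P.lf 7340812 0 0) (P.cons (P.lf 28865 0 0) (P.lf 0 9622 0)))) (P.cons (P.cons (P.lf 0 3545219 0) (P.cons (P.lf 1094613 0 0) (P.cons (P.lf 4303 0 0) (P.lf 0 1434 0)))) (P.cons (P.cons (P.lf 1468580 0 0) (P.cons (P.lf 0 27813 0) (P.cons (P.lf 0 110 0) P.nil))) (P.cons (P.cons (P.lf 6659 0 0) (P.cons (P.lf 0 5959 0) P.nil)) (P.cons (P.cons (P.lf 0 7063 0) P.nil) P.nil)))))) 859)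
 EL.nil)
noncomputable def S212_227_475_512_32 : EL := (EL.cons 13 (TM.mk (P.cons (P.cons (P.lf 55065085 0 0) (P.cons (P.lf 0 23773919 0) (P.cons (P.lf 2472568 0 0) (P.cons (P.lf 51340 0 0) (P.cons (P.lf 0 6686 0) (P.cons (P.lf 0 26 0) P.nil)))))) (P.cons (P.cons (P.lf 0 18034033 0) (P.cons (P.lf 4723945 0 0) (P.cons (P.lf 0 160795 0) (P.cons (P.lf 0 7602 0) (P.cons (P.lf 467 0 0) P.nil))))) (P.cons (P.cons (P.lf 0 1114681 0) (P.cons (P.lf 825086 0 0) (P.cons (P.lf 0 80353 0) (P.cons (P.lf 0 1738 0) P.nil)))) (P.cons (P.cons (P.lf 746643 0 0) (P.cons (P.lf 0 134941 0) (P.cons (P.lf 0 1813 0) P.nil))) (P.cons (P.cons (P.lf 0 6182 0) (P.cons (P.lf 0 13051 0) P.nil)) (P.cons (P.cons (P.lf 0 11150 0) P.nil) P.nil)))))) 5156)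
 EL.nil)
noncomputable def S212_227_475_512_33 : EL := (EL.cons 14 (TM.mk (P.lf 8589934592 0 0) 0)
 EL.nil)
noncomputable def S212_227_475_512_34 : EL := (EL.cons 14 (TM.mk (P.cons (P.cons (P.lf 1844401850 0 0) (P.cons (P.lf 0 398153032 0) (P.cons (P.lf 0 1565592 0) (P.lf 521856 0 0)))) (P.cons (P.cons (P.lf 0 121922764 0) (P.cons (P.lf 0 24962952 0) (P.cons (P.lf 0 98152 0) (P.lf 32712 0 0)))) (P.cons (P.cons (P.lf 0 43709828 0) (P.cons (P.lf 1788760 0 0) (P.cons (P.lf 7032 0 0) (P.lf 0 2344 0)))) (P.cons (P.cons (P.lf 1335664 0 0) (P.cons (P.lf 142584 0 0) (P.cons (P.lf 552 0 0) P.nil))) (P.cons (P.cons (P.lf 188110 0 0) (P.cons (P.lf 0 3288 0) P.nil)) (P.cons (P.cons (P.lf 0 1584 0) P.nil) P.nil)))))) 1770)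
 EL.nil)
noncomputable def S212_227_475_512_35 : EL := (EL.cons 14 (TM.mk (P.cons (P.cons (P.lf 396023758 0 0) (P.cons (P.lf 0 170980158 0) (P.cons (P.lf 17782518 0 0) (P.cons (P.lf 369236 0 0) (P.cons (P.lf 0 48090 0) (P.cons (P.lf 0 190 0) P.nil)))))) (P.cons (P.cons (P.lf 0 52357690 0) (P.cons (P.lf 582588 0 0) (P.cons (P.lf 2316414 0 0) (P.cons (P.lf 17430 0 0) (P.cons (P.lf 0 6028 0) P.nil))))) (P.cons (P.cons (P.lf 0 17039920 0) (P.cons (P.lf 5528782 0 0) (P.cons (P.lf 0 71538 0) (P.cons (P.lf 0 7978 0) P.nil)))) (P.cons (P.cons (P.lf 1814384 0 0) (P.cons (P.lf 140680 0 0) (P.cons (P.lf 0 23064 0) P.nil))) (P.cons (P.cons (P.lf 265280 0 0) (P.cons (P.lf 0 48864 0) P.nil)) (P.cons (P.cons (P.lf 0 19612 0) P.nil) P.nil)))))) 10152)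
 EL.nil)
noncomputable def S212_227_475_512_36 : EL := (EL.cons 14 (TM.mk (P.cons (P.lf 0 2388773248 0) (P.cons (P.lf 466516664 0 0) (P.cons (P.lf 7250344 0 0) (P.cons (P.lf 0 414272 0) (P.cons (P.lf 0 11800 0) (P.cons (P.lf 312 0 0) P.nil)))))) 96)
 EL.nil)
noncomputable def S212_227_475_512_37 : EL := (EL.cons 14 (TM.mk (P.cons (P.cons (P.lf 0 512909352 0) (P.cons (P.lf 110722298 0 0) (P.cons (P.lf 435374 0 0) (P.lf 0 145122 0)))) (P.cons (P.cons (P.lf 134074366 0 0) (P.cons (P.lf 0 14681624 0) (P.cons (P.lf 0 57730 0) (P.lf 19244 0 0)))) (P.cons (P.cons (P.lf 7090438 0 0) (P.cons (P.lf 0 2189226 0) (P.cons (P.lf 0 8606 0) (P.lf 2868 0 0)))) (P.cons (P.cons (P.lf 0 2937160 0) (P.cons (P.lf 55626 0 0) (P.cons (P.lf 220 0 0) P.nil))) (P.cons (P.cons (P.lf 0 13318 0) (P.cons (P.lf 11918 0 0) P.nil)) (P.cons (P.cons (P.lf 14126 0 0) P.nil) P.nil)))))) 1718)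
 EL.nil)
noncomputable def S212_227_475_512_38 : EL := (EL.cons 14 (TM.mk (P.cons (P.cons (P.lf 0 110130170 0) (P.cons (P.lf 47547838 0 0) (P.cons (P.lf 0 4945136 0) (P.cons (P.lf 0 102680 0) (P.cons (P.lf 13372 0 0) (P.cons (P.lf 52 0 0) P.nil)))))) (P.cons (P.cons (P.lf 36068066 0 0) (P.cons (P.lf 0 9447890 0) (P.cons (P.lf 321590 0 0) (P.cons (P.lf 15204 0 0) (P.cons (P.lf 0 934 0) P.nil))))) (P.cons (P.cons (P.lf 2229362 0 0) (P.cons (P.lf 0 1650172 0) (P.cons (P.lf 160706 0 0) (P.cons (P.lf 3476 0 0) P.nil)))) (P.cons (P.cons (P.lf 0 1493286 0) (P.cons (P.lf 269882 0 0) (P.cons (P.lf 3626 0 0) P.nil))) (P.cons (P.cons (P.lf 12364 0 0) (P.cons (P.lf 26102 0 0) P.nil)) (P.cons (P.cons (P.lf 22300 0 0) P.nil) P.nil)))))) 10312)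
 EL.nil)
noncomputable def S212_227_475_512_39 : EL := (EL.cons 14 (TM.mk (P.cons (P.lf 664293490 0 0) (P.cons (P.lf 0 259467056 0) (P.cons (P.lf 21303880 0 0) (P.cons (P.lf 1017936 0 0) (P.cons (P.lf 0 32314 0) (P.cons (P.lf 0 2154 0) P.nil)))))) 152)
 EL.nil)
noncomputable def S212_227_475_512_40 : EL := (EL.cons 14 (TM.mk (P.cons (P.cons (P.lf 142634862 0 0) (P.cons (P.lf 0 30790742 0) (P.cons (P.lf 0 121072 0) (P.lf 40356 0 0)))) (P.cons (P.cons (P.lf 0 65140660 0) (P.cons (P.lf 10096102 0 0) (P.cons (P.lf 39698 0 0) (P.lf 0 13232 0)))) (P.cons (P.cons (P.lf 4876834 0 0) (P.cons (P.lf 0 95096 0) (P.cons (P.lf 0 374 0) (P.lf 124 0 0)))) (P.cons (P.cons (P.lf 1339776 0 0) (P.cons (P.lf 0 152096 0) (P.cons (P.lf 0 598 0) P.nil))) (P.cons (P.cons (P.lf 0 155588 0) (P.cons (P.lf 0 1584 0) P.nil)) (P.cons (P.cons (P.lf 0 7674 0) P.nil) P.nil)))))) 2366)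
 EL.nil)
noncomputable def S212_227_475_512_41 : EL := (EL.cons 14 (TM.mk (P.cons (P.cons (P.lf 30626076 0 0) (P.cons (P.lf 0 13222568 0) (P.cons (P.lf 1375192 0 0) (P.cons (P.lf 28554 0 0) (P.cons (P.lf 0 3718 0) (P.cons (P.lf 0 14 0) P.nil)))))) (P.cons (P.cons (P.lf 0 16011296 0) (P.cons (P.lf 5209670 0 0) (P.cons (P.lf 0 358000 0) (P.cons (P.lf 0 9804 0) (P.cons (P.lf 986 0 0) P.nil))))) (P.cons (P.cons (P.lf 1245926 0 0) (P.cons (P.lf 0 14082 0) (P.cons (P.lf 0 31398 0) (P.cons (P.lf 0 226 0) P.nil)))) (P.cons (P.cons (P.lf 572098 0 0) (P.cons (P.lf 0 174938 0) (P.cons (P.lf 8228 0 0) P.nil))) (P.cons (P.cons (P.lf 0 84244 0) (P.cons (P.lf 6394 0 0) P.nil)) (P.cons (P.cons (P.lf 0 6950 0) P.nil) P.nil)))))) 7482)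
 EL.nil)
noncomputable def S212_227_475_512_42 : EL := (EL.cons 14 (TM.mk (P.cons (P.lf 0 184733248 0) (P.cons (P.lf 108232714 0 0) (P.cons (P.lf 0 19455268 0) (P.cons (P.lf 622888 0 0) (P.cons (P.lf 93852 0 0) (P.cons (P.lf 0 942 0) P.nil)))))) 312)
 EL.nil)
noncomputable def S212_227_475_512_43 : EL := (EL.cons 14 (TM.mk (P.cons (P.cons (P.lf 0 39665300 0) (P.cons (P.lf 8562590 0 0) (P.cons (P.lf 33668 0 0) (P.lf 0 11222 0)))) (P.cons (P.cons (P.lf 25861408 0 0) (P.cons (P.lf 0 4479858 0) (P.cons (P.lf 0 17614 0) (P.lf 5870 0 0)))) (P.cons (P.cons (P.lf 0 4773574 0) (P.cons (P.lf 548772 0 0) (P.cons (P.lf 2156 0 0) (P.lf 0 718 0)))) (P.cons (P.cons (P.lf 0 169578 0) (P.cons (P.lf 47138 0 0) (P.cons (P.lf 184 0 0) P.nil))) (P.cons (P.cons (P.lf 123092 0 0) (P.cons (P.lf 0 8344 0) P.nil)) (P.cons (P.cons (P.lf 0 5324 0) P.nil) P.nil)))))) 2322)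
 EL.nil)
noncomputable def S212_227_475_512_44 : EL := (EL.cons 14 (TM.mk (P.cons (P.cons (P.lf 0 8516800 0) (P.cons (P.lf 3677060 0 0) (P.cons (P.lf 0 382426 0) (P.cons (P.lf 0 7940 0) (P.cons (P.lf 1034 0 0) (P.cons (P.lf 4 0 0) P.nil)))))) (P.cons (P.cons (P.lf 6115870 0 0) (P.cons (P.lf 0 2166868 0) (P.cons (P.lf 174242 0 0) (P.cons (P.lf 4276 0 0) (P.cons (P.lf 0 476 0) P.nil))))) (P.cons (P.cons (P.lf 0 1190198 0) (P.cons (P.lf 275690 0 0) (P.cons (P.lf 0 9550 0) (P.cons (P.lf 0 444 0) P.nil)))) (P.cons (P.cons (P.lf 0 106420 0) (P.cons (P.lf 52918 0 0) (P.cons (P.lf 0 4362 0) P.nil))) (P.cons (P.cons (P.lf 56278 0 0) (P.cons (P.lf 0 11524 0) P.nil)) (P.cons (P.cons (P.lf 0 2196 0) P.nil) P.nil)))))) 4546)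
 EL.nil)
noncomputable def S212_227_475_512_45 : EL := (EL.cons 14 (TM.mk (P.cons (P.cons (P.lf 85032888 0 0) (P.cons (P.lf 0 55068426 0) (P.cons (P.lf 11671144 0 0) (P.cons (P.lf 0 689736 0) (P.cons (P.lf 0 41068 0) (P.cons (P.lf 3200 0 0) P.nil)))))) (P.cons (P.cons (P.lf 0 16863100 0) (P.cons (P.lf 3827892 0 0) (P.cons (P.lf 719866 0 0) (P.cons (P.lf 0 160368 0) (P.cons (P.lf 0 3732 0) P.nil))))) (P.cons (P.cons (P.lf 0 4930770 0) (P.cons (P.lf 3073324 0 0) (P.cons (P.lf 0 428258 0) (P.cons (P.lf 0 6048 0) P.nil)))) (P.cons (P.cons (P.lf 959436 0 0) (P.cons (P.lf 0 116726 0) (P.cons (P.lf 0 38416 0) P.nil))) (P.cons (P.cons (P.lf 118446 0 0) (P.cons (P.lf 0 66412 0) P.nil)) (P.cons (P.cons (P.lf 0 21076 0) P.nil) P.nil)))))) 21654)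
 EL.nil)
noncomputable def S212_227_475_512_46 : EL := (EL.cons 15 (TM.mk (P.lf 4294967296 0 0) 0)
 EL.nil)
noncomputable def S212_227_475_512_47 : EL := (EL.cons 15 (TM.mk (P.cons (P.cons (P.lf 922200925 0 0) (P.cons (P.lf 0 199076516 0) (P.cons (P.lf 0 782796 0) (P.lf 260928 0 0)))) (P.cons (P.cons (P.lf 0 60961382 0) (P.cons (P.lf 0 12481476 0) (P.cons (P.lf 0 49076 0) (P.lf 16356 0 0)))) (P.cons (P.cons (P.lf 0 21854914 0) (P.cons (P.lf 894380 0 0) (P.cons (P.lf 3516 0 0) (P.lf 0 1172 0)))) (P.cons (P.cons (P.lf 667832 0 0) (P.cons (P.lf 71292 0 0) (P.cons (P.lf 276 0 0) P.nil))) (P.cons (P.cons (P.lf 94055 0 0) (P.cons (P.lf 0 1644 0) P.nil)) (P.cons (P.cons (P.lf 0 792 0) P.nil) P.nil)))))) 885)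
 EL.nil)
noncomputable def S212_227_475_512_48 : EL := (EL.cons 15 (TM.mk (P.cons (P.cons (P.lf 198011879 0 0) (P.cons (P.lf 0 85490079 0) (P.cons (P.lf 8891259 0 0) (P.cons (P.lf 184618 0 0) (P.cons (P.lf 0 24045 0) (P.cons (P.lf 0 95 0) P.nil)))))) (P.cons (P.cons (P.lf 0 26178845 0) (P.cons (P.lf 291294 0 0) (P.cons (P.lf 1158207 0 0) (P.cons (P.lf 8715 0 0) (P.cons (P.lf 0 3014 0) P.nil))))) (P.cons (P.cons (P.lf 0 8519960 0) (P.cons (P.lf 2764391 0 0) (P.cons (P.lf 0 35769 0) (P.cons (P.lf 0 3989 0) P.nil)))) (P.cons (P.cons (P.lf 907192 0 0) (P.cons (P.lf 70340 0 0) (P.cons (P.lf 0 11532 0) P.nil))) (P.cons (P.cons (P.lf 132640 0 0) (P.cons (P.lf 0 24432 0) P.nil)) (P.cons (P.cons (P.lf 0 9806 0) P.nil) P.nil)))))) 5076)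
 EL.nil)
noncomputable def S212_227_475_512 : SL := (SL.cons S212_227_475_512_0 (SL.cons S212_227_475_512_1 (SL.cons S212_227_475_512_2 (SL.cons S212_227_475_512_3 (SL.cons S212_227_475_512_4 (SL.cons S212_227_475_512_5 (SL.cons S212_227_475_512_6 (SL.cons S212_227_475_512_7 (SL.cons S212_227_475_512_8 (SL.cons S212_227_475_512_9 (SL.cons S212_227_475_512_10 (SL.cons S212_227_475_512_11 (SL.cons S212_227_475_512_12 (SL.cons S212_227_475_512_13 (SL.cons S212_227_475_512_14 (SL.cons S212_227_475_512_15 (SL.cons S212_227_475_512_16 (SL.cons S212_227_475_512_17 (SL.cons S212_227_475_512_18 (SL.cons S212_227_475_512_19 (SL.cons S212_227_475_512_20 (SL.cons S212_227_475_512_21 (SL.cons S212_227_475_512_22 (SL.cons S212_227_475_512_23 (SL.cons S212_227_475_512_24 (SL.cons S212_227_475_512_25 (SL.cons S212_227_475_512_26 (SL.cons S212_227_475_512_27 (SL.cons S212_227_475_512_28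 (SL.cons S212_227_475_512_29 (SL.cons S212_227_475_512_30 (SL.cons S212_227_475_512_31 (SL.cons S212_227_475_512_32 (SL.cons S212_227_475_512_33 (SL.cons S212_227_475_512_34 (SL.cons S212_227_475_512_35 (SL.cons S212_227_475_512_36 (SL.cons S212_227_475_512_37 (SL.cons S212_227_475_512_38 (SL.cons S212_227_475_512_39 (SL.cons S212_227_475_512_40 (SL.cons S212_227_475_512_41 (SL.cons S212_227_475_512_42 (SL.cons S212_227_475_512_43 (SL.cons S212_227_475_512_44 (SL.cons S212_227_475_512_45 (SL.cons S212_227_475_512_46 (SL.cons S212_227_475_512_47 (SL.cons S212_227_475_512_48 SL.nil)))))))))))))))))))))))))))))))))))))))))))))))))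
noncomputable def S212_227_512_586_0 : EL := (EL.cons 0 (TM.mk (P.cons (P.lf 7871865163 0 0) (P.cons (P.lf 228047217 0 0) (P.cons (P.lf 0 18724113 0) (P.cons (P.lf 0 894670 0) (P.cons (P.lf 28400 0 0) (P.cons (P.lf 1893 0 0) P.nil)))))) 140)
 (EL.cons 1 (TM.mk (P.cons (P.lf 0 1064241138 0) (P.cons (P.lf 185599968 0 0) (P.cons (P.lf 9632411 0 0) (P.cons (P.lf 0 474855 0) (P.cons (P.lf 0 25702 0) (P.cons (P.lf 519 0 0) P.nil)))))) 134)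
 (EL.cons 5 (TM.mk (P.cons (P.lf 4502559014 0 0) (P.cons (P.lf 0 81083452 0) (P.cons (P.lf 6657460 0 0) (P.cons (P.lf 318104 0 0) (P.cons (P.lf 0 10096 0) (P.cons (P.lf 0 672 0) P.nil)))))) 143)
 (EL.cons 9 (TM.mk (P.lf 6442450944 0 0) 2)
 EL.nil))))
noncomputable def S212_227_512_586_1 : EL := (EL.cons 0 (TM.mk (P.cons (P.cons (P.lf 1235697842 0 0) (P.cons (P.lf 0 560673479 0) (P.cons (P.lf 8923857 0 0) (P.lf 2974620 0 0)))) (P.cons (P.cons (P.lf 0 31844068 0) (P.cons (P.lf 0 118716877 0) (P.cons (P.lf 1889526 0 0) (P.lf 629833 0 0)))) (P.cons (P.cons (P.lf 0 109008065 0) (P.cons (P.lf 4140847 0 0) (P.cons (P.lf 0 65900 0) (P.lf 0 21966 0)))) (P.cons (P.cons (P.lf 490710 0 0) (P.cons (P.lf 1334214 0 0) (P.cons (P.lf 0 21225 0) P.nil))) (P.cons (P.cons (P.lf 992848 0 0) (P.cons (P.lf 4601 0 0) P.nil)) (P.cons (P.cons (P.lf 12834 0 0) P.nil) P.nil)))))) 24857)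
 (EL.cons 1 (TM.mk (P.cons (P.cons (P.lf 440420983 0 0) (P.cons (P.lf 228084787 0 0) (P.cons (P.lf 0 3630262 0) (P.lf 0 1210083 0)))) (P.cons (P.cons (P.lf 284873874 0 0) (P.cons (P.lf 0 18710327 0) (P.cons (P.lf 297800 0 0) (P.lf 99268 0 0)))) (P.cons (P.cons (P.lf 203248 0 0) (P.cons (P.lf 0 7177247 0) (P.cons (P.lf 114224 0 0) (P.lf 38068 0 0)))) (P.cons (P.cons (P.lf 0 5999847 0) (P.cons (P.lf 29101 0 0) (P.cons (P.lf 0 461 0) P.nil))) (P.cons (P.cons (P.lf 0 66628 0) (P.cons (P.lf 54075 0 0) P.nil)) (P.cons (P.cons (P.lf 37902 0 0) P.nil) P.nil)))))) 11590)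
 (EL.cons 5 (TM.mk (P.cons (P.cons (P.lf 113092109 0 0) (P.cons (P.lf 0 469525056 0) (P.cons (P.lf 7473116 0 0) (P.lf 2491040 0 0)))) (P.cons (P.cons (P.lf 0 155967547 0) (P.cons (P.lf 274022 0 0) (P.cons (P.lf 0 4356 0) (P.lf 0 1450 0)))) (P.cons (P.cons (P.lf 6166403 0 0) (P.cons (P.lf 1532736 0 0) (P.cons (P.lf 0 24402 0) (P.lf 0 8136 0)))) (P.cons (P.cons (P.lf 1324426 0 0) (P.cons (P.lf 0 234846 0) (P.cons (P.lf 3730 0 0) P.nil))) (P.cons (P.cons (P.lf 0 201503 0) (P.cons (P.lf 0 7178 0) P.nil)) (P.cons (P.cons (P.lf 0 6966 0) P.nil) P.nil)))))) 13026)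
 (EL.cons 9 (TM.mk (P.cons (P.cons (P.lf 487457065 0 0) (P.cons (P.lf 0 590184372 0) (P.cons (P.lf 9393558 0 0) (P.lf 3131184 0 0)))) (P.cons (P.cons (P.lf 0 147608715 0) (P.cons (P.lf 0 37002714 0) (P.cons (P.lf 588942 0 0) (P.lf 196308 0 0)))) (P.cons (P.cons (P.lf 0 28757661 0) (P.cons (P.lf 2651496 0 0) (P.cons (P.lf 0 42198 0) (P.lf 0 14064 0)))) (P.cons (P.cons (P.lf 1322556 0 0) (P.cons (P.lf 211350 0 0) (P.cons (P.lf 0 3360 0) P.nil))) (P.cons (P.cons (P.lf 133678 0 0) (P.cons (P.lf 0 4884 0) P.nil)) (P.cons (P.cons (P.lf 0 2112 0) P.nil) P.nil)))))) 2930)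
 (EL.cons 2 (TM.mk (P.cons (P.cons (P.lf 744786345 0 0) (P.cons (P.lf 0 27608211 0) (P.cons (P.lf 0 13679966 0) (P.cons (P.lf 124135 0 0) (P.lf 31033 0 0))))) (P.cons (P.cons (P.lf 0 114322899 0) (P.cons (P.lf 4237793 0 0) (P.cons (P.lf 2099840 0 0) (P.cons (P.lf 0 19054 0) (P.lf 0 4761 0))))) (P.cons (P.cons (P.lf 0 10896215 0) (P.cons (P.lf 403905 0 0) (P.cons (P.lf 200134 0 0) (P.cons (P.lf 0 1814 0) P.nil)))) (P.cons (P.cons (P.lf 411724 0 0) (P.cons (P.lf 0 15260 0) (P.cons (P.lf 0 7560 0) P.nil))) (P.cons (P.cons (P.lf 44561 0 0) (P.cons (P.lf 0 1650 0) P.nil)) (P.cons (P.cons (P.lf 0 514 0) P.nil) P.nil)))))) 1894)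
 (EL.cons 6 (TM.mk (P.cons (P.cons (P.lf 1357591785 0 0) (P.cons (P.lf 0 50324076 0) (P.cons (P.lf 0 24935757 0) (P.cons (P.lf 226275 0 0) (P.lf 56568 0 0))))) (P.cons (P.cons (P.lf 85116771 0 0) (P.cons (P.lf 0 3155160 0) (P.cons (P.lf 0 1563393 0) (P.cons (P.lf 14184 0 0) (P.lf 3543 0 0))))) (P.cons (P.cons (P.lf 0 6099192 0) (P.cons (P.lf 226086 0 0) (P.cons (P.lf 112026 0 0) (P.cons (P.lf 0 1014 0) P.nil)))) (P.cons (P.cons (P.lf 0 486177 0) (P.cons (P.lf 18021 0 0) (P.cons (P.lf 8928 0 0) P.nil))) (P.cons (P.cons (P.lf 11235 0 0) (P.cons (P.lf 0 414 0) P.nil)) (P.cons (P.cons (P.lf 1410 0 0) P.nil) P.nil)))))) 1305)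
 EL.nil))))))
noncomputable def S212_227_512_586_2 : EL := (EL.cons 0 (TM.mk (P.cons (P.cons (P.lf 141928027 0 0) (P.cons (P.lf 0 202119767 0) (P.cons (P.lf 39880244 0 0) (P.cons (P.lf 0 94759 0) (P.cons (P.lf 0 379746 0) (P.cons (P.lf 6196 0 0) P.nil)))))) (P.cons (P.cons (P.lf 0 35455590 0) (P.cons (P.lf 0 23674799 0) (P.cons (P.lf 18370785 0 0) (P.cons (P.lf 0 447184 0) (P.cons (P.lf 0 186358 0) P.nil))))) (P.cons (P.cons (P.lf 0 23985499 0) (P.cons (P.lf 22408535 0 0) (P.cons (P.lf 37928 0 0) (P.cons (P.lf 0 131434 0) P.nil)))) (P.cons (P.cons (P.lf 3980870 0 0) (P.cons (P.lf 1849965 0 0) (P.cons (P.lf 0 334539 0) P.nil))) (P.cons (P.cons (P.lf 971804 0 0) (P.cons (P.lf 0 335659 0) P.nil)) (P.cons (P.cons (P.lf 0 71264 0) P.nil) P.nil)))))) 183079)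
 (EL.cons 1 (TM.mk (P.cons (P.cons (P.lf 72740118 0 0) (P.cons (P.lf 0 60930857 0) (P.cons (P.lf 0 31888024 0) (P.cons (P.lf 1369213 0 0) (P.cons (P.lf 340322 0 0) (P.cons (P.lf 0 5547 0) P.nil)))))) (P.cons (P.cons (P.lf 18174769 0 0) (P.cons (P.lf 0 64420612 0) (P.cons (P.lf 1395688 0 0) (P.cons (P.lf 329982 0 0) (P.cons (P.lf 0 3834 0) P.nil))))) (P.cons (P.cons (P.lf 0 16526964 0) (P.cons (P.lf 0 4479577 0) (P.cons (P.lf 1467664 0 0) (P.cons (P.lf 0 20682 0) P.nil)))) (P.cons (P.cons (P.lf 0 2964839 0) (P.cons (P.lf 1703206 0 0) (P.cons (P.lf 39850 0 0) P.nil))) (P.cons (P.cons (P.lf 369034 0 0) (P.cons (P.lf 150083 0 0) P.nil)) (P.cons (P.cons (P.lf 65978 0 0) P.nil) P.nil)))))) 92661)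
 (EL.cons 5 (TM.mk (P.cons (P.cons (P.lf 0 8663000 0) (P.cons (P.lf 0 29353870 0) (P.cons (P.lf 48706192 0 0) (P.cons (P.lf 0 1379828 0) (P.cons (P.lf 0 499636 0) (P.cons (P.lf 8134 0 0) P.nil)))))) (P.cons (P.cons (P.lf 0 12708986 0) (P.cons (P.lf 32722017 0 0) (P.cons (P.lf 764811 0 0) (P.cons (P.lf 0 214538 0) (P.cons (P.lf 0 13322 0) P.nil))))) (P.cons (P.cons (P.lf 7429060 0 0) (P.cons (P.lf 380377 0 0) (P.cons (P.lf 0 456055 0) (P.cons (P.lf 12300 0 0) P.nil)))) (P.cons (P.cons (P.lf 304902 0 0) (P.cons (P.lf 0 659445 0) (P.cons (P.lf 40566 0 0) P.nil))) (P.cons (P.cons (P.lf 0 245802 0) (P.cons (P.lf 35721 0 0) P.nil)) (P.cons (P.cons (P.lf 4642 0 0) P.nil) P.nil)))))) 89528)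
 (EL.cons 9 (TM.mk (P.cons (P.cons (P.lf 36882607 0 0) (P.cons (P.lf 0 89310588 0) (P.cons (P.lf 55487500 0 0) (P.cons (P.lf 0 1247230 0) (P.cons (P.lf 0 559990 0) (P.cons (P.lf 9130 0 0) P.nil)))))) (P.cons (P.cons (P.lf 0 22337122 0) (P.cons (P.lf 21444981 0 0) (P.cons (P.lf 6438213 0 0) (P.cons (P.lf 0 329584 0) (P.cons (P.lf 0 70216 0) P.nil))))) (P.cons (P.cons (P.lf 0 969804 0) (P.cons (P.lf 7365747 0 0) (P.cons (P.lf 0 390505 0) (P.cons (P.lf 0 30378 0) P.nil)))) (P.cons (P.cons (P.lf 1517922 0 0) (P.cons (P.lf 0 1489 0) (P.cons (P.lf 0 69156 0) P.nil))) (P.cons (P.cons (P.lf 87991 0 0) (P.cons (P.lf 0 73779 0) P.nil)) (P.cons (P.cons (P.lf 0 18252 0) P.nil) P.nil)))))) 31712)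
 (EL.cons 2 (TM.mk (P.cons (P.cons (P.lf 112705976 0 0) (P.cons (P.lf 0 140635631 0) (P.cons (P.lf 5160060 0 0) (P.cons (P.lf 3168646 0 0) (P.cons (P.lf 0 84774 0) (P.cons (P.lf 0 18618 0) P.nil)))))) (P.cons (P.cons (P.lf 0 51429015 0) (P.cons (P.lf 14296865 0 0) (P.cons (P.lf 288118 0 0) (P.cons (P.lf 0 294581 0) (P.cons (P.lf 5979 0 0) P.nil))))) (P.cons (P.cons (P.lf 0 3059296 0) (P.cons (P.lf 4036078 0 0) (P.cons (P.lf 0 151644 0) (P.cons (P.lf 0 91051 0) P.nil)))) (P.cons (P.cons (P.lf 1888020 0 0) (P.cons (P.lf 0 65486 0) (P.cons (P.lf 0 34914 0) P.nil))) (P.cons (P.cons (P.lf 69120 0 0) (P.cons (P.lf 0 33052 0) P.nil)) (P.cons (P.cons (P.lf 0 15496 0) P.nil) P.nil)))))) 24040)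
 (EL.cons 6 (TM.mk (P.cons (P.cons (P.lf 205439730 0 0) (P.cons (P.lf 0 256349724 0) (P.cons (P.lf 9405732 0 0) (P.cons (P.lf 5775792 0 0) (P.cons (P.lf 0 154524 0) (P.cons (P.lf 0 33942 0) P.nil)))))) (P.cons (P.cons (P.lf 0 49329546 0) (P.cons (P.lf 0 29361150 0) (P.cons (P.lf 2558646 0 0) (P.cons (P.lf 711726 0 0) (P.cons (P.lf 0 22500 0) P.nil))))) (P.cons (P.cons (P.lf 0 16943310 0) (P.cons (P.lf 1885272 0 0) (P.cons (P.lf 244590 0 0) (P.cons (P.lf 0 31836 0) P.nil)))) (P.cons (P.cons (P.lf 3420 0 0) (P.cons (P.lf 318144 0 0) (P.cons (P.lf 0 16920 0) P.nil))) (P.cons (P.cons (P.lf 169710 0 0) (P.cons (P.lf 0 4254 0) P.nil)) (P.cons (P.cons (P.lf 4176 0 0) P.nil) P.nil)))))) 25308)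
 EL.nil))))))
noncomputable def S212_227_512_586_3 : EL := (EL.cons 0 (TM.mk (P.cons (P.lf 583851700 0 0) (P.cons (P.lf 0 228047217 0) (P.cons (P.lf 18724113 0 0) (P.cons (P.lf 894670 0 0) (P.cons (P.lf 0 28400 0) (P.cons (P.lf 0 1893 0) P.nil)))))) 140)
 (EL.cons 1 (TM.mk (P.cons (P.lf 1064241138 0 0) (P.cons (P.lf 0 185599968 0) (P.cons (P.lf 0 9632411 0) (P.cons (P.lf 474855 0 0) (P.cons (P.lf 25702 0 0) (P.cons (P.lf 0 519 0) P.nil)))))) 134)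
 (EL.cons 5 (TM.mk (P.cons (P.lf 1939891930 0 0) (P.cons (P.lf 81083452 0 0) (P.cons (P.lf 0 6657460 0) (P.cons (P.lf 0 318104 0) (P.cons (P.lf 10096 0 0) (P.cons (P.lf 672 0 0) P.nil)))))) 136)
 EL.nil)))
noncomputable def S212_227_512_586_4 : EL := (EL.cons 0 (TM.mk (P.cons (P.cons (P.lf 44176143 0 0) (P.cons (P.lf 0 53485878 0) (P.cons (P.lf 851296 0 0) (P.lf 283765 0 0)))) (P.cons (P.cons (P.lf 0 30631948 0) (P.cons (P.lf 17537704 0 0) (P.cons (P.lf 0 279135 0) (P.lf 0 93044 0)))) (P.cons (P.cons (P.lf 4035536 0 0) (P.cons (P.lf 0 165190 0) (P.cons (P.lf 2629 0 0) (P.lf 875 0 0)))) (P.cons (P.cons (P.lf 776497 0 0) (P.cons (P.lf 0 264204 0) (P.cons (P.lf 4204 0 0) P.nil))) (P.cons (P.cons (P.lf 0 140927 0) (P.cons (P.lf 0 2754 0) P.nil)) (P.cons (P.cons (P.lf 0 4565 0) P.nil) P.nil)))))) 4847)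
 (EL.cons 1 (TM.mk (P.cons (P.cons (P.lf 80523990 0 0) (P.cons (P.lf 0 97493715 0) (P.cons (P.lf 1551738 0 0) (P.lf 517245 0 0)))) (P.cons (P.cons (P.lf 0 38426878 0) (P.cons (P.lf 10890015 0 0) (P.cons (P.lf 0 173328 0) (P.lf 0 57776 0)))) (P.cons (P.cons (P.lf 0 1226908 0) (P.cons (P.lf 2386425 0 0) (P.cons (P.lf 0 37980 0) (P.lf 0 12658 0)))) (P.cons (P.cons (P.lf 1303576 0 0) (P.cons (P.lf 0 29649 0) (P.cons (P.lf 470 0 0) P.nil))) (P.cons (P.cons (P.lf 18043 0 0) (P.cons (P.lf 0 15939 0) P.nil)) (P.cons (P.cons (P.lf 0 8925 0) P.nil) P.nil)))))) 3274)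
 (EL.cons 5 (TM.mk (P.cons (P.cons (P.lf 146778614 0 0) (P.cons (P.lf 0 177710922 0) (P.cons (P.lf 2828500 0 0) (P.lf 942832 0 0)))) (P.cons (P.cons (P.lf 0 38311544 0) (P.cons (P.lf 0 18569864 0) (P.cons (P.lf 295560 0 0) (P.lf 98518 0 0)))) (P.cons (P.cons (P.lf 0 11020742 0) (P.cons (P.lf 942564 0 0) (P.cons (P.lf 0 15000 0) (P.lf 0 4998 0)))) (P.cons (P.cons (P.lf 164762 0 0) (P.cons (P.lf 164388 0 0) (P.cons (P.lf 0 2614 0) P.nil))) (P.cons (P.cons (P.lf 94666 0 0) (P.cons (P.lf 0 646 0) P.nil)) (P.cons (P.cons (P.lf 918 0 0) P.nil) P.nil)))))) 2560)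
 EL.nil)))
noncomputable def S212_227_512_586_5 : EL := (EL.cons 0 (TM.mk (P.cons (P.cons (P.lf 3342512 0 0) (P.cons (P.lf 0 8093835 0) (P.cons (P.lf 5028593 0 0) (P.cons (P.lf 0 113030 0) (P.cons (P.lf 0 50748 0) (P.cons (P.lf 826 0 0) P.nil)))))) (P.cons (P.cons (P.lf 0 3329871 0) (P.cons (P.lf 5104845 0 0) (P.cons (P.lf 0 1380654 0) (P.cons (P.lf 14278 0 0) (P.cons (P.lf 13457 0 0) P.nil))))) (P.cons (P.cons (P.lf 809984 0 0) (P.cons (P.lf 0 351142 0) (P.cons (P.lf 0 102019 0) (P.cons (P.lf 5287 0 0) P.nil)))) (P.cons (P.cons (P.lf 112092 0 0) (P.cons (P.lf 0 210939 0) (P.cons (P.lf 33971 0 0) P.nil))) (P.cons (P.cons (P.lf 0 51839 0) (P.cons (P.lf 18144 0 0) P.nil)) (P.cons (P.cons (P.lf 0 402 0) P.nil) P.nil)))))) 21527)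
 (EL.cons 1 (TM.mk (P.cons (P.cons (P.lf 6092709 0 0) (P.cons (P.lf 0 14753390 0) (P.cons (P.lf 9166087 0 0) (P.cons (P.lf 0 206030 0) (P.cons (P.lf 0 92505 0) (P.cons (P.lf 1507 0 0) P.nil)))))) (P.cons (P.cons (P.lf 0 4752459 0) (P.cons (P.lf 6115477 0 0) (P.cons (P.lf 0 534991 0) (P.cons (P.lf 0 18511 0) (P.cons (P.lf 4531 0 0) P.nil))))) (P.cons (P.cons (P.lf 428158 0 0) (P.cons (P.lf 732487 0 0) (P.cons (P.lf 0 332945 0) (P.cons (P.lf 6341 0 0) P.nil)))) (P.cons (P.cons (P.lf 314801 0 0) (P.cons (P.lf 0 251090 0) (P.cons (P.lf 0 5707 0) P.nil))) (P.cons (P.cons (P.lf 0 29242 0) (P.cons (P.lf 0 21931 0) P.nil)) (P.cons (P.cons (P.lf 0 7981 0) P.nil) P.nil)))))) 19214)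
 (EL.cons 5 (TM.mk (P.cons (P.cons (P.lf 11105752 0 0) (P.cons (P.lf 0 26892386 0) (P.cons (P.lf 16707888 0 0) (P.cons (P.lf 0 375554 0) (P.cons (P.lf 0 168618 0) (P.cons (P.lf 2748 0 0) P.nil)))))) (P.cons (P.cons (P.lf 0 6261752 0) (P.cons (P.lf 5333268 0 0) (P.cons (P.lf 2636970 0 0) (P.cons (P.lf 0 114938 0) (P.cons (P.lf 0 28190 0) P.nil))))) (P.cons (P.cons (P.lf 0 611260 0) (P.cons (P.lf 2580098 0 0) (P.cons (P.lf 0 93894 0) (P.cons (P.lf 0 12006 0) P.nil)))) (P.cons (P.cons (P.lf 466116 0 0) (P.cons (P.lf 74504 0 0) (P.cons (P.lf 0 35130 0) P.nil))) (P.cons (P.cons (P.lf 47762 0 0) (P.cons (P.lf 0 31044 0) P.nil)) (P.cons (P.cons (P.lf 0 5938 0) P.nil) P.nil)))))) 16488)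
 EL.nil)))
noncomputable def S212_227_512_586_6 : EL := (EL.cons 12 (TM.mk (P.lf 8589934592 0 0) 0)
 (EL.cons 3 (TM.mk (P.cons (P.lf 0 1119737460 0) (P.cons (P.lf 218679686 0 0) (P.cons (P.lf 3398598 0 0) (P.cons (P.lf 0 194190 0) (P.cons (P.lf 0 5531 0) (P.cons (P.lf 146 0 0) P.nil)))))) 52)
 (EL.cons 7 (TM.mk (P.cons (P.lf 0 2041050269 0) (P.cons (P.lf 0 42655831 0) (P.cons (P.lf 3948043 0 0) (P.cons (P.lf 84836 0 0) (P.cons (P.lf 0 3266 0) (P.cons (P.lf 0 122 0) P.nil)))))) 52)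
 EL.nil)))
noncomputable def S212_227_512_586_7 : EL := (EL.cons 12 (TM.mk (P.cons (P.cons (P.lf 649942754 0 0) (P.cons (P.lf 0 786912496 0) (P.cons (P.lf 12524744 0 0) (P.lf 4174912 0 0)))) (P.cons (P.cons (P.lf 0 196811620 0) (P.cons (P.lf 0 49336952 0) (P.cons (P.lf 785256 0 0) (P.lf 261744 0 0)))) (P.cons (P.cons (P.lf 0 38343548 0) (P.cons (P.lf 3535328 0 0) (P.cons (P.lf 0 56264 0) (P.lf 0 18752 0)))) (P.cons (P.cons (P.lf 1763408 0 0) (P.cons (P.lf 281800 0 0) (P.cons (P.lf 0 4480 0) P.nil))) (P.cons (P.cons (P.lf 178238 0 0) (P.cons (P.lf 0 6512 0) P.nil)) (P.cons (P.cons (P.lf 0 2816 0) P.nil) P.nil)))))) 3882)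
 (EL.cons 3 (TM.mk (P.cons (P.cons (P.lf 0 1312310329 0) (P.cons (P.lf 0 205155320 0) (P.cons (P.lf 3265314 0 0) (P.lf 1088436 0 0)))) (P.cons (P.cons (P.lf 0 449278191 0) (P.cons (P.lf 27203312 0 0) (P.cons (P.lf 0 432976 0) (P.lf 0 144326 0)))) (P.cons (P.cons (P.lf 29468491 0 0) (P.cons (P.lf 4056380 0 0) (P.cons (P.lf 0 64560 0) (P.lf 0 21516 0)))) (P.cons (P.cons (P.lf 4028606 0 0) (P.cons (P.lf 0 103072 0) (P.cons (P.lf 1640 0 0) P.nil))) (P.cons (P.cons (P.lf 0 66475 0) (P.cons (P.lf 0 22084 0) P.nil)) (P.cons (P.cons (P.lf 0 16239 0) P.nil) P.nil)))))) 8899)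
 (EL.cons 7 (TM.mk (P.cons (P.cons (P.lf 85021559 0 0) (P.cons (P.lf 247004549 0 0) (P.cons (P.lf 0 3931408 0) (P.lf 0 1310472 0)))) (P.cons (P.cons (P.lf 87636561 0 0) (P.cons (P.lf 0 5306295 0) (P.cons (P.lf 84455 0 0) (P.lf 28148 0 0)))) (P.cons (P.cons (P.lf 0 15221416 0) (P.cons (P.lf 0 217646 0) (P.cons (P.lf 3468 0 0) (P.lf 1156 0 0)))) (P.cons (P.cons (P.lf 142481 0 0) (P.cons (P.lf 128099 0 0) (P.cons (P.lf 0 2036 0) P.nil))) (P.cons (P.cons (P.lf 124544 0 0) (P.cons (P.lf 63 0 0) P.nil)) (P.cons (P.cons (P.lf 71 0 0) P.nil) P.nil)))))) 7861)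
 (EL.cons 10 (TM.mk (P.cons (P.cons (P.lf 0 2856770559 0) (P.cons (P.lf 105896589 0 0) (P.cons (P.lf 52472139 0 0) (P.cons (P.lf 0 476151 0) (P.lf 0 119037 0))))) (P.cons (P.cons (P.lf 0 119407071 0) (P.cons (P.lf 4426257 0 0) (P.cons (P.lf 2193225 0 0) (P.cons (P.lf 0 19902 0) (P.lf 0 4974 0))))) (P.cons (P.cons (P.lf 9804069 0 0) (P.cons (P.lf 0 363423 0) (P.cons (P.lf 0 180075 0) (P.cons (P.lf 1632 0 0) P.nil)))) (P.cons (P.cons (P.lf 468453 0 0) (P.cons (P.lf 0 17364 0) (P.cons (P.lf 0 8604 0) P.nil))) (P.cons (P.cons (P.lf 0 14865 0) (P.cons (P.lf 549 0 0) P.nil)) (P.cons (P.cons (P.lf 0 987 0) P.nil) P.nil)))))) 1158)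
 EL.nil))))
noncomputable def S212_227_512_586_8 : EL := (EL.cons 12 (TM.mk (P.cons (P.cons (P.lf 49176810 0 0) (P.cons (P.lf 0 119080784 0) (P.cons (P.lf 73983334 0 0) (P.cons (P.lf 0 1662974 0) (P.cons (P.lf 0 746654 0) (P.cons (P.lf 12174 0 0) P.nil)))))) (P.cons (P.cons (P.lf 0 29782830 0) (P.cons (P.lf 28593308 0 0) (P.cons (P.lf 8584284 0 0) (P.cons (P.lf 0 439446 0) (P.cons (P.lf 0 93622 0) P.nil))))) (P.cons (P.cons (P.lf 0 1293072 0) (P.cons (P.lf 9820996 0 0) (P.cons (P.lf 0 520674 0) (P.cons (P.lf 0 40504 0) P.nil)))) (P.cons (P.cons (P.lf 2023896 0 0) (P.cons (P.lf 0 1986 0) (P.cons (P.lf 0 92208 0) P.nil))) (P.cons (P.cons (P.lf 117322 0 0) (P.cons (P.lf 0 98372 0) P.nil)) (P.cons (P.cons (P.lf 0 24336 0) P.nil) P.nil)))))) 42254)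
 (EL.cons 3 (TM.mk (P.cons (P.cons (P.lf 0 192177022 0) (P.cons (P.lf 193869823 0 0) (P.cons (P.lf 43899321 0 0) (P.cons (P.lf 0 2524216 0) (P.cons (P.lf 0 486645 0) (P.cons (P.lf 7936 0 0) P.nil)))))) (P.cons (P.cons (P.lf 0 12986975 0) (P.cons (P.lf 117666627 0 0) (P.cons (P.lf 0 5157151 0) (P.cons (P.lf 0 519719 0) (P.cons (P.lf 34015 0 0) P.nil))))) (P.cons (P.cons (P.lf 37332894 0 0) (P.cons (P.lf 479802 0 0) (P.cons (P.lf 0 1538334 0) (P.cons (P.lf 46175 0 0) P.nil)))) (P.cons (P.cons (P.lf 3041069 0 0) (P.cons (P.lf 0 2325383 0) (P.cons (P.lf 13531 0 0) P.nil))) (P.cons (P.cons (P.lf 0 733026 0) (P.cons (P.lf 0 85594 0) P.nil)) (P.cons (P.cons (P.lf 0 48072 0) P.nil) P.nil)))))) 114882)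
 (EL.cons 7 (TM.mk (P.cons (P.cons (P.lf 24550898 0 0) (P.cons (P.lf 0 6493794 0) (P.cons (P.lf 0 28023362 0) (P.cons (P.lf 929798 0 0) (P.cons (P.lf 291322 0 0) (P.cons (P.lf 0 4746 0) P.nil)))))) (P.cons (P.cons (P.lf 2533254 0 0) (P.cons (P.lf 0 22952143 0) (P.cons (P.lf 1005953 0 0) (P.cons (P.lf 101382 0 0) (P.cons (P.lf 0 6633 0) P.nil))))) (P.cons (P.cons (P.lf 0 7556017 0) (P.cons (P.lf 2387469 0 0) (P.cons (P.lf 191323 0 0) (P.cons (P.lf 0 19966 0) P.nil)))) (P.cons (P.cons (P.lf 459266 0 0) (P.cons (P.lf 440933 0 0) (P.cons (P.lf 0 44737 0) P.nil))) (P.cons (P.cons (P.lf 226552 0 0) (P.cons (P.lf 0 55433 0) P.nil)) (P.cons (P.cons (P.lf 0 15761 0) P.nil) P.nil)))))) 47877)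
 (EL.cons 10 (TM.mk (P.cons (P.cons (P.lf 0 432305346 0) (P.cons (P.lf 539434878 0 0) (P.cons (P.lf 0 19792416 0) (P.cons (P.lf 0 12153966 0) (P.cons (P.lf 325176 0 0) (P.cons (P.lf 71424 0 0) P.nil)))))) (P.cons (P.cons (P.lf 112838544 0 0) (P.cons (P.lf 50510838 0 0) (P.cons (P.lf 0 4970508 0) (P.cons (P.lf 0 1243680 0) (P.cons (P.lf 40560 0 0) P.nil))))) (P.cons (P.cons (P.lf 32459268 0 0) (P.cons (P.lf 0 3979350 0) (P.cons (P.lf 0 449106 0) (P.cons (P.lf 69486 0 0) P.nil)))) (P.cons (P.cons (P.lf 0 485274 0) (P.cons (P.lf 0 466182 0) (P.cons (P.lf 34560 0 0) P.nil))) (P.cons (P.cons (P.lf 0 278820 0) (P.cons (P.lf 12240 0 0) P.nil)) (P.cons (P.cons (P.lf 0 2706 0) P.nil) P.nil)))))) 40140)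
 EL.nil))))
noncomputable def S212_227_512_586_9 : EL := (EL.cons 3 (TM.mk (P.cons (P.lf 0 1119737460 0) (P.cons (P.lf 218679686 0 0) (P.cons (P.lf 3398598 0 0) (P.cons (P.lf 0 194190 0) (P.cons (P.lf 0 5531 0) (P.cons (P.lf 146 0 0) P.nil)))))) 52)
 (EL.cons 7 (TM.mk (P.cons (P.lf 0 2041050269 0) (P.cons (P.lf 0 42655831 0) (P.cons (P.lf 3948043 0 0) (P.cons (P.lf 84836 0 0) (P.cons (P.lf 0 3266 0) (P.cons (P.lf 0 122 0) P.nil)))))) 52)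
 EL.nil))
noncomputable def S212_227_512_586_10 : EL := (EL.cons 3 (TM.mk (P.cons (P.cons (P.lf 0 84723025 0) (P.cons (P.lf 102577660 0 0) (P.cons (P.lf 0 1632657 0) (P.lf 0 544218 0)))) (P.cons (P.cons (P.lf 42201324 0 0) (P.cons (P.lf 0 13601656 0) (P.cons (P.lf 216488 0 0) (P.lf 72163 0 0)))) (P.cons (P.cons (P.lf 245041 0 0) (P.cons (P.lf 0 2028190 0) (P.cons (P.lf 32280 0 0) (P.lf 10758 0 0)))) (P.cons (P.cons (P.lf 0 1298566 0) (P.cons (P.lf 51536 0 0) (P.cons (P.lf 0 820 0) P.nil))) (P.cons (P.cons (P.lf 10517 0 0) (P.cons (P.lf 11042 0 0) P.nil)) (P.cons (P.cons (P.lf 6606 0 0) P.nil) P.nil)))))) 2142)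
 (EL.cons 7 (TM.mk (P.cons (P.cons (P.lf 0 154432588 0) (P.cons (P.lf 186977903 0 0) (P.cons (P.lf 0 2975998 0) (P.lf 0 991998 0)))) (P.cons (P.cons (P.lf 43536834 0 0) (P.cons (P.lf 15630573 0 0) (P.cons (P.lf 0 248779 0) (P.lf 0 82924 0)))) (P.cons (P.cons (P.lf 10386839 0 0) (P.cons (P.lf 0 956705 0) (P.cons (P.lf 15225 0 0) (P.lf 5074 0 0)))) (P.cons (P.cons (P.lf 0 312634 0) (P.cons (P.lf 0 114961 0) (P.cons (P.lf 1828 0 0) P.nil))) (P.cons (P.cons (P.lf 0 70921 0) (P.cons (P.lf 1584 0 0) P.nil)) (P.cons (P.cons (P.lf 281 0 0) P.nil) P.nil)))))) 1674)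
 EL.nil))
noncomputable def S212_227_512_586_11 : EL := (EL.cons 3 (TM.mk (P.cons (P.cons (P.lf 0 6410422 0) (P.cons (P.lf 15522727 0 0) (P.cons (P.lf 0 9644067 0) (P.cons (P.lf 216776 0 0) (P.cons (P.lf 97329 0 0) (P.cons (P.lf 0 1586 0) P.nil)))))) (P.cons (P.cons (P.lf 5134255 0 0) (P.cons (P.lf 0 6758787 0) (P.cons (P.lf 764441 0 0) (P.cons (P.lf 14947 0 0) (P.cons (P.lf 0 6803 0) P.nil))))) (P.cons (P.cons (P.lf 0 570186 0) (P.cons (P.lf 0 599406 0) (P.cons (P.lf 315678 0 0) (P.cons (P.lf 0 6565 0) P.nil)))) (P.cons (P.cons (P.lf 0 309637 0) (P.cons (P.lf 264283 0 0) (P.cons (P.lf 487 0 0) P.nil))) (P.cons (P.cons (P.lf 36360 0 0) (P.cons (P.lf 16088 0 0) P.nil)) (P.cons (P.cons (P.lf 7008 0 0) P.nil) P.nil)))))) 17342)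
 (EL.cons 7 (TM.mk (P.cons (P.cons (P.lf 0 11684878 0) (P.cons (P.lf 28294728 0 0) (P.cons (P.lf 0 17579144 0) (P.cons (P.lf 395138 0 0) (P.cons (P.lf 177412 0 0) (P.cons (P.lf 0 2892 0) P.nil)))))) (P.cons (P.cons (P.lf 6832482 0 0) (P.cons (P.lf 0 6202711 0) (P.cons (P.lf 0 2407093 0) (P.cons (P.lf 112674 0 0) (P.cons (P.lf 25953 0 0) P.nil))))) (P.cons (P.cons (P.lf 477743 0 0) (P.cons (P.lf 0 2530281 0) (P.cons (P.lf 115093 0 0) (P.cons (P.lf 11042 0 0) P.nil)))) (P.cons (P.cons (P.lf 0 487678 0) (P.cons (P.lf 0 36331 0) (P.cons (P.lf 29171 0 0) P.nil))) (P.cons (P.cons (P.lf 0 38834 0) (P.cons (P.lf 28225 0 0) P.nil)) (P.cons (P.cons (P.lf 6127 0 0) P.nil) P.nil)))))) 13385)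
 EL.nil))
noncomputable def S212_227_512_586_12 : EL := (EL.cons 4 (TM.mk (P.cons (P.lf 1119737460 0 0) (P.cons (P.lf 0 218679686 0) (P.cons (P.lf 0 3398598 0) (P.cons (P.lf 194190 0 0) (P.cons (P.lf 5531 0 0) (P.cons (P.lf 0 146 0) P.nil)))))) 52)
 (EL.cons 8 (TM.mk (P.cons (P.lf 2041050269 0 0) (P.cons (P.lf 42655831 0 0) (P.cons (P.lf 0 3948043 0) (P.cons (P.lf 0 84836 0) (P.cons (P.lf 3266 0 0) (P.cons (P.lf 122 0 0) P.nil)))))) 52)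
 EL.nil))
noncomputable def S212_227_512_586_13 : EL := (EL.cons 4 (TM.mk (P.cons (P.cons (P.lf 84723025 0 0) (P.cons (P.lf 0 102577660 0) (P.cons (P.lf 1632657 0 0) (P.lf 544218 0 0)))) (P.cons (P.cons (P.lf 0 42201324 0) (P.cons (P.lf 13601656 0 0) (P.cons (P.lf 0 216488 0) (P.lf 0 72163 0)))) (P.cons (P.cons (P.lf 0 245041 0) (P.cons (P.lf 2028190 0 0) (P.cons (P.lf 0 32280 0) (P.lf 0 10758 0)))) (P.cons (P.cons (P.lf 1298566 0 0) (P.cons (P.lf 0 51536 0) (P.cons (P.lf 820 0 0) P.nil))) (P.cons (P.cons (P.lf 0 10517 0) (P.cons (P.lf 0 11042 0) P.nil)) (P.cons (P.cons (P.lf 0 6606 0) P.nil) P.nil)))))) 2142)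
 (EL.cons 8 (TM.mk (P.cons (P.cons (P.lf 154432588 0 0) (P.cons (P.lf 0 186977903 0) (P.cons (P.lf 2975998 0 0) (P.lf 991998 0 0)))) (P.cons (P.cons (P.lf 0 43536834 0) (P.cons (P.lf 0 15630573 0) (P.cons (P.lf 248779 0 0) (P.lf 82924 0 0)))) (P.cons (P.cons (P.lf 0 10386839 0) (P.cons (P.lf 956705 0 0) (P.cons (P.lf 0 15225 0) (P.lf 0 5074 0)))) (P.cons (P.cons (P.lf 312634 0 0) (P.cons (P.lf 114961 0 0) (P.cons (P.lf 0 1828 0) P.nil))) (P.cons (P.cons (P.lf 70921 0 0) (P.cons (P.lf 0 1584 0) P.nil)) (P.cons (P.cons (P.lf 0 281 0) P.nil) P.nil)))))) 1674)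
 EL.nil))
noncomputable def S212_227_512_586_14 : EL := (EL.cons 4 (TM.mk (P.cons (P.cons (P.lf 6410422 0 0) (P.cons (P.lf 0 15522727 0) (P.cons (P.lf 9644067 0 0) (P.cons (P.lf 0 216776 0) (P.cons (P.lf 0 97329 0) (P.cons (P.lf 1586 0 0) P.nil)))))) (P.cons (P.cons (P.lf 0 5134255 0) (P.cons (P.lf 6758787 0 0) (P.cons (P.lf 0 764441 0) (P.cons (P.lf 0 14947 0) (P.cons (P.lf 6803 0 0) P.nil))))) (P.cons (P.cons (P.lf 570186 0 0) (P.cons (P.lf 599406 0 0) (P.cons (P.lf 0 315678 0) (P.cons (P.lf 6565 0 0) P.nil)))) (P.cons (P.cons (P.lf 309637 0 0) (P.cons (P.lf 0 264283 0) (P.cons (P.lf 0 487 0) P.nil))) (P.cons (P.cons (P.lf 0 36360 0) (P.cons (P.lf 0 16088 0) P.nil)) (P.cons (P.cons (P.lf 0 7008 0) P.nil) P.nil)))))) 17342)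
 (EL.cons 8 (TM.mk (P.cons (P.cons (P.lf 11684878 0 0) (P.cons (P.lf 0 28294728 0) (P.cons (P.lf 17579144 0 0) (P.cons (P.lf 0 395138 0) (P.cons (P.lf 0 177412 0) (P.cons (P.lf 2892 0 0) P.nil)))))) (P.cons (P.cons (P.lf 0 6832482 0) (P.cons (P.lf 6202711 0 0) (P.cons (P.lf 2407093 0 0) (P.cons (P.lf 0 112674 0) (P.cons (P.lf 0 25953 0) P.nil))))) (P.cons (P.cons (P.lf 0 477743 0) (P.cons (P.lf 2530281 0 0) (P.cons (P.lf 0 115093 0) (P.cons (P.lf 0 11042 0) P.nil)))) (P.cons (P.cons (P.lf 487678 0 0) (P.cons (P.lf 36331 0 0) (P.cons (P.lf 0 29171 0) P.nil))) (P.cons (P.cons (P.lf 38834 0 0) (P.cons (P.lf 0 28225 0) P.nil)) (P.cons (P.cons (P.lf 0 6127 0) P.nil) P.nil)))))) 13385)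
 EL.nil))
noncomputable def S212_227_512_586_15 : EL := (EL.cons 4 (TM.mk (P.cons (P.lf 0 311387573 0) (P.cons (P.lf 121625182 0 0) (P.cons (P.lf 0 9986193 0) (P.cons (P.lf 0 477157 0) (P.cons (P.lf 15147 0 0) (P.cons (P.lf 1009 0 0) P.nil)))))) 78)
 (EL.cons 8 (TM.mk (P.cons (P.lf 0 567595274 0) (P.cons (P.lf 98986650 0 0) (P.cons (P.lf 5137286 0 0) (P.cons (P.lf 0 253256 0) (P.cons (P.lf 0 13708 0) (P.cons (P.lf 277 0 0) P.nil)))))) 68)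
 EL.nil))
noncomputable def S212_227_512_586_16 : EL := (EL.cons 4 (TM.mk (P.cons (P.cons (P.lf 0 23560609 0) (P.cons (P.lf 28525801 0 0) (P.cons (P.lf 0 454024 0) (P.lf 0 151341 0)))) (P.cons (P.cons (P.lf 16337039 0 0) (P.cons (P.lf 0 9353442 0) (P.cons (P.lf 148872 0 0) (P.lf 49623 0 0)))) (P.cons (P.cons (P.lf 0 2152286 0) (P.cons (P.lf 88101 0 0) (P.cons (P.lf 0 1402 0) (P.lf 0 466 0)))) (P.cons (P.cons (P.lf 0 414132 0) (P.cons (P.lf 140909 0 0) (P.cons (P.lf 0 2242 0) P.nil))) (P.cons (P.cons (P.lf 75161 0 0) (P.cons (P.lf 1469 0 0) P.nil)) (P.cons (P.cons (P.lf 2434 0 0) P.nil) P.nil)))))) 2594)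
 (EL.cons 8 (TM.mk (P.cons (P.cons (P.lf 0 42946128 0) (P.cons (P.lf 51996648 0 0) (P.cons (P.lf 0 827594 0) (P.lf 0 275864 0)))) (P.cons (P.cons (P.lf 20494335 0 0) (P.cons (P.lf 0 5808008 0) (P.cons (P.lf 92442 0 0) (P.lf 30814 0 0)))) (P.cons (P.cons (P.lf 654351 0 0) (P.cons (P.lf 0 1272760 0) (P.cons (P.lf 20256 0 0) (P.lf 6751 0 0)))) (P.cons (P.cons (P.lf 0 695241 0) (P.cons (P.lf 15813 0 0) (P.cons (P.lf 0 251 0) P.nil))) (P.cons (P.cons (P.lf 0 9623 0) (P.cons (P.lf 8501 0 0) P.nil)) (P.cons (P.cons (P.lf 4760 0 0) P.nil) P.nil)))))) 1736)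
 EL.nil))
noncomputable def S212_227_512_586_17 : EL := (EL.cons 4 (TM.mk (P.cons (P.cons (P.lf 0 1782673 0) (P.cons (P.lf 4316712 0 0) (P.cons (P.lf 0 2681916 0) (P.cons (P.lf 60283 0 0) (P.cons (P.lf 27065 0 0) (P.cons (P.lf 0 440 0) P.nil)))))) (P.cons (P.cons (P.lf 1775931 0 0) (P.cons (P.lf 0 2722584 0) (P.cons (P.lf 736349 0 0) (P.cons (P.lf 0 7615 0) (P.cons (P.lf 0 7177 0) P.nil))))) (P.cons (P.cons (P.lf 0 431991 0) (P.cons (P.lf 187275 0 0) (P.cons (P.lf 54410 0 0) (P.cons (P.lf 0 2820 0) P.nil)))) (P.cons (P.cons (P.lf 0 59782 0) (P.cons (P.lf 112500 0 0) (P.cons (P.lf 0 18118 0) P.nil))) (P.cons (P.cons (P.lf 27647 0 0) (P.cons (P.lf 0 9676 0) P.nil)) (P.cons (P.cons (P.lf 214 0 0) P.nil) P.nil)))))) 11491)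
 (EL.cons 8 (TM.mk (P.cons (P.cons (P.lf 0 3249445 0) (P.cons (P.lf 7868475 0 0) (P.cons (P.lf 0 4888580 0) (P.cons (P.lf 109883 0 0) (P.cons (P.lf 49336 0 0) (P.cons (P.lf 0 804 0) P.nil)))))) (P.cons (P.cons (P.lf 2534645 0 0) (P.cons (P.lf 0 3261588 0) (P.cons (P.lf 285329 0 0) (P.cons (P.lf 9873 0 0) (P.cons (P.lf 0 2417 0) P.nil))))) (P.cons (P.cons (P.lf 0 228351 0) (P.cons (P.lf 0 390660 0) (P.cons (P.lf 177571 0 0) (P.cons (P.lf 0 3382 0) P.nil)))) (P.cons (P.cons (P.lf 0 167894 0) (P.cons (P.lf 133915 0 0) (P.cons (P.lf 3044 0 0) P.nil))) (P.cons (P.cons (P.lf 15596 0 0) (P.cons (P.lf 11697 0 0) P.nil)) (P.cons (P.cons (P.lf 4257 0 0) P.nil) P.nil)))))) 10236)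
 EL.nil))
noncomputable def S212_227_512_586_18 : EL := (EL.cons 4 (TM.mk (P.cons (P.lf 86593710 0 0) (P.cons (P.lf 0 50734084 0) (P.cons (P.lf 9119656 0 0) (P.cons (P.lf 0 291978 0) (P.cons (P.lf 0 43993 0) (P.cons (P.lf 441 0 0) P.nil)))))) 153)
 (EL.cons 8 (TM.mk (P.cons (P.lf 157842459 0 0) (P.cons (P.lf 0 58353100 0) (P.cons (P.lf 3468227 0 0) (P.cons (P.lf 460355 0 0) (P.cons (P.lf 0 9599 0) (P.cons (P.lf 0 1439 0) P.nil)))))) 99)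
 EL.nil))
noncomputable def S212_227_512_586_19 : EL := (EL.cons 4 (TM.mk (P.cons (P.cons (P.lf 6551965 0 0) (P.cons (P.lf 0 7932734 0) (P.cons (P.lf 126259 0 0) (P.lf 42086 0 0)))) (P.cons (P.cons (P.lf 0 5822732 0) (P.cons (P.lf 4150323 0 0) (P.cons (P.lf 0 66057 0) (P.lf 0 22019 0)))) (P.cons (P.cons (P.lf 1465901 0 0) (P.cons (P.lf 0 508405 0) (P.cons (P.lf 8091 0 0) (P.lf 2697 0 0)))) (P.cons (P.cons (P.lf 13200 0 0) (P.cons (P.lf 0 43670 0) (P.cons (P.lf 694 0 0) P.nil))) (P.cons (P.cons (P.lf 0 45964 0) (P.cons (P.lf 7729 0 0) P.nil)) (P.cons (P.cons (P.lf 3135 0 0) P.nil) P.nil)))))) 2187)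
 (EL.cons 8 (TM.mk (P.cons (P.cons (P.lf 11942880 0 0) (P.cons (P.lf 0 14459738 0) (P.cons (P.lf 230145 0 0) (P.lf 76715 0 0)))) (P.cons (P.cons (P.lf 0 8031656 0) (P.cons (P.lf 4439069 0 0) (P.cons (P.lf 0 70653 0) (P.lf 0 23551 0)))) (P.cons (P.cons (P.lf 894823 0 0) (P.cons (P.lf 82398 0 0) (P.cons (P.lf 0 1311 0) (P.lf 0 437 0)))) (P.cons (P.cons (P.lf 248246 0 0) (P.cons (P.lf 0 80930 0) (P.cons (P.lf 1287 0 0) P.nil))) (P.cons (P.cons (P.lf 0 35459 0) (P.cons (P.lf 0 2371 0) P.nil)) (P.cons (P.cons (P.lf 0 2494 0) P.nil) P.nil)))))) 1728)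
 EL.nil))
noncomputable def S212_227_512_586_20 : EL := (EL.cons 4 (TM.mk (P.cons (P.cons (P.lf 495742 0 0) (P.cons (P.lf 0 1200433 0) (P.cons (P.lf 745813 0 0) (P.cons (P.lf 0 16763 0) (P.cons (P.lf 0 7526 0) (P.cons (P.lf 121 0 0) P.nil)))))) (P.cons (P.cons (P.lf 0 590685 0) (P.cons (P.lf 991561 0 0) (P.cons (P.lf 0 350425 0) (P.cons (P.lf 5391 0 0) (P.cons (P.lf 3465 0 0) P.nil))))) (P.cons (P.cons (P.lf 215077 0 0) (P.cons (P.lf 0 196298 0) (P.cons (P.lf 22595 0 0) (P.cons (P.lf 420 0 0) P.nil)))) (P.cons (P.cons (P.lf 0 5250 0) (P.cons (P.lf 0 23620 0) (P.cons (P.lf 8744 0 0) P.nil))) (P.cons (P.cons (P.lf 0 11383 0) (P.cons (P.lf 9084 0 0) P.nil)) (P.cons (P.cons (P.lf 1409 0 0) P.nil) P.nil)))))) 6721)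
 (EL.cons 8 (TM.mk (P.cons (P.cons (P.lf 903637 0 0) (P.cons (P.lf 0 2188142 0) (P.cons (P.lf 1359464 0 0) (P.cons (P.lf 0 30557 0) (P.cons (P.lf 0 13719 0) (P.cons (P.lf 223 0 0) P.nil)))))) (P.cons (P.cons (P.lf 0 881335 0) (P.cons (P.lf 1334348 0 0) (P.cons (P.lf 0 344844 0) (P.cons (P.lf 3221 0 0) (P.cons (P.lf 3351 0 0) P.nil))))) (P.cons (P.cons (P.lf 198415 0 0) (P.cons (P.lf 0 61855 0) (P.cons (P.lf 0 38011 0) (P.cons (P.lf 1569 0 0) P.nil)))) (P.cons (P.cons (P.lf 36583 0 0) (P.cons (P.lf 0 61589 0) (P.cons (P.lf 9273 0 0) P.nil))) (P.cons (P.cons (P.lf 0 13766 0) (P.cons (P.lf 3836 0 0) P.nil)) (P.cons (P.cons (P.lf 0 470 0) P.nil) P.nil)))))) 6672)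
 EL.nil))
noncomputable def S212_227_512_586_21 : EL := (EL.cons 4 (TM.mk (P.cons (P.cons (P.lf 1227587304 0 0) (P.cons (P.lf 307732980 0 0) (P.cons (P.lf 0 4897971 0) (P.lf 0 1632654 0)))) (P.cons (P.cons (P.lf 491479515 0 0) (P.cons (P.lf 0 40804968 0) (P.cons (P.lf 649464 0 0) (P.lf 216489 0 0)))) (P.cons (P.cons (P.lf 0 29223450 0) (P.cons (P.lf 0 6084570 0) (P.cons (P.lf 96840 0 0) (P.lf 32274 0 0)))) (P.cons (P.cons (P.lf 0 5327172 0) (P.cons (P.lf 154608 0 0) (P.cons (P.lf 0 2460 0) P.nil))) (P.cons (P.cons (P.lf 76992 0 0) (P.cons (P.lf 33126 0 0) P.nil)) (P.cons (P.cons (P.lf 22845 0 0) P.nil) P.nil)))))) 6738)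
 (EL.cons 8 (TM.mk (P.cons (P.cons (P.lf 0 239454147 0) (P.cons (P.lf 0 60026646 0) (P.cons (P.lf 955410 0 0) (P.lf 318474 0 0)))) (P.cons (P.cons (P.lf 0 44099727 0) (P.cons (P.lf 20936868 0 0) (P.cons (P.lf 0 333234 0) (P.lf 0 111072 0)))) (P.cons (P.cons (P.lf 25608255 0 0) (P.cons (P.lf 0 739059 0) (P.cons (P.lf 11757 0 0) (P.lf 3918 0 0)))) (P.cons (P.cons (P.lf 0 455115 0) (P.cons (P.lf 0 243060 0) (P.cons (P.lf 3864 0 0) P.nil))) (P.cons (P.cons (P.lf 0 195465 0) (P.cons (P.lf 1521 0 0) P.nil)) (P.cons (P.cons (P.lf 210 0 0) P.nil) P.nil)))))) 6168)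
 (EL.cons 11 (TM.mk (P.cons (P.cons (P.lf 2856770559 0 0) (P.cons (P.lf 0 105896589 0) (P.cons (P.lf 0 52472139 0) (P.cons (P.lf 476151 0 0) (P.lf 119037 0 0))))) (P.cons (P.cons (P.lf 119407071 0 0) (P.cons (P.lf 0 4426257 0) (P.cons (P.lf 0 2193225 0) (P.cons (P.lf 19902 0 0) (P.lf 4974 0 0))))) (P.cons (P.cons (P.lf 0 9804069 0) (P.cons (P.lf 363423 0 0) (P.cons (P.lf 180075 0 0) (P.cons (P.lf 0 1632 0) P.nil)))) (P.cons (P.cons (P.lf 0 468453 0) (P.cons (P.lf 17364 0 0) (P.cons (P.lf 8604 0 0) P.nil))) (P.cons (P.cons (P.lf 14865 0 0) (P.cons (P.lf 0 549 0) P.nil)) (P.cons (P.cons (P.lf 987 0 0) P.nil) P.nil)))))) 1158)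
 EL.nil)))
noncomputable def S212_227_512_586_22 : EL := (EL.cons 4 (TM.mk (P.cons (P.cons (P.lf 92883300 0 0) (P.cons (P.lf 0 89173548 0) (P.cons (P.lf 0 26771694 0) (P.cons (P.lf 1370496 0 0) (P.cons (P.lf 291987 0 0) (P.cons (P.lf 0 4761 0) P.nil)))))) (P.cons (P.cons (P.lf 9060615 0 0) (P.cons (P.lf 0 62212707 0) (P.cons (P.lf 2960796 0 0) (P.cons (P.lf 267333 0 0) (P.cons (P.lf 0 20409 0) P.nil))))) (P.cons (P.cons (P.lf 0 18951540 0) (P.cons (P.lf 0 539604 0) (P.cons (P.lf 927006 0 0) (P.cons (P.lf 0 26370 0) P.nil)))) (P.cons (P.cons (P.lf 0 1675353 0) (P.cons (P.lf 1294833 0 0) (P.cons (P.lf 0 6522 0) P.nil))) (P.cons (P.cons (P.lf 384693 0 0) (P.cons (P.lf 50841 0 0) P.nil)) (P.cons (P.cons (P.lf 27540 0 0) P.nil) P.nil)))))) 48759)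
 (EL.cons 8 (TM.mk (P.cons (P.cons (P.lf 0 18117888 0) (P.cons (P.lf 17394261 0 0) (P.cons (P.lf 5222109 0 0) (P.cons (P.lf 0 267330 0) (P.cons (P.lf 0 56955 0) (P.cons (P.lf 927 0 0) P.nil)))))) (P.cons (P.cons (P.lf 2149614 0 0) (P.cons (P.lf 8374716 0 0) (P.cons (P.lf 0 1706523 0) (P.cons (P.lf 5646 0 0) (P.cons (P.lf 16293 0 0) P.nil))))) (P.cons (P.cons (P.lf 4016880 0 0) (P.cons (P.lf 0 2458875 0) (P.cons (P.lf 0 38115 0) (P.cons (P.lf 15504 0 0) P.nil)))) (P.cons (P.cons (P.lf 0 473472 0) (P.cons (P.lf 0 238632 0) (P.cons (P.lf 36954 0 0) P.nil))) (P.cons (P.cons (P.lf 0 132693 0) (P.cons (P.lf 41829 0 0) P.nil)) (P.cons (P.cons (P.lf 10944 0 0) P.nil) P.nil)))))) 17235)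
 (EL.cons 11 (TM.mk (P.cons (P.cons (P.lf 216152673 0 0) (P.cons (P.lf 0 269717439 0) (P.cons (P.lf 9896208 0 0) (P.cons (P.lf 6076983 0 0) (P.cons (P.lf 0 162588 0) (P.cons (P.lf 0 35712 0) P.nil)))))) (P.cons (P.cons (P.lf 0 56419272 0) (P.cons (P.lf 0 25255419 0) (P.cons (P.lf 2485254 0 0) (P.cons (P.lf 621840 0 0) (P.cons (P.lf 0 20280 0) P.nil))))) (P.cons (P.cons (P.lf 0 16229634 0) (P.cons (P.lf 1989675 0 0) (P.cons (P.lf 224553 0 0) (P.cons (P.lf 0 34743 0) P.nil)))) (P.cons (P.cons (P.lf 242637 0 0) (P.cons (P.lf 233091 0 0) (P.cons (P.lf 0 17280 0) P.nil))) (P.cons (P.cons (P.lf 139410 0 0) (P.cons (P.lf 0 6120 0) P.nil)) (P.cons (P.cons (P.lf 1353 0 0) P.nil) P.nil)))))) 20070)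
 EL.nil)))
noncomputable def S212_227_512_586_23 : EL := (EL.cons 4 (TM.mk (P.cons (P.cons (P.lf 0 341379513 0) (P.cons (P.lf 0 85577403 0) (P.cons (P.lf 1362075 0 0) (P.lf 454023 0 0)))) (P.cons (P.cons (P.lf 0 70005558 0) (P.cons (P.lf 28060326 0 0) (P.cons (P.lf 0 446616 0) (P.lf 0 148872 0)))) (P.cons (P.cons (P.lf 35854986 0 0) (P.cons (P.lf 0 264303 0) (P.cons (P.lf 4206 0 0) (P.lf 1404 0 0)))) (P.cons (P.cons (P.lf 249945 0 0) (P.cons (P.lf 0 422727 0) (P.cons (P.lf 6726 0 0) P.nil))) (P.cons (P.cons (P.lf 0 360783 0) (P.cons (P.lf 0 4404 0) P.nil)) (P.cons (P.cons (P.lf 0 5889 0) P.nil) P.nil)))))) 8634)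
 (EL.cons 8 (TM.mk (P.cons (P.cons (P.lf 66589755 0 0) (P.cons (P.lf 16692798 0 0) (P.cons (P.lf 0 265689 0) (P.lf 0 88563 0)))) (P.cons (P.cons (P.lf 0 740994 0) (P.cons (P.lf 0 9082356 0) (P.cons (P.lf 144555 0 0) (P.lf 48183 0 0)))) (P.cons (P.cons (P.lf 0 9718548 0) (P.cons (P.lf 1291932 0 0) (P.cons (P.lf 0 20559 0) (P.lf 0 6852 0)))) (P.cons (P.cons (P.lf 1491663 0 0) (P.cons (P.lf 48021 0 0) (P.cons (P.lf 0 762 0) P.nil))) (P.cons (P.cons (P.lf 53709 0 0) (P.cons (P.lf 0 15174 0) P.nil)) (P.cons (P.cons (P.lf 0 12240 0) P.nil) P.nil)))))) 3306)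
 (EL.cons 11 (TM.mk (P.cons (P.cons (P.lf 0 794438769 0) (P.cons (P.lf 29448759 0 0) (P.cons (P.lf 14591964 0 0) (P.cons (P.lf 0 132411 0) (P.lf 0 33102 0))))) (P.cons (P.cons (P.lf 121944426 0 0) (P.cons (P.lf 0 4520313 0) (P.cons (P.lf 0 2239830 0) (P.cons (P.lf 20325 0 0) (P.lf 5079 0 0))))) (P.cons (P.cons (P.lf 11622630 0 0) (P.cons (P.lf 0 430833 0) (P.cons (P.lf 0 213477 0) (P.cons (P.lf 1935 0 0) P.nil)))) (P.cons (P.cons (P.lf 0 439173 0) (P.cons (P.lf 16278 0 0) (P.cons (P.lf 8064 0 0) P.nil))) (P.cons (P.cons (P.lf 0 47532 0) (P.cons (P.lf 1761 0 0) P.nil)) (P.cons (P.cons (P.lf 549 0 0) P.nil) P.nil)))))) 1998)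
 EL.nil)))
noncomputable def S212_227_512_586_24 : EL := (EL.cons 4 (TM.mk (P.cons (P.cons (P.lf 0 25829898 0) (P.cons (P.lf 24798255 0 0) (P.cons (P.lf 7444935 0 0) (P.cons (P.lf 0 381120 0) (P.cons (P.lf 0 81198 0) (P.cons (P.lf 1323 0 0) P.nil)))))) (P.cons (P.cons (P.lf 2524797 0 0) (P.cons (P.lf 12457731 0 0) (P.cons (P.lf 0 2277327 0) (P.cons (P.lf 87 0 0) (P.cons (P.lf 21531 0 0) P.nil))))) (P.cons (P.cons (P.lf 5840706 0 0) (P.cons (P.lf 0 3303960 0) (P.cons (P.lf 0 119586 0) (P.cons (P.lf 23007 0 0) P.nil)))) (P.cons (P.cons (P.lf 0 560184 0) (P.cons (P.lf 0 437595 0) (P.cons (P.lf 55947 0 0) P.nil))) (P.cons (P.cons (P.lf 0 214527 0) (P.cons (P.lf 58848 0 0) P.nil)) (P.cons (P.cons (P.lf 12723 0 0) P.nil) P.nil)))))) 31989)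
 (EL.cons 8 (TM.mk (P.cons (P.cons (P.lf 5038398 0 0) (P.cons (P.lf 0 4837167 0) (P.cons (P.lf 0 1452213 0) (P.cons (P.lf 74340 0 0) (P.cons (P.lf 15837 0 0) (P.cons (P.lf 0 258 0) P.nil)))))) (P.cons (P.cons (P.lf 0 1581762 0) (P.cons (P.lf 0 1384245 0) (P.cons (P.lf 758178 0 0) (P.cons (P.lf 0 16089 0) (P.cons (P.lf 0 7623 0) P.nil))))) (P.cons (P.cons (P.lf 0 1015599 0) (P.cons (P.lf 1153296 0 0) (P.cons (P.lf 0 77670 0) (P.cons (P.lf 0 4230 0) P.nil)))) (P.cons (P.cons (P.lf 352512 0 0) (P.cons (P.lf 0 60948 0) (P.cons (P.lf 0 14037 0) P.nil))) (P.cons (P.cons (P.lf 14496 0 0) (P.cons (P.lf 0 27093 0) P.nil)) (P.cons (P.cons (P.lf 0 10845 0) P.nil) P.nil)))))) 8826)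
 (EL.cons 11 (TM.mk (P.cons (P.cons (P.lf 0 60109854 0) (P.cons (P.lf 75005670 0 0) (P.cons (P.lf 0 2752032 0) (P.cons (P.lf 0 1689945 0) (P.cons (P.lf 45213 0 0) (P.cons (P.lf 9930 0 0) P.nil)))))) (P.cons (P.cons (P.lf 27428808 0 0) (P.cons (P.lf 0 7624995 0) (P.cons (P.lf 0 153663 0) (P.cons (P.lf 157110 0 0) (P.cons (P.lf 0 3189 0) P.nil))))) (P.cons (P.cons (P.lf 1631625 0 0) (P.cons (P.lf 0 2152575 0) (P.cons (P.lf 80877 0 0) (P.cons (P.lf 48561 0 0) P.nil)))) (P.cons (P.cons (P.lf 0 1006944 0) (P.cons (P.lf 34926 0 0) (P.cons (P.lf 18621 0 0) P.nil))) (P.cons (P.cons (P.lf 0 36864 0) (P.cons (P.lf 17628 0 0) P.nil)) (P.cons (P.cons (P.lf 8265 0 0) P.nil) P.nil)))))) 12810)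
 EL.nil)))
noncomputable def S212_227_512_586_25 : EL := (EL.cons 4 (TM.mk (P.cons (P.cons (P.lf 94934163 0 0) (P.cons (P.lf 23798202 0 0) (P.cons (P.lf 0 378777 0) (P.lf 0 126258 0)))) (P.cons (P.cons (P.lf 927618 0 0) (P.cons (P.lf 0 12450972 0) (P.cons (P.lf 198171 0 0) (P.lf 66057 0 0)))) (P.cons (P.cons (P.lf 0 14061027 0) (P.cons (P.lf 1525215 0 0) (P.cons (P.lf 0 24276 0) (P.lf 0 8091 0)))) (P.cons (P.cons (P.lf 1835139 0 0) (P.cons (P.lf 131013 0 0) (P.cons (P.lf 0 2085 0) P.nil))) (P.cons (P.cons (P.lf 148011 0 0) (P.cons (P.lf 0 23190 0) P.nil)) (P.cons (P.cons (P.lf 0 19389 0) P.nil) P.nil)))))) 7407)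
 (EL.cons 8 (TM.mk (P.cons (P.cons (P.lf 0 18517932 0) (P.cons (P.lf 0 4642095 0) (P.cons (P.lf 73884 0 0) (P.lf 24627 0 0)))) (P.cons (P.cons (P.lf 3822531 0 0) (P.cons (P.lf 3432291 0 0) (P.cons (P.lf 0 54627 0) (P.lf 0 18207 0)))) (P.cons (P.cons (P.lf 2718591 0 0) (P.cons (P.lf 0 838443 0) (P.cons (P.lf 13344 0 0) (P.lf 4446 0 0)))) (P.cons (P.cons (P.lf 0 946464 0) (P.cons (P.lf 48339 0 0) (P.cons (P.lf 0 768 0) P.nil))) (P.cons (P.cons (P.lf 57816 0 0) (P.cons (P.lf 8331 0 0) P.nil)) (P.cons (P.cons (P.lf 8052 0 0) P.nil) P.nil)))))) 2958)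
 (EL.cons 11 (TM.mk (P.cons (P.cons (P.lf 220925322 0 0) (P.cons (P.lf 0 8189400 0) (P.cons (P.lf 0 4057875 0) (P.cons (P.lf 36822 0 0) (P.lf 9204 0 0))))) (P.cons (P.cons (P.lf 0 77057223 0) (P.cons (P.lf 2856405 0 0) (P.cons (P.lf 1415358 0 0) (P.cons (P.lf 0 12843 0) (P.lf 0 3210 0))))) (P.cons (P.cons (P.lf 2720079 0 0) (P.cons (P.lf 0 100827 0) (P.cons (P.lf 0 49959 0) (P.cons (P.lf 453 0 0) P.nil)))) (P.cons (P.cons (P.lf 894591 0 0) (P.cons (P.lf 0 33159 0) (P.cons (P.lf 0 16431 0) P.nil))) (P.cons (P.cons (P.lf 0 5610 0) (P.cons (P.lf 207 0 0) P.nil)) (P.cons (P.cons (P.lf 0 3861 0) P.nil) P.nil)))))) 2463)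
 EL.nil)))
noncomputable def S212_227_512_586_26 : EL := (EL.cons 4 (TM.mk (P.cons (P.cons (P.lf 7183029 0 0) (P.cons (P.lf 0 6896142 0) (P.cons (P.lf 0 2070360 0) (P.cons (P.lf 105984 0 0) (P.cons (P.lf 22578 0 0) (P.cons (P.lf 0 366 0) P.nil)))))) (P.cons (P.cons (P.lf 0 2104932 0) (P.cons (P.lf 0 2117583 0) (P.cons (P.lf 1037634 0 0) (P.cons (P.lf 0 20721 0) (P.cons (P.lf 0 10398 0) P.nil))))) (P.cons (P.cons (P.lf 0 1508922 0) (P.cons (P.lf 1616304 0 0) (P.cons (P.lf 0 84138 0) (P.cons (P.lf 0 6714 0) P.nil)))) (P.cons (P.cons (P.lf 476364 0 0) (P.cons (P.lf 0 48426 0) (P.cons (P.lf 0 24333 0) P.nil))) (P.cons (P.cons (P.lf 34077 0 0) (P.cons (P.lf 0 43554 0) P.nil)) (P.cons (P.cons (P.lf 0 15948 0) P.nil) P.nil)))))) 14688)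
 (EL.cons 8 (TM.mk (P.cons (P.cons (P.lf 0 1401126 0) (P.cons (P.lf 1345164 0 0) (P.cons (P.lf 403845 0 0) (P.cons (P.lf 0 20673 0) (P.cons (P.lf 0 4404 0) (P.cons (P.lf 69 0 0) P.nil)))))) (P.cons (P.cons (P.lf 713505 0 0) (P.cons (P.lf 122238 0 0) (P.cons (P.lf 0 289710 0) (P.cons (P.lf 8511 0 0) (P.cons (P.lf 2979 0 0) P.nil))))) (P.cons (P.cons (P.lf 200775 0 0) (P.cons (P.lf 0 399981 0) (P.cons (P.lf 61548 0 0) (P.cons (P.lf 363 0 0) P.nil)))) (P.cons (P.cons (P.lf 0 154764 0) (P.cons (P.lf 78648 0 0) (P.cons (P.lf 393 0 0) P.nil))) (P.cons (P.cons (P.lf 14325 0 0) (P.cons (P.lf 5271 0 0) P.nil)) (P.cons (P.cons (P.lf 4152 0 0) P.nil) P.nil)))))) 6288)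
 (EL.cons 11 (TM.mk (P.cons (P.cons (P.lf 16715937 0 0) (P.cons (P.lf 0 20858310 0) (P.cons (P.lf 765312 0 0) (P.cons (P.lf 469956 0 0) (P.cons (P.lf 0 12573 0) (P.cons (P.lf 0 2760 0) P.nil)))))) (P.cons (P.cons (P.lf 0 10892217 0) (P.cons (P.lf 6193965 0 0) (P.cons (P.lf 0 106728 0) (P.cons (P.lf 0 135471 0) (P.cons (P.lf 3342 0 0) P.nil))))) (P.cons (P.cons (P.lf 985173 0 0) (P.cons (P.lf 247806 0 0) (P.cons (P.lf 0 33159 0) (P.cons (P.lf 0 6399 0) P.nil)))) (P.cons (P.cons (P.lf 394683 0 0) (P.cons (P.lf 0 136671 0) (P.cons (P.lf 0 783 0) P.nil))) (P.cons (P.cons (P.lf 0 44295 0) (P.cons (P.lf 0 4557 0) P.nil)) (P.cons (P.cons (P.lf 0 5268 0) P.nil) P.nil)))))) 9321)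
 EL.nil)))
noncomputable def S212_227_512_586_27 : EL := (EL.cons 13 (TM.mk (P.lf 0 4294967296 0) 0)
 EL.nil)
noncomputable def S212_227_512_586_28 : EL := (EL.cons 13 (TM.mk (P.cons (P.cons (P.lf 0 324971377 0) (P.cons (P.lf 393456248 0 0) (P.cons (P.lf 0 6262372 0) (P.lf 0 2087456 0)))) (P.cons (P.cons (P.lf 98405810 0 0) (P.cons (P.lf 24668476 0 0) (P.cons (P.lf 0 392628 0) (P.lf 0 130872 0)))) (P.cons (P.cons (P.lf 19171774 0 0) (P.cons (P.lf 0 1767664 0) (P.cons (P.lf 28132 0 0) (P.lf 9376 0 0)))) (P.cons (P.cons (P.lf 0 881704 0) (P.cons (P.lf 0 140900 0) (P.cons (P.lf 2240 0 0) P.nil))) (P.cons (P.cons (P.lf 0 89119 0) (P.cons (P.lf 3256 0 0) P.nil)) (P.cons (P.cons (P.lf 1408 0 0) P.nil) P.nil)))))) 1941)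
 EL.nil)
noncomputable def S212_227_512_586_29 : EL := (EL.cons 13 (TM.mk (P.cons (P.cons (P.lf 0 24588405 0) (P.cons (P.lf 59540392 0 0) (P.cons (P.lf 0 36991667 0) (P.cons (P.lf 831487 0 0) (P.cons (P.lf 373327 0 0) (P.cons (P.lf 0 6087 0) P.nil)))))) (P.cons (P.cons (P.lf 14891415 0 0) (P.cons (P.lf 0 14296654 0) (P.cons (P.lf 0 4292142 0) (P.cons (P.lf 219723 0 0) (P.cons (P.lf 46811 0 0) P.nil))))) (P.cons (P.cons (P.lf 646536 0 0) (P.cons (P.lf 0 4910498 0) (P.cons (P.lf 260337 0 0) (P.cons (P.lf 20252 0 0) P.nil)))) (P.cons (P.cons (P.lf 0 1011948 0) (P.cons (P.lf 993 0 0) (P.cons (P.lf 46104 0 0) P.nil))) (P.cons (P.cons (P.lf 0 58661 0) (P.cons (P.lf 49186 0 0) P.nil)) (P.cons (P.cons (P.lf 12168 0 0) P.nil) P.nil)))))) 21127)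
 EL.nil)
noncomputable def S212_227_512_586_30 : EL := (EL.cons 13 (TM.mk (P.cons (P.lf 1194386624 0 0) (P.cons (P.lf 0 233258332 0) (P.cons (P.lf 0 3625172 0) (P.cons (P.lf 207136 0 0) (P.cons (P.lf 5900 0 0) (P.cons (P.lf 0 156 0) P.nil)))))) 48)
 EL.nil)
noncomputable def S212_227_512_586_31 : EL := (EL.cons 13 (TM.mk (P.cons (P.cons (P.lf 90371227 0 0) (P.cons (P.lf 0 109416171 0) (P.cons (P.lf 1741501 0 0) (P.lf 580500 0 0)))) (P.cons (P.cons (P.lf 0 45014746 0) (P.cons (P.lf 14508434 0 0) (P.cons (P.lf 0 230921 0) (P.lf 0 76974 0)))) (P.cons (P.cons (P.lf 0 261378 0) (P.cons (P.lf 2163403 0 0) (P.cons (P.lf 0 34432 0) (P.lf 0 11476 0)))) (P.cons (P.cons (P.lf 1385138 0 0) (P.cons (P.lf 0 54972 0) (P.cons (P.lf 875 0 0) P.nil))) (P.cons (P.cons (P.lf 0 11219 0) (P.cons (P.lf 0 11779 0) P.nil)) (P.cons (P.cons (P.lf 0 7047 0) P.nil) P.nil)))))) 2265)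
 EL.nil)
noncomputable def S212_227_512_586_32 : EL := (EL.cons 13 (TM.mk (P.cons (P.cons (P.lf 6837784 0 0) (P.cons (P.lf 0 16557576 0) (P.cons (P.lf 10287005 0 0) (P.cons (P.lf 0 231228 0) (P.cons (P.lf 0 103818 0) (P.cons (P.lf 1692 0 0) P.nil)))))) (P.cons (P.cons (P.lf 0 5476539 0) (P.cons (P.lf 7209373 0 0) (P.cons (P.lf 0 815404 0) (P.cons (P.lf 0 15944 0) (P.cons (P.lf 7257 0 0) P.nil))))) (P.cons (P.cons (P.lf 608199 0 0) (P.cons (P.lf 639367 0 0) (P.cons (P.lf 0 336724 0) (P.cons (P.lf 7003 0 0) P.nil)))) (P.cons (P.cons (P.lf 330280 0 0) (P.cons (P.lf 0 281902 0) (P.cons (P.lf 0 520 0) P.nil))) (P.cons (P.cons (P.lf 0 38784 0) (P.cons (P.lf 0 17161 0) P.nil)) (P.cons (P.cons (P.lf 0 7476 0) P.nil) P.nil)))))) 18475)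
 EL.nil)
noncomputable def S212_227_512_586_33 : EL := (EL.cons 14 (TM.mk (P.lf 8589934592 0 0) 0)
 EL.nil)
noncomputable def S212_227_512_586_34 : EL := (EL.cons 14 (TM.mk (P.cons (P.cons (P.lf 649942754 0 0) (P.cons (P.lf 0 786912496 0) (P.cons (P.lf 12524744 0 0) (P.lf 4174912 0 0)))) (P.cons (P.cons (P.lf 0 196811620 0) (P.cons (P.lf 0 49336952 0) (P.cons (P.lf 785256 0 0) (P.lf 261744 0 0)))) (P.cons (P.cons (P.lf 0 38343548 0) (P.cons (P.lf 3535328 0 0) (P.cons (P.lf 0 56264 0) (P.lf 0 18752 0)))) (P.cons (P.cons (P.lf 1763408 0 0) (P.cons (P.lf 281800 0 0) (P.cons (P.lf 0 4480 0) P.nil))) (P.cons (P.cons (P.lf 178238 0 0) (P.cons (P.lf 0 6512 0) P.nil)) (P.cons (P.cons (P.lf 0 2816 0) P.nil) P.nil)))))) 3882)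
 EL.nil)
noncomputable def S212_227_512_586_35 : EL := (EL.cons 14 (TM.mk (P.cons (P.cons (P.lf 49176810 0 0) (P.cons (P.lf 0 119080784 0) (P.cons (P.lf 73983334 0 0) (P.cons (P.lf 0 1662974 0) (P.cons (P.lf 0 746654 0) (P.cons (P.lf 12174 0 0) P.nil)))))) (P.cons (P.cons (P.lf 0 29782830 0) (P.cons (P.lf 28593308 0 0) (P.cons (P.lf 8584284 0 0) (P.cons (P.lf 0 439446 0) (P.cons (P.lf 0 93622 0) P.nil))))) (P.cons (P.cons (P.lf 0 1293072 0) (P.cons (P.lf 9820996 0 0) (P.cons (P.lf 0 520674 0) (P.cons (P.lf 0 40504 0) P.nil)))) (P.cons (P.cons (P.lf 2023896 0 0) (P.cons (P.lf 0 1986 0) (P.cons (P.lf 0 92208 0) P.nil))) (P.cons (P.cons (P.lf 117322 0 0) (P.cons (P.lf 0 98372 0) P.nil)) (P.cons (P.cons (P.lf 0 24336 0) P.nil) P.nil)))))) 42254)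
 EL.nil)
noncomputable def S212_227_512_586_36 : EL := (EL.cons 14 (TM.mk (P.cons (P.lf 0 2388773248 0) (P.cons (P.lf 466516664 0 0) (P.cons (P.lf 7250344 0 0) (P.cons (P.lf 0 414272 0) (P.cons (P.lf 0 11800 0) (P.cons (P.lf 312 0 0) P.nil)))))) 96)
 EL.nil)
noncomputable def S212_227_512_586_37 : EL := (EL.cons 14 (TM.mk (P.cons (P.cons (P.lf 0 180742454 0) (P.cons (P.lf 218832342 0 0) (P.cons (P.lf 0 3483002 0) (P.lf 0 1161000 0)))) (P.cons (P.cons (P.lf 90029492 0 0) (P.cons (P.lf 0 29016868 0) (P.cons (P.lf 461842 0 0) (P.lf 153948 0 0)))) (P.cons (P.cons (P.lf 522756 0 0) (P.cons (P.lf 0 4326806 0) (P.cons (P.lf 68864 0 0) (P.lf 22952 0 0)))) (P.cons (P.cons (P.lf 0 2770276 0) (P.cons (P.lf 109944 0 0) (P.cons (P.lf 0 1750 0) P.nil))) (P.cons (P.cons (P.lf 22438 0 0) (P.cons (P.lf 23558 0 0) P.nil)) (P.cons (P.cons (P.lf 14094 0 0) P.nil) P.nil))))))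 4530)
 EL.nil)
noncomputable def S212_227_512_586_38 : EL := (EL.cons 14 (TM.mk (P.cons (P.cons (P.lf 0 13675568 0) (P.cons (P.lf 33115152 0 0) (P.cons (P.lf 0 20574010 0) (P.cons (P.lf 462456 0 0) (P.cons (P.lf 207636 0 0) (P.cons (P.lf 0 3384 0) P.nil)))))) (P.cons (P.cons (P.lf 10953078 0 0) (P.cons (P.lf 0 14418746 0) (P.cons (P.lf 1630808 0 0) (P.cons (P.lf 31888 0 0) (P.cons (P.lf 0 14514 0) P.nil))))) (P.cons (P.cons (P.lf 0 1216398 0) (P.cons (P.lf 0 1278734 0) (P.cons (P.lf 673448 0 0) (P.cons (P.lf 0 14006 0) P.nil)))) (P.cons (P.cons (P.lf 0 660560 0) (P.cons (P.lf 563804 0 0) (P.cons (P.lf 1040 0 0) P.nil))) (P.cons (P.cons (P.lf 77568 0 0) (P.cons (P.lf 34322 0 0) P.nil)) (P.cons (P.cons (P.lf 14952 0 0) P.nil) P.nil)))))) 36950)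
 EL.nil)
noncomputable def S212_227_512_586_39 : EL := (EL.cons 14 (TM.mk (P.cons (P.lf 664293490 0 0) (P.cons (P.lf 0 259467056 0) (P.cons (P.lf 21303880 0 0) (P.cons (P.lf 1017936 0 0) (P.cons (P.lf 0 32314 0) (P.cons (P.lf 0 2154 0) P.nil)))))) 152)
 EL.nil)
noncomputable def S212_227_512_586_40 : EL := (EL.cons 14 (TM.mk (P.cons (P.cons (P.lf 50262634 0 0) (P.cons (P.lf 0 60855044 0) (P.cons (P.lf 968586 0 0) (P.lf 322862 0 0)))) (P.cons (P.cons (P.lf 0 34852350 0) (P.cons (P.lf 19954010 0 0) (P.cons (P.lf 0 317594 0) (P.lf 0 105864 0)))) (P.cons (P.cons (P.lf 4591544 0 0) (P.cons (P.lf 0 187950 0) (P.cons (P.lf 2992 0 0) (P.lf 996 0 0)))) (P.cons (P.cons (P.lf 883482 0 0) (P.cons (P.lf 0 300606 0) (P.cons (P.lf 4784 0 0) P.nil))) (P.cons (P.cons (P.lf 0 160344 0) (P.cons (P.lf 0 3134 0) P.nil)) (P.cons (P.cons (P.lf 0 5194 0) P.nil) P.nil)))))) 5494)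
 EL.nil)
noncomputable def S212_227_512_586_41 : EL := (EL.cons 14 (TM.mk (P.cons (P.cons (P.lf 3803036 0 0) (P.cons (P.lf 0 9208986 0) (P.cons (P.lf 5721422 0 0) (P.cons (P.lf 0 128604 0) (P.cons (P.lf 0 57740 0) (P.cons (P.lf 940 0 0) P.nil)))))) (P.cons (P.cons (P.lf 0 3788654 0) (P.cons (P.lf 5808180 0 0) (P.cons (P.lf 0 1570878 0) (P.cons (P.lf 16246 0 0) (P.cons (P.lf 15312 0 0) P.nil))))) (P.cons (P.cons (P.lf 921582 0 0) (P.cons (P.lf 0 399522 0) (P.cons (P.lf 0 116076 0) (P.cons (P.lf 6016 0 0) P.nil)))) (P.cons (P.cons (P.lf 127536 0 0) (P.cons (P.lf 0 240002 0) (P.cons (P.lf 38652 0 0) P.nil))) (P.cons (P.cons (P.lf 0 58982 0) (P.cons (P.lf 20644 0 0) P.nil)) (P.cons (P.cons (P.lf 0 458 0) P.nil) P.nil)))))) 24468)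
 EL.nil)
noncomputable def S212_227_512_586_42 : EL := (EL.cons 14 (TM.mk (P.cons (P.lf 0 184733248 0) (P.cons (P.lf 108232714 0 0) (P.cons (P.lf 0 19455268 0) (P.cons (P.lf 622888 0 0) (P.cons (P.lf 93852 0 0) (P.cons (P.lf 0 942 0) P.nil)))))) 312)
 EL.nil)
noncomputable def S212_227_512_586_43 : EL := (EL.cons 14 (TM.mk (P.cons (P.cons (P.lf 0 13977526 0) (P.cons (P.lf 16923166 0 0) (P.cons (P.lf 0 269354 0) (P.lf 0 89784 0)))) (P.cons (P.cons (P.lf 12421830 0 0) (P.cons (P.lf 0 8854024 0) (P.cons (P.lf 140922 0 0) (P.lf 46974 0 0)))) (P.cons (P.cons (P.lf 0 3127256 0) (P.cons (P.lf 1084598 0 0) (P.cons (P.lf 0 17262 0) (P.lf 0 5754 0)))) (P.cons (P.cons (P.lf 0 28162 0) (P.cons (P.lf 93164 0 0) (P.cons (P.lf 0 1482 0) P.nil))) (P.cons (P.cons (P.lf 98058 0 0) (P.cons (P.lf 0 16490 0) P.nil)) (P.cons (P.cons (P.lf 0 6688 0) P.nil) P.nil)))))) 4626)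
 EL.nil)
noncomputable def S212_227_512_586_44 : EL := (EL.cons 14 (TM.mk (P.cons (P.cons (P.lf 0 1057584 0) (P.cons (P.lf 2560924 0 0) (P.cons (P.lf 0 1591068 0) (P.cons (P.lf 35762 0 0) (P.cons (P.lf 16056 0 0) (P.cons (P.lf 0 260 0) P.nil)))))) (P.cons (P.cons (P.lf 1260128 0 0) (P.cons (P.lf 0 2115332 0) (P.cons (P.lf 747574 0 0) (P.cons (P.lf 0 11502 0) (P.cons (P.lf 0 7394 0) P.nil))))) (P.cons (P.cons (P.lf 0 458832 0) (P.cons (P.lf 418770 0 0) (P.cons (P.lf 0 48204 0) (P.cons (P.lf 0 898 0) P.nil)))) (P.cons (P.cons (P.lf 11202 0 0) (P.cons (P.lf 50390 0 0) (P.cons (P.lf 0 18654 0) P.nil))) (P.cons (P.cons (P.lf 24284 0 0) (P.cons (P.lf 0 19380 0) P.nil)) (P.cons (P.cons (P.lf 0 3006 0) P.nil) P.nil)))))) 14292)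
 EL.nil)
noncomputable def S212_227_512_586_45 : EL := (EL.cons 14 (TM.mk (P.cons (P.cons (P.lf 3720878 0 0) (P.cons (P.lf 0 13515066 0) (P.cons (P.lf 16578358 0 0) (P.cons (P.lf 0 7053068 0) (P.cons (P.lf 145844 0 0) (P.cons (P.lf 102854 0 0) P.nil)))))) (P.cons (P.cons (P.lf 0 3380200 0) (P.cons (P.lf 7337744 0 0) (P.cons (P.lf 0 3019956 0) (P.cons (P.lf 0 1188642 0) (P.cons (P.lf 89380 0 0) P.nil))))) (P.cons (P.cons (P.lf 365028 0 0) (P.cons (P.lf 929268 0 0) (P.cons (P.lf 0 1684178 0) (P.cons (P.lf 59340 0 0) P.nil)))) (P.cons (P.cons (P.lf 325800 0 0) (P.cons (P.lf 0 565870 0) (P.cons (P.lf 0 63538 0) P.nil))) (P.cons (P.cons (P.lf 0 36814 0) (P.cons (P.lf 0 71756 0) P.nil)) (P.cons (P.cons (P.lf 0 14462 0) P.nil) P.nil)))))) 117310)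
 EL.nil)
noncomputable def S212_227_512_586_46 : EL := (EL.cons 15 (TM.mk (P.lf 4294967296 0 0) 0)
 EL.nil)
noncomputable def S212_227_512_586_47 : EL := (EL.cons 15 (TM.mk (P.cons (P.cons (P.lf 324971377 0 0) (P.cons (P.lf 0 393456248 0) (P.cons (P.lf 6262372 0 0) (P.lf 2087456 0 0)))) (P.cons (P.cons (P.lf 0 98405810 0) (P.cons (P.lf 0 24668476 0) (P.cons (P.lf 392628 0 0) (P.lf 130872 0 0)))) (P.cons (P.cons (P.lf 0 19171774 0) (P.cons (P.lf 1767664 0 0) (P.cons (P.lf 0 28132 0) (P.lf 0 9376 0)))) (P.cons (P.cons (P.lf 881704 0 0) (P.cons (P.lf 140900 0 0) (P.cons (P.lf 0 2240 0) P.nil))) (P.cons (P.cons (P.lf 89119 0 0) (P.cons (P.lf 0 3256 0) P.nil)) (P.cons (P.cons (P.lf 0 1408 0) P.nil) P.nil)))))) 1941)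
 EL.nil)
noncomputable def S212_227_512_586_48 : EL := (EL.cons 15 (TM.mk (P.cons (P.cons (P.lf 24588405 0 0) (P.cons (P.lf 0 59540392 0) (P.cons (P.lf 36991667 0 0) (P.cons (P.lf 0 831487 0) (P.cons (P.lf 0 373327 0) (P.cons (P.lf 6087 0 0) P.nil)))))) (P.cons (P.cons (P.lf 0 14891415 0) (P.cons (P.lf 14296654 0 0) (P.cons (P.lf 4292142 0 0) (P.cons (P.lf 0 219723 0) (P.cons (P.lf 0 46811 0) P.nil))))) (P.cons (P.cons (P.lf 0 646536 0) (P.cons (P.lf 4910498 0 0) (P.cons (P.lf 0 260337 0) (P.cons (P.lf 0 20252 0) P.nil)))) (P.cons (P.cons (P.lf 1011948 0 0) (P.cons (P.lf 0 993 0) (P.cons (P.lf 0 46104 0) P.nil))) (P.cons (P.cons (P.lf 58661 0 0) (P.cons (P.lf 0 49186 0) P.nil)) (P.cons (P.cons (P.lf 0 12168 0) P.nil) P.nil)))))) 21127)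
 EL.nil)
noncomputable def S212_227_512_586 : SL := (SL.cons S212_227_512_586_0 (SL.cons S212_227_512_586_1 (SL.cons S212_227_512_586_2 (SL.cons S212_227_512_586_3 (SL.cons S212_227_512_586_4 (SL.cons S212_227_512_586_5 (SL.cons S212_227_512_586_6 (SL.cons S212_227_512_586_7 (SL.cons S212_227_512_586_8 (SL.cons S212_227_512_586_9 (SL.cons S212_227_512_586_10 (SL.cons S212_227_512_586_11 (SL.cons S212_227_512_586_12 (SL.cons S212_227_512_586_13 (SL.cons S212_227_512_586_14 (SL.cons S212_227_512_586_15 (SL.cons S212_227_512_586_16 (SL.cons S212_227_512_586_17 (SL.cons S212_227_512_586_18 (SL.cons S212_227_512_586_19 (SL.cons S212_227_512_586_20 (SL.cons S212_227_512_586_21 (SL.cons S212_227_512_586_22 (SL.cons S212_227_512_586_23 (SL.cons S212_227_512_586_24 (SL.cons S212_227_512_586_25 (SL.cons S212_227_512_586_26 (SL.cons S212_227_512_586_27 (SL.cons S212_227_512_586_28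 (SL.cons S212_227_512_586_29 (SL.cons S212_227_512_586_30 (SL.cons S212_227_512_586_31 (SL.cons S212_227_512_586_32 (SL.cons S212_227_512_586_33 (SL.cons S212_227_512_586_34 (SL.cons S212_227_512_586_35 (SL.cons S212_227_512_586_36 (SL.cons S212_227_512_586_37 (SL.cons S212_227_512_586_38 (SL.cons S212_227_512_586_39 (SL.cons S212_227_512_586_40 (SL.cons S212_227_512_586_41 (SL.cons S212_227_512_586_42 (SL.cons S212_227_512_586_43 (SL.cons S212_227_512_586_44 (SL.cons S212_227_512_586_45 (SL.cons S212_227_512_586_46 (SL.cons S212_227_512_586_47 (SL.cons S212_227_512_586_48 SL.nil)))))))))))))))))))))))))))))))))))))))))))))))))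
noncomputable def S212_227_512_660_0 : EL := (EL.cons 0 (TM.mk (P.cons (P.lf 7871865163 0 0) (P.cons (P.lf 228047217 0 0) (P.cons (P.lf 0 18724113 0) (P.cons (P.lf 0 894670 0) (P.cons (P.lf 28400 0 0) (P.cons (P.lf 1893 0 0) P.nil)))))) 140)
 (EL.cons 1 (TM.mk (P.cons (P.lf 0 1064241138 0) (P.cons (P.lf 185599968 0 0) (P.cons (P.lf 9632411 0 0) (P.cons (P.lf 0 474855 0) (P.cons (P.lf 0 25702 0) (P.cons (P.lf 519 0 0) P.nil)))))) 134)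
 (EL.cons 5 (TM.mk (P.cons (P.lf 4502559014 0 0) (P.cons (P.lf 0 81083452 0) (P.cons (P.lf 6657460 0 0) (P.cons (P.lf 318104 0 0) (P.cons (P.lf 0 10096 0) (P.cons (P.lf 0 672 0) P.nil)))))) 143)
 (EL.cons 9 (TM.mk (P.lf 6442450944 0 0) 2)
 EL.nil))))
noncomputable def S212_227_512_660_1 : EL := (EL.cons 0 (TM.mk (P.cons (P.cons (P.lf 686922840 0 0) (P.cons (P.lf 0 1067803800 0) (P.cons (P.lf 71390877 0 0) (P.lf 23796958 0 0)))) (P.cons (P.cons (P.lf 0 148041578 0) (P.cons (P.lf 0 226096555 0) (P.cons (P.lf 15116281 0 0) (P.lf 5038754 0 0)))) (P.cons (P.cons (P.lf 0 104955088 0) (P.cons (P.lf 7886251 0 0) (P.cons (P.lf 0 527253 0) (P.lf 0 175745 0)))) (P.cons (P.cons (P.lf 1796617 0 0) (P.cons (P.lf 2541025 0 0) (P.cons (P.lf 0 169870 0) P.nil))) (P.cons (P.cons (P.lf 997351 0 0) (P.cons (P.lf 8772 0 0) P.nil)) (P.cons (P.cons (P.lf 6422 0 0) P.nil) P.nil))))))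 105453)
 (EL.cons 1 (TM.mk (P.cons (P.cons (P.lf 663665413 0 0) (P.cons (P.lf 434387966 0 0) (P.cons (P.lf 0 29042161 0) (P.lf 0 9680716 0)))) (P.cons (P.cons (P.lf 266560613 0 0) (P.cons (P.lf 0 35633855 0) (P.cons (P.lf 2382400 0 0) (P.lf 794132 0 0)))) (P.cons (P.cons (P.lf 0 6821689 0) (P.cons (P.lf 0 13669087 0) (P.cons (P.lf 913876 0 0) (P.lf 304621 0 0)))) (P.cons (P.cons (P.lf 0 5971359 0) (P.cons (P.lf 55422 0 0) (P.cons (P.lf 0 3706 0) P.nil))) (P.cons (P.cons (P.lf 0 13693 0) (P.cons (P.lf 102992 0 0) P.nil)) (P.cons (P.cons (P.lf 38722 0 0) P.nil) P.nil)))))) 52947)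
 (EL.cons 5 (TM.mk (P.cons (P.cons (P.lf 0 346468804 0) (P.cons (P.lf 0 894211446 0) (P.cons (P.lf 59784896 0 0) (P.lf 19928294 0 0)))) (P.cons (P.cons (P.lf 0 155699327 0) (P.cons (P.lf 521890 0 0) (P.cons (P.lf 0 34888 0) (P.lf 0 11624 0)))) (P.cons (P.cons (P.lf 7666603 0 0) (P.cons (P.lf 2919090 0 0) (P.cons (P.lf 0 195164 0) (P.lf 0 65056 0)))) (P.cons (P.cons (P.lf 1094566 0 0) (P.cons (P.lf 0 447276 0) (P.cons (P.lf 29898 0 0) P.nil))) (P.cons (P.cons (P.lf 0 208529 0) (P.cons (P.lf 0 13666 0) P.nil)) (P.cons (P.cons (P.lf 0 5366 0) P.nil) P.nil)))))) 57168)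
 (EL.cons 9 (TM.mk (P.cons (P.cons (P.lf 0 90202558 0) (P.cons (P.lf 0 1124007366 0) (P.cons (P.lf 75148512 0 0) (P.lf 25049502 0 0)))) (P.cons (P.cons (P.lf 0 183826173 0) (P.cons (P.lf 0 70471752 0) (P.cons (P.lf 4711572 0 0) (P.lf 1570524 0 0)))) (P.cons (P.cons (P.lf 0 26162433 0) (P.cons (P.lf 5049774 0 0) (P.cons (P.lf 0 337614 0) (P.lf 0 112536 0)))) (P.cons (P.cons (P.lf 1529424 0 0) (P.cons (P.lf 402522 0 0) (P.cons (P.lf 0 26904 0) P.nil))) (P.cons (P.cons (P.lf 128896 0 0) (P.cons (P.lf 0 9300 0) P.nil)) (P.cons (P.cons (P.lf 0 2712 0) P.nil) P.nil)))))) 13214)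
 (EL.cons 2 (TM.mk (P.cons (P.cons (P.lf 703653333 0 0) (P.cons (P.lf 0 108943205 0) (P.cons (P.lf 0 52485398 0) (P.cons (P.lf 1986201 0 0) (P.lf 496549 0 0))))) (P.cons (P.cons (P.lf 0 108009081 0) (P.cons (P.lf 16722517 0 0) (P.cons (P.lf 8056380 0 0) (P.cons (P.lf 0 304875 0) (P.lf 0 76218 0))))) (P.cons (P.cons (P.lf 0 10294441 0) (P.cons (P.lf 1593835 0 0) (P.cons (P.lf 767857 0 0) (P.cons (P.lf 0 29055 0) P.nil)))) (P.cons (P.cons (P.lf 388985 0 0) (P.cons (P.lf 0 60224 0) (P.cons (P.lf 0 29013 0) P.nil))) (P.cons (P.cons (P.lf 42100 0 0) (P.cons (P.lf 0 6516 0) P.nil)) (P.cons (P.cons (P.lf 0 486 0) P.nil) P.nil)))))) 14167)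
 (EL.cons 6 (TM.mk (P.cons (P.cons (P.lf 1282614792 0 0) (P.cons (P.lf 0 198580977 0) (P.cons (P.lf 0 95670051 0) (P.cons (P.lf 3620436 0 0) (P.lf 905106 0 0))))) (P.cons (P.cons (P.lf 80415948 0 0) (P.cons (P.lf 0 12450405 0) (P.cons (P.lf 0 5998212 0) (P.cons (P.lf 226989 0 0) (P.lf 56745 0 0))))) (P.cons (P.cons (P.lf 0 5762349 0) (P.cons (P.lf 892155 0 0) (P.cons (P.lf 429810 0 0) (P.cons (P.lf 0 16263 0) P.nil)))) (P.cons (P.cons (P.lf 0 459327 0) (P.cons (P.lf 71112 0 0) (P.cons (P.lf 34260 0 0) P.nil))) (P.cons (P.cons (P.lf 10617 0 0) (P.cons (P.lf 0 1641 0) P.nil)) (P.cons (P.cons (P.lf 1335 0 0) P.nil) P.nil)))))) 9768)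
 EL.nil))))))
noncomputable def S212_227_512_660_2 : EL := (EL.cons 0 (TM.mk (P.cons (P.cons (P.lf 0 20778755 0) (P.cons (P.lf 0 248250705 0) (P.cons (P.lf 149579746 0 0) (P.cons (P.lf 0 12249294 0) (P.cons (P.lf 0 5332834 0) (P.cons (P.lf 396287 0 0) P.nil)))))) (P.cons (P.cons (P.lf 0 41389612 0) (P.cons (P.lf 21995923 0 0) (P.cons (P.lf 63795878 0 0) (P.cons (P.lf 0 9217321 0) (P.cons (P.lf 0 2617299 0) P.nil))))) (P.cons (P.cons (P.lf 0 1674481 0) (P.cons (P.lf 44148223 0 0) (P.cons (P.lf 0 1520406 0) (P.cons (P.lf 0 1175257 0) P.nil)))) (P.cons (P.cons (P.lf 5499277 0 0) (P.cons (P.lf 2385769 0 0) (P.cons (P.lf 0 1266165 0) P.nil))) (P.cons (P.cons (P.lf 627153 0 0) (P.cons (P.lf 0 701922 0) P.nil)) (P.cons (P.cons (P.lf 0 99457 0) P.nil) P.nil)))))) 1716141)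
 (EL.cons 1 (TM.mk (P.cons (P.cons (P.lf 0 18375695 0) (P.cons (P.lf 0 238542498 0) (P.cons (P.lf 0 103231129 0) (P.cons (P.lf 21252257 0 0) (P.cons (P.lf 4779313 0 0) (P.cons (P.lf 0 355148 0) P.nil)))))) (P.cons (P.cons (P.lf 0 44523911 0) (P.cons (P.lf 0 121308448 0) (P.cons (P.lf 9453718 0 0) (P.cons (P.lf 2523832 0 0) (P.cons (P.lf 0 53870 0) P.nil))))) (P.cons (P.cons (P.lf 0 19573732 0) (P.cons (P.lf 0 3325441 0) (P.cons (P.lf 5287170 0 0) (P.cons (P.lf 0 603133 0) P.nil)))) (P.cons (P.cons (P.lf 0 1233612 0) (P.cons (P.lf 3493438 0 0) (P.cons (P.lf 9350 0 0) P.nil))) (P.cons (P.cons (P.lf 501874 0 0) (P.cons (P.lf 231114 0 0) P.nil)) (P.cons (P.cons (P.lf 49651 0 0) P.nil) P.nil)))))) 857354)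
 (EL.cons 5 (TM.mk (P.cons (P.cons (P.lf 8819344 0 0) (P.cons (P.lf 123938674 0 0) (P.cons (P.lf 166682735 0 0) (P.cons (P.lf 0 26158110 0) (P.cons (P.lf 0 7016577 0) (P.cons (P.lf 521399 0 0) P.nil)))))) (P.cons (P.cons (P.lf 20550250 0 0) (P.cons (P.lf 67112147 0 0) (P.cons (P.lf 176144 0 0) (P.cons (P.lf 0 2119198 0) (P.cons (P.lf 0 187009 0) P.nil))))) (P.cons (P.cons (P.lf 7370249 0 0) (P.cons (P.lf 0 953281 0) (P.cons (P.lf 0 1568498 0) (P.cons (P.lf 239486 0 0) P.nil)))) (P.cons (P.cons (P.lf 0 311749 0) (P.cons (P.lf 0 1143801 0) (P.cons (P.lf 185554 0 0) P.nil))) (P.cons (P.cons (P.lf 0 205582 0) (P.cons (P.lf 88452 0 0) P.nil)) (P.cons (P.cons (P.lf 13021 0 0) P.nil) P.nil)))))) 970132)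
 (EL.cons 9 (TM.mk (P.cons (P.cons (P.lf 1262950 0 0) (P.cons (P.lf 31475082 0 0) (P.cons (P.lf 193999983 0 0) (P.cons (P.lf 0 26923606 0) (P.cons (P.lf 0 7864141 0) (P.cons (P.lf 584383 0 0) P.nil)))))) (P.cons (P.cons (P.lf 5147602 0 0) (P.cons (P.lf 66117291 0 0) (P.cons (P.lf 20169810 0 0) (P.cons (P.lf 0 4761574 0) (P.cons (P.lf 0 986113 0) P.nil))))) (P.cons (P.cons (P.lf 5977833 0 0) (P.cons (P.lf 13009276 0 0) (P.cons (P.lf 0 1860960 0) (P.cons (P.lf 0 157386 0) P.nil)))) (P.cons (P.cons (P.lf 1450186 0 0) (P.cons (P.lf 0 260757 0) (P.cons (P.lf 0 233496 0) P.nil))) (P.cons (P.cons (P.lf 15354 0 0) (P.cons (P.lf 0 142159 0) P.nil)) (P.cons (P.cons (P.lf 0 19701 0) P.nil) P.nil)))))) 441568)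
 (EL.cons 2 (TM.mk (P.cons (P.cons (P.lf 0 19704093 0) (P.cons (P.lf 0 242480565 0) (P.cons (P.lf 55899776 0 0) (P.cons (P.lf 21188846 0 0) (P.cons (P.lf 0 2778586 0) (P.cons (P.lf 0 535072 0) P.nil)))))) (P.cons (P.cons (P.lf 0 37130962 0) (P.cons (P.lf 28043212 0 0) (P.cons (P.lf 0 2172690 0) (P.cons (P.lf 0 2033820 0) (P.cons (P.lf 224831 0 0) P.nil))))) (P.cons (P.cons (P.lf 737043 0 0) (P.cons (P.lf 6944040 0 0) (P.cons (P.lf 0 1619645 0) (P.cons (P.lf 0 608619 0) P.nil)))) (P.cons (P.cons (P.lf 1787906 0 0) (P.cons (P.lf 0 268717 0) (P.cons (P.lf 0 135151 0) P.nil))) (P.cons (P.cons (P.lf 37108 0 0) (P.cons (P.lf 0 60609 0) P.nil)) (P.cons (P.cons (P.lf 0 15345 0) P.nil) P.nil)))))) 357254)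
 (EL.cons 6 (TM.mk (P.cons (P.cons (P.lf 0 35916492 0) (P.cons (P.lf 0 441992016 0) (P.cons (P.lf 101893752 0 0) (P.cons (P.lf 38622894 0 0) (P.cons (P.lf 0 5064798 0) (P.cons (P.lf 0 975330 0) P.nil)))))) (P.cons (P.cons (P.lf 0 75447024 0) (P.cons (P.lf 0 44439228 0) (P.cons (P.lf 18068484 0 0) (P.cons (P.lf 4642812 0 0) (P.cons (P.lf 0 685152 0) P.nil))))) (P.cons (P.cons (P.lf 0 14844996 0) (P.cons (P.lf 4560492 0 0) (P.cons (P.lf 605808 0 0) (P.cons (P.lf 0 237624 0) P.nil)))) (P.cons (P.cons (P.lf 297552 0 0) (P.cons (P.lf 526608 0 0) (P.cons (P.lf 0 149142 0) P.nil))) (P.cons (P.cons (P.lf 162216 0 0) (P.cons (P.lf 0 21456 0) P.nil)) (P.cons (P.cons (P.lf 2484 0 0) P.nil) P.nil)))))) 410562)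
 EL.nil))))))
noncomputable def S212_227_512_660_3 : EL := (EL.cons 0 (TM.mk (P.cons (P.lf 583851700 0 0) (P.cons (P.lf 0 228047217 0) (P.cons (P.lf 18724113 0 0) (P.cons (P.lf 894670 0 0) (P.cons (P.lf 0 28400 0) (P.cons (P.lf 0 1893 0) P.nil)))))) 140)
 (EL.cons 1 (TM.mk (P.cons (P.lf 1064241138 0 0) (P.cons (P.lf 0 185599968 0) (P.cons (P.lf 0 9632411 0) (P.cons (P.lf 474855 0 0) (P.cons (P.lf 25702 0 0) (P.cons (P.lf 0 519 0) P.nil)))))) 134)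
 (EL.cons 5 (TM.mk (P.cons (P.lf 1939891930 0 0) (P.cons (P.lf 81083452 0 0) (P.cons (P.lf 0 6657460 0) (P.cons (P.lf 0 318104 0) (P.cons (P.lf 10096 0 0) (P.cons (P.lf 672 0 0) P.nil)))))) 136)
 EL.nil)))
noncomputable def S212_227_512_660_4 : EL := (EL.cons 0 (TM.mk (P.cons (P.cons (P.lf 0 8174670 0) (P.cons (P.lf 0 101863966 0) (P.cons (P.lf 6810386 0 0) (P.lf 2270128 0 0)))) (P.cons (P.cons (P.lf 0 13466424 0) (P.cons (P.lf 33400594 0 0) (P.cons (P.lf 0 2233086 0) (P.lf 0 744361 0)))) (P.cons (P.cons (P.lf 3873851 0 0) (P.cons (P.lf 0 314604 0) (P.cons (P.lf 21033 0 0) (P.lf 7010 0 0)))) (P.cons (P.cons (P.lf 517899 0 0) (P.cons (P.lf 0 503179 0) (P.cons (P.lf 33641 0 0) P.nil))) (P.cons (P.cons (P.lf 0 143623 0) (P.cons (P.lf 0 5245 0) P.nil)) (P.cons (P.cons (P.lf 0 3158 0) P.nil) P.nil)))))) 21460)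
 (EL.cons 1 (TM.mk (P.cons (P.cons (P.lf 0 14900737 0) (P.cons (P.lf 0 185676986 0) (P.cons (P.lf 12413928 0 0) (P.lf 4137975 0 0)))) (P.cons (P.cons (P.lf 0 27767968 0) (P.cons (P.lf 20740055 0 0) (P.cons (P.lf 0 1386631 0) (P.lf 0 462210 0)))) (P.cons (P.cons (P.lf 1108871 0 0) (P.cons (P.lf 4544951 0 0) (P.cons (P.lf 0 303862 0) (P.lf 0 101285 0)))) (P.cons (P.cons (P.lf 1274555 0 0) (P.cons (P.lf 0 56465 0) (P.cons (P.lf 3774 0 0) P.nil))) (P.cons (P.cons (P.lf 2439 0 0) (P.cons (P.lf 0 30360 0) P.nil)) (P.cons (P.cons (P.lf 0 9101 0) P.nil) P.nil)))))) 15384)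
 (EL.cons 5 (TM.mk (P.cons (P.cons (P.lf 0 27160968 0) (P.cons (P.lf 0 338450820 0) (P.cons (P.lf 22628032 0 0) (P.lf 7542676 0 0)))) (P.cons (P.cons (P.lf 0 56487328 0) (P.cons (P.lf 0 35366350 0) (P.cons (P.lf 2364508 0 0) (P.lf 788168 0 0)))) (P.cons (P.cons (P.lf 0 10098178 0) (P.cons (P.lf 1795116 0 0) (P.cons (P.lf 0 120016 0) (P.lf 0 40004 0)))) (P.cons (P.cons (P.lf 325664 0 0) (P.cons (P.lf 313080 0 0) (P.cons (P.lf 0 20928 0) P.nil))) (P.cons (P.cons (P.lf 94030 0 0) (P.cons (P.lf 0 1232 0) P.nil)) (P.cons (P.cons (P.lf 218 0 0) P.nil) P.nil)))))) 11308)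
 EL.nil)))
noncomputable def S212_227_512_660_5 : EL := (EL.cons 0 (TM.mk (P.cons (P.cons (P.lf 114454 0 0) (P.cons (P.lf 2852451 0 0) (P.cons (P.lf 17581385 0 0) (P.cons (P.lf 0 2439970 0) (P.cons (P.lf 0 712692 0) (P.cons (P.lf 52959 0 0) P.nil)))))) (P.cons (P.cons (P.lf 421799 0 0) (P.cons (P.lf 4877783 0 0) (P.cons (P.lf 0 5039226 0) (P.cons (P.lf 521509 0 0) (P.cons (P.lf 189003 0 0) P.nil))))) (P.cons (P.cons (P.lf 363202 0 0) (P.cons (P.lf 0 1069938 0) (P.cons (P.lf 0 318777 0) (P.cons (P.lf 76034 0 0) P.nil)))) (P.cons (P.cons (P.lf 0 65039 0) (P.cons (P.lf 0 287595 0) (P.cons (P.lf 130273 0 0) P.nil))) (P.cons (P.cons (P.lf 0 31856 0) (P.cons (P.lf 43198 0 0) P.nil)) (P.cons (P.cons (P.lf 2691 0 0) P.nil) P.nil)))))) 193817)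
 (EL.cons 1 (TM.mk (P.cons (P.cons (P.lf 208627 0 0) (P.cons (P.lf 5199429 0 0) (P.cons (P.lf 32047237 0 0) (P.cons (P.lf 0 4447561 0) (P.cons (P.lf 0 1299091 0) (P.cons (P.lf 96534 0 0) P.nil)))))) (P.cons (P.cons (P.lf 813956 0 0) (P.cons (P.lf 10015280 0 0) (P.cons (P.lf 0 2257035 0) (P.cons (P.lf 0 10933 0) (P.cons (P.lf 63658 0 0) P.nil))))) (P.cons (P.cons (P.lf 837303 0 0) (P.cons (P.lf 197199 0 0) (P.cons (P.lf 0 1178542 0) (P.cons (P.lf 151430 0 0) P.nil)))) (P.cons (P.cons (P.lf 59739 0 0) (P.cons (P.lf 0 514391 0) (P.cons (P.lf 0 815 0) P.nil))) (P.cons (P.cons (P.lf 0 47793 0) (P.cons (P.lf 0 30421 0) P.nil)) (P.cons (P.cons (P.lf 0 5401 0) P.nil) P.nil)))))) 185557)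
 (EL.cons 5 (TM.mk (P.cons (P.cons (P.lf 380286 0 0) (P.cons (P.lf 9477488 0 0) (P.cons (P.lf 58415500 0 0) (P.cons (P.lf 0 8106988 0) (P.cons (P.lf 0 2367976 0) (P.cons (P.lf 175964 0 0) P.nil)))))) (P.cons (P.cons (P.lf 1565892 0 0) (P.cons (P.lf 20304772 0 0) (P.cons (P.lf 8514994 0 0) (P.cons (P.lf 0 1772616 0) (P.cons (P.lf 0 395904 0) P.nil))))) (P.cons (P.cons (P.lf 1863472 0 0) (P.cons (P.lf 4716846 0 0) (P.cons (P.lf 0 506974 0) (P.cons (P.lf 0 79496 0) P.nil)))) (P.cons (P.cons (P.lf 506520 0 0) (P.cons (P.lf 15336 0 0) (P.cons (P.lf 0 124150 0) P.nil))) (P.cons (P.cons (P.lf 16444 0 0) (P.cons (P.lf 0 62744 0) P.nil)) (P.cons (P.cons (P.lf 0 7522 0) P.nil) P.nil)))))) 191040)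
 EL.nil)))
noncomputable def S212_227_512_660_6 : EL := (EL.cons 12 (TM.mk (P.lf 8589934592 0 0) 0)
 (EL.cons 3 (TM.mk (P.cons (P.lf 0 1119737460 0) (P.cons (P.lf 218679686 0 0) (P.cons (P.lf 3398598 0 0) (P.cons (P.lf 0 194190 0) (P.cons (P.lf 0 5531 0) (P.cons (P.lf 146 0 0) P.nil)))))) 52)
 (EL.cons 7 (TM.mk (P.cons (P.lf 0 2041050269 0) (P.cons (P.lf 0 42655831 0) (P.cons (P.lf 3948043 0 0) (P.cons (P.lf 84836 0 0) (P.cons (P.lf 0 3266 0) (P.cons (P.lf 0 122 0) P.nil)))))) 52)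
 EL.nil)))
noncomputable def S212_227_512_660_7 : EL := (EL.cons 12 (TM.mk (P.cons (P.cons (P.lf 0 120270078 0) (P.cons (P.lf 0 1498676488 0) (P.cons (P.lf 100198016 0 0) (P.lf 33399336 0 0)))) (P.cons (P.cons (P.lf 0 245101564 0) (P.cons (P.lf 0 93962336 0) (P.cons (P.lf 6282096 0 0) (P.lf 2094032 0 0)))) (P.cons (P.cons (P.lf 0 34883244 0) (P.cons (P.lf 6733032 0 0) (P.cons (P.lf 0 450152 0) (P.lf 0 150048 0)))) (P.cons (P.cons (P.lf 2039232 0 0) (P.cons (P.lf 536696 0 0) (P.cons (P.lf 0 35872 0) P.nil))) (P.cons (P.cons (P.lf 171862 0 0) (P.cons (P.lf 0 12400 0) P.nil)) (P.cons (P.cons (P.lf 0 3616 0) P.nil) P.nil)))))) 17594)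
 (EL.cons 3 (TM.mk (P.cons (P.cons (P.lf 0 1513111893 0) (P.cons (P.lf 0 390718738 0) (P.cons (P.lf 26122542 0 0) (P.lf 8707512 0 0)))) (P.cons (P.cons (P.lf 0 422652183 0) (P.cons (P.lf 51808766 0 0) (P.cons (P.lf 0 3463814 0) (P.lf 0 1154604 0)))) (P.cons (P.cons (P.lf 33438791 0 0) (P.cons (P.lf 7725386 0 0) (P.cons (P.lf 0 516498 0) (P.lf 0 172164 0)))) (P.cons (P.cons (P.lf 3927717 0 0) (P.cons (P.lf 0 196298 0) (P.cons (P.lf 13124 0 0) P.nil))) (P.cons (P.cons (P.lf 0 88092 0) (P.cons (P.lf 0 42062 0) P.nil)) (P.cons (P.cons (P.lf 0 16221 0) P.nil) P.nil)))))) 43099)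
 (EL.cons 7 (TM.mk (P.cons (P.cons (P.lf 326784236 0 0) (P.cons (P.lf 470420671 0 0) (P.cons (P.lf 0 31451234 0) (P.lf 0 10483744 0)))) (P.cons (P.cons (P.lf 82442870 0 0) (P.cons (P.lf 0 10105855 0) (P.cons (P.lf 675651 0 0) (P.lf 225217 0 0)))) (P.cons (P.cons (P.lf 0 15434441 0) (P.cons (P.lf 0 414508 0) (P.cons (P.lf 27713 0 0) (P.lf 9237 0 0)))) (P.cons (P.cons (P.lf 267861 0 0) (P.cons (P.lf 243966 0 0) (P.cons (P.lf 0 16307 0) P.nil))) (P.cons (P.cons (P.lf 124607 0 0) (P.cons (P.lf 119 0 0) P.nil)) (P.cons (P.cons (P.lf 0 543 0) P.nil) P.nil)))))) 35927)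
 (EL.cons 10 (TM.mk (P.cons (P.cons (P.lf 0 2698997019 0) (P.cons (P.lf 417872517 0 0) (P.cons (P.lf 201317799 0 0) (P.cons (P.lf 0 7618458 0) (P.lf 0 1904613 0))))) (P.cons (P.cons (P.lf 0 112812465 0) (P.cons (P.lf 17466201 0 0) (P.cons (P.lf 8414664 0 0) (P.cons (P.lf 0 318435 0) (P.lf 0 79608 0))))) (P.cons (P.cons (P.lf 9262611 0 0) (P.cons (P.lf 0 1434084 0) (P.cons (P.lf 0 690894 0) (P.cons (P.lf 26145 0 0) P.nil)))) (P.cons (P.cons (P.lf 442581 0 0) (P.cons (P.lf 0 68520 0) (P.cons (P.lf 0 33012 0) P.nil))) (P.cons (P.cons (P.lf 0 14046 0) (P.cons (P.lf 2172 0 0) P.nil)) (P.cons (P.cons (P.lf 0 933 0) P.nil) P.nil)))))) 9756)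
 EL.nil))))
noncomputable def S212_227_512_660_8 : EL := (EL.cons 12 (TM.mk (P.cons (P.cons (P.lf 1683934 0 0) (P.cons (P.lf 41966776 0 0) (P.cons (P.lf 258666644 0 0) (P.cons (P.lf 0 35898142 0) (P.cons (P.lf 0 10485522 0) (P.cons (P.lf 779178 0 0) P.nil)))))) (P.cons (P.cons (P.lf 6863470 0 0) (P.cons (P.lf 88156388 0 0) (P.cons (P.lf 26893080 0 0) (P.cons (P.lf 0 6348766 0) (P.cons (P.lf 0 1314818 0) P.nil))))) (P.cons (P.cons (P.lf 7970444 0 0) (P.cons (P.lf 17345702 0 0) (P.cons (P.lf 0 2481280 0) (P.cons (P.lf 0 209848 0) P.nil)))) (P.cons (P.cons (P.lf 1933582 0 0) (P.cons (P.lf 0 347676 0) (P.cons (P.lf 0 311328 0) P.nil))) (P.cons (P.cons (P.lf 20472 0 0) (P.cons (P.lf 0 189546 0) P.nil)) (P.cons (P.cons (P.lf 0 26268 0) P.nil) P.nil)))))) 588728)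
 (EL.cons 3 (TM.mk (P.cons (P.cons (P.lf 42590510 0 0) (P.cons (P.lf 544393637 0 0) (P.cons (P.lf 134023783 0 0) (P.cons (P.lf 0 34920153 0) (P.cons (P.lf 0 6834175 0) (P.cons (P.lf 507846 0 0) P.nil)))))) (P.cons (P.cons (P.lf 99036149 0 0) (P.cons (P.lf 211851790 0 0) (P.cons (P.lf 0 26076617 0) (P.cons (P.lf 0 3128387 0) (P.cons (P.lf 477721 0 0) P.nil))))) (P.cons (P.cons (P.lf 36336099 0 0) (P.cons (P.lf 0 4792905 0) (P.cons (P.lf 0 5231591 0) (P.cons (P.lf 849202 0 0) P.nil)))) (P.cons (P.cons (P.lf 742536 0 0) (P.cons (P.lf 0 4516229 0) (P.cons (P.lf 216785 0 0) P.nil))) (P.cons (P.cons (P.lf 0 804032 0) (P.cons (P.lf 0 113310 0) P.nil)) (P.cons (P.cons (P.lf 0 30707 0) P.nil) P.nil)))))) 1159565)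
 (EL.cons 7 (TM.mk (P.cons (P.cons (P.lf 0 8750672 0) (P.cons (P.lf 0 117228647 0) (P.cons (P.lf 0 94181578 0) (P.cons (P.lf 16254074 0 0) (P.cons (P.lf 4091155 0 0) (P.cons (P.lf 0 304012 0) P.nil)))))) (P.cons (P.cons (P.lf 0 19318067 0) (P.cons (P.lf 0 41323973 0) (P.cons (P.lf 5086522 0 0) (P.cons (P.lf 610233 0 0) (P.cons (P.lf 0 93180 0) P.nil))))) (P.cons (P.cons (P.lf 0 4999516 0) (P.cons (P.lf 5401911 0 0) (P.cons (P.lf 470642 0 0) (P.cons (P.lf 0 231607 0) P.nil)))) (P.cons (P.cons (P.lf 854707 0 0) (P.cons (P.lf 699118 0 0) (P.cons (P.lf 0 183573 0) P.nil))) (P.cons (P.cons (P.lf 169535 0 0) (P.cons (P.lf 0 116303 0) P.nil)) (P.cons (P.cons (P.lf 0 20676 0) P.nil) P.nil)))))) 476867)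
 (EL.cons 10 (TM.mk (P.cons (P.cons (P.lf 75578820 0 0) (P.cons (P.lf 930080610 0 0) (P.cons (P.lf 0 214414290 0) (P.cons (P.lf 0 81273882 0) (P.cons (P.lf 10657818 0 0) (P.cons (P.lf 2052384 0 0) P.nil)))))) (P.cons (P.cons (P.lf 157183116 0 0) (P.cons (P.lf 74075436 0 0) (P.cons (P.lf 0 33540354 0) (P.cons (P.lf 0 8071308 0) (P.cons (P.lf 1219032 0 0) P.nil))))) (P.cons (P.cons (P.lf 28099458 0 0) (P.cons (P.lf 0 9345642 0) (P.cons (P.lf 0 988596 0) (P.cons (P.lf 511512 0 0) P.nil)))) (P.cons (P.cons (P.lf 0 906204 0) (P.cons (P.lf 0 730884 0) (P.cons (P.lf 260712 0 0) P.nil))) (P.cons (P.cons (P.lf 0 261654 0) (P.cons (P.lf 43944 0 0) P.nil)) (P.cons (P.cons (P.lf 0 606 0) P.nil) P.nil)))))) 706986)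
 EL.nil))))
noncomputable def S212_227_512_660_9 : EL := (EL.cons 3 (TM.mk (P.cons (P.lf 0 1119737460 0) (P.cons (P.lf 218679686 0 0) (P.cons (P.lf 3398598 0 0) (P.cons (P.lf 0 194190 0) (P.cons (P.lf 0 5531 0) (P.cons (P.lf 146 0 0) P.nil)))))) 52)
 (EL.cons 7 (TM.mk (P.cons (P.lf 0 2041050269 0) (P.cons (P.lf 0 42655831 0) (P.cons (P.lf 3948043 0 0) (P.cons (P.lf 84836 0 0) (P.cons (P.lf 0 3266 0) (P.cons (P.lf 0 122 0) P.nil)))))) 52)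
 EL.nil))
noncomputable def S212_227_512_660_10 : EL := (EL.cons 3 (TM.mk (P.cons (P.cons (P.lf 15677757 0 0) (P.cons (P.lf 195359369 0 0) (P.cons (P.lf 0 13061271 0) (P.lf 0 4353756 0)))) (P.cons (P.cons (P.lf 28888320 0 0) (P.cons (P.lf 0 25904383 0) (P.cons (P.lf 1731907 0 0) (P.lf 577302 0 0)))) (P.cons (P.cons (P.lf 0 1740106 0) (P.cons (P.lf 0 3862693 0) (P.cons (P.lf 258249 0 0) (P.lf 86082 0 0)))) (P.cons (P.cons (P.lf 0 1248123 0) (P.cons (P.lf 98149 0 0) (P.cons (P.lf 0 6562 0) P.nil))) (P.cons (P.cons (P.lf 21327 0 0) (P.cons (P.lf 21031 0 0) P.nil)) (P.cons (P.cons (P.lf 6597 0 0) P.nil) P.nil)))))) 10692)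
 (EL.cons 7 (TM.mk (P.cons (P.cons (P.lf 28577315 0 0) (P.cons (P.lf 356099806 0 0) (P.cons (P.lf 0 23808002 0) (P.lf 0 7936000 0)))) (P.cons (P.cons (P.lf 58835702 0 0) (P.cons (P.lf 29768462 0 0) (P.cons (P.lf 0 1990248 0) (P.lf 0 663416 0)))) (P.cons (P.cons (P.lf 9450436 0 0) (P.cons (P.lf 0 1822045 0) (P.cons (P.lf 121817 0 0) (P.lf 40605 0 0)))) (P.cons (P.cons (P.lf 0 425157 0) (P.cons (P.lf 0 218946 0) (P.cons (P.lf 14635 0 0) P.nil))) (P.cons (P.cons (P.lf 0 69370 0) (P.cons (P.lf 3017 0 0) P.nil)) (P.cons (P.cons (P.lf 693 0 0) P.nil) P.nil)))))) 7546)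
 EL.nil))
noncomputable def S212_227_512_660_11 : EL := (EL.cons 3 (TM.mk (P.cons (P.cons (P.lf 0 219508 0) (P.cons (P.lf 0 5470561 0) (P.cons (P.lf 0 33718385 0) (P.cons (P.lf 4679487 0 0) (P.cons (P.lf 1366835 0 0) (P.cons (P.lf 0 101568 0) P.nil)))))) (P.cons (P.cons (P.lf 0 851815 0) (P.cons (P.lf 0 10423214 0) (P.cons (P.lf 3079411 0 0) (P.cons (P.lf 0 86291 0) (P.cons (P.lf 0 95543 0) P.nil))))) (P.cons (P.cons (P.lf 0 863589 0) (P.cons (P.lf 0 231 0) (P.cons (P.lf 1110421 0 0) (P.cons (P.lf 0 148472 0) P.nil)))) (P.cons (P.cons (P.lf 0 46464 0) (P.cons (P.lf 520831 0 0) (P.cons (P.lf 0 17791 0) P.nil))) (P.cons (P.cons (P.lf 49552 0 0) (P.cons (P.lf 20700 0 0) P.nil)) (P.cons (P.cons (P.lf 4525 0 0) P.nil) P.nil)))))) 175669)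
 (EL.cons 7 (TM.mk (P.cons (P.cons (P.lf 0 400118 0) (P.cons (P.lf 0 9971705 0) (P.cons (P.lf 0 61461658 0) (P.cons (P.lf 8529740 0 0) (P.cons (P.lf 2491459 0 0) (P.cons (P.lf 0 185140 0) P.nil)))))) (P.cons (P.cons (P.lf 0 1639187 0) (P.cons (P.lf 0 21155195 0) (P.cons (P.lf 0 7674536 0) (P.cons (P.lf 1686789 0 0) (P.cons (P.lf 364482 0 0) P.nil))))) (P.cons (P.cons (P.lf 0 1927162 0) (P.cons (P.lf 0 4539981 0) (P.cons (P.lf 574916 0 0) (P.cons (P.lf 64889 0 0) P.nil)))) (P.cons (P.cons (P.lf 0 495845 0) (P.cons (P.lf 37408 0 0) (P.cons (P.lf 101211 0 0) P.nil))) (P.cons (P.cons (P.lf 0 10735 0) (P.cons (P.lf 55591 0 0) P.nil)) (P.cons (P.cons (P.lf 7104 0 0) P.nil) P.nil)))))) 168733)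
 EL.nil))
noncomputable def S212_227_512_660_12 : EL := (EL.cons 4 (TM.mk (P.cons (P.lf 1119737460 0 0) (P.cons (P.lf 0 218679686 0) (P.cons (P.lf 0 3398598 0) (P.cons (P.lf 194190 0 0) (P.cons (P.lf 5531 0 0) (P.cons (P.lf 0 146 0) P.nil)))))) 52)
 (EL.cons 8 (TM.mk (P.cons (P.lf 2041050269 0 0) (P.cons (P.lf 42655831 0 0) (P.cons (P.lf 0 3948043 0) (P.cons (P.lf 0 84836 0) (P.cons (P.lf 3266 0 0) (P.cons (P.lf 122 0 0) P.nil)))))) 52)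
 EL.nil))
noncomputable def S212_227_512_660_13 : EL := (EL.cons 4 (TM.mk (P.cons (P.cons (P.lf 0 15677757 0) (P.cons (P.lf 0 195359369 0) (P.cons (P.lf 13061271 0 0) (P.lf 4353756 0 0)))) (P.cons (P.cons (P.lf 0 28888320 0) (P.cons (P.lf 25904383 0 0) (P.cons (P.lf 0 1731907 0) (P.lf 0 577302 0)))) (P.cons (P.cons (P.lf 1740106 0 0) (P.cons (P.lf 3862693 0 0) (P.cons (P.lf 0 258249 0) (P.lf 0 86082 0)))) (P.cons (P.cons (P.lf 1248123 0 0) (P.cons (P.lf 0 98149 0) (P.cons (P.lf 6562 0 0) P.nil))) (P.cons (P.cons (P.lf 0 21327 0) (P.cons (P.lf 0 21031 0) P.nil)) (P.cons (P.cons (P.lf 0 6597 0) P.nil) P.nil)))))) 10692)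
 (EL.cons 8 (TM.mk (P.cons (P.cons (P.lf 0 28577315 0) (P.cons (P.lf 0 356099806 0) (P.cons (P.lf 23808002 0 0) (P.lf 7936000 0 0)))) (P.cons (P.cons (P.lf 0 58835702 0) (P.cons (P.lf 0 29768462 0) (P.cons (P.lf 1990248 0 0) (P.lf 663416 0 0)))) (P.cons (P.cons (P.lf 0 9450436 0) (P.cons (P.lf 1822045 0 0) (P.cons (P.lf 0 121817 0) (P.lf 0 40605 0)))) (P.cons (P.cons (P.lf 425157 0 0) (P.cons (P.lf 218946 0 0) (P.cons (P.lf 0 14635 0) P.nil))) (P.cons (P.cons (P.lf 69370 0 0) (P.cons (P.lf 0 3017 0) P.nil)) (P.cons (P.cons (P.lf 0 693 0) P.nil) P.nil)))))) 7546)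
 EL.nil))
noncomputable def S212_227_512_660_14 : EL := (EL.cons 4 (TM.mk (P.cons (P.cons (P.lf 219508 0 0) (P.cons (P.lf 5470561 0 0) (P.cons (P.lf 33718385 0 0) (P.cons (P.lf 0 4679487 0) (P.cons (P.lf 0 1366835 0) (P.cons (P.lf 101568 0 0) P.nil)))))) (P.cons (P.cons (P.lf 851815 0 0) (P.cons (P.lf 10423214 0 0) (P.cons (P.lf 0 3079411 0) (P.cons (P.lf 86291 0 0) (P.cons (P.lf 95543 0 0) P.nil))))) (P.cons (P.cons (P.lf 863589 0 0) (P.cons (P.lf 231 0 0) (P.cons (P.lf 0 1110421 0) (P.cons (P.lf 148472 0 0) P.nil)))) (P.cons (P.cons (P.lf 46464 0 0) (P.cons (P.lf 0 520831 0) (P.cons (P.lf 17791 0 0) P.nil))) (P.cons (P.cons (P.lf 0 49552 0) (P.cons (P.lf 0 20700 0) P.nil)) (P.cons (P.cons (P.lf 0 4525 0) P.nil) P.nil)))))) 175669)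
 (EL.cons 8 (TM.mk (P.cons (P.cons (P.lf 400118 0 0) (P.cons (P.lf 9971705 0 0) (P.cons (P.lf 61461658 0 0) (P.cons (P.lf 0 8529740 0) (P.cons (P.lf 0 2491459 0) (P.cons (P.lf 185140 0 0) P.nil)))))) (P.cons (P.cons (P.lf 1639187 0 0) (P.cons (P.lf 21155195 0 0) (P.cons (P.lf 7674536 0 0) (P.cons (P.lf 0 1686789 0) (P.cons (P.lf 0 364482 0) P.nil))))) (P.cons (P.cons (P.lf 1927162 0 0) (P.cons (P.lf 4539981 0 0) (P.cons (P.lf 0 574916 0) (P.cons (P.lf 0 64889 0) P.nil)))) (P.cons (P.cons (P.lf 495845 0 0) (P.cons (P.lf 0 37408 0) (P.cons (P.lf 0 101211 0) P.nil))) (P.cons (P.cons (P.lf 10735 0 0) (P.cons (P.lf 0 55591 0) P.nil)) (P.cons (P.cons (P.lf 0 7104 0) P.nil) P.nil)))))) 168733)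
 EL.nil))
noncomputable def S212_227_512_660_15 : EL := (EL.cons 4 (TM.mk (P.cons (P.lf 0 311387573 0) (P.cons (P.lf 121625182 0 0) (P.cons (P.lf 0 9986193 0) (P.cons (P.lf 0 477157 0) (P.cons (P.lf 15147 0 0) (P.cons (P.lf 1009 0 0) P.nil)))))) 78)
 (EL.cons 8 (TM.mk (P.cons (P.lf 0 567595274 0) (P.cons (P.lf 98986650 0 0) (P.cons (P.lf 5137286 0 0) (P.cons (P.lf 0 253256 0) (P.cons (P.lf 0 13708 0) (P.cons (P.lf 277 0 0) P.nil)))))) 68)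
 EL.nil))
noncomputable def S212_227_512_660_16 : EL := (EL.cons 4 (TM.mk (P.cons (P.cons (P.lf 4359824 0 0) (P.cons (P.lf 54327449 0 0) (P.cons (P.lf 0 3632205 0) (P.lf 0 1210735 0)))) (P.cons (P.cons (P.lf 7182092 0 0) (P.cons (P.lf 0 17813650 0) (P.cons (P.lf 1190979 0 0) (P.lf 396992 0 0)))) (P.cons (P.cons (P.lf 0 2066054 0) (P.cons (P.lf 167789 0 0) (P.cons (P.lf 0 11218 0) (P.lf 0 3738 0)))) (P.cons (P.cons (P.lf 0 276212 0) (P.cons (P.lf 268362 0 0) (P.cons (P.lf 0 17941 0) P.nil))) (P.cons (P.cons (P.lf 76599 0 0) (P.cons (P.lf 2797 0 0) P.nil)) (P.cons (P.cons (P.lf 1684 0 0) P.nil) P.nil)))))) 11454)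
 (EL.cons 8 (TM.mk (P.cons (P.cons (P.lf 7947060 0 0) (P.cons (P.lf 99027726 0 0) (P.cons (P.lf 0 6620762 0) (P.lf 0 2206920 0)))) (P.cons (P.cons (P.lf 14809583 0 0) (P.cons (P.lf 0 11061363 0) (P.cons (P.lf 739537 0 0) (P.lf 246512 0 0)))) (P.cons (P.cons (P.lf 0 591398 0) (P.cons (P.lf 0 2423974 0) (P.cons (P.lf 162060 0 0) (P.lf 54019 0 0)))) (P.cons (P.cons (P.lf 0 679763 0) (P.cons (P.lf 30115 0 0) (P.cons (P.lf 0 2013 0) P.nil))) (P.cons (P.cons (P.lf 0 1301 0) (P.cons (P.lf 16192 0 0) P.nil)) (P.cons (P.cons (P.lf 4854 0 0) P.nil) P.nil)))))) 8195)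
 EL.nil))
noncomputable def S212_227_512_660_17 : EL := (EL.cons 4 (TM.mk (P.cons (P.cons (P.lf 0 61042 0) (P.cons (P.lf 0 1521307 0) (P.cons (P.lf 0 9376739 0) (P.cons (P.lf 1301317 0 0) (P.cons (P.lf 380102 0 0) (P.cons (P.lf 0 28245 0) P.nil)))))) (P.cons (P.cons (P.lf 0 224959 0) (P.cons (P.lf 0 2601484 0) (P.cons (P.lf 2687587 0 0) (P.cons (P.lf 0 278138 0) (P.cons (P.lf 0 100801 0) P.nil))))) (P.cons (P.cons (P.lf 0 193708 0) (P.cons (P.lf 570633 0 0) (P.cons (P.lf 170014 0 0) (P.cons (P.lf 0 40551 0) P.nil)))) (P.cons (P.cons (P.lf 34687 0 0) (P.cons (P.lf 153384 0 0) (P.cons (P.lf 0 69479 0) P.nil))) (P.cons (P.cons (P.lf 16990 0 0) (P.cons (P.lf 0 23039 0) P.nil)) (P.cons (P.cons (P.lf 0 1435 0) P.nil) P.nil)))))) 103379)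
 (EL.cons 8 (TM.mk (P.cons (P.cons (P.lf 0 111268 0) (P.cons (P.lf 0 2773029 0) (P.cons (P.lf 0 17091860 0) (P.cons (P.lf 2372033 0 0) (P.cons (P.lf 692849 0 0) (P.cons (P.lf 0 51485 0) P.nil)))))) (P.cons (P.cons (P.lf 0 434110 0) (P.cons (P.lf 0 5341483 0) (P.cons (P.lf 1203752 0 0) (P.cons (P.lf 5831 0 0) (P.cons (P.lf 0 33951 0) P.nil))))) (P.cons (P.cons (P.lf 0 446562 0) (P.cons (P.lf 0 105173 0) (P.cons (P.lf 628556 0 0) (P.cons (P.lf 0 80763 0) P.nil)))) (P.cons (P.cons (P.lf 0 31861 0) (P.cons (P.lf 274342 0 0) (P.cons (P.lf 435 0 0) P.nil))) (P.cons (P.cons (P.lf 25490 0 0) (P.cons (P.lf 16225 0 0) P.nil)) (P.cons (P.cons (P.lf 2881 0 0) P.nil) P.nil)))))) 98952)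
 EL.nil))
noncomputable def S212_227_512_660_18 : EL := (EL.cons 4 (TM.mk (P.cons (P.lf 86593710 0 0) (P.cons (P.lf 0 50734084 0) (P.cons (P.lf 9119656 0 0) (P.cons (P.lf 0 291978 0) (P.cons (P.lf 0 43993 0) (P.cons (P.lf 441 0 0) P.nil)))))) 153)
 (EL.cons 8 (TM.mk (P.cons (P.lf 157842459 0 0) (P.cons (P.lf 0 58353100 0) (P.cons (P.lf 3468227 0 0) (P.cons (P.lf 460355 0 0) (P.cons (P.lf 0 9599 0) (P.cons (P.lf 0 1439 0) P.nil)))))) 99)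
 EL.nil))
noncomputable def S212_227_512_660_19 : EL := (EL.cons 4 (TM.mk (P.cons (P.cons (P.lf 0 1212421 0) (P.cons (P.lf 0 15107909 0) (P.cons (P.lf 1010079 0 0) (P.lf 336692 0 0)))) (P.cons (P.cons (P.lf 0 1760485 0) (P.cons (P.lf 7904300 0 0) (P.cons (P.lf 0 528463 0) (P.lf 0 176154 0)))) (P.cons (P.cons (P.lf 968285 0 0) (P.cons (P.lf 0 968258 0) (P.cons (P.lf 64735 0 0) (P.lf 21578 0 0)))) (P.cons (P.cons (P.lf 0 29542 0) (P.cons (P.lf 0 83171 0) (P.cons (P.lf 5560 0 0) P.nil))) (P.cons (P.cons (P.lf 0 38398 0) (P.cons (P.lf 14722 0 0) P.nil)) (P.cons (P.cons (P.lf 3547 0 0) P.nil) P.nil)))))) 8540)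
 (EL.cons 8 (TM.mk (P.cons (P.cons (P.lf 0 2209996 0) (P.cons (P.lf 0 27538601 0) (P.cons (P.lf 1841166 0 0) (P.lf 613722 0 0)))) (P.cons (P.cons (P.lf 0 3686791 0) (P.cons (P.lf 8454216 0 0) (P.cons (P.lf 0 565229 0) (P.lf 0 188409 0)))) (P.cons (P.cons (P.lf 975473 0 0) (P.cons (P.lf 156928 0 0) (P.cons (P.lf 0 10491 0) (P.lf 0 3497 0)))) (P.cons (P.cons (P.lf 169033 0 0) (P.cons (P.lf 0 154132 0) (P.cons (P.lf 10304 0 0) P.nil))) (P.cons (P.cons (P.lf 0 37780 0) (P.cons (P.lf 0 4515 0) P.nil)) (P.cons (P.cons (P.lf 0 1985 0) P.nil) P.nil)))))) 7091)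
 EL.nil))
noncomputable def S212_227_512_660_20 : EL := (EL.cons 4 (TM.mk (P.cons (P.cons (P.lf 16975 0 0) (P.cons (P.lf 423060 0 0) (P.cons (P.lf 2607575 0 0) (P.cons (P.lf 0 361882 0) (P.cons (P.lf 0 105702 0) (P.cons (P.lf 7854 0 0) P.nil)))))) (P.cons (P.cons (P.lf 59243 0 0) (P.cons (P.lf 640824 0 0) (P.cons (P.lf 0 1256638 0) (P.cons (P.lf 148020 0 0) (P.cons (P.lf 48675 0 0) P.nil))))) (P.cons (P.cons (P.lf 41598 0 0) (P.cons (P.lf 0 301257 0) (P.cons (P.lf 90767 0 0) (P.cons (P.lf 0 2730 0) P.nil)))) (P.cons (P.cons (P.lf 0 20353 0) (P.cons (P.lf 0 13785 0) (P.cons (P.lf 31275 0 0) P.nil))) (P.cons (P.cons (P.lf 0 2993 0) (P.cons (P.lf 15345 0 0) P.nil)) (P.cons (P.cons (P.lf 1360 0 0) P.nil) P.nil)))))) 56668)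
 (EL.cons 8 (TM.mk (P.cons (P.cons (P.lf 30942 0 0) (P.cons (P.lf 771151 0 0) (P.cons (P.lf 4753072 0 0) (P.cons (P.lf 0 659638 0) (P.cons (P.lf 0 192674 0) (P.cons (P.lf 14317 0 0) P.nil)))))) (P.cons (P.cons (P.lf 114678 0 0) (P.cons (P.lf 1334809 0 0) (P.cons (P.lf 0 1263004 0) (P.cons (P.lf 127202 0 0) (P.cons (P.lf 47069 0 0) P.nil))))) (P.cons (P.cons (P.lf 100514 0 0) (P.cons (P.lf 0 263186 0) (P.cons (P.lf 0 123845 0) (P.cons (P.lf 24778 0 0) P.nil)))) (P.cons (P.cons (P.lf 0 15752 0) (P.cons (P.lf 0 86378 0) (P.cons (P.lf 35855 0 0) P.nil))) (P.cons (P.cons (P.lf 0 9174 0) (P.cons (P.lf 10559 0 0) P.nil)) (P.cons (P.cons (P.lf 577 0 0) P.nil) P.nil)))))) 57780)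
 EL.nil))
noncomputable def S212_227_512_660_21 : EL := (EL.cons 4 (TM.mk (P.cons (P.cons (P.lf 1528789650 0 0) (P.cons (P.lf 586078107 0 0) (P.cons (P.lf 0 39183813 0) (P.lf 0 13061268 0)))) (P.cons (P.cons (P.lf 451540503 0 0) (P.cons (P.lf 0 77713149 0) (P.cons (P.lf 5195721 0 0) (P.lf 1731906 0 0)))) (P.cons (P.cons (P.lf 0 35178897 0) (P.cons (P.lf 0 11588079 0) (P.cons (P.lf 774747 0 0) (P.lf 258246 0 0)))) (P.cons (P.cons (P.lf 0 5175840 0) (P.cons (P.lf 294447 0 0) (P.cons (P.lf 0 19686 0) P.nil))) (P.cons (P.cons (P.lf 109419 0 0) (P.cons (P.lf 63093 0 0) P.nil)) (P.cons (P.cons (P.lf 22818 0 0) P.nil) P.nil)))))) 32388)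
 (EL.cons 8 (TM.mk (P.cons (P.cons (P.lf 0 298206921 0) (P.cons (P.lf 0 114320865 0) (P.cons (P.lf 7643232 0 0) (P.lf 2547744 0 0)))) (P.cons (P.cons (P.lf 0 23607168 0) (P.cons (P.lf 39874317 0 0) (P.cons (P.lf 0 2665899 0) (P.lf 0 888633 0)))) (P.cons (P.cons (P.lf 24884877 0 0) (P.cons (P.lf 0 1407537 0) (P.cons (P.lf 94104 0 0) (P.lf 31368 0 0)))) (P.cons (P.cons (P.lf 0 693018 0) (P.cons (P.lf 0 462912 0) (P.cons (P.lf 30942 0 0) P.nil))) (P.cons (P.cons (P.lf 0 193977 0) (P.cons (P.lf 2898 0 0) P.nil)) (P.cons (P.cons (P.lf 1236 0 0) P.nil) P.nil)))))) 28362)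
 (EL.cons 11 (TM.mk (P.cons (P.cons (P.lf 2698997019 0 0) (P.cons (P.lf 0 417872517 0) (P.cons (P.lf 0 201317799 0) (P.cons (P.lf 7618458 0 0) (P.lf 1904613 0 0))))) (P.cons (P.cons (P.lf 112812465 0 0) (P.cons (P.lf 0 17466201 0) (P.cons (P.lf 0 8414664 0) (P.cons (P.lf 318435 0 0) (P.lf 79608 0 0))))) (P.cons (P.cons (P.lf 0 9262611 0) (P.cons (P.lf 1434084 0 0) (P.cons (P.lf 690894 0 0) (P.cons (P.lf 0 26145 0) P.nil)))) (P.cons (P.cons (P.lf 0 442581 0) (P.cons (P.lf 68520 0 0) (P.cons (P.lf 33012 0 0) P.nil))) (P.cons (P.cons (P.lf 14046 0 0) (P.cons (P.lf 0 2172 0) P.nil)) (P.cons (P.cons (P.lf 933 0 0) P.nil) P.nil)))))) 9756)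
 EL.nil)))
noncomputable def S212_227_512_660_22 : EL := (EL.cons 4 (TM.mk (P.cons (P.cons (P.lf 0 21405009 0) (P.cons (P.lf 0 274932099 0) (P.cons (P.lf 0 83871084 0) (P.cons (P.lf 19799820 0 0) (P.cons (P.lf 4100505 0 0) (P.cons (P.lf 0 304707 0) P.nil)))))) (P.cons (P.cons (P.lf 0 49943982 0) (P.cons (P.lf 0 111137502 0) (P.cons (P.lf 14578014 0 0) (P.cons (P.lf 1521048 0 0) (P.cons (P.lf 0 286632 0) P.nil))))) (P.cons (P.cons (P.lf 0 18599844 0) (P.cons (P.lf 2396337 0 0) (P.cons (P.lf 3171006 0 0) (P.cons (P.lf 0 498837 0) P.nil)))) (P.cons (P.cons (P.lf 0 394500 0) (P.cons (P.lf 2518530 0 0) (P.cons (P.lf 0 117288 0) P.nil))) (P.cons (P.cons (P.lf 426792 0 0) (P.cons (P.lf 67005 0 0) P.nil)) (P.cons (P.cons (P.lf 17616 0 0) P.nil) P.nil)))))) 491937)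
 (EL.cons 8 (TM.mk (P.cons (P.cons (P.lf 4175277 0 0) (P.cons (P.lf 53628471 0 0) (P.cons (P.lf 16359960 0 0) (P.cons (P.lf 0 3862167 0) (P.cons (P.lf 0 799848 0) (P.cons (P.lf 59436 0 0) P.nil)))))) (P.cons (P.cons (P.lf 8839440 0 0) (P.cons (P.lf 10084389 0 0) (P.cons (P.lf 0 6380529 0) (P.cons (P.lf 538278 0 0) (P.cons (P.lf 228831 0 0) P.nil))))) (P.cons (P.cons (P.lf 1536177 0 0) (P.cons (P.lf 0 4970946 0) (P.cons (P.lf 52137 0 0) (P.cons (P.lf 148248 0 0) P.nil)))) (P.cons (P.cons (P.lf 0 675276 0) (P.cons (P.lf 0 330855 0) (P.cons (P.lf 142392 0 0) P.nil))) (P.cons (P.cons (P.lf 0 90135 0) (P.cons (P.lf 85947 0 0) P.nil)) (P.cons (P.cons (P.lf 13890 0 0) P.nil) P.nil)))))) 154056)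
 (EL.cons 11 (TM.mk (P.cons (P.cons (P.lf 0 37789410 0) (P.cons (P.lf 0 465040305 0) (P.cons (P.lf 107207145 0 0) (P.cons (P.lf 40636941 0 0) (P.cons (P.lf 0 5328909 0) (P.cons (P.lf 0 1026192 0) P.nil)))))) (P.cons (P.cons (P.lf 0 78591558 0) (P.cons (P.lf 0 37037718 0) (P.cons (P.lf 16770177 0 0) (P.cons (P.lf 4035654 0 0) (P.cons (P.lf 0 609516 0) P.nil))))) (P.cons (P.cons (P.lf 0 14049729 0) (P.cons (P.lf 4672821 0 0) (P.cons (P.lf 494298 0 0) (P.cons (P.lf 0 255756 0) P.nil)))) (P.cons (P.cons (P.lf 453102 0 0) (P.cons (P.lf 365442 0 0) (P.cons (P.lf 0 130356 0) P.nil))) (P.cons (P.cons (P.lf 130827 0 0) (P.cons (P.lf 0 21972 0) P.nil)) (P.cons (P.cons (P.lf 303 0 0) P.nil) P.nil)))))) 353493)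
 EL.nil)))
noncomputable def S212_227_512_660_23 : EL := (EL.cons 4 (TM.mk (P.cons (P.cons (P.lf 0 425140815 0) (P.cons (P.lf 0 162982347 0) (P.cons (P.lf 10896618 0 0) (P.lf 3632205 0 0)))) (P.cons (P.cons (P.lf 0 42540720 0) (P.cons (P.lf 53440953 0 0) (P.cons (P.lf 0 3572937 0) (P.lf 0 1190976 0)))) (P.cons (P.cons (P.lf 35596290 0 0) (P.cons (P.lf 0 503370 0) (P.cons (P.lf 33654 0 0) (P.lf 11217 0 0)))) (P.cons (P.cons (P.lf 0 163812 0) (P.cons (P.lf 0 805086 0) (P.cons (P.lf 53823 0 0) P.nil))) (P.cons (P.cons (P.lf 0 365094 0) (P.cons (P.lf 0 8391 0) P.nil)) (P.cons (P.cons (P.lf 0 3639 0) P.nil) P.nil)))))) 35559)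
 (EL.cons 8 (TM.mk (P.cons (P.cons (P.lf 82928304 0 0) (P.cons (P.lf 31791465 0 0) (P.cons (P.lf 0 2125503 0) (P.lf 0 708501 0)))) (P.cons (P.cons (P.lf 0 9630609 0) (P.cons (P.lf 0 17297370 0) (P.cons (P.lf 1156458 0 0) (P.lf 385485 0 0)))) (P.cons (P.cons (P.lf 0 8454030 0) (P.cons (P.lf 2460489 0 0) (P.cons (P.lf 0 164502 0) (P.lf 0 54834 0)))) (P.cons (P.cons (P.lf 1538667 0 0) (P.cons (P.lf 91455 0 0) (P.cons (P.lf 0 6111 0) P.nil))) (P.cons (P.cons (P.lf 38856 0 0) (P.cons (P.lf 0 28899 0) P.nil)) (P.cons (P.cons (P.lf 0 12642 0) P.nil) P.nil)))))) 15117)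
 (EL.cons 11 (TM.mk (P.cons (P.cons (P.lf 0 750563556 0) (P.cons (P.lf 116206086 0 0) (P.cons (P.lf 55984425 0 0) (P.cons (P.lf 0 2118615 0) (P.lf 0 529653 0))))) (P.cons (P.cons (P.lf 115209687 0 0) (P.cons (P.lf 0 17837352 0) (P.cons (P.lf 0 8593473 0) (P.cons (P.lf 325200 0 0) (P.lf 81300 0 0))))) (P.cons (P.cons (P.lf 10980738 0 0) (P.cons (P.lf 0 1700091 0) (P.cons (P.lf 0 819048 0) (P.cons (P.lf 30993 0 0) P.nil)))) (P.cons (P.cons (P.lf 0 414918 0) (P.cons (P.lf 64239 0 0) (P.cons (P.lf 30948 0 0) P.nil))) (P.cons (P.cons (P.lf 0 44907 0) (P.cons (P.lf 6951 0 0) P.nil)) (P.cons (P.cons (P.lf 519 0 0) P.nil) P.nil)))))) 15090)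
 EL.nil)))
noncomputable def S212_227_512_660_24 : EL := (EL.cons 4 (TM.mk (P.cons (P.cons (P.lf 5952513 0 0) (P.cons (P.lf 76455813 0 0) (P.cons (P.lf 23323692 0 0) (P.cons (P.lf 0 5506125 0) (P.cons (P.lf 0 1140309 0) (P.cons (P.lf 84735 0 0) P.nil)))))) (P.cons (P.cons (P.lf 12726411 0 0) (P.cons (P.lf 15974730 0 0) (P.cons (P.lf 0 8609007 0) (P.cons (P.lf 652332 0 0) (P.cons (P.lf 302406 0 0) P.nil))))) (P.cons (P.cons (P.lf 2441916 0 0) (P.cons (P.lf 0 6934296 0) (P.cons (P.lf 0 160887 0) (P.cons (P.lf 238041 0 0) P.nil)))) (P.cons (P.cons (P.lf 0 941565 0) (P.cons (P.lf 0 650778 0) (P.cons (P.lf 221181 0 0) P.nil))) (P.cons (P.cons (P.lf 0 153372 0) (P.cons (P.lf 125904 0 0) P.nil)) (P.cons (P.cons (P.lf 18909 0 0) P.nil) P.nil)))))) 251412)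
 (EL.cons 8 (TM.mk (P.cons (P.cons (P.lf 0 1161102 0) (P.cons (P.lf 0 14913531 0) (P.cons (P.lf 0 4549536 0) (P.cons (P.lf 1074030 0 0) (P.cons (P.lf 222429 0 0) (P.cons (P.lf 0 16527 0) P.nil)))))) (P.cons (P.cons (P.lf 0 2231400 0) (P.cons (P.lf 108177 0 0) (P.cons (P.lf 2662863 0 0) (P.cons (P.lf 0 359442 0) (P.cons (P.lf 0 107073 0) P.nil))))) (P.cons (P.cons (P.lf 56394 0 0) (P.cons (P.lf 1975314 0 0) (P.cons (P.lf 0 347214 0) (P.cons (P.lf 0 15252 0) P.nil)))) (P.cons (P.cons (P.lf 278475 0 0) (P.cons (P.lf 0 172035 0) (P.cons (P.lf 0 42939 0) P.nil))) (P.cons (P.cons (P.lf 0 10743 0) (P.cons (P.lf 0 46623 0) P.nil)) (P.cons (P.cons (P.lf 0 9414 0) P.nil) P.nil)))))) 75393)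
 (EL.cons 11 (TM.mk (P.cons (P.cons (P.lf 10508850 0 0) (P.cons (P.lf 129322968 0 0) (P.cons (P.lf 0 29813214 0) (P.cons (P.lf 0 11300718 0) (P.cons (P.lf 1481913 0 0) (P.cons (P.lf 285372 0 0) P.nil)))))) (P.cons (P.cons (P.lf 19803180 0 0) (P.cons (P.lf 0 14956380 0) (P.cons (P.lf 1158768 0 0) (P.cons (P.lf 1084704 0 0) (P.cons (P.lf 0 119910 0) P.nil))))) (P.cons (P.cons (P.lf 0 393090 0) (P.cons (P.lf 0 3703488 0) (P.cons (P.lf 863811 0 0) (P.cons (P.lf 324597 0 0) P.nil)))) (P.cons (P.cons (P.lf 0 953550 0) (P.cons (P.lf 143316 0 0) (P.cons (P.lf 72081 0 0) P.nil))) (P.cons (P.cons (P.lf 0 19791 0) (P.cons (P.lf 32325 0 0) P.nil)) (P.cons (P.cons (P.lf 8184 0 0) P.nil) P.nil)))))) 190524)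
 EL.nil)))
noncomputable def S212_227_512_660_25 : EL := (EL.cons 4 (TM.mk (P.cons (P.cons (P.lf 118227327 0 0) (P.cons (P.lf 45323727 0 0) (P.cons (P.lf 0 3030237 0) (P.lf 0 1010079 0)))) (P.cons (P.cons (P.lf 0 11259123 0) (P.cons (P.lf 0 23712903 0) (P.cons (P.lf 1585389 0 0) (P.lf 528462 0 0)))) (P.cons (P.cons (P.lf 0 12568179 0) (P.cons (P.lf 2904777 0 0) (P.cons (P.lf 0 194205 0) (P.lf 0 64734 0)))) (P.cons (P.cons (P.lf 1963374 0 0) (P.cons (P.lf 249513 0 0) (P.cons (P.lf 0 16680 0) P.nil))) (P.cons (P.cons (P.lf 125313 0 0) (P.cons (P.lf 0 44166 0) P.nil)) (P.cons (P.cons (P.lf 0 20625 0) P.nil) P.nil)))))) 28344)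
 (EL.cons 8 (TM.mk (P.cons (P.cons (P.lf 0 23061516 0) (P.cons (P.lf 0 8840880 0) (P.cons (P.lf 591081 0 0) (P.lf 197025 0 0)))) (P.cons (P.cons (P.lf 7181985 0 0) (P.cons (P.lf 6536805 0 0) (P.cons (P.lf 0 437034 0) (P.lf 0 145677 0)))) (P.cons (P.cons (P.lf 1897938 0 0) (P.cons (P.lf 0 1596816 0) (P.cons (P.lf 106758 0 0) (P.lf 35586 0 0)))) (P.cons (P.cons (P.lf 0 899151 0) (P.cons (P.lf 92061 0 0) (P.cons (P.lf 0 6153 0) P.nil))) (P.cons (P.cons (P.lf 65973 0 0) (P.cons (P.lf 15870 0 0) P.nil)) (P.cons (P.cons (P.lf 7347 0 0) P.nil) P.nil)))))) 10857)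
 (EL.cons 11 (TM.mk (P.cons (P.cons (P.lf 208724073 0 0) (P.cons (P.lf 0 32315727 0) (P.cons (P.lf 0 15568698 0) (P.cons (P.lf 589164 0 0) (P.lf 147291 0 0))))) (P.cons (P.cons (P.lf 0 72801510 0) (P.cons (P.lf 11271501 0 0) (P.cons (P.lf 5430252 0 0) (P.cons (P.lf 0 205494 0) (P.lf 0 51372 0))))) (P.cons (P.cons (P.lf 2569854 0 0) (P.cons (P.lf 0 397878 0) (P.cons (P.lf 0 191685 0) (P.cons (P.lf 7251 0 0) P.nil)))) (P.cons (P.cons (P.lf 845184 0 0) (P.cons (P.lf 0 130854 0) (P.cons (P.lf 0 63042 0) P.nil))) (P.cons (P.cons (P.lf 0 5301 0) (P.cons (P.lf 819 0 0) P.nil)) (P.cons (P.cons (P.lf 0 3648 0) P.nil) P.nil)))))) 16893)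
 EL.nil)))
noncomputable def S212_227_512_660_26 : EL := (EL.cons 4 (TM.mk (P.cons (P.cons (P.lf 0 1655331 0) (P.cons (P.lf 0 21261582 0) (P.cons (P.lf 0 6486081 0) (P.cons (P.lf 1531197 0 0) (P.cons (P.lf 317106 0 0) (P.cons (P.lf 0 23562 0) P.nil)))))) (P.cons (P.cons (P.lf 0 3215805 0) (P.cons (P.lf 0 290118 0) (P.cons (P.lf 3660780 0 0) (P.cons (P.lf 0 480441 0) (P.cons (P.lf 0 146025 0) P.nil))))) (P.cons (P.cons (P.lf 17118 0 0) (P.cons (P.lf 2860470 0 0) (P.cons (P.lf 0 403122 0) (P.cons (P.lf 0 35415 0) P.nil)))) (P.cons (P.cons (P.lf 404913 0 0) (P.cons (P.lf 0 185826 0) (P.cons (P.lf 0 78636 0) P.nil))) (P.cons (P.cons (P.lf 0 7044 0) (P.cons (P.lf 0 77085 0) P.nil)) (P.cons (P.cons (P.lf 0 14517 0) P.nil) P.nil)))))) 103974)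
 (EL.cons 8 (TM.mk (P.cons (P.cons (P.lf 322890 0 0) (P.cons (P.lf 4147299 0 0) (P.cons (P.lf 1265178 0 0) (P.cons (P.lf 0 298674 0) (P.cons (P.lf 0 61854 0) (P.cons (P.lf 4596 0 0) P.nil)))))) (P.cons (P.cons (P.lf 557469 0 0) (P.cons (P.lf 0 840030 0) (P.cons (P.lf 0 987597 0) (P.cons (P.lf 158286 0 0) (P.cons (P.lf 41856 0 0) P.nil))))) (P.cons (P.cons (P.lf 0 137847 0) (P.cons (P.lf 0 556026 0) (P.cons (P.lf 237336 0 0) (P.cons (P.lf 0 14373 0) P.nil)))) (P.cons (P.cons (P.lf 0 76206 0) (P.cons (P.lf 155931 0 0) (P.cons (P.lf 0 4446 0) P.nil))) (P.cons (P.cons (P.lf 18267 0 0) (P.cons (P.lf 5304 0 0) P.nil)) (P.cons (P.cons (P.lf 2268 0 0) P.nil) P.nil)))))) 36198)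
 (EL.cons 11 (TM.mk (P.cons (P.cons (P.lf 0 2922402 0) (P.cons (P.lf 0 35963397 0) (P.cons (P.lf 8290749 0 0) (P.cons (P.lf 3142614 0 0) (P.cons (P.lf 0 412104 0) (P.cons (P.lf 0 79359 0) P.nil)))))) (P.cons (P.cons (P.lf 0 4936329 0) (P.cons (P.lf 11182704 0 0) (P.cons (P.lf 0 1941387 0) (P.cons (P.lf 0 915381 0) (P.cons (P.lf 113826 0 0) P.nil))))) (P.cons (P.cons (P.lf 1193688 0 0) (P.cons (P.lf 326781 0 0) (P.cons (P.lf 0 202446 0) (P.cons (P.lf 0 40896 0) P.nil)))) (P.cons (P.cons (P.lf 260031 0 0) (P.cons (P.lf 0 259851 0) (P.cons (P.lf 29283 0 0) P.nil))) (P.cons (P.cons (P.lf 0 47583 0) (P.cons (P.lf 0 3786 0) P.nil)) (P.cons (P.cons (P.lf 0 4161 0) P.nil) P.nil)))))) 97200)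
 EL.nil)))
noncomputable def S212_227_512_660_27 : EL := (EL.cons 13 (TM.mk (P.lf 0 4294967296 0) 0)
 EL.nil)
noncomputable def S212_227_512_660_28 : EL := (EL.cons 13 (TM.mk (P.cons (P.cons (P.lf 60135039 0 0) (P.cons (P.lf 749338244 0 0) (P.cons (P.lf 0 50099008 0) (P.lf 0 16699668 0)))) (P.cons (P.cons (P.lf 122550782 0 0) (P.cons (P.lf 46981168 0 0) (P.cons (P.lf 0 3141048 0) (P.lf 0 1047016 0)))) (P.cons (P.cons (P.lf 17441622 0 0) (P.cons (P.lf 0 3366516 0) (P.cons (P.lf 225076 0 0) (P.lf 75024 0 0)))) (P.cons (P.cons (P.lf 0 1019616 0) (P.cons (P.lf 0 268348 0) (P.cons (P.lf 17936 0 0) P.nil))) (P.cons (P.cons (P.lf 0 85931 0) (P.cons (P.lf 6200 0 0) P.nil)) (P.cons (P.cons (P.lf 1808 0 0) P.nil) P.nil)))))) 8797)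
 EL.nil)
noncomputable def S212_227_512_660_29 : EL := (EL.cons 13 (TM.mk (P.cons (P.cons (P.lf 0 841967 0) (P.cons (P.lf 0 20983388 0) (P.cons (P.lf 0 129333322 0) (P.cons (P.lf 17949071 0 0) (P.cons (P.lf 5242761 0 0) (P.cons (P.lf 0 389589 0) P.nil)))))) (P.cons (P.cons (P.lf 0 3431735 0) (P.cons (P.lf 0 44078194 0) (P.cons (P.lf 0 13446540 0) (P.cons (P.lf 3174383 0 0) (P.cons (P.lf 657409 0 0) P.nil))))) (P.cons (P.cons (P.lf 0 3985222 0) (P.cons (P.lf 0 8672851 0) (P.cons (P.lf 1240640 0 0) (P.cons (P.lf 104924 0 0) P.nil)))) (P.cons (P.cons (P.lf 0 966791 0) (P.cons (P.lf 173838 0 0) (P.cons (P.lf 155664 0 0) P.nil))) (P.cons (P.cons (P.lf 0 10236 0) (P.cons (P.lf 94773 0 0) P.nil)) (P.cons (P.cons (P.lf 13134 0 0) P.nil) P.nil)))))) 294364)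
 EL.nil)
noncomputable def S212_227_512_660_30 : EL := (EL.cons 13 (TM.mk (P.cons (P.lf 1194386624 0 0) (P.cons (P.lf 0 233258332 0) (P.cons (P.lf 0 3625172 0) (P.cons (P.lf 207136 0 0) (P.cons (P.lf 5900 0 0) (P.cons (P.lf 0 156 0) P.nil)))))) 48)
 EL.nil)
noncomputable def S212_227_512_660_31 : EL := (EL.cons 13 (TM.mk (P.cons (P.cons (P.lf 0 16722941 0) (P.cons (P.lf 0 208383327 0) (P.cons (P.lf 13932023 0 0) (P.lf 4644007 0 0)))) (P.cons (P.cons (P.lf 0 30814208 0) (P.cons (P.lf 27631342 0 0) (P.cons (P.lf 0 1847368 0) (P.lf 0 615789 0)))) (P.cons (P.cons (P.lf 1856114 0 0) (P.cons (P.lf 4120206 0 0) (P.cons (P.lf 0 275466 0) (P.lf 0 91821 0)))) (P.cons (P.cons (P.lf 1331332 0 0) (P.cons (P.lf 0 104693 0) (P.cons (P.lf 7000 0 0) P.nil))) (P.cons (P.cons (P.lf 0 22749 0) (P.cons (P.lf 0 22434 0) P.nil)) (P.cons (P.cons (P.lf 0 7037 0) P.nil) P.nil))))))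 11385)
 EL.nil)
noncomputable def S212_227_512_660_32 : EL := (EL.cons 13 (TM.mk (P.cons (P.cons (P.lf 234142 0 0) (P.cons (P.lf 5835266 0 0) (P.cons (P.lf 35966278 0 0) (P.cons (P.lf 0 4991453 0) (P.cons (P.lf 0 1457958 0) (P.cons (P.lf 108340 0 0) P.nil)))))) (P.cons (P.cons (P.lf 908603 0 0) (P.cons (P.lf 11118095 0 0) (P.cons (P.lf 0 3284706 0) (P.cons (P.lf 92044 0 0) (P.cons (P.lf 101913 0 0) P.nil))))) (P.cons (P.cons (P.lf 921162 0 0) (P.cons (P.lf 247 0 0) (P.cons (P.lf 0 1184450 0) (P.cons (P.lf 158371 0 0) P.nil)))) (P.cons (P.cons (P.lf 49562 0 0) (P.cons (P.lf 0 555554 0) (P.cons (P.lf 18978 0 0) P.nil))) (P.cons (P.cons (P.lf 0 52856 0) (P.cons (P.lf 0 22080 0) P.nil)) (P.cons (P.cons (P.lf 0 4827 0) P.nil) P.nil)))))) 187357)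
 EL.nil)
noncomputable def S212_227_512_660_33 : EL := (EL.cons 14 (TM.mk (P.lf 8589934592 0 0) 0)
 EL.nil)
noncomputable def S212_227_512_660_34 : EL := (EL.cons 14 (TM.mk (P.cons (P.cons (P.lf 0 120270078 0) (P.cons (P.lf 0 1498676488 0) (P.cons (P.lf 100198016 0 0) (P.lf 33399336 0 0)))) (P.cons (P.cons (P.lf 0 245101564 0) (P.cons (P.lf 0 93962336 0) (P.cons (P.lf 6282096 0 0) (P.lf 2094032 0 0)))) (P.cons (P.cons (P.lf 0 34883244 0) (P.cons (P.lf 6733032 0 0) (P.cons (P.lf 0 450152 0) (P.lf 0 150048 0)))) (P.cons (P.cons (P.lf 2039232 0 0) (P.cons (P.lf 536696 0 0) (P.cons (P.lf 0 35872 0) P.nil))) (P.cons (P.cons (P.lf 171862 0 0) (P.cons (P.lf 0 12400 0) P.nil)) (P.cons (P.cons (P.lf 0 3616 0) P.nil) P.nil)))))) 17594)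
 EL.nil)
noncomputable def S212_227_512_660_35 : EL := (EL.cons 14 (TM.mk (P.cons (P.cons (P.lf 1683934 0 0) (P.cons (P.lf 41966776 0 0) (P.cons (P.lf 258666644 0 0) (P.cons (P.lf 0 35898142 0) (P.cons (P.lf 0 10485522 0) (P.cons (P.lf 779178 0 0) P.nil)))))) (P.cons (P.cons (P.lf 6863470 0 0) (P.cons (P.lf 88156388 0 0) (P.cons (P.lf 26893080 0 0) (P.cons (P.lf 0 6348766 0) (P.cons (P.lf 0 1314818 0) P.nil))))) (P.cons (P.cons (P.lf 7970444 0 0) (P.cons (P.lf 17345702 0 0) (P.cons (P.lf 0 2481280 0) (P.cons (P.lf 0 209848 0) P.nil)))) (P.cons (P.cons (P.lf 1933582 0 0) (P.cons (P.lf 0 347676 0) (P.cons (P.lf 0 311328 0) P.nil))) (P.cons (P.cons (P.lf 20472 0 0) (P.cons (P.lf 0 189546 0) P.nil)) (P.cons (P.cons (P.lf 0 26268 0) P.nil) P.nil)))))) 588728)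
 EL.nil)
noncomputable def S212_227_512_660_36 : EL := (EL.cons 14 (TM.mk (P.cons (P.lf 0 2388773248 0) (P.cons (P.lf 466516664 0 0) (P.cons (P.lf 7250344 0 0) (P.cons (P.lf 0 414272 0) (P.cons (P.lf 0 11800 0) (P.cons (P.lf 312 0 0) P.nil)))))) 96)
 EL.nil)
noncomputable def S212_227_512_660_37 : EL := (EL.cons 14 (TM.mk (P.cons (P.cons (P.lf 33445882 0 0) (P.cons (P.lf 416766654 0 0) (P.cons (P.lf 0 27864046 0) (P.lf 0 9288014 0)))) (P.cons (P.cons (P.lf 61628416 0 0) (P.cons (P.lf 0 55262684 0) (P.cons (P.lf 3694736 0 0) (P.lf 1231578 0 0)))) (P.cons (P.cons (P.lf 0 3712228 0) (P.cons (P.lf 0 8240412 0) (P.cons (P.lf 550932 0 0) (P.lf 183642 0 0)))) (P.cons (P.cons (P.lf 0 2662664 0) (P.cons (P.lf 209386 0 0) (P.cons (P.lf 0 14000 0) P.nil))) (P.cons (P.cons (P.lf 45498 0 0) (P.cons (P.lf 44868 0 0) P.nil)) (P.cons (P.cons (P.lf 14074 0 0) P.nil) P.nil))))))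 22770)
 EL.nil)
noncomputable def S212_227_512_660_38 : EL := (EL.cons 14 (TM.mk (P.cons (P.cons (P.lf 0 468284 0) (P.cons (P.lf 0 11670532 0) (P.cons (P.lf 0 71932556 0) (P.cons (P.lf 9982906 0 0) (P.cons (P.lf 2915916 0 0) (P.cons (P.lf 0 216680 0) P.nil)))))) (P.cons (P.cons (P.lf 0 1817206 0) (P.cons (P.lf 0 22236190 0) (P.cons (P.lf 6569412 0 0) (P.cons (P.lf 0 184088 0) (P.cons (P.lf 0 203826 0) P.nil))))) (P.cons (P.cons (P.lf 0 1842324 0) (P.cons (P.lf 0 494 0) (P.cons (P.lf 2368900 0 0) (P.cons (P.lf 0 316742 0) P.nil)))) (P.cons (P.cons (P.lf 0 99124 0) (P.cons (P.lf 1111108 0 0) (P.cons (P.lf 0 37956 0) P.nil))) (P.cons (P.cons (P.lf 105712 0 0) (P.cons (P.lf 44160 0 0) P.nil)) (P.cons (P.cons (P.lf 9654 0 0) P.nil) P.nil)))))) 374714)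
 EL.nil)
noncomputable def S212_227_512_660_39 : EL := (EL.cons 14 (TM.mk (P.cons (P.lf 664293490 0 0) (P.cons (P.lf 0 259467056 0) (P.cons (P.lf 21303880 0 0) (P.cons (P.lf 1017936 0 0) (P.cons (P.lf 0 32314 0) (P.cons (P.lf 0 2154 0) P.nil)))))) 152)
 EL.nil)
noncomputable def S212_227_512_660_40 : EL := (EL.cons 14 (TM.mk (P.cons (P.cons (P.lf 0 9300958 0) (P.cons (P.lf 0 115898558 0) (P.cons (P.lf 7748706 0 0) (P.lf 2582902 0 0)))) (P.cons (P.cons (P.lf 0 15321798 0) (P.cons (P.lf 38002454 0 0) (P.cons (P.lf 0 2540756 0) (P.lf 0 846918 0)))) (P.cons (P.cons (P.lf 4407582 0 0) (P.cons (P.lf 0 357950 0) (P.cons (P.lf 23932 0 0) (P.lf 7976 0 0)))) (P.cons (P.cons (P.lf 589254 0 0) (P.cons (P.lf 0 572506 0) (P.cons (P.lf 38276 0 0) P.nil))) (P.cons (P.cons (P.lf 0 163412 0) (P.cons (P.lf 0 5968 0) P.nil)) (P.cons (P.cons (P.lf 0 3594 0) P.nil) P.nil))))))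 24396)
 EL.nil)
noncomputable def S212_227_512_660_41 : EL := (EL.cons 14 (TM.mk (P.cons (P.cons (P.lf 130224 0 0) (P.cons (P.lf 3245456 0 0) (P.cons (P.lf 20003710 0 0) (P.cons (P.lf 0 2776144 0) (P.cons (P.lf 0 810886 0) (P.cons (P.lf 60256 0 0) P.nil)))))) (P.cons (P.cons (P.lf 479914 0 0) (P.cons (P.lf 5549834 0 0) (P.cons (P.lf 0 5733520 0) (P.cons (P.lf 593362 0 0) (P.cons (P.lf 215044 0 0) P.nil))))) (P.cons (P.cons (P.lf 413244 0 0) (P.cons (P.lf 0 1217352 0) (P.cons (P.lf 0 362698 0) (P.cons (P.lf 86510 0 0) P.nil)))) (P.cons (P.cons (P.lf 0 74000 0) (P.cons (P.lf 0 327220 0) (P.cons (P.lf 148222 0 0) P.nil))) (P.cons (P.cons (P.lf 0 36246 0) (P.cons (P.lf 49150 0 0) P.nil)) (P.cons (P.cons (P.lf 3062 0 0) P.nil) P.nil)))))) 220496)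
 EL.nil)
noncomputable def S212_227_512_660_42 : EL := (EL.cons 14 (TM.mk (P.cons (P.lf 0 184733248 0) (P.cons (P.lf 108232714 0 0) (P.cons (P.lf 0 19455268 0) (P.cons (P.lf 622888 0 0) (P.cons (P.lf 93852 0 0) (P.cons (P.lf 0 942 0) P.nil)))))) 312)
 EL.nil)
noncomputable def S212_227_512_660_43 : EL := (EL.cons 14 (TM.mk (P.cons (P.cons (P.lf 2586500 0 0) (P.cons (P.lf 32230206 0 0) (P.cons (P.lf 0 2154836 0) (P.lf 0 718278 0)))) (P.cons (P.cons (P.lf 3755702 0 0) (P.cons (P.lf 0 16862508 0) (P.cons (P.lf 1127388 0 0) (P.lf 375796 0 0)))) (P.cons (P.cons (P.lf 0 2065676 0) (P.cons (P.lf 2065618 0 0) (P.cons (P.lf 0 138102 0) (P.lf 0 46034 0)))) (P.cons (P.cons (P.lf 63024 0 0) (P.cons (P.lf 177432 0 0) (P.cons (P.lf 0 11862 0) P.nil))) (P.cons (P.cons (P.lf 81916 0 0) (P.cons (P.lf 0 31408 0) P.nil)) (P.cons (P.cons (P.lf 0 7568 0) P.nil) P.nil)))))) 18180)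
 EL.nil)
noncomputable def S212_227_512_660_44 : EL := (EL.cons 14 (TM.mk (P.cons (P.cons (P.lf 0 36214 0) (P.cons (P.lf 0 902528 0) (P.cons (P.lf 0 5562828 0) (P.cons (P.lf 772016 0 0) (P.cons (P.lf 225498 0 0) (P.cons (P.lf 0 16756 0) P.nil)))))) (P.cons (P.cons (P.lf 0 126386 0) (P.cons (P.lf 0 1367092 0) (P.cons (P.lf 2680828 0 0) (P.cons (P.lf 0 315778 0) (P.cons (P.lf 0 103840 0) P.nil))))) (P.cons (P.cons (P.lf 0 88744 0) (P.cons (P.lf 642682 0 0) (P.cons (P.lf 0 193638 0) (P.cons (P.lf 5824 0 0) P.nil)))) (P.cons (P.cons (P.lf 43420 0 0) (P.cons (P.lf 29410 0 0) (P.cons (P.lf 0 66720 0) P.nil))) (P.cons (P.cons (P.lf 6386 0 0) (P.cons (P.lf 0 32738 0) P.nil)) (P.cons (P.cons (P.lf 0 2902 0) P.nil) P.nil)))))) 120846)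
 EL.nil)
noncomputable def S212_227_512_660_45 : EL := (EL.cons 14 (TM.mk (P.cons (P.cons (P.lf 0 23576 0) (P.cons (P.lf 0 881382 0) (P.cons (P.lf 0 10923918 0) (P.cons (P.lf 0 44130592 0) (P.cons (P.lf 9590334 0 0) (P.cons (P.lf 2405496 0 0) P.nil)))))) (P.cons (P.cons (P.lf 0 144146 0) (P.cons (P.lf 0 3647646 0) (P.cons (P.lf 0 23515538 0) (P.cons (P.lf 0 5322182 0) (P.cons (P.lf 2673804 0 0) P.nil))))) (P.cons (P.cons (P.lf 0 314274 0) (P.cons (P.lf 0 4393054 0) (P.cons (P.lf 0 5642844 0) (P.cons (P.lf 968590 0 0) P.nil)))) (P.cons (P.cons (P.lf 0 281970 0) (P.cons (P.lf 0 1257152 0) (P.cons (P.lf 0 1986 0) P.nil))) (P.cons (P.cons (P.lf 0 86162 0) (P.cons (P.lf 0 54146 0) P.nil)) (P.cons (P.cons (P.lf 0 6038 0) P.nil) P.nil)))))) 2098972)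
 EL.nil)
noncomputable def S212_227_512_660_46 : EL := (EL.cons 15 (TM.mk (P.lf 4294967296 0 0) 0)
 EL.nil)
noncomputable def S212_227_512_660_47 : EL := (EL.cons 15 (TM.mk (P.cons (P.cons (P.lf 0 60135039 0) (P.cons (P.lf 0 749338244 0) (P.cons (P.lf 50099008 0 0) (P.lf 16699668 0 0)))) (P.cons (P.cons (P.lf 0 122550782 0) (P.cons (P.lf 0 46981168 0) (P.cons (P.lf 3141048 0 0) (P.lf 1047016 0 0)))) (P.cons (P.cons (P.lf 0 17441622 0) (P.cons (P.lf 3366516 0 0) (P.cons (P.lf 0 225076 0) (P.lf 0 75024 0)))) (P.cons (P.cons (P.lf 1019616 0 0) (P.cons (P.lf 268348 0 0) (P.cons (P.lf 0 17936 0) P.nil))) (P.cons (P.cons (P.lf 85931 0 0) (P.cons (P.lf 0 6200 0) P.nil)) (P.cons (P.cons (P.lf 0 1808 0) P.nil) P.nil)))))) 8797)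
 EL.nil)
noncomputable def S212_227_512_660_48 : EL := (EL.cons 15 (TM.mk (P.cons (P.cons (P.lf 841967 0 0) (P.cons (P.lf 20983388 0 0) (P.cons (P.lf 129333322 0 0) (P.cons (P.lf 0 17949071 0) (P.cons (P.lf 0 5242761 0) (P.cons (P.lf 389589 0 0) P.nil)))))) (P.cons (P.cons (P.lf 3431735 0 0) (P.cons (P.lf 44078194 0 0) (P.cons (P.lf 13446540 0 0) (P.cons (P.lf 0 3174383 0) (P.cons (P.lf 0 657409 0) P.nil))))) (P.cons (P.cons (P.lf 3985222 0 0) (P.cons (P.lf 8672851 0 0) (P.cons (P.lf 0 1240640 0) (P.cons (P.lf 0 104924 0) P.nil)))) (P.cons (P.cons (P.lf 966791 0 0) (P.cons (P.lf 0 173838 0) (P.cons (P.lf 0 155664 0) P.nil))) (P.cons (P.cons (P.lf 10236 0 0) (P.cons (P.lf 0 94773 0) P.nil)) (P.cons (P.cons (P.lf 0 13134 0) P.nil) P.nil)))))) 294364)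
 EL.nil)
noncomputable def S212_227_512_660 : SL := (SL.cons S212_227_512_660_0 (SL.cons S212_227_512_660_1 (SL.cons S212_227_512_660_2 (SL.cons S212_227_512_660_3 (SL.cons S212_227_512_660_4 (SL.cons S212_227_512_660_5 (SL.cons S212_227_512_660_6 (SL.cons S212_227_512_660_7 (SL.cons S212_227_512_660_8 (SL.cons S212_227_512_660_9 (SL.cons S212_227_512_660_10 (SL.cons S212_227_512_660_11 (SL.cons S212_227_512_660_12 (SL.cons S212_227_512_660_13 (SL.cons S212_227_512_660_14 (SL.cons S212_227_512_660_15 (SL.cons S212_227_512_660_16 (SL.cons S212_227_512_660_17 (SL.cons S212_227_512_660_18 (SL.cons S212_227_512_660_19 (SL.cons S212_227_512_660_20 (SL.cons S212_227_512_660_21 (SL.cons S212_227_512_660_22 (SL.cons S212_227_512_660_23 (SL.cons S212_227_512_660_24 (SL.cons S212_227_512_660_25 (SL.cons S212_227_512_660_26 (SL.cons S212_227_512_660_27 (SL.cons S212_227_512_660_28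 (SL.cons S212_227_512_660_29 (SL.cons S212_227_512_660_30 (SL.cons S212_227_512_660_31 (SL.cons S212_227_512_660_32 (SL.cons S212_227_512_660_33 (SL.cons S212_227_512_660_34 (SL.cons S212_227_512_660_35 (SL.cons S212_227_512_660_36 (SL.cons S212_227_512_660_37 (SL.cons S212_227_512_660_38 (SL.cons S212_227_512_660_39 (SL.cons S212_227_512_660_40 (SL.cons S212_227_512_660_41 (SL.cons S212_227_512_660_42 (SL.cons S212_227_512_660_43 (SL.cons S212_227_512_660_44 (SL.cons S212_227_512_660_45 (SL.cons S212_227_512_660_46 (SL.cons S212_227_512_660_47 (SL.cons S212_227_512_660_48 SL.nil)))))))))))))))))))))))))))))))))))))))))))))))))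
noncomputable def S212_227_586_660_0 : EL := (EL.cons 0 (TM.mk (P.cons (P.lf 7871865163 0 0) (P.cons (P.lf 228047217 0 0) (P.cons (P.lf 0 18724113 0) (P.cons (P.lf 0 894670 0) (P.cons (P.lf 28400 0 0) (P.cons (P.lf 1893 0 0) P.nil)))))) 140)
 (EL.cons 1 (TM.mk (P.cons (P.lf 0 1064241138 0) (P.cons (P.lf 185599968 0 0) (P.cons (P.lf 9632411 0 0) (P.cons (P.lf 0 474855 0) (P.cons (P.lf 0 25702 0) (P.cons (P.lf 519 0 0) P.nil)))))) 134)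
 (EL.cons 5 (TM.mk (P.cons (P.lf 4502559014 0 0) (P.cons (P.lf 0 81083452 0) (P.cons (P.lf 6657460 0 0) (P.cons (P.lf 318104 0 0) (P.cons (P.lf 0 10096 0) (P.cons (P.lf 0 672 0) P.nil)))))) 143)
 (EL.cons 9 (TM.mk (P.lf 6442450944 0 0) 2)
 EL.nil))))
noncomputable def S212_227_586_660_1 : EL := (EL.cons 0 (TM.mk (P.cons (P.cons (P.lf 173843283 0 0) (P.cons (P.lf 0 489282601 0) (P.cons (P.lf 26771580 0 0) (P.lf 2974620 0 0)))) (P.cons (P.cons (P.lf 0 256680941 0) (P.cons (P.lf 0 103600590 0) (P.cons (P.lf 5668601 0 0) (P.lf 629833 0 0)))) (P.cons (P.cons (P.lf 0 101165741 0) (P.cons (P.lf 3613585 0 0) (P.cons (P.lf 0 197714 0) (P.lf 0 21966 0)))) (P.cons (P.cons (P.lf 3017586 0 0) (P.cons (P.lf 1164330 0 0) (P.cons (P.lf 0 63693 0) P.nil))) (P.cons (P.cons (P.lf 1001571 0 0) (P.cons (P.lf 4017 0 0) P.nil)) (P.cons (P.cons (P.lf 424 0 0) P.nil) P.nil)))))) 27434)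
 (EL.cons 1 (TM.mk (P.cons (P.cons (P.lf 872388766 0 0) (P.cons (P.lf 199042621 0 0) (P.cons (P.lf 0 10890807 0) (P.lf 0 1210083 0)))) (P.cons (P.cons (P.lf 249438553 0 0) (P.cons (P.lf 0 16327924 0) (P.cons (P.lf 893398 0 0) (P.lf 99268 0 0)))) (P.cons (P.cons (P.lf 0 13389691 0) (P.cons (P.lf 0 6263361 0) (P.cons (P.lf 342697 0 0) (P.lf 38068 0 0)))) (P.cons (P.cons (P.lf 0 5944731 0) (P.cons (P.lf 25393 0 0) (P.cons (P.lf 0 1390 0) P.nil))) (P.cons (P.cons (P.lf 35797 0 0) (P.cons (P.lf 47190 0 0) P.nil)) (P.cons (P.cons (P.lf 39486 0 0) P.nil) P.nil)))))) 13819)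
 (EL.cons 5 (TM.mk (P.cons (P.cons (P.lf 0 776137268 0) (P.cons (P.lf 0 409740164 0) (P.cons (P.lf 22419336 0 0) (P.lf 2491040 0 0)))) (P.cons (P.cons (P.lf 0 155448559 0) (P.cons (P.lf 239132 0 0) (P.cons (P.lf 0 13078 0) (P.lf 0 1450 0)))) (P.cons (P.cons (P.lf 9069221 0 0) (P.cons (P.lf 1337568 0 0) (P.cons (P.lf 0 73190 0) (P.lf 0 8136 0)))) (P.cons (P.cons (P.lf 879646 0 0) (P.cons (P.lf 0 204944 0) (P.cons (P.lf 11206 0 0) P.nil))) (P.cons (P.cons (P.lf 0 215093 0) (P.cons (P.lf 0 6264 0) P.nil)) (P.cons (P.cons (P.lf 0 3880 0) P.nil) P.nil)))))) 14942)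
 (EL.cons 9 (TM.mk (P.cons (P.cons (P.lf 0 630287926 0) (P.cons (P.lf 0 515035854 0) (P.cons (P.lf 28180692 0 0) (P.lf 3131184 0 0)))) (P.cons (P.cons (P.lf 0 217687845 0) (P.cons (P.lf 0 32291142 0) (P.cons (P.lf 1766838 0 0) (P.lf 196308 0 0)))) (P.cons (P.cons (P.lf 0 23736009 0) (P.cons (P.lf 2313876 0 0) (P.cons (P.lf 0 126600 0) (P.lf 0 14064 0)))) (P.cons (P.cons (P.lf 1722840 0 0) (P.cons (P.lf 184440 0 0) (P.cons (P.lf 0 10086 0) P.nil))) (P.cons (P.cons (P.lf 124426 0 0) (P.cons (P.lf 0 4260 0) P.nil)) (P.cons (P.cons (P.lf 0 3276 0) P.nil) P.nil)))))) 3362)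
 (EL.cons 2 (TM.mk (P.cons (P.cons (P.lf 636339690 0 0) (P.cons (P.lf 0 79845339 0) (P.cons (P.lf 0 12190317 0) (P.cons (P.lf 372411 0 0) (P.lf 31033 0 0))))) (P.cons (P.cons (P.lf 0 97676600 0) (P.cons (P.lf 12256065 0 0) (P.cons (P.lf 1871184 0 0) (P.cons (P.lf 0 57164 0) (P.lf 0 4761 0))))) (P.cons (P.cons (P.lf 0 9309642 0) (P.cons (P.lf 1168135 0 0) (P.cons (P.lf 178343 0 0) (P.cons (P.lf 0 5447 0) P.nil)))) (P.cons (P.cons (P.lf 351773 0 0) (P.cons (P.lf 0 44139 0) (P.cons (P.lf 0 6738 0) P.nil))) (P.cons (P.cons (P.lf 38072 0 0) (P.cons (P.lf 0 4775 0) P.nil)) (P.cons (P.cons (P.lf 0 438 0) P.nil) P.nil)))))) 2228)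
 (EL.cons 6 (TM.mk (P.cons (P.cons (P.lf 1159915914 0 0) (P.cons (P.lf 0 145541574 0) (P.cons (P.lf 0 22220433 0) (P.cons (P.lf 678828 0 0) (P.lf 56568 0 0))))) (P.cons (P.cons (P.lf 72723111 0 0) (P.cons (P.lf 0 9125001 0) (P.cons (P.lf 0 1393149 0) (P.cons (P.lf 42558 0 0) (P.lf 3543 0 0))))) (P.cons (P.cons (P.lf 0 5211102 0) (P.cons (P.lf 653865 0 0) (P.cons (P.lf 99828 0 0) (P.cons (P.lf 0 3048 0) P.nil)))) (P.cons (P.cons (P.lf 0 415386 0) (P.cons (P.lf 52119 0 0) (P.cons (P.lf 7956 0 0) P.nil))) (P.cons (P.cons (P.lf 9600 0 0) (P.cons (P.lf 0 1203 0) P.nil)) (P.cons (P.cons (P.lf 1206 0 0) P.nil) P.nil)))))) 1509)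
 EL.nil))))))
noncomputable def S212_227_586_660_2 : EL := (EL.cons 0 (TM.mk (P.cons (P.cons (P.lf 0 109360225 0) (P.cons (P.lf 0 55194054 0) (P.cons (P.lf 30940963 0 0) (P.cons (P.lf 0 2719901 0) (P.cons (P.lf 0 255911 0) (P.cons (P.lf 18574 0 0) P.nil)))))) (P.cons (P.cons (P.lf 0 15751843 0) (P.cons (P.lf 38818519 0 0) (P.cons (P.lf 11579355 0 0) (P.cons (P.lf 0 1735577 0) (P.cons (P.lf 0 125589 0) P.nil))))) (P.cons (P.cons (P.lf 19869164 0 0) (P.cons (P.lf 20859569 0 0) (P.cons (P.lf 0 840845 0) (P.cons (P.lf 0 159687 0) P.nil)))) (P.cons (P.cons (P.lf 6390141 0 0) (P.cons (P.lf 605872 0 0) (P.cons (P.lf 0 265501 0) P.nil))) (P.cons (P.cons (P.lf 275808 0 0) (P.cons (P.lf 0 348462 0) P.nil)) (P.cons (P.cons (P.lf 0 122165 0) P.nil) P.nil)))))) 212049)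
 (EL.cons 1 (TM.mk (P.cons (P.cons (P.lf 0 160511515 0) (P.cons (P.lf 0 161783421 0) (P.cons (P.lf 0 16170795 0) (P.cons (P.lf 3721873 0 0) (P.cons (P.lf 229342 0 0) (P.cons (P.lf 0 16645 0) P.nil)))))) (P.cons (P.cons (P.lf 0 102502465 0) (P.cons (P.lf 0 54993702 0) (P.cons (P.lf 3291073 0 0) (P.cons (P.lf 303459 0 0) (P.cons (P.lf 0 2584 0) P.nil))))) (P.cons (P.cons (P.lf 0 20002231 0) (P.cons (P.lf 706506 0 0) (P.cons (P.lf 1024753 0 0) (P.cons (P.lf 0 120655 0) P.nil)))) (P.cons (P.cons (P.lf 501070 0 0) (P.cons (P.lf 1707706 0 0) (P.cons (P.lf 0 42428 0) P.nil))) (P.cons (P.cons (P.lf 600635 0 0) (P.cons (P.lf 82453 0 0) P.nil)) (P.cons (P.cons (P.lf 32541 0 0) P.nil) P.nil)))))) 108858)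
 (EL.cons 5 (TM.mk (P.cons (P.cons (P.lf 108768712 0 0) (P.cons (P.lf 133836888 0 0) (P.cons (P.lf 29413473 0 0) (P.cons (P.lf 0 4833807 0) (P.cons (P.lf 0 336690 0) (P.cons (P.lf 24437 0 0) P.nil)))))) (P.cons (P.cons (P.lf 53874254 0 0) (P.cons (P.lf 32805089 0 0) (P.cons (P.lf 0 815895 0) (P.cons (P.lf 0 306593 0) (P.cons (P.lf 0 8977 0) P.nil))))) (P.cons (P.cons (P.lf 6535347 0 0) (P.cons (P.lf 0 1155556 0) (P.cons (P.lf 0 279491 0) (P.cons (P.lf 44520 0 0) P.nil)))) (P.cons (P.cons (P.lf 0 836165 0) (P.cons (P.lf 0 476056 0) (P.cons (P.lf 48937 0 0) P.nil))) (P.cons (P.cons (P.lf 0 158494 0) (P.cons (P.lf 49272 0 0) P.nil)) (P.cons (P.cons (P.lf 20238 0 0) P.nil) P.nil)))))) 108997)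
 (EL.cons 9 (TM.mk (P.cons (P.cons (P.lf 61663312 0 0) (P.cons (P.lf 100775584 0 0) (P.cons (P.lf 35660035 0 0) (P.cons (P.lf 0 5118429 0) (P.cons (P.lf 0 377370 0) (P.cons (P.lf 27391 0 0) P.nil)))))) (P.cons (P.cons (P.lf 42594354 0 0) (P.cons (P.lf 41124025 0 0) (P.cons (P.lf 2912830 0 0) (P.cons (P.lf 0 815007 0) (P.cons (P.lf 0 47317 0) P.nil))))) (P.cons (P.cons (P.lf 11999941 0 0) (P.cons (P.lf 5524566 0 0) (P.cons (P.lf 0 510393 0) (P.cons (P.lf 0 10813 0) P.nil)))) (P.cons (P.cons (P.lf 1266957 0 0) (P.cons (P.lf 0 229978 0) (P.cons (P.lf 0 40102 0) P.nil))) (P.cons (P.cons (P.lf 0 53322 0) (P.cons (P.lf 0 65845 0) P.nil)) (P.cons (P.cons (P.lf 0 20461 0) P.nil) P.nil)))))) 40417)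
 (EL.cons 2 (TM.mk (P.cons (P.cons (P.lf 0 124510753 0) (P.cons (P.lf 0 86120077 0) (P.cons (P.lf 20718545 0 0) (P.cons (P.lf 1796248 0 0) (P.cons (P.lf 0 249873 0) (P.cons (P.lf 0 13550 0) P.nil)))))) (P.cons (P.cons (P.lf 0 23891225 0) (P.cons (P.lf 12236124 0 0) (P.cons (P.lf 0 1206990 0) (P.cons (P.lf 0 183695 0) (P.cons (P.lf 20970 0 0) P.nil))))) (P.cons (P.cons (P.lf 3733543 0 0) (P.cons (P.lf 2456280 0 0) (P.cons (P.lf 0 598533 0) (P.cons (P.lf 0 51541 0) P.nil)))) (P.cons (P.cons (P.lf 1620388 0 0) (P.cons (P.lf 0 199963 0) (P.cons (P.lf 0 31640 0) P.nil))) (P.cons (P.cons (P.lf 9714 0 0) (P.cons (P.lf 0 23951 0) P.nil)) (P.cons (P.cons (P.lf 0 14473 0) P.nil) P.nil)))))) 33895)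
 (EL.cons 6 (TM.mk (P.cons (P.cons (P.lf 0 226957410 0) (P.cons (P.lf 0 156979128 0) (P.cons (P.lf 37765632 0 0) (P.cons (P.lf 3274188 0 0) (P.cons (P.lf 0 455466 0) (P.cons (P.lf 0 24702 0) P.nil)))))) (P.cons (P.cons (P.lf 0 92615712 0) (P.cons (P.lf 0 11634078 0) (P.cons (P.lf 5964612 0 0) (P.cons (P.lf 373008 0 0) (P.cons (P.lf 0 60240 0) P.nil))))) (P.cons (P.cons (P.lf 0 12441912 0) (P.cons (P.lf 2498532 0 0) (P.cons (P.lf 69438 0 0) (P.cons (P.lf 0 24498 0) P.nil)))) (P.cons (P.cons (P.lf 517938 0 0) (P.cons (P.lf 172314 0 0) (P.cons (P.lf 0 52680 0) P.nil))) (P.cons (P.cons (P.lf 148284 0 0) (P.cons (P.lf 0 17088 0) P.nil)) (P.cons (P.cons (P.lf 1014 0 0) P.nil) P.nil)))))) 32094)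
 EL.nil))))))
noncomputable def S212_227_586_660_3 : EL := (EL.cons 0 (TM.mk (P.cons (P.lf 583851700 0 0) (P.cons (P.lf 0 228047217 0) (P.cons (P.lf 18724113 0 0) (P.cons (P.lf 894670 0 0) (P.cons (P.lf 0 28400 0) (P.cons (P.lf 0 1893 0) P.nil)))))) 140)
 (EL.cons 1 (TM.mk (P.cons (P.lf 1064241138 0 0) (P.cons (P.lf 0 185599968 0) (P.cons (P.lf 0 9632411 0) (P.cons (P.lf 474855 0 0) (P.cons (P.lf 25702 0 0) (P.cons (P.lf 0 519 0) P.nil)))))) 134)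
 (EL.cons 5 (TM.mk (P.cons (P.lf 1939891930 0 0) (P.cons (P.lf 81083452 0 0) (P.cons (P.lf 0 6657460 0) (P.cons (P.lf 0 318104 0) (P.cons (P.lf 10096 0 0) (P.cons (P.lf 672 0 0) P.nil)))))) 136)
 EL.nil)))
noncomputable def S212_227_586_660_4 : EL := (EL.cons 0 (TM.mk (P.cons (P.cons (P.lf 0 57120291 0) (P.cons (P.lf 0 46675490 0) (P.cons (P.lf 2553894 0 0) (P.lf 283765 0 0)))) (P.cons (P.cons (P.lf 2582555 0 0) (P.cons (P.lf 15304617 0 0) (P.cons (P.lf 0 837406 0) (P.lf 0 93044 0)))) (P.cons (P.cons (P.lf 3722684 0 0) (P.cons (P.lf 0 144156 0) (P.cons (P.lf 7887 0 0) (P.lf 875 0 0)))) (P.cons (P.cons (P.lf 276120 0 0) (P.cons (P.lf 0 230563 0) (P.cons (P.lf 12615 0 0) P.nil))) (P.cons (P.cons (P.lf 0 146144 0) (P.cons (P.lf 0 2402 0) P.nil)) (P.cons (P.cons (P.lf 0 1843 0) P.nil) P.nil)))))) 5552)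
 (EL.cons 1 (TM.mk (P.cons (P.cons (P.lf 0 104118500 0) (P.cons (P.lf 0 85079784 0) (P.cons (P.lf 4655221 0 0) (P.lf 517245 0 0)))) (P.cons (P.cons (P.lf 0 17802375 0) (P.cons (P.lf 9503381 0 0) (P.cons (P.lf 0 519986 0) (P.lf 0 57776 0)))) (P.cons (P.cons (P.lf 3292723 0 0) (P.cons (P.lf 2082558 0 0) (P.cons (P.lf 0 113947 0) (P.lf 0 12658 0)))) (P.cons (P.cons (P.lf 1247424 0 0) (P.cons (P.lf 0 25873 0) (P.cons (P.lf 1415 0 0) P.nil))) (P.cons (P.cons (P.lf 0 12148 0) (P.cons (P.lf 0 13910 0) P.nil)) (P.cons (P.cons (P.lf 0 9268 0) P.nil) P.nil)))))) 3838)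
 (EL.cons 5 (TM.mk (P.cons (P.cons (P.lf 0 189786536 0) (P.cons (P.lf 0 155082886 0) (P.cons (P.lf 8485512 0 0) (P.lf 942832 0 0)))) (P.cons (P.cons (P.lf 0 73480856 0) (P.cons (P.lf 0 16205354 0) (P.cons (P.lf 886690 0 0) (P.lf 98518 0 0)))) (P.cons (P.cons (P.lf 0 9235622 0) (P.cons (P.lf 822546 0 0) (P.cons (P.lf 0 45004 0) (P.lf 0 4998 0)))) (P.cons (P.cons (P.lf 476102 0 0) (P.cons (P.lf 143456 0 0) (P.cons (P.lf 0 7846 0) P.nil))) (P.cons (P.cons (P.lf 93436 0 0) (P.cons (P.lf 0 564 0) P.nil)) (P.cons (P.cons (P.lf 0 434 0) P.nil) P.nil)))))) 2946)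
 EL.nil)))
noncomputable def S212_227_586_660_5 : EL := (EL.cons 0 (TM.mk (P.cons (P.cons (P.lf 5588281 0 0) (P.cons (P.lf 9132858 0 0) (P.cons (P.lf 3231715 0 0) (P.cons (P.lf 0 463860 0) (P.cons (P.lf 0 34198 0) (P.cons (P.lf 2482 0 0) P.nil)))))) (P.cons (P.cons (P.lf 1677410 0 0) (P.cons (P.lf 159681 0 0) (P.cons (P.lf 0 998300 0) (P.cons (P.lf 107317 0 0) (P.cons (P.lf 9068 0 0) P.nil))))) (P.cons (P.cons (P.lf 0 241017 0) (P.cons (P.lf 0 662132 0) (P.cons (P.lf 0 45720 0) (P.cons (P.lf 12991 0 0) P.nil)))) (P.cons (P.cons (P.lf 0 177591 0) (P.cons (P.lf 0 82880 0) (P.cons (P.lf 27849 0 0) P.nil))) (P.cons (P.cons (P.lf 0 9159 0) (P.cons (P.lf 23494 0 0) P.nil)) (P.cons (P.cons (P.lf 5175 0 0) P.nil) P.nil)))))) 22073)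
 (EL.cons 1 (TM.mk (P.cons (P.cons (P.lf 10186282 0 0) (P.cons (P.lf 16647315 0 0) (P.cons (P.lf 5890749 0 0) (P.cons (P.lf 0 845521 0) (P.cons (P.lf 0 62336 0) (P.cons (P.lf 4524 0 0) P.nil)))))) (P.cons (P.cons (P.lf 5259791 0 0) (P.cons (P.lf 3890122 0 0) (P.cons (P.lf 0 546148 0) (P.cons (P.lf 12823 0 0) (P.cons (P.lf 3052 0 0) P.nil))))) (P.cons (P.cons (P.lf 663000 0 0) (P.cons (P.lf 0 422797 0) (P.cons (P.lf 0 221544 0) (P.cons (P.lf 29343 0 0) P.nil)))) (P.cons (P.cons (P.lf 0 195553 0) (P.cons (P.lf 0 251205 0) (P.cons (P.lf 6350 0 0) P.nil))) (P.cons (P.cons (P.lf 0 59863 0) (P.cons (P.lf 0 9076 0) P.nil)) (P.cons (P.cons (P.lf 0 2686 0) P.nil) P.nil)))))) 19428)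
 (EL.cons 5 (TM.mk (P.cons (P.cons (P.lf 18567492 0 0) (P.cons (P.lf 30344620 0 0) (P.cons (P.lf 10737622 0 0) (P.cons (P.lf 0 1541214 0) (P.cons (P.lf 0 113628 0) (P.cons (P.lf 8246 0 0) P.nil)))))) (P.cons (P.cons (P.lf 13601704 0 0) (P.cons (P.lf 13651232 0 0) (P.cons (P.lf 1325894 0 0) (P.cons (P.lf 0 309826 0) (P.cons (P.lf 0 18996 0) P.nil))))) (P.cons (P.cons (P.lf 4085674 0 0) (P.cons (P.lf 2076946 0 0) (P.cons (P.lf 0 153874 0) (P.cons (P.lf 0 8222 0) P.nil)))) (P.cons (P.cons (P.lf 485462 0 0) (P.cons (P.lf 0 47190 0) (P.cons (P.lf 0 23268 0) P.nil))) (P.cons (P.cons (P.lf 0 14516 0) (P.cons (P.lf 0 30302 0) P.nil)) (P.cons (P.cons (P.lf 0 8660 0) P.nil) P.nil)))))) 19068)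
 EL.nil)))
noncomputable def S212_227_586_660_6 : EL := (EL.cons 12 (TM.mk (P.lf 8589934592 0 0) 0)
 (EL.cons 3 (TM.mk (P.cons (P.lf 0 1119737460 0) (P.cons (P.lf 218679686 0 0) (P.cons (P.lf 3398598 0 0) (P.cons (P.lf 0 194190 0) (P.cons (P.lf 0 5531 0) (P.cons (P.lf 146 0 0) P.nil)))))) 52)
 (EL.cons 7 (TM.mk (P.cons (P.lf 0 2041050269 0) (P.cons (P.lf 0 42655831 0) (P.cons (P.lf 3948043 0 0) (P.cons (P.lf 84836 0 0) (P.cons (P.lf 0 3266 0) (P.cons (P.lf 0 122 0) P.nil)))))) 52)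
 EL.nil)))
noncomputable def S212_227_586_660_7 : EL := (EL.cons 12 (TM.mk (P.cons (P.cons (P.lf 0 840383902 0) (P.cons (P.lf 0 686714472 0) (P.cons (P.lf 37574256 0 0) (P.lf 4174912 0 0)))) (P.cons (P.cons (P.lf 0 290250460 0) (P.cons (P.lf 0 43054856 0) (P.cons (P.lf 2355784 0 0) (P.lf 261744 0 0)))) (P.cons (P.cons (P.lf 0 31648012 0) (P.cons (P.lf 3085168 0 0) (P.cons (P.lf 0 168800 0) (P.lf 0 18752 0)))) (P.cons (P.cons (P.lf 2297120 0 0) (P.cons (P.lf 245920 0 0) (P.cons (P.lf 0 13448 0) P.nil))) (P.cons (P.cons (P.lf 165902 0 0) (P.cons (P.lf 0 5680 0) P.nil)) (P.cons (P.cons (P.lf 0 4368 0) P.nil) P.nil)))))) 4458)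
 (EL.cons 3 (TM.mk (P.cons (P.cons (P.lf 0 1700852190 0) (P.cons (P.lf 0 179032774 0) (P.cons (P.lf 9795952 0 0) (P.lf 1088436 0 0)))) (P.cons (P.cons (P.lf 0 397758079 0) (P.cons (P.lf 23739496 0 0) (P.cons (P.lf 0 1298930 0) (P.lf 0 144326 0)))) (P.cons (P.cons (P.lf 37150841 0 0) (P.cons (P.lf 3539878 0 0) (P.cons (P.lf 0 193684 0) (P.lf 0 21516 0)))) (P.cons (P.cons (P.lf 3833395 0 0) (P.cons (P.lf 0 89946 0) (P.cons (P.lf 4920 0 0) P.nil))) (P.cons (P.cons (P.lf 0 108306 0) (P.cons (P.lf 0 19272 0) P.nil)) (P.cons (P.cons (P.lf 0 16205 0) P.nil) P.nil)))))) 10558)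
 (EL.cons 7 (TM.mk (P.cons (P.cons (P.lf 552821294 0 0) (P.cons (P.lf 215553318 0 0) (P.cons (P.lf 0 11794213 0) (P.lf 0 1310472 0)))) (P.cons (P.cons (P.lf 77587008 0 0) (P.cons (P.lf 0 4630644 0) (P.cons (P.lf 253369 0 0) (P.lf 28148 0 0)))) (P.cons (P.cons (P.lf 0 15633610 0) (P.cons (P.lf 0 189934 0) (P.cons (P.lf 10396 0 0) (P.lf 1156 0 0)))) (P.cons (P.cons (P.lf 385091 0 0) (P.cons (P.lf 111789 0 0) (P.cons (P.lf 0 6114 0) P.nil))) (P.cons (P.cons (P.lf 124660 0 0) (P.cons (P.lf 56 0 0) P.nil)) (P.cons (P.cons (P.lf 0 1117 0) P.nil) P.nil)))))) 9007)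
 (EL.cons 10 (TM.mk (P.cons (P.cons (P.lf 0 2440802658 0) (P.cons (P.lf 306262083 0 0) (P.cons (P.lf 46758297 0 0) (P.cons (P.lf 0 1428459 0) (P.lf 0 119037 0))))) (P.cons (P.cons (P.lf 0 102020478 0) (P.cons (P.lf 12801117 0 0) (P.cons (P.lf 1954398 0 0) (P.cons (P.lf 0 59706 0) (P.lf 0 4974 0))))) (P.cons (P.cons (P.lf 8376519 0 0) (P.cons (P.lf 0 1051050 0) (P.cons (P.lf 0 160467 0) (P.cons (P.lf 4902 0 0) P.nil)))) (P.cons (P.cons (P.lf 400242 0 0) (P.cons (P.lf 0 50220 0) (P.cons (P.lf 0 7665 0) P.nil))) (P.cons (P.cons (P.lf 0 12702 0) (P.cons (P.lf 1593 0 0) P.nil)) (P.cons (P.cons (P.lf 0 843 0) P.nil) P.nil)))))) 1341)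
 EL.nil))))
noncomputable def S212_227_586_660_8 : EL := (EL.cons 12 (TM.mk (P.cons (P.cons (P.lf 82217750 0 0) (P.cons (P.lf 134367446 0 0) (P.cons (P.lf 47546714 0 0) (P.cons (P.lf 0 6824572 0) (P.cons (P.lf 0 503160 0) (P.cons (P.lf 36522 0 0) P.nil)))))) (P.cons (P.cons (P.lf 56792472 0 0) (P.cons (P.lf 54832034 0 0) (P.cons (P.lf 3883774 0 0) (P.cons (P.lf 0 1086676 0) (P.cons (P.lf 0 63090 0) P.nil))))) (P.cons (P.cons (P.lf 15999922 0 0) (P.cons (P.lf 7366088 0 0) (P.cons (P.lf 0 680524 0) (P.cons (P.lf 0 14418 0) P.nil)))) (P.cons (P.cons (P.lf 1689276 0 0) (P.cons (P.lf 0 306638 0) (P.cons (P.lf 0 53470 0) P.nil))) (P.cons (P.cons (P.lf 0 71096 0) (P.cons (P.lf 0 87794 0) P.nil)) (P.cons (P.cons (P.lf 0 27282 0) P.nil) P.nil)))))) 53860)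
 (EL.cons 3 (TM.mk (P.cons (P.cons (P.lf 343518315 0 0) (P.cons (P.lf 324492387 0 0) (P.cons (P.lf 18026606 0 0) (P.cons (P.lf 0 5888407 0) (P.cons (P.lf 0 327946 0) (P.cons (P.lf 23806 0 0) P.nil)))))) (P.cons (P.cons (P.lf 198080499 0 0) (P.cons (P.lf 91827767 0 0) (P.cons (P.lf 0 7525632 0) (P.cons (P.lf 0 284552 0) (P.cons (P.lf 22920 0 0) P.nil))))) (P.cons (P.cons (P.lf 32751249 0 0) (P.cons (P.lf 0 4640979 0) (P.cons (P.lf 0 911774 0) (P.cons (P.lf 155776 0 0) P.nil)))) (P.cons (P.cons (P.lf 0 1447170 0) (P.cons (P.lf 0 2106894 0) (P.cons (P.lf 97394 0 0) P.nil))) (P.cons (P.cons (P.lf 0 847319 0) (P.cons (P.lf 0 30631 0) P.nil)) (P.cons (P.cons (P.lf 0 13535 0) P.nil) P.nil)))))) 137048)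
 (EL.cons 7 (TM.mk (P.cons (P.cons (P.lf 0 88633226 0) (P.cons (P.lf 0 98639298 0) (P.cons (P.lf 0 16022810 0) (P.cons (P.lf 2943707 0 0) (P.cons (P.lf 196319 0 0) (P.cons (P.lf 0 14245 0) P.nil)))))) (P.cons (P.cons (P.lf 0 38637738 0) (P.cons (P.lf 0 17911994 0) (P.cons (P.lf 1467956 0 0) (P.cons (P.lf 55507 0 0) (P.cons (P.lf 0 4471 0) P.nil))))) (P.cons (P.cons (P.lf 0 2211855 0) (P.cons (P.lf 2841506 0 0) (P.cons (P.lf 19174 0 0) (P.cons (P.lf 0 36387 0) P.nil)))) (P.cons (P.cons (P.lf 1159043 0 0) (P.cons (P.lf 260090 0 0) (P.cons (P.lf 0 42958 0) P.nil))) (P.cons (P.cons (P.lf 111241 0 0) (P.cons (P.lf 0 57885 0) P.nil)) (P.cons (P.cons (P.lf 0 24713 0) P.nil) P.nil)))))) 59381)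
 (EL.cons 10 (TM.mk (P.cons (P.cons (P.lf 477584838 0 0) (P.cons (P.lf 330330054 0 0) (P.cons (P.lf 0 79469952 0) (P.cons (P.lf 0 6889854 0) (P.cons (P.lf 958446 0 0) (P.cons (P.lf 51984 0 0) P.nil)))))) (P.cons (P.cons (P.lf 184909548 0 0) (P.cons (P.lf 17577960 0 0) (P.cons (P.lf 0 10890462 0) (P.cons (P.lf 0 640938 0) (P.cons (P.lf 106734 0 0) P.nil))))) (P.cons (P.cons (P.lf 23240814 0 0) (P.cons (P.lf 0 4986048 0) (P.cons (P.lf 0 72246 0) (P.cons (P.lf 51624 0 0) P.nil)))) (P.cons (P.cons (P.lf 0 1198080 0) (P.cons (P.lf 0 210672 0) (P.cons (P.lf 87996 0 0) P.nil))) (P.cons (P.cons (P.lf 0 235128 0) (P.cons (P.lf 30924 0 0) P.nil)) (P.cons (P.cons (P.lf 1092 0 0) P.nil) P.nil)))))) 53016)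
 EL.nil))))
noncomputable def S212_227_586_660_9 : EL := (EL.cons 3 (TM.mk (P.cons (P.lf 0 1119737460 0) (P.cons (P.lf 218679686 0 0) (P.cons (P.lf 3398598 0 0) (P.cons (P.lf 0 194190 0) (P.cons (P.lf 0 5531 0) (P.cons (P.lf 146 0 0) P.nil)))))) 52)
 (EL.cons 7 (TM.mk (P.cons (P.lf 0 2041050269 0) (P.cons (P.lf 0 42655831 0) (P.cons (P.lf 3948043 0 0) (P.cons (P.lf 84836 0 0) (P.cons (P.lf 0 3266 0) (P.cons (P.lf 0 122 0) P.nil)))))) 52)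
 EL.nil))
noncomputable def S212_227_586_660_10 : EL := (EL.cons 3 (TM.mk (P.cons (P.cons (P.lf 109547904 0 0) (P.cons (P.lf 89516387 0 0) (P.cons (P.lf 0 4897976 0) (P.lf 0 544218 0)))) (P.cons (P.cons (P.lf 16441268 0 0) (P.cons (P.lf 0 11869748 0) (P.cons (P.lf 649465 0 0) (P.lf 72163 0 0)))) (P.cons (P.cons (P.lf 0 3596131 0) (P.cons (P.lf 0 1769939 0) (P.cons (P.lf 96842 0 0) (P.lf 10758 0 0)))) (P.cons (P.cons (P.lf 0 1200962 0) (P.cons (P.lf 44973 0 0) (P.cons (P.lf 0 2460 0) P.nil))) (P.cons (P.cons (P.lf 31434 0 0) (P.cons (P.lf 9636 0 0) P.nil)) (P.cons (P.cons (P.lf 6589 0 0) P.nil) P.nil)))))) 2556)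
 (EL.cons 7 (TM.mk (P.cons (P.cons (P.lf 199683218 0 0) (P.cons (P.lf 163169898 0 0) (P.cons (P.lf 0 8928001 0) (P.lf 0 991998 0)))) (P.cons (P.cons (P.lf 73139445 0 0) (P.cons (P.lf 13640325 0 0) (P.cons (P.lf 0 746342 0) (P.lf 0 82924 0)))) (P.cons (P.cons (P.lf 8574941 0 0) (P.cons (P.lf 0 834886 0) (P.cons (P.lf 45679 0 0) (P.lf 5074 0 0)))) (P.cons (P.cons (P.lf 0 530362 0) (P.cons (P.lf 0 100323 0) (P.cons (P.lf 5487 0 0) P.nil))) (P.cons (P.cons (P.lf 0 67919 0) (P.cons (P.lf 1382 0 0) P.nil)) (P.cons (P.cons (P.lf 1079 0 0) P.nil) P.nil)))))) 1920)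
 EL.nil))
noncomputable def S212_227_586_660_11 : EL := (EL.cons 3 (TM.mk (P.cons (P.cons (P.lf 0 10717461 0) (P.cons (P.lf 0 17515413 0) (P.cons (P.lf 0 6197932 0) (P.cons (P.lf 889613 0 0) (P.cons (P.lf 65588 0 0) (P.cons (P.lf 0 4760 0) P.nil)))))) (P.cons (P.cons (P.lf 0 5310087 0) (P.cons (P.lf 0 3726925 0) (P.cons (P.lf 704160 0 0) (P.cons (P.lf 0 32084 0) (P.cons (P.lf 0 4584 0) P.nil))))) (P.cons (P.cons (P.lf 0 607329 0) (P.cons (P.lf 488853 0 0) (P.cons (P.lf 206392 0 0) (P.cons (P.lf 0 28484 0) P.nil)))) (P.cons (P.cons (P.lf 207726 0 0) (P.cons (P.lf 246150 0 0) (P.cons (P.lf 0 9892 0) P.nil))) (P.cons (P.cons (P.lf 57265 0 0) (P.cons (P.lf 5225 0 0) P.nil)) (P.cons (P.cons (P.lf 2017 0 0) P.nil) P.nil)))))) 17422)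
 (EL.cons 7 (TM.mk (P.cons (P.cons (P.lf 0 19535720 0) (P.cons (P.lf 0 31926984 0) (P.cons (P.lf 0 11297552 0) (P.cons (P.lf 1621583 0 0) (P.cons (P.lf 119555 0 0) (P.cons (P.lf 0 8677 0) P.nil)))))) (P.cons (P.cons (P.lf 0 13902708 0) (P.cons (P.lf 0 13695854 0) (P.cons (P.lf 0 1158928 0) (P.cons (P.lf 292093 0 0) (P.cons (P.lf 17489 0 0) P.nil))))) (P.cons (P.cons (P.lf 0 4045965 0) (P.cons (P.lf 0 1960780 0) (P.cons (P.lf 164266 0 0) (P.cons (P.lf 5685 0 0) P.nil)))) (P.cons (P.cons (P.lf 0 453925 0) (P.cons (P.lf 62810 0 0) (P.cons (P.lf 18338 0 0) P.nil))) (P.cons (P.cons (P.lf 16387 0 0) (P.cons (P.lf 26259 0 0) P.nil)) (P.cons (P.cons (P.lf 7747 0 0) P.nil) P.nil)))))) 16147)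
 EL.nil))
noncomputable def S212_227_586_660_12 : EL := (EL.cons 4 (TM.mk (P.cons (P.lf 1119737460 0 0) (P.cons (P.lf 0 218679686 0) (P.cons (P.lf 0 3398598 0) (P.cons (P.lf 194190 0 0) (P.cons (P.lf 5531 0 0) (P.cons (P.lf 0 146 0) P.nil)))))) 52)
 (EL.cons 8 (TM.mk (P.cons (P.lf 2041050269 0 0) (P.cons (P.lf 42655831 0 0) (P.cons (P.lf 0 3948043 0) (P.cons (P.lf 0 84836 0) (P.cons (P.lf 3266 0 0) (P.cons (P.lf 122 0 0) P.nil)))))) 52)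
 EL.nil))
noncomputable def S212_227_586_660_13 : EL := (EL.cons 4 (TM.mk (P.cons (P.cons (P.lf 0 109547904 0) (P.cons (P.lf 0 89516387 0) (P.cons (P.lf 4897976 0 0) (P.lf 544218 0 0)))) (P.cons (P.cons (P.lf 0 16441268 0) (P.cons (P.lf 11869748 0 0) (P.cons (P.lf 0 649465 0) (P.lf 0 72163 0)))) (P.cons (P.cons (P.lf 3596131 0 0) (P.cons (P.lf 1769939 0 0) (P.cons (P.lf 0 96842 0) (P.lf 0 10758 0)))) (P.cons (P.cons (P.lf 1200962 0 0) (P.cons (P.lf 0 44973 0) (P.cons (P.lf 2460 0 0) P.nil))) (P.cons (P.cons (P.lf 0 31434 0) (P.cons (P.lf 0 9636 0) P.nil)) (P.cons (P.cons (P.lf 0 6589 0) P.nil) P.nil)))))) 2556)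
 (EL.cons 8 (TM.mk (P.cons (P.cons (P.lf 0 199683218 0) (P.cons (P.lf 0 163169898 0) (P.cons (P.lf 8928001 0 0) (P.lf 991998 0 0)))) (P.cons (P.cons (P.lf 0 73139445 0) (P.cons (P.lf 0 13640325 0) (P.cons (P.lf 746342 0 0) (P.lf 82924 0 0)))) (P.cons (P.cons (P.lf 0 8574941 0) (P.cons (P.lf 834886 0 0) (P.cons (P.lf 0 45679 0) (P.lf 0 5074 0)))) (P.cons (P.cons (P.lf 530362 0 0) (P.cons (P.lf 100323 0 0) (P.cons (P.lf 0 5487 0) P.nil))) (P.cons (P.cons (P.lf 67919 0 0) (P.cons (P.lf 0 1382 0) P.nil)) (P.cons (P.cons (P.lf 0 1079 0) P.nil) P.nil)))))) 1920)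
 EL.nil))
noncomputable def S212_227_586_660_14 : EL := (EL.cons 4 (TM.mk (P.cons (P.cons (P.lf 10717461 0 0) (P.cons (P.lf 17515413 0 0) (P.cons (P.lf 6197932 0 0) (P.cons (P.lf 0 889613 0) (P.cons (P.lf 0 65588 0) (P.cons (P.lf 4760 0 0) P.nil)))))) (P.cons (P.cons (P.lf 5310087 0 0) (P.cons (P.lf 3726925 0 0) (P.cons (P.lf 0 704160 0) (P.cons (P.lf 32084 0 0) (P.cons (P.lf 4584 0 0) P.nil))))) (P.cons (P.cons (P.lf 607329 0 0) (P.cons (P.lf 0 488853 0) (P.cons (P.lf 0 206392 0) (P.cons (P.lf 28484 0 0) P.nil)))) (P.cons (P.cons (P.lf 0 207726 0) (P.cons (P.lf 0 246150 0) (P.cons (P.lf 9892 0 0) P.nil))) (P.cons (P.cons (P.lf 0 57265 0) (P.cons (P.lf 0 5225 0) P.nil)) (P.cons (P.cons (P.lf 0 2017 0) P.nil) P.nil)))))) 17422)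
 (EL.cons 8 (TM.mk (P.cons (P.cons (P.lf 19535720 0 0) (P.cons (P.lf 31926984 0 0) (P.cons (P.lf 11297552 0 0) (P.cons (P.lf 0 1621583 0) (P.cons (P.lf 0 119555 0) (P.cons (P.lf 8677 0 0) P.nil)))))) (P.cons (P.cons (P.lf 13902708 0 0) (P.cons (P.lf 13695854 0 0) (P.cons (P.lf 1158928 0 0) (P.cons (P.lf 0 292093 0) (P.cons (P.lf 0 17489 0) P.nil))))) (P.cons (P.cons (P.lf 4045965 0 0) (P.cons (P.lf 1960780 0 0) (P.cons (P.lf 0 164266 0) (P.cons (P.lf 0 5685 0) P.nil)))) (P.cons (P.cons (P.lf 453925 0 0) (P.cons (P.lf 0 62810 0) (P.cons (P.lf 0 18338 0) P.nil))) (P.cons (P.cons (P.lf 0 16387 0) (P.cons (P.lf 0 26259 0) P.nil)) (P.cons (P.cons (P.lf 0 7747 0) P.nil) P.nil)))))) 16147)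
 EL.nil))
noncomputable def S212_227_586_660_15 : EL := (EL.cons 4 (TM.mk (P.cons (P.lf 0 311387573 0) (P.cons (P.lf 121625182 0 0) (P.cons (P.lf 0 9986193 0) (P.cons (P.lf 0 477157 0) (P.cons (P.lf 15147 0 0) (P.cons (P.lf 1009 0 0) P.nil)))))) 78)
 (EL.cons 8 (TM.mk (P.cons (P.lf 0 567595274 0) (P.cons (P.lf 98986650 0 0) (P.cons (P.lf 5137286 0 0) (P.cons (P.lf 0 253256 0) (P.cons (P.lf 0 13708 0) (P.cons (P.lf 277 0 0) P.nil)))))) 68)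
 EL.nil))
noncomputable def S212_227_586_660_16 : EL := (EL.cons 4 (TM.mk (P.cons (P.cons (P.lf 30464155 0 0) (P.cons (P.lf 24893595 0 0) (P.cons (P.lf 0 1362076 0) (P.lf 0 151341 0)))) (P.cons (P.cons (P.lf 0 1377362 0) (P.cons (P.lf 0 8162462 0) (P.cons (P.lf 446616 0 0) (P.lf 49623 0 0)))) (P.cons (P.cons (P.lf 0 1985431 0) (P.cons (P.lf 76883 0 0) (P.cons (P.lf 0 4206 0) (P.lf 0 466 0)))) (P.cons (P.cons (P.lf 0 147264 0) (P.cons (P.lf 122967 0 0) (P.cons (P.lf 0 6728 0) P.nil))) (P.cons (P.cons (P.lf 77943 0 0) (P.cons (P.lf 1281 0 0) P.nil)) (P.cons (P.cons (P.lf 983 0 0) P.nil) P.nil)))))) 2970)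
 (EL.cons 8 (TM.mk (P.cons (P.cons (P.lf 55529867 0 0) (P.cons (P.lf 45375885 0 0) (P.cons (P.lf 0 2482785 0) (P.lf 0 275864 0)))) (P.cons (P.cons (P.lf 9494600 0 0) (P.cons (P.lf 0 5068470 0) (P.cons (P.lf 277326 0 0) (P.lf 30814 0 0)))) (P.cons (P.cons (P.lf 0 1756119 0) (P.cons (P.lf 0 1110698 0) (P.cons (P.lf 60772 0 0) (P.lf 6751 0 0)))) (P.cons (P.cons (P.lf 0 665293 0) (P.cons (P.lf 13799 0 0) (P.cons (P.lf 0 755 0) P.nil))) (P.cons (P.cons (P.lf 6479 0 0) (P.cons (P.lf 7419 0 0) P.nil)) (P.cons (P.cons (P.lf 4943 0 0) P.nil) P.nil)))))) 2037)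
 EL.nil))
noncomputable def S212_227_586_660_17 : EL := (EL.cons 4 (TM.mk (P.cons (P.cons (P.lf 0 2980416 0) (P.cons (P.lf 0 4870858 0) (P.cons (P.lf 0 1723581 0) (P.cons (P.lf 247392 0 0) (P.cons (P.lf 18239 0 0) (P.cons (P.lf 0 1323 0) P.nil)))))) (P.cons (P.cons (P.lf 0 894618 0) (P.cons (P.lf 0 85163 0) (P.cons (P.lf 532426 0 0) (P.cons (P.lf 0 57236 0) (P.cons (P.lf 0 4836 0) P.nil))))) (P.cons (P.cons (P.lf 128542 0 0) (P.cons (P.lf 353137 0 0) (P.cons (P.lf 24384 0 0) (P.cons (P.lf 0 6929 0) P.nil)))) (P.cons (P.cons (P.lf 94715 0 0) (P.cons (P.lf 44203 0 0) (P.cons (P.lf 0 14852 0) P.nil))) (P.cons (P.cons (P.lf 4885 0 0) (P.cons (P.lf 0 12530 0) P.nil)) (P.cons (P.cons (P.lf 0 2760 0) P.nil) P.nil)))))) 11782)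
 (EL.cons 8 (TM.mk (P.cons (P.cons (P.lf 0 5432684 0) (P.cons (P.lf 0 8878568 0) (P.cons (P.lf 0 3141733 0) (P.cons (P.lf 450945 0 0) (P.cons (P.lf 33246 0 0) (P.cons (P.lf 0 2413 0) P.nil)))))) (P.cons (P.cons (P.lf 0 2805222 0) (P.cons (P.lf 0 2074732 0) (P.cons (P.lf 291279 0 0) (P.cons (P.lf 0 6839 0) (P.cons (P.lf 0 1628 0) P.nil))))) (P.cons (P.cons (P.lf 0 353600 0) (P.cons (P.lf 225492 0 0) (P.cons (P.lf 118157 0 0) (P.cons (P.lf 0 15650 0) P.nil)))) (P.cons (P.cons (P.lf 104295 0 0) (P.cons (P.lf 133976 0 0) (P.cons (P.lf 0 3387 0) P.nil))) (P.cons (P.cons (P.lf 31927 0 0) (P.cons (P.lf 4841 0 0) P.nil)) (P.cons (P.cons (P.lf 1433 0 0) P.nil) P.nil)))))) 10350)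
 EL.nil))
noncomputable def S212_227_586_660_18 : EL := (EL.cons 4 (TM.mk (P.cons (P.lf 86593710 0 0) (P.cons (P.lf 0 50734084 0) (P.cons (P.lf 9119656 0 0) (P.cons (P.lf 0 291978 0) (P.cons (P.lf 0 43993 0) (P.cons (P.lf 441 0 0) P.nil)))))) 153)
 (EL.cons 8 (TM.mk (P.cons (P.lf 157842459 0 0) (P.cons (P.lf 0 58353100 0) (P.cons (P.lf 3468227 0 0) (P.cons (P.lf 460355 0 0) (P.cons (P.lf 0 9599 0) (P.cons (P.lf 0 1439 0) P.nil)))))) 99)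
 EL.nil))
noncomputable def S212_227_586_660_19 : EL := (EL.cons 4 (TM.mk (P.cons (P.cons (P.lf 0 8471770 0) (P.cons (P.lf 0 6922654 0) (P.cons (P.lf 378779 0 0) (P.lf 42086 0 0)))) (P.cons (P.cons (P.lf 2037528 0 0) (P.cons (P.lf 3621860 0 0) (P.cons (P.lf 0 198173 0) (P.lf 0 22019 0)))) (P.cons (P.cons (P.lf 503037 0 0) (P.cons (P.lf 0 443669 0) (P.cons (P.lf 24275 0 0) (P.lf 2697 0 0)))) (P.cons (P.cons (P.lf 0 69506 0) (P.cons (P.lf 0 38110 0) (P.cons (P.lf 2085 0 0) P.nil))) (P.cons (P.cons (P.lf 0 31324 0) (P.cons (P.lf 6745 0 0) P.nil)) (P.cons (P.cons (P.lf 3933 0 0) P.nil) P.nil)))))) 2466)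
 (EL.cons 8 (TM.mk (P.cons (P.cons (P.lf 0 15442290 0) (P.cons (P.lf 0 12618571 0) (P.cons (P.lf 690437 0 0) (P.lf 76715 0 0)))) (P.cons (P.cons (P.lf 375457 0 0) (P.cons (P.lf 3873839 0 0) (P.cons (P.lf 0 211960 0) (P.lf 0 23551 0)))) (P.cons (P.cons (P.lf 1050877 0 0) (P.cons (P.lf 71906 0 0) (P.cons (P.lf 0 3934 0) (P.lf 0 437 0)))) (P.cons (P.cons (P.lf 94972 0 0) (P.cons (P.lf 0 70625 0) (P.cons (P.lf 3864 0 0) P.nil))) (P.cons (P.cons (P.lf 0 39950 0) (P.cons (P.lf 0 2069 0) P.nil)) (P.cons (P.cons (P.lf 0 1510 0) P.nil) P.nil)))))) 1943)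
 EL.nil))
noncomputable def S212_227_586_660_20 : EL := (EL.cons 4 (TM.mk (P.cons (P.cons (P.lf 828823 0 0) (P.cons (P.lf 1354535 0 0) (P.cons (P.lf 479310 0 0) (P.cons (P.lf 0 68796 0) (P.cons (P.lf 0 5071 0) (P.cons (P.lf 367 0 0) P.nil)))))) (P.cons (P.cons (P.lf 86918 0 0) (P.cons (P.lf 0 240851 0) (P.cons (P.lf 0 241669 0) (P.cons (P.lf 29352 0 0) (P.cons (P.lf 2335 0 0) P.nil))))) (P.cons (P.cons (P.lf 0 86848 0) (P.cons (P.lf 0 106939 0) (P.cons (P.lf 20679 0 0) (P.cons (P.lf 0 972 0) P.nil)))) (P.cons (P.cons (P.lf 0 19969 0) (P.cons (P.lf 7049 0 0) (P.cons (P.lf 5986 0 0) P.nil))) (P.cons (P.cons (P.lf 3940 0 0) (P.cons (P.lf 6194 0 0) P.nil)) (P.cons (P.cons (P.lf 1107 0 0) P.nil) P.nil)))))) 7260)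
 (EL.cons 8 (TM.mk (P.cons (P.cons (P.lf 1510774 0 0) (P.cons (P.lf 2469039 0 0) (P.cons (P.lf 873684 0 0) (P.cons (P.lf 0 125403 0) (P.cons (P.lf 0 9245 0) (P.cons (P.lf 671 0 0) P.nil)))))) (P.cons (P.cons (P.lf 485056 0 0) (P.cons (P.lf 94769 0 0) (P.cons (P.lf 0 251628 0) (P.cons (P.lf 26392 0 0) (P.cons (P.lf 2258 0 0) P.nil))))) (P.cons (P.cons (P.lf 0 58603 0) (P.cons (P.lf 0 182879 0) (P.cons (P.lf 0 19690 0) (P.cons (P.lf 4361 0 0) P.nil)))) (P.cons (P.cons (P.lf 0 50313 0) (P.cons (P.lf 0 26333 0) (P.cons (P.lf 7756 0 0) P.nil))) (P.cons (P.cons (P.lf 0 3370 0) (P.cons (P.lf 6231 0 0) P.nil)) (P.cons (P.cons (P.lf 1443 0 0) P.nil) P.nil)))))) 6799)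
 EL.nil))
noncomputable def S212_227_586_660_21 : EL := (EL.cons 4 (TM.mk (P.cons (P.cons (P.lf 1810400094 0 0) (P.cons (P.lf 268549161 0 0) (P.cons (P.lf 0 14693928 0) (P.lf 0 1632654 0)))) (P.cons (P.cons (P.lf 414199347 0 0) (P.cons (P.lf 0 35609244 0) (P.cons (P.lf 1948395 0 0) (P.lf 216489 0 0)))) (P.cons (P.cons (P.lf 0 40746972 0) (P.cons (P.lf 0 5309817 0) (P.cons (P.lf 290526 0 0) (P.lf 32274 0 0)))) (P.cons (P.cons (P.lf 0 5034357 0) (P.cons (P.lf 134919 0 0) (P.cons (P.lf 0 7380 0) P.nil))) (P.cons (P.cons (P.lf 139740 0 0) (P.cons (P.lf 28908 0 0) P.nil)) (P.cons (P.cons (P.lf 22794 0 0) P.nil) P.nil)))))) 7983)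
 (EL.cons 8 (TM.mk (P.cons (P.cons (P.lf 0 353138076 0) (P.cons (P.lf 0 52383420 0) (P.cons (P.lf 2866212 0 0) (P.lf 318474 0 0)))) (P.cons (P.cons (P.lf 0 4447563 0) (P.cons (P.lf 18270969 0 0) (P.cons (P.lf 0 999711 0) (P.lf 0 111072 0)))) (P.cons (P.cons (P.lf 24208551 0 0) (P.cons (P.lf 0 644952 0) (P.cons (P.lf 35283 0 0) (P.lf 3918 0 0)))) (P.cons (P.cons (P.lf 0 915453 0) (P.cons (P.lf 0 212112 0) (P.cons (P.lf 11601 0 0) P.nil))) (P.cons (P.cons (P.lf 0 192579 0) (P.cons (P.lf 1326 0 0) P.nil)) (P.cons (P.cons (P.lf 2196 0 0) P.nil) P.nil)))))) 7068)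
 (EL.cons 11 (TM.mk (P.cons (P.cons (P.lf 2440802658 0 0) (P.cons (P.lf 0 306262083 0) (P.cons (P.lf 0 46758297 0) (P.cons (P.lf 1428459 0 0) (P.lf 119037 0 0))))) (P.cons (P.cons (P.lf 102020478 0 0) (P.cons (P.lf 0 12801117 0) (P.cons (P.lf 0 1954398 0) (P.cons (P.lf 59706 0 0) (P.lf 4974 0 0))))) (P.cons (P.cons (P.lf 0 8376519 0) (P.cons (P.lf 1051050 0 0) (P.cons (P.lf 160467 0 0) (P.cons (P.lf 0 4902 0) P.nil)))) (P.cons (P.cons (P.lf 0 400242 0) (P.cons (P.lf 50220 0 0) (P.cons (P.lf 7665 0 0) P.nil))) (P.cons (P.cons (P.lf 12702 0 0) (P.cons (P.lf 0 1593 0) P.nil)) (P.cons (P.cons (P.lf 843 0 0) P.nil) P.nil)))))) 1341)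
 EL.nil)))
noncomputable def S212_227_586_660_22 : EL := (EL.cons 4 (TM.mk (P.cons (P.cons (P.lf 0 177117888 0) (P.cons (P.lf 0 171003900 0) (P.cons (P.lf 0 12112269 0) (P.cons (P.lf 3389010 0 0) (P.cons (P.lf 196767 0 0) (P.cons (P.lf 0 14283 0) P.nil)))))) (P.cons (P.cons (P.lf 0 101695293 0) (P.cons (P.lf 0 47777346 0) (P.cons (P.lf 4114896 0 0) (P.cons (P.lf 126234 0 0) (P.cons (P.lf 0 13752 0) P.nil))))) (P.cons (P.cons (P.lf 0 16679289 0) (P.cons (P.lf 2564916 0 0) (P.cons (P.lf 559083 0 0) (P.cons (P.lf 0 92130 0) P.nil)))) (P.cons (P.cons (P.lf 827448 0 0) (P.cons (P.lf 1176522 0 0) (P.cons (P.lf 0 53643 0) P.nil))) (P.cons (P.cons (P.lf 452292 0 0) (P.cons (P.lf 17928 0 0) P.nil)) (P.cons (P.cons (P.lf 7776 0 0) P.nil) P.nil)))))) 59802)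
 (EL.cons 8 (TM.mk (P.cons (P.cons (P.lf 34548753 0 0) (P.cons (P.lf 33356157 0 0) (P.cons (P.lf 2362629 0 0) (P.cons (P.lf 0 661062 0) (P.cons (P.lf 0 38382 0) (P.cons (P.lf 2784 0 0) P.nil)))))) (P.cons (P.cons (P.lf 12367515 0 0) (P.cons (P.lf 2108070 0 0) (P.cons (P.lf 0 1313442 0) (P.cons (P.lf 118293 0 0) (P.cons (P.lf 10980 0 0) P.nil))))) (P.cons (P.cons (P.lf 0 917055 0) (P.cons (P.lf 0 2401143 0) (P.cons (P.lf 72546 0 0) (P.cons (P.lf 21036 0 0) P.nil)))) (P.cons (P.cons (P.lf 0 806484 0) (P.cons (P.lf 0 98640 0) (P.cons (P.lf 30648 0 0) P.nil))) (P.cons (P.cons (P.lf 0 47427 0) (P.cons (P.lf 42072 0 0) P.nil)) (P.cons (P.cons (P.lf 16230 0 0) P.nil) P.nil)))))) 21606)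
 (EL.cons 11 (TM.mk (P.cons (P.cons (P.lf 0 238792419 0) (P.cons (P.lf 0 165165027 0) (P.cons (P.lf 39734976 0 0) (P.cons (P.lf 3444927 0 0) (P.cons (P.lf 0 479223 0) (P.cons (P.lf 0 25992 0) P.nil)))))) (P.cons (P.cons (P.lf 0 92454774 0) (P.cons (P.lf 0 8788980 0) (P.cons (P.lf 5445231 0 0) (P.cons (P.lf 320469 0 0) (P.cons (P.lf 0 53367 0) P.nil))))) (P.cons (P.cons (P.lf 0 11620407 0) (P.cons (P.lf 2493024 0 0) (P.cons (P.lf 36123 0 0) (P.cons (P.lf 0 25812 0) P.nil)))) (P.cons (P.cons (P.lf 599040 0 0) (P.cons (P.lf 105336 0 0) (P.cons (P.lf 0 43998 0) P.nil))) (P.cons (P.cons (P.lf 117564 0 0) (P.cons (P.lf 0 15462 0) P.nil)) (P.cons (P.cons (P.lf 0 546 0) P.nil) P.nil)))))) 26508)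
 EL.nil)))
noncomputable def S212_227_586_660_23 : EL := (EL.cons 4 (TM.mk (P.cons (P.cons (P.lf 0 503453811 0) (P.cons (P.lf 0 74680782 0) (P.cons (P.lf 4086231 0 0) (P.lf 454023 0 0)))) (P.cons (P.cons (P.lf 0 16862352 0) (P.cons (P.lf 24487386 0 0) (P.cons (P.lf 0 1339851 0) (P.lf 0 148872 0)))) (P.cons (P.cons (P.lf 35354424 0 0) (P.cons (P.lf 0 230649 0) (P.cons (P.lf 12621 0 0) (P.lf 1404 0 0)))) (P.cons (P.cons (P.lf 0 550656 0) (P.cons (P.lf 0 368901 0) (P.cons (P.lf 20181 0 0) P.nil))) (P.cons (P.cons (P.lf 0 369129 0) (P.cons (P.lf 0 3843 0) P.nil)) (P.cons (P.cons (P.lf 0 1536 0) P.nil) P.nil)))))) 9330)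
 (EL.cons 8 (TM.mk (P.cons (P.cons (P.lf 98204097 0 0) (P.cons (P.lf 14567295 0 0) (P.cons (P.lf 0 797064 0) (P.lf 0 88563 0)))) (P.cons (P.cons (P.lf 0 17941995 0) (P.cons (P.lf 0 7925895 0) (P.cons (P.lf 433671 0 0) (P.lf 48183 0 0)))) (P.cons (P.cons (P.lf 0 7271763 0) (P.cons (P.lf 1127430 0 0) (P.cons (P.lf 0 61686 0) (P.lf 0 6852 0)))) (P.cons (P.cons (P.lf 1582614 0 0) (P.cons (P.lf 41907 0 0) (P.cons (P.lf 0 2289 0) P.nil))) (P.cons (P.cons (P.lf 24969 0 0) (P.cons (P.lf 0 13242 0) P.nil)) (P.cons (P.cons (P.lf 0 13014 0) P.nil) P.nil)))))) 4170)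
 (EL.cons 11 (TM.mk (P.cons (P.cons (P.lf 0 678762336 0) (P.cons (P.lf 85168362 0 0) (P.cons (P.lf 13003005 0 0) (P.cons (P.lf 0 397239 0) (P.lf 0 33102 0))))) (P.cons (P.cons (P.lf 104188374 0 0) (P.cons (P.lf 0 13073136 0) (P.cons (P.lf 0 1995930 0) (P.cons (P.lf 60975 0 0) (P.lf 5079 0 0))))) (P.cons (P.cons (P.lf 9930285 0 0) (P.cons (P.lf 0 1246011 0) (P.cons (P.lf 0 190233 0) (P.cons (P.lf 5811 0 0) P.nil)))) (P.cons (P.cons (P.lf 0 375225 0) (P.cons (P.lf 47082 0 0) (P.cons (P.lf 7188 0 0) P.nil))) (P.cons (P.cons (P.lf 0 40611 0) (P.cons (P.lf 5094 0 0) P.nil)) (P.cons (P.cons (P.lf 468 0 0) P.nil) P.nil)))))) 2355)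
 EL.nil)))
noncomputable def S212_227_586_660_24 : EL := (EL.cons 4 (TM.mk (P.cons (P.cons (P.lf 49254678 0 0) (P.cons (P.lf 47554440 0 0) (P.cons (P.lf 3368298 0 0) (P.cons (P.lf 0 942447 0) (P.cons (P.lf 0 54717 0) (P.cons (P.lf 3972 0 0) P.nil)))))) (P.cons (P.cons (P.lf 18661206 0 0) (P.cons (P.lf 3999222 0 0) (P.cons (P.lf 0 1802124 0) (P.cons (P.lf 148950 0 0) (P.cons (P.lf 14511 0 0) P.nil))))) (P.cons (P.cons (P.lf 0 1034193 0) (P.cons (P.lf 0 3452385 0) (P.cons (P.lf 57780 0 0) (P.cons (P.lf 35334 0 0) P.nil)))) (P.cons (P.cons (P.lf 0 1213245 0) (P.cons (P.lf 0 219957 0) (P.cons (P.lf 49338 0 0) P.nil))) (P.cons (P.cons (P.lf 0 89769 0) (P.cons (P.lf 63612 0 0) P.nil)) (P.cons (P.cons (P.lf 24036 0 0) P.nil) P.nil)))))) 36522)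
 (EL.cons 8 (TM.mk (P.cons (P.cons (P.lf 0 9607656 0) (P.cons (P.lf 0 9276006 0) (P.cons (P.lf 0 657021 0) (P.cons (P.lf 183834 0 0) (P.cons (P.lf 10671 0 0) (P.cons (P.lf 0 774 0) P.nil)))))) (P.cons (P.cons (P.lf 0 1562946 0) (P.cons (P.lf 1225329 0 0) (P.cons (P.lf 493566 0 0) (P.cons (P.lf 0 68796 0) (P.cons (P.lf 0 5136 0) P.nil))))) (P.cons (P.cons (P.lf 955860 0 0) (P.cons (P.lf 810375 0 0) (P.cons (P.lf 0 89511 0) (P.cons (P.lf 15 0 0) P.nil)))) (P.cons (P.cons (P.lf 183240 0 0) (P.cons (P.lf 0 102801 0) (P.cons (P.lf 0 5805 0) P.nil))) (P.cons (P.cons (P.lf 0 32028 0) (P.cons (P.lf 0 19230 0) P.nil)) (P.cons (P.cons (P.lf 0 7740 0) P.nil) P.nil)))))) 11472)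
 (EL.cons 11 (TM.mk (P.cons (P.cons (P.lf 66405735 0 0) (P.cons (P.lf 45930708 0 0) (P.cons (P.lf 0 11049891 0) (P.cons (P.lf 0 957999 0) (P.cons (P.lf 133266 0 0) (P.cons (P.lf 7227 0 0) P.nil)))))) (P.cons (P.cons (P.lf 12741987 0 0) (P.cons (P.lf 0 6525933 0) (P.cons (P.lf 643728 0 0) (P.cons (P.lf 97971 0 0) (P.cons (P.lf 0 11184 0) P.nil))))) (P.cons (P.cons (P.lf 0 1991223 0) (P.cons (P.lf 0 1310016 0) (P.cons (P.lf 319218 0 0) (P.cons (P.lf 27489 0 0) P.nil)))) (P.cons (P.cons (P.lf 0 864207 0) (P.cons (P.lf 106647 0 0) (P.cons (P.lf 16875 0 0) P.nil))) (P.cons (P.cons (P.lf 0 5181 0) (P.cons (P.lf 12774 0 0) P.nil)) (P.cons (P.cons (P.lf 7719 0 0) P.nil) P.nil)))))) 18066)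
 EL.nil)))
noncomputable def S212_227_586_660_25 : EL := (EL.cons 4 (TM.mk (P.cons (P.cons (P.lf 140005371 0 0) (P.cons (P.lf 20767962 0 0) (P.cons (P.lf 0 1136337 0) (P.lf 0 126258 0)))) (P.cons (P.cons (P.lf 0 22653168 0) (P.cons (P.lf 0 10865583 0) (P.cons (P.lf 594519 0 0) (P.lf 66057 0 0)))) (P.cons (P.cons (P.lf 0 11172435 0) (P.cons (P.lf 1331007 0 0) (P.cons (P.lf 0 72825 0) (P.lf 0 8091 0)))) (P.cons (P.cons (P.lf 2083266 0 0) (P.cons (P.lf 114330 0 0) (P.cons (P.lf 0 6255 0) P.nil))) (P.cons (P.cons (P.lf 104091 0 0) (P.cons (P.lf 0 20238 0) P.nil)) (P.cons (P.cons (P.lf 0 21783 0) P.nil) P.nil)))))) 8256)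
 (EL.cons 8 (TM.mk (P.cons (P.cons (P.lf 0 27309558 0) (P.cons (P.lf 0 4051014 0) (P.cons (P.lf 221655 0 0) (P.lf 24627 0 0)))) (P.cons (P.cons (P.lf 10322919 0 0) (P.cons (P.lf 2995254 0 0) (P.cons (P.lf 0 163887 0) (P.lf 0 18207 0)))) (P.cons (P.cons (P.lf 1130667 0 0) (P.cons (P.lf 0 731682 0) (P.cons (P.lf 40032 0 0) (P.lf 4446 0 0)))) (P.cons (P.cons (P.lf 0 854916 0) (P.cons (P.lf 42183 0 0) (P.cons (P.lf 0 2307 0) P.nil))) (P.cons (P.cons (P.lf 73599 0 0) (P.cons (P.lf 7272 0 0) P.nil)) (P.cons (P.cons (P.lf 6690 0 0) P.nil) P.nil)))))) 3450)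
 (EL.cons 11 (TM.mk (P.cons (P.cons (P.lf 188756886 0 0) (P.cons (P.lf 0 23684451 0) (P.cons (P.lf 0 3616002 0) (P.cons (P.lf 110466 0 0) (P.lf 9204 0 0))))) (P.cons (P.cons (P.lf 0 65837094 0) (P.cons (P.lf 8260971 0 0) (P.cons (P.lf 1261236 0 0) (P.cons (P.lf 0 38529 0) (P.lf 0 3210 0))))) (P.cons (P.cons (P.lf 2324016 0 0) (P.cons (P.lf 0 291606 0) (P.cons (P.lf 0 44520 0) (P.cons (P.lf 1359 0 0) P.nil)))) (P.cons (P.cons (P.lf 764331 0 0) (P.cons (P.lf 0 95904 0) (P.cons (P.lf 0 14640 0) P.nil))) (P.cons (P.cons (P.lf 0 4794 0) (P.cons (P.lf 600 0 0) P.nil)) (P.cons (P.cons (P.lf 0 3297 0) P.nil) P.nil)))))) 2931)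
 EL.nil)))
noncomputable def S212_227_586_660_26 : EL := (EL.cons 4 (TM.mk (P.cons (P.cons (P.lf 0 13697223 0) (P.cons (P.lf 0 13224405 0) (P.cons (P.lf 0 936687 0) (P.cons (P.lf 262083 0 0) (P.cons (P.lf 15216 0 0) (P.cons (P.lf 0 1104 0) P.nil)))))) (P.cons (P.cons (P.lf 0 2514483 0) (P.cons (P.lf 1470522 0 0) (P.cons (P.lf 684084 0 0) (P.cons (P.lf 0 92604 0) (P.cons (P.lf 0 7005 0) P.nil))))) (P.cons (P.cons (P.lf 1342656 0 0) (P.cons (P.lf 1217406 0 0) (P.cons (P.lf 0 111096 0) (P.cons (P.lf 0 2532 0) P.nil)))) (P.cons (P.cons (P.lf 294597 0 0) (P.cons (P.lf 0 125247 0) (P.cons (P.lf 0 12264 0) P.nil))) (P.cons (P.cons (P.lf 0 42765 0) (P.cons (P.lf 0 32808 0) P.nil)) (P.cons (P.cons (P.lf 0 12555 0) P.nil) P.nil)))))) 16770)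
 (EL.cons 8 (TM.mk (P.cons (P.cons (P.lf 2671791 0 0) (P.cons (P.lf 2579562 0 0) (P.cons (P.lf 182709 0 0) (P.cons (P.lf 0 51120 0) (P.cons (P.lf 0 2967 0) (P.cons (P.lf 213 0 0) P.nil)))))) (P.cons (P.cons (P.lf 0 87147 0) (P.cons (P.lf 0 844527 0) (P.cons (P.lf 0 172938 0) (P.cons (P.lf 29115 0 0) (P.cons (P.lf 2007 0 0) P.nil))))) (P.cons (P.cons (P.lf 0 358806 0) (P.cons (P.lf 0 166638 0) (P.cons (P.lf 51141 0 0) (P.cons (P.lf 0 3585 0) P.nil)))) (P.cons (P.cons (P.lf 96 0 0) (P.cons (P.lf 74079 0 0) (P.cons (P.lf 0 2796 0) P.nil))) (P.cons (P.cons (P.lf 19752 0 0) (P.cons (P.lf 402 0 0) P.nil)) (P.cons (P.cons (P.lf 522 0 0) P.nil) P.nil)))))) 6315)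
 (EL.cons 11 (TM.mk (P.cons (P.cons (P.lf 0 18466758 0) (P.cons (P.lf 0 12772860 0) (P.cons (P.lf 3072861 0 0) (P.cons (P.lf 266409 0 0) (P.cons (P.lf 0 37059 0) (P.cons (P.lf 0 2010 0) P.nil)))))) (P.cons (P.cons (P.lf 63057 0 0) (P.cons (P.lf 4309278 0 0) (P.cons (P.lf 0 779130 0) (P.cons (P.lf 0 79272 0) (P.cons (P.lf 10347 0 0) P.nil))))) (P.cons (P.cons (P.lf 1301802 0 0) (P.cons (P.lf 48648 0 0) (P.cons (P.lf 0 63138 0) (P.cons (P.lf 0 3132 0) P.nil)))) (P.cons (P.cons (P.lf 139734 0 0) (P.cons (P.lf 0 108525 0) (P.cons (P.lf 13719 0 0) P.nil))) (P.cons (P.cons (P.lf 0 47880 0) (P.cons (P.lf 1383 0 0) P.nil)) (P.cons (P.cons (P.lf 0 3075 0) P.nil) P.nil)))))) 10401)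
 EL.nil)))
noncomputable def S212_227_586_660_27 : EL := (EL.cons 13 (TM.mk (P.lf 0 4294967296 0) 0)
 EL.nil)
noncomputable def S212_227_586_660_28 : EL := (EL.cons 13 (TM.mk (P.cons (P.cons (P.lf 420191951 0 0) (P.cons (P.lf 343357236 0 0) (P.cons (P.lf 0 18787128 0) (P.lf 0 2087456 0)))) (P.cons (P.cons (P.lf 145125230 0 0) (P.cons (P.lf 21527428 0 0) (P.cons (P.lf 0 1177892 0) (P.lf 0 130872 0)))) (P.cons (P.cons (P.lf 15824006 0 0) (P.cons (P.lf 0 1542584 0) (P.cons (P.lf 84400 0 0) (P.lf 9376 0 0)))) (P.cons (P.cons (P.lf 0 1148560 0) (P.cons (P.lf 0 122960 0) (P.cons (P.lf 6724 0 0) P.nil))) (P.cons (P.cons (P.lf 0 82951 0) (P.cons (P.lf 2840 0 0) P.nil)) (P.cons (P.cons (P.lf 2184 0 0) P.nil) P.nil)))))) 2229)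
 EL.nil)
noncomputable def S212_227_586_660_29 : EL := (EL.cons 13 (TM.mk (P.cons (P.cons (P.lf 0 41108875 0) (P.cons (P.lf 0 67183723 0) (P.cons (P.lf 0 23773357 0) (P.cons (P.lf 3412286 0 0) (P.cons (P.lf 251580 0 0) (P.cons (P.lf 0 18261 0) P.nil)))))) (P.cons (P.cons (P.lf 0 28396236 0) (P.cons (P.lf 0 27416017 0) (P.cons (P.lf 0 1941887 0) (P.cons (P.lf 543338 0 0) (P.cons (P.lf 31545 0 0) P.nil))))) (P.cons (P.cons (P.lf 0 7999961 0) (P.cons (P.lf 0 3683044 0) (P.cons (P.lf 340262 0 0) (P.cons (P.lf 7209 0 0) P.nil)))) (P.cons (P.cons (P.lf 0 844638 0) (P.cons (P.lf 153319 0 0) (P.cons (P.lf 26735 0 0) P.nil))) (P.cons (P.cons (P.lf 35548 0 0) (P.cons (P.lf 43897 0 0) P.nil)) (P.cons (P.cons (P.lf 13641 0 0) P.nil) P.nil)))))) 26930)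
 EL.nil)
noncomputable def S212_227_586_660_30 : EL := (EL.cons 13 (TM.mk (P.cons (P.lf 1194386624 0 0) (P.cons (P.lf 0 233258332 0) (P.cons (P.lf 0 3625172 0) (P.cons (P.lf 207136 0 0) (P.cons (P.lf 5900 0 0) (P.cons (P.lf 0 156 0) P.nil)))))) 48)
 EL.nil)
noncomputable def S212_227_586_660_31 : EL := (EL.cons 13 (TM.mk (P.cons (P.cons (P.lf 0 116851098 0) (P.cons (P.lf 0 95484147 0) (P.cons (P.lf 5224508 0 0) (P.lf 580500 0 0)))) (P.cons (P.cons (P.lf 0 17537353 0) (P.cons (P.lf 12661065 0 0) (P.cons (P.lf 0 692763 0) (P.lf 0 76974 0)))) (P.cons (P.cons (P.lf 3835874 0 0) (P.cons (P.lf 1887935 0 0) (P.cons (P.lf 0 103299 0) (P.lf 0 11476 0)))) (P.cons (P.cons (P.lf 1281027 0 0) (P.cons (P.lf 0 47972 0) (P.cons (P.lf 2625 0 0) P.nil))) (P.cons (P.cons (P.lf 0 33530 0) (P.cons (P.lf 0 10279 0) P.nil)) (P.cons (P.cons (P.lf 0 7029 0) P.nil) P.nil)))))) 2707)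
 EL.nil)
noncomputable def S212_227_586_660_32 : EL := (EL.cons 13 (TM.mk (P.cons (P.cons (P.lf 11431959 0 0) (P.cons (P.lf 18683108 0 0) (P.cons (P.lf 6611128 0 0) (P.cons (P.lf 0 948921 0) (P.cons (P.lf 0 69961 0) (P.cons (P.lf 5078 0 0) P.nil)))))) (P.cons (P.cons (P.lf 5664093 0 0) (P.cons (P.lf 3975387 0 0) (P.cons (P.lf 0 751104 0) (P.cons (P.lf 34223 0 0) (P.cons (P.lf 4890 0 0) P.nil))))) (P.cons (P.cons (P.lf 647818 0 0) (P.cons (P.lf 0 521444 0) (P.cons (P.lf 0 220152 0) (P.cons (P.lf 30383 0 0) P.nil)))) (P.cons (P.cons (P.lf 0 221575 0) (P.cons (P.lf 0 262561 0) (P.cons (P.lf 10552 0 0) P.nil))) (P.cons (P.cons (P.lf 0 61083 0) (P.cons (P.lf 0 5574 0) P.nil)) (P.cons (P.cons (P.lf 0 2152 0) P.nil) P.nil)))))) 18560)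
 EL.nil)
noncomputable def S212_227_586_660_33 : EL := (EL.cons 14 (TM.mk (P.lf 8589934592 0 0) 0)
 EL.nil)
noncomputable def S212_227_586_660_34 : EL := (EL.cons 14 (TM.mk (P.cons (P.cons (P.lf 0 840383902 0) (P.cons (P.lf 0 686714472 0) (P.cons (P.lf 37574256 0 0) (P.lf 4174912 0 0)))) (P.cons (P.cons (P.lf 0 290250460 0) (P.cons (P.lf 0 43054856 0) (P.cons (P.lf 2355784 0 0) (P.lf 261744 0 0)))) (P.cons (P.cons (P.lf 0 31648012 0) (P.cons (P.lf 3085168 0 0) (P.cons (P.lf 0 168800 0) (P.lf 0 18752 0)))) (P.cons (P.cons (P.lf 2297120 0 0) (P.cons (P.lf 245920 0 0) (P.cons (P.lf 0 13448 0) P.nil))) (P.cons (P.cons (P.lf 165902 0 0) (P.cons (P.lf 0 5680 0) P.nil)) (P.cons (P.cons (P.lf 0 4368 0) P.nil) P.nil)))))) 4458)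
 EL.nil)
noncomputable def S212_227_586_660_35 : EL := (EL.cons 14 (TM.mk (P.cons (P.cons (P.lf 82217750 0 0) (P.cons (P.lf 134367446 0 0) (P.cons (P.lf 47546714 0 0) (P.cons (P.lf 0 6824572 0) (P.cons (P.lf 0 503160 0) (P.cons (P.lf 36522 0 0) P.nil)))))) (P.cons (P.cons (P.lf 56792472 0 0) (P.cons (P.lf 54832034 0 0) (P.cons (P.lf 3883774 0 0) (P.cons (P.lf 0 1086676 0) (P.cons (P.lf 0 63090 0) P.nil))))) (P.cons (P.cons (P.lf 15999922 0 0) (P.cons (P.lf 7366088 0 0) (P.cons (P.lf 0 680524 0) (P.cons (P.lf 0 14418 0) P.nil)))) (P.cons (P.cons (P.lf 1689276 0 0) (P.cons (P.lf 0 306638 0) (P.cons (P.lf 0 53470 0) P.nil))) (P.cons (P.cons (P.lf 0 71096 0) (P.cons (P.lf 0 87794 0) P.nil)) (P.cons (P.cons (P.lf 0 27282 0) P.nil) P.nil)))))) 53860)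
 EL.nil)
noncomputable def S212_227_586_660_36 : EL := (EL.cons 14 (TM.mk (P.cons (P.lf 0 2388773248 0) (P.cons (P.lf 466516664 0 0) (P.cons (P.lf 7250344 0 0) (P.cons (P.lf 0 414272 0) (P.cons (P.lf 0 11800 0) (P.cons (P.lf 312 0 0) P.nil)))))) 96)
 EL.nil)
noncomputable def S212_227_586_660_37 : EL := (EL.cons 14 (TM.mk (P.cons (P.cons (P.lf 233702196 0 0) (P.cons (P.lf 190968294 0 0) (P.cons (P.lf 0 10449016 0) (P.lf 0 1161000 0)))) (P.cons (P.cons (P.lf 35074706 0 0) (P.cons (P.lf 0 25322130 0) (P.cons (P.lf 1385526 0 0) (P.lf 153948 0 0)))) (P.cons (P.cons (P.lf 0 7671748 0) (P.cons (P.lf 0 3775870 0) (P.cons (P.lf 206598 0 0) (P.lf 22952 0 0)))) (P.cons (P.cons (P.lf 0 2562054 0) (P.cons (P.lf 95944 0 0) (P.cons (P.lf 0 5250 0) P.nil))) (P.cons (P.cons (P.lf 67060 0 0) (P.cons (P.lf 20558 0 0) P.nil)) (P.cons (P.cons (P.lf 14058 0 0) P.nil) P.nil))))))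 5414)
 EL.nil)
noncomputable def S212_227_586_660_38 : EL := (EL.cons 14 (TM.mk (P.cons (P.cons (P.lf 0 22863918 0) (P.cons (P.lf 0 37366216 0) (P.cons (P.lf 0 13222256 0) (P.cons (P.lf 1897842 0 0) (P.cons (P.lf 139922 0 0) (P.cons (P.lf 0 10156 0) P.nil)))))) (P.cons (P.cons (P.lf 0 11328186 0) (P.cons (P.lf 0 7950774 0) (P.cons (P.lf 1502208 0 0) (P.cons (P.lf 0 68446 0) (P.cons (P.lf 0 9780 0) P.nil))))) (P.cons (P.cons (P.lf 0 1295636 0) (P.cons (P.lf 1042888 0 0) (P.cons (P.lf 440304 0 0) (P.cons (P.lf 0 60766 0) P.nil)))) (P.cons (P.cons (P.lf 443150 0 0) (P.cons (P.lf 525122 0 0) (P.cons (P.lf 0 21104 0) P.nil))) (P.cons (P.cons (P.lf 122166 0 0) (P.cons (P.lf 11148 0 0) P.nil)) (P.cons (P.cons (P.lf 4304 0 0) P.nil) P.nil)))))) 37120)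
 EL.nil)
noncomputable def S212_227_586_660_39 : EL := (EL.cons 14 (TM.mk (P.cons (P.lf 664293490 0 0) (P.cons (P.lf 0 259467056 0) (P.cons (P.lf 21303880 0 0) (P.cons (P.lf 1017936 0 0) (P.cons (P.lf 0 32314 0) (P.cons (P.lf 0 2154 0) P.nil)))))) 152)
 EL.nil)
noncomputable def S212_227_586_660_40 : EL := (EL.cons 14 (TM.mk (P.cons (P.cons (P.lf 0 64990198 0) (P.cons (P.lf 0 53106336 0) (P.cons (P.lf 2905764 0 0) (P.lf 322862 0 0)))) (P.cons (P.cons (P.lf 2938374 0 0) (P.cons (P.lf 17413254 0 0) (P.cons (P.lf 0 952782 0) (P.lf 0 105864 0)))) (P.cons (P.cons (P.lf 4235588 0 0) (P.cons (P.lf 0 164018 0) (P.cons (P.lf 8974 0 0) (P.lf 996 0 0)))) (P.cons (P.cons (P.lf 314164 0 0) (P.cons (P.lf 0 262330 0) (P.cons (P.lf 14354 0 0) P.nil))) (P.cons (P.cons (P.lf 0 166280 0) (P.cons (P.lf 0 2734 0) P.nil)) (P.cons (P.cons (P.lf 0 2098 0) P.nil) P.nil)))))) 6296)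
 EL.nil)
noncomputable def S212_227_586_660_41 : EL := (EL.cons 14 (TM.mk (P.cons (P.cons (P.lf 6358222 0 0) (P.cons (P.lf 10391164 0 0) (P.cons (P.lf 3676974 0 0) (P.cons (P.lf 0 527770 0) (P.cons (P.lf 0 38910 0) (P.cons (P.lf 2824 0 0) P.nil)))))) (P.cons (P.cons (P.lf 1908520 0 0) (P.cons (P.lf 181682 0 0) (P.cons (P.lf 0 1135844 0) (P.cons (P.lf 122104 0 0) (P.cons (P.lf 10318 0 0) P.nil))))) (P.cons (P.cons (P.lf 0 274224 0) (P.cons (P.lf 0 753360 0) (P.cons (P.lf 0 52020 0) (P.cons (P.lf 14782 0 0) P.nil)))) (P.cons (P.cons (P.lf 0 202060 0) (P.cons (P.lf 0 94300 0) (P.cons (P.lf 31686 0 0) P.nil))) (P.cons (P.cons (P.lf 0 10422 0) (P.cons (P.lf 26732 0 0) P.nil)) (P.cons (P.cons (P.lf 5888 0 0) P.nil) P.nil)))))) 25090)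
 EL.nil)
noncomputable def S212_227_586_660_42 : EL := (EL.cons 14 (TM.mk (P.cons (P.lf 0 184733248 0) (P.cons (P.lf 108232714 0 0) (P.cons (P.lf 0 19455268 0) (P.cons (P.lf 622888 0 0) (P.cons (P.lf 93852 0 0) (P.cons (P.lf 0 942 0) P.nil)))))) 312)
 EL.nil)
noncomputable def S212_227_586_660_43 : EL := (EL.cons 14 (TM.mk (P.cons (P.cons (P.lf 18073110 0 0) (P.cons (P.lf 14768330 0 0) (P.cons (P.lf 0 808062 0) (P.lf 0 89784 0)))) (P.cons (P.cons (P.lf 0 4346728 0) (P.cons (P.lf 0 7726636 0) (P.cons (P.lf 422770 0 0) (P.lf 46974 0 0)))) (P.cons (P.cons (P.lf 0 1073146 0) (P.cons (P.lf 946494 0 0) (P.cons (P.lf 0 51788 0) (P.lf 0 5754 0)))) (P.cons (P.cons (P.lf 148280 0 0) (P.cons (P.lf 81302 0 0) (P.cons (P.lf 0 4448 0) P.nil))) (P.cons (P.cons (P.lf 66826 0 0) (P.cons (P.lf 0 14390 0) P.nil)) (P.cons (P.cons (P.lf 0 8392 0) P.nil) P.nil)))))) 5222)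
 EL.nil)
noncomputable def S212_227_586_660_44 : EL := (EL.cons 14 (TM.mk (P.cons (P.cons (P.lf 0 1768156 0) (P.cons (P.lf 0 2889676 0) (P.cons (P.lf 0 1022528 0) (P.cons (P.lf 146766 0 0) (P.cons (P.lf 10820 0 0) (P.cons (P.lf 0 784 0) P.nil)))))) (P.cons (P.cons (P.lf 0 185426 0) (P.cons (P.lf 513816 0 0) (P.cons (P.lf 515562 0 0) (P.cons (P.lf 0 62618 0) (P.cons (P.lf 0 4982 0) P.nil))))) (P.cons (P.cons (P.lf 185276 0 0) (P.cons (P.lf 228138 0 0) (P.cons (P.lf 0 44116 0) (P.cons (P.lf 2074 0 0) P.nil)))) (P.cons (P.cons (P.lf 42602 0 0) (P.cons (P.lf 0 15038 0) (P.cons (P.lf 0 12772 0) P.nil))) (P.cons (P.cons (P.lf 0 8406 0) (P.cons (P.lf 0 13214 0) P.nil)) (P.cons (P.cons (P.lf 0 2362 0) P.nil) P.nil)))))) 15442)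
 EL.nil)
noncomputable def S212_227_586_660_45 : EL := (EL.cons 14 (TM.mk (P.cons (P.cons (P.lf 0 8043654 0) (P.cons (P.lf 0 19718468 0) (P.cons (P.lf 0 15033908 0) (P.cons (P.lf 0 2505692 0) (P.cons (P.lf 868094 0 0) (P.cons (P.lf 29908 0 0) P.nil)))))) (P.cons (P.cons (P.lf 0 8334314 0) (P.cons (P.lf 0 14856952 0) (P.cons (P.lf 0 6772556 0) (P.cons (P.lf 94916 0 0) (P.cons (P.lf 205024 0 0) P.nil))))) (P.cons (P.cons (P.lf 0 3787240 0) (P.cons (P.lf 0 4602682 0) (P.cons (P.lf 0 971330 0) (P.cons (P.lf 169232 0 0) P.nil)))) (P.cons (P.cons (P.lf 0 893152 0) (P.cons (P.lf 0 577474 0) (P.cons (P.lf 48296 0 0) P.nil))) (P.cons (P.cons (P.lf 0 92296 0) (P.cons (P.lf 13604 0 0) P.nil)) (P.cons (P.cons (P.lf 4180 0 0) P.nil) P.nil)))))) 129824)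
 EL.nil)
noncomputable def S212_227_586_660_46 : EL := (EL.cons 15 (TM.mk (P.lf 4294967296 0 0) 0)
 EL.nil)
noncomputable def S212_227_586_660_47 : EL := (EL.cons 15 (TM.mk (P.cons (P.cons (P.lf 0 420191951 0) (P.cons (P.lf 0 343357236 0) (P.cons (P.lf 18787128 0 0) (P.lf 2087456 0 0)))) (P.cons (P.cons (P.lf 0 145125230 0) (P.cons (P.lf 0 21527428 0) (P.cons (P.lf 1177892 0 0) (P.lf 130872 0 0)))) (P.cons (P.cons (P.lf 0 15824006 0) (P.cons (P.lf 1542584 0 0) (P.cons (P.lf 0 84400 0) (P.lf 0 9376 0)))) (P.cons (P.cons (P.lf 1148560 0 0) (P.cons (P.lf 122960 0 0) (P.cons (P.lf 0 6724 0) P.nil))) (P.cons (P.cons (P.lf 82951 0 0) (P.cons (P.lf 0 2840 0) P.nil)) (P.cons (P.cons (P.lf 0 2184 0) P.nil) P.nil)))))) 2229)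
 EL.nil)
noncomputable def S212_227_586_660_48 : EL := (EL.cons 15 (TM.mk (P.cons (P.cons (P.lf 41108875 0 0) (P.cons (P.lf 67183723 0 0) (P.cons (P.lf 23773357 0 0) (P.cons (P.lf 0 3412286 0) (P.cons (P.lf 0 251580 0) (P.cons (P.lf 18261 0 0) P.nil)))))) (P.cons (P.cons (P.lf 28396236 0 0) (P.cons (P.lf 27416017 0 0) (P.cons (P.lf 1941887 0 0) (P.cons (P.lf 0 543338 0) (P.cons (P.lf 0 31545 0) P.nil))))) (P.cons (P.cons (P.lf 7999961 0 0) (P.cons (P.lf 3683044 0 0) (P.cons (P.lf 0 340262 0) (P.cons (P.lf 0 7209 0) P.nil)))) (P.cons (P.cons (P.lf 844638 0 0) (P.cons (P.lf 0 153319 0) (P.cons (P.lf 0 26735 0) P.nil))) (P.cons (P.cons (P.lf 0 35548 0) (P.cons (P.lf 0 43897 0) P.nil)) (P.cons (P.cons (P.lf 0 13641 0) P.nil) P.nil)))))) 26930)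
 EL.nil)
noncomputable def S212_227_586_660 : SL := (SL.cons S212_227_586_660_0 (SL.cons S212_227_586_660_1 (SL.cons S212_227_586_660_2 (SL.cons S212_227_586_660_3 (SL.cons S212_227_586_660_4 (SL.cons S212_227_586_660_5 (SL.cons S212_227_586_660_6 (SL.cons S212_227_586_660_7 (SL.cons S212_227_586_660_8 (SL.cons S212_227_586_660_9 (SL.cons S212_227_586_660_10 (SL.cons S212_227_586_660_11 (SL.cons S212_227_586_660_12 (SL.cons S212_227_586_660_13 (SL.cons S212_227_586_660_14 (SL.cons S212_227_586_660_15 (SL.cons S212_227_586_660_16 (SL.cons S212_227_586_660_17 (SL.cons S212_227_586_660_18 (SL.cons S212_227_586_660_19 (SL.cons S212_227_586_660_20 (SL.cons S212_227_586_660_21 (SL.cons S212_227_586_660_22 (SL.cons S212_227_586_660_23 (SL.cons S212_227_586_660_24 (SL.cons S212_227_586_660_25 (SL.cons S212_227_586_660_26 (SL.cons S212_227_586_660_27 (SL.cons S212_227_586_660_28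 (SL.cons S212_227_586_660_29 (SL.cons S212_227_586_660_30 (SL.cons S212_227_586_660_31 (SL.cons S212_227_586_660_32 (SL.cons S212_227_586_660_33 (SL.cons S212_227_586_660_34 (SL.cons S212_227_586_660_35 (SL.cons S212_227_586_660_36 (SL.cons S212_227_586_660_37 (SL.cons S212_227_586_660_38 (SL.cons S212_227_586_660_39 (SL.cons S212_227_586_660_40 (SL.cons S212_227_586_660_41 (SL.cons S212_227_586_660_42 (SL.cons S212_227_586_660_43 (SL.cons S212_227_586_660_44 (SL.cons S212_227_586_660_45 (SL.cons S212_227_586_660_46 (SL.cons S212_227_586_660_47 (SL.cons S212_227_586_660_48 SL.nil)))))))))))))))))))))))))))))))))))))))))))))))))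
theorem S212_227_438_475_ok : band (seq (shp 5 212 227 438 475) S212_227_438_475) (sok S212_227_438_475) = true := by decide +kernel

theorem S212_227_438_512_ok : band (seq (shp 5 212 227 438 512) S212_227_438_512) (sok S212_227_438_512) = true := by decide +kernel

theorem S212_227_475_512_ok : band (seq (shp 5 212 227 475 512) S212_227_475_512) (sok S212_227_475_512) = true := by decide +kernel

theorem S212_227_512_586_ok : band (seq (shp 5 212 227 512 586) S212_227_512_586) (sok S212_227_512_586) = true := by decide +kernel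

theorem S212_227_512_660_ok : band (seq (shp 5 212 227 512 660) S212_227_512_660) (sok S212_227_512_660) = true := by decide +kernel

theorem S212_227_586_660_ok : band (seq (shp 5 212 227 586 660) S212_227_586_660) (sok S212_227_586_660) = true := by decide +kernel

end Vale.Agent.P098.Ck
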