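import Vale.Agent.P098.CkDefs

namespace Vale.Agent.P098.Ck

noncomputable def S285_314_734_771_0 : EL := (EL.cons 0 (TM.mk (P.cons (P.lf 7643457911 0 0) (P.cons (P.lf 0 503779721 0) (P.cons (P.lf 0 60126632 0) (P.cons (P.lf 7110123 0 0) (P.cons (P.lf 270363 0 0) (P.cons (P.lf 0 53070 0) P.nil)))))) 3984)
 (EL.cons 1 (TM.mk (P.cons (P.lf 1228710643 0 0) (P.cons (P.lf 321830180 0 0) (P.cons (P.lf 0 40457490 0) (P.cons (P.lf 0 2710608 0) (P.cons (P.lf 384633 0 0) (P.cons (P.lf 7027 0 0) P.nil)))))) 2881)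
 (EL.cons 5 (TM.mk (P.cons (P.lf 4583770480 0 0) (P.cons (P.lf 179121676 0 0) (P.cons (P.lf 21378358 0 0) (P.cons (P.lf 0 2528040 0) (P.cons (P.lf 0 96128 0) (P.cons (P.lf 18870 0 0) P.nil)))))) 1697)
 (EL.cons 9 (TM.mk (P.lf 6442450944 0 0) 2)
 EL.nil))))
noncomputable def S285_314_734_771_1 : EL := (EL.cons 0 (TM.mk (P.cons (P.cons (P.lf 0 3925106817 0) (P.cons (P.lf 0 76819959 0) (P.cons (P.lf 11570029 0 0) (P.lf 296668 0 0)))) (P.cons (P.cons (P.lf 1792333025 0 0) (P.cons (P.lf 40836024 0 0) (P.cons (P.lf 0 6150395 0) (P.lf 0 157689 0)))) (P.cons (P.cons (P.lf 404809821 0 0) (P.cons (P.lf 308461 0 0) (P.cons (P.lf 0 46460 0) (P.lf 0 1193 0)))) (P.cons (P.cons (P.lf 0 78136434 0) (P.cons (P.lf 0 1566840 0) (P.cons (P.lf 235974 0 0) P.nil))) (P.cons (P.cons (P.lf 0 9481661 0) (P.cons (P.lf 78959 0 0) P.nil)) (P.cons (P.cons (P.lf 1830828 0 0) P.nil) P.nil)))))) 385022)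
 (EL.cons 1 (TM.mk (P.cons (P.cons (P.lf 0 1293942782 0) (P.cons (P.lf 0 41096092 0) (P.cons (P.lf 6189567 0 0) (P.lf 158700 0 0)))) (P.cons (P.cons (P.lf 0 584779612 0) (P.cons (P.lf 0 1795665 0) (P.cons (P.lf 270447 0 0) (P.lf 6936 0 0)))) (P.cons (P.cons (P.lf 221896061 0 0) (P.cons (P.lf 4483584 0 0) (P.cons (P.lf 0 675272 0) (P.lf 0 17306 0)))) (P.cons (P.cons (P.lf 32074617 0 0) (P.cons (P.lf 0 201352 0) (P.cons (P.lf 30324 0 0) P.nil))) (P.cons (P.cons (P.lf 0 7298542 0) (P.cons (P.lf 0 114219 0) P.nil)) (P.cons (P.cons (P.lf 0 526090 0) P.nil) P.nil)))))) 220669)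
 (EL.cons 5 (TM.mk (P.cons (P.cons (P.lf 0 3145922241 0) (P.cons (P.lf 0 80412566 0) (P.cons (P.lf 12111124 0 0) (P.lf 310540 0 0)))) (P.cons (P.cons (P.lf 0 278139821 0) (P.cons (P.lf 1052962 0 0) (P.cons (P.lf 0 158596 0) (P.lf 0 4074 0)))) (P.cons (P.cons (P.lf 43746018 0 0) (P.cons (P.lf 1373732 0 0) (P.cons (P.lf 0 206900 0) (P.lf 0 5306 0)))) (P.cons (P.cons (P.lf 23112710 0 0) (P.cons (P.lf 241730 0 0) (P.cons (P.lf 0 36402 0) P.nil))) (P.cons (P.cons (P.lf 970959 0 0) (P.cons (P.lf 0 33558 0) P.nil)) (P.cons (P.cons (P.lf 0 543972 0) P.nil) P.nil)))))) 195094)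
 (EL.cons 9 (TM.mk (P.cons (P.cons (P.lf 0 4007219791 0) (P.cons (P.lf 0 95052642 0) (P.cons (P.lf 14316090 0 0) (P.lf 367074 0 0)))) (P.cons (P.cons (P.lf 316883061 0 0) (P.cons (P.lf 13740378 0 0) (P.cons (P.lf 0 2069466 0) (P.lf 0 53058 0)))) (P.cons (P.cons (P.lf 165598582 0 0) (P.cons (P.lf 1308882 0 0) (P.cons (P.lf 0 197130 0) (P.lf 0 5052 0)))) (P.cons (P.cons (P.lf 0 4119816 0) (P.cons (P.lf 0 278256 0) (P.cons (P.lf 41904 0 0) P.nil))) (P.cons (P.cons (P.lf 0 2117896 0) (P.cons (P.lf 0 4836 0) P.nil)) (P.cons (P.cons (P.lf 94399 0 0) P.nil) P.nil)))))) 37016)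
 (EL.cons 2 (TM.mk (P.cons (P.cons (P.lf 0 257863069 0) (P.cons (P.lf 82593987 0 0) (P.cons (P.lf 1694877 0 0) (P.cons (P.lf 0 113985 0) (P.lf 0 2190 0))))) (P.cons (P.cons (P.lf 0 55115637 0) (P.cons (P.lf 17653635 0 0) (P.cons (P.lf 362261 0 0) (P.cons (P.lf 0 24361 0) (P.lf 0 466 0))))) (P.cons (P.cons (P.lf 13527379 0 0) (P.cons (P.lf 0 4332841 0) (P.cons (P.lf 0 88911 0) (P.cons (P.lf 5976 0 0) P.nil)))) (P.cons (P.cons (P.lf 537089 0 0) (P.cons (P.lf 0 172029 0) (P.cons (P.lf 0 3529 0) P.nil))) (P.cons (P.cons (P.lf 0 195072 0) (P.cons (P.lf 62479 0 0) P.nil)) (P.cons (P.cons (P.lf 621 0 0) P.nil) P.nil)))))) 10216)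
 (EL.cons 6 (TM.mk (P.cons (P.cons (P.lf 390071538 0 0) (P.cons (P.lf 0 124940589 0) (P.cons (P.lf 0 2563854 0) (P.cons (P.lf 172425 0 0) (P.lf 3315 0 0))))) (P.cons (P.cons (P.lf 0 56386992 0) (P.cons (P.lf 18060849 0 0) (P.cons (P.lf 370617 0 0) (P.cons (P.lf 0 24924 0) (P.lf 0 477 0))))) (P.cons (P.cons (P.lf 0 5371335 0) (P.cons (P.lf 1720446 0 0) (P.cons (P.lf 35301 0 0) (P.cons (P.lf 0 2373 0) P.nil)))) (P.cons (P.cons (P.lf 1141917 0 0) (P.cons (P.lf 0 365757 0) (P.cons (P.lf 0 7503 0) P.nil))) (P.cons (P.cons (P.lf 19866 0 0) (P.cons (P.lf 0 6360 0) P.nil)) (P.cons (P.cons (P.lf 0 11550 0) P.nil) P.nil)))))) 6705)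
 EL.nil))))))
noncomputable def S285_314_734_771_2 : EL := (EL.cons 0 (TM.mk (P.cons (P.cons (P.lf 1925697368 0 0) (P.cons (P.lf 71097881 0 0) (P.cons (P.lf 0 10105257 0) (P.cons (P.lf 0 456197 0) (P.cons (P.lf 9030 0 0) (P.cons (P.lf 709 0 0) P.nil)))))) (P.cons (P.cons (P.lf 0 1953199414 0) (P.cons (P.lf 0 87368772 0) (P.cons (P.lf 12216819 0 0) (P.cons (P.lf 621127 0 0) (P.cons (P.lf 0 14088 0) P.nil))))) (P.cons (P.cons (P.lf 0 310697748 0) (P.cons (P.lf 0 1049183 0) (P.cons (P.lf 284339 0 0) (P.cons (P.lf 0 33986 0) P.nil)))) (P.cons (P.cons (P.lf 187458015 0 0) (P.cons (P.lf 6950052 0 0) (P.cons (P.lf 0 998389 0) P.nil))) (P.cons (P.cons (P.lf 17740552 0 0) (P.cons (P.lf 0 306061 0) P.nil)) (P.cons (P.cons (P.lf 0 7446296 0) P.nil) P.nil)))))) 2218543)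
 (EL.cons 1 (TM.mk (P.cons (P.cons (P.lf 1134298844 0 0) (P.cons (P.lf 66753704 0 0) (P.cons (P.lf 0 9108718 0) (P.cons (P.lf 0 542503 0) (P.cons (P.lf 14137 0 0) (P.cons (P.lf 1098 0 0) P.nil)))))) (P.cons (P.cons (P.lf 550850087 0 0) (P.cons (P.lf 9063898 0 0) (P.cons (P.lf 0 1480178 0) (P.cons (P.lf 0 354 0) (P.cons (P.lf 0 1715 0) P.nil))))) (P.cons (P.cons (P.lf 0 328424594 0) (P.cons (P.lf 0 14386618 0) (P.cons (P.lf 2040967 0 0) (P.cons (P.lf 93445 0 0) P.nil)))) (P.cons (P.cons (P.lf 0 42479009 0) (P.cons (P.lf 419142 0 0) (P.cons (P.lf 0 39358 0) P.nil))) (P.cons (P.cons (P.lf 21423436 0 0) (P.cons (P.lf 743873 0 0) P.nil)) (P.cons (P.cons (P.lf 1501858 0 0) P.nil) P.nil)))))) 1224601)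
 (EL.cons 5 (TM.mk (P.cons (P.cons (P.lf 2140141200 0 0) (P.cons (P.lf 108732813 0 0) (P.cons (P.lf 0 15001482 0) (P.cons (P.lf 0 834098 0) (P.cons (P.lf 20556 0 0) (P.cons (P.lf 1594 0 0) P.nil)))))) (P.cons (P.cons (P.lf 247706324 0 0) (P.cons (P.lf 1094851 0 0) (P.cons (P.lf 0 289469 0) (P.cons (P.lf 33315 0 0) (P.cons (P.lf 0 1872 0) P.nil))))) (P.cons (P.cons (P.lf 0 105337887 0) (P.cons (P.lf 0 5478457 0) (P.cons (P.lf 769645 0 0) (P.cons (P.lf 37859 0 0) P.nil)))) (P.cons (P.cons (P.lf 0 42380738 0) (P.cons (P.lf 0 994546 0) (P.cons (P.lf 148220 0 0) P.nil))) (P.cons (P.cons (P.lf 1043049 0 0) (P.cons (P.lf 211780 0 0) P.nil)) (P.cons (P.cons (P.lf 2038316 0 0) P.nil) P.nil)))))) 1097742)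
 (EL.cons 9 (TM.mk (P.cons (P.cons (P.lf 2492500228 0 0) (P.cons (P.lf 118245937 0 0) (P.cons (P.lf 0 16406866 0) (P.cons (P.lf 0 879084 0) (P.cons (P.lf 20980 0 0) (P.cons (P.lf 1630 0 0) P.nil)))))) (P.cons (P.cons (P.lf 0 394204032 0) (P.cons (P.lf 0 26443750 0) (P.cons (P.lf 3577294 0 0) (P.cons (P.lf 224247 0 0) (P.cons (P.lf 0 6064 0) P.nil))))) (P.cons (P.cons (P.lf 0 190418983 0) (P.cons (P.lf 0 5163087 0) (P.cons (P.lf 768301 0 0) (P.cons (P.lf 22741 0 0) P.nil)))) (P.cons (P.cons (P.lf 21415573 0 0) (P.cons (P.lf 1302852 0 0) (P.cons (P.lf 0 182424 0) P.nil))) (P.cons (P.cons (P.lf 6485985 0 0) (P.cons (P.lf 90852 0 0) P.nil)) (P.cons (P.cons (P.lf 0 537571 0) P.nil) P.nil)))))) 257366)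
 (EL.cons 2 (TM.mk (P.cons (P.cons (P.lf 320782882 0 0) (P.cons (P.lf 0 95138229 0) (P.cons (P.lf 0 5691656 0) (P.cons (P.lf 429468 0 0) (P.cons (P.lf 23034 0 0) (P.cons (P.lf 0 247 0) P.nil)))))) (P.cons (P.cons (P.lf 43197232 0 0) (P.cons (P.lf 0 13309717 0) (P.cons (P.lf 0 531826 0) (P.cons (P.lf 38992 0 0) (P.cons (P.lf 1771 0 0) P.nil))))) (P.cons (P.cons (P.lf 0 35506406 0) (P.cons (P.lf 10633713 0 0) (P.cons (P.lf 581400 0 0) (P.cons (P.lf 0 43633 0) P.nil)))) (P.cons (P.cons (P.lf 0 1841023 0) (P.cons (P.lf 631417 0 0) (P.cons (P.lf 0 7548 0) P.nil))) (P.cons (P.cons (P.lf 1230958 0 0) (P.cons (P.lf 0 375586 0) P.nil)) (P.cons (P.cons (P.lf 19023 0 0) P.nil) P.nil)))))) 134380)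
 (EL.cons 6 (TM.mk (P.cons (P.cons (P.lf 0 485250846 0) (P.cons (P.lf 143916366 0 0) (P.cons (P.lf 8609814 0 0) (P.cons (P.lf 0 649662 0) (P.cons (P.lf 0 34842 0) (P.cons (P.lf 372 0 0) P.nil)))))) (P.cons (P.cons (P.lf 108518364 0 0) (P.cons (P.lf 0 31430856 0) (P.cons (P.lf 0 2280348 0) (P.cons (P.lf 173778 0 0) (P.cons (P.lf 9798 0 0) P.nil))))) (P.cons (P.cons (P.lf 21187998 0 0) (P.cons (P.lf 0 6710076 0) (P.cons (P.lf 0 175272 0) (P.cons (P.lf 12252 0 0) P.nil)))) (P.cons (P.cons (P.lf 0 5346606 0) (P.cons (P.lf 1599306 0 0) (P.cons (P.lf 88446 0 0) P.nil))) (P.cons (P.cons (P.lf 0 372858 0) (P.cons (P.lf 125814 0 0) P.nil)) (P.cons (P.cons (P.lf 130398 0 0) P.nil) P.nil)))))) 99696)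
 EL.nil))))))
noncomputable def S285_314_734_771_3 : EL := (EL.cons 0 (TM.mk (P.cons (P.lf 812258952 0 0) (P.cons (P.lf 503779721 0 0) (P.cons (P.lf 60126632 0 0) (P.cons (P.lf 0 7110123 0) (P.cons (P.lf 0 270363 0) (P.cons (P.lf 53070 0 0) P.nil)))))) 3984)
 (EL.cons 1 (TM.mk (P.cons (P.lf 0 1228710643 0) (P.cons (P.lf 0 321830180 0) (P.cons (P.lf 40457490 0 0) (P.cons (P.lf 2710608 0 0) (P.cons (P.lf 0 384633 0) (P.cons (P.lf 0 7027 0) P.nil)))))) 2881)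
 (EL.cons 5 (TM.mk (P.cons (P.lf 1858680464 0 0) (P.cons (P.lf 0 179121676 0) (P.cons (P.lf 0 21378358 0) (P.cons (P.lf 2528040 0 0) (P.cons (P.lf 96128 0 0) (P.cons (P.lf 0 18870 0) P.nil)))))) 1690)
 EL.nil)))
noncomputable def S285_314_734_771_4 : EL := (EL.cons 0 (TM.mk (P.cons (P.cons (P.lf 0 505226997 0) (P.cons (P.lf 0 11984159 0) (P.cons (P.lf 1804960 0 0) (P.lf 46279 0 0)))) (P.cons (P.cons (P.lf 0 273399825 0) (P.cons (P.lf 0 5700445 0) (P.cons (P.lf 858556 0 0) (P.lf 22013 0 0)))) (P.cons (P.cons (P.lf 8258899 0 0) (P.cons (P.lf 352362 0 0) (P.cons (P.lf 0 53068 0) (P.lf 0 1358 0)))) (P.cons (P.cons (P.lf 19809817 0 0) (P.cons (P.lf 300408 0 0) (P.cons (P.lf 0 45244 0) P.nil))) (P.cons (P.cons (P.lf 774775 0 0) (P.cons (P.lf 0 21327 0) P.nil)) (P.cons (P.cons (P.lf 0 421228 0) P.nil) P.nil)))))) 73759)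
 (EL.cons 1 (TM.mk (P.cons (P.cons (P.lf 764260938 0 0) (P.cons (P.lf 18128533 0 0) (P.cons (P.lf 0 2730376 0) (P.lf 0 70006 0)))) (P.cons (P.cons (P.lf 139742883 0 0) (P.cons (P.lf 2127738 0 0) (P.cons (P.lf 0 320461 0) (P.lf 0 8216 0)))) (P.cons (P.cons (P.lf 0 72577552 0) (P.cons (P.lf 0 1532940 0) (P.cons (P.lf 230878 0 0) (P.lf 5917 0 0)))) (P.cons (P.cons (P.lf 0 7182710 0) (P.cons (P.lf 33978 0 0) (P.cons (P.lf 0 5116 0) P.nil))) (P.cons (P.cons (P.lf 2022228 0 0) (P.cons (P.lf 34496 0 0) P.nil)) (P.cons (P.cons (P.lf 117048 0 0) P.nil) P.nil)))))) 54677)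
 (EL.cons 5 (TM.mk (P.cons (P.cons (P.lf 0 1156103662 0) (P.cons (P.lf 0 27423178 0) (P.cons (P.lf 4130264 0 0) (P.lf 105902 0 0)))) (P.cons (P.cons (P.lf 202836512 0 0) (P.cons (P.lf 6606950 0 0) (P.cons (P.lf 0 995084 0) (P.lf 0 25512 0)))) (P.cons (P.cons (P.lf 52263028 0 0) (P.cons (P.lf 311008 0 0) (P.cons (P.lf 0 46840 0) (P.lf 0 1198 0)))) (P.cons (P.cons (P.lf 0 8416760 0) (P.cons (P.lf 0 199562 0) (P.cons (P.lf 30054 0 0) P.nil))) (P.cons (P.cons (P.lf 0 981440 0) (P.cons (P.lf 5970 0 0) P.nil)) (P.cons (P.cons (P.lf 181238 0 0) P.nil) P.nil)))))) 40580)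
 EL.nil)))
noncomputable def S285_314_734_771_5 : EL := (EL.cons 0 (TM.mk (P.cons (P.cons (P.lf 314252391 0 0) (P.cons (P.lf 14908350 0 0) (P.cons (P.lf 0 2068563 0) (P.cons (P.lf 0 110833 0) (P.cons (P.lf 2643 0 0) (P.cons (P.lf 203 0 0) P.nil)))))) (P.cons (P.cons (P.lf 145204878 0 0) (P.cons (P.lf 5912458 0 0) (P.cons (P.lf 0 831942 0) (P.cons (P.lf 0 40468 0) (P.cons (P.lf 875 0 0) P.nil))))) (P.cons (P.cons (P.lf 0 31571194 0) (P.cons (P.lf 0 1615201 0) (P.cons (P.lf 223475 0 0) (P.cons (P.lf 12197 0 0) P.nil)))) (P.cons (P.cons (P.lf 0 18619989 0) (P.cons (P.lf 0 616770 0) (P.cons (P.lf 88570 0 0) P.nil))) (P.cons (P.cons (P.lf 1045678 0 0) (P.cons (P.lf 89368 0 0) P.nil)) (P.cons (P.cons (P.lf 886503 0 0) P.nil) P.nil)))))) 276010)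
 (EL.cons 1 (TM.mk (P.cons (P.cons (P.lf 0 475372117 0) (P.cons (P.lf 0 22551980 0) (P.cons (P.lf 3129133 0 0) (P.cons (P.lf 167658 0 0) (P.cons (P.lf 0 3999 0) (P.cons (P.lf 0 309 0) P.nil)))))) (P.cons (P.cons (P.lf 0 49328913 0) (P.cons (P.lf 0 863551 0) (P.cons (P.lf 137332 0 0) (P.cons (P.lf 1143 0 0) (P.cons (P.lf 108 0 0) P.nil))))) (P.cons (P.cons (P.lf 71661684 0 0) (P.cons (P.lf 3048258 0 0) (P.cons (P.lf 0 428265 0) (P.cons (P.lf 0 21058 0) P.nil)))) (P.cons (P.cons (P.lf 4001071 0 0) (P.cons (P.lf 0 106871 0) (P.cons (P.lf 11973 0 0) P.nil))) (P.cons (P.cons (P.lf 0 3817286 0) (P.cons (P.lf 0 133018 0) P.nil)) (P.cons (P.cons (P.lf 0 146291 0) P.nil) P.nil)))))) 207271)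
 (EL.cons 5 (TM.mk (P.cons (P.cons (P.lf 719099224 0 0) (P.cons (P.lf 34114564 0 0) (P.cons (P.lf 0 4733464 0) (P.cons (P.lf 0 253618 0) (P.cons (P.lf 6052 0 0) (P.cons (P.lf 468 0 0) P.nil)))))) (P.cons (P.cons (P.lf 0 183029744 0) (P.cons (P.lf 0 10916790 0) (P.cons (P.lf 1488232 0 0) (P.cons (P.lf 89136 0 0) (P.cons (P.lf 0 2332 0) P.nil))))) (P.cons (P.cons (P.lf 0 52247680 0) (P.cons (P.lf 0 1146734 0) (P.cons (P.lf 176640 0 0) (P.cons (P.lf 3242 0 0) P.nil)))) (P.cons (P.cons (P.lf 13758964 0 0) (P.cons (P.lf 653578 0 0) (P.cons (P.lf 0 92300 0) P.nil))) (P.cons (P.cons (P.lf 1790196 0 0) (P.cons (P.lf 0 1492 0) P.nil)) (P.cons (P.cons (P.lf 0 494392 0) P.nil) P.nil)))))) 170800)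
 EL.nil)))
noncomputable def S285_314_734_771_6 : EL := (EL.cons 12 (TM.mk (P.lf 8589934592 0 0) 0)
 (EL.cons 3 (TM.mk (P.cons (P.lf 1320724353 0 0) (P.cons (P.lf 409570215 0 0) (P.cons (P.lf 0 14623338 0) (P.cons (P.lf 0 1245645 0) (P.cons (P.lf 85526 0 0) (P.cons (P.lf 2831 0 0) P.nil)))))) 532)
 (EL.cons 7 (TM.mk (P.cons (P.lf 0 1997870342 0) (P.cons (P.lf 96267727 0 0) (P.cons (P.lf 13808992 0 0) (P.cons (P.lf 0 693290 0) (P.cons (P.lf 0 37347 0) (P.cons (P.lf 3551 0 0) P.nil)))))) 296)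
 EL.nil)))
noncomputable def S285_314_734_771_7 : EL := (EL.cons 12 (TM.mk (P.cons (P.cons (P.lf 0 5342959722 0) (P.cons (P.lf 0 126736856 0) (P.cons (P.lf 19088120 0 0) (P.lf 489432 0 0)))) (P.cons (P.cons (P.lf 422510748 0 0) (P.cons (P.lf 18320504 0 0) (P.cons (P.lf 0 2759288 0) (P.lf 0 70744 0)))) (P.cons (P.cons (P.lf 220798110 0 0) (P.cons (P.lf 1745176 0 0) (P.cons (P.lf 0 262840 0) (P.lf 0 6736 0)))) (P.cons (P.cons (P.lf 0 5493088 0) (P.cons (P.lf 0 371008 0) (P.cons (P.lf 55872 0 0) P.nil))) (P.cons (P.cons (P.lf 0 2823862 0) (P.cons (P.lf 0 6448 0) P.nil)) (P.cons (P.cons (P.lf 125866 0 0) P.nil) P.nil)))))) 49330)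
 (EL.cons 3 (TM.mk (P.cons (P.cons (P.lf 526682591 0 0) (P.cons (P.lf 38972228 0 0) (P.cons (P.lf 0 5869692 0) (P.lf 0 150502 0)))) (P.cons (P.cons (P.lf 1185630631 0 0) (P.cons (P.lf 6452040 0 0) (P.cons (P.lf 0 971756 0) (P.lf 0 24916 0)))) (P.cons (P.cons (P.lf 0 30176269 0) (P.cons (P.lf 0 2715210 0) (P.cons (P.lf 408940 0 0) (P.lf 10482 0 0)))) (P.cons (P.cons (P.lf 0 30853494 0) (P.cons (P.lf 0 26712 0) (P.cons (P.lf 4022 0 0) P.nil))) (P.cons (P.cons (P.lf 1940290 0 0) (P.cons (P.lf 51140 0 0) P.nil)) (P.cons (P.cons (P.lf 355935 0 0) P.nil) P.nil)))))) 131162)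
 (EL.cons 7 (TM.mk (P.cons (P.cons (P.lf 1559563177 0 0) (P.cons (P.lf 43217189 0 0) (P.cons (P.lf 0 6509044 0) (P.lf 0 166900 0)))) (P.cons (P.cons (P.lf 278677408 0 0) (P.cons (P.lf 1516520 0 0) (P.cons (P.lf 0 228403 0) (P.lf 0 5854 0)))) (P.cons (P.cons (P.lf 42831621 0 0) (P.cons (P.lf 0 366521 0) (P.cons (P.lf 55203 0 0) (P.lf 1416 0 0)))) (P.cons (P.cons (P.lf 0 7728916 0) (P.cons (P.lf 0 152093 0) (P.cons (P.lf 22904 0 0) P.nil))) (P.cons (P.cons (P.lf 0 1412533 0) (P.cons (P.lf 6843 0 0) P.nil)) (P.cons (P.cons (P.lf 157772 0 0) P.nil) P.nil)))))) 100619)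
 (EL.cons 10 (TM.mk (P.cons (P.cons (P.lf 0 838565184 0) (P.cons (P.lf 268593879 0 0) (P.cons (P.lf 5511708 0 0) (P.cons (P.lf 0 370677 0) (P.lf 0 7128 0))))) (P.cons (P.cons (P.lf 80812815 0 0) (P.cons (P.lf 0 25884483 0) (P.cons (P.lf 0 531165 0) (P.cons (P.lf 35721 0 0) (P.lf 684 0 0))))) (P.cons (P.cons (P.lf 9645093 0 0) (P.cons (P.lf 0 3089340 0) (P.cons (P.lf 0 63393 0) (P.cons (P.lf 4263 0 0) P.nil)))) (P.cons (P.cons (P.lf 0 1140552 0) (P.cons (P.lf 365319 0 0) (P.cons (P.lf 7494 0 0) P.nil))) (P.cons (P.cons (P.lf 0 43368 0) (P.cons (P.lf 13890 0 0) P.nil)) (P.cons (P.cons (P.lf 8511 0 0) P.nil) P.nil)))))) 4806)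
 EL.nil))))
noncomputable def S285_314_734_771_8 : EL := (EL.cons 12 (TM.mk (P.cons (P.cons (P.lf 3323333638 0 0) (P.cons (P.lf 157661250 0 0) (P.cons (P.lf 0 21875822 0) (P.cons (P.lf 0 1172112 0) (P.cons (P.lf 27974 0 0) (P.cons (P.lf 2174 0 0) P.nil)))))) (P.cons (P.cons (P.lf 0 525605376 0) (P.cons (P.lf 0 35258334 0) (P.cons (P.lf 4769726 0 0) (P.cons (P.lf 298996 0 0) (P.cons (P.lf 0 8086 0) P.nil))))) (P.cons (P.cons (P.lf 0 253891978 0) (P.cons (P.lf 0 6884116 0) (P.cons (P.lf 1024402 0 0) (P.cons (P.lf 30322 0 0) P.nil)))) (P.cons (P.cons (P.lf 28554098 0 0) (P.cons (P.lf 1737136 0 0) (P.cons (P.lf 0 243232 0) P.nil))) (P.cons (P.cons (P.lf 8647980 0 0) (P.cons (P.lf 121136 0 0) P.nil)) (P.cons (P.cons (P.lf 0 716762 0) P.nil) P.nil)))))) 343126)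
 (EL.cons 3 (TM.mk (P.cons (P.cons (P.lf 0 1166166665 0) (P.cons (P.lf 0 88263922 0) (P.cons (P.lf 11856119 0 0) (P.cons (P.lf 773864 0 0) (P.cons (P.lf 0 21506 0) (P.cons (P.lf 0 1671 0) P.nil)))))) (P.cons (P.cons (P.lf 0 1500762757 0) (P.cons (P.lf 0 39028050 0) (P.cons (P.lf 5847916 0 0) (P.cons (P.lf 159807 0 0) (P.cons (P.lf 0 450 0) P.nil))))) (P.cons (P.cons (P.lf 251005104 0 0) (P.cons (P.lf 15185777 0 0) (P.cons (P.lf 0 2132808 0) (P.cons (P.lf 0 105130 0) P.nil)))) (P.cons (P.cons (P.lf 102993822 0 0) (P.cons (P.lf 1289930 0 0) (P.cons (P.lf 0 208699 0) P.nil))) (P.cons (P.cons (P.lf 0 12095514 0) (P.cons (P.lf 0 663891 0) P.nil)) (P.cons (P.cons (P.lf 0 2849746 0) P.nil) P.nil)))))) 1005207)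
 (EL.cons 7 (TM.mk (P.cons (P.cons (P.lf 0 1167154023 0) (P.cons (P.lf 0 63113040 0) (P.cons (P.lf 8665246 0 0) (P.cons (P.lf 496868 0 0) (P.cons (P.lf 0 12566 0) (P.cons (P.lf 0 973 0) P.nil)))))) (P.cons (P.cons (P.lf 0 352747865 0) (P.cons (P.lf 0 9173368 0) (P.cons (P.lf 1374515 0 0) (P.cons (P.lf 37557 0 0) (P.cons (P.lf 0 104 0) P.nil))))) (P.cons (P.cons (P.lf 0 4196301 0) (P.cons (P.lf 1925967 0 0) (P.cons (P.lf 0 255064 0) (P.cons (P.lf 0 17981 0) P.nil)))) (P.cons (P.cons (P.lf 36759829 0 0) (P.cons (P.lf 1115701 0 0) (P.cons (P.lf 0 162785 0) P.nil))) (P.cons (P.cons (P.lf 3888528 0 0) (P.cons (P.lf 0 55352 0) P.nil)) (P.cons (P.cons (P.lf 0 1258536 0) P.nil) P.nil)))))) 632518)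
 (EL.cons 10 (TM.mk (P.cons (P.cons (P.lf 1043179068 0 0) (P.cons (P.lf 0 309387492 0) (P.cons (P.lf 0 18509148 0) (P.cons (P.lf 1396632 0 0) (P.cons (P.lf 74904 0 0) (P.cons (P.lf 0 804 0) P.nil)))))) (P.cons (P.cons (P.lf 0 183024072 0) (P.cons (P.lf 52661316 0 0) (P.cons (P.lf 4010376 0 0) (P.cons (P.lf 0 306288 0) (P.cons (P.lf 0 17460 0) P.nil))))) (P.cons (P.cons (P.lf 0 47158134 0) (P.cons (P.lf 14824200 0 0) (P.cons (P.lf 442104 0 0) (P.cons (P.lf 0 31452 0) P.nil)))) (P.cons (P.cons (P.lf 7594632 0 0) (P.cons (P.lf 0 2252496 0) (P.cons (P.lf 0 134706 0) P.nil))) (P.cons (P.cons (P.lf 885570 0 0) (P.cons (P.lf 0 289038 0) P.nil)) (P.cons (P.cons (P.lf 0 163530 0) P.nil) P.nil)))))) 128952)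
 EL.nil))))
noncomputable def S285_314_734_771_9 : EL := (EL.cons 3 (TM.mk (P.cons (P.lf 1320724353 0 0) (P.cons (P.lf 409570215 0 0) (P.cons (P.lf 0 14623338 0) (P.cons (P.lf 0 1245645 0) (P.cons (P.lf 85526 0 0) (P.cons (P.lf 2831 0 0) P.nil)))))) 532)
 (EL.cons 7 (TM.mk (P.cons (P.lf 0 1997870342 0) (P.cons (P.lf 96267727 0 0) (P.cons (P.lf 13808992 0 0) (P.cons (P.lf 0 693290 0) (P.cons (P.lf 0 37347 0) (P.cons (P.lf 3551 0 0) P.nil)))))) 296)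
 EL.nil))
noncomputable def S285_314_734_771_10 : EL := (EL.cons 3 (TM.mk (P.cons (P.cons (P.lf 0 821493685 0) (P.cons (P.lf 0 19486114 0) (P.cons (P.lf 2934846 0 0) (P.lf 75251 0 0)))) (P.cons (P.cons (P.lf 0 189791540 0) (P.cons (P.lf 0 3226020 0) (P.cons (P.lf 485878 0 0) (P.lf 12458 0 0)))) (P.cons (P.cons (P.lf 63189440 0 0) (P.cons (P.lf 1357605 0 0) (P.cons (P.lf 0 204470 0) (P.lf 0 5241 0)))) (P.cons (P.cons (P.lf 9738651 0 0) (P.cons (P.lf 13356 0 0) (P.cons (P.lf 0 2011 0) P.nil))) (P.cons (P.cons (P.lf 0 1186436 0) (P.cons (P.lf 0 25570 0) P.nil)) (P.cons (P.cons (P.lf 0 135510 0) P.nil) P.nil)))))) 31117)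
 (EL.cons 7 (TM.mk (P.cons (P.cons (P.lf 1242680098 0 0) (P.cons (P.lf 29476802 0 0) (P.cons (P.lf 0 4439566 0) (P.lf 0 113833 0)))) (P.cons (P.cons (P.lf 0 158147453 0) (P.cons (P.lf 0 5681377 0) (P.cons (P.lf 855683 0 0) (P.lf 21938 0 0)))) (P.cons (P.cons (P.lf 0 55207956 0) (P.cons (P.lf 0 404318 0) (P.cons (P.lf 60894 0 0) (P.lf 1560 0 0)))) (P.cons (P.cons (P.lf 4862537 0 0) (P.cons (P.lf 145528 0 0) (P.cons (P.lf 0 21916 0) P.nil))) (P.cons (P.cons (P.lf 939299 0 0) (P.cons (P.lf 0 780 0) P.nil)) (P.cons (P.cons (P.lf 0 91618 0) P.nil) P.nil)))))) 23182)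
 EL.nil))
noncomputable def S285_314_734_771_11 : EL := (EL.cons 3 (TM.mk (P.cons (P.cons (P.lf 510971023 0 0) (P.cons (P.lf 24240818 0 0) (P.cons (P.lf 0 3363463 0) (P.cons (P.lf 0 180214 0) (P.cons (P.lf 4300 0 0) (P.cons (P.lf 333 0 0) P.nil)))))) (P.cons (P.cons (P.lf 77644205 0 0) (P.cons (P.lf 2096268 0 0) (P.cons (P.lf 0 309686 0) (P.cons (P.lf 0 9915 0) (P.cons (P.lf 90 0 0) P.nil))))) (P.cons (P.cons (P.lf 0 69755112 0) (P.cons (P.lf 0 3007975 0) (P.cons (P.lf 422166 0 0) (P.cons (P.lf 20912 0 0) P.nil)))) (P.cons (P.cons (P.lf 0 7302510 0) (P.cons (P.lf 0 23986 0) (P.cons (P.lf 6497 0 0) P.nil))) (P.cons (P.cons (P.lf 3232644 0 0) (P.cons (P.lf 119853 0 0) P.nil)) (P.cons (P.cons (P.lf 286202 0 0) P.nil) P.nil)))))) 157283)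
 (EL.cons 7 (TM.mk (P.cons (P.cons (P.lf 0 772949973 0) (P.cons (P.lf 0 36669282 0) (P.cons (P.lf 5087938 0 0) (P.cons (P.lf 272612 0 0) (P.cons (P.lf 0 6506 0) (P.cons (P.lf 0 505 0) P.nil)))))) (P.cons (P.cons (P.lf 159491455 0 0) (P.cons (P.lf 9967394 0 0) (P.cons (P.lf 0 1354519 0) (P.cons (P.lf 0 82677 0) (P.cons (P.lf 2194 0 0) P.nil))))) (P.cons (P.cons (P.lf 58502925 0 0) (P.cons (P.lf 1459437 0 0) (P.cons (P.lf 0 219970 0) (P.cons (P.lf 0 5585 0) P.nil)))) (P.cons (P.cons (P.lf 0 10599743 0) (P.cons (P.lf 0 550583 0) (P.cons (P.lf 77485 0 0) P.nil))) (P.cons (P.cons (P.lf 0 2071542 0) (P.cons (P.lf 0 17612 0) P.nil)) (P.cons (P.cons (P.lf 333678 0 0) P.nil) P.nil)))))) 124044)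
 EL.nil))
noncomputable def S285_314_734_771_12 : EL := (EL.cons 4 (TM.mk (P.cons (P.lf 0 1320724353 0) (P.cons (P.lf 0 409570215 0) (P.cons (P.lf 14623338 0 0) (P.cons (P.lf 1245645 0 0) (P.cons (P.lf 0 85526 0) (P.cons (P.lf 0 2831 0) P.nil)))))) 532)
 (EL.cons 8 (TM.mk (P.cons (P.lf 1997870342 0 0) (P.cons (P.lf 0 96267727 0) (P.cons (P.lf 0 13808992 0) (P.cons (P.lf 693290 0 0) (P.cons (P.lf 37347 0 0) (P.cons (P.lf 0 3551 0) P.nil)))))) 296)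
 EL.nil))
noncomputable def S285_314_734_771_13 : EL := (EL.cons 4 (TM.mk (P.cons (P.cons (P.lf 821493685 0 0) (P.cons (P.lf 19486114 0 0) (P.cons (P.lf 0 2934846 0) (P.lf 0 75251 0)))) (P.cons (P.cons (P.lf 189791540 0 0) (P.cons (P.lf 3226020 0 0) (P.cons (P.lf 0 485878 0) (P.lf 0 12458 0)))) (P.cons (P.cons (P.lf 0 63189440 0) (P.cons (P.lf 0 1357605 0) (P.cons (P.lf 204470 0 0) (P.lf 5241 0 0)))) (P.cons (P.cons (P.lf 0 9738651 0) (P.cons (P.lf 0 13356 0) (P.cons (P.lf 2011 0 0) P.nil))) (P.cons (P.cons (P.lf 1186436 0 0) (P.cons (P.lf 25570 0 0) P.nil)) (P.cons (P.cons (P.lf 135510 0 0) P.nil) P.nil)))))) 31117)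
 (EL.cons 8 (TM.mk (P.cons (P.cons (P.lf 0 1242680098 0) (P.cons (P.lf 0 29476802 0) (P.cons (P.lf 4439566 0 0) (P.lf 113833 0 0)))) (P.cons (P.cons (P.lf 158147453 0 0) (P.cons (P.lf 5681377 0 0) (P.cons (P.lf 0 855683 0) (P.lf 0 21938 0)))) (P.cons (P.cons (P.lf 55207956 0 0) (P.cons (P.lf 404318 0 0) (P.cons (P.lf 0 60894 0) (P.lf 0 1560 0)))) (P.cons (P.cons (P.lf 0 4862537 0) (P.cons (P.lf 0 145528 0) (P.cons (P.lf 21916 0 0) P.nil))) (P.cons (P.cons (P.lf 0 939299 0) (P.cons (P.lf 780 0 0) P.nil)) (P.cons (P.cons (P.lf 91618 0 0) P.nil) P.nil)))))) 23182)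
 EL.nil))
noncomputable def S285_314_734_771_14 : EL := (EL.cons 4 (TM.mk (P.cons (P.cons (P.lf 0 510971023 0) (P.cons (P.lf 0 24240818 0) (P.cons (P.lf 3363463 0 0) (P.cons (P.lf 180214 0 0) (P.cons (P.lf 0 4300 0) (P.cons (P.lf 0 333 0) P.nil)))))) (P.cons (P.cons (P.lf 0 77644205 0) (P.cons (P.lf 0 2096268 0) (P.cons (P.lf 309686 0 0) (P.cons (P.lf 9915 0 0) (P.cons (P.lf 0 90 0) P.nil))))) (P.cons (P.cons (P.lf 69755112 0 0) (P.cons (P.lf 3007975 0 0) (P.cons (P.lf 0 422166 0) (P.cons (P.lf 0 20912 0) P.nil)))) (P.cons (P.cons (P.lf 7302510 0 0) (P.cons (P.lf 23986 0 0) (P.cons (P.lf 0 6497 0) P.nil))) (P.cons (P.cons (P.lf 0 3232644 0) (P.cons (P.lf 0 119853 0) P.nil)) (P.cons (P.cons (P.lf 0 286202 0) P.nil) P.nil)))))) 157283)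
 (EL.cons 8 (TM.mk (P.cons (P.cons (P.lf 772949973 0 0) (P.cons (P.lf 36669282 0 0) (P.cons (P.lf 0 5087938 0) (P.cons (P.lf 0 272612 0) (P.cons (P.lf 6506 0 0) (P.cons (P.lf 505 0 0) P.nil)))))) (P.cons (P.cons (P.lf 0 159491455 0) (P.cons (P.lf 0 9967394 0) (P.cons (P.lf 1354519 0 0) (P.cons (P.lf 82677 0 0) (P.cons (P.lf 0 2194 0) P.nil))))) (P.cons (P.cons (P.lf 0 58502925 0) (P.cons (P.lf 0 1459437 0) (P.cons (P.lf 219970 0 0) (P.cons (P.lf 5585 0 0) P.nil)))) (P.cons (P.cons (P.lf 10599743 0 0) (P.cons (P.lf 550583 0 0) (P.cons (P.lf 0 77485 0) P.nil))) (P.cons (P.cons (P.lf 2071542 0 0) (P.cons (P.lf 17612 0 0) P.nil)) (P.cons (P.cons (P.lf 0 333678 0) P.nil) P.nil)))))) 124044)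
 EL.nil))
noncomputable def S285_314_734_771_15 : EL := (EL.cons 4 (TM.mk (P.cons (P.lf 0 433204774 0) (P.cons (P.lf 0 268682518 0) (P.cons (P.lf 0 32067537 0) (P.cons (P.lf 3792065 0 0) (P.cons (P.lf 144194 0 0) (P.cons (P.lf 0 28304 0) P.nil)))))) 2128)
 (EL.cons 8 (TM.mk (P.cons (P.lf 655312343 0 0) (P.cons (P.lf 171642763 0 0) (P.cons (P.lf 0 21577328 0) (P.cons (P.lf 0 1445658 0) (P.cons (P.lf 205138 0 0) (P.cons (P.lf 3748 0 0) P.nil)))))) 1533)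
 EL.nil))
noncomputable def S285_314_734_771_16 : EL := (EL.cons 4 (TM.mk (P.cons (P.cons (P.lf 269454398 0 0) (P.cons (P.lf 6391551 0 0) (P.cons (P.lf 0 962645 0) (P.lf 0 24682 0)))) (P.cons (P.cons (P.lf 145813240 0 0) (P.cons (P.lf 3040237 0 0) (P.cons (P.lf 0 457896 0) (P.lf 0 11740 0)))) (P.cons (P.cons (P.lf 0 4404746 0) (P.cons (P.lf 0 187926 0) (P.cons (P.lf 28303 0 0) (P.lf 724 0 0)))) (P.cons (P.cons (P.lf 0 10565235 0) (P.cons (P.lf 0 160217 0) (P.cons (P.lf 24130 0 0) P.nil))) (P.cons (P.cons (P.lf 0 413213 0) (P.cons (P.lf 11374 0 0) P.nil)) (P.cons (P.cons (P.lf 224655 0 0) P.nil) P.nil)))))) 39347)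
 (EL.cons 8 (TM.mk (P.cons (P.cons (P.lf 0 407605834 0) (P.cons (P.lf 0 9668551 0) (P.cons (P.lf 1456201 0 0) (P.lf 37337 0 0)))) (P.cons (P.cons (P.lf 0 74529538 0) (P.cons (P.lf 0 1134794 0) (P.cons (P.lf 170913 0 0) (P.lf 4382 0 0)))) (P.cons (P.cons (P.lf 38708028 0 0) (P.cons (P.lf 817568 0 0) (P.cons (P.lf 0 123135 0) (P.lf 0 3156 0)))) (P.cons (P.cons (P.lf 3830779 0 0) (P.cons (P.lf 0 18122 0) (P.cons (P.lf 2729 0 0) P.nil))) (P.cons (P.cons (P.lf 0 1078522 0) (P.cons (P.lf 0 18398 0) P.nil)) (P.cons (P.cons (P.lf 0 62426 0) P.nil) P.nil)))))) 29151)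
 EL.nil))
noncomputable def S285_314_734_771_17 : EL := (EL.cons 4 (TM.mk (P.cons (P.cons (P.lf 0 167601275 0) (P.cons (P.lf 0 7951120 0) (P.cons (P.lf 1103234 0 0) (P.cons (P.lf 59111 0 0) (P.cons (P.lf 0 1410 0) (P.cons (P.lf 0 108 0) P.nil)))))) (P.cons (P.cons (P.lf 0 77442601 0) (P.cons (P.lf 0 3153311 0) (P.cons (P.lf 443702 0 0) (P.cons (P.lf 21583 0 0) (P.cons (P.lf 0 466 0) P.nil))))) (P.cons (P.cons (P.lf 16837970 0 0) (P.cons (P.lf 861440 0 0) (P.cons (P.lf 0 119187 0) (P.cons (P.lf 0 6505 0) P.nil)))) (P.cons (P.cons (P.lf 9930660 0 0) (P.cons (P.lf 328944 0 0) (P.cons (P.lf 0 47237 0) P.nil))) (P.cons (P.cons (P.lf 0 557695 0) (P.cons (P.lf 0 47663 0) P.nil)) (P.cons (P.cons (P.lf 0 472801 0) P.nil) P.nil)))))) 147216)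
 (EL.cons 8 (TM.mk (P.cons (P.cons (P.lf 253531796 0 0) (P.cons (P.lf 12027723 0 0) (P.cons (P.lf 0 1668871 0) (P.cons (P.lf 0 89418 0) (P.cons (P.lf 2133 0 0) (P.cons (P.lf 165 0 0) P.nil)))))) (P.cons (P.cons (P.lf 26308754 0 0) (P.cons (P.lf 460561 0 0) (P.cons (P.lf 0 73244 0) (P.cons (P.lf 0 610 0) (P.cons (P.lf 0 58 0) P.nil))))) (P.cons (P.cons (P.lf 0 38219565 0) (P.cons (P.lf 0 1625738 0) (P.cons (P.lf 228408 0 0) (P.cons (P.lf 11231 0 0) P.nil)))) (P.cons (P.cons (P.lf 0 2133905 0) (P.cons (P.lf 56998 0 0) (P.cons (P.lf 0 6386 0) P.nil))) (P.cons (P.cons (P.lf 2035886 0 0) (P.cons (P.lf 70943 0 0) P.nil)) (P.cons (P.cons (P.lf 78022 0 0) P.nil) P.nil)))))) 110533)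
 EL.nil))
noncomputable def S285_314_734_771_18 : EL := (EL.cons 4 (TM.mk (P.cons (P.lf 0 142093522 0) (P.cons (P.lf 0 132193991 0) (P.cons (P.lf 0 36274848 0) (P.cons (P.lf 0 908220 0) (P.cons (P.lf 623396 0 0) (P.cons (P.lf 0 4479 0) P.nil)))))) 6741)
 (EL.cons 8 (TM.mk (P.cons (P.lf 214946014 0 0) (P.cons (P.lf 122956731 0 0) (P.cons (P.lf 8001726 0 0) (P.cons (P.lf 0 3495072 0) (P.cons (P.lf 0 40579 0) (P.cons (P.lf 38127 0 0) P.nil)))))) 3726)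
 EL.nil))
noncomputable def S285_314_734_771_19 : EL := (EL.cons 4 (TM.mk (P.cons (P.cons (P.lf 88382507 0 0) (P.cons (P.lf 2096462 0 0) (P.cons (P.lf 0 315752 0) (P.lf 0 8095 0)))) (P.cons (P.cons (P.lf 75235860 0 0) (P.cons (P.lf 1647348 0 0) (P.cons (P.lf 0 248110 0) (P.lf 0 6360 0)))) (P.cons (P.cons (P.lf 12408439 0 0) (P.cons (P.lf 224392 0 0) (P.cons (P.lf 0 33795 0) (P.lf 0 866 0)))) (P.cons (P.cons (P.lf 0 4526411 0) (P.cons (P.lf 0 84686 0) (P.cons (P.lf 12754 0 0) P.nil))) (P.cons (P.cons (P.lf 0 1233597 0) (P.cons (P.lf 0 12688 0) P.nil)) (P.cons (P.cons (P.lf 74675 0 0) P.nil) P.nil)))))) 47086)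
 (EL.cons 8 (TM.mk (P.cons (P.cons (P.lf 0 133696931 0) (P.cons (P.lf 0 3171337 0) (P.cons (P.lf 477642 0 0) (P.lf 12246 0 0)))) (P.cons (P.cons (P.lf 0 65906888 0) (P.cons (P.lf 0 1355682 0) (P.cons (P.lf 204182 0 0) (P.lf 5235 0 0)))) (P.cons (P.cons (P.lf 6595779 0 0) (P.cons (P.lf 187851 0 0) (P.cons (P.lf 0 28292 0) (P.lf 0 724 0)))) (P.cons (P.cons (P.lf 5590583 0 0) (P.cons (P.lf 84329 0 0) (P.cons (P.lf 0 12700 0) P.nil))) (P.cons (P.cons (P.lf 0 90282 0) (P.cons (P.lf 0 10701 0) P.nil)) (P.cons (P.cons (P.lf 0 157937 0) P.nil) P.nil)))))) 32311)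
 EL.nil))
noncomputable def S285_314_734_771_20 : EL := (EL.cons 4 (TM.mk (P.cons (P.cons (P.lf 0 54974130 0) (P.cons (P.lf 0 2608010 0) (P.cons (P.lf 361866 0 0) (P.cons (P.lf 19388 0 0) (P.cons (P.lf 0 462 0) (P.cons (P.lf 0 35 0) P.nil)))))) (P.cons (P.cons (P.lf 0 42449638 0) (P.cons (P.lf 0 1843074 0) (P.cons (P.lf 257755 0 0) (P.cons (P.lf 13091 0 0) (P.cons (P.lf 0 296 0) P.nil))))) (P.cons (P.cons (P.lf 0 1745664 0) (P.cons (P.lf 0 9314 0) (P.cons (P.lf 2031 0 0) (P.cons (P.lf 0 152 0) P.nil)))) (P.cons (P.cons (P.lf 5303133 0 0) (P.cons (P.lf 209430 0 0) (P.cons (P.lf 0 29570 0) P.nil))) (P.cons (P.cons (P.lf 786444 0 0) (P.cons (P.lf 15503 0 0) P.nil)) (P.cons (P.cons (P.lf 0 254846 0) P.nil) P.nil)))))) 120288)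
 (EL.cons 8 (TM.mk (P.cons (P.cons (P.lf 83159808 0 0) (P.cons (P.lf 3945158 0 0) (P.cons (P.lf 0 547398 0) (P.cons (P.lf 0 29329 0) (P.cons (P.lf 699 0 0) (P.cons (P.lf 53 0 0) P.nil)))))) (P.cons (P.cons (P.lf 34418126 0 0) (P.cons (P.lf 1374500 0 0) (P.cons (P.lf 0 193778 0) (P.cons (P.lf 0 9295 0) (P.cons (P.lf 197 0 0) P.nil))))) (P.cons (P.cons (P.lf 0 10780918 0) (P.cons (P.lf 0 530085 0) (P.cons (P.lf 73529 0 0) (P.cons (P.lf 3946 0 0) P.nil)))) (P.cons (P.cons (P.lf 0 4761523 0) (P.cons (P.lf 0 152064 0) (P.cons (P.lf 21920 0 0) P.nil))) (P.cons (P.cons (P.lf 586775 0 0) (P.cons (P.lf 35084 0 0) P.nil)) (P.cons (P.cons (P.lf 252988 0 0) P.nil) P.nil)))))) 99011)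
 EL.nil))
noncomputable def S285_314_734_771_21 : EL := (EL.cons 4 (TM.mk (P.cons (P.cons (P.lf 0 1348176276 0) (P.cons (P.lf 0 58458342 0) (P.cons (P.lf 8804538 0 0) (P.lf 225753 0 0)))) (P.cons (P.cons (P.lf 0 1375422171 0) (P.cons (P.lf 0 9678060 0) (P.cons (P.lf 1457634 0 0) (P.lf 37374 0 0)))) (P.cons (P.cons (P.lf 93365709 0 0) (P.cons (P.lf 4072815 0 0) (P.cons (P.lf 0 613410 0) (P.lf 0 15723 0)))) (P.cons (P.cons (P.lf 40592145 0 0) (P.cons (P.lf 40068 0 0) (P.cons (P.lf 0 6033 0) P.nil))) (P.cons (P.cons (P.lf 0 3126726 0) (P.cons (P.lf 0 76710 0) P.nil)) (P.cons (P.cons (P.lf 0 491445 0) P.nil) P.nil)))))) 100026)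
 (EL.cons 8 (TM.mk (P.cons (P.cons (P.lf 0 316883079 0) (P.cons (P.lf 0 13740387 0) (P.cons (P.lf 2069478 0 0) (P.lf 53067 0 0)))) (P.cons (P.cons (P.lf 0 436824861 0) (P.cons (P.lf 0 7197897 0) (P.cons (P.lf 1084086 0 0) (P.lf 27792 0 0)))) (P.cons (P.cons (P.lf 0 98039577 0) (P.cons (P.lf 0 37797 0) (P.cons (P.lf 5691 0 0) (P.lf 144 0 0)))) (P.cons (P.cons (P.lf 12591453 0 0) (P.cons (P.lf 297621 0 0) (P.cons (P.lf 0 44820 0) P.nil))) (P.cons (P.cons (P.lf 2351832 0 0) (P.cons (P.lf 0 7623 0) P.nil)) (P.cons (P.cons (P.lf 0 249390 0) P.nil) P.nil)))))) 77418)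
 (EL.cons 11 (TM.mk (P.cons (P.cons (P.lf 838565184 0 0) (P.cons (P.lf 0 268593879 0) (P.cons (P.lf 0 5511708 0) (P.cons (P.lf 370677 0 0) (P.lf 7128 0 0))))) (P.cons (P.cons (P.lf 0 80812815 0) (P.cons (P.lf 25884483 0 0) (P.cons (P.lf 531165 0 0) (P.cons (P.lf 0 35721 0) (P.lf 0 684 0))))) (P.cons (P.cons (P.lf 0 9645093 0) (P.cons (P.lf 3089340 0 0) (P.cons (P.lf 63393 0 0) (P.cons (P.lf 0 4263 0) P.nil)))) (P.cons (P.cons (P.lf 1140552 0 0) (P.cons (P.lf 0 365319 0) (P.cons (P.lf 0 7494 0) P.nil))) (P.cons (P.cons (P.lf 43368 0 0) (P.cons (P.lf 0 13890 0) P.nil)) (P.cons (P.cons (P.lf 0 8511 0) P.nil) P.nil)))))) 4806)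
 EL.nil)))
noncomputable def S285_314_734_771_22 : EL := (EL.cons 4 (TM.mk (P.cons (P.cons (P.lf 838568844 0 0) (P.cons (P.lf 56252370 0 0) (P.cons (P.lf 0 7609791 0) (P.cons (P.lf 0 477039 0) (P.cons (P.lf 12903 0 0) (P.cons (P.lf 1002 0 0) P.nil)))))) (P.cons (P.cons (P.lf 789203481 0 0) (P.cons (P.lf 20562159 0 0) (P.cons (P.lf 0 3078801 0) (P.cons (P.lf 0 84861 0) (P.cons (P.lf 270 0 0) P.nil))))) (P.cons (P.cons (P.lf 0 160380108 0) (P.cons (P.lf 0 9096876 0) (P.cons (P.lf 1277487 0 0) (P.cons (P.lf 63021 0 0) P.nil)))) (P.cons (P.cons (P.lf 0 55148166 0) (P.cons (P.lf 0 656958 0) (P.cons (P.lf 107598 0 0) P.nil))) (P.cons (P.cons (P.lf 7664079 0 0) (P.cons (P.lf 391872 0 0) P.nil)) (P.cons (P.cons (P.lf 1567974 0 0) P.nil) P.nil)))))) 423951)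
 (EL.cons 8 (TM.mk (P.cons (P.cons (P.lf 197102025 0 0) (P.cons (P.lf 13221879 0 0) (P.cons (P.lf 0 1788654 0) (P.cons (P.lf 0 112128 0) (P.cons (P.lf 3030 0 0) (P.cons (P.lf 234 0 0) P.nil)))))) (P.cons (P.cons (P.lf 256119660 0 0) (P.cons (P.lf 9570381 0 0) (P.cons (P.lf 0 1364517 0) (P.cons (P.lf 0 60117 0) (P.cons (P.lf 1149 0 0) P.nil))))) (P.cons (P.cons (P.lf 31349613 0 0) (P.cons (P.lf 0 233265 0) (P.cons (P.lf 17547 0 0) (P.cons (P.lf 6198 0 0) P.nil)))) (P.cons (P.cons (P.lf 0 23679786 0) (P.cons (P.lf 0 833142 0) (P.cons (P.lf 120135 0 0) P.nil))) (P.cons (P.cons (P.lf 0 2980035 0) (P.cons (P.lf 18870 0 0) P.nil)) (P.cons (P.cons (P.lf 796107 0 0) P.nil) P.nil)))))) 254226)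
 (EL.cons 11 (TM.mk (P.cons (P.cons (P.lf 0 521589534 0) (P.cons (P.lf 154693746 0 0) (P.cons (P.lf 9254574 0 0) (P.cons (P.lf 0 698316 0) (P.cons (P.lf 0 37452 0) (P.cons (P.lf 402 0 0) P.nil)))))) (P.cons (P.cons (P.lf 91512036 0 0) (P.cons (P.lf 0 26330658 0) (P.cons (P.lf 0 2005188 0) (P.cons (P.lf 153144 0 0) (P.cons (P.lf 8730 0 0) P.nil))))) (P.cons (P.cons (P.lf 23579067 0 0) (P.cons (P.lf 0 7412100 0) (P.cons (P.lf 0 221052 0) (P.cons (P.lf 15726 0 0) P.nil)))) (P.cons (P.cons (P.lf 0 3797316 0) (P.cons (P.lf 1126248 0 0) (P.cons (P.lf 67353 0 0) P.nil))) (P.cons (P.cons (P.lf 0 442785 0) (P.cons (P.lf 144519 0 0) P.nil)) (P.cons (P.cons (P.lf 81765 0 0) P.nil) P.nil)))))) 64476)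
 EL.nil)))
noncomputable def S285_314_734_771_23 : EL := (EL.cons 4 (TM.mk (P.cons (P.cons (P.lf 0 442209153 0) (P.cons (P.lf 0 19174653 0) (P.cons (P.lf 2887935 0 0) (P.lf 74046 0 0)))) (P.cons (P.cons (P.lf 0 588279564 0) (P.cons (P.lf 0 9120711 0) (P.cons (P.lf 1373688 0 0) (P.lf 35220 0 0)))) (P.cons (P.cons (P.lf 0 104384310 0) (P.cons (P.lf 563778 0 0) (P.cons (P.lf 0 84909 0) (P.lf 0 2175 0)))) (P.cons (P.cons (P.lf 28223658 0 0) (P.cons (P.lf 480651 0 0) (P.cons (P.lf 0 72390 0) P.nil))) (P.cons (P.cons (P.lf 3161145 0 0) (P.cons (P.lf 0 34122 0) P.nil)) (P.cons (P.cons (P.lf 0 685707 0) P.nil) P.nil)))))) 140109)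
 (EL.cons 8 (TM.mk (P.cons (P.cons (P.lf 0 103939374 0) (P.cons (P.lf 0 4506921 0) (P.cons (P.lf 678798 0 0) (P.lf 17406 0 0)))) (P.cons (P.cons (P.lf 0 175513599 0) (P.cons (P.lf 0 3758592 0) (P.cons (P.lf 566088 0 0) (P.lf 14511 0 0)))) (P.cons (P.cons (P.lf 0 75439566 0) (P.cons (P.lf 0 694650 0) (P.cons (P.lf 104619 0 0) (P.lf 2679 0 0)))) (P.cons (P.cons (P.lf 0 4157841 0) (P.cons (P.lf 124167 0 0) (P.cons (P.lf 0 18699 0) P.nil))) (P.cons (P.cons (P.lf 2536647 0 0) (P.cons (P.lf 29844 0 0) P.nil)) (P.cons (P.cons (P.lf 132519 0 0) P.nil) P.nil)))))) 83526)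
 (EL.cons 11 (TM.mk (P.cons (P.cons (P.lf 275053941 0 0) (P.cons (P.lf 0 88100253 0) (P.cons (P.lf 0 1807869 0) (P.cons (P.lf 121584 0 0) (P.lf 2337 0 0))))) (P.cons (P.cons (P.lf 58790013 0 0) (P.cons (P.lf 0 18830544 0) (P.cons (P.lf 0 386412 0) (P.cons (P.lf 25986 0 0) (P.lf 498 0 0))))) (P.cons (P.cons (P.lf 0 14429205 0) (P.cons (P.lf 4621698 0 0) (P.cons (P.lf 94839 0 0) (P.cons (P.lf 0 6375 0) P.nil)))) (P.cons (P.cons (P.lf 0 572895 0) (P.cons (P.lf 183498 0 0) (P.cons (P.lf 3765 0 0) P.nil))) (P.cons (P.cons (P.lf 208077 0 0) (P.cons (P.lf 0 66645 0) P.nil)) (P.cons (P.cons (P.lf 0 663 0) P.nil) P.nil)))))) 10875)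
 EL.nil)))
noncomputable def S285_314_734_771_24 : EL := (EL.cons 4 (TM.mk (P.cons (P.cons (P.lf 275055144 0 0) (P.cons (P.lf 18451083 0 0) (P.cons (P.lf 0 2496051 0) (P.cons (P.lf 0 156471 0) (P.cons (P.lf 4230 0 0) (P.cons (P.lf 327 0 0) P.nil)))))) (P.cons (P.cons (P.lf 344160465 0 0) (P.cons (P.lf 12466371 0 0) (P.cons (P.lf 0 1783914 0) (P.cons (P.lf 0 76356 0) (P.cons (P.lf 1401 0 0) P.nil))))) (P.cons (P.cons (P.lf 24625074 0 0) (P.cons (P.lf 0 1096578 0) (P.cons (P.lf 133488 0 0) (P.cons (P.lf 13770 0 0) P.nil)))) (P.cons (P.cons (P.lf 0 37528023 0) (P.cons (P.lf 0 1232877 0) (P.cons (P.lf 178770 0 0) P.nil))) (P.cons (P.cons (P.lf 0 2739567 0) (P.cons (P.lf 89583 0 0) P.nil)) (P.cons (P.cons (P.lf 1561128 0 0) P.nil) P.nil)))))) 427938)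
 (EL.cons 8 (TM.mk (P.cons (P.cons (P.lf 64650537 0 0) (P.cons (P.lf 4336848 0 0) (P.cons (P.lf 0 586686 0) (P.cons (P.lf 0 36777 0) (P.cons (P.lf 993 0 0) (P.cons (P.lf 75 0 0) P.nil)))))) (P.cons (P.cons (P.lf 104057439 0 0) (P.cons (P.lf 4484037 0 0) (P.cons (P.lf 0 629505 0) (P.cons (P.lf 0 31122 0) (P.cons (P.lf 684 0 0) P.nil))))) (P.cons (P.cons (P.lf 35618961 0 0) (P.cons (P.lf 848946 0 0) (P.cons (P.lf 0 126543 0) (P.cons (P.lf 0 3672 0) P.nil)))) (P.cons (P.cons (P.lf 0 5569419 0) (P.cons (P.lf 0 335850 0) (P.cons (P.lf 46698 0 0) P.nil))) (P.cons (P.cons (P.lf 0 3575025 0) (P.cons (P.lf 0 80388 0) P.nil)) (P.cons (P.cons (P.lf 39882 0 0) P.nil) P.nil)))))) 211632)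
 (EL.cons 11 (TM.mk (P.cons (P.cons (P.lf 0 171084204 0) (P.cons (P.lf 50740389 0 0) (P.cons (P.lf 3035550 0 0) (P.cons (P.lf 0 229050 0) (P.cons (P.lf 0 12285 0) (P.cons (P.lf 132 0 0) P.nil)))))) (P.cons (P.cons (P.lf 0 23038524 0) (P.cons (P.lf 7098516 0 0) (P.cons (P.lf 283641 0 0) (P.cons (P.lf 0 20796 0) (P.cons (P.lf 0 945 0) P.nil))))) (P.cons (P.cons (P.lf 18936750 0 0) (P.cons (P.lf 0 5671314 0) (P.cons (P.lf 0 310080 0) (P.cons (P.lf 23271 0 0) P.nil)))) (P.cons (P.cons (P.lf 981879 0 0) (P.cons (P.lf 0 336756 0) (P.cons (P.lf 4026 0 0) P.nil))) (P.cons (P.cons (P.lf 0 656511 0) (P.cons (P.lf 200313 0 0) P.nil)) (P.cons (P.cons (P.lf 0 10146 0) P.nil) P.nil)))))) 71658)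
 EL.nil)))
noncomputable def S285_314_734_771_25 : EL := (EL.cons 4 (TM.mk (P.cons (P.cons (P.lf 0 145047006 0) (P.cons (P.lf 0 6289389 0) (P.cons (P.lf 947256 0 0) (P.lf 24288 0 0)))) (P.cons (P.cons (P.lf 0 237939468 0) (P.cons (P.lf 0 4942047 0) (P.cons (P.lf 744330 0 0) (P.lf 19083 0 0)))) (P.cons (P.cons (P.lf 0 92471169 0) (P.cons (P.lf 0 673179 0) (P.cons (P.lf 101388 0 0) (P.lf 2598 0 0)))) (P.cons (P.cons (P.lf 913047 0 0) (P.cons (P.lf 254058 0 0) (P.cons (P.lf 0 38262 0) P.nil))) (P.cons (P.cons (P.lf 4459416 0 0) (P.cons (P.lf 38064 0 0) P.nil)) (P.cons (P.cons (P.lf 13611 0 0) P.nil) P.nil)))))) 159249)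
 (EL.cons 8 (TM.mk (P.cons (P.cons (P.lf 0 34092678 0) (P.cons (P.lf 0 1478292 0) (P.cons (P.lf 222648 0 0) (P.lf 5709 0 0)))) (P.cons (P.cons (P.lf 0 68141907 0) (P.cons (P.lf 0 1691271 0) (P.cons (P.lf 254724 0 0) (P.lf 6531 0 0)))) (P.cons (P.cons (P.lf 0 42219975 0) (P.cons (P.lf 0 593796 0) (P.cons (P.lf 89430 0 0) (P.lf 2292 0 0)))) (P.cons (P.cons (P.lf 0 8367771 0) (P.cons (P.lf 0 14883 0) (P.cons (P.lf 2241 0 0) P.nil))) (P.cons (P.cons (P.lf 735174 0 0) (P.cons (P.lf 26007 0 0) P.nil)) (P.cons (P.cons (P.lf 336126 0 0) P.nil) P.nil)))))) 82893)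
 (EL.cons 11 (TM.mk (P.cons (P.cons (P.lf 90219189 0 0) (P.cons (P.lf 0 28897362 0) (P.cons (P.lf 0 592989 0) (P.cons (P.lf 39879 0 0) (P.lf 765 0 0))))) (P.cons (P.cons (P.lf 47261343 0 0) (P.cons (P.lf 0 15137889 0) (P.cons (P.lf 0 310638 0) (P.cons (P.lf 20889 0 0) (P.lf 402 0 0))))) (P.cons (P.cons (P.lf 248208 0 0) (P.cons (P.lf 0 79500 0) (P.cons (P.lf 0 1629 0) (P.cons (P.lf 108 0 0) P.nil)))) (P.cons (P.cons (P.lf 0 1954221 0) (P.cons (P.lf 625938 0 0) (P.cons (P.lf 12843 0 0) P.nil))) (P.cons (P.cons (P.lf 50034 0 0) (P.cons (P.lf 0 16026 0) P.nil)) (P.cons (P.cons (P.lf 28932 0 0) P.nil) P.nil)))))) 18105)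
 EL.nil)))
noncomputable def S285_314_734_771_26 : EL := (EL.cons 4 (TM.mk (P.cons (P.cons (P.lf 90219582 0 0) (P.cons (P.lf 6052053 0 0) (P.cons (P.lf 0 818718 0) (P.cons (P.lf 0 51321 0) (P.cons (P.lf 1386 0 0) (P.cons (P.lf 105 0 0) P.nil)))))) (P.cons (P.cons (P.lf 140864526 0 0) (P.cons (P.lf 5965842 0 0) (P.cons (P.lf 0 839025 0) (P.cons (P.lf 0 40959 0) (P.cons (P.lf 888 0 0) P.nil))))) (P.cons (P.cons (P.lf 42085494 0 0) (P.cons (P.lf 841356 0 0) (P.cons (P.lf 0 128604 0) (P.cons (P.lf 0 2679 0) P.nil)))) (P.cons (P.cons (P.lf 0 11139579 0) (P.cons (P.lf 0 566913 0) (P.cons (P.lf 79467 0 0) P.nil))) (P.cons (P.cons (P.lf 0 4905921 0) (P.cons (P.lf 0 95502 0) P.nil)) (P.cons (P.cons (P.lf 369573 0 0) P.nil) P.nil)))))) 341157)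
 (EL.cons 8 (TM.mk (P.cons (P.cons (P.lf 21205728 0 0) (P.cons (P.lf 1422510 0 0) (P.cons (P.lf 0 192435 0) (P.cons (P.lf 0 12063 0) (P.cons (P.lf 324 0 0) (P.cons (P.lf 24 0 0) P.nil)))))) (P.cons (P.cons (P.lf 40707519 0 0) (P.cons (P.lf 1911924 0 0) (P.cons (P.lf 0 266157 0) (P.cons (P.lf 0 13950 0) (P.cons (P.lf 324 0 0) P.nil))))) (P.cons (P.cons (P.lf 22032918 0 0) (P.cons (P.lf 718815 0 0) (P.cons (P.lf 0 103407 0) (P.cons (P.lf 0 4236 0) P.nil)))) (P.cons (P.cons (P.lf 1398372 0 0) (P.cons (P.lf 0 41433 0) (P.cons (P.lf 4911 0 0) P.nil))) (P.cons (P.cons (P.lf 0 1899312 0) (P.cons (P.lf 0 64908 0) P.nil)) (P.cons (P.cons (P.lf 0 339096 0) P.nil) P.nil)))))) 137796)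
 (EL.cons 11 (TM.mk (P.cons (P.cons (P.lf 0 56116548 0) (P.cons (P.lf 16643124 0 0) (P.cons (P.lf 995676 0 0) (P.cons (P.lf 0 75129 0) (P.cons (P.lf 0 4029 0) (P.cons (P.lf 42 0 0) P.nil)))))) (P.cons (P.cons (P.lf 0 24959079 0) (P.cons (P.lf 7489554 0 0) (P.cons (P.lf 401805 0 0) (P.cons (P.lf 0 30120 0) (P.cons (P.lf 0 1557 0) P.nil))))) (P.cons (P.cons (P.lf 4489260 0 0) (P.cons (P.lf 0 1322451 0) (P.cons (P.lf 0 83880 0) (P.cons (P.lf 6348 0 0) P.nil)))) (P.cons (P.cons (P.lf 2384862 0 0) (P.cons (P.lf 0 728808 0) (P.cons (P.lf 0 32187 0) P.nil))) (P.cons (P.cons (P.lf 0 180744 0) (P.cons (P.lf 50928 0 0) P.nil)) (P.cons (P.cons (P.lf 0 80139 0) P.nil) P.nil)))))) 63756)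
 EL.nil)))
noncomputable def S285_314_734_771_27 : EL := (EL.cons 13 (TM.mk (P.lf 0 4294967296 0) 0)
 EL.nil)
noncomputable def S285_314_734_771_28 : EL := (EL.cons 13 (TM.mk (P.cons (P.cons (P.lf 2671479861 0 0) (P.cons (P.lf 63368428 0 0) (P.cons (P.lf 0 9544060 0) (P.lf 0 244716 0)))) (P.cons (P.cons (P.lf 0 211255374 0) (P.cons (P.lf 0 9160252 0) (P.cons (P.lf 1379644 0 0) (P.lf 35372 0 0)))) (P.cons (P.cons (P.lf 0 110399055 0) (P.cons (P.lf 0 872588 0) (P.cons (P.lf 131420 0 0) (P.lf 3368 0 0)))) (P.cons (P.cons (P.lf 2746544 0 0) (P.cons (P.lf 185504 0 0) (P.cons (P.lf 0 27936 0) P.nil))) (P.cons (P.cons (P.lf 1411931 0 0) (P.cons (P.lf 3224 0 0) P.nil)) (P.cons (P.cons (P.lf 0 62933 0) P.nil) P.nil)))))) 24665)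
 EL.nil)
noncomputable def S285_314_734_771_29 : EL := (EL.cons 13 (TM.mk (P.cons (P.cons (P.lf 0 1661666819 0) (P.cons (P.lf 0 78830625 0) (P.cons (P.lf 10937911 0 0) (P.cons (P.lf 586056 0 0) (P.cons (P.lf 0 13987 0) (P.cons (P.lf 0 1087 0) P.nil)))))) (P.cons (P.cons (P.lf 262802688 0 0) (P.cons (P.lf 17629167 0 0) (P.cons (P.lf 0 2384863 0) (P.cons (P.lf 0 149498 0) (P.cons (P.lf 4043 0 0) P.nil))))) (P.cons (P.cons (P.lf 126945989 0 0) (P.cons (P.lf 3442058 0 0) (P.cons (P.lf 0 512201 0) (P.cons (P.lf 0 15161 0) P.nil)))) (P.cons (P.cons (P.lf 0 14277049 0) (P.cons (P.lf 0 868568 0) (P.cons (P.lf 121616 0 0) P.nil))) (P.cons (P.cons (P.lf 0 4323990 0) (P.cons (P.lf 0 60568 0) P.nil)) (P.cons (P.cons (P.lf 358381 0 0) P.nil) P.nil)))))) 171563)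
 EL.nil)
noncomputable def S285_314_734_771_30 : EL := (EL.cons 13 (TM.mk (P.cons (P.lf 0 1408772644 0) (P.cons (P.lf 0 436874896 0) (P.cons (P.lf 15598228 0 0) (P.cons (P.lf 1328688 0 0) (P.cons (P.lf 0 91228 0) (P.cons (P.lf 0 3020 0) P.nil)))))) 560)
 EL.nil)
noncomputable def S285_314_734_771_31 : EL := (EL.cons 13 (TM.mk (P.cons (P.cons (P.lf 876259931 0 0) (P.cons (P.lf 20785189 0 0) (P.cons (P.lf 0 3130503 0) (P.lf 0 80268 0)))) (P.cons (P.cons (P.lf 202444310 0 0) (P.cons (P.lf 3441088 0 0) (P.cons (P.lf 0 518270 0) (P.lf 0 13289 0)))) (P.cons (P.cons (P.lf 0 67402070 0) (P.cons (P.lf 0 1448112 0) (P.cons (P.lf 218102 0 0) (P.lf 5591 0 0)))) (P.cons (P.cons (P.lf 0 10387895 0) (P.cons (P.lf 0 14247 0) (P.cons (P.lf 2146 0 0) P.nil))) (P.cons (P.cons (P.lf 1265532 0 0) (P.cons (P.lf 27275 0 0) P.nil)) (P.cons (P.cons (P.lf 144545 0 0) P.nil) P.nil)))))) 33172)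
 EL.nil)
noncomputable def S285_314_734_771_32 : EL := (EL.cons 13 (TM.mk (P.cons (P.cons (P.lf 0 545035758 0) (P.cons (P.lf 0 25856873 0) (P.cons (P.lf 3587694 0 0) (P.cons (P.lf 192229 0 0) (P.cons (P.lf 0 4587 0) (P.cons (P.lf 0 356 0) P.nil)))))) (P.cons (P.cons (P.lf 0 82820486 0) (P.cons (P.lf 0 2236020 0) (P.cons (P.lf 330332 0 0) (P.cons (P.lf 10576 0 0) (P.cons (P.lf 0 96 0) P.nil))))) (P.cons (P.cons (P.lf 74405453 0 0) (P.cons (P.lf 3208507 0 0) (P.cons (P.lf 0 450311 0) (P.cons (P.lf 0 22307 0) P.nil)))) (P.cons (P.cons (P.lf 7789344 0 0) (P.cons (P.lf 25586 0 0) (P.cons (P.lf 0 6931 0) P.nil))) (P.cons (P.cons (P.lf 0 3448154 0) (P.cons (P.lf 0 127844 0) P.nil)) (P.cons (P.cons (P.lf 0 305283 0) P.nil) P.nil)))))) 167746)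
 EL.nil)
noncomputable def S285_314_734_771_33 : EL := (EL.cons 14 (TM.mk (P.lf 8589934592 0 0) 0)
 EL.nil)
noncomputable def S285_314_734_771_34 : EL := (EL.cons 14 (TM.mk (P.cons (P.cons (P.lf 0 5342959722 0) (P.cons (P.lf 0 126736856 0) (P.cons (P.lf 19088120 0 0) (P.lf 489432 0 0)))) (P.cons (P.cons (P.lf 422510748 0 0) (P.cons (P.lf 18320504 0 0) (P.cons (P.lf 0 2759288 0) (P.lf 0 70744 0)))) (P.cons (P.cons (P.lf 220798110 0 0) (P.cons (P.lf 1745176 0 0) (P.cons (P.lf 0 262840 0) (P.lf 0 6736 0)))) (P.cons (P.cons (P.lf 0 5493088 0) (P.cons (P.lf 0 371008 0) (P.cons (P.lf 55872 0 0) P.nil))) (P.cons (P.cons (P.lf 0 2823862 0) (P.cons (P.lf 0 6448 0) P.nil)) (P.cons (P.cons (P.lf 125866 0 0) P.nil) P.nil)))))) 49330)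
 EL.nil)
noncomputable def S285_314_734_771_35 : EL := (EL.cons 14 (TM.mk (P.cons (P.cons (P.lf 3323333638 0 0) (P.cons (P.lf 157661250 0 0) (P.cons (P.lf 0 21875822 0) (P.cons (P.lf 0 1172112 0) (P.cons (P.lf 27974 0 0) (P.cons (P.lf 2174 0 0) P.nil)))))) (P.cons (P.cons (P.lf 0 525605376 0) (P.cons (P.lf 0 35258334 0) (P.cons (P.lf 4769726 0 0) (P.cons (P.lf 298996 0 0) (P.cons (P.lf 0 8086 0) P.nil))))) (P.cons (P.cons (P.lf 0 253891978 0) (P.cons (P.lf 0 6884116 0) (P.cons (P.lf 1024402 0 0) (P.cons (P.lf 30322 0 0) P.nil)))) (P.cons (P.cons (P.lf 28554098 0 0) (P.cons (P.lf 1737136 0 0) (P.cons (P.lf 0 243232 0) P.nil))) (P.cons (P.cons (P.lf 8647980 0 0) (P.cons (P.lf 121136 0 0) P.nil)) (P.cons (P.cons (P.lf 0 716762 0) P.nil) P.nil)))))) 343126)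
 EL.nil)
noncomputable def S285_314_734_771_36 : EL := (EL.cons 14 (TM.mk (P.cons (P.lf 2817545288 0 0) (P.cons (P.lf 873749792 0 0) (P.cons (P.lf 0 31196456 0) (P.cons (P.lf 0 2657376 0) (P.cons (P.lf 182456 0 0) (P.cons (P.lf 6040 0 0) P.nil)))))) 1120)
 EL.nil)
noncomputable def S285_314_734_771_37 : EL := (EL.cons 14 (TM.mk (P.cons (P.cons (P.lf 0 1752519862 0) (P.cons (P.lf 0 41570378 0) (P.cons (P.lf 6261006 0 0) (P.lf 160536 0 0)))) (P.cons (P.cons (P.lf 0 404888620 0) (P.cons (P.lf 0 6882176 0) (P.cons (P.lf 1036540 0 0) (P.lf 26578 0 0)))) (P.cons (P.cons (P.lf 134804140 0 0) (P.cons (P.lf 2896224 0 0) (P.cons (P.lf 0 436204 0) (P.lf 0 11182 0)))) (P.cons (P.cons (P.lf 20775790 0 0) (P.cons (P.lf 28494 0 0) (P.cons (P.lf 0 4292 0) P.nil))) (P.cons (P.cons (P.lf 0 2531064 0) (P.cons (P.lf 0 54550 0) P.nil)) (P.cons (P.cons (P.lf 0 289090 0) P.nil) P.nil))))))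 66344)
 EL.nil)
noncomputable def S285_314_734_771_38 : EL := (EL.cons 14 (TM.mk (P.cons (P.cons (P.lf 1090071516 0 0) (P.cons (P.lf 51713746 0 0) (P.cons (P.lf 0 7175388 0) (P.cons (P.lf 0 384458 0) (P.cons (P.lf 9174 0 0) (P.cons (P.lf 712 0 0) P.nil)))))) (P.cons (P.cons (P.lf 165640972 0 0) (P.cons (P.lf 4472040 0 0) (P.cons (P.lf 0 660664 0) (P.cons (P.lf 0 21152 0) (P.cons (P.lf 192 0 0) P.nil))))) (P.cons (P.cons (P.lf 0 148810906 0) (P.cons (P.lf 0 6417014 0) (P.cons (P.lf 900622 0 0) (P.cons (P.lf 44614 0 0) P.nil)))) (P.cons (P.cons (P.lf 0 15578688 0) (P.cons (P.lf 0 51172 0) (P.cons (P.lf 13862 0 0) P.nil))) (P.cons (P.cons (P.lf 6896308 0 0) (P.cons (P.lf 255688 0 0) P.nil)) (P.cons (P.cons (P.lf 610566 0 0) P.nil) P.nil)))))) 335492)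
 EL.nil)
noncomputable def S285_314_734_771_39 : EL := (EL.cons 14 (TM.mk (P.cons (P.lf 924170186 0 0) (P.cons (P.lf 573189372 0 0) (P.cons (P.lf 68410746 0 0) (P.cons (P.lf 0 8089740 0) (P.cons (P.lf 0 307614 0) (P.cons (P.lf 60382 0 0) P.nil)))))) 4526)
 EL.nil)
noncomputable def S285_314_734_771_40 : EL := (EL.cons 14 (TM.mk (P.cons (P.cons (P.lf 0 574836050 0) (P.cons (P.lf 0 13635310 0) (P.cons (P.lf 2053644 0 0) (P.lf 52656 0 0)))) (P.cons (P.cons (P.lf 0 311068246 0) (P.cons (P.lf 0 6485840 0) (P.cons (P.lf 976846 0 0) (P.lf 25046 0 0)))) (P.cons (P.cons (P.lf 9396792 0 0) (P.cons (P.lf 400910 0 0) (P.cons (P.lf 0 60380 0) (P.lf 0 1546 0)))) (P.cons (P.cons (P.lf 22539170 0 0) (P.cons (P.lf 341798 0 0) (P.cons (P.lf 0 51478 0) P.nil))) (P.cons (P.cons (P.lf 881522 0 0) (P.cons (P.lf 0 24266 0) P.nil)) (P.cons (P.cons (P.lf 0 479264 0) P.nil) P.nil)))))) 83900)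
 EL.nil)
noncomputable def S285_314_734_771_41 : EL := (EL.cons 14 (TM.mk (P.cons (P.cons (P.lf 357549388 0 0) (P.cons (P.lf 16962390 0 0) (P.cons (P.lf 0 2353566 0) (P.cons (P.lf 0 126104 0) (P.cons (P.lf 3008 0 0) (P.cons (P.lf 232 0 0) P.nil)))))) (P.cons (P.cons (P.lf 165210884 0 0) (P.cons (P.lf 6727064 0 0) (P.cons (P.lf 0 946566 0) (P.cons (P.lf 0 46044 0) (P.cons (P.lf 996 0 0) P.nil))))) (P.cons (P.cons (P.lf 0 35921004 0) (P.cons (P.lf 0 1837740 0) (P.cons (P.lf 254266 0 0) (P.cons (P.lf 13878 0 0) P.nil)))) (P.cons (P.cons (P.lf 0 21185410 0) (P.cons (P.lf 0 701748 0) (P.cons (P.lf 100774 0 0) P.nil))) (P.cons (P.cons (P.lf 1189750 0 0) (P.cons (P.lf 101682 0 0) P.nil)) (P.cons (P.cons (P.lf 1008644 0 0) P.nil) P.nil)))))) 314014)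
 EL.nil)
noncomputable def S285_314_734_771_42 : EL := (EL.cons 14 (TM.mk (P.cons (P.lf 303132848 0 0) (P.cons (P.lf 282013848 0 0) (P.cons (P.lf 77386344 0 0) (P.cons (P.lf 1937536 0 0) (P.cons (P.lf 0 1329912 0) (P.cons (P.lf 9556 0 0) P.nil)))))) 14366)
 EL.nil)
noncomputable def S285_314_734_771_43 : EL := (EL.cons 14 (TM.mk (P.cons (P.cons (P.lf 0 188549350 0) (P.cons (P.lf 0 4472454 0) (P.cons (P.lf 673606 0 0) (P.lf 17270 0 0)))) (P.cons (P.cons (P.lf 0 160503170 0) (P.cons (P.lf 0 3514344 0) (P.cons (P.lf 529302 0 0) (P.lf 13570 0 0)))) (P.cons (P.cons (P.lf 0 26471338 0) (P.cons (P.lf 0 478704 0) (P.cons (P.lf 72098 0 0) (P.lf 1848 0 0)))) (P.cons (P.cons (P.lf 9656344 0 0) (P.cons (P.lf 180664 0 0) (P.cons (P.lf 0 27210 0) P.nil))) (P.cons (P.cons (P.lf 2631674 0 0) (P.cons (P.lf 27068 0 0) P.nil)) (P.cons (P.cons (P.lf 0 159308 0) P.nil) P.nil)))))) 100410)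
 EL.nil)
noncomputable def S285_314_734_771_44 : EL := (EL.cons 14 (TM.mk (P.cons (P.cons (P.lf 117278144 0 0) (P.cons (P.lf 5563756 0 0) (P.cons (P.lf 0 771982 0) (P.cons (P.lf 0 41362 0) (P.cons (P.lf 986 0 0) (P.cons (P.lf 76 0 0) P.nil)))))) (P.cons (P.cons (P.lf 90559228 0 0) (P.cons (P.lf 3931892 0 0) (P.cons (P.lf 0 549878 0) (P.cons (P.lf 0 27928 0) (P.cons (P.lf 632 0 0) P.nil))))) (P.cons (P.cons (P.lf 3724084 0 0) (P.cons (P.lf 19870 0 0) (P.cons (P.lf 0 4334 0) (P.cons (P.lf 326 0 0) P.nil)))) (P.cons (P.cons (P.lf 0 11313352 0) (P.cons (P.lf 0 446786 0) (P.cons (P.lf 63084 0 0) P.nil))) (P.cons (P.cons (P.lf 0 1677748 0) (P.cons (P.lf 0 33074 0) P.nil)) (P.cons (P.cons (P.lf 543672 0 0) P.nil) P.nil)))))) 256568)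
 EL.nil)
noncomputable def S285_314_734_771_45 : EL := (EL.cons 14 (TM.mk (P.cons (P.cons (P.lf 0 2067121416 0) (P.cons (P.lf 0 147098508 0) (P.cons (P.lf 18665606 0 0) (P.cons (P.lf 1591516 0 0) (P.cons (P.lf 0 39734 0) (P.cons (P.lf 0 5616 0) P.nil)))))) (P.cons (P.cons (P.lf 490391688 0 0) (P.cons (P.lf 44528412 0 0) (P.cons (P.lf 0 5421822 0) (P.cons (P.lf 0 546968 0) (P.cons (P.lf 13812 0 0) P.nil))))) (P.cons (P.cons (P.lf 217492514 0 0) (P.cons (P.lf 9900394 0 0) (P.cons (P.lf 0 1403512 0) (P.cons (P.lf 0 65206 0) P.nil)))) (P.cons (P.cons (P.lf 0 45884344 0) (P.cons (P.lf 0 3639332 0) (P.cons (P.lf 466690 0 0) P.nil))) (P.cons (P.cons (P.lf 0 11257094 0) (P.cons (P.lf 0 294204 0) P.nil)) (P.cons (P.cons (P.lf 1988998 0 0) P.nil) P.nil)))))) 969676)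
 EL.nil)
noncomputable def S285_314_734_771_46 : EL := (EL.cons 15 (TM.mk (P.lf 4294967296 0 0) 0)
 EL.nil)
noncomputable def S285_314_734_771_47 : EL := (EL.cons 15 (TM.mk (P.cons (P.cons (P.lf 0 2671479861 0) (P.cons (P.lf 0 63368428 0) (P.cons (P.lf 9544060 0 0) (P.lf 244716 0 0)))) (P.cons (P.cons (P.lf 211255374 0 0) (P.cons (P.lf 9160252 0 0) (P.cons (P.lf 0 1379644 0) (P.lf 0 35372 0)))) (P.cons (P.cons (P.lf 110399055 0 0) (P.cons (P.lf 872588 0 0) (P.cons (P.lf 0 131420 0) (P.lf 0 3368 0)))) (P.cons (P.cons (P.lf 0 2746544 0) (P.cons (P.lf 0 185504 0) (P.cons (P.lf 27936 0 0) P.nil))) (P.cons (P.cons (P.lf 0 1411931 0) (P.cons (P.lf 0 3224 0) P.nil)) (P.cons (P.cons (P.lf 62933 0 0) P.nil) P.nil)))))) 24665)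
 EL.nil)
noncomputable def S285_314_734_771_48 : EL := (EL.cons 15 (TM.mk (P.cons (P.cons (P.lf 1661666819 0 0) (P.cons (P.lf 78830625 0 0) (P.cons (P.lf 0 10937911 0) (P.cons (P.lf 0 586056 0) (P.cons (P.lf 13987 0 0) (P.cons (P.lf 1087 0 0) P.nil)))))) (P.cons (P.cons (P.lf 0 262802688 0) (P.cons (P.lf 0 17629167 0) (P.cons (P.lf 2384863 0 0) (P.cons (P.lf 149498 0 0) (P.cons (P.lf 0 4043 0) P.nil))))) (P.cons (P.cons (P.lf 0 126945989 0) (P.cons (P.lf 0 3442058 0) (P.cons (P.lf 512201 0 0) (P.cons (P.lf 15161 0 0) P.nil)))) (P.cons (P.cons (P.lf 14277049 0 0) (P.cons (P.lf 868568 0 0) (P.cons (P.lf 0 121616 0) P.nil))) (P.cons (P.cons (P.lf 4323990 0 0) (P.cons (P.lf 60568 0 0) P.nil)) (P.cons (P.cons (P.lf 0 358381 0) P.nil) P.nil)))))) 171563)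
 EL.nil)
noncomputable def S285_314_734_771 : SL := (SL.cons S285_314_734_771_0 (SL.cons S285_314_734_771_1 (SL.cons S285_314_734_771_2 (SL.cons S285_314_734_771_3 (SL.cons S285_314_734_771_4 (SL.cons S285_314_734_771_5 (SL.cons S285_314_734_771_6 (SL.cons S285_314_734_771_7 (SL.cons S285_314_734_771_8 (SL.cons S285_314_734_771_9 (SL.cons S285_314_734_771_10 (SL.cons S285_314_734_771_11 (SL.cons S285_314_734_771_12 (SL.cons S285_314_734_771_13 (SL.cons S285_314_734_771_14 (SL.cons S285_314_734_771_15 (SL.cons S285_314_734_771_16 (SL.cons S285_314_734_771_17 (SL.cons S285_314_734_771_18 (SL.cons S285_314_734_771_19 (SL.cons S285_314_734_771_20 (SL.cons S285_314_734_771_21 (SL.cons S285_314_734_771_22 (SL.cons S285_314_734_771_23 (SL.cons S285_314_734_771_24 (SL.cons S285_314_734_771_25 (SL.cons S285_314_734_771_26 (SL.cons S285_314_734_771_27 (SL.cons S285_314_734_771_28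 (SL.cons S285_314_734_771_29 (SL.cons S285_314_734_771_30 (SL.cons S285_314_734_771_31 (SL.cons S285_314_734_771_32 (SL.cons S285_314_734_771_33 (SL.cons S285_314_734_771_34 (SL.cons S285_314_734_771_35 (SL.cons S285_314_734_771_36 (SL.cons S285_314_734_771_37 (SL.cons S285_314_734_771_38 (SL.cons S285_314_734_771_39 (SL.cons S285_314_734_771_40 (SL.cons S285_314_734_771_41 (SL.cons S285_314_734_771_42 (SL.cons S285_314_734_771_43 (SL.cons S285_314_734_771_44 (SL.cons S285_314_734_771_45 (SL.cons S285_314_734_771_46 (SL.cons S285_314_734_771_47 (SL.cons S285_314_734_771_48 SL.nil)))))))))))))))))))))))))))))))))))))))))))))))))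
noncomputable def S285_314_734_808_0 : EL := (EL.cons 0 (TM.mk (P.cons (P.lf 7643457911 0 0) (P.cons (P.lf 0 503779721 0) (P.cons (P.lf 0 60126632 0) (P.cons (P.lf 7110123 0 0) (P.cons (P.lf 270363 0 0) (P.cons (P.lf 0 53070 0) P.nil)))))) 3984)
 (EL.cons 1 (TM.mk (P.cons (P.lf 1228710643 0 0) (P.cons (P.lf 321830180 0 0) (P.cons (P.lf 0 40457490 0) (P.cons (P.lf 0 2710608 0) (P.cons (P.lf 384633 0 0) (P.cons (P.lf 7027 0 0) P.nil)))))) 2881)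
 (EL.cons 5 (TM.mk (P.cons (P.lf 4583770480 0 0) (P.cons (P.lf 179121676 0 0) (P.cons (P.lf 21378358 0 0) (P.cons (P.lf 0 2528040 0) (P.cons (P.lf 0 96128 0) (P.cons (P.lf 18870 0 0) P.nil)))))) 1697)
 (EL.cons 9 (TM.mk (P.lf 6442450944 0 0) 2)
 EL.nil))))
noncomputable def S285_314_734_808_1 : EL := (EL.cons 0 (TM.mk (P.cons (P.cons (P.lf 0 3990060075 0) (P.cons (P.lf 0 105579791 0) (P.cons (P.lf 49840131 0 0) (P.lf 2373343 0 0)))) (P.cons (P.cons (P.lf 1826860956 0 0) (P.cons (P.lf 56124216 0 0) (P.cons (P.lf 0 26494057 0) (P.lf 0 1261616 0)))) (P.cons (P.cons (P.lf 405070630 0 0) (P.cons (P.lf 423944 0 0) (P.cons (P.lf 0 200127 0) (P.lf 0 9532 0)))) (P.cons (P.cons (P.lf 0 79461248 0) (P.cons (P.lf 0 2153444 0) (P.cons (P.lf 1016553 0 0) P.nil))) (P.cons (P.cons (P.lf 0 9414889 0) (P.cons (P.lf 108523 0 0) P.nil)) (P.cons (P.cons (P.lf 1852301 0 0) P.nil) P.nil))))))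 575614)
 (EL.cons 1 (TM.mk (P.cons (P.cons (P.lf 0 1328690592 0) (P.cons (P.lf 0 56481640 0) (P.cons (P.lf 26662787 0 0) (P.lf 1269653 0 0)))) (P.cons (P.cons (P.lf 0 586297892 0) (P.cons (P.lf 0 2467926 0) (P.cons (P.lf 1165012 0 0) (P.lf 55474 0 0)))) (P.cons (P.cons (P.lf 225687056 0 0) (P.cons (P.lf 6162151 0 0) (P.cons (P.lf 0 2908905 0) (P.lf 0 138513 0)))) (P.cons (P.cons (P.lf 31904365 0 0) (P.cons (P.lf 0 276739 0) (P.cons (P.lf 130639 0 0) P.nil))) (P.cons (P.cons (P.lf 0 7395127 0) (P.cons (P.lf 0 156986 0) P.nil)) (P.cons (P.cons (P.lf 0 518684 0) P.nil) P.nil)))))) 340941)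
 (EL.cons 5 (TM.mk (P.cons (P.cons (P.lf 0 3213913141 0) (P.cons (P.lf 0 110517404 0) (P.cons (P.lf 52170978 0 0) (P.lf 2484334 0 0)))) (P.cons (P.cons (P.lf 0 277249519 0) (P.cons (P.lf 1447164 0 0) (P.cons (P.lf 0 683154 0) (P.lf 0 32540 0)))) (P.cons (P.cons (P.lf 44907544 0 0) (P.cons (P.lf 1888026 0 0) (P.cons (P.lf 0 891266 0) (P.lf 0 42438 0)))) (P.cons (P.cons (P.lf 23317106 0 0) (P.cons (P.lf 332236 0 0) (P.cons (P.lf 0 156836 0) P.nil))) (P.cons (P.cons (P.lf 942581 0 0) (P.cons (P.lf 0 46120 0) P.nil)) (P.cons (P.cons (P.lf 0 548904 0) P.nil) P.nil)))))) 303894)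
 (EL.cons 9 (TM.mk (P.cons (P.cons (P.lf 0 4087589257 0) (P.cons (P.lf 0 130638426 0) (P.cons (P.lf 61669332 0 0) (P.lf 2936634 0 0)))) (P.cons (P.cons (P.lf 328500915 0 0) (P.cons (P.lf 18884502 0 0) (P.cons (P.lf 0 8914638 0) (P.lf 0 424506 0)))) (P.cons (P.cons (P.lf 166705282 0 0) (P.cons (P.lf 1798908 0 0) (P.cons (P.lf 0 849192 0) (P.lf 0 40434 0)))) (P.cons (P.cons (P.lf 0 4355094 0) (P.cons (P.lf 0 382434 0) (P.cons (P.lf 180534 0 0) P.nil))) (P.cons (P.cons (P.lf 0 2121988 0) (P.cons (P.lf 0 6648 0) P.nil)) (P.cons (P.cons (P.lf 96781 0 0) P.nil) P.nil)))))) 59990)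
 (EL.cons 2 (TM.mk (P.cons (P.cons (P.lf 0 173690381 0) (P.cons (P.lf 171266040 0 0) (P.cons (P.lf 5359078 0 0) (P.cons (P.lf 0 982029 0) (P.lf 0 35071 0))))) (P.cons (P.cons (P.lf 0 37124572 0) (P.cons (P.lf 36606394 0 0) (P.cons (P.lf 1145446 0 0) (P.cons (P.lf 0 209896 0) (P.lf 0 7495 0))))) (P.cons (P.cons (P.lf 9111715 0 0) (P.cons (P.lf 0 8984536 0) (P.cons (P.lf 0 281131 0) (P.cons (P.lf 51513 0 0) P.nil)))) (P.cons (P.cons (P.lf 361769 0 0) (P.cons (P.lf 0 356720 0) (P.cons (P.lf 0 11160 0) P.nil))) (P.cons (P.cons (P.lf 0 131397 0) (P.cons (P.lf 129563 0 0) P.nil)) (P.cons (P.cons (P.lf 419 0 0) P.nil) P.nil)))))) 27355)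
 (EL.cons 6 (TM.mk (P.cons (P.cons (P.lf 262742835 0 0) (P.cons (P.lf 0 259075515 0) (P.cons (P.lf 0 8106720 0) (P.cons (P.lf 1485522 0 0) (P.lf 53052 0 0))))) (P.cons (P.cons (P.lf 0 37980924 0) (P.cons (P.lf 37450794 0 0) (P.cons (P.lf 1171869 0 0) (P.cons (P.lf 0 214740 0) (P.lf 0 7668 0))))) (P.cons (P.cons (P.lf 0 3618003 0) (P.cons (P.lf 3567504 0 0) (P.cons (P.lf 111627 0 0) (P.cons (P.lf 0 20454 0) P.nil)))) (P.cons (P.cons (P.lf 769167 0 0) (P.cons (P.lf 0 758433 0) (P.cons (P.lf 0 23730 0) P.nil))) (P.cons (P.cons (P.lf 13380 0 0) (P.cons (P.lf 0 13194 0) P.nil)) (P.cons (P.cons (P.lf 0 7779 0) P.nil) P.nil)))))) 17778)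
 EL.nil))))))
noncomputable def S285_314_734_808_2 : EL := (EL.cons 0 (TM.mk (P.cons (P.cons (P.lf 1986243529 0 0) (P.cons (P.lf 99116858 0 0) (P.cons (P.lf 0 45650285 0) (P.cons (P.lf 0 3303375 0) (P.cons (P.lf 202600 0 0) (P.cons (P.lf 24176 0 0) P.nil)))))) (P.cons (P.cons (P.lf 0 2027745420 0) (P.cons (P.lf 0 122267165 0) (P.cons (P.lf 55938255 0 0) (P.cons (P.lf 4428338 0 0) (P.cons (P.lf 0 316503 0) P.nil))))) (P.cons (P.cons (P.lf 0 311494540 0) (P.cons (P.lf 0 1148407 0) (P.cons (P.lf 780717 0 0) (P.cons (P.lf 0 199443 0) P.nil)))) (P.cons (P.cons (P.lf 193369067 0 0) (P.cons (P.lf 9664412 0 0) (P.cons (P.lf 0 4470843 0) P.nil))) (P.cons (P.cons (P.lf 17474630 0 0) (P.cons (P.lf 0 443879 0) P.nil)) (P.cons (P.cons (P.lf 0 7646812 0) P.nil) P.nil)))))) 3809153)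
 (EL.cons 1 (TM.mk (P.cons (P.cons (P.lf 1191416568 0 0) (P.cons (P.lf 93941736 0 0) (P.cons (P.lf 0 42560833 0) (P.cons (P.lf 0 3797365 0) (P.cons (P.lf 317591 0 0) (P.cons (P.lf 37892 0 0) P.nil)))))) (P.cons (P.cons (P.lf 558431599 0 0) (P.cons (P.lf 12189864 0 0) (P.cons (P.lf 0 5971662 0) (P.cons (P.lf 0 68856 0) (P.cons (P.lf 0 38646 0) P.nil))))) (P.cons (P.cons (P.lf 0 340678822 0) (P.cons (P.lf 0 20065120 0) (P.cons (P.lf 9234289 0 0) (P.cons (P.lf 675421 0 0) P.nil)))) (P.cons (P.cons (P.lf 0 42107621 0) (P.cons (P.lf 631294 0 0) (P.cons (P.lf 0 253122 0) P.nil))) (P.cons (P.cons (P.lf 22055061 0 0) (P.cons (P.lf 1030965 0 0) P.nil)) (P.cons (P.cons (P.lf 1457760 0 0) P.nil) P.nil)))))) 2142896)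
 (EL.cons 5 (TM.mk (P.cons (P.cons (P.lf 2233060638 0 0) (P.cons (P.lf 152635932 0 0) (P.cons (P.lf 0 69456191 0) (P.cons (P.lf 0 5883281 0) (P.cons (P.lf 462006 0 0) (P.cons (P.lf 55122 0 0) P.nil)))))) (P.cons (P.cons (P.lf 248542982 0 0) (P.cons (P.lf 1215181 0 0) (P.cons (P.lf 0 808977 0) (P.cons (P.lf 194889 0 0) (P.cons (P.lf 0 41866 0) P.nil))))) (P.cons (P.cons (P.lf 0 110009726 0) (P.cons (P.lf 0 7658411 0) (P.cons (P.lf 3510454 0 0) (P.cons (P.lf 271066 0 0) P.nil)))) (P.cons (P.cons (P.lf 0 43222793 0) (P.cons (P.lf 0 1370518 0) (P.cons (P.lf 644022 0 0) P.nil))) (P.cons (P.cons (P.lf 1224035 0 0) (P.cons (P.lf 297290 0 0) P.nil)) (P.cons (P.cons (P.lf 2078977 0 0) P.nil) P.nil)))))) 1957909)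
 (EL.cons 9 (TM.mk (P.cons (P.cons (P.lf 2593482834 0 0) (P.cons (P.lf 165774246 0 0) (P.cons (P.lf 0 75606535 0) (P.cons (P.lf 0 6227485 0) (P.cons (P.lf 471222 0 0) (P.cons (P.lf 56220 0 0) P.nil)))))) (P.cons (P.cons (P.lf 0 416852785 0) (P.cons (P.lf 0 37286097 0) (P.cons (P.lf 16835445 0 0) (P.cons (P.lf 1561231 0 0) (P.cons (P.lf 0 136234 0) P.nil))))) (P.cons (P.cons (P.lf 0 194791174 0) (P.cons (P.lf 0 7117705 0) (P.cons (P.lf 3342388 0 0) (P.cons (P.lf 176610 0 0) P.nil)))) (P.cons (P.cons (P.lf 22527039 0 0) (P.cons (P.lf 1822680 0 0) (P.cons (P.lf 0 834361 0) P.nil))) (P.cons (P.cons (P.lf 6562251 0 0) (P.cons (P.lf 123058 0 0) P.nil)) (P.cons (P.cons (P.lf 0 564597 0) P.nil) P.nil)))))) 526729)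
 (EL.cons 2 (TM.mk (P.cons (P.cons (P.lf 220405230 0 0) (P.cons (P.lf 0 210284746 0) (P.cons (P.lf 0 17071453 0) (P.cons (P.lf 4149298 0 0) (P.cons (P.lf 343063 0 0) (P.cons (P.lf 0 12487 0) P.nil)))))) (P.cons (P.cons (P.lf 29396435 0 0) (P.cons (P.lf 0 28498786 0) (P.cons (P.lf 0 1617598 0) (P.cons (P.lf 367053 0 0) (P.cons (P.lf 26589 0 0) P.nil))))) (P.cons (P.cons (P.lf 0 24337170 0) (P.cons (P.lf 23313301 0 0) (P.cons (P.lf 1748491 0 0) (P.cons (P.lf 0 419568 0) P.nil)))) (P.cons (P.cons (P.lf 0 1216299 0) (P.cons (P.lf 1237961 0 0) (P.cons (P.lf 0 18804 0) P.nil))) (P.cons (P.cons (P.lf 839790 0 0) (P.cons (P.lf 0 810765 0) P.nil)) (P.cons (P.cons (P.lf 11705 0 0) P.nil) P.nil)))))) 364426)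
 (EL.cons 6 (TM.mk (P.cons (P.cons (P.lf 0 333408756 0) (P.cons (P.lf 318099426 0 0) (P.cons (P.lf 25824126 0 0) (P.cons (P.lf 0 6276672 0) (P.cons (P.lf 0 518952 0) (P.cons (P.lf 18894 0 0) P.nil)))))) (P.cons (P.cons (P.lf 74990616 0 0) (P.cons (P.lf 0 70863234 0) (P.cons (P.lf 0 6805710 0) (P.cons (P.lf 1693650 0 0) (P.cons (P.lf 145710 0 0) P.nil))))) (P.cons (P.cons (P.lf 14315280 0 0) (P.cons (P.lf 0 14044674 0) (P.cons (P.lf 0 544908 0) (P.cons (P.lf 110106 0 0) P.nil)))) (P.cons (P.cons (P.lf 0 3665820 0) (P.cons (P.lf 3509844 0 0) (P.cons (P.lf 265920 0 0) P.nil))) (P.cons (P.cons (P.lf 0 247506 0) (P.cons (P.lf 249966 0 0) P.nil)) (P.cons (P.cons (P.lf 88848 0 0) P.nil) P.nil)))))) 305358)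
 EL.nil))))))
noncomputable def S285_314_734_808_3 : EL := (EL.cons 0 (TM.mk (P.cons (P.lf 812258952 0 0) (P.cons (P.lf 503779721 0 0) (P.cons (P.lf 60126632 0 0) (P.cons (P.lf 0 7110123 0) (P.cons (P.lf 0 270363 0) (P.cons (P.lf 53070 0 0) P.nil)))))) 3984)
 (EL.cons 1 (TM.mk (P.cons (P.lf 0 1228710643 0) (P.cons (P.lf 0 321830180 0) (P.cons (P.lf 40457490 0 0) (P.cons (P.lf 2710608 0 0) (P.cons (P.lf 0 384633 0) (P.cons (P.lf 0 7027 0) P.nil)))))) 2881)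
 (EL.cons 5 (TM.mk (P.cons (P.lf 1858680464 0 0) (P.cons (P.lf 0 179121676 0) (P.cons (P.lf 0 21378358 0) (P.cons (P.lf 2528040 0 0) (P.cons (P.lf 96128 0 0) (P.cons (P.lf 0 18870 0) P.nil)))))) 1690)
 EL.nil)))
noncomputable def S285_314_734_808_4 : EL := (EL.cons 0 (TM.mk (P.cons (P.cons (P.lf 0 515359914 0) (P.cons (P.lf 0 16470785 0) (P.cons (P.lf 7775217 0 0) (P.lf 370248 0 0)))) (P.cons (P.cons (P.lf 0 278219698 0) (P.cons (P.lf 0 7834577 0) (P.cons (P.lf 3698400 0 0) (P.lf 176113 0 0)))) (P.cons (P.cons (P.lf 8556832 0 0) (P.cons (P.lf 484280 0 0) (P.cons (P.lf 0 228608 0) (P.lf 0 10884 0)))) (P.cons (P.cons (P.lf 20063821 0 0) (P.cons (P.lf 412875 0 0) (P.cons (P.lf 0 194900 0) P.nil))) (P.cons (P.cons (P.lf 756740 0 0) (P.cons (P.lf 0 29313 0) P.nil)) (P.cons (P.cons (P.lf 0 425816 0) P.nil) P.nil)))))) 121264)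
 (EL.cons 1 (TM.mk (P.cons (P.cons (P.lf 779589082 0 0) (P.cons (P.lf 24915489 0 0) (P.cons (P.lf 0 11761635 0) (P.lf 0 560075 0)))) (P.cons (P.cons (P.lf 141541942 0 0) (P.cons (P.lf 2924321 0 0) (P.cons (P.lf 0 1380457 0) (P.lf 0 65733 0)))) (P.cons (P.cons (P.lf 0 73873695 0) (P.cons (P.lf 0 2106843 0) (P.cons (P.lf 994558 0 0) (P.lf 47358 0 0)))) (P.cons (P.cons (P.lf 0 7153980 0) (P.cons (P.lf 46700 0 0) (P.cons (P.lf 0 22046 0) P.nil))) (P.cons (P.cons (P.lf 2051400 0 0) (P.cons (P.lf 47413 0 0) P.nil)) (P.cons (P.cons (P.lf 115181 0 0) P.nil) P.nil)))))) 87129)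
 (EL.cons 5 (TM.mk (P.cons (P.cons (P.lf 0 1179290670 0) (P.cons (P.lf 0 37689862 0) (P.cons (P.lf 17791920 0 0) (P.lf 847232 0 0)))) (P.cons (P.cons (P.lf 208422862 0 0) (P.cons (P.lf 9080460 0 0) (P.cons (P.lf 0 4286532 0) (P.lf 0 204118 0)))) (P.cons (P.cons (P.lf 52525998 0 0) (P.cons (P.lf 427446 0 0) (P.cons (P.lf 0 201778 0) (P.lf 0 9606 0)))) (P.cons (P.cons (P.lf 0 8585498 0) (P.cons (P.lf 0 274276 0) (P.cons (P.lf 129476 0 0) P.nil))) (P.cons (P.cons (P.lf 0 976390 0) (P.cons (P.lf 8206 0 0) P.nil)) (P.cons (P.cons (P.lf 183662 0 0) P.nil) P.nil)))))) 63850)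
 EL.nil)))
noncomputable def S285_314_734_808_5 : EL := (EL.cons 0 (TM.mk (P.cons (P.cons (P.lf 326984196 0 0) (P.cons (P.lf 20900680 0 0) (P.cons (P.lf 0 9532409 0) (P.cons (P.lf 0 785155 0) (P.cons (P.lf 59410 0 0) (P.cons (P.lf 7087 0 0) P.nil)))))) (P.cons (P.cons (P.lf 150245869 0 0) (P.cons (P.lf 8262031 0 0) (P.cons (P.lf 0 3789597 0) (P.cons (P.lf 0 290130 0) (P.cons (P.lf 19671 0 0) P.nil))))) (P.cons (P.cons (P.lf 0 32951040 0) (P.cons (P.lf 0 2265899 0) (P.cons (P.lf 1032257 0 0) (P.cons (P.lf 86229 0 0) P.nil)))) (P.cons (P.cons (P.lf 0 19144575 0) (P.cons (P.lf 0 857721 0) (P.cons (P.lf 396733 0 0) P.nil))) (P.cons (P.cons (P.lf 1122159 0 0) (P.cons (P.lf 125806 0 0) P.nil)) (P.cons (P.cons (P.lf 906041 0 0) P.nil) P.nil)))))) 508435)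
 (EL.cons 1 (TM.mk (P.cons (P.cons (P.lf 0 494631620 0) (P.cons (P.lf 0 31616626 0) (P.cons (P.lf 14419753 0 0) (P.cons (P.lf 1187711 0 0) (P.cons (P.lf 0 89870 0) (P.cons (P.lf 0 10721 0) P.nil)))))) (P.cons (P.cons (P.lf 0 50053867 0) (P.cons (P.lf 0 1169947 0) (P.cons (P.lf 566021 0 0) (P.cons (P.lf 13331 0 0) (P.cons (P.lf 2441 0 0) P.nil))))) (P.cons (P.cons (P.lf 74261115 0 0) (P.cons (P.lf 4261141 0 0) (P.cons (P.lf 0 1953266 0) (P.cons (P.lf 0 150780 0) P.nil)))) (P.cons (P.cons (P.lf 3907760 0 0) (P.cons (P.lf 0 156463 0) (P.cons (P.lf 66075 0 0) P.nil))) (P.cons (P.cons (P.lf 0 3930369 0) (P.cons (P.lf 0 184803 0) P.nil)) (P.cons (P.cons (P.lf 0 138566 0) P.nil) P.nil)))))) 388192)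
 (EL.cons 5 (TM.mk (P.cons (P.cons (P.lf 748233228 0 0) (P.cons (P.lf 47826726 0 0) (P.cons (P.lf 0 21812876 0) (P.cons (P.lf 0 1796660 0) (P.cons (P.lf 135948 0 0) (P.cons (P.lf 16218 0 0) P.nil)))))) (P.cons (P.cons (P.lf 0 192371680 0) (P.cons (P.lf 0 15366310 0) (P.cons (P.lf 6959226 0 0) (P.cons (P.lf 623566 0 0) (P.cons (P.lf 0 52404 0) P.nil))))) (P.cons (P.cons (P.lf 0 53214464 0) (P.cons (P.lf 0 1566914 0) (P.cons (P.lf 747102 0 0) (P.cons (P.lf 28208 0 0) P.nil)))) (P.cons (P.cons (P.lf 14315972 0 0) (P.cons (P.lf 912526 0 0) (P.cons (P.lf 0 419180 0) P.nil))) (P.cons (P.cons (P.lf 1788424 0 0) (P.cons (P.lf 0 3712 0) P.nil)) (P.cons (P.cons (P.lf 0 510346 0) P.nil) P.nil)))))) 323424)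
 EL.nil)))
noncomputable def S285_314_734_808_6 : EL := (EL.cons 12 (TM.mk (P.lf 8589934592 0 0) 0)
 (EL.cons 3 (TM.mk (P.cons (P.lf 1320724353 0 0) (P.cons (P.lf 409570215 0 0) (P.cons (P.lf 0 14623338 0) (P.cons (P.lf 0 1245645 0) (P.cons (P.lf 85526 0 0) (P.cons (P.lf 2831 0 0) P.nil)))))) 532)
 (EL.cons 7 (TM.mk (P.cons (P.lf 0 1997870342 0) (P.cons (P.lf 96267727 0 0) (P.cons (P.lf 13808992 0 0) (P.cons (P.lf 0 693290 0) (P.cons (P.lf 0 37347 0) (P.cons (P.lf 3551 0 0) P.nil)))))) 296)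
 EL.nil)))
noncomputable def S285_314_734_808_7 : EL := (EL.cons 12 (TM.mk (P.cons (P.cons (P.lf 0 5450119010 0) (P.cons (P.lf 0 174184568 0) (P.cons (P.lf 82225776 0 0) (P.lf 3915512 0 0)))) (P.cons (P.cons (P.lf 438001220 0 0) (P.cons (P.lf 25179336 0 0) (P.cons (P.lf 0 11886184 0) (P.lf 0 566008 0)))) (P.cons (P.cons (P.lf 222273710 0 0) (P.cons (P.lf 2398544 0 0) (P.cons (P.lf 0 1132256 0) (P.lf 0 53912 0)))) (P.cons (P.cons (P.lf 0 5806792 0) (P.cons (P.lf 0 509912 0) (P.cons (P.lf 240712 0 0) P.nil))) (P.cons (P.cons (P.lf 0 2829318 0) (P.cons (P.lf 0 8864 0) P.nil)) (P.cons (P.cons (P.lf 129042 0 0) P.nil) P.nil)))))) 79962)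
 (EL.cons 3 (TM.mk (P.cons (P.cons (P.lf 559634617 0 0) (P.cons (P.lf 53562642 0 0) (P.cons (P.lf 0 25284842 0) (P.lf 0 1204038 0)))) (P.cons (P.cons (P.lf 1191085997 0 0) (P.cons (P.lf 8867550 0 0) (P.cons (P.lf 0 4186026 0) (P.lf 0 199332 0)))) (P.cons (P.cons (P.lf 0 32472055 0) (P.cons (P.lf 0 3731732 0) (P.cons (P.lf 1761604 0 0) (P.lf 83882 0 0)))) (P.cons (P.cons (P.lf 0 30876080 0) (P.cons (P.lf 0 36712 0) (P.cons (P.lf 17328 0 0) P.nil))) (P.cons (P.cons (P.lf 1983535 0 0) (P.cons (P.lf 70288 0 0) P.nil)) (P.cons (P.cons (P.lf 354600 0 0) P.nil) P.nil)))))) 225854)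
 (EL.cons 7 (TM.mk (P.cons (P.cons (P.lf 1596104427 0 0) (P.cons (P.lf 59396828 0 0) (P.cons (P.lf 0 28038941 0) (P.lf 0 1335189 0)))) (P.cons (P.cons (P.lf 279959670 0 0) (P.cons (P.lf 2084279 0 0) (P.cons (P.lf 0 983904 0) (P.lf 0 46851 0)))) (P.cons (P.cons (P.lf 42521722 0 0) (P.cons (P.lf 0 503735 0) (P.cons (P.lf 237796 0 0) (P.lf 11326 0 0)))) (P.cons (P.cons (P.lf 0 7857518 0) (P.cons (P.lf 0 209037 0) (P.cons (P.lf 98679 0 0) P.nil))) (P.cons (P.cons (P.lf 0 1406748 0) (P.cons (P.lf 9404 0 0) P.nil)) (P.cons (P.cons (P.lf 159966 0 0) P.nil) P.nil)))))) 166925)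
 (EL.cons 10 (TM.mk (P.cons (P.cons (P.lf 0 564837402 0) (P.cons (P.lf 556953498 0 0) (P.cons (P.lf 17427612 0 0) (P.cons (P.lf 0 3193539 0) (P.lf 0 114054 0))))) (P.cons (P.cons (P.lf 54433575 0 0) (P.cons (P.lf 0 53673798 0) (P.cons (P.lf 0 1679505 0) (P.cons (P.lf 307761 0 0) (P.lf 10989 0 0))))) (P.cons (P.cons (P.lf 6496701 0 0) (P.cons (P.lf 0 6406023 0) (P.cons (P.lf 0 200448 0) (P.cons (P.lf 36729 0 0) P.nil)))) (P.cons (P.cons (P.lf 0 768249 0) (P.cons (P.lf 757527 0 0) (P.cons (P.lf 23703 0 0) P.nil))) (P.cons (P.cons (P.lf 0 29211 0) (P.cons (P.lf 28803 0 0) P.nil)) (P.cons (P.cons (P.lf 5733 0 0) P.nil) P.nil)))))) 13893)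
 EL.nil))))
noncomputable def S285_314_734_808_8 : EL := (EL.cons 12 (TM.mk (P.cons (P.cons (P.lf 3457977112 0 0) (P.cons (P.lf 221032328 0 0) (P.cons (P.lf 0 100808714 0) (P.cons (P.lf 0 8303314 0) (P.cons (P.lf 628296 0 0) (P.cons (P.lf 74960 0 0) P.nil)))))) (P.cons (P.cons (P.lf 0 555803714 0) (P.cons (P.lf 0 49714796 0) (P.cons (P.lf 22447260 0 0) (P.cons (P.lf 2081642 0 0) (P.cons (P.lf 0 181646 0) P.nil))))) (P.cons (P.cons (P.lf 0 259721566 0) (P.cons (P.lf 0 9490274 0) (P.cons (P.lf 4456518 0 0) (P.cons (P.lf 235480 0 0) P.nil)))) (P.cons (P.cons (P.lf 30036052 0 0) (P.cons (P.lf 2430240 0 0) (P.cons (P.lf 0 1112482 0) P.nil))) (P.cons (P.cons (P.lf 8749668 0 0) (P.cons (P.lf 164078 0 0) P.nil)) (P.cons (P.cons (P.lf 0 752796 0) P.nil) P.nil)))))) 702276)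
 (EL.cons 3 (TM.mk (P.cons (P.cons (P.lf 0 1241823784 0) (P.cons (P.lf 0 124649110 0) (P.cons (P.lf 56126676 0 0) (P.cons (P.lf 5365591 0 0) (P.cons (P.lf 0 483011 0) (P.cons (P.lf 0 57626 0) P.nil)))))) (P.cons (P.cons (P.lf 0 1533783564 0) (P.cons (P.lf 0 53709513 0) (P.cons (P.lf 25297160 0 0) (P.cons (P.lf 1261171 0 0) (P.cons (P.lf 0 10140 0) P.nil))))) (P.cons (P.cons (P.lf 263955429 0 0) (P.cons (P.lf 21229754 0 0) (P.cons (P.lf 0 9730186 0) (P.cons (P.lf 0 752476 0) P.nil)))) (P.cons (P.cons (P.lf 104074181 0 0) (P.cons (P.lf 1739335 0 0) (P.cons (P.lf 0 848309 0) P.nil))) (P.cons (P.cons (P.lf 0 12659846 0) (P.cons (P.lf 0 922153 0) P.nil)) (P.cons (P.cons (P.lf 0 2853085 0) P.nil) P.nil)))))) 2025560)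
 (EL.cons 7 (TM.mk (P.cons (P.cons (P.lf 0 1221118520 0) (P.cons (P.lf 0 88694405 0) (P.cons (P.lf 40281818 0 0) (P.cons (P.lf 3492443 0 0) (P.cons (P.lf 0 282360 0) (P.cons (P.lf 0 33688 0) P.nil)))))) (P.cons (P.cons (P.lf 0 360509265 0) (P.cons (P.lf 0 12624188 0) (P.cons (P.lf 5945981 0 0) (P.cons (P.lf 296427 0 0) (P.cons (P.lf 0 2383 0) P.nil))))) (P.cons (P.cons (P.lf 0 2542819 0) (P.cons (P.lf 2728366 0 0) (P.cons (P.lf 0 1221829 0) (P.cons (P.lf 0 123759 0) P.nil)))) (P.cons (P.cons (P.lf 37706946 0 0) (P.cons (P.lf 1545595 0 0) (P.cons (P.lf 0 719710 0) P.nil))) (P.cons (P.cons (P.lf 3840540 0 0) (P.cons (P.lf 0 79932 0) P.nil)) (P.cons (P.cons (P.lf 0 1293286 0) P.nil) P.nil)))))) 1128195)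
 (EL.cons 10 (TM.mk (P.cons (P.cons (P.lf 716753082 0 0) (P.cons (P.lf 0 683841498 0) (P.cons (P.lf 0 55516008 0) (P.cons (P.lf 13493430 0 0) (P.cons (P.lf 1115634 0 0) (P.cons (P.lf 0 40620 0) P.nil)))))) (P.cons (P.cons (P.lf 0 126675918 0) (P.cons (P.lf 119388840 0 0) (P.cons (P.lf 11955684 0 0) (P.cons (P.lf 0 2990784 0) (P.cons (P.lf 0 259488 0) P.nil))))) (P.cons (P.cons (P.lf 0 31924416 0) (P.cons (P.lf 31219026 0 0) (P.cons (P.lf 1363806 0 0) (P.cons (P.lf 0 287562 0) P.nil)))) (P.cons (P.cons (P.lf 5218116 0 0) (P.cons (P.lf 0 4978584 0) (P.cons (P.lf 0 404064 0) P.nil))) (P.cons (P.cons (P.lf 593430 0 0) (P.cons (P.lf 0 590136 0) P.nil)) (P.cons (P.cons (P.lf 0 111624 0) P.nil) P.nil)))))) 429366)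
 EL.nil))))
noncomputable def S285_314_734_808_9 : EL := (EL.cons 3 (TM.mk (P.cons (P.lf 1320724353 0 0) (P.cons (P.lf 409570215 0 0) (P.cons (P.lf 0 14623338 0) (P.cons (P.lf 0 1245645 0) (P.cons (P.lf 85526 0 0) (P.cons (P.lf 2831 0 0) P.nil)))))) 532)
 (EL.cons 7 (TM.mk (P.cons (P.lf 0 1997870342 0) (P.cons (P.lf 96267727 0 0) (P.cons (P.lf 13808992 0 0) (P.cons (P.lf 0 693290 0) (P.cons (P.lf 0 37347 0) (P.cons (P.lf 3551 0 0) P.nil)))))) 296)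
 EL.nil))
noncomputable def S285_314_734_808_10 : EL := (EL.cons 3 (TM.mk (P.cons (P.cons (P.lf 0 837969698 0) (P.cons (P.lf 0 26781321 0) (P.cons (P.lf 12642421 0 0) (P.lf 602019 0 0)))) (P.cons (P.cons (P.lf 0 192519223 0) (P.cons (P.lf 0 4433775 0) (P.cons (P.lf 2093013 0 0) (P.lf 99666 0 0)))) (P.cons (P.cons (P.lf 64337333 0 0) (P.cons (P.lf 1865866 0 0) (P.cons (P.lf 0 880802 0) (P.lf 0 41941 0)))) (P.cons (P.cons (P.lf 9749944 0 0) (P.cons (P.lf 18356 0 0) (P.cons (P.lf 0 8664 0) P.nil))) (P.cons (P.cons (P.lf 0 1208057 0) (P.cons (P.lf 0 35144 0) P.nil)) (P.cons (P.cons (P.lf 0 134844 0) P.nil) P.nil)))))) 54790)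
 (EL.cons 7 (TM.mk (P.cons (P.cons (P.lf 1267603497 0 0) (P.cons (P.lf 40512320 0 0) (P.cons (P.lf 0 19124294 0) (P.lf 0 910680 0)))) (P.cons (P.cons (P.lf 0 162951207 0) (P.cons (P.lf 0 7808371 0) (P.cons (P.lf 3686028 0 0) (P.lf 175524 0 0)))) (P.cons (P.cons (P.lf 0 55549820 0) (P.cons (P.lf 0 555689 0) (P.cons (P.lf 262318 0 0) (P.lf 12490 0 0)))) (P.cons (P.cons (P.lf 4985587 0 0) (P.cons (P.lf 200013 0 0) (P.cons (P.lf 0 94419 0) P.nil))) (P.cons (P.cons (P.lf 938640 0 0) (P.cons (P.lf 0 1072 0) P.nil)) (P.cons (P.cons (P.lf 0 93153 0) P.nil) P.nil)))))) 37852)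
 EL.nil))
noncomputable def S285_314_734_808_11 : EL := (EL.cons 3 (TM.mk (P.cons (P.cons (P.lf 531672800 0 0) (P.cons (P.lf 33984284 0 0) (P.cons (P.lf 0 15499596 0) (P.cons (P.lf 0 1276655 0) (P.cons (P.lf 96601 0 0) (P.cons (P.lf 11524 0 0) P.nil)))))) (P.cons (P.cons (P.lf 79420968 0 0) (P.cons (P.lf 2895099 0 0) (P.cons (P.lf 0 1355260 0) (P.cons (P.lf 0 75845 0) (P.cons (P.lf 2028 0 0) P.nil))))) (P.cons (P.cons (P.lf 0 72320505 0) (P.cons (P.lf 0 4205848 0) (P.cons (P.lf 1927106 0 0) (P.cons (P.lf 149594 0 0) P.nil)))) (P.cons (P.cons (P.lf 0 7320727 0) (P.cons (P.lf 0 26261 0) (P.cons (P.lf 17845 0 0) P.nil))) (P.cons (P.cons (P.lf 3334582 0 0) (P.cons (P.lf 166667 0 0) P.nil)) (P.cons (P.cons (P.lf 283577 0 0) P.nil) P.nil)))))) 317476)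
 (EL.cons 7 (TM.mk (P.cons (P.cons (P.lf 0 804265718 0) (P.cons (P.lf 0 51408299 0) (P.cons (P.lf 23446364 0 0) (P.cons (P.lf 1931207 0 0) (P.cons (P.lf 0 146130 0) (P.cons (P.lf 0 17434 0) P.nil)))))) (P.cons (P.cons (P.lf 168024021 0 0) (P.cons (P.lf 14039920 0 0) (P.cons (P.lf 0 6350611 0) (P.cons (P.lf 0 577209 0) (P.cons (P.lf 49289 0 0) P.nil))))) (P.cons (P.cons (P.lf 59736803 0 0) (P.cons (P.lf 2005444 0 0) (P.cons (P.lf 0 946999 0) (P.cons (P.lf 0 44787 0) P.nil)))) (P.cons (P.cons (P.lf 0 11069166 0) (P.cons (P.lf 0 769349 0) (P.cons (P.lf 352910 0 0) P.nil))) (P.cons (P.cons (P.lf 0 2086104 0) (P.cons (P.lf 0 23130 0) P.nil)) (P.cons (P.cons (P.lf 346238 0 0) P.nil) P.nil)))))) 244451)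
 EL.nil))
noncomputable def S285_314_734_808_12 : EL := (EL.cons 4 (TM.mk (P.cons (P.lf 0 1320724353 0) (P.cons (P.lf 0 409570215 0) (P.cons (P.lf 14623338 0 0) (P.cons (P.lf 1245645 0 0) (P.cons (P.lf 0 85526 0) (P.cons (P.lf 0 2831 0) P.nil)))))) 532)
 (EL.cons 8 (TM.mk (P.cons (P.lf 1997870342 0 0) (P.cons (P.lf 0 96267727 0) (P.cons (P.lf 0 13808992 0) (P.cons (P.lf 693290 0 0) (P.cons (P.lf 37347 0 0) (P.cons (P.lf 0 3551 0) P.nil)))))) 296)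
 EL.nil))
noncomputable def S285_314_734_808_13 : EL := (EL.cons 4 (TM.mk (P.cons (P.cons (P.lf 837969698 0 0) (P.cons (P.lf 26781321 0 0) (P.cons (P.lf 0 12642421 0) (P.lf 0 602019 0)))) (P.cons (P.cons (P.lf 192519223 0 0) (P.cons (P.lf 4433775 0 0) (P.cons (P.lf 0 2093013 0) (P.lf 0 99666 0)))) (P.cons (P.cons (P.lf 0 64337333 0) (P.cons (P.lf 0 1865866 0) (P.cons (P.lf 880802 0 0) (P.lf 41941 0 0)))) (P.cons (P.cons (P.lf 0 9749944 0) (P.cons (P.lf 0 18356 0) (P.cons (P.lf 8664 0 0) P.nil))) (P.cons (P.cons (P.lf 1208057 0 0) (P.cons (P.lf 35144 0 0) P.nil)) (P.cons (P.cons (P.lf 134844 0 0) P.nil) P.nil)))))) 54790)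
 (EL.cons 8 (TM.mk (P.cons (P.cons (P.lf 0 1267603497 0) (P.cons (P.lf 0 40512320 0) (P.cons (P.lf 19124294 0 0) (P.lf 910680 0 0)))) (P.cons (P.cons (P.lf 162951207 0 0) (P.cons (P.lf 7808371 0 0) (P.cons (P.lf 0 3686028 0) (P.lf 0 175524 0)))) (P.cons (P.cons (P.lf 55549820 0 0) (P.cons (P.lf 555689 0 0) (P.cons (P.lf 0 262318 0) (P.lf 0 12490 0)))) (P.cons (P.cons (P.lf 0 4985587 0) (P.cons (P.lf 0 200013 0) (P.cons (P.lf 94419 0 0) P.nil))) (P.cons (P.cons (P.lf 0 938640 0) (P.cons (P.lf 1072 0 0) P.nil)) (P.cons (P.cons (P.lf 93153 0 0) P.nil) P.nil)))))) 37852)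
 EL.nil))
noncomputable def S285_314_734_808_14 : EL := (EL.cons 4 (TM.mk (P.cons (P.cons (P.lf 0 531672800 0) (P.cons (P.lf 0 33984284 0) (P.cons (P.lf 15499596 0 0) (P.cons (P.lf 1276655 0 0) (P.cons (P.lf 0 96601 0) (P.cons (P.lf 0 11524 0) P.nil)))))) (P.cons (P.cons (P.lf 0 79420968 0) (P.cons (P.lf 0 2895099 0) (P.cons (P.lf 1355260 0 0) (P.cons (P.lf 75845 0 0) (P.cons (P.lf 0 2028 0) P.nil))))) (P.cons (P.cons (P.lf 72320505 0 0) (P.cons (P.lf 4205848 0 0) (P.cons (P.lf 0 1927106 0) (P.cons (P.lf 0 149594 0) P.nil)))) (P.cons (P.cons (P.lf 7320727 0 0) (P.cons (P.lf 26261 0 0) (P.cons (P.lf 0 17845 0) P.nil))) (P.cons (P.cons (P.lf 0 3334582 0) (P.cons (P.lf 0 166667 0) P.nil)) (P.cons (P.cons (P.lf 0 283577 0) P.nil) P.nil)))))) 317476)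
 (EL.cons 8 (TM.mk (P.cons (P.cons (P.lf 804265718 0 0) (P.cons (P.lf 51408299 0 0) (P.cons (P.lf 0 23446364 0) (P.cons (P.lf 0 1931207 0) (P.cons (P.lf 146130 0 0) (P.cons (P.lf 17434 0 0) P.nil)))))) (P.cons (P.cons (P.lf 0 168024021 0) (P.cons (P.lf 0 14039920 0) (P.cons (P.lf 6350611 0 0) (P.cons (P.lf 577209 0 0) (P.cons (P.lf 0 49289 0) P.nil))))) (P.cons (P.cons (P.lf 0 59736803 0) (P.cons (P.lf 0 2005444 0) (P.cons (P.lf 946999 0 0) (P.cons (P.lf 44787 0 0) P.nil)))) (P.cons (P.cons (P.lf 11069166 0 0) (P.cons (P.lf 769349 0 0) (P.cons (P.lf 0 352910 0) P.nil))) (P.cons (P.cons (P.lf 2086104 0 0) (P.cons (P.lf 23130 0 0) P.nil)) (P.cons (P.cons (P.lf 0 346238 0) P.nil) P.nil)))))) 244451)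
 EL.nil))
noncomputable def S285_314_734_808_15 : EL := (EL.cons 4 (TM.mk (P.cons (P.lf 0 433204774 0) (P.cons (P.lf 0 268682518 0) (P.cons (P.lf 0 32067537 0) (P.cons (P.lf 3792065 0 0) (P.cons (P.lf 144194 0 0) (P.cons (P.lf 0 28304 0) P.nil)))))) 2128)
 (EL.cons 8 (TM.mk (P.cons (P.lf 655312343 0 0) (P.cons (P.lf 171642763 0 0) (P.cons (P.lf 0 21577328 0) (P.cons (P.lf 0 1445658 0) (P.cons (P.lf 205138 0 0) (P.cons (P.lf 3748 0 0) P.nil)))))) 1533)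
 EL.nil))
noncomputable def S285_314_734_808_16 : EL := (EL.cons 4 (TM.mk (P.cons (P.cons (P.lf 274858620 0 0) (P.cons (P.lf 8784419 0 0) (P.cons (P.lf 0 4146782 0) (P.lf 0 197465 0)))) (P.cons (P.cons (P.lf 148383839 0 0) (P.cons (P.lf 4178441 0 0) (P.cons (P.lf 0 1972480 0) (P.lf 0 93927 0)))) (P.cons (P.cons (P.lf 0 4563644 0) (P.cons (P.lf 0 258283 0) (P.cons (P.lf 121924 0 0) (P.lf 5805 0 0)))) (P.cons (P.cons (P.lf 0 10700704 0) (P.cons (P.lf 0 220200 0) (P.cons (P.lf 103947 0 0) P.nil))) (P.cons (P.cons (P.lf 0 403594 0) (P.cons (P.lf 15633 0 0) P.nil)) (P.cons (P.cons (P.lf 227101 0 0) P.nil) P.nil)))))) 64683)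
 (EL.cons 8 (TM.mk (P.cons (P.cons (P.lf 0 415780844 0) (P.cons (P.lf 0 13288261 0) (P.cons (P.lf 6272872 0 0) (P.lf 298707 0 0)))) (P.cons (P.cons (P.lf 0 75489036 0) (P.cons (P.lf 0 1559638 0) (P.cons (P.lf 736244 0 0) (P.lf 35058 0 0)))) (P.cons (P.cons (P.lf 39399304 0 0) (P.cons (P.lf 1123650 0 0) (P.cons (P.lf 0 530431 0) (P.lf 0 25258 0)))) (P.cons (P.cons (P.lf 3815456 0 0) (P.cons (P.lf 0 24907 0) (P.cons (P.lf 11758 0 0) P.nil))) (P.cons (P.cons (P.lf 0 1094080 0) (P.cons (P.lf 0 25287 0) P.nil)) (P.cons (P.cons (P.lf 0 61430 0) P.nil) P.nil)))))) 46459)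
 EL.nil))
noncomputable def S285_314_734_808_17 : EL := (EL.cons 4 (TM.mk (P.cons (P.cons (P.lf 0 174391571 0) (P.cons (P.lf 0 11147029 0) (P.cons (P.lf 5083951 0 0) (P.cons (P.lf 418749 0 0) (P.cons (P.lf 0 31685 0) (P.cons (P.lf 0 3780 0) P.nil)))))) (P.cons (P.cons (P.lf 0 80131130 0) (P.cons (P.lf 0 4406416 0) (P.cons (P.lf 2021118 0 0) (P.cons (P.lf 154736 0 0) (P.cons (P.lf 0 10491 0) P.nil))))) (P.cons (P.cons (P.lf 17573888 0 0) (P.cons (P.lf 1208479 0 0) (P.cons (P.lf 0 550537 0) (P.cons (P.lf 0 45989 0) P.nil)))) (P.cons (P.cons (P.lf 10210440 0 0) (P.cons (P.lf 457451 0 0) (P.cons (P.lf 0 211590 0) P.nil))) (P.cons (P.cons (P.lf 0 598485 0) (P.cons (P.lf 0 67096 0) P.nil)) (P.cons (P.cons (P.lf 0 483222 0) P.nil) P.nil)))))) 271176)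
 (EL.cons 8 (TM.mk (P.cons (P.cons (P.lf 263803531 0 0) (P.cons (P.lf 16862201 0 0) (P.cons (P.lf 0 7690535 0) (P.cons (P.lf 0 633446 0) (P.cons (P.lf 47931 0 0) (P.cons (P.lf 5718 0 0) P.nil)))))) (P.cons (P.cons (P.lf 26695396 0 0) (P.cons (P.lf 623972 0 0) (P.cons (P.lf 0 301878 0) (P.cons (P.lf 0 7110 0) (P.cons (P.lf 0 1302 0) P.nil))))) (P.cons (P.cons (P.lf 0 39605928 0) (P.cons (P.lf 0 2272609 0) (P.cons (P.lf 1041742 0 0) (P.cons (P.lf 80416 0 0) P.nil)))) (P.cons (P.cons (P.lf 0 2084139 0) (P.cons (P.lf 83447 0 0) (P.cons (P.lf 0 35240 0) P.nil))) (P.cons (P.cons (P.lf 2096197 0 0) (P.cons (P.lf 98562 0 0) P.nil)) (P.cons (P.cons (P.lf 73902 0 0) P.nil) P.nil)))))) 207024)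
 EL.nil))
noncomputable def S285_314_734_808_18 : EL := (EL.cons 4 (TM.mk (P.cons (P.lf 0 142093522 0) (P.cons (P.lf 0 132193991 0) (P.cons (P.lf 0 36274848 0) (P.cons (P.lf 0 908220 0) (P.cons (P.lf 623396 0 0) (P.cons (P.lf 0 4479 0) P.nil)))))) 6741)
 (EL.cons 8 (TM.mk (P.cons (P.lf 214946014 0 0) (P.cons (P.lf 122956731 0 0) (P.cons (P.lf 8001726 0 0) (P.cons (P.lf 0 3495072 0) (P.cons (P.lf 0 40579 0) (P.cons (P.lf 38127 0 0) P.nil)))))) 3726)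
 EL.nil))
noncomputable def S285_314_734_808_19 : EL := (EL.cons 4 (TM.mk (P.cons (P.cons (P.lf 90155122 0 0) (P.cons (P.lf 2881336 0 0) (P.cons (P.lf 0 1360167 0) (P.lf 0 64769 0)))) (P.cons (P.cons (P.lf 76628737 0 0) (P.cons (P.lf 2264083 0 0) (P.cons (P.lf 0 1068785 0) (P.lf 0 50894 0)))) (P.cons (P.cons (P.lf 12598170 0 0) (P.cons (P.lf 308400 0 0) (P.cons (P.lf 0 145583 0) (P.lf 0 6931 0)))) (P.cons (P.cons (P.lf 0 4598016 0) (P.cons (P.lf 0 116391 0) (P.cons (P.lf 54943 0 0) P.nil))) (P.cons (P.cons (P.lf 0 1244325 0) (P.cons (P.lf 0 17437 0) P.nil)) (P.cons (P.cons (P.lf 77055 0 0) P.nil) P.nil)))))) 67419)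
 (EL.cons 8 (TM.mk (P.cons (P.cons (P.lf 0 136378379 0) (P.cons (P.lf 0 4358622 0) (P.cons (P.lf 2057536 0 0) (P.lf 97977 0 0)))) (P.cons (P.cons (P.lf 0 67053153 0) (P.cons (P.lf 0 1863223 0) (P.cons (P.lf 879555 0 0) (P.lf 41883 0 0)))) (P.cons (P.cons (P.lf 6754613 0 0) (P.cons (P.lf 258179 0 0) (P.cons (P.lf 0 121876 0) (P.lf 0 5803 0)))) (P.cons (P.cons (P.lf 5661885 0 0) (P.cons (P.lf 115900 0 0) (P.cons (P.lf 0 54711 0) P.nil))) (P.cons (P.cons (P.lf 0 99331 0) (P.cons (P.lf 0 14708 0) P.nil)) (P.cons (P.cons (P.lf 0 159378 0) P.nil) P.nil)))))) 49313)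
 EL.nil))
noncomputable def S285_314_734_808_20 : EL := (EL.cons 4 (TM.mk (P.cons (P.cons (P.lf 0 57201383 0) (P.cons (P.lf 0 3656285 0) (P.cons (P.lf 1667563 0 0) (P.cons (P.lf 137352 0 0) (P.cons (P.lf 0 10393 0) (P.cons (P.lf 0 1239 0) P.nil)))))) (P.cons (P.cons (P.lf 0 44022184 0) (P.cons (P.lf 0 2579180 0) (P.cons (P.lf 1180065 0 0) (P.cons (P.lf 93348 0 0) (P.cons (P.lf 0 6663 0) P.nil))))) (P.cons (P.cons (P.lf 0 1753090 0) (P.cons (P.lf 0 11340 0) (P.cons (P.lf 6540 0 0) (P.cons (P.lf 0 865 0) P.nil)))) (P.cons (P.cons (P.lf 5481623 0 0) (P.cons (P.lf 292421 0 0) (P.cons (P.lf 0 134315 0) P.nil))) (P.cons (P.cons (P.lf 799538 0 0) (P.cons (P.lf 21259 0 0) P.nil)) (P.cons (P.cons (P.lf 0 263718 0) P.nil) P.nil)))))) 202889)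
 (EL.cons 8 (TM.mk (P.cons (P.cons (P.lf 86528993 0 0) (P.cons (P.lf 5530893 0 0) (P.cons (P.lf 0 2522537 0) (P.cons (P.lf 0 207773 0) (P.cons (P.lf 15721 0 0) (P.cons (P.lf 1875 0 0) P.nil)))))) (P.cons (P.cons (P.lf 35589766 0 0) (P.cons (P.lf 1919853 0 0) (P.cons (P.lf 0 881282 0) (P.cons (P.lf 0 66764 0) (P.cons (P.lf 4448 0 0) P.nil))))) (P.cons (P.cons (P.lf 0 11233628 0) (P.cons (P.lf 0 743198 0) (P.cons (P.lf 338920 0 0) (P.cons (P.lf 27954 0 0) P.nil)))) (P.cons (P.cons (P.lf 0 4890800 0) (P.cons (P.lf 0 211276 0) (P.cons (P.lf 97880 0 0) P.nil))) (P.cons (P.cons (P.lf 616753 0 0) (P.cons (P.lf 49235 0 0) P.nil)) (P.cons (P.cons (P.lf 258034 0 0) P.nil) P.nil)))))) 174031)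
 EL.nil))
noncomputable def S285_314_734_808_21 : EL := (EL.cons 4 (TM.mk (P.cons (P.cons (P.lf 0 1397604315 0) (P.cons (P.lf 0 80343963 0) (P.cons (P.lf 37927263 0 0) (P.lf 1806057 0 0)))) (P.cons (P.cons (P.lf 0 1383605220 0) (P.cons (P.lf 0 13301325 0) (P.cons (P.lf 6279039 0 0) (P.lf 298998 0 0)))) (P.cons (P.cons (P.lf 96809388 0 0) (P.cons (P.lf 5597598 0 0) (P.cons (P.lf 0 2642406 0) (P.lf 0 125823 0)))) (P.cons (P.cons (P.lf 40626024 0 0) (P.cons (P.lf 55068 0 0) (P.cons (P.lf 0 25992 0) P.nil))) (P.cons (P.cons (P.lf 0 3191592 0) (P.cons (P.lf 0 105432 0) P.nil)) (P.cons (P.cons (P.lf 0 489444 0) P.nil) P.nil)))))) 171045)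
 (EL.cons 8 (TM.mk (P.cons (P.cons (P.lf 0 328500930 0) (P.cons (P.lf 0 18884508 0) (P.cons (P.lf 8914647 0 0) (P.lf 424509 0 0)))) (P.cons (P.cons (P.lf 0 442910877 0) (P.cons (P.lf 0 9892650 0) (P.cons (P.lf 4669932 0 0) (P.lf 222375 0 0)))) (P.cons (P.cons (P.lf 0 98071542 0) (P.cons (P.lf 0 51954 0) (P.cons (P.lf 24522 0 0) (P.lf 1164 0 0)))) (P.cons (P.cons (P.lf 12843105 0 0) (P.cons (P.lf 409050 0 0) (P.cons (P.lf 0 193098 0) P.nil))) (P.cons (P.cons (P.lf 2345388 0 0) (P.cons (P.lf 0 10476 0) P.nil)) (P.cons (P.cons (P.lf 0 253119 0) P.nil) P.nil)))))) 129054)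
 (EL.cons 11 (TM.mk (P.cons (P.cons (P.lf 564837402 0 0) (P.cons (P.lf 0 556953498 0) (P.cons (P.lf 0 17427612 0) (P.cons (P.lf 3193539 0 0) (P.lf 114054 0 0))))) (P.cons (P.cons (P.lf 0 54433575 0) (P.cons (P.lf 53673798 0 0) (P.cons (P.lf 1679505 0 0) (P.cons (P.lf 0 307761 0) (P.lf 0 10989 0))))) (P.cons (P.cons (P.lf 0 6496701 0) (P.cons (P.lf 6406023 0 0) (P.cons (P.lf 200448 0 0) (P.cons (P.lf 0 36729 0) P.nil)))) (P.cons (P.cons (P.lf 768249 0 0) (P.cons (P.lf 0 757527 0) (P.cons (P.lf 0 23703 0) P.nil))) (P.cons (P.cons (P.lf 29211 0 0) (P.cons (P.lf 0 28803 0) P.nil)) (P.cons (P.cons (P.lf 0 5733 0) P.nil) P.nil)))))) 13893)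
 EL.nil)))
noncomputable def S285_314_734_808_22 : EL := (EL.cons 4 (TM.mk (P.cons (P.cons (P.lf 886748292 0 0) (P.cons (P.lf 79316697 0 0) (P.cons (P.lf 0 35813136 0) (P.cons (P.lf 0 3321123 0) (P.cons (P.lf 289806 0 0) (P.cons (P.lf 34575 0 0) P.nil)))))) (P.cons (P.cons (P.lf 806602266 0 0) (P.cons (P.lf 28302306 0 0) (P.cons (P.lf 0 13326210 0) (P.cons (P.lf 0 668508 0) (P.cons (P.lf 6084 0 0) P.nil))))) (P.cons (P.cons (P.lf 0 168137967 0) (P.cons (P.lf 0 12717801 0) (P.cons (P.lf 5828646 0 0) (P.cons (P.lf 451035 0 0) P.nil)))) (P.cons (P.cons (P.lf 0 55697454 0) (P.cons (P.lf 0 882798 0) (P.cons (P.lf 433077 0 0) P.nil))) (P.cons (P.cons (P.lf 7997214 0 0) (P.cons (P.lf 544410 0 0) P.nil)) (P.cons (P.cons (P.lf 1568331 0 0) P.nil) P.nil)))))) 854031)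
 (EL.cons 8 (TM.mk (P.cons (P.cons (P.lf 208426401 0 0) (P.cons (P.lf 18643053 0 0) (P.cons (P.lf 0 8417727 0) (P.cons (P.lf 0 780618 0) (P.cons (P.lf 68115 0 0) (P.cons (P.lf 8127 0 0) P.nil)))))) (P.cons (P.cons (P.lf 264266643 0 0) (P.cons (P.lf 13332054 0 0) (P.cons (P.lf 0 6148296 0) (P.cons (P.lf 0 436818 0) (P.cons (P.lf 25836 0 0) P.nil))))) (P.cons (P.cons (P.lf 31139811 0 0) (P.cons (P.lf 0 361461 0) (P.cons (P.lf 137415 0 0) (P.cons (P.lf 39486 0 0) P.nil)))) (P.cons (P.cons (P.lf 0 24388056 0) (P.cons (P.lf 0 1157472 0) (P.cons (P.lf 536310 0 0) P.nil))) (P.cons (P.cons (P.lf 0 2963322 0) (P.cons (P.lf 28401 0 0) P.nil)) (P.cons (P.cons (P.lf 819762 0 0) P.nil) P.nil)))))) 441861)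
 (EL.cons 11 (TM.mk (P.cons (P.cons (P.lf 0 358376541 0) (P.cons (P.lf 341920749 0 0) (P.cons (P.lf 27758004 0 0) (P.cons (P.lf 0 6746715 0) (P.cons (P.lf 0 557817 0) (P.cons (P.lf 20310 0 0) P.nil)))))) (P.cons (P.cons (P.lf 63337959 0 0) (P.cons (P.lf 0 59694420 0) (P.cons (P.lf 0 5977842 0) (P.cons (P.lf 1495392 0 0) (P.cons (P.lf 129744 0 0) P.nil))))) (P.cons (P.cons (P.lf 15962208 0 0) (P.cons (P.lf 0 15609513 0) (P.cons (P.lf 0 681903 0) (P.cons (P.lf 143781 0 0) P.nil)))) (P.cons (P.cons (P.lf 0 2609058 0) (P.cons (P.lf 2489292 0 0) (P.cons (P.lf 202032 0 0) P.nil))) (P.cons (P.cons (P.lf 0 296715 0) (P.cons (P.lf 295068 0 0) P.nil)) (P.cons (P.cons (P.lf 55812 0 0) P.nil) P.nil)))))) 214683)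
 EL.nil)))
noncomputable def S285_314_734_808_23 : EL := (EL.cons 4 (TM.mk (P.cons (P.cons (P.lf 0 458421819 0) (P.cons (P.lf 0 26353257 0) (P.cons (P.lf 12440346 0 0) (P.lf 592395 0 0)))) (P.cons (P.cons (P.lf 0 595991364 0) (P.cons (P.lf 0 12535323 0) (P.cons (P.lf 5917437 0 0) (P.lf 281781 0 0)))) (P.cons (P.cons (P.lf 0 103907616 0) (P.cons (P.lf 774849 0 0) (P.cons (P.lf 0 365775 0) (P.lf 0 17415 0)))) (P.cons (P.cons (P.lf 28630062 0 0) (P.cons (P.lf 660600 0 0) (P.cons (P.lf 0 311841 0) P.nil))) (P.cons (P.cons (P.lf 3132288 0 0) (P.cons (P.lf 0 46899 0) P.nil)) (P.cons (P.cons (P.lf 0 693045 0) P.nil) P.nil)))))) 200340)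
 (EL.cons 8 (TM.mk (P.cons (P.cons (P.lf 0 107750091 0) (P.cons (P.lf 0 6194220 0) (P.cons (P.lf 2924052 0 0) (P.lf 139239 0 0)))) (P.cons (P.cons (P.lf 0 178691589 0) (P.cons (P.lf 0 5165733 0) (P.cons (P.lf 2438541 0 0) (P.lf 116118 0 0)))) (P.cons (P.cons (P.lf 0 76026915 0) (P.cons (P.lf 0 954714 0) (P.cons (P.lf 450681 0 0) (P.lf 21459 0 0)))) (P.cons (P.cons (P.lf 0 4052853 0) (P.cons (P.lf 170655 0 0) (P.cons (P.lf 0 80559 0) P.nil))) (P.cons (P.cons (P.lf 2561883 0 0) (P.cons (P.lf 41019 0 0) P.nil)) (P.cons (P.cons (P.lf 129600 0 0) P.nil) P.nil)))))) 125277)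
 (EL.cons 11 (TM.mk (P.cons (P.cons (P.lf 185269740 0 0) (P.cons (P.lf 0 182683776 0) (P.cons (P.lf 0 5716350 0) (P.cons (P.lf 1047498 0 0) (P.lf 37410 0 0))))) (P.cons (P.cons (P.lf 39599544 0 0) (P.cons (P.lf 0 39046821 0) (P.cons (P.lf 0 1221810 0) (P.cons (P.lf 223890 0 0) (P.lf 7995 0 0))))) (P.cons (P.cons (P.lf 0 9719163 0) (P.cons (P.lf 9583506 0 0) (P.cons (P.lf 299874 0 0) (P.cons (P.lf 0 54948 0) P.nil)))) (P.cons (P.cons (P.lf 0 385887 0) (P.cons (P.lf 380502 0 0) (P.cons (P.lf 11904 0 0) P.nil))) (P.cons (P.cons (P.lf 140157 0 0) (P.cons (P.lf 0 138201 0) P.nil)) (P.cons (P.cons (P.lf 0 447 0) P.nil) P.nil)))))) 29157)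
 EL.nil)))
noncomputable def S285_314_734_808_24 : EL := (EL.cons 4 (TM.mk (P.cons (P.cons (P.lf 290858265 0 0) (P.cons (P.lf 26016309 0 0) (P.cons (P.lf 0 11746902 0) (P.cons (P.lf 0 1089345 0) (P.cons (P.lf 95058 0 0) (P.cons (P.lf 11340 0 0) P.nil)))))) (P.cons (P.cons (P.lf 354768072 0 0) (P.cons (P.lf 17351235 0 0) (P.cons (P.lf 0 8013903 0) (P.cons (P.lf 0 557091 0) (P.cons (P.lf 31473 0 0) P.nil))))) (P.cons (P.cons (P.lf 23675244 0 0) (P.cons (P.lf 0 1580715 0) (P.cons (P.lf 686376 0 0) (P.cons (P.lf 92004 0 0) P.nil)))) (P.cons (P.cons (P.lf 0 38575401 0) (P.cons (P.lf 0 1710513 0) (P.cons (P.lf 794403 0 0) P.nil))) (P.cons (P.cons (P.lf 0 2662356 0) (P.cons (P.lf 127890 0 0) P.nil)) (P.cons (P.cons (P.lf 1599930 0 0) P.nil) P.nil)))))) 695844)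
 (EL.cons 8 (TM.mk (P.cons (P.cons (P.lf 68364993 0 0) (P.cons (P.lf 6115020 0 0) (P.cons (P.lf 0 2761059 0) (P.cons (P.lf 0 256047 0) (P.cons (P.lf 22341 0 0) (P.cons (P.lf 2664 0 0) P.nil)))))) (P.cons (P.cons (P.lf 107881584 0 0) (P.cons (P.lf 6269316 0 0) (P.cons (P.lf 0 2872908 0) (P.cons (P.lf 0 222681 0) (P.cons (P.lf 15402 0 0) P.nil))))) (P.cons (P.cons (P.lf 36337713 0 0) (P.cons (P.lf 1169838 0 0) (P.cons (P.lf 0 549747 0) (P.cons (P.lf 0 28644 0) P.nil)))) (P.cons (P.cons (P.lf 0 5856165 0) (P.cons (P.lf 0 470610 0) (P.cons (P.lf 214821 0 0) P.nil))) (P.cons (P.cons (P.lf 0 3643104 0) (P.cons (P.lf 0 110835 0) P.nil)) (P.cons (P.cons (P.lf 52161 0 0) P.nil) P.nil)))))) 329535)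
 (EL.cons 11 (TM.mk (P.cons (P.cons (P.lf 0 117549456 0) (P.cons (P.lf 112151865 0 0) (P.cons (P.lf 9104775 0 0) (P.cons (P.lf 0 2212959 0) (P.cons (P.lf 0 182967 0) (P.cons (P.lf 6660 0 0) P.nil)))))) (P.cons (P.cons (P.lf 0 15678099 0) (P.cons (P.lf 15199353 0 0) (P.cons (P.lf 862719 0 0) (P.cons (P.lf 0 195762 0) (P.cons (P.lf 0 14181 0) P.nil))))) (P.cons (P.cons (P.lf 12979824 0 0) (P.cons (P.lf 0 12433761 0) (P.cons (P.lf 0 932529 0) (P.cons (P.lf 223770 0 0) P.nil)))) (P.cons (P.cons (P.lf 648693 0 0) (P.cons (P.lf 0 660246 0) (P.cons (P.lf 10029 0 0) P.nil))) (P.cons (P.cons (P.lf 0 447888 0) (P.cons (P.lf 432408 0 0) P.nil)) (P.cons (P.cons (P.lf 0 6243 0) P.nil) P.nil)))))) 194349)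
 EL.nil)))
noncomputable def S285_314_734_808_25 : EL := (EL.cons 4 (TM.mk (P.cons (P.cons (P.lf 0 150364851 0) (P.cons (P.lf 0 8644011 0) (P.cons (P.lf 4080501 0 0) (P.lf 194307 0 0)))) (P.cons (P.cons (P.lf 0 242118096 0) (P.cons (P.lf 0 6792249 0) (P.cons (P.lf 3206355 0 0) (P.lf 152682 0 0)))) (P.cons (P.cons (P.lf 0 93040359 0) (P.cons (P.lf 0 925203 0) (P.cons (P.lf 436752 0 0) (P.lf 20796 0 0)))) (P.cons (P.cons (P.lf 1127862 0 0) (P.cons (P.lf 349173 0 0) (P.cons (P.lf 0 164829 0) P.nil))) (P.cons (P.cons (P.lf 4491600 0 0) (P.cons (P.lf 52314 0 0) P.nil)) (P.cons (P.cons (P.lf 6471 0 0) P.nil) P.nil)))))) 215007)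
 (EL.cons 8 (TM.mk (P.cons (P.cons (P.lf 0 35342616 0) (P.cons (P.lf 0 2031738 0) (P.cons (P.lf 959103 0 0) (P.lf 45669 0 0)))) (P.cons (P.cons (P.lf 0 69571923 0) (P.cons (P.lf 0 2324451 0) (P.cons (P.lf 1097283 0 0) (P.lf 52251 0 0)))) (P.cons (P.cons (P.lf 0 42722046 0) (P.cons (P.lf 0 816102 0) (P.cons (P.lf 385248 0 0) (P.lf 18342 0 0)))) (P.cons (P.cons (P.lf 0 8380356 0) (P.cons (P.lf 0 20457 0) (P.cons (P.lf 9657 0 0) P.nil))) (P.cons (P.cons (P.lf 757164 0 0) (P.cons (P.lf 35745 0 0) P.nil)) (P.cons (P.cons (P.lf 337464 0 0) P.nil) P.nil)))))) 111669)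
 (EL.cons 11 (TM.mk (P.cons (P.cons (P.lf 60769482 0 0) (P.cons (P.lf 0 59921271 0) (P.cons (P.lf 0 1874994 0) (P.cons (P.lf 343584 0 0) (P.lf 12270 0 0))))) (P.cons (P.cons (P.lf 31834107 0 0) (P.cons (P.lf 0 31389771 0) (P.cons (P.lf 0 982215 0) (P.cons (P.lf 179985 0 0) (P.lf 6426 0 0))))) (P.cons (P.cons (P.lf 167187 0 0) (P.cons (P.lf 0 164853 0) (P.cons (P.lf 0 5157 0) (P.cons (P.lf 945 0 0) P.nil)))) (P.cons (P.cons (P.lf 0 1316316 0) (P.cons (P.lf 1297941 0 0) (P.cons (P.lf 40611 0 0) P.nil))) (P.cons (P.cons (P.lf 33702 0 0) (P.cons (P.lf 0 33231 0) P.nil)) (P.cons (P.cons (P.lf 19488 0 0) P.nil) P.nil)))))) 43386)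
 EL.nil)))
noncomputable def S285_314_734_808_26 : EL := (EL.cons 4 (TM.mk (P.cons (P.cons (P.lf 95403093 0 0) (P.cons (P.lf 8533488 0 0) (P.cons (P.lf 0 3853047 0) (P.cons (P.lf 0 357309 0) (P.cons (P.lf 31179 0 0) (P.cons (P.lf 3717 0 0) P.nil)))))) (P.cons (P.cons (P.lf 145951338 0 0) (P.cons (P.lf 8337621 0 0) (P.cons (P.lf 0 3823473 0) (P.cons (P.lf 0 293535 0) (P.cons (P.lf 19992 0 0) P.nil))))) (P.cons (P.cons (P.lf 42795534 0 0) (P.cons (P.lf 1151961 0 0) (P.cons (P.lf 0 547359 0) (P.cons (P.lf 0 22530 0) P.nil)))) (P.cons (P.cons (P.lf 0 11623152 0) (P.cons (P.lf 0 792906 0) (P.cons (P.lf 363123 0 0) P.nil))) (P.cons (P.cons (P.lf 0 4986627 0) (P.cons (P.lf 0 131115 0) P.nil)) (P.cons (P.cons (P.lf 394488 0 0) P.nil) P.nil)))))) 510045)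
 (EL.cons 8 (TM.mk (P.cons (P.cons (P.lf 22424088 0 0) (P.cons (P.lf 2005758 0 0) (P.cons (P.lf 0 905640 0) (P.cons (P.lf 0 83982 0) (P.cons (P.lf 7326 0 0) (P.cons (P.lf 873 0 0) P.nil)))))) (P.cons (P.cons (P.lf 42339687 0 0) (P.cons (P.lf 2678376 0 0) (P.cons (P.lf 0 1223178 0) (P.cons (P.lf 0 99084 0) (P.cons (P.lf 7323 0 0) P.nil))))) (P.cons (P.cons (P.lf 22644168 0 0) (P.cons (P.lf 999207 0 0) (P.cons (P.lf 0 462516 0) (P.cons (P.lf 0 31116 0) P.nil)))) (P.cons (P.cons (P.lf 1362390 0 0) (P.cons (P.lf 0 60027 0) (P.cons (P.lf 25830 0 0) P.nil))) (P.cons (P.cons (P.lf 0 1954524 0) (P.cons (P.lf 0 90282 0) P.nil)) (P.cons (P.cons (P.lf 0 341091 0) P.nil) P.nil)))))) 209961)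
 (EL.cons 11 (TM.mk (P.cons (P.cons (P.lf 0 38556861 0) (P.cons (P.lf 36786420 0 0) (P.cons (P.lf 2986416 0 0) (P.cons (P.lf 0 725862 0) (P.cons (P.lf 0 60012 0) (P.cons (P.lf 2184 0 0) P.nil)))))) (P.cons (P.cons (P.lf 0 17099379 0) (P.cons (P.lf 16393317 0 0) (P.cons (P.lf 1209093 0 0) (P.cons (P.lf 0 289308 0) (P.cons (P.lf 0 23262 0) P.nil))))) (P.cons (P.cons (P.lf 3089619 0 0) (P.cons (P.lf 0 2939601 0) (P.cons (P.lf 0 251187 0) (P.cons (P.lf 61521 0 0) P.nil)))) (P.cons (P.cons (P.lf 1626357 0 0) (P.cons (P.lf 0 1571193 0) (P.cons (P.lf 0 97515 0) P.nil))) (P.cons (P.cons (P.lf 0 125712 0) (P.cons (P.lf 117510 0 0) P.nil)) (P.cons (P.cons (P.lf 0 54393 0) P.nil) P.nil)))))) 155721)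
 EL.nil)))
noncomputable def S285_314_734_808_27 : EL := (EL.cons 13 (TM.mk (P.lf 0 4294967296 0) 0)
 EL.nil)
noncomputable def S285_314_734_808_28 : EL := (EL.cons 13 (TM.mk (P.cons (P.cons (P.lf 2725059505 0 0) (P.cons (P.lf 87092284 0 0) (P.cons (P.lf 0 41112888 0) (P.lf 0 1957756 0)))) (P.cons (P.cons (P.lf 0 219000610 0) (P.cons (P.lf 0 12589668 0) (P.cons (P.lf 5943092 0 0) (P.lf 283004 0 0)))) (P.cons (P.cons (P.lf 0 111136855 0) (P.cons (P.lf 0 1199272 0) (P.cons (P.lf 566128 0 0) (P.lf 26956 0 0)))) (P.cons (P.cons (P.lf 2903396 0 0) (P.cons (P.lf 254956 0 0) (P.cons (P.lf 0 120356 0) P.nil))) (P.cons (P.cons (P.lf 1414659 0 0) (P.cons (P.lf 4432 0 0) P.nil)) (P.cons (P.cons (P.lf 0 64521 0) P.nil) P.nil)))))) 39981)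
 EL.nil)
noncomputable def S285_314_734_808_29 : EL := (EL.cons 13 (TM.mk (P.cons (P.cons (P.lf 0 1728988556 0) (P.cons (P.lf 0 110516164 0) (P.cons (P.lf 50404357 0 0) (P.cons (P.lf 4151657 0 0) (P.cons (P.lf 0 314148 0) (P.cons (P.lf 0 37480 0) P.nil)))))) (P.cons (P.cons (P.lf 277901857 0 0) (P.cons (P.lf 24857398 0 0) (P.cons (P.lf 0 11223630 0) (P.cons (P.lf 0 1040821 0) (P.cons (P.lf 90823 0 0) P.nil))))) (P.cons (P.cons (P.lf 129860783 0 0) (P.cons (P.lf 4745137 0 0) (P.cons (P.lf 0 2228259 0) (P.cons (P.lf 0 117740 0) P.nil)))) (P.cons (P.cons (P.lf 0 15018026 0) (P.cons (P.lf 0 1215120 0) (P.cons (P.lf 556241 0 0) P.nil))) (P.cons (P.cons (P.lf 0 4374834 0) (P.cons (P.lf 0 82039 0) P.nil)) (P.cons (P.cons (P.lf 376398 0 0) P.nil) P.nil)))))) 351138)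
 EL.nil)
noncomputable def S285_314_734_808_30 : EL := (EL.cons 13 (TM.mk (P.cons (P.lf 0 1408772644 0) (P.cons (P.lf 0 436874896 0) (P.cons (P.lf 15598228 0 0) (P.cons (P.lf 1328688 0 0) (P.cons (P.lf 0 91228 0) (P.cons (P.lf 0 3020 0) P.nil)))))) 560)
 EL.nil)
noncomputable def S285_314_734_808_31 : EL := (EL.cons 13 (TM.mk (P.cons (P.cons (P.lf 893834345 0 0) (P.cons (P.lf 28566743 0 0) (P.cons (P.lf 0 13485250 0) (P.lf 0 642154 0)))) (P.cons (P.cons (P.lf 205353838 0 0) (P.cons (P.lf 4729361 0 0) (P.cons (P.lf 0 2232548 0) (P.lf 0 106311 0)))) (P.cons (P.cons (P.lf 0 68626489 0) (P.cons (P.lf 0 1990258 0) (P.cons (P.lf 939523 0 0) (P.lf 44738 0 0)))) (P.cons (P.cons (P.lf 0 10399941 0) (P.cons (P.lf 0 19580 0) (P.cons (P.lf 9242 0 0) P.nil))) (P.cons (P.cons (P.lf 1288595 0 0) (P.cons (P.lf 37487 0 0) P.nil)) (P.cons (P.cons (P.lf 143834 0 0) P.nil) P.nil))))))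 58423)
 EL.nil)
noncomputable def S285_314_734_808_32 : EL := (EL.cons 13 (TM.mk (P.cons (P.cons (P.lf 0 567117654 0) (P.cons (P.lf 0 36249903 0) (P.cons (P.lf 16532903 0 0) (P.cons (P.lf 1361766 0 0) (P.cons (P.lf 0 103042 0) (P.cons (P.lf 0 12293 0) P.nil)))))) (P.cons (P.cons (P.lf 0 84715700 0) (P.cons (P.lf 0 3088106 0) (P.cons (P.lf 1445611 0 0) (P.cons (P.lf 80902 0 0) (P.cons (P.lf 0 2164 0) P.nil))))) (P.cons (P.cons (P.lf 77141872 0 0) (P.cons (P.lf 4486238 0 0) (P.cons (P.lf 0 2055580 0) (P.cons (P.lf 0 159567 0) P.nil)))) (P.cons (P.cons (P.lf 7808776 0 0) (P.cons (P.lf 28012 0 0) (P.cons (P.lf 0 19035 0) P.nil))) (P.cons (P.cons (P.lf 0 3556888 0) (P.cons (P.lf 0 177779 0) P.nil)) (P.cons (P.cons (P.lf 0 302483 0) P.nil) P.nil)))))) 338618)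
 EL.nil)
noncomputable def S285_314_734_808_33 : EL := (EL.cons 14 (TM.mk (P.lf 8589934592 0 0) 0)
 EL.nil)
noncomputable def S285_314_734_808_34 : EL := (EL.cons 14 (TM.mk (P.cons (P.cons (P.lf 0 5450119010 0) (P.cons (P.lf 0 174184568 0) (P.cons (P.lf 82225776 0 0) (P.lf 3915512 0 0)))) (P.cons (P.cons (P.lf 438001220 0 0) (P.cons (P.lf 25179336 0 0) (P.cons (P.lf 0 11886184 0) (P.lf 0 566008 0)))) (P.cons (P.cons (P.lf 222273710 0 0) (P.cons (P.lf 2398544 0 0) (P.cons (P.lf 0 1132256 0) (P.lf 0 53912 0)))) (P.cons (P.cons (P.lf 0 5806792 0) (P.cons (P.lf 0 509912 0) (P.cons (P.lf 240712 0 0) P.nil))) (P.cons (P.cons (P.lf 0 2829318 0) (P.cons (P.lf 0 8864 0) P.nil)) (P.cons (P.cons (P.lf 129042 0 0) P.nil) P.nil)))))) 79962)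
 EL.nil)
noncomputable def S285_314_734_808_35 : EL := (EL.cons 14 (TM.mk (P.cons (P.cons (P.lf 3457977112 0 0) (P.cons (P.lf 221032328 0 0) (P.cons (P.lf 0 100808714 0) (P.cons (P.lf 0 8303314 0) (P.cons (P.lf 628296 0 0) (P.cons (P.lf 74960 0 0) P.nil)))))) (P.cons (P.cons (P.lf 0 555803714 0) (P.cons (P.lf 0 49714796 0) (P.cons (P.lf 22447260 0 0) (P.cons (P.lf 2081642 0 0) (P.cons (P.lf 0 181646 0) P.nil))))) (P.cons (P.cons (P.lf 0 259721566 0) (P.cons (P.lf 0 9490274 0) (P.cons (P.lf 4456518 0 0) (P.cons (P.lf 235480 0 0) P.nil)))) (P.cons (P.cons (P.lf 30036052 0 0) (P.cons (P.lf 2430240 0 0) (P.cons (P.lf 0 1112482 0) P.nil))) (P.cons (P.cons (P.lf 8749668 0 0) (P.cons (P.lf 164078 0 0) P.nil)) (P.cons (P.cons (P.lf 0 752796 0) P.nil) P.nil)))))) 702276)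
 EL.nil)
noncomputable def S285_314_734_808_36 : EL := (EL.cons 14 (TM.mk (P.cons (P.lf 2817545288 0 0) (P.cons (P.lf 873749792 0 0) (P.cons (P.lf 0 31196456 0) (P.cons (P.lf 0 2657376 0) (P.cons (P.lf 182456 0 0) (P.cons (P.lf 6040 0 0) P.nil)))))) 1120)
 EL.nil)
noncomputable def S285_314_734_808_37 : EL := (EL.cons 14 (TM.mk (P.cons (P.cons (P.lf 0 1787668690 0) (P.cons (P.lf 0 57133486 0) (P.cons (P.lf 26970500 0 0) (P.lf 1284308 0 0)))) (P.cons (P.cons (P.lf 0 410707676 0) (P.cons (P.lf 0 9458722 0) (P.cons (P.lf 4465096 0 0) (P.lf 212622 0 0)))) (P.cons (P.cons (P.lf 137252978 0 0) (P.cons (P.lf 3980516 0 0) (P.cons (P.lf 0 1879046 0) (P.lf 0 89476 0)))) (P.cons (P.cons (P.lf 20799882 0 0) (P.cons (P.lf 39160 0 0) (P.cons (P.lf 0 18484 0) P.nil))) (P.cons (P.cons (P.lf 0 2577190 0) (P.cons (P.lf 0 74974 0) P.nil)) (P.cons (P.cons (P.lf 0 287668 0) P.nil) P.nil))))))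 116846)
 EL.nil)
noncomputable def S285_314_734_808_38 : EL := (EL.cons 14 (TM.mk (P.cons (P.cons (P.lf 1134235308 0 0) (P.cons (P.lf 72499806 0 0) (P.cons (P.lf 0 33065806 0) (P.cons (P.lf 0 2723532 0) (P.cons (P.lf 206084 0 0) (P.cons (P.lf 24586 0 0) P.nil)))))) (P.cons (P.cons (P.lf 169431400 0 0) (P.cons (P.lf 6176212 0 0) (P.cons (P.lf 0 2891222 0) (P.cons (P.lf 0 161804 0) (P.cons (P.lf 4328 0 0) P.nil))))) (P.cons (P.cons (P.lf 0 154283744 0) (P.cons (P.lf 0 8972476 0) (P.cons (P.lf 4111160 0 0) (P.cons (P.lf 319134 0 0) P.nil)))) (P.cons (P.cons (P.lf 0 15617552 0) (P.cons (P.lf 0 56024 0) (P.cons (P.lf 38070 0 0) P.nil))) (P.cons (P.cons (P.lf 7113776 0 0) (P.cons (P.lf 355558 0 0) P.nil)) (P.cons (P.cons (P.lf 604966 0 0) P.nil) P.nil)))))) 677236)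
 EL.nil)
noncomputable def S285_314_734_808_39 : EL := (EL.cons 14 (TM.mk (P.cons (P.lf 924170186 0 0) (P.cons (P.lf 573189372 0 0) (P.cons (P.lf 68410746 0 0) (P.cons (P.lf 0 8089740 0) (P.cons (P.lf 0 307614 0) (P.cons (P.lf 60382 0 0) P.nil)))))) 4526)
 EL.nil)
noncomputable def S285_314_734_808_40 : EL := (EL.cons 14 (TM.mk (P.cons (P.cons (P.lf 0 586365058 0) (P.cons (P.lf 0 18740094 0) (P.cons (P.lf 8846470 0 0) (P.lf 421260 0 0)))) (P.cons (P.cons (P.lf 0 316552190 0) (P.cons (P.lf 0 8914008 0) (P.cons (P.lf 4207958 0 0) (P.lf 200378 0 0)))) (P.cons (P.cons (P.lf 9735774 0 0) (P.cons (P.lf 551004 0 0) (P.cons (P.lf 0 260106 0) (P.lf 0 12384 0)))) (P.cons (P.cons (P.lf 22828170 0 0) (P.cons (P.lf 469760 0 0) (P.cons (P.lf 0 221754 0) P.nil))) (P.cons (P.cons (P.lf 861002 0 0) (P.cons (P.lf 0 33352 0) P.nil)) (P.cons (P.cons (P.lf 0 484484 0) P.nil) P.nil))))))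 137950)
 EL.nil)
noncomputable def S285_314_734_808_41 : EL := (EL.cons 14 (TM.mk (P.cons (P.cons (P.lf 372035352 0 0) (P.cons (P.lf 23780330 0 0) (P.cons (P.lf 0 10845764 0) (P.cons (P.lf 0 893332 0) (P.cons (P.lf 67596 0 0) (P.cons (P.lf 8064 0 0) P.nil)))))) (P.cons (P.cons (P.lf 170946412 0 0) (P.cons (P.lf 9400356 0 0) (P.cons (P.lf 0 4311720 0) (P.cons (P.lf 0 330104 0) (P.cons (P.lf 22382 0 0) P.nil))))) (P.cons (P.cons (P.lf 0 37490962 0) (P.cons (P.lf 0 2578090 0) (P.cons (P.lf 1174480 0 0) (P.cons (P.lf 98110 0 0) P.nil)))) (P.cons (P.cons (P.lf 0 21782272 0) (P.cons (P.lf 0 975896 0) (P.cons (P.lf 451394 0 0) P.nil))) (P.cons (P.cons (P.lf 1276768 0 0) (P.cons (P.lf 143140 0 0) P.nil)) (P.cons (P.cons (P.lf 1030874 0 0) P.nil) P.nil)))))) 578462)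
 EL.nil)
noncomputable def S285_314_734_808_42 : EL := (EL.cons 14 (TM.mk (P.cons (P.lf 303132848 0 0) (P.cons (P.lf 282013848 0 0) (P.cons (P.lf 77386344 0 0) (P.cons (P.lf 1937536 0 0) (P.cons (P.lf 0 1329912 0) (P.cons (P.lf 9556 0 0) P.nil)))))) 14366)
 EL.nil)
noncomputable def S285_314_734_808_43 : EL := (EL.cons 14 (TM.mk (P.cons (P.cons (P.lf 0 192330928 0) (P.cons (P.lf 0 6146852 0) (P.cons (P.lf 2901690 0 0) (P.lf 138174 0 0)))) (P.cons (P.cons (P.lf 0 163474640 0) (P.cons (P.lf 0 4830044 0) (P.cons (P.lf 2280076 0 0) (P.lf 108574 0 0)))) (P.cons (P.cons (P.lf 0 26876096 0) (P.cons (P.lf 0 657922 0) (P.cons (P.lf 310578 0 0) (P.lf 14788 0 0)))) (P.cons (P.cons (P.lf 9809102 0 0) (P.cons (P.lf 248302 0 0) (P.cons (P.lf 0 117212 0) P.nil))) (P.cons (P.cons (P.lf 2654562 0 0) (P.cons (P.lf 37200 0 0) P.nil)) (P.cons (P.cons (P.lf 0 164386 0) P.nil) P.nil))))))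 143788)
 EL.nil)
noncomputable def S285_314_734_808_44 : EL := (EL.cons 14 (TM.mk (P.cons (P.cons (P.lf 122029618 0 0) (P.cons (P.lf 7800076 0 0) (P.cons (P.lf 0 3557468 0) (P.cons (P.lf 0 293018 0) (P.cons (P.lf 22172 0 0) (P.cons (P.lf 2644 0 0) P.nil)))))) (P.cons (P.cons (P.lf 93913994 0 0) (P.cons (P.lf 5502252 0 0) (P.cons (P.lf 0 2517474 0) (P.cons (P.lf 0 199144 0) (P.cons (P.lf 14216 0 0) P.nil))))) (P.cons (P.cons (P.lf 3739926 0 0) (P.cons (P.lf 24192 0 0) (P.cons (P.lf 0 13952 0) (P.cons (P.lf 1846 0 0) P.nil)))) (P.cons (P.cons (P.lf 0 11694130 0) (P.cons (P.lf 0 623832 0) (P.cons (P.lf 286540 0 0) P.nil))) (P.cons (P.cons (P.lf 0 1705682 0) (P.cons (P.lf 0 45354 0) P.nil)) (P.cons (P.cons (P.lf 562600 0 0) P.nil) P.nil)))))) 432784)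
 EL.nil)
noncomputable def S285_314_734_808_45 : EL := (EL.cons 14 (TM.mk (P.cons (P.cons (P.lf 0 2194008182 0) (P.cons (P.lf 0 210360010 0) (P.cons (P.lf 92579740 0 0) (P.cons (P.lf 11004468 0 0) (P.cons (P.lf 0 1094490 0) (P.cons (P.lf 0 185734 0) P.nil)))))) (P.cons (P.cons (P.lf 528967308 0 0) (P.cons (P.lf 64220044 0 0) (P.cons (P.lf 0 27831774 0) (P.cons (P.lf 0 3757756 0) (P.cons (P.lf 397876 0 0) P.nil))))) (P.cons (P.cons (P.lf 225925834 0 0) (P.cons (P.lf 13808776 0 0) (P.cons (P.lf 0 6355934 0) (P.cons (P.lf 0 465492 0) P.nil)))) (P.cons (P.cons (P.lf 0 49020014 0) (P.cons (P.lf 0 5192524 0) (P.cons (P.lf 2295038 0 0) P.nil))) (P.cons (P.cons (P.lf 0 11503750 0) (P.cons (P.lf 0 397428 0) P.nil)) (P.cons (P.cons (P.lf 2111580 0 0) P.nil) P.nil)))))) 2162854)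
 EL.nil)
noncomputable def S285_314_734_808_46 : EL := (EL.cons 15 (TM.mk (P.lf 4294967296 0 0) 0)
 EL.nil)
noncomputable def S285_314_734_808_47 : EL := (EL.cons 15 (TM.mk (P.cons (P.cons (P.lf 0 2725059505 0) (P.cons (P.lf 0 87092284 0) (P.cons (P.lf 41112888 0 0) (P.lf 1957756 0 0)))) (P.cons (P.cons (P.lf 219000610 0 0) (P.cons (P.lf 12589668 0 0) (P.cons (P.lf 0 5943092 0) (P.lf 0 283004 0)))) (P.cons (P.cons (P.lf 111136855 0 0) (P.cons (P.lf 1199272 0 0) (P.cons (P.lf 0 566128 0) (P.lf 0 26956 0)))) (P.cons (P.cons (P.lf 0 2903396 0) (P.cons (P.lf 0 254956 0) (P.cons (P.lf 120356 0 0) P.nil))) (P.cons (P.cons (P.lf 0 1414659 0) (P.cons (P.lf 0 4432 0) P.nil)) (P.cons (P.cons (P.lf 64521 0 0) P.nil) P.nil)))))) 39981)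
 EL.nil)
noncomputable def S285_314_734_808_48 : EL := (EL.cons 15 (TM.mk (P.cons (P.cons (P.lf 1728988556 0 0) (P.cons (P.lf 110516164 0 0) (P.cons (P.lf 0 50404357 0) (P.cons (P.lf 0 4151657 0) (P.cons (P.lf 314148 0 0) (P.cons (P.lf 37480 0 0) P.nil)))))) (P.cons (P.cons (P.lf 0 277901857 0) (P.cons (P.lf 0 24857398 0) (P.cons (P.lf 11223630 0 0) (P.cons (P.lf 1040821 0 0) (P.cons (P.lf 0 90823 0) P.nil))))) (P.cons (P.cons (P.lf 0 129860783 0) (P.cons (P.lf 0 4745137 0) (P.cons (P.lf 2228259 0 0) (P.cons (P.lf 117740 0 0) P.nil)))) (P.cons (P.cons (P.lf 15018026 0 0) (P.cons (P.lf 1215120 0 0) (P.cons (P.lf 0 556241 0) P.nil))) (P.cons (P.cons (P.lf 4374834 0 0) (P.cons (P.lf 82039 0 0) P.nil)) (P.cons (P.cons (P.lf 0 376398 0) P.nil) P.nil)))))) 351138)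
 EL.nil)
noncomputable def S285_314_734_808 : SL := (SL.cons S285_314_734_808_0 (SL.cons S285_314_734_808_1 (SL.cons S285_314_734_808_2 (SL.cons S285_314_734_808_3 (SL.cons S285_314_734_808_4 (SL.cons S285_314_734_808_5 (SL.cons S285_314_734_808_6 (SL.cons S285_314_734_808_7 (SL.cons S285_314_734_808_8 (SL.cons S285_314_734_808_9 (SL.cons S285_314_734_808_10 (SL.cons S285_314_734_808_11 (SL.cons S285_314_734_808_12 (SL.cons S285_314_734_808_13 (SL.cons S285_314_734_808_14 (SL.cons S285_314_734_808_15 (SL.cons S285_314_734_808_16 (SL.cons S285_314_734_808_17 (SL.cons S285_314_734_808_18 (SL.cons S285_314_734_808_19 (SL.cons S285_314_734_808_20 (SL.cons S285_314_734_808_21 (SL.cons S285_314_734_808_22 (SL.cons S285_314_734_808_23 (SL.cons S285_314_734_808_24 (SL.cons S285_314_734_808_25 (SL.cons S285_314_734_808_26 (SL.cons S285_314_734_808_27 (SL.cons S285_314_734_808_28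 (SL.cons S285_314_734_808_29 (SL.cons S285_314_734_808_30 (SL.cons S285_314_734_808_31 (SL.cons S285_314_734_808_32 (SL.cons S285_314_734_808_33 (SL.cons S285_314_734_808_34 (SL.cons S285_314_734_808_35 (SL.cons S285_314_734_808_36 (SL.cons S285_314_734_808_37 (SL.cons S285_314_734_808_38 (SL.cons S285_314_734_808_39 (SL.cons S285_314_734_808_40 (SL.cons S285_314_734_808_41 (SL.cons S285_314_734_808_42 (SL.cons S285_314_734_808_43 (SL.cons S285_314_734_808_44 (SL.cons S285_314_734_808_45 (SL.cons S285_314_734_808_46 (SL.cons S285_314_734_808_47 (SL.cons S285_314_734_808_48 SL.nil)))))))))))))))))))))))))))))))))))))))))))))))))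
noncomputable def S285_314_771_808_0 : EL := (EL.cons 0 (TM.mk (P.cons (P.lf 7643457911 0 0) (P.cons (P.lf 0 503779721 0) (P.cons (P.lf 0 60126632 0) (P.cons (P.lf 7110123 0 0) (P.cons (P.lf 270363 0 0) (P.cons (P.lf 0 53070 0) P.nil)))))) 3984)
 (EL.cons 1 (TM.mk (P.cons (P.lf 1228710643 0 0) (P.cons (P.lf 321830180 0 0) (P.cons (P.lf 0 40457490 0) (P.cons (P.lf 0 2710608 0) (P.cons (P.lf 384633 0 0) (P.cons (P.lf 7027 0 0) P.nil)))))) 2881)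
 (EL.cons 5 (TM.mk (P.cons (P.lf 4583770480 0 0) (P.cons (P.lf 179121676 0 0) (P.cons (P.lf 21378358 0 0) (P.cons (P.lf 0 2528040 0) (P.cons (P.lf 0 96128 0) (P.cons (P.lf 18870 0 0) P.nil)))))) 1697)
 (EL.cons 9 (TM.mk (P.lf 6442450944 0 0) 2)
 EL.nil))))
noncomputable def S285_314_771_808_1 : EL := (EL.cons 0 (TM.mk (P.cons (P.cons (P.lf 0 4030093268 0) (P.cons (P.lf 0 26979832 0) (P.cons (P.lf 13350035 0 0) (P.lf 296668 0 0)))) (P.cons (P.cons (P.lf 1848141847 0 0) (P.cons (P.lf 14341961 0 0) (P.cons (P.lf 0 7096612 0) (P.lf 0 157689 0)))) (P.cons (P.cons (P.lf 405231373 0 0) (P.cons (P.lf 108335 0 0) (P.cons (P.lf 0 53606 0) (P.lf 0 1193 0)))) (P.cons (P.cons (P.lf 0 80277783 0) (P.cons (P.lf 0 550278 0) (P.cons (P.lf 272286 0 0) P.nil))) (P.cons (P.cons (P.lf 0 9373745 0) (P.cons (P.lf 27727 0 0) P.nil)) (P.cons (P.cons (P.lf 1865531 0 0) P.nil) P.nil)))))) 370759)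
 (EL.cons 1 (TM.mk (P.cons (P.cons (P.lf 0 1350107009 0) (P.cons (P.lf 0 14433298 0) (P.cons (P.lf 7141814 0 0) (P.lf 158700 0 0)))) (P.cons (P.cons (P.lf 0 587233670 0) (P.cons (P.lf 0 630651 0) (P.cons (P.lf 312059 0 0) (P.lf 6936 0 0)))) (P.cons (P.cons (P.lf 228023591 0 0) (P.cons (P.lf 1574668 0 0) (P.cons (P.lf 0 779167 0) (P.lf 0 17306 0)))) (P.cons (P.cons (P.lf 31799430 0 0) (P.cons (P.lf 0 70710 0) (P.cons (P.lf 34987 0 0) P.nil))) (P.cons (P.cons (P.lf 0 7454659 0) (P.cons (P.lf 0 40109 0) P.nil)) (P.cons (P.cons (P.lf 0 514123 0) P.nil) P.nil)))))) 217271)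
 (EL.cons 5 (TM.mk (P.cons (P.cons (P.lf 0 3255818557 0) (P.cons (P.lf 0 28241586 0) (P.cons (P.lf 13974366 0 0) (P.lf 310540 0 0)))) (P.cons (P.cons (P.lf 0 276700795 0) (P.cons (P.lf 369816 0 0) (P.cons (P.lf 0 182990 0) (P.lf 0 4074 0)))) (P.cons (P.cons (P.lf 45623444 0 0) (P.cons (P.lf 482468 0 0) (P.cons (P.lf 0 238730 0) (P.lf 0 5306 0)))) (P.cons (P.cons (P.lf 23443090 0 0) (P.cons (P.lf 84894 0 0) (P.cons (P.lf 0 42004 0) P.nil))) (P.cons (P.cons (P.lf 925089 0 0) (P.cons (P.lf 0 11780 0) P.nil)) (P.cons (P.cons (P.lf 0 551944 0) P.nil) P.nil)))))) 190100)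
 (EL.cons 9 (TM.mk (P.cons (P.cons (P.lf 0 4137124057 0) (P.cons (P.lf 0 33383304 0) (P.cons (P.lf 16518570 0 0) (P.lf 367074 0 0)))) (P.cons (P.cons (P.lf 335661441 0 0) (P.cons (P.lf 4825740 0 0) (P.cons (P.lf 0 2387844 0) (P.lf 0 53058 0)))) (P.cons (P.cons (P.lf 167387380 0 0) (P.cons (P.lf 459690 0 0) (P.cons (P.lf 0 227460 0) (P.lf 0 5052 0)))) (P.cons (P.cons (P.lf 0 4500102 0) (P.cons (P.lf 0 97722 0) (P.cons (P.lf 48354 0 0) P.nil))) (P.cons (P.cons (P.lf 0 2124514 0) (P.cons (P.lf 0 1698 0) P.nil)) (P.cons (P.cons (P.lf 98245 0 0) P.nil) P.nil)))))) 36014)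
 (EL.cons 2 (TM.mk (P.cons (P.cons (P.lf 0 86842535 0) (P.cons (P.lf 87935529 0 0) (P.cons (P.lf 958353 0 0) (P.cons (P.lf 0 131520 0) (P.lf 0 2190 0))))) (P.cons (P.cons (P.lf 0 18561718 0) (P.cons (P.lf 18795335 0 0) (P.cons (P.lf 204837 0 0) (P.cons (P.lf 0 28110 0) (P.lf 0 466 0))))) (P.cons (P.cons (P.lf 4555718 0 0) (P.cons (P.lf 0 4613056 0) (P.cons (P.lf 0 50273 0) (P.cons (P.lf 6896 0 0) P.nil)))) (P.cons (P.cons (P.lf 180880 0 0) (P.cons (P.lf 0 183155 0) (P.cons (P.lf 0 1994 0) P.nil))) (P.cons (P.cons (P.lf 0 65694 0) (P.cons (P.lf 66521 0 0) P.nil)) (P.cons (P.cons (P.lf 208 0 0) P.nil) P.nil)))))) 8762)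
 (EL.cons 6 (TM.mk (P.cons (P.cons (P.lf 131367402 0 0) (P.cons (P.lf 0 133020783 0) (P.cons (P.lf 0 1449711 0) (P.cons (P.lf 198951 0 0) (P.lf 3315 0 0))))) (P.cons (P.cons (P.lf 0 18989880 0) (P.cons (P.lf 19228887 0 0) (P.cons (P.lf 209562 0 0) (P.cons (P.lf 0 28758 0) (P.lf 0 477 0))))) (P.cons (P.cons (P.lf 0 1808943 0) (P.cons (P.lf 1831713 0 0) (P.cons (P.lf 19959 0 0) (P.cons (P.lf 0 2736 0) P.nil)))) (P.cons (P.cons (P.lf 384570 0 0) (P.cons (P.lf 0 389412 0) (P.cons (P.lf 0 4242 0) P.nil))) (P.cons (P.cons (P.lf 6687 0 0) (P.cons (P.lf 0 6771 0) P.nil)) (P.cons (P.cons (P.lf 0 3888 0) P.nil) P.nil)))))) 5970)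
 EL.nil))))))
noncomputable def S285_314_771_808_2 : EL := (EL.cons 0 (TM.mk (P.cons (P.cons (P.lf 2023989897 0 0) (P.cons (P.lf 25549016 0 0) (P.cons (P.lf 0 12567670 0) (P.cons (P.lf 0 354545 0) (P.cons (P.lf 16576 0 0) (P.cons (P.lf 815 0 0) P.nil)))))) (P.cons (P.cons (P.lf 0 2074361877 0) (P.cons (P.lf 0 31588911 0) (P.cons (P.lf 15514476 0 0) (P.cons (P.lf 462311 0 0) (P.cons (P.lf 0 25888 0) P.nil))))) (P.cons (P.cons (P.lf 0 311895679 0) (P.cons (P.lf 0 247234 0) (P.cons (P.lf 137923 0 0) (P.cons (P.lf 0 12686 0) P.nil)))) (P.cons (P.cons (P.lf 197046693 0 0) (P.cons (P.lf 2487332 0 0) (P.cons (P.lf 0 1224798 0) P.nil))) (P.cons (P.cons (P.lf 17303600 0 0) (P.cons (P.lf 0 117076 0) P.nil)) (P.cons (P.cons (P.lf 0 7770992 0) P.nil) P.nil)))))) 2104532)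
 (EL.cons 1 (TM.mk (P.cons (P.cons (P.lf 1227293607 0 0) (P.cons (P.lf 24351829 0 0) (P.cons (P.lf 0 11933070 0) (P.cons (P.lf 0 383140 0) (P.cons (P.lf 25974 0 0) (P.cons (P.lf 1269 0 0) P.nil)))))) (P.cons (P.cons (P.lf 563022448 0 0) (P.cons (P.lf 3072883 0 0) (P.cons (P.lf 0 1534702 0) (P.cons (P.lf 0 19742 0) (P.cons (P.lf 0 3163 0) P.nil))))) (P.cons (P.cons (P.lf 0 348321188 0) (P.cons (P.lf 0 5173481 0) (P.cons (P.lf 2544386 0 0) (P.cons (P.lf 72229 0 0) P.nil)))) (P.cons (P.cons (P.lf 0 41861796 0) (P.cons (P.lf 170016 0 0) (P.cons (P.lf 0 81201 0) P.nil))) (P.cons (P.cons (P.lf 22446982 0 0) (P.cons (P.lf 264793 0 0) P.nil)) (P.cons (P.cons (P.lf 1429827 0 0) P.nil) P.nil)))))) 1177415)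
 (EL.cons 5 (TM.mk (P.cons (P.cons (P.lf 2291309752 0 0) (P.cons (P.lf 39507864 0 0) (P.cons (P.lf 0 19379484 0) (P.cons (P.lf 0 602264 0) (P.cons (P.lf 37784 0 0) (P.cons (P.lf 1831 0 0) P.nil)))))) (P.cons (P.cons (P.lf 248969913 0 0) (P.cons (P.lf 264902 0 0) (P.cons (P.lf 0 146442 0) (P.cons (P.lf 12310 0 0) (P.cons (P.lf 0 3439 0) P.nil))))) (P.cons (P.cons (P.lf 0 112928677 0) (P.cons (P.lf 0 1977323 0) (P.cons (P.lf 971566 0 0) (P.cons (P.lf 28499 0 0) P.nil)))) (P.cons (P.cons (P.lf 0 43742882 0) (P.cons (P.lf 0 350784 0) (P.cons (P.lf 173375 0 0) P.nil))) (P.cons (P.cons (P.lf 1337490 0 0) (P.cons (P.lf 76939 0 0) P.nil)) (P.cons (P.cons (P.lf 2104079 0 0) P.nil) P.nil)))))) 1047922)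
 (EL.cons 9 (TM.mk (P.cons (P.cons (P.lf 2656721116 0 0) (P.cons (P.lf 42875256 0 0) (P.cons (P.lf 0 21042348 0) (P.cons (P.lf 0 642634 0) (P.cons (P.lf 38548 0 0) (P.cons (P.lf 1881 0 0) P.nil)))))) (P.cons (P.cons (P.lf 0 431100844 0) (P.cons (P.lf 0 9676494 0) (P.cons (P.lf 4738057 0 0) (P.cons (P.lf 155886 0 0) (P.cons (P.lf 0 11145 0) P.nil))))) (P.cons (P.cons (P.lf 0 197492557 0) (P.cons (P.lf 0 1822263 0) (P.cons (P.lf 900532 0 0) (P.cons (P.lf 21171 0 0) P.nil)))) (P.cons (P.cons (P.lf 23221897 0 0) (P.cons (P.lf 470809 0 0) (P.cons (P.lf 0 231261 0) P.nil))) (P.cons (P.cons (P.lf 6608706 0 0) (P.cons (P.lf 31161 0 0) P.nil)) (P.cons (P.cons (P.lf 0 581403 0) P.nil) P.nil)))))) 242518)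
 (EL.cons 2 (TM.mk (P.cons (P.cons (P.lf 111534676 0 0) (P.cons (P.lf 0 112038446 0) (P.cons (P.lf 0 2587500 0) (P.cons (P.lf 600024 0 0) (P.cons (P.lf 19108 0 0) (P.cons (P.lf 0 540 0) P.nil)))))) (P.cons (P.cons (P.lf 14790161 0 0) (P.cons (P.lf 0 14914040 0) (P.cons (P.lf 0 257073 0) (P.cons (P.lf 52222 0 0) (P.cons (P.lf 1501 0 0) P.nil))))) (P.cons (P.cons (P.lf 0 12297915 0) (P.cons (P.lf 12365285 0 0) (P.cons (P.lf 267480 0 0) (P.cons (P.lf 0 60491 0) P.nil)))) (P.cons (P.cons (P.lf 0 600806 0) (P.cons (P.lf 613305 0 0) (P.cons (P.lf 0 804 0) P.nil))) (P.cons (P.cons (P.lf 423163 0 0) (P.cons (P.lf 0 426273 0) P.nil)) (P.cons (P.cons (P.lf 5512 0 0) P.nil) P.nil)))))) 107144)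
 (EL.cons 6 (TM.mk (P.cons (P.cons (P.lf 0 168719400 0) (P.cons (P.lf 169481460 0 0) (P.cons (P.lf 3914130 0 0) (P.cons (P.lf 0 907656 0) (P.cons (P.lf 0 28908 0) (P.cons (P.lf 816 0 0) P.nil)))))) (P.cons (P.cons (P.lf 38078196 0 0) (P.cons (P.lf 0 38163840 0) (P.cons (P.lf 0 1013526 0) (P.cons (P.lf 246204 0 0) (P.cons (P.lf 8082 0 0) P.nil))))) (P.cons (P.cons (P.lf 7170840 0 0) (P.cons (P.lf 0 7252044 0) (P.cons (P.lf 0 92760 0) (P.cons (P.lf 15186 0 0) P.nil)))) (P.cons (P.cons (P.lf 0 1852722 0) (P.cons (P.lf 1862652 0 0) (P.cons (P.lf 40626 0 0) P.nil))) (P.cons (P.cons (P.lf 0 122628 0) (P.cons (P.lf 124926 0 0) P.nil)) (P.cons (P.cons (P.lf 44730 0 0) P.nil) P.nil)))))) 81816)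
 EL.nil))))))
noncomputable def S285_314_771_808_3 : EL := (EL.cons 0 (TM.mk (P.cons (P.lf 812258952 0 0) (P.cons (P.lf 503779721 0 0) (P.cons (P.lf 60126632 0 0) (P.cons (P.lf 0 7110123 0) (P.cons (P.lf 0 270363 0) (P.cons (P.lf 53070 0 0) P.nil)))))) 3984)
 (EL.cons 1 (TM.mk (P.cons (P.lf 0 1228710643 0) (P.cons (P.lf 0 321830180 0) (P.cons (P.lf 40457490 0 0) (P.cons (P.lf 2710608 0 0) (P.cons (P.lf 0 384633 0) (P.cons (P.lf 0 7027 0) P.nil)))))) 2881)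
 (EL.cons 5 (TM.mk (P.cons (P.lf 1858680464 0 0) (P.cons (P.lf 0 179121676 0) (P.cons (P.lf 0 21378358 0) (P.cons (P.lf 2528040 0 0) (P.cons (P.lf 96128 0 0) (P.cons (P.lf 0 18870 0) P.nil)))))) 1690)
 EL.nil)))
noncomputable def S285_314_771_808_4 : EL := (EL.cons 0 (TM.mk (P.cons (P.cons (P.lf 0 521605221 0) (P.cons (P.lf 0 4208939 0) (P.cons (P.lf 2082647 0 0) (P.lf 46279 0 0)))) (P.cons (P.cons (P.lf 0 281190373 0) (P.cons (P.lf 0 2002044 0) (P.cons (P.lf 990643 0 0) (P.lf 22013 0 0)))) (P.cons (P.cons (P.lf 8740458 0 0) (P.cons (P.lf 123751 0 0) (P.cons (P.lf 0 61233 0) (P.lf 0 1358 0)))) (P.cons (P.cons (P.lf 20220373 0 0) (P.cons (P.lf 105505 0 0) (P.cons (P.lf 0 52205 0) P.nil))) (P.cons (P.cons (P.lf 745625 0 0) (P.cons (P.lf 0 7490 0) P.nil)) (P.cons (P.cons (P.lf 0 428642 0) P.nil) P.nil)))))) 71948)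
 (EL.cons 1 (TM.mk (P.cons (P.cons (P.lf 789036408 0 0) (P.cons (P.lf 6366894 0 0) (P.cons (P.lf 0 3150436 0) (P.lf 0 70006 0)))) (P.cons (P.cons (P.lf 142650770 0 0) (P.cons (P.lf 747279 0 0) (P.cons (P.lf 0 369765 0) (P.lf 0 8216 0)))) (P.cons (P.cons (P.lf 0 74672557 0) (P.cons (P.lf 0 538380 0) (P.cons (P.lf 266398 0 0) (P.lf 5917 0 0)))) (P.cons (P.cons (P.lf 0 7136272 0) (P.cons (P.lf 11932 0 0) (P.cons (P.lf 0 5904 0) P.nil))) (P.cons (P.cons (P.lf 2069379 0 0) (P.cons (P.lf 12114 0 0) P.nil)) (P.cons (P.cons (P.lf 114030 0 0) P.nil) P.nil)))))) 53634)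
 (EL.cons 5 (TM.mk (P.cons (P.cons (P.lf 0 1193581716 0) (P.cons (P.lf 0 9631254 0) (P.cons (P.lf 4765692 0 0) (P.lf 105902 0 0)))) (P.cons (P.cons (P.lf 211865944 0 0) (P.cons (P.lf 2320416 0 0) (P.cons (P.lf 0 1148176 0) (P.lf 0 25512 0)))) (P.cons (P.cons (P.lf 52688072 0 0) (P.cons (P.lf 109228 0 0) (P.cons (P.lf 0 54046 0) (P.lf 0 1198 0)))) (P.cons (P.cons (P.lf 0 8689498 0) (P.cons (P.lf 0 70086 0) (P.cons (P.lf 34678 0 0) P.nil))) (P.cons (P.cons (P.lf 0 973280 0) (P.cons (P.lf 2096 0 0) P.nil)) (P.cons (P.cons (P.lf 185154 0 0) P.nil) P.nil)))))) 39648)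
 EL.nil)))
noncomputable def S285_314_771_808_5 : EL := (EL.cons 0 (TM.mk (P.cons (P.cons (P.lf 334957227 0 0) (P.cons (P.lf 5405675 0 0) (P.cons (P.lf 0 2653001 0) (P.cons (P.lf 0 81021 0) (P.cons (P.lf 4858 0 0) (P.cons (P.lf 235 0 0) P.nil)))))) (P.cons (P.cons (P.lf 153394525 0 0) (P.cons (P.lf 2132706 0 0) (P.cons (P.lf 0 1048074 0) (P.cons (P.lf 0 30596 0) (P.cons (P.lf 1608 0 0) P.nil))))) (P.cons (P.cons (P.lf 0 33815587 0) (P.cons (P.lf 0 586270 0) (P.cons (P.lf 287653 0 0) (P.cons (P.lf 8861 0 0) P.nil)))) (P.cons (P.cons (P.lf 0 19470974 0) (P.cons (P.lf 0 220763 0) (P.cons (P.lf 108703 0 0) P.nil))) (P.cons (P.cons (P.lf 1170212 0 0) (P.cons (P.lf 32616 0 0) P.nil)) (P.cons (P.cons (P.lf 918140 0 0) P.nil) P.nil)))))) 268294)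
 (EL.cons 1 (TM.mk (P.cons (P.cons (P.lf 0 506692488 0) (P.cons (P.lf 0 8177210 0) (P.cons (P.lf 4013216 0 0) (P.cons (P.lf 122563 0 0) (P.cons (P.lf 0 7350 0) (P.cons (P.lf 0 358 0) P.nil)))))) (P.cons (P.cons (P.lf 0 50495508 0) (P.cons (P.lf 0 296306 0) (P.cons (P.lf 147513 0 0) (P.cons (P.lf 2370 0 0) (P.cons (P.lf 200 0 0) P.nil))))) (P.cons (P.cons (P.lf 75885208 0 0) (P.cons (P.lf 1100176 0 0) (P.cons (P.lf 0 540579 0) (P.cons (P.lf 0 15858 0) P.nil)))) (P.cons (P.cons (P.lf 3847314 0 0) (P.cons (P.lf 0 41490 0) (P.cons (P.lf 20021 0 0) P.nil))) (P.cons (P.cons (P.lf 0 4000674 0) (P.cons (P.lf 0 47535 0) P.nil)) (P.cons (P.cons (P.lf 0 133672 0) P.nil) P.nil)))))) 200523)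
 (EL.cons 5 (TM.mk (P.cons (P.cons (P.lf 766477800 0 0) (P.cons (P.lf 12369732 0 0) (P.cons (P.lf 0 6070824 0) (P.cons (P.lf 0 185402 0) (P.cons (P.lf 11120 0 0) (P.cons (P.lf 542 0 0) P.nil)))))) (P.cons (P.cons (P.lf 0 198240554 0) (P.cons (P.lf 0 3983792 0) (P.cons (P.lf 1952000 0 0) (P.cons (P.lf 62840 0 0) (P.cons (P.lf 0 4286 0) P.nil))))) (P.cons (P.cons (P.lf 0 53807532 0) (P.cons (P.lf 0 398968 0) (P.cons (P.lf 197898 0 0) (P.cons (P.lf 3904 0 0) P.nil)))) (P.cons (P.cons (P.lf 14663644 0 0) (P.cons (P.lf 235430 0 0) (P.cons (P.lf 0 115736 0) P.nil))) (P.cons (P.cons (P.lf 1786824 0 0) (P.cons (P.lf 0 1210 0) P.nil)) (P.cons (P.cons (P.lf 0 520250 0) P.nil) P.nil)))))) 164580)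
 EL.nil)))
noncomputable def S285_314_771_808_6 : EL := (EL.cons 12 (TM.mk (P.lf 8589934592 0 0) 0)
 (EL.cons 3 (TM.mk (P.cons (P.lf 1320724353 0 0) (P.cons (P.lf 409570215 0 0) (P.cons (P.lf 0 14623338 0) (P.cons (P.lf 0 1245645 0) (P.cons (P.lf 85526 0 0) (P.cons (P.lf 2831 0 0) P.nil)))))) 532)
 (EL.cons 7 (TM.mk (P.cons (P.lf 0 1997870342 0) (P.cons (P.lf 96267727 0 0) (P.cons (P.lf 13808992 0 0) (P.cons (P.lf 0 693290 0) (P.cons (P.lf 0 37347 0) (P.cons (P.lf 3551 0 0) P.nil)))))) 296)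
 EL.nil)))
noncomputable def S285_314_771_808_7 : EL := (EL.cons 12 (TM.mk (P.cons (P.cons (P.lf 0 5516165410 0) (P.cons (P.lf 0 44511072 0) (P.cons (P.lf 22024760 0 0) (P.lf 489432 0 0)))) (P.cons (P.cons (P.lf 447548588 0 0) (P.cons (P.lf 6434320 0 0) (P.cons (P.lf 0 3183792 0) (P.lf 0 70744 0)))) (P.cons (P.cons (P.lf 223183174 0 0) (P.cons (P.lf 612920 0 0) (P.cons (P.lf 0 303280 0) (P.lf 0 6736 0)))) (P.cons (P.cons (P.lf 0 6000136 0) (P.cons (P.lf 0 130296 0) (P.cons (P.lf 64472 0 0) P.nil))) (P.cons (P.cons (P.lf 0 2832686 0) (P.cons (P.lf 0 2264 0) P.nil)) (P.cons (P.cons (P.lf 130994 0 0) P.nil) P.nil)))))) 47994)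
 (EL.cons 3 (TM.mk (P.cons (P.cons (P.lf 579944223 0 0) (P.cons (P.lf 13687380 0 0) (P.cons (P.lf 0 6772724 0) (P.lf 0 150502 0)))) (P.cons (P.cons (P.lf 1194448349 0 0) (P.cons (P.lf 2266010 0 0) (P.cons (P.lf 0 1121258 0) (P.lf 0 24916 0)))) (P.cons (P.cons (P.lf 0 33887035 0) (P.cons (P.lf 0 953604 0) (P.cons (P.lf 471856 0 0) (P.lf 10482 0 0)))) (P.cons (P.cons (P.lf 0 30890002 0) (P.cons (P.lf 0 9382 0) (P.cons (P.lf 4642 0 0) P.nil))) (P.cons (P.cons (P.lf 2010188 0 0) (P.cons (P.lf 17958 0 0) P.nil)) (P.cons (P.cons (P.lf 353781 0 0) P.nil) P.nil)))))) 130102)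
 (EL.cons 7 (TM.mk (P.cons (P.cons (P.lf 1618626207 0 0) (P.cons (P.lf 15178252 0 0) (P.cons (P.lf 0 7510431 0) (P.lf 0 166900 0)))) (P.cons (P.cons (P.lf 280749976 0 0) (P.cons (P.lf 532614 0 0) (P.cons (P.lf 0 263544 0) (P.lf 0 5854 0)))) (P.cons (P.cons (P.lf 42330715 0 0) (P.cons (P.lf 0 128727 0) (P.cons (P.lf 63696 0 0) (P.lf 1416 0 0)))) (P.cons (P.cons (P.lf 0 7936781 0) (P.cons (P.lf 0 53414 0) (P.cons (P.lf 26431 0 0) P.nil))) (P.cons (P.cons (P.lf 0 1403184 0) (P.cons (P.lf 2402 0 0) P.nil)) (P.cons (P.cons (P.lf 161314 0 0) P.nil) P.nil)))))) 97768)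
 (EL.cons 10 (TM.mk (P.cons (P.cons (P.lf 0 282410070 0) (P.cons (P.lf 285964464 0 0) (P.cons (P.lf 3116553 0 0) (P.cons (P.lf 0 427704 0) (P.lf 0 7128 0))))) (P.cons (P.cons (P.lf 27215955 0 0) (P.cons (P.lf 0 27558492 0) (P.cons (P.lf 0 300342 0) (P.cons (P.lf 41217 0 0) (P.lf 684 0 0))))) (P.cons (P.cons (P.lf 3248250 0 0) (P.cons (P.lf 0 3289134 0) (P.cons (P.lf 0 35844 0) (P.cons (P.lf 4917 0 0) P.nil)))) (P.cons (P.cons (P.lf 0 384111 0) (P.cons (P.lf 388947 0 0) (P.cons (P.lf 4236 0 0) P.nil))) (P.cons (P.cons (P.lf 0 14604 0) (P.cons (P.lf 14787 0 0) P.nil)) (P.cons (P.cons (P.lf 2865 0 0) P.nil) P.nil)))))) 4422)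
 EL.nil))))
noncomputable def S285_314_771_808_8 : EL := (EL.cons 12 (TM.mk (P.cons (P.cons (P.lf 3542294822 0 0) (P.cons (P.lf 57167008 0 0) (P.cons (P.lf 0 28056464 0) (P.cons (P.lf 0 856846 0) (P.cons (P.lf 51398 0 0) (P.cons (P.lf 2508 0 0) P.nil)))))) (P.cons (P.cons (P.lf 0 574801126 0) (P.cons (P.lf 0 12901992 0) (P.cons (P.lf 6317410 0 0) (P.cons (P.lf 207848 0 0) (P.cons (P.lf 0 14860 0) P.nil))))) (P.cons (P.cons (P.lf 0 263323410 0) (P.cons (P.lf 0 2429684 0) (P.cons (P.lf 1200710 0 0) (P.cons (P.lf 28228 0 0) P.nil)))) (P.cons (P.cons (P.lf 30962530 0 0) (P.cons (P.lf 627746 0 0) (P.cons (P.lf 0 308348 0) P.nil))) (P.cons (P.cons (P.lf 8811608 0 0) (P.cons (P.lf 41548 0 0) P.nil)) (P.cons (P.cons (P.lf 0 775204 0) P.nil) P.nil)))))) 323328)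
 (EL.cons 3 (TM.mk (P.cons (P.cons (P.lf 0 1289477985 0) (P.cons (P.lf 0 32378990 0) (P.cons (P.lf 15844304 0 0) (P.cons (P.lf 531498 0 0) (P.cons (P.lf 0 39510 0) (P.cons (P.lf 0 1925 0) P.nil)))))) (P.cons (P.cons (P.lf 0 1554157059 0) (P.cons (P.lf 0 13735960 0) (P.cons (P.lf 6793044 0 0) (P.cons (P.lf 154718 0 0) (P.cons (P.lf 0 825 0) P.nil))))) (P.cons (P.cons (P.lf 272047136 0 0) (P.cons (P.lf 5481540 0 0) (P.cons (P.lf 0 2693306 0) (P.cons (P.lf 0 79104 0) P.nil)))) (P.cons (P.cons (P.lf 104729776 0 0) (P.cons (P.lf 439191 0 0) (P.cons (P.lf 0 219092 0) P.nil))) (P.cons (P.cons (P.lf 0 13010643 0) (P.cons (P.lf 0 237167 0) P.nil)) (P.cons (P.cons (P.lf 0 2854686 0) P.nil) P.nil)))))) 975511)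
 (EL.cons 7 (TM.mk (P.cons (P.cons (P.lf 0 1254977424 0) (P.cons (P.lf 0 22972558 0) (P.cons (P.lf 11263516 0 0) (P.cons (P.lf 355185 0 0) (P.cons (P.lf 0 23096 0) (P.cons (P.lf 0 1123 0) P.nil)))))) (P.cons (P.cons (P.lf 0 365297964 0) (P.cons (P.lf 0 3228571 0) (P.cons (P.lf 1596668 0 0) (P.cons (P.lf 36358 0 0) (P.cons (P.lf 0 192 0) P.nil))))) (P.cons (P.cons (P.lf 0 1498776 0) (P.cons (P.lf 710019 0 0) (P.cons (P.lf 0 347005 0) (P.cons (P.lf 0 12075 0) P.nil)))) (P.cons (P.cons (P.lf 38294421 0 0) (P.cons (P.lf 396871 0 0) (P.cons (P.lf 0 195730 0) P.nil))) (P.cons (P.cons (P.lf 3809783 0 0) (P.cons (P.lf 0 21029 0) P.nil)) (P.cons (P.cons (P.lf 0 1314799 0) P.nil) P.nil)))))) 598855)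
 (EL.cons 10 (TM.mk (P.cons (P.cons (P.lf 362708382 0 0) (P.cons (P.lf 0 364346640 0) (P.cons (P.lf 0 8414502 0) (P.cons (P.lf 1951266 0 0) (P.cons (P.lf 62154 0 0) (P.cons (P.lf 0 1764 0) P.nil)))))) (P.cons (P.cons (P.lf 0 64382310 0) (P.cons (P.lf 64487490 0 0) (P.cons (P.lf 1773408 0 0) (P.cons (P.lf 0 435270 0) (P.cons (P.lf 0 14388 0) P.nil))))) (P.cons (P.cons (P.lf 0 16010970 0) (P.cons (P.lf 16179288 0 0) (P.cons (P.lf 226716 0 0) (P.cons (P.lf 0 40140 0) P.nil)))) (P.cons (P.cons (P.lf 2640576 0 0) (P.cons (P.lf 0 2652516 0) (P.cons (P.lf 0 61236 0) P.nil))) (P.cons (P.cons (P.lf 295758 0 0) (P.cons (P.lf 0 300114 0) P.nil)) (P.cons (P.cons (P.lf 0 56262 0) P.nil) P.nil)))))) 105726)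
 EL.nil))))
noncomputable def S285_314_771_808_9 : EL := (EL.cons 3 (TM.mk (P.cons (P.lf 1320724353 0 0) (P.cons (P.lf 409570215 0 0) (P.cons (P.lf 0 14623338 0) (P.cons (P.lf 0 1245645 0) (P.cons (P.lf 85526 0 0) (P.cons (P.lf 2831 0 0) P.nil)))))) 532)
 (EL.cons 7 (TM.mk (P.cons (P.lf 0 1997870342 0) (P.cons (P.lf 96267727 0 0) (P.cons (P.lf 13808992 0 0) (P.cons (P.lf 0 693290 0) (P.cons (P.lf 0 37347 0) (P.cons (P.lf 3551 0 0) P.nil)))))) 296)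
 EL.nil))
noncomputable def S285_314_771_808_10 : EL := (EL.cons 3 (TM.mk (P.cons (P.cons (P.lf 0 848124501 0) (P.cons (P.lf 0 6843690 0) (P.cons (P.lf 3386362 0 0) (P.lf 75251 0 0)))) (P.cons (P.cons (P.lf 0 194200399 0) (P.cons (P.lf 0 1133005 0) (P.cons (P.lf 560629 0 0) (P.lf 12458 0 0)))) (P.cons (P.cons (P.lf 65044823 0 0) (P.cons (P.lf 476802 0 0) (P.cons (P.lf 0 235928 0) (P.lf 0 5241 0)))) (P.cons (P.cons (P.lf 9756905 0 0) (P.cons (P.lf 4691 0 0) (P.cons (P.lf 0 2321 0) P.nil))) (P.cons (P.cons (P.lf 0 1221385 0) (P.cons (P.lf 0 8979 0) P.nil)) (P.cons (P.cons (P.lf 0 134433 0) P.nil) P.nil)))))) 30852)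
 (EL.cons 7 (TM.mk (P.cons (P.cons (P.lf 1282964748 0 0) (P.cons (P.lf 10352506 0 0) (P.cons (P.lf 0 5122578 0) (P.lf 0 113833 0)))) (P.cons (P.cons (P.lf 0 165911945 0) (P.cons (P.lf 0 1995348 0) (P.cons (P.lf 987327 0 0) (P.lf 21938 0 0)))) (P.cons (P.cons (P.lf 0 55760522 0) (P.cons (P.lf 0 141999 0) (P.cons (P.lf 70263 0 0) (P.lf 1560 0 0)))) (P.cons (P.cons (P.lf 5061427 0 0) (P.cons (P.lf 51109 0 0) (P.cons (P.lf 0 25289 0) P.nil))) (P.cons (P.cons (P.lf 938235 0 0) (P.cons (P.lf 0 274 0) P.nil)) (P.cons (P.cons (P.lf 0 94097 0) P.nil) P.nil)))))) 22584)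
 EL.nil))
noncomputable def S285_314_771_808_11 : EL := (EL.cons 3 (TM.mk (P.cons (P.cons (P.lf 544636863 0 0) (P.cons (P.lf 8789572 0 0) (P.cons (P.lf 0 4313752 0) (P.cons (P.lf 0 131742 0) (P.cons (P.lf 7902 0 0) (P.cons (P.lf 385 0 0) P.nil)))))) (P.cons (P.cons (P.lf 80520357 0 0) (P.cons (P.lf 742022 0 0) (P.cons (P.lf 0 366420 0) (P.cons (P.lf 0 8896 0) (P.cons (P.lf 165 0 0) P.nil))))) (P.cons (P.cons (P.lf 0 73923640 0) (P.cons (P.lf 0 1086060 0) (P.cons (P.lf 533590 0 0) (P.cons (P.lf 15708 0 0) P.nil)))) (P.cons (P.cons (P.lf 0 7329902 0) (P.cons (P.lf 0 5655 0) (P.cons (P.lf 3154 0 0) P.nil))) (P.cons (P.cons (P.lf 3398007 0 0) (P.cons (P.lf 42895 0 0) P.nil)) (P.cons (P.cons (P.lf 281868 0 0) P.nil) P.nil)))))) 153927)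
 (EL.cons 7 (TM.mk (P.cons (P.cons (P.lf 0 823876560 0) (P.cons (P.lf 0 13296058 0) (P.cons (P.lf 6525448 0 0) (P.cons (P.lf 199287 0 0) (P.cons (P.lf 0 11954 0) (P.cons (P.lf 0 583 0) P.nil)))))) (P.cons (P.cons (P.lf 173387442 0 0) (P.cons (P.lf 3641453 0 0) (P.cons (P.lf 0 1783750 0) (P.cons (P.lf 0 57944 0) (P.cons (P.lf 4032 0 0) P.nil))))) (P.cons (P.cons (P.lf 60497172 0 0) (P.cons (P.lf 512409 0 0) (P.cons (P.lf 0 253567 0) (P.cons (P.lf 0 5613 0) P.nil)))) (P.cons (P.cons (P.lf 0 11362359 0) (P.cons (P.lf 0 198587 0) (P.cons (P.lf 97592 0 0) P.nil))) (P.cons (P.cons (P.lf 0 2094751 0) (P.cons (P.lf 0 5741 0) P.nil)) (P.cons (P.cons (P.lf 354041 0 0) P.nil) P.nil)))))) 118281)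
 EL.nil))
noncomputable def S285_314_771_808_12 : EL := (EL.cons 4 (TM.mk (P.cons (P.lf 0 1320724353 0) (P.cons (P.lf 0 409570215 0) (P.cons (P.lf 14623338 0 0) (P.cons (P.lf 1245645 0 0) (P.cons (P.lf 0 85526 0) (P.cons (P.lf 0 2831 0) P.nil)))))) 532)
 (EL.cons 8 (TM.mk (P.cons (P.lf 1997870342 0 0) (P.cons (P.lf 0 96267727 0) (P.cons (P.lf 0 13808992 0) (P.cons (P.lf 693290 0 0) (P.cons (P.lf 37347 0 0) (P.cons (P.lf 0 3551 0) P.nil)))))) 296)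
 EL.nil))
noncomputable def S285_314_771_808_13 : EL := (EL.cons 4 (TM.mk (P.cons (P.cons (P.lf 848124501 0 0) (P.cons (P.lf 6843690 0 0) (P.cons (P.lf 0 3386362 0) (P.lf 0 75251 0)))) (P.cons (P.cons (P.lf 194200399 0 0) (P.cons (P.lf 1133005 0 0) (P.cons (P.lf 0 560629 0) (P.lf 0 12458 0)))) (P.cons (P.cons (P.lf 0 65044823 0) (P.cons (P.lf 0 476802 0) (P.cons (P.lf 235928 0 0) (P.lf 5241 0 0)))) (P.cons (P.cons (P.lf 0 9756905 0) (P.cons (P.lf 0 4691 0) (P.cons (P.lf 2321 0 0) P.nil))) (P.cons (P.cons (P.lf 1221385 0 0) (P.cons (P.lf 8979 0 0) P.nil)) (P.cons (P.cons (P.lf 134433 0 0) P.nil) P.nil)))))) 30852)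
 (EL.cons 8 (TM.mk (P.cons (P.cons (P.lf 0 1282964748 0) (P.cons (P.lf 0 10352506 0) (P.cons (P.lf 5122578 0 0) (P.lf 113833 0 0)))) (P.cons (P.cons (P.lf 165911945 0 0) (P.cons (P.lf 1995348 0 0) (P.cons (P.lf 0 987327 0) (P.lf 0 21938 0)))) (P.cons (P.cons (P.lf 55760522 0 0) (P.cons (P.lf 141999 0 0) (P.cons (P.lf 0 70263 0) (P.lf 0 1560 0)))) (P.cons (P.cons (P.lf 0 5061427 0) (P.cons (P.lf 0 51109 0) (P.cons (P.lf 25289 0 0) P.nil))) (P.cons (P.cons (P.lf 0 938235 0) (P.cons (P.lf 274 0 0) P.nil)) (P.cons (P.cons (P.lf 94097 0 0) P.nil) P.nil)))))) 22584)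
 EL.nil))
noncomputable def S285_314_771_808_14 : EL := (EL.cons 4 (TM.mk (P.cons (P.cons (P.lf 0 544636863 0) (P.cons (P.lf 0 8789572 0) (P.cons (P.lf 4313752 0 0) (P.cons (P.lf 131742 0 0) (P.cons (P.lf 0 7902 0) (P.cons (P.lf 0 385 0) P.nil)))))) (P.cons (P.cons (P.lf 0 80520357 0) (P.cons (P.lf 0 742022 0) (P.cons (P.lf 366420 0 0) (P.cons (P.lf 8896 0 0) (P.cons (P.lf 0 165 0) P.nil))))) (P.cons (P.cons (P.lf 73923640 0 0) (P.cons (P.lf 1086060 0 0) (P.cons (P.lf 0 533590 0) (P.cons (P.lf 0 15708 0) P.nil)))) (P.cons (P.cons (P.lf 7329902 0 0) (P.cons (P.lf 5655 0 0) (P.cons (P.lf 0 3154 0) P.nil))) (P.cons (P.cons (P.lf 0 3398007 0) (P.cons (P.lf 0 42895 0) P.nil)) (P.cons (P.cons (P.lf 0 281868 0) P.nil) P.nil)))))) 153927)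
 (EL.cons 8 (TM.mk (P.cons (P.cons (P.lf 823876560 0 0) (P.cons (P.lf 13296058 0 0) (P.cons (P.lf 0 6525448 0) (P.cons (P.lf 0 199287 0) (P.cons (P.lf 11954 0 0) (P.cons (P.lf 583 0 0) P.nil)))))) (P.cons (P.cons (P.lf 0 173387442 0) (P.cons (P.lf 0 3641453 0) (P.cons (P.lf 1783750 0 0) (P.cons (P.lf 57944 0 0) (P.cons (P.lf 0 4032 0) P.nil))))) (P.cons (P.cons (P.lf 0 60497172 0) (P.cons (P.lf 0 512409 0) (P.cons (P.lf 253567 0 0) (P.cons (P.lf 5613 0 0) P.nil)))) (P.cons (P.cons (P.lf 11362359 0 0) (P.cons (P.lf 198587 0 0) (P.cons (P.lf 0 97592 0) P.nil))) (P.cons (P.cons (P.lf 2094751 0 0) (P.cons (P.lf 5741 0 0) P.nil)) (P.cons (P.cons (P.lf 0 354041 0) P.nil) P.nil)))))) 118281)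
 EL.nil))
noncomputable def S285_314_771_808_15 : EL := (EL.cons 4 (TM.mk (P.cons (P.lf 0 433204774 0) (P.cons (P.lf 0 268682518 0) (P.cons (P.lf 0 32067537 0) (P.cons (P.lf 3792065 0 0) (P.cons (P.lf 144194 0 0) (P.cons (P.lf 0 28304 0) P.nil)))))) 2128)
 (EL.cons 8 (TM.mk (P.cons (P.lf 655312343 0 0) (P.cons (P.lf 171642763 0 0) (P.cons (P.lf 0 21577328 0) (P.cons (P.lf 0 1445658 0) (P.cons (P.lf 205138 0 0) (P.cons (P.lf 3748 0 0) P.nil)))))) 1533)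
 EL.nil))
noncomputable def S285_314_771_808_16 : EL := (EL.cons 4 (TM.mk (P.cons (P.cons (P.lf 278189451 0 0) (P.cons (P.lf 2244767 0 0) (P.cons (P.lf 0 1110745 0) (P.lf 0 24682 0)))) (P.cons (P.cons (P.lf 149968199 0 0) (P.cons (P.lf 1067757 0 0) (P.cons (P.lf 0 528343 0) (P.lf 0 11740 0)))) (P.cons (P.cons (P.lf 0 4661578 0) (P.cons (P.lf 0 66000 0) (P.cons (P.lf 32657 0 0) (P.lf 724 0 0)))) (P.cons (P.cons (P.lf 0 10784199 0) (P.cons (P.lf 0 56269 0) (P.cons (P.lf 27842 0 0) P.nil))) (P.cons (P.cons (P.lf 0 397666 0) (P.cons (P.lf 3994 0 0) P.nil)) (P.cons (P.cons (P.lf 228609 0 0) P.nil) P.nil)))))) 38381)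
 (EL.cons 8 (TM.mk (P.cons (P.cons (P.lf 0 420819418 0) (P.cons (P.lf 0 3395677 0) (P.cons (P.lf 1680233 0 0) (P.lf 37337 0 0)))) (P.cons (P.cons (P.lf 0 76080411 0) (P.cons (P.lf 0 398549 0) (P.cons (P.lf 197208 0 0) (P.lf 4382 0 0)))) (P.cons (P.cons (P.lf 39825364 0 0) (P.cons (P.lf 287136 0 0) (P.cons (P.lf 0 142079 0) (P.lf 0 3156 0)))) (P.cons (P.cons (P.lf 3806012 0 0) (P.cons (P.lf 0 6364 0) (P.cons (P.lf 3149 0 0) P.nil))) (P.cons (P.cons (P.lf 0 1103669 0) (P.cons (P.lf 0 6461 0) P.nil)) (P.cons (P.cons (P.lf 0 60816 0) P.nil) P.nil)))))) 28595)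
 EL.nil))
noncomputable def S285_314_771_808_17 : EL := (EL.cons 4 (TM.mk (P.cons (P.cons (P.lf 0 178643854 0) (P.cons (P.lf 0 2883027 0) (P.cons (P.lf 1414934 0 0) (P.cons (P.lf 43211 0 0) (P.cons (P.lf 0 2591 0) (P.cons (P.lf 0 125 0) P.nil)))))) (P.cons (P.cons (P.lf 0 81810413 0) (P.cons (P.lf 0 1137443 0) (P.cons (P.lf 558973 0 0) (P.cons (P.lf 16318 0 0) (P.cons (P.lf 0 857 0) P.nil))))) (P.cons (P.cons (P.lf 18034980 0 0) (P.cons (P.lf 312677 0 0) (P.cons (P.lf 0 153415 0) (P.cons (P.lf 0 4725 0) P.nil)))) (P.cons (P.cons (P.lf 10384519 0 0) (P.cons (P.lf 117740 0 0) (P.cons (P.lf 0 57975 0) P.nil))) (P.cons (P.cons (P.lf 0 624113 0) (P.cons (P.lf 0 17395 0) P.nil)) (P.cons (P.cons (P.lf 0 489675 0) P.nil) P.nil)))))) 143100)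
 (EL.cons 8 (TM.mk (P.cons (P.cons (P.lf 270235994 0 0) (P.cons (P.lf 4361179 0 0) (P.cons (P.lf 0 2140382 0) (P.cons (P.lf 0 65367 0) (P.cons (P.lf 3920 0 0) (P.cons (P.lf 191 0 0) P.nil)))))) (P.cons (P.cons (P.lf 26930938 0 0) (P.cons (P.lf 158030 0 0) (P.cons (P.lf 0 78674 0) (P.cons (P.lf 0 1264 0) (P.cons (P.lf 0 107 0) P.nil))))) (P.cons (P.cons (P.lf 0 40472111 0) (P.cons (P.lf 0 586761 0) (P.cons (P.lf 288309 0 0) (P.cons (P.lf 8458 0 0) P.nil)))) (P.cons (P.cons (P.lf 0 2051901 0) (P.cons (P.lf 22128 0 0) (P.cons (P.lf 0 10678 0) P.nil))) (P.cons (P.cons (P.lf 2133693 0 0) (P.cons (P.lf 25352 0 0) P.nil)) (P.cons (P.cons (P.lf 71292 0 0) P.nil) P.nil)))))) 106934)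
 EL.nil))
noncomputable def S285_314_771_808_18 : EL := (EL.cons 4 (TM.mk (P.cons (P.lf 0 142093522 0) (P.cons (P.lf 0 132193991 0) (P.cons (P.lf 0 36274848 0) (P.cons (P.lf 0 908220 0) (P.cons (P.lf 623396 0 0) (P.cons (P.lf 0 4479 0) P.nil)))))) 6741)
 (EL.cons 8 (TM.mk (P.cons (P.lf 214946014 0 0) (P.cons (P.lf 122956731 0 0) (P.cons (P.lf 8001726 0 0) (P.cons (P.lf 0 3495072 0) (P.cons (P.lf 0 40579 0) (P.cons (P.lf 38127 0 0) P.nil)))))) 3726)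
 EL.nil))
noncomputable def S285_314_771_808_19 : EL := (EL.cons 4 (TM.mk (P.cons (P.cons (P.lf 91247653 0 0) (P.cons (P.lf 736295 0 0) (P.cons (P.lf 0 364330 0) (P.lf 0 8095 0)))) (P.cons (P.cons (P.lf 77487221 0 0) (P.cons (P.lf 578563 0 0) (P.cons (P.lf 0 286281 0) (P.lf 0 6360 0)))) (P.cons (P.cons (P.lf 12715108 0 0) (P.cons (P.lf 78808 0 0) (P.cons (P.lf 0 38995 0) (P.lf 0 866 0)))) (P.cons (P.cons (P.lf 0 4642149 0) (P.cons (P.lf 0 29742 0) (P.cons (P.lf 14716 0 0) P.nil))) (P.cons (P.cons (P.lf 0 1250938 0) (P.cons (P.lf 0 4455 0) P.nil)) (P.cons (P.cons (P.lf 78523 0 0) P.nil) P.nil)))))) 45923)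
 (EL.cons 8 (TM.mk (P.cons (P.cons (P.lf 0 138031059 0) (P.cons (P.lf 0 1113800 0) (P.cons (P.lf 551125 0 0) (P.lf 12246 0 0)))) (P.cons (P.cons (P.lf 0 67759640 0) (P.cons (P.lf 0 476127 0) (P.cons (P.lf 235595 0 0) (P.lf 5235 0 0)))) (P.cons (P.cons (P.lf 6852508 0 0) (P.cons (P.lf 65974 0 0) (P.cons (P.lf 0 32645 0) (P.lf 0 724 0)))) (P.cons (P.cons (P.lf 5705832 0 0) (P.cons (P.lf 29617 0 0) (P.cons (P.lf 0 14654 0) P.nil))) (P.cons (P.cons (P.lf 0 104908 0) (P.cons (P.lf 0 3758 0) P.nil)) (P.cons (P.cons (P.lf 0 160265 0) P.nil) P.nil)))))) 31412)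
 EL.nil))
noncomputable def S285_314_771_808_20 : EL := (EL.cons 4 (TM.mk (P.cons (P.cons (P.lf 0 58596155 0) (P.cons (P.lf 0 945648 0) (P.cons (P.lf 464105 0 0) (P.cons (P.lf 14173 0 0) (P.cons (P.lf 0 849 0) (P.cons (P.lf 0 41 0) P.nil)))))) (P.cons (P.cons (P.lf 0 45005531 0) (P.cons (P.lf 0 666343 0) (P.cons (P.lf 327270 0 0) (P.cons (P.lf 9748 0 0) (P.cons (P.lf 0 544 0) P.nil))))) (P.cons (P.cons (P.lf 0 1757219 0) (P.cons (P.lf 0 2667 0) (P.cons (P.lf 1397 0 0) (P.cons (P.lf 0 46 0) P.nil)))) (P.cons (P.cons (P.lf 5593038 0 0) (P.cons (P.lf 75447 0 0) (P.cons (P.lf 0 37088 0) P.nil))) (P.cons (P.cons (P.lf 807594 0 0) (P.cons (P.lf 5425 0 0) P.nil)) (P.cons (P.cons (P.lf 0 269255 0) P.nil) P.nil)))))) 116313)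
 (EL.cons 8 (TM.mk (P.cons (P.cons (P.lf 88638876 0 0) (P.cons (P.lf 1430490 0 0) (P.cons (P.lf 0 702056 0) (P.cons (P.lf 0 21440 0) (P.cons (P.lf 1285 0 0) (P.cons (P.lf 62 0 0) P.nil)))))) (P.cons (P.cons (P.lf 36321322 0 0) (P.cons (P.lf 495444 0 0) (P.cons (P.lf 0 243520 0) (P.cons (P.lf 0 7063 0) (P.cons (P.lf 363 0 0) P.nil))))) (P.cons (P.cons (P.lf 0 11517143 0) (P.cons (P.lf 0 192225 0) (P.cons (P.lf 94337 0 0) (P.cons (P.lf 2883 0 0) P.nil)))) (P.cons (P.cons (P.lf 0 4971177 0) (P.cons (P.lf 0 54348 0) (P.cons (P.lf 26771 0 0) P.nil))) (P.cons (P.cons (P.lf 635541 0 0) (P.cons (P.lf 12741 0 0) P.nil)) (P.cons (P.cons (P.lf 261153 0 0) P.nil) P.nil)))))) 96326)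
 EL.nil))
noncomputable def S285_314_771_808_21 : EL := (EL.cons 4 (TM.mk (P.cons (P.cons (P.lf 0 1428068724 0) (P.cons (P.lf 0 20531070 0) (P.cons (P.lf 10159086 0 0) (P.lf 225753 0 0)))) (P.cons (P.cons (P.lf 0 1388648748 0) (P.cons (P.lf 0 3399015 0) (P.cons (P.lf 1681887 0 0) (P.lf 37374 0 0)))) (P.cons (P.cons (P.lf 98931858 0 0) (P.cons (P.lf 1430406 0 0) (P.cons (P.lf 0 707784 0) (P.lf 0 15723 0)))) (P.cons (P.cons (P.lf 40646907 0 0) (P.cons (P.lf 14073 0 0) (P.cons (P.lf 0 6963 0) P.nil))) (P.cons (P.cons (P.lf 0 3231573 0) (P.cons (P.lf 0 26937 0) P.nil)) (P.cons (P.cons (P.lf 0 488214 0) P.nil) P.nil)))))) 99231)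
 (EL.cons 8 (TM.mk (P.cons (P.cons (P.lf 0 335661459 0) (P.cons (P.lf 0 4825746 0) (P.cons (P.lf 2387853 0 0) (P.lf 53067 0 0)))) (P.cons (P.cons (P.lf 0 446661921 0) (P.cons (P.lf 0 2527962 0) (P.cons (P.lf 1250871 0 0) (P.lf 27792 0 0)))) (P.cons (P.cons (P.lf 0 98091237 0) (P.cons (P.lf 0 13272 0) (P.cons (P.lf 6567 0 0) (P.lf 144 0 0)))) (P.cons (P.cons (P.lf 12998208 0 0) (P.cons (P.lf 104523 0 0) (P.cons (P.lf 0 51720 0) P.nil))) (P.cons (P.cons (P.lf 2341419 0 0) (P.cons (P.lf 0 2676 0) P.nil)) (P.cons (P.cons (P.lf 0 255411 0) P.nil) P.nil)))))) 75165)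
 (EL.cons 11 (TM.mk (P.cons (P.cons (P.lf 282410070 0 0) (P.cons (P.lf 0 285964464 0) (P.cons (P.lf 0 3116553 0) (P.cons (P.lf 427704 0 0) (P.lf 7128 0 0))))) (P.cons (P.cons (P.lf 0 27215955 0) (P.cons (P.lf 27558492 0 0) (P.cons (P.lf 300342 0 0) (P.cons (P.lf 0 41217 0) (P.lf 0 684 0))))) (P.cons (P.cons (P.lf 0 3248250 0) (P.cons (P.lf 3289134 0 0) (P.cons (P.lf 35844 0 0) (P.cons (P.lf 0 4917 0) P.nil)))) (P.cons (P.cons (P.lf 384111 0 0) (P.cons (P.lf 0 388947 0) (P.cons (P.lf 0 4236 0) P.nil))) (P.cons (P.cons (P.lf 14604 0 0) (P.cons (P.lf 0 14787 0) P.nil)) (P.cons (P.cons (P.lf 0 2865 0) P.nil) P.nil)))))) 4422)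
 EL.nil)))
noncomputable def S285_314_771_808_22 : EL := (EL.cons 4 (TM.mk (P.cons (P.cons (P.lf 917057424 0 0) (P.cons (P.lf 20584281 0 0) (P.cons (P.lf 0 10079028 0) (P.cons (P.lf 0 331620 0) (P.cons (P.lf 23706 0 0) (P.cons (P.lf 1155 0 0) P.nil)))))) (P.cons (P.cons (P.lf 817338708 0 0) (P.cons (P.lf 7238991 0 0) (P.cons (P.lf 0 3579732 0) (P.cons (P.lf 0 81807 0) (P.cons (P.lf 495 0 0) P.nil))))) (P.cons (P.cons (P.lf 0 172985388 0) (P.cons (P.lf 0 3283800 0) (P.cons (P.lf 1613448 0 0) (P.cons (P.lf 47406 0 0) P.nil)))) (P.cons (P.cons (P.lf 0 56029839 0) (P.cons (P.lf 0 222423 0) (P.cons (P.lf 111123 0 0) P.nil))) (P.cons (P.cons (P.lf 8204325 0 0) (P.cons (P.lf 140031 0 0) P.nil)) (P.cons (P.cons (P.lf 1568277 0 0) P.nil) P.nil)))))) 410781)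
 (EL.cons 8 (TM.mk (P.cons (P.cons (P.lf 215550432 0 0) (P.cons (P.lf 4838250 0 0) (P.cons (P.lf 0 2369034 0) (P.cons (P.lf 0 77949 0) (P.cons (P.lf 5571 0 0) (P.cons (P.lf 270 0 0) P.nil)))))) (P.cons (P.cons (P.lf 269342703 0 0) (P.cons (P.lf 3435012 0 0) (P.cons (P.lf 0 1690209 0) (P.cons (P.lf 0 47151 0) (P.cons (P.lf 2112 0 0) P.nil))))) (P.cons (P.cons (P.lf 30997974 0 0) (P.cons (P.lf 0 98805 0) (P.cons (P.lf 46719 0 0) (P.cons (P.lf 3231 0 0) P.nil)))) (P.cons (P.cons (P.lf 0 24828390 0) (P.cons (P.lf 0 297729 0) (P.cons (P.lf 146661 0 0) P.nil))) (P.cons (P.cons (P.lf 0 2952267 0) (P.cons (P.lf 7644 0 0) P.nil)) (P.cons (P.cons (P.lf 834420 0 0) P.nil) P.nil)))))) 240276)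
 (EL.cons 11 (TM.mk (P.cons (P.cons (P.lf 0 181354191 0) (P.cons (P.lf 182173320 0 0) (P.cons (P.lf 4207251 0 0) (P.cons (P.lf 0 975633 0) (P.cons (P.lf 0 31077 0) (P.cons (P.lf 882 0 0) P.nil)))))) (P.cons (P.cons (P.lf 32191155 0 0) (P.cons (P.lf 0 32243745 0) (P.cons (P.lf 0 886704 0) (P.cons (P.lf 217635 0 0) (P.cons (P.lf 7194 0 0) P.nil))))) (P.cons (P.cons (P.lf 8005485 0 0) (P.cons (P.lf 0 8089644 0) (P.cons (P.lf 0 113358 0) (P.cons (P.lf 20070 0 0) P.nil)))) (P.cons (P.cons (P.lf 0 1320288 0) (P.cons (P.lf 1326258 0 0) (P.cons (P.lf 30618 0 0) P.nil))) (P.cons (P.cons (P.lf 0 147879 0) (P.cons (P.lf 150057 0 0) P.nil)) (P.cons (P.cons (P.lf 28131 0 0) P.nil) P.nil)))))) 52863)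
 EL.nil)))
noncomputable def S285_314_771_808_23 : EL := (EL.cons 4 (TM.mk (P.cons (P.cons (P.lf 0 468414312 0) (P.cons (P.lf 0 6734301 0) (P.cons (P.lf 3332235 0 0) (P.lf 74046 0 0)))) (P.cons (P.cons (P.lf 0 600744444 0) (P.cons (P.lf 0 3203271 0) (P.cons (P.lf 1585026 0 0) (P.lf 35220 0 0)))) (P.cons (P.cons (P.lf 0 103613811 0) (P.cons (P.lf 198003 0 0) (P.cons (P.lf 0 97974 0) (P.lf 0 2175 0)))) (P.cons (P.cons (P.lf 28880547 0 0) (P.cons (P.lf 168807 0 0) (P.cons (P.lf 0 83529 0) P.nil))) (P.cons (P.cons (P.lf 3114504 0 0) (P.cons (P.lf 0 11982 0) P.nil)) (P.cons (P.cons (P.lf 0 697569 0) P.nil) P.nil)))))) 134169)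
 (EL.cons 8 (TM.mk (P.cons (P.cons (P.lf 0 110098785 0) (P.cons (P.lf 0 1582869 0) (P.cons (P.lf 783228 0 0) (P.lf 17406 0 0)))) (P.cons (P.cons (P.lf 0 180650304 0) (P.cons (P.lf 0 1320048 0) (P.cons (P.lf 653178 0 0) (P.lf 14511 0 0)))) (P.cons (P.cons (P.lf 0 76388916 0) (P.cons (P.lf 0 243966 0) (P.cons (P.lf 120717 0 0) (P.lf 2679 0 0)))) (P.cons (P.cons (P.lf 0 3988143 0) (P.cons (P.lf 43605 0 0) (P.cons (P.lf 0 21576 0) P.nil))) (P.cons (P.cons (P.lf 2577438 0 0) (P.cons (P.lf 10479 0 0) P.nil)) (P.cons (P.cons (P.lf 127803 0 0) P.nil) P.nil)))))) 82677)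
 (EL.cons 11 (TM.mk (P.cons (P.cons (P.lf 92632038 0 0) (P.cons (P.lf 0 93797898 0) (P.cons (P.lf 0 1022244 0) (P.cons (P.lf 140289 0 0) (P.lf 2337 0 0))))) (P.cons (P.cons (P.lf 19799166 0 0) (P.cons (P.lf 0 20048358 0) (P.cons (P.lf 0 218493 0) (P.cons (P.lf 29985 0 0) (P.lf 498 0 0))))) (P.cons (P.cons (P.lf 0 4859433 0) (P.cons (P.lf 4920594 0 0) (P.cons (P.lf 53625 0 0) (P.cons (P.lf 0 7356 0) P.nil)))) (P.cons (P.cons (P.lf 0 192939 0) (P.cons (P.lf 195366 0 0) (P.cons (P.lf 2127 0 0) P.nil))) (P.cons (P.cons (P.lf 70074 0 0) (P.cons (P.lf 0 70956 0) P.nil)) (P.cons (P.cons (P.lf 0 222 0) P.nil) P.nil)))))) 9324)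
 EL.nil)))
noncomputable def S285_314_771_808_24 : EL := (EL.cons 4 (TM.mk (P.cons (P.cons (P.lf 300799824 0 0) (P.cons (P.lf 6751755 0 0) (P.cons (P.lf 0 3305976 0) (P.cons (P.lf 0 108771 0) (P.cons (P.lf 7776 0 0) (P.cons (P.lf 378 0 0) P.nil)))))) (P.cons (P.cons (P.lf 361372665 0 0) (P.cons (P.lf 4468215 0 0) (P.cons (P.lf 0 2199387 0) (P.cons (P.lf 0 60564 0) (P.cons (P.lf 2574 0 0) P.nil))))) (P.cons (P.cons (P.lf 23067276 0 0) (P.cons (P.lf 0 415524 0) (P.cons (P.lf 201699 0 0) (P.cons (P.lf 8430 0 0) P.nil)))) (P.cons (P.cons (P.lf 0 39225861 0) (P.cons (P.lf 0 439635 0) (P.cons (P.lf 216684 0 0) P.nil))) (P.cons (P.cons (P.lf 0 2613303 0) (P.cons (P.lf 33429 0 0) P.nil)) (P.cons (P.cons (P.lf 1623936 0 0) P.nil) P.nil)))))) 404790)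
 (EL.cons 8 (TM.mk (P.cons (P.cons (P.lf 70701714 0 0) (P.cons (P.lf 1586970 0 0) (P.cons (P.lf 0 777054 0) (P.cons (P.lf 0 25566 0) (P.cons (P.lf 1827 0 0) (P.cons (P.lf 87 0 0) P.nil)))))) (P.cons (P.cons (P.lf 110271201 0 0) (P.cons (P.lf 1618839 0 0) (P.cons (P.lf 0 795369 0) (P.cons (P.lf 0 23394 0) (P.cons (P.lf 1260 0 0) P.nil))))) (P.cons (P.cons (P.lf 36781644 0 0) (P.cons (P.lf 299421 0 0) (P.cons (P.lf 0 147993 0) (P.cons (P.lf 0 3450 0) P.nil)))) (P.cons (P.cons (P.lf 0 6035664 0) (P.cons (P.lf 0 121677 0) (P.cons (P.lf 59730 0 0) P.nil))) (P.cons (P.cons (P.lf 0 3685170 0) (P.cons (P.lf 0 28377 0) P.nil)) (P.cons (P.cons (P.lf 59847 0 0) P.nil) P.nil)))))) 203403)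
 (EL.cons 11 (TM.mk (P.cons (P.cons (P.lf 0 59485161 0) (P.cons (P.lf 59753838 0 0) (P.cons (P.lf 1380000 0 0) (P.cons (P.lf 0 320013 0) (P.cons (P.lf 0 10191 0) (P.cons (P.lf 288 0 0) P.nil)))))) (P.cons (P.cons (P.lf 0 7888086 0) (P.cons (P.lf 7954155 0 0) (P.cons (P.lf 137106 0 0) (P.cons (P.lf 0 27852 0) (P.cons (P.lf 0 801 0) P.nil))))) (P.cons (P.cons (P.lf 6558888 0 0) (P.cons (P.lf 0 6594819 0) (P.cons (P.lf 0 142656 0) (P.cons (P.lf 32262 0 0) P.nil)))) (P.cons (P.cons (P.lf 320430 0 0) (P.cons (P.lf 0 327096 0) (P.cons (P.lf 429 0 0) P.nil))) (P.cons (P.cons (P.lf 0 225687 0) (P.cons (P.lf 227346 0 0) P.nil)) (P.cons (P.cons (P.lf 0 2940 0) P.nil) P.nil)))))) 57132)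
 EL.nil)))
noncomputable def S285_314_771_808_25 : EL := (EL.cons 4 (TM.mk (P.cons (P.cons (P.lf 0 153642441 0) (P.cons (P.lf 0 2208885 0) (P.cons (P.lf 1092990 0 0) (P.lf 24288 0 0)))) (P.cons (P.cons (P.lf 0 244693548 0) (P.cons (P.lf 0 1735689 0) (P.cons (P.lf 858843 0 0) (P.lf 19083 0 0)))) (P.cons (P.cons (P.lf 0 93391173 0) (P.cons (P.lf 0 236424 0) (P.cons (P.lf 116985 0 0) (P.lf 2598 0 0)))) (P.cons (P.cons (P.lf 1260258 0 0) (P.cons (P.lf 89226 0 0) (P.cons (P.lf 0 44151 0) P.nil))) (P.cons (P.cons (P.lf 4511436 0 0) (P.cons (P.lf 13368 0 0) P.nil)) (P.cons (P.cons (P.lf 2070 0 0) P.nil) P.nil)))))) 154269)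
 (EL.cons 8 (TM.mk (P.cons (P.cons (P.lf 0 36112998 0) (P.cons (P.lf 0 519189 0) (P.cons (P.lf 256902 0 0) (P.lf 5709 0 0)))) (P.cons (P.cons (P.lf 0 70453296 0) (P.cons (P.lf 0 593988 0) (P.cons (P.lf 293913 0 0) (P.lf 6531 0 0)))) (P.cons (P.cons (P.lf 0 43031493 0) (P.cons (P.lf 0 208545 0) (P.cons (P.lf 103191 0 0) (P.lf 2292 0 0)))) (P.cons (P.cons (P.lf 0 8388114 0) (P.cons (P.lf 0 5226 0) (P.cons (P.lf 2586 0 0) P.nil))) (P.cons (P.cons (P.lf 770718 0 0) (P.cons (P.lf 9132 0 0) P.nil)) (P.cons (P.cons (P.lf 338292 0 0) P.nil) P.nil)))))) 81642)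
 (EL.cons 11 (TM.mk (P.cons (P.cons (P.lf 30383811 0 0) (P.cons (P.lf 0 30766221 0) (P.cons (P.lf 0 335301 0) (P.cons (P.lf 46014 0 0) (P.lf 765 0 0))))) (P.cons (P.cons (P.lf 15916566 0 0) (P.cons (P.lf 0 16116891 0) (P.cons (P.lf 0 175647 0) (P.cons (P.lf 24105 0 0) (P.lf 402 0 0))))) (P.cons (P.cons (P.lf 83592 0 0) (P.cons (P.lf 0 84642 0) (P.cons (P.lf 0 921 0) (P.cons (P.lf 126 0 0) P.nil)))) (P.cons (P.cons (P.lf 0 658137 0) (P.cons (P.lf 666420 0 0) (P.cons (P.lf 7263 0 0) P.nil))) (P.cons (P.cons (P.lf 16848 0 0) (P.cons (P.lf 0 17061 0) P.nil)) (P.cons (P.cons (P.lf 9744 0 0) P.nil) P.nil)))))) 15639)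
 EL.nil)))
noncomputable def S285_314_771_808_26 : EL := (EL.cons 4 (TM.mk (P.cons (P.cons (P.lf 98663979 0 0) (P.cons (P.lf 2214612 0 0) (P.cons (P.lf 0 1084377 0) (P.cons (P.lf 0 35676 0) (P.cons (P.lf 2550 0 0) (P.cons (P.lf 123 0 0) P.nil)))))) (P.cons (P.cons (P.lf 149128914 0 0) (P.cons (P.lf 2152371 0 0) (P.cons (P.lf 0 1057686 0) (P.cons (P.lf 0 30927 0) (P.cons (P.lf 1635 0 0) P.nil))))) (P.cons (P.cons (P.lf 43231818 0 0) (P.cons (P.lf 293679 0 0) (P.cons (P.lf 0 145551 0) (P.cons (P.lf 0 2997 0) P.nil)))) (P.cons (P.cons (P.lf 0 11925408 0) (P.cons (P.lf 0 204783 0) (P.cons (P.lf 100599 0 0) P.nil))) (P.cons (P.cons (P.lf 0 5036328 0) (P.cons (P.lf 0 33483 0) P.nil)) (P.cons (P.cons (P.lf 410049 0 0) P.nil) P.nil)))))) 326895)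
 (EL.cons 8 (TM.mk (P.cons (P.cons (P.lf 23190546 0 0) (P.cons (P.lf 520533 0 0) (P.cons (P.lf 0 254877 0) (P.cons (P.lf 0 8385 0) (P.cons (P.lf 597 0 0) (P.cons (P.lf 27 0 0) P.nil)))))) (P.cons (P.cons (P.lf 43361181 0 0) (P.cons (P.lf 692409 0 0) (P.cons (P.lf 0 339924 0) (P.cons (P.lf 0 10272 0) (P.cons (P.lf 597 0 0) P.nil))))) (P.cons (P.cons (P.lf 23024358 0 0) (P.cons (P.lf 257112 0 0) (P.cons (P.lf 0 126624 0) (P.cons (P.lf 0 3417 0) P.nil)))) (P.cons (P.cons (P.lf 1339269 0 0) (P.cons (P.lf 0 15825 0) (P.cons (P.lf 7665 0 0) P.nil))) (P.cons (P.cons (P.lf 0 1988883 0) (P.cons (P.lf 0 23238 0) P.nil)) (P.cons (P.cons (P.lf 0 342282 0) P.nil) P.nil)))))) 133941)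
 (EL.cons 11 (TM.mk (P.cons (P.cons (P.lf 0 19511454 0) (P.cons (P.lf 19599582 0 0) (P.cons (P.lf 452646 0 0) (P.cons (P.lf 0 104964 0) (P.cons (P.lf 0 3342 0) (P.cons (P.lf 93 0 0) P.nil)))))) (P.cons (P.cons (P.lf 0 8638038 0) (P.cons (P.lf 8687037 0 0) (P.cons (P.lf 185340 0 0) (P.cons (P.lf 0 41685 0) (P.cons (P.lf 0 1299 0) P.nil))))) (P.cons (P.cons (P.lf 1565025 0 0) (P.cons (P.lf 0 1571067 0) (P.cons (P.lf 0 37857 0) (P.cons (P.lf 8910 0 0) P.nil)))) (P.cons (P.cons (P.lf 819309 0 0) (P.cons (P.lf 0 825471 0) (P.cons (P.lf 0 15291 0) P.nil))) (P.cons (P.cons (P.lf 0 64074 0) (P.cons (P.lf 64059 0 0) P.nil)) (P.cons (P.cons (P.lf 0 27321 0) P.nil) P.nil)))))) 50082)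
 EL.nil)))
noncomputable def S285_314_771_808_27 : EL := (EL.cons 13 (TM.mk (P.lf 0 4294967296 0) 0)
 EL.nil)
noncomputable def S285_314_771_808_28 : EL := (EL.cons 13 (TM.mk (P.cons (P.cons (P.lf 2758082705 0 0) (P.cons (P.lf 22255536 0 0) (P.cons (P.lf 0 11012380 0) (P.lf 0 244716 0)))) (P.cons (P.cons (P.lf 0 223774294 0) (P.cons (P.lf 0 3217160 0) (P.cons (P.lf 1591896 0 0) (P.lf 35372 0 0)))) (P.cons (P.cons (P.lf 0 111591587 0) (P.cons (P.lf 0 306460 0) (P.cons (P.lf 151640 0 0) (P.lf 3368 0 0)))) (P.cons (P.cons (P.lf 3000068 0 0) (P.cons (P.lf 65148 0 0) (P.cons (P.lf 0 32236 0) P.nil))) (P.cons (P.cons (P.lf 1416343 0 0) (P.cons (P.lf 1132 0 0) P.nil)) (P.cons (P.cons (P.lf 0 65497 0) P.nil) P.nil)))))) 23997)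
 EL.nil)
noncomputable def S285_314_771_808_29 : EL := (EL.cons 13 (TM.mk (P.cons (P.cons (P.lf 0 1771147411 0) (P.cons (P.lf 0 28583504 0) (P.cons (P.lf 14028232 0 0) (P.cons (P.lf 428423 0 0) (P.cons (P.lf 0 25699 0) (P.cons (P.lf 0 1254 0) P.nil)))))) (P.cons (P.cons (P.lf 287400563 0 0) (P.cons (P.lf 6450996 0 0) (P.cons (P.lf 0 3158705 0) (P.cons (P.lf 0 103924 0) (P.cons (P.lf 7430 0 0) P.nil))))) (P.cons (P.cons (P.lf 131661705 0 0) (P.cons (P.lf 1214842 0 0) (P.cons (P.lf 0 600355 0) (P.cons (P.lf 0 14114 0) P.nil)))) (P.cons (P.cons (P.lf 0 15481265 0) (P.cons (P.lf 0 313873 0) (P.cons (P.lf 154174 0 0) P.nil))) (P.cons (P.cons (P.lf 0 4405804 0) (P.cons (P.lf 0 20774 0) P.nil)) (P.cons (P.cons (P.lf 387602 0 0) P.nil) P.nil)))))) 161664)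
 EL.nil)
noncomputable def S285_314_771_808_30 : EL := (EL.cons 13 (TM.mk (P.cons (P.lf 0 1408772644 0) (P.cons (P.lf 0 436874896 0) (P.cons (P.lf 15598228 0 0) (P.cons (P.lf 1328688 0 0) (P.cons (P.lf 0 91228 0) (P.cons (P.lf 0 3020 0) P.nil)))))) 560)
 EL.nil)
noncomputable def S285_314_771_808_31 : EL := (EL.cons 13 (TM.mk (P.cons (P.cons (P.lf 904666135 0 0) (P.cons (P.lf 7299936 0 0) (P.cons (P.lf 0 3612120 0) (P.lf 0 80268 0)))) (P.cons (P.cons (P.lf 207147093 0 0) (P.cons (P.lf 1208539 0 0) (P.cons (P.lf 0 598005 0) (P.lf 0 13289 0)))) (P.cons (P.cons (P.lf 0 69381145 0) (P.cons (P.lf 0 508589 0) (P.cons (P.lf 251657 0 0) (P.lf 5591 0 0)))) (P.cons (P.cons (P.lf 0 10407366 0) (P.cons (P.lf 0 5004 0) (P.cons (P.lf 2476 0 0) P.nil))) (P.cons (P.cons (P.lf 1302811 0 0) (P.cons (P.lf 9578 0 0) P.nil)) (P.cons (P.cons (P.lf 143396 0 0) P.nil) P.nil)))))) 32889)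
 EL.nil)
noncomputable def S285_314_771_808_32 : EL := (EL.cons 13 (TM.mk (P.cons (P.cons (P.lf 0 580945988 0) (P.cons (P.lf 0 9375544 0) (P.cons (P.lf 4601336 0 0) (P.cons (P.lf 140525 0 0) (P.cons (P.lf 0 8429 0) (P.cons (P.lf 0 411 0) P.nil)))))) (P.cons (P.cons (P.lf 0 85888381 0) (P.cons (P.lf 0 791491 0) (P.cons (P.lf 390849 0 0) (P.cons (P.lf 9490 0 0) (P.cons (P.lf 0 176 0) P.nil))))) (P.cons (P.cons (P.lf 78851883 0 0) (P.cons (P.lf 1158464 0 0) (P.cons (P.lf 0 569163 0) (P.cons (P.lf 0 16756 0) P.nil)))) (P.cons (P.cons (P.lf 7818563 0 0) (P.cons (P.lf 6033 0 0) (P.cons (P.lf 0 3365 0) P.nil))) (P.cons (P.cons (P.lf 0 3624541 0) (P.cons (P.lf 0 45755 0) P.nil)) (P.cons (P.cons (P.lf 0 300660 0) P.nil) P.nil)))))) 164166)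
 EL.nil)
noncomputable def S285_314_771_808_33 : EL := (EL.cons 14 (TM.mk (P.lf 8589934592 0 0) 0)
 EL.nil)
noncomputable def S285_314_771_808_34 : EL := (EL.cons 14 (TM.mk (P.cons (P.cons (P.lf 0 5516165410 0) (P.cons (P.lf 0 44511072 0) (P.cons (P.lf 22024760 0 0) (P.lf 489432 0 0)))) (P.cons (P.cons (P.lf 447548588 0 0) (P.cons (P.lf 6434320 0 0) (P.cons (P.lf 0 3183792 0) (P.lf 0 70744 0)))) (P.cons (P.cons (P.lf 223183174 0 0) (P.cons (P.lf 612920 0 0) (P.cons (P.lf 0 303280 0) (P.lf 0 6736 0)))) (P.cons (P.cons (P.lf 0 6000136 0) (P.cons (P.lf 0 130296 0) (P.cons (P.lf 64472 0 0) P.nil))) (P.cons (P.cons (P.lf 0 2832686 0) (P.cons (P.lf 0 2264 0) P.nil)) (P.cons (P.cons (P.lf 130994 0 0) P.nil) P.nil)))))) 47994)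
 EL.nil)
noncomputable def S285_314_771_808_35 : EL := (EL.cons 14 (TM.mk (P.cons (P.cons (P.lf 3542294822 0 0) (P.cons (P.lf 57167008 0 0) (P.cons (P.lf 0 28056464 0) (P.cons (P.lf 0 856846 0) (P.cons (P.lf 51398 0 0) (P.cons (P.lf 2508 0 0) P.nil)))))) (P.cons (P.cons (P.lf 0 574801126 0) (P.cons (P.lf 0 12901992 0) (P.cons (P.lf 6317410 0 0) (P.cons (P.lf 207848 0 0) (P.cons (P.lf 0 14860 0) P.nil))))) (P.cons (P.cons (P.lf 0 263323410 0) (P.cons (P.lf 0 2429684 0) (P.cons (P.lf 1200710 0 0) (P.cons (P.lf 28228 0 0) P.nil)))) (P.cons (P.cons (P.lf 30962530 0 0) (P.cons (P.lf 627746 0 0) (P.cons (P.lf 0 308348 0) P.nil))) (P.cons (P.cons (P.lf 8811608 0 0) (P.cons (P.lf 41548 0 0) P.nil)) (P.cons (P.cons (P.lf 0 775204 0) P.nil) P.nil)))))) 323328)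
 EL.nil)
noncomputable def S285_314_771_808_36 : EL := (EL.cons 14 (TM.mk (P.cons (P.lf 2817545288 0 0) (P.cons (P.lf 873749792 0 0) (P.cons (P.lf 0 31196456 0) (P.cons (P.lf 0 2657376 0) (P.cons (P.lf 182456 0 0) (P.cons (P.lf 6040 0 0) P.nil)))))) 1120)
 EL.nil)
noncomputable def S285_314_771_808_37 : EL := (EL.cons 14 (TM.mk (P.cons (P.cons (P.lf 0 1809332270 0) (P.cons (P.lf 0 14599872 0) (P.cons (P.lf 7224240 0 0) (P.lf 160536 0 0)))) (P.cons (P.cons (P.lf 0 414294186 0) (P.cons (P.lf 0 2417078 0) (P.cons (P.lf 1196010 0 0) (P.lf 26578 0 0)))) (P.cons (P.cons (P.lf 138762290 0 0) (P.cons (P.lf 1017178 0 0) (P.cons (P.lf 0 503314 0) (P.lf 0 11182 0)))) (P.cons (P.cons (P.lf 20814732 0 0) (P.cons (P.lf 10008 0 0) (P.cons (P.lf 0 4952 0) P.nil))) (P.cons (P.cons (P.lf 0 2605622 0) (P.cons (P.lf 0 19156 0) P.nil)) (P.cons (P.cons (P.lf 0 286792 0) P.nil) P.nil))))))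 65778)
 EL.nil)
noncomputable def S285_314_771_808_38 : EL := (EL.cons 14 (TM.mk (P.cons (P.cons (P.lf 1161891976 0 0) (P.cons (P.lf 18751088 0 0) (P.cons (P.lf 0 9202672 0) (P.cons (P.lf 0 281050 0) (P.cons (P.lf 16858 0 0) (P.cons (P.lf 822 0 0) P.nil)))))) (P.cons (P.cons (P.lf 171776762 0 0) (P.cons (P.lf 1582982 0 0) (P.cons (P.lf 0 781698 0) (P.cons (P.lf 0 18980 0) (P.cons (P.lf 352 0 0) P.nil))))) (P.cons (P.cons (P.lf 0 157703766 0) (P.cons (P.lf 0 2316928 0) (P.cons (P.lf 1138326 0 0) (P.cons (P.lf 33512 0 0) P.nil)))) (P.cons (P.cons (P.lf 0 15637126 0) (P.cons (P.lf 0 12066 0) (P.cons (P.lf 6730 0 0) P.nil))) (P.cons (P.cons (P.lf 7249082 0 0) (P.cons (P.lf 91510 0 0) P.nil)) (P.cons (P.cons (P.lf 601320 0 0) P.nil) P.nil)))))) 328332)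
 EL.nil)
noncomputable def S285_314_771_808_39 : EL := (EL.cons 14 (TM.mk (P.cons (P.lf 924170186 0 0) (P.cons (P.lf 573189372 0 0) (P.cons (P.lf 68410746 0 0) (P.cons (P.lf 0 8089740 0) (P.cons (P.lf 0 307614 0) (P.cons (P.lf 60382 0 0) P.nil)))))) 4526)
 EL.nil)
noncomputable def S285_314_771_808_40 : EL := (EL.cons 14 (TM.mk (P.cons (P.cons (P.lf 0 593470830 0) (P.cons (P.lf 0 4788838 0) (P.cons (P.lf 2369590 0 0) (P.lf 52656 0 0)))) (P.cons (P.cons (P.lf 0 319932158 0) (P.cons (P.lf 0 2277882 0) (P.cons (P.lf 1127132 0 0) (P.lf 25046 0 0)))) (P.cons (P.cons (P.lf 9944700 0 0) (P.cons (P.lf 140802 0 0) (P.cons (P.lf 0 69670 0) (P.lf 0 1546 0)))) (P.cons (P.cons (P.lf 23006292 0 0) (P.cons (P.lf 120042 0 0) (P.cons (P.lf 0 59398 0) P.nil))) (P.cons (P.cons (P.lf 848356 0 0) (P.cons (P.lf 0 8522 0) P.nil)) (P.cons (P.cons (P.lf 0 487700 0) P.nil) P.nil)))))) 81840)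
 EL.nil)
noncomputable def S285_314_771_808_41 : EL := (EL.cons 14 (TM.mk (P.cons (P.cons (P.lf 381106890 0 0) (P.cons (P.lf 6150458 0 0) (P.cons (P.lf 0 3018526 0) (P.cons (P.lf 0 92184 0) (P.cons (P.lf 5528 0 0) (P.cons (P.lf 268 0 0) P.nil)))))) (P.cons (P.cons (P.lf 174528882 0 0) (P.cons (P.lf 2426546 0 0) (P.cons (P.lf 0 1192476 0) (P.cons (P.lf 0 34812 0) (P.cons (P.lf 1830 0 0) P.nil))))) (P.cons (P.cons (P.lf 0 38474624 0) (P.cons (P.lf 0 667046 0) (P.cons (P.lf 327286 0 0) (P.cons (P.lf 10082 0 0) P.nil)))) (P.cons (P.cons (P.lf 0 22153642 0) (P.cons (P.lf 0 251180 0) (P.cons (P.lf 123680 0 0) P.nil))) (P.cons (P.cons (P.lf 1331442 0 0) (P.cons (P.lf 37110 0 0) P.nil)) (P.cons (P.cons (P.lf 1044640 0 0) P.nil) P.nil)))))) 305234)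
 EL.nil)
noncomputable def S285_314_771_808_42 : EL := (EL.cons 14 (TM.mk (P.cons (P.lf 303132848 0 0) (P.cons (P.lf 282013848 0 0) (P.cons (P.lf 77386344 0 0) (P.cons (P.lf 1937536 0 0) (P.cons (P.lf 0 1329912 0) (P.cons (P.lf 9556 0 0) P.nil)))))) 14366)
 EL.nil)
noncomputable def S285_314_771_808_43 : EL := (EL.cons 14 (TM.mk (P.cons (P.cons (P.lf 0 194661660 0) (P.cons (P.lf 0 1570764 0) (P.cons (P.lf 777238 0 0) (P.lf 17270 0 0)))) (P.cons (P.cons (P.lf 0 165306072 0) (P.cons (P.lf 0 1234268 0) (P.cons (P.lf 610734 0 0) (P.lf 13570 0 0)))) (P.cons (P.cons (P.lf 0 27125564 0) (P.cons (P.lf 0 168124 0) (P.cons (P.lf 83190 0 0) (P.lf 1848 0 0)))) (P.cons (P.cons (P.lf 9903252 0 0) (P.cons (P.lf 63450 0 0) (P.cons (P.lf 0 31396 0) P.nil))) (P.cons (P.cons (P.lf 2668668 0 0) (P.cons (P.lf 9506 0 0) P.nil)) (P.cons (P.cons (P.lf 0 167516 0) P.nil) P.nil)))))) 97930)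
 EL.nil)
noncomputable def S285_314_771_808_44 : EL := (EL.cons 14 (TM.mk (P.cons (P.cons (P.lf 125005132 0 0) (P.cons (P.lf 2017384 0 0) (P.cons (P.lf 0 990092 0) (P.cons (P.lf 0 30236 0) (P.cons (P.lf 1812 0 0) (P.cons (P.lf 88 0 0) P.nil)))))) (P.cons (P.cons (P.lf 96011800 0 0) (P.cons (P.lf 1421532 0 0) (P.cons (P.lf 0 698176 0) (P.cons (P.lf 0 20796 0) (P.cons (P.lf 1162 0 0) P.nil))))) (P.cons (P.cons (P.lf 3748734 0 0) (P.cons (P.lf 5690 0 0) (P.cons (P.lf 0 2982 0) (P.cons (P.lf 100 0 0) P.nil)))) (P.cons (P.cons (P.lf 0 11931816 0) (P.cons (P.lf 0 160954 0) (P.cons (P.lf 79122 0 0) P.nil))) (P.cons (P.cons (P.lf 0 1722868 0) (P.cons (P.lf 0 11574 0) P.nil)) (P.cons (P.cons (P.lf 574412 0 0) P.nil) P.nil)))))) 248088)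
 EL.nil)
noncomputable def S285_314_771_808_45 : EL := (EL.cons 14 (TM.mk (P.cons (P.cons (P.lf 0 2274741904 0) (P.cons (P.lf 0 55066078 0) (P.cons (P.lf 26803198 0 0) (P.cons (P.lf 1044026 0 0) (P.cons (P.lf 0 97246 0) (P.cons (P.lf 0 5672 0) P.nil)))))) (P.cons (P.cons (P.lf 553676756 0 0) (P.cons (P.lf 16895566 0 0) (P.cons (P.lf 0 8195660 0) (P.cons (P.lf 0 348060 0) (P.cons (P.lf 35892 0 0) P.nil))))) (P.cons (P.cons (P.lf 231185072 0 0) (P.cons (P.lf 3560036 0 0) (P.cons (P.lf 0 1751050 0) (P.cons (P.lf 0 49564 0) P.nil)))) (P.cons (P.cons (P.lf 0 51011406 0) (P.cons (P.lf 0 1357286 0) (P.cons (P.lf 661312 0 0) P.nil))) (P.cons (P.cons (P.lf 0 11653606 0) (P.cons (P.lf 0 100412 0) P.nil)) (P.cons (P.cons (P.lf 2188876 0 0) P.nil) P.nil)))))) 907382)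
 EL.nil)
noncomputable def S285_314_771_808_46 : EL := (EL.cons 15 (TM.mk (P.lf 4294967296 0 0) 0)
 EL.nil)
noncomputable def S285_314_771_808_47 : EL := (EL.cons 15 (TM.mk (P.cons (P.cons (P.lf 0 2758082705 0) (P.cons (P.lf 0 22255536 0) (P.cons (P.lf 11012380 0 0) (P.lf 244716 0 0)))) (P.cons (P.cons (P.lf 223774294 0 0) (P.cons (P.lf 3217160 0 0) (P.cons (P.lf 0 1591896 0) (P.lf 0 35372 0)))) (P.cons (P.cons (P.lf 111591587 0 0) (P.cons (P.lf 306460 0 0) (P.cons (P.lf 0 151640 0) (P.lf 0 3368 0)))) (P.cons (P.cons (P.lf 0 3000068 0) (P.cons (P.lf 0 65148 0) (P.cons (P.lf 32236 0 0) P.nil))) (P.cons (P.cons (P.lf 0 1416343 0) (P.cons (P.lf 0 1132 0) P.nil)) (P.cons (P.cons (P.lf 65497 0 0) P.nil) P.nil)))))) 23997)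
 EL.nil)
noncomputable def S285_314_771_808_48 : EL := (EL.cons 15 (TM.mk (P.cons (P.cons (P.lf 1771147411 0 0) (P.cons (P.lf 28583504 0 0) (P.cons (P.lf 0 14028232 0) (P.cons (P.lf 0 428423 0) (P.cons (P.lf 25699 0 0) (P.cons (P.lf 1254 0 0) P.nil)))))) (P.cons (P.cons (P.lf 0 287400563 0) (P.cons (P.lf 0 6450996 0) (P.cons (P.lf 3158705 0 0) (P.cons (P.lf 103924 0 0) (P.cons (P.lf 0 7430 0) P.nil))))) (P.cons (P.cons (P.lf 0 131661705 0) (P.cons (P.lf 0 1214842 0) (P.cons (P.lf 600355 0 0) (P.cons (P.lf 14114 0 0) P.nil)))) (P.cons (P.cons (P.lf 15481265 0 0) (P.cons (P.lf 313873 0 0) (P.cons (P.lf 0 154174 0) P.nil))) (P.cons (P.cons (P.lf 4405804 0 0) (P.cons (P.lf 20774 0 0) P.nil)) (P.cons (P.cons (P.lf 0 387602 0) P.nil) P.nil)))))) 161664)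
 EL.nil)
noncomputable def S285_314_771_808 : SL := (SL.cons S285_314_771_808_0 (SL.cons S285_314_771_808_1 (SL.cons S285_314_771_808_2 (SL.cons S285_314_771_808_3 (SL.cons S285_314_771_808_4 (SL.cons S285_314_771_808_5 (SL.cons S285_314_771_808_6 (SL.cons S285_314_771_808_7 (SL.cons S285_314_771_808_8 (SL.cons S285_314_771_808_9 (SL.cons S285_314_771_808_10 (SL.cons S285_314_771_808_11 (SL.cons S285_314_771_808_12 (SL.cons S285_314_771_808_13 (SL.cons S285_314_771_808_14 (SL.cons S285_314_771_808_15 (SL.cons S285_314_771_808_16 (SL.cons S285_314_771_808_17 (SL.cons S285_314_771_808_18 (SL.cons S285_314_771_808_19 (SL.cons S285_314_771_808_20 (SL.cons S285_314_771_808_21 (SL.cons S285_314_771_808_22 (SL.cons S285_314_771_808_23 (SL.cons S285_314_771_808_24 (SL.cons S285_314_771_808_25 (SL.cons S285_314_771_808_26 (SL.cons S285_314_771_808_27 (SL.cons S285_314_771_808_28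 (SL.cons S285_314_771_808_29 (SL.cons S285_314_771_808_30 (SL.cons S285_314_771_808_31 (SL.cons S285_314_771_808_32 (SL.cons S285_314_771_808_33 (SL.cons S285_314_771_808_34 (SL.cons S285_314_771_808_35 (SL.cons S285_314_771_808_36 (SL.cons S285_314_771_808_37 (SL.cons S285_314_771_808_38 (SL.cons S285_314_771_808_39 (SL.cons S285_314_771_808_40 (SL.cons S285_314_771_808_41 (SL.cons S285_314_771_808_42 (SL.cons S285_314_771_808_43 (SL.cons S285_314_771_808_44 (SL.cons S285_314_771_808_45 (SL.cons S285_314_771_808_46 (SL.cons S285_314_771_808_47 (SL.cons S285_314_771_808_48 SL.nil)))))))))))))))))))))))))))))))))))))))))))))))))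
noncomputable def S314_328_660_808_0 : EL := (EL.cons 0 (TM.mk (P.cons (P.lf 6788389309 0 0) (P.cons (P.lf 0 305553904 0) (P.cons (P.lf 0 6206827 0) (P.cons (P.lf 853098 0 0) (P.cons (P.lf 0 5324 0) (P.cons (P.lf 0 1126 0) P.nil)))))) 138)
 (EL.cons 1 (TM.mk (P.cons (P.lf 1610006491 0 0) (P.cons (P.lf 91269958 0 0) (P.cons (P.lf 0 11042221 0) (P.cons (P.lf 0 47677 0) (P.cons (P.lf 19736 0 0) (P.cons (P.lf 0 298 0) P.nil)))))) 127)
 (EL.cons 5 (TM.mk (P.cons (P.lf 4887794874 0 0) (P.cons (P.lf 108641386 0 0) (P.cons (P.lf 2206872 0 0) (P.cons (P.lf 0 303322 0) (P.cons (P.lf 1896 0 0) (P.cons (P.lf 398 0 0) P.nil)))))) 115)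
 (EL.cons 9 (TM.mk (P.lf 6442450944 0 0) 2)
 EL.nil))))
noncomputable def S314_328_660_808_1 : EL := (EL.cons 0 (TM.mk (P.cons (P.cons (P.lf 0 641246645 0) (P.cons (P.lf 0 104007815 0) (P.cons (P.lf 44849343 0 0) (P.lf 4983265 0 0)))) (P.cons (P.cons (P.lf 1140415775 0 0) (P.cons (P.lf 82061889 0 0) (P.cons (P.lf 0 35386013 0) (P.lf 0 3931779 0)))) (P.cons (P.cons (P.lf 80314 0 0) (P.cons (P.lf 0 5982596 0) (P.cons (P.lf 2579756 0 0) (P.lf 286631 0 0)))) (P.cons (P.cons (P.lf 0 10308919 0) (P.cons (P.lf 0 411793 0) (P.cons (P.lf 177572 0 0) P.nil))) (P.cons (P.cons (P.lf 220420 0 0) (P.cons (P.lf 50247 0 0) P.nil)) (P.cons (P.cons (P.lf 40220 0 0) P.nil) P.nil)))))) 81965)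
 (EL.cons 1 (TM.mk (P.cons (P.cons (P.lf 0 1566063076 0) (P.cons (P.lf 0 180727163 0) (P.cons (P.lf 77931588 0 0) (P.lf 8659064 0 0)))) (P.cons (P.cons (P.lf 83236911 0 0) (P.cons (P.lf 22271429 0 0) (P.cons (P.lf 0 9603683 0) (P.lf 0 1067066 0)))) (P.cons (P.cons (P.lf 60125538 0 0) (P.cons (P.lf 2938189 0 0) (P.cons (P.lf 0 1266976 0) (P.lf 0 140768 0)))) (P.cons (P.cons (P.lf 0 1516713 0) (P.cons (P.lf 0 361491 0) (P.cons (P.lf 155871 0 0) P.nil))) (P.cons (P.cons (P.lf 0 376640 0) (P.cons (P.lf 0 6272 0) P.nil)) (P.cons (P.cons (P.lf 13737 0 0) P.nil) P.nil)))))) 45164)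
 (EL.cons 5 (TM.mk (P.cons (P.cons (P.lf 0 3299775926 0) (P.cons (P.lf 0 388122674 0) (P.cons (P.lf 167362872 0 0) (P.lf 18595874 0 0)))) (P.cons (P.cons (P.lf 0 1743802 0) (P.cons (P.lf 15382596 0 0) (P.cons (P.lf 0 6633148 0) (P.lf 0 737018 0)))) (P.cons (P.cons (P.lf 32520490 0 0) (P.cons (P.lf 2253830 0 0) (P.cons (P.lf 0 971868 0) (P.lf 0 107982 0)))) (P.cons (P.cons (P.lf 1940229 0 0) (P.cons (P.lf 0 18690 0) (P.cons (P.lf 8060 0 0) P.nil))) (P.cons (P.cons (P.lf 0 144346 0) (P.cons (P.lf 0 13848 0) P.nil)) (P.cons (P.cons (P.lf 0 9270 0) P.nil) P.nil)))))) 43424)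
 (EL.cons 9 (TM.mk (P.cons (P.cons (P.lf 0 3112742400 0) (P.cons (P.lf 0 375091080 0) (P.cons (P.lf 161743500 0 0) (P.lf 17971500 0 0)))) (P.cons (P.cons (P.lf 356238841 0 0) (P.cons (P.lf 39317778 0 0) (P.cons (P.lf 0 16954266 0) (P.lf 0 1883802 0)))) (P.cons (P.cons (P.lf 28719738 0 0) (P.cons (P.lf 111780 0 0) (P.cons (P.lf 0 48198 0) (P.lf 0 5352 0)))) (P.cons (P.cons (P.lf 0 1522192 0) (P.cons (P.lf 0 145674 0) (P.cons (P.lf 62814 0 0) P.nil))) (P.cons (P.cons (P.lf 0 58206 0) (P.cons (P.lf 3540 0 0) P.nil)) (P.cons (P.cons (P.lf 4422 0 0) P.nil) P.nil)))))) 10802)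
 (EL.cons 2 (TM.mk (P.cons (P.cons (P.lf 0 405830216 0) (P.cons (P.lf 378068388 0 0) (P.cons (P.lf 38802113 0 0) (P.cons (P.lf 0 8069760 0) (P.lf 0 672477 0))))) (P.cons (P.cons (P.lf 0 8826212 0) (P.cons (P.lf 8222433 0 0) (P.cons (P.lf 843887 0 0) (P.cons (P.lf 0 175505 0) (P.lf 0 14625 0))))) (P.cons (P.cons (P.lf 4123006 0 0) (P.cons (P.lf 0 3840960 0) (P.cons (P.lf 0 394205 0) (P.cons (P.lf 81981 0 0) P.nil)))) (P.cons (P.cons (P.lf 0 75729 0) (P.cons (P.lf 70548 0 0) (P.cons (P.lf 7239 0 0) P.nil))) (P.cons (P.cons (P.lf 0 10380 0) (P.cons (P.lf 9669 0 0) P.nil)) (P.cons (P.cons (P.lf 385 0 0) P.nil) P.nil)))))) 13506)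
 (EL.cons 6 (TM.mk (P.cons (P.cons (P.lf 391878177 0 0) (P.cons (P.lf 0 365070774 0) (P.cons (P.lf 0 37468137 0) (P.cons (P.lf 7792329 0 0) (P.lf 649359 0 0))))) (P.cons (P.cons (P.lf 0 41077434 0) (P.cons (P.lf 38267427 0 0) (P.cons (P.lf 3927483 0 0) (P.cons (P.lf 0 816804 0) (P.lf 0 68064 0))))) (P.cons (P.cons (P.lf 0 116784 0) (P.cons (P.lf 108795 0 0) (P.cons (P.lf 11163 0 0) (P.cons (P.lf 0 2319 0) P.nil)))) (P.cons (P.cons (P.lf 152196 0 0) (P.cons (P.lf 0 141786 0) (P.cons (P.lf 0 14550 0) P.nil))) (P.cons (P.cons (P.lf 0 3699 0) (P.cons (P.lf 3444 0 0) P.nil)) (P.cons (P.cons (P.lf 0 240 0) P.nil) P.nil)))))) 7773)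
 EL.nil))))))
noncomputable def S314_328_660_808_2 : EL := (EL.cons 0 (TM.mk (P.cons (P.cons (P.lf 0 965062874 0) (P.cons (P.lf 0 206747621 0) (P.cons (P.lf 78251808 0 0) (P.cons (P.lf 19306237 0 0) (P.cons (P.lf 0 982291 0) (P.cons (P.lf 0 450395 0) P.nil)))))) (P.cons (P.cons (P.lf 0 738869321 0) (P.cons (P.lf 0 130487926 0) (P.cons (P.lf 51302690 0 0) (P.cons (P.lf 10534080 0 0) (P.cons (P.lf 0 447457 0) P.nil))))) (P.cons (P.cons (P.lf 113933767 0 0) (P.cons (P.lf 23453018 0 0) (P.cons (P.lf 0 8853761 0) (P.cons (P.lf 0 2209837 0) P.nil)))) (P.cons (P.cons (P.lf 14631934 0 0) (P.cons (P.lf 987495 0 0) (P.cons (P.lf 0 459191 0) P.nil))) (P.cons (P.cons (P.lf 0 1636994 0) (P.cons (P.lf 0 312151 0) P.nil)) (P.cons (P.cons (P.lf 0 96066 0) P.nil) P.nil)))))) 1491898)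
 (EL.cons 1 (TM.mk (P.cons (P.cons (P.lf 1137474293 0 0) (P.cons (P.lf 266418104 0 0) (P.cons (P.lf 0 99295524 0) (P.cons (P.lf 0 26207258 0) (P.cons (P.lf 1404668 0 0) (P.cons (P.lf 644058 0 0) P.nil)))))) (P.cons (P.cons (P.lf 0 188904807 0) (P.cons (P.lf 0 55589288 0) (P.cons (P.lf 20006184 0 0) (P.cons (P.lf 6082499 0 0) (P.cons (P.lf 0 357273 0) P.nil))))) (P.cons (P.cons (P.lf 0 53390694 0) (P.cons (P.lf 0 6503868 0) (P.cons (P.lf 2773559 0 0) (P.cons (P.lf 338331 0 0) P.nil)))) (P.cons (P.cons (P.lf 7971023 0 0) (P.cons (P.lf 1626025 0 0) (P.cons (P.lf 0 629730 0) P.nil))) (P.cons (P.cons (P.lf 630475 0 0) (P.cons (P.lf 4734 0 0) P.nil)) (P.cons (P.cons (P.lf 0 85643 0) P.nil) P.nil)))))) 791828)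
 (EL.cons 5 (TM.mk (P.cons (P.cons (P.lf 2047617372 0 0) (P.cons (P.lf 484297044 0 0) (P.cons (P.lf 0 180208478 0) (P.cons (P.lf 0 47891399 0) (P.cons (P.lf 2579706 0 0) (P.cons (P.lf 1182840 0 0) P.nil)))))) (P.cons (P.cons (P.lf 0 127431387 0) (P.cons (P.lf 0 43676406 0) (P.cons (P.lf 15410422 0 0) (P.cons (P.lf 5045017 0 0) (P.cons (P.lf 0 308508 0) P.nil))))) (P.cons (P.cons (P.lf 0 49637772 0) (P.cons (P.lf 0 7323432 0) (P.cons (P.lf 2967328 0 0) (P.cons (P.lf 515246 0 0) P.nil)))) (P.cons (P.cons (P.lf 64237 0 0) (P.cons (P.lf 420626 0 0) (P.cons (P.lf 0 148741 0) P.nil))) (P.cons (P.cons (P.lf 600099 0 0) (P.cons (P.lf 76598 0 0) P.nil)) (P.cons (P.cons (P.lf 6609 0 0) P.nil) P.nil)))))) 1005970)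
 (EL.cons 9 (TM.mk (P.cons (P.cons (P.lf 1503956386 0 0) (P.cons (P.lf 362458920 0 0) (P.cons (P.lf 0 134457892 0) (P.cons (P.lf 0 36200257 0) (P.cons (P.lf 1968048 0 0) (P.cons (P.lf 902380 0 0) P.nil)))))) (P.cons (P.cons (P.lf 0 344241579 0) (P.cons (P.lf 0 79475382 0) (P.cons (P.lf 29692374 0 0) (P.cons (P.lf 7756279 0 0) (P.cons (P.lf 0 412590 0) P.nil))))) (P.cons (P.cons (P.lf 0 8054104 0) (P.cons (P.lf 895950 0 0) (P.cons (P.lf 0 159408 0) (P.cons (P.lf 0 238645 0) P.nil)))) (P.cons (P.cons (P.lf 4647075 0 0) (P.cons (P.lf 680928 0 0) (P.cons (P.lf 0 275293 0) P.nil))) (P.cons (P.cons (P.lf 15933 0 0) (P.cons (P.lf 0 30336 0) P.nil)) (P.cons (P.cons (P.lf 0 24280 0) P.nil) P.nil)))))) 422230)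
 (EL.cons 2 (TM.mk (P.cons (P.cons (P.lf 392162833 0 0) (P.cons (P.lf 0 318079631 0) (P.cons (P.lf 0 101896458 0) (P.cons (P.lf 19999057 0 0) (P.cons (P.lf 5647100 0 0) (P.cons (P.lf 0 110407 0) P.nil)))))) (P.cons (P.cons (P.lf 0 36352237 0) (P.cons (P.lf 29939726 0 0) (P.cons (P.lf 8825715 0 0) (P.cons (P.lf 0 1736431 0) (P.cons (P.lf 0 475374 0) P.nil))))) (P.cons (P.cons (P.lf 0 8578546 0) (P.cons (P.lf 7389798 0 0) (P.cons (P.lf 1640491 0 0) (P.cons (P.lf 0 325985 0) P.nil)))) (P.cons (P.cons (P.lf 642228 0 0) (P.cons (P.lf 0 521105 0) (P.cons (P.lf 0 166595 0) P.nil))) (P.cons (P.cons (P.lf 49916 0 0) (P.cons (P.lf 0 46125 0) P.nil)) (P.cons (P.cons (P.lf 0 4539 0) P.nil) P.nil)))))) 340227)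
 (EL.cons 6 (TM.mk (P.cons (P.cons (P.lf 0 378680664 0) (P.cons (P.lf 307144368 0 0) (P.cons (P.lf 98393352 0 0) (P.cons (P.lf 0 19311510 0) (P.cons (P.lf 0 5452962 0) (P.cons (P.lf 106614 0 0) P.nil)))))) (P.cons (P.cons (P.lf 83032278 0 0) (P.cons (P.lf 0 67785840 0) (P.cons (P.lf 0 20975988 0) (P.cons (P.lf 4120998 0 0) (P.cons (P.lf 1149216 0 0) P.nil))))) (P.cons (P.cons (P.lf 0 936042 0) (P.cons (P.lf 397824 0 0) (P.cons (P.lf 735720 0 0) (P.cons (P.lf 0 141036 0) P.nil)))) (P.cons (P.cons (P.lf 0 711402 0) (P.cons (P.lf 624444 0 0) (P.cons (P.lf 120204 0 0) P.nil))) (P.cons (P.cons (P.lf 31692 0 0) (P.cons (P.lf 0 24948 0) P.nil)) (P.cons (P.cons (P.lf 2508 0 0) P.nil) P.nil)))))) 393312)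
 EL.nil))))))
noncomputable def S314_328_660_808_3 : EL := (EL.cons 0 (TM.mk (P.cons (P.lf 1667327554 0 0) (P.cons (P.lf 305553904 0 0) (P.cons (P.lf 6206827 0 0) (P.cons (P.lf 0 853098 0) (P.cons (P.lf 5324 0 0) (P.cons (P.lf 1126 0 0) P.nil)))))) 138)
 (EL.cons 1 (TM.mk (P.cons (P.lf 0 1610006491 0) (P.cons (P.lf 0 91269958 0) (P.cons (P.lf 11042221 0 0) (P.cons (P.lf 47677 0 0) (P.cons (P.lf 0 19736 0) (P.cons (P.lf 298 0 0) P.nil)))))) 127)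
 (EL.cons 5 (TM.mk (P.cons (P.lf 1554656070 0 0) (P.cons (P.lf 0 108641386 0) (P.cons (P.lf 0 2206872 0) (P.cons (P.lf 303322 0 0) (P.cons (P.lf 0 1896 0) (P.cons (P.lf 0 398 0) P.nil)))))) 108)
 EL.nil)))
noncomputable def S314_328_660_808_4 : EL := (EL.cons 0 (TM.mk (P.cons (P.cons (P.lf 0 805587999 0) (P.cons (P.lf 0 97074808 0) (P.cons (P.lf 41859750 0 0) (P.lf 4651082 0 0)))) (P.cons (P.cons (P.lf 0 55436006 0) (P.cons (P.lf 0 7614326 0) (P.cons (P.lf 3283382 0 0) (P.lf 364821 0 0)))) (P.cons (P.cons (P.lf 21329634 0 0) (P.cons (P.lf 1532327 0 0) (P.cons (P.lf 0 660754 0) (P.lf 0 73415 0)))) (P.cons (P.cons (P.lf 1723570 0 0) (P.cons (P.lf 55147 0 0) (P.cons (P.lf 0 23781 0) P.nil))) (P.cons (P.cons (P.lf 0 109334 0) (P.cons (P.lf 0 11401 0) P.nil)) (P.cons (P.cons (P.lf 0 7134 0) P.nil) P.nil)))))) 14723)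
 (EL.cons 1 (TM.mk (P.cons (P.cons (P.lf 777892685 0 0) (P.cons (P.lf 93737471 0 0) (P.cons (P.lf 0 40420653 0) (P.lf 0 4491183 0)))) (P.cons (P.cons (P.lf 0 44928082 0) (P.cons (P.lf 0 4511842 0) (P.cons (P.lf 1945556 0 0) (P.lf 216170 0 0)))) (P.cons (P.cons (P.lf 0 17559226 0) (P.cons (P.lf 0 1227845 0) (P.cons (P.lf 529458 0 0) (P.lf 58826 0 0)))) (P.cons (P.cons (P.lf 561082 0 0) (P.cons (P.lf 99433 0 0) (P.cons (P.lf 0 42875 0) P.nil))) (P.cons (P.cons (P.lf 97507 0 0) (P.cons (P.lf 2808 0 0) P.nil)) (P.cons (P.cons (P.lf 0 3911 0) P.nil) P.nil)))))) 11173)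
 (EL.cons 5 (TM.mk (P.cons (P.cons (P.lf 0 751149508 0) (P.cons (P.lf 0 90514870 0) (P.cons (P.lf 39031032 0 0) (P.lf 4336780 0 0)))) (P.cons (P.cons (P.lf 138456858 0 0) (P.cons (P.lf 15813240 0 0) (P.cons (P.lf 0 6818846 0) (P.lf 0 757648 0)))) (P.cons (P.cons (P.lf 1989374 0 0) (P.cons (P.lf 0 507566 0) (P.cons (P.lf 218868 0 0) (P.lf 24318 0 0)))) (P.cons (P.cons (P.lf 0 1120220 0) (P.cons (P.lf 0 68166 0) (P.cons (P.lf 29392 0 0) P.nil))) (P.cons (P.cons (P.lf 19474 0 0) (P.cons (P.lf 5232 0 0) P.nil)) (P.cons (P.cons (P.lf 4008 0 0) P.nil) P.nil)))))) 7776)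
 EL.nil)))
noncomputable def S314_328_660_808_5 : EL := (EL.cons 0 (TM.mk (P.cons (P.cons (P.lf 389228872 0 0) (P.cons (P.lf 93805563 0 0) (P.cons (P.lf 0 34798144 0) (P.cons (P.lf 0 9368745 0) (P.cons (P.lf 509336 0 0) (P.cons (P.lf 233537 0 0) P.nil)))))) (P.cons (P.cons (P.lf 0 17760898 0) (P.cons (P.lf 0 3377712 0) (P.cons (P.lf 1307387 0 0) (P.cons (P.lf 290436 0 0) (P.cons (P.lf 0 13438 0) P.nil))))) (P.cons (P.cons (P.lf 0 16962238 0) (P.cons (P.lf 0 3188297 0) (P.cons (P.lf 1237459 0 0) (P.cons (P.lf 271226 0 0) P.nil)))) (P.cons (P.cons (P.lf 289882 0 0) (P.cons (P.lf 94153 0 0) (P.cons (P.lf 0 32394 0) P.nil))) (P.cons (P.cons (P.lf 263592 0 0) (P.cons (P.lf 36130 0 0) P.nil)) (P.cons (P.cons (P.lf 0 5 0) P.nil) P.nil)))))) 242747)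
 (EL.cons 1 (TM.mk (P.cons (P.cons (P.lf 0 375847571 0) (P.cons (P.lf 0 90580621 0) (P.cons (P.lf 33601818 0 0) (P.cons (P.lf 9046655 0 0) (P.cons (P.lf 0 491825 0) (P.cons (P.lf 0 225508 0) P.nil)))))) (P.cons (P.cons (P.lf 64721506 0 0) (P.cons (P.lf 14726424 0 0) (P.cons (P.lf 0 5515438 0) (P.cons (P.lf 0 1425491 0) (P.cons (P.lf 75226 0 0) P.nil))))) (P.cons (P.cons (P.lf 9467373 0 0) (P.cons (P.lf 1523266 0 0) (P.cons (P.lf 0 611270 0) (P.cons (P.lf 0 112288 0) P.nil)))) (P.cons (P.cons (P.lf 0 1626120 0) (P.cons (P.lf 0 316396 0) (P.cons (P.lf 120950 0 0) P.nil))) (P.cons (P.cons (P.lf 0 90774 0) (P.cons (P.lf 0 2227 0) P.nil)) (P.cons (P.cons (P.lf 14870 0 0) P.nil) P.nil)))))) 196816)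
 (EL.cons 5 (TM.mk (P.cons (P.cons (P.lf 362926306 0 0) (P.cons (P.lf 87466548 0 0) (P.cons (P.lf 0 32446622 0) (P.cons (P.lf 0 8735642 0) (P.cons (P.lf 474918 0 0) (P.cons (P.lf 217756 0 0) P.nil)))))) (P.cons (P.cons (P.lf 0 108432204 0) (P.cons (P.lf 0 25290828 0) (P.cons (P.lf 9432608 0 0) (P.cons (P.lf 2482158 0 0) (P.cons (P.lf 0 132750 0) P.nil))))) (P.cons (P.cons (P.lf 3346316 0 0) (P.cons (P.lf 1432266 0 0) (P.cons (P.lf 0 493120 0) (P.cons (P.lf 0 175984 0) P.nil)))) (P.cons (P.cons (P.lf 1445954 0 0) (P.cons (P.lf 193498 0 0) (P.cons (P.lf 0 80244 0) P.nil))) (P.cons (P.cons (P.lf 0 88410 0) (P.cons (P.lf 0 22958 0) P.nil)) (P.cons (P.cons (P.lf 0 8090 0) P.nil) P.nil)))))) 156240)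
 EL.nil)))
noncomputable def S314_328_660_808_6 : EL := (EL.cons 12 (TM.mk (P.lf 8589934592 0 0) 0)
 (EL.cons 3 (TM.mk (P.cons (P.lf 1892236417 0 0) (P.cons (P.lf 173385315 0 0) (P.cons (P.lf 0 4421595 0) (P.cons (P.lf 0 78937 0) (P.cons (P.lf 5088 0 0) (P.cons (P.lf 0 11 0) P.nil)))))) 55)
 (EL.cons 7 (TM.mk (P.cons (P.lf 0 1827183212 0) (P.cons (P.lf 63842969 0 0) (P.cons (P.lf 2412223 0 0) (P.cons (P.lf 0 93963 0) (P.cons (P.lf 0 576 0) (P.cons (P.lf 90 0 0) P.nil)))))) 48)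
 EL.nil)))
noncomputable def S314_328_660_808_7 : EL := (EL.cons 12 (TM.mk (P.cons (P.cons (P.lf 0 4150323200 0) (P.cons (P.lf 0 500121440 0) (P.cons (P.lf 215658000 0 0) (P.lf 23962000 0 0)))) (P.cons (P.cons (P.lf 474985122 0 0) (P.cons (P.lf 52423704 0 0) (P.cons (P.lf 0 22605688 0) (P.lf 0 2511736 0)))) (P.cons (P.cons (P.lf 38292984 0 0) (P.cons (P.lf 149040 0 0) (P.cons (P.lf 0 64264 0) (P.lf 0 7136 0)))) (P.cons (P.cons (P.lf 0 2029590 0) (P.cons (P.lf 0 194232 0) (P.cons (P.lf 83752 0 0) P.nil))) (P.cons (P.cons (P.lf 0 77608 0) (P.cons (P.lf 4720 0 0) P.nil)) (P.cons (P.cons (P.lf 5896 0 0) P.nil) P.nil)))))) 14378)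
 (EL.cons 3 (TM.mk (P.cons (P.cons (P.lf 2080315464 0 0) (P.cons (P.lf 220338812 0 0) (P.cons (P.lf 0 95012578 0) (P.lf 0 10556952 0)))) (P.cons (P.cons (P.lf 447167868 0 0) (P.cons (P.lf 0 2906732 0) (P.cons (P.lf 1253412 0 0) (P.lf 139262 0 0)))) (P.cons (P.cons (P.lf 0 30387396 0) (P.cons (P.lf 0 2696842 0) (P.cons (P.lf 1162906 0 0) (P.lf 129208 0 0)))) (P.cons (P.cons (P.lf 0 1603931 0) (P.cons (P.lf 124332 0 0) (P.cons (P.lf 0 53610 0) P.nil))) (P.cons (P.cons (P.lf 177715 0 0) (P.cons (P.lf 7470 0 0) P.nil)) (P.cons (P.cons (P.lf 378 0 0) P.nil) P.nil)))))) 31450)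
 (EL.cons 7 (TM.mk (P.cons (P.cons (P.lf 1985468119 0 0) (P.cons (P.lf 228079784 0 0) (P.cons (P.lf 0 98350579 0) (P.lf 0 10927843 0)))) (P.cons (P.cons (P.lf 164653644 0 0) (P.cons (P.lf 0 1070303 0) (P.cons (P.lf 461528 0 0) (P.lf 51283 0 0)))) (P.cons (P.cons (P.lf 0 768938 0) (P.cons (P.lf 0 1060752 0) (P.cons (P.lf 457406 0 0) (P.lf 50824 0 0)))) (P.cons (P.cons (P.lf 0 1347792 0) (P.cons (P.lf 0 39220 0) (P.cons (P.lf 16912 0 0) P.nil))) (P.cons (P.cons (P.lf 0 1732 0) (P.cons (P.lf 5353 0 0) P.nil)) (P.cons (P.cons (P.lf 4920 0 0) P.nil) P.nil)))))) 26625)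
 (EL.cons 10 (TM.mk (P.cons (P.cons (P.lf 0 921146793 0) (P.cons (P.lf 858133455 0 0) (P.cons (P.lf 88072407 0 0) (P.cons (P.lf 0 18316611 0) (P.lf 0 1526382 0))))) (P.cons (P.cons (P.lf 64370934 0 0) (P.cons (P.lf 0 59967480 0) (P.cons (P.lf 0 6154614 0) (P.cons (P.lf 1279986 0 0) (P.lf 106665 0 0))))) (P.cons (P.cons (P.lf 1307589 0 0) (P.cons (P.lf 0 1218141 0) (P.cons (P.lf 0 125019 0) (P.cons (P.lf 25998 0 0) P.nil)))) (P.cons (P.cons (P.lf 0 179718 0) (P.cons (P.lf 167424 0 0) (P.cons (P.lf 17181 0 0) P.nil))) (P.cons (P.cons (P.lf 1122 0 0) (P.cons (P.lf 0 1044 0) P.nil)) (P.cons (P.cons (P.lf 234 0 0) P.nil) P.nil)))))) 6654)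
 EL.nil))))
noncomputable def S314_328_660_808_8 : EL := (EL.cons 12 (TM.mk (P.cons (P.cons (P.lf 2005275182 0 0) (P.cons (P.lf 483278560 0 0) (P.cons (P.lf 0 179277190 0) (P.cons (P.lf 0 48267010 0) (P.cons (P.lf 2624064 0 0) (P.cons (P.lf 1203174 0 0) P.nil)))))) (P.cons (P.cons (P.lf 0 458988772 0) (P.cons (P.lf 0 105967176 0) (P.cons (P.lf 39589832 0 0) (P.cons (P.lf 10341706 0 0) (P.cons (P.lf 0 550120 0) P.nil))))) (P.cons (P.cons (P.lf 0 10738806 0) (P.cons (P.lf 1194600 0 0) (P.cons (P.lf 0 212544 0) (P.cons (P.lf 0 318194 0) P.nil)))) (P.cons (P.cons (P.lf 6196100 0 0) (P.cons (P.lf 907904 0 0) (P.cons (P.lf 0 367058 0) P.nil))) (P.cons (P.cons (P.lf 21244 0 0) (P.cons (P.lf 0 40448 0) P.nil)) (P.cons (P.cons (P.lf 0 32374 0) P.nil) P.nil)))))) 562944)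
 (EL.cons 3 (TM.mk (P.cons (P.cons (P.lf 0 2451988145 0) (P.cons (P.lf 0 561616916 0) (P.cons (P.lf 210104233 0 0) (P.cons (P.lf 54567406 0 0) (P.cons (P.lf 0 2890217 0) (P.cons (P.lf 0 1325206 0) P.nil)))))) (P.cons (P.cons (P.lf 0 141411383 0) (P.cons (P.lf 14086693 0 0) (P.cons (P.lf 0 2289468 0) (P.cons (P.lf 0 3939062 0) (P.cons (P.lf 341085 0 0) P.nil))))) (P.cons (P.cons (P.lf 110026793 0 0) (P.cons (P.lf 15442244 0 0) (P.cons (P.lf 0 6301119 0) (P.cons (P.lf 0 1048391 0) P.nil)))) (P.cons (P.cons (P.lf 0 172850 0) (P.cons (P.lf 0 1085337 0) (P.cons (P.lf 396181 0 0) P.nil))) (P.cons (P.cons (P.lf 0 1009617 0) (P.cons (P.lf 0 89438 0) P.nil)) (P.cons (P.cons (P.lf 24187 0 0) P.nil) P.nil)))))) 964974)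
 (EL.cons 7 (TM.mk (P.cons (P.cons (P.lf 0 1492056020 0) (P.cons (P.lf 0 348794449 0) (P.cons (P.lf 130039413 0 0) (P.cons (P.lf 34274532 0 0) (P.cons (P.lf 0 1835228 0) (P.cons (P.lf 0 841481 0) P.nil)))))) (P.cons (P.cons (P.lf 0 52069699 0) (P.cons (P.lf 5186931 0 0) (P.cons (P.lf 0 843024 0) (P.cons (P.lf 0 1450431 0) (P.cons (P.lf 125594 0 0) P.nil))))) (P.cons (P.cons (P.lf 37218209 0 0) (P.cons (P.lf 6014315 0 0) (P.cons (P.lf 0 2373511 0) (P.cons (P.lf 0 477822 0) P.nil)))) (P.cons (P.cons (P.lf 3295773 0 0) (P.cons (P.lf 86035 0 0) (P.cons (P.lf 0 50848 0) P.nil))) (P.cons (P.cons (P.lf 0 311317 0) (P.cons (P.lf 0 60935 0) P.nil)) (P.cons (P.cons (P.lf 0 25799 0) P.nil) P.nil)))))) 572299)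
 (EL.cons 10 (TM.mk (P.cons (P.cons (P.lf 890124798 0 0) (P.cons (P.lf 0 721971948 0) (P.cons (P.lf 0 231282912 0) (P.cons (P.lf 45393540 0 0) (P.cons (P.lf 12817704 0 0) (P.cons (P.lf 0 250608 0) P.nil)))))) (P.cons (P.cons (P.lf 0 164073702 0) (P.cons (P.lf 134110878 0 0) (P.cons (P.lf 41224884 0 0) (P.cons (P.lf 0 8100726 0) (P.cons (P.lf 0 2253486 0) P.nil))))) (P.cons (P.cons (P.lf 0 2357442 0) (P.cons (P.lf 2797650 0 0) (P.cons (P.lf 0 594294 0) (P.cons (P.lf 108414 0 0) P.nil)))) (P.cons (P.cons (P.lf 1327476 0 0) (P.cons (P.lf 0 1155888 0) (P.cons (P.lf 0 237000 0) P.nil))) (P.cons (P.cons (P.lf 0 23070 0) (P.cons (P.lf 15288 0 0) P.nil)) (P.cons (P.cons (P.lf 0 4746 0) P.nil) P.nil)))))) 756468)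
 EL.nil))))
noncomputable def S314_328_660_808_9 : EL := (EL.cons 3 (TM.mk (P.cons (P.lf 1892236417 0 0) (P.cons (P.lf 173385315 0 0) (P.cons (P.lf 0 4421595 0) (P.cons (P.lf 0 78937 0) (P.cons (P.lf 5088 0 0) (P.cons (P.lf 0 11 0) P.nil)))))) 55)
 (EL.cons 7 (TM.mk (P.cons (P.lf 0 1827183212 0) (P.cons (P.lf 63842969 0 0) (P.cons (P.lf 2412223 0 0) (P.cons (P.lf 0 93963 0) (P.cons (P.lf 0 576 0) (P.cons (P.lf 90 0 0) P.nil)))))) 48)
 EL.nil))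
noncomputable def S314_328_660_808_10 : EL := (EL.cons 3 (TM.mk (P.cons (P.cons (P.lf 0 914255238 0) (P.cons (P.lf 0 110169406 0) (P.cons (P.lf 47506289 0 0) (P.lf 5278476 0 0)))) (P.cons (P.cons (P.lf 20859186 0 0) (P.cons (P.lf 1453366 0 0) (P.cons (P.lf 0 626706 0) (P.lf 0 69631 0)))) (P.cons (P.cons (P.lf 20159160 0 0) (P.cons (P.lf 1348421 0 0) (P.cons (P.lf 0 581453 0) (P.lf 0 64604 0)))) (P.cons (P.cons (P.lf 119488 0 0) (P.cons (P.lf 0 62166 0) (P.cons (P.lf 26805 0 0) P.nil))) (P.cons (P.cons (P.lf 0 84596 0) (P.cons (P.lf 0 3735 0) P.nil)) (P.cons (P.cons (P.lf 711 0 0) P.nil) P.nil)))))) 7788)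
 (EL.cons 7 (TM.mk (P.cons (P.cons (P.lf 882824053 0 0) (P.cons (P.lf 106381892 0 0) (P.cons (P.lf 0 45873070 0) (P.lf 0 5097007 0)))) (P.cons (P.cons (P.lf 0 131881539 0) (P.cons (P.lf 0 14868209 0) (P.cons (P.lf 6411338 0 0) (P.lf 712369 0 0)))) (P.cons (P.cons (P.lf 0 5780642 0) (P.cons (P.lf 217482 0 0) (P.cons (P.lf 0 93781 0) (P.lf 0 10421 0)))) (P.cons (P.cons (P.lf 895107 0 0) (P.cons (P.lf 62615 0 0) (P.cons (P.lf 0 26999 0) P.nil))) (P.cons (P.cons (P.lf 7259 0 0) (P.cons (P.lf 0 2945 0) P.nil)) (P.cons (P.cons (P.lf 0 2895 0) P.nil) P.nil)))))) 5405)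
 EL.nil))
noncomputable def S314_328_660_808_11 : EL := (EL.cons 3 (TM.mk (P.cons (P.cons (P.lf 441732667 0 0) (P.cons (P.lf 106459168 0 0) (P.cons (P.lf 0 39492131 0) (P.cons (P.lf 0 10632512 0) (P.cons (P.lf 578041 0 0) (P.cons (P.lf 265040 0 0) P.nil)))))) (P.cons (P.cons (P.lf 0 60632591 0) (P.cons (P.lf 0 13588175 0) (P.cons (P.lf 5102400 0 0) (P.cons (P.lf 1303870 0 0) (P.cons (P.lf 0 68217 0) P.nil))))) (P.cons (P.cons (P.lf 0 12662353 0) (P.cons (P.lf 0 2124526 0) (P.cons (P.lf 844569 0 0) (P.cons (P.lf 163495 0 0) P.nil)))) (P.cons (P.cons (P.lf 1365982 0 0) (P.cons (P.lf 274215 0 0) (P.cons (P.lf 0 103877 0) P.nil))) (P.cons (P.cons (P.lf 140679 0 0) (P.cons (P.lf 10060 0 0) P.nil)) (P.cons (P.cons (P.lf 0 10067 0) P.nil) P.nil)))))) 196244)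
 (EL.cons 7 (TM.mk (P.cons (P.cons (P.lf 0 426546338 0) (P.cons (P.lf 0 102799207 0) (P.cons (P.lf 38134431 0 0) (P.cons (P.lf 10266978 0 0) (P.cons (P.lf 0 558170 0) (P.cons (P.lf 0 255929 0) P.nil)))))) (P.cons (P.cons (P.lf 112536281 0 0) (P.cons (P.lf 26132373 0 0) (P.cons (P.lf 0 9753678 0) (P.cons (P.lf 0 2558541 0) (P.cons (P.lf 136520 0 0) P.nil))))) (P.cons (P.cons (P.lf 0 563947 0) (P.cons (P.lf 0 905971 0) (P.cons (P.lf 289109 0 0) (P.cons (P.lf 130992 0 0) P.nil)))) (P.cons (P.cons (P.lf 0 1548627 0) (P.cons (P.lf 0 219287 0) (P.cons (P.lf 89576 0 0) P.nil))) (P.cons (P.cons (P.lf 43403 0 0) (P.cons (P.lf 16813 0 0) P.nil)) (P.cons (P.cons (P.lf 8953 0 0) P.nil) P.nil)))))) 148731)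
 EL.nil))
noncomputable def S314_328_660_808_12 : EL := (EL.cons 4 (TM.mk (P.cons (P.lf 0 1892236417 0) (P.cons (P.lf 0 173385315 0) (P.cons (P.lf 4421595 0 0) (P.cons (P.lf 78937 0 0) (P.cons (P.lf 0 5088 0) (P.cons (P.lf 11 0 0) P.nil)))))) 55)
 (EL.cons 8 (TM.mk (P.cons (P.lf 1827183212 0 0) (P.cons (P.lf 0 63842969 0) (P.cons (P.lf 0 2412223 0) (P.cons (P.lf 93963 0 0) (P.cons (P.lf 576 0 0) (P.cons (P.lf 0 90 0) P.nil)))))) 48)
 EL.nil))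
noncomputable def S314_328_660_808_13 : EL := (EL.cons 4 (TM.mk (P.cons (P.cons (P.lf 914255238 0 0) (P.cons (P.lf 110169406 0 0) (P.cons (P.lf 0 47506289 0) (P.lf 0 5278476 0)))) (P.cons (P.cons (P.lf 0 20859186 0) (P.cons (P.lf 0 1453366 0) (P.cons (P.lf 626706 0 0) (P.lf 69631 0 0)))) (P.cons (P.cons (P.lf 0 20159160 0) (P.cons (P.lf 0 1348421 0) (P.cons (P.lf 581453 0 0) (P.lf 64604 0 0)))) (P.cons (P.cons (P.lf 0 119488 0) (P.cons (P.lf 62166 0 0) (P.cons (P.lf 0 26805 0) P.nil))) (P.cons (P.cons (P.lf 84596 0 0) (P.cons (P.lf 3735 0 0) P.nil)) (P.cons (P.cons (P.lf 0 711 0) P.nil) P.nil)))))) 7788)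
 (EL.cons 8 (TM.mk (P.cons (P.cons (P.lf 0 882824053 0) (P.cons (P.lf 0 106381892 0) (P.cons (P.lf 45873070 0 0) (P.lf 5097007 0 0)))) (P.cons (P.cons (P.lf 131881539 0 0) (P.cons (P.lf 14868209 0 0) (P.cons (P.lf 0 6411338 0) (P.lf 0 712369 0)))) (P.cons (P.cons (P.lf 5780642 0 0) (P.cons (P.lf 0 217482 0) (P.cons (P.lf 93781 0 0) (P.lf 10421 0 0)))) (P.cons (P.cons (P.lf 0 895107 0) (P.cons (P.lf 0 62615 0) (P.cons (P.lf 26999 0 0) P.nil))) (P.cons (P.cons (P.lf 0 7259 0) (P.cons (P.lf 2945 0 0) P.nil)) (P.cons (P.cons (P.lf 2895 0 0) P.nil) P.nil)))))) 5405)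
 EL.nil))
noncomputable def S314_328_660_808_14 : EL := (EL.cons 4 (TM.mk (P.cons (P.cons (P.lf 0 441732667 0) (P.cons (P.lf 0 106459168 0) (P.cons (P.lf 39492131 0 0) (P.cons (P.lf 10632512 0 0) (P.cons (P.lf 0 578041 0) (P.cons (P.lf 0 265040 0) P.nil)))))) (P.cons (P.cons (P.lf 60632591 0 0) (P.cons (P.lf 13588175 0 0) (P.cons (P.lf 0 5102400 0) (P.cons (P.lf 0 1303870 0) (P.cons (P.lf 68217 0 0) P.nil))))) (P.cons (P.cons (P.lf 12662353 0 0) (P.cons (P.lf 2124526 0 0) (P.cons (P.lf 0 844569 0) (P.cons (P.lf 0 163495 0) P.nil)))) (P.cons (P.cons (P.lf 0 1365982 0) (P.cons (P.lf 0 274215 0) (P.cons (P.lf 103877 0 0) P.nil))) (P.cons (P.cons (P.lf 0 140679 0) (P.cons (P.lf 0 10060 0) P.nil)) (P.cons (P.cons (P.lf 10067 0 0) P.nil) P.nil)))))) 196244)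
 (EL.cons 8 (TM.mk (P.cons (P.cons (P.lf 426546338 0 0) (P.cons (P.lf 102799207 0 0) (P.cons (P.lf 0 38134431 0) (P.cons (P.lf 0 10266978 0) (P.cons (P.lf 558170 0 0) (P.cons (P.lf 255929 0 0) P.nil)))))) (P.cons (P.cons (P.lf 0 112536281 0) (P.cons (P.lf 0 26132373 0) (P.cons (P.lf 9753678 0 0) (P.cons (P.lf 2558541 0 0) (P.cons (P.lf 0 136520 0) P.nil))))) (P.cons (P.cons (P.lf 563947 0 0) (P.cons (P.lf 905971 0 0) (P.cons (P.lf 0 289109 0) (P.cons (P.lf 0 130992 0) P.nil)))) (P.cons (P.cons (P.lf 1548627 0 0) (P.cons (P.lf 219287 0 0) (P.cons (P.lf 0 89576 0) P.nil))) (P.cons (P.cons (P.lf 0 43403 0) (P.cons (P.lf 0 16813 0) P.nil)) (P.cons (P.cons (P.lf 0 8953 0) P.nil) P.nil)))))) 148731)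
 EL.nil))
noncomputable def S314_328_660_808_15 : EL := (EL.cons 4 (TM.mk (P.cons (P.lf 0 889241362 0) (P.cons (P.lf 0 162962082 0) (P.cons (P.lf 0 3310307 0) (P.cons (P.lf 454985 0 0) (P.cons (P.lf 0 2839 0) (P.cons (P.lf 0 600 0) P.nil)))))) 77)
 (EL.cons 8 (TM.mk (P.cons (P.lf 858670129 0 0) (P.cons (P.lf 48677311 0 0) (P.cons (P.lf 0 5889185 0) (P.cons (P.lf 0 25428 0) (P.cons (P.lf 10526 0 0) (P.cons (P.lf 0 159 0) P.nil)))))) 64)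
 EL.nil))
noncomputable def S314_328_660_808_16 : EL := (EL.cons 4 (TM.mk (P.cons (P.cons (P.lf 429646933 0 0) (P.cons (P.lf 51773231 0 0) (P.cons (P.lf 0 22325200 0) (P.lf 0 2480577 0)))) (P.cons (P.cons (P.lf 29565870 0 0) (P.cons (P.lf 4060974 0 0) (P.cons (P.lf 0 1751137 0) (P.lf 0 194571 0)))) (P.cons (P.cons (P.lf 0 11375805 0) (P.cons (P.lf 0 817241 0) (P.cons (P.lf 352402 0 0) (P.lf 39154 0 0)))) (P.cons (P.cons (P.lf 0 919237 0) (P.cons (P.lf 0 29412 0) (P.cons (P.lf 12683 0 0) P.nil))) (P.cons (P.cons (P.lf 58311 0 0) (P.cons (P.lf 6080 0 0) P.nil)) (P.cons (P.cons (P.lf 3805 0 0) P.nil) P.nil)))))) 7861)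
 (EL.cons 8 (TM.mk (P.cons (P.cons (P.lf 0 414876099 0) (P.cons (P.lf 0 49993318 0) (P.cons (P.lf 21557682 0 0) (P.lf 2395298 0 0)))) (P.cons (P.cons (P.lf 23961644 0 0) (P.cons (P.lf 2406316 0 0) (P.cons (P.lf 0 1037630 0) (P.lf 0 115291 0)))) (P.cons (P.cons (P.lf 9364921 0 0) (P.cons (P.lf 654851 0 0) (P.cons (P.lf 0 282378 0) (P.lf 0 31374 0)))) (P.cons (P.cons (P.lf 0 299244 0) (P.cons (P.lf 0 53031 0) (P.cons (P.lf 22867 0 0) P.nil))) (P.cons (P.cons (P.lf 0 52004 0) (P.cons (P.lf 0 1498 0) P.nil)) (P.cons (P.cons (P.lf 2086 0 0) P.nil) P.nil)))))) 5949)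
 EL.nil))
noncomputable def S314_328_660_808_17 : EL := (EL.cons 4 (TM.mk (P.cons (P.cons (P.lf 0 207588732 0) (P.cons (P.lf 0 50029634 0) (P.cons (P.lf 18559010 0 0) (P.cons (P.lf 4996664 0 0) (P.cons (P.lf 0 271646 0) (P.cons (P.lf 0 124553 0) P.nil)))))) (P.cons (P.cons (P.lf 9472479 0 0) (P.cons (P.lf 1801446 0 0) (P.cons (P.lf 0 697273 0) (P.cons (P.lf 0 154899 0) (P.cons (P.lf 7167 0 0) P.nil))))) (P.cons (P.cons (P.lf 9046527 0 0) (P.cons (P.lf 1700425 0 0) (P.cons (P.lf 0 659978 0) (P.cons (P.lf 0 144654 0) P.nil)))) (P.cons (P.cons (P.lf 0 154604 0) (P.cons (P.lf 0 50215 0) (P.cons (P.lf 17277 0 0) P.nil))) (P.cons (P.cons (P.lf 0 140582 0) (P.cons (P.lf 0 19269 0) P.nil)) (P.cons (P.cons (P.lf 2 0 0) P.nil) P.nil)))))) 129475)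
 (EL.cons 8 (TM.mk (P.cons (P.cons (P.lf 200452038 0 0) (P.cons (P.lf 48309665 0 0) (P.cons (P.lf 0 17920970 0) (P.cons (P.lf 0 4824883 0) (P.cons (P.lf 262307 0 0) (P.cons (P.lf 120271 0 0) P.nil)))))) (P.cons (P.cons (P.lf 0 34518137 0) (P.cons (P.lf 0 7854093 0) (P.cons (P.lf 2941567 0 0) (P.cons (P.lf 760262 0 0) (P.cons (P.lf 0 40121 0) P.nil))))) (P.cons (P.cons (P.lf 0 5049266 0) (P.cons (P.lf 0 812409 0) (P.cons (P.lf 326011 0 0) (P.cons (P.lf 59887 0 0) P.nil)))) (P.cons (P.cons (P.lf 867264 0 0) (P.cons (P.lf 168745 0 0) (P.cons (P.lf 0 64507 0) P.nil))) (P.cons (P.cons (P.lf 48413 0 0) (P.cons (P.lf 1188 0 0) P.nil)) (P.cons (P.cons (P.lf 0 7931 0) P.nil) P.nil)))))) 104957)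
 EL.nil))
noncomputable def S314_328_660_808_18 : EL := (EL.cons 4 (TM.mk (P.cons (P.lf 0 417891862 0) (P.cons (P.lf 0 114874089 0) (P.cons (P.lf 0 7596425 0) (P.cons (P.lf 267656 0 0) (P.cons (P.lf 23963 0 0) (P.cons (P.lf 0 1042 0) P.nil)))))) 105)
 (EL.cons 8 (TM.mk (P.cons (P.lf 403525156 0 0) (P.cons (P.lf 59850457 0 0) (P.cons (P.lf 0 1614414 0) (P.cons (P.lf 0 335829 0) (P.cons (P.lf 10449 0 0) (P.cons (P.lf 580 0 0) P.nil)))))) 79)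
 EL.nil))
noncomputable def S314_328_660_808_19 : EL := (EL.cons 4 (TM.mk (P.cons (P.cons (P.lf 201909137 0 0) (P.cons (P.lf 24330415 0 0) (P.cons (P.lf 0 10491549 0) (P.lf 0 1165726 0)))) (P.cons (P.cons (P.lf 32395144 0 0) (P.cons (P.lf 4137813 0 0) (P.cons (P.lf 0 1784271 0) (P.lf 0 198252 0)))) (P.cons (P.cons (P.lf 0 4544642 0) (P.cons (P.lf 0 266040 0) (P.cons (P.lf 114719 0 0) (P.lf 12746 0 0)))) (P.cons (P.cons (P.lf 0 962727 0) (P.cons (P.lf 0 54487 0) (P.cons (P.lf 23495 0 0) P.nil))) (P.cons (P.cons (P.lf 274 0 0) (P.cons (P.lf 2474 0 0) P.nil)) (P.cons (P.cons (P.lf 5567 0 0) P.nil) P.nil)))))) 7741)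
 (EL.cons 8 (TM.mk (P.cons (P.cons (P.lf 0 194967702 0) (P.cons (P.lf 0 23493960 0) (P.cons (P.lf 10130860 0 0) (P.lf 1125650 0 0)))) (P.cons (P.cons (P.lf 0 6604275 0) (P.cons (P.lf 0 1021918 0) (P.cons (P.lf 440662 0 0) (P.lf 48962 0 0)))) (P.cons (P.cons (P.lf 5888357 0 0) (P.cons (P.lf 466258 0 0) (P.cons (P.lf 0 201055 0) (P.lf 0 22338 0)))) (P.cons (P.cons (P.lf 244453 0 0) (P.cons (P.lf 1613 0 0) (P.cons (P.lf 0 696 0) P.nil))) (P.cons (P.cons (P.lf 0 48602 0) (P.cons (P.lf 0 3817 0) P.nil)) (P.cons (P.cons (P.lf 0 1082 0) P.nil) P.nil)))))) 5274)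
 EL.nil))
noncomputable def S314_328_660_808_20 : EL := (EL.cons 4 (TM.mk (P.cons (P.cons (P.lf 0 97554662 0) (P.cons (P.lf 0 23511025 0) (P.cons (P.lf 8721658 0 0) (P.cons (P.lf 2348142 0 0) (P.cons (P.lf 0 127657 0) (P.cons (P.lf 0 58532 0) P.nil)))))) (P.cons (P.cons (P.lf 0 4487400 0) (P.cons (P.lf 0 1307735 0) (P.cons (P.lf 471485 0 0) (P.cons (P.lf 142365 0 0) (P.cons (P.lf 0 8328 0) P.nil))))) (P.cons (P.cons (P.lf 4887190 0 0) (P.cons (P.lf 931610 0 0) (P.cons (P.lf 0 360555 0) (P.cons (P.lf 0 80135 0) P.nil)))) (P.cons (P.cons (P.lf 310561 0 0) (P.cons (P.lf 48625 0 0) (P.cons (P.lf 0 19897 0) P.nil))) (P.cons (P.cons (P.lf 0 83104 0) (P.cons (P.lf 0 13183 0) P.nil)) (P.cons (P.cons (P.lf 0 6046 0) P.nil) P.nil)))))) 88581)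
 (EL.cons 8 (TM.mk (P.cons (P.cons (P.lf 94200831 0 0) (P.cons (P.lf 22702740 0 0) (P.cons (P.lf 0 8421816 0) (P.cons (P.lf 0 2267415 0) (P.cons (P.lf 123269 0 0) (P.cons (P.lf 56520 0 0) P.nil)))))) (P.cons (P.cons (P.lf 0 7589915 0) (P.cons (P.lf 0 1610719 0) (P.cons (P.lf 610676 0 0) (P.cons (P.lf 149516 0 0) (P.cons (P.lf 0 7559 0) P.nil))))) (P.cons (P.cons (P.lf 0 4079357 0) (P.cons (P.lf 0 773037 0) (P.cons (P.lf 299551 0 0) (P.cons (P.lf 66179 0 0) P.nil)))) (P.cons (P.cons (P.lf 224114 0 0) (P.cons (P.lf 51994 0 0) (P.cons (P.lf 0 19155 0) P.nil))) (P.cons (P.cons (P.lf 66571 0 0) (P.cons (P.lf 8931 0 0) P.nil)) (P.cons (P.cons (P.lf 0 2540 0) P.nil) P.nil)))))) 67038)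
 EL.nil))
noncomputable def S314_328_660_808_21 : EL := (EL.cons 4 (TM.mk (P.cons (P.cons (P.lf 0 2994570702 0) (P.cons (P.lf 0 330508218 0) (P.cons (P.lf 142518867 0 0) (P.lf 15835428 0 0)))) (P.cons (P.cons (P.lf 0 426308682 0) (P.cons (P.lf 4360098 0 0) (P.cons (P.lf 0 1880118 0) (P.lf 0 208893 0)))) (P.cons (P.cons (P.lf 50546556 0 0) (P.cons (P.lf 4045263 0 0) (P.cons (P.lf 0 1744359 0) (P.lf 0 193812 0)))) (P.cons (P.cons (P.lf 1723419 0 0) (P.cons (P.lf 0 186498 0) (P.cons (P.lf 80415 0 0) P.nil))) (P.cons (P.cons (P.lf 0 262311 0) (P.cons (P.lf 0 11205 0) P.nil)) (P.cons (P.cons (P.lf 333 0 0) P.nil) P.nil)))))) 23643)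
 (EL.cons 8 (TM.mk (P.cons (P.cons (P.lf 0 1102644066 0) (P.cons (P.lf 0 121697892 0) (P.cons (P.lf 52477509 0 0) (P.lf 5830836 0 0)))) (P.cons (P.cons (P.lf 0 296535183 0) (P.cons (P.lf 0 13797906 0) (P.cons (P.lf 5949810 0 0) (P.lf 661086 0 0)))) (P.cons (P.cons (P.lf 0 5011704 0) (P.cons (P.lf 1278234 0 0) (P.cons (P.lf 0 551187 0) (P.lf 0 61245 0)))) (P.cons (P.cons (P.lf 2242899 0 0) (P.cons (P.lf 101835 0 0) (P.cons (P.lf 0 43911 0) P.nil))) (P.cons (P.cons (P.lf 8991 0 0) (P.cons (P.lf 0 8298 0) P.nil)) (P.cons (P.cons (P.lf 0 7815 0) P.nil) P.nil)))))) 21201)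
 (EL.cons 11 (TM.mk (P.cons (P.cons (P.lf 921146793 0 0) (P.cons (P.lf 0 858133455 0) (P.cons (P.lf 0 88072407 0) (P.cons (P.lf 18316611 0 0) (P.lf 1526382 0 0))))) (P.cons (P.cons (P.lf 0 64370934 0) (P.cons (P.lf 59967480 0 0) (P.cons (P.lf 6154614 0 0) (P.cons (P.lf 0 1279986 0) (P.lf 0 106665 0))))) (P.cons (P.cons (P.lf 0 1307589 0) (P.cons (P.lf 1218141 0 0) (P.cons (P.lf 125019 0 0) (P.cons (P.lf 0 25998 0) P.nil)))) (P.cons (P.cons (P.lf 179718 0 0) (P.cons (P.lf 0 167424 0) (P.cons (P.lf 0 17181 0) P.nil))) (P.cons (P.cons (P.lf 0 1122 0) (P.cons (P.lf 1044 0 0) P.nil)) (P.cons (P.cons (P.lf 0 234 0) P.nil) P.nil)))))) 6654)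
 EL.nil)))
noncomputable def S314_328_660_808_22 : EL := (EL.cons 4 (TM.mk (P.cons (P.cons (P.lf 1446860406 0 0) (P.cons (P.lf 334038042 0 0) (P.cons (P.lf 0 124798182 0) (P.cons (P.lf 0 32599959 0) (P.cons (P.lf 1734129 0 0) (P.cons (P.lf 795123 0 0) P.nil)))))) (P.cons (P.cons (P.lf 40389396 0 0) (P.cons (P.lf 0 13837434 0) (P.cons (P.lf 3695934 0 0) (P.cons (P.lf 2621466 0 0) (P.cons (P.lf 0 204651 0) P.nil))))) (P.cons (P.cons (P.lf 0 61344573 0) (P.cons (P.lf 0 8783385 0) (P.cons (P.lf 3572844 0 0) (P.cons (P.lf 605943 0 0) P.nil)))) (P.cons (P.cons (P.lf 769416 0 0) (P.cons (P.lf 679776 0 0) (P.cons (P.lf 0 250029 0) P.nil))) (P.cons (P.cons (P.lf 575148 0 0) (P.cons (P.lf 49749 0 0) P.nil)) (P.cons (P.cons (P.lf 0 17127 0) P.nil) P.nil)))))) 384354)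
 (EL.cons 8 (TM.mk (P.cons (P.cons (P.lf 532754841 0 0) (P.cons (P.lf 122997621 0 0) (P.cons (P.lf 0 45952491 0) (P.cons (P.lf 0 12003777 0) (P.cons (P.lf 638529 0 0) (P.cons (P.lf 292776 0 0) P.nil)))))) (P.cons (P.cons (P.lf 82302990 0 0) (P.cons (P.lf 10472721 0 0) (P.cons (P.lf 0 4455327 0) (P.cons (P.lf 0 554055 0) (P.cons (P.lf 5463 0 0) P.nil))))) (P.cons (P.cons (P.lf 0 18891078 0) (P.cons (P.lf 0 3460143 0) (P.cons (P.lf 1331310 0 0) (P.cons (P.lf 304407 0 0) P.nil)))) (P.cons (P.cons (P.lf 0 2422200 0) (P.cons (P.lf 0 152661 0) (P.cons (P.lf 70212 0 0) P.nil))) (P.cons (P.cons (P.lf 177360 0 0) (P.cons (P.lf 38874 0 0) P.nil)) (P.cons (P.cons (P.lf 17376 0 0) P.nil) P.nil)))))) 211773)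
 (EL.cons 11 (TM.mk (P.cons (P.cons (P.lf 0 445062399 0) (P.cons (P.lf 360985974 0 0) (P.cons (P.lf 115641456 0 0) (P.cons (P.lf 0 22696770 0) (P.cons (P.lf 0 6408852 0) (P.cons (P.lf 125304 0 0) P.nil)))))) (P.cons (P.cons (P.lf 82036851 0 0) (P.cons (P.lf 0 67055439 0) (P.cons (P.lf 0 20612442 0) (P.cons (P.lf 4050363 0 0) (P.cons (P.lf 1126743 0 0) P.nil))))) (P.cons (P.cons (P.lf 1178721 0 0) (P.cons (P.lf 0 1398825 0) (P.cons (P.lf 297147 0 0) (P.cons (P.lf 0 54207 0) P.nil)))) (P.cons (P.cons (P.lf 0 663738 0) (P.cons (P.lf 577944 0 0) (P.cons (P.lf 118500 0 0) P.nil))) (P.cons (P.cons (P.lf 11535 0 0) (P.cons (P.lf 0 7644 0) P.nil)) (P.cons (P.cons (P.lf 2373 0 0) P.nil) P.nil)))))) 378234)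
 EL.nil)))
noncomputable def S314_328_660_808_23 : EL := (EL.cons 4 (TM.mk (P.cons (P.cons (P.lf 0 1407274536 0) (P.cons (P.lf 0 155319690 0) (P.cons (P.lf 66975600 0 0) (P.lf 7441731 0 0)))) (P.cons (P.cons (P.lf 0 329288688 0) (P.cons (P.lf 0 12182922 0) (P.cons (P.lf 5253417 0 0) (P.lf 583716 0 0)))) (P.cons (P.cons (P.lf 8685177 0 0) (P.cons (P.lf 2451723 0 0) (P.cons (P.lf 0 1057206 0) (P.lf 0 117462 0)))) (P.cons (P.cons (P.lf 3513318 0 0) (P.cons (P.lf 88239 0 0) (P.cons (P.lf 0 38052 0) P.nil))) (P.cons (P.cons (P.lf 0 99990 0) (P.cons (P.lf 0 18240 0) P.nil)) (P.cons (P.cons (P.lf 0 14550 0) P.nil) P.nil)))))) 28314)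
 (EL.cons 8 (TM.mk (P.cons (P.cons (P.lf 0 518178753 0) (P.cons (P.lf 0 57190950 0) (P.cons (P.lf 24661383 0 0) (P.lf 2740152 0 0)))) (P.cons (P.cons (P.lf 0 186834969 0) (P.cons (P.lf 0 11724612 0) (P.cons (P.lf 5055783 0 0) (P.lf 561750 0 0)))) (P.cons (P.cons (P.lf 0 13913394 0) (P.cons (P.lf 140184 0 0) (P.cons (P.lf 0 60447 0) (P.lf 0 6717 0)))) (P.cons (P.cons (P.lf 1185471 0 0) (P.cons (P.lf 120435 0 0) (P.cons (P.lf 0 51930 0) P.nil))) (P.cons (P.cons (P.lf 110727 0 0) (P.cons (P.lf 0 801 0) P.nil)) (P.cons (P.cons (P.lf 0 6021 0) P.nil) P.nil)))))) 18225)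
 (EL.cons 11 (TM.mk (P.cons (P.cons (P.lf 432885564 0 0) (P.cons (P.lf 0 403272948 0) (P.cons (P.lf 0 41388921 0) (P.cons (P.lf 8607744 0 0) (P.lf 717309 0 0))))) (P.cons (P.cons (P.lf 9414627 0 0) (P.cons (P.lf 0 8770596 0) (P.cons (P.lf 0 900147 0) (P.cons (P.lf 187206 0 0) (P.lf 15600 0 0))))) (P.cons (P.cons (P.lf 0 4397874 0) (P.cons (P.lf 4097025 0 0) (P.cons (P.lf 420486 0 0) (P.cons (P.lf 0 87447 0) P.nil)))) (P.cons (P.cons (P.lf 80778 0 0) (P.cons (P.lf 0 75252 0) (P.cons (P.lf 0 7722 0) P.nil))) (P.cons (P.cons (P.lf 11073 0 0) (P.cons (P.lf 0 10314 0) P.nil)) (P.cons (P.cons (P.lf 0 411 0) P.nil) P.nil)))))) 14385)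
 EL.nil)))
noncomputable def S314_328_660_808_24 : EL := (EL.cons 4 (TM.mk (P.cons (P.cons (P.lf 679940469 0 0) (P.cons (P.lf 156978504 0 0) (P.cons (P.lf 0 58647906 0) (P.cons (P.lf 0 15320088 0) (P.cons (P.lf 814938 0 0) (P.cons (P.lf 373662 0 0) P.nil)))))) (P.cons (P.cons (P.lf 81283506 0 0) (P.cons (P.lf 7881120 0 0) (P.cons (P.lf 0 3637023 0) (P.cons (P.lf 0 171840 0) (P.cons (P.lf 0 21501 0) P.nil))))) (P.cons (P.cons (P.lf 0 28678011 0) (P.cons (P.lf 0 5090343 0) (P.cons (P.lf 1975221 0 0) (P.cons (P.lf 433437 0 0) P.nil)))) (P.cons (P.cons (P.lf 0 2352675 0) (P.cons (P.lf 0 50115 0) (P.cons (P.lf 34737 0 0) P.nil))) (P.cons (P.cons (P.lf 371817 0 0) (P.cons (P.lf 62988 0 0) P.nil)) (P.cons (P.cons (P.lf 17121 0 0) P.nil) P.nil)))))) 185334)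
 (EL.cons 8 (TM.mk (P.cons (P.cons (P.lf 250363872 0 0) (P.cons (P.lf 57801747 0 0) (P.cons (P.lf 0 21595005 0) (P.cons (P.lf 0 5641077 0) (P.cons (P.lf 300072 0 0) (P.cons (P.lf 137586 0 0) P.nil)))))) (P.cons (P.cons (P.lf 61618431 0 0) (P.cons (P.lf 10217934 0 0) (P.cons (P.lf 0 4072491 0) (P.cons (P.lf 0 777264 0) (P.cons (P.lf 30063 0 0) P.nil))))) (P.cons (P.cons (P.lf 0 5918712 0) (P.cons (P.lf 0 1310169 0) (P.cons (P.lf 484248 0 0) (P.cons (P.lf 132375 0 0) P.nil)))) (P.cons (P.cons (P.lf 0 2052579 0) (P.cons (P.lf 0 234648 0) (P.cons (P.lf 96114 0 0) P.nil))) (P.cons (P.cons (P.lf 0 1146 0) (P.cons (P.lf 15444 0 0) P.nil)) (P.cons (P.cons (P.lf 18936 0 0) P.nil) P.nil)))))) 97980)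
 (EL.cons 11 (TM.mk (P.cons (P.cons (P.lf 0 209153511 0) (P.cons (P.lf 169642470 0 0) (P.cons (P.lf 54344778 0 0) (P.cons (P.lf 0 10666164 0) (P.cons (P.lf 0 3011787 0) (P.cons (P.lf 58884 0 0) P.nil)))))) (P.cons (P.cons (P.lf 19387860 0 0) (P.cons (P.lf 0 15967854 0) (P.cons (P.lf 0 4707048 0) (P.cons (P.lf 926097 0 0) (P.cons (P.lf 253533 0 0) P.nil))))) (P.cons (P.cons (P.lf 4575225 0 0) (P.cons (P.lf 0 3941226 0) (P.cons (P.lf 0 874929 0) (P.cons (P.lf 173859 0 0) P.nil)))) (P.cons (P.cons (P.lf 0 342522 0) (P.cons (P.lf 277923 0 0) (P.cons (P.lf 88851 0 0) P.nil))) (P.cons (P.cons (P.lf 0 26622 0) (P.cons (P.lf 24600 0 0) P.nil)) (P.cons (P.cons (P.lf 2421 0 0) P.nil) P.nil)))))) 181443)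
 EL.nil)))
noncomputable def S314_328_660_808_25 : EL := (EL.cons 4 (TM.mk (P.cons (P.cons (P.lf 0 661337406 0) (P.cons (P.lf 0 72991245 0) (P.cons (P.lf 31474647 0 0) (P.lf 3497181 0 0)))) (P.cons (P.cons (P.lf 0 215344821 0) (P.cons (P.lf 0 12413442 0) (P.cons (P.lf 5352816 0 0) (P.lf 594759 0 0)))) (P.cons (P.cons (P.lf 0 8552523 0) (P.cons (P.lf 798120 0 0) (P.cons (P.lf 0 344157 0) (P.lf 0 38238 0)))) (P.cons (P.cons (P.lf 2414229 0 0) (P.cons (P.lf 163461 0 0) (P.cons (P.lf 0 70488 0) P.nil))) (P.cons (P.cons (P.lf 99435 0 0) (P.cons (P.lf 0 7422 0) P.nil)) (P.cons (P.cons (P.lf 0 15585 0) P.nil) P.nil)))))) 23361)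
 (EL.cons 8 (TM.mk (P.cons (P.cons (P.lf 0 243513957 0) (P.cons (P.lf 0 26876427 0) (P.cons (P.lf 11589420 0 0) (P.lf 1287711 0 0)))) (P.cons (P.cons (P.lf 0 110114742 0) (P.cons (P.lf 0 7972569 0) (P.cons (P.lf 3437862 0 0) (P.lf 381981 0 0)))) (P.cons (P.cons (P.lf 0 14014713 0) (P.cons (P.lf 0 376188 0) (P.cons (P.lf 162216 0 0) (P.lf 18021 0 0)))) (P.cons (P.cons (P.lf 173304 0 0) (P.cons (P.lf 76629 0 0) (P.cons (P.lf 0 33042 0) P.nil))) (P.cons (P.cons (P.lf 121368 0 0) (P.cons (P.lf 4812 0 0) P.nil)) (P.cons (P.cons (P.lf 672 0 0) P.nil) P.nil)))))) 13770)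
 (EL.cons 11 (TM.mk (P.cons (P.cons (P.lf 203431104 0 0) (P.cons (P.lf 0 189514893 0) (P.cons (P.lf 0 19450392 0) (P.cons (P.lf 4045140 0 0) (P.lf 337092 0 0))))) (P.cons (P.cons (P.lf 23064687 0 0) (P.cons (P.lf 0 21486891 0) (P.cons (P.lf 0 2205252 0) (P.cons (P.lf 458631 0 0) (P.lf 38217 0 0))))) (P.cons (P.cons (P.lf 0 2136702 0) (P.cons (P.lf 1990536 0 0) (P.cons (P.lf 204291 0 0) (P.cons (P.lf 0 42486 0) P.nil)))) (P.cons (P.cons (P.lf 0 170238 0) (P.cons (P.lf 158592 0 0) (P.cons (P.lf 16275 0 0) P.nil))) (P.cons (P.cons (P.lf 13872 0 0) (P.cons (P.lf 0 12924 0) P.nil)) (P.cons (P.cons (P.lf 288 0 0) P.nil) P.nil)))))) 14211)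
 EL.nil)))
noncomputable def S314_328_660_808_26 : EL := (EL.cons 4 (TM.mk (P.cons (P.cons (P.lf 319532580 0 0) (P.cons (P.lf 73770792 0 0) (P.cons (P.lf 0 27561114 0) (P.cons (P.lf 0 7199553 0) (P.cons (P.lf 382974 0 0) (P.cons (P.lf 175599 0 0) P.nil)))))) (P.cons (P.cons (P.lf 67477251 0 0) (P.cons (P.lf 10463274 0 0) (P.cons (P.lf 0 4234608 0) (P.cons (P.lf 0 740448 0) (P.cons (P.lf 24987 0 0) P.nil))))) (P.cons (P.cons (P.lf 0 10723530 0) (P.cons (P.lf 0 2225178 0) (P.cons (P.lf 836028 0 0) (P.cons (P.lf 213114 0 0) P.nil)))) (P.cons (P.cons (P.lf 0 2443104 0) (P.cons (P.lf 0 254475 0) (P.cons (P.lf 106521 0 0) P.nil))) (P.cons (P.cons (P.lf 104181 0 0) (P.cons (P.lf 33075 0 0) P.nil)) (P.cons (P.cons (P.lf 27300 0 0) P.nil) P.nil)))))) 131115)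
 (EL.cons 8 (TM.mk (P.cons (P.cons (P.lf 117656499 0 0) (P.cons (P.lf 27163467 0 0) (P.cons (P.lf 0 10148400 0) (P.cons (P.lf 0 2650977 0) (P.cons (P.lf 141015 0 0) (P.cons (P.lf 64656 0 0) P.nil)))))) (P.cons (P.cons (P.lf 39737934 0 0) (P.cons (P.lf 7290819 0 0) (P.cons (P.lf 0 2843730 0) (P.cons (P.lf 0 608178 0) (P.cons (P.lf 27048 0 0) P.nil))))) (P.cons (P.cons (P.lf 0 403044 0) (P.cons (P.lf 0 239184 0) (P.cons (P.lf 75918 0 0) (P.cons (P.lf 34932 0 0) P.nil)))) (P.cons (P.cons (P.lf 0 1292028 0) (P.cons (P.lf 0 179040 0) (P.cons (P.lf 70914 0 0) P.nil))) (P.cons (P.cons (P.lf 0 83316 0) (P.cons (P.lf 0 1533 0) P.nil)) (P.cons (P.cons (P.lf 11295 0 0) P.nil) P.nil)))))) 68577)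
 (EL.cons 11 (TM.mk (P.cons (P.cons (P.lf 0 98290017 0) (P.cons (P.lf 79722120 0 0) (P.cons (P.lf 25538892 0 0) (P.cons (P.lf 0 5012478 0) (P.cons (P.lf 0 1415364 0) (P.cons (P.lf 27672 0 0) P.nil)))))) (P.cons (P.cons (P.lf 104871 0 0) (P.cons (P.lf 0 199038 0) (P.cons (P.lf 128082 0 0) (P.cons (P.lf 0 24078 0) (P.cons (P.lf 0 10542 0) P.nil))))) (P.cons (P.cons (P.lf 3214620 0 0) (P.cons (P.lf 0 2726019 0) (P.cons (P.lf 0 673530 0) (P.cons (P.lf 133293 0 0) P.nil)))) (P.cons (P.cons (P.lf 18855 0 0) (P.cons (P.lf 0 24894 0) (P.cons (P.lf 8181 0 0) P.nil))) (P.cons (P.cons (P.lf 0 32928 0) (P.cons (P.lf 28383 0 0) P.nil)) (P.cons (P.cons (P.lf 303 0 0) P.nil) P.nil)))))) 126633)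
 EL.nil)))
noncomputable def S314_328_660_808_27 : EL := (EL.cons 13 (TM.mk (P.lf 0 4294967296 0) 0)
 EL.nil)
noncomputable def S314_328_660_808_28 : EL := (EL.cons 13 (TM.mk (P.cons (P.cons (P.lf 2075161600 0 0) (P.cons (P.lf 250060720 0 0) (P.cons (P.lf 0 107829000 0) (P.lf 0 11981000 0)))) (P.cons (P.cons (P.lf 0 237492561 0) (P.cons (P.lf 0 26211852 0) (P.cons (P.lf 11302844 0 0) (P.lf 1255868 0 0)))) (P.cons (P.cons (P.lf 0 19146492 0) (P.cons (P.lf 0 74520 0) (P.cons (P.lf 32132 0 0) (P.lf 3568 0 0)))) (P.cons (P.cons (P.lf 1014795 0 0) (P.cons (P.lf 97116 0 0) (P.cons (P.lf 0 41876 0) P.nil))) (P.cons (P.cons (P.lf 38804 0 0) (P.cons (P.lf 0 2360 0) P.nil)) (P.cons (P.cons (P.lf 0 2948 0) P.nil) P.nil)))))) 7189)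
 EL.nil)
noncomputable def S314_328_660_808_29 : EL := (EL.cons 13 (TM.mk (P.cons (P.cons (P.lf 0 1002637591 0) (P.cons (P.lf 0 241639280 0) (P.cons (P.lf 89638595 0 0) (P.cons (P.lf 24133505 0 0) (P.cons (P.lf 0 1312032 0) (P.cons (P.lf 0 601587 0) P.nil)))))) (P.cons (P.cons (P.lf 229494386 0 0) (P.cons (P.lf 52983588 0 0) (P.cons (P.lf 0 19794916 0) (P.cons (P.lf 0 5170853 0) (P.cons (P.lf 275060 0 0) P.nil))))) (P.cons (P.cons (P.lf 5369403 0 0) (P.cons (P.lf 0 597300 0) (P.cons (P.lf 106272 0 0) (P.cons (P.lf 159097 0 0) P.nil)))) (P.cons (P.cons (P.lf 0 3098050 0) (P.cons (P.lf 0 453952 0) (P.cons (P.lf 183529 0 0) P.nil))) (P.cons (P.cons (P.lf 0 10622 0) (P.cons (P.lf 20224 0 0) P.nil)) (P.cons (P.cons (P.lf 16187 0 0) P.nil) P.nil)))))) 281472)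
 EL.nil)
noncomputable def S314_328_660_808_30 : EL := (EL.cons 13 (TM.mk (P.cons (P.lf 0 2018385512 0) (P.cons (P.lf 0 184944336 0) (P.cons (P.lf 4716368 0 0) (P.cons (P.lf 84200 0 0) (P.cons (P.lf 0 5428 0) (P.cons (P.lf 12 0 0) P.nil)))))) 52)
 EL.nil)
noncomputable def S314_328_660_808_31 : EL := (EL.cons 13 (TM.mk (P.cons (P.cons (P.lf 975205588 0 0) (P.cons (P.lf 117514034 0 0) (P.cons (P.lf 0 50673375 0) (P.lf 0 5630375 0)))) (P.cons (P.cons (P.lf 0 22249799 0) (P.cons (P.lf 0 1550258 0) (P.cons (P.lf 668487 0 0) (P.lf 74274 0 0)))) (P.cons (P.cons (P.lf 0 21503104 0) (P.cons (P.lf 0 1438316 0) (P.cons (P.lf 620217 0 0) (P.lf 68911 0 0)))) (P.cons (P.cons (P.lf 0 127454 0) (P.cons (P.lf 66311 0 0) (P.cons (P.lf 0 28593 0) P.nil))) (P.cons (P.cons (P.lf 90236 0 0) (P.cons (P.lf 3984 0 0) P.nil)) (P.cons (P.cons (P.lf 0 759 0) P.nil) P.nil)))))) 8287)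
 EL.nil)
noncomputable def S314_328_660_808_32 : EL := (EL.cons 13 (TM.mk (P.cons (P.cons (P.lf 0 471181512 0) (P.cons (P.lf 0 113556446 0) (P.cons (P.lf 42124940 0 0) (P.cons (P.lf 11341347 0 0) (P.cons (P.lf 0 616578 0) (P.cons (P.lf 0 282710 0) P.nil)))))) (P.cons (P.cons (P.lf 64674764 0 0) (P.cons (P.lf 14494054 0 0) (P.cons (P.lf 0 5442560 0) (P.cons (P.lf 0 1390795 0) (P.cons (P.lf 72765 0 0) P.nil))))) (P.cons (P.cons (P.lf 13506510 0 0) (P.cons (P.lf 2266162 0 0) (P.cons (P.lf 0 900874 0) (P.cons (P.lf 0 174395 0) P.nil)))) (P.cons (P.cons (P.lf 0 1457048 0) (P.cons (P.lf 0 292496 0) (P.cons (P.lf 110803 0 0) P.nil))) (P.cons (P.cons (P.lf 0 150058 0) (P.cons (P.lf 0 10731 0) P.nil)) (P.cons (P.cons (P.lf 10739 0 0) P.nil) P.nil)))))) 209304)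
 EL.nil)
noncomputable def S314_328_660_808_33 : EL := (EL.cons 14 (TM.mk (P.lf 8589934592 0 0) 0)
 EL.nil)
noncomputable def S314_328_660_808_34 : EL := (EL.cons 14 (TM.mk (P.cons (P.cons (P.lf 0 4150323200 0) (P.cons (P.lf 0 500121440 0) (P.cons (P.lf 215658000 0 0) (P.lf 23962000 0 0)))) (P.cons (P.cons (P.lf 474985122 0 0) (P.cons (P.lf 52423704 0 0) (P.cons (P.lf 0 22605688 0) (P.lf 0 2511736 0)))) (P.cons (P.cons (P.lf 38292984 0 0) (P.cons (P.lf 149040 0 0) (P.cons (P.lf 0 64264 0) (P.lf 0 7136 0)))) (P.cons (P.cons (P.lf 0 2029590 0) (P.cons (P.lf 0 194232 0) (P.cons (P.lf 83752 0 0) P.nil))) (P.cons (P.cons (P.lf 0 77608 0) (P.cons (P.lf 4720 0 0) P.nil)) (P.cons (P.cons (P.lf 5896 0 0) P.nil) P.nil)))))) 14378)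
 EL.nil)
noncomputable def S314_328_660_808_35 : EL := (EL.cons 14 (TM.mk (P.cons (P.cons (P.lf 2005275182 0 0) (P.cons (P.lf 483278560 0 0) (P.cons (P.lf 0 179277190 0) (P.cons (P.lf 0 48267010 0) (P.cons (P.lf 2624064 0 0) (P.cons (P.lf 1203174 0 0) P.nil)))))) (P.cons (P.cons (P.lf 0 458988772 0) (P.cons (P.lf 0 105967176 0) (P.cons (P.lf 39589832 0 0) (P.cons (P.lf 10341706 0 0) (P.cons (P.lf 0 550120 0) P.nil))))) (P.cons (P.cons (P.lf 0 10738806 0) (P.cons (P.lf 1194600 0 0) (P.cons (P.lf 0 212544 0) (P.cons (P.lf 0 318194 0) P.nil)))) (P.cons (P.cons (P.lf 6196100 0 0) (P.cons (P.lf 907904 0 0) (P.cons (P.lf 0 367058 0) P.nil))) (P.cons (P.cons (P.lf 21244 0 0) (P.cons (P.lf 0 40448 0) P.nil)) (P.cons (P.cons (P.lf 0 32374 0) P.nil) P.nil)))))) 562944)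
 EL.nil)
noncomputable def S314_328_660_808_36 : EL := (EL.cons 14 (TM.mk (P.cons (P.lf 4036771024 0 0) (P.cons (P.lf 369888672 0 0) (P.cons (P.lf 0 9432736 0) (P.cons (P.lf 0 168400 0) (P.cons (P.lf 10856 0 0) (P.cons (P.lf 0 24 0) P.nil)))))) 104)
 EL.nil)
noncomputable def S314_328_660_808_37 : EL := (EL.cons 14 (TM.mk (P.cons (P.cons (P.lf 0 1950411176 0) (P.cons (P.lf 0 235028068 0) (P.cons (P.lf 101346750 0 0) (P.lf 11260750 0 0)))) (P.cons (P.cons (P.lf 44499598 0 0) (P.cons (P.lf 3100516 0 0) (P.cons (P.lf 0 1336974 0) (P.lf 0 148548 0)))) (P.cons (P.cons (P.lf 43006208 0 0) (P.cons (P.lf 2876632 0 0) (P.cons (P.lf 0 1240434 0) (P.lf 0 137822 0)))) (P.cons (P.cons (P.lf 254908 0 0) (P.cons (P.lf 0 132622 0) (P.cons (P.lf 57186 0 0) P.nil))) (P.cons (P.cons (P.lf 0 180472 0) (P.cons (P.lf 0 7968 0) P.nil)) (P.cons (P.cons (P.lf 1518 0 0) P.nil) P.nil)))))) 16574)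
 EL.nil)
noncomputable def S314_328_660_808_38 : EL := (EL.cons 14 (TM.mk (P.cons (P.cons (P.lf 942363024 0 0) (P.cons (P.lf 227112892 0 0) (P.cons (P.lf 0 84249880 0) (P.cons (P.lf 0 22682694 0) (P.cons (P.lf 1233156 0 0) (P.cons (P.lf 565420 0 0) P.nil)))))) (P.cons (P.cons (P.lf 0 129349528 0) (P.cons (P.lf 0 28988108 0) (P.cons (P.lf 10885120 0 0) (P.cons (P.lf 2781590 0 0) (P.cons (P.lf 0 145530 0) P.nil))))) (P.cons (P.cons (P.lf 0 27013020 0) (P.cons (P.lf 0 4532324 0) (P.cons (P.lf 1801748 0 0) (P.cons (P.lf 348790 0 0) P.nil)))) (P.cons (P.cons (P.lf 2914096 0 0) (P.cons (P.lf 584992 0 0) (P.cons (P.lf 0 221606 0) P.nil))) (P.cons (P.cons (P.lf 300116 0 0) (P.cons (P.lf 21462 0 0) P.nil)) (P.cons (P.cons (P.lf 0 21478 0) P.nil) P.nil)))))) 418608)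
 EL.nil)
noncomputable def S314_328_660_808_39 : EL := (EL.cons 14 (TM.mk (P.cons (P.lf 1897048240 0 0) (P.cons (P.lf 347652442 0 0) (P.cons (P.lf 7061990 0 0) (P.cons (P.lf 0 970636 0) (P.cons (P.lf 6058 0 0) (P.cons (P.lf 1282 0 0) P.nil)))))) 150)
 EL.nil)
noncomputable def S314_328_660_808_40 : EL := (EL.cons 14 (TM.mk (P.cons (P.cons (P.lf 0 916580124 0) (P.cons (P.lf 0 110449560 0) (P.cons (P.lf 47627094 0 0) (P.lf 5291898 0 0)))) (P.cons (P.cons (P.lf 0 63073856 0) (P.cons (P.lf 0 8663412 0) (P.cons (P.lf 3735760 0 0) (P.lf 415086 0 0)))) (P.cons (P.cons (P.lf 24268384 0 0) (P.cons (P.lf 1743448 0 0) (P.cons (P.lf 0 751792 0) (P.lf 0 83530 0)))) (P.cons (P.cons (P.lf 1961040 0 0) (P.cons (P.lf 62746 0 0) (P.cons (P.lf 0 27058 0) P.nil))) (P.cons (P.cons (P.lf 0 124398 0) (P.cons (P.lf 0 12972 0) P.nil)) (P.cons (P.cons (P.lf 0 8118 0) P.nil) P.nil)))))) 16730)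
 EL.nil)
noncomputable def S314_328_660_808_41 : EL := (EL.cons 14 (TM.mk (P.cons (P.cons (P.lf 442855962 0 0) (P.cons (P.lf 106729886 0 0) (P.cons (P.lf 0 39592556 0) (P.cons (P.lf 0 10659550 0) (P.cons (P.lf 579512 0 0) (P.cons (P.lf 265714 0 0) P.nil)))))) (P.cons (P.cons (P.lf 0 20207956 0) (P.cons (P.lf 0 3843086 0) (P.cons (P.lf 1487516 0 0) (P.cons (P.lf 330452 0 0) (P.cons (P.lf 0 15290 0) P.nil))))) (P.cons (P.cons (P.lf 0 19299258 0) (P.cons (P.lf 0 3627574 0) (P.cons (P.lf 1407954 0 0) (P.cons (P.lf 308596 0 0) P.nil)))) (P.cons (P.cons (P.lf 329822 0 0) (P.cons (P.lf 107126 0 0) (P.cons (P.lf 0 36858 0) P.nil))) (P.cons (P.cons (P.lf 299910 0 0) (P.cons (P.lf 41108 0 0) P.nil)) (P.cons (P.cons (P.lf 0 6 0) P.nil) P.nil)))))) 276168)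
 EL.nil)
noncomputable def S314_328_660_808_42 : EL := (EL.cons 14 (TM.mk (P.cons (P.lf 891502640 0 0) (P.cons (P.lf 245064724 0 0) (P.cons (P.lf 16205708 0 0) (P.cons (P.lf 0 571000 0) (P.cons (P.lf 0 51122 0) (P.cons (P.lf 2224 0 0) P.nil)))))) 210)
 EL.nil)
noncomputable def S314_328_660_808_43 : EL := (EL.cons 14 (TM.mk (P.cons (P.cons (P.lf 0 430739494 0) (P.cons (P.lf 0 51904886 0) (P.cons (P.lf 22381972 0 0) (P.lf 2486884 0 0)))) (P.cons (P.cons (P.lf 0 69109642 0) (P.cons (P.lf 0 8827336 0) (P.cons (P.lf 3806446 0 0) (P.lf 422938 0 0)))) (P.cons (P.cons (P.lf 9695238 0 0) (P.cons (P.lf 567552 0 0) (P.cons (P.lf 0 244734 0) (P.lf 0 27192 0)))) (P.cons (P.cons (P.lf 2053818 0 0) (P.cons (P.lf 116240 0 0) (P.cons (P.lf 0 50124 0) P.nil))) (P.cons (P.cons (P.lf 0 586 0) (P.cons (P.lf 0 5278 0) P.nil)) (P.cons (P.cons (P.lf 0 11878 0) P.nil) P.nil)))))) 16474)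
 EL.nil)
noncomputable def S314_328_660_808_44 : EL := (EL.cons 14 (TM.mk (P.cons (P.cons (P.lf 208116614 0 0) (P.cons (P.lf 50156854 0 0) (P.cons (P.lf 0 18606204 0) (P.cons (P.lf 0 5009370 0) (P.cons (P.lf 272336 0 0) (P.cons (P.lf 124870 0 0) P.nil)))))) (P.cons (P.cons (P.lf 9573122 0 0) (P.cons (P.lf 2789836 0 0) (P.cons (P.lf 0 1005836 0) (P.cons (P.lf 0 303712 0) (P.cons (P.lf 17768 0 0) P.nil))))) (P.cons (P.cons (P.lf 0 10426006 0) (P.cons (P.lf 0 1987436 0) (P.cons (P.lf 769186 0 0) (P.cons (P.lf 170956 0 0) P.nil)))) (P.cons (P.cons (P.lf 0 662532 0) (P.cons (P.lf 0 103734 0) (P.cons (P.lf 42448 0 0) P.nil))) (P.cons (P.cons (P.lf 177290 0 0) (P.cons (P.lf 28124 0 0) P.nil)) (P.cons (P.cons (P.lf 12900 0 0) P.nil) P.nil)))))) 188926)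
 EL.nil)
noncomputable def S314_328_660_808_45 : EL := (EL.cons 14 (TM.mk (P.cons (P.cons (P.lf 0 968871184 0) (P.cons (P.lf 0 350252180 0) (P.cons (P.lf 108826666 0 0) (P.cons (P.lf 51485530 0 0) (P.cons (P.lf 0 1610440 0) (P.cons (P.lf 0 2445992 0) P.nil)))))) (P.cons (P.cons (P.lf 332648356 0 0) (P.cons (P.lf 116883570 0 0) (P.cons (P.lf 0 36722992 0) (P.cons (P.lf 0 16863708 0) (P.cons (P.lf 543032 0 0) P.nil))))) (P.cons (P.cons (P.lf 0 11252162 0) (P.cons (P.lf 0 6423442 0) (P.cons (P.lf 1708046 0 0) (P.cons (P.lf 1169130 0 0) P.nil)))) (P.cons (P.cons (P.lf 0 6107440 0) (P.cons (P.lf 0 1438776 0) (P.cons (P.lf 532910 0 0) P.nil))) (P.cons (P.cons (P.lf 374810 0 0) (P.cons (P.lf 143612 0 0) P.nil)) (P.cons (P.cons (P.lf 52498 0 0) P.nil) P.nil)))))) 2028836)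
 EL.nil)
noncomputable def S314_328_660_808_46 : EL := (EL.cons 15 (TM.mk (P.lf 4294967296 0 0) 0)
 EL.nil)
noncomputable def S314_328_660_808_47 : EL := (EL.cons 15 (TM.mk (P.cons (P.cons (P.lf 0 2075161600 0) (P.cons (P.lf 0 250060720 0) (P.cons (P.lf 107829000 0 0) (P.lf 11981000 0 0)))) (P.cons (P.cons (P.lf 237492561 0 0) (P.cons (P.lf 26211852 0 0) (P.cons (P.lf 0 11302844 0) (P.lf 0 1255868 0)))) (P.cons (P.cons (P.lf 19146492 0 0) (P.cons (P.lf 74520 0 0) (P.cons (P.lf 0 32132 0) (P.lf 0 3568 0)))) (P.cons (P.cons (P.lf 0 1014795 0) (P.cons (P.lf 0 97116 0) (P.cons (P.lf 41876 0 0) P.nil))) (P.cons (P.cons (P.lf 0 38804 0) (P.cons (P.lf 2360 0 0) P.nil)) (P.cons (P.cons (P.lf 2948 0 0) P.nil) P.nil)))))) 7189)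
 EL.nil)
noncomputable def S314_328_660_808_48 : EL := (EL.cons 15 (TM.mk (P.cons (P.cons (P.lf 1002637591 0 0) (P.cons (P.lf 241639280 0 0) (P.cons (P.lf 0 89638595 0) (P.cons (P.lf 0 24133505 0) (P.cons (P.lf 1312032 0 0) (P.cons (P.lf 601587 0 0) P.nil)))))) (P.cons (P.cons (P.lf 0 229494386 0) (P.cons (P.lf 0 52983588 0) (P.cons (P.lf 19794916 0 0) (P.cons (P.lf 5170853 0 0) (P.cons (P.lf 0 275060 0) P.nil))))) (P.cons (P.cons (P.lf 0 5369403 0) (P.cons (P.lf 597300 0 0) (P.cons (P.lf 0 106272 0) (P.cons (P.lf 0 159097 0) P.nil)))) (P.cons (P.cons (P.lf 3098050 0 0) (P.cons (P.lf 453952 0 0) (P.cons (P.lf 0 183529 0) P.nil))) (P.cons (P.cons (P.lf 10622 0 0) (P.cons (P.lf 0 20224 0) P.nil)) (P.cons (P.cons (P.lf 0 16187 0) P.nil) P.nil)))))) 281472)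
 EL.nil)
noncomputable def S314_328_660_808 : SL := (SL.cons S314_328_660_808_0 (SL.cons S314_328_660_808_1 (SL.cons S314_328_660_808_2 (SL.cons S314_328_660_808_3 (SL.cons S314_328_660_808_4 (SL.cons S314_328_660_808_5 (SL.cons S314_328_660_808_6 (SL.cons S314_328_660_808_7 (SL.cons S314_328_660_808_8 (SL.cons S314_328_660_808_9 (SL.cons S314_328_660_808_10 (SL.cons S314_328_660_808_11 (SL.cons S314_328_660_808_12 (SL.cons S314_328_660_808_13 (SL.cons S314_328_660_808_14 (SL.cons S314_328_660_808_15 (SL.cons S314_328_660_808_16 (SL.cons S314_328_660_808_17 (SL.cons S314_328_660_808_18 (SL.cons S314_328_660_808_19 (SL.cons S314_328_660_808_20 (SL.cons S314_328_660_808_21 (SL.cons S314_328_660_808_22 (SL.cons S314_328_660_808_23 (SL.cons S314_328_660_808_24 (SL.cons S314_328_660_808_25 (SL.cons S314_328_660_808_26 (SL.cons S314_328_660_808_27 (SL.cons S314_328_660_808_28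 (SL.cons S314_328_660_808_29 (SL.cons S314_328_660_808_30 (SL.cons S314_328_660_808_31 (SL.cons S314_328_660_808_32 (SL.cons S314_328_660_808_33 (SL.cons S314_328_660_808_34 (SL.cons S314_328_660_808_35 (SL.cons S314_328_660_808_36 (SL.cons S314_328_660_808_37 (SL.cons S314_328_660_808_38 (SL.cons S314_328_660_808_39 (SL.cons S314_328_660_808_40 (SL.cons S314_328_660_808_41 (SL.cons S314_328_660_808_42 (SL.cons S314_328_660_808_43 (SL.cons S314_328_660_808_44 (SL.cons S314_328_660_808_45 (SL.cons S314_328_660_808_46 (SL.cons S314_328_660_808_47 (SL.cons S314_328_660_808_48 SL.nil)))))))))))))))))))))))))))))))))))))))))))))))))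
noncomputable def S314_343_216_290_0 : EL := (EL.cons 0 (TM.mk (P.cons (P.lf 6454925654 0 0) (P.cons (P.lf 0 654467131 0) (P.cons (P.lf 0 15080835 0) (P.cons (P.lf 7271133 0 0) (P.cons (P.lf 0 199596 0) (P.cons (P.lf 0 35412 0) P.nil)))))) 3454)
 (EL.cons 1 (TM.mk (P.cons (P.lf 1695086628 0 0) (P.cons (P.lf 139901857 0 0) (P.cons (P.lf 0 47471786 0) (P.cons (P.lf 293435 0 0) (P.cons (P.lf 328029 0 0) (P.cons (P.lf 0 15684 0) P.nil)))))) 1940)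
 (EL.cons 5 (TM.mk (P.cons (P.lf 5006359730 0 0) (P.cons (P.lf 232699422 0 0) (P.cons (P.lf 5362070 0 0) (P.cons (P.lf 0 2585292 0) (P.cons (P.lf 70970 0 0) (P.cons (P.lf 12590 0 0) P.nil)))))) 1169)
 (EL.cons 9 (TM.mk (P.lf 6442450944 0 0) 2)
 EL.nil))))
noncomputable def S314_343_216_290_1 : EL := (EL.cons 0 (TM.mk (P.cons (P.cons (P.lf 838818826 0 0) (P.cons (P.lf 0 6232390 0) (P.cons (P.lf 0 2942069 0) (P.lf 140100 0 0)))) (P.cons (P.cons (P.lf 661764794 0 0) (P.cons (P.lf 37567161 0 0) (P.cons (P.lf 17734000 0 0) (P.lf 0 844472 0)))) (P.cons (P.cons (P.lf 211982276 0 0) (P.cons (P.lf 0 7958399 0) (P.cons (P.lf 0 3756847 0) (P.lf 178887 0 0)))) (P.cons (P.cons (P.lf 0 59090479 0) (P.cons (P.lf 0 470719 0) (P.cons (P.lf 0 222206 0) P.nil))) (P.cons (P.cons (P.lf 0 2824195 0) (P.cons (P.lf 236747 0 0) P.nil)) (P.cons (P.cons (P.lf 1444717 0 0) P.nil) P.nil))))))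 463123)
 (EL.cons 1 (TM.mk (P.cons (P.cons (P.lf 369488792 0 0) (P.cons (P.lf 0 41014436 0) (P.cons (P.lf 0 19361326 0) (P.lf 921961 0 0)))) (P.cons (P.cons (P.lf 0 228988709 0) (P.cons (P.lf 15068250 0 0) (P.cons (P.lf 7113129 0 0) (P.lf 0 338712 0)))) (P.cons (P.cons (P.lf 139716763 0 0) (P.cons (P.lf 2005642 0 0) (P.cons (P.lf 946784 0 0) (P.lf 0 45083 0)))) (P.cons (P.cons (P.lf 11657889 0 0) (P.cons (P.lf 0 872915 0) (P.cons (P.lf 0 412060 0) P.nil))) (P.cons (P.cons (P.lf 0 5872255 0) (P.cons (P.lf 13339 0 0) P.nil)) (P.cons (P.cons (P.lf 47526 0 0) P.nil) P.nil)))))) 267510)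
 (EL.cons 5 (TM.mk (P.cons (P.cons (P.lf 1004883413 0 0) (P.cons (P.lf 0 98336928 0) (P.cons (P.lf 0 46421048 0) (P.lf 2210522 0 0)))) (P.cons (P.cons (P.lf 0 327902742 0) (P.cons (P.lf 11082674 0 0) (P.cons (P.lf 5231702 0 0) (P.lf 0 249136 0)))) (P.cons (P.cons (P.lf 57336508 0 0) (P.cons (P.lf 2402780 0 0) (P.cons (P.lf 1134256 0 0) (P.lf 0 54006 0)))) (P.cons (P.cons (P.lf 18600466 0 0) (P.cons (P.lf 0 176528 0) (P.cons (P.lf 0 83334 0) P.nil))) (P.cons (P.cons (P.lf 0 817685 0) (P.cons (P.lf 0 58718 0) P.nil)) (P.cons (P.cons (P.lf 0 401057 0) P.nil) P.nil)))))) 211562)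
 (EL.cons 9 (TM.mk (P.cons (P.cons (P.lf 1149820675 0 0) (P.cons (P.lf 0 88723128 0) (P.cons (P.lf 0 41882748 0) (P.lf 1994412 0 0)))) (P.cons (P.cons (P.lf 0 81713454 0) (P.cons (P.lf 21564594 0 0) (P.cons (P.lf 10179804 0 0) (P.lf 0 484752 0)))) (P.cons (P.cons (P.lf 117095272 0 0) (P.cons (P.lf 0 376650 0) (P.cons (P.lf 0 177804 0) (P.lf 8466 0 0)))) (P.cons (P.cons (P.lf 0 2126010 0) (P.cons (P.lf 0 303432 0) (P.cons (P.lf 0 143232 0) P.nil))) (P.cons (P.cons (P.lf 0 1607503 0) (P.cons (P.lf 22458 0 0) P.nil)) (P.cons (P.cons (P.lf 99363 0 0) P.nil) P.nil)))))) 42788)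
 (EL.cons 2 (TM.mk (P.cons (P.cons (P.lf 0 210623436 0) (P.cons (P.lf 0 207683589 0) (P.cons (P.lf 6498618 0 0) (P.cons (P.lf 1190843 0 0) (P.lf 0 42527 0))))) (P.cons (P.cons (P.lf 0 319182 0) (P.cons (P.lf 0 314727 0) (P.cons (P.lf 9846 0 0) (P.cons (P.lf 1805 0 0) (P.lf 0 64 0))))) (P.cons (P.cons (P.lf 8391476 0 0) (P.cons (P.lf 8274352 0 0) (P.cons (P.lf 0 258910 0) (P.cons (P.lf 0 47441 0) P.nil)))) (P.cons (P.cons (P.lf 0 526573 0) (P.cons (P.lf 0 519221 0) (P.cons (P.lf 16245 0 0) P.nil))) (P.cons (P.cons (P.lf 0 76815 0) (P.cons (P.lf 0 75743 0) P.nil)) (P.cons (P.cons (P.lf 8645 0 0) P.nil) P.nil)))))) 21570)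
 (EL.cons 6 (TM.mk (P.cons (P.cons (P.lf 178441893 0 0) (P.cons (P.lf 175951230 0 0) (P.cons (P.lf 0 5505681 0) (P.cons (P.lf 0 1008891 0) (P.lf 36030 0 0))))) (P.cons (P.cons (P.lf 0 43371189 0) (P.cons (P.lf 0 42765822 0) (P.cons (P.lf 1338183 0 0) (P.cons (P.lf 245214 0 0) (P.lf 0 8754 0))))) (P.cons (P.cons (P.lf 757533 0 0) (P.cons (P.lf 746958 0 0) (P.cons (P.lf 0 23373 0) (P.cons (P.lf 0 4284 0) P.nil)))) (P.cons (P.cons (P.lf 610269 0 0) (P.cons (P.lf 601752 0 0) (P.cons (P.lf 0 18828 0) P.nil))) (P.cons (P.cons (P.lf 0 45168 0) (P.cons (P.lf 0 44538 0) P.nil)) (P.cons (P.cons (P.lf 0 3180 0) P.nil) P.nil)))))) 12279)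
 EL.nil))))))
noncomputable def S314_343_216_290_2 : EL := (EL.cons 0 (TM.mk (P.cons (P.cons (P.lf 93805119 0 0) (P.cons (P.lf 6402671 0 0) (P.cons (P.lf 1969877 0 0) (P.cons (P.lf 0 1137677 0) (P.cons (P.lf 0 187230 0) (P.cons (P.lf 22337 0 0) P.nil)))))) (P.cons (P.cons (P.lf 265010646 0 0) (P.cons (P.lf 0 12228593 0) (P.cons (P.lf 0 6129851 0) (P.cons (P.lf 0 62373 0) (P.cons (P.lf 0 63546 0) P.nil))))) (P.cons (P.cons (P.lf 43972936 0 0) (P.cons (P.lf 0 676160 0) (P.cons (P.lf 12031 0 0) (P.cons (P.lf 327910 0 0) P.nil)))) (P.cons (P.cons (P.lf 4820398 0 0) (P.cons (P.lf 3210876 0 0) (P.cons (P.lf 1471377 0 0) P.nil))) (P.cons (P.cons (P.lf 5490473 0 0) (P.cons (P.lf 0 591532 0) P.nil)) (P.cons (P.cons (P.lf 0 1897355 0) P.nil) P.nil)))))) 1769248)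
 (EL.cons 1 (TM.mk (P.cons (P.cons (P.lf 77894963 0 0) (P.cons (P.lf 0 16484375 0) (P.cons (P.lf 0 6973443 0) (P.cons (P.lf 1133580 0 0) (P.cons (P.lf 143761 0 0) (P.cons (P.lf 0 17151 0) P.nil)))))) (P.cons (P.cons (P.lf 0 87892701 0) (P.cons (P.lf 13269951 0 0) (P.cons (P.lf 5704370 0 0) (P.cons (P.lf 0 826863 0) (P.cons (P.lf 0 99579 0) P.nil))))) (P.cons (P.cons (P.lf 59987692 0 0) (P.cons (P.lf 0 6003171 0) (P.cons (P.lf 0 2783250 0) (P.cons (P.lf 182718 0 0) P.nil)))) (P.cons (P.cons (P.lf 0 8124006 0) (P.cons (P.lf 782466 0 0) (P.cons (P.lf 401177 0 0) P.nil))) (P.cons (P.cons (P.lf 2618055 0 0) (P.cons (P.lf 305710 0 0) P.nil)) (P.cons (P.cons (P.lf 561061 0 0) P.nil) P.nil)))))) 992071)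
 (EL.cons 5 (TM.mk (P.cons (P.cons (P.lf 199224067 0 0) (P.cons (P.lf 0 38168984 0) (P.cons (P.lf 0 16259072 0) (P.cons (P.lf 2518738 0 0) (P.cons (P.lf 312888 0 0) (P.cons (P.lf 0 37324 0) P.nil)))))) (P.cons (P.cons (P.lf 0 127282755 0) (P.cons (P.lf 15622530 0 0) (P.cons (P.lf 6828640 0 0) (P.cons (P.lf 0 866801 0) (P.cons (P.lf 0 97137 0) P.nil))))) (P.cons (P.cons (P.lf 32910075 0 0) (P.cons (P.lf 0 4187144 0) (P.cons (P.lf 0 2000790 0) (P.cons (P.lf 71276 0 0) P.nil)))) (P.cons (P.cons (P.lf 0 5940415 0) (P.cons (P.lf 0 298773 0) (P.cons (P.lf 0 118647 0) P.nil))) (P.cons (P.cons (P.lf 0 129300 0) (P.cons (P.lf 246648 0 0) P.nil)) (P.cons (P.cons (P.lf 673435 0 0) P.nil) P.nil)))))) 879291)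
 (EL.cons 9 (TM.mk (P.cons (P.cons (P.lf 205215001 0 0) (P.cons (P.lf 0 31669836 0) (P.cons (P.lf 0 13728238 0) (P.cons (P.lf 1865496 0 0) (P.cons (P.lf 217348 0 0) (P.cons (P.lf 0 25930 0) P.nil)))))) (P.cons (P.cons (P.lf 0 29167725 0) (P.cons (P.lf 9948166 0 0) (P.cons (P.lf 4102182 0 0) (P.cons (P.lf 0 784395 0) (P.cons (P.lf 0 105655 0) P.nil))))) (P.cons (P.cons (P.lf 42833731 0 0) (P.cons (P.lf 0 3906666 0) (P.cons (P.lf 0 1761630 0) (P.cons (P.lf 165760 0 0) P.nil)))) (P.cons (P.cons (P.lf 0 3729259 0) (P.cons (P.lf 743698 0 0) (P.cons (P.lf 356908 0 0) P.nil))) (P.cons (P.cons (P.lf 1608403 0 0) (P.cons (P.lf 32064 0 0) P.nil)) (P.cons (P.cons (P.lf 0 1036 0) P.nil) P.nil)))))) 241921)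
 (EL.cons 2 (TM.mk (P.cons (P.cons (P.lf 0 75182310 0) (P.cons (P.lf 0 68331667 0) (P.cons (P.lf 10778523 0 0) (P.cons (P.lf 2815998 0 0) (P.cons (P.lf 0 261061 0) (P.cons (P.lf 0 10288 0) P.nil)))))) (P.cons (P.cons (P.lf 5228988 0 0) (P.cons (P.lf 3754771 0 0) (P.cons (P.lf 0 2204476 0) (P.cons (P.lf 0 607061 0) (P.cons (P.lf 60440 0 0) P.nil))))) (P.cons (P.cons (P.lf 0 4652955 0) (P.cons (P.lf 0 4796651 0) (P.cons (P.lf 0 160650 0) (P.cons (P.lf 0 59675 0) P.nil)))) (P.cons (P.cons (P.lf 0 273420 0) (P.cons (P.lf 0 179043 0) (P.cons (P.lf 140473 0 0) P.nil))) (P.cons (P.cons (P.lf 396292 0 0) (P.cons (P.lf 386932 0 0) P.nil)) (P.cons (P.cons (P.lf 0 25981 0) P.nil) P.nil)))))) 217630)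
 (EL.cons 6 (TM.mk (P.cons (P.cons (P.lf 63695064 0 0) (P.cons (P.lf 57891144 0 0) (P.cons (P.lf 0 9131652 0) (P.cons (P.lf 0 2385732 0) (P.cons (P.lf 221172 0 0) (P.cons (P.lf 8712 0 0) P.nil)))))) (P.cons (P.cons (P.lf 0 20007972 0) (P.cons (P.lf 0 17339532 0) (P.cons (P.lf 4100982 0 0) (P.cons (P.lf 1097790 0 0) (P.cons (P.lf 0 105300 0) P.nil))))) (P.cons (P.cons (P.lf 7857174 0 0) (P.cons (P.lf 7415424 0 0) (P.cons (P.lf 0 726630 0) (P.cons (P.lf 0 181284 0) P.nil)))) (P.cons (P.cons (P.lf 0 1495740 0) (P.cons (P.lf 0 1498338 0) (P.cons (P.lf 11922 0 0) P.nil))) (P.cons (P.cons (P.lf 0 64488 0) (P.cons (P.lf 0 53016 0) P.nil)) (P.cons (P.cons (P.lf 48840 0 0) P.nil) P.nil)))))) 170868)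
 EL.nil))))))
noncomputable def S314_343_216_290_3 : EL := (EL.cons 0 (TM.mk (P.cons (P.lf 2000791209 0 0) (P.cons (P.lf 654467131 0 0) (P.cons (P.lf 15080835 0 0) (P.cons (P.lf 0 7271133 0) (P.cons (P.lf 199596 0 0) (P.cons (P.lf 35412 0 0) P.nil)))))) 3454)
 (EL.cons 1 (TM.mk (P.cons (P.lf 0 1695086628 0) (P.cons (P.lf 0 139901857 0) (P.cons (P.lf 47471786 0 0) (P.cons (P.lf 0 293435 0) (P.cons (P.lf 0 328029 0) (P.cons (P.lf 15684 0 0) P.nil)))))) 1940)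
 (EL.cons 5 (TM.mk (P.cons (P.lf 1436091214 0 0) (P.cons (P.lf 0 232699422 0) (P.cons (P.lf 0 5362070 0) (P.cons (P.lf 2585292 0 0) (P.cons (P.lf 0 70970 0) (P.cons (P.lf 0 12590 0) P.nil)))))) 1162)
 EL.nil)))
noncomputable def S314_343_216_290_4 : EL := (EL.cons 0 (TM.mk (P.cons (P.cons (P.lf 357092527 0 0) (P.cons (P.lf 0 27554178 0) (P.cons (P.lf 0 13007258 0) (P.lf 619391 0 0)))) (P.cons (P.cons (P.lf 91429221 0 0) (P.cons (P.lf 0 2315907 0) (P.cons (P.lf 0 1093250 0) (P.lf 52057 0 0)))) (P.cons (P.cons (P.lf 30756100 0 0) (P.cons (P.lf 1866012 0 0) (P.cons (P.lf 880871 0 0) (P.lf 0 41944 0)))) (P.cons (P.cons (P.lf 9746056 0 0) (P.cons (P.lf 18116 0 0) (P.cons (P.lf 8553 0 0) P.nil))) (P.cons (P.cons (P.lf 0 313256 0) (P.cons (P.lf 0 51818 0) P.nil)) (P.cons (P.cons (P.lf 0 265786 0) P.nil) P.nil)))))) 81031)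
 (EL.cons 1 (TM.mk (P.cons (P.cons (P.lf 0 302531701 0) (P.cons (P.lf 23344125 0 0) (P.cons (P.lf 11019855 0 0) (P.lf 0 524752 0)))) (P.cons (P.cons (P.lf 0 3469278 0) (P.cons (P.lf 0 3747225 0) (P.cons (P.lf 0 1768918 0) (P.lf 84232 0 0)))) (P.cons (P.cons (P.lf 0 20562161 0) (P.cons (P.lf 0 1022951 0) (P.cons (P.lf 0 482895 0) (P.lf 22993 0 0)))) (P.cons (P.cons (P.lf 0 2637901 0) (P.cons (P.lf 250955 0 0) (P.cons (P.lf 118464 0 0) P.nil))) (P.cons (P.cons (P.lf 1277124 0 0) (P.cons (P.lf 1440 0 0) P.nil)) (P.cons (P.cons (P.lf 0 5274 0) P.nil) P.nil)))))) 63662)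
 (EL.cons 5 (TM.mk (P.cons (P.cons (P.lf 256307324 0 0) (P.cons (P.lf 0 19777332 0) (P.cons (P.lf 0 9336112 0) (P.lf 444574 0 0)))) (P.cons (P.cons (P.lf 0 59745984 0) (P.cons (P.lf 8011630 0 0) (P.cons (P.lf 3781978 0 0) (P.lf 0 180092 0)))) (P.cons (P.cons (P.lf 28096254 0 0) (P.cons (P.lf 0 789020 0) (P.cons (P.lf 0 372466 0) (P.lf 17736 0 0)))) (P.cons (P.cons (P.lf 0 4173934 0) (P.cons (P.lf 0 107584 0) (P.cons (P.lf 0 50784 0) P.nil))) (P.cons (P.cons (P.lf 0 424454 0) (P.cons (P.lf 25910 0 0) P.nil)) (P.cons (P.cons (P.lf 127622 0 0) P.nil) P.nil)))))) 42228)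
 EL.nil)))
noncomputable def S314_343_216_290_5 : EL := (EL.cons 0 (TM.mk (P.cons (P.cons (P.lf 63732322 0 0) (P.cons (P.lf 0 9835498 0) (P.cons (P.lf 0 4263491 0) (P.cons (P.lf 579353 0 0) (P.cons (P.lf 67500 0 0) (P.cons (P.lf 0 8052 0) P.nil)))))) (P.cons (P.cons (P.lf 11788671 0 0) (P.cons (P.lf 0 127692 0) (P.cons (P.lf 0 120615 0) (P.cons (P.lf 0 54094 0) (P.cons (P.lf 0 10731 0) P.nil))))) (P.cons (P.cons (P.lf 10819926 0 0) (P.cons (P.lf 0 276800 0) (P.cons (P.lf 0 162506 0) (P.cons (P.lf 0 23837 0) P.nil)))) (P.cons (P.cons (P.lf 2893273 0 0) (P.cons (P.lf 0 106867 0) (P.cons (P.lf 0 43017 0) P.nil))) (P.cons (P.cons (P.lf 260212 0 0) (P.cons (P.lf 64153 0 0) P.nil)) (P.cons (P.cons (P.lf 106221 0 0) P.nil) P.nil)))))) 209576)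
 (EL.cons 1 (TM.mk (P.cons (P.cons (P.lf 0 53994543 0) (P.cons (P.lf 8332715 0 0) (P.cons (P.lf 3612063 0 0) (P.cons (P.lf 0 490833 0) (P.cons (P.lf 0 57185 0) (P.cons (P.lf 6821 0 0) P.nil)))))) (P.cons (P.cons (P.lf 3218008 0 0) (P.cons (P.lf 0 1929751 0) (P.cons (P.lf 0 781215 0) (P.cons (P.lf 165871 0 0) (P.cons (P.lf 23077 0 0) P.nil))))) (P.cons (P.cons (P.lf 0 9124530 0) (P.cons (P.lf 578497 0 0) (P.cons (P.lf 273266 0 0) (P.cons (P.lf 0 12832 0) P.nil)))) (P.cons (P.cons (P.lf 0 173220 0) (P.cons (P.lf 0 36093 0) (P.cons (P.lf 0 24798 0) P.nil))) (P.cons (P.cons (P.lf 0 35701 0) (P.cons (P.lf 0 52211 0) P.nil)) (P.cons (P.cons (P.lf 0 62100 0) P.nil) P.nil)))))) 150607)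
 (EL.cons 5 (TM.mk (P.cons (P.cons (P.lf 45744618 0 0) (P.cons (P.lf 0 7059544 0) (P.cons (P.lf 0 3060170 0) (P.cons (P.lf 415838 0 0) (P.cons (P.lf 48448 0 0) (P.cons (P.lf 0 5778 0) P.nil)))))) (P.cons (P.cons (P.lf 0 13914102 0) (P.cons (P.lf 3361456 0 0) (P.cons (P.lf 1410278 0 0) (P.cons (P.lf 0 242230 0) (P.cons (P.lf 0 31402 0) P.nil))))) (P.cons (P.cons (P.lf 10430824 0 0) (P.cons (P.lf 0 1203802 0) (P.cons (P.lf 0 529428 0) (P.cons (P.lf 63728 0 0) P.nil)))) (P.cons (P.cons (P.lf 0 2271804 0) (P.cons (P.lf 285896 0 0) (P.cons (P.lf 134264 0 0) P.nil))) (P.cons (P.cons (P.lf 443612 0 0) (P.cons (P.lf 0 12120 0) P.nil)) (P.cons (P.cons (P.lf 0 38112 0) P.nil) P.nil)))))) 114350)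
 EL.nil)))
noncomputable def S314_343_216_290_6 : EL := (EL.cons 12 (TM.mk (P.lf 8589934592 0 0) 0)
 (EL.cons 3 (TM.mk (P.cons (P.lf 2072840178 0 0) (P.cons (P.lf 339017325 0 0) (P.cons (P.lf 0 19911543 0) (P.cons (P.lf 0 509910 0) (P.cons (P.lf 91155 0 0) (P.cons (P.lf 0 1462 0) P.nil)))))) 487)
 (EL.cons 7 (TM.mk (P.cons (P.lf 0 1756127103 0) (P.cons (P.lf 142278485 0 0) (P.cons (P.lf 9042093 0 0) (P.cons (P.lf 0 848140 0) (P.cons (P.lf 0 2043 0) (P.cons (P.lf 3166 0 0) P.nil)))))) 195)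
 EL.nil)))
noncomputable def S314_343_216_290_7 : EL := (EL.cons 12 (TM.mk (P.cons (P.cons (P.lf 1533094234 0 0) (P.cons (P.lf 0 118297504 0) (P.cons (P.lf 0 55843664 0) (P.lf 2659216 0 0)))) (P.cons (P.cons (P.lf 0 108951272 0) (P.cons (P.lf 28752792 0 0) (P.cons (P.lf 13573072 0 0) (P.lf 0 646336 0)))) (P.cons (P.cons (P.lf 156127030 0 0) (P.cons (P.lf 0 502200 0) (P.cons (P.lf 0 237072 0) (P.lf 11288 0 0)))) (P.cons (P.cons (P.lf 0 2834680 0) (P.cons (P.lf 0 404576 0) (P.cons (P.lf 0 190976 0) P.nil))) (P.cons (P.cons (P.lf 0 2143338 0) (P.cons (P.lf 29944 0 0) P.nil)) (P.cons (P.cons (P.lf 132484 0 0) P.nil) P.nil)))))) 57026)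
 (EL.cons 3 (TM.mk (P.cons (P.cons (P.lf 45443804 0 0) (P.cons (P.lf 57092824 0 0) (P.cons (P.lf 26951308 0 0) (P.lf 0 1283392 0)))) (P.cons (P.cons (P.lf 978716865 0 0) (P.cons (P.lf 0 4539040 0) (P.cons (P.lf 0 2142700 0) (P.lf 102030 0 0)))) (P.cons (P.cons (P.lf 0 35513436 0) (P.cons (P.lf 0 2575618 0) (P.cons (P.lf 0 1215846 0) (P.lf 57896 0 0)))) (P.cons (P.cons (P.lf 0 22912494 0) (P.cons (P.lf 354150 0 0) (P.cons (P.lf 167176 0 0) P.nil))) (P.cons (P.cons (P.lf 2255863 0 0) (P.cons (P.lf 21078 0 0) P.nil)) (P.cons (P.cons (P.lf 170129 0 0) P.nil) P.nil)))))) 180512)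
 (EL.cons 7 (TM.mk (P.cons (P.cons (P.lf 0 449615054 0) (P.cons (P.lf 60125761 0 0) (P.cons (P.lf 28383040 0 0) (P.lf 0 1351574 0)))) (P.cons (P.cons (P.lf 410747019 0 0) (P.cons (P.lf 0 1904946 0) (P.cons (P.lf 0 899253 0) (P.lf 42823 0 0)))) (P.cons (P.cons (P.lf 35324031 0 0) (P.cons (P.lf 0 1313877 0) (P.cons (P.lf 0 620229 0) (P.lf 29533 0 0)))) (P.cons (P.cons (P.lf 0 9943282 0) (P.cons (P.lf 0 37363 0) (P.cons (P.lf 0 17635 0) P.nil))) (P.cons (P.cons (P.lf 0 749302 0) (P.cons (P.lf 26963 0 0) P.nil)) (P.cons (P.cons (P.lf 169563 0 0) P.nil) P.nil)))))) 113536)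
 (EL.cons 10 (TM.mk (P.cons (P.cons (P.lf 0 436416075 0) (P.cons (P.lf 0 430324653 0) (P.cons (P.lf 13465272 0 0) (P.cons (P.lf 2467455 0 0) (P.lf 0 88122 0))))) (P.cons (P.cons (P.lf 70715400 0 0) (P.cons (P.lf 69728367 0 0) (P.cons (P.lf 0 2181867 0) (P.cons (P.lf 0 399816 0) (P.lf 14277 0 0))))) (P.cons (P.cons (P.lf 1629486 0 0) (P.cons (P.lf 1606743 0 0) (P.cons (P.lf 0 50274 0) (P.cons (P.lf 0 9210 0) P.nil)))) (P.cons (P.cons (P.lf 0 785646 0) (P.cons (P.lf 0 774681 0) (P.cons (P.lf 24240 0 0) P.nil))) (P.cons (P.cons (P.lf 21567 0 0) (P.cons (P.lf 21264 0 0) P.nil)) (P.cons (P.cons (P.lf 3825 0 0) P.nil) P.nil)))))) 10452)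
 EL.nil))))
noncomputable def S314_343_216_290_8 : EL := (EL.cons 12 (TM.mk (P.cons (P.cons (P.lf 273620002 0 0) (P.cons (P.lf 0 42226448 0) (P.cons (P.lf 0 18304318 0) (P.cons (P.lf 2487328 0 0) (P.cons (P.lf 289798 0 0) (P.cons (P.lf 0 34574 0) P.nil)))))) (P.cons (P.cons (P.lf 0 38890300 0) (P.cons (P.lf 13264222 0 0) (P.cons (P.lf 5469576 0 0) (P.cons (P.lf 0 1045860 0) (P.cons (P.lf 0 140874 0) P.nil))))) (P.cons (P.cons (P.lf 57111642 0 0) (P.cons (P.lf 0 5208888 0) (P.cons (P.lf 0 2348840 0) (P.cons (P.lf 221014 0 0) P.nil)))) (P.cons (P.cons (P.lf 0 4972346 0) (P.cons (P.lf 991598 0 0) (P.cons (P.lf 475878 0 0) P.nil))) (P.cons (P.cons (P.lf 2144538 0 0) (P.cons (P.lf 42752 0 0) P.nil)) (P.cons (P.cons (P.lf 0 1382 0) P.nil) P.nil)))))) 322532)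
 (EL.cons 3 (TM.mk (P.cons (P.cons (P.lf 0 49806111 0) (P.cons (P.lf 29317363 0 0) (P.cons (P.lf 11873934 0 0) (P.cons (P.lf 0 2514845 0) (P.cons (P.lf 0 349656 0) (P.cons (P.lf 41716 0 0) P.nil)))))) (P.cons (P.cons (P.lf 346787211 0 0) (P.cons (P.lf 0 31255600 0) (P.cons (P.lf 0 14120519 0) (P.cons (P.lf 1301199 0 0) (P.cons (P.lf 112780 0 0) P.nil))))) (P.cons (P.cons (P.lf 0 47464436 0) (P.cons (P.lf 9431634 0 0) (P.cons (P.lf 4494653 0 0) (P.cons (P.lf 0 172031 0) P.nil)))) (P.cons (P.cons (P.lf 27141683 0 0) (P.cons (P.lf 258220 0 0) (P.cons (P.lf 82084 0 0) P.nil))) (P.cons (P.cons (P.lf 0 767207 0) (P.cons (P.lf 0 484121 0) P.nil)) (P.cons (P.cons (P.lf 0 1384944 0) P.nil) P.nil)))))) 1044866)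
 (EL.cons 7 (TM.mk (P.cons (P.cons (P.lf 0 104551783 0) (P.cons (P.lf 25213059 0 0) (P.cons (P.lf 10579112 0 0) (P.cons (P.lf 0 1815837 0) (P.cons (P.lf 0 235334 0) (P.cons (P.lf 28074 0 0) P.nil)))))) (P.cons (P.cons (P.lf 145539347 0 0) (P.cons (P.lf 0 13117322 0) (P.cons (P.lf 0 5926086 0) (P.cons (P.lf 546086 0 0) (P.cons (P.lf 47328 0 0) P.nil))))) (P.cons (P.cons (P.lf 0 2122526 0) (P.cons (P.lf 2354206 0 0) (P.cons (P.lf 1161640 0 0) (P.cons (P.lf 0 5420 0) P.nil)))) (P.cons (P.cons (P.lf 8887975 0 0) (P.cons (P.lf 686601 0 0) (P.cons (P.lf 311670 0 0) P.nil))) (P.cons (P.cons (P.lf 1679015 0 0) (P.cons (P.lf 0 158717 0) P.nil)) (P.cons (P.cons (P.lf 0 549112 0) P.nil) P.nil)))))) 557033)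
 (EL.cons 10 (TM.mk (P.cons (P.cons (P.lf 0 155779290 0) (P.cons (P.lf 0 141584616 0) (P.cons (P.lf 22333332 0 0) (P.cons (P.lf 5834808 0 0) (P.cons (P.lf 0 540924 0) (P.cons (P.lf 0 21312 0) P.nil)))))) (P.cons (P.cons (P.lf 36312606 0 0) (P.cons (P.lf 30936426 0 0) (P.cons (P.lf 0 8220390 0) (P.cons (P.lf 0 2212146 0) (P.cons (P.lf 213714 0 0) P.nil))))) (P.cons (P.cons (P.lf 0 17076432 0) (P.cons (P.lf 0 16358526 0) (P.cons (P.lf 1226118 0 0) (P.cons (P.lf 294192 0 0) P.nil)))) (P.cons (P.cons (P.lf 2536848 0 0) (P.cons (P.lf 2566824 0 0) (P.cons (P.lf 17064 0 0) P.nil))) (P.cons (P.cons (P.lf 257976 0 0) (P.cons (P.lf 238626 0 0) P.nil)) (P.cons (P.cons (P.lf 0 77562 0) P.nil) P.nil)))))) 264948)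
 EL.nil))))
noncomputable def S314_343_216_290_9 : EL := (EL.cons 3 (TM.mk (P.cons (P.lf 2072840178 0 0) (P.cons (P.lf 339017325 0 0) (P.cons (P.lf 0 19911543 0) (P.cons (P.lf 0 509910 0) (P.cons (P.lf 91155 0 0) (P.cons (P.lf 0 1462 0) P.nil)))))) 487)
 (EL.cons 7 (TM.mk (P.cons (P.lf 0 1756127103 0) (P.cons (P.lf 142278485 0 0) (P.cons (P.lf 9042093 0 0) (P.cons (P.lf 0 848140 0) (P.cons (P.lf 0 2043 0) (P.cons (P.lf 3166 0 0) P.nil)))))) 195)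
 EL.nil))
noncomputable def S314_343_216_290_10 : EL := (EL.cons 3 (TM.mk (P.cons (P.cons (P.lf 369951515 0 0) (P.cons (P.lf 0 28546412 0) (P.cons (P.lf 0 13475654 0) (P.lf 641696 0 0)))) (P.cons (P.cons (P.lf 34215270 0 0) (P.cons (P.lf 2269520 0 0) (P.cons (P.lf 1071350 0 0) (P.lf 0 51015 0)))) (P.cons (P.cons (P.lf 29821383 0 0) (P.cons (P.lf 1287809 0 0) (P.cons (P.lf 607923 0 0) (P.lf 0 28948 0)))) (P.cons (P.cons (P.lf 5639340 0 0) (P.cons (P.lf 0 177075 0) (P.cons (P.lf 0 83588 0) P.nil))) (P.cons (P.cons (P.lf 0 968252 0) (P.cons (P.lf 0 10539 0) P.nil)) (P.cons (P.cons (P.lf 0 56734 0) P.nil) P.nil)))))) 43762)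
 (EL.cons 7 (TM.mk (P.cons (P.cons (P.lf 0 313425941 0) (P.cons (P.lf 24184753 0 0) (P.cons (P.lf 11416684 0 0) (P.lf 0 543650 0)))) (P.cons (P.cons (P.lf 47667255 0 0) (P.cons (P.lf 0 7837632 0) (P.cons (P.lf 0 3699840 0) (P.lf 176182 0 0)))) (P.cons (P.cons (P.lf 0 32109435 0) (P.cons (P.lf 454389 0 0) (P.cons (P.lf 214500 0 0) (P.lf 0 10214 0)))) (P.cons (P.cons (P.lf 2899457 0 0) (P.cons (P.lf 116339 0 0) (P.cons (P.lf 54917 0 0) P.nil))) (P.cons (P.cons (P.lf 565970 0 0) (P.cons (P.lf 0 16162 0) P.nil)) (P.cons (P.cons (P.lf 0 80394 0) P.nil) P.nil)))))) 25320)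
 EL.nil))
noncomputable def S314_343_216_290_11 : EL := (EL.cons 3 (TM.mk (P.cons (P.cons (P.lf 66027339 0 0) (P.cons (P.lf 0 10189679 0) (P.cons (P.lf 0 4417020 0) (P.cons (P.lf 600217 0 0) (P.cons (P.lf 69930 0 0) (P.cons (P.lf 0 8342 0) P.nil)))))) (P.cons (P.cons (P.lf 1414275 0 0) (P.cons (P.lf 1534250 0 0) (P.cons (P.lf 597451 0 0) (P.cons (P.lf 0 154209 0) (P.cons (P.lf 0 22556 0) P.nil))))) (P.cons (P.cons (P.lf 11612500 0 0) (P.cons (P.lf 0 635580 0) (P.cons (P.lf 0 308503 0) (P.cons (P.lf 6289 0 0) P.nil)))) (P.cons (P.cons (P.lf 1128041 0 0) (P.cons (P.lf 5464 0 0) (P.cons (P.lf 10540 0 0) P.nil))) (P.cons (P.cons (P.lf 194083 0 0) (P.cons (P.lf 60289 0 0) P.nil)) (P.cons (P.cons (P.lf 91980 0 0) P.nil) P.nil)))))) 148288)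
 (EL.cons 7 (TM.mk (P.cons (P.cons (P.lf 0 55938901 0) (P.cons (P.lf 8632779 0 0) (P.cons (P.lf 3742136 0 0) (P.cons (P.lf 0 508509 0) (P.cons (P.lf 0 59246 0) (P.cons (P.lf 7068 0 0) P.nil)))))) (P.cons (P.cons (P.lf 12482813 0 0) (P.cons (P.lf 0 3411152 0) (P.cons (P.lf 0 1421382 0) (P.cons (P.lf 255014 0 0) (P.cons (P.lf 33600 0 0) P.nil))))) (P.cons (P.cons (P.lf 0 12032042 0) (P.cons (P.lf 1240156 0 0) (P.cons (P.lf 551524 0 0) (P.cons (P.lf 0 59888 0) P.nil)))) (P.cons (P.cons (P.lf 1894555 0 0) (P.cons (P.lf 0 270867 0) (P.cons (P.lf 0 128628 0) P.nil))) (P.cons (P.cons (P.lf 0 456895 0) (P.cons (P.lf 901 0 0) P.nil)) (P.cons (P.cons (P.lf 25040 0 0) P.nil) P.nil)))))) 97663)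
 EL.nil))
noncomputable def S314_343_216_290_12 : EL := (EL.cons 4 (TM.mk (P.cons (P.lf 0 2072840178 0) (P.cons (P.lf 0 339017325 0) (P.cons (P.lf 19911543 0 0) (P.cons (P.lf 509910 0 0) (P.cons (P.lf 0 91155 0) (P.cons (P.lf 1462 0 0) P.nil)))))) 487)
 (EL.cons 8 (TM.mk (P.cons (P.lf 1756127103 0 0) (P.cons (P.lf 0 142278485 0) (P.cons (P.lf 0 9042093 0) (P.cons (P.lf 848140 0 0) (P.cons (P.lf 2043 0 0) (P.cons (P.lf 0 3166 0) P.nil)))))) 195)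
 EL.nil))
noncomputable def S314_343_216_290_13 : EL := (EL.cons 4 (TM.mk (P.cons (P.cons (P.lf 0 369951515 0) (P.cons (P.lf 28546412 0 0) (P.cons (P.lf 13475654 0 0) (P.lf 0 641696 0)))) (P.cons (P.cons (P.lf 0 34215270 0) (P.cons (P.lf 0 2269520 0) (P.cons (P.lf 0 1071350 0) (P.lf 51015 0 0)))) (P.cons (P.cons (P.lf 0 29821383 0) (P.cons (P.lf 0 1287809 0) (P.cons (P.lf 0 607923 0) (P.lf 28948 0 0)))) (P.cons (P.cons (P.lf 0 5639340 0) (P.cons (P.lf 177075 0 0) (P.cons (P.lf 83588 0 0) P.nil))) (P.cons (P.cons (P.lf 968252 0 0) (P.cons (P.lf 10539 0 0) P.nil)) (P.cons (P.cons (P.lf 56734 0 0) P.nil) P.nil)))))) 43762)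
 (EL.cons 8 (TM.mk (P.cons (P.cons (P.lf 313425941 0 0) (P.cons (P.lf 0 24184753 0) (P.cons (P.lf 0 11416684 0) (P.lf 543650 0 0)))) (P.cons (P.cons (P.lf 0 47667255 0) (P.cons (P.lf 7837632 0 0) (P.cons (P.lf 3699840 0 0) (P.lf 0 176182 0)))) (P.cons (P.cons (P.lf 32109435 0 0) (P.cons (P.lf 0 454389 0) (P.cons (P.lf 0 214500 0) (P.lf 10214 0 0)))) (P.cons (P.cons (P.lf 0 2899457 0) (P.cons (P.lf 0 116339 0) (P.cons (P.lf 0 54917 0) P.nil))) (P.cons (P.cons (P.lf 0 565970 0) (P.cons (P.lf 16162 0 0) P.nil)) (P.cons (P.cons (P.lf 80394 0 0) P.nil) P.nil)))))) 25320)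
 EL.nil))
noncomputable def S314_343_216_290_14 : EL := (EL.cons 4 (TM.mk (P.cons (P.cons (P.lf 0 66027339 0) (P.cons (P.lf 10189679 0 0) (P.cons (P.lf 4417020 0 0) (P.cons (P.lf 0 600217 0) (P.cons (P.lf 0 69930 0) (P.cons (P.lf 8342 0 0) P.nil)))))) (P.cons (P.cons (P.lf 0 1414275 0) (P.cons (P.lf 0 1534250 0) (P.cons (P.lf 0 597451 0) (P.cons (P.lf 154209 0 0) (P.cons (P.lf 22556 0 0) P.nil))))) (P.cons (P.cons (P.lf 0 11612500 0) (P.cons (P.lf 635580 0 0) (P.cons (P.lf 308503 0 0) (P.cons (P.lf 0 6289 0) P.nil)))) (P.cons (P.cons (P.lf 0 1128041 0) (P.cons (P.lf 0 5464 0) (P.cons (P.lf 0 10540 0) P.nil))) (P.cons (P.cons (P.lf 0 194083 0) (P.cons (P.lf 0 60289 0) P.nil)) (P.cons (P.cons (P.lf 0 91980 0) P.nil) P.nil)))))) 148288)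
 (EL.cons 8 (TM.mk (P.cons (P.cons (P.lf 55938901 0 0) (P.cons (P.lf 0 8632779 0) (P.cons (P.lf 0 3742136 0) (P.cons (P.lf 508509 0 0) (P.cons (P.lf 59246 0 0) (P.cons (P.lf 0 7068 0) P.nil)))))) (P.cons (P.cons (P.lf 0 12482813 0) (P.cons (P.lf 3411152 0 0) (P.cons (P.lf 1421382 0 0) (P.cons (P.lf 0 255014 0) (P.cons (P.lf 0 33600 0) P.nil))))) (P.cons (P.cons (P.lf 12032042 0 0) (P.cons (P.lf 0 1240156 0) (P.cons (P.lf 0 551524 0) (P.cons (P.lf 59888 0 0) P.nil)))) (P.cons (P.cons (P.lf 0 1894555 0) (P.cons (P.lf 270867 0 0) (P.cons (P.lf 128628 0 0) P.nil))) (P.cons (P.cons (P.lf 456895 0 0) (P.cons (P.lf 0 901 0) P.nil)) (P.cons (P.cons (P.lf 0 25040 0) P.nil) P.nil)))))) 97663)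
 EL.nil))
noncomputable def S314_343_216_290_15 : EL := (EL.cons 4 (TM.mk (P.cons (P.lf 0 1067088645 0) (P.cons (P.lf 0 349049136 0) (P.cons (P.lf 0 8043112 0) (P.cons (P.lf 3877937 0 0) (P.cons (P.lf 0 106451 0) (P.cons (P.lf 0 18886 0) P.nil)))))) 1845)
 (EL.cons 8 (TM.mk (P.cons (P.lf 904046202 0 0) (P.cons (P.lf 74614324 0 0) (P.cons (P.lf 0 25318286 0) (P.cons (P.lf 156499 0 0) (P.cons (P.lf 174949 0 0) (P.cons (P.lf 0 8365 0) P.nil)))))) 1031)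
 EL.nil))
noncomputable def S314_343_216_290_16 : EL := (EL.cons 4 (TM.mk (P.cons (P.cons (P.lf 0 190449347 0) (P.cons (P.lf 14695561 0 0) (P.cons (P.lf 6937204 0 0) (P.lf 0 330342 0)))) (P.cons (P.cons (P.lf 0 48762251 0) (P.cons (P.lf 1235150 0 0) (P.cons (P.lf 583066 0 0) (P.lf 0 27764 0)))) (P.cons (P.cons (P.lf 0 16403253 0) (P.cons (P.lf 0 995206 0) (P.cons (P.lf 0 469798 0) (P.lf 22370 0 0)))) (P.cons (P.cons (P.lf 0 5197896 0) (P.cons (P.lf 0 9661 0) (P.cons (P.lf 0 4561 0) P.nil))) (P.cons (P.cons (P.lf 167070 0 0) (P.cons (P.lf 27636 0 0) P.nil)) (P.cons (P.cons (P.lf 141752 0 0) P.nil) P.nil)))))) 43225)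
 (EL.cons 8 (TM.mk (P.cons (P.cons (P.lf 161350241 0 0) (P.cons (P.lf 0 12450200 0) (P.cons (P.lf 0 5877256 0) (P.lf 279868 0 0)))) (P.cons (P.cons (P.lf 1850282 0 0) (P.cons (P.lf 1998520 0 0) (P.cons (P.lf 943423 0 0) (P.lf 0 44924 0)))) (P.cons (P.cons (P.lf 10966486 0 0) (P.cons (P.lf 545574 0 0) (P.cons (P.lf 257544 0 0) (P.lf 0 12263 0)))) (P.cons (P.cons (P.lf 1406881 0 0) (P.cons (P.lf 0 133843 0) (P.cons (P.lf 0 63181 0) P.nil))) (P.cons (P.cons (P.lf 0 681133 0) (P.cons (P.lf 0 768 0) P.nil)) (P.cons (P.cons (P.lf 2813 0 0) P.nil) P.nil)))))) 33943)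
 EL.nil))
noncomputable def S314_343_216_290_17 : EL := (EL.cons 4 (TM.mk (P.cons (P.cons (P.lf 0 33990571 0) (P.cons (P.lf 5245599 0 0) (P.cons (P.lf 2273862 0 0) (P.cons (P.lf 0 308988 0) (P.cons (P.lf 0 36000 0) (P.cons (P.lf 4294 0 0) P.nil)))))) (P.cons (P.cons (P.lf 0 6287291 0) (P.cons (P.lf 68102 0 0) (P.cons (P.lf 64328 0 0) (P.cons (P.lf 28850 0 0) (P.cons (P.lf 5723 0 0) P.nil))))) (P.cons (P.cons (P.lf 0 5770627 0) (P.cons (P.lf 147627 0 0) (P.cons (P.lf 86670 0 0) (P.cons (P.lf 12713 0 0) P.nil)))) (P.cons (P.cons (P.lf 0 1543079 0) (P.cons (P.lf 56996 0 0) (P.cons (P.lf 22942 0 0) P.nil))) (P.cons (P.cons (P.lf 0 138780 0) (P.cons (P.lf 0 34215 0) P.nil)) (P.cons (P.cons (P.lf 0 56651 0) P.nil) P.nil)))))) 111784)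
 (EL.cons 8 (TM.mk (P.cons (P.cons (P.lf 28797090 0 0) (P.cons (P.lf 0 4444115 0) (P.cons (P.lf 0 1926434 0) (P.cons (P.lf 261778 0 0) (P.cons (P.lf 30499 0 0) (P.cons (P.lf 0 3638 0) P.nil)))))) (P.cons (P.cons (P.lf 0 1716271 0) (P.cons (P.lf 1029201 0 0) (P.cons (P.lf 416648 0 0) (P.cons (P.lf 0 88465 0) (P.cons (P.lf 0 12308 0) P.nil))))) (P.cons (P.cons (P.lf 4866416 0 0) (P.cons (P.lf 0 308532 0) (P.cons (P.lf 0 145742 0) (P.cons (P.lf 6844 0 0) P.nil)))) (P.cons (P.cons (P.lf 92384 0 0) (P.cons (P.lf 19250 0 0) (P.cons (P.lf 13226 0 0) P.nil))) (P.cons (P.cons (P.lf 19041 0 0) (P.cons (P.lf 27846 0 0) P.nil)) (P.cons (P.cons (P.lf 33120 0 0) P.nil) P.nil)))))) 80312)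
 EL.nil))
noncomputable def S314_343_216_290_18 : EL := (EL.cons 4 (TM.mk (P.cons (P.lf 0 549332354 0) (P.cons (P.lf 0 269533349 0) (P.cons (P.lf 0 28252205 0) (P.cons (P.lf 3180359 0 0) (P.cons (P.lf 331524 0 0) (P.cons (P.lf 0 44357 0) P.nil)))))) 4415)
 (EL.cons 8 (TM.mk (P.cons (P.lf 465398850 0 0) (P.cons (P.lf 114528063 0 0) (P.cons (P.lf 0 11222106 0) (P.cons (P.lf 0 2534590 0) (P.cons (P.lf 239457 0 0) (P.cons (P.lf 14216 0 0) P.nil)))))) 3029)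
 EL.nil))
noncomputable def S314_343_216_290_19 : EL := (EL.cons 4 (TM.mk (P.cons (P.cons (P.lf 0 98042453 0) (P.cons (P.lf 7565207 0 0) (P.cons (P.lf 3571241 0 0) (P.lf 0 170057 0)))) (P.cons (P.cons (P.lf 0 41137631 0) (P.cons (P.lf 1873155 0 0) (P.cons (P.lf 884244 0 0) (P.lf 0 42105 0)))) (P.cons (P.cons (P.lf 0 11608110 0) (P.cons (P.lf 0 481004 0) (P.cons (P.lf 0 227062 0) (P.lf 10812 0 0)))) (P.cons (P.cons (P.lf 0 3791687 0) (P.cons (P.lf 0 96735 0) (P.cons (P.lf 0 45664 0) P.nil))) (P.cons (P.cons (P.lf 0 268654 0) (P.cons (P.lf 18510 0 0) P.nil)) (P.cons (P.cons (P.lf 113787 0 0) P.nil) P.nil)))))) 52031)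
 (EL.cons 8 (TM.mk (P.cons (P.cons (P.lf 83062366 0 0) (P.cons (P.lf 0 6409305 0) (P.cons (P.lf 0 3025584 0) (P.lf 144075 0 0)))) (P.cons (P.cons (P.lf 14537539 0 0) (P.cons (P.lf 0 19425 0) (P.cons (P.lf 0 9170 0) (P.lf 436 0 0)))) (P.cons (P.cons (P.lf 5003392 0 0) (P.cons (P.lf 510693 0 0) (P.cons (P.lf 241078 0 0) (P.lf 0 11479 0)))) (P.cons (P.cons (P.lf 1618005 0 0) (P.cons (P.lf 0 31273 0) (P.cons (P.lf 0 14762 0) P.nil))) (P.cons (P.cons (P.lf 0 283002 0) (P.cons (P.lf 0 14897 0) P.nil)) (P.cons (P.cons (P.lf 0 64262 0) P.nil) P.nil)))))) 31174)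
 EL.nil))
noncomputable def S314_343_216_290_20 : EL := (EL.cons 4 (TM.mk (P.cons (P.cons (P.lf 0 17498190 0) (P.cons (P.lf 2700410 0 0) (P.cons (P.lf 1170573 0 0) (P.cons (P.lf 0 159065 0) (P.cons (P.lf 0 18532 0) (P.cons (P.lf 2210 0 0) P.nil)))))) (P.cons (P.cons (P.lf 0 6098534 0) (P.cons (P.lf 476716 0 0) (P.cons (P.lf 224565 0 0) (P.cons (P.lf 0 11162 0) (P.cons (P.lf 0 83 0) P.nil))))) (P.cons (P.cons (P.lf 0 3331969 0) (P.cons (P.lf 55791 0 0) (P.cons (P.lf 38789 0 0) (P.cons (P.lf 10501 0 0) P.nil)))) (P.cons (P.cons (P.lf 0 1244836 0) (P.cons (P.lf 40770 0 0) (P.cons (P.lf 18501 0 0) P.nil))) (P.cons (P.cons (P.lf 0 172800 0) (P.cons (P.lf 0 13434 0) P.nil)) (P.cons (P.cons (P.lf 0 32616 0) P.nil) P.nil)))))) 101439)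
 (EL.cons 8 (TM.mk (P.cons (P.cons (P.lf 14824610 0 0) (P.cons (P.lf 0 2287809 0) (P.cons (P.lf 0 991719 0) (P.cons (P.lf 134762 0 0) (P.cons (P.lf 15700 0 0) (P.cons (P.lf 0 1873 0) P.nil)))))) (P.cons (P.cons (P.lf 1541067 0 0) (P.cons (P.lf 155652 0 0) (P.cons (P.lf 52291 0 0) (P.cons (P.lf 0 23501 0) (P.cons (P.lf 0 3768 0) P.nil))))) (P.cons (P.cons (P.lf 2218301 0 0) (P.cons (P.lf 0 50199 0) (P.cons (P.lf 0 30420 0) (P.cons (P.lf 0 5219 0) P.nil)))) (P.cons (P.cons (P.lf 462131 0 0) (P.cons (P.lf 0 20593 0) (P.cons (P.lf 0 7278 0) P.nil))) (P.cons (P.cons (P.lf 0 5614 0) (P.cons (P.lf 17250 0 0) P.nil)) (P.cons (P.cons (P.lf 17530 0 0) P.nil) P.nil)))))) 59463)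
 EL.nil))
noncomputable def S314_343_216_290_21 : EL := (EL.cons 4 (TM.mk (P.cons (P.cons (P.lf 324507711 0 0) (P.cons (P.lf 0 85639236 0) (P.cons (P.lf 0 40426962 0) (P.lf 1925088 0 0)))) (P.cons (P.cons (P.lf 0 944501595 0) (P.cons (P.lf 6808560 0 0) (P.cons (P.lf 3214050 0 0) (P.lf 0 153045 0)))) (P.cons (P.cons (P.lf 65334819 0 0) (P.cons (P.lf 3863427 0 0) (P.cons (P.lf 1823769 0 0) (P.lf 0 86844 0)))) (P.cons (P.cons (P.lf 28551834 0 0) (P.cons (P.lf 0 531225 0) (P.cons (P.lf 0 250764 0) P.nil))) (P.cons (P.cons (P.lf 0 3224115 0) (P.cons (P.lf 0 31617 0) P.nil)) (P.cons (P.cons (P.lf 0 226863 0) P.nil) P.nil)))))) 136731)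
 (EL.cons 8 (TM.mk (P.cons (P.cons (P.lf 136189113 0 0) (P.cons (P.lf 0 35941008 0) (P.cons (P.lf 0 16966356 0) (P.lf 807924 0 0)))) (P.cons (P.cons (P.lf 0 363079764 0) (P.cons (P.lf 0 5932686 0) (P.cons (P.lf 0 2800587 0) (P.lf 133359 0 0)))) (P.cons (P.cons (P.lf 0 67433466 0) (P.cons (P.lf 1768266 0 0) (P.cons (P.lf 834729 0 0) (P.lf 0 39747 0)))) (P.cons (P.cons (P.lf 12842739 0 0) (P.cons (P.lf 153702 0 0) (P.cons (P.lf 72552 0 0) P.nil))) (P.cons (P.cons (P.lf 1315272 0 0) (P.cons (P.lf 0 43125 0) P.nil)) (P.cons (P.cons (P.lf 0 249957 0) P.nil) P.nil)))))) 88197)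
 (EL.cons 11 (TM.mk (P.cons (P.cons (P.lf 436416075 0 0) (P.cons (P.lf 430324653 0 0) (P.cons (P.lf 0 13465272 0) (P.cons (P.lf 0 2467455 0) (P.lf 88122 0 0))))) (P.cons (P.cons (P.lf 0 70715400 0) (P.cons (P.lf 0 69728367 0) (P.cons (P.lf 2181867 0 0) (P.cons (P.lf 399816 0 0) (P.lf 0 14277 0))))) (P.cons (P.cons (P.lf 0 1629486 0) (P.cons (P.lf 0 1606743 0) (P.cons (P.lf 50274 0 0) (P.cons (P.lf 9210 0 0) P.nil)))) (P.cons (P.cons (P.lf 785646 0 0) (P.cons (P.lf 774681 0 0) (P.cons (P.lf 0 24240 0) P.nil))) (P.cons (P.cons (P.lf 0 21567 0) (P.cons (P.lf 0 21264 0) P.nil)) (P.cons (P.cons (P.lf 0 3825 0) P.nil) P.nil)))))) 10452)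
 EL.nil)))
noncomputable def S314_343_216_290_22 : EL := (EL.cons 4 (TM.mk (P.cons (P.cons (P.lf 57916725 0 0) (P.cons (P.lf 0 19753521 0) (P.cons (P.lf 0 8145477 0) (P.cons (P.lf 1557531 0 0) (P.cons (P.lf 209793 0 0) (P.cons (P.lf 0 25029 0) P.nil)))))) (P.cons (P.cons (P.lf 0 172686468 0) (P.cons (P.lf 16394925 0 0) (P.cons (P.lf 7358985 0 0) (P.cons (P.lf 0 727704 0) (P.cons (P.lf 0 67668 0) P.nil))))) (P.cons (P.cons (P.lf 29538468 0 0) (P.cons (P.lf 0 5033607 0) (P.cons (P.lf 0 2401578 0) (P.cons (P.lf 89160 0 0) P.nil)))) (P.cons (P.cons (P.lf 0 13006821 0) (P.cons (P.lf 0 126378 0) (P.cons (P.lf 0 35772 0) P.nil))) (P.cons (P.cons (P.lf 480645 0 0) (P.cons (P.lf 272205 0 0) P.nil)) (P.cons (P.cons (P.lf 738462 0 0) P.nil) P.nil)))))) 448278)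
 (EL.cons 8 (TM.mk (P.cons (P.cons (P.lf 24306441 0 0) (P.cons (P.lf 0 8290140 0) (P.cons (P.lf 0 3418488 0) (P.cons (P.lf 653664 0 0) (P.cons (P.lf 88044 0 0) (P.cons (P.lf 0 10503 0) P.nil)))))) (P.cons (P.cons (P.lf 0 66528267 0) (P.cons (P.lf 4853085 0 0) (P.cons (P.lf 2252352 0 0) (P.cons (P.lf 0 145536 0) (P.cons (P.lf 0 6864 0) P.nil))))) (P.cons (P.cons (P.lf 0 4954758 0) (P.cons (P.lf 0 557025 0) (P.cons (P.lf 0 305058 0) (P.cons (P.lf 0 27234 0) P.nil)))) (P.cons (P.cons (P.lf 0 3496710 0) (P.cons (P.lf 0 478734 0) (P.cons (P.lf 0 220149 0) P.nil))) (P.cons (P.cons (P.lf 0 1067955 0) (P.cons (P.lf 79809 0 0) P.nil)) (P.cons (P.cons (P.lf 287076 0 0) P.nil) P.nil)))))) 229674)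
 (EL.cons 11 (TM.mk (P.cons (P.cons (P.lf 77889645 0 0) (P.cons (P.lf 70792308 0 0) (P.cons (P.lf 0 11166666 0) (P.cons (P.lf 0 2917404 0) (P.cons (P.lf 270462 0 0) (P.cons (P.lf 10656 0 0) P.nil)))))) (P.cons (P.cons (P.lf 0 18156303 0) (P.cons (P.lf 0 15468213 0) (P.cons (P.lf 4110195 0 0) (P.cons (P.lf 1106073 0 0) (P.cons (P.lf 0 106857 0) P.nil))))) (P.cons (P.cons (P.lf 8538216 0 0) (P.cons (P.lf 8179263 0 0) (P.cons (P.lf 0 613059 0) (P.cons (P.lf 0 147096 0) P.nil)))) (P.cons (P.cons (P.lf 0 1268424 0) (P.cons (P.lf 0 1283412 0) (P.cons (P.lf 0 8532 0) P.nil))) (P.cons (P.cons (P.lf 0 128988 0) (P.cons (P.lf 0 119313 0) P.nil)) (P.cons (P.cons (P.lf 38781 0 0) P.nil) P.nil)))))) 132474)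
 EL.nil)))
noncomputable def S314_343_216_290_23 : EL := (EL.cons 4 (TM.mk (P.cons (P.cons (P.lf 167055084 0 0) (P.cons (P.lf 0 44086686 0) (P.cons (P.lf 0 20811615 0) (P.lf 991026 0 0)))) (P.cons (P.cons (P.lf 0 458902893 0) (P.cons (P.lf 0 3705453 0) (P.cons (P.lf 0 1749204 0) (P.lf 83295 0 0)))) (P.cons (P.cons (P.lf 0 47493777 0) (P.cons (P.lf 2985618 0 0) (P.cons (P.lf 1409391 0 0) (P.lf 0 67110 0)))) (P.cons (P.cons (P.lf 24828819 0 0) (P.cons (P.lf 28986 0 0) (P.cons (P.lf 13686 0 0) P.nil))) (P.cons (P.cons (P.lf 548055 0 0) (P.cons (P.lf 0 82908 0) P.nil)) (P.cons (P.cons (P.lf 0 559209 0) P.nil) P.nil)))))) 173844)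
 (EL.cons 8 (TM.mk (P.cons (P.cons (P.lf 70109532 0 0) (P.cons (P.lf 0 18502266 0) (P.cons (P.lf 0 8734200 0) (P.lf 415914 0 0)))) (P.cons (P.cons (P.lf 0 175445241 0) (P.cons (P.lf 0 6080202 0) (P.cons (P.lf 0 2870226 0) (P.lf 136674 0 0)))) (P.cons (P.cons (P.lf 0 65957718 0) (P.cons (P.lf 588516 0 0) (P.cons (P.lf 277815 0 0) (P.lf 0 13227 0)))) (P.cons (P.cons (P.lf 2711976 0 0) (P.cons (P.lf 261894 0 0) (P.cons (P.lf 123627 0 0) P.nil))) (P.cons (P.cons (P.lf 2140926 0 0) (P.cons (P.lf 0 18066 0) P.nil)) (P.cons (P.cons (P.lf 0 81174 0) P.nil) P.nil)))))) 106974)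
 (EL.cons 11 (TM.mk (P.cons (P.cons (P.lf 224664999 0 0) (P.cons (P.lf 221529162 0 0) (P.cons (P.lf 0 6931860 0) (P.cons (P.lf 0 1270233 0) (P.lf 45363 0 0))))) (P.cons (P.cons (P.lf 340461 0 0) (P.cons (P.lf 335709 0 0) (P.cons (P.lf 0 10503 0) (P.cons (P.lf 0 1926 0) (P.lf 69 0 0))))) (P.cons (P.cons (P.lf 0 8950908 0) (P.cons (P.lf 0 8825976 0) (P.cons (P.lf 276171 0 0) (P.cons (P.lf 50604 0 0) P.nil)))) (P.cons (P.cons (P.lf 561678 0 0) (P.cons (P.lf 553836 0 0) (P.cons (P.lf 0 17328 0) P.nil))) (P.cons (P.cons (P.lf 81936 0 0) (P.cons (P.lf 80793 0 0) P.nil)) (P.cons (P.cons (P.lf 0 9222 0) P.nil) P.nil)))))) 22986)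
 EL.nil)))
noncomputable def S314_343_216_290_24 : EL := (EL.cons 4 (TM.mk (P.cons (P.cons (P.lf 29815266 0 0) (P.cons (P.lf 0 10169022 0) (P.cons (P.lf 0 4193253 0) (P.cons (P.lf 801810 0 0) (P.cons (P.lf 108000 0 0) (P.cons (P.lf 0 12885 0) P.nil)))))) (P.cons (P.cons (P.lf 0 84021855 0) (P.cons (P.lf 6776868 0 0) (P.cons (P.lf 3102555 0 0) (P.cons (P.lf 0 243480 0) (P.cons (P.lf 0 17172 0) P.nil))))) (P.cons (P.cons (P.lf 380376 0 0) (P.cons (P.lf 0 1113210 0) (P.cons (P.lf 0 576444 0) (P.cons (P.lf 0 23070 0) P.nil)))) (P.cons (P.cons (P.lf 0 3362220 0) (P.cons (P.lf 0 567441 0) (P.cons (P.lf 0 255978 0) P.nil))) (P.cons (P.cons (P.lf 0 970575 0) (P.cons (P.lf 151857 0 0) P.nil)) (P.cons (P.cons (P.lf 477273 0 0) P.nil) P.nil)))))) 331248)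
 (EL.cons 8 (TM.mk (P.cons (P.cons (P.lf 12512844 0 0) (P.cons (P.lf 0 4267725 0) (P.cons (P.lf 0 1759821 0) (P.cons (P.lf 336501 0 0) (P.cons (P.lf 45324 0 0) (P.cons (P.lf 0 5406 0) P.nil)))))) (P.cons (P.cons (P.lf 0 32201946 0) (P.cons (P.lf 1800351 0 0) (P.cons (P.lf 871677 0 0) (P.cons (P.lf 0 19884 0) (P.cons (P.lf 3876 0 0) P.nil))))) (P.cons (P.cons (P.lf 0 8272287 0) (P.cons (P.lf 162849 0 0) (P.cons (P.lf 49500 0 0) (P.cons (P.lf 0 29505 0) P.nil)))) (P.cons (P.cons (P.lf 0 1891350 0) (P.cons (P.lf 0 316299 0) (P.cons (P.lf 0 149721 0) P.nil))) (P.cons (P.cons (P.lf 0 810708 0) (P.cons (P.lf 2730 0 0) P.nil)) (P.cons (P.cons (P.lf 74271 0 0) P.nil) P.nil)))))) 174189)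
 (EL.cons 11 (TM.mk (P.cons (P.cons (P.lf 40097232 0 0) (P.cons (P.lf 36443556 0 0) (P.cons (P.lf 0 5748546 0) (P.cons (P.lf 0 1501866 0) (P.cons (P.lf 139233 0 0) (P.cons (P.lf 5487 0 0) P.nil)))))) (P.cons (P.cons (P.lf 0 2788794 0) (P.cons (P.lf 0 2002545 0) (P.cons (P.lf 1175721 0 0) (P.cons (P.lf 323766 0 0) (P.cons (P.lf 0 32235 0) P.nil))))) (P.cons (P.cons (P.lf 2481576 0 0) (P.cons (P.lf 2558214 0 0) (P.cons (P.lf 85680 0 0) (P.cons (P.lf 31827 0 0) P.nil)))) (P.cons (P.cons (P.lf 145824 0 0) (P.cons (P.lf 95490 0 0) (P.cons (P.lf 0 74919 0) P.nil))) (P.cons (P.cons (P.lf 0 211356 0) (P.cons (P.lf 0 206364 0) P.nil)) (P.cons (P.cons (P.lf 13857 0 0) P.nil) P.nil)))))) 116058)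
 EL.nil)))
noncomputable def S314_343_216_290_25 : EL := (EL.cons 4 (TM.mk (P.cons (P.cons (P.lf 85999194 0 0) (P.cons (P.lf 0 22695624 0) (P.cons (P.lf 0 10713723 0) (P.lf 510174 0 0)))) (P.cons (P.cons (P.lf 0 222175764 0) (P.cons (P.lf 0 5619465 0) (P.cons (P.lf 0 2652732 0) (P.lf 126321 0 0)))) (P.cons (P.cons (P.lf 0 63913407 0) (P.cons (P.lf 1443012 0 0) (P.cons (P.lf 681186 0 0) (P.lf 0 32436 0)))) (P.cons (P.cons (P.lf 11031141 0 0) (P.cons (P.lf 290205 0 0) (P.cons (P.lf 136995 0 0) P.nil))) (P.cons (P.cons (P.lf 2669376 0 0) (P.cons (P.lf 0 55533 0) P.nil)) (P.cons (P.cons (P.lf 0 368949 0) P.nil) P.nil)))))) 165522)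
 (EL.cons 8 (TM.mk (P.cons (P.cons (P.lf 36092064 0 0) (P.cons (P.lf 0 9524880 0) (P.cons (P.lf 0 4496325 0) (P.lf 214110 0 0)))) (P.cons (P.cons (P.lf 0 84415473 0) (P.cons (P.lf 0 4687875 0) (P.cons (P.lf 0 2212962 0) (P.lf 105378 0 0)))) (P.cons (P.cons (P.lf 0 49073193 0) (P.cons (P.lf 0 117465 0) (P.cons (P.lf 0 55449 0) (P.lf 2640 0 0)))) (P.cons (P.cons (P.lf 0 3298539 0) (P.cons (P.lf 216783 0 0) (P.cons (P.lf 102333 0 0) P.nil))) (P.cons (P.cons (P.lf 1680447 0 0) (P.cons (P.lf 10188 0 0) P.nil)) (P.cons (P.cons (P.lf 129411 0 0) P.nil) P.nil)))))) 98076)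
 (EL.cons 11 (TM.mk (P.cons (P.cons (P.lf 115656513 0 0) (P.cons (P.lf 114042198 0 0) (P.cons (P.lf 0 3568488 0) (P.cons (P.lf 0 653910 0) (P.lf 23352 0 0))))) (P.cons (P.cons (P.lf 19091130 0 0) (P.cons (P.lf 18824661 0 0) (P.cons (P.lf 0 589041 0) (P.cons (P.lf 0 107940 0) (P.lf 3855 0 0))))) (P.cons (P.cons (P.lf 0 5690208 0) (P.cons (P.lf 0 5610786 0) (P.cons (P.lf 175566 0 0) (P.cons (P.lf 32169 0 0) P.nil)))) (P.cons (P.cons (P.lf 0 494613 0) (P.cons (P.lf 0 487710 0) (P.cons (P.lf 15258 0 0) P.nil))) (P.cons (P.cons (P.lf 138777 0 0) (P.cons (P.lf 136842 0 0) P.nil)) (P.cons (P.cons (P.lf 432 0 0) P.nil) P.nil)))))) 26754)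
 EL.nil)))
noncomputable def S314_343_216_290_26 : EL := (EL.cons 4 (TM.mk (P.cons (P.cons (P.lf 15348762 0 0) (P.cons (P.lf 0 5234964 0) (P.cons (P.lf 0 2158668 0) (P.cons (P.lf 412767 0 0) (P.cons (P.lf 55596 0 0) (P.cons (P.lf 0 6633 0) P.nil)))))) (P.cons (P.cons (P.lf 0 40743744 0) (P.cons (P.lf 2632509 0 0) (P.cons (P.lf 1244127 0 0) (P.cons (P.lf 0 57834 0) (P.cons (P.lf 252 0 0) P.nil))))) (P.cons (P.cons (P.lf 0 7025913 0) (P.cons (P.lf 47793 0 0) (P.cons (P.lf 0 14793 0) (P.cons (P.lf 0 36342 0) P.nil)))) (P.cons (P.cons (P.lf 0 1287108 0) (P.cons (P.lf 0 418068 0) (P.cons (P.lf 0 195120 0) P.nil))) (P.cons (P.cons (P.lf 0 773298 0) (P.cons (P.lf 34815 0 0) P.nil)) (P.cons (P.cons (P.lf 178644 0 0) P.nil) P.nil)))))) 235530)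
 (EL.cons 8 (TM.mk (P.cons (P.cons (P.lf 6441555 0 0) (P.cons (P.lf 0 2197005 0) (P.cons (P.lf 0 905946 0) (P.cons (P.lf 173229 0 0) (P.cons (P.lf 23331 0 0) (P.cons (P.lf 0 2781 0) P.nil)))))) (P.cons (P.cons (P.lf 0 15523884 0) (P.cons (P.lf 567486 0 0) (P.cons (P.lf 300564 0 0) (P.cons (P.lf 18093 0 0) (P.cons (P.lf 5811 0 0) P.nil))))) (P.cons (P.cons (P.lf 0 7031682 0) (P.cons (P.lf 256521 0 0) (P.cons (P.lf 107574 0 0) (P.cons (P.lf 0 18525 0) P.nil)))) (P.cons (P.cons (P.lf 0 1512492 0) (P.cons (P.lf 0 157479 0) (P.cons (P.lf 0 76995 0) P.nil))) (P.cons (P.cons (P.lf 0 531324 0) (P.cons (P.lf 0 26352 0) P.nil)) (P.cons (P.cons (P.lf 0 20355 0) P.nil) P.nil)))))) 117729)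
 (EL.cons 11 (TM.mk (P.cons (P.cons (P.lf 20641872 0 0) (P.cons (P.lf 18760974 0 0) (P.cons (P.lf 0 2959326 0) (P.cons (P.lf 0 773151 0) (P.cons (P.lf 71676 0 0) (P.cons (P.lf 2823 0 0) P.nil)))))) (P.cons (P.cons (P.lf 1940361 0 0) (P.cons (P.lf 2037495 0 0) (P.cons (P.lf 121251 0 0) (P.cons (P.lf 40221 0 0) (P.cons (P.lf 0 4872 0) P.nil))))) (P.cons (P.cons (P.lf 844413 0 0) (P.cons (P.lf 968133 0 0) (P.cons (P.lf 171525 0 0) (P.cons (P.lf 51072 0 0) P.nil)))) (P.cons (P.cons (P.lf 292719 0 0) (P.cons (P.lf 269835 0 0) (P.cons (P.lf 0 36441 0) P.nil))) (P.cons (P.cons (P.lf 0 107538 0) (P.cons (P.lf 0 109767 0) P.nil)) (P.cons (P.cons (P.lf 0 11772 0) P.nil) P.nil)))))) 81114)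
 EL.nil)))
noncomputable def S314_343_216_290_27 : EL := (EL.cons 13 (TM.mk (P.lf 0 4294967296 0) 0)
 EL.nil)
noncomputable def S314_343_216_290_28 : EL := (EL.cons 13 (TM.mk (P.cons (P.cons (P.lf 0 766547117 0) (P.cons (P.lf 59148752 0 0) (P.cons (P.lf 27921832 0 0) (P.lf 0 1329608 0)))) (P.cons (P.cons (P.lf 54475636 0 0) (P.cons (P.lf 0 14376396 0) (P.cons (P.lf 0 6786536 0) (P.lf 323168 0 0)))) (P.cons (P.cons (P.lf 0 78063515 0) (P.cons (P.lf 251100 0 0) (P.cons (P.lf 118536 0 0) (P.lf 0 5644 0)))) (P.cons (P.cons (P.lf 1417340 0 0) (P.cons (P.lf 202288 0 0) (P.cons (P.lf 95488 0 0) P.nil))) (P.cons (P.cons (P.lf 1071669 0 0) (P.cons (P.lf 0 14972 0) P.nil)) (P.cons (P.cons (P.lf 0 66242 0) P.nil) P.nil)))))) 28513)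
 EL.nil)
noncomputable def S314_343_216_290_29 : EL := (EL.cons 13 (TM.mk (P.cons (P.cons (P.lf 0 136810001 0) (P.cons (P.lf 21113224 0 0) (P.cons (P.lf 9152159 0 0) (P.cons (P.lf 0 1243664 0) (P.cons (P.lf 0 144899 0) (P.cons (P.lf 17287 0 0) P.nil)))))) (P.cons (P.cons (P.lf 19445150 0 0) (P.cons (P.lf 0 6632111 0) (P.cons (P.lf 0 2734788 0) (P.cons (P.lf 522930 0 0) (P.cons (P.lf 70437 0 0) P.nil))))) (P.cons (P.cons (P.lf 0 28555821 0) (P.cons (P.lf 2604444 0 0) (P.cons (P.lf 1174420 0 0) (P.cons (P.lf 0 110507 0) P.nil)))) (P.cons (P.cons (P.lf 2486173 0 0) (P.cons (P.lf 0 495799 0) (P.cons (P.lf 0 237939 0) P.nil))) (P.cons (P.cons (P.lf 0 1072269 0) (P.cons (P.lf 0 21376 0) P.nil)) (P.cons (P.cons (P.lf 691 0 0) P.nil) P.nil)))))) 161266)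
 EL.nil)
noncomputable def S314_343_216_290_30 : EL := (EL.cons 13 (TM.mk (P.cons (P.lf 0 2211029524 0) (P.cons (P.lf 0 361618480 0) (P.cons (P.lf 21238980 0 0) (P.cons (P.lf 543904 0 0) (P.cons (P.lf 0 97232 0) (P.cons (P.lf 1560 0 0) P.nil)))))) 512)
 EL.nil)
noncomputable def S314_343_216_290_31 : EL := (EL.cons 13 (TM.mk (P.cons (P.cons (P.lf 0 394614950 0) (P.cons (P.lf 30449507 0 0) (P.cons (P.lf 14374031 0 0) (P.lf 0 684476 0)))) (P.cons (P.cons (P.lf 0 36496288 0) (P.cons (P.lf 0 2420822 0) (P.cons (P.lf 0 1142774 0) (P.lf 54417 0 0)))) (P.cons (P.cons (P.lf 0 31809476 0) (P.cons (P.lf 0 1373663 0) (P.cons (P.lf 0 648452 0) (P.lf 30878 0 0)))) (P.cons (P.cons (P.lf 0 6015297 0) (P.cons (P.lf 188880 0 0) (P.cons (P.lf 89161 0 0) P.nil))) (P.cons (P.cons (P.lf 1032803 0 0) (P.cons (P.lf 11242 0 0) P.nil)) (P.cons (P.cons (P.lf 60517 0 0) P.nil) P.nil)))))) 46660)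
 EL.nil)
noncomputable def S314_343_216_290_32 : EL := (EL.cons 13 (TM.mk (P.cons (P.cons (P.lf 0 70429162 0) (P.cons (P.lf 10868991 0 0) (P.cons (P.lf 4711489 0 0) (P.cons (P.lf 0 640232 0) (P.cons (P.lf 0 74593 0) (P.cons (P.lf 8899 0 0) P.nil)))))) (P.cons (P.cons (P.lf 0 1508561 0) (P.cons (P.lf 0 1636534 0) (P.cons (P.lf 0 637282 0) (P.cons (P.lf 164490 0 0) (P.cons (P.lf 24060 0 0) P.nil))))) (P.cons (P.cons (P.lf 0 12386667 0) (P.cons (P.lf 677952 0 0) (P.cons (P.lf 329070 0 0) (P.cons (P.lf 0 6709 0) P.nil)))) (P.cons (P.cons (P.lf 0 1203244 0) (P.cons (P.lf 0 5829 0) (P.cons (P.lf 0 11243 0) P.nil))) (P.cons (P.cons (P.lf 0 207022 0) (P.cons (P.lf 0 64309 0) P.nil)) (P.cons (P.cons (P.lf 0 98113 0) P.nil) P.nil)))))) 158151)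
 EL.nil)
noncomputable def S314_343_216_290_33 : EL := (EL.cons 14 (TM.mk (P.lf 8589934592 0 0) 0)
 EL.nil)
noncomputable def S314_343_216_290_34 : EL := (EL.cons 14 (TM.mk (P.cons (P.cons (P.lf 1533094234 0 0) (P.cons (P.lf 0 118297504 0) (P.cons (P.lf 0 55843664 0) (P.lf 2659216 0 0)))) (P.cons (P.cons (P.lf 0 108951272 0) (P.cons (P.lf 28752792 0 0) (P.cons (P.lf 13573072 0 0) (P.lf 0 646336 0)))) (P.cons (P.cons (P.lf 156127030 0 0) (P.cons (P.lf 0 502200 0) (P.cons (P.lf 0 237072 0) (P.lf 11288 0 0)))) (P.cons (P.cons (P.lf 0 2834680 0) (P.cons (P.lf 0 404576 0) (P.cons (P.lf 0 190976 0) P.nil))) (P.cons (P.cons (P.lf 0 2143338 0) (P.cons (P.lf 29944 0 0) P.nil)) (P.cons (P.cons (P.lf 132484 0 0) P.nil) P.nil)))))) 57026)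
 EL.nil)
noncomputable def S314_343_216_290_35 : EL := (EL.cons 14 (TM.mk (P.cons (P.cons (P.lf 273620002 0 0) (P.cons (P.lf 0 42226448 0) (P.cons (P.lf 0 18304318 0) (P.cons (P.lf 2487328 0 0) (P.cons (P.lf 289798 0 0) (P.cons (P.lf 0 34574 0) P.nil)))))) (P.cons (P.cons (P.lf 0 38890300 0) (P.cons (P.lf 13264222 0 0) (P.cons (P.lf 5469576 0 0) (P.cons (P.lf 0 1045860 0) (P.cons (P.lf 0 140874 0) P.nil))))) (P.cons (P.cons (P.lf 57111642 0 0) (P.cons (P.lf 0 5208888 0) (P.cons (P.lf 0 2348840 0) (P.cons (P.lf 221014 0 0) P.nil)))) (P.cons (P.cons (P.lf 0 4972346 0) (P.cons (P.lf 991598 0 0) (P.cons (P.lf 475878 0 0) P.nil))) (P.cons (P.cons (P.lf 2144538 0 0) (P.cons (P.lf 42752 0 0) P.nil)) (P.cons (P.cons (P.lf 0 1382 0) P.nil) P.nil)))))) 322532)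
 EL.nil)
noncomputable def S314_343_216_290_36 : EL := (EL.cons 14 (TM.mk (P.cons (P.lf 4422059048 0 0) (P.cons (P.lf 723236960 0 0) (P.cons (P.lf 0 42477960 0) (P.cons (P.lf 0 1087808 0) (P.cons (P.lf 194464 0 0) (P.cons (P.lf 0 3120 0) P.nil)))))) 1024)
 EL.nil)
noncomputable def S314_343_216_290_37 : EL := (EL.cons 14 (TM.mk (P.cons (P.cons (P.lf 789229900 0 0) (P.cons (P.lf 0 60899014 0) (P.cons (P.lf 0 28748062 0) (P.lf 1368952 0 0)))) (P.cons (P.cons (P.lf 72992576 0 0) (P.cons (P.lf 4841644 0 0) (P.cons (P.lf 2285548 0 0) (P.lf 0 108834 0)))) (P.cons (P.cons (P.lf 63618952 0 0) (P.cons (P.lf 2747326 0 0) (P.cons (P.lf 1296904 0 0) (P.lf 0 61756 0)))) (P.cons (P.cons (P.lf 12030594 0 0) (P.cons (P.lf 0 377760 0) (P.cons (P.lf 0 178322 0) P.nil))) (P.cons (P.cons (P.lf 0 2065606 0) (P.cons (P.lf 0 22484 0) P.nil)) (P.cons (P.cons (P.lf 0 121034 0) P.nil) P.nil))))))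 93320)
 EL.nil)
noncomputable def S314_343_216_290_38 : EL := (EL.cons 14 (TM.mk (P.cons (P.cons (P.lf 140858324 0 0) (P.cons (P.lf 0 21737982 0) (P.cons (P.lf 0 9422978 0) (P.cons (P.lf 1280464 0 0) (P.cons (P.lf 149186 0 0) (P.cons (P.lf 0 17798 0) P.nil)))))) (P.cons (P.cons (P.lf 3017122 0 0) (P.cons (P.lf 3273068 0 0) (P.cons (P.lf 1274564 0 0) (P.cons (P.lf 0 328980 0) (P.cons (P.lf 0 48120 0) P.nil))))) (P.cons (P.cons (P.lf 24773334 0 0) (P.cons (P.lf 0 1355904 0) (P.cons (P.lf 0 658140 0) (P.cons (P.lf 13418 0 0) P.nil)))) (P.cons (P.cons (P.lf 2406488 0 0) (P.cons (P.lf 11658 0 0) (P.cons (P.lf 22486 0 0) P.nil))) (P.cons (P.cons (P.lf 414044 0 0) (P.cons (P.lf 128618 0 0) P.nil)) (P.cons (P.cons (P.lf 196226 0 0) P.nil) P.nil)))))) 316302)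
 EL.nil)
noncomputable def S314_343_216_290_39 : EL := (EL.cons 14 (TM.mk (P.cons (P.lf 2276455776 0 0) (P.cons (P.lf 744638158 0 0) (P.cons (P.lf 17158640 0 0) (P.cons (P.lf 0 8272934 0) (P.cons (P.lf 227096 0 0) (P.cons (P.lf 40292 0 0) P.nil)))))) 3922)
 EL.nil)
noncomputable def S314_343_216_290_40 : EL := (EL.cons 14 (TM.mk (P.cons (P.cons (P.lf 406291942 0 0) (P.cons (P.lf 0 31350532 0) (P.cons (P.lf 0 14799370 0) (P.lf 704730 0 0)))) (P.cons (P.cons (P.lf 104026136 0 0) (P.cons (P.lf 0 2634988 0) (P.cons (P.lf 0 1243876 0) (P.lf 59230 0 0)))) (P.cons (P.cons (P.lf 34993608 0 0) (P.cons (P.lf 2123108 0 0) (P.cons (P.lf 1002236 0 0) (P.lf 0 47724 0)))) (P.cons (P.cons (P.lf 11088846 0 0) (P.cons (P.lf 20612 0 0) (P.cons (P.lf 9732 0 0) P.nil))) (P.cons (P.cons (P.lf 0 356416 0) (P.cons (P.lf 0 58958 0) P.nil)) (P.cons (P.cons (P.lf 0 302406 0) P.nil) P.nil))))))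 92174)
 EL.nil)
noncomputable def S314_343_216_290_41 : EL := (EL.cons 14 (TM.mk (P.cons (P.cons (P.lf 72513220 0 0) (P.cons (P.lf 0 11190612 0) (P.cons (P.lf 0 4850906 0) (P.cons (P.lf 659176 0 0) (P.cons (P.lf 76800 0 0) (P.cons (P.lf 0 9162 0) P.nil)))))) (P.cons (P.cons (P.lf 13412888 0 0) (P.cons (P.lf 0 145286 0) (P.cons (P.lf 0 137234 0) (P.cons (P.lf 0 61548 0) (P.cons (P.lf 0 12210 0) P.nil))))) (P.cons (P.cons (P.lf 12310672 0 0) (P.cons (P.lf 0 314938 0) (P.cons (P.lf 0 184896 0) (P.cons (P.lf 0 27122 0) P.nil)))) (P.cons (P.cons (P.lf 3291902 0 0) (P.cons (P.lf 0 121592 0) (P.cons (P.lf 0 48944 0) P.nil))) (P.cons (P.cons (P.lf 296064 0 0) (P.cons (P.lf 72992 0 0) P.nil)) (P.cons (P.cons (P.lf 120856 0 0) P.nil) P.nil)))))) 238426)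
 EL.nil)
noncomputable def S314_343_216_290_42 : EL := (EL.cons 14 (TM.mk (P.cons (P.lf 1171909022 0 0) (P.cons (P.lf 575004478 0 0) (P.cons (P.lf 60271372 0 0) (P.cons (P.lf 0 6784766 0) (P.cons (P.lf 0 707252 0) (P.cons (P.lf 94630 0 0) P.nil)))))) 9404)
 EL.nil)
noncomputable def S314_343_216_290_43 : EL := (EL.cons 14 (TM.mk (P.cons (P.cons (P.lf 209157234 0 0) (P.cons (P.lf 0 16139110 0) (P.cons (P.lf 0 7618648 0) (P.lf 362790 0 0)))) (P.cons (P.cons (P.lf 87760280 0 0) (P.cons (P.lf 0 3996064 0) (P.cons (P.lf 0 1886388 0) (P.lf 89826 0 0)))) (P.cons (P.cons (P.lf 24763970 0 0) (P.cons (P.lf 1026142 0 0) (P.cons (P.lf 484400 0 0) (P.lf 0 23066 0)))) (P.cons (P.cons (P.lf 8088934 0 0) (P.cons (P.lf 206368 0 0) (P.cons (P.lf 97418 0 0) P.nil))) (P.cons (P.cons (P.lf 573130 0 0) (P.cons (P.lf 0 39490 0) P.nil)) (P.cons (P.cons (P.lf 0 242746 0) P.nil) P.nil))))))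 110960)
 EL.nil)
noncomputable def S314_343_216_290_44 : EL := (EL.cons 14 (TM.mk (P.cons (P.cons (P.lf 37329474 0 0) (P.cons (P.lf 0 5760876 0) (P.cons (P.lf 0 2497224 0) (P.cons (P.lf 339340 0 0) (P.cons (P.lf 39536 0 0) (P.cons (P.lf 0 4716 0) P.nil)))))) (P.cons (P.cons (P.lf 13010206 0 0) (P.cons (P.lf 0 1016996 0) (P.cons (P.lf 0 479074 0) (P.cons (P.lf 23814 0 0) (P.cons (P.lf 178 0 0) P.nil))))) (P.cons (P.cons (P.lf 7108202 0 0) (P.cons (P.lf 0 119022 0) (P.cons (P.lf 0 82750 0) (P.cons (P.lf 0 22404 0) P.nil)))) (P.cons (P.cons (P.lf 2655652 0 0) (P.cons (P.lf 0 86976 0) (P.cons (P.lf 0 39470 0) P.nil))) (P.cons (P.cons (P.lf 368642 0 0) (P.cons (P.lf 28660 0 0) P.nil)) (P.cons (P.cons (P.lf 69582 0 0) P.nil) P.nil)))))) 216358)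
 EL.nil)
noncomputable def S314_343_216_290_45 : EL := (EL.cons 14 (TM.mk (P.cons (P.cons (P.lf 48834510 0 0) (P.cons (P.lf 0 11304588 0) (P.cons (P.lf 0 4464166 0) (P.cons (P.lf 1055230 0 0) (P.cons (P.lf 123392 0 0) (P.cons (P.lf 0 31998 0) P.nil)))))) (P.cons (P.cons (P.lf 0 10411456 0) (P.cons (P.lf 4354386 0 0) (P.cons (P.lf 1569516 0 0) (P.cons (P.lf 0 540384 0) (P.cons (P.lf 0 63286 0) P.nil))))) (P.cons (P.cons (P.lf 15659508 0 0) (P.cons (P.lf 0 2798080 0) (P.cons (P.lf 0 1142962 0) (P.cons (P.lf 226598 0 0) P.nil)))) (P.cons (P.cons (P.lf 0 2408972 0) (P.cons (P.lf 747094 0 0) (P.cons (P.lf 307856 0 0) P.nil))) (P.cons (P.cons (P.lf 1428412 0 0) (P.cons (P.lf 0 140192 0) P.nil)) (P.cons (P.cons (P.lf 0 122744 0) P.nil) P.nil)))))) 433258)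
 EL.nil)
noncomputable def S314_343_216_290_46 : EL := (EL.cons 15 (TM.mk (P.lf 4294967296 0 0) 0)
 EL.nil)
noncomputable def S314_343_216_290_47 : EL := (EL.cons 15 (TM.mk (P.cons (P.cons (P.lf 766547117 0 0) (P.cons (P.lf 0 59148752 0) (P.cons (P.lf 0 27921832 0) (P.lf 1329608 0 0)))) (P.cons (P.cons (P.lf 0 54475636 0) (P.cons (P.lf 14376396 0 0) (P.cons (P.lf 6786536 0 0) (P.lf 0 323168 0)))) (P.cons (P.cons (P.lf 78063515 0 0) (P.cons (P.lf 0 251100 0) (P.cons (P.lf 0 118536 0) (P.lf 5644 0 0)))) (P.cons (P.cons (P.lf 0 1417340 0) (P.cons (P.lf 0 202288 0) (P.cons (P.lf 0 95488 0) P.nil))) (P.cons (P.cons (P.lf 0 1071669 0) (P.cons (P.lf 14972 0 0) P.nil)) (P.cons (P.cons (P.lf 66242 0 0) P.nil) P.nil)))))) 28513)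
 EL.nil)
noncomputable def S314_343_216_290_48 : EL := (EL.cons 15 (TM.mk (P.cons (P.cons (P.lf 136810001 0 0) (P.cons (P.lf 0 21113224 0) (P.cons (P.lf 0 9152159 0) (P.cons (P.lf 1243664 0 0) (P.cons (P.lf 144899 0 0) (P.cons (P.lf 0 17287 0) P.nil)))))) (P.cons (P.cons (P.lf 0 19445150 0) (P.cons (P.lf 6632111 0 0) (P.cons (P.lf 2734788 0 0) (P.cons (P.lf 0 522930 0) (P.cons (P.lf 0 70437 0) P.nil))))) (P.cons (P.cons (P.lf 28555821 0 0) (P.cons (P.lf 0 2604444 0) (P.cons (P.lf 0 1174420 0) (P.cons (P.lf 110507 0 0) P.nil)))) (P.cons (P.cons (P.lf 0 2486173 0) (P.cons (P.lf 495799 0 0) (P.cons (P.lf 237939 0 0) P.nil))) (P.cons (P.cons (P.lf 1072269 0 0) (P.cons (P.lf 21376 0 0) P.nil)) (P.cons (P.cons (P.lf 0 691 0) P.nil) P.nil)))))) 161266)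
 EL.nil)
noncomputable def S314_343_216_290 : SL := (SL.cons S314_343_216_290_0 (SL.cons S314_343_216_290_1 (SL.cons S314_343_216_290_2 (SL.cons S314_343_216_290_3 (SL.cons S314_343_216_290_4 (SL.cons S314_343_216_290_5 (SL.cons S314_343_216_290_6 (SL.cons S314_343_216_290_7 (SL.cons S314_343_216_290_8 (SL.cons S314_343_216_290_9 (SL.cons S314_343_216_290_10 (SL.cons S314_343_216_290_11 (SL.cons S314_343_216_290_12 (SL.cons S314_343_216_290_13 (SL.cons S314_343_216_290_14 (SL.cons S314_343_216_290_15 (SL.cons S314_343_216_290_16 (SL.cons S314_343_216_290_17 (SL.cons S314_343_216_290_18 (SL.cons S314_343_216_290_19 (SL.cons S314_343_216_290_20 (SL.cons S314_343_216_290_21 (SL.cons S314_343_216_290_22 (SL.cons S314_343_216_290_23 (SL.cons S314_343_216_290_24 (SL.cons S314_343_216_290_25 (SL.cons S314_343_216_290_26 (SL.cons S314_343_216_290_27 (SL.cons S314_343_216_290_28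 (SL.cons S314_343_216_290_29 (SL.cons S314_343_216_290_30 (SL.cons S314_343_216_290_31 (SL.cons S314_343_216_290_32 (SL.cons S314_343_216_290_33 (SL.cons S314_343_216_290_34 (SL.cons S314_343_216_290_35 (SL.cons S314_343_216_290_36 (SL.cons S314_343_216_290_37 (SL.cons S314_343_216_290_38 (SL.cons S314_343_216_290_39 (SL.cons S314_343_216_290_40 (SL.cons S314_343_216_290_41 (SL.cons S314_343_216_290_42 (SL.cons S314_343_216_290_43 (SL.cons S314_343_216_290_44 (SL.cons S314_343_216_290_45 (SL.cons S314_343_216_290_46 (SL.cons S314_343_216_290_47 (SL.cons S314_343_216_290_48 SL.nil)))))))))))))))))))))))))))))))))))))))))))))))))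
noncomputable def S314_343_216_364_0 : EL := (EL.cons 0 (TM.mk (P.cons (P.lf 6454925654 0 0) (P.cons (P.lf 0 654467131 0) (P.cons (P.lf 0 15080835 0) (P.cons (P.lf 7271133 0 0) (P.cons (P.lf 0 199596 0) (P.cons (P.lf 0 35412 0) P.nil)))))) 3454)
 (EL.cons 1 (TM.mk (P.cons (P.lf 1695086628 0 0) (P.cons (P.lf 139901857 0 0) (P.cons (P.lf 0 47471786 0) (P.cons (P.lf 293435 0 0) (P.cons (P.lf 328029 0 0) (P.cons (P.lf 0 15684 0) P.nil)))))) 1940)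
 (EL.cons 5 (TM.mk (P.cons (P.lf 5006359730 0 0) (P.cons (P.lf 232699422 0 0) (P.cons (P.lf 5362070 0 0) (P.cons (P.lf 0 2585292 0) (P.cons (P.lf 70970 0 0) (P.cons (P.lf 12590 0 0) P.nil)))))) 1169)
 (EL.cons 9 (TM.mk (P.lf 6442450944 0 0) 2)
 EL.nil))))
noncomputable def S314_343_216_364_1 : EL := (EL.cons 0 (TM.mk (P.cons (P.cons (P.lf 829784473 0 0) (P.cons (P.lf 0 23392452 0) (P.cons (P.lf 0 10087093 0) (P.lf 1120792 0 0)))) (P.cons (P.cons (P.lf 716221485 0 0) (P.cons (P.lf 141003468 0 0) (P.cons (P.lf 60802287 0 0) (P.lf 0 6755803 0)))) (P.cons (P.cons (P.lf 200445911 0 0) (P.cons (P.lf 0 29870851 0) (P.cons (P.lf 0 12880643 0) (P.lf 1431177 0 0)))) (P.cons (P.cons (P.lf 0 59772838 0) (P.cons (P.lf 0 1766795 0) (P.cons (P.lf 0 761861 0) P.nil))) (P.cons (P.cons (P.lf 0 2481007 0) (P.cons (P.lf 888606 0 0) P.nil)) (P.cons (P.cons (P.lf 1432254 0 0) P.nil) P.nil))))))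 1316849)
 (EL.cons 1 (TM.mk (P.cons (P.cons (P.lf 310034981 0 0) (P.cons (P.lf 0 153942398 0) (P.cons (P.lf 0 66381697 0) (P.lf 7375736 0 0)))) (P.cons (P.cons (P.lf 0 207146027 0) (P.cons (P.lf 56556766 0 0) (P.cons (P.lf 24387910 0 0) (P.lf 0 2709761 0)))) (P.cons (P.cons (P.lf 142624107 0 0) (P.cons (P.lf 7527905 0 0) (P.cons (P.lf 3246122 0 0) (P.lf 0 360675 0)))) (P.cons (P.cons (P.lf 10392516 0 0) (P.cons (P.lf 0 3276390 0) (P.cons (P.lf 0 1412810 0) P.nil))) (P.cons (P.cons (P.lf 0 5852921 0) (P.cons (P.lf 50061 0 0) P.nil)) (P.cons (P.cons (P.lf 70135 0 0) P.nil) P.nil)))))) 741180)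
 (EL.cons 5 (TM.mk (P.cons (P.cons (P.lf 862335961 0 0) (P.cons (P.lf 0 369094900 0) (P.cons (P.lf 0 159157882 0) (P.lf 17684204 0 0)))) (P.cons (P.cons (P.lf 0 311837506 0) (P.cons (P.lf 41597360 0 0) (P.cons (P.lf 17937252 0 0) (P.lf 0 1993036 0)))) (P.cons (P.cons (P.lf 60819542 0 0) (P.cons (P.lf 9018528 0 0) (P.cons (P.lf 3888894 0 0) (P.lf 0 432092 0)))) (P.cons (P.cons (P.lf 18344586 0 0) (P.cons (P.lf 0 662554 0) (P.cons (P.lf 0 285704 0) P.nil))) (P.cons (P.cons (P.lf 0 902813 0) (P.cons (P.lf 0 220412 0) P.nil)) (P.cons (P.cons (P.lf 0 394027 0) P.nil) P.nil)))))) 617982)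
 (EL.cons 9 (TM.mk (P.cons (P.cons (P.lf 1021209205 0 0) (P.cons (P.lf 0 333010770 0) (P.cons (P.lf 0 143598000 0) (P.lf 15955326 0 0)))) (P.cons (P.cons (P.lf 0 50453796 0) (P.cons (P.lf 80939928 0 0) (P.cons (P.lf 34902210 0 0) (P.lf 0 3878022 0)))) (P.cons (P.cons (P.lf 116549284 0 0) (P.cons (P.lf 0 1413720 0) (P.cons (P.lf 0 609606 0) (P.lf 67734 0 0)))) (P.cons (P.cons (P.lf 0 2565858 0) (P.cons (P.lf 0 1138890 0) (P.cons (P.lf 0 491100 0) P.nil))) (P.cons (P.cons (P.lf 0 1574947 0) (P.cons (P.lf 84294 0 0) P.nil)) (P.cons (P.cons (P.lf 101661 0 0) P.nil) P.nil)))))) 134576)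
 (EL.cons 2 (TM.mk (P.cons (P.cons (P.lf 0 410660091 0) (P.cons (P.lf 0 382567865 0) (P.cons (P.lf 39263906 0 0) (P.cons (P.lf 8165798 0 0) (P.lf 0 680481 0))))) (P.cons (P.cons (P.lf 0 622321 0) (P.cons (P.lf 0 579751 0) (P.cons (P.lf 59501 0 0) (P.cons (P.lf 12375 0 0) (P.lf 0 1032 0))))) (P.cons (P.cons (P.lf 16361167 0 0) (P.cons (P.lf 15241941 0 0) (P.cons (P.lf 0 1564318 0) (P.cons (P.lf 0 325333 0) P.nil)))) (P.cons (P.cons (P.lf 0 1026677 0) (P.cons (P.lf 0 956446 0) (P.cons (P.lf 98161 0 0) P.nil))) (P.cons (P.cons (P.lf 0 149774 0) (P.cons (P.lf 0 139528 0) P.nil)) (P.cons (P.cons (P.lf 16858 0 0) P.nil) P.nil)))))) 108690)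
 (EL.cons 6 (TM.mk (P.cons (P.cons (P.lf 347914578 0 0) (P.cons (P.lf 324114615 0 0) (P.cons (P.lf 0 33264702 0) (P.cons (P.lf 0 6918132 0) (P.lf 576510 0 0))))) (P.cons (P.cons (P.lf 0 84562371 0) (P.cons (P.lf 0 78777672 0) (P.cons (P.lf 8085150 0 0) (P.cons (P.lf 1681485 0 0) (P.lf 0 140121 0))))) (P.cons (P.cons (P.lf 1476987 0 0) (P.cons (P.lf 1375950 0 0) (P.cons (P.lf 0 141216 0) (P.cons (P.lf 0 29367 0) P.nil)))) (P.cons (P.cons (P.lf 1189866 0 0) (P.cons (P.lf 1108470 0 0) (P.cons (P.lf 0 113763 0) P.nil))) (P.cons (P.cons (P.lf 0 88068 0) (P.cons (P.lf 0 82044 0) P.nil)) (P.cons (P.cons (P.lf 0 6201 0) P.nil) P.nil)))))) 62133)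
 EL.nil))))))
noncomputable def S314_343_216_364_2 : EL := (EL.cons 0 (TM.mk (P.cons (P.cons (P.lf 100874577 0 0) (P.cons (P.lf 12577945 0 0) (P.cons (P.lf 0 9404623 0) (P.cons (P.lf 0 13390945 0) (P.cons (P.lf 0 1336308 0) (P.cons (P.lf 612716 0 0) P.nil)))))) (P.cons (P.cons (P.lf 246533686 0 0) (P.cons (P.lf 0 49785487 0) (P.cons (P.lf 0 26500366 0) (P.cons (P.lf 0 1954651 0) (P.cons (P.lf 0 453510 0) P.nil))))) (P.cons (P.cons (P.lf 43688780 0 0) (P.cons (P.lf 1066443 0 0) (P.cons (P.lf 5126149 0 0) (P.cons (P.lf 3973213 0 0) P.nil)))) (P.cons (P.cons (P.lf 9381643 0 0) (P.cons (P.lf 11569032 0 0) (P.cons (P.lf 4363925 0 0) P.nil))) (P.cons (P.cons (P.lf 4615770 0 0) (P.cons (P.lf 0 2309432 0) P.nil)) (P.cons (P.cons (P.lf 0 1997772 0) P.nil) P.nil)))))) 8842357)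
 (EL.cons 1 (TM.mk (P.cons (P.cons (P.lf 55697726 0 0) (P.cons (P.lf 0 53077594 0) (P.cons (P.lf 0 11502105 0) (P.cons (P.lf 12362222 0 0) (P.cons (P.lf 1026042 0 0) (P.cons (P.lf 0 470456 0) P.nil)))))) (P.cons (P.cons (P.lf 0 69833224 0) (P.cons (P.lf 43714909 0 0) (P.cons (P.lf 10963204 0 0) (P.cons (P.lf 0 8896537 0) (P.cons (P.lf 0 710769 0) P.nil))))) (P.cons (P.cons (P.lf 51391930 0 0) (P.cons (P.lf 0 21981453 0) (P.cons (P.lf 0 8765687 0) (P.cons (P.lf 1668052 0 0) P.nil)))) (P.cons (P.cons (P.lf 0 6922914 0) (P.cons (P.lf 3283046 0 0) (P.cons (P.lf 1863823 0 0) P.nil))) (P.cons (P.cons (P.lf 3046480 0 0) (P.cons (P.lf 1071145 0 0) P.nil)) (P.cons (P.cons (P.lf 441085 0 0) P.nil) P.nil)))))) 4709632)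
 (EL.cons 5 (TM.mk (P.cons (P.cons (P.lf 147591200 0 0) (P.cons (P.lf 0 124121280 0) (P.cons (P.lf 0 28741714 0) (P.cons (P.lf 27318428 0 0) (P.cons (P.lf 2233194 0 0) (P.cons (P.lf 0 1023947 0) P.nil)))))) (P.cons (P.cons (P.lf 0 105784222 0) (P.cons (P.lf 52694201 0 0) (P.cons (P.lf 15028335 0 0) (P.cons (P.lf 0 9160168 0) (P.cons (P.lf 0 693356 0) P.nil))))) (P.cons (P.cons (P.lf 26789611 0 0) (P.cons (P.lf 0 15979314 0) (P.cons (P.lf 0 7231464 0) (P.cons (P.lf 471521 0 0) P.nil)))) (P.cons (P.cons (P.lf 0 6326494 0) (P.cons (P.lf 0 877892 0) (P.cons (P.lf 0 63226 0) P.nil))) (P.cons (P.cons (P.lf 228122 0 0) (P.cons (P.lf 925112 0 0) P.nil)) (P.cons (P.cons (P.lf 669587 0 0) P.nil) P.nil)))))) 4741432)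
 (EL.cons 9 (TM.mk (P.cons (P.cons (P.lf 161874454 0 0) (P.cons (P.lf 0 105572760 0) (P.cons (P.lf 0 28310812 0) (P.cons (P.lf 19903420 0 0) (P.cons (P.lf 1551240 0 0) (P.cons (P.lf 0 711267 0) P.nil)))))) (P.cons (P.cons (P.lf 0 15995116 0) (P.cons (P.lf 30875905 0 0) (P.cons (P.lf 4946457 0 0) (P.cons (P.lf 0 8695728 0) (P.cons (P.lf 0 754072 0) P.nil))))) (P.cons (P.cons (P.lf 37344171 0 0) (P.cons (P.lf 0 13764822 0) (P.cons (P.lf 0 4772502 0) (P.cons (P.lf 1662537 0 0) P.nil)))) (P.cons (P.cons (P.lf 0 2638942 0) (P.cons (P.lf 2854885 0 0) (P.cons (P.lf 1313275 0 0) P.nil))) (P.cons (P.cons (P.lf 1649364 0 0) (P.cons (P.lf 91756 0 0) P.nil)) (P.cons (P.cons (P.lf 0 35938 0) P.nil) P.nil)))))) 1617514)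
 (EL.cons 2 (TM.mk (P.cons (P.cons (P.lf 0 130189539 0) (P.cons (P.lf 0 78829498 0) (P.cons (P.lf 70304248 0 0) (P.cons (P.lf 13549950 0 0) (P.cons (P.lf 0 4705171 0) (P.cons (P.lf 0 99185 0) P.nil)))))) (P.cons (P.cons (P.lf 6234840 0 0) (P.cons (P.lf 0 4446011 0) (P.cons (P.lf 0 14570780 0) (P.cons (P.lf 0 2771533 0) (P.cons (P.lf 1094703 0 0) P.nil))))) (P.cons (P.cons (P.lf 0 9661713 0) (P.cons (P.lf 0 10527609 0) (P.cons (P.lf 0 1156989 0) (P.cons (P.lf 0 202089 0) P.nil)))) (P.cons (P.cons (P.lf 0 277149 0) (P.cons (P.lf 404516 0 0) (P.cons (P.lf 929643 0 0) P.nil))) (P.cons (P.cons (P.lf 761850 0 0) (P.cons (P.lf 681710 0 0) P.nil)) (P.cons (P.cons (P.lf 0 55141 0) P.nil) P.nil)))))) 1613446)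
 (EL.cons 6 (TM.mk (P.cons (P.cons (P.lf 110297634 0 0) (P.cons (P.lf 66784992 0 0) (P.cons (P.lf 0 59562336 0) (P.cons (P.lf 0 11479626 0) (P.cons (P.lf 3986256 0 0) (P.cons (P.lf 84030 0 0) P.nil)))))) (P.cons (P.cons (P.lf 0 32257746 0) (P.cons (P.lf 0 12566934 0) (P.cons (P.lf 26911668 0 0) (P.cons (P.lf 5155644 0 0) (P.cons (P.lf 0 1902366 0) P.nil))))) (P.cons (P.cons (P.lf 14380860 0 0) (P.cons (P.lf 10966914 0 0) (P.cons (P.lf 0 4686840 0) (P.cons (P.lf 0 913398 0) P.nil)))) (P.cons (P.cons (P.lf 0 2982648 0) (P.cons (P.lf 0 2950404 0) (P.cons (P.lf 51054 0 0) P.nil))) (P.cons (P.cons (P.lf 0 95862 0) (P.cons (P.lf 0 11946 0) P.nil)) (P.cons (P.cons (P.lf 93606 0 0) P.nil) P.nil)))))) 1383678)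
 EL.nil))))))
noncomputable def S314_343_216_364_3 : EL := (EL.cons 0 (TM.mk (P.cons (P.lf 2000791209 0 0) (P.cons (P.lf 654467131 0 0) (P.cons (P.lf 15080835 0 0) (P.cons (P.lf 0 7271133 0) (P.cons (P.lf 199596 0 0) (P.cons (P.lf 35412 0 0) P.nil)))))) 3454)
 (EL.cons 1 (TM.mk (P.cons (P.lf 0 1695086628 0) (P.cons (P.lf 0 139901857 0) (P.cons (P.lf 47471786 0 0) (P.cons (P.lf 0 293435 0) (P.cons (P.lf 0 328029 0) (P.cons (P.lf 15684 0 0) P.nil)))))) 1940)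
 (EL.cons 5 (TM.mk (P.cons (P.lf 1436091214 0 0) (P.cons (P.lf 0 232699422 0) (P.cons (P.lf 0 5362070 0) (P.cons (P.lf 2585292 0 0) (P.cons (P.lf 0 70970 0) (P.cons (P.lf 0 12590 0) P.nil)))))) 1162)
 EL.nil)))
noncomputable def S314_343_216_364_4 : EL := (EL.cons 0 (TM.mk (P.cons (P.cons (P.lf 317150477 0 0) (P.cons (P.lf 0 103421046 0) (P.cons (P.lf 0 44596321 0) (P.lf 4955143 0 0)))) (P.cons (P.cons (P.lf 88072124 0 0) (P.cons (P.lf 0 8692453 0) (P.cons (P.lf 0 3748283 0) (P.lf 416475 0 0)))) (P.cons (P.cons (P.lf 33461040 0 0) (P.cons (P.lf 7003836 0 0) (P.cons (P.lf 3020134 0 0) (P.lf 0 335569 0)))) (P.cons (P.cons (P.lf 9772319 0 0) (P.cons (P.lf 68000 0 0) (P.cons (P.lf 29323 0 0) P.nil))) (P.cons (P.cons (P.lf 0 388371 0) (P.cons (P.lf 0 194494 0) P.nil)) (P.cons (P.cons (P.lf 0 261917 0) P.nil) P.nil)))))) 238909)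
 (EL.cons 1 (TM.mk (P.cons (P.cons (P.lf 0 268692470 0) (P.cons (P.lf 87619153 0 0) (P.cons (P.lf 37782365 0 0) (P.lf 0 4198036 0)))) (P.cons (P.cons (P.lf 0 8901193 0) (P.cons (P.lf 0 14064733 0) (P.cons (P.lf 0 6064871 0) (P.lf 673873 0 0)))) (P.cons (P.cons (P.lf 0 22045014 0) (P.cons (P.lf 0 3839512 0) (P.cons (P.lf 0 1655641 0) (P.lf 183958 0 0)))) (P.cons (P.cons (P.lf 0 2274118 0) (P.cons (P.lf 941934 0 0) (P.cons (P.lf 406171 0 0) P.nil))) (P.cons (P.cons (P.lf 1279211 0 0) (P.cons (P.lf 5403 0 0) P.nil)) (P.cons (P.cons (P.lf 0 11705 0) P.nil) P.nil)))))) 181987)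
 (EL.cons 5 (TM.mk (P.cons (P.cons (P.lf 227638452 0 0) (P.cons (P.lf 0 74231660 0) (P.cons (P.lf 0 32009528 0) (P.lf 3556612 0 0)))) (P.cons (P.cons (P.lf 0 48132464 0) (P.cons (P.lf 30070624 0 0) (P.cons (P.lf 12966792 0 0) (P.lf 0 1440752 0)))) (P.cons (P.cons (P.lf 26952500 0 0) (P.cons (P.lf 0 2961492 0) (P.cons (P.lf 0 1277028 0) (P.lf 141890 0 0)))) (P.cons (P.cons (P.lf 0 4329888 0) (P.cons (P.lf 0 403808 0) (P.cons (P.lf 0 174124 0) P.nil))) (P.cons (P.cons (P.lf 0 386894 0) (P.cons (P.lf 97250 0 0) P.nil)) (P.cons (P.cons (P.lf 127012 0 0) P.nil) P.nil)))))) 120556)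
 EL.nil)))
noncomputable def S314_343_216_364_5 : EL := (EL.cons 0 (TM.mk (P.cons (P.cons (P.lf 50272323 0 0) (P.cons (P.lf 0 32787063 0) (P.cons (P.lf 0 8792309 0) (P.cons (P.lf 6181279 0 0) (P.cons (P.lf 481758 0 0) (P.cons (P.lf 0 220891 0) P.nil)))))) (P.cons (P.cons (P.lf 11476784 0 0) (P.cons (P.lf 0 1135849 0) (P.cons (P.lf 0 1339809 0) (P.cons (P.lf 0 678654 0) (P.cons (P.lf 0 76601 0) P.nil))))) (P.cons (P.cons (P.lf 10351775 0 0) (P.cons (P.lf 0 1385402 0) (P.cons (P.lf 0 1045942 0) (P.cons (P.lf 0 320454 0) P.nil)))) (P.cons (P.cons (P.lf 2753971 0 0) (P.cons (P.lf 0 320269 0) (P.cons (P.lf 0 33435 0) P.nil))) (P.cons (P.cons (P.lf 354635 0 0) (P.cons (P.lf 248173 0 0) P.nil)) (P.cons (P.cons (P.lf 108460 0 0) P.nil) P.nil)))))) 1273476)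
 (EL.cons 1 (TM.mk (P.cons (P.cons (P.lf 0 42591121 0) (P.cons (P.lf 27777466 0 0) (P.cons (P.lf 7448915 0 0) (P.cons (P.lf 0 5236830 0) (P.cons (P.lf 0 408148 0) (P.cons (P.lf 187141 0 0) P.nil)))))) (P.cons (P.cons (P.lf 693301 0 0) (P.cons (P.lf 0 5831242 0) (P.cons (P.lf 0 686683 0) (P.cons (P.lf 1855734 0 0) (P.cons (P.lf 164718 0 0) P.nil))))) (P.cons (P.cons (P.lf 0 8285570 0) (P.cons (P.lf 2173276 0 0) (P.cons (P.lf 939675 0 0) (P.cons (P.lf 0 101938 0) P.nil)))) (P.cons (P.cons (P.lf 0 241848 0) (P.cons (P.lf 0 219920 0) (P.cons (P.lf 0 204161 0) P.nil))) (P.cons (P.cons (P.lf 0 108999 0) (P.cons (P.lf 0 183594 0) P.nil)) (P.cons (P.cons (P.lf 0 46297 0) P.nil) P.nil)))))) 912181)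
 (EL.cons 5 (TM.mk (P.cons (P.cons (P.lf 36083546 0 0) (P.cons (P.lf 0 23533296 0) (P.cons (P.lf 0 6310782 0) (P.cons (P.lf 4436684 0 0) (P.cons (P.lf 345786 0 0) (P.cons (P.lf 0 158548 0) P.nil)))))) (P.cons (P.cons (P.lf 0 9412338 0) (P.cons (P.lf 10695824 0 0) (P.cons (P.lf 2125194 0 0) (P.cons (P.lf 0 2657276 0) (P.cons (P.lf 0 224120 0) P.nil))))) (P.cons (P.cons (P.lf 8767424 0 0) (P.cons (P.lf 0 4095684 0) (P.cons (P.lf 0 1218942 0) (P.cons (P.lf 668116 0 0) P.nil)))) (P.cons (P.cons (P.lf 0 1858836 0) (P.cons (P.lf 1065502 0 0) (P.cons (P.lf 449646 0 0) P.nil))) (P.cons (P.cons (P.lf 423694 0 0) (P.cons (P.lf 0 57652 0) P.nil)) (P.cons (P.cons (P.lf 0 50542 0) P.nil) P.nil)))))) 697014)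
 EL.nil)))
noncomputable def S314_343_216_364_6 : EL := (EL.cons 12 (TM.mk (P.lf 8589934592 0 0) 0)
 (EL.cons 3 (TM.mk (P.cons (P.lf 2072840178 0 0) (P.cons (P.lf 339017325 0 0) (P.cons (P.lf 0 19911543 0) (P.cons (P.lf 0 509910 0) (P.cons (P.lf 91155 0 0) (P.cons (P.lf 0 1462 0) P.nil)))))) 487)
 (EL.cons 7 (TM.mk (P.cons (P.lf 0 1756127103 0) (P.cons (P.lf 142278485 0 0) (P.cons (P.lf 9042093 0 0) (P.cons (P.lf 0 848140 0) (P.cons (P.lf 0 2043 0) (P.cons (P.lf 3166 0 0) P.nil)))))) 195)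
 EL.nil)))
noncomputable def S314_343_216_364_7 : EL := (EL.cons 12 (TM.mk (P.cons (P.cons (P.lf 1361612274 0 0) (P.cons (P.lf 0 444014360 0) (P.cons (P.lf 0 191464000 0) (P.lf 21273768 0 0)))) (P.cons (P.cons (P.lf 0 67271728 0) (P.cons (P.lf 107919904 0 0) (P.cons (P.lf 46536280 0 0) (P.lf 0 5170696 0)))) (P.cons (P.cons (P.lf 155399046 0 0) (P.cons (P.lf 0 1884960 0) (P.cons (P.lf 0 812808 0) (P.lf 90312 0 0)))) (P.cons (P.cons (P.lf 0 3421144 0) (P.cons (P.lf 0 1518520 0) (P.cons (P.lf 0 654800 0) P.nil))) (P.cons (P.cons (P.lf 0 2099930 0) (P.cons (P.lf 112392 0 0) P.nil)) (P.cons (P.cons (P.lf 135548 0 0) P.nil) P.nil)))))) 179410)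
 (EL.cons 3 (TM.mk (P.cons (P.cons (P.lf 128204551 0 0) (P.cons (P.lf 214290526 0 0) (P.cons (P.lf 92404490 0 0) (P.lf 0 10267160 0)))) (P.cons (P.cons (P.lf 972137147 0 0) (P.cons (P.lf 0 17036718 0) (P.cons (P.lf 0 7346424 0) (P.lf 816268 0 0)))) (P.cons (P.cons (P.lf 0 39247005 0) (P.cons (P.lf 0 9667244 0) (P.cons (P.lf 0 4168628 0) (P.lf 463178 0 0)))) (P.cons (P.cons (P.lf 0 22399126 0) (P.cons (P.lf 1329258 0 0) (P.cons (P.lf 573188 0 0) P.nil))) (P.cons (P.cons (P.lf 2286414 0 0) (P.cons (P.lf 79114 0 0) P.nil)) (P.cons (P.cons (P.lf 161474 0 0) P.nil) P.nil)))))) 507812)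
 (EL.cons 7 (TM.mk (P.cons (P.cons (P.lf 0 362457833 0) (P.cons (P.lf 225674233 0 0) (P.cons (P.lf 97313276 0 0) (P.lf 0 10812588 0)))) (P.cons (P.cons (P.lf 407985648 0 0) (P.cons (P.lf 0 7149957 0) (P.cons (P.lf 0 3083144 0) (P.lf 342573 0 0)))) (P.cons (P.cons (P.lf 33419453 0 0) (P.cons (P.lf 0 4931474 0) (P.cons (P.lf 0 2126504 0) (P.lf 236277 0 0)))) (P.cons (P.cons (P.lf 0 9997445 0) (P.cons (P.lf 0 140240 0) (P.cons (P.lf 0 60472 0) P.nil))) (P.cons (P.cons (P.lf 0 710217 0) (P.cons (P.lf 101202 0 0) P.nil)) (P.cons (P.cons (P.lf 169235 0 0) P.nil) P.nil)))))) 359315)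
 (EL.cons 10 (TM.mk (P.cons (P.cons (P.lf 0 850896120 0) (P.cons (P.lf 0 792688452 0) (P.cons (P.lf 81355620 0 0) (P.cons (P.lf 16919706 0 0) (P.lf 0 1409973 0))))) (P.cons (P.cons (P.lf 137876364 0 0) (P.cons (P.lf 128444586 0 0) (P.cons (P.lf 0 13182591 0) (P.cons (P.lf 0 2741610 0) (P.lf 228465 0 0))))) (P.cons (P.cons (P.lf 3177069 0 0) (P.cons (P.lf 2959734 0 0) (P.cons (P.lf 0 303765 0) (P.cons (P.lf 0 63174 0) P.nil)))) (P.cons (P.cons (P.lf 0 1531806 0) (P.cons (P.lf 0 1427019 0) (P.cons (P.lf 146457 0 0) P.nil))) (P.cons (P.cons (P.lf 42048 0 0) (P.cons (P.lf 39171 0 0) P.nil)) (P.cons (P.cons (P.lf 7458 0 0) P.nil) P.nil)))))) 52527)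
 EL.nil))))
noncomputable def S314_343_216_364_8 : EL := (EL.cons 12 (TM.mk (P.cons (P.cons (P.lf 215832606 0 0) (P.cons (P.lf 0 140763680 0) (P.cons (P.lf 0 37747750 0) (P.cons (P.lf 26537894 0 0) (P.cons (P.lf 2068320 0 0) (P.cons (P.lf 0 948356 0) P.nil)))))) (P.cons (P.cons (P.lf 0 21326822 0) (P.cons (P.lf 41167874 0 0) (P.cons (P.lf 6595276 0 0) (P.cons (P.lf 0 11594304 0) (P.cons (P.lf 0 1005430 0) P.nil))))) (P.cons (P.cons (P.lf 49792228 0 0) (P.cons (P.lf 0 18353096 0) (P.cons (P.lf 0 6363336 0) (P.cons (P.lf 2216716 0 0) P.nil)))) (P.cons (P.cons (P.lf 0 3518590 0) (P.cons (P.lf 3806514 0 0) (P.cons (P.lf 1751034 0 0) P.nil))) (P.cons (P.cons (P.lf 2199152 0 0) (P.cons (P.lf 122342 0 0) P.nil)) (P.cons (P.cons (P.lf 0 47918 0) P.nil) P.nil)))))) 2156656)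
 (EL.cons 3 (TM.mk (P.cons (P.cons (P.lf 0 11438584 0) (P.cons (P.lf 88649395 0 0) (P.cons (P.lf 10534886 0 0) (P.cons (P.lf 0 28129372 0) (P.cons (P.lf 0 2495536 0) (P.cons (P.lf 1144241 0 0) P.nil)))))) (P.cons (P.cons (P.lf 302811939 0 0) (P.cons (P.lf 0 110414502 0) (P.cons (P.lf 0 38679792 0) (P.cons (P.lf 12993534 0 0) (P.cons (P.lf 804956 0 0) P.nil))))) (P.cons (P.cons (P.lf 0 33703512 0) (P.cons (P.lf 35861251 0 0) (P.cons (P.lf 16060366 0 0) (P.cons (P.lf 0 1203684 0) P.nil)))) (P.cons (P.cons (P.lf 27432361 0 0) (P.cons (P.lf 536057 0 0) (P.cons (P.lf 0 329608 0) P.nil))) (P.cons (P.cons (P.lf 0 1461319 0) (P.cons (P.lf 0 1777399 0) P.nil)) (P.cons (P.cons (P.lf 0 1315223 0) P.nil) P.nil)))))) 5490206)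
 (EL.cons 7 (TM.mk (P.cons (P.cons (P.lf 0 70783373 0) (P.cons (P.lf 80237587 0 0) (P.cons (P.lf 15961249 0 0) (P.cons (P.lf 0 19918289 0) (P.cons (P.lf 0 1679631 0) (P.cons (P.lf 770133 0 0) P.nil)))))) (P.cons (P.cons (P.lf 127083842 0 0) (P.cons (P.lf 0 46338658 0) (P.cons (P.lf 0 16233097 0) (P.cons (P.lf 5453114 0 0) (P.cons (P.lf 337818 0 0) P.nil))))) (P.cons (P.cons (P.lf 1395807 0 0) (P.cons (P.lf 9383685 0 0) (P.cons (P.lf 4755128 0 0) (P.cons (P.lf 161671 0 0) P.nil)))) (P.cons (P.cons (P.lf 9857115 0 0) (P.cons (P.lf 2441648 0 0) (P.cons (P.lf 877532 0 0) P.nil))) (P.cons (P.cons (P.lf 1446247 0 0) (P.cons (P.lf 0 609662 0) P.nil)) (P.cons (P.cons (P.lf 0 572166 0) P.nil) P.nil)))))) 2948153)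
 (EL.cons 10 (TM.mk (P.cons (P.cons (P.lf 0 269755392 0) (P.cons (P.lf 0 163336332 0) (P.cons (P.lf 145671852 0 0) (P.cons (P.lf 28075776 0 0) (P.cons (P.lf 0 9749214 0) (P.cons (P.lf 0 205524 0) P.nil)))))) (P.cons (P.cons (P.lf 57037776 0 0) (P.cons (P.lf 17501766 0 0) (P.cons (P.lf 0 54015894 0) (P.cons (P.lf 0 10334532 0) (P.cons (P.lf 3862764 0 0) P.nil))))) (P.cons (P.cons (P.lf 0 31939164 0) (P.cons (P.lf 0 26244870 0) (P.cons (P.lf 7836402 0 0) (P.cons (P.lf 1541184 0 0) P.nil)))) (P.cons (P.cons (P.lf 5130990 0 0) (P.cons (P.lf 5258508 0 0) (P.cons (P.lf 161544 0 0) P.nil))) (P.cons (P.cons (P.lf 458472 0 0) (P.cons (P.lf 311868 0 0) P.nil)) (P.cons (P.cons (P.lf 0 150510 0) P.nil) P.nil)))))) 2390706)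
 EL.nil))))
noncomputable def S314_343_216_364_9 : EL := (EL.cons 3 (TM.mk (P.cons (P.lf 2072840178 0 0) (P.cons (P.lf 339017325 0 0) (P.cons (P.lf 0 19911543 0) (P.cons (P.lf 0 509910 0) (P.cons (P.lf 91155 0 0) (P.cons (P.lf 0 1462 0) P.nil)))))) 487)
 (EL.cons 7 (TM.mk (P.cons (P.lf 0 1756127103 0) (P.cons (P.lf 142278485 0 0) (P.cons (P.lf 9042093 0 0) (P.cons (P.lf 0 848140 0) (P.cons (P.lf 0 2043 0) (P.cons (P.lf 3166 0 0) P.nil)))))) 195)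
 EL.nil))
noncomputable def S314_343_216_364_10 : EL := (EL.cons 3 (TM.mk (P.cons (P.cons (P.lf 328571143 0 0) (P.cons (P.lf 0 107145263 0) (P.cons (P.lf 0 46202245 0) (P.lf 5133580 0 0)))) (P.cons (P.cons (P.lf 37505129 0 0) (P.cons (P.lf 8518359 0 0) (P.cons (P.lf 3673212 0 0) (P.lf 0 408134 0)))) (P.cons (P.cons (P.lf 31688169 0 0) (P.cons (P.lf 4833622 0 0) (P.cons (P.lf 2084314 0 0) (P.lf 0 231589 0)))) (P.cons (P.cons (P.lf 5382656 0 0) (P.cons (P.lf 0 664629 0) (P.cons (P.lf 0 286594 0) P.nil))) (P.cons (P.cons (P.lf 0 983529 0) (P.cons (P.lf 0 39557 0) P.nil)) (P.cons (P.cons (P.lf 0 52408 0) P.nil) P.nil)))))) 125587)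
 (EL.cons 7 (TM.mk (P.cons (P.cons (P.lf 0 278368151 0) (P.cons (P.lf 90774340 0 0) (P.cons (P.lf 39142919 0 0) (P.lf 0 4349211 0)))) (P.cons (P.cons (P.lf 36305961 0 0) (P.cons (P.lf 0 29417541 0) (P.cons (P.lf 0 12685175 0) (P.lf 1409463 0 0)))) (P.cons (P.cons (P.lf 0 31450759 0) (P.cons (P.lf 1705495 0 0) (P.cons (P.lf 735427 0 0) (P.lf 0 81714 0)))) (P.cons (P.cons (P.lf 3068101 0 0) (P.cons (P.lf 436666 0 0) (P.cons (P.lf 188294 0 0) P.nil))) (P.cons (P.cons (P.lf 542541 0 0) (P.cons (P.lf 0 60663 0) P.nil)) (P.cons (P.cons (P.lf 0 80920 0) P.nil) P.nil)))))) 76312)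
 EL.nil))
noncomputable def S314_343_216_364_11 : EL := (EL.cons 3 (TM.mk (P.cons (P.cons (P.lf 52082642 0 0) (P.cons (P.lf 0 33967733 0) (P.cons (P.lf 0 9108922 0) (P.cons (P.lf 6403868 0 0) (P.cons (P.lf 499106 0 0) (P.cons (P.lf 0 228847 0) P.nil)))))) (P.cons (P.cons (P.lf 3371841 0 0) (P.cons (P.lf 4378740 0 0) (P.cons (P.lf 101724 0 0) (P.cons (P.lf 0 1750458 0) (P.cons (P.lf 0 160990 0) P.nil))))) (P.cons (P.cons (P.lf 10673376 0 0) (P.cons (P.lf 0 2477735 0) (P.cons (P.lf 0 1187744 0) (P.cons (P.lf 15810 0 0) P.nil)))) (P.cons (P.cons (P.lf 1152691 0 0) (P.cons (P.lf 107141 0 0) (P.cons (P.lf 158354 0 0) P.nil))) (P.cons (P.cons (P.lf 279947 0 0) (P.cons (P.lf 218357 0 0) P.nil)) (P.cons (P.cons (P.lf 80167 0 0) P.nil) P.nil)))))) 933178)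
 (EL.cons 7 (TM.mk (P.cons (P.cons (P.lf 0 44124839 0) (P.cons (P.lf 28777741 0 0) (P.cons (P.lf 7717153 0 0) (P.cons (P.lf 0 5425409 0) (P.cons (P.lf 0 422847 0) (P.cons (P.lf 193881 0 0) P.nil)))))) (P.cons (P.cons (P.lf 7934978 0 0) (P.cons (P.lf 0 10747888 0) (P.cons (P.lf 0 1973569 0) (P.cons (P.lf 2809898 0 0) (P.cons (P.lf 239808 0 0) P.nil))))) (P.cons (P.cons (P.lf 0 10305579 0) (P.cons (P.lf 4285815 0 0) (P.cons (P.lf 1370426 0 0) (P.cons (P.lf 0 617291 0) P.nil)))) (P.cons (P.cons (P.lf 1500309 0 0) (P.cons (P.lf 0 1024960 0) (P.cons (P.lf 0 452710 0) P.nil))) (P.cons (P.cons (P.lf 0 453407 0) (P.cons (P.lf 14686 0 0) P.nil)) (P.cons (P.cons (P.lf 37686 0 0) P.nil) P.nil)))))) 622657)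
 EL.nil))
noncomputable def S314_343_216_364_12 : EL := (EL.cons 4 (TM.mk (P.cons (P.lf 0 2072840178 0) (P.cons (P.lf 0 339017325 0) (P.cons (P.lf 19911543 0 0) (P.cons (P.lf 509910 0 0) (P.cons (P.lf 0 91155 0) (P.cons (P.lf 1462 0 0) P.nil)))))) 487)
 (EL.cons 8 (TM.mk (P.cons (P.lf 1756127103 0 0) (P.cons (P.lf 0 142278485 0) (P.cons (P.lf 0 9042093 0) (P.cons (P.lf 848140 0 0) (P.cons (P.lf 2043 0 0) (P.cons (P.lf 0 3166 0) P.nil)))))) 195)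
 EL.nil))
noncomputable def S314_343_216_364_13 : EL := (EL.cons 4 (TM.mk (P.cons (P.cons (P.lf 0 328571143 0) (P.cons (P.lf 107145263 0 0) (P.cons (P.lf 46202245 0 0) (P.lf 0 5133580 0)))) (P.cons (P.cons (P.lf 0 37505129 0) (P.cons (P.lf 0 8518359 0) (P.cons (P.lf 0 3673212 0) (P.lf 408134 0 0)))) (P.cons (P.cons (P.lf 0 31688169 0) (P.cons (P.lf 0 4833622 0) (P.cons (P.lf 0 2084314 0) (P.lf 231589 0 0)))) (P.cons (P.cons (P.lf 0 5382656 0) (P.cons (P.lf 664629 0 0) (P.cons (P.lf 286594 0 0) P.nil))) (P.cons (P.cons (P.lf 983529 0 0) (P.cons (P.lf 39557 0 0) P.nil)) (P.cons (P.cons (P.lf 52408 0 0) P.nil) P.nil)))))) 125587)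
 (EL.cons 8 (TM.mk (P.cons (P.cons (P.lf 278368151 0 0) (P.cons (P.lf 0 90774340 0) (P.cons (P.lf 0 39142919 0) (P.lf 4349211 0 0)))) (P.cons (P.cons (P.lf 0 36305961 0) (P.cons (P.lf 29417541 0 0) (P.cons (P.lf 12685175 0 0) (P.lf 0 1409463 0)))) (P.cons (P.cons (P.lf 31450759 0 0) (P.cons (P.lf 0 1705495 0) (P.cons (P.lf 0 735427 0) (P.lf 81714 0 0)))) (P.cons (P.cons (P.lf 0 3068101 0) (P.cons (P.lf 0 436666 0) (P.cons (P.lf 0 188294 0) P.nil))) (P.cons (P.cons (P.lf 0 542541 0) (P.cons (P.lf 60663 0 0) P.nil)) (P.cons (P.cons (P.lf 80920 0 0) P.nil) P.nil)))))) 76312)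
 EL.nil))
noncomputable def S314_343_216_364_14 : EL := (EL.cons 4 (TM.mk (P.cons (P.cons (P.lf 0 52082642 0) (P.cons (P.lf 33967733 0 0) (P.cons (P.lf 9108922 0 0) (P.cons (P.lf 0 6403868 0) (P.cons (P.lf 0 499106 0) (P.cons (P.lf 228847 0 0) P.nil)))))) (P.cons (P.cons (P.lf 0 3371841 0) (P.cons (P.lf 0 4378740 0) (P.cons (P.lf 0 101724 0) (P.cons (P.lf 1750458 0 0) (P.cons (P.lf 160990 0 0) P.nil))))) (P.cons (P.cons (P.lf 0 10673376 0) (P.cons (P.lf 2477735 0 0) (P.cons (P.lf 1187744 0 0) (P.cons (P.lf 0 15810 0) P.nil)))) (P.cons (P.cons (P.lf 0 1152691 0) (P.cons (P.lf 0 107141 0) (P.cons (P.lf 0 158354 0) P.nil))) (P.cons (P.cons (P.lf 0 279947 0) (P.cons (P.lf 0 218357 0) P.nil)) (P.cons (P.cons (P.lf 0 80167 0) P.nil) P.nil)))))) 933178)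
 (EL.cons 8 (TM.mk (P.cons (P.cons (P.lf 44124839 0 0) (P.cons (P.lf 0 28777741 0) (P.cons (P.lf 0 7717153 0) (P.cons (P.lf 5425409 0 0) (P.cons (P.lf 422847 0 0) (P.cons (P.lf 0 193881 0) P.nil)))))) (P.cons (P.cons (P.lf 0 7934978 0) (P.cons (P.lf 10747888 0 0) (P.cons (P.lf 1973569 0 0) (P.cons (P.lf 0 2809898 0) (P.cons (P.lf 0 239808 0) P.nil))))) (P.cons (P.cons (P.lf 10305579 0 0) (P.cons (P.lf 0 4285815 0) (P.cons (P.lf 0 1370426 0) (P.cons (P.lf 617291 0 0) P.nil)))) (P.cons (P.cons (P.lf 0 1500309 0) (P.cons (P.lf 1024960 0 0) (P.cons (P.lf 452710 0 0) P.nil))) (P.cons (P.cons (P.lf 453407 0 0) (P.cons (P.lf 0 14686 0) P.nil)) (P.cons (P.cons (P.lf 0 37686 0) P.nil) P.nil)))))) 622657)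
 EL.nil))
noncomputable def S314_343_216_364_15 : EL := (EL.cons 4 (TM.mk (P.cons (P.lf 0 1067088645 0) (P.cons (P.lf 0 349049136 0) (P.cons (P.lf 0 8043112 0) (P.cons (P.lf 3877937 0 0) (P.cons (P.lf 0 106451 0) (P.cons (P.lf 0 18886 0) P.nil)))))) 1845)
 (EL.cons 8 (TM.mk (P.cons (P.lf 904046202 0 0) (P.cons (P.lf 74614324 0 0) (P.cons (P.lf 0 25318286 0) (P.cons (P.lf 156499 0 0) (P.cons (P.lf 174949 0 0) (P.cons (P.lf 0 8365 0) P.nil)))))) 1031)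
 EL.nil))
noncomputable def S314_343_216_364_16 : EL := (EL.cons 4 (TM.mk (P.cons (P.cons (P.lf 0 169146921 0) (P.cons (P.lf 55157891 0 0) (P.cons (P.lf 23784705 0 0) (P.lf 0 2642743 0)))) (P.cons (P.cons (P.lf 0 46971799 0) (P.cons (P.lf 4635975 0 0) (P.cons (P.lf 1999084 0 0) (P.lf 0 222120 0)))) (P.cons (P.cons (P.lf 0 17845888 0) (P.cons (P.lf 0 3735379 0) (P.cons (P.lf 0 1610738 0) (P.lf 178970 0 0)))) (P.cons (P.cons (P.lf 0 5211903 0) (P.cons (P.lf 0 36267 0) (P.cons (P.lf 0 15639 0) P.nil))) (P.cons (P.cons (P.lf 207131 0 0) (P.cons (P.lf 103730 0 0) P.nil)) (P.cons (P.cons (P.lf 139689 0 0) P.nil) P.nil)))))) 127427)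
 (EL.cons 8 (TM.mk (P.cons (P.cons (P.lf 143302651 0 0) (P.cons (P.lf 0 46730215 0) (P.cons (P.lf 0 20150595 0) (P.lf 2238953 0 0)))) (P.cons (P.cons (P.lf 4747303 0 0) (P.cons (P.lf 7501191 0 0) (P.cons (P.lf 3234598 0 0) (P.lf 0 359399 0)))) (P.cons (P.cons (P.lf 11757341 0 0) (P.cons (P.lf 2047740 0 0) (P.cons (P.lf 883009 0 0) (P.lf 0 98111 0)))) (P.cons (P.cons (P.lf 1212863 0 0) (P.cons (P.lf 0 502365 0) (P.cons (P.lf 0 216625 0) P.nil))) (P.cons (P.cons (P.lf 0 682246 0) (P.cons (P.lf 0 2882 0) P.nil)) (P.cons (P.cons (P.lf 6243 0 0) P.nil) P.nil)))))) 97050)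
 EL.nil))
noncomputable def S314_343_216_364_17 : EL := (EL.cons 4 (TM.mk (P.cons (P.cons (P.lf 0 26811905 0) (P.cons (P.lf 17486433 0 0) (P.cons (P.lf 4689231 0 0) (P.cons (P.lf 0 3296682 0) (P.cons (P.lf 0 256937 0) (P.cons (P.lf 117809 0 0) P.nil)))))) (P.cons (P.cons (P.lf 0 6120951 0) (P.cons (P.lf 605786 0 0) (P.cons (P.lf 714565 0 0) (P.cons (P.lf 361949 0 0) (P.cons (P.lf 40854 0 0) P.nil))))) (P.cons (P.cons (P.lf 0 5520946 0) (P.cons (P.lf 738881 0 0) (P.cons (P.lf 557835 0 0) (P.cons (P.lf 170909 0 0) P.nil)))) (P.cons (P.cons (P.lf 0 1468785 0) (P.cons (P.lf 170810 0 0) (P.cons (P.lf 17832 0 0) P.nil))) (P.cons (P.cons (P.lf 0 189138 0) (P.cons (P.lf 0 132359 0) P.nil)) (P.cons (P.cons (P.lf 0 57845 0) P.nil) P.nil)))))) 679197)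
 (EL.cons 8 (TM.mk (P.cons (P.cons (P.lf 22715265 0 0) (P.cons (P.lf 0 14814649 0) (P.cons (P.lf 0 3972755 0) (P.cons (P.lf 2792976 0 0) (P.cons (P.lf 217679 0 0) (P.cons (P.lf 0 99809 0) P.nil)))))) (P.cons (P.cons (P.lf 0 369761 0) (P.cons (P.lf 3109996 0 0) (P.cons (P.lf 366231 0 0) (P.cons (P.lf 0 989725 0) (P.cons (P.lf 0 87850 0) P.nil))))) (P.cons (P.cons (P.lf 4418971 0 0) (P.cons (P.lf 0 1159081 0) (P.cons (P.lf 0 501160 0) (P.cons (P.lf 54367 0 0) P.nil)))) (P.cons (P.cons (P.lf 128986 0 0) (P.cons (P.lf 117291 0 0) (P.cons (P.lf 108886 0 0) P.nil))) (P.cons (P.cons (P.lf 58133 0 0) (P.cons (P.lf 97917 0 0) P.nil)) (P.cons (P.cons (P.lf 24692 0 0) P.nil) P.nil)))))) 486485)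
 EL.nil))
noncomputable def S314_343_216_364_18 : EL := (EL.cons 4 (TM.mk (P.cons (P.lf 0 549332354 0) (P.cons (P.lf 0 269533349 0) (P.cons (P.lf 0 28252205 0) (P.cons (P.lf 3180359 0 0) (P.cons (P.lf 331524 0 0) (P.cons (P.lf 0 44357 0) P.nil)))))) 4415)
 (EL.cons 8 (TM.mk (P.cons (P.lf 465398850 0 0) (P.cons (P.lf 114528063 0 0) (P.cons (P.lf 0 11222106 0) (P.cons (P.lf 0 2534590 0) (P.cons (P.lf 239457 0 0) (P.cons (P.lf 14216 0 0) P.nil)))))) 3029)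
 EL.nil))
noncomputable def S314_343_216_364_19 : EL := (EL.cons 4 (TM.mk (P.cons (P.cons (P.lf 0 87076061 0) (P.cons (P.lf 28395030 0 0) (P.cons (P.lf 12244257 0 0) (P.lf 0 1360471 0)))) (P.cons (P.cons (P.lf 0 38422338 0) (P.cons (P.lf 7030644 0 0) (P.cons (P.lf 3031693 0 0) (P.lf 0 336854 0)))) (P.cons (P.cons (P.lf 0 12305367 0) (P.cons (P.lf 0 1805386 0) (P.cons (P.lf 0 778503 0) (P.lf 86500 0 0)))) (P.cons (P.cons (P.lf 0 3931914 0) (P.cons (P.lf 0 363083 0) (P.cons (P.lf 0 156566 0) P.nil))) (P.cons (P.cons (P.lf 0 241821 0) (P.cons (P.lf 69479 0 0) P.nil)) (P.cons (P.cons (P.lf 116382 0 0) P.nil) P.nil)))))) 142245)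
 (EL.cons 8 (TM.mk (P.cons (P.cons (P.lf 73771549 0 0) (P.cons (P.lf 0 24056501 0) (P.cons (P.lf 0 10373434 0) (P.lf 1152603 0 0)))) (P.cons (P.cons (P.lf 14509380 0 0) (P.cons (P.lf 0 72911 0) (P.cons (P.lf 0 31440 0) (P.lf 3493 0 0)))) (P.cons (P.cons (P.lf 5743684 0 0) (P.cons (P.lf 1916821 0 0) (P.cons (P.lf 826555 0 0) (P.lf 0 91839 0)))) (P.cons (P.cons (P.lf 1572672 0 0) (P.cons (P.lf 0 117380 0) (P.cons (P.lf 0 50615 0) P.nil))) (P.cons (P.cons (P.lf 0 304597 0) (P.cons (P.lf 0 55915 0) P.nil)) (P.cons (P.cons (P.lf 0 61659 0) P.nil) P.nil)))))) 85094)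
 EL.nil))
noncomputable def S314_343_216_364_20 : EL := (EL.cons 4 (TM.mk (P.cons (P.cons (P.lf 0 13802646 0) (P.cons (P.lf 9001935 0 0) (P.cons (P.lf 2413995 0 0) (P.cons (P.lf 0 1697116 0) (P.cons (P.lf 0 132270 0) (P.cons (P.lf 60647 0 0) P.nil)))))) (P.cons (P.cons (P.lf 0 5408489 0) (P.cons (P.lf 1784141 0 0) (P.cons (P.lf 762668 0 0) (P.cons (P.lf 0 91236 0) (P.cons (P.lf 0 600 0) P.nil))))) (P.cons (P.cons (P.lf 0 3224929 0) (P.cons (P.lf 344905 0 0) (P.cons (P.lf 324146 0 0) (P.cons (P.lf 134760 0 0) P.nil)))) (P.cons (P.cons (P.lf 0 1187300 0) (P.cons (P.lf 144932 0 0) (P.cons (P.lf 52020 0 0) P.nil))) (P.cons (P.cons (P.lf 0 193563 0) (P.cons (P.lf 0 57090 0) P.nil)) (P.cons (P.cons (P.lf 0 37869 0) P.nil) P.nil)))))) 553266)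
 (EL.cons 8 (TM.mk (P.cons (P.cons (P.lf 11693714 0 0) (P.cons (P.lf 0 7626513 0) (P.cons (P.lf 0 2045156 0) (P.cons (P.lf 1437811 0 0) (P.cons (P.lf 112060 0 0) (P.cons (P.lf 0 51381 0) P.nil)))))) (P.cons (P.cons (P.lf 1722179 0 0) (P.cons (P.lf 353680 0 0) (P.cons (P.lf 0 145954 0) (P.cons (P.lf 0 274349 0) (P.cons (P.lf 0 26897 0) P.nil))))) (P.cons (P.cons (P.lf 2131404 0 0) (P.cons (P.lf 0 261581 0) (P.cons (P.lf 0 207514 0) (P.cons (P.lf 0 69153 0) P.nil)))) (P.cons (P.cons (P.lf 437412 0 0) (P.cons (P.lf 0 50711 0) (P.cons (P.lf 12550 0 0) P.nil))) (P.cons (P.cons (P.lf 19495 0 0) (P.cons (P.lf 65285 0 0) P.nil)) (P.cons (P.cons (P.lf 16392 0 0) P.nil) P.nil)))))) 347353)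
 EL.nil))
noncomputable def S314_343_216_364_21 : EL := (EL.cons 4 (TM.mk (P.cons (P.cons (P.lf 200366592 0 0) (P.cons (P.lf 0 321435789 0) (P.cons (P.lf 0 138606735 0) (P.lf 15400740 0 0)))) (P.cons (P.cons (P.lf 0 934632018 0) (P.cons (P.lf 25555077 0 0) (P.cons (P.lf 11019636 0 0) (P.lf 0 1224402 0)))) (P.cons (P.cons (P.lf 70935174 0 0) (P.cons (P.lf 14500866 0 0) (P.cons (P.lf 6252942 0 0) (P.lf 0 694767 0)))) (P.cons (P.cons (P.lf 27781782 0 0) (P.cons (P.lf 0 1993887 0) (P.cons (P.lf 0 859782 0) P.nil))) (P.cons (P.cons (P.lf 0 3269943 0) (P.cons (P.lf 0 118671 0) P.nil)) (P.cons (P.cons (P.lf 0 213882 0) P.nil) P.nil)))))) 382206)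
 (EL.cons 8 (TM.mk (P.cons (P.cons (P.lf 84089682 0 0) (P.cons (P.lf 0 134899893 0) (P.cons (P.lf 0 58170357 0) (P.lf 6463377 0 0)))) (P.cons (P.cons (P.lf 0 371679687 0) (P.cons (P.lf 0 22267584 0) (P.cons (P.lf 0 9602031 0) (P.lf 1066890 0 0)))) (P.cons (P.cons (P.lf 0 64870212 0) (P.cons (P.lf 6636969 0 0) (P.cons (P.lf 2861931 0 0) (P.lf 0 317991 0)))) (P.cons (P.cons (P.lf 13065546 0 0) (P.cons (P.lf 576906 0 0) (P.cons (P.lf 248766 0 0) P.nil))) (P.cons (P.cons (P.lf 1252758 0 0) (P.cons (P.lf 0 161865 0) P.nil)) (P.cons (P.cons (P.lf 0 250155 0) P.nil) P.nil)))))) 282984)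
 (EL.cons 11 (TM.mk (P.cons (P.cons (P.lf 850896120 0 0) (P.cons (P.lf 792688452 0 0) (P.cons (P.lf 0 81355620 0) (P.cons (P.lf 0 16919706 0) (P.lf 1409973 0 0))))) (P.cons (P.cons (P.lf 0 137876364 0) (P.cons (P.lf 0 128444586 0) (P.cons (P.lf 13182591 0 0) (P.cons (P.lf 2741610 0 0) (P.lf 0 228465 0))))) (P.cons (P.cons (P.lf 0 3177069 0) (P.cons (P.lf 0 2959734 0) (P.cons (P.lf 303765 0 0) (P.cons (P.lf 63174 0 0) P.nil)))) (P.cons (P.cons (P.lf 1531806 0 0) (P.cons (P.lf 1427019 0 0) (P.cons (P.lf 0 146457 0) P.nil))) (P.cons (P.cons (P.lf 0 42048 0) (P.cons (P.lf 0 39171 0) P.nil)) (P.cons (P.cons (P.lf 0 7458 0) P.nil) P.nil)))))) 52527)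
 EL.nil)))
noncomputable def S314_343_216_364_22 : EL := (EL.cons 4 (TM.mk (P.cons (P.cons (P.lf 31760613 0 0) (P.cons (P.lf 0 61308564 0) (P.cons (P.lf 0 9821904 0) (P.cons (P.lf 17266620 0 0) (P.cons (P.lf 1497321 0 0) (P.cons (P.lf 0 686544 0) P.nil)))))) (P.cons (P.cons (P.lf 0 149720049 0) (P.cons (P.lf 57396621 0 0) (P.cons (P.lf 19390758 0 0) (P.cons (P.lf 0 7371996 0) (P.cons (P.lf 0 482973 0) P.nil))))) (P.cons (P.cons (P.lf 22188444 0 0) (P.cons (P.lf 0 19169493 0) (P.cons (P.lf 0 8624055 0) (P.cons (P.lf 609747 0 0) P.nil)))) (P.cons (P.cons (P.lf 0 13139835 0) (P.cons (P.lf 0 214458 0) (P.cons (P.lf 243981 0 0) P.nil))) (P.cons (P.cons (P.lf 870633 0 0) (P.cons (P.lf 997878 0 0) P.nil)) (P.cons (P.cons (P.lf 697695 0 0) P.nil) P.nil)))))) 2278503)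
 (EL.cons 8 (TM.mk (P.cons (P.cons (P.lf 13329267 0 0) (P.cons (P.lf 0 25729923 0) (P.cons (P.lf 0 4122048 0) (P.cons (P.lf 7246440 0 0) (P.cons (P.lf 628392 0 0) (P.cons (P.lf 0 288126 0) P.nil)))))) (P.cons (P.cons (P.lf 0 59574432 0) (P.cons (P.lf 17795385 0 0) (P.cons (P.lf 7129764 0 0) (P.cons (P.lf 0 1321608 0) (P.cons (P.lf 0 49005 0) P.nil))))) (P.cons (P.cons (P.lf 0 5850693 0) (P.cons (P.lf 0 2548935 0) (P.cons (P.lf 0 1692351 0) (P.cons (P.lf 0 389481 0) P.nil)))) (P.cons (P.cons (P.lf 0 4178403 0) (P.cons (P.lf 0 1733304 0) (P.cons (P.lf 0 665121 0) P.nil))) (P.cons (P.cons (P.lf 0 949827 0) (P.cons (P.lf 312174 0 0) P.nil)) (P.cons (P.cons (P.lf 304926 0 0) P.nil) P.nil)))))) 1162737)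
 (EL.cons 11 (TM.mk (P.cons (P.cons (P.lf 134877696 0 0) (P.cons (P.lf 81668166 0 0) (P.cons (P.lf 0 72835926 0) (P.cons (P.lf 0 14037888 0) (P.cons (P.lf 4874607 0 0) (P.cons (P.lf 102762 0 0) P.nil)))))) (P.cons (P.cons (P.lf 0 28518888 0) (P.cons (P.lf 0 8750883 0) (P.cons (P.lf 27007947 0 0) (P.cons (P.lf 5167266 0 0) (P.cons (P.lf 0 1931382 0) P.nil))))) (P.cons (P.cons (P.lf 15969582 0 0) (P.cons (P.lf 13122435 0 0) (P.cons (P.lf 0 3918201 0) (P.cons (P.lf 0 770592 0) P.nil)))) (P.cons (P.cons (P.lf 0 2565495 0) (P.cons (P.lf 0 2629254 0) (P.cons (P.lf 0 80772 0) P.nil))) (P.cons (P.cons (P.lf 0 229236 0) (P.cons (P.lf 0 155934 0) P.nil)) (P.cons (P.cons (P.lf 75255 0 0) P.nil) P.nil)))))) 1195353)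
 EL.nil)))
noncomputable def S314_343_216_364_23 : EL := (EL.cons 4 (TM.mk (P.cons (P.cons (P.lf 103147803 0 0) (P.cons (P.lf 0 165473673 0) (P.cons (P.lf 0 71354112 0) (P.lf 7928229 0 0)))) (P.cons (P.cons (P.lf 0 464274249 0) (P.cons (P.lf 0 13907925 0) (P.cons (P.lf 0 5997255 0) (P.lf 666360 0 0)))) (P.cons (P.cons (P.lf 0 43165875 0) (P.cons (P.lf 11206137 0 0) (P.cons (P.lf 4832214 0 0) (P.lf 0 536910 0)))) (P.cons (P.cons (P.lf 24870843 0 0) (P.cons (P.lf 108801 0 0) (P.cons (P.lf 46917 0 0) P.nil))) (P.cons (P.cons (P.lf 427872 0 0) (P.cons (P.lf 0 311187 0) P.nil)) (P.cons (P.cons (P.lf 0 553017 0) P.nil) P.nil)))))) 480711)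
 (EL.cons 8 (TM.mk (P.cons (P.cons (P.lf 43288983 0 0) (P.cons (P.lf 0 69445848 0) (P.cons (P.lf 0 29945832 0) (P.lf 3327315 0 0)))) (P.cons (P.cons (P.lf 0 184258998 0) (P.cons (P.lf 0 22821261 0) (P.cons (P.lf 0 9840783 0) (P.lf 1093419 0 0)))) (P.cons (P.cons (P.lf 0 65104611 0) (P.cons (P.lf 2208933 0 0) (P.cons (P.lf 952515 0 0) (P.lf 0 105834 0)))) (P.cons (P.cons (P.lf 3091617 0 0) (P.cons (P.lf 982992 0 0) (P.cons (P.lf 423873 0 0) P.nil))) (P.cons (P.cons (P.lf 2114739 0 0) (P.cons (P.lf 0 67806 0) P.nil)) (P.cons (P.cons (P.lf 0 88140 0) P.nil) P.nil)))))) 296706)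
 (EL.cons 11 (TM.mk (P.cons (P.cons (P.lf 438037431 0 0) (P.cons (P.lf 408072390 0 0) (P.cons (P.lf 0 41881500 0) (P.cons (P.lf 0 8710185 0) (P.lf 725847 0 0))))) (P.cons (P.cons (P.lf 663810 0 0) (P.cons (P.lf 618402 0 0) (P.cons (P.lf 0 63468 0) (P.cons (P.lf 0 13200 0) (P.lf 1101 0 0))))) (P.cons (P.cons (P.lf 0 17451912 0) (P.cons (P.lf 0 16258071 0) (P.cons (P.lf 1668606 0 0) (P.cons (P.lf 347022 0 0) P.nil)))) (P.cons (P.cons (P.lf 1095123 0 0) (P.cons (P.lf 1020210 0 0) (P.cons (P.lf 0 104706 0) P.nil))) (P.cons (P.cons (P.lf 159759 0 0) (P.cons (P.lf 148830 0 0) P.nil)) (P.cons (P.cons (P.lf 0 17982 0) P.nil) P.nil)))))) 115914)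
 EL.nil)))
noncomputable def S314_343_216_364_24 : EL := (EL.cons 4 (TM.mk (P.cons (P.cons (P.lf 16350219 0 0) (P.cons (P.lf 0 31561368 0) (P.cons (P.lf 0 5056269 0) (P.cons (P.lf 8888775 0 0) (P.cons (P.lf 770814 0 0) (P.cons (P.lf 0 353430 0) P.nil)))))) (P.cons (P.cons (P.lf 0 74401083 0) (P.cons (P.lf 24385590 0 0) (P.cons (P.lf 9155307 0 0) (P.cons (P.lf 0 2341290 0) (P.cons (P.lf 0 122562 0) P.nil))))) (P.cons (P.cons (P.lf 0 1340355 0) (P.cons (P.lf 0 4732632 0) (P.cons (P.lf 0 2758431 0) (P.cons (P.lf 0 392181 0) P.nil)))) (P.cons (P.cons (P.lf 0 4159794 0) (P.cons (P.lf 0 2000460 0) (P.cons (P.lf 0 695151 0) P.nil))) (P.cons (P.cons (P.lf 0 748164 0) (P.cons (P.lf 581784 0 0) P.nil)) (P.cons (P.cons (P.lf 491238 0 0) P.nil) P.nil)))))) 1452246)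
 (EL.cons 8 (TM.mk (P.cons (P.cons (P.lf 6861846 0 0) (P.cons (P.lf 0 13245645 0) (P.cons (P.lf 0 2122011 0) (P.cons (P.lf 3730434 0 0) (P.cons (P.lf 323493 0 0) (P.cons (P.lf 0 148326 0) P.nil)))))) (P.cons (P.cons (P.lf 0 29546376 0) (P.cons (P.lf 6994629 0 0) (P.cons (P.lf 3323310 0 0) (P.cons (P.lf 0 70236 0) (P.cons (P.lf 27678 0 0) P.nil))))) (P.cons (P.cons (P.lf 0 8093745 0) (P.cons (P.lf 313353 0 0) (P.cons (P.lf 0 250533 0) (P.cons (P.lf 0 347610 0) P.nil)))) (P.cons (P.cons (P.lf 0 2350713 0) (P.cons (P.lf 0 1191648 0) (P.cons (P.lf 0 519627 0) P.nil))) (P.cons (P.cons (P.lf 0 803991 0) (P.cons (P.lf 24537 0 0) P.nil)) (P.cons (P.cons (P.lf 97053 0 0) P.nil) P.nil)))))) 744264)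
 (EL.cons 11 (TM.mk (P.cons (P.cons (P.lf 69434421 0 0) (P.cons (P.lf 42042399 0 0) (P.cons (P.lf 0 37495599 0) (P.cons (P.lf 0 7226640 0) (P.cons (P.lf 2509425 0 0) (P.cons (P.lf 52899 0 0) P.nil)))))) (P.cons (P.cons (P.lf 0 3325248 0) (P.cons (P.lf 2371206 0 0) (P.cons (P.lf 7771083 0 0) (P.cons (P.lf 1478151 0 0) (P.cons (P.lf 0 583842 0) P.nil))))) (P.cons (P.cons (P.lf 5152914 0 0) (P.cons (P.lf 5614725 0 0) (P.cons (P.lf 617061 0 0) (P.cons (P.lf 107781 0 0) P.nil)))) (P.cons (P.cons (P.lf 147813 0 0) (P.cons (P.lf 0 215742 0) (P.cons (P.lf 0 495810 0) P.nil))) (P.cons (P.cons (P.lf 0 406320 0) (P.cons (P.lf 0 363579 0) P.nil)) (P.cons (P.cons (P.lf 29409 0 0) P.nil) P.nil)))))) 860493)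
 EL.nil)))
noncomputable def S314_343_216_364_25 : EL := (EL.cons 4 (TM.mk (P.cons (P.cons (P.lf 53100018 0 0) (P.cons (P.lf 0 85185090 0) (P.cons (P.lf 0 36732771 0) (P.lf 4081416 0 0)))) (P.cons (P.cons (P.lf 0 230321640 0) (P.cons (P.lf 0 21091935 0) (P.cons (P.lf 0 9095079 0) (P.lf 1010562 0 0)))) (P.cons (P.cons (P.lf 0 61821639 0) (P.cons (P.lf 5416158 0 0) (P.cons (P.lf 2335509 0 0) (P.lf 0 259497 0)))) (P.cons (P.cons (P.lf 11451819 0 0) (P.cons (P.lf 1089252 0 0) (P.cons (P.lf 469698 0 0) P.nil))) (P.cons (P.cons (P.lf 2588877 0 0) (P.cons (P.lf 0 208437 0) P.nil)) (P.cons (P.cons (P.lf 0 376734 0) P.nil) P.nil)))))) 425301)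
 (EL.cons 8 (TM.mk (P.cons (P.cons (P.lf 22284969 0 0) (P.cons (P.lf 0 35750403 0) (P.cons (P.lf 0 15415977 0) (P.lf 1712886 0 0)))) (P.cons (P.cons (P.lf 0 91210935 0) (P.cons (P.lf 0 17595333 0) (P.cons (P.lf 0 7587306 0) (P.lf 843033 0 0)))) (P.cons (P.cons (P.lf 0 49243467 0) (P.cons (P.lf 0 440889 0) (P.cons (P.lf 0 190116 0) (P.lf 21123 0 0)))) (P.cons (P.cons (P.lf 0 2984292 0) (P.cons (P.lf 813669 0 0) (P.cons (P.lf 350862 0 0) P.nil))) (P.cons (P.cons (P.lf 1695219 0 0) (P.cons (P.lf 38250 0 0) P.nil)) (P.cons (P.cons (P.lf 121446 0 0) P.nil) P.nil)))))) 248247)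
 (EL.cons 11 (TM.mk (P.cons (P.cons (P.lf 225499665 0 0) (P.cons (P.lf 210073800 0 0) (P.cons (P.lf 0 21560403 0) (P.cons (P.lf 0 4483962 0) (P.lf 373662 0 0))))) (P.cons (P.cons (P.lf 37222665 0 0) (P.cons (P.lf 34676358 0 0) (P.cons (P.lf 0 3558921 0) (P.cons (P.lf 0 740157 0) (P.lf 61680 0 0))))) (P.cons (P.cons (P.lf 0 11094405 0) (P.cons (P.lf 0 10335465 0) (P.cons (P.lf 1060755 0 0) (P.cons (P.lf 220605 0 0) P.nil)))) (P.cons (P.cons (P.lf 0 964365 0) (P.cons (P.lf 0 898395 0) (P.cons (P.lf 92205 0 0) P.nil))) (P.cons (P.cons (P.lf 270582 0 0) (P.cons (P.lf 252072 0 0) P.nil)) (P.cons (P.cons (P.lf 843 0 0) P.nil) P.nil)))))) 126204)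
 EL.nil)))
noncomputable def S314_343_216_364_26 : EL := (EL.cons 4 (TM.mk (P.cons (P.cons (P.lf 8417016 0 0) (P.cons (P.lf 0 16247646 0) (P.cons (P.lf 0 2602944 0) (P.cons (P.lf 4575900 0 0) (P.cons (P.lf 396810 0 0) (P.cons (P.lf 0 181944 0) P.nil)))))) (P.cons (P.cons (P.lf 0 36924717 0) (P.cons (P.lf 9896253 0 0) (P.cons (P.lf 4287393 0 0) (P.cons (P.lf 0 456888 0) (P.cons (P.lf 1803 0 0) P.nil))))) (P.cons (P.cons (P.lf 0 7035126 0) (P.cons (P.lf 0 227097 0) (P.cons (P.lf 0 624183 0) (P.cons (P.lf 0 442974 0) P.nil)))) (P.cons (P.cons (P.lf 0 1888446 0) (P.cons (P.lf 0 1544886 0) (P.cons (P.lf 0 634743 0) P.nil))) (P.cons (P.cons (P.lf 0 718968 0) (P.cons (P.lf 150669 0 0) P.nil)) (P.cons (P.cons (P.lf 208944 0 0) P.nil) P.nil)))))) 920571)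
 (EL.cons 8 (TM.mk (P.cons (P.cons (P.lf 3532446 0 0) (P.cons (P.lf 0 6818796 0) (P.cons (P.lf 0 1092402 0) (P.cons (P.lf 1920411 0 0) (P.cons (P.lf 166533 0 0) (P.cons (P.lf 0 76356 0) P.nil)))))) (P.cons (P.cons (P.lf 0 14632599 0) (P.cons (P.lf 2485572 0 0) (P.cons (P.lf 1532160 0 0) (P.cons (P.lf 277929 0 0) (P.cons (P.lf 41484 0 0) P.nil))))) (P.cons (P.cons (P.lf 0 6688236 0) (P.cons (P.lf 815730 0 0) (P.cons (P.lf 161328 0 0) (P.cons (P.lf 0 203310 0) P.nil)))) (P.cons (P.cons (P.lf 0 1746354 0) (P.cons (P.lf 0 619983 0) (P.cons (P.lf 0 304758 0) P.nil))) (P.cons (P.cons (P.lf 0 567888 0) (P.cons (P.lf 0 90435 0) P.nil)) (P.cons (P.cons (P.lf 0 5751 0) P.nil) P.nil)))))) 466230)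
 (EL.cons 11 (TM.mk (P.cons (P.cons (P.lf 35744520 0 0) (P.cons (P.lf 21643233 0 0) (P.cons (P.lf 0 19302564 0) (P.cons (P.lf 0 3720240 0) (P.cons (P.lf 1291839 0 0) (P.cons (P.lf 27231 0 0) P.nil)))))) (P.cons (P.cons (P.lf 4134267 0 0) (P.cons (P.lf 4760481 0 0) (P.cons (P.lf 843543 0 0) (P.cons (P.lf 152493 0 0) (P.cons (P.lf 0 89277 0) P.nil))))) (P.cons (P.cons (P.lf 2029365 0 0) (P.cons (P.lf 2882175 0 0) (P.cons (P.lf 1157373 0 0) (P.cons (P.lf 215676 0 0) P.nil)))) (P.cons (P.cons (P.lf 517599 0 0) (P.cons (P.lf 344622 0 0) (P.cons (P.lf 0 236967 0) P.nil))) (P.cons (P.cons (P.lf 0 220215 0) (P.cons (P.lf 0 232446 0) P.nil)) (P.cons (P.cons (P.lf 0 20553 0) P.nil) P.nil)))))) 552969)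
 EL.nil)))
noncomputable def S314_343_216_364_27 : EL := (EL.cons 13 (TM.mk (P.lf 0 4294967296 0) 0)
 EL.nil)
noncomputable def S314_343_216_364_28 : EL := (EL.cons 13 (TM.mk (P.cons (P.cons (P.lf 0 680806137 0) (P.cons (P.lf 222007180 0 0) (P.cons (P.lf 95732000 0 0) (P.lf 0 10636884 0)))) (P.cons (P.cons (P.lf 33635864 0 0) (P.cons (P.lf 0 53959952 0) (P.cons (P.lf 0 23268140 0) (P.lf 2585348 0 0)))) (P.cons (P.cons (P.lf 0 77699523 0) (P.cons (P.lf 942480 0 0) (P.cons (P.lf 406404 0 0) (P.lf 0 45156 0)))) (P.cons (P.cons (P.lf 1710572 0 0) (P.cons (P.lf 759260 0 0) (P.cons (P.lf 327400 0 0) P.nil))) (P.cons (P.cons (P.lf 1049965 0 0) (P.cons (P.lf 0 56196 0) P.nil)) (P.cons (P.cons (P.lf 0 67774 0) P.nil) P.nil)))))) 89705)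
 EL.nil)
noncomputable def S314_343_216_364_29 : EL := (EL.cons 13 (TM.mk (P.cons (P.cons (P.lf 0 107916303 0) (P.cons (P.lf 70381840 0 0) (P.cons (P.lf 18873875 0 0) (P.cons (P.lf 0 13268947 0) (P.cons (P.lf 0 1034160 0) (P.cons (P.lf 474178 0 0) P.nil)))))) (P.cons (P.cons (P.lf 10663411 0 0) (P.cons (P.lf 0 20583937 0) (P.cons (P.lf 0 3297638 0) (P.cons (P.lf 5797152 0 0) (P.cons (P.lf 502715 0 0) P.nil))))) (P.cons (P.cons (P.lf 0 24896114 0) (P.cons (P.lf 9176548 0 0) (P.cons (P.lf 3181668 0 0) (P.cons (P.lf 0 1108358 0) P.nil)))) (P.cons (P.cons (P.lf 1759295 0 0) (P.cons (P.lf 0 1903257 0) (P.cons (P.lf 0 875517 0) P.nil))) (P.cons (P.cons (P.lf 0 1099576 0) (P.cons (P.lf 0 61171 0) P.nil)) (P.cons (P.cons (P.lf 23959 0 0) P.nil) P.nil)))))) 1078328)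
 EL.nil)
noncomputable def S314_343_216_364_30 : EL := (EL.cons 13 (TM.mk (P.cons (P.lf 0 2211029524 0) (P.cons (P.lf 0 361618480 0) (P.cons (P.lf 21238980 0 0) (P.cons (P.lf 543904 0 0) (P.cons (P.lf 0 97232 0) (P.cons (P.lf 1560 0 0) P.nil)))))) 512)
 EL.nil)
noncomputable def S314_343_216_364_31 : EL := (EL.cons 13 (TM.mk (P.cons (P.cons (P.lf 0 350475886 0) (P.cons (P.lf 114288281 0 0) (P.cons (P.lf 49282395 0 0) (P.lf 0 5475819 0)))) (P.cons (P.cons (P.lf 0 40005471 0) (P.cons (P.lf 0 9086250 0) (P.cons (P.lf 0 3918093 0) (P.lf 435343 0 0)))) (P.cons (P.cons (P.lf 0 33800714 0) (P.cons (P.lf 0 5155864 0) (P.cons (P.lf 0 2223269 0) (P.lf 247029 0 0)))) (P.cons (P.cons (P.lf 0 5741500 0) (P.cons (P.lf 708938 0 0) (P.cons (P.lf 305701 0 0) P.nil))) (P.cons (P.cons (P.lf 1049098 0 0) (P.cons (P.lf 42195 0 0) P.nil)) (P.cons (P.cons (P.lf 55902 0 0) P.nil) P.nil))))))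 133940)
 EL.nil)
noncomputable def S314_343_216_364_32 : EL := (EL.cons 13 (TM.mk (P.cons (P.cons (P.lf 0 55554819 0) (P.cons (P.lf 36232249 0 0) (P.cons (P.lf 9716184 0 0) (P.cons (P.lf 0 6830793 0) (P.cons (P.lf 0 532380 0) (P.cons (P.lf 244104 0 0) P.nil)))))) (P.cons (P.cons (P.lf 0 3596631 0) (P.cons (P.lf 0 4670656 0) (P.cons (P.lf 0 108506 0) (P.cons (P.lf 1867156 0 0) (P.cons (P.lf 171723 0 0) P.nil))))) (P.cons (P.cons (P.lf 0 11384935 0) (P.cons (P.lf 2642918 0 0) (P.cons (P.lf 1266927 0 0) (P.cons (P.lf 0 16865 0) P.nil)))) (P.cons (P.cons (P.lf 0 1229538 0) (P.cons (P.lf 0 114284 0) (P.cons (P.lf 0 168911 0) P.nil))) (P.cons (P.cons (P.lf 0 298611 0) (P.cons (P.lf 0 232915 0) P.nil)) (P.cons (P.cons (P.lf 0 85512 0) P.nil) P.nil)))))) 995367)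
 EL.nil)
noncomputable def S314_343_216_364_33 : EL := (EL.cons 14 (TM.mk (P.lf 8589934592 0 0) 0)
 EL.nil)
noncomputable def S314_343_216_364_34 : EL := (EL.cons 14 (TM.mk (P.cons (P.cons (P.lf 1361612274 0 0) (P.cons (P.lf 0 444014360 0) (P.cons (P.lf 0 191464000 0) (P.lf 21273768 0 0)))) (P.cons (P.cons (P.lf 0 67271728 0) (P.cons (P.lf 107919904 0 0) (P.cons (P.lf 46536280 0 0) (P.lf 0 5170696 0)))) (P.cons (P.cons (P.lf 155399046 0 0) (P.cons (P.lf 0 1884960 0) (P.cons (P.lf 0 812808 0) (P.lf 90312 0 0)))) (P.cons (P.cons (P.lf 0 3421144 0) (P.cons (P.lf 0 1518520 0) (P.cons (P.lf 0 654800 0) P.nil))) (P.cons (P.cons (P.lf 0 2099930 0) (P.cons (P.lf 112392 0 0) P.nil)) (P.cons (P.cons (P.lf 135548 0 0) P.nil) P.nil)))))) 179410)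
 EL.nil)
noncomputable def S314_343_216_364_35 : EL := (EL.cons 14 (TM.mk (P.cons (P.cons (P.lf 215832606 0 0) (P.cons (P.lf 0 140763680 0) (P.cons (P.lf 0 37747750 0) (P.cons (P.lf 26537894 0 0) (P.cons (P.lf 2068320 0 0) (P.cons (P.lf 0 948356 0) P.nil)))))) (P.cons (P.cons (P.lf 0 21326822 0) (P.cons (P.lf 41167874 0 0) (P.cons (P.lf 6595276 0 0) (P.cons (P.lf 0 11594304 0) (P.cons (P.lf 0 1005430 0) P.nil))))) (P.cons (P.cons (P.lf 49792228 0 0) (P.cons (P.lf 0 18353096 0) (P.cons (P.lf 0 6363336 0) (P.cons (P.lf 2216716 0 0) P.nil)))) (P.cons (P.cons (P.lf 0 3518590 0) (P.cons (P.lf 3806514 0 0) (P.cons (P.lf 1751034 0 0) P.nil))) (P.cons (P.cons (P.lf 2199152 0 0) (P.cons (P.lf 122342 0 0) P.nil)) (P.cons (P.cons (P.lf 0 47918 0) P.nil) P.nil)))))) 2156656)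
 EL.nil)
noncomputable def S314_343_216_364_36 : EL := (EL.cons 14 (TM.mk (P.cons (P.lf 4422059048 0 0) (P.cons (P.lf 723236960 0 0) (P.cons (P.lf 0 42477960 0) (P.cons (P.lf 0 1087808 0) (P.cons (P.lf 194464 0 0) (P.cons (P.lf 0 3120 0) P.nil)))))) 1024)
 EL.nil)
noncomputable def S314_343_216_364_37 : EL := (EL.cons 14 (TM.mk (P.cons (P.cons (P.lf 700951772 0 0) (P.cons (P.lf 0 228576562 0) (P.cons (P.lf 0 98564790 0) (P.lf 10951638 0 0)))) (P.cons (P.cons (P.lf 80010942 0 0) (P.cons (P.lf 18172500 0 0) (P.cons (P.lf 7836186 0 0) (P.lf 0 870686 0)))) (P.cons (P.cons (P.lf 67601428 0 0) (P.cons (P.lf 10311728 0 0) (P.cons (P.lf 4446538 0 0) (P.lf 0 494058 0)))) (P.cons (P.cons (P.lf 11483000 0 0) (P.cons (P.lf 0 1417876 0) (P.cons (P.lf 0 611402 0) P.nil))) (P.cons (P.cons (P.lf 0 2098196 0) (P.cons (P.lf 0 84390 0) P.nil)) (P.cons (P.cons (P.lf 0 111804 0) P.nil)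 P.nil)))))) 267880)
 EL.nil)
noncomputable def S314_343_216_364_38 : EL := (EL.cons 14 (TM.mk (P.cons (P.cons (P.lf 111109638 0 0) (P.cons (P.lf 0 72464498 0) (P.cons (P.lf 0 19432368 0) (P.cons (P.lf 13661586 0 0) (P.cons (P.lf 1064760 0 0) (P.cons (P.lf 0 488208 0) P.nil)))))) (P.cons (P.cons (P.lf 7193262 0 0) (P.cons (P.lf 9341312 0 0) (P.cons (P.lf 217012 0 0) (P.cons (P.lf 0 3734312 0) (P.cons (P.lf 0 343446 0) P.nil))))) (P.cons (P.cons (P.lf 22769870 0 0) (P.cons (P.lf 0 5285836 0) (P.cons (P.lf 0 2533854 0) (P.cons (P.lf 33730 0 0) P.nil)))) (P.cons (P.cons (P.lf 2459076 0 0) (P.cons (P.lf 228568 0 0) (P.cons (P.lf 337822 0 0) P.nil))) (P.cons (P.cons (P.lf 597222 0 0) (P.cons (P.lf 465830 0 0) P.nil)) (P.cons (P.cons (P.lf 171024 0 0) P.nil) P.nil)))))) 1990734)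
 EL.nil)
noncomputable def S314_343_216_364_39 : EL := (EL.cons 14 (TM.mk (P.cons (P.lf 2276455776 0 0) (P.cons (P.lf 744638158 0 0) (P.cons (P.lf 17158640 0 0) (P.cons (P.lf 0 8272934 0) (P.cons (P.lf 227096 0 0) (P.cons (P.lf 40292 0 0) P.nil)))))) 3922)
 EL.nil)
noncomputable def S314_343_216_364_40 : EL := (EL.cons 14 (TM.mk (P.cons (P.cons (P.lf 360846766 0 0) (P.cons (P.lf 0 117670168 0) (P.cons (P.lf 0 50740704 0) (P.lf 5637852 0 0)))) (P.cons (P.cons (P.lf 100206506 0 0) (P.cons (P.lf 0 9890080 0) (P.cons (P.lf 0 4264714 0) (P.lf 473856 0 0)))) (P.cons (P.cons (P.lf 38071228 0 0) (P.cons (P.lf 7968810 0 0) (P.cons (P.lf 3436242 0 0) (P.lf 0 381804 0)))) (P.cons (P.cons (P.lf 11118728 0 0) (P.cons (P.lf 77370 0 0) (P.cons (P.lf 33364 0 0) P.nil))) (P.cons (P.cons (P.lf 0 441880 0) (P.cons (P.lf 0 221292 0) P.nil)) (P.cons (P.cons (P.lf 0 298004 0) P.nil) P.nil))))))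 271804)
 EL.nil)
noncomputable def S314_343_216_364_41 : EL := (EL.cons 14 (TM.mk (P.cons (P.cons (P.lf 57198732 0 0) (P.cons (P.lf 0 37304392 0) (P.cons (P.lf 0 10003694 0) (P.cons (P.lf 7032922 0 0) (P.cons (P.lf 548134 0 0) (P.cons (P.lf 0 251326 0) P.nil)))))) (P.cons (P.cons (P.lf 13058030 0 0) (P.cons (P.lf 0 1292344 0) (P.cons (P.lf 0 1524406 0) (P.cons (P.lf 0 772158 0) (P.cons (P.lf 0 87156 0) P.nil))))) (P.cons (P.cons (P.lf 11778020 0 0) (P.cons (P.lf 0 1576280 0) (P.cons (P.lf 0 1190050 0) (P.cons (P.lf 0 364606 0) P.nil)))) (P.cons (P.cons (P.lf 3133408 0 0) (P.cons (P.lf 0 364396 0) (P.cons (P.lf 0 38042 0) P.nil))) (P.cons (P.cons (P.lf 403496 0 0) (P.cons (P.lf 282366 0 0) P.nil)) (P.cons (P.cons (P.lf 123404 0 0) P.nil) P.nil)))))) 1448908)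
 EL.nil)
noncomputable def S314_343_216_364_42 : EL := (EL.cons 14 (TM.mk (P.cons (P.lf 1171909022 0 0) (P.cons (P.lf 575004478 0 0) (P.cons (P.lf 60271372 0 0) (P.cons (P.lf 0 6784766 0) (P.cons (P.lf 0 707252 0) (P.cons (P.lf 94630 0 0) P.nil)))))) 9404)
 EL.nil)
noncomputable def S314_343_216_364_43 : EL := (EL.cons 14 (TM.mk (P.cons (P.cons (P.lf 185762264 0 0) (P.cons (P.lf 0 60576064 0) (P.cons (P.lf 0 26121082 0) (P.lf 2902340 0 0)))) (P.cons (P.cons (P.lf 81967656 0 0) (P.cons (P.lf 0 14998708 0) (P.cons (P.lf 0 6467612 0) (P.lf 718622 0 0)))) (P.cons (P.cons (P.lf 26251450 0 0) (P.cons (P.lf 3851492 0 0) (P.cons (P.lf 1660808 0 0) (P.lf 0 184534 0)))) (P.cons (P.cons (P.lf 8388084 0 0) (P.cons (P.lf 774578 0 0) (P.cons (P.lf 334008 0 0) P.nil))) (P.cons (P.cons (P.lf 515886 0 0) (P.cons (P.lf 0 148222 0) P.nil)) (P.cons (P.cons (P.lf 0 248282 0) P.nil) P.nil))))))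 303416)
 EL.nil)
noncomputable def S314_343_216_364_44 : EL := (EL.cons 14 (TM.mk (P.cons (P.cons (P.lf 29445646 0 0) (P.cons (P.lf 0 19204130 0) (P.cons (P.lf 0 5149856 0) (P.cons (P.lf 3620516 0 0) (P.cons (P.lf 282176 0 0) (P.cons (P.lf 0 129382 0) P.nil)))))) (P.cons (P.cons (P.lf 11538110 0 0) (P.cons (P.lf 0 3806168 0) (P.cons (P.lf 0 1627026 0) (P.cons (P.lf 194638 0 0) (P.cons (P.lf 1282 0 0) P.nil))))) (P.cons (P.cons (P.lf 6879850 0 0) (P.cons (P.lf 0 735798 0) (P.cons (P.lf 0 691512 0) (P.cons (P.lf 0 287488 0) P.nil)))) (P.cons (P.cons (P.lf 2532908 0 0) (P.cons (P.lf 0 309190 0) (P.cons (P.lf 0 110976 0) P.nil))) (P.cons (P.cons (P.lf 412936 0 0) (P.cons (P.lf 121794 0 0) P.nil)) (P.cons (P.cons (P.lf 80788 0 0) P.nil) P.nil)))))) 1180254)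
 EL.nil)
noncomputable def S314_343_216_364_45 : EL := (EL.cons 14 (TM.mk (P.cons (P.cons (P.lf 34212172 0 0) (P.cons (P.lf 0 33469210 0) (P.cons (P.lf 0 3518172 0) (P.cons (P.lf 9829832 0 0) (P.cons (P.lf 0 551132 0) (P.cons (P.lf 0 942234 0) P.nil)))))) (P.cons (P.cons (P.lf 0 5070852 0) (P.cons (P.lf 11442012 0 0) (P.cons (P.lf 0 910762 0) (P.cons (P.lf 0 4723762 0) (P.cons (P.lf 592332 0 0) P.nil))))) (P.cons (P.cons (P.lf 11964302 0 0) (P.cons (P.lf 0 8667198 0) (P.cons (P.lf 0 1492228 0) (P.cons (P.lf 2126182 0 0) P.nil)))) (P.cons (P.cons (P.lf 0 1419466 0) (P.cons (P.lf 2321902 0 0) (P.cons (P.lf 383998 0 0) P.nil))) (P.cons (P.cons (P.lf 1232662 0 0) (P.cons (P.lf 0 486636 0) P.nil)) (P.cons (P.cons (P.lf 0 99682 0) P.nil) P.nil)))))) 3707816)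
 EL.nil)
noncomputable def S314_343_216_364_46 : EL := (EL.cons 15 (TM.mk (P.lf 4294967296 0 0) 0)
 EL.nil)
noncomputable def S314_343_216_364_47 : EL := (EL.cons 15 (TM.mk (P.cons (P.cons (P.lf 680806137 0 0) (P.cons (P.lf 0 222007180 0) (P.cons (P.lf 0 95732000 0) (P.lf 10636884 0 0)))) (P.cons (P.cons (P.lf 0 33635864 0) (P.cons (P.lf 53959952 0 0) (P.cons (P.lf 23268140 0 0) (P.lf 0 2585348 0)))) (P.cons (P.cons (P.lf 77699523 0 0) (P.cons (P.lf 0 942480 0) (P.cons (P.lf 0 406404 0) (P.lf 45156 0 0)))) (P.cons (P.cons (P.lf 0 1710572 0) (P.cons (P.lf 0 759260 0) (P.cons (P.lf 0 327400 0) P.nil))) (P.cons (P.cons (P.lf 0 1049965 0) (P.cons (P.lf 56196 0 0) P.nil)) (P.cons (P.cons (P.lf 67774 0 0) P.nil) P.nil)))))) 89705)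
 EL.nil)
noncomputable def S314_343_216_364_48 : EL := (EL.cons 15 (TM.mk (P.cons (P.cons (P.lf 107916303 0 0) (P.cons (P.lf 0 70381840 0) (P.cons (P.lf 0 18873875 0) (P.cons (P.lf 13268947 0 0) (P.cons (P.lf 1034160 0 0) (P.cons (P.lf 0 474178 0) P.nil)))))) (P.cons (P.cons (P.lf 0 10663411 0) (P.cons (P.lf 20583937 0 0) (P.cons (P.lf 3297638 0 0) (P.cons (P.lf 0 5797152 0) (P.cons (P.lf 0 502715 0) P.nil))))) (P.cons (P.cons (P.lf 24896114 0 0) (P.cons (P.lf 0 9176548 0) (P.cons (P.lf 0 3181668 0) (P.cons (P.lf 1108358 0 0) P.nil)))) (P.cons (P.cons (P.lf 0 1759295 0) (P.cons (P.lf 1903257 0 0) (P.cons (P.lf 875517 0 0) P.nil))) (P.cons (P.cons (P.lf 1099576 0 0) (P.cons (P.lf 61171 0 0) P.nil)) (P.cons (P.cons (P.lf 0 23959 0) P.nil) P.nil)))))) 1078328)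
 EL.nil)
noncomputable def S314_343_216_364 : SL := (SL.cons S314_343_216_364_0 (SL.cons S314_343_216_364_1 (SL.cons S314_343_216_364_2 (SL.cons S314_343_216_364_3 (SL.cons S314_343_216_364_4 (SL.cons S314_343_216_364_5 (SL.cons S314_343_216_364_6 (SL.cons S314_343_216_364_7 (SL.cons S314_343_216_364_8 (SL.cons S314_343_216_364_9 (SL.cons S314_343_216_364_10 (SL.cons S314_343_216_364_11 (SL.cons S314_343_216_364_12 (SL.cons S314_343_216_364_13 (SL.cons S314_343_216_364_14 (SL.cons S314_343_216_364_15 (SL.cons S314_343_216_364_16 (SL.cons S314_343_216_364_17 (SL.cons S314_343_216_364_18 (SL.cons S314_343_216_364_19 (SL.cons S314_343_216_364_20 (SL.cons S314_343_216_364_21 (SL.cons S314_343_216_364_22 (SL.cons S314_343_216_364_23 (SL.cons S314_343_216_364_24 (SL.cons S314_343_216_364_25 (SL.cons S314_343_216_364_26 (SL.cons S314_343_216_364_27 (SL.cons S314_343_216_364_28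 (SL.cons S314_343_216_364_29 (SL.cons S314_343_216_364_30 (SL.cons S314_343_216_364_31 (SL.cons S314_343_216_364_32 (SL.cons S314_343_216_364_33 (SL.cons S314_343_216_364_34 (SL.cons S314_343_216_364_35 (SL.cons S314_343_216_364_36 (SL.cons S314_343_216_364_37 (SL.cons S314_343_216_364_38 (SL.cons S314_343_216_364_39 (SL.cons S314_343_216_364_40 (SL.cons S314_343_216_364_41 (SL.cons S314_343_216_364_42 (SL.cons S314_343_216_364_43 (SL.cons S314_343_216_364_44 (SL.cons S314_343_216_364_45 (SL.cons S314_343_216_364_46 (SL.cons S314_343_216_364_47 (SL.cons S314_343_216_364_48 SL.nil)))))))))))))))))))))))))))))))))))))))))))))))))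
theorem S285_314_734_771_ok : band (seq (shp 5 285 314 734 771) S285_314_734_771) (sok S285_314_734_771) = true := by decide +kernel

theorem S285_314_734_808_ok : band (seq (shp 5 285 314 734 808) S285_314_734_808) (sok S285_314_734_808) = true := by decide +kernel

theorem S285_314_771_808_ok : band (seq (shp 5 285 314 771 808) S285_314_771_808) (sok S285_314_771_808) = true := by decide +kernel

theorem S314_328_660_808_ok : band (seq (shp 5 314 328 660 808) S314_328_660_808) (sok S314_328_660_808) = true := by decide +kernel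

theorem S314_343_216_290_ok : band (seq (shp 5 314 343 216 290) S314_343_216_290) (sok S314_343_216_290) = true := by decide +kernel

theorem S314_343_216_364_ok : band (seq (shp 5 314 343 216 364) S314_343_216_364) (sok S314_343_216_364) = true := by decide +kernel

end Vale.Agent.P098.Ck
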