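import Vale.Agent.P098.CkDefs

namespace Vale.Agent.P098.Ck

noncomputable def S314_343_290_364_0 : EL := (EL.cons 0 (TM.mk (P.cons (P.lf 6454925654 0 0) (P.cons (P.lf 0 654467131 0) (P.cons (P.lf 0 15080835 0) (P.cons (P.lf 7271133 0 0) (P.cons (P.lf 0 199596 0) (P.cons (P.lf 0 35412 0) P.nil)))))) 3454)
 (EL.cons 1 (TM.mk (P.cons (P.lf 1695086628 0 0) (P.cons (P.lf 139901857 0 0) (P.cons (P.lf 0 47471786 0) (P.cons (P.lf 293435 0 0) (P.cons (P.lf 328029 0 0) (P.cons (P.lf 0 15684 0) P.nil)))))) 1940)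
 (EL.cons 5 (TM.mk (P.cons (P.lf 5006359730 0 0) (P.cons (P.lf 232699422 0 0) (P.cons (P.lf 5362070 0 0) (P.cons (P.lf 0 2585292 0) (P.cons (P.lf 70970 0 0) (P.cons (P.lf 12590 0 0) P.nil)))))) 1169)
 (EL.cons 9 (TM.mk (P.lf 6442450944 0 0) 2)
 EL.nil))))
noncomputable def S314_343_290_364_1 : EL := (EL.cons 0 (TM.mk (P.cons (P.cons (P.lf 815706575 0 0) (P.cons (P.lf 0 16319476 0) (P.cons (P.lf 0 2101483 0) (P.lf 140100 0 0)))) (P.cons (P.cons (P.lf 801079319 0 0) (P.cons (P.lf 98369449 0 0) (P.cons (P.lf 12667140 0 0) (P.lf 0 844472 0)))) (P.cons (P.cons (P.lf 182469214 0 0) (P.cons (P.lf 0 20839056 0) (P.cons (P.lf 0 2683458 0) (P.lf 178887 0 0)))) (P.cons (P.cons (P.lf 0 60836120 0) (P.cons (P.lf 0 1232587 0) (P.cons (P.lf 0 158718 0) P.nil))) (P.cons (P.cons (P.lf 0 1946228 0) (P.cons (P.lf 619928 0 0) P.nil)) (P.cons (P.cons (P.lf 1412835 0 0) P.nil) P.nil))))))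 463589)
 (EL.cons 1 (TM.mk (P.cons (P.cons (P.lf 217390321 0 0) (P.cons (P.lf 0 107396146 0) (P.cons (P.lf 0 13829514 0) (P.lf 921961 0 0)))) (P.cons (P.cons (P.lf 0 173109378 0) (P.cons (P.lf 39456176 0 0) (P.cons (P.lf 5080810 0 0) (P.lf 0 338712 0)))) (P.cons (P.cons (P.lf 147154510 0 0) (P.cons (P.lf 5251761 0 0) (P.cons (P.lf 676273 0 0) (P.lf 0 45083 0)))) (P.cons (P.cons (P.lf 8420735 0 0) (P.cons (P.lf 0 2285738 0) (P.cons (P.lf 0 294326 0) P.nil))) (P.cons (P.cons (P.lf 0 5822789 0) (P.cons (P.lf 34926 0 0) P.nil)) (P.cons (P.cons (P.lf 105366 0 0) P.nil) P.nil)))))) 274343)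
 (EL.cons 5 (TM.mk (P.cons (P.cons (P.lf 640209567 0 0) (P.cons (P.lf 0 257494812 0) (P.cons (P.lf 0 33157892 0) (P.lf 2210522 0 0)))) (P.cons (P.cons (P.lf 0 286803640 0) (P.cons (P.lf 29019924 0 0) (P.cons (P.lf 3736934 0 0) (P.lf 0 249136 0)))) (P.cons (P.cons (P.lf 66247018 0 0) (P.cons (P.lf 6291676 0 0) (P.cons (P.lf 810180 0 0) (P.lf 0 54006 0)))) (P.cons (P.cons (P.lf 17945850 0 0) (P.cons (P.lf 0 462228 0) (P.cons (P.lf 0 59522 0) P.nil))) (P.cons (P.cons (P.lf 0 1035461 0) (P.cons (P.lf 0 153772 0) P.nil)) (P.cons (P.cons (P.lf 0 383073 0) P.nil) P.nil)))))) 217296)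
 (EL.cons 9 (TM.mk (P.cons (P.cons (P.lf 820798735 0 0) (P.cons (P.lf 0 232321134 0) (P.cons (P.lf 0 29916246 0) (P.lf 1994412 0 0)))) (P.cons (P.cons (P.lf 0 1743030 0) (P.cons (P.lf 56466810 0 0) (P.cons (P.lf 7271292 0 0) (P.lf 0 484752 0)))) (P.cons (P.cons (P.lf 115698490 0 0) (P.cons (P.lf 0 986262 0) (P.cons (P.lf 0 127002 0) (P.lf 8466 0 0)))) (P.cons (P.cons (P.lf 0 3251262 0) (P.cons (P.lf 0 794538 0) (P.cons (P.lf 0 102306 0) P.nil))) (P.cons (P.cons (P.lf 0 1524211 0) (P.cons (P.lf 58806 0 0) P.nil)) (P.cons (P.cons (P.lf 105231 0 0) P.nil) P.nil)))))) 42032)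
 (EL.cons 2 (TM.mk (P.cons (P.cons (P.lf 0 591149851 0) (P.cons (P.lf 0 168759922 0) (P.cons (P.lf 12622969 0 0) (P.cons (P.lf 850601 0 0) (P.lf 0 42527 0))))) (P.cons (P.cons (P.lf 0 895840 0) (P.cons (P.lf 0 255743 0) (P.cons (P.lf 19127 0 0) (P.cons (P.lf 1288 0 0) (P.lf 0 64 0))))) (P.cons (P.cons (P.lf 23552088 0 0) (P.cons (P.lf 6723587 0 0) (P.cons (P.lf 0 502911 0) (P.cons (P.lf 0 33887 0) P.nil)))) (P.cons (P.cons (P.lf 0 1477915 0) (P.cons (P.lf 0 421911 0) (P.cons (P.lf 31556 0 0) P.nil))) (P.cons (P.cons (P.lf 0 215600 0) (P.cons (P.lf 0 61548 0) P.nil)) (P.cons (P.cons (P.lf 24266 0 0) P.nil) P.nil)))))) 22799)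
 (EL.cons 6 (TM.mk (P.cons (P.cons (P.lf 500826975 0 0) (P.cons (P.lf 142974783 0 0) (P.cons (P.lf 0 10694283 0) (P.cons (P.lf 0 720636 0) (P.lf 36030 0 0))))) (P.cons (P.cons (P.lf 0 121728495 0) (P.cons (P.lf 0 34750731 0) (P.cons (P.lf 2599296 0 0) (P.cons (P.lf 175152 0 0) (P.lf 0 8754 0))))) (P.cons (P.cons (P.lf 2126142 0 0) (P.cons (P.lf 606966 0 0) (P.cons (P.lf 0 45399 0) (P.cons (P.lf 0 3057 0) P.nil)))) (P.cons (P.cons (P.lf 1712826 0 0) (P.cons (P.lf 488973 0 0) (P.cons (P.lf 0 36573 0) P.nil))) (P.cons (P.cons (P.lf 0 126777 0) (P.cons (P.lf 0 36192 0) P.nil)) (P.cons (P.cons (P.lf 0 8925 0) P.nil) P.nil)))))) 12957)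
 EL.nil))))))
noncomputable def S314_343_290_364_2 : EL := (EL.cons 0 (TM.mk (P.cons (P.cons (P.lf 103073624 0 0) (P.cons (P.lf 0 3676477 0) (P.cons (P.lf 0 7690374 0) (P.cons (P.lf 0 1827099 0) (P.cons (P.lf 4238 0 0) (P.cons (P.lf 15945 0 0) P.nil)))))) (P.cons (P.cons (P.lf 214749487 0 0) (P.cons (P.lf 0 38957889 0) (P.cons (P.lf 0 7465871 0) (P.cons (P.lf 0 296344 0) (P.cons (P.lf 1444 0 0) P.nil))))) (P.cons (P.cons (P.lf 46020623 0 0) (P.cons (P.lf 4662263 0 0) (P.cons (P.lf 2871443 0 0) (P.cons (P.lf 544872 0 0) P.nil)))) (P.cons (P.cons (P.lf 16117773 0 0) (P.cons (P.lf 7546385 0 0) (P.cons (P.lf 667670 0 0) P.nil))) (P.cons (P.cons (P.lf 3184103 0 0) (P.cons (P.lf 0 1708106 0) P.nil)) (P.cons (P.cons (P.lf 0 2134277 0) P.nil) P.nil)))))) 2030102)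
 (EL.cons 1 (TM.mk (P.cons (P.cons (P.lf 27878524 0 0) (P.cons (P.lf 0 27468559 0) (P.cons (P.lf 2004182 0 0) (P.cons (P.lf 1662934 0 0) (P.cons (P.lf 0 3252 0) (P.cons (P.lf 0 12247 0) P.nil)))))) (P.cons (P.cons (P.lf 0 46381560 0) (P.cons (P.lf 23874384 0 0) (P.cons (P.lf 0 764342 0) (P.cons (P.lf 0 1193572 0) (P.cons (P.lf 2244 0 0) P.nil))))) (P.cons (P.cons (P.lf 38421404 0 0) (P.cons (P.lf 0 14736435 0) (P.cons (P.lf 0 1550617 0) (P.cons (P.lf 215866 0 0) P.nil)))) (P.cons (P.cons (P.lf 0 4784820 0) (P.cons (P.lf 2666682 0 0) (P.cons (P.lf 561502 0 0) P.nil))) (P.cons (P.cons (P.lf 3655334 0 0) (P.cons (P.lf 664307 0 0) P.nil)) (P.cons (P.cons (P.lf 252031 0 0) P.nil) P.nil)))))) 1137772)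
 (EL.cons 5 (TM.mk (P.cons (P.cons (P.lf 81868387 0 0) (P.cons (P.lf 0 65783445 0) (P.cons (P.lf 3589778 0 0) (P.cons (P.lf 3670889 0 0) (P.cons (P.lf 0 7076 0) (P.cons (P.lf 0 26658 0) P.nil)))))) (P.cons (P.cons (P.lf 0 76858731 0) (P.cons (P.lf 30300882 0 0) (P.cons (P.lf 157209 0 0) (P.cons (P.lf 0 1224528 0) (P.cons (P.lf 2185 0 0) P.nil))))) (P.cons (P.cons (P.lf 17049535 0 0) (P.cons (P.lf 0 11434118 0) (P.cons (P.lf 0 1638343 0) (P.cons (P.lf 55427 0 0) P.nil)))) (P.cons (P.cons (P.lf 0 6740627 0) (P.cons (P.lf 0 347674 0) (P.cons (P.lf 108704 0 0) P.nil))) (P.cons (P.cons (P.lf 784548 0 0) (P.cons (P.lf 644637 0 0) P.nil)) (P.cons (P.cons (P.lf 657826 0 0) P.nil) P.nil)))))) 987087)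
 (EL.cons 9 (TM.mk (P.cons (P.cons (P.lf 104573641 0 0) (P.cons (P.lf 0 59197623 0) (P.cons (P.lf 754786 0 0) (P.cons (P.lf 2665813 0 0) (P.cons (P.lf 0 4920 0) (P.cons (P.lf 0 18522 0) P.nil)))))) (P.cons (P.cons (P.lf 0 444139 0) (P.cons (P.lf 14513988 0 0) (P.cons (P.lf 0 2203515 0) (P.cons (P.lf 0 1173438 0) (P.cons (P.lf 2391 0 0) P.nil))))) (P.cons (P.cons (P.lf 29481541 0 0) (P.cons (P.lf 0 8626266 0) (P.cons (P.lf 0 544761 0) (P.cons (P.lf 219835 0 0) P.nil)))) (P.cons (P.cons (P.lf 0 891057 0) (P.cons (P.lf 2060713 0 0) (P.cons (P.lf 305376 0 0) P.nil))) (P.cons (P.cons (P.lf 1691178 0 0) (P.cons (P.lf 32925 0 0) P.nil)) (P.cons (P.cons (P.lf 0 89137 0) P.nil) P.nil)))))) 281051)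
 (EL.cons 2 (TM.mk (P.cons (P.cons (P.lf 0 150630575 0) (P.cons (P.lf 0 366727 0) (P.cons (P.lf 20877890 0 0) (P.cons (P.lf 507650 0 0) (P.cons (P.lf 0 293900 0) (P.cons (P.lf 2981 0 0) P.nil)))))) (P.cons (P.cons (P.lf 91603 0 0) (P.cons (P.lf 0 10271857 0) (P.cons (P.lf 0 4267890 0) (P.cons (P.lf 0 70396 0) (P.cons (P.lf 68377 0 0) P.nil))))) (P.cons (P.cons (P.lf 0 15230863 0) (P.cons (P.lf 0 5881398 0) (P.cons (P.lf 0 309948 0) (P.cons (P.lf 11452 0 0) P.nil)))) (P.cons (P.cons (P.lf 175151 0 0) (P.cons (P.lf 715533 0 0) (P.cons (P.lf 271951 0 0) P.nil))) (P.cons (P.cons (P.lf 1072417 0 0) (P.cons (P.lf 278010 0 0) P.nil)) (P.cons (P.cons (P.lf 0 89437 0) P.nil) P.nil)))))) 262962)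
 (EL.cons 6 (TM.mk (P.cons (P.cons (P.lf 127615452 0 0) (P.cons (P.lf 310698 0 0) (P.cons (P.lf 0 17687916 0) (P.cons (P.lf 0 430080 0) (P.cons (P.lf 248994 0 0) (P.cons (P.lf 0 2526 0) P.nil)))))) (P.cons (P.cons (P.lf 0 31288572 0) (P.cons (P.lf 8626416 0 0) (P.cons (P.lf 7941732 0 0) (P.cons (P.lf 164826 0 0) (P.cons (P.lf 0 118824 0) P.nil))))) (P.cons (P.cons (P.lf 18596100 0 0) (P.cons (P.lf 2868228 0 0) (P.cons (P.lf 0 1408068 0) (P.cons (P.lf 0 43404 0) P.nil)))) (P.cons (P.cons (P.lf 0 4442388 0) (P.cons (P.lf 0 1440720 0) (P.cons (P.lf 23388 0 0) P.nil))) (P.cons (P.cons (P.lf 0 70974 0) (P.cons (P.lf 57420 0 0) P.nil)) (P.cons (P.cons (P.lf 131124 0 0) P.nil) P.nil)))))) 179250)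
 EL.nil))))))
noncomputable def S314_343_290_364_3 : EL := (EL.cons 0 (TM.mk (P.cons (P.lf 2000791209 0 0) (P.cons (P.lf 654467131 0 0) (P.cons (P.lf 15080835 0 0) (P.cons (P.lf 0 7271133 0) (P.cons (P.lf 199596 0 0) (P.cons (P.lf 35412 0 0) P.nil)))))) 3454)
 (EL.cons 1 (TM.mk (P.cons (P.lf 0 1695086628 0) (P.cons (P.lf 0 139901857 0) (P.cons (P.lf 47471786 0 0) (P.cons (P.lf 0 293435 0) (P.cons (P.lf 0 328029 0) (P.cons (P.lf 15684 0 0) P.nil)))))) 1940)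
 (EL.cons 5 (TM.mk (P.cons (P.lf 1436091214 0 0) (P.cons (P.lf 0 232699422 0) (P.cons (P.lf 0 5362070 0) (P.cons (P.lf 2585292 0 0) (P.cons (P.lf 0 70970 0) (P.cons (P.lf 0 12590 0) P.nil)))))) 1162)
 EL.nil)))
noncomputable def S314_343_290_364_4 : EL := (EL.cons 0 (TM.mk (P.cons (P.cons (P.lf 254910266 0 0) (P.cons (P.lf 0 72150503 0) (P.cons (P.lf 0 9290898 0) (P.lf 619391 0 0)))) (P.cons (P.cons (P.lf 82840886 0 0) (P.cons (P.lf 0 6064189 0) (P.cons (P.lf 0 780892 0) (P.lf 52057 0 0)))) (P.cons (P.cons (P.lf 37676047 0 0) (P.cons (P.lf 4886147 0 0) (P.cons (P.lf 629193 0 0) (P.lf 0 41944 0)))) (P.cons (P.cons (P.lf 9813243 0 0) (P.cons (P.lf 47438 0 0) (P.cons (P.lf 6110 0 0) P.nil))) (P.cons (P.cons (P.lf 0 505418 0) (P.cons (P.lf 0 135687 0) P.nil)) (P.cons (P.cons (P.lf 0 255891 0) P.nil) P.nil)))))) 81741)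
 (EL.cons 1 (TM.mk (P.cons (P.cons (P.lf 0 215962055 0) (P.cons (P.lf 61126494 0 0) (P.cons (P.lf 7871325 0 0) (P.lf 0 524752 0)))) (P.cons (P.cons (P.lf 0 17365545 0) (P.cons (P.lf 0 9812100 0) (P.cons (P.lf 0 1263513 0) (P.lf 84232 0 0)))) (P.cons (P.cons (P.lf 0 24355687 0) (P.cons (P.lf 0 2678593 0) (P.cons (P.lf 0 344923 0) (P.lf 22993 0 0)))) (P.cons (P.cons (P.lf 0 1707247 0) (P.cons (P.lf 657131 0 0) (P.cons (P.lf 84616 0 0) P.nil))) (P.cons (P.cons (P.lf 1282462 0 0) (P.cons (P.lf 3768 0 0) P.nil)) (P.cons (P.cons (P.lf 0 21727 0) P.nil) P.nil)))))) 64622)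
 (EL.cons 5 (TM.mk (P.cons (P.cons (P.lf 182964814 0 0) (P.cons (P.lf 0 51786864 0) (P.cons (P.lf 0 6668650 0) (P.lf 444574 0 0)))) (P.cons (P.cons (P.lf 0 30035546 0) (P.cons (P.lf 20978424 0 0) (P.cons (P.lf 2701414 0 0) (P.lf 0 180092 0)))) (P.cons (P.cons (P.lf 25170234 0 0) (P.cons (P.lf 0 2066050 0) (P.cons (P.lf 0 266046 0) (P.lf 17736 0 0)))) (P.cons (P.cons (P.lf 0 4572906 0) (P.cons (P.lf 0 281712 0) (P.cons (P.lf 0 36274 0) P.nil))) (P.cons (P.cons (P.lf 0 328364 0) (P.cons (P.lf 67846 0 0) P.nil)) (P.cons (P.cons (P.lf 126060 0 0) P.nil) P.nil)))))) 43660)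
 EL.nil)))
noncomputable def S314_343_290_364_5 : EL := (EL.cons 0 (TM.mk (P.cons (P.cons (P.lf 32476772 0 0) (P.cons (P.lf 0 18384630 0) (P.cons (P.lf 234407 0 0) (P.cons (P.lf 827903 0 0) (P.cons (P.lf 0 1527 0) (P.cons (P.lf 0 5751 0) P.nil)))))) (P.cons (P.cons (P.lf 10485353 0 0) (P.cons (P.lf 0 1506171 0) (P.cons (P.lf 0 607654 0) (P.cons (P.lf 0 93615 0) (P.cons (P.lf 242 0 0) P.nil))))) (P.cons (P.cons (P.lf 9355568 0 0) (P.cons (P.lf 0 1343149 0) (P.cons (P.lf 0 391262 0) (P.cons (P.lf 0 44692 0) P.nil)))) (P.cons (P.cons (P.lf 2599136 0 0) (P.cons (P.lf 0 135543 0) (P.cons (P.lf 33488 0 0) P.nil))) (P.cons (P.cons (P.lf 507450 0 0) (P.cons (P.lf 181158 0 0) P.nil)) (P.cons (P.cons (P.lf 109318 0 0) P.nil) P.nil)))))) 225132)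
 (EL.cons 1 (TM.mk (P.cons (P.cons (P.lf 0 27514586 0) (P.cons (P.lf 15575608 0 0) (P.cons (P.lf 0 198592 0) (P.cons (P.lf 0 701407 0) (P.cons (P.lf 1293 0 0) (P.cons (P.lf 4871 0 0) P.nil)))))) (P.cons (P.cons (P.lf 0 2154022 0) (P.cons (P.lf 0 2533290 0) (P.cons (P.lf 563379 0 0) (P.cons (P.lf 250854 0 0) (P.cons (P.lf 0 521 0) P.nil))))) (P.cons (P.cons (P.lf 0 6976741 0) (P.cons (P.lf 1518290 0 0) (P.cons (P.lf 196743 0 0) (P.cons (P.lf 0 12714 0) P.nil)))) (P.cons (P.cons (P.lf 0 413797 0) (P.cons (P.lf 0 245229 0) (P.cons (P.lf 0 84789 0) P.nil))) (P.cons (P.cons (P.lf 0 213684 0) (P.cons (P.lf 0 114622 0) P.nil)) (P.cons (P.cons (P.lf 0 20902 0) P.nil) P.nil)))))) 172207)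
 (EL.cons 5 (TM.mk (P.cons (P.cons (P.lf 23310582 0 0) (P.cons (P.lf 0 13195782 0) (P.cons (P.lf 168248 0 0) (P.cons (P.lf 594236 0 0) (P.cons (P.lf 0 1096 0) (P.cons (P.lf 0 4128 0) P.nil)))))) (P.cons (P.cons (P.lf 0 3876172 0) (P.cons (P.lf 5373522 0 0) (P.cons (P.lf 0 518448 0) (P.cons (P.lf 0 357858 0) (P.cons (P.lf 710 0 0) P.nil))))) (P.cons (P.cons (P.lf 6500754 0 0) (P.cons (P.lf 0 2397856 0) (P.cons (P.lf 0 42470 0) (P.cons (P.lf 89168 0 0) P.nil)))) (P.cons (P.cons (P.lf 0 1221154 0) (P.cons (P.lf 735096 0 0) (P.cons (P.lf 89884 0 0) P.nil))) (P.cons (P.cons (P.lf 383298 0 0) (P.cons (P.lf 0 53436 0) P.nil)) (P.cons (P.cons (P.lf 0 68580 0) P.nil) P.nil)))))) 125656)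
 EL.nil)))
noncomputable def S314_343_290_364_6 : EL := (EL.cons 12 (TM.mk (P.lf 8589934592 0 0) 0)
 (EL.cons 3 (TM.mk (P.cons (P.lf 2072840178 0 0) (P.cons (P.lf 339017325 0 0) (P.cons (P.lf 0 19911543 0) (P.cons (P.lf 0 509910 0) (P.cons (P.lf 91155 0 0) (P.cons (P.lf 0 1462 0) P.nil)))))) 487)
 (EL.cons 7 (TM.mk (P.cons (P.lf 0 1756127103 0) (P.cons (P.lf 142278485 0 0) (P.cons (P.lf 9042093 0 0) (P.cons (P.lf 0 848140 0) (P.cons (P.lf 0 2043 0) (P.cons (P.lf 3166 0 0) P.nil)))))) 195)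
 EL.nil)))
noncomputable def S314_343_290_364_7 : EL := (EL.cons 12 (TM.mk (P.cons (P.cons (P.lf 1094398314 0 0) (P.cons (P.lf 0 309761512 0) (P.cons (P.lf 0 39888328 0) (P.lf 2659216 0 0)))) (P.cons (P.cons (P.lf 0 2324040 0) (P.cons (P.lf 75289080 0 0) (P.cons (P.lf 9695056 0 0) (P.lf 0 646336 0)))) (P.cons (P.cons (P.lf 154264654 0 0) (P.cons (P.lf 0 1315016 0) (P.cons (P.lf 0 169336 0) (P.lf 11288 0 0)))) (P.cons (P.cons (P.lf 0 4335016 0) (P.cons (P.lf 0 1059384 0) (P.cons (P.lf 0 136408 0) P.nil))) (P.cons (P.cons (P.lf 0 2032282 0) (P.cons (P.lf 78408 0 0) P.nil)) (P.cons (P.cons (P.lf 140308 0 0) P.nil) P.nil)))))) 56018)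
 (EL.cons 3 (TM.mk (P.cons (P.cons (P.lf 257167542 0 0) (P.cons (P.lf 149497320 0 0) (P.cons (P.lf 19250932 0 0) (P.lf 0 1283392 0)))) (P.cons (P.cons (P.lf 961884215 0 0) (P.cons (P.lf 0 11885470 0) (P.cons (P.lf 0 1530504 0) (P.lf 102030 0 0)))) (P.cons (P.cons (P.lf 0 45064890 0) (P.cons (P.lf 0 6744244 0) (P.cons (P.lf 0 868462 0) (P.lf 57896 0 0)))) (P.cons (P.cons (P.lf 0 21599156 0) (P.cons (P.lf 927344 0 0) (P.cons (P.lf 119408 0 0) P.nil))) (P.cons (P.cons (P.lf 2334024 0 0) (P.cons (P.lf 55194 0 0) P.nil)) (P.cons (P.cons (P.lf 147996 0 0) P.nil) P.nil)))))) 184989)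
 (EL.cons 7 (TM.mk (P.cons (P.cons (P.lf 0 226643970 0) (P.cons (P.lf 157439034 0 0) (P.cons (P.lf 20273603 0 0) (P.lf 0 1351574 0)))) (P.cons (P.cons (P.lf 403682706 0 0) (P.cons (P.lf 0 4988086 0) (P.cons (P.lf 0 642323 0) (P.lf 42823 0 0)))) (P.cons (P.cons (P.lf 30451627 0 0) (P.cons (P.lf 0 3440385 0) (P.cons (P.lf 0 443021 0) (P.lf 29533 0 0)))) (P.cons (P.cons (P.lf 0 10081845 0) (P.cons (P.lf 0 97838 0) (P.cons (P.lf 0 12596 0) P.nil))) (P.cons (P.cons (P.lf 0 649308 0) (P.cons (P.lf 70605 0 0) P.nil)) (P.cons (P.cons (P.lf 168719 0 0) P.nil) P.nil)))))) 114989)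
 (EL.cons 10 (TM.mk (P.cons (P.cons (P.lf 0 1224874602 0) (P.cons (P.lf 0 349674018 0) (P.cons (P.lf 26155053 0 0) (P.cons (P.lf 1762467 0 0) (P.lf 0 88122 0))))) (P.cons (P.cons (P.lf 198474588 0 0) (P.cons (P.lf 56660007 0 0) (P.cons (P.lf 0 4238076 0) (P.cons (P.lf 0 285582 0) (P.lf 14277 0 0))))) (P.cons (P.cons (P.lf 4573428 0 0) (P.cons (P.lf 1305609 0 0) (P.cons (P.lf 0 97656 0) (P.cons (P.lf 0 6579 0) P.nil)))) (P.cons (P.cons (P.lf 0 2205051 0) (P.cons (P.lf 0 629493 0) (P.cons (P.lf 47085 0 0) P.nil))) (P.cons (P.cons (P.lf 60531 0 0) (P.cons (P.lf 17280 0 0) P.nil)) (P.cons (P.cons (P.lf 10737 0 0) P.nil) P.nil)))))) 9759)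
 EL.nil))))
noncomputable def S314_343_290_364_8 : EL := (EL.cons 12 (TM.mk (P.cons (P.cons (P.lf 139431522 0 0) (P.cons (P.lf 0 78930164 0) (P.cons (P.lf 1006382 0 0) (P.cons (P.lf 3554418 0 0) (P.cons (P.lf 0 6560 0) (P.cons (P.lf 0 24696 0) P.nil)))))) (P.cons (P.cons (P.lf 0 592186 0) (P.cons (P.lf 19351984 0 0) (P.cons (P.lf 0 2938020 0) (P.cons (P.lf 0 1564584 0) (P.cons (P.lf 3188 0 0) P.nil))))) (P.cons (P.cons (P.lf 39308722 0 0) (P.cons (P.lf 0 11501688 0) (P.cons (P.lf 0 726348 0) (P.cons (P.lf 293114 0 0) P.nil)))) (P.cons (P.cons (P.lf 0 1188076 0) (P.cons (P.lf 2747618 0 0) (P.cons (P.lf 407168 0 0) P.nil))) (P.cons (P.cons (P.lf 2254904 0 0) (P.cons (P.lf 43900 0 0) P.nil)) (P.cons (P.cons (P.lf 0 118850 0) P.nil) P.nil)))))) 374706)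
 (EL.cons 3 (TM.mk (P.cons (P.cons (P.lf 31882455 0 0) (P.cons (P.lf 38592563 0 0) (P.cons (P.lf 0 8507940 0) (P.cons (P.lf 0 3802345 0) (P.cons (P.lf 7916 0 0) (P.cons (P.lf 29796 0 0) P.nil)))))) (P.cons (P.cons (P.lf 239598024 0 0) (P.cons (P.lf 0 69529077 0) (P.cons (P.lf 0 4606041 0) (P.cons (P.lf 1716494 0 0) (P.cons (P.lf 0 2550 0) P.nil))))) (P.cons (P.cons (P.lf 0 11905645 0) (P.cons (P.lf 25519144 0 0) (P.cons (P.lf 3576486 0 0) (P.cons (P.lf 0 144296 0) P.nil)))) (P.cons (P.cons (P.lf 27551872 0 0) (P.cons (P.lf 0 96898 0) (P.cons (P.lf 0 285403 0) P.nil))) (P.cons (P.cons (P.lf 0 2512376 0) (P.cons (P.lf 0 1196843 0) P.nil)) (P.cons (P.cons (P.lf 0 1201300 0) P.nil) P.nil)))))) 1167808)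
 (EL.cons 7 (TM.mk (P.cons (P.cons (P.lf 0 29245632 0) (P.cons (P.lf 40326474 0 0) (P.cons (P.lf 0 3878266 0) (P.cons (P.lf 0 2682395 0) (P.cons (P.lf 5325 0 0) (P.cons (P.lf 20054 0 0) P.nil)))))) (P.cons (P.cons (P.lf 100554286 0 0) (P.cons (P.lf 0 29179901 0) (P.cons (P.lf 0 1933060 0) (P.cons (P.lf 720376 0 0) (P.cons (P.lf 0 1066 0) P.nil))))) (P.cons (P.cons (P.lf 7299746 0 0) (P.cons (P.lf 7141577 0 0) (P.cons (P.lf 1264590 0 0) (P.cons (P.lf 27529 0 0) P.nil)))) (P.cons (P.cons (P.lf 11263029 0 0) (P.cons (P.lf 1556162 0 0) (P.cons (P.lf 115052 0 0) P.nil))) (P.cons (P.cons (P.lf 1072816 0 0) (P.cons (P.lf 0 440455 0) P.nil)) (P.cons (P.cons (P.lf 0 604490 0) P.nil) P.nil)))))) 609143)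
 (EL.cons 10 (TM.mk (P.cons (P.cons (P.lf 0 312109638 0) (P.cons (P.lf 0 759876 0) (P.cons (P.lf 43259418 0 0) (P.cons (P.lf 1051860 0 0) (P.cons (P.lf 0 608970 0) (P.cons (P.lf 6180 0 0) P.nil)))))) (P.cons (P.cons (P.lf 51235992 0 0) (P.cons (P.lf 0 21159228 0) (P.cons (P.lf 0 15918324 0) (P.cons (P.lf 0 317898 0) (P.cons (P.lf 241278 0 0) P.nil))))) (P.cons (P.cons (P.lf 0 42936522 0) (P.cons (P.lf 0 8733042 0) (P.cons (P.lf 2376792 0 0) (P.cons (P.lf 85824 0 0) P.nil)))) (P.cons (P.cons (P.lf 7800672 0 0) (P.cons (P.lf 2707470 0 0) (P.cons (P.lf 32496 0 0) P.nil))) (P.cons (P.cons (P.lf 560136 0 0) (P.cons (P.lf 44166 0 0) P.nil)) (P.cons (P.cons (P.lf 0 215040 0) P.nil) P.nil)))))) 303822)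
 EL.nil))))
noncomputable def S314_343_290_364_9 : EL := (EL.cons 3 (TM.mk (P.cons (P.lf 2072840178 0 0) (P.cons (P.lf 339017325 0 0) (P.cons (P.lf 0 19911543 0) (P.cons (P.lf 0 509910 0) (P.cons (P.lf 91155 0 0) (P.cons (P.lf 0 1462 0) P.nil)))))) 487)
 (EL.cons 7 (TM.mk (P.cons (P.lf 0 1756127103 0) (P.cons (P.lf 142278485 0 0) (P.cons (P.lf 9042093 0 0) (P.cons (P.lf 0 848140 0) (P.cons (P.lf 0 2043 0) (P.cons (P.lf 3166 0 0) P.nil)))))) 195)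
 EL.nil))
noncomputable def S314_343_290_364_10 : EL := (EL.cons 3 (TM.mk (P.cons (P.cons (P.lf 264089646 0 0) (P.cons (P.lf 0 74748660 0) (P.cons (P.lf 0 9625466 0) (P.lf 641696 0 0)))) (P.cons (P.cons (P.lf 42631595 0 0) (P.cons (P.lf 5942735 0 0) (P.cons (P.lf 765252 0 0) (P.lf 0 51015 0)))) (P.cons (P.cons (P.lf 34597110 0 0) (P.cons (P.lf 3372122 0 0) (P.cons (P.lf 434231 0 0) (P.lf 0 28948 0)))) (P.cons (P.cons (P.lf 4982671 0 0) (P.cons (P.lf 0 463672 0) (P.cons (P.lf 0 59704 0) P.nil))) (P.cons (P.cons (P.lf 0 1007334 0) (P.cons (P.lf 0 27597 0) P.nil)) (P.cons (P.cons (P.lf 0 45669 0) P.nil) P.nil)))))) 44882)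
 (EL.cons 7 (TM.mk (P.cons (P.cons (P.lf 0 223738902 0) (P.cons (P.lf 63327675 0 0) (P.cons (P.lf 8154773 0 0) (P.lf 0 543650 0)))) (P.cons (P.cons (P.lf 18602079 0 0) (P.cons (P.lf 0 20522809 0) (P.cons (P.lf 0 2642744 0) (P.lf 176182 0 0)))) (P.cons (P.cons (P.lf 0 30424370 0) (P.cons (P.lf 1189818 0 0) (P.cons (P.lf 153214 0 0) (P.lf 0 10214 0)))) (P.cons (P.cons (P.lf 3330894 0 0) (P.cons (P.lf 304636 0 0) (P.cons (P.lf 39226 0 0) P.nil))) (P.cons (P.cons (P.lf 506031 0 0) (P.cons (P.lf 0 42321 0) P.nil)) (P.cons (P.cons (P.lf 0 81736 0) P.nil) P.nil)))))) 25561)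
 EL.nil))
noncomputable def S314_343_290_364_11 : EL := (EL.cons 3 (TM.mk (P.cons (P.cons (P.lf 33646269 0 0) (P.cons (P.lf 0 19046665 0) (P.cons (P.lf 242850 0 0) (P.cons (P.lf 857717 0 0) (P.cons (P.lf 0 1582 0) (P.cons (P.lf 0 5958 0) P.nil)))))) (P.cons (P.cons (P.lf 5360016 0 0) (P.cons (P.lf 1554711 0 0) (P.cons (P.lf 0 669255 0) (P.cons (P.lf 0 237268 0) (P.cons (P.lf 510 0 0) P.nil))))) (P.cons (P.cons (P.lf 9139025 0 0) (P.cons (P.lf 0 1828754 0) (P.cons (P.lf 0 293562 0) (P.cons (P.lf 742 0 0) P.nil)))) (P.cons (P.cons (P.lf 1257790 0 0) (P.cons (P.lf 168920 0 0) (P.cons (P.lf 76337 0 0) P.nil))) (P.cons (P.cons (P.lf 407638 0 0) (P.cons (P.lf 143707 0 0) P.nil)) (P.cons (P.cons (P.lf 60704 0 0) P.nil) P.nil)))))) 162888)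
 (EL.cons 7 (TM.mk (P.cons (P.cons (P.lf 0 28505394 0) (P.cons (P.lf 16136490 0 0) (P.cons (P.lf 0 205744 0) (P.cons (P.lf 0 726665 0) (P.cons (P.lf 1341 0 0) (P.cons (P.lf 5048 0 0) P.nil)))))) (P.cons (P.cons (P.lf 2430526 0 0) (P.cons (P.lf 0 5263673 0) (P.cons (P.lf 617318 0 0) (P.cons (P.lf 378736 0 0) (P.cons (P.lf 0 760 0) P.nil))))) (P.cons (P.cons (P.lf 0 7899316 0) (P.cons (P.lf 2588855 0 0) (P.cons (P.lf 100890 0 0) (P.cons (P.lf 0 82097 0) P.nil)))) (P.cons (P.cons (P.lf 879585 0 0) (P.cons (P.lf 0 724066 0) (P.cons (P.lf 0 98464 0) P.nil))) (P.cons (P.cons (P.lf 0 439268 0) (P.cons (P.lf 22535 0 0) P.nil)) (P.cons (P.cons (P.lf 56566 0 0) P.nil) P.nil)))))) 109435)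
 EL.nil))
noncomputable def S314_343_290_364_12 : EL := (EL.cons 4 (TM.mk (P.cons (P.lf 0 2072840178 0) (P.cons (P.lf 0 339017325 0) (P.cons (P.lf 19911543 0 0) (P.cons (P.lf 509910 0 0) (P.cons (P.lf 0 91155 0) (P.cons (P.lf 1462 0 0) P.nil)))))) 487)
 (EL.cons 8 (TM.mk (P.cons (P.lf 1756127103 0 0) (P.cons (P.lf 0 142278485 0) (P.cons (P.lf 0 9042093 0) (P.cons (P.lf 848140 0 0) (P.cons (P.lf 2043 0 0) (P.cons (P.lf 0 3166 0) P.nil)))))) 195)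
 EL.nil))
noncomputable def S314_343_290_364_13 : EL := (EL.cons 4 (TM.mk (P.cons (P.cons (P.lf 0 264089646 0) (P.cons (P.lf 74748660 0 0) (P.cons (P.lf 9625466 0 0) (P.lf 0 641696 0)))) (P.cons (P.cons (P.lf 0 42631595 0) (P.cons (P.lf 0 5942735 0) (P.cons (P.lf 0 765252 0) (P.lf 51015 0 0)))) (P.cons (P.cons (P.lf 0 34597110 0) (P.cons (P.lf 0 3372122 0) (P.cons (P.lf 0 434231 0) (P.lf 28948 0 0)))) (P.cons (P.cons (P.lf 0 4982671 0) (P.cons (P.lf 463672 0 0) (P.cons (P.lf 59704 0 0) P.nil))) (P.cons (P.cons (P.lf 1007334 0 0) (P.cons (P.lf 27597 0 0) P.nil)) (P.cons (P.cons (P.lf 45669 0 0) P.nil) P.nil)))))) 44882)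
 (EL.cons 8 (TM.mk (P.cons (P.cons (P.lf 223738902 0 0) (P.cons (P.lf 0 63327675 0) (P.cons (P.lf 0 8154773 0) (P.lf 543650 0 0)))) (P.cons (P.cons (P.lf 0 18602079 0) (P.cons (P.lf 20522809 0 0) (P.cons (P.lf 2642744 0 0) (P.lf 0 176182 0)))) (P.cons (P.cons (P.lf 30424370 0 0) (P.cons (P.lf 0 1189818 0) (P.cons (P.lf 0 153214 0) (P.lf 10214 0 0)))) (P.cons (P.cons (P.lf 0 3330894 0) (P.cons (P.lf 0 304636 0) (P.cons (P.lf 0 39226 0) P.nil))) (P.cons (P.cons (P.lf 0 506031 0) (P.cons (P.lf 42321 0 0) P.nil)) (P.cons (P.cons (P.lf 81736 0 0) P.nil) P.nil)))))) 25561)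
 EL.nil))
noncomputable def S314_343_290_364_14 : EL := (EL.cons 4 (TM.mk (P.cons (P.cons (P.lf 0 33646269 0) (P.cons (P.lf 19046665 0 0) (P.cons (P.lf 0 242850 0) (P.cons (P.lf 0 857717 0) (P.cons (P.lf 1582 0 0) (P.cons (P.lf 5958 0 0) P.nil)))))) (P.cons (P.cons (P.lf 0 5360016 0) (P.cons (P.lf 0 1554711 0) (P.cons (P.lf 669255 0 0) (P.cons (P.lf 237268 0 0) (P.cons (P.lf 0 510 0) P.nil))))) (P.cons (P.cons (P.lf 0 9139025 0) (P.cons (P.lf 1828754 0 0) (P.cons (P.lf 293562 0 0) (P.cons (P.lf 0 742 0) P.nil)))) (P.cons (P.cons (P.lf 0 1257790 0) (P.cons (P.lf 0 168920 0) (P.cons (P.lf 0 76337 0) P.nil))) (P.cons (P.cons (P.lf 0 407638 0) (P.cons (P.lf 0 143707 0) P.nil)) (P.cons (P.cons (P.lf 0 60704 0) P.nil) P.nil)))))) 162888)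
 (EL.cons 8 (TM.mk (P.cons (P.cons (P.lf 28505394 0 0) (P.cons (P.lf 0 16136490 0) (P.cons (P.lf 205744 0 0) (P.cons (P.lf 726665 0 0) (P.cons (P.lf 0 1341 0) (P.cons (P.lf 0 5048 0) P.nil)))))) (P.cons (P.cons (P.lf 0 2430526 0) (P.cons (P.lf 5263673 0 0) (P.cons (P.lf 0 617318 0) (P.cons (P.lf 0 378736 0) (P.cons (P.lf 760 0 0) P.nil))))) (P.cons (P.cons (P.lf 7899316 0 0) (P.cons (P.lf 0 2588855 0) (P.cons (P.lf 0 100890 0) (P.cons (P.lf 82097 0 0) P.nil)))) (P.cons (P.cons (P.lf 0 879585 0) (P.cons (P.lf 724066 0 0) (P.cons (P.lf 98464 0 0) P.nil))) (P.cons (P.cons (P.lf 439268 0 0) (P.cons (P.lf 0 22535 0) P.nil)) (P.cons (P.cons (P.lf 0 56566 0) P.nil) P.nil)))))) 109435)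
 EL.nil))
noncomputable def S314_343_290_364_15 : EL := (EL.cons 4 (TM.mk (P.cons (P.lf 0 1067088645 0) (P.cons (P.lf 0 349049136 0) (P.cons (P.lf 0 8043112 0) (P.cons (P.lf 3877937 0 0) (P.cons (P.lf 0 106451 0) (P.cons (P.lf 0 18886 0) P.nil)))))) 1845)
 (EL.cons 8 (TM.mk (P.cons (P.lf 904046202 0 0) (P.cons (P.lf 74614324 0 0) (P.cons (P.lf 0 25318286 0) (P.cons (P.lf 156499 0 0) (P.cons (P.lf 174949 0 0) (P.cons (P.lf 0 8365 0) P.nil)))))) 1031)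
 EL.nil))
noncomputable def S314_343_290_364_16 : EL := (EL.cons 4 (TM.mk (P.cons (P.cons (P.lf 0 135952141 0) (P.cons (P.lf 38480268 0 0) (P.cons (P.lf 4955145 0 0) (P.lf 0 330342 0)))) (P.cons (P.cons (P.lf 0 44181806 0) (P.cons (P.lf 3234234 0 0) (P.cons (P.lf 416475 0 0) (P.lf 0 27764 0)))) (P.cons (P.cons (P.lf 0 20093892 0) (P.cons (P.lf 0 2605945 0) (P.cons (P.lf 0 335569 0) (P.lf 22370 0 0)))) (P.cons (P.cons (P.lf 0 5233729 0) (P.cons (P.lf 0 25300 0) (P.cons (P.lf 0 3258 0) P.nil))) (P.cons (P.cons (P.lf 269556 0 0) (P.cons (P.lf 72366 0 0) P.nil)) (P.cons (P.cons (P.lf 136475 0 0) P.nil) P.nil)))))) 43604)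
 (EL.cons 8 (TM.mk (P.cons (P.cons (P.lf 115179763 0 0) (P.cons (P.lf 0 32600797 0) (P.cons (P.lf 0 4198040 0) (P.lf 279868 0 0)))) (P.cons (P.cons (P.lf 9261624 0 0) (P.cons (P.lf 5233120 0 0) (P.cons (P.lf 673874 0 0) (P.lf 0 44924 0)))) (P.cons (P.cons (P.lf 12989700 0 0) (P.cons (P.lf 1428583 0 0) (P.cons (P.lf 183959 0 0) (P.lf 0 12263 0)))) (P.cons (P.cons (P.lf 910532 0 0) (P.cons (P.lf 0 350470 0) (P.cons (P.lf 0 45129 0) P.nil))) (P.cons (P.cons (P.lf 0 683980 0) (P.cons (P.lf 0 2010 0) P.nil)) (P.cons (P.cons (P.lf 11588 0 0) P.nil) P.nil)))))) 34455)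
 EL.nil))
noncomputable def S314_343_290_364_17 : EL := (EL.cons 4 (TM.mk (P.cons (P.cons (P.lf 0 17320945 0) (P.cons (P.lf 9805136 0 0) (P.cons (P.lf 0 125017 0) (P.cons (P.lf 0 441548 0) (P.cons (P.lf 814 0 0) (P.cons (P.lf 3067 0 0) P.nil)))))) (P.cons (P.cons (P.lf 0 5592188 0) (P.cons (P.lf 803291 0 0) (P.cons (P.lf 324082 0 0) (P.cons (P.lf 49928 0 0) (P.cons (P.lf 0 129 0) P.nil))))) (P.cons (P.cons (P.lf 0 4989636 0) (P.cons (P.lf 716346 0 0) (P.cons (P.lf 208673 0 0) (P.cons (P.lf 23835 0 0) P.nil)))) (P.cons (P.cons (P.lf 0 1386206 0) (P.cons (P.lf 72289 0 0) (P.cons (P.lf 0 17860 0) P.nil))) (P.cons (P.cons (P.lf 0 270640 0) (P.cons (P.lf 0 96617 0) P.nil)) (P.cons (P.cons (P.lf 0 58303 0) P.nil) P.nil)))))) 120081)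
 (EL.cons 8 (TM.mk (P.cons (P.cons (P.lf 14674446 0 0) (P.cons (P.lf 0 8306991 0) (P.cons (P.lf 105916 0 0) (P.cons (P.lf 374084 0 0) (P.cons (P.lf 0 690 0) (P.cons (P.lf 0 2598 0) P.nil)))))) (P.cons (P.cons (P.lf 1148812 0 0) (P.cons (P.lf 1351088 0 0) (P.cons (P.lf 0 300469 0) (P.cons (P.lf 0 133789 0) (P.cons (P.lf 278 0 0) P.nil))))) (P.cons (P.cons (P.lf 3720929 0 0) (P.cons (P.lf 0 809755 0) (P.cons (P.lf 0 104930 0) (P.cons (P.lf 6781 0 0) P.nil)))) (P.cons (P.cons (P.lf 220692 0 0) (P.cons (P.lf 130789 0 0) (P.cons (P.lf 45221 0 0) P.nil))) (P.cons (P.cons (P.lf 113965 0 0) (P.cons (P.lf 61132 0 0) P.nil)) (P.cons (P.cons (P.lf 11148 0 0) P.nil) P.nil)))))) 91832)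
 EL.nil))
noncomputable def S314_343_290_364_18 : EL := (EL.cons 4 (TM.mk (P.cons (P.lf 0 549332354 0) (P.cons (P.lf 0 269533349 0) (P.cons (P.lf 0 28252205 0) (P.cons (P.lf 3180359 0 0) (P.cons (P.lf 331524 0 0) (P.cons (P.lf 0 44357 0) P.nil)))))) 4415)
 (EL.cons 8 (TM.mk (P.cons (P.lf 465398850 0 0) (P.cons (P.lf 114528063 0 0) (P.cons (P.lf 0 11222106 0) (P.cons (P.lf 0 2534590 0) (P.cons (P.lf 239457 0 0) (P.cons (P.lf 14216 0 0) P.nil)))))) 3029)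
 EL.nil))
noncomputable def S314_343_290_364_19 : EL := (EL.cons 4 (TM.mk (P.cons (P.cons (P.lf 0 69987540 0) (P.cons (P.lf 19809465 0 0) (P.cons (P.lf 2550885 0 0) (P.lf 0 170057 0)))) (P.cons (P.cons (P.lf 0 34191199 0) (P.cons (P.lf 4904848 0 0) (P.cons (P.lf 631602 0 0) (P.lf 0 42105 0)))) (P.cons (P.cons (P.lf 0 13391874 0) (P.cons (P.lf 0 1259507 0) (P.cons (P.lf 0 162187 0) (P.lf 10812 0 0)))) (P.cons (P.cons (P.lf 0 4150423 0) (P.cons (P.lf 0 253300 0) (P.cons (P.lf 0 32618 0) P.nil))) (P.cons (P.cons (P.lf 0 200008 0) (P.cons (P.lf 48471 0 0) P.nil)) (P.cons (P.cons (P.lf 120427 0 0) P.nil) P.nil)))))) 54634)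
 (EL.cons 8 (TM.mk (P.cons (P.cons (P.lf 59294015 0 0) (P.cons (P.lf 0 16782741 0) (P.cons (P.lf 0 2161131 0) (P.lf 144075 0 0)))) (P.cons (P.cons (P.lf 14465501 0 0) (P.cons (P.lf 0 50865 0) (P.cons (P.lf 0 6550 0) (P.lf 436 0 0)))) (P.cons (P.cons (P.lf 6897254 0 0) (P.cons (P.lf 1337248 0 0) (P.cons (P.lf 172198 0 0) (P.lf 0 11479 0)))) (P.cons (P.cons (P.lf 1502031 0 0) (P.cons (P.lf 0 81889 0) (P.cons (P.lf 0 10544 0) P.nil))) (P.cons (P.cons (P.lf 0 338247 0) (P.cons (P.lf 0 39008 0) P.nil)) (P.cons (P.cons (P.lf 0 57602 0) P.nil) P.nil)))))) 33088)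
 EL.nil))
noncomputable def S314_343_290_364_20 : EL := (EL.cons 4 (TM.mk (P.cons (P.cons (P.lf 0 8916743 0) (P.cons (P.lf 5047638 0 0) (P.cons (P.lf 0 64358 0) (P.cons (P.lf 0 227307 0) (P.cons (P.lf 419 0 0) (P.cons (P.lf 1578 0 0) P.nil)))))) (P.cons (P.cons (P.lf 0 4337185 0) (P.cons (P.lf 1239082 0 0) (P.cons (P.lf 156310 0 0) (P.cons (P.lf 0 11473 0) (P.cons (P.lf 1 0 0) P.nil))))) (P.cons (P.cons (P.lf 0 2953827 0) (P.cons (P.lf 387917 0 0) (P.cons (P.lf 135329 0 0) (P.cons (P.lf 18657 0 0) P.nil)))) (P.cons (P.cons (P.lf 0 1103871 0) (P.cons (P.lf 92313 0 0) (P.cons (P.lf 6787 0 0) P.nil))) (P.cons (P.cons (P.lf 0 231046 0) (P.cons (P.lf 0 47073 0) P.nil)) (P.cons (P.cons (P.lf 0 45434 0) P.nil) P.nil)))))) 106555)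
 (EL.cons 8 (TM.mk (P.cons (P.cons (P.lf 7554337 0 0) (P.cons (P.lf 0 4276401 0) (P.cons (P.lf 54524 0 0) (P.cons (P.lf 192576 0 0) (P.cons (P.lf 0 355 0) (P.cons (P.lf 0 1337 0) P.nil)))))) (P.cons (P.cons (P.lf 1826930 0 0) (P.cons (P.lf 0 3879 0) (P.cons (P.lf 0 145762 0) (P.cons (P.lf 0 37377 0) (P.cons (P.lf 85 0 0) P.nil))))) (P.cons (P.cons (P.lf 1939676 0 0) (P.cons (P.lf 0 262023 0) (P.cons (P.lf 0 79839 0) (P.cons (P.lf 0 9623 0) P.nil)))) (P.cons (P.cons (P.lf 419358 0 0) (P.cons (P.lf 0 6477 0) (P.cons (P.lf 15917 0 0) P.nil))) (P.cons (P.cons (P.lf 59036 0 0) (P.cons (P.lf 46127 0 0) P.nil)) (P.cons (P.cons (P.lf 13792 0 0) P.nil) P.nil)))))) 66583)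
 EL.nil))
noncomputable def S314_343_290_364_21 : EL := (EL.cons 4 (TM.mk (P.cons (P.cons (P.lf 6922104 0 0) (P.cons (P.lf 0 224245980 0) (P.cons (P.lf 0 28876398 0) (P.lf 1925088 0 0)))) (P.cons (P.cons (P.lf 0 919252620 0) (P.cons (P.lf 17828205 0 0) (P.cons (P.lf 2295756 0 0) (P.lf 0 153045 0)))) (P.cons (P.cons (P.lf 79662000 0 0) (P.cons (P.lf 10116366 0 0) (P.cons (P.lf 1302693 0 0) (P.lf 0 86844 0)))) (P.cons (P.cons (P.lf 26581827 0 0) (P.cons (P.lf 0 1391016 0) (P.cons (P.lf 0 179112 0) P.nil))) (P.cons (P.cons (P.lf 0 3341358 0) (P.cons (P.lf 0 82791 0) P.nil)) (P.cons (P.cons (P.lf 0 193665 0) P.nil) P.nil)))))) 140088)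
 (EL.cons 8 (TM.mk (P.cons (P.cons (P.lf 2905068 0 0) (P.cons (P.lf 0 94111359 0) (P.cons (P.lf 0 12118830 0) (P.lf 807924 0 0)))) (P.cons (P.cons (P.lf 0 385080627 0) (P.cons (P.lf 0 15534723 0) (P.cons (P.lf 0 2000421 0) (P.lf 133359 0 0)))) (P.cons (P.cons (P.lf 0 60875997 0) (P.cons (P.lf 4630203 0 0) (P.cons (P.lf 596235 0 0) (P.lf 0 39747 0)))) (P.cons (P.cons (P.lf 13412739 0 0) (P.cons (P.lf 402474 0 0) (P.cons (P.lf 51822 0 0) P.nil))) (P.cons (P.cons (P.lf 1155339 0 0) (P.cons (P.lf 0 112926 0) P.nil)) (P.cons (P.cons (P.lf 0 250455 0) P.nil) P.nil)))))) 89409)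
 (EL.cons 11 (TM.mk (P.cons (P.cons (P.lf 1224874602 0 0) (P.cons (P.lf 349674018 0 0) (P.cons (P.lf 0 26155053 0) (P.cons (P.lf 0 1762467 0) (P.lf 88122 0 0))))) (P.cons (P.cons (P.lf 0 198474588 0) (P.cons (P.lf 0 56660007 0) (P.cons (P.lf 4238076 0 0) (P.cons (P.lf 285582 0 0) (P.lf 0 14277 0))))) (P.cons (P.cons (P.lf 0 4573428 0) (P.cons (P.lf 0 1305609 0) (P.cons (P.lf 97656 0 0) (P.cons (P.lf 6579 0 0) P.nil)))) (P.cons (P.cons (P.lf 2205051 0 0) (P.cons (P.lf 629493 0 0) (P.cons (P.lf 0 47085 0) P.nil))) (P.cons (P.cons (P.lf 0 60531 0) (P.cons (P.lf 0 17280 0) P.nil)) (P.cons (P.cons (P.lf 0 10737 0) P.nil) P.nil)))))) 9759)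
 EL.nil)))
noncomputable def S314_343_290_364_22 : EL := (EL.cons 4 (TM.mk (P.cons (P.cons (P.lf 881907 0 0) (P.cons (P.lf 0 28819614 0) (P.cons (P.lf 4375395 0 0) (P.cons (P.lf 2330031 0 0) (P.cons (P.lf 0 4749 0) (P.cons (P.lf 0 17877 0) P.nil)))))) (P.cons (P.cons (P.lf 0 117119004 0) (P.cons (P.lf 35541894 0 0) (P.cons (P.lf 1968393 0 0) (P.cons (P.lf 0 976881 0) (P.cons (P.lf 1530 0 0) P.nil))))) (P.cons (P.cons (P.lf 10522335 0 0) (P.cons (P.lf 0 13673949 0) (P.cons (P.lf 0 1935024 0) (P.cons (P.lf 72519 0 0) P.nil)))) (P.cons (P.cons (P.lf 0 13147041 0) (P.cons (P.lf 132909 0 0) (P.cons (P.lf 180870 0 0) P.nil))) (P.cons (P.cons (P.lf 1460007 0 0) (P.cons (P.lf 670275 0 0) P.nil)) (P.cons (P.cons (P.lf 631002 0 0) P.nil) P.nil)))))) 502449)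
 (EL.cons 8 (TM.mk (P.cons (P.cons (P.lf 370119 0 0) (P.cons (P.lf 0 12094992 0) (P.cons (P.lf 1836261 0 0) (P.cons (P.lf 977865 0 0) (P.cons (P.lf 0 1992 0) (P.cons (P.lf 0 7503 0) P.nil)))))) (P.cons (P.cons (P.lf 0 49061880 0) (P.cons (P.lf 11958114 0 0) (P.cons (P.lf 1275189 0 0) (P.cons (P.lf 0 170820 0) (P.cons (P.lf 153 0 0) P.nil))))) (P.cons (P.cons (P.lf 0 7599531 0) (P.cons (P.lf 0 2276361 0) (P.cons (P.lf 0 581850 0) (P.cons (P.lf 0 54813 0) P.nil)))) (P.cons (P.cons (P.lf 0 5191722 0) (P.cons (P.lf 0 1140114 0) (P.cons (P.lf 0 106758 0) P.nil))) (P.cons (P.cons (P.lf 0 756042 0) (P.cons (P.lf 231495 0 0) P.nil)) (P.cons (P.cons (P.lf 330528 0 0) P.nil) P.nil)))))) 249843)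
 (EL.cons 11 (TM.mk (P.cons (P.cons (P.lf 156054819 0 0) (P.cons (P.lf 379938 0 0) (P.cons (P.lf 0 21629709 0) (P.cons (P.lf 0 525930 0) (P.cons (P.lf 304485 0 0) (P.cons (P.lf 0 3090 0) P.nil)))))) (P.cons (P.cons (P.lf 0 25617996 0) (P.cons (P.lf 10579614 0 0) (P.cons (P.lf 7959162 0 0) (P.cons (P.lf 158949 0 0) (P.cons (P.lf 0 120639 0) P.nil))))) (P.cons (P.cons (P.lf 21468261 0 0) (P.cons (P.lf 4366521 0 0) (P.cons (P.lf 0 1188396 0) (P.cons (P.lf 0 42912 0) P.nil)))) (P.cons (P.cons (P.lf 0 3900336 0) (P.cons (P.lf 0 1353735 0) (P.cons (P.lf 0 16248 0) P.nil))) (P.cons (P.cons (P.lf 0 280068 0) (P.cons (P.lf 0 22083 0) P.nil)) (P.cons (P.cons (P.lf 107520 0 0) P.nil) P.nil)))))) 151911)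
 EL.nil)))
noncomputable def S314_343_290_364_23 : EL := (EL.cons 4 (TM.mk (P.cons (P.cons (P.lf 3563466 0 0) (P.cons (P.lf 0 115440804 0) (P.cons (P.lf 0 14865435 0) (P.lf 991026 0 0)))) (P.cons (P.cons (P.lf 0 472644231 0) (P.cons (P.lf 0 9702705 0) (P.cons (P.lf 0 1249428 0) (P.lf 83295 0 0)))) (P.cons (P.cons (P.lf 0 36421863 0) (P.cons (P.lf 7817835 0 0) (P.cons (P.lf 1006707 0 0) (P.lf 0 67110 0)))) (P.cons (P.cons (P.lf 24936318 0 0) (P.cons (P.lf 75903 0 0) (P.cons (P.lf 9777 0 0) P.nil))) (P.cons (P.cons (P.lf 240597 0 0) (P.cons (P.lf 0 217098 0) P.nil)) (P.cons (P.cons (P.lf 0 543375 0) P.nil) P.nil)))))) 174243)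
 (EL.cons 8 (TM.mk (P.cons (P.cons (P.lf 1495515 0 0) (P.cons (P.lf 0 48448095 0) (P.cons (P.lf 0 6238716 0) (P.lf 415914 0 0)))) (P.cons (P.cons (P.lf 0 197993151 0) (P.cons (P.lf 0 15920991 0) (P.cons (P.lf 0 2050161 0) (P.lf 136674 0 0)))) (P.cons (P.cons (P.lf 0 63775245 0) (P.cons (P.lf 1541034 0 0) (P.cons (P.lf 198438 0 0) (P.lf 0 13227 0)))) (P.cons (P.cons (P.lf 3683196 0 0) (P.cons (P.lf 685773 0 0) (P.cons (P.lf 88305 0 0) P.nil))) (P.cons (P.cons (P.lf 2073927 0 0) (P.cons (P.lf 0 47307 0) P.nil)) (P.cons (P.cons (P.lf 0 98994 0) P.nil) P.nil)))))) 111744)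
 (EL.cons 11 (TM.mk (P.cons (P.cons (P.lf 630559842 0 0) (P.cons (P.lf 180010584 0 0) (P.cons (P.lf 0 13464501 0) (P.cons (P.lf 0 907308 0) (P.lf 45363 0 0))))) (P.cons (P.cons (P.lf 955563 0 0) (P.cons (P.lf 272793 0 0) (P.cons (P.lf 0 20403 0) (P.cons (P.lf 0 1374 0) (P.lf 69 0 0))))) (P.cons (P.cons (P.lf 0 25122228 0) (P.cons (P.lf 0 7171827 0) (P.cons (P.lf 536439 0 0) (P.cons (P.lf 36147 0 0) P.nil)))) (P.cons (P.cons (P.lf 1576443 0 0) (P.cons (P.lf 450039 0 0) (P.cons (P.lf 0 33660 0) P.nil))) (P.cons (P.cons (P.lf 229974 0 0) (P.cons (P.lf 65652 0 0) P.nil)) (P.cons (P.cons (P.lf 0 25884 0) P.nil) P.nil)))))) 24297)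
 EL.nil)))
noncomputable def S314_343_290_364_24 : EL := (EL.cons 4 (TM.mk (P.cons (P.cons (P.lf 454002 0 0) (P.cons (P.lf 0 14836206 0) (P.cons (P.lf 2252433 0 0) (P.cons (P.lf 1199487 0 0) (P.cons (P.lf 0 2445 0) (P.cons (P.lf 0 9201 0) P.nil)))))) (P.cons (P.cons (P.lf 0 60218073 0) (P.cons (P.lf 15870312 0 0) (P.cons (P.lf 1381710 0 0) (P.cons (P.lf 0 306714 0) (P.cons (P.lf 387 0 0) P.nil))))) (P.cons (P.cons (P.lf 0 4448445 0) (P.cons (P.lf 0 3904290 0) (P.cons (P.lf 0 852048 0) (P.cons (P.lf 0 56439 0) P.nil)))) (P.cons (P.cons (P.lf 0 5303046 0) (P.cons (P.lf 0 1254975 0) (P.cons (P.lf 0 80094 0) P.nil))) (P.cons (P.cons (P.lf 0 392502 0) (P.cons (P.lf 418710 0 0) P.nil)) (P.cons (P.cons (P.lf 508791 0 0) P.nil) P.nil)))))) 382965)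
 (EL.cons 8 (TM.mk (P.cons (P.cons (P.lf 190533 0 0) (P.cons (P.lf 0 6226446 0) (P.cons (P.lf 945297 0 0) (P.cons (P.lf 503400 0 0) (P.cons (P.lf 0 1026 0) (P.cons (P.lf 0 3861 0) P.nil)))))) (P.cons (P.cons (P.lf 0 25225668 0) (P.cons (P.lf 5137632 0 0) (P.cons (P.lf 811065 0 0) (P.cons (P.lf 0 5604 0) (P.cons (P.lf 0 87 0) P.nil))))) (P.cons (P.cons (P.lf 0 8044842 0) (P.cons (P.lf 0 105225 0) (P.cons (P.lf 0 201249 0) (P.cons (P.lf 0 47436 0) P.nil)))) (P.cons (P.cons (P.lf 0 3069954 0) (P.cons (P.lf 0 836187 0) (P.cons (P.lf 0 110487 0) P.nil))) (P.cons (P.cons (P.lf 0 782526 0) (P.cons (P.lf 32649 0 0) P.nil)) (P.cons (P.cons (P.lf 132024 0 0) P.nil) P.nil)))))) 199416)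
 (EL.cons 11 (TM.mk (P.cons (P.cons (P.lf 80336307 0 0) (P.cons (P.lf 195588 0 0) (P.cons (P.lf 0 11134875 0) (P.cons (P.lf 0 270747 0) (P.cons (P.lf 156747 0 0) (P.cons (P.lf 0 1590 0) P.nil)))))) (P.cons (P.cons (P.lf 0 48855 0) (P.cons (P.lf 5478324 0 0) (P.cons (P.lf 2276208 0 0) (P.cons (P.lf 37545 0 0) (P.cons (P.lf 0 36468 0) P.nil))))) (P.cons (P.cons (P.lf 8123127 0 0) (P.cons (P.lf 3136746 0 0) (P.cons (P.lf 165306 0 0) (P.cons (P.lf 0 6108 0) P.nil)))) (P.cons (P.cons (P.lf 0 93414 0) (P.cons (P.lf 0 381618 0) (P.cons (P.lf 0 145041 0) P.nil))) (P.cons (P.cons (P.lf 0 571956 0) (P.cons (P.lf 0 148272 0) P.nil)) (P.cons (P.cons (P.lf 47700 0 0) P.nil) P.nil)))))) 140235)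
 EL.nil)))
noncomputable def S314_343_290_364_25 : EL := (EL.cons 4 (TM.mk (P.cons (P.cons (P.lf 1834455 0 0) (P.cons (P.lf 0 59428398 0) (P.cons (P.lf 0 7652658 0) (P.lf 510174 0 0)))) (P.cons (P.cons (P.lf 0 243015060 0) (P.cons (P.lf 0 14714544 0) (P.cons (P.lf 0 1894806 0) (P.lf 126321 0 0)))) (P.cons (P.cons (P.lf 0 58562118 0) (P.cons (P.lf 3778521 0 0) (P.cons (P.lf 486561 0 0) (P.lf 0 32436 0)))) (P.cons (P.cons (P.lf 12107346 0 0) (P.cons (P.lf 759903 0 0) (P.cons (P.lf 97854 0 0) P.nil))) (P.cons (P.cons (P.lf 2463435 0 0) (P.cons (P.lf 0 145413 0) P.nil)) (P.cons (P.cons (P.lf 0 388869 0) P.nil) P.nil)))))) 167484)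
 (EL.cons 8 (TM.mk (P.cons (P.cons (P.lf 769884 0 0) (P.cons (P.lf 0 24940857 0) (P.cons (P.lf 0 3211662 0) (P.lf 214110 0 0)))) (P.cons (P.cons (P.lf 0 101800050 0) (P.cons (P.lf 0 12275181 0) (P.cons (P.lf 0 1580688 0) (P.lf 105378 0 0)))) (P.cons (P.cons (P.lf 0 49508805 0) (P.cons (P.lf 0 307581 0) (P.cons (P.lf 0 39606 0) (P.lf 2640 0 0)))) (P.cons (P.cons (P.lf 0 2494614 0) (P.cons (P.lf 567648 0 0) (P.cons (P.lf 73095 0 0) P.nil))) (P.cons (P.cons (P.lf 1718238 0 0) (P.cons (P.lf 26682 0 0) P.nil)) (P.cons (P.cons (P.lf 109032 0 0) P.nil) P.nil)))))) 105417)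
 (EL.cons 11 (TM.mk (P.cons (P.cons (P.lf 324609324 0 0) (P.cons (P.lf 92668626 0 0) (P.cons (P.lf 0 6931461 0) (P.cons (P.lf 0 467079 0) (P.lf 23352 0 0))))) (P.cons (P.cons (P.lf 53582448 0 0) (P.cons (P.lf 15296577 0 0) (P.cons (P.lf 0 1144158 0) (P.cons (P.lf 0 77100 0) (P.lf 3855 0 0))))) (P.cons (P.cons (P.lf 0 15970524 0) (P.cons (P.lf 0 4559223 0) (P.cons (P.lf 341022 0 0) (P.cons (P.lf 22977 0 0) P.nil)))) (P.cons (P.cons (P.lf 0 1388217 0) (P.cons (P.lf 0 396303 0) (P.cons (P.lf 29640 0 0) P.nil))) (P.cons (P.cons (P.lf 389505 0 0) (P.cons (P.lf 111195 0 0) P.nil)) (P.cons (P.cons (P.lf 1212 0 0) P.nil) P.nil)))))) 31206)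
 EL.nil)))
noncomputable def S314_343_290_364_26 : EL := (EL.cons 4 (TM.mk (P.cons (P.cons (P.lf 233718 0 0) (P.cons (P.lf 0 7637610 0) (P.cons (P.lf 1159542 0 0) (P.cons (P.lf 617490 0 0) (P.cons (P.lf 0 1257 0) (P.cons (P.lf 0 4737 0) P.nil)))))) (P.cons (P.cons (P.lf 0 30961764 0) (P.cons (P.lf 6920817 0 0) (P.cons (P.lf 900942 0 0) (P.cons (P.lf 0 56901 0) (P.cons (P.lf 0 3 0) P.nil))))) (P.cons (P.cons (P.lf 0 7362396 0) (P.cons (P.lf 0 600330 0) (P.cons (P.lf 0 333432 0) (P.cons (P.lf 0 60810 0) P.nil)))) (P.cons (P.cons (P.lf 0 2806797 0) (P.cons (P.lf 0 1051380 0) (P.cons (P.lf 0 120090 0) P.nil))) (P.cons (P.cons (P.lf 0 618918 0) (P.cons (P.lf 126846 0 0) P.nil)) (P.cons (P.cons (P.lf 254301 0 0) P.nil) P.nil)))))) 288513)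
 (EL.cons 8 (TM.mk (P.cons (P.cons (P.lf 98085 0 0) (P.cons (P.lf 0 3205344 0) (P.cons (P.lf 486633 0 0) (P.cons (P.lf 259146 0 0) (P.cons (P.lf 0 528 0) (P.cons (P.lf 0 1986 0) P.nil)))))) (P.cons (P.cons (P.lf 0 12970014 0) (P.cons (P.lf 2120589 0 0) (P.cons (P.lf 497124 0 0) (P.cons (P.lf 39498 0 0) (P.cons (P.lf 0 129 0) P.nil))))) (P.cons (P.cons (P.lf 0 6266286 0) (P.cons (P.lf 409185 0 0) (P.cons (P.lf 0 39987 0) (P.cons (P.lf 0 27381 0) P.nil)))) (P.cons (P.cons (P.lf 0 2133021 0) (P.cons (P.lf 0 463941 0) (P.cons (P.lf 0 77952 0) P.nil))) (P.cons (P.cons (P.lf 0 618336 0) (P.cons (P.lf 0 53865 0) P.nil)) (P.cons (P.cons (P.lf 17706 0 0) P.nil) P.nil)))))) 143868)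
 (EL.cons 11 (TM.mk (P.cons (P.cons (P.lf 41356761 0 0) (P.cons (P.lf 100689 0 0) (P.cons (P.lf 0 5732181 0) (P.cons (P.lf 0 139377 0) (P.cons (P.lf 80691 0 0) (P.cons (P.lf 0 819 0) P.nil)))))) (P.cons (P.cons (P.lf 6738831 0 0) (P.cons (P.lf 2836683 0 0) (P.cons (P.lf 234270 0 0) (P.cons (P.lf 0 3465 0) (P.cons (P.lf 0 5574 0) P.nil))))) (P.cons (P.cons (P.lf 3780366 0 0) (P.cons (P.lf 2075067 0 0) (P.cons (P.lf 331809 0 0) (P.cons (P.lf 1353 0 0) P.nil)))) (P.cons (P.cons (P.lf 625911 0 0) (P.cons (P.lf 40527 0 0) (P.cons (P.lf 0 70593 0) P.nil))) (P.cons (P.cons (P.lf 0 340650 0) (P.cons (P.lf 0 124659 0) P.nil)) (P.cons (P.cons (P.lf 0 24195 0) P.nil) P.nil)))))) 108387)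
 EL.nil)))
noncomputable def S314_343_290_364_27 : EL := (EL.cons 13 (TM.mk (P.lf 0 4294967296 0) 0)
 EL.nil)
noncomputable def S314_343_290_364_28 : EL := (EL.cons 13 (TM.mk (P.cons (P.cons (P.lf 0 547199157 0) (P.cons (P.lf 154880756 0 0) (P.cons (P.lf 19944164 0 0) (P.lf 0 1329608 0)))) (P.cons (P.cons (P.lf 1162020 0 0) (P.cons (P.lf 0 37644540 0) (P.cons (P.lf 0 4847528 0) (P.lf 323168 0 0)))) (P.cons (P.cons (P.lf 0 77132327 0) (P.cons (P.lf 657508 0 0) (P.cons (P.lf 84668 0 0) (P.lf 0 5644 0)))) (P.cons (P.cons (P.lf 2167508 0 0) (P.cons (P.lf 529692 0 0) (P.cons (P.lf 68204 0 0) P.nil))) (P.cons (P.cons (P.lf 1016141 0 0) (P.cons (P.lf 0 39204 0) P.nil)) (P.cons (P.cons (P.lf 0 70154 0) P.nil) P.nil)))))) 28009)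
 EL.nil)
noncomputable def S314_343_290_364_29 : EL := (EL.cons 13 (TM.mk (P.cons (P.cons (P.lf 0 69715761 0) (P.cons (P.lf 39465082 0 0) (P.cons (P.lf 0 503191 0) (P.cons (P.lf 0 1777209 0) (P.cons (P.lf 3280 0 0) (P.cons (P.lf 12348 0 0) P.nil)))))) (P.cons (P.cons (P.lf 296093 0 0) (P.cons (P.lf 0 9675992 0) (P.cons (P.lf 1469010 0 0) (P.cons (P.lf 782292 0 0) (P.cons (P.lf 0 1594 0) P.nil))))) (P.cons (P.cons (P.lf 0 19654361 0) (P.cons (P.lf 5750844 0 0) (P.cons (P.lf 363174 0 0) (P.cons (P.lf 0 146557 0) P.nil)))) (P.cons (P.cons (P.lf 594038 0 0) (P.cons (P.lf 0 1373809 0) (P.cons (P.lf 0 203584 0) P.nil))) (P.cons (P.cons (P.lf 0 1127452 0) (P.cons (P.lf 0 21950 0) P.nil)) (P.cons (P.cons (P.lf 59425 0 0) P.nil) P.nil)))))) 187353)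
 EL.nil)
noncomputable def S314_343_290_364_30 : EL := (EL.cons 13 (TM.mk (P.cons (P.lf 0 2211029524 0) (P.cons (P.lf 0 361618480 0) (P.cons (P.lf 21238980 0 0) (P.cons (P.lf 543904 0 0) (P.cons (P.lf 0 97232 0) (P.cons (P.lf 1560 0 0) P.nil)))))) 512)
 EL.nil)
noncomputable def S314_343_290_364_31 : EL := (EL.cons 13 (TM.mk (P.cons (P.cons (P.lf 0 281695623 0) (P.cons (P.lf 79731904 0 0) (P.cons (P.lf 10267164 0 0) (P.lf 0 684476 0)))) (P.cons (P.cons (P.lf 0 45473702 0) (P.cons (P.lf 0 6338918 0) (P.cons (P.lf 0 816269 0) (P.lf 54417 0 0)))) (P.cons (P.cons (P.lf 0 36903585 0) (P.cons (P.lf 0 3596931 0) (P.cons (P.lf 0 463180 0) (P.lf 30878 0 0)))) (P.cons (P.cons (P.lf 0 5314850 0) (P.cons (P.lf 494584 0 0) (P.cons (P.lf 63685 0 0) P.nil))) (P.cons (P.cons (P.lf 1074490 0 0) (P.cons (P.lf 29437 0 0) P.nil)) (P.cons (P.cons (P.lf 48714 0 0) P.nil) P.nil)))))) 47854)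
 EL.nil)
noncomputable def S314_343_290_364_32 : EL := (EL.cons 13 (TM.mk (P.cons (P.cons (P.lf 0 35889354 0) (P.cons (P.lf 20316443 0 0) (P.cons (P.lf 0 259040 0) (P.cons (P.lf 0 914899 0) (P.cons (P.lf 1688 0 0) (P.cons (P.lf 6356 0 0) P.nil)))))) (P.cons (P.cons (P.lf 0 5717351 0) (P.cons (P.lf 0 1658359 0) (P.cons (P.lf 713873 0 0) (P.cons (P.lf 253086 0 0) (P.cons (P.lf 0 544 0) P.nil))))) (P.cons (P.cons (P.lf 0 9748294 0) (P.cons (P.lf 1950671 0 0) (P.cons (P.lf 313133 0 0) (P.cons (P.lf 0 792 0) P.nil)))) (P.cons (P.cons (P.lf 0 1341643 0) (P.cons (P.lf 0 180182 0) (P.cons (P.lf 0 81427 0) P.nil))) (P.cons (P.cons (P.lf 0 434814 0) (P.cons (P.lf 0 153288 0) P.nil)) (P.cons (P.cons (P.lf 0 64751 0) P.nil) P.nil)))))) 173724)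
 EL.nil)
noncomputable def S314_343_290_364_33 : EL := (EL.cons 14 (TM.mk (P.lf 8589934592 0 0) 0)
 EL.nil)
noncomputable def S314_343_290_364_34 : EL := (EL.cons 14 (TM.mk (P.cons (P.cons (P.lf 1094398314 0 0) (P.cons (P.lf 0 309761512 0) (P.cons (P.lf 0 39888328 0) (P.lf 2659216 0 0)))) (P.cons (P.cons (P.lf 0 2324040 0) (P.cons (P.lf 75289080 0 0) (P.cons (P.lf 9695056 0 0) (P.lf 0 646336 0)))) (P.cons (P.cons (P.lf 154264654 0 0) (P.cons (P.lf 0 1315016 0) (P.cons (P.lf 0 169336 0) (P.lf 11288 0 0)))) (P.cons (P.cons (P.lf 0 4335016 0) (P.cons (P.lf 0 1059384 0) (P.cons (P.lf 0 136408 0) P.nil))) (P.cons (P.cons (P.lf 0 2032282 0) (P.cons (P.lf 78408 0 0) P.nil)) (P.cons (P.cons (P.lf 140308 0 0) P.nil) P.nil)))))) 56018)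
 EL.nil)
noncomputable def S314_343_290_364_35 : EL := (EL.cons 14 (TM.mk (P.cons (P.cons (P.lf 139431522 0 0) (P.cons (P.lf 0 78930164 0) (P.cons (P.lf 1006382 0 0) (P.cons (P.lf 3554418 0 0) (P.cons (P.lf 0 6560 0) (P.cons (P.lf 0 24696 0) P.nil)))))) (P.cons (P.cons (P.lf 0 592186 0) (P.cons (P.lf 19351984 0 0) (P.cons (P.lf 0 2938020 0) (P.cons (P.lf 0 1564584 0) (P.cons (P.lf 3188 0 0) P.nil))))) (P.cons (P.cons (P.lf 39308722 0 0) (P.cons (P.lf 0 11501688 0) (P.cons (P.lf 0 726348 0) (P.cons (P.lf 293114 0 0) P.nil)))) (P.cons (P.cons (P.lf 0 1188076 0) (P.cons (P.lf 2747618 0 0) (P.cons (P.lf 407168 0 0) P.nil))) (P.cons (P.cons (P.lf 2254904 0 0) (P.cons (P.lf 43900 0 0) P.nil)) (P.cons (P.cons (P.lf 0 118850 0) P.nil) P.nil)))))) 374706)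
 EL.nil)
noncomputable def S314_343_290_364_36 : EL := (EL.cons 14 (TM.mk (P.cons (P.lf 4422059048 0 0) (P.cons (P.lf 723236960 0 0) (P.cons (P.lf 0 42477960 0) (P.cons (P.lf 0 1087808 0) (P.cons (P.lf 194464 0 0) (P.cons (P.lf 0 3120 0) P.nil)))))) 1024)
 EL.nil)
noncomputable def S314_343_290_364_37 : EL := (EL.cons 14 (TM.mk (P.cons (P.cons (P.lf 563391246 0 0) (P.cons (P.lf 0 159463808 0) (P.cons (P.lf 0 20534328 0) (P.lf 1368952 0 0)))) (P.cons (P.cons (P.lf 90947404 0 0) (P.cons (P.lf 12677836 0 0) (P.cons (P.lf 1632538 0 0) (P.lf 0 108834 0)))) (P.cons (P.cons (P.lf 73807170 0 0) (P.cons (P.lf 7193862 0 0) (P.cons (P.lf 926360 0 0) (P.lf 0 61756 0)))) (P.cons (P.cons (P.lf 10629700 0 0) (P.cons (P.lf 0 989168 0) (P.cons (P.lf 0 127370 0) P.nil))) (P.cons (P.cons (P.lf 0 2148980 0) (P.cons (P.lf 0 58874 0) P.nil)) (P.cons (P.cons (P.lf 0 97428 0) P.nil) P.nil))))))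 95708)
 EL.nil)
noncomputable def S314_343_290_364_38 : EL := (EL.cons 14 (TM.mk (P.cons (P.cons (P.lf 71778708 0 0) (P.cons (P.lf 0 40632886 0) (P.cons (P.lf 518080 0 0) (P.cons (P.lf 1829798 0 0) (P.cons (P.lf 0 3376 0) (P.cons (P.lf 0 12712 0) P.nil)))))) (P.cons (P.cons (P.lf 11434702 0 0) (P.cons (P.lf 3316718 0 0) (P.cons (P.lf 0 1427746 0) (P.cons (P.lf 0 506172 0) (P.cons (P.lf 1088 0 0) P.nil))))) (P.cons (P.cons (P.lf 19496588 0 0) (P.cons (P.lf 0 3901342 0) (P.cons (P.lf 0 626266 0) (P.cons (P.lf 1584 0 0) P.nil)))) (P.cons (P.cons (P.lf 2683286 0 0) (P.cons (P.lf 360364 0 0) (P.cons (P.lf 162854 0 0) P.nil))) (P.cons (P.cons (P.lf 869628 0 0) (P.cons (P.lf 306576 0 0) P.nil)) (P.cons (P.cons (P.lf 129502 0 0) P.nil) P.nil)))))) 347448)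
 EL.nil)
noncomputable def S314_343_290_364_39 : EL := (EL.cons 14 (TM.mk (P.cons (P.lf 2276455776 0 0) (P.cons (P.lf 744638158 0 0) (P.cons (P.lf 17158640 0 0) (P.cons (P.lf 0 8272934 0) (P.cons (P.lf 227096 0 0) (P.cons (P.lf 40292 0 0) P.nil)))))) 3922)
 EL.nil)
noncomputable def S314_343_290_364_40 : EL := (EL.cons 14 (TM.mk (P.cons (P.cons (P.lf 290031236 0 0) (P.cons (P.lf 0 82091240 0) (P.cons (P.lf 0 10570978 0) (P.lf 704730 0 0)))) (P.cons (P.cons (P.lf 94254520 0 0) (P.cons (P.lf 0 6899700 0) (P.cons (P.lf 0 888482 0) (P.lf 59230 0 0)))) (P.cons (P.cons (P.lf 42866970 0 0) (P.cons (P.lf 5559350 0 0) (P.cons (P.lf 715882 0 0) (P.lf 0 47724 0)))) (P.cons (P.cons (P.lf 11165290 0 0) (P.cons (P.lf 53974 0 0) (P.cons (P.lf 6952 0 0) P.nil))) (P.cons (P.cons (P.lf 0 575054 0) (P.cons (P.lf 0 154382 0) P.nil)) (P.cons (P.cons (P.lf 0 291148 0) P.nil) P.nil))))))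 92982)
 EL.nil)
noncomputable def S314_343_290_364_41 : EL := (EL.cons 14 (TM.mk (P.cons (P.cons (P.lf 36951350 0 0) (P.cons (P.lf 0 20917624 0) (P.cons (P.lf 266704 0 0) (P.cons (P.lf 941970 0 0) (P.cons (P.lf 0 1738 0) (P.cons (P.lf 0 6544 0) P.nil)))))) (P.cons (P.cons (P.lf 11930002 0 0) (P.cons (P.lf 0 1713688 0) (P.cons (P.lf 0 691376 0) (P.cons (P.lf 0 106514 0) (P.cons (P.lf 276 0 0) P.nil))))) (P.cons (P.cons (P.lf 10644558 0 0) (P.cons (P.lf 0 1528206 0) (P.cons (P.lf 0 445170 0) (P.cons (P.lf 0 50850 0) P.nil)))) (P.cons (P.cons (P.lf 2957240 0 0) (P.cons (P.lf 0 154218 0) (P.cons (P.lf 38102 0 0) P.nil))) (P.cons (P.cons (P.lf 577366 0 0) (P.cons (P.lf 206118 0 0) P.nil)) (P.cons (P.cons (P.lf 124380 0 0) P.nil) P.nil)))))) 256126)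
 EL.nil)
noncomputable def S314_343_290_364_42 : EL := (EL.cons 14 (TM.mk (P.cons (P.lf 1171909022 0 0) (P.cons (P.lf 575004478 0 0) (P.cons (P.lf 60271372 0 0) (P.cons (P.lf 0 6784766 0) (P.cons (P.lf 0 707252 0) (P.cons (P.lf 94630 0 0) P.nil)))))) 9404)
 EL.nil)
noncomputable def S314_343_290_364_43 : EL := (EL.cons 14 (TM.mk (P.cons (P.cons (P.lf 149306754 0 0) (P.cons (P.lf 0 42260194 0) (P.cons (P.lf 0 5441890 0) (P.lf 362790 0 0)))) (P.cons (P.cons (P.lf 72941226 0 0) (P.cons (P.lf 0 10463676 0) (P.cons (P.lf 0 1347418 0) (P.lf 89826 0 0)))) (P.cons (P.cons (P.lf 28569332 0 0) (P.cons (P.lf 2686950 0 0) (P.cons (P.lf 346000 0 0) (P.lf 0 23066 0)))) (P.cons (P.cons (P.lf 8854236 0 0) (P.cons (P.lf 540374 0 0) (P.cons (P.lf 69586 0 0) P.nil))) (P.cons (P.cons (P.lf 426684 0 0) (P.cons (P.lf 0 103406 0) P.nil)) (P.cons (P.cons (P.lf 0 256912 0) P.nil) P.nil))))))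 116512)
 EL.nil)
noncomputable def S314_343_290_364_44 : EL := (EL.cons 14 (TM.mk (P.cons (P.cons (P.lf 19022386 0 0) (P.cons (P.lf 0 10768296 0) (P.cons (P.lf 137298 0 0) (P.cons (P.lf 484922 0 0) (P.cons (P.lf 0 894 0) (P.cons (P.lf 0 3368 0) P.nil)))))) (P.cons (P.cons (P.lf 9252662 0 0) (P.cons (P.lf 0 2643376 0) (P.cons (P.lf 0 333462 0) (P.cons (P.lf 24476 0 0) (P.cons (P.lf 0 4 0) P.nil))))) (P.cons (P.cons (P.lf 6301498 0 0) (P.cons (P.lf 0 827558 0) (P.cons (P.lf 0 288702 0) (P.cons (P.lf 0 39802 0) P.nil)))) (P.cons (P.cons (P.lf 2354926 0 0) (P.cons (P.lf 0 196936 0) (P.cons (P.lf 0 14480 0) P.nil))) (P.cons (P.cons (P.lf 492900 0 0) (P.cons (P.lf 100424 0 0) P.nil)) (P.cons (P.cons (P.lf 96926 0 0) P.nil) P.nil)))))) 227272)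
 EL.nil)
noncomputable def S314_343_290_364_45 : EL := (EL.cons 14 (TM.mk (P.cons (P.cons (P.lf 17764234 0 0) (P.cons (P.lf 0 15084114 0) (P.cons (P.lf 2327050 0 0) (P.cons (P.lf 826242 0 0) (P.cons (P.lf 0 158118 0) (P.cons (P.lf 0 19102 0) P.nil)))))) (P.cons (P.cons (P.lf 0 113170 0) (P.cons (P.lf 3730332 0 0) (P.cons (P.lf 0 1604128 0) (P.cons (P.lf 0 275150 0) (P.cons (P.lf 114690 0 0) P.nil))))) (P.cons (P.cons (P.lf 7512294 0 0) (P.cons (P.lf 0 4332140 0) (P.cons (P.lf 336838 0 0) (P.cons (P.lf 191090 0 0) P.nil)))) (P.cons (P.cons (P.lf 0 243002 0) (P.cons (P.lf 1110812 0 0) (P.cons (P.lf 0 146638 0) P.nil))) (P.cons (P.cons (P.lf 960854 0 0) (P.cons (P.lf 0 289196 0) P.nil)) (P.cons (P.cons (P.lf 0 54508 0) P.nil) P.nil)))))) 469484)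
 EL.nil)
noncomputable def S314_343_290_364_46 : EL := (EL.cons 15 (TM.mk (P.lf 4294967296 0 0) 0)
 EL.nil)
noncomputable def S314_343_290_364_47 : EL := (EL.cons 15 (TM.mk (P.cons (P.cons (P.lf 547199157 0 0) (P.cons (P.lf 0 154880756 0) (P.cons (P.lf 0 19944164 0) (P.lf 1329608 0 0)))) (P.cons (P.cons (P.lf 0 1162020 0) (P.cons (P.lf 37644540 0 0) (P.cons (P.lf 4847528 0 0) (P.lf 0 323168 0)))) (P.cons (P.cons (P.lf 77132327 0 0) (P.cons (P.lf 0 657508 0) (P.cons (P.lf 0 84668 0) (P.lf 5644 0 0)))) (P.cons (P.cons (P.lf 0 2167508 0) (P.cons (P.lf 0 529692 0) (P.cons (P.lf 0 68204 0) P.nil))) (P.cons (P.cons (P.lf 0 1016141 0) (P.cons (P.lf 39204 0 0) P.nil)) (P.cons (P.cons (P.lf 70154 0 0) P.nil) P.nil)))))) 28009)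
 EL.nil)
noncomputable def S314_343_290_364_48 : EL := (EL.cons 15 (TM.mk (P.cons (P.cons (P.lf 69715761 0 0) (P.cons (P.lf 0 39465082 0) (P.cons (P.lf 503191 0 0) (P.cons (P.lf 1777209 0 0) (P.cons (P.lf 0 3280 0) (P.cons (P.lf 0 12348 0) P.nil)))))) (P.cons (P.cons (P.lf 0 296093 0) (P.cons (P.lf 9675992 0 0) (P.cons (P.lf 0 1469010 0) (P.cons (P.lf 0 782292 0) (P.cons (P.lf 1594 0 0) P.nil))))) (P.cons (P.cons (P.lf 19654361 0 0) (P.cons (P.lf 0 5750844 0) (P.cons (P.lf 0 363174 0) (P.cons (P.lf 146557 0 0) P.nil)))) (P.cons (P.cons (P.lf 0 594038 0) (P.cons (P.lf 1373809 0 0) (P.cons (P.lf 203584 0 0) P.nil))) (P.cons (P.cons (P.lf 1127452 0 0) (P.cons (P.lf 21950 0 0) P.nil)) (P.cons (P.cons (P.lf 0 59425 0) P.nil) P.nil)))))) 187353)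
 EL.nil)
noncomputable def S314_343_290_364 : SL := (SL.cons S314_343_290_364_0 (SL.cons S314_343_290_364_1 (SL.cons S314_343_290_364_2 (SL.cons S314_343_290_364_3 (SL.cons S314_343_290_364_4 (SL.cons S314_343_290_364_5 (SL.cons S314_343_290_364_6 (SL.cons S314_343_290_364_7 (SL.cons S314_343_290_364_8 (SL.cons S314_343_290_364_9 (SL.cons S314_343_290_364_10 (SL.cons S314_343_290_364_11 (SL.cons S314_343_290_364_12 (SL.cons S314_343_290_364_13 (SL.cons S314_343_290_364_14 (SL.cons S314_343_290_364_15 (SL.cons S314_343_290_364_16 (SL.cons S314_343_290_364_17 (SL.cons S314_343_290_364_18 (SL.cons S314_343_290_364_19 (SL.cons S314_343_290_364_20 (SL.cons S314_343_290_364_21 (SL.cons S314_343_290_364_22 (SL.cons S314_343_290_364_23 (SL.cons S314_343_290_364_24 (SL.cons S314_343_290_364_25 (SL.cons S314_343_290_364_26 (SL.cons S314_343_290_364_27 (SL.cons S314_343_290_364_28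 (SL.cons S314_343_290_364_29 (SL.cons S314_343_290_364_30 (SL.cons S314_343_290_364_31 (SL.cons S314_343_290_364_32 (SL.cons S314_343_290_364_33 (SL.cons S314_343_290_364_34 (SL.cons S314_343_290_364_35 (SL.cons S314_343_290_364_36 (SL.cons S314_343_290_364_37 (SL.cons S314_343_290_364_38 (SL.cons S314_343_290_364_39 (SL.cons S314_343_290_364_40 (SL.cons S314_343_290_364_41 (SL.cons S314_343_290_364_42 (SL.cons S314_343_290_364_43 (SL.cons S314_343_290_364_44 (SL.cons S314_343_290_364_45 (SL.cons S314_343_290_364_46 (SL.cons S314_343_290_364_47 (SL.cons S314_343_290_364_48 SL.nil)))))))))))))))))))))))))))))))))))))))))))))))))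
noncomputable def S314_343_364_438_0 : EL := (EL.cons 0 (TM.mk (P.cons (P.lf 6454925654 0 0) (P.cons (P.lf 0 654467131 0) (P.cons (P.lf 0 15080835 0) (P.cons (P.lf 7271133 0 0) (P.cons (P.lf 0 199596 0) (P.cons (P.lf 0 35412 0) P.nil)))))) 3454)
 (EL.cons 1 (TM.mk (P.cons (P.lf 1695086628 0 0) (P.cons (P.lf 139901857 0 0) (P.cons (P.lf 0 47471786 0) (P.cons (P.lf 293435 0 0) (P.cons (P.lf 328029 0 0) (P.cons (P.lf 0 15684 0) P.nil)))))) 1940)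
 (EL.cons 5 (TM.mk (P.cons (P.lf 5006359730 0 0) (P.cons (P.lf 232699422 0 0) (P.cons (P.lf 5362070 0 0) (P.cons (P.lf 0 2585292 0) (P.cons (P.lf 70970 0 0) (P.cons (P.lf 12590 0 0) P.nil)))))) 1169)
 (EL.cons 9 (TM.mk (P.lf 6442450944 0 0) 2)
 EL.nil))))
noncomputable def S314_343_364_438_1 : EL := (EL.cons 0 (TM.mk (P.cons (P.cons (P.lf 775782500 0 0) (P.cons (P.lf 0 23044207 0) (P.cons (P.lf 0 1260893 0) (P.lf 140100 0 0)))) (P.cons (P.cons (P.lf 1041730987 0 0) (P.cons (P.lf 138904310 0 0) (P.cons (P.lf 7600284 0 0) (P.lf 0 844472 0)))) (P.cons (P.cons (P.lf 131488394 0 0) (P.cons (P.lf 0 29426157 0) (P.cons (P.lf 0 1610072 0) (P.lf 178887 0 0)))) (P.cons (P.cons (P.lf 0 63851525 0) (P.cons (P.lf 0 1740491 0) (P.cons (P.lf 0 95231 0) P.nil))) (P.cons (P.cons (P.lf 0 429615 0) (P.cons (P.lf 875384 0 0) P.nil)) (P.cons (P.cons (P.lf 1357773 0 0) P.nil) P.nil))))))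 443459)
 (EL.cons 1 (TM.mk (P.cons (P.cons (P.lf 0 45344322 0) (P.cons (P.lf 0 151650614 0) (P.cons (P.lf 0 8297703 0) (P.lf 921961 0 0)))) (P.cons (P.cons (P.lf 0 76583516 0) (P.cons (P.lf 55714784 0 0) (P.cons (P.lf 3048481 0 0) (P.lf 0 338712 0)))) (P.cons (P.cons (P.lf 160002449 0 0) (P.cons (P.lf 7415840 0 0) (P.cons (P.lf 405764 0 0) (P.lf 0 45083 0)))) (P.cons (P.cons (P.lf 2828864 0 0) (P.cons (P.lf 0 3227619 0) (P.cons (P.lf 0 176595 0) P.nil))) (P.cons (P.cons (P.lf 0 5737350 0) (P.cons (P.lf 49314 0 0) P.nil)) (P.cons (P.cons (P.lf 205276 0 0) P.nil) P.nil)))))) 266952)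
 (EL.cons 5 (TM.mk (P.cons (P.cons (P.lf 10272583 0 0) (P.cons (P.lf 0 363600068 0) (P.cons (P.lf 0 19894730 0) (P.lf 2210522 0 0)))) (P.cons (P.cons (P.lf 0 215809129 0) (P.cons (P.lf 40978086 0 0) (P.cons (P.lf 2242162 0 0) (P.lf 0 249136 0)))) (P.cons (P.cons (P.lf 81639026 0 0) (P.cons (P.lf 8884272 0 0) (P.cons (P.lf 486106 0 0) (P.lf 0 54006 0)))) (P.cons (P.cons (P.lf 16815062 0 0) (P.cons (P.lf 0 652696 0) (P.cons (P.lf 0 35716 0) P.nil))) (P.cons (P.cons (P.lf 0 1411647 0) (P.cons (P.lf 0 217128 0) P.nil)) (P.cons (P.cons (P.lf 0 352011 0) P.nil) P.nil)))))) 212802)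
 (EL.cons 9 (TM.mk (P.cons (P.cons (P.lf 252446785 0 0) (P.cons (P.lf 0 328053138 0) (P.cons (P.lf 0 17949744 0) (P.lf 1994412 0 0)))) (P.cons (P.cons (P.lf 136397746 0 0) (P.cons (P.lf 79734948 0 0) (P.cons (P.lf 4362774 0 0) (P.lf 0 484752 0)))) (P.cons (P.cons (P.lf 113285686 0 0) (P.cons (P.lf 0 1392672 0) (P.cons (P.lf 0 76200 0) (P.lf 8466 0 0)))) (P.cons (P.cons (P.lf 0 5195028 0) (P.cons (P.lf 0 1121940 0) (P.cons (P.lf 0 61386 0) P.nil))) (P.cons (P.cons (P.lf 0 1380343 0) (P.cons (P.lf 83040 0 0) P.nil)) (P.cons (P.cons (P.lf 115365 0 0) P.nil) P.nil)))))) 39116)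
 (EL.cons 2 (TM.mk (P.cons (P.cons (P.lf 0 872053467 0) (P.cons (P.lf 0 109421752 0) (P.cons (P.lf 16705870 0 0) (P.cons (P.lf 510359 0 0) (P.lf 0 42527 0))))) (P.cons (P.cons (P.lf 0 1321529 0) (P.cons (P.lf 0 165819 0) (P.cons (P.lf 25315 0 0) (P.cons (P.lf 773 0 0) (P.lf 0 64 0))))) (P.cons (P.cons (P.lf 34743611 0 0) (P.cons (P.lf 4359487 0 0) (P.cons (P.lf 0 665578 0) (P.cons (P.lf 0 20331 0) P.nil)))) (P.cons (P.cons (P.lf 0 2180196 0) (P.cons (P.lf 0 273560 0) (P.cons (P.lf 41762 0 0) P.nil))) (P.cons (P.cons (P.lf 0 318048 0) (P.cons (P.lf 0 39906 0) P.nil)) (P.cons (P.cons (P.lf 35800 0 0) P.nil) P.nil)))))) 21626)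
 (EL.cons 6 (TM.mk (P.cons (P.cons (P.lf 738810807 0 0) (P.cons (P.lf 92703000 0 0) (P.cons (P.lf 0 14153349 0) (P.cons (P.lf 0 432381 0) (P.lf 36030 0 0))))) (P.cons (P.cons (P.lf 0 179571651 0) (P.cons (P.lf 0 22531926 0) (P.cons (P.lf 3440040 0 0) (P.cons (P.lf 105090 0 0) (P.lf 0 8754 0))))) (P.cons (P.cons (P.lf 3136443 0 0) (P.cons (P.lf 393546 0 0) (P.cons (P.lf 0 60084 0) (P.cons (P.lf 0 1833 0) P.nil)))) (P.cons (P.cons (P.lf 2526732 0 0) (P.cons (P.lf 317043 0 0) (P.cons (P.lf 0 48402 0) P.nil))) (P.cons (P.cons (P.lf 0 187020 0) (P.cons (P.lf 0 23463 0) P.nil)) (P.cons (P.cons (P.lf 0 13170 0) P.nil) P.nil)))))) 12303)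
 EL.nil))))))
noncomputable def S314_343_364_438_2 : EL := (EL.cons 0 (TM.mk (P.cons (P.cons (P.lf 50886657 0 0) (P.cons (P.lf 0 55053261 0) (P.cons (P.lf 0 17402434 0) (P.cons (P.lf 0 1240032 0) (P.cons (P.lf 131878 0 0) (P.cons (P.lf 9564 0 0) P.nil)))))) (P.cons (P.cons (P.lf 104784283 0 0) (P.cons (P.lf 0 71932807 0) (P.cons (P.lf 0 8819472 0) (P.cons (P.lf 0 97108 0) (P.cons (P.lf 44762 0 0) P.nil))))) (P.cons (P.cons (P.lf 71018618 0 0) (P.cons (P.lf 22274277 0 0) (P.cons (P.lf 5747133 0 0) (P.cons (P.lf 360130 0 0) P.nil)))) (P.cons (P.cons (P.lf 32759459 0 0) (P.cons (P.lf 8555167 0 0) (P.cons (P.lf 0 138197 0) P.nil))) (P.cons (P.cons (P.lf 0 1330981 0) (P.cons (P.lf 0 2800241 0) P.nil)) (P.cons (P.cons (P.lf 0 2389037 0) P.nil) P.nil)))))) 2194825)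
 (EL.cons 1 (TM.mk (P.cons (P.cons (P.lf 0 6156360 0) (P.cons (P.lf 0 502444 0) (P.cons (P.lf 11021581 0 0) (P.cons (P.lf 1212173 0 0) (P.cons (P.lf 0 101267 0) (P.cons (P.lf 0 7346 0) P.nil)))))) (P.cons (P.cons (P.lf 0 10949209 0) (P.cons (P.lf 7190911 0 0) (P.cons (P.lf 0 7260595 0) (P.cons (P.lf 0 881319 0) (P.cons (P.lf 70143 0 0) P.nil))))) (P.cons (P.cons (P.lf 4446856 0 0) (P.cons (P.lf 0 18411423 0) (P.cons (P.lf 0 315500 0) (P.cons (P.lf 187636 0 0) P.nil)))) (P.cons (P.cons (P.lf 3044357 0 0) (P.cons (P.lf 5272468 0 0) (P.cons (P.lf 723379 0 0) P.nil))) (P.cons (P.cons (P.lf 4992717 0 0) (P.cons (P.lf 605820 0 0) P.nil)) (P.cons (P.cons (P.lf 0 297987 0) P.nil) P.nil)))))) 1236834)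
 (EL.cons 5 (TM.mk (P.cons (P.cons (P.lf 0 6881973 0) (P.cons (P.lf 0 9562905 0) (P.cons (P.lf 23525181 0 0) (P.cons (P.lf 2689797 0 0) (P.cons (P.lf 0 220400 0) (P.cons (P.lf 0 15993 0) P.nil)))))) (P.cons (P.cons (P.lf 0 25141902 0) (P.cons (P.lf 16915071 0 0) (P.cons (P.lf 0 6541082 0) (P.cons (P.lf 0 919912 0) (P.cons (P.lf 68422 0 0) P.nil))))) (P.cons (P.cons (P.lf 0 11916311 0) (P.cons (P.lf 0 17292441 0) (P.cons (P.lf 0 1277093 0) (P.cons (P.lf 68928 0 0) P.nil)))) (P.cons (P.cons (P.lf 0 6672729 0) (P.cons (P.lf 569348 0 0) (P.cons (P.lf 337144 0 0) P.nil))) (P.cons (P.cons (P.lf 2358975 0 0) (P.cons (P.lf 907241 0 0) P.nil)) (P.cons (P.cons (P.lf 586365 0 0) P.nil) P.nil)))))) 1069634)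
 (EL.cons 9 (TM.mk (P.cons (P.cons (P.lf 9892101 0 0) (P.cons (P.lf 0 25709457 0) (P.cons (P.lf 15297927 0 0) (P.cons (P.lf 1984323 0 0) (P.cons (P.lf 0 153102 0) (P.cons (P.lf 0 11113 0) P.nil)))))) (P.cons (P.cons (P.lf 10689463 0 0) (P.cons (P.lf 0 7642084 0) (P.cons (P.lf 0 8538438 0) (P.cons (P.lf 0 842158 0) (P.cons (P.lf 74424 0 0) P.nil))))) (P.cons (P.cons (P.lf 11765950 0 0) (P.cons (P.lf 0 8270029 0) (P.cons (P.lf 676167 0 0) (P.cons (P.lf 173790 0 0) P.nil)))) (P.cons (P.cons (P.lf 4389771 0 0) (P.cons (P.lf 3186328 0 0) (P.cons (P.lf 254130 0 0) P.nil))) (P.cons (P.cons (P.lf 1663891 0 0) (P.cons (P.lf 0 77992 0) P.nil)) (P.cons (P.cons (P.lf 0 232108 0) P.nil) P.nil)))))) 309506)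
 (EL.cons 2 (TM.mk (P.cons (P.cons (P.lf 0 68342647 0) (P.cons (P.lf 80235517 0 0) (P.cons (P.lf 17312236 0 0) (P.cons (P.lf 0 1591537 0) (P.cons (P.lf 0 216146 0) (P.cons (P.lf 11829 0 0) P.nil)))))) (P.cons (P.cons (P.lf 0 37029301 0) (P.cons (P.lf 0 26097626 0) (P.cons (P.lf 0 3155985 0) (P.cons (P.lf 415749 0 0) (P.cons (P.lf 49595 0 0) P.nil))))) (P.cons (P.cons (P.lf 0 28001925 0) (P.cons (P.lf 0 6707581 0) (P.cons (P.lf 0 39099 0) (P.cons (P.lf 75060 0 0) P.nil)))) (P.cons (P.cons (P.lf 2660225 0 0) (P.cons (P.lf 1720136 0 0) (P.cons (P.lf 198843 0 0) P.nil))) (P.cons (P.cons (P.lf 1480455 0 0) (P.cons (P.lf 127141 0 0) P.nil)) (P.cons (P.cons (P.lf 0 174031 0) P.nil) P.nil)))))) 260858)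
 (EL.cons 6 (TM.mk (P.cons (P.cons (P.lf 57900450 0 0) (P.cons (P.lf 0 67976184 0) (P.cons (P.lf 0 14667066 0) (P.cons (P.lf 1348362 0 0) (P.cons (P.lf 183120 0 0) (P.cons (P.lf 0 10020 0) P.nil)))))) (P.cons (P.cons (P.lf 17210790 0 0) (P.cons (P.lf 38735088 0 0) (P.cons (P.lf 6260910 0 0) (P.cons (P.lf 0 681996 0) (P.cons (P.lf 0 86802 0) P.nil))))) (P.cons (P.cons (P.lf 18624990 0 0) (P.cons (P.lf 0 2746782 0) (P.cons (P.lf 0 1272846 0) (P.cons (P.lf 82488 0 0) P.nil)))) (P.cons (P.cons (P.lf 0 7175952 0) (P.cons (P.lf 0 1259784 0) (P.cons (P.lf 72708 0 0) P.nil))) (P.cons (P.cons (P.lf 175650 0 0) (P.cons (P.lf 183858 0 0) P.nil)) (P.cons (P.cons (P.lf 178254 0 0) P.nil) P.nil)))))) 185718)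
 EL.nil))))))
noncomputable def S314_343_364_438_3 : EL := (EL.cons 0 (TM.mk (P.cons (P.lf 2000791209 0 0) (P.cons (P.lf 654467131 0 0) (P.cons (P.lf 15080835 0 0) (P.cons (P.lf 0 7271133 0) (P.cons (P.lf 199596 0 0) (P.cons (P.lf 35412 0 0) P.nil)))))) 3454)
 (EL.cons 1 (TM.mk (P.cons (P.lf 0 1695086628 0) (P.cons (P.lf 0 139901857 0) (P.cons (P.lf 47471786 0 0) (P.cons (P.lf 0 293435 0) (P.cons (P.lf 0 328029 0) (P.cons (P.lf 15684 0 0) P.nil)))))) 1940)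
 (EL.cons 5 (TM.mk (P.cons (P.lf 1436091214 0 0) (P.cons (P.lf 0 232699422 0) (P.cons (P.lf 0 5362070 0) (P.cons (P.lf 2585292 0 0) (P.cons (P.lf 0 70970 0) (P.cons (P.lf 0 12590 0) P.nil)))))) 1162)
 EL.nil)))
noncomputable def S314_343_364_438_4 : EL := (EL.cons 0 (TM.mk (P.cons (P.cons (P.lf 78400800 0 0) (P.cons (P.lf 0 101881385 0) (P.cons (P.lf 0 5574536 0) (P.lf 619391 0 0)))) (P.cons (P.cons (P.lf 68005411 0 0) (P.cons (P.lf 0 8563046 0) (P.cons (P.lf 0 468534 0) (P.lf 52057 0 0)))) (P.cons (P.cons (P.lf 49629550 0 0) (P.cons (P.lf 6899568 0 0) (P.cons (P.lf 377516 0 0) (P.lf 0 41944 0)))) (P.cons (P.cons (P.lf 9929295 0 0) (P.cons (P.lf 66986 0 0) (P.cons (P.lf 3665 0 0) P.nil))) (P.cons (P.cons (P.lf 0 837365 0) (P.cons (P.lf 0 191598 0) P.nil)) (P.cons (P.cons (P.lf 0 238800 0) P.nil) P.nil)))))) 81069)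
 (EL.cons 1 (TM.mk (P.cons (P.cons (P.lf 0 66421796 0) (P.cons (P.lf 86314740 0 0) (P.cons (P.lf 4722793 0 0) (P.lf 0 524752 0)))) (P.cons (P.cons (P.lf 0 41369932 0) (P.cons (P.lf 0 13855346 0) (P.cons (P.lf 0 758107 0) (P.lf 84232 0 0)))) (P.cons (P.cons (P.lf 0 30908615 0) (P.cons (P.lf 0 3782353 0) (P.cons (P.lf 0 206953 0) (P.lf 22993 0 0)))) (P.cons (P.cons (P.lf 0 99631 0) (P.cons (P.lf 927913 0 0) (P.cons (P.lf 50769 0 0) P.nil))) (P.cons (P.cons (P.lf 1291685 0 0) (P.cons (P.lf 5323 0 0) P.nil)) (P.cons (P.cons (P.lf 0 50148 0) P.nil) P.nil)))))) 61987)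
 (EL.cons 5 (TM.mk (P.cons (P.cons (P.lf 56273088 0 0) (P.cons (P.lf 0 73126552 0) (P.cons (P.lf 0 4001188 0) (P.lf 444574 0 0)))) (P.cons (P.cons (P.lf 21286212 0 0) (P.cons (P.lf 29622954 0 0) (P.cons (P.lf 1620848 0 0) (P.lf 0 180092 0)))) (P.cons (P.cons (P.lf 20115830 0 0) (P.cons (P.lf 0 2917404 0) (P.cons (P.lf 0 159628 0) (P.lf 17736 0 0)))) (P.cons (P.cons (P.lf 0 5262092 0) (P.cons (P.lf 0 397796 0) (P.cons (P.lf 0 21764 0) P.nil))) (P.cons (P.cons (P.lf 0 162382 0) (P.cons (P.lf 95802 0 0) P.nil)) (P.cons (P.cons (P.lf 123360 0 0) P.nil) P.nil)))))) 43198)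
 EL.nil)))
noncomputable def S314_343_364_438_5 : EL := (EL.cons 0 (TM.mk (P.cons (P.cons (P.lf 3072127 0 0) (P.cons (P.lf 0 7984422 0) (P.cons (P.lf 4750978 0 0) (P.cons (P.lf 616257 0 0) (P.cons (P.lf 0 47547 0) (P.cons (P.lf 0 3450 0) P.nil)))))) (P.cons (P.cons (P.lf 4324663 0 0) (P.cons (P.lf 0 4985091 0) (P.cons (P.lf 0 1097662 0) (P.cons (P.lf 0 59962 0) (P.cons (P.lf 7558 0 0) P.nil))))) (P.cons (P.cons (P.lf 4763139 0 0) (P.cons (P.lf 0 3404886 0) (P.cons (P.lf 0 621587 0) (P.cons (P.lf 0 26933 0) P.nil)))) (P.cons (P.cons (P.lf 2572425 0 0) (P.cons (P.lf 160560 0 0) (P.cons (P.lf 110358 0 0) P.nil))) (P.cons (P.cons (P.lf 978470 0 0) (P.cons (P.lf 287934 0 0) P.nil)) (P.cons (P.cons (P.lf 94325 0 0) P.nil) P.nil)))))) 266648)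
 (EL.cons 1 (TM.mk (P.cons (P.cons (P.lf 0 2602728 0) (P.cons (P.lf 6764467 0 0) (P.cons (P.lf 0 4025068 0) (P.cons (P.lf 0 522097 0) (P.cons (P.lf 40282 0 0) (P.cons (P.lf 2923 0 0) P.nil)))))) (P.cons (P.cons (P.lf 0 3027339 0) (P.cons (P.lf 2569020 0 0) (P.cons (P.lf 1914360 0 0) (P.cons (P.lf 178490 0 0) (P.cons (P.lf 0 16256 0) P.nil))))) (P.cons (P.cons (P.lf 0 3255000 0) (P.cons (P.lf 2152453 0 0) (P.cons (P.lf 120232 0 0) (P.cons (P.lf 0 12815 0) P.nil)))) (P.cons (P.cons (P.lf 0 1332189 0) (P.cons (P.lf 0 713911 0) (P.cons (P.lf 0 145158 0) P.nil))) (P.cons (P.cons (P.lf 0 447406 0) (P.cons (P.lf 0 107951 0) P.nil)) (P.cons (P.cons (P.lf 56227 0 0) P.nil) P.nil)))))) 201029)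
 (EL.cons 5 (TM.mk (P.cons (P.cons (P.lf 2205054 0 0) (P.cons (P.lf 0 5730912 0) (P.cons (P.lf 3410070 0 0) (P.cons (P.lf 442326 0 0) (P.cons (P.lf 0 34126 0) (P.cons (P.lf 0 2476 0) P.nil)))))) (P.cons (P.cons (P.lf 2025494 0 0) (P.cons (P.lf 0 774884 0) (P.cons (P.lf 0 2455864 0) (P.cons (P.lf 0 259398 0) (P.cons (P.lf 22118 0 0) P.nil))))) (P.cons (P.cons (P.lf 2228422 0 0) (P.cons (P.lf 0 1546048 0) (P.cons (P.lf 446396 0 0) (P.cons (P.lf 67506 0 0) P.nil)))) (P.cons (P.cons (P.lf 548616 0 0) (P.cons (P.lf 1005020 0 0) (P.cons (P.lf 45470 0 0) P.nil))) (P.cons (P.cons (P.lf 206728 0 0) (P.cons (P.lf 0 128374 0) P.nil)) (P.cons (P.cons (P.lf 0 110906 0) P.nil) P.nil)))))) 146868)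
 EL.nil)))
noncomputable def S314_343_364_438_6 : EL := (EL.cons 12 (TM.mk (P.lf 8589934592 0 0) 0)
 (EL.cons 3 (TM.mk (P.cons (P.lf 2072840178 0 0) (P.cons (P.lf 339017325 0 0) (P.cons (P.lf 0 19911543 0) (P.cons (P.lf 0 509910 0) (P.cons (P.lf 91155 0 0) (P.cons (P.lf 0 1462 0) P.nil)))))) 487)
 (EL.cons 7 (TM.mk (P.cons (P.lf 0 1756127103 0) (P.cons (P.lf 142278485 0 0) (P.cons (P.lf 9042093 0 0) (P.cons (P.lf 0 848140 0) (P.cons (P.lf 0 2043 0) (P.cons (P.lf 3166 0 0) P.nil)))))) 195)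
 EL.nil)))
noncomputable def S314_343_364_438_7 : EL := (EL.cons 12 (TM.mk (P.cons (P.cons (P.lf 336595714 0 0) (P.cons (P.lf 0 437404184 0) (P.cons (P.lf 0 23932992 0) (P.lf 2659216 0 0)))) (P.cons (P.cons (P.lf 181863662 0 0) (P.cons (P.lf 106313264 0 0) (P.cons (P.lf 5817032 0 0) (P.lf 0 646336 0)))) (P.cons (P.cons (P.lf 151047582 0 0) (P.cons (P.lf 0 1856896 0) (P.cons (P.lf 0 101600 0) (P.lf 11288 0 0)))) (P.cons (P.cons (P.lf 0 6926704 0) (P.cons (P.lf 0 1495920 0) (P.cons (P.lf 0 81848 0) P.nil))) (P.cons (P.cons (P.lf 0 1840458 0) (P.cons (P.lf 110720 0 0) P.nil)) (P.cons (P.cons (P.lf 153820 0 0) P.nil) P.nil)))))) 52130)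
 (EL.cons 3 (TM.mk (P.cons (P.cons (P.lf 622898769 0 0) (P.cons (P.lf 211100316 0 0) (P.cons (P.lf 11550556 0 0) (P.lf 0 1283392 0)))) (P.cons (P.cons (P.lf 932807517 0 0) (P.cons (P.lf 0 16783084 0) (P.cons (P.lf 0 918300 0) (P.lf 102030 0 0)))) (P.cons (P.cons (P.lf 0 61564054 0) (P.cons (P.lf 0 9523326 0) (P.cons (P.lf 0 521076 0) (P.lf 57896 0 0)))) (P.cons (P.cons (P.lf 0 19330487 0) (P.cons (P.lf 1309472 0 0) (P.cons (P.lf 71646 0 0) P.nil))) (P.cons (P.cons (P.lf 2469054 0 0) (P.cons (P.lf 77938 0 0) P.nil)) (P.cons (P.cons (P.lf 109771 0 0) P.nil) P.nil)))))) 181228)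
 (EL.cons 7 (TM.mk (P.cons (P.cons (P.lf 158515904 0 0) (P.cons (P.lf 222314552 0 0) (P.cons (P.lf 12164161 0 0) (P.lf 0 1351574 0)))) (P.cons (P.cons (P.lf 391479822 0 0) (P.cons (P.lf 0 7043515 0) (P.cons (P.lf 0 385394 0) (P.lf 42823 0 0)))) (P.cons (P.cons (P.lf 22035038 0 0) (P.cons (P.lf 0 4858057 0) (P.cons (P.lf 0 265810 0) (P.lf 29533 0 0)))) (P.cons (P.cons (P.lf 0 10321198 0) (P.cons (P.lf 0 138154 0) (P.cons (P.lf 0 7559 0) P.nil))) (P.cons (P.cons (P.lf 0 476583 0) (P.cons (P.lf 99696 0 0) P.nil)) (P.cons (P.cons (P.lf 167264 0 0) P.nil) P.nil)))))) 111574)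
 (EL.cons 10 (TM.mk (P.cons (P.cons (P.lf 0 1806912642 0) (P.cons (P.lf 0 226724115 0) (P.cons (P.lf 34614906 0 0) (P.cons (P.lf 1057479 0 0) (P.lf 0 88122 0))))) (P.cons (P.cons (P.lf 292786086 0 0) (P.cons (P.lf 36737616 0 0) (P.cons (P.lf 0 5608884 0) (P.cons (P.lf 0 171348 0) (P.lf 14277 0 0))))) (P.cons (P.cons (P.lf 6746640 0 0) (P.cons (P.lf 846540 0 0) (P.cons (P.lf 0 129243 0) (P.cons (P.lf 0 3948 0) P.nil)))) (P.cons (P.cons (P.lf 0 3252855 0) (P.cons (P.lf 0 408153 0) (P.cons (P.lf 62313 0 0) P.nil))) (P.cons (P.cons (P.lf 89295 0 0) (P.cons (P.lf 11202 0 0) P.nil)) (P.cons (P.cons (P.lf 15840 0 0) P.nil) P.nil)))))) 8241)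
 EL.nil))))
noncomputable def S314_343_364_438_8 : EL := (EL.cons 12 (TM.mk (P.cons (P.cons (P.lf 13189468 0 0) (P.cons (P.lf 0 34279276 0) (P.cons (P.lf 20397236 0 0) (P.cons (P.lf 2645764 0 0) (P.cons (P.lf 0 204136 0) (P.cons (P.lf 0 14818 0) P.nil)))))) (P.cons (P.cons (P.lf 14252618 0 0) (P.cons (P.lf 0 10189446 0) (P.cons (P.lf 0 11384584 0) (P.cons (P.lf 0 1122878 0) (P.cons (P.lf 99232 0 0) P.nil))))) (P.cons (P.cons (P.lf 15687934 0 0) (P.cons (P.lf 0 11026706 0) (P.cons (P.lf 901556 0 0) (P.cons (P.lf 231720 0 0) P.nil)))) (P.cons (P.cons (P.lf 5853028 0 0) (P.cons (P.lf 4248438 0 0) (P.cons (P.lf 338840 0 0) P.nil))) (P.cons (P.cons (P.lf 2218522 0 0) (P.cons (P.lf 0 103990 0) P.nil)) (P.cons (P.cons (P.lf 0 309478 0) P.nil) P.nil)))))) 412646)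
 (EL.cons 3 (TM.mk (P.cons (P.cons (P.lf 45633690 0 0) (P.cons (P.lf 0 38620856 0) (P.cons (P.lf 0 28986535 0) (P.cons (P.lf 0 2706005 0) (P.cons (P.lf 246300 0 0) (P.cons (P.lf 17875 0 0) P.nil)))))) (P.cons (P.cons (P.lf 95519754 0 0) (P.cons (P.lf 0 68144395 0) (P.cons (P.lf 4939623 0 0) (P.cons (P.lf 1362864 0 0) (P.cons (P.lf 0 79446 0) P.nil))))) (P.cons (P.cons (P.lf 52262332 0 0) (P.cons (P.lf 38040845 0 0) (P.cons (P.lf 2660397 0 0) (P.cons (P.lf 0 167916 0) P.nil)))) (P.cons (P.cons (P.lf 25681378 0 0) (P.cons (P.lf 0 2022471 0) (P.cons (P.lf 0 654857 0) P.nil))) (P.cons (P.cons (P.lf 0 5290723 0) (P.cons (P.lf 0 1517292 0) P.nil)) (P.cons (P.cons (P.lf 0 843325 0) P.nil) P.nil)))))) 1257927)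
 (EL.cons 7 (TM.mk (P.cons (P.cons (P.lf 15119314 0 0) (P.cons (P.lf 0 5728742 0) (P.cons (P.lf 0 18400741 0) (P.cons (P.lf 0 1944498 0) (P.cons (P.lf 165771 0 0) (P.cons (P.lf 12029 0 0) P.nil)))))) (P.cons (P.cons (P.lf 40087644 0 0) (P.cons (P.lf 0 28598776 0) (P.cons (P.lf 2073059 0 0) (P.cons (P.lf 571962 0 0) (P.cons (P.lf 0 33340 0) P.nil))))) (P.cons (P.cons (P.lf 26835533 0 0) (P.cons (P.lf 12467737 0 0) (P.cons (P.lf 1370014 0 0) (P.cons (P.lf 0 528 0) P.nil)))) (P.cons (P.cons (P.lf 14559329 0 0) (P.cons (P.lf 1607839 0 0) (P.cons (P.lf 0 82173 0) P.nil))) (P.cons (P.cons (P.lf 0 57225 0) (P.cons (P.lf 0 682561 0) P.nil)) (P.cons (P.cons (P.lf 0 672293 0) P.nil) P.nil)))))) 644493)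
 (EL.cons 10 (TM.mk (P.cons (P.cons (P.lf 0 141607374 0) (P.cons (P.lf 166249644 0 0) (P.cons (P.lf 35871312 0 0) (P.cons (P.lf 0 3297702 0) (P.cons (P.lf 0 447858 0) (P.cons (P.lf 24510 0 0) P.nil)))))) (P.cons (P.cons (P.lf 0 53565294 0) (P.cons (P.lf 0 81265296 0) (P.cons (P.lf 0 12406104 0) (P.cons (P.lf 1400790 0 0) (P.cons (P.lf 176010 0 0) P.nil))))) (P.cons (P.cons (P.lf 0 50620116 0) (P.cons (P.lf 989838 0 0) (P.cons (P.lf 2292594 0 0) (P.cons (P.lf 0 105240 0) P.nil)))) (P.cons (P.cons (P.lf 13241694 0 0) (P.cons (P.lf 2662542 0 0) (P.cons (P.lf 0 73290 0) P.nil))) (P.cons (P.cons (P.lf 408624 0 0) (P.cons (P.lf 0 189810 0) P.nil)) (P.cons (P.cons (P.lf 0 310428 0) P.nil) P.nil)))))) 295920)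
 EL.nil))))
noncomputable def S314_343_364_438_9 : EL := (EL.cons 3 (TM.mk (P.cons (P.lf 2072840178 0 0) (P.cons (P.lf 339017325 0 0) (P.cons (P.lf 0 19911543 0) (P.cons (P.lf 0 509910 0) (P.cons (P.lf 91155 0 0) (P.cons (P.lf 0 1462 0) P.nil)))))) 487)
 (EL.cons 7 (TM.mk (P.cons (P.lf 0 1756127103 0) (P.cons (P.lf 142278485 0 0) (P.cons (P.lf 9042093 0 0) (P.cons (P.lf 0 848140 0) (P.cons (P.lf 0 2043 0) (P.cons (P.lf 3166 0 0) P.nil)))))) 195)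
 EL.nil))
noncomputable def S314_343_364_438_10 : EL := (EL.cons 3 (TM.mk (P.cons (P.cons (P.lf 81224031 0 0) (P.cons (P.lf 0 105550158 0) (P.cons (P.lf 0 5775278 0) (P.lf 641696 0 0)))) (P.cons (P.cons (P.lf 57169944 0 0) (P.cons (P.lf 8391542 0 0) (P.cons (P.lf 459150 0 0) (P.lf 0 51015 0)))) (P.cons (P.cons (P.lf 42846692 0 0) (P.cons (P.lf 4761663 0 0) (P.cons (P.lf 260538 0 0) (P.lf 0 28948 0)))) (P.cons (P.cons (P.lf 3848338 0 0) (P.cons (P.lf 0 654736 0) (P.cons (P.lf 0 35823 0) P.nil))) (P.cons (P.cons (P.lf 0 1074849 0) (P.cons (P.lf 0 38969 0) P.nil)) (P.cons (P.cons (P.lf 0 26555 0) P.nil) P.nil)))))) 43941)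
 (EL.cons 7 (TM.mk (P.cons (P.cons (P.lf 0 68813662 0) (P.cons (P.lf 89422955 0 0) (P.cons (P.lf 4892863 0 0) (P.lf 0 543650 0)))) (P.cons (P.cons (P.lf 0 31605057 0) (P.cons (P.lf 0 28979593 0) (P.cons (P.lf 0 1585646 0) (P.lf 176182 0 0)))) (P.cons (P.cons (P.lf 0 27513589 0) (P.cons (P.lf 1680104 0 0) (P.cons (P.lf 91928 0 0) (P.lf 0 10214 0)))) (P.cons (P.cons (P.lf 4076159 0 0) (P.cons (P.lf 430166 0 0) (P.cons (P.lf 23536 0 0) P.nil))) (P.cons (P.cons (P.lf 402495 0 0) (P.cons (P.lf 0 59760 0) P.nil)) (P.cons (P.cons (P.lf 0 84055 0) P.nil) P.nil)))))) 24783)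
 EL.nil))
noncomputable def S314_343_364_438_11 : EL := (EL.cons 3 (TM.mk (P.cons (P.cons (P.lf 3182754 0 0) (P.cons (P.lf 0 8271944 0) (P.cons (P.lf 4922063 0 0) (P.cons (P.lf 638449 0 0) (P.cons (P.lf 0 49260 0) (P.cons (P.lf 0 3575 0) P.nil)))))) (P.cons (P.cons (P.lf 3959850 0 0) (P.cons (P.lf 0 3811711 0) (P.cons (P.lf 0 1942203 0) (P.cons (P.lf 0 166542 0) (P.cons (P.lf 15888 0 0) P.nil))))) (P.cons (P.cons (P.lf 4317592 0 0) (P.cons (P.lf 0 2983543 0) (P.cons (P.lf 0 279039 0) (P.cons (P.lf 5466 0 0) P.nil)))) (P.cons (P.cons (P.lf 1997728 0 0) (P.cons (P.lf 615657 0 0) (P.cons (P.lf 142525 0 0) P.nil))) (P.cons (P.cons (P.lf 729281 0 0) (P.cons (P.lf 168378 0 0) P.nil)) (P.cons (P.cons (P.lf 0 1471 0) P.nil) P.nil)))))) 186299)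
 (EL.cons 7 (TM.mk (P.cons (P.cons (P.lf 0 2696456 0) (P.cons (P.lf 7008058 0 0) (P.cons (P.lf 0 4170013 0) (P.cons (P.lf 0 540900 0) (P.cons (P.lf 41733 0 0) (P.cons (P.lf 3029 0 0) P.nil)))))) (P.cons (P.cons (P.lf 0 2695344 0) (P.cons (P.lf 1515350 0 0) (P.cons (P.lf 2665313 0 0) (P.cons (P.lf 273384 0 0) (P.cons (P.lf 0 23668 0) P.nil))))) (P.cons (P.cons (P.lf 0 2957287 0) (P.cons (P.lf 2049445 0 0) (P.cons (P.lf 0 351410 0) (P.cons (P.lf 0 63186 0) P.nil)))) (P.cons (P.cons (P.lf 0 923047 0) (P.cons (P.lf 0 1058531 0) (P.cons (P.lf 0 68337 0) P.nil))) (P.cons (P.cons (P.lf 0 341505 0) (P.cons (P.lf 81035 0 0) P.nil)) (P.cons (P.cons (P.lf 104629 0 0) P.nil) P.nil)))))) 124283)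
 EL.nil))
noncomputable def S314_343_364_438_12 : EL := (EL.cons 4 (TM.mk (P.cons (P.lf 0 2072840178 0) (P.cons (P.lf 0 339017325 0) (P.cons (P.lf 19911543 0 0) (P.cons (P.lf 509910 0 0) (P.cons (P.lf 0 91155 0) (P.cons (P.lf 1462 0 0) P.nil)))))) 487)
 (EL.cons 8 (TM.mk (P.cons (P.lf 1756127103 0 0) (P.cons (P.lf 0 142278485 0) (P.cons (P.lf 0 9042093 0) (P.cons (P.lf 848140 0 0) (P.cons (P.lf 2043 0 0) (P.cons (P.lf 0 3166 0) P.nil)))))) 195)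
 EL.nil))
noncomputable def S314_343_364_438_13 : EL := (EL.cons 4 (TM.mk (P.cons (P.cons (P.lf 0 81224031 0) (P.cons (P.lf 105550158 0 0) (P.cons (P.lf 5775278 0 0) (P.lf 0 641696 0)))) (P.cons (P.cons (P.lf 0 57169944 0) (P.cons (P.lf 0 8391542 0) (P.cons (P.lf 0 459150 0) (P.lf 51015 0 0)))) (P.cons (P.cons (P.lf 0 42846692 0) (P.cons (P.lf 0 4761663 0) (P.cons (P.lf 0 260538 0) (P.lf 28948 0 0)))) (P.cons (P.cons (P.lf 0 3848338 0) (P.cons (P.lf 654736 0 0) (P.cons (P.lf 35823 0 0) P.nil))) (P.cons (P.cons (P.lf 1074849 0 0) (P.cons (P.lf 38969 0 0) P.nil)) (P.cons (P.cons (P.lf 26555 0 0) P.nil) P.nil)))))) 43941)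
 (EL.cons 8 (TM.mk (P.cons (P.cons (P.lf 68813662 0 0) (P.cons (P.lf 0 89422955 0) (P.cons (P.lf 0 4892863 0) (P.lf 543650 0 0)))) (P.cons (P.cons (P.lf 31605057 0 0) (P.cons (P.lf 28979593 0 0) (P.cons (P.lf 1585646 0 0) (P.lf 0 176182 0)))) (P.cons (P.cons (P.lf 27513589 0 0) (P.cons (P.lf 0 1680104 0) (P.cons (P.lf 0 91928 0) (P.lf 10214 0 0)))) (P.cons (P.cons (P.lf 0 4076159 0) (P.cons (P.lf 0 430166 0) (P.cons (P.lf 0 23536 0) P.nil))) (P.cons (P.cons (P.lf 0 402495 0) (P.cons (P.lf 59760 0 0) P.nil)) (P.cons (P.cons (P.lf 84055 0 0) P.nil) P.nil)))))) 24783)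
 EL.nil))
noncomputable def S314_343_364_438_14 : EL := (EL.cons 4 (TM.mk (P.cons (P.cons (P.lf 0 3182754 0) (P.cons (P.lf 8271944 0 0) (P.cons (P.lf 0 4922063 0) (P.cons (P.lf 0 638449 0) (P.cons (P.lf 49260 0 0) (P.cons (P.lf 3575 0 0) P.nil)))))) (P.cons (P.cons (P.lf 0 3959850 0) (P.cons (P.lf 3811711 0 0) (P.cons (P.lf 1942203 0 0) (P.cons (P.lf 166542 0 0) (P.cons (P.lf 0 15888 0) P.nil))))) (P.cons (P.cons (P.lf 0 4317592 0) (P.cons (P.lf 2983543 0 0) (P.cons (P.lf 279039 0 0) (P.cons (P.lf 0 5466 0) P.nil)))) (P.cons (P.cons (P.lf 0 1997728 0) (P.cons (P.lf 0 615657 0) (P.cons (P.lf 0 142525 0) P.nil))) (P.cons (P.cons (P.lf 0 729281 0) (P.cons (P.lf 0 168378 0) P.nil)) (P.cons (P.cons (P.lf 1471 0 0) P.nil) P.nil)))))) 186299)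
 (EL.cons 8 (TM.mk (P.cons (P.cons (P.lf 2696456 0 0) (P.cons (P.lf 0 7008058 0) (P.cons (P.lf 4170013 0 0) (P.cons (P.lf 540900 0 0) (P.cons (P.lf 0 41733 0) (P.cons (P.lf 0 3029 0) P.nil)))))) (P.cons (P.cons (P.lf 2695344 0 0) (P.cons (P.lf 0 1515350 0) (P.cons (P.lf 0 2665313 0) (P.cons (P.lf 0 273384 0) (P.cons (P.lf 23668 0 0) P.nil))))) (P.cons (P.cons (P.lf 2957287 0 0) (P.cons (P.lf 0 2049445 0) (P.cons (P.lf 351410 0 0) (P.cons (P.lf 63186 0 0) P.nil)))) (P.cons (P.cons (P.lf 923047 0 0) (P.cons (P.lf 1058531 0 0) (P.cons (P.lf 68337 0 0) P.nil))) (P.cons (P.cons (P.lf 341505 0 0) (P.cons (P.lf 0 81035 0) P.nil)) (P.cons (P.cons (P.lf 0 104629 0) P.nil) P.nil)))))) 124283)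
 EL.nil))
noncomputable def S314_343_364_438_15 : EL := (EL.cons 4 (TM.mk (P.cons (P.lf 0 1067088645 0) (P.cons (P.lf 0 349049136 0) (P.cons (P.lf 0 8043112 0) (P.cons (P.lf 3877937 0 0) (P.cons (P.lf 0 106451 0) (P.cons (P.lf 0 18886 0) P.nil)))))) 1845)
 (EL.cons 8 (TM.mk (P.cons (P.lf 904046202 0 0) (P.cons (P.lf 74614324 0 0) (P.cons (P.lf 0 25318286 0) (P.cons (P.lf 156499 0 0) (P.cons (P.lf 174949 0 0) (P.cons (P.lf 0 8365 0) P.nil)))))) 1031)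
 EL.nil))
noncomputable def S314_343_364_438_16 : EL := (EL.cons 4 (TM.mk (P.cons (P.cons (P.lf 0 41813760 0) (P.cons (P.lf 54336738 0 0) (P.cons (P.lf 2973086 0 0) (P.lf 0 330342 0)))) (P.cons (P.cons (P.lf 0 36269552 0) (P.cons (P.lf 4566958 0 0) (P.cons (P.lf 249885 0 0) (P.lf 0 27764 0)))) (P.cons (P.cons (P.lf 0 26469093 0) (P.cons (P.lf 0 3679770 0) (P.cons (P.lf 0 201342 0) (P.lf 22370 0 0)))) (P.cons (P.cons (P.lf 0 5295624 0) (P.cons (P.lf 0 35726 0) (P.cons (P.lf 0 1954 0) P.nil))) (P.cons (P.cons (P.lf 446595 0 0) (P.cons (P.lf 102185 0 0) P.nil)) (P.cons (P.cons (P.lf 127360 0 0) P.nil) P.nil)))))) 43246)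
 (EL.cons 8 (TM.mk (P.cons (P.cons (P.lf 35424958 0 0) (P.cons (P.lf 0 46034528 0) (P.cons (P.lf 0 2518823 0) (P.lf 279868 0 0)))) (P.cons (P.cons (P.lf 22063964 0 0) (P.cons (P.lf 7389518 0 0) (P.cons (P.lf 404324 0 0) (P.lf 0 44924 0)))) (P.cons (P.cons (P.lf 16484595 0 0) (P.cons (P.lf 2017255 0 0) (P.cons (P.lf 110375 0 0) (P.lf 0 12263 0)))) (P.cons (P.cons (P.lf 53137 0 0) (P.cons (P.lf 0 494887 0) (P.cons (P.lf 0 27077 0) P.nil))) (P.cons (P.cons (P.lf 0 688899 0) (P.cons (P.lf 0 2839 0) P.nil)) (P.cons (P.cons (P.lf 26746 0 0) P.nil) P.nil)))))) 33050)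
 EL.nil))
noncomputable def S314_343_364_438_17 : EL := (EL.cons 4 (TM.mk (P.cons (P.cons (P.lf 0 1638467 0) (P.cons (P.lf 4258358 0 0) (P.cons (P.lf 0 2533855 0) (P.cons (P.lf 0 328670 0) (P.cons (P.lf 25358 0 0) (P.cons (P.lf 1840 0 0) P.nil)))))) (P.cons (P.cons (P.lf 0 2306487 0) (P.cons (P.lf 2658715 0 0) (P.cons (P.lf 585420 0 0) (P.cons (P.lf 31980 0 0) (P.cons (P.lf 0 4031 0) P.nil))))) (P.cons (P.cons (P.lf 0 2540340 0) (P.cons (P.lf 1815939 0 0) (P.cons (P.lf 331513 0 0) (P.cons (P.lf 14364 0 0) P.nil)))) (P.cons (P.cons (P.lf 0 1371960 0) (P.cons (P.lf 0 85632 0) (P.cons (P.lf 0 58858 0) P.nil))) (P.cons (P.cons (P.lf 0 521850 0) (P.cons (P.lf 0 153565 0) P.nil)) (P.cons (P.cons (P.lf 0 50307 0) P.nil) P.nil)))))) 142222)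
 (EL.cons 8 (TM.mk (P.cons (P.cons (P.lf 1388122 0 0) (P.cons (P.lf 0 3607716 0) (P.cons (P.lf 2146703 0 0) (P.cons (P.lf 278452 0 0) (P.cons (P.lf 0 21484 0) (P.cons (P.lf 0 1559 0) P.nil)))))) (P.cons (P.cons (P.lf 1614581 0 0) (P.cons (P.lf 0 1370144 0) (P.cons (P.lf 0 1020992 0) (P.cons (P.lf 0 95195 0) (P.cons (P.lf 8670 0 0) P.nil))))) (P.cons (P.cons (P.lf 1736000 0 0) (P.cons (P.lf 0 1147975 0) (P.cons (P.lf 0 64124 0) (P.cons (P.lf 6835 0 0) P.nil)))) (P.cons (P.cons (P.lf 710501 0 0) (P.cons (P.lf 380753 0 0) (P.cons (P.lf 77418 0 0) P.nil))) (P.cons (P.cons (P.lf 238617 0 0) (P.cons (P.lf 57574 0 0) P.nil)) (P.cons (P.cons (P.lf 0 29988 0) P.nil) P.nil)))))) 107204)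
 EL.nil))
noncomputable def S314_343_364_438_18 : EL := (EL.cons 4 (TM.mk (P.cons (P.lf 0 549332354 0) (P.cons (P.lf 0 269533349 0) (P.cons (P.lf 0 28252205 0) (P.cons (P.lf 3180359 0 0) (P.cons (P.lf 331524 0 0) (P.cons (P.lf 0 44357 0) P.nil)))))) 4415)
 (EL.cons 8 (TM.mk (P.cons (P.lf 465398850 0 0) (P.cons (P.lf 114528063 0 0) (P.cons (P.lf 0 11222106 0) (P.cons (P.lf 0 2534590 0) (P.cons (P.lf 239457 0 0) (P.cons (P.lf 14216 0 0) P.nil)))))) 3029)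
 EL.nil))
noncomputable def S314_343_364_438_19 : EL := (EL.cons 4 (TM.mk (P.cons (P.cons (P.lf 0 21525531 0) (P.cons (P.lf 27972304 0 0) (P.cons (P.lf 1530531 0 0) (P.lf 0 170057 0)))) (P.cons (P.cons (P.lf 0 22191945 0) (P.cons (P.lf 6925977 0 0) (P.cons (P.lf 378960 0 0) (P.lf 0 42105 0)))) (P.cons (P.cons (P.lf 0 16473142 0) (P.cons (P.lf 0 1778509 0) (P.cons (P.lf 0 97312 0) (P.lf 10812 0 0)))) (P.cons (P.cons (P.lf 0 4770100 0) (P.cons (P.lf 0 357677 0) (P.cons (P.lf 0 19570 0) P.nil))) (P.cons (P.cons (P.lf 0 81425 0) (P.cons (P.lf 68445 0 0) P.nil)) (P.cons (P.cons (P.lf 131898 0 0) P.nil) P.nil)))))) 56168)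
 (EL.cons 8 (TM.mk (P.cons (P.cons (P.lf 18236606 0 0) (P.cons (P.lf 0 23698364 0) (P.cons (P.lf 0 1296678 0) (P.lf 144075 0 0)))) (P.cons (P.cons (P.lf 14341062 0 0) (P.cons (P.lf 0 71826 0) (P.cons (P.lf 0 3929 0) (P.lf 436 0 0)))) (P.cons (P.cons (P.lf 10168709 0 0) (P.cons (P.lf 1888285 0 0) (P.cons (P.lf 103319 0 0) (P.lf 0 11479 0)))) (P.cons (P.cons (P.lf 1301695 0 0) (P.cons (P.lf 0 115633 0) (P.cons (P.lf 0 6327 0) P.nil))) (P.cons (P.cons (P.lf 0 433678 0) (P.cons (P.lf 0 55082 0) P.nil)) (P.cons (P.cons (P.lf 0 46097 0) P.nil) P.nil)))))) 33997)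
 EL.nil))
noncomputable def S314_343_364_438_20 : EL := (EL.cons 4 (TM.mk (P.cons (P.cons (P.lf 0 843475 0) (P.cons (P.lf 2192183 0 0) (P.cons (P.lf 0 1304416 0) (P.cons (P.lf 0 169198 0) (P.cons (P.lf 13053 0 0) (P.cons (P.lf 946 0 0) P.nil)))))) (P.cons (P.cons (P.lf 0 1325321 0) (P.cons (P.lf 1727230 0 0) (P.cons (P.lf 88031 0 0) (P.cons (P.lf 0 11208 0) (P.cons (P.lf 59 0 0) P.nil))))) (P.cons (P.cons (P.lf 0 1493850 0) (P.cons (P.lf 1137631 0 0) (P.cons (P.lf 232481 0 0) (P.cons (P.lf 11712 0 0) P.nil)))) (P.cons (P.cons (P.lf 0 908550 0) (P.cons (P.lf 95124 0 0) (P.cons (P.lf 0 4962 0) P.nil))) (P.cons (P.cons (P.lf 0 371341 0) (P.cons (P.lf 0 95484 0) P.nil)) (P.cons (P.cons (P.lf 0 62780 0) P.nil) P.nil)))))) 126776)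
 (EL.cons 8 (TM.mk (P.cons (P.cons (P.lf 714599 0 0) (P.cons (P.lf 0 1857235 0) (P.cons (P.lf 1105112 0 0) (P.cons (P.lf 143346 0 0) (P.cons (P.lf 0 11059 0) (P.cons (P.lf 0 802 0) P.nil)))))) (P.cons (P.cons (P.lf 948053 0 0) (P.cons (P.lf 0 1009098 0) (P.cons (P.lf 0 344858 0) (P.cons (P.lf 0 25561 0) (P.cons (P.lf 2654 0 0) P.nil))))) (P.cons (P.cons (P.lf 1022761 0 0) (P.cons (P.lf 0 688492 0) (P.cons (P.lf 0 129589 0) (P.cons (P.lf 0 5872 0) P.nil)))) (P.cons (P.cons (P.lf 503767 0 0) (P.cons (P.lf 106587 0 0) (P.cons (P.lf 39232 0 0) P.nil))) (P.cons (P.cons (P.lf 173902 0 0) (P.cons (P.lf 67465 0 0) P.nil)) (P.cons (P.cons (P.lf 955 0 0) P.nil) P.nil)))))) 81443)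
 EL.nil))
noncomputable def S314_343_364_438_21 : EL := (EL.cons 4 (TM.mk (P.cons (P.cons (P.lf 0 541674738 0) (P.cons (P.lf 0 316650474 0) (P.cons (P.lf 0 17325834 0) (P.lf 1925088 0 0)))) (P.cons (P.cons (P.lf 0 875637573 0) (P.cons (P.lf 25174626 0 0) (P.cons (P.lf 1377450 0 0) (P.lf 0 153045 0)))) (P.cons (P.cons (P.lf 104410746 0 0) (P.cons (P.lf 14284989 0 0) (P.cons (P.lf 781614 0 0) (P.lf 0 86844 0)))) (P.cons (P.cons (P.lf 23178825 0 0) (P.cons (P.lf 0 1964208 0) (P.cons (P.lf 0 107469 0) P.nil))) (P.cons (P.cons (P.lf 0 3543903 0) (P.cons (P.lf 0 116907 0) P.nil)) (P.cons (P.cons (P.lf 0 136326 0) P.nil) P.nil)))))) 137268)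
 (EL.cons 8 (TM.mk (P.cons (P.cons (P.lf 0 227329566 0) (P.cons (P.lf 0 132891597 0) (P.cons (P.lf 0 7271298 0) (P.lf 807924 0 0)))) (P.cons (P.cons (P.lf 0 423084879 0) (P.cons (P.lf 0 21936078 0) (P.cons (P.lf 0 1200252 0) (P.lf 133359 0 0)))) (P.cons (P.cons (P.lf 0 49548627 0) (P.cons (P.lf 6538161 0 0) (P.cons (P.lf 357738 0 0) (P.lf 0 39747 0)))) (P.cons (P.cons (P.lf 14397357 0 0) (P.cons (P.lf 568320 0 0) (P.cons (P.lf 31095 0 0) P.nil))) (P.cons (P.cons (P.lf 879078 0 0) (P.cons (P.lf 0 159456 0) P.nil)) (P.cons (P.cons (P.lf 0 251319 0) P.nil) P.nil)))))) 86772)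
 (EL.cons 11 (TM.mk (P.cons (P.cons (P.lf 1806912642 0 0) (P.cons (P.lf 226724115 0 0) (P.cons (P.lf 0 34614906 0) (P.cons (P.lf 0 1057479 0) (P.lf 88122 0 0))))) (P.cons (P.cons (P.lf 0 292786086 0) (P.cons (P.lf 0 36737616 0) (P.cons (P.lf 5608884 0 0) (P.cons (P.lf 171348 0 0) (P.lf 0 14277 0))))) (P.cons (P.cons (P.lf 0 6746640 0) (P.cons (P.lf 0 846540 0) (P.cons (P.lf 129243 0 0) (P.cons (P.lf 3948 0 0) P.nil)))) (P.cons (P.cons (P.lf 3252855 0 0) (P.cons (P.lf 408153 0 0) (P.cons (P.lf 0 62313 0) P.nil))) (P.cons (P.cons (P.lf 0 89295 0) (P.cons (P.lf 0 11202 0) P.nil)) (P.cons (P.cons (P.lf 0 15840 0) P.nil) P.nil)))))) 8241)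
 EL.nil)))
noncomputable def S314_343_364_438_22 : EL := (EL.cons 4 (TM.mk (P.cons (P.cons (P.lf 0 21225468 0) (P.cons (P.lf 15174456 0 0) (P.cons (P.lf 16954299 0 0) (P.cons (P.lf 1672227 0 0) (P.cons (P.lf 0 147780 0) (P.cons (P.lf 0 10725 0) P.nil)))))) (P.cons (P.cons (P.lf 0 45779952 0) (P.cons (P.lf 32166342 0 0) (P.cons (P.lf 0 3440913 0) (P.cons (P.lf 0 764703 0) (P.cons (P.lf 47667 0 0) P.nil))))) (P.cons (P.cons (P.lf 0 23972370 0) (P.cons (P.lf 0 20512194 0) (P.cons (P.lf 0 1469718 0) (P.cons (P.lf 86691 0 0) P.nil)))) (P.cons (P.cons (P.lf 0 11841825 0) (P.cons (P.lf 1319064 0 0) (P.cons (P.lf 398691 0 0) P.nil))) (P.cons (P.cons (P.lf 3010002 0 0) (P.cons (P.lf 842835 0 0) P.nil)) (P.cons (P.cons (P.lf 420927 0 0) P.nil) P.nil)))))) 535803)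
 (EL.cons 8 (TM.mk (P.cons (P.cons (P.lf 0 8907885 0) (P.cons (P.lf 6368400 0 0) (P.cons (P.lf 7115364 0 0) (P.cons (P.lf 701799 0 0) (P.cons (P.lf 0 62019 0) (P.cons (P.lf 0 4500 0) P.nil)))))) (P.cons (P.cons (P.lf 0 21391494 0) (P.cons (P.lf 15057063 0 0) (P.cons (P.lf 296127 0 0) (P.cons (P.lf 0 149289 0) (P.cons (P.lf 4836 0 0) P.nil))))) (P.cons (P.cons (P.lf 0 14896410 0) (P.cons (P.lf 0 5209146 0) (P.cons (P.lf 0 860712 0) (P.cons (P.lf 0 31329 0) P.nil)))) (P.cons (P.cons (P.lf 0 7741188 0) (P.cons (P.lf 0 1333185 0) (P.cons (P.lf 6918 0 0) P.nil))) (P.cons (P.cons (P.lf 0 142140 0) (P.cons (P.lf 381798 0 0) P.nil)) (P.cons (P.cons (P.lf 388461 0 0) P.nil) P.nil)))))) 260094)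
 (EL.cons 11 (TM.mk (P.cons (P.cons (P.lf 70803687 0 0) (P.cons (P.lf 0 83124822 0) (P.cons (P.lf 0 17935656 0) (P.cons (P.lf 1648851 0 0) (P.cons (P.lf 223929 0 0) (P.cons (P.lf 0 12255 0) P.nil)))))) (P.cons (P.cons (P.lf 26782647 0 0) (P.cons (P.lf 40632648 0 0) (P.cons (P.lf 6203052 0 0) (P.cons (P.lf 0 700395 0) (P.cons (P.lf 0 88005 0) P.nil))))) (P.cons (P.cons (P.lf 25310058 0 0) (P.cons (P.lf 0 494919 0) (P.cons (P.lf 0 1146297 0) (P.cons (P.lf 52620 0 0) P.nil)))) (P.cons (P.cons (P.lf 0 6620847 0) (P.cons (P.lf 0 1331271 0) (P.cons (P.lf 36645 0 0) P.nil))) (P.cons (P.cons (P.lf 0 204312 0) (P.cons (P.lf 94905 0 0) P.nil)) (P.cons (P.cons (P.lf 155214 0 0) P.nil) P.nil)))))) 147960)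
 EL.nil)))
noncomputable def S314_343_364_438_23 : EL := (EL.cons 4 (TM.mk (P.cons (P.cons (P.lf 0 278851677 0) (P.cons (P.lf 0 163010214 0) (P.cons (P.lf 0 8919258 0) (P.lf 991026 0 0)))) (P.cons (P.cons (P.lf 0 496380990 0) (P.cons (P.lf 0 13700877 0) (P.cons (P.lf 0 749658 0) (P.lf 83295 0 0)))) (P.cons (P.cons (P.lf 0 17296257 0) (P.cons (P.lf 11039310 0 0) (P.cons (P.lf 604023 0 0) (P.lf 0 67110 0)))) (P.cons (P.cons (P.lf 25122003 0 0) (P.cons (P.lf 107178 0 0) (P.cons (P.lf 5865 0 0) P.nil))) (P.cons (P.cons (P.lf 0 290517 0) (P.cons (P.lf 0 306558 0) P.nil)) (P.cons (P.cons (P.lf 0 516030 0) P.nil) P.nil)))))) 165906)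
 (EL.cons 8 (TM.mk (P.cons (P.cons (P.lf 0 117028221 0) (P.cons (P.lf 0 68411985 0) (P.cons (P.lf 0 3743229 0) (P.lf 415914 0 0)))) (P.cons (P.cons (P.lf 0 236942370 0) (P.cons (P.lf 0 22481514 0) (P.cons (P.lf 0 1230096 0) (P.lf 136674 0 0)))) (P.cons (P.cons (P.lf 0 60005238 0) (P.cons (P.lf 2176047 0 0) (P.cons (P.lf 119061 0 0) (P.lf 0 13227 0)))) (P.cons (P.cons (P.lf 5360883 0 0) (P.cons (P.lf 968358 0 0) (P.cons (P.lf 52983 0 0) P.nil))) (P.cons (P.cons (P.lf 1958196 0 0) (P.cons (P.lf 0 66798 0) P.nil)) (P.cons (P.cons (P.lf 0 129780 0) P.nil) P.nil)))))) 110907)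
 (EL.cons 11 (TM.mk (P.cons (P.cons (P.lf 930190365 0 0) (P.cons (P.lf 116716536 0 0) (P.cons (P.lf 0 17819595 0) (P.cons (P.lf 0 544383 0) (P.lf 45363 0 0))))) (P.cons (P.cons (P.lf 1409631 0 0) (P.cons (P.lf 176874 0 0) (P.cons (P.lf 0 27003 0) (P.cons (P.lf 0 825 0) (P.lf 69 0 0))))) (P.cons (P.cons (P.lf 0 37059852 0) (P.cons (P.lf 0 4650120 0) (P.cons (P.lf 709950 0 0) (P.cons (P.lf 21687 0 0) P.nil)))) (P.cons (P.cons (P.lf 2325543 0 0) (P.cons (P.lf 291798 0 0) (P.cons (P.lf 0 44547 0) P.nil))) (P.cons (P.cons (P.lf 339252 0 0) (P.cons (P.lf 42567 0 0) P.nil)) (P.cons (P.cons (P.lf 0 38187 0) P.nil) P.nil)))))) 23046)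
 EL.nil)))
noncomputable def S314_343_364_438_24 : EL := (EL.cons 4 (TM.mk (P.cons (P.cons (P.lf 0 10926774 0) (P.cons (P.lf 7811739 0 0) (P.cons (P.lf 8727996 0 0) (P.cons (P.lf 860853 0 0) (P.cons (P.lf 0 76074 0) (P.cons (P.lf 0 5520 0) P.nil)))))) (P.cons (P.cons (P.lf 0 25354407 0) (P.cons (P.lf 17836710 0 0) (P.cons (P.lf 0 343884 0) (P.cons (P.lf 0 252870 0) (P.cons (P.lf 12096 0 0) P.nil))))) (P.cons (P.cons (P.lf 0 16090386 0) (P.cons (P.lf 0 7926348 0) (P.cons (P.lf 0 1130154 0) (P.cons (P.lf 0 28026 0) P.nil)))) (P.cons (P.cons (P.lf 0 7885416 0) (P.cons (P.lf 0 1208979 0) (P.cons (P.lf 96369 0 0) P.nil))) (P.cons (P.cons (P.lf 676365 0 0) (P.cons (P.lf 642651 0 0) P.nil)) (P.cons (P.cons (P.lf 530685 0 0) P.nil) P.nil)))))) 405861)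
 (EL.cons 8 (TM.mk (P.cons (P.cons (P.lf 0 4585737 0) (P.cons (P.lf 3278424 0 0) (P.cons (P.lf 3662955 0 0) (P.cons (P.lf 361281 0 0) (P.cons (P.lf 0 31926 0) (P.cons (P.lf 0 2316 0) P.nil)))))) (P.cons (P.cons (P.lf 0 11762250 0) (P.cons (P.lf 8287500 0 0) (P.cons (P.lf 751527 0 0) (P.cons (P.lf 0 17763 0) (P.cons (P.lf 0 2730 0) P.nil))))) (P.cons (P.cons (P.lf 0 9425628 0) (P.cons (P.lf 0 1445394 0) (P.cons (P.lf 0 453345 0) (P.cons (P.lf 0 32166 0) P.nil)))) (P.cons (P.cons (P.lf 0 5132433 0) (P.cons (P.lf 0 1200171 0) (P.cons (P.lf 0 71271 0) P.nil))) (P.cons (P.cons (P.lf 0 648777 0) (P.cons (P.lf 108297 0 0) P.nil)) (P.cons (P.cons (P.lf 227697 0 0) P.nil) P.nil)))))) 205530)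
 (EL.cons 11 (TM.mk (P.cons (P.cons (P.lf 36449412 0 0) (P.cons (P.lf 0 42792276 0) (P.cons (P.lf 0 9233193 0) (P.cons (P.lf 848820 0 0) (P.cons (P.lf 115278 0 0) (P.cons (P.lf 0 6309 0) P.nil)))))) (P.cons (P.cons (P.lf 19748961 0 0) (P.cons (P.lf 13918734 0 0) (P.cons (P.lf 1683192 0 0) (P.cons (P.lf 0 221733 0) (P.cons (P.lf 0 26451 0) P.nil))))) (P.cons (P.cons (P.lf 14934360 0 0) (P.cons (P.lf 3577377 0 0) (P.cons (P.lf 20853 0 0) (P.cons (P.lf 0 40032 0) P.nil)))) (P.cons (P.cons (P.lf 0 1418787 0) (P.cons (P.lf 0 917406 0) (P.cons (P.lf 0 106050 0) P.nil))) (P.cons (P.cons (P.lf 0 789576 0) (P.cons (P.lf 0 67809 0) P.nil)) (P.cons (P.cons (P.lf 92817 0 0) P.nil) P.nil)))))) 139113)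
 EL.nil)))
noncomputable def S314_343_364_438_25 : EL := (EL.cons 4 (TM.mk (P.cons (P.cons (P.lf 0 143551566 0) (P.cons (P.lf 0 83916912 0) (P.cons (P.lf 0 4591593 0) (P.lf 510174 0 0)))) (P.cons (P.cons (P.lf 0 279012819 0) (P.cons (P.lf 0 20777934 0) (P.cons (P.lf 0 1136883 0) (P.lf 126321 0 0)))) (P.cons (P.cons (P.lf 0 49318314 0) (P.cons (P.lf 5335527 0 0) (P.cons (P.lf 291936 0 0) (P.lf 0 32436 0)))) (P.cons (P.cons (P.lf 13966377 0 0) (P.cons (P.lf 1073034 0 0) (P.cons (P.lf 58713 0 0) P.nil))) (P.cons (P.cons (P.lf 2107689 0 0) (P.cons (P.lf 0 205335 0) P.nil)) (P.cons (P.cons (P.lf 0 423285 0) P.nil) P.nil)))))) 159732)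
 (EL.cons 8 (TM.mk (P.cons (P.cons (P.lf 0 60245592 0) (P.cons (P.lf 0 35218176 0) (P.cons (P.lf 0 1926996 0) (P.lf 214110 0 0)))) (P.cons (P.cons (P.lf 0 131830140 0) (P.cons (P.lf 0 17333385 0) (P.cons (P.lf 0 948411 0) (P.lf 105378 0 0)))) (P.cons (P.cons (P.lf 0 50261274 0) (P.cons (P.lf 0 434325 0) (P.cons (P.lf 0 23763 0) (P.lf 2640 0 0)))) (P.cons (P.cons (P.lf 0 1105914 0) (P.cons (P.lf 801555 0 0) (P.cons (P.lf 43857 0 0) P.nil))) (P.cons (P.cons (P.lf 1783521 0 0) (P.cons (P.lf 37680 0 0) P.nil)) (P.cons (P.cons (P.lf 73827 0 0) P.nil) P.nil)))))) 108099)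
 (EL.cons 11 (TM.mk (P.cons (P.cons (P.lf 478857744 0 0) (P.cons (P.lf 60085137 0 0) (P.cons (P.lf 0 9173445 0) (P.cons (P.lf 0 280245 0) (P.lf 23352 0 0))))) (P.cons (P.cons (P.lf 79043850 0 0) (P.cons (P.lf 9918102 0 0) (P.cons (P.lf 0 1514235 0) (P.cons (P.lf 0 46260 0) (P.lf 3855 0 0))))) (P.cons (P.cons (P.lf 0 23559429 0) (P.cons (P.lf 0 2956140 0) (P.cons (P.lf 451323 0 0) (P.cons (P.lf 13785 0 0) P.nil)))) (P.cons (P.cons (P.lf 0 2047872 0) (P.cons (P.lf 0 256959 0) (P.cons (P.lf 39231 0 0) P.nil))) (P.cons (P.cons (P.lf 574590 0 0) (P.cons (P.lf 72096 0 0) P.nil)) (P.cons (P.cons (P.lf 1791 0 0) P.nil) P.nil)))))) 31959)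
 EL.nil)))
noncomputable def S314_343_364_438_26 : EL := (EL.cons 4 (TM.mk (P.cons (P.cons (P.lf 0 5625051 0) (P.cons (P.lf 4021446 0 0) (P.cons (P.lf 4493130 0 0) (P.cons (P.lf 443163 0 0) (P.cons (P.lf 0 39162 0) (P.cons (P.lf 0 2841 0) P.nil)))))) (P.cons (P.cons (P.lf 0 13972320 0) (P.cons (P.lf 9839973 0 0) (P.cons (P.lf 557829 0 0) (P.cons (P.lf 0 57696 0) (P.cons (P.lf 0 177 0) P.nil))))) (P.cons (P.cons (P.lf 0 10363959 0) (P.cons (P.lf 0 2617299 0) (P.cons (P.lf 0 653913 0) (P.cons (P.lf 0 39975 0) P.nil)))) (P.cons (P.cons (P.lf 0 5287356 0) (P.cons (P.lf 0 1378935 0) (P.cons (P.lf 0 44946 0) P.nil))) (P.cons (P.cons (P.lf 0 233196 0) (P.cons (P.lf 266157 0 0) P.nil)) (P.cons (P.cons (P.lf 370602 0 0) P.nil) P.nil)))))) 329985)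
 (EL.cons 8 (TM.mk (P.cons (P.cons (P.lf 0 2360715 0) (P.cons (P.lf 1687716 0 0) (P.cons (P.lf 1885671 0 0) (P.cons (P.lf 185985 0 0) (P.cons (P.lf 0 16434 0) (P.cons (P.lf 0 1191 0) P.nil)))))) (P.cons (P.cons (P.lf 0 6441252 0) (P.cons (P.lf 4542396 0 0) (P.cons (P.lf 695289 0 0) (P.cons (P.lf 21270 0 0) (P.cons (P.lf 0 4092 0) P.nil))))) (P.cons (P.cons (P.lf 0 5819925 0) (P.cons (P.lf 0 62520 0) (P.cons (P.lf 0 188217 0) (P.cons (P.lf 0 19842 0) P.nil)))) (P.cons (P.cons (P.lf 0 3377004 0) (P.cons (P.lf 0 780936 0) (P.cons (P.lf 0 79038 0) P.nil))) (P.cons (P.cons (P.lf 0 718119 0) (P.cons (P.lf 0 39126 0) P.nil)) (P.cons (P.cons (P.lf 88902 0 0) P.nil) P.nil)))))) 164892)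
 (EL.cons 11 (TM.mk (P.cons (P.cons (P.lf 18763992 0 0) (P.cons (P.lf 0 22029267 0) (P.cons (P.lf 0 4753206 0) (P.cons (P.lf 436968 0 0) (P.cons (P.lf 59343 0 0) (P.cons (P.lf 0 3246 0) P.nil)))))) (P.cons (P.cons (P.lf 13235565 0 0) (P.cons (P.lf 3562368 0 0) (P.cons (P.lf 89103 0 0) (P.cons (P.lf 0 42681 0) (P.cons (P.lf 0 3909 0) P.nil))))) (P.cons (P.cons (P.lf 9170673 0 0) (P.cons (P.lf 3225126 0 0) (P.cons (P.lf 198111 0 0) (P.cons (P.lf 0 43473 0) P.nil)))) (P.cons (P.cons (P.lf 424746 0 0) (P.cons (P.lf 0 234486 0) (P.cons (P.lf 0 59991 0) P.nil))) (P.cons (P.cons (P.lf 0 601452 0) (P.cons (P.lf 0 132570 0) P.nil)) (P.cons (P.cons (P.lf 0 13137 0) P.nil) P.nil)))))) 119385)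
 EL.nil)))
noncomputable def S314_343_364_438_27 : EL := (EL.cons 13 (TM.mk (P.lf 0 4294967296 0) 0)
 EL.nil)
noncomputable def S314_343_364_438_28 : EL := (EL.cons 13 (TM.mk (P.cons (P.cons (P.lf 0 168297857 0) (P.cons (P.lf 218702092 0 0) (P.cons (P.lf 11966496 0 0) (P.lf 0 1329608 0)))) (P.cons (P.cons (P.lf 0 90931831 0) (P.cons (P.lf 0 53156632 0) (P.cons (P.lf 0 2908516 0) (P.lf 323168 0 0)))) (P.cons (P.cons (P.lf 0 75523791 0) (P.cons (P.lf 928448 0 0) (P.cons (P.lf 50800 0 0) (P.lf 0 5644 0)))) (P.cons (P.cons (P.lf 3463352 0 0) (P.cons (P.lf 747960 0 0) (P.cons (P.lf 40924 0 0) P.nil))) (P.cons (P.cons (P.lf 920229 0 0) (P.cons (P.lf 0 55360 0) P.nil)) (P.cons (P.cons (P.lf 0 76910 0) P.nil) P.nil)))))) 26065)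
 EL.nil)
noncomputable def S314_343_364_438_29 : EL := (EL.cons 13 (TM.mk (P.cons (P.cons (P.lf 0 6594734 0) (P.cons (P.lf 17139638 0 0) (P.cons (P.lf 0 10198618 0) (P.cons (P.lf 0 1322882 0) (P.cons (P.lf 102068 0 0) (P.cons (P.lf 7409 0 0) P.nil)))))) (P.cons (P.cons (P.lf 0 7126309 0) (P.cons (P.lf 5094723 0 0) (P.cons (P.lf 5692292 0 0) (P.cons (P.lf 561439 0 0) (P.cons (P.lf 0 49616 0) P.nil))))) (P.cons (P.cons (P.lf 0 7843967 0) (P.cons (P.lf 5513353 0 0) (P.cons (P.lf 0 450778 0) (P.cons (P.lf 0 115860 0) P.nil)))) (P.cons (P.cons (P.lf 0 2926514 0) (P.cons (P.lf 0 2124219 0) (P.cons (P.lf 0 169420 0) P.nil))) (P.cons (P.cons (P.lf 0 1109261 0) (P.cons (P.lf 51995 0 0) P.nil)) (P.cons (P.cons (P.lf 154739 0 0) P.nil) P.nil)))))) 206323)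
 EL.nil)
noncomputable def S314_343_364_438_30 : EL := (EL.cons 13 (TM.mk (P.cons (P.lf 0 2211029524 0) (P.cons (P.lf 0 361618480 0) (P.cons (P.lf 21238980 0 0) (P.cons (P.lf 543904 0 0) (P.cons (P.lf 0 97232 0) (P.cons (P.lf 1560 0 0) P.nil)))))) 512)
 EL.nil)
noncomputable def S314_343_364_438_31 : EL := (EL.cons 13 (TM.mk (P.cons (P.cons (P.lf 0 86638967 0) (P.cons (P.lf 112586836 0 0) (P.cons (P.lf 6160297 0 0) (P.lf 0 684476 0)))) (P.cons (P.cons (P.lf 0 60981274 0) (P.cons (P.lf 0 8950979 0) (P.cons (P.lf 0 489761 0) (P.lf 54417 0 0)))) (P.cons (P.cons (P.lf 0 45703139 0) (P.cons (P.lf 0 5079108 0) (P.cons (P.lf 0 277908 0) (P.lf 30878 0 0)))) (P.cons (P.cons (P.lf 0 4104894 0) (P.cons (P.lf 698386 0 0) (P.cons (P.lf 38212 0 0) P.nil))) (P.cons (P.cons (P.lf 1146506 0 0) (P.cons (P.lf 41567 0 0) P.nil)) (P.cons (P.cons (P.lf 28326 0 0) P.nil) P.nil)))))) 46851)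
 EL.nil)
noncomputable def S314_343_364_438_32 : EL := (EL.cons 13 (TM.mk (P.cons (P.cons (P.lf 0 3394938 0) (P.cons (P.lf 8823407 0 0) (P.cons (P.lf 0 5250201 0) (P.cons (P.lf 0 681013 0) (P.cons (P.lf 52544 0 0) (P.cons (P.lf 3814 0 0) P.nil)))))) (P.cons (P.cons (P.lf 0 4223840 0) (P.cons (P.lf 4065826 0 0) (P.cons (P.lf 2071684 0 0) (P.cons (P.lf 177645 0 0) (P.cons (P.lf 0 16948 0) P.nil))))) (P.cons (P.cons (P.lf 0 4605432 0) (P.cons (P.lf 3182446 0 0) (P.cons (P.lf 297642 0 0) (P.cons (P.lf 0 5831 0) P.nil)))) (P.cons (P.cons (P.lf 0 2130910 0) (P.cons (P.lf 0 656701 0) (P.cons (P.lf 0 152027 0) P.nil))) (P.cons (P.cons (P.lf 0 777900 0) (P.cons (P.lf 0 179604 0) P.nil)) (P.cons (P.cons (P.lf 1570 0 0) P.nil) P.nil)))))) 198696)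
 EL.nil)
noncomputable def S314_343_364_438_33 : EL := (EL.cons 14 (TM.mk (P.lf 8589934592 0 0) 0)
 EL.nil)
noncomputable def S314_343_364_438_34 : EL := (EL.cons 14 (TM.mk (P.cons (P.cons (P.lf 336595714 0 0) (P.cons (P.lf 0 437404184 0) (P.cons (P.lf 0 23932992 0) (P.lf 2659216 0 0)))) (P.cons (P.cons (P.lf 181863662 0 0) (P.cons (P.lf 106313264 0 0) (P.cons (P.lf 5817032 0 0) (P.lf 0 646336 0)))) (P.cons (P.cons (P.lf 151047582 0 0) (P.cons (P.lf 0 1856896 0) (P.cons (P.lf 0 101600 0) (P.lf 11288 0 0)))) (P.cons (P.cons (P.lf 0 6926704 0) (P.cons (P.lf 0 1495920 0) (P.cons (P.lf 0 81848 0) P.nil))) (P.cons (P.cons (P.lf 0 1840458 0) (P.cons (P.lf 110720 0 0) P.nil)) (P.cons (P.cons (P.lf 153820 0 0) P.nil) P.nil)))))) 52130)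
 EL.nil)
noncomputable def S314_343_364_438_35 : EL := (EL.cons 14 (TM.mk (P.cons (P.cons (P.lf 13189468 0 0) (P.cons (P.lf 0 34279276 0) (P.cons (P.lf 20397236 0 0) (P.cons (P.lf 2645764 0 0) (P.cons (P.lf 0 204136 0) (P.cons (P.lf 0 14818 0) P.nil)))))) (P.cons (P.cons (P.lf 14252618 0 0) (P.cons (P.lf 0 10189446 0) (P.cons (P.lf 0 11384584 0) (P.cons (P.lf 0 1122878 0) (P.cons (P.lf 99232 0 0) P.nil))))) (P.cons (P.cons (P.lf 15687934 0 0) (P.cons (P.lf 0 11026706 0) (P.cons (P.lf 901556 0 0) (P.cons (P.lf 231720 0 0) P.nil)))) (P.cons (P.cons (P.lf 5853028 0 0) (P.cons (P.lf 4248438 0 0) (P.cons (P.lf 338840 0 0) P.nil))) (P.cons (P.cons (P.lf 2218522 0 0) (P.cons (P.lf 0 103990 0) P.nil)) (P.cons (P.cons (P.lf 0 309478 0) P.nil) P.nil)))))) 412646)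
 EL.nil)
noncomputable def S314_343_364_438_36 : EL := (EL.cons 14 (TM.mk (P.cons (P.lf 4422059048 0 0) (P.cons (P.lf 723236960 0 0) (P.cons (P.lf 0 42477960 0) (P.cons (P.lf 0 1087808 0) (P.cons (P.lf 194464 0 0) (P.cons (P.lf 0 3120 0) P.nil)))))) 1024)
 EL.nil)
noncomputable def S314_343_364_438_37 : EL := (EL.cons 14 (TM.mk (P.cons (P.cons (P.lf 173277934 0 0) (P.cons (P.lf 0 225173672 0) (P.cons (P.lf 0 12320594 0) (P.lf 1368952 0 0)))) (P.cons (P.cons (P.lf 121962548 0 0) (P.cons (P.lf 17901958 0 0) (P.cons (P.lf 979522 0 0) (P.lf 0 108834 0)))) (P.cons (P.cons (P.lf 91406278 0 0) (P.cons (P.lf 10158216 0 0) (P.cons (P.lf 555816 0 0) (P.lf 0 61756 0)))) (P.cons (P.cons (P.lf 8209788 0 0) (P.cons (P.lf 0 1396772 0) (P.cons (P.lf 0 76424 0) P.nil))) (P.cons (P.cons (P.lf 0 2293012 0) (P.cons (P.lf 0 83134 0) P.nil)) (P.cons (P.cons (P.lf 0 56652 0) P.nil) P.nil))))))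 93702)
 EL.nil)
noncomputable def S314_343_364_438_38 : EL := (EL.cons 14 (TM.mk (P.cons (P.cons (P.lf 6789876 0 0) (P.cons (P.lf 0 17646814 0) (P.cons (P.lf 10500402 0 0) (P.cons (P.lf 1362026 0 0) (P.cons (P.lf 0 105088 0) (P.cons (P.lf 0 7628 0) P.nil)))))) (P.cons (P.cons (P.lf 8447680 0 0) (P.cons (P.lf 0 8131652 0) (P.cons (P.lf 0 4143368 0) (P.cons (P.lf 0 355290 0) (P.cons (P.lf 33896 0 0) P.nil))))) (P.cons (P.cons (P.lf 9210864 0 0) (P.cons (P.lf 0 6364892 0) (P.cons (P.lf 0 595284 0) (P.cons (P.lf 11662 0 0) P.nil)))) (P.cons (P.cons (P.lf 4261820 0 0) (P.cons (P.lf 1313402 0 0) (P.cons (P.lf 304054 0 0) P.nil))) (P.cons (P.cons (P.lf 1555800 0 0) (P.cons (P.lf 359208 0 0) P.nil)) (P.cons (P.cons (P.lf 0 3140 0) P.nil) P.nil)))))) 397392)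
 EL.nil)
noncomputable def S314_343_364_438_39 : EL := (EL.cons 14 (TM.mk (P.cons (P.lf 2276455776 0 0) (P.cons (P.lf 744638158 0 0) (P.cons (P.lf 17158640 0 0) (P.cons (P.lf 0 8272934 0) (P.cons (P.lf 227096 0 0) (P.cons (P.lf 40292 0 0) P.nil)))))) 3922)
 EL.nil)
noncomputable def S314_343_364_438_40 : EL := (EL.cons 14 (TM.mk (P.cons (P.cons (P.lf 89202688 0 0) (P.cons (P.lf 0 115918376 0) (P.cons (P.lf 0 6342584 0) (P.lf 704730 0 0)))) (P.cons (P.cons (P.lf 77375046 0 0) (P.cons (P.lf 0 9742844 0) (P.cons (P.lf 0 533088 0) (P.lf 59230 0 0)))) (P.cons (P.cons (P.lf 56467400 0 0) (P.cons (P.lf 7850176 0 0) (P.cons (P.lf 429530 0 0) (P.lf 0 47724 0)))) (P.cons (P.cons (P.lf 11297332 0 0) (P.cons (P.lf 76216 0 0) (P.cons (P.lf 4170 0 0) P.nil))) (P.cons (P.cons (P.lf 0 952736 0) (P.cons (P.lf 0 217996 0) P.nil)) (P.cons (P.cons (P.lf 0 271702 0) P.nil) P.nil)))))) 92218)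
 EL.nil)
noncomputable def S314_343_364_438_41 : EL := (EL.cons 14 (TM.mk (P.cons (P.cons (P.lf 3495398 0 0) (P.cons (P.lf 0 9084498 0) (P.cons (P.lf 5405558 0 0) (P.cons (P.lf 701164 0 0) (P.cons (P.lf 0 54098 0) (P.cons (P.lf 0 3926 0) P.nil)))))) (P.cons (P.cons (P.lf 4920506 0 0) (P.cons (P.lf 0 5671926 0) (P.cons (P.lf 0 1248896 0) (P.cons (P.lf 0 68224 0) (P.cons (P.lf 8600 0 0) P.nil))))) (P.cons (P.cons (P.lf 5419394 0 0) (P.cons (P.lf 0 3874004 0) (P.cons (P.lf 0 707228 0) (P.cons (P.lf 0 30644 0) P.nil)))) (P.cons (P.cons (P.lf 2926848 0 0) (P.cons (P.lf 182682 0 0) (P.cons (P.lf 125564 0 0) P.nil))) (P.cons (P.cons (P.lf 1113282 0 0) (P.cons (P.lf 327606 0 0) P.nil)) (P.cons (P.cons (P.lf 107322 0 0) P.nil) P.nil)))))) 303362)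
 EL.nil)
noncomputable def S314_343_364_438_42 : EL := (EL.cons 14 (TM.mk (P.cons (P.lf 1171909022 0 0) (P.cons (P.lf 575004478 0 0) (P.cons (P.lf 60271372 0 0) (P.cons (P.lf 0 6784766 0) (P.cons (P.lf 0 707252 0) (P.cons (P.lf 94630 0 0) P.nil)))))) 9404)
 EL.nil)
noncomputable def S314_343_364_438_43 : EL := (EL.cons 14 (TM.mk (P.cons (P.cons (P.lf 45921134 0 0) (P.cons (P.lf 0 59674250 0) (P.cons (P.lf 0 3265134 0) (P.lf 362790 0 0)))) (P.cons (P.cons (P.lf 47342816 0 0) (P.cons (P.lf 0 14775418 0) (P.cons (P.lf 0 808450 0) (P.lf 89826 0 0)))) (P.cons (P.cons (P.lf 35142704 0 0) (P.cons (P.lf 3794154 0 0) (P.cons (P.lf 207600 0 0) (P.lf 0 23066 0)))) (P.cons (P.cons (P.lf 10176214 0 0) (P.cons (P.lf 763046 0 0) (P.cons (P.lf 41750 0 0) P.nil))) (P.cons (P.cons (P.lf 173708 0 0) (P.cons (P.lf 0 146016 0) P.nil)) (P.cons (P.cons (P.lf 0 281384 0) P.nil) P.nil))))))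 119786)
 EL.nil)
noncomputable def S314_343_364_438_44 : EL := (EL.cons 14 (TM.mk (P.cons (P.cons (P.lf 1799414 0 0) (P.cons (P.lf 0 4676658 0) (P.cons (P.lf 2782756 0 0) (P.cons (P.lf 360956 0 0) (P.cons (P.lf 0 27848 0) (P.cons (P.lf 0 2020 0) P.nil)))))) (P.cons (P.cons (P.lf 2827352 0 0) (P.cons (P.lf 0 3684758 0) (P.cons (P.lf 0 187800 0) (P.cons (P.lf 23912 0 0) (P.cons (P.lf 0 126 0) P.nil))))) (P.cons (P.cons (P.lf 3186880 0 0) (P.cons (P.lf 0 2426948 0) (P.cons (P.lf 0 495960 0) (P.cons (P.lf 0 24986 0) P.nil)))) (P.cons (P.cons (P.lf 1938242 0 0) (P.cons (P.lf 0 202932 0) (P.cons (P.lf 10586 0 0) P.nil))) (P.cons (P.cons (P.lf 792196 0 0) (P.cons (P.lf 203700 0 0) P.nil)) (P.cons (P.cons (P.lf 133932 0 0) P.nil) P.nil)))))) 270410)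
 EL.nil)
noncomputable def S314_343_364_438_45 : EL := (EL.cons 14 (TM.mk (P.cons (P.cons (P.lf 516826 0 0) (P.cons (P.lf 0 2014844 0) (P.cons (P.lf 2508034 0 0) (P.cons (P.lf 0 835372 0) (P.cons (P.lf 0 210164 0) (P.cons (P.lf 8756 0 0) P.nil)))))) (P.cons (P.cons (P.lf 837730 0 0) (P.cons (P.lf 0 1687534 0) (P.cons (P.lf 49556 0 0) (P.cons (P.lf 852766 0 0) (P.cons (P.lf 134446 0 0) P.nil))))) (P.cons (P.cons (P.lf 1148408 0 0) (P.cons (P.lf 0 1875874 0) (P.cons (P.lf 561538 0 0) (P.cons (P.lf 0 131358 0) P.nil)))) (P.cons (P.cons (P.lf 801476 0 0) (P.cons (P.lf 0 327766 0) (P.cons (P.lf 0 534882 0) P.nil))) (P.cons (P.cons (P.lf 472392 0 0) (P.cons (P.lf 0 138694 0) P.nil)) (P.cons (P.cons (P.lf 122296 0 0) P.nil) P.nil)))))) 590080)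
 EL.nil)
noncomputable def S314_343_364_438_46 : EL := (EL.cons 15 (TM.mk (P.lf 4294967296 0 0) 0)
 EL.nil)
noncomputable def S314_343_364_438_47 : EL := (EL.cons 15 (TM.mk (P.cons (P.cons (P.lf 168297857 0 0) (P.cons (P.lf 0 218702092 0) (P.cons (P.lf 0 11966496 0) (P.lf 1329608 0 0)))) (P.cons (P.cons (P.lf 90931831 0 0) (P.cons (P.lf 53156632 0 0) (P.cons (P.lf 2908516 0 0) (P.lf 0 323168 0)))) (P.cons (P.cons (P.lf 75523791 0 0) (P.cons (P.lf 0 928448 0) (P.cons (P.lf 0 50800 0) (P.lf 5644 0 0)))) (P.cons (P.cons (P.lf 0 3463352 0) (P.cons (P.lf 0 747960 0) (P.cons (P.lf 0 40924 0) P.nil))) (P.cons (P.cons (P.lf 0 920229 0) (P.cons (P.lf 55360 0 0) P.nil)) (P.cons (P.cons (P.lf 76910 0 0) P.nil) P.nil)))))) 26065)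
 EL.nil)
noncomputable def S314_343_364_438_48 : EL := (EL.cons 15 (TM.mk (P.cons (P.cons (P.lf 6594734 0 0) (P.cons (P.lf 0 17139638 0) (P.cons (P.lf 10198618 0 0) (P.cons (P.lf 1322882 0 0) (P.cons (P.lf 0 102068 0) (P.cons (P.lf 0 7409 0) P.nil)))))) (P.cons (P.cons (P.lf 7126309 0 0) (P.cons (P.lf 0 5094723 0) (P.cons (P.lf 0 5692292 0) (P.cons (P.lf 0 561439 0) (P.cons (P.lf 49616 0 0) P.nil))))) (P.cons (P.cons (P.lf 7843967 0 0) (P.cons (P.lf 0 5513353 0) (P.cons (P.lf 450778 0 0) (P.cons (P.lf 115860 0 0) P.nil)))) (P.cons (P.cons (P.lf 2926514 0 0) (P.cons (P.lf 2124219 0 0) (P.cons (P.lf 169420 0 0) P.nil))) (P.cons (P.cons (P.lf 1109261 0 0) (P.cons (P.lf 0 51995 0) P.nil)) (P.cons (P.cons (P.lf 0 154739 0) P.nil) P.nil)))))) 206323)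
 EL.nil)
noncomputable def S314_343_364_438 : SL := (SL.cons S314_343_364_438_0 (SL.cons S314_343_364_438_1 (SL.cons S314_343_364_438_2 (SL.cons S314_343_364_438_3 (SL.cons S314_343_364_438_4 (SL.cons S314_343_364_438_5 (SL.cons S314_343_364_438_6 (SL.cons S314_343_364_438_7 (SL.cons S314_343_364_438_8 (SL.cons S314_343_364_438_9 (SL.cons S314_343_364_438_10 (SL.cons S314_343_364_438_11 (SL.cons S314_343_364_438_12 (SL.cons S314_343_364_438_13 (SL.cons S314_343_364_438_14 (SL.cons S314_343_364_438_15 (SL.cons S314_343_364_438_16 (SL.cons S314_343_364_438_17 (SL.cons S314_343_364_438_18 (SL.cons S314_343_364_438_19 (SL.cons S314_343_364_438_20 (SL.cons S314_343_364_438_21 (SL.cons S314_343_364_438_22 (SL.cons S314_343_364_438_23 (SL.cons S314_343_364_438_24 (SL.cons S314_343_364_438_25 (SL.cons S314_343_364_438_26 (SL.cons S314_343_364_438_27 (SL.cons S314_343_364_438_28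 (SL.cons S314_343_364_438_29 (SL.cons S314_343_364_438_30 (SL.cons S314_343_364_438_31 (SL.cons S314_343_364_438_32 (SL.cons S314_343_364_438_33 (SL.cons S314_343_364_438_34 (SL.cons S314_343_364_438_35 (SL.cons S314_343_364_438_36 (SL.cons S314_343_364_438_37 (SL.cons S314_343_364_438_38 (SL.cons S314_343_364_438_39 (SL.cons S314_343_364_438_40 (SL.cons S314_343_364_438_41 (SL.cons S314_343_364_438_42 (SL.cons S314_343_364_438_43 (SL.cons S314_343_364_438_44 (SL.cons S314_343_364_438_45 (SL.cons S314_343_364_438_46 (SL.cons S314_343_364_438_47 (SL.cons S314_343_364_438_48 SL.nil)))))))))))))))))))))))))))))))))))))))))))))))))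
noncomputable def S314_343_364_512_0 : EL := (EL.cons 0 (TM.mk (P.cons (P.lf 6454925654 0 0) (P.cons (P.lf 0 654467131 0) (P.cons (P.lf 0 15080835 0) (P.cons (P.lf 7271133 0 0) (P.cons (P.lf 0 199596 0) (P.cons (P.lf 0 35412 0) P.nil)))))) 3454)
 (EL.cons 1 (TM.mk (P.cons (P.lf 1695086628 0 0) (P.cons (P.lf 139901857 0 0) (P.cons (P.lf 0 47471786 0) (P.cons (P.lf 293435 0 0) (P.cons (P.lf 328029 0 0) (P.cons (P.lf 0 15684 0) P.nil)))))) 1940)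
 (EL.cons 5 (TM.mk (P.cons (P.lf 5006359730 0 0) (P.cons (P.lf 232699422 0 0) (P.cons (P.lf 5362070 0 0) (P.cons (P.lf 0 2585292 0) (P.cons (P.lf 70970 0 0) (P.cons (P.lf 12590 0 0) P.nil)))))) 1169)
 (EL.cons 9 (TM.mk (P.lf 6442450944 0 0) 2)
 EL.nil))))
noncomputable def S314_343_364_512_1 : EL := (EL.cons 0 (TM.mk (P.cons (P.cons (P.lf 751617513 0 0) (P.cons (P.lf 0 50291357 0) (P.cons (P.lf 0 3362370 0) (P.lf 1120792 0 0)))) (P.cons (P.cons (P.lf 1187391110 0 0) (P.cons (P.lf 303142911 0 0) (P.cons (P.lf 20267426 0 0) (P.lf 0 6755803 0)))) (P.cons (P.cons (P.lf 100631051 0 0) (P.cons (P.lf 0 64219253 0) (P.cons (P.lf 0 4293544 0) (P.lf 1431177 0 0)))) (P.cons (P.cons (P.lf 0 65676675 0) (P.cons (P.lf 0 3798434 0) (P.cons (P.lf 0 253951 0) P.nil))) (P.cons (P.cons (P.lf 488350 0 0) (P.cons (P.lf 1910425 0 0) P.nil)) (P.cons (P.cons (P.lf 1324443 0 0) P.nil) P.nil))))))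 1063819)
 (EL.cons 1 (TM.mk (P.cons (P.cons (P.lf 0 204370690 0) (P.cons (P.lf 0 330960282 0) (P.cons (P.lf 0 22127226 0) (P.lf 7375736 0 0)))) (P.cons (P.cons (P.lf 0 18158955 0) (P.cons (P.lf 121591215 0 0) (P.cons (P.lf 8129295 0 0) (P.lf 0 2709761 0)))) (P.cons (P.cons (P.lf 167778973 0 0) (P.cons (P.lf 16184232 0 0) (P.cons (P.lf 1082038 0 0) (P.lf 0 360675 0)))) (P.cons (P.cons (P.lf 0 555736 0) (P.cons (P.lf 0 7043915 0) (P.cons (P.lf 0 470927 0) P.nil))) (P.cons (P.cons (P.lf 0 5685635 0) (P.cons (P.lf 107628 0 0) P.nil)) (P.cons (P.cons (P.lf 265751 0 0) P.nil) P.nil)))))) 628288)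
 (EL.cons 5 (TM.mk (P.cons (P.cons (P.lf 0 371011701 0) (P.cons (P.lf 0 793515926 0) (P.cons (P.lf 0 53052626 0) (P.lf 17684204 0 0)))) (P.cons (P.cons (P.lf 0 172838019 0) (P.cons (P.lf 89430022 0 0) (P.cons (P.lf 5979090 0 0) (P.lf 0 1993036 0)))) (P.cons (P.cons (P.lf 90955398 0 0) (P.cons (P.lf 19388920 0 0) (P.cons (P.lf 1296292 0 0) (P.lf 0 432092 0)))) (P.cons (P.cons (P.lf 16130626 0 0) (P.cons (P.lf 0 1424430 0) (P.cons (P.lf 0 95236 0) P.nil))) (P.cons (P.cons (P.lf 0 1639335 0) (P.cons (P.lf 0 473868 0) P.nil)) (P.cons (P.cons (P.lf 0 333211 0) P.nil) P.nil)))))) 533616)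
 (EL.cons 9 (TM.mk (P.cons (P.cons (P.lf 0 91561695 0) (P.cons (P.lf 0 715938786 0) (P.cons (P.lf 0 47865996 0) (P.lf 15955326 0 0)))) (P.cons (P.cons (P.lf 220010722 0 0) (P.cons (P.lf 174012492 0 0) (P.cons (P.lf 11634066 0 0) (P.lf 0 3878022 0)))) (P.cons (P.cons (P.lf 111825280 0 0) (P.cons (P.lf 0 3039348 0) (P.cons (P.lf 0 203202 0) (P.lf 67734 0 0)))) (P.cons (P.cons (P.lf 0 6371538 0) (P.cons (P.lf 0 2448504 0) (P.cons (P.lf 0 163698 0) P.nil))) (P.cons (P.cons (P.lf 0 1293259 0) (P.cons (P.lf 181230 0 0) P.nil)) (P.cons (P.cons (P.lf 121497 0 0) P.nil) P.nil)))))) 111194)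
 (EL.cons 2 (TM.mk (P.cons (P.cons (P.lf 0 964301518 0) (P.cons (P.lf 0 149298089 0) (P.cons (P.lf 71927108 0 0) (P.cons (P.lf 2721931 0 0) (P.lf 0 680481 0))))) (P.cons (P.cons (P.lf 0 1461321 0) (P.cons (P.lf 0 226248 0) (P.cons (P.lf 108998 0 0) (P.cons (P.lf 4123 0 0) (P.lf 0 1032 0))))) (P.cons (P.cons (P.lf 38418879 0 0) (P.cons (P.lf 5948204 0 0) (P.cons (P.lf 0 2865656 0) (P.cons (P.lf 0 108441 0) P.nil)))) (P.cons (P.cons (P.lf 0 2410824 0) (P.cons (P.lf 0 373255 0) (P.cons (P.lf 179822 0 0) P.nil))) (P.cons (P.cons (P.lf 0 351694 0) (P.cons (P.lf 0 54450 0) P.nil)) (P.cons (P.cons (P.lf 39585 0 0) P.nil) P.nil)))))) 90935)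
 (EL.cons 6 (TM.mk (P.cons (P.cons (P.lf 816964110 0 0) (P.cons (P.lf 126486558 0 0) (P.cons (P.lf 0 60937233 0) (P.cons (P.lf 0 2306043 0) (P.lf 576510 0 0))))) (P.cons (P.cons (P.lf 0 198567201 0) (P.cons (P.lf 0 30743187 0) (P.cons (P.lf 14811096 0 0) (P.cons (P.lf 560493 0 0) (P.lf 0 140121 0))))) (P.cons (P.cons (P.lf 3468225 0 0) (P.cons (P.lf 536967 0 0) (P.cons (P.lf 0 258693 0) (P.cons (P.lf 0 9789 0) P.nil)))) (P.cons (P.cons (P.lf 2794017 0 0) (P.cons (P.lf 432582 0 0) (P.cons (P.lf 0 208404 0) P.nil))) (P.cons (P.cons (P.lf 0 206802 0) (P.cons (P.lf 0 32016 0) P.nil)) (P.cons (P.cons (P.lf 0 14562 0) P.nil) P.nil)))))) 49578)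
 EL.nil))))))
noncomputable def S314_343_364_512_2 : EL := (EL.cons 0 (TM.mk (P.cons (P.cons (P.lf 0 22668156 0) (P.cons (P.lf 0 186012078 0) (P.cons (P.lf 0 80973875 0) (P.cons (P.lf 0 5019067 0) (P.cons (P.lf 2748475 0 0) (P.cons (P.lf 204238 0 0) P.nil)))))) (P.cons (P.cons (P.lf 23982718 0 0) (P.cons (P.lf 0 179337715 0) (P.cons (P.lf 0 35249739 0) (P.cons (P.lf 886523 0 0) (P.cons (P.lf 932760 0 0) P.nil))))) (P.cons (P.cons (P.lf 99355842 0 0) (P.cons (P.lf 69337798 0 0) (P.cons (P.lf 26203597 0 0) (P.cons (P.lf 1338699 0 0) P.nil)))) (P.cons (P.cons (P.lf 41064014 0 0) (P.cons (P.lf 15895592 0 0) (P.cons (P.lf 0 1824967 0) P.nil))) (P.cons (P.cons (P.lf 0 4390647 0) (P.cons (P.lf 0 6624122 0) P.nil)) (P.cons (P.cons (P.lf 0 2448163 0) P.nil) P.nil)))))) 8063529)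
 (EL.cons 1 (TM.mk (P.cons (P.cons (P.lf 5466737 0 0) (P.cons (P.lf 49475740 0 0) (P.cons (P.lf 55932471 0 0) (P.cons (P.lf 5934109 0 0) (P.cons (P.lf 0 2110344 0) (P.cons (P.lf 0 156819 0) P.nil)))))) (P.cons (P.cons (P.lf 0 11825259 0) (P.cons (P.lf 0 19339769 0) (P.cons (P.lf 0 37747869 0) (P.cons (P.lf 0 4443565 0) (P.cons (P.lf 1461900 0 0) P.nil))))) (P.cons (P.cons (P.lf 0 14099206 0) (P.cons (P.lf 0 37014010 0) (P.cons (P.lf 820699 0 0) (P.cons (P.lf 1265524 0 0) P.nil)))) (P.cons (P.cons (P.lf 9051507 0 0) (P.cons (P.lf 13497143 0 0) (P.cons (P.lf 2973734 0 0) P.nil))) (P.cons (P.cons (P.lf 5522580 0 0) (P.cons (P.lf 883297 0 0) P.nil)) (P.cons (P.cons (P.lf 0 640862 0) P.nil) P.nil)))))) 4463156)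
 (EL.cons 5 (TM.mk (P.cons (P.cons (P.lf 9534584 0 0) (P.cons (P.lf 89201181 0 0) (P.cons (P.lf 120501898 0 0) (P.cons (P.lf 13327565 0 0) (P.cons (P.lf 0 4593186 0) (P.cons (P.lf 0 341308 0) P.nil)))))) (P.cons (P.cons (P.lf 0 15614704 0) (P.cons (P.lf 2740104 0 0) (P.cons (P.lf 0 35378868 0) (P.cons (P.lf 0 4816252 0) (P.cons (P.lf 1426099 0 0) P.nil))))) (P.cons (P.cons (P.lf 0 30413713 0) (P.cons (P.lf 0 39253499 0) (P.cons (P.lf 0 4200565 0) (P.cons (P.lf 664042 0 0) P.nil)))) (P.cons (P.cons (P.lf 0 5739207 0) (P.cons (P.lf 2643100 0 0) (P.cons (P.lf 1634124 0 0) P.nil))) (P.cons (P.cons (P.lf 3309385 0 0) (P.cons (P.lf 1975959 0 0) P.nil)) (P.cons (P.cons (P.lf 515756 0 0) P.nil) P.nil)))))) 4141772)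
 (EL.cons 9 (TM.mk (P.cons (P.cons (P.lf 1301296 0 0) (P.cons (P.lf 20350195 0 0) (P.cons (P.lf 80921644 0 0) (P.cons (P.lf 10185013 0 0) (P.cons (P.lf 0 3190542 0) (P.cons (P.lf 0 237088 0) P.nil)))))) (P.cons (P.cons (P.lf 0 6253692 0) (P.cons (P.lf 0 53845062 0) (P.cons (P.lf 0 42275388 0) (P.cons (P.lf 0 3971512 0) (P.cons (P.lf 1550955 0 0) P.nil))))) (P.cons (P.cons (P.lf 4334823 0 0) (P.cons (P.lf 0 12882411 0) (P.cons (P.lf 4514355 0 0) (P.cons (P.lf 1005900 0 0) P.nil)))) (P.cons (P.cons (P.lf 7818808 0 0) (P.cons (P.lf 7318992 0 0) (P.cons (P.lf 869338 0 0) P.nil))) (P.cons (P.cons (P.lf 1542597 0 0) (P.cons (P.lf 0 334654 0) P.nil)) (P.cons (P.cons (P.lf 0 312972 0) P.nil) P.nil)))))) 1388900)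
 (EL.cons 2 (TM.mk (P.cons (P.cons (P.lf 27409775 0 0) (P.cons (P.lf 218566147 0 0) (P.cons (P.lf 45467094 0 0) (P.cons (P.lf 0 18621506 0) (P.cons (P.lf 0 2393926 0) (P.cons (P.lf 467060 0 0) P.nil)))))) (P.cons (P.cons (P.lf 0 65820560 0) (P.cons (P.lf 0 61958019 0) (P.cons (P.lf 0 6566377 0) (P.cons (P.lf 4664930 0 0) (P.cons (P.lf 536450 0 0) P.nil))))) (P.cons (P.cons (P.lf 0 34667701 0) (P.cons (P.lf 0 13075368 0) (P.cons (P.lf 877140 0 0) (P.cons (P.lf 764780 0 0) P.nil)))) (P.cons (P.cons (P.lf 4549190 0 0) (P.cons (P.lf 4049915 0 0) (P.cons (P.lf 402333 0 0) P.nil))) (P.cons (P.cons (P.lf 1569088 0 0) (P.cons (P.lf 101475 0 0) P.nil)) (P.cons (P.cons (P.lf 0 220612 0) P.nil) P.nil)))))) 1328157)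
 (EL.cons 6 (TM.mk (P.cons (P.cons (P.lf 0 23221788 0) (P.cons (P.lf 0 185171022 0) (P.cons (P.lf 0 38520096 0) (P.cons (P.lf 15776292 0 0) (P.cons (P.lf 2028156 0 0) (P.cons (P.lf 0 395694 0) P.nil)))))) (P.cons (P.cons (P.lf 61443078 0 0) (P.cons (P.lf 97778688 0 0) (P.cons (P.lf 14983962 0 0) (P.cons (P.lf 0 7810584 0) (P.cons (P.lf 0 950508 0) P.nil))))) (P.cons (P.cons (P.lf 14700234 0 0) (P.cons (P.lf 0 9992418 0) (P.cons (P.lf 0 3816174 0) (P.cons (P.lf 1020018 0 0) P.nil)))) (P.cons (P.cons (P.lf 0 8351766 0) (P.cons (P.lf 0 2160324 0) (P.cons (P.lf 430698 0 0) P.nil))) (P.cons (P.cons (P.lf 381876 0 0) (P.cons (P.lf 449640 0 0) P.nil)) (P.cons (P.cons (P.lf 186954 0 0) P.nil) P.nil)))))) 1139166)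
 EL.nil))))))
noncomputable def S314_343_364_512_3 : EL := (EL.cons 0 (TM.mk (P.cons (P.lf 2000791209 0 0) (P.cons (P.lf 654467131 0 0) (P.cons (P.lf 15080835 0 0) (P.cons (P.lf 0 7271133 0) (P.cons (P.lf 199596 0 0) (P.cons (P.lf 35412 0 0) P.nil)))))) 3454)
 (EL.cons 1 (TM.mk (P.cons (P.lf 0 1695086628 0) (P.cons (P.lf 0 139901857 0) (P.cons (P.lf 47471786 0 0) (P.cons (P.lf 0 293435 0) (P.cons (P.lf 0 328029 0) (P.cons (P.lf 15684 0 0) P.nil)))))) 1940)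
 (EL.cons 5 (TM.mk (P.cons (P.lf 1436091214 0 0) (P.cons (P.lf 0 232699422 0) (P.cons (P.lf 0 5362070 0) (P.cons (P.lf 2585292 0 0) (P.cons (P.lf 0 70970 0) (P.cons (P.lf 0 12590 0) P.nil)))))) 1162)
 EL.nil)))
noncomputable def S314_343_364_512_4 : EL := (EL.cons 0 (TM.mk (P.cons (P.cons (P.lf 0 28435735 0) (P.cons (P.lf 0 222344576 0) (P.cons (P.lf 0 14865438 0) (P.lf 4955143 0 0)))) (P.cons (P.cons (P.lf 59025888 0 0) (P.cons (P.lf 0 18687877 0) (P.cons (P.lf 0 1249428 0) (P.lf 416475 0 0)))) (P.cons (P.cons (P.lf 56864692 0 0) (P.cons (P.lf 15057529 0 0) (P.cons (P.lf 1006711 0 0) (P.lf 0 335569 0)))) (P.cons (P.cons (P.lf 9999541 0 0) (P.cons (P.lf 146191 0 0) (P.cons (P.lf 9775 0 0) P.nil))) (P.cons (P.cons (P.lf 0 1038281 0) (P.cons (P.lf 0 418141 0) P.nil)) (P.cons (P.cons (P.lf 0 228455 0) P.nil) P.nil)))))) 191005)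
 (EL.cons 1 (TM.mk (P.cons (P.cons (P.lf 24090986 0 0) (P.cons (P.lf 188372137 0 0) (P.cons (P.lf 12594120 0 0) (P.lf 0 4198036 0)))) (P.cons (P.cons (P.lf 0 55899155 0) (P.cons (P.lf 0 30237727 0) (P.cons (P.lf 0 2021621 0) (P.lf 673873 0 0)))) (P.cons (P.cons (P.lf 0 34874932 0) (P.cons (P.lf 0 8254560 0) (P.cons (P.lf 0 551880 0) (P.lf 183958 0 0)))) (P.cons (P.cons (P.lf 873410 0 0) (P.cons (P.lf 2025067 0 0) (P.cons (P.lf 135388 0 0) P.nil))) (P.cons (P.cons (P.lf 1297269 0 0) (P.cons (P.lf 11617 0 0) P.nil)) (P.cons (P.cons (P.lf 0 67351 0) P.nil) P.nil)))))) 149276)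
 (EL.cons 5 (TM.mk (P.cons (P.cons (P.lf 0 20410080 0) (P.cons (P.lf 0 159590410 0) (P.cons (P.lf 0 10669840 0) (P.lf 3556612 0 0)))) (P.cons (P.cons (P.lf 52349924 0 0) (P.cons (P.lf 64648742 0 0) (P.cons (P.lf 4322262 0 0) (P.lf 0 1440752 0)))) (P.cons (P.cons (P.lf 17056534 0 0) (P.cons (P.lf 0 6366904 0) (P.cons (P.lf 0 425674 0) (P.lf 141890 0 0)))) (P.cons (P.cons (P.lf 0 5679238 0) (P.cons (P.lf 0 868146 0) (P.cons (P.lf 0 58040 0) P.nil))) (P.cons (P.cons (P.lf 0 61918 0) (P.cons (P.lf 209082 0 0) P.nil)) (P.cons (P.cons (P.lf 121726 0 0) P.nil) P.nil)))))) 102628)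
 EL.nil)))
noncomputable def S314_343_364_512_5 : EL := (EL.cons 0 (TM.mk (P.cons (P.cons (P.lf 404135 0 0) (P.cons (P.lf 6320030 0 0) (P.cons (P.lf 25131322 0 0) (P.cons (P.lf 3163093 0 0) (P.cons (P.lf 0 990864 0) (P.cons (P.lf 0 73629 0) P.nil)))))) (P.cons (P.cons (P.lf 0 1809973 0) (P.cons (P.lf 0 14655011 0) (P.cons (P.lf 0 4908638 0) (P.cons (P.lf 0 198745 0) (P.cons (P.lf 157552 0 0) P.nil))))) (P.cons (P.cons (P.lf 713991 0 0) (P.cons (P.lf 0 9423110 0) (P.cons (P.lf 0 2703193 0) (P.cons (P.lf 0 67213 0) P.nil)))) (P.cons (P.cons (P.lf 2852490 0 0) (P.cons (P.lf 815319 0 0) (P.cons (P.lf 538291 0 0) P.nil))) (P.cons (P.cons (P.lf 1290605 0 0) (P.cons (P.lf 670825 0 0) P.nil)) (P.cons (P.cons (P.lf 72733 0 0) P.nil) P.nil)))))) 1193010)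
 (EL.cons 1 (TM.mk (P.cons (P.cons (P.lf 0 342384 0) (P.cons (P.lf 0 5354381 0) (P.cons (P.lf 0 21291459 0) (P.cons (P.lf 0 2679798 0) (P.cons (P.lf 839469 0 0) (P.cons (P.lf 62379 0 0) P.nil)))))) (P.cons (P.cons (P.lf 1617161 0 0) (P.cons (P.lf 13725367 0 0) (P.cons (P.lf 9365898 0 0) (P.cons (P.lf 823777 0 0) (P.cons (P.lf 0 338790 0) P.nil))))) (P.cons (P.cons (P.lf 0 995150 0) (P.cons (P.lf 4708747 0 0) (P.cons (P.lf 326533 0 0) (P.cons (P.lf 0 103370 0) P.nil)))) (P.cons (P.cons (P.lf 0 2197496 0) (P.cons (P.lf 0 2043652 0) (P.cons (P.lf 0 641960 0) P.nil))) (P.cons (P.cons (P.lf 0 543504 0) (P.cons (P.lf 0 164392 0) P.nil)) (P.cons (P.cons (P.lf 106584 0 0) P.nil) P.nil)))))) 886488)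
 (EL.cons 5 (TM.mk (P.cons (P.cons (P.lf 290072 0 0) (P.cons (P.lf 4536274 0 0) (P.cons (P.lf 18038298 0 0) (P.cons (P.lf 2270348 0 0) (P.cons (P.lf 0 711204 0) (P.cons (P.lf 0 52848 0) P.nil)))))) (P.cons (P.cons (P.lf 0 1441016 0) (P.cons (P.lf 0 12737682 0) (P.cons (P.lf 0 12346500 0) (P.cons (P.lf 0 1253172 0) (P.cons (P.lf 460964 0 0) P.nil))))) (P.cons (P.cons (P.lf 1191076 0 0) (P.cons (P.lf 0 943696 0) (P.cons (P.lf 2465920 0 0) (P.cons (P.lf 359198 0 0) P.nil)))) (P.cons (P.cons (P.lf 1592048 0 0) (P.cons (P.lf 2149772 0 0) (P.cons (P.lf 98386 0 0) P.nil))) (P.cons (P.cons (P.lf 55316 0 0) (P.cons (P.lf 0 350066 0) P.nil)) (P.cons (P.cons (P.lf 0 130184 0) P.nil) P.nil)))))) 637776)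
 EL.nil)))
noncomputable def S314_343_364_512_6 : EL := (EL.cons 12 (TM.mk (P.lf 8589934592 0 0) 0)
 (EL.cons 3 (TM.mk (P.cons (P.lf 2072840178 0 0) (P.cons (P.lf 339017325 0 0) (P.cons (P.lf 0 19911543 0) (P.cons (P.lf 0 509910 0) (P.cons (P.lf 91155 0 0) (P.cons (P.lf 0 1462 0) P.nil)))))) 487)
 (EL.cons 7 (TM.mk (P.cons (P.lf 0 1756127103 0) (P.cons (P.lf 142278485 0 0) (P.cons (P.lf 9042093 0 0) (P.cons (P.lf 0 848140 0) (P.cons (P.lf 0 2043 0) (P.cons (P.lf 3166 0 0) P.nil)))))) 195)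
 EL.nil)))
noncomputable def S314_343_364_512_7 : EL := (EL.cons 12 (TM.mk (P.cons (P.cons (P.lf 0 122082260 0) (P.cons (P.lf 0 954585048 0) (P.cons (P.lf 0 63821328 0) (P.lf 21273768 0 0)))) (P.cons (P.cons (P.lf 293347630 0 0) (P.cons (P.lf 232016656 0 0) (P.cons (P.lf 15512088 0 0) (P.lf 0 5170696 0)))) (P.cons (P.cons (P.lf 149100374 0 0) (P.cons (P.lf 0 4052464 0) (P.cons (P.lf 0 270936 0) (P.lf 90312 0 0)))) (P.cons (P.cons (P.lf 0 8495384 0) (P.cons (P.lf 0 3264672 0) (P.cons (P.lf 0 218264 0) P.nil))) (P.cons (P.cons (P.lf 0 1724346 0) (P.cons (P.lf 241640 0 0) P.nil)) (P.cons (P.cons (P.lf 161996 0 0) P.nil) P.nil)))))) 148234)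
 (EL.cons 3 (TM.mk (P.cons (P.cons (P.lf 844266260 0 0) (P.cons (P.lf 460702514 0 0) (P.cons (P.lf 30801492 0 0) (P.lf 0 10267160 0)))) (P.cons (P.cons (P.lf 915208159 0 0) (P.cons (P.lf 0 36627186 0) (P.cons (P.lf 0 2448806 0) (P.lf 816268 0 0)))) (P.cons (P.cons (P.lf 0 71550561 0) (P.cons (P.lf 0 20783582 0) (P.cons (P.lf 0 1389540 0) (P.lf 463178 0 0)))) (P.cons (P.cons (P.lf 0 17957326 0) (P.cons (P.lf 2857774 0 0) (P.cons (P.lf 191060 0 0) P.nil))) (P.cons (P.cons (P.lf 2550782 0 0) (P.cons (P.lf 170088 0 0) P.nil)) (P.cons (P.cons (P.lf 86633 0 0) P.nil) P.nil)))))) 426684)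
 (EL.cons 7 (TM.mk (P.cons (P.cons (P.lf 391643037 0 0) (P.cons (P.lf 485176294 0 0) (P.cons (P.lf 32437760 0 0) (P.lf 0 10812588 0)))) (P.cons (P.cons (P.lf 384093740 0 0) (P.cons (P.lf 0 15371668 0) (P.cons (P.lf 0 1027717 0) (P.lf 342573 0 0)))) (P.cons (P.cons (P.lf 16940701 0 0) (P.cons (P.lf 0 10602161 0) (P.cons (P.lf 0 708834 0) (P.lf 236277 0 0)))) (P.cons (P.cons (P.lf 0 10466071 0) (P.cons (P.lf 0 301504 0) (P.cons (P.lf 0 20156 0) P.nil))) (P.cons (P.cons (P.lf 0 372035 0) (P.cons (P.lf 217581 0 0) P.nil)) (P.cons (P.cons (P.lf 166383 0 0) P.nil) P.nil)))))) 303566)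
 (EL.cons 10 (TM.mk (P.cons (P.cons (P.lf 0 1998052494 0) (P.cons (P.lf 0 309348699 0) (P.cons (P.lf 149034447 0 0) (P.cons (P.lf 5639901 0 0) (P.lf 0 1409973 0))))) (P.cons (P.cons (P.lf 323757750 0 0) (P.cons (P.lf 50125830 0 0) (P.cons (P.lf 0 24149043 0) (P.cons (P.lf 0 913869 0) (P.lf 228465 0 0))))) (P.cons (P.cons (P.lf 7460316 0 0) (P.cons (P.lf 1155042 0 0) (P.cons (P.lf 0 556464 0) (P.cons (P.lf 0 21057 0) P.nil)))) (P.cons (P.cons (P.lf 0 3596949 0) (P.cons (P.lf 0 556896 0) (P.cons (P.lf 268296 0 0) P.nil))) (P.cons (P.cons (P.lf 98739 0 0) (P.cons (P.lf 15285 0 0) P.nil)) (P.cons (P.cons (P.lf 17514 0 0) P.nil) P.nil)))))) 31851)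
 EL.nil))))
noncomputable def S314_343_364_512_8 : EL := (EL.cons 12 (TM.mk (P.cons (P.cons (P.lf 1735062 0 0) (P.cons (P.lf 27133594 0 0) (P.cons (P.lf 107895526 0 0) (P.cons (P.lf 13580018 0 0) (P.cons (P.lf 0 4254056 0) (P.cons (P.lf 0 316118 0) P.nil)))))) (P.cons (P.cons (P.lf 0 8338256 0) (P.cons (P.lf 0 71793416 0) (P.cons (P.lf 0 56367184 0) (P.cons (P.lf 0 5295350 0) (P.cons (P.lf 2067940 0 0) P.nil))))) (P.cons (P.cons (P.lf 5779764 0 0) (P.cons (P.lf 0 17176548 0) (P.cons (P.lf 6019140 0 0) (P.cons (P.lf 1341200 0 0) P.nil)))) (P.cons (P.cons (P.lf 10425078 0 0) (P.cons (P.lf 9758656 0 0) (P.cons (P.lf 1159118 0 0) P.nil))) (P.cons (P.cons (P.lf 2056796 0 0) (P.cons (P.lf 0 446206 0) P.nil)) (P.cons (P.cons (P.lf 0 417296 0) P.nil) P.nil)))))) 1851838)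
 (EL.cons 3 (TM.mk (P.cons (P.cons (P.lf 0 24416525 0) (P.cons (P.lf 0 207286641 0) (P.cons (P.lf 0 141851445 0) (P.cons (P.lf 0 12495022 0) (P.cons (P.lf 5132741 0 0) (P.cons (P.lf 381410 0 0) P.nil)))))) (P.cons (P.cons (P.lf 33592955 0 0) (P.cons (P.lf 0 109042483 0) (P.cons (P.lf 33994740 0 0) (P.cons (P.lf 7950554 0 0) (P.cons (P.lf 0 1655605 0) P.nil))))) (P.cons (P.cons (P.lf 92790000 0 0) (P.cons (P.lf 85669767 0 0) (P.cons (P.lf 8485148 0 0) (P.cons (P.lf 0 1540509 0) P.nil)))) (P.cons (P.cons (P.lf 22962115 0 0) (P.cons (P.lf 0 6904643 0) (P.cons (P.lf 0 3053534 0) P.nil))) (P.cons (P.cons (P.lf 0 6826995 0) (P.cons (P.lf 0 3083149 0) P.nil)) (P.cons (P.cons (P.lf 0 601579 0) P.nil) P.nil)))))) 4777580)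
 (EL.cons 7 (TM.mk (P.cons (P.cons (P.lf 0 10777532 0) (P.cons (P.lf 0 95288960 0) (P.cons (P.lf 0 92517150 0) (P.cons (P.lf 0 9395488 0) (P.cons (P.lf 3454625 0 0) (P.cons (P.lf 256711 0 0) P.nil)))))) (P.cons (P.cons (P.lf 14098260 0 0) (P.cons (P.lf 0 45762851 0) (P.cons (P.lf 14266881 0 0) (P.cons (P.lf 3336677 0 0) (P.cons (P.lf 0 694819 0) P.nil))))) (P.cons (P.cons (P.lf 40666034 0 0) (P.cons (P.lf 30357692 0 0) (P.cons (P.lf 5305666 0 0) (P.cons (P.lf 0 238499 0) P.nil)))) (P.cons (P.cons (P.lf 16058267 0 0) (P.cons (P.lf 2730150 0 0) (P.cons (P.lf 0 627854 0) P.nil))) (P.cons (P.cons (P.lf 0 792220 0) (P.cons (P.lf 0 1569678 0) P.nil)) (P.cons (P.cons (P.lf 0 696199 0) P.nil) P.nil)))))) 2534588)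
 (EL.cons 10 (TM.mk (P.cons (P.cons (P.lf 56793624 0 0) (P.cons (P.lf 452873532 0 0) (P.cons (P.lf 94208760 0 0) (P.cons (P.lf 0 38584146 0) (P.cons (P.lf 0 4960272 0) (P.cons (P.lf 967764 0 0) P.nil)))))) (P.cons (P.cons (P.lf 0 145670268 0) (P.cons (P.lf 0 202446696 0) (P.cons (P.lf 0 29013714 0) (P.cons (P.lf 15976356 0 0) (P.cons (P.lf 1922802 0 0) P.nil))))) (P.cons (P.cons (P.lf 0 47461962 0) (P.cons (P.lf 10368408 0 0) (P.cons (P.lf 7467666 0 0) (P.cons (P.lf 0 1398954 0) P.nil)))) (P.cons (P.cons (P.lf 15803196 0 0) (P.cons (P.lf 4862460 0 0) (P.cons (P.lf 0 643230 0) P.nil))) (P.cons (P.cons (P.lf 172296 0 0) (P.cons (P.lf 0 555120 0) P.nil)) (P.cons (P.cons (P.lf 0 338718 0) P.nil) P.nil)))))) 1881594)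
 EL.nil))))
noncomputable def S314_343_364_512_9 : EL := (EL.cons 3 (TM.mk (P.cons (P.lf 2072840178 0 0) (P.cons (P.lf 339017325 0 0) (P.cons (P.lf 0 19911543 0) (P.cons (P.lf 0 509910 0) (P.cons (P.lf 91155 0 0) (P.cons (P.lf 0 1462 0) P.nil)))))) 487)
 (EL.cons 7 (TM.mk (P.cons (P.lf 0 1756127103 0) (P.cons (P.lf 142278485 0 0) (P.cons (P.lf 9042093 0 0) (P.cons (P.lf 0 848140 0) (P.cons (P.lf 0 2043 0) (P.cons (P.lf 3166 0 0) P.nil)))))) 195)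
 EL.nil))
noncomputable def S314_343_364_512_10 : EL := (EL.cons 3 (TM.mk (P.cons (P.cons (P.lf 0 29459713 0) (P.cons (P.lf 0 230351257 0) (P.cons (P.lf 0 15400746 0) (P.lf 5133580 0 0)))) (P.cons (P.cons (P.lf 65969623 0 0) (P.cons (P.lf 18313593 0 0) (P.cons (P.lf 1224403 0 0) (P.lf 0 408134 0)))) (P.cons (P.cons (P.lf 47839947 0 0) (P.cons (P.lf 10391791 0 0) (P.cons (P.lf 694770 0 0) (P.lf 0 231589 0)))) (P.cons (P.cons (P.lf 3161756 0 0) (P.cons (P.lf 0 1428887 0) (P.cons (P.lf 0 95530 0) P.nil))) (P.cons (P.cons (P.lf 0 1115713 0) (P.cons (P.lf 0 85044 0) P.nil)) (P.cons (P.cons (P.lf 0 14986 0) P.nil) P.nil)))))) 105305)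
 (EL.cons 7 (TM.mk (P.cons (P.cons (P.lf 24958509 0 0) (P.cons (P.lf 195155464 0 0) (P.cons (P.lf 13047638 0 0) (P.lf 0 4349211 0)))) (P.cons (P.cons (P.lf 0 61994116 0) (P.cons (P.lf 0 63244678 0) (P.cons (P.lf 0 4228390 0) (P.lf 1409463 0 0)))) (P.cons (P.cons (P.lf 0 25751771 0) (P.cons (P.lf 3666637 0 0) (P.cons (P.lf 245142 0 0) (P.lf 0 81714 0)))) (P.cons (P.cons (P.lf 4527248 0 0) (P.cons (P.lf 938789 0 0) (P.cons (P.lf 62764 0 0) P.nil))) (P.cons (P.cons (P.lf 339826 0 0) (P.cons (P.lf 0 130422 0) P.nil)) (P.cons (P.cons (P.lf 0 85458 0) P.nil) P.nil)))))) 63256)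
 EL.nil))
noncomputable def S314_343_364_512_11 : EL := (EL.cons 3 (TM.mk (P.cons (P.cons (P.lf 418687 0 0) (P.cons (P.lf 6547617 0 0) (P.cons (P.lf 26036307 0 0) (P.cons (P.lf 3276998 0 0) (P.cons (P.lf 0 1026547 0) (P.cons (P.lf 0 76282 0) P.nil)))))) (P.cons (P.cons (P.lf 0 1943629 0) (P.cons (P.lf 0 16253617 0) (P.cons (P.lf 0 9343692 0) (P.cons (P.lf 0 741862 0) (P.cons (P.lf 331121 0 0) P.nil))))) (P.cons (P.cons (P.lf 1061610 0 0) (P.cons (P.lf 0 7041231 0) (P.cons (P.lf 0 1022254 0) (P.cons (P.lf 83175 0 0) P.nil)))) (P.cons (P.cons (P.lf 2763013 0 0) (P.cons (P.lf 1841767 0 0) (P.cons (P.lf 641518 0 0) P.nil))) (P.cons (P.cons (P.lf 894885 0 0) (P.cons (P.lf 321833 0 0) P.nil)) (P.cons (P.cons (P.lf 0 44119 0) P.nil) P.nil)))))) 839260)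
 (EL.cons 7 (TM.mk (P.cons (P.cons (P.lf 0 354716 0) (P.cons (P.lf 0 5547194 0) (P.cons (P.lf 0 22058172 0) (P.cons (P.lf 0 2776300 0) (P.cons (P.lf 869699 0 0) (P.cons (P.lf 64627 0 0) P.nil)))))) (P.cons (P.cons (P.lf 1733412 0 0) (P.cons (P.lf 15126877 0 0) (P.cons (P.lf 13310829 0 0) (P.cons (P.lf 1307513 0 0) (P.cons (P.lf 0 493231 0) P.nil))))) (P.cons (P.cons (P.lf 0 1317898 0) (P.cons (P.lf 2350994 0 0) (P.cons (P.lf 0 2050610 0) (P.cons (P.lf 0 347609 0) P.nil)))) (P.cons (P.cons (P.lf 0 2044519 0) (P.cons (P.lf 0 2357814 0) (P.cons (P.lf 0 207260 0) P.nil))) (P.cons (P.cons (P.lf 0 240910 0) (P.cons (P.lf 241860 0 0) P.nil)) (P.cons (P.cons (P.lf 129785 0 0) P.nil) P.nil)))))) 554614)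
 EL.nil))
noncomputable def S314_343_364_512_12 : EL := (EL.cons 4 (TM.mk (P.cons (P.lf 0 2072840178 0) (P.cons (P.lf 0 339017325 0) (P.cons (P.lf 19911543 0 0) (P.cons (P.lf 509910 0 0) (P.cons (P.lf 0 91155 0) (P.cons (P.lf 1462 0 0) P.nil)))))) 487)
 (EL.cons 8 (TM.mk (P.cons (P.lf 1756127103 0 0) (P.cons (P.lf 0 142278485 0) (P.cons (P.lf 0 9042093 0) (P.cons (P.lf 848140 0 0) (P.cons (P.lf 2043 0 0) (P.cons (P.lf 0 3166 0) P.nil)))))) 195)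
 EL.nil))
noncomputable def S314_343_364_512_13 : EL := (EL.cons 4 (TM.mk (P.cons (P.cons (P.lf 29459713 0 0) (P.cons (P.lf 230351257 0 0) (P.cons (P.lf 15400746 0 0) (P.lf 0 5133580 0)))) (P.cons (P.cons (P.lf 0 65969623 0) (P.cons (P.lf 0 18313593 0) (P.cons (P.lf 0 1224403 0) (P.lf 408134 0 0)))) (P.cons (P.cons (P.lf 0 47839947 0) (P.cons (P.lf 0 10391791 0) (P.cons (P.lf 0 694770 0) (P.lf 231589 0 0)))) (P.cons (P.cons (P.lf 0 3161756 0) (P.cons (P.lf 1428887 0 0) (P.cons (P.lf 95530 0 0) P.nil))) (P.cons (P.cons (P.lf 1115713 0 0) (P.cons (P.lf 85044 0 0) P.nil)) (P.cons (P.cons (P.lf 14986 0 0) P.nil) P.nil)))))) 105305)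
 (EL.cons 8 (TM.mk (P.cons (P.cons (P.lf 0 24958509 0) (P.cons (P.lf 0 195155464 0) (P.cons (P.lf 0 13047638 0) (P.lf 4349211 0 0)))) (P.cons (P.cons (P.lf 61994116 0 0) (P.cons (P.lf 63244678 0 0) (P.cons (P.lf 4228390 0 0) (P.lf 0 1409463 0)))) (P.cons (P.cons (P.lf 25751771 0 0) (P.cons (P.lf 0 3666637 0) (P.cons (P.lf 0 245142 0) (P.lf 81714 0 0)))) (P.cons (P.cons (P.lf 0 4527248 0) (P.cons (P.lf 0 938789 0) (P.cons (P.lf 0 62764 0) P.nil))) (P.cons (P.cons (P.lf 0 339826 0) (P.cons (P.lf 130422 0 0) P.nil)) (P.cons (P.cons (P.lf 85458 0 0) P.nil) P.nil)))))) 63256)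
 EL.nil))
noncomputable def S314_343_364_512_14 : EL := (EL.cons 4 (TM.mk (P.cons (P.cons (P.lf 0 418687 0) (P.cons (P.lf 0 6547617 0) (P.cons (P.lf 0 26036307 0) (P.cons (P.lf 0 3276998 0) (P.cons (P.lf 1026547 0 0) (P.cons (P.lf 76282 0 0) P.nil)))))) (P.cons (P.cons (P.lf 1943629 0 0) (P.cons (P.lf 16253617 0 0) (P.cons (P.lf 9343692 0 0) (P.cons (P.lf 741862 0 0) (P.cons (P.lf 0 331121 0) P.nil))))) (P.cons (P.cons (P.lf 0 1061610 0) (P.cons (P.lf 7041231 0 0) (P.cons (P.lf 1022254 0 0) (P.cons (P.lf 0 83175 0) P.nil)))) (P.cons (P.cons (P.lf 0 2763013 0) (P.cons (P.lf 0 1841767 0) (P.cons (P.lf 0 641518 0) P.nil))) (P.cons (P.cons (P.lf 0 894885 0) (P.cons (P.lf 0 321833 0) P.nil)) (P.cons (P.cons (P.lf 44119 0 0) P.nil) P.nil)))))) 839260)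
 (EL.cons 8 (TM.mk (P.cons (P.cons (P.lf 354716 0 0) (P.cons (P.lf 5547194 0 0) (P.cons (P.lf 22058172 0 0) (P.cons (P.lf 2776300 0 0) (P.cons (P.lf 0 869699 0) (P.cons (P.lf 0 64627 0) P.nil)))))) (P.cons (P.cons (P.lf 0 1733412 0) (P.cons (P.lf 0 15126877 0) (P.cons (P.lf 0 13310829 0) (P.cons (P.lf 0 1307513 0) (P.cons (P.lf 493231 0 0) P.nil))))) (P.cons (P.cons (P.lf 1317898 0 0) (P.cons (P.lf 0 2350994 0) (P.cons (P.lf 2050610 0 0) (P.cons (P.lf 347609 0 0) P.nil)))) (P.cons (P.cons (P.lf 2044519 0 0) (P.cons (P.lf 2357814 0 0) (P.cons (P.lf 207260 0 0) P.nil))) (P.cons (P.cons (P.lf 240910 0 0) (P.cons (P.lf 0 241860 0) P.nil)) (P.cons (P.cons (P.lf 0 129785 0) P.nil) P.nil)))))) 554614)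
 EL.nil))
noncomputable def S314_343_364_512_15 : EL := (EL.cons 4 (TM.mk (P.cons (P.lf 0 1067088645 0) (P.cons (P.lf 0 349049136 0) (P.cons (P.lf 0 8043112 0) (P.cons (P.lf 3877937 0 0) (P.cons (P.lf 0 106451 0) (P.cons (P.lf 0 18886 0) P.nil)))))) 1845)
 (EL.cons 8 (TM.mk (P.cons (P.lf 904046202 0 0) (P.cons (P.lf 74614324 0 0) (P.cons (P.lf 0 25318286 0) (P.cons (P.lf 156499 0 0) (P.cons (P.lf 174949 0 0) (P.cons (P.lf 0 8365 0) P.nil)))))) 1031)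
 EL.nil))
noncomputable def S314_343_364_512_16 : EL := (EL.cons 4 (TM.mk (P.cons (P.cons (P.lf 15165725 0 0) (P.cons (P.lf 118583774 0 0) (P.cons (P.lf 7928234 0 0) (P.lf 0 2642743 0)))) (P.cons (P.cons (P.lf 0 31480473 0) (P.cons (P.lf 9966868 0 0) (P.cons (P.lf 666361 0 0) (P.lf 0 222120 0)))) (P.cons (P.cons (P.lf 0 30327836 0) (P.cons (P.lf 0 8030682 0) (P.cons (P.lf 0 536912 0) (P.lf 178970 0 0)))) (P.cons (P.cons (P.lf 0 5333088 0) (P.cons (P.lf 0 77969 0) (P.cons (P.lf 0 5213 0) P.nil))) (P.cons (P.cons (P.lf 553750 0 0) (P.cons (P.lf 223008 0 0) P.nil)) (P.cons (P.cons (P.lf 121843 0 0) P.nil) P.nil)))))) 101878)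
 (EL.cons 8 (TM.mk (P.cons (P.cons (P.lf 0 12848526 0) (P.cons (P.lf 0 100465140 0) (P.cons (P.lf 0 6716864 0) (P.lf 2238953 0 0)))) (P.cons (P.cons (P.lf 29812883 0 0) (P.cons (P.lf 16126788 0 0) (P.cons (P.lf 1078198 0 0) (P.lf 0 359399 0)))) (P.cons (P.cons (P.lf 18599964 0 0) (P.cons (P.lf 4402432 0 0) (P.cons (P.lf 294336 0 0) (P.lf 0 98111 0)))) (P.cons (P.cons (P.lf 0 465819 0) (P.cons (P.lf 0 1080036 0) (P.cons (P.lf 0 72207 0) P.nil))) (P.cons (P.cons (P.lf 0 691877 0) (P.cons (P.lf 0 6196 0) P.nil)) (P.cons (P.cons (P.lf 35921 0 0) P.nil) P.nil)))))) 79604)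
 EL.nil))
noncomputable def S314_343_364_512_17 : EL := (EL.cons 4 (TM.mk (P.cons (P.cons (P.lf 0 215538 0) (P.cons (P.lf 0 3370682 0) (P.cons (P.lf 0 13403371 0) (P.cons (P.lf 0 1686983 0) (P.cons (P.lf 528461 0 0) (P.cons (P.lf 39269 0 0) P.nil)))))) (P.cons (P.cons (P.lf 965319 0 0) (P.cons (P.lf 7816005 0 0) (P.cons (P.lf 2617940 0 0) (P.cons (P.lf 105997 0 0) (P.cons (P.lf 0 84028 0) P.nil))))) (P.cons (P.cons (P.lf 0 380795 0) (P.cons (P.lf 5025659 0 0) (P.cons (P.lf 1441703 0 0) (P.cons (P.lf 35847 0 0) P.nil)))) (P.cons (P.cons (P.lf 0 1521328 0) (P.cons (P.lf 0 434836 0) (P.cons (P.lf 0 287088 0) P.nil))) (P.cons (P.cons (P.lf 0 688322 0) (P.cons (P.lf 0 357773 0) P.nil)) (P.cons (P.cons (P.lf 0 38790 0) P.nil) P.nil)))))) 636282)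
 (EL.cons 8 (TM.mk (P.cons (P.cons (P.lf 182605 0 0) (P.cons (P.lf 2855670 0 0) (P.cons (P.lf 11355445 0 0) (P.cons (P.lf 1429226 0 0) (P.cons (P.lf 0 447717 0) (P.cons (P.lf 0 33269 0) P.nil)))))) (P.cons (P.cons (P.lf 0 862486 0) (P.cons (P.lf 0 7320196 0) (P.cons (P.lf 0 4995146 0) (P.cons (P.lf 0 439348 0) (P.cons (P.lf 180688 0 0) P.nil))))) (P.cons (P.cons (P.lf 530747 0 0) (P.cons (P.lf 0 2511332 0) (P.cons (P.lf 0 174151 0) (P.cons (P.lf 55131 0 0) P.nil)))) (P.cons (P.cons (P.lf 1171998 0 0) (P.cons (P.lf 1089948 0 0) (P.cons (P.lf 342379 0 0) P.nil))) (P.cons (P.cons (P.lf 289869 0 0) (P.cons (P.lf 87676 0 0) P.nil)) (P.cons (P.cons (P.lf 0 56845 0) P.nil) P.nil)))))) 472782)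
 EL.nil))
noncomputable def S314_343_364_512_18 : EL := (EL.cons 4 (TM.mk (P.cons (P.lf 0 549332354 0) (P.cons (P.lf 0 269533349 0) (P.cons (P.lf 0 28252205 0) (P.cons (P.lf 3180359 0 0) (P.cons (P.lf 331524 0 0) (P.cons (P.lf 0 44357 0) P.nil)))))) 4415)
 (EL.cons 8 (TM.mk (P.cons (P.lf 465398850 0 0) (P.cons (P.lf 114528063 0 0) (P.cons (P.lf 0 11222106 0) (P.cons (P.lf 0 2534590 0) (P.cons (P.lf 239457 0 0) (P.cons (P.lf 14216 0 0) P.nil)))))) 3029)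
 EL.nil))
noncomputable def S314_343_364_512_19 : EL := (EL.cons 4 (TM.mk (P.cons (P.cons (P.lf 7807245 0 0) (P.cons (P.lf 61046384 0 0) (P.cons (P.lf 4081418 0 0) (P.lf 0 1360471 0)))) (P.cons (P.cons (P.lf 0 14929112 0) (P.cons (P.lf 15115160 0 0) (P.cons (P.lf 1010564 0 0) (P.lf 0 336854 0)))) (P.cons (P.cons (P.lf 0 18338152 0) (P.cons (P.lf 0 3881396 0) (P.cons (P.lf 0 259500 0) (P.lf 86500 0 0)))) (P.cons (P.cons (P.lf 0 5145174 0) (P.cons (P.lf 0 780592 0) (P.cons (P.lf 0 52188 0) P.nil))) (P.cons (P.cons (P.lf 0 9651 0) (P.cons (P.lf 149373 0 0) P.nil)) (P.cons (P.cons (P.lf 138842 0 0) P.nil) P.nil)))))) 125626)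
 (EL.cons 8 (TM.mk (P.cons (P.cons (P.lf 0 6614362 0) (P.cons (P.lf 0 51718994 0) (P.cons (P.lf 0 3457811 0) (P.lf 1152603 0 0)))) (P.cons (P.cons (P.lf 14265743 0 0) (P.cons (P.lf 0 156752 0) (P.cons (P.lf 0 10480 0) (P.lf 3493 0 0)))) (P.cons (P.cons (P.lf 12148835 0 0) (P.cons (P.lf 4120969 0 0) (P.cons (P.lf 275518 0 0) (P.lf 0 91839 0)))) (P.cons (P.cons (P.lf 1180437 0 0) (P.cons (P.lf 0 252357 0) (P.cons (P.lf 0 16871 0) P.nil))) (P.cons (P.cons (P.lf 0 491439 0) (P.cons (P.lf 0 120211 0) P.nil)) (P.cons (P.cons (P.lf 0 39133 0) P.nil) P.nil)))))) 75430)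
 EL.nil))
noncomputable def S314_343_364_512_20 : EL := (EL.cons 4 (TM.mk (P.cons (P.cons (P.lf 0 110957 0) (P.cons (P.lf 0 1735212 0) (P.cons (P.lf 0 6899994 0) (P.cons (P.lf 0 868451 0) (P.cons (P.lf 272049 0 0) (P.cons (P.lf 20215 0 0) P.nil)))))) (P.cons (P.cons (P.lf 478794 0 0) (P.cons (P.lf 3739845 0 0) (P.cons (P.lf 219195 0 0) (P.cons (P.lf 0 87469 0) (P.cons (P.lf 1236 0 0) P.nil))))) (P.cons (P.cons (P.lf 0 113689 0) (P.cons (P.lf 3261930 0 0) (P.cons (P.lf 1028882 0 0) (P.cons (P.lf 35720 0 0) P.nil)))) (P.cons (P.cons (P.lf 0 819979 0) (P.cons (P.lf 161062 0 0) (P.cons (P.lf 0 37654 0) P.nil))) (P.cons (P.cons (P.lf 0 480678 0) (P.cons (P.lf 0 246709 0) P.nil)) (P.cons (P.cons (P.lf 0 70329 0) P.nil) P.nil)))))) 535342)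
 (EL.cons 8 (TM.mk (P.cons (P.cons (P.lf 94004 0 0) (P.cons (P.lf 1470085 0 0) (P.cons (P.lf 5845731 0 0) (P.cons (P.lf 735759 0 0) (P.cons (P.lf 0 230482 0) (P.cons (P.lf 0 17126 0) P.nil)))))) (P.cons (P.cons (P.lf 0 428629 0) (P.cons (P.lf 0 3527968 0) (P.cons (P.lf 0 1615397 0) (P.cons (P.lf 0 105839 0) (P.cons (P.lf 55321 0 0) P.nil))))) (P.cons (P.cons (P.lf 199705 0 0) (P.cons (P.lf 0 1923274 0) (P.cons (P.lf 0 566376 0) (P.cons (P.lf 0 15677 0) P.nil)))) (P.cons (P.cons (P.lf 652267 0 0) (P.cons (P.lf 385493 0 0) (P.cons (P.lf 184855 0 0) P.nil))) (P.cons (P.cons (P.lf 245389 0 0) (P.cons (P.lf 150314 0 0) P.nil)) (P.cons (P.cons (P.lf 0 10740 0) P.nil) P.nil)))))) 343613)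
 EL.nil))
noncomputable def S314_343_364_512_21 : EL := (EL.cons 4 (TM.mk (P.cons (P.cons (P.lf 0 873725973 0) (P.cons (P.lf 0 691053771 0) (P.cons (P.lf 0 46202238 0) (P.lf 15400740 0 0)))) (P.cons (P.cons (P.lf 0 849238536 0) (P.cons (P.lf 54940779 0 0) (P.cons (P.lf 3673209 0 0) (P.lf 0 1224402 0)))) (P.cons (P.cons (P.lf 119390508 0 0) (P.cons (P.lf 31175373 0 0) (P.cons (P.lf 2084310 0 0) (P.lf 0 694767 0)))) (P.cons (P.cons (P.lf 21119082 0 0) (P.cons (P.lf 0 4286661 0) (P.cons (P.lf 0 286590 0) P.nil))) (P.cons (P.cons (P.lf 0 3666495 0) (P.cons (P.lf 0 255132 0) P.nil)) (P.cons (P.cons (P.lf 0 101619 0) P.nil) P.nil)))))) 321360)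
 (EL.cons 8 (TM.mk (P.cons (P.cons (P.lf 0 366684528 0) (P.cons (P.lf 0 290020830 0) (P.cons (P.lf 0 19390122 0) (P.lf 6463377 0 0)))) (P.cons (P.cons (P.lf 0 446087856 0) (P.cons (P.lf 0 47873010 0) (P.cons (P.lf 0 3200673 0) (P.lf 1066890 0 0)))) (P.cons (P.cons (P.lf 0 42692472 0) (P.cons (P.lf 14268798 0 0) (P.cons (P.lf 953976 0 0) (P.lf 0 317991 0)))) (P.cons (P.cons (P.lf 14993319 0 0) (P.cons (P.lf 1240293 0 0) (P.cons (P.lf 82920 0 0) P.nil))) (P.cons (P.cons (P.lf 711861 0 0) (P.cons (P.lf 0 348003 0) P.nil)) (P.cons (P.cons (P.lf 0 251841 0) P.nil) P.nil)))))) 240291)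
 (EL.cons 11 (TM.mk (P.cons (P.cons (P.lf 1998052494 0 0) (P.cons (P.lf 309348699 0 0) (P.cons (P.lf 0 149034447 0) (P.cons (P.lf 0 5639901 0) (P.lf 1409973 0 0))))) (P.cons (P.cons (P.lf 0 323757750 0) (P.cons (P.lf 0 50125830 0) (P.cons (P.lf 24149043 0 0) (P.cons (P.lf 913869 0 0) (P.lf 0 228465 0))))) (P.cons (P.cons (P.lf 0 7460316 0) (P.cons (P.lf 0 1155042 0) (P.cons (P.lf 556464 0 0) (P.cons (P.lf 21057 0 0) P.nil)))) (P.cons (P.cons (P.lf 3596949 0 0) (P.cons (P.lf 556896 0 0) (P.cons (P.lf 0 268296 0) P.nil))) (P.cons (P.cons (P.lf 0 98739 0) (P.cons (P.lf 0 15285 0) P.nil)) (P.cons (P.cons (P.lf 0 17514 0) P.nil) P.nil)))))) 31851)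
 EL.nil)))
noncomputable def S314_343_364_512_22 : EL := (EL.cons 4 (TM.mk (P.cons (P.cons (P.lf 12417606 0 0) (P.cons (P.lf 106917129 0 0) (P.cons (P.lf 83943876 0 0) (P.cons (P.lf 7886010 0 0) (P.cons (P.lf 0 3079644 0) (P.cons (P.lf 0 228846 0) P.nil)))))) (P.cons (P.cons (P.lf 0 17768292 0) (P.cons (P.lf 46394433 0 0) (P.cons (P.lf 0 21669216 0) (P.cons (P.lf 0 4346208 0) (P.cons (P.lf 993363 0 0) P.nil))))) (P.cons (P.cons (P.lf 0 45864195 0) (P.cons (P.lf 0 46355499 0) (P.cons (P.lf 0 4753701 0) (P.cons (P.lf 811842 0 0) P.nil)))) (P.cons (P.cons (P.lf 0 10099551 0) (P.cons (P.lf 4373205 0 0) (P.cons (P.lf 1847526 0 0) P.nil))) (P.cons (P.cons (P.lf 3860940 0 0) (P.cons (P.lf 1702491 0 0) P.nil)) (P.cons (P.cons (P.lf 278730 0 0) P.nil) P.nil)))))) 1969149)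
 (EL.cons 8 (TM.mk (P.cons (P.cons (P.lf 5211408 0 0) (P.cons (P.lf 44870883 0 0) (P.cons (P.lf 35229489 0 0) (P.cons (P.lf 3309594 0 0) (P.cons (P.lf 0 1292463 0) (P.cons (P.lf 0 96042 0) P.nil)))))) (P.cons (P.cons (P.lf 0 6182424 0) (P.cons (P.lf 30444864 0 0) (P.cons (P.lf 0 478026 0) (P.cons (P.lf 0 1014582 0) (P.cons (P.lf 100794 0 0) P.nil))))) (P.cons (P.cons (P.lf 0 20991966 0) (P.cons (P.lf 0 14003349 0) (P.cons (P.lf 0 3678138 0) (P.cons (P.lf 0 54555 0) P.nil)))) (P.cons (P.cons (P.lf 0 9051393 0) (P.cons (P.lf 0 2543982 0) (P.cons (P.lf 210297 0 0) P.nil))) (P.cons (P.cons (P.lf 275655 0 0) (P.cons (P.lf 905769 0 0) P.nil)) (P.cons (P.cons (P.lf 412992 0 0) P.nil) P.nil)))))) 989976)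
 (EL.cons 11 (TM.mk (P.cons (P.cons (P.lf 0 28396812 0) (P.cons (P.lf 0 226436766 0) (P.cons (P.lf 0 47104380 0) (P.cons (P.lf 19292073 0 0) (P.cons (P.lf 2480136 0 0) (P.cons (P.lf 0 483882 0) P.nil)))))) (P.cons (P.cons (P.lf 72835134 0 0) (P.cons (P.lf 101223348 0 0) (P.cons (P.lf 14506857 0 0) (P.cons (P.lf 0 7988178 0) (P.cons (P.lf 0 961401 0) P.nil))))) (P.cons (P.cons (P.lf 23730981 0 0) (P.cons (P.lf 0 5184204 0) (P.cons (P.lf 0 3733833 0) (P.cons (P.lf 699477 0 0) P.nil)))) (P.cons (P.cons (P.lf 0 7901598 0) (P.cons (P.lf 0 2431230 0) (P.cons (P.lf 321615 0 0) P.nil))) (P.cons (P.cons (P.lf 0 86148 0) (P.cons (P.lf 277560 0 0) P.nil)) (P.cons (P.cons (P.lf 169359 0 0) P.nil) P.nil)))))) 940797)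
 EL.nil)))
noncomputable def S314_343_364_512_23 : EL := (EL.cons 4 (TM.mk (P.cons (P.cons (P.lf 0 449790135 0) (P.cons (P.lf 0 355751319 0) (P.cons (P.lf 0 23784699 0) (P.lf 7928229 0 0)))) (P.cons (P.cons (P.lf 0 510748227 0) (P.cons (P.lf 0 29900607 0) (P.cons (P.lf 0 1999086 0) (P.lf 666360 0 0)))) (P.cons (P.cons (P.lf 0 5720034 0) (P.cons (P.lf 24092043 0 0) (P.cons (P.lf 1610736 0 0) (P.lf 0 536910 0)))) (P.cons (P.cons (P.lf 25234395 0 0) (P.cons (P.lf 233910 0 0) (P.cons (P.lf 15639 0 0) P.nil))) (P.cons (P.cons (P.lf 0 611985 0) (P.cons (P.lf 0 669024 0) P.nil)) (P.cons (P.cons (P.lf 0 499479 0) P.nil) P.nil)))))) 387678)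
 (EL.cons 8 (TM.mk (P.cons (P.cons (P.lf 0 188767518 0) (P.cons (P.lf 0 149301396 0) (P.cons (P.lf 0 9981945 0) (P.lf 3327315 0 0)))) (P.cons (P.cons (P.lf 0 260517306 0) (P.cons (P.lf 0 49063359 0) (P.cons (P.lf 0 3280257 0) (P.lf 1093419 0 0)))) (P.cons (P.cons (P.lf 0 57723354 0) (P.cons (P.lf 4748979 0 0) (P.cons (P.lf 317502 0 0) (P.lf 0 105834 0)))) (P.cons (P.cons (P.lf 6376341 0 0) (P.cons (P.lf 2113332 0 0) (P.cons (P.lf 141288 0 0) P.nil))) (P.cons (P.cons (P.lf 1888146 0 0) (P.cons (P.lf 0 145785 0) P.nil)) (P.cons (P.cons (P.lf 0 148413 0) P.nil) P.nil)))))) 263583)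
 (EL.cons 11 (TM.mk (P.cons (P.cons (P.lf 1028588286 0 0) (P.cons (P.lf 159251295 0 0) (P.cons (P.lf 0 76722249 0) (P.cons (P.lf 0 2903394 0) (P.lf 725847 0 0))))) (P.cons (P.cons (P.lf 1558743 0 0) (P.cons (P.lf 241332 0 0) (P.cons (P.lf 0 116265 0) (P.cons (P.lf 0 4398 0) (P.lf 1101 0 0))))) (P.cons (P.cons (P.lf 0 40980138 0) (P.cons (P.lf 0 6344751 0) (P.cons (P.lf 3056700 0 0) (P.cons (P.lf 115671 0 0) P.nil)))) (P.cons (P.cons (P.lf 2571546 0 0) (P.cons (P.lf 398139 0 0) (P.cons (P.lf 0 191811 0) P.nil))) (P.cons (P.cons (P.lf 375141 0 0) (P.cons (P.lf 58080 0 0) P.nil)) (P.cons (P.cons (P.lf 0 42225 0) P.nil) P.nil)))))) 96975)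
 EL.nil)))
noncomputable def S314_343_364_512_24 : EL := (EL.cons 4 (TM.mk (P.cons (P.cons (P.lf 6392526 0 0) (P.cons (P.lf 55040448 0 0) (P.cons (P.lf 43213923 0 0) (P.cons (P.lf 4059681 0 0) (P.cons (P.lf 0 1585386 0) (P.cons (P.lf 0 117810 0) P.nil)))))) (P.cons (P.cons (P.lf 0 8101524 0) (P.cons (P.lf 32885622 0 0) (P.cons (P.lf 0 4087485 0) (P.cons (P.lf 0 1573437 0) (P.cons (P.lf 252084 0 0) P.nil))))) (P.cons (P.cons (P.lf 0 25168101 0) (P.cons (P.lf 0 20486094 0) (P.cons (P.lf 0 4686750 0) (P.cons (P.lf 13002 0 0) P.nil)))) (P.cons (P.cons (P.lf 0 8974485 0) (P.cons (P.lf 0 1894596 0) (P.cons (P.lf 647382 0 0) P.nil))) (P.cons (P.cons (P.lf 1366587 0 0) (P.cons (P.lf 1470417 0 0) P.nil)) (P.cons (P.cons (P.lf 523908 0 0) P.nil) P.nil)))))) 1346031)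
 (EL.cons 8 (TM.mk (P.cons (P.cons (P.lf 2682810 0 0) (P.cons (P.lf 23099325 0 0) (P.cons (P.lf 18135981 0 0) (P.cons (P.lf 1703763 0 0) (P.cons (P.lf 0 665352 0) (P.cons (P.lf 0 49440 0) P.nil)))))) (P.cons (P.cons (P.lf 0 2743902 0) (P.cons (P.lf 19450818 0 0) (P.cons (P.lf 2720088 0 0) (P.cons (P.lf 0 243648 0) (P.cons (P.lf 0 56928 0) P.nil))))) (P.cons (P.cons (P.lf 0 11352873 0) (P.cons (P.lf 0 4867416 0) (P.cons (P.lf 0 2107950 0) (P.cons (P.lf 0 129876 0) P.nil)))) (P.cons (P.cons (P.lf 0 6397140 0) (P.cons (P.lf 0 2644887 0) (P.cons (P.lf 0 203520 0) P.nil))) (P.cons (P.cons (P.lf 0 515475 0) (P.cons (P.lf 318501 0 0) P.nil)) (P.cons (P.cons (P.lf 283089 0 0) P.nil) P.nil)))))) 683931)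
 (EL.cons 11 (TM.mk (P.cons (P.cons (P.lf 0 14618547 0) (P.cons (P.lf 0 116568612 0) (P.cons (P.lf 0 24249117 0) (P.cons (P.lf 9931470 0 0) (P.cons (P.lf 1276761 0 0) (P.cons (P.lf 0 249099 0) P.nil)))))) (P.cons (P.cons (P.lf 35104299 0 0) (P.cons (P.lf 33044277 0 0) (P.cons (P.lf 3502068 0 0) (P.cons (P.lf 0 2487963 0) (P.cons (P.lf 0 286107 0) P.nil))))) (P.cons (P.cons (P.lf 18489441 0 0) (P.cons (P.lf 6973530 0 0) (P.cons (P.lf 0 467808 0) (P.cons (P.lf 0 407883 0) P.nil)))) (P.cons (P.cons (P.lf 0 2426235 0) (P.cons (P.lf 0 2159955 0) (P.cons (P.lf 0 214578 0) P.nil))) (P.cons (P.cons (P.lf 0 836847 0) (P.cons (P.lf 0 54120 0) P.nil)) (P.cons (P.cons (P.lf 117660 0 0) P.nil) P.nil)))))) 708339)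
 EL.nil)))
noncomputable def S314_343_364_512_25 : EL := (EL.cons 4 (TM.mk (P.cons (P.cons (P.lf 0 231549903 0) (P.cons (P.lf 0 183139152 0) (P.cons (P.lf 0 12244254 0) (P.lf 4081416 0 0)))) (P.cons (P.cons (P.lf 0 300801318 0) (P.cons (P.lf 0 45345483 0) (P.cons (P.lf 0 3031692 0) (P.lf 1010562 0 0)))) (P.cons (P.cons (P.lf 0 43723284 0) (P.cons (P.lf 11644188 0 0) (P.cons (P.lf 778500 0 0) (P.lf 0 259497 0)))) (P.cons (P.cons (P.lf 15091602 0 0) (P.cons (P.lf 2341779 0 0) (P.cons (P.lf 156567 0 0) P.nil))) (P.cons (P.cons (P.lf 1892367 0 0) (P.cons (P.lf 0 448119 0) P.nil)) (P.cons (P.cons (P.lf 0 444117 0) P.nil) P.nil)))))) 354021)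
 (EL.cons 8 (TM.mk (P.cons (P.cons (P.lf 0 97176654 0) (P.cons (P.lf 0 76859676 0) (P.cons (P.lf 0 5138658 0) (P.lf 1712886 0 0)))) (P.cons (P.cons (P.lf 0 150006561 0) (P.cons (P.lf 0 37828152 0) (P.cons (P.lf 0 2529099 0) (P.lf 843033 0 0)))) (P.cons (P.cons (P.lf 0 50716725 0) (P.cons (P.lf 0 947868 0) (P.cons (P.lf 0 63372 0) (P.lf 21123 0 0)))) (P.cons (P.cons (P.lf 0 265371 0) (P.cons (P.lf 1749309 0 0) (P.cons (P.lf 116952 0 0) P.nil))) (P.cons (P.cons (P.lf 1823034 0 0) (P.cons (P.lf 82233 0 0) P.nil)) (P.cons (P.cons (P.lf 52518 0 0) P.nil) P.nil)))))) 233070)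
 (EL.cons 11 (TM.mk (P.cons (P.cons (P.lf 529512546 0 0) (P.cons (P.lf 81981837 0 0) (P.cons (P.lf 0 39496263 0) (P.cons (P.lf 0 1494654 0) (P.lf 373662 0 0))))) (P.cons (P.cons (P.lf 87405312 0 0) (P.cons (P.lf 13532535 0 0) (P.cons (P.lf 0 6519549 0) (P.cons (P.lf 0 246717 0) (P.lf 61680 0 0))))) (P.cons (P.cons (P.lf 0 26051604 0) (P.cons (P.lf 0 4033440 0) (P.cons (P.lf 1943184 0 0) (P.cons (P.lf 73533 0 0) P.nil)))) (P.cons (P.cons (P.lf 0 2264502 0) (P.cons (P.lf 0 350601 0) (P.cons (P.lf 168906 0 0) P.nil))) (P.cons (P.cons (P.lf 635373 0 0) (P.cons (P.lf 98370 0 0) P.nil)) (P.cons (P.cons (P.lf 1980 0 0) P.nil) P.nil)))))) 116373)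
 EL.nil)))
noncomputable def S314_343_364_512_26 : EL := (EL.cons 4 (TM.mk (P.cons (P.cons (P.lf 3290844 0 0) (P.cons (P.lf 28334571 0 0) (P.cons (P.lf 22246329 0 0) (P.cons (P.lf 2089905 0 0) (P.cons (P.lf 0 816147 0) (P.cons (P.lf 0 60648 0) P.nil)))))) (P.cons (P.cons (P.lf 0 3632403 0) (P.cons (P.lf 21563544 0 0) (P.cons (P.lf 1534212 0 0) (P.cons (P.lf 0 468189 0) (P.cons (P.lf 0 3708 0) P.nil))))) (P.cons (P.cons (P.lf 0 13670148 0) (P.cons (P.lf 0 8049492 0) (P.cons (P.lf 0 2970564 0) (P.cons (P.lf 0 145857 0) P.nil)))) (P.cons (P.cons (P.lf 0 6699819 0) (P.cons (P.lf 0 2869767 0) (P.cons (P.lf 0 46593 0) P.nil))) (P.cons (P.cons (P.lf 73527 0 0) (P.cons (P.lf 695832 0 0) P.nil)) (P.cons (P.cons (P.lf 432147 0 0) P.nil) P.nil)))))) 983382)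
 (EL.cons 8 (TM.mk (P.cons (P.cons (P.lf 1381098 0 0) (P.cons (P.lf 11891427 0 0) (P.cons (P.lf 9336318 0 0) (P.cons (P.lf 877089 0 0) (P.cons (P.lf 0 342519 0) (P.cons (P.lf 0 25452 0) P.nil)))))) (P.cons (P.cons (P.lf 0 1186668 0) (P.cons (P.lf 11958060 0 0) (P.cons (P.lf 2927262 0 0) (P.cons (P.lf 18018 0 0) (P.cons (P.lf 0 85326 0) P.nil))))) (P.cons (P.cons (P.lf 0 6088698 0) (P.cons (P.lf 0 982272 0) (P.cons (P.lf 0 945825 0) (P.cons (P.lf 0 95799 0) P.nil)))) (P.cons (P.cons (P.lf 0 4235853 0) (P.cons (P.lf 0 1870503 0) (P.cons (P.lf 0 297999 0) P.nil))) (P.cons (P.cons (P.lf 0 747426 0) (P.cons (P.lf 0 36594 0) P.nil)) (P.cons (P.cons (P.lf 135342 0 0) P.nil) P.nil)))))) 494424)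
 (EL.cons 11 (TM.mk (P.cons (P.cons (P.lf 0 7525560 0) (P.cons (P.lf 0 60008988 0) (P.cons (P.lf 0 12483333 0) (P.cons (P.lf 5112675 0 0) (P.cons (P.lf 657270 0 0) (P.cons (P.lf 0 128235 0) P.nil)))))) (P.cons (P.cons (P.lf 16840710 0 0) (P.cons (P.lf 7196448 0 0) (P.cons (P.lf 0 238824 0) (P.cons (P.lf 0 444603 0) (P.cons (P.lf 0 39789 0) P.nil))))) (P.cons (P.cons (P.lf 12546207 0 0) (P.cons (P.lf 6948573 0 0) (P.cons (P.lf 173946 0 0) (P.cons (P.lf 0 468564 0) P.nil)))) (P.cons (P.cons (P.lf 135975 0 0) (P.cons (P.lf 0 673437 0) (P.cons (P.lf 0 164097 0) P.nil))) (P.cons (P.cons (P.lf 0 731292 0) (P.cons (P.lf 0 251028 0) P.nil)) (P.cons (P.cons (P.lf 567 0 0) P.nil) P.nil)))))) 504189)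
 EL.nil)))
noncomputable def S314_343_364_512_27 : EL := (EL.cons 13 (TM.mk (P.lf 0 4294967296 0) 0)
 EL.nil)
noncomputable def S314_343_364_512_28 : EL := (EL.cons 13 (TM.mk (P.cons (P.cons (P.lf 61041130 0 0) (P.cons (P.lf 477292524 0 0) (P.cons (P.lf 31910664 0 0) (P.lf 0 10636884 0)))) (P.cons (P.cons (P.lf 0 146673815 0) (P.cons (P.lf 0 116008328 0) (P.cons (P.lf 0 7756044 0) (P.lf 2585348 0 0)))) (P.cons (P.cons (P.lf 0 74550187 0) (P.cons (P.lf 2026232 0 0) (P.cons (P.lf 135468 0 0) (P.lf 0 45156 0)))) (P.cons (P.cons (P.lf 4247692 0 0) (P.cons (P.lf 1632336 0 0) (P.cons (P.lf 109132 0 0) P.nil))) (P.cons (P.cons (P.lf 862173 0 0) (P.cons (P.lf 0 120820 0) P.nil)) (P.cons (P.cons (P.lf 0 80998 0) P.nil) P.nil)))))) 74117)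
 EL.nil)
noncomputable def S314_343_364_512_29 : EL := (EL.cons 13 (TM.mk (P.cons (P.cons (P.lf 0 867531 0) (P.cons (P.lf 0 13566797 0) (P.cons (P.lf 0 53947763 0) (P.cons (P.lf 0 6790009 0) (P.cons (P.lf 2127028 0 0) (P.cons (P.lf 158059 0 0) P.nil)))))) (P.cons (P.cons (P.lf 4169128 0 0) (P.cons (P.lf 35896708 0 0) (P.cons (P.lf 28183592 0 0) (P.cons (P.lf 2647675 0 0) (P.cons (P.lf 0 1033970 0) P.nil))))) (P.cons (P.cons (P.lf 0 2889882 0) (P.cons (P.lf 8588274 0 0) (P.cons (P.lf 0 3009570 0) (P.cons (P.lf 0 670600 0) P.nil)))) (P.cons (P.cons (P.lf 0 5212539 0) (P.cons (P.lf 0 4879328 0) (P.cons (P.lf 0 579559 0) P.nil))) (P.cons (P.cons (P.lf 0 1028398 0) (P.cons (P.lf 223103 0 0) P.nil)) (P.cons (P.cons (P.lf 208648 0 0) P.nil) P.nil)))))) 925919)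
 EL.nil)
noncomputable def S314_343_364_512_30 : EL := (EL.cons 13 (TM.mk (P.cons (P.lf 0 2211029524 0) (P.cons (P.lf 0 361618480 0) (P.cons (P.lf 21238980 0 0) (P.cons (P.lf 543904 0 0) (P.cons (P.lf 0 97232 0) (P.cons (P.lf 1560 0 0) P.nil)))))) 512)
 EL.nil)
noncomputable def S314_343_364_512_31 : EL := (EL.cons 13 (TM.mk (P.cons (P.cons (P.lf 31423694 0 0) (P.cons (P.lf 245708008 0 0) (P.cons (P.lf 16427463 0 0) (P.lf 0 5475819 0)))) (P.cons (P.cons (P.lf 0 70367598 0) (P.cons (P.lf 0 19534500 0) (P.cons (P.lf 0 1306030 0) (P.lf 435343 0 0)))) (P.cons (P.cons (P.lf 0 51029277 0) (P.cons (P.lf 0 11084578 0) (P.cons (P.lf 0 741089 0) (P.lf 247029 0 0)))) (P.cons (P.cons (P.lf 0 3372540 0) (P.cons (P.lf 1524147 0 0) (P.cons (P.lf 101899 0 0) P.nil))) (P.cons (P.cons (P.lf 1190094 0 0) (P.cons (P.lf 90714 0 0) P.nil)) (P.cons (P.cons (P.lf 15986 0 0) P.nil) P.nil))))))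 112306)
 EL.nil)
noncomputable def S314_343_364_512_32 : EL := (EL.cons 13 (TM.mk (P.cons (P.cons (P.lf 0 446600 0) (P.cons (P.lf 0 6984125 0) (P.cons (P.lf 0 27772061 0) (P.cons (P.lf 0 3495465 0) (P.cons (P.lf 1094984 0 0) (P.cons (P.lf 81368 0 0) P.nil)))))) (P.cons (P.cons (P.lf 2073205 0 0) (P.cons (P.lf 17337192 0 0) (P.cons (P.lf 9966605 0 0) (P.cons (P.lf 791320 0 0) (P.cons (P.lf 0 353196 0) P.nil))))) (P.cons (P.cons (P.lf 0 1132384 0) (P.cons (P.lf 7510647 0 0) (P.cons (P.lf 1090405 0 0) (P.cons (P.lf 0 88721 0) P.nil)))) (P.cons (P.cons (P.lf 0 2947214 0) (P.cons (P.lf 0 1964552 0) (P.cons (P.lf 0 684286 0) P.nil))) (P.cons (P.cons (P.lf 0 954545 0) (P.cons (P.lf 0 343289 0) P.nil)) (P.cons (P.cons (P.lf 47061 0 0) P.nil) P.nil)))))) 895188)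
 EL.nil)
noncomputable def S314_343_364_512_33 : EL := (EL.cons 14 (TM.mk (P.lf 8589934592 0 0) 0)
 EL.nil)
noncomputable def S314_343_364_512_34 : EL := (EL.cons 14 (TM.mk (P.cons (P.cons (P.lf 0 122082260 0) (P.cons (P.lf 0 954585048 0) (P.cons (P.lf 0 63821328 0) (P.lf 21273768 0 0)))) (P.cons (P.cons (P.lf 293347630 0 0) (P.cons (P.lf 232016656 0 0) (P.cons (P.lf 15512088 0 0) (P.lf 0 5170696 0)))) (P.cons (P.cons (P.lf 149100374 0 0) (P.cons (P.lf 0 4052464 0) (P.cons (P.lf 0 270936 0) (P.lf 90312 0 0)))) (P.cons (P.cons (P.lf 0 8495384 0) (P.cons (P.lf 0 3264672 0) (P.cons (P.lf 0 218264 0) P.nil))) (P.cons (P.cons (P.lf 0 1724346 0) (P.cons (P.lf 241640 0 0) P.nil)) (P.cons (P.cons (P.lf 161996 0 0) P.nil) P.nil)))))) 148234)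
 EL.nil)
noncomputable def S314_343_364_512_35 : EL := (EL.cons 14 (TM.mk (P.cons (P.cons (P.lf 1735062 0 0) (P.cons (P.lf 27133594 0 0) (P.cons (P.lf 107895526 0 0) (P.cons (P.lf 13580018 0 0) (P.cons (P.lf 0 4254056 0) (P.cons (P.lf 0 316118 0) P.nil)))))) (P.cons (P.cons (P.lf 0 8338256 0) (P.cons (P.lf 0 71793416 0) (P.cons (P.lf 0 56367184 0) (P.cons (P.lf 0 5295350 0) (P.cons (P.lf 2067940 0 0) P.nil))))) (P.cons (P.cons (P.lf 5779764 0 0) (P.cons (P.lf 0 17176548 0) (P.cons (P.lf 6019140 0 0) (P.cons (P.lf 1341200 0 0) P.nil)))) (P.cons (P.cons (P.lf 10425078 0 0) (P.cons (P.lf 9758656 0 0) (P.cons (P.lf 1159118 0 0) P.nil))) (P.cons (P.cons (P.lf 2056796 0 0) (P.cons (P.lf 0 446206 0) P.nil)) (P.cons (P.cons (P.lf 0 417296 0) P.nil) P.nil)))))) 1851838)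
 EL.nil)
noncomputable def S314_343_364_512_36 : EL := (EL.cons 14 (TM.mk (P.cons (P.lf 4422059048 0 0) (P.cons (P.lf 723236960 0 0) (P.cons (P.lf 0 42477960 0) (P.cons (P.lf 0 1087808 0) (P.cons (P.lf 194464 0 0) (P.cons (P.lf 0 3120 0) P.nil)))))) 1024)
 EL.nil)
noncomputable def S314_343_364_512_37 : EL := (EL.cons 14 (TM.mk (P.cons (P.cons (P.lf 0 62847388 0) (P.cons (P.lf 0 491416016 0) (P.cons (P.lf 0 32854926 0) (P.lf 10951638 0 0)))) (P.cons (P.cons (P.lf 140735196 0 0) (P.cons (P.lf 39069000 0 0) (P.cons (P.lf 2612060 0 0) (P.lf 0 870686 0)))) (P.cons (P.cons (P.lf 102058554 0 0) (P.cons (P.lf 22169156 0 0) (P.cons (P.lf 1482178 0 0) (P.lf 0 494058 0)))) (P.cons (P.cons (P.lf 6745080 0 0) (P.cons (P.lf 0 3048294 0) (P.cons (P.lf 0 203798 0) P.nil))) (P.cons (P.cons (P.lf 0 2380188 0) (P.cons (P.lf 0 181428 0) P.nil)) (P.cons (P.cons (P.lf 0 31972 0) P.nil)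 P.nil)))))) 224612)
 EL.nil)
noncomputable def S314_343_364_512_38 : EL := (EL.cons 14 (TM.mk (P.cons (P.cons (P.lf 893200 0 0) (P.cons (P.lf 13968250 0 0) (P.cons (P.lf 55544122 0 0) (P.cons (P.lf 6990930 0 0) (P.cons (P.lf 0 2189968 0) (P.cons (P.lf 0 162736 0) P.nil)))))) (P.cons (P.cons (P.lf 0 4146410 0) (P.cons (P.lf 0 34674384 0) (P.cons (P.lf 0 19933210 0) (P.cons (P.lf 0 1582640 0) (P.cons (P.lf 706392 0 0) P.nil))))) (P.cons (P.cons (P.lf 2264768 0 0) (P.cons (P.lf 0 15021294 0) (P.cons (P.lf 0 2180810 0) (P.cons (P.lf 177442 0 0) P.nil)))) (P.cons (P.cons (P.lf 5894428 0 0) (P.cons (P.lf 3929104 0 0) (P.cons (P.lf 1368572 0 0) P.nil))) (P.cons (P.cons (P.lf 1909090 0 0) (P.cons (P.lf 686578 0 0) P.nil)) (P.cons (P.cons (P.lf 0 94122 0) P.nil) P.nil)))))) 1790376)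
 EL.nil)
noncomputable def S314_343_364_512_39 : EL := (EL.cons 14 (TM.mk (P.cons (P.lf 2276455776 0 0) (P.cons (P.lf 744638158 0 0) (P.cons (P.lf 17158640 0 0) (P.cons (P.lf 0 8272934 0) (P.cons (P.lf 227096 0 0) (P.cons (P.lf 40292 0 0) P.nil)))))) 3922)
 EL.nil)
noncomputable def S314_343_364_512_40 : EL := (EL.cons 14 (TM.mk (P.cons (P.cons (P.lf 0 32353548 0) (P.cons (P.lf 0 252978718 0) (P.cons (P.lf 0 16913566 0) (P.lf 5637852 0 0)))) (P.cons (P.cons (P.lf 67158344 0 0) (P.cons (P.lf 0 21262652 0) (P.cons (P.lf 0 1421572 0) (P.lf 473856 0 0)))) (P.cons (P.cons (P.lf 64699384 0 0) (P.cons (P.lf 17132122 0 0) (P.cons (P.lf 1145414 0 0) (P.lf 0 381804 0)))) (P.cons (P.cons (P.lf 11377256 0 0) (P.cons (P.lf 166334 0 0) (P.cons (P.lf 11122 0 0) P.nil))) (P.cons (P.cons (P.lf 0 1181334 0) (P.cons (P.lf 0 475752 0) P.nil)) (P.cons (P.cons (P.lf 0 259932 0) P.nil) P.nil))))))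 217300)
 EL.nil)
noncomputable def S314_343_364_512_41 : EL := (EL.cons 14 (TM.mk (P.cons (P.cons (P.lf 459816 0 0) (P.cons (P.lf 7190790 0 0) (P.cons (P.lf 28593860 0 0) (P.cons (P.lf 3598898 0 0) (P.cons (P.lf 0 1127384 0) (P.cons (P.lf 0 83774 0) P.nil)))))) (P.cons (P.cons (P.lf 0 2059348 0) (P.cons (P.lf 0 16674146 0) (P.cons (P.lf 0 5584940 0) (P.cons (P.lf 0 226128 0) (P.cons (P.lf 179260 0 0) P.nil))))) (P.cons (P.cons (P.lf 812364 0 0) (P.cons (P.lf 0 10721406 0) (P.cons (P.lf 0 3075634 0) (P.cons (P.lf 0 76474 0) P.nil)))) (P.cons (P.cons (P.lf 3245500 0 0) (P.cons (P.lf 927652 0 0) (P.cons (P.lf 612456 0 0) P.nil))) (P.cons (P.cons (P.lf 1468422 0 0) (P.cons (P.lf 763250 0 0) P.nil)) (P.cons (P.cons (P.lf 82754 0 0) P.nil) P.nil)))))) 1357356)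
 EL.nil)
noncomputable def S314_343_364_512_42 : EL := (EL.cons 14 (TM.mk (P.cons (P.lf 1171909022 0 0) (P.cons (P.lf 575004478 0 0) (P.cons (P.lf 60271372 0 0) (P.cons (P.lf 0 6784766 0) (P.cons (P.lf 0 707252 0) (P.cons (P.lf 94630 0 0) P.nil)))))) 9404)
 EL.nil)
noncomputable def S314_343_364_512_43 : EL := (EL.cons 14 (TM.mk (P.cons (P.cons (P.lf 0 16655458 0) (P.cons (P.lf 0 130232286 0) (P.cons (P.lf 0 8707026 0) (P.lf 2902340 0 0)))) (P.cons (P.cons (P.lf 31848774 0 0) (P.cons (P.lf 0 32245676 0) (P.cons (P.lf 0 2155870 0) (P.lf 718622 0 0)))) (P.cons (P.cons (P.lf 39121392 0 0) (P.cons (P.lf 8280312 0 0) (P.cons (P.lf 553602 0 0) (P.lf 0 184534 0)))) (P.cons (P.cons (P.lf 10976372 0 0) (P.cons (P.lf 1665264 0 0) (P.cons (P.lf 111336 0 0) P.nil))) (P.cons (P.cons (P.lf 20590 0 0) (P.cons (P.lf 0 318664 0) P.nil)) (P.cons (P.cons (P.lf 0 296198 0) P.nil) P.nil))))))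 267962)
 EL.nil)
noncomputable def S314_343_364_512_44 : EL := (EL.cons 14 (TM.mk (P.cons (P.cons (P.lf 236710 0 0) (P.cons (P.lf 3701786 0 0) (P.cons (P.lf 14719988 0 0) (P.cons (P.lf 1852696 0 0) (P.cons (P.lf 0 580372 0) (P.cons (P.lf 0 43126 0) P.nil)))))) (P.cons (P.cons (P.lf 0 1021428 0) (P.cons (P.lf 0 7978338 0) (P.cons (P.lf 0 467616 0) (P.cons (P.lf 186602 0 0) (P.cons (P.lf 0 2638 0) P.nil))))) (P.cons (P.cons (P.lf 242538 0 0) (P.cons (P.lf 0 6958784 0) (P.cons (P.lf 0 2194950 0) (P.cons (P.lf 0 76204 0) P.nil)))) (P.cons (P.cons (P.lf 1749290 0 0) (P.cons (P.lf 0 343600 0) (P.cons (P.lf 80330 0 0) P.nil))) (P.cons (P.cons (P.lf 1025448 0 0) (P.cons (P.lf 526314 0 0) P.nil)) (P.cons (P.cons (P.lf 150036 0 0) P.nil) P.nil)))))) 1142016)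
 EL.nil)
noncomputable def S314_343_364_512_45 : EL := (EL.cons 14 (TM.mk (P.cons (P.cons (P.lf 0 24658 0) (P.cons (P.lf 0 578442 0) (P.cons (P.lf 0 4561638 0) (P.cons (P.lf 0 12380550 0) (P.cons (P.lf 0 2183106 0) (P.cons (P.lf 643554 0 0) P.nil)))))) (P.cons (P.cons (P.lf 177756 0 0) (P.cons (P.lf 2920442 0 0) (P.cons (P.lf 13262006 0 0) (P.cons (P.lf 10278012 0 0) (P.cons (P.lf 1200098 0 0) P.nil))))) (P.cons (P.cons (P.lf 0 336778 0) (P.cons (P.lf 0 2604998 0) (P.cons (P.lf 0 238904 0) (P.cons (P.lf 0 2190008 0) P.nil)))) (P.cons (P.cons (P.lf 0 97230 0) (P.cons (P.lf 0 2997402 0) (P.cons (P.lf 0 2487672 0) P.nil))) (P.cons (P.cons (P.lf 435006 0 0) (P.cons (P.lf 160520 0 0) P.nil)) (P.cons (P.cons (P.lf 253114 0 0) P.nil) P.nil)))))) 4125254)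
 EL.nil)
noncomputable def S314_343_364_512_46 : EL := (EL.cons 15 (TM.mk (P.lf 4294967296 0 0) 0)
 EL.nil)
noncomputable def S314_343_364_512_47 : EL := (EL.cons 15 (TM.mk (P.cons (P.cons (P.lf 0 61041130 0) (P.cons (P.lf 0 477292524 0) (P.cons (P.lf 0 31910664 0) (P.lf 10636884 0 0)))) (P.cons (P.cons (P.lf 146673815 0 0) (P.cons (P.lf 116008328 0 0) (P.cons (P.lf 7756044 0 0) (P.lf 0 2585348 0)))) (P.cons (P.cons (P.lf 74550187 0 0) (P.cons (P.lf 0 2026232 0) (P.cons (P.lf 0 135468 0) (P.lf 45156 0 0)))) (P.cons (P.cons (P.lf 0 4247692 0) (P.cons (P.lf 0 1632336 0) (P.cons (P.lf 0 109132 0) P.nil))) (P.cons (P.cons (P.lf 0 862173 0) (P.cons (P.lf 120820 0 0) P.nil)) (P.cons (P.cons (P.lf 80998 0 0) P.nil) P.nil)))))) 74117)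
 EL.nil)
noncomputable def S314_343_364_512_48 : EL := (EL.cons 15 (TM.mk (P.cons (P.cons (P.lf 867531 0 0) (P.cons (P.lf 13566797 0 0) (P.cons (P.lf 53947763 0 0) (P.cons (P.lf 6790009 0 0) (P.cons (P.lf 0 2127028 0) (P.cons (P.lf 0 158059 0) P.nil)))))) (P.cons (P.cons (P.lf 0 4169128 0) (P.cons (P.lf 0 35896708 0) (P.cons (P.lf 0 28183592 0) (P.cons (P.lf 0 2647675 0) (P.cons (P.lf 1033970 0 0) P.nil))))) (P.cons (P.cons (P.lf 2889882 0 0) (P.cons (P.lf 0 8588274 0) (P.cons (P.lf 3009570 0 0) (P.cons (P.lf 670600 0 0) P.nil)))) (P.cons (P.cons (P.lf 5212539 0 0) (P.cons (P.lf 4879328 0 0) (P.cons (P.lf 579559 0 0) P.nil))) (P.cons (P.cons (P.lf 1028398 0 0) (P.cons (P.lf 0 223103 0) P.nil)) (P.cons (P.cons (P.lf 0 208648 0) P.nil) P.nil)))))) 925919)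
 EL.nil)
noncomputable def S314_343_364_512 : SL := (SL.cons S314_343_364_512_0 (SL.cons S314_343_364_512_1 (SL.cons S314_343_364_512_2 (SL.cons S314_343_364_512_3 (SL.cons S314_343_364_512_4 (SL.cons S314_343_364_512_5 (SL.cons S314_343_364_512_6 (SL.cons S314_343_364_512_7 (SL.cons S314_343_364_512_8 (SL.cons S314_343_364_512_9 (SL.cons S314_343_364_512_10 (SL.cons S314_343_364_512_11 (SL.cons S314_343_364_512_12 (SL.cons S314_343_364_512_13 (SL.cons S314_343_364_512_14 (SL.cons S314_343_364_512_15 (SL.cons S314_343_364_512_16 (SL.cons S314_343_364_512_17 (SL.cons S314_343_364_512_18 (SL.cons S314_343_364_512_19 (SL.cons S314_343_364_512_20 (SL.cons S314_343_364_512_21 (SL.cons S314_343_364_512_22 (SL.cons S314_343_364_512_23 (SL.cons S314_343_364_512_24 (SL.cons S314_343_364_512_25 (SL.cons S314_343_364_512_26 (SL.cons S314_343_364_512_27 (SL.cons S314_343_364_512_28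 (SL.cons S314_343_364_512_29 (SL.cons S314_343_364_512_30 (SL.cons S314_343_364_512_31 (SL.cons S314_343_364_512_32 (SL.cons S314_343_364_512_33 (SL.cons S314_343_364_512_34 (SL.cons S314_343_364_512_35 (SL.cons S314_343_364_512_36 (SL.cons S314_343_364_512_37 (SL.cons S314_343_364_512_38 (SL.cons S314_343_364_512_39 (SL.cons S314_343_364_512_40 (SL.cons S314_343_364_512_41 (SL.cons S314_343_364_512_42 (SL.cons S314_343_364_512_43 (SL.cons S314_343_364_512_44 (SL.cons S314_343_364_512_45 (SL.cons S314_343_364_512_46 (SL.cons S314_343_364_512_47 (SL.cons S314_343_364_512_48 SL.nil)))))))))))))))))))))))))))))))))))))))))))))))))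
noncomputable def S314_343_438_512_0 : EL := (EL.cons 0 (TM.mk (P.cons (P.lf 6454925654 0 0) (P.cons (P.lf 0 654467131 0) (P.cons (P.lf 0 15080835 0) (P.cons (P.lf 7271133 0 0) (P.cons (P.lf 0 199596 0) (P.cons (P.lf 0 35412 0) P.nil)))))) 3454)
 (EL.cons 1 (TM.mk (P.cons (P.lf 1695086628 0 0) (P.cons (P.lf 139901857 0 0) (P.cons (P.lf 0 47471786 0) (P.cons (P.lf 293435 0 0) (P.cons (P.lf 328029 0 0) (P.cons (P.lf 0 15684 0) P.nil)))))) 1940)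
 (EL.cons 5 (TM.mk (P.cons (P.lf 5006359730 0 0) (P.cons (P.lf 232699422 0 0) (P.cons (P.lf 5362070 0 0) (P.cons (P.lf 0 2585292 0) (P.cons (P.lf 70970 0 0) (P.cons (P.lf 12590 0 0) P.nil)))))) 1169)
 (EL.cons 9 (TM.mk (P.lf 6442450944 0 0) 2)
 EL.nil))))
noncomputable def S314_343_438_512_1 : EL := (EL.cons 0 (TM.mk (P.cons (P.cons (P.lf 725771344 0 0) (P.cons (P.lf 0 26406564 0) (P.cons (P.lf 0 420302 0) (P.lf 140100 0 0)))) (P.cons (P.cons (P.lf 1343184943 0 0) (P.cons (P.lf 159171738 0 0) (P.cons (P.lf 2533423 0 0) (P.lf 0 844472 0)))) (P.cons (P.cons (P.lf 67626934 0 0) (P.cons (P.lf 0 33719708 0) (P.cons (P.lf 0 536683 0) (P.lf 178887 0 0)))) (P.cons (P.cons (P.lf 0 67628800 0) (P.cons (P.lf 0 1994449 0) (P.cons (P.lf 0 31742 0) P.nil))) (P.cons (P.cons (P.lf 1470177 0 0) (P.cons (P.lf 1003110 0 0) P.nil)) (P.cons (P.cons (P.lf 1288792 0 0) P.nil) P.nil))))))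 403691)
 (EL.cons 1 (TM.mk (P.cons (P.cons (P.lf 0 374460671 0) (P.cons (P.lf 0 173777850 0) (P.cons (P.lf 0 2765901 0) (P.lf 921961 0 0)))) (P.cons (P.cons (P.lf 44330263 0 0) (P.cons (P.lf 63844092 0 0) (P.cons (P.lf 1016155 0 0) (P.lf 0 338712 0)))) (P.cons (P.cons (P.lf 176096508 0 0) (P.cons (P.lf 8497881 0 0) (P.cons (P.lf 135257 0 0) (P.lf 0 45083 0)))) (P.cons (P.cons (P.lf 0 4175818 0) (P.cons (P.lf 0 3698559 0) (P.cons (P.lf 0 58859 0) P.nil))) (P.cons (P.cons (P.lf 0 5630318 0) (P.cons (P.lf 56509 0 0) P.nil)) (P.cons (P.cons (P.lf 330429 0 0) P.nil) P.nil)))))) 246366)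
 (EL.cons 5 (TM.mk (P.cons (P.cons (P.lf 0 778822295 0) (P.cons (P.lf 0 416652696 0) (P.cons (P.lf 0 6631578 0) (P.lf 2210522 0 0)))) (P.cons (P.cons (P.lf 0 126877369 0) (P.cons (P.lf 46957168 0 0) (P.cons (P.lf 747390 0 0) (P.lf 0 249136 0)))) (P.cons (P.cons (P.lf 100919916 0 0) (P.cons (P.lf 10180566 0 0) (P.cons (P.lf 162030 0 0) (P.lf 0 54006 0)))) (P.cons (P.cons (P.lf 15398572 0 0) (P.cons (P.lf 0 747928 0) (P.cons (P.lf 0 11912 0) P.nil))) (P.cons (P.cons (P.lf 0 1882875 0) (P.cons (P.lf 0 248814 0) P.nil)) (P.cons (P.cons (P.lf 0 313097 0) P.nil) P.nil)))))) 198548)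
 (EL.cons 9 (TM.mk (P.cons (P.cons (P.lf 0 459503169 0) (P.cons (P.lf 0 375919140 0) (P.cons (P.lf 0 5983248 0) (P.lf 1994412 0 0)))) (P.cons (P.cons (P.lf 309440734 0 0) (P.cons (P.lf 91369020 0 0) (P.cons (P.lf 1454256 0 0) (P.lf 0 484752 0)))) (P.cons (P.cons (P.lf 110263270 0 0) (P.cons (P.lf 0 1595874 0) (P.cons (P.lf 0 25398 0) (P.lf 8466 0 0)))) (P.cons (P.cons (P.lf 0 7629900 0) (P.cons (P.lf 0 1285644 0) (P.cons (P.lf 0 20460 0) P.nil))) (P.cons (P.cons (P.lf 0 1200115 0) (P.cons (P.lf 95154 0 0) P.nil)) (P.cons (P.cons (P.lf 128055 0 0) P.nil) P.nil)))))) 34340)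
 (EL.cons 2 (TM.mk (P.cons (P.cons (P.lf 0 1020671074 0) (P.cons (P.lf 0 37834883 0) (P.cons (P.lf 18747320 0 0) (P.cons (P.lf 170116 0 0) (P.lf 0 42527 0))))) (P.cons (P.cons (P.lf 0 1546745 0) (P.cons (P.lf 0 57335 0) (P.cons (P.lf 28409 0 0) (P.cons (P.lf 258 0 0) (P.lf 0 64 0))))) (P.cons (P.cons (P.lf 40664708 0 0) (P.cons (P.lf 1507381 0 0) (P.cons (P.lf 0 746912 0) (P.cons (P.lf 0 6775 0) P.nil)))) (P.cons (P.cons (P.lf 0 2551750 0) (P.cons (P.lf 0 94587 0) (P.cons (P.lf 46867 0 0) P.nil))) (P.cons (P.cons (P.lf 0 372254 0) (P.cons (P.lf 0 13798 0) P.nil)) (P.cons (P.cons (P.lf 41900 0 0) P.nil) P.nil)))))) 18299)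
 (EL.cons 6 (TM.mk (P.cons (P.cons (P.lf 864720858 0 0) (P.cons (P.lf 32054022 0 0) (P.cons (P.lf 0 15882882 0) (P.cons (P.lf 0 144126 0) (P.lf 36030 0 0))))) (P.cons (P.cons (P.lf 0 210174717 0) (P.cons (P.lf 0 7790889 0) (P.cons (P.lf 3860412 0 0) (P.cons (P.lf 35028 0 0) (P.lf 0 8754 0))))) (P.cons (P.cons (P.lf 3670965 0 0) (P.cons (P.lf 136077 0 0) (P.cons (P.lf 0 67425 0) (P.cons (P.lf 0 612 0) P.nil)))) (P.cons (P.cons (P.lf 2957346 0 0) (P.cons (P.lf 109623 0 0) (P.cons (P.lf 0 54318 0) P.nil))) (P.cons (P.cons (P.lf 0 218892 0) (P.cons (P.lf 0 8112 0) P.nil)) (P.cons (P.cons (P.lf 0 15414 0) P.nil) P.nil)))))) 10425)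
 EL.nil))))))
noncomputable def S314_343_438_512_2 : EL := (EL.cons 0 (TM.mk (P.cons (P.cons (P.lf 0 136367419 0) (P.cons (P.lf 0 134659291 0) (P.cons (P.lf 0 21039092 0) (P.cons (P.lf 112926 0 0) (P.cons (P.lf 195705 0 0) (P.cons (P.lf 3185 0 0) P.nil)))))) (P.cons (P.cons (P.lf 0 74327464 0) (P.cons (P.lf 0 106718333 0) (P.cons (P.lf 0 8111255 0) (P.cons (P.lf 362046 0 0) (P.cons (P.lf 66426 0 0) P.nil))))) (P.cons (P.cons (P.lf 140687081 0 0) (P.cons (P.lf 48047444 0 0) (P.cons (P.lf 6710990 0 0) (P.cons (P.lf 0 65617 0) P.nil)))) (P.cons (P.cons (P.lf 48470503 0 0) (P.cons (P.lf 6787830 0 0) (P.cons (P.lf 0 688096 0) P.nil))) (P.cons (P.cons (P.lf 0 7935942 0) (P.cons (P.lf 0 3766180 0) P.nil)) (P.cons (P.cons (P.lf 0 2432045 0) P.nil) P.nil)))))) 2216028)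
 (EL.cons 1 (TM.mk (P.cons (P.cons (P.lf 44793101 0 0) (P.cons (P.lf 54379757 0 0) (P.cons (P.lf 15374146 0 0) (P.cons (P.lf 173332 0 0) (P.cons (P.lf 0 150273 0) (P.cons (P.lf 0 2443 0) P.nil)))))) (P.cons (P.cons (P.lf 0 31393077 0) (P.cons (P.lf 0 29829411 0) (P.cons (P.lf 0 10525381 0) (P.cons (P.lf 0 161674 0) (P.cons (P.lf 104095 0 0) P.nil))))) (P.cons (P.cons (P.lf 0 32251378 0) (P.cons (P.lf 0 17656497 0) (P.cons (P.lf 627506 0 0) (P.cons (P.lf 122593 0 0) P.nil)))) (P.cons (P.cons (P.lf 16535176 0 0) (P.cons (P.lf 8204877 0 0) (P.cons (P.lf 701658 0 0) P.nil))) (P.cons (P.cons (P.lf 5855915 0 0) (P.cons (P.lf 217336 0 0) P.nil)) (P.cons (P.cons (P.lf 0 1015933 0) P.nil) P.nil)))))) 1237923)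
 (EL.cons 5 (TM.mk (P.cons (P.cons (P.lf 85629757 0 0) (P.cons (P.lf 108653088 0 0) (P.cons (P.lf 33307531 0 0) (P.cons (P.lf 428752 0 0) (P.cons (P.lf 0 327065 0) (P.cons (P.lf 0 5327 0) P.nil)))))) (P.cons (P.cons (P.lf 0 23599248 0) (P.cons (P.lf 0 17754052 0) (P.cons (P.lf 0 10087042 0) (P.cons (P.lf 0 217899 0) (P.cons (P.lf 101544 0 0) P.nil))))) (P.cons (P.cons (P.lf 0 51003516 0) (P.cons (P.lf 0 21461544 0) (P.cons (P.lf 0 776129 0) (P.cons (P.lf 100021 0 0) P.nil)))) (P.cons (P.cons (P.lf 0 3995905 0) (P.cons (P.lf 2174394 0 0) (P.cons (P.lf 436416 0 0) P.nil))) (P.cons (P.cons (P.lf 4323800 0 0) (P.cons (P.lf 1035264 0 0) P.nil)) (P.cons (P.cons (P.lf 417357 0 0) P.nil) P.nil)))))) 1129580)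
 (EL.cons 9 (TM.mk (P.cons (P.cons (P.lf 32773731 0 0) (P.cons (P.lf 53624322 0 0) (P.cons (P.lf 22788507 0 0) (P.cons (P.lf 413748 0 0) (P.cons (P.lf 0 227191 0) (P.cons (P.lf 0 3703 0) P.nil)))))) (P.cons (P.cons (P.lf 0 44141274 0) (P.cons (P.lf 0 49145596 0) (P.cons (P.lf 0 11445040 0) (P.cons (P.lf 0 78687 0) (P.cons (P.lf 110440 0 0) P.nil))))) (P.cons (P.cons (P.lf 0 865986 0) (P.cons (P.lf 0 3862960 0) (P.cons (P.lf 1420581 0 0) (P.cons (P.lf 67671 0 0) P.nil)))) (P.cons (P.cons (P.lf 11680618 0 0) (P.cons (P.lf 4048086 0 0) (P.cons (P.lf 169198 0 0) P.nil))) (P.cons (P.cons (P.lf 1325410 0 0) (P.cons (P.lf 0 268068 0) P.nil)) (P.cons (P.cons (P.lf 0 394726 0) P.nil) P.nil)))))) 316976)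
 (EL.cons 2 (TM.mk (P.cons (P.cons (P.lf 145597252 0 0) (P.cons (P.lf 124510078 0 0) (P.cons (P.lf 3636916 0 0) (P.cons (P.lf 0 2773760 0) (P.cons (P.lf 0 72028 0) (P.cons (P.lf 16250 0 0) P.nil)))))) (P.cons (P.cons (P.lf 0 97828126 0) (P.cons (P.lf 0 32396850 0) (P.cons (P.lf 272469 0 0) (P.cons (P.lf 680411 0 0) (P.cons (P.lf 14782 0 0) P.nil))))) (P.cons (P.cons (P.lf 0 40887146 0) (P.cons (P.lf 0 5799431 0) (P.cons (P.lf 524019 0 0) (P.cons (P.lf 105693 0 0) P.nil)))) (P.cons (P.cons (P.lf 6635025 0 0) (P.cons (P.lf 2105313 0 0) (P.cons (P.lf 0 23349 0) P.nil))) (P.cons (P.cons (P.lf 1583859 0 0) (P.cons (P.lf 0 19901 0) P.nil)) (P.cons (P.cons (P.lf 0 265398 0) P.nil) P.nil)))))) 214137)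
 (EL.cons 6 (TM.mk (P.cons (P.cons (P.lf 0 123351180 0) (P.cons (P.lf 0 105485952 0) (P.cons (P.lf 0 3081222 0) (P.cons (P.lf 2349948 0 0) (P.cons (P.lf 61020 0 0) (P.cons (P.lf 0 13770 0) P.nil)))))) (P.cons (P.cons (P.lf 113048838 0 0) (P.cons (P.lf 53245620 0 0) (P.cons (P.lf 522732 0 0) (P.cons (P.lf 0 1151178 0) (P.cons (P.lf 0 27450 0) P.nil))))) (P.cons (P.cons (P.lf 8885904 0 0) (P.cons (P.lf 0 6488952 0) (P.cons (P.lf 0 524478 0) (P.cons (P.lf 155904 0 0) P.nil)))) (P.cons (P.cons (P.lf 0 9311748 0) (P.cons (P.lf 0 827166 0) (P.cons (P.lf 145494 0 0) P.nil))) (P.cons (P.cons (P.lf 616632 0 0) (P.cons (P.lf 239892 0 0) P.nil)) (P.cons (P.cons (P.lf 186384 0 0) P.nil) P.nil)))))) 173670)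
 EL.nil))))))
noncomputable def S314_343_438_512_3 : EL := (EL.cons 0 (TM.mk (P.cons (P.lf 2000791209 0 0) (P.cons (P.lf 654467131 0 0) (P.cons (P.lf 15080835 0 0) (P.cons (P.lf 0 7271133 0) (P.cons (P.lf 199596 0 0) (P.cons (P.lf 35412 0 0) P.nil)))))) 3454)
 (EL.cons 1 (TM.mk (P.cons (P.lf 0 1695086628 0) (P.cons (P.lf 0 139901857 0) (P.cons (P.lf 47471786 0 0) (P.cons (P.lf 0 293435 0) (P.cons (P.lf 0 328029 0) (P.cons (P.lf 15684 0 0) P.nil)))))) 1940)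
 (EL.cons 5 (TM.mk (P.cons (P.lf 1436091214 0 0) (P.cons (P.lf 0 232699422 0) (P.cons (P.lf 0 5362070 0) (P.cons (P.lf 2585292 0 0) (P.cons (P.lf 0 70970 0) (P.cons (P.lf 0 12590 0) P.nil)))))) 1162)
 EL.nil)))
noncomputable def S314_343_438_512_4 : EL := (EL.cons 0 (TM.mk (P.cons (P.cons (P.lf 0 142704989 0) (P.cons (P.lf 0 116746827 0) (P.cons (P.lf 0 1858178 0) (P.lf 619391 0 0)))) (P.cons (P.cons (P.lf 49421652 0 0) (P.cons (P.lf 0 9812475 0) (P.cons (P.lf 0 156178 0) (P.lf 52057 0 0)))) (P.cons (P.cons (P.lf 64603188 0 0) (P.cons (P.lf 7906282 0 0) (P.cons (P.lf 125838 0 0) (P.lf 0 41944 0)))) (P.cons (P.cons (P.lf 10074672 0 0) (P.cons (P.lf 76760 0 0) (P.cons (P.lf 1221 0 0) P.nil))) (P.cons (P.cons (P.lf 0 1253176 0) (P.cons (P.lf 0 219556 0) P.nil)) (P.cons (P.cons (P.lf 0 217390 0) P.nil) P.nil)))))) 78159)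
 (EL.cons 1 (TM.mk (P.cons (P.cons (P.lf 120900830 0 0) (P.cons (P.lf 98908863 0 0) (P.cons (P.lf 1574263 0 0) (P.lf 0 524752 0)))) (P.cons (P.cons (P.lf 0 71439193 0) (P.cons (P.lf 0 15876971 0) (P.cons (P.lf 0 252701 0) (P.lf 84232 0 0)))) (P.cons (P.cons (P.lf 0 39117187 0) (P.cons (P.lf 0 4334235 0) (P.cons (P.lf 0 68985 0) (P.lf 22993 0 0)))) (P.cons (P.cons (P.lf 1914153 0 0) (P.cons (P.lf 1063305 0 0) (P.cons (P.lf 16921 0 0) P.nil))) (P.cons (P.cons (P.lf 1303239 0 0) (P.cons (P.lf 6101 0 0) P.nil)) (P.cons (P.cons (P.lf 0 85749 0) P.nil) P.nil)))))) 56115)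
 (EL.cons 5 (TM.mk (P.cons (P.cons (P.lf 0 102428170 0) (P.cons (P.lf 0 83796396 0) (P.cons (P.lf 0 1333728 0) (P.lf 444574 0 0)))) (P.cons (P.cons (P.lf 85574766 0 0) (P.cons (P.lf 33945218 0 0) (P.cons (P.lf 540282 0 0) (P.lf 0 180092 0)))) (P.cons (P.cons (P.lf 13784398 0 0) (P.cons (P.lf 0 3343080 0) (P.cons (P.lf 0 53208 0) (P.lf 17736 0 0)))) (P.cons (P.cons (P.lf 0 6125404 0) (P.cons (P.lf 0 455840 0) (P.cons (P.lf 0 7252 0) P.nil))) (P.cons (P.cons (P.lf 45536 0 0) (P.cons (P.lf 109782 0 0) P.nil)) (P.cons (P.cons (P.lf 119978 0 0) P.nil) P.nil)))))) 40872)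
 EL.nil)))
noncomputable def S314_343_438_512_5 : EL := (EL.cons 0 (TM.mk (P.cons (P.cons (P.lf 10178328 0 0) (P.cons (P.lf 16653765 0 0) (P.cons (P.lf 7077281 0 0) (P.cons (P.lf 128494 0 0) (P.cons (P.lf 0 70556 0) (P.cons (P.lf 0 1149 0) P.nil)))))) (P.cons (P.cons (P.lf 0 10379300 0) (P.cons (P.lf 0 9815319 0) (P.cons (P.lf 0 1239403 0) (P.cons (P.lf 17593 0 0) (P.cons (P.lf 11218 0 0) P.nil))))) (P.cons (P.cons (P.lf 0 4676389 0) (P.cons (P.lf 0 6066704 0) (P.cons (P.lf 0 668137 0) (P.cons (P.lf 13990 0 0) P.nil)))) (P.cons (P.cons (P.lf 3399284 0 0) (P.cons (P.lf 689197 0 0) (P.cons (P.lf 144348 0 0) P.nil))) (P.cons (P.cons (P.lf 1647026 0 0) (P.cons (P.lf 376064 0 0) P.nil)) (P.cons (P.cons (P.lf 39188 0 0) P.nil) P.nil)))))) 298488)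
 (EL.cons 1 (TM.mk (P.cons (P.cons (P.lf 0 8623162 0) (P.cons (P.lf 0 14109204 0) (P.cons (P.lf 0 5995929 0) (P.cons (P.lf 0 108860 0) (P.cons (P.lf 59775 0 0) (P.cons (P.lf 973 0 0) P.nil)))))) (P.cons (P.cons (P.lf 10902399 0 0) (P.cons (P.lf 11766313 0 0) (P.cons (P.lf 2516460 0 0) (P.cons (P.lf 11716 0 0) (P.cons (P.lf 0 24123 0) P.nil))))) (P.cons (P.cons (P.lf 1427900 0 0) (P.cons (P.lf 2478753 0 0) (P.cons (P.lf 42682 0 0) (P.cons (P.lf 0 13046 0) P.nil)))) (P.cons (P.cons (P.lf 0 3381256 0) (P.cons (P.lf 0 1345788 0) (P.cons (P.lf 0 160738 0) P.nil))) (P.cons (P.cons (P.lf 0 608420 0) (P.cons (P.lf 0 46329 0) P.nil)) (P.cons (P.cons (P.lf 163509 0 0) P.nil) P.nil)))))) 227470)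
 (EL.cons 5 (TM.mk (P.cons (P.cons (P.lf 7305614 0 0) (P.cons (P.lf 11953434 0 0) (P.cons (P.lf 5079800 0 0) (P.cons (P.lf 92228 0 0) (P.cons (P.lf 0 50642 0) (P.cons (P.lf 0 824 0) P.nil)))))) (P.cons (P.cons (P.lf 0 11023338 0) (P.cons (P.lf 0 12891972 0) (P.cons (P.lf 0 3374334 0) (P.cons (P.lf 0 32484 0) (P.cons (P.lf 32824 0 0) P.nil))))) (P.cons (P.cons (P.lf 1374054 0 0) (P.cons (P.lf 869396 0 0) (P.cons (P.lf 711086 0 0) (P.cons (P.lf 17582 0 0) P.nil)))) (P.cons (P.cons (P.lf 2684904 0 0) (P.cons (P.lf 1104312 0 0) (P.cons (P.lf 5074 0 0) P.nil))) (P.cons (P.cons (P.lf 0 143806 0) (P.cons (P.lf 0 223068 0) P.nil)) (P.cons (P.cons (P.lf 0 145508 0) P.nil) P.nil)))))) 159000)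
 EL.nil)))
noncomputable def S314_343_438_512_6 : EL := (EL.cons 12 (TM.mk (P.lf 8589934592 0 0) 0)
 (EL.cons 3 (TM.mk (P.cons (P.lf 2072840178 0 0) (P.cons (P.lf 339017325 0 0) (P.cons (P.lf 0 19911543 0) (P.cons (P.lf 0 509910 0) (P.cons (P.lf 91155 0 0) (P.cons (P.lf 0 1462 0) P.nil)))))) 487)
 (EL.cons 7 (TM.mk (P.cons (P.lf 0 1756127103 0) (P.cons (P.lf 142278485 0 0) (P.cons (P.lf 9042093 0 0) (P.cons (P.lf 0 848140 0) (P.cons (P.lf 0 2043 0) (P.cons (P.lf 3166 0 0) P.nil)))))) 195)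
 EL.nil)))
noncomputable def S314_343_438_512_7 : EL := (EL.cons 12 (TM.mk (P.cons (P.cons (P.lf 0 612670892 0) (P.cons (P.lf 0 501225520 0) (P.cons (P.lf 0 7977664 0) (P.lf 2659216 0 0)))) (P.cons (P.cons (P.lf 412587646 0 0) (P.cons (P.lf 121825360 0 0) (P.cons (P.lf 1939008 0 0) (P.lf 0 646336 0)))) (P.cons (P.cons (P.lf 147017694 0 0) (P.cons (P.lf 0 2127832 0) (P.cons (P.lf 0 33864 0) (P.lf 11288 0 0)))) (P.cons (P.cons (P.lf 0 10173200 0) (P.cons (P.lf 0 1714192 0) (P.cons (P.lf 0 27280 0) P.nil))) (P.cons (P.cons (P.lf 0 1600154 0) (P.cons (P.lf 126872 0 0) P.nil)) (P.cons (P.cons (P.lf 170740 0 0) P.nil) P.nil)))))) 45762)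
 (EL.cons 3 (TM.mk (P.cons (P.cons (P.lf 1081034497 0 0) (P.cons (P.lf 241901816 0 0) (P.cons (P.lf 3850184 0 0) (P.lf 0 1283392 0)))) (P.cons (P.cons (P.lf 896384395 0 0) (P.cons (P.lf 0 19231894 0) (P.cons (P.lf 0 306098 0) (P.lf 102030 0 0)))) (P.cons (P.cons (P.lf 0 82231839 0) (P.cons (P.lf 0 10912870 0) (P.cons (P.lf 0 173692 0) (P.lf 57896 0 0)))) (P.cons (P.cons (P.lf 0 16488628 0) (P.cons (P.lf 1500538 0 0) (P.cons (P.lf 23880 0 0) P.nil))) (P.cons (P.cons (P.lf 2638192 0 0) (P.cons (P.lf 89310 0 0) P.nil)) (P.cons (P.cons (P.lf 61887 0 0) P.nil) P.nil)))))) 169592)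
 (EL.cons 7 (TM.mk (P.cons (P.cons (P.lf 640989053 0 0) (P.cons (P.lf 254752309 0 0) (P.cons (P.lf 4054720 0 0) (P.lf 0 1351574 0)))) (P.cons (P.cons (P.lf 376193798 0 0) (P.cons (P.lf 0 8071228 0) (P.cons (P.lf 0 128465 0) (P.lf 42823 0 0)))) (P.cons (P.cons (P.lf 11491943 0 0) (P.cons (P.lf 0 5566891 0) (P.cons (P.lf 0 88602 0) (P.lf 29533 0 0)))) (P.cons (P.cons (P.lf 0 10621024 0) (P.cons (P.lf 0 158311 0) (P.cons (P.lf 0 2518 0) P.nil))) (P.cons (P.cons (P.lf 0 260213 0) (P.cons (P.lf 114242 0 0) P.nil)) (P.cons (P.cons (P.lf 165438 0 0) P.nil) P.nil)))))) 103299)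
 (EL.cons 10 (TM.mk (P.cons (P.cons (P.lf 0 2114851368 0) (P.cons (P.lf 0 78394656 0) (P.cons (P.lf 38844834 0 0) (P.cons (P.lf 352491 0 0) (P.lf 0 88122 0))))) (P.cons (P.cons (P.lf 342683448 0 0) (P.cons (P.lf 12702807 0 0) (P.cons (P.lf 0 6294285 0) (P.cons (P.lf 0 57114 0) (P.lf 14277 0 0))))) (P.cons (P.cons (P.lf 7896420 0 0) (P.cons (P.lf 292707 0 0) (P.cons (P.lf 0 145038 0) (P.cons (P.lf 0 1314 0) P.nil)))) (P.cons (P.cons (P.lf 0 3807213 0) (P.cons (P.lf 0 141126 0) (P.cons (P.lf 69927 0 0) P.nil))) (P.cons (P.cons (P.lf 104511 0 0) (P.cons (P.lf 3873 0 0) P.nil)) (P.cons (P.cons (P.lf 18540 0 0) P.nil) P.nil)))))) 6009)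
 EL.nil))))
noncomputable def S314_343_438_512_8 : EL := (EL.cons 12 (TM.mk (P.cons (P.cons (P.lf 43698308 0 0) (P.cons (P.lf 71499096 0 0) (P.cons (P.lf 30384676 0 0) (P.cons (P.lf 551664 0 0) (P.cons (P.lf 0 302922 0) (P.cons (P.lf 0 4938 0) P.nil)))))) (P.cons (P.cons (P.lf 0 58855032 0) (P.cons (P.lf 0 65527462 0) (P.cons (P.lf 0 15260054 0) (P.cons (P.lf 0 104916 0) (P.cons (P.lf 147254 0 0) P.nil))))) (P.cons (P.cons (P.lf 0 1154648 0) (P.cons (P.lf 0 5150614 0) (P.cons (P.lf 1894108 0 0) (P.cons (P.lf 90228 0 0) P.nil)))) (P.cons (P.cons (P.lf 15574158 0 0) (P.cons (P.lf 5397448 0 0) (P.cons (P.lf 225598 0 0) P.nil))) (P.cons (P.cons (P.lf 1767214 0 0) (P.cons (P.lf 0 357424 0) P.nil)) (P.cons (P.cons (P.lf 0 526302 0) P.nil) P.nil)))))) 422606)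
 (EL.cons 3 (TM.mk (P.cons (P.cons (P.lf 0 164752863 0) (P.cons (P.lf 0 177917859 0) (P.cons (P.lf 0 38119424 0) (P.cons (P.lf 0 179364 0) (P.cons (P.lf 365491 0 0) (P.cons (P.lf 5955 0 0) P.nil)))))) (P.cons (P.cons (P.lf 0 11542781 0) (P.cons (P.lf 0 34973611 0) (P.cons (P.lf 10825649 0 0) (P.cons (P.lf 547874 0 0) (P.cons (P.lf 0 117890 0) P.nil))))) (P.cons (P.cons (P.lf 137546461 0 0) (P.cons (P.lf 46470969 0 0) (P.cons (P.lf 1499879 0 0) (P.cons (P.lf 0 222346 0) P.nil)))) (P.cons (P.cons (P.lf 18729029 0 0) (P.cons (P.lf 0 5024286 0) (P.cons (P.lf 0 794556 0) P.nil))) (P.cons (P.cons (P.lf 0 8348798 0) (P.cons (P.lf 0 1490732 0) P.nil)) (P.cons (P.cons (P.lf 0 322087 0) P.nil) P.nil)))))) 1274651)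
 (EL.cons 7 (TM.mk (P.cons (P.cons (P.lf 0 82502476 0) (P.cons (P.lf 0 96526606 0) (P.cons (P.lf 0 25286914 0) (P.cons (P.lf 0 243924 0) (P.cons (P.lf 245997 0 0) (P.cons (P.lf 4009 0 0) P.nil)))))) (P.cons (P.cons (P.lf 0 4844261 0) (P.cons (P.lf 0 14677692 0) (P.cons (P.lf 4543296 0 0) (P.cons (P.lf 229930 0 0) (P.cons (P.lf 0 49474 0) P.nil))))) (P.cons (P.cons (P.lf 57132996 0 0) (P.cons (P.lf 17708025 0 0) (P.cons (P.lf 1185047 0 0) (P.cons (P.lf 0 65191 0) P.nil)))) (P.cons (P.cons (P.lf 17247325 0 0) (P.cons (P.lf 996160 0 0) (P.cons (P.lf 0 207565 0) P.nil))) (P.cons (P.cons (P.lf 0 1620925 0) (P.cons (P.lf 0 869151 0) P.nil)) (P.cons (P.cons (P.lf 0 707456 0) P.nil) P.nil)))))) 648950)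
 (EL.cons 10 (TM.mk (P.cons (P.cons (P.lf 301680498 0 0) (P.cons (P.lf 257987436 0 0) (P.cons (P.lf 7535766 0 0) (P.cons (P.lf 0 5747286 0) (P.cons (P.lf 0 149250 0) (P.cons (P.lf 33678 0 0) P.nil)))))) (P.cons (P.cons (P.lf 0 252042366 0) (P.cons (P.lf 0 109321326 0) (P.cons (P.lf 0 667926 0) (P.cons (P.lf 2349816 0 0) (P.cons (P.lf 55050 0 0) P.nil))))) (P.cons (P.cons (P.lf 0 40599030 0) (P.cons (P.lf 8341386 0 0) (P.cons (P.lf 1267410 0 0) (P.cons (P.lf 0 220512 0) P.nil)))) (P.cons (P.cons (P.lf 18041082 0 0) (P.cons (P.lf 2011338 0 0) (P.cons (P.lf 0 260232 0) P.nil))) (P.cons (P.cons (P.lf 0 134112 0) (P.cons (P.lf 0 328308 0) P.nil)) (P.cons (P.cons (P.lf 0 353370 0) P.nil) P.nil)))))) 244116)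
 EL.nil))))
noncomputable def S314_343_438_512_9 : EL := (EL.cons 3 (TM.mk (P.cons (P.lf 2072840178 0 0) (P.cons (P.lf 339017325 0 0) (P.cons (P.lf 0 19911543 0) (P.cons (P.lf 0 509910 0) (P.cons (P.lf 91155 0 0) (P.cons (P.lf 0 1462 0) P.nil)))))) 487)
 (EL.cons 7 (TM.mk (P.cons (P.lf 0 1756127103 0) (P.cons (P.lf 142278485 0 0) (P.cons (P.lf 9042093 0 0) (P.cons (P.lf 0 848140 0) (P.cons (P.lf 0 2043 0) (P.cons (P.lf 3166 0 0) P.nil)))))) 195)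
 EL.nil))
noncomputable def S314_343_438_512_10 : EL := (EL.cons 3 (TM.mk (P.cons (P.cons (P.lf 0 147843830 0) (P.cons (P.lf 0 120950908 0) (P.cons (P.lf 0 1925092 0) (P.lf 641696 0 0)))) (P.cons (P.cons (P.lf 75381505 0 0) (P.cons (P.lf 9615947 0 0) (P.cons (P.lf 153049 0 0) (P.lf 0 51015 0)))) (P.cons (P.cons (P.lf 53180586 0 0) (P.cons (P.lf 5456435 0 0) (P.cons (P.lf 86846 0 0) (P.lf 0 28948 0)))) (P.cons (P.cons (P.lf 2427407 0 0) (P.cons (P.lf 0 750269 0) (P.cons (P.lf 0 11940 0) P.nil))) (P.cons (P.cons (P.lf 0 1159418 0) (P.cons (P.lf 0 44655 0) P.nil)) (P.cons (P.cons (P.lf 0 2613 0) P.nil) P.nil)))))) 41032)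
 (EL.cons 7 (TM.mk (P.cons (P.cons (P.lf 125254499 0 0) (P.cons (P.lf 102470596 0 0) (P.cons (P.lf 1630954 0 0) (P.lf 0 543650 0)))) (P.cons (P.cons (P.lf 0 94497370 0) (P.cons (P.lf 0 33207985 0) (P.cons (P.lf 0 528548 0) (P.lf 176182 0 0)))) (P.cons (P.cons (P.lf 0 23867380 0) (P.cons (P.lf 1925246 0 0) (P.cons (P.lf 30642 0 0) (P.lf 0 10214 0)))) (P.cons (P.cons (P.lf 5009720 0 0) (P.cons (P.lf 492932 0 0) (P.cons (P.lf 7844 0 0) P.nil))) (P.cons (P.cons (P.lf 272797 0 0) (P.cons (P.lf 0 68479 0) P.nil)) (P.cons (P.cons (P.lf 0 86958 0) P.nil) P.nil)))))) 22967)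
 EL.nil))
noncomputable def S314_343_438_512_11 : EL := (EL.cons 3 (TM.mk (P.cons (P.cons (P.lf 10544853 0 0) (P.cons (P.lf 17253471 0 0) (P.cons (P.lf 7332136 0 0) (P.cons (P.lf 133122 0 0) (P.cons (P.lf 0 73097 0) (P.cons (P.lf 0 1191 0) P.nil)))))) (P.cons (P.cons (P.lf 0 12477695 0) (P.cons (P.lf 0 12990613 0) (P.cons (P.lf 0 2483221 0) (P.cons (P.lf 0 3544 0) (P.cons (P.lf 23578 0 0) P.nil))))) (P.cons (P.cons (P.lf 0 2702741 0) (P.cons (P.lf 0 3994791 0) (P.cons (P.lf 0 215629 0) (P.cons (P.lf 16352 0 0) P.nil)))) (P.cons (P.cons (P.lf 3846467 0 0) (P.cons (P.lf 1246830 0 0) (P.cons (P.lf 162762 0 0) P.nil))) (P.cons (P.cons (P.lf 1047742 0 0) (P.cons (P.lf 143356 0 0) P.nil)) (P.cons (P.cons (P.lf 0 93919 0) P.nil) P.nil)))))) 202543)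
 (EL.cons 7 (TM.mk (P.cons (P.cons (P.lf 0 8933686 0) (P.cons (P.lf 0 14617282 0) (P.cons (P.lf 0 6211846 0) (P.cons (P.lf 0 112782 0) (P.cons (P.lf 61929 0 0) (P.cons (P.lf 1009 0 0) P.nil)))))) (P.cons (P.cons (P.lf 12756121 0 0) (P.cons (P.lf 14580708 0 0) (P.cons (P.lf 3623040 0 0) (P.cons (P.lf 30586 0 0) (P.cons (P.lf 0 35122 0) P.nil))))) (P.cons (P.cons (P.lf 0 692784 0) (P.cons (P.lf 42897 0 0) (P.cons (P.lf 0 608005 0) (P.cons (P.lf 0 19603 0) P.nil)))) (P.cons (P.cons (P.lf 0 3269375 0) (P.cons (P.lf 0 1264802 0) (P.cons (P.lf 0 33811 0) P.nil))) (P.cons (P.cons (P.lf 0 98743 0) (P.cons (P.lf 163503 0 0) P.nil)) (P.cons (P.cons (P.lf 153406 0 0) P.nil) P.nil)))))) 132502)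
 EL.nil))
noncomputable def S314_343_438_512_12 : EL := (EL.cons 4 (TM.mk (P.cons (P.lf 0 2072840178 0) (P.cons (P.lf 0 339017325 0) (P.cons (P.lf 19911543 0 0) (P.cons (P.lf 509910 0 0) (P.cons (P.lf 0 91155 0) (P.cons (P.lf 1462 0 0) P.nil)))))) 487)
 (EL.cons 8 (TM.mk (P.cons (P.lf 1756127103 0 0) (P.cons (P.lf 0 142278485 0) (P.cons (P.lf 0 9042093 0) (P.cons (P.lf 848140 0 0) (P.cons (P.lf 2043 0 0) (P.cons (P.lf 0 3166 0) P.nil)))))) 195)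
 EL.nil))
noncomputable def S314_343_438_512_13 : EL := (EL.cons 4 (TM.mk (P.cons (P.cons (P.lf 147843830 0 0) (P.cons (P.lf 120950908 0 0) (P.cons (P.lf 1925092 0 0) (P.lf 0 641696 0)))) (P.cons (P.cons (P.lf 0 75381505 0) (P.cons (P.lf 0 9615947 0) (P.cons (P.lf 0 153049 0) (P.lf 51015 0 0)))) (P.cons (P.cons (P.lf 0 53180586 0) (P.cons (P.lf 0 5456435 0) (P.cons (P.lf 0 86846 0) (P.lf 28948 0 0)))) (P.cons (P.cons (P.lf 0 2427407 0) (P.cons (P.lf 750269 0 0) (P.cons (P.lf 11940 0 0) P.nil))) (P.cons (P.cons (P.lf 1159418 0 0) (P.cons (P.lf 44655 0 0) P.nil)) (P.cons (P.cons (P.lf 2613 0 0) P.nil) P.nil)))))) 41032)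
 (EL.cons 8 (TM.mk (P.cons (P.cons (P.lf 0 125254499 0) (P.cons (P.lf 0 102470596 0) (P.cons (P.lf 0 1630954 0) (P.lf 543650 0 0)))) (P.cons (P.cons (P.lf 94497370 0 0) (P.cons (P.lf 33207985 0 0) (P.cons (P.lf 528548 0 0) (P.lf 0 176182 0)))) (P.cons (P.cons (P.lf 23867380 0 0) (P.cons (P.lf 0 1925246 0) (P.cons (P.lf 0 30642 0) (P.lf 10214 0 0)))) (P.cons (P.cons (P.lf 0 5009720 0) (P.cons (P.lf 0 492932 0) (P.cons (P.lf 0 7844 0) P.nil))) (P.cons (P.cons (P.lf 0 272797 0) (P.cons (P.lf 68479 0 0) P.nil)) (P.cons (P.cons (P.lf 86958 0 0) P.nil) P.nil)))))) 22967)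
 EL.nil))
noncomputable def S314_343_438_512_14 : EL := (EL.cons 4 (TM.mk (P.cons (P.cons (P.lf 0 10544853 0) (P.cons (P.lf 0 17253471 0) (P.cons (P.lf 0 7332136 0) (P.cons (P.lf 0 133122 0) (P.cons (P.lf 73097 0 0) (P.cons (P.lf 1191 0 0) P.nil)))))) (P.cons (P.cons (P.lf 12477695 0 0) (P.cons (P.lf 12990613 0 0) (P.cons (P.lf 2483221 0 0) (P.cons (P.lf 3544 0 0) (P.cons (P.lf 0 23578 0) P.nil))))) (P.cons (P.cons (P.lf 2702741 0 0) (P.cons (P.lf 3994791 0 0) (P.cons (P.lf 215629 0 0) (P.cons (P.lf 0 16352 0) P.nil)))) (P.cons (P.cons (P.lf 0 3846467 0) (P.cons (P.lf 0 1246830 0) (P.cons (P.lf 0 162762 0) P.nil))) (P.cons (P.cons (P.lf 0 1047742 0) (P.cons (P.lf 0 143356 0) P.nil)) (P.cons (P.cons (P.lf 93919 0 0) P.nil) P.nil)))))) 202543)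
 (EL.cons 8 (TM.mk (P.cons (P.cons (P.lf 8933686 0 0) (P.cons (P.lf 14617282 0 0) (P.cons (P.lf 6211846 0 0) (P.cons (P.lf 112782 0 0) (P.cons (P.lf 0 61929 0) (P.cons (P.lf 0 1009 0) P.nil)))))) (P.cons (P.cons (P.lf 0 12756121 0) (P.cons (P.lf 0 14580708 0) (P.cons (P.lf 0 3623040 0) (P.cons (P.lf 0 30586 0) (P.cons (P.lf 35122 0 0) P.nil))))) (P.cons (P.cons (P.lf 692784 0 0) (P.cons (P.lf 0 42897 0) (P.cons (P.lf 608005 0 0) (P.cons (P.lf 19603 0 0) P.nil)))) (P.cons (P.cons (P.lf 3269375 0 0) (P.cons (P.lf 1264802 0 0) (P.cons (P.lf 33811 0 0) P.nil))) (P.cons (P.cons (P.lf 98743 0 0) (P.cons (P.lf 0 163503 0) P.nil)) (P.cons (P.cons (P.lf 0 153406 0) P.nil) P.nil)))))) 132502)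
 EL.nil))
noncomputable def S314_343_438_512_15 : EL := (EL.cons 4 (TM.mk (P.cons (P.lf 0 1067088645 0) (P.cons (P.lf 0 349049136 0) (P.cons (P.lf 0 8043112 0) (P.cons (P.lf 3877937 0 0) (P.cons (P.lf 0 106451 0) (P.cons (P.lf 0 18886 0) P.nil)))))) 1845)
 (EL.cons 8 (TM.mk (P.cons (P.lf 904046202 0 0) (P.cons (P.lf 74614324 0 0) (P.cons (P.lf 0 25318286 0) (P.cons (P.lf 156499 0 0) (P.cons (P.lf 174949 0 0) (P.cons (P.lf 0 8365 0) P.nil)))))) 1031)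
 EL.nil))
noncomputable def S314_343_438_512_16 : EL := (EL.cons 4 (TM.mk (P.cons (P.cons (P.lf 76109327 0 0) (P.cons (P.lf 62264974 0 0) (P.cons (P.lf 991028 0 0) (P.lf 0 330342 0)))) (P.cons (P.cons (P.lf 0 26358214 0) (P.cons (P.lf 5233320 0 0) (P.cons (P.lf 83295 0 0) (P.lf 0 27764 0)))) (P.cons (P.cons (P.lf 0 34455033 0) (P.cons (P.lf 0 4216683 0) (P.cons (P.lf 0 67113 0) (P.lf 22370 0 0)))) (P.cons (P.cons (P.lf 0 5373158 0) (P.cons (P.lf 0 40938 0) (P.cons (P.lf 0 651 0) P.nil))) (P.cons (P.cons (P.lf 668360 0 0) (P.cons (P.lf 117096 0 0) P.nil)) (P.cons (P.cons (P.lf 115941 0 0) P.nil) P.nil)))))) 41693)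
 (EL.cons 8 (TM.mk (P.cons (P.cons (P.lf 0 64480443 0) (P.cons (P.lf 0 52751394 0) (P.cons (P.lf 0 839607 0) (P.lf 279868 0 0)))) (P.cons (P.cons (P.lf 38100903 0 0) (P.cons (P.lf 8467718 0 0) (P.cons (P.lf 134774 0 0) (P.lf 0 44924 0)))) (P.cons (P.cons (P.lf 20862500 0 0) (P.cons (P.lf 2311592 0 0) (P.cons (P.lf 36792 0 0) (P.lf 0 12263 0)))) (P.cons (P.cons (P.lf 0 1020882 0) (P.cons (P.lf 0 567096 0) (P.cons (P.lf 0 9025 0) P.nil))) (P.cons (P.cons (P.lf 0 695061 0) (P.cons (P.lf 0 3254 0) P.nil)) (P.cons (P.cons (P.lf 45733 0 0) P.nil) P.nil)))))) 29918)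
 EL.nil))
noncomputable def S314_343_438_512_17 : EL := (EL.cons 4 (TM.mk (P.cons (P.cons (P.lf 0 5428441 0) (P.cons (P.lf 0 8882008 0) (P.cons (P.lf 0 3774550 0) (P.cons (P.lf 0 68530 0) (P.cons (P.lf 37630 0 0) (P.cons (P.lf 613 0 0) P.nil)))))) (P.cons (P.cons (P.lf 5535627 0 0) (P.cons (P.lf 5234836 0 0) (P.cons (P.lf 661015 0 0) (P.cons (P.lf 0 9383 0) (P.cons (P.lf 0 5983 0) P.nil))))) (P.cons (P.cons (P.lf 2494074 0 0) (P.cons (P.lf 3235575 0 0) (P.cons (P.lf 356340 0 0) (P.cons (P.lf 0 7461 0) P.nil)))) (P.cons (P.cons (P.lf 0 1812951 0) (P.cons (P.lf 0 367572 0) (P.cons (P.lf 0 76985 0) P.nil))) (P.cons (P.cons (P.lf 0 878414 0) (P.cons (P.lf 0 200567 0) P.nil)) (P.cons (P.cons (P.lf 0 20900 0) P.nil) P.nil)))))) 159203)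
 (EL.cons 8 (TM.mk (P.cons (P.cons (P.lf 4599020 0 0) (P.cons (P.lf 7524909 0 0) (P.cons (P.lf 3197829 0 0) (P.cons (P.lf 58059 0 0) (P.cons (P.lf 0 31880 0) (P.cons (P.lf 0 519 0) P.nil)))))) (P.cons (P.cons (P.lf 0 5814613 0) (P.cons (P.lf 0 6275367 0) (P.cons (P.lf 0 1342112 0) (P.cons (P.lf 0 6249 0) (P.cons (P.lf 12866 0 0) P.nil))))) (P.cons (P.cons (P.lf 0 761547 0) (P.cons (P.lf 0 1322002 0) (P.cons (P.lf 0 22764 0) (P.cons (P.lf 6958 0 0) P.nil)))) (P.cons (P.cons (P.lf 1803337 0 0) (P.cons (P.lf 717754 0 0) (P.cons (P.lf 85727 0 0) P.nil))) (P.cons (P.cons (P.lf 324491 0 0) (P.cons (P.lf 24709 0 0) P.nil)) (P.cons (P.cons (P.lf 0 87205 0) P.nil) P.nil)))))) 121306)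
 EL.nil))
noncomputable def S314_343_438_512_18 : EL := (EL.cons 4 (TM.mk (P.cons (P.lf 0 549332354 0) (P.cons (P.lf 0 269533349 0) (P.cons (P.lf 0 28252205 0) (P.cons (P.lf 3180359 0 0) (P.cons (P.lf 331524 0 0) (P.cons (P.lf 0 44357 0) P.nil)))))) 4415)
 (EL.cons 8 (TM.mk (P.cons (P.lf 465398850 0 0) (P.cons (P.lf 114528063 0 0) (P.cons (P.lf 0 11222106 0) (P.cons (P.lf 0 2534590 0) (P.cons (P.lf 239457 0 0) (P.cons (P.lf 14216 0 0) P.nil)))))) 3029)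
 EL.nil))
noncomputable def S314_343_438_512_19 : EL := (EL.cons 4 (TM.mk (P.cons (P.cons (P.lf 39180734 0 0) (P.cons (P.lf 32053724 0 0) (P.cons (P.lf 510177 0 0) (P.lf 0 170057 0)))) (P.cons (P.cons (P.lf 0 7160997 0) (P.cons (P.lf 7936542 0 0) (P.cons (P.lf 126320 0 0) (P.lf 0 42105 0)))) (P.cons (P.cons (P.lf 0 20332913 0) (P.cons (P.lf 0 2038010 0) (P.cons (P.lf 0 32437 0) (P.lf 10812 0 0)))) (P.cons (P.cons (P.lf 0 5546342 0) (P.cons (P.lf 0 409866 0) (P.cons (P.lf 0 6523 0) P.nil))) (P.cons (P.cons (P.lf 67115 0 0) (P.cons (P.lf 78432 0 0) P.nil)) (P.cons (P.cons (P.lf 146268 0 0) P.nil) P.nil)))))) 55918)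
 (EL.cons 8 (TM.mk (P.cons (P.cons (P.lf 0 33194237 0) (P.cons (P.lf 0 27156176 0) (P.cons (P.lf 0 432226 0) (P.lf 144075 0 0)))) (P.cons (P.cons (P.lf 14185184 0 0) (P.cons (P.lf 0 82306 0) (P.cons (P.lf 0 1309 0) (P.lf 436 0 0)))) (P.cons (P.cons (P.lf 14266719 0 0) (P.cons (P.lf 2163804 0 0) (P.cons (P.lf 34439 0 0) (P.lf 0 11479 0)))) (P.cons (P.cons (P.lf 1050744 0 0) (P.cons (P.lf 0 132505 0) (P.cons (P.lf 0 2109 0) P.nil))) (P.cons (P.cons (P.lf 0 553219 0) (P.cons (P.lf 0 63119 0) P.nil)) (P.cons (P.cons (P.lf 0 31685 0) P.nil) P.nil)))))) 33676)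
 EL.nil))
noncomputable def S314_343_438_512_20 : EL := (EL.cons 4 (TM.mk (P.cons (P.cons (P.lf 0 2794537 0) (P.cons (P.lf 0 4572417 0) (P.cons (P.lf 0 1943120 0) (P.cons (P.lf 0 35279 0) (P.cons (P.lf 19371 0 0) (P.cons (P.lf 315 0 0) P.nil)))))) (P.cons (P.cons (P.lf 2392663 0 0) (P.cons (P.lf 1947041 0 0) (P.cons (P.lf 22485 0 0) (P.cons (P.lf 0 10600 0) (P.cons (P.lf 87 0 0) P.nil))))) (P.cons (P.cons (P.lf 1776858 0 0) (P.cons (P.lf 2150333 0 0) (P.cons (P.lf 257761 0 0) (P.cons (P.lf 0 4291 0) P.nil)))) (P.cons (P.cons (P.lf 0 749995 0) (P.cons (P.lf 58435 0 0) (P.cons (P.lf 0 12420 0) P.nil))) (P.cons (P.cons (P.lf 0 618003 0) (P.cons (P.lf 0 151063 0) P.nil)) (P.cons (P.cons (P.lf 0 75941 0) P.nil) P.nil)))))) 144578)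
 (EL.cons 8 (TM.mk (P.cons (P.cons (P.lf 2367554 0 0) (P.cons (P.lf 3873789 0 0) (P.cons (P.lf 1646228 0 0) (P.cons (P.lf 29888 0 0) (P.cons (P.lf 0 16412 0) (P.cons (P.lf 0 267 0) P.nil)))))) (P.cons (P.cons (P.lf 0 2606117 0) (P.cons (P.lf 0 2596963 0) (P.cons (P.lf 0 421669 0) (P.cons (P.lf 1670 0 0) (P.cons (P.lf 3939 0 0) P.nil))))) (P.cons (P.cons (P.lf 0 904350 0) (P.cons (P.lf 0 1246131 0) (P.cons (P.lf 0 140532 0) (P.cons (P.lf 2768 0 0) P.nil)))) (P.cons (P.cons (P.lf 892401 0 0) (P.cons (P.lf 288268 0 0) (P.cons (P.lf 48447 0 0) P.nil))) (P.cons (P.cons (P.lf 323486 0 0) (P.cons (P.lf 80654 0 0) P.nil)) (P.cons (P.cons (P.lf 0 26527 0) P.nil) P.nil)))))) 92580)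
 EL.nil))
noncomputable def S314_343_438_512_21 : EL := (EL.cons 4 (TM.mk (P.cons (P.cons (P.lf 0 1228878327 0) (P.cons (P.lf 0 362852724 0) (P.cons (P.lf 0 5775276 0) (P.lf 1925088 0 0)))) (P.cons (P.cons (P.lf 0 821002890 0) (P.cons (P.lf 28847841 0 0) (P.cons (P.lf 459147 0 0) (P.lf 0 153045 0)))) (P.cons (P.cons (P.lf 135412425 0 0) (P.cons (P.lf 16369305 0 0) (P.cons (P.lf 260538 0 0) (P.lf 0 86844 0)))) (P.cons (P.cons (P.lf 18916035 0 0) (P.cons (P.lf 0 2250807 0) (P.cons (P.lf 0 35820 0) P.nil))) (P.cons (P.cons (P.lf 0 3797610 0) (P.cons (P.lf 0 133965 0) P.nil)) (P.cons (P.cons (P.lf 0 64500 0) P.nil) P.nil)))))) 128541)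
 (EL.cons 8 (TM.mk (P.cons (P.cons (P.lf 0 515734554 0) (P.cons (P.lf 0 152281713 0) (P.cons (P.lf 0 2423766 0) (P.lf 807924 0 0)))) (P.cons (P.cons (P.lf 0 470691168 0) (P.cons (P.lf 0 25136757 0) (P.cons (P.lf 0 400083 0) (P.lf 133359 0 0)))) (P.cons (P.cons (P.lf 0 35359323 0) (P.cons (P.lf 7492137 0 0) (P.cons (P.lf 119244 0 0) (P.lf 0 39747 0)))) (P.cons (P.cons (P.lf 15630744 0 0) (P.cons (P.lf 651243 0 0) (P.cons (P.lf 10362 0 0) P.nil))) (P.cons (P.cons (P.lf 533010 0 0) (P.cons (P.lf 0 182721 0) P.nil)) (P.cons (P.cons (P.lf 0 252396 0) P.nil) P.nil)))))) 80313)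
 (EL.cons 11 (TM.mk (P.cons (P.cons (P.lf 2114851368 0 0) (P.cons (P.lf 78394656 0 0) (P.cons (P.lf 0 38844834 0) (P.cons (P.lf 0 352491 0) (P.lf 88122 0 0))))) (P.cons (P.cons (P.lf 0 342683448 0) (P.cons (P.lf 0 12702807 0) (P.cons (P.lf 6294285 0 0) (P.cons (P.lf 57114 0 0) (P.lf 0 14277 0))))) (P.cons (P.cons (P.lf 0 7896420 0) (P.cons (P.lf 0 292707 0) (P.cons (P.lf 145038 0 0) (P.cons (P.lf 1314 0 0) P.nil)))) (P.cons (P.cons (P.lf 3807213 0 0) (P.cons (P.lf 141126 0 0) (P.cons (P.lf 0 69927 0) P.nil))) (P.cons (P.cons (P.lf 0 104511 0) (P.cons (P.lf 0 3873 0) P.nil)) (P.cons (P.cons (P.lf 0 18540 0) P.nil) P.nil)))))) 6009)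
 EL.nil)))
noncomputable def S314_343_438_512_22 : EL := (EL.cons 4 (TM.mk (P.cons (P.cons (P.lf 87648858 0 0) (P.cons (P.lf 97585665 0 0) (P.cons (P.lf 22725780 0 0) (P.cons (P.lf 156243 0 0) (P.cons (P.lf 0 219294 0) (P.cons (P.lf 0 3573 0) P.nil)))))) (P.cons (P.cons (P.lf 0 467457 0) (P.cons (P.lf 10991499 0 0) (P.cons (P.lf 0 6654435 0) (P.cons (P.lf 0 275709 0) (P.cons (P.lf 70734 0 0) P.nil))))) (P.cons (P.cons (P.lf 0 70124601 0) (P.cons (P.lf 0 25232880 0) (P.cons (P.lf 0 857754 0) (P.cons (P.lf 119349 0 0) P.nil)))) (P.cons (P.cons (P.lf 0 7441281 0) (P.cons (P.lf 3135558 0 0) (P.cons (P.lf 478659 0 0) P.nil))) (P.cons (P.cons (P.lf 4698270 0 0) (P.cons (P.lf 817044 0 0) P.nil)) (P.cons (P.cons (P.lf 114084 0 0) P.nil) P.nil)))))) 536043)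
 (EL.cons 8 (TM.mk (P.cons (P.cons (P.lf 36784395 0 0) (P.cons (P.lf 40954662 0 0) (P.cons (P.lf 9537534 0 0) (P.cons (P.lf 65571 0 0) (P.cons (P.lf 0 92034 0) (P.cons (P.lf 0 1500 0) P.nil)))))) (P.cons (P.cons (P.lf 8800191 0 0) (P.cons (P.lf 14629200 0 0) (P.cons (P.lf 0 460128 0) (P.cons (P.lf 0 99672 0) (P.cons (P.lf 7176 0 0) P.nil))))) (P.cons (P.cons (P.lf 0 28912890 0) (P.cons (P.lf 0 8832564 0) (P.cons (P.lf 0 896526 0) (P.cons (P.lf 22794 0 0) P.nil)))) (P.cons (P.cons (P.lf 0 10258350 0) (P.cons (P.lf 0 1130481 0) (P.cons (P.lf 86877 0 0) P.nil))) (P.cons (P.cons (P.lf 761091 0 0) (P.cons (P.lf 516327 0 0) P.nil)) (P.cons (P.cons (P.lf 430431 0 0) P.nil) P.nil)))))) 258213)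
 (EL.cons 11 (TM.mk (P.cons (P.cons (P.lf 0 150840249 0) (P.cons (P.lf 0 128993718 0) (P.cons (P.lf 0 3767883 0) (P.cons (P.lf 2873643 0 0) (P.cons (P.lf 74625 0 0) (P.cons (P.lf 0 16839 0) P.nil)))))) (P.cons (P.cons (P.lf 126021183 0 0) (P.cons (P.lf 54660663 0 0) (P.cons (P.lf 333963 0 0) (P.cons (P.lf 0 1174908 0) (P.cons (P.lf 0 27525 0) P.nil))))) (P.cons (P.cons (P.lf 20299515 0 0) (P.cons (P.lf 0 4170693 0) (P.cons (P.lf 0 633705 0) (P.cons (P.lf 110256 0 0) P.nil)))) (P.cons (P.cons (P.lf 0 9020541 0) (P.cons (P.lf 0 1005669 0) (P.cons (P.lf 130116 0 0) P.nil))) (P.cons (P.cons (P.lf 67056 0 0) (P.cons (P.lf 164154 0 0) P.nil)) (P.cons (P.cons (P.lf 176685 0 0) P.nil) P.nil)))))) 122058)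
 EL.nil)))
noncomputable def S314_343_438_512_23 : EL := (EL.cons 4 (TM.mk (P.cons (P.cons (P.lf 0 632620941 0) (P.cons (P.lf 0 186794922 0) (P.cons (P.lf 0 2973084 0) (P.lf 991026 0 0)))) (P.cons (P.cons (P.lf 0 526115004 0) (P.cons (P.lf 0 15699960 0) (P.cons (P.lf 0 249885 0) (P.lf 83295 0 0)))) (P.cons (P.cons (P.lf 6661557 0 0) (P.cons (P.lf 12650049 0 0) (P.cons (P.lf 201339 0 0) (P.lf 0 67110 0)))) (P.cons (P.cons (P.lf 25354605 0 0) (P.cons (P.lf 122817 0 0) (P.cons (P.lf 1956 0 0) P.nil))) (P.cons (P.cons (P.lf 0 955815 0) (P.cons (P.lf 0 351288 0) P.nil)) (P.cons (P.cons (P.lf 0 481776 0) P.nil) P.nil)))))) 149592)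
 (EL.cons 8 (TM.mk (P.cons (P.cons (P.lf 0 265497789 0) (P.cons (P.lf 0 78393927 0) (P.cons (P.lf 0 1247742 0) (P.lf 415914 0 0)))) (P.cons (P.cons (P.lf 0 285732375 0) (P.cons (P.lf 0 25761777 0) (P.cons (P.lf 0 410031 0) (P.lf 136674 0 0)))) (P.cons (P.cons (P.lf 0 55282713 0) (P.cons (P.lf 2493552 0 0) (P.cons (P.lf 39684 0 0) (P.lf 0 13227 0)))) (P.cons (P.cons (P.lf 7462446 0 0) (P.cons (P.lf 1109649 0 0) (P.cons (P.lf 17658 0 0) P.nil))) (P.cons (P.cons (P.lf 1813221 0 0) (P.cons (P.lf 0 76545 0) P.nil)) (P.cons (P.cons (P.lf 0 168339 0) P.nil) P.nil)))))) 104679)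
 (EL.cons 11 (TM.mk (P.cons (P.cons (P.lf 1088715813 0 0) (P.cons (P.lf 40357209 0 0) (P.cons (P.lf 0 19997142 0) (P.cons (P.lf 0 181458 0) (P.lf 45363 0 0))))) (P.cons (P.cons (P.lf 1649862 0 0) (P.cons (P.lf 61158 0 0) (P.cons (P.lf 0 30303 0) (P.cons (P.lf 0 276 0) (P.lf 69 0 0))))) (P.cons (P.cons (P.lf 0 43375689 0) (P.cons (P.lf 0 1607874 0) (P.cons (P.lf 796707 0 0) (P.cons (P.lf 7227 0 0) P.nil)))) (P.cons (P.cons (P.lf 2721867 0 0) (P.cons (P.lf 100893 0 0) (P.cons (P.lf 0 49992 0) P.nil))) (P.cons (P.cons (P.lf 397071 0 0) (P.cons (P.lf 14718 0 0) P.nil)) (P.cons (P.cons (P.lf 0 44694 0) P.nil) P.nil)))))) 19497)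
 EL.nil)))
noncomputable def S314_343_438_512_24 : EL := (EL.cons 4 (TM.mk (P.cons (P.cons (P.lf 45121230 0 0) (P.cons (P.lf 50236653 0 0) (P.cons (P.lf 11699127 0 0) (P.cons (P.lf 80433 0 0) (P.cons (P.lf 0 112890 0) (P.cons (P.lf 0 1839 0) P.nil)))))) (P.cons (P.cons (P.lf 7139025 0 0) (P.cons (P.lf 13874682 0 0) (P.cons (P.lf 0 1512255 0) (P.cons (P.lf 0 128778 0) (P.cons (P.lf 17949 0 0) P.nil))))) (P.cons (P.cons (P.lf 0 36572613 0) (P.cons (P.lf 0 12546900 0) (P.cons (P.lf 0 1114224 0) (P.cons (P.lf 37452 0 0) P.nil)))) (P.cons (P.cons (P.lf 0 9743727 0) (P.cons (P.lf 0 577044 0) (P.cons (P.lf 204219 0 0) P.nil))) (P.cons (P.cons (P.lf 2140938 0 0) (P.cons (P.lf 810207 0 0) P.nil)) (P.cons (P.cons (P.lf 499941 0 0) P.nil) P.nil)))))) 400410)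
 (EL.cons 8 (TM.mk (P.cons (P.cons (P.lf 18936438 0 0) (P.cons (P.lf 21083274 0 0) (P.cons (P.lf 4909878 0 0) (P.cons (P.lf 33756 0 0) (P.cons (P.lf 0 47376 0) (P.cons (P.lf 0 771 0) P.nil)))))) (P.cons (P.cons (P.lf 7627392 0 0) (P.cons (P.lf 10979259 0 0) (P.cons (P.lf 566148 0 0) (P.cons (P.lf 0 45789 0) (P.cons (P.lf 0 4053 0) P.nil))))) (P.cons (P.cons (P.lf 0 14325183 0) (P.cons (P.lf 0 3517770 0) (P.cons (P.lf 0 547431 0) (P.cons (P.lf 3018 0 0) P.nil)))) (P.cons (P.cons (P.lf 0 7763472 0) (P.cons (P.lf 0 1403160 0) (P.cons (P.lf 0 29691 0) P.nil))) (P.cons (P.cons (P.lf 0 329208 0) (P.cons (P.lf 213372 0 0) P.nil)) (P.cons (P.cons (P.lf 340239 0 0) P.nil) P.nil)))))) 193020)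
 (EL.cons 11 (TM.mk (P.cons (P.cons (P.lf 0 77651868 0) (P.cons (P.lf 0 66405375 0) (P.cons (P.lf 0 1939689 0) (P.cons (P.lf 1479339 0 0) (P.cons (P.lf 38415 0 0) (P.cons (P.lf 0 8667 0) P.nil)))))) (P.cons (P.cons (P.lf 52175001 0 0) (P.cons (P.lf 17278320 0 0) (P.cons (P.lf 0 145317 0) (P.cons (P.lf 0 362886 0) (P.cons (P.lf 0 7884 0) P.nil))))) (P.cons (P.cons (P.lf 21806478 0 0) (P.cons (P.lf 3093030 0 0) (P.cons (P.lf 0 279477 0) (P.cons (P.lf 0 56370 0) P.nil)))) (P.cons (P.cons (P.lf 0 3538680 0) (P.cons (P.lf 0 1122834 0) (P.cons (P.lf 12453 0 0) P.nil))) (P.cons (P.cons (P.lf 0 844725 0) (P.cons (P.lf 10614 0 0) P.nil)) (P.cons (P.cons (P.lf 141546 0 0) P.nil) P.nil)))))) 114195)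
 EL.nil)))
noncomputable def S314_343_438_512_25 : EL := (EL.cons 4 (TM.mk (P.cons (P.cons (P.lf 0 325670367 0) (P.cons (P.lf 0 96161172 0) (P.cons (P.lf 0 1530528 0) (P.lf 510174 0 0)))) (P.cons (P.cons (P.lf 0 324105663 0) (P.cons (P.lf 0 23809626 0) (P.cons (P.lf 0 378960 0) (P.lf 126321 0 0)))) (P.cons (P.cons (P.lf 0 37739001 0) (P.cons (P.lf 6114030 0 0) (P.cons (P.lf 97311 0 0) (P.lf 0 32436 0)))) (P.cons (P.cons (P.lf 16295106 0 0) (P.cons (P.lf 1229601 0 0) (P.cons (P.lf 19569 0 0) P.nil))) (P.cons (P.cons (P.lf 1662063 0 0) (P.cons (P.lf 0 235296 0) P.nil)) (P.cons (P.cons (P.lf 0 466395 0) P.nil) P.nil)))))) 143277)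
 (EL.cons 8 (TM.mk (P.cons (P.cons (P.lf 0 136677048 0) (P.cons (P.lf 0 40356834 0) (P.cons (P.lf 0 642330 0) (P.lf 214110 0 0)))) (P.cons (P.cons (P.lf 0 169447536 0) (P.cons (P.lf 0 19862487 0) (P.cons (P.lf 0 316137 0) (P.lf 105378 0 0)))) (P.cons (P.cons (P.lf 0 51203862 0) (P.cons (P.lf 0 497700 0) (P.cons (P.lf 0 7920 0) (P.lf 2640 0 0)))) (P.cons (P.cons (P.lf 633648 0 0) (P.cons (P.lf 918510 0 0) (P.cons (P.lf 14616 0 0) P.nil))) (P.cons (P.cons (P.lf 1865295 0 0) (P.cons (P.lf 43179 0 0) P.nil)) (P.cons (P.cons (P.lf 29730 0 0) P.nil) P.nil)))))) 105987)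
 (EL.cons 11 (TM.mk (P.cons (P.cons (P.lf 560465922 0 0) (P.cons (P.lf 20775705 0 0) (P.cons (P.lf 0 10294437 0) (P.cons (P.lf 0 93414 0) (P.lf 23352 0 0))))) (P.cons (P.cons (P.lf 92514708 0 0) (P.cons (P.lf 3429393 0 0) (P.cons (P.lf 0 1699275 0) (P.cons (P.lf 0 15420 0) (P.lf 3855 0 0))))) (P.cons (P.cons (P.lf 0 27574488 0) (P.cons (P.lf 0 1022145 0) (P.cons (P.lf 506475 0 0) (P.cons (P.lf 4593 0 0) P.nil)))) (P.cons (P.cons (P.lf 0 2396877 0) (P.cons (P.lf 0 88848 0) (P.cons (P.lf 44025 0 0) P.nil))) (P.cons (P.cons (P.lf 672513 0 0) (P.cons (P.lf 24927 0 0) P.nil)) (P.cons (P.cons (P.lf 2097 0 0) P.nil) P.nil)))))) 29175)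
 EL.nil)))
noncomputable def S314_343_438_512_26 : EL := (EL.cons 4 (TM.mk (P.cons (P.cons (P.lf 23228202 0 0) (P.cons (P.lf 25861599 0 0) (P.cons (P.lf 6022656 0 0) (P.cons (P.lf 41406 0 0) (P.cons (P.lf 0 58116 0) (P.cons (P.lf 0 945 0) P.nil)))))) (P.cons (P.cons (P.lf 7474158 0 0) (P.cons (P.lf 11372340 0 0) (P.cons (P.lf 206514 0 0) (P.cons (P.lf 0 59520 0) (P.cons (P.lf 0 264 0) P.nil))))) (P.cons (P.cons (P.lf 0 18449466 0) (P.cons (P.lf 0 5539320 0) (P.cons (P.lf 0 758775 0) (P.cons (P.lf 8040 0 0) P.nil)))) (P.cons (P.cons (P.lf 0 8136306 0) (P.cons (P.lf 0 1428429 0) (P.cons (P.lf 17313 0 0) P.nil))) (P.cons (P.cons (P.lf 462735 0 0) (P.cons (P.lf 429930 0 0) P.nil)) (P.cons (P.cons (P.lf 490584 0 0) P.nil) P.nil)))))) 351966)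
 (EL.cons 8 (TM.mk (P.cons (P.cons (P.lf 9748389 0 0) (P.cons (P.lf 10853571 0 0) (P.cons (P.lf 2527581 0 0) (P.cons (P.lf 17376 0 0) (P.cons (P.lf 0 24390 0) (P.cons (P.lf 0 396 0) P.nil)))))) (P.cons (P.cons (P.lf 5520915 0 0) (P.cons (P.lf 7427196 0 0) (P.cons (P.lf 704841 0 0) (P.cons (P.lf 0 20730 0) (P.cons (P.lf 0 6075 0) P.nil))))) (P.cons (P.cons (P.lf 0 6825987 0) (P.cons (P.lf 0 990780 0) (P.cons (P.lf 0 258426 0) (P.cons (P.lf 0 2466 0) P.nil)))) (P.cons (P.cons (P.lf 0 5242836 0) (P.cons (P.lf 0 1075485 0) (P.cons (P.lf 0 64797 0) P.nil))) (P.cons (P.cons (P.lf 0 752823 0) (P.cons (P.lf 8184 0 0) P.nil)) (P.cons (P.cons (P.lf 187806 0 0) P.nil) P.nil)))))) 175509)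
 (EL.cons 11 (TM.mk (P.cons (P.cons (P.lf 0 39974826 0) (P.cons (P.lf 0 34185183 0) (P.cons (P.lf 0 998541 0) (P.cons (P.lf 761556 0 0) (P.cons (P.lf 19776 0 0) (P.cons (P.lf 0 4461 0) P.nil)))))) (P.cons (P.cons (P.lf 20321484 0 0) (P.cons (P.lf 3303741 0 0) (P.cons (P.lf 0 238122 0) (P.cons (P.lf 0 62259 0) (P.cons (P.lf 0 825 0) P.nil))))) (P.cons (P.cons (P.lf 16002789 0 0) (P.cons (P.lf 3375420 0 0) (P.cons (P.lf 0 146517 0) (P.cons (P.lf 0 66888 0) P.nil)))) (P.cons (P.cons (P.lf 0 233856 0) (P.cons (P.lf 0 394641 0) (P.cons (P.lf 0 16155 0) P.nil))) (P.cons (P.cons (P.lf 0 849003 0) (P.cons (P.lf 0 108057 0) P.nil)) (P.cons (P.cons (P.lf 17691 0 0) P.nil) P.nil)))))) 109977)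
 EL.nil)))
noncomputable def S314_343_438_512_27 : EL := (EL.cons 13 (TM.mk (P.lf 0 4294967296 0) 0)
 EL.nil)
noncomputable def S314_343_438_512_28 : EL := (EL.cons 13 (TM.mk (P.cons (P.cons (P.lf 306335446 0 0) (P.cons (P.lf 250612760 0 0) (P.cons (P.lf 3988832 0 0) (P.lf 0 1329608 0)))) (P.cons (P.cons (P.lf 0 206293823 0) (P.cons (P.lf 0 60912680 0) (P.cons (P.lf 0 969504 0) (P.lf 323168 0 0)))) (P.cons (P.cons (P.lf 0 73508847 0) (P.cons (P.lf 1063916 0 0) (P.cons (P.lf 16932 0 0) (P.lf 0 5644 0)))) (P.cons (P.cons (P.lf 5086600 0 0) (P.cons (P.lf 857096 0 0) (P.cons (P.lf 13640 0 0) P.nil))) (P.cons (P.cons (P.lf 800077 0 0) (P.cons (P.lf 0 63436 0) P.nil)) (P.cons (P.cons (P.lf 0 85370 0) P.nil) P.nil)))))) 22881)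
 EL.nil)
noncomputable def S314_343_438_512_29 : EL := (EL.cons 13 (TM.mk (P.cons (P.cons (P.lf 0 21849154 0) (P.cons (P.lf 0 35749548 0) (P.cons (P.lf 0 15192338 0) (P.cons (P.lf 0 275832 0) (P.cons (P.lf 151461 0 0) (P.cons (P.lf 2469 0 0) P.nil)))))) (P.cons (P.cons (P.lf 29427516 0 0) (P.cons (P.lf 32763731 0 0) (P.cons (P.lf 7630027 0 0) (P.cons (P.lf 52458 0 0) (P.cons (P.lf 0 73627 0) P.nil))))) (P.cons (P.cons (P.lf 577324 0 0) (P.cons (P.lf 2575307 0 0) (P.cons (P.lf 0 947054 0) (P.cons (P.lf 0 45114 0) P.nil)))) (P.cons (P.cons (P.lf 0 7787079 0) (P.cons (P.lf 0 2698724 0) (P.cons (P.lf 0 112799 0) P.nil))) (P.cons (P.cons (P.lf 0 883607 0) (P.cons (P.lf 178712 0 0) P.nil)) (P.cons (P.cons (P.lf 263151 0 0) P.nil) P.nil)))))) 211303)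
 EL.nil)
noncomputable def S314_343_438_512_30 : EL := (EL.cons 13 (TM.mk (P.cons (P.lf 0 2211029524 0) (P.cons (P.lf 0 361618480 0) (P.cons (P.lf 21238980 0 0) (P.cons (P.lf 543904 0 0) (P.cons (P.lf 0 97232 0) (P.cons (P.lf 1560 0 0) P.nil)))))) 512)
 EL.nil)
noncomputable def S314_343_438_512_31 : EL := (EL.cons 13 (TM.mk (P.cons (P.cons (P.lf 157700086 0 0) (P.cons (P.lf 129014302 0 0) (P.cons (P.lf 2053432 0 0) (P.lf 0 684476 0)))) (P.cons (P.cons (P.lf 0 80406939 0) (P.cons (P.lf 0 10257011 0) (P.cons (P.lf 0 163253 0) (P.lf 54417 0 0)))) (P.cons (P.cons (P.lf 0 56725959 0) (P.cons (P.lf 0 5820198 0) (P.cons (P.lf 0 92636 0) (P.lf 30878 0 0)))) (P.cons (P.cons (P.lf 0 2589235 0) (P.cons (P.lf 800287 0 0) (P.cons (P.lf 12736 0 0) P.nil))) (P.cons (P.cons (P.lf 1236713 0 0) (P.cons (P.lf 47633 0 0) P.nil)) (P.cons (P.cons (P.lf 2788 0 0) P.nil) P.nil)))))) 43748)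
 EL.nil)
noncomputable def S314_343_438_512_32 : EL := (EL.cons 13 (TM.mk (P.cons (P.cons (P.lf 0 11247844 0) (P.cons (P.lf 0 18403703 0) (P.cons (P.lf 0 7820946 0) (P.cons (P.lf 0 141997 0) (P.cons (P.lf 77971 0 0) (P.cons (P.lf 1271 0 0) P.nil)))))) (P.cons (P.cons (P.lf 13309542 0 0) (P.cons (P.lf 13856654 0 0) (P.cons (P.lf 2648770 0 0) (P.cons (P.lf 3781 0 0) (P.cons (P.lf 0 25150 0) P.nil))))) (P.cons (P.cons (P.lf 2882924 0 0) (P.cons (P.lf 4261111 0 0) (P.cons (P.lf 230005 0 0) (P.cons (P.lf 0 17443 0) P.nil)))) (P.cons (P.cons (P.lf 0 4102899 0) (P.cons (P.lf 0 1329952 0) (P.cons (P.lf 0 173613 0) P.nil))) (P.cons (P.cons (P.lf 0 1117592 0) (P.cons (P.lf 0 152914 0) P.nil)) (P.cons (P.cons (P.lf 100181 0 0) P.nil) P.nil)))))) 216023)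
 EL.nil)
noncomputable def S314_343_438_512_33 : EL := (EL.cons 14 (TM.mk (P.lf 8589934592 0 0) 0)
 EL.nil)
noncomputable def S314_343_438_512_34 : EL := (EL.cons 14 (TM.mk (P.cons (P.cons (P.lf 0 612670892 0) (P.cons (P.lf 0 501225520 0) (P.cons (P.lf 0 7977664 0) (P.lf 2659216 0 0)))) (P.cons (P.cons (P.lf 412587646 0 0) (P.cons (P.lf 121825360 0 0) (P.cons (P.lf 1939008 0 0) (P.lf 0 646336 0)))) (P.cons (P.cons (P.lf 147017694 0 0) (P.cons (P.lf 0 2127832 0) (P.cons (P.lf 0 33864 0) (P.lf 11288 0 0)))) (P.cons (P.cons (P.lf 0 10173200 0) (P.cons (P.lf 0 1714192 0) (P.cons (P.lf 0 27280 0) P.nil))) (P.cons (P.cons (P.lf 0 1600154 0) (P.cons (P.lf 126872 0 0) P.nil)) (P.cons (P.cons (P.lf 170740 0 0) P.nil) P.nil)))))) 45762)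
 EL.nil)
noncomputable def S314_343_438_512_35 : EL := (EL.cons 14 (TM.mk (P.cons (P.cons (P.lf 43698308 0 0) (P.cons (P.lf 71499096 0 0) (P.cons (P.lf 30384676 0 0) (P.cons (P.lf 551664 0 0) (P.cons (P.lf 0 302922 0) (P.cons (P.lf 0 4938 0) P.nil)))))) (P.cons (P.cons (P.lf 0 58855032 0) (P.cons (P.lf 0 65527462 0) (P.cons (P.lf 0 15260054 0) (P.cons (P.lf 0 104916 0) (P.cons (P.lf 147254 0 0) P.nil))))) (P.cons (P.cons (P.lf 0 1154648 0) (P.cons (P.lf 0 5150614 0) (P.cons (P.lf 1894108 0 0) (P.cons (P.lf 90228 0 0) P.nil)))) (P.cons (P.cons (P.lf 15574158 0 0) (P.cons (P.lf 5397448 0 0) (P.cons (P.lf 225598 0 0) P.nil))) (P.cons (P.cons (P.lf 1767214 0 0) (P.cons (P.lf 0 357424 0) P.nil)) (P.cons (P.cons (P.lf 0 526302 0) P.nil) P.nil)))))) 422606)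
 EL.nil)
noncomputable def S314_343_438_512_36 : EL := (EL.cons 14 (TM.mk (P.cons (P.lf 4422059048 0 0) (P.cons (P.lf 723236960 0 0) (P.cons (P.lf 0 42477960 0) (P.cons (P.lf 0 1087808 0) (P.cons (P.lf 194464 0 0) (P.cons (P.lf 0 3120 0) P.nil)))))) 1024)
 EL.nil)
noncomputable def S314_343_438_512_37 : EL := (EL.cons 14 (TM.mk (P.cons (P.cons (P.lf 0 315400172 0) (P.cons (P.lf 0 258028604 0) (P.cons (P.lf 0 4106864 0) (P.lf 1368952 0 0)))) (P.cons (P.cons (P.lf 160813878 0 0) (P.cons (P.lf 20514022 0 0) (P.cons (P.lf 326506 0 0) (P.lf 0 108834 0)))) (P.cons (P.cons (P.lf 113451918 0 0) (P.cons (P.lf 11640396 0 0) (P.cons (P.lf 185272 0 0) (P.lf 0 61756 0)))) (P.cons (P.cons (P.lf 5178470 0 0) (P.cons (P.lf 0 1600574 0) (P.cons (P.lf 0 25472 0) P.nil))) (P.cons (P.cons (P.lf 0 2473426 0) (P.cons (P.lf 0 95266 0) P.nil)) (P.cons (P.cons (P.lf 0 5576 0) P.nil) P.nil))))))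 87496)
 EL.nil)
noncomputable def S314_343_438_512_38 : EL := (EL.cons 14 (TM.mk (P.cons (P.cons (P.lf 22495688 0 0) (P.cons (P.lf 36807406 0 0) (P.cons (P.lf 15641892 0 0) (P.cons (P.lf 283994 0 0) (P.cons (P.lf 0 155942 0) (P.cons (P.lf 0 2542 0) P.nil)))))) (P.cons (P.cons (P.lf 0 26619084 0) (P.cons (P.lf 0 27713308 0) (P.cons (P.lf 0 5297540 0) (P.cons (P.lf 0 7562 0) (P.cons (P.lf 50300 0 0) P.nil))))) (P.cons (P.cons (P.lf 0 5765848 0) (P.cons (P.lf 0 8522222 0) (P.cons (P.lf 0 460010 0) (P.cons (P.lf 34886 0 0) P.nil)))) (P.cons (P.cons (P.lf 8205798 0 0) (P.cons (P.lf 2659904 0 0) (P.cons (P.lf 347226 0 0) P.nil))) (P.cons (P.cons (P.lf 2235184 0 0) (P.cons (P.lf 305828 0 0) P.nil)) (P.cons (P.cons (P.lf 0 200362 0) P.nil) P.nil)))))) 432046)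
 EL.nil)
noncomputable def S314_343_438_512_39 : EL := (EL.cons 14 (TM.mk (P.cons (P.lf 2276455776 0 0) (P.cons (P.lf 744638158 0 0) (P.cons (P.lf 17158640 0 0) (P.cons (P.lf 0 8272934 0) (P.cons (P.lf 227096 0 0) (P.cons (P.lf 40292 0 0) P.nil)))))) 3922)
 EL.nil)
noncomputable def S314_343_438_512_40 : EL := (EL.cons 14 (TM.mk (P.cons (P.cons (P.lf 0 162366566 0) (P.cons (P.lf 0 132831946 0) (P.cons (P.lf 0 2114194 0) (P.lf 704730 0 0)))) (P.cons (P.cons (P.lf 56230858 0 0) (P.cons (P.lf 0 11164416 0) (P.cons (P.lf 0 177696 0) (P.lf 59230 0 0)))) (P.cons (P.cons (P.lf 73504072 0 0) (P.cons (P.lf 8995592 0 0) (P.cons (P.lf 143176 0 0) (P.lf 0 47724 0)))) (P.cons (P.cons (P.lf 11462738 0 0) (P.cons (P.lf 87336 0 0) (P.cons (P.lf 1390 0 0) P.nil))) (P.cons (P.cons (P.lf 0 1425836 0) (P.cons (P.lf 0 249806 0) P.nil)) (P.cons (P.cons (P.lf 0 247342 0) P.nil) P.nil))))))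 88906)
 EL.nil)
noncomputable def S314_343_438_512_41 : EL := (EL.cons 14 (TM.mk (P.cons (P.cons (P.lf 11580676 0 0) (P.cons (P.lf 18948284 0 0) (P.cons (P.lf 8052374 0 0) (P.cons (P.lf 146198 0 0) (P.cons (P.lf 0 80278 0) (P.cons (P.lf 0 1308 0) P.nil)))))) (P.cons (P.cons (P.lf 0 11809338 0) (P.cons (P.lf 0 11167652 0) (P.cons (P.lf 0 1410166 0) (P.cons (P.lf 20018 0 0) (P.cons (P.lf 12764 0 0) P.nil))))) (P.cons (P.cons (P.lf 0 5320692 0) (P.cons (P.lf 0 6902562 0) (P.cons (P.lf 0 760192 0) (P.cons (P.lf 15918 0 0) P.nil)))) (P.cons (P.cons (P.lf 3867630 0 0) (P.cons (P.lf 784154 0 0) (P.cons (P.lf 164236 0 0) P.nil))) (P.cons (P.cons (P.lf 1873950 0 0) (P.cons (P.lf 427878 0 0) P.nil)) (P.cons (P.cons (P.lf 44588 0 0) P.nil) P.nil)))))) 339588)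
 EL.nil)
noncomputable def S314_343_438_512_42 : EL := (EL.cons 14 (TM.mk (P.cons (P.lf 1171909022 0 0) (P.cons (P.lf 575004478 0 0) (P.cons (P.lf 60271372 0 0) (P.cons (P.lf 0 6784766 0) (P.cons (P.lf 0 707252 0) (P.cons (P.lf 94630 0 0) P.nil)))))) 9404)
 EL.nil)
noncomputable def S314_343_438_512_43 : EL := (EL.cons 14 (TM.mk (P.cons (P.cons (P.lf 0 83585566 0) (P.cons (P.lf 0 68381278 0) (P.cons (P.lf 0 1088378 0) (P.lf 362790 0 0)))) (P.cons (P.cons (P.lf 15276794 0 0) (P.cons (P.lf 0 16931290 0) (P.cons (P.lf 0 269484 0) (P.lf 89826 0 0)))) (P.cons (P.cons (P.lf 43376882 0 0) (P.cons (P.lf 4347756 0 0) (P.cons (P.lf 69200 0 0) (P.lf 0 23066 0)))) (P.cons (P.cons (P.lf 11832198 0 0) (P.cons (P.lf 874382 0 0) (P.cons (P.lf 13916 0 0) P.nil))) (P.cons (P.cons (P.lf 0 143180 0) (P.cons (P.lf 0 167322 0) P.nil)) (P.cons (P.cons (P.lf 0 312040 0) P.nil) P.nil))))))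 119252)
 EL.nil)
noncomputable def S314_343_438_512_44 : EL := (EL.cons 14 (TM.mk (P.cons (P.cons (P.lf 5961680 0 0) (P.cons (P.lf 9754490 0 0) (P.cons (P.lf 4145324 0 0) (P.cons (P.lf 75262 0 0) (P.cons (P.lf 0 41326 0) (P.cons (P.lf 0 672 0) P.nil)))))) (P.cons (P.cons (P.lf 0 5104348 0) (P.cons (P.lf 0 4153688 0) (P.cons (P.lf 0 47970 0) (P.cons (P.lf 22614 0 0) (P.cons (P.lf 0 186 0) P.nil))))) (P.cons (P.cons (P.lf 0 3790632 0) (P.cons (P.lf 0 4587378 0) (P.cons (P.lf 0 549892 0) (P.cons (P.lf 9156 0 0) P.nil)))) (P.cons (P.cons (P.lf 1599990 0 0) (P.cons (P.lf 0 124662 0) (P.cons (P.lf 26496 0 0) P.nil))) (P.cons (P.cons (P.lf 1318408 0 0) (P.cons (P.lf 322268 0 0) P.nil)) (P.cons (P.cons (P.lf 162008 0 0) P.nil) P.nil)))))) 308388)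
 EL.nil)
noncomputable def S314_343_438_512_45 : EL := (EL.cons 14 (TM.mk (P.cons (P.cons (P.lf 0 3116750 0) (P.cons (P.lf 0 7649432 0) (P.cons (P.lf 0 6379744 0) (P.cons (P.lf 0 1865176 0) (P.cons (P.lf 0 16668 0) (P.cons (P.lf 26920 0 0) P.nil)))))) (P.cons (P.cons (P.lf 6296688 0 0) (P.cons (P.lf 12161864 0 0) (P.cons (P.lf 7449932 0 0) (P.cons (P.lf 1410822 0 0) (P.cons (P.lf 0 15740 0) P.nil))))) (P.cons (P.cons (P.lf 0 1996640 0) (P.cons (P.lf 0 2334456 0) (P.cons (P.lf 0 1006910 0) (P.cons (P.lf 0 342666 0) P.nil)))) (P.cons (P.cons (P.lf 0 2225338 0) (P.cons (P.lf 0 2757822 0) (P.cons (P.lf 0 622934 0) P.nil))) (P.cons (P.cons (P.lf 663806 0 0) (P.cons (P.lf 391310 0 0) P.nil)) (P.cons (P.cons (P.lf 402172 0 0) P.nil) P.nil)))))) 755016)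
 EL.nil)
noncomputable def S314_343_438_512_46 : EL := (EL.cons 15 (TM.mk (P.lf 4294967296 0 0) 0)
 EL.nil)
noncomputable def S314_343_438_512_47 : EL := (EL.cons 15 (TM.mk (P.cons (P.cons (P.lf 0 306335446 0) (P.cons (P.lf 0 250612760 0) (P.cons (P.lf 0 3988832 0) (P.lf 1329608 0 0)))) (P.cons (P.cons (P.lf 206293823 0 0) (P.cons (P.lf 60912680 0 0) (P.cons (P.lf 969504 0 0) (P.lf 0 323168 0)))) (P.cons (P.cons (P.lf 73508847 0 0) (P.cons (P.lf 0 1063916 0) (P.cons (P.lf 0 16932 0) (P.lf 5644 0 0)))) (P.cons (P.cons (P.lf 0 5086600 0) (P.cons (P.lf 0 857096 0) (P.cons (P.lf 0 13640 0) P.nil))) (P.cons (P.cons (P.lf 0 800077 0) (P.cons (P.lf 63436 0 0) P.nil)) (P.cons (P.cons (P.lf 85370 0 0) P.nil) P.nil)))))) 22881)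
 EL.nil)
noncomputable def S314_343_438_512_48 : EL := (EL.cons 15 (TM.mk (P.cons (P.cons (P.lf 21849154 0 0) (P.cons (P.lf 35749548 0 0) (P.cons (P.lf 15192338 0 0) (P.cons (P.lf 275832 0 0) (P.cons (P.lf 0 151461 0) (P.cons (P.lf 0 2469 0) P.nil)))))) (P.cons (P.cons (P.lf 0 29427516 0) (P.cons (P.lf 0 32763731 0) (P.cons (P.lf 0 7630027 0) (P.cons (P.lf 0 52458 0) (P.cons (P.lf 73627 0 0) P.nil))))) (P.cons (P.cons (P.lf 0 577324 0) (P.cons (P.lf 0 2575307 0) (P.cons (P.lf 947054 0 0) (P.cons (P.lf 45114 0 0) P.nil)))) (P.cons (P.cons (P.lf 7787079 0 0) (P.cons (P.lf 2698724 0 0) (P.cons (P.lf 112799 0 0) P.nil))) (P.cons (P.cons (P.lf 883607 0 0) (P.cons (P.lf 0 178712 0) P.nil)) (P.cons (P.cons (P.lf 0 263151 0) P.nil) P.nil)))))) 211303)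
 EL.nil)
noncomputable def S314_343_438_512 : SL := (SL.cons S314_343_438_512_0 (SL.cons S314_343_438_512_1 (SL.cons S314_343_438_512_2 (SL.cons S314_343_438_512_3 (SL.cons S314_343_438_512_4 (SL.cons S314_343_438_512_5 (SL.cons S314_343_438_512_6 (SL.cons S314_343_438_512_7 (SL.cons S314_343_438_512_8 (SL.cons S314_343_438_512_9 (SL.cons S314_343_438_512_10 (SL.cons S314_343_438_512_11 (SL.cons S314_343_438_512_12 (SL.cons S314_343_438_512_13 (SL.cons S314_343_438_512_14 (SL.cons S314_343_438_512_15 (SL.cons S314_343_438_512_16 (SL.cons S314_343_438_512_17 (SL.cons S314_343_438_512_18 (SL.cons S314_343_438_512_19 (SL.cons S314_343_438_512_20 (SL.cons S314_343_438_512_21 (SL.cons S314_343_438_512_22 (SL.cons S314_343_438_512_23 (SL.cons S314_343_438_512_24 (SL.cons S314_343_438_512_25 (SL.cons S314_343_438_512_26 (SL.cons S314_343_438_512_27 (SL.cons S314_343_438_512_28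 (SL.cons S314_343_438_512_29 (SL.cons S314_343_438_512_30 (SL.cons S314_343_438_512_31 (SL.cons S314_343_438_512_32 (SL.cons S314_343_438_512_33 (SL.cons S314_343_438_512_34 (SL.cons S314_343_438_512_35 (SL.cons S314_343_438_512_36 (SL.cons S314_343_438_512_37 (SL.cons S314_343_438_512_38 (SL.cons S314_343_438_512_39 (SL.cons S314_343_438_512_40 (SL.cons S314_343_438_512_41 (SL.cons S314_343_438_512_42 (SL.cons S314_343_438_512_43 (SL.cons S314_343_438_512_44 (SL.cons S314_343_438_512_45 (SL.cons S314_343_438_512_46 (SL.cons S314_343_438_512_47 (SL.cons S314_343_438_512_48 SL.nil)))))))))))))))))))))))))))))))))))))))))))))))))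
noncomputable def S314_343_512_586_0 : EL := (EL.cons 0 (TM.mk (P.cons (P.lf 6454925654 0 0) (P.cons (P.lf 0 654467131 0) (P.cons (P.lf 0 15080835 0) (P.cons (P.lf 7271133 0 0) (P.cons (P.lf 0 199596 0) (P.cons (P.lf 0 35412 0) P.nil)))))) 3454)
 (EL.cons 1 (TM.mk (P.cons (P.lf 1695086628 0 0) (P.cons (P.lf 139901857 0 0) (P.cons (P.lf 0 47471786 0) (P.cons (P.lf 293435 0 0) (P.cons (P.lf 328029 0 0) (P.cons (P.lf 0 15684 0) P.nil)))))) 1940)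
 (EL.cons 5 (TM.mk (P.cons (P.lf 5006359730 0 0) (P.cons (P.lf 232699422 0 0) (P.cons (P.lf 5362070 0 0) (P.cons (P.lf 0 2585292 0) (P.cons (P.lf 70970 0 0) (P.cons (P.lf 12590 0 0) P.nil)))))) 1169)
 (EL.cons 9 (TM.mk (P.lf 6442450944 0 0) 2)
 EL.nil))))
noncomputable def S314_343_512_586_1 : EL := (EL.cons 0 (TM.mk (P.cons (P.cons (P.lf 672397829 0 0) (P.cons (P.lf 0 26406564 0) (P.cons (P.lf 420302 0 0) (P.lf 140100 0 0)))) (P.cons (P.cons (P.lf 1664906326 0 0) (P.cons (P.lf 159171738 0 0) (P.cons (P.lf 0 2533423 0) (P.lf 0 844472 0)))) (P.cons (P.cons (P.lf 0 528085 0) (P.cons (P.lf 0 33719708 0) (P.cons (P.lf 536683 0 0) (P.lf 178887 0 0)))) (P.cons (P.cons (P.lf 0 71660026 0) (P.cons (P.lf 0 1994449 0) (P.cons (P.lf 31742 0 0) P.nil))) (P.cons (P.cons (P.lf 3497701 0 0) (P.cons (P.lf 1003110 0 0) P.nil)) (P.cons (P.cons (P.lf 1215186 0 0) P.nil) P.nil)))))) 404493)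
 (EL.cons 1 (TM.mk (P.cons (P.cons (P.lf 0 725704259 0) (P.cons (P.lf 0 173777850 0) (P.cons (P.lf 2765901 0 0) (P.lf 921961 0 0)))) (P.cons (P.cons (P.lf 173373344 0 0) (P.cons (P.lf 63844092 0 0) (P.cons (P.lf 0 1016155 0) (P.lf 0 338712 0)))) (P.cons (P.cons (P.lf 193272622 0 0) (P.cons (P.lf 8497881 0 0) (P.cons (P.lf 0 135257 0) (P.lf 0 45083 0)))) (P.cons (P.cons (P.lf 0 11651431 0) (P.cons (P.lf 0 3698559 0) (P.cons (P.lf 58859 0 0) P.nil))) (P.cons (P.cons (P.lf 0 5516106 0) (P.cons (P.lf 56509 0 0) P.nil)) (P.cons (P.cons (P.lf 463987 0 0) P.nil) P.nil)))))) 245667)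
 (EL.cons 5 (TM.mk (P.cons (P.cons (P.lf 0 1620969793 0) (P.cons (P.lf 0 416652696 0) (P.cons (P.lf 6631578 0 0) (P.lf 2210522 0 0)))) (P.cons (P.cons (P.lf 0 31966533 0) (P.cons (P.lf 46957168 0 0) (P.cons (P.lf 0 747390 0) (P.lf 0 249136 0)))) (P.cons (P.cons (P.lf 121497110 0 0) (P.cons (P.lf 10180566 0 0) (P.cons (P.lf 0 162030 0) (P.lf 0 54006 0)))) (P.cons (P.cons (P.lf 13886848 0 0) (P.cons (P.lf 0 747928 0) (P.cons (P.lf 11912 0 0) P.nil))) (P.cons (P.cons (P.lf 0 2385791 0) (P.cons (P.lf 0 248814 0) P.nil)) (P.cons (P.cons (P.lf 0 271579 0) P.nil) P.nil)))))) 199334)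
 (EL.cons 9 (TM.mk (P.cons (P.cons (P.lf 0 1219319121 0) (P.cons (P.lf 0 375919140 0) (P.cons (P.lf 5983248 0 0) (P.lf 1994412 0 0)))) (P.cons (P.cons (P.lf 494117782 0 0) (P.cons (P.lf 91369020 0 0) (P.cons (P.lf 0 1454256 0) (P.lf 0 484752 0)))) (P.cons (P.cons (P.lf 107037658 0 0) (P.cons (P.lf 0 1595874 0) (P.cons (P.lf 25398 0 0) (P.lf 8466 0 0)))) (P.cons (P.cons (P.lf 0 10228464 0) (P.cons (P.lf 0 1285644 0) (P.cons (P.lf 20460 0 0) P.nil))) (P.cons (P.cons (P.lf 0 1007791 0) (P.cons (P.lf 95154 0 0) P.nil)) (P.cons (P.cons (P.lf 141591 0 0) P.nil) P.nil)))))) 34340)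
 (EL.cons 2 (TM.mk (P.cons (P.cons (P.lf 0 1020671074 0) (P.cons (P.lf 37834883 0 0) (P.cons (P.lf 18747320 0 0) (P.cons (P.lf 0 170116 0) (P.lf 0 42527 0))))) (P.cons (P.cons (P.lf 0 1546745 0) (P.cons (P.lf 57335 0 0) (P.cons (P.lf 28409 0 0) (P.cons (P.lf 0 258 0) (P.lf 0 64 0))))) (P.cons (P.cons (P.lf 40664708 0 0) (P.cons (P.lf 0 1507381 0) (P.cons (P.lf 0 746912 0) (P.cons (P.lf 6775 0 0) P.nil)))) (P.cons (P.cons (P.lf 0 2551750 0) (P.cons (P.lf 94587 0 0) (P.cons (P.lf 46867 0 0) P.nil))) (P.cons (P.cons (P.lf 0 372254 0) (P.cons (P.lf 13798 0 0) P.nil)) (P.cons (P.cons (P.lf 41900 0 0) P.nil) P.nil)))))) 18299)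
 (EL.cons 6 (TM.mk (P.cons (P.cons (P.lf 864720858 0 0) (P.cons (P.lf 0 32054022 0) (P.cons (P.lf 0 15882882 0) (P.cons (P.lf 144126 0 0) (P.lf 36030 0 0))))) (P.cons (P.cons (P.lf 0 210174717 0) (P.cons (P.lf 7790889 0 0) (P.cons (P.lf 3860412 0 0) (P.cons (P.lf 0 35028 0) (P.lf 0 8754 0))))) (P.cons (P.cons (P.lf 3670965 0 0) (P.cons (P.lf 0 136077 0) (P.cons (P.lf 0 67425 0) (P.cons (P.lf 612 0 0) P.nil)))) (P.cons (P.cons (P.lf 2957346 0 0) (P.cons (P.lf 0 109623 0) (P.cons (P.lf 0 54318 0) P.nil))) (P.cons (P.cons (P.lf 0 218892 0) (P.cons (P.lf 8112 0 0) P.nil)) (P.cons (P.cons (P.lf 0 15414 0) P.nil) P.nil)))))) 10425)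
 EL.nil))))))
noncomputable def S314_343_512_586_2 : EL := (EL.cons 0 (TM.mk (P.cons (P.cons (P.lf 0 485739506 0) (P.cons (P.lf 0 211044556 0) (P.cons (P.lf 0 15536759 0) (P.cons (P.lf 1721178 0 0) (P.cons (P.lf 195705 0 0) (P.cons (P.lf 0 3185 0) P.nil)))))) (P.cons (P.cons (P.lf 0 316226872 0) (P.cons (P.lf 0 132641254 0) (P.cons (P.lf 0 4301523 0) (P.cons (P.lf 907855 0 0) (P.cons (P.lf 66426 0 0) P.nil))))) (P.cons (P.cons (P.lf 262094118 0 0) (P.cons (P.lf 72084866 0 0) (P.cons (P.lf 4798931 0 0) (P.cons (P.lf 0 571715 0) P.nil)))) (P.cons (P.cons (P.lf 58937702 0 0) (P.cons (P.lf 3569475 0 0) (P.cons (P.lf 0 852956 0) P.nil))) (P.cons (P.cons (P.lf 0 16149373 0) (P.cons (P.lf 0 4361001 0) P.nil)) (P.cons (P.cons (P.lf 0 2139199 0) P.nil) P.nil)))))) 2443309)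
 (EL.cons 1 (TM.mk (P.cons (P.cons (P.lf 213979302 0 0) (P.cons (P.lf 113030058 0 0) (P.cons (P.lf 12709600 0 0) (P.cons (P.lf 0 1061518 0) (P.cons (P.lf 0 150273 0) (P.cons (P.lf 2443 0 0) P.nil)))))) (P.cons (P.cons (P.lf 0 132745089 0) (P.cons (P.lf 0 70458449 0) (P.cons (P.lf 0 8929169 0) (P.cons (P.lf 693737 0 0) (P.cons (P.lf 104095 0 0) P.nil))))) (P.cons (P.cons (P.lf 0 64227425 0) (P.cons (P.lf 0 13983805 0) (P.cons (P.lf 1131104 0 0) (P.cons (P.lf 45267 0 0) P.nil)))) (P.cons (P.cons (P.lf 35452083 0 0) (P.cons (P.lf 10513403 0 0) (P.cons (P.lf 403736 0 0) P.nil))) (P.cons (P.cons (P.lf 5780863 0 0) (P.cons (P.lf 0 291614 0) P.nil)) (P.cons (P.cons (P.lf 0 1817680 0) P.nil) P.nil)))))) 1311042)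
 (EL.cons 5 (TM.mk (P.cons (P.cons (P.lf 434249303 0 0) (P.cons (P.lf 236306120 0 0) (P.cons (P.lf 27817057 0 0) (P.cons (P.lf 0 2258912 0) (P.cons (P.lf 0 327065 0) (P.cons (P.lf 5327 0 0) P.nil)))))) (P.cons (P.cons (P.lf 0 99538668 0) (P.cons (P.lf 0 57388068 0) (P.cons (P.lf 0 8891053 0) (P.cons (P.lf 616561 0 0) (P.cons (P.lf 101544 0 0) P.nil))))) (P.cons (P.cons (P.lf 0 96157380 0) (P.cons (P.lf 0 23218198 0) (P.cons (P.lf 0 64989 0) (P.cons (P.lf 137001 0 0) P.nil)))) (P.cons (P.cons (P.lf 2040522 0 0) (P.cons (P.lf 3798686 0 0) (P.cons (P.lf 341341 0 0) P.nil))) (P.cons (P.cons (P.lf 6411632 0 0) (P.cons (P.lf 1030625 0 0) P.nil)) (P.cons (P.cons (P.lf 139450 0 0) P.nil) P.nil)))))) 1253945)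
 (EL.cons 9 (TM.mk (P.cons (P.cons (P.lf 230772283 0 0) (P.cons (P.lf 142295346 0 0) (P.cons (P.lf 19670187 0 0) (P.cons (P.lf 0 1453186 0) (P.cons (P.lf 0 227191 0) (P.cons (P.lf 3703 0 0) P.nil)))))) (P.cons (P.cons (P.lf 0 187036662 0) (P.cons (P.lf 0 92249464 0) (P.cons (P.lf 0 9194553 0) (P.cons (P.lf 828847 0 0) (P.cons (P.lf 110440 0 0) P.nil))))) (P.cons (P.cons (P.lf 0 2619148 0) (P.cons (P.lf 2128206 0 0) (P.cons (P.lf 1448193 0 0) (P.cons (P.lf 0 58467 0) P.nil)))) (P.cons (P.cons (P.lf 20290716 0 0) (P.cons (P.lf 4471608 0 0) (P.cons (P.lf 33597 0 0) P.nil))) (P.cons (P.cons (P.lf 590856 0 0) (P.cons (P.lf 0 458775 0) P.nil)) (P.cons (P.cons (P.lf 0 548065 0) P.nil) P.nil)))))) 343415)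
 (EL.cons 2 (TM.mk (P.cons (P.cons (P.lf 386351021 0 0) (P.cons (P.lf 104791477 0 0) (P.cons (P.lf 0 13407547 0) (P.cons (P.lf 0 2685093 0) (P.cons (P.lf 94196 0 0) (P.cons (P.lf 16250 0 0) P.nil)))))) (P.cons (P.cons (P.lf 0 155979686 0) (P.cons (P.lf 0 22988542 0) (P.cons (P.lf 4389378 0 0) (P.cons (P.lf 638111 0 0) (P.cons (P.lf 0 25363 0) P.nil))))) (P.cons (P.cons (P.lf 0 49545669 0) (P.cons (P.lf 0 2447212 0) (P.cons (P.lf 1137009 0 0) (P.cons (P.lf 90624 0 0) P.nil)))) (P.cons (P.cons (P.lf 10393211 0 0) (P.cons (P.lf 1474098 0 0) (P.cons (P.lf 0 289411 0) P.nil))) (P.cons (P.cons (P.lf 1424958 0 0) (P.cons (P.lf 0 131433 0) P.nil)) (P.cons (P.cons (P.lf 0 331256 0) P.nil) P.nil)))))) 219323)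
 (EL.cons 6 (TM.mk (P.cons (P.cons (P.lf 0 327319734 0) (P.cons (P.lf 0 88780194 0) (P.cons (P.lf 11358984 0 0) (P.cons (P.lf 2274834 0 0) (P.cons (P.lf 0 79800 0) (P.cons (P.lf 0 13770 0) P.nil)))))) (P.cons (P.cons (P.lf 212199984 0 0) (P.cons (P.lf 41189088 0 0) (P.cons (P.lf 0 6496788 0) (P.cons (P.lf 0 1096968 0) (P.cons (P.lf 41004 0 0) P.nil))))) (P.cons (P.cons (P.lf 0 4895478 0) (P.cons (P.lf 0 6636870 0) (P.cons (P.lf 451182 0 0) (P.cons (P.lf 156570 0 0) P.nil)))) (P.cons (P.cons (P.lf 0 10285968 0) (P.cons (P.lf 0 100704 0) (P.cons (P.lf 214464 0 0) P.nil))) (P.cons (P.cons (P.lf 1055316 0 0) (P.cons (P.lf 177918 0 0) P.nil)) (P.cons (P.cons (P.lf 162630 0 0) P.nil) P.nil)))))) 185748)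
 EL.nil))))))
noncomputable def S314_343_512_586_3 : EL := (EL.cons 0 (TM.mk (P.cons (P.lf 2000791209 0 0) (P.cons (P.lf 654467131 0 0) (P.cons (P.lf 15080835 0 0) (P.cons (P.lf 0 7271133 0) (P.cons (P.lf 199596 0 0) (P.cons (P.lf 35412 0 0) P.nil)))))) 3454)
 (EL.cons 1 (TM.mk (P.cons (P.lf 0 1695086628 0) (P.cons (P.lf 0 139901857 0) (P.cons (P.lf 47471786 0 0) (P.cons (P.lf 0 293435 0) (P.cons (P.lf 0 328029 0) (P.cons (P.lf 15684 0 0) P.nil)))))) 1940)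
 (EL.cons 5 (TM.mk (P.cons (P.lf 1436091214 0 0) (P.cons (P.lf 0 232699422 0) (P.cons (P.lf 0 5362070 0) (P.cons (P.lf 2585292 0 0) (P.cons (P.lf 0 70970 0) (P.cons (P.lf 0 12590 0) P.nil)))))) 1162)
 EL.nil)))
noncomputable def S314_343_512_586_4 : EL := (EL.cons 0 (TM.mk (P.cons (P.cons (P.lf 0 378676219 0) (P.cons (P.lf 0 116746827 0) (P.cons (P.lf 1858178 0 0) (P.lf 619391 0 0)))) (P.cons (P.cons (P.lf 29588463 0 0) (P.cons (P.lf 0 9812475 0) (P.cons (P.lf 156178 0 0) (P.lf 52057 0 0)))) (P.cons (P.cons (P.lf 80583539 0 0) (P.cons (P.lf 7906282 0 0) (P.cons (P.lf 0 125838 0) (P.lf 0 41944 0)))) (P.cons (P.cons (P.lf 10229825 0 0) (P.cons (P.lf 76760 0 0) (P.cons (P.lf 0 1221 0) P.nil))) (P.cons (P.cons (P.lf 0 1696950 0) (P.cons (P.lf 0 219556 0) P.nil)) (P.cons (P.cons (P.lf 0 194547 0) P.nil) P.nil)))))) 83337)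
 (EL.cons 1 (TM.mk (P.cons (P.cons (P.lf 320817581 0 0) (P.cons (P.lf 98908863 0 0) (P.cons (P.lf 0 1574263 0) (P.lf 0 524752 0)))) (P.cons (P.cons (P.lf 0 103530075 0) (P.cons (P.lf 0 15876971 0) (P.cons (P.lf 252701 0 0) (P.lf 84232 0 0)))) (P.cons (P.cons (P.lf 0 47877639 0) (P.cons (P.lf 0 4334235 0) (P.cons (P.lf 68985 0 0) (P.lf 22993 0 0)))) (P.cons (P.cons (P.lf 4063329 0 0) (P.cons (P.lf 1063305 0 0) (P.cons (P.lf 0 16921 0) P.nil))) (P.cons (P.cons (P.lf 1315573 0 0) (P.cons (P.lf 6101 0 0) P.nil)) (P.cons (P.cons (P.lf 0 123740 0) P.nil) P.nil)))))) 57849)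
 (EL.cons 5 (TM.mk (P.cons (P.cons (P.lf 0 271799270 0) (P.cons (P.lf 0 83796396 0) (P.cons (P.lf 1333728 0 0) (P.lf 444574 0 0)))) (P.cons (P.cons (P.lf 154185584 0 0) (P.cons (P.lf 33945218 0 0) (P.cons (P.lf 0 540282 0) (P.lf 0 180092 0)))) (P.cons (P.cons (P.lf 7027292 0 0) (P.cons (P.lf 0 3343080 0) (P.cons (P.lf 53208 0 0) (P.lf 17736 0 0)))) (P.cons (P.cons (P.lf 0 7046758 0) (P.cons (P.lf 0 455840 0) (P.cons (P.lf 7252 0 0) P.nil))) (P.cons (P.cons (P.lf 267430 0 0) (P.cons (P.lf 109782 0 0) P.nil)) (P.cons (P.cons (P.lf 116368 0 0) P.nil) P.nil)))))) 41394)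
 EL.nil)))
noncomputable def S314_343_512_586_5 : EL := (EL.cons 0 (TM.mk (P.cons (P.cons (P.lf 71669487 0 0) (P.cons (P.lf 44191764 0 0) (P.cons (P.lf 6108844 0 0) (P.cons (P.lf 0 451306 0) (P.cons (P.lf 0 70556 0) (P.cons (P.lf 1149 0 0) P.nil)))))) (P.cons (P.cons (P.lf 0 34643402 0) (P.cons (P.lf 0 14194021 0) (P.cons (P.lf 0 857264 0) (P.cons (P.lf 109784 0 0) (P.cons (P.lf 11218 0 0) P.nil))))) (P.cons (P.cons (P.lf 0 19273638 0) (P.cons (P.lf 0 8377279 0) (P.cons (P.lf 0 438241 0) (P.cons (P.lf 62639 0 0) P.nil)))) (P.cons (P.cons (P.lf 5337205 0 0) (P.cons (P.lf 1228375 0 0) (P.cons (P.lf 113827 0 0) P.nil))) (P.cons (P.cons (P.lf 2456876 0 0) (P.cons (P.lf 425281 0 0) P.nil)) (P.cons (P.cons (P.lf 0 64258 0) P.nil) P.nil)))))) 341702)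
 (EL.cons 1 (TM.mk (P.cons (P.cons (P.lf 0 60718972 0) (P.cons (P.lf 0 37439621 0) (P.cons (P.lf 0 5175463 0) (P.cons (P.lf 382350 0 0) (P.cons (P.lf 59775 0 0) (P.cons (P.lf 0 973 0) P.nil)))))) (P.cons (P.cons (P.lf 44200237 0 0) (P.cons (P.lf 21181914 0 0) (P.cons (P.lf 1992046 0 0) (P.cons (P.lf 0 186521 0) (P.cons (P.lf 0 24123 0) P.nil))))) (P.cons (P.cons (P.lf 6451213 0 0) (P.cons (P.lf 2491813 0 0) (P.cons (P.lf 0 36429 0) (P.cons (P.lf 0 13321 0) P.nil)))) (P.cons (P.cons (P.lf 0 6670561 0) (P.cons (P.lf 0 1908978 0) (P.cons (P.lf 0 108933 0) P.nil))) (P.cons (P.cons (P.lf 0 618616 0) (P.cons (P.lf 36243 0 0) P.nil)) (P.cons (P.cons (P.lf 291088 0 0) P.nil) P.nil)))))) 256102)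
 (EL.cons 5 (TM.mk (P.cons (P.cons (P.lf 51441608 0 0) (P.cons (P.lf 31719154 0 0) (P.cons (P.lf 4384694 0 0) (P.cons (P.lf 0 323930 0) (P.cons (P.lf 0 50642 0) (P.cons (P.lf 824 0 0) P.nil)))))) (P.cons (P.cons (P.lf 0 50027898 0) (P.cons (P.lf 0 25703056 0) (P.cons (P.lf 0 2760044 0) (P.cons (P.lf 237246 0 0) (P.cons (P.lf 32824 0 0) P.nil))))) (P.cons (P.cons (P.lf 5979800 0 0) (P.cons (P.lf 3687988 0 0) (P.cons (P.lf 638550 0 0) (P.cons (P.lf 0 41760 0) P.nil)))) (P.cons (P.cons (P.lf 4865898 0 0) (P.cons (P.lf 1053778 0 0) (P.cons (P.lf 0 29272 0) P.nil))) (P.cons (P.cons (P.lf 0 676604 0) (P.cons (P.lf 0 304136 0) P.nil)) (P.cons (P.cons (P.lf 0 159840 0) P.nil) P.nil)))))) 182706)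
 EL.nil)))
noncomputable def S314_343_512_586_6 : EL := (EL.cons 12 (TM.mk (P.lf 8589934592 0 0) 0)
 (EL.cons 3 (TM.mk (P.cons (P.lf 2072840178 0 0) (P.cons (P.lf 339017325 0 0) (P.cons (P.lf 0 19911543 0) (P.cons (P.lf 0 509910 0) (P.cons (P.lf 91155 0 0) (P.cons (P.lf 0 1462 0) P.nil)))))) 487)
 (EL.cons 7 (TM.mk (P.cons (P.lf 0 1756127103 0) (P.cons (P.lf 142278485 0 0) (P.cons (P.lf 9042093 0 0) (P.cons (P.lf 0 848140 0) (P.cons (P.lf 0 2043 0) (P.cons (P.lf 3166 0 0) P.nil)))))) 195)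
 EL.nil)))
noncomputable def S314_343_512_586_7 : EL := (EL.cons 12 (TM.mk (P.cons (P.cons (P.lf 0 1625758828 0) (P.cons (P.lf 0 501225520 0) (P.cons (P.lf 7977664 0 0) (P.lf 2659216 0 0)))) (P.cons (P.cons (P.lf 658823710 0 0) (P.cons (P.lf 121825360 0 0) (P.cons (P.lf 0 1939008 0) (P.lf 0 646336 0)))) (P.cons (P.cons (P.lf 142716878 0 0) (P.cons (P.lf 0 2127832 0) (P.cons (P.lf 33864 0 0) (P.lf 11288 0 0)))) (P.cons (P.cons (P.lf 0 13637952 0) (P.cons (P.lf 0 1714192 0) (P.cons (P.lf 27280 0 0) P.nil))) (P.cons (P.cons (P.lf 0 1343722 0) (P.cons (P.lf 126872 0 0) P.nil)) (P.cons (P.cons (P.lf 188788 0 0) P.nil) P.nil)))))) 45762)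
 (EL.cons 3 (TM.mk (P.cons (P.cons (P.lf 1569971718 0 0) (P.cons (P.lf 241901816 0 0) (P.cons (P.lf 0 3850184 0) (P.lf 0 1283392 0)))) (P.cons (P.cons (P.lf 857512471 0 0) (P.cons (P.lf 0 19231894 0) (P.cons (P.lf 306098 0 0) (P.lf 102030 0 0)))) (P.cons (P.cons (P.lf 0 104289175 0) (P.cons (P.lf 0 10912870 0) (P.cons (P.lf 173692 0 0) (P.lf 57896 0 0)))) (P.cons (P.cons (P.lf 0 13455709 0) (P.cons (P.lf 1500538 0 0) (P.cons (P.lf 0 23880 0) P.nil))) (P.cons (P.cons (P.lf 2818716 0 0) (P.cons (P.lf 89310 0 0) P.nil)) (P.cons (P.cons (P.lf 10795 0 0) P.nil) P.nil)))))) 171400)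
 (EL.cons 7 (TM.mk (P.cons (P.cons (P.lf 1155899955 0 0) (P.cons (P.lf 254752309 0 0) (P.cons (P.lf 0 4054720 0) (P.lf 0 1351574 0)))) (P.cons (P.cons (P.lf 359880060 0 0) (P.cons (P.lf 0 8071228 0) (P.cons (P.lf 128465 0 0) (P.lf 42823 0 0)))) (P.cons (P.cons (P.lf 240021 0 0) (P.cons (P.lf 0 5566891 0) (P.cons (P.lf 88602 0 0) (P.lf 29533 0 0)))) (P.cons (P.cons (P.lf 0 10941006 0) (P.cons (P.lf 0 158311 0) (P.cons (P.lf 2518 0 0) P.nil))) (P.cons (P.cons (P.lf 0 29301 0) (P.cons (P.lf 114242 0 0) P.nil)) (P.cons (P.cons (P.lf 163490 0 0) P.nil) P.nil)))))) 105239)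
 (EL.cons 10 (TM.mk (P.cons (P.cons (P.lf 0 2114851368 0) (P.cons (P.lf 78394656 0 0) (P.cons (P.lf 38844834 0 0) (P.cons (P.lf 0 352491 0) (P.lf 0 88122 0))))) (P.cons (P.cons (P.lf 342683448 0 0) (P.cons (P.lf 0 12702807 0) (P.cons (P.lf 0 6294285 0) (P.cons (P.lf 57114 0 0) (P.lf 14277 0 0))))) (P.cons (P.cons (P.lf 7896420 0 0) (P.cons (P.lf 0 292707 0) (P.cons (P.lf 0 145038 0) (P.cons (P.lf 1314 0 0) P.nil)))) (P.cons (P.cons (P.lf 0 3807213 0) (P.cons (P.lf 141126 0 0) (P.cons (P.lf 69927 0 0) P.nil))) (P.cons (P.cons (P.lf 104511 0 0) (P.cons (P.lf 0 3873 0) P.nil)) (P.cons (P.cons (P.lf 18540 0 0) P.nil) P.nil)))))) 6009)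
 EL.nil))))
noncomputable def S314_343_512_586_8 : EL := (EL.cons 12 (TM.mk (P.cons (P.cons (P.lf 307696378 0 0) (P.cons (P.lf 189727128 0 0) (P.cons (P.lf 26226916 0 0) (P.cons (P.lf 0 1937582 0) (P.cons (P.lf 0 302922 0) (P.cons (P.lf 4938 0 0) P.nil)))))) (P.cons (P.cons (P.lf 0 249382216 0) (P.cons (P.lf 0 122999286 0) (P.cons (P.lf 0 12259404 0) (P.cons (P.lf 1105130 0 0) (P.cons (P.lf 147254 0 0) P.nil))))) (P.cons (P.cons (P.lf 0 3492198 0) (P.cons (P.lf 2837608 0 0) (P.cons (P.lf 1930924 0 0) (P.cons (P.lf 0 77956 0) P.nil)))) (P.cons (P.cons (P.lf 27054288 0 0) (P.cons (P.lf 5962144 0 0) (P.cons (P.lf 44796 0 0) P.nil))) (P.cons (P.cons (P.lf 787808 0 0) (P.cons (P.lf 0 611700 0) P.nil)) (P.cons (P.cons (P.lf 0 730754 0) P.nil) P.nil)))))) 457858)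
 (EL.cons 3 (TM.mk (P.cons (P.cons (P.lf 0 668526182 0) (P.cons (P.lf 0 320566098 0) (P.cons (P.lf 0 30185392 0) (P.cons (P.lf 2824036 0 0) (P.cons (P.lf 365491 0 0) (P.cons (P.lf 0 5955 0) P.nil)))))) (P.cons (P.cons (P.lf 0 35731668 0) (P.cons (P.lf 11038698 0 0) (P.cons (P.lf 11206609 0 0) (P.cons (P.lf 0 420892 0) (P.cons (P.lf 0 117890 0) P.nil))))) (P.cons (P.cons (P.lf 234580422 0 0) (P.cons (P.lf 49544178 0 0) (P.cons (P.lf 0 28329 0) (P.cons (P.lf 0 287049 0) P.nil)))) (P.cons (P.cons (P.lf 5654494 0 0) (P.cons (P.lf 0 7912981 0) (P.cons (P.lf 0 588645 0) P.nil))) (P.cons (P.cons (P.lf 0 11094483 0) (P.cons (P.lf 0 1226116 0) P.nil)) (P.cons (P.cons (P.lf 323497 0 0) P.nil) P.nil)))))) 1386909)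
 (EL.cons 7 (TM.mk (P.cons (P.cons (P.lf 0 374633252 0) (P.cons (P.lf 0 192536945 0) (P.cons (P.lf 0 20686085 0) (P.cons (P.lf 1777535 0 0) (P.cons (P.lf 245997 0 0) (P.cons (P.lf 0 4009 0) P.nil)))))) (P.cons (P.cons (P.lf 0 14995832 0) (P.cons (P.lf 4632720 0 0) (P.cons (P.lf 4703178 0 0) (P.cons (P.lf 0 176641 0) (P.cons (P.lf 0 49474 0) P.nil))))) (P.cons (P.cons (P.lf 96614730 0 0) (P.cons (P.lf 21359162 0 0) (P.cons (P.lf 563240 0 0) (P.cons (P.lf 0 142068 0) P.nil)))) (P.cons (P.cons (P.lf 18348026 0 0) (P.cons (P.lf 92977 0 0) (P.cons (P.lf 0 224900 0) P.nil))) (P.cons (P.cons (P.lf 0 3471517 0) (P.cons (P.lf 0 961999 0) P.nil)) (P.cons (P.cons (P.lf 0 683918 0) P.nil) P.nil)))))) 708206)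
 (EL.cons 10 (TM.mk (P.cons (P.cons (P.lf 800527230 0 0) (P.cons (P.lf 217130094 0 0) (P.cons (P.lf 0 27780720 0) (P.cons (P.lf 0 5563578 0) (P.cons (P.lf 195180 0 0) (P.cons (P.lf 33678 0 0) P.nil)))))) (P.cons (P.cons (P.lf 0 454121004 0) (P.cons (P.lf 0 83144814 0) (P.cons (P.lf 13638480 0 0) (P.cons (P.lf 2232120 0 0) (P.cons (P.lf 0 84474 0) P.nil))))) (P.cons (P.cons (P.lf 0 20697402 0) (P.cons (P.lf 10613556 0 0) (P.cons (P.lf 0 141540 0) (P.cons (P.lf 0 230730 0) P.nil)))) (P.cons (P.cons (P.lf 20754732 0 0) (P.cons (P.lf 573228 0 0) (P.cons (P.lf 0 452346 0) P.nil))) (P.cons (P.cons (P.lf 0 787656 0) (P.cons (P.lf 0 294144 0) P.nil)) (P.cons (P.cons (P.lf 0 342738 0) P.nil) P.nil)))))) 258450)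
 EL.nil))))
noncomputable def S314_343_512_586_9 : EL := (EL.cons 3 (TM.mk (P.cons (P.lf 2072840178 0 0) (P.cons (P.lf 339017325 0 0) (P.cons (P.lf 0 19911543 0) (P.cons (P.lf 0 509910 0) (P.cons (P.lf 91155 0 0) (P.cons (P.lf 0 1462 0) P.nil)))))) 487)
 (EL.cons 7 (TM.mk (P.cons (P.lf 0 1756127103 0) (P.cons (P.lf 142278485 0 0) (P.cons (P.lf 9042093 0 0) (P.cons (P.lf 0 848140 0) (P.cons (P.lf 0 2043 0) (P.cons (P.lf 3166 0 0) P.nil)))))) 195)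
 EL.nil))
noncomputable def S314_343_512_586_10 : EL := (EL.cons 3 (TM.mk (P.cons (P.cons (P.lf 0 392312442 0) (P.cons (P.lf 0 120950908 0) (P.cons (P.lf 1925092 0 0) (P.lf 641696 0 0)))) (P.cons (P.cons (P.lf 94817467 0 0) (P.cons (P.lf 9615947 0 0) (P.cons (P.lf 0 153049 0) (P.lf 0 51015 0)))) (P.cons (P.cons (P.lf 64209254 0 0) (P.cons (P.lf 5456435 0 0) (P.cons (P.lf 0 86846 0) (P.lf 0 28948 0)))) (P.cons (P.cons (P.lf 910949 0 0) (P.cons (P.lf 0 750269 0) (P.cons (P.lf 11940 0 0) P.nil))) (P.cons (P.cons (P.lf 0 1249680 0) (P.cons (P.lf 0 44655 0) P.nil)) (P.cons (P.cons (P.lf 22933 0 0) P.nil) P.nil)))))) 41484)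
 (EL.cons 7 (TM.mk (P.cons (P.cons (P.lf 332370300 0 0) (P.cons (P.lf 102470596 0 0) (P.cons (P.lf 0 1630954 0) (P.lf 0 543650 0)))) (P.cons (P.cons (P.lf 0 161618073 0) (P.cons (P.lf 0 33207985 0) (P.cons (P.lf 528548 0 0) (P.lf 176182 0 0)))) (P.cons (P.cons (P.lf 0 19976031 0) (P.cons (P.lf 1925246 0 0) (P.cons (P.lf 0 30642 0) (P.lf 0 10214 0)))) (P.cons (P.cons (P.lf 6006045 0 0) (P.cons (P.lf 492932 0 0) (P.cons (P.lf 0 7844 0) P.nil))) (P.cons (P.cons (P.lf 134385 0 0) (P.cons (P.lf 0 68479 0) P.nil)) (P.cons (P.cons (P.lf 0 90055 0) P.nil) P.nil)))))) 23452)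
 EL.nil))
noncomputable def S314_343_512_586_11 : EL := (EL.cons 3 (TM.mk (P.cons (P.cons (P.lf 74250322 0 0) (P.cons (P.lf 45783120 0 0) (P.cons (P.lf 6328826 0 0) (P.cons (P.lf 0 467558 0) (P.cons (P.lf 0 73097 0) (P.cons (P.lf 1191 0 0) P.nil)))))) (P.cons (P.cons (P.lf 0 48034716 0) (P.cons (P.lf 0 22193076 0) (P.cons (P.lf 0 1923227 0) (P.cons (P.lf 190208 0 0) (P.cons (P.lf 23578 0 0) P.nil))))) (P.cons (P.cons (P.lf 0 11398266 0) (P.cons (P.lf 0 4609434 0) (P.cons (P.lf 0 78681 0) (P.cons (P.lf 29295 0 0) P.nil)))) (P.cons (P.cons (P.lf 6950458 0 0) (P.cons (P.lf 1824569 0 0) (P.cons (P.lf 113877 0 0) P.nil))) (P.cons (P.cons (P.lf 1284015 0 0) (P.cons (P.lf 90434 0 0) P.nil)) (P.cons (P.cons (P.lf 0 210449 0) P.nil) P.nil)))))) 226349)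
 (EL.cons 7 (TM.mk (P.cons (P.cons (P.lf 0 62905478 0) (P.cons (P.lf 0 38787833 0) (P.cons (P.lf 0 5361833 0) (P.cons (P.lf 396119 0 0) (P.cons (P.lf 61929 0 0) (P.cons (P.lf 0 1009 0) P.nil)))))) (P.cons (P.cons (P.lf 56080222 0 0) (P.cons (P.lf 28288512 0 0) (P.cons (P.lf 2940720 0 0) (P.cons (P.lf 0 258025 0) (P.cons (P.lf 0 35122 0) P.nil))))) (P.cons (P.cons (P.lf 0 3092778 0) (P.cons (P.lf 0 2417692 0) (P.cons (P.lf 0 570208 0) (P.cons (P.lf 32202 0 0) P.nil)))) (P.cons (P.cons (P.lf 0 5881714 0) (P.cons (P.lf 0 1320107 0) (P.cons (P.lf 7330 0 0) P.nil))) (P.cons (P.cons (P.lf 307925 0 0) (P.cons (P.lf 238895 0 0) P.nil)) (P.cons (P.cons (P.lf 191440 0 0) P.nil) P.nil)))))) 146668)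
 EL.nil))
noncomputable def S314_343_512_586_12 : EL := (EL.cons 4 (TM.mk (P.cons (P.lf 0 2072840178 0) (P.cons (P.lf 0 339017325 0) (P.cons (P.lf 19911543 0 0) (P.cons (P.lf 509910 0 0) (P.cons (P.lf 0 91155 0) (P.cons (P.lf 1462 0 0) P.nil)))))) 487)
 (EL.cons 8 (TM.mk (P.cons (P.lf 1756127103 0 0) (P.cons (P.lf 0 142278485 0) (P.cons (P.lf 0 9042093 0) (P.cons (P.lf 848140 0 0) (P.cons (P.lf 2043 0 0) (P.cons (P.lf 0 3166 0) P.nil)))))) 195)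
 EL.nil))
noncomputable def S314_343_512_586_13 : EL := (EL.cons 4 (TM.mk (P.cons (P.cons (P.lf 392312442 0 0) (P.cons (P.lf 120950908 0 0) (P.cons (P.lf 0 1925092 0) (P.lf 0 641696 0)))) (P.cons (P.cons (P.lf 0 94817467 0) (P.cons (P.lf 0 9615947 0) (P.cons (P.lf 153049 0 0) (P.lf 51015 0 0)))) (P.cons (P.cons (P.lf 0 64209254 0) (P.cons (P.lf 0 5456435 0) (P.cons (P.lf 86846 0 0) (P.lf 28948 0 0)))) (P.cons (P.cons (P.lf 0 910949 0) (P.cons (P.lf 750269 0 0) (P.cons (P.lf 0 11940 0) P.nil))) (P.cons (P.cons (P.lf 1249680 0 0) (P.cons (P.lf 44655 0 0) P.nil)) (P.cons (P.cons (P.lf 0 22933 0) P.nil) P.nil)))))) 41484)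
 (EL.cons 8 (TM.mk (P.cons (P.cons (P.lf 0 332370300 0) (P.cons (P.lf 0 102470596 0) (P.cons (P.lf 1630954 0 0) (P.lf 543650 0 0)))) (P.cons (P.cons (P.lf 161618073 0 0) (P.cons (P.lf 33207985 0 0) (P.cons (P.lf 0 528548 0) (P.lf 0 176182 0)))) (P.cons (P.cons (P.lf 19976031 0 0) (P.cons (P.lf 0 1925246 0) (P.cons (P.lf 30642 0 0) (P.lf 10214 0 0)))) (P.cons (P.cons (P.lf 0 6006045 0) (P.cons (P.lf 0 492932 0) (P.cons (P.lf 7844 0 0) P.nil))) (P.cons (P.cons (P.lf 0 134385 0) (P.cons (P.lf 68479 0 0) P.nil)) (P.cons (P.cons (P.lf 90055 0 0) P.nil) P.nil)))))) 23452)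
 EL.nil))
noncomputable def S314_343_512_586_14 : EL := (EL.cons 4 (TM.mk (P.cons (P.cons (P.lf 0 74250322 0) (P.cons (P.lf 0 45783120 0) (P.cons (P.lf 0 6328826 0) (P.cons (P.lf 467558 0 0) (P.cons (P.lf 73097 0 0) (P.cons (P.lf 0 1191 0) P.nil)))))) (P.cons (P.cons (P.lf 48034716 0 0) (P.cons (P.lf 22193076 0 0) (P.cons (P.lf 1923227 0 0) (P.cons (P.lf 0 190208 0) (P.cons (P.lf 0 23578 0) P.nil))))) (P.cons (P.cons (P.lf 11398266 0 0) (P.cons (P.lf 4609434 0 0) (P.cons (P.lf 78681 0 0) (P.cons (P.lf 0 29295 0) P.nil)))) (P.cons (P.cons (P.lf 0 6950458 0) (P.cons (P.lf 0 1824569 0) (P.cons (P.lf 0 113877 0) P.nil))) (P.cons (P.cons (P.lf 0 1284015 0) (P.cons (P.lf 0 90434 0) P.nil)) (P.cons (P.cons (P.lf 210449 0 0) P.nil) P.nil)))))) 226349)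
 (EL.cons 8 (TM.mk (P.cons (P.cons (P.lf 62905478 0 0) (P.cons (P.lf 38787833 0 0) (P.cons (P.lf 5361833 0 0) (P.cons (P.lf 0 396119 0) (P.cons (P.lf 0 61929 0) (P.cons (P.lf 1009 0 0) P.nil)))))) (P.cons (P.cons (P.lf 0 56080222 0) (P.cons (P.lf 0 28288512 0) (P.cons (P.lf 0 2940720 0) (P.cons (P.lf 258025 0 0) (P.cons (P.lf 35122 0 0) P.nil))))) (P.cons (P.cons (P.lf 3092778 0 0) (P.cons (P.lf 2417692 0 0) (P.cons (P.lf 570208 0 0) (P.cons (P.lf 0 32202 0) P.nil)))) (P.cons (P.cons (P.lf 5881714 0 0) (P.cons (P.lf 1320107 0 0) (P.cons (P.lf 0 7330 0) P.nil))) (P.cons (P.cons (P.lf 0 307925 0) (P.cons (P.lf 0 238895 0) P.nil)) (P.cons (P.cons (P.lf 0 191440 0) P.nil) P.nil)))))) 146668)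
 EL.nil))
noncomputable def S314_343_512_586_15 : EL := (EL.cons 4 (TM.mk (P.cons (P.lf 0 1067088645 0) (P.cons (P.lf 0 349049136 0) (P.cons (P.lf 0 8043112 0) (P.cons (P.lf 3877937 0 0) (P.cons (P.lf 0 106451 0) (P.cons (P.lf 0 18886 0) P.nil)))))) 1845)
 (EL.cons 8 (TM.mk (P.cons (P.lf 904046202 0 0) (P.cons (P.lf 74614324 0 0) (P.cons (P.lf 0 25318286 0) (P.cons (P.lf 156499 0 0) (P.cons (P.lf 174949 0 0) (P.cons (P.lf 0 8365 0) P.nil)))))) 1031)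
 EL.nil))
noncomputable def S314_343_512_586_16 : EL := (EL.cons 4 (TM.mk (P.cons (P.cons (P.lf 201960650 0 0) (P.cons (P.lf 62264974 0 0) (P.cons (P.lf 0 991028 0) (P.lf 0 330342 0)))) (P.cons (P.cons (P.lf 0 15780513 0) (P.cons (P.lf 5233320 0 0) (P.cons (P.lf 0 83295 0) (P.lf 0 27764 0)))) (P.cons (P.cons (P.lf 0 42977887 0) (P.cons (P.lf 0 4216683 0) (P.cons (P.lf 67113 0 0) (P.lf 22370 0 0)))) (P.cons (P.cons (P.lf 0 5455906 0) (P.cons (P.lf 0 40938 0) (P.cons (P.lf 651 0 0) P.nil))) (P.cons (P.cons (P.lf 905040 0 0) (P.cons (P.lf 117096 0 0) P.nil)) (P.cons (P.cons (P.lf 103758 0 0) P.nil) P.nil)))))) 44455)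
 (EL.cons 8 (TM.mk (P.cons (P.cons (P.lf 0 171102710 0) (P.cons (P.lf 0 52751394 0) (P.cons (P.lf 839607 0 0) (P.lf 279868 0 0)))) (P.cons (P.cons (P.lf 55216040 0 0) (P.cons (P.lf 8467718 0 0) (P.cons (P.lf 0 134774 0) (P.lf 0 44924 0)))) (P.cons (P.cons (P.lf 25534741 0 0) (P.cons (P.lf 2311592 0 0) (P.cons (P.lf 0 36792 0) (P.lf 0 12263 0)))) (P.cons (P.cons (P.lf 0 2167109 0) (P.cons (P.lf 0 567096 0) (P.cons (P.lf 9025 0 0) P.nil))) (P.cons (P.cons (P.lf 0 701639 0) (P.cons (P.lf 0 3254 0) P.nil)) (P.cons (P.cons (P.lf 65995 0 0) P.nil) P.nil)))))) 30843)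
 EL.nil))
noncomputable def S314_343_512_586_17 : EL := (EL.cons 4 (TM.mk (P.cons (P.cons (P.lf 0 38223726 0) (P.cons (P.lf 0 23568941 0) (P.cons (P.lf 0 3258050 0) (P.cons (P.lf 240696 0 0) (P.cons (P.lf 37630 0 0) (P.cons (P.lf 0 613 0) P.nil)))))) (P.cons (P.cons (P.lf 18476481 0 0) (P.cons (P.lf 7570144 0 0) (P.cons (P.lf 457207 0 0) (P.cons (P.lf 0 58551 0) (P.cons (P.lf 0 5983 0) P.nil))))) (P.cons (P.cons (P.lf 10279274 0 0) (P.cons (P.lf 4467882 0 0) (P.cons (P.lf 233729 0 0) (P.cons (P.lf 0 33407 0) P.nil)))) (P.cons (P.cons (P.lf 0 2846509 0) (P.cons (P.lf 0 655133 0) (P.cons (P.lf 0 60707 0) P.nil))) (P.cons (P.cons (P.lf 0 1310334 0) (P.cons (P.lf 0 226816 0) P.nil)) (P.cons (P.cons (P.lf 34271 0 0) P.nil) P.nil)))))) 182251)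
 (EL.cons 8 (TM.mk (P.cons (P.cons (P.lf 32383452 0 0) (P.cons (P.lf 19967798 0 0) (P.cons (P.lf 2760247 0 0) (P.cons (P.lf 0 203920 0) (P.cons (P.lf 0 31880 0) (P.cons (P.lf 519 0 0) P.nil)))))) (P.cons (P.cons (P.lf 0 23573460 0) (P.cons (P.lf 0 11297021 0) (P.cons (P.lf 0 1062425 0) (P.cons (P.lf 99478 0 0) (P.cons (P.lf 12866 0 0) P.nil))))) (P.cons (P.cons (P.lf 0 3440647 0) (P.cons (P.lf 0 1328967 0) (P.cons (P.lf 19429 0 0) (P.cons (P.lf 7105 0 0) P.nil)))) (P.cons (P.cons (P.lf 3557633 0 0) (P.cons (P.lf 1018122 0 0) (P.cons (P.lf 58098 0 0) P.nil))) (P.cons (P.cons (P.lf 329929 0 0) (P.cons (P.lf 0 19330 0) P.nil)) (P.cons (P.cons (P.lf 0 155247 0) P.nil) P.nil)))))) 136576)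
 EL.nil))
noncomputable def S314_343_512_586_18 : EL := (EL.cons 4 (TM.mk (P.cons (P.lf 0 549332354 0) (P.cons (P.lf 0 269533349 0) (P.cons (P.lf 0 28252205 0) (P.cons (P.lf 3180359 0 0) (P.cons (P.lf 331524 0 0) (P.cons (P.lf 0 44357 0) P.nil)))))) 4415)
 (EL.cons 8 (TM.mk (P.cons (P.lf 465398850 0 0) (P.cons (P.lf 114528063 0 0) (P.cons (P.lf 0 11222106 0) (P.cons (P.lf 0 2534590 0) (P.cons (P.lf 239457 0 0) (P.cons (P.lf 14216 0 0) P.nil)))))) 3029)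
 EL.nil))
noncomputable def S314_343_512_586_19 : EL := (EL.cons 4 (TM.mk (P.cons (P.cons (P.lf 103968419 0 0) (P.cons (P.lf 32053724 0 0) (P.cons (P.lf 0 510177 0) (P.lf 0 170057 0)))) (P.cons (P.cons (P.lf 8880514 0 0) (P.cons (P.lf 7936542 0 0) (P.cons (P.lf 0 126320 0) (P.lf 0 42105 0)))) (P.cons (P.cons (P.lf 0 24452186 0) (P.cons (P.lf 0 2038010 0) (P.cons (P.lf 32437 0 0) (P.lf 10812 0 0)))) (P.cons (P.cons (P.lf 0 6374775 0) (P.cons (P.lf 0 409866 0) (P.cons (P.lf 6523 0 0) P.nil))) (P.cons (P.cons (P.lf 225645 0 0) (P.cons (P.lf 78432 0 0) P.nil)) (P.cons (P.cons (P.lf 161606 0 0) P.nil) P.nil)))))) 58765)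
 (EL.cons 8 (TM.mk (P.cons (P.cons (P.lf 0 88082892 0) (P.cons (P.lf 0 27156176 0) (P.cons (P.lf 432226 0 0) (P.lf 144075 0 0)))) (P.cons (P.cons (P.lf 14018824 0 0) (P.cons (P.lf 0 82306 0) (P.cons (P.lf 1309 0 0) (P.lf 436 0 0)))) (P.cons (P.cons (P.lf 18640248 0 0) (P.cons (P.lf 2163804 0 0) (P.cons (P.lf 0 34439 0) (P.lf 0 11479 0)))) (P.cons (P.cons (P.lf 782921 0 0) (P.cons (P.lf 0 132505 0) (P.cons (P.lf 2109 0 0) P.nil))) (P.cons (P.cons (P.lf 0 680799 0) (P.cons (P.lf 0 63119 0) P.nil)) (P.cons (P.cons (P.lf 0 16305 0) P.nil) P.nil)))))) 35132)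
 EL.nil))
noncomputable def S314_343_512_586_20 : EL := (EL.cons 4 (TM.mk (P.cons (P.cons (P.lf 0 19677399 0) (P.cons (P.lf 0 12133183 0) (P.cons (P.lf 0 1677229 0) (P.cons (P.lf 123909 0 0) (P.cons (P.lf 19371 0 0) (P.cons (P.lf 0 315 0) P.nil)))))) (P.cons (P.cons (P.lf 6293328 0 0) (P.cons (P.lf 1912667 0 0) (P.cons (P.lf 0 38945 0) (P.cons (P.lf 0 9876 0) (P.cons (P.lf 87 0 0) P.nil))))) (P.cons (P.cons (P.lf 7036385 0 0) (P.cons (P.lf 3053970 0 0) (P.cons (P.lf 174929 0 0) (P.cons (P.lf 0 23318 0) P.nil)))) (P.cons (P.cons (P.lf 0 686425 0) (P.cons (P.lf 4467 0 0) (P.cons (P.lf 0 13421 0) P.nil))) (P.cons (P.cons (P.lf 0 968255 0) (P.cons (P.lf 0 195510 0) P.nil)) (P.cons (P.cons (P.lf 0 79474 0) P.nil) P.nil)))))) 167177)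
 (EL.cons 8 (TM.mk (P.cons (P.cons (P.lf 16670853 0 0) (P.cons (P.lf 10279331 0 0) (P.cons (P.lf 1420962 0 0) (P.cons (P.lf 0 104977 0) (P.cons (P.lf 0 16412 0) (P.cons (P.lf 267 0 0) P.nil)))))) (P.cons (P.cons (P.lf 0 9408956 0) (P.cons (P.lf 0 4134448 0) (P.cons (P.lf 0 314529 0) (P.cons (P.lf 34041 0 0) (P.cons (P.lf 3939 0 0) P.nil))))) (P.cons (P.cons (P.lf 0 3916156 0) (P.cons (P.lf 0 1734051 0) (P.cons (P.lf 0 93099 0) (P.cons (P.lf 13042 0 0) P.nil)))) (P.cons (P.cons (P.lf 1654236 0 0) (P.cons (P.lf 465567 0 0) (P.cons (P.lf 36448 0 0) P.nil))) (P.cons (P.cons (P.lf 490116 0 0) (P.cons (P.lf 84224 0 0) P.nil)) (P.cons (P.cons (P.lf 0 69844 0) P.nil) P.nil)))))) 107464)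
 EL.nil))
noncomputable def S314_343_512_586_21 : EL := (EL.cons 4 (TM.mk (P.cons (P.cons (P.lf 0 1962284160 0) (P.cons (P.lf 0 362852724 0) (P.cons (P.lf 5775276 0 0) (P.lf 1925088 0 0)))) (P.cons (P.cons (P.lf 0 762695004 0) (P.cons (P.lf 28847841 0 0) (P.cons (P.lf 0 459147 0) (P.lf 0 153045 0)))) (P.cons (P.cons (P.lf 168498429 0 0) (P.cons (P.lf 16369305 0 0) (P.cons (P.lf 0 260538 0) (P.lf 0 86844 0)))) (P.cons (P.cons (P.lf 14366658 0 0) (P.cons (P.lf 0 2250807 0) (P.cons (P.lf 35820 0 0) P.nil))) (P.cons (P.cons (P.lf 0 4068396 0) (P.cons (P.lf 0 133965 0) P.nil)) (P.cons (P.cons (P.lf 12138 0 0) P.nil) P.nil)))))) 129897)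
 (EL.cons 8 (TM.mk (P.cons (P.cons (P.lf 0 823529655 0) (P.cons (P.lf 0 152281713 0) (P.cons (P.lf 2423766 0 0) (P.lf 807924 0 0)))) (P.cons (P.cons (P.lf 0 521498133 0) (P.cons (P.lf 0 25136757 0) (P.cons (P.lf 400083 0 0) (P.lf 133359 0 0)))) (P.cons (P.cons (P.lf 0 20216052 0) (P.cons (P.lf 7492137 0 0) (P.cons (P.lf 0 119244 0) (P.lf 0 39747 0)))) (P.cons (P.cons (P.lf 16947051 0 0) (P.cons (P.lf 651243 0 0) (P.cons (P.lf 0 10362 0) P.nil))) (P.cons (P.cons (P.lf 163686 0 0) (P.cons (P.lf 0 182721 0) P.nil)) (P.cons (P.cons (P.lf 0 253545 0) P.nil) P.nil)))))) 81768)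
 (EL.cons 11 (TM.mk (P.cons (P.cons (P.lf 2114851368 0 0) (P.cons (P.lf 0 78394656 0) (P.cons (P.lf 0 38844834 0) (P.cons (P.lf 352491 0 0) (P.lf 88122 0 0))))) (P.cons (P.cons (P.lf 0 342683448 0) (P.cons (P.lf 12702807 0 0) (P.cons (P.lf 6294285 0 0) (P.cons (P.lf 0 57114 0) (P.lf 0 14277 0))))) (P.cons (P.cons (P.lf 0 7896420 0) (P.cons (P.lf 292707 0 0) (P.cons (P.lf 145038 0 0) (P.cons (P.lf 0 1314 0) P.nil)))) (P.cons (P.cons (P.lf 3807213 0 0) (P.cons (P.lf 0 141126 0) (P.cons (P.lf 0 69927 0) P.nil))) (P.cons (P.cons (P.lf 0 104511 0) (P.cons (P.lf 3873 0 0) P.nil)) (P.cons (P.cons (P.lf 0 18540 0) P.nil) P.nil)))))) 6009)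
 EL.nil)))
noncomputable def S314_343_512_586_22 : EL := (EL.cons 4 (TM.mk (P.cons (P.cons (P.lf 371388252 0 0) (P.cons (P.lf 183174609 0 0) (P.cons (P.lf 18257109 0 0) (P.cons (P.lf 0 1645797 0) (P.cons (P.lf 0 219294 0) (P.cons (P.lf 3573 0 0) P.nil)))))) (P.cons (P.cons (P.lf 0 6151524 0) (P.cons (P.lf 0 16615887 0) (P.cons (P.lf 0 6564918 0) (P.cons (P.lf 305550 0 0) (P.cons (P.lf 70734 0 0) P.nil))))) (P.cons (P.cons (P.lf 0 122989344 0) (P.cons (P.lf 0 27076806 0) (P.cons (P.lf 0 25176 0) (P.cons (P.lf 158172 0 0) P.nil)))) (P.cons (P.cons (P.lf 647982 0 0) (P.cons (P.lf 4868775 0 0) (P.cons (P.lf 351261 0 0) P.nil))) (P.cons (P.cons (P.lf 6189249 0 0) (P.cons (P.lf 658275 0 0) P.nil)) (P.cons (P.cons (P.lf 0 266973 0) P.nil) P.nil)))))) 580269)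
 (EL.cons 8 (TM.mk (P.cons (P.cons (P.lf 155863887 0 0) (P.cons (P.lf 76874556 0 0) (P.cons (P.lf 7662126 0 0) (P.cons (P.lf 0 690708 0) (P.cons (P.lf 0 92034 0) (P.cons (P.lf 1500 0 0) P.nil)))))) (P.cons (P.cons (P.lf 35538027 0 0) (P.cons (P.lf 11827896 0 0) (P.cons (P.lf 0 881229 0) (P.cons (P.lf 0 40692 0) (P.cons (P.lf 7176 0 0) P.nil))))) (P.cons (P.cons (P.lf 0 49853754 0) (P.cons (P.lf 0 11888427 0) (P.cons (P.lf 0 566724 0) (P.cons (P.lf 87135 0 0) P.nil)))) (P.cons (P.cons (P.lf 0 12114870 0) (P.cons (P.lf 0 706542 0) (P.cons (P.lf 116115 0 0) P.nil))) (P.cons (P.cons (P.lf 1889721 0 0) (P.cons (P.lf 600447 0 0) P.nil)) (P.cons (P.cons (P.lf 437679 0 0) P.nil) P.nil)))))) 280758)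
 (EL.cons 11 (TM.mk (P.cons (P.cons (P.lf 0 400263615 0) (P.cons (P.lf 0 108565047 0) (P.cons (P.lf 13890360 0 0) (P.cons (P.lf 2781789 0 0) (P.cons (P.lf 0 97590 0) (P.cons (P.lf 0 16839 0) P.nil)))))) (P.cons (P.cons (P.lf 227060502 0 0) (P.cons (P.lf 41572407 0 0) (P.cons (P.lf 0 6819240 0) (P.cons (P.lf 0 1116060 0) (P.cons (P.lf 42237 0 0) P.nil))))) (P.cons (P.cons (P.lf 10348701 0 0) (P.cons (P.lf 0 5306778 0) (P.cons (P.lf 70770 0 0) (P.cons (P.lf 115365 0 0) P.nil)))) (P.cons (P.cons (P.lf 0 10377366 0) (P.cons (P.lf 0 286614 0) (P.cons (P.lf 226173 0 0) P.nil))) (P.cons (P.cons (P.lf 393828 0 0) (P.cons (P.lf 147072 0 0) P.nil)) (P.cons (P.cons (P.lf 171369 0 0) P.nil) P.nil)))))) 129225)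
 EL.nil)))
noncomputable def S314_343_512_586_23 : EL := (EL.cons 4 (TM.mk (P.cons (P.cons (P.lf 0 1010174910 0) (P.cons (P.lf 0 186794922 0) (P.cons (P.lf 2973084 0 0) (P.lf 991026 0 0)))) (P.cons (P.cons (P.lf 0 557848107 0) (P.cons (P.lf 0 15699960 0) (P.cons (P.lf 249885 0 0) (P.lf 83295 0 0)))) (P.cons (P.cons (P.lf 32230119 0 0) (P.cons (P.lf 12650049 0 0) (P.cons (P.lf 0 201339 0) (P.lf 0 67110 0)))) (P.cons (P.cons (P.lf 25602849 0 0) (P.cons (P.lf 122817 0 0) (P.cons (P.lf 0 1956 0) P.nil))) (P.cons (P.cons (P.lf 0 1665855 0) (P.cons (P.lf 0 351288 0) P.nil)) (P.cons (P.cons (P.lf 0 445227 0) P.nil) P.nil)))))) 147258)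
 (EL.cons 8 (TM.mk (P.cons (P.cons (P.lf 0 423949299 0) (P.cons (P.lf 0 78393927 0) (P.cons (P.lf 1247742 0 0) (P.lf 415914 0 0)))) (P.cons (P.cons (P.lf 0 337802643 0) (P.cons (P.lf 0 25761777 0) (P.cons (P.lf 410031 0 0) (P.lf 136674 0 0)))) (P.cons (P.cons (P.lf 0 50242692 0) (P.cons (P.lf 2493552 0 0) (P.cons (P.lf 0 39684 0) (P.lf 0 13227 0)))) (P.cons (P.cons (P.lf 9705297 0 0) (P.cons (P.lf 1109649 0 0) (P.cons (P.lf 0 17658 0) P.nil))) (P.cons (P.cons (P.lf 1658502 0 0) (P.cons (P.lf 0 76545 0) P.nil)) (P.cons (P.cons (P.lf 0 209493 0) P.nil) P.nil)))))) 103686)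
 (EL.cons 11 (TM.mk (P.cons (P.cons (P.lf 1088715813 0 0) (P.cons (P.lf 0 40357209 0) (P.cons (P.lf 0 19997142 0) (P.cons (P.lf 181458 0 0) (P.lf 45363 0 0))))) (P.cons (P.cons (P.lf 1649862 0 0) (P.cons (P.lf 0 61158 0) (P.cons (P.lf 0 30303 0) (P.cons (P.lf 276 0 0) (P.lf 69 0 0))))) (P.cons (P.cons (P.lf 0 43375689 0) (P.cons (P.lf 1607874 0 0) (P.cons (P.lf 796707 0 0) (P.cons (P.lf 0 7227 0) P.nil)))) (P.cons (P.cons (P.lf 2721867 0 0) (P.cons (P.lf 0 100893 0) (P.cons (P.lf 0 49992 0) P.nil))) (P.cons (P.cons (P.lf 397071 0 0) (P.cons (P.lf 0 14718 0) P.nil)) (P.cons (P.cons (P.lf 0 44694 0) P.nil) P.nil)))))) 19497)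
 EL.nil)))
noncomputable def S314_343_512_586_24 : EL := (EL.cons 4 (TM.mk (P.cons (P.cons (P.lf 191188971 0 0) (P.cons (P.lf 94297449 0 0) (P.cons (P.lf 9398676 0 0) (P.cons (P.lf 0 847248 0) (P.cons (P.lf 0 112890 0) (P.cons (P.lf 1839 0 0) P.nil)))))) (P.cons (P.cons (P.lf 28102575 0 0) (P.cons (P.lf 6868761 0 0) (P.cons (P.lf 0 1842417 0) (P.cons (P.lf 18726 0 0) (P.cons (P.lf 17949 0 0) P.nil))))) (P.cons (P.cons (P.lf 0 65668830 0) (P.cons (P.lf 0 16243818 0) (P.cons (P.lf 0 655983 0) (P.cons (P.lf 115290 0 0) P.nil)))) (P.cons (P.cons (P.lf 0 10038225 0) (P.cons (P.lf 285636 0 0) (P.cons (P.lf 208860 0 0) P.nil))) (P.cons (P.cons (P.lf 3858132 0 0) (P.cons (P.lf 888954 0 0) P.nil)) (P.cons (P.cons (P.lf 395766 0 0) P.nil) P.nil)))))) 440241)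
 (EL.cons 8 (TM.mk (P.cons (P.cons (P.lf 80238015 0 0) (P.cons (P.lf 39574668 0 0) (P.cons (P.lf 3944427 0 0) (P.cons (P.lf 0 355572 0) (P.cons (P.lf 0 47376 0) (P.cons (P.lf 771 0 0) P.nil)))))) (P.cons (P.cons (P.lf 31417908 0 0) (P.cons (P.lf 12561465 0 0) (P.cons (P.lf 191466 0 0) (P.cons (P.lf 0 79101 0) (P.cons (P.lf 0 4053 0) P.nil))))) (P.cons (P.cons (P.lf 0 23443089 0) (P.cons (P.lf 0 5504400 0) (P.cons (P.lf 0 403833 0) (P.cons (P.lf 44844 0 0) P.nil)))) (P.cons (P.cons (P.lf 0 10629636 0) (P.cons (P.lf 0 1432905 0) (P.cons (P.lf 15447 0 0) P.nil))) (P.cons (P.cons (P.lf 198357 0 0) (P.cons (P.lf 308652 0 0) P.nil)) (P.cons (P.cons (P.lf 451392 0 0) P.nil) P.nil)))))) 193995)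
 (EL.cons 11 (TM.mk (P.cons (P.cons (P.lf 0 206053878 0) (P.cons (P.lf 0 55888788 0) (P.cons (P.lf 7150692 0 0) (P.cons (P.lf 1432050 0 0) (P.cons (P.lf 0 50238 0) (P.cons (P.lf 0 8667 0) P.nil)))))) (P.cons (P.cons (P.lf 83189166 0 0) (P.cons (P.lf 12260556 0 0) (P.cons (P.lf 0 2341002 0) (P.cons (P.lf 0 340326 0) (P.cons (P.lf 13527 0 0) P.nil))))) (P.cons (P.cons (P.lf 26424357 0 0) (P.cons (P.lf 1305180 0 0) (P.cons (P.lf 0 606405 0) (P.cons (P.lf 0 48333 0) P.nil)))) (P.cons (P.cons (P.lf 0 5543046 0) (P.cons (P.lf 0 786186 0) (P.cons (P.lf 154353 0 0) P.nil))) (P.cons (P.cons (P.lf 0 759978 0) (P.cons (P.lf 70098 0 0) P.nil)) (P.cons (P.cons (P.lf 176670 0 0) P.nil) P.nil)))))) 116961)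
 EL.nil)))
noncomputable def S314_343_512_586_25 : EL := (EL.cons 4 (TM.mk (P.cons (P.cons (P.lf 0 520033425 0) (P.cons (P.lf 0 96161172 0) (P.cons (P.lf 1530528 0 0) (P.lf 510174 0 0)))) (P.cons (P.cons (P.lf 0 372230202 0) (P.cons (P.lf 0 23809626 0) (P.cons (P.lf 378960 0 0) (P.lf 126321 0 0)))) (P.cons (P.cons (P.lf 0 25381182 0) (P.cons (P.lf 6114030 0 0) (P.cons (P.lf 0 97311 0) (P.lf 0 32436 0)))) (P.cons (P.cons (P.lf 18780405 0 0) (P.cons (P.lf 1229601 0 0) (P.cons (P.lf 0 19569 0) P.nil))) (P.cons (P.cons (P.lf 1186473 0 0) (P.cons (P.lf 0 235296 0) P.nil)) (P.cons (P.cons (P.lf 0 512409 0) P.nil) P.nil)))))) 136428)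
 (EL.cons 8 (TM.mk (P.cons (P.cons (P.lf 0 218247159 0) (P.cons (P.lf 0 40356834 0) (P.cons (P.lf 642330 0 0) (P.lf 214110 0 0)))) (P.cons (P.cons (P.lf 0 209594031 0) (P.cons (P.lf 0 19862487 0) (P.cons (P.lf 316137 0 0) (P.lf 105378 0 0)))) (P.cons (P.cons (P.lf 0 52209825 0) (P.cons (P.lf 0 497700 0) (P.cons (P.lf 7920 0 0) (P.lf 2640 0 0)))) (P.cons (P.cons (P.lf 2490165 0 0) (P.cons (P.lf 918510 0 0) (P.cons (P.lf 0 14616 0) P.nil))) (P.cons (P.cons (P.lf 1952571 0 0) (P.cons (P.lf 43179 0 0) P.nil)) (P.cons (P.cons (P.lf 0 17331 0) P.nil) P.nil)))))) 106734)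
 (EL.cons 11 (TM.mk (P.cons (P.cons (P.lf 560465922 0 0) (P.cons (P.lf 0 20775705 0) (P.cons (P.lf 0 10294437 0) (P.cons (P.lf 93414 0 0) (P.lf 23352 0 0))))) (P.cons (P.cons (P.lf 92514708 0 0) (P.cons (P.lf 0 3429393 0) (P.cons (P.lf 0 1699275 0) (P.cons (P.lf 15420 0 0) (P.lf 3855 0 0))))) (P.cons (P.cons (P.lf 0 27574488 0) (P.cons (P.lf 1022145 0 0) (P.cons (P.lf 506475 0 0) (P.cons (P.lf 0 4593 0) P.nil)))) (P.cons (P.cons (P.lf 0 2396877 0) (P.cons (P.lf 88848 0 0) (P.cons (P.lf 44025 0 0) P.nil))) (P.cons (P.cons (P.lf 672513 0 0) (P.cons (P.lf 0 24927 0) P.nil)) (P.cons (P.cons (P.lf 2097 0 0) P.nil) P.nil)))))) 29175)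
 EL.nil)))
noncomputable def S314_343_512_586_26 : EL := (EL.cons 4 (TM.mk (P.cons (P.cons (P.lf 98423208 0 0) (P.cons (P.lf 48543894 0 0) (P.cons (P.lf 4838394 0 0) (P.cons (P.lf 0 436158 0) (P.cons (P.lf 0 58116 0) (P.cons (P.lf 945 0 0) P.nil)))))) (P.cons (P.cons (P.lf 30564399 0 0) (P.cons (P.lf 11475462 0 0) (P.cons (P.lf 0 157137 0) (P.cons (P.lf 0 61692 0) (P.cons (P.lf 0 264 0) P.nil))))) (P.cons (P.cons (P.lf 0 32385339 0) (P.cons (P.lf 0 8250231 0) (P.cons (P.lf 0 539298 0) (P.cons (P.lf 65118 0 0) P.nil)))) (P.cons (P.cons (P.lf 0 10859856 0) (P.cons (P.lf 0 1266525 0) (P.cons (P.lf 60207 0 0) P.nil))) (P.cons (P.cons (P.lf 1466478 0 0) (P.cons (P.lf 563271 0 0) P.nil)) (P.cons (P.cons (P.lf 587100 0 0) P.nil) P.nil)))))) 384864)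
 (EL.cons 8 (TM.mk (P.cons (P.cons (P.lf 41306163 0 0) (P.cons (P.lf 20372859 0 0) (P.cons (P.lf 2030571 0 0) (P.cons (P.lf 0 183045 0) (P.cons (P.lf 0 24390 0) (P.cons (P.lf 396 0 0) P.nil)))))) (P.cons (P.cons (P.lf 22929504 0 0) (P.cons (P.lf 9798609 0 0) (P.cons (P.lf 430668 0 0) (P.cons (P.lf 0 70659 0) (P.cons (P.lf 0 6075 0) P.nil))))) (P.cons (P.cons (P.lf 0 9819921 0) (P.cons (P.lf 0 1971714 0) (P.cons (P.lf 0 211275 0) (P.cons (P.lf 18183 0 0) P.nil)))) (P.cons (P.cons (P.lf 0 7611423 0) (P.cons (P.lf 0 1268229 0) (P.cons (P.lf 0 27492 0) P.nil))) (P.cons (P.cons (P.lf 0 679092 0) (P.cons (P.lf 64770 0 0) P.nil)) (P.cons (P.cons (P.lf 305289 0 0) P.nil) P.nil)))))) 185619)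
 (EL.cons 11 (TM.mk (P.cons (P.cons (P.lf 0 106075593 0) (P.cons (P.lf 0 28771293 0) (P.cons (P.lf 3681144 0 0) (P.cons (P.lf 737214 0 0) (P.cons (P.lf 0 25863 0) (P.cons (P.lf 0 4461 0) P.nil)))))) (P.cons (P.cons (P.lf 25476516 0 0) (P.cons (P.lf 1606071 0 0) (P.cons (P.lf 0 603078 0) (P.cons (P.lf 0 54624 0) (P.cons (P.lf 2733 0 0) P.nil))))) (P.cons (P.cons (P.lf 21626274 0 0) (P.cons (P.lf 1980564 0 0) (P.cons (P.lf 0 544638 0) (P.cons (P.lf 0 60615 0) P.nil)))) (P.cons (P.cons (P.lf 0 1013997 0) (P.cons (P.lf 0 348387 0) (P.cons (P.lf 39075 0 0) P.nil))) (P.cons (P.cons (P.lf 0 1003806 0) (P.cons (P.lf 0 39378 0) P.nil)) (P.cons (P.cons (P.lf 52983 0 0) P.nil) P.nil)))))) 115938)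
 EL.nil)))
noncomputable def S314_343_512_586_27 : EL := (EL.cons 13 (TM.mk (P.lf 0 4294967296 0) 0)
 EL.nil)
noncomputable def S314_343_512_586_28 : EL := (EL.cons 13 (TM.mk (P.cons (P.cons (P.lf 812879414 0 0) (P.cons (P.lf 250612760 0 0) (P.cons (P.lf 0 3988832 0) (P.lf 0 1329608 0)))) (P.cons (P.cons (P.lf 0 329411855 0) (P.cons (P.lf 0 60912680 0) (P.cons (P.lf 969504 0 0) (P.lf 323168 0 0)))) (P.cons (P.cons (P.lf 0 71358439 0) (P.cons (P.lf 1063916 0 0) (P.cons (P.lf 0 16932 0) (P.lf 0 5644 0)))) (P.cons (P.cons (P.lf 6818976 0 0) (P.cons (P.lf 857096 0 0) (P.cons (P.lf 0 13640 0) P.nil))) (P.cons (P.cons (P.lf 671861 0 0) (P.cons (P.lf 0 63436 0) P.nil)) (P.cons (P.cons (P.lf 0 94394 0) P.nil) P.nil)))))) 22881)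
 EL.nil)
noncomputable def S314_343_512_586_29 : EL := (EL.cons 13 (TM.mk (P.cons (P.cons (P.lf 0 153848189 0) (P.cons (P.lf 0 94863564 0) (P.cons (P.lf 0 13113458 0) (P.cons (P.lf 968791 0 0) (P.cons (P.lf 151461 0 0) (P.cons (P.lf 0 2469 0) P.nil)))))) (P.cons (P.cons (P.lf 124691108 0 0) (P.cons (P.lf 61499643 0 0) (P.cons (P.lf 6129702 0 0) (P.cons (P.lf 0 552565 0) (P.cons (P.lf 0 73627 0) P.nil))))) (P.cons (P.cons (P.lf 1746099 0 0) (P.cons (P.lf 0 1418804 0) (P.cons (P.lf 0 965462 0) (P.cons (P.lf 38978 0 0) P.nil)))) (P.cons (P.cons (P.lf 0 13527144 0) (P.cons (P.lf 0 2981072 0) (P.cons (P.lf 0 22398 0) P.nil))) (P.cons (P.cons (P.lf 0 393904 0) (P.cons (P.lf 305850 0 0) P.nil)) (P.cons (P.cons (P.lf 365377 0 0) P.nil) P.nil)))))) 228929)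
 EL.nil)
noncomputable def S314_343_512_586_30 : EL := (EL.cons 13 (TM.mk (P.cons (P.lf 0 2211029524 0) (P.cons (P.lf 0 361618480 0) (P.cons (P.lf 21238980 0 0) (P.cons (P.lf 543904 0 0) (P.cons (P.lf 0 97232 0) (P.cons (P.lf 1560 0 0) P.nil)))))) 512)
 EL.nil)
noncomputable def S314_343_512_586_31 : EL := (EL.cons 13 (TM.mk (P.cons (P.cons (P.lf 418466605 0 0) (P.cons (P.lf 129014302 0 0) (P.cons (P.lf 0 2053432 0) (P.lf 0 684476 0)))) (P.cons (P.cons (P.lf 0 101138632 0) (P.cons (P.lf 0 10257011 0) (P.cons (P.lf 163253 0 0) (P.lf 54417 0 0)))) (P.cons (P.cons (P.lf 0 68489871 0) (P.cons (P.lf 0 5820198 0) (P.cons (P.lf 92636 0 0) (P.lf 30878 0 0)))) (P.cons (P.cons (P.lf 0 971679 0) (P.cons (P.lf 800287 0 0) (P.cons (P.lf 0 12736 0) P.nil))) (P.cons (P.cons (P.lf 1332992 0 0) (P.cons (P.lf 47633 0 0) P.nil)) (P.cons (P.cons (P.lf 0 24462 0) P.nil) P.nil)))))) 44230)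
 EL.nil)
noncomputable def S314_343_512_586_32 : EL := (EL.cons 13 (TM.mk (P.cons (P.cons (P.lf 0 79200344 0) (P.cons (P.lf 0 48835328 0) (P.cons (P.lf 0 6750748 0) (P.cons (P.lf 498729 0 0) (P.cons (P.lf 77971 0 0) (P.cons (P.lf 0 1271 0) P.nil)))))) (P.cons (P.cons (P.lf 51237031 0 0) (P.cons (P.lf 23672615 0 0) (P.cons (P.lf 2051443 0 0) (P.cons (P.lf 0 202889 0) (P.cons (P.lf 0 25150 0) P.nil))))) (P.cons (P.cons (P.lf 12158151 0 0) (P.cons (P.lf 4916730 0 0) (P.cons (P.lf 83927 0 0) (P.cons (P.lf 0 31248 0) P.nil)))) (P.cons (P.cons (P.lf 0 7413822 0) (P.cons (P.lf 0 1946207 0) (P.cons (P.lf 0 121469 0) P.nil))) (P.cons (P.cons (P.lf 0 1369617 0) (P.cons (P.lf 0 96463 0) P.nil)) (P.cons (P.cons (P.lf 224479 0 0) P.nil) P.nil)))))) 241416)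
 EL.nil)
noncomputable def S314_343_512_586_33 : EL := (EL.cons 14 (TM.mk (P.lf 8589934592 0 0) 0)
 EL.nil)
noncomputable def S314_343_512_586_34 : EL := (EL.cons 14 (TM.mk (P.cons (P.cons (P.lf 0 1625758828 0) (P.cons (P.lf 0 501225520 0) (P.cons (P.lf 7977664 0 0) (P.lf 2659216 0 0)))) (P.cons (P.cons (P.lf 658823710 0 0) (P.cons (P.lf 121825360 0 0) (P.cons (P.lf 0 1939008 0) (P.lf 0 646336 0)))) (P.cons (P.cons (P.lf 142716878 0 0) (P.cons (P.lf 0 2127832 0) (P.cons (P.lf 33864 0 0) (P.lf 11288 0 0)))) (P.cons (P.cons (P.lf 0 13637952 0) (P.cons (P.lf 0 1714192 0) (P.cons (P.lf 27280 0 0) P.nil))) (P.cons (P.cons (P.lf 0 1343722 0) (P.cons (P.lf 126872 0 0) P.nil)) (P.cons (P.cons (P.lf 188788 0 0) P.nil) P.nil)))))) 45762)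
 EL.nil)
noncomputable def S314_343_512_586_35 : EL := (EL.cons 14 (TM.mk (P.cons (P.cons (P.lf 307696378 0 0) (P.cons (P.lf 189727128 0 0) (P.cons (P.lf 26226916 0 0) (P.cons (P.lf 0 1937582 0) (P.cons (P.lf 0 302922 0) (P.cons (P.lf 4938 0 0) P.nil)))))) (P.cons (P.cons (P.lf 0 249382216 0) (P.cons (P.lf 0 122999286 0) (P.cons (P.lf 0 12259404 0) (P.cons (P.lf 1105130 0 0) (P.cons (P.lf 147254 0 0) P.nil))))) (P.cons (P.cons (P.lf 0 3492198 0) (P.cons (P.lf 2837608 0 0) (P.cons (P.lf 1930924 0 0) (P.cons (P.lf 0 77956 0) P.nil)))) (P.cons (P.cons (P.lf 27054288 0 0) (P.cons (P.lf 5962144 0 0) (P.cons (P.lf 44796 0 0) P.nil))) (P.cons (P.cons (P.lf 787808 0 0) (P.cons (P.lf 0 611700 0) P.nil)) (P.cons (P.cons (P.lf 0 730754 0) P.nil) P.nil)))))) 457858)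
 EL.nil)
noncomputable def S314_343_512_586_36 : EL := (EL.cons 14 (TM.mk (P.cons (P.lf 4422059048 0 0) (P.cons (P.lf 723236960 0 0) (P.cons (P.lf 0 42477960 0) (P.cons (P.lf 0 1087808 0) (P.cons (P.lf 194464 0 0) (P.cons (P.lf 0 3120 0) P.nil)))))) 1024)
 EL.nil)
noncomputable def S314_343_512_586_37 : EL := (EL.cons 14 (TM.mk (P.cons (P.cons (P.lf 0 836933210 0) (P.cons (P.lf 0 258028604 0) (P.cons (P.lf 4106864 0 0) (P.lf 1368952 0 0)))) (P.cons (P.cons (P.lf 202277264 0 0) (P.cons (P.lf 20514022 0 0) (P.cons (P.lf 0 326506 0) (P.lf 0 108834 0)))) (P.cons (P.cons (P.lf 136979742 0 0) (P.cons (P.lf 11640396 0 0) (P.cons (P.lf 0 185272 0) (P.lf 0 61756 0)))) (P.cons (P.cons (P.lf 1943358 0 0) (P.cons (P.lf 0 1600574 0) (P.cons (P.lf 25472 0 0) P.nil))) (P.cons (P.cons (P.lf 0 2665984 0) (P.cons (P.lf 0 95266 0) P.nil)) (P.cons (P.cons (P.lf 48924 0 0) P.nil) P.nil))))))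 88460)
 EL.nil)
noncomputable def S314_343_512_586_38 : EL := (EL.cons 14 (TM.mk (P.cons (P.cons (P.lf 158400688 0 0) (P.cons (P.lf 97670656 0 0) (P.cons (P.lf 13501496 0 0) (P.cons (P.lf 0 997458 0) (P.cons (P.lf 0 155942 0) (P.cons (P.lf 2542 0 0) P.nil)))))) (P.cons (P.cons (P.lf 0 102474062 0) (P.cons (P.lf 0 47345230 0) (P.cons (P.lf 0 4102886 0) (P.cons (P.lf 405778 0 0) (P.cons (P.lf 50300 0 0) P.nil))))) (P.cons (P.cons (P.lf 0 24316302 0) (P.cons (P.lf 0 9833460 0) (P.cons (P.lf 0 167854 0) (P.cons (P.lf 62496 0 0) P.nil)))) (P.cons (P.cons (P.lf 14827644 0 0) (P.cons (P.lf 3892414 0 0) (P.cons (P.lf 242938 0 0) P.nil))) (P.cons (P.cons (P.lf 2739234 0 0) (P.cons (P.lf 192926 0 0) P.nil)) (P.cons (P.cons (P.lf 0 448958 0) P.nil) P.nil)))))) 482832)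
 EL.nil)
noncomputable def S314_343_512_586_39 : EL := (EL.cons 14 (TM.mk (P.cons (P.lf 2276455776 0 0) (P.cons (P.lf 744638158 0 0) (P.cons (P.lf 17158640 0 0) (P.cons (P.lf 0 8272934 0) (P.cons (P.lf 227096 0 0) (P.cons (P.lf 40292 0 0) P.nil)))))) 3922)
 EL.nil)
noncomputable def S314_343_512_586_40 : EL := (EL.cons 14 (TM.mk (P.cons (P.cons (P.lf 0 430849388 0) (P.cons (P.lf 0 132831946 0) (P.cons (P.lf 2114194 0 0) (P.lf 704730 0 0)))) (P.cons (P.cons (P.lf 33665096 0 0) (P.cons (P.lf 0 11164416 0) (P.cons (P.lf 177696 0 0) (P.lf 59230 0 0)))) (P.cons (P.cons (P.lf 91686160 0 0) (P.cons (P.lf 8995592 0 0) (P.cons (P.lf 0 143176 0) (P.lf 0 47724 0)))) (P.cons (P.cons (P.lf 11639268 0 0) (P.cons (P.lf 87336 0 0) (P.cons (P.lf 0 1390 0) P.nil))) (P.cons (P.cons (P.lf 0 1930752 0) (P.cons (P.lf 0 249806 0) P.nil)) (P.cons (P.cons (P.lf 0 221352 0) P.nil) P.nil))))))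 94798)
 EL.nil)
noncomputable def S314_343_512_586_41 : EL := (EL.cons 14 (TM.mk (P.cons (P.cons (P.lf 81543950 0 0) (P.cons (P.lf 50280408 0 0) (P.cons (P.lf 6950508 0 0) (P.cons (P.lf 0 513486 0) (P.cons (P.lf 0 80278 0) (P.cons (P.lf 1308 0 0) P.nil)))))) (P.cons (P.cons (P.lf 0 39416494 0) (P.cons (P.lf 0 16149642 0) (P.cons (P.lf 0 975376 0) (P.cons (P.lf 124910 0 0) (P.cons (P.lf 12764 0 0) P.nil))))) (P.cons (P.cons (P.lf 0 21929118 0) (P.cons (P.lf 0 9531482 0) (P.cons (P.lf 0 498622 0) (P.cons (P.lf 71270 0 0) P.nil)))) (P.cons (P.cons (P.lf 6072554 0 0) (P.cons (P.lf 1397618 0 0) (P.cons (P.lf 129510 0 0) P.nil))) (P.cons (P.cons (P.lf 2795380 0 0) (P.cons (P.lf 483876 0 0) P.nil)) (P.cons (P.cons (P.lf 0 73112 0) P.nil) P.nil)))))) 388756)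
 EL.nil)
noncomputable def S314_343_512_586_42 : EL := (EL.cons 14 (TM.mk (P.cons (P.lf 1171909022 0 0) (P.cons (P.lf 575004478 0 0) (P.cons (P.lf 60271372 0 0) (P.cons (P.lf 0 6784766 0) (P.cons (P.lf 0 707252 0) (P.cons (P.lf 94630 0 0) P.nil)))))) 9404)
 EL.nil)
noncomputable def S314_343_512_586_43 : EL := (EL.cons 14 (TM.mk (P.cons (P.cons (P.lf 0 221799294 0) (P.cons (P.lf 0 68381278 0) (P.cons (P.lf 1088378 0 0) (P.lf 362790 0 0)))) (P.cons (P.cons (P.lf 0 18945098 0) (P.cons (P.lf 0 16931290 0) (P.cons (P.lf 269484 0 0) (P.lf 89826 0 0)))) (P.cons (P.cons (P.lf 52164664 0 0) (P.cons (P.lf 4347756 0 0) (P.cons (P.lf 0 69200 0) (P.lf 0 23066 0)))) (P.cons (P.cons (P.lf 13599522 0 0) (P.cons (P.lf 874382 0 0) (P.cons (P.lf 0 13916 0) P.nil))) (P.cons (P.cons (P.lf 0 481376 0) (P.cons (P.lf 0 167322 0) P.nil)) (P.cons (P.cons (P.lf 0 344760 0) P.nil) P.nil))))))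 125326)
 EL.nil)
noncomputable def S314_343_512_586_44 : EL := (EL.cons 14 (TM.mk (P.cons (P.cons (P.lf 41978452 0 0) (P.cons (P.lf 25884124 0 0) (P.cons (P.lf 3578090 0 0) (P.cons (P.lf 0 264340 0) (P.cons (P.lf 0 41326 0) (P.cons (P.lf 672 0 0) P.nil)))))) (P.cons (P.cons (P.lf 0 13425768 0) (P.cons (P.lf 0 4080358 0) (P.cons (P.lf 83084 0 0) (P.cons (P.lf 21070 0 0) (P.cons (P.lf 0 186 0) P.nil))))) (P.cons (P.cons (P.lf 0 15010956 0) (P.cons (P.lf 0 6515136 0) (P.cons (P.lf 0 373182 0) (P.cons (P.lf 49746 0 0) P.nil)))) (P.cons (P.cons (P.lf 1464374 0 0) (P.cons (P.lf 0 9530 0) (P.cons (P.lf 28632 0 0) P.nil))) (P.cons (P.cons (P.lf 2065612 0 0) (P.cons (P.lf 417088 0 0) P.nil)) (P.cons (P.cons (P.lf 169546 0 0) P.nil) P.nil)))))) 356598)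
 EL.nil)
noncomputable def S314_343_512_586_45 : EL := (EL.cons 14 (TM.mk (P.cons (P.cons (P.lf 0 58235612 0) (P.cons (P.lf 0 53862554 0) (P.cons (P.lf 0 15748666 0) (P.cons (P.lf 0 892176 0) (P.cons (P.lf 253482 0 0) (P.cons (P.lf 23060 0 0) P.nil)))))) (P.cons (P.cons (P.lf 70798328 0 0) (P.cons (P.lf 56746166 0 0) (P.cons (P.lf 13898544 0 0) (P.cons (P.lf 472118 0 0) (P.cons (P.lf 0 212724 0) P.nil))))) (P.cons (P.cons (P.lf 0 13353766 0) (P.cons (P.lf 0 10227816 0) (P.cons (P.lf 0 2772696 0) (P.cons (P.lf 0 176474 0) P.nil)))) (P.cons (P.cons (P.lf 0 10020086 0) (P.cons (P.lf 0 4883346 0) (P.cons (P.lf 0 394838 0) P.nil))) (P.cons (P.cons (P.lf 2215666 0 0) (P.cons (P.lf 1178700 0 0) P.nil)) (P.cons (P.cons (P.lf 699536 0 0) P.nil) P.nil)))))) 1008986)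
 EL.nil)
noncomputable def S314_343_512_586_46 : EL := (EL.cons 15 (TM.mk (P.lf 4294967296 0 0) 0)
 EL.nil)
noncomputable def S314_343_512_586_47 : EL := (EL.cons 15 (TM.mk (P.cons (P.cons (P.lf 0 812879414 0) (P.cons (P.lf 0 250612760 0) (P.cons (P.lf 3988832 0 0) (P.lf 1329608 0 0)))) (P.cons (P.cons (P.lf 329411855 0 0) (P.cons (P.lf 60912680 0 0) (P.cons (P.lf 0 969504 0) (P.lf 0 323168 0)))) (P.cons (P.cons (P.lf 71358439 0 0) (P.cons (P.lf 0 1063916 0) (P.cons (P.lf 16932 0 0) (P.lf 5644 0 0)))) (P.cons (P.cons (P.lf 0 6818976 0) (P.cons (P.lf 0 857096 0) (P.cons (P.lf 13640 0 0) P.nil))) (P.cons (P.cons (P.lf 0 671861 0) (P.cons (P.lf 63436 0 0) P.nil)) (P.cons (P.cons (P.lf 94394 0 0) P.nil) P.nil)))))) 22881)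
 EL.nil)
noncomputable def S314_343_512_586_48 : EL := (EL.cons 15 (TM.mk (P.cons (P.cons (P.lf 153848189 0 0) (P.cons (P.lf 94863564 0 0) (P.cons (P.lf 13113458 0 0) (P.cons (P.lf 0 968791 0) (P.cons (P.lf 0 151461 0) (P.cons (P.lf 2469 0 0) P.nil)))))) (P.cons (P.cons (P.lf 0 124691108 0) (P.cons (P.lf 0 61499643 0) (P.cons (P.lf 0 6129702 0) (P.cons (P.lf 552565 0 0) (P.cons (P.lf 73627 0 0) P.nil))))) (P.cons (P.cons (P.lf 0 1746099 0) (P.cons (P.lf 1418804 0 0) (P.cons (P.lf 965462 0 0) (P.cons (P.lf 0 38978 0) P.nil)))) (P.cons (P.cons (P.lf 13527144 0 0) (P.cons (P.lf 2981072 0 0) (P.cons (P.lf 22398 0 0) P.nil))) (P.cons (P.cons (P.lf 393904 0 0) (P.cons (P.lf 0 305850 0) P.nil)) (P.cons (P.cons (P.lf 0 365377 0) P.nil) P.nil)))))) 228929)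
 EL.nil)
noncomputable def S314_343_512_586 : SL := (SL.cons S314_343_512_586_0 (SL.cons S314_343_512_586_1 (SL.cons S314_343_512_586_2 (SL.cons S314_343_512_586_3 (SL.cons S314_343_512_586_4 (SL.cons S314_343_512_586_5 (SL.cons S314_343_512_586_6 (SL.cons S314_343_512_586_7 (SL.cons S314_343_512_586_8 (SL.cons S314_343_512_586_9 (SL.cons S314_343_512_586_10 (SL.cons S314_343_512_586_11 (SL.cons S314_343_512_586_12 (SL.cons S314_343_512_586_13 (SL.cons S314_343_512_586_14 (SL.cons S314_343_512_586_15 (SL.cons S314_343_512_586_16 (SL.cons S314_343_512_586_17 (SL.cons S314_343_512_586_18 (SL.cons S314_343_512_586_19 (SL.cons S314_343_512_586_20 (SL.cons S314_343_512_586_21 (SL.cons S314_343_512_586_22 (SL.cons S314_343_512_586_23 (SL.cons S314_343_512_586_24 (SL.cons S314_343_512_586_25 (SL.cons S314_343_512_586_26 (SL.cons S314_343_512_586_27 (SL.cons S314_343_512_586_28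 (SL.cons S314_343_512_586_29 (SL.cons S314_343_512_586_30 (SL.cons S314_343_512_586_31 (SL.cons S314_343_512_586_32 (SL.cons S314_343_512_586_33 (SL.cons S314_343_512_586_34 (SL.cons S314_343_512_586_35 (SL.cons S314_343_512_586_36 (SL.cons S314_343_512_586_37 (SL.cons S314_343_512_586_38 (SL.cons S314_343_512_586_39 (SL.cons S314_343_512_586_40 (SL.cons S314_343_512_586_41 (SL.cons S314_343_512_586_42 (SL.cons S314_343_512_586_43 (SL.cons S314_343_512_586_44 (SL.cons S314_343_512_586_45 (SL.cons S314_343_512_586_46 (SL.cons S314_343_512_586_47 (SL.cons S314_343_512_586_48 SL.nil)))))))))))))))))))))))))))))))))))))))))))))))))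
noncomputable def S314_343_512_660_0 : EL := (EL.cons 0 (TM.mk (P.cons (P.lf 6454925654 0 0) (P.cons (P.lf 0 654467131 0) (P.cons (P.lf 0 15080835 0) (P.cons (P.lf 7271133 0 0) (P.cons (P.lf 0 199596 0) (P.cons (P.lf 0 35412 0) P.nil)))))) 3454)
 (EL.cons 1 (TM.mk (P.cons (P.lf 1695086628 0 0) (P.cons (P.lf 139901857 0 0) (P.cons (P.lf 0 47471786 0) (P.cons (P.lf 293435 0 0) (P.cons (P.lf 328029 0 0) (P.cons (P.lf 0 15684 0) P.nil)))))) 1940)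
 (EL.cons 5 (TM.mk (P.cons (P.lf 5006359730 0 0) (P.cons (P.lf 232699422 0 0) (P.cons (P.lf 5362070 0 0) (P.cons (P.lf 0 2585292 0) (P.cons (P.lf 70970 0 0) (P.cons (P.lf 12590 0 0) P.nil)))))) 1169)
 (EL.cons 9 (TM.mk (P.lf 6442450944 0 0) 2)
 EL.nil))))
noncomputable def S314_343_512_660_1 : EL := (EL.cons 0 (TM.mk (P.cons (P.cons (P.lf 646551666 0 0) (P.cons (P.lf 0 50291357 0) (P.cons (P.lf 3362370 0 0) (P.lf 1120792 0 0)))) (P.cons (P.cons (P.lf 1820700160 0 0) (P.cons (P.lf 303142911 0 0) (P.cons (P.lf 0 20267426 0) (P.lf 0 6755803 0)))) (P.cons (P.cons (P.lf 0 33532207 0) (P.cons (P.lf 0 64219253 0) (P.cons (P.lf 4293544 0 0) (P.lf 1431177 0 0)))) (P.cons (P.cons (P.lf 0 73612150 0) (P.cons (P.lf 0 3798434 0) (P.cons (P.lf 253951 0 0) P.nil))) (P.cons (P.cons (P.lf 4479528 0 0) (P.cons (P.lf 1910425 0 0) P.nil)) (P.cons (P.cons (P.lf 1179540 0 0) P.nil) P.nil))))))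 1073889)
 (EL.cons 1 (TM.mk (P.cons (P.cons (P.lf 0 895794240 0) (P.cons (P.lf 0 330960282 0) (P.cons (P.lf 22127226 0 0) (P.lf 7375736 0 0)))) (P.cons (P.cons (P.lf 235862561 0 0) (P.cons (P.lf 121591215 0 0) (P.cons (P.lf 0 8129295 0) (P.lf 0 2709761 0)))) (P.cons (P.cons (P.lf 201590162 0 0) (P.cons (P.lf 16184232 0 0) (P.cons (P.lf 0 1082038 0) (P.lf 0 360675 0)))) (P.cons (P.cons (P.lf 0 15271507 0) (P.cons (P.lf 0 7043915 0) (P.cons (P.lf 470927 0 0) P.nil))) (P.cons (P.cons (P.lf 0 5460792 0) (P.cons (P.lf 107628 0 0) P.nil)) (P.cons (P.cons (P.lf 528664 0 0) P.nil) P.nil)))))) 627461)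
 (EL.cons 5 (TM.mk (P.cons (P.cons (P.lf 0 2028780387 0) (P.cons (P.lf 0 793515926 0) (P.cons (P.lf 53052626 0 0) (P.lf 17684204 0 0)))) (P.cons (P.cons (P.lf 13994116 0 0) (P.cons (P.lf 89430022 0 0) (P.cons (P.lf 0 5979090 0) (P.lf 0 1993036 0)))) (P.cons (P.cons (P.lf 131461634 0 0) (P.cons (P.lf 19388920 0 0) (P.cons (P.lf 0 1296292 0) (P.lf 0 432092 0)))) (P.cons (P.cons (P.lf 13154796 0 0) (P.cons (P.lf 0 1424430 0) (P.cons (P.lf 95236 0 0) P.nil))) (P.cons (P.cons (P.lf 0 2629327 0) (P.cons (P.lf 0 473868 0) P.nil)) (P.cons (P.cons (P.lf 0 251471 0) P.nil) P.nil)))))) 535310)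
 (EL.cons 9 (TM.mk (P.cons (P.cons (P.lf 0 1587260595 0) (P.cons (P.lf 0 715938786 0) (P.cons (P.lf 47865996 0 0) (P.lf 15955326 0 0)))) (P.cons (P.cons (P.lf 583547794 0 0) (P.cons (P.lf 174012492 0 0) (P.cons (P.lf 0 11634066 0) (P.lf 0 3878022 0)))) (P.cons (P.cons (P.lf 105475648 0 0) (P.cons (P.lf 0 3039348 0) (P.cons (P.lf 203202 0 0) (P.lf 67734 0 0)))) (P.cons (P.cons (P.lf 0 11486826 0) (P.cons (P.lf 0 2448504 0) (P.cons (P.lf 163698 0 0) P.nil))) (P.cons (P.cons (P.lf 0 914647 0) (P.cons (P.lf 181230 0 0) P.nil)) (P.cons (P.cons (P.lf 148149 0 0) P.nil) P.nil)))))) 111194)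
 (EL.cons 2 (TM.mk (P.cons (P.cons (P.lf 0 964301518 0) (P.cons (P.lf 149298089 0 0) (P.cons (P.lf 71927108 0 0) (P.cons (P.lf 0 2721931 0) (P.lf 0 680481 0))))) (P.cons (P.cons (P.lf 0 1461321 0) (P.cons (P.lf 226248 0 0) (P.cons (P.lf 108998 0 0) (P.cons (P.lf 0 4123 0) (P.lf 0 1032 0))))) (P.cons (P.cons (P.lf 38418879 0 0) (P.cons (P.lf 0 5948204 0) (P.cons (P.lf 0 2865656 0) (P.cons (P.lf 108441 0 0) P.nil)))) (P.cons (P.cons (P.lf 0 2410824 0) (P.cons (P.lf 373255 0 0) (P.cons (P.lf 179822 0 0) P.nil))) (P.cons (P.cons (P.lf 0 351694 0) (P.cons (P.lf 54450 0 0) P.nil)) (P.cons (P.cons (P.lf 39585 0 0) P.nil) P.nil)))))) 90935)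
 (EL.cons 6 (TM.mk (P.cons (P.cons (P.lf 816964110 0 0) (P.cons (P.lf 0 126486558 0) (P.cons (P.lf 0 60937233 0) (P.cons (P.lf 2306043 0 0) (P.lf 576510 0 0))))) (P.cons (P.cons (P.lf 0 198567201 0) (P.cons (P.lf 30743187 0 0) (P.cons (P.lf 14811096 0 0) (P.cons (P.lf 0 560493 0) (P.lf 0 140121 0))))) (P.cons (P.cons (P.lf 3468225 0 0) (P.cons (P.lf 0 536967 0) (P.cons (P.lf 0 258693 0) (P.cons (P.lf 9789 0 0) P.nil)))) (P.cons (P.cons (P.lf 2794017 0 0) (P.cons (P.lf 0 432582 0) (P.cons (P.lf 0 208404 0) P.nil))) (P.cons (P.cons (P.lf 0 206802 0) (P.cons (P.lf 32016 0 0) P.nil)) (P.cons (P.cons (P.lf 0 14562 0) P.nil) P.nil)))))) 49578)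
 EL.nil))))))
noncomputable def S314_343_512_660_2 : EL := (EL.cons 0 (TM.mk (P.cons (P.cons (P.lf 0 710407663 0) (P.cons (P.lf 0 472381628 0) (P.cons (P.lf 0 36955211 0) (P.cons (P.lf 19691954 0 0) (P.cons (P.lf 2748475 0 0) (P.cons (P.lf 0 204238 0) P.nil)))))) (P.cons (P.cons (P.lf 0 452196638 0) (P.cons (P.lf 0 276523124 0) (P.cons (P.lf 0 4771946 0) (P.cons (P.lf 9272737 0 0) (P.cons (P.lf 932760 0 0) P.nil))))) (P.cons (P.cons (P.lf 338345788 0 0) (P.cons (P.lf 159454458 0 0) (P.cons (P.lf 10907089 0 0) (P.cons (P.lf 0 6437522 0) P.nil)))) (P.cons (P.cons (P.lf 61668702 0 0) (P.cons (P.lf 3829907 0 0) (P.cons (P.lf 0 3143772 0) P.nil))) (P.cons (P.cons (P.lf 0 20558806 0) (P.cons (P.lf 0 8854125 0) P.nil)) (P.cons (P.cons (P.lf 0 1871685 0) P.nil) P.nil)))))) 8926009)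
 (EL.cons 1 (TM.mk (P.cons (P.cons (P.lf 338510023 0 0) (P.cons (P.lf 269356612 0 0) (P.cons (P.lf 34616088 0 0) (P.cons (P.lf 0 13039563 0) (P.cons (P.lf 0 2110344 0) (P.cons (P.lf 156819 0 0) P.nil)))))) (P.cons (P.cons (P.lf 0 211336854 0) (P.cons (P.lf 0 171658679 0) (P.cons (P.lf 0 24978168 0) (P.cons (P.lf 8700124 0 0) (P.cons (P.lf 1461900 0 0) P.nil))))) (P.cons (P.cons (P.lf 0 77044088 0) (P.cons (P.lf 0 23245017 0) (P.cons (P.lf 4849465 0 0) (P.cons (P.lf 77394 0 0) P.nil)))) (P.cons (P.cons (P.lf 46289479 0 0) (P.cons (P.lf 22151871 0 0) (P.cons (P.lf 590332 0 0) P.nil))) (P.cons (P.cons (P.lf 5374824 0 0) (P.cons (P.lf 0 1024758 0) P.nil)) (P.cons (P.cons (P.lf 0 2219121 0) P.nil) P.nil)))))) 4833481)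
 (EL.cons 5 (TM.mk (P.cons (P.cons (P.lf 695792716 0 0) (P.cons (P.lf 567774363 0 0) (P.cons (P.lf 76578053 0 0) (P.cons (P.lf 0 27968846 0) (P.cons (P.lf 0 4593186 0) (P.cons (P.lf 341308 0 0) P.nil)))))) (P.cons (P.cons (P.lf 0 165101601 0) (P.cons (P.lf 0 145848425 0) (P.cons (P.lf 0 25810970 0) (P.cons (P.lf 8005558 0 0) (P.cons (P.lf 1426099 0 0) P.nil))))) (P.cons (P.cons (P.lf 0 119299158 0) (P.cons (P.lf 0 45839200 0) (P.cons (P.lf 1488543 0 0) (P.cons (P.lf 1232317 0 0) P.nil)))) (P.cons (P.cons (P.lf 6143537 0 0) (P.cons (P.lf 8732613 0 0) (P.cons (P.lf 873575 0 0) P.nil))) (P.cons (P.cons (P.lf 7419286 0 0) (P.cons (P.lf 1958554 0 0) P.nil)) (P.cons (P.cons (P.lf 0 31324 0) P.nil) P.nil)))))) 4791675)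
 (EL.cons 9 (TM.mk (P.cons (P.cons (P.lf 391061758 0 0) (P.cons (P.lf 352779223 0 0) (P.cons (P.lf 55975083 0 0) (P.cons (P.lf 0 18500530 0) (P.cons (P.lf 0 3190542 0) (P.cons (P.lf 237088 0 0) P.nil)))))) (P.cons (P.cons (P.lf 0 287543491 0) (P.cons (P.lf 0 215442127 0) (P.cons (P.lf 0 24271476 0) (P.cons (P.lf 9972814 0 0) (P.cons (P.lf 1550955 0 0) P.nil))))) (P.cons (P.cons (P.lf 883723 0 0) (P.cons (P.lf 9578569 0 0) (P.cons (P.lf 4735243 0 0) (P.cons (P.lf 0 932271 0) P.nil)))) (P.cons (P.cons (P.lf 24767799 0 0) (P.cons (P.lf 8906781 0 0) (P.cons (P.lf 0 215475 0) P.nil))) (P.cons (P.cons (P.lf 96616 0 0) (P.cons (P.lf 0 1049623 0) P.nil)) (P.cons (P.cons (P.lf 0 614818 0) P.nil) P.nil)))))) 1542401)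
 (EL.cons 2 (TM.mk (P.cons (P.cons (P.lf 475160090 0 0) (P.cons (P.lf 140755708 0 0) (P.cons (P.lf 0 82953708 0) (P.cons (P.lf 0 17202903 0) (P.cons (P.lf 2748577 0 0) (P.cons (P.lf 467060 0 0) P.nil)))))) (P.cons (P.cons (P.lf 0 173969971 0) (P.cons (P.lf 0 24832423 0) (P.cons (P.lf 24452319 0 0) (P.cons (P.lf 3988074 0 0) (P.cons (P.lf 0 705661 0) P.nil))))) (P.cons (P.cons (P.lf 0 50770693 0) (P.cons (P.lf 152634 0 0) (P.cons (P.lf 5495692 0 0) (P.cons (P.lf 523614 0 0) P.nil)))) (P.cons (P.cons (P.lf 11538618 0 0) (P.cons (P.lf 1559120 0 0) (P.cons (P.lf 0 1602320 0) P.nil))) (P.cons (P.cons (P.lf 1273561 0 0) (P.cons (P.lf 0 338636 0) P.nil)) (P.cons (P.cons (P.lf 0 343091 0) P.nil) P.nil)))))) 1363364)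
 (EL.cons 6 (TM.mk (P.cons (P.cons (P.lf 0 402559506 0) (P.cons (P.lf 0 119249382 0) (P.cons (P.lf 70279056 0 0) (P.cons (P.lf 14574438 0 0) (P.cons (P.lf 0 2328618 0) (P.cons (P.lf 0 395694 0) P.nil)))))) (P.cons (P.cons (P.lf 245842926 0 0) (P.cons (P.lf 50203098 0 0) (P.cons (P.lf 0 37904382 0) (P.cons (P.lf 0 6943206 0) (P.cons (P.lf 1167354 0 0) P.nil))))) (P.cons (P.cons (P.lf 0 10930188 0) (P.cons (P.lf 0 10576116 0) (P.cons (P.lf 3534966 0 0) (P.cons (P.lf 1030662 0 0) P.nil)))) (P.cons (P.cons (P.lf 0 10163610 0) (P.cons (P.lf 706314 0 0) (P.cons (P.lf 950352 0 0) P.nil))) (P.cons (P.cons (P.lf 1197732 0 0) (P.cons (P.lf 205080 0 0) P.nil)) (P.cons (P.cons (P.lf 142782 0 0) P.nil) P.nil)))))) 1249614)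
 EL.nil))))))
noncomputable def S314_343_512_660_3 : EL := (EL.cons 0 (TM.mk (P.cons (P.lf 2000791209 0 0) (P.cons (P.lf 654467131 0 0) (P.cons (P.lf 15080835 0 0) (P.cons (P.lf 0 7271133 0) (P.cons (P.lf 199596 0 0) (P.cons (P.lf 35412 0 0) P.nil)))))) 3454)
 (EL.cons 1 (TM.mk (P.cons (P.lf 0 1695086628 0) (P.cons (P.lf 0 139901857 0) (P.cons (P.lf 47471786 0 0) (P.cons (P.lf 0 293435 0) (P.cons (P.lf 0 328029 0) (P.cons (P.lf 15684 0 0) P.nil)))))) 1940)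
 (EL.cons 5 (TM.mk (P.cons (P.lf 1436091214 0 0) (P.cons (P.lf 0 232699422 0) (P.cons (P.lf 0 5362070 0) (P.cons (P.lf 2585292 0 0) (P.cons (P.lf 0 70970 0) (P.cons (P.lf 0 12590 0) P.nil)))))) 1162)
 EL.nil)))
noncomputable def S314_343_512_660_4 : EL := (EL.cons 0 (TM.mk (P.cons (P.cons (P.lf 0 492945474 0) (P.cons (P.lf 0 222344576 0) (P.cons (P.lf 14865438 0 0) (P.lf 4955143 0 0)))) (P.cons (P.cons (P.lf 19984227 0 0) (P.cons (P.lf 0 18687877 0) (P.cons (P.lf 1249428 0 0) (P.lf 416475 0 0)))) (P.cons (P.cons (P.lf 88322034 0 0) (P.cons (P.lf 15057529 0 0) (P.cons (P.lf 0 1006711 0) (P.lf 0 335569 0)))) (P.cons (P.cons (P.lf 10304956 0 0) (P.cons (P.lf 146191 0 0) (P.cons (P.lf 0 9775 0) P.nil))) (P.cons (P.cons (P.lf 0 1911844 0) (P.cons (P.lf 0 418141 0) P.nil)) (P.cons (P.cons (P.lf 0 183482 0) P.nil) P.nil)))))) 201198)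
 (EL.cons 1 (TM.mk (P.cons (P.cons (P.lf 417627425 0 0) (P.cons (P.lf 188372137 0 0) (P.cons (P.lf 0 12594120 0) (P.lf 0 4198036 0)))) (P.cons (P.cons (P.lf 0 119070110 0) (P.cons (P.lf 0 30237727 0) (P.cons (P.lf 2021621 0 0) (P.lf 673873 0 0)))) (P.cons (P.cons (P.lf 0 52119896 0) (P.cons (P.lf 0 8254560 0) (P.cons (P.lf 551880 0 0) (P.lf 183958 0 0)))) (P.cons (P.cons (P.lf 5104072 0 0) (P.cons (P.lf 2025067 0 0) (P.cons (P.lf 0 135388 0) P.nil))) (P.cons (P.cons (P.lf 1321543 0 0) (P.cons (P.lf 11617 0 0) P.nil)) (P.cons (P.cons (P.lf 0 142140 0) P.nil) P.nil)))))) 151297)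
 (EL.cons 5 (TM.mk (P.cons (P.cons (P.lf 0 353817360 0) (P.cons (P.lf 0 159590410 0) (P.cons (P.lf 10669840 0 0) (P.lf 3556612 0 0)))) (P.cons (P.cons (P.lf 187410426 0 0) (P.cons (P.lf 64648742 0 0) (P.cons (P.lf 0 4322262 0) (P.lf 0 1440752 0)))) (P.cons (P.cons (P.lf 3755156 0 0) (P.cons (P.lf 0 6366904 0) (P.cons (P.lf 425674 0 0) (P.lf 141890 0 0)))) (P.cons (P.cons (P.lf 0 7492926 0) (P.cons (P.lf 0 868146 0) (P.cons (P.lf 58040 0 0) P.nil))) (P.cons (P.cons (P.lf 374886 0 0) (P.cons (P.lf 209082 0 0) P.nil)) (P.cons (P.cons (P.lf 114620 0 0) P.nil) P.nil)))))) 103656)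
 EL.nil)))
noncomputable def S314_343_512_660_5 : EL := (EL.cons 0 (TM.mk (P.cons (P.cons (P.lf 121449573 0 0) (P.cons (P.lf 109560410 0 0) (P.cons (P.lf 17383826 0 0) (P.cons (P.lf 0 5745591 0) (P.cons (P.lf 0 990864 0) (P.cons (P.lf 73629 0 0) P.nil)))))) (P.cons (P.cons (P.lf 0 49573900 0) (P.cons (P.lf 0 31070830 0) (P.cons (P.lf 0 1851516 0) (P.cons (P.lf 1217786 0 0) (P.cons (P.lf 157552 0 0) P.nil))))) (P.cons (P.cons (P.lf 0 28020714 0) (P.cons (P.lf 0 18085487 0) (P.cons (P.lf 0 864033 0) (P.cons (P.lf 680268 0 0) P.nil)))) (P.cons (P.cons (P.lf 6667291 0 0) (P.cons (P.lf 2836701 0 0) (P.cons (P.lf 294127 0 0) P.nil))) (P.cons (P.cons (P.lf 2884797 0 0) (P.cons (P.lf 855341 0 0) P.nil)) (P.cons (P.cons (P.lf 0 130902 0) P.nil) P.nil)))))) 1322986)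
 (EL.cons 1 (TM.mk (P.cons (P.cons (P.lf 0 102893070 0) (P.cons (P.lf 0 92820472 0) (P.cons (P.lf 0 14727718 0) (P.cons (P.lf 4867711 0 0) (P.cons (P.lf 839469 0 0) (P.cons (P.lf 0 62379 0) P.nil)))))) (P.cons (P.cons (P.lf 67164013 0 0) (P.cons (P.lf 49024601 0 0) (P.cons (P.lf 5170582 0 0) (P.cons (P.lf 0 2222216 0) (P.cons (P.lf 0 338790 0) P.nil))))) (P.cons (P.cons (P.lf 8893241 0 0) (P.cons (P.lf 4757707 0 0) (P.cons (P.lf 0 306369 0) (P.cons (P.lf 0 107595 0) P.nil)))) (P.cons (P.cons (P.lf 0 8672499 0) (P.cons (P.lf 0 4155058 0) (P.cons (P.lf 0 227529 0) P.nil))) (P.cons (P.cons (P.lf 0 563570 0) (P.cons (P.lf 145183 0 0) P.nil)) (P.cons (P.cons (P.lf 357723 0 0) P.nil) P.nil)))))) 978798)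
 (EL.cons 5 (TM.mk (P.cons (P.cons (P.lf 87171846 0 0) (P.cons (P.lf 78638260 0 0) (P.cons (P.lf 12477442 0 0) (P.cons (P.lf 0 4123964 0) (P.cons (P.lf 0 711204 0) (P.cons (P.lf 52848 0 0) P.nil)))))) (P.cons (P.cons (P.lf 0 78221554 0) (P.cons (P.lf 0 60766634 0) (P.cons (P.lf 0 7432174 0) (P.cons (P.lf 2891280 0 0) (P.cons (P.lf 460964 0 0) P.nil))))) (P.cons (P.cons (P.lf 10257494 0 0) (P.cons (P.lf 9623250 0 0) (P.cons (P.lf 1885624 0 0) (P.cons (P.lf 0 552628 0) P.nil)))) (P.cons (P.cons (P.lf 5885338 0 0) (P.cons (P.lf 1960320 0 0) (P.cons (P.lf 0 176402 0) P.nil))) (P.cons (P.cons (P.lf 0 993498 0) (P.cons (P.lf 0 653994 0) P.nil)) (P.cons (P.cons (P.lf 0 158394 0) P.nil) P.nil)))))) 732622)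
 EL.nil)))
noncomputable def S314_343_512_660_6 : EL := (EL.cons 12 (TM.mk (P.lf 8589934592 0 0) 0)
 (EL.cons 3 (TM.mk (P.cons (P.lf 2072840178 0 0) (P.cons (P.lf 339017325 0 0) (P.cons (P.lf 0 19911543 0) (P.cons (P.lf 0 509910 0) (P.cons (P.lf 91155 0 0) (P.cons (P.lf 0 1462 0) P.nil)))))) 487)
 (EL.cons 7 (TM.mk (P.cons (P.lf 0 1756127103 0) (P.cons (P.lf 142278485 0 0) (P.cons (P.lf 9042093 0 0) (P.cons (P.lf 0 848140 0) (P.cons (P.lf 0 2043 0) (P.cons (P.lf 3166 0 0) P.nil)))))) 195)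
 EL.nil)))
noncomputable def S314_343_512_660_7 : EL := (EL.cons 12 (TM.mk (P.cons (P.cons (P.lf 0 2116347460 0) (P.cons (P.lf 0 954585048 0) (P.cons (P.lf 63821328 0 0) (P.lf 21273768 0 0)))) (P.cons (P.cons (P.lf 778063726 0 0) (P.cons (P.lf 232016656 0 0) (P.cons (P.lf 0 15512088 0) (P.lf 0 5170696 0)))) (P.cons (P.cons (P.lf 140634198 0 0) (P.cons (P.lf 0 4052464 0) (P.cons (P.lf 270936 0 0) (P.lf 90312 0 0)))) (P.cons (P.cons (P.lf 0 15315768 0) (P.cons (P.lf 0 3264672 0) (P.cons (P.lf 218264 0 0) P.nil))) (P.cons (P.cons (P.lf 0 1219530 0) (P.cons (P.lf 241640 0 0) P.nil)) (P.cons (P.cons (P.lf 197532 0 0) P.nil) P.nil)))))) 148234)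
 (EL.cons 3 (TM.mk (P.cons (P.cons (P.lf 1806739955 0 0) (P.cons (P.lf 460702514 0 0) (P.cons (P.lf 0 30801492 0) (P.lf 0 10267160 0)))) (P.cons (P.cons (P.lf 838688704 0 0) (P.cons (P.lf 0 36627186 0) (P.cons (P.lf 2448806 0 0) (P.lf 816268 0 0)))) (P.cons (P.cons (P.lf 0 114970455 0) (P.cons (P.lf 0 20783582 0) (P.cons (P.lf 1389540 0 0) (P.lf 463178 0 0)))) (P.cons (P.cons (P.lf 0 11987012 0) (P.cons (P.lf 2857774 0 0) (P.cons (P.lf 0 191060 0) P.nil))) (P.cons (P.cons (P.lf 2906128 0 0) (P.cons (P.lf 170088 0 0) P.nil)) (P.cons (P.cons (P.lf 0 13951 0) P.nil) P.nil)))))) 430244)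
 (EL.cons 7 (TM.mk (P.cons (P.cons (P.lf 1405245971 0 0) (P.cons (P.lf 485176294 0 0) (P.cons (P.lf 0 32437760 0) (P.lf 0 10812588 0)))) (P.cons (P.cons (P.lf 351980118 0 0) (P.cons (P.lf 0 15371668 0) (P.cons (P.lf 1027717 0 0) (P.lf 342573 0 0)))) (P.cons (P.cons (P.lf 0 5208737 0) (P.cons (P.lf 0 10602161 0) (P.cons (P.lf 708834 0 0) (P.lf 236277 0 0)))) (P.cons (P.cons (P.lf 0 11095959 0) (P.cons (P.lf 0 301504 0) (P.cons (P.lf 20156 0 0) P.nil))) (P.cons (P.cons (P.lf 82518 0 0) (P.cons (P.lf 217581 0 0) P.nil)) (P.cons (P.cons (P.lf 162545 0 0) P.nil) P.nil)))))) 307386)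
 (EL.cons 10 (TM.mk (P.cons (P.cons (P.lf 0 1998052494 0) (P.cons (P.lf 309348699 0 0) (P.cons (P.lf 149034447 0 0) (P.cons (P.lf 0 5639901 0) (P.lf 0 1409973 0))))) (P.cons (P.cons (P.lf 323757750 0 0) (P.cons (P.lf 0 50125830 0) (P.cons (P.lf 0 24149043 0) (P.cons (P.lf 913869 0 0) (P.lf 228465 0 0))))) (P.cons (P.cons (P.lf 7460316 0 0) (P.cons (P.lf 0 1155042 0) (P.cons (P.lf 0 556464 0) (P.cons (P.lf 21057 0 0) P.nil)))) (P.cons (P.cons (P.lf 0 3596949 0) (P.cons (P.lf 556896 0 0) (P.cons (P.lf 268296 0 0) P.nil))) (P.cons (P.cons (P.lf 98739 0 0) (P.cons (P.lf 0 15285 0) P.nil)) (P.cons (P.cons (P.lf 17514 0 0) P.nil) P.nil)))))) 31851)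
 EL.nil))))
noncomputable def S314_343_512_660_8 : EL := (EL.cons 12 (TM.mk (P.cons (P.cons (P.lf 521415678 0 0) (P.cons (P.lf 470372298 0 0) (P.cons (P.lf 74633444 0 0) (P.cons (P.lf 0 24667374 0) (P.cons (P.lf 0 4254056 0) (P.cons (P.lf 316118 0 0) P.nil)))))) (P.cons (P.cons (P.lf 0 383391322 0) (P.cons (P.lf 0 287256170 0) (P.cons (P.lf 0 32361968 0) (P.cons (P.lf 13297086 0 0) (P.cons (P.lf 2067940 0 0) P.nil))))) (P.cons (P.cons (P.lf 1178298 0 0) (P.cons (P.lf 12771426 0 0) (P.cons (P.lf 6313658 0 0) (P.cons (P.lf 0 1243028 0) P.nil)))) (P.cons (P.cons (P.lf 33023732 0 0) (P.cons (P.lf 11875708 0 0) (P.cons (P.lf 0 287300 0) P.nil))) (P.cons (P.cons (P.lf 128822 0 0) (P.cons (P.lf 0 1399498 0) P.nil)) (P.cons (P.cons (P.lf 0 819758 0) P.nil) P.nil)))))) 2056506)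
 (EL.cons 3 (TM.mk (P.cons (P.cons (P.lf 0 1016095090 0) (P.cons (P.lf 0 742077092 0) (P.cons (P.lf 0 78379206 0) (P.cons (P.lf 33652428 0 0) (P.cons (P.lf 5132741 0 0) (P.cons (P.lf 0 381410 0) P.nil)))))) (P.cons (P.cons (P.lf 0 14022904 0) (P.cons (P.lf 63458391 0 0) (P.cons (P.lf 37042391 0 0) (P.cons (P.lf 0 6934667 0) (P.cons (P.lf 0 1655605 0) P.nil))))) (P.cons (P.cons (P.lf 283801495 0 0) (P.cons (P.lf 97191276 0 0) (P.cons (P.lf 0 3740509 0) (P.cons (P.lf 0 2534708 0) P.nil)))) (P.cons (P.cons (P.lf 0 2775146 0) (P.cons (P.lf 0 17734398 0) (P.cons (P.lf 0 1406236 0) P.nil))) (P.cons (P.cons (P.lf 0 12231861 0) (P.cons (P.lf 0 2091089 0) P.nil)) (P.cons (P.cons (P.lf 669278 0 0) P.nil) P.nil)))))) 5387030)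
 (EL.cons 7 (TM.mk (P.cons (P.cons (P.lf 0 585837438 0) (P.cons (P.lf 0 455233182 0) (P.cons (P.lf 0 55710524 0) (P.cons (P.lf 21664362 0 0) (P.cons (P.lf 3454625 0 0) (P.cons (P.lf 0 256711 0) P.nil)))))) (P.cons (P.cons (P.lf 0 5885111 0) (P.cons (P.lf 26632169 0 0) (P.cons (P.lf 15545911 0 0) (P.cons (P.lf 0 2910343 0) (P.cons (P.lf 0 694819 0) P.nil))))) (P.cons (P.cons (P.lf 118385889 0 0) (P.cons (P.lf 44045863 0 0) (P.cons (P.lf 331218 0 0) (P.cons (P.lf 0 1419655 0) P.nil)))) (P.cons (P.cons (P.lf 18224995 0 0) (P.cons (P.lf 0 655880 0) (P.cons (P.lf 0 766538 0) P.nil))) (P.cons (P.cons (P.lf 0 4435111 0) (P.cons (P.lf 0 1917766 0) P.nil)) (P.cons (P.cons (P.lf 0 649860 0) P.nil) P.nil)))))) 2827823)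
 (EL.cons 10 (TM.mk (P.cons (P.cons (P.lf 984541446 0 0) (P.cons (P.lf 291648714 0 0) (P.cons (P.lf 0 171881790 0) (P.cons (P.lf 0 35644770 0) (P.cons (P.lf 5695116 0 0) (P.cons (P.lf 967764 0 0) P.nil)))))) (P.cons (P.cons (P.lf 0 521493156 0) (P.cons (P.lf 0 99153042 0) (P.cons (P.lf 78777336 0 0) (P.cons (P.lf 14093154 0 0) (P.cons (P.lf 0 2393598 0) P.nil))))) (P.cons (P.cons (P.lf 0 10449198 0) (P.cons (P.lf 19334514 0 0) (P.cons (P.lf 0 3148080 0) (P.cons (P.lf 0 1562424 0) P.nil)))) (P.cons (P.cons (P.lf 20850006 0 0) (P.cons (P.lf 0 812370 0) (P.cons (P.lf 0 2090718 0) P.nil))) (P.cons (P.cons (P.lf 0 1043160 0) (P.cons (P.lf 0 420288 0) P.nil)) (P.cons (P.cons (P.lf 0 318942 0) P.nil) P.nil)))))) 1993830)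
 EL.nil))))
noncomputable def S314_343_512_660_9 : EL := (EL.cons 3 (TM.mk (P.cons (P.lf 2072840178 0 0) (P.cons (P.lf 339017325 0 0) (P.cons (P.lf 0 19911543 0) (P.cons (P.lf 0 509910 0) (P.cons (P.lf 91155 0 0) (P.cons (P.lf 0 1462 0) P.nil)))))) 487)
 (EL.cons 7 (TM.mk (P.cons (P.lf 0 1756127103 0) (P.cons (P.lf 142278485 0 0) (P.cons (P.lf 9042093 0 0) (P.cons (P.lf 0 848140 0) (P.cons (P.lf 0 2043 0) (P.cons (P.lf 3166 0 0) P.nil)))))) 195)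
 EL.nil))
noncomputable def S314_343_512_660_10 : EL := (EL.cons 3 (TM.mk (P.cons (P.cons (P.lf 0 510696559 0) (P.cons (P.lf 0 230351257 0) (P.cons (P.lf 15400746 0 0) (P.lf 5133580 0 0)))) (P.cons (P.cons (P.lf 104229349 0 0) (P.cons (P.lf 18313593 0 0) (P.cons (P.lf 0 1224403 0) (P.lf 0 408134 0)))) (P.cons (P.cons (P.lf 69549894 0 0) (P.cons (P.lf 10391791 0 0) (P.cons (P.lf 0 694770 0) (P.lf 0 231589 0)))) (P.cons (P.cons (P.lf 176599 0 0) (P.cons (P.lf 0 1428887 0) (P.cons (P.lf 95530 0 0) P.nil))) (P.cons (P.cons (P.lf 0 1293386 0) (P.cons (P.lf 0 85044 0) P.nil)) (P.cons (P.cons (P.lf 35306 0 0) P.nil) P.nil)))))) 106195)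
 (EL.cons 7 (TM.mk (P.cons (P.cons (P.lf 432666290 0 0) (P.cons (P.lf 195155464 0 0) (P.cons (P.lf 0 13047638 0) (P.lf 0 4349211 0)))) (P.cons (P.cons (P.lf 0 194121327 0) (P.cons (P.lf 0 63244678 0) (P.cons (P.lf 4228390 0 0) (P.lf 1409463 0 0)))) (P.cons (P.cons (P.lf 0 18091640 0) (P.cons (P.lf 3666637 0 0) (P.cons (P.lf 0 245142 0) (P.lf 0 81714 0)))) (P.cons (P.cons (P.lf 6488517 0 0) (P.cons (P.lf 938789 0 0) (P.cons (P.lf 0 62764 0) P.nil))) (P.cons (P.cons (P.lf 67356 0 0) (P.cons (P.lf 0 130422 0) P.nil)) (P.cons (P.cons (P.lf 0 91555 0) P.nil) P.nil)))))) 64211)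
 EL.nil))
noncomputable def S314_343_512_660_11 : EL := (EL.cons 3 (TM.mk (P.cons (P.cons (P.lf 125823002 0 0) (P.cons (P.lf 113505706 0 0) (P.cons (P.lf 18009822 0 0) (P.cons (P.lf 0 5952492 0) (P.cons (P.lf 0 1026547 0) (P.cons (P.lf 76282 0 0) P.nil)))))) (P.cons (P.cons (P.lf 0 71937682 0) (P.cons (P.lf 0 50753793 0) (P.cons (P.lf 0 4863733 0) (P.cons (P.lf 2235181 0 0) (P.cons (P.lf 331121 0 0) P.nil))))) (P.cons (P.cons (P.lf 0 16055543 0) (P.cons (P.lf 0 9345534 0) (P.cons (P.lf 73325 0 0) (P.cons (P.lf 282016 0 0) P.nil)))) (P.cons (P.cons (P.lf 8873224 0 0) (P.cons (P.lf 4007718 0 0) (P.cons (P.lf 250436 0 0) P.nil))) (P.cons (P.cons (P.lf 1359987 0 0) (P.cons (P.lf 123421 0 0) P.nil)) (P.cons (P.cons (P.lf 0 273508 0) P.nil) P.nil)))))) 936136)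
 (EL.cons 7 (TM.mk (P.cons (P.cons (P.lf 0 106598274 0) (P.cons (P.lf 0 96162960 0) (P.cons (P.lf 0 15258068 0) (P.cons (P.lf 5043000 0 0) (P.cons (P.lf 869699 0 0) (P.cons (P.lf 0 64627 0) P.nil)))))) (P.cons (P.cons (P.lf 87016975 0 0) (P.cons (P.lf 66517643 0 0) (P.cons (P.lf 7852267 0 0) (P.cons (P.lf 0 3127033 0) (P.cons (P.lf 0 493231 0) P.nil))))) (P.cons (P.cons (P.lf 0 6042291 0) (P.cons (P.lf 0 6873797 0) (P.cons (P.lf 0 1748226 0) (P.cons (P.lf 448403 0 0) P.nil)))) (P.cons (P.cons (P.lf 0 7186913 0) (P.cons (P.lf 0 2565152 0) (P.cons (P.lf 121876 0 0) P.nil))) (P.cons (P.cons (P.lf 559619 0 0) (P.cons (P.lf 524510 0 0) P.nil)) (P.cons (P.cons (P.lf 204654 0 0) P.nil) P.nil)))))) 617659)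
 EL.nil))
noncomputable def S314_343_512_660_12 : EL := (EL.cons 4 (TM.mk (P.cons (P.lf 0 2072840178 0) (P.cons (P.lf 0 339017325 0) (P.cons (P.lf 19911543 0 0) (P.cons (P.lf 509910 0 0) (P.cons (P.lf 0 91155 0) (P.cons (P.lf 1462 0 0) P.nil)))))) 487)
 (EL.cons 8 (TM.mk (P.cons (P.lf 1756127103 0 0) (P.cons (P.lf 0 142278485 0) (P.cons (P.lf 0 9042093 0) (P.cons (P.lf 848140 0 0) (P.cons (P.lf 2043 0 0) (P.cons (P.lf 0 3166 0) P.nil)))))) 195)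
 EL.nil))
noncomputable def S314_343_512_660_13 : EL := (EL.cons 4 (TM.mk (P.cons (P.cons (P.lf 510696559 0 0) (P.cons (P.lf 230351257 0 0) (P.cons (P.lf 0 15400746 0) (P.lf 0 5133580 0)))) (P.cons (P.cons (P.lf 0 104229349 0) (P.cons (P.lf 0 18313593 0) (P.cons (P.lf 1224403 0 0) (P.lf 408134 0 0)))) (P.cons (P.cons (P.lf 0 69549894 0) (P.cons (P.lf 0 10391791 0) (P.cons (P.lf 694770 0 0) (P.lf 231589 0 0)))) (P.cons (P.cons (P.lf 0 176599 0) (P.cons (P.lf 1428887 0 0) (P.cons (P.lf 0 95530 0) P.nil))) (P.cons (P.cons (P.lf 1293386 0 0) (P.cons (P.lf 85044 0 0) P.nil)) (P.cons (P.cons (P.lf 0 35306 0) P.nil) P.nil)))))) 106195)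
 (EL.cons 8 (TM.mk (P.cons (P.cons (P.lf 0 432666290 0) (P.cons (P.lf 0 195155464 0) (P.cons (P.lf 13047638 0 0) (P.lf 4349211 0 0)))) (P.cons (P.cons (P.lf 194121327 0 0) (P.cons (P.lf 63244678 0 0) (P.cons (P.lf 0 4228390 0) (P.lf 0 1409463 0)))) (P.cons (P.cons (P.lf 18091640 0 0) (P.cons (P.lf 0 3666637 0) (P.cons (P.lf 245142 0 0) (P.lf 81714 0 0)))) (P.cons (P.cons (P.lf 0 6488517 0) (P.cons (P.lf 0 938789 0) (P.cons (P.lf 62764 0 0) P.nil))) (P.cons (P.cons (P.lf 0 67356 0) (P.cons (P.lf 130422 0 0) P.nil)) (P.cons (P.cons (P.lf 91555 0 0) P.nil) P.nil)))))) 64211)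
 EL.nil))
noncomputable def S314_343_512_660_14 : EL := (EL.cons 4 (TM.mk (P.cons (P.cons (P.lf 0 125823002 0) (P.cons (P.lf 0 113505706 0) (P.cons (P.lf 0 18009822 0) (P.cons (P.lf 5952492 0 0) (P.cons (P.lf 1026547 0 0) (P.cons (P.lf 0 76282 0) P.nil)))))) (P.cons (P.cons (P.lf 71937682 0 0) (P.cons (P.lf 50753793 0 0) (P.cons (P.lf 4863733 0 0) (P.cons (P.lf 0 2235181 0) (P.cons (P.lf 0 331121 0) P.nil))))) (P.cons (P.cons (P.lf 16055543 0 0) (P.cons (P.lf 9345534 0 0) (P.cons (P.lf 0 73325 0) (P.cons (P.lf 0 282016 0) P.nil)))) (P.cons (P.cons (P.lf 0 8873224 0) (P.cons (P.lf 0 4007718 0) (P.cons (P.lf 0 250436 0) P.nil))) (P.cons (P.cons (P.lf 0 1359987 0) (P.cons (P.lf 0 123421 0) P.nil)) (P.cons (P.cons (P.lf 273508 0 0) P.nil) P.nil)))))) 936136)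
 (EL.cons 8 (TM.mk (P.cons (P.cons (P.lf 106598274 0 0) (P.cons (P.lf 96162960 0 0) (P.cons (P.lf 15258068 0 0) (P.cons (P.lf 0 5043000 0) (P.cons (P.lf 0 869699 0) (P.cons (P.lf 64627 0 0) P.nil)))))) (P.cons (P.cons (P.lf 0 87016975 0) (P.cons (P.lf 0 66517643 0) (P.cons (P.lf 0 7852267 0) (P.cons (P.lf 3127033 0 0) (P.cons (P.lf 493231 0 0) P.nil))))) (P.cons (P.cons (P.lf 6042291 0 0) (P.cons (P.lf 6873797 0 0) (P.cons (P.lf 1748226 0 0) (P.cons (P.lf 0 448403 0) P.nil)))) (P.cons (P.cons (P.lf 7186913 0 0) (P.cons (P.lf 2565152 0 0) (P.cons (P.lf 0 121876 0) P.nil))) (P.cons (P.cons (P.lf 0 559619 0) (P.cons (P.lf 0 524510 0) P.nil)) (P.cons (P.cons (P.lf 0 204654 0) P.nil) P.nil)))))) 617659)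
 EL.nil))
noncomputable def S314_343_512_660_15 : EL := (EL.cons 4 (TM.mk (P.cons (P.lf 0 1067088645 0) (P.cons (P.lf 0 349049136 0) (P.cons (P.lf 0 8043112 0) (P.cons (P.lf 3877937 0 0) (P.cons (P.lf 0 106451 0) (P.cons (P.lf 0 18886 0) P.nil)))))) 1845)
 (EL.cons 8 (TM.mk (P.cons (P.lf 904046202 0 0) (P.cons (P.lf 74614324 0 0) (P.cons (P.lf 0 25318286 0) (P.cons (P.lf 156499 0 0) (P.cons (P.lf 174949 0 0) (P.cons (P.lf 0 8365 0) P.nil)))))) 1031)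
 EL.nil))
noncomputable def S314_343_512_660_16 : EL := (EL.cons 4 (TM.mk (P.cons (P.cons (P.lf 262904252 0 0) (P.cons (P.lf 118583774 0 0) (P.cons (P.lf 0 7928234 0) (P.lf 0 2642743 0)))) (P.cons (P.cons (P.lf 0 10658254 0) (P.cons (P.lf 9966868 0 0) (P.cons (P.lf 0 666361 0) (P.lf 0 222120 0)))) (P.cons (P.cons (P.lf 0 47105085 0) (P.cons (P.lf 0 8030682 0) (P.cons (P.lf 536912 0 0) (P.lf 178970 0 0)))) (P.cons (P.cons (P.lf 0 5495976 0) (P.cons (P.lf 0 77969 0) (P.cons (P.lf 5213 0 0) P.nil))) (P.cons (P.cons (P.lf 1019650 0 0) (P.cons (P.lf 223008 0 0) P.nil)) (P.cons (P.cons (P.lf 97857 0 0) P.nil) P.nil)))))) 107314)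
 (EL.cons 8 (TM.mk (P.cons (P.cons (P.lf 0 222734627 0) (P.cons (P.lf 0 100465140 0) (P.cons (P.lf 6716864 0 0) (P.lf 2238953 0 0)))) (P.cons (P.cons (P.lf 63504059 0 0) (P.cons (P.lf 16126788 0 0) (P.cons (P.lf 0 1078198 0) (P.lf 0 359399 0)))) (P.cons (P.cons (P.lf 27797278 0 0) (P.cons (P.lf 4402432 0 0) (P.cons (P.lf 0 294336 0) (P.lf 0 98111 0)))) (P.cons (P.cons (P.lf 0 2722172 0) (P.cons (P.lf 0 1080036 0) (P.cons (P.lf 72207 0 0) P.nil))) (P.cons (P.cons (P.lf 0 704823 0) (P.cons (P.lf 0 6196 0) P.nil)) (P.cons (P.cons (P.lf 75808 0 0) P.nil) P.nil)))))) 80682)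
 EL.nil))
noncomputable def S314_343_512_660_17 : EL := (EL.cons 4 (TM.mk (P.cons (P.cons (P.lf 0 64773105 0) (P.cons (P.lf 0 58432218 0) (P.cons (P.lf 0 9271374 0) (P.cons (P.lf 3064315 0 0) (P.cons (P.lf 528461 0 0) (P.cons (P.lf 0 39269 0) P.nil)))))) (P.cons (P.cons (P.lf 26439413 0 0) (P.cons (P.lf 16571109 0 0) (P.cons (P.lf 987475 0 0) (P.cons (P.lf 0 649485 0) (P.cons (P.lf 0 84028 0) P.nil))))) (P.cons (P.cons (P.lf 14944380 0 0) (P.cons (P.lf 9645593 0 0) (P.cons (P.lf 460817 0 0) (P.cons (P.lf 0 362809 0) P.nil)))) (P.cons (P.cons (P.lf 0 3555888 0) (P.cons (P.lf 0 1512907 0) (P.cons (P.lf 0 156868 0) P.nil))) (P.cons (P.cons (P.lf 0 1538558 0) (P.cons (P.lf 0 456181 0) P.nil)) (P.cons (P.cons (P.lf 69814 0 0) P.nil) P.nil)))))) 705603)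
 (EL.cons 8 (TM.mk (P.cons (P.cons (P.lf 54876304 0 0) (P.cons (P.lf 49504252 0 0) (P.cons (P.lf 7854783 0 0) (P.cons (P.lf 0 2596113 0) (P.cons (P.lf 0 447717 0) (P.cons (P.lf 33269 0 0) P.nil)))))) (P.cons (P.cons (P.lf 0 35820807 0) (P.cons (P.lf 0 26146454 0) (P.cons (P.lf 0 2757644 0) (P.cons (P.lf 1185182 0 0) (P.cons (P.lf 180688 0 0) P.nil))))) (P.cons (P.cons (P.lf 0 4743062 0) (P.cons (P.lf 0 2537444 0) (P.cons (P.lf 163397 0 0) (P.cons (P.lf 57384 0 0) P.nil)))) (P.cons (P.cons (P.lf 4625333 0 0) (P.cons (P.lf 2216031 0 0) (P.cons (P.lf 121349 0 0) P.nil))) (P.cons (P.cons (P.lf 300571 0 0) (P.cons (P.lf 0 77431 0) P.nil)) (P.cons (P.cons (P.lf 0 190786 0) P.nil) P.nil)))))) 522014)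
 EL.nil))
noncomputable def S314_343_512_660_18 : EL := (EL.cons 4 (TM.mk (P.cons (P.lf 0 549332354 0) (P.cons (P.lf 0 269533349 0) (P.cons (P.lf 0 28252205 0) (P.cons (P.lf 3180359 0 0) (P.cons (P.lf 331524 0 0) (P.cons (P.lf 0 44357 0) P.nil)))))) 4415)
 (EL.cons 8 (TM.mk (P.cons (P.lf 465398850 0 0) (P.cons (P.lf 114528063 0 0) (P.cons (P.lf 0 11222106 0) (P.cons (P.lf 0 2534590 0) (P.cons (P.lf 239457 0 0) (P.cons (P.lf 14216 0 0) P.nil)))))) 3029)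
 EL.nil))
noncomputable def S314_343_512_660_19 : EL := (EL.cons 4 (TM.mk (P.cons (P.cons (P.lf 135341907 0 0) (P.cons (P.lf 61046384 0 0) (P.cons (P.lf 0 4081418 0) (P.lf 0 1360471 0)))) (P.cons (P.cons (P.lf 16648629 0 0) (P.cons (P.lf 15115160 0 0) (P.cons (P.lf 0 1010564 0) (P.lf 0 336854 0)))) (P.cons (P.cons (P.lf 0 26446947 0) (P.cons (P.lf 0 3881396 0) (P.cons (P.lf 259500 0 0) (P.lf 86500 0 0)))) (P.cons (P.cons (P.lf 0 6775944 0) (P.cons (P.lf 0 780592 0) (P.cons (P.lf 52188 0 0) P.nil))) (P.cons (P.cons (P.lf 302413 0 0) (P.cons (P.lf 149373 0 0) P.nil)) (P.cons (P.cons (P.lf 169033 0 0) P.nil) P.nil)))))) 131231)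
 (EL.cons 8 (TM.mk (P.cons (P.cons (P.lf 0 114662767 0) (P.cons (P.lf 0 51718994 0) (P.cons (P.lf 3457811 0 0) (P.lf 1152603 0 0)))) (P.cons (P.cons (P.lf 13938265 0 0) (P.cons (P.lf 0 156752 0) (P.cons (P.lf 10480 0 0) (P.lf 3493 0 0)))) (P.cons (P.cons (P.lf 20758132 0 0) (P.cons (P.lf 4120969 0 0) (P.cons (P.lf 0 275518 0) (P.lf 0 91839 0)))) (P.cons (P.cons (P.lf 653227 0 0) (P.cons (P.lf 0 252357 0) (P.cons (P.lf 16871 0 0) P.nil))) (P.cons (P.cons (P.lf 0 742579 0) (P.cons (P.lf 0 120211 0) P.nil)) (P.cons (P.cons (P.lf 0 8857 0) P.nil) P.nil)))))) 78296)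
 EL.nil))
noncomputable def S314_343_512_660_20 : EL := (EL.cons 4 (TM.mk (P.cons (P.cons (P.lf 0 33344898 0) (P.cons (P.lf 0 30080638 0) (P.cons (P.lf 0 4772860 0) (P.cons (P.lf 1577495 0 0) (P.cons (P.lf 272049 0 0) (P.cons (P.lf 0 20215 0) P.nil)))))) (P.cons (P.cons (P.lf 8157261 0 0) (P.cons (P.lf 3610980 0 0) (P.cons (P.lf 0 272263 0) (P.cons (P.lf 0 76349 0) (P.cons (P.lf 1236 0 0) P.nil))))) (P.cons (P.cons (P.lf 10239696 0 0) (P.cons (P.lf 6649678 0 0) (P.cons (P.lf 366215 0 0) (P.cons (P.lf 0 256609 0) P.nil)))) (P.cons (P.cons (P.lf 0 694842 0) (P.cons (P.lf 0 41264 0) (P.cons (P.lf 0 45664 0) P.nil))) (P.cons (P.cons (P.lf 0 1170150 0) (P.cons (P.lf 0 413340 0) P.nil)) (P.cons (P.cons (P.lf 0 77285 0) P.nil) P.nil)))))) 615531)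
 (EL.cons 8 (TM.mk (P.cons (P.cons (P.lf 28250070 0 0) (P.cons (P.lf 25484562 0 0) (P.cons (P.lf 4043606 0 0) (P.cons (P.lf 0 1336467 0) (P.cons (P.lf 0 230482 0) (P.cons (P.lf 17126 0 0) P.nil)))))) (P.cons (P.cons (P.lf 0 13820029 0) (P.cons (P.lf 0 9292021 0) (P.cons (P.lf 0 758282 0) (P.cons (P.lf 391544 0 0) (P.cons (P.lf 55321 0 0) P.nil))))) (P.cons (P.cons (P.lf 0 5729038 0) (P.cons (P.lf 0 3752491 0) (P.cons (P.lf 0 186907 0) (P.cons (P.lf 142166 0 0) P.nil)))) (P.cons (P.cons (P.lf 2151941 0 0) (P.cons (P.lf 1050187 0 0) (P.cons (P.lf 88869 0 0) P.nil))) (P.cons (P.cons (P.lf 573400 0 0) (P.cons (P.lf 163699 0 0) P.nil)) (P.cons (P.cons (P.lf 0 96011 0) P.nil) P.nil)))))) 393910)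
 EL.nil))
noncomputable def S314_343_512_660_21 : EL := (EL.cons 4 (TM.mk (P.cons (P.cons (P.lf 0 2317436514 0) (P.cons (P.lf 0 691053771 0) (P.cons (P.lf 46202238 0 0) (P.lf 15400740 0 0)))) (P.cons (P.cons (P.lf 0 734459355 0) (P.cons (P.lf 54940779 0 0) (P.cons (P.lf 0 3673209 0) (P.lf 0 1224402 0)))) (P.cons (P.cons (P.lf 184520349 0 0) (P.cons (P.lf 31175373 0 0) (P.cons (P.lf 0 2084310 0) (P.lf 0 694767 0)))) (P.cons (P.cons (P.lf 12163611 0 0) (P.cons (P.lf 0 4286661 0) (P.cons (P.lf 286590 0 0) P.nil))) (P.cons (P.cons (P.lf 0 4199514 0) (P.cons (P.lf 0 255132 0) P.nil)) (P.cons (P.cons (P.lf 49257 0 0) P.nil) P.nil)))))) 324030)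
 (EL.cons 8 (TM.mk (P.cons (P.cons (P.lf 0 972579681 0) (P.cons (P.lf 0 290020830 0) (P.cons (P.lf 19390122 0 0) (P.lf 6463377 0 0)))) (P.cons (P.cons (P.lf 0 546101445 0) (P.cons (P.lf 0 47873010 0) (P.cons (P.lf 3200673 0 0) (P.lf 1066890 0 0)))) (P.cons (P.cons (P.lf 0 12882903 0) (P.cons (P.lf 14268798 0 0) (P.cons (P.lf 0 953976 0) (P.lf 0 317991 0)))) (P.cons (P.cons (P.lf 17584476 0 0) (P.cons (P.lf 1240293 0 0) (P.cons (P.lf 0 82920 0) P.nil))) (P.cons (P.cons (P.lf 0 15162 0) (P.cons (P.lf 0 348003 0) P.nil)) (P.cons (P.cons (P.lf 0 254100 0) P.nil) P.nil)))))) 243156)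
 (EL.cons 11 (TM.mk (P.cons (P.cons (P.lf 1998052494 0 0) (P.cons (P.lf 0 309348699 0) (P.cons (P.lf 0 149034447 0) (P.cons (P.lf 5639901 0 0) (P.lf 1409973 0 0))))) (P.cons (P.cons (P.lf 0 323757750 0) (P.cons (P.lf 50125830 0 0) (P.cons (P.lf 24149043 0 0) (P.cons (P.lf 0 913869 0) (P.lf 0 228465 0))))) (P.cons (P.cons (P.lf 0 7460316 0) (P.cons (P.lf 1155042 0 0) (P.cons (P.lf 556464 0 0) (P.cons (P.lf 0 21057 0) P.nil)))) (P.cons (P.cons (P.lf 3596949 0 0) (P.cons (P.lf 0 556896 0) (P.cons (P.lf 0 268296 0) P.nil))) (P.cons (P.cons (P.lf 0 98739 0) (P.cons (P.lf 15285 0 0) P.nil)) (P.cons (P.cons (P.lf 0 17514 0) P.nil) P.nil)))))) 31851)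
 EL.nil)))
noncomputable def S314_343_512_660_22 : EL := (EL.cons 4 (TM.mk (P.cons (P.cons (P.lf 570959046 0 0) (P.cons (P.lf 427791399 0 0) (P.cons (P.lf 48194514 0 0) (P.cons (P.lf 0 19802460 0) (P.cons (P.lf 0 3079644 0) (P.cons (P.lf 228846 0 0) P.nil)))))) (P.cons (P.cons (P.lf 0 28957389 0) (P.cons (P.lf 0 57106092 0) (P.cons (P.lf 0 20953062 0) (P.cons (P.lf 4584924 0 0) (P.cons (P.lf 993363 0 0) P.nil))))) (P.cons (P.cons (P.lf 0 149928519 0) (P.cons (P.lf 0 53268405 0) (P.cons (P.lf 1906917 0 0) (P.cons (P.lf 1408362 0 0) P.nil)))) (P.cons (P.cons (P.lf 5824185 0 0) (P.cons (P.lf 10871058 0 0) (P.cons (P.lf 828336 0 0) P.nil))) (P.cons (P.cons (P.lf 6795924 0 0) (P.cons (P.lf 1107255 0 0) P.nil)) (P.cons (P.cons (P.lf 0 471393 0) P.nil) P.nil)))))) 2225436)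
 (EL.cons 8 (TM.mk (P.cons (P.cons (P.lf 239619582 0 0) (P.cons (P.lf 179535111 0 0) (P.cons (P.lf 20226228 0 0) (P.cons (P.lf 0 8310681 0) (P.cons (P.lf 0 1292463 0) (P.cons (P.lf 96042 0 0) P.nil)))))) (P.cons (P.cons (P.lf 46451043 0 0) (P.cons (P.lf 19942737 0 0) (P.cons (P.lf 0 3846822 0) (P.cons (P.lf 0 108345 0) (P.cons (P.lf 100794 0 0) P.nil))))) (P.cons (P.cons (P.lf 0 62214090 0) (P.cons (P.lf 0 25459830 0) (P.cons (P.lf 0 1039722 0) (P.cons (P.lf 934029 0 0) P.nil)))) (P.cons (P.cons (P.lf 0 12705954 0) (P.cons (P.lf 0 954636 0) (P.cons (P.lf 444207 0 0) P.nil))) (P.cons (P.cons (P.lf 2497365 0 0) (P.cons (P.lf 1221138 0 0) P.nil)) (P.cons (P.cons (P.lf 427257 0 0) P.nil) P.nil)))))) 1105071)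
 (EL.cons 11 (TM.mk (P.cons (P.cons (P.lf 0 492270723 0) (P.cons (P.lf 0 145824357 0) (P.cons (P.lf 85940895 0 0) (P.cons (P.lf 17822385 0 0) (P.cons (P.lf 0 2847558 0) (P.cons (P.lf 0 483882 0) P.nil)))))) (P.cons (P.cons (P.lf 260746578 0 0) (P.cons (P.lf 49576521 0 0) (P.cons (P.lf 0 39388668 0) (P.cons (P.lf 0 7046577 0) (P.cons (P.lf 1196799 0 0) P.nil))))) (P.cons (P.cons (P.lf 5224599 0 0) (P.cons (P.lf 0 9667257 0) (P.cons (P.lf 1574040 0 0) (P.cons (P.lf 781212 0 0) P.nil)))) (P.cons (P.cons (P.lf 0 10425003 0) (P.cons (P.lf 406185 0 0) (P.cons (P.lf 1045359 0 0) P.nil))) (P.cons (P.cons (P.lf 521580 0 0) (P.cons (P.lf 210144 0 0) P.nil)) (P.cons (P.cons (P.lf 159471 0 0) P.nil) P.nil)))))) 996915)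
 EL.nil)))
noncomputable def S314_343_512_660_23 : EL := (EL.cons 4 (TM.mk (P.cons (P.cons (P.lf 0 1193005719 0) (P.cons (P.lf 0 355751319 0) (P.cons (P.lf 23784699 0 0) (P.lf 7928229 0 0)))) (P.cons (P.cons (P.lf 0 573214884 0) (P.cons (P.lf 0 29900607 0) (P.cons (P.lf 1999086 0 0) (P.lf 666360 0 0)))) (P.cons (P.cons (P.lf 44611713 0 0) (P.cons (P.lf 24092043 0 0) (P.cons (P.lf 0 1610736 0) (P.lf 0 536910 0)))) (P.cons (P.cons (P.lf 25723059 0 0) (P.cons (P.lf 233910 0 0) (P.cons (P.lf 0 15639 0) P.nil))) (P.cons (P.cons (P.lf 0 2009685 0) (P.cons (P.lf 0 669024 0) P.nil)) (P.cons (P.cons (P.lf 0 427527 0) P.nil) P.nil)))))) 387612)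
 (EL.cons 8 (TM.mk (P.cons (P.cons (P.lf 0 500679570 0) (P.cons (P.lf 0 149301396 0) (P.cons (P.lf 9981945 0 0) (P.lf 3327315 0 0)))) (P.cons (P.cons (P.lf 0 363017712 0) (P.cons (P.lf 0 49063359 0) (P.cons (P.lf 3280257 0 0) (P.lf 1093419 0 0)))) (P.cons (P.cons (P.lf 0 47802051 0) (P.cons (P.lf 4748979 0 0) (P.cons (P.lf 0 317502 0) (P.lf 0 105834 0)))) (P.cons (P.cons (P.lf 10791402 0 0) (P.cons (P.lf 2113332 0 0) (P.cons (P.lf 0 141288 0) P.nil))) (P.cons (P.cons (P.lf 1583580 0 0) (P.cons (P.lf 0 145785 0) P.nil)) (P.cons (P.cons (P.lf 0 229419 0) P.nil) P.nil)))))) 261786)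
 (EL.cons 11 (TM.mk (P.cons (P.cons (P.lf 1028588286 0 0) (P.cons (P.lf 0 159251295 0) (P.cons (P.lf 0 76722249 0) (P.cons (P.lf 2903394 0 0) (P.lf 725847 0 0))))) (P.cons (P.cons (P.lf 1558743 0 0) (P.cons (P.lf 0 241332 0) (P.cons (P.lf 0 116265 0) (P.cons (P.lf 4398 0 0) (P.lf 1101 0 0))))) (P.cons (P.cons (P.lf 0 40980138 0) (P.cons (P.lf 6344751 0 0) (P.cons (P.lf 3056700 0 0) (P.cons (P.lf 0 115671 0) P.nil)))) (P.cons (P.cons (P.lf 2571546 0 0) (P.cons (P.lf 0 398139 0) (P.cons (P.lf 0 191811 0) P.nil))) (P.cons (P.cons (P.lf 375141 0 0) (P.cons (P.lf 0 58080 0) P.nil)) (P.cons (P.cons (P.lf 0 42225 0) P.nil) P.nil)))))) 96975)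
 EL.nil)))
noncomputable def S314_343_512_660_24 : EL := (EL.cons 4 (TM.mk (P.cons (P.cons (P.lf 293927106 0 0) (P.cons (P.lf 220225053 0 0) (P.cons (P.lf 24810315 0 0) (P.cons (P.lf 0 10194216 0) (P.cons (P.lf 0 1585386 0) (P.cons (P.lf 117810 0 0) P.nil)))))) (P.cons (P.cons (P.lf 33165255 0 0) (P.cons (P.lf 6620310 0 0) (P.cons (P.lf 0 6728760 0) (P.cons (P.lf 693012 0 0) (P.cons (P.lf 252084 0 0) P.nil))))) (P.cons (P.cons (P.lf 0 82444050 0) (P.cons (P.lf 0 34345893 0) (P.cons (P.lf 0 1020813 0) (P.cons (P.lf 1208973 0 0) P.nil)))) (P.cons (P.cons (P.lf 0 9554202 0) (P.cons (P.lf 1339611 0 0) (P.cons (P.lf 684489 0 0) P.nil))) (P.cons (P.cons (P.lf 4746885 0 0) (P.cons (P.lf 1765641 0 0) P.nil)) (P.cons (P.cons (P.lf 318837 0 0) P.nil) P.nil)))))) 1487640)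
 (EL.cons 8 (TM.mk (P.cons (P.cons (P.lf 123355065 0 0) (P.cons (P.lf 92423853 0 0) (P.cons (P.lf 10412370 0 0) (P.cons (P.lf 0 4278300 0) (P.cons (P.lf 0 665352 0) (P.cons (P.lf 49440 0 0) P.nil)))))) (P.cons (P.cons (P.lf 44087763 0 0) (P.cons (P.lf 25382544 0 0) (P.cons (P.lf 0 277362 0) (P.cons (P.lf 0 755499 0) (P.cons (P.lf 0 56928 0) P.nil))))) (P.cons (P.cons (P.lf 0 29301483 0) (P.cons (P.lf 0 12315324 0) (P.cons (P.lf 0 959151 0) (P.cons (P.lf 512808 0 0) P.nil)))) (P.cons (P.cons (P.lf 0 12039183 0) (P.cons (P.lf 0 2756409 0) (P.cons (P.lf 157596 0 0) P.nil))) (P.cons (P.cons (P.lf 523038 0 0) (P.cons (P.lf 675699 0 0) P.nil)) (P.cons (P.cons (P.lf 501894 0 0) P.nil) P.nil)))))) 721815)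
 (EL.cons 11 (TM.mk (P.cons (P.cons (P.lf 0 253418715 0) (P.cons (P.lf 0 75069711 0) (P.cons (P.lf 44241978 0 0) (P.cons (P.lf 9174882 0 0) (P.cons (P.lf 0 1465908 0) (P.cons (P.lf 0 249099 0) P.nil)))))) (P.cons (P.cons (P.lf 92783985 0 0) (P.cons (P.lf 13243959 0 0) (P.cons (P.lf 0 13041237 0) (P.cons (P.lf 0 2126973 0) (P.cons (P.lf 376353 0 0) P.nil))))) (P.cons (P.cons (P.lf 27077703 0 0) (P.cons (P.lf 0 81405 0) (P.cons (P.lf 0 2931036 0) (P.cons (P.lf 0 279261 0) P.nil)))) (P.cons (P.cons (P.lf 0 6153930 0) (P.cons (P.lf 0 831531 0) (P.cons (P.lf 854571 0 0) P.nil))) (P.cons (P.cons (P.lf 0 679233 0) (P.cons (P.lf 180606 0 0) P.nil)) (P.cons (P.cons (P.lf 182982 0 0) P.nil) P.nil)))))) 727116)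
 EL.nil)))
noncomputable def S314_343_512_660_25 : EL := (EL.cons 4 (TM.mk (P.cons (P.cons (P.lf 0 614153889 0) (P.cons (P.lf 0 183139152 0) (P.cons (P.lf 12244254 0 0) (P.lf 4081416 0 0)))) (P.cons (P.cons (P.lf 0 395534547 0) (P.cons (P.lf 0 45345483 0) (P.cons (P.lf 3031692 0 0) (P.lf 1010562 0 0)))) (P.cons (P.cons (P.lf 0 19396899 0) (P.cons (P.lf 11644188 0 0) (P.cons (P.lf 0 778500 0) (P.lf 0 259497 0)))) (P.cons (P.cons (P.lf 19983909 0 0) (P.cons (P.lf 2341779 0 0) (P.cons (P.lf 0 156567 0) P.nil))) (P.cons (P.cons (P.lf 956169 0 0) (P.cons (P.lf 0 448119 0) P.nil)) (P.cons (P.cons (P.lf 0 534690 0) P.nil) P.nil)))))) 345084)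
 (EL.cons 8 (TM.mk (P.cons (P.cons (P.lf 0 257747553 0) (P.cons (P.lf 0 76859676 0) (P.cons (P.lf 5138658 0 0) (P.lf 1712886 0 0)))) (P.cons (P.cons (P.lf 0 229035006 0) (P.cons (P.lf 0 37828152 0) (P.cons (P.lf 2529099 0 0) (P.lf 843033 0 0)))) (P.cons (P.cons (P.lf 0 52696962 0) (P.cons (P.lf 0 947868 0) (P.cons (P.lf 63372 0 0) (P.lf 21123 0 0)))) (P.cons (P.cons (P.lf 3389187 0 0) (P.cons (P.lf 1749309 0 0) (P.cons (P.lf 0 116952 0) P.nil))) (P.cons (P.cons (P.lf 1994832 0 0) (P.cons (P.lf 82233 0 0) P.nil)) (P.cons (P.cons (P.lf 0 40119 0) P.nil) P.nil)))))) 234630)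
 (EL.cons 11 (TM.mk (P.cons (P.cons (P.lf 529512546 0 0) (P.cons (P.lf 0 81981837 0) (P.cons (P.lf 0 39496263 0) (P.cons (P.lf 1494654 0 0) (P.lf 373662 0 0))))) (P.cons (P.cons (P.lf 87405312 0 0) (P.cons (P.lf 0 13532535 0) (P.cons (P.lf 0 6519549 0) (P.cons (P.lf 246717 0 0) (P.lf 61680 0 0))))) (P.cons (P.cons (P.lf 0 26051604 0) (P.cons (P.lf 4033440 0 0) (P.cons (P.lf 1943184 0 0) (P.cons (P.lf 0 73533 0) P.nil)))) (P.cons (P.cons (P.lf 0 2264502 0) (P.cons (P.lf 350601 0 0) (P.cons (P.lf 168906 0 0) P.nil))) (P.cons (P.cons (P.lf 635373 0 0) (P.cons (P.lf 0 98370 0) P.nil)) (P.cons (P.cons (P.lf 1980 0 0) P.nil) P.nil)))))) 116373)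
 EL.nil)))
noncomputable def S314_343_512_660_26 : EL := (EL.cons 4 (TM.mk (P.cons (P.cons (P.lf 151312329 0 0) (P.cons (P.lf 113370849 0 0) (P.cons (P.lf 12772236 0 0) (P.cons (P.lf 0 5247933 0) (P.cons (P.lf 0 816147 0) (P.cons (P.lf 60648 0 0) P.nil)))))) (P.cons (P.cons (P.lf 41820768 0 0) (P.cons (P.lf 21950142 0 0) (P.cons (P.lf 0 1375008 0) (P.cons (P.lf 0 501549 0) (P.cons (P.lf 0 3708 0) P.nil))))) (P.cons (P.cons (P.lf 0 41102934 0) (P.cons (P.lf 0 18212736 0) (P.cons (P.lf 0 1214733 0) (P.cons (P.lf 731133 0 0) P.nil)))) (P.cons (P.cons (P.lf 0 12061134 0) (P.cons (P.lf 0 2262780 0) (P.cons (P.lf 296556 0 0) P.nil))) (P.cons (P.cons (P.lf 2049396 0 0) (P.cons (P.lf 1195722 0 0) P.nil)) (P.cons (P.cons (P.lf 622134 0 0) P.nil) P.nil)))))) 1106487)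
 (EL.cons 8 (TM.mk (P.cons (P.cons (P.lf 63502623 0 0) (P.cons (P.lf 47579376 0 0) (P.cons (P.lf 5360238 0 0) (P.cons (P.lf 0 2202447 0) (P.cons (P.lf 0 342519 0) (P.cons (P.lf 25452 0 0) P.nil)))))) (P.cons (P.cons (P.lf 33082164 0 0) (P.cons (P.lf 20848524 0 0) (P.cons (P.lf 733893 0 0) (P.cons (P.lf 0 749142 0) (P.cons (P.lf 0 85326 0) P.nil))))) (P.cons (P.cons (P.lf 0 11982261 0) (P.cons (P.lf 0 4659810 0) (P.cons (P.lf 0 568608 0) (P.cons (P.lf 221538 0 0) P.nil)))) (P.cons (P.cons (P.lf 0 8898420 0) (P.cons (P.lf 0 2593107 0) (P.cons (P.lf 426 0 0) P.nil))) (P.cons (P.cons (P.lf 0 602283 0) (P.cons (P.lf 175545 0 0) P.nil)) (P.cons (P.cons (P.lf 366609 0 0) P.nil) P.nil)))))) 551895)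
 (EL.cons 11 (TM.mk (P.cons (P.cons (P.lf 0 130458795 0) (P.cons (P.lf 0 38645544 0) (P.cons (P.lf 22775568 0 0) (P.cons (P.lf 4723185 0 0) (P.cons (P.lf 0 754641 0) (P.cons (P.lf 0 128235 0) P.nil)))))) (P.cons (P.cons (P.lf 26427963 0 0) (P.cons (P.lf 497370 0 0) (P.cons (P.lf 0 2988576 0) (P.cons (P.lf 0 322470 0) (P.cons (P.lf 70320 0 0) P.nil))))) (P.cons (P.cons (P.lf 23004681 0 0) (P.cons (P.lf 1444404 0 0) (P.cons (P.lf 0 2825682 0) (P.cons (P.lf 0 368214 0) P.nil)))) (P.cons (P.cons (P.lf 0 1314915 0) (P.cons (P.lf 0 490908 0) (P.cons (P.lf 252033 0 0) P.nil))) (P.cons (P.cons (P.lf 0 1019190 0) (P.cons (P.lf 19989 0 0) P.nil)) (P.cons (P.cons (P.lf 66204 0 0) P.nil) P.nil)))))) 548892)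
 EL.nil)))
noncomputable def S314_343_512_660_27 : EL := (EL.cons 13 (TM.mk (P.lf 0 4294967296 0) 0)
 EL.nil)
noncomputable def S314_343_512_660_28 : EL := (EL.cons 13 (TM.mk (P.cons (P.cons (P.lf 1058173730 0 0) (P.cons (P.lf 477292524 0 0) (P.cons (P.lf 0 31910664 0) (P.lf 0 10636884 0)))) (P.cons (P.cons (P.lf 0 389031863 0) (P.cons (P.lf 0 116008328 0) (P.cons (P.lf 7756044 0 0) (P.lf 2585348 0 0)))) (P.cons (P.cons (P.lf 0 70317099 0) (P.cons (P.lf 2026232 0 0) (P.cons (P.lf 0 135468 0) (P.lf 0 45156 0)))) (P.cons (P.cons (P.lf 7657884 0 0) (P.cons (P.lf 1632336 0 0) (P.cons (P.lf 0 109132 0) P.nil))) (P.cons (P.cons (P.lf 609765 0 0) (P.cons (P.lf 0 120820 0) P.nil)) (P.cons (P.cons (P.lf 0 98766 0) P.nil) P.nil)))))) 74117)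
 EL.nil)
noncomputable def S314_343_512_660_29 : EL := (EL.cons 13 (TM.mk (P.cons (P.cons (P.lf 0 260707839 0) (P.cons (P.lf 0 235186149 0) (P.cons (P.lf 0 37316722 0) (P.cons (P.lf 12333687 0 0) (P.cons (P.lf 2127028 0 0) (P.cons (P.lf 0 158059 0) P.nil)))))) (P.cons (P.cons (P.lf 191695661 0 0) (P.cons (P.lf 143628085 0 0) (P.cons (P.lf 16180984 0 0) (P.cons (P.lf 0 6648543 0) (P.cons (P.lf 0 1033970 0) P.nil))))) (P.cons (P.cons (P.lf 0 589149 0) (P.cons (P.lf 0 6385713 0) (P.cons (P.lf 0 3156829 0) (P.cons (P.lf 621514 0 0) P.nil)))) (P.cons (P.cons (P.lf 0 16511866 0) (P.cons (P.lf 0 5937854 0) (P.cons (P.lf 143650 0 0) P.nil))) (P.cons (P.cons (P.lf 0 64411 0) (P.cons (P.lf 699749 0 0) P.nil)) (P.cons (P.cons (P.lf 409879 0 0) P.nil) P.nil)))))) 1028253)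
 EL.nil)
noncomputable def S314_343_512_660_30 : EL := (EL.cons 13 (TM.mk (P.cons (P.lf 0 2211029524 0) (P.cons (P.lf 0 361618480 0) (P.cons (P.lf 21238980 0 0) (P.cons (P.lf 543904 0 0) (P.cons (P.lf 0 97232 0) (P.cons (P.lf 1560 0 0) P.nil)))))) 512)
 EL.nil)
noncomputable def S314_343_512_660_31 : EL := (EL.cons 13 (TM.mk (P.cons (P.cons (P.lf 544742997 0 0) (P.cons (P.lf 245708008 0 0) (P.cons (P.lf 0 16427463 0) (P.lf 0 5475819 0)))) (P.cons (P.cons (P.lf 0 111177973 0) (P.cons (P.lf 0 19534500 0) (P.cons (P.lf 1306030 0 0) (P.lf 435343 0 0)))) (P.cons (P.cons (P.lf 0 74186554 0) (P.cons (P.lf 0 11084578 0) (P.cons (P.lf 741089 0 0) (P.lf 247029 0 0)))) (P.cons (P.cons (P.lf 0 188373 0) (P.cons (P.lf 1524147 0 0) (P.cons (P.lf 0 101899 0) P.nil))) (P.cons (P.cons (P.lf 1379612 0 0) (P.cons (P.lf 90714 0 0) P.nil)) (P.cons (P.cons (P.lf 0 37660 0) P.nil) P.nil))))))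 113255)
 EL.nil)
noncomputable def S314_343_512_660_32 : EL := (EL.cons 13 (TM.mk (P.cons (P.cons (P.lf 0 134211203 0) (P.cons (P.lf 0 121072754 0) (P.cons (P.lf 0 19210477 0) (P.cons (P.lf 6349325 0 0) (P.cons (P.lf 1094984 0 0) (P.cons (P.lf 0 81368 0) P.nil)))))) (P.cons (P.cons (P.lf 76733528 0 0) (P.cons (P.lf 54137380 0 0) (P.cons (P.lf 5187982 0 0) (P.cons (P.lf 0 2384194 0) (P.cons (P.lf 0 353196 0) P.nil))))) (P.cons (P.cons (P.lf 17125913 0 0) (P.cons (P.lf 9968570 0 0) (P.cons (P.lf 0 78214 0) (P.cons (P.lf 0 300818 0) P.nil)))) (P.cons (P.cons (P.lf 0 9464773 0) (P.cons (P.lf 0 4274900 0) (P.cons (P.lf 0 267132 0) P.nil))) (P.cons (P.cons (P.lf 0 1450653 0) (P.cons (P.lf 0 131650 0) P.nil)) (P.cons (P.cons (P.lf 291742 0 0) P.nil) P.nil)))))) 998522)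
 EL.nil)
noncomputable def S314_343_512_660_33 : EL := (EL.cons 14 (TM.mk (P.lf 8589934592 0 0) 0)
 EL.nil)
noncomputable def S314_343_512_660_34 : EL := (EL.cons 14 (TM.mk (P.cons (P.cons (P.lf 0 2116347460 0) (P.cons (P.lf 0 954585048 0) (P.cons (P.lf 63821328 0 0) (P.lf 21273768 0 0)))) (P.cons (P.cons (P.lf 778063726 0 0) (P.cons (P.lf 232016656 0 0) (P.cons (P.lf 0 15512088 0) (P.lf 0 5170696 0)))) (P.cons (P.cons (P.lf 140634198 0 0) (P.cons (P.lf 0 4052464 0) (P.cons (P.lf 270936 0 0) (P.lf 90312 0 0)))) (P.cons (P.cons (P.lf 0 15315768 0) (P.cons (P.lf 0 3264672 0) (P.cons (P.lf 218264 0 0) P.nil))) (P.cons (P.cons (P.lf 0 1219530 0) (P.cons (P.lf 241640 0 0) P.nil)) (P.cons (P.cons (P.lf 197532 0 0) P.nil) P.nil)))))) 148234)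
 EL.nil)
noncomputable def S314_343_512_660_35 : EL := (EL.cons 14 (TM.mk (P.cons (P.cons (P.lf 521415678 0 0) (P.cons (P.lf 470372298 0 0) (P.cons (P.lf 74633444 0 0) (P.cons (P.lf 0 24667374 0) (P.cons (P.lf 0 4254056 0) (P.cons (P.lf 316118 0 0) P.nil)))))) (P.cons (P.cons (P.lf 0 383391322 0) (P.cons (P.lf 0 287256170 0) (P.cons (P.lf 0 32361968 0) (P.cons (P.lf 13297086 0 0) (P.cons (P.lf 2067940 0 0) P.nil))))) (P.cons (P.cons (P.lf 1178298 0 0) (P.cons (P.lf 12771426 0 0) (P.cons (P.lf 6313658 0 0) (P.cons (P.lf 0 1243028 0) P.nil)))) (P.cons (P.cons (P.lf 33023732 0 0) (P.cons (P.lf 11875708 0 0) (P.cons (P.lf 0 287300 0) P.nil))) (P.cons (P.cons (P.lf 128822 0 0) (P.cons (P.lf 0 1399498 0) P.nil)) (P.cons (P.cons (P.lf 0 819758 0) P.nil) P.nil)))))) 2056506)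
 EL.nil)
noncomputable def S314_343_512_660_36 : EL := (EL.cons 14 (TM.mk (P.cons (P.lf 4422059048 0 0) (P.cons (P.lf 723236960 0 0) (P.cons (P.lf 0 42477960 0) (P.cons (P.lf 0 1087808 0) (P.cons (P.lf 194464 0 0) (P.cons (P.lf 0 3120 0) P.nil)))))) 1024)
 EL.nil)
noncomputable def S314_343_512_660_37 : EL := (EL.cons 14 (TM.mk (P.cons (P.cons (P.lf 0 1089485994 0) (P.cons (P.lf 0 491416016 0) (P.cons (P.lf 32854926 0 0) (P.lf 10951638 0 0)))) (P.cons (P.cons (P.lf 222355946 0 0) (P.cons (P.lf 39069000 0 0) (P.cons (P.lf 0 2612060 0) (P.lf 0 870686 0)))) (P.cons (P.cons (P.lf 148373108 0 0) (P.cons (P.lf 22169156 0 0) (P.cons (P.lf 0 1482178 0) (P.lf 0 494058 0)))) (P.cons (P.cons (P.lf 376746 0 0) (P.cons (P.lf 0 3048294 0) (P.cons (P.lf 203798 0 0) P.nil))) (P.cons (P.cons (P.lf 0 2759224 0) (P.cons (P.lf 0 181428 0) P.nil)) (P.cons (P.cons (P.lf 75320 0 0) P.nil)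 P.nil)))))) 226510)
 EL.nil)
noncomputable def S314_343_512_660_38 : EL := (EL.cons 14 (TM.mk (P.cons (P.cons (P.lf 268422406 0 0) (P.cons (P.lf 242145508 0 0) (P.cons (P.lf 38420954 0 0) (P.cons (P.lf 0 12698650 0) (P.cons (P.lf 0 2189968 0) (P.cons (P.lf 162736 0 0) P.nil)))))) (P.cons (P.cons (P.lf 0 153467056 0) (P.cons (P.lf 0 108274760 0) (P.cons (P.lf 0 10375964 0) (P.cons (P.lf 4768388 0 0) (P.cons (P.lf 706392 0 0) P.nil))))) (P.cons (P.cons (P.lf 0 34251826 0) (P.cons (P.lf 0 19937140 0) (P.cons (P.lf 156428 0 0) (P.cons (P.lf 601636 0 0) P.nil)))) (P.cons (P.cons (P.lf 18929546 0 0) (P.cons (P.lf 8549800 0 0) (P.cons (P.lf 534264 0 0) P.nil))) (P.cons (P.cons (P.lf 2901306 0 0) (P.cons (P.lf 263300 0 0) P.nil)) (P.cons (P.cons (P.lf 0 583484 0) P.nil) P.nil)))))) 1997044)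
 EL.nil)
noncomputable def S314_343_512_660_39 : EL := (EL.cons 14 (TM.mk (P.cons (P.lf 2276455776 0 0) (P.cons (P.lf 744638158 0 0) (P.cons (P.lf 17158640 0 0) (P.cons (P.lf 0 8272934 0) (P.cons (P.lf 227096 0 0) (P.cons (P.lf 40292 0 0) P.nil)))))) 3922)
 EL.nil)
noncomputable def S314_343_512_660_40 : EL := (EL.cons 14 (TM.mk (P.cons (P.cons (P.lf 0 560862406 0) (P.cons (P.lf 0 252978718 0) (P.cons (P.lf 16913566 0 0) (P.lf 5637852 0 0)))) (P.cons (P.cons (P.lf 22737610 0 0) (P.cons (P.lf 0 21262652 0) (P.cons (P.lf 1421572 0 0) (P.lf 473856 0 0)))) (P.cons (P.cons (P.lf 100490848 0 0) (P.cons (P.lf 17132122 0 0) (P.cons (P.lf 0 1145414 0) (P.lf 0 381804 0)))) (P.cons (P.cons (P.lf 11724750 0 0) (P.cons (P.lf 166334 0 0) (P.cons (P.lf 0 11122 0) P.nil))) (P.cons (P.cons (P.lf 0 2175254 0) (P.cons (P.lf 0 475752 0) P.nil)) (P.cons (P.cons (P.lf 0 208762 0) P.nil)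 P.nil)))))) 228898)
 EL.nil)
noncomputable def S314_343_512_660_41 : EL := (EL.cons 14 (TM.mk (P.cons (P.cons (P.lf 138182626 0 0) (P.cons (P.lf 124655400 0 0) (P.cons (P.lf 19778932 0 0) (P.cons (P.lf 0 6537206 0) (P.cons (P.lf 0 1127384 0) (P.cons (P.lf 83774 0 0) P.nil)))))) (P.cons (P.cons (P.lf 0 56404082 0) (P.cons (P.lf 0 35351700 0) (P.cons (P.lf 0 2106614 0) (P.cons (P.lf 1385570 0 0) (P.cons (P.lf 179260 0 0) P.nil))))) (P.cons (P.cons (P.lf 0 31881346 0) (P.cons (P.lf 0 20577266 0) (P.cons (P.lf 0 983078 0) (P.cons (P.lf 773994 0 0) P.nil)))) (P.cons (P.cons (P.lf 7585896 0 0) (P.cons (P.lf 3227536 0 0) (P.cons (P.lf 334652 0 0) P.nil))) (P.cons (P.cons (P.lf 3282258 0 0) (P.cons (P.lf 973188 0 0) P.nil)) (P.cons (P.cons (P.lf 0 148938 0) P.nil) P.nil)))))) 1505240)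
 EL.nil)
noncomputable def S314_343_512_660_42 : EL := (EL.cons 14 (TM.mk (P.cons (P.lf 1171909022 0 0) (P.cons (P.lf 575004478 0 0) (P.cons (P.lf 60271372 0 0) (P.cons (P.lf 0 6784766 0) (P.cons (P.lf 0 707252 0) (P.cons (P.lf 94630 0 0) P.nil)))))) 9404)
 EL.nil)
noncomputable def S314_343_512_660_43 : EL := (EL.cons 14 (TM.mk (P.cons (P.cons (P.lf 0 288729402 0) (P.cons (P.lf 0 130232286 0) (P.cons (P.lf 8707026 0 0) (P.lf 2902340 0 0)))) (P.cons (P.cons (P.lf 0 35517076 0) (P.cons (P.lf 0 32245676 0) (P.cons (P.lf 2155870 0 0) (P.lf 718622 0 0)))) (P.cons (P.cons (P.lf 56420154 0 0) (P.cons (P.lf 8280312 0 0) (P.cons (P.lf 0 553602 0) (P.lf 0 184534 0)))) (P.cons (P.cons (P.lf 14455348 0 0) (P.cons (P.lf 1665264 0 0) (P.cons (P.lf 0 111336 0) P.nil))) (P.cons (P.cons (P.lf 0 645148 0) (P.cons (P.lf 0 318664 0) P.nil)) (P.cons (P.cons (P.lf 0 360604 0) P.nil) P.nil))))))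 279920)
 EL.nil)
noncomputable def S314_343_512_660_44 : EL := (EL.cons 14 (TM.mk (P.cons (P.cons (P.lf 71135784 0 0) (P.cons (P.lf 64172028 0 0) (P.cons (P.lf 10182102 0 0) (P.cons (P.lf 0 3365324 0) (P.cons (P.lf 0 580372 0) (P.cons (P.lf 43126 0 0) P.nil)))))) (P.cons (P.cons (P.lf 0 17402158 0) (P.cons (P.lf 0 7703424 0) (P.cons (P.lf 580828 0 0) (P.cons (P.lf 162878 0 0) (P.cons (P.lf 0 2638 0) P.nil))))) (P.cons (P.cons (P.lf 0 21844686 0) (P.cons (P.lf 0 14185980 0) (P.cons (P.lf 0 781260 0) (P.cons (P.lf 547434 0 0) P.nil)))) (P.cons (P.cons (P.lf 1482330 0 0) (P.cons (P.lf 88030 0 0) (P.cons (P.lf 97418 0 0) P.nil))) (P.cons (P.cons (P.lf 2496320 0 0) (P.cons (P.lf 881792 0 0) P.nil)) (P.cons (P.cons (P.lf 164876 0 0) P.nil) P.nil)))))) 1313086)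
 EL.nil)
noncomputable def S314_343_512_660_45 : EL := (EL.cons 14 (TM.mk (P.cons (P.cons (P.lf 0 128463928 0) (P.cons (P.lf 0 173832152 0) (P.cons (P.lf 0 66785516 0) (P.cons (P.lf 2569638 0 0) (P.cons (P.lf 5508768 0 0) (P.cons (P.lf 396424 0 0) P.nil)))))) (P.cons (P.cons (P.lf 141687210 0 0) (P.cons (P.lf 170067678 0 0) (P.cons (P.lf 55570458 0 0) (P.cons (P.lf 0 4145244 0) (P.cons (P.lf 0 4408546 0) P.nil))))) (P.cons (P.cons (P.lf 0 26480724 0) (P.cons (P.lf 0 32197326 0) (P.cons (P.lf 0 11947434 0) (P.cons (P.lf 363532 0 0) P.nil)))) (P.cons (P.cons (P.lf 0 15236054 0) (P.cons (P.lf 0 10966024 0) (P.cons (P.lf 0 793864 0) P.nil))) (P.cons (P.cons (P.lf 3588350 0 0) (P.cons (P.lf 3112462 0 0) P.nil)) (P.cons (P.cons (P.lf 818620 0 0) P.nil) P.nil)))))) 6098186)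
 EL.nil)
noncomputable def S314_343_512_660_46 : EL := (EL.cons 15 (TM.mk (P.lf 4294967296 0 0) 0)
 EL.nil)
noncomputable def S314_343_512_660_47 : EL := (EL.cons 15 (TM.mk (P.cons (P.cons (P.lf 0 1058173730 0) (P.cons (P.lf 0 477292524 0) (P.cons (P.lf 31910664 0 0) (P.lf 10636884 0 0)))) (P.cons (P.cons (P.lf 389031863 0 0) (P.cons (P.lf 116008328 0 0) (P.cons (P.lf 0 7756044 0) (P.lf 0 2585348 0)))) (P.cons (P.cons (P.lf 70317099 0 0) (P.cons (P.lf 0 2026232 0) (P.cons (P.lf 135468 0 0) (P.lf 45156 0 0)))) (P.cons (P.cons (P.lf 0 7657884 0) (P.cons (P.lf 0 1632336 0) (P.cons (P.lf 109132 0 0) P.nil))) (P.cons (P.cons (P.lf 0 609765 0) (P.cons (P.lf 120820 0 0) P.nil)) (P.cons (P.cons (P.lf 98766 0 0) P.nil) P.nil)))))) 74117)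
 EL.nil)
noncomputable def S314_343_512_660_48 : EL := (EL.cons 15 (TM.mk (P.cons (P.cons (P.lf 260707839 0 0) (P.cons (P.lf 235186149 0 0) (P.cons (P.lf 37316722 0 0) (P.cons (P.lf 0 12333687 0) (P.cons (P.lf 0 2127028 0) (P.cons (P.lf 158059 0 0) P.nil)))))) (P.cons (P.cons (P.lf 0 191695661 0) (P.cons (P.lf 0 143628085 0) (P.cons (P.lf 0 16180984 0) (P.cons (P.lf 6648543 0 0) (P.cons (P.lf 1033970 0 0) P.nil))))) (P.cons (P.cons (P.lf 589149 0 0) (P.cons (P.lf 6385713 0 0) (P.cons (P.lf 3156829 0 0) (P.cons (P.lf 0 621514 0) P.nil)))) (P.cons (P.cons (P.lf 16511866 0 0) (P.cons (P.lf 5937854 0 0) (P.cons (P.lf 0 143650 0) P.nil))) (P.cons (P.cons (P.lf 64411 0 0) (P.cons (P.lf 0 699749 0) P.nil)) (P.cons (P.cons (P.lf 0 409879 0) P.nil) P.nil)))))) 1028253)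
 EL.nil)
noncomputable def S314_343_512_660 : SL := (SL.cons S314_343_512_660_0 (SL.cons S314_343_512_660_1 (SL.cons S314_343_512_660_2 (SL.cons S314_343_512_660_3 (SL.cons S314_343_512_660_4 (SL.cons S314_343_512_660_5 (SL.cons S314_343_512_660_6 (SL.cons S314_343_512_660_7 (SL.cons S314_343_512_660_8 (SL.cons S314_343_512_660_9 (SL.cons S314_343_512_660_10 (SL.cons S314_343_512_660_11 (SL.cons S314_343_512_660_12 (SL.cons S314_343_512_660_13 (SL.cons S314_343_512_660_14 (SL.cons S314_343_512_660_15 (SL.cons S314_343_512_660_16 (SL.cons S314_343_512_660_17 (SL.cons S314_343_512_660_18 (SL.cons S314_343_512_660_19 (SL.cons S314_343_512_660_20 (SL.cons S314_343_512_660_21 (SL.cons S314_343_512_660_22 (SL.cons S314_343_512_660_23 (SL.cons S314_343_512_660_24 (SL.cons S314_343_512_660_25 (SL.cons S314_343_512_660_26 (SL.cons S314_343_512_660_27 (SL.cons S314_343_512_660_28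 (SL.cons S314_343_512_660_29 (SL.cons S314_343_512_660_30 (SL.cons S314_343_512_660_31 (SL.cons S314_343_512_660_32 (SL.cons S314_343_512_660_33 (SL.cons S314_343_512_660_34 (SL.cons S314_343_512_660_35 (SL.cons S314_343_512_660_36 (SL.cons S314_343_512_660_37 (SL.cons S314_343_512_660_38 (SL.cons S314_343_512_660_39 (SL.cons S314_343_512_660_40 (SL.cons S314_343_512_660_41 (SL.cons S314_343_512_660_42 (SL.cons S314_343_512_660_43 (SL.cons S314_343_512_660_44 (SL.cons S314_343_512_660_45 (SL.cons S314_343_512_660_46 (SL.cons S314_343_512_660_47 (SL.cons S314_343_512_660_48 SL.nil)))))))))))))))))))))))))))))))))))))))))))))))))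
theorem S314_343_290_364_ok : band (seq (shp 5 314 343 290 364) S314_343_290_364) (sok S314_343_290_364) = true := by decide +kernel

theorem S314_343_364_438_ok : band (seq (shp 5 314 343 364 438) S314_343_364_438) (sok S314_343_364_438) = true := by decide +kernel

theorem S314_343_364_512_ok : band (seq (shp 5 314 343 364 512) S314_343_364_512) (sok S314_343_364_512) = true := by decide +kernel

theorem S314_343_438_512_ok : band (seq (shp 5 314 343 438 512) S314_343_438_512) (sok S314_343_438_512) = true := by decide +kernel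

theorem S314_343_512_586_ok : band (seq (shp 5 314 343 512 586) S314_343_512_586) (sok S314_343_512_586) = true := by decide +kernel

theorem S314_343_512_660_ok : band (seq (shp 5 314 343 512 660) S314_343_512_660) (sok S314_343_512_660) = true := by decide +kernel

end Vale.Agent.P098.Ck
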