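import Vale.Agent.P098.CkDefs

namespace Vale.Agent.P098.Ck

noncomputable def S343_357_660_734_0 : EL := (EL.cons 0 (TM.mk (P.cons (P.lf 5473865639 0 0) (P.cons (P.lf 0 316002046 0) (P.cons (P.lf 3185599 0 0) (P.cons (P.lf 616884 0 0) (P.cons (P.lf 0 20293 0) (P.cons (P.lf 0 307 0) P.nil)))))) 186)
 (EL.cons 1 (TM.mk (P.cons (P.lf 1800576853 0 0) (P.cons (P.lf 2374179 0 0) (P.cons (P.lf 0 9884782 0) (P.cons (P.lf 207181 0 0) (P.cons (P.lf 10235 0 0) (P.cons (P.lf 0 526 0) P.nil)))))) 130)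
 (EL.cons 5 (TM.mk (P.cons (P.lf 5355181070 0 0) (P.cons (P.lf 112356282 0 0) (P.cons (P.lf 0 1132662 0) (P.cons (P.lf 0 219336 0) (P.cons (P.lf 7216 0 0) (P.cons (P.lf 108 0 0) P.nil)))))) 99)
 (EL.cons 9 (TM.mk (P.lf 6442450944 0 0) 2)
 EL.nil))))
noncomputable def S343_357_660_734_1 : EL := (EL.cons 0 (TM.mk (P.cons (P.cons (P.lf 3385071800 0 0) (P.cons (P.lf 82472898 0 0) (P.cons (P.lf 0 10620118 0) (P.lf 0 707996 0)))) (P.cons (P.cons (P.lf 703424818 0 0) (P.cons (P.lf 17243716 0 0) (P.cons (P.lf 0 2220502 0) (P.lf 0 148041 0)))) (P.cons (P.cons (P.lf 0 81366429 0) (P.cons (P.lf 0 4498046 0) (P.cons (P.lf 579214 0 0) (P.lf 38611 0 0)))) (P.cons (P.cons (P.lf 0 2677679 0) (P.cons (P.lf 179446 0 0) (P.cons (P.lf 0 23101 0) P.nil))) (P.cons (P.cons (P.lf 534616 0 0) (P.cons (P.lf 16036 0 0) P.nil)) (P.cons (P.cons (P.lf 0 6231 0) P.nil) P.nil)))))) 16505)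
 (EL.cons 1 (TM.mk (P.cons (P.cons (P.lf 0 349023844 0) (P.cons (P.lf 0 44370847 0) (P.cons (P.lf 5713680 0 0) (P.lf 380903 0 0)))) (P.cons (P.cons (P.lf 404721202 0 0) (P.cons (P.lf 19914902 0 0) (P.cons (P.lf 0 2564456 0) (P.lf 0 170951 0)))) (P.cons (P.cons (P.lf 15954582 0 0) (P.cons (P.lf 0 785747 0) (P.cons (P.lf 101176 0 0) (P.lf 6738 0 0)))) (P.cons (P.cons (P.lf 0 4423768 0) (P.cons (P.lf 0 158446 0) (P.cons (P.lf 20400 0 0) P.nil))) (P.cons (P.cons (P.lf 11121 0 0) (P.cons (P.lf 11910 0 0) P.nil)) (P.cons (P.cons (P.lf 17522 0 0) P.nil) P.nil)))))) 8575)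
 (EL.cons 5 (TM.mk (P.cons (P.cons (P.lf 0 2486460706 0) (P.cons (P.lf 0 202775732 0) (P.cons (P.lf 26111650 0 0) (P.lf 1740776 0 0)))) (P.cons (P.cons (P.lf 299847779 0 0) (P.cons (P.lf 20755178 0 0) (P.cons (P.lf 0 2672662 0) (P.lf 0 178176 0)))) (P.cons (P.cons (P.lf 37565140 0 0) (P.cons (P.lf 633674 0 0) (P.cons (P.lf 0 81598 0) (P.lf 0 5434 0)))) (P.cons (P.cons (P.lf 0 1001675 0) (P.cons (P.lf 0 114248 0) (P.cons (P.lf 14708 0 0) P.nil))) (P.cons (P.cons (P.lf 0 167017 0) (P.cons (P.lf 0 1430 0) P.nil)) (P.cons (P.cons (P.lf 5512 0 0) P.nil) P.nil)))))) 7342)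
 (EL.cons 9 (TM.mk (P.cons (P.cons (P.lf 0 1131952600 0) (P.cons (P.lf 0 153045906 0) (P.cons (P.lf 19707888 0 0) (P.lf 1313856 0 0)))) (P.cons (P.cons (P.lf 485253855 0 0) (P.cons (P.lf 23723184 0 0) (P.cons (P.lf 0 3054858 0) (P.lf 0 203652 0)))) (P.cons (P.cons (P.lf 7618986 0 0) (P.cons (P.lf 0 852024 0) (P.cons (P.lf 109710 0 0) (P.lf 7308 0 0)))) (P.cons (P.cons (P.lf 0 1723873 0) (P.cons (P.lf 0 44508 0) (P.cons (P.lf 5730 0 0) P.nil))) (P.cons (P.cons (P.lf 20350 0 0) (P.cons (P.lf 3762 0 0) P.nil)) (P.cons (P.cons (P.lf 2902 0 0) P.nil) P.nil)))))) 1984)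
 (EL.cons 2 (TM.mk (P.cons (P.cons (P.lf 0 546380277 0) (P.cons (P.lf 155979222 0 0) (P.cons (P.lf 11666992 0 0) (P.cons (P.lf 0 786183 0) (P.lf 0 39307 0))))) (P.cons (P.cons (P.lf 27510480 0 0) (P.cons (P.lf 0 7853616 0) (P.cons (P.lf 0 587435 0) (P.cons (P.lf 39583 0 0) (P.lf 1977 0 0))))) (P.cons (P.cons (P.lf 3481472 0 0) (P.cons (P.lf 0 993881 0) (P.cons (P.lf 0 74340 0) (P.cons (P.lf 5009 0 0) P.nil)))) (P.cons (P.cons (P.lf 0 249392 0) (P.cons (P.lf 71195 0 0) (P.cons (P.lf 5324 0 0) P.nil))) (P.cons (P.cons (P.lf 0 2008 0) (P.cons (P.lf 573 0 0) P.nil)) (P.cons (P.cons (P.lf 565 0 0) P.nil) P.nil)))))) 1387)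
 (EL.cons 6 (TM.mk (P.cons (P.cons (P.lf 329929164 0 0) (P.cons (P.lf 0 94187319 0) (P.cons (P.lf 0 7045059 0) (P.cons (P.lf 474732 0 0) (P.lf 23736 0 0))))) (P.cons (P.cons (P.lf 0 51141324 0) (P.cons (P.lf 14599689 0 0) (P.cons (P.lf 1092030 0 0) (P.cons (P.lf 0 73584 0) (P.lf 0 3678 0))))) (P.cons (P.cons (P.lf 1836765 0 0) (P.cons (P.lf 0 524352 0) (P.cons (P.lf 0 39219 0) (P.cons (P.lf 2640 0 0) P.nil)))) (P.cons (P.cons (P.lf 95949 0 0) (P.cons (P.lf 0 27390 0) (P.cons (P.lf 0 2046 0) P.nil))) (P.cons (P.cons (P.lf 0 8112 0) (P.cons (P.lf 2316 0 0) P.nil)) (P.cons (P.cons (P.lf 54 0 0) P.nil) P.nil)))))) 798)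
 EL.nil))))))
noncomputable def S343_357_660_734_2 : EL := (EL.cons 0 (TM.mk (P.cons (P.cons (P.lf 0 1358513993 0) (P.cons (P.lf 0 235507180 0) (P.cons (P.lf 23318960 0 0) (P.cons (P.lf 3826488 0 0) (P.cons (P.lf 4115 0 0) (P.cons (P.lf 0 15490 0) P.nil)))))) (P.cons (P.cons (P.lf 417388499 0 0) (P.cons (P.lf 27183428 0 0) (P.cons (P.lf 0 2576315 0) (P.cons (P.lf 0 471339 0) (P.cons (P.lf 0 535 0) P.nil))))) (P.cons (P.cons (P.lf 105322368 0 0) (P.cons (P.lf 7974695 0 0) (P.cons (P.lf 0 873721 0) (P.cons (P.lf 0 107919 0) P.nil)))) (P.cons (P.cons (P.lf 0 11227251 0) (P.cons (P.lf 0 1287747 0) (P.cons (P.lf 128471 0 0) P.nil))) (P.cons (P.cons (P.lf 0 833457 0) (P.cons (P.lf 0 4496 0) P.nil)) (P.cons (P.cons (P.lf 111868 0 0) P.nil) P.nil)))))) 112093)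
 (EL.cons 1 (TM.mk (P.cons (P.cons (P.lf 67062428 0 0) (P.cons (P.lf 17143771 0 0) (P.cons (P.lf 0 1115623 0) (P.cons (P.lf 0 428403 0) (P.cons (P.lf 0 640 0) (P.cons (P.lf 2412 0 0) P.nil)))))) (P.cons (P.cons (P.lf 0 147213855 0) (P.cons (P.lf 0 26728032 0) (P.cons (P.lf 2482506 0 0) (P.cons (P.lf 476508 0 0) (P.cons (P.lf 559 0 0) P.nil))))) (P.cons (P.cons (P.lf 45437287 0 0) (P.cons (P.lf 4598877 0 0) (P.cons (P.lf 0 426193 0) (P.cons (P.lf 0 82219 0) P.nil)))) (P.cons (P.cons (P.lf 4331428 0 0) (P.cons (P.lf 175353 0 0) (P.cons (P.lf 0 26222 0) P.nil))) (P.cons (P.cons (P.lf 0 722812 0) (P.cons (P.lf 0 71244 0) P.nil)) (P.cons (P.cons (P.lf 0 18689 0) P.nil) P.nil)))))) 54801)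
 (EL.cons 5 (TM.mk (P.cons (P.cons (P.lf 708431929 0 0) (P.cons (P.lf 144687678 0 0) (P.cons (P.lf 0 12019511 0) (P.cons (P.lf 0 2944983 0) (P.cons (P.lf 0 3874 0) (P.cons (P.lf 14613 0 0) P.nil)))))) (P.cons (P.cons (P.lf 0 341661149 0) (P.cons (P.lf 0 45242437 0) (P.cons (P.lf 4219932 0 0) (P.cons (P.lf 802000 0 0) (P.cons (P.lf 933 0 0) P.nil))))) (P.cons (P.cons (P.lf 941015 0 0) (P.cons (P.lf 1143853 0 0) (P.cons (P.lf 0 56876 0) (P.cons (P.lf 0 33111 0) P.nil)))) (P.cons (P.cons (P.lf 5979233 0 0) (P.cons (P.lf 486537 0 0) (P.cons (P.lf 0 54077 0) P.nil))) (P.cons (P.cons (P.lf 4125 0 0) (P.cons (P.lf 0 25268 0) P.nil)) (P.cons (P.cons (P.lf 0 42069 0) P.nil) P.nil)))))) 52520)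
 (EL.cons 9 (TM.mk (P.cons (P.cons (P.lf 198886525 0 0) (P.cons (P.lf 53780994 0 0) (P.cons (P.lf 0 3289701 0) (P.cons (P.lf 0 1398049 0) (P.cons (P.lf 0 2134 0) (P.cons (P.lf 8037 0 0) P.nil)))))) (P.cons (P.cons (P.lf 0 170520309 0) (P.cons (P.lf 0 31391665 0) (P.cons (P.lf 2915208 0 0) (P.cons (P.lf 559770 0 0) (P.cons (P.lf 661 0 0) P.nil))))) (P.cons (P.cons (P.lf 33872611 0 0) (P.cons (P.lf 3511135 0 0) (P.cons (P.lf 0 324292 0) (P.cons (P.lf 0 63061 0) P.nil)))) (P.cons (P.cons (P.lf 1753519 0 0) (P.cons (P.lf 25303 0 0) (P.cons (P.lf 0 7419 0) P.nil))) (P.cons (P.cons (P.lf 0 257829 0) (P.cons (P.lf 0 23704 0) P.nil)) (P.cons (P.cons (P.lf 0 2031 0) P.nil) P.nil)))))) 19748)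
 (EL.cons 2 (TM.mk (P.cons (P.cons (P.lf 192000397 0 0) (P.cons (P.lf 0 28852318 0) (P.cons (P.lf 0 14853493 0) (P.cons (P.lf 453391 0 0) (P.cons (P.lf 186165 0 0) (P.cons (P.lf 1811 0 0) P.nil)))))) (P.cons (P.cons (P.lf 0 91975455 0) (P.cons (P.lf 20925945 0 0) (P.cons (P.lf 4172315 0 0) (P.cons (P.lf 0 168716 0) (P.cons (P.lf 0 42007 0) P.nil))))) (P.cons (P.cons (P.lf 1628521 0 0) (P.cons (P.lf 0 283190 0) (P.cons (P.lf 0 110047 0) (P.cons (P.lf 3583 0 0) P.nil)))) (P.cons (P.cons (P.lf 969564 0 0) (P.cons (P.lf 0 239023 0) (P.cons (P.lf 0 36343 0) P.nil))) (P.cons (P.cons (P.lf 0 46800 0) (P.cons (P.lf 9680 0 0) P.nil)) (P.cons (P.cons (P.lf 0 3268 0) P.nil) P.nil)))))) 18393)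
 (EL.cons 6 (TM.mk (P.cons (P.cons (P.lf 0 115938534 0) (P.cons (P.lf 17422332 0 0) (P.cons (P.lf 8969208 0 0) (P.cons (P.lf 0 273780 0) (P.cons (P.lf 0 112410 0) (P.cons (P.lf 0 1092 0) P.nil)))))) (P.cons (P.cons (P.lf 67672674 0 0) (P.cons (P.lf 0 14459394 0) (P.cons (P.lf 0 3458118 0) (P.cons (P.lf 130530 0 0) (P.cons (P.lf 37128 0 0) P.nil))))) (P.cons (P.cons (P.lf 0 7569144 0) (P.cons (P.lf 1609644 0 0) (P.cons (P.lf 389946 0 0) (P.cons (P.lf 0 14646 0) P.nil)))) (P.cons (P.cons (P.lf 0 54546 0) (P.cons (P.lf 33504 0 0) (P.cons (P.lf 0 6264 0) P.nil))) (P.cons (P.cons (P.lf 51102 0 0) (P.cons (P.lf 0 12888 0) P.nil)) (P.cons (P.cons (P.lf 0 2022 0) P.nil) P.nil)))))) 13602)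
 EL.nil))))))
noncomputable def S343_357_660_734_3 : EL := (EL.cons 0 (TM.mk (P.cons (P.lf 2981851224 0 0) (P.cons (P.lf 316002046 0 0) (P.cons (P.lf 0 3185599 0) (P.cons (P.lf 0 616884 0) (P.cons (P.lf 20293 0 0) (P.cons (P.lf 307 0 0) P.nil)))))) 186)
 (EL.cons 1 (TM.mk (P.cons (P.lf 0 1800576853 0) (P.cons (P.lf 0 2374179 0) (P.cons (P.lf 9884782 0 0) (P.cons (P.lf 0 207181 0) (P.cons (P.lf 0 10235 0) (P.cons (P.lf 526 0 0) P.nil)))))) 130)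
 (EL.cons 5 (TM.mk (P.cons (P.lf 1087269874 0 0) (P.cons (P.lf 0 112356282 0) (P.cons (P.lf 1132662 0 0) (P.cons (P.lf 219336 0 0) (P.cons (P.lf 0 7216 0) (P.cons (P.lf 0 108 0) P.nil)))))) 92)
 EL.nil)))
noncomputable def S343_357_660_734_4 : EL := (EL.cons 0 (TM.mk (P.cons (P.cons (P.lf 0 523917724 0) (P.cons (P.lf 0 70836412 0) (P.cons (P.lf 9121681 0 0) (P.lf 608109 0 0)))) (P.cons (P.cons (P.lf 169074699 0 0) (P.cons (P.lf 3473240 0 0) (P.cons (P.lf 0 447250 0) (P.lf 0 29814 0)))) (P.cons (P.cons (P.lf 27887807 0 0) (P.cons (P.lf 844943 0 0) (P.cons (P.lf 0 108806 0) (P.lf 0 7256 0)))) (P.cons (P.cons (P.lf 0 555728 0) (P.cons (P.lf 0 59466 0) (P.cons (P.lf 7655 0 0) P.nil))) (P.cons (P.cons (P.lf 0 128933 0) (P.cons (P.lf 0 2773 0) P.nil)) (P.cons (P.cons (P.lf 3937 0 0) P.nil) P.nil)))))) 3193)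
 (EL.cons 1 (TM.mk (P.cons (P.cons (P.lf 316365256 0 0) (P.cons (P.lf 42774234 0 0) (P.cons (P.lf 0 5508084 0) (P.lf 0 367203 0)))) (P.cons (P.cons (P.lf 0 135204660 0) (P.cons (P.lf 0 6573903 0) (P.cons (P.lf 846526 0 0) (P.lf 56431 0 0)))) (P.cons (P.cons (P.lf 0 4045005 0) (P.cons (P.lf 0 5433 0) (P.cons (P.lf 699 0 0) (P.lf 46 0 0)))) (P.cons (P.cons (P.lf 1259926 0 0) (P.cons (P.lf 54073 0 0) (P.cons (P.lf 0 6961 0) P.nil))) (P.cons (P.cons (P.lf 0 7168 0) (P.cons (P.lf 0 2861 0) P.nil)) (P.cons (P.cons (P.lf 0 4571 0) P.nil) P.nil)))))) 2010)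
 (EL.cons 5 (TM.mk (P.cons (P.cons (P.lf 0 191035674 0) (P.cons (P.lf 0 25829020 0) (P.cons (P.lf 3326030 0 0) (P.lf 221734 0 0)))) (P.cons (P.cons (P.lf 101635834 0 0) (P.cons (P.lf 6672796 0 0) (P.cons (P.lf 0 859262 0) (P.lf 0 57282 0)))) (P.cons (P.cons (P.lf 0 7376002 0) (P.cons (P.lf 0 584432 0) (P.cons (P.lf 75256 0 0) (P.lf 5014 0 0)))) (P.cons (P.cons (P.lf 0 377030 0) (P.cons (P.lf 6308 0 0) (P.cons (P.lf 0 812 0) P.nil))) (P.cons (P.cons (P.lf 52626 0 0) (P.cons (P.lf 2240 0 0) P.nil)) (P.cons (P.cons (P.lf 0 432 0) P.nil) P.nil)))))) 1260)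
 EL.nil)))
noncomputable def S343_357_660_734_5 : EL := (EL.cons 0 (TM.mk (P.cons (P.cons (P.lf 92053478 0 0) (P.cons (P.lf 24892221 0 0) (P.cons (P.lf 0 1522618 0) (P.cons (P.lf 0 647078 0) (P.cons (P.lf 0 987 0) (P.cons (P.lf 3719 0 0) P.nil)))))) (P.cons (P.cons (P.lf 0 69168960 0) (P.cons (P.lf 0 11891494 0) (P.cons (P.lf 1187926 0 0) (P.cons (P.lf 190511 0 0) (P.cons (P.lf 200 0 0) P.nil))))) (P.cons (P.cons (P.lf 7215382 0 0) (P.cons (P.lf 58754 0 0) (P.cons (P.lf 0 5479 0) (P.cons (P.lf 0 1038 0) P.nil)))) (P.cons (P.cons (P.lf 2538328 0 0) (P.cons (P.lf 194305 0 0) (P.cons (P.lf 0 20466 0) P.nil))) (P.cons (P.cons (P.lf 0 33118 0) (P.cons (P.lf 0 8289 0) P.nil)) (P.cons (P.cons (P.lf 0 18223 0) P.nil) P.nil)))))) 17262)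
 (EL.cons 1 (TM.mk (P.cons (P.cons (P.lf 0 55586060 0) (P.cons (P.lf 0 15031050 0) (P.cons (P.lf 919425 0 0) (P.cons (P.lf 390735 0 0) (P.cons (P.lf 596 0 0) (P.cons (P.lf 0 2244 0) P.nil)))))) (P.cons (P.cons (P.lf 47584798 0 0) (P.cons (P.lf 8753720 0 0) (P.cons (P.lf 0 813547 0) (P.cons (P.lf 0 155932 0) (P.cons (P.lf 0 181 0) P.nil))))) (P.cons (P.cons (P.lf 0 9098934 0) (P.cons (P.lf 0 887227 0) (P.cons (P.lf 84511 0 0) (P.cons (P.lf 15271 0 0) P.nil)))) (P.cons (P.cons (P.lf 0 770595 0) (P.cons (P.lf 0 58260 0) (P.cons (P.lf 6770 0 0) P.nil))) (P.cons (P.cons (P.lf 128551 0 0) (P.cons (P.lf 12926 0 0) P.nil)) (P.cons (P.cons (P.lf 2550 0 0) P.nil) P.nil)))))) 10797)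
 (EL.cons 5 (TM.mk (P.cons (P.cons (P.lf 33565380 0 0) (P.cons (P.lf 9076428 0 0) (P.cons (P.lf 0 555190 0) (P.cons (P.lf 0 235942 0) (P.cons (P.lf 0 360 0) (P.cons (P.lf 1356 0 0) P.nil)))))) (P.cons (P.cons (P.lf 0 32246692 0) (P.cons (P.lf 0 6235800 0) (P.cons (P.lf 549360 0 0) (P.cons (P.lf 118850 0 0) (P.cons (P.lf 148 0 0) P.nil))))) (P.cons (P.cons (P.lf 8725400 0 0) (P.cons (P.lf 1149486 0 0) (P.cons (P.lf 0 106148 0) (P.cons (P.lf 0 20650 0) P.nil)))) (P.cons (P.cons (P.lf 0 318010 0) (P.cons (P.lf 0 60650 0) (P.cons (P.lf 4802 0 0) P.nil))) (P.cons (P.cons (P.lf 0 74166 0) (P.cons (P.lf 0 4952 0) P.nil)) (P.cons (P.cons (P.lf 5802 0 0) P.nil) P.nil)))))) 6684)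
 EL.nil)))
noncomputable def S343_357_660_734_6 : EL := (EL.cons 12 (TM.mk (P.lf 8589934592 0 0) 0)
 (EL.cons 3 (TM.mk (P.cons (P.lf 2530509187 0 0) (P.cons (P.lf 134085510 0 0) (P.cons (P.lf 0 4904141 0) (P.cons (P.lf 0 1897 0) (P.cons (P.lf 3960 0 0) (P.cons (P.lf 0 82 0) P.nil)))))) 63)
 (EL.cons 7 (TM.mk (P.cons (P.lf 0 1528036085 0) (P.cons (P.lf 78952088 0 0) (P.cons (P.lf 1243772 0 0) (P.cons (P.lf 0 89863 0) (P.cons (P.lf 935 0 0) (P.cons (P.lf 52 0 0) P.nil)))))) 47)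
 EL.nil)))
noncomputable def S343_357_660_734_7 : EL := (EL.cons 12 (TM.mk (P.cons (P.cons (P.lf 0 1509270134 0) (P.cons (P.lf 0 204061208 0) (P.cons (P.lf 26277184 0 0) (P.lf 1751808 0 0)))) (P.cons (P.cons (P.lf 647005140 0 0) (P.cons (P.lf 31630912 0 0) (P.cons (P.lf 0 4073144 0) (P.lf 0 271536 0)))) (P.cons (P.cons (P.lf 10158648 0 0) (P.cons (P.lf 0 1136032 0) (P.cons (P.lf 146280 0 0) (P.lf 9744 0 0)))) (P.cons (P.cons (P.lf 0 2298498 0) (P.cons (P.lf 0 59344 0) (P.cons (P.lf 7640 0 0) P.nil))) (P.cons (P.cons (P.lf 27134 0 0) (P.cons (P.lf 5016 0 0) P.nil)) (P.cons (P.cons (P.lf 3870 0 0) P.nil) P.nil)))))) 2620)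
 (EL.cons 3 (TM.mk (P.cons (P.cons (P.lf 3244274761 0 0) (P.cons (P.lf 120228798 0 0) (P.cons (P.lf 0 15481992 0) (P.lf 0 1032128 0)))) (P.cons (P.cons (P.lf 171518959 0 0) (P.cons (P.lf 0 12265672 0) (P.cons (P.lf 1579460 0 0) (P.lf 105292 0 0)))) (P.cons (P.cons (P.lf 0 33004564 0) (P.cons (P.lf 0 551166 0) (P.cons (P.lf 70978 0 0) (P.lf 4736 0 0)))) (P.cons (P.cons (P.lf 788175 0 0) (P.cons (P.lf 106456 0 0) (P.cons (P.lf 0 13706 0) P.nil))) (P.cons (P.cons (P.lf 101518 0 0) (P.cons (P.lf 0 2196 0) P.nil)) (P.cons (P.cons (P.lf 0 5881 0) P.nil) P.nil)))))) 6844)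
 (EL.cons 7 (TM.mk (P.cons (P.cons (P.lf 2440568014 0 0) (P.cons (P.lf 142489297 0 0) (P.cons (P.lf 0 18348505 0) (P.lf 0 1223236 0)))) (P.cons (P.cons (P.lf 100993604 0 0) (P.cons (P.lf 0 7222261 0) (P.cons (P.lf 930018 0 0) (P.lf 62003 0 0)))) (P.cons (P.cons (P.lf 0 14148893 0) (P.cons (P.lf 0 702463 0) (P.cons (P.lf 90455 0 0) (P.lf 6027 0 0)))) (P.cons (P.cons (P.lf 0 747610 0) (P.cons (P.lf 29731 0 0) (P.cons (P.lf 0 3828 0) P.nil))) (P.cons (P.cons (P.lf 60815 0 0) (P.cons (P.lf 2485 0 0) P.nil)) (P.cons (P.cons (P.lf 1059 0 0) P.nil) P.nil)))))) 4813)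
 (EL.cons 10 (TM.mk (P.cons (P.cons (P.lf 0 927357009 0) (P.cons (P.lf 264739470 0 0) (P.cons (P.lf 19802085 0 0) (P.cons (P.lf 0 1334370 0) (P.lf 0 66717 0))))) (P.cons (P.cons (P.lf 95831208 0 0) (P.cons (P.lf 0 27357642 0) (P.cons (P.lf 0 2046306 0) (P.cons (P.lf 137889 0 0) (P.lf 6894 0 0))))) (P.cons (P.cons (P.lf 0 966072 0) (P.cons (P.lf 275790 0 0) (P.cons (P.lf 20628 0 0) (P.cons (P.lf 0 1389 0) P.nil)))) (P.cons (P.cons (P.lf 0 187074 0) (P.cons (P.lf 53406 0 0) (P.cons (P.lf 3993 0 0) P.nil))) (P.cons (P.cons (P.lf 6153 0 0) (P.cons (P.lf 0 1755 0) P.nil)) (P.cons (P.cons (P.lf 90 0 0) P.nil) P.nil)))))) 726)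
 EL.nil))))
noncomputable def S343_357_660_734_8 : EL := (EL.cons 12 (TM.mk (P.cons (P.cons (P.lf 265182034 0 0) (P.cons (P.lf 71707992 0 0) (P.cons (P.lf 0 4386268 0) (P.cons (P.lf 0 1864066 0) (P.cons (P.lf 0 2846 0) (P.cons (P.lf 10716 0 0) P.nil)))))) (P.cons (P.cons (P.lf 0 227360412 0) (P.cons (P.lf 0 41855554 0) (P.cons (P.lf 3886944 0 0) (P.cons (P.lf 746360 0 0) (P.cons (P.lf 882 0 0) P.nil))))) (P.cons (P.cons (P.lf 45163482 0 0) (P.cons (P.lf 4681514 0 0) (P.cons (P.lf 0 432390 0) (P.cons (P.lf 0 84082 0) P.nil)))) (P.cons (P.cons (P.lf 2338026 0 0) (P.cons (P.lf 33738 0 0) (P.cons (P.lf 0 9892 0) P.nil))) (P.cons (P.cons (P.lf 0 343772 0) (P.cons (P.lf 0 31606 0) P.nil)) (P.cons (P.cons (P.lf 0 2708 0) P.nil) P.nil)))))) 26302)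
 (EL.cons 3 (TM.mk (P.cons (P.cons (P.lf 0 1218172203 0) (P.cons (P.lf 0 217514399 0) (P.cons (P.lf 20869222 0 0) (P.cons (P.lf 3706233 0 0) (P.cons (P.lf 4190 0 0) (P.cons (P.lf 0 15786 0) P.nil)))))) (P.cons (P.cons (P.lf 491292277 0 0) (P.cons (P.lf 49376463 0 0) (P.cons (P.lf 0 4522998 0) (P.cons (P.lf 0 896530 0) (P.cons (P.lf 0 1076 0) P.nil))))) (P.cons (P.cons (P.lf 35505203 0 0) (P.cons (P.lf 0 81361 0) (P.cons (P.lf 0 109463 0) (P.cons (P.lf 31572 0 0) P.nil)))) (P.cons (P.cons (P.lf 0 8102876 0) (P.cons (P.lf 0 691393 0) (P.cons (P.lf 79608 0 0) P.nil))) (P.cons (P.cons (P.lf 24086 0 0) (P.cons (P.lf 45370 0 0) P.nil)) (P.cons (P.cons (P.lf 48509 0 0) P.nil) P.nil)))))) 62469)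
 (EL.cons 7 (TM.mk (P.cons (P.cons (P.lf 0 810453794 0) (P.cons (P.lf 0 153270986 0) (P.cons (P.lf 13829293 0 0) (P.cons (P.lf 2837234 0 0) (P.cons (P.lf 3470 0 0) (P.cons (P.lf 0 13060 0) P.nil)))))) (P.cons (P.cons (P.lf 289282202 0 0) (P.cons (P.lf 29073795 0 0) (P.cons (P.lf 0 2663229 0) (P.cons (P.lf 0 527894 0) (P.cons (P.lf 0 633 0) P.nil))))) (P.cons (P.cons (P.lf 36043773 0 0) (P.cons (P.lf 1473472 0 0) (P.cons (P.lf 0 203815 0) (P.cons (P.lf 0 9023 0) P.nil)))) (P.cons (P.cons (P.lf 0 2899438 0) (P.cons (P.lf 0 368934 0) (P.cons (P.lf 38577 0 0) P.nil))) (P.cons (P.cons (P.lf 0 297674 0) (P.cons (P.lf 0 3541 0) P.nil)) (P.cons (P.cons (P.lf 20259 0 0) P.nil) P.nil)))))) 33477)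
 (EL.cons 10 (TM.mk (P.cons (P.cons (P.lf 325877274 0 0) (P.cons (P.lf 0 48970284 0) (P.cons (P.lf 0 25210452 0) (P.cons (P.lf 769536 0 0) (P.cons (P.lf 315972 0 0) (P.cons (P.lf 3078 0 0) P.nil)))))) (P.cons (P.cons (P.lf 0 173374992 0) (P.cons (P.lf 38111880 0 0) (P.cons (P.lf 8417406 0 0) (P.cons (P.lf 0 327132 0) (P.cons (P.lf 0 88044 0) P.nil))))) (P.cons (P.cons (P.lf 12582318 0 0) (P.cons (P.lf 0 2595012 0) (P.cons (P.lf 0 681654 0) (P.cons (P.lf 24906 0 0) P.nil)))) (P.cons (P.cons (P.lf 643152 0 0) (P.cons (P.lf 0 194364 0) (P.cons (P.lf 0 9270 0) P.nil))) (P.cons (P.cons (P.lf 0 89772 0) (P.cons (P.lf 21804 0 0) P.nil)) (P.cons (P.cons (P.lf 738 0 0) P.nil) P.nil)))))) 26484)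
 EL.nil))))
noncomputable def S343_357_660_734_9 : EL := (EL.cons 3 (TM.mk (P.cons (P.lf 2530509187 0 0) (P.cons (P.lf 134085510 0 0) (P.cons (P.lf 0 4904141 0) (P.cons (P.lf 0 1897 0) (P.cons (P.lf 3960 0 0) (P.cons (P.lf 0 82 0) P.nil)))))) 63)
 (EL.cons 7 (TM.mk (P.cons (P.lf 0 1528036085 0) (P.cons (P.lf 78952088 0 0) (P.cons (P.lf 1243772 0 0) (P.cons (P.lf 0 89863 0) (P.cons (P.lf 935 0 0) (P.cons (P.lf 52 0 0) P.nil)))))) 47)
 EL.nil))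
noncomputable def S343_357_660_734_10 : EL := (EL.cons 3 (TM.mk (P.cons (P.cons (P.lf 0 444615950 0) (P.cons (P.lf 0 60114399 0) (P.cons (P.lf 7740996 0 0) (P.lf 516064 0 0)))) (P.cons (P.cons (P.lf 167042155 0 0) (P.cons (P.lf 6132836 0 0) (P.cons (P.lf 0 789730 0) (P.lf 0 52646 0)))) (P.cons (P.cons (P.lf 13953800 0 0) (P.cons (P.lf 275583 0 0) (P.cons (P.lf 0 35489 0) (P.lf 0 2368 0)))) (P.cons (P.cons (P.lf 0 887595 0) (P.cons (P.lf 0 53228 0) (P.cons (P.lf 6853 0 0) P.nil))) (P.cons (P.cons (P.lf 0 34523 0) (P.cons (P.lf 1098 0 0) P.nil)) (P.cons (P.cons (P.lf 3185 0 0) P.nil) P.nil)))))) 1626)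
 (EL.cons 7 (TM.mk (P.cons (P.cons (P.lf 268479253 0 0) (P.cons (P.lf 36299797 0 0) (P.cons (P.lf 0 4674364 0) (P.lf 0 311623 0)))) (P.cons (P.cons (P.lf 0 128965735 0) (P.cons (P.lf 0 7502296 0) (P.cons (P.lf 966078 0 0) (P.lf 64403 0 0)))) (P.cons (P.cons (P.lf 3921151 0 0) (P.cons (P.lf 463265 0 0) (P.cons (P.lf 0 59653 0) (P.lf 0 3975 0)))) (P.cons (P.cons (P.lf 611714 0 0) (P.cons (P.lf 6829 0 0) (P.cons (P.lf 0 879 0) P.nil))) (P.cons (P.cons (P.lf 0 31414 0) (P.cons (P.lf 0 1955 0) P.nil)) (P.cons (P.cons (P.lf 0 816 0) P.nil) P.nil)))))) 957)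
 EL.nil))
noncomputable def S343_357_660_734_11 : EL := (EL.cons 3 (TM.mk (P.cons (P.cons (P.lf 78119985 0 0) (P.cons (P.lf 21124459 0 0) (P.cons (P.lf 0 1292150 0) (P.cons (P.lf 0 549135 0) (P.cons (P.lf 0 838 0) (P.cons (P.lf 3156 0 0) P.nil)))))) (P.cons (P.cons (P.lf 0 62838725 0) (P.cons (P.lf 0 11210895 0) (P.cons (P.lf 1076586 0 0) (P.cons (P.lf 190772 0 0) (P.cons (P.lf 214 0 0) P.nil))))) (P.cons (P.cons (P.lf 9604307 0 0) (P.cons (P.lf 684839 0 0) (P.cons (P.lf 0 64199 0) (P.cons (P.lf 0 12054 0) P.nil)))) (P.cons (P.cons (P.lf 1523488 0 0) (P.cons (P.lf 106895 0 0) (P.cons (P.lf 0 11880 0) P.nil))) (P.cons (P.cons (P.lf 0 90388 0) (P.cons (P.lf 0 11414 0) P.nil)) (P.cons (P.cons (P.lf 0 7615 0) P.nil) P.nil)))))) 11429)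
 (EL.cons 7 (TM.mk (P.cons (P.cons (P.lf 0 47172386 0) (P.cons (P.lf 0 12755906 0) (P.cons (P.lf 780259 0 0) (P.cons (P.lf 331592 0 0) (P.cons (P.lf 506 0 0) (P.cons (P.lf 0 1906 0) P.nil)))))) (P.cons (P.cons (P.lf 42881768 0 0) (P.cons (P.lf 8104635 0 0) (P.cons (P.lf 0 731751 0) (P.cons (P.lf 0 149900 0) (P.cons (P.lf 0 183 0) P.nil))))) (P.cons (P.cons (P.lf 0 10085313 0) (P.cons (P.lf 0 1207100 0) (P.cons (P.lf 112007 0 0) (P.cons (P.lf 21547 0 0) P.nil)))) (P.cons (P.cons (P.lf 0 36490 0) (P.cons (P.lf 30216 0 0) (P.cons (P.lf 0 1605 0) P.nil))) (P.cons (P.cons (P.lf 91588 0 0) (P.cons (P.lf 7055 0 0) P.nil)) (P.cons (P.cons (P.lf 0 2835 0) P.nil) P.nil)))))) 6647)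
 EL.nil))
noncomputable def S343_357_660_734_12 : EL := (EL.cons 4 (TM.mk (P.cons (P.lf 0 2530509187 0) (P.cons (P.lf 0 134085510 0) (P.cons (P.lf 4904141 0 0) (P.cons (P.lf 1897 0 0) (P.cons (P.lf 0 3960 0) (P.cons (P.lf 82 0 0) P.nil)))))) 63)
 (EL.cons 8 (TM.mk (P.cons (P.lf 1528036085 0 0) (P.cons (P.lf 0 78952088 0) (P.cons (P.lf 0 1243772 0) (P.cons (P.lf 89863 0 0) (P.cons (P.lf 0 935 0) (P.cons (P.lf 0 52 0) P.nil)))))) 47)
 EL.nil))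
noncomputable def S343_357_660_734_13 : EL := (EL.cons 4 (TM.mk (P.cons (P.cons (P.lf 444615950 0 0) (P.cons (P.lf 60114399 0 0) (P.cons (P.lf 0 7740996 0) (P.lf 0 516064 0)))) (P.cons (P.cons (P.lf 0 167042155 0) (P.cons (P.lf 0 6132836 0) (P.cons (P.lf 789730 0 0) (P.lf 52646 0 0)))) (P.cons (P.cons (P.lf 0 13953800 0) (P.cons (P.lf 0 275583 0) (P.cons (P.lf 35489 0 0) (P.lf 2368 0 0)))) (P.cons (P.cons (P.lf 887595 0 0) (P.cons (P.lf 53228 0 0) (P.cons (P.lf 0 6853 0) P.nil))) (P.cons (P.cons (P.lf 34523 0 0) (P.cons (P.lf 0 1098 0) P.nil)) (P.cons (P.cons (P.lf 0 3185 0) P.nil) P.nil)))))) 1626)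
 (EL.cons 8 (TM.mk (P.cons (P.cons (P.lf 0 268479253 0) (P.cons (P.lf 0 36299797 0) (P.cons (P.lf 4674364 0 0) (P.lf 311623 0 0)))) (P.cons (P.cons (P.lf 128965735 0 0) (P.cons (P.lf 7502296 0 0) (P.cons (P.lf 0 966078 0) (P.lf 0 64403 0)))) (P.cons (P.cons (P.lf 0 3921151 0) (P.cons (P.lf 0 463265 0) (P.cons (P.lf 59653 0 0) (P.lf 3975 0 0)))) (P.cons (P.cons (P.lf 0 611714 0) (P.cons (P.lf 0 6829 0) (P.cons (P.lf 879 0 0) P.nil))) (P.cons (P.cons (P.lf 31414 0 0) (P.cons (P.lf 1955 0 0) P.nil)) (P.cons (P.cons (P.lf 816 0 0) P.nil) P.nil)))))) 957)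
 EL.nil))
noncomputable def S343_357_660_734_14 : EL := (EL.cons 4 (TM.mk (P.cons (P.cons (P.lf 0 78119985 0) (P.cons (P.lf 0 21124459 0) (P.cons (P.lf 1292150 0 0) (P.cons (P.lf 549135 0 0) (P.cons (P.lf 838 0 0) (P.cons (P.lf 0 3156 0) P.nil)))))) (P.cons (P.cons (P.lf 62838725 0 0) (P.cons (P.lf 11210895 0 0) (P.cons (P.lf 0 1076586 0) (P.cons (P.lf 0 190772 0) (P.cons (P.lf 0 214 0) P.nil))))) (P.cons (P.cons (P.lf 0 9604307 0) (P.cons (P.lf 0 684839 0) (P.cons (P.lf 64199 0 0) (P.cons (P.lf 12054 0 0) P.nil)))) (P.cons (P.cons (P.lf 0 1523488 0) (P.cons (P.lf 0 106895 0) (P.cons (P.lf 11880 0 0) P.nil))) (P.cons (P.cons (P.lf 90388 0 0) (P.cons (P.lf 11414 0 0) P.nil)) (P.cons (P.cons (P.lf 7615 0 0) P.nil) P.nil)))))) 11429)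
 (EL.cons 8 (TM.mk (P.cons (P.cons (P.lf 47172386 0 0) (P.cons (P.lf 12755906 0 0) (P.cons (P.lf 0 780259 0) (P.cons (P.lf 0 331592 0) (P.cons (P.lf 0 506 0) (P.cons (P.lf 1906 0 0) P.nil)))))) (P.cons (P.cons (P.lf 0 42881768 0) (P.cons (P.lf 0 8104635 0) (P.cons (P.lf 731751 0 0) (P.cons (P.lf 149900 0 0) (P.cons (P.lf 183 0 0) P.nil))))) (P.cons (P.cons (P.lf 10085313 0 0) (P.cons (P.lf 1207100 0 0) (P.cons (P.lf 0 112007 0) (P.cons (P.lf 0 21547 0) P.nil)))) (P.cons (P.cons (P.lf 36490 0 0) (P.cons (P.lf 0 30216 0) (P.cons (P.lf 1605 0 0) P.nil))) (P.cons (P.cons (P.lf 0 91588 0) (P.cons (P.lf 0 7055 0) P.nil)) (P.cons (P.cons (P.lf 2835 0 0) P.nil) P.nil)))))) 6647)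
 EL.nil))
noncomputable def S343_357_660_734_15 : EL := (EL.cons 4 (TM.mk (P.cons (P.lf 0 1590320653 0) (P.cons (P.lf 0 168534424 0) (P.cons (P.lf 1698986 0 0) (P.cons (P.lf 329005 0 0) (P.cons (P.lf 0 10823 0) (P.cons (P.lf 0 164 0) P.nil)))))) 102)
 (EL.cons 8 (TM.mk (P.cons (P.lf 960307655 0 0) (P.cons (P.lf 1266229 0 0) (P.cons (P.lf 0 5271884 0) (P.cons (P.lf 110497 0 0) (P.cons (P.lf 5459 0 0) (P.cons (P.lf 0 281 0) P.nil)))))) 66)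
 EL.nil))
noncomputable def S343_357_660_734_16 : EL := (EL.cons 4 (TM.mk (P.cons (P.cons (P.lf 279422786 0 0) (P.cons (P.lf 37779420 0 0) (P.cons (P.lf 0 4864896 0) (P.lf 0 324325 0)))) (P.cons (P.cons (P.lf 0 90173173 0) (P.cons (P.lf 0 1852395 0) (P.cons (P.lf 238533 0 0) (P.lf 15900 0 0)))) (P.cons (P.cons (P.lf 0 14873497 0) (P.cons (P.lf 0 450636 0) (P.cons (P.lf 58030 0 0) (P.lf 3870 0 0)))) (P.cons (P.cons (P.lf 296388 0 0) (P.cons (P.lf 31715 0 0) (P.cons (P.lf 0 4082 0) P.nil))) (P.cons (P.cons (P.lf 68764 0 0) (P.cons (P.lf 1479 0 0) P.nil)) (P.cons (P.cons (P.lf 0 2100 0) P.nil) P.nil)))))) 1712)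
 (EL.cons 8 (TM.mk (P.cons (P.cons (P.lf 0 168728137 0) (P.cons (P.lf 0 22812925 0) (P.cons (P.lf 2937645 0 0) (P.lf 195842 0 0)))) (P.cons (P.cons (P.lf 72109152 0 0) (P.cons (P.lf 3506082 0 0) (P.cons (P.lf 0 451481 0) (P.lf 0 30097 0)))) (P.cons (P.cons (P.lf 2157336 0 0) (P.cons (P.lf 2898 0 0) (P.cons (P.lf 0 373 0) (P.lf 0 25 0)))) (P.cons (P.cons (P.lf 0 671961 0) (P.cons (P.lf 0 28839 0) (P.cons (P.lf 3713 0 0) P.nil))) (P.cons (P.cons (P.lf 3823 0 0) (P.cons (P.lf 1526 0 0) P.nil)) (P.cons (P.cons (P.lf 2438 0 0) P.nil) P.nil)))))) 1062)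
 EL.nil))
noncomputable def S343_357_660_734_17 : EL := (EL.cons 4 (TM.mk (P.cons (P.cons (P.lf 0 49095188 0) (P.cons (P.lf 0 13275851 0) (P.cons (P.lf 812063 0 0) (P.cons (P.lf 345108 0 0) (P.cons (P.lf 526 0 0) (P.cons (P.lf 0 1983 0) P.nil)))))) (P.cons (P.cons (P.lf 36890112 0 0) (P.cons (P.lf 6342130 0 0) (P.cons (P.lf 0 633560 0) (P.cons (P.lf 0 101606 0) (P.cons (P.lf 0 106 0) P.nil))))) (P.cons (P.cons (P.lf 0 3848204 0) (P.cons (P.lf 0 31335 0) (P.cons (P.lf 2922 0 0) (P.cons (P.lf 554 0 0) P.nil)))) (P.cons (P.cons (P.lf 0 1353775 0) (P.cons (P.lf 0 103629 0) (P.cons (P.lf 10915 0 0) P.nil))) (P.cons (P.cons (P.lf 17663 0 0) (P.cons (P.lf 4421 0 0) P.nil)) (P.cons (P.cons (P.lf 9719 0 0) P.nil) P.nil)))))) 9217)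
 (EL.cons 8 (TM.mk (P.cons (P.cons (P.lf 29645899 0 0) (P.cons (P.lf 8016560 0 0) (P.cons (P.lf 0 490360 0) (P.cons (P.lf 0 208392 0) (P.cons (P.lf 0 318 0) (P.cons (P.lf 1197 0 0) P.nil)))))) (P.cons (P.cons (P.lf 0 25378559 0) (P.cons (P.lf 0 4668651 0) (P.cons (P.lf 433892 0 0) (P.cons (P.lf 83164 0 0) (P.cons (P.lf 97 0 0) P.nil))))) (P.cons (P.cons (P.lf 4852765 0 0) (P.cons (P.lf 473188 0 0) (P.cons (P.lf 0 45073 0) (P.cons (P.lf 0 8145 0) P.nil)))) (P.cons (P.cons (P.lf 410984 0 0) (P.cons (P.lf 31072 0 0) (P.cons (P.lf 0 3611 0) P.nil))) (P.cons (P.cons (P.lf 0 68561 0) (P.cons (P.lf 0 6894 0) P.nil)) (P.cons (P.cons (P.lf 0 1360 0) P.nil) P.nil)))))) 5747)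
 EL.nil))
noncomputable def S343_357_660_734_18 : EL := (EL.cons 4 (TM.mk (P.cons (P.lf 0 999450937 0) (P.cons (P.lf 0 158875401 0) (P.cons (P.lf 0 2607595 0) (P.cons (P.lf 469360 0 0) (P.cons (P.lf 600 0 0) (P.cons (P.lf 0 997 0) P.nil)))))) 126)
 (EL.cons 8 (TM.mk (P.cons (P.lf 603513753 0 0) (P.cons (P.lf 32774494 0 0) (P.cons (P.lf 0 4440608 0) (P.cons (P.lf 0 108108 0) (P.cons (P.lf 14475 0 0) (P.cons (P.lf 0 145 0) P.nil)))))) 82)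
 EL.nil))
noncomputable def S343_357_660_734_19 : EL := (EL.cons 4 (TM.mk (P.cons (P.cons (P.lf 175605696 0 0) (P.cons (P.lf 23742807 0 0) (P.cons (P.lf 0 3057387 0) (P.lf 0 203824 0)))) (P.cons (P.cons (P.lf 0 47365202 0) (P.cons (P.lf 93918 0 0) (P.cons (P.lf 0 12093 0) (P.lf 0 806 0)))) (P.cons (P.cons (P.lf 0 12690515 0) (P.cons (P.lf 0 390905 0) (P.cons (P.lf 50338 0 0) (P.lf 3356 0 0)))) (P.cons (P.cons (P.lf 0 199330 0) (P.cons (P.lf 7163 0 0) (P.cons (P.lf 0 921 0) P.nil))) (P.cons (P.cons (P.lf 71518 0 0) (P.cons (P.lf 2572 0 0) P.nil)) (P.cons (P.cons (P.lf 520 0 0) P.nil) P.nil)))))) 1719)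
 (EL.cons 8 (TM.mk (P.cons (P.cons (P.lf 0 106038674 0) (P.cons (P.lf 0 14336982 0) (P.cons (P.lf 1846188 0 0) (P.lf 123078 0 0)))) (P.cons (P.cons (P.lf 39698897 0 0) (P.cons (P.lf 1443746 0 0) (P.cons (P.lf 0 185912 0) (P.lf 0 12393 0)))) (P.cons (P.cons (P.lf 3962571 0 0) (P.cons (P.lf 146361 0 0) (P.cons (P.lf 0 18847 0) (P.lf 0 1257 0)))) (P.cons (P.cons (P.lf 0 438206 0) (P.cons (P.lf 0 22287 0) (P.cons (P.lf 2869 0 0) P.nil))) (P.cons (P.cons (P.lf 0 22801 0) (P.cons (P.lf 0 28 0) P.nil)) (P.cons (P.cons (P.lf 2551 0 0) P.nil) P.nil)))))) 1024)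
 EL.nil))
noncomputable def S343_357_660_734_20 : EL := (EL.cons 4 (TM.mk (P.cons (P.cons (P.lf 0 30854301 0) (P.cons (P.lf 0 8343325 0) (P.cons (P.lf 510347 0 0) (P.cons (P.lf 216885 0 0) (P.cons (P.lf 330 0 0) (P.cons (P.lf 0 1245 0) P.nil)))))) (P.cons (P.cons (P.lf 21549019 0 0) (P.cons (P.lf 3543675 0 0) (P.cons (P.lf 0 371124 0) (P.cons (P.lf 0 52363 0) (P.cons (P.lf 0 49 0) P.nil))))) (P.cons (P.cons (P.lf 0 1130182 0) (P.cons (P.lf 207671 0 0) (P.cons (P.lf 0 20250 0) (P.cons (P.lf 0 3454 0) P.nil)))) (P.cons (P.cons (P.lf 0 1023846 0) (P.cons (P.lf 0 73888 0) (P.cons (P.lf 7727 0 0) P.nil))) (P.cons (P.cons (P.lf 0 29358 0) (P.cons (P.lf 0 649 0) P.nil)) (P.cons (P.cons (P.lf 8384 0 0) P.nil) P.nil)))))) 7555)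
 (EL.cons 8 (TM.mk (P.cons (P.cons (P.lf 18631224 0 0) (P.cons (P.lf 5038077 0 0) (P.cons (P.lf 0 308171 0) (P.cons (P.lf 0 130965 0) (P.cons (P.lf 0 199 0) (P.cons (P.lf 752 0 0) P.nil)))))) (P.cons (P.cons (P.lf 0 14962154 0) (P.cons (P.lf 0 2667099 0) (P.cons (P.lf 256354 0 0) (P.cons (P.lf 45325 0 0) (P.cons (P.lf 50 0 0) P.nil))))) (P.cons (P.cons (P.lf 2168536 0 0) (P.cons (P.lf 132147 0 0) (P.cons (P.lf 0 13280 0) (P.cons (P.lf 0 2095 0) P.nil)))) (P.cons (P.cons (P.lf 450782 0 0) (P.cons (P.lf 40967 0 0) (P.cons (P.lf 0 4298 0) P.nil))) (P.cons (P.cons (P.lf 0 35271 0) (P.cons (P.lf 0 3864 0) P.nil)) (P.cons (P.cons (P.lf 0 3666 0) P.nil) P.nil)))))) 4380)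
 EL.nil))
noncomputable def S343_357_660_734_21 : EL := (EL.cons 4 (TM.mk (P.cons (P.cons (P.lf 0 3688890711 0) (P.cons (P.lf 0 180343197 0) (P.cons (P.lf 23222988 0 0) (P.lf 1548192 0 0)))) (P.cons (P.cons (P.lf 0 4476804 0) (P.cons (P.lf 18398508 0 0) (P.cons (P.lf 0 2369190 0) (P.lf 0 157938 0)))) (P.cons (P.cons (P.lf 46958364 0 0) (P.cons (P.lf 826749 0 0) (P.cons (P.lf 0 106467 0) (P.lf 0 7104 0)))) (P.cons (P.cons (P.lf 0 1675770 0) (P.cons (P.lf 0 159684 0) (P.cons (P.lf 20559 0 0) P.nil))) (P.cons (P.cons (P.lf 0 136041 0) (P.cons (P.lf 3294 0 0) P.nil)) (P.cons (P.cons (P.lf 9066 0 0) P.nil) P.nil)))))) 5199)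
 (EL.cons 8 (TM.mk (P.cons (P.cons (P.lf 0 2172088761 0) (P.cons (P.lf 0 106189500 0) (P.cons (P.lf 13674141 0 0) (P.lf 911613 0 0)))) (P.cons (P.cons (P.lf 0 229959339 0) (P.cons (P.lf 0 280035 0) (P.cons (P.lf 36060 0 0) (P.lf 2400 0 0)))) (P.cons (P.cons (P.lf 18070044 0 0) (P.cons (P.lf 1165728 0 0) (P.cons (P.lf 0 150108 0) (P.lf 0 10002 0)))) (P.cons (P.cons (P.lf 1359324 0 0) (P.cons (P.lf 0 22902 0) (P.cons (P.lf 2949 0 0) P.nil))) (P.cons (P.cons (P.lf 0 92229 0) (P.cons (P.lf 0 4440 0) P.nil)) (P.cons (P.cons (P.lf 0 1875 0) P.nil) P.nil)))))) 3837)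
 (EL.cons 11 (TM.mk (P.cons (P.cons (P.lf 927357009 0 0) (P.cons (P.lf 0 264739470 0) (P.cons (P.lf 0 19802085 0) (P.cons (P.lf 1334370 0 0) (P.lf 66717 0 0))))) (P.cons (P.cons (P.lf 0 95831208 0) (P.cons (P.lf 27357642 0 0) (P.cons (P.lf 2046306 0 0) (P.cons (P.lf 0 137889 0) (P.lf 0 6894 0))))) (P.cons (P.cons (P.lf 966072 0 0) (P.cons (P.lf 0 275790 0) (P.cons (P.lf 0 20628 0) (P.cons (P.lf 1389 0 0) P.nil)))) (P.cons (P.cons (P.lf 187074 0 0) (P.cons (P.lf 0 53406 0) (P.cons (P.lf 0 3993 0) P.nil))) (P.cons (P.cons (P.lf 0 6153 0) (P.cons (P.lf 1755 0 0) P.nil)) (P.cons (P.cons (P.lf 0 90 0) P.nil) P.nil)))))) 726)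
 EL.nil)))
noncomputable def S343_357_660_734_22 : EL := (EL.cons 4 (TM.mk (P.cons (P.cons (P.lf 648146094 0 0) (P.cons (P.lf 119319429 0 0) (P.cons (P.lf 0 11080686 0) (P.cons (P.lf 0 2127684 0) (P.cons (P.lf 0 2514 0) (P.cons (P.lf 9471 0 0) P.nil)))))) (P.cons (P.cons (P.lf 0 277065501 0) (P.cons (P.lf 0 30293679 0) (P.cons (P.lf 2799792 0 0) (P.cons (P.lf 543651 0 0) (P.cons (P.lf 645 0 0) P.nil))))) (P.cons (P.cons (P.lf 0 12950448 0) (P.cons (P.lf 383100 0 0) (P.cons (P.lf 22632 0 0) (P.cons (P.lf 0 21813 0) P.nil)))) (P.cons (P.cons (P.lf 4813182 0 0) (P.cons (P.lf 399144 0 0) (P.cons (P.lf 0 45744 0) P.nil))) (P.cons (P.cons (P.lf 0 57237 0) (P.cons (P.lf 0 28392 0) P.nil)) (P.cons (P.cons (P.lf 0 28062 0) P.nil) P.nil)))))) 25509)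
 (EL.cons 8 (TM.mk (P.cons (P.cons (P.lf 381640704 0 0) (P.cons (P.lf 70257540 0 0) (P.cons (P.lf 0 6524517 0) (P.cons (P.lf 0 1252821 0) (P.cons (P.lf 0 1482 0) (P.cons (P.lf 5577 0 0) P.nil)))))) (P.cons (P.cons (P.lf 0 123200217 0) (P.cons (P.lf 0 10484580 0) (P.cons (P.lf 965739 0 0) (P.cons (P.lf 188997 0 0) (P.cons (P.lf 225 0 0) P.nil))))) (P.cons (P.cons (P.lf 0 23064543 0) (P.cons (P.lf 0 1340286 0) (P.cons (P.lf 157911 0 0) (P.cons (P.lf 15285 0 0) P.nil)))) (P.cons (P.cons (P.lf 1431474 0 0) (P.cons (P.lf 199575 0 0) (P.cons (P.lf 0 20091 0) P.nil))) (P.cons (P.cons (P.lf 194631 0 0) (P.cons (P.lf 5298 0 0) P.nil)) (P.cons (P.cons (P.lf 0 11547 0) P.nil) P.nil)))))) 13404)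
 (EL.cons 11 (TM.mk (P.cons (P.cons (P.lf 0 162938637 0) (P.cons (P.lf 24485142 0 0) (P.cons (P.lf 12605226 0 0) (P.cons (P.lf 0 384768 0) (P.cons (P.lf 0 157986 0) (P.cons (P.lf 0 1539 0) P.nil)))))) (P.cons (P.cons (P.lf 86687496 0 0) (P.cons (P.lf 0 19055940 0) (P.cons (P.lf 0 4208703 0) (P.cons (P.lf 163566 0 0) (P.cons (P.lf 44022 0 0) P.nil))))) (P.cons (P.cons (P.lf 0 6291159 0) (P.cons (P.lf 1297506 0 0) (P.cons (P.lf 340827 0 0) (P.cons (P.lf 0 12453 0) P.nil)))) (P.cons (P.cons (P.lf 0 321576 0) (P.cons (P.lf 97182 0 0) (P.cons (P.lf 4635 0 0) P.nil))) (P.cons (P.cons (P.lf 44886 0 0) (P.cons (P.lf 0 10902 0) P.nil)) (P.cons (P.cons (P.lf 0 369 0) P.nil) P.nil)))))) 13242)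
 EL.nil)))
noncomputable def S343_357_660_734_23 : EL := (EL.cons 4 (TM.mk (P.cons (P.cons (P.lf 0 2318315661 0) (P.cons (P.lf 0 113338260 0) (P.cons (P.lf 14594688 0 0) (P.lf 972972 0 0)))) (P.cons (P.cons (P.lf 0 125655378 0) (P.cons (P.lf 5557185 0 0) (P.cons (P.lf 0 715599 0) (P.lf 0 47700 0)))) (P.cons (P.cons (P.lf 33855222 0 0) (P.cons (P.lf 1351905 0 0) (P.cons (P.lf 0 174087 0) (P.lf 0 11607 0)))) (P.cons (P.cons (P.lf 517773 0 0) (P.cons (P.lf 0 95145 0) (P.cons (P.lf 12249 0 0) P.nil))) (P.cons (P.cons (P.lf 0 202119 0) (P.cons (P.lf 0 4440 0) P.nil)) (P.cons (P.cons (P.lf 3255 0 0) P.nil) P.nil)))))) 5724)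
 (EL.cons 8 (TM.mk (P.cons (P.cons (P.lf 0 1365068196 0) (P.cons (P.lf 0 66735720 0) (P.cons (P.lf 8593632 0 0) (P.lf 572910 0 0)))) (P.cons (P.cons (P.lf 0 216851592 0) (P.cons (P.lf 0 3712152 0) (P.cons (P.lf 478017 0 0) (P.lf 31863 0 0)))) (P.cons (P.cons (P.lf 6344025 0 0) (P.cons (P.lf 852618 0 0) (P.cons (P.lf 0 109788 0) (P.lf 0 7314 0)))) (P.cons (P.cons (P.lf 1737123 0 0) (P.cons (P.lf 24816 0 0) (P.cons (P.lf 0 3195 0) P.nil))) (P.cons (P.cons (P.lf 0 36732 0) (P.cons (P.lf 0 5076 0) P.nil)) (P.cons (P.cons (P.lf 0 6093 0) P.nil) P.nil)))))) 3669)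
 (EL.cons 11 (TM.mk (P.cons (P.cons (P.lf 582805629 0 0) (P.cons (P.lf 0 166377837 0) (P.cons (P.lf 0 12444792 0) (P.cons (P.lf 838596 0 0) (P.lf 41928 0 0))))) (P.cons (P.cons (P.lf 0 29344512 0) (P.cons (P.lf 8377191 0 0) (P.cons (P.lf 626598 0 0) (P.cons (P.lf 0 42222 0) (P.lf 0 2109 0))))) (P.cons (P.cons (P.lf 0 3713571 0) (P.cons (P.lf 1060140 0 0) (P.cons (P.lf 79296 0 0) (P.cons (P.lf 0 5343 0) P.nil)))) (P.cons (P.cons (P.lf 266019 0 0) (P.cons (P.lf 0 75942 0) (P.cons (P.lf 0 5679 0) P.nil))) (P.cons (P.cons (P.lf 2142 0 0) (P.cons (P.lf 0 612 0) P.nil)) (P.cons (P.cons (P.lf 0 603 0) P.nil) P.nil)))))) 1458)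
 EL.nil)))
noncomputable def S343_357_660_734_24 : EL := (EL.cons 4 (TM.mk (P.cons (P.cons (P.lf 407333088 0 0) (P.cons (P.lf 74987337 0 0) (P.cons (P.lf 0 6963753 0) (P.cons (P.lf 0 1337160 0) (P.cons (P.lf 0 1581 0) (P.cons (P.lf 5952 0 0) P.nil)))))) (P.cons (P.cons (P.lf 0 152540652 0) (P.cons (P.lf 0 15064932 0) (P.cons (P.lf 1390560 0 0) (P.cons (P.lf 270807 0 0) (P.cons (P.lf 321 0 0) P.nil))))) (P.cons (P.cons (P.lf 0 18154653 0) (P.cons (P.lf 0 913356 0) (P.cons (P.lf 120951 0 0) (P.cons (P.lf 6984 0 0) P.nil)))) (P.cons (P.cons (P.lf 2930778 0 0) (P.cons (P.lf 300441 0 0) (P.cons (P.lf 0 31398 0) P.nil))) (P.cons (P.cons (P.lf 140847 0 0) (P.cons (P.lf 0 4887 0) P.nil)) (P.cons (P.cons (P.lf 0 25683 0) P.nil) P.nil)))))) 18384)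
 (EL.cons 8 (TM.mk (P.cons (P.cons (P.lf 239845440 0 0) (P.cons (P.lf 44153967 0 0) (P.cons (P.lf 0 4100388 0) (P.cons (P.lf 0 787347 0) (P.cons (P.lf 0 930 0) (P.cons (P.lf 3504 0 0) P.nil)))))) (P.cons (P.cons (P.lf 0 64717431 0) (P.cons (P.lf 0 4249515 0) (P.cons (P.lf 389655 0 0) (P.cons (P.lf 77055 0 0) (P.cons (P.lf 90 0 0) P.nil))))) (P.cons (P.cons (P.lf 0 19062564 0) (P.cons (P.lf 0 1277025 0) (P.cons (P.lf 139344 0 0) (P.cons (P.lf 17427 0 0) P.nil)))) (P.cons (P.cons (P.lf 281433 0 0) (P.cons (P.lf 93528 0 0) (P.cons (P.lf 0 8541 0) P.nil))) (P.cons (P.cons (P.lf 198510 0 0) (P.cons (P.lf 11682 0 0) P.nil)) (P.cons (P.cons (P.lf 0 2637 0) P.nil) P.nil)))))) 9936)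
 (EL.cons 11 (TM.mk (P.cons (P.cons (P.lf 0 102400212 0) (P.cons (P.lf 15387903 0 0) (P.cons (P.lf 7921863 0 0) (P.cons (P.lf 0 241809 0) (P.cons (P.lf 0 99288 0) (P.cons (P.lf 0 966 0) P.nil)))))) (P.cons (P.cons (P.lf 49053576 0 0) (P.cons (P.lf 0 11160504 0) (P.cons (P.lf 0 2225235 0) (P.cons (P.lf 89982 0 0) (P.cons (P.lf 22404 0 0) P.nil))))) (P.cons (P.cons (P.lf 0 868545 0) (P.cons (P.lf 151035 0 0) (P.cons (P.lf 58692 0 0) (P.cons (P.lf 0 1911 0) P.nil)))) (P.cons (P.cons (P.lf 0 517101 0) (P.cons (P.lf 127479 0 0) (P.cons (P.lf 19383 0 0) P.nil))) (P.cons (P.cons (P.lf 24960 0 0) (P.cons (P.lf 0 5163 0) P.nil)) (P.cons (P.cons (P.lf 1743 0 0) P.nil) P.nil)))))) 9798)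
 EL.nil)))
noncomputable def S343_357_660_734_25 : EL := (EL.cons 4 (TM.mk (P.cons (P.cons (P.lf 0 1456965774 0) (P.cons (P.lf 0 71228421 0) (P.cons (P.lf 9172158 0 0) (P.lf 611472 0 0)))) (P.cons (P.cons (P.lf 0 156170283 0) (P.cons (P.lf 0 281757 0) (P.cons (P.lf 36282 0 0) (P.lf 2421 0 0)))) (P.cons (P.cons (P.lf 19915830 0 0) (P.cons (P.lf 1172715 0 0) (P.cons (P.lf 0 151011 0) (P.lf 0 10068 0)))) (P.cons (P.cons (P.lf 1606929 0 0) (P.cons (P.lf 0 21489 0) (P.cons (P.lf 2763 0 0) P.nil))) (P.cons (P.cons (P.lf 0 153234 0) (P.cons (P.lf 0 7719 0) P.nil)) (P.cons (P.cons (P.lf 0 5403 0) P.nil) P.nil)))))) 5193)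
 (EL.cons 8 (TM.mk (P.cons (P.cons (P.lf 0 857889060 0) (P.cons (P.lf 0 41940648 0) (P.cons (P.lf 5400744 0 0) (P.lf 360051 0 0)))) (P.cons (P.cons (P.lf 0 181739730 0) (P.cons (P.lf 0 4555266 0) (P.cons (P.lf 586584 0 0) (P.lf 39102 0 0)))) (P.cons (P.cons (P.lf 0 1571712 0) (P.cons (P.lf 493500 0 0) (P.cons (P.lf 0 63546 0) (P.lf 0 4233 0)))) (P.cons (P.cons (P.lf 1567728 0 0) (P.cons (P.lf 48540 0 0) (P.cons (P.lf 0 6249 0) P.nil))) (P.cons (P.cons (P.lf 25794 0 0) (P.cons (P.lf 0 3465 0) P.nil)) (P.cons (P.cons (P.lf 0 7356 0) P.nil) P.nil)))))) 3141)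
 (EL.cons 11 (TM.mk (P.cons (P.cons (P.lf 366269301 0 0) (P.cons (P.lf 0 104561607 0) (P.cons (P.lf 0 7821039 0) (P.cons (P.lf 527022 0 0) (P.lf 26349 0 0))))) (P.cons (P.cons (P.lf 965898 0 0) (P.cons (P.lf 0 275742 0) (P.cons (P.lf 0 20625 0) (P.cons (P.lf 1389 0 0) (P.lf 69 0 0))))) (P.cons (P.cons (P.lf 0 4020843 0) (P.cons (P.lf 1147860 0 0) (P.cons (P.lf 85857 0 0) (P.cons (P.lf 0 5784 0) P.nil)))) (P.cons (P.cons (P.lf 78984 0 0) (P.cons (P.lf 0 22548 0) (P.cons (P.lf 0 1683 0) P.nil))) (P.cons (P.cons (P.lf 15315 0 0) (P.cons (P.lf 0 4371 0) P.nil)) (P.cons (P.cons (P.lf 0 669 0) P.nil) P.nil)))))) 1623)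
 EL.nil)))
noncomputable def S343_357_660_734_26 : EL := (EL.cons 4 (TM.mk (P.cons (P.cons (P.lf 255992043 0 0) (P.cons (P.lf 47126448 0 0) (P.cons (P.lf 0 4376430 0) (P.cons (P.lf 0 840351 0) (P.cons (P.lf 0 993 0) (P.cons (P.lf 3741 0 0) P.nil)))))) (P.cons (P.cons (P.lf 0 82301112 0) (P.cons (P.lf 0 6970572 0) (P.cons (P.lf 642012 0 0) (P.cons (P.lf 125664 0 0) (P.cons (P.lf 150 0 0) P.nil))))) (P.cons (P.cons (P.lf 0 16985244 0) (P.cons (P.lf 0 1167006 0) (P.cons (P.lf 130800 0 0) (P.cons (P.lf 15036 0 0) P.nil)))) (P.cons (P.cons (P.lf 1422909 0 0) (P.cons (P.lf 176712 0 0) (P.cons (P.lf 0 17394 0) P.nil))) (P.cons (P.cons (P.lf 208698 0 0) (P.cons (P.lf 8124 0 0) P.nil)) (P.cons (P.cons (P.lf 0 15168 0) P.nil) P.nil)))))) 14007)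
 (EL.cons 8 (TM.mk (P.cons (P.cons (P.lf 150732966 0 0) (P.cons (P.lf 27748947 0 0) (P.cons (P.lf 0 2576925 0) (P.cons (P.lf 0 494814 0) (P.cons (P.lf 0 585 0) (P.cons (P.lf 2202 0 0) P.nil)))))) (P.cons (P.cons (P.lf 0 32685264 0) (P.cons (P.lf 0 1200294 0) (P.cons (P.lf 108336 0 0) (P.cons (P.lf 22206 0 0) (P.cons (P.lf 27 0 0) P.nil))))) (P.cons (P.cons (P.lf 0 14427279 0) (P.cons (P.lf 0 997845 0) (P.cons (P.lf 105543 0 0) (P.cons (P.lf 14475 0 0) P.nil)))) (P.cons (P.cons (P.lf 0 379212 0) (P.cons (P.lf 21408 0 0) (P.cons (P.lf 0 1197 0) P.nil))) (P.cons (P.cons (P.lf 157611 0 0) (P.cons (P.lf 12057 0 0) P.nil)) (P.cons (P.cons (P.lf 4548 0 0) P.nil) P.nil)))))) 7533)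
 (EL.cons 11 (TM.mk (P.cons (P.cons (P.lf 0 64354308 0) (P.cons (P.lf 9670662 0 0) (P.cons (P.lf 4978563 0 0) (P.cons (P.lf 0 151968 0) (P.cons (P.lf 0 62397 0) (P.cons (P.lf 0 606 0) P.nil)))))) (P.cons (P.cons (P.lf 27418173 0 0) (P.cons (P.lf 0 6501492 0) (P.cons (P.lf 0 1134666 0) (P.cons (P.lf 48498 0 0) (P.cons (P.lf 10773 0 0) P.nil))))) (P.cons (P.cons (P.lf 1212381 0 0) (P.cons (P.lf 0 295470 0) (P.cons (P.lf 0 46863 0) (P.cons (P.lf 2088 0 0) P.nil)))) (P.cons (P.cons (P.lf 0 413595 0) (P.cons (P.lf 98730 0 0) (P.cons (P.lf 16842 0 0) P.nil))) (P.cons (P.cons (P.lf 0 597 0) (P.cons (P.lf 834 0 0) P.nil)) (P.cons (P.cons (P.lf 2607 0 0) P.nil) P.nil)))))) 7551)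
 EL.nil)))
noncomputable def S343_357_660_734_27 : EL := (EL.cons 13 (TM.mk (P.lf 0 4294967296 0) 0)
 EL.nil)
noncomputable def S343_357_660_734_28 : EL := (EL.cons 13 (TM.mk (P.cons (P.cons (P.lf 754635067 0 0) (P.cons (P.lf 102030604 0 0) (P.cons (P.lf 0 13138592 0) (P.lf 0 875904 0)))) (P.cons (P.cons (P.lf 0 323502570 0) (P.cons (P.lf 0 15815456 0) (P.cons (P.lf 2036572 0 0) (P.lf 135768 0 0)))) (P.cons (P.cons (P.lf 0 5079324 0) (P.cons (P.lf 568016 0 0) (P.cons (P.lf 0 73140 0) (P.lf 0 4872 0)))) (P.cons (P.cons (P.lf 1149249 0 0) (P.cons (P.lf 29672 0 0) (P.cons (P.lf 0 3820 0) P.nil))) (P.cons (P.cons (P.lf 0 13567 0) (P.cons (P.lf 0 2508 0) P.nil)) (P.cons (P.cons (P.lf 0 1935 0) P.nil) P.nil)))))) 1310)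
 EL.nil)
noncomputable def S343_357_660_734_29 : EL := (EL.cons 13 (TM.mk (P.cons (P.cons (P.lf 0 132591017 0) (P.cons (P.lf 0 35853996 0) (P.cons (P.lf 2193134 0 0) (P.cons (P.lf 932033 0 0) (P.cons (P.lf 1423 0 0) (P.cons (P.lf 0 5358 0) P.nil)))))) (P.cons (P.cons (P.lf 113680206 0 0) (P.cons (P.lf 20927777 0 0) (P.cons (P.lf 0 1943472 0) (P.cons (P.lf 0 373180 0) (P.cons (P.lf 0 441 0) P.nil))))) (P.cons (P.cons (P.lf 0 22581741 0) (P.cons (P.lf 0 2340757 0) (P.cons (P.lf 216195 0 0) (P.cons (P.lf 42041 0 0) P.nil)))) (P.cons (P.cons (P.lf 0 1169013 0) (P.cons (P.lf 0 16869 0) (P.cons (P.lf 4946 0 0) P.nil))) (P.cons (P.cons (P.lf 171886 0 0) (P.cons (P.lf 15803 0 0) P.nil)) (P.cons (P.cons (P.lf 1354 0 0) P.nil) P.nil)))))) 13151)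
 EL.nil)
noncomputable def S343_357_660_734_30 : EL := (EL.cons 13 (TM.mk (P.cons (P.lf 0 2699209800 0) (P.cons (P.lf 0 143024544 0) (P.cons (P.lf 5231084 0 0) (P.cons (P.lf 2024 0 0) (P.cons (P.lf 0 4224 0) (P.cons (P.lf 88 0 0) P.nil)))))) 60)
 EL.nil)
noncomputable def S343_357_660_734_31 : EL := (EL.cons 13 (TM.mk (P.cons (P.cons (P.lf 474257014 0 0) (P.cons (P.lf 64122026 0 0) (P.cons (P.lf 0 8257063 0) (P.lf 0 550469 0)))) (P.cons (P.cons (P.lf 0 178178299 0) (P.cons (P.lf 0 6541692 0) (P.cons (P.lf 842379 0 0) (P.lf 56156 0 0)))) (P.cons (P.cons (P.lf 0 14884054 0) (P.cons (P.lf 0 293956 0) (P.cons (P.lf 37855 0 0) (P.lf 2526 0 0)))) (P.cons (P.cons (P.lf 946768 0 0) (P.cons (P.lf 56777 0 0) (P.cons (P.lf 0 7310 0) P.nil))) (P.cons (P.cons (P.lf 36825 0 0) (P.cons (P.lf 0 1172 0) P.nil)) (P.cons (P.cons (P.lf 0 3398 0) P.nil) P.nil)))))) 1715)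
 EL.nil)
noncomputable def S343_357_660_734_32 : EL := (EL.cons 13 (TM.mk (P.cons (P.cons (P.lf 0 83327985 0) (P.cons (P.lf 0 22532757 0) (P.cons (P.lf 1378294 0 0) (P.cons (P.lf 585744 0 0) (P.cons (P.lf 894 0 0) (P.cons (P.lf 0 3367 0) P.nil)))))) (P.cons (P.cons (P.lf 67027974 0 0) (P.cons (P.lf 11958288 0 0) (P.cons (P.lf 0 1148359 0) (P.cons (P.lf 0 203491 0) (P.cons (P.lf 0 229 0) P.nil))))) (P.cons (P.cons (P.lf 0 10244595 0) (P.cons (P.lf 0 730495 0) (P.cons (P.lf 68479 0 0) (P.cons (P.lf 12858 0 0) P.nil)))) (P.cons (P.cons (P.lf 0 1625054 0) (P.cons (P.lf 0 114022 0) (P.cons (P.lf 12673 0 0) P.nil))) (P.cons (P.cons (P.lf 96414 0 0) (P.cons (P.lf 12175 0 0) P.nil)) (P.cons (P.cons (P.lf 8123 0 0) P.nil) P.nil)))))) 12168)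
 EL.nil)
noncomputable def S343_357_660_734_33 : EL := (EL.cons 14 (TM.mk (P.lf 8589934592 0 0) 0)
 EL.nil)
noncomputable def S343_357_660_734_34 : EL := (EL.cons 14 (TM.mk (P.cons (P.cons (P.lf 0 1509270134 0) (P.cons (P.lf 0 204061208 0) (P.cons (P.lf 26277184 0 0) (P.lf 1751808 0 0)))) (P.cons (P.cons (P.lf 647005140 0 0) (P.cons (P.lf 31630912 0 0) (P.cons (P.lf 0 4073144 0) (P.lf 0 271536 0)))) (P.cons (P.cons (P.lf 10158648 0 0) (P.cons (P.lf 0 1136032 0) (P.cons (P.lf 146280 0 0) (P.lf 9744 0 0)))) (P.cons (P.cons (P.lf 0 2298498 0) (P.cons (P.lf 0 59344 0) (P.cons (P.lf 7640 0 0) P.nil))) (P.cons (P.cons (P.lf 27134 0 0) (P.cons (P.lf 5016 0 0) P.nil)) (P.cons (P.cons (P.lf 3870 0 0) P.nil) P.nil)))))) 2620)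
 EL.nil)
noncomputable def S343_357_660_734_35 : EL := (EL.cons 14 (TM.mk (P.cons (P.cons (P.lf 265182034 0 0) (P.cons (P.lf 71707992 0 0) (P.cons (P.lf 0 4386268 0) (P.cons (P.lf 0 1864066 0) (P.cons (P.lf 0 2846 0) (P.cons (P.lf 10716 0 0) P.nil)))))) (P.cons (P.cons (P.lf 0 227360412 0) (P.cons (P.lf 0 41855554 0) (P.cons (P.lf 3886944 0 0) (P.cons (P.lf 746360 0 0) (P.cons (P.lf 882 0 0) P.nil))))) (P.cons (P.cons (P.lf 45163482 0 0) (P.cons (P.lf 4681514 0 0) (P.cons (P.lf 0 432390 0) (P.cons (P.lf 0 84082 0) P.nil)))) (P.cons (P.cons (P.lf 2338026 0 0) (P.cons (P.lf 33738 0 0) (P.cons (P.lf 0 9892 0) P.nil))) (P.cons (P.cons (P.lf 0 343772 0) (P.cons (P.lf 0 31606 0) P.nil)) (P.cons (P.cons (P.lf 0 2708 0) P.nil) P.nil)))))) 26302)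
 EL.nil)
noncomputable def S343_357_660_734_36 : EL := (EL.cons 14 (TM.mk (P.cons (P.lf 5398419600 0 0) (P.cons (P.lf 286049088 0 0) (P.cons (P.lf 0 10462168 0) (P.cons (P.lf 0 4048 0) (P.cons (P.lf 8448 0 0) (P.cons (P.lf 0 176 0) P.nil)))))) 120)
 EL.nil)
noncomputable def S343_357_660_734_37 : EL := (EL.cons 14 (TM.mk (P.cons (P.cons (P.lf 0 948514028 0) (P.cons (P.lf 0 128244052 0) (P.cons (P.lf 16514126 0 0) (P.lf 1100938 0 0)))) (P.cons (P.cons (P.lf 356356598 0 0) (P.cons (P.lf 13083384 0 0) (P.cons (P.lf 0 1684758 0) (P.lf 0 112312 0)))) (P.cons (P.cons (P.lf 29768108 0 0) (P.cons (P.lf 587912 0 0) (P.cons (P.lf 0 75710 0) (P.lf 0 5052 0)))) (P.cons (P.cons (P.lf 0 1893536 0) (P.cons (P.lf 0 113554 0) (P.cons (P.lf 14620 0 0) P.nil))) (P.cons (P.cons (P.lf 0 73650 0) (P.cons (P.lf 2344 0 0) P.nil)) (P.cons (P.cons (P.lf 6796 0 0) P.nil) P.nil)))))) 3430)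
 EL.nil)
noncomputable def S343_357_660_734_38 : EL := (EL.cons 14 (TM.mk (P.cons (P.cons (P.lf 166655970 0 0) (P.cons (P.lf 45065514 0 0) (P.cons (P.lf 0 2756588 0) (P.cons (P.lf 0 1171488 0) (P.cons (P.lf 0 1788 0) (P.cons (P.lf 6734 0 0) P.nil)))))) (P.cons (P.cons (P.lf 0 134055948 0) (P.cons (P.lf 0 23916576 0) (P.cons (P.lf 2296718 0 0) (P.cons (P.lf 406982 0 0) (P.cons (P.lf 458 0 0) P.nil))))) (P.cons (P.cons (P.lf 20489190 0 0) (P.cons (P.lf 1460990 0 0) (P.cons (P.lf 0 136958 0) (P.cons (P.lf 0 25716 0) P.nil)))) (P.cons (P.cons (P.lf 3250108 0 0) (P.cons (P.lf 228044 0 0) (P.cons (P.lf 0 25346 0) P.nil))) (P.cons (P.cons (P.lf 0 192828 0) (P.cons (P.lf 0 24350 0) P.nil)) (P.cons (P.cons (P.lf 0 16246 0) P.nil) P.nil)))))) 24336)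
 EL.nil)
noncomputable def S343_357_660_734_39 : EL := (EL.cons 14 (TM.mk (P.cons (P.lf 3392684060 0 0) (P.cons (P.lf 359540106 0 0) (P.cons (P.lf 0 3624504 0) (P.cons (P.lf 0 701878 0) (P.cons (P.lf 23090 0 0) (P.cons (P.lf 350 0 0) P.nil)))))) 204)
 EL.nil)
noncomputable def S343_357_660_734_40 : EL := (EL.cons 14 (TM.mk (P.cons (P.cons (P.lf 0 596101944 0) (P.cons (P.lf 0 80596096 0) (P.cons (P.lf 10378446 0 0) (P.lf 691894 0 0)))) (P.cons (P.cons (P.lf 192369436 0 0) (P.cons (P.lf 3951776 0 0) (P.cons (P.lf 0 508872 0) (P.lf 0 33922 0)))) (P.cons (P.cons (P.lf 31730128 0 0) (P.cons (P.lf 961358 0 0) (P.cons (P.lf 0 123798 0) (P.lf 0 8256 0)))) (P.cons (P.cons (P.lf 0 632296 0) (P.cons (P.lf 0 67660 0) (P.cons (P.lf 8710 0 0) P.nil))) (P.cons (P.cons (P.lf 0 146698 0) (P.cons (P.lf 0 3156 0) P.nil)) (P.cons (P.cons (P.lf 4480 0 0) P.nil) P.nil)))))) 3612)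
 EL.nil)
noncomputable def S343_357_660_734_41 : EL := (EL.cons 14 (TM.mk (P.cons (P.cons (P.lf 104736402 0 0) (P.cons (P.lf 28321816 0 0) (P.cons (P.lf 0 1732402 0) (P.cons (P.lf 0 736232 0) (P.cons (P.lf 0 1124 0) (P.cons (P.lf 4232 0 0) P.nil)))))) (P.cons (P.cons (P.lf 0 78698906 0) (P.cons (P.lf 0 13529878 0) (P.cons (P.lf 1351596 0 0) (P.cons (P.lf 216760 0 0) (P.cons (P.lf 228 0 0) P.nil))))) (P.cons (P.cons (P.lf 8209502 0 0) (P.cons (P.lf 66850 0 0) (P.cons (P.lf 0 6234 0) (P.cons (P.lf 0 1182 0) P.nil)))) (P.cons (P.cons (P.lf 2888054 0 0) (P.cons (P.lf 221076 0 0) (P.cons (P.lf 0 23286 0) P.nil))) (P.cons (P.cons (P.lf 0 37682 0) (P.cons (P.lf 0 9432 0) P.nil)) (P.cons (P.cons (P.lf 0 20734 0) P.nil) P.nil)))))) 19616)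
 EL.nil)
noncomputable def S343_357_660_734_42 : EL := (EL.cons 14 (TM.mk (P.cons (P.lf 2132162000 0 0) (P.cons (P.lf 338934190 0 0) (P.cons (P.lf 5562870 0 0) (P.cons (P.lf 0 1001302 0) (P.cons (P.lf 0 1280 0) (P.cons (P.lf 2128 0 0) P.nil)))))) 254)
 EL.nil)
noncomputable def S343_357_660_734_43 : EL := (EL.cons 14 (TM.mk (P.cons (P.cons (P.lf 0 374625486 0) (P.cons (P.lf 0 50651322 0) (P.cons (P.lf 6522426 0 0) (P.lf 434826 0 0)))) (P.cons (P.cons (P.lf 101045766 0 0) (P.cons (P.lf 0 200360 0) (P.cons (P.lf 25800 0 0) (P.lf 1720 0 0)))) (P.cons (P.cons (P.lf 27073100 0 0) (P.cons (P.lf 833932 0 0) (P.cons (P.lf 0 107388 0) (P.lf 0 7160 0)))) (P.cons (P.cons (P.lf 425238 0 0) (P.cons (P.lf 0 15282 0) (P.cons (P.lf 1966 0 0) P.nil))) (P.cons (P.cons (P.lf 0 152572 0) (P.cons (P.lf 0 5488 0) P.nil)) (P.cons (P.cons (P.lf 0 1110 0) P.nil) P.nil)))))) 3628)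
 EL.nil)
noncomputable def S343_357_660_734_44 : EL := (EL.cons 14 (TM.mk (P.cons (P.cons (P.lf 65822510 0 0) (P.cons (P.lf 17799094 0 0) (P.cons (P.lf 0 1088742 0) (P.cons (P.lf 0 462690 0) (P.cons (P.lf 0 706 0) (P.cons (P.lf 2658 0 0) P.nil)))))) (P.cons (P.cons (P.lf 0 45971242 0) (P.cons (P.lf 0 7559840 0) (P.cons (P.lf 791732 0 0) (P.cons (P.lf 111708 0 0) (P.cons (P.lf 106 0 0) P.nil))))) (P.cons (P.cons (P.lf 2411056 0 0) (P.cons (P.lf 0 443032 0) (P.cons (P.lf 43200 0 0) (P.cons (P.lf 7370 0 0) P.nil)))) (P.cons (P.cons (P.lf 2184206 0 0) (P.cons (P.lf 157628 0 0) (P.cons (P.lf 0 16486 0) P.nil))) (P.cons (P.cons (P.lf 62632 0 0) (P.cons (P.lf 1386 0 0) P.nil)) (P.cons (P.cons (P.lf 0 17886 0) P.nil) P.nil)))))) 16072)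
 EL.nil)
noncomputable def S343_357_660_734_45 : EL := (EL.cons 14 (TM.mk (P.cons (P.cons (P.lf 0 46593058 0) (P.cons (P.lf 0 18898874 0) (P.cons (P.lf 0 121598 0) (P.cons (P.lf 705160 0 0) (P.cons (P.lf 45988 0 0) (P.cons (P.lf 0 8412 0) P.nil)))))) (P.cons (P.cons (P.lf 59921576 0 0) (P.cons (P.lf 19132876 0 0) (P.cons (P.lf 0 576210 0) (P.cons (P.lf 0 596820 0) (P.cons (P.lf 0 21796 0) P.nil))))) (P.cons (P.cons (P.lf 0 24746794 0) (P.cons (P.lf 0 5835546 0) (P.cons (P.lf 339214 0 0) (P.cons (P.lf 146038 0 0) P.nil)))) (P.cons (P.cons (P.lf 2651136 0 0) (P.cons (P.lf 417004 0 0) (P.cons (P.lf 0 21480 0) P.nil))) (P.cons (P.cons (P.lf 351590 0 0) (P.cons (P.lf 37584 0 0) P.nil)) (P.cons (P.cons (P.lf 0 35336 0) P.nil) P.nil)))))) 58086)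
 EL.nil)
noncomputable def S343_357_660_734_46 : EL := (EL.cons 15 (TM.mk (P.lf 4294967296 0 0) 0)
 EL.nil)
noncomputable def S343_357_660_734_47 : EL := (EL.cons 15 (TM.mk (P.cons (P.cons (P.lf 0 754635067 0) (P.cons (P.lf 0 102030604 0) (P.cons (P.lf 13138592 0 0) (P.lf 875904 0 0)))) (P.cons (P.cons (P.lf 323502570 0 0) (P.cons (P.lf 15815456 0 0) (P.cons (P.lf 0 2036572 0) (P.lf 0 135768 0)))) (P.cons (P.cons (P.lf 5079324 0 0) (P.cons (P.lf 0 568016 0) (P.cons (P.lf 73140 0 0) (P.lf 4872 0 0)))) (P.cons (P.cons (P.lf 0 1149249 0) (P.cons (P.lf 0 29672 0) (P.cons (P.lf 3820 0 0) P.nil))) (P.cons (P.cons (P.lf 13567 0 0) (P.cons (P.lf 2508 0 0) P.nil)) (P.cons (P.cons (P.lf 1935 0 0) P.nil) P.nil)))))) 1310)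
 EL.nil)
noncomputable def S343_357_660_734_48 : EL := (EL.cons 15 (TM.mk (P.cons (P.cons (P.lf 132591017 0 0) (P.cons (P.lf 35853996 0 0) (P.cons (P.lf 0 2193134 0) (P.cons (P.lf 0 932033 0) (P.cons (P.lf 0 1423 0) (P.cons (P.lf 5358 0 0) P.nil)))))) (P.cons (P.cons (P.lf 0 113680206 0) (P.cons (P.lf 0 20927777 0) (P.cons (P.lf 1943472 0 0) (P.cons (P.lf 373180 0 0) (P.cons (P.lf 441 0 0) P.nil))))) (P.cons (P.cons (P.lf 22581741 0 0) (P.cons (P.lf 2340757 0 0) (P.cons (P.lf 0 216195 0) (P.cons (P.lf 0 42041 0) P.nil)))) (P.cons (P.cons (P.lf 1169013 0 0) (P.cons (P.lf 16869 0 0) (P.cons (P.lf 0 4946 0) P.nil))) (P.cons (P.cons (P.lf 0 171886 0) (P.cons (P.lf 0 15803 0) P.nil)) (P.cons (P.cons (P.lf 0 1354 0) P.nil) P.nil)))))) 13151)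
 EL.nil)
noncomputable def S343_357_660_734 : SL := (SL.cons S343_357_660_734_0 (SL.cons S343_357_660_734_1 (SL.cons S343_357_660_734_2 (SL.cons S343_357_660_734_3 (SL.cons S343_357_660_734_4 (SL.cons S343_357_660_734_5 (SL.cons S343_357_660_734_6 (SL.cons S343_357_660_734_7 (SL.cons S343_357_660_734_8 (SL.cons S343_357_660_734_9 (SL.cons S343_357_660_734_10 (SL.cons S343_357_660_734_11 (SL.cons S343_357_660_734_12 (SL.cons S343_357_660_734_13 (SL.cons S343_357_660_734_14 (SL.cons S343_357_660_734_15 (SL.cons S343_357_660_734_16 (SL.cons S343_357_660_734_17 (SL.cons S343_357_660_734_18 (SL.cons S343_357_660_734_19 (SL.cons S343_357_660_734_20 (SL.cons S343_357_660_734_21 (SL.cons S343_357_660_734_22 (SL.cons S343_357_660_734_23 (SL.cons S343_357_660_734_24 (SL.cons S343_357_660_734_25 (SL.cons S343_357_660_734_26 (SL.cons S343_357_660_734_27 (SL.cons S343_357_660_734_28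 (SL.cons S343_357_660_734_29 (SL.cons S343_357_660_734_30 (SL.cons S343_357_660_734_31 (SL.cons S343_357_660_734_32 (SL.cons S343_357_660_734_33 (SL.cons S343_357_660_734_34 (SL.cons S343_357_660_734_35 (SL.cons S343_357_660_734_36 (SL.cons S343_357_660_734_37 (SL.cons S343_357_660_734_38 (SL.cons S343_357_660_734_39 (SL.cons S343_357_660_734_40 (SL.cons S343_357_660_734_41 (SL.cons S343_357_660_734_42 (SL.cons S343_357_660_734_43 (SL.cons S343_357_660_734_44 (SL.cons S343_357_660_734_45 (SL.cons S343_357_660_734_46 (SL.cons S343_357_660_734_47 (SL.cons S343_357_660_734_48 SL.nil)))))))))))))))))))))))))))))))))))))))))))))))))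
noncomputable def S343_357_660_808_0 : EL := (EL.cons 0 (TM.mk (P.cons (P.lf 5473865639 0 0) (P.cons (P.lf 0 316002046 0) (P.cons (P.lf 3185599 0 0) (P.cons (P.lf 616884 0 0) (P.cons (P.lf 0 20293 0) (P.cons (P.lf 0 307 0) P.nil)))))) 186)
 (EL.cons 1 (TM.mk (P.cons (P.lf 1800576853 0 0) (P.cons (P.lf 2374179 0 0) (P.cons (P.lf 0 9884782 0) (P.cons (P.lf 207181 0 0) (P.cons (P.lf 10235 0 0) (P.cons (P.lf 0 526 0) P.nil)))))) 130)
 (EL.cons 5 (TM.mk (P.cons (P.lf 5355181070 0 0) (P.cons (P.lf 112356282 0 0) (P.cons (P.lf 0 1132662 0) (P.cons (P.lf 0 219336 0) (P.cons (P.lf 7216 0 0) (P.cons (P.lf 108 0 0) P.nil)))))) 99)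
 (EL.cons 9 (TM.mk (P.lf 6442450944 0 0) 2)
 EL.nil))))
noncomputable def S343_357_660_808_1 : EL := (EL.cons 0 (TM.mk (P.cons (P.cons (P.lf 3456216573 0 0) (P.cons (P.lf 118217245 0 0) (P.cons (P.lf 0 50976603 0) (P.lf 0 5664057 0)))) (P.cons (P.cons (P.lf 718300009 0 0) (P.cons (P.lf 24717273 0 0) (P.cons (P.lf 0 10658371 0) (P.lf 0 1184272 0)))) (P.cons (P.cons (P.lf 0 85246652 0) (P.cons (P.lf 0 6447538 0) (P.cons (P.lf 2780248 0 0) (P.lf 308914 0 0)))) (P.cons (P.cons (P.lf 0 2522877 0) (P.cons (P.lf 257224 0 0) (P.cons (P.lf 0 110910 0) P.nil))) (P.cons (P.cons (P.lf 548441 0 0) (P.cons (P.lf 22979 0 0) P.nil)) (P.cons (P.cons (P.lf 0 7447 0) P.nil) P.nil)))))) 67383)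
 (EL.cons 1 (TM.mk (P.cons (P.cons (P.lf 0 387300100 0) (P.cons (P.lf 0 63601498 0) (P.cons (P.lf 27425679 0 0) (P.lf 3047295 0 0)))) (P.cons (P.cons (P.lf 421900680 0 0) (P.cons (P.lf 28546153 0 0) (P.cons (P.lf 0 12309419 0) (P.lf 0 1367707 0)))) (P.cons (P.cons (P.lf 15276755 0 0) (P.cons (P.lf 0 1126296 0) (P.cons (P.lf 485673 0 0) (P.lf 53963 0 0)))) (P.cons (P.cons (P.lf 0 4560461 0) (P.cons (P.lf 0 227121 0) (P.cons (P.lf 97935 0 0) P.nil))) (P.cons (P.cons (P.lf 21402 0 0) (P.cons (P.lf 17073 0 0) P.nil)) (P.cons (P.cons (P.lf 17708 0 0) P.nil) P.nil)))))) 35945)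
 (EL.cons 5 (TM.mk (P.cons (P.cons (P.lf 0 2661384008 0) (P.cons (P.lf 0 290660174 0) (P.cons (P.lf 125335948 0 0) (P.lf 13926210 0 0)))) (P.cons (P.cons (P.lf 317752115 0 0) (P.cons (P.lf 29750616 0 0) (P.cons (P.lf 0 12828800 0) (P.lf 0 1425422 0)))) (P.cons (P.cons (P.lf 38111774 0 0) (P.cons (P.lf 908312 0 0) (P.cons (P.lf 0 391676 0) (P.lf 0 43514 0)))) (P.cons (P.cons (P.lf 0 1100229 0) (P.cons (P.lf 0 163764 0) (P.cons (P.lf 70612 0 0) P.nil))) (P.cons (P.cons (P.lf 0 168253 0) (P.cons (P.lf 0 2052 0) P.nil)) (P.cons (P.cons (P.lf 5918 0 0) P.nil) P.nil)))))) 30802)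
 (EL.cons 9 (TM.mk (P.cons (P.cons (P.lf 0 1263976756 0) (P.cons (P.lf 0 219377094 0) (P.cons (P.lf 94597878 0 0) (P.lf 10510872 0 0)))) (P.cons (P.cons (P.lf 505718523 0 0) (P.cons (P.lf 34004976 0 0) (P.cons (P.lf 0 14663328 0) (P.lf 0 1629258 0)))) (P.cons (P.cons (P.lf 6883986 0 0) (P.cons (P.lf 0 1221300 0) (P.cons (P.lf 526638 0 0) (P.lf 58512 0 0)))) (P.cons (P.cons (P.lf 0 1762273 0) (P.cons (P.lf 0 63798 0) (P.cons (P.lf 27510 0 0) P.nil))) (P.cons (P.cons (P.lf 23596 0 0) (P.cons (P.lf 5394 0 0) P.nil)) (P.cons (P.cons (P.lf 2884 0 0) P.nil) P.nil)))))) 7876)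
 (EL.cons 2 (TM.mk (P.cons (P.cons (P.lf 0 379559553 0) (P.cons (P.lf 353594837 0 0) (P.cons (P.lf 36290331 0 0) (P.cons (P.lf 0 7547377 0) (P.lf 0 628945 0))))) (P.cons (P.cons (P.lf 19110982 0 0) (P.cons (P.lf 0 17803648 0) (P.cons (P.lf 0 1827230 0) (P.cons (P.lf 380010 0 0) (P.lf 31665 0 0))))) (P.cons (P.cons (P.lf 2418510 0 0) (P.cons (P.lf 0 2253065 0) (P.cons (P.lf 0 231238 0) (P.cons (P.lf 48090 0 0) P.nil)))) (P.cons (P.cons (P.lf 0 173247 0) (P.cons (P.lf 161398 0 0) (P.cons (P.lf 16562 0 0) P.nil))) (P.cons (P.cons (P.lf 0 1395 0) (P.cons (P.lf 1299 0 0) P.nil)) (P.cons (P.cons (P.lf 390 0 0) P.nil) P.nil)))))) 10657)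
 (EL.cons 6 (TM.mk (P.cons (P.cons (P.lf 229195254 0 0) (P.cons (P.lf 0 213516582 0) (P.cons (P.lf 0 21913746 0) (P.cons (P.lf 4557447 0 0) (P.lf 379785 0 0))))) (P.cons (P.cons (P.lf 0 35526864 0) (P.cons (P.lf 33096558 0 0) (P.cons (P.lf 3396783 0 0) (P.cons (P.lf 0 706434 0) (P.lf 0 58869 0))))) (P.cons (P.cons (P.lf 1275963 0 0) (P.cons (P.lf 0 1188678 0) (P.cons (P.lf 0 121995 0) (P.cons (P.lf 25371 0 0) P.nil)))) (P.cons (P.cons (P.lf 66654 0 0) (P.cons (P.lf 0 62094 0) (P.cons (P.lf 0 6372 0) P.nil))) (P.cons (P.cons (P.lf 0 5637 0) (P.cons (P.lf 5250 0 0) P.nil)) (P.cons (P.cons (P.lf 39 0 0) P.nil) P.nil)))))) 5715)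
 EL.nil))))))
noncomputable def S343_357_660_808_2 : EL := (EL.cons 0 (TM.mk (P.cons (P.cons (P.lf 0 1566887596 0) (P.cons (P.lf 0 354907643 0) (P.cons (P.lf 138642060 0 0) (P.cons (P.lf 29421703 0 0) (P.cons (P.lf 0 1297534 0) (P.cons (P.lf 0 594937 0) P.nil)))))) (P.cons (P.cons (P.lf 441525813 0 0) (P.cons (P.lf 41250264 0 0) (P.cons (P.lf 0 15888850 0) (P.cons (P.lf 0 3613887 0) (P.cons (P.lf 171108 0 0) P.nil))))) (P.cons (P.cons (P.lf 112315692 0 0) (P.cons (P.lf 11809828 0 0) (P.cons (P.lf 0 4777777 0) (P.cons (P.lf 0 837277 0) P.nil)))) (P.cons (P.cons (P.lf 0 12365919 0) (P.cons (P.lf 0 1938216 0) (P.cons (P.lf 759051 0 0) P.nil))) (P.cons (P.cons (P.lf 0 835993 0) (P.cons (P.lf 0 2013 0) P.nil)) (P.cons (P.cons (P.lf 120933 0 0) P.nil) P.nil)))))) 1183967)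
 (EL.cons 1 (TM.mk (P.cons (P.cons (P.lf 82664016 0 0) (P.cons (P.lf 27274555 0 0) (P.cons (P.lf 0 9517422 0) (P.cons (P.lf 0 3241784 0) (P.cons (P.lf 202198 0 0) (P.cons (P.lf 92707 0 0) P.nil)))))) (P.cons (P.cons (P.lf 0 170984495 0) (P.cons (P.lf 0 40684512 0) (P.cons (P.lf 15572609 0 0) (P.cons (P.lf 3649128 0 0) (P.cons (P.lf 0 177622 0) P.nil))))) (P.cons (P.cons (P.lf 49528021 0 0) (P.cons (P.lf 7002596 0 0) (P.cons (P.lf 0 2678513 0) (P.cons (P.lf 0 629648 0) P.nil)))) (P.cons (P.cons (P.lf 4479984 0 0) (P.cons (P.lf 242339 0 0) (P.cons (P.lf 0 111987 0) P.nil))) (P.cons (P.cons (P.lf 0 785412 0) (P.cons (P.lf 0 105877 0) P.nil)) (P.cons (P.cons (P.lf 0 16644 0) P.nil) P.nil)))))) 530495)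
 (EL.cons 5 (TM.mk (P.cons (P.cons (P.lf 838166325 0 0) (P.cons (P.lf 223748291 0 0) (P.cons (P.lf 0 82897242 0) (P.cons (P.lf 0 22436781 0) (P.cons (P.lf 1224305 0 0) (P.cons (P.lf 561357 0 0) P.nil)))))) (P.cons (P.cons (P.lf 0 381884382 0) (P.cons (P.lf 0 68822493 0) (P.cons (P.lf 26377283 0 0) (P.cons (P.lf 6143214 0 0) (P.cons (P.lf 0 297363 0) P.nil))))) (P.cons (P.cons (P.lf 1995024 0 0) (P.cons (P.lf 1863204 0 0) (P.cons (P.lf 0 617665 0) (P.cons (P.lf 0 249494 0) P.nil)))) (P.cons (P.cons (P.lf 6405326 0 0) (P.cons (P.lf 718589 0 0) (P.cons (P.lf 0 292264 0) P.nil))) (P.cons (P.cons (P.lf 0 18478 0) (P.cons (P.lf 0 38895 0) P.nil)) (P.cons (P.cons (P.lf 0 44344 0) P.nil) P.nil)))))) 588587)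
 (EL.cons 9 (TM.mk (P.cons (P.cons (P.lf 247985937 0 0) (P.cons (P.lf 86081383 0 0) (P.cons (P.lf 0 29649076 0) (P.cons (P.lf 0 10566817 0) (P.cons (P.lf 673201 0 0) (P.cons (P.lf 308673 0 0) P.nil)))))) (P.cons (P.cons (P.lf 0 198438904 0) (P.cons (P.lf 0 47784471 0) (P.cons (P.lf 18289341 0 0) (P.cons (P.lf 4286716 0 0) (P.cons (P.lf 0 208701 0) P.nil))))) (P.cons (P.cons (P.lf 36996606 0 0) (P.cons (P.lf 5349036 0 0) (P.cons (P.lf 0 2043901 0) (P.cons (P.lf 0 482808 0) P.nil)))) (P.cons (P.cons (P.lf 1772254 0 0) (P.cons (P.lf 25983 0 0) (P.cons (P.lf 0 19750 0) P.nil))) (P.cons (P.cons (P.lf 0 278572 0) (P.cons (P.lf 0 34953 0) P.nil)) (P.cons (P.cons (P.lf 0 1192 0) P.nil) P.nil)))))) 269207)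
 (EL.cons 2 (TM.mk (P.cons (P.cons (P.lf 148935380 0 0) (P.cons (P.lf 0 112897710 0) (P.cons (P.lf 0 49467588 0) (P.cons (P.lf 9635540 0 0) (P.cons (P.lf 2980316 0 0) (P.cons (P.lf 0 60390 0) P.nil)))))) (P.cons (P.cons (P.lf 0 67088171 0) (P.cons (P.lf 57190477 0 0) (P.cons (P.lf 13648663 0 0) (P.cons (P.lf 0 2704578 0) (P.cons (P.lf 0 672513 0) P.nil))))) (P.cons (P.cons (P.lf 1240194 0 0) (P.cons (P.lf 0 974413 0) (P.cons (P.lf 0 365163 0) (P.cons (P.lf 71375 0 0) P.nil)))) (P.cons (P.cons (P.lf 696166 0 0) (P.cons (P.lf 0 610942 0) (P.cons (P.lf 0 117804 0) P.nil))) (P.cons (P.cons (P.lf 0 34717 0) (P.cons (P.lf 28676 0 0) P.nil)) (P.cons (P.cons (P.lf 0 2261 0) P.nil) P.nil)))))) 266883)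
 (EL.cons 6 (TM.mk (P.cons (P.cons (P.lf 0 89933928 0) (P.cons (P.lf 68172750 0 0) (P.cons (P.lf 29870772 0 0) (P.cons (P.lf 0 5818374 0) (P.cons (P.lf 0 1799646 0) (P.cons (P.lf 36468 0 0) P.nil)))))) (P.cons (P.cons (P.lf 49923048 0 0) (P.cons (P.lf 0 41668926 0) (P.cons (P.lf 0 11367852 0) (P.cons (P.lf 2242074 0 0) (P.cons (P.lf 594438 0 0) P.nil))))) (P.cons (P.cons (P.lf 0 5588430 0) (P.cons (P.lf 4657302 0 0) (P.cons (P.lf 1282272 0 0) (P.cons (P.lf 0 252822 0) P.nil)))) (P.cons (P.cons (P.lf 0 27144 0) (P.cons (P.lf 43146 0 0) (P.cons (P.lf 0 21744 0) P.nil))) (P.cons (P.cons (P.lf 36516 0 0) (P.cons (P.lf 0 32328 0) P.nil)) (P.cons (P.cons (P.lf 0 1506 0) P.nil) P.nil)))))) 222114)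
 EL.nil))))))
noncomputable def S343_357_660_808_3 : EL := (EL.cons 0 (TM.mk (P.cons (P.lf 2981851224 0 0) (P.cons (P.lf 316002046 0 0) (P.cons (P.lf 0 3185599 0) (P.cons (P.lf 0 616884 0) (P.cons (P.lf 20293 0 0) (P.cons (P.lf 307 0 0) P.nil)))))) 186)
 (EL.cons 1 (TM.mk (P.cons (P.lf 0 1800576853 0) (P.cons (P.lf 0 2374179 0) (P.cons (P.lf 9884782 0 0) (P.cons (P.lf 0 207181 0) (P.cons (P.lf 0 10235 0) (P.cons (P.lf 526 0 0) P.nil)))))) 130)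
 (EL.cons 5 (TM.mk (P.cons (P.lf 1087269874 0 0) (P.cons (P.lf 0 112356282 0) (P.cons (P.lf 1132662 0 0) (P.cons (P.lf 219336 0 0) (P.cons (P.lf 0 7216 0) (P.cons (P.lf 0 108 0) P.nil)))))) 92)
 EL.nil)))
noncomputable def S343_357_660_808_4 : EL := (EL.cons 0 (TM.mk (P.cons (P.cons (P.lf 0 585024343 0) (P.cons (P.lf 0 101537419 0) (P.cons (P.lf 43784080 0 0) (P.lf 4864895 0 0)))) (P.cons (P.cons (P.lf 172070871 0 0) (P.cons (P.lf 4978566 0 0) (P.cons (P.lf 0 2146812 0) (P.lf 0 238533 0)))) (P.cons (P.cons (P.lf 28616691 0 0) (P.cons (P.lf 1211146 0 0) (P.cons (P.lf 0 522260 0) (P.lf 0 58028 0)))) (P.cons (P.cons (P.lf 0 607030 0) (P.cons (P.lf 0 85241 0) (P.cons (P.lf 36755 0 0) P.nil))) (P.cons (P.cons (P.lf 0 131326 0) (P.cons (P.lf 0 3974 0) P.nil)) (P.cons (P.cons (P.lf 4236 0 0) P.nil) P.nil)))))) 13404)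
 (EL.cons 1 (TM.mk (P.cons (P.cons (P.lf 353264201 0 0) (P.cons (P.lf 61312893 0 0) (P.cons (P.lf 0 26438810 0) (P.lf 0 2937643 0)))) (P.cons (P.cons (P.lf 0 140875601 0) (P.cons (P.lf 0 9423078 0) (P.cons (P.lf 4063336 0 0) (P.lf 451481 0 0)))) (P.cons (P.cons (P.lf 0 4049692 0) (P.cons (P.lf 0 7788 0) (P.cons (P.lf 3358 0 0) (P.lf 373 0 0)))) (P.cons (P.cons (P.lf 1306575 0 0) (P.cons (P.lf 77508 0 0) (P.cons (P.lf 0 33421 0) P.nil))) (P.cons (P.cons (P.lf 0 9637 0) (P.cons (P.lf 0 4100 0) P.nil)) (P.cons (P.cons (P.lf 0 4646 0) P.nil) P.nil)))))) 8411)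
 (EL.cons 5 (TM.mk (P.cons (P.cons (P.lf 0 213316928 0) (P.cons (P.lf 0 37023502 0) (P.cons (P.lf 15964952 0 0) (P.lf 1773882 0 0)))) (P.cons (P.cons (P.lf 107392084 0 0) (P.cons (P.lf 9564834 0 0) (P.cons (P.lf 0 4124464 0) (P.lf 0 458272 0)))) (P.cons (P.cons (P.lf 0 7880162 0) (P.cons (P.lf 0 837728 0) (P.cons (P.lf 361238 0 0) (P.lf 40136 0 0)))) (P.cons (P.cons (P.lf 0 371590 0) (P.cons (P.lf 9042 0 0) (P.cons (P.lf 0 3898 0) P.nil))) (P.cons (P.cons (P.lf 54558 0 0) (P.cons (P.lf 3210 0 0) P.nil)) (P.cons (P.cons (P.lf 0 544 0) P.nil) P.nil)))))) 5472)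
 EL.nil)))
noncomputable def S343_357_660_808_5 : EL := (EL.cons 0 (TM.mk (P.cons (P.cons (P.lf 114778858 0 0) (P.cons (P.lf 39842270 0 0) (P.cons (P.lf 0 13722902 0) (P.cons (P.lf 0 4890789 0) (P.cons (P.lf 311586 0 0) (P.cons (P.lf 142866 0 0) P.nil)))))) (P.cons (P.cons (P.lf 0 79682596 0) (P.cons (P.lf 0 17894476 0) (P.cons (P.lf 7010827 0 0) (P.cons (P.lf 1465778 0 0) (P.cons (P.lf 0 63574 0) P.nil))))) (P.cons (P.cons (P.lf 7267619 0 0) (P.cons (P.lf 89377 0 0) (P.cons (P.lf 0 34254 0) (P.cons (P.lf 0 7975 0) P.nil)))) (P.cons (P.cons (P.lf 2709335 0 0) (P.cons (P.lf 289780 0 0) (P.cons (P.lf 0 115599 0) P.nil))) (P.cons (P.cons (P.lf 0 40517 0) (P.cons (P.lf 0 12700 0) P.nil)) (P.cons (P.cons (P.lf 0 19246 0) P.nil) P.nil)))))) 198737)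
 (EL.cons 1 (TM.mk (P.cons (P.cons (P.lf 0 69308673 0) (P.cons (P.lf 0 24058567 0) (P.cons (P.lf 8286510 0 0) (P.cons (P.lf 2953278 0 0) (P.cons (P.lf 0 188148 0) (P.cons (P.lf 0 86268 0) P.nil)))))) (P.cons (P.cons (P.lf 55369567 0 0) (P.cons (P.lf 13323382 0 0) (P.cons (P.lf 0 5100691 0) (P.cons (P.lf 0 1194183 0) (P.cons (P.lf 58080 0 0) P.nil))))) (P.cons (P.cons (P.lf 0 9886425 0) (P.cons (P.lf 0 1345295 0) (P.cons (P.lf 519009 0 0) (P.cons (P.lf 117144 0 0) P.nil)))) (P.cons (P.cons (P.lf 0 821398 0) (P.cons (P.lf 0 85316 0) (P.cons (P.lf 35287 0 0) P.nil))) (P.cons (P.cons (P.lf 139955 0 0) (P.cons (P.lf 19365 0 0) P.nil)) (P.cons (P.cons (P.lf 2300 0 0) P.nil) P.nil)))))) 120871)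
 (EL.cons 5 (TM.mk (P.cons (P.cons (P.lf 41851716 0 0) (P.cons (P.lf 14527652 0 0) (P.cons (P.lf 0 5003770 0) (P.cons (P.lf 0 1783324 0) (P.cons (P.lf 113612 0 0) (P.cons (P.lf 52092 0 0) P.nil)))))) (P.cons (P.cons (P.lf 0 37814710 0) (P.cons (P.lf 0 9565674 0) (P.cons (P.lf 3603706 0 0) (P.cons (P.lf 907738 0 0) (P.cons (P.lf 0 46962 0) P.nil))))) (P.cons (P.cons (P.lf 9748158 0 0) (P.cons (P.lf 1751232 0 0) (P.cons (P.lf 0 669120 0) (P.cons (P.lf 0 158098 0) P.nil)))) (P.cons (P.cons (P.lf 0 372568 0) (P.cons (P.lf 0 94370 0) (P.cons (P.lf 34518 0 0) P.nil))) (P.cons (P.cons (P.lf 0 78450 0) (P.cons (P.lf 0 7134 0) P.nil)) (P.cons (P.cons (P.lf 6444 0 0) P.nil) P.nil)))))) 75708)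
 EL.nil)))
noncomputable def S343_357_660_808_6 : EL := (EL.cons 12 (TM.mk (P.lf 8589934592 0 0) 0)
 (EL.cons 3 (TM.mk (P.cons (P.lf 2530509187 0 0) (P.cons (P.lf 134085510 0 0) (P.cons (P.lf 0 4904141 0) (P.cons (P.lf 0 1897 0) (P.cons (P.lf 3960 0 0) (P.cons (P.lf 0 82 0) P.nil)))))) 63)
 (EL.cons 7 (TM.mk (P.cons (P.lf 0 1528036085 0) (P.cons (P.lf 78952088 0 0) (P.cons (P.lf 1243772 0 0) (P.cons (P.lf 0 89863 0) (P.cons (P.lf 935 0 0) (P.cons (P.lf 52 0 0) P.nil)))))) 47)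
 EL.nil)))
noncomputable def S343_357_660_808_7 : EL := (EL.cons 12 (TM.mk (P.cons (P.cons (P.lf 0 1685302342 0) (P.cons (P.lf 0 292502792 0) (P.cons (P.lf 126130504 0 0) (P.lf 14014496 0 0)))) (P.cons (P.cons (P.lf 674291364 0 0) (P.cons (P.lf 45339968 0 0) (P.cons (P.lf 0 19551104 0) (P.lf 0 2172344 0)))) (P.cons (P.cons (P.lf 9178648 0 0) (P.cons (P.lf 0 1628400 0) (P.cons (P.lf 702184 0 0) (P.lf 78016 0 0)))) (P.cons (P.cons (P.lf 0 2349698 0) (P.cons (P.lf 0 85064 0) (P.cons (P.lf 36680 0 0) P.nil))) (P.cons (P.cons (P.lf 31462 0 0) (P.cons (P.lf 7192 0 0) P.nil)) (P.cons (P.cons (P.lf 3846 0 0) P.nil) P.nil)))))) 10476)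
 (EL.cons 3 (TM.mk (P.cons (P.cons (P.lf 3347989434 0 0) (P.cons (P.lf 172336818 0 0) (P.cons (P.lf 0 74313578 0) (P.lf 0 8257060 0)))) (P.cons (P.cons (P.lf 160938051 0 0) (P.cons (P.lf 0 17581696 0) (P.cons (P.lf 7581424 0 0) (P.lf 842378 0 0)))) (P.cons (P.cons (P.lf 0 33480021 0) (P.cons (P.lf 0 790046 0) (P.cons (P.lf 340676 0 0) (P.lf 37854 0 0)))) (P.cons (P.cons (P.lf 880013 0 0) (P.cons (P.lf 152596 0 0) (P.cons (P.lf 0 65798 0) P.nil))) (P.cons (P.cons (P.lf 99620 0 0) (P.cons (P.lf 0 3150 0) P.nil)) (P.cons (P.cons (P.lf 0 6089 0) P.nil) P.nil)))))) 29036)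
 (EL.cons 7 (TM.mk (P.cons (P.cons (P.lf 2563485571 0 0) (P.cons (P.lf 204245168 0 0) (P.cons (P.lf 0 88072822 0) (P.lf 0 9785868 0)))) (P.cons (P.cons (P.lf 94763364 0 0) (P.cons (P.lf 0 10352443 0) (P.cons (P.lf 4464090 0 0) (P.lf 496011 0 0)))) (P.cons (P.cons (P.lf 0 14754873 0) (P.cons (P.lf 0 1006916 0) (P.cons (P.lf 434195 0 0) (P.lf 48243 0 0)))) (P.cons (P.cons (P.lf 0 721965 0) (P.cons (P.lf 42615 0 0) (P.cons (P.lf 0 18375 0) P.nil))) (P.cons (P.cons (P.lf 62959 0 0) (P.cons (P.lf 3560 0 0) P.nil)) (P.cons (P.cons (P.lf 942 0 0) P.nil) P.nil)))))) 20668)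
 (EL.cons 10 (TM.mk (P.cons (P.cons (P.lf 0 644216541 0) (P.cons (P.lf 600147306 0 0) (P.cons (P.lf 61594635 0 0) (P.cons (P.lf 0 12809970 0) (P.lf 0 1067496 0))))) (P.cons (P.cons (P.lf 66572040 0 0) (P.cons (P.lf 0 62018013 0) (P.cons (P.lf 0 6365064 0) (P.cons (P.lf 1323756 0 0) (P.lf 110313 0 0))))) (P.cons (P.cons (P.lf 0 671109 0) (P.cons (P.lf 625200 0 0) (P.cons (P.lf 64164 0 0) (P.cons (P.lf 0 13344 0) P.nil)))) (P.cons (P.cons (P.lf 0 129957 0) (P.cons (P.lf 121068 0 0) (P.cons (P.lf 12423 0 0) P.nil))) (P.cons (P.cons (P.lf 4275 0 0) (P.cons (P.lf 0 3981 0) P.nil)) (P.cons (P.cons (P.lf 63 0 0) P.nil) P.nil)))))) 4692)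
 EL.nil))))
noncomputable def S343_357_660_808_8 : EL := (EL.cons 12 (TM.mk (P.cons (P.cons (P.lf 330647916 0 0) (P.cons (P.lf 114775178 0 0) (P.cons (P.lf 0 39532102 0) (P.cons (P.lf 0 14089090 0) (P.cons (P.lf 897602 0 0) (P.cons (P.lf 411564 0 0) P.nil)))))) (P.cons (P.cons (P.lf 0 264585206 0) (P.cons (P.lf 0 63712628 0) (P.cons (P.lf 24385788 0 0) (P.cons (P.lf 5715622 0 0) (P.cons (P.lf 0 278268 0) P.nil))))) (P.cons (P.cons (P.lf 49328808 0 0) (P.cons (P.lf 7132048 0 0) (P.cons (P.lf 0 2725202 0) (P.cons (P.lf 0 643744 0) P.nil)))) (P.cons (P.cons (P.lf 2363006 0 0) (P.cons (P.lf 34644 0 0) (P.cons (P.lf 0 26334 0) P.nil))) (P.cons (P.cons (P.lf 0 371430 0) (P.cons (P.lf 0 46604 0) P.nil)) (P.cons (P.cons (P.lf 0 1590 0) P.nil) P.nil)))))) 358914)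
 (EL.cons 3 (TM.mk (P.cons (P.cons (P.lf 0 1411123250 0) (P.cons (P.lf 0 329445051 0) (P.cons (P.lf 127389472 0 0) (P.cons (P.lf 28437044 0 0) (P.cons (P.lf 0 1322121 0) (P.cons (P.lf 0 606210 0) P.nil)))))) (P.cons (P.cons (P.lf 535252313 0 0) (P.cons (P.lf 75315228 0 0) (P.cons (P.lf 0 28705951 0) (P.cons (P.lf 0 6860567 0) (P.cons (P.lf 339821 0 0) P.nil))))) (P.cons (P.cons (P.lf 35345760 0 0) (P.cons (P.lf 0 413223 0) (P.cons (P.lf 0 68238 0) (P.cons (P.lf 232313 0 0) P.nil)))) (P.cons (P.cons (P.lf 0 8706316 0) (P.cons (P.lf 0 1014337 0) (P.cons (P.lf 418040 0 0) P.nil))) (P.cons (P.cons (P.lf 64485 0 0) (P.cons (P.lf 69196 0 0) P.nil)) (P.cons (P.cons (P.lf 50149 0 0) P.nil) P.nil)))))) 718209)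
 (EL.cons 7 (TM.mk (P.cons (P.cons (P.lf 0 947068271 0) (P.cons (P.lf 0 234309406 0) (P.cons (P.lf 88898819 0 0) (P.cons (P.lf 21694431 0 0) (P.cons (P.lf 0 1093859 0) (P.cons (P.lf 0 501551 0) P.nil)))))) (P.cons (P.cons (P.lf 315166710 0 0) (P.cons (P.lf 44347039 0 0) (P.cons (P.lf 0 16902606 0) (P.cons (P.lf 0 4039633 0) (P.cons (P.lf 200088 0 0) P.nil))))) (P.cons (P.cons (P.lf 37304388 0 0) (P.cons (P.lf 2077282 0 0) (P.cons (P.lf 0 924660 0) (P.cons (P.lf 0 74591 0) P.nil)))) (P.cons (P.cons (P.lf 0 3224352 0) (P.cons (P.lf 0 550917 0) (P.cons (P.lf 219213 0 0) P.nil))) (P.cons (P.cons (P.lf 0 300381 0) (P.cons (P.lf 0 3918 0) P.nil)) (P.cons (P.cons (P.lf 22361 0 0) P.nil) P.nil)))))) 345563)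
 (EL.cons 10 (TM.mk (P.cons (P.cons (P.lf 252784146 0 0) (P.cons (P.lf 0 191618340 0) (P.cons (P.lf 0 83960052 0) (P.cons (P.lf 16354158 0 0) (P.cons (P.lf 5058414 0 0) (P.cons (P.lf 0 102504 0) P.nil)))))) (P.cons (P.cons (P.lf 0 127261422 0) (P.cons (P.lf 107221296 0 0) (P.cons (P.lf 27614364 0 0) (P.cons (P.lf 0 5456976 0) (P.cons (P.lf 0 1409478 0) P.nil))))) (P.cons (P.cons (P.lf 9338118 0 0) (P.cons (P.lf 0 7706598 0) (P.cons (P.lf 0 2245716 0) (P.cons (P.lf 441990 0 0) P.nil)))) (P.cons (P.cons (P.lf 440340 0 0) (P.cons (P.lf 0 420930 0) (P.cons (P.lf 0 27498 0) P.nil))) (P.cons (P.cons (P.lf 0 64650 0) (P.cons (P.lf 56424 0 0) P.nil)) (P.cons (P.cons (P.lf 642 0 0) P.nil) P.nil)))))) 476952)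
 EL.nil))))
noncomputable def S343_357_660_808_9 : EL := (EL.cons 3 (TM.mk (P.cons (P.lf 2530509187 0 0) (P.cons (P.lf 134085510 0 0) (P.cons (P.lf 0 4904141 0) (P.cons (P.lf 0 1897 0) (P.cons (P.lf 3960 0 0) (P.cons (P.lf 0 82 0) P.nil)))))) 63)
 (EL.cons 7 (TM.mk (P.cons (P.lf 0 1528036085 0) (P.cons (P.lf 78952088 0 0) (P.cons (P.lf 1243772 0 0) (P.cons (P.lf 0 89863 0) (P.cons (P.lf 935 0 0) (P.cons (P.lf 52 0 0) P.nil)))))) 47)
 EL.nil))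
noncomputable def S343_357_660_808_10 : EL := (EL.cons 3 (TM.mk (P.cons (P.cons (P.lf 0 496473285 0) (P.cons (P.lf 0 86168409 0) (P.cons (P.lf 37156789 0 0) (P.lf 4128530 0 0)))) (P.cons (P.cons (P.lf 172332612 0 0) (P.cons (P.lf 8790848 0 0) (P.cons (P.lf 0 3790712 0) (P.lf 0 421189 0)))) (P.cons (P.cons (P.lf 14191530 0 0) (P.cons (P.lf 395023 0 0) (P.cons (P.lf 0 170338 0) (P.lf 0 18927 0)))) (P.cons (P.cons (P.lf 0 933514 0) (P.cons (P.lf 0 76298 0) (P.cons (P.lf 32899 0 0) P.nil))) (P.cons (P.cons (P.lf 0 33574 0) (P.cons (P.lf 1575 0 0) P.nil)) (P.cons (P.cons (P.lf 3289 0 0) P.nil) P.nil)))))) 7174)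
 (EL.cons 7 (TM.mk (P.cons (P.cons (P.lf 299793061 0 0) (P.cons (P.lf 52032389 0 0) (P.cons (P.lf 0 22436953 0) (P.lf 0 2492994 0)))) (P.cons (P.cons (P.lf 0 135437547 0) (P.cons (P.lf 0 10753843 0) (P.cons (P.lf 4637178 0 0) (P.lf 515241 0 0)))) (P.cons (P.cons (P.lf 4320786 0 0) (P.cons (P.lf 664048 0 0) (P.cons (P.lf 0 286345 0) (P.lf 0 31815 0)))) (P.cons (P.cons (P.lf 617607 0 0) (P.cons (P.lf 9789 0 0) (P.cons (P.lf 0 4221 0) P.nil))) (P.cons (P.cons (P.lf 0 33101 0) (P.cons (P.lf 0 2803 0) P.nil)) (P.cons (P.cons (P.lf 0 768 0) P.nil) P.nil)))))) 4059)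
 EL.nil))
noncomputable def S343_357_660_808_11 : EL := (EL.cons 3 (TM.mk (P.cons (P.cons (P.lf 97405582 0 0) (P.cons (P.lf 33811623 0 0) (P.cons (P.lf 0 11645762 0) (P.cons (P.lf 0 4150504 0) (P.cons (P.lf 264423 0 0) (P.cons (P.lf 121242 0 0) P.nil)))))) (P.cons (P.cons (P.lf 0 72782881 0) (P.cons (P.lf 0 16977510 0) (P.cons (P.lf 6566729 0 0) (P.cons (P.lf 1463839 0 0) (P.cons (P.lf 0 67963 0) P.nil))))) (P.cons (P.cons (P.lf 10212930 0 0) (P.cons (P.lf 1040973 0 0) (P.cons (P.lf 0 399594 0) (P.cons (P.lf 0 92377 0) P.nil)))) (P.cons (P.cons (P.lf 1617104 0 0) (P.cons (P.lf 157883 0 0) (P.cons (P.lf 0 64210 0) P.nil))) (P.cons (P.cons (P.lf 0 100485 0) (P.cons (P.lf 0 17192 0) P.nil)) (P.cons (P.cons (P.lf 0 7751 0) P.nil) P.nil)))))) 140051)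
 (EL.cons 7 (TM.mk (P.cons (P.cons (P.lf 0 58817903 0) (P.cons (P.lf 0 20416990 0) (P.cons (P.lf 7032239 0 0) (P.cons (P.lf 2506263 0 0) (P.cons (P.lf 0 159671 0) (P.cons (P.lf 0 73211 0) P.nil)))))) (P.cons (P.cons (P.lf 50105280 0 0) (P.cons (P.lf 12388561 0 0) (P.cons (P.lf 0 4701258 0) (P.cons (P.lf 0 1146229 0) (P.cons (P.lf 57750 0 0) P.nil))))) (P.cons (P.cons (P.lf 0 11158932 0) (P.cons (P.lf 0 1837676 0) (P.cons (P.lf 703188 0 0) (P.cons (P.lf 165007 0 0) P.nil)))) (P.cons (P.cons (P.lf 0 8724 0) (P.cons (P.lf 48963 0 0) (P.cons (P.lf 0 16419 0) P.nil))) (P.cons (P.cons (P.lf 97737 0 0) (P.cons (P.lf 10320 0 0) P.nil)) (P.cons (P.cons (P.lf 0 3331 0) P.nil) P.nil)))))) 82429)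
 EL.nil))
noncomputable def S343_357_660_808_12 : EL := (EL.cons 4 (TM.mk (P.cons (P.lf 0 2530509187 0) (P.cons (P.lf 0 134085510 0) (P.cons (P.lf 4904141 0 0) (P.cons (P.lf 1897 0 0) (P.cons (P.lf 0 3960 0) (P.cons (P.lf 82 0 0) P.nil)))))) 63)
 (EL.cons 8 (TM.mk (P.cons (P.lf 1528036085 0 0) (P.cons (P.lf 0 78952088 0) (P.cons (P.lf 0 1243772 0) (P.cons (P.lf 89863 0 0) (P.cons (P.lf 0 935 0) (P.cons (P.lf 0 52 0) P.nil)))))) 47)
 EL.nil))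
noncomputable def S343_357_660_808_13 : EL := (EL.cons 4 (TM.mk (P.cons (P.cons (P.lf 496473285 0 0) (P.cons (P.lf 86168409 0 0) (P.cons (P.lf 0 37156789 0) (P.lf 0 4128530 0)))) (P.cons (P.cons (P.lf 0 172332612 0) (P.cons (P.lf 0 8790848 0) (P.cons (P.lf 3790712 0 0) (P.lf 421189 0 0)))) (P.cons (P.cons (P.lf 0 14191530 0) (P.cons (P.lf 0 395023 0) (P.cons (P.lf 170338 0 0) (P.lf 18927 0 0)))) (P.cons (P.cons (P.lf 933514 0 0) (P.cons (P.lf 76298 0 0) (P.cons (P.lf 0 32899 0) P.nil))) (P.cons (P.cons (P.lf 33574 0 0) (P.cons (P.lf 0 1575 0) P.nil)) (P.cons (P.cons (P.lf 0 3289 0) P.nil) P.nil)))))) 7174)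
 (EL.cons 8 (TM.mk (P.cons (P.cons (P.lf 0 299793061 0) (P.cons (P.lf 0 52032389 0) (P.cons (P.lf 22436953 0 0) (P.lf 2492994 0 0)))) (P.cons (P.cons (P.lf 135437547 0 0) (P.cons (P.lf 10753843 0 0) (P.cons (P.lf 0 4637178 0) (P.lf 0 515241 0)))) (P.cons (P.cons (P.lf 0 4320786 0) (P.cons (P.lf 0 664048 0) (P.cons (P.lf 286345 0 0) (P.lf 31815 0 0)))) (P.cons (P.cons (P.lf 0 617607 0) (P.cons (P.lf 0 9789 0) (P.cons (P.lf 4221 0 0) P.nil))) (P.cons (P.cons (P.lf 33101 0 0) (P.cons (P.lf 2803 0 0) P.nil)) (P.cons (P.cons (P.lf 768 0 0) P.nil) P.nil)))))) 4059)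
 EL.nil))
noncomputable def S343_357_660_808_14 : EL := (EL.cons 4 (TM.mk (P.cons (P.cons (P.lf 0 97405582 0) (P.cons (P.lf 0 33811623 0) (P.cons (P.lf 11645762 0 0) (P.cons (P.lf 4150504 0 0) (P.cons (P.lf 0 264423 0) (P.cons (P.lf 0 121242 0) P.nil)))))) (P.cons (P.cons (P.lf 72782881 0 0) (P.cons (P.lf 16977510 0 0) (P.cons (P.lf 0 6566729 0) (P.cons (P.lf 0 1463839 0) (P.cons (P.lf 67963 0 0) P.nil))))) (P.cons (P.cons (P.lf 0 10212930 0) (P.cons (P.lf 0 1040973 0) (P.cons (P.lf 399594 0 0) (P.cons (P.lf 92377 0 0) P.nil)))) (P.cons (P.cons (P.lf 0 1617104 0) (P.cons (P.lf 0 157883 0) (P.cons (P.lf 64210 0 0) P.nil))) (P.cons (P.cons (P.lf 100485 0 0) (P.cons (P.lf 17192 0 0) P.nil)) (P.cons (P.cons (P.lf 7751 0 0) P.nil) P.nil)))))) 140051)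
 (EL.cons 8 (TM.mk (P.cons (P.cons (P.lf 58817903 0 0) (P.cons (P.lf 20416990 0 0) (P.cons (P.lf 0 7032239 0) (P.cons (P.lf 0 2506263 0) (P.cons (P.lf 159671 0 0) (P.cons (P.lf 73211 0 0) P.nil)))))) (P.cons (P.cons (P.lf 0 50105280 0) (P.cons (P.lf 0 12388561 0) (P.cons (P.lf 4701258 0 0) (P.cons (P.lf 1146229 0 0) (P.cons (P.lf 0 57750 0) P.nil))))) (P.cons (P.cons (P.lf 11158932 0 0) (P.cons (P.lf 1837676 0 0) (P.cons (P.lf 0 703188 0) (P.cons (P.lf 0 165007 0) P.nil)))) (P.cons (P.cons (P.lf 8724 0 0) (P.cons (P.lf 0 48963 0) (P.cons (P.lf 16419 0 0) P.nil))) (P.cons (P.cons (P.lf 0 97737 0) (P.cons (P.lf 0 10320 0) P.nil)) (P.cons (P.cons (P.lf 3331 0 0) P.nil) P.nil)))))) 82429)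
 EL.nil))
noncomputable def S343_357_660_808_15 : EL := (EL.cons 4 (TM.mk (P.cons (P.lf 0 1590320653 0) (P.cons (P.lf 0 168534424 0) (P.cons (P.lf 1698986 0 0) (P.cons (P.lf 329005 0 0) (P.cons (P.lf 0 10823 0) (P.cons (P.lf 0 164 0) P.nil)))))) 102)
 (EL.cons 8 (TM.mk (P.cons (P.lf 960307655 0 0) (P.cons (P.lf 1266229 0 0) (P.cons (P.lf 0 5271884 0) (P.cons (P.lf 110497 0 0) (P.cons (P.lf 5459 0 0) (P.cons (P.lf 0 281 0) P.nil)))))) 66)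
 EL.nil))
noncomputable def S343_357_660_808_16 : EL := (EL.cons 4 (TM.mk (P.cons (P.cons (P.lf 312012983 0 0) (P.cons (P.lf 54153290 0 0) (P.cons (P.lf 0 23351509 0) (P.lf 0 2594610 0)))) (P.cons (P.cons (P.lf 0 91771131 0) (P.cons (P.lf 0 2655235 0) (P.cons (P.lf 1144966 0 0) (P.lf 127217 0 0)))) (P.cons (P.cons (P.lf 0 15262235 0) (P.cons (P.lf 0 645945 0) (P.cons (P.lf 278538 0 0) (P.lf 30948 0 0)))) (P.cons (P.cons (P.lf 323749 0 0) (P.cons (P.lf 45462 0 0) (P.cons (P.lf 0 19603 0) P.nil))) (P.cons (P.cons (P.lf 70040 0 0) (P.cons (P.lf 2119 0 0) P.nil)) (P.cons (P.cons (P.lf 0 2259 0) P.nil) P.nil)))))) 7158)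
 (EL.cons 8 (TM.mk (P.cons (P.cons (P.lf 0 188407574 0) (P.cons (P.lf 0 32700210 0) (P.cons (P.lf 14100699 0 0) (P.lf 1566743 0 0)))) (P.cons (P.cons (P.lf 75133654 0 0) (P.cons (P.lf 5025642 0 0) (P.cons (P.lf 0 2167113 0) (P.lf 0 240790 0)))) (P.cons (P.cons (P.lf 2159836 0 0) (P.cons (P.lf 4154 0 0) (P.cons (P.lf 0 1791 0) (P.lf 0 199 0)))) (P.cons (P.cons (P.lf 0 696840 0) (P.cons (P.lf 0 41338 0) (P.cons (P.lf 17825 0 0) P.nil))) (P.cons (P.cons (P.lf 5140 0 0) (P.cons (P.lf 2187 0 0) P.nil)) (P.cons (P.cons (P.lf 2478 0 0) P.nil) P.nil)))))) 4476)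
 EL.nil))
noncomputable def S343_357_660_808_17 : EL := (EL.cons 4 (TM.mk (P.cons (P.cons (P.lf 0 61215390 0) (P.cons (P.lf 0 21249210 0) (P.cons (P.lf 7318881 0 0) (P.cons (P.lf 2608421 0 0) (P.cons (P.lf 0 166179 0) (P.cons (P.lf 0 76195 0) P.nil)))))) (P.cons (P.cons (P.lf 42497385 0 0) (P.cons (P.lf 9543720 0 0) (P.cons (P.lf 0 3739108 0) (P.cons (P.lf 0 781748 0) (P.cons (P.lf 33906 0 0) P.nil))))) (P.cons (P.cons (P.lf 0 3876063 0) (P.cons (P.lf 0 47668 0) (P.cons (P.lf 18269 0 0) (P.cons (P.lf 4253 0 0) P.nil)))) (P.cons (P.cons (P.lf 0 1444979 0) (P.cons (P.lf 0 154549 0) (P.cons (P.lf 61652 0 0) P.nil))) (P.cons (P.cons (P.lf 21609 0 0) (P.cons (P.lf 6773 0 0) P.nil)) (P.cons (P.cons (P.lf 10264 0 0) P.nil) P.nil)))))) 106003)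
 (EL.cons 8 (TM.mk (P.cons (P.cons (P.lf 36964626 0 0) (P.cons (P.lf 12831236 0 0) (P.cons (P.lf 0 4419472 0) (P.cons (P.lf 0 1575082 0) (P.cons (P.lf 100346 0 0) (P.cons (P.lf 46010 0 0) P.nil)))))) (P.cons (P.cons (P.lf 0 29530436 0) (P.cons (P.lf 0 7105804 0) (P.cons (P.lf 2720369 0 0) (P.cons (P.lf 636898 0 0) (P.cons (P.lf 0 30976 0) P.nil))))) (P.cons (P.cons (P.lf 5272760 0 0) (P.cons (P.lf 717491 0 0) (P.cons (P.lf 0 276805 0) (P.cons (P.lf 0 62477 0) P.nil)))) (P.cons (P.cons (P.lf 438079 0 0) (P.cons (P.lf 45502 0 0) (P.cons (P.lf 0 18820 0) P.nil))) (P.cons (P.cons (P.lf 0 74643 0) (P.cons (P.lf 0 10328 0) P.nil)) (P.cons (P.cons (P.lf 0 1227 0) P.nil) P.nil)))))) 64453)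
 EL.nil))
noncomputable def S343_357_660_808_18 : EL := (EL.cons 4 (TM.mk (P.cons (P.lf 0 999450937 0) (P.cons (P.lf 0 158875401 0) (P.cons (P.lf 0 2607595 0) (P.cons (P.lf 469360 0 0) (P.cons (P.lf 600 0 0) (P.cons (P.lf 0 997 0) P.nil)))))) 126)
 (EL.cons 8 (TM.mk (P.cons (P.lf 603513753 0 0) (P.cons (P.lf 32774494 0 0) (P.cons (P.lf 0 4440608 0) (P.cons (P.lf 0 108108 0) (P.cons (P.lf 14475 0 0) (P.cons (P.lf 0 145 0) P.nil)))))) 82)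
 EL.nil))
noncomputable def S343_357_660_808_19 : EL := (EL.cons 4 (TM.mk (P.cons (P.cons (P.lf 196087290 0 0) (P.cons (P.lf 34033110 0 0) (P.cons (P.lf 0 14675460 0) (P.lf 0 1630605 0)))) (P.cons (P.cons (P.lf 0 47284184 0) (P.cons (P.lf 134625 0 0) (P.cons (P.lf 0 58051 0) (P.lf 0 6450 0)))) (P.cons (P.cons (P.lf 0 13027727 0) (P.cons (P.lf 0 560325 0) (P.cons (P.lf 241619 0 0) (P.lf 26846 0 0)))) (P.cons (P.cons (P.lf 0 193149 0) (P.cons (P.lf 10268 0 0) (P.cons (P.lf 0 4427 0) P.nil))) (P.cons (P.cons (P.lf 73737 0 0) (P.cons (P.lf 3687 0 0) P.nil)) (P.cons (P.cons (P.lf 427 0 0) P.nil) P.nil)))))) 7139)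
 (EL.cons 8 (TM.mk (P.cons (P.cons (P.lf 0 118406389 0) (P.cons (P.lf 0 20550733 0) (P.cons (P.lf 8861708 0 0) (P.lf 984633 0 0)))) (P.cons (P.cons (P.lf 40944337 0 0) (P.cons (P.lf 2069475 0 0) (P.cons (P.lf 0 892381 0) (P.lf 0 99153 0)))) (P.cons (P.cons (P.lf 4088828 0 0) (P.cons (P.lf 209794 0 0) (P.cons (P.lf 0 90465 0) (P.lf 0 10051 0)))) (P.cons (P.cons (P.lf 0 457432 0) (P.cons (P.lf 0 31946 0) (P.cons (P.lf 13775 0 0) P.nil))) (P.cons (P.cons (P.lf 0 22825 0) (P.cons (P.lf 0 40 0) P.nil)) (P.cons (P.cons (P.lf 2654 0 0) P.nil) P.nil)))))) 4262)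
 EL.nil))
noncomputable def S343_357_660_808_20 : EL := (EL.cons 4 (TM.mk (P.cons (P.cons (P.lf 0 38471348 0) (P.cons (P.lf 0 13354252 0) (P.cons (P.lf 4599615 0 0) (P.cons (P.lf 1639285 0 0) (P.cons (P.lf 0 104436 0) (P.cons (P.lf 0 47885 0) P.nil)))))) (P.cons (P.cons (P.lf 24669350 0 0) (P.cons (P.lf 5290225 0 0) (P.cons (P.lf 0 2106152 0) (P.cons (P.lf 0 404434 0) (P.cons (P.lf 15774 0 0) P.nil))))) (P.cons (P.cons (P.lf 0 946204 0) (P.cons (P.lf 313733 0 0) (P.cons (P.lf 0 121946 0) (P.cons (P.lf 0 26535 0) P.nil)))) (P.cons (P.cons (P.lf 0 1088915 0) (P.cons (P.lf 0 110328 0) (P.cons (P.lf 43905 0 0) P.nil))) (P.cons (P.cons (P.lf 0 29896 0) (P.cons (P.lf 0 855 0) P.nil)) (P.cons (P.cons (P.lf 8975 0 0) P.nil) P.nil)))))) 81324)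
 (EL.cons 8 (TM.mk (P.cons (P.cons (P.lf 23230742 0 0) (P.cons (P.lf 8063902 0 0) (P.cons (P.lf 0 2777456 0) (P.cons (P.lf 0 989874 0) (P.cons (P.lf 63063 0 0) (P.cons (P.lf 28915 0 0) P.nil)))))) (P.cons (P.cons (P.lf 0 17327721 0) (P.cons (P.lf 0 4038418 0) (P.cons (P.lf 1562469 0 0) (P.cons (P.lf 347813 0 0) (P.cons (P.lf 0 16125 0) P.nil))))) (P.cons (P.cons (P.lf 2285312 0 0) (P.cons (P.lf 198658 0 0) (P.cons (P.lf 0 77988 0) (P.cons (P.lf 0 16136 0) P.nil)))) (P.cons (P.cons (P.lf 486849 0 0) (P.cons (P.lf 61137 0 0) (P.cons (P.lf 0 24356 0) P.nil))) (P.cons (P.cons (P.lf 0 38693 0) (P.cons (P.lf 0 5833 0) P.nil)) (P.cons (P.cons (P.lf 0 3822 0) P.nil) P.nil)))))) 46766)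
 EL.nil))
noncomputable def S343_357_660_808_21 : EL := (EL.cons 4 (TM.mk (P.cons (P.cons (P.lf 0 3844462719 0) (P.cons (P.lf 0 258505227 0) (P.cons (P.lf 111470367 0 0) (P.lf 12385590 0 0)))) (P.cons (P.cons (P.lf 11394561 0 0) (P.cons (P.lf 26372544 0 0) (P.cons (P.lf 0 11372136 0) (P.lf 0 1263567 0)))) (P.cons (P.cons (P.lf 47671551 0 0) (P.cons (P.lf 1185069 0 0) (P.cons (P.lf 0 511014 0) (P.lf 0 56781 0)))) (P.cons (P.cons (P.lf 0 1813527 0) (P.cons (P.lf 0 228894 0) (P.cons (P.lf 98697 0 0) P.nil))) (P.cons (P.cons (P.lf 0 133194 0) (P.cons (P.lf 4725 0 0) P.nil)) (P.cons (P.cons (P.lf 9378 0 0) P.nil) P.nil)))))) 21843)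
 (EL.cons 8 (TM.mk (P.cons (P.cons (P.lf 0 2263692510 0) (P.cons (P.lf 0 152212779 0) (P.cons (P.lf 65635869 0 0) (P.lf 7292874 0 0)))) (P.cons (P.cons (P.lf 0 230200911 0) (P.cons (P.lf 0 401400 0) (P.cons (P.lf 173088 0 0) (P.lf 19230 0 0)))) (P.cons (P.cons (P.lf 19075659 0 0) (P.cons (P.lf 1670964 0 0) (P.cons (P.lf 0 720540 0) (P.lf 0 80058 0)))) (P.cons (P.cons (P.lf 1339572 0 0) (P.cons (P.lf 0 32826 0) (P.cons (P.lf 14154 0 0) P.nil))) (P.cons (P.cons (P.lf 0 96060 0) (P.cons (P.lf 0 6363 0) P.nil)) (P.cons (P.cons (P.lf 0 1710 0) P.nil) P.nil)))))) 16590)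
 (EL.cons 11 (TM.mk (P.cons (P.cons (P.lf 644216541 0 0) (P.cons (P.lf 0 600147306 0) (P.cons (P.lf 0 61594635 0) (P.cons (P.lf 12809970 0 0) (P.lf 1067496 0 0))))) (P.cons (P.cons (P.lf 0 66572040 0) (P.cons (P.lf 62018013 0 0) (P.cons (P.lf 6365064 0 0) (P.cons (P.lf 0 1323756 0) (P.lf 0 110313 0))))) (P.cons (P.cons (P.lf 671109 0 0) (P.cons (P.lf 0 625200 0) (P.cons (P.lf 0 64164 0) (P.cons (P.lf 13344 0 0) P.nil)))) (P.cons (P.cons (P.lf 129957 0 0) (P.cons (P.lf 0 121068 0) (P.cons (P.lf 0 12423 0) P.nil))) (P.cons (P.cons (P.lf 0 4275 0) (P.cons (P.lf 3981 0 0) P.nil)) (P.cons (P.cons (P.lf 0 63 0) P.nil) P.nil)))))) 4692)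
 EL.nil)))
noncomputable def S343_357_660_808_22 : EL := (EL.cons 4 (TM.mk (P.cons (P.cons (P.lf 754264416 0 0) (P.cons (P.lf 181628337 0 0) (P.cons (P.lf 0 69517617 0) (P.cons (P.lf 0 16293774 0) (P.cons (P.lf 793272 0 0) (P.cons (P.lf 363726 0 0) P.nil)))))) (P.cons (P.cons (P.lf 0 304017597 0) (P.cons (P.lf 0 46146369 0) (P.cons (P.lf 17636340 0 0) (P.cons (P.lf 4162203 0 0) (P.cons (P.lf 0 203892 0) P.nil))))) (P.cons (P.cons (P.lf 0 12566415 0) (P.cons (P.lf 727098 0 0) (P.cons (P.lf 0 165678 0) (P.cons (P.lf 0 162345 0) P.nil)))) (P.cons (P.cons (P.lf 5161710 0 0) (P.cons (P.lf 586110 0 0) (P.cons (P.lf 0 241125 0) P.nil))) (P.cons (P.cons (P.lf 0 82485 0) (P.cons (P.lf 0 43194 0) P.nil)) (P.cons (P.cons (P.lf 0 28950 0) P.nil) P.nil)))))) 289068)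
 (EL.cons 8 (TM.mk (P.cons (P.cons (P.lf 444125184 0 0) (P.cons (P.lf 106946208 0 0) (P.cons (P.lf 0 40933290 0) (P.cons (P.lf 0 9594084 0) (P.cons (P.lf 467094 0 0) (P.cons (P.lf 214170 0 0) P.nil)))))) (P.cons (P.cons (P.lf 0 132530715 0) (P.cons (P.lf 0 15979239 0) (P.cons (P.lf 6100674 0 0) (P.cons (P.lf 1446702 0 0) (P.cons (P.lf 0 71169 0) P.nil))))) (P.cons (P.cons (P.lf 0 24231660 0) (P.cons (P.lf 0 1957479 0) (P.cons (P.lf 813924 0 0) (P.cons (P.lf 119799 0 0) P.nil)))) (P.cons (P.cons (P.lf 1607814 0 0) (P.cons (P.lf 299940 0 0) (P.cons (P.lf 0 117816 0) P.nil))) (P.cons (P.cons (P.lf 199059 0 0) (P.cons (P.lf 7119 0 0) P.nil)) (P.cons (P.cons (P.lf 0 12846 0) P.nil) P.nil)))))) 131556)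
 (EL.cons 11 (TM.mk (P.cons (P.cons (P.lf 0 126392073 0) (P.cons (P.lf 95809170 0 0) (P.cons (P.lf 41980026 0 0) (P.cons (P.lf 0 8177079 0) (P.cons (P.lf 0 2529207 0) (P.cons (P.lf 51252 0 0) P.nil)))))) (P.cons (P.cons (P.lf 63630711 0 0) (P.cons (P.lf 0 53610648 0) (P.cons (P.lf 0 13807182 0) (P.cons (P.lf 2728488 0 0) (P.cons (P.lf 704739 0 0) P.nil))))) (P.cons (P.cons (P.lf 0 4669059 0) (P.cons (P.lf 3853299 0 0) (P.cons (P.lf 1122858 0 0) (P.cons (P.lf 0 220995 0) P.nil)))) (P.cons (P.cons (P.lf 0 220170 0) (P.cons (P.lf 210465 0 0) (P.cons (P.lf 13749 0 0) P.nil))) (P.cons (P.cons (P.lf 32325 0 0) (P.cons (P.lf 0 28212 0) P.nil)) (P.cons (P.cons (P.lf 0 321 0) P.nil) P.nil)))))) 238476)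
 EL.nil)))
noncomputable def S343_357_660_808_23 : EL := (EL.cons 4 (TM.mk (P.cons (P.cons (P.lf 0 2416086252 0) (P.cons (P.lf 0 162459873 0) (P.cons (P.lf 70054527 0 0) (P.lf 7783830 0 0)))) (P.cons (P.cons (P.lf 0 120861504 0) (P.cons (P.lf 7965702 0 0) (P.cons (P.lf 0 3434898 0) (P.lf 0 381651 0)))) (P.cons (P.cons (P.lf 35021436 0 0) (P.cons (P.lf 1937832 0 0) (P.cons (P.lf 0 835614 0) (P.lf 0 92847 0)))) (P.cons (P.cons (P.lf 435693 0 0) (P.cons (P.lf 0 136383 0) (P.cons (P.lf 58806 0 0) P.nil))) (P.cons (P.cons (P.lf 0 205944 0) (P.cons (P.lf 0 6360 0) P.nil)) (P.cons (P.cons (P.lf 3732 0 0) P.nil) P.nil)))))) 23289)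
 (EL.cons 8 (TM.mk (P.cons (P.cons (P.lf 0 1422637374 0) (P.cons (P.lf 0 95659452 0) (P.cons (P.lf 41249436 0 0) (P.lf 4583268 0 0)))) (P.cons (P.cons (P.lf 0 220053861 0) (P.cons (P.lf 0 5321022 0) (P.cons (P.lf 2294484 0 0) (P.lf 254940 0 0)))) (P.cons (P.cons (P.lf 7079538 0 0) (P.cons (P.lf 1222152 0 0) (P.cons (P.lf 0 527007 0) (P.lf 0 58554 0)))) (P.cons (P.cons (P.lf 1758534 0 0) (P.cons (P.lf 35574 0 0) (P.cons (P.lf 0 15339 0) P.nil))) (P.cons (P.cons (P.lf 0 41112 0) (P.cons (P.lf 0 7275 0) P.nil)) (P.cons (P.cons (P.lf 0 6093 0) P.nil) P.nil)))))) 15792)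
 (EL.cons 11 (TM.mk (P.cons (P.cons (P.lf 404863524 0 0) (P.cons (P.lf 0 377167827 0) (P.cons (P.lf 0 38709687 0) (P.cons (P.lf 8050536 0 0) (P.lf 670875 0 0))))) (P.cons (P.cons (P.lf 0 20385048 0) (P.cons (P.lf 18990558 0 0) (P.cons (P.lf 1949046 0 0) (P.cons (P.lf 0 405345 0) (P.lf 0 33777 0))))) (P.cons (P.cons (P.lf 0 2579745 0) (P.cons (P.lf 2403270 0 0) (P.cons (P.lf 246654 0 0) (P.cons (P.lf 0 51297 0) P.nil)))) (P.cons (P.cons (P.lf 184797 0 0) (P.cons (P.lf 0 172158 0) (P.cons (P.lf 0 17667 0) P.nil))) (P.cons (P.cons (P.lf 1488 0 0) (P.cons (P.lf 0 1386 0) P.nil)) (P.cons (P.cons (P.lf 0 417 0) P.nil) P.nil)))))) 11346)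
 EL.nil)))
noncomputable def S343_357_660_808_24 : EL := (EL.cons 4 (TM.mk (P.cons (P.cons (P.lf 474024075 0 0) (P.cons (P.lf 114145917 0 0) (P.cons (P.lf 0 43688952 0) (P.cons (P.lf 0 10239963 0) (P.cons (P.lf 498540 0 0) (P.cons (P.lf 228588 0 0) P.nil)))))) (P.cons (P.cons (P.lf 0 165945141 0) (P.cons (P.lf 0 22952775 0) (P.cons (P.lf 8768742 0 0) (P.cons (P.lf 2073180 0 0) (P.cons (P.lf 0 101721 0) P.nil))))) (P.cons (P.cons (P.lf 0 18940071 0) (P.cons (P.lf 0 1300959 0) (P.cons (P.lf 567843 0 0) (P.cons (P.lf 56418 0 0) P.nil)))) (P.cons (P.cons (P.lf 3195378 0 0) (P.cons (P.lf 448677 0 0) (P.cons (P.lf 0 178500 0) P.nil))) (P.cons (P.cons (P.lf 136236 0 0) (P.cons (P.lf 0 8310 0) P.nil)) (P.cons (P.cons (P.lf 0 27534 0) P.nil) P.nil)))))) 168513)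
 (EL.cons 8 (TM.mk (P.cons (P.cons (P.lf 279114360 0 0) (P.cons (P.lf 67211280 0 0) (P.cons (P.lf 0 25724883 0) (P.cons (P.lf 0 6029484 0) (P.cons (P.lf 293547 0 0) (P.cons (P.lf 134595 0 0) P.nil)))))) (P.cons (P.cons (P.lf 0 68500497 0) (P.cons (P.lf 0 6480930 0) (P.cons (P.lf 2470923 0 0) (P.cons (P.lf 589704 0 0) (P.cons (P.lf 0 29172 0) P.nil))))) (P.cons (P.cons (P.lf 0 20182860 0) (P.cons (P.lf 0 1892568 0) (P.cons (P.lf 764526 0 0) (P.cons (P.lf 135150 0 0) P.nil)))) (P.cons (P.cons (P.lf 364725 0 0) (P.cons (P.lf 142728 0 0) (P.cons (P.lf 0 54348 0) P.nil))) (P.cons (P.cons (P.lf 208653 0 0) (P.cons (P.lf 16959 0 0) P.nil)) (P.cons (P.cons (P.lf 0 3531 0) P.nil) P.nil)))))) 79263)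
 (EL.cons 11 (TM.mk (P.cons (P.cons (P.lf 0 79432203 0) (P.cons (P.lf 60212112 0 0) (P.cons (P.lf 26382714 0 0) (P.cons (P.lf 0 5138955 0) (P.cons (P.lf 0 1589502 0) (P.cons (P.lf 32208 0 0) P.nil)))))) (P.cons (P.cons (P.lf 35780358 0 0) (P.cons (P.lf 0 30501588 0) (P.cons (P.lf 0 7279287 0) (P.cons (P.lf 1442442 0 0) (P.cons (P.lf 358674 0 0) P.nil))))) (P.cons (P.cons (P.lf 0 661437 0) (P.cons (P.lf 519687 0 0) (P.cons (P.lf 194754 0 0) (P.cons (P.lf 0 38067 0) P.nil)))) (P.cons (P.cons (P.lf 0 371289 0) (P.cons (P.lf 325836 0 0) (P.cons (P.lf 62829 0 0) P.nil))) (P.cons (P.cons (P.lf 18516 0 0) (P.cons (P.lf 0 15294 0) P.nil)) (P.cons (P.cons (P.lf 1206 0 0) P.nil) P.nil)))))) 142326)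
 EL.nil)))
noncomputable def S343_357_660_808_25 : EL := (EL.cons 4 (TM.mk (P.cons (P.cons (P.lf 0 1518410559 0) (P.cons (P.lf 0 102099327 0) (P.cons (P.lf 44026380 0 0) (P.lf 4891815 0 0)))) (P.cons (P.cons (P.lf 0 156413343 0) (P.cons (P.lf 0 403878 0) (P.cons (P.lf 174156 0 0) (P.lf 19350 0 0)))) (P.cons (P.cons (P.lf 20927466 0 0) (P.cons (P.lf 1680978 0 0) (P.cons (P.lf 0 724854 0) (P.lf 0 80538 0)))) (P.cons (P.cons (P.lf 1588386 0 0) (P.cons (P.lf 0 30807 0) (P.cons (P.lf 13281 0 0) P.nil))) (P.cons (P.cons (P.lf 0 159891 0) (P.cons (P.lf 0 11064 0) P.nil)) (P.cons (P.cons (P.lf 0 5127 0) P.nil) P.nil)))))) 20754)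
 (EL.cons 8 (TM.mk (P.cons (P.cons (P.lf 0 894068913 0) (P.cons (P.lf 0 60118020 0) (P.cons (P.lf 25923567 0 0) (P.lf 2880396 0 0)))) (P.cons (P.cons (P.lf 0 185669307 0) (P.cons (P.lf 0 6529551 0) (P.cons (P.lf 2815614 0 0) (P.lf 312843 0 0)))) (P.cons (P.cons (P.lf 0 1145991 0) (P.cons (P.lf 707388 0 0) (P.cons (P.lf 0 305034 0) (P.lf 0 33891 0)))) (P.cons (P.cons (P.lf 1609605 0 0) (P.cons (P.lf 69579 0 0) (P.cons (P.lf 0 30003 0) P.nil))) (P.cons (P.cons (P.lf 22803 0 0) (P.cons (P.lf 0 4968 0) P.nil)) (P.cons (P.cons (P.lf 0 7530 0) P.nil) P.nil)))))) 13281)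
 (EL.cons 11 (TM.mk (P.cons (P.cons (P.lf 254440026 0 0) (P.cons (P.lf 0 237034422 0) (P.cons (P.lf 0 24327441 0) (P.cons (P.lf 5059428 0 0) (P.lf 421617 0 0))))) (P.cons (P.cons (P.lf 670992 0 0) (P.cons (P.lf 0 625092 0) (P.cons (P.lf 0 64155 0) (P.cons (P.lf 13341 0 0) (P.lf 1110 0 0))))) (P.cons (P.cons (P.lf 0 2793201 0) (P.cons (P.lf 2602125 0 0) (P.cons (P.lf 267063 0 0) (P.cons (P.lf 0 55539 0) P.nil)))) (P.cons (P.cons (P.lf 54867 0 0) (P.cons (P.lf 0 51114 0) (P.cons (P.lf 0 5244 0) P.nil))) (P.cons (P.cons (P.lf 10638 0 0) (P.cons (P.lf 0 9909 0) P.nil)) (P.cons (P.cons (P.lf 0 465 0) P.nil) P.nil)))))) 11439)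
 EL.nil)))
noncomputable def S343_357_660_808_26 : EL := (EL.cons 4 (TM.mk (P.cons (P.cons (P.lf 297904581 0 0) (P.cons (P.lf 71736000 0 0) (P.cons (P.lf 0 27456705 0) (P.cons (P.lf 0 6435393 0) (P.cons (P.lf 313311 0 0) (P.cons (P.lf 143658 0 0) P.nil)))))) (P.cons (P.cons (P.lf 0 88504437 0) (P.cons (P.lf 0 10623756 0) (P.cons (P.lf 4055928 0 0) (P.cons (P.lf 961911 0 0) (P.cons (P.lf 0 47325 0) P.nil))))) (P.cons (P.cons (P.lf 0 18006450 0) (P.cons (P.lf 0 1720962 0) (P.cons (P.lf 702081 0 0) (P.cons (P.lf 116967 0 0) P.nil)))) (P.cons (P.cons (P.lf 1579338 0 0) (P.cons (P.lf 266553 0 0) (P.cons (P.lf 0 103929 0) P.nil))) (P.cons (P.cons (P.lf 215640 0 0) (P.cons (P.lf 11421 0 0) P.nil)) (P.cons (P.cons (P.lf 0 16824 0) P.nil) P.nil)))))) 108639)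
 (EL.cons 8 (TM.mk (P.cons (P.cons (P.lf 175411863 0 0) (P.cons (P.lf 42239517 0 0) (P.cons (P.lf 0 16167027 0) (P.cons (P.lf 0 3789282 0) (P.cons (P.lf 184482 0 0) (P.cons (P.lf 84588 0 0) P.nil)))))) (P.cons (P.cons (P.lf 0 33755091 0) (P.cons (P.lf 0 1834827 0) (P.cons (P.lf 696222 0 0) (P.cons (P.lf 169818 0 0) (P.cons (P.lf 0 8559 0) P.nil))))) (P.cons (P.cons (P.lf 0 15305145 0) (P.cons (P.lf 0 1487079 0) (P.cons (P.lf 594087 0 0) (P.cons (P.lf 111915 0 0) P.nil)))) (P.cons (P.cons (P.lf 0 359583 0) (P.cons (P.lf 34536 0 0) (P.cons (P.lf 0 11694 0) P.nil))) (P.cons (P.cons (P.lf 168162 0 0) (P.cons (P.lf 17784 0 0) P.nil)) (P.cons (P.cons (P.lf 4221 0 0) P.nil) P.nil)))))) 53088)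
 (EL.cons 11 (TM.mk (P.cons (P.cons (P.lf 0 49919862 0) (P.cons (P.lf 37840827 0 0) (P.cons (P.lf 16580448 0 0) (P.cons (P.lf 0 3229620 0) (P.cons (P.lf 0 998934 0) (P.cons (P.lf 20241 0 0) P.nil)))))) (P.cons (P.cons (P.lf 19841346 0 0) (P.cons (P.lf 0 17163897 0) (P.cons (P.lf 0 3696174 0) (P.cons (P.lf 735384 0 0) (P.cons (P.lf 172479 0 0) P.nil))))) (P.cons (P.cons (P.lf 872559 0 0) (P.cons (P.lf 0 762450 0) (P.cons (P.lf 0 152139 0) (P.cons (P.lf 30366 0 0) P.nil)))) (P.cons (P.cons (P.lf 0 298908 0) (P.cons (P.lf 259200 0 0) (P.cons (P.lf 54822 0 0) P.nil))) (P.cons (P.cons (P.lf 0 15 0) (P.cons (P.lf 678 0 0) P.nil)) (P.cons (P.cons (P.lf 1863 0 0) P.nil) P.nil)))))) 92817)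
 EL.nil)))
noncomputable def S343_357_660_808_27 : EL := (EL.cons 13 (TM.mk (P.lf 0 4294967296 0) 0)
 EL.nil)
noncomputable def S343_357_660_808_28 : EL := (EL.cons 13 (TM.mk (P.cons (P.cons (P.lf 842651171 0 0) (P.cons (P.lf 146251396 0 0) (P.cons (P.lf 0 63065252 0) (P.lf 0 7007248 0)))) (P.cons (P.cons (P.lf 0 337145682 0) (P.cons (P.lf 0 22669984 0) (P.cons (P.lf 9775552 0 0) (P.lf 1086172 0 0)))) (P.cons (P.cons (P.lf 0 4589324 0) (P.cons (P.lf 814200 0 0) (P.cons (P.lf 0 351092 0) (P.lf 0 39008 0)))) (P.cons (P.cons (P.lf 1174849 0 0) (P.cons (P.lf 42532 0 0) (P.cons (P.lf 0 18340 0) P.nil))) (P.cons (P.cons (P.lf 0 15731 0) (P.cons (P.lf 0 3596 0) P.nil)) (P.cons (P.cons (P.lf 0 1923 0) P.nil) P.nil)))))) 5238)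
 EL.nil)
noncomputable def S343_357_660_808_29 : EL := (EL.cons 13 (TM.mk (P.cons (P.cons (P.lf 0 165323958 0) (P.cons (P.lf 0 57387589 0) (P.cons (P.lf 19766051 0 0) (P.cons (P.lf 7044545 0 0) (P.cons (P.lf 0 448801 0) (P.cons (P.lf 0 205782 0) P.nil)))))) (P.cons (P.cons (P.lf 132292603 0 0) (P.cons (P.lf 31856314 0 0) (P.cons (P.lf 0 12192894 0) (P.cons (P.lf 0 2857811 0) (P.cons (P.lf 139134 0 0) P.nil))))) (P.cons (P.cons (P.lf 0 24664404 0) (P.cons (P.lf 0 3566024 0) (P.cons (P.lf 1362601 0 0) (P.cons (P.lf 321872 0 0) P.nil)))) (P.cons (P.cons (P.lf 0 1181503 0) (P.cons (P.lf 0 17322 0) (P.cons (P.lf 13167 0 0) P.nil))) (P.cons (P.cons (P.lf 185715 0 0) (P.cons (P.lf 23302 0 0) P.nil)) (P.cons (P.cons (P.lf 795 0 0) P.nil) P.nil)))))) 179457)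
 EL.nil)
noncomputable def S343_357_660_808_30 : EL := (EL.cons 13 (TM.mk (P.cons (P.lf 0 2699209800 0) (P.cons (P.lf 0 143024544 0) (P.cons (P.lf 5231084 0 0) (P.cons (P.lf 2024 0 0) (P.cons (P.lf 0 4224 0) (P.cons (P.lf 88 0 0) P.nil)))))) 60)
 EL.nil)
noncomputable def S343_357_660_808_31 : EL := (EL.cons 13 (TM.mk (P.cons (P.cons (P.lf 529571505 0 0) (P.cons (P.lf 91912970 0 0) (P.cons (P.lf 0 39633909 0) (P.lf 0 4403766 0)))) (P.cons (P.cons (P.lf 0 183821453 0) (P.cons (P.lf 0 9376905 0) (P.cons (P.lf 4043427 0 0) (P.lf 449269 0 0)))) (P.cons (P.cons (P.lf 0 15137632 0) (P.cons (P.lf 0 421358 0) (P.cons (P.lf 181694 0 0) (P.lf 20189 0 0)))) (P.cons (P.cons (P.lf 995749 0 0) (P.cons (P.lf 81385 0 0) (P.cons (P.lf 0 35093 0) P.nil))) (P.cons (P.cons (P.lf 35813 0 0) (P.cons (P.lf 0 1680 0) P.nil)) (P.cons (P.cons (P.lf 0 3509 0) P.nil) P.nil)))))) 7633)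
 EL.nil)
noncomputable def S343_357_660_808_32 : EL := (EL.cons 13 (TM.mk (P.cons (P.cons (P.lf 0 103899288 0) (P.cons (P.lf 0 36065732 0) (P.cons (P.lf 12422147 0 0) (P.cons (P.lf 4427205 0 0) (P.cons (P.lf 0 282052 0) (P.cons (P.lf 0 129325 0) P.nil)))))) (P.cons (P.cons (P.lf 77635074 0 0) (P.cons (P.lf 18109344 0 0) (P.cons (P.lf 0 7004511 0) (P.cons (P.lf 0 1561429 0) (P.cons (P.lf 72494 0 0) P.nil))))) (P.cons (P.cons (P.lf 0 10893793 0) (P.cons (P.lf 0 1110372 0) (P.cons (P.lf 426234 0 0) (P.cons (P.lf 98536 0 0) P.nil)))) (P.cons (P.cons (P.lf 0 1724911 0) (P.cons (P.lf 0 168409 0) (P.cons (P.lf 68491 0 0) P.nil))) (P.cons (P.cons (P.lf 107184 0 0) (P.cons (P.lf 18339 0 0) P.nil)) (P.cons (P.cons (P.lf 8268 0 0) P.nil) P.nil)))))) 149365)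
 EL.nil)
noncomputable def S343_357_660_808_33 : EL := (EL.cons 14 (TM.mk (P.lf 8589934592 0 0) 0)
 EL.nil)
noncomputable def S343_357_660_808_34 : EL := (EL.cons 14 (TM.mk (P.cons (P.cons (P.lf 0 1685302342 0) (P.cons (P.lf 0 292502792 0) (P.cons (P.lf 126130504 0 0) (P.lf 14014496 0 0)))) (P.cons (P.cons (P.lf 674291364 0 0) (P.cons (P.lf 45339968 0 0) (P.cons (P.lf 0 19551104 0) (P.lf 0 2172344 0)))) (P.cons (P.cons (P.lf 9178648 0 0) (P.cons (P.lf 0 1628400 0) (P.cons (P.lf 702184 0 0) (P.lf 78016 0 0)))) (P.cons (P.cons (P.lf 0 2349698 0) (P.cons (P.lf 0 85064 0) (P.cons (P.lf 36680 0 0) P.nil))) (P.cons (P.cons (P.lf 31462 0 0) (P.cons (P.lf 7192 0 0) P.nil)) (P.cons (P.cons (P.lf 3846 0 0) P.nil) P.nil)))))) 10476)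
 EL.nil)
noncomputable def S343_357_660_808_35 : EL := (EL.cons 14 (TM.mk (P.cons (P.cons (P.lf 330647916 0 0) (P.cons (P.lf 114775178 0 0) (P.cons (P.lf 0 39532102 0) (P.cons (P.lf 0 14089090 0) (P.cons (P.lf 897602 0 0) (P.cons (P.lf 411564 0 0) P.nil)))))) (P.cons (P.cons (P.lf 0 264585206 0) (P.cons (P.lf 0 63712628 0) (P.cons (P.lf 24385788 0 0) (P.cons (P.lf 5715622 0 0) (P.cons (P.lf 0 278268 0) P.nil))))) (P.cons (P.cons (P.lf 49328808 0 0) (P.cons (P.lf 7132048 0 0) (P.cons (P.lf 0 2725202 0) (P.cons (P.lf 0 643744 0) P.nil)))) (P.cons (P.cons (P.lf 2363006 0 0) (P.cons (P.lf 34644 0 0) (P.cons (P.lf 0 26334 0) P.nil))) (P.cons (P.cons (P.lf 0 371430 0) (P.cons (P.lf 0 46604 0) P.nil)) (P.cons (P.cons (P.lf 0 1590 0) P.nil) P.nil)))))) 358914)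
 EL.nil)
noncomputable def S343_357_660_808_36 : EL := (EL.cons 14 (TM.mk (P.cons (P.lf 5398419600 0 0) (P.cons (P.lf 286049088 0 0) (P.cons (P.lf 0 10462168 0) (P.cons (P.lf 0 4048 0) (P.cons (P.lf 8448 0 0) (P.cons (P.lf 0 176 0) P.nil)))))) 120)
 EL.nil)
noncomputable def S343_357_660_808_37 : EL := (EL.cons 14 (TM.mk (P.cons (P.cons (P.lf 0 1059143010 0) (P.cons (P.lf 0 183825940 0) (P.cons (P.lf 79267818 0 0) (P.lf 8807532 0 0)))) (P.cons (P.cons (P.lf 367642906 0 0) (P.cons (P.lf 18753810 0 0) (P.cons (P.lf 0 8086854 0) (P.lf 0 898538 0)))) (P.cons (P.cons (P.lf 30275264 0 0) (P.cons (P.lf 842716 0 0) (P.cons (P.lf 0 363388 0) (P.lf 0 40378 0)))) (P.cons (P.cons (P.lf 0 1991498 0) (P.cons (P.lf 0 162770 0) (P.cons (P.lf 70186 0 0) P.nil))) (P.cons (P.cons (P.lf 0 71626 0) (P.cons (P.lf 3360 0 0) P.nil)) (P.cons (P.cons (P.lf 7018 0 0) P.nil) P.nil)))))) 15266)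
 EL.nil)
noncomputable def S343_357_660_808_38 : EL := (EL.cons 14 (TM.mk (P.cons (P.cons (P.lf 207798576 0 0) (P.cons (P.lf 72131464 0 0) (P.cons (P.lf 0 24844294 0) (P.cons (P.lf 0 8854410 0) (P.cons (P.lf 564104 0 0) (P.cons (P.lf 258650 0 0) P.nil)))))) (P.cons (P.cons (P.lf 0 155270148 0) (P.cons (P.lf 0 36218688 0) (P.cons (P.lf 14009022 0 0) (P.cons (P.lf 3122858 0 0) (P.cons (P.lf 0 144988 0) P.nil))))) (P.cons (P.cons (P.lf 21787586 0 0) (P.cons (P.lf 2220744 0 0) (P.cons (P.lf 0 852468 0) (P.cons (P.lf 0 197072 0) P.nil)))) (P.cons (P.cons (P.lf 3449822 0 0) (P.cons (P.lf 336818 0 0) (P.cons (P.lf 0 136982 0) P.nil))) (P.cons (P.cons (P.lf 0 214368 0) (P.cons (P.lf 0 36678 0) P.nil)) (P.cons (P.cons (P.lf 0 16536 0) P.nil) P.nil)))))) 298730)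
 EL.nil)
noncomputable def S343_357_660_808_39 : EL := (EL.cons 14 (TM.mk (P.cons (P.lf 3392684060 0 0) (P.cons (P.lf 359540106 0 0) (P.cons (P.lf 0 3624504 0) (P.cons (P.lf 0 701878 0) (P.cons (P.lf 23090 0 0) (P.cons (P.lf 350 0 0) P.nil)))))) 204)
 EL.nil)
noncomputable def S343_357_660_808_40 : EL := (EL.cons 14 (TM.mk (P.cons (P.cons (P.lf 0 665627698 0) (P.cons (P.lf 0 115527020 0) (P.cons (P.lf 49816554 0 0) (P.lf 5535170 0 0)))) (P.cons (P.cons (P.lf 195778414 0 0) (P.cons (P.lf 5664502 0 0) (P.cons (P.lf 0 2442596 0) (P.lf 0 271398 0)))) (P.cons (P.cons (P.lf 32559436 0 0) (P.cons (P.lf 1378016 0 0) (P.cons (P.lf 0 594216 0) (P.lf 0 66024 0)))) (P.cons (P.cons (P.lf 0 690666 0) (P.cons (P.lf 0 96986 0) (P.cons (P.lf 41820 0 0) P.nil))) (P.cons (P.cons (P.lf 0 149420 0) (P.cons (P.lf 0 4522 0) P.nil)) (P.cons (P.cons (P.lf 4820 0 0) P.nil) P.nil)))))) 15230)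
 EL.nil)
noncomputable def S343_357_660_808_41 : EL := (EL.cons 14 (TM.mk (P.cons (P.cons (P.lf 130592834 0 0) (P.cons (P.lf 45331650 0 0) (P.cons (P.lf 0 15613614 0) (P.cons (P.lf 0 5564632 0) (P.cons (P.lf 354516 0 0) (P.cons (P.lf 162550 0 0) P.nil)))))) (P.cons (P.cons (P.lf 0 90661088 0) (P.cons (P.lf 0 20359938 0) (P.cons (P.lf 7976764 0 0) (P.cons (P.lf 1667730 0 0) (P.cons (P.lf 0 72334 0) P.nil))))) (P.cons (P.cons (P.lf 8268936 0 0) (P.cons (P.lf 101692 0 0) (P.cons (P.lf 0 38974 0) (P.cons (P.lf 0 9074 0) P.nil)))) (P.cons (P.cons (P.lf 3082622 0 0) (P.cons (P.lf 329706 0 0) (P.cons (P.lf 0 131526 0) P.nil))) (P.cons (P.cons (P.lf 0 46100 0) (P.cons (P.lf 0 14450 0) P.nil)) (P.cons (P.cons (P.lf 0 21898 0) P.nil) P.nil)))))) 226094)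
 EL.nil)
noncomputable def S343_357_660_808_42 : EL := (EL.cons 14 (TM.mk (P.cons (P.lf 2132162000 0 0) (P.cons (P.lf 338934190 0 0) (P.cons (P.lf 5562870 0 0) (P.cons (P.lf 0 1001302 0) (P.cons (P.lf 0 1280 0) (P.cons (P.lf 2128 0 0) P.nil)))))) 254)
 EL.nil)
noncomputable def S343_357_660_808_43 : EL := (EL.cons 14 (TM.mk (P.cons (P.cons (P.lf 0 418319554 0) (P.cons (P.lf 0 72603968 0) (P.cons (P.lf 31307650 0 0) (P.lf 3478626 0 0)))) (P.cons (P.cons (P.lf 100872926 0 0) (P.cons (P.lf 0 287200 0) (P.cons (P.lf 123844 0 0) (P.lf 13760 0 0)))) (P.cons (P.cons (P.lf 27792486 0 0) (P.cons (P.lf 1195362 0 0) (P.cons (P.lf 0 515454 0) (P.lf 0 57272 0)))) (P.cons (P.cons (P.lf 412052 0 0) (P.cons (P.lf 0 21906 0) (P.cons (P.lf 9446 0 0) P.nil))) (P.cons (P.cons (P.lf 0 157306 0) (P.cons (P.lf 0 7866 0) P.nil)) (P.cons (P.cons (P.lf 0 912 0) P.nil) P.nil)))))) 15190)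
 EL.nil)
noncomputable def S343_357_660_808_44 : EL := (EL.cons 14 (TM.mk (P.cons (P.cons (P.lf 82072210 0 0) (P.cons (P.lf 28489072 0 0) (P.cons (P.lf 0 9812512 0) (P.cons (P.lf 0 3497142 0) (P.cons (P.lf 222798 0 0) (P.cons (P.lf 102156 0 0) P.nil)))))) (P.cons (P.cons (P.lf 0 52627948 0) (P.cons (P.lf 0 11285814 0) (P.cons (P.lf 4493126 0 0) (P.cons (P.lf 862794 0 0) (P.cons (P.lf 0 33652 0) P.nil))))) (P.cons (P.cons (P.lf 2018570 0 0) (P.cons (P.lf 0 669298 0) (P.cons (P.lf 260152 0 0) (P.cons (P.lf 56610 0 0) P.nil)))) (P.cons (P.cons (P.lf 2323020 0 0) (P.cons (P.lf 235368 0 0) (P.cons (P.lf 0 93664 0) P.nil))) (P.cons (P.cons (P.lf 63780 0 0) (P.cons (P.lf 1826 0 0) P.nil)) (P.cons (P.cons (P.lf 0 19148 0) P.nil) P.nil)))))) 173446)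
 EL.nil)
noncomputable def S343_357_660_808_45 : EL := (EL.cons 14 (TM.mk (P.cons (P.cons (P.lf 0 64871472 0) (P.cons (P.lf 0 33777476 0) (P.cons (P.lf 8702774 0 0) (P.cons (P.lf 6335104 0 0) (P.cons (P.lf 0 89560 0) (P.cons (P.lf 0 382684 0) P.nil)))))) (P.cons (P.cons (P.lf 77865446 0 0) (P.cons (P.lf 32264556 0 0) (P.cons (P.lf 0 9749824 0) (P.cons (P.lf 0 4978430 0) (P.cons (P.lf 171134 0 0) P.nil))))) (P.cons (P.cons (P.lf 0 30094126 0) (P.cons (P.lf 0 9416902 0) (P.cons (P.lf 3159310 0 0) (P.cons (P.lf 1198428 0 0) P.nil)))) (P.cons (P.cons (P.lf 3035430 0 0) (P.cons (P.lf 680366 0 0) (P.cons (P.lf 0 222272 0) P.nil))) (P.cons (P.cons (P.lf 384658 0 0) (P.cons (P.lf 55998 0 0) P.nil)) (P.cons (P.cons (P.lf 0 40634 0) P.nil) P.nil)))))) 855022)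
 EL.nil)
noncomputable def S343_357_660_808_46 : EL := (EL.cons 15 (TM.mk (P.lf 4294967296 0 0) 0)
 EL.nil)
noncomputable def S343_357_660_808_47 : EL := (EL.cons 15 (TM.mk (P.cons (P.cons (P.lf 0 842651171 0) (P.cons (P.lf 0 146251396 0) (P.cons (P.lf 63065252 0 0) (P.lf 7007248 0 0)))) (P.cons (P.cons (P.lf 337145682 0 0) (P.cons (P.lf 22669984 0 0) (P.cons (P.lf 0 9775552 0) (P.lf 0 1086172 0)))) (P.cons (P.cons (P.lf 4589324 0 0) (P.cons (P.lf 0 814200 0) (P.cons (P.lf 351092 0 0) (P.lf 39008 0 0)))) (P.cons (P.cons (P.lf 0 1174849 0) (P.cons (P.lf 0 42532 0) (P.cons (P.lf 18340 0 0) P.nil))) (P.cons (P.cons (P.lf 15731 0 0) (P.cons (P.lf 3596 0 0) P.nil)) (P.cons (P.cons (P.lf 1923 0 0) P.nil) P.nil)))))) 5238)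
 EL.nil)
noncomputable def S343_357_660_808_48 : EL := (EL.cons 15 (TM.mk (P.cons (P.cons (P.lf 165323958 0 0) (P.cons (P.lf 57387589 0 0) (P.cons (P.lf 0 19766051 0) (P.cons (P.lf 0 7044545 0) (P.cons (P.lf 448801 0 0) (P.cons (P.lf 205782 0 0) P.nil)))))) (P.cons (P.cons (P.lf 0 132292603 0) (P.cons (P.lf 0 31856314 0) (P.cons (P.lf 12192894 0 0) (P.cons (P.lf 2857811 0 0) (P.cons (P.lf 0 139134 0) P.nil))))) (P.cons (P.cons (P.lf 24664404 0 0) (P.cons (P.lf 3566024 0 0) (P.cons (P.lf 0 1362601 0) (P.cons (P.lf 0 321872 0) P.nil)))) (P.cons (P.cons (P.lf 1181503 0 0) (P.cons (P.lf 17322 0 0) (P.cons (P.lf 0 13167 0) P.nil))) (P.cons (P.cons (P.lf 0 185715 0) (P.cons (P.lf 0 23302 0) P.nil)) (P.cons (P.cons (P.lf 0 795 0) P.nil) P.nil)))))) 179457)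
 EL.nil)
noncomputable def S343_357_660_808 : SL := (SL.cons S343_357_660_808_0 (SL.cons S343_357_660_808_1 (SL.cons S343_357_660_808_2 (SL.cons S343_357_660_808_3 (SL.cons S343_357_660_808_4 (SL.cons S343_357_660_808_5 (SL.cons S343_357_660_808_6 (SL.cons S343_357_660_808_7 (SL.cons S343_357_660_808_8 (SL.cons S343_357_660_808_9 (SL.cons S343_357_660_808_10 (SL.cons S343_357_660_808_11 (SL.cons S343_357_660_808_12 (SL.cons S343_357_660_808_13 (SL.cons S343_357_660_808_14 (SL.cons S343_357_660_808_15 (SL.cons S343_357_660_808_16 (SL.cons S343_357_660_808_17 (SL.cons S343_357_660_808_18 (SL.cons S343_357_660_808_19 (SL.cons S343_357_660_808_20 (SL.cons S343_357_660_808_21 (SL.cons S343_357_660_808_22 (SL.cons S343_357_660_808_23 (SL.cons S343_357_660_808_24 (SL.cons S343_357_660_808_25 (SL.cons S343_357_660_808_26 (SL.cons S343_357_660_808_27 (SL.cons S343_357_660_808_28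 (SL.cons S343_357_660_808_29 (SL.cons S343_357_660_808_30 (SL.cons S343_357_660_808_31 (SL.cons S343_357_660_808_32 (SL.cons S343_357_660_808_33 (SL.cons S343_357_660_808_34 (SL.cons S343_357_660_808_35 (SL.cons S343_357_660_808_36 (SL.cons S343_357_660_808_37 (SL.cons S343_357_660_808_38 (SL.cons S343_357_660_808_39 (SL.cons S343_357_660_808_40 (SL.cons S343_357_660_808_41 (SL.cons S343_357_660_808_42 (SL.cons S343_357_660_808_43 (SL.cons S343_357_660_808_44 (SL.cons S343_357_660_808_45 (SL.cons S343_357_660_808_46 (SL.cons S343_357_660_808_47 (SL.cons S343_357_660_808_48 SL.nil)))))))))))))))))))))))))))))))))))))))))))))))))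
noncomputable def S343_357_734_808_0 : EL := (EL.cons 0 (TM.mk (P.cons (P.lf 5473865639 0 0) (P.cons (P.lf 0 316002046 0) (P.cons (P.lf 3185599 0 0) (P.cons (P.lf 616884 0 0) (P.cons (P.lf 0 20293 0) (P.cons (P.lf 0 307 0) P.nil)))))) 186)
 (EL.cons 1 (TM.mk (P.cons (P.lf 1800576853 0 0) (P.cons (P.lf 2374179 0 0) (P.cons (P.lf 0 9884782 0) (P.cons (P.lf 207181 0 0) (P.cons (P.lf 10235 0 0) (P.cons (P.lf 0 526 0) P.nil)))))) 130)
 (EL.cons 5 (TM.mk (P.cons (P.lf 5355181070 0 0) (P.cons (P.lf 112356282 0 0) (P.cons (P.lf 0 1132662 0) (P.cons (P.lf 0 219336 0) (P.cons (P.lf 7216 0 0) (P.cons (P.lf 108 0 0) P.nil)))))) 99)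
 (EL.cons 9 (TM.mk (P.lf 6442450944 0 0) 2)
 EL.nil))))
noncomputable def S343_357_734_808_1 : EL := (EL.cons 0 (TM.mk (P.cons (P.cons (P.lf 3501873037 0 0) (P.cons (P.lf 31496283 0 0) (P.cons (P.lf 0 14868169 0) (P.lf 0 707996 0)))) (P.cons (P.cons (P.lf 727846020 0 0) (P.cons (P.lf 6585357 0 0) (P.cons (P.lf 0 3108695 0) (P.lf 0 148041 0)))) (P.cons (P.cons (P.lf 0 87736747 0) (P.cons (P.lf 0 1717790 0) (P.cons (P.lf 810901 0 0) (P.lf 38611 0 0)))) (P.cons (P.cons (P.lf 0 2423528 0) (P.cons (P.lf 68524 0 0) (P.cons (P.lf 0 32342 0) P.nil))) (P.cons (P.cons (P.lf 557317 0 0) (P.cons (P.lf 6125 0 0) P.nil)) (P.cons (P.cons (P.lf 0 8227 0) P.nil) P.nil)))))) 17405)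
 (EL.cons 1 (TM.mk (P.cons (P.cons (P.lf 0 411863516 0) (P.cons (P.lf 0 16945166 0) (P.cons (P.lf 7999147 0 0) (P.lf 380903 0 0)))) (P.cons (P.cons (P.lf 432925445 0 0) (P.cons (P.lf 7605467 0 0) (P.cons (P.lf 0 3590241 0) (P.lf 0 170951 0)))) (P.cons (P.cons (P.lf 14841770 0 0) (P.cons (P.lf 0 300078 0) (P.cons (P.lf 141655 0 0) (P.lf 6738 0 0)))) (P.cons (P.cons (P.lf 0 4648175 0) (P.cons (P.lf 0 60501 0) (P.cons (P.lf 28555 0 0) P.nil))) (P.cons (P.cons (P.lf 28002 0 0) (P.cons (P.lf 4543 0 0) P.nil)) (P.cons (P.cons (P.lf 17819 0 0) P.nil) P.nil)))))) 9066)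
 (EL.cons 5 (TM.mk (P.cons (P.cons (P.lf 0 2773639330 0) (P.cons (P.lf 0 77439778 0) (P.cons (P.lf 36556316 0 0) (P.lf 1740776 0 0)))) (P.cons (P.cons (P.lf 329242051 0 0) (P.cons (P.lf 7926374 0 0) (P.cons (P.lf 0 3741730 0) (P.lf 0 178176 0)))) (P.cons (P.cons (P.lf 38462570 0 0) (P.cons (P.lf 241996 0 0) (P.cons (P.lf 0 114234 0) (P.lf 0 5434 0)))) (P.cons (P.cons (P.lf 0 1163483 0) (P.cons (P.lf 0 43630 0) (P.cons (P.lf 20596 0 0) P.nil))) (P.cons (P.cons (P.lf 0 169045 0) (P.cons (P.lf 0 548 0) P.nil)) (P.cons (P.cons (P.lf 6178 0 0) P.nil) P.nil)))))) 7622)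
 (EL.cons 9 (TM.mk (P.cons (P.cons (P.lf 0 1348701976 0) (P.cons (P.lf 0 58448028 0) (P.cons (P.lf 27591042 0 0) (P.lf 1313856 0 0)))) (P.cons (P.cons (P.lf 518851527 0 0) (P.cons (P.lf 9059850 0 0) (P.cons (P.lf 0 4276800 0) (P.lf 0 203652 0)))) (P.cons (P.cons (P.lf 6412308 0 0) (P.cons (P.lf 0 325386 0) (P.cons (P.lf 153600 0 0) (P.lf 7308 0 0)))) (P.cons (P.cons (P.lf 0 1786909 0) (P.cons (P.lf 0 16992 0) (P.cons (P.lf 8022 0 0) P.nil))) (P.cons (P.cons (P.lf 25684 0 0) (P.cons (P.lf 1434 0 0) P.nil)) (P.cons (P.cons (P.lf 2866 0 0) P.nil) P.nil)))))) 2134)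
 (EL.cons 2 (TM.mk (P.cons (P.cons (P.lf 0 194672283 0) (P.cons (P.lf 191955079 0 0) (P.cons (P.lf 6006456 0 0) (P.cons (P.lf 0 1100657 0) (P.lf 0 39307 0))))) (P.cons (P.cons (P.lf 9801829 0 0) (P.cons (P.lf 0 9665018 0) (P.cons (P.lf 0 302425 0) (P.cons (P.lf 55417 0 0) (P.lf 1977 0 0))))) (P.cons (P.cons (P.lf 1240427 0 0) (P.cons (P.lf 0 1223114 0) (P.cons (P.lf 0 38272 0) (P.cons (P.lf 7014 0 0) P.nil)))) (P.cons (P.cons (P.lf 0 88855 0) (P.cons (P.lf 87617 0 0) (P.cons (P.lf 2739 0 0) P.nil))) (P.cons (P.cons (P.lf 0 717 0) (P.cons (P.lf 705 0 0) P.nil)) (P.cons (P.cons (P.lf 199 0 0) P.nil) P.nil)))))) 1407)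
 (EL.cons 6 (TM.mk (P.cons (P.cons (P.lf 117551943 0 0) (P.cons (P.lf 0 115911174 0) (P.cons (P.lf 0 3626970 0) (P.cons (P.lf 664626 0 0) (P.lf 23736 0 0))))) (P.cons (P.cons (P.lf 0 18221370 0) (P.cons (P.lf 17967039 0 0) (P.cons (P.lf 562203 0 0) (P.cons (P.lf 0 103020 0) (P.lf 0 3678 0))))) (P.cons (P.cons (P.lf 654426 0 0) (P.cons (P.lf 0 645294 0) (P.cons (P.lf 0 20190 0) (P.cons (P.lf 3699 0 0) P.nil)))) (P.cons (P.cons (P.lf 34185 0 0) (P.cons (P.lf 0 33708 0) (P.cons (P.lf 0 1053 0) P.nil))) (P.cons (P.cons (P.lf 0 2889 0) (P.cons (P.lf 2850 0 0) P.nil)) (P.cons (P.cons (P.lf 18 0 0) P.nil) P.nil)))))) 777)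
 EL.nil))))))
noncomputable def S343_357_734_808_2 : EL := (EL.cons 0 (TM.mk (P.cons (P.cons (P.lf 0 1706103395 0) (P.cons (P.lf 0 97520077 0) (P.cons (P.lf 45013398 0 0) (P.cons (P.lf 3157070 0 0) (P.cons (P.lf 0 181801 0) (P.cons (P.lf 0 21678 0) P.nil)))))) (P.cons (P.cons (P.lf 457740218 0 0) (P.cons (P.lf 11380934 0 0) (P.cons (P.lf 0 5237705 0) (P.cons (P.lf 0 383065 0) (P.cons (P.lf 23965 0 0) P.nil))))) (P.cons (P.cons (P.lf 116923687 0 0) (P.cons (P.lf 3211224 0 0) (P.cons (P.lf 0 1493556 0) (P.cons (P.lf 0 93282 0) P.nil)))) (P.cons (P.cons (P.lf 0 13125917 0) (P.cons (P.lf 0 532165 0) (P.cons (P.lf 245758 0 0) P.nil))) (P.cons (P.cons (P.lf 0 836207 0) (P.cons (P.lf 208 0 0) P.nil)) (P.cons (P.cons (P.lf 126876 0 0) P.nil) P.nil)))))) 113999)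
 (EL.cons 1 (TM.mk (P.cons (P.cons (P.lf 93532342 0 0) (P.cons (P.lf 7728413 0 0) (P.cons (P.lf 0 3489019 0) (P.cons (P.lf 0 324089 0) (P.cons (P.lf 28327 0 0) (P.cons (P.lf 3379 0 0) P.nil)))))) (P.cons (P.cons (P.lf 0 186991178 0) (P.cons (P.lf 0 11245077 0) (P.cons (P.lf 5168448 0 0) (P.cons (P.lf 384864 0 0) (P.cons (P.lf 0 24884 0) P.nil))))) (P.cons (P.cons (P.lf 52283359 0 0) (P.cons (P.lf 1935861 0 0) (P.cons (P.lf 0 889629 0) (P.cons (P.lf 0 66358 0) P.nil)))) (P.cons (P.cons (P.lf 4572459 0 0) (P.cons (P.lf 63022 0 0) (P.cons (P.lf 0 30279 0) P.nil))) (P.cons (P.cons (P.lf 0 826768 0) (P.cons (P.lf 0 28839 0) P.nil)) (P.cons (P.cons (P.lf 0 15226 0) P.nil) P.nil)))))) 58061)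
 (EL.cons 5 (TM.mk (P.cons (P.cons (P.lf 926606110 0 0) (P.cons (P.lf 62408432 0 0) (P.cons (P.lf 0 28496239 0) (P.cons (P.lf 0 2313344 0) (P.cons (P.lf 171538 0 0) (P.cons (P.lf 20455 0 0) P.nil)))))) (P.cons (P.cons (P.lf 0 408956377 0) (P.cons (P.lf 0 19015243 0) (P.cons (P.lf 8742126 0 0) (P.cons (P.lf 648569 0 0) (P.cons (P.lf 0 41659 0) P.nil))))) (P.cons (P.cons (P.lf 2742318 0 0) (P.cons (P.lf 534641 0 0) (P.cons (P.lf 0 239195 0) (P.cons (P.lf 0 24466 0) P.nil)))) (P.cons (P.cons (P.lf 6685475 0 0) (P.cons (P.lf 195062 0 0) (P.cons (P.lf 0 90829 0) P.nil))) (P.cons (P.cons (P.lf 0 33838 0) (P.cons (P.lf 0 10809 0) P.nil)) (P.cons (P.cons (P.lf 0 45807 0) P.nil) P.nil)))))) 55828)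
 (EL.cons 9 (TM.mk (P.cons (P.cons (P.lf 282345498 0 0) (P.cons (P.lf 24471732 0 0) (P.cons (P.lf 0 11021893 0) (P.cons (P.lf 0 1050730 0) (P.cons (P.lf 94324 0 0) (P.cons (P.lf 11253 0 0) P.nil)))))) (P.cons (P.cons (P.lf 0 217239085 0) (P.cons (P.lf 0 13207669 0) (P.cons (P.lf 6070438 0 0) (P.cons (P.lf 452095 0 0) (P.cons (P.lf 0 29241 0) P.nil))))) (P.cons (P.cons (P.lf 39101628 0 0) (P.cons (P.lf 1479181 0 0) (P.cons (P.lf 0 679617 0) (P.cons (P.lf 0 50848 0) P.nil)))) (P.cons (P.cons (P.lf 1781011 0 0) (P.cons (P.lf 5160 0 0) (P.cons (P.lf 0 3043 0) P.nil))) (P.cons (P.cons (P.lf 0 292192 0) (P.cons (P.lf 0 9475 0) P.nil)) (P.cons (P.cons (P.lf 0 619 0) P.nil) P.nil)))))) 20720)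
 (EL.cons 2 (TM.mk (P.cons (P.cons (P.lf 81507763 0 0) (P.cons (P.lf 0 76837831 0) (P.cons (P.lf 0 7665255 0) (P.cons (P.lf 1916617 0 0) (P.cons (P.lf 166168 0 0) (P.cons (P.lf 0 6260 0) P.nil)))))) (P.cons (P.cons (P.lf 0 35460343 0) (P.cons (P.lf 34240016 0 0) (P.cons (P.lf 2151770 0 0) (P.cons (P.lf 0 499443 0) (P.cons (P.lf 0 37901 0) P.nil))))) (P.cons (P.cons (P.lf 671923 0 0) (P.cons (P.lf 0 637818 0) (P.cons (P.lf 0 56778 0) (P.cons (P.lf 13983 0 0) P.nil)))) (P.cons (P.cons (P.lf 364505 0 0) (P.cons (P.lf 0 354279 0) (P.cons (P.lf 0 18736 0) P.nil))) (P.cons (P.cons (P.lf 0 18528 0) (P.cons (P.lf 17769 0 0) P.nil)) (P.cons (P.cons (P.lf 0 1158 0) P.nil) P.nil)))))) 17757)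
 (EL.cons 6 (TM.mk (P.cons (P.cons (P.lf 0 49218078 0) (P.cons (P.lf 46398162 0 0) (P.cons (P.lf 4628628 0 0) (P.cons (P.lf 0 1157340 0) (P.cons (P.lf 0 100338 0) (P.cons (P.lf 3780 0 0) P.nil)))))) (P.cons (P.cons (P.lf 26563554 0 0) (P.cons (P.lf 0 25531542 0) (P.cons (P.lf 0 1783752 0) (P.cons (P.lf 422706 0 0) (P.cons (P.lf 33384 0 0) P.nil))))) (P.cons (P.cons (P.lf 0 2974962 0) (P.cons (P.lf 2858442 0 0) (P.cons (P.lf 201138 0 0) (P.cons (P.lf 0 47724 0) P.nil)))) (P.cons (P.cons (P.lf 0 10380 0) (P.cons (P.lf 12678 0 0) (P.cons (P.lf 0 3234 0) P.nil))) (P.cons (P.cons (P.lf 19062 0 0) (P.cons (P.lf 0 18564 0) P.nil)) (P.cons (P.cons (P.lf 0 804 0) P.nil) P.nil)))))) 14466)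
 EL.nil))))))
noncomputable def S343_357_734_808_3 : EL := (EL.cons 0 (TM.mk (P.cons (P.lf 2981851224 0 0) (P.cons (P.lf 316002046 0 0) (P.cons (P.lf 0 3185599 0) (P.cons (P.lf 0 616884 0) (P.cons (P.lf 20293 0 0) (P.cons (P.lf 307 0 0) P.nil)))))) 186)
 (EL.cons 1 (TM.mk (P.cons (P.lf 0 1800576853 0) (P.cons (P.lf 0 2374179 0) (P.cons (P.lf 9884782 0 0) (P.cons (P.lf 0 207181 0) (P.cons (P.lf 0 10235 0) (P.cons (P.lf 526 0 0) P.nil)))))) 130)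
 (EL.cons 5 (TM.mk (P.cons (P.lf 1087269874 0 0) (P.cons (P.lf 0 112356282 0) (P.cons (P.lf 1132662 0 0) (P.cons (P.lf 219336 0 0) (P.cons (P.lf 0 7216 0) (P.cons (P.lf 0 108 0) P.nil)))))) 92)
 EL.nil)))
noncomputable def S343_357_734_808_4 : EL := (EL.cons 0 (TM.mk (P.cons (P.cons (P.lf 0 624238922 0) (P.cons (P.lf 0 27052331 0) (P.cons (P.lf 12770353 0 0) (P.lf 608109 0 0)))) (P.cons (P.cons (P.lf 173993637 0 0) (P.cons (P.lf 1326424 0 0) (P.cons (P.lf 0 626152 0) (P.lf 0 29814 0)))) (P.cons (P.cons (P.lf 29084445 0 0) (P.cons (P.lf 322681 0 0) (P.cons (P.lf 0 152326 0) (P.lf 0 7256 0)))) (P.cons (P.cons (P.lf 0 639950 0) (P.cons (P.lf 0 22707 0) (P.cons (P.lf 10719 0 0) P.nil))) (P.cons (P.cons (P.lf 0 132860 0) (P.cons (P.lf 0 1059 0) P.nil)) (P.cons (P.cons (P.lf 4424 0 0) P.nil) P.nil)))))) 3328)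
 (EL.cons 1 (TM.mk (P.cons (P.cons (P.lf 376943739 0 0) (P.cons (P.lf 16335421 0 0) (P.cons (P.lf 0 7711316 0) (P.lf 0 367203 0)))) (P.cons (P.cons (P.lf 0 144514873 0) (P.cons (P.lf 0 2510563 0) (P.cons (P.lf 1185138 0 0) (P.lf 56431 0 0)))) (P.cons (P.cons (P.lf 0 4052700 0) (P.cons (P.lf 0 2073 0) (P.cons (P.lf 978 0 0) (P.lf 46 0 0)))) (P.cons (P.cons (P.lf 1336509 0 0) (P.cons (P.lf 20647 0 0) (P.cons (P.lf 0 9746 0) P.nil))) (P.cons (P.cons (P.lf 0 11223 0) (P.cons (P.lf 0 1091 0) P.nil)) (P.cons (P.cons (P.lf 0 4691 0) P.nil) P.nil)))))) 2145)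
 (EL.cons 5 (TM.mk (P.cons (P.cons (P.lf 0 227615706 0) (P.cons (P.lf 0 9864068 0) (P.cons (P.lf 4656442 0 0) (P.lf 221734 0 0)))) (P.cons (P.cons (P.lf 111086102 0 0) (P.cons (P.lf 2548330 0 0) (P.cons (P.lf 0 1202966 0) (P.lf 0 57282 0)))) (P.cons (P.cons (P.lf 0 8203700 0) (P.cons (P.lf 0 223192 0) (P.cons (P.lf 105360 0 0) (P.lf 5014 0 0)))) (P.cons (P.cons (P.lf 0 368096 0) (P.cons (P.lf 2410 0 0) (P.cons (P.lf 0 1138 0) P.nil))) (P.cons (P.cons (P.lf 55800 0 0) (P.cons (P.lf 854 0 0) P.nil)) (P.cons (P.cons (P.lf 0 618 0) P.nil) P.nil)))))) 1282)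
 EL.nil)))
noncomputable def S343_357_734_808_5 : EL := (EL.cons 0 (TM.mk (P.cons (P.cons (P.lf 130681982 0 0) (P.cons (P.lf 11326598 0 0) (P.cons (P.lf 0 5101419 0) (P.cons (P.lf 0 486323 0) (P.cons (P.lf 43657 0 0) (P.cons (P.lf 5206 0 0) P.nil)))))) (P.cons (P.cons (P.lf 0 86698815 0) (P.cons (P.lf 0 4912755 0) (P.cons (P.lf 2269042 0 0) (P.cons (P.lf 157710 0 0) (P.cons (P.lf 0 8906 0) P.nil))))) (P.cons (P.cons (P.lf 7302779 0 0) (P.cons (P.lf 24693 0 0) (P.cons (P.lf 0 11351 0) (P.cons (P.lf 0 838 0) P.nil)))) (P.cons (P.cons (P.lf 2822646 0 0) (P.cons (P.lf 79127 0 0) (P.cons (P.lf 0 36689 0) P.nil))) (P.cons (P.cons (P.lf 0 45523 0) (P.cons (P.lf 0 3520 0) P.nil)) (P.cons (P.cons (P.lf 0 19914 0) P.nil) P.nil)))))) 18016)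
 (EL.cons 1 (TM.mk (P.cons (P.cons (P.lf 0 78911700 0) (P.cons (P.lf 0 6839512 0) (P.cons (P.lf 3080467 0 0) (P.cons (P.lf 293664 0 0) (P.cons (P.lf 0 26360 0) (P.cons (P.lf 0 3144 0) P.nil)))))) (P.cons (P.cons (P.lf 60611298 0 0) (P.cons (P.lf 3682342 0 0) (P.cons (P.lf 0 1692541 0) (P.cons (P.lf 0 125966 0) (P.cons (P.lf 8137 0 0) P.nil))))) (P.cons (P.cons (P.lf 0 10415101 0) (P.cons (P.lf 0 370995 0) (P.cons (P.lf 170793 0 0) (P.cons (P.lf 12431 0 0) P.nil)))) (P.cons (P.cons (P.lf 0 854570 0) (P.cons (P.lf 0 23038 0) (P.cons (P.lf 10768 0 0) P.nil))) (P.cons (P.cons (P.lf 147538 0 0) (P.cons (P.lf 5300 0 0) P.nil)) (P.cons (P.cons (P.lf 2122 0 0) P.nil) P.nil)))))) 11707)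
 (EL.cons 5 (TM.mk (P.cons (P.cons (P.lf 47650460 0 0) (P.cons (P.lf 4130008 0 0) (P.cons (P.lf 0 1860126 0) (P.cons (P.lf 0 177326 0) (P.cons (P.lf 15918 0 0) (P.cons (P.lf 1898 0 0) P.nil)))))) (P.cons (P.cons (P.lf 0 41586780 0) (P.cons (P.lf 0 2655798 0) (P.cons (P.lf 1216708 0 0) (P.cons (P.lf 94622 0 0) (P.cons (P.lf 0 6578 0) P.nil))))) (P.cons (P.cons (P.lf 10437330 0 0) (P.cons (P.lf 484280 0 0) (P.cons (P.lf 0 222502 0) (P.cons (P.lf 0 16650 0) P.nil)))) (P.cons (P.cons (P.lf 0 409936 0) (P.cons (P.lf 0 26414 0) (P.cons (P.lf 12030 0 0) P.nil))) (P.cons (P.cons (P.lf 0 81210 0) (P.cons (P.lf 0 1906 0) P.nil)) (P.cons (P.cons (P.lf 6872 0 0) P.nil) P.nil)))))) 7208)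
 EL.nil)))
noncomputable def S343_357_734_808_6 : EL := (EL.cons 12 (TM.mk (P.lf 8589934592 0 0) 0)
 (EL.cons 3 (TM.mk (P.cons (P.lf 2530509187 0 0) (P.cons (P.lf 134085510 0 0) (P.cons (P.lf 0 4904141 0) (P.cons (P.lf 0 1897 0) (P.cons (P.lf 3960 0 0) (P.cons (P.lf 0 82 0) P.nil)))))) 63)
 (EL.cons 7 (TM.mk (P.cons (P.lf 0 1528036085 0) (P.cons (P.lf 78952088 0 0) (P.cons (P.lf 1243772 0 0) (P.cons (P.lf 0 89863 0) (P.cons (P.lf 935 0 0) (P.cons (P.lf 52 0 0) P.nil)))))) 47)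
 EL.nil)))
noncomputable def S343_357_734_808_7 : EL := (EL.cons 12 (TM.mk (P.cons (P.cons (P.lf 0 1798269302 0) (P.cons (P.lf 0 77930704 0) (P.cons (P.lf 36788056 0 0) (P.lf 1751808 0 0)))) (P.cons (P.cons (P.lf 691802036 0 0) (P.cons (P.lf 12079800 0 0) (P.cons (P.lf 0 5702400 0) (P.lf 0 271536 0)))) (P.cons (P.cons (P.lf 8549744 0 0) (P.cons (P.lf 0 433848 0) (P.cons (P.lf 204800 0 0) (P.lf 9744 0 0)))) (P.cons (P.cons (P.lf 0 2382546 0) (P.cons (P.lf 0 22656 0) (P.cons (P.lf 10696 0 0) P.nil))) (P.cons (P.cons (P.lf 34246 0 0) (P.cons (P.lf 1912 0 0) P.nil)) (P.cons (P.cons (P.lf 3822 0 0) P.nil) P.nil)))))) 2820)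
 (EL.cons 3 (TM.mk (P.cons (P.cons (P.lf 3414547315 0 0) (P.cons (P.lf 45915216 0 0) (P.cons (P.lf 0 21674788 0) (P.lf 0 1032128 0)))) (P.cons (P.cons (P.lf 154147853 0 0) (P.cons (P.lf 0 4684240 0) (P.cons (P.lf 2211244 0 0) (P.lf 105292 0 0)))) (P.cons (P.cons (P.lf 0 33785144 0) (P.cons (P.lf 0 210488 0) (P.cons (P.lf 99364 0 0) (P.lf 4736 0 0)))) (P.cons (P.cons (P.lf 938945 0 0) (P.cons (P.lf 40650 0 0) (P.cons (P.lf 0 19188 0) P.nil))) (P.cons (P.cons (P.lf 98397 0 0) (P.cons (P.lf 0 836 0) P.nil)) (P.cons (P.cons (P.lf 0 6216 0) P.nil) P.nil)))))) 7136)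
 (EL.cons 7 (TM.mk (P.cons (P.cons (P.lf 2642366714 0 0) (P.cons (P.lf 54416472 0 0) (P.cons (P.lf 0 25687908 0) (P.lf 0 1223236 0)))) (P.cons (P.cons (P.lf 90765166 0 0) (P.cons (P.lf 0 2758172 0) (P.cons (P.lf 1302028 0 0) (P.lf 62003 0 0)))) (P.cons (P.cons (P.lf 0 15143751 0) (P.cons (P.lf 0 268271 0) (P.cons (P.lf 126640 0 0) (P.lf 6027 0 0)))) (P.cons (P.cons (P.lf 0 705504 0) (P.cons (P.lf 11357 0 0) (P.cons (P.lf 0 5361 0) P.nil))) (P.cons (P.cons (P.lf 64335 0 0) (P.cons (P.lf 949 0 0) P.nil)) (P.cons (P.cons (P.lf 867 0 0) P.nil) P.nil)))))) 5095)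
 (EL.cons 10 (TM.mk (P.cons (P.cons (P.lf 0 330412194 0) (P.cons (P.lf 325800357 0 0) (P.cons (P.lf 10194606 0 0) (P.cons (P.lf 0 1868118 0) (P.lf 0 66717 0))))) (P.cons (P.cons (P.lf 34144131 0 0) (P.cons (P.lf 0 33667551 0) (P.cons (P.lf 0 1053489 0) (P.cons (P.lf 193047 0 0) (P.lf 6894 0 0))))) (P.cons (P.cons (P.lf 0 344205 0) (P.cons (P.lf 339402 0 0) (P.cons (P.lf 10620 0 0) (P.cons (P.lf 0 1944 0) P.nil)))) (P.cons (P.cons (P.lf 0 66654 0) (P.cons (P.lf 65724 0 0) (P.cons (P.lf 2055 0 0) P.nil))) (P.cons (P.cons (P.lf 2190 0 0) (P.cons (P.lf 0 2160 0) P.nil)) (P.cons (P.cons (P.lf 30 0 0) P.nil) P.nil)))))) 732)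
 EL.nil))))
noncomputable def S343_357_734_808_8 : EL := (EL.cons 12 (TM.mk (P.cons (P.cons (P.lf 376460664 0 0) (P.cons (P.lf 32628976 0 0) (P.cons (P.lf 0 14695858 0) (P.cons (P.lf 0 1400974 0) (P.cons (P.lf 125766 0 0) (P.cons (P.lf 15004 0 0) P.nil)))))) (P.cons (P.cons (P.lf 0 289652114 0) (P.cons (P.lf 0 17610226 0) (P.cons (P.lf 8093918 0 0) (P.cons (P.lf 602794 0 0) (P.cons (P.lf 0 38988 0) P.nil))))) (P.cons (P.cons (P.lf 52135504 0 0) (P.cons (P.lf 1972242 0 0) (P.cons (P.lf 0 906156 0) (P.cons (P.lf 0 67798 0) P.nil)))) (P.cons (P.cons (P.lf 2374682 0 0) (P.cons (P.lf 6880 0 0) (P.cons (P.lf 0 4058 0) P.nil))) (P.cons (P.cons (P.lf 0 389590 0) (P.cons (P.lf 0 12634 0) P.nil)) (P.cons (P.cons (P.lf 0 826 0) P.nil) P.nil)))))) 27598)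
 (EL.cons 3 (TM.mk (P.cons (P.cons (P.lf 0 1540545884 0) (P.cons (P.lf 0 90792298 0) (P.cons (P.lf 41818121 0 0) (P.cons (P.lf 3024124 0 0) (P.cons (P.lf 0 185245 0) (P.cons (P.lf 0 22101 0) P.nil)))))) (P.cons (P.cons (P.lf 564902122 0 0) (P.cons (P.lf 20842032 0 0) (P.cons (P.lf 0 9571038 0) (P.cons (P.lf 0 721204 0) (P.cons (P.lf 47610 0 0) P.nil))))) (P.cons (P.cons (P.lf 35149409 0 0) (P.cons (P.lf 0 160805 0) (P.cons (P.lf 58416 0 0) (P.cons (P.lf 20117 0 0) P.nil)))) (P.cons (P.cons (P.lf 0 9100944 0) (P.cons (P.lf 0 274218 0) (P.cons (P.lf 128075 0 0) P.nil))) (P.cons (P.cons (P.lf 91732 0 0) (P.cons (P.lf 19135 0 0) P.nil)) (P.cons (P.cons (P.lf 51157 0 0) P.nil) P.nil)))))) 65159)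
 (EL.cons 7 (TM.mk (P.cons (P.cons (P.lf 0 1039370941 0) (P.cons (P.lf 0 64924316 0) (P.cons (P.lf 29786651 0 0) (P.cons (P.lf 2272894 0 0) (P.cons (P.lf 0 153262 0) (P.cons (P.lf 0 18281 0) P.nil)))))) (P.cons (P.cons (P.lf 332625078 0 0) (P.cons (P.lf 12272183 0 0) (P.cons (P.lf 0 5635614 0) (P.cons (P.lf 0 424659 0) (P.cons (P.lf 28035 0 0) P.nil))))) (P.cons (P.cons (P.lf 38102333 0 0) (P.cons (P.lf 547495 0 0) (P.cons (P.lf 0 260504 0) (P.cons (P.lf 0 10371 0) P.nil)))) (P.cons (P.cons (P.lf 0 3439858 0) (P.cons (P.lf 0 150550 0) (P.cons (P.lf 69763 0 0) P.nil))) (P.cons (P.cons (P.lf 0 301745 0) (P.cons (P.lf 0 846 0) P.nil)) (P.cons (P.cons (P.lf 23732 0 0) P.nil) P.nil)))))) 33451)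
 (EL.cons 10 (TM.mk (P.cons (P.cons (P.lf 138341004 0 0) (P.cons (P.lf 0 130414848 0) (P.cons (P.lf 0 13010040 0) (P.cons (P.lf 3253026 0 0) (P.cons (P.lf 282036 0 0) (P.cons (P.lf 0 10632 0) P.nil)))))) (P.cons (P.cons (P.lf 0 67516266 0) (P.cons (P.lf 65025054 0 0) (P.cons (P.lf 4341516 0 0) (P.cons (P.lf 0 1020060 0) (P.cons (P.lf 0 79278 0) P.nil))))) (P.cons (P.cons (P.lf 4986066 0 0) (P.cons (P.lf 0 4780818 0) (P.cons (P.lf 0 351636 0) (P.cons (P.lf 84096 0 0) P.nil)))) (P.cons (P.cons (P.lf 223722 0 0) (P.cons (P.lf 0 222060 0) (P.cons (P.lf 0 4764 0) P.nil))) (P.cons (P.cons (P.lf 0 33912 0) (P.cons (P.lf 32916 0 0) P.nil)) (P.cons (P.cons (P.lf 372 0 0) P.nil) P.nil)))))) 25332)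
 EL.nil))))
noncomputable def S343_357_734_808_9 : EL := (EL.cons 3 (TM.mk (P.cons (P.lf 2530509187 0 0) (P.cons (P.lf 134085510 0 0) (P.cons (P.lf 0 4904141 0) (P.cons (P.lf 0 1897 0) (P.cons (P.lf 3960 0 0) (P.cons (P.lf 0 82 0) P.nil)))))) 63)
 (EL.cons 7 (TM.mk (P.cons (P.lf 0 1528036085 0) (P.cons (P.lf 78952088 0 0) (P.cons (P.lf 1243772 0 0) (P.cons (P.lf 0 89863 0) (P.cons (P.lf 935 0 0) (P.cons (P.lf 52 0 0) P.nil)))))) 47)
 EL.nil))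
noncomputable def S343_357_734_808_10 : EL := (EL.cons 3 (TM.mk (P.cons (P.cons (P.lf 0 529752227 0) (P.cons (P.lf 0 22957608 0) (P.cons (P.lf 10837394 0 0) (P.lf 516064 0 0)))) (P.cons (P.cons (P.lf 175727711 0 0) (P.cons (P.lf 2342120 0 0) (P.cons (P.lf 0 1105622 0) (P.lf 0 52646 0)))) (P.cons (P.cons (P.lf 14344090 0 0) (P.cons (P.lf 105244 0 0) (P.cons (P.lf 0 49682 0) (P.lf 0 2368 0)))) (P.cons (P.cons (P.lf 0 962980 0) (P.cons (P.lf 0 20325 0) (P.cons (P.lf 9594 0 0) P.nil))) (P.cons (P.cons (P.lf 0 32964 0) (P.cons (P.lf 418 0 0) P.nil)) (P.cons (P.cons (P.lf 3354 0 0) P.nil) P.nil)))))) 1699)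
 (EL.cons 7 (TM.mk (P.cons (P.cons (P.lf 319888394 0 0) (P.cons (P.lf 13862844 0 0) (P.cons (P.lf 0 6544110 0) (P.lf 0 311623 0)))) (P.cons (P.cons (P.lf 0 139590770 0) (P.cons (P.lf 0 2865116 0) (P.cons (P.lf 1352509 0 0) (P.lf 64403 0 0)))) (P.cons (P.cons (P.lf 4577247 0 0) (P.cons (P.lf 176920 0 0) (P.cons (P.lf 0 83516 0) (P.lf 0 3975 0)))) (P.cons (P.cons (P.lf 621387 0 0) (P.cons (P.lf 2606 0 0) (P.cons (P.lf 0 1230 0) P.nil))) (P.cons (P.cons (P.lf 0 34185 0) (P.cons (P.lf 0 746 0) P.nil)) (P.cons (P.cons (P.lf 0 735 0) P.nil) P.nil)))))) 1008)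
 EL.nil))
noncomputable def S343_357_734_808_11 : EL := (EL.cons 3 (TM.mk (P.cons (P.cons (P.lf 110901562 0 0) (P.cons (P.lf 9612170 0 0) (P.cons (P.lf 0 4329253 0) (P.cons (P.lf 0 412712 0) (P.cons (P.lf 37049 0 0) (P.cons (P.lf 4419 0 0) P.nil)))))) (P.cons (P.cons (P.lf 0 79452224 0) (P.cons (P.lf 0 4678470 0) (P.cons (P.lf 2154990 0 0) (P.cons (P.lf 155708 0 0) (P.cons (P.lf 0 9522 0) P.nil))))) (P.cons (P.cons (P.lf 10622315 0 0) (P.cons (P.lf 287485 0 0) (P.cons (P.lf 0 132210 0) (P.cons (P.lf 0 9763 0) P.nil)))) (P.cons (P.cons (P.lf 1678656 0 0) (P.cons (P.lf 42858 0 0) (P.cons (P.lf 0 19957 0) P.nil))) (P.cons (P.cons (P.lf 0 107228 0) (P.cons (P.lf 0 4721 0) P.nil)) (P.cons (P.cons (P.lf 0 7829 0) P.nil) P.nil)))))) 12091)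
 (EL.cons 7 (TM.mk (P.cons (P.cons (P.lf 0 66967387 0) (P.cons (P.lf 0 5804264 0) (P.cons (P.lf 2614199 0 0) (P.cons (P.lf 249214 0 0) (P.cons (P.lf 0 22372 0) (P.cons (P.lf 0 2669 0) P.nil)))))) (P.cons (P.cons (P.lf 54985428 0 0) (P.cons (P.lf 3432527 0 0) (P.cons (P.lf 0 1574874 0) (P.cons (P.lf 0 120105 0) (P.cons (P.lf 8091 0 0) P.nil))))) (P.cons (P.cons (P.lf 0 11881969 0) (P.cons (P.lf 0 507971 0) (P.cons (P.lf 233458 0 0) (P.cons (P.lf 17397 0 0) P.nil)))) (P.cons (P.cons (P.lf 10886 0 0) (P.cons (P.lf 14012 0 0) (P.cons (P.lf 0 6281 0) P.nil))) (P.cons (P.cons (P.lf 101749 0 0) (P.cons (P.lf 2784 0 0) P.nil)) (P.cons (P.cons (P.lf 0 3664 0) P.nil) P.nil)))))) 6969)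
 EL.nil))
noncomputable def S343_357_734_808_12 : EL := (EL.cons 4 (TM.mk (P.cons (P.lf 0 2530509187 0) (P.cons (P.lf 0 134085510 0) (P.cons (P.lf 4904141 0 0) (P.cons (P.lf 1897 0 0) (P.cons (P.lf 0 3960 0) (P.cons (P.lf 82 0 0) P.nil)))))) 63)
 (EL.cons 8 (TM.mk (P.cons (P.lf 1528036085 0 0) (P.cons (P.lf 0 78952088 0) (P.cons (P.lf 0 1243772 0) (P.cons (P.lf 89863 0 0) (P.cons (P.lf 0 935 0) (P.cons (P.lf 0 52 0) P.nil)))))) 47)
 EL.nil))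
noncomputable def S343_357_734_808_13 : EL := (EL.cons 4 (TM.mk (P.cons (P.cons (P.lf 529752227 0 0) (P.cons (P.lf 22957608 0 0) (P.cons (P.lf 0 10837394 0) (P.lf 0 516064 0)))) (P.cons (P.cons (P.lf 0 175727711 0) (P.cons (P.lf 0 2342120 0) (P.cons (P.lf 1105622 0 0) (P.lf 52646 0 0)))) (P.cons (P.cons (P.lf 0 14344090 0) (P.cons (P.lf 0 105244 0) (P.cons (P.lf 49682 0 0) (P.lf 2368 0 0)))) (P.cons (P.cons (P.lf 962980 0 0) (P.cons (P.lf 20325 0 0) (P.cons (P.lf 0 9594 0) P.nil))) (P.cons (P.cons (P.lf 32964 0 0) (P.cons (P.lf 0 418 0) P.nil)) (P.cons (P.cons (P.lf 0 3354 0) P.nil) P.nil)))))) 1699)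
 (EL.cons 8 (TM.mk (P.cons (P.cons (P.lf 0 319888394 0) (P.cons (P.lf 0 13862844 0) (P.cons (P.lf 6544110 0 0) (P.lf 311623 0 0)))) (P.cons (P.cons (P.lf 139590770 0 0) (P.cons (P.lf 2865116 0 0) (P.cons (P.lf 0 1352509 0) (P.lf 0 64403 0)))) (P.cons (P.cons (P.lf 0 4577247 0) (P.cons (P.lf 0 176920 0) (P.cons (P.lf 83516 0 0) (P.lf 3975 0 0)))) (P.cons (P.cons (P.lf 0 621387 0) (P.cons (P.lf 0 2606 0) (P.cons (P.lf 1230 0 0) P.nil))) (P.cons (P.cons (P.lf 34185 0 0) (P.cons (P.lf 746 0 0) P.nil)) (P.cons (P.cons (P.lf 735 0 0) P.nil) P.nil)))))) 1008)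
 EL.nil))
noncomputable def S343_357_734_808_14 : EL := (EL.cons 4 (TM.mk (P.cons (P.cons (P.lf 0 110901562 0) (P.cons (P.lf 0 9612170 0) (P.cons (P.lf 4329253 0 0) (P.cons (P.lf 412712 0 0) (P.cons (P.lf 0 37049 0) (P.cons (P.lf 0 4419 0) P.nil)))))) (P.cons (P.cons (P.lf 79452224 0 0) (P.cons (P.lf 4678470 0 0) (P.cons (P.lf 0 2154990 0) (P.cons (P.lf 0 155708 0) (P.cons (P.lf 9522 0 0) P.nil))))) (P.cons (P.cons (P.lf 0 10622315 0) (P.cons (P.lf 0 287485 0) (P.cons (P.lf 132210 0 0) (P.cons (P.lf 9763 0 0) P.nil)))) (P.cons (P.cons (P.lf 0 1678656 0) (P.cons (P.lf 0 42858 0) (P.cons (P.lf 19957 0 0) P.nil))) (P.cons (P.cons (P.lf 107228 0 0) (P.cons (P.lf 4721 0 0) P.nil)) (P.cons (P.cons (P.lf 7829 0 0) P.nil) P.nil)))))) 12091)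
 (EL.cons 8 (TM.mk (P.cons (P.cons (P.lf 66967387 0 0) (P.cons (P.lf 5804264 0 0) (P.cons (P.lf 0 2614199 0) (P.cons (P.lf 0 249214 0) (P.cons (P.lf 22372 0 0) (P.cons (P.lf 2669 0 0) P.nil)))))) (P.cons (P.cons (P.lf 0 54985428 0) (P.cons (P.lf 0 3432527 0) (P.cons (P.lf 1574874 0 0) (P.cons (P.lf 120105 0 0) (P.cons (P.lf 0 8091 0) P.nil))))) (P.cons (P.cons (P.lf 11881969 0 0) (P.cons (P.lf 507971 0 0) (P.cons (P.lf 0 233458 0) (P.cons (P.lf 0 17397 0) P.nil)))) (P.cons (P.cons (P.lf 0 10886 0) (P.cons (P.lf 0 14012 0) (P.cons (P.lf 6281 0 0) P.nil))) (P.cons (P.cons (P.lf 0 101749 0) (P.cons (P.lf 0 2784 0) P.nil)) (P.cons (P.cons (P.lf 3664 0 0) P.nil) P.nil)))))) 6969)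
 EL.nil))
noncomputable def S343_357_734_808_15 : EL := (EL.cons 4 (TM.mk (P.cons (P.lf 0 1590320653 0) (P.cons (P.lf 0 168534424 0) (P.cons (P.lf 1698986 0 0) (P.cons (P.lf 329005 0 0) (P.cons (P.lf 0 10823 0) (P.cons (P.lf 0 164 0) P.nil)))))) 102)
 (EL.cons 8 (TM.mk (P.cons (P.lf 960307655 0 0) (P.cons (P.lf 1266229 0 0) (P.cons (P.lf 0 5271884 0) (P.cons (P.lf 110497 0 0) (P.cons (P.lf 5459 0 0) (P.cons (P.lf 0 281 0) P.nil)))))) 66)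
 EL.nil))
noncomputable def S343_357_734_808_16 : EL := (EL.cons 4 (TM.mk (P.cons (P.cons (P.lf 332927425 0 0) (P.cons (P.lf 14427910 0 0) (P.cons (P.lf 0 6810855 0) (P.lf 0 324325 0)))) (P.cons (P.cons (P.lf 0 92796606 0) (P.cons (P.lf 0 707426 0) (P.cons (P.lf 333947 0 0) (P.lf 15900 0 0)))) (P.cons (P.cons (P.lf 0 15511704 0) (P.cons (P.lf 0 172096 0) (P.cons (P.lf 81240 0 0) (P.lf 3870 0 0)))) (P.cons (P.cons (P.lf 341307 0 0) (P.cons (P.lf 12110 0 0) (P.cons (P.lf 0 5716 0) P.nil))) (P.cons (P.cons (P.lf 70859 0 0) (P.cons (P.lf 565 0 0) P.nil)) (P.cons (P.cons (P.lf 0 2359 0) P.nil) P.nil)))))) 1784)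
 (EL.cons 8 (TM.mk (P.cons (P.cons (P.lf 0 201036661 0) (P.cons (P.lf 0 8712225 0) (P.cons (P.lf 4112702 0 0) (P.lf 195842 0 0)))) (P.cons (P.cons (P.lf 77074599 0 0) (P.cons (P.lf 1338967 0 0) (P.cons (P.lf 0 632074 0) (P.lf 0 30097 0)))) (P.cons (P.cons (P.lf 2161440 0 0) (P.cons (P.lf 1106 0 0) (P.cons (P.lf 0 522 0) (P.lf 0 25 0)))) (P.cons (P.cons (P.lf 0 712805 0) (P.cons (P.lf 0 11012 0) (P.cons (P.lf 5198 0 0) P.nil))) (P.cons (P.cons (P.lf 5986 0 0) (P.cons (P.lf 582 0 0) P.nil)) (P.cons (P.cons (P.lf 2502 0 0) P.nil) P.nil)))))) 1134)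
 EL.nil))
noncomputable def S343_357_734_808_17 : EL := (EL.cons 4 (TM.mk (P.cons (P.cons (P.lf 0 69697057 0) (P.cons (P.lf 0 6040852 0) (P.cons (P.lf 2720757 0 0) (P.cons (P.lf 259372 0 0) (P.cons (P.lf 0 23283 0) (P.cons (P.lf 0 2776 0) P.nil)))))) (P.cons (P.cons (P.lf 46239368 0 0) (P.cons (P.lf 2620136 0 0) (P.cons (P.lf 0 1210155 0) (P.cons (P.lf 0 84112 0) (P.cons (P.lf 4750 0 0) P.nil))))) (P.cons (P.cons (P.lf 0 3894815 0) (P.cons (P.lf 0 13170 0) (P.cons (P.lf 6054 0 0) (P.cons (P.lf 447 0 0) P.nil)))) (P.cons (P.cons (P.lf 0 1505411 0) (P.cons (P.lf 0 42201 0) (P.cons (P.lf 19567 0 0) P.nil))) (P.cons (P.cons (P.lf 24279 0 0) (P.cons (P.lf 1877 0 0) P.nil)) (P.cons (P.cons (P.lf 10620 0 0) P.nil) P.nil)))))) 9619)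
 (EL.cons 8 (TM.mk (P.cons (P.cons (P.lf 42086240 0 0) (P.cons (P.lf 3647740 0 0) (P.cons (P.lf 0 1642916 0) (P.cons (P.lf 0 156621 0) (P.cons (P.lf 14059 0 0) (P.cons (P.lf 1677 0 0) P.nil)))))) (P.cons (P.cons (P.lf 0 32326026 0) (P.cons (P.lf 0 1963916 0) (P.cons (P.lf 902689 0 0) (P.cons (P.lf 67182 0 0) (P.cons (P.lf 0 4340 0) P.nil))))) (P.cons (P.cons (P.lf 5554721 0 0) (P.cons (P.lf 197864 0 0) (P.cons (P.lf 0 91090 0) (P.cons (P.lf 0 6630 0) P.nil)))) (P.cons (P.cons (P.lf 455771 0 0) (P.cons (P.lf 12287 0 0) (P.cons (P.lf 0 5743 0) P.nil))) (P.cons (P.cons (P.lf 0 78687 0) (P.cons (P.lf 0 2827 0) P.nil)) (P.cons (P.cons (P.lf 0 1132 0) P.nil) P.nil)))))) 6232)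
 EL.nil))
noncomputable def S343_357_734_808_18 : EL := (EL.cons 4 (TM.mk (P.cons (P.lf 0 999450937 0) (P.cons (P.lf 0 158875401 0) (P.cons (P.lf 0 2607595 0) (P.cons (P.lf 469360 0 0) (P.cons (P.lf 600 0 0) (P.cons (P.lf 0 997 0) P.nil)))))) 126)
 (EL.cons 8 (TM.mk (P.cons (P.lf 603513753 0 0) (P.cons (P.lf 32774494 0 0) (P.cons (P.lf 0 4440608 0) (P.cons (P.lf 0 108108 0) (P.cons (P.lf 14475 0 0) (P.cons (P.lf 0 145 0) P.nil)))))) 82)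
 EL.nil))
noncomputable def S343_357_734_808_19 : EL := (EL.cons 4 (TM.mk (P.cons (P.cons (P.lf 209231155 0 0) (P.cons (P.lf 9067346 0 0) (P.cons (P.lf 0 4280341 0) (P.lf 0 203824 0)))) (P.cons (P.cons (P.lf 0 47232191 0) (P.cons (P.lf 35867 0 0) (P.cons (P.lf 0 16932 0) (P.lf 0 806 0)))) (P.cons (P.cons (P.lf 0 13244130 0) (P.cons (P.lf 0 149285 0) (P.cons (P.lf 70471 0 0) (P.lf 3356 0 0)))) (P.cons (P.cons (P.lf 0 189183 0) (P.cons (P.lf 2734 0 0) (P.cons (P.lf 0 1290 0) P.nil))) (P.cons (P.cons (P.lf 75161 0 0) (P.cons (P.lf 982 0 0) P.nil)) (P.cons (P.cons (P.lf 369 0 0) P.nil) P.nil)))))) 1802)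
 (EL.cons 8 (TM.mk (P.cons (P.cons (P.lf 0 126343250 0) (P.cons (P.lf 0 5475274 0) (P.cons (P.lf 2584664 0 0) (P.lf 123078 0 0)))) (P.cons (P.cons (P.lf 41743586 0 0) (P.cons (P.lf 551364 0 0) (P.cons (P.lf 0 260277 0) (P.lf 0 12393 0)))) (P.cons (P.cons (P.lf 4169852 0 0) (P.cons (P.lf 55894 0 0) (P.cons (P.lf 0 26386 0) (P.lf 0 1257 0)))) (P.cons (P.cons (P.lf 0 469770 0) (P.cons (P.lf 0 8510 0) (P.cons (P.lf 4017 0 0) P.nil))) (P.cons (P.cons (P.lf 0 22841 0) (P.cons (P.lf 0 11 0) P.nil)) (P.cons (P.cons (P.lf 2719 0 0) P.nil) P.nil)))))) 1072)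
 EL.nil))
noncomputable def S343_357_734_808_20 : EL := (EL.cons 4 (TM.mk (P.cons (P.cons (P.lf 0 43801725 0) (P.cons (P.lf 0 3796426 0) (P.cons (P.lf 1709882 0 0) (P.cons (P.lf 163005 0 0) (P.cons (P.lf 0 14632 0) (P.cons (P.lf 0 1745 0) P.nil)))))) (P.cons (P.cons (P.lf 26738589 0 0) (P.cons (P.lf 1445483 0 0) (P.cons (P.lf 0 669930 0) (P.cons (P.lf 0 44223 0) (P.cons (P.lf 2209 0 0) P.nil))))) (P.cons (P.cons (P.lf 0 823049 0) (P.cons (P.lf 86331 0 0) (P.cons (P.lf 0 39807 0) (P.cons (P.lf 0 2835 0) P.nil)))) (P.cons (P.cons (P.lf 0 1132072 0) (P.cons (P.lf 0 30149 0) (P.cons (P.lf 13971 0 0) P.nil))) (P.cons (P.cons (P.lf 0 30218 0) (P.cons (P.lf 0 215 0) P.nil)) (P.cons (P.cons (P.lf 9365 0 0) P.nil) P.nil)))))) 7951)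
 (EL.cons 8 (TM.mk (P.cons (P.cons (P.lf 26449466 0 0) (P.cons (P.lf 2292454 0 0) (P.cons (P.lf 0 1032505 0) (P.cons (P.lf 0 98429 0) (P.cons (P.lf 8835 0 0) (P.cons (P.lf 1053 0 0) P.nil)))))) (P.cons (P.cons (P.lf 0 18914081 0) (P.cons (P.lf 0 1112769 0) (P.cons (P.lf 512592 0 0) (P.cons (P.lf 37005 0 0) (P.cons (P.lf 0 2259 0) P.nil))))) (P.cons (P.cons (P.lf 2363181 0 0) (P.cons (P.lf 54507 0 0) (P.cons (P.lf 0 25185 0) (P.cons (P.lf 0 1738 0) P.nil)))) (P.cons (P.cons (P.lf 510760 0 0) (P.cons (P.lf 16701 0 0) (P.cons (P.lf 0 7741 0) P.nil))) (P.cons (P.cons (P.lf 0 40983 0) (P.cons (P.lf 0 1604 0) P.nil)) (P.cons (P.cons (P.lf 0 3922 0) P.nil) P.nil)))))) 4785)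
 EL.nil))
noncomputable def S343_357_734_808_21 : EL := (EL.cons 4 (TM.mk (P.cons (P.cons (P.lf 0 3944299542 0) (P.cons (P.lf 0 68872824 0) (P.cons (P.lf 32512182 0 0) (P.lf 1548192 0 0)))) (P.cons (P.cons (P.lf 21579858 0 0) (P.cons (P.lf 7026360 0 0) (P.cons (P.lf 0 3316866 0) (P.lf 0 157938 0)))) (P.cons (P.cons (P.lf 48129234 0 0) (P.cons (P.lf 315732 0 0) (P.cons (P.lf 0 149046 0) (P.lf 0 7104 0)))) (P.cons (P.cons (P.lf 0 1901925 0) (P.cons (P.lf 0 60975 0) (P.cons (P.lf 28782 0 0) P.nil))) (P.cons (P.cons (P.lf 0 131361 0) (P.cons (P.lf 1254 0 0) P.nil)) (P.cons (P.cons (P.lf 9570 0 0) P.nil) P.nil)))))) 5418)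
 (EL.cons 8 (TM.mk (P.cons (P.cons (P.lf 0 2322478320 0) (P.cons (P.lf 0 40553628 0) (P.cons (P.lf 19143798 0 0) (P.lf 911613 0 0)))) (P.cons (P.cons (P.lf 0 230355936 0) (P.cons (P.lf 0 106944 0) (P.cons (P.lf 50481 0 0) (P.lf 2400 0 0)))) (P.cons (P.cons (P.lf 19720998 0 0) (P.cons (P.lf 445191 0 0) (P.cons (P.lf 0 210156 0) (P.lf 0 10002 0)))) (P.cons (P.cons (P.lf 1326891 0 0) (P.cons (P.lf 0 8751 0) (P.cons (P.lf 4131 0 0) P.nil))) (P.cons (P.cons (P.lf 0 98520 0) (P.cons (P.lf 0 1695 0) P.nil)) (P.cons (P.cons (P.lf 0 1602 0) P.nil) P.nil)))))) 4068)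
 (EL.cons 11 (TM.mk (P.cons (P.cons (P.lf 330412194 0 0) (P.cons (P.lf 0 325800357 0) (P.cons (P.lf 0 10194606 0) (P.cons (P.lf 1868118 0 0) (P.lf 66717 0 0))))) (P.cons (P.cons (P.lf 0 34144131 0) (P.cons (P.lf 33667551 0 0) (P.cons (P.lf 1053489 0 0) (P.cons (P.lf 0 193047 0) (P.lf 0 6894 0))))) (P.cons (P.cons (P.lf 344205 0 0) (P.cons (P.lf 0 339402 0) (P.cons (P.lf 0 10620 0) (P.cons (P.lf 1944 0 0) P.nil)))) (P.cons (P.cons (P.lf 66654 0 0) (P.cons (P.lf 0 65724 0) (P.cons (P.lf 0 2055 0) P.nil))) (P.cons (P.cons (P.lf 0 2190 0) (P.cons (P.lf 2160 0 0) P.nil)) (P.cons (P.cons (P.lf 0 30 0) P.nil) P.nil)))))) 732)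
 EL.nil)))
noncomputable def S343_357_734_808_22 : EL := (EL.cons 4 (TM.mk (P.cons (P.cons (P.lf 825723723 0 0) (P.cons (P.lf 50202234 0 0) (P.cons (P.lf 0 23073687 0) (P.cons (P.lf 0 1718418 0) (P.cons (P.lf 111147 0 0) (P.cons (P.lf 13260 0 0) P.nil)))))) (P.cons (P.cons (P.lf 0 322177173 0) (P.cons (P.lf 0 12760251 0) (P.cons (P.lf 5863014 0 0) (P.cons (P.lf 438456 0 0) (P.cons (P.lf 0 28566 0) P.nil))))) (P.cons (P.cons (P.lf 0 12263547 0) (P.cons (P.lf 224145 0 0) (P.cons (P.lf 0 95313 0) (P.cons (P.lf 0 14940 0) P.nil)))) (P.cons (P.cons (P.lf 5389800 0 0) (P.cons (P.lf 158538 0 0) (P.cons (P.lf 0 74016 0) P.nil))) (P.cons (P.cons (P.lf 0 99480 0) (P.cons (P.lf 0 11928 0) P.nil)) (P.cons (P.cons (P.lf 0 29493 0) P.nil) P.nil)))))) 26523)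
 (EL.cons 8 (TM.mk (P.cons (P.cons (P.lf 486201777 0 0) (P.cons (P.lf 29560026 0 0) (P.cons (P.lf 0 13586226 0) (P.cons (P.lf 0 1011840 0) (P.cons (P.lf 65445 0 0) (P.cons (P.lf 7806 0 0) P.nil)))))) (P.cons (P.cons (P.lf 0 138819825 0) (P.cons (P.lf 0 4419828 0) (P.cons (P.lf 2030370 0 0) (P.cons (P.lf 152277 0 0) (P.cons (P.lf 0 9972 0) P.nil))))) (P.cons (P.cons (P.lf 0 24992151 0) (P.cons (P.lf 0 527733 0) (P.cons (P.lf 246981 0 0) (P.cons (P.lf 13884 0 0) P.nil)))) (P.cons (P.cons (P.lf 1725372 0 0) (P.cons (P.lf 82281 0 0) (P.cons (P.lf 0 38022 0) P.nil))) (P.cons (P.cons (P.lf 201747 0 0) (P.cons (P.lf 1815 0 0) P.nil)) (P.cons (P.cons (P.lf 0 13698 0) P.nil) P.nil)))))) 13230)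
 (EL.cons 11 (TM.mk (P.cons (P.cons (P.lf 0 69170502 0) (P.cons (P.lf 65207424 0 0) (P.cons (P.lf 6505020 0 0) (P.cons (P.lf 0 1626513 0) (P.cons (P.lf 0 141018 0) (P.cons (P.lf 5316 0 0) P.nil)))))) (P.cons (P.cons (P.lf 33758133 0 0) (P.cons (P.lf 0 32512527 0) (P.cons (P.lf 0 2170758 0) (P.cons (P.lf 510030 0 0) (P.cons (P.lf 39639 0 0) P.nil))))) (P.cons (P.cons (P.lf 0 2493033 0) (P.cons (P.lf 2390409 0 0) (P.cons (P.lf 175818 0 0) (P.cons (P.lf 0 42048 0) P.nil)))) (P.cons (P.cons (P.lf 0 111861 0) (P.cons (P.lf 111030 0 0) (P.cons (P.lf 2382 0 0) P.nil))) (P.cons (P.cons (P.lf 16956 0 0) (P.cons (P.lf 0 16458 0) P.nil)) (P.cons (P.cons (P.lf 0 186 0) P.nil) P.nil)))))) 12666)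
 EL.nil)))
noncomputable def S343_357_734_808_23 : EL := (EL.cons 4 (TM.mk (P.cons (P.cons (P.lf 0 2478829578 0) (P.cons (P.lf 0 43283727 0) (P.cons (P.lf 20432565 0 0) (P.lf 972972 0 0)))) (P.cons (P.cons (P.lf 0 117785082 0) (P.cons (P.lf 2122278 0 0) (P.cons (P.lf 0 1001841 0) (P.lf 0 47700 0)))) (P.cons (P.cons (P.lf 35769843 0 0) (P.cons (P.lf 516288 0 0) (P.cons (P.lf 0 243720 0) (P.lf 0 11607 0)))) (P.cons (P.cons (P.lf 383019 0 0) (P.cons (P.lf 0 36330 0) (P.cons (P.lf 17148 0 0) P.nil))) (P.cons (P.cons (P.lf 0 208398 0) (P.cons (P.lf 0 1698 0) P.nil)) (P.cons (P.cons (P.lf 4035 0 0) P.nil) P.nil)))))) 6027)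
 (EL.cons 8 (TM.mk (P.cons (P.cons (P.lf 0 1459581831 0) (P.cons (P.lf 0 25486281 0) (P.cons (P.lf 12031086 0 0) (P.lf 572910 0 0)))) (P.cons (P.cons (P.lf 0 222108885 0) (P.cons (P.lf 0 1417665 0) (P.cons (P.lf 669222 0 0) (P.lf 31863 0 0)))) (P.cons (P.cons (P.lf 7551543 0 0) (P.cons (P.lf 325614 0 0) (P.cons (P.lf 0 153708 0) (P.lf 0 7314 0)))) (P.cons (P.cons (P.lf 1772271 0 0) (P.cons (P.lf 9474 0 0) (P.cons (P.lf 0 4470 0) P.nil))) (P.cons (P.cons (P.lf 0 43923 0) (P.cons (P.lf 0 1938 0) P.nil)) (P.cons (P.cons (P.lf 0 6090 0) P.nil) P.nil)))))) 3831)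
 (EL.cons 11 (TM.mk (P.cons (P.cons (P.lf 207650436 0 0) (P.cons (P.lf 0 204752085 0) (P.cons (P.lf 0 6406887 0) (P.cons (P.lf 1174035 0 0) (P.lf 41928 0 0))))) (P.cons (P.cons (P.lf 0 10455285 0) (P.cons (P.lf 10309353 0 0) (P.cons (P.lf 322587 0 0) (P.cons (P.lf 0 59112 0) (P.lf 0 2109 0))))) (P.cons (P.cons (P.lf 0 1323123 0) (P.cons (P.lf 1304655 0 0) (P.cons (P.lf 40824 0 0) (P.cons (P.lf 0 7482 0) P.nil)))) (P.cons (P.cons (P.lf 94779 0 0) (P.cons (P.lf 0 93459 0) (P.cons (P.lf 0 2922 0) P.nil))) (P.cons (P.cons (P.lf 765 0 0) (P.cons (P.lf 0 753 0) P.nil)) (P.cons (P.cons (P.lf 0 213 0) P.nil) P.nil)))))) 1479)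
 EL.nil)))
noncomputable def S343_357_734_808_24 : EL := (EL.cons 4 (TM.mk (P.cons (P.cons (P.lf 518933301 0 0) (P.cons (P.lf 31550034 0 0) (P.cons (P.lf 0 14500857 0) (P.cons (P.lf 0 1079955 0) (P.cons (P.lf 69852 0 0) (P.cons (P.lf 8331 0 0) P.nil)))))) (P.cons (P.cons (P.lf 0 174978054 0) (P.cons (P.lf 0 6347532 0) (P.cons (P.lf 2916297 0 0) (P.cons (P.lf 218328 0 0) (P.cons (P.lf 0 14250 0) P.nil))))) (P.cons (P.cons (P.lf 0 19441488 0) (P.cons (P.lf 0 345198 0) (P.cons (P.lf 163443 0 0) (P.cons (P.lf 7302 0 0) P.nil)))) (P.cons (P.cons (P.lf 3370893 0 0) (P.cons (P.lf 122616 0 0) (P.cons (P.lf 0 56817 0) P.nil))) (P.cons (P.cons (P.lf 132861 0 0) (P.cons (P.lf 0 2433 0) P.nil)) (P.cons (P.cons (P.lf 0 28740 0) P.nil) P.nil)))))) 18351)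
 (EL.cons 8 (TM.mk (P.cons (P.cons (P.lf 305557761 0 0) (P.cons (P.lf 18577257 0 0) (P.cons (P.lf 0 8538381 0) (P.cons (P.lf 0 635898 0) (P.cons (P.lf 41130 0 0) (P.cons (P.lf 4905 0 0) P.nil)))))) (P.cons (P.cons (P.lf 0 71051772 0) (P.cons (P.lf 0 1793316 0) (P.cons (P.lf 823575 0 0) (P.cons (P.lf 62004 0 0) (P.cons (P.lf 0 4086 0) P.nil))))) (P.cons (P.cons (P.lf 0 20921478 0) (P.cons (P.lf 0 514842 0) (P.cons (P.lf 239376 0 0) (P.cons (P.lf 15027 0 0) P.nil)))) (P.cons (P.cons (P.lf 420921 0 0) (P.cons (P.lf 39504 0 0) (P.cons (P.lf 0 18138 0) P.nil))) (P.cons (P.cons (P.lf 215229 0 0) (P.cons (P.lf 4554 0 0) P.nil)) (P.cons (P.cons (P.lf 0 4125 0) P.nil) P.nil)))))) 9996)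
 (EL.cons 11 (TM.mk (P.cons (P.cons (P.lf 0 43470807 0) (P.cons (P.lf 40980177 0 0) (P.cons (P.lf 4088136 0 0) (P.cons (P.lf 0 1022196 0) (P.cons (P.lf 0 88623 0) (P.cons (P.lf 3339 0 0) P.nil)))))) (P.cons (P.cons (P.lf 18912183 0 0) (P.cons (P.lf 0 18261342 0) (P.cons (P.lf 0 1147611 0) (P.cons (P.lf 266370 0 0) (P.cons (P.lf 20214 0 0) P.nil))))) (P.cons (P.cons (P.lf 0 358359 0) (P.cons (P.lf 340170 0 0) (P.cons (P.lf 30282 0 0) (P.cons (P.lf 0 7458 0) P.nil)))) (P.cons (P.cons (P.lf 0 194403 0) (P.cons (P.lf 188949 0 0) (P.cons (P.lf 9993 0 0) P.nil))) (P.cons (P.cons (P.lf 9882 0 0) (P.cons (P.lf 0 9477 0) P.nil)) (P.cons (P.cons (P.lf 618 0 0) P.nil) P.nil)))))) 9459)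
 EL.nil)))
noncomputable def S343_357_734_808_25 : EL := (EL.cons 4 (TM.mk (P.cons (P.cons (P.lf 0 1557842151 0) (P.cons (P.lf 0 27202038 0) (P.cons (P.lf 12841023 0 0) (P.lf 611472 0 0)))) (P.cons (P.cons (P.lf 0 156569322 0) (P.cons (P.lf 0 107604 0) (P.cons (P.lf 50796 0 0) (P.lf 2421 0 0)))) (P.cons (P.cons (P.lf 21576675 0 0) (P.cons (P.lf 447855 0 0) (P.cons (P.lf 0 211416 0) (P.lf 0 10068 0)))) (P.cons (P.cons (P.lf 1576491 0 0) (P.cons (P.lf 0 8202 0) (P.cons (P.lf 3870 0 0) P.nil))) (P.cons (P.cons (P.lf 0 164163 0) (P.cons (P.lf 0 2949 0) P.nil)) (P.cons (P.cons (P.lf 0 4950 0) P.nil) P.nil)))))) 5595)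
 (EL.cons 8 (TM.mk (P.cons (P.cons (P.lf 0 917286981 0) (P.cons (P.lf 0 16017075 0) (P.cons (P.lf 7561041 0 0) (P.lf 360051 0 0)))) (P.cons (P.cons (P.lf 0 188191071 0) (P.cons (P.lf 0 1739649 0) (P.cons (P.lf 821220 0 0) (P.lf 39102 0 0)))) (P.cons (P.cons (P.lf 0 872793 0) (P.cons (P.lf 188466 0 0) (P.cons (P.lf 0 88968 0) (P.lf 0 4233 0)))) (P.cons (P.cons (P.lf 1636476 0 0) (P.cons (P.lf 18534 0 0) (P.cons (P.lf 0 8748 0) P.nil))) (P.cons (P.cons (P.lf 20883 0 0) (P.cons (P.lf 0 1323 0) P.nil)) (P.cons (P.cons (P.lf 0 7641 0) P.nil) P.nil)))))) 3147)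
 (EL.cons 11 (TM.mk (P.cons (P.cons (P.lf 130499733 0 0) (P.cons (P.lf 0 128678241 0) (P.cons (P.lf 0 4026465 0) (P.cons (P.lf 737832 0 0) (P.lf 26349 0 0))))) (P.cons (P.cons (P.lf 344145 0 0) (P.cons (P.lf 0 339342 0) (P.cons (P.lf 0 10617 0) (P.cons (P.lf 1944 0 0) (P.lf 69 0 0))))) (P.cons (P.cons (P.lf 0 1432605 0) (P.cons (P.lf 1412607 0 0) (P.cons (P.lf 44199 0 0) (P.cons (P.lf 0 8100 0) P.nil)))) (P.cons (P.cons (P.lf 28140 0 0) (P.cons (P.lf 0 27747 0) (P.cons (P.lf 0 867 0) P.nil))) (P.cons (P.cons (P.lf 5457 0 0) (P.cons (P.lf 0 5379 0) P.nil)) (P.cons (P.cons (P.lf 0 237 0) P.nil) P.nil)))))) 1542)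
 EL.nil)))
noncomputable def S343_357_734_808_26 : EL := (EL.cons 4 (TM.mk (P.cons (P.cons (P.lf 326128176 0 0) (P.cons (P.lf 19827894 0 0) (P.cons (P.lf 0 9113190 0) (P.cons (P.lf 0 678705 0) (P.cons (P.lf 43899 0 0) (P.cons (P.lf 5235 0 0) P.nil)))))) (P.cons (P.cons (P.lf 0 92685753 0) (P.cons (P.lf 0 2938530 0) (P.cons (P.lf 1349886 0 0) (P.cons (P.lf 101247 0 0) (P.cons (P.lf 0 6630 0) P.nil))))) (P.cons (P.cons (P.lf 0 18677067 0) (P.cons (P.lf 0 466746 0) (P.cons (P.lf 217491 0 0) (P.cons (P.lf 13173 0 0) P.nil)))) (P.cons (P.cons (P.lf 1683927 0 0) (P.cons (P.lf 73278 0 0) (P.cons (P.lf 0 33810 0) P.nil))) (P.cons (P.cons (P.lf 220023 0 0) (P.cons (P.lf 3006 0 0) P.nil)) (P.cons (P.cons (P.lf 0 17916 0) P.nil) P.nil)))))) 13926)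
 (EL.cons 8 (TM.mk (P.cons (P.cons (P.lf 192030450 0 0) (P.cons (P.lf 11675040 0 0) (P.cons (P.lf 0 5366019 0) (P.cons (P.lf 0 399636 0) (P.cons (P.lf 25848 0 0) (P.cons (P.lf 3081 0 0) P.nil)))))) (P.cons (P.cons (P.lf 0 34477884 0) (P.cons (P.lf 0 508392 0) (P.cons (P.lf 233250 0 0) (P.cons (P.lf 17790 0 0) (P.cons (P.lf 0 1197 0) P.nil))))) (P.cons (P.cons (P.lf 0 15886500 0) (P.cons (P.lf 0 405900 0) (P.cons (P.lf 188262 0 0) (P.cons (P.lf 12282 0 0) P.nil)))) (P.cons (P.cons (P.lf 0 345768 0) (P.cons (P.lf 9858 0 0) (P.cons (P.lf 0 4425 0) P.nil))) (P.cons (P.cons (P.lf 175095 0 0) (P.cons (P.lf 4824 0 0) P.nil)) (P.cons (P.cons (P.lf 3993 0 0) P.nil) P.nil)))))) 7830)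
 (EL.cons 11 (TM.mk (P.cons (P.cons (P.lf 0 27319608 0) (P.cons (P.lf 25754349 0 0) (P.cons (P.lf 2569224 0 0) (P.cons (P.lf 0 642408 0) (P.cons (P.lf 0 55695 0) (P.cons (P.lf 2097 0 0) P.nil)))))) (P.cons (P.cons (P.lf 10437927 0 0) (P.cons (P.lf 0 10111839 0) (P.cons (P.lf 0 585087 0) (P.cons (P.lf 133362 0 0) (P.cons (P.lf 9753 0 0) P.nil))))) (P.cons (P.cons (P.lf 457515 0 0) (P.cons (P.lf 0 444237 0) (P.cons (P.lf 0 24162 0) (P.cons (P.lf 5424 0 0) P.nil)))) (P.cons (P.cons (P.lf 0 157119 0) (P.cons (P.lf 152295 0 0) (P.cons (P.lf 8682 0 0) P.nil))) (P.cons (P.cons (P.lf 120 0 0) (P.cons (P.lf 0 30 0) P.nil)) (P.cons (P.cons (P.lf 972 0 0) P.nil) P.nil)))))) 7311)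
 EL.nil)))
noncomputable def S343_357_734_808_27 : EL := (EL.cons 13 (TM.mk (P.lf 0 4294967296 0) 0)
 EL.nil)
noncomputable def S343_357_734_808_28 : EL := (EL.cons 13 (TM.mk (P.cons (P.cons (P.lf 899134651 0 0) (P.cons (P.lf 38965352 0 0) (P.cons (P.lf 0 18394028 0) (P.lf 0 875904 0)))) (P.cons (P.cons (P.lf 0 345901018 0) (P.cons (P.lf 0 6039900 0) (P.cons (P.lf 2851200 0 0) (P.lf 135768 0 0)))) (P.cons (P.cons (P.lf 0 4274872 0) (P.cons (P.lf 216924 0 0) (P.cons (P.lf 0 102400 0) (P.lf 0 4872 0)))) (P.cons (P.cons (P.lf 1191273 0 0) (P.cons (P.lf 11328 0 0) (P.cons (P.lf 0 5348 0) P.nil))) (P.cons (P.cons (P.lf 0 17123 0) (P.cons (P.lf 0 956 0) P.nil)) (P.cons (P.cons (P.lf 0 1911 0) P.nil) P.nil)))))) 1410)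
 EL.nil)
noncomputable def S343_357_734_808_29 : EL := (EL.cons 13 (TM.mk (P.cons (P.cons (P.lf 0 188230332 0) (P.cons (P.lf 0 16314488 0) (P.cons (P.lf 7347929 0 0) (P.cons (P.lf 700487 0 0) (P.cons (P.lf 0 62883 0) (P.cons (P.lf 0 7502 0) P.nil)))))) (P.cons (P.cons (P.lf 144826057 0 0) (P.cons (P.lf 8805113 0 0) (P.cons (P.lf 0 4046959 0) (P.cons (P.lf 0 301397 0) (P.cons (P.lf 19494 0 0) P.nil))))) (P.cons (P.cons (P.lf 0 26067752 0) (P.cons (P.lf 0 986121 0) (P.cons (P.lf 453078 0 0) (P.cons (P.lf 33899 0 0) P.nil)))) (P.cons (P.cons (P.lf 0 1187341 0) (P.cons (P.lf 0 3440 0) (P.cons (P.lf 2029 0 0) P.nil))) (P.cons (P.cons (P.lf 194795 0 0) (P.cons (P.lf 6317 0 0) P.nil)) (P.cons (P.cons (P.lf 413 0 0) P.nil) P.nil)))))) 13799)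
 EL.nil)
noncomputable def S343_357_734_808_30 : EL := (EL.cons 13 (TM.mk (P.cons (P.lf 0 2699209800 0) (P.cons (P.lf 0 143024544 0) (P.cons (P.lf 5231084 0 0) (P.cons (P.lf 2024 0 0) (P.cons (P.lf 0 4224 0) (P.cons (P.lf 88 0 0) P.nil)))))) 60)
 EL.nil)
noncomputable def S343_357_734_808_31 : EL := (EL.cons 13 (TM.mk (P.cons (P.cons (P.lf 565069043 0 0) (P.cons (P.lf 24488116 0 0) (P.cons (P.lf 0 11559887 0) (P.lf 0 550469 0)))) (P.cons (P.cons (P.lf 0 187442892 0) (P.cons (P.lf 0 2498262 0) (P.cons (P.lf 1179331 0 0) (P.lf 56156 0 0)))) (P.cons (P.cons (P.lf 0 15300363 0) (P.cons (P.lf 0 112261 0) (P.cons (P.lf 52995 0 0) (P.lf 2526 0 0)))) (P.cons (P.cons (P.lf 1027179 0 0) (P.cons (P.lf 21680 0 0) (P.cons (P.lf 0 10234 0) P.nil))) (P.cons (P.cons (P.lf 35162 0 0) (P.cons (P.lf 0 446 0) P.nil)) (P.cons (P.cons (P.lf 0 3578 0) P.nil) P.nil)))))) 1793)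
 EL.nil)
noncomputable def S343_357_734_808_32 : EL := (EL.cons 13 (TM.mk (P.cons (P.cons (P.lf 0 118295000 0) (P.cons (P.lf 0 10252982 0) (P.cons (P.lf 4617870 0 0) (P.cons (P.lf 440227 0 0) (P.cons (P.lf 0 39519 0) (P.cons (P.lf 0 4714 0) P.nil)))))) (P.cons (P.cons (P.lf 84749039 0 0) (P.cons (P.lf 4990369 0 0) (P.cons (P.lf 0 2298657 0) (P.cons (P.lf 0 166089 0) (P.cons (P.lf 10157 0 0) P.nil))))) (P.cons (P.cons (P.lf 0 11330470 0) (P.cons (P.lf 0 306651 0) (P.cons (P.lf 141025 0 0) (P.cons (P.lf 10414 0 0) P.nil)))) (P.cons (P.cons (P.lf 0 1790567 0) (P.cons (P.lf 0 45716 0) (P.cons (P.lf 21288 0 0) P.nil))) (P.cons (P.cons (P.lf 114377 0 0) (P.cons (P.lf 5036 0 0) P.nil)) (P.cons (P.cons (P.lf 8351 0 0) P.nil) P.nil)))))) 12874)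
 EL.nil)
noncomputable def S343_357_734_808_33 : EL := (EL.cons 14 (TM.mk (P.lf 8589934592 0 0) 0)
 EL.nil)
noncomputable def S343_357_734_808_34 : EL := (EL.cons 14 (TM.mk (P.cons (P.cons (P.lf 0 1798269302 0) (P.cons (P.lf 0 77930704 0) (P.cons (P.lf 36788056 0 0) (P.lf 1751808 0 0)))) (P.cons (P.cons (P.lf 691802036 0 0) (P.cons (P.lf 12079800 0 0) (P.cons (P.lf 0 5702400 0) (P.lf 0 271536 0)))) (P.cons (P.cons (P.lf 8549744 0 0) (P.cons (P.lf 0 433848 0) (P.cons (P.lf 204800 0 0) (P.lf 9744 0 0)))) (P.cons (P.cons (P.lf 0 2382546 0) (P.cons (P.lf 0 22656 0) (P.cons (P.lf 10696 0 0) P.nil))) (P.cons (P.cons (P.lf 34246 0 0) (P.cons (P.lf 1912 0 0) P.nil)) (P.cons (P.cons (P.lf 3822 0 0) P.nil) P.nil)))))) 2820)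
 EL.nil)
noncomputable def S343_357_734_808_35 : EL := (EL.cons 14 (TM.mk (P.cons (P.cons (P.lf 376460664 0 0) (P.cons (P.lf 32628976 0 0) (P.cons (P.lf 0 14695858 0) (P.cons (P.lf 0 1400974 0) (P.cons (P.lf 125766 0 0) (P.cons (P.lf 15004 0 0) P.nil)))))) (P.cons (P.cons (P.lf 0 289652114 0) (P.cons (P.lf 0 17610226 0) (P.cons (P.lf 8093918 0 0) (P.cons (P.lf 602794 0 0) (P.cons (P.lf 0 38988 0) P.nil))))) (P.cons (P.cons (P.lf 52135504 0 0) (P.cons (P.lf 1972242 0 0) (P.cons (P.lf 0 906156 0) (P.cons (P.lf 0 67798 0) P.nil)))) (P.cons (P.cons (P.lf 2374682 0 0) (P.cons (P.lf 6880 0 0) (P.cons (P.lf 0 4058 0) P.nil))) (P.cons (P.cons (P.lf 0 389590 0) (P.cons (P.lf 0 12634 0) P.nil)) (P.cons (P.cons (P.lf 0 826 0) P.nil) P.nil)))))) 27598)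
 EL.nil)
noncomputable def S343_357_734_808_36 : EL := (EL.cons 14 (TM.mk (P.cons (P.lf 5398419600 0 0) (P.cons (P.lf 286049088 0 0) (P.cons (P.lf 0 10462168 0) (P.cons (P.lf 0 4048 0) (P.cons (P.lf 8448 0 0) (P.cons (P.lf 0 176 0) P.nil)))))) 120)
 EL.nil)
noncomputable def S343_357_734_808_37 : EL := (EL.cons 14 (TM.mk (P.cons (P.cons (P.lf 0 1130138086 0) (P.cons (P.lf 0 48976232 0) (P.cons (P.lf 23119774 0 0) (P.lf 1100938 0 0)))) (P.cons (P.cons (P.lf 374885784 0 0) (P.cons (P.lf 4996524 0 0) (P.cons (P.lf 0 2358662 0) (P.lf 0 112312 0)))) (P.cons (P.cons (P.lf 30600726 0 0) (P.cons (P.lf 224522 0 0) (P.cons (P.lf 0 105990 0) (P.lf 0 5052 0)))) (P.cons (P.cons (P.lf 0 2054358 0) (P.cons (P.lf 0 43360 0) (P.cons (P.lf 20468 0 0) P.nil))) (P.cons (P.cons (P.lf 0 70324 0) (P.cons (P.lf 892 0 0) P.nil)) (P.cons (P.cons (P.lf 7156 0 0) P.nil) P.nil)))))) 3586)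
 EL.nil)
noncomputable def S343_357_734_808_38 : EL := (EL.cons 14 (TM.mk (P.cons (P.cons (P.lf 236590000 0 0) (P.cons (P.lf 20505964 0 0) (P.cons (P.lf 0 9235740 0) (P.cons (P.lf 0 880454 0) (P.cons (P.lf 79038 0 0) (P.cons (P.lf 9428 0 0) P.nil)))))) (P.cons (P.cons (P.lf 0 169498078 0) (P.cons (P.lf 0 9980738 0) (P.cons (P.lf 4597314 0 0) (P.cons (P.lf 332178 0 0) (P.cons (P.lf 0 20314 0) P.nil))))) (P.cons (P.cons (P.lf 22660940 0 0) (P.cons (P.lf 613302 0 0) (P.cons (P.lf 0 282050 0) (P.cons (P.lf 0 20828 0) P.nil)))) (P.cons (P.cons (P.lf 3581134 0 0) (P.cons (P.lf 91432 0 0) (P.cons (P.lf 0 42576 0) P.nil))) (P.cons (P.cons (P.lf 0 228754 0) (P.cons (P.lf 0 10072 0) P.nil)) (P.cons (P.cons (P.lf 0 16702 0) P.nil) P.nil)))))) 25748)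
 EL.nil)
noncomputable def S343_357_734_808_39 : EL := (EL.cons 14 (TM.mk (P.cons (P.lf 3392684060 0 0) (P.cons (P.lf 359540106 0 0) (P.cons (P.lf 0 3624504 0) (P.cons (P.lf 0 701878 0) (P.cons (P.lf 23090 0 0) (P.cons (P.lf 350 0 0) P.nil)))))) 204)
 EL.nil)
noncomputable def S343_357_734_808_40 : EL := (EL.cons 14 (TM.mk (P.cons (P.cons (P.lf 0 710245174 0) (P.cons (P.lf 0 30779542 0) (P.cons (P.lf 14529824 0 0) (P.lf 691894 0 0)))) (P.cons (P.cons (P.lf 197966094 0 0) (P.cons (P.lf 1509176 0 0) (P.cons (P.lf 0 712422 0) (P.lf 0 33922 0)))) (P.cons (P.cons (P.lf 33091636 0 0) (P.cons (P.lf 367140 0 0) (P.cons (P.lf 0 173314 0) (P.lf 0 8256 0)))) (P.cons (P.cons (P.lf 0 728122 0) (P.cons (P.lf 0 25836 0) (P.cons (P.lf 12196 0 0) P.nil))) (P.cons (P.cons (P.lf 0 151166 0) (P.cons (P.lf 0 1206 0) P.nil)) (P.cons (P.cons (P.lf 5034 0 0) P.nil) P.nil)))))) 3766)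
 EL.nil)
noncomputable def S343_357_734_808_41 : EL := (EL.cons 14 (TM.mk (P.cons (P.cons (P.lf 148687056 0 0) (P.cons (P.lf 12887152 0 0) (P.cons (P.lf 0 5804282 0) (P.cons (P.lf 0 553328 0) (P.cons (P.lf 49672 0 0) (P.cons (P.lf 5924 0 0) P.nil)))))) (P.cons (P.cons (P.lf 0 98643986 0) (P.cons (P.lf 0 5589624 0) (P.cons (P.lf 2581666 0 0) (P.cons (P.lf 179440 0 0) (P.cons (P.lf 0 10134 0) P.nil))))) (P.cons (P.cons (P.lf 8308940 0 0) (P.cons (P.lf 28096 0 0) (P.cons (P.lf 0 12916 0) (P.cons (P.lf 0 954 0) P.nil)))) (P.cons (P.cons (P.lf 3211544 0 0) (P.cons (P.lf 90030 0 0) (P.cons (P.lf 0 41744 0) P.nil))) (P.cons (P.cons (P.lf 0 51796 0) (P.cons (P.lf 0 4006 0) P.nil)) (P.cons (P.cons (P.lf 0 22658 0) P.nil) P.nil)))))) 20474)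
 EL.nil)
noncomputable def S343_357_734_808_42 : EL := (EL.cons 14 (TM.mk (P.cons (P.lf 2132162000 0 0) (P.cons (P.lf 338934190 0 0) (P.cons (P.lf 5562870 0 0) (P.cons (P.lf 0 1001302 0) (P.cons (P.lf 0 1280 0) (P.cons (P.lf 2128 0 0) P.nil)))))) 254)
 EL.nil)
noncomputable def S343_357_734_808_43 : EL := (EL.cons 14 (TM.mk (P.cons (P.cons (P.lf 0 446359798 0) (P.cons (P.lf 0 19343672 0) (P.cons (P.lf 9131396 0 0) (P.lf 434826 0 0)))) (P.cons (P.cons (P.lf 100762008 0 0) (P.cons (P.lf 0 76518 0) (P.cons (P.lf 36122 0 0) (P.lf 1720 0 0)))) (P.cons (P.cons (P.lf 28254144 0 0) (P.cons (P.lf 318476 0 0) (P.cons (P.lf 0 150340 0) (P.lf 0 7160 0)))) (P.cons (P.cons (P.lf 403592 0 0) (P.cons (P.lf 0 5834 0) (P.cons (P.lf 2754 0 0) P.nil))) (P.cons (P.cons (P.lf 0 160344 0) (P.cons (P.lf 0 2096 0) P.nil)) (P.cons (P.cons (P.lf 0 788 0) P.nil) P.nil)))))) 3804)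
 EL.nil)
noncomputable def S343_357_734_808_44 : EL := (EL.cons 14 (TM.mk (P.cons (P.cons (P.lf 93443682 0 0) (P.cons (P.lf 8099044 0 0) (P.cons (P.lf 0 3647750 0) (P.cons (P.lf 0 347744 0) (P.cons (P.lf 31216 0 0) (P.cons (P.lf 3724 0 0) P.nil)))))) (P.cons (P.cons (P.lf 0 57042324 0) (P.cons (P.lf 0 3083698 0) (P.cons (P.lf 1429186 0 0) (P.cons (P.lf 94344 0 0) (P.cons (P.lf 0 4714 0) P.nil))))) (P.cons (P.cons (P.lf 1755838 0 0) (P.cons (P.lf 0 184174 0) (P.cons (P.lf 84922 0 0) (P.cons (P.lf 6048 0 0) P.nil)))) (P.cons (P.cons (P.lf 2415088 0 0) (P.cons (P.lf 64318 0 0) (P.cons (P.lf 0 29806 0) P.nil))) (P.cons (P.cons (P.lf 64466 0 0) (P.cons (P.lf 460 0 0) P.nil)) (P.cons (P.cons (P.lf 0 19980 0) P.nil) P.nil)))))) 16916)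
 EL.nil)
noncomputable def S343_357_734_808_45 : EL := (EL.cons 14 (TM.mk (P.cons (P.cons (P.lf 0 78810570 0) (P.cons (P.lf 0 10246122 0) (P.cons (P.lf 4392764 0 0) (P.cons (P.lf 643128 0 0) (P.cons (P.lf 0 69902 0) (P.cons (P.lf 0 13278 0) P.nil)))))) (P.cons (P.cons (P.lf 90956310 0 0) (P.cons (P.lf 9471676 0 0) (P.cons (P.lf 0 4162732 0) (P.cons (P.lf 0 501168 0) (P.cons (P.lf 50648 0 0) P.nil))))) (P.cons (P.cons (P.lf 0 33867190 0) (P.cons (P.lf 0 2698002 0) (P.cons (P.lf 1207162 0 0) (P.cons (P.lf 122820 0 0) P.nil)))) (P.cons (P.cons (P.lf 3308958 0 0) (P.cons (P.lf 196228 0 0) (P.cons (P.lf 0 87358 0) P.nil))) (P.cons (P.cons (P.lf 406538 0 0) (P.cons (P.lf 15264 0 0) P.nil)) (P.cons (P.cons (P.lf 0 44286 0) P.nil) P.nil)))))) 62436)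
 EL.nil)
noncomputable def S343_357_734_808_46 : EL := (EL.cons 15 (TM.mk (P.lf 4294967296 0 0) 0)
 EL.nil)
noncomputable def S343_357_734_808_47 : EL := (EL.cons 15 (TM.mk (P.cons (P.cons (P.lf 0 899134651 0) (P.cons (P.lf 0 38965352 0) (P.cons (P.lf 18394028 0 0) (P.lf 875904 0 0)))) (P.cons (P.cons (P.lf 345901018 0 0) (P.cons (P.lf 6039900 0 0) (P.cons (P.lf 0 2851200 0) (P.lf 0 135768 0)))) (P.cons (P.cons (P.lf 4274872 0 0) (P.cons (P.lf 0 216924 0) (P.cons (P.lf 102400 0 0) (P.lf 4872 0 0)))) (P.cons (P.cons (P.lf 0 1191273 0) (P.cons (P.lf 0 11328 0) (P.cons (P.lf 5348 0 0) P.nil))) (P.cons (P.cons (P.lf 17123 0 0) (P.cons (P.lf 956 0 0) P.nil)) (P.cons (P.cons (P.lf 1911 0 0) P.nil) P.nil)))))) 1410)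
 EL.nil)
noncomputable def S343_357_734_808_48 : EL := (EL.cons 15 (TM.mk (P.cons (P.cons (P.lf 188230332 0 0) (P.cons (P.lf 16314488 0 0) (P.cons (P.lf 0 7347929 0) (P.cons (P.lf 0 700487 0) (P.cons (P.lf 62883 0 0) (P.cons (P.lf 7502 0 0) P.nil)))))) (P.cons (P.cons (P.lf 0 144826057 0) (P.cons (P.lf 0 8805113 0) (P.cons (P.lf 4046959 0 0) (P.cons (P.lf 301397 0 0) (P.cons (P.lf 0 19494 0) P.nil))))) (P.cons (P.cons (P.lf 26067752 0 0) (P.cons (P.lf 986121 0 0) (P.cons (P.lf 0 453078 0) (P.cons (P.lf 0 33899 0) P.nil)))) (P.cons (P.cons (P.lf 1187341 0 0) (P.cons (P.lf 3440 0 0) (P.cons (P.lf 0 2029 0) P.nil))) (P.cons (P.cons (P.lf 0 194795 0) (P.cons (P.lf 0 6317 0) P.nil)) (P.cons (P.cons (P.lf 0 413 0) P.nil) P.nil)))))) 13799)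
 EL.nil)
noncomputable def S343_357_734_808 : SL := (SL.cons S343_357_734_808_0 (SL.cons S343_357_734_808_1 (SL.cons S343_357_734_808_2 (SL.cons S343_357_734_808_3 (SL.cons S343_357_734_808_4 (SL.cons S343_357_734_808_5 (SL.cons S343_357_734_808_6 (SL.cons S343_357_734_808_7 (SL.cons S343_357_734_808_8 (SL.cons S343_357_734_808_9 (SL.cons S343_357_734_808_10 (SL.cons S343_357_734_808_11 (SL.cons S343_357_734_808_12 (SL.cons S343_357_734_808_13 (SL.cons S343_357_734_808_14 (SL.cons S343_357_734_808_15 (SL.cons S343_357_734_808_16 (SL.cons S343_357_734_808_17 (SL.cons S343_357_734_808_18 (SL.cons S343_357_734_808_19 (SL.cons S343_357_734_808_20 (SL.cons S343_357_734_808_21 (SL.cons S343_357_734_808_22 (SL.cons S343_357_734_808_23 (SL.cons S343_357_734_808_24 (SL.cons S343_357_734_808_25 (SL.cons S343_357_734_808_26 (SL.cons S343_357_734_808_27 (SL.cons S343_357_734_808_28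 (SL.cons S343_357_734_808_29 (SL.cons S343_357_734_808_30 (SL.cons S343_357_734_808_31 (SL.cons S343_357_734_808_32 (SL.cons S343_357_734_808_33 (SL.cons S343_357_734_808_34 (SL.cons S343_357_734_808_35 (SL.cons S343_357_734_808_36 (SL.cons S343_357_734_808_37 (SL.cons S343_357_734_808_38 (SL.cons S343_357_734_808_39 (SL.cons S343_357_734_808_40 (SL.cons S343_357_734_808_41 (SL.cons S343_357_734_808_42 (SL.cons S343_357_734_808_43 (SL.cons S343_357_734_808_44 (SL.cons S343_357_734_808_45 (SL.cons S343_357_734_808_46 (SL.cons S343_357_734_808_47 (SL.cons S343_357_734_808_48 SL.nil)))))))))))))))))))))))))))))))))))))))))))))))))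
noncomputable def S343_372_216_364_0 : EL := (EL.cons 0 (TM.mk (P.cons (P.lf 5139680571 0 0) (P.cons (P.lf 0 636245268 0) (P.cons (P.lf 21563379 0 0) (P.cons (P.lf 4685115 0 0) (P.cons (P.lf 0 394321 0) (P.cons (P.lf 0 4352 0) P.nil)))))) 3197)
 (EL.cons 1 (TM.mk (P.cons (P.lf 1792040857 0 0) (P.cons (P.lf 0 37383279 0) (P.cons (P.lf 0 39281548 0) (P.cons (P.lf 2177913 0 0) (P.cons (P.lf 137038 0 0) (P.cons (P.lf 0 19477 0) P.nil)))))) 1484)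
 (EL.cons 5 (TM.mk (P.cons (P.lf 5474002426 0 0) (P.cons (P.lf 226220540 0 0) (P.cons (P.lf 0 7666984 0) (P.cons (P.lf 0 1665814 0) (P.cons (P.lf 140204 0 0) (P.cons (P.lf 1546 0 0) P.nil)))))) 969)
 (EL.cons 9 (TM.mk (P.lf 6442450944 0 0) 2)
 EL.nil))))
noncomputable def S343_372_216_364_1 : EL := (EL.cons 0 (TM.mk (P.cons (P.cons (P.lf 2587481782 0 0) (P.cons (P.lf 137642341 0 0) (P.cons (P.lf 59352925 0 0) (P.lf 0 6594759 0)))) (P.cons (P.cons (P.lf 821834581 0 0) (P.cons (P.lf 24622716 0 0) (P.cons (P.lf 10617602 0 0) (P.lf 0 1179744 0)))) (P.cons (P.cons (P.lf 0 121781336 0) (P.cons (P.lf 0 23543950 0) (P.cons (P.lf 0 10152414 0) (P.lf 1128038 0 0)))) (P.cons (P.cons (P.lf 0 35645628 0) (P.cons (P.lf 2958288 0 0) (P.cons (P.lf 1275635 0 0) P.nil))) (P.cons (P.cons (P.lf 6393261 0 0) (P.cons (P.lf 228553 0 0) P.nil)) (P.cons (P.cons (P.lf 221511 0 0) P.nil) P.nil))))))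 1021906)
 (EL.cons 1 (TM.mk (P.cons (P.cons (P.lf 462973222 0 0) (P.cons (P.lf 0 34565783 0) (P.cons (P.lf 0 14905149 0) (P.lf 1656125 0 0)))) (P.cons (P.cons (P.lf 320891307 0 0) (P.cons (P.lf 52688721 0 0) (P.cons (P.lf 22719962 0 0) (P.lf 0 2524428 0)))) (P.cons (P.cons (P.lf 87418260 0 0) (P.cons (P.lf 0 7449965 0) (P.cons (P.lf 0 3212502 0) (P.lf 356940 0 0)))) (P.cons (P.cons (P.lf 0 22947531 0) (P.cons (P.lf 0 1351104 0) (P.cons (P.lf 0 582604 0) P.nil))) (P.cons (P.cons (P.lf 0 1685527 0) (P.cons (P.lf 324601 0 0) P.nil)) (P.cons (P.cons (P.lf 549537 0 0) P.nil) P.nil)))))) 523619)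
 (EL.cons 5 (TM.mk (P.cons (P.cons (P.lf 603665014 0 0) (P.cons (P.lf 0 257945004 0) (P.cons (P.lf 0 111228794 0) (P.lf 12358750 0 0)))) (P.cons (P.cons (P.lf 97384035 0 0) (P.cons (P.lf 64477858 0 0) (P.cons (P.lf 27803580 0 0) (P.lf 0 3089284 0)))) (P.cons (P.cons (P.lf 125706524 0 0) (P.cons (P.lf 1612596 0 0) (P.cons (P.lf 695370 0 0) (P.lf 0 77264 0)))) (P.cons (P.cons (P.lf 893178 0 0) (P.cons (P.lf 0 1467706 0) (P.cons (P.lf 0 632882 0) P.nil))) (P.cons (P.cons (P.lf 0 2682571 0) (P.cons (P.lf 24540 0 0) P.nil)) (P.cons (P.cons (P.lf 52788 0 0) P.nil) P.nil)))))) 418839)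
 (EL.cons 9 (TM.mk (P.cons (P.cons (P.lf 1344404584 0 0) (P.cons (P.lf 0 184416618 0) (P.cons (P.lf 0 79522524 0) (P.lf 8835834 0 0)))) (P.cons (P.cons (P.lf 343757539 0 0) (P.cons (P.lf 64617000 0 0) (P.cons (P.lf 27863574 0 0) (P.lf 0 3095946 0)))) (P.cons (P.cons (P.lf 72711610 0 0) (P.cons (P.lf 0 5963454 0) (P.cons (P.lf 0 2571504 0) (P.lf 285720 0 0)))) (P.cons (P.cons (P.lf 0 10394838 0) (P.cons (P.lf 0 366942 0) (P.cons (P.lf 0 158226 0) P.nil))) (P.cons (P.cons (P.lf 0 361249 0) (P.cons (P.lf 93354 0 0) P.nil)) (P.cons (P.cons (P.lf 116062 0 0) P.nil) P.nil)))))) 102251)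
 (EL.cons 2 (TM.mk (P.cons (P.cons (P.lf 0 356521533 0) (P.cons (P.lf 0 332132788 0) (P.cons (P.lf 34087626 0 0) (P.cons (P.lf 7089277 0 0) (P.lf 0 590771 0))))) (P.cons (P.cons (P.lf 49077348 0 0) (P.cons (P.lf 45720090 0 0) (P.cons (P.lf 0 4692366 0) (P.cons (P.lf 0 975878 0) (P.lf 81320 0 0))))) (P.cons (P.cons (P.lf 7966746 0 0) (P.cons (P.lf 7421760 0 0) (P.cons (P.lf 0 761712 0) (P.cons (P.lf 0 158414 0) P.nil)))) (P.cons (P.cons (P.lf 0 1554766 0) (P.cons (P.lf 0 1448409 0) (P.cons (P.lf 148651 0 0) P.nil))) (P.cons (P.cons (P.lf 10257 0 0) (P.cons (P.lf 9556 0 0) P.nil)) (P.cons (P.cons (P.lf 12670 0 0) P.nil) P.nil)))))) 89109)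
 (EL.cons 6 (TM.mk (P.cons (P.cons (P.lf 192670131 0 0) (P.cons (P.lf 179490051 0 0) (P.cons (P.lf 0 18421518 0) (P.cons (P.lf 0 3831162 0) (P.lf 319260 0 0))))) (P.cons (P.cons (P.lf 0 67508916 0) (P.cons (P.lf 0 62890800 0) (P.cons (P.lf 6454641 0 0) (P.cons (P.lf 1342383 0 0) (P.lf 0 111864 0))))) (P.cons (P.cons (P.lf 6230349 0 0) (P.cons (P.lf 5804145 0 0) (P.cons (P.lf 0 595692 0) (P.cons (P.lf 0 123885 0) P.nil)))) (P.cons (P.cons (P.lf 383367 0 0) (P.cons (P.lf 357144 0 0) (P.cons (P.lf 0 36654 0) P.nil))) (P.cons (P.cons (P.lf 0 97530 0) (P.cons (P.lf 0 90858 0) P.nil)) (P.cons (P.cons (P.lf 3279 0 0) P.nil) P.nil)))))) 47412)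
 EL.nil))))))
noncomputable def S343_372_216_364_2 : EL := (EL.cons 0 (TM.mk (P.cons (P.cons (P.lf 856089107 0 0) (P.cons (P.lf 0 29284749 0) (P.cons (P.lf 0 24719463 0) (P.cons (P.lf 0 9024929 0) (P.cons (P.lf 0 1089661 0) (P.cons (P.lf 499629 0 0) P.nil)))))) (P.cons (P.cons (P.lf 532374577 0 0) (P.cons (P.lf 16403458 0 0) (P.cons (P.lf 11897387 0 0) (P.cons (P.lf 3374420 0 0) (P.cons (P.lf 434727 0 0) P.nil))))) (P.cons (P.cons (P.lf 69669612 0 0) (P.cons (P.lf 15358673 0 0) (P.cons (P.lf 7037413 0 0) (P.cons (P.lf 0 378322 0) P.nil)))) (P.cons (P.cons (P.lf 0 16276944 0) (P.cons (P.lf 0 4337445 0) (P.cons (P.lf 0 2388319 0) P.nil))) (P.cons (P.cons (P.lf 0 6388538 0) (P.cons (P.lf 0 718073 0) P.nil)) (P.cons (P.cons (P.lf 462165 0 0) P.nil) P.nil)))))) 6176891)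
 (EL.cons 1 (TM.mk (P.cons (P.cons (P.lf 115187721 0 0) (P.cons (P.lf 0 19522276 0) (P.cons (P.lf 0 7907726 0) (P.cons (P.lf 1375618 0 0) (P.cons (P.lf 46006 0 0) (P.cons (P.lf 0 21092 0) P.nil)))))) (P.cons (P.cons (P.lf 145053540 0 0) (P.cons (P.lf 6743382 0 0) (P.cons (P.lf 257637 0 0) (P.cons (P.lf 0 2608666 0) (P.cons (P.lf 0 238822 0) P.nil))))) (P.cons (P.cons (P.lf 70179290 0 0) (P.cons (P.lf 1813486 0 0) (P.cons (P.lf 2064902 0 0) (P.cons (P.lf 1019520 0 0) P.nil)))) (P.cons (P.cons (P.lf 5611806 0 0) (P.cons (P.lf 2082716 0 0) (P.cons (P.lf 741226 0 0) P.nil))) (P.cons (P.cons (P.lf 0 1882030 0) (P.cons (P.lf 0 794067 0) P.nil)) (P.cons (P.cons (P.lf 0 707733 0) P.nil) P.nil)))))) 2991736)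
 (EL.cons 5 (TM.mk (P.cons (P.cons (P.lf 13568392 0 0) (P.cons (P.lf 0 76817786 0) (P.cons (P.lf 0 22842656 0) (P.cons (P.lf 12547989 0 0) (P.cons (P.lf 926591 0 0) (P.cons (P.lf 0 424850 0) P.nil)))))) (P.cons (P.cons (P.lf 0 26689402 0) (P.cons (P.lf 2427579 0 0) (P.cons (P.lf 0 4861004 0) (P.cons (P.lf 0 5211339 0) (P.cons (P.lf 0 532397 0) P.nil))))) (P.cons (P.cons (P.lf 30409523 0 0) (P.cons (P.lf 0 5184303 0) (P.cons (P.lf 0 1261478 0) (P.cons (P.lf 1088411 0 0) P.nil)))) (P.cons (P.cons (P.lf 9664647 0 0) (P.cons (P.lf 2974885 0 0) (P.cons (P.lf 1355206 0 0) P.nil))) (P.cons (P.cons (P.lf 1773464 0 0) (P.cons (P.lf 0 110352 0) P.nil)) (P.cons (P.cons (P.lf 0 419031 0) P.nil) P.nil)))))) 3038809)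
 (EL.cons 9 (TM.mk (P.cons (P.cons (P.lf 280549080 0 0) (P.cons (P.lf 0 76967770 0) (P.cons (P.lf 0 27910402 0) (P.cons (P.lf 8240407 0 0) (P.cons (P.lf 475731 0 0) (P.cons (P.lf 0 218130 0) P.nil)))))) (P.cons (P.cons (P.lf 143469997 0 0) (P.cons (P.lf 7288153 0 0) (P.cons (P.lf 0 556620 0) (P.cons (P.lf 0 3539593 0) (P.cons (P.lf 0 333379 0) P.nil))))) (P.cons (P.cons (P.lf 48689061 0 0) (P.cons (P.lf 244023 0 0) (P.cons (P.lf 1094737 0 0) (P.cons (P.lf 841683 0 0) P.nil)))) (P.cons (P.cons (P.lf 3421149 0 0) (P.cons (P.lf 1264141 0 0) (P.cons (P.lf 446496 0 0) P.nil))) (P.cons (P.cons (P.lf 0 439422 0) (P.cons (P.lf 0 322642 0) P.nil)) (P.cons (P.cons (P.lf 0 224749 0) P.nil) P.nil)))))) 1210723)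
 (EL.cons 2 (TM.mk (P.cons (P.cons (P.lf 0 148797151 0) (P.cons (P.lf 0 118207293 0) (P.cons (P.lf 42042960 0 0) (P.cons (P.lf 8228666 0 0) (P.cons (P.lf 0 2404991 0) (P.cons (P.lf 0 47688 0) P.nil)))))) (P.cons (P.cons (P.lf 0 17563854 0) (P.cons (P.lf 0 26323790 0) (P.cons (P.lf 0 11896166 0) (P.cons (P.lf 0 2222679 0) (P.cons (P.lf 1024295 0 0) P.nil))))) (P.cons (P.cons (P.lf 514704 0 0) (P.cons (P.lf 1667902 0 0) (P.cons (P.lf 1570353 0 0) (P.cons (P.lf 296595 0 0) P.nil)))) (P.cons (P.cons (P.lf 2459581 0 0) (P.cons (P.lf 2489900 0 0) (P.cons (P.lf 35454 0 0) P.nil))) (P.cons (P.cons (P.lf 0 100192 0) (P.cons (P.lf 0 155784 0) P.nil)) (P.cons (P.cons (P.lf 0 72765 0) P.nil) P.nil)))))) 1068198)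
 (EL.cons 6 (TM.mk (P.cons (P.cons (P.lf 80412438 0 0) (P.cons (P.lf 63881172 0 0) (P.cons (P.lf 0 22720710 0) (P.cons (P.lf 0 4446906 0) (P.cons (P.lf 1299696 0 0) (P.cons (P.lf 25770 0 0) P.nil)))))) (P.cons (P.cons (P.lf 0 7614330 0) (P.cons (P.lf 636372 0 0) (P.cons (P.lf 11262258 0 0) (P.cons (P.lf 2147160 0 0) (P.cons (P.lf 0 830028 0) P.nil))))) (P.cons (P.cons (P.lf 0 254940 0) (P.cons (P.lf 0 2305092 0) (P.cons (P.lf 0 2793342 0) (P.cons (P.lf 0 528756 0) P.nil)))) (P.cons (P.cons (P.lf 0 1320714 0) (P.cons (P.lf 0 1024302 0) (P.cons (P.lf 407094 0 0) P.nil))) (P.cons (P.cons (P.lf 337080 0 0) (P.cons (P.lf 329034 0 0) P.nil)) (P.cons (P.cons (P.lf 0 5976 0) P.nil) P.nil)))))) 853968)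
 EL.nil))))))
noncomputable def S343_372_216_364_3 : EL := (EL.cons 0 (TM.mk (P.cons (P.lf 3316036292 0 0) (P.cons (P.lf 636245268 0 0) (P.cons (P.lf 0 21563379 0) (P.cons (P.lf 0 4685115 0) (P.cons (P.lf 394321 0 0) (P.cons (P.lf 4352 0 0) P.nil)))))) 3197)
 (EL.cons 1 (TM.mk (P.cons (P.lf 0 1792040857 0) (P.cons (P.lf 37383279 0 0) (P.cons (P.lf 39281548 0 0) (P.cons (P.lf 0 2177913 0) (P.cons (P.lf 0 137038 0) (P.cons (P.lf 19477 0 0) P.nil)))))) 1484)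
 (EL.cons 5 (TM.mk (P.cons (P.lf 968448518 0 0) (P.cons (P.lf 0 226220540 0) (P.cons (P.lf 7666984 0 0) (P.cons (P.lf 1665814 0 0) (P.cons (P.lf 0 140204 0) (P.cons (P.lf 0 1546 0) P.nil)))))) 962)
 EL.nil)))
noncomputable def S343_372_216_364_4 : EL := (EL.cons 0 (TM.mk (P.cons (P.cons (P.lf 691987324 0 0) (P.cons (P.lf 0 94922289 0) (P.cons (P.lf 0 40931560 0) (P.lf 4547949 0 0)))) (P.cons (P.cons (P.lf 309708764 0 0) (P.cons (P.lf 15046774 0 0) (P.cons (P.lf 6488335 0 0) (P.lf 0 720922 0)))) (P.cons (P.cons (P.lf 66874942 0 0) (P.cons (P.lf 3929229 0 0) (P.cons (P.lf 1694329 0 0) (P.lf 0 188258 0)))) (P.cons (P.cons (P.lf 0 297791 0) (P.cons (P.lf 0 859976 0) (P.cons (P.lf 0 370828 0) P.nil))) (P.cons (P.cons (P.lf 0 1623591 0) (P.cons (P.lf 0 26506 0) P.nil)) (P.cons (P.cons (P.lf 27924 0 0) P.nil) P.nil)))))) 213580)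
 (EL.cons 1 (TM.mk (P.cons (P.cons (P.lf 0 373961394 0) (P.cons (P.lf 51297573 0 0) (P.cons (P.lf 22120091 0 0) (P.lf 0 2457785 0)))) (P.cons (P.cons (P.lf 0 87818953 0) (P.cons (P.lf 0 19044056 0) (P.cons (P.lf 0 8212008 0) (P.lf 912442 0 0)))) (P.cons (P.cons (P.lf 0 10033618 0) (P.cons (P.lf 909307 0 0) (P.cons (P.lf 392101 0 0) (P.lf 0 43565 0)))) (P.cons (P.cons (P.lf 4954867 0 0) (P.cons (P.lf 523796 0 0) (P.cons (P.lf 225864 0 0) P.nil))) (P.cons (P.cons (P.lf 338703 0 0) (P.cons (P.lf 0 82378 0) P.nil)) (P.cons (P.cons (P.lf 0 125587 0) P.nil) P.nil)))))) 121119)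
 (EL.cons 5 (TM.mk (P.cons (P.cons (P.lf 202094922 0 0) (P.cons (P.lf 0 27722058 0) (P.cons (P.lf 0 11954062 0) (P.lf 1328228 0 0)))) (P.cons (P.cons (P.lf 4467172 0 0) (P.cons (P.lf 16189034 0 0) (P.cons (P.lf 6980892 0 0) (P.lf 0 775652 0)))) (P.cons (P.cons (P.lf 459446 0 0) (P.cons (P.lf 0 3384876 0) (P.cons (P.lf 0 1459596 0) (P.lf 162176 0 0)))) (P.cons (P.cons (P.lf 0 3359064 0) (P.cons (P.lf 183454 0 0) (P.cons (P.lf 79106 0 0) P.nil))) (P.cons (P.cons (P.lf 456858 0 0) (P.cons (P.lf 40542 0 0) P.nil)) (P.cons (P.cons (P.lf 28756 0 0) P.nil) P.nil)))))) 73174)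
 EL.nil)))
noncomputable def S343_372_216_364_5 : EL := (EL.cons 0 (TM.mk (P.cons (P.cons (P.lf 144403261 0 0) (P.cons (P.lf 0 39616586 0) (P.cons (P.lf 0 14365945 0) (P.cons (P.lf 4241473 0 0) (P.cons (P.lf 244865 0 0) (P.cons (P.lf 0 112275 0) P.nil)))))) (P.cons (P.cons (P.lf 101552925 0 0) (P.cons (P.lf 0 3849869 0) (P.cons (P.lf 0 3042884 0) (P.cons (P.lf 0 1008079 0) (P.cons (P.lf 0 124613 0) P.nil))))) (P.cons (P.cons (P.lf 38290893 0 0) (P.cons (P.lf 1102983 0 0) (P.cons (P.lf 601925 0 0) (P.cons (P.lf 56081 0 0) P.nil)))) (P.cons (P.cons (P.lf 5885140 0 0) (P.cons (P.lf 706352 0 0) (P.cons (P.lf 360093 0 0) P.nil))) (P.cons (P.cons (P.lf 0 138440 0) (P.cons (P.lf 0 52052 0) P.nil)) (P.cons (P.cons (P.lf 0 196966 0) P.nil) P.nil)))))) 1037076)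
 (EL.cons 1 (TM.mk (P.cons (P.cons (P.lf 0 78037910 0) (P.cons (P.lf 21409458 0 0) (P.cons (P.lf 7763595 0 0) (P.cons (P.lf 0 2292161 0) (P.cons (P.lf 0 132328 0) (P.cons (P.lf 60673 0 0) P.nil)))))) (P.cons (P.cons (P.lf 0 38279880 0) (P.cons (P.lf 0 2473899 0) (P.cons (P.lf 0 7123 0) (P.cons (P.lf 1032393 0 0) (P.cons (P.lf 95491 0 0) P.nil))))) (P.cons (P.cons (P.lf 0 11000315 0) (P.cons (P.lf 0 494881 0) (P.cons (P.lf 0 477920 0) (P.cons (P.lf 0 204418 0) P.nil)))) (P.cons (P.cons (P.lf 110831 0 0) (P.cons (P.lf 0 279761 0) (P.cons (P.lf 0 111802 0) P.nil))) (P.cons (P.cons (P.lf 384483 0 0) (P.cons (P.lf 97741 0 0) P.nil)) (P.cons (P.cons (P.lf 62161 0 0) P.nil) P.nil)))))) 587590)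
 (EL.cons 5 (TM.mk (P.cons (P.cons (P.lf 42172976 0 0) (P.cons (P.lf 0 11570024 0) (P.cons (P.lf 0 4195574 0) (P.cons (P.lf 1238722 0 0) (P.cons (P.lf 71512 0 0) (P.cons (P.lf 0 32788 0) P.nil)))))) (P.cons (P.cons (P.lf 11715624 0 0) (P.cons (P.lf 3798226 0 0) (P.cons (P.lf 896372 0 0) (P.cons (P.lf 0 821434 0) (P.cons (P.lf 0 66818 0) P.nil))))) (P.cons (P.cons (P.lf 2615146 0 0) (P.cons (P.lf 0 310830 0) (P.cons (P.lf 150892 0 0) (P.cons (P.lf 260620 0 0) P.nil)))) (P.cons (P.cons (P.lf 0 952110 0) (P.cons (P.lf 170232 0 0) (P.cons (P.lf 20798 0 0) P.nil))) (P.cons (P.cons (P.lf 0 97250 0) (P.cons (P.lf 0 89038 0) P.nil)) (P.cons (P.cons (P.lf 0 4882 0) P.nil) P.nil)))))) 337734)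
 EL.nil)))
noncomputable def S343_372_216_364_6 : EL := (EL.cons 12 (TM.mk (P.lf 8589934592 0 0) 0)
 (EL.cons 3 (TM.mk (P.cons (P.lf 2668545243 0 0) (P.cons (P.lf 256005836 0 0) (P.cons (P.lf 0 20956361 0) (P.cons (P.lf 125291 0 0) (P.cons (P.lf 64357 0 0) (P.cons (P.lf 0 3438 0) P.nil)))))) 378)
 (EL.cons 7 (TM.mk (P.cons (P.lf 0 1442125985 0) (P.cons (P.lf 168433589 0 0) (P.cons (P.lf 4127638 0 0) (P.cons (P.lf 0 758202 0) (P.cons (P.lf 21743 0 0) (P.cons (P.lf 1521 0 0) P.nil)))))) 224)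
 EL.nil)))
noncomputable def S343_372_216_364_7 : EL := (EL.cons 12 (TM.mk (P.cons (P.cons (P.lf 1792539446 0 0) (P.cons (P.lf 0 245888824 0) (P.cons (P.lf 0 106030032 0) (P.lf 11781112 0 0)))) (P.cons (P.cons (P.lf 458343386 0 0) (P.cons (P.lf 86156000 0 0) (P.cons (P.lf 37151432 0 0) (P.lf 0 4127928 0)))) (P.cons (P.cons (P.lf 96948814 0 0) (P.cons (P.lf 0 7951272 0) (P.cons (P.lf 0 3428672 0) (P.lf 380960 0 0)))) (P.cons (P.cons (P.lf 0 13859784 0) (P.cons (P.lf 0 489256 0) (P.cons (P.lf 0 210968 0) P.nil))) (P.cons (P.cons (P.lf 0 481666 0) (P.cons (P.lf 124472 0 0) P.nil)) (P.cons (P.cons (P.lf 154750 0 0) P.nil) P.nil)))))) 136310)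
 (EL.cons 3 (TM.mk (P.cons (P.cons (P.lf 1775999960 0 0) (P.cons (P.lf 152775422 0 0) (P.cons (P.lf 65878482 0 0) (P.lf 0 7319828 0)))) (P.cons (P.cons (P.lf 626368813 0 0) (P.cons (P.lf 0 38873916 0) (P.cons (P.lf 0 16762866 0) (P.lf 1862534 0 0)))) (P.cons (P.cons (P.lf 0 113311271 0) (P.cons (P.lf 0 1394898 0) (P.cons (P.lf 0 601498 0) (P.lf 66834 0 0)))) (P.cons (P.cons (P.lf 0 2479469 0) (P.cons (P.lf 1205478 0 0) (P.cons (P.lf 519810 0 0) P.nil))) (P.cons (P.cons (P.lf 2189117 0 0) (P.cons (P.lf 0 85798 0) P.nil)) (P.cons (P.cons (P.lf 0 136361 0) P.nil) P.nil)))))) 405574)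
 (EL.cons 7 (TM.mk (P.cons (P.cons (P.lf 501159433 0 0) (P.cons (P.lf 192054193 0 0) (P.cons (P.lf 82815936 0 0) (P.lf 0 9201770 0)))) (P.cons (P.cons (P.lf 412106023 0 0) (P.cons (P.lf 0 25576270 0) (P.cons (P.lf 0 11028777 0) (P.lf 1225421 0 0)))) (P.cons (P.cons (P.lf 0 30717097 0) (P.cons (P.lf 0 3638158 0) (P.cons (P.lf 0 1568813 0) (P.lf 174313 0 0)))) (P.cons (P.cons (P.lf 0 9476644 0) (P.cons (P.lf 493698 0 0) (P.cons (P.lf 212888 0 0) P.nil))) (P.cons (P.cons (P.lf 692226 0 0) (P.cons (P.lf 45320 0 0) P.nil)) (P.cons (P.cons (P.lf 85194 0 0) P.nil) P.nil)))))) 267680)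
 (EL.cons 10 (TM.mk (P.cons (P.cons (P.lf 0 573813891 0) (P.cons (P.lf 0 534560721 0) (P.cons (P.lf 54863319 0 0) (P.cons (P.lf 11410044 0 0) (P.lf 0 950835 0))))) (P.cons (P.cons (P.lf 134037570 0 0) (P.cons (P.lf 124868397 0 0) (P.cons (P.lf 0 12815559 0) (P.cons (P.lf 0 2665278 0) (P.lf 222105 0 0))))) (P.cons (P.cons (P.lf 0 4542750 0) (P.cons (P.lf 0 4231992 0) (P.cons (P.lf 434340 0 0) (P.cons (P.lf 90330 0 0) P.nil)))) (P.cons (P.cons (P.lf 0 987006 0) (P.cons (P.lf 0 919488 0) (P.cons (P.lf 94368 0 0) P.nil))) (P.cons (P.cons (P.lf 83070 0 0) (P.cons (P.lf 77388 0 0) P.nil)) (P.cons (P.cons (P.lf 915 0 0) P.nil) P.nil)))))) 40752)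
 EL.nil))))
noncomputable def S343_372_216_364_8 : EL := (EL.cons 12 (TM.mk (P.cons (P.cons (P.lf 374065440 0 0) (P.cons (P.lf 0 102623694 0) (P.cons (P.lf 0 37213870 0) (P.cons (P.lf 10987210 0 0) (P.cons (P.lf 634308 0 0) (P.cons (P.lf 0 290840 0) P.nil)))))) (P.cons (P.cons (P.lf 191293330 0 0) (P.cons (P.lf 9717538 0 0) (P.cons (P.lf 0 742160 0) (P.cons (P.lf 0 4719458 0) (P.cons (P.lf 0 444506 0) P.nil))))) (P.cons (P.cons (P.lf 64918748 0 0) (P.cons (P.lf 325364 0 0) (P.cons (P.lf 1459650 0 0) (P.cons (P.lf 1122244 0 0) P.nil)))) (P.cons (P.cons (P.lf 4561532 0 0) (P.cons (P.lf 1685522 0 0) (P.cons (P.lf 595328 0 0) P.nil))) (P.cons (P.cons (P.lf 0 585896 0) (P.cons (P.lf 0 430190 0) P.nil)) (P.cons (P.cons (P.lf 0 299666 0) P.nil) P.nil)))))) 1614268)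
 (EL.cons 3 (TM.mk (P.cons (P.cons (P.lf 625020988 0 0) (P.cons (P.lf 0 6033714 0) (P.cons (P.lf 0 13534880 0) (P.cons (P.lf 0 9139842 0) (P.cons (P.lf 0 985271 0) (P.cons (P.lf 451761 0 0) P.nil)))))) (P.cons (P.cons (P.lf 380373025 0 0) (P.cons (P.lf 0 114821 0) (P.cons (P.lf 6563215 0 0) (P.cons (P.lf 5708472 0 0) (P.cons (P.lf 595925 0 0) P.nil))))) (P.cons (P.cons (P.lf 34685309 0 0) (P.cons (P.lf 13840850 0 0) (P.cons (P.lf 4739859 0 0) (P.cons (P.lf 0 1722606 0) P.nil)))) (P.cons (P.cons (P.lf 0 7609933 0) (P.cons (P.lf 0 5017303 0) (P.cons (P.lf 0 2216559 0) P.nil))) (P.cons (P.cons (P.lf 0 3930288 0) (P.cons (P.lf 269315 0 0) P.nil)) (P.cons (P.cons (P.lf 599587 0 0) P.nil) P.nil)))))) 3513065)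
 (EL.cons 7 (TM.mk (P.cons (P.cons (P.lf 271963136 0 0) (P.cons (P.lf 34234728 0 0) (P.cons (P.lf 4948899 0 0) (P.cons (P.lf 0 10103653 0) (P.cons (P.lf 0 884373 0) (P.cons (P.lf 405497 0 0) P.nil)))))) (P.cons (P.cons (P.lf 250258331 0 0) (P.cons (P.lf 0 75553 0) (P.cons (P.lf 4318128 0 0) (P.cons (P.lf 3755768 0 0) (P.cons (P.lf 392073 0 0) P.nil))))) (P.cons (P.cons (P.lf 49439182 0 0) (P.cons (P.lf 9098259 0 0) (P.cons (P.lf 3577788 0 0) (P.cons (P.lf 0 733865 0) P.nil)))) (P.cons (P.cons (P.lf 0 114106 0) (P.cons (P.lf 0 2010067 0) (P.cons (P.lf 0 987489 0) P.nil))) (P.cons (P.cons (P.lf 0 3004897 0) (P.cons (P.lf 0 259121 0) P.nil)) (P.cons (P.cons (P.lf 0 69353 0) P.nil) P.nil)))))) 2036873)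
 (EL.cons 10 (TM.mk (P.cons (P.cons (P.lf 0 239485878 0) (P.cons (P.lf 0 190252146 0) (P.cons (P.lf 67667256 0 0) (P.cons (P.lf 13243872 0 0) (P.cons (P.lf 0 3870780 0) (P.cons (P.lf 0 76752 0) P.nil)))))) (P.cons (P.cons (P.lf 0 5293674 0) (P.cons (P.lf 0 24115824 0) (P.cons (P.lf 0 25638264 0) (P.cons (P.lf 0 4847904 0) (P.cons (P.lf 2019924 0 0) P.nil))))) (P.cons (P.cons (P.lf 0 544446 0) (P.cons (P.lf 3503928 0 0) (P.cons (P.lf 5518446 0 0) (P.cons (P.lf 1046454 0 0) P.nil)))) (P.cons (P.cons (P.lf 3980550 0 0) (P.cons (P.lf 3490848 0 0) (P.cons (P.lf 0 676854 0) P.nil))) (P.cons (P.cons (P.lf 0 541386 0) (P.cons (P.lf 0 552390 0) P.nil)) (P.cons (P.cons (P.lf 0 34074 0) P.nil) P.nil)))))) 1717698)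
 EL.nil))))
noncomputable def S343_372_216_364_9 : EL := (EL.cons 3 (TM.mk (P.cons (P.lf 2668545243 0 0) (P.cons (P.lf 256005836 0 0) (P.cons (P.lf 0 20956361 0) (P.cons (P.lf 125291 0 0) (P.cons (P.lf 64357 0 0) (P.cons (P.lf 0 3438 0) P.nil)))))) 378)
 (EL.cons 7 (TM.mk (P.cons (P.lf 0 1442125985 0) (P.cons (P.lf 168433589 0 0) (P.cons (P.lf 4127638 0 0) (P.cons (P.lf 0 758202 0) (P.cons (P.lf 21743 0 0) (P.cons (P.lf 1521 0 0) P.nil)))))) 224)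
 EL.nil))
noncomputable def S343_372_216_364_10 : EL := (EL.cons 3 (TM.mk (P.cons (P.cons (P.lf 556869503 0 0) (P.cons (P.lf 0 76387711 0) (P.cons (P.lf 0 32939241 0) (P.lf 3659914 0 0)))) (P.cons (P.cons (P.lf 195811807 0 0) (P.cons (P.lf 19436958 0 0) (P.cons (P.lf 8381433 0 0) (P.lf 0 931267 0)))) (P.cons (P.cons (P.lf 39404929 0 0) (P.cons (P.lf 697449 0 0) (P.cons (P.lf 300749 0 0) (P.lf 0 33417 0)))) (P.cons (P.cons (P.lf 0 2508356 0) (P.cons (P.lf 0 602739 0) (P.cons (P.lf 0 259905 0) P.nil))) (P.cons (P.cons (P.lf 0 779101 0) (P.cons (P.lf 42899 0 0) P.nil)) (P.cons (P.cons (P.lf 71662 0 0) P.nil) P.nil)))))) 100161)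
 (EL.cons 7 (TM.mk (P.cons (P.cons (P.lf 0 300941489 0) (P.cons (P.lf 41281183 0 0) (P.cons (P.lf 17800911 0 0) (P.lf 0 1977878 0)))) (P.cons (P.cons (P.lf 0 41800673 0) (P.cons (P.lf 0 19285798 0) (P.cons (P.lf 0 8316252 0) (P.lf 924026 0 0)))) (P.cons (P.cons (P.lf 0 6427642 0) (P.cons (P.lf 2906117 0 0) (P.cons (P.lf 1253149 0 0) (P.lf 0 139238 0)))) (P.cons (P.cons (P.lf 4289876 0 0) (P.cons (P.lf 0 10668 0) (P.cons (P.lf 0 4600 0) P.nil))) (P.cons (P.cons (P.lf 0 180234 0) (P.cons (P.lf 0 42538 0) P.nil)) (P.cons (P.cons (P.lf 0 49164 0) P.nil) P.nil)))))) 55525)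
 EL.nil))
noncomputable def S343_372_216_364_11 : EL := (EL.cons 3 (TM.mk (P.cons (P.cons (P.lf 116207002 0 0) (P.cons (P.lf 0 31881030 0) (P.cons (P.lf 0 11560844 0) (P.cons (P.lf 3413280 0 0) (P.cons (P.lf 197053 0 0) (P.cons (P.lf 0 90351 0) P.nil)))))) (P.cons (P.cons (P.lf 70575373 0 0) (P.cons (P.lf 0 39647 0) (P.cons (P.lf 0 1339643 0) (P.cons (P.lf 0 1138692 0) (P.cons (P.lf 0 119185 0) P.nil))))) (P.cons (P.cons (P.lf 24956159 0 0) (P.cons (P.lf 641054 0 0) (P.cons (P.lf 522123 0 0) (P.cons (P.lf 181176 0 0) P.nil)))) (P.cons (P.cons (P.lf 2890625 0 0) (P.cons (P.lf 508115 0 0) (P.cons (P.lf 229713 0 0) P.nil))) (P.cons (P.cons (P.lf 0 198852 0) (P.cons (P.lf 0 84829 0) P.nil)) (P.cons (P.cons (P.lf 0 119453 0) P.nil) P.nil)))))) 680083)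
 (EL.cons 7 (TM.mk (P.cons (P.cons (P.lf 0 62800186 0) (P.cons (P.lf 17229036 0 0) (P.cons (P.lf 6247671 0 0) (P.cons (P.lf 0 1844593 0) (P.cons (P.lf 0 106491 0) (P.cons (P.lf 48827 0 0) P.nil)))))) (P.cons (P.cons (P.lf 0 24780619 0) (P.cons (P.lf 0 3643705 0) (P.cons (P.lf 0 605100 0) (P.cons (P.lf 1007768 0 0) (P.cons (P.lf 87063 0 0) P.nil))))) (P.cons (P.cons (P.lf 0 6968246 0) (P.cons (P.lf 86607 0 0) (P.cons (P.lf 0 277488 0) (P.cons (P.lf 0 275669 0) P.nil)))) (P.cons (P.cons (P.lf 566030 0 0) (P.cons (P.lf 0 262867 0) (P.cons (P.lf 0 68397 0) P.nil))) (P.cons (P.cons (P.lf 203063 0 0) (P.cons (P.lf 104311 0 0) P.nil)) (P.cons (P.cons (P.lf 35833 0 0) P.nil) P.nil)))))) 374917)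
 EL.nil))
noncomputable def S343_372_216_364_12 : EL := (EL.cons 4 (TM.mk (P.cons (P.lf 0 2668545243 0) (P.cons (P.lf 0 256005836 0) (P.cons (P.lf 20956361 0 0) (P.cons (P.lf 0 125291 0) (P.cons (P.lf 0 64357 0) (P.cons (P.lf 3438 0 0) P.nil)))))) 378)
 (EL.cons 8 (TM.mk (P.cons (P.lf 1442125985 0 0) (P.cons (P.lf 0 168433589 0) (P.cons (P.lf 0 4127638 0) (P.cons (P.lf 758202 0 0) (P.cons (P.lf 0 21743 0) (P.cons (P.lf 0 1521 0) P.nil)))))) 224)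
 EL.nil))
noncomputable def S343_372_216_364_13 : EL := (EL.cons 4 (TM.mk (P.cons (P.cons (P.lf 0 556869503 0) (P.cons (P.lf 76387711 0 0) (P.cons (P.lf 32939241 0 0) (P.lf 0 3659914 0)))) (P.cons (P.cons (P.lf 0 195811807 0) (P.cons (P.lf 0 19436958 0) (P.cons (P.lf 0 8381433 0) (P.lf 931267 0 0)))) (P.cons (P.cons (P.lf 0 39404929 0) (P.cons (P.lf 0 697449 0) (P.cons (P.lf 0 300749 0) (P.lf 33417 0 0)))) (P.cons (P.cons (P.lf 2508356 0 0) (P.cons (P.lf 602739 0 0) (P.cons (P.lf 259905 0 0) P.nil))) (P.cons (P.cons (P.lf 779101 0 0) (P.cons (P.lf 0 42899 0) P.nil)) (P.cons (P.cons (P.lf 0 71662 0) P.nil) P.nil)))))) 100161)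
 (EL.cons 8 (TM.mk (P.cons (P.cons (P.lf 300941489 0 0) (P.cons (P.lf 0 41281183 0) (P.cons (P.lf 0 17800911 0) (P.lf 1977878 0 0)))) (P.cons (P.cons (P.lf 41800673 0 0) (P.cons (P.lf 19285798 0 0) (P.cons (P.lf 8316252 0 0) (P.lf 0 924026 0)))) (P.cons (P.cons (P.lf 6427642 0 0) (P.cons (P.lf 0 2906117 0) (P.cons (P.lf 0 1253149 0) (P.lf 139238 0 0)))) (P.cons (P.cons (P.lf 0 4289876 0) (P.cons (P.lf 10668 0 0) (P.cons (P.lf 4600 0 0) P.nil))) (P.cons (P.cons (P.lf 180234 0 0) (P.cons (P.lf 42538 0 0) P.nil)) (P.cons (P.cons (P.lf 49164 0 0) P.nil) P.nil)))))) 55525)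
 EL.nil))
noncomputable def S343_372_216_364_14 : EL := (EL.cons 4 (TM.mk (P.cons (P.cons (P.lf 0 116207002 0) (P.cons (P.lf 31881030 0 0) (P.cons (P.lf 11560844 0 0) (P.cons (P.lf 0 3413280 0) (P.cons (P.lf 0 197053 0) (P.cons (P.lf 90351 0 0) P.nil)))))) (P.cons (P.cons (P.lf 0 70575373 0) (P.cons (P.lf 39647 0 0) (P.cons (P.lf 1339643 0 0) (P.cons (P.lf 1138692 0 0) (P.cons (P.lf 119185 0 0) P.nil))))) (P.cons (P.cons (P.lf 0 24956159 0) (P.cons (P.lf 0 641054 0) (P.cons (P.lf 0 522123 0) (P.cons (P.lf 0 181176 0) P.nil)))) (P.cons (P.cons (P.lf 0 2890625 0) (P.cons (P.lf 0 508115 0) (P.cons (P.lf 0 229713 0) P.nil))) (P.cons (P.cons (P.lf 198852 0 0) (P.cons (P.lf 84829 0 0) P.nil)) (P.cons (P.cons (P.lf 119453 0 0) P.nil) P.nil)))))) 680083)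
 (EL.cons 8 (TM.mk (P.cons (P.cons (P.lf 62800186 0 0) (P.cons (P.lf 0 17229036 0) (P.cons (P.lf 0 6247671 0) (P.cons (P.lf 1844593 0 0) (P.cons (P.lf 106491 0 0) (P.cons (P.lf 0 48827 0) P.nil)))))) (P.cons (P.cons (P.lf 24780619 0 0) (P.cons (P.lf 3643705 0 0) (P.cons (P.lf 605100 0 0) (P.cons (P.lf 0 1007768 0) (P.cons (P.lf 0 87063 0) P.nil))))) (P.cons (P.cons (P.lf 6968246 0 0) (P.cons (P.lf 0 86607 0) (P.cons (P.lf 277488 0 0) (P.cons (P.lf 275669 0 0) P.nil)))) (P.cons (P.cons (P.lf 0 566030 0) (P.cons (P.lf 262867 0 0) (P.cons (P.lf 68397 0 0) P.nil))) (P.cons (P.cons (P.lf 0 203063 0) (P.cons (P.lf 0 104311 0) P.nil)) (P.cons (P.cons (P.lf 0 35833 0) P.nil) P.nil)))))) 374917)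
 EL.nil))
noncomputable def S343_372_216_364_15 : EL := (EL.cons 4 (TM.mk (P.cons (P.lf 0 1768552689 0) (P.cons (P.lf 0 339330810 0) (P.cons (P.lf 11500469 0 0) (P.cons (P.lf 2498728 0 0) (P.cons (P.lf 0 210304 0) (P.cons (P.lf 0 2321 0) P.nil)))))) 1708)
 (EL.cons 8 (TM.mk (P.cons (P.lf 955755124 0 0) (P.cons (P.lf 0 19937749 0) (P.cons (P.lf 0 20950159 0) (P.cons (P.lf 1161554 0 0) (P.cons (P.lf 73087 0 0) (P.cons (P.lf 0 10388 0) P.nil)))))) 788)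
 EL.nil))
noncomputable def S343_372_216_364_16 : EL := (EL.cons 4 (TM.mk (P.cons (P.cons (P.lf 0 369059906 0) (P.cons (P.lf 50625221 0 0) (P.cons (P.lf 21830165 0 0) (P.lf 0 2425573 0)))) (P.cons (P.cons (P.lf 0 165178007 0) (P.cons (P.lf 0 8024946 0) (P.cons (P.lf 0 3460445 0) (P.lf 384492 0 0)))) (P.cons (P.cons (P.lf 0 35666636 0) (P.cons (P.lf 0 2095589 0) (P.cons (P.lf 0 903642 0) (P.lf 100404 0 0)))) (P.cons (P.cons (P.lf 158821 0 0) (P.cons (P.lf 458654 0 0) (P.cons (P.lf 197775 0 0) P.nil))) (P.cons (P.cons (P.lf 865915 0 0) (P.cons (P.lf 14136 0 0) P.nil)) (P.cons (P.cons (P.lf 0 14893 0) P.nil) P.nil)))))) 113918)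
 (EL.cons 8 (TM.mk (P.cons (P.cons (P.lf 199446077 0 0) (P.cons (P.lf 0 27358706 0) (P.cons (P.lf 0 11797382 0) (P.lf 1310819 0 0)))) (P.cons (P.cons (P.lf 46836775 0 0) (P.cons (P.lf 10156830 0 0) (P.cons (P.lf 4379738 0 0) (P.lf 0 486636 0)))) (P.cons (P.cons (P.lf 5351263 0 0) (P.cons (P.lf 0 484964 0) (P.cons (P.lf 0 209121 0) (P.lf 23235 0 0)))) (P.cons (P.cons (P.lf 0 2642596 0) (P.cons (P.lf 0 279358 0) (P.cons (P.lf 0 120461 0) P.nil))) (P.cons (P.cons (P.lf 0 180642 0) (P.cons (P.lf 43935 0 0) P.nil)) (P.cons (P.cons (P.lf 66980 0 0) P.nil) P.nil)))))) 64587)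
 EL.nil))
noncomputable def S343_372_216_364_17 : EL := (EL.cons 4 (TM.mk (P.cons (P.cons (P.lf 0 77015072 0) (P.cons (P.lf 21128846 0 0) (P.cons (P.lf 7661837 0 0) (P.cons (P.lf 0 2262119 0) (P.cons (P.lf 0 130594 0) (P.cons (P.lf 59880 0 0) P.nil)))))) (P.cons (P.cons (P.lf 0 54161560 0) (P.cons (P.lf 2053263 0 0) (P.cons (P.lf 1622871 0 0) (P.cons (P.lf 537642 0 0) (P.cons (P.lf 66460 0 0) P.nil))))) (P.cons (P.cons (P.lf 0 20421810 0) (P.cons (P.lf 0 588257 0) (P.cons (P.lf 0 321027 0) (P.cons (P.lf 0 29910 0) P.nil)))) (P.cons (P.cons (P.lf 0 3138741 0) (P.cons (P.lf 0 376721 0) (P.cons (P.lf 0 192049 0) P.nil))) (P.cons (P.cons (P.lf 73834 0 0) (P.cons (P.lf 27761 0 0) P.nil)) (P.cons (P.cons (P.lf 105048 0 0) P.nil) P.nil)))))) 553117)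
 (EL.cons 8 (TM.mk (P.cons (P.cons (P.lf 41620219 0 0) (P.cons (P.lf 0 11418378 0) (P.cons (P.lf 0 4140584 0) (P.cons (P.lf 1222486 0 0) (P.cons (P.lf 70575 0 0) (P.cons (P.lf 0 32359 0) P.nil)))))) (P.cons (P.cons (P.lf 20415936 0 0) (P.cons (P.lf 1319413 0 0) (P.cons (P.lf 3799 0 0) (P.cons (P.lf 0 550610 0) (P.cons (P.lf 0 50929 0) P.nil))))) (P.cons (P.cons (P.lf 5866835 0 0) (P.cons (P.lf 263937 0 0) (P.cons (P.lf 254891 0 0) (P.cons (P.lf 109023 0 0) P.nil)))) (P.cons (P.cons (P.lf 0 59110 0) (P.cons (P.lf 149206 0 0) (P.cons (P.lf 59628 0 0) P.nil))) (P.cons (P.cons (P.lf 0 205058 0) (P.cons (P.lf 0 52129 0) P.nil)) (P.cons (P.cons (P.lf 0 33153 0) P.nil) P.nil)))))) 313370)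
 EL.nil))
noncomputable def S343_372_216_364_18 : EL := (EL.cons 4 (TM.mk (P.cons (P.lf 0 1172091282 0) (P.cons (P.lf 0 337332345 0) (P.cons (P.lf 0 4748184 0) (P.cons (P.lf 4098243 0 0) (P.cons (P.lf 0 79189 0) (P.cons (P.lf 0 31469 0) P.nil)))))) 3321)
 (EL.cons 8 (TM.mk (P.cons (P.lf 633417514 0 0) (P.cons (P.lf 47553107 0 0) (P.cons (P.lf 0 20126446 0) (P.cons (P.lf 0 428689 0) (P.cons (P.lf 245981 0 0) (P.cons (P.lf 0 10070 0) P.nil)))))) 1843)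
 EL.nil))
noncomputable def S343_372_216_364_19 : EL := (EL.cons 4 (TM.mk (P.cons (P.cons (P.lf 0 244590902 0) (P.cons (P.lf 33551378 0 0) (P.cons (P.lf 14467732 0 0) (P.lf 0 1607524 0)))) (P.cons (P.cons (P.lf 0 132934867 0) (P.cons (P.lf 0 2099717 0) (P.cons (P.lf 0 905420 0) (P.lf 100601 0 0)))) (P.cons (P.cons (P.lf 0 32218896 0) (P.cons (P.lf 0 2162537 0) (P.cons (P.lf 0 932510 0) (P.lf 103612 0 0)))) (P.cons (P.cons (P.lf 0 1314220 0) (P.cons (P.lf 214073 0 0) (P.cons (P.lf 92310 0 0) P.nil))) (P.cons (P.cons (P.lf 758565 0 0) (P.cons (P.lf 49995 0 0) P.nil)) (P.cons (P.cons (P.lf 40921 0 0) P.nil) P.nil)))))) 110215)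
 (EL.cons 8 (TM.mk (P.cons (P.cons (P.lf 132180969 0 0) (P.cons (P.lf 0 18131719 0) (P.cons (P.lf 0 7818601 0) (P.lf 868733 0 0)))) (P.cons (P.cons (P.lf 43721351 0 0) (P.cons (P.lf 4991881 0 0) (P.cons (P.lf 2152555 0 0) (P.lf 0 239172 0)))) (P.cons (P.cons (P.lf 5486337 0 0) (P.cons (P.lf 466752 0 0) (P.cons (P.lf 201269 0 0) (P.lf 0 22363 0)))) (P.cons (P.cons (P.lf 0 1648682 0) (P.cons (P.lf 0 269689 0) (P.cons (P.lf 0 116292 0) P.nil))) (P.cons (P.cons (P.lf 0 310940 0) (P.cons (P.lf 13759 0 0) P.nil)) (P.cons (P.cons (P.lf 47403 0 0) P.nil) P.nil)))))) 65064)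
 EL.nil))
noncomputable def S343_372_216_364_20 : EL := (EL.cons 4 (TM.mk (P.cons (P.cons (P.lf 0 51040998 0) (P.cons (P.lf 14002939 0 0) (P.cons (P.lf 5077809 0 0) (P.cons (P.lf 0 1499197 0) (P.cons (P.lf 0 86550 0) (P.cons (P.lf 39684 0 0) P.nil)))))) (P.cons (P.cons (P.lf 0 40791650 0) (P.cons (P.lf 2704146 0 0) (P.cons (P.lf 1562679 0 0) (P.cons (P.lf 212491 0 0) (P.cons (P.lf 35742 0 0) P.nil))))) (P.cons (P.cons (P.lf 0 16577105 0) (P.cons (P.lf 0 369283 0) (P.cons (P.lf 0 149452 0) (P.cons (P.lf 26132 0 0) P.nil)))) (P.cons (P.cons (P.lf 0 3099092 0) (P.cons (P.lf 0 297098 0) (P.cons (P.lf 0 155897 0) P.nil))) (P.cons (P.cons (P.lf 0 47255 0) (P.cons (P.lf 0 2089 0) P.nil)) (P.cons (P.cons (P.lf 89214 0 0) P.nil) P.nil)))))) 434137)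
 (EL.cons 8 (TM.mk (P.cons (P.cons (P.lf 27583399 0 0) (P.cons (P.lf 0 7567420 0) (P.cons (P.lf 0 2744132 0) (P.cons (P.lf 810191 0 0) (P.cons (P.lf 46773 0 0) (P.cons (P.lf 0 21446 0) P.nil)))))) (P.cons (P.cons (P.lf 16176667 0 0) (P.cons (P.lf 148450 0 0) (P.cons (P.lf 0 260739 0) (P.cons (P.lf 0 287186 0) (P.cons (P.lf 0 29266 0) P.nil))))) (P.cons (P.cons (P.lf 4969613 0 0) (P.cons (P.lf 318237 0 0) (P.cons (P.lf 190718 0 0) (P.cons (P.lf 30883 0 0) P.nil)))) (P.cons (P.cons (P.lf 228875 0 0) (P.cons (P.lf 108443 0 0) (P.cons (P.lf 55575 0 0) P.nil))) (P.cons (P.cons (P.lf 0 168892 0) (P.cons (P.lf 0 26577 0) P.nil)) (P.cons (P.cons (P.lf 0 34228 0) P.nil) P.nil)))))) 246085)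
 EL.nil))
noncomputable def S343_372_216_364_21 : EL := (EL.cons 4 (TM.mk (P.cons (P.cons (P.lf 0 1219130457 0) (P.cons (P.lf 0 229163133 0) (P.cons (P.lf 0 98817723 0) (P.lf 10979742 0 0)))) (P.cons (P.cons (P.lf 0 430557006 0) (P.cons (P.lf 58310874 0 0) (P.cons (P.lf 25144299 0 0) (P.lf 0 2793801 0)))) (P.cons (P.cons (P.lf 152716200 0 0) (P.cons (P.lf 2092347 0 0) (P.cons (P.lf 902247 0 0) (P.lf 0 100251 0)))) (P.cons (P.cons (P.lf 0 28887 0) (P.cons (P.lf 0 1808217 0) (P.cons (P.lf 0 779715 0) P.nil))) (P.cons (P.cons (P.lf 0 2968218 0) (P.cons (P.lf 128697 0 0) P.nil)) (P.cons (P.cons (P.lf 208023 0 0) P.nil) P.nil)))))) 305394)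
 (EL.cons 8 (TM.mk (P.cons (P.cons (P.lf 0 802100922 0) (P.cons (P.lf 0 150773010 0) (P.cons (P.lf 0 65015025 0) (P.lf 7223892 0 0)))) (P.cons (P.cons (P.lf 0 453906696 0) (P.cons (P.lf 6290472 0 0) (P.cons (P.lf 2712525 0 0) (P.lf 0 301395 0)))) (P.cons (P.cons (P.lf 24289455 0 0) (P.cons (P.lf 6544275 0 0) (P.cons (P.lf 2821962 0 0) (P.lf 0 313551 0)))) (P.cons (P.cons (P.lf 13766520 0 0) (P.cons (P.lf 0 504366 0) (P.cons (P.lf 0 217488 0) P.nil))) (P.cons (P.cons (P.lf 0 872460 0) (P.cons (P.lf 0 87858 0) P.nil)) (P.cons (P.cons (P.lf 0 134358 0) P.nil) P.nil)))))) 212136)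
 (EL.cons 11 (TM.mk (P.cons (P.cons (P.lf 573813891 0 0) (P.cons (P.lf 534560721 0 0) (P.cons (P.lf 0 54863319 0) (P.cons (P.lf 0 11410044 0) (P.lf 950835 0 0))))) (P.cons (P.cons (P.lf 0 134037570 0) (P.cons (P.lf 0 124868397 0) (P.cons (P.lf 12815559 0 0) (P.cons (P.lf 2665278 0 0) (P.lf 0 222105 0))))) (P.cons (P.cons (P.lf 4542750 0 0) (P.cons (P.lf 4231992 0 0) (P.cons (P.lf 0 434340 0) (P.cons (P.lf 0 90330 0) P.nil)))) (P.cons (P.cons (P.lf 987006 0 0) (P.cons (P.lf 919488 0 0) (P.cons (P.lf 0 94368 0) P.nil))) (P.cons (P.cons (P.lf 0 83070 0) (P.cons (P.lf 0 77388 0) P.nil)) (P.cons (P.cons (P.lf 0 915 0) P.nil) P.nil)))))) 40752)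
 EL.nil)))
noncomputable def S343_372_216_364_22 : EL := (EL.cons 4 (TM.mk (P.cons (P.cons (P.lf 0 254406993 0) (P.cons (P.lf 0 12923658 0) (P.cons (P.lf 987018 0 0) (P.cons (P.lf 6276561 0 0) (P.cons (P.lf 591162 0 0) (P.cons (P.lf 0 271056 0) P.nil)))))) (P.cons (P.cons (P.lf 0 154898826 0) (P.cons (P.lf 37587 0 0) (P.cons (P.lf 0 3951429 0) (P.cons (P.lf 0 3423582 0) (P.cons (P.lf 0 357555 0) P.nil))))) (P.cons (P.cons (P.lf 0 4864575 0) (P.cons (P.lf 0 6599898 0) (P.cons (P.lf 0 2108868 0) (P.cons (P.lf 951891 0 0) P.nil)))) (P.cons (P.cons (P.lf 5250279 0 0) (P.cons (P.lf 2762709 0 0) (P.cons (P.lf 1223136 0 0) P.nil))) (P.cons (P.cons (P.lf 1865718 0 0) (P.cons (P.lf 0 177072 0) P.nil)) (P.cons (P.cons (P.lf 0 359520 0) P.nil) P.nil)))))) 1416480)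
 (EL.cons 8 (TM.mk (P.cons (P.cons (P.lf 0 167381661 0) (P.cons (P.lf 0 8502846 0) (P.cons (P.lf 649386 0 0) (P.cons (P.lf 4129530 0 0) (P.cons (P.lf 388941 0 0) (P.cons (P.lf 0 178335 0) P.nil)))))) (P.cons (P.cons (P.lf 0 137519475 0) (P.cons (P.lf 0 1784076 0) (P.cons (P.lf 0 2461614 0) (P.cons (P.lf 0 1374000 0) (P.cons (P.lf 0 152505 0) P.nil))))) (P.cons (P.cons (P.lf 0 28203714 0) (P.cons (P.lf 0 4505826 0) (P.cons (P.lf 0 1927638 0) (P.cons (P.lf 229098 0 0) P.nil)))) (P.cons (P.cons (P.lf 340068 0 0) (P.cons (P.lf 873600 0 0) (P.cons (P.lf 459546 0 0) P.nil))) (P.cons (P.cons (P.lf 1603980 0 0) (P.cons (P.lf 181716 0 0) P.nil)) (P.cons (P.cons (P.lf 52593 0 0) P.nil) P.nil)))))) 830967)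
 (EL.cons 11 (TM.mk (P.cons (P.cons (P.lf 119742939 0 0) (P.cons (P.lf 95126073 0 0) (P.cons (P.lf 0 33833628 0) (P.cons (P.lf 0 6621936 0) (P.cons (P.lf 1935390 0 0) (P.cons (P.lf 38376 0 0) P.nil)))))) (P.cons (P.cons (P.lf 2646837 0 0) (P.cons (P.lf 12057912 0 0) (P.cons (P.lf 12819132 0 0) (P.cons (P.lf 2423952 0 0) (P.cons (P.lf 0 1009962 0) P.nil))))) (P.cons (P.cons (P.lf 272223 0 0) (P.cons (P.lf 0 1751964 0) (P.cons (P.lf 0 2759223 0) (P.cons (P.lf 0 523227 0) P.nil)))) (P.cons (P.cons (P.lf 0 1990275 0) (P.cons (P.lf 0 1745424 0) (P.cons (P.lf 338427 0 0) P.nil))) (P.cons (P.cons (P.lf 270693 0 0) (P.cons (P.lf 276195 0 0) P.nil)) (P.cons (P.cons (P.lf 17037 0 0) P.nil) P.nil)))))) 858849)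
 EL.nil)))
noncomputable def S343_372_216_364_23 : EL := (EL.cons 4 (TM.mk (P.cons (P.cons (P.lf 0 807966981 0) (P.cons (P.lf 0 151875660 0) (P.cons (P.lf 0 65490495 0) (P.lf 7276716 0 0)))) (P.cons (P.cons (P.lf 0 362859507 0) (P.cons (P.lf 24074838 0 0) (P.cons (P.lf 10381335 0 0) (P.lf 0 1153473 0)))) (P.cons (P.cons (P.lf 80181537 0 0) (P.cons (P.lf 6286767 0 0) (P.cons (P.lf 2710926 0 0) (P.lf 0 301212 0)))) (P.cons (P.cons (P.lf 11893437 0 0) (P.cons (P.lf 0 1375959 0) (P.cons (P.lf 0 593322 0) P.nil))) (P.cons (P.cons (P.lf 0 2796699 0) (P.cons (P.lf 0 42411 0) P.nil)) (P.cons (P.cons (P.lf 0 51789 0) P.nil) P.nil)))))) 359544)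
 (EL.cons 8 (TM.mk (P.cons (P.cons (P.lf 0 531584670 0) (P.cons (P.lf 0 99923361 0) (P.cons (P.lf 0 43088082 0) (P.lf 4787562 0 0)))) (P.cons (P.cons (P.lf 0 351819660 0) (P.cons (P.lf 0 5417157 0) (P.cons (P.lf 0 2335938 0) (P.lf 259545 0 0)))) (P.cons (P.cons (P.lf 0 8587074 0) (P.cons (P.lf 5521809 0 0) (P.cons (P.lf 2381064 0 0) (P.lf 0 264561 0)))) (P.cons (P.cons (P.lf 13005375 0 0) (P.cons (P.lf 44388 0 0) (P.cons (P.lf 19140 0 0) P.nil))) (P.cons (P.cons (P.lf 143694 0 0) (P.cons (P.lf 0 126567 0) P.nil)) (P.cons (P.cons (P.lf 0 221976 0) P.nil) P.nil)))))) 234453)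
 (EL.cons 11 (TM.mk (P.cons (P.cons (P.lf 380289636 0 0) (P.cons (P.lf 354274974 0 0) (P.cons (P.lf 0 36360135 0) (P.cons (P.lf 0 7561896 0) (P.lf 630156 0 0))))) (P.cons (P.cons (P.lf 0 52349172 0) (P.cons (P.lf 0 48768096 0) (P.cons (P.lf 5005191 0 0) (P.cons (P.lf 1040937 0 0) (P.lf 0 86742 0))))) (P.cons (P.cons (P.lf 0 8497863 0) (P.cons (P.lf 0 7916544 0) (P.cons (P.lf 812493 0 0) (P.cons (P.lf 168975 0 0) P.nil)))) (P.cons (P.cons (P.lf 1658418 0 0) (P.cons (P.lf 1544970 0 0) (P.cons (P.lf 0 158562 0) P.nil))) (P.cons (P.cons (P.lf 0 10941 0) (P.cons (P.lf 0 10194 0) P.nil)) (P.cons (P.cons (P.lf 0 13515 0) P.nil) P.nil)))))) 95028)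
 EL.nil)))
noncomputable def S343_372_216_364_24 : EL := (EL.cons 4 (TM.mk (P.cons (P.cons (P.lf 0 168605787 0) (P.cons (P.lf 0 8565030 0) (P.cons (P.lf 654135 0 0) (P.cons (P.lf 4159731 0 0) (P.cons (P.lf 391785 0 0) (P.cons (P.lf 0 179640 0) P.nil)))))) (P.cons (P.cons (P.lf 0 118832835 0) (P.cons (P.lf 0 796770 0) (P.cons (P.lf 0 2556018 0) (P.cons (P.lf 0 1869882 0) (P.cons (P.lf 0 199380 0) P.nil))))) (P.cons (P.cons (P.lf 0 11748297 0) (P.cons (P.lf 0 4304367 0) (P.cons (P.lf 0 1653999 0) (P.cons (P.lf 380520 0 0) P.nil)))) (P.cons (P.cons (P.lf 3968550 0 0) (P.cons (P.lf 1410741 0 0) (P.cons (P.lf 697134 0 0) P.nil))) (P.cons (P.cons (P.lf 1586730 0 0) (P.cons (P.lf 92442 0 0) P.nil)) (P.cons (P.cons (P.lf 0 149382 0) P.nil) P.nil)))))) 946872)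
 (EL.cons 8 (TM.mk (P.cons (P.cons (P.lf 0 110930586 0) (P.cons (P.lf 0 5635179 0) (P.cons (P.lf 430374 0 0) (P.cons (P.lf 2736807 0 0) (P.cons (P.lf 257766 0 0) (P.cons (P.lf 0 118188 0) P.nil)))))) (P.cons (P.cons (P.lf 0 101781792 0) (P.cons (P.lf 0 1722987 0) (P.cons (P.lf 0 1590123 0) (P.cons (P.lf 0 648051 0) (P.cons (P.lf 0 76344 0) P.nil))))) (P.cons (P.cons (P.lf 0 26564040 0) (P.cons (P.lf 0 3055371 0) (P.cons (P.lf 0 1437411 0) (P.cons (P.lf 42981 0 0) P.nil)))) (P.cons (P.cons (P.lf 0 857283 0) (P.cons (P.lf 301512 0 0) (P.cons (P.lf 194832 0 0) P.nil))) (P.cons (P.cons (P.lf 1224477 0 0) (P.cons (P.lf 199233 0 0) P.nil)) (P.cons (P.cons (P.lf 132132 0 0) P.nil) P.nil)))))) 552528)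
 (EL.cons 11 (TM.mk (P.cons (P.cons (P.lf 79358481 0 0) (P.cons (P.lf 63043890 0 0) (P.cons (P.lf 0 22422912 0) (P.cons (P.lf 0 4388622 0) (P.cons (P.lf 1282662 0 0) (P.cons (P.lf 25434 0 0) P.nil)))))) (P.cons (P.cons (P.lf 9367389 0 0) (P.cons (P.lf 14039355 0 0) (P.cons (P.lf 6344622 0 0) (P.cons (P.lf 1185429 0 0) (P.cons (P.lf 0 546291 0) P.nil))))) (P.cons (P.cons (P.lf 0 274509 0) (P.cons (P.lf 0 889548 0) (P.cons (P.lf 0 837522 0) (P.cons (P.lf 0 158184 0) P.nil)))) (P.cons (P.cons (P.lf 0 1311777 0) (P.cons (P.lf 0 1327947 0) (P.cons (P.lf 0 18909 0) P.nil))) (P.cons (P.cons (P.lf 53436 0 0) (P.cons (P.lf 83085 0 0) P.nil)) (P.cons (P.cons (P.lf 38808 0 0) P.nil) P.nil)))))) 569694)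
 EL.nil)))
noncomputable def S343_372_216_364_25 : EL := (EL.cons 4 (TM.mk (P.cons (P.cons (P.lf 0 535472343 0) (P.cons (P.lf 0 100654131 0) (P.cons (P.lf 0 43403193 0) (P.lf 4822575 0 0)))) (P.cons (P.cons (P.lf 0 291851976 0) (P.cons (P.lf 6299151 0 0) (P.cons (P.lf 2716263 0 0) (P.lf 0 301803 0)))) (P.cons (P.cons (P.lf 34274151 0 0) (P.cons (P.lf 6487614 0 0) (P.cons (P.lf 2797533 0 0) (P.lf 0 310836 0)))) (P.cons (P.cons (P.lf 14843568 0 0) (P.cons (P.lf 0 642219 0) (P.cons (P.lf 0 276927 0) P.nil))) (P.cons (P.cons (P.lf 0 1538817 0) (P.cons (P.lf 0 149988 0) P.nil)) (P.cons (P.cons (P.lf 0 276651 0) P.nil) P.nil)))))) 341181)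
 (EL.cons 8 (TM.mk (P.cons (P.cons (P.lf 0 352302624 0) (P.cons (P.lf 0 66223245 0) (P.cons (P.lf 0 28556211 0) (P.lf 3172911 0 0)))) (P.cons (P.cons (P.lf 0 266963109 0) (P.cons (P.lf 0 9943269 0) (P.cons (P.lf 0 4287648 0) (P.lf 476403 0 0)))) (P.cons (P.cons (P.lf 0 25292934 0) (P.cons (P.lf 3835161 0 0) (P.cons (P.lf 1653762 0 0) (P.lf 0 183750 0)))) (P.cons (P.cons (P.lf 9887751 0 0) (P.cons (P.lf 405576 0 0) (P.cons (P.lf 174888 0 0) P.nil))) (P.cons (P.cons (P.lf 947358 0 0) (P.cons (P.lf 0 111564 0) P.nil)) (P.cons (P.cons (P.lf 0 211101 0) P.nil) P.nil)))))) 220293)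
 (EL.cons 11 (TM.mk (P.cons (P.cons (P.lf 252033297 0 0) (P.cons (P.lf 234792330 0 0) (P.cons (P.lf 0 24097329 0) (P.cons (P.lf 0 5011572 0) (P.lf 417630 0 0))))) (P.cons (P.cons (P.lf 0 10515195 0) (P.cons (P.lf 0 9795876 0) (P.cons (P.lf 1005375 0 0) (P.cons (P.lf 209088 0 0) (P.lf 0 17421 0))))) (P.cons (P.cons (P.lf 0 10939467 0) (P.cons (P.lf 0 10191123 0) (P.cons (P.lf 1045941 0 0) (P.cons (P.lf 217524 0 0) P.nil)))) (P.cons (P.cons (P.lf 843096 0 0) (P.cons (P.lf 785421 0 0) (P.cons (P.lf 0 80607 0) P.nil))) (P.cons (P.cons (P.lf 146865 0 0) (P.cons (P.lf 136818 0 0) P.nil)) (P.cons (P.cons (P.lf 0 19710 0) P.nil) P.nil)))))) 112530)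
 EL.nil)))
noncomputable def S343_372_216_364_26 : EL := (EL.cons 4 (TM.mk (P.cons (P.cons (P.lf 0 111741861 0) (P.cons (P.lf 0 5676390 0) (P.cons (P.lf 433521 0 0) (P.cons (P.lf 2756820 0 0) (P.cons (P.lf 259653 0 0) (P.cons (P.lf 0 119055 0) P.nil)))))) (P.cons (P.cons (P.lf 0 89475231 0) (P.cons (P.lf 0 1072614 0) (P.cons (P.lf 0 1652385 0) (P.cons (P.lf 0 974772 0) (P.cons (P.lf 0 107226 0) P.nil))))) (P.cons (P.cons (P.lf 0 14463912 0) (P.cons (P.lf 0 2858757 0) (P.cons (P.lf 0 1262088 0) (P.cons (P.lf 111648 0 0) P.nil)))) (P.cons (P.cons (P.lf 2496390 0 0) (P.cons (P.lf 665163 0 0) (P.cons (P.lf 370182 0 0) P.nil))) (P.cons (P.cons (P.lf 1358661 0 0) (P.cons (P.lf 173199 0 0) P.nil)) (P.cons (P.cons (P.lf 0 20892 0) P.nil) P.nil)))))) 748134)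
 (EL.cons 8 (TM.mk (P.cons (P.cons (P.lf 0 73518177 0) (P.cons (P.lf 0 3734661 0) (P.cons (P.lf 285225 0 0) (P.cons (P.lf 1813791 0 0) (P.cons (P.lf 170832 0 0) (P.cons (P.lf 0 78327 0) P.nil)))))) (P.cons (P.cons (P.lf 0 74507841 0) (P.cons (P.lf 0 1500177 0) (P.cons (P.lf 0 1026474 0) (P.cons (P.lf 0 255483 0) (P.cons (P.lf 0 34206 0) P.nil))))) (P.cons (P.cons (P.lf 0 23498976 0) (P.cons (P.lf 0 2105136 0) (P.cons (P.lf 0 1055970 0) (P.cons (P.lf 0 26958 0) P.nil)))) (P.cons (P.cons (P.lf 0 1730814 0) (P.cons (P.lf 14355 0 0) (P.cons (P.lf 46020 0 0) P.nil))) (P.cons (P.cons (P.lf 890319 0 0) (P.cons (P.lf 166968 0 0) P.nil)) (P.cons (P.cons (P.lf 167526 0 0) P.nil) P.nil)))))) 420906)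
 (EL.cons 11 (TM.mk (P.cons (P.cons (P.lf 52594068 0 0) (P.cons (P.lf 41781732 0 0) (P.cons (P.lf 0 14860569 0) (P.cons (P.lf 0 2908518 0) (P.cons (P.lf 850071 0 0) (P.cons (P.lf 16854 0 0) P.nil)))))) (P.cons (P.cons (P.lf 11253738 0 0) (P.cons (P.lf 13312761 0 0) (P.cons (P.lf 2779194 0 0) (P.cons (P.lf 506604 0 0) (P.cons (P.lf 0 280497 0) P.nil))))) (P.cons (P.cons (P.lf 618 0 0) (P.cons (P.lf 0 25035 0) (P.cons (P.lf 0 34968 0) (P.cons (P.lf 0 6624 0) P.nil)))) (P.cons (P.cons (P.lf 0 933102 0) (P.cons (P.lf 0 1007748 0) (P.cons (P.lf 0 99498 0) P.nil))) (P.cons (P.cons (P.lf 0 44997 0) (P.cons (P.lf 0 23289 0) P.nil)) (P.cons (P.cons (P.lf 36018 0 0) P.nil) P.nil)))))) 449370)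
 EL.nil)))
noncomputable def S343_372_216_364_27 : EL := (EL.cons 13 (TM.mk (P.lf 0 4294967296 0) 0)
 EL.nil)
noncomputable def S343_372_216_364_28 : EL := (EL.cons 13 (TM.mk (P.cons (P.cons (P.lf 0 896269723 0) (P.cons (P.lf 122944412 0 0) (P.cons (P.lf 53015016 0 0) (P.lf 0 5890556 0)))) (P.cons (P.cons (P.lf 0 229171693 0) (P.cons (P.lf 0 43078000 0) (P.cons (P.lf 0 18575716 0) (P.lf 2063964 0 0)))) (P.cons (P.cons (P.lf 0 48474407 0) (P.cons (P.lf 3975636 0 0) (P.cons (P.lf 1714336 0 0) (P.lf 0 190480 0)))) (P.cons (P.cons (P.lf 6929892 0 0) (P.cons (P.lf 244628 0 0) (P.cons (P.lf 105484 0 0) P.nil))) (P.cons (P.cons (P.lf 240833 0 0) (P.cons (P.lf 0 62236 0) P.nil)) (P.cons (P.cons (P.lf 0 77375 0) P.nil) P.nil)))))) 68155)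
 EL.nil)
noncomputable def S343_372_216_364_29 : EL := (EL.cons 13 (TM.mk (P.cons (P.cons (P.lf 0 187032720 0) (P.cons (P.lf 51311847 0 0) (P.cons (P.lf 18606935 0 0) (P.cons (P.lf 0 5493605 0) (P.cons (P.lf 0 317154 0) (P.cons (P.lf 145420 0 0) P.nil)))))) (P.cons (P.cons (P.lf 0 95646665 0) (P.cons (P.lf 0 4858769 0) (P.cons (P.lf 371080 0 0) (P.cons (P.lf 2359729 0 0) (P.cons (P.lf 222253 0 0) P.nil))))) (P.cons (P.cons (P.lf 0 32459374 0) (P.cons (P.lf 0 162682 0) (P.cons (P.lf 0 729825 0) (P.cons (P.lf 0 561122 0) P.nil)))) (P.cons (P.cons (P.lf 0 2280766 0) (P.cons (P.lf 0 842761 0) (P.cons (P.lf 0 297664 0) P.nil))) (P.cons (P.cons (P.lf 292948 0 0) (P.cons (P.lf 215095 0 0) P.nil)) (P.cons (P.cons (P.lf 149833 0 0) P.nil) P.nil)))))) 807134)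
 EL.nil)
noncomputable def S343_372_216_364_30 : EL := (EL.cons 13 (TM.mk (P.cons (P.lf 0 2846448260 0) (P.cons (P.lf 0 273072892 0) (P.cons (P.lf 22353452 0 0) (P.cons (P.lf 0 133644 0) (P.cons (P.lf 0 68648 0) (P.cons (P.lf 3668 0 0) P.nil)))))) 396)
 EL.nil)
noncomputable def S343_372_216_364_31 : EL := (EL.cons 13 (TM.mk (P.cons (P.cons (P.lf 0 593994137 0) (P.cons (P.lf 81480226 0 0) (P.cons (P.lf 35135191 0 0) (P.lf 0 3903909 0)))) (P.cons (P.cons (P.lf 0 208865928 0) (P.cons (P.lf 0 20732756 0) (P.cons (P.lf 0 8940196 0) (P.lf 993352 0 0)))) (P.cons (P.cons (P.lf 0 42031925 0) (P.cons (P.lf 0 743946 0) (P.cons (P.lf 0 320799 0) (P.lf 35645 0 0)))) (P.cons (P.cons (P.lf 2675580 0 0) (P.cons (P.lf 642922 0 0) (P.cons (P.lf 277233 0 0) P.nil))) (P.cons (P.cons (P.lf 831042 0 0) (P.cons (P.lf 0 45759 0) P.nil)) (P.cons (P.cons (P.lf 0 76440 0) P.nil) P.nil))))))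 106819)
 EL.nil)
noncomputable def S343_372_216_364_32 : EL := (EL.cons 13 (TM.mk (P.cons (P.cons (P.lf 0 123954136 0) (P.cons (P.lf 34006433 0 0) (P.cons (P.lf 12331567 0 0) (P.cons (P.lf 0 3640833 0) (P.cons (P.lf 0 210190 0) (P.cons (P.lf 96375 0 0) P.nil)))))) (P.cons (P.cons (P.lf 0 75280398 0) (P.cons (P.lf 42291 0 0) (P.cons (P.lf 1428953 0 0) (P.cons (P.lf 1214605 0 0) (P.cons (P.lf 127131 0 0) P.nil))))) (P.cons (P.cons (P.lf 0 26619903 0) (P.cons (P.lf 0 683791 0) (P.cons (P.lf 0 556932 0) (P.cons (P.lf 0 193255 0) P.nil)))) (P.cons (P.cons (P.lf 0 3083334 0) (P.cons (P.lf 0 541990 0) (P.cons (P.lf 0 245028 0) P.nil))) (P.cons (P.cons (P.lf 212109 0 0) (P.cons (P.lf 90485 0 0) P.nil)) (P.cons (P.cons (P.lf 127417 0 0) P.nil) P.nil)))))) 725399)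
 EL.nil)
noncomputable def S343_372_216_364_33 : EL := (EL.cons 14 (TM.mk (P.lf 8589934592 0 0) 0)
 EL.nil)
noncomputable def S343_372_216_364_34 : EL := (EL.cons 14 (TM.mk (P.cons (P.cons (P.lf 1792539446 0 0) (P.cons (P.lf 0 245888824 0) (P.cons (P.lf 0 106030032 0) (P.lf 11781112 0 0)))) (P.cons (P.cons (P.lf 458343386 0 0) (P.cons (P.lf 86156000 0 0) (P.cons (P.lf 37151432 0 0) (P.lf 0 4127928 0)))) (P.cons (P.cons (P.lf 96948814 0 0) (P.cons (P.lf 0 7951272 0) (P.cons (P.lf 0 3428672 0) (P.lf 380960 0 0)))) (P.cons (P.cons (P.lf 0 13859784 0) (P.cons (P.lf 0 489256 0) (P.cons (P.lf 0 210968 0) P.nil))) (P.cons (P.cons (P.lf 0 481666 0) (P.cons (P.lf 124472 0 0) P.nil)) (P.cons (P.cons (P.lf 154750 0 0) P.nil) P.nil)))))) 136310)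
 EL.nil)
noncomputable def S343_372_216_364_35 : EL := (EL.cons 14 (TM.mk (P.cons (P.cons (P.lf 374065440 0 0) (P.cons (P.lf 0 102623694 0) (P.cons (P.lf 0 37213870 0) (P.cons (P.lf 10987210 0 0) (P.cons (P.lf 634308 0 0) (P.cons (P.lf 0 290840 0) P.nil)))))) (P.cons (P.cons (P.lf 191293330 0 0) (P.cons (P.lf 9717538 0 0) (P.cons (P.lf 0 742160 0) (P.cons (P.lf 0 4719458 0) (P.cons (P.lf 0 444506 0) P.nil))))) (P.cons (P.cons (P.lf 64918748 0 0) (P.cons (P.lf 325364 0 0) (P.cons (P.lf 1459650 0 0) (P.cons (P.lf 1122244 0 0) P.nil)))) (P.cons (P.cons (P.lf 4561532 0 0) (P.cons (P.lf 1685522 0 0) (P.cons (P.lf 595328 0 0) P.nil))) (P.cons (P.cons (P.lf 0 585896 0) (P.cons (P.lf 0 430190 0) P.nil)) (P.cons (P.cons (P.lf 0 299666 0) P.nil) P.nil)))))) 1614268)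
 EL.nil)
noncomputable def S343_372_216_364_36 : EL := (EL.cons 14 (TM.mk (P.cons (P.lf 5692896520 0 0) (P.cons (P.lf 546145784 0 0) (P.cons (P.lf 0 44706904 0) (P.cons (P.lf 267288 0 0) (P.cons (P.lf 137296 0 0) (P.cons (P.lf 0 7336 0) P.nil)))))) 792)
 EL.nil)
noncomputable def S343_372_216_364_37 : EL := (EL.cons 14 (TM.mk (P.cons (P.cons (P.lf 1187988274 0 0) (P.cons (P.lf 0 162960452 0) (P.cons (P.lf 0 70270382 0) (P.lf 7807818 0 0)))) (P.cons (P.cons (P.lf 417731856 0 0) (P.cons (P.lf 41465512 0 0) (P.cons (P.lf 17880392 0 0) (P.lf 0 1986704 0)))) (P.cons (P.cons (P.lf 84063850 0 0) (P.cons (P.lf 1487892 0 0) (P.cons (P.lf 641598 0 0) (P.lf 0 71290 0)))) (P.cons (P.cons (P.lf 0 5351160 0) (P.cons (P.lf 0 1285844 0) (P.cons (P.lf 0 554466 0) P.nil))) (P.cons (P.cons (P.lf 0 1662084 0) (P.cons (P.lf 91518 0 0) P.nil)) (P.cons (P.cons (P.lf 152880 0 0) P.nil)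 P.nil)))))) 213638)
 EL.nil)
noncomputable def S343_372_216_364_38 : EL := (EL.cons 14 (TM.mk (P.cons (P.cons (P.lf 247908272 0 0) (P.cons (P.lf 0 68012866 0) (P.cons (P.lf 0 24663134 0) (P.cons (P.lf 7281666 0 0) (P.cons (P.lf 420380 0 0) (P.cons (P.lf 0 192750 0) P.nil)))))) (P.cons (P.cons (P.lf 150560796 0 0) (P.cons (P.lf 0 84582 0) (P.cons (P.lf 0 2857906 0) (P.cons (P.lf 0 2429210 0) (P.cons (P.lf 0 254262 0) P.nil))))) (P.cons (P.cons (P.lf 53239806 0 0) (P.cons (P.lf 1367582 0 0) (P.cons (P.lf 1113864 0 0) (P.cons (P.lf 386510 0 0) P.nil)))) (P.cons (P.cons (P.lf 6166668 0 0) (P.cons (P.lf 1083980 0 0) (P.cons (P.lf 490056 0 0) P.nil))) (P.cons (P.cons (P.lf 0 424218 0) (P.cons (P.lf 0 180970 0) P.nil)) (P.cons (P.cons (P.lf 0 254834 0) P.nil) P.nil)))))) 1450798)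
 EL.nil)
noncomputable def S343_372_216_364_39 : EL := (EL.cons 14 (TM.mk (P.cons (P.lf 3772912404 0 0) (P.cons (P.lf 723905728 0 0) (P.cons (P.lf 0 24534334 0) (P.cons (P.lf 0 5330620 0) (P.cons (P.lf 448650 0 0) (P.cons (P.lf 4952 0 0) P.nil)))))) 3630)
 EL.nil)
noncomputable def S343_372_216_364_40 : EL := (EL.cons 14 (TM.mk (P.cons (P.cons (P.lf 787327800 0 0) (P.cons (P.lf 0 108000472 0) (P.cons (P.lf 0 46571020 0) (P.lf 5174556 0 0)))) (P.cons (P.cons (P.lf 352379750 0 0) (P.cons (P.lf 17119886 0 0) (P.cons (P.lf 7382284 0 0) (P.lf 0 820250 0)))) (P.cons (P.cons (P.lf 76088824 0 0) (P.cons (P.lf 4470590 0 0) (P.cons (P.lf 1927770 0 0) (P.lf 0 214196 0)))) (P.cons (P.cons (P.lf 0 338820 0) (P.cons (P.lf 0 978462 0) (P.cons (P.lf 0 421920 0) P.nil))) (P.cons (P.cons (P.lf 0 1847286 0) (P.cons (P.lf 0 30158 0) P.nil)) (P.cons (P.cons (P.lf 31772 0 0) P.nil) P.nil))))))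 242986)
 EL.nil)
noncomputable def S343_372_216_364_41 : EL := (EL.cons 14 (TM.mk (P.cons (P.cons (P.lf 164298822 0 0) (P.cons (P.lf 0 45074872 0) (P.cons (P.lf 0 16345254 0) (P.cons (P.lf 4825854 0 0) (P.cons (P.lf 278602 0 0) (P.cons (P.lf 0 127744 0) P.nil)))))) (P.cons (P.cons (P.lf 115544662 0 0) (P.cons (P.lf 0 4380296 0) (P.cons (P.lf 0 3462126 0) (P.cons (P.lf 0 1146970 0) (P.cons (P.lf 0 141782 0) P.nil))))) (P.cons (P.cons (P.lf 43566528 0 0) (P.cons (P.lf 1254950 0 0) (P.cons (P.lf 684858 0 0) (P.cons (P.lf 63808 0 0) P.nil)))) (P.cons (P.cons (P.lf 6695982 0 0) (P.cons (P.lf 803672 0 0) (P.cons (P.lf 409706 0 0) P.nil))) (P.cons (P.cons (P.lf 0 157514 0) (P.cons (P.lf 0 59224 0) P.nil)) (P.cons (P.cons (P.lf 0 224104 0) P.nil) P.nil)))))) 1179938)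
 EL.nil)
noncomputable def S343_372_216_364_42 : EL := (EL.cons 14 (TM.mk (P.cons (P.lf 2500461402 0 0) (P.cons (P.lf 719642336 0 0) (P.cons (P.lf 10129460 0 0) (P.cons (P.lf 0 8742920 0) (P.cons (P.lf 168938 0 0) (P.cons (P.lf 67134 0 0) P.nil)))))) 7070)
 EL.nil)
noncomputable def S343_372_216_364_43 : EL := (EL.cons 14 (TM.mk (P.cons (P.cons (P.lf 521793926 0 0) (P.cons (P.lf 0 71576274 0) (P.cons (P.lf 0 30864496 0) (P.lf 3429386 0 0)))) (P.cons (P.cons (P.lf 283594384 0 0) (P.cons (P.lf 4479398 0 0) (P.cons (P.lf 1931564 0 0) (P.lf 0 214616 0)))) (P.cons (P.cons (P.lf 68733646 0 0) (P.cons (P.lf 4613414 0 0) (P.cons (P.lf 1989356 0 0) (P.lf 0 221040 0)))) (P.cons (P.cons (P.lf 2803670 0 0) (P.cons (P.lf 0 456690 0) (P.cons (P.lf 0 196928 0) P.nil))) (P.cons (P.cons (P.lf 0 1618272 0) (P.cons (P.lf 0 106658 0) P.nil)) (P.cons (P.cons (P.lf 0 87300 0) P.nil) P.nil))))))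 235086)
 EL.nil)
noncomputable def S343_372_216_364_44 : EL := (EL.cons 14 (TM.mk (P.cons (P.cons (P.lf 108887464 0 0) (P.cons (P.lf 0 29872938 0) (P.cons (P.lf 0 10832660 0) (P.cons (P.lf 3198288 0 0) (P.cons (P.lf 184640 0 0) (P.cons (P.lf 0 84660 0) P.nil)))))) (P.cons (P.cons (P.lf 87022188 0 0) (P.cons (P.lf 0 5768846 0) (P.cons (P.lf 0 3333716 0) (P.cons (P.lf 0 453316 0) (P.cons (P.lf 0 76250 0) P.nil))))) (P.cons (P.cons (P.lf 35364492 0 0) (P.cons (P.lf 787804 0 0) (P.cons (P.lf 318832 0 0) (P.cons (P.lf 0 55750 0) P.nil)))) (P.cons (P.cons (P.lf 6611398 0 0) (P.cons (P.lf 633810 0 0) (P.cons (P.lf 332582 0 0) P.nil))) (P.cons (P.cons (P.lf 100812 0 0) (P.cons (P.lf 4458 0 0) P.nil)) (P.cons (P.cons (P.lf 0 190324 0) P.nil) P.nil)))))) 926114)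
 EL.nil)
noncomputable def S343_372_216_364_45 : EL := (EL.cons 14 (TM.mk (P.cons (P.cons (P.lf 78059622 0 0) (P.cons (P.lf 0 32123122 0) (P.cons (P.lf 0 9445412 0) (P.cons (P.lf 5137824 0 0) (P.cons (P.lf 136456 0 0) (P.cons (P.lf 0 265508 0) P.nil)))))) (P.cons (P.cons (P.lf 59878366 0 0) (P.cons (P.lf 0 5171952 0) (P.cons (P.lf 0 4191408 0) (P.cons (P.lf 0 1231794 0) (P.cons (P.lf 97236 0 0) P.nil))))) (P.cons (P.cons (P.lf 27976074 0 0) (P.cons (P.lf 0 857756 0) (P.cons (P.lf 0 95154 0) (P.cons (P.lf 184266 0 0) P.nil)))) (P.cons (P.cons (P.lf 5971290 0 0) (P.cons (P.lf 966526 0 0) (P.cons (P.lf 344574 0 0) P.nil))) (P.cons (P.cons (P.lf 524198 0 0) (P.cons (P.lf 0 9130 0) P.nil)) (P.cons (P.cons (P.lf 0 151046 0) P.nil) P.nil)))))) 1647034)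
 EL.nil)
noncomputable def S343_372_216_364_46 : EL := (EL.cons 15 (TM.mk (P.lf 4294967296 0 0) 0)
 EL.nil)
noncomputable def S343_372_216_364_47 : EL := (EL.cons 15 (TM.mk (P.cons (P.cons (P.lf 896269723 0 0) (P.cons (P.lf 0 122944412 0) (P.cons (P.lf 0 53015016 0) (P.lf 5890556 0 0)))) (P.cons (P.cons (P.lf 229171693 0 0) (P.cons (P.lf 43078000 0 0) (P.cons (P.lf 18575716 0 0) (P.lf 0 2063964 0)))) (P.cons (P.cons (P.lf 48474407 0 0) (P.cons (P.lf 0 3975636 0) (P.cons (P.lf 0 1714336 0) (P.lf 190480 0 0)))) (P.cons (P.cons (P.lf 0 6929892 0) (P.cons (P.lf 0 244628 0) (P.cons (P.lf 0 105484 0) P.nil))) (P.cons (P.cons (P.lf 0 240833 0) (P.cons (P.lf 62236 0 0) P.nil)) (P.cons (P.cons (P.lf 77375 0 0) P.nil) P.nil)))))) 68155)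
 EL.nil)
noncomputable def S343_372_216_364_48 : EL := (EL.cons 15 (TM.mk (P.cons (P.cons (P.lf 187032720 0 0) (P.cons (P.lf 0 51311847 0) (P.cons (P.lf 0 18606935 0) (P.cons (P.lf 5493605 0 0) (P.cons (P.lf 317154 0 0) (P.cons (P.lf 0 145420 0) P.nil)))))) (P.cons (P.cons (P.lf 95646665 0 0) (P.cons (P.lf 4858769 0 0) (P.cons (P.lf 0 371080 0) (P.cons (P.lf 0 2359729 0) (P.cons (P.lf 0 222253 0) P.nil))))) (P.cons (P.cons (P.lf 32459374 0 0) (P.cons (P.lf 162682 0 0) (P.cons (P.lf 729825 0 0) (P.cons (P.lf 561122 0 0) P.nil)))) (P.cons (P.cons (P.lf 2280766 0 0) (P.cons (P.lf 842761 0 0) (P.cons (P.lf 297664 0 0) P.nil))) (P.cons (P.cons (P.lf 0 292948 0) (P.cons (P.lf 0 215095 0) P.nil)) (P.cons (P.cons (P.lf 0 149833 0) P.nil) P.nil)))))) 807134)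
 EL.nil)
noncomputable def S343_372_216_364 : SL := (SL.cons S343_372_216_364_0 (SL.cons S343_372_216_364_1 (SL.cons S343_372_216_364_2 (SL.cons S343_372_216_364_3 (SL.cons S343_372_216_364_4 (SL.cons S343_372_216_364_5 (SL.cons S343_372_216_364_6 (SL.cons S343_372_216_364_7 (SL.cons S343_372_216_364_8 (SL.cons S343_372_216_364_9 (SL.cons S343_372_216_364_10 (SL.cons S343_372_216_364_11 (SL.cons S343_372_216_364_12 (SL.cons S343_372_216_364_13 (SL.cons S343_372_216_364_14 (SL.cons S343_372_216_364_15 (SL.cons S343_372_216_364_16 (SL.cons S343_372_216_364_17 (SL.cons S343_372_216_364_18 (SL.cons S343_372_216_364_19 (SL.cons S343_372_216_364_20 (SL.cons S343_372_216_364_21 (SL.cons S343_372_216_364_22 (SL.cons S343_372_216_364_23 (SL.cons S343_372_216_364_24 (SL.cons S343_372_216_364_25 (SL.cons S343_372_216_364_26 (SL.cons S343_372_216_364_27 (SL.cons S343_372_216_364_28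 (SL.cons S343_372_216_364_29 (SL.cons S343_372_216_364_30 (SL.cons S343_372_216_364_31 (SL.cons S343_372_216_364_32 (SL.cons S343_372_216_364_33 (SL.cons S343_372_216_364_34 (SL.cons S343_372_216_364_35 (SL.cons S343_372_216_364_36 (SL.cons S343_372_216_364_37 (SL.cons S343_372_216_364_38 (SL.cons S343_372_216_364_39 (SL.cons S343_372_216_364_40 (SL.cons S343_372_216_364_41 (SL.cons S343_372_216_364_42 (SL.cons S343_372_216_364_43 (SL.cons S343_372_216_364_44 (SL.cons S343_372_216_364_45 (SL.cons S343_372_216_364_46 (SL.cons S343_372_216_364_47 (SL.cons S343_372_216_364_48 SL.nil)))))))))))))))))))))))))))))))))))))))))))))))))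
noncomputable def S343_372_364_438_0 : EL := (EL.cons 0 (TM.mk (P.cons (P.lf 5139680571 0 0) (P.cons (P.lf 0 636245268 0) (P.cons (P.lf 21563379 0 0) (P.cons (P.lf 4685115 0 0) (P.cons (P.lf 0 394321 0) (P.cons (P.lf 0 4352 0) P.nil)))))) 3197)
 (EL.cons 1 (TM.mk (P.cons (P.lf 1792040857 0 0) (P.cons (P.lf 0 37383279 0) (P.cons (P.lf 0 39281548 0) (P.cons (P.lf 2177913 0 0) (P.cons (P.lf 137038 0 0) (P.cons (P.lf 0 19477 0) P.nil)))))) 1484)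
 (EL.cons 5 (TM.mk (P.cons (P.lf 5474002426 0 0) (P.cons (P.lf 226220540 0 0) (P.cons (P.lf 0 7666984 0) (P.cons (P.lf 0 1665814 0) (P.cons (P.lf 140204 0 0) (P.cons (P.lf 1546 0 0) P.nil)))))) 969)
 (EL.cons 9 (TM.mk (P.lf 6442450944 0 0) 2)
 EL.nil))))
noncomputable def S343_372_364_438_1 : EL := (EL.cons 0 (TM.mk (P.cons (P.cons (P.lf 2905232062 0 0) (P.cons (P.lf 135593212 0 0) (P.cons (P.lf 7419107 0 0) (P.lf 0 824334 0)))) (P.cons (P.cons (P.lf 878676621 0 0) (P.cons (P.lf 24256151 0 0) (P.cons (P.lf 1327204 0 0) (P.lf 0 147477 0)))) (P.cons (P.cons (P.lf 0 176133054 0) (P.cons (P.lf 0 23193441 0) (P.cons (P.lf 0 1269050 0) (P.lf 140997 0 0)))) (P.cons (P.cons (P.lf 0 28816324 0) (P.cons (P.lf 2914250 0 0) (P.cons (P.lf 159445 0 0) P.nil))) (P.cons (P.cons (P.lf 6920884 0 0) (P.cons (P.lf 225151 0 0) P.nil)) (P.cons (P.cons (P.lf 55036 0 0) P.nil) P.nil))))))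 367379)
 (EL.cons 1 (TM.mk (P.cons (P.cons (P.lf 383177365 0 0) (P.cons (P.lf 0 34051190 0) (P.cons (P.lf 0 1863139 0) (P.lf 207007 0 0)))) (P.cons (P.cons (P.lf 442524360 0 0) (P.cons (P.lf 51904330 0 0) (P.cons (P.lf 2839991 0 0) (P.lf 0 315542 0)))) (P.cons (P.cons (P.lf 70219835 0 0) (P.cons (P.lf 0 7339052 0) (P.cons (P.lf 0 401553 0) (P.lf 44610 0 0)))) (P.cons (P.cons (P.lf 0 26066609 0) (P.cons (P.lf 0 1330992 0) (P.cons (P.lf 0 72818 0) P.nil))) (P.cons (P.cons (P.lf 0 936172 0) (P.cons (P.lf 319765 0 0) P.nil)) (P.cons (P.cons (P.lf 542366 0 0) P.nil) P.nil)))))) 180242)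
 (EL.cons 5 (TM.mk (P.cons (P.cons (P.lf 8193506 0 0) (P.cons (P.lf 0 254104894 0) (P.cons (P.lf 0 13903598 0) (P.lf 1544844 0 0)))) (P.cons (P.cons (P.lf 246232547 0 0) (P.cons (P.lf 63517958 0 0) (P.cons (P.lf 3475446 0 0) (P.lf 0 386154 0)))) (P.cons (P.cons (P.lf 129429234 0 0) (P.cons (P.lf 1588586 0 0) (P.cons (P.lf 86922 0 0) (P.lf 0 9650 0)))) (P.cons (P.cons (P.lf 0 2495076 0) (P.cons (P.lf 0 1445858 0) (P.cons (P.lf 0 79104 0) P.nil))) (P.cons (P.cons (P.lf 0 2625925 0) (P.cons (P.lf 24178 0 0) P.nil)) (P.cons (P.cons (P.lf 103770 0 0) P.nil) P.nil)))))) 137949)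
 (EL.cons 9 (TM.mk (P.cons (P.cons (P.lf 918674914 0 0) (P.cons (P.lf 0 181671150 0) (P.cons (P.lf 0 9940314 0) (P.lf 1104474 0 0)))) (P.cons (P.cons (P.lf 492927259 0 0) (P.cons (P.lf 63655026 0 0) (P.cons (P.lf 3482946 0 0) (P.lf 0 386988 0)))) (P.cons (P.cons (P.lf 58944838 0 0) (P.cons (P.lf 0 5874672 0) (P.cons (P.lf 0 321432 0) (P.lf 35712 0 0)))) (P.cons (P.cons (P.lf 0 11241948 0) (P.cons (P.lf 0 361482 0) (P.cons (P.lf 0 19776 0) P.nil))) (P.cons (P.cons (P.lf 0 145741 0) (P.cons (P.lf 91962 0 0) P.nil)) (P.cons (P.cons (P.lf 108820 0 0) P.nil) P.nil)))))) 29189)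
 (EL.cons 2 (TM.mk (P.cons (P.cons (P.lf 0 757088026 0) (P.cons (P.lf 0 94996352 0) (P.cons (P.lf 14503483 0 0) (P.cons (P.lf 443078 0 0) (P.lf 0 36922 0))))) (P.cons (P.cons (P.lf 104217758 0 0) (P.cons (P.lf 13076822 0 0) (P.cons (P.lf 0 1996489 0) (P.cons (P.lf 0 60989 0) (P.lf 5082 0 0))))) (P.cons (P.cons (P.lf 16917707 0 0) (P.cons (P.lf 2122765 0 0) (P.cons (P.lf 0 324090 0) (P.cons (P.lf 0 9900 0) P.nil)))) (P.cons (P.cons (P.lf 0 3301613 0) (P.cons (P.lf 0 414270 0) (P.cons (P.lf 63247 0 0) P.nil))) (P.cons (P.cons (P.lf 21785 0 0) (P.cons (P.lf 2730 0 0) P.nil)) (P.cons (P.cons (P.lf 26907 0 0) P.nil) P.nil)))))) 16524)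
 (EL.cons 6 (TM.mk (P.cons (P.cons (P.lf 409142889 0 0) (P.cons (P.lf 51337599 0 0) (P.cons (P.lf 0 7837923 0) (P.cons (P.lf 0 239445 0) (P.lf 19953 0 0))))) (P.cons (P.cons (P.lf 0 143357943 0) (P.cons (P.lf 0 17987976 0) (P.cons (P.lf 2746296 0 0) (P.cons (P.lf 83898 0 0) (P.lf 0 6990 0))))) (P.cons (P.cons (P.lf 13230402 0 0) (P.cons (P.lf 1660095 0 0) (P.cons (P.lf 0 253452 0) (P.cons (P.lf 0 7740 0) P.nil)))) (P.cons (P.cons (P.lf 814101 0 0) (P.cons (P.lf 102147 0 0) (P.cons (P.lf 0 15594 0) P.nil))) (P.cons (P.cons (P.lf 0 207114 0) (P.cons (P.lf 0 25986 0) P.nil)) (P.cons (P.cons (P.lf 6963 0 0) P.nil) P.nil)))))) 9411)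
 EL.nil))))))
noncomputable def S343_372_364_438_2 : EL := (EL.cons 0 (TM.mk (P.cons (P.cons (P.lf 724045472 0 0) (P.cons (P.lf 0 83844894 0) (P.cons (P.lf 0 16321870 0) (P.cons (P.lf 0 774352 0) (P.cons (P.lf 107543 0 0) (P.cons (P.lf 7798 0 0) P.nil)))))) (P.cons (P.cons (P.lf 595950905 0 0) (P.cons (P.lf 38100447 0 0) (P.cons (P.lf 6766162 0 0) (P.cons (P.lf 280660 0 0) (P.cons (P.lf 0 42901 0) P.nil))))) (P.cons (P.cons (P.lf 107334869 0 0) (P.cons (P.lf 17015680 0 0) (P.cons (P.lf 1333366 0 0) (P.cons (P.lf 0 59417 0) P.nil)))) (P.cons (P.cons (P.lf 0 29050446 0) (P.cons (P.lf 0 6628771 0) (P.cons (P.lf 0 865349 0) P.nil))) (P.cons (P.cons (P.lf 0 7584053 0) (P.cons (P.lf 0 312948 0) P.nil)) (P.cons (P.cons (P.lf 1206529 0 0) P.nil) P.nil)))))) 1651329)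
 (EL.cons 1 (TM.mk (P.cons (P.cons (P.lf 72840727 0 0) (P.cons (P.lf 0 16909722 0) (P.cons (P.lf 0 429817 0) (P.cons (P.lf 157012 0 0) (P.cons (P.lf 0 4539 0) (P.cons (P.lf 0 325 0) P.nil)))))) (P.cons (P.cons (P.lf 146497242 0 0) (P.cons (P.lf 0 5410857 0) (P.cons (P.lf 0 2867922 0) (P.cons (P.lf 0 248545 0) (P.cons (P.lf 23571 0 0) P.nil))))) (P.cons (P.cons (P.lf 81202711 0 0) (P.cons (P.lf 7621537 0 0) (P.cons (P.lf 1662004 0 0) (P.cons (P.lf 89902 0 0) P.nil)))) (P.cons (P.cons (P.lf 9583824 0 0) (P.cons (P.lf 1338232 0 0) (P.cons (P.lf 0 79006 0) P.nil))) (P.cons (P.cons (P.lf 0 3876655 0) (P.cons (P.lf 0 920067 0) P.nil)) (P.cons (P.cons (P.lf 0 655573 0) P.nil) P.nil)))))) 818731)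
 (EL.cons 5 (TM.mk (P.cons (P.cons (P.lf 0 108971275 0) (P.cons (P.lf 0 28908267 0) (P.cons (P.lf 8396433 0 0) (P.cons (P.lf 1267674 0 0) (P.cons (P.lf 0 91447 0) (P.cons (P.lf 0 6630 0) P.nil)))))) (P.cons (P.cons (P.lf 0 52569643 0) (P.cons (P.lf 0 24479109 0) (P.cons (P.lf 0 7072610 0) (P.cons (P.lf 0 478570 0) (P.cons (P.lf 52540 0 0) P.nil))))) (P.cons (P.cons (P.lf 23632363 0 0) (P.cons (P.lf 0 676886 0) (P.cons (P.lf 908217 0 0) (P.cons (P.lf 107544 0 0) P.nil)))) (P.cons (P.cons (P.lf 16918106 0 0) (P.cons (P.lf 3259905 0 0) (P.cons (P.lf 248624 0 0) P.nil))) (P.cons (P.cons (P.lf 1310988 0 0) (P.cons (P.lf 0 285985 0) P.nil)) (P.cons (P.cons (P.lf 0 652221 0) P.nil) P.nil)))))) 701273)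
 (EL.cons 9 (TM.mk (P.cons (P.cons (P.lf 131000391 0 0) (P.cons (P.lf 0 51811563 0) (P.cons (P.lf 2288037 0 0) (P.cons (P.lf 875604 0 0) (P.cons (P.lf 0 46951 0) (P.cons (P.lf 0 3408 0) P.nil)))))) (P.cons (P.cons (P.lf 140580009 0 0) (P.cons (P.lf 0 9646137 0) (P.cons (P.lf 0 4117822 0) (P.cons (P.lf 0 334218 0) (P.cons (P.lf 32902 0 0) P.nil))))) (P.cons (P.cons (P.lf 54525765 0 0) (P.cons (P.lf 4740991 0 0) (P.cons (P.lf 1219677 0 0) (P.cons (P.lf 76260 0 0) P.nil)))) (P.cons (P.cons (P.lf 5813880 0 0) (P.cons (P.lf 796777 0 0) (P.cons (P.lf 0 52104 0) P.nil))) (P.cons (P.cons (P.lf 0 1222548 0) (P.cons (P.lf 0 350521 0) P.nil)) (P.cons (P.cons (P.lf 0 196981 0) P.nil) P.nil)))))) 213497)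
 (EL.cons 2 (TM.mk (P.cons (P.cons (P.lf 0 215917132 0) (P.cons (P.lf 15605949 0 0) (P.cons (P.lf 11830207 0 0) (P.cons (P.lf 0 658040 0) (P.cons (P.lf 0 112843 0) (P.cons (P.lf 5686 0 0) P.nil)))))) (P.cons (P.cons (P.lf 0 86130905 0) (P.cons (P.lf 0 31645951 0) (P.cons (P.lf 0 2104936 0) (P.cons (P.lf 433226 0 0) (P.cons (P.lf 45731 0 0) P.nil))))) (P.cons (P.cons (P.lf 6918862 0 0) (P.cons (P.lf 3354210 0 0) (P.cons (P.lf 315421 0 0) (P.cons (P.lf 0 49719 0) P.nil)))) (P.cons (P.cons (P.lf 6196500 0 0) (P.cons (P.lf 1192921 0 0) (P.cons (P.lf 0 43852 0) P.nil))) (P.cons (P.cons (P.lf 0 518900 0) (P.cons (P.lf 0 195738 0) P.nil)) (P.cons (P.cons (P.lf 0 138740 0) P.nil) P.nil)))))) 188594)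
 (EL.cons 6 (TM.mk (P.cons (P.cons (P.lf 116685186 0 0) (P.cons (P.lf 0 8433708 0) (P.cons (P.lf 0 6393240 0) (P.cons (P.lf 355614 0 0) (P.cons (P.lf 60978 0 0) (P.cons (P.lf 0 3072 0) P.nil)))))) (P.cons (P.cons (P.lf 21724134 0 0) (P.cons (P.lf 18896100 0 0) (P.cons (P.lf 2497578 0 0) (P.cons (P.lf 0 309774 0) (P.cons (P.lf 0 37686 0) P.nil))))) (P.cons (P.cons (P.lf 0 10677216 0) (P.cons (P.lf 0 5664984 0) (P.cons (P.lf 0 574830 0) (P.cons (P.lf 85704 0 0) P.nil)))) (P.cons (P.cons (P.lf 0 1794420 0) (P.cons (P.lf 205908 0 0) (P.cons (P.lf 112044 0 0) P.nil))) (P.cons (P.cons (P.lf 789408 0 0) (P.cons (P.lf 130458 0 0) P.nil)) (P.cons (P.cons (P.lf 0 40674 0) P.nil) P.nil)))))) 123264)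
 EL.nil))))))
noncomputable def S343_372_364_438_3 : EL := (EL.cons 0 (TM.mk (P.cons (P.lf 3316036292 0 0) (P.cons (P.lf 636245268 0 0) (P.cons (P.lf 0 21563379 0) (P.cons (P.lf 0 4685115 0) (P.cons (P.lf 394321 0 0) (P.cons (P.lf 4352 0 0) P.nil)))))) 3197)
 (EL.cons 1 (TM.mk (P.cons (P.lf 0 1792040857 0) (P.cons (P.lf 37383279 0 0) (P.cons (P.lf 39281548 0 0) (P.cons (P.lf 0 2177913 0) (P.cons (P.lf 0 137038 0) (P.cons (P.lf 19477 0 0) P.nil)))))) 1484)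
 (EL.cons 5 (TM.mk (P.cons (P.lf 968448518 0 0) (P.cons (P.lf 0 226220540 0) (P.cons (P.lf 7666984 0 0) (P.cons (P.lf 1665814 0 0) (P.cons (P.lf 0 140204 0) (P.cons (P.lf 0 1546 0) P.nil)))))) 962)
 EL.nil)))
noncomputable def S343_372_364_438_4 : EL := (EL.cons 0 (TM.mk (P.cons (P.cons (P.lf 472857205 0 0) (P.cons (P.lf 0 93509150 0) (P.cons (P.lf 0 5116443 0) (P.lf 568490 0 0)))) (P.cons (P.cons (P.lf 344444570 0 0) (P.cons (P.lf 14822767 0 0) (P.cons (P.lf 811040 0 0) (P.lf 0 90112 0)))) (P.cons (P.cons (P.lf 75945649 0 0) (P.cons (P.lf 3870734 0 0) (P.cons (P.lf 211793 0 0) (P.lf 0 23531 0)))) (P.cons (P.cons (P.lf 0 2283075 0) (P.cons (P.lf 0 847174 0) (P.cons (P.lf 0 46351 0) P.nil))) (P.cons (P.cons (P.lf 0 1684782 0) (P.cons (P.lf 0 26112 0) P.nil)) (P.cons (P.cons (P.lf 67169 0 0) P.nil) P.nil)))))) 76114)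
 (EL.cons 1 (TM.mk (P.cons (P.cons (P.lf 0 255539853 0) (P.cons (P.lf 50533891 0 0) (P.cons (P.lf 2765010 0 0) (P.lf 0 307220 0)))) (P.cons (P.cons (P.lf 0 131782563 0) (P.cons (P.lf 0 18760541 0) (P.cons (P.lf 0 1026500 0) (P.lf 114052 0 0)))) (P.cons (P.cons (P.lf 0 7934454 0) (P.cons (P.lf 895770 0 0) (P.cons (P.lf 49010 0 0) (P.lf 0 5445 0)))) (P.cons (P.cons (P.lf 6164070 0 0) (P.cons (P.lf 516000 0 0) (P.cons (P.lf 28231 0 0) P.nil))) (P.cons (P.cons (P.lf 148530 0 0) (P.cons (P.lf 0 81150 0) P.nil)) (P.cons (P.cons (P.lf 0 127293 0) P.nil) P.nil)))))) 42705)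
 (EL.cons 5 (TM.mk (P.cons (P.cons (P.lf 138097964 0 0) (P.cons (P.lf 0 27309350 0) (P.cons (P.lf 0 1494256 0) (P.lf 166026 0 0)))) (P.cons (P.cons (P.lf 41839904 0 0) (P.cons (P.lf 15948022 0 0) (P.cons (P.lf 872610 0 0) (P.lf 0 96954 0)))) (P.cons (P.cons (P.lf 0 7354616 0) (P.cons (P.lf 0 3334484 0) (P.cons (P.lf 0 182448 0) (P.lf 20270 0 0)))) (P.cons (P.cons (P.lf 0 2935554 0) (P.cons (P.lf 180722 0 0) (P.cons (P.lf 9888 0 0) P.nil))) (P.cons (P.cons (P.lf 550452 0 0) (P.cons (P.lf 39938 0 0) P.nil)) (P.cons (P.cons (P.lf 12388 0 0) P.nil) P.nil)))))) 26746)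
 EL.nil)))
noncomputable def S343_372_364_438_5 : EL := (EL.cons 0 (TM.mk (P.cons (P.cons (P.lf 67428072 0 0) (P.cons (P.lf 0 26668269 0) (P.cons (P.lf 1177690 0 0) (P.cons (P.lf 450687 0 0) (P.cons (P.lf 0 24166 0) (P.cons (P.lf 0 1752 0) P.nil)))))) (P.cons (P.cons (P.lf 85296230 0 0) (P.cons (P.lf 0 10081845 0) (P.cons (P.lf 0 1893547 0) (P.cons (P.lf 0 85552 0) (P.cons (P.lf 12297 0 0) P.nil))))) (P.cons (P.cons (P.lf 41510283 0 0) (P.cons (P.lf 1661048 0 0) (P.cons (P.lf 213459 0 0) (P.cons (P.lf 3313 0 0) P.nil)))) (P.cons (P.cons (P.lf 7811571 0 0) (P.cons (P.lf 948290 0 0) (P.cons (P.lf 105751 0 0) P.nil))) (P.cons (P.cons (P.lf 0 331813 0) (P.cons (P.lf 0 113755 0) P.nil)) (P.cons (P.cons (P.lf 0 272545 0) P.nil) P.nil)))))) 236873)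
 (EL.cons 1 (TM.mk (P.cons (P.cons (P.lf 0 36439245 0) (P.cons (P.lf 14411973 0 0) (P.cons (P.lf 0 636442 0) (P.cons (P.lf 0 243558 0) (P.cons (P.lf 13059 0 0) (P.cons (P.lf 946 0 0) P.nil)))))) (P.cons (P.cons (P.lf 0 38343774 0) (P.cons (P.lf 2382536 0 0) (P.cons (P.lf 1158693 0 0) (P.cons (P.lf 98045 0 0) (P.cons (P.lf 0 9423 0) P.nil))))) (P.cons (P.cons (P.lf 0 13552473 0) (P.cons (P.lf 0 1690642 0) (P.cons (P.lf 0 349209 0) (P.cons (P.lf 0 17812 0) P.nil)))) (P.cons (P.cons (P.lf 0 487929 0) (P.cons (P.lf 0 235421 0) (P.cons (P.lf 0 4308 0) P.nil))) (P.cons (P.cons (P.lf 655950 0 0) (P.cons (P.lf 135393 0 0) P.nil)) (P.cons (P.cons (P.lf 62118 0 0) P.nil) P.nil)))))) 140973)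
 (EL.cons 5 (TM.mk (P.cons (P.cons (P.lf 19692370 0 0) (P.cons (P.lf 0 7788468 0) (P.cons (P.lf 343944 0 0) (P.cons (P.lf 131622 0 0) (P.cons (P.lf 0 7056 0) (P.cons (P.lf 0 510 0) P.nil)))))) (P.cons (P.cons (P.lf 16532452 0 0) (P.cons (P.lf 369276 0 0) (P.cons (P.lf 0 699344 0) (P.cons (P.lf 0 80984 0) (P.cons (P.lf 6594 0 0) P.nil))))) (P.cons (P.cons (P.lf 3416042 0 0) (P.cons (P.lf 989734 0 0) (P.cons (P.lf 330660 0 0) (P.cons (P.lf 24240 0 0) P.nil)))) (P.cons (P.cons (P.lf 0 839486 0) (P.cons (P.lf 0 71576 0) (P.cons (P.lf 0 54968 0) P.nil))) (P.cons (P.cons (P.lf 0 289536 0) (P.cons (P.lf 0 76392 0) P.nil)) (P.cons (P.cons (P.lf 31244 0 0) P.nil) P.nil)))))) 77064)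
 EL.nil)))
noncomputable def S343_372_364_438_6 : EL := (EL.cons 12 (TM.mk (P.lf 8589934592 0 0) 0)
 (EL.cons 3 (TM.mk (P.cons (P.lf 2668545243 0 0) (P.cons (P.lf 256005836 0 0) (P.cons (P.lf 0 20956361 0) (P.cons (P.lf 125291 0 0) (P.cons (P.lf 64357 0 0) (P.cons (P.lf 0 3438 0) P.nil)))))) 378)
 (EL.cons 7 (TM.mk (P.cons (P.lf 0 1442125985 0) (P.cons (P.lf 168433589 0 0) (P.cons (P.lf 4127638 0 0) (P.cons (P.lf 0 758202 0) (P.cons (P.lf 21743 0 0) (P.cons (P.lf 1521 0 0) P.nil)))))) 224)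
 EL.nil)))
noncomputable def S343_372_364_438_7 : EL := (EL.cons 12 (TM.mk (P.cons (P.cons (P.lf 1224899886 0 0) (P.cons (P.lf 0 242228200 0) (P.cons (P.lf 0 13253752 0) (P.lf 1472632 0 0)))) (P.cons (P.cons (P.lf 657236346 0 0) (P.cons (P.lf 84873368 0 0) (P.cons (P.lf 4643928 0 0) (P.lf 0 515984 0)))) (P.cons (P.cons (P.lf 78593118 0 0) (P.cons (P.lf 0 7832896 0) (P.cons (P.lf 0 428576 0) (P.lf 47616 0 0)))) (P.cons (P.cons (P.lf 0 14989264 0) (P.cons (P.lf 0 481976 0) (P.cons (P.lf 0 26368 0) P.nil))) (P.cons (P.cons (P.lf 0 194322 0) (P.cons (P.lf 122616 0 0) P.nil)) (P.cons (P.cons (P.lf 145094 0 0) P.nil) P.nil)))))) 38894)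
 (EL.cons 3 (TM.mk (P.cons (P.cons (P.lf 2128685264 0 0) (P.cons (P.lf 150501006 0 0) (P.cons (P.lf 8234808 0 0) (P.lf 0 914972 0)))) (P.cons (P.cons (P.lf 536627543 0 0) (P.cons (P.lf 0 38295188 0) (P.cons (P.lf 0 2095356 0) (P.lf 232810 0 0)))) (P.cons (P.cons (P.lf 0 116531415 0) (P.cons (P.lf 0 1374132 0) (P.cons (P.lf 0 75190 0) (P.lf 8354 0 0)))) (P.cons (P.cons (P.lf 303421 0 0) (P.cons (P.lf 1187534 0 0) (P.cons (P.lf 64972 0 0) P.nil))) (P.cons (P.cons (P.lf 1991051 0 0) (P.cons (P.lf 0 84518 0) P.nil)) (P.cons (P.cons (P.lf 0 155899 0) P.nil) P.nil)))))) 128510)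
 (EL.cons 7 (TM.mk (P.cons (P.cons (P.lf 944520600 0 0) (P.cons (P.lf 189195024 0 0) (P.cons (P.lf 10351993 0 0) (P.lf 0 1150224 0)))) (P.cons (P.cons (P.lf 353062665 0 0) (P.cons (P.lf 0 25195508 0) (P.cons (P.lf 0 1378597 0) (P.lf 153179 0 0)))) (P.cons (P.cons (P.lf 0 39115868 0) (P.cons (P.lf 0 3583995 0) (P.cons (P.lf 0 196101 0) (P.lf 21786 0 0)))) (P.cons (P.cons (P.lf 0 8336932 0) (P.cons (P.lf 486346 0 0) (P.cons (P.lf 26611 0 0) P.nil))) (P.cons (P.cons (P.lf 796849 0 0) (P.cons (P.lf 44646 0 0) P.nil)) (P.cons (P.cons (P.lf 66711 0 0) P.nil) P.nil)))))) 82114)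
 (EL.cons 10 (TM.mk (P.cons (P.cons (P.lf 0 1218517215 0) (P.cons (P.lf 0 152894628 0) (P.cons (P.lf 23343054 0 0) (P.cons (P.lf 713127 0 0) (P.lf 0 59427 0))))) (P.cons (P.cons (P.lf 284634255 0 0) (P.cons (P.lf 35714757 0 0) (P.cons (P.lf 0 5452719 0) (P.cons (P.lf 0 166578 0) (P.lf 13881 0 0))))) (P.cons (P.cons (P.lf 0 9646719 0) (P.cons (P.lf 0 1210431 0) (P.cons (P.lf 184800 0 0) (P.cons (P.lf 5643 0 0) P.nil)))) (P.cons (P.cons (P.lf 0 2095953 0) (P.cons (P.lf 0 262989 0) (P.cons (P.lf 40152 0 0) P.nil))) (P.cons (P.cons (P.lf 176406 0 0) (P.cons (P.lf 22134 0 0) P.nil)) (P.cons (P.cons (P.lf 1944 0 0) P.nil) P.nil)))))) 7062)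
 EL.nil))))
noncomputable def S343_372_364_438_8 : EL := (EL.cons 12 (TM.mk (P.cons (P.cons (P.lf 174667188 0 0) (P.cons (P.lf 0 69082084 0) (P.cons (P.lf 3050716 0 0) (P.cons (P.lf 1167472 0 0) (P.cons (P.lf 0 62602 0) (P.cons (P.lf 0 4544 0) P.nil)))))) (P.cons (P.cons (P.lf 187440012 0 0) (P.cons (P.lf 0 12861516 0) (P.cons (P.lf 0 5490430 0) (P.cons (P.lf 0 445624 0) (P.cons (P.lf 43870 0 0) P.nil))))) (P.cons (P.cons (P.lf 72701020 0 0) (P.cons (P.lf 6321322 0 0) (P.cons (P.lf 1626236 0 0) (P.cons (P.lf 101680 0 0) P.nil)))) (P.cons (P.cons (P.lf 7751840 0 0) (P.cons (P.lf 1062370 0 0) (P.cons (P.lf 0 69472 0) P.nil))) (P.cons (P.cons (P.lf 0 1630064 0) (P.cons (P.lf 0 467362 0) P.nil)) (P.cons (P.cons (P.lf 0 262642 0) P.nil) P.nil)))))) 284634)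
 (EL.cons 3 (TM.mk (P.cons (P.cons (P.lf 552826720 0 0) (P.cons (P.lf 0 55670873 0) (P.cons (P.lf 0 13656057 0) (P.cons (P.lf 0 822615 0) (P.cons (P.lf 97241 0 0) (P.cons (P.lf 7056 0 0) P.nil)))))) (P.cons (P.cons (P.lf 415348992 0 0) (P.cons (P.lf 29963625 0 0) (P.cons (P.lf 8056793 0 0) (P.cons (P.lf 520094 0 0) (P.cons (P.lf 0 58816 0) P.nil))))) (P.cons (P.cons (P.lf 60090365 0 0) (P.cons (P.lf 8047339 0 0) (P.cons (P.lf 0 751839 0) (P.cons (P.lf 0 179386 0) P.nil)))) (P.cons (P.cons (P.lf 0 19475148 0) (P.cons (P.lf 0 5183847 0) (P.cons (P.lf 0 335109 0) P.nil))) (P.cons (P.cons (P.lf 0 3038552 0) (P.cons (P.lf 495743 0 0) P.nil)) (P.cons (P.cons (P.lf 866783 0 0) P.nil) P.nil)))))) 800082)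
 (EL.cons 7 (TM.mk (P.cons (P.cons (P.lf 298695920 0 0) (P.cons (P.lf 0 10909766 0) (P.cons (P.lf 0 10120421 0) (P.cons (P.lf 0 975845 0) (P.cons (P.lf 87279 0 0) (P.cons (P.lf 6330 0 0) P.nil)))))) (P.cons (P.cons (P.lf 273270027 0 0) (P.cons (P.lf 19713930 0 0) (P.cons (P.lf 5300797 0 0) (P.cons (P.lf 342181 0 0) (P.cons (P.lf 0 38694 0) P.nil))))) (P.cons (P.cons (P.lf 68601531 0 0) (P.cons (P.lf 7391449 0 0) (P.cons (P.lf 69155 0 0) (P.cons (P.lf 0 81623 0) P.nil)))) (P.cons (P.cons (P.lf 0 5397791 0) (P.cons (P.lf 0 2529249 0) (P.cons (P.lf 0 255547 0) P.nil))) (P.cons (P.cons (P.lf 0 3483680 0) (P.cons (P.lf 0 153352 0) P.nil)) (P.cons (P.cons (P.lf 130904 0 0) P.nil) P.nil)))))) 507994)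
 (EL.cons 10 (TM.mk (P.cons (P.cons (P.lf 0 347514072 0) (P.cons (P.lf 25117446 0 0) (P.cons (P.lf 19040472 0 0) (P.cons (P.lf 0 1059108 0) (P.cons (P.lf 0 181620 0) (P.cons (P.lf 9150 0 0) P.nil)))))) (P.cons (P.cons (P.lf 0 105287256 0) (P.cons (P.lf 0 53343132 0) (P.cons (P.lf 0 5214498 0) (P.cons (P.lf 798876 0 0) (P.cons (P.lf 91026 0 0) P.nil))))) (P.cons (P.cons (P.lf 18507390 0 0) (P.cons (P.lf 10713234 0 0) (P.cons (P.lf 1157442 0 0) (P.cons (P.lf 0 164976 0) P.nil)))) (P.cons (P.cons (P.lf 7387122 0 0) (P.cons (P.lf 472122 0 0) (P.cons (P.lf 0 223458 0) P.nil))) (P.cons (P.cons (P.lf 0 1385178 0) (P.cons (P.lf 0 274308 0) P.nil)) (P.cons (P.cons (P.lf 0 31176 0) P.nil) P.nil)))))) 216720)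
 EL.nil))))
noncomputable def S343_372_364_438_9 : EL := (EL.cons 3 (TM.mk (P.cons (P.lf 2668545243 0 0) (P.cons (P.lf 256005836 0 0) (P.cons (P.lf 0 20956361 0) (P.cons (P.lf 125291 0 0) (P.cons (P.lf 64357 0 0) (P.cons (P.lf 0 3438 0) P.nil)))))) 378)
 (EL.cons 7 (TM.mk (P.cons (P.lf 0 1442125985 0) (P.cons (P.lf 168433589 0 0) (P.cons (P.lf 4127638 0 0) (P.cons (P.lf 0 758202 0) (P.cons (P.lf 21743 0 0) (P.cons (P.lf 1521 0 0) P.nil)))))) 224)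
 EL.nil))
noncomputable def S343_372_364_438_10 : EL := (EL.cons 3 (TM.mk (P.cons (P.cons (P.lf 380526851 0 0) (P.cons (P.lf 0 75250503 0) (P.cons (P.lf 0 4117404 0) (P.lf 457486 0 0)))) (P.cons (P.cons (P.lf 240682442 0 0) (P.cons (P.lf 19147594 0 0) (P.cons (P.lf 1047678 0 0) (P.lf 0 116405 0)))) (P.cons (P.cons (P.lf 41015001 0 0) (P.cons (P.lf 687066 0 0) (P.cons (P.lf 37595 0 0) (P.lf 0 4177 0)))) (P.cons (P.cons (P.lf 0 3899801 0) (P.cons (P.lf 0 593767 0) (P.cons (P.lf 0 32486 0) P.nil))) (P.cons (P.cons (P.lf 0 680068 0) (P.cons (P.lf 42259 0 0) P.nil)) (P.cons (P.cons (P.lf 81431 0 0) P.nil) P.nil)))))) 30895)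
 (EL.cons 7 (TM.mk (P.cons (P.cons (P.lf 0 205643004 0) (P.cons (P.lf 40666617 0 0) (P.cons (P.lf 2225113 0 0) (P.lf 0 247233 0)))) (P.cons (P.cons (P.lf 0 86322348 0) (P.cons (P.lf 0 18998684 0) (P.cons (P.lf 0 1039531 0) (P.lf 115502 0 0)))) (P.cons (P.cons (P.lf 281194 0 0) (P.cons (P.lf 2862852 0 0) (P.cons (P.lf 156642 0 0) (P.lf 0 17403 0)))) (P.cons (P.cons (P.lf 4265252 0 0) (P.cons (P.lf 0 10508 0) (P.cons (P.lf 0 575 0) P.nil))) (P.cons (P.cons (P.lf 0 278435 0) (P.cons (P.lf 0 41904 0) P.nil)) (P.cons (P.cons (P.lf 0 40428 0) P.nil) P.nil)))))) 18486)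
 EL.nil))
noncomputable def S343_372_364_438_11 : EL := (EL.cons 3 (TM.mk (P.cons (P.cons (P.lf 54262030 0 0) (P.cons (P.lf 0 21461009 0) (P.cons (P.lf 947733 0 0) (P.cons (P.lf 362685 0 0) (P.cons (P.lf 0 19447 0) (P.cons (P.lf 0 1410 0) P.nil)))))) (P.cons (P.cons (P.lf 63435636 0 0) (P.cons (P.lf 0 6054405 0) (P.cons (P.lf 0 1614733 0) (P.cons (P.lf 0 103642 0) (P.cons (P.lf 11762 0 0) P.nil))))) (P.cons (P.cons (P.lf 27745415 0 0) (P.cons (P.lf 1749001 0 0) (P.cons (P.lf 334131 0 0) (P.cons (P.lf 15458 0 0) P.nil)))) (P.cons (P.cons (P.lf 4120152 0 0) (P.cons (P.lf 548799 0 0) (P.cons (P.lf 40323 0 0) P.nil))) (P.cons (P.cons (P.lf 0 448688 0) (P.cons (P.lf 0 129655 0) P.nil)) (P.cons (P.cons (P.lf 0 146689 0) P.nil) P.nil)))))) 141464)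
 (EL.cons 7 (TM.mk (P.cons (P.cons (P.lf 0 29324098 0) (P.cons (P.lf 11597884 0 0) (P.cons (P.lf 0 512171 0) (P.cons (P.lf 0 196001 0) (P.cons (P.lf 10509 0 0) (P.cons (P.lf 762 0 0) P.nil)))))) (P.cons (P.cons (P.lf 0 28043553 0) (P.cons (P.lf 804684 0 0) (P.cons (P.lf 981583 0 0) (P.cons (P.lf 97705 0 0) (P.cons (P.lf 0 8592 0) P.nil))))) (P.cons (P.cons (P.lf 0 8446149 0) (P.cons (P.lf 0 1346645 0) (P.cons (P.lf 0 379213 0) (P.cons (P.lf 0 25247 0) P.nil)))) (P.cons (P.cons (P.lf 198769 0 0) (P.cons (P.lf 0 54489 0) (P.cons (P.lf 40643 0 0) P.nil))) (P.cons (P.cons (P.lf 444496 0 0) (P.cons (P.lf 103292 0 0) P.nil)) (P.cons (P.cons (P.lf 9944 0 0) P.nil) P.nil)))))) 77658)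
 EL.nil))
noncomputable def S343_372_364_438_12 : EL := (EL.cons 4 (TM.mk (P.cons (P.lf 0 2668545243 0) (P.cons (P.lf 0 256005836 0) (P.cons (P.lf 20956361 0 0) (P.cons (P.lf 0 125291 0) (P.cons (P.lf 0 64357 0) (P.cons (P.lf 3438 0 0) P.nil)))))) 378)
 (EL.cons 8 (TM.mk (P.cons (P.lf 1442125985 0 0) (P.cons (P.lf 0 168433589 0) (P.cons (P.lf 0 4127638 0) (P.cons (P.lf 758202 0 0) (P.cons (P.lf 0 21743 0) (P.cons (P.lf 0 1521 0) P.nil)))))) 224)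
 EL.nil))
noncomputable def S343_372_364_438_13 : EL := (EL.cons 4 (TM.mk (P.cons (P.cons (P.lf 0 380526851 0) (P.cons (P.lf 75250503 0 0) (P.cons (P.lf 4117404 0 0) (P.lf 0 457486 0)))) (P.cons (P.cons (P.lf 0 240682442 0) (P.cons (P.lf 0 19147594 0) (P.cons (P.lf 0 1047678 0) (P.lf 116405 0 0)))) (P.cons (P.cons (P.lf 0 41015001 0) (P.cons (P.lf 0 687066 0) (P.cons (P.lf 0 37595 0) (P.lf 4177 0 0)))) (P.cons (P.cons (P.lf 3899801 0 0) (P.cons (P.lf 593767 0 0) (P.cons (P.lf 32486 0 0) P.nil))) (P.cons (P.cons (P.lf 680068 0 0) (P.cons (P.lf 0 42259 0) P.nil)) (P.cons (P.cons (P.lf 0 81431 0) P.nil) P.nil)))))) 30895)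
 (EL.cons 8 (TM.mk (P.cons (P.cons (P.lf 205643004 0 0) (P.cons (P.lf 0 40666617 0) (P.cons (P.lf 0 2225113 0) (P.lf 247233 0 0)))) (P.cons (P.cons (P.lf 86322348 0 0) (P.cons (P.lf 18998684 0 0) (P.cons (P.lf 1039531 0 0) (P.lf 0 115502 0)))) (P.cons (P.cons (P.lf 0 281194 0) (P.cons (P.lf 0 2862852 0) (P.cons (P.lf 0 156642 0) (P.lf 17403 0 0)))) (P.cons (P.cons (P.lf 0 4265252 0) (P.cons (P.lf 10508 0 0) (P.cons (P.lf 575 0 0) P.nil))) (P.cons (P.cons (P.lf 278435 0 0) (P.cons (P.lf 41904 0 0) P.nil)) (P.cons (P.cons (P.lf 40428 0 0) P.nil) P.nil)))))) 18486)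
 EL.nil))
noncomputable def S343_372_364_438_14 : EL := (EL.cons 4 (TM.mk (P.cons (P.cons (P.lf 0 54262030 0) (P.cons (P.lf 21461009 0 0) (P.cons (P.lf 0 947733 0) (P.cons (P.lf 0 362685 0) (P.cons (P.lf 19447 0 0) (P.cons (P.lf 1410 0 0) P.nil)))))) (P.cons (P.cons (P.lf 0 63435636 0) (P.cons (P.lf 6054405 0 0) (P.cons (P.lf 1614733 0 0) (P.cons (P.lf 103642 0 0) (P.cons (P.lf 0 11762 0) P.nil))))) (P.cons (P.cons (P.lf 0 27745415 0) (P.cons (P.lf 0 1749001 0) (P.cons (P.lf 0 334131 0) (P.cons (P.lf 0 15458 0) P.nil)))) (P.cons (P.cons (P.lf 0 4120152 0) (P.cons (P.lf 0 548799 0) (P.cons (P.lf 0 40323 0) P.nil))) (P.cons (P.cons (P.lf 448688 0 0) (P.cons (P.lf 129655 0 0) P.nil)) (P.cons (P.cons (P.lf 146689 0 0) P.nil) P.nil)))))) 141464)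
 (EL.cons 8 (TM.mk (P.cons (P.cons (P.lf 29324098 0 0) (P.cons (P.lf 0 11597884 0) (P.cons (P.lf 512171 0 0) (P.cons (P.lf 196001 0 0) (P.cons (P.lf 0 10509 0) (P.cons (P.lf 0 762 0) P.nil)))))) (P.cons (P.cons (P.lf 28043553 0 0) (P.cons (P.lf 0 804684 0) (P.cons (P.lf 0 981583 0) (P.cons (P.lf 0 97705 0) (P.cons (P.lf 8592 0 0) P.nil))))) (P.cons (P.cons (P.lf 8446149 0 0) (P.cons (P.lf 1346645 0 0) (P.cons (P.lf 379213 0 0) (P.cons (P.lf 25247 0 0) P.nil)))) (P.cons (P.cons (P.lf 0 198769 0) (P.cons (P.lf 54489 0 0) (P.cons (P.lf 0 40643 0) P.nil))) (P.cons (P.cons (P.lf 0 444496 0) (P.cons (P.lf 0 103292 0) P.nil)) (P.cons (P.cons (P.lf 0 9944 0) P.nil) P.nil)))))) 77658)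
 EL.nil))
noncomputable def S343_372_364_438_15 : EL := (EL.cons 4 (TM.mk (P.cons (P.lf 0 1768552689 0) (P.cons (P.lf 0 339330810 0) (P.cons (P.lf 11500469 0 0) (P.cons (P.lf 2498728 0 0) (P.cons (P.lf 0 210304 0) (P.cons (P.lf 0 2321 0) P.nil)))))) 1708)
 (EL.cons 8 (TM.mk (P.cons (P.lf 955755124 0 0) (P.cons (P.lf 0 19937749 0) (P.cons (P.lf 0 20950159 0) (P.cons (P.lf 1161554 0 0) (P.cons (P.lf 73087 0 0) (P.cons (P.lf 0 10388 0) P.nil)))))) 788)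
 EL.nil))
noncomputable def S343_372_364_438_16 : EL := (EL.cons 4 (TM.mk (P.cons (P.cons (P.lf 0 252190509 0) (P.cons (P.lf 49871547 0 0) (P.cons (P.lf 2728770 0 0) (P.lf 0 303195 0)))) (P.cons (P.cons (P.lf 0 183703770 0) (P.cons (P.lf 0 7905476 0) (P.cons (P.lf 0 432555 0) (P.lf 48060 0 0)))) (P.cons (P.cons (P.lf 0 40504346 0) (P.cons (P.lf 0 2064391 0) (P.cons (P.lf 0 112956 0) (P.lf 12550 0 0)))) (P.cons (P.cons (P.lf 1217640 0 0) (P.cons (P.lf 451826 0 0) (P.cons (P.lf 24720 0 0) P.nil))) (P.cons (P.cons (P.lf 898550 0 0) (P.cons (P.lf 13926 0 0) P.nil)) (P.cons (P.cons (P.lf 0 35823 0) P.nil) P.nil)))))) 40603)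
 (EL.cons 8 (TM.mk (P.cons (P.cons (P.lf 136287922 0 0) (P.cons (P.lf 0 26951409 0) (P.cons (P.lf 0 1474672 0) (P.lf 163851 0 0)))) (P.cons (P.cons (P.lf 70284034 0 0) (P.cons (P.lf 10005622 0 0) (P.cons (P.lf 547467 0 0) (P.lf 0 60828 0)))) (P.cons (P.cons (P.lf 4231709 0 0) (P.cons (P.lf 0 477744 0) (P.cons (P.lf 0 26139 0) (P.lf 2904 0 0)))) (P.cons (P.cons (P.lf 0 3287504 0) (P.cons (P.lf 0 275200 0) (P.cons (P.lf 0 15057 0) P.nil))) (P.cons (P.cons (P.lf 0 79216 0) (P.cons (P.lf 43280 0 0) P.nil)) (P.cons (P.cons (P.lf 67890 0 0) P.nil) P.nil)))))) 22766)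
 EL.nil))
noncomputable def S343_372_364_438_17 : EL := (EL.cons 4 (TM.mk (P.cons (P.cons (P.lf 0 35961638 0) (P.cons (P.lf 14223076 0 0) (P.cons (P.lf 0 628101 0) (P.cons (P.lf 0 240366 0) (P.cons (P.lf 12888 0 0) (P.cons (P.lf 934 0 0) P.nil)))))) (P.cons (P.cons (P.lf 0 45491323 0) (P.cons (P.lf 5376984 0 0) (P.cons (P.lf 1009891 0 0) (P.cons (P.lf 45628 0 0) (P.cons (P.lf 0 6558 0) P.nil))))) (P.cons (P.cons (P.lf 0 22138817 0) (P.cons (P.lf 0 885892 0) (P.cons (P.lf 0 113845 0) (P.cons (P.lf 0 1767 0) P.nil)))) (P.cons (P.cons (P.lf 0 4166171 0) (P.cons (P.lf 0 505755 0) (P.cons (P.lf 0 56400 0) P.nil))) (P.cons (P.cons (P.lf 176967 0 0) (P.cons (P.lf 60669 0 0) P.nil)) (P.cons (P.cons (P.lf 145357 0 0) P.nil) P.nil)))))) 126342)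
 (EL.cons 8 (TM.mk (P.cons (P.cons (P.lf 19434264 0 0) (P.cons (P.lf 0 7686386 0) (P.cons (P.lf 339436 0 0) (P.cons (P.lf 129898 0 0) (P.cons (P.lf 0 6965 0) (P.cons (P.lf 0 505 0) P.nil)))))) (P.cons (P.cons (P.lf 20450013 0 0) (P.cons (P.lf 0 1270686 0) (P.cons (P.lf 0 617970 0) (P.cons (P.lf 0 52291 0) (P.cons (P.lf 5026 0 0) P.nil))))) (P.cons (P.cons (P.lf 7227986 0 0) (P.cons (P.lf 901676 0 0) (P.cons (P.lf 186245 0 0) (P.cons (P.lf 9500 0 0) P.nil)))) (P.cons (P.cons (P.lf 260229 0 0) (P.cons (P.lf 125558 0 0) (P.cons (P.lf 2298 0 0) P.nil))) (P.cons (P.cons (P.lf 0 349840 0) (P.cons (P.lf 0 72210 0) P.nil)) (P.cons (P.cons (P.lf 0 33130 0) P.nil) P.nil)))))) 75174)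
 EL.nil))
noncomputable def S343_372_364_438_18 : EL := (EL.cons 4 (TM.mk (P.cons (P.lf 0 1172091282 0) (P.cons (P.lf 0 337332345 0) (P.cons (P.lf 0 4748184 0) (P.cons (P.lf 4098243 0 0) (P.cons (P.lf 0 79189 0) (P.cons (P.lf 0 31469 0) P.nil)))))) 3321)
 (EL.cons 8 (TM.mk (P.cons (P.lf 633417514 0 0) (P.cons (P.lf 47553107 0 0) (P.cons (P.lf 0 20126446 0) (P.cons (P.lf 0 428689 0) (P.cons (P.lf 245981 0 0) (P.cons (P.lf 0 10070 0) P.nil)))))) 1843)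
 EL.nil))
noncomputable def S343_372_364_438_19 : EL := (EL.cons 4 (TM.mk (P.cons (P.cons (P.lf 0 167136834 0) (P.cons (P.lf 33051887 0 0) (P.cons (P.lf 1808465 0 0) (P.lf 0 200939 0)))) (P.cons (P.cons (P.lf 0 137782112 0) (P.cons (P.lf 0 2068458 0) (P.cons (P.lf 0 113176 0) (P.lf 12573 0 0)))) (P.cons (P.cons (P.lf 0 37211160 0) (P.cons (P.lf 0 2130344 0) (P.cons (P.lf 0 116564 0) (P.lf 12951 0 0)))) (P.cons (P.cons (P.lf 0 820023 0) (P.cons (P.lf 210885 0 0) (P.cons (P.lf 11537 0 0) P.nil))) (P.cons (P.cons (P.lf 873983 0 0) (P.cons (P.lf 49251 0 0) P.nil)) (P.cons (P.cons (P.lf 23068 0 0) P.nil) P.nil)))))) 43026)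
 (EL.cons 8 (TM.mk (P.cons (P.cons (P.lf 90323509 0 0) (P.cons (P.lf 0 17861787 0) (P.cons (P.lf 0 977324 0) (P.lf 108591 0 0)))) (P.cons (P.cons (P.lf 55245217 0 0) (P.cons (P.lf 4917566 0 0) (P.cons (P.lf 269069 0 0) (P.lf 0 29895 0)))) (P.cons (P.cons (P.lf 6563845 0 0) (P.cons (P.lf 459804 0 0) (P.cons (P.lf 25159 0 0) (P.lf 0 2795 0)))) (P.cons (P.cons (P.lf 0 2271268 0) (P.cons (P.lf 0 265674 0) (P.cons (P.lf 0 14536 0) P.nil))) (P.cons (P.cons (P.lf 0 279177 0) (P.cons (P.lf 13554 0 0) P.nil)) (P.cons (P.cons (P.lf 58205 0 0) P.nil) P.nil)))))) 23084)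
 EL.nil))
noncomputable def S343_372_364_438_20 : EL := (EL.cons 4 (TM.mk (P.cons (P.cons (P.lf 0 23833230 0) (P.cons (P.lf 9426207 0 0) (P.cons (P.lf 0 416267 0) (P.cons (P.lf 0 159300 0) (P.cons (P.lf 8541 0 0) (P.cons (P.lf 619 0 0) P.nil)))))) (P.cons (P.cons (P.lf 0 32435368 0) (P.cons (P.lf 4467843 0 0) (P.cons (P.lf 629361 0 0) (P.cons (P.lf 14956 0 0) (P.cons (P.lf 0 3526 0) P.nil))))) (P.cons (P.cons (P.lf 0 17377450 0) (P.cons (P.lf 0 319274 0) (P.cons (P.lf 0 7971 0) (P.cons (P.lf 2980 0 0) P.nil)))) (P.cons (P.cons (P.lf 0 3933026 0) (P.cons (P.lf 0 419051 0) (P.cons (P.lf 0 49892 0) P.nil))) (P.cons (P.cons (P.lf 0 34367 0) (P.cons (P.lf 13057 0 0) P.nil)) (P.cons (P.cons (P.lf 127883 0 0) P.nil) P.nil)))))) 106118)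
 (EL.cons 8 (TM.mk (P.cons (P.cons (P.lf 12879871 0 0) (P.cons (P.lf 0 5094078 0) (P.cons (P.lf 224958 0 0) (P.cons (P.lf 86088 0 0) (P.cons (P.lf 0 4616 0) (P.cons (P.lf 0 334 0) P.nil)))))) (P.cons (P.cons (P.lf 14788675 0 0) (P.cons (P.lf 0 1330833 0) (P.cons (P.lf 0 387972 0) (P.cons (P.lf 0 26396 0) (P.cons (P.lf 2888 0 0) P.nil))))) (P.cons (P.cons (P.lf 5989338 0 0) (P.cons (P.lf 556792 0 0) (P.cons (P.lf 82375 0 0) (P.cons (P.lf 2295 0 0) P.nil)))) (P.cons (P.cons (P.lf 526189 0 0) (P.cons (P.lf 146915 0 0) (P.cons (P.lf 16591 0 0) P.nil))) (P.cons (P.cons (P.lf 0 251979 0) (P.cons (P.lf 0 44729 0) P.nil)) (P.cons (P.cons (P.lf 0 45019 0) P.nil) P.nil)))))) 64856)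
 EL.nil))
noncomputable def S343_372_364_438_21 : EL := (EL.cons 4 (TM.mk (P.cons (P.cons (P.lf 0 1748158413 0) (P.cons (P.lf 0 225751509 0) (P.cons (P.lf 0 12352212 0) (P.lf 1372458 0 0)))) (P.cons (P.cons (P.lf 0 295945101 0) (P.cons (P.lf 57442782 0 0) (P.cons (P.lf 3143034 0 0) (P.lf 0 349215 0)))) (P.cons (P.cons (P.lf 157546416 0 0) (P.cons (P.lf 2061198 0 0) (P.cons (P.lf 112785 0 0) (P.lf 0 12531 0)))) (P.cons (P.cons (P.lf 0 4203222 0) (P.cons (P.lf 0 1781301 0) (P.cons (P.lf 0 97458 0) P.nil))) (P.cons (P.cons (P.lf 0 2671119 0) (P.cons (P.lf 126777 0 0) P.nil)) (P.cons (P.cons (P.lf 237330 0 0) P.nil) P.nil)))))) 97596)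
 (EL.cons 8 (TM.mk (P.cons (P.cons (P.lf 0 1150163604 0) (P.cons (P.lf 0 148528407 0) (P.cons (P.lf 0 8126880 0) (P.lf 902991 0 0)))) (P.cons (P.cons (P.lf 0 439385013 0) (P.cons (P.lf 6196824 0 0) (P.cons (P.lf 339066 0 0) (P.lf 0 37677 0)))) (P.cons (P.cons (P.lf 39397062 0 0) (P.cons (P.lf 6446847 0 0) (P.cons (P.lf 352743 0 0) (P.lf 0 39189 0)))) (P.cons (P.cons (P.lf 12602184 0 0) (P.cons (P.lf 0 496854 0) (P.cons (P.lf 0 27186 0) P.nil))) (P.cons (P.cons (P.lf 0 1075284 0) (P.cons (P.lf 0 86550 0) P.nil)) (P.cons (P.cons (P.lf 0 107139 0) P.nil) P.nil)))))) 63609)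
 (EL.cons 11 (TM.mk (P.cons (P.cons (P.lf 1218517215 0 0) (P.cons (P.lf 152894628 0 0) (P.cons (P.lf 0 23343054 0) (P.cons (P.lf 0 713127 0) (P.lf 59427 0 0))))) (P.cons (P.cons (P.lf 0 284634255 0) (P.cons (P.lf 0 35714757 0) (P.cons (P.lf 5452719 0 0) (P.cons (P.lf 166578 0 0) (P.lf 0 13881 0))))) (P.cons (P.cons (P.lf 9646719 0 0) (P.cons (P.lf 1210431 0 0) (P.cons (P.lf 0 184800 0) (P.cons (P.lf 0 5643 0) P.nil)))) (P.cons (P.cons (P.lf 2095953 0 0) (P.cons (P.lf 262989 0 0) (P.cons (P.lf 0 40152 0) P.nil))) (P.cons (P.cons (P.lf 0 176406 0) (P.cons (P.lf 0 22134 0) P.nil)) (P.cons (P.cons (P.lf 0 1944 0) P.nil) P.nil)))))) 7062)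
 EL.nil)))
noncomputable def S343_372_364_438_22 : EL := (EL.cons 4 (TM.mk (P.cons (P.cons (P.lf 0 249282345 0) (P.cons (P.lf 17104932 0 0) (P.cons (P.lf 7301895 0 0) (P.cons (P.lf 592650 0 0) (P.cons (P.lf 0 58344 0) (P.cons (P.lf 0 4233 0) P.nil)))))) (P.cons (P.cons (P.lf 0 175956678 0) (P.cons (P.lf 0 18009015 0) (P.cons (P.lf 0 4835763 0) (P.cons (P.lf 0 311868 0) (P.cons (P.lf 35289 0 0) P.nil))))) (P.cons (P.cons (P.lf 0 16172475 0) (P.cons (P.lf 0 3149169 0) (P.cons (P.lf 542985 0 0) (P.cons (P.lf 97422 0 0) P.nil)))) (P.cons (P.cons (P.lf 11797650 0 0) (P.cons (P.lf 2866323 0 0) (P.cons (P.lf 187716 0 0) P.nil))) (P.cons (P.cons (P.lf 1294932 0 0) (P.cons (P.lf 0 312699 0) P.nil)) (P.cons (P.cons (P.lf 0 506736 0) P.nil) P.nil)))))) 329298)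
 (EL.cons 8 (TM.mk (P.cons (P.cons (P.lf 0 164010009 0) (P.cons (P.lf 11253825 0 0) (P.cons (P.lf 4804125 0 0) (P.cons (P.lf 389922 0 0) (P.cons (P.lf 0 38385 0) (P.cons (P.lf 0 2784 0) P.nil)))))) (P.cons (P.cons (P.lf 0 150656790 0) (P.cons (P.lf 0 9454623 0) (P.cons (P.lf 0 2159607 0) (P.cons (P.lf 0 122238 0) (P.cons (P.lf 15051 0 0) P.nil))))) (P.cons (P.cons (P.lf 0 38523840 0) (P.cons (P.lf 0 4369047 0) (P.cons (P.lf 0 224184 0) (P.cons (P.lf 28188 0 0) P.nil)))) (P.cons (P.cons (P.lf 2798280 0 0) (P.cons (P.lf 1237380 0 0) (P.cons (P.lf 148095 0 0) P.nil))) (P.cons (P.cons (P.lf 1964088 0 0) (P.cons (P.lf 128322 0 0) P.nil)) (P.cons (P.cons (P.lf 0 60480 0) P.nil) P.nil)))))) 215157)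
 (EL.cons 11 (TM.mk (P.cons (P.cons (P.lf 173757036 0 0) (P.cons (P.lf 0 12558723 0) (P.cons (P.lf 0 9520236 0) (P.cons (P.lf 529554 0 0) (P.cons (P.lf 90810 0 0) (P.cons (P.lf 0 4575 0) P.nil)))))) (P.cons (P.cons (P.lf 52643628 0 0) (P.cons (P.lf 26671566 0 0) (P.cons (P.lf 2607249 0 0) (P.cons (P.lf 0 399438 0) (P.cons (P.lf 0 45513 0) P.nil))))) (P.cons (P.cons (P.lf 0 9253695 0) (P.cons (P.lf 0 5356617 0) (P.cons (P.lf 0 578721 0) (P.cons (P.lf 82488 0 0) P.nil)))) (P.cons (P.cons (P.lf 0 3693561 0) (P.cons (P.lf 0 236061 0) (P.cons (P.lf 111729 0 0) P.nil))) (P.cons (P.cons (P.lf 692589 0 0) (P.cons (P.lf 137154 0 0) P.nil)) (P.cons (P.cons (P.lf 15588 0 0) P.nil) P.nil)))))) 108360)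
 EL.nil)))
noncomputable def S343_372_364_438_23 : EL := (EL.cons 4 (TM.mk (P.cons (P.cons (P.lf 0 1158575169 0) (P.cons (P.lf 0 149614638 0) (P.cons (P.lf 0 8186307 0) (P.lf 909582 0 0)))) (P.cons (P.cons (P.lf 0 307282221 0) (P.cons (P.lf 23716428 0 0) (P.cons (P.lf 1297665 0 0) (P.lf 0 144177 0)))) (P.cons (P.cons (P.lf 94694670 0 0) (P.cons (P.lf 6193173 0 0) (P.cons (P.lf 338868 0 0) (P.lf 0 37650 0)))) (P.cons (P.cons (P.lf 8716983 0 0) (P.cons (P.lf 0 1355478 0) (P.cons (P.lf 0 74160 0) P.nil))) (P.cons (P.cons (P.lf 0 2894607 0) (P.cons (P.lf 0 41781 0) P.nil)) (P.cons (P.cons (P.lf 10998 0 0) P.nil) P.nil)))))) 134922)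
 (EL.cons 8 (TM.mk (P.cons (P.cons (P.lf 0 762259863 0) (P.cons (P.lf 0 98435772 0) (P.cons (P.lf 0 5386011 0) (P.lf 598446 0 0)))) (P.cons (P.cons (P.lf 0 364325289 0) (P.cons (P.lf 0 5336511 0) (P.cons (P.lf 0 291990 0) (P.lf 32439 0 0)))) (P.cons (P.cons (P.lf 4160145 0 0) (P.cons (P.lf 5439603 0 0) (P.cons (P.lf 297630 0 0) (P.lf 0 33066 0)))) (P.cons (P.cons (P.lf 13107849 0 0) (P.cons (P.lf 43728 0 0) (P.cons (P.lf 2391 0 0) P.nil))) (P.cons (P.cons (P.lf 0 148488 0) (P.cons (P.lf 0 124683 0) P.nil)) (P.cons (P.cons (P.lf 0 209775 0) P.nil) P.nil)))))) 77346)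
 (EL.cons 11 (TM.mk (P.cons (P.cons (P.lf 807560562 0 0) (P.cons (P.lf 101329443 0 0) (P.cons (P.lf 0 15470382 0) (P.cons (P.lf 0 472617 0) (P.lf 39384 0 0))))) (P.cons (P.cons (P.lf 0 111165609 0) (P.cons (P.lf 0 13948611 0) (P.cons (P.lf 2129589 0 0) (P.cons (P.lf 65055 0 0) (P.lf 0 5421 0))))) (P.cons (P.cons (P.lf 0 18045555 0) (P.cons (P.lf 0 2264283 0) (P.cons (P.lf 345696 0 0) (P.cons (P.lf 10560 0 0) P.nil)))) (P.cons (P.cons (P.lf 3521721 0 0) (P.cons (P.lf 441888 0 0) (P.cons (P.lf 0 67464 0) P.nil))) (P.cons (P.cons (P.lf 0 23238 0) (P.cons (P.lf 0 2913 0) P.nil)) (P.cons (P.cons (P.lf 0 28701 0) P.nil) P.nil)))))) 17604)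
 EL.nil)))
noncomputable def S343_372_364_438_24 : EL := (EL.cons 4 (TM.mk (P.cons (P.cons (P.lf 0 165209475 0) (P.cons (P.lf 11336130 0 0) (P.cons (P.lf 4839261 0 0) (P.cons (P.lf 392772 0 0) (P.cons (P.lf 0 38667 0) (P.cons (P.lf 0 2805 0) P.nil)))))) (P.cons (P.cons (P.lf 0 132462900 0) (P.cons (P.lf 0 10847775 0) (P.cons (P.lf 0 2740602 0) (P.cons (P.lf 0 169005 0) (P.cons (P.lf 19677 0 0) P.nil))))) (P.cons (P.cons (P.lf 0 20608023 0) (P.cons (P.lf 0 3321114 0) (P.cons (P.lf 14400 0 0) (P.cons (P.lf 41652 0 0) P.nil)))) (P.cons (P.cons (P.lf 7698558 0 0) (P.cons (P.lf 1793667 0 0) (P.cons (P.lf 184323 0 0) P.nil))) (P.cons (P.cons (P.lf 1683006 0 0) (P.cons (P.lf 0 8895 0) P.nil)) (P.cons (P.cons (P.lf 0 318006 0) P.nil) P.nil)))))) 302472)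
 (EL.cons 8 (TM.mk (P.cons (P.cons (P.lf 0 108696057 0) (P.cons (P.lf 7458363 0 0) (P.cons (P.lf 3183888 0 0) (P.cons (P.lf 258417 0 0) (P.cons (P.lf 0 25440 0) (P.cons (P.lf 0 1845 0) P.nil)))))) (P.cons (P.cons (P.lf 0 110274051 0) (P.cons (P.lf 0 5550444 0) (P.cons (P.lf 0 1125813 0) (P.cons (P.lf 0 56220 0) (P.cons (P.lf 7533 0 0) P.nil))))) (P.cons (P.cons (P.lf 0 34256421 0) (P.cons (P.lf 0 3555237 0) (P.cons (P.lf 0 310887 0) (P.cons (P.lf 8880 0 0) P.nil)))) (P.cons (P.cons (P.lf 184197 0 0) (P.cons (P.lf 591837 0 0) (P.cons (P.lf 95283 0 0) P.nil))) (P.cons (P.cons (P.lf 1672785 0 0) (P.cons (P.lf 186342 0 0) P.nil)) (P.cons (P.cons (P.lf 66759 0 0) P.nil) P.nil)))))) 169551)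
 (EL.cons 11 (TM.mk (P.cons (P.cons (P.lf 115155804 0 0) (P.cons (P.lf 0 8323173 0) (P.cons (P.lf 0 6309444 0) (P.cons (P.lf 350955 0 0) (P.cons (P.lf 60183 0 0) (P.cons (P.lf 0 3033 0) P.nil)))))) (P.cons (P.cons (P.lf 45936483 0 0) (P.cons (P.lf 16877841 0 0) (P.cons (P.lf 1122633 0 0) (P.cons (P.lf 0 231054 0) (P.cons (P.lf 0 24390 0) P.nil))))) (P.cons (P.cons (P.lf 0 3690060 0) (P.cons (P.lf 0 1788912 0) (P.cons (P.lf 0 168225 0) (P.cons (P.lf 26517 0 0) P.nil)))) (P.cons (P.cons (P.lf 0 3304800 0) (P.cons (P.lf 0 636225 0) (P.cons (P.lf 23388 0 0) P.nil))) (P.cons (P.cons (P.lf 276747 0 0) (P.cons (P.lf 104394 0 0) P.nil)) (P.cons (P.cons (P.lf 73995 0 0) P.nil) P.nil)))))) 100572)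
 EL.nil)))
noncomputable def S343_372_364_438_25 : EL := (EL.cons 4 (TM.mk (P.cons (P.cons (P.lf 0 767834547 0) (P.cons (P.lf 0 99155664 0) (P.cons (P.lf 0 5425395 0) (P.lf 602817 0 0)))) (P.cons (P.cons (P.lf 0 277310238 0) (P.cons (P.lf 6205374 0 0) (P.cons (P.lf 339531 0 0) (P.lf 0 37719 0)))) (P.cons (P.cons (P.lf 49250940 0 0) (P.cons (P.lf 6391029 0 0) (P.cons (P.lf 349692 0 0) (P.lf 0 38853 0)))) (P.cons (P.cons (P.lf 13360980 0 0) (P.cons (P.lf 0 632658 0) (P.cons (P.lf 0 34611 0) P.nil))) (P.cons (P.cons (P.lf 0 1885074 0) (P.cons (P.lf 0 147756 0) P.nil)) (P.cons (P.cons (P.lf 0 223089 0) P.nil) P.nil)))))) 131091)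
 (EL.cons 8 (TM.mk (P.cons (P.cons (P.lf 0 505180392 0) (P.cons (P.lf 0 65237361 0) (P.cons (P.lf 0 3569526 0) (P.lf 396615 0 0)))) (P.cons (P.cons (P.lf 0 289917363 0) (P.cons (P.lf 0 9795240 0) (P.cons (P.lf 0 535956 0) (P.lf 59547 0 0)))) (P.cons (P.cons (P.lf 0 16439376 0) (P.cons (P.lf 3778065 0 0) (P.cons (P.lf 206718 0 0) (P.lf 0 22965 0)))) (P.cons (P.cons (P.lf 10824039 0 0) (P.cons (P.lf 399540 0 0) (P.cons (P.lf 21861 0 0) P.nil))) (P.cons (P.cons (P.lf 689811 0 0) (P.cons (P.lf 0 109902 0) P.nil)) (P.cons (P.cons (P.lf 0 221730 0) P.nil) P.nil)))))) 80946)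
 (EL.cons 11 (TM.mk (P.cons (P.cons (P.lf 535202994 0 0) (P.cons (P.lf 67155114 0 0) (P.cons (P.lf 0 10252848 0) (P.cons (P.lf 0 313221 0) (P.lf 26100 0 0))))) (P.cons (P.cons (P.lf 0 22329450 0) (P.cons (P.lf 0 2801808 0) (P.cons (P.lf 427761 0 0) (P.cons (P.lf 13065 0 0) (P.lf 0 1086 0))))) (P.cons (P.cons (P.lf 0 23230401 0) (P.cons (P.lf 0 2914857 0) (P.cons (P.lf 445023 0 0) (P.cons (P.lf 13596 0 0) P.nil)))) (P.cons (P.cons (P.lf 1790352 0 0) (P.cons (P.lf 224643 0 0) (P.cons (P.lf 0 34296 0) P.nil))) (P.cons (P.cons (P.lf 311874 0 0) (P.cons (P.lf 39132 0 0) P.nil)) (P.cons (P.cons (P.lf 0 41856 0) P.nil) P.nil)))))) 25131)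
 EL.nil)))
noncomputable def S343_372_364_438_26 : EL := (EL.cons 4 (TM.mk (P.cons (P.cons (P.lf 0 109490988 0) (P.cons (P.lf 7512909 0 0) (P.cons (P.lf 3207174 0 0) (P.cons (P.lf 260307 0 0) (P.cons (P.lf 0 25626 0) (P.cons (P.lf 0 1860 0) P.nil)))))) (P.cons (P.cons (P.lf 0 98292489 0) (P.cons (P.lf 0 6468510 0) (P.cons (P.lf 0 1508628 0) (P.cons (P.lf 0 87033 0) (P.cons (P.lf 10581 0 0) P.nil))))) (P.cons (P.cons (P.lf 0 21219882 0) (P.cons (P.lf 0 2949732 0) (P.cons (P.lf 0 189888 0) (P.cons (P.lf 14814 0 0) P.nil)))) (P.cons (P.cons (P.lf 4476165 0 0) (P.cons (P.lf 1034388 0 0) (P.cons (P.lf 137490 0 0) P.nil))) (P.cons (P.cons (P.lf 1705362 0 0) (P.cons (P.lf 125271 0 0) P.nil)) (P.cons (P.cons (P.lf 0 146436 0) P.nil) P.nil)))))) 258561)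
 (EL.cons 8 (TM.mk (P.cons (P.cons (P.lf 0 72037263 0) (P.cons (P.lf 4942959 0 0) (P.cons (P.lf 2110089 0 0) (P.cons (P.lf 171264 0 0) (P.cons (P.lf 0 16860 0) (P.cons (P.lf 0 1221 0) P.nil)))))) (P.cons (P.cons (P.lf 0 79993932 0) (P.cons (P.lf 0 3204303 0) (P.cons (P.lf 0 543690 0) (P.cons (P.lf 0 20829 0) (P.cons (P.lf 3375 0 0) P.nil))))) (P.cons (P.cons (P.lf 0 29148594 0) (P.cons (P.lf 0 2747913 0) (P.cons (P.lf 0 294186 0) (P.cons (P.lf 966 0 0) P.nil)))) (P.cons (P.cons (P.lf 0 1485390 0) (P.cons (P.lf 195312 0 0) (P.cons (P.lf 49341 0 0) P.nil))) (P.cons (P.cons (P.lf 1293453 0 0) (P.cons (P.lf 179574 0 0) P.nil)) (P.cons (P.cons (P.lf 146904 0 0) P.nil) P.nil)))))) 135669)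
 (EL.cons 11 (TM.mk (P.cons (P.cons (P.lf 76318401 0 0) (P.cons (P.lf 0 5516103 0) (P.cons (P.lf 0 4181523 0) (P.cons (P.lf 232593 0 0) (P.cons (P.lf 39885 0 0) (P.cons (P.lf 0 2010 0) P.nil)))))) (P.cons (P.cons (P.lf 37765539 0 0) (P.cons (P.lf 10656441 0 0) (P.cons (P.lf 342861 0 0) (P.cons (P.lf 0 130815 0) (P.cons (P.lf 0 12336 0) P.nil))))) (P.cons (P.cons (P.lf 0 124257 0) (P.cons (P.lf 0 69177 0) (P.cons (P.lf 0 7272 0) (P.cons (P.lf 1056 0 0) P.nil)))) (P.cons (P.cons (P.lf 0 2660334 0) (P.cons (P.lf 0 623490 0) (P.cons (P.lf 0 1233 0) P.nil))) (P.cons (P.cons (P.lf 0 4230 0) (P.cons (P.lf 38439 0 0) P.nil)) (P.cons (P.cons (P.lf 84354 0 0) P.nil) P.nil)))))) 86469)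
 EL.nil)))
noncomputable def S343_372_364_438_27 : EL := (EL.cons 13 (TM.mk (P.lf 0 4294967296 0) 0)
 EL.nil)
noncomputable def S343_372_364_438_28 : EL := (EL.cons 13 (TM.mk (P.cons (P.cons (P.lf 0 612449943 0) (P.cons (P.lf 121114100 0 0) (P.cons (P.lf 6626876 0 0) (P.lf 0 736316 0)))) (P.cons (P.cons (P.lf 0 328618173 0) (P.cons (P.lf 0 42436684 0) (P.cons (P.lf 0 2321964 0) (P.lf 257992 0 0)))) (P.cons (P.cons (P.lf 0 39296559 0) (P.cons (P.lf 3916448 0 0) (P.cons (P.lf 214288 0 0) (P.lf 0 23808 0)))) (P.cons (P.cons (P.lf 7494632 0 0) (P.cons (P.lf 240988 0 0) (P.cons (P.lf 13184 0 0) P.nil))) (P.cons (P.cons (P.lf 97161 0 0) (P.cons (P.lf 0 61308 0) P.nil)) (P.cons (P.cons (P.lf 0 72547 0) P.nil) P.nil)))))) 19447)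
 EL.nil)
noncomputable def S343_372_364_438_29 : EL := (EL.cons 13 (TM.mk (P.cons (P.cons (P.lf 0 87333594 0) (P.cons (P.lf 34541042 0 0) (P.cons (P.lf 0 1525358 0) (P.cons (P.lf 0 583736 0) (P.cons (P.lf 31301 0 0) (P.cons (P.lf 2272 0 0) P.nil)))))) (P.cons (P.cons (P.lf 0 93720006 0) (P.cons (P.lf 6430758 0 0) (P.cons (P.lf 2745215 0 0) (P.cons (P.lf 222812 0 0) (P.cons (P.lf 0 21935 0) P.nil))))) (P.cons (P.cons (P.lf 0 36350510 0) (P.cons (P.lf 0 3160661 0) (P.cons (P.lf 0 813118 0) (P.cons (P.lf 0 50840 0) P.nil)))) (P.cons (P.cons (P.lf 0 3875920 0) (P.cons (P.lf 0 531185 0) (P.cons (P.lf 34736 0 0) P.nil))) (P.cons (P.cons (P.lf 815032 0 0) (P.cons (P.lf 233681 0 0) P.nil)) (P.cons (P.cons (P.lf 131321 0 0) P.nil) P.nil)))))) 142317)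
 EL.nil)
noncomputable def S343_372_364_438_30 : EL := (EL.cons 13 (TM.mk (P.cons (P.lf 0 2846448260 0) (P.cons (P.lf 0 273072892 0) (P.cons (P.lf 22353452 0 0) (P.cons (P.lf 0 133644 0) (P.cons (P.lf 0 68648 0) (P.cons (P.lf 3668 0 0) P.nil)))))) 396)
 EL.nil)
noncomputable def S343_372_364_438_31 : EL := (EL.cons 13 (TM.mk (P.cons (P.cons (P.lf 0 405895308 0) (P.cons (P.lf 80267204 0 0) (P.cons (P.lf 4391898 0 0) (P.lf 0 487986 0)))) (P.cons (P.cons (P.lf 0 256727939 0) (P.cons (P.lf 0 20424101 0) (P.cons (P.lf 0 1117524 0) (P.lf 124166 0 0)))) (P.cons (P.cons (P.lf 0 43749335 0) (P.cons (P.lf 0 732871 0) (P.cons (P.lf 0 40102 0) (P.lf 4456 0 0)))) (P.cons (P.cons (P.lf 4159788 0 0) (P.cons (P.lf 633352 0 0) (P.cons (P.lf 34652 0 0) P.nil))) (P.cons (P.cons (P.lf 725406 0 0) (P.cons (P.lf 0 45077 0) P.nil)) (P.cons (P.cons (P.lf 0 86860 0) P.nil) P.nil)))))) 32935)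
 EL.nil)
noncomputable def S343_372_364_438_32 : EL := (EL.cons 13 (TM.mk (P.cons (P.cons (P.lf 0 57879499 0) (P.cons (P.lf 22891743 0 0) (P.cons (P.lf 0 1010916 0) (P.cons (P.lf 0 386865 0) (P.cons (P.lf 20744 0 0) (P.cons (P.lf 1505 0 0) P.nil)))))) (P.cons (P.cons (P.lf 0 67664679 0) (P.cons (P.lf 6458033 0 0) (P.cons (P.lf 1722382 0 0) (P.cons (P.lf 110552 0 0) (P.cons (P.lf 0 12547 0) P.nil))))) (P.cons (P.cons (P.lf 0 29595110 0) (P.cons (P.lf 0 1865602 0) (P.cons (P.lf 0 356407 0) (P.cons (P.lf 0 16489 0) P.nil)))) (P.cons (P.cons (P.lf 0 4394829 0) (P.cons (P.lf 0 585386 0) (P.cons (P.lf 0 43012 0) P.nil))) (P.cons (P.cons (P.lf 478601 0 0) (P.cons (P.lf 138299 0 0) P.nil)) (P.cons (P.cons (P.lf 156469 0 0) P.nil) P.nil)))))) 150872)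
 EL.nil)
noncomputable def S343_372_364_438_33 : EL := (EL.cons 14 (TM.mk (P.lf 8589934592 0 0) 0)
 EL.nil)
noncomputable def S343_372_364_438_34 : EL := (EL.cons 14 (TM.mk (P.cons (P.cons (P.lf 1224899886 0 0) (P.cons (P.lf 0 242228200 0) (P.cons (P.lf 0 13253752 0) (P.lf 1472632 0 0)))) (P.cons (P.cons (P.lf 657236346 0 0) (P.cons (P.lf 84873368 0 0) (P.cons (P.lf 4643928 0 0) (P.lf 0 515984 0)))) (P.cons (P.cons (P.lf 78593118 0 0) (P.cons (P.lf 0 7832896 0) (P.cons (P.lf 0 428576 0) (P.lf 47616 0 0)))) (P.cons (P.cons (P.lf 0 14989264 0) (P.cons (P.lf 0 481976 0) (P.cons (P.lf 0 26368 0) P.nil))) (P.cons (P.cons (P.lf 0 194322 0) (P.cons (P.lf 122616 0 0) P.nil)) (P.cons (P.cons (P.lf 145094 0 0) P.nil) P.nil)))))) 38894)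
 EL.nil)
noncomputable def S343_372_364_438_35 : EL := (EL.cons 14 (TM.mk (P.cons (P.cons (P.lf 174667188 0 0) (P.cons (P.lf 0 69082084 0) (P.cons (P.lf 3050716 0 0) (P.cons (P.lf 1167472 0 0) (P.cons (P.lf 0 62602 0) (P.cons (P.lf 0 4544 0) P.nil)))))) (P.cons (P.cons (P.lf 187440012 0 0) (P.cons (P.lf 0 12861516 0) (P.cons (P.lf 0 5490430 0) (P.cons (P.lf 0 445624 0) (P.cons (P.lf 43870 0 0) P.nil))))) (P.cons (P.cons (P.lf 72701020 0 0) (P.cons (P.lf 6321322 0 0) (P.cons (P.lf 1626236 0 0) (P.cons (P.lf 101680 0 0) P.nil)))) (P.cons (P.cons (P.lf 7751840 0 0) (P.cons (P.lf 1062370 0 0) (P.cons (P.lf 0 69472 0) P.nil))) (P.cons (P.cons (P.lf 0 1630064 0) (P.cons (P.lf 0 467362 0) P.nil)) (P.cons (P.cons (P.lf 0 262642 0) P.nil) P.nil)))))) 284634)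
 EL.nil)
noncomputable def S343_372_364_438_36 : EL := (EL.cons 14 (TM.mk (P.cons (P.lf 5692896520 0 0) (P.cons (P.lf 546145784 0 0) (P.cons (P.lf 0 44706904 0) (P.cons (P.lf 267288 0 0) (P.cons (P.lf 137296 0 0) (P.cons (P.lf 0 7336 0) P.nil)))))) 792)
 EL.nil)
noncomputable def S343_372_364_438_37 : EL := (EL.cons 14 (TM.mk (P.cons (P.cons (P.lf 811790616 0 0) (P.cons (P.lf 0 160534408 0) (P.cons (P.lf 0 8783796 0) (P.lf 975972 0 0)))) (P.cons (P.cons (P.lf 513455878 0 0) (P.cons (P.lf 40848202 0 0) (P.cons (P.lf 2235048 0 0) (P.lf 0 248332 0)))) (P.cons (P.cons (P.lf 87498670 0 0) (P.cons (P.lf 1465742 0 0) (P.cons (P.lf 80204 0 0) (P.lf 0 8912 0)))) (P.cons (P.cons (P.lf 0 8319576 0) (P.cons (P.lf 0 1266704 0) (P.cons (P.lf 0 69304 0) P.nil))) (P.cons (P.cons (P.lf 0 1450812 0) (P.cons (P.lf 90154 0 0) P.nil)) (P.cons (P.cons (P.lf 173720 0 0) P.nil) P.nil))))))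 65870)
 EL.nil)
noncomputable def S343_372_364_438_38 : EL := (EL.cons 14 (TM.mk (P.cons (P.cons (P.lf 115758998 0 0) (P.cons (P.lf 0 45783486 0) (P.cons (P.lf 2021832 0 0) (P.cons (P.lf 773730 0 0) (P.cons (P.lf 0 41488 0) (P.cons (P.lf 0 3010 0) P.nil)))))) (P.cons (P.cons (P.lf 135329358 0 0) (P.cons (P.lf 0 12916066 0) (P.cons (P.lf 0 3444764 0) (P.cons (P.lf 0 221104 0) (P.cons (P.lf 25094 0 0) P.nil))))) (P.cons (P.cons (P.lf 59190220 0 0) (P.cons (P.lf 3731204 0 0) (P.cons (P.lf 712814 0 0) (P.cons (P.lf 32978 0 0) P.nil)))) (P.cons (P.cons (P.lf 8789658 0 0) (P.cons (P.lf 1170772 0 0) (P.cons (P.lf 86024 0 0) P.nil))) (P.cons (P.cons (P.lf 0 957202 0) (P.cons (P.lf 0 276598 0) P.nil)) (P.cons (P.cons (P.lf 0 312938 0) P.nil) P.nil)))))) 301744)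
 EL.nil)
noncomputable def S343_372_364_438_39 : EL := (EL.cons 14 (TM.mk (P.cons (P.lf 3772912404 0 0) (P.cons (P.lf 723905728 0 0) (P.cons (P.lf 0 24534334 0) (P.cons (P.lf 0 5330620 0) (P.cons (P.lf 448650 0 0) (P.cons (P.lf 4952 0 0) P.nil)))))) 3630)
 EL.nil)
noncomputable def S343_372_364_438_40 : EL := (EL.cons 14 (TM.mk (P.cons (P.cons (P.lf 538006420 0 0) (P.cons (P.lf 0 106392634 0) (P.cons (P.lf 0 5821376 0) (P.lf 646816 0 0)))) (P.cons (P.cons (P.lf 391901378 0 0) (P.cons (P.lf 16865016 0 0) (P.cons (P.lf 922784 0 0) (P.lf 0 102528 0)))) (P.cons (P.cons (P.lf 86409272 0 0) (P.cons (P.lf 4404036 0 0) (P.cons (P.lf 240974 0 0) (P.lf 0 26774 0)))) (P.cons (P.cons (P.lf 0 2597632 0) (P.cons (P.lf 0 963896 0) (P.cons (P.lf 0 52738 0) P.nil))) (P.cons (P.cons (P.lf 0 1916908 0) (P.cons (P.lf 0 29710 0) P.nil)) (P.cons (P.cons (P.lf 76424 0 0) P.nil) P.nil))))))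 86580)
 EL.nil)
noncomputable def S343_372_364_438_41 : EL := (EL.cons 14 (TM.mk (P.cons (P.cons (P.lf 76718162 0 0) (P.cons (P.lf 0 30342564 0) (P.cons (P.lf 1339950 0 0) (P.cons (P.lf 512782 0 0) (P.cons (P.lf 0 27496 0) (P.cons (P.lf 0 1994 0) P.nil)))))) (P.cons (P.cons (P.lf 97048156 0 0) (P.cons (P.lf 0 11470900 0) (P.cons (P.lf 0 2154436 0) (P.cons (P.lf 0 97340 0) (P.cons (P.lf 13992 0 0) P.nil))))) (P.cons (P.cons (P.lf 47229478 0 0) (P.cons (P.lf 1889904 0 0) (P.cons (P.lf 242870 0 0) (P.cons (P.lf 3770 0 0) P.nil)))) (P.cons (P.cons (P.lf 8887832 0 0) (P.cons (P.lf 1078944 0 0) (P.cons (P.lf 120322 0 0) P.nil))) (P.cons (P.cons (P.lf 0 377530 0) (P.cons (P.lf 0 129428 0) P.nil)) (P.cons (P.cons (P.lf 0 310096 0) P.nil) P.nil)))))) 269484)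
 EL.nil)
noncomputable def S343_372_364_438_42 : EL := (EL.cons 14 (TM.mk (P.cons (P.lf 2500461402 0 0) (P.cons (P.lf 719642336 0 0) (P.cons (P.lf 10129460 0 0) (P.cons (P.lf 0 8742920 0) (P.cons (P.lf 168938 0 0) (P.cons (P.lf 67134 0 0) P.nil)))))) 7070)
 EL.nil)
noncomputable def S343_372_364_438_43 : EL := (EL.cons 14 (TM.mk (P.cons (P.cons (P.lf 356558580 0 0) (P.cons (P.lf 0 70510694 0) (P.cons (P.lf 0 3858060 0) (P.lf 428670 0 0)))) (P.cons (P.cons (P.lf 293935174 0 0) (P.cons (P.lf 4412712 0 0) (P.cons (P.lf 241444 0 0) (P.lf 0 26824 0)))) (P.cons (P.cons (P.lf 79383808 0 0) (P.cons (P.lf 4544734 0 0) (P.cons (P.lf 248670 0 0) (P.lf 0 27630 0)))) (P.cons (P.cons (P.lf 1749384 0 0) (P.cons (P.lf 0 449890 0) (P.cons (P.lf 0 24614 0) P.nil))) (P.cons (P.cons (P.lf 0 1864498 0) (P.cons (P.lf 0 105070 0) P.nil)) (P.cons (P.cons (P.lf 0 49212 0) P.nil) P.nil))))))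 91750)
 EL.nil)
noncomputable def S343_372_364_438_44 : EL := (EL.cons 14 (TM.mk (P.cons (P.cons (P.lf 50844224 0 0) (P.cons (P.lf 0 20109242 0) (P.cons (P.lf 888038 0 0) (P.cons (P.lf 339840 0 0) (P.cons (P.lf 0 18222 0) (P.cons (P.lf 0 1322 0) P.nil)))))) (P.cons (P.cons (P.lf 69195452 0 0) (P.cons (P.lf 0 9531400 0) (P.cons (P.lf 0 1342638 0) (P.cons (P.lf 0 31908 0) (P.cons (P.lf 7524 0 0) P.nil))))) (P.cons (P.cons (P.lf 37071894 0 0) (P.cons (P.lf 681118 0 0) (P.cons (P.lf 17006 0 0) (P.cons (P.lf 0 6358 0) P.nil)))) (P.cons (P.cons (P.lf 8390456 0 0) (P.cons (P.lf 893976 0 0) (P.cons (P.lf 106438 0 0) P.nil))) (P.cons (P.cons (P.lf 73318 0 0) (P.cons (P.lf 0 27856 0) P.nil)) (P.cons (P.cons (P.lf 0 272818 0) P.nil) P.nil)))))) 226340)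
 EL.nil)
noncomputable def S343_372_364_438_45 : EL := (EL.cons 14 (TM.mk (P.cons (P.cons (P.lf 24907036 0 0) (P.cons (P.lf 0 14776358 0) (P.cons (P.lf 2113572 0 0) (P.cons (P.lf 216984 0 0) (P.cons (P.lf 0 58398 0) (P.cons (P.lf 0 160 0) P.nil)))))) (P.cons (P.cons (P.lf 40092606 0 0) (P.cons (P.lf 0 10679474 0) (P.cons (P.lf 0 1064168 0) (P.cons (P.lf 214888 0 0) (P.cons (P.lf 37632 0 0) P.nil))))) (P.cons (P.cons (P.lf 26306544 0 0) (P.cons (P.lf 0 1072088 0) (P.cons (P.lf 0 422170 0) (P.cons (P.lf 0 122890 0) P.nil)))) (P.cons (P.cons (P.lf 8078098 0 0) (P.cons (P.lf 957032 0 0) (P.cons (P.lf 124522 0 0) P.nil))) (P.cons (P.cons (P.lf 694812 0 0) (P.cons (P.lf 144722 0 0) P.nil)) (P.cons (P.cons (P.lf 0 219398 0) P.nil) P.nil)))))) 423868)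
 EL.nil)
noncomputable def S343_372_364_438_46 : EL := (EL.cons 15 (TM.mk (P.lf 4294967296 0 0) 0)
 EL.nil)
noncomputable def S343_372_364_438_47 : EL := (EL.cons 15 (TM.mk (P.cons (P.cons (P.lf 612449943 0 0) (P.cons (P.lf 0 121114100 0) (P.cons (P.lf 0 6626876 0) (P.lf 736316 0 0)))) (P.cons (P.cons (P.lf 328618173 0 0) (P.cons (P.lf 42436684 0 0) (P.cons (P.lf 2321964 0 0) (P.lf 0 257992 0)))) (P.cons (P.cons (P.lf 39296559 0 0) (P.cons (P.lf 0 3916448 0) (P.cons (P.lf 0 214288 0) (P.lf 23808 0 0)))) (P.cons (P.cons (P.lf 0 7494632 0) (P.cons (P.lf 0 240988 0) (P.cons (P.lf 0 13184 0) P.nil))) (P.cons (P.cons (P.lf 0 97161 0) (P.cons (P.lf 61308 0 0) P.nil)) (P.cons (P.cons (P.lf 72547 0 0) P.nil) P.nil)))))) 19447)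
 EL.nil)
noncomputable def S343_372_364_438_48 : EL := (EL.cons 15 (TM.mk (P.cons (P.cons (P.lf 87333594 0 0) (P.cons (P.lf 0 34541042 0) (P.cons (P.lf 1525358 0 0) (P.cons (P.lf 583736 0 0) (P.cons (P.lf 0 31301 0) (P.cons (P.lf 0 2272 0) P.nil)))))) (P.cons (P.cons (P.lf 93720006 0 0) (P.cons (P.lf 0 6430758 0) (P.cons (P.lf 0 2745215 0) (P.cons (P.lf 0 222812 0) (P.cons (P.lf 21935 0 0) P.nil))))) (P.cons (P.cons (P.lf 36350510 0 0) (P.cons (P.lf 3160661 0 0) (P.cons (P.lf 813118 0 0) (P.cons (P.lf 50840 0 0) P.nil)))) (P.cons (P.cons (P.lf 3875920 0 0) (P.cons (P.lf 531185 0 0) (P.cons (P.lf 0 34736 0) P.nil))) (P.cons (P.cons (P.lf 0 815032 0) (P.cons (P.lf 0 233681 0) P.nil)) (P.cons (P.cons (P.lf 0 131321 0) P.nil) P.nil)))))) 142317)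
 EL.nil)
noncomputable def S343_372_364_438 : SL := (SL.cons S343_372_364_438_0 (SL.cons S343_372_364_438_1 (SL.cons S343_372_364_438_2 (SL.cons S343_372_364_438_3 (SL.cons S343_372_364_438_4 (SL.cons S343_372_364_438_5 (SL.cons S343_372_364_438_6 (SL.cons S343_372_364_438_7 (SL.cons S343_372_364_438_8 (SL.cons S343_372_364_438_9 (SL.cons S343_372_364_438_10 (SL.cons S343_372_364_438_11 (SL.cons S343_372_364_438_12 (SL.cons S343_372_364_438_13 (SL.cons S343_372_364_438_14 (SL.cons S343_372_364_438_15 (SL.cons S343_372_364_438_16 (SL.cons S343_372_364_438_17 (SL.cons S343_372_364_438_18 (SL.cons S343_372_364_438_19 (SL.cons S343_372_364_438_20 (SL.cons S343_372_364_438_21 (SL.cons S343_372_364_438_22 (SL.cons S343_372_364_438_23 (SL.cons S343_372_364_438_24 (SL.cons S343_372_364_438_25 (SL.cons S343_372_364_438_26 (SL.cons S343_372_364_438_27 (SL.cons S343_372_364_438_28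 (SL.cons S343_372_364_438_29 (SL.cons S343_372_364_438_30 (SL.cons S343_372_364_438_31 (SL.cons S343_372_364_438_32 (SL.cons S343_372_364_438_33 (SL.cons S343_372_364_438_34 (SL.cons S343_372_364_438_35 (SL.cons S343_372_364_438_36 (SL.cons S343_372_364_438_37 (SL.cons S343_372_364_438_38 (SL.cons S343_372_364_438_39 (SL.cons S343_372_364_438_40 (SL.cons S343_372_364_438_41 (SL.cons S343_372_364_438_42 (SL.cons S343_372_364_438_43 (SL.cons S343_372_364_438_44 (SL.cons S343_372_364_438_45 (SL.cons S343_372_364_438_46 (SL.cons S343_372_364_438_47 (SL.cons S343_372_364_438_48 SL.nil)))))))))))))))))))))))))))))))))))))))))))))))))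
noncomputable def S343_372_364_512_0 : EL := (EL.cons 0 (TM.mk (P.cons (P.lf 5139680571 0 0) (P.cons (P.lf 0 636245268 0) (P.cons (P.lf 21563379 0 0) (P.cons (P.lf 4685115 0 0) (P.cons (P.lf 0 394321 0) (P.cons (P.lf 0 4352 0) P.nil)))))) 3197)
 (EL.cons 1 (TM.mk (P.cons (P.lf 1792040857 0 0) (P.cons (P.lf 0 37383279 0) (P.cons (P.lf 0 39281548 0) (P.cons (P.lf 2177913 0 0) (P.cons (P.lf 137038 0 0) (P.cons (P.lf 0 19477 0) P.nil)))))) 1484)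
 (EL.cons 5 (TM.mk (P.cons (P.lf 5474002426 0 0) (P.cons (P.lf 226220540 0 0) (P.cons (P.lf 0 7666984 0) (P.cons (P.lf 0 1665814 0) (P.cons (P.lf 140204 0 0) (P.cons (P.lf 1546 0 0) P.nil)))))) 969)
 (EL.cons 9 (TM.mk (P.lf 6442450944 0 0) 2)
 EL.nil))))
noncomputable def S343_372_364_512_1 : EL := (EL.cons 0 (TM.mk (P.cons (P.cons (P.lf 3047420064 0 0) (P.cons (P.lf 295916833 0 0) (P.cons (P.lf 19784298 0 0) (P.lf 0 6594759 0)))) (P.cons (P.cons (P.lf 904112492 0 0) (P.cons (P.lf 52936286 0 0) (P.cons (P.lf 3539203 0 0) (P.lf 0 1179744 0)))) (P.cons (P.cons (P.lf 0 200454553 0) (P.cons (P.lf 0 50617067 0) (P.cons (P.lf 0 3384135 0) (P.lf 1128038 0 0)))) (P.cons (P.cons (P.lf 0 25760321 0) (P.cons (P.lf 6360037 0 0) (P.cons (P.lf 425208 0 0) P.nil))) (P.cons (P.cons (P.lf 7156990 0 0) (P.cons (P.lf 491371 0 0) P.nil)) (P.cons (P.cons (P.lf 0 19461 0) P.nil) P.nil))))))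 861874)
 (EL.cons 1 (TM.mk (P.cons (P.cons (P.lf 347470039 0 0) (P.cons (P.lf 0 74312870 0) (P.cons (P.lf 0 4968374 0) (P.lf 1656125 0 0)))) (P.cons (P.cons (P.lf 496953145 0 0) (P.cons (P.lf 113275325 0 0) (P.cons (P.lf 7573314 0 0) (P.lf 0 2524428 0)))) (P.cons (P.cons (P.lf 62523831 0 0) (P.cons (P.lf 0 16016673 0) (P.cons (P.lf 0 1070829 0) (P.lf 356940 0 0)))) (P.cons (P.cons (P.lf 0 27462347 0) (P.cons (P.lf 0 2904748 0) (P.cons (P.lf 0 194195 0) P.nil))) (P.cons (P.cons (P.lf 0 600846 0) (P.cons (P.lf 697863 0 0) P.nil)) (P.cons (P.cons (P.lf 539151 0 0) P.nil) P.nil)))))) 434803)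
 (EL.cons 5 (TM.mk (P.cons (P.cons (P.lf 0 258270145 0) (P.cons (P.lf 0 554555128 0) (P.cons (P.lf 0 37076260 0) (P.lf 12358750 0 0)))) (P.cons (P.cons (P.lf 312839789 0 0) (P.cons (P.lf 138620752 0 0) (P.cons (P.lf 9267858 0 0) (P.lf 0 3089284 0)))) (P.cons (P.cons (P.lf 131095094 0 0) (P.cons (P.lf 3466916 0 0) (P.cons (P.lf 231788 0 0) (P.lf 0 77264 0)))) (P.cons (P.cons (P.lf 0 4011262 0) (P.cons (P.lf 0 3155434 0) (P.cons (P.lf 0 210958 0) P.nil))) (P.cons (P.cons (P.lf 0 2600577 0) (P.cons (P.lf 52760 0 0) P.nil)) (P.cons (P.cons (P.lf 126580 0 0) P.nil) P.nil)))))) 354277)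
 (EL.cons 9 (TM.mk (P.cons (P.cons (P.lf 728167924 0 0) (P.cons (P.lf 0 396476688 0) (P.cons (P.lf 0 26507502 0) (P.lf 8835834 0 0)))) (P.cons (P.cons (P.lf 559678243 0 0) (P.cons (P.lf 138919884 0 0) (P.cons (P.lf 9287856 0 0) (P.lf 0 3095946 0)))) (P.cons (P.cons (P.lf 52784440 0 0) (P.cons (P.lf 0 12820818 0) (P.cons (P.lf 0 857166 0) (P.lf 285720 0 0)))) (P.cons (P.cons (P.lf 0 11621016 0) (P.cons (P.lf 0 788898 0) (P.cons (P.lf 0 52740 0) P.nil))) (P.cons (P.cons (P.lf 0 49303 0) (P.cons (P.lf 200700 0 0) P.nil)) (P.cons (P.cons (P.lf 105574 0 0) P.nil) P.nil)))))) 79025)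
 (EL.cons 2 (TM.mk (P.cons (P.cons (P.lf 0 837174740 0) (P.cons (P.lf 0 129615671 0) (P.cons (P.lf 62444742 0 0) (P.cons (P.lf 2363090 0 0) (P.lf 0 590771 0))))) (P.cons (P.cons (P.lf 115242179 0 0) (P.cons (P.lf 17842381 0 0) (P.cons (P.lf 0 8595894 0) (P.cons (P.lf 0 325293 0) (P.lf 81320 0 0))))) (P.cons (P.cons (P.lf 18707307 0 0) (P.cons (P.lf 2896360 0 0) (P.cons (P.lf 0 1395374 0) (P.cons (P.lf 0 52804 0) P.nil)))) (P.cons (P.cons (P.lf 0 3650866 0) (P.cons (P.lf 0 565245 0) (P.cons (P.lf 272314 0 0) P.nil))) (P.cons (P.cons (P.lf 24089 0 0) (P.cons (P.lf 3729 0 0) P.nil)) (P.cons (P.cons (P.lf 29753 0 0) P.nil) P.nil)))))) 72594)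
 (EL.cons 6 (TM.mk (P.cons (P.cons (P.lf 452423076 0 0) (P.cons (P.lf 70046451 0 0) (P.cons (P.lf 0 33746172 0) (P.cons (P.lf 0 1277052 0) (P.lf 319260 0 0))))) (P.cons (P.cons (P.lf 0 158522715 0) (P.cons (P.lf 0 24543294 0) (P.cons (P.lf 11824185 0 0) (P.cons (P.lf 447459 0 0) (P.lf 0 111864 0))))) (P.cons (P.cons (P.lf 14629950 0 0) (P.cons (P.lf 2265081 0 0) (P.cons (P.lf 0 1091244 0) (P.cons (P.lf 0 41295 0) P.nil)))) (P.cons (P.cons (P.lf 900219 0 0) (P.cons (P.lf 139374 0 0) (P.cons (P.lf 0 67146 0) P.nil))) (P.cons (P.cons (P.lf 0 229023 0) (P.cons (P.lf 0 35457 0) P.nil)) (P.cons (P.cons (P.lf 7698 0 0) P.nil) P.nil)))))) 41499)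
 EL.nil))))))
noncomputable def S343_372_364_512_2 : EL := (EL.cons 0 (TM.mk (P.cons (P.cons (P.lf 623219265 0 0) (P.cons (P.lf 0 236690196 0) (P.cons (P.lf 0 71712407 0) (P.cons (P.lf 0 2198209 0) (P.cons (P.lf 2241197 0 0) (P.cons (P.lf 166542 0 0) P.nil)))))) (P.cons (P.cons (P.lf 641052352 0 0) (P.cons (P.lf 104577285 0 0) (P.cons (P.lf 29288743 0 0) (P.cons (P.lf 650849 0 0) (P.cons (P.lf 0 894134 0) P.nil))))) (P.cons (P.cons (P.lf 125620555 0 0) (P.cons (P.lf 38976280 0 0) (P.cons (P.lf 4522105 0 0) (P.cons (P.lf 0 612387 0) P.nil)))) (P.cons (P.cons (P.lf 0 36554372 0) (P.cons (P.lf 0 16767277 0) (P.cons (P.lf 0 3515109 0) P.nil))) (P.cons (P.cons (P.lf 0 7819666 0) (P.cons (P.lf 0 297762 0) P.nil)) (P.cons (P.cons (P.lf 1549958 0 0) P.nil) P.nil)))))) 5663314)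
 (EL.cons 1 (TM.mk (P.cons (P.cons (P.lf 55653351 0 0) (P.cons (P.lf 0 34636008 0) (P.cons (P.lf 43887 0 0) (P.cons (P.lf 1087395 0 0) (P.cons (P.lf 0 94620 0) (P.cons (P.lf 0 7028 0) P.nil)))))) (P.cons (P.cons (P.lf 137995099 0 0) (P.cons (P.lf 0 23580169 0) (P.cons (P.lf 0 13825816 0) (P.cons (P.lf 0 1112404 0) (P.cons (P.lf 491217 0 0) P.nil))))) (P.cons (P.cons (P.lf 90563983 0 0) (P.cons (P.lf 22331544 0 0) (P.cons (P.lf 7422694 0 0) (P.cons (P.lf 295209 0 0) P.nil)))) (P.cons (P.cons (P.lf 10819752 0 0) (P.cons (P.lf 2223786 0 0) (P.cons (P.lf 0 576362 0) P.nil))) (P.cons (P.cons (P.lf 0 4873814 0) (P.cons (P.lf 0 2142535 0) P.nil)) (P.cons (P.cons (P.lf 0 597867 0) P.nil) P.nil)))))) 2758154)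
 (EL.cons 5 (TM.mk (P.cons (P.cons (P.lf 0 128313119 0) (P.cons (P.lf 0 17418243 0) (P.cons (P.lf 46359670 0 0) (P.cons (P.lf 6742888 0 0) (P.cons (P.lf 0 1905805 0) (P.cons (P.lf 0 141617 0) P.nil)))))) (P.cons (P.cons (P.lf 0 84543801 0) (P.cons (P.lf 0 79664175 0) (P.cons (P.lf 0 32632397 0) (P.cons (P.lf 0 1875865 0) (P.cons (P.lf 1095020 0 0) P.nil))))) (P.cons (P.cons (P.lf 23961982 0 0) (P.cons (P.lf 2849237 0 0) (P.cons (P.lf 4692550 0 0) (P.cons (P.lf 538490 0 0) P.nil)))) (P.cons (P.cons (P.lf 20413836 0 0) (P.cons (P.lf 7435970 0 0) (P.cons (P.lf 831781 0 0) P.nil))) (P.cons (P.cons (P.lf 969499 0 0) (P.cons (P.lf 0 797273 0) P.nil)) (P.cons (P.cons (P.lf 0 749570 0) P.nil) P.nil)))))) 2706015)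
 (EL.cons 9 (TM.mk (P.cons (P.cons (P.lf 82302298 0 0) (P.cons (P.lf 0 89624773 0) (P.cons (P.lf 18407580 0 0) (P.cons (P.lf 5259978 0 0) (P.cons (P.lf 0 978471 0) (P.cons (P.lf 0 72709 0) P.nil)))))) (P.cons (P.cons (P.lf 126516987 0 0) (P.cons (P.lf 0 37483365 0) (P.cons (P.lf 0 19604665 0) (P.cons (P.lf 0 1450993 0) (P.cons (P.lf 685684 0 0) P.nil))))) (P.cons (P.cons (P.lf 60553290 0 0) (P.cons (P.lf 14741881 0 0) (P.cons (P.lf 5559184 0 0) (P.cons (P.lf 283020 0 0) P.nil)))) (P.cons (P.cons (P.lf 6544170 0 0) (P.cons (P.lf 1300836 0 0) (P.cons (P.lf 0 368842 0) P.nil))) (P.cons (P.cons (P.lf 0 1597786 0) (P.cons (P.lf 0 796891 0) P.nil)) (P.cons (P.cons (P.lf 0 175128 0) P.nil) P.nil)))))) 965171)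
 (EL.cons 2 (TM.mk (P.cons (P.cons (P.lf 0 189245919 0) (P.cons (P.lf 73741590 0 0) (P.cons (P.lf 36958370 0 0) (P.cons (P.lf 0 8381435 0) (P.cons (P.lf 0 1293795 0) (P.cons (P.lf 224550 0 0) P.nil)))))) (P.cons (P.cons (P.lf 0 119405745 0) (P.cons (P.lf 0 68775648 0) (P.cons (P.lf 0 2241663 0) (P.cons (P.lf 4688240 0 0) (P.cons (P.lf 481983 0 0) P.nil))))) (P.cons (P.cons (P.lf 10533504 0 0) (P.cons (P.lf 7630329 0 0) (P.cons (P.lf 544286 0 0) (P.cons (P.lf 0 548831 0) P.nil)))) (P.cons (P.cons (P.lf 7333678 0 0) (P.cons (P.lf 2137927 0 0) (P.cons (P.lf 0 324781 0) P.nil))) (P.cons (P.cons (P.lf 0 725270 0) (P.cons (P.lf 0 427545 0) P.nil)) (P.cons (P.cons (P.lf 0 145603 0) P.nil) P.nil)))))) 915856)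
 (EL.cons 6 (TM.mk (P.cons (P.cons (P.lf 102271626 0 0) (P.cons (P.lf 0 39851172 0) (P.cons (P.lf 0 19972914 0) (P.cons (P.lf 4529466 0 0) (P.cons (P.lf 699186 0 0) (P.cons (P.lf 0 121350 0) P.nil)))))) (P.cons (P.cons (P.lf 42772602 0 0) (P.cons (P.lf 45645036 0 0) (P.cons (P.lf 5460270 0 0) (P.cons (P.lf 0 3497154 0) (P.cons (P.lf 0 409212 0) P.nil))))) (P.cons (P.cons (P.lf 0 16822092 0) (P.cons (P.lf 0 13042380 0) (P.cons (P.lf 0 1059138 0) (P.cons (P.lf 950610 0 0) P.nil)))) (P.cons (P.cons (P.lf 0 1484388 0) (P.cons (P.lf 810450 0 0) (P.cons (P.lf 341328 0 0) P.nil))) (P.cons (P.cons (P.lf 909336 0 0) (P.cons (P.lf 216576 0 0) P.nil)) (P.cons (P.cons (P.lf 0 58824 0) P.nil) P.nil)))))) 717234)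
 EL.nil))))))
noncomputable def S343_372_364_512_3 : EL := (EL.cons 0 (TM.mk (P.cons (P.lf 3316036292 0 0) (P.cons (P.lf 636245268 0 0) (P.cons (P.lf 0 21563379 0) (P.cons (P.lf 0 4685115 0) (P.cons (P.lf 394321 0 0) (P.cons (P.lf 4352 0 0) P.nil)))))) 3197)
 (EL.cons 1 (TM.mk (P.cons (P.lf 0 1792040857 0) (P.cons (P.lf 37383279 0 0) (P.cons (P.lf 39281548 0 0) (P.cons (P.lf 0 2177913 0) (P.cons (P.lf 0 137038 0) (P.cons (P.lf 19477 0 0) P.nil)))))) 1484)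
 (EL.cons 5 (TM.mk (P.cons (P.lf 968448518 0 0) (P.cons (P.lf 0 226220540 0) (P.cons (P.lf 7666984 0 0) (P.cons (P.lf 1665814 0 0) (P.cons (P.lf 0 140204 0) (P.cons (P.lf 0 1546 0) P.nil)))))) 962)
 EL.nil)))
noncomputable def S343_372_364_512_4 : EL := (EL.cons 0 (TM.mk (P.cons (P.cons (P.lf 374800100 0 0) (P.cons (P.lf 0 204073122 0) (P.cons (P.lf 0 13643850 0) (P.lf 4547949 0 0)))) (P.cons (P.cons (P.lf 359988268 0 0) (P.cons (P.lf 32349016 0 0) (P.cons (P.lf 2162777 0 0) (P.lf 0 720922 0)))) (P.cons (P.cons (P.lf 80004642 0 0) (P.cons (P.lf 8447436 0 0) (P.cons (P.lf 564776 0 0) (P.lf 0 188258 0)))) (P.cons (P.cons (P.lf 0 3171457 0) (P.cons (P.lf 0 1848867 0) (P.cons (P.lf 0 123607 0) P.nil))) (P.cons (P.cons (P.lf 0 1712165 0) (P.cons (P.lf 0 56986 0) P.nil)) (P.cons (P.cons (P.lf 84728 0 0) P.nil) P.nil)))))) 183708)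
 (EL.cons 1 (TM.mk (P.cons (P.cons (P.lf 0 202548172 0) (P.cons (P.lf 110284490 0 0) (P.cons (P.lf 7373360 0 0) (P.lf 0 2457785 0)))) (P.cons (P.cons (P.lf 0 151455553 0) (P.cons (P.lf 0 40942756 0) (P.cons (P.lf 0 2737335 0) (P.lf 912442 0 0)))) (P.cons (P.cons (P.lf 0 6995116 0) (P.cons (P.lf 1954921 0 0) (P.cons (P.lf 130698 0 0) (P.lf 0 43565 0)))) (P.cons (P.cons (P.lf 6705168 0 0) (P.cons (P.lf 1126111 0 0) (P.cons (P.lf 75286 0 0) P.nil))) (P.cons (P.cons (P.lf 63431 0 0) (P.cons (P.lf 0 177105 0) P.nil)) (P.cons (P.cons (P.lf 0 128056 0) P.nil) P.nil)))))) 99881)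
 (EL.cons 5 (TM.mk (P.cons (P.cons (P.lf 109460382 0 0) (P.cons (P.lf 0 59599562 0) (P.cons (P.lf 0 3984686 0) (P.lf 1328228 0 0)))) (P.cons (P.cons (P.lf 58563584 0 0) (P.cons (P.lf 34804754 0 0) (P.cons (P.lf 2326962 0 0) (P.lf 0 775652 0)))) (P.cons (P.cons (P.lf 0 10851280 0) (P.cons (P.lf 0 7277138 0) (P.cons (P.lf 0 486530 0) (P.lf 162176 0 0)))) (P.cons (P.cons (P.lf 0 2746040 0) (P.cons (P.lf 394408 0 0) (P.cons (P.lf 26368 0 0) P.nil))) (P.cons (P.cons (P.lf 592334 0 0) (P.cons (P.lf 87160 0 0) P.nil)) (P.cons (P.cons (P.lf 5064 0 0) P.nil) P.nil)))))) 67280)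
 EL.nil)))
noncomputable def S343_372_364_512_5 : EL := (EL.cons 0 (TM.mk (P.cons (P.cons (P.lf 42362356 0 0) (P.cons (P.lf 0 46131356 0) (P.cons (P.lf 9474684 0 0) (P.cons (P.lf 2707396 0 0) (P.cons (P.lf 0 503634 0) (P.cons (P.lf 0 37423 0) P.nil)))))) (P.cons (P.cons (P.lf 73248421 0 0) (P.cons (P.lf 0 28144495 0) (P.cons (P.lf 0 8272944 0) (P.cons (P.lf 0 227383 0) (P.cons (P.lf 256299 0 0) P.nil))))) (P.cons (P.cons (P.lf 43386906 0 0) (P.cons (P.lf 4186079 0 0) (P.cons (P.lf 863669 0 0) (P.cons (P.lf 0 15227 0) P.nil)))) (P.cons (P.cons (P.lf 8865214 0 0) (P.cons (P.lf 2316081 0 0) (P.cons (P.lf 411396 0 0) P.nil))) (P.cons (P.cons (P.lf 0 465760 0) (P.cons (P.lf 0 309273 0) P.nil)) (P.cons (P.cons (P.lf 0 306075 0) P.nil) P.nil)))))) 930307)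
 (EL.cons 1 (TM.mk (P.cons (P.cons (P.lf 0 22893316 0) (P.cons (P.lf 24930146 0 0) (P.cons (P.lf 0 5120276 0) (P.cons (P.lf 0 1463120 0) (P.cons (P.lf 272171 0 0) (P.cons (P.lf 20223 0 0) P.nil)))))) (P.cons (P.cons (P.lf 0 34714563 0) (P.cons (P.lf 9906361 0 0) (P.cons (P.lf 5560072 0 0) (P.cons (P.lf 434130 0 0) (P.cons (P.lf 0 196406 0) P.nil))))) (P.cons (P.cons (P.lf 0 15607627 0) (P.cons (P.lf 0 4864591 0) (P.cons (P.lf 0 1547870 0) (P.cons (P.lf 0 55072 0) P.nil)))) (P.cons (P.cons (P.lf 0 725375 0) (P.cons (P.lf 0 474547 0) (P.cons (P.lf 9095 0 0) P.nil))) (P.cons (P.cons (P.lf 807105 0 0) (P.cons (P.lf 333675 0 0) P.nil)) (P.cons (P.cons (P.lf 56430 0 0) P.nil) P.nil)))))) 530457)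
 (EL.cons 5 (TM.mk (P.cons (P.cons (P.lf 12371926 0 0) (P.cons (P.lf 0 13472662 0) (P.cons (P.lf 2767082 0 0) (P.cons (P.lf 790694 0 0) (P.cons (P.lf 0 147086 0) (P.cons (P.lf 0 10928 0) P.nil)))))) (P.cons (P.cons (P.lf 16128444 0 0) (P.cons (P.lf 0 2487522 0) (P.cons (P.lf 0 3593396 0) (P.cons (P.lf 0 402816 0) (P.cons (P.lf 137432 0 0) P.nil))))) (P.cons (P.cons (P.lf 4757972 0 0) (P.cons (P.lf 3425576 0 0) (P.cons (P.lf 1545978 0 0) (P.cons (P.lf 99754 0 0) P.nil)))) (P.cons (P.cons (P.lf 0 970686 0) (P.cons (P.lf 0 389882 0) (P.cons (P.lf 0 269220 0) P.nil))) (P.cons (P.cons (P.lf 0 366990 0) (P.cons (P.lf 0 155666 0) P.nil)) (P.cons (P.cons (P.lf 50450 0 0) P.nil) P.nil)))))) 311788)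
 EL.nil)))
noncomputable def S343_372_364_512_6 : EL := (EL.cons 12 (TM.mk (P.lf 8589934592 0 0) 0)
 (EL.cons 3 (TM.mk (P.cons (P.lf 2668545243 0 0) (P.cons (P.lf 256005836 0 0) (P.cons (P.lf 0 20956361 0) (P.cons (P.lf 125291 0 0) (P.cons (P.lf 64357 0 0) (P.cons (P.lf 0 3438 0) P.nil)))))) 378)
 (EL.cons 7 (TM.mk (P.cons (P.lf 0 1442125985 0) (P.cons (P.lf 168433589 0 0) (P.cons (P.lf 4127638 0 0) (P.cons (P.lf 0 758202 0) (P.cons (P.lf 21743 0 0) (P.cons (P.lf 1521 0 0) P.nil)))))) 224)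
 EL.nil)))
noncomputable def S343_372_364_512_7 : EL := (EL.cons 12 (TM.mk (P.cons (P.cons (P.lf 970890566 0 0) (P.cons (P.lf 0 528635584 0) (P.cons (P.lf 0 35343336 0) (P.lf 11781112 0 0)))) (P.cons (P.cons (P.lf 746237658 0 0) (P.cons (P.lf 185226512 0 0) (P.cons (P.lf 12383808 0 0) (P.lf 0 4127928 0)))) (P.cons (P.cons (P.lf 70379254 0 0) (P.cons (P.lf 0 17094424 0) (P.cons (P.lf 0 1142888 0) (P.lf 380960 0 0)))) (P.cons (P.cons (P.lf 0 15494688 0) (P.cons (P.lf 0 1051864 0) (P.cons (P.lf 0 70320 0) P.nil))) (P.cons (P.cons (P.lf 0 65738 0) (P.cons (P.lf 267600 0 0) P.nil)) (P.cons (P.cons (P.lf 140766 0 0) P.nil) P.nil)))))) 105342)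
 (EL.cons 3 (TM.mk (P.cons (P.cons (P.lf 2286506108 0 0) (P.cons (P.lf 328451388 0 0) (P.cons (P.lf 21959488 0 0) (P.lf 0 7319828 0)))) (P.cons (P.cons (P.lf 496469807 0 0) (P.cons (P.lf 0 83574914 0) (P.cons (P.lf 0 5587620 0) (P.lf 1862534 0 0)))) (P.cons (P.cons (P.lf 0 117972381 0) (P.cons (P.lf 0 2998882 0) (P.cons (P.lf 0 200500 0) (P.lf 66834 0 0)))) (P.cons (P.cons (P.lf 1548719 0 0) (P.cons (P.lf 2591666 0 0) (P.cons (P.lf 173268 0 0) P.nil))) (P.cons (P.cons (P.lf 1902417 0 0) (P.cons (P.lf 0 184456 0) P.nil)) (P.cons (P.cons (P.lf 0 164640 0) P.nil) P.nil)))))) 340214)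
 (EL.cons 7 (TM.mk (P.cons (P.cons (P.lf 1142917393 0 0) (P.cons (P.lf 412896687 0 0) (P.cons (P.lf 27605314 0 0) (P.lf 0 9201770 0)))) (P.cons (P.cons (P.lf 326641741 0 0) (P.cons (P.lf 0 54986340 0) (P.cons (P.lf 0 3676259 0) (P.lf 1225421 0 0)))) (P.cons (P.cons (P.lf 0 42874179 0) (P.cons (P.lf 0 7821669 0) (P.cons (P.lf 0 522937 0) (P.lf 174313 0 0)))) (P.cons (P.cons (P.lf 0 7826932 0) (P.cons (P.lf 1061399 0 0) (P.cons (P.lf 70964 0 0) P.nil))) (P.cons (P.cons (P.lf 843665 0 0) (P.cons (P.lf 97434 0 0) P.nil)) (P.cons (P.cons (P.lf 58438 0 0) P.nil) P.nil)))))) 222145)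
 (EL.cons 10 (TM.mk (P.cons (P.cons (P.lf 0 1347415092 0) (P.cons (P.lf 0 208613691 0) (P.cons (P.lf 100503498 0 0) (P.cons (P.lf 3803346 0 0) (P.lf 0 950835 0))))) (P.cons (P.cons (P.lf 314743596 0 0) (P.cons (P.lf 48730212 0 0) (P.cons (P.lf 0 23476677 0) (P.cons (P.lf 0 888426 0) (P.lf 222105 0 0))))) (P.cons (P.cons (P.lf 0 10667175 0) (P.cons (P.lf 0 1651545 0) (P.cons (P.lf 795663 0 0) (P.cons (P.lf 30108 0 0) P.nil)))) (P.cons (P.cons (P.lf 0 2317668 0) (P.cons (P.lf 0 358833 0) (P.cons (P.lf 172872 0 0) P.nil))) (P.cons (P.cons (P.lf 195066 0 0) (P.cons (P.lf 30201 0 0) P.nil)) (P.cons (P.cons (P.lf 2148 0 0) P.nil) P.nil)))))) 33198)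
 EL.nil))))
noncomputable def S343_372_364_512_8 : EL := (EL.cons 12 (TM.mk (P.cons (P.cons (P.lf 109736398 0 0) (P.cons (P.lf 0 119499698 0) (P.cons (P.lf 24543440 0 0) (P.cons (P.lf 7013304 0 0) (P.cons (P.lf 0 1304628 0) (P.cons (P.lf 0 96946 0) P.nil)))))) (P.cons (P.cons (P.lf 168689316 0 0) (P.cons (P.lf 0 49977820 0) (P.cons (P.lf 0 26139554 0) (P.cons (P.lf 0 1934658 0) (P.cons (P.lf 914246 0 0) P.nil))))) (P.cons (P.cons (P.lf 80737720 0 0) (P.cons (P.lf 19655842 0 0) (P.cons (P.lf 7412246 0 0) (P.cons (P.lf 377360 0 0) P.nil)))) (P.cons (P.cons (P.lf 8725560 0 0) (P.cons (P.lf 1734448 0 0) (P.cons (P.lf 0 491790 0) P.nil))) (P.cons (P.cons (P.lf 0 2130382 0) (P.cons (P.lf 0 1062522 0) P.nil)) (P.cons (P.cons (P.lf 0 233504 0) P.nil) P.nil)))))) 1286866)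
 (EL.cons 3 (TM.mk (P.cons (P.cons (P.lf 482781076 0 0) (P.cons (P.lf 0 170057856 0) (P.cons (P.lf 0 61902969 0) (P.cons (P.lf 0 2967181 0) (P.cons (P.lf 2026476 0 0) (P.cons (P.lf 150585 0 0) P.nil)))))) (P.cons (P.cons (P.lf 453826667 0 0) (P.cons (P.lf 94764630 0 0) (P.cons (P.lf 36900165 0 0) (P.cons (P.lf 1975017 0 0) (P.cons (P.lf 0 1225686 0) P.nil))))) (P.cons (P.cons (P.lf 67218152 0 0) (P.cons (P.lf 12105795 0 0) (P.cons (P.lf 0 4868690 0) (P.cons (P.lf 0 1029031 0) P.nil)))) (P.cons (P.cons (P.lf 0 24967729 0) (P.cons (P.lf 0 11548756 0) (P.cons (P.lf 0 1017272 0) P.nil))) (P.cons (P.cons (P.lf 0 2464625 0) (P.cons (P.lf 1306955 0 0) P.nil)) (P.cons (P.cons (P.lf 966564 0 0) P.nil) P.nil)))))) 3065002)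
 (EL.cons 7 (TM.mk (P.cons (P.cons (P.lf 276783144 0 0) (P.cons (P.lf 0 67398911 0) (P.cons (P.lf 0 49864705 0) (P.cons (P.lf 0 4563088 0) (P.cons (P.lf 1818958 0 0) (P.cons (P.lf 135165 0 0) P.nil)))))) (P.cons (P.cons (P.lf 298585589 0 0) (P.cons (P.lf 62348368 0 0) (P.cons (P.lf 24277679 0 0) (P.cons (P.lf 1299421 0 0) (P.cons (P.lf 0 806412 0) P.nil))))) (P.cons (P.cons (P.lf 75983796 0 0) (P.cons (P.lf 14596431 0 0) (P.cons (P.lf 0 620958 0) (P.cons (P.lf 0 538810 0) P.nil)))) (P.cons (P.cons (P.lf 0 8178898 0) (P.cons (P.lf 0 6056058 0) (P.cons (P.lf 0 962900 0) P.nil))) (P.cons (P.cons (P.lf 0 3620585 0) (P.cons (P.lf 0 235155 0) P.nil)) (P.cons (P.cons (P.lf 223728 0 0) P.nil) P.nil)))))) 1822657)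
 (EL.cons 10 (TM.mk (P.cons (P.cons (P.lf 0 304587324 0) (P.cons (P.lf 118685532 0 0) (P.cons (P.lf 59483724 0 0) (P.cons (P.lf 0 13489746 0) (P.cons (P.lf 0 2082336 0) (P.cons (P.lf 361410 0 0) P.nil)))))) (P.cons (P.cons (P.lf 0 162960564 0) (P.cons (P.lf 0 122079006 0) (P.cons (P.lf 0 9314460 0) (P.cons (P.lf 8839758 0 0) (P.cons (P.lf 975516 0 0) P.nil))))) (P.cons (P.cons (P.lf 30195060 0 0) (P.cons (P.lf 24924510 0 0) (P.cons (P.lf 2236728 0 0) (P.cons (P.lf 0 1837308 0) P.nil)))) (P.cons (P.cons (P.lf 7641204 0 0) (P.cons (P.lf 85554 0 0) (P.cons (P.lf 0 813252 0) P.nil))) (P.cons (P.cons (P.lf 0 1648242 0) (P.cons (P.lf 0 497724 0) P.nil)) (P.cons (P.cons (P.lf 0 14094 0) P.nil) P.nil)))))) 1348272)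
 EL.nil))))
noncomputable def S343_372_364_512_9 : EL := (EL.cons 3 (TM.mk (P.cons (P.lf 2668545243 0 0) (P.cons (P.lf 256005836 0 0) (P.cons (P.lf 0 20956361 0) (P.cons (P.lf 125291 0 0) (P.cons (P.lf 64357 0 0) (P.cons (P.lf 0 3438 0) P.nil)))))) 378)
 (EL.cons 7 (TM.mk (P.cons (P.lf 0 1442125985 0) (P.cons (P.lf 168433589 0 0) (P.cons (P.lf 4127638 0 0) (P.cons (P.lf 0 758202 0) (P.cons (P.lf 21743 0 0) (P.cons (P.lf 1521 0 0) P.nil)))))) 224)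
 EL.nil))
noncomputable def S343_372_364_512_10 : EL := (EL.cons 3 (TM.mk (P.cons (P.cons (P.lf 301616429 0 0) (P.cons (P.lf 0 164225694 0) (P.cons (P.lf 0 10979744 0) (P.lf 3659914 0 0)))) (P.cons (P.cons (P.lf 260761310 0 0) (P.cons (P.lf 41787457 0 0) (P.cons (P.lf 2793810 0 0) (P.lf 0 931267 0)))) (P.cons (P.cons (P.lf 41735484 0 0) (P.cons (P.lf 1499441 0 0) (P.cons (P.lf 100250 0 0) (P.lf 0 33417 0)))) (P.cons (P.cons (P.lf 0 4522450 0) (P.cons (P.lf 0 1295833 0) (P.cons (P.lf 0 86634 0) P.nil))) (P.cons (P.cons (P.lf 0 635751 0) (P.cons (P.lf 92228 0 0) P.nil)) (P.cons (P.cons (P.lf 85800 0 0) P.nil) P.nil)))))) 83821)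
 (EL.cons 7 (TM.mk (P.cons (P.cons (P.lf 0 162998507 0) (P.cons (P.lf 88750281 0 0) (P.cons (P.lf 5933635 0 0) (P.lf 0 1977878 0)))) (P.cons (P.cons (P.lf 0 106245062 0) (P.cons (P.lf 0 41462475 0) (P.cons (P.lf 0 2772083 0) (P.lf 924026 0 0)))) (P.cons (P.cons (P.lf 3283287 0 0) (P.cons (P.lf 6247854 0 0) (P.cons (P.lf 417716 0 0) (P.lf 0 139238 0)))) (P.cons (P.cons (P.lf 4254233 0 0) (P.cons (P.lf 0 22933 0) (P.cons (P.lf 0 1534 0) P.nil))) (P.cons (P.cons (P.lf 0 322378 0) (P.cons (P.lf 0 91452 0) P.nil)) (P.cons (P.cons (P.lf 0 36518 0) P.nil) P.nil)))))) 47073)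
 EL.nil))
noncomputable def S343_372_364_512_11 : EL := (EL.cons 3 (TM.mk (P.cons (P.cons (P.lf 34090660 0 0) (P.cons (P.lf 0 37123722 0) (P.cons (P.lf 7624653 0 0) (P.cons (P.lf 2178749 0 0) (P.cons (P.lf 0 405294 0) (P.cons (P.lf 0 30117 0) P.nil)))))) (P.cons (P.cons (P.lf 55675421 0 0) (P.cons (P.lf 0 19087536 0) (P.cons (P.lf 0 7389033 0) (P.cons (P.lf 0 392001 0) (P.cons (P.lf 245136 0 0) P.nil))))) (P.cons (P.cons (P.lf 29841674 0 0) (P.cons (P.lf 4908321 0 0) (P.cons (P.lf 1463770 0 0) (P.cons (P.lf 42461 0 0) P.nil)))) (P.cons (P.cons (P.lf 4706963 0 0) (P.cons (P.lf 1244810 0 0) (P.cons (P.lf 132256 0 0) P.nil))) (P.cons (P.cons (P.lf 0 595463 0) (P.cons (P.lf 0 327967 0) P.nil)) (P.cons (P.cons (P.lf 0 154920 0) P.nil) P.nil)))))) 582318)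
 (EL.cons 7 (TM.mk (P.cons (P.cons (P.lf 0 18423156 0) (P.cons (P.lf 20062273 0 0) (P.cons (P.lf 0 4120489 0) (P.cons (P.lf 0 1177432 0) (P.cons (P.lf 219028 0 0) (P.cons (P.lf 16275 0 0) P.nil)))))) (P.cons (P.cons (P.lf 0 26168761 0) (P.cons (P.lf 6047374 0 0) (P.cons (P.lf 4869707 0 0) (P.cons (P.lf 462319 0 0) (P.cons (P.lf 0 179070 0) P.nil))))) (P.cons (P.cons (P.lf 0 10194264 0) (P.cons (P.lf 0 4337331 0) (P.cons (P.lf 0 1745166 0) (P.cons (P.lf 0 97918 0) P.nil)))) (P.cons (P.cons (P.lf 189602 0 0) (P.cons (P.lf 80760 0 0) (P.cons (P.lf 213178 0 0) P.nil))) (P.cons (P.cons (P.lf 552937 0 0) (P.cons (P.lf 225945 0 0) P.nil)) (P.cons (P.cons (P.lf 0 5058 0) P.nil) P.nil)))))) 320517)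
 EL.nil))
noncomputable def S343_372_364_512_12 : EL := (EL.cons 4 (TM.mk (P.cons (P.lf 0 2668545243 0) (P.cons (P.lf 0 256005836 0) (P.cons (P.lf 20956361 0 0) (P.cons (P.lf 0 125291 0) (P.cons (P.lf 0 64357 0) (P.cons (P.lf 3438 0 0) P.nil)))))) 378)
 (EL.cons 8 (TM.mk (P.cons (P.lf 1442125985 0 0) (P.cons (P.lf 0 168433589 0) (P.cons (P.lf 0 4127638 0) (P.cons (P.lf 758202 0 0) (P.cons (P.lf 0 21743 0) (P.cons (P.lf 0 1521 0) P.nil)))))) 224)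
 EL.nil))
noncomputable def S343_372_364_512_13 : EL := (EL.cons 4 (TM.mk (P.cons (P.cons (P.lf 0 301616429 0) (P.cons (P.lf 164225694 0 0) (P.cons (P.lf 10979744 0 0) (P.lf 0 3659914 0)))) (P.cons (P.cons (P.lf 0 260761310 0) (P.cons (P.lf 0 41787457 0) (P.cons (P.lf 0 2793810 0) (P.lf 931267 0 0)))) (P.cons (P.cons (P.lf 0 41735484 0) (P.cons (P.lf 0 1499441 0) (P.cons (P.lf 0 100250 0) (P.lf 33417 0 0)))) (P.cons (P.cons (P.lf 4522450 0 0) (P.cons (P.lf 1295833 0 0) (P.cons (P.lf 86634 0 0) P.nil))) (P.cons (P.cons (P.lf 635751 0 0) (P.cons (P.lf 0 92228 0) P.nil)) (P.cons (P.cons (P.lf 0 85800 0) P.nil) P.nil)))))) 83821)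
 (EL.cons 8 (TM.mk (P.cons (P.cons (P.lf 162998507 0 0) (P.cons (P.lf 0 88750281 0) (P.cons (P.lf 0 5933635 0) (P.lf 1977878 0 0)))) (P.cons (P.cons (P.lf 106245062 0 0) (P.cons (P.lf 41462475 0 0) (P.cons (P.lf 2772083 0 0) (P.lf 0 924026 0)))) (P.cons (P.cons (P.lf 0 3283287 0) (P.cons (P.lf 0 6247854 0) (P.cons (P.lf 0 417716 0) (P.lf 139238 0 0)))) (P.cons (P.cons (P.lf 0 4254233 0) (P.cons (P.lf 22933 0 0) (P.cons (P.lf 1534 0 0) P.nil))) (P.cons (P.cons (P.lf 322378 0 0) (P.cons (P.lf 91452 0 0) P.nil)) (P.cons (P.cons (P.lf 36518 0 0) P.nil) P.nil)))))) 47073)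
 EL.nil))
noncomputable def S343_372_364_512_14 : EL := (EL.cons 4 (TM.mk (P.cons (P.cons (P.lf 0 34090660 0) (P.cons (P.lf 37123722 0 0) (P.cons (P.lf 0 7624653 0) (P.cons (P.lf 0 2178749 0) (P.cons (P.lf 405294 0 0) (P.cons (P.lf 30117 0 0) P.nil)))))) (P.cons (P.cons (P.lf 0 55675421 0) (P.cons (P.lf 19087536 0 0) (P.cons (P.lf 7389033 0 0) (P.cons (P.lf 392001 0 0) (P.cons (P.lf 0 245136 0) P.nil))))) (P.cons (P.cons (P.lf 0 29841674 0) (P.cons (P.lf 0 4908321 0) (P.cons (P.lf 0 1463770 0) (P.cons (P.lf 0 42461 0) P.nil)))) (P.cons (P.cons (P.lf 0 4706963 0) (P.cons (P.lf 0 1244810 0) (P.cons (P.lf 0 132256 0) P.nil))) (P.cons (P.cons (P.lf 595463 0 0) (P.cons (P.lf 327967 0 0) P.nil)) (P.cons (P.cons (P.lf 154920 0 0) P.nil) P.nil)))))) 582318)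
 (EL.cons 8 (TM.mk (P.cons (P.cons (P.lf 18423156 0 0) (P.cons (P.lf 0 20062273 0) (P.cons (P.lf 4120489 0 0) (P.cons (P.lf 1177432 0 0) (P.cons (P.lf 0 219028 0) (P.cons (P.lf 0 16275 0) P.nil)))))) (P.cons (P.cons (P.lf 26168761 0 0) (P.cons (P.lf 0 6047374 0) (P.cons (P.lf 0 4869707 0) (P.cons (P.lf 0 462319 0) (P.cons (P.lf 179070 0 0) P.nil))))) (P.cons (P.cons (P.lf 10194264 0 0) (P.cons (P.lf 4337331 0 0) (P.cons (P.lf 1745166 0 0) (P.cons (P.lf 97918 0 0) P.nil)))) (P.cons (P.cons (P.lf 0 189602 0) (P.cons (P.lf 0 80760 0) (P.cons (P.lf 0 213178 0) P.nil))) (P.cons (P.cons (P.lf 0 552937 0) (P.cons (P.lf 0 225945 0) P.nil)) (P.cons (P.cons (P.lf 5058 0 0) P.nil) P.nil)))))) 320517)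
 EL.nil))
noncomputable def S343_372_364_512_15 : EL := (EL.cons 4 (TM.mk (P.cons (P.lf 0 1768552689 0) (P.cons (P.lf 0 339330810 0) (P.cons (P.lf 11500469 0 0) (P.cons (P.lf 2498728 0 0) (P.cons (P.lf 0 210304 0) (P.cons (P.lf 0 2321 0) P.nil)))))) 1708)
 (EL.cons 8 (TM.mk (P.cons (P.lf 955755124 0 0) (P.cons (P.lf 0 19937749 0) (P.cons (P.lf 0 20950159 0) (P.cons (P.lf 1161554 0 0) (P.cons (P.lf 73087 0 0) (P.cons (P.lf 0 10388 0) P.nil)))))) 788)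
 EL.nil))
noncomputable def S343_372_364_512_16 : EL := (EL.cons 4 (TM.mk (P.cons (P.cons (P.lf 0 199893387 0) (P.cons (P.lf 108838998 0 0) (P.cons (P.lf 7276720 0 0) (P.lf 0 2425573 0)))) (P.cons (P.cons (P.lf 0 191993743 0) (P.cons (P.lf 0 17252808 0) (P.cons (P.lf 0 1153481 0) (P.lf 384492 0 0)))) (P.cons (P.cons (P.lf 0 42669142 0) (P.cons (P.lf 0 4505299 0) (P.cons (P.lf 0 301214 0) (P.lf 100404 0 0)))) (P.cons (P.cons (P.lf 1691444 0 0) (P.cons (P.lf 986062 0 0) (P.cons (P.lf 65924 0 0) P.nil))) (P.cons (P.cons (P.lf 913155 0 0) (P.cons (P.lf 30392 0 0) P.nil)) (P.cons (P.cons (P.lf 0 45188 0) P.nil) P.nil)))))) 97986)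
 (EL.cons 8 (TM.mk (P.cons (P.cons (P.lf 108025692 0 0) (P.cons (P.lf 0 58818395 0) (P.cons (P.lf 0 3932459 0) (P.lf 1310819 0 0)))) (P.cons (P.cons (P.lf 80776295 0 0) (P.cons (P.lf 21836137 0 0) (P.cons (P.lf 1459912 0 0) (P.lf 0 486636 0)))) (P.cons (P.cons (P.lf 3730729 0 0) (P.cons (P.lf 0 1042625 0) (P.cons (P.lf 0 69706 0) (P.lf 23235 0 0)))) (P.cons (P.cons (P.lf 0 3576090 0) (P.cons (P.lf 0 600593 0) (P.cons (P.lf 0 40153 0) P.nil))) (P.cons (P.cons (P.lf 0 33830 0) (P.cons (P.lf 94456 0 0) P.nil)) (P.cons (P.cons (P.lf 68297 0 0) P.nil) P.nil)))))) 53260)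
 EL.nil))
noncomputable def S343_372_364_512_17 : EL := (EL.cons 4 (TM.mk (P.cons (P.cons (P.lf 0 22593256 0) (P.cons (P.lf 24603390 0 0) (P.cons (P.lf 0 5053165 0) (P.cons (P.lf 0 1443945 0) (P.cons (P.lf 268605 0 0) (P.cons (P.lf 19959 0 0) P.nil)))))) (P.cons (P.cons (P.lf 0 39065824 0) (P.cons (P.lf 15010397 0 0) (P.cons (P.lf 4412236 0 0) (P.cons (P.lf 121271 0 0) (P.cons (P.lf 0 136693 0) P.nil))))) (P.cons (P.cons (P.lf 0 23139683 0) (P.cons (P.lf 0 2232575 0) (P.cons (P.lf 0 460623 0) (P.cons (P.lf 8121 0 0) P.nil)))) (P.cons (P.cons (P.lf 0 4728114 0) (P.cons (P.lf 0 1235243 0) (P.cons (P.lf 0 219411 0) P.nil))) (P.cons (P.cons (P.lf 248405 0 0) (P.cons (P.lf 164945 0 0) P.nil)) (P.cons (P.cons (P.lf 163240 0 0) P.nil) P.nil)))))) 496174)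
 (EL.cons 8 (TM.mk (P.cons (P.cons (P.lf 12209769 0 0) (P.cons (P.lf 0 13296078 0) (P.cons (P.lf 2730814 0 0) (P.cons (P.lf 780331 0 0) (P.cons (P.lf 0 145158 0) (P.cons (P.lf 0 10786 0) P.nil)))))) (P.cons (P.cons (P.lf 18514434 0 0) (P.cons (P.lf 0 5283393 0) (P.cons (P.lf 0 2965372 0) (P.cons (P.lf 0 231536 0) (P.cons (P.lf 104750 0 0) P.nil))))) (P.cons (P.cons (P.lf 8324068 0 0) (P.cons (P.lf 2594449 0 0) (P.cons (P.lf 825531 0 0) (P.cons (P.lf 29372 0 0) P.nil)))) (P.cons (P.cons (P.lf 386867 0 0) (P.cons (P.lf 253092 0 0) (P.cons (P.lf 0 4851 0) P.nil))) (P.cons (P.cons (P.lf 0 430456 0) (P.cons (P.lf 0 177960 0) P.nil)) (P.cons (P.cons (P.lf 0 30096 0) P.nil) P.nil)))))) 282899)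
 EL.nil))
noncomputable def S343_372_364_512_18 : EL := (EL.cons 4 (TM.mk (P.cons (P.lf 0 1172091282 0) (P.cons (P.lf 0 337332345 0) (P.cons (P.lf 0 4748184 0) (P.cons (P.lf 4098243 0 0) (P.cons (P.lf 0 79189 0) (P.cons (P.lf 0 31469 0) P.nil)))))) 3321)
 (EL.cons 8 (TM.mk (P.cons (P.lf 633417514 0 0) (P.cons (P.lf 47553107 0 0) (P.cons (P.lf 0 20126446 0) (P.cons (P.lf 0 428689 0) (P.cons (P.lf 245981 0 0) (P.cons (P.lf 0 10070 0) P.nil)))))) 1843)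
 EL.nil))
noncomputable def S343_372_364_512_19 : EL := (EL.cons 4 (TM.mk (P.cons (P.cons (P.lf 0 132477419 0) (P.cons (P.lf 72131999 0 0) (P.cons (P.lf 4822575 0 0) (P.lf 0 1607524 0)))) (P.cons (P.cons (P.lf 0 139951175 0) (P.cons (P.lf 0 4514177 0) (P.cons (P.lf 0 301806 0) (P.lf 100601 0 0)))) (P.cons (P.cons (P.lf 0 39445116 0) (P.cons (P.lf 0 4649233 0) (P.cons (P.lf 0 310836 0) (P.lf 103612 0 0)))) (P.cons (P.cons (P.lf 0 598879 0) (P.cons (P.lf 460237 0 0) (P.cons (P.lf 30768 0 0) P.nil))) (P.cons (P.cons (P.lf 925631 0 0) (P.cons (P.lf 107487 0 0) P.nil)) (P.cons (P.cons (P.lf 15079 0 0) P.nil) P.nil)))))) 97204)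
 (EL.cons 8 (TM.mk (P.cons (P.cons (P.lf 71592988 0 0) (P.cons (P.lf 0 38981325 0) (P.cons (P.lf 0 2606200 0) (P.lf 868733 0 0)))) (P.cons (P.cons (P.lf 60401957 0 0) (P.cons (P.lf 10732031 0 0) (P.cons (P.lf 717518 0 0) (P.lf 0 239172 0)))) (P.cons (P.cons (P.lf 7046013 0 0) (P.cons (P.lf 1003470 0 0) (P.cons (P.lf 67089 0 0) (P.lf 0 22363 0)))) (P.cons (P.cons (P.lf 0 2549865 0) (P.cons (P.lf 0 579805 0) (P.cons (P.lf 0 38763 0) P.nil))) (P.cons (P.cons (P.lf 0 264964 0) (P.cons (P.lf 29580 0 0) P.nil)) (P.cons (P.cons (P.lf 63038 0 0) P.nil) P.nil)))))) 55321)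
 EL.nil))
noncomputable def S343_372_364_512_20 : EL := (EL.cons 4 (TM.mk (P.cons (P.cons (P.lf 0 14973463 0) (P.cons (P.lf 16305660 0 0) (P.cons (P.lf 0 3348936 0) (P.cons (P.lf 0 956960 0) (P.cons (P.lf 178015 0 0) (P.cons (P.lf 13228 0 0) P.nil)))))) (P.cons (P.cons (P.lf 0 27326972 0) (P.cons (P.lf 11512273 0 0) (P.cons (P.lf 2602889 0 0) (P.cons (P.lf 0 11433 0) (P.cons (P.lf 0 73514 0) P.nil))))) (P.cons (P.cons (P.lf 0 17701809 0) (P.cons (P.lf 0 653310 0) (P.cons (P.lf 1553 0 0) (P.cons (P.lf 20607 0 0) P.nil)))) (P.cons (P.cons (P.lf 0 4402110 0) (P.cons (P.lf 0 1037949 0) (P.cons (P.lf 0 197820 0) P.nil))) (P.cons (P.cons (P.lf 0 17127 0) (P.cons (P.lf 43259 0 0) P.nil)) (P.cons (P.cons (P.lf 147262 0 0) P.nil) P.nil)))))) 404150)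
 (EL.cons 8 (TM.mk (P.cons (P.cons (P.lf 8091907 0 0) (P.cons (P.lf 0 8811848 0) (P.cons (P.lf 1809820 0 0) (P.cons (P.lf 517157 0 0) (P.cons (P.lf 0 96202 0) (P.cons (P.lf 0 7148 0) P.nil)))))) (P.cons (P.cons (P.lf 13046557 0 0) (P.cons (P.lf 0 4346879 0) (P.cons (P.lf 0 1791647 0) (P.cons (P.lf 0 103835 0) (P.cons (P.lf 60193 0 0) P.nil))))) (P.cons (P.cons (P.lf 6630292 0 0) (P.cons (P.lf 1452730 0 0) (P.cons (P.lf 344363 0 0) (P.cons (P.lf 683 0 0) P.nil)))) (P.cons (P.cons (P.lf 689654 0 0) (P.cons (P.lf 359773 0 0) (P.cons (P.lf 64789 0 0) P.nil))) (P.cons (P.cons (P.lf 0 303235 0) (P.cons (P.lf 0 115729 0) P.nil)) (P.cons (P.cons (P.lf 0 48783 0) P.nil) P.nil)))))) 235363)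
 EL.nil))
noncomputable def S343_372_364_512_21 : EL := (EL.cons 4 (TM.mk (P.cons (P.cons (P.lf 0 1984889679 0) (P.cons (P.lf 0 492677082 0) (P.cons (P.lf 0 32939232 0) (P.lf 10979742 0 0)))) (P.cons (P.cons (P.lf 0 235708497 0) (P.cons (P.lf 125362371 0 0) (P.cons (P.lf 8381430 0 0) (P.lf 0 2793801 0)))) (P.cons (P.cons (P.lf 159707865 0 0) (P.cons (P.lf 4498323 0 0) (P.cons (P.lf 300750 0 0) (P.lf 0 100251 0)))) (P.cons (P.cons (P.lf 0 6071169 0) (P.cons (P.lf 0 3887499 0) (P.cons (P.lf 0 259902 0) P.nil))) (P.cons (P.cons (P.lf 0 2538168 0) (P.cons (P.lf 276684 0 0) P.nil)) (P.cons (P.cons (P.lf 250440 0 0) P.nil) P.nil)))))) 256374)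
 (EL.cons 8 (TM.mk (P.cons (P.cons (P.lf 0 1305915900 0) (P.cons (P.lf 0 324146406 0) (P.cons (P.lf 0 21671679 0) (P.lf 7223892 0 0)))) (P.cons (P.cons (P.lf 0 432886803 0) (P.cons (P.lf 13523865 0 0) (P.cons (P.lf 904176 0 0) (P.lf 0 301395 0)))) (P.cons (P.cons (P.lf 46157466 0 0) (P.cons (P.lf 14069523 0 0) (P.cons (P.lf 940653 0 0) (P.lf 0 313551 0)))) (P.cons (P.cons (P.lf 12081165 0 0) (P.cons (P.lf 0 1084332 0) (P.cons (P.lf 0 72498 0) P.nil))) (P.cons (P.cons (P.lf 0 1166043 0) (P.cons (P.lf 0 188886 0) P.nil)) (P.cons (P.cons (P.lf 0 94956 0) P.nil) P.nil)))))) 175053)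
 (EL.cons 11 (TM.mk (P.cons (P.cons (P.lf 1347415092 0 0) (P.cons (P.lf 208613691 0 0) (P.cons (P.lf 0 100503498 0) (P.cons (P.lf 0 3803346 0) (P.lf 950835 0 0))))) (P.cons (P.cons (P.lf 0 314743596 0) (P.cons (P.lf 0 48730212 0) (P.cons (P.lf 23476677 0 0) (P.cons (P.lf 888426 0 0) (P.lf 0 222105 0))))) (P.cons (P.cons (P.lf 10667175 0 0) (P.cons (P.lf 1651545 0 0) (P.cons (P.lf 0 795663 0) (P.cons (P.lf 0 30108 0) P.nil)))) (P.cons (P.cons (P.lf 2317668 0 0) (P.cons (P.lf 358833 0 0) (P.cons (P.lf 0 172872 0) P.nil))) (P.cons (P.cons (P.lf 0 195066 0) (P.cons (P.lf 0 30201 0) P.nil)) (P.cons (P.cons (P.lf 0 2148 0) P.nil) P.nil)))))) 33198)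
 EL.nil)))
noncomputable def S343_372_364_512_22 : EL := (EL.cons 4 (TM.mk (P.cons (P.cons (P.lf 0 224345208 0) (P.cons (P.lf 66467067 0 0) (P.cons (P.lf 34763811 0 0) (P.cons (P.lf 2572965 0 0) (P.cons (P.lf 0 1215885 0) (P.cons (P.lf 0 90351 0) P.nil)))))) (P.cons (P.cons (P.lf 0 199075623 0) (P.cons (P.lf 0 56926083 0) (P.cons (P.lf 0 22144599 0) (P.cons (P.lf 0 1183509 0) (P.cons (P.lf 735411 0 0) P.nil))))) (P.cons (P.cons (P.lf 0 18688239 0) (P.cons (P.lf 0 3598737 0) (P.cons (P.lf 3166230 0 0) (P.cons (P.lf 535746 0 0) P.nil)))) (P.cons (P.cons (P.lf 14837346 0 0) (P.cons (P.lf 6396783 0 0) (P.cons (P.lf 574764 0 0) P.nil))) (P.cons (P.cons (P.lf 934581 0 0) (P.cons (P.lf 0 817461 0) P.nil)) (P.cons (P.cons (P.lf 0 560742 0) P.nil) P.nil)))))) 1241331)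
 (EL.cons 8 (TM.mk (P.cons (P.cons (P.lf 0 147603150 0) (P.cons (P.lf 43730592 0 0) (P.cons (P.lf 22872108 0 0) (P.cons (P.lf 1692828 0 0) (P.cons (P.lf 0 799965 0) (P.cons (P.lf 0 59445 0) P.nil)))))) (P.cons (P.cons (P.lf 0 162377175 0) (P.cons (P.lf 0 28150497 0) (P.cons (P.lf 0 9703986 0) (P.cons (P.lf 0 418551 0) (P.cons (P.lf 313671 0 0) P.nil))))) (P.cons (P.cons (P.lf 0 43089030 0) (P.cons (P.lf 0 9466881 0) (P.cons (P.lf 0 562104 0) (P.cons (P.lf 220446 0 0) P.nil)))) (P.cons (P.cons (P.lf 4184250 0 0) (P.cons (P.lf 3068409 0 0) (P.cons (P.lf 588039 0 0) P.nil))) (P.cons (P.cons (P.lf 2086761 0 0) (P.cons (P.lf 230550 0 0) P.nil)) (P.cons (P.cons (P.lf 0 114393 0) P.nil) P.nil)))))) 751059)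
 (EL.cons 11 (TM.mk (P.cons (P.cons (P.lf 152293662 0 0) (P.cons (P.lf 0 59342766 0) (P.cons (P.lf 0 29741862 0) (P.cons (P.lf 6744873 0 0) (P.cons (P.lf 1041168 0 0) (P.cons (P.lf 0 180705 0) P.nil)))))) (P.cons (P.cons (P.lf 81480282 0 0) (P.cons (P.lf 61039503 0 0) (P.cons (P.lf 4657230 0 0) (P.cons (P.lf 0 4419879 0) (P.cons (P.lf 0 487758 0) P.nil))))) (P.cons (P.cons (P.lf 0 15097530 0) (P.cons (P.lf 0 12462255 0) (P.cons (P.lf 0 1118364 0) (P.cons (P.lf 918654 0 0) P.nil)))) (P.cons (P.cons (P.lf 0 3820602 0) (P.cons (P.lf 0 42777 0) (P.cons (P.lf 406626 0 0) P.nil))) (P.cons (P.cons (P.lf 824121 0 0) (P.cons (P.lf 248862 0 0) P.nil)) (P.cons (P.cons (P.lf 7047 0 0) P.nil) P.nil)))))) 674136)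
 EL.nil)))
noncomputable def S343_372_364_512_23 : EL := (EL.cons 4 (TM.mk (P.cons (P.cons (P.lf 0 1315466541 0) (P.cons (P.lf 0 326516994 0) (P.cons (P.lf 0 21830157 0) (P.lf 7276716 0 0)))) (P.cons (P.cons (P.lf 0 282412302 0) (P.cons (P.lf 51758424 0 0) (P.cons (P.lf 3460443 0 0) (P.lf 0 1153473 0)))) (P.cons (P.cons (P.lf 101189061 0 0) (P.cons (P.lf 13515897 0 0) (P.cons (P.lf 903642 0 0) (P.lf 0 301212 0)))) (P.cons (P.cons (P.lf 7295571 0 0) (P.cons (P.lf 0 2958186 0) (P.cons (P.lf 0 197772 0) P.nil))) (P.cons (P.cons (P.lf 0 2938419 0) (P.cons (P.lf 0 91182 0) P.nil)) (P.cons (P.cons (P.lf 39093 0 0) P.nil) P.nil)))))) 306384)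
 (EL.cons 8 (TM.mk (P.cons (P.cons (P.lf 0 865483200 0) (P.cons (P.lf 0 214824912 0) (P.cons (P.lf 0 14362695 0) (P.lf 4787562 0 0)))) (P.cons (P.cons (P.lf 0 369921354 0) (P.cons (P.lf 0 11646330 0) (P.cons (P.lf 0 778644 0) (P.lf 259545 0 0)))) (P.cons (P.cons (P.lf 9864315 0 0) (P.cons (P.lf 11871327 0 0) (P.cons (P.lf 793686 0 0) (P.lf 0 264561 0)))) (P.cons (P.cons (P.lf 13153707 0 0) (P.cons (P.lf 95433 0 0) (P.cons (P.lf 6378 0 0) P.nil))) (P.cons (P.cons (P.lf 0 279237 0) (P.cons (P.lf 0 272109 0) P.nil)) (P.cons (P.cons (P.lf 0 204312 0) P.nil) P.nil)))))) 196434)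
 (EL.cons 11 (TM.mk (P.cons (P.cons (P.lf 892986390 0 0) (P.cons (P.lf 138256716 0 0) (P.cons (P.lf 0 66607725 0) (P.cons (P.lf 0 2520630 0) (P.lf 630156 0 0))))) (P.cons (P.cons (P.lf 0 122924991 0) (P.cons (P.lf 0 19031874 0) (P.cons (P.lf 9168954 0 0) (P.cons (P.lf 346980 0 0) (P.lf 0 86742 0))))) (P.cons (P.cons (P.lf 0 19954461 0) (P.cons (P.lf 0 3089451 0) (P.cons (P.lf 1488399 0 0) (P.cons (P.lf 56325 0 0) P.nil)))) (P.cons (P.cons (P.lf 3894258 0 0) (P.cons (P.lf 602928 0 0) (P.cons (P.lf 0 290469 0) P.nil))) (P.cons (P.cons (P.lf 0 25695 0) (P.cons (P.lf 0 3978 0) P.nil)) (P.cons (P.cons (P.lf 0 31737 0) P.nil) P.nil)))))) 77412)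
 EL.nil)))
noncomputable def S343_372_364_512_24 : EL := (EL.cons 4 (TM.mk (P.cons (P.cons (P.lf 0 148682628 0) (P.cons (P.lf 44050410 0 0) (P.cons (P.lf 23039379 0 0) (P.cons (P.lf 1705209 0 0) (P.cons (P.lf 0 805815 0) (P.cons (P.lf 0 59880 0) P.nil)))))) (P.cons (P.cons (P.lf 0 146199261 0) (P.cons (P.lf 0 33501255 0) (P.cons (P.lf 0 12465846 0) (P.cons (P.lf 0 620772 0) (P.cons (P.lf 410079 0 0) P.nil))))) (P.cons (P.cons (P.lf 0 23875005 0) (P.cons (P.lf 0 6350304 0) (P.cons (P.lf 509508 0 0) (P.cons (P.lf 266421 0 0) P.nil)))) (P.cons (P.cons (P.lf 9674235 0 0) (P.cons (P.lf 4308945 0 0) (P.cons (P.lf 698562 0 0) P.nil))) (P.cons (P.cons (P.lf 1650222 0 0) (P.cons (P.lf 0 117036 0) P.nil)) (P.cons (P.cons (P.lf 0 392997 0) P.nil) P.nil)))))) 924333)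
 (EL.cons 8 (TM.mk (P.cons (P.cons (P.lf 0 97822569 0) (P.cons (P.lf 28982028 0 0) (P.cons (P.lf 15158268 0 0) (P.cons (P.lf 1121907 0 0) (P.cons (P.lf 0 530169 0) (P.cons (P.lf 0 39396 0) P.nil)))))) (P.cons (P.cons (P.lf 0 116998482 0) (P.cons (P.lf 0 15876090 0) (P.cons (P.lf 0 4977021 0) (P.cons (P.lf 0 169761 0) (P.cons (P.lf 157020 0 0) P.nil))))) (P.cons (P.cons (P.lf 0 38112528 0) (P.cons (P.lf 0 8291484 0) (P.cons (P.lf 0 1108545 0) (P.cons (P.lf 110676 0 0) P.nil)))) (P.cons (P.cons (P.lf 873990 0 0) (P.cons (P.lf 1579527 0 0) (P.cons (P.lf 405195 0 0) P.nil))) (P.cons (P.cons (P.lf 1865862 0 0) (P.cons (P.lf 396975 0 0) P.nil)) (P.cons (P.cons (P.lf 31272 0 0) P.nil) P.nil)))))) 522444)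
 (EL.cons 11 (TM.mk (P.cons (P.cons (P.lf 100931157 0 0) (P.cons (P.lf 0 39328848 0) (P.cons (P.lf 0 19711131 0) (P.cons (P.lf 4470099 0 0) (P.cons (P.lf 690024 0 0) (P.cons (P.lf 0 119760 0) P.nil)))))) (P.cons (P.cons (P.lf 63683064 0 0) (P.cons (P.lf 36680346 0 0) (P.cons (P.lf 1195554 0 0) (P.cons (P.lf 0 2500395 0) (P.cons (P.lf 0 257058 0) P.nil))))) (P.cons (P.cons (P.lf 0 5617869 0) (P.cons (P.lf 0 4069509 0) (P.cons (P.lf 0 290286 0) (P.cons (P.lf 292710 0 0) P.nil)))) (P.cons (P.cons (P.lf 0 3911295 0) (P.cons (P.lf 0 1140228 0) (P.cons (P.lf 173217 0 0) P.nil))) (P.cons (P.cons (P.lf 386811 0 0) (P.cons (P.lf 228024 0 0) P.nil)) (P.cons (P.cons (P.lf 77655 0 0) P.nil) P.nil)))))) 488445)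
 EL.nil)))
noncomputable def S343_372_364_512_25 : EL := (EL.cons 4 (TM.mk (P.cons (P.cons (P.lf 0 871812795 0) (P.cons (P.lf 0 216395997 0) (P.cons (P.lf 0 14467725 0) (P.lf 4822575 0 0)))) (P.cons (P.cons (P.lf 0 270803052 0) (P.cons (P.lf 13542534 0 0) (P.cons (P.lf 905418 0 0) (P.lf 0 301803 0)))) (P.cons (P.cons (P.lf 55952811 0 0) (P.cons (P.lf 13947696 0 0) (P.cons (P.lf 932511 0 0) (P.lf 0 310836 0)))) (P.cons (P.cons (P.lf 12697545 0 0) (P.cons (P.lf 0 1380711 0) (P.cons (P.lf 0 92307 0) P.nil))) (P.cons (P.cons (P.lf 0 2040015 0) (P.cons (P.lf 0 322461 0) P.nil)) (P.cons (P.cons (P.lf 0 199125 0) P.nil) P.nil)))))) 285345)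
 (EL.cons 8 (TM.mk (P.cons (P.cons (P.lf 0 573590664 0) (P.cons (P.lf 0 142373142 0) (P.cons (P.lf 0 9518739 0) (P.lf 3172911 0 0)))) (P.cons (P.cons (P.lf 0 300189012 0) (P.cons (P.lf 0 21377004 0) (P.cons (P.lf 0 1429215 0) (P.lf 476403 0 0)))) (P.cons (P.cons (P.lf 0 12477555 0) (P.cons (P.lf 8245206 0 0) (P.cons (P.lf 551253 0 0) (P.lf 0 183750 0)))) (P.cons (P.cons (P.lf 11243013 0 0) (P.cons (P.lf 871953 0 0) (P.cons (P.lf 58293 0 0) P.nil))) (P.cons (P.cons (P.lf 574563 0 0) (P.cons (P.lf 0 239850 0) P.nil)) (P.cons (P.cons (P.lf 0 226485 0) P.nil) P.nil)))))) 192195)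
 (EL.cons 11 (TM.mk (P.cons (P.cons (P.lf 591818139 0 0) (P.cons (P.lf 91628307 0 0) (P.cons (P.lf 0 44143629 0) (P.cons (P.lf 0 1670523 0) (P.lf 417630 0 0))))) (P.cons (P.cons (P.lf 0 24691515 0) (P.cons (P.lf 0 3822864 0) (P.cons (P.lf 1841733 0 0) (P.cons (P.lf 69696 0 0) (P.lf 0 17421 0))))) (P.cons (P.cons (P.lf 0 25687773 0) (P.cons (P.lf 0 3977112 0) (P.cons (P.lf 1916046 0 0) (P.cons (P.lf 72507 0 0) P.nil)))) (P.cons (P.cons (P.lf 1979739 0 0) (P.cons (P.lf 306513 0 0) (P.cons (P.lf 0 147666 0) P.nil))) (P.cons (P.cons (P.lf 344865 0 0) (P.cons (P.lf 53394 0 0) P.nil)) (P.cons (P.cons (P.lf 0 46281 0) P.nil) P.nil)))))) 99639)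
 EL.nil)))
noncomputable def S343_372_364_512_26 : EL := (EL.cons 4 (TM.mk (P.cons (P.cons (P.lf 0 98537979 0) (P.cons (P.lf 29193984 0 0) (P.cons (P.lf 15269127 0 0) (P.cons (P.lf 1130109 0 0) (P.cons (P.lf 0 534045 0) (P.cons (P.lf 0 39684 0) P.nil)))))) (P.cons (P.cons (P.lf 0 106345356 0) (P.cons (P.lf 0 19401921 0) (P.cons (P.lf 0 6796782 0) (P.cons (P.lf 0 302994 0) (P.cons (P.lf 220542 0 0) P.nil))))) (P.cons (P.cons (P.lf 0 24344412 0) (P.cons (P.lf 0 6567867 0) (P.cons (P.lf 0 574809 0) (P.cons (P.lf 128223 0 0) P.nil)))) (P.cons (P.cons (P.lf 5649816 0 0) (P.cons (P.lf 2627691 0 0) (P.cons (P.lf 560955 0 0) P.nil))) (P.cons (P.cons (P.lf 1826088 0 0) (P.cons (P.lf 229107 0 0) P.nil)) (P.cons (P.cons (P.lf 0 208836 0) P.nil) P.nil)))))) 745023)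
 (EL.cons 8 (TM.mk (P.cons (P.cons (P.lf 0 64830966 0) (P.cons (P.lf 19207560 0 0) (P.cons (P.lf 10045995 0 0) (P.cons (P.lf 743532 0 0) (P.cons (P.lf 0 351363 0) (P.cons (P.lf 0 26109 0) P.nil)))))) (P.cons (P.cons (P.lf 0 83759151 0) (P.cons (P.lf 0 8679057 0) (P.cons (P.lf 0 2334714 0) (P.cons (P.lf 0 41175 0) (P.cons (P.lf 70356 0 0) P.nil))))) (P.cons (P.cons (P.lf 0 32188320 0) (P.cons (P.lf 0 6655338 0) (P.cons (P.lf 0 1130007 0) (P.cons (P.lf 56718 0 0) P.nil)))) (P.cons (P.cons (P.lf 0 1238070 0) (P.cons (P.lf 603174 0 0) (P.cons (P.lf 224433 0 0) P.nil))) (P.cons (P.cons (P.lf 1485303 0 0) (P.cons (P.lf 406641 0 0) P.nil)) (P.cons (P.cons (P.lf 131835 0 0) P.nil) P.nil)))))) 420840)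
 (EL.cons 11 (TM.mk (P.cons (P.cons (P.lf 66891153 0 0) (P.cons (P.lf 0 26064816 0) (P.cons (P.lf 0 13063362 0) (P.cons (P.lf 2962515 0 0) (P.cons (P.lf 457305 0 0) (P.cons (P.lf 0 79371 0) P.nil)))))) (P.cons (P.cons (P.lf 48622512 0 0) (P.cons (P.lf 21809028 0 0) (P.cons (P.lf 0 460884 0) (P.cons (P.lf 0 1372905 0) (P.cons (P.lf 0 126492 0) P.nil))))) (P.cons (P.cons (P.lf 0 199539 0) (P.cons (P.lf 0 160212 0) (P.cons (P.lf 0 13782 0) (P.cons (P.lf 11751 0 0) P.nil)))) (P.cons (P.cons (P.lf 0 3277659 0) (P.cons (P.lf 0 1206540 0) (P.cons (P.lf 89505 0 0) P.nil))) (P.cons (P.cons (P.lf 40509 0 0) (P.cons (P.lf 100317 0 0) P.nil)) (P.cons (P.cons (P.lf 97170 0 0) P.nil) P.nil)))))) 403056)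
 EL.nil)))
noncomputable def S343_372_364_512_27 : EL := (EL.cons 13 (TM.mk (P.lf 0 4294967296 0) 0)
 EL.nil)
noncomputable def S343_372_364_512_28 : EL := (EL.cons 13 (TM.mk (P.cons (P.cons (P.lf 0 485445283 0) (P.cons (P.lf 264317792 0 0) (P.cons (P.lf 17671668 0 0) (P.lf 0 5890556 0)))) (P.cons (P.cons (P.lf 0 373118829 0) (P.cons (P.lf 0 92613256 0) (P.cons (P.lf 0 6191904 0) (P.lf 2063964 0 0)))) (P.cons (P.cons (P.lf 0 35189627 0) (P.cons (P.lf 8547212 0 0) (P.cons (P.lf 571444 0 0) (P.lf 0 190480 0)))) (P.cons (P.cons (P.lf 7747344 0 0) (P.cons (P.lf 525932 0 0) (P.cons (P.lf 35160 0 0) P.nil))) (P.cons (P.cons (P.lf 32869 0 0) (P.cons (P.lf 0 133800 0) P.nil)) (P.cons (P.cons (P.lf 0 70383 0) P.nil) P.nil)))))) 52671)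
 EL.nil)
noncomputable def S343_372_364_512_29 : EL := (EL.cons 13 (TM.mk (P.cons (P.cons (P.lf 0 54868199 0) (P.cons (P.lf 59749849 0 0) (P.cons (P.lf 0 12271720 0) (P.cons (P.lf 0 3506652 0) (P.cons (P.lf 652314 0 0) (P.cons (P.lf 48473 0 0) P.nil)))))) (P.cons (P.cons (P.lf 0 84344658 0) (P.cons (P.lf 24988910 0 0) (P.cons (P.lf 13069777 0 0) (P.cons (P.lf 967329 0 0) (P.cons (P.lf 0 457123 0) P.nil))))) (P.cons (P.cons (P.lf 0 40368860 0) (P.cons (P.lf 0 9827921 0) (P.cons (P.lf 0 3706123 0) (P.cons (P.lf 0 188680 0) P.nil)))) (P.cons (P.cons (P.lf 0 4362780 0) (P.cons (P.lf 0 867224 0) (P.cons (P.lf 245895 0 0) P.nil))) (P.cons (P.cons (P.lf 1065191 0 0) (P.cons (P.lf 531261 0 0) P.nil)) (P.cons (P.cons (P.lf 116752 0 0) P.nil) P.nil)))))) 643433)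
 EL.nil)
noncomputable def S343_372_364_512_30 : EL := (EL.cons 13 (TM.mk (P.cons (P.lf 0 2846448260 0) (P.cons (P.lf 0 273072892 0) (P.cons (P.lf 22353452 0 0) (P.cons (P.lf 0 133644 0) (P.cons (P.lf 0 68648 0) (P.cons (P.lf 3668 0 0) P.nil)))))) 396)
 EL.nil)
noncomputable def S343_372_364_512_31 : EL := (EL.cons 13 (TM.mk (P.cons (P.cons (P.lf 0 321724191 0) (P.cons (P.lf 175174074 0 0) (P.cons (P.lf 11711727 0 0) (P.lf 0 3903909 0)))) (P.cons (P.cons (P.lf 0 278145398 0) (P.cons (P.lf 0 44573288 0) (P.cons (P.lf 0 2980064 0) (P.lf 993352 0 0)))) (P.cons (P.cons (P.lf 0 44517850 0) (P.cons (P.lf 0 1599404 0) (P.cons (P.lf 0 106934 0) (P.lf 35645 0 0)))) (P.cons (P.cons (P.lf 4823947 0 0) (P.cons (P.lf 1382222 0 0) (P.cons (P.lf 92410 0 0) P.nil))) (P.cons (P.cons (P.lf 678135 0 0) (P.cons (P.lf 0 98377 0) P.nil)) (P.cons (P.cons (P.lf 0 91521 0) P.nil) P.nil))))))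 89389)
 EL.nil)
noncomputable def S343_372_364_512_32 : EL := (EL.cons 13 (TM.mk (P.cons (P.cons (P.lf 0 36363371 0) (P.cons (P.lf 39598637 0 0) (P.cons (P.lf 0 8132964 0) (P.cons (P.lf 0 2323999 0) (P.cons (P.lf 432314 0 0) (P.cons (P.lf 32125 0 0) P.nil)))))) (P.cons (P.cons (P.lf 0 59387116 0) (P.cons (P.lf 20360039 0 0) (P.cons (P.lf 7881636 0 0) (P.cons (P.lf 418135 0 0) (P.cons (P.lf 0 261479 0) P.nil))))) (P.cons (P.cons (P.lf 0 31831119 0) (P.cons (P.lf 0 5235543 0) (P.cons (P.lf 0 1561355 0) (P.cons (P.lf 0 45292 0) P.nil)))) (P.cons (P.cons (P.lf 0 5020761 0) (P.cons (P.lf 0 1327798 0) (P.cons (P.lf 0 141074 0) P.nil))) (P.cons (P.cons (P.lf 635161 0 0) (P.cons (P.lf 349832 0 0) P.nil)) (P.cons (P.cons (P.lf 165249 0 0) P.nil) P.nil)))))) 621116)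
 EL.nil)
noncomputable def S343_372_364_512_33 : EL := (EL.cons 14 (TM.mk (P.lf 8589934592 0 0) 0)
 EL.nil)
noncomputable def S343_372_364_512_34 : EL := (EL.cons 14 (TM.mk (P.cons (P.cons (P.lf 970890566 0 0) (P.cons (P.lf 0 528635584 0) (P.cons (P.lf 0 35343336 0) (P.lf 11781112 0 0)))) (P.cons (P.cons (P.lf 746237658 0 0) (P.cons (P.lf 185226512 0 0) (P.cons (P.lf 12383808 0 0) (P.lf 0 4127928 0)))) (P.cons (P.cons (P.lf 70379254 0 0) (P.cons (P.lf 0 17094424 0) (P.cons (P.lf 0 1142888 0) (P.lf 380960 0 0)))) (P.cons (P.cons (P.lf 0 15494688 0) (P.cons (P.lf 0 1051864 0) (P.cons (P.lf 0 70320 0) P.nil))) (P.cons (P.cons (P.lf 0 65738 0) (P.cons (P.lf 267600 0 0) P.nil)) (P.cons (P.cons (P.lf 140766 0 0) P.nil) P.nil)))))) 105342)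
 EL.nil)
noncomputable def S343_372_364_512_35 : EL := (EL.cons 14 (TM.mk (P.cons (P.cons (P.lf 109736398 0 0) (P.cons (P.lf 0 119499698 0) (P.cons (P.lf 24543440 0 0) (P.cons (P.lf 7013304 0 0) (P.cons (P.lf 0 1304628 0) (P.cons (P.lf 0 96946 0) P.nil)))))) (P.cons (P.cons (P.lf 168689316 0 0) (P.cons (P.lf 0 49977820 0) (P.cons (P.lf 0 26139554 0) (P.cons (P.lf 0 1934658 0) (P.cons (P.lf 914246 0 0) P.nil))))) (P.cons (P.cons (P.lf 80737720 0 0) (P.cons (P.lf 19655842 0 0) (P.cons (P.lf 7412246 0 0) (P.cons (P.lf 377360 0 0) P.nil)))) (P.cons (P.cons (P.lf 8725560 0 0) (P.cons (P.lf 1734448 0 0) (P.cons (P.lf 0 491790 0) P.nil))) (P.cons (P.cons (P.lf 0 2130382 0) (P.cons (P.lf 0 1062522 0) P.nil)) (P.cons (P.cons (P.lf 0 233504 0) P.nil) P.nil)))))) 1286866)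
 EL.nil)
noncomputable def S343_372_364_512_36 : EL := (EL.cons 14 (TM.mk (P.cons (P.lf 5692896520 0 0) (P.cons (P.lf 546145784 0 0) (P.cons (P.lf 0 44706904 0) (P.cons (P.lf 267288 0 0) (P.cons (P.lf 137296 0 0) (P.cons (P.lf 0 7336 0) P.nil)))))) 792)
 EL.nil)
noncomputable def S343_372_364_512_37 : EL := (EL.cons 14 (TM.mk (P.cons (P.cons (P.lf 643448382 0 0) (P.cons (P.lf 0 350348148 0) (P.cons (P.lf 0 23423454 0) (P.lf 7807818 0 0)))) (P.cons (P.cons (P.lf 556290796 0 0) (P.cons (P.lf 89146576 0 0) (P.cons (P.lf 5960128 0 0) (P.lf 0 1986704 0)))) (P.cons (P.cons (P.lf 89035700 0 0) (P.cons (P.lf 3198808 0 0) (P.cons (P.lf 213868 0 0) (P.lf 0 71290 0)))) (P.cons (P.cons (P.lf 0 9647894 0) (P.cons (P.lf 0 2764444 0) (P.cons (P.lf 0 184820 0) P.nil))) (P.cons (P.cons (P.lf 0 1356270 0) (P.cons (P.lf 196754 0 0) P.nil)) (P.cons (P.cons (P.lf 183042 0 0) P.nil) P.nil))))))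 178778)
 EL.nil)
noncomputable def S343_372_364_512_38 : EL := (EL.cons 14 (TM.mk (P.cons (P.cons (P.lf 72726742 0 0) (P.cons (P.lf 0 79197274 0) (P.cons (P.lf 16265928 0 0) (P.cons (P.lf 4647998 0 0) (P.cons (P.lf 0 864628 0) (P.cons (P.lf 0 64250 0) P.nil)))))) (P.cons (P.cons (P.lf 118774232 0 0) (P.cons (P.lf 0 40720078 0) (P.cons (P.lf 0 15763272 0) (P.cons (P.lf 0 836270 0) (P.cons (P.lf 522958 0 0) P.nil))))) (P.cons (P.cons (P.lf 63662238 0 0) (P.cons (P.lf 10471086 0 0) (P.cons (P.lf 3122710 0 0) (P.cons (P.lf 90584 0 0) P.nil)))) (P.cons (P.cons (P.lf 10041522 0 0) (P.cons (P.lf 2655596 0 0) (P.cons (P.lf 282148 0 0) P.nil))) (P.cons (P.cons (P.lf 0 1270322 0) (P.cons (P.lf 0 699664 0) P.nil)) (P.cons (P.cons (P.lf 0 330498 0) P.nil) P.nil)))))) 1242232)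
 EL.nil)
noncomputable def S343_372_364_512_39 : EL := (EL.cons 14 (TM.mk (P.cons (P.lf 3772912404 0 0) (P.cons (P.lf 723905728 0 0) (P.cons (P.lf 0 24534334 0) (P.cons (P.lf 0 5330620 0) (P.cons (P.lf 448650 0 0) (P.cons (P.lf 4952 0 0) P.nil)))))) 3630)
 EL.nil)
noncomputable def S343_372_364_512_40 : EL := (EL.cons 14 (TM.mk (P.cons (P.cons (P.lf 426439226 0 0) (P.cons (P.lf 0 232189864 0) (P.cons (P.lf 0 15523670 0) (P.lf 5174556 0 0)))) (P.cons (P.cons (P.lf 409586652 0 0) (P.cons (P.lf 36805992 0 0) (P.cons (P.lf 2460760 0 0) (P.lf 0 820250 0)))) (P.cons (P.cons (P.lf 91027504 0 0) (P.cons (P.lf 9611306 0 0) (P.cons (P.lf 642590 0 0) (P.lf 0 214196 0)))) (P.cons (P.cons (P.lf 0 3608414 0) (P.cons (P.lf 0 2103600 0) (P.cons (P.lf 0 140638 0) P.nil))) (P.cons (P.cons (P.lf 0 1948064 0) (P.cons (P.lf 0 64838 0) P.nil)) (P.cons (P.cons (P.lf 96402 0 0) P.nil) P.nil))))))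 208998)
 EL.nil)
noncomputable def S343_372_364_512_41 : EL := (EL.cons 14 (TM.mk (P.cons (P.cons (P.lf 48198948 0 0) (P.cons (P.lf 0 52487232 0) (P.cons (P.lf 10780086 0 0) (P.cons (P.lf 3080416 0 0) (P.cons (P.lf 0 573024 0) (P.cons (P.lf 0 42580 0) P.nil)))))) (P.cons (P.cons (P.lf 83340426 0 0) (P.cons (P.lf 0 32022182 0) (P.cons (P.lf 0 9412772 0) (P.cons (P.lf 0 258712 0) (P.cons (P.lf 291612 0 0) P.nil))))) (P.cons (P.cons (P.lf 49364658 0 0) (P.cons (P.lf 4762828 0 0) (P.cons (P.lf 982664 0 0) (P.cons (P.lf 0 17326 0) P.nil)))) (P.cons (P.cons (P.lf 10086644 0 0) (P.cons (P.lf 2635186 0 0) (P.cons (P.lf 468078 0 0) P.nil))) (P.cons (P.cons (P.lf 0 529932 0) (P.cons (P.lf 0 351884 0) P.nil)) (P.cons (P.cons (P.lf 0 348246 0) P.nil) P.nil)))))) 1058458)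
 EL.nil)
noncomputable def S343_372_364_512_42 : EL := (EL.cons 14 (TM.mk (P.cons (P.lf 2500461402 0 0) (P.cons (P.lf 719642336 0 0) (P.cons (P.lf 10129460 0 0) (P.cons (P.lf 0 8742920 0) (P.cons (P.lf 168938 0 0) (P.cons (P.lf 67134 0 0) P.nil)))))) 7070)
 EL.nil)
noncomputable def S343_372_364_512_43 : EL := (EL.cons 14 (TM.mk (P.cons (P.cons (P.lf 282618494 0 0) (P.cons (P.lf 0 153881598 0) (P.cons (P.lf 0 10288162 0) (P.lf 3429386 0 0)))) (P.cons (P.cons (P.lf 298562508 0 0) (P.cons (P.lf 9630246 0 0) (P.cons (P.lf 643854 0 0) (P.lf 0 214616 0)))) (P.cons (P.cons (P.lf 84149582 0 0) (P.cons (P.lf 9918364 0 0) (P.cons (P.lf 663118 0 0) (P.lf 0 221040 0)))) (P.cons (P.cons (P.lf 1277610 0 0) (P.cons (P.lf 0 981840 0) (P.cons (P.lf 0 65640 0) P.nil))) (P.cons (P.cons (P.lf 0 1974680 0) (P.cons (P.lf 0 229306 0) P.nil)) (P.cons (P.cons (P.lf 0 32170 0) P.nil) P.nil))))))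 207328)
 EL.nil)
noncomputable def S343_372_364_512_44 : EL := (EL.cons 14 (TM.mk (P.cons (P.cons (P.lf 31943388 0 0) (P.cons (P.lf 0 34785408 0) (P.cons (P.lf 7144398 0 0) (P.cons (P.lf 2041516 0 0) (P.cons (P.lf 0 379766 0) (P.cons (P.lf 0 28220 0) P.nil)))))) (P.cons (P.cons (P.lf 58297542 0 0) (P.cons (P.lf 0 24559516 0) (P.cons (P.lf 0 5552830 0) (P.cons (P.lf 24392 0 0) (P.cons (P.lf 156830 0 0) P.nil))))) (P.cons (P.cons (P.lf 37763860 0 0) (P.cons (P.lf 1393730 0 0) (P.cons (P.lf 0 3314 0) (P.cons (P.lf 0 43962 0) P.nil)))) (P.cons (P.cons (P.lf 9391168 0 0) (P.cons (P.lf 2214292 0 0) (P.cons (P.lf 422016 0 0) P.nil))) (P.cons (P.cons (P.lf 36538 0 0) (P.cons (P.lf 0 92286 0) P.nil)) (P.cons (P.cons (P.lf 0 314160 0) P.nil) P.nil)))))) 862140)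
 EL.nil)
noncomputable def S343_372_364_512_45 : EL := (EL.cons 14 (TM.mk (P.cons (P.cons (P.lf 12403124 0 0) (P.cons (P.lf 0 20259954 0) (P.cons (P.lf 9676712 0 0) (P.cons (P.lf 0 75558 0) (P.cons (P.lf 0 843942 0) (P.cons (P.lf 74136 0 0) P.nil)))))) (P.cons (P.cons (P.lf 28599552 0 0) (P.cons (P.lf 0 24045264 0) (P.cons (P.lf 0 859256 0) (P.cons (P.lf 2740478 0 0) (P.cons (P.lf 392102 0 0) P.nil))))) (P.cons (P.cons (P.lf 24679230 0 0) (P.cons (P.lf 0 4648804 0) (P.cons (P.lf 0 3385082 0) (P.cons (P.lf 0 1239102 0) P.nil)))) (P.cons (P.cons (P.lf 9184352 0 0) (P.cons (P.lf 2564530 0 0) (P.cons (P.lf 818250 0 0) P.nil))) (P.cons (P.cons (P.lf 873606 0 0) (P.cons (P.lf 424040 0 0) P.nil)) (P.cons (P.cons (P.lf 0 285104 0) P.nil) P.nil)))))) 2218272)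
 EL.nil)
noncomputable def S343_372_364_512_46 : EL := (EL.cons 15 (TM.mk (P.lf 4294967296 0 0) 0)
 EL.nil)
noncomputable def S343_372_364_512_47 : EL := (EL.cons 15 (TM.mk (P.cons (P.cons (P.lf 485445283 0 0) (P.cons (P.lf 0 264317792 0) (P.cons (P.lf 0 17671668 0) (P.lf 5890556 0 0)))) (P.cons (P.cons (P.lf 373118829 0 0) (P.cons (P.lf 92613256 0 0) (P.cons (P.lf 6191904 0 0) (P.lf 0 2063964 0)))) (P.cons (P.cons (P.lf 35189627 0 0) (P.cons (P.lf 0 8547212 0) (P.cons (P.lf 0 571444 0) (P.lf 190480 0 0)))) (P.cons (P.cons (P.lf 0 7747344 0) (P.cons (P.lf 0 525932 0) (P.cons (P.lf 0 35160 0) P.nil))) (P.cons (P.cons (P.lf 0 32869 0) (P.cons (P.lf 133800 0 0) P.nil)) (P.cons (P.cons (P.lf 70383 0 0) P.nil) P.nil)))))) 52671)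
 EL.nil)
noncomputable def S343_372_364_512_48 : EL := (EL.cons 15 (TM.mk (P.cons (P.cons (P.lf 54868199 0 0) (P.cons (P.lf 0 59749849 0) (P.cons (P.lf 12271720 0 0) (P.cons (P.lf 3506652 0 0) (P.cons (P.lf 0 652314 0) (P.cons (P.lf 0 48473 0) P.nil)))))) (P.cons (P.cons (P.lf 84344658 0 0) (P.cons (P.lf 0 24988910 0) (P.cons (P.lf 0 13069777 0) (P.cons (P.lf 0 967329 0) (P.cons (P.lf 457123 0 0) P.nil))))) (P.cons (P.cons (P.lf 40368860 0 0) (P.cons (P.lf 9827921 0 0) (P.cons (P.lf 3706123 0 0) (P.cons (P.lf 188680 0 0) P.nil)))) (P.cons (P.cons (P.lf 4362780 0 0) (P.cons (P.lf 867224 0 0) (P.cons (P.lf 0 245895 0) P.nil))) (P.cons (P.cons (P.lf 0 1065191 0) (P.cons (P.lf 0 531261 0) P.nil)) (P.cons (P.cons (P.lf 0 116752 0) P.nil) P.nil)))))) 643433)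
 EL.nil)
noncomputable def S343_372_364_512 : SL := (SL.cons S343_372_364_512_0 (SL.cons S343_372_364_512_1 (SL.cons S343_372_364_512_2 (SL.cons S343_372_364_512_3 (SL.cons S343_372_364_512_4 (SL.cons S343_372_364_512_5 (SL.cons S343_372_364_512_6 (SL.cons S343_372_364_512_7 (SL.cons S343_372_364_512_8 (SL.cons S343_372_364_512_9 (SL.cons S343_372_364_512_10 (SL.cons S343_372_364_512_11 (SL.cons S343_372_364_512_12 (SL.cons S343_372_364_512_13 (SL.cons S343_372_364_512_14 (SL.cons S343_372_364_512_15 (SL.cons S343_372_364_512_16 (SL.cons S343_372_364_512_17 (SL.cons S343_372_364_512_18 (SL.cons S343_372_364_512_19 (SL.cons S343_372_364_512_20 (SL.cons S343_372_364_512_21 (SL.cons S343_372_364_512_22 (SL.cons S343_372_364_512_23 (SL.cons S343_372_364_512_24 (SL.cons S343_372_364_512_25 (SL.cons S343_372_364_512_26 (SL.cons S343_372_364_512_27 (SL.cons S343_372_364_512_28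 (SL.cons S343_372_364_512_29 (SL.cons S343_372_364_512_30 (SL.cons S343_372_364_512_31 (SL.cons S343_372_364_512_32 (SL.cons S343_372_364_512_33 (SL.cons S343_372_364_512_34 (SL.cons S343_372_364_512_35 (SL.cons S343_372_364_512_36 (SL.cons S343_372_364_512_37 (SL.cons S343_372_364_512_38 (SL.cons S343_372_364_512_39 (SL.cons S343_372_364_512_40 (SL.cons S343_372_364_512_41 (SL.cons S343_372_364_512_42 (SL.cons S343_372_364_512_43 (SL.cons S343_372_364_512_44 (SL.cons S343_372_364_512_45 (SL.cons S343_372_364_512_46 (SL.cons S343_372_364_512_47 (SL.cons S343_372_364_512_48 SL.nil)))))))))))))))))))))))))))))))))))))))))))))))))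
theorem S343_357_660_734_ok : band (seq (shp 5 343 357 660 734) S343_357_660_734) (sok S343_357_660_734) = true := by decide +kernel

theorem S343_357_660_808_ok : band (seq (shp 5 343 357 660 808) S343_357_660_808) (sok S343_357_660_808) = true := by decide +kernel

theorem S343_357_734_808_ok : band (seq (shp 5 343 357 734 808) S343_357_734_808) (sok S343_357_734_808) = true := by decide +kernel

theorem S343_372_216_364_ok : band (seq (shp 5 343 372 216 364) S343_372_216_364) (sok S343_372_216_364) = true := by decide +kernel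

theorem S343_372_364_438_ok : band (seq (shp 5 343 372 364 438) S343_372_364_438) (sok S343_372_364_438) = true := by decide +kernel

theorem S343_372_364_512_ok : band (seq (shp 5 343 372 364 512) S343_372_364_512) (sok S343_372_364_512) = true := by decide +kernel

end Vale.Agent.P098.Ck
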