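import Vale.Agent.P098.CkDefs

namespace Vale.Agent.P098.Ck

noncomputable def S357_372_660_808_0 : EL := (EL.cons 0 (TM.mk (P.cons (P.lf 4838058774 0 0) (P.cons (P.lf 0 316721411 0) (P.cons (P.lf 7436009 0 0) (P.cons (P.lf 542221 0 0) (P.cons (P.lf 0 28448 0) (P.cons (P.lf 47 0 0) P.nil)))))) 217)
 (EL.cons 1 (TM.mk (P.cons (P.lf 1765090931 0 0) (P.cons (P.lf 0 38136785 0) (P.cons (P.lf 0 9619957 0) (P.cons (P.lf 331850 0 0) (P.cons (P.lf 6553 0 0) (P.cons (P.lf 0 667 0) P.nil)))))) 140)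
 (EL.cons 5 (TM.mk (P.cons (P.lf 5581245734 0 0) (P.cons (P.lf 112612058 0 0) (P.cons (P.lf 0 2643916 0) (P.cons (P.lf 0 192788 0) (P.cons (P.lf 10114 0 0) (P.cons (P.lf 0 20 0) P.nil)))))) 95)
 (EL.cons 9 (TM.mk (P.lf 6442450944 0 0) 2)
 EL.nil))))
noncomputable def S357_372_660_808_1 : EL := (EL.cons 0 (TM.mk (P.cons (P.cons (P.lf 4565629961 0 0) (P.cons (P.lf 144385501 0 0) (P.cons (P.lf 0 62260654 0) (P.lf 0 6917840 0)))) (P.cons (P.cons (P.lf 376255247 0 0) (P.cons (P.lf 2091077 0 0) (P.cons (P.lf 0 901696 0) (P.lf 0 100197 0)))) (P.cons (P.cons (P.lf 0 100815030 0) (P.cons (P.lf 0 5088178 0) (P.cons (P.lf 2194080 0 0) (P.lf 243789 0 0)))) (P.cons (P.cons (P.lf 1823529 0 0) (P.cons (P.lf 448194 0 0) (P.cons (P.lf 0 193255 0) P.nil))) (P.cons (P.cons (P.lf 523557 0 0) (P.cons (P.lf 4762 0 0) P.nil)) (P.cons (P.cons (P.lf 0 27749 0) P.nil) P.nil)))))) 72338)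
 (EL.cons 1 (TM.mk (P.cons (P.cons (P.lf 512673627 0 0) (P.cons (P.lf 0 11000617 0) (P.cons (P.lf 4743587 0 0) (P.lf 527058 0 0)))) (P.cons (P.cons (P.lf 459358028 0 0) (P.cons (P.lf 23118410 0 0) (P.cons (P.lf 0 9968916 0) (P.lf 0 1107649 0)))) (P.cons (P.cons (P.lf 0 12757638 0) (P.cons (P.lf 0 2397015 0) (P.cons (P.lf 1033618 0 0) (P.lf 114838 0 0)))) (P.cons (P.cons (P.lf 0 4598090 0) (P.cons (P.lf 0 102432 0) (P.cons (P.lf 44166 0 0) P.nil))) (P.cons (P.cons (P.lf 213224 0 0) (P.cons (P.lf 21746 0 0) P.nil)) (P.cons (P.cons (P.lf 12718 0 0) P.nil) P.nil)))))) 36235)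
 (EL.cons 5 (TM.mk (P.cons (P.cons (P.lf 0 1852276339 0) (P.cons (P.lf 0 226605170 0) (P.cons (P.lf 97714706 0 0) (P.lf 10857188 0 0)))) (P.cons (P.cons (P.lf 488700921 0 0) (P.cons (P.lf 33633858 0 0) (P.cons (P.lf 0 14503300 0) (P.lf 0 1611474 0)))) (P.cons (P.cons (P.lf 31635743 0 0) (P.cons (P.lf 0 121792 0) (P.cons (P.lf 52520 0 0) (P.lf 5838 0 0)))) (P.cons (P.cons (P.lf 0 2688892 0) (P.cons (P.lf 0 189928 0) (P.cons (P.lf 81894 0 0) P.nil))) (P.cons (P.cons (P.lf 0 117639 0) (P.cons (P.lf 5148 0 0) P.nil)) (P.cons (P.cons (P.lf 12142 0 0) P.nil) P.nil)))))) 31057)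
 (EL.cons 9 (TM.mk (P.cons (P.cons (P.lf 0 202006969 0) (P.cons (P.lf 0 154648320 0) (P.cons (P.lf 66686100 0 0) (P.lf 7409562 0 0)))) (P.cons (P.cons (P.lf 549247551 0 0) (P.cons (P.lf 30332952 0 0) (P.cons (P.lf 0 13079910 0) (P.lf 0 1453320 0)))) (P.cons (P.cons (P.lf 0 3714351 0) (P.cons (P.lf 0 1703748 0) (P.cons (P.lf 734676 0 0) (P.lf 81624 0 0)))) (P.cons (P.cons (P.lf 0 1800456 0) (P.cons (P.lf 0 26976 0) (P.cons (P.lf 11628 0 0) P.nil))) (P.cons (P.cons (P.lf 60447 0 0) (P.cons (P.lf 6030 0 0) P.nil)) (P.cons (P.cons (P.lf 2010 0 0) P.nil) P.nil)))))) 8351)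
 (EL.cons 2 (TM.mk (P.cons (P.cons (P.lf 0 331146368 0) (P.cons (P.lf 308493475 0 0) (P.cons (P.lf 31661465 0 0) (P.cons (P.lf 0 6584700 0) (P.lf 0 548721 0))))) (P.cons (P.cons (P.lf 28805307 0 0) (P.cons (P.lf 0 26834807 0) (P.cons (P.lf 0 2754120 0) (P.cons (P.lf 572779 0 0) (P.lf 47728 0 0))))) (P.cons (P.cons (P.lf 1536451 0 0) (P.cons (P.lf 0 1431348 0) (P.cons (P.lf 0 146902 0) (P.cons (P.lf 30552 0 0) P.nil)))) (P.cons (P.cons (P.lf 0 208589 0) (P.cons (P.lf 194318 0 0) (P.cons (P.lf 19940 0 0) P.nil))) (P.cons (P.cons (P.lf 2702 0 0) (P.cons (P.lf 0 2517 0) P.nil)) (P.cons (P.cons (P.lf 374 0 0) P.nil) P.nil)))))) 12294)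
 (EL.cons 6 (TM.mk (P.cons (P.cons (P.lf 161569566 0 0) (P.cons (P.lf 0 150516996 0) (P.cons (P.lf 0 15447939 0) (P.cons (P.lf 3212739 0 0) (P.lf 267726 0 0))))) (P.cons (P.cons (P.lf 0 31690497 0) (P.cons (P.lf 29522628 0 0) (P.cons (P.lf 3029979 0 0) (P.cons (P.lf 0 630150 0) (P.lf 0 52509 0))))) (P.cons (P.cons (P.lf 1780002 0 0) (P.cons (P.lf 0 1658235 0) (P.cons (P.lf 0 170187 0) (P.cons (P.lf 35394 0 0) P.nil)))) (P.cons (P.cons (P.lf 28185 0 0) (P.cons (P.lf 0 26256 0) (P.cons (P.lf 0 2694 0) P.nil))) (P.cons (P.cons (P.lf 0 6303 0) (P.cons (P.lf 5871 0 0) P.nil)) (P.cons (P.cons (P.lf 162 0 0) P.nil) P.nil)))))) 6399)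
 EL.nil))))))
noncomputable def S357_372_660_808_2 : EL := (EL.cons 0 (TM.mk (P.cons (P.cons (P.lf 0 291072861 0) (P.cons (P.lf 0 235529627 0) (P.cons (P.lf 91843418 0 0) (P.cons (P.lf 19667176 0 0) (P.cons (P.lf 0 875906 0) (P.cons (P.lf 0 401620 0) P.nil)))))) (P.cons (P.cons (P.lf 781062659 0 0) (P.cons (P.lf 71124248 0 0) (P.cons (P.lf 0 28134249 0) (P.cons (P.lf 0 5594244 0) (P.cons (P.lf 228472 0 0) P.nil))))) (P.cons (P.cons (P.lf 28172414 0 0) (P.cons (P.lf 978195 0 0) (P.cons (P.lf 0 478762 0) (P.cons (P.lf 2229 0 0) P.nil)))) (P.cons (P.cons (P.lf 0 17546419 0) (P.cons (P.lf 0 1774577 0) (P.cons (P.lf 716940 0 0) P.nil))) (P.cons (P.cons (P.lf 424512 0 0) (P.cons (P.lf 135900 0 0) P.nil)) (P.cons (P.cons (P.lf 127271 0 0) P.nil) P.nil)))))) 962509)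
 (EL.cons 1 (TM.mk (P.cons (P.cons (P.lf 0 33885781 0) (P.cons (P.lf 0 26580262 0) (P.cons (P.lf 10972759 0 0) (P.cons (P.lf 1695205 0 0) (P.cons (P.lf 0 44068 0) (P.cons (P.lf 0 20205 0) P.nil)))))) (P.cons (P.cons (P.lf 68082900 0 0) (P.cons (P.lf 0 12748158 0) (P.cons (P.lf 4704623 0 0) (P.cons (P.lf 1294281 0 0) (P.cons (P.lf 0 71417 0) P.nil))))) (P.cons (P.cons (P.lf 65446005 0 0) (P.cons (P.lf 7123771 0 0) (P.cons (P.lf 0 2797870 0) (P.cons (P.lf 0 577591 0) P.nil)))) (P.cons (P.cons (P.lf 0 2333772 0) (P.cons (P.lf 0 514814 0) (P.cons (P.lf 195208 0 0) P.nil))) (P.cons (P.cons (P.lf 0 876279 0) (P.cons (P.lf 0 64405 0) P.nil)) (P.cons (P.cons (P.lf 48573 0 0) P.nil) P.nil)))))) 440542)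
 (EL.cons 5 (TM.mk (P.cons (P.cons (P.lf 110671152 0 0) (P.cons (P.lf 94735140 0 0) (P.cons (P.lf 0 33187756 0) (P.cons (P.lf 0 11147805 0) (P.cons (P.lf 690575 0 0) (P.cons (P.lf 316633 0 0) P.nil)))))) (P.cons (P.cons (P.lf 0 316747681 0) (P.cons (P.lf 0 57329233 0) (P.cons (P.lf 22169126 0 0) (P.cons (P.lf 4947567 0 0) (P.cons (P.lf 0 229957 0) P.nil))))) (P.cons (P.cons (P.lf 43316355 0 0) (P.cons (P.lf 5837026 0 0) (P.cons (P.lf 0 2242184 0) (P.cons (P.lf 0 516660 0) P.nil)))) (P.cons (P.cons (P.lf 5648911 0 0) (P.cons (P.lf 361950 0 0) (P.cons (P.lf 0 155632 0) P.nil))) (P.cons (P.cons (P.lf 0 500733 0) (P.cons (P.lf 0 74239 0) P.nil)) (P.cons (P.cons (P.lf 0 31351 0) P.nil) P.nil)))))) 479874)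
 (EL.cons 9 (TM.mk (P.cons (P.cons (P.lf 6334050 0 0) (P.cons (P.lf 9698184 0 0) (P.cons (P.lf 0 469698 0) (P.cons (P.lf 0 3666205 0) (P.cons (P.lf 334543 0 0) (P.cons (P.lf 153393 0 0) P.nil)))))) (P.cons (P.cons (P.lf 0 34443981 0) (P.cons (P.lf 0 28271127 0) (P.cons (P.lf 10734568 0 0) (P.cons (P.lf 2610445 0 0) (P.cons (P.lf 0 131235 0) P.nil))))) (P.cons (P.cons (P.lf 47058723 0 0) (P.cons (P.lf 5457204 0 0) (P.cons (P.lf 0 2128596 0) (P.cons (P.lf 0 455176 0) P.nil)))) (P.cons (P.cons (P.lf 0 520420 0) (P.cons (P.lf 0 237349 0) (P.cons (P.lf 87600 0 0) P.nil))) (P.cons (P.cons (P.lf 0 308641 0) (P.cons (P.lf 0 22869 0) P.nil)) (P.cons (P.cons (P.lf 12256 0 0) P.nil) P.nil)))))) 207124)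
 (EL.cons 2 (TM.mk (P.cons (P.cons (P.lf 20766588 0 0) (P.cons (P.lf 0 3447939 0) (P.cons (P.lf 0 23651460 0) (P.cons (P.lf 4517640 0 0) (P.cons (P.lf 1715596 0 0) (P.cons (P.lf 0 37141 0) P.nil)))))) (P.cons (P.cons (P.lf 0 58269808 0) (P.cons (P.lf 49782532 0 0) (P.cons (P.lf 11705506 0 0) (P.cons (P.lf 0 2320824 0) (P.cons (P.lf 0 572546 0) P.nil))))) (P.cons (P.cons (P.lf 5197044 0 0) (P.cons (P.lf 0 4468899 0) (P.cons (P.lf 0 1004720 0) (P.cons (P.lf 199546 0 0) P.nil)))) (P.cons (P.cons (P.lf 426931 0 0) (P.cons (P.lf 0 385706 0) (P.cons (P.lf 0 57195 0) P.nil))) (P.cons (P.cons (P.lf 0 59821 0) (P.cons (P.lf 51958 0 0) P.nil)) (P.cons (P.cons (P.lf 151 0 0) P.nil) P.nil)))))) 220212)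
 (EL.cons 6 (TM.mk (P.cons (P.cons (P.lf 0 10132218 0) (P.cons (P.lf 1682280 0 0) (P.cons (P.lf 11539776 0 0) (P.cons (P.lf 0 2204196 0) (P.cons (P.lf 0 837054 0) (P.cons (P.lf 18120 0 0) P.nil)))))) (P.cons (P.cons (P.lf 29536392 0 0) (P.cons (P.lf 0 24473016 0) (P.cons (P.lf 0 6970854 0) (P.cons (P.lf 1372950 0 0) (P.cons (P.lf 370716 0 0) P.nil))))) (P.cons (P.cons (P.lf 0 5701434 0) (P.cons (P.lf 4842090 0 0) (P.cons (P.lf 1184724 0 0) (P.cons (P.lf 0 234546 0) P.nil)))) (P.cons (P.cons (P.lf 247968 0 0) (P.cons (P.lf 0 200190 0) (P.cons (P.lf 0 65700 0) P.nil))) (P.cons (P.cons (P.lf 23892 0 0) (P.cons (P.lf 0 22062 0) P.nil)) (P.cons (P.cons (P.lf 0 2604 0) P.nil) P.nil)))))) 169596)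
 EL.nil))))))
noncomputable def S357_372_660_808_3 : EL := (EL.cons 0 (TM.mk (P.cons (P.lf 3617658089 0 0) (P.cons (P.lf 316721411 0 0) (P.cons (P.lf 0 7436009 0) (P.cons (P.lf 0 542221 0) (P.cons (P.lf 28448 0 0) (P.cons (P.lf 0 47 0) P.nil)))))) 217)
 (EL.cons 1 (TM.mk (P.cons (P.lf 0 1765090931 0) (P.cons (P.lf 38136785 0 0) (P.cons (P.lf 9619957 0 0) (P.cons (P.lf 0 331850 0) (P.cons (P.lf 0 6553 0) (P.cons (P.lf 667 0 0) P.nil)))))) 140)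
 (EL.cons 5 (TM.mk (P.cons (P.lf 861205210 0 0) (P.cons (P.lf 0 112612058 0) (P.cons (P.lf 2643916 0 0) (P.cons (P.lf 192788 0 0) (P.cons (P.lf 0 10114 0) (P.cons (P.lf 20 0 0) P.nil)))))) 88)
 EL.nil)))
noncomputable def S357_372_660_808_4 : EL := (EL.cons 0 (TM.mk (P.cons (P.cons (P.lf 0 113433869 0) (P.cons (P.lf 0 86840356 0) (P.cons (P.lf 37446540 0 0) (P.lf 4160722 0 0)))) (P.cons (P.cons (P.lf 298490422 0 0) (P.cons (P.lf 9430231 0 0) (P.cons (P.lf 0 4066421 0) (P.lf 0 451822 0)))) (P.cons (P.cons (P.lf 25149331 0 0) (P.cons (P.lf 713002 0 0) (P.cons (P.lf 0 307453 0) (P.lf 0 34164 0)))) (P.cons (P.cons (P.lf 0 1810571 0) (P.cons (P.lf 0 120900 0) (P.cons (P.lf 52131 0 0) P.nil))) (P.cons (P.cons (P.lf 0 97400 0) (P.cons (P.lf 789 0 0) P.nil)) (P.cons (P.cons (P.lf 8917 0 0) P.nil) P.nil)))))) 15693)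
 (EL.cons 1 (TM.mk (P.cons (P.cons (P.lf 55345498 0 0) (P.cons (P.lf 42370263 0 0) (P.cons (P.lf 0 18270534 0) (P.lf 0 2030056 0)))) (P.cons (P.cons (P.lf 0 151677641 0) (P.cons (P.lf 0 9226021 0) (P.cons (P.lf 3978363 0 0) (P.lf 442038 0 0)))) (P.cons (P.cons (P.lf 3967340 0 0) (P.cons (P.lf 415425 0 0) (P.cons (P.lf 0 179135 0) (P.lf 0 19901 0)))) (P.cons (P.cons (P.lf 1301846 0 0) (P.cons (P.lf 50563 0 0) (P.cons (P.lf 0 21802 0) P.nil))) (P.cons (P.cons (P.lf 0 60851 0) (P.cons (P.lf 0 5760 0) P.nil)) (P.cons (P.cons (P.lf 0 3268 0) P.nil) P.nil)))))) 7819)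
 (EL.cons 5 (TM.mk (P.cons (P.cons (P.lf 0 27003612 0) (P.cons (P.lf 0 20672866 0) (P.cons (P.lf 8914372 0 0) (P.lf 990484 0 0)))) (P.cons (P.cons (P.lf 76952586 0 0) (P.cons (P.lf 6758010 0 0) (P.cons (P.lf 0 2914130 0) (P.lf 0 323790 0)))) (P.cons (P.cons (P.lf 0 10180100 0) (P.cons (P.lf 0 821426 0) (P.cons (P.lf 354208 0 0) (P.lf 39354 0 0)))) (P.cons (P.cons (P.lf 43606 0 0) (P.cons (P.lf 33994 0 0) (P.cons (P.lf 0 14658 0) P.nil))) (P.cons (P.cons (P.lf 54780 0 0) (P.cons (P.lf 1728 0 0) P.nil)) (P.cons (P.cons (P.lf 0 2500 0) P.nil) P.nil)))))) 5288)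
 EL.nil)))
noncomputable def S357_372_660_808_5 : EL := (EL.cons 0 (TM.mk (P.cons (P.cons (P.lf 3556785 0 0) (P.cons (P.lf 5445863 0 0) (P.cons (P.lf 0 263750 0) (P.cons (P.lf 0 2058699 0) (P.cons (P.lf 187857 0 0) (P.cons (P.lf 86134 0 0) P.nil)))))) (P.cons (P.cons (P.lf 0 19030088 0) (P.cons (P.lf 0 15398432 0) (P.cons (P.lf 6004738 0 0) (P.cons (P.lf 1285618 0 0) (P.cons (P.lf 0 57244 0) P.nil))))) (P.cons (P.cons (P.lf 24724458 0 0) (P.cons (P.lf 1663358 0 0) (P.cons (P.lf 0 667007 0) (P.cons (P.lf 0 123031 0) P.nil)))) (P.cons (P.cons (P.lf 2060470 0 0) (P.cons (P.lf 166819 0 0) (P.cons (P.lf 0 67804 0) P.nil))) (P.cons (P.cons (P.lf 0 250286 0) (P.cons (P.lf 0 28385 0) P.nil)) (P.cons (P.cons (P.lf 0 11801 0) P.nil) P.nil)))))) 179397)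
 (EL.cons 1 (TM.mk (P.cons (P.cons (P.lf 0 1735389 0) (P.cons (P.lf 0 2657090 0) (P.cons (P.lf 128685 0 0) (P.cons (P.lf 1004458 0 0) (P.cons (P.lf 0 91655 0) (P.cons (P.lf 0 42024 0) P.nil)))))) (P.cons (P.cons (P.lf 9474393 0 0) (P.cons (P.lf 7803080 0 0) (P.cons (P.lf 0 2943817 0) (P.cons (P.lf 0 736906 0) (P.cons (P.lf 37935 0 0) P.nil))))) (P.cons (P.cons (P.lf 0 13087498 0) (P.cons (P.lf 0 1648025 0) (P.cons (P.lf 646031 0 0) (P.cons (P.lf 134685 0 0) P.nil)))) (P.cons (P.cons (P.lf 369393 0 0) (P.cons (P.lf 54616 0 0) (P.cons (P.lf 0 20546 0) P.nil))) (P.cons (P.cons (P.lf 153515 0 0) (P.cons (P.lf 14454 0 0) P.nil)) (P.cons (P.cons (P.lf 0 8349 0) P.nil) P.nil)))))) 91831)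
 (EL.cons 5 (TM.mk (P.cons (P.cons (P.lf 846714 0 0) (P.cons (P.lf 1296420 0 0) (P.cons (P.lf 0 62786 0) (P.cons (P.lf 0 490084 0) (P.cons (P.lf 44720 0 0) (P.cons (P.lf 20504 0 0) P.nil)))))) (P.cons (P.cons (P.lf 0 4715072 0) (P.cons (P.lf 0 3948710 0) (P.cons (P.lf 1443170 0 0) (P.cons (P.lf 413038 0 0) (P.cons (P.lf 0 23390 0) P.nil))))) (P.cons (P.cons (P.lf 6895320 0 0) (P.cons (P.lf 1227650 0 0) (P.cons (P.lf 0 472372 0) (P.cons (P.lf 0 107980 0) P.nil)))) (P.cons (P.cons (P.lf 0 906084 0) (P.cons (P.lf 0 138428 0) (P.cons (P.lf 53308 0 0) P.nil))) (P.cons (P.cons (P.lf 0 13888 0) (P.cons (P.lf 2470 0 0) P.nil)) (P.cons (P.cons (P.lf 8280 0 0) P.nil) P.nil)))))) 51890)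
 EL.nil)))
noncomputable def S357_372_660_808_6 : EL := (EL.cons 12 (TM.mk (P.lf 8589934592 0 0) 0)
 (EL.cons 3 (TM.mk (P.cons (P.lf 2787267765 0 0) (P.cons (P.lf 122010892 0 0) (P.cons (P.lf 0 5535056 0) (P.cons (P.lf 33412 0 0) (P.cons (P.lf 4001 0 0) (P.cons (P.lf 0 127 0) P.nil)))))) 67)
 (EL.cons 7 (TM.mk (P.cons (P.lf 0 1359935332 0) (P.cons (P.lf 88913255 0 0) (P.cons (P.lf 819082 0 0) (P.cons (P.lf 0 98665 0) (P.cons (P.lf 1783 0 0) (P.cons (P.lf 41 0 0) P.nil)))))) 48)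
 EL.nil)))
noncomputable def S357_372_660_808_7 : EL := (EL.cons 12 (TM.mk (P.cons (P.cons (P.lf 0 269342626 0) (P.cons (P.lf 0 206197760 0) (P.cons (P.lf 88914800 0 0) (P.lf 9879416 0 0)))) (P.cons (P.cons (P.lf 732330068 0 0) (P.cons (P.lf 40443936 0 0) (P.cons (P.lf 0 17439880 0) (P.lf 0 1937760 0)))) (P.cons (P.cons (P.lf 0 4952468 0) (P.cons (P.lf 0 2271664 0) (P.cons (P.lf 979568 0 0) (P.lf 108832 0 0)))) (P.cons (P.cons (P.lf 0 2400608 0) (P.cons (P.lf 0 35968 0) (P.cons (P.lf 15504 0 0) P.nil))) (P.cons (P.cons (P.lf 80596 0 0) (P.cons (P.lf 8040 0 0) P.nil)) (P.cons (P.cons (P.lf 2680 0 0) P.nil) P.nil)))))) 11110)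
 (EL.cons 3 (TM.mk (P.cons (P.cons (P.lf 3547126798 0 0) (P.cons (P.lf 133814374 0 0) (P.cons (P.lf 0 57702268 0) (P.lf 0 6411358 0)))) (P.cons (P.cons (P.lf 39151804 0 0) (P.cons (P.lf 0 20388908 0) (P.cons (P.lf 8791926 0 0) (P.lf 976876 0 0)))) (P.cons (P.cons (P.lf 0 29834706 0) (P.cons (P.lf 59560 0 0) (P.cons (P.lf 0 25682 0) (P.lf 0 2848 0)))) (P.cons (P.cons (P.lf 1776908 0 0) (P.cons (P.lf 141600 0 0) (P.cons (P.lf 0 61054 0) P.nil))) (P.cons (P.cons (P.lf 49578 0 0) (P.cons (P.lf 0 7244 0) P.nil)) (P.cons (P.cons (P.lf 0 7853 0) P.nil) P.nil)))))) 32402)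
 (EL.cons 7 (TM.mk (P.cons (P.cons (P.lf 2691235417 0 0) (P.cons (P.lf 178916931 0 0) (P.cons (P.lf 0 77151001 0) (P.lf 0 8572334 0)))) (P.cons (P.cons (P.lf 28531168 0 0) (P.cons (P.lf 0 14858057 0) (P.cons (P.lf 6406963 0 0) (P.lf 711885 0 0)))) (P.cons (P.cons (P.lf 0 20184349 0) (P.cons (P.lf 0 767507 0) (P.cons (P.lf 330958 0 0) (P.lf 36771 0 0)))) (P.cons (P.cons (P.lf 0 232514 0) (P.cons (P.lf 77854 0 0) (P.cons (P.lf 0 33571 0) P.nil))) (P.cons (P.cons (P.lf 82312 0 0) (P.cons (P.lf 1873 0 0) P.nil)) (P.cons (P.cons (P.lf 0 1280 0) P.nil) P.nil)))))) 20607)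
 (EL.cons 10 (TM.mk (P.cons (P.cons (P.lf 0 510271329 0) (P.cons (P.lf 475364946 0 0) (P.cons (P.lf 48787908 0 0) (P.cons (P.lf 0 10146525 0) (P.lf 0 845541 0))))) (P.cons (P.cons (P.lf 66723591 0 0) (P.cons (P.lf 0 62159196 0) (P.cons (P.lf 0 6379554 0) (P.cons (P.lf 1326768 0 0) (P.lf 110562 0 0))))) (P.cons (P.cons (P.lf 0 1566540 0) (P.cons (P.lf 1459377 0 0) (P.cons (P.lf 149778 0 0) (P.cons (P.lf 0 31149 0) P.nil)))) (P.cons (P.cons (P.lf 0 114228 0) (P.cons (P.lf 106413 0 0) (P.cons (P.lf 10920 0 0) P.nil))) (P.cons (P.cons (P.lf 5991 0 0) (P.cons (P.lf 0 5580 0) P.nil)) (P.cons (P.cons (P.lf 0 9 0) P.nil) P.nil)))))) 5979)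
 EL.nil))))
noncomputable def S357_372_660_808_8 : EL := (EL.cons 12 (TM.mk (P.cons (P.cons (P.lf 8445400 0 0) (P.cons (P.lf 12930912 0 0) (P.cons (P.lf 0 626264 0) (P.cons (P.lf 0 4888274 0) (P.cons (P.lf 446058 0 0) (P.cons (P.lf 204524 0 0) P.nil)))))) (P.cons (P.cons (P.lf 0 45925308 0) (P.cons (P.lf 0 37694836 0) (P.cons (P.lf 14312758 0 0) (P.cons (P.lf 3480594 0 0) (P.cons (P.lf 0 174980 0) P.nil))))) (P.cons (P.cons (P.lf 62744964 0 0) (P.cons (P.lf 7276272 0 0) (P.cons (P.lf 0 2838128 0) (P.cons (P.lf 0 606902 0) P.nil)))) (P.cons (P.cons (P.lf 0 693894 0) (P.cons (P.lf 0 316466 0) (P.cons (P.lf 116800 0 0) P.nil))) (P.cons (P.cons (P.lf 0 411522 0) (P.cons (P.lf 0 30492 0) P.nil)) (P.cons (P.cons (P.lf 16342 0 0) P.nil) P.nil)))))) 276136)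
 (EL.cons 3 (TM.mk (P.cons (P.cons (P.lf 0 225185004 0) (P.cons (P.lf 0 182882058 0) (P.cons (P.lf 70830413 0 0) (P.cons (P.lf 15687899 0 0) (P.cons (P.lf 0 723686 0) (P.cons (P.lf 0 331821 0) P.nil)))))) (P.cons (P.cons (P.lf 617143280 0 0) (P.cons (P.lf 67664915 0 0) (P.cons (P.lf 0 26379211 0) (P.cons (P.lf 0 5655608 0) (P.cons (P.lf 252211 0 0) P.nil))))) (P.cons (P.cons (P.lf 0 15245205 0) (P.cons (P.lf 0 5526888 0) (P.cons (P.lf 2051220 0 0) (P.cons (P.lf 551151 0 0) P.nil)))) (P.cons (P.cons (P.lf 0 7921967 0) (P.cons (P.lf 0 491668 0) (P.cons (P.lf 216290 0 0) P.nil))) (P.cons (P.cons (P.lf 562943 0 0) (P.cons (P.lf 94099 0 0) P.nil)) (P.cons (P.cons (P.lf 26388 0 0) P.nil) P.nil)))))) 575321)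
 (EL.cons 7 (TM.mk (P.cons (P.cons (P.lf 0 167433589 0) (P.cons (P.lf 0 138376853 0) (P.cons (P.lf 51863626 0 0) (P.cons (P.lf 13362054 0 0) (P.cons (P.lf 0 703462 0) (P.cons (P.lf 0 322545 0) P.nil)))))) (P.cons (P.cons (P.lf 449732122 0 0) (P.cons (P.lf 49309595 0 0) (P.cons (P.lf 0 19223375 0) (P.cons (P.lf 0 4121422 0) (P.cons (P.lf 183789 0 0) P.nil))))) (P.cons (P.cons (P.lf 13435549 0 0) (P.cons (P.lf 0 1336438 0) (P.cons (P.lf 445632 0 0) (P.cons (P.lf 176704 0 0) P.nil)))) (P.cons (P.cons (P.lf 0 5718995 0) (P.cons (P.lf 0 556824 0) (P.cons (P.lf 229528 0 0) P.nil))) (P.cons (P.cons (P.lf 0 51458 0) (P.cons (P.lf 32351 0 0) P.nil)) (P.cons (P.cons (P.lf 35521 0 0) P.nil) P.nil)))))) 328864)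
 (EL.cons 10 (TM.mk (P.cons (P.cons (P.lf 31999734 0 0) (P.cons (P.lf 0 5313012 0) (P.cons (P.lf 0 36445098 0) (P.cons (P.lf 6961338 0 0) (P.cons (P.lf 2643606 0 0) (P.cons (P.lf 0 57234 0) P.nil)))))) (P.cons (P.cons (P.lf 0 91190106 0) (P.cons (P.lf 76943664 0 0) (P.cons (P.lf 19632660 0 0) (P.cons (P.lf 0 3880944 0) (P.cons (P.lf 0 997974 0) P.nil))))) (P.cons (P.cons (P.lf 12063588 0 0) (P.cons (P.lf 0 10264944 0) (P.cons (P.lf 0 2479980 0) (P.cons (P.lf 491202 0 0) P.nil)))) (P.cons (P.cons (P.lf 0 51672 0) (P.cons (P.lf 7854 0 0) (P.cons (P.lf 59838 0 0) P.nil))) (P.cons (P.cons (P.lf 0 64914 0) (P.cons (P.lf 58422 0 0) P.nil)) (P.cons (P.cons (P.lf 2958 0 0) P.nil) P.nil)))))) 390222)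
 EL.nil))))
noncomputable def S357_372_660_808_9 : EL := (EL.cons 3 (TM.mk (P.cons (P.lf 2787267765 0 0) (P.cons (P.lf 122010892 0 0) (P.cons (P.lf 0 5535056 0) (P.cons (P.lf 33412 0 0) (P.cons (P.lf 4001 0 0) (P.cons (P.lf 0 127 0) P.nil)))))) 67)
 (EL.cons 7 (TM.mk (P.cons (P.lf 0 1359935332 0) (P.cons (P.lf 88913255 0 0) (P.cons (P.lf 819082 0 0) (P.cons (P.lf 0 98665 0) (P.cons (P.lf 1783 0 0) (P.cons (P.lf 41 0 0) P.nil)))))) 48)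
 EL.nil))
noncomputable def S357_372_660_808_10 : EL := (EL.cons 3 (TM.mk (P.cons (P.cons (P.lf 0 87396476 0) (P.cons (P.lf 0 66907187 0) (P.cons (P.lf 28851134 0 0) (P.lf 3205679 0 0)))) (P.cons (P.cons (P.lf 233801227 0 0) (P.cons (P.lf 10194454 0 0) (P.cons (P.lf 0 4395963 0) (P.lf 0 488438 0)))) (P.cons (P.cons (P.lf 8968545 0 0) (P.cons (P.lf 0 29780 0) (P.cons (P.lf 12841 0 0) (P.lf 1424 0 0)))) (P.cons (P.cons (P.lf 0 1322230 0) (P.cons (P.lf 0 70800 0) (P.cons (P.lf 30527 0 0) P.nil))) (P.cons (P.cons (P.lf 0 2031 0) (P.cons (P.lf 3622 0 0) P.nil)) (P.cons (P.cons (P.lf 3886 0 0) P.nil) P.nil)))))) 8008)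
 (EL.cons 7 (TM.mk (P.cons (P.cons (P.lf 42641599 0 0) (P.cons (P.lf 32644674 0 0) (P.cons (P.lf 0 14076751 0) (P.lf 0 1564082 0)))) (P.cons (P.cons (P.lf 0 118728455 0) (P.cons (P.lf 0 8537300 0) (P.cons (P.lf 3681379 0 0) (P.lf 409041 0 0)))) (P.cons (P.cons (P.lf 8338628 0 0) (P.cons (P.lf 758611 0 0) (P.cons (P.lf 0 327122 0) (P.lf 0 36345 0)))) (P.cons (P.cons (P.lf 401719 0 0) (P.cons (P.lf 0 11594 0) (P.cons (P.lf 5000 0 0) P.nil))) (P.cons (P.cons (P.lf 0 46547 0) (P.cons (P.lf 0 2369 0) P.nil)) (P.cons (P.cons (P.lf 388 0 0) P.nil) P.nil)))))) 4046)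
 EL.nil))
noncomputable def S357_372_660_808_11 : EL := (EL.cons 3 (TM.mk (P.cons (P.cons (P.lf 2740368 0 0) (P.cons (P.lf 4195830 0 0) (P.cons (P.lf 0 203209 0) (P.cons (P.lf 0 1586149 0) (P.cons (P.lf 144736 0 0) (P.cons (P.lf 66363 0 0) P.nil)))))) (P.cons (P.cons (P.lf 0 14781916 0) (P.cons (P.lf 0 12047575 0) (P.cons (P.lf 4635317 0 0) (P.cons (P.lf 1059952 0 0) (P.cons (P.lf 0 50441 0) P.nil))))) (P.cons (P.cons (P.lf 19701765 0 0) (P.cons (P.lf 1817262 0 0) (P.cons (P.lf 0 717216 0) (P.cons (P.lf 0 144339 0) P.nil)))) (P.cons (P.cons (P.lf 695695 0 0) (P.cons (P.lf 25004 0 0) (P.cons (P.lf 0 11638 0) P.nil))) (P.cons (P.cons (P.lf 0 183991 0) (P.cons (P.lf 0 19217 0) P.nil)) (P.cons (P.cons (P.lf 126 0 0) P.nil) P.nil)))))) 115855)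
 (EL.cons 7 (TM.mk (P.cons (P.cons (P.lf 0 1337053 0) (P.cons (P.lf 0 2047187 0) (P.cons (P.lf 99148 0 0) (P.cons (P.lf 773898 0 0) (P.cons (P.lf 0 70618 0) (P.cons (P.lf 0 32379 0) P.nil)))))) (P.cons (P.cons (P.lf 7358188 0 0) (P.cons (P.lf 6101591 0 0) (P.cons (P.lf 0 2272439 0) (P.cons (P.lf 0 601636 0) (P.cons (P.lf 32319 0 0) P.nil))))) (P.cons (P.cons (P.lf 0 10408175 0) (P.cons (P.lf 0 1540900 0) (P.cons (P.lf 597414 0 0) (P.cons (P.lf 131644 0 0) P.nil)))) (P.cons (P.cons (P.lf 754843 0 0) (P.cons (P.lf 121674 0 0) (P.cons (P.lf 0 46496 0) P.nil))) (P.cons (P.cons (P.lf 64480 0 0) (P.cons (P.lf 2681 0 0) P.nil)) (P.cons (P.cons (P.lf 0 7643 0) P.nil) P.nil)))))) 59796)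
 EL.nil))
noncomputable def S357_372_660_808_12 : EL := (EL.cons 4 (TM.mk (P.cons (P.lf 0 2787267765 0) (P.cons (P.lf 0 122010892 0) (P.cons (P.lf 5535056 0 0) (P.cons (P.lf 0 33412 0) (P.cons (P.lf 0 4001 0) (P.cons (P.lf 127 0 0) P.nil)))))) 67)
 (EL.cons 8 (TM.mk (P.cons (P.lf 1359935332 0 0) (P.cons (P.lf 0 88913255 0) (P.cons (P.lf 0 819082 0) (P.cons (P.lf 98665 0 0) (P.cons (P.lf 0 1783 0) (P.cons (P.lf 0 41 0) P.nil)))))) 48)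
 EL.nil))
noncomputable def S357_372_660_808_13 : EL := (EL.cons 4 (TM.mk (P.cons (P.cons (P.lf 87396476 0 0) (P.cons (P.lf 66907187 0 0) (P.cons (P.lf 0 28851134 0) (P.lf 0 3205679 0)))) (P.cons (P.cons (P.lf 0 233801227 0) (P.cons (P.lf 0 10194454 0) (P.cons (P.lf 4395963 0 0) (P.lf 488438 0 0)))) (P.cons (P.cons (P.lf 0 8968545 0) (P.cons (P.lf 29780 0 0) (P.cons (P.lf 0 12841 0) (P.lf 0 1424 0)))) (P.cons (P.cons (P.lf 1322230 0 0) (P.cons (P.lf 70800 0 0) (P.cons (P.lf 0 30527 0) P.nil))) (P.cons (P.cons (P.lf 2031 0 0) (P.cons (P.lf 0 3622 0) P.nil)) (P.cons (P.cons (P.lf 0 3886 0) P.nil) P.nil)))))) 8008)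
 (EL.cons 8 (TM.mk (P.cons (P.cons (P.lf 0 42641599 0) (P.cons (P.lf 0 32644674 0) (P.cons (P.lf 14076751 0 0) (P.lf 1564082 0 0)))) (P.cons (P.cons (P.lf 118728455 0 0) (P.cons (P.lf 8537300 0 0) (P.cons (P.lf 0 3681379 0) (P.lf 0 409041 0)))) (P.cons (P.cons (P.lf 0 8338628 0) (P.cons (P.lf 0 758611 0) (P.cons (P.lf 327122 0 0) (P.lf 36345 0 0)))) (P.cons (P.cons (P.lf 0 401719 0) (P.cons (P.lf 11594 0 0) (P.cons (P.lf 0 5000 0) P.nil))) (P.cons (P.cons (P.lf 46547 0 0) (P.cons (P.lf 2369 0 0) P.nil)) (P.cons (P.cons (P.lf 0 388 0) P.nil) P.nil)))))) 4046)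
 EL.nil))
noncomputable def S357_372_660_808_14 : EL := (EL.cons 4 (TM.mk (P.cons (P.cons (P.lf 0 2740368 0) (P.cons (P.lf 0 4195830 0) (P.cons (P.lf 203209 0 0) (P.cons (P.lf 1586149 0 0) (P.cons (P.lf 0 144736 0) (P.cons (P.lf 0 66363 0) P.nil)))))) (P.cons (P.cons (P.lf 14781916 0 0) (P.cons (P.lf 12047575 0 0) (P.cons (P.lf 0 4635317 0) (P.cons (P.lf 0 1059952 0) (P.cons (P.lf 50441 0 0) P.nil))))) (P.cons (P.cons (P.lf 0 19701765 0) (P.cons (P.lf 0 1817262 0) (P.cons (P.lf 717216 0 0) (P.cons (P.lf 144339 0 0) P.nil)))) (P.cons (P.cons (P.lf 0 695695 0) (P.cons (P.lf 0 25004 0) (P.cons (P.lf 11638 0 0) P.nil))) (P.cons (P.cons (P.lf 183991 0 0) (P.cons (P.lf 19217 0 0) P.nil)) (P.cons (P.cons (P.lf 0 126 0) P.nil) P.nil)))))) 115855)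
 (EL.cons 8 (TM.mk (P.cons (P.cons (P.lf 1337053 0 0) (P.cons (P.lf 2047187 0 0) (P.cons (P.lf 0 99148 0) (P.cons (P.lf 0 773898 0) (P.cons (P.lf 70618 0 0) (P.cons (P.lf 32379 0 0) P.nil)))))) (P.cons (P.cons (P.lf 0 7358188 0) (P.cons (P.lf 0 6101591 0) (P.cons (P.lf 2272439 0 0) (P.cons (P.lf 601636 0 0) (P.cons (P.lf 0 32319 0) P.nil))))) (P.cons (P.cons (P.lf 10408175 0 0) (P.cons (P.lf 1540900 0 0) (P.cons (P.lf 0 597414 0) (P.cons (P.lf 0 131644 0) P.nil)))) (P.cons (P.cons (P.lf 0 754843 0) (P.cons (P.lf 0 121674 0) (P.cons (P.lf 46496 0 0) P.nil))) (P.cons (P.cons (P.lf 0 64480 0) (P.cons (P.lf 0 2681 0) P.nil)) (P.cons (P.cons (P.lf 7643 0 0) P.nil) P.nil)))))) 59796)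
 EL.nil))
noncomputable def S357_372_660_808_15 : EL := (EL.cons 4 (TM.mk (P.cons (P.lf 0 1929417647 0) (P.cons (P.lf 0 168918086 0) (P.cons (P.lf 3965871 0 0) (P.cons (P.lf 289185 0 0) (P.cons (P.lf 0 15172 0) (P.cons (P.lf 25 0 0) P.nil)))))) 119)
 (EL.cons 8 (TM.mk (P.cons (P.lf 941381830 0 0) (P.cons (P.lf 0 20339619 0) (P.cons (P.lf 0 5130644 0) (P.cons (P.lf 176987 0 0) (P.cons (P.lf 3495 0 0) (P.cons (P.lf 0 356 0) P.nil)))))) 71)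
 EL.nil))
noncomputable def S357_372_660_808_16 : EL := (EL.cons 4 (TM.mk (P.cons (P.cons (P.lf 60498063 0 0) (P.cons (P.lf 46314856 0 0) (P.cons (P.lf 0 19971488 0) (P.lf 0 2219052 0)))) (P.cons (P.cons (P.lf 0 159194892 0) (P.cons (P.lf 0 5029456 0) (P.cons (P.lf 2168758 0 0) (P.lf 240972 0 0)))) (P.cons (P.cons (P.lf 0 13412976 0) (P.cons (P.lf 0 380267 0) (P.cons (P.lf 163975 0 0) (P.lf 18221 0 0)))) (P.cons (P.cons (P.lf 965638 0 0) (P.cons (P.lf 64480 0 0) (P.cons (P.lf 0 27803 0) P.nil))) (P.cons (P.cons (P.lf 51946 0 0) (P.cons (P.lf 0 420 0) P.nil)) (P.cons (P.cons (P.lf 0 4755 0) P.nil) P.nil)))))) 8378)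
 (EL.cons 8 (TM.mk (P.cons (P.cons (P.lf 0 29517599 0) (P.cons (P.lf 0 22597474 0) (P.cons (P.lf 9744285 0 0) (P.lf 1082697 0 0)))) (P.cons (P.cons (P.lf 80894742 0 0) (P.cons (P.lf 4920545 0 0) (P.cons (P.lf 0 2121794 0) (P.lf 0 235754 0)))) (P.cons (P.cons (P.lf 0 2115915 0) (P.cons (P.lf 0 221560 0) (P.cons (P.lf 95539 0 0) (P.lf 10614 0 0)))) (P.cons (P.cons (P.lf 0 694318 0) (P.cons (P.lf 0 26967 0) (P.cons (P.lf 11628 0 0) P.nil))) (P.cons (P.cons (P.lf 32454 0 0) (P.cons (P.lf 3072 0 0) P.nil)) (P.cons (P.cons (P.lf 1743 0 0) P.nil) P.nil)))))) 4160)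
 EL.nil))
noncomputable def S357_372_660_808_17 : EL := (EL.cons 4 (TM.mk (P.cons (P.cons (P.lf 0 1896952 0) (P.cons (P.lf 0 2904460 0) (P.cons (P.lf 140667 0 0) (P.cons (P.lf 1097972 0 0) (P.cons (P.lf 0 100190 0) (P.cons (P.lf 0 45938 0) P.nil)))))) (P.cons (P.cons (P.lf 10149380 0 0) (P.cons (P.lf 8212497 0 0) (P.cons (P.lf 0 3202527 0) (P.cons (P.lf 0 685663 0) (P.cons (P.lf 30530 0 0) P.nil))))) (P.cons (P.cons (P.lf 0 13186378 0) (P.cons (P.lf 0 887124 0) (P.cons (P.lf 355737 0 0) (P.cons (P.lf 65616 0 0) P.nil)))) (P.cons (P.cons (P.lf 0 1098917 0) (P.cons (P.lf 0 88970 0) (P.cons (P.lf 36162 0 0) P.nil))) (P.cons (P.cons (P.lf 133485 0 0) (P.cons (P.lf 15138 0 0) P.nil)) (P.cons (P.cons (P.lf 6294 0 0) P.nil) P.nil)))))) 95689)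
 (EL.cons 8 (TM.mk (P.cons (P.cons (P.lf 925541 0 0) (P.cons (P.lf 1417115 0 0) (P.cons (P.lf 0 68632 0) (P.cons (P.lf 0 535711 0) (P.cons (P.lf 48883 0 0) (P.cons (P.lf 22413 0 0) P.nil)))))) (P.cons (P.cons (P.lf 0 5053010 0) (P.cons (P.lf 0 4161643 0) (P.cons (P.lf 1570036 0 0) (P.cons (P.lf 393017 0 0) (P.cons (P.lf 0 20232 0) P.nil))))) (P.cons (P.cons (P.lf 6979999 0 0) (P.cons (P.lf 878947 0 0) (P.cons (P.lf 0 344550 0) (P.cons (P.lf 0 71832 0) P.nil)))) (P.cons (P.cons (P.lf 0 197010 0) (P.cons (P.lf 0 29129 0) (P.cons (P.lf 10958 0 0) P.nil))) (P.cons (P.cons (P.lf 0 81875 0) (P.cons (P.lf 0 7709 0) P.nil)) (P.cons (P.cons (P.lf 4453 0 0) P.nil) P.nil)))))) 48965)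
 EL.nil))
noncomputable def S357_372_660_808_18 : EL := (EL.cons 4 (TM.mk (P.cons (P.lf 0 1335591975 0) (P.cons (P.lf 0 175394094 0) (P.cons (P.lf 279032 0 0) (P.cons (P.lf 536545 0 0) (P.cons (P.lf 0 10510 0) (P.cons (P.lf 0 913 0) P.nil)))))) 159)
 (EL.cons 8 (TM.mk (P.cons (P.lf 651648449 0 0) (P.cons (P.lf 14445898 0 0) (P.cons (P.lf 0 5461955 0) (P.cons (P.lf 2819 0 0) (P.cons (P.lf 15601 0 0) (P.cons (P.lf 0 476 0) P.nil)))))) 87)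
 EL.nil))
noncomputable def S357_372_660_808_19 : EL := (EL.cons 4 (TM.mk (P.cons (P.cons (P.lf 41878298 0 0) (P.cons (P.lf 32060322 0 0) (P.cons (P.lf 0 13824772 0) (P.lf 0 1536084 0)))) (P.cons (P.cons (P.lf 0 108365557 0) (P.cons (P.lf 0 2078098 0) (P.cons (P.lf 896099 0 0) (P.lf 99565 0 0)))) (P.cons (P.cons (P.lf 0 14191847 0) (P.cons (P.lf 0 479298 0) (P.cons (P.lf 206678 0 0) (P.lf 22965 0 0)))) (P.cons (P.cons (P.lf 481341 0 0) (P.cons (P.lf 40410 0 0) (P.cons (P.lf 0 17424 0) P.nil))) (P.cons (P.cons (P.lf 82396 0 0) (P.cons (P.lf 2188 0 0) P.nil)) (P.cons (P.cons (P.lf 0 3316 0) P.nil) P.nil)))))) 7398)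
 (EL.cons 8 (TM.mk (P.cons (P.cons (P.lf 0 20432833 0) (P.cons (P.lf 0 15642546 0) (P.cons (P.lf 6745242 0 0) (P.lf 749470 0 0)))) (P.cons (P.cons (P.lf 55102963 0 0) (P.cons (P.lf 2721384 0 0) (P.cons (P.lf 0 1173491 0) (P.lf 0 130387 0)))) (P.cons (P.cons (P.lf 1027136 0 0) (P.cons (P.lf 26794 0 0) (P.cons (P.lf 0 11554 0) (P.lf 0 1284 0)))) (P.cons (P.cons (P.lf 0 656187 0) (P.cons (P.lf 0 32332 0) (P.cons (P.lf 13941 0 0) P.nil))) (P.cons (P.cons (P.lf 4977 0 0) (P.cons (P.lf 1632 0 0) P.nil)) (P.cons (P.cons (P.lf 3208 0 0) P.nil) P.nil)))))) 4456)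
 EL.nil))
noncomputable def S357_372_660_808_20 : EL := (EL.cons 4 (TM.mk (P.cons (P.cons (P.lf 0 1313118 0) (P.cons (P.lf 0 2010540 0) (P.cons (P.lf 97373 0 0) (P.cons (P.lf 760045 0 0) (P.cons (P.lf 0 69354 0) (P.cons (P.lf 0 31800 0) P.nil)))))) (P.cons (P.cons (P.lf 6968177 0 0) (P.cons (P.lf 5596889 0 0) (P.cons (P.lf 0 2212607 0) (P.cons (P.lf 0 441362 0) (P.cons (P.lf 18098 0 0) P.nil))))) (P.cons (P.cons (P.lf 0 8817795 0) (P.cons (P.lf 0 361244 0) (P.cons (P.lf 149014 0 0) (P.cons (P.lf 23135 0 0) P.nil)))) (P.cons (P.cons (P.lf 0 1174236 0) (P.cons (P.lf 0 99781 0) (P.cons (P.lf 40215 0 0) P.nil))) (P.cons (P.cons (P.lf 77311 0 0) (P.cons (P.lf 9068 0 0) P.nil)) (P.cons (P.cons (P.lf 9812 0 0) P.nil) P.nil)))))) 74833)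
 (EL.cons 8 (TM.mk (P.cons (P.cons (P.lf 640683 0 0) (P.cons (P.lf 980962 0 0) (P.cons (P.lf 0 47509 0) (P.cons (P.lf 0 370833 0) (P.cons (P.lf 33838 0 0) (P.cons (P.lf 15515 0 0) P.nil)))))) (P.cons (P.cons (P.lf 0 3469776 0) (P.cons (P.lf 0 2837854 0) (P.cons (P.lf 1084739 0 0) (P.cons (P.lf 255823 0 0) (P.cons (P.lf 0 12523 0) P.nil))))) (P.cons (P.cons (P.lf 4677345 0 0) (P.cons (P.lf 480376 0 0) (P.cons (P.lf 0 190837 0) (P.cons (P.lf 0 37078 0) P.nil)))) (P.cons (P.cons (P.lf 82083 0 0) (P.cons (P.lf 12201 0 0) (P.cons (P.lf 0 5013 0) P.nil))) (P.cons (P.cons (P.lf 0 72282 0) (P.cons (P.lf 0 7460 0) P.nil)) (P.cons (P.cons (P.lf 925 0 0) P.nil) P.nil)))))) 39401)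
 EL.nil))
noncomputable def S357_372_660_808_21 : EL := (EL.cons 4 (TM.mk (P.cons (P.cons (P.lf 0 3634523274 0) (P.cons (P.lf 0 200721561 0) (P.cons (P.lf 86553402 0 0) (P.lf 9617037 0 0)))) (P.cons (P.cons (P.lf 194649423 0 0) (P.cons (P.lf 30583362 0 0) (P.cons (P.lf 0 13187889 0) (P.lf 0 1465314 0)))) (P.cons (P.cons (P.lf 38803251 0 0) (P.cons (P.lf 0 89340 0) (P.cons (P.lf 38523 0 0) (P.lf 4272 0 0)))) (P.cons (P.cons (P.lf 0 3099138 0) (P.cons (P.lf 0 212400 0) (P.cons (P.lf 91581 0 0) P.nil))) (P.cons (P.cons (P.lf 0 51609 0) (P.cons (P.lf 10866 0 0) P.nil)) (P.cons (P.cons (P.lf 11739 0 0) P.nil) P.nil)))))) 24375)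
 (EL.cons 8 (TM.mk (P.cons (P.cons (P.lf 0 2648593818 0) (P.cons (P.lf 0 146272257 0) (P.cons (P.lf 63074250 0 0) (P.lf 7008252 0 0)))) (P.cons (P.cons (P.lf 0 147259623 0) (P.cons (P.lf 6320757 0 0) (P.cons (P.lf 0 2725584 0) (P.lf 0 302844 0)))) (P.cons (P.cons (P.lf 28522977 0 0) (P.cons (P.lf 1526118 0 0) (P.cons (P.lf 0 658080 0) (P.lf 0 73116 0)))) (P.cons (P.cons (P.lf 634233 0 0) (P.cons (P.lf 0 89448 0) (P.cons (P.lf 38571 0 0) P.nil))) (P.cons (P.cons (P.lf 0 128859 0) (P.cons (P.lf 0 4242 0) P.nil)) (P.cons (P.cons (P.lf 1668 0 0) P.nil) P.nil)))))) 16542)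
 (EL.cons 11 (TM.mk (P.cons (P.cons (P.lf 510271329 0 0) (P.cons (P.lf 0 475364946 0) (P.cons (P.lf 0 48787908 0) (P.cons (P.lf 10146525 0 0) (P.lf 845541 0 0))))) (P.cons (P.cons (P.lf 0 66723591 0) (P.cons (P.lf 62159196 0 0) (P.cons (P.lf 6379554 0 0) (P.cons (P.lf 0 1326768 0) (P.lf 0 110562 0))))) (P.cons (P.cons (P.lf 1566540 0 0) (P.cons (P.lf 0 1459377 0) (P.cons (P.lf 0 149778 0) (P.cons (P.lf 31149 0 0) P.nil)))) (P.cons (P.cons (P.lf 114228 0 0) (P.cons (P.lf 0 106413 0) (P.cons (P.lf 0 10920 0) P.nil))) (P.cons (P.cons (P.lf 0 5991 0) (P.cons (P.lf 5580 0 0) P.nil)) (P.cons (P.cons (P.lf 9 0 0) P.nil) P.nil)))))) 5979)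
 EL.nil)))
noncomputable def S357_372_660_808_22 : EL := (EL.cons 4 (TM.mk (P.cons (P.cons (P.lf 113962686 0 0) (P.cons (P.lf 93538944 0 0) (P.cons (P.lf 0 35516811 0) (P.cons (P.lf 0 8637024 0) (P.cons (P.lf 434211 0 0) (P.cons (P.lf 199092 0 0) P.nil)))))) (P.cons (P.cons (P.lf 0 315962598 0) (P.cons (P.lf 0 39856245 0) (P.cons (P.lf 15507264 0 0) (P.cons (P.lf 3357780 0 0) (P.cons (P.lf 0 151326 0) P.nil))))) (P.cons (P.cons (P.lf 17473485 0 0) (P.cons (P.lf 3672075 0 0) (P.cons (P.lf 0 1384218 0) (P.cons (P.lf 0 347745 0) P.nil)))) (P.cons (P.cons (P.lf 4308831 0 0) (P.cons (P.lf 258336 0 0) (P.cons (P.lf 0 113964 0) P.nil))) (P.cons (P.cons (P.lf 0 373467 0) (P.cons (P.lf 0 56658 0) P.nil)) (P.cons (P.cons (P.lf 0 13131 0) P.nil) P.nil)))))) 229722)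
 (EL.cons 8 (TM.mk (P.cons (P.cons (P.lf 83048268 0 0) (P.cons (P.lf 68164833 0 0) (P.cons (P.lf 0 25882239 0) (P.cons (P.lf 0 6294078 0) (P.cons (P.lf 316422 0 0) (P.cons (P.lf 145083 0 0) P.nil)))))) (P.cons (P.cons (P.lf 0 221186967 0) (P.cons (P.lf 0 21604002 0) (P.cons (P.lf 8475468 0 0) (P.cons (P.lf 1759893 0 0) (P.cons (P.lf 0 75735 0) P.nil))))) (P.cons (P.cons (P.lf 0 11921862 0) (P.cons (P.lf 0 102231 0) (P.cons (P.lf 75891 0 0) (P.cons (P.lf 0 22530 0) P.nil)))) (P.cons (P.cons (P.lf 3236919 0 0) (P.cons (P.lf 339249 0 0) (P.cons (P.lf 0 138012 0) P.nil))) (P.cons (P.cons (P.lf 57969 0 0) (P.cons (P.lf 0 14835 0) P.nil)) (P.cons (P.cons (P.lf 0 21582 0) P.nil) P.nil)))))) 134523)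
 (EL.cons 11 (TM.mk (P.cons (P.cons (P.lf 0 15999867 0) (P.cons (P.lf 2656506 0 0) (P.cons (P.lf 18222549 0 0) (P.cons (P.lf 0 3480669 0) (P.cons (P.lf 0 1321803 0) (P.cons (P.lf 28617 0 0) P.nil)))))) (P.cons (P.cons (P.lf 45595053 0 0) (P.cons (P.lf 0 38471832 0) (P.cons (P.lf 0 9816330 0) (P.cons (P.lf 1940472 0 0) (P.cons (P.lf 498987 0 0) P.nil))))) (P.cons (P.cons (P.lf 0 6031794 0) (P.cons (P.lf 5132472 0 0) (P.cons (P.lf 1239990 0 0) (P.cons (P.lf 0 245601 0) P.nil)))) (P.cons (P.cons (P.lf 25836 0 0) (P.cons (P.lf 0 3927 0) (P.cons (P.lf 0 29919 0) P.nil))) (P.cons (P.cons (P.lf 32457 0 0) (P.cons (P.lf 0 29211 0) P.nil)) (P.cons (P.cons (P.lf 0 1479 0) P.nil) P.nil)))))) 195111)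
 EL.nil)))
noncomputable def S357_372_660_808_23 : EL := (EL.cons 4 (TM.mk (P.cons (P.cons (P.lf 0 2515909461 0) (P.cons (P.lf 0 138944568 0) (P.cons (P.lf 59914464 0 0) (P.lf 6657156 0 0)))) (P.cons (P.cons (P.lf 24608928 0 0) (P.cons (P.lf 15088368 0 0) (P.cons (P.lf 0 6506274 0) (P.lf 0 722913 0)))) (P.cons (P.cons (P.lf 37754994 0 0) (P.cons (P.lf 1140804 0 0) (P.cons (P.lf 0 491928 0) (P.lf 0 54663 0)))) (P.cons (P.cons (P.lf 0 1267230 0) (P.cons (P.lf 0 193440 0) (P.cons (P.lf 83406 0 0) P.nil))) (P.cons (P.cons (P.lf 0 184971 0) (P.cons (P.lf 1260 0 0) P.nil)) (P.cons (P.cons (P.lf 11451 0 0) P.nil) P.nil)))))) 24378)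
 (EL.cons 8 (TM.mk (P.cons (P.cons (P.lf 0 1833424014 0) (P.cons (P.lf 0 101253375 0) (P.cons (P.lf 43661598 0 0) (P.lf 4851288 0 0)))) (P.cons (P.cons (P.lf 0 182193837 0) (P.cons (P.lf 0 56913 0) (P.cons (P.lf 24540 0 0) (P.lf 2724 0 0)))) (P.cons (P.cons (P.lf 18922986 0 0) (P.cons (P.lf 1449018 0 0) (P.cons (P.lf 0 624834 0) (P.lf 0 69423 0)))) (P.cons (P.cons (P.lf 1483779 0 0) (P.cons (P.lf 0 25575 0) (P.cons (P.lf 11028 0 0) P.nil))) (P.cons (P.cons (P.lf 0 113043 0) (P.cons (P.lf 0 7836 0) P.nil)) (P.cons (P.cons (P.lf 0 3447 0) P.nil) P.nil)))))) 17655)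
 (EL.cons 11 (TM.mk (P.cons (P.cons (P.lf 353222793 0 0) (P.cons (P.lf 0 329059707 0) (P.cons (P.lf 0 33772230 0) (P.cons (P.lf 7023681 0 0) (P.lf 585303 0 0))))) (P.cons (P.cons (P.lf 0 30725661 0) (P.cons (P.lf 28623795 0 0) (P.cons (P.lf 2937729 0 0) (P.cons (P.lf 0 610965 0) (P.lf 0 50910 0))))) (P.cons (P.cons (P.lf 0 1638882 0) (P.cons (P.lf 1526772 0 0) (P.cons (P.lf 156696 0 0) (P.cons (P.lf 0 32589 0) P.nil)))) (P.cons (P.cons (P.lf 222495 0 0) (P.cons (P.lf 0 207273 0) (P.cons (P.lf 0 21270 0) P.nil))) (P.cons (P.cons (P.lf 0 2883 0) (P.cons (P.lf 2685 0 0) P.nil)) (P.cons (P.cons (P.lf 0 399 0) P.nil) P.nil)))))) 13092)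
 EL.nil)))
noncomputable def S357_372_660_808_24 : EL := (EL.cons 4 (TM.mk (P.cons (P.cons (P.lf 78887871 0 0) (P.cons (P.lf 64750035 0 0) (P.cons (P.lf 0 24585639 0) (P.cons (P.lf 0 5978766 0) (P.cons (P.lf 300570 0 0) (P.cons (P.lf 137817 0 0) P.nil)))))) (P.cons (P.cons (P.lf 0 215264079 0) (P.cons (P.lf 0 24755112 0) (P.cons (P.lf 9658302 0 0) (P.cons (P.lf 2062623 0 0) (P.cons (P.lf 0 91593 0) P.nil))))) (P.cons (P.cons (P.lf 2364720 0 0) (P.cons (P.lf 1205607 0 0) (P.cons (P.lf 0 439470 0) (P.cons (P.lf 0 127098 0) P.nil)))) (P.cons (P.cons (P.lf 3947439 0 0) (P.cons (P.lf 345663 0 0) (P.cons (P.lf 0 142443 0) P.nil))) (P.cons (P.cons (P.lf 0 154485 0) (P.cons (P.lf 0 36675 0) P.nil)) (P.cons (P.cons (P.lf 0 26502 0) P.nil) P.nil)))))) 136344)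
 (EL.cons 8 (TM.mk (P.cons (P.cons (P.lf 57488124 0 0) (P.cons (P.lf 47185431 0 0) (P.cons (P.lf 0 17916345 0) (P.cons (P.lf 0 4356918 0) (P.cons (P.lf 219036 0 0) (P.cons (P.lf 100431 0 0) P.nil)))))) (P.cons (P.cons (P.lf 0 150594738 0) (P.cons (P.lf 0 12889326 0) (P.cons (P.lf 5082657 0 0) (P.cons (P.lf 1027521 0 0) (P.cons (P.lf 0 42837 0) P.nil))))) (P.cons (P.cons (P.lf 0 15069126 0) (P.cons (P.lf 0 819108 0) (P.cons (P.lf 344934 0 0) (P.cons (P.lf 46380 0 0) P.nil)))) (P.cons (P.cons (P.lf 2184168 0 0) (P.cons (P.lf 262002 0 0) (P.cons (P.lf 0 105102 0) P.nil))) (P.cons (P.cons (P.lf 152847 0 0) (P.cons (P.lf 36 0 0) P.nil)) (P.cons (P.cons (P.lf 0 17952 0) P.nil) P.nil)))))) 81339)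
 (EL.cons 11 (TM.mk (P.cons (P.cons (P.lf 0 11075514 0) (P.cons (P.lf 1838901 0 0) (P.cons (P.lf 12614112 0 0) (P.cons (P.lf 0 2409408 0) (P.cons (P.lf 0 914985 0) (P.cons (P.lf 19809 0 0) P.nil)))))) (P.cons (P.cons (P.lf 31077231 0 0) (P.cons (P.lf 0 26550684 0) (P.cons (P.lf 0 6242937 0) (P.cons (P.lf 1237773 0 0) (P.cons (P.lf 305358 0 0) P.nil))))) (P.cons (P.cons (P.lf 0 2771757 0) (P.cons (P.lf 2383413 0 0) (P.cons (P.lf 535851 0 0) (P.cons (P.lf 0 106425 0) P.nil)))) (P.cons (P.cons (P.lf 0 227697 0) (P.cons (P.lf 205710 0 0) (P.cons (P.lf 30504 0 0) P.nil))) (P.cons (P.cons (P.lf 31905 0 0) (P.cons (P.lf 0 27711 0) P.nil)) (P.cons (P.cons (P.lf 0 81 0) P.nil) P.nil)))))) 117435)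
 EL.nil)))
noncomputable def S357_372_660_808_25 : EL := (EL.cons 4 (TM.mk (P.cons (P.cons (P.lf 0 1741576527 0) (P.cons (P.lf 0 96180966 0) (P.cons (P.lf 41474316 0 0) (P.lf 4608252 0 0)))) (P.cons (P.cons (P.lf 0 59201487 0) (P.cons (P.lf 6234291 0 0) (P.cons (P.lf 0 2688294 0) (P.lf 0 298695 0)))) (P.cons (P.cons (P.lf 30339144 0 0) (P.cons (P.lf 1437897 0 0) (P.cons (P.lf 0 620037 0) (P.lf 0 68895 0)))) (P.cons (P.cons (P.lf 212124 0 0) (P.cons (P.lf 0 121230 0) (P.cons (P.lf 52272 0 0) P.nil))) (P.cons (P.cons (P.lf 0 220635 0) (P.cons (P.lf 0 6567 0) P.nil)) (P.cons (P.cons (P.lf 4479 0 0) P.nil) P.nil)))))) 22428)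
 (EL.cons 8 (TM.mk (P.cons (P.cons (P.lf 0 1269142740 0) (P.cons (P.lf 0 70090161 0) (P.cons (P.lf 30223668 0 0) (P.lf 3358185 0 0)))) (P.cons (P.cons (P.lf 0 181675134 0) (P.cons (P.lf 0 3107550 0) (P.cons (P.lf 1340007 0 0) (P.lf 148887 0 0)))) (P.cons (P.cons (P.lf 10098492 0 0) (P.cons (P.lf 1140510 0 0) (P.cons (P.lf 0 491799 0) (P.lf 0 54642 0)))) (P.cons (P.cons (P.lf 1835745 0 0) (P.cons (P.lf 25440 0 0) (P.cons (P.lf 0 10968 0) P.nil))) (P.cons (P.cons (P.lf 0 62634 0) (P.cons (P.lf 0 8292 0) P.nil)) (P.cons (P.cons (P.lf 0 7815 0) P.nil) P.nil)))))) 16359)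
 (EL.cons 11 (TM.mk (P.cons (P.cons (P.lf 244509801 0 0) (P.cons (P.lf 0 227783499 0) (P.cons (P.lf 0 23377995 0) (P.cons (P.lf 4861971 0 0) (P.lf 405162 0 0))))) (P.cons (P.cons (P.lf 0 10565820 0) (P.cons (P.lf 9843039 0 0) (P.cons (P.lf 1010214 0 0) (P.cons (P.lf 0 210093 0) (P.lf 0 17505 0))))) (P.cons (P.cons (P.lf 0 2551074 0) (P.cons (P.lf 2376561 0 0) (P.cons (P.lf 243912 0 0) (P.cons (P.lf 0 50727 0) P.nil)))) (P.cons (P.cons (P.lf 149523 0 0) (P.cons (P.lf 0 139293 0) (P.cons (P.lf 0 14295 0) P.nil))) (P.cons (P.cons (P.lf 7092 0 0) (P.cons (P.lf 0 6606 0) P.nil)) (P.cons (P.cons (P.lf 0 726 0) P.nil) P.nil)))))) 14400)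
 EL.nil)))
noncomputable def S357_372_660_808_26 : EL := (EL.cons 4 (TM.mk (P.cons (P.cons (P.lf 54608190 0 0) (P.cons (P.lf 44821620 0 0) (P.cons (P.lf 0 17018805 0) (P.cons (P.lf 0 4138653 0) (P.cons (P.lf 208062 0 0) (P.cons (P.lf 95400 0 0) P.nil)))))) (P.cons (P.cons (P.lf 0 146620833 0) (P.cons (P.lf 0 15174078 0) (P.cons (P.lf 5940732 0 0) (P.cons (P.lf 1246632 0 0) (P.cons (P.lf 0 54294 0) P.nil))))) (P.cons (P.cons (P.lf 0 4994397 0) (P.cons (P.lf 0 4575 0) (P.cons (P.lf 22245 0 0) (P.cons (P.lf 0 17262 0) P.nil)))) (P.cons (P.cons (P.lf 3100740 0 0) (P.cons (P.lf 310374 0 0) (P.cons (P.lf 0 125400 0) P.nil))) (P.cons (P.cons (P.lf 7713 0 0) (P.cons (P.lf 0 16713 0) P.nil)) (P.cons (P.cons (P.lf 0 28650 0) P.nil) P.nil)))))) 105603)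
 (EL.cons 8 (TM.mk (P.cons (P.cons (P.lf 39794742 0 0) (P.cons (P.lf 32662953 0 0) (P.cons (P.lf 0 12402150 0) (P.cons (P.lf 0 3015969 0) (P.cons (P.lf 151620 0 0) (P.cons (P.lf 69519 0 0) P.nil)))))) (P.cons (P.cons (P.lf 0 102503517 0) (P.cons (P.lf 0 7492518 0) (P.cons (P.lf 2975448 0 0) (P.cons (P.lf 579252 0 0) (P.cons (P.lf 0 23016 0) P.nil))))) (P.cons (P.cons (P.lf 0 15073539 0) (P.cons (P.lf 0 1022439 0) (P.cons (P.lf 417414 0 0) (P.cons (P.lf 69231 0 0) P.nil)))) (P.cons (P.cons (P.lf 1262805 0 0) (P.cons (P.lf 174654 0 0) (P.cons (P.lf 0 69435 0) P.nil))) (P.cons (P.cons (P.lf 191511 0 0) (P.cons (P.lf 9030 0 0) P.nil)) (P.cons (P.cons (P.lf 0 11073 0) P.nil) P.nil)))))) 64371)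
 (EL.cons 11 (TM.mk (P.cons (P.cons (P.lf 0 7666752 0) (P.cons (P.lf 1272933 0 0) (P.cons (P.lf 8731809 0 0) (P.cons (P.lf 0 1667853 0) (P.cons (P.lf 0 633375 0) (P.cons (P.lf 13713 0 0) P.nil)))))) (P.cons (P.cons (P.lf 21176844 0 0) (P.cons (P.lf 0 18323337 0) (P.cons (P.lf 0 3939291 0) (P.cons (P.lf 783810 0 0) (P.cons (P.lf 183651 0 0) P.nil))))) (P.cons (P.cons (P.lf 0 961761 0) (P.cons (P.lf 842799 0 0) (P.cons (P.lf 164418 0 0) (P.cons (P.lf 0 32850 0) P.nil)))) (P.cons (P.cons (P.lf 0 284418 0) (P.cons (P.lf 251133 0 0) (P.cons (P.lf 46041 0 0) P.nil))) (P.cons (P.cons (P.lf 19242 0 0) (P.cons (P.lf 0 16443 0) P.nil)) (P.cons (P.cons (P.lf 1230 0 0) P.nil) P.nil)))))) 91098)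
 EL.nil)))
noncomputable def S357_372_660_808_27 : EL := (EL.cons 13 (TM.mk (P.lf 0 4294967296 0) 0)
 EL.nil)
noncomputable def S357_372_660_808_28 : EL := (EL.cons 13 (TM.mk (P.cons (P.cons (P.lf 134671313 0 0) (P.cons (P.lf 103098880 0 0) (P.cons (P.lf 0 44457400 0) (P.lf 0 4939708 0)))) (P.cons (P.cons (P.lf 0 366165034 0) (P.cons (P.lf 0 20221968 0) (P.cons (P.lf 8719940 0 0) (P.lf 968880 0 0)))) (P.cons (P.cons (P.lf 2476234 0 0) (P.cons (P.lf 1135832 0 0) (P.cons (P.lf 0 489784 0) (P.lf 0 54416 0)))) (P.cons (P.cons (P.lf 1200304 0 0) (P.cons (P.lf 17984 0 0) (P.cons (P.lf 0 7752 0) P.nil))) (P.cons (P.cons (P.lf 0 40298 0) (P.cons (P.lf 0 4020 0) P.nil)) (P.cons (P.cons (P.lf 0 1340 0) P.nil) P.nil)))))) 5555)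
 EL.nil)
noncomputable def S357_372_660_808_29 : EL := (EL.cons 13 (TM.mk (P.cons (P.cons (P.lf 0 4222700 0) (P.cons (P.lf 0 6465456 0) (P.cons (P.lf 313132 0 0) (P.cons (P.lf 2444137 0 0) (P.cons (P.lf 0 223029 0) (P.cons (P.lf 0 102262 0) P.nil)))))) (P.cons (P.cons (P.lf 22962654 0 0) (P.cons (P.lf 18847418 0 0) (P.cons (P.lf 0 7156379 0) (P.cons (P.lf 0 1740297 0) (P.cons (P.lf 87490 0 0) P.nil))))) (P.cons (P.cons (P.lf 0 31372482 0) (P.cons (P.lf 0 3638136 0) (P.cons (P.lf 1419064 0 0) (P.cons (P.lf 303451 0 0) P.nil)))) (P.cons (P.cons (P.lf 346947 0 0) (P.cons (P.lf 158233 0 0) (P.cons (P.lf 0 58400 0) P.nil))) (P.cons (P.cons (P.lf 205761 0 0) (P.cons (P.lf 15246 0 0) P.nil)) (P.cons (P.cons (P.lf 0 8171 0) P.nil) P.nil)))))) 138068)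
 EL.nil)
noncomputable def S357_372_660_808_30 : EL := (EL.cons 13 (TM.mk (P.cons (P.lf 0 2973085616 0) (P.cons (P.lf 0 130144952 0) (P.cons (P.lf 5904060 0 0) (P.cons (P.lf 0 35640 0) (P.cons (P.lf 0 4268 0) (P.cons (P.lf 136 0 0) P.nil)))))) 64)
 EL.nil)
noncomputable def S357_372_660_808_31 : EL := (EL.cons 13 (TM.mk (P.cons (P.cons (P.lf 93222908 0 0) (P.cons (P.lf 71367667 0 0) (P.cons (P.lf 0 30774543 0) (P.lf 0 3419391 0)))) (P.cons (P.cons (P.lf 0 249387976 0) (P.cons (P.lf 0 10874085 0) (P.cons (P.lf 4689028 0 0) (P.lf 521001 0 0)))) (P.cons (P.cons (P.lf 0 9566448 0) (P.cons (P.lf 31766 0 0) (P.cons (P.lf 0 13698 0) (P.lf 0 1519 0)))) (P.cons (P.cons (P.lf 1410379 0 0) (P.cons (P.lf 75520 0 0) (P.cons (P.lf 0 32563 0) P.nil))) (P.cons (P.cons (P.lf 2167 0 0) (P.cons (P.lf 0 3864 0) P.nil)) (P.cons (P.cons (P.lf 0 4146 0) P.nil) P.nil)))))) 8522)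
 EL.nil)
noncomputable def S357_372_660_808_32 : EL := (EL.cons 13 (TM.mk (P.cons (P.cons (P.lf 0 2923060 0) (P.cons (P.lf 0 4475553 0) (P.cons (P.lf 216757 0 0) (P.cons (P.lf 1691893 0 0) (P.cons (P.lf 0 154386 0) (P.cons (P.lf 0 70788 0) P.nil)))))) (P.cons (P.cons (P.lf 15767378 0 0) (P.cons (P.lf 12850747 0 0) (P.cons (P.lf 0 4944339 0) (P.cons (P.lf 0 1130616 0) (P.cons (P.lf 53804 0 0) P.nil))))) (P.cons (P.cons (P.lf 0 21015217 0) (P.cons (P.lf 0 1938413 0) (P.cons (P.lf 765031 0 0) (P.cons (P.lf 153962 0 0) P.nil)))) (P.cons (P.cons (P.lf 0 742075 0) (P.cons (P.lf 0 26671 0) (P.cons (P.lf 12414 0 0) P.nil))) (P.cons (P.cons (P.lf 196258 0 0) (P.cons (P.lf 20499 0 0) P.nil)) (P.cons (P.cons (P.lf 0 135 0) P.nil) P.nil)))))) 123556)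
 EL.nil)
noncomputable def S357_372_660_808_33 : EL := (EL.cons 14 (TM.mk (P.lf 8589934592 0 0) 0)
 EL.nil)
noncomputable def S357_372_660_808_34 : EL := (EL.cons 14 (TM.mk (P.cons (P.cons (P.lf 0 269342626 0) (P.cons (P.lf 0 206197760 0) (P.cons (P.lf 88914800 0 0) (P.lf 9879416 0 0)))) (P.cons (P.cons (P.lf 732330068 0 0) (P.cons (P.lf 40443936 0 0) (P.cons (P.lf 0 17439880 0) (P.lf 0 1937760 0)))) (P.cons (P.cons (P.lf 0 4952468 0) (P.cons (P.lf 0 2271664 0) (P.cons (P.lf 979568 0 0) (P.lf 108832 0 0)))) (P.cons (P.cons (P.lf 0 2400608 0) (P.cons (P.lf 0 35968 0) (P.cons (P.lf 15504 0 0) P.nil))) (P.cons (P.cons (P.lf 80596 0 0) (P.cons (P.lf 8040 0 0) P.nil)) (P.cons (P.cons (P.lf 2680 0 0) P.nil) P.nil)))))) 11110)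
 EL.nil)
noncomputable def S357_372_660_808_35 : EL := (EL.cons 14 (TM.mk (P.cons (P.cons (P.lf 8445400 0 0) (P.cons (P.lf 12930912 0 0) (P.cons (P.lf 0 626264 0) (P.cons (P.lf 0 4888274 0) (P.cons (P.lf 446058 0 0) (P.cons (P.lf 204524 0 0) P.nil)))))) (P.cons (P.cons (P.lf 0 45925308 0) (P.cons (P.lf 0 37694836 0) (P.cons (P.lf 14312758 0 0) (P.cons (P.lf 3480594 0 0) (P.cons (P.lf 0 174980 0) P.nil))))) (P.cons (P.cons (P.lf 62744964 0 0) (P.cons (P.lf 7276272 0 0) (P.cons (P.lf 0 2838128 0) (P.cons (P.lf 0 606902 0) P.nil)))) (P.cons (P.cons (P.lf 0 693894 0) (P.cons (P.lf 0 316466 0) (P.cons (P.lf 116800 0 0) P.nil))) (P.cons (P.cons (P.lf 0 411522 0) (P.cons (P.lf 0 30492 0) P.nil)) (P.cons (P.cons (P.lf 16342 0 0) P.nil) P.nil)))))) 276136)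
 EL.nil)
noncomputable def S357_372_660_808_36 : EL := (EL.cons 14 (TM.mk (P.cons (P.lf 5946171232 0 0) (P.cons (P.lf 260289904 0 0) (P.cons (P.lf 0 11808120 0) (P.cons (P.lf 71280 0 0) (P.cons (P.lf 8536 0 0) (P.cons (P.lf 0 272 0) P.nil)))))) 128)
 EL.nil)
noncomputable def S357_372_660_808_37 : EL := (EL.cons 14 (TM.mk (P.cons (P.cons (P.lf 0 186445816 0) (P.cons (P.lf 0 142735334 0) (P.cons (P.lf 61549086 0 0) (P.lf 6838782 0 0)))) (P.cons (P.cons (P.lf 498775952 0 0) (P.cons (P.lf 21748170 0 0) (P.cons (P.lf 0 9378056 0) (P.lf 0 1042002 0)))) (P.cons (P.cons (P.lf 19132896 0 0) (P.cons (P.lf 0 63532 0) (P.cons (P.lf 27396 0 0) (P.lf 3038 0 0)))) (P.cons (P.cons (P.lf 0 2820758 0) (P.cons (P.lf 0 151040 0) (P.cons (P.lf 65126 0 0) P.nil))) (P.cons (P.cons (P.lf 0 4334 0) (P.cons (P.lf 7728 0 0) P.nil)) (P.cons (P.cons (P.lf 8292 0 0) P.nil) P.nil)))))) 17044)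
 EL.nil)
noncomputable def S357_372_660_808_38 : EL := (EL.cons 14 (TM.mk (P.cons (P.cons (P.lf 5846120 0 0) (P.cons (P.lf 8951106 0 0) (P.cons (P.lf 0 433514 0) (P.cons (P.lf 0 3383786 0) (P.cons (P.lf 308772 0 0) (P.cons (P.lf 141576 0 0) P.nil)))))) (P.cons (P.cons (P.lf 0 31534756 0) (P.cons (P.lf 0 25701494 0) (P.cons (P.lf 9888678 0 0) (P.cons (P.lf 2261232 0 0) (P.cons (P.lf 0 107608 0) P.nil))))) (P.cons (P.cons (P.lf 42030434 0 0) (P.cons (P.lf 3876826 0 0) (P.cons (P.lf 0 1530062 0) (P.cons (P.lf 0 307924 0) P.nil)))) (P.cons (P.cons (P.lf 1484150 0 0) (P.cons (P.lf 53342 0 0) (P.cons (P.lf 0 24828 0) P.nil))) (P.cons (P.cons (P.lf 0 392516 0) (P.cons (P.lf 0 40998 0) P.nil)) (P.cons (P.cons (P.lf 270 0 0) P.nil) P.nil)))))) 247112)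
 EL.nil)
noncomputable def S357_372_660_808_39 : EL := (EL.cons 14 (TM.mk (P.cons (P.lf 4116090982 0 0) (P.cons (P.lf 360358584 0 0) (P.cons (P.lf 0 8460526 0) (P.cons (P.lf 0 616928 0) (P.cons (P.lf 32368 0 0) (P.cons (P.lf 0 54 0) P.nil)))))) 240)
 EL.nil)
noncomputable def S357_372_660_808_40 : EL := (EL.cons 14 (TM.mk (P.cons (P.cons (P.lf 0 129062536 0) (P.cons (P.lf 0 98805028 0) (P.cons (P.lf 42605842 0 0) (P.lf 4733978 0 0)))) (P.cons (P.cons (P.lf 339615770 0 0) (P.cons (P.lf 10729508 0 0) (P.cons (P.lf 0 4626684 0) (P.lf 0 514074 0)))) (P.cons (P.cons (P.lf 28614350 0 0) (P.cons (P.lf 811238 0 0) (P.cons (P.lf 0 349814 0) (P.lf 0 38872 0)))) (P.cons (P.cons (P.lf 0 2060028 0) (P.cons (P.lf 0 137558 0) (P.cons (P.lf 59314 0 0) P.nil))) (P.cons (P.cons (P.lf 0 110820 0) (P.cons (P.lf 898 0 0) P.nil)) (P.cons (P.cons (P.lf 10146 0 0) P.nil) P.nil))))))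 17834)
 EL.nil)
noncomputable def S357_372_660_808_41 : EL := (EL.cons 14 (TM.mk (P.cons (P.cons (P.lf 4046832 0 0) (P.cons (P.lf 6196182 0 0) (P.cons (P.lf 0 300090 0) (P.cons (P.lf 0 2342342 0) (P.cons (P.lf 213740 0 0) (P.cons (P.lf 98002 0 0) P.nil)))))) (P.cons (P.cons (P.lf 0 21652012 0) (P.cons (P.lf 0 17519994 0) (P.cons (P.lf 6832058 0 0) (P.cons (P.lf 1462748 0 0) (P.cons (P.lf 0 65132 0) P.nil))))) (P.cons (P.cons (P.lf 28130940 0 0) (P.cons (P.lf 1892532 0 0) (P.cons (P.lf 0 758906 0) (P.cons (P.lf 0 139982 0) P.nil)))) (P.cons (P.cons (P.lf 2344358 0 0) (P.cons (P.lf 189804 0 0) (P.cons (P.lf 0 77146 0) P.nil))) (P.cons (P.cons (P.lf 0 284770 0) (P.cons (P.lf 0 32296 0) P.nil)) (P.cons (P.cons (P.lf 0 13428 0) P.nil) P.nil)))))) 204090)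
 EL.nil)
noncomputable def S357_372_660_808_42 : EL := (EL.cons 14 (TM.mk (P.cons (P.lf 2849262880 0 0) (P.cons (P.lf 374174068 0 0) (P.cons (P.lf 0 595270 0) (P.cons (P.lf 0 1144630 0) (P.cons (P.lf 22422 0 0) (P.cons (P.lf 1948 0 0) P.nil)))))) 326)
 EL.nil)
noncomputable def S357_372_660_808_43 : EL := (EL.cons 14 (TM.mk (P.cons (P.cons (P.lf 0 89340370 0) (P.cons (P.lf 0 68395354 0) (P.cons (P.lf 29492848 0 0) (P.lf 3276980 0 0)))) (P.cons (P.cons (P.lf 231179856 0 0) (P.cons (P.lf 4433276 0 0) (P.cons (P.lf 0 1911678 0) (P.lf 0 212406 0)))) (P.cons (P.cons (P.lf 30275942 0 0) (P.cons (P.lf 1022504 0 0) (P.cons (P.lf 0 440914 0) (P.lf 0 48992 0)))) (P.cons (P.cons (P.lf 0 1026862 0) (P.cons (P.lf 0 86208 0) (P.cons (P.lf 37172 0 0) P.nil))) (P.cons (P.cons (P.lf 0 175780 0) (P.cons (P.lf 0 4668 0) P.nil)) (P.cons (P.cons (P.lf 7076 0 0) P.nil) P.nil))))))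 15742)
 EL.nil)
noncomputable def S357_372_660_808_44 : EL := (EL.cons 14 (TM.mk (P.cons (P.cons (P.lf 2801320 0 0) (P.cons (P.lf 4289154 0 0) (P.cons (P.lf 0 207730 0) (P.cons (P.lf 0 1621430 0) (P.cons (P.lf 147956 0 0) (P.cons (P.lf 67840 0 0) P.nil)))))) (P.cons (P.cons (P.lf 0 14865446 0) (P.cons (P.lf 0 11940030 0) (P.cons (P.lf 4720230 0 0) (P.cons (P.lf 941574 0 0) (P.cons (P.lf 0 38610 0) P.nil))))) (P.cons (P.cons (P.lf 18811296 0 0) (P.cons (P.lf 770654 0 0) (P.cons (P.lf 0 317898 0) (P.cons (P.lf 0 49356 0) P.nil)))) (P.cons (P.cons (P.lf 2505038 0 0) (P.cons (P.lf 212868 0 0) (P.cons (P.lf 0 85792 0) P.nil))) (P.cons (P.cons (P.lf 0 164932 0) (P.cons (P.lf 0 19346 0) P.nil)) (P.cons (P.cons (P.lf 0 20934 0) P.nil) P.nil)))))) 159598)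
 EL.nil)
noncomputable def S357_372_660_808_45 : EL := (EL.cons 14 (TM.mk (P.cons (P.cons (P.lf 0 264810 0) (P.cons (P.lf 0 608184 0) (P.cons (P.lf 0 203344 0) (P.cons (P.lf 311868 0 0) (P.cons (P.lf 111744 0 0) (P.cons (P.lf 0 68438 0) P.nil)))))) (P.cons (P.cons (P.lf 2160022 0 0) (P.cons (P.lf 3426542 0 0) (P.cons (P.lf 0 28966 0) (P.cons (P.lf 0 1343562 0) (P.cons (P.lf 40102 0 0) P.nil))))) (P.cons (P.cons (P.lf 0 5887612 0) (P.cons (P.lf 0 5173888 0) (P.cons (P.lf 1697696 0 0) (P.cons (P.lf 690218 0 0) P.nil)))) (P.cons (P.cons (P.lf 5395160 0 0) (P.cons (P.lf 972564 0 0) (P.cons (P.lf 0 341724 0) P.nil))) (P.cons (P.cons (P.lf 0 69514 0) (P.cons (P.lf 0 29344 0) P.nil)) (P.cons (P.cons (P.lf 0 53158 0) P.nil) P.nil)))))) 490180)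
 EL.nil)
noncomputable def S357_372_660_808_46 : EL := (EL.cons 15 (TM.mk (P.lf 4294967296 0 0) 0)
 EL.nil)
noncomputable def S357_372_660_808_47 : EL := (EL.cons 15 (TM.mk (P.cons (P.cons (P.lf 0 134671313 0) (P.cons (P.lf 0 103098880 0) (P.cons (P.lf 44457400 0 0) (P.lf 4939708 0 0)))) (P.cons (P.cons (P.lf 366165034 0 0) (P.cons (P.lf 20221968 0 0) (P.cons (P.lf 0 8719940 0) (P.lf 0 968880 0)))) (P.cons (P.cons (P.lf 0 2476234 0) (P.cons (P.lf 0 1135832 0) (P.cons (P.lf 489784 0 0) (P.lf 54416 0 0)))) (P.cons (P.cons (P.lf 0 1200304 0) (P.cons (P.lf 0 17984 0) (P.cons (P.lf 7752 0 0) P.nil))) (P.cons (P.cons (P.lf 40298 0 0) (P.cons (P.lf 4020 0 0) P.nil)) (P.cons (P.cons (P.lf 1340 0 0) P.nil) P.nil)))))) 5555)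
 EL.nil)
noncomputable def S357_372_660_808_48 : EL := (EL.cons 15 (TM.mk (P.cons (P.cons (P.lf 4222700 0 0) (P.cons (P.lf 6465456 0 0) (P.cons (P.lf 0 313132 0) (P.cons (P.lf 0 2444137 0) (P.cons (P.lf 223029 0 0) (P.cons (P.lf 102262 0 0) P.nil)))))) (P.cons (P.cons (P.lf 0 22962654 0) (P.cons (P.lf 0 18847418 0) (P.cons (P.lf 7156379 0 0) (P.cons (P.lf 1740297 0 0) (P.cons (P.lf 0 87490 0) P.nil))))) (P.cons (P.cons (P.lf 31372482 0 0) (P.cons (P.lf 3638136 0 0) (P.cons (P.lf 0 1419064 0) (P.cons (P.lf 0 303451 0) P.nil)))) (P.cons (P.cons (P.lf 0 346947 0) (P.cons (P.lf 0 158233 0) (P.cons (P.lf 58400 0 0) P.nil))) (P.cons (P.cons (P.lf 0 205761 0) (P.cons (P.lf 0 15246 0) P.nil)) (P.cons (P.cons (P.lf 8171 0 0) P.nil) P.nil)))))) 138068)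
 EL.nil)
noncomputable def S357_372_660_808 : SL := (SL.cons S357_372_660_808_0 (SL.cons S357_372_660_808_1 (SL.cons S357_372_660_808_2 (SL.cons S357_372_660_808_3 (SL.cons S357_372_660_808_4 (SL.cons S357_372_660_808_5 (SL.cons S357_372_660_808_6 (SL.cons S357_372_660_808_7 (SL.cons S357_372_660_808_8 (SL.cons S357_372_660_808_9 (SL.cons S357_372_660_808_10 (SL.cons S357_372_660_808_11 (SL.cons S357_372_660_808_12 (SL.cons S357_372_660_808_13 (SL.cons S357_372_660_808_14 (SL.cons S357_372_660_808_15 (SL.cons S357_372_660_808_16 (SL.cons S357_372_660_808_17 (SL.cons S357_372_660_808_18 (SL.cons S357_372_660_808_19 (SL.cons S357_372_660_808_20 (SL.cons S357_372_660_808_21 (SL.cons S357_372_660_808_22 (SL.cons S357_372_660_808_23 (SL.cons S357_372_660_808_24 (SL.cons S357_372_660_808_25 (SL.cons S357_372_660_808_26 (SL.cons S357_372_660_808_27 (SL.cons S357_372_660_808_28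 (SL.cons S357_372_660_808_29 (SL.cons S357_372_660_808_30 (SL.cons S357_372_660_808_31 (SL.cons S357_372_660_808_32 (SL.cons S357_372_660_808_33 (SL.cons S357_372_660_808_34 (SL.cons S357_372_660_808_35 (SL.cons S357_372_660_808_36 (SL.cons S357_372_660_808_37 (SL.cons S357_372_660_808_38 (SL.cons S357_372_660_808_39 (SL.cons S357_372_660_808_40 (SL.cons S357_372_660_808_41 (SL.cons S357_372_660_808_42 (SL.cons S357_372_660_808_43 (SL.cons S357_372_660_808_44 (SL.cons S357_372_660_808_45 (SL.cons S357_372_660_808_46 (SL.cons S357_372_660_808_47 (SL.cons S357_372_660_808_48 SL.nil)))))))))))))))))))))))))))))))))))))))))))))))))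
noncomputable def S372_386_216_364_0 : EL := (EL.cons 0 (TM.mk (P.cons (P.lf 4257048901 0 0) (P.cons (P.lf 0 263855079 0) (P.cons (P.lf 8670768 0 0) (P.cons (P.lf 267403 0 0) (P.cons (P.lf 0 19872 0) (P.cons (P.lf 263 0 0) P.nil)))))) 209)
 (EL.cons 1 (TM.mk (P.cons (P.lf 1657874694 0 0) (P.cons (P.lf 0 66703704 0) (P.cons (P.lf 0 6615345 0) (P.cons (P.lf 292091 0 0) (P.cons (P.lf 596 0 0) (P.cons (P.lf 0 360 0) P.nil)))))) 128)
 (EL.cons 5 (TM.mk (P.cons (P.lf 5787827018 0 0) (P.cons (P.lf 93815138 0 0) (P.cons (P.lf 0 3082942 0) (P.cons (P.lf 0 95074 0) (P.cons (P.lf 7066 0 0) (P.cons (P.lf 0 96 0) P.nil)))))) 77)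
 (EL.cons 9 (TM.mk (P.lf 6442450944 0 0) 2)
 EL.nil))))
noncomputable def S372_386_216_364_1 : EL := (EL.cons 0 (TM.mk (P.cons (P.cons (P.lf 3453554295 0 0) (P.cons (P.lf 132658022 0 0) (P.cons (P.lf 57203632 0 0) (P.lf 0 6355942 0)))) (P.cons (P.cons (P.lf 149709135 0 0) (P.cons (P.lf 0 11727252 0) (P.cons (P.lf 0 5056914 0) (P.lf 561867 0 0)))) (P.cons (P.cons (P.lf 0 45605461 0) (P.cons (P.lf 0 2202187 0) (P.cons (P.lf 0 949611 0) (P.lf 105517 0 0)))) (P.cons (P.cons (P.lf 131418 0 0) (P.cons (P.lf 335650 0 0) (P.cons (P.lf 144740 0 0) P.nil))) (P.cons (P.cons (P.lf 283077 0 0) (P.cons (P.lf 0 9173 0) P.nil)) (P.cons (P.cons (P.lf 0 11234 0) P.nil) P.nil)))))) 50462)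
 (EL.cons 1 (TM.mk (P.cons (P.cons (P.lf 1051764017 0 0) (P.cons (P.lf 24283124 0 0) (P.cons (P.lf 10471156 0 0) (P.lf 0 1163471 0)))) (P.cons (P.cons (P.lf 202399113 0 0) (P.cons (P.lf 12401658 0 0) (P.cons (P.lf 5347733 0 0) (P.lf 0 594184 0)))) (P.cons (P.cons (P.lf 0 4770070 0) (P.cons (P.lf 0 2220500 0) (P.cons (P.lf 0 957500 0) (P.lf 106382 0 0)))) (P.cons (P.cons (P.lf 0 2512042 0) (P.cons (P.lf 33139 0 0) (P.cons (P.lf 14285 0 0) P.nil))) (P.cons (P.cons (P.lf 84313 0 0) (P.cons (P.lf 11115 0 0) P.nil)) (P.cons (P.cons (P.lf 7370 0 0) P.nil) P.nil)))))) 22680)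
 (EL.cons 5 (TM.mk (P.cons (P.cons (P.lf 1015075922 0 0) (P.cons (P.lf 0 163320376 0) (P.cons (P.lf 0 70425586 0) (P.lf 7825056 0 0)))) (P.cons (P.cons (P.lf 214153826 0 0) (P.cons (P.lf 29138798 0 0) (P.cons (P.lf 12564976 0 0) (P.lf 0 1396106 0)))) (P.cons (P.cons (P.lf 22851282 0 0) (P.cons (P.lf 0 932124 0) (P.cons (P.lf 0 401946 0) (P.lf 44664 0 0)))) (P.cons (P.cons (P.lf 0 1363368 0) (P.cons (P.lf 0 107220 0) (P.cons (P.lf 0 46234 0) P.nil))) (P.cons (P.cons (P.lf 0 80975 0) (P.cons (P.lf 6946 0 0) P.nil)) (P.cons (P.cons (P.lf 5905 0 0) P.nil) P.nil)))))) 18249)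
 (EL.cons 9 (TM.mk (P.cons (P.cons (P.lf 1979123232 0 0) (P.cons (P.lf 0 102488004 0) (P.cons (P.lf 0 44193984 0) (P.lf 4910436 0 0)))) (P.cons (P.cons (P.lf 235926828 0 0) (P.cons (P.lf 22031562 0 0) (P.cons (P.lf 9500256 0 0) (P.lf 0 1055580 0)))) (P.cons (P.cons (P.lf 5855298 0 0) (P.cons (P.lf 0 1513338 0) (P.cons (P.lf 0 652566 0) (P.lf 72504 0 0)))) (P.cons (P.cons (P.lf 0 1161742 0) (P.cons (P.lf 10698 0 0) (P.cons (P.lf 4608 0 0) P.nil))) (P.cons (P.cons (P.lf 17356 0 0) (P.cons (P.lf 3246 0 0) P.nil)) (P.cons (P.cons (P.lf 1681 0 0) P.nil) P.nil)))))) 5321)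
 (EL.cons 2 (TM.mk (P.cons (P.cons (P.lf 0 271173487 0) (P.cons (P.lf 0 252623190 0) (P.cons (P.lf 25927354 0 0) (P.cons (P.lf 5392167 0 0) (P.lf 0 449344 0))))) (P.cons (P.cons (P.lf 30341657 0 0) (P.cons (P.lf 28266060 0 0) (P.cons (P.lf 0 2901015 0) (P.cons (P.lf 0 603329 0) (P.lf 50276 0 0))))) (P.cons (P.cons (P.lf 357882 0 0) (P.cons (P.lf 333399 0 0) (P.cons (P.lf 0 34219 0) (P.cons (P.lf 0 7115 0) P.nil)))) (P.cons (P.cons (P.lf 0 143190 0) (P.cons (P.lf 0 133394 0) (P.cons (P.lf 13688 0 0) P.nil))) (P.cons (P.cons (P.lf 4072 0 0) (P.cons (P.lf 3796 0 0) P.nil)) (P.cons (P.cons (P.lf 126 0 0) P.nil) P.nil)))))) 9223)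
 (EL.cons 6 (TM.mk (P.cons (P.cons (P.lf 107074830 0 0) (P.cons (P.lf 99750111 0 0) (P.cons (P.lf 0 10237605 0) (P.cons (P.lf 0 2129136 0) (P.lf 177426 0 0))))) (P.cons (P.cons (P.lf 0 23017581 0) (P.cons (P.lf 0 21443007 0) (P.cons (P.lf 2200749 0 0) (P.cons (P.lf 457692 0 0) (P.lf 0 38139 0))))) (P.cons (P.cons (P.lf 1581069 0 0) (P.cons (P.lf 1472913 0 0) (P.cons (P.lf 0 151167 0) (P.cons (P.lf 0 31437 0) P.nil)))) (P.cons (P.cons (P.lf 0 11175 0) (P.cons (P.lf 0 10410 0) (P.cons (P.lf 1068 0 0) P.nil))) (P.cons (P.cons (P.lf 0 3396 0) (P.cons (P.lf 0 3165 0) P.nil)) (P.cons (P.cons (P.lf 141 0 0) P.nil) P.nil)))))) 4701)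
 EL.nil))))))
noncomputable def S372_386_216_364_2 : EL := (EL.cons 0 (TM.mk (P.cons (P.cons (P.lf 1720119753 0 0) (P.cons (P.lf 13233811 0 0) (P.cons (P.lf 408515 0 0) (P.cons (P.lf 0 5203214 0) (P.cons (P.lf 0 477447 0) (P.cons (P.lf 218914 0 0) P.nil)))))) (P.cons (P.cons (P.lf 274042257 0 0) (P.cons (P.lf 14804829 0 0) (P.cons (P.lf 8194404 0 0) (P.cons (P.lf 851987 0 0) (P.cons (P.lf 163144 0 0) P.nil))))) (P.cons (P.cons (P.lf 0 13745293 0) (P.cons (P.lf 0 1115403 0) (P.cons (P.lf 0 665938 0) (P.cons (P.lf 0 106077 0) P.nil)))) (P.cons (P.cons (P.lf 0 3763718 0) (P.cons (P.lf 0 366302 0) (P.cons (P.lf 0 164745 0) P.nil))) (P.cons (P.cons (P.lf 78642 0 0) (P.cons (P.lf 40541 0 0) P.nil)) (P.cons (P.cons (P.lf 30457 0 0) P.nil) P.nil)))))) 569570)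
 (EL.cons 1 (TM.mk (P.cons (P.cons (P.lf 489747513 0 0) (P.cons (P.lf 0 2339725 0) (P.cons (P.lf 0 2201082 0) (P.cons (P.lf 0 916055 0) (P.cons (P.lf 0 107437 0) (P.cons (P.lf 49260 0 0) P.nil)))))) (P.cons (P.cons (P.lf 170379937 0 0) (P.cons (P.lf 7948365 0 0) (P.cons (P.lf 3396198 0 0) (P.cons (P.lf 0 407751 0) (P.cons (P.lf 0 2811 0) P.nil))))) (P.cons (P.cons (P.lf 12781081 0 0) (P.cons (P.lf 499860 0 0) (P.cons (P.lf 322243 0 0) (P.cons (P.lf 68064 0 0) P.nil)))) (P.cons (P.cons (P.lf 0 1582885 0) (P.cons (P.lf 0 151571 0) (P.cons (P.lf 0 84112 0) P.nil))) (P.cons (P.cons (P.lf 0 187397 0) (P.cons (P.lf 0 12864 0) P.nil)) (P.cons (P.cons (P.lf 7907 0 0) P.nil) P.nil)))))) 241583)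
 (EL.cons 5 (TM.mk (P.cons (P.cons (P.lf 77454225 0 0) (P.cons (P.lf 0 76069886 0) (P.cons (P.lf 0 29070643 0) (P.cons (P.lf 6862843 0 0) (P.cons (P.lf 336277 0 0) (P.cons (P.lf 0 154184 0) P.nil)))))) (P.cons (P.cons (P.lf 66843525 0 0) (P.cons (P.lf 1569896 0 0) (P.cons (P.lf 0 761167 0) (P.cons (P.lf 0 1315476 0) (P.cons (P.lf 0 129599 0) P.nil))))) (P.cons (P.cons (P.lf 18756149 0 0) (P.cons (P.lf 960445 0 0) (P.cons (P.lf 619876 0 0) (P.cons (P.lf 131400 0 0) P.nil)))) (P.cons (P.cons (P.lf 1015291 0 0) (P.cons (P.lf 99339 0 0) (P.cons (P.lf 33136 0 0) P.nil))) (P.cons (P.cons (P.lf 0 106268 0) (P.cons (P.lf 0 24004 0) P.nil)) (P.cons (P.cons (P.lf 0 10604 0) P.nil) P.nil)))))) 249882)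
 (EL.cons 9 (TM.mk (P.cons (P.cons (P.lf 607987363 0 0) (P.cons (P.lf 0 62968702 0) (P.cons (P.lf 0 25522411 0) (P.cons (P.lf 4423071 0 0) (P.cons (P.lf 146929 0 0) (P.cons (P.lf 0 67368 0) P.nil)))))) (P.cons (P.cons (P.lf 144953611 0 0) (P.cons (P.lf 6029850 0 0) (P.cons (P.lf 1899171 0 0) (P.cons (P.lf 0 893430 0) (P.cons (P.lf 0 63169 0) P.nil))))) (P.cons (P.cons (P.lf 12237295 0 0) (P.cons (P.lf 497529 0 0) (P.cons (P.lf 338032 0 0) (P.cons (P.lf 82660 0 0) P.nil)))) (P.cons (P.cons (P.lf 0 284925 0) (P.cons (P.lf 0 27255 0) (P.cons (P.lf 0 22446 0) P.nil))) (P.cons (P.cons (P.lf 0 69102 0) (P.cons (P.lf 0 8470 0) P.nil)) (P.cons (P.cons (P.lf 192 0 0) P.nil) P.nil)))))) 108794)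
 (EL.cons 2 (TM.mk (P.cons (P.cons (P.lf 0 166609181 0) (P.cons (P.lf 0 146584085 0) (P.cons (P.lf 27687757 0 0) (P.cons (P.lf 5540546 0 0) (P.cons (P.lf 0 1188450 0) (P.cons (P.lf 0 20154 0) P.nil)))))) (P.cons (P.cons (P.lf 0 1219168 0) (P.cons (P.lf 0 3955820 0) (P.cons (P.lf 0 3726613 0) (P.cons (P.lf 0 703861 0) (P.cons (P.lf 296190 0 0) P.nil))))) (P.cons (P.cons (P.lf 1949225 0 0) (P.cons (P.lf 2139418 0 0) (P.cons (P.lf 254536 0 0) (P.cons (P.lf 44769 0 0) P.nil)))) (P.cons (P.cons (P.lf 91181 0 0) (P.cons (P.lf 76792 0 0) (P.cons (P.lf 0 19822 0) P.nil))) (P.cons (P.cons (P.lf 0 19732 0) (P.cons (P.lf 0 19833 0) P.nil)) (P.cons (P.cons (P.lf 5 0 0) P.nil) P.nil)))))) 143993)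
 (EL.cons 6 (TM.mk (P.cons (P.cons (P.lf 65786850 0 0) (P.cons (P.lf 57879792 0 0) (P.cons (P.lf 0 10932708 0) (P.cons (P.lf 0 2187726 0) (P.cons (P.lf 469266 0 0) (P.cons (P.lf 7956 0 0) P.nil)))))) (P.cons (P.cons (P.lf 0 6299712 0) (P.cons (P.lf 0 4404090 0) (P.cons (P.lf 2598390 0 0) (P.cons (P.lf 503424 0 0) (P.cons (P.lf 0 165324 0) P.nil))))) (P.cons (P.cons (P.lf 0 519792 0) (P.cons (P.lf 0 742266 0) (P.cons (P.lf 0 301950 0) (P.cons (P.lf 0 56280 0) P.nil)))) (P.cons (P.cons (P.lf 28476 0 0) (P.cons (P.lf 48864 0 0) (P.cons (P.lf 27714 0 0) P.nil))) (P.cons (P.cons (P.lf 8844 0 0) (P.cons (P.lf 7554 0 0) P.nil)) (P.cons (P.cons (P.lf 0 816 0) P.nil) P.nil)))))) 82254)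
 EL.nil))))))
noncomputable def S372_386_216_364_3 : EL := (EL.cons 0 (TM.mk (P.cons (P.lf 4198667962 0 0) (P.cons (P.lf 263855079 0 0) (P.cons (P.lf 0 8670768 0) (P.cons (P.lf 0 267403 0) (P.cons (P.lf 19872 0 0) (P.cons (P.lf 0 263 0) P.nil)))))) 209)
 (EL.cons 1 (TM.mk (P.cons (P.lf 0 1657874694 0) (P.cons (P.lf 66703704 0 0) (P.cons (P.lf 6615345 0 0) (P.cons (P.lf 0 292091 0) (P.cons (P.lf 0 596 0) (P.cons (P.lf 360 0 0) P.nil)))))) 128)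
 (EL.cons 5 (TM.mk (P.cons (P.lf 654623926 0 0) (P.cons (P.lf 0 93815138 0) (P.cons (P.lf 3082942 0 0) (P.cons (P.lf 95074 0 0) (P.cons (P.lf 0 7066 0) (P.cons (P.lf 96 0 0) P.nil)))))) 70)
 EL.nil)))
noncomputable def S372_386_216_364_4 : EL := (EL.cons 0 (TM.mk (P.cons (P.cons (P.lf 1289832298 0 0) (P.cons (P.lf 0 66793382 0) (P.cons (P.lf 0 28802060 0) (P.lf 3200224 0 0)))) (P.cons (P.cons (P.lf 234814380 0 0) (P.cons (P.lf 10160919 0 0) (P.cons (P.lf 4381500 0 0) (P.lf 0 486829 0)))) (P.cons (P.cons (P.lf 10814893 0 0) (P.cons (P.lf 53982 0 0) (P.cons (P.lf 23278 0 0) (P.lf 0 2587 0)))) (P.cons (P.cons (P.lf 0 916996 0) (P.cons (P.lf 0 80404 0) (P.cons (P.lf 0 34674 0) P.nil))) (P.cons (P.cons (P.lf 0 47835 0) (P.cons (P.lf 3359 0 0) P.nil)) (P.cons (P.cons (P.lf 3772 0 0) P.nil) P.nil)))))) 10697)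
 (EL.cons 1 (TM.mk (P.cons (P.cons (P.lf 0 509299696 0) (P.cons (P.lf 26373855 0 0) (P.cons (P.lf 11372703 0 0) (P.lf 0 1263631 0)))) (P.cons (P.cons (P.lf 0 40221067 0) (P.cons (P.lf 0 6730651 0) (P.cons (P.lf 0 2902331 0) (P.lf 322479 0 0)))) (P.cons (P.cons (P.lf 2968190 0 0) (P.cons (P.lf 512306 0 0) (P.cons (P.lf 220910 0 0) (P.lf 0 24543 0)))) (P.cons (P.cons (P.lf 512109 0 0) (P.cons (P.lf 8846 0 0) (P.cons (P.lf 3815 0 0) P.nil))) (P.cons (P.cons (P.lf 0 21361 0) (P.cons (P.lf 0 3266 0) P.nil)) (P.cons (P.cons (P.lf 0 1620 0) P.nil) P.nil)))))) 4892)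
 (EL.cons 5 (TM.mk (P.cons (P.cons (P.lf 201100702 0 0) (P.cons (P.lf 0 10413908 0) (P.cons (P.lf 0 4490594 0) (P.lf 498954 0 0)))) (P.cons (P.cons (P.lf 0 4847282 0) (P.cons (P.lf 3731080 0 0) (P.cons (P.lf 1608884 0 0) (P.lf 0 178762 0)))) (P.cons (P.cons (P.lf 0 1893528 0) (P.cons (P.lf 0 523638 0) (P.cons (P.lf 0 225798 0) (P.lf 25086 0 0)))) (P.cons (P.cons (P.lf 0 61204 0) (P.cons (P.lf 32154 0 0) (P.cons (P.lf 13864 0 0) P.nil))) (P.cons (P.cons (P.lf 22792 0 0) (P.cons (P.lf 0 112 0) P.nil)) (P.cons (P.cons (P.lf 0 780 0) P.nil) P.nil)))))) 3178)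
 EL.nil)))
noncomputable def S372_386_216_364_5 : EL := (EL.cons 0 (TM.mk (P.cons (P.cons (P.lf 396236940 0 0) (P.cons (P.lf 0 41037901 0) (P.cons (P.lf 0 16633441 0) (P.cons (P.lf 2882598 0 0) (P.cons (P.lf 95755 0 0) (P.cons (P.lf 0 43904 0) P.nil)))))) (P.cons (P.cons (P.lf 119369575 0 0) (P.cons (P.lf 1350840 0 0) (P.cons (P.lf 192436 0 0) (P.cons (P.lf 0 401115 0) (P.cons (P.lf 0 35150 0) P.nil))))) (P.cons (P.cons (P.lf 13093676 0 0) (P.cons (P.lf 655954 0 0) (P.cons (P.lf 332433 0 0) (P.cons (P.lf 11327 0 0) P.nil)))) (P.cons (P.cons (P.lf 95169 0 0) (P.cons (P.lf 0 2886 0) (P.cons (P.lf 0 2279 0) P.nil))) (P.cons (P.cons (P.lf 0 77313 0) (P.cons (P.lf 0 7750 0) P.nil)) (P.cons (P.cons (P.lf 0 2406 0) P.nil) P.nil)))))) 88439)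
 (EL.cons 1 (TM.mk (P.cons (P.cons (P.lf 0 156457048 0) (P.cons (P.lf 16204113 0 0) (P.cons (P.lf 6567834 0 0) (P.cons (P.lf 0 1138215 0) (P.cons (P.lf 0 37809 0) (P.cons (P.lf 17334 0 0) P.nil)))))) (P.cons (P.cons (P.lf 0 31006818 0) (P.cons (P.lf 0 2203661 0) (P.cons (P.lf 0 752977 0) (P.cons (P.lf 275705 0 0) (P.cons (P.lf 17776 0 0) P.nil))))) (P.cons (P.cons (P.lf 0 1023975 0) (P.cons (P.lf 0 130258 0) (P.cons (P.lf 0 93530 0) (P.cons (P.lf 0 25978 0) P.nil)))) (P.cons (P.cons (P.lf 321301 0 0) (P.cons (P.lf 21210 0 0) (P.cons (P.lf 12382 0 0) P.nil))) (P.cons (P.cons (P.lf 20767 0 0) (P.cons (P.lf 2139 0 0) P.nil)) (P.cons (P.cons (P.lf 0 1590 0) P.nil) P.nil)))))) 37893)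
 (EL.cons 5 (TM.mk (P.cons (P.cons (P.lf 61778206 0 0) (P.cons (P.lf 0 6398312 0) (P.cons (P.lf 0 2593356 0) (P.cons (P.lf 449432 0 0) (P.cons (P.lf 14928 0 0) (P.cons (P.lf 0 6844 0) P.nil)))))) (P.cons (P.cons (P.lf 5875354 0 0) (P.cons (P.lf 1529650 0 0) (P.cons (P.lf 564634 0 0) (P.cons (P.lf 0 155190 0) (P.cons (P.lf 0 8558 0) P.nil))))) (P.cons (P.cons (P.lf 0 576430 0) (P.cons (P.lf 0 67384 0) (P.cons (P.lf 0 5520 0) (P.cons (P.lf 23524 0 0) P.nil)))) (P.cons (P.cons (P.lf 0 128812 0) (P.cons (P.lf 0 8058 0) (P.cons (P.lf 0 6670 0) P.nil))) (P.cons (P.cons (P.lf 4454 0 0) (P.cons (P.lf 0 66 0) P.nil)) (P.cons (P.cons (P.lf 920 0 0) P.nil) P.nil)))))) 17416)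
 EL.nil)))
noncomputable def S372_386_216_364_6 : EL := (EL.cons 12 (TM.mk (P.lf 8589934592 0 0) 0)
 (EL.cons 3 (TM.mk (P.cons (P.lf 3002760528 0 0) (P.cons (P.lf 94350592 0 0) (P.cons (P.lf 0 4582845 0) (P.cons (P.lf 48378 0 0) (P.cons (P.lf 2088 0 0) (P.cons (P.lf 0 86 0) P.nil)))))) 67)
 (EL.cons 7 (TM.mk (P.cons (P.lf 0 1185661915 0) (P.cons (P.lf 84959496 0 0) (P.cons (P.lf 251989 0 0) (P.cons (P.lf 0 68044 0) (P.cons (P.lf 1551 0 0) (P.cons (P.lf 9 0 0) P.nil)))))) 45)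
 EL.nil)))
noncomputable def S372_386_216_364_7 : EL := (EL.cons 12 (TM.mk (P.cons (P.cons (P.lf 2638830976 0 0) (P.cons (P.lf 0 136650672 0) (P.cons (P.lf 0 58925312 0) (P.lf 6547248 0 0)))) (P.cons (P.cons (P.lf 314569104 0 0) (P.cons (P.lf 29375416 0 0) (P.cons (P.lf 12667008 0 0) (P.lf 0 1407440 0)))) (P.cons (P.cons (P.lf 7807064 0 0) (P.cons (P.lf 0 2017784 0) (P.cons (P.lf 0 870088 0) (P.lf 96672 0 0)))) (P.cons (P.cons (P.lf 0 1548990 0) (P.cons (P.lf 14264 0 0) (P.cons (P.lf 6144 0 0) P.nil))) (P.cons (P.cons (P.lf 23142 0 0) (P.cons (P.lf 4328 0 0) P.nil)) (P.cons (P.cons (P.lf 2242 0 0) P.nil) P.nil)))))) 7070)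
 (EL.cons 3 (TM.mk (P.cons (P.cons (P.lf 2457051421 0 0) (P.cons (P.lf 95537220 0 0) (P.cons (P.lf 41196726 0 0) (P.lf 0 4577406 0)))) (P.cons (P.cons (P.lf 144272888 0 0) (P.cons (P.lf 0 17535468 0) (P.cons (P.lf 0 7561488 0) (P.lf 840160 0 0)))) (P.cons (P.cons (P.lf 0 23426079 0) (P.cons (P.lf 619580 0 0) (P.cons (P.lf 267166 0 0) (P.lf 0 29680 0)))) (P.cons (P.cons (P.lf 789534 0 0) (P.cons (P.lf 67234 0 0) (P.cons (P.lf 28996 0 0) P.nil))) (P.cons (P.cons (P.lf 53144 0 0) (P.cons (P.lf 0 5756 0) P.nil)) (P.cons (P.cons (P.lf 0 4337 0) P.nil) P.nil)))))) 21476)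
 (EL.cons 7 (TM.mk (P.cons (P.cons (P.lf 1017621363 0 0) (P.cons (P.lf 147903820 0 0) (P.cons (P.lf 63777795 0 0) (P.lf 0 7086423 0)))) (P.cons (P.cons (P.lf 129912821 0 0) (P.cons (P.lf 0 15790099 0) (P.cons (P.lf 0 6808867 0) (P.lf 756543 0 0)))) (P.cons (P.cons (P.lf 0 14398879 0) (P.cons (P.lf 0 255879 0) (P.cons (P.lf 0 110338 0) (P.lf 12259 0 0)))) (P.cons (P.cons (P.lf 0 475648 0) (P.cons (P.lf 66920 0 0) (P.cons (P.lf 28855 0 0) P.nil))) (P.cons (P.cons (P.lf 52272 0 0) (P.cons (P.lf 0 457 0) P.nil)) (P.cons (P.cons (P.lf 0 182 0) P.nil) P.nil)))))) 12496)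
 (EL.cons 10 (TM.mk (P.cons (P.cons (P.lf 0 387870180 0) (P.cons (P.lf 0 361336956 0) (P.cons (P.lf 37084926 0 0) (P.cons (P.lf 7712631 0 0) (P.lf 0 642717 0))))) (P.cons (P.cons (P.lf 55586256 0 0) (P.cons (P.lf 51783741 0 0) (P.cons (P.lf 0 5314695 0) (P.cons (P.lf 0 1105308 0) (P.lf 92109 0 0))))) (P.cons (P.cons (P.lf 0 1826667 0) (P.cons (P.lf 0 1701711 0) (P.cons (P.lf 174648 0 0) (P.cons (P.lf 36321 0 0) P.nil)))) (P.cons (P.cons (P.lf 0 56331 0) (P.cons (P.lf 0 52476 0) (P.cons (P.lf 5385 0 0) P.nil))) (P.cons (P.cons (P.lf 4185 0 0) (P.cons (P.lf 3900 0 0) P.nil)) (P.cons (P.cons (P.lf 0 54 0) P.nil) P.nil)))))) 4974)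
 EL.nil))))
noncomputable def S372_386_216_364_8 : EL := (EL.cons 12 (TM.mk (P.cons (P.cons (P.lf 810649818 0 0) (P.cons (P.lf 0 83958270 0) (P.cons (P.lf 0 34029882 0) (P.cons (P.lf 5897428 0 0) (P.cons (P.lf 195906 0 0) (P.cons (P.lf 0 89824 0) P.nil)))))) (P.cons (P.cons (P.lf 193271482 0 0) (P.cons (P.lf 8039800 0 0) (P.cons (P.lf 2532228 0 0) (P.cons (P.lf 0 1191240 0) (P.cons (P.lf 0 84226 0) P.nil))))) (P.cons (P.cons (P.lf 16316394 0 0) (P.cons (P.lf 663372 0 0) (P.cons (P.lf 450710 0 0) (P.cons (P.lf 110214 0 0) P.nil)))) (P.cons (P.cons (P.lf 0 379900 0) (P.cons (P.lf 0 36340 0) (P.cons (P.lf 0 29928 0) P.nil))) (P.cons (P.cons (P.lf 0 92136 0) (P.cons (P.lf 0 11294 0) P.nil)) (P.cons (P.cons (P.lf 256 0 0) P.nil) P.nil)))))) 145030)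
 (EL.cons 3 (TM.mk (P.cons (P.cons (P.lf 1226237448 0 0) (P.cons (P.lf 9872512 0 0) (P.cons (P.lf 457569 0 0) (P.cons (P.lf 0 3749849 0) (P.cons (P.lf 0 342411 0) (P.cons (P.lf 157002 0 0) P.nil)))))) (P.cons (P.cons (P.lf 192133611 0 0) (P.cons (P.lf 6549941 0 0) (P.cons (P.lf 4338588 0 0) (P.cons (P.lf 992035 0 0) (P.cons (P.lf 136456 0 0) P.nil))))) (P.cons (P.cons (P.lf 0 6754069 0) (P.cons (P.lf 0 517223 0) (P.cons (P.lf 0 453695 0) (P.cons (P.lf 0 174145 0) P.nil)))) (P.cons (P.cons (P.lf 0 1802426 0) (P.cons (P.lf 0 214424 0) (P.cons (P.lf 0 79143 0) P.nil))) (P.cons (P.cons (P.lf 52897 0 0) (P.cons (P.lf 31697 0 0) P.nil)) (P.cons (P.cons (P.lf 13758 0 0) P.nil) P.nil)))))) 327785)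
 (EL.cons 7 (TM.mk (P.cons (P.cons (P.lf 737120648 0 0) (P.cons (P.lf 46906403 0 0) (P.cons (P.lf 15820847 0 0) (P.cons (P.lf 0 6046989 0) (P.cons (P.lf 0 397030 0) (P.cons (P.lf 182042 0 0) P.nil)))))) (P.cons (P.cons (P.lf 173009774 0 0) (P.cons (P.lf 5897995 0 0) (P.cons (P.lf 3906748 0 0) (P.cons (P.lf 893296 0 0) (P.cons (P.lf 122871 0 0) P.nil))))) (P.cons (P.cons (P.lf 2834849 0 0) (P.cons (P.lf 0 161761 0) (P.cons (P.lf 0 207184 0) (P.cons (P.lf 0 110773 0) P.nil)))) (P.cons (P.cons (P.lf 0 1690754 0) (P.cons (P.lf 0 213146 0) (P.cons (P.lf 0 91436 0) P.nil))) (P.cons (P.cons (P.lf 0 78316 0) (P.cons (P.lf 12810 0 0) P.nil)) (P.cons (P.cons (P.lf 10325 0 0) P.nil) P.nil)))))) 199689)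
 (EL.cons 10 (TM.mk (P.cons (P.cons (P.lf 0 238307712 0) (P.cons (P.lf 0 209665026 0) (P.cons (P.lf 39602898 0 0) (P.cons (P.lf 7924866 0 0) (P.cons (P.lf 0 1699884 0) (P.cons (P.lf 0 28830 0) P.nil)))))) (P.cons (P.cons (P.lf 5744106 0 0) (P.cons (P.lf 929772 0 0) (P.cons (P.lf 0 6574692 0) (P.cons (P.lf 0 1255770 0) (P.cons (P.lf 477072 0 0) P.nil))))) (P.cons (P.cons (P.lf 2243862 0 0) (P.cons (P.lf 2710884 0 0) (P.cons (P.lf 631104 0 0) (P.cons (P.lf 115590 0 0) P.nil)))) (P.cons (P.cons (P.lf 72528 0 0) (P.cons (P.lf 29460 0 0) (P.cons (P.lf 0 58860 0) P.nil))) (P.cons (P.cons (P.lf 0 27012 0) (P.cons (P.lf 0 25026 0) P.nil)) (P.cons (P.cons (P.lf 924 0 0) P.nil) P.nil)))))) 228204)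
 EL.nil))))
noncomputable def S372_386_216_364_9 : EL := (EL.cons 3 (TM.mk (P.cons (P.lf 3002760528 0 0) (P.cons (P.lf 94350592 0 0) (P.cons (P.lf 0 4582845 0) (P.cons (P.lf 48378 0 0) (P.cons (P.lf 2088 0 0) (P.cons (P.lf 0 86 0) P.nil)))))) 67)
 (EL.cons 7 (TM.mk (P.cons (P.lf 0 1185661915 0) (P.cons (P.lf 84959496 0 0) (P.cons (P.lf 251989 0 0) (P.cons (P.lf 0 68044 0) (P.cons (P.lf 1551 0 0) (P.cons (P.lf 9 0 0) P.nil)))))) 45)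
 EL.nil))
noncomputable def S372_386_216_364_10 : EL := (EL.cons 3 (TM.mk (P.cons (P.cons (P.lf 922449106 0 0) (P.cons (P.lf 0 47768610 0) (P.cons (P.lf 0 20598363 0) (P.lf 2288703 0 0)))) (P.cons (P.cons (P.lf 138947618 0 0) (P.cons (P.lf 8767734 0 0) (P.cons (P.lf 3780744 0 0) (P.lf 0 420080 0)))) (P.cons (P.cons (P.lf 4776423 0 0) (P.cons (P.lf 0 309790 0) (P.cons (P.lf 0 133583 0) (P.lf 14840 0 0)))) (P.cons (P.cons (P.lf 0 608688 0) (P.cons (P.lf 0 33617 0) (P.cons (P.lf 0 14498 0) P.nil))) (P.cons (P.cons (P.lf 0 10675 0) (P.cons (P.lf 2878 0 0) P.nil)) (P.cons (P.cons (P.lf 1957 0 0) P.nil) P.nil)))))) 5284)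
 (EL.cons 7 (TM.mk (P.cons (P.cons (P.lf 0 364235763 0) (P.cons (P.lf 18861784 0 0) (P.cons (P.lf 8133414 0 0) (P.lf 0 903711 0)))) (P.cons (P.cons (P.lf 0 17320138 0) (P.cons (P.lf 0 5406220 0) (P.cons (P.lf 0 2331223 0) (P.lf 259023 0 0)))) (P.cons (P.cons (P.lf 2111081 0 0) (P.cons (P.lf 565044 0 0) (P.cons (P.lf 243653 0 0) (P.lf 0 27071 0)))) (P.cons (P.cons (P.lf 279347 0 0) (P.cons (P.lf 0 19981 0) (P.cons (P.lf 0 8615 0) P.nil))) (P.cons (P.cons (P.lf 0 20301 0) (P.cons (P.lf 0 772 0) P.nil)) (P.cons (P.cons (P.lf 0 128 0) P.nil) P.nil)))))) 2457)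
 EL.nil))
noncomputable def S372_386_216_364_11 : EL := (EL.cons 3 (TM.mk (P.cons (P.cons (P.lf 283376694 0 0) (P.cons (P.lf 0 29349068 0) (P.cons (P.lf 0 11895735 0) (P.cons (P.lf 2061547 0 0) (P.cons (P.lf 68481 0 0) (P.cons (P.lf 0 31398 0) P.nil)))))) (P.cons (P.cons (P.lf 76465455 0 0) (P.cons (P.lf 1888265 0 0) (P.cons (P.lf 511404 0 0) (P.cons (P.lf 0 351641 0) (P.cons (P.lf 0 27290 0) P.nil))))) (P.cons (P.cons (P.lf 7394051 0 0) (P.cons (P.lf 364993 0 0) (P.cons (P.lf 203521 0 0) (P.cons (P.lf 22295 0 0) P.nil)))) (P.cons (P.cons (P.lf 0 52130 0) (P.cons (P.lf 0 10178 0) (P.cons (P.lf 0 7053 0) P.nil))) (P.cons (P.cons (P.lf 0 43799 0) (P.cons (P.lf 0 4675 0) P.nil)) (P.cons (P.cons (P.lf 0 588 0) P.nil) P.nil)))))) 57307)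
 (EL.cons 7 (TM.mk (P.cons (P.cons (P.lf 0 111893356 0) (P.cons (P.lf 11588693 0 0) (P.cons (P.lf 4697117 0 0) (P.cons (P.lf 0 814017 0) (P.cons (P.lf 0 27040 0) (P.cons (P.lf 12398 0 0) P.nil)))))) (P.cons (P.cons (P.lf 0 18659308 0) (P.cons (P.lf 0 1940123 0) (P.cons (P.lf 0 686096 0) (P.cons (P.lf 222754 0 0) (P.cons (P.lf 13563 0 0) P.nil))))) (P.cons (P.cons (P.lf 0 316789 0) (P.cons (P.lf 0 14509 0) (P.cons (P.lf 0 38164 0) (P.cons (P.lf 0 26821 0) P.nil)))) (P.cons (P.cons (P.lf 213064 0 0) (P.cons (P.lf 12478 0 0) (P.cons (P.lf 8932 0 0) P.nil))) (P.cons (P.cons (P.lf 8054 0 0) (P.cons (P.lf 1140 0 0) P.nil)) (P.cons (P.cons (P.lf 0 1051 0) P.nil) P.nil)))))) 24881)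
 EL.nil))
noncomputable def S372_386_216_364_12 : EL := (EL.cons 4 (TM.mk (P.cons (P.lf 0 3002760528 0) (P.cons (P.lf 0 94350592 0) (P.cons (P.lf 4582845 0 0) (P.cons (P.lf 0 48378 0) (P.cons (P.lf 0 2088 0) (P.cons (P.lf 86 0 0) P.nil)))))) 67)
 (EL.cons 8 (TM.mk (P.cons (P.lf 1185661915 0 0) (P.cons (P.lf 0 84959496 0) (P.cons (P.lf 0 251989 0) (P.cons (P.lf 68044 0 0) (P.cons (P.lf 0 1551 0) (P.cons (P.lf 0 9 0) P.nil)))))) 45)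
 EL.nil))
noncomputable def S372_386_216_364_13 : EL := (EL.cons 4 (TM.mk (P.cons (P.cons (P.lf 0 922449106 0) (P.cons (P.lf 47768610 0 0) (P.cons (P.lf 20598363 0 0) (P.lf 0 2288703 0)))) (P.cons (P.cons (P.lf 0 138947618 0) (P.cons (P.lf 0 8767734 0) (P.cons (P.lf 0 3780744 0) (P.lf 420080 0 0)))) (P.cons (P.cons (P.lf 0 4776423 0) (P.cons (P.lf 309790 0 0) (P.cons (P.lf 133583 0 0) (P.lf 0 14840 0)))) (P.cons (P.cons (P.lf 608688 0 0) (P.cons (P.lf 33617 0 0) (P.cons (P.lf 14498 0 0) P.nil))) (P.cons (P.cons (P.lf 10675 0 0) (P.cons (P.lf 0 2878 0) P.nil)) (P.cons (P.cons (P.lf 0 1957 0) P.nil) P.nil)))))) 5284)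
 (EL.cons 8 (TM.mk (P.cons (P.cons (P.lf 364235763 0 0) (P.cons (P.lf 0 18861784 0) (P.cons (P.lf 0 8133414 0) (P.lf 903711 0 0)))) (P.cons (P.cons (P.lf 17320138 0 0) (P.cons (P.lf 5406220 0 0) (P.cons (P.lf 2331223 0 0) (P.lf 0 259023 0)))) (P.cons (P.cons (P.lf 0 2111081 0) (P.cons (P.lf 0 565044 0) (P.cons (P.lf 0 243653 0) (P.lf 27071 0 0)))) (P.cons (P.cons (P.lf 0 279347 0) (P.cons (P.lf 19981 0 0) (P.cons (P.lf 8615 0 0) P.nil))) (P.cons (P.cons (P.lf 20301 0 0) (P.cons (P.lf 772 0 0) P.nil)) (P.cons (P.cons (P.lf 128 0 0) P.nil) P.nil)))))) 2457)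
 EL.nil))
noncomputable def S372_386_216_364_14 : EL := (EL.cons 4 (TM.mk (P.cons (P.cons (P.lf 0 283376694 0) (P.cons (P.lf 29349068 0 0) (P.cons (P.lf 11895735 0 0) (P.cons (P.lf 0 2061547 0) (P.cons (P.lf 0 68481 0) (P.cons (P.lf 31398 0 0) P.nil)))))) (P.cons (P.cons (P.lf 0 76465455 0) (P.cons (P.lf 0 1888265 0) (P.cons (P.lf 0 511404 0) (P.cons (P.lf 351641 0 0) (P.cons (P.lf 27290 0 0) P.nil))))) (P.cons (P.cons (P.lf 0 7394051 0) (P.cons (P.lf 0 364993 0) (P.cons (P.lf 0 203521 0) (P.cons (P.lf 0 22295 0) P.nil)))) (P.cons (P.cons (P.lf 52130 0 0) (P.cons (P.lf 10178 0 0) (P.cons (P.lf 7053 0 0) P.nil))) (P.cons (P.cons (P.lf 43799 0 0) (P.cons (P.lf 4675 0 0) P.nil)) (P.cons (P.cons (P.lf 588 0 0) P.nil) P.nil)))))) 57307)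
 (EL.cons 8 (TM.mk (P.cons (P.cons (P.lf 111893356 0 0) (P.cons (P.lf 0 11588693 0) (P.cons (P.lf 0 4697117 0) (P.cons (P.lf 814017 0 0) (P.cons (P.lf 27040 0 0) (P.cons (P.lf 0 12398 0) P.nil)))))) (P.cons (P.cons (P.lf 18659308 0 0) (P.cons (P.lf 1940123 0 0) (P.cons (P.lf 686096 0 0) (P.cons (P.lf 0 222754 0) (P.cons (P.lf 0 13563 0) P.nil))))) (P.cons (P.cons (P.lf 316789 0 0) (P.cons (P.lf 14509 0 0) (P.cons (P.lf 38164 0 0) (P.cons (P.lf 26821 0 0) P.nil)))) (P.cons (P.cons (P.lf 0 213064 0) (P.cons (P.lf 0 12478 0) (P.cons (P.lf 0 8932 0) P.nil))) (P.cons (P.cons (P.lf 0 8054 0) (P.cons (P.lf 0 1140 0) P.nil)) (P.cons (P.cons (P.lf 1051 0 0) P.nil) P.nil)))))) 24881)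
 EL.nil))
noncomputable def S372_386_216_364_15 : EL := (EL.cons 4 (TM.mk (P.cons (P.lf 0 2239289580 0) (P.cons (P.lf 0 140722709 0) (P.cons (P.lf 4624410 0 0) (P.cons (P.lf 142615 0 0) (P.cons (P.lf 0 10598 0) (P.cons (P.lf 140 0 0) P.nil)))))) 114)
 (EL.cons 8 (TM.mk (P.cons (P.lf 884199837 0 0) (P.cons (P.lf 0 35575309 0) (P.cons (P.lf 0 3528184 0) (P.cons (P.lf 155782 0 0) (P.cons (P.lf 318 0 0) (P.cons (P.lf 0 192 0) P.nil)))))) 65)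
 EL.nil))
noncomputable def S372_386_216_364_16 : EL := (EL.cons 4 (TM.mk (P.cons (P.cons (P.lf 0 687910559 0) (P.cons (P.lf 35623137 0 0) (P.cons (P.lf 15361098 0 0) (P.lf 0 1706786 0)))) (P.cons (P.cons (P.lf 0 125234336 0) (P.cons (P.lf 0 5419156 0) (P.cons (P.lf 0 2336800 0) (P.lf 259642 0 0)))) (P.cons (P.cons (P.lf 0 5767943 0) (P.cons (P.lf 0 28790 0) (P.cons (P.lf 0 12415 0) (P.lf 1380 0 0)))) (P.cons (P.cons (P.lf 489064 0 0) (P.cons (P.lf 42882 0 0) (P.cons (P.lf 18493 0 0) P.nil))) (P.cons (P.cons (P.lf 25512 0 0) (P.cons (P.lf 0 1791 0) P.nil)) (P.cons (P.cons (P.lf 0 2011 0) P.nil) P.nil)))))) 5714)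
 (EL.cons 8 (TM.mk (P.cons (P.cons (P.lf 271626505 0 0) (P.cons (P.lf 0 14066056 0) (P.cons (P.lf 0 6065442 0) (P.lf 673937 0 0)))) (P.cons (P.cons (P.lf 21451236 0 0) (P.cons (P.lf 3589681 0 0) (P.cons (P.lf 1547910 0 0) (P.lf 0 171989 0)))) (P.cons (P.cons (P.lf 0 1583035 0) (P.cons (P.lf 0 273230 0) (P.cons (P.lf 0 117819 0) (P.lf 13090 0 0)))) (P.cons (P.cons (P.lf 0 273125 0) (P.cons (P.lf 0 4718 0) (P.cons (P.lf 0 2035 0) P.nil))) (P.cons (P.cons (P.lf 11393 0 0) (P.cons (P.lf 1742 0 0) P.nil)) (P.cons (P.cons (P.lf 864 0 0) P.nil) P.nil)))))) 2599)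
 EL.nil))
noncomputable def S372_386_216_364_17 : EL := (EL.cons 4 (TM.mk (P.cons (P.cons (P.lf 0 211326368 0) (P.cons (P.lf 21886880 0 0) (P.cons (P.lf 8871168 0 0) (P.cons (P.lf 0 1537385 0) (P.cons (P.lf 0 51069 0) (P.cons (P.lf 23415 0 0) P.nil)))))) (P.cons (P.cons (P.lf 0 63663773 0) (P.cons (P.lf 0 720448 0) (P.cons (P.lf 0 102632 0) (P.cons (P.lf 213928 0 0) (P.cons (P.lf 18747 0 0) P.nil))))) (P.cons (P.cons (P.lf 0 6983294 0) (P.cons (P.lf 0 349842 0) (P.cons (P.lf 0 177298 0) (P.cons (P.lf 0 6041 0) P.nil)))) (P.cons (P.cons (P.lf 0 50757 0) (P.cons (P.lf 1539 0 0) (P.cons (P.lf 1215 0 0) P.nil))) (P.cons (P.cons (P.lf 41234 0 0) (P.cons (P.lf 4133 0 0) P.nil)) (P.cons (P.cons (P.lf 1283 0 0) P.nil) P.nil)))))) 47178)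
 (EL.cons 8 (TM.mk (P.cons (P.cons (P.lf 83443759 0 0) (P.cons (P.lf 0 8642194 0) (P.cons (P.lf 0 3502845 0) (P.cons (P.lf 607048 0 0) (P.cons (P.lf 20165 0 0) (P.cons (P.lf 0 9245 0) P.nil)))))) (P.cons (P.cons (P.lf 16536970 0 0) (P.cons (P.lf 1175286 0 0) (P.cons (P.lf 401588 0 0) (P.cons (P.lf 0 147043 0) (P.cons (P.lf 0 9481 0) P.nil))))) (P.cons (P.cons (P.lf 546120 0 0) (P.cons (P.lf 69471 0 0) (P.cons (P.lf 49883 0 0) (P.cons (P.lf 13855 0 0) P.nil)))) (P.cons (P.cons (P.lf 0 171361 0) (P.cons (P.lf 0 11312 0) (P.cons (P.lf 0 6604 0) P.nil))) (P.cons (P.cons (P.lf 0 11076 0) (P.cons (P.lf 0 1141 0) P.nil)) (P.cons (P.cons (P.lf 848 0 0) P.nil) P.nil)))))) 20198)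
 EL.nil))
noncomputable def S372_386_216_364_18 : EL := (EL.cons 4 (TM.mk (P.cons (P.lf 0 1669935972 0) (P.cons (P.lf 0 157414598 0) (P.cons (P.lf 2699851 0 0) (P.cons (P.lf 347974 0 0) (P.cons (P.lf 0 12676 0) (P.cons (P.lf 0 274 0) P.nil)))))) 154)
 (EL.cons 8 (TM.mk (P.cons (P.lf 659386409 0 0) (P.cons (P.lf 0 5811293 0) (P.cons (P.lf 0 4471091 0) (P.cons (P.lf 84614 0 0) (P.cons (P.lf 7934 0 0) (P.cons (P.lf 0 393 0) P.nil)))))) 76)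
 EL.nil))
noncomputable def S372_386_216_364_19 : EL := (EL.cons 4 (TM.mk (P.cons (P.cons (P.lf 0 513004926 0) (P.cons (P.lf 26565728 0 0) (P.cons (P.lf 11455441 0 0) (P.lf 0 1272825 0)))) (P.cons (P.cons (P.lf 0 109511984 0) (P.cons (P.lf 0 3206572 0) (P.cons (P.lf 0 1382709 0) (P.lf 153632 0 0)))) (P.cons (P.cons (P.lf 0 6452971 0) (P.cons (P.lf 0 188998 0) (P.cons (P.lf 0 81498 0) (P.lf 9055 0 0)))) (P.cons (P.cons (P.lf 363832 0 0) (P.cons (P.lf 37900 0 0) (P.cons (P.lf 16344 0 0) P.nil))) (P.cons (P.cons (P.lf 35189 0 0) (P.cons (P.lf 0 345 0) P.nil)) (P.cons (P.cons (P.lf 0 1578 0) P.nil) P.nil)))))) 5583)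
 (EL.cons 8 (TM.mk (P.cons (P.cons (P.lf 202563740 0 0) (P.cons (P.lf 0 10489671 0) (P.cons (P.lf 0 4523264 0) (P.lf 502584 0 0)))) (P.cons (P.cons (P.lf 22361936 0 0) (P.cons (P.lf 2347382 0 0) (P.cons (P.lf 1012217 0 0) (P.lf 0 112467 0)))) (P.cons (P.cons (P.lf 0 987043 0) (P.cons (P.lf 0 103636 0) (P.cons (P.lf 0 44689 0) (P.lf 4965 0 0)))) (P.cons (P.cons (P.lf 0 261926 0) (P.cons (P.lf 0 14175 0) (P.cons (P.lf 0 6113 0) P.nil))) (P.cons (P.cons (P.lf 4297 0 0) (P.cons (P.lf 1535 0 0) P.nil)) (P.cons (P.cons (P.lf 1209 0 0) P.nil) P.nil)))))) 2444)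
 EL.nil))
noncomputable def S372_386_216_364_20 : EL := (EL.cons 4 (TM.mk (P.cons (P.cons (P.lf 0 157595295 0) (P.cons (P.lf 16322002 0 0) (P.cons (P.lf 6615616 0 0) (P.cons (P.lf 0 1146495 0) (P.cons (P.lf 0 38085 0) (P.cons (P.lf 17461 0 0) P.nil)))))) (P.cons (P.cons (P.lf 0 52428701 0) (P.cons (P.lf 0 24411 0) (P.cons (P.lf 131332 0 0) (P.cons (P.lf 123510 0 0) (P.cons (P.lf 12783 0 0) P.nil))))) (P.cons (P.cons (P.lf 0 6459006 0) (P.cons (P.lf 0 302685 0) (P.cons (P.lf 0 144720 0) (P.cons (P.lf 2256 0 0) P.nil)))) (P.cons (P.cons (P.lf 0 131565 0) (P.cons (P.lf 0 5965 0) (P.cons (P.lf 0 3023 0) P.nil))) (P.cons (P.cons (P.lf 36634 0 0) (P.cons (P.lf 3519 0 0) P.nil)) (P.cons (P.cons (P.lf 1868 0 0) P.nil) P.nil)))))) 38247)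
 (EL.cons 8 (TM.mk (P.cons (P.cons (P.lf 62227653 0 0) (P.cons (P.lf 0 6444861 0) (P.cons (P.lf 0 2612224 0) (P.cons (P.lf 452702 0 0) (P.cons (P.lf 15038 0 0) (P.cons (P.lf 0 6895 0) P.nil)))))) (P.cons (P.cons (P.lf 14287613 0 0) (P.cons (P.lf 673956 0 0) (P.cons (P.lf 217402 0 0) (P.cons (P.lf 0 95432 0) (P.cons (P.lf 0 6597 0) P.nil))))) (P.cons (P.cons (P.lf 699791 0 0) (P.cons (P.lf 89183 0 0) (P.cons (P.lf 50597 0 0) (P.cons (P.lf 6196 0 0) P.nil)))) (P.cons (P.cons (P.lf 0 132813 0) (P.cons (P.lf 0 8249 0) (P.cons (P.lf 0 4255 0) P.nil))) (P.cons (P.cons (P.lf 0 12655 0) (P.cons (P.lf 0 1185 0) P.nil)) (P.cons (P.cons (P.lf 581 0 0) P.nil) P.nil)))))) 16152)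
 EL.nil))
noncomputable def S372_386_216_364_21 : EL := (EL.cons 4 (TM.mk (P.cons (P.cons (P.lf 0 1534602315 0) (P.cons (P.lf 0 143305830 0) (P.cons (P.lf 0 61795089 0) (P.lf 6866109 0 0)))) (P.cons (P.cons (P.lf 0 5325270 0) (P.cons (P.lf 26303202 0 0) (P.cons (P.lf 11342232 0 0) (P.lf 0 1260240 0)))) (P.cons (P.cons (P.lf 28202502 0 0) (P.cons (P.lf 0 929370 0) (P.cons (P.lf 0 400749 0) (P.lf 44520 0 0)))) (P.cons (P.cons (P.lf 0 1398222 0) (P.cons (P.lf 0 100851 0) (P.cons (P.lf 0 43494 0) P.nil))) (P.cons (P.cons (P.lf 0 63819 0) (P.cons (P.lf 8634 0 0) P.nil)) (P.cons (P.cons (P.lf 6294 0 0) P.nil) P.nil)))))) 16173)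
 (EL.cons 8 (TM.mk (P.cons (P.cons (P.lf 0 1381857126 0) (P.cons (P.lf 0 129042036 0) (P.cons (P.lf 0 55644381 0) (P.lf 6182712 0 0)))) (P.cons (P.cons (P.lf 0 147232959 0) (P.cons (P.lf 10383879 0 0) (P.cons (P.lf 4477644 0 0) (P.lf 0 497520 0)))) (P.cons (P.cons (P.lf 16509960 0 0) (P.cons (P.lf 820923 0 0) (P.cons (P.lf 353991 0 0) (P.lf 0 39330 0)))) (P.cons (P.cons (P.lf 754995 0 0) (P.cons (P.lf 0 86901 0) (P.cons (P.lf 0 37470 0) P.nil))) (P.cons (P.cons (P.lf 0 72573 0) (P.cons (P.lf 0 315 0) P.nil)) (P.cons (P.cons (P.lf 54 0 0) P.nil) P.nil)))))) 10020)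
 (EL.cons 11 (TM.mk (P.cons (P.cons (P.lf 387870180 0 0) (P.cons (P.lf 361336956 0 0) (P.cons (P.lf 0 37084926 0) (P.cons (P.lf 0 7712631 0) (P.lf 642717 0 0))))) (P.cons (P.cons (P.lf 0 55586256 0) (P.cons (P.lf 0 51783741 0) (P.cons (P.lf 5314695 0 0) (P.cons (P.lf 1105308 0 0) (P.lf 0 92109 0))))) (P.cons (P.cons (P.lf 1826667 0 0) (P.cons (P.lf 1701711 0 0) (P.cons (P.lf 0 174648 0) (P.cons (P.lf 0 36321 0) P.nil)))) (P.cons (P.cons (P.lf 56331 0 0) (P.cons (P.lf 52476 0 0) (P.cons (P.lf 0 5385 0) P.nil))) (P.cons (P.cons (P.lf 0 4185 0) (P.cons (P.lf 0 3900 0) P.nil)) (P.cons (P.cons (P.lf 54 0 0) P.nil) P.nil)))))) 4974)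
 EL.nil)))
noncomputable def S372_386_216_364_22 : EL := (EL.cons 4 (TM.mk (P.cons (P.cons (P.lf 0 471430377 0) (P.cons (P.lf 0 19610790 0) (P.cons (P.lf 0 6176652 0) (P.cons (P.lf 2905698 0 0) (P.cons (P.lf 205446 0 0) (P.cons (P.lf 0 94200 0) P.nil)))))) (P.cons (P.cons (P.lf 0 57834078 0) (P.cons (P.lf 0 2330838 0) (P.cons (P.lf 0 1913592 0) (P.cons (P.lf 0 671838 0) (P.cons (P.lf 0 81873 0) P.nil))))) (P.cons (P.cons (P.lf 7074060 0 0) (P.cons (P.lf 441108 0 0) (P.cons (P.lf 328608 0 0) (P.cons (P.lf 98220 0 0) P.nil)))) (P.cons (P.cons (P.lf 875148 0 0) (P.cons (P.lf 102123 0 0) (P.cons (P.lf 36045 0 0) P.nil))) (P.cons (P.cons (P.lf 0 48348 0) (P.cons (P.lf 0 18186 0) P.nil)) (P.cons (P.cons (P.lf 0 7173 0) P.nil) P.nil)))))) 135228)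
 (EL.cons 8 (TM.mk (P.cons (P.cons (P.lf 0 424507002 0) (P.cons (P.lf 0 17658855 0) (P.cons (P.lf 0 5561865 0) (P.cons (P.lf 2616486 0 0) (P.cons (P.lf 184995 0 0) (P.cons (P.lf 0 84822 0) P.nil)))))) (P.cons (P.cons (P.lf 0 95834541 0) (P.cons (P.lf 0 3919059 0) (P.cons (P.lf 0 2296422 0) (P.cons (P.lf 0 335271 0) (P.cons (P.lf 0 54654 0) P.nil))))) (P.cons (P.cons (P.lf 0 1575819 0) (P.cons (P.lf 73626 0 0) (P.cons (P.lf 84510 0 0) (P.cons (P.lf 41976 0 0) P.nil)))) (P.cons (P.cons (P.lf 951909 0 0) (P.cons (P.lf 112812 0 0) (P.cons (P.lf 50184 0 0) P.nil))) (P.cons (P.cons (P.lf 43185 0 0) (P.cons (P.lf 0 5835 0) P.nil)) (P.cons (P.cons (P.lf 0 5688 0) P.nil) P.nil)))))) 87393)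
 (EL.cons 11 (TM.mk (P.cons (P.cons (P.lf 119153856 0 0) (P.cons (P.lf 104832513 0 0) (P.cons (P.lf 0 19801449 0) (P.cons (P.lf 0 3962433 0) (P.cons (P.lf 849942 0 0) (P.cons (P.lf 14415 0 0) P.nil)))))) (P.cons (P.cons (P.lf 0 2872053 0) (P.cons (P.lf 0 464886 0) (P.cons (P.lf 3287346 0 0) (P.cons (P.lf 627885 0 0) (P.cons (P.lf 0 238536 0) P.nil))))) (P.cons (P.cons (P.lf 0 1121931 0) (P.cons (P.lf 0 1355442 0) (P.cons (P.lf 0 315552 0) (P.cons (P.lf 0 57795 0) P.nil)))) (P.cons (P.cons (P.lf 0 36264 0) (P.cons (P.lf 0 14730 0) (P.cons (P.lf 29430 0 0) P.nil))) (P.cons (P.cons (P.lf 13506 0 0) (P.cons (P.lf 12513 0 0) P.nil)) (P.cons (P.cons (P.lf 0 462 0) P.nil) P.nil)))))) 114102)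
 EL.nil)))
noncomputable def S372_386_216_364_23 : EL := (EL.cons 4 (TM.mk (P.cons (P.cons (P.lf 0 1144419921 0) (P.cons (P.lf 0 106869411 0) (P.cons (P.lf 0 46083294 0) (P.lf 5120355 0 0)))) (P.cons (P.cons (P.lf 0 39930429 0) (P.cons (P.lf 16257471 0 0) (P.cons (P.lf 7010400 0 0) (P.lf 0 778926 0)))) (P.cons (P.cons (P.lf 22653678 0 0) (P.cons (P.lf 86373 0 0) (P.cons (P.lf 37248 0 0) (P.lf 0 4143 0)))) (P.cons (P.cons (P.lf 0 394245 0) (P.cons (P.lf 0 128643 0) (P.cons (P.lf 0 55476 0) P.nil))) (P.cons (P.cons (P.lf 0 113313 0) (P.cons (P.lf 5373 0 0) P.nil)) (P.cons (P.cons (P.lf 5157 0 0) P.nil) P.nil)))))) 17496)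
 (EL.cons 8 (TM.mk (P.cons (P.cons (P.lf 0 1030511169 0) (P.cons (P.lf 0 96232278 0) (P.cons (P.lf 0 41496441 0) (P.lf 4610718 0 0)))) (P.cons (P.cons (P.lf 0 142178025 0) (P.cons (P.lf 4719969 0 0) (P.cons (P.lf 2035302 0 0) (P.lf 0 226146 0)))) (P.cons (P.cons (P.lf 10434978 0 0) (P.cons (P.lf 1002384 0 0) (P.cons (P.lf 432240 0 0) (P.lf 0 48024 0)))) (P.cons (P.cons (P.lf 1100868 0 0) (P.cons (P.lf 0 58938 0) (P.cons (P.lf 0 25413 0) P.nil))) (P.cons (P.cons (P.lf 0 57705 0) (P.cons (P.lf 0 3147 0) P.nil)) (P.cons (P.cons (P.lf 0 2367 0) P.nil) P.nil)))))) 11064)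
 (EL.cons 11 (TM.mk (P.cons (P.cons (P.lf 289251720 0 0) (P.cons (P.lf 269464737 0 0) (P.cons (P.lf 0 27655845 0) (P.cons (P.lf 0 5751645 0) (P.lf 479301 0 0))))) (P.cons (P.cons (P.lf 0 32364435 0) (P.cons (P.lf 0 30150465 0) (P.cons (P.lf 3094416 0 0) (P.cons (P.lf 643551 0 0) (P.lf 0 53628 0))))) (P.cons (P.cons (P.lf 0 381741 0) (P.cons (P.lf 0 355626 0) (P.cons (P.lf 36501 0 0) (P.cons (P.lf 7590 0 0) P.nil)))) (P.cons (P.cons (P.lf 152736 0 0) (P.cons (P.lf 142287 0 0) (P.cons (P.lf 0 14601 0) P.nil))) (P.cons (P.cons (P.lf 0 4344 0) (P.cons (P.lf 0 4050 0) P.nil)) (P.cons (P.cons (P.lf 0 135 0) P.nil) P.nil)))))) 9816)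
 EL.nil)))
noncomputable def S372_386_216_364_24 : EL := (EL.cons 4 (TM.mk (P.cons (P.cons (P.lf 0 351566208 0) (P.cons (P.lf 0 14624622 0) (P.cons (P.lf 0 4606197 0) (P.cons (P.lf 2166906 0 0) (P.cons (P.lf 153210 0 0) (P.cons (P.lf 0 70248 0) P.nil)))))) (P.cons (P.cons (P.lf 0 54176058 0) (P.cons (P.lf 0 2197731 0) (P.cons (P.lf 0 1571781 0) (P.cons (P.lf 0 432933 0) (P.cons (P.lf 0 56241 0) P.nil))))) (P.cons (P.cons (P.lf 4456818 0 0) (P.cons (P.lf 296655 0 0) (P.cons (P.lf 207246 0 0) (P.cons (P.lf 54198 0 0) P.nil)))) (P.cons (P.cons (P.lf 878556 0 0) (P.cons (P.lf 88911 0 0) (P.cons (P.lf 36684 0 0) P.nil))) (P.cons (P.cons (P.lf 0 24540 0) (P.cons (P.lf 0 11709 0) P.nil)) (P.cons (P.cons (P.lf 0 7413 0) P.nil) P.nil)))))) 90231)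
 (EL.cons 8 (TM.mk (P.cons (P.cons (P.lf 0 316573398 0) (P.cons (P.lf 0 13168977 0) (P.cons (P.lf 0 4147725 0) (P.cons (P.lf 1951227 0 0) (P.cons (P.lf 137961 0 0) (P.cons (P.lf 0 63255 0) P.nil)))))) (P.cons (P.cons (P.lf 0 81415143 0) (P.cons (P.lf 0 3336399 0) (P.cons (P.lf 0 1842870 0) (P.cons (P.lf 0 188715 0) (P.cons (P.lf 0 36423 0) P.nil))))) (P.cons (P.cons (P.lf 0 2937615 0) (P.cons (P.lf 0 16827 0) (P.cons (P.lf 15543 0 0) (P.cons (P.lf 20469 0 0) P.nil)))) (P.cons (P.cons (P.lf 776931 0 0) (P.cons (P.lf 90102 0 0) (P.cons (P.lf 41949 0 0) P.nil))) (P.cons (P.cons (P.lf 54930 0 0) (P.cons (P.lf 0 1848 0) P.nil)) (P.cons (P.cons (P.lf 0 4371 0) P.nil) P.nil)))))) 58545)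
 (EL.cons 11 (TM.mk (P.cons (P.cons (P.lf 88858230 0 0) (P.cons (P.lf 78178179 0 0) (P.cons (P.lf 0 14766804 0) (P.cons (P.lf 0 2954958 0) (P.cons (P.lf 633840 0 0) (P.cons (P.lf 10749 0 0) P.nil)))))) (P.cons (P.cons (P.lf 650223 0 0) (P.cons (P.lf 2109771 0 0) (P.cons (P.lf 1987527 0 0) (P.cons (P.lf 375393 0 0) (P.cons (P.lf 0 157968 0) P.nil))))) (P.cons (P.cons (P.lf 0 1039587 0) (P.cons (P.lf 0 1141023 0) (P.cons (P.lf 0 135753 0) (P.cons (P.lf 0 23877 0) P.nil)))) (P.cons (P.cons (P.lf 0 48630 0) (P.cons (P.lf 0 40956 0) (P.cons (P.lf 10572 0 0) P.nil))) (P.cons (P.cons (P.lf 10524 0 0) (P.cons (P.lf 10578 0 0) P.nil)) (P.cons (P.cons (P.lf 0 3 0) P.nil) P.nil)))))) 76785)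
 EL.nil)))
noncomputable def S372_386_216_364_25 : EL := (EL.cons 4 (TM.mk (P.cons (P.cons (P.lf 0 853443882 0) (P.cons (P.lf 0 79697184 0) (P.cons (P.lf 0 34366323 0) (P.lf 3818472 0 0)))) (P.cons (P.cons (P.lf 0 56594166 0) (P.cons (P.lf 9619716 0 0) (P.cons (P.lf 4148127 0 0) (P.lf 0 460899 0)))) (P.cons (P.cons (P.lf 17260713 0 0) (P.cons (P.lf 566997 0 0) (P.cons (P.lf 244497 0 0) (P.lf 0 27168 0)))) (P.cons (P.cons (P.lf 268515 0 0) (P.cons (P.lf 0 113700 0) (P.cons (P.lf 0 49029 0) P.nil))) (P.cons (P.cons (P.lf 0 120597 0) (P.cons (P.lf 1035 0 0) P.nil)) (P.cons (P.cons (P.lf 1914 0 0) P.nil) P.nil)))))) 16668)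
 (EL.cons 8 (TM.mk (P.cons (P.cons (P.lf 0 768497154 0) (P.cons (P.lf 0 71764608 0) (P.cons (P.lf 0 30945708 0) (P.lf 3438411 0 0)))) (P.cons (P.cons (P.lf 0 130175526 0) (P.cons (P.lf 1264950 0 0) (P.cons (P.lf 545460 0 0) (P.lf 0 60606 0)))) (P.cons (P.cons (P.lf 5623158 0 0) (P.cons (P.lf 967650 0 0) (P.cons (P.lf 417261 0 0) (P.lf 0 46359 0)))) (P.cons (P.cons (P.lf 1214919 0 0) (P.cons (P.lf 0 26991 0) (P.cons (P.lf 0 11637 0) P.nil))) (P.cons (P.cons (P.lf 0 31356 0) (P.cons (P.lf 0 4860 0) P.nil)) (P.cons (P.cons (P.lf 0 4296 0) P.nil) P.nil)))))) 10722)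
 (EL.cons 11 (TM.mk (P.cons (P.cons (P.lf 215707632 0 0) (P.cons (P.lf 200951616 0 0) (P.cons (P.lf 0 20624172 0) (P.cons (P.lf 0 4289253 0) (P.lf 357435 0 0))))) (P.cons (P.cons (P.lf 0 17357760 0) (P.cons (P.lf 0 16170360 0) (P.cons (P.lf 1659603 0 0) (P.cons (P.lf 345150 0 0) (P.lf 0 28761 0))))) (P.cons (P.cons (P.lf 0 1372266 0) (P.cons (P.lf 0 1278393 0) (P.cons (P.lf 131205 0 0) (P.cons (P.lf 27285 0 0) P.nil)))) (P.cons (P.cons (P.lf 145269 0 0) (P.cons (P.lf 135330 0 0) (P.cons (P.lf 0 13887 0) P.nil))) (P.cons (P.cons (P.lf 531 0 0) (P.cons (P.lf 495 0 0) P.nil)) (P.cons (P.cons (P.lf 0 405 0) P.nil) P.nil)))))) 11178)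
 EL.nil)))
noncomputable def S372_386_216_364_26 : EL := (EL.cons 4 (TM.mk (P.cons (P.cons (P.lf 0 262178265 0) (P.cons (P.lf 0 10906218 0) (P.cons (P.lf 0 3435042 0) (P.cons (P.lf 1615956 0 0) (P.cons (P.lf 114255 0 0) (P.cons (P.lf 0 52386 0) P.nil)))))) (P.cons (P.cons (P.lf 0 48639429 0) (P.cons (P.lf 0 1981632 0) (P.cons (P.lf 0 1280079 0) (P.cons (P.lf 0 272082 0) (P.cons (P.lf 0 38352 0) P.nil))))) (P.cons (P.cons (P.lf 2454318 0 0) (P.cons (P.lf 186378 0 0) (P.cons (P.lf 122967 0 0) (P.cons (P.lf 27804 0 0) P.nil)))) (P.cons (P.cons (P.lf 817047 0 0) (P.cons (P.lf 75579 0 0) (P.cons (P.lf 33945 0 0) P.nil))) (P.cons (P.cons (P.lf 0 3621 0) (P.cons (P.lf 0 7020 0) P.nil)) (P.cons (P.cons (P.lf 0 7071 0) P.nil) P.nil)))))) 61878)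
 (EL.cons 8 (TM.mk (P.cons (P.cons (P.lf 0 236082600 0) (P.cons (P.lf 0 9820683 0) (P.cons (P.lf 0 3093141 0) (P.cons (P.lf 1455114 0 0) (P.cons (P.lf 102882 0 0) (P.cons (P.lf 0 47172 0) P.nil)))))) (P.cons (P.cons (P.lf 0 68132844 0) (P.cons (P.lf 0 2796678 0) (P.cons (P.lf 0 1471497 0) (P.cons (P.lf 0 95013 0) (P.cons (P.lf 0 23928 0) P.nil))))) (P.cons (P.cons (P.lf 0 3738135 0) (P.cons (P.lf 0 75738 0) (P.cons (P.lf 0 26868 0) (P.cons (P.lf 8622 0 0) P.nil)))) (P.cons (P.cons (P.lf 599415 0 0) (P.cons (P.lf 70437 0 0) (P.cons (P.lf 33696 0 0) P.nil))) (P.cons (P.cons (P.lf 61371 0 0) (P.cons (P.lf 705 0 0) P.nil)) (P.cons (P.cons (P.lf 0 2928 0) P.nil) P.nil)))))) 40380)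
 (EL.cons 11 (TM.mk (P.cons (P.cons (P.lf 66265461 0 0) (P.cons (P.lf 58300881 0 0) (P.cons (P.lf 0 11012250 0) (P.cons (P.lf 0 2203641 0) (P.cons (P.lf 472680 0 0) (P.cons (P.lf 8016 0 0) P.nil)))))) (P.cons (P.cons (P.lf 2567043 0 0) (P.cons (P.lf 3405237 0 0) (P.cons (P.lf 1136166 0 0) (P.cons (P.lf 210705 0 0) (P.cons (P.lf 0 102951 0) P.nil))))) (P.cons (P.cons (P.lf 0 861165 0) (P.cons (P.lf 0 890454 0) (P.cons (P.lf 0 37857 0) (P.cons (P.lf 0 5646 0) P.nil)))) (P.cons (P.cons (P.lf 0 60297 0) (P.cons (P.lf 0 58743 0) (P.cons (P.lf 2265 0 0) P.nil))) (P.cons (P.cons (P.lf 7947 0 0) (P.cons (P.lf 8292 0 0) P.nil)) (P.cons (P.cons (P.lf 282 0 0) P.nil) P.nil)))))) 53235)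
 EL.nil)))
noncomputable def S372_386_216_364_27 : EL := (EL.cons 13 (TM.mk (P.lf 0 4294967296 0) 0)
 EL.nil)
noncomputable def S372_386_216_364_28 : EL := (EL.cons 13 (TM.mk (P.cons (P.cons (P.lf 0 1319415488 0) (P.cons (P.lf 68325336 0 0) (P.cons (P.lf 29462656 0 0) (P.lf 0 3273624 0)))) (P.cons (P.cons (P.lf 0 157284552 0) (P.cons (P.lf 0 14687708 0) (P.cons (P.lf 0 6333504 0) (P.lf 703720 0 0)))) (P.cons (P.cons (P.lf 0 3903532 0) (P.cons (P.lf 1008892 0 0) (P.cons (P.lf 435044 0 0) (P.lf 0 48336 0)))) (P.cons (P.cons (P.lf 774495 0 0) (P.cons (P.lf 0 7132 0) (P.cons (P.lf 0 3072 0) P.nil))) (P.cons (P.cons (P.lf 0 11571 0) (P.cons (P.lf 0 2164 0) P.nil)) (P.cons (P.cons (P.lf 0 1121 0) P.nil) P.nil)))))) 3535)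
 EL.nil)
noncomputable def S372_386_216_364_29 : EL := (EL.cons 13 (TM.mk (P.cons (P.cons (P.lf 0 405324909 0) (P.cons (P.lf 41979135 0 0) (P.cons (P.lf 17014941 0 0) (P.cons (P.lf 0 2948714 0) (P.cons (P.lf 0 97953 0) (P.cons (P.lf 44912 0 0) P.nil)))))) (P.cons (P.cons (P.lf 0 96635741 0) (P.cons (P.lf 0 4019900 0) (P.cons (P.lf 0 1266114 0) (P.cons (P.lf 595620 0 0) (P.cons (P.lf 42113 0 0) P.nil))))) (P.cons (P.cons (P.lf 0 8158197 0) (P.cons (P.lf 0 331686 0) (P.cons (P.lf 0 225355 0) (P.cons (P.lf 0 55107 0) P.nil)))) (P.cons (P.cons (P.lf 189950 0 0) (P.cons (P.lf 18170 0 0) (P.cons (P.lf 14964 0 0) P.nil))) (P.cons (P.cons (P.lf 46068 0 0) (P.cons (P.lf 5647 0 0) P.nil)) (P.cons (P.cons (P.lf 0 128 0) P.nil) P.nil)))))) 72515)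
 EL.nil)
noncomputable def S372_386_216_364_30 : EL := (EL.cons 13 (TM.mk (P.cons (P.lf 0 3202944564 0) (P.cons (P.lf 0 100640632 0) (P.cons (P.lf 4888368 0 0) (P.cons (P.lf 0 51604 0) (P.cons (P.lf 0 2228 0) (P.cons (P.lf 92 0 0) P.nil)))))) 64)
 EL.nil)
noncomputable def S372_386_216_364_31 : EL := (EL.cons 13 (TM.mk (P.cons (P.cons (P.lf 0 983945714 0) (P.cons (P.lf 50953185 0 0) (P.cons (P.lf 21971588 0 0) (P.lf 0 2441284 0)))) (P.cons (P.cons (P.lf 0 148210793 0) (P.cons (P.lf 0 9352250 0) (P.cons (P.lf 0 4032794 0) (P.lf 448086 0 0)))) (P.cons (P.cons (P.lf 0 5094852 0) (P.cons (P.lf 330443 0 0) (P.cons (P.lf 142489 0 0) (P.lf 0 15830 0)))) (P.cons (P.cons (P.lf 649268 0 0) (P.cons (P.lf 35859 0 0) (P.cons (P.lf 15465 0 0) P.nil))) (P.cons (P.cons (P.lf 11387 0 0) (P.cons (P.lf 0 3070 0) P.nil)) (P.cons (P.cons (P.lf 0 2088 0) P.nil) P.nil)))))) 5616)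
 EL.nil)
noncomputable def S372_386_216_364_32 : EL := (EL.cons 13 (TM.mk (P.cons (P.cons (P.lf 0 302268474 0) (P.cons (P.lf 31305673 0 0) (P.cons (P.lf 12688784 0 0) (P.cons (P.lf 0 2198984 0) (P.cons (P.lf 0 73047 0) (P.cons (P.lf 33492 0 0) P.nil)))))) (P.cons (P.cons (P.lf 0 81563153 0) (P.cons (P.lf 0 2014150 0) (P.cons (P.lf 0 545498 0) (P.cons (P.lf 375084 0 0) (P.cons (P.lf 29110 0 0) P.nil))))) (P.cons (P.cons (P.lf 0 7886988 0) (P.cons (P.lf 0 389326 0) (P.cons (P.lf 0 217090 0) (P.cons (P.lf 0 23782 0) P.nil)))) (P.cons (P.cons (P.lf 55606 0 0) (P.cons (P.lf 10857 0 0) (P.cons (P.lf 7524 0 0) P.nil))) (P.cons (P.cons (P.lf 46719 0 0) (P.cons (P.lf 4987 0 0) P.nil)) (P.cons (P.cons (P.lf 628 0 0) P.nil) P.nil)))))) 61104)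
 EL.nil)
noncomputable def S372_386_216_364_33 : EL := (EL.cons 14 (TM.mk (P.lf 8589934592 0 0) 0)
 EL.nil)
noncomputable def S372_386_216_364_34 : EL := (EL.cons 14 (TM.mk (P.cons (P.cons (P.lf 2638830976 0 0) (P.cons (P.lf 0 136650672 0) (P.cons (P.lf 0 58925312 0) (P.lf 6547248 0 0)))) (P.cons (P.cons (P.lf 314569104 0 0) (P.cons (P.lf 29375416 0 0) (P.cons (P.lf 12667008 0 0) (P.lf 0 1407440 0)))) (P.cons (P.cons (P.lf 7807064 0 0) (P.cons (P.lf 0 2017784 0) (P.cons (P.lf 0 870088 0) (P.lf 96672 0 0)))) (P.cons (P.cons (P.lf 0 1548990 0) (P.cons (P.lf 14264 0 0) (P.cons (P.lf 6144 0 0) P.nil))) (P.cons (P.cons (P.lf 23142 0 0) (P.cons (P.lf 4328 0 0) P.nil)) (P.cons (P.cons (P.lf 2242 0 0) P.nil) P.nil)))))) 7070)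
 EL.nil)
noncomputable def S372_386_216_364_35 : EL := (EL.cons 14 (TM.mk (P.cons (P.cons (P.lf 810649818 0 0) (P.cons (P.lf 0 83958270 0) (P.cons (P.lf 0 34029882 0) (P.cons (P.lf 5897428 0 0) (P.cons (P.lf 195906 0 0) (P.cons (P.lf 0 89824 0) P.nil)))))) (P.cons (P.cons (P.lf 193271482 0 0) (P.cons (P.lf 8039800 0 0) (P.cons (P.lf 2532228 0 0) (P.cons (P.lf 0 1191240 0) (P.cons (P.lf 0 84226 0) P.nil))))) (P.cons (P.cons (P.lf 16316394 0 0) (P.cons (P.lf 663372 0 0) (P.cons (P.lf 450710 0 0) (P.cons (P.lf 110214 0 0) P.nil)))) (P.cons (P.cons (P.lf 0 379900 0) (P.cons (P.lf 0 36340 0) (P.cons (P.lf 0 29928 0) P.nil))) (P.cons (P.cons (P.lf 0 92136 0) (P.cons (P.lf 0 11294 0) P.nil)) (P.cons (P.cons (P.lf 256 0 0) P.nil) P.nil)))))) 145030)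
 EL.nil)
noncomputable def S372_386_216_364_36 : EL := (EL.cons 14 (TM.mk (P.cons (P.lf 6405889128 0 0) (P.cons (P.lf 201281264 0 0) (P.cons (P.lf 0 9776736 0) (P.cons (P.lf 103208 0 0) (P.cons (P.lf 4456 0 0) (P.cons (P.lf 0 184 0) P.nil)))))) 128)
 EL.nil)
noncomputable def S372_386_216_364_37 : EL := (EL.cons 14 (TM.mk (P.cons (P.cons (P.lf 1967891428 0 0) (P.cons (P.lf 0 101906370 0) (P.cons (P.lf 0 43943176 0) (P.lf 4882568 0 0)))) (P.cons (P.cons (P.lf 296421586 0 0) (P.cons (P.lf 18704500 0 0) (P.cons (P.lf 8065588 0 0) (P.lf 0 896172 0)))) (P.cons (P.cons (P.lf 10189704 0 0) (P.cons (P.lf 0 660886 0) (P.cons (P.lf 0 284978 0) (P.lf 31660 0 0)))) (P.cons (P.cons (P.lf 0 1298536 0) (P.cons (P.lf 0 71718 0) (P.cons (P.lf 0 30930 0) P.nil))) (P.cons (P.cons (P.lf 0 22774 0) (P.cons (P.lf 6140 0 0) P.nil)) (P.cons (P.cons (P.lf 4176 0 0) P.nil) P.nil))))))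 11232)
 EL.nil)
noncomputable def S372_386_216_364_38 : EL := (EL.cons 14 (TM.mk (P.cons (P.cons (P.lf 604536948 0 0) (P.cons (P.lf 0 62611346 0) (P.cons (P.lf 0 25377568 0) (P.cons (P.lf 4397968 0 0) (P.cons (P.lf 146094 0 0) (P.cons (P.lf 0 66984 0) P.nil)))))) (P.cons (P.cons (P.lf 163126306 0 0) (P.cons (P.lf 4028300 0 0) (P.cons (P.lf 1090996 0 0) (P.cons (P.lf 0 750168 0) (P.cons (P.lf 0 58220 0) P.nil))))) (P.cons (P.cons (P.lf 15773976 0 0) (P.cons (P.lf 778652 0 0) (P.cons (P.lf 434180 0 0) (P.cons (P.lf 47564 0 0) P.nil)))) (P.cons (P.cons (P.lf 0 111212 0) (P.cons (P.lf 0 21714 0) (P.cons (P.lf 0 15048 0) P.nil))) (P.cons (P.cons (P.lf 0 93438 0) (P.cons (P.lf 0 9974 0) P.nil)) (P.cons (P.cons (P.lf 0 1256 0) P.nil) P.nil)))))) 122208)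
 EL.nil)
noncomputable def S372_386_216_364_39 : EL := (EL.cons 14 (TM.mk (P.cons (P.lf 4777151104 0 0) (P.cons (P.lf 300208446 0 0) (P.cons (P.lf 0 9865408 0) (P.cons (P.lf 0 304246 0) (P.cons (P.lf 22610 0 0) (P.cons (P.lf 0 300 0) P.nil)))))) 230)
 EL.nil)
noncomputable def S372_386_216_364_40 : EL := (EL.cons 14 (TM.mk (P.cons (P.cons (P.lf 1467542526 0 0) (P.cons (P.lf 0 75996026 0) (P.cons (P.lf 0 32770344 0) (P.lf 3641144 0 0)))) (P.cons (P.cons (P.lf 267166584 0 0) (P.cons (P.lf 11560868 0 0) (P.cons (P.lf 4985174 0 0) (P.lf 0 553904 0)))) (P.cons (P.cons (P.lf 12304946 0 0) (P.cons (P.lf 61420 0 0) (P.cons (P.lf 26486 0 0) (P.lf 0 2944 0)))) (P.cons (P.cons (P.lf 0 1043338 0) (P.cons (P.lf 0 91482 0) (P.cons (P.lf 0 39452 0) P.nil))) (P.cons (P.cons (P.lf 0 54426 0) (P.cons (P.lf 3822 0 0) P.nil)) (P.cons (P.cons (P.lf 4292 0 0) P.nil) P.nil)))))) 12150)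
 EL.nil)
noncomputable def S372_386_216_364_41 : EL := (EL.cons 14 (TM.mk (P.cons (P.cons (P.lf 450829586 0 0) (P.cons (P.lf 0 46692012 0) (P.cons (P.lf 0 18925160 0) (P.cons (P.lf 3279756 0 0) (P.cons (P.lf 108948 0 0) (P.cons (P.lf 0 49954 0) P.nil)))))) (P.cons (P.cons (P.lf 135816050 0 0) (P.cons (P.lf 1536956 0 0) (P.cons (P.lf 218950 0 0) (P.cons (P.lf 0 456380 0) (P.cons (P.lf 0 39994 0) P.nil))))) (P.cons (P.cons (P.lf 14897694 0 0) (P.cons (P.lf 746330 0 0) (P.cons (P.lf 378236 0 0) (P.cons (P.lf 12888 0 0) P.nil)))) (P.cons (P.cons (P.lf 108282 0 0) (P.cons (P.lf 0 3284 0) (P.cons (P.lf 0 2594 0) P.nil))) (P.cons (P.cons (P.lf 0 87966 0) (P.cons (P.lf 0 8818 0) P.nil)) (P.cons (P.cons (P.lf 0 2738 0) P.nil) P.nil)))))) 100600)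
 EL.nil)
noncomputable def S372_386_216_364_42 : EL := (EL.cons 14 (TM.mk (P.cons (P.lf 3562530074 0 0) (P.cons (P.lf 335817810 0 0) (P.cons (P.lf 0 5759684 0) (P.cons (P.lf 0 742346 0) (P.cons (P.lf 27044 0 0) (P.cons (P.lf 586 0 0) P.nil)))))) 314)
 EL.nil)
noncomputable def S372_386_216_364_43 : EL := (EL.cons 14 (TM.mk (P.cons (P.cons (P.lf 1094410510 0 0) (P.cons (P.lf 0 56673554 0) (P.cons (P.lf 0 24438276 0) (P.lf 2715360 0 0)))) (P.cons (P.cons (P.lf 233625566 0 0) (P.cons (P.lf 6840688 0 0) (P.cons (P.lf 2949780 0 0) (P.lf 0 327750 0)))) (P.cons (P.cons (P.lf 13766340 0 0) (P.cons (P.lf 403196 0 0) (P.cons (P.lf 173864 0 0) (P.lf 0 19318 0)))) (P.cons (P.cons (P.lf 0 776176 0) (P.cons (P.lf 0 80854 0) (P.cons (P.lf 0 34868 0) P.nil))) (P.cons (P.cons (P.lf 0 75070 0) (P.cons (P.lf 736 0 0) P.nil)) (P.cons (P.cons (P.lf 3368 0 0) P.nil) P.nil)))))) 11870)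
 EL.nil)
noncomputable def S372_386_216_364_44 : EL := (EL.cons 14 (TM.mk (P.cons (P.cons (P.lf 336203298 0 0) (P.cons (P.lf 0 34820272 0) (P.cons (P.lf 0 14113316 0) (P.cons (P.lf 2445858 0 0) (P.cons (P.lf 81248 0 0) (P.cons (P.lf 0 37252 0) P.nil)))))) (P.cons (P.cons (P.lf 111847896 0 0) (P.cons (P.lf 52078 0 0) (P.cons (P.lf 0 280176 0) (P.cons (P.lf 0 263490 0) (P.cons (P.lf 0 27272 0) P.nil))))) (P.cons (P.cons (P.lf 13779214 0 0) (P.cons (P.lf 645728 0 0) (P.cons (P.lf 308736 0 0) (P.cons (P.lf 0 4814 0) P.nil)))) (P.cons (P.cons (P.lf 280672 0 0) (P.cons (P.lf 12726 0 0) (P.cons (P.lf 6450 0 0) P.nil))) (P.cons (P.cons (P.lf 0 78154 0) (P.cons (P.lf 0 7508 0) P.nil)) (P.cons (P.cons (P.lf 0 3986 0) P.nil) P.nil)))))) 81548)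
 EL.nil)
noncomputable def S372_386_216_364_45 : EL := (EL.cons 14 (TM.mk (P.cons (P.cons (P.lf 249031912 0 0) (P.cons (P.lf 0 38688014 0) (P.cons (P.lf 0 14679266 0) (P.cons (P.lf 3546862 0 0) (P.cons (P.lf 135810 0 0) (P.cons (P.lf 0 97102 0) P.nil)))))) (P.cons (P.cons (P.lf 89059602 0 0) (P.cons (P.lf 0 907166 0) (P.cons (P.lf 0 1013704 0) (P.cons (P.lf 0 471108 0) (P.cons (P.lf 0 27248 0) P.nil))))) (P.cons (P.cons (P.lf 12826900 0 0) (P.cons (P.lf 632856 0 0) (P.cons (P.lf 327888 0 0) (P.cons (P.lf 10778 0 0) P.nil)))) (P.cons (P.cons (P.lf 510286 0 0) (P.cons (P.lf 53364 0 0) (P.cons (P.lf 24236 0 0) P.nil))) (P.cons (P.cons (P.lf 0 60054 0) (P.cons (P.lf 0 8810 0) P.nil)) (P.cons (P.cons (P.lf 0 5850 0) P.nil) P.nil)))))) 152502)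
 EL.nil)
noncomputable def S372_386_216_364_46 : EL := (EL.cons 15 (TM.mk (P.lf 4294967296 0 0) 0)
 EL.nil)
noncomputable def S372_386_216_364_47 : EL := (EL.cons 15 (TM.mk (P.cons (P.cons (P.lf 1319415488 0 0) (P.cons (P.lf 0 68325336 0) (P.cons (P.lf 0 29462656 0) (P.lf 3273624 0 0)))) (P.cons (P.cons (P.lf 157284552 0 0) (P.cons (P.lf 14687708 0 0) (P.cons (P.lf 6333504 0 0) (P.lf 0 703720 0)))) (P.cons (P.cons (P.lf 3903532 0 0) (P.cons (P.lf 0 1008892 0) (P.cons (P.lf 0 435044 0) (P.lf 48336 0 0)))) (P.cons (P.cons (P.lf 0 774495 0) (P.cons (P.lf 7132 0 0) (P.cons (P.lf 3072 0 0) P.nil))) (P.cons (P.cons (P.lf 11571 0 0) (P.cons (P.lf 2164 0 0) P.nil)) (P.cons (P.cons (P.lf 1121 0 0) P.nil) P.nil)))))) 3535)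
 EL.nil)
noncomputable def S372_386_216_364_48 : EL := (EL.cons 15 (TM.mk (P.cons (P.cons (P.lf 405324909 0 0) (P.cons (P.lf 0 41979135 0) (P.cons (P.lf 0 17014941 0) (P.cons (P.lf 2948714 0 0) (P.cons (P.lf 97953 0 0) (P.cons (P.lf 0 44912 0) P.nil)))))) (P.cons (P.cons (P.lf 96635741 0 0) (P.cons (P.lf 4019900 0 0) (P.cons (P.lf 1266114 0 0) (P.cons (P.lf 0 595620 0) (P.cons (P.lf 0 42113 0) P.nil))))) (P.cons (P.cons (P.lf 8158197 0 0) (P.cons (P.lf 331686 0 0) (P.cons (P.lf 225355 0 0) (P.cons (P.lf 55107 0 0) P.nil)))) (P.cons (P.cons (P.lf 0 189950 0) (P.cons (P.lf 0 18170 0) (P.cons (P.lf 0 14964 0) P.nil))) (P.cons (P.cons (P.lf 0 46068 0) (P.cons (P.lf 0 5647 0) P.nil)) (P.cons (P.cons (P.lf 128 0 0) P.nil) P.nil)))))) 72515)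
 EL.nil)
noncomputable def S372_386_216_364 : SL := (SL.cons S372_386_216_364_0 (SL.cons S372_386_216_364_1 (SL.cons S372_386_216_364_2 (SL.cons S372_386_216_364_3 (SL.cons S372_386_216_364_4 (SL.cons S372_386_216_364_5 (SL.cons S372_386_216_364_6 (SL.cons S372_386_216_364_7 (SL.cons S372_386_216_364_8 (SL.cons S372_386_216_364_9 (SL.cons S372_386_216_364_10 (SL.cons S372_386_216_364_11 (SL.cons S372_386_216_364_12 (SL.cons S372_386_216_364_13 (SL.cons S372_386_216_364_14 (SL.cons S372_386_216_364_15 (SL.cons S372_386_216_364_16 (SL.cons S372_386_216_364_17 (SL.cons S372_386_216_364_18 (SL.cons S372_386_216_364_19 (SL.cons S372_386_216_364_20 (SL.cons S372_386_216_364_21 (SL.cons S372_386_216_364_22 (SL.cons S372_386_216_364_23 (SL.cons S372_386_216_364_24 (SL.cons S372_386_216_364_25 (SL.cons S372_386_216_364_26 (SL.cons S372_386_216_364_27 (SL.cons S372_386_216_364_28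 (SL.cons S372_386_216_364_29 (SL.cons S372_386_216_364_30 (SL.cons S372_386_216_364_31 (SL.cons S372_386_216_364_32 (SL.cons S372_386_216_364_33 (SL.cons S372_386_216_364_34 (SL.cons S372_386_216_364_35 (SL.cons S372_386_216_364_36 (SL.cons S372_386_216_364_37 (SL.cons S372_386_216_364_38 (SL.cons S372_386_216_364_39 (SL.cons S372_386_216_364_40 (SL.cons S372_386_216_364_41 (SL.cons S372_386_216_364_42 (SL.cons S372_386_216_364_43 (SL.cons S372_386_216_364_44 (SL.cons S372_386_216_364_45 (SL.cons S372_386_216_364_46 (SL.cons S372_386_216_364_47 (SL.cons S372_386_216_364_48 SL.nil)))))))))))))))))))))))))))))))))))))))))))))))))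
noncomputable def S372_386_364_512_0 : EL := (EL.cons 0 (TM.mk (P.cons (P.lf 4257048901 0 0) (P.cons (P.lf 0 263855079 0) (P.cons (P.lf 8670768 0 0) (P.cons (P.lf 267403 0 0) (P.cons (P.lf 0 19872 0) (P.cons (P.lf 263 0 0) P.nil)))))) 209)
 (EL.cons 1 (TM.mk (P.cons (P.lf 1657874694 0 0) (P.cons (P.lf 0 66703704 0) (P.cons (P.lf 0 6615345 0) (P.cons (P.lf 292091 0 0) (P.cons (P.lf 596 0 0) (P.cons (P.lf 0 360 0) P.nil)))))) 128)
 (EL.cons 5 (TM.mk (P.cons (P.lf 5787827018 0 0) (P.cons (P.lf 93815138 0 0) (P.cons (P.lf 0 3082942 0) (P.cons (P.lf 0 95074 0) (P.cons (P.lf 7066 0 0) (P.cons (P.lf 0 96 0) P.nil)))))) 77)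
 (EL.cons 9 (TM.mk (P.lf 6442450944 0 0) 2)
 EL.nil))))
noncomputable def S372_386_364_512_1 : EL := (EL.cons 0 (TM.mk (P.cons (P.cons (P.lf 3896837268 0 0) (P.cons (P.lf 285201074 0 0) (P.cons (P.lf 19067867 0 0) (P.lf 0 6355942 0)))) (P.cons (P.cons (P.lf 110521954 0 0) (P.cons (P.lf 0 25212390 0) (P.cons (P.lf 0 1685630 0) (P.lf 561867 0 0)))) (P.cons (P.cons (P.lf 0 52964167 0) (P.cons (P.lf 0 4734482 0) (P.cons (P.lf 0 316542 0) (P.lf 105517 0 0)))) (P.cons (P.cons (P.lf 1253057 0 0) (P.cons (P.lf 721635 0 0) (P.cons (P.lf 48240 0 0) P.nil))) (P.cons (P.cons (P.lf 252383 0 0) (P.cons (P.lf 0 19745 0) P.nil)) (P.cons (P.cons (P.lf 0 14038 0) P.nil) P.nil)))))) 43308)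
 (EL.cons 1 (TM.mk (P.cons (P.cons (P.lf 1132907169 0 0) (P.cons (P.lf 52206199 0 0) (P.cons (P.lf 3490389 0 0) (P.lf 0 1163471 0)))) (P.cons (P.cons (P.lf 243839853 0 0) (P.cons (P.lf 26662294 0 0) (P.cons (P.lf 1782574 0 0) (P.lf 0 594184 0)))) (P.cons (P.cons (P.lf 0 12190008 0) (P.cons (P.lf 0 4773860 0) (P.cons (P.lf 0 319156 0) (P.lf 106382 0 0)))) (P.cons (P.cons (P.lf 0 2401309 0) (P.cons (P.lf 71244 0 0) (P.cons (P.lf 4760 0 0) P.nil))) (P.cons (P.cons (P.lf 121494 0 0) (P.cons (P.lf 23917 0 0) P.nil)) (P.cons (P.cons (P.lf 5293 0 0) P.nil) P.nil)))))) 19067)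
 (EL.cons 5 (TM.mk (P.cons (P.cons (P.lf 469333316 0 0) (P.cons (P.lf 0 351121952 0) (P.cons (P.lf 0 23475196 0) (P.lf 7825056 0 0)))) (P.cons (P.cons (P.lf 311522476 0 0) (P.cons (P.lf 62645412 0 0) (P.cons (P.lf 4188322 0 0) (P.lf 0 1396106 0)))) (P.cons (P.cons (P.lf 19736550 0 0) (P.cons (P.lf 0 2003966 0) (P.cons (P.lf 0 133986 0) (P.lf 44664 0 0)))) (P.cons (P.cons (P.lf 0 1721662 0) (P.cons (P.lf 0 230516 0) (P.cons (P.lf 0 15408 0) P.nil))) (P.cons (P.cons (P.lf 0 57741 0) (P.cons (P.lf 14940 0 0) P.nil)) (P.cons (P.cons (P.lf 6377 0 0) P.nil) P.nil)))))) 15177)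
 (EL.cons 9 (TM.mk (P.cons (P.cons (P.lf 1636654806 0 0) (P.cons (P.lf 0 220338636 0) (P.cons (P.lf 0 14731326 0) (P.lf 4910436 0 0)))) (P.cons (P.cons (P.lf 309546324 0 0) (P.cons (P.lf 47365590 0 0) (P.cons (P.lf 3166752 0 0) (P.lf 0 1055580 0)))) (P.cons (P.cons (P.lf 798396 0 0) (P.cons (P.lf 0 3253524 0) (P.cons (P.lf 0 217518 0) (P.lf 72504 0 0)))) (P.cons (P.cons (P.lf 0 1125994 0) (P.cons (P.lf 22998 0 0) (P.cons (P.lf 1536 0 0) P.nil))) (P.cons (P.cons (P.lf 28222 0 0) (P.cons (P.lf 6990 0 0) P.nil)) (P.cons (P.cons (P.lf 1225 0 0) P.nil) P.nil)))))) 4463)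
 (EL.cons 2 (TM.mk (P.cons (P.cons (P.lf 0 636762645 0) (P.cons (P.lf 0 98586846 0) (P.cons (P.lf 47496031 0 0) (P.cons (P.lf 1797387 0 0) (P.lf 0 449344 0))))) (P.cons (P.cons (P.lf 71247507 0 0) (P.cons (P.lf 11030903 0 0) (P.cons (P.lf 0 5314339 0) (P.cons (P.lf 0 201107 0) (P.lf 50276 0 0))))) (P.cons (P.cons (P.lf 840369 0 0) (P.cons (P.lf 130111 0 0) (P.cons (P.lf 0 62682 0) (P.cons (P.lf 0 2373 0) P.nil)))) (P.cons (P.cons (P.lf 0 336237 0) (P.cons (P.lf 0 52056 0) (P.cons (P.lf 25076 0 0) P.nil))) (P.cons (P.cons (P.lf 9570 0 0) (P.cons (P.lf 1479 0 0) P.nil)) (P.cons (P.cons (P.lf 298 0 0) P.nil) P.nil)))))) 7696)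
 (EL.cons 6 (TM.mk (P.cons (P.cons (P.lf 251430378 0 0) (P.cons (P.lf 38927736 0 0) (P.cons (P.lf 0 18754155 0) (P.cons (P.lf 0 709710 0) (P.lf 177426 0 0))))) (P.cons (P.cons (P.lf 0 54049296 0) (P.cons (P.lf 0 8368188 0) (P.cons (P.lf 4031526 0 0) (P.cons (P.lf 152562 0 0) (P.lf 0 38139 0))))) (P.cons (P.cons (P.lf 3712632 0 0) (P.cons (P.lf 574806 0 0) (P.cons (P.lf 0 276924 0) (P.cons (P.lf 0 10476 0) P.nil)))) (P.cons (P.cons (P.lf 0 26244 0) (P.cons (P.lf 0 4062 0) (P.cons (P.lf 1956 0 0) P.nil))) (P.cons (P.cons (P.lf 0 7977 0) (P.cons (P.lf 0 1233 0) P.nil)) (P.cons (P.cons (P.lf 336 0 0) P.nil) P.nil)))))) 4056)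
 EL.nil))))))
noncomputable def S372_386_364_512_2 : EL := (EL.cons 0 (TM.mk (P.cons (P.cons (P.lf 1705183530 0 0) (P.cons (P.lf 0 47670805 0) (P.cons (P.lf 0 27675035 0) (P.cons (P.lf 0 2212016 0) (P.cons (P.lf 982001 0 0) (P.cons (P.lf 72967 0 0) P.nil)))))) (P.cons (P.cons (P.lf 343728041 0 0) (P.cons (P.lf 57840532 0 0) (P.cons (P.lf 12234822 0 0) (P.cons (P.lf 0 170141 0) (P.cons (P.lf 0 335558 0) P.nil))))) (P.cons (P.cons (P.lf 0 19537856 0) (P.cons (P.lf 0 5055646 0) (P.cons (P.lf 0 1192937 0) (P.cons (P.lf 0 1644 0) P.nil)))) (P.cons (P.cons (P.lf 0 5063580 0) (P.cons (P.lf 0 885111 0) (P.cons (P.lf 0 90575 0) P.nil))) (P.cons (P.cons (P.lf 246882 0 0) (P.cons (P.lf 129310 0 0) P.nil)) (P.cons (P.cons (P.lf 33031 0 0) P.nil) P.nil)))))) 401749)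
 (EL.cons 1 (TM.mk (P.cons (P.cons (P.lf 468617559 0 0) (P.cons (P.lf 0 22159154 0) (P.cons (P.lf 0 6991764 0) (P.cons (P.lf 0 242979 0) (P.cons (P.lf 220971 0 0) (P.cons (P.lf 16421 0 0) P.nil)))))) (P.cons (P.cons (P.lf 196591094 0 0) (P.cons (P.lf 16639489 0 0) (P.cons (P.lf 968141 0 0) (P.cons (P.lf 0 390118 0) (P.cons (P.lf 5786 0 0) P.nil))))) (P.cons (P.cons (P.lf 15642796 0 0) (P.cons (P.lf 2607712 0 0) (P.cons (P.lf 667520 0 0) (P.cons (P.lf 7827 0 0) P.nil)))) (P.cons (P.cons (P.lf 0 2298737 0) (P.cons (P.lf 0 595272 0) (P.cons (P.lf 0 126460 0) P.nil))) (P.cons (P.cons (P.lf 0 219830 0) (P.cons (P.lf 0 14072 0) P.nil)) (P.cons (P.cons (P.lf 17646 0 0) P.nil) P.nil)))))) 173054)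
 (EL.cons 5 (TM.mk (P.cons (P.cons (P.lf 0 135070714 0) (P.cons (P.lf 0 109927780 0) (P.cons (P.lf 9897869 0 0) (P.cons (P.lf 4756075 0 0) (P.cons (P.lf 0 691649 0) (P.cons (P.lf 0 51387 0) P.nil)))))) (P.cons (P.cons (P.lf 56031388 0 0) (P.cons (P.lf 0 17287801 0) (P.cons (P.lf 0 7802906 0) (P.cons (P.lf 0 503540 0) (P.cons (P.lf 266547 0 0) P.nil))))) (P.cons (P.cons (P.lf 24262653 0 0) (P.cons (P.lf 5020704 0 0) (P.cons (P.lf 1286537 0 0) (P.cons (P.lf 15244 0 0) P.nil)))) (P.cons (P.cons (P.lf 1238949 0 0) (P.cons (P.lf 74202 0 0) (P.cons (P.lf 0 39886 0) P.nil))) (P.cons (P.cons (P.lf 0 194047 0) (P.cons (P.lf 0 61303 0) P.nil)) (P.cons (P.cons (P.lf 0 8268 0) P.nil) P.nil)))))) 175320)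
 (EL.cons 9 (TM.mk (P.cons (P.cons (P.lf 415779487 0 0) (P.cons (P.lf 0 111950650 0) (P.cons (P.lf 51055 0 0) (P.cons (P.lf 3502569 0 0) (P.cons (P.lf 0 302199 0) (P.cons (P.lf 0 22455 0) P.nil)))))) (P.cons (P.cons (P.lf 157275696 0 0) (P.cons (P.lf 2892099 0 0) (P.cons (P.lf 0 3046546 0) (P.cons (P.lf 0 497676 0) (P.cons (P.lf 129925 0 0) P.nil))))) (P.cons (P.cons (P.lf 15278707 0 0) (P.cons (P.lf 2843958 0 0) (P.cons (P.lf 760927 0 0) (P.cons (P.lf 12940 0 0) P.nil)))) (P.cons (P.cons (P.lf 0 495376 0) (P.cons (P.lf 0 212203 0) (P.cons (P.lf 0 63600 0) P.nil))) (P.cons (P.cons (P.lf 0 93765 0) (P.cons (P.lf 0 13531 0) P.nil)) (P.cons (P.cons (P.lf 3055 0 0) P.nil) P.nil)))))) 73976)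
 (EL.cons 2 (TM.mk (P.cons (P.cons (P.lf 0 323529243 0) (P.cons (P.lf 0 6534534 0) (P.cons (P.lf 33787591 0 0) (P.cons (P.lf 0 2855424 0) (P.cons (P.lf 0 718745 0) (P.cons (P.lf 94916 0 0) P.nil)))))) (P.cons (P.cons (P.lf 0 24990474 0) (P.cons (P.lf 0 18105727 0) (P.cons (P.lf 0 1291961 0) (P.cons (P.lf 1302350 0 0) (P.cons (P.lf 142666 0 0) P.nil))))) (P.cons (P.cons (P.lf 7115743 0 0) (P.cons (P.lf 2734998 0 0) (P.cons (P.lf 0 168688 0) (P.cons (P.lf 0 161403 0) P.nil)))) (P.cons (P.cons (P.lf 150159 0 0) (P.cons (P.lf 0 17898 0) (P.cons (P.lf 0 20323 0) P.nil))) (P.cons (P.cons (P.lf 0 57723 0) (P.cons (P.lf 0 16256 0) P.nil)) (P.cons (P.cons (P.lf 1074 0 0) P.nil) P.nil)))))) 105175)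
 (EL.cons 6 (TM.mk (P.cons (P.cons (P.lf 127747878 0 0) (P.cons (P.lf 2580204 0 0) (P.cons (P.lf 0 13341276 0) (P.cons (P.lf 1127484 0 0) (P.cons (P.lf 283800 0 0) (P.cons (P.lf 0 37476 0) P.nil)))))) (P.cons (P.cons (P.lf 0 3300198 0) (P.cons (P.lf 6883218 0 0) (P.cons (P.lf 1885320 0 0) (P.cons (P.lf 0 630456 0) (P.cons (P.lf 0 85584 0) P.nil))))) (P.cons (P.cons (P.lf 0 3245256 0) (P.cons (P.lf 0 1805100 0) (P.cons (P.lf 0 46710 0) (P.cons (P.lf 121866 0 0) P.nil)))) (P.cons (P.cons (P.lf 242142 0 0) (P.cons (P.lf 150258 0 0) (P.cons (P.lf 6936 0 0) P.nil))) (P.cons (P.cons (P.lf 15438 0 0) (P.cons (P.lf 0 1038 0) P.nil)) (P.cons (P.cons (P.lf 0 2274 0) P.nil) P.nil)))))) 63078)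
 EL.nil))))))
noncomputable def S372_386_364_512_3 : EL := (EL.cons 0 (TM.mk (P.cons (P.lf 4198667962 0 0) (P.cons (P.lf 263855079 0 0) (P.cons (P.lf 0 8670768 0) (P.cons (P.lf 0 267403 0) (P.cons (P.lf 19872 0 0) (P.cons (P.lf 0 263 0) P.nil)))))) 209)
 (EL.cons 1 (TM.mk (P.cons (P.lf 0 1657874694 0) (P.cons (P.lf 66703704 0 0) (P.cons (P.lf 6615345 0 0) (P.cons (P.lf 0 292091 0) (P.cons (P.lf 0 596 0) (P.cons (P.lf 360 0 0) P.nil)))))) 128)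
 (EL.cons 5 (TM.mk (P.cons (P.lf 654623926 0 0) (P.cons (P.lf 0 93815138 0) (P.cons (P.lf 3082942 0 0) (P.cons (P.lf 95074 0 0) (P.cons (P.lf 0 7066 0) (P.cons (P.lf 96 0 0) P.nil)))))) 70)
 EL.nil)))
noncomputable def S372_386_364_512_4 : EL := (EL.cons 0 (TM.mk (P.cons (P.cons (P.lf 1066639102 0 0) (P.cons (P.lf 0 143598884 0) (P.cons (P.lf 0 9600684 0) (P.lf 3200224 0 0)))) (P.cons (P.cons (P.lf 268767574 0 0) (P.cons (P.lf 21844933 0 0) (P.cons (P.lf 1460499 0 0) (P.lf 0 486829 0)))) (P.cons (P.cons (P.lf 10995273 0 0) (P.cons (P.lf 116056 0 0) (P.cons (P.lf 7762 0 0) (P.lf 0 2587 0)))) (P.cons (P.cons (P.lf 0 1185676 0) (P.cons (P.lf 0 172865 0) (P.cons (P.lf 0 11557 0) P.nil))) (P.cons (P.cons (P.lf 0 36595 0) (P.cons (P.lf 7229 0 0) P.nil)) (P.cons (P.cons (P.lf 4324 0 0) P.nil) P.nil)))))) 9305)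
 (EL.cons 1 (TM.mk (P.cons (P.cons (P.lf 0 421170234 0) (P.cons (P.lf 56701066 0 0) (P.cons (P.lf 3790899 0 0) (P.lf 0 1263631 0)))) (P.cons (P.cons (P.lf 0 62711857 0) (P.cons (P.lf 0 14470207 0) (P.cons (P.lf 0 967441 0) (P.lf 322479 0 0)))) (P.cons (P.cons (P.lf 4680093 0 0) (P.cons (P.lf 1101408 0 0) (P.cons (P.lf 73635 0 0) (P.lf 0 24543 0)))) (P.cons (P.cons (P.lf 541674 0 0) (P.cons (P.lf 19020 0 0) (P.cons (P.lf 1271 0 0) P.nil))) (P.cons (P.cons (P.lf 0 32287 0) (P.cons (P.lf 0 7027 0) P.nil)) (P.cons (P.cons (P.lf 0 1151 0) P.nil) P.nil)))))) 4115)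
 (EL.cons 5 (TM.mk (P.cons (P.cons (P.lf 166302142 0 0) (P.cons (P.lf 0 22388830 0) (P.cons (P.lf 0 1496864 0) (P.lf 498954 0 0)))) (P.cons (P.cons (P.lf 7620302 0 0) (P.cons (P.lf 8021442 0 0) (P.cons (P.lf 536294 0 0) (P.lf 0 178762 0)))) (P.cons (P.cons (P.lf 0 3643296 0) (P.cons (P.lf 0 1125772 0) (P.cons (P.lf 0 75264 0) (P.lf 25086 0 0)))) (P.cons (P.cons (P.lf 46242 0 0) (P.cons (P.lf 69128 0 0) (P.cons (P.lf 4620 0 0) P.nil))) (P.cons (P.cons (P.lf 22418 0 0) (P.cons (P.lf 0 240 0) P.nil)) (P.cons (P.cons (P.lf 0 1126 0) P.nil) P.nil)))))) 2794)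
 EL.nil)))
noncomputable def S372_386_364_512_5 : EL := (EL.cons 0 (TM.mk (P.cons (P.cons (P.lf 270971409 0 0) (P.cons (P.lf 0 72960370 0) (P.cons (P.lf 33273 0 0) (P.cons (P.lf 2282690 0 0) (P.cons (P.lf 0 196948 0) (P.cons (P.lf 0 14633 0) P.nil)))))) (P.cons (P.cons (P.lf 119528105 0 0) (P.cons (P.lf 0 2700181 0) (P.cons (P.lf 0 1983399 0) (P.cons (P.lf 0 180894 0) (P.cons (P.lf 72297 0 0) P.nil))))) (P.cons (P.cons (P.lf 15839170 0 0) (P.cons (P.lf 2122581 0 0) (P.cons (P.lf 371067 0 0) (P.cons (P.lf 0 16662 0) P.nil)))) (P.cons (P.cons (P.lf 73970 0 0) (P.cons (P.lf 0 21065 0) (P.cons (P.lf 0 6185 0) P.nil))) (P.cons (P.cons (P.lf 0 107205 0) (P.cons (P.lf 0 21802 0) P.nil)) (P.cons (P.cons (P.lf 0 1346 0) P.nil) P.nil)))))) 64913)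
 (EL.cons 1 (TM.mk (P.cons (P.cons (P.lf 0 106995037 0) (P.cons (P.lf 28808934 0 0) (P.cons (P.lf 0 13136 0) (P.cons (P.lf 0 901335 0) (P.cons (P.lf 77765 0 0) (P.cons (P.lf 5776 0 0) P.nil)))))) (P.cons (P.cons (P.lf 0 36167812 0) (P.cons (P.lf 0 1903351 0) (P.cons (P.lf 784513 0 0) (P.cons (P.lf 164334 0 0) (P.cons (P.lf 0 36562 0) P.nil))))) (P.cons (P.cons (P.lf 0 1876425 0) (P.cons (P.lf 0 816862 0) (P.cons (P.lf 0 227304 0) (P.cons (P.lf 0 4886 0) P.nil)))) (P.cons (P.cons (P.lf 428315 0 0) (P.cons (P.lf 92098 0 0) (P.cons (P.lf 21112 0 0) P.nil))) (P.cons (P.cons (P.lf 27519 0 0) (P.cons (P.lf 4083 0 0) P.nil)) (P.cons (P.cons (P.lf 0 2949 0) P.nil) P.nil)))))) 28426)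
 (EL.cons 5 (TM.mk (P.cons (P.cons (P.lf 42247770 0 0) (P.cons (P.lf 0 11375418 0) (P.cons (P.lf 5186 0 0) (P.cons (P.lf 355898 0 0) (P.cons (P.lf 0 30706 0) (P.cons (P.lf 0 2280 0) P.nil)))))) (P.cons (P.cons (P.lf 9926348 0 0) (P.cons (P.lf 1924096 0 0) (P.cons (P.lf 0 310304 0) (P.cons (P.lf 0 101572 0) (P.cons (P.lf 17602 0 0) P.nil))))) (P.cons (P.cons (P.lf 0 538802 0) (P.cons (P.lf 193290 0 0) (P.cons (P.lf 121706 0 0) (P.cons (P.lf 10236 0 0) P.nil)))) (P.cons (P.cons (P.lf 0 191426 0) (P.cons (P.lf 0 63242 0) (P.cons (P.lf 0 18998 0) P.nil))) (P.cons (P.cons (P.lf 6862 0 0) (P.cons (P.lf 3240 0 0) P.nil)) (P.cons (P.cons (P.lf 1496 0 0) P.nil) P.nil)))))) 13444)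
 EL.nil)))
noncomputable def S372_386_364_512_6 : EL := (EL.cons 12 (TM.mk (P.lf 8589934592 0 0) 0)
 (EL.cons 3 (TM.mk (P.cons (P.lf 3002760528 0 0) (P.cons (P.lf 94350592 0 0) (P.cons (P.lf 0 4582845 0) (P.cons (P.lf 48378 0 0) (P.cons (P.lf 2088 0 0) (P.cons (P.lf 0 86 0) P.nil)))))) 67)
 (EL.cons 7 (TM.mk (P.cons (P.lf 0 1185661915 0) (P.cons (P.lf 84959496 0 0) (P.cons (P.lf 251989 0 0) (P.cons (P.lf 0 68044 0) (P.cons (P.lf 1551 0 0) (P.cons (P.lf 9 0 0) P.nil)))))) 45)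
 EL.nil)))
noncomputable def S372_386_364_512_7 : EL := (EL.cons 12 (TM.mk (P.cons (P.cons (P.lf 2182206408 0 0) (P.cons (P.lf 0 293784848 0) (P.cons (P.lf 0 19641768 0) (P.lf 6547248 0 0)))) (P.cons (P.cons (P.lf 412728432 0 0) (P.cons (P.lf 63154120 0 0) (P.cons (P.lf 4222336 0 0) (P.lf 0 1407440 0)))) (P.cons (P.cons (P.lf 1064528 0 0) (P.cons (P.lf 0 4338032 0) (P.cons (P.lf 0 290024 0) (P.lf 96672 0 0)))) (P.cons (P.cons (P.lf 0 1501326 0) (P.cons (P.lf 30664 0 0) (P.cons (P.lf 2048 0 0) P.nil))) (P.cons (P.cons (P.lf 37630 0 0) (P.cons (P.lf 9320 0 0) P.nil)) (P.cons (P.cons (P.lf 1634 0 0) P.nil) P.nil)))))) 5926)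
 (EL.cons 3 (TM.mk (P.cons (P.cons (P.lf 2776293488 0 0) (P.cons (P.lf 205395170 0 0) (P.cons (P.lf 13732238 0 0) (P.lf 0 4577406 0)))) (P.cons (P.cons (P.lf 85677297 0 0) (P.cons (P.lf 0 37699452 0) (P.cons (P.lf 0 2520494 0) (P.lf 840160 0 0)))) (P.cons (P.cons (P.lf 0 21355705 0) (P.cons (P.lf 1332038 0 0) (P.cons (P.lf 89050 0 0) (P.lf 0 29680 0)))) (P.cons (P.cons (P.lf 1014212 0 0) (P.cons (P.lf 144552 0 0) (P.cons (P.lf 9664 0 0) P.nil))) (P.cons (P.cons (P.lf 33890 0 0) (P.cons (P.lf 0 12386 0) P.nil)) (P.cons (P.cons (P.lf 0 4161 0) P.nil) P.nil)))))) 18496)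
 (EL.cons 7 (TM.mk (P.cons (P.cons (P.lf 1511848807 0 0) (P.cons (P.lf 317977940 0 0) (P.cons (P.lf 21259267 0 0) (P.lf 0 7086423 0)))) (P.cons (P.cons (P.lf 77149486 0 0) (P.cons (P.lf 0 33947078 0) (P.cons (P.lf 0 2269622 0) (P.lf 756543 0 0)))) (P.cons (P.cons (P.lf 0 15253918 0) (P.cons (P.lf 0 550118 0) (P.cons (P.lf 0 36777 0) (P.lf 12259 0 0)))) (P.cons (P.cons (P.lf 0 252024 0) (P.cons (P.lf 143876 0 0) (P.cons (P.lf 9615 0 0) P.nil))) (P.cons (P.cons (P.lf 50748 0 0) (P.cons (P.lf 0 979 0) P.nil)) (P.cons (P.cons (P.lf 0 688 0) P.nil) P.nil)))))) 10929)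
 (EL.cons 10 (TM.mk (P.cons (P.cons (P.lf 0 910786830 0) (P.cons (P.lf 0 141012672 0) (P.cons (P.lf 67935459 0 0) (P.cons (P.lf 2570877 0 0) (P.lf 0 642717 0))))) (P.cons (P.cons (P.lf 130526226 0 0) (P.cons (P.lf 20208738 0 0) (P.cons (P.lf 0 9735930 0) (P.cons (P.lf 0 368436 0) (P.lf 92109 0 0))))) (P.cons (P.cons (P.lf 0 4289337 0) (P.cons (P.lf 0 664095 0) (P.cons (P.lf 319941 0 0) (P.cons (P.lf 12105 0 0) P.nil)))) (P.cons (P.cons (P.lf 0 132276 0) (P.cons (P.lf 0 20478 0) (P.cons (P.lf 9864 0 0) P.nil))) (P.cons (P.cons (P.lf 9831 0 0) (P.cons (P.lf 1521 0 0) P.nil)) (P.cons (P.cons (P.lf 0 132 0) P.nil) P.nil)))))) 4512)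
 EL.nil))))
noncomputable def S372_386_364_512_8 : EL := (EL.cons 12 (TM.mk (P.cons (P.cons (P.lf 554372650 0 0) (P.cons (P.lf 0 149267534 0) (P.cons (P.lf 68074 0 0) (P.cons (P.lf 4670092 0 0) (P.cons (P.lf 0 402932 0) (P.cons (P.lf 0 29940 0) P.nil)))))) (P.cons (P.cons (P.lf 209700928 0 0) (P.cons (P.lf 3856132 0 0) (P.cons (P.lf 0 4062062 0) (P.cons (P.lf 0 663568 0) (P.cons (P.lf 173234 0 0) P.nil))))) (P.cons (P.cons (P.lf 20371610 0 0) (P.cons (P.lf 3791944 0 0) (P.cons (P.lf 1014570 0 0) (P.cons (P.lf 17254 0 0) P.nil)))) (P.cons (P.cons (P.lf 0 660502 0) (P.cons (P.lf 0 282938 0) (P.cons (P.lf 0 84800 0) P.nil))) (P.cons (P.cons (P.lf 0 125020 0) (P.cons (P.lf 0 18042 0) P.nil)) (P.cons (P.cons (P.lf 4074 0 0) P.nil) P.nil)))))) 98606)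
 (EL.cons 3 (TM.mk (P.cons (P.cons (P.lf 1216801176 0 0) (P.cons (P.lf 0 33367187 0) (P.cons (P.lf 0 19792681 0) (P.cons (P.lf 0 1604664 0) (P.cons (P.lf 704262 0 0) (P.cons (P.lf 52331 0 0) P.nil)))))) (P.cons (P.cons (P.lf 230927779 0 0) (P.cons (P.lf 35837367 0 0) (P.cons (P.lf 9394627 0 0) (P.cons (P.lf 137155 0 0) (P.cons (P.lf 0 280656 0) P.nil))))) (P.cons (P.cons (P.lf 0 11057959 0) (P.cons (P.lf 0 4426134 0) (P.cons (P.lf 0 1362056 0) (P.cons (P.lf 0 43912 0) P.nil)))) (P.cons (P.cons (P.lf 0 2370230 0) (P.cons (P.lf 0 269642 0) (P.cons (P.lf 43519 0 0) P.nil))) (P.cons (P.cons (P.lf 164268 0 0) (P.cons (P.lf 75159 0 0) P.nil)) (P.cons (P.cons (P.lf 10097 0 0) P.nil) P.nil)))))) 225666)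
 (EL.cons 7 (TM.mk (P.cons (P.cons (P.lf 844666596 0 0) (P.cons (P.lf 37542732 0 0) (P.cons (P.lf 0 17853456 0) (P.cons (P.lf 0 3559583 0) (P.cons (P.lf 816608 0 0) (P.cons (P.lf 60676 0 0) P.nil)))))) (P.cons (P.cons (P.lf 207942599 0 0) (P.cons (P.lf 32270328 0 0) (P.cons (P.lf 8459534 0 0) (P.cons (P.lf 123507 0 0) (P.cons (P.lf 0 252716 0) P.nil))))) (P.cons (P.cons (P.lf 759731 0 0) (P.cons (P.lf 0 2322410 0) (P.cons (P.lf 0 790486 0) (P.cons (P.lf 0 33179 0) P.nil)))) (P.cons (P.cons (P.lf 0 2397652 0) (P.cons (P.lf 0 451365 0) (P.cons (P.lf 0 27965 0) P.nil))) (P.cons (P.cons (P.lf 0 25694 0) (P.cons (P.lf 40156 0 0) P.nil)) (P.cons (P.cons (P.lf 12987 0 0) P.nil) P.nil)))))) 137175)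
 (EL.cons 10 (TM.mk (P.cons (P.cons (P.lf 0 462756690 0) (P.cons (P.lf 0 9346608 0) (P.cons (P.lf 48327732 0 0) (P.cons (P.lf 0 4084224 0) (P.cons (P.lf 0 1028046 0) (P.cons (P.lf 135762 0 0) P.nil)))))) (P.cons (P.cons (P.lf 0 21204456 0) (P.cons (P.lf 0 25603656 0) (P.cons (P.lf 0 3366468 0) (P.cons (P.lf 1991136 0 0) (P.cons (P.lf 236364 0 0) P.nil))))) (P.cons (P.cons (P.lf 10137936 0 0) (P.cons (P.lf 4702212 0 0) (P.cons (P.lf 0 61740 0) (P.cons (P.lf 0 299658 0) P.nil)))) (P.cons (P.cons (P.lf 0 128670 0) (P.cons (P.lf 0 212280 0) (P.cons (P.lf 0 33042 0) P.nil))) (P.cons (P.cons (P.lf 0 62382 0) (P.cons (P.lf 0 8988 0) P.nil)) (P.cons (P.cons (P.lf 3138 0 0) P.nil) P.nil)))))) 162972)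
 EL.nil))))
noncomputable def S372_386_364_512_9 : EL := (EL.cons 3 (TM.mk (P.cons (P.lf 3002760528 0 0) (P.cons (P.lf 94350592 0 0) (P.cons (P.lf 0 4582845 0) (P.cons (P.lf 48378 0 0) (P.cons (P.lf 2088 0 0) (P.cons (P.lf 0 86 0) P.nil)))))) 67)
 (EL.cons 7 (TM.mk (P.cons (P.lf 0 1185661915 0) (P.cons (P.lf 84959496 0 0) (P.cons (P.lf 251989 0 0) (P.cons (P.lf 0 68044 0) (P.cons (P.lf 1551 0 0) (P.cons (P.lf 9 0 0) P.nil)))))) 45)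
 EL.nil))
noncomputable def S372_386_364_512_10 : EL := (EL.cons 3 (TM.mk (P.cons (P.cons (P.lf 762828074 0 0) (P.cons (P.lf 0 102697585 0) (P.cons (P.lf 0 6866119 0) (P.lf 2288703 0 0)))) (P.cons (P.cons (P.lf 168245415 0 0) (P.cons (P.lf 18849726 0 0) (P.cons (P.lf 1260247 0 0) (P.lf 0 420080 0)))) (P.cons (P.cons (P.lf 3741236 0 0) (P.cons (P.lf 0 666019 0) (P.cons (P.lf 0 44525 0) (P.lf 14840 0 0)))) (P.cons (P.cons (P.lf 0 721027 0) (P.cons (P.lf 0 72276 0) (P.cons (P.lf 0 4832 0) P.nil))) (P.cons (P.cons (P.lf 0 1048 0) (P.cons (P.lf 6193 0 0) P.nil)) (P.cons (P.cons (P.lf 1869 0 0) P.nil) P.nil)))))) 4539)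
 (EL.cons 7 (TM.mk (P.cons (P.cons (P.lf 0 301208234 0) (P.cons (P.lf 40550891 0 0) (P.cons (P.lf 2711137 0 0) (P.lf 0 903711 0)))) (P.cons (P.cons (P.lf 0 35385278 0) (P.cons (P.lf 0 11622818 0) (P.cons (P.lf 0 777074 0) (P.lf 259023 0 0)))) (P.cons (P.cons (P.lf 3999206 0 0) (P.cons (P.lf 1214788 0 0) (P.cons (P.lf 81216 0 0) (P.lf 0 27071 0)))) (P.cons (P.cons (P.lf 212577 0 0) (P.cons (P.lf 0 42958 0) (P.cons (P.lf 0 2871 0) P.nil))) (P.cons (P.cons (P.lf 0 22887 0) (P.cons (P.lf 0 1663 0) P.nil)) (P.cons (P.cons (P.lf 170 0 0) P.nil) P.nil)))))) 2216)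
 EL.nil))
noncomputable def S372_386_364_512_11 : EL := (EL.cons 3 (TM.mk (P.cons (P.cons (P.lf 193790568 0 0) (P.cons (P.lf 0 52179053 0) (P.cons (P.lf 23795 0 0) (P.cons (P.lf 1632510 0 0) (P.cons (P.lf 0 140850 0) (P.cons (P.lf 0 10465 0) P.nil)))))) (P.cons (P.cons (P.lf 79393741 0 0) (P.cons (P.lf 0 291555 0) (P.cons (P.lf 0 1419215 0) (P.cons (P.lf 0 180665 0) (P.cons (P.lf 56130 0 0) P.nil))))) (P.cons (P.cons (P.lf 9128807 0 0) (P.cons (P.lf 1447530 0 0) (P.cons (P.lf 310006 0 0) (P.cons (P.lf 0 3748 0) P.nil)))) (P.cons (P.cons (P.lf 0 115886 0) (P.cons (P.lf 0 60152 0) (P.cons (P.lf 0 16331 0) P.nil))) (P.cons (P.cons (P.lf 0 60510 0) (P.cons (P.lf 0 11451 0) P.nil)) (P.cons (P.cons (P.lf 563 0 0) P.nil) P.nil)))))) 40856)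
 (EL.cons 7 (TM.mk (P.cons (P.cons (P.lf 0 76519620 0) (P.cons (P.lf 20603280 0 0) (P.cons (P.lf 0 9396 0) (P.cons (P.lf 0 644609 0) (P.cons (P.lf 55616 0 0) (P.cons (P.lf 4132 0 0) P.nil)))))) (P.cons (P.cons (P.lf 0 23461783 0) (P.cons (P.lf 0 2008602 0) (P.cons (P.lf 561356 0 0) (P.cons (P.lf 137781 0 0) (P.cons (P.lf 0 27896 0) P.nil))))) (P.cons (P.cons (P.lf 0 721549 0) (P.cons (P.lf 0 489638 0) (P.cons (P.lf 0 180214 0) (P.cons (P.lf 0 8807 0) P.nil)))) (P.cons (P.cons (P.lf 294416 0 0) (P.cons (P.lf 77853 0 0) (P.cons (P.lf 21619 0 0) P.nil))) (P.cons (P.cons (P.lf 9760 0 0) (P.cons (P.lf 0 254 0) P.nil)) (P.cons (P.cons (P.lf 0 1941 0) P.nil) P.nil)))))) 18071)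
 EL.nil))
noncomputable def S372_386_364_512_12 : EL := (EL.cons 4 (TM.mk (P.cons (P.lf 0 3002760528 0) (P.cons (P.lf 0 94350592 0) (P.cons (P.lf 4582845 0 0) (P.cons (P.lf 0 48378 0) (P.cons (P.lf 0 2088 0) (P.cons (P.lf 86 0 0) P.nil)))))) 67)
 (EL.cons 8 (TM.mk (P.cons (P.lf 1185661915 0 0) (P.cons (P.lf 0 84959496 0) (P.cons (P.lf 0 251989 0) (P.cons (P.lf 68044 0 0) (P.cons (P.lf 0 1551 0) (P.cons (P.lf 0 9 0) P.nil)))))) 45)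
 EL.nil))
noncomputable def S372_386_364_512_13 : EL := (EL.cons 4 (TM.mk (P.cons (P.cons (P.lf 0 762828074 0) (P.cons (P.lf 102697585 0 0) (P.cons (P.lf 6866119 0 0) (P.lf 0 2288703 0)))) (P.cons (P.cons (P.lf 0 168245415 0) (P.cons (P.lf 0 18849726 0) (P.cons (P.lf 0 1260247 0) (P.lf 420080 0 0)))) (P.cons (P.cons (P.lf 0 3741236 0) (P.cons (P.lf 666019 0 0) (P.cons (P.lf 44525 0 0) (P.lf 0 14840 0)))) (P.cons (P.cons (P.lf 721027 0 0) (P.cons (P.lf 72276 0 0) (P.cons (P.lf 4832 0 0) P.nil))) (P.cons (P.cons (P.lf 1048 0 0) (P.cons (P.lf 0 6193 0) P.nil)) (P.cons (P.cons (P.lf 0 1869 0) P.nil) P.nil)))))) 4539)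
 (EL.cons 8 (TM.mk (P.cons (P.cons (P.lf 301208234 0 0) (P.cons (P.lf 0 40550891 0) (P.cons (P.lf 0 2711137 0) (P.lf 903711 0 0)))) (P.cons (P.cons (P.lf 35385278 0 0) (P.cons (P.lf 11622818 0 0) (P.cons (P.lf 777074 0 0) (P.lf 0 259023 0)))) (P.cons (P.cons (P.lf 0 3999206 0) (P.cons (P.lf 0 1214788 0) (P.cons (P.lf 0 81216 0) (P.lf 27071 0 0)))) (P.cons (P.cons (P.lf 0 212577 0) (P.cons (P.lf 42958 0 0) (P.cons (P.lf 2871 0 0) P.nil))) (P.cons (P.cons (P.lf 22887 0 0) (P.cons (P.lf 1663 0 0) P.nil)) (P.cons (P.cons (P.lf 0 170 0) P.nil) P.nil)))))) 2216)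
 EL.nil))
noncomputable def S372_386_364_512_14 : EL := (EL.cons 4 (TM.mk (P.cons (P.cons (P.lf 0 193790568 0) (P.cons (P.lf 52179053 0 0) (P.cons (P.lf 0 23795 0) (P.cons (P.lf 0 1632510 0) (P.cons (P.lf 140850 0 0) (P.cons (P.lf 10465 0 0) P.nil)))))) (P.cons (P.cons (P.lf 0 79393741 0) (P.cons (P.lf 291555 0 0) (P.cons (P.lf 1419215 0 0) (P.cons (P.lf 180665 0 0) (P.cons (P.lf 0 56130 0) P.nil))))) (P.cons (P.cons (P.lf 0 9128807 0) (P.cons (P.lf 0 1447530 0) (P.cons (P.lf 0 310006 0) (P.cons (P.lf 3748 0 0) P.nil)))) (P.cons (P.cons (P.lf 115886 0 0) (P.cons (P.lf 60152 0 0) (P.cons (P.lf 16331 0 0) P.nil))) (P.cons (P.cons (P.lf 60510 0 0) (P.cons (P.lf 11451 0 0) P.nil)) (P.cons (P.cons (P.lf 0 563 0) P.nil) P.nil)))))) 40856)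
 (EL.cons 8 (TM.mk (P.cons (P.cons (P.lf 76519620 0 0) (P.cons (P.lf 0 20603280 0) (P.cons (P.lf 9396 0 0) (P.cons (P.lf 644609 0 0) (P.cons (P.lf 0 55616 0) (P.cons (P.lf 0 4132 0) P.nil)))))) (P.cons (P.cons (P.lf 23461783 0 0) (P.cons (P.lf 2008602 0 0) (P.cons (P.lf 0 561356 0) (P.cons (P.lf 0 137781 0) (P.cons (P.lf 27896 0 0) P.nil))))) (P.cons (P.cons (P.lf 721549 0 0) (P.cons (P.lf 489638 0 0) (P.cons (P.lf 180214 0 0) (P.cons (P.lf 8807 0 0) P.nil)))) (P.cons (P.cons (P.lf 0 294416 0) (P.cons (P.lf 0 77853 0) (P.cons (P.lf 0 21619 0) P.nil))) (P.cons (P.cons (P.lf 0 9760 0) (P.cons (P.lf 254 0 0) P.nil)) (P.cons (P.cons (P.lf 1941 0 0) P.nil) P.nil)))))) 18071)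
 EL.nil))
noncomputable def S372_386_364_512_15 : EL := (EL.cons 4 (TM.mk (P.cons (P.lf 0 2239289580 0) (P.cons (P.lf 0 140722709 0) (P.cons (P.lf 4624410 0 0) (P.cons (P.lf 142615 0 0) (P.cons (P.lf 0 10598 0) (P.cons (P.lf 140 0 0) P.nil)))))) 114)
 (EL.cons 8 (TM.mk (P.cons (P.lf 884199837 0 0) (P.cons (P.lf 0 35575309 0) (P.cons (P.lf 0 3528184 0) (P.cons (P.lf 155782 0 0) (P.cons (P.lf 318 0 0) (P.cons (P.lf 0 192 0) P.nil)))))) 65)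
 EL.nil))
noncomputable def S372_386_364_512_16 : EL := (EL.cons 4 (TM.mk (P.cons (P.cons (P.lf 0 568874188 0) (P.cons (P.lf 76586071 0 0) (P.cons (P.lf 5120365 0 0) (P.lf 0 1706786 0)))) (P.cons (P.cons (P.lf 0 143342706 0) (P.cons (P.lf 0 11650631 0) (P.cons (P.lf 0 778933 0) (P.lf 259642 0 0)))) (P.cons (P.cons (P.lf 0 5864145 0) (P.cons (P.lf 0 61896 0) (P.cons (P.lf 0 4140 0) (P.lf 1380 0 0)))) (P.cons (P.cons (P.lf 632360 0 0) (P.cons (P.lf 92194 0 0) (P.cons (P.lf 6164 0 0) P.nil))) (P.cons (P.cons (P.lf 19517 0 0) (P.cons (P.lf 0 3855 0) P.nil)) (P.cons (P.cons (P.lf 0 2306 0) P.nil) P.nil)))))) 4971)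
 (EL.cons 8 (TM.mk (P.cons (P.cons (P.lf 224624125 0 0) (P.cons (P.lf 0 30240569 0) (P.cons (P.lf 0 2021813 0) (P.lf 673937 0 0)))) (P.cons (P.cons (P.lf 33446324 0 0) (P.cons (P.lf 7717444 0 0) (P.cons (P.lf 515969 0 0) (P.lf 0 171989 0)))) (P.cons (P.cons (P.lf 0 2496050 0) (P.cons (P.lf 0 587418 0) (P.cons (P.lf 0 39272 0) (P.lf 13090 0 0)))) (P.cons (P.cons (P.lf 0 288893 0) (P.cons (P.lf 0 10144 0) (P.cons (P.lf 0 678 0) P.nil))) (P.cons (P.cons (P.lf 17220 0 0) (P.cons (P.lf 3748 0 0) P.nil)) (P.cons (P.cons (P.lf 614 0 0) P.nil) P.nil)))))) 2185)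
 EL.nil))
noncomputable def S372_386_364_512_17 : EL := (EL.cons 4 (TM.mk (P.cons (P.cons (P.lf 0 144518085 0) (P.cons (P.lf 38912197 0 0) (P.cons (P.lf 0 17745 0) (P.cons (P.lf 0 1217434 0) (P.cons (P.lf 105039 0 0) (P.cons (P.lf 7804 0 0) P.nil)))))) (P.cons (P.cons (P.lf 0 63748322 0) (P.cons (P.lf 1440096 0 0) (P.cons (P.lf 1057813 0 0) (P.cons (P.lf 96477 0 0) (P.cons (P.lf 0 38558 0) P.nil))))) (P.cons (P.cons (P.lf 0 8447557 0) (P.cons (P.lf 0 1132043 0) (P.cons (P.lf 0 197902 0) (P.cons (P.lf 8886 0 0) P.nil)))) (P.cons (P.cons (P.lf 0 39450 0) (P.cons (P.lf 11235 0 0) (P.cons (P.lf 3299 0 0) P.nil))) (P.cons (P.cons (P.lf 57176 0 0) (P.cons (P.lf 11627 0 0) P.nil)) (P.cons (P.cons (P.lf 718 0 0) P.nil) P.nil)))))) 34630)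
 (EL.cons 8 (TM.mk (P.cons (P.cons (P.lf 57064020 0 0) (P.cons (P.lf 0 15364765 0) (P.cons (P.lf 7006 0 0) (P.cons (P.lf 480712 0 0) (P.cons (P.lf 0 41475 0) (P.cons (P.lf 0 3081 0) P.nil)))))) (P.cons (P.cons (P.lf 19289500 0 0) (P.cons (P.lf 1015121 0 0) (P.cons (P.lf 0 418407 0) (P.cons (P.lf 0 87645 0) (P.cons (P.lf 19500 0 0) P.nil))))) (P.cons (P.cons (P.lf 1000760 0 0) (P.cons (P.lf 435660 0 0) (P.cons (P.lf 121229 0 0) (P.cons (P.lf 2606 0 0) P.nil)))) (P.cons (P.cons (P.lf 0 228435 0) (P.cons (P.lf 0 49119 0) (P.cons (P.lf 0 11260 0) P.nil))) (P.cons (P.cons (P.lf 0 14677 0) (P.cons (P.lf 0 2178 0) P.nil)) (P.cons (P.cons (P.lf 1573 0 0) P.nil) P.nil)))))) 15149)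
 EL.nil))
noncomputable def S372_386_364_512_18 : EL := (EL.cons 4 (TM.mk (P.cons (P.lf 0 1669935972 0) (P.cons (P.lf 0 157414598 0) (P.cons (P.lf 2699851 0 0) (P.cons (P.lf 347974 0 0) (P.cons (P.lf 0 12676 0) (P.cons (P.lf 0 274 0) P.nil)))))) 154)
 (EL.cons 8 (TM.mk (P.cons (P.lf 659386409 0 0) (P.cons (P.lf 0 5811293 0) (P.cons (P.lf 0 4471091 0) (P.cons (P.lf 84614 0 0) (P.cons (P.lf 7934 0 0) (P.cons (P.lf 0 393 0) P.nil)))))) 76)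
 EL.nil))
noncomputable def S372_386_364_512_19 : EL := (EL.cons 4 (TM.mk (P.cons (P.cons (P.lf 0 424234309 0) (P.cons (P.lf 57113576 0 0) (P.cons (P.lf 3818479 0 0) (P.lf 0 1272825 0)))) (P.cons (P.cons (P.lf 0 120226898 0) (P.cons (P.lf 0 6893802 0) (P.cons (P.lf 0 460903 0) (P.lf 153632 0 0)))) (P.cons (P.cons (P.lf 0 7084516 0) (P.cons (P.lf 0 406326 0) (P.cons (P.lf 0 27166 0) (P.lf 9055 0 0)))) (P.cons (P.cons (P.lf 490481 0 0) (P.cons (P.lf 81482 0 0) (P.cons (P.lf 5447 0 0) P.nil))) (P.cons (P.cons (P.lf 34030 0 0) (P.cons (P.lf 0 745 0) P.nil)) (P.cons (P.cons (P.lf 0 2114 0) P.nil) P.nil)))))) 4875)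
 (EL.cons 8 (TM.mk (P.cons (P.cons (P.lf 167512014 0 0) (P.cons (P.lf 0 22551712 0) (P.cons (P.lf 0 1507754 0) (P.lf 502584 0 0)))) (P.cons (P.cons (P.lf 30205826 0 0) (P.cons (P.lf 5046631 0 0) (P.cons (P.lf 337405 0 0) (P.lf 0 112467 0)))) (P.cons (P.cons (P.lf 0 1333350 0) (P.cons (P.lf 0 222808 0) (P.cons (P.lf 0 14895 0) (P.lf 4965 0 0)))) (P.cons (P.cons (P.lf 0 309296 0) (P.cons (P.lf 0 30477 0) (P.cons (P.lf 0 2037 0) P.nil))) (P.cons (P.cons (P.lf 9431 0 0) (P.cons (P.lf 3303 0 0) P.nil)) (P.cons (P.cons (P.lf 1173 0 0) P.nil) P.nil)))))) 1975)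
 EL.nil))
noncomputable def S372_386_364_512_20 : EL := (EL.cons 4 (TM.mk (P.cons (P.cons (P.lf 0 107773442 0) (P.cons (P.lf 29018523 0 0) (P.cons (P.lf 0 13233 0) (P.cons (P.lf 0 907893 0) (P.cons (P.lf 78331 0 0) (P.cons (P.lf 5820 0 0) P.nil)))))) (P.cons (P.cons (P.lf 0 50926286 0) (P.cons (P.lf 1985741 0 0) (P.cons (P.lf 788442 0 0) (P.cons (P.lf 43419 0 0) (P.cons (P.lf 0 26293 0) P.nil))))) (P.cons (P.cons (P.lf 0 7628992 0) (P.cons (P.lf 0 854757 0) (P.cons (P.lf 0 122777 0) (P.cons (P.lf 10273 0 0) P.nil)))) (P.cons (P.cons (P.lf 0 156545 0) (P.cons (P.lf 0 19318 0) (P.cons (P.lf 0 3380 0) P.nil))) (P.cons (P.cons (P.lf 50488 0 0) (P.cons (P.lf 10260 0 0) P.nil)) (P.cons (P.cons (P.lf 1788 0 0) P.nil) P.nil)))))) 28674)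
 (EL.cons 8 (TM.mk (P.cons (P.cons (P.lf 42555130 0 0) (P.cons (P.lf 0 11458176 0) (P.cons (P.lf 5225 0 0) (P.cons (P.lf 358488 0 0) (P.cons (P.lf 0 30930 0) (P.cons (P.lf 0 2298 0) P.nil)))))) (P.cons (P.cons (P.lf 15722159 0 0) (P.cons (P.lf 396990 0 0) (P.cons (P.lf 0 311860 0) (P.cons (P.lf 0 54096 0) (P.cons (P.lf 13570 0 0) P.nil))))) (P.cons (P.cons (P.lf 1133358 0 0) (P.cons (P.lf 366165 0 0) (P.cons (P.lf 80593 0 0) (P.cons (P.lf 0 657 0) P.nil)))) (P.cons (P.cons (P.lf 0 168173 0) (P.cons (P.lf 0 27761 0) (P.cons (P.lf 0 5080 0) P.nil))) (P.cons (P.cons (P.lf 0 17175 0) (P.cons (P.lf 0 3267 0) P.nil)) (P.cons (P.cons (P.lf 1110 0 0) P.nil) P.nil)))))) 12551)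
 EL.nil))
noncomputable def S372_386_364_512_21 : EL := (EL.cons 4 (TM.mk (P.cons (P.cons (P.lf 0 2013465414 0) (P.cons (P.lf 0 308092755 0) (P.cons (P.lf 0 20598357 0) (P.lf 6866109 0 0)))) (P.cons (P.cons (P.lf 82568118 0 0) (P.cons (P.lf 56549178 0 0) (P.cons (P.lf 3780741 0 0) (P.lf 0 1260240 0)))) (P.cons (P.cons (P.lf 25096941 0 0) (P.cons (P.lf 0 1998057 0) (P.cons (P.lf 0 133575 0) (P.lf 44520 0 0)))) (P.cons (P.cons (P.lf 0 1735239 0) (P.cons (P.lf 0 216828 0) (P.cons (P.lf 0 14496 0) P.nil))) (P.cons (P.cons (P.lf 0 34938 0) (P.cons (P.lf 18579 0 0) P.nil)) (P.cons (P.cons (P.lf 6030 0 0) P.nil) P.nil)))))) 13938)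
 (EL.cons 8 (TM.mk (P.cons (P.cons (P.lf 0 1813057041 0) (P.cons (P.lf 0 277427049 0) (P.cons (P.lf 0 18548130 0) (P.lf 6182712 0 0)))) (P.cons (P.cons (P.lf 0 112534764 0) (P.cons (P.lf 22324260 0 0) (P.cons (P.lf 1492548 0 0) (P.lf 0 497520 0)))) (P.cons (P.cons (P.lf 19253124 0 0) (P.cons (P.lf 1764906 0 0) (P.cons (P.lf 117993 0 0) (P.lf 0 39330 0)))) (P.cons (P.cons (P.lf 464601 0 0) (P.cons (P.lf 0 186834 0) (P.cons (P.lf 0 12486 0) P.nil))) (P.cons (P.cons (P.lf 0 73635 0) (P.cons (P.lf 0 684 0) P.nil)) (P.cons (P.cons (P.lf 858 0 0) P.nil) P.nil)))))) 8694)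
 (EL.cons 11 (TM.mk (P.cons (P.cons (P.lf 910786830 0 0) (P.cons (P.lf 141012672 0 0) (P.cons (P.lf 0 67935459 0) (P.cons (P.lf 0 2570877 0) (P.lf 642717 0 0))))) (P.cons (P.cons (P.lf 0 130526226 0) (P.cons (P.lf 0 20208738 0) (P.cons (P.lf 9735930 0 0) (P.cons (P.lf 368436 0 0) (P.lf 0 92109 0))))) (P.cons (P.cons (P.lf 4289337 0 0) (P.cons (P.lf 664095 0 0) (P.cons (P.lf 0 319941 0) (P.cons (P.lf 0 12105 0) P.nil)))) (P.cons (P.cons (P.lf 132276 0 0) (P.cons (P.lf 20478 0 0) (P.cons (P.lf 0 9864 0) P.nil))) (P.cons (P.cons (P.lf 0 9831 0) (P.cons (P.lf 0 1521 0) P.nil)) (P.cons (P.cons (P.lf 132 0 0) P.nil) P.nil)))))) 4512)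
 EL.nil)))
noncomputable def S372_386_364_512_22 : EL := (EL.cons 4 (TM.mk (P.cons (P.cons (P.lf 0 511505304 0) (P.cons (P.lf 0 9405933 0) (P.cons (P.lf 9908238 0 0) (P.cons (P.lf 1618587 0 0) (P.cons (P.lf 0 422556 0) (P.cons (P.lf 0 31398 0) P.nil)))))) (P.cons (P.cons (P.lf 0 75767019 0) (P.cons (P.lf 0 18064461 0) (P.cons (P.lf 0 5406921 0) (P.cons (P.lf 0 158910 0) (P.cons (P.lf 168393 0 0) P.nil))))) (P.cons (P.cons (P.lf 10093383 0 0) (P.cons (P.lf 2936832 0 0) (P.cons (P.lf 836031 0 0) (P.cons (P.lf 20082 0 0) P.nil)))) (P.cons (P.cons (P.lf 1127172 0 0) (P.cons (P.lf 104745 0 0) (P.cons (P.lf 0 29925 0) P.nil))) (P.cons (P.cons (P.lf 0 112389 0) (P.cons (P.lf 0 43305 0) P.nil)) (P.cons (P.cons (P.lf 0 4767 0) P.nil) P.nil)))))) 92394)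
 (EL.cons 8 (TM.mk (P.cons (P.cons (P.lf 0 460593108 0) (P.cons (P.lf 0 8469726 0) (P.cons (P.lf 8922030 0 0) (P.cons (P.lf 1457487 0 0) (P.cons (P.lf 0 380496 0) (P.cons (P.lf 0 28272 0) P.nil)))))) (P.cons (P.cons (P.lf 0 115702191 0) (P.cons (P.lf 0 17139465 0) (P.cons (P.lf 0 3949089 0) (P.cons (P.lf 7137 0 0) (P.cons (P.lf 112410 0 0) P.nil))))) (P.cons (P.cons (P.lf 0 740640 0) (P.cons (P.lf 916386 0 0) (P.cons (P.lf 305136 0 0) (P.cons (P.lf 12186 0 0) P.nil)))) (P.cons (P.cons (P.lf 1346034 0 0) (P.cons (P.lf 264609 0 0) (P.cons (P.lf 24792 0 0) P.nil))) (P.cons (P.cons (P.lf 17727 0 0) (P.cons (P.lf 0 20205 0) P.nil)) (P.cons (P.cons (P.lf 0 7464 0) P.nil) P.nil)))))) 59541)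
 (EL.cons 11 (TM.mk (P.cons (P.cons (P.lf 231378345 0 0) (P.cons (P.lf 4673304 0 0) (P.cons (P.lf 0 24163866 0) (P.cons (P.lf 2042112 0 0) (P.cons (P.lf 514023 0 0) (P.cons (P.lf 0 67881 0) P.nil)))))) (P.cons (P.cons (P.lf 10602228 0 0) (P.cons (P.lf 12801828 0 0) (P.cons (P.lf 1683234 0 0) (P.cons (P.lf 0 995568 0) (P.cons (P.lf 0 118182 0) P.nil))))) (P.cons (P.cons (P.lf 0 5068968 0) (P.cons (P.lf 0 2351106 0) (P.cons (P.lf 30870 0 0) (P.cons (P.lf 149829 0 0) P.nil)))) (P.cons (P.cons (P.lf 64335 0 0) (P.cons (P.lf 106140 0 0) (P.cons (P.lf 16521 0 0) P.nil))) (P.cons (P.cons (P.lf 31191 0 0) (P.cons (P.lf 4494 0 0) P.nil)) (P.cons (P.cons (P.lf 0 1569 0) P.nil) P.nil)))))) 81486)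
 EL.nil)))
noncomputable def S372_386_364_512_23 : EL := (EL.cons 4 (TM.mk (P.cons (P.cons (P.lf 0 1501529034 0) (P.cons (P.lf 0 229758213 0) (P.cons (P.lf 0 15361092 0) (P.lf 5120355 0 0)))) (P.cons (P.cons (P.lf 14394678 0 0) (P.cons (P.lf 34951890 0 0) (P.cons (P.lf 2336796 0 0) (P.lf 0 778926 0)))) (P.cons (P.cons (P.lf 22942287 0 0) (P.cons (P.lf 185694 0 0) (P.cons (P.lf 12420 0 0) (P.lf 0 4143 0)))) (P.cons (P.cons (P.lf 0 824133 0) (P.cons (P.lf 0 276579 0) (P.cons (P.lf 0 18489 0) P.nil))) (P.cons (P.cons (P.lf 0 95331 0) (P.cons (P.lf 11568 0 0) P.nil)) (P.cons (P.cons (P.lf 6039 0 0) P.nil) P.nil)))))) 15024)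
 (EL.cons 8 (TM.mk (P.cons (P.cons (P.lf 0 1352075763 0) (P.cons (P.lf 0 206889456 0) (P.cons (P.lf 0 13832148 0) (P.lf 4610718 0 0)))) (P.cons (P.cons (P.lf 0 126406041 0) (P.cons (P.lf 10147440 0 0) (P.cons (P.lf 678432 0 0) (P.lf 0 226146 0)))) (P.cons (P.cons (P.lf 13784505 0 0) (P.cons (P.lf 2155029 0 0) (P.cons (P.lf 144075 0 0) (P.lf 0 48024 0)))) (P.cons (P.cons (P.lf 903915 0 0) (P.cons (P.lf 0 126714 0) (P.cons (P.lf 0 8466 0) P.nil))) (P.cons (P.cons (P.lf 0 68229 0) (P.cons (P.lf 0 6771 0) P.nil)) (P.cons (P.cons (P.lf 0 1401 0) P.nil) P.nil)))))) 9270)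
 (EL.cons 11 (TM.mk (P.cons (P.cons (P.lf 679213488 0 0) (P.cons (P.lf 105159303 0 0) (P.cons (P.lf 0 50662434 0) (P.cons (P.lf 0 1917213 0) (P.lf 479301 0 0))))) (P.cons (P.cons (P.lf 0 75997341 0) (P.cons (P.lf 0 11766297 0) (P.cons (P.lf 5668629 0 0) (P.cons (P.lf 214515 0 0) (P.lf 0 53628 0))))) (P.cons (P.cons (P.lf 0 896394 0) (P.cons (P.lf 0 138786 0) (P.cons (P.lf 66861 0 0) (P.cons (P.lf 2532 0 0) P.nil)))) (P.cons (P.cons (P.lf 358653 0 0) (P.cons (P.lf 55527 0 0) (P.cons (P.lf 0 26748 0) P.nil))) (P.cons (P.cons (P.lf 0 10209 0) (P.cons (P.lf 0 1578 0) P.nil)) (P.cons (P.cons (P.lf 0 318 0) P.nil) P.nil)))))) 8187)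
 EL.nil)))
noncomputable def S372_386_364_512_24 : EL := (EL.cons 4 (TM.mk (P.cons (P.cons (P.lf 0 381451830 0) (P.cons (P.lf 0 7014414 0) (P.cons (P.lf 7389006 0 0) (P.cons (P.lf 1207053 0 0) (P.cons (P.lf 0 315117 0) (P.cons (P.lf 0 23415 0) P.nil)))))) (P.cons (P.cons (P.lf 0 68488479 0) (P.cons (P.lf 0 13691859 0) (P.cons (P.lf 0 3800004 0) (P.cons (P.lf 0 80577 0) (P.cons (P.lf 115677 0 0) P.nil))))) (P.cons (P.cons (P.lf 6333864 0 0) (P.cons (P.lf 1777536 0 0) (P.cons (P.lf 485490 0 0) (P.cons (P.lf 9411 0 0) P.nil)))) (P.cons (P.cons (P.lf 1157181 0 0) (P.cons (P.lf 167376 0 0) (P.cons (P.lf 3543 0 0) P.nil))) (P.cons (P.cons (P.lf 0 70065 0) (P.cons (P.lf 0 33405 0) P.nil)) (P.cons (P.cons (P.lf 0 7380 0) P.nil) P.nil)))))) 63939)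
 (EL.cons 8 (TM.mk (P.cons (P.cons (P.lf 0 343484382 0) (P.cons (P.lf 0 6316242 0) (P.cons (P.lf 6653547 0 0) (P.cons (P.lf 1086912 0 0) (P.cons (P.lf 0 283752 0) (P.cons (P.lf 0 21084 0) P.nil)))))) (P.cons (P.cons (P.lf 0 97076895 0) (P.cons (P.lf 0 12980112 0) (P.cons (P.lf 0 2735946 0) (P.cons (P.lf 39474 0 0) (P.cons (P.lf 74913 0 0) P.nil))))) (P.cons (P.cons (P.lf 0 2739255 0) (P.cons (P.lf 291411 0 0) (P.cons (P.lf 124863 0 0) (P.cons (P.lf 7596 0 0) P.nil)))) (P.cons (P.cons (P.lf 1112595 0 0) (P.cons (P.lf 238209 0 0) (P.cons (P.lf 30240 0 0) P.nil))) (P.cons (P.cons (P.lf 43974 0 0) (P.cons (P.lf 0 10119 0) P.nil)) (P.cons (P.cons (P.lf 0 6741 0) P.nil) P.nil)))))) 41250)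
 (EL.cons 11 (TM.mk (P.cons (P.cons (P.lf 172548930 0 0) (P.cons (P.lf 3485085 0 0) (P.cons (P.lf 0 18020049 0) (P.cons (P.lf 1522893 0 0) (P.cons (P.lf 383331 0 0) (P.cons (P.lf 0 50622 0) P.nil)))))) (P.cons (P.cons (P.lf 13328253 0 0) (P.cons (P.lf 9656388 0 0) (P.cons (P.lf 689046 0 0) (P.cons (P.lf 0 694587 0) (P.cons (P.lf 0 76089 0) P.nil))))) (P.cons (P.cons (P.lf 0 3795063 0) (P.cons (P.lf 0 1458666 0) (P.cons (P.lf 89967 0 0) (P.cons (P.lf 86082 0 0) P.nil)))) (P.cons (P.cons (P.lf 0 80085 0) (P.cons (P.lf 9546 0 0) (P.cons (P.lf 10839 0 0) P.nil))) (P.cons (P.cons (P.lf 30786 0 0) (P.cons (P.lf 8670 0 0) P.nil)) (P.cons (P.cons (P.lf 0 573 0) P.nil) P.nil)))))) 56082)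
 EL.nil)))
noncomputable def S372_386_364_512_25 : EL := (EL.cons 4 (TM.mk (P.cons (P.cons (P.lf 0 1119755733 0) (P.cons (P.lf 0 171340725 0) (P.cons (P.lf 0 11455437 0) (P.lf 3818472 0 0)))) (P.cons (P.cons (P.lf 0 24449421 0) (P.cons (P.lf 20681403 0 0) (P.cons (P.lf 1382706 0 0) (P.lf 0 460899 0)))) (P.cons (P.cons (P.lf 19155345 0 0) (P.cons (P.lf 1218981 0 0) (P.cons (P.lf 81501 0 0) (P.lf 0 27168 0)))) (P.cons (P.cons (P.lf 0 111426 0) (P.cons (P.lf 0 244446 0) (P.cons (P.lf 0 16341 0) P.nil))) (P.cons (P.cons (P.lf 0 117120 0) (P.cons (P.lf 2235 0 0) P.nil)) (P.cons (P.cons (P.lf 3522 0 0) P.nil) P.nil)))))) 14187)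
 (EL.cons 8 (TM.mk (P.cons (P.cons (P.lf 0 1008301908 0) (P.cons (P.lf 0 154286496 0) (P.cons (P.lf 0 10315236 0) (P.lf 3438411 0 0)))) (P.cons (P.cons (P.lf 0 125948643 0) (P.cons (P.lf 2719509 0 0) (P.cons (P.lf 181818 0 0) (P.lf 0 60606 0)))) (P.cons (P.cons (P.lf 8856612 0 0) (P.cons (P.lf 2080350 0 0) (P.cons (P.lf 139083 0 0) (P.lf 0 46359 0)))) (P.cons (P.cons (P.lf 1124715 0 0) (P.cons (P.lf 0 58035 0) (P.cons (P.lf 0 3876 0) P.nil))) (P.cons (P.cons (P.lf 0 47610 0) (P.cons (P.lf 0 10455 0) P.nil)) (P.cons (P.cons (P.lf 0 3543 0) P.nil) P.nil)))))) 8784)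
 (EL.cons 11 (TM.mk (P.cons (P.cons (P.lf 506519142 0 0) (P.cons (P.lf 78421881 0 0) (P.cons (P.lf 0 37781190 0) (P.cons (P.lf 0 1429749 0) (P.lf 357435 0 0))))) (P.cons (P.cons (P.lf 0 40759053 0) (P.cons (P.lf 0 6310524 0) (P.cons (P.lf 3040209 0 0) (P.cons (P.lf 115050 0 0) (P.lf 0 28761 0))))) (P.cons (P.cons (P.lf 0 3222321 0) (P.cons (P.lf 0 498897 0) (P.cons (P.lf 240351 0 0) (P.cons (P.lf 9096 0 0) P.nil)))) (P.cons (P.cons (P.lf 341118 0 0) (P.cons (P.lf 52812 0 0) (P.cons (P.lf 0 25440 0) P.nil))) (P.cons (P.cons (P.lf 1248 0 0) (P.cons (P.lf 192 0 0) P.nil)) (P.cons (P.cons (P.lf 0 948 0) P.nil) P.nil)))))) 9321)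
 EL.nil)))
noncomputable def S372_386_364_512_26 : EL := (EL.cons 4 (TM.mk (P.cons (P.cons (P.lf 0 284465277 0) (P.cons (P.lf 0 5230953 0) (P.cons (P.lf 5510304 0 0) (P.cons (P.lf 900150 0 0) (P.cons (P.lf 0 234996 0) (P.cons (P.lf 0 17460 0) P.nil)))))) (P.cons (P.cons (P.lf 0 60013113 0) (P.cons (P.lf 0 10374981 0) (P.cons (P.lf 0 2660688 0) (P.cons (P.lf 0 31806 0) (P.cons (P.lf 78879 0 0) P.nil))))) (P.cons (P.cons (P.lf 3552753 0 0) (P.cons (P.lf 1012740 0 0) (P.cons (P.lf 264600 0 0) (P.cons (P.lf 3756 0 0) P.nil)))) (P.cons (P.cons (P.lf 1084743 0 0) (P.cons (P.lf 181971 0 0) (P.cons (P.lf 18432 0 0) P.nil))) (P.cons (P.cons (P.lf 0 33366 0) (P.cons (P.lf 0 23178 0) P.nil)) (P.cons (P.cons (P.lf 0 8412 0) P.nil) P.nil)))))) 45768)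
 (EL.cons 8 (TM.mk (P.cons (P.cons (P.lf 0 256151295 0) (P.cons (P.lf 0 4710297 0) (P.cons (P.lf 4961838 0 0) (P.cons (P.lf 810558 0 0) (P.cons (P.lf 0 211605 0) (P.cons (P.lf 0 15723 0) P.nil)))))) (P.cons (P.cons (P.lf 0 80443080 0) (P.cons (P.lf 0 9827838 0) (P.cons (P.lf 0 1884405 0) (P.cons (P.lf 54906 0 0) (P.cons (P.lf 49218 0 0) P.nil))))) (P.cons (P.cons (P.lf 0 3926571 0) (P.cons (P.lf 0 79641 0) (P.cons (P.lf 21432 0 0) (P.cons (P.lf 5352 0 0) P.nil)))) (P.cons (P.cons (P.lf 871884 0 0) (P.cons (P.lf 199170 0 0) (P.cons (P.lf 28671 0 0) P.nil))) (P.cons (P.cons (P.lf 60636 0 0) (P.cons (P.lf 0 2457 0) P.nil)) (P.cons (P.cons (P.lf 0 5340 0) P.nil) P.nil)))))) 29502)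
 (EL.cons 11 (TM.mk (P.cons (P.cons (P.lf 128677266 0 0) (P.cons (P.lf 2598981 0 0) (P.cons (P.lf 0 13438338 0) (P.cons (P.lf 1135686 0 0) (P.cons (P.lf 285864 0 0) (P.cons (P.lf 0 37752 0) P.nil)))))) (P.cons (P.cons (P.lf 13982664 0 0) (P.cons (P.lf 7282851 0 0) (P.cons (P.lf 91602 0 0) (P.cons (P.lf 0 482298 0) (P.cons (P.lf 0 47760 0) P.nil))))) (P.cons (P.cons (P.lf 0 2714220 0) (P.cons (P.lf 0 865485 0) (P.cons (P.lf 103746 0 0) (P.cons (P.lf 46185 0 0) P.nil)))) (P.cons (P.cons (P.lf 0 161745 0) (P.cons (P.lf 0 38007 0) (P.cons (P.lf 9189 0 0) P.nil))) (P.cons (P.cons (P.lf 25650 0 0) (P.cons (P.lf 8466 0 0) P.nil)) (P.cons (P.cons (P.lf 342 0 0) P.nil) P.nil)))))) 39972)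
 EL.nil)))
noncomputable def S372_386_364_512_27 : EL := (EL.cons 13 (TM.mk (P.lf 0 4294967296 0) 0)
 EL.nil)
noncomputable def S372_386_364_512_28 : EL := (EL.cons 13 (TM.mk (P.cons (P.cons (P.lf 0 1091103204 0) (P.cons (P.lf 146892424 0 0) (P.cons (P.lf 9820884 0 0) (P.lf 0 3273624 0)))) (P.cons (P.cons (P.lf 0 206364216 0) (P.cons (P.lf 0 31577060 0) (P.cons (P.lf 0 2111168 0) (P.lf 703720 0 0)))) (P.cons (P.cons (P.lf 0 532264 0) (P.cons (P.lf 2169016 0 0) (P.cons (P.lf 145012 0 0) (P.lf 0 48336 0)))) (P.cons (P.cons (P.lf 750663 0 0) (P.cons (P.lf 0 15332 0) (P.cons (P.lf 0 1024 0) P.nil))) (P.cons (P.cons (P.lf 0 18815 0) (P.cons (P.lf 0 4660 0) P.nil)) (P.cons (P.cons (P.lf 0 817 0) P.nil) P.nil)))))) 2963)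
 EL.nil)
noncomputable def S372_386_364_512_29 : EL := (EL.cons 13 (TM.mk (P.cons (P.cons (P.lf 0 277186325 0) (P.cons (P.lf 74633767 0 0) (P.cons (P.lf 0 34037 0) (P.cons (P.lf 0 2335046 0) (P.cons (P.lf 201466 0 0) (P.cons (P.lf 14970 0 0) P.nil)))))) (P.cons (P.cons (P.lf 0 104850464 0) (P.cons (P.lf 0 1928066 0) (P.cons (P.lf 2031031 0 0) (P.cons (P.lf 331784 0 0) (P.cons (P.lf 0 86617 0) P.nil))))) (P.cons (P.cons (P.lf 0 10185805 0) (P.cons (P.lf 0 1895972 0) (P.cons (P.lf 0 507285 0) (P.cons (P.lf 0 8627 0) P.nil)))) (P.cons (P.cons (P.lf 330251 0 0) (P.cons (P.lf 141469 0 0) (P.cons (P.lf 42400 0 0) P.nil))) (P.cons (P.cons (P.lf 62510 0 0) (P.cons (P.lf 9021 0 0) P.nil)) (P.cons (P.cons (P.lf 0 2037 0) P.nil) P.nil)))))) 49303)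
 EL.nil)
noncomputable def S372_386_364_512_30 : EL := (EL.cons 13 (TM.mk (P.cons (P.lf 0 3202944564 0) (P.cons (P.lf 0 100640632 0) (P.cons (P.lf 4888368 0 0) (P.cons (P.lf 0 51604 0) (P.cons (P.lf 0 2228 0) (P.cons (P.lf 92 0 0) P.nil)))))) 64)
 EL.nil)
noncomputable def S372_386_364_512_31 : EL := (EL.cons 13 (TM.mk (P.cons (P.cons (P.lf 0 813683279 0) (P.cons (P.lf 109544091 0 0) (P.cons (P.lf 7323861 0 0) (P.lf 0 2441284 0)))) (P.cons (P.cons (P.lf 0 179461776 0) (P.cons (P.lf 0 20106375 0) (P.cons (P.lf 0 1344264 0) (P.lf 448086 0 0)))) (P.cons (P.cons (P.lf 0 3990652 0) (P.cons (P.lf 710421 0 0) (P.cons (P.lf 47494 0 0) (P.lf 0 15830 0)))) (P.cons (P.cons (P.lf 769096 0 0) (P.cons (P.lf 77095 0 0) (P.cons (P.lf 5155 0 0) P.nil))) (P.cons (P.cons (P.lf 1118 0 0) (P.cons (P.lf 0 6606 0) P.nil)) (P.cons (P.cons (P.lf 0 1994 0) P.nil) P.nil)))))) 4822)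
 EL.nil)
noncomputable def S372_386_364_512_32 : EL := (EL.cons 13 (TM.mk (P.cons (P.cons (P.lf 0 206709940 0) (P.cons (P.lf 55657657 0 0) (P.cons (P.lf 0 25382 0) (P.cons (P.lf 0 1741345 0) (P.cons (P.lf 150241 0 0) (P.cons (P.lf 11163 0 0) P.nil)))))) (P.cons (P.cons (P.lf 0 84686658 0) (P.cons (P.lf 310992 0 0) (P.cons (P.lf 1513830 0 0) (P.cons (P.lf 192710 0 0) (P.cons (P.lf 0 59873 0) P.nil))))) (P.cons (P.cons (P.lf 0 9737395 0) (P.cons (P.lf 0 1544033 0) (P.cons (P.lf 0 330674 0) (P.cons (P.lf 3998 0 0) P.nil)))) (P.cons (P.cons (P.lf 123612 0 0) (P.cons (P.lf 64163 0 0) (P.cons (P.lf 17420 0 0) P.nil))) (P.cons (P.cons (P.lf 64544 0 0) (P.cons (P.lf 12215 0 0) P.nil)) (P.cons (P.cons (P.lf 0 601 0) P.nil) P.nil)))))) 43557)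
 EL.nil)
noncomputable def S372_386_364_512_33 : EL := (EL.cons 14 (TM.mk (P.lf 8589934592 0 0) 0)
 EL.nil)
noncomputable def S372_386_364_512_34 : EL := (EL.cons 14 (TM.mk (P.cons (P.cons (P.lf 2182206408 0 0) (P.cons (P.lf 0 293784848 0) (P.cons (P.lf 0 19641768 0) (P.lf 6547248 0 0)))) (P.cons (P.cons (P.lf 412728432 0 0) (P.cons (P.lf 63154120 0 0) (P.cons (P.lf 4222336 0 0) (P.lf 0 1407440 0)))) (P.cons (P.cons (P.lf 1064528 0 0) (P.cons (P.lf 0 4338032 0) (P.cons (P.lf 0 290024 0) (P.lf 96672 0 0)))) (P.cons (P.cons (P.lf 0 1501326 0) (P.cons (P.lf 30664 0 0) (P.cons (P.lf 2048 0 0) P.nil))) (P.cons (P.cons (P.lf 37630 0 0) (P.cons (P.lf 9320 0 0) P.nil)) (P.cons (P.cons (P.lf 1634 0 0) P.nil) P.nil)))))) 5926)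
 EL.nil)
noncomputable def S372_386_364_512_35 : EL := (EL.cons 14 (TM.mk (P.cons (P.cons (P.lf 554372650 0 0) (P.cons (P.lf 0 149267534 0) (P.cons (P.lf 68074 0 0) (P.cons (P.lf 4670092 0 0) (P.cons (P.lf 0 402932 0) (P.cons (P.lf 0 29940 0) P.nil)))))) (P.cons (P.cons (P.lf 209700928 0 0) (P.cons (P.lf 3856132 0 0) (P.cons (P.lf 0 4062062 0) (P.cons (P.lf 0 663568 0) (P.cons (P.lf 173234 0 0) P.nil))))) (P.cons (P.cons (P.lf 20371610 0 0) (P.cons (P.lf 3791944 0 0) (P.cons (P.lf 1014570 0 0) (P.cons (P.lf 17254 0 0) P.nil)))) (P.cons (P.cons (P.lf 0 660502 0) (P.cons (P.lf 0 282938 0) (P.cons (P.lf 0 84800 0) P.nil))) (P.cons (P.cons (P.lf 0 125020 0) (P.cons (P.lf 0 18042 0) P.nil)) (P.cons (P.cons (P.lf 4074 0 0) P.nil) P.nil)))))) 98606)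
 EL.nil)
noncomputable def S372_386_364_512_36 : EL := (EL.cons 14 (TM.mk (P.cons (P.lf 6405889128 0 0) (P.cons (P.lf 201281264 0 0) (P.cons (P.lf 0 9776736 0) (P.cons (P.lf 103208 0 0) (P.cons (P.lf 4456 0 0) (P.cons (P.lf 0 184 0) P.nil)))))) 128)
 EL.nil)
noncomputable def S372_386_364_512_37 : EL := (EL.cons 14 (TM.mk (P.cons (P.cons (P.lf 1627366558 0 0) (P.cons (P.lf 0 219088182 0) (P.cons (P.lf 0 14647722 0) (P.lf 4882568 0 0)))) (P.cons (P.cons (P.lf 358923552 0 0) (P.cons (P.lf 40212750 0 0) (P.cons (P.lf 2688528 0 0) (P.lf 0 896172 0)))) (P.cons (P.cons (P.lf 7981304 0 0) (P.cons (P.lf 0 1420842 0) (P.cons (P.lf 0 94988 0) (P.lf 31660 0 0)))) (P.cons (P.cons (P.lf 0 1538192 0) (P.cons (P.lf 0 154190 0) (P.cons (P.lf 0 10310 0) P.nil))) (P.cons (P.cons (P.lf 0 2236 0) (P.cons (P.lf 13212 0 0) P.nil)) (P.cons (P.cons (P.lf 3988 0 0) P.nil) P.nil))))))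 9644)
 EL.nil)
noncomputable def S372_386_364_512_38 : EL := (EL.cons 14 (TM.mk (P.cons (P.cons (P.lf 413419880 0 0) (P.cons (P.lf 0 111315314 0) (P.cons (P.lf 50764 0 0) (P.cons (P.lf 3482690 0 0) (P.cons (P.lf 0 300482 0) (P.cons (P.lf 0 22326 0) P.nil)))))) (P.cons (P.cons (P.lf 169373316 0 0) (P.cons (P.lf 0 621984 0) (P.cons (P.lf 0 3027660 0) (P.cons (P.lf 0 385420 0) (P.cons (P.lf 119746 0 0) P.nil))))) (P.cons (P.cons (P.lf 19474790 0 0) (P.cons (P.lf 3088066 0 0) (P.cons (P.lf 661348 0 0) (P.cons (P.lf 0 7996 0) P.nil)))) (P.cons (P.cons (P.lf 0 247224 0) (P.cons (P.lf 0 128326 0) (P.cons (P.lf 0 34840 0) P.nil))) (P.cons (P.cons (P.lf 0 129088 0) (P.cons (P.lf 0 24430 0) P.nil)) (P.cons (P.cons (P.lf 1202 0 0) P.nil) P.nil)))))) 87114)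
 EL.nil)
noncomputable def S372_386_364_512_39 : EL := (EL.cons 14 (TM.mk (P.cons (P.lf 4777151104 0 0) (P.cons (P.lf 300208446 0 0) (P.cons (P.lf 0 9865408 0) (P.cons (P.lf 0 304246 0) (P.cons (P.lf 22610 0 0) (P.cons (P.lf 0 300 0) P.nil)))))) 230)
 EL.nil)
noncomputable def S372_386_364_512_40 : EL := (EL.cons 14 (TM.mk (P.cons (P.cons (P.lf 1213598268 0 0) (P.cons (P.lf 0 163383620 0) (P.cons (P.lf 0 10923446 0) (P.lf 3641144 0 0)))) (P.cons (P.cons (P.lf 305797774 0 0) (P.cons (P.lf 24854680 0 0) (P.cons (P.lf 1661724 0 0) (P.lf 0 553904 0)))) (P.cons (P.cons (P.lf 12510178 0 0) (P.cons (P.lf 132046 0 0) (P.cons (P.lf 8832 0 0) (P.lf 0 2944 0)))) (P.cons (P.cons (P.lf 0 1349036 0) (P.cons (P.lf 0 196682 0) (P.cons (P.lf 0 13150 0) P.nil))) (P.cons (P.cons (P.lf 0 41638 0) (P.cons (P.lf 8226 0 0) P.nil)) (P.cons (P.cons (P.lf 4920 0 0) P.nil) P.nil))))))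 10566)
 EL.nil)
noncomputable def S372_386_364_512_41 : EL := (EL.cons 14 (TM.mk (P.cons (P.cons (P.lf 308305248 0 0) (P.cons (P.lf 0 83012688 0) (P.cons (P.lf 37858 0 0) (P.cons (P.lf 2597194 0 0) (P.cons (P.lf 0 224084 0) (P.cons (P.lf 0 16650 0) P.nil)))))) (P.cons (P.cons (P.lf 135996422 0 0) (P.cons (P.lf 0 3072206 0) (P.cons (P.lf 0 2256668 0) (P.cons (P.lf 0 205818 0) (P.cons (P.lf 82258 0 0) P.nil))))) (P.cons (P.cons (P.lf 18021456 0 0) (P.cons (P.lf 2415026 0 0) (P.cons (P.lf 422192 0 0) (P.cons (P.lf 0 18958 0) P.nil)))) (P.cons (P.cons (P.lf 84162 0 0) (P.cons (P.lf 0 23968 0) (P.cons (P.lf 0 7038 0) P.nil))) (P.cons (P.cons (P.lf 0 121976 0) (P.cons (P.lf 0 24806 0) P.nil)) (P.cons (P.cons (P.lf 0 1532 0) P.nil) P.nil)))))) 73832)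
 EL.nil)
noncomputable def S372_386_364_512_42 : EL := (EL.cons 14 (TM.mk (P.cons (P.lf 3562530074 0 0) (P.cons (P.lf 335817810 0 0) (P.cons (P.lf 0 5759684 0) (P.cons (P.lf 0 742346 0) (P.cons (P.lf 27044 0 0) (P.cons (P.lf 586 0 0) P.nil)))))) 314)
 EL.nil)
noncomputable def S372_386_364_512_43 : EL := (EL.cons 14 (TM.mk (P.cons (P.cons (P.lf 905033194 0 0) (P.cons (P.lf 0 121842296 0) (P.cons (P.lf 0 8146090 0) (P.lf 2715360 0 0)))) (P.cons (P.cons (P.lf 256484050 0 0) (P.cons (P.lf 14706778 0 0) (P.cons (P.lf 983260 0 0) (P.lf 0 327750 0)))) (P.cons (P.cons (P.lf 15113636 0 0) (P.cons (P.lf 866830 0 0) (P.cons (P.lf 57956 0 0) (P.lf 0 19318 0)))) (P.cons (P.cons (P.lf 0 1046360 0) (P.cons (P.lf 0 173830 0) (P.cons (P.lf 0 11622 0) P.nil))) (P.cons (P.cons (P.lf 0 72598 0) (P.cons (P.lf 1590 0 0) P.nil)) (P.cons (P.cons (P.lf 4510 0 0) P.nil) P.nil))))))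 10360)
 EL.nil)
noncomputable def S372_386_364_512_44 : EL := (EL.cons 14 (TM.mk (P.cons (P.cons (P.lf 229916678 0 0) (P.cons (P.lf 0 61906184 0) (P.cons (P.lf 28232 0 0) (P.cons (P.lf 1936840 0 0) (P.cons (P.lf 0 167108 0) (P.cons (P.lf 0 12416 0) P.nil)))))) (P.cons (P.cons (P.lf 108642744 0 0) (P.cons (P.lf 0 4236248 0) (P.cons (P.lf 0 1682010 0) (P.cons (P.lf 0 92628 0) (P.cons (P.lf 56092 0 0) P.nil))))) (P.cons (P.cons (P.lf 16275184 0 0) (P.cons (P.lf 1823482 0 0) (P.cons (P.lf 261926 0 0) (P.cons (P.lf 0 21916 0) P.nil)))) (P.cons (P.cons (P.lf 333964 0 0) (P.cons (P.lf 41212 0 0) (P.cons (P.lf 7212 0 0) P.nil))) (P.cons (P.cons (P.lf 0 107708 0) (P.cons (P.lf 0 21888 0) P.nil)) (P.cons (P.cons (P.lf 0 3816 0) P.nil) P.nil)))))) 61126)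
 EL.nil)
noncomputable def S372_386_364_512_45 : EL := (EL.cons 14 (TM.mk (P.cons (P.cons (P.lf 140834080 0 0) (P.cons (P.lf 0 56880392 0) (P.cons (P.lf 3854770 0 0) (P.cons (P.lf 1947930 0 0) (P.cons (P.lf 0 376010 0) (P.cons (P.lf 0 4452 0) P.nil)))))) (P.cons (P.cons (P.lf 79909346 0 0) (P.cons (P.lf 0 9288558 0) (P.cons (P.lf 0 2464982 0) (P.cons (P.lf 182052 0 0) (P.cons (P.lf 118396 0 0) P.nil))))) (P.cons (P.cons (P.lf 15319642 0 0) (P.cons (P.lf 1695142 0 0) (P.cons (P.lf 74400 0 0) (P.cons (P.lf 0 105846 0) P.nil)))) (P.cons (P.cons (P.lf 740112 0 0) (P.cons (P.lf 205324 0 0) (P.cons (P.lf 66340 0 0) P.nil))) (P.cons (P.cons (P.lf 0 95192 0) (P.cons (P.lf 0 28554 0) P.nil)) (P.cons (P.cons (P.lf 0 7590 0) P.nil) P.nil)))))) 133774)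
 EL.nil)
noncomputable def S372_386_364_512_46 : EL := (EL.cons 15 (TM.mk (P.lf 4294967296 0 0) 0)
 EL.nil)
noncomputable def S372_386_364_512_47 : EL := (EL.cons 15 (TM.mk (P.cons (P.cons (P.lf 1091103204 0 0) (P.cons (P.lf 0 146892424 0) (P.cons (P.lf 0 9820884 0) (P.lf 3273624 0 0)))) (P.cons (P.cons (P.lf 206364216 0 0) (P.cons (P.lf 31577060 0 0) (P.cons (P.lf 2111168 0 0) (P.lf 0 703720 0)))) (P.cons (P.cons (P.lf 532264 0 0) (P.cons (P.lf 0 2169016 0) (P.cons (P.lf 0 145012 0) (P.lf 48336 0 0)))) (P.cons (P.cons (P.lf 0 750663 0) (P.cons (P.lf 15332 0 0) (P.cons (P.lf 1024 0 0) P.nil))) (P.cons (P.cons (P.lf 18815 0 0) (P.cons (P.lf 4660 0 0) P.nil)) (P.cons (P.cons (P.lf 817 0 0) P.nil) P.nil)))))) 2963)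
 EL.nil)
noncomputable def S372_386_364_512_48 : EL := (EL.cons 15 (TM.mk (P.cons (P.cons (P.lf 277186325 0 0) (P.cons (P.lf 0 74633767 0) (P.cons (P.lf 34037 0 0) (P.cons (P.lf 2335046 0 0) (P.cons (P.lf 0 201466 0) (P.cons (P.lf 0 14970 0) P.nil)))))) (P.cons (P.cons (P.lf 104850464 0 0) (P.cons (P.lf 1928066 0 0) (P.cons (P.lf 0 2031031 0) (P.cons (P.lf 0 331784 0) (P.cons (P.lf 86617 0 0) P.nil))))) (P.cons (P.cons (P.lf 10185805 0 0) (P.cons (P.lf 1895972 0 0) (P.cons (P.lf 507285 0 0) (P.cons (P.lf 8627 0 0) P.nil)))) (P.cons (P.cons (P.lf 0 330251 0) (P.cons (P.lf 0 141469 0) (P.cons (P.lf 0 42400 0) P.nil))) (P.cons (P.cons (P.lf 0 62510 0) (P.cons (P.lf 0 9021 0) P.nil)) (P.cons (P.cons (P.lf 2037 0 0) P.nil) P.nil)))))) 49303)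
 EL.nil)
noncomputable def S372_386_364_512 : SL := (SL.cons S372_386_364_512_0 (SL.cons S372_386_364_512_1 (SL.cons S372_386_364_512_2 (SL.cons S372_386_364_512_3 (SL.cons S372_386_364_512_4 (SL.cons S372_386_364_512_5 (SL.cons S372_386_364_512_6 (SL.cons S372_386_364_512_7 (SL.cons S372_386_364_512_8 (SL.cons S372_386_364_512_9 (SL.cons S372_386_364_512_10 (SL.cons S372_386_364_512_11 (SL.cons S372_386_364_512_12 (SL.cons S372_386_364_512_13 (SL.cons S372_386_364_512_14 (SL.cons S372_386_364_512_15 (SL.cons S372_386_364_512_16 (SL.cons S372_386_364_512_17 (SL.cons S372_386_364_512_18 (SL.cons S372_386_364_512_19 (SL.cons S372_386_364_512_20 (SL.cons S372_386_364_512_21 (SL.cons S372_386_364_512_22 (SL.cons S372_386_364_512_23 (SL.cons S372_386_364_512_24 (SL.cons S372_386_364_512_25 (SL.cons S372_386_364_512_26 (SL.cons S372_386_364_512_27 (SL.cons S372_386_364_512_28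 (SL.cons S372_386_364_512_29 (SL.cons S372_386_364_512_30 (SL.cons S372_386_364_512_31 (SL.cons S372_386_364_512_32 (SL.cons S372_386_364_512_33 (SL.cons S372_386_364_512_34 (SL.cons S372_386_364_512_35 (SL.cons S372_386_364_512_36 (SL.cons S372_386_364_512_37 (SL.cons S372_386_364_512_38 (SL.cons S372_386_364_512_39 (SL.cons S372_386_364_512_40 (SL.cons S372_386_364_512_41 (SL.cons S372_386_364_512_42 (SL.cons S372_386_364_512_43 (SL.cons S372_386_364_512_44 (SL.cons S372_386_364_512_45 (SL.cons S372_386_364_512_46 (SL.cons S372_386_364_512_47 (SL.cons S372_386_364_512_48 SL.nil)))))))))))))))))))))))))))))))))))))))))))))))))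
noncomputable def S372_386_512_586_0 : EL := (EL.cons 0 (TM.mk (P.cons (P.lf 4257048901 0 0) (P.cons (P.lf 0 263855079 0) (P.cons (P.lf 8670768 0 0) (P.cons (P.lf 267403 0 0) (P.cons (P.lf 0 19872 0) (P.cons (P.lf 263 0 0) P.nil)))))) 209)
 (EL.cons 1 (TM.mk (P.cons (P.lf 1657874694 0 0) (P.cons (P.lf 0 66703704 0) (P.cons (P.lf 0 6615345 0) (P.cons (P.lf 292091 0 0) (P.cons (P.lf 596 0 0) (P.cons (P.lf 0 360 0) P.nil)))))) 128)
 (EL.cons 5 (TM.mk (P.cons (P.lf 5787827018 0 0) (P.cons (P.lf 93815138 0 0) (P.cons (P.lf 0 3082942 0) (P.cons (P.lf 0 95074 0) (P.cons (P.lf 7066 0 0) (P.cons (P.lf 0 96 0) P.nil)))))) 77)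
 (EL.cons 9 (TM.mk (P.lf 6442450944 0 0) 2)
 EL.nil))))
noncomputable def S372_386_512_586_1 : EL := (EL.cons 0 (TM.mk (P.cons (P.cons (P.lf 4346090258 0 0) (P.cons (P.lf 149750991 0 0) (P.cons (P.lf 0 2383471 0) (P.lf 0 794482 0)))) (P.cons (P.cons (P.lf 70807016 0 0) (P.cons (P.lf 0 13238299 0) (P.cons (P.lf 210692 0 0) (P.lf 70226 0 0)))) (P.cons (P.cons (P.lf 0 60421980 0) (P.cons (P.lf 0 2485941 0) (P.cons (P.lf 39567 0 0) (P.lf 13195 0 0)))) (P.cons (P.cons (P.lf 2389802 0 0) (P.cons (P.lf 378907 0 0) (P.cons (P.lf 0 6020 0) P.nil))) (P.cons (P.cons (P.lf 221284 0 0) (P.cons (P.lf 0 10355 0) P.nil)) (P.cons (P.cons (P.lf 0 16887 0) P.nil) P.nil)))))) 10804)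
 (EL.cons 1 (TM.mk (P.cons (P.cons (P.lf 1215143144 0 0) (P.cons (P.lf 27411995 0 0) (P.cons (P.lf 0 436304 0) (P.lf 0 145437 0)))) (P.cons (P.cons (P.lf 285838695 0 0) (P.cons (P.lf 13999608 0 0) (P.cons (P.lf 0 222816 0) (P.lf 0 74271 0)))) (P.cons (P.cons (P.lf 0 19709876 0) (P.cons (P.lf 0 2506616 0) (P.cons (P.lf 39886 0 0) (P.lf 13289 0 0)))) (P.cons (P.cons (P.lf 0 2289085 0) (P.cons (P.lf 37402 0 0) (P.cons (P.lf 0 592 0) P.nil))) (P.cons (P.cons (P.lf 159173 0 0) (P.cons (P.lf 12550 0 0) P.nil)) (P.cons (P.cons (P.lf 3188 0 0) P.nil) P.nil)))))) 4825)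
 (EL.cons 5 (TM.mk (P.cons (P.cons (P.lf 0 83759206 0) (P.cons (P.lf 0 184364174 0) (P.cons (P.lf 2934394 0 0) (P.lf 978128 0 0)))) (P.cons (P.cons (P.lf 410202456 0 0) (P.cons (P.lf 32893328 0 0) (P.cons (P.lf 0 523532 0) (P.lf 0 174510 0)))) (P.cons (P.cons (P.lf 16579877 0 0) (P.cons (P.lf 0 1052230 0) (P.cons (P.lf 16748 0 0) (P.lf 5584 0 0)))) (P.cons (P.cons (P.lf 0 2084774 0) (P.cons (P.lf 0 121034 0) (P.cons (P.lf 1920 0 0) P.nil))) (P.cons (P.cons (P.lf 0 34201 0) (P.cons (P.lf 7842 0 0) P.nil)) (P.cons (P.cons (P.lf 6869 0 0) P.nil) P.nil)))))) 3695)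
 (EL.cons 9 (TM.mk (P.cons (P.cons (P.lf 1289574108 0 0) (P.cons (P.lf 0 115693566 0) (P.cons (P.lf 1841412 0 0) (P.lf 613800 0 0)))) (P.cons (P.cons (P.lf 384157302 0 0) (P.cons (P.lf 24870324 0 0) (P.cons (P.lf 0 395838 0) (P.lf 0 131946 0)))) (P.cons (P.cons (P.lf 0 4326604 0) (P.cons (P.lf 0 1708332 0) (P.cons (P.lf 27186 0 0) (P.lf 9060 0 0)))) (P.cons (P.cons (P.lf 0 1089766 0) (P.cons (P.lf 12072 0 0) (P.cons (P.lf 0 192 0) P.nil))) (P.cons (P.cons (P.lf 39232 0 0) (P.cons (P.lf 3666 0 0) P.nil)) (P.cons (P.cons (P.lf 769 0 0) P.nil) P.nil)))))) 1247)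
 (EL.cons 2 (TM.mk (P.cons (P.cons (P.lf 0 673985472 0) (P.cons (P.lf 24983718 0 0) (P.cons (P.lf 12379522 0 0) (P.cons (P.lf 0 112334 0) (P.lf 0 28080 0))))) (P.cons (P.cons (P.lf 75412378 0 0) (P.cons (P.lf 0 2795430 0) (P.cons (P.lf 0 1385145 0) (P.cons (P.lf 12566 0 0) (P.lf 3138 0 0))))) (P.cons (P.cons (P.lf 889498 0 0) (P.cons (P.lf 0 32970 0) (P.cons (P.lf 0 16337 0) (P.cons (P.lf 146 0 0) P.nil)))) (P.cons (P.cons (P.lf 0 355893 0) (P.cons (P.lf 13187 0 0) (P.cons (P.lf 6536 0 0) P.nil))) (P.cons (P.cons (P.lf 10127 0 0) (P.cons (P.lf 0 374 0) P.nil)) (P.cons (P.cons (P.lf 312 0 0) P.nil) P.nil)))))) 996)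
 (EL.cons 6 (TM.mk (P.cons (P.cons (P.lf 266128083 0 0) (P.cons (P.lf 0 9865002 0) (P.cons (P.lf 0 4888143 0) (P.cons (P.lf 44355 0 0) (P.lf 11088 0 0))))) (P.cons (P.cons (P.lf 0 57208821 0) (P.cons (P.lf 2120652 0 0) (P.cons (P.lf 1050789 0 0) (P.cons (P.lf 0 9534 0) (P.lf 0 2382 0))))) (P.cons (P.cons (P.lf 3929658 0 0) (P.cons (P.lf 0 145665 0) (P.cons (P.lf 0 72177 0) (P.cons (P.lf 654 0 0) P.nil)))) (P.cons (P.cons (P.lf 0 27777 0) (P.cons (P.lf 1029 0 0) (P.cons (P.lf 510 0 0) P.nil))) (P.cons (P.cons (P.lf 0 8442 0) (P.cons (P.lf 312 0 0) P.nil)) (P.cons (P.cons (P.lf 354 0 0) P.nil) P.nil)))))) 522)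
 EL.nil))))))
noncomputable def S372_386_512_586_2 : EL := (EL.cons 0 (TM.mk (P.cons (P.cons (P.lf 1569329950 0 0) (P.cons (P.lf 0 65538466 0) (P.cons (P.lf 0 5708181 0) (P.cons (P.lf 562617 0 0) (P.cons (P.lf 69919 0 0) (P.cons (P.lf 0 1129 0) P.nil)))))) (P.cons (P.cons (P.lf 455602214 0 0) (P.cons (P.lf 44212349 0 0) (P.cons (P.lf 1603292 0 0) (P.cons (P.lf 0 307999 0) (P.cons (P.lf 0 23886 0) P.nil))))) (P.cons (P.cons (P.lf 0 29622957 0) (P.cons (P.lf 0 4068815 0) (P.cons (P.lf 0 170939 0) (P.cons (P.lf 29080 0 0) P.nil)))) (P.cons (P.cons (P.lf 0 6535740 0) (P.cons (P.lf 0 516688 0) (P.cons (P.lf 0 432 0) P.nil))) (P.cons (P.cons (P.lf 484212 0 0) (P.cons (P.lf 90314 0 0) P.nil)) (P.cons (P.cons (P.lf 30795 0 0) P.nil) P.nil)))))) 49157)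
 (EL.cons 1 (TM.mk (P.cons (P.cons (P.lf 420039540 0 0) (P.cons (P.lf 0 20750205 0) (P.cons (P.lf 0 1188915 0) (P.cons (P.lf 158444 0 0) (P.cons (P.lf 15741 0 0) (P.cons (P.lf 0 261 0) P.nil)))))) (P.cons (P.cons (P.lf 222443722 0 0) (P.cons (P.lf 8498165 0 0) (P.cons (P.lf 0 175044 0) (P.cons (P.lf 0 43819 0) (P.cons (P.lf 407 0 0) P.nil))))) (P.cons (P.cons (P.lf 20974210 0 0) (P.cons (P.lf 2185034 0 0) (P.cons (P.lf 101184 0 0) (P.cons (P.lf 0 15922 0) P.nil)))) (P.cons (P.cons (P.lf 0 3451477 0) (P.cons (P.lf 0 455929 0) (P.cons (P.lf 0 16633 0) P.nil))) (P.cons (P.cons (P.lf 0 231145 0) (P.cons (P.lf 0 163 0) P.nil)) (P.cons (P.cons (P.lf 29017 0 0) P.nil) P.nil)))))) 22551)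
 (EL.cons 5 (TM.mk (P.cons (P.cons (P.lf 0 265434615 0) (P.cons (P.lf 0 29189313 0) (P.cons (P.lf 5219688 0 0) (P.cons (P.lf 3505 0 0) (P.cons (P.lf 0 49247 0) (P.cons (P.lf 795 0 0) P.nil)))))) (P.cons (P.cons (P.lf 12305926 0 0) (P.cons (P.lf 0 20072960 0) (P.cons (P.lf 0 1513111 0) (P.cons (P.lf 164823 0 0) (P.cons (P.lf 18978 0 0) P.nil))))) (P.cons (P.cons (P.lf 34530753 0 0) (P.cons (P.lf 4209162 0 0) (P.cons (P.lf 195153 0 0) (P.cons (P.lf 0 30675 0) P.nil)))) (P.cons (P.cons (P.lf 1244590 0 0) (P.cons (P.lf 0 35214 0) (P.cons (P.lf 0 11798 0) P.nil))) (P.cons (P.cons (P.lf 0 298353 0) (P.cons (P.lf 0 37342 0) P.nil)) (P.cons (P.cons (P.lf 0 3630 0) P.nil) P.nil)))))) 20624)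
 (EL.cons 9 (TM.mk (P.cons (P.cons (P.lf 258131787 0 0) (P.cons (P.lf 0 46316355 0) (P.cons (P.lf 2814810 0 0) (P.cons (P.lf 179589 0 0) (P.cons (P.lf 0 21517 0) (P.cons (P.lf 349 0 0) P.nil)))))) (P.cons (P.cons (P.lf 153792186 0 0) (P.cons (P.lf 0 3840898 0) (P.cons (P.lf 0 832107 0) (P.cons (P.lf 48811 0 0) (P.cons (P.lf 9250 0 0) P.nil))))) (P.cons (P.cons (P.lf 21174841 0 0) (P.cons (P.lf 2437474 0 0) (P.cons (P.lf 118567 0 0) (P.cons (P.lf 0 17941 0) P.nil)))) (P.cons (P.cons (P.lf 0 952255 0) (P.cons (P.lf 0 193164 0) (P.cons (P.lf 0 10548 0) P.nil))) (P.cons (P.cons (P.lf 0 111351 0) (P.cons (P.lf 0 4620 0) P.nil)) (P.cons (P.cons (P.lf 6450 0 0) P.nil) P.nil)))))) 7556)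
 (EL.cons 2 (TM.mk (P.cons (P.cons (P.lf 0 269820978 0) (P.cons (P.lf 34208763 0 0) (P.cons (P.lf 3673372 0 0) (P.cons (P.lf 0 603736 0) (P.cons (P.lf 4629 0 0) (P.cons (P.lf 3301 0 0) P.nil)))))) (P.cons (P.cons (P.lf 0 50187909 0) (P.cons (P.lf 0 6051791 0) (P.cons (P.lf 1341056 0 0) (P.cons (P.lf 174268 0 0) (P.cons (P.lf 0 7278 0) P.nil))))) (P.cons (P.cons (P.lf 10254903 0 0) (P.cons (P.lf 527596 0 0) (P.cons (P.lf 0 236452 0) (P.cons (P.lf 0 19237 0) P.nil)))) (P.cons (P.cons (P.lf 90320 0 0) (P.cons (P.lf 0 26218 0) (P.cons (P.lf 0 444 0) P.nil))) (P.cons (P.cons (P.lf 0 73299 0) (P.cons (P.lf 0 1350 0) P.nil)) (P.cons (P.cons (P.lf 2266 0 0) P.nil) P.nil)))))) 7773)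
 (EL.cons 6 (TM.mk (P.cons (P.cons (P.lf 106540782 0 0) (P.cons (P.lf 0 13507578 0) (P.cons (P.lf 0 1450452 0) (P.cons (P.lf 238386 0 0) (P.cons (P.lf 0 1824 0) (P.cons (P.lf 0 1302 0) P.nil)))))) (P.cons (P.cons (P.lf 8835150 0 0) (P.cons (P.lf 3781914 0 0) (P.cons (P.lf 0 380016 0) (P.cons (P.lf 0 93378 0) (P.cons (P.lf 3060 0 0) P.nil))))) (P.cons (P.cons (P.lf 0 5606880 0) (P.cons (P.lf 0 516126 0) (P.cons (P.lf 141342 0 0) (P.cons (P.lf 15774 0 0) P.nil)))) (P.cons (P.cons (P.lf 444324 0 0) (P.cons (P.lf 46200 0 0) (P.cons (P.lf 0 11478 0) P.nil))) (P.cons (P.cons (P.lf 10620 0 0) (P.cons (P.lf 0 2298 0) P.nil)) (P.cons (P.cons (P.lf 0 2784 0) P.nil) P.nil)))))) 4914)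
 EL.nil))))))
noncomputable def S372_386_512_586_3 : EL := (EL.cons 0 (TM.mk (P.cons (P.lf 4198667962 0 0) (P.cons (P.lf 263855079 0 0) (P.cons (P.lf 0 8670768 0) (P.cons (P.lf 0 267403 0) (P.cons (P.lf 19872 0 0) (P.cons (P.lf 0 263 0) P.nil)))))) 209)
 (EL.cons 1 (TM.mk (P.cons (P.lf 0 1657874694 0) (P.cons (P.lf 66703704 0 0) (P.cons (P.lf 6615345 0 0) (P.cons (P.lf 0 292091 0) (P.cons (P.lf 0 596 0) (P.cons (P.lf 360 0 0) P.nil)))))) 128)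
 (EL.cons 5 (TM.mk (P.cons (P.lf 654623926 0 0) (P.cons (P.lf 0 93815138 0) (P.cons (P.lf 3082942 0 0) (P.cons (P.lf 95074 0 0) (P.cons (P.lf 0 7066 0) (P.cons (P.lf 96 0 0) P.nil)))))) 70)
 EL.nil)))
noncomputable def S372_386_512_586_4 : EL := (EL.cons 0 (TM.mk (P.cons (P.cons (P.lf 840440002 0 0) (P.cons (P.lf 0 75399699 0) (P.cons (P.lf 1200083 0 0) (P.lf 400023 0 0)))) (P.cons (P.cons (P.lf 303178037 0 0) (P.cons (P.lf 11470151 0 0) (P.cons (P.lf 0 182557 0) (P.lf 0 60851 0)))) (P.cons (P.cons (P.lf 11178086 0 0) (P.cons (P.lf 60938 0 0) (P.cons (P.lf 0 972 0) (P.lf 0 325 0)))) (P.cons (P.cons (P.lf 0 1457975 0) (P.cons (P.lf 0 90768 0) (P.cons (P.lf 1443 0 0) P.nil))) (P.cons (P.cons (P.lf 0 25207 0) (P.cons (P.lf 3793 0 0) P.nil)) (P.cons (P.cons (P.lf 4886 0 0) P.nil) P.nil)))))) 2121)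
 (EL.cons 1 (TM.mk (P.cons (P.cons (P.lf 0 331853868 0) (P.cons (P.lf 29772120 0 0) (P.cons (P.lf 0 473859 0) (P.lf 0 157951 0)))) (P.cons (P.cons (P.lf 0 85505546 0) (P.cons (P.lf 0 7597893 0) (P.cons (P.lf 120928 0 0) (P.lf 40308 0 0)))) (P.cons (P.cons (P.lf 6415051 0 0) (P.cons (P.lf 578317 0 0) (P.cons (P.lf 0 9202 0) (P.lf 0 3065 0)))) (P.cons (P.cons (P.lf 571636 0 0) (P.cons (P.lf 9988 0 0) (P.cons (P.lf 0 157 0) P.nil))) (P.cons (P.cons (P.lf 0 43357 0) (P.cons (P.lf 0 3688 0) P.nil)) (P.cons (P.cons (P.lf 0 676 0) P.nil) P.nil)))))) 1061)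
 (EL.cons 5 (TM.mk (P.cons (P.cons (P.lf 131034922 0 0) (P.cons (P.lf 0 11755738 0) (P.cons (P.lf 187106 0 0) (P.lf 62368 0 0)))) (P.cons (P.cons (P.lf 20255796 0 0) (P.cons (P.lf 4211830 0 0) (P.cons (P.lf 0 67036 0) (P.lf 0 22344 0)))) (P.cons (P.cons (P.lf 0 5416630 0) (P.cons (P.lf 0 591110 0) (P.cons (P.lf 9406 0 0) (P.lf 3134 0 0)))) (P.cons (P.cons (P.lf 155134 0 0) (P.cons (P.lf 36296 0 0) (P.cons (P.lf 0 576 0) P.nil))) (P.cons (P.cons (P.lf 22038 0 0) (P.cons (P.lf 0 126 0) P.nil)) (P.cons (P.cons (P.lf 0 1480 0) P.nil) P.nil)))))) 606)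
 EL.nil)))
noncomputable def S372_386_512_586_5 : EL := (EL.cons 0 (TM.mk (P.cons (P.cons (P.lf 168229400 0 0) (P.cons (P.lf 0 30185249 0) (P.cons (P.lf 1834463 0 0) (P.cons (P.lf 117040 0 0) (P.cons (P.lf 0 14022 0) (P.cons (P.lf 226 0 0) P.nil)))))) (P.cons (P.cons (P.lf 110801262 0 0) (P.cons (P.lf 0 4400105 0) (P.cons (P.lf 0 427016 0) (P.cons (P.lf 39165 0 0) (P.cons (P.lf 5146 0 0) P.nil))))) (P.cons (P.cons (P.lf 19751298 0 0) (P.cons (P.lf 1493578 0 0) (P.cons (P.lf 39403 0 0) (P.cons (P.lf 0 9935 0) P.nil)))) (P.cons (P.cons (P.lf 28926 0 0) (P.cons (P.lf 0 18966 0) (P.cons (P.lf 0 1014 0) P.nil))) (P.cons (P.cons (P.lf 0 145654 0) (P.cons (P.lf 0 14185 0) P.nil)) (P.cons (P.cons (P.lf 508 0 0) P.nil) P.nil)))))) 8364)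
 (EL.cons 1 (TM.mk (P.cons (P.cons (P.lf 0 66426605 0) (P.cons (P.lf 11918865 0 0) (P.cons (P.lf 0 724350 0) (P.cons (P.lf 0 46213 0) (P.cons (P.lf 5535 0 0) (P.cons (P.lf 0 88 0) P.nil)))))) (P.cons (P.cons (P.lf 0 36903628 0) (P.cons (P.lf 508850 0 0) (P.cons (P.lf 243273 0 0) (P.cons (P.lf 0 10700 0) (P.cons (P.lf 0 2602 0) P.nil))))) (P.cons (P.cons (P.lf 0 3591658 0) (P.cons (P.lf 0 714575 0) (P.cons (P.lf 0 36236 0) (P.cons (P.lf 5306 0 0) P.nil)))) (P.cons (P.cons (P.lf 610503 0 0) (P.cons (P.lf 73100 0 0) (P.cons (P.lf 2958 0 0) P.nil))) (P.cons (P.cons (P.lf 33540 0 0) (P.cons (P.lf 1869 0 0) P.nil)) (P.cons (P.cons (P.lf 0 4749 0) P.nil) P.nil)))))) 3948)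
 (EL.cons 5 (TM.mk (P.cons (P.cons (P.lf 26229030 0 0) (P.cons (P.lf 0 4706250 0) (P.cons (P.lf 286014 0 0) (P.cons (P.lf 18248 0 0) (P.cons (P.lf 0 2186 0) (P.cons (P.lf 34 0 0) P.nil)))))) (P.cons (P.cons (P.lf 11868056 0 0) (P.cons (P.lf 284182 0 0) (P.cons (P.lf 0 125540 0) (P.cons (P.lf 2344 0 0) (P.cons (P.lf 1252 0 0) P.nil))))) (P.cons (P.cons (P.lf 35596 0 0) (P.cons (P.lf 281440 0 0) (P.cons (P.lf 25510 0 0) (P.cons (P.lf 0 2446 0) P.nil)))) (P.cons (P.cons (P.lf 0 327702 0) (P.cons (P.lf 0 57642 0) (P.cons (P.lf 0 3154 0) P.nil))) (P.cons (P.cons (P.lf 14670 0 0) (P.cons (P.lf 3502 0 0) P.nil)) (P.cons (P.cons (P.lf 1968 0 0) P.nil) P.nil)))))) 1980)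
 EL.nil)))
noncomputable def S372_386_512_586_6 : EL := (EL.cons 12 (TM.mk (P.lf 8589934592 0 0) 0)
 (EL.cons 3 (TM.mk (P.cons (P.lf 3002760528 0 0) (P.cons (P.lf 94350592 0 0) (P.cons (P.lf 0 4582845 0) (P.cons (P.lf 48378 0 0) (P.cons (P.lf 2088 0 0) (P.cons (P.lf 0 86 0) P.nil)))))) 67)
 (EL.cons 7 (TM.mk (P.cons (P.lf 0 1185661915 0) (P.cons (P.lf 84959496 0 0) (P.cons (P.lf 251989 0 0) (P.cons (P.lf 0 68044 0) (P.cons (P.lf 1551 0 0) (P.cons (P.lf 9 0 0) P.nil)))))) 45)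
 EL.nil)))
noncomputable def S372_386_512_586_7 : EL := (EL.cons 12 (TM.mk (P.cons (P.cons (P.lf 1719432144 0 0) (P.cons (P.lf 0 154258088 0) (P.cons (P.lf 2455216 0 0) (P.lf 818400 0 0)))) (P.cons (P.cons (P.lf 512209736 0 0) (P.cons (P.lf 33160432 0 0) (P.cons (P.lf 0 527784 0) (P.lf 0 175928 0)))) (P.cons (P.cons (P.lf 0 5768806 0) (P.cons (P.lf 0 2277776 0) (P.cons (P.lf 36248 0 0) (P.lf 12080 0 0)))) (P.cons (P.cons (P.lf 0 1453022 0) (P.cons (P.lf 16096 0 0) (P.cons (P.lf 0 256 0) P.nil))) (P.cons (P.cons (P.lf 52310 0 0) (P.cons (P.lf 4888 0 0) P.nil)) (P.cons (P.cons (P.lf 1026 0 0) P.nil) P.nil)))))) 1638)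
 (EL.cons 3 (TM.mk (P.cons (P.cons (P.lf 3099835020 0 0) (P.cons (P.lf 107847176 0 0) (P.cons (P.lf 0 1716524 0) (P.lf 0 572170 0)))) (P.cons (P.cons (P.lf 26292558 0 0) (P.cons (P.lf 0 19794908 0) (P.cons (P.lf 315056 0 0) (P.lf 105018 0 0)))) (P.cons (P.cons (P.lf 0 19257453 0) (P.cons (P.lf 699414 0 0) (P.cons (P.lf 0 11128 0) (P.lf 0 3706 0)))) (P.cons (P.cons (P.lf 1241916 0 0) (P.cons (P.lf 75902 0 0) (P.cons (P.lf 0 1206 0) P.nil))) (P.cons (P.cons (P.lf 14382 0 0) (P.cons (P.lf 0 6498 0) P.nil)) (P.cons (P.cons (P.lf 0 3989 0) P.nil) P.nil)))))) 4552)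
 (EL.cons 7 (TM.mk (P.cons (P.cons (P.lf 2012732385 0 0) (P.cons (P.lf 166961193 0 0) (P.cons (P.lf 0 2657408 0) (P.lf 0 885802 0)))) (P.cons (P.cons (P.lf 23675543 0 0) (P.cons (P.lf 0 17824648 0) (P.cons (P.lf 283703 0 0) (P.lf 94567 0 0)))) (P.cons (P.cons (P.lf 0 16120472 0) (P.cons (P.lf 0 288850 0) (P.cons (P.lf 4597 0 0) (P.lf 1531 0 0)))) (P.cons (P.cons (P.lf 0 25387 0) (P.cons (P.lf 75542 0 0) (P.cons (P.lf 0 1199 0) P.nil))) (P.cons (P.cons (P.lf 49208 0 0) (P.cons (P.lf 0 515 0) P.nil)) (P.cons (P.cons (P.lf 0 1204 0) P.nil) P.nil)))))) 2580)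
 (EL.cons 10 (TM.mk (P.cons (P.cons (P.lf 0 964028115 0) (P.cons (P.lf 35735205 0 0) (P.cons (P.lf 17706924 0 0) (P.cons (P.lf 0 160677 0) (P.lf 0 40167 0))))) (P.cons (P.cons (P.lf 138156315 0 0) (P.cons (P.lf 0 5121264 0) (P.cons (P.lf 0 2537604 0) (P.cons (P.lf 23025 0 0) (P.lf 5754 0 0))))) (P.cons (P.cons (P.lf 0 4540074 0) (P.cons (P.lf 168294 0 0) (P.cons (P.lf 83388 0 0) (P.cons (P.lf 0 756 0) P.nil)))) (P.cons (P.cons (P.lf 0 140010 0) (P.cons (P.lf 5187 0 0) (P.cons (P.lf 2571 0 0) P.nil))) (P.cons (P.cons (P.lf 10404 0 0) (P.cons (P.lf 0 384 0) P.nil)) (P.cons (P.cons (P.lf 0 141 0) P.nil) P.nil)))))) 627)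
 EL.nil))))
noncomputable def S372_386_512_586_8 : EL := (EL.cons 12 (TM.mk (P.cons (P.cons (P.lf 344175716 0 0) (P.cons (P.lf 0 61755140 0) (P.cons (P.lf 3753080 0 0) (P.cons (P.lf 239452 0 0) (P.cons (P.lf 0 28690 0) (P.cons (P.lf 466 0 0) P.nil)))))) (P.cons (P.cons (P.lf 205056248 0 0) (P.cons (P.lf 0 5121198 0) (P.cons (P.lf 0 1109476 0) (P.cons (P.lf 65082 0 0) (P.cons (P.lf 12334 0 0) P.nil))))) (P.cons (P.cons (P.lf 28233122 0 0) (P.cons (P.lf 3249966 0 0) (P.cons (P.lf 158090 0 0) (P.cons (P.lf 0 23922 0) P.nil)))) (P.cons (P.cons (P.lf 0 1269674 0) (P.cons (P.lf 0 257552 0) (P.cons (P.lf 0 14064 0) P.nil))) (P.cons (P.cons (P.lf 0 148468 0) (P.cons (P.lf 0 6160 0) P.nil)) (P.cons (P.cons (P.lf 8600 0 0) P.nil) P.nil)))))) 10046)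
 (EL.cons 3 (TM.mk (P.cons (P.cons (P.lf 1120664488 0 0) (P.cons (P.lf 0 46570961 0) (P.cons (P.lf 0 4100563 0) (P.cons (P.lf 401199 0 0) (P.cons (P.lf 50146 0 0) (P.cons (P.lf 0 816 0) P.nil)))))) (P.cons (P.cons (P.lf 304745028 0 0) (P.cons (P.lf 30394310 0 0) (P.cons (P.lf 1445756 0 0) (P.cons (P.lf 0 222672 0) (P.cons (P.lf 0 19981 0) P.nil))))) (P.cons (P.cons (P.lf 0 20675478 0) (P.cons (P.lf 0 4087639 0) (P.cons (P.lf 0 228873 0) (P.cons (P.lf 31040 0 0) P.nil)))) (P.cons (P.cons (P.lf 0 2642245 0) (P.cons (P.lf 0 39769 0) (P.cons (P.lf 17607 0 0) P.nil))) (P.cons (P.cons (P.lf 288258 0 0) (P.cons (P.lf 43191 0 0) P.nil)) (P.cons (P.cons (P.lf 3763 0 0) P.nil) P.nil)))))) 25823)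
 (EL.cons 7 (TM.mk (P.cons (P.cons (P.lf 853276523 0 0) (P.cons (P.lf 0 13972669 0) (P.cons (P.lf 0 5391822 0) (P.cons (P.lf 252843 0 0) (P.cons (P.lf 58146 0 0) (P.cons (P.lf 0 946 0) P.nil)))))) (P.cons (P.cons (P.lf 274412520 0 0) (P.cons (P.lf 27369038 0 0) (P.cons (P.lf 1301856 0 0) (P.cons (P.lf 0 200510 0) (P.cons (P.lf 0 17994 0) P.nil))))) (P.cons (P.cons (P.lf 0 4474748 0) (P.cons (P.lf 0 2270219 0) (P.cons (P.lf 0 138998 0) (P.cons (P.lf 17614 0 0) P.nil)))) (P.cons (P.cons (P.lf 0 3103163 0) (P.cons (P.lf 0 233342 0) (P.cons (P.lf 4324 0 0) P.nil))) (P.cons (P.cons (P.lf 47623 0 0) (P.cons (P.lf 27786 0 0) P.nil)) (P.cons (P.cons (P.lf 14522 0 0) P.nil) P.nil)))))) 14671)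
 (EL.cons 10 (TM.mk (P.cons (P.cons (P.lf 0 385935630 0) (P.cons (P.lf 48930144 0 0) (P.cons (P.lf 5254170 0 0) (P.cons (P.lf 0 863550 0) (P.cons (P.lf 6618 0 0) (P.cons (P.lf 4722 0 0) P.nil)))))) (P.cons (P.cons (P.lf 0 59659164 0) (P.cons (P.lf 0 10193568 0) (P.cons (P.lf 1753074 0 0) (P.cons (P.lf 276396 0 0) (P.cons (P.lf 0 10620 0) P.nil))))) (P.cons (P.cons (P.lf 15953544 0 0) (P.cons (P.lf 1149612 0 0) (P.cons (P.lf 0 385272 0) (P.cons (P.lf 0 37524 0) P.nil)))) (P.cons (P.cons (P.lf 0 456918 0) (P.cons (P.lf 0 89970 0) (P.cons (P.lf 14052 0 0) P.nil))) (P.cons (P.cons (P.lf 0 64914 0) (P.cons (P.lf 2778 0 0) P.nil)) (P.cons (P.cons (P.lf 4356 0 0) P.nil) P.nil)))))) 10698)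
 EL.nil))))
noncomputable def S372_386_512_586_9 : EL := (EL.cons 3 (TM.mk (P.cons (P.lf 3002760528 0 0) (P.cons (P.lf 94350592 0 0) (P.cons (P.lf 0 4582845 0) (P.cons (P.lf 48378 0 0) (P.cons (P.lf 2088 0 0) (P.cons (P.lf 0 86 0) P.nil)))))) 67)
 (EL.cons 7 (TM.mk (P.cons (P.lf 0 1185661915 0) (P.cons (P.lf 84959496 0 0) (P.cons (P.lf 251989 0 0) (P.cons (P.lf 0 68044 0) (P.cons (P.lf 1551 0 0) (P.cons (P.lf 9 0 0) P.nil)))))) 45)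
 EL.nil))
noncomputable def S372_386_512_586_10 : EL := (EL.cons 3 (TM.mk (P.cons (P.cons (P.lf 601057308 0 0) (P.cons (P.lf 0 53923588 0) (P.cons (P.lf 858262 0 0) (P.lf 286085 0 0)))) (P.cons (P.cons (P.lf 197937783 0 0) (P.cons (P.lf 9897454 0 0) (P.cons (P.lf 0 157528 0) (P.lf 0 52509 0)))) (P.cons (P.cons (P.lf 2692110 0 0) (P.cons (P.lf 0 349707 0) (P.cons (P.lf 5564 0 0) (P.lf 1853 0 0)))) (P.cons (P.cons (P.lf 0 834879 0) (P.cons (P.lf 0 37951 0) (P.cons (P.lf 603 0 0) P.nil))) (P.cons (P.cons (P.lf 8706 0 0) (P.cons (P.lf 3249 0 0) P.nil)) (P.cons (P.cons (P.lf 1783 0 0) P.nil) P.nil)))))) 1053)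
 (EL.cons 7 (TM.mk (P.cons (P.cons (P.lf 0 237331866 0) (P.cons (P.lf 21292122 0 0) (P.cons (P.lf 0 338891 0) (P.lf 0 112963 0)))) (P.cons (P.cons (P.lf 0 53693713 0) (P.cons (P.lf 0 6102811 0) (P.cons (P.lf 97133 0 0) (P.lf 32377 0 0)))) (P.cons (P.cons (P.lf 5912758 0 0) (P.cons (P.lf 637850 0 0) (P.cons (P.lf 0 10151 0) (P.lf 0 3383 0)))) (P.cons (P.cons (P.lf 144908 0 0) (P.cons (P.lf 0 22555 0) (P.cons (P.lf 358 0 0) P.nil))) (P.cons (P.cons (P.lf 0 25507 0) (P.cons (P.lf 0 872 0) P.nil)) (P.cons (P.cons (P.lf 473 0 0) P.nil) P.nil)))))) 515)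
 EL.nil))
noncomputable def S372_386_512_586_11 : EL := (EL.cons 3 (TM.mk (P.cons (P.cons (P.lf 120312586 0 0) (P.cons (P.lf 0 21587579 0) (P.cons (P.lf 1311953 0 0) (P.cons (P.lf 83703 0 0) (P.cons (P.lf 0 10028 0) (P.cons (P.lf 162 0 0) P.nil)))))) (P.cons (P.cons (P.lf 75461340 0 0) (P.cons (P.lf 0 2468512 0) (P.cons (P.lf 0 346612 0) (P.cons (P.lf 25380 0 0) (P.cons (P.lf 3995 0 0) P.nil))))) (P.cons (P.cons (P.lf 11938062 0 0) (P.cons (P.lf 1112777 0 0) (P.cons (P.lf 41073 0 0) (P.cons (P.lf 0 7774 0) P.nil)))) (P.cons (P.cons (P.lf 0 241189 0) (P.cons (P.lf 0 51949 0) (P.cons (P.lf 0 2565 0) P.nil))) (P.cons (P.cons (P.lf 0 79668 0) (P.cons (P.lf 0 6759 0) P.nil)) (P.cons (P.cons (P.lf 2257 0 0) P.nil) P.nil)))))) 4831)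
 (EL.cons 7 (TM.mk (P.cons (P.cons (P.lf 0 47506303 0) (P.cons (P.lf 8524013 0 0) (P.cons (P.lf 0 518034 0) (P.cons (P.lf 0 33051 0) (P.cons (P.lf 3960 0 0) (P.cons (P.lf 0 64 0) P.nil)))))) (P.cons (P.cons (P.lf 0 24899652 0) (P.cons (P.lf 96080 0 0) (P.cons (P.lf 190260 0 0) (P.cons (P.lf 0 6614 0) (P.cons (P.lf 0 1986 0) P.nil))))) (P.cons (P.cons (P.lf 0 1858772 0) (P.cons (P.lf 0 501053 0) (P.cons (P.lf 0 32684 0) (P.cons (P.lf 3952 0 0) P.nil)))) (P.cons (P.cons (P.lf 457783 0 0) (P.cons (P.lf 68032 0 0) (P.cons (P.lf 3442 0 0) P.nil))) (P.cons (P.cons (P.lf 7201 0 0) (P.cons (P.lf 0 1572 0) P.nil)) (P.cons (P.cons (P.lf 0 2878 0) P.nil) P.nil)))))) 2241)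
 EL.nil))
noncomputable def S372_386_512_586_12 : EL := (EL.cons 4 (TM.mk (P.cons (P.lf 0 3002760528 0) (P.cons (P.lf 0 94350592 0) (P.cons (P.lf 4582845 0 0) (P.cons (P.lf 0 48378 0) (P.cons (P.lf 0 2088 0) (P.cons (P.lf 86 0 0) P.nil)))))) 67)
 (EL.cons 8 (TM.mk (P.cons (P.lf 1185661915 0 0) (P.cons (P.lf 0 84959496 0) (P.cons (P.lf 0 251989 0) (P.cons (P.lf 68044 0 0) (P.cons (P.lf 0 1551 0) (P.cons (P.lf 0 9 0) P.nil)))))) 45)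
 EL.nil))
noncomputable def S372_386_512_586_13 : EL := (EL.cons 4 (TM.mk (P.cons (P.cons (P.lf 0 601057308 0) (P.cons (P.lf 53923588 0 0) (P.cons (P.lf 0 858262 0) (P.lf 0 286085 0)))) (P.cons (P.cons (P.lf 0 197937783 0) (P.cons (P.lf 0 9897454 0) (P.cons (P.lf 157528 0 0) (P.lf 52509 0 0)))) (P.cons (P.cons (P.lf 0 2692110 0) (P.cons (P.lf 349707 0 0) (P.cons (P.lf 0 5564 0) (P.lf 0 1853 0)))) (P.cons (P.cons (P.lf 834879 0 0) (P.cons (P.lf 37951 0 0) (P.cons (P.lf 0 603 0) P.nil))) (P.cons (P.cons (P.lf 0 8706 0) (P.cons (P.lf 0 3249 0) P.nil)) (P.cons (P.cons (P.lf 0 1783 0) P.nil) P.nil)))))) 1053)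
 (EL.cons 8 (TM.mk (P.cons (P.cons (P.lf 237331866 0 0) (P.cons (P.lf 0 21292122 0) (P.cons (P.lf 338891 0 0) (P.lf 112963 0 0)))) (P.cons (P.cons (P.lf 53693713 0 0) (P.cons (P.lf 6102811 0 0) (P.cons (P.lf 0 97133 0) (P.lf 0 32377 0)))) (P.cons (P.cons (P.lf 0 5912758 0) (P.cons (P.lf 0 637850 0) (P.cons (P.lf 10151 0 0) (P.lf 3383 0 0)))) (P.cons (P.cons (P.lf 0 144908 0) (P.cons (P.lf 22555 0 0) (P.cons (P.lf 0 358 0) P.nil))) (P.cons (P.cons (P.lf 25507 0 0) (P.cons (P.lf 872 0 0) P.nil)) (P.cons (P.cons (P.lf 0 473 0) P.nil) P.nil)))))) 515)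
 EL.nil))
noncomputable def S372_386_512_586_14 : EL := (EL.cons 4 (TM.mk (P.cons (P.cons (P.lf 0 120312586 0) (P.cons (P.lf 21587579 0 0) (P.cons (P.lf 0 1311953 0) (P.cons (P.lf 0 83703 0) (P.cons (P.lf 10028 0 0) (P.cons (P.lf 0 162 0) P.nil)))))) (P.cons (P.cons (P.lf 0 75461340 0) (P.cons (P.lf 2468512 0 0) (P.cons (P.lf 346612 0 0) (P.cons (P.lf 0 25380 0) (P.cons (P.lf 0 3995 0) P.nil))))) (P.cons (P.cons (P.lf 0 11938062 0) (P.cons (P.lf 0 1112777 0) (P.cons (P.lf 0 41073 0) (P.cons (P.lf 7774 0 0) P.nil)))) (P.cons (P.cons (P.lf 241189 0 0) (P.cons (P.lf 51949 0 0) (P.cons (P.lf 2565 0 0) P.nil))) (P.cons (P.cons (P.lf 79668 0 0) (P.cons (P.lf 6759 0 0) P.nil)) (P.cons (P.cons (P.lf 0 2257 0) P.nil) P.nil)))))) 4831)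
 (EL.cons 8 (TM.mk (P.cons (P.cons (P.lf 47506303 0 0) (P.cons (P.lf 0 8524013 0) (P.cons (P.lf 518034 0 0) (P.cons (P.lf 33051 0 0) (P.cons (P.lf 0 3960 0) (P.cons (P.lf 64 0 0) P.nil)))))) (P.cons (P.cons (P.lf 24899652 0 0) (P.cons (P.lf 0 96080 0) (P.cons (P.lf 0 190260 0) (P.cons (P.lf 6614 0 0) (P.cons (P.lf 1986 0 0) P.nil))))) (P.cons (P.cons (P.lf 1858772 0 0) (P.cons (P.lf 501053 0 0) (P.cons (P.lf 32684 0 0) (P.cons (P.lf 0 3952 0) P.nil)))) (P.cons (P.cons (P.lf 0 457783 0) (P.cons (P.lf 0 68032 0) (P.cons (P.lf 0 3442 0) P.nil))) (P.cons (P.cons (P.lf 0 7201 0) (P.cons (P.lf 1572 0 0) P.nil)) (P.cons (P.cons (P.lf 2878 0 0) P.nil) P.nil)))))) 2241)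
 EL.nil))
noncomputable def S372_386_512_586_15 : EL := (EL.cons 4 (TM.mk (P.cons (P.lf 0 2239289580 0) (P.cons (P.lf 0 140722709 0) (P.cons (P.lf 4624410 0 0) (P.cons (P.lf 142615 0 0) (P.cons (P.lf 0 10598 0) (P.cons (P.lf 140 0 0) P.nil)))))) 114)
 (EL.cons 8 (TM.mk (P.cons (P.lf 884199837 0 0) (P.cons (P.lf 0 35575309 0) (P.cons (P.lf 0 3528184 0) (P.cons (P.lf 155782 0 0) (P.cons (P.lf 318 0 0) (P.cons (P.lf 0 192 0) P.nil)))))) 65)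
 EL.nil))
noncomputable def S372_386_512_586_16 : EL := (EL.cons 4 (TM.mk (P.cons (P.cons (P.lf 0 448234667 0) (P.cons (P.lf 40213172 0 0) (P.cons (P.lf 0 640044 0) (P.lf 0 213345 0)))) (P.cons (P.cons (P.lf 0 161694953 0) (P.cons (P.lf 0 6117414 0) (P.cons (P.lf 97364 0 0) (P.lf 32454 0 0)))) (P.cons (P.cons (P.lf 0 5961645 0) (P.cons (P.lf 0 32500 0) (P.cons (P.lf 518 0 0) (P.lf 173 0 0)))) (P.cons (P.cons (P.lf 777586 0 0) (P.cons (P.lf 48409 0 0) (P.cons (P.lf 0 769 0) P.nil))) (P.cons (P.cons (P.lf 13443 0 0) (P.cons (P.lf 0 2023 0) P.nil)) (P.cons (P.cons (P.lf 0 2606 0) P.nil) P.nil)))))) 1140)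
 (EL.cons 8 (TM.mk (P.cons (P.cons (P.lf 176988730 0 0) (P.cons (P.lf 0 15878464 0) (P.cons (P.lf 252725 0 0) (P.lf 84241 0 0)))) (P.cons (P.cons (P.lf 45602958 0 0) (P.cons (P.lf 4052210 0 0) (P.cons (P.lf 0 64495 0) (P.lf 0 21498 0)))) (P.cons (P.cons (P.lf 0 3421361 0) (P.cons (P.lf 0 308436 0) (P.cons (P.lf 4908 0 0) (P.lf 1635 0 0)))) (P.cons (P.cons (P.lf 0 304873 0) (P.cons (P.lf 0 5327 0) (P.cons (P.lf 84 0 0) P.nil))) (P.cons (P.cons (P.lf 23124 0 0) (P.cons (P.lf 1967 0 0) P.nil)) (P.cons (P.cons (P.lf 361 0 0) P.nil) P.nil)))))) 556)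
 EL.nil))
noncomputable def S372_386_512_586_17 : EL := (EL.cons 4 (TM.mk (P.cons (P.cons (P.lf 0 89722347 0) (P.cons (P.lf 16098799 0 0) (P.cons (P.lf 0 978380 0) (P.cons (P.lf 0 62421 0) (P.cons (P.lf 7478 0 0) (P.cons (P.lf 0 120 0) P.nil)))))) (P.cons (P.cons (P.lf 0 59094006 0) (P.cons (P.lf 2346722 0 0) (P.cons (P.lf 227742 0 0) (P.cons (P.lf 0 20888 0) (P.cons (P.lf 0 2745 0) P.nil))))) (P.cons (P.cons (P.lf 0 10534025 0) (P.cons (P.lf 0 796575 0) (P.cons (P.lf 0 21015 0) (P.cons (P.lf 5298 0 0) P.nil)))) (P.cons (P.cons (P.lf 0 15427 0) (P.cons (P.lf 10115 0 0) (P.cons (P.lf 540 0 0) P.nil))) (P.cons (P.cons (P.lf 77682 0 0) (P.cons (P.lf 7565 0 0) P.nil)) (P.cons (P.cons (P.lf 0 270 0) P.nil) P.nil)))))) 4471)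
 (EL.cons 8 (TM.mk (P.cons (P.cons (P.lf 35427523 0 0) (P.cons (P.lf 0 6356728 0) (P.cons (P.lf 386320 0 0) (P.cons (P.lf 24647 0 0) (P.cons (P.lf 0 2952 0) (P.cons (P.lf 47 0 0) P.nil)))))) (P.cons (P.cons (P.lf 19681935 0 0) (P.cons (P.lf 0 271387 0) (P.cons (P.lf 0 129746 0) (P.cons (P.lf 5707 0 0) (P.cons (P.lf 1388 0 0) P.nil))))) (P.cons (P.cons (P.lf 1915551 0 0) (P.cons (P.lf 381107 0 0) (P.cons (P.lf 19326 0 0) (P.cons (P.lf 0 2830 0) P.nil)))) (P.cons (P.cons (P.lf 0 325602 0) (P.cons (P.lf 0 38987 0) (P.cons (P.lf 0 1578 0) P.nil))) (P.cons (P.cons (P.lf 0 17888 0) (P.cons (P.lf 0 997 0) P.nil)) (P.cons (P.cons (P.lf 2533 0 0) P.nil) P.nil)))))) 2094)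
 EL.nil))
noncomputable def S372_386_512_586_18 : EL := (EL.cons 4 (TM.mk (P.cons (P.lf 0 1669935972 0) (P.cons (P.lf 0 157414598 0) (P.cons (P.lf 2699851 0 0) (P.cons (P.lf 347974 0 0) (P.cons (P.lf 0 12676 0) (P.cons (P.lf 0 274 0) P.nil)))))) 154)
 (EL.cons 8 (TM.mk (P.cons (P.lf 659386409 0 0) (P.cons (P.lf 0 5811293 0) (P.cons (P.lf 0 4471091 0) (P.cons (P.lf 84614 0 0) (P.cons (P.lf 7934 0 0) (P.cons (P.lf 0 393 0) P.nil)))))) 76)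
 EL.nil))
noncomputable def S372_386_512_586_19 : EL := (EL.cons 4 (TM.mk (P.cons (P.cons (P.lf 0 334268154 0) (P.cons (P.lf 29988718 0 0) (P.cons (P.lf 0 477308 0) (P.lf 0 159101 0)))) (P.cons (P.cons (P.lf 0 131086118 0) (P.cons (P.lf 0 3619739 0) (P.cons (P.lf 57611 0 0) (P.lf 19203 0 0)))) (P.cons (P.cons (P.lf 0 7724568 0) (P.cons (P.lf 0 213350 0) (P.cons (P.lf 3396 0 0) (P.lf 1132 0 0)))) (P.cons (P.cons (P.lf 618835 0 0) (P.cons (P.lf 42785 0 0) (P.cons (P.lf 0 680 0) P.nil))) (P.cons (P.cons (P.lf 32856 0 0) (P.cons (P.lf 0 390 0) P.nil)) (P.cons (P.cons (P.lf 0 2658 0) P.nil) P.nil)))))) 1164)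
 (EL.cons 8 (TM.mk (P.cons (P.cons (P.lf 131988221 0 0) (P.cons (P.lf 0 11841264 0) (P.cons (P.lf 188468 0 0) (P.lf 62822 0 0)))) (P.cons (P.cons (P.lf 38155356 0 0) (P.cons (P.lf 2649842 0 0) (P.cons (P.lf 0 42174 0) (P.lf 0 14058 0)))) (P.cons (P.cons (P.lf 0 1684321 0) (P.cons (P.lf 0 116990 0) (P.cons (P.lf 1861 0 0) (P.lf 620 0 0)))) (P.cons (P.cons (P.lf 0 357304 0) (P.cons (P.lf 0 16002 0) (P.cons (P.lf 254 0 0) P.nil))) (P.cons (P.cons (P.lf 14635 0 0) (P.cons (P.lf 1734 0 0) P.nil)) (P.cons (P.cons (P.lf 1137 0 0) P.nil) P.nil)))))) 530)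
 EL.nil))
noncomputable def S372_386_512_586_20 : EL := (EL.cons 4 (TM.mk (P.cons (P.cons (P.lf 0 66909870 0) (P.cons (P.lf 12005577 0 0) (P.cons (P.lf 0 729621 0) (P.cons (P.lf 0 46550 0) (P.cons (P.lf 5577 0 0) (P.cons (P.lf 0 90 0) P.nil)))))) (P.cons (P.cons (P.lf 0 46171374 0) (P.cons (P.lf 2127284 0 0) (P.cons (P.lf 146911 0 0) (P.cons (P.lf 0 17040 0) (P.cons (P.lf 0 1871 0) P.nil))))) (P.cons (P.cons (P.lf 0 9138268 0) (P.cons (P.lf 0 557374 0) (P.cons (P.lf 0 9222 0) (P.cons (P.lf 3532 0 0) P.nil)))) (P.cons (P.cons (P.lf 0 192160 0) (P.cons (P.lf 0 13598 0) (P.cons (P.lf 0 359 0) P.nil))) (P.cons (P.cons (P.lf 68802 0 0) (P.cons (P.lf 6822 0 0) P.nil)) (P.cons (P.cons (P.lf 1479 0 0) P.nil) P.nil)))))) 3964)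
 (EL.cons 8 (TM.mk (P.cons (P.cons (P.lf 26419850 0 0) (P.cons (P.lf 0 4740489 0) (P.cons (P.lf 288096 0 0) (P.cons (P.lf 18380 0 0) (P.cons (P.lf 0 2202 0) (P.cons (P.lf 35 0 0) P.nil)))))) (P.cons (P.cons (P.lf 15507824 0 0) (P.cons (P.lf 0 351338 0) (P.cons (P.lf 0 87705 0) (P.cons (P.lf 4833 0 0) (P.cons (P.lf 966 0 0) P.nil))))) (P.cons (P.cons (P.lf 1849379 0 0) (P.cons (P.lf 285084 0 0) (P.cons (P.lf 10932 0 0) (P.cons (P.lf 0 2004 0) P.nil)))) (P.cons (P.cons (P.lf 0 219906 0) (P.cons (P.lf 0 19911 0) (P.cons (P.lf 0 571 0) P.nil))) (P.cons (P.cons (P.lf 0 22895 0) (P.cons (P.lf 0 2097 0) P.nil)) (P.cons (P.cons (P.lf 1872 0 0) P.nil) P.nil)))))) 1814)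
 EL.nil))
noncomputable def S372_386_512_586_21 : EL := (EL.cons 4 (TM.mk (P.cons (P.cons (P.lf 0 2498777712 0) (P.cons (P.lf 0 161770764 0) (P.cons (P.lf 2574786 0 0) (P.lf 858255 0 0)))) (P.cons (P.cons (P.lf 171645225 0 0) (P.cons (P.lf 29692362 0 0) (P.cons (P.lf 0 472584 0) (P.lf 0 157527 0)))) (P.cons (P.cons (P.lf 21949563 0 0) (P.cons (P.lf 0 1049121 0) (P.cons (P.lf 16692 0 0) (P.lf 5559 0 0)))) (P.cons (P.cons (P.lf 0 2076795 0) (P.cons (P.lf 0 113853 0) (P.cons (P.lf 1809 0 0) P.nil))) (P.cons (P.cons (P.lf 0 5676 0) (P.cons (P.lf 9747 0 0) P.nil)) (P.cons (P.cons (P.lf 5772 0 0) P.nil) P.nil)))))) 3480)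
 (EL.cons 8 (TM.mk (P.cons (P.cons (P.lf 0 2250064251 0) (P.cons (P.lf 0 145669071 0) (P.cons (P.lf 2318517 0 0) (P.lf 772839 0 0)))) (P.cons (P.cons (P.lf 0 77369256 0) (P.cons (P.lf 11721837 0 0) (P.cons (P.lf 0 186570 0) (P.lf 0 62190 0)))) (P.cons (P.cons (P.lf 22033230 0 0) (P.cons (P.lf 926700 0 0) (P.cons (P.lf 0 14748 0) (P.lf 0 4914 0)))) (P.cons (P.cons (P.lf 170295 0 0) (P.cons (P.lf 0 98097 0) (P.cons (P.lf 1557 0 0) P.nil))) (P.cons (P.cons (P.lf 0 74715 0) (P.cons (P.lf 0 357 0) P.nil)) (P.cons (P.cons (P.lf 1677 0 0) P.nil) P.nil)))))) 2046)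
 (EL.cons 11 (TM.mk (P.cons (P.cons (P.lf 964028115 0 0) (P.cons (P.lf 0 35735205 0) (P.cons (P.lf 0 17706924 0) (P.cons (P.lf 160677 0 0) (P.lf 40167 0 0))))) (P.cons (P.cons (P.lf 0 138156315 0) (P.cons (P.lf 5121264 0 0) (P.cons (P.lf 2537604 0 0) (P.cons (P.lf 0 23025 0) (P.lf 0 5754 0))))) (P.cons (P.cons (P.lf 4540074 0 0) (P.cons (P.lf 0 168294 0) (P.cons (P.lf 0 83388 0) (P.cons (P.lf 756 0 0) P.nil)))) (P.cons (P.cons (P.lf 140010 0 0) (P.cons (P.lf 0 5187 0) (P.cons (P.lf 0 2571 0) P.nil))) (P.cons (P.cons (P.lf 0 10404 0) (P.cons (P.lf 384 0 0) P.nil)) (P.cons (P.cons (P.lf 141 0 0) P.nil) P.nil)))))) 627)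
 EL.nil)))
noncomputable def S372_386_512_586_22 : EL := (EL.cons 4 (TM.mk (P.cons (P.cons (P.lf 0 500175951 0) (P.cons (P.lf 12491691 0 0) (P.cons (P.lf 2706258 0 0) (P.cons (P.lf 0 158748 0) (P.cons (P.lf 0 30087 0) (P.cons (P.lf 489 0 0) P.nil)))))) (P.cons (P.cons (P.lf 0 114641844 0) (P.cons (P.lf 0 16431411 0) (P.cons (P.lf 0 896184 0) (P.cons (P.lf 124026 0 0) (P.cons (P.lf 11988 0 0) P.nil))))) (P.cons (P.cons (P.lf 16306770 0 0) (P.cons (P.lf 2600208 0 0) (P.cons (P.lf 134973 0 0) (P.cons (P.lf 0 19407 0) P.nil)))) (P.cons (P.cons (P.lf 1200528 0 0) (P.cons (P.lf 0 6090 0) (P.cons (P.lf 0 10086 0) P.nil))) (P.cons (P.cons (P.lf 0 183963 0) (P.cons (P.lf 0 24975 0) P.nil)) (P.cons (P.cons (P.lf 0 753 0) P.nil) P.nil)))))) 10485)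
 (EL.cons 8 (TM.mk (P.cons (P.cons (P.lf 0 450391413 0) (P.cons (P.lf 11248341 0 0) (P.cons (P.lf 2436894 0 0) (P.cons (P.lf 0 142947 0) (P.cons (P.lf 0 27093 0) (P.cons (P.lf 441 0 0) P.nil)))))) (P.cons (P.cons (P.lf 0 149656086 0) (P.cons (P.lf 0 13636479 0) (P.cons (P.lf 0 555798 0) (P.cons (P.lf 96948 0 0) (P.cons (P.lf 8004 0 0) P.nil))))) (P.cons (P.cons (P.lf 1307988 0 0) (P.cons (P.lf 884583 0 0) (P.cons (P.lf 53157 0 0) (P.cons (P.lf 0 6831 0) P.nil)))) (P.cons (P.cons (P.lf 1780473 0 0) (P.cons (P.lf 150687 0 0) (P.cons (P.lf 0 441 0) P.nil))) (P.cons (P.cons (P.lf 0 20211 0) (P.cons (P.lf 0 14679 0) P.nil)) (P.cons (P.cons (P.lf 0 8700 0) P.nil) P.nil)))))) 6204)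
 (EL.cons 11 (TM.mk (P.cons (P.cons (P.lf 192967815 0 0) (P.cons (P.lf 0 24465072 0) (P.cons (P.lf 0 2627085 0) (P.cons (P.lf 431775 0 0) (P.cons (P.lf 0 3309 0) (P.cons (P.lf 0 2361 0) P.nil)))))) (P.cons (P.cons (P.lf 29829582 0 0) (P.cons (P.lf 5096784 0 0) (P.cons (P.lf 0 876537 0) (P.cons (P.lf 0 138198 0) (P.cons (P.lf 5310 0 0) P.nil))))) (P.cons (P.cons (P.lf 0 7976772 0) (P.cons (P.lf 0 574806 0) (P.cons (P.lf 192636 0 0) (P.cons (P.lf 18762 0 0) P.nil)))) (P.cons (P.cons (P.lf 228459 0 0) (P.cons (P.lf 44985 0 0) (P.cons (P.lf 0 7026 0) P.nil))) (P.cons (P.cons (P.lf 32457 0 0) (P.cons (P.lf 0 1389 0) P.nil)) (P.cons (P.cons (P.lf 0 2178 0) P.nil) P.nil)))))) 5349)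
 EL.nil)))
noncomputable def S372_386_512_586_23 : EL := (EL.cons 4 (TM.mk (P.cons (P.cons (P.lf 0 1863447597 0) (P.cons (P.lf 0 120639519 0) (P.cons (P.lf 1920129 0 0) (P.lf 640038 0 0)))) (P.cons (P.cons (P.lf 69451416 0 0) (P.cons (P.lf 18352239 0 0) (P.cons (P.lf 0 292092 0) (P.lf 0 97362 0)))) (P.cons (P.cons (P.lf 23234787 0 0) (P.cons (P.lf 97503 0 0) (P.cons (P.lf 0 1554 0) (P.lf 0 522 0)))) (P.cons (P.cons (P.lf 0 1259811 0) (P.cons (P.lf 0 145224 0) (P.cons (P.lf 2307 0 0) P.nil))) (P.cons (P.cons (P.lf 0 77112 0) (P.cons (P.lf 6066 0 0) P.nil)) (P.cons (P.cons (P.lf 6939 0 0) P.nil) P.nil)))))) 3771)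
 (EL.cons 8 (TM.mk (P.cons (P.cons (P.lf 0 1677971112 0) (P.cons (P.lf 0 108631782 0) (P.cons (P.lf 1729017 0 0) (P.lf 576339 0 0)))) (P.cons (P.cons (P.lf 0 110421636 0) (P.cons (P.lf 5328135 0 0) (P.cons (P.lf 0 84804 0) (P.lf 0 28266 0)))) (P.cons (P.cons (P.lf 17179143 0 0) (P.cons (P.lf 1131543 0 0) (P.cons (P.lf 0 18006 0) (P.lf 0 6000 0)))) (P.cons (P.cons (P.lf 704307 0 0) (P.cons (P.lf 0 66531 0) (P.cons (P.lf 1053 0 0) P.nil))) (P.cons (P.cons (P.lf 0 78900 0) (P.cons (P.lf 0 3552 0) P.nil)) (P.cons (P.cons (P.lf 0 420 0) P.nil) P.nil)))))) 2217)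
 (EL.cons 11 (TM.mk (P.cons (P.cons (P.lf 718917837 0 0) (P.cons (P.lf 0 26649300 0) (P.cons (P.lf 0 13204824 0) (P.cons (P.lf 119823 0 0) (P.lf 29952 0 0))))) (P.cons (P.cons (P.lf 0 80439870 0) (P.cons (P.lf 2981793 0 0) (P.cons (P.lf 1477488 0 0) (P.cons (P.lf 0 13404 0) (P.lf 0 3348 0))))) (P.cons (P.cons (P.lf 0 948798 0) (P.cons (P.lf 35169 0 0) (P.cons (P.lf 17427 0 0) (P.cons (P.lf 0 156 0) P.nil)))) (P.cons (P.cons (P.lf 379620 0 0) (P.cons (P.lf 0 14067 0) (P.cons (P.lf 0 6972 0) P.nil))) (P.cons (P.cons (P.lf 0 10803 0) (P.cons (P.lf 399 0 0) P.nil)) (P.cons (P.cons (P.lf 0 333 0) P.nil) P.nil)))))) 1041)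
 EL.nil)))
noncomputable def S372_386_512_586_24 : EL := (EL.cons 4 (TM.mk (P.cons (P.cons (P.lf 0 373003035 0) (P.cons (P.lf 9315600 0 0) (P.cons (P.lf 2018175 0 0) (P.cons (P.lf 0 118386 0) (P.cons (P.lf 0 22437 0) (P.cons (P.lf 363 0 0) P.nil)))))) (P.cons (P.cons (P.lf 0 97213662 0) (P.cons (P.lf 0 11960913 0) (P.cons (P.lf 0 604911 0) (P.cons (P.lf 88773 0 0) (P.cons (P.lf 8235 0 0) P.nil))))) (P.cons (P.cons (P.lf 10043637 0 0) (P.cons (P.lf 1539846 0 0) (P.cons (P.lf 76575 0 0) (P.cons (P.lf 0 11385 0) P.nil)))) (P.cons (P.cons (P.lf 1401861 0 0) (P.cons (P.lf 75234 0 0) (P.cons (P.lf 0 3306 0) P.nil))) (P.cons (P.cons (P.lf 0 129255 0) (P.cons (P.lf 0 21918 0) P.nil)) (P.cons (P.cons (P.lf 0 6090 0) P.nil) P.nil)))))) 8241)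
 (EL.cons 8 (TM.mk (P.cons (P.cons (P.lf 0 335876535 0) (P.cons (P.lf 8388378 0 0) (P.cons (P.lf 1817298 0 0) (P.cons (P.lf 0 106599 0) (P.cons (P.lf 0 20205 0) (P.cons (P.lf 327 0 0) P.nil)))))) (P.cons (P.cons (P.lf 0 122158746 0) (P.cons (P.lf 0 9905745 0) (P.cons (P.lf 0 357381 0) (P.cons (P.lf 68946 0 0) (P.cons (P.lf 5334 0 0) P.nil))))) (P.cons (P.cons (P.lf 0 2018730 0) (P.cons (P.lf 327336 0 0) (P.cons (P.lf 23844 0 0) (P.cons (P.lf 0 2658 0) P.nil)))) (P.cons (P.cons (P.lf 1523346 0 0) (P.cons (P.lf 148758 0 0) (P.cons (P.lf 1578 0 0) P.nil))) (P.cons (P.cons (P.lf 23124 0 0) (P.cons (P.lf 0 8580 0) P.nil)) (P.cons (P.cons (P.lf 0 9039 0) P.nil) P.nil)))))) 4965)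
 (EL.cons 11 (TM.mk (P.cons (P.cons (P.lf 143904522 0 0) (P.cons (P.lf 0 18244674 0) (P.cons (P.lf 0 1959132 0) (P.cons (P.lf 321993 0 0) (P.cons (P.lf 0 2469 0) (P.cons (P.lf 0 1761 0) P.nil)))))) (P.cons (P.cons (P.lf 26766885 0 0) (P.cons (P.lf 3227622 0 0) (P.cons (P.lf 0 715230 0) (P.cons (P.lf 0 92943 0) (P.cons (P.lf 3882 0 0) P.nil))))) (P.cons (P.cons (P.lf 0 5469282 0) (P.cons (P.lf 0 281385 0) (P.cons (P.lf 126108 0 0) (P.cons (P.lf 10260 0 0) P.nil)))) (P.cons (P.cons (P.lf 0 48171 0) (P.cons (P.lf 13983 0 0) (P.cons (P.lf 237 0 0) P.nil))) (P.cons (P.cons (P.lf 39093 0 0) (P.cons (P.lf 720 0 0) P.nil)) (P.cons (P.cons (P.lf 0 1209 0) P.nil) P.nil)))))) 4134)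
 EL.nil)))
noncomputable def S372_386_512_586_25 : EL := (EL.cons 4 (TM.mk (P.cons (P.cons (P.lf 0 1389654201 0) (P.cons (P.lf 0 89966154 0) (P.cons (P.lf 1431924 0 0) (P.lf 477303 0 0)))) (P.cons (P.cons (P.lf 8128233 0 0) (P.cons (P.lf 10859214 0 0) (P.cons (P.lf 0 172833 0) (P.lf 0 57609 0)))) (P.cons (P.cons (P.lf 21075501 0 0) (P.cons (P.lf 640053 0 0) (P.cons (P.lf 0 10188 0) (P.lf 0 3399 0)))) (P.cons (P.cons (P.lf 0 496491 0) (P.cons (P.lf 0 128352 0) (P.cons (P.lf 2040 0 0) P.nil))) (P.cons (P.cons (P.lf 0 113601 0) (P.cons (P.lf 1167 0 0) P.nil)) (P.cons (P.cons (P.lf 5157 0 0) P.nil) P.nil)))))) 3696)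
 (EL.cons 8 (TM.mk (P.cons (P.cons (P.lf 0 1251336294 0) (P.cons (P.lf 0 81011460 0) (P.cons (P.lf 1289403 0 0) (P.lf 429801 0 0)))) (P.cons (P.cons (P.lf 0 121664826 0) (P.cons (P.lf 1427937 0 0) (P.cons (P.lf 0 22728 0) (P.lf 0 7575 0)))) (P.cons (P.cons (P.lf 12133614 0 0) (P.cons (P.lf 1092330 0 0) (P.cons (P.lf 0 17385 0) (P.lf 0 5793 0)))) (P.cons (P.cons (P.lf 1033293 0 0) (P.cons (P.lf 0 30468 0) (P.cons (P.lf 480 0 0) P.nil))) (P.cons (P.cons (P.lf 0 64086 0) (P.cons (P.lf 0 5487 0) P.nil)) (P.cons (P.cons (P.lf 0 2778 0) P.nil) P.nil)))))) 2121)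
 (EL.cons 11 (TM.mk (P.cons (P.cons (P.lf 536128407 0 0) (P.cons (P.lf 0 19873545 0) (P.cons (P.lf 0 9847413 0) (P.cons (P.lf 89355 0 0) (P.lf 22338 0 0))))) (P.cons (P.cons (P.lf 0 43141680 0) (P.cons (P.lf 1599201 0 0) (P.cons (P.lf 792408 0 0) (P.cons (P.lf 0 7188 0) (P.lf 0 1794 0))))) (P.cons (P.cons (P.lf 0 3410688 0) (P.cons (P.lf 126429 0 0) (P.cons (P.lf 62646 0 0) (P.cons (P.lf 0 567 0) P.nil)))) (P.cons (P.cons (P.lf 361059 0 0) (P.cons (P.lf 0 13380 0) (P.cons (P.lf 0 6630 0) P.nil))) (P.cons (P.cons (P.lf 1323 0 0) (P.cons (P.lf 0 48 0) P.nil)) (P.cons (P.cons (P.lf 0 1002 0) P.nil) P.nil)))))) 1197)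
 EL.nil)))
noncomputable def S372_386_512_586_26 : EL := (EL.cons 4 (TM.mk (P.cons (P.cons (P.lf 0 278164644 0) (P.cons (P.lf 6947049 0 0) (P.cons (P.lf 1505040 0 0) (P.cons (P.lf 0 88284 0) (P.cons (P.lf 0 16731 0) (P.cons (P.lf 270 0 0) P.nil)))))) (P.cons (P.cons (P.lf 0 81236760 0) (P.cons (P.lf 0 8701488 0) (P.cons (P.lf 0 403818 0) (P.cons (P.lf 63426 0 0) (P.cons (P.lf 5616 0 0) P.nil))))) (P.cons (P.cons (P.lf 5636586 0 0) (P.cons (P.lf 857457 0 0) (P.cons (P.lf 40635 0 0) (P.cons (P.lf 0 6276 0) P.nil)))) (P.cons (P.cons (P.lf 1386936 0 0) (P.cons (P.lf 105912 0 0) (P.cons (P.lf 39 0 0) P.nil))) (P.cons (P.cons (P.lf 0 76335 0) (P.cons (P.lf 0 16473 0) P.nil)) (P.cons (P.cons (P.lf 0 9087 0) P.nil) P.nil)))))) 6852)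
 (EL.cons 8 (TM.mk (P.cons (P.cons (P.lf 0 250477791 0) (P.cons (P.lf 6255579 0 0) (P.cons (P.lf 1355238 0 0) (P.cons (P.lf 0 79497 0) (P.cons (P.lf 0 15066 0) (P.cons (P.lf 243 0 0) P.nil)))))) (P.cons (P.cons (P.lf 0 98969442 0) (P.cons (P.lf 0 7190586 0) (P.cons (P.lf 0 223932 0) (P.cons (P.lf 48918 0 0) (P.cons (P.lf 3504 0 0) P.nil))))) (P.cons (P.cons (P.lf 0 3985623 0) (P.cons (P.lf 2448 0 0) (P.cons (P.lf 7338 0 0) (P.cons (P.lf 0 246 0) P.nil)))) (P.cons (P.cons (P.lf 1223724 0 0) (P.cons (P.lf 129981 0 0) (P.cons (P.lf 2163 0 0) P.nil))) (P.cons (P.cons (P.lf 53595 0 0) (P.cons (P.lf 0 3399 0) P.nil)) (P.cons (P.cons (P.lf 0 8013 0) P.nil) P.nil)))))) 4254)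
 (EL.cons 11 (TM.mk (P.cons (P.cons (P.lf 107315883 0 0) (P.cons (P.lf 0 13605849 0) (P.cons (P.lf 0 1461009 0) (P.cons (P.lf 240123 0 0) (P.cons (P.lf 0 1839 0) (P.cons (P.lf 0 1311 0) P.nil)))))) (P.cons (P.cons (P.lf 23333238 0 0) (P.cons (P.lf 1979466 0 0) (P.cons (P.lf 0 579285 0) (P.cons (P.lf 0 61767 0) (P.cons (P.lf 2835 0 0) P.nil))))) (P.cons (P.cons (P.lf 0 3615261 0) (P.cons (P.lf 0 113445 0) (P.cons (P.lf 79515 0 0) (P.cons (P.lf 5109 0 0) P.nil)))) (P.cons (P.cons (P.lf 0 192816 0) (P.cons (P.lf 0 57 0) (P.cons (P.lf 3921 0 0) P.nil))) (P.cons (P.cons (P.lf 34647 0 0) (P.cons (P.lf 1212 0 0) P.nil)) (P.cons (P.cons (P.lf 12 0 0) P.nil) P.nil)))))) 3405)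
 EL.nil)))
noncomputable def S372_386_512_586_27 : EL := (EL.cons 13 (TM.mk (P.lf 0 4294967296 0) 0)
 EL.nil)
noncomputable def S372_386_512_586_28 : EL := (EL.cons 13 (TM.mk (P.cons (P.cons (P.lf 0 859716072 0) (P.cons (P.lf 77129044 0 0) (P.cons (P.lf 0 1227608 0) (P.lf 0 409200 0)))) (P.cons (P.cons (P.lf 0 256104868 0) (P.cons (P.lf 0 16580216 0) (P.cons (P.lf 263892 0 0) (P.lf 87964 0 0)))) (P.cons (P.cons (P.lf 2884403 0 0) (P.cons (P.lf 1138888 0 0) (P.cons (P.lf 0 18124 0) (P.lf 0 6040 0)))) (P.cons (P.cons (P.lf 726511 0 0) (P.cons (P.lf 0 8048 0) (P.cons (P.lf 128 0 0) P.nil))) (P.cons (P.cons (P.lf 0 26155 0) (P.cons (P.lf 0 2444 0) P.nil)) (P.cons (P.cons (P.lf 0 513 0) P.nil) P.nil)))))) 819)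
 EL.nil)
noncomputable def S372_386_512_586_29 : EL := (EL.cons 13 (TM.mk (P.cons (P.cons (P.lf 0 172087858 0) (P.cons (P.lf 30877570 0 0) (P.cons (P.lf 0 1876540 0) (P.cons (P.lf 0 119726 0) (P.cons (P.lf 14345 0 0) (P.cons (P.lf 0 233 0) P.nil)))))) (P.cons (P.cons (P.lf 0 102528124 0) (P.cons (P.lf 2560599 0 0) (P.cons (P.lf 554738 0 0) (P.cons (P.lf 0 32541 0) (P.cons (P.lf 0 6167 0) P.nil))))) (P.cons (P.cons (P.lf 0 14116561 0) (P.cons (P.lf 0 1624983 0) (P.cons (P.lf 0 79045 0) (P.cons (P.lf 11961 0 0) P.nil)))) (P.cons (P.cons (P.lf 634837 0 0) (P.cons (P.lf 128776 0 0) (P.cons (P.lf 7032 0 0) P.nil))) (P.cons (P.cons (P.lf 74234 0 0) (P.cons (P.lf 3080 0 0) P.nil)) (P.cons (P.cons (P.lf 0 4300 0) P.nil) P.nil)))))) 5023)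
 EL.nil)
noncomputable def S372_386_512_586_30 : EL := (EL.cons 13 (TM.mk (P.cons (P.lf 0 3202944564 0) (P.cons (P.lf 0 100640632 0) (P.cons (P.lf 4888368 0 0) (P.cons (P.lf 0 51604 0) (P.cons (P.lf 0 2228 0) (P.cons (P.lf 92 0 0) P.nil)))))) 64)
 EL.nil)
noncomputable def S372_386_512_586_31 : EL := (EL.cons 13 (TM.mk (P.cons (P.cons (P.lf 0 641127796 0) (P.cons (P.lf 57518494 0 0) (P.cons (P.lf 0 915480 0) (P.lf 0 305158 0)))) (P.cons (P.cons (P.lf 0 211133636 0) (P.cons (P.lf 0 10557285 0) (P.cons (P.lf 168030 0 0) (P.lf 56010 0 0)))) (P.cons (P.cons (P.lf 0 2871585 0) (P.cons (P.lf 373021 0 0) (P.cons (P.lf 0 5935 0) (P.lf 0 1977 0)))) (P.cons (P.cons (P.lf 890538 0 0) (P.cons (P.lf 40482 0 0) (P.cons (P.lf 0 644 0) P.nil))) (P.cons (P.cons (P.lf 0 9287 0) (P.cons (P.lf 0 3466 0) P.nil)) (P.cons (P.cons (P.lf 0 1902 0) P.nil) P.nil)))))) 1103)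
 EL.nil)
noncomputable def S372_386_512_586_32 : EL := (EL.cons 13 (TM.mk (P.cons (P.cons (P.lf 0 128333426 0) (P.cons (P.lf 23026751 0 0) (P.cons (P.lf 0 1399417 0) (P.cons (P.lf 0 89284 0) (P.cons (P.lf 10697 0 0) (P.cons (P.lf 0 173 0) P.nil)))))) (P.cons (P.cons (P.lf 0 80492097 0) (P.cons (P.lf 2633080 0 0) (P.cons (P.lf 369720 0 0) (P.cons (P.lf 0 27072 0) (P.cons (P.lf 0 4262 0) P.nil))))) (P.cons (P.cons (P.lf 0 12733933 0) (P.cons (P.lf 0 1186963 0) (P.cons (P.lf 0 43812 0) (P.cons (P.lf 8293 0 0) P.nil)))) (P.cons (P.cons (P.lf 257269 0 0) (P.cons (P.lf 55413 0 0) (P.cons (P.lf 2737 0 0) P.nil))) (P.cons (P.cons (P.lf 84980 0 0) (P.cons (P.lf 7210 0 0) P.nil)) (P.cons (P.cons (P.lf 0 2408 0) P.nil) P.nil)))))) 5130)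
 EL.nil)
noncomputable def S372_386_512_586_33 : EL := (EL.cons 14 (TM.mk (P.lf 8589934592 0 0) 0)
 EL.nil)
noncomputable def S372_386_512_586_34 : EL := (EL.cons 14 (TM.mk (P.cons (P.cons (P.lf 1719432144 0 0) (P.cons (P.lf 0 154258088 0) (P.cons (P.lf 2455216 0 0) (P.lf 818400 0 0)))) (P.cons (P.cons (P.lf 512209736 0 0) (P.cons (P.lf 33160432 0 0) (P.cons (P.lf 0 527784 0) (P.lf 0 175928 0)))) (P.cons (P.cons (P.lf 0 5768806 0) (P.cons (P.lf 0 2277776 0) (P.cons (P.lf 36248 0 0) (P.lf 12080 0 0)))) (P.cons (P.cons (P.lf 0 1453022 0) (P.cons (P.lf 16096 0 0) (P.cons (P.lf 0 256 0) P.nil))) (P.cons (P.cons (P.lf 52310 0 0) (P.cons (P.lf 4888 0 0) P.nil)) (P.cons (P.cons (P.lf 1026 0 0) P.nil) P.nil)))))) 1638)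
 EL.nil)
noncomputable def S372_386_512_586_35 : EL := (EL.cons 14 (TM.mk (P.cons (P.cons (P.lf 344175716 0 0) (P.cons (P.lf 0 61755140 0) (P.cons (P.lf 3753080 0 0) (P.cons (P.lf 239452 0 0) (P.cons (P.lf 0 28690 0) (P.cons (P.lf 466 0 0) P.nil)))))) (P.cons (P.cons (P.lf 205056248 0 0) (P.cons (P.lf 0 5121198 0) (P.cons (P.lf 0 1109476 0) (P.cons (P.lf 65082 0 0) (P.cons (P.lf 12334 0 0) P.nil))))) (P.cons (P.cons (P.lf 28233122 0 0) (P.cons (P.lf 3249966 0 0) (P.cons (P.lf 158090 0 0) (P.cons (P.lf 0 23922 0) P.nil)))) (P.cons (P.cons (P.lf 0 1269674 0) (P.cons (P.lf 0 257552 0) (P.cons (P.lf 0 14064 0) P.nil))) (P.cons (P.cons (P.lf 0 148468 0) (P.cons (P.lf 0 6160 0) P.nil)) (P.cons (P.cons (P.lf 8600 0 0) P.nil) P.nil)))))) 10046)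
 EL.nil)
noncomputable def S372_386_512_586_36 : EL := (EL.cons 14 (TM.mk (P.cons (P.lf 6405889128 0 0) (P.cons (P.lf 201281264 0 0) (P.cons (P.lf 0 9776736 0) (P.cons (P.lf 103208 0 0) (P.cons (P.lf 4456 0 0) (P.cons (P.lf 0 184 0) P.nil)))))) 128)
 EL.nil)
noncomputable def S372_386_512_586_37 : EL := (EL.cons 14 (TM.mk (P.cons (P.cons (P.lf 1282255592 0 0) (P.cons (P.lf 0 115036988 0) (P.cons (P.lf 1830960 0 0) (P.lf 610316 0 0)))) (P.cons (P.cons (P.lf 422267272 0 0) (P.cons (P.lf 21114570 0 0) (P.cons (P.lf 0 336060 0) (P.lf 0 112020 0)))) (P.cons (P.cons (P.lf 5743170 0 0) (P.cons (P.lf 0 746042 0) (P.cons (P.lf 11870 0 0) (P.lf 3954 0 0)))) (P.cons (P.cons (P.lf 0 1781076 0) (P.cons (P.lf 0 80964 0) (P.cons (P.lf 1288 0 0) P.nil))) (P.cons (P.cons (P.lf 18574 0 0) (P.cons (P.lf 6932 0 0) P.nil)) (P.cons (P.cons (P.lf 3804 0 0) P.nil) P.nil)))))) 2206)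
 EL.nil)
noncomputable def S372_386_512_586_38 : EL := (EL.cons 14 (TM.mk (P.cons (P.cons (P.lf 256666852 0 0) (P.cons (P.lf 0 46053502 0) (P.cons (P.lf 2798834 0 0) (P.cons (P.lf 178568 0 0) (P.cons (P.lf 0 21394 0) (P.cons (P.lf 346 0 0) P.nil)))))) (P.cons (P.cons (P.lf 160984194 0 0) (P.cons (P.lf 0 5266160 0) (P.cons (P.lf 0 739440 0) (P.cons (P.lf 54144 0 0) (P.cons (P.lf 8524 0 0) P.nil))))) (P.cons (P.cons (P.lf 25467866 0 0) (P.cons (P.lf 2373926 0 0) (P.cons (P.lf 87624 0 0) (P.cons (P.lf 0 16586 0) P.nil)))) (P.cons (P.cons (P.lf 0 514538 0) (P.cons (P.lf 0 110826 0) (P.cons (P.lf 0 5474 0) P.nil))) (P.cons (P.cons (P.lf 0 169960 0) (P.cons (P.lf 0 14420 0) P.nil)) (P.cons (P.cons (P.lf 4816 0 0) P.nil) P.nil)))))) 10260)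
 EL.nil)
noncomputable def S372_386_512_586_39 : EL := (EL.cons 14 (TM.mk (P.cons (P.lf 4777151104 0 0) (P.cons (P.lf 300208446 0 0) (P.cons (P.lf 0 9865408 0) (P.cons (P.lf 0 304246 0) (P.cons (P.lf 22610 0 0) (P.cons (P.lf 0 300 0) P.nil)))))) 230)
 EL.nil)
noncomputable def S372_386_512_586_40 : EL := (EL.cons 14 (TM.mk (P.cons (P.cons (P.lf 956233958 0 0) (P.cons (P.lf 0 85788102 0) (P.cons (P.lf 1365428 0 0) (P.lf 455138 0 0)))) (P.cons (P.cons (P.lf 344949234 0 0) (P.cons (P.lf 13050484 0 0) (P.cons (P.lf 0 207710 0) (P.lf 0 69236 0)))) (P.cons (P.cons (P.lf 12718178 0 0) (P.cons (P.lf 69334 0 0) (P.cons (P.lf 0 1106 0) (P.lf 0 370 0)))) (P.cons (P.cons (P.lf 0 1658852 0) (P.cons (P.lf 0 103274 0) (P.cons (P.lf 1642 0 0) P.nil))) (P.cons (P.cons (P.lf 0 28680 0) (P.cons (P.lf 4316 0 0) P.nil)) (P.cons (P.cons (P.lf 5560 0 0) P.nil) P.nil)))))) 2392)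
 EL.nil)
noncomputable def S372_386_512_586_41 : EL := (EL.cons 14 (TM.mk (P.cons (P.cons (P.lf 191407674 0 0) (P.cons (P.lf 0 34344106 0) (P.cons (P.lf 2087212 0 0) (P.cons (P.lf 133166 0 0) (P.cons (P.lf 0 15954 0) (P.cons (P.lf 258 0 0) P.nil)))))) (P.cons (P.cons (P.lf 126067214 0 0) (P.cons (P.lf 0 5006342 0) (P.cons (P.lf 0 485850 0) (P.cons (P.lf 44562 0 0) (P.cons (P.lf 5856 0 0) P.nil))))) (P.cons (P.cons (P.lf 22472588 0 0) (P.cons (P.lf 1699360 0 0) (P.cons (P.lf 44832 0 0) (P.cons (P.lf 0 11304 0) P.nil)))) (P.cons (P.cons (P.lf 32912 0 0) (P.cons (P.lf 0 21580 0) (P.cons (P.lf 0 1154 0) P.nil))) (P.cons (P.cons (P.lf 0 165722 0) (P.cons (P.lf 0 16140 0) P.nil)) (P.cons (P.cons (P.lf 578 0 0) P.nil) P.nil)))))) 9492)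
 EL.nil)
noncomputable def S372_386_512_586_42 : EL := (EL.cons 14 (TM.mk (P.cons (P.lf 3562530074 0 0) (P.cons (P.lf 335817810 0 0) (P.cons (P.lf 0 5759684 0) (P.cons (P.lf 0 742346 0) (P.cons (P.lf 27044 0 0) (P.cons (P.lf 586 0 0) P.nil)))))) 314)
 EL.nil)
noncomputable def S372_386_512_586_43 : EL := (EL.cons 14 (TM.mk (P.cons (P.cons (P.lf 713105396 0 0) (P.cons (P.lf 0 63975932 0) (P.cons (P.lf 1018258 0 0) (P.lf 339416 0 0)))) (P.cons (P.cons (P.lf 279650386 0 0) (P.cons (P.lf 7722110 0 0) (P.cons (P.lf 0 122904 0) (P.lf 0 40968 0)))) (P.cons (P.cons (P.lf 16479080 0 0) (P.cons (P.lf 455148 0 0) (P.cons (P.lf 0 7246 0) (P.lf 0 2416 0)))) (P.cons (P.cons (P.lf 0 1320182 0) (P.cons (P.lf 0 91276 0) (P.cons (P.lf 1452 0 0) P.nil))) (P.cons (P.cons (P.lf 0 70094 0) (P.cons (P.lf 832 0 0) P.nil)) (P.cons (P.cons (P.lf 5672 0 0) P.nil) P.nil)))))) 2444)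
 EL.nil)
noncomputable def S372_386_512_586_44 : EL := (EL.cons 14 (TM.mk (P.cons (P.cons (P.lf 142741056 0 0) (P.cons (P.lf 0 25611898 0) (P.cons (P.lf 1556526 0 0) (P.cons (P.lf 99308 0 0) (P.cons (P.lf 0 11898 0) (P.cons (P.lf 192 0 0) P.nil)))))) (P.cons (P.cons (P.lf 98498932 0 0) (P.cons (P.lf 0 4538206 0) (P.cons (P.lf 0 313412 0) (P.cons (P.lf 36352 0 0) (P.cons (P.lf 3992 0 0) P.nil))))) (P.cons (P.cons (P.lf 19494972 0 0) (P.cons (P.lf 1189066 0 0) (P.cons (P.lf 19674 0 0) (P.cons (P.lf 0 7536 0) P.nil)))) (P.cons (P.cons (P.lf 409942 0 0) (P.cons (P.lf 29010 0 0) (P.cons (P.lf 766 0 0) P.nil))) (P.cons (P.cons (P.lf 0 146778 0) (P.cons (P.lf 0 14554 0) P.nil)) (P.cons (P.cons (P.lf 0 3156 0) P.nil) P.nil)))))) 8410)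
 EL.nil)
noncomputable def S372_386_512_586_45 : EL := (EL.cons 14 (TM.mk (P.cons (P.cons (P.lf 68893048 0 0) (P.cons (P.lf 0 18542126 0) (P.cons (P.lf 1958620 0 0) (P.cons (P.lf 0 4326 0) (P.cons (P.lf 0 14852 0) (P.cons (P.lf 1034 0 0) P.nil)))))) (P.cons (P.cons (P.lf 61568624 0 0) (P.cons (P.lf 0 7061252 0) (P.cons (P.lf 0 107256 0) (P.cons (P.lf 76536 0 0) (P.cons (P.lf 742 0 0) P.nil))))) (P.cons (P.cons (P.lf 17647544 0 0) (P.cons (P.lf 579960 0 0) (P.cons (P.lf 0 101866 0) (P.cons (P.lf 0 9228 0) P.nil)))) (P.cons (P.cons (P.lf 1233436 0 0) (P.cons (P.lf 234186 0 0) (P.cons (P.lf 23892 0 0) P.nil))) (P.cons (P.cons (P.lf 0 156978 0) (P.cons (P.lf 0 27424 0) P.nil)) (P.cons (P.cons (P.lf 0 9764 0) P.nil) P.nil)))))) 17566)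
 EL.nil)
noncomputable def S372_386_512_586_46 : EL := (EL.cons 15 (TM.mk (P.lf 4294967296 0 0) 0)
 EL.nil)
noncomputable def S372_386_512_586_47 : EL := (EL.cons 15 (TM.mk (P.cons (P.cons (P.lf 859716072 0 0) (P.cons (P.lf 0 77129044 0) (P.cons (P.lf 1227608 0 0) (P.lf 409200 0 0)))) (P.cons (P.cons (P.lf 256104868 0 0) (P.cons (P.lf 16580216 0 0) (P.cons (P.lf 0 263892 0) (P.lf 0 87964 0)))) (P.cons (P.cons (P.lf 0 2884403 0) (P.cons (P.lf 0 1138888 0) (P.cons (P.lf 18124 0 0) (P.lf 6040 0 0)))) (P.cons (P.cons (P.lf 0 726511 0) (P.cons (P.lf 8048 0 0) (P.cons (P.lf 0 128 0) P.nil))) (P.cons (P.cons (P.lf 26155 0 0) (P.cons (P.lf 2444 0 0) P.nil)) (P.cons (P.cons (P.lf 513 0 0) P.nil) P.nil)))))) 819)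
 EL.nil)
noncomputable def S372_386_512_586_48 : EL := (EL.cons 15 (TM.mk (P.cons (P.cons (P.lf 172087858 0 0) (P.cons (P.lf 0 30877570 0) (P.cons (P.lf 1876540 0 0) (P.cons (P.lf 119726 0 0) (P.cons (P.lf 0 14345 0) (P.cons (P.lf 233 0 0) P.nil)))))) (P.cons (P.cons (P.lf 102528124 0 0) (P.cons (P.lf 0 2560599 0) (P.cons (P.lf 0 554738 0) (P.cons (P.lf 32541 0 0) (P.cons (P.lf 6167 0 0) P.nil))))) (P.cons (P.cons (P.lf 14116561 0 0) (P.cons (P.lf 1624983 0 0) (P.cons (P.lf 79045 0 0) (P.cons (P.lf 0 11961 0) P.nil)))) (P.cons (P.cons (P.lf 0 634837 0) (P.cons (P.lf 0 128776 0) (P.cons (P.lf 0 7032 0) P.nil))) (P.cons (P.cons (P.lf 0 74234 0) (P.cons (P.lf 0 3080 0) P.nil)) (P.cons (P.cons (P.lf 4300 0 0) P.nil) P.nil)))))) 5023)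
 EL.nil)
noncomputable def S372_386_512_586 : SL := (SL.cons S372_386_512_586_0 (SL.cons S372_386_512_586_1 (SL.cons S372_386_512_586_2 (SL.cons S372_386_512_586_3 (SL.cons S372_386_512_586_4 (SL.cons S372_386_512_586_5 (SL.cons S372_386_512_586_6 (SL.cons S372_386_512_586_7 (SL.cons S372_386_512_586_8 (SL.cons S372_386_512_586_9 (SL.cons S372_386_512_586_10 (SL.cons S372_386_512_586_11 (SL.cons S372_386_512_586_12 (SL.cons S372_386_512_586_13 (SL.cons S372_386_512_586_14 (SL.cons S372_386_512_586_15 (SL.cons S372_386_512_586_16 (SL.cons S372_386_512_586_17 (SL.cons S372_386_512_586_18 (SL.cons S372_386_512_586_19 (SL.cons S372_386_512_586_20 (SL.cons S372_386_512_586_21 (SL.cons S372_386_512_586_22 (SL.cons S372_386_512_586_23 (SL.cons S372_386_512_586_24 (SL.cons S372_386_512_586_25 (SL.cons S372_386_512_586_26 (SL.cons S372_386_512_586_27 (SL.cons S372_386_512_586_28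 (SL.cons S372_386_512_586_29 (SL.cons S372_386_512_586_30 (SL.cons S372_386_512_586_31 (SL.cons S372_386_512_586_32 (SL.cons S372_386_512_586_33 (SL.cons S372_386_512_586_34 (SL.cons S372_386_512_586_35 (SL.cons S372_386_512_586_36 (SL.cons S372_386_512_586_37 (SL.cons S372_386_512_586_38 (SL.cons S372_386_512_586_39 (SL.cons S372_386_512_586_40 (SL.cons S372_386_512_586_41 (SL.cons S372_386_512_586_42 (SL.cons S372_386_512_586_43 (SL.cons S372_386_512_586_44 (SL.cons S372_386_512_586_45 (SL.cons S372_386_512_586_46 (SL.cons S372_386_512_586_47 (SL.cons S372_386_512_586_48 SL.nil)))))))))))))))))))))))))))))))))))))))))))))))))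
noncomputable def S372_386_512_660_0 : EL := (EL.cons 0 (TM.mk (P.cons (P.lf 4257048901 0 0) (P.cons (P.lf 0 263855079 0) (P.cons (P.lf 8670768 0 0) (P.cons (P.lf 267403 0 0) (P.cons (P.lf 0 19872 0) (P.cons (P.lf 263 0 0) P.nil)))))) 209)
 (EL.cons 1 (TM.mk (P.cons (P.lf 1657874694 0 0) (P.cons (P.lf 0 66703704 0) (P.cons (P.lf 0 6615345 0) (P.cons (P.lf 292091 0 0) (P.cons (P.lf 596 0 0) (P.cons (P.lf 0 360 0) P.nil)))))) 128)
 (EL.cons 5 (TM.mk (P.cons (P.lf 5787827018 0 0) (P.cons (P.lf 93815138 0 0) (P.cons (P.lf 0 3082942 0) (P.cons (P.lf 0 95074 0) (P.cons (P.lf 7066 0 0) (P.cons (P.lf 0 96 0) P.nil)))))) 77)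
 (EL.cons 9 (TM.mk (P.lf 6442450944 0 0) 2)
 EL.nil))))
noncomputable def S372_386_512_660_1 : EL := (EL.cons 0 (TM.mk (P.cons (P.cons (P.lf 4492663264 0 0) (P.cons (P.lf 285201074 0 0) (P.cons (P.lf 0 19067867 0) (P.lf 0 6355942 0)))) (P.cons (P.cons (P.lf 57849638 0 0) (P.cons (P.lf 0 25212390 0) (P.cons (P.lf 1685630 0 0) (P.lf 561867 0 0)))) (P.cons (P.cons (P.lf 0 62855159 0) (P.cons (P.lf 0 4734482 0) (P.cons (P.lf 316542 0 0) (P.lf 105517 0 0)))) (P.cons (P.cons (P.lf 2760668 0 0) (P.cons (P.lf 721635 0 0) (P.cons (P.lf 0 48240 0) P.nil))) (P.cons (P.cons (P.lf 211135 0 0) (P.cons (P.lf 0 19745 0) P.nil)) (P.cons (P.cons (P.lf 0 17804 0) P.nil) P.nil)))))) 43260)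
 (EL.cons 1 (TM.mk (P.cons (P.cons (P.lf 1241973412 0 0) (P.cons (P.lf 52206199 0 0) (P.cons (P.lf 0 3490389 0) (P.lf 0 1163471 0)))) (P.cons (P.cons (P.lf 299541215 0 0) (P.cons (P.lf 26662294 0 0) (P.cons (P.lf 0 1782574 0) (P.lf 0 594184 0)))) (P.cons (P.cons (P.lf 0 22163309 0) (P.cons (P.lf 0 4773860 0) (P.cons (P.lf 319156 0 0) (P.lf 106382 0 0)))) (P.cons (P.cons (P.lf 0 2252472 0) (P.cons (P.lf 71244 0 0) (P.cons (P.lf 0 4760 0) P.nil))) (P.cons (P.cons (P.lf 171469 0 0) (P.cons (P.lf 23917 0 0) P.nil)) (P.cons (P.cons (P.lf 2490 0 0) P.nil) P.nil)))))) 19082)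
 (EL.cons 5 (TM.mk (P.cons (P.cons (P.lf 0 264210848 0) (P.cons (P.lf 0 351121952 0) (P.cons (P.lf 23475196 0 0) (P.lf 7825056 0 0)))) (P.cons (P.cons (P.lf 442397730 0 0) (P.cons (P.lf 62645412 0 0) (P.cons (P.lf 0 4188322 0) (P.lf 0 1396106 0)))) (P.cons (P.cons (P.lf 15549977 0 0) (P.cons (P.lf 0 2003966 0) (P.cons (P.lf 133986 0 0) (P.lf 44664 0 0)))) (P.cons (P.cons (P.lf 0 2203246 0) (P.cons (P.lf 0 230516 0) (P.cons (P.lf 15408 0 0) P.nil))) (P.cons (P.cons (P.lf 0 26525 0) (P.cons (P.lf 14940 0 0) P.nil)) (P.cons (P.cons (P.lf 7027 0 0) P.nil) P.nil)))))) 15215)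
 (EL.cons 9 (TM.mk (P.cons (P.cons (P.lf 1176335766 0 0) (P.cons (P.lf 0 220338636 0) (P.cons (P.lf 14731326 0 0) (P.lf 4910436 0 0)))) (P.cons (P.cons (P.lf 408499836 0 0) (P.cons (P.lf 47365590 0 0) (P.cons (P.lf 0 3166752 0) (P.lf 0 1055580 0)))) (P.cons (P.cons (P.lf 0 5998690 0) (P.cons (P.lf 0 3253524 0) (P.cons (P.lf 217518 0 0) (P.lf 72504 0 0)))) (P.cons (P.cons (P.lf 0 1077946 0) (P.cons (P.lf 22998 0 0) (P.cons (P.lf 0 1536 0) P.nil))) (P.cons (P.cons (P.lf 42826 0 0) (P.cons (P.lf 6990 0 0) P.nil)) (P.cons (P.cons (P.lf 613 0 0) P.nil) P.nil)))))) 4463)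
 (EL.cons 2 (TM.mk (P.cons (P.cons (P.lf 0 636762645 0) (P.cons (P.lf 98586846 0 0) (P.cons (P.lf 47496031 0 0) (P.cons (P.lf 0 1797387 0) (P.lf 0 449344 0))))) (P.cons (P.cons (P.lf 71247507 0 0) (P.cons (P.lf 0 11030903 0) (P.cons (P.lf 0 5314339 0) (P.cons (P.lf 201107 0 0) (P.lf 50276 0 0))))) (P.cons (P.cons (P.lf 840369 0 0) (P.cons (P.lf 0 130111 0) (P.cons (P.lf 0 62682 0) (P.cons (P.lf 2373 0 0) P.nil)))) (P.cons (P.cons (P.lf 0 336237 0) (P.cons (P.lf 52056 0 0) (P.cons (P.lf 25076 0 0) P.nil))) (P.cons (P.cons (P.lf 9570 0 0) (P.cons (P.lf 0 1479 0) P.nil)) (P.cons (P.cons (P.lf 298 0 0) P.nil) P.nil)))))) 7696)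
 (EL.cons 6 (TM.mk (P.cons (P.cons (P.lf 251430378 0 0) (P.cons (P.lf 0 38927736 0) (P.cons (P.lf 0 18754155 0) (P.cons (P.lf 709710 0 0) (P.lf 177426 0 0))))) (P.cons (P.cons (P.lf 0 54049296 0) (P.cons (P.lf 8368188 0 0) (P.cons (P.lf 4031526 0 0) (P.cons (P.lf 0 152562 0) (P.lf 0 38139 0))))) (P.cons (P.cons (P.lf 3712632 0 0) (P.cons (P.lf 0 574806 0) (P.cons (P.lf 0 276924 0) (P.cons (P.lf 10476 0 0) P.nil)))) (P.cons (P.cons (P.lf 0 26244 0) (P.cons (P.lf 4062 0 0) (P.cons (P.lf 1956 0 0) P.nil))) (P.cons (P.cons (P.lf 0 7977 0) (P.cons (P.lf 1233 0 0) P.nil)) (P.cons (P.cons (P.lf 336 0 0) P.nil) P.nil)))))) 4056)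
 EL.nil))))))
noncomputable def S372_386_512_660_2 : EL := (EL.cons 0 (TM.mk (P.cons (P.cons (P.lf 1498714525 0 0) (P.cons (P.lf 0 149988181 0) (P.cons (P.lf 0 14460014 0) (P.cons (P.lf 6617017 0 0) (P.cons (P.lf 982001 0 0) (P.cons (P.lf 0 72967 0) P.nil)))))) (P.cons (P.cons (P.lf 501086408 0 0) (P.cons (P.lf 92803354 0 0) (P.cons (P.lf 2163126 0 0) (P.cons (P.lf 0 3187084 0) (P.cons (P.lf 0 335558 0) P.nil))))) (P.cons (P.cons (P.lf 0 33831254 0) (P.cons (P.lf 0 8627833 0) (P.cons (P.lf 0 278098 0) (P.cons (P.lf 306582 0 0) P.nil)))) (P.cons (P.cons (P.lf 0 7049761 0) (P.cons (P.lf 0 1016315 0) (P.cons (P.lf 36546 0 0) P.nil))) (P.cons (P.cons (P.lf 576203 0 0) (P.cons (P.lf 185946 0 0) P.nil)) (P.cons (P.cons (P.lf 29011 0 0) P.nil) P.nil)))))) 423323)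
 (EL.cons 1 (TM.mk (P.cons (P.cons (P.lf 398274309 0 0) (P.cons (P.lf 0 45182557 0) (P.cons (P.lf 0 2489451 0) (P.cons (P.lf 1743732 0 0) (P.cons (P.lf 220971 0 0) (P.cons (P.lf 0 16421 0) P.nil)))))) (P.cons (P.cons (P.lf 230723416 0 0) (P.cons (P.lf 16036405 0 0) (P.cons (P.lf 0 1216489 0) (P.cons (P.lf 0 338084 0) (P.cons (P.lf 5786 0 0) P.nil))))) (P.cons (P.cons (P.lf 23243131 0 0) (P.cons (P.lf 4668321 0 0) (P.cons (P.lf 181051 0 0) (P.cons (P.lf 0 169984 0) P.nil)))) (P.cons (P.cons (P.lf 0 3920625 0) (P.cons (P.lf 0 957395 0) (P.cons (P.lf 0 22655 0) P.nil))) (P.cons (P.cons (P.lf 0 230142 0) (P.cons (P.lf 4188 0 0) P.nil)) (P.cons (P.cons (P.lf 33049 0 0) P.nil) P.nil)))))) 189704)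
 (EL.cons 5 (TM.mk (P.cons (P.cons (P.lf 0 289449048 0) (P.cons (P.lf 0 37863249 0) (P.cons (P.lf 19778833 0 0) (P.cons (P.lf 0 1462416 0) (P.cons (P.lf 0 691649 0) (P.cons (P.lf 51387 0 0) P.nil)))))) (P.cons (P.cons (P.lf 0 9096702 0) (P.cons (P.lf 0 45061257 0) (P.cons (P.lf 0 3634396 0) (P.cons (P.lf 1893036 0 0) (P.cons (P.lf 266547 0 0) P.nil))))) (P.cons (P.cons (P.lf 38901743 0 0) (P.cons (P.lf 8993706 0 0) (P.cons (P.lf 349559 0 0) (P.cons (P.lf 0 327574 0) P.nil)))) (P.cons (P.cons (P.lf 1198280 0 0) (P.cons (P.lf 0 113141 0) (P.cons (P.lf 0 37265 0) P.nil))) (P.cons (P.cons (P.lf 0 335738 0) (P.cons (P.lf 0 74323 0) P.nil)) (P.cons (P.cons (P.lf 0 1622 0) P.nil) P.nil)))))) 188659)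
 (EL.cons 9 (TM.mk (P.cons (P.cons (P.lf 214788726 0 0) (P.cons (P.lf 0 80463853 0) (P.cons (P.lf 12915439 0 0) (P.cons (P.lf 785551 0 0) (P.cons (P.lf 0 302199 0) (P.cons (P.lf 22455 0 0) P.nil)))))) (P.cons (P.cons (P.lf 149177065 0 0) (P.cons (P.lf 0 10645159 0) (P.cons (P.lf 0 2528194 0) (P.cons (P.lf 670462 0 0) (P.cons (P.lf 129925 0 0) P.nil))))) (P.cons (P.cons (P.lf 23711343 0 0) (P.cons (P.lf 5228860 0 0) (P.cons (P.lf 221193 0 0) (P.cons (P.lf 0 192852 0) P.nil)))) (P.cons (P.cons (P.lf 0 1154371 0) (P.cons (P.lf 0 418669 0) (P.cons (P.lf 0 21421 0) P.nil))) (P.cons (P.cons (P.lf 0 115474 0) (P.cons (P.lf 0 7251 0) P.nil)) (P.cons (P.cons (P.lf 7662 0 0) P.nil) P.nil)))))) 78311)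
 (EL.cons 2 (TM.mk (P.cons (P.cons (P.lf 0 232534687 0) (P.cons (P.lf 79558121 0 0) (P.cons (P.lf 7689133 0 0) (P.cons (P.lf 0 4425024 0) (P.cons (P.lf 326345 0 0) (P.cons (P.lf 94916 0 0) P.nil)))))) (P.cons (P.cons (P.lf 0 54732718 0) (P.cons (P.lf 0 5762570 0) (P.cons (P.lf 7238508 0 0) (P.cons (P.lf 1077316 0 0) (P.cons (P.lf 0 198922 0) P.nil))))) (P.cons (P.cons (P.lf 10527946 0 0) (P.cons (P.lf 3307 0 0) (P.cons (P.lf 0 1147348 0) (P.cons (P.lf 0 111600 0) P.nil)))) (P.cons (P.cons (P.lf 64186 0 0) (P.cons (P.lf 0 51086 0) (P.cons (P.lf 4331 0 0) P.nil))) (P.cons (P.cons (P.lf 0 73012 0) (P.cons (P.lf 3982 0 0) P.nil)) (P.cons (P.cons (P.lf 2491 0 0) P.nil) P.nil)))))) 107515)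
 (EL.cons 6 (TM.mk (P.cons (P.cons (P.lf 91818018 0 0) (P.cons (P.lf 0 31414104 0) (P.cons (P.lf 0 3036108 0) (P.cons (P.lf 1747254 0 0) (P.cons (P.lf 0 128856 0) (P.cons (P.lf 0 37476 0) P.nil)))))) (P.cons (P.cons (P.lf 12147282 0 0) (P.cons (P.lf 5513466 0 0) (P.cons (P.lf 0 2545224 0) (P.cons (P.lf 0 605484 0) (P.cons (P.lf 91824 0 0) P.nil))))) (P.cons (P.cons (P.lf 0 5966694 0) (P.cons (P.lf 0 378858 0) (P.cons (P.lf 733830 0 0) (P.cons (P.lf 95862 0 0) P.nil)))) (P.cons (P.cons (P.lf 477744 0 0) (P.cons (P.lf 38802 0 0) (P.cons (P.lf 0 60630 0) P.nil))) (P.cons (P.cons (P.lf 8268 0 0) (P.cons (P.lf 0 4710 0) P.nil)) (P.cons (P.cons (P.lf 0 2748 0) P.nil) P.nil)))))) 65652)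
 EL.nil))))))
noncomputable def S372_386_512_660_3 : EL := (EL.cons 0 (TM.mk (P.cons (P.lf 4198667962 0 0) (P.cons (P.lf 263855079 0 0) (P.cons (P.lf 0 8670768 0) (P.cons (P.lf 0 267403 0) (P.cons (P.lf 19872 0 0) (P.cons (P.lf 0 263 0) P.nil)))))) 209)
 (EL.cons 1 (TM.mk (P.cons (P.lf 0 1657874694 0) (P.cons (P.lf 66703704 0 0) (P.cons (P.lf 6615345 0 0) (P.cons (P.lf 0 292091 0) (P.cons (P.lf 0 596 0) (P.cons (P.lf 360 0 0) P.nil)))))) 128)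
 (EL.cons 5 (TM.mk (P.cons (P.lf 654623926 0 0) (P.cons (P.lf 0 93815138 0) (P.cons (P.lf 3082942 0 0) (P.cons (P.lf 95074 0 0) (P.cons (P.lf 0 7066 0) (P.cons (P.lf 96 0 0) P.nil)))))) 70)
 EL.nil)))
noncomputable def S372_386_512_660_4 : EL := (EL.cons 0 (TM.mk (P.cons (P.cons (P.lf 766640418 0 0) (P.cons (P.lf 0 143598884 0) (P.cons (P.lf 9600684 0 0) (P.lf 3200224 0 0)))) (P.cons (P.cons (P.lf 314404774 0 0) (P.cons (P.lf 21844933 0 0) (P.cons (P.lf 0 1460499 0) (P.lf 0 486829 0)))) (P.cons (P.cons (P.lf 11237726 0 0) (P.cons (P.lf 116056 0 0) (P.cons (P.lf 0 7762 0) (P.lf 0 2587 0)))) (P.cons (P.cons (P.lf 0 1546815 0) (P.cons (P.lf 0 172865 0) (P.cons (P.lf 11557 0 0) P.nil))) (P.cons (P.cons (P.lf 0 21489 0) (P.cons (P.lf 7229 0 0) P.nil)) (P.cons (P.cons (P.lf 5064 0 0) P.nil) P.nil)))))) 9307)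
 (EL.cons 1 (TM.mk (P.cons (P.cons (P.lf 0 302713565 0) (P.cons (P.lf 56701066 0 0) (P.cons (P.lf 0 3790899 0) (P.lf 0 1263631 0)))) (P.cons (P.cons (P.lf 0 92942203 0) (P.cons (P.lf 0 14470207 0) (P.cons (P.lf 967441 0 0) (P.lf 322479 0 0)))) (P.cons (P.cons (P.lf 6981099 0 0) (P.cons (P.lf 1101408 0 0) (P.cons (P.lf 0 73635 0) (P.lf 0 24543 0)))) (P.cons (P.cons (P.lf 581413 0 0) (P.cons (P.lf 19020 0 0) (P.cons (P.lf 0 1271 0) P.nil))) (P.cons (P.cons (P.lf 0 46970 0) (P.cons (P.lf 0 7027 0) P.nil)) (P.cons (P.cons (P.lf 0 519 0) P.nil) P.nil)))))) 4114)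
 (EL.cons 5 (TM.mk (P.cons (P.cons (P.lf 119528660 0 0) (P.cons (P.lf 0 22388830 0) (P.cons (P.lf 1496864 0 0) (P.lf 498954 0 0)))) (P.cons (P.cons (P.lf 24378246 0 0) (P.cons (P.lf 8021442 0 0) (P.cons (P.lf 0 536294 0) (P.lf 0 178762 0)))) (P.cons (P.cons (P.lf 0 5995198 0) (P.cons (P.lf 0 1125772 0) (P.cons (P.lf 75264 0 0) (P.lf 25086 0 0)))) (P.cons (P.cons (P.lf 190662 0 0) (P.cons (P.lf 69128 0 0) (P.cons (P.lf 0 4620 0) P.nil))) (P.cons (P.cons (P.lf 21916 0 0) (P.cons (P.lf 0 240 0) P.nil)) (P.cons (P.cons (P.lf 0 1596 0) P.nil) P.nil)))))) 2802)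
 EL.nil)))
noncomputable def S372_386_512_660_5 : EL := (EL.cons 0 (TM.mk (P.cons (P.cons (P.lf 139981902 0 0) (P.cons (P.lf 0 52439825 0) (P.cons (P.lf 8417237 0 0) (P.cons (P.lf 511957 0 0) (P.cons (P.lf 0 196948 0) (P.cons (P.lf 14633 0 0) P.nil)))))) (P.cons (P.cons (P.lf 106018356 0 0) (P.cons (P.lf 0 10233105 0) (P.cons (P.lf 0 1118710 0) (P.cons (P.lf 469125 0 0) (P.cons (P.lf 72297 0 0) P.nil))))) (P.cons (P.cons (P.lf 21273704 0 0) (P.cons (P.lf 3080061 0 0) (P.cons (P.lf 23227 0 0) (P.cons (P.lf 0 99283 0) P.nil)))) (P.cons (P.cons (P.lf 9098 0 0) (P.cons (P.lf 0 41036 0) (P.cons (P.lf 0 2033 0) P.nil))) (P.cons (P.cons (P.lf 0 159976 0) (P.cons (P.lf 0 28715 0) P.nil)) (P.cons (P.cons (P.lf 1283 0 0) P.nil) P.nil)))))) 73563)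
 (EL.cons 1 (TM.mk (P.cons (P.cons (P.lf 0 55272875 0) (P.cons (P.lf 20706245 0 0) (P.cons (P.lf 0 3323606 0) (P.cons (P.lf 0 202149 0) (P.cons (P.lf 77765 0 0) (P.cons (P.lf 0 5776 0) P.nil)))))) (P.cons (P.cons (P.lf 0 36164756 0) (P.cons (P.lf 1906276 0 0) (P.cons (P.lf 784318 0 0) (P.cons (P.lf 0 164400 0) (P.cons (P.lf 0 36562 0) P.nil))))) (P.cons (P.cons (P.lf 0 4336681 0) (P.cons (P.lf 0 1538413 0) (P.cons (P.lf 0 69834 0) (P.cons (P.lf 57375 0 0) P.nil)))) (P.cons (P.cons (P.lf 686004 0 0) (P.cons (P.lf 154593 0 0) (P.cons (P.lf 4620 0 0) P.nil))) (P.cons (P.cons (P.lf 35326 0 0) (P.cons (P.lf 3390 0 0) P.nil)) (P.cons (P.cons (P.lf 0 5428 0) P.nil) P.nil)))))) 33592)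
 (EL.cons 5 (TM.mk (P.cons (P.cons (P.lf 21824898 0 0) (P.cons (P.lf 0 8176012 0) (P.cons (P.lf 1312350 0 0) (P.cons (P.lf 79820 0 0) (P.cons (P.lf 0 30706 0) (P.cons (P.lf 2280 0 0) P.nil)))))) (P.cons (P.cons (P.lf 12030272 0 0) (P.cons (P.lf 90050 0 0) (P.cons (P.lf 0 444966 0) (P.cons (P.lf 56686 0 0) (P.cons (P.lf 17602 0 0) P.nil))))) (P.cons (P.cons (P.lf 339796 0 0) (P.cons (P.lf 647818 0 0) (P.cons (P.lf 65470 0 0) (P.cons (P.lf 0 28982 0) P.nil)))) (P.cons (P.cons (P.lf 0 388024 0) (P.cons (P.lf 0 124964 0) (P.cons (P.lf 0 6416 0) P.nil))) (P.cons (P.cons (P.lf 18388 0 0) (P.cons (P.lf 7792 0 0) P.nil)) (P.cons (P.cons (P.lf 2096 0 0) P.nil) P.nil)))))) 16028)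
 EL.nil)))
noncomputable def S372_386_512_660_6 : EL := (EL.cons 12 (TM.mk (P.lf 8589934592 0 0) 0)
 (EL.cons 3 (TM.mk (P.cons (P.lf 3002760528 0 0) (P.cons (P.lf 94350592 0 0) (P.cons (P.lf 0 4582845 0) (P.cons (P.lf 48378 0 0) (P.cons (P.lf 2088 0 0) (P.cons (P.lf 0 86 0) P.nil)))))) 67)
 (EL.cons 7 (TM.mk (P.cons (P.lf 0 1185661915 0) (P.cons (P.lf 84959496 0 0) (P.cons (P.lf 251989 0 0) (P.cons (P.lf 0 68044 0) (P.cons (P.lf 1551 0 0) (P.cons (P.lf 9 0 0) P.nil)))))) 45)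
 EL.nil)))
noncomputable def S372_386_512_660_7 : EL := (EL.cons 12 (TM.mk (P.cons (P.cons (P.lf 1568447688 0 0) (P.cons (P.lf 0 293784848 0) (P.cons (P.lf 19641768 0 0) (P.lf 6547248 0 0)))) (P.cons (P.cons (P.lf 544666448 0 0) (P.cons (P.lf 63154120 0 0) (P.cons (P.lf 0 4222336 0) (P.lf 0 1407440 0)))) (P.cons (P.cons (P.lf 0 7998254 0) (P.cons (P.lf 0 4338032 0) (P.cons (P.lf 290024 0 0) (P.lf 96672 0 0)))) (P.cons (P.cons (P.lf 0 1437262 0) (P.cons (P.lf 30664 0 0) (P.cons (P.lf 0 2048 0) P.nil))) (P.cons (P.cons (P.lf 57102 0 0) (P.cons (P.lf 9320 0 0) P.nil)) (P.cons (P.cons (P.lf 818 0 0) P.nil) P.nil)))))) 5926)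
 (EL.cons 3 (TM.mk (P.cons (P.cons (P.lf 3205393486 0 0) (P.cons (P.lf 205395170 0 0) (P.cons (P.lf 0 13732238 0) (P.lf 0 4577406 0)))) (P.cons (P.cons (P.lf 6917729 0 0) (P.cons (P.lf 0 37699452 0) (P.cons (P.lf 2520494 0 0) (P.lf 840160 0 0)))) (P.cons (P.cons (P.lf 0 18572873 0) (P.cons (P.lf 1332038 0 0) (P.cons (P.lf 0 89050 0) (P.lf 0 29680 0)))) (P.cons (P.cons (P.lf 1316203 0 0) (P.cons (P.lf 144552 0 0) (P.cons (P.lf 0 9664 0) P.nil))) (P.cons (P.cons (P.lf 8017 0 0) (P.cons (P.lf 0 12386 0) P.nil)) (P.cons (P.cons (P.lf 0 3925 0) P.nil) P.nil)))))) 18496)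
 (EL.cons 7 (TM.mk (P.cons (P.cons (P.lf 2176150369 0 0) (P.cons (P.lf 317977940 0 0) (P.cons (P.lf 0 21259267 0) (P.lf 0 7086423 0)))) (P.cons (P.cons (P.lf 6229164 0 0) (P.cons (P.lf 0 33947078 0) (P.cons (P.lf 2269622 0 0) (P.lf 756543 0 0)))) (P.cons (P.cons (P.lf 0 16403194 0) (P.cons (P.lf 0 550118 0) (P.cons (P.lf 36777 0 0) (P.lf 12259 0 0)))) (P.cons (P.cons (P.lf 48556 0 0) (P.cons (P.lf 143876 0 0) (P.cons (P.lf 0 9615 0) P.nil))) (P.cons (P.cons (P.lf 48706 0 0) (P.cons (P.lf 0 979 0) P.nil)) (P.cons (P.cons (P.lf 0 1374 0) P.nil) P.nil)))))) 10893)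
 (EL.cons 10 (TM.mk (P.cons (P.cons (P.lf 0 910786830 0) (P.cons (P.lf 141012672 0 0) (P.cons (P.lf 67935459 0 0) (P.cons (P.lf 0 2570877 0) (P.lf 0 642717 0))))) (P.cons (P.cons (P.lf 130526226 0 0) (P.cons (P.lf 0 20208738 0) (P.cons (P.lf 0 9735930 0) (P.cons (P.lf 368436 0 0) (P.lf 92109 0 0))))) (P.cons (P.cons (P.lf 0 4289337 0) (P.cons (P.lf 664095 0 0) (P.cons (P.lf 319941 0 0) (P.cons (P.lf 0 12105 0) P.nil)))) (P.cons (P.cons (P.lf 0 132276 0) (P.cons (P.lf 20478 0 0) (P.cons (P.lf 9864 0 0) P.nil))) (P.cons (P.cons (P.lf 9831 0 0) (P.cons (P.lf 0 1521 0) P.nil)) (P.cons (P.cons (P.lf 0 132 0) P.nil) P.nil)))))) 4512)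
 EL.nil))))
noncomputable def S372_386_512_660_8 : EL := (EL.cons 12 (TM.mk (P.cons (P.cons (P.lf 286384968 0 0) (P.cons (P.lf 0 107285138 0) (P.cons (P.lf 17220586 0 0) (P.cons (P.lf 1047402 0 0) (P.cons (P.lf 0 402932 0) (P.cons (P.lf 29940 0 0) P.nil)))))) (P.cons (P.cons (P.lf 198902754 0 0) (P.cons (P.lf 0 14193546 0) (P.cons (P.lf 0 3370926 0) (P.cons (P.lf 893950 0 0) (P.cons (P.lf 173234 0 0) P.nil))))) (P.cons (P.cons (P.lf 31615124 0 0) (P.cons (P.lf 6971814 0 0) (P.cons (P.lf 294924 0 0) (P.cons (P.lf 0 257136 0) P.nil)))) (P.cons (P.cons (P.lf 0 1539162 0) (P.cons (P.lf 0 558226 0) (P.cons (P.lf 0 28562 0) P.nil))) (P.cons (P.cons (P.lf 0 153966 0) (P.cons (P.lf 0 9668 0) P.nil)) (P.cons (P.cons (P.lf 10216 0 0) P.nil) P.nil)))))) 104386)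
 (EL.cons 3 (TM.mk (P.cons (P.cons (P.lf 1070443362 0 0) (P.cons (P.lf 0 106745550 0) (P.cons (P.lf 0 10425070 0) (P.cons (P.lf 4727200 0 0) (P.cons (P.lf 704262 0 0) (P.cons (P.lf 0 52331 0) P.nil)))))) (P.cons (P.cons (P.lf 336342815 0 0) (P.cons (P.lf 65079618 0 0) (P.cons (P.lf 2647545 0 0) (P.cons (P.lf 0 2386176 0) (P.cons (P.lf 0 280656 0) P.nil))))) (P.cons (P.cons (P.lf 0 24957970 0) (P.cons (P.lf 0 8880759 0) (P.cons (P.lf 0 472391 0) (P.cons (P.lf 340473 0 0) P.nil)))) (P.cons (P.cons (P.lf 0 2664905 0) (P.cons (P.lf 0 12459 0) (P.cons (P.lf 62388 0 0) P.nil))) (P.cons (P.cons (P.lf 331131 0 0) (P.cons (P.lf 84579 0 0) P.nil)) (P.cons (P.cons (P.lf 1130 0 0) P.nil) P.nil)))))) 237046)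
 (EL.cons 7 (TM.mk (P.cons (P.cons (P.lf 834221925 0 0) (P.cons (P.lf 0 47541729 0) (P.cons (P.lf 0 17184949 0) (P.cons (P.lf 3782410 0 0) (P.cons (P.lf 816608 0 0) (P.cons (P.lf 0 60676 0) P.nil)))))) (P.cons (P.cons (P.lf 302865253 0 0) (P.cons (P.lf 58601978 0 0) (P.cons (P.lf 2384025 0 0) (P.cons (P.lf 0 2148669 0) (P.cons (P.lf 0 252716 0) P.nil))))) (P.cons (P.cons (P.lf 0 6864576 0) (P.cons (P.lf 0 4976557 0) (P.cons (P.lf 0 302503 0) (P.cons (P.lf 195840 0 0) P.nil)))) (P.cons (P.cons (P.lf 0 3330967 0) (P.cons (P.lf 0 442124 0) (P.cons (P.lf 31770 0 0) P.nil))) (P.cons (P.cons (P.lf 75902 0 0) (P.cons (P.lf 57101 0 0) P.nil)) (P.cons (P.cons (P.lf 14760 0 0) P.nil) P.nil)))))) 141849)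
 (EL.cons 10 (TM.mk (P.cons (P.cons (P.lf 0 332603574 0) (P.cons (P.lf 113795130 0 0) (P.cons (P.lf 10998072 0 0) (P.cons (P.lf 0 6329292 0) (P.cons (P.lf 466782 0 0) (P.cons (P.lf 135762 0 0) P.nil)))))) (P.cons (P.cons (P.lf 0 67835550 0) (P.cons (P.lf 0 11818026 0) (P.cons (P.lf 10007952 0 0) (P.cons (P.lf 1739802 0 0) (P.cons (P.lf 0 299196 0) P.nil))))) (P.cons (P.cons (P.lf 16682394 0 0) (P.cons (P.lf 549744 0 0) (P.cons (P.lf 0 1938780 0) (P.cons (P.lf 0 223950 0) P.nil)))) (P.cons (P.cons (P.lf 0 530538 0) (P.cons (P.lf 0 110220 0) (P.cons (P.lf 82212 0 0) P.nil))) (P.cons (P.cons (P.lf 0 60984 0) (P.cons (P.lf 10110 0 0) P.nil)) (P.cons (P.cons (P.lf 4440 0 0) P.nil) P.nil)))))) 168612)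
 EL.nil))))
noncomputable def S372_386_512_660_9 : EL := (EL.cons 3 (TM.mk (P.cons (P.lf 3002760528 0 0) (P.cons (P.lf 94350592 0 0) (P.cons (P.lf 0 4582845 0) (P.cons (P.lf 48378 0 0) (P.cons (P.lf 2088 0 0) (P.cons (P.lf 0 86 0) P.nil)))))) 67)
 (EL.cons 7 (TM.mk (P.cons (P.lf 0 1185661915 0) (P.cons (P.lf 84959496 0 0) (P.cons (P.lf 251989 0 0) (P.cons (P.lf 0 68044 0) (P.cons (P.lf 1551 0 0) (P.cons (P.lf 9 0 0) P.nil)))))) 45)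
 EL.nil))
noncomputable def S372_386_512_660_10 : EL := (EL.cons 3 (TM.mk (P.cons (P.cons (P.lf 548278075 0 0) (P.cons (P.lf 0 102697585 0) (P.cons (P.lf 6866119 0 0) (P.lf 2288703 0 0)))) (P.cons (P.cons (P.lf 207625199 0 0) (P.cons (P.lf 18849726 0 0) (P.cons (P.lf 0 1260247 0) (P.lf 0 420080 0)))) (P.cons (P.cons (P.lf 2349820 0 0) (P.cons (P.lf 0 666019 0) (P.cons (P.lf 44525 0 0) (P.lf 14840 0 0)))) (P.cons (P.cons (P.lf 0 872024 0) (P.cons (P.lf 0 72276 0) (P.cons (P.lf 4832 0 0) P.nil))) (P.cons (P.cons (P.lf 11890 0 0) (P.cons (P.lf 6193 0 0) P.nil)) (P.cons (P.cons (P.lf 1751 0 0) P.nil) P.nil)))))) 4539)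
 (EL.cons 7 (TM.mk (P.cons (P.cons (P.lf 0 216491600 0) (P.cons (P.lf 40550891 0 0) (P.cons (P.lf 0 2711137 0) (P.lf 0 903711 0)))) (P.cons (P.cons (P.lf 0 59667012 0) (P.cons (P.lf 0 11622818 0) (P.cons (P.lf 777074 0 0) (P.lf 259023 0 0)))) (P.cons (P.cons (P.lf 6537074 0 0) (P.cons (P.lf 1214788 0 0) (P.cons (P.lf 0 81216 0) (P.lf 0 27071 0)))) (P.cons (P.cons (P.lf 122830 0 0) (P.cons (P.lf 0 42958 0) (P.cons (P.lf 2871 0 0) P.nil))) (P.cons (P.cons (P.lf 0 26363 0) (P.cons (P.lf 0 1663 0) P.nil)) (P.cons (P.cons (P.lf 573 0 0) P.nil) P.nil)))))) 2207)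
 EL.nil))
noncomputable def S372_386_512_660_11 : EL := (EL.cons 3 (TM.mk (P.cons (P.cons (P.lf 100110828 0 0) (P.cons (P.lf 0 37503378 0) (P.cons (P.lf 6019754 0 0) (P.cons (P.lf 366136 0 0) (P.cons (P.lf 0 140850 0) (P.cons (P.lf 10465 0 0) P.nil)))))) (P.cons (P.cons (P.lf 72675515 0 0) (P.cons (P.lf 0 6140004 0) (P.cons (P.lf 0 989217 0) (P.cons (P.lf 324000 0 0) (P.cons (P.lf 56130 0 0) P.nil))))) (P.cons (P.cons (P.lf 13083542 0 0) (P.cons (P.lf 2338455 0 0) (P.cons (P.lf 56881 0 0) (P.cons (P.lf 0 80625 0) P.nil)))) (P.cons (P.cons (P.lf 0 295289 0) (P.cons (P.lf 0 111591 0) (P.cons (P.lf 0 4848 0) P.nil))) (P.cons (P.cons (P.lf 0 86403 0) (P.cons (P.lf 0 13335 0) P.nil)) (P.cons (P.cons (P.lf 2924 0 0) P.nil) P.nil)))))) 44940)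
 (EL.cons 7 (TM.mk (P.cons (P.cons (P.lf 0 39529491 0) (P.cons (P.lf 14808483 0 0) (P.cons (P.lf 0 2376943 0) (P.cons (P.lf 0 144572 0) (P.cons (P.lf 55616 0 0) (P.cons (P.lf 0 4132 0) P.nil)))))) (P.cons (P.cons (P.lf 0 24621875 0) (P.cons (P.lf 898010 0 0) (P.cons (P.lf 635607 0 0) (P.cons (P.lf 0 113031 0) (P.cons (P.lf 0 27896 0) P.nil))))) (P.cons (P.cons (P.lf 0 2388144 0) (P.cons (P.lf 0 1105843 0) (P.cons (P.lf 0 73543 0) (P.cons (P.lf 44364 0 0) P.nil)))) (P.cons (P.cons (P.lf 528707 0 0) (P.cons (P.lf 146440 0 0) (P.cons (P.lf 6624 0 0) P.nil))) (P.cons (P.cons (P.lf 5432 0 0) (P.cons (P.lf 0 3889 0) P.nil)) (P.cons (P.cons (P.lf 0 3192 0) P.nil) P.nil)))))) 20723)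
 EL.nil))
noncomputable def S372_386_512_660_12 : EL := (EL.cons 4 (TM.mk (P.cons (P.lf 0 3002760528 0) (P.cons (P.lf 0 94350592 0) (P.cons (P.lf 4582845 0 0) (P.cons (P.lf 0 48378 0) (P.cons (P.lf 0 2088 0) (P.cons (P.lf 86 0 0) P.nil)))))) 67)
 (EL.cons 8 (TM.mk (P.cons (P.lf 1185661915 0 0) (P.cons (P.lf 0 84959496 0) (P.cons (P.lf 0 251989 0) (P.cons (P.lf 68044 0 0) (P.cons (P.lf 0 1551 0) (P.cons (P.lf 0 9 0) P.nil)))))) 45)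
 EL.nil))
noncomputable def S372_386_512_660_13 : EL := (EL.cons 4 (TM.mk (P.cons (P.cons (P.lf 0 548278075 0) (P.cons (P.lf 102697585 0 0) (P.cons (P.lf 0 6866119 0) (P.lf 0 2288703 0)))) (P.cons (P.cons (P.lf 0 207625199 0) (P.cons (P.lf 0 18849726 0) (P.cons (P.lf 1260247 0 0) (P.lf 420080 0 0)))) (P.cons (P.cons (P.lf 0 2349820 0) (P.cons (P.lf 666019 0 0) (P.cons (P.lf 0 44525 0) (P.lf 0 14840 0)))) (P.cons (P.cons (P.lf 872024 0 0) (P.cons (P.lf 72276 0 0) (P.cons (P.lf 0 4832 0) P.nil))) (P.cons (P.cons (P.lf 0 11890 0) (P.cons (P.lf 0 6193 0) P.nil)) (P.cons (P.cons (P.lf 0 1751 0) P.nil) P.nil)))))) 4539)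
 (EL.cons 8 (TM.mk (P.cons (P.cons (P.lf 216491600 0 0) (P.cons (P.lf 0 40550891 0) (P.cons (P.lf 2711137 0 0) (P.lf 903711 0 0)))) (P.cons (P.cons (P.lf 59667012 0 0) (P.cons (P.lf 11622818 0 0) (P.cons (P.lf 0 777074 0) (P.lf 0 259023 0)))) (P.cons (P.cons (P.lf 0 6537074 0) (P.cons (P.lf 0 1214788 0) (P.cons (P.lf 81216 0 0) (P.lf 27071 0 0)))) (P.cons (P.cons (P.lf 0 122830 0) (P.cons (P.lf 42958 0 0) (P.cons (P.lf 0 2871 0) P.nil))) (P.cons (P.cons (P.lf 26363 0 0) (P.cons (P.lf 1663 0 0) P.nil)) (P.cons (P.cons (P.lf 0 573 0) P.nil) P.nil)))))) 2207)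
 EL.nil))
noncomputable def S372_386_512_660_14 : EL := (EL.cons 4 (TM.mk (P.cons (P.cons (P.lf 0 100110828 0) (P.cons (P.lf 37503378 0 0) (P.cons (P.lf 0 6019754 0) (P.cons (P.lf 0 366136 0) (P.cons (P.lf 140850 0 0) (P.cons (P.lf 0 10465 0) P.nil)))))) (P.cons (P.cons (P.lf 0 72675515 0) (P.cons (P.lf 6140004 0 0) (P.cons (P.lf 989217 0 0) (P.cons (P.lf 0 324000 0) (P.cons (P.lf 0 56130 0) P.nil))))) (P.cons (P.cons (P.lf 0 13083542 0) (P.cons (P.lf 0 2338455 0) (P.cons (P.lf 0 56881 0) (P.cons (P.lf 80625 0 0) P.nil)))) (P.cons (P.cons (P.lf 295289 0 0) (P.cons (P.lf 111591 0 0) (P.cons (P.lf 4848 0 0) P.nil))) (P.cons (P.cons (P.lf 86403 0 0) (P.cons (P.lf 13335 0 0) P.nil)) (P.cons (P.cons (P.lf 0 2924 0) P.nil) P.nil)))))) 44940)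
 (EL.cons 8 (TM.mk (P.cons (P.cons (P.lf 39529491 0 0) (P.cons (P.lf 0 14808483 0) (P.cons (P.lf 2376943 0 0) (P.cons (P.lf 144572 0 0) (P.cons (P.lf 0 55616 0) (P.cons (P.lf 4132 0 0) P.nil)))))) (P.cons (P.cons (P.lf 24621875 0 0) (P.cons (P.lf 0 898010 0) (P.cons (P.lf 0 635607 0) (P.cons (P.lf 113031 0 0) (P.cons (P.lf 27896 0 0) P.nil))))) (P.cons (P.cons (P.lf 2388144 0 0) (P.cons (P.lf 1105843 0 0) (P.cons (P.lf 73543 0 0) (P.cons (P.lf 0 44364 0) P.nil)))) (P.cons (P.cons (P.lf 0 528707 0) (P.cons (P.lf 0 146440 0) (P.cons (P.lf 0 6624 0) P.nil))) (P.cons (P.cons (P.lf 0 5432 0) (P.cons (P.lf 3889 0 0) P.nil)) (P.cons (P.cons (P.lf 3192 0 0) P.nil) P.nil)))))) 20723)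
 EL.nil))
noncomputable def S372_386_512_660_15 : EL := (EL.cons 4 (TM.mk (P.cons (P.lf 0 2239289580 0) (P.cons (P.lf 0 140722709 0) (P.cons (P.lf 4624410 0 0) (P.cons (P.lf 142615 0 0) (P.cons (P.lf 0 10598 0) (P.cons (P.lf 140 0 0) P.nil)))))) 114)
 (EL.cons 8 (TM.mk (P.cons (P.lf 884199837 0 0) (P.cons (P.lf 0 35575309 0) (P.cons (P.lf 0 3528184 0) (P.cons (P.lf 155782 0 0) (P.cons (P.lf 318 0 0) (P.cons (P.lf 0 192 0) P.nil)))))) 65)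
 EL.nil))
noncomputable def S372_386_512_660_16 : EL := (EL.cons 4 (TM.mk (P.cons (P.cons (P.lf 0 408874890 0) (P.cons (P.lf 76586071 0 0) (P.cons (P.lf 0 5120365 0) (P.lf 0 1706786 0)))) (P.cons (P.cons (P.lf 0 167682546 0) (P.cons (P.lf 0 11650631 0) (P.cons (P.lf 778933 0 0) (P.lf 259642 0 0)))) (P.cons (P.cons (P.lf 0 5993454 0) (P.cons (P.lf 0 61896 0) (P.cons (P.lf 4140 0 0) (P.lf 1380 0 0)))) (P.cons (P.cons (P.lf 824968 0 0) (P.cons (P.lf 92194 0 0) (P.cons (P.lf 0 6164 0) P.nil))) (P.cons (P.cons (P.lf 11460 0 0) (P.cons (P.lf 0 3855 0) P.nil)) (P.cons (P.cons (P.lf 0 2700 0) P.nil) P.nil)))))) 4972)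
 (EL.cons 8 (TM.mk (P.cons (P.cons (P.lf 161447235 0 0) (P.cons (P.lf 0 30240569 0) (P.cons (P.lf 2021813 0 0) (P.lf 673937 0 0)))) (P.cons (P.cons (P.lf 49569175 0 0) (P.cons (P.lf 7717444 0 0) (P.cons (P.lf 0 515969 0) (P.lf 0 171989 0)))) (P.cons (P.cons (P.lf 0 3723253 0) (P.cons (P.lf 0 587418 0) (P.cons (P.lf 39272 0 0) (P.lf 13090 0 0)))) (P.cons (P.cons (P.lf 0 310087 0) (P.cons (P.lf 0 10144 0) (P.cons (P.lf 678 0 0) P.nil))) (P.cons (P.cons (P.lf 25051 0 0) (P.cons (P.lf 3748 0 0) P.nil)) (P.cons (P.cons (P.lf 277 0 0) P.nil) P.nil)))))) 2184)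
 EL.nil))
noncomputable def S372_386_512_660_17 : EL := (EL.cons 4 (TM.mk (P.cons (P.cons (P.lf 0 74657014 0) (P.cons (P.lf 27967906 0 0) (P.cons (P.lf 0 4489193 0) (P.cons (P.lf 0 273044 0) (P.cons (P.lf 105039 0 0) (P.cons (P.lf 0 7804 0) P.nil)))))) (P.cons (P.cons (P.lf 0 56543123 0) (P.cons (P.lf 5457656 0 0) (P.cons (P.lf 596645 0 0) (P.cons (P.lf 0 250200 0) (P.cons (P.lf 0 38558 0) P.nil))))) (P.cons (P.cons (P.lf 0 11345975 0) (P.cons (P.lf 0 1642699 0) (P.cons (P.lf 0 12388 0) (P.cons (P.lf 52950 0 0) P.nil)))) (P.cons (P.cons (P.lf 0 4852 0) (P.cons (P.lf 21885 0 0) (P.cons (P.lf 1084 0 0) P.nil))) (P.cons (P.cons (P.lf 85320 0 0) (P.cons (P.lf 15315 0 0) P.nil)) (P.cons (P.cons (P.lf 0 684 0) P.nil) P.nil)))))) 39244)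
 (EL.cons 8 (TM.mk (P.cons (P.cons (P.lf 29478867 0 0) (P.cons (P.lf 0 11043331 0) (P.cons (P.lf 1772590 0 0) (P.cons (P.lf 107813 0 0) (P.cons (P.lf 0 41475 0) (P.cons (P.lf 3081 0 0) P.nil)))))) (P.cons (P.cons (P.lf 19287870 0 0) (P.cons (P.lf 0 1016681 0) (P.cons (P.lf 0 418303 0) (P.cons (P.lf 87680 0 0) (P.cons (P.lf 19500 0 0) P.nil))))) (P.cons (P.cons (P.lf 2312897 0 0) (P.cons (P.lf 820487 0 0) (P.cons (P.lf 37245 0 0) (P.cons (P.lf 0 30600 0) P.nil)))) (P.cons (P.cons (P.lf 0 365869 0) (P.cons (P.lf 0 82450 0) (P.cons (P.lf 0 2464 0) P.nil))) (P.cons (P.cons (P.lf 0 18841 0) (P.cons (P.lf 0 1808 0) P.nil)) (P.cons (P.cons (P.lf 2895 0 0) P.nil) P.nil)))))) 17904)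
 EL.nil))
noncomputable def S372_386_512_660_18 : EL := (EL.cons 4 (TM.mk (P.cons (P.lf 0 1669935972 0) (P.cons (P.lf 0 157414598 0) (P.cons (P.lf 2699851 0 0) (P.cons (P.lf 347974 0 0) (P.cons (P.lf 0 12676 0) (P.cons (P.lf 0 274 0) P.nil)))))) 154)
 (EL.cons 8 (TM.mk (P.cons (P.lf 659386409 0 0) (P.cons (P.lf 0 5811293 0) (P.cons (P.lf 0 4471091 0) (P.cons (P.lf 84614 0 0) (P.cons (P.lf 7934 0 0) (P.cons (P.lf 0 393 0) P.nil)))))) 76)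
 EL.nil))
noncomputable def S372_386_512_660_19 : EL := (EL.cons 4 (TM.mk (P.cons (P.cons (P.lf 0 304915850 0) (P.cons (P.lf 57113576 0 0) (P.cons (P.lf 0 3818479 0) (P.lf 0 1272825 0)))) (P.cons (P.cons (P.lf 0 134629040 0) (P.cons (P.lf 0 6893802 0) (P.cons (P.lf 460903 0 0) (P.lf 153632 0 0)))) (P.cons (P.cons (P.lf 0 7933389 0) (P.cons (P.lf 0 406326 0) (P.cons (P.lf 27166 0 0) (P.lf 9055 0 0)))) (P.cons (P.cons (P.lf 660711 0 0) (P.cons (P.lf 81482 0 0) (P.cons (P.lf 0 5447 0) P.nil))) (P.cons (P.cons (P.lf 32473 0 0) (P.cons (P.lf 0 745 0) P.nil)) (P.cons (P.cons (P.lf 0 2835 0) P.nil) P.nil)))))) 4870)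
 (EL.cons 8 (TM.mk (P.cons (P.cons (P.lf 120398249 0 0) (P.cons (P.lf 0 22551712 0) (P.cons (P.lf 1507754 0 0) (P.lf 502584 0 0)))) (P.cons (P.cons (P.lf 40748964 0 0) (P.cons (P.lf 5046631 0 0) (P.cons (P.lf 0 337405 0) (P.lf 0 112467 0)))) (P.cons (P.cons (P.lf 0 1798829 0) (P.cons (P.lf 0 222808 0) (P.cons (P.lf 14895 0 0) (P.lf 4965 0 0)))) (P.cons (P.cons (P.lf 0 372967 0) (P.cons (P.lf 0 30477 0) (P.cons (P.lf 2037 0 0) P.nil))) (P.cons (P.cons (P.lf 16333 0 0) (P.cons (P.lf 3303 0 0) P.nil)) (P.cons (P.cons (P.lf 1124 0 0) P.nil) P.nil)))))) 1985)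
 EL.nil))
noncomputable def S372_386_512_660_20 : EL := (EL.cons 4 (TM.mk (P.cons (P.cons (P.lf 0 55674993 0) (P.cons (P.lf 20856888 0 0) (P.cons (P.lf 0 3347787 0) (P.cons (P.lf 0 203621 0) (P.cons (P.lf 78331 0 0) (P.cons (P.lf 0 5820 0) P.nil)))))) (P.cons (P.cons (P.lf 0 43916054 0) (P.cons (P.lf 4725362 0 0) (P.cons (P.lf 339752 0 0) (P.cons (P.lf 0 192983 0) (P.cons (P.lf 0 26293 0) P.nil))))) (P.cons (P.cons (P.lf 0 9701147 0) (P.cons (P.lf 0 1128979 0) (P.cons (P.lf 9851 0 0) (P.cons (P.lf 33935 0 0) P.nil)))) (P.cons (P.cons (P.lf 0 206022 0) (P.cons (P.lf 0 28046 0) (P.cons (P.lf 0 213 0) P.nil))) (P.cons (P.cons (P.lf 75708 0 0) (P.cons (P.lf 13883 0 0) P.nil)) (P.cons (P.cons (P.lf 1329 0 0) P.nil) P.nil)))))) 33270)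
 (EL.cons 8 (TM.mk (P.cons (P.cons (P.lf 21983677 0 0) (P.cons (P.lf 0 8235494 0) (P.cons (P.lf 1321898 0 0) (P.cons (P.lf 80401 0 0) (P.cons (P.lf 0 30930 0) (P.cons (P.lf 2298 0 0) P.nil)))))) (P.cons (P.cons (P.lf 15074562 0 0) (P.cons (P.lf 0 1016953 0) (P.cons (P.lf 0 270411 0) (P.cons (P.lf 67913 0 0) (P.cons (P.lf 13570 0 0) P.nil))))) (P.cons (P.cons (P.lf 2143234 0 0) (P.cons (P.lf 600619 0 0) (P.cons (P.lf 15956 0 0) (P.cons (P.lf 0 20888 0) P.nil)))) (P.cons (P.cons (P.lf 0 240247 0) (P.cons (P.lf 0 41236 0) (P.cons (P.lf 0 467 0) P.nil))) (P.cons (P.cons (P.lf 0 25009 0) (P.cons (P.lf 0 4232 0) P.nil)) (P.cons (P.cons (P.lf 2171 0 0) P.nil) P.nil)))))) 14959)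
 EL.nil))
noncomputable def S372_386_512_660_21 : EL := (EL.cons 4 (TM.mk (P.cons (P.cons (P.lf 0 2657115411 0) (P.cons (P.lf 0 308092755 0) (P.cons (P.lf 20598357 0 0) (P.lf 6866109 0 0)))) (P.cons (P.cons (P.lf 200707470 0 0) (P.cons (P.lf 56549178 0 0) (P.cons (P.lf 0 3780741 0) (P.lf 0 1260240 0)))) (P.cons (P.cons (P.lf 20922693 0 0) (P.cons (P.lf 0 1998057 0) (P.cons (P.lf 133575 0 0) (P.lf 44520 0 0)))) (P.cons (P.cons (P.lf 0 2188227 0) (P.cons (P.lf 0 216828 0) (P.cons (P.lf 14496 0 0) P.nil))) (P.cons (P.cons (P.lf 3873 0 0) (P.cons (P.lf 18579 0 0) P.nil)) (P.cons (P.cons (P.lf 5676 0 0) P.nil) P.nil)))))) 13938)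
 (EL.cons 8 (TM.mk (P.cons (P.cons (P.lf 0 2392641969 0) (P.cons (P.lf 0 277427049 0) (P.cons (P.lf 18548130 0 0) (P.lf 6182712 0 0)))) (P.cons (P.cons (P.lf 0 65896176 0) (P.cons (P.lf 22324260 0 0) (P.cons (P.lf 0 1492548 0) (P.lf 0 497520 0)))) (P.cons (P.cons (P.lf 22940268 0 0) (P.cons (P.lf 1764906 0 0) (P.cons (P.lf 0 117993 0) (P.lf 0 39330 0)))) (P.cons (P.cons (P.lf 74274 0 0) (P.cons (P.lf 0 186834 0) (P.cons (P.lf 12486 0 0) P.nil))) (P.cons (P.cons (P.lf 0 75069 0) (P.cons (P.lf 0 684 0) P.nil)) (P.cons (P.cons (P.lf 1947 0 0) P.nil) P.nil)))))) 8667)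
 (EL.cons 11 (TM.mk (P.cons (P.cons (P.lf 910786830 0 0) (P.cons (P.lf 0 141012672 0) (P.cons (P.lf 0 67935459 0) (P.cons (P.lf 2570877 0 0) (P.lf 642717 0 0))))) (P.cons (P.cons (P.lf 0 130526226 0) (P.cons (P.lf 20208738 0 0) (P.cons (P.lf 9735930 0 0) (P.cons (P.lf 0 368436 0) (P.lf 0 92109 0))))) (P.cons (P.cons (P.lf 4289337 0 0) (P.cons (P.lf 0 664095 0) (P.cons (P.lf 0 319941 0) (P.cons (P.lf 12105 0 0) P.nil)))) (P.cons (P.cons (P.lf 132276 0 0) (P.cons (P.lf 0 20478 0) (P.cons (P.lf 0 9864 0) P.nil))) (P.cons (P.cons (P.lf 0 9831 0) (P.cons (P.lf 1521 0 0) P.nil)) (P.cons (P.cons (P.lf 132 0 0) P.nil) P.nil)))))) 4512)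
 EL.nil)))
noncomputable def S372_386_512_660_22 : EL := (EL.cons 4 (TM.mk (P.cons (P.cons (P.lf 0 485166267 0) (P.cons (P.lf 34621086 0 0) (P.cons (P.lf 8222412 0 0) (P.cons (P.lf 0 2180532 0) (P.cons (P.lf 0 422556 0) (P.cons (P.lf 31398 0 0) P.nil)))))) (P.cons (P.cons (P.lf 0 131833650 0) (P.cons (P.lf 0 35609811 0) (P.cons (P.lf 0 1818381 0) (P.cons (P.lf 1355088 0 0) (P.cons (P.lf 168393 0 0) P.nil))))) (P.cons (P.cons (P.lf 19020756 0 0) (P.cons (P.lf 5609607 0 0) (P.cons (P.lf 264636 0 0) (P.cons (P.lf 0 210549 0) P.nil)))) (P.cons (P.cons (P.lf 1184808 0 0) (P.cons (P.lf 0 49566 0) (P.cons (P.lf 0 33618 0) P.nil))) (P.cons (P.cons (P.lf 0 208767 0) (P.cons (P.lf 0 48957 0) P.nil)) (P.cons (P.cons (P.lf 897 0 0) P.nil) P.nil)))))) 96042)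
 (EL.cons 8 (TM.mk (P.cons (P.cons (P.lf 0 436875708 0) (P.cons (P.lf 31175106 0 0) (P.cons (P.lf 7404003 0 0) (P.cons (P.lf 0 1963491 0) (P.cons (P.lf 0 380496 0) (P.cons (P.lf 28272 0 0) P.nil)))))) (P.cons (P.cons (P.lf 0 163743564 0) (P.cons (P.lf 0 28851984 0) (P.cons (P.lf 0 874209 0) (P.cons (P.lf 1017819 0 0) (P.cons (P.lf 112410 0 0) P.nil))))) (P.cons (P.cons (P.lf 2238216 0 0) (P.cons (P.lf 1935357 0 0) (P.cons (P.lf 114480 0 0) (P.cons (P.lf 0 75738 0) P.nil)))) (P.cons (P.cons (P.lf 1929837 0 0) (P.cons (P.lf 294282 0 0) (P.cons (P.lf 0 12573 0) P.nil))) (P.cons (P.cons (P.lf 0 35235 0) (P.cons (P.lf 0 30495 0) P.nil)) (P.cons (P.cons (P.lf 0 8976 0) P.nil) P.nil)))))) 60552)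
 (EL.cons 11 (TM.mk (P.cons (P.cons (P.lf 166301787 0 0) (P.cons (P.lf 0 56897565 0) (P.cons (P.lf 0 5499036 0) (P.cons (P.lf 3164646 0 0) (P.cons (P.lf 0 233391 0) (P.cons (P.lf 0 67881 0) P.nil)))))) (P.cons (P.cons (P.lf 33917775 0 0) (P.cons (P.lf 5909013 0 0) (P.cons (P.lf 0 5003976 0) (P.cons (P.lf 0 869901 0) (P.cons (P.lf 149598 0 0) P.nil))))) (P.cons (P.cons (P.lf 0 8341197 0) (P.cons (P.lf 0 274872 0) (P.cons (P.lf 969390 0 0) (P.cons (P.lf 111975 0 0) P.nil)))) (P.cons (P.cons (P.lf 265269 0 0) (P.cons (P.lf 55110 0 0) (P.cons (P.lf 0 41106 0) P.nil))) (P.cons (P.cons (P.lf 30492 0 0) (P.cons (P.lf 0 5055 0) P.nil)) (P.cons (P.cons (P.lf 0 2220 0) P.nil) P.nil)))))) 84306)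
 EL.nil)))
noncomputable def S372_386_512_660_23 : EL := (EL.cons 4 (TM.mk (P.cons (P.cons (P.lf 0 1981526928 0) (P.cons (P.lf 0 229758213 0) (P.cons (P.lf 15361092 0 0) (P.lf 5120355 0 0)))) (P.cons (P.cons (P.lf 87414198 0 0) (P.cons (P.lf 34951890 0 0) (P.cons (P.lf 0 2336796 0) (P.lf 0 778926 0)))) (P.cons (P.cons (P.lf 23330214 0 0) (P.cons (P.lf 185694 0 0) (P.cons (P.lf 0 12420 0) (P.lf 0 4143 0)))) (P.cons (P.cons (P.lf 0 1401951 0) (P.cons (P.lf 0 276579 0) (P.cons (P.lf 18489 0 0) P.nil))) (P.cons (P.cons (P.lf 0 71166 0) (P.cons (P.lf 11568 0 0) P.nil)) (P.cons (P.cons (P.lf 7224 0 0) P.nil) P.nil)))))) 14997)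
 (EL.cons 8 (TM.mk (P.cons (P.cons (P.lf 0 1784297541 0) (P.cons (P.lf 0 206889456 0) (P.cons (P.lf 13832148 0 0) (P.lf 4610718 0 0)))) (P.cons (P.cons (P.lf 0 105206574 0) (P.cons (P.lf 10147440 0 0) (P.cons (P.lf 0 678432 0) (P.lf 0 226146 0)))) (P.cons (P.cons (P.lf 18286677 0 0) (P.cons (P.lf 2155029 0 0) (P.cons (P.lf 0 144075 0) (P.lf 0 48024 0)))) (P.cons (P.cons (P.lf 639183 0 0) (P.cons (P.lf 0 126714 0) (P.cons (P.lf 8466 0 0) P.nil))) (P.cons (P.cons (P.lf 0 82383 0) (P.cons (P.lf 0 6771 0) P.nil)) (P.cons (P.cons (P.lf 0 96 0) P.nil) P.nil)))))) 9282)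
 (EL.cons 11 (TM.mk (P.cons (P.cons (P.lf 679213488 0 0) (P.cons (P.lf 0 105159303 0) (P.cons (P.lf 0 50662434 0) (P.cons (P.lf 1917213 0 0) (P.lf 479301 0 0))))) (P.cons (P.cons (P.lf 0 75997341 0) (P.cons (P.lf 11766297 0 0) (P.cons (P.lf 5668629 0 0) (P.cons (P.lf 0 214515 0) (P.lf 0 53628 0))))) (P.cons (P.cons (P.lf 0 896394 0) (P.cons (P.lf 138786 0 0) (P.cons (P.lf 66861 0 0) (P.cons (P.lf 0 2532 0) P.nil)))) (P.cons (P.cons (P.lf 358653 0 0) (P.cons (P.lf 0 55527 0) (P.cons (P.lf 0 26748 0) P.nil))) (P.cons (P.cons (P.lf 0 10209 0) (P.cons (P.lf 1578 0 0) P.nil)) (P.cons (P.cons (P.lf 0 318 0) P.nil) P.nil)))))) 8187)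
 EL.nil)))
noncomputable def S372_386_512_660_24 : EL := (EL.cons 4 (TM.mk (P.cons (P.cons (P.lf 0 361809660 0) (P.cons (P.lf 25818453 0 0) (P.cons (P.lf 6131811 0 0) (P.cons (P.lf 0 1626117 0) (P.cons (P.lf 0 315117 0) (P.cons (P.lf 23415 0 0) P.nil)))))) (P.cons (P.cons (P.lf 0 109682631 0) (P.cons (P.lf 0 25744539 0) (P.cons (P.lf 0 1163379 0) (P.cons (P.lf 959451 0 0) (P.cons (P.lf 115677 0 0) P.nil))))) (P.cons (P.cons (P.lf 11647650 0 0) (P.cons (P.lf 3309507 0 0) (P.cons (P.lf 145383 0 0) (P.cons (P.lf 0 122778 0) P.nil)))) (P.cons (P.cons (P.lf 1473480 0 0) (P.cons (P.lf 135426 0 0) (P.cons (P.lf 0 16701 0) P.nil))) (P.cons (P.cons (P.lf 0 151410 0) (P.cons (P.lf 0 44466 0) P.nil)) (P.cons (P.cons (P.lf 0 5397 0) P.nil) P.nil)))))) 65868)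
 (EL.cons 8 (TM.mk (P.cons (P.cons (P.lf 0 325797282 0) (P.cons (P.lf 23248638 0 0) (P.cons (P.lf 5521488 0 0) (P.cons (P.lf 0 1464261 0) (P.cons (P.lf 0 283752 0) (P.cons (P.lf 21084 0 0) P.nil)))))) (P.cons (P.cons (P.lf 0 132347691 0) (P.cons (P.lf 0 20785680 0) (P.cons (P.lf 0 478443 0) (P.cons (P.lf 713022 0 0) (P.cons (P.lf 74913 0 0) P.nil))))) (P.cons (P.cons (P.lf 0 1670502 0) (P.cons (P.lf 731730 0 0) (P.cons (P.lf 56460 0 0) (P.cons (P.lf 0 30396 0) P.nil)))) (P.cons (P.cons (P.lf 1672728 0 0) (P.cons (P.lf 298020 0 0) (P.cons (P.lf 0 5610 0) P.nil))) (P.cons (P.cons (P.lf 14199 0 0) (P.cons (P.lf 0 18378 0) P.nil)) (P.cons (P.cons (P.lf 0 9765 0) P.nil) P.nil)))))) 42015)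
 (EL.cons 11 (TM.mk (P.cons (P.cons (P.lf 124018500 0 0) (P.cons (P.lf 0 42430998 0) (P.cons (P.lf 0 4100871 0) (P.cons (P.lf 2360013 0 0) (P.cons (P.lf 0 174051 0) (P.cons (P.lf 0 50622 0) P.nil)))))) (P.cons (P.cons (P.lf 29190783 0 0) (P.cons (P.lf 3073371 0 0) (P.cons (P.lf 0 3860538 0) (P.cons (P.lf 0 574569 0) (P.cons (P.lf 106092 0 0) P.nil))))) (P.cons (P.cons (P.lf 0 5614905 0) (P.cons (P.lf 0 1764 0) (P.cons (P.lf 611919 0 0) (P.cons (P.lf 59520 0 0) P.nil)))) (P.cons (P.cons (P.lf 0 34233 0) (P.cons (P.lf 27246 0 0) (P.cons (P.lf 0 2310 0) P.nil))) (P.cons (P.cons (P.lf 38940 0 0) (P.cons (P.lf 0 2124 0) P.nil)) (P.cons (P.cons (P.lf 0 1329 0) P.nil) P.nil)))))) 57330)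
 EL.nil)))
noncomputable def S372_386_512_660_25 : EL := (EL.cons 4 (TM.mk (P.cons (P.cons (P.lf 0 1477711113 0) (P.cons (P.lf 0 171340725 0) (P.cons (P.lf 11455437 0 0) (P.lf 3818472 0 0)))) (P.cons (P.cons (P.lf 18757002 0 0) (P.cons (P.lf 20681403 0 0) (P.cons (P.lf 0 1382706 0) (P.lf 0 460899 0)))) (P.cons (P.cons (P.lf 21701964 0 0) (P.cons (P.lf 1218981 0 0) (P.cons (P.lf 0 81501 0) (P.lf 0 27168 0)))) (P.cons (P.cons (P.lf 0 622119 0) (P.cons (P.lf 0 244446 0) (P.cons (P.lf 16341 0 0) P.nil))) (P.cons (P.cons (P.lf 0 112452 0) (P.cons (P.lf 2235 0 0) P.nil)) (P.cons (P.cons (P.lf 5685 0 0) P.nil) P.nil)))))) 14166)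
 (EL.cons 8 (TM.mk (P.cons (P.cons (P.lf 0 1330628550 0) (P.cons (P.lf 0 154286496 0) (P.cons (P.lf 10315236 0 0) (P.lf 3438411 0 0)))) (P.cons (P.cons (P.lf 0 120267192 0) (P.cons (P.lf 2719509 0 0) (P.cons (P.lf 0 181818 0) (P.lf 0 60606 0)))) (P.cons (P.cons (P.lf 13202769 0 0) (P.cons (P.lf 2080350 0 0) (P.cons (P.lf 0 139083 0) (P.lf 0 46359 0)))) (P.cons (P.cons (P.lf 1003467 0 0) (P.cons (P.lf 0 58035 0) (P.cons (P.lf 3876 0 0) P.nil))) (P.cons (P.cons (P.lf 0 69462 0) (P.cons (P.lf 0 10455 0) P.nil)) (P.cons (P.cons (P.lf 0 2526 0) P.nil) P.nil)))))) 8817)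
 (EL.cons 11 (TM.mk (P.cons (P.cons (P.lf 506519142 0 0) (P.cons (P.lf 0 78421881 0) (P.cons (P.lf 0 37781190 0) (P.cons (P.lf 1429749 0 0) (P.lf 357435 0 0))))) (P.cons (P.cons (P.lf 0 40759053 0) (P.cons (P.lf 6310524 0 0) (P.cons (P.lf 3040209 0 0) (P.cons (P.lf 0 115050 0) (P.lf 0 28761 0))))) (P.cons (P.cons (P.lf 0 3222321 0) (P.cons (P.lf 498897 0 0) (P.cons (P.lf 240351 0 0) (P.cons (P.lf 0 9096 0) P.nil)))) (P.cons (P.cons (P.lf 341118 0 0) (P.cons (P.lf 0 52812 0) (P.cons (P.lf 0 25440 0) P.nil))) (P.cons (P.cons (P.lf 1248 0 0) (P.cons (P.lf 0 192 0) P.nil)) (P.cons (P.cons (P.lf 0 948 0) P.nil) P.nil)))))) 9321)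
 EL.nil)))
noncomputable def S372_386_512_660_26 : EL := (EL.cons 4 (TM.mk (P.cons (P.cons (P.lf 0 269817255 0) (P.cons (P.lf 19253949 0 0) (P.cons (P.lf 4572759 0 0) (P.cons (P.lf 0 1212666 0) (P.cons (P.lf 0 234996 0) (P.cons (P.lf 17460 0 0) P.nil)))))) (P.cons (P.cons (P.lf 0 90273129 0) (P.cons (P.lf 0 18593844 0) (P.cons (P.lf 0 723900 0) (P.cons (P.lf 677400 0 0) (P.cons (P.lf 78879 0 0) P.nil))))) (P.cons (P.cons (P.lf 6527850 0 0) (P.cons (P.lf 1835406 0 0) (P.cons (P.lf 74178 0 0) (P.cons (P.lf 0 67230 0) P.nil)))) (P.cons (P.cons (P.lf 1492257 0 0) (P.cons (P.lf 208152 0 0) (P.cons (P.lf 0 7650 0) P.nil))) (P.cons (P.cons (P.lf 0 93147 0) (P.cons (P.lf 0 34047 0) P.nil)) (P.cons (P.cons (P.lf 0 9159 0) P.nil) P.nil)))))) 47592)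
 (EL.cons 8 (TM.mk (P.cons (P.cons (P.lf 0 242961252 0) (P.cons (P.lf 17337522 0 0) (P.cons (P.lf 4117614 0 0) (P.cons (P.lf 0 1091964 0) (P.cons (P.lf 0 211605 0) (P.cons (P.lf 15723 0 0) P.nil)))))) (P.cons (P.cons (P.lf 0 106331604 0) (P.cons (P.lf 0 14956023 0) (P.cons (P.lf 0 227415 0) (P.cons (P.lf 497421 0 0) (P.cons (P.lf 49218 0 0) P.nil))))) (P.cons (P.cons (P.lf 0 3976158 0) (P.cons (P.lf 32169 0 0) (P.cons (P.lf 24609 0 0) (P.cons (P.lf 0 4293 0) P.nil)))) (P.cons (P.cons (P.lf 1355001 0 0) (P.cons (P.lf 263328 0 0) (P.cons (P.lf 0 2250 0) P.nil))) (P.cons (P.cons (P.lf 49926 0 0) (P.cons (P.lf 0 7794 0) P.nil)) (P.cons (P.cons (P.lf 0 8934 0) P.nil) P.nil)))))) 30546)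
 (EL.cons 11 (TM.mk (P.cons (P.cons (P.lf 92486010 0 0) (P.cons (P.lf 0 31642647 0) (P.cons (P.lf 0 3058197 0) (P.cons (P.lf 1759965 0 0) (P.cons (P.lf 0 129795 0) (P.cons (P.lf 0 37752 0) P.nil)))))) (P.cons (P.cons (P.lf 24674871 0 0) (P.cons (P.lf 1297695 0 0) (P.cons (P.lf 0 2975064 0) (P.cons (P.lf 0 373179 0) (P.cons (P.lf 75039 0 0) P.nil))))) (P.cons (P.cons (P.lf 0 3644427 0) (P.cons (P.lf 118992 0 0) (P.cons (P.lf 370542 0 0) (P.cons (P.lf 28236 0 0) P.nil)))) (P.cons (P.cons (P.lf 0 188832 0) (P.cons (P.lf 16269 0 0) (P.cons (P.lf 16959 0 0) P.nil))) (P.cons (P.cons (P.lf 35043 0 0) (P.cons (P.lf 0 927 0) P.nil)) (P.cons (P.cons (P.lf 0 93 0) P.nil) P.nil)))))) 41088)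
 EL.nil)))
noncomputable def S372_386_512_660_27 : EL := (EL.cons 13 (TM.mk (P.lf 0 4294967296 0) 0)
 EL.nil)
noncomputable def S372_386_512_660_28 : EL := (EL.cons 13 (TM.mk (P.cons (P.cons (P.lf 0 784223844 0) (P.cons (P.lf 146892424 0 0) (P.cons (P.lf 0 9820884 0) (P.lf 0 3273624 0)))) (P.cons (P.cons (P.lf 0 272333224 0) (P.cons (P.lf 0 31577060 0) (P.cons (P.lf 2111168 0 0) (P.lf 703720 0 0)))) (P.cons (P.cons (P.lf 3999127 0 0) (P.cons (P.lf 2169016 0 0) (P.cons (P.lf 0 145012 0) (P.lf 0 48336 0)))) (P.cons (P.cons (P.lf 718631 0 0) (P.cons (P.lf 0 15332 0) (P.cons (P.lf 1024 0 0) P.nil))) (P.cons (P.cons (P.lf 0 28551 0) (P.cons (P.lf 0 4660 0) P.nil)) (P.cons (P.cons (P.lf 0 409 0) P.nil) P.nil)))))) 2963)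
 EL.nil)
noncomputable def S372_386_512_660_29 : EL := (EL.cons 13 (TM.mk (P.cons (P.cons (P.lf 0 143192484 0) (P.cons (P.lf 53642569 0 0) (P.cons (P.lf 0 8610293 0) (P.cons (P.lf 0 523701 0) (P.cons (P.lf 201466 0 0) (P.cons (P.lf 0 14970 0) P.nil)))))) (P.cons (P.cons (P.lf 0 99451377 0) (P.cons (P.lf 7096773 0 0) (P.cons (P.lf 1685463 0 0) (P.cons (P.lf 0 446975 0) (P.cons (P.lf 0 86617 0) P.nil))))) (P.cons (P.cons (P.lf 0 15807562 0) (P.cons (P.lf 0 3485907 0) (P.cons (P.lf 0 147462 0) (P.cons (P.lf 128568 0 0) P.nil)))) (P.cons (P.cons (P.lf 769581 0 0) (P.cons (P.lf 279113 0 0) (P.cons (P.lf 14281 0 0) P.nil))) (P.cons (P.cons (P.lf 76983 0 0) (P.cons (P.lf 4834 0 0) P.nil)) (P.cons (P.cons (P.lf 0 5108 0) P.nil) P.nil)))))) 52193)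
 EL.nil)
noncomputable def S372_386_512_660_30 : EL := (EL.cons 13 (TM.mk (P.cons (P.lf 0 3202944564 0) (P.cons (P.lf 0 100640632 0) (P.cons (P.lf 4888368 0 0) (P.cons (P.lf 0 51604 0) (P.cons (P.lf 0 2228 0) (P.cons (P.lf 92 0 0) P.nil)))))) 64)
 EL.nil)
noncomputable def S372_386_512_660_31 : EL := (EL.cons 13 (TM.mk (P.cons (P.cons (P.lf 0 584829947 0) (P.cons (P.lf 109544091 0 0) (P.cons (P.lf 0 7323861 0) (P.lf 0 2441284 0)))) (P.cons (P.cons (P.lf 0 221466879 0) (P.cons (P.lf 0 20106375 0) (P.cons (P.lf 1344264 0 0) (P.lf 448086 0 0)))) (P.cons (P.cons (P.lf 0 2506475 0) (P.cons (P.lf 710421 0 0) (P.cons (P.lf 0 47494 0) (P.lf 0 15830 0)))) (P.cons (P.cons (P.lf 930159 0 0) (P.cons (P.lf 77095 0 0) (P.cons (P.lf 0 5155 0) P.nil))) (P.cons (P.cons (P.lf 0 12683 0) (P.cons (P.lf 0 6606 0) P.nil)) (P.cons (P.cons (P.lf 0 1868 0) P.nil) P.nil)))))) 4822)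
 EL.nil)
noncomputable def S372_386_512_660_32 : EL := (EL.cons 13 (TM.mk (P.cons (P.cons (P.lf 0 106784884 0) (P.cons (P.lf 40003604 0 0) (P.cons (P.lf 0 6421071 0) (P.cons (P.lf 0 390546 0) (P.cons (P.lf 150241 0 0) (P.cons (P.lf 0 11163 0) P.nil)))))) (P.cons (P.cons (P.lf 0 77520550 0) (P.cons (P.lf 6549338 0 0) (P.cons (P.lf 1055165 0 0) (P.cons (P.lf 0 345600 0) (P.cons (P.lf 0 59873 0) P.nil))))) (P.cons (P.cons (P.lf 0 13955779 0) (P.cons (P.lf 0 2494353 0) (P.cons (P.lf 0 60674 0) (P.cons (P.lf 86001 0 0) P.nil)))) (P.cons (P.cons (P.lf 314975 0 0) (P.cons (P.lf 119031 0 0) (P.cons (P.lf 5172 0 0) P.nil))) (P.cons (P.cons (P.lf 92164 0 0) (P.cons (P.lf 14225 0 0) P.nil)) (P.cons (P.cons (P.lf 0 3119 0) P.nil) P.nil)))))) 47913)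
 EL.nil)
noncomputable def S372_386_512_660_33 : EL := (EL.cons 14 (TM.mk (P.lf 8589934592 0 0) 0)
 EL.nil)
noncomputable def S372_386_512_660_34 : EL := (EL.cons 14 (TM.mk (P.cons (P.cons (P.lf 1568447688 0 0) (P.cons (P.lf 0 293784848 0) (P.cons (P.lf 19641768 0 0) (P.lf 6547248 0 0)))) (P.cons (P.cons (P.lf 544666448 0 0) (P.cons (P.lf 63154120 0 0) (P.cons (P.lf 0 4222336 0) (P.lf 0 1407440 0)))) (P.cons (P.cons (P.lf 0 7998254 0) (P.cons (P.lf 0 4338032 0) (P.cons (P.lf 290024 0 0) (P.lf 96672 0 0)))) (P.cons (P.cons (P.lf 0 1437262 0) (P.cons (P.lf 30664 0 0) (P.cons (P.lf 0 2048 0) P.nil))) (P.cons (P.cons (P.lf 57102 0 0) (P.cons (P.lf 9320 0 0) P.nil)) (P.cons (P.cons (P.lf 818 0 0) P.nil) P.nil)))))) 5926)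
 EL.nil)
noncomputable def S372_386_512_660_35 : EL := (EL.cons 14 (TM.mk (P.cons (P.cons (P.lf 286384968 0 0) (P.cons (P.lf 0 107285138 0) (P.cons (P.lf 17220586 0 0) (P.cons (P.lf 1047402 0 0) (P.cons (P.lf 0 402932 0) (P.cons (P.lf 29940 0 0) P.nil)))))) (P.cons (P.cons (P.lf 198902754 0 0) (P.cons (P.lf 0 14193546 0) (P.cons (P.lf 0 3370926 0) (P.cons (P.lf 893950 0 0) (P.cons (P.lf 173234 0 0) P.nil))))) (P.cons (P.cons (P.lf 31615124 0 0) (P.cons (P.lf 6971814 0 0) (P.cons (P.lf 294924 0 0) (P.cons (P.lf 0 257136 0) P.nil)))) (P.cons (P.cons (P.lf 0 1539162 0) (P.cons (P.lf 0 558226 0) (P.cons (P.lf 0 28562 0) P.nil))) (P.cons (P.cons (P.lf 0 153966 0) (P.cons (P.lf 0 9668 0) P.nil)) (P.cons (P.cons (P.lf 10216 0 0) P.nil) P.nil)))))) 104386)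
 EL.nil)
noncomputable def S372_386_512_660_36 : EL := (EL.cons 14 (TM.mk (P.cons (P.lf 6405889128 0 0) (P.cons (P.lf 201281264 0 0) (P.cons (P.lf 0 9776736 0) (P.cons (P.lf 103208 0 0) (P.cons (P.lf 4456 0 0) (P.cons (P.lf 0 184 0) P.nil)))))) 128)
 EL.nil)
noncomputable def S372_386_512_660_37 : EL := (EL.cons 14 (TM.mk (P.cons (P.cons (P.lf 1169659894 0 0) (P.cons (P.lf 0 219088182 0) (P.cons (P.lf 14647722 0 0) (P.lf 4882568 0 0)))) (P.cons (P.cons (P.lf 442933758 0 0) (P.cons (P.lf 40212750 0 0) (P.cons (P.lf 0 2688528 0) (P.lf 0 896172 0)))) (P.cons (P.cons (P.lf 5012950 0 0) (P.cons (P.lf 0 1420842 0) (P.cons (P.lf 94988 0 0) (P.lf 31660 0 0)))) (P.cons (P.cons (P.lf 0 1860318 0) (P.cons (P.lf 0 154190 0) (P.cons (P.lf 10310 0 0) P.nil))) (P.cons (P.cons (P.lf 25366 0 0) (P.cons (P.lf 13212 0 0) P.nil)) (P.cons (P.cons (P.lf 3736 0 0) P.nil) P.nil))))))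 9644)
 EL.nil)
noncomputable def S372_386_512_660_38 : EL := (EL.cons 14 (TM.mk (P.cons (P.cons (P.lf 213569768 0 0) (P.cons (P.lf 0 80007208 0) (P.cons (P.lf 12842142 0 0) (P.cons (P.lf 781092 0 0) (P.cons (P.lf 0 300482 0) (P.cons (P.lf 22326 0 0) P.nil)))))) (P.cons (P.cons (P.lf 155041100 0 0) (P.cons (P.lf 0 13098676 0) (P.cons (P.lf 0 2110330 0) (P.cons (P.lf 691200 0 0) (P.cons (P.lf 119746 0 0) P.nil))))) (P.cons (P.cons (P.lf 27911558 0 0) (P.cons (P.lf 4988706 0 0) (P.cons (P.lf 121348 0 0) (P.cons (P.lf 0 172002 0) P.nil)))) (P.cons (P.cons (P.lf 0 629950 0) (P.cons (P.lf 0 238062 0) (P.cons (P.lf 0 10344 0) P.nil))) (P.cons (P.cons (P.lf 0 184328 0) (P.cons (P.lf 0 28450 0) P.nil)) (P.cons (P.cons (P.lf 6238 0 0) P.nil) P.nil)))))) 95826)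
 EL.nil)
noncomputable def S372_386_512_660_39 : EL := (EL.cons 14 (TM.mk (P.cons (P.lf 4777151104 0 0) (P.cons (P.lf 300208446 0 0) (P.cons (P.lf 0 9865408 0) (P.cons (P.lf 0 304246 0) (P.cons (P.lf 22610 0 0) (P.cons (P.lf 0 300 0) P.nil)))))) 230)
 EL.nil)
noncomputable def S372_386_512_660_40 : EL := (EL.cons 14 (TM.mk (P.cons (P.cons (P.lf 872266432 0 0) (P.cons (P.lf 0 163383620 0) (P.cons (P.lf 10923446 0 0) (P.lf 3641144 0 0)))) (P.cons (P.cons (P.lf 357722766 0 0) (P.cons (P.lf 24854680 0 0) (P.cons (P.lf 0 1661724 0) (P.lf 0 553904 0)))) (P.cons (P.cons (P.lf 12786036 0 0) (P.cons (P.lf 132046 0 0) (P.cons (P.lf 0 8832 0) (P.lf 0 2944 0)))) (P.cons (P.cons (P.lf 0 1759932 0) (P.cons (P.lf 0 196682 0) (P.cons (P.lf 13150 0 0) P.nil))) (P.cons (P.cons (P.lf 0 24450 0) (P.cons (P.lf 8226 0 0) P.nil)) (P.cons (P.cons (P.lf 5762 0 0) P.nil) P.nil))))))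 10568)
 EL.nil)
noncomputable def S372_386_512_660_41 : EL := (EL.cons 14 (TM.mk (P.cons (P.cons (P.lf 159268298 0 0) (P.cons (P.lf 0 59664868 0) (P.cons (P.lf 9576946 0 0) (P.cons (P.lf 582494 0 0) (P.cons (P.lf 0 224084 0) (P.cons (P.lf 16650 0 0) P.nil)))))) (P.cons (P.cons (P.lf 120625330 0 0) (P.cons (P.lf 0 11643000 0) (P.cons (P.lf 0 1272844 0) (P.cons (P.lf 533760 0 0) (P.cons (P.lf 82258 0 0) P.nil))))) (P.cons (P.cons (P.lf 24204748 0 0) (P.cons (P.lf 3504426 0 0) (P.cons (P.lf 26428 0 0) (P.cons (P.lf 0 112962 0) P.nil)))) (P.cons (P.cons (P.lf 10352 0 0) (P.cons (P.lf 0 46690 0) (P.cons (P.lf 0 2314 0) P.nil))) (P.cons (P.cons (P.lf 0 182018 0) (P.cons (P.lf 0 32672 0) P.nil)) (P.cons (P.cons (P.lf 1460 0 0) P.nil) P.nil)))))) 83674)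
 EL.nil)
noncomputable def S372_386_512_660_42 : EL := (EL.cons 14 (TM.mk (P.cons (P.lf 3562530074 0 0) (P.cons (P.lf 335817810 0 0) (P.cons (P.lf 0 5759684 0) (P.cons (P.lf 0 742346 0) (P.cons (P.lf 27044 0 0) (P.cons (P.lf 586 0 0) P.nil)))))) 314)
 EL.nil)
noncomputable def S372_386_512_660_43 : EL := (EL.cons 14 (TM.mk (P.cons (P.cons (P.lf 650487148 0 0) (P.cons (P.lf 0 121842296 0) (P.cons (P.lf 8146090 0 0) (P.lf 2715360 0 0)))) (P.cons (P.cons (P.lf 287208620 0 0) (P.cons (P.lf 14706778 0 0) (P.cons (P.lf 0 983260 0) (P.lf 0 327750 0)))) (P.cons (P.cons (P.lf 16924564 0 0) (P.cons (P.lf 866830 0 0) (P.cons (P.lf 0 57956 0) (P.lf 0 19318 0)))) (P.cons (P.cons (P.lf 0 1409518 0) (P.cons (P.lf 0 173830 0) (P.cons (P.lf 11622 0 0) P.nil))) (P.cons (P.cons (P.lf 0 69276 0) (P.cons (P.lf 1590 0 0) P.nil)) (P.cons (P.cons (P.lf 6048 0 0) P.nil) P.nil))))))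 10350)
 EL.nil)
noncomputable def S372_386_512_660_44 : EL := (EL.cons 14 (TM.mk (P.cons (P.cons (P.lf 118773320 0 0) (P.cons (P.lf 0 44494696 0) (P.cons (P.lf 7141946 0 0) (P.cons (P.lf 434392 0 0) (P.cons (P.lf 0 167108 0) (P.cons (P.lf 12416 0 0) P.nil)))))) (P.cons (P.cons (P.lf 93687582 0 0) (P.cons (P.lf 0 10080774 0) (P.cons (P.lf 0 724806 0) (P.cons (P.lf 411698 0 0) (P.cons (P.lf 56092 0 0) P.nil))))) (P.cons (P.cons (P.lf 20695782 0 0) (P.cons (P.lf 2408490 0 0) (P.cons (P.lf 0 21016 0) (P.cons (P.lf 0 72396 0) P.nil)))) (P.cons (P.cons (P.lf 439514 0 0) (P.cons (P.lf 59832 0 0) (P.cons (P.lf 456 0 0) P.nil))) (P.cons (P.cons (P.lf 0 161512 0) (P.cons (P.lf 0 29618 0) P.nil)) (P.cons (P.cons (P.lf 0 2836 0) P.nil) P.nil)))))) 70930)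
 EL.nil)
noncomputable def S372_386_512_660_45 : EL := (EL.cons 14 (TM.mk (P.cons (P.cons (P.lf 52291414 0 0) (P.cons (P.lf 0 29384006 0) (P.cons (P.lf 7468442 0 0) (P.cons (P.lf 0 424750 0) (P.cons (P.lf 0 151790 0) (P.cons (P.lf 34768 0 0) P.nil)))))) (P.cons (P.cons (P.lf 54476880 0 0) (P.cons (P.lf 0 14091454 0) (P.cons (P.lf 487114 0 0) (P.cons (P.lf 596498 0 0) (P.cons (P.lf 0 26202 0) P.nil))))) (P.cons (P.cons (P.lf 18117918 0 0) (P.cons (P.lf 709366 0 0) (P.cons (P.lf 0 480350 0) (P.cons (P.lf 0 20782 0) P.nil)))) (P.cons (P.cons (P.lf 1490478 0 0) (P.cons (P.lf 556956 0 0) (P.cons (P.lf 78464 0 0) P.nil))) (P.cons (P.cons (P.lf 0 186520 0) (P.cons (P.lf 0 62986 0) P.nil)) (P.cons (P.cons (P.lf 0 10404 0) P.nil) P.nil)))))) 162042)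
 EL.nil)
noncomputable def S372_386_512_660_46 : EL := (EL.cons 15 (TM.mk (P.lf 4294967296 0 0) 0)
 EL.nil)
noncomputable def S372_386_512_660_47 : EL := (EL.cons 15 (TM.mk (P.cons (P.cons (P.lf 784223844 0 0) (P.cons (P.lf 0 146892424 0) (P.cons (P.lf 9820884 0 0) (P.lf 3273624 0 0)))) (P.cons (P.cons (P.lf 272333224 0 0) (P.cons (P.lf 31577060 0 0) (P.cons (P.lf 0 2111168 0) (P.lf 0 703720 0)))) (P.cons (P.cons (P.lf 0 3999127 0) (P.cons (P.lf 0 2169016 0) (P.cons (P.lf 145012 0 0) (P.lf 48336 0 0)))) (P.cons (P.cons (P.lf 0 718631 0) (P.cons (P.lf 15332 0 0) (P.cons (P.lf 0 1024 0) P.nil))) (P.cons (P.cons (P.lf 28551 0 0) (P.cons (P.lf 4660 0 0) P.nil)) (P.cons (P.cons (P.lf 409 0 0) P.nil) P.nil)))))) 2963)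
 EL.nil)
noncomputable def S372_386_512_660_48 : EL := (EL.cons 15 (TM.mk (P.cons (P.cons (P.lf 143192484 0 0) (P.cons (P.lf 0 53642569 0) (P.cons (P.lf 8610293 0 0) (P.cons (P.lf 523701 0 0) (P.cons (P.lf 0 201466 0) (P.cons (P.lf 14970 0 0) P.nil)))))) (P.cons (P.cons (P.lf 99451377 0 0) (P.cons (P.lf 0 7096773 0) (P.cons (P.lf 0 1685463 0) (P.cons (P.lf 446975 0 0) (P.cons (P.lf 86617 0 0) P.nil))))) (P.cons (P.cons (P.lf 15807562 0 0) (P.cons (P.lf 3485907 0 0) (P.cons (P.lf 147462 0 0) (P.cons (P.lf 0 128568 0) P.nil)))) (P.cons (P.cons (P.lf 0 769581 0) (P.cons (P.lf 0 279113 0) (P.cons (P.lf 0 14281 0) P.nil))) (P.cons (P.cons (P.lf 0 76983 0) (P.cons (P.lf 0 4834 0) P.nil)) (P.cons (P.cons (P.lf 5108 0 0) P.nil) P.nil)))))) 52193)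
 EL.nil)
noncomputable def S372_386_512_660 : SL := (SL.cons S372_386_512_660_0 (SL.cons S372_386_512_660_1 (SL.cons S372_386_512_660_2 (SL.cons S372_386_512_660_3 (SL.cons S372_386_512_660_4 (SL.cons S372_386_512_660_5 (SL.cons S372_386_512_660_6 (SL.cons S372_386_512_660_7 (SL.cons S372_386_512_660_8 (SL.cons S372_386_512_660_9 (SL.cons S372_386_512_660_10 (SL.cons S372_386_512_660_11 (SL.cons S372_386_512_660_12 (SL.cons S372_386_512_660_13 (SL.cons S372_386_512_660_14 (SL.cons S372_386_512_660_15 (SL.cons S372_386_512_660_16 (SL.cons S372_386_512_660_17 (SL.cons S372_386_512_660_18 (SL.cons S372_386_512_660_19 (SL.cons S372_386_512_660_20 (SL.cons S372_386_512_660_21 (SL.cons S372_386_512_660_22 (SL.cons S372_386_512_660_23 (SL.cons S372_386_512_660_24 (SL.cons S372_386_512_660_25 (SL.cons S372_386_512_660_26 (SL.cons S372_386_512_660_27 (SL.cons S372_386_512_660_28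 (SL.cons S372_386_512_660_29 (SL.cons S372_386_512_660_30 (SL.cons S372_386_512_660_31 (SL.cons S372_386_512_660_32 (SL.cons S372_386_512_660_33 (SL.cons S372_386_512_660_34 (SL.cons S372_386_512_660_35 (SL.cons S372_386_512_660_36 (SL.cons S372_386_512_660_37 (SL.cons S372_386_512_660_38 (SL.cons S372_386_512_660_39 (SL.cons S372_386_512_660_40 (SL.cons S372_386_512_660_41 (SL.cons S372_386_512_660_42 (SL.cons S372_386_512_660_43 (SL.cons S372_386_512_660_44 (SL.cons S372_386_512_660_45 (SL.cons S372_386_512_660_46 (SL.cons S372_386_512_660_47 (SL.cons S372_386_512_660_48 SL.nil)))))))))))))))))))))))))))))))))))))))))))))))))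
noncomputable def S372_386_660_808_0 : EL := (EL.cons 0 (TM.mk (P.cons (P.lf 4257048901 0 0) (P.cons (P.lf 0 263855079 0) (P.cons (P.lf 8670768 0 0) (P.cons (P.lf 267403 0 0) (P.cons (P.lf 0 19872 0) (P.cons (P.lf 263 0 0) P.nil)))))) 209)
 (EL.cons 1 (TM.mk (P.cons (P.lf 1657874694 0 0) (P.cons (P.lf 0 66703704 0) (P.cons (P.lf 0 6615345 0) (P.cons (P.lf 292091 0 0) (P.cons (P.lf 596 0 0) (P.cons (P.lf 0 360 0) P.nil)))))) 128)
 (EL.cons 5 (TM.mk (P.cons (P.lf 5787827018 0 0) (P.cons (P.lf 93815138 0 0) (P.cons (P.lf 0 3082942 0) (P.cons (P.lf 0 95074 0) (P.cons (P.lf 7066 0 0) (P.cons (P.lf 0 96 0) P.nil)))))) 77)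
 (EL.cons 9 (TM.mk (P.lf 6442450944 0 0) 2)
 EL.nil))))
noncomputable def S372_386_660_808_1 : EL := (EL.cons 0 (TM.mk (P.cons (P.cons (P.lf 4935946237 0 0) (P.cons (P.lf 132658022 0 0) (P.cons (P.lf 0 57203632 0) (P.lf 0 6355942 0)))) (P.cons (P.cons (P.lf 18662453 0 0) (P.cons (P.lf 0 11727252 0) (P.cons (P.lf 5056914 0 0) (P.lf 561867 0 0)))) (P.cons (P.cons (P.lf 0 70213859 0) (P.cons (P.lf 0 2202187 0) (P.cons (P.lf 949611 0 0) (P.lf 105517 0 0)))) (P.cons (P.cons (P.lf 3882313 0 0) (P.cons (P.lf 335650 0 0) (P.cons (P.lf 0 144740 0) P.nil))) (P.cons (P.cons (P.lf 180441 0 0) (P.cons (P.lf 0 9173 0) P.nil)) (P.cons (P.cons (P.lf 0 20606 0) P.nil) P.nil)))))) 50407)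
 (EL.cons 1 (TM.mk (P.cons (P.cons (P.lf 1323116560 0 0) (P.cons (P.lf 24283124 0 0) (P.cons (P.lf 0 10471156 0) (P.lf 0 1163471 0)))) (P.cons (P.cons (P.lf 340981952 0 0) (P.cons (P.lf 12401658 0 0) (P.cons (P.lf 0 5347733 0) (P.lf 0 594184 0)))) (P.cons (P.cons (P.lf 0 29583251 0) (P.cons (P.lf 0 2220500 0) (P.cons (P.lf 957500 0 0) (P.lf 106382 0 0)))) (P.cons (P.cons (P.lf 0 2141736 0) (P.cons (P.lf 33139 0 0) (P.cons (P.lf 0 14285 0) P.nil))) (P.cons (P.cons (P.lf 208645 0 0) (P.cons (P.lf 11115 0 0) P.nil)) (P.cons (P.cons (P.lf 413 0 0) P.nil) P.nil)))))) 22714)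
 (EL.cons 5 (TM.mk (P.cons (P.cons (P.lf 0 809953452 0) (P.cons (P.lf 0 163320376 0) (P.cons (P.lf 70425586 0 0) (P.lf 7825056 0 0)))) (P.cons (P.cons (P.lf 539766384 0 0) (P.cons (P.lf 29138798 0 0) (P.cons (P.lf 0 12564976 0) (P.lf 0 1396106 0)))) (P.cons (P.cons (P.lf 12435247 0 0) (P.cons (P.lf 0 932124 0) (P.cons (P.lf 401946 0 0) (P.lf 44664 0 0)))) (P.cons (P.cons (P.lf 0 2561542 0) (P.cons (P.lf 0 107220 0) (P.cons (P.lf 46234 0 0) P.nil))) (P.cons (P.cons (P.lf 0 3289 0) (P.cons (P.lf 6946 0 0) P.nil)) (P.cons (P.cons (P.lf 7499 0 0) P.nil) P.nil)))))) 18343)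
 (EL.cons 9 (TM.mk (P.cons (P.cons (P.lf 833867340 0 0) (P.cons (P.lf 0 102488004 0) (P.cons (P.lf 44193984 0 0) (P.lf 4910436 0 0)))) (P.cons (P.cons (P.lf 482119332 0 0) (P.cons (P.lf 22031562 0 0) (P.cons (P.lf 0 9500256 0) (P.lf 0 1055580 0)))) (P.cons (P.cons (P.lf 0 11055592 0) (P.cons (P.lf 0 1513338 0) (P.cons (P.lf 652566 0 0) (P.lf 72504 0 0)))) (P.cons (P.cons (P.lf 0 1042198 0) (P.cons (P.lf 10698 0 0) (P.cons (P.lf 0 4608 0) P.nil))) (P.cons (P.cons (P.lf 53692 0 0) (P.cons (P.lf 3246 0 0) P.nil)) (P.cons (P.cons (P.lf 157 0 0) P.nil) P.nil)))))) 5321)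
 (EL.cons 2 (TM.mk (P.cons (P.cons (P.lf 0 271173487 0) (P.cons (P.lf 252623190 0 0) (P.cons (P.lf 25927354 0 0) (P.cons (P.lf 0 5392167 0) (P.lf 0 449344 0))))) (P.cons (P.cons (P.lf 30341657 0 0) (P.cons (P.lf 0 28266060 0) (P.cons (P.lf 0 2901015 0) (P.cons (P.lf 603329 0 0) (P.lf 50276 0 0))))) (P.cons (P.cons (P.lf 357882 0 0) (P.cons (P.lf 0 333399 0) (P.cons (P.lf 0 34219 0) (P.cons (P.lf 7115 0 0) P.nil)))) (P.cons (P.cons (P.lf 0 143190 0) (P.cons (P.lf 133394 0 0) (P.cons (P.lf 13688 0 0) P.nil))) (P.cons (P.cons (P.lf 4072 0 0) (P.cons (P.lf 0 3796 0) P.nil)) (P.cons (P.cons (P.lf 126 0 0) P.nil) P.nil)))))) 9223)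
 (EL.cons 6 (TM.mk (P.cons (P.cons (P.lf 107074830 0 0) (P.cons (P.lf 0 99750111 0) (P.cons (P.lf 0 10237605 0) (P.cons (P.lf 2129136 0 0) (P.lf 177426 0 0))))) (P.cons (P.cons (P.lf 0 23017581 0) (P.cons (P.lf 21443007 0 0) (P.cons (P.lf 2200749 0 0) (P.cons (P.lf 0 457692 0) (P.lf 0 38139 0))))) (P.cons (P.cons (P.lf 1581069 0 0) (P.cons (P.lf 0 1472913 0) (P.cons (P.lf 0 151167 0) (P.cons (P.lf 31437 0 0) P.nil)))) (P.cons (P.cons (P.lf 0 11175 0) (P.cons (P.lf 10410 0 0) (P.cons (P.lf 1068 0 0) P.nil))) (P.cons (P.cons (P.lf 0 3396 0) (P.cons (P.lf 3165 0 0) P.nil)) (P.cons (P.cons (P.lf 141 0 0) P.nil) P.nil)))))) 4701)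
 EL.nil))))))
noncomputable def S372_386_660_808_2 : EL := (EL.cons 0 (TM.mk (P.cons (P.cons (P.lf 1206432887 0 0) (P.cons (P.lf 0 105172640 0) (P.cons (P.lf 40053582 0 0) (P.cons (P.lf 9608215 0 0) (P.cons (P.lf 0 477447 0) (P.cons (P.lf 0 218914 0) P.nil)))))) (P.cons (P.cons (P.lf 665543764 0 0) (P.cons (P.lf 55265450 0 0) (P.cons (P.lf 0 22020684 0) (P.cons (P.lf 0 4209212 0) (P.cons (P.lf 163144 0 0) P.nil))))) (P.cons (P.cons (P.lf 0 49306719 0) (P.cons (P.lf 0 5249303 0) (P.cons (P.lf 2078576 0 0) (P.cons (P.lf 411015 0 0) P.nil)))) (P.cons (P.cons (P.lf 0 8705251 0) (P.cons (P.lf 0 518120 0) (P.cons (P.lf 216636 0 0) P.nil))) (P.cons (P.cons (P.lf 897969 0 0) (P.cons (P.lf 106074 0 0) P.nil)) (P.cons (P.cons (P.lf 20455 0 0) P.nil) P.nil)))))) 623190)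
 (EL.cons 1 (TM.mk (P.cons (P.cons (P.lf 314736225 0 0) (P.cons (P.lf 0 28983499 0) (P.cons (P.lf 11305845 0 0) (P.cons (P.lf 2416815 0 0) (P.cons (P.lf 0 107437 0) (P.cons (P.lf 0 49260 0) P.nil)))))) (P.cons (P.cons (P.lf 255299832 0 0) (P.cons (P.lf 7250450 0 0) (P.cons (P.lf 0 3157705 0) (P.cons (P.lf 0 320457 0) (P.cons (P.lf 0 2811 0) P.nil))))) (P.cons (P.cons (P.lf 31690410 0 0) (P.cons (P.lf 2884497 0 0) (P.cons (P.lf 0 1137124 0) (P.cons (P.lf 0 230217 0) P.nil)))) (P.cons (P.cons (P.lf 0 5618077 0) (P.cons (P.lf 0 570633 0) (P.cons (P.lf 227310 0 0) P.nil))) (P.cons (P.cons (P.lf 0 213073 0) (P.cons (P.lf 8267 0 0) P.nil)) (P.cons (P.cons (P.lf 46239 0 0) P.nil) P.nil)))))) 269569)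
 (EL.cons 5 (TM.mk (P.cons (P.cons (P.lf 0 306633070 0) (P.cons (P.lf 7326570 0 0) (P.cons (P.lf 572245 0 0) (P.cons (P.lf 0 3569185 0) (P.cons (P.lf 336277 0 0) (P.cons (P.lf 154184 0 0) P.nil)))))) (P.cons (P.cons (P.lf 0 95192627 0) (P.cons (P.lf 0 30570851 0) (P.cons (P.lf 11744362 0 0) (P.cons (P.lf 2704986 0 0) (P.cons (P.lf 0 129599 0) P.nil))))) (P.cons (P.cons (P.lf 55177616 0 0) (P.cons (P.lf 5558185 0 0) (P.cons (P.lf 0 2191025 0) (P.cons (P.lf 0 443719 0) P.nil)))) (P.cons (P.cons (P.lf 914127 0 0) (P.cons (P.lf 0 117461 0) (P.cons (P.lf 40950 0 0) P.nil))) (P.cons (P.cons (P.lf 0 458802 0) (P.cons (P.lf 0 39074 0) P.nil)) (P.cons (P.cons (P.lf 5943 0 0) P.nil) P.nil)))))) 276028)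
 (EL.cons 9 (TM.mk (P.cons (P.cons (P.lf 107930155 0 0) (P.cons (P.lf 0 26530710 0) (P.cons (P.lf 13070743 0 0) (P.cons (P.lf 0 134947 0) (P.cons (P.lf 146929 0 0) (P.cons (P.lf 67368 0 0) P.nil)))))) (P.cons (P.cons (P.lf 124804540 0 0) (P.cons (P.lf 0 9636099 0) (P.cons (P.lf 3454228 0 0) (P.cons (P.lf 1066216 0 0) (P.cons (P.lf 0 63169 0) P.nil))))) (P.cons (P.cons (P.lf 33217366 0 0) (P.cons (P.lf 3257451 0 0) (P.cons (P.lf 0 1281157 0) (P.cons (P.lf 0 262573 0) P.nil)))) (P.cons (P.cons (P.lf 0 1924474 0) (P.cons (P.lf 0 266185 0) (P.cons (P.lf 104092 0 0) P.nil))) (P.cons (P.cons (P.lf 0 123114 0) (P.cons (P.lf 0 1200 0) P.nil)) (P.cons (P.cons (P.lf 11653 0 0) P.nil) P.nil)))))) 116590)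
 (EL.cons 2 (TM.mk (P.cons (P.cons (P.lf 0 70197727 0) (P.cons (P.lf 74023458 0 0) (P.cons (P.lf 0 5046243 0) (P.cons (P.lf 831746 0 0) (P.cons (P.lf 796050 0 0) (P.cons (P.lf 0 20154 0) P.nil)))))) (P.cons (P.cons (P.lf 0 32731970 0) (P.cons (P.lf 27672800 0 0) (P.cons (P.lf 6972738 0 0) (P.cons (P.lf 0 1378968 0) (P.cons (P.lf 0 352451 0) P.nil))))) (P.cons (P.cons (P.lf 5564559 0 0) (P.cons (P.lf 0 4860371 0) (P.cons (P.lf 0 972945 0) (P.cons (P.lf 194180 0 0) P.nil)))) (P.cons (P.cons (P.lf 95 0 0) (P.cons (P.lf 0 8240 0) (P.cons (P.lf 11098 0 0) P.nil))) (P.cons (P.cons (P.lf 0 35938 0) (P.cons (P.lf 32028 0 0) P.nil)) (P.cons (P.cons (P.lf 1507 0 0) P.nil) P.nil)))))) 149275)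
 (EL.cons 6 (TM.mk (P.cons (P.cons (P.lf 27718080 0 0) (P.cons (P.lf 0 29228700 0) (P.cons (P.lf 1992546 0 0) (P.cons (P.lf 0 328416 0) (P.cons (P.lf 0 314322 0) (P.cons (P.lf 7956 0 0) P.nil)))))) (P.cons (P.cons (P.lf 10067358 0 0) (P.cons (P.lf 0 7914000 0) (P.cons (P.lf 0 2958618 0) (P.cons (P.lf 578346 0 0) (P.cons (P.lf 171564 0 0) P.nil))))) (P.cons (P.cons (P.lf 0 3403236 0) (P.cons (P.lf 2912388 0 0) (P.cons (P.lf 677040 0 0) (P.cons (P.lf 0 134292 0) P.nil)))) (P.cons (P.cons (P.lf 278094 0 0) (P.cons (P.lf 0 236736 0) (P.cons (P.lf 0 57030 0) P.nil))) (P.cons (P.cons (P.lf 1248 0 0) (P.cons (P.lf 0 1842 0) P.nil)) (P.cons (P.cons (P.lf 0 1320 0) P.nil) P.nil)))))) 92526)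
 EL.nil))))))
noncomputable def S372_386_660_808_3 : EL := (EL.cons 0 (TM.mk (P.cons (P.lf 4198667962 0 0) (P.cons (P.lf 263855079 0 0) (P.cons (P.lf 0 8670768 0) (P.cons (P.lf 0 267403 0) (P.cons (P.lf 19872 0 0) (P.cons (P.lf 0 263 0) P.nil)))))) 209)
 (EL.cons 1 (TM.mk (P.cons (P.lf 0 1657874694 0) (P.cons (P.lf 66703704 0 0) (P.cons (P.lf 6615345 0 0) (P.cons (P.lf 0 292091 0) (P.cons (P.lf 0 596 0) (P.cons (P.lf 360 0 0) P.nil)))))) 128)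
 (EL.cons 5 (TM.mk (P.cons (P.lf 654623926 0 0) (P.cons (P.lf 0 93815138 0) (P.cons (P.lf 3082942 0 0) (P.cons (P.lf 95074 0 0) (P.cons (P.lf 0 7066 0) (P.cons (P.lf 96 0 0) P.nil)))))) 70)
 EL.nil)))
noncomputable def S372_386_660_808_4 : EL := (EL.cons 0 (TM.mk (P.cons (P.cons (P.lf 543447223 0 0) (P.cons (P.lf 0 66793382 0) (P.cons (P.lf 28802060 0 0) (P.lf 3200224 0 0)))) (P.cons (P.cons (P.lf 348357967 0 0) (P.cons (P.lf 10160919 0 0) (P.cons (P.lf 0 4381500 0) (P.lf 0 486829 0)))) (P.cons (P.cons (P.lf 11418106 0 0) (P.cons (P.lf 53982 0 0) (P.cons (P.lf 0 23278 0) (P.lf 0 2587 0)))) (P.cons (P.cons (P.lf 0 1815495 0) (P.cons (P.lf 0 80404 0) (P.cons (P.lf 34674 0 0) P.nil))) (P.cons (P.cons (P.lf 0 10249 0) (P.cons (P.lf 3359 0 0) P.nil)) (P.cons (P.cons (P.lf 5614 0 0) P.nil) P.nil)))))) 10676)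
 (EL.cons 1 (TM.mk (P.cons (P.cons (P.lf 0 214584103 0) (P.cons (P.lf 26373855 0 0) (P.cons (P.lf 0 11372703 0) (P.lf 0 1263631 0)))) (P.cons (P.cons (P.lf 0 115432993 0) (P.cons (P.lf 0 6730651 0) (P.cons (P.lf 2902331 0 0) (P.lf 322479 0 0)))) (P.cons (P.cons (P.lf 8693004 0 0) (P.cons (P.lf 512306 0 0) (P.cons (P.lf 0 220910 0) (P.lf 0 24543 0)))) (P.cons (P.cons (P.lf 610978 0 0) (P.cons (P.lf 8846 0 0) (P.cons (P.lf 0 3815 0) P.nil))) (P.cons (P.cons (P.lf 0 57894 0) (P.cons (P.lf 0 3266 0) P.nil)) (P.cons (P.cons (P.lf 0 50 0) P.nil) P.nil)))))) 4882)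
 (EL.cons 5 (TM.mk (P.cons (P.cons (P.lf 84730098 0 0) (P.cons (P.lf 0 10413908 0) (P.cons (P.lf 4490594 0 0) (P.lf 498954 0 0)))) (P.cons (P.cons (P.lf 36845832 0 0) (P.cons (P.lf 3731080 0 0) (P.cons (P.lf 0 1608884 0) (P.lf 0 178762 0)))) (P.cons (P.cons (P.lf 0 7744968 0) (P.cons (P.lf 0 523638 0) (P.cons (P.lf 225798 0 0) (P.lf 25086 0 0)))) (P.cons (P.cons (P.lf 298110 0 0) (P.cons (P.lf 32154 0 0) (P.cons (P.lf 0 13864 0) P.nil))) (P.cons (P.cons (P.lf 21540 0 0) (P.cons (P.lf 0 112 0) P.nil)) (P.cons (P.cons (P.lf 0 1942 0) P.nil) P.nil)))))) 3188)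
 EL.nil)))
noncomputable def S372_386_660_808_5 : EL := (EL.cons 0 (TM.mk (P.cons (P.cons (P.lf 70340136 0 0) (P.cons (P.lf 0 17290567 0) (P.cons (P.lf 8518450 0 0) (P.cons (P.lf 0 87946 0) (P.cons (P.lf 95755 0 0) (P.cons (P.lf 43904 0 0) P.nil)))))) (P.cons (P.cons (P.lf 85757850 0 0) (P.cons (P.lf 0 7366612 0) (P.cons (P.lf 2786507 0 0) (P.cons (P.lf 689345 0 0) (P.cons (P.lf 0 35150 0) P.nil))))) (P.cons (P.cons (P.lf 26614585 0 0) (P.cons (P.lf 1763996 0 0) (P.cons (P.lf 0 711075 0) (P.cons (P.lf 0 127274 0) P.nil)))) (P.cons (P.cons (P.lf 0 66227 0) (P.cons (P.lf 0 25996 0) (P.cons (P.lf 10175 0 0) P.nil))) (P.cons (P.cons (P.lf 0 208606 0) (P.cons (P.lf 0 15748 0) P.nil)) (P.cons (P.cons (P.lf 4143 0 0) P.nil) P.nil)))))) 107157)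
 (EL.cons 1 (TM.mk (P.cons (P.cons (P.lf 0 27774315 0) (P.cons (P.lf 6827306 0 0) (P.cons (P.lf 0 3363571 0) (P.cons (P.lf 34725 0 0) (P.cons (P.lf 0 37809 0) (P.cons (P.lf 0 17334 0) P.nil)))))) (P.cons (P.cons (P.lf 0 30999217 0) (P.cons (P.lf 2205020 0 0) (P.cons (P.lf 0 753564 0) (P.cons (P.lf 0 275771 0) (P.cons (P.lf 17776 0 0) P.nil))))) (P.cons (P.cons (P.lf 0 7144998 0) (P.cons (P.lf 0 965270 0) (P.cons (P.lf 378871 0 0) (P.cons (P.lf 78468 0 0) P.nil)))) (P.cons (P.cons (P.lf 962420 0 0) (P.cons (P.lf 93532 0 0) (P.cons (P.lf 0 37096 0) P.nil))) (P.cons (P.cons (P.lf 40196 0 0) (P.cons (P.lf 1335 0 0) P.nil)) (P.cons (P.cons (P.lf 0 7760 0) P.nil) P.nil)))))) 47686)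
 (EL.cons 5 (TM.mk (P.cons (P.cons (P.lf 10966890 0 0) (P.cons (P.lf 0 2695812 0) (P.cons (P.lf 1328130 0 0) (P.cons (P.lf 0 13710 0) (P.cons (P.lf 14928 0 0) (P.cons (P.lf 6844 0 0) P.nil)))))) (P.cons (P.cons (P.lf 11109832 0 0) (P.cons (P.lf 0 592792 0) (P.cons (P.lf 160650 0 0) (P.cons (P.lf 110302 0 0) (P.cons (P.lf 0 8558 0) P.nil))))) (P.cons (P.cons (P.lf 1609490 0 0) (P.cons (P.lf 458618 0 0) (P.cons (P.lf 0 174224 0) (P.cons (P.lf 0 42270 0) P.nil)))) (P.cons (P.cons (P.lf 0 617942 0) (P.cons (P.lf 0 79484 0) (P.cons (P.lf 31078 0 0) P.nil))) (P.cons (P.cons (P.lf 33132 0 0) (P.cons (P.lf 5198 0 0) P.nil)) (P.cons (P.cons (P.lf 2410 0 0) P.nil) P.nil)))))) 23202)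
 EL.nil)))
noncomputable def S372_386_660_808_6 : EL := (EL.cons 12 (TM.mk (P.lf 8589934592 0 0) 0)
 (EL.cons 3 (TM.mk (P.cons (P.lf 3002760528 0 0) (P.cons (P.lf 94350592 0 0) (P.cons (P.lf 0 4582845 0) (P.cons (P.lf 48378 0 0) (P.cons (P.lf 2088 0 0) (P.cons (P.lf 0 86 0) P.nil)))))) 67)
 (EL.cons 7 (TM.mk (P.cons (P.lf 0 1185661915 0) (P.cons (P.lf 84959496 0 0) (P.cons (P.lf 251989 0 0) (P.cons (P.lf 0 68044 0) (P.cons (P.lf 1551 0 0) (P.cons (P.lf 9 0 0) P.nil)))))) 45)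
 EL.nil)))
noncomputable def S372_386_660_808_7 : EL := (EL.cons 12 (TM.mk (P.cons (P.cons (P.lf 1111823120 0 0) (P.cons (P.lf 0 136650672 0) (P.cons (P.lf 58925312 0 0) (P.lf 6547248 0 0)))) (P.cons (P.cons (P.lf 642825776 0 0) (P.cons (P.lf 29375416 0 0) (P.cons (P.lf 0 12667008 0) (P.lf 0 1407440 0)))) (P.cons (P.cons (P.lf 0 14740790 0) (P.cons (P.lf 0 2017784 0) (P.cons (P.lf 870088 0 0) (P.lf 96672 0 0)))) (P.cons (P.cons (P.lf 0 1389598 0) (P.cons (P.lf 14264 0 0) (P.cons (P.lf 0 6144 0) P.nil))) (P.cons (P.cons (P.lf 71590 0 0) (P.cons (P.lf 4328 0 0) P.nil)) (P.cons (P.cons (P.lf 210 0 0) P.nil) P.nil)))))) 7070)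
 (EL.cons 3 (TM.mk (P.cons (P.cons (P.lf 3524635552 0 0) (P.cons (P.lf 95537220 0 0) (P.cons (P.lf 0 41196726 0) (P.lf 0 4577406 0)))) (P.cons (P.cons (P.lf 0 51677866 0) (P.cons (P.lf 0 17535468 0) (P.cons (P.lf 7561488 0 0) (P.lf 840160 0 0)))) (P.cons (P.cons (P.lf 0 16502497 0) (P.cons (P.lf 619580 0 0) (P.cons (P.lf 0 267166 0) (P.lf 0 29680 0)))) (P.cons (P.cons (P.lf 1540882 0 0) (P.cons (P.lf 67234 0 0) (P.cons (P.lf 0 28996 0) P.nil))) (P.cons (P.cons (P.lf 0 11237 0) (P.cons (P.lf 0 5756 0) P.nil)) (P.cons (P.cons (P.lf 0 3749 0) P.nil) P.nil)))))) 21468)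
 (EL.cons 7 (TM.mk (P.cons (P.cons (P.lf 2670377811 0 0) (P.cons (P.lf 147903820 0 0) (P.cons (P.lf 0 63777795 0) (P.lf 0 7086423 0)))) (P.cons (P.cons (P.lf 0 46534171 0) (P.cons (P.lf 0 15790099 0) (P.cons (P.lf 6808867 0 0) (P.lf 756543 0 0)))) (P.cons (P.cons (P.lf 0 17258233 0) (P.cons (P.lf 0 255879 0) (P.cons (P.lf 110338 0 0) (P.lf 12259 0 0)))) (P.cons (P.cons (P.lf 272180 0 0) (P.cons (P.lf 66920 0 0) (P.cons (P.lf 0 28855 0) P.nil))) (P.cons (P.cons (P.lf 47182 0 0) (P.cons (P.lf 0 457 0) P.nil)) (P.cons (P.cons (P.lf 0 1882 0) P.nil) P.nil)))))) 12396)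
 (EL.cons 10 (TM.mk (P.cons (P.cons (P.lf 0 387870180 0) (P.cons (P.lf 361336956 0 0) (P.cons (P.lf 37084926 0 0) (P.cons (P.lf 0 7712631 0) (P.lf 0 642717 0))))) (P.cons (P.cons (P.lf 55586256 0 0) (P.cons (P.lf 0 51783741 0) (P.cons (P.lf 0 5314695 0) (P.cons (P.lf 1105308 0 0) (P.lf 92109 0 0))))) (P.cons (P.cons (P.lf 0 1826667 0) (P.cons (P.lf 1701711 0 0) (P.cons (P.lf 174648 0 0) (P.cons (P.lf 0 36321 0) P.nil)))) (P.cons (P.cons (P.lf 0 56331 0) (P.cons (P.lf 52476 0 0) (P.cons (P.lf 5385 0 0) P.nil))) (P.cons (P.cons (P.lf 4185 0 0) (P.cons (P.lf 0 3900 0) P.nil)) (P.cons (P.cons (P.lf 0 54 0) P.nil) P.nil)))))) 4974)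
 EL.nil))))
noncomputable def S372_386_660_808_8 : EL := (EL.cons 12 (TM.mk (P.cons (P.cons (P.lf 143906874 0 0) (P.cons (P.lf 0 35374280 0) (P.cons (P.lf 17427658 0 0) (P.cons (P.lf 0 179930 0) (P.cons (P.lf 195906 0 0) (P.cons (P.lf 89824 0 0) P.nil)))))) (P.cons (P.cons (P.lf 166406054 0 0) (P.cons (P.lf 0 12848132 0) (P.cons (P.lf 4605638 0 0) (P.cons (P.lf 1421622 0 0) (P.cons (P.lf 0 84226 0) P.nil))))) (P.cons (P.cons (P.lf 44289822 0 0) (P.cons (P.lf 4343268 0 0) (P.cons (P.lf 0 1708210 0) (P.cons (P.lf 0 350098 0) P.nil)))) (P.cons (P.cons (P.lf 0 2565966 0) (P.cons (P.lf 0 354914 0) (P.cons (P.lf 138790 0 0) P.nil))) (P.cons (P.cons (P.lf 0 164152 0) (P.cons (P.lf 0 1600 0) P.nil)) (P.cons (P.cons (P.lf 15538 0 0) P.nil) P.nil)))))) 155424)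
 (EL.cons 3 (TM.mk (P.cons (P.cons (P.lf 862104895 0 0) (P.cons (P.lf 0 75044356 0) (P.cons (P.lf 28560399 0 0) (P.cons (P.lf 6872384 0 0) (P.cons (P.lf 0 342411 0) (P.cons (P.lf 0 157002 0) P.nil)))))) (P.cons (P.cons (P.lf 454402134 0 0) (P.cons (P.lf 40390438 0 0) (P.cons (P.lf 0 15902629 0) (P.cons (P.lf 0 3241057 0) (P.cons (P.lf 136456 0 0) P.nil))))) (P.cons (P.cons (P.lf 0 41336749 0) (P.cons (P.lf 0 5672322 0) (P.cons (P.lf 2215305 0 0) (P.cons (P.lf 470697 0 0) P.nil)))) (P.cons (P.cons (P.lf 0 2535557 0) (P.cons (P.lf 83205 0 0) (P.cons (P.lf 0 22556 0) P.nil))) (P.cons (P.cons (P.lf 468041 0 0) (P.cons (P.lf 42597 0 0) P.nil)) (P.cons (P.cons (P.lf 0 8575 0) P.nil) P.nil)))))) 353397)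
 (EL.cons 7 (TM.mk (P.cons (P.cons (P.lf 711134690 0 0) (P.cons (P.lf 0 51557318 0) (P.cons (P.lf 17826379 0 0) (P.cons (P.lf 6269815 0 0) (P.cons (P.lf 0 397030 0) (P.cons (P.lf 0 182042 0) P.nil)))))) (P.cons (P.cons (P.lf 409173649 0 0) (P.cons (P.lf 36370215 0 0) (P.cons (P.lf 0 14319778 0) (P.cons (P.lf 0 2918458 0) (P.cons (P.lf 122871 0 0) P.nil))))) (P.cons (P.cons (P.lf 0 16134132 0) (P.cons (P.lf 0 3233265 0) (P.cons (P.lf 1256780 0 0) (P.cons (P.lf 273435 0 0) P.nil)))) (P.cons (P.cons (P.lf 0 4012812 0) (P.cons (P.lf 0 202445 0) (P.cons (P.lf 87779 0 0) P.nil))) (P.cons (P.cons (P.lf 174460 0 0) (P.cons (P.lf 32418 0 0) P.nil)) (P.cons (P.cons (P.lf 14742 0 0) P.nil) P.nil)))))) 212182)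
 (EL.cons 10 (TM.mk (P.cons (P.cons (P.lf 0 100406592 0) (P.cons (P.lf 105878688 0 0) (P.cons (P.lf 0 7217850 0) (P.cons (P.lf 1189680 0 0) (P.cons (P.lf 1138620 0 0) (P.cons (P.lf 0 28830 0) P.nil)))))) (P.cons (P.cons (P.lf 0 43662930 0) (P.cons (P.lf 36254664 0 0) (P.cons (P.lf 10200180 0 0) (P.cons (P.lf 0 2009772 0) (P.cons (P.lf 0 539904 0) P.nil))))) (P.cons (P.cons (P.lf 9177918 0 0) (P.cons (P.lf 0 7929552 0) (P.cons (P.lf 0 1723164 0) (P.cons (P.lf 342708 0 0) P.nil)))) (P.cons (P.cons (P.lf 0 353262 0) (P.cons (P.lf 290994 0 0) (P.cons (P.lf 85698 0 0) P.nil))) (P.cons (P.cons (P.lf 0 25524 0) (P.cons (P.lf 23910 0 0) P.nil)) (P.cons (P.cons (P.lf 2304 0 0) P.nil) P.nil)))))) 241110)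
 EL.nil))))
noncomputable def S372_386_660_808_9 : EL := (EL.cons 3 (TM.mk (P.cons (P.lf 3002760528 0 0) (P.cons (P.lf 94350592 0 0) (P.cons (P.lf 0 4582845 0) (P.cons (P.lf 48378 0 0) (P.cons (P.lf 2088 0 0) (P.cons (P.lf 0 86 0) P.nil)))))) 67)
 (EL.cons 7 (TM.mk (P.cons (P.lf 0 1185661915 0) (P.cons (P.lf 84959496 0 0) (P.cons (P.lf 251989 0 0) (P.cons (P.lf 0 68044 0) (P.cons (P.lf 1551 0 0) (P.cons (P.lf 9 0 0) P.nil)))))) 45)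
 EL.nil))
noncomputable def S372_386_660_808_10 : EL := (EL.cons 3 (TM.mk (P.cons (P.cons (P.lf 388657042 0 0) (P.cons (P.lf 0 47768610 0) (P.cons (P.lf 20598363 0 0) (P.lf 2288703 0 0)))) (P.cons (P.cons (P.lf 236922995 0 0) (P.cons (P.lf 8767734 0 0) (P.cons (P.lf 0 3780744 0) (P.lf 0 420080 0)))) (P.cons (P.cons (P.lf 1314632 0 0) (P.cons (P.lf 0 309790 0) (P.cons (P.lf 133583 0 0) (P.lf 14840 0 0)))) (P.cons (P.cons (P.lf 0 984362 0) (P.cons (P.lf 0 33617 0) (P.cons (P.lf 14498 0 0) P.nil))) (P.cons (P.cons (P.lf 21517 0 0) (P.cons (P.lf 2878 0 0) P.nil)) (P.cons (P.cons (P.lf 1663 0 0) P.nil) P.nil)))))) 5282)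
 (EL.cons 7 (TM.mk (P.cons (P.cons (P.lf 0 153464070 0) (P.cons (P.lf 18861784 0 0) (P.cons (P.lf 0 8133414 0) (P.lf 0 903711 0)))) (P.cons (P.cons (P.lf 0 77732152 0) (P.cons (P.lf 0 5406220 0) (P.cons (P.lf 2331223 0 0) (P.lf 259023 0 0)))) (P.cons (P.cons (P.lf 8425199 0 0) (P.cons (P.lf 565044 0 0) (P.cons (P.lf 0 243653 0) (P.lf 0 27071 0)))) (P.cons (P.cons (P.lf 56060 0 0) (P.cons (P.lf 0 19981 0) (P.cons (P.lf 8615 0 0) P.nil))) (P.cons (P.cons (P.lf 0 28949 0) (P.cons (P.lf 0 772 0) P.nil)) (P.cons (P.cons (P.lf 872 0 0) P.nil) P.nil)))))) 2432)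
 EL.nil))
noncomputable def S372_386_660_808_11 : EL := (EL.cons 3 (TM.mk (P.cons (P.cons (P.lf 50305141 0 0) (P.cons (P.lf 0 12365692 0) (P.cons (P.lf 6092139 0 0) (P.cons (P.lf 0 62896 0) (P.cons (P.lf 68481 0 0) (P.cons (P.lf 31398 0 0) P.nil)))))) (P.cons (P.cons (P.lf 59750772 0 0) (P.cons (P.lf 0 4879832 0) (P.cons (P.lf 1801403 0 0) (P.cons (P.lf 494975 0 0) (P.cons (P.lf 0 27290 0) P.nil))))) (P.cons (P.cons (P.lf 17233277 0 0) (P.cons (P.lf 1396014 0 0) (P.cons (P.lf 0 555843 0) (P.cons (P.lf 0 106671 0) P.nil)))) (P.cons (P.cons (P.lf 0 498473 0) (P.cons (P.lf 0 69705 0) (P.cons (P.lf 27394 0 0) P.nil))) (P.cons (P.cons (P.lf 0 108223 0) (P.cons (P.lf 0 6855 0) P.nil)) (P.cons (P.cons (P.lf 5285 0 0) P.nil) P.nil)))))) 66167)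
 (EL.cons 7 (TM.mk (P.cons (P.cons (P.lf 0 19863352 0) (P.cons (P.lf 4882684 0 0) (P.cons (P.lf 0 2405525 0) (P.cons (P.lf 24835 0 0) (P.cons (P.lf 0 27040 0) (P.cons (P.lf 0 12398 0) P.nil)))))) (P.cons (P.cons (P.lf 0 21545573 0) (P.cons (P.lf 1423545 0 0) (P.cons (P.lf 0 463342 0) (P.cons (P.lf 0 198004 0) (P.cons (P.lf 13563 0 0) P.nil))))) (P.cons (P.cons (P.lf 0 4463214 0) (P.cons (P.lf 0 727611 0) (P.cons (P.lf 281846 0 0) (P.cons (P.lf 62379 0 0) P.nil)))) (P.cons (P.cons (P.lf 795972 0 0) (P.cons (P.lf 91849 0 0) (P.cons (P.lf 0 36055 0) P.nil))) (P.cons (P.cons (P.lf 0 2714 0) (P.cons (P.lf 0 3066 0) P.nil)) (P.cons (P.cons (P.lf 0 4164 0) P.nil) P.nil)))))) 30024)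
 EL.nil))
noncomputable def S372_386_660_808_12 : EL := (EL.cons 4 (TM.mk (P.cons (P.lf 0 3002760528 0) (P.cons (P.lf 0 94350592 0) (P.cons (P.lf 4582845 0 0) (P.cons (P.lf 0 48378 0) (P.cons (P.lf 0 2088 0) (P.cons (P.lf 86 0 0) P.nil)))))) 67)
 (EL.cons 8 (TM.mk (P.cons (P.lf 1185661915 0 0) (P.cons (P.lf 0 84959496 0) (P.cons (P.lf 0 251989 0) (P.cons (P.lf 68044 0 0) (P.cons (P.lf 0 1551 0) (P.cons (P.lf 0 9 0) P.nil)))))) 45)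
 EL.nil))
noncomputable def S372_386_660_808_13 : EL := (EL.cons 4 (TM.mk (P.cons (P.cons (P.lf 0 388657042 0) (P.cons (P.lf 47768610 0 0) (P.cons (P.lf 0 20598363 0) (P.lf 0 2288703 0)))) (P.cons (P.cons (P.lf 0 236922995 0) (P.cons (P.lf 0 8767734 0) (P.cons (P.lf 3780744 0 0) (P.lf 420080 0 0)))) (P.cons (P.cons (P.lf 0 1314632 0) (P.cons (P.lf 309790 0 0) (P.cons (P.lf 0 133583 0) (P.lf 0 14840 0)))) (P.cons (P.cons (P.lf 984362 0 0) (P.cons (P.lf 33617 0 0) (P.cons (P.lf 0 14498 0) P.nil))) (P.cons (P.cons (P.lf 0 21517 0) (P.cons (P.lf 0 2878 0) P.nil)) (P.cons (P.cons (P.lf 0 1663 0) P.nil) P.nil)))))) 5282)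
 (EL.cons 8 (TM.mk (P.cons (P.cons (P.lf 153464070 0 0) (P.cons (P.lf 0 18861784 0) (P.cons (P.lf 8133414 0 0) (P.lf 903711 0 0)))) (P.cons (P.cons (P.lf 77732152 0 0) (P.cons (P.lf 5406220 0 0) (P.cons (P.lf 0 2331223 0) (P.lf 0 259023 0)))) (P.cons (P.cons (P.lf 0 8425199 0) (P.cons (P.lf 0 565044 0) (P.cons (P.lf 243653 0 0) (P.lf 27071 0 0)))) (P.cons (P.cons (P.lf 0 56060 0) (P.cons (P.lf 19981 0 0) (P.cons (P.lf 0 8615 0) P.nil))) (P.cons (P.cons (P.lf 28949 0 0) (P.cons (P.lf 772 0 0) P.nil)) (P.cons (P.cons (P.lf 0 872 0) P.nil) P.nil)))))) 2432)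
 EL.nil))
noncomputable def S372_386_660_808_14 : EL := (EL.cons 4 (TM.mk (P.cons (P.cons (P.lf 0 50305141 0) (P.cons (P.lf 12365692 0 0) (P.cons (P.lf 0 6092139 0) (P.cons (P.lf 62896 0 0) (P.cons (P.lf 0 68481 0) (P.cons (P.lf 0 31398 0) P.nil)))))) (P.cons (P.cons (P.lf 0 59750772 0) (P.cons (P.lf 4879832 0 0) (P.cons (P.lf 0 1801403 0) (P.cons (P.lf 0 494975 0) (P.cons (P.lf 27290 0 0) P.nil))))) (P.cons (P.cons (P.lf 0 17233277 0) (P.cons (P.lf 0 1396014 0) (P.cons (P.lf 555843 0 0) (P.cons (P.lf 106671 0 0) P.nil)))) (P.cons (P.cons (P.lf 498473 0 0) (P.cons (P.lf 69705 0 0) (P.cons (P.lf 0 27394 0) P.nil))) (P.cons (P.cons (P.lf 108223 0 0) (P.cons (P.lf 6855 0 0) P.nil)) (P.cons (P.cons (P.lf 0 5285 0) P.nil) P.nil)))))) 66167)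
 (EL.cons 8 (TM.mk (P.cons (P.cons (P.lf 19863352 0 0) (P.cons (P.lf 0 4882684 0) (P.cons (P.lf 2405525 0 0) (P.cons (P.lf 0 24835 0) (P.cons (P.lf 27040 0 0) (P.cons (P.lf 12398 0 0) P.nil)))))) (P.cons (P.cons (P.lf 21545573 0 0) (P.cons (P.lf 0 1423545 0) (P.cons (P.lf 463342 0 0) (P.cons (P.lf 198004 0 0) (P.cons (P.lf 0 13563 0) P.nil))))) (P.cons (P.cons (P.lf 4463214 0 0) (P.cons (P.lf 727611 0 0) (P.cons (P.lf 0 281846 0) (P.cons (P.lf 0 62379 0) P.nil)))) (P.cons (P.cons (P.lf 0 795972 0) (P.cons (P.lf 0 91849 0) (P.cons (P.lf 36055 0 0) P.nil))) (P.cons (P.cons (P.lf 2714 0 0) (P.cons (P.lf 3066 0 0) P.nil)) (P.cons (P.cons (P.lf 4164 0 0) P.nil) P.nil)))))) 30024)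
 EL.nil))
noncomputable def S372_386_660_808_15 : EL := (EL.cons 4 (TM.mk (P.cons (P.lf 0 2239289580 0) (P.cons (P.lf 0 140722709 0) (P.cons (P.lf 4624410 0 0) (P.cons (P.lf 142615 0 0) (P.cons (P.lf 0 10598 0) (P.cons (P.lf 140 0 0) P.nil)))))) 114)
 (EL.cons 8 (TM.mk (P.cons (P.lf 884199837 0 0) (P.cons (P.lf 0 35575309 0) (P.cons (P.lf 0 3528184 0) (P.cons (P.lf 155782 0 0) (P.cons (P.lf 318 0 0) (P.cons (P.lf 0 192 0) P.nil)))))) 65)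
 EL.nil))
noncomputable def S372_386_660_808_16 : EL := (EL.cons 4 (TM.mk (P.cons (P.cons (P.lf 0 289838519 0) (P.cons (P.lf 35623137 0 0) (P.cons (P.lf 0 15361098 0) (P.lf 0 1706786 0)))) (P.cons (P.cons (P.lf 0 185790915 0) (P.cons (P.lf 0 5419156 0) (P.cons (P.lf 2336800 0 0) (P.lf 259642 0 0)))) (P.cons (P.cons (P.lf 0 6089656 0) (P.cons (P.lf 0 28790 0) (P.cons (P.lf 12415 0 0) (P.lf 1380 0 0)))) (P.cons (P.cons (P.lf 968264 0 0) (P.cons (P.lf 42882 0 0) (P.cons (P.lf 0 18493 0) P.nil))) (P.cons (P.cons (P.lf 5466 0 0) (P.cons (P.lf 0 1791 0) P.nil)) (P.cons (P.cons (P.lf 0 2994 0) P.nil) P.nil)))))) 5703)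
 (EL.cons 8 (TM.mk (P.cons (P.cons (P.lf 114444855 0 0) (P.cons (P.lf 0 14066056 0) (P.cons (P.lf 6065442 0 0) (P.lf 673937 0 0)))) (P.cons (P.cons (P.lf 61564263 0 0) (P.cons (P.lf 3589681 0 0) (P.cons (P.lf 0 1547910 0) (P.lf 0 171989 0)))) (P.cons (P.cons (P.lf 0 4636269 0) (P.cons (P.lf 0 273230 0) (P.cons (P.lf 117819 0 0) (P.lf 13090 0 0)))) (P.cons (P.cons (P.lf 0 325855 0) (P.cons (P.lf 0 4718 0) (P.cons (P.lf 2035 0 0) P.nil))) (P.cons (P.cons (P.lf 30877 0 0) (P.cons (P.lf 1742 0 0) P.nil)) (P.cons (P.cons (P.lf 27 0 0) P.nil) P.nil)))))) 2594)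
 EL.nil))
noncomputable def S372_386_660_808_17 : EL := (EL.cons 4 (TM.mk (P.cons (P.cons (P.lf 0 37514739 0) (P.cons (P.lf 9221636 0 0) (P.cons (P.lf 0 4543173 0) (P.cons (P.lf 46905 0 0) (P.cons (P.lf 0 51069 0) (P.cons (P.lf 0 23415 0) P.nil)))))) (P.cons (P.cons (P.lf 0 45737520 0) (P.cons (P.lf 3928860 0 0) (P.cons (P.lf 0 1486137 0) (P.cons (P.lf 0 367650 0) (P.cons (P.lf 18747 0 0) P.nil))))) (P.cons (P.cons (P.lf 0 14194445 0) (P.cons (P.lf 0 940798 0) (P.cons (P.lf 379240 0 0) (P.cons (P.lf 67879 0 0) P.nil)))) (P.cons (P.cons (P.lf 35321 0 0) (P.cons (P.lf 13864 0 0) (P.cons (P.lf 0 5427 0) P.nil))) (P.cons (P.cons (P.lf 111256 0 0) (P.cons (P.lf 8399 0 0) P.nil)) (P.cons (P.cons (P.lf 0 2209 0) P.nil) P.nil)))))) 57160)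
 (EL.cons 8 (TM.mk (P.cons (P.cons (P.lf 14812968 0 0) (P.cons (P.lf 0 3641230 0) (P.cons (P.lf 1793905 0 0) (P.cons (P.lf 0 18520 0) (P.cons (P.lf 20165 0 0) (P.cons (P.lf 9245 0 0) P.nil)))))) (P.cons (P.cons (P.lf 16532916 0 0) (P.cons (P.lf 0 1176011 0) (P.cons (P.lf 401901 0 0) (P.cons (P.lf 147078 0 0) (P.cons (P.lf 0 9481 0) P.nil))))) (P.cons (P.cons (P.lf 3810666 0 0) (P.cons (P.lf 514811 0 0) (P.cons (P.lf 0 202065 0) (P.cons (P.lf 0 41850 0) P.nil)))) (P.cons (P.cons (P.lf 0 513291 0) (P.cons (P.lf 0 49884 0) (P.cons (P.lf 19785 0 0) P.nil))) (P.cons (P.cons (P.lf 0 21438 0) (P.cons (P.lf 0 712 0) P.nil)) (P.cons (P.cons (P.lf 4139 0 0) P.nil) P.nil)))))) 25421)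
 EL.nil))
noncomputable def S372_386_660_808_18 : EL := (EL.cons 4 (TM.mk (P.cons (P.lf 0 1669935972 0) (P.cons (P.lf 0 157414598 0) (P.cons (P.lf 2699851 0 0) (P.cons (P.lf 347974 0 0) (P.cons (P.lf 0 12676 0) (P.cons (P.lf 0 274 0) P.nil)))))) 154)
 (EL.cons 8 (TM.mk (P.cons (P.lf 659386409 0 0) (P.cons (P.lf 0 5811293 0) (P.cons (P.lf 0 4471091 0) (P.cons (P.lf 84614 0 0) (P.cons (P.lf 7934 0 0) (P.cons (P.lf 0 393 0) P.nil)))))) 76)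
 EL.nil))
noncomputable def S372_386_660_808_19 : EL := (EL.cons 4 (TM.mk (P.cons (P.cons (P.lf 0 216145233 0) (P.cons (P.lf 26565728 0 0) (P.cons (P.lf 0 11455441 0) (P.lf 0 1272825 0)))) (P.cons (P.cons (P.lf 0 145343955 0) (P.cons (P.lf 0 3206572 0) (P.cons (P.lf 1382709 0 0) (P.lf 153632 0 0)))) (P.cons (P.cons (P.lf 0 8564934 0) (P.cons (P.lf 0 188998 0) (P.cons (P.lf 81498 0 0) (P.lf 9055 0 0)))) (P.cons (P.cons (P.lf 787360 0 0) (P.cons (P.lf 37900 0 0) (P.cons (P.lf 0 16344 0) P.nil))) (P.cons (P.cons (P.lf 31313 0 0) (P.cons (P.lf 0 345 0) P.nil)) (P.cons (P.cons (P.lf 0 3370 0) P.nil) P.nil)))))) 5555)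
 (EL.cons 8 (TM.mk (P.cons (P.cons (P.lf 85346523 0 0) (P.cons (P.lf 0 10489671 0) (P.cons (P.lf 4523264 0 0) (P.lf 502584 0 0)))) (P.cons (P.cons (P.lf 48592855 0 0) (P.cons (P.lf 2347382 0 0) (P.cons (P.lf 0 1012217 0) (P.lf 0 112467 0)))) (P.cons (P.cons (P.lf 0 2145137 0) (P.cons (P.lf 0 103636 0) (P.cons (P.lf 44689 0 0) (P.lf 4965 0 0)))) (P.cons (P.cons (P.lf 0 420337 0) (P.cons (P.lf 0 14175 0) (P.cons (P.lf 6113 0 0) P.nil))) (P.cons (P.cons (P.lf 21467 0 0) (P.cons (P.lf 1535 0 0) P.nil)) (P.cons (P.cons (P.lf 1088 0 0) P.nil) P.nil)))))) 2465)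
 EL.nil))
noncomputable def S372_386_660_808_20 : EL := (EL.cons 4 (TM.mk (P.cons (P.cons (P.lf 0 27976378 0) (P.cons (P.lf 6876976 0 0) (P.cons (P.lf 0 3388043 0) (P.cons (P.lf 34979 0 0) (P.cons (P.lf 0 38085 0) (P.cons (P.lf 0 17461 0) P.nil)))))) (P.cons (P.cons (P.lf 0 34987518 0) (P.cons (P.lf 3146005 0 0) (P.cons (P.lf 0 1214733 0) (P.cons (P.lf 0 273074 0) (P.cons (P.lf 12783 0 0) P.nil))))) (P.cons (P.cons (P.lf 0 11614451 0) (P.cons (P.lf 0 620027 0) (P.cons (P.lf 253163 0 0) (P.cons (P.lf 41952 0 0) P.nil)))) (P.cons (P.cons (P.lf 0 254659 0) (P.cons (P.lf 0 16065 0) (P.cons (P.lf 6475 0 0) P.nil))) (P.cons (P.cons (P.lf 99383 0 0) (P.cons (P.lf 7710 0 0) P.nil)) (P.cons (P.cons (P.lf 724 0 0) P.nil) P.nil)))))) 47854)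
 (EL.cons 8 (TM.mk (P.cons (P.cons (P.lf 11046677 0 0) (P.cons (P.lf 0 2715424 0) (P.cons (P.lf 1337793 0 0) (P.cons (P.lf 0 13811 0) (P.cons (P.lf 15038 0 0) (P.cons (P.lf 6895 0 0) P.nil)))))) (P.cons (P.cons (P.lf 12676418 0 0) (P.cons (P.lf 0 962325 0) (P.cons (P.lf 341750 0 0) (P.cons (P.lf 109249 0 0) (P.cons (P.lf 0 6597 0) P.nil))))) (P.cons (P.cons (P.lf 3212323 0 0) (P.cons (P.lf 360505 0 0) (P.cons (P.lf 0 143313 0) (P.cons (P.lf 0 27742 0) P.nil)))) (P.cons (P.cons (P.lf 0 312130 0) (P.cons (P.lf 0 23843 0) (P.cons (P.lf 9583 0 0) P.nil))) (P.cons (P.cons (P.lf 0 32145 0) (P.cons (P.lf 0 2302 0) P.nil)) (P.cons (P.cons (P.lf 3222 0 0) P.nil) P.nil)))))) 20855)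
 EL.nil))
noncomputable def S372_386_660_808_21 : EL := (EL.cons 4 (TM.mk (P.cons (P.cons (P.lf 0 3135978510 0) (P.cons (P.lf 0 143305830 0) (P.cons (P.lf 61795089 0 0) (P.lf 6866109 0 0)))) (P.cons (P.cons (P.lf 288600861 0 0) (P.cons (P.lf 26303202 0 0) (P.cons (P.lf 0 11342232 0) (P.lf 0 1260240 0)))) (P.cons (P.cons (P.lf 17817129 0 0) (P.cons (P.lf 0 929370 0) (P.cons (P.lf 400749 0 0) (P.lf 44520 0 0)))) (P.cons (P.cons (P.lf 0 2525244 0) (P.cons (P.lf 0 100851 0) (P.cons (P.lf 43494 0 0) P.nil))) (P.cons (P.cons (P.lf 32754 0 0) (P.cons (P.lf 8634 0 0) P.nil)) (P.cons (P.cons (P.lf 5412 0 0) P.nil) P.nil)))))) 16167)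
 (EL.cons 8 (TM.mk (P.cons (P.cons (P.lf 0 2823841881 0) (P.cons (P.lf 0 129042036 0) (P.cons (P.lf 55644381 0 0) (P.lf 6182712 0 0)))) (P.cons (P.cons (P.lf 0 31197981 0) (P.cons (P.lf 10383879 0 0) (P.cons (P.lf 0 4477644 0) (P.lf 0 497520 0)))) (P.cons (P.cons (P.lf 25683432 0 0) (P.cons (P.lf 820923 0 0) (P.cons (P.lf 0 353991 0) (P.lf 0 39330 0)))) (P.cons (P.cons (P.lf 0 216120 0) (P.cons (P.lf 0 86901 0) (P.cons (P.lf 37470 0 0) P.nil))) (P.cons (P.cons (P.lf 0 76131 0) (P.cons (P.lf 0 315 0) P.nil)) (P.cons (P.cons (P.lf 2754 0 0) P.nil) P.nil)))))) 9945)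
 (EL.cons 11 (TM.mk (P.cons (P.cons (P.lf 387870180 0 0) (P.cons (P.lf 0 361336956 0) (P.cons (P.lf 0 37084926 0) (P.cons (P.lf 7712631 0 0) (P.lf 642717 0 0))))) (P.cons (P.cons (P.lf 0 55586256 0) (P.cons (P.lf 51783741 0 0) (P.cons (P.lf 5314695 0 0) (P.cons (P.lf 0 1105308 0) (P.lf 0 92109 0))))) (P.cons (P.cons (P.lf 1826667 0 0) (P.cons (P.lf 0 1701711 0) (P.cons (P.lf 0 174648 0) (P.cons (P.lf 36321 0 0) P.nil)))) (P.cons (P.cons (P.lf 56331 0 0) (P.cons (P.lf 0 52476 0) (P.cons (P.lf 0 5385 0) P.nil))) (P.cons (P.cons (P.lf 0 4185 0) (P.cons (P.lf 3900 0 0) P.nil)) (P.cons (P.cons (P.lf 54 0 0) P.nil) P.nil)))))) 4974)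
 EL.nil)))
noncomputable def S372_386_660_808_22 : EL := (EL.cons 4 (TM.mk (P.cons (P.cons (P.lf 0 405899877 0) (P.cons (P.lf 31339332 0 0) (P.cons (P.lf 0 11234130 0) (P.cons (P.lf 0 3467640 0) (P.cons (P.lf 205446 0 0) (P.cons (P.lf 94200 0 0) P.nil)))))) (P.cons (P.cons (P.lf 0 197325681 0) (P.cons (P.lf 0 22635135 0) (P.cons (P.lf 8852016 0 0) (P.cons (P.lf 1868016 0 0) (P.cons (P.lf 0 81873 0) P.nil))))) (P.cons (P.cons (P.lf 29285013 0 0) (P.cons (P.lf 3534168 0 0) (P.cons (P.lf 0 1385574 0) (P.cons (P.lf 0 288684 0) P.nil)))) (P.cons (P.cons (P.lf 1018542 0 0) (P.cons (P.lf 0 76455 0) (P.cons (P.lf 24975 0 0) P.nil))) (P.cons (P.cons (P.lf 0 288132 0) (P.cons (P.lf 0 24726 0) P.nil)) (P.cons (P.cons (P.lf 6930 0 0) P.nil) P.nil)))))) 143604)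
 (EL.cons 8 (TM.mk (P.cons (P.cons (P.lf 0 365499021 0) (P.cons (P.lf 28220001 0 0) (P.cons (P.lf 0 10115952 0) (P.cons (P.lf 0 3122490 0) (P.cons (P.lf 184995 0 0) (P.cons (P.lf 84822 0 0) P.nil)))))) (P.cons (P.cons (P.lf 0 215359611 0) (P.cons (P.lf 0 17473335 0) (P.cons (P.lf 6928218 0 0) (P.cons (P.lf 1360227 0 0) (P.cons (P.lf 0 54654 0) P.nil))))) (P.cons (P.cons (P.lf 5835459 0 0) (P.cons (P.lf 1252827 0 0) (P.cons (P.lf 0 487467 0) (P.cons (P.lf 0 105528 0) P.nil)))) (P.cons (P.cons (P.lf 2404392 0 0) (P.cons (P.lf 147147 0 0) (P.cons (P.lf 0 61917 0) P.nil))) (P.cons (P.cons (P.lf 0 88587 0) (P.cons (P.lf 0 17742 0) P.nil)) (P.cons (P.cons (P.lf 0 9453 0) P.nil) P.nil)))))) 91068)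
 (EL.cons 11 (TM.mk (P.cons (P.cons (P.lf 50203296 0 0) (P.cons (P.lf 0 52939344 0) (P.cons (P.lf 3608925 0 0) (P.cons (P.lf 0 594840 0) (P.cons (P.lf 0 569310 0) (P.cons (P.lf 14415 0 0) P.nil)))))) (P.cons (P.cons (P.lf 21831465 0 0) (P.cons (P.lf 0 18127332 0) (P.cons (P.lf 0 5100090 0) (P.cons (P.lf 1004886 0 0) (P.cons (P.lf 269952 0 0) P.nil))))) (P.cons (P.cons (P.lf 0 4588959 0) (P.cons (P.lf 3964776 0 0) (P.cons (P.lf 861582 0 0) (P.cons (P.lf 0 171354 0) P.nil)))) (P.cons (P.cons (P.lf 176631 0 0) (P.cons (P.lf 0 145497 0) (P.cons (P.lf 0 42849 0) P.nil))) (P.cons (P.cons (P.lf 12762 0 0) (P.cons (P.lf 0 11955 0) P.nil)) (P.cons (P.cons (P.lf 0 1152 0) P.nil) P.nil)))))) 120555)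
 EL.nil)))
noncomputable def S372_386_660_808_23 : EL := (EL.cons 4 (TM.mk (P.cons (P.cons (P.lf 0 2338636041 0) (P.cons (P.lf 0 106869411 0) (P.cons (P.lf 46083294 0 0) (P.lf 5120355 0 0)))) (P.cons (P.cons (P.lf 141739308 0 0) (P.cons (P.lf 16257471 0 0) (P.cons (P.lf 0 7010400 0) (P.lf 0 778926 0)))) (P.cons (P.cons (P.lf 23618820 0 0) (P.cons (P.lf 86373 0 0) (P.cons (P.lf 0 37248 0) (P.lf 0 4143 0)))) (P.cons (P.cons (P.lf 0 1831842 0) (P.cons (P.lf 0 128643 0) (P.cons (P.lf 55476 0 0) P.nil))) (P.cons (P.cons (P.lf 0 53184 0) (P.cons (P.lf 5373 0 0) P.nil)) (P.cons (P.cons (P.lf 8106 0 0) P.nil) P.nil)))))) 17478)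
 (EL.cons 8 (TM.mk (P.cons (P.cons (P.lf 0 2105862135 0) (P.cons (P.lf 0 96232278 0) (P.cons (P.lf 41496441 0 0) (P.lf 4610718 0 0)))) (P.cons (P.cons (P.lf 0 89434587 0) (P.cons (P.lf 4719969 0 0) (P.cons (P.lf 0 2035302 0) (P.lf 0 226146 0)))) (P.cons (P.cons (P.lf 21636207 0 0) (P.cons (P.lf 1002384 0 0) (P.cons (P.lf 0 432240 0) (P.lf 0 48024 0)))) (P.cons (P.cons (P.lf 442227 0 0) (P.cons (P.lf 0 58938 0) (P.cons (P.lf 25413 0 0) P.nil))) (P.cons (P.cons (P.lf 0 92907 0) (P.cons (P.lf 0 3147 0) P.nil)) (P.cons (P.cons (P.lf 867 0 0) P.nil) P.nil)))))) 11094)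
 (EL.cons 11 (TM.mk (P.cons (P.cons (P.lf 289251720 0 0) (P.cons (P.lf 0 269464737 0) (P.cons (P.lf 0 27655845 0) (P.cons (P.lf 5751645 0 0) (P.lf 479301 0 0))))) (P.cons (P.cons (P.lf 0 32364435 0) (P.cons (P.lf 30150465 0 0) (P.cons (P.lf 3094416 0 0) (P.cons (P.lf 0 643551 0) (P.lf 0 53628 0))))) (P.cons (P.cons (P.lf 0 381741 0) (P.cons (P.lf 355626 0 0) (P.cons (P.lf 36501 0 0) (P.cons (P.lf 0 7590 0) P.nil)))) (P.cons (P.cons (P.lf 152736 0 0) (P.cons (P.lf 0 142287 0) (P.cons (P.lf 0 14601 0) P.nil))) (P.cons (P.cons (P.lf 0 4344 0) (P.cons (P.lf 4050 0 0) P.nil)) (P.cons (P.cons (P.lf 0 135 0) P.nil) P.nil)))))) 9816)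
 EL.nil)))
noncomputable def S372_386_660_808_24 : EL := (EL.cons 4 (TM.mk (P.cons (P.cons (P.lf 0 302697252 0) (P.cons (P.lf 23371107 0 0) (P.cons (P.lf 0 8377782 0) (P.cons (P.lf 0 2585970 0) (P.cons (P.lf 153210 0 0) (P.cons (P.lf 70248 0 0) P.nil)))))) (P.cons (P.cons (P.lf 0 156665508 0) (P.cons (P.lf 0 16145658 0) (P.cons (P.lf 6338094 0 0) (P.cons (P.lf 1311807 0 0) (P.cons (P.lf 0 56241 0) P.nil))))) (P.cons (P.cons (P.lf 17677314 0 0) (P.cons (P.lf 2069523 0 0) (P.cons (P.lf 0 813072 0) (P.cons (P.lf 0 167565 0) P.nil)))) (P.cons (P.cons (P.lf 1665495 0 0) (P.cons (P.lf 51933 0 0) (P.cons (P.lf 0 24051 0) P.nil))) (P.cons (P.cons (P.lf 0 226920 0) (P.cons (P.lf 0 24507 0) P.nil)) (P.cons (P.cons (P.lf 0 2481 0) P.nil) P.nil)))))) 96810)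
 (EL.cons 8 (TM.mk (P.cons (P.cons (P.lf 0 272568570 0) (P.cons (P.lf 21044886 0 0) (P.cons (P.lf 0 7543905 0) (P.cons (P.lf 0 2328576 0) (P.cons (P.lf 137961 0 0) (P.cons (P.lf 63255 0 0) P.nil)))))) (P.cons (P.cons (P.lf 0 169167516 0) (P.cons (P.lf 0 12369369 0) (P.cons (P.lf 4929633 0 0) (P.cons (P.lf 941214 0 0) (P.cons (P.lf 0 36423 0) P.nil))))) (P.cons (P.cons (P.lf 0 278598 0) (P.cons (P.lf 492729 0 0) (P.cons (P.lf 0 189669 0) (P.cons (P.lf 0 43269 0) P.nil)))) (P.cons (P.cons (P.lf 2170518 0 0) (P.cons (P.lf 159318 0 0) (P.cons (P.lf 0 65604 0) P.nil))) (P.cons (P.cons (P.lf 0 19143 0) (P.cons (P.lf 0 11403 0) P.nil)) (P.cons (P.cons (P.lf 0 11895 0) P.nil) P.nil)))))) 61269)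
 (EL.cons 11 (TM.mk (P.cons (P.cons (P.lf 37438788 0 0) (P.cons (P.lf 0 39479178 0) (P.cons (P.lf 2691330 0 0) (P.cons (P.lf 0 443598 0) (P.cons (P.lf 0 424560 0) (P.cons (P.lf 10749 0 0) P.nil)))))) (P.cons (P.cons (P.lf 17457051 0 0) (P.cons (P.lf 0 14758827 0) (P.cons (P.lf 0 3718794 0) (P.cons (P.lf 735450 0 0) (P.cons (P.lf 187974 0 0) P.nil))))) (P.cons (P.cons (P.lf 0 2967765 0) (P.cons (P.lf 2592198 0 0) (P.cons (P.lf 518904 0 0) (P.cons (P.lf 0 103563 0) P.nil)))) (P.cons (P.cons (P.lf 0 51 0) (P.cons (P.lf 4395 0 0) (P.cons (P.lf 0 5919 0) P.nil))) (P.cons (P.cons (P.lf 19167 0 0) (P.cons (P.lf 0 17082 0) P.nil)) (P.cons (P.cons (P.lf 0 804 0) P.nil) P.nil)))))) 79602)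
 EL.nil)))
noncomputable def S372_386_660_808_25 : EL := (EL.cons 4 (TM.mk (P.cons (P.cons (P.lf 0 1744022964 0) (P.cons (P.lf 0 79697184 0) (P.cons (P.lf 34366323 0 0) (P.lf 3818472 0 0)))) (P.cons (P.cons (P.lf 50901747 0 0) (P.cons (P.lf 9619716 0 0) (P.cons (P.lf 0 4148127 0) (P.lf 0 460899 0)))) (P.cons (P.cons (P.lf 23596596 0 0) (P.cons (P.lf 566997 0 0) (P.cons (P.lf 0 244497 0) (P.lf 0 27168 0)))) (P.cons (P.cons (P.lf 0 1002063 0) (P.cons (P.lf 0 113700 0) (P.cons (P.lf 49029 0 0) P.nil))) (P.cons (P.cons (P.lf 0 108975 0) (P.cons (P.lf 1035 0 0) P.nil)) (P.cons (P.cons (P.lf 7290 0 0) P.nil) P.nil)))))) 16671)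
 (EL.cons 8 (TM.mk (P.cons (P.cons (P.lf 0 1570433301 0) (P.cons (P.lf 0 71764608 0) (P.cons (P.lf 30945708 0 0) (P.lf 3438411 0 0)))) (P.cons (P.cons (P.lf 0 116040306 0) (P.cons (P.lf 1264950 0 0) (P.cons (P.lf 0 545460 0) (P.lf 0 60606 0)))) (P.cons (P.cons (P.lf 16436223 0 0) (P.cons (P.lf 967650 0 0) (P.cons (P.lf 0 417261 0) (P.lf 0 46359 0)))) (P.cons (P.cons (P.lf 913260 0 0) (P.cons (P.lf 0 26991 0) (P.cons (P.lf 11637 0 0) P.nil))) (P.cons (P.cons (P.lf 0 85716 0) (P.cons (P.lf 0 4860 0) P.nil)) (P.cons (P.cons (P.lf 0 1773 0) P.nil) P.nil)))))) 10815)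
 (EL.cons 11 (TM.mk (P.cons (P.cons (P.lf 215707632 0 0) (P.cons (P.lf 0 200951616 0) (P.cons (P.lf 0 20624172 0) (P.cons (P.lf 4289253 0 0) (P.lf 357435 0 0))))) (P.cons (P.cons (P.lf 0 17357760 0) (P.cons (P.lf 16170360 0 0) (P.cons (P.lf 1659603 0 0) (P.cons (P.lf 0 345150 0) (P.lf 0 28761 0))))) (P.cons (P.cons (P.lf 0 1372266 0) (P.cons (P.lf 1278393 0 0) (P.cons (P.lf 131205 0 0) (P.cons (P.lf 0 27285 0) P.nil)))) (P.cons (P.cons (P.lf 145269 0 0) (P.cons (P.lf 0 135330 0) (P.cons (P.lf 0 13887 0) P.nil))) (P.cons (P.cons (P.lf 531 0 0) (P.cons (P.lf 0 495 0) P.nil)) (P.cons (P.cons (P.lf 0 405 0) P.nil) P.nil)))))) 11178)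
 EL.nil)))
noncomputable def S372_386_660_808_26 : EL := (EL.cons 4 (TM.mk (P.cons (P.cons (P.lf 0 225734553 0) (P.cons (P.lf 17428854 0 0) (P.cons (P.lf 0 6247677 0) (P.cons (P.lf 0 1928469 0) (P.cons (P.lf 114255 0 0) (P.cons (P.lf 52386 0 0) P.nil)))))) (P.cons (P.cons (P.lf 0 123925176 0) (P.cons (P.lf 0 11492883 0) (P.cons (P.lf 4530282 0 0) (P.cons (P.lf 917676 0 0) (P.cons (P.lf 0 38352 0) P.nil))))) (P.cons (P.cons (P.lf 9856242 0 0) (P.cons (P.lf 1138404 0 0) (P.cons (P.lf 0 448293 0) (P.cons (P.lf 0 91278 0) P.nil)))) (P.cons (P.cons (P.lf 1830924 0 0) (P.cons (P.lf 105879 0 0) (P.cons (P.lf 0 44301 0) P.nil))) (P.cons (P.cons (P.lf 0 152355 0) (P.cons (P.lf 0 19596 0) P.nil)) (P.cons (P.cons (P.lf 0 8925 0) P.nil) P.nil)))))) 68970)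
 (EL.cons 8 (TM.mk (P.cons (P.cons (P.lf 0 203266278 0) (P.cons (P.lf 15694089 0 0) (P.cons (P.lf 0 5625819 0) (P.cons (P.lf 0 1736520 0) (P.cons (P.lf 102882 0 0) (P.cons (P.lf 47172 0 0) P.nil)))))) (P.cons (P.cons (P.lf 0 132542487 0) (P.cons (P.lf 0 8731251 0) (P.cons (P.lf 3499473 0 0) (P.cons (P.lf 647340 0 0) (P.cons (P.lf 0 23928 0) P.nil))))) (P.cons (P.cons (P.lf 0 3861507 0) (P.cons (P.lf 53655 0 0) (P.cons (P.lf 0 17346 0) (P.cons (P.lf 0 7563 0) P.nil)))) (P.cons (P.cons (P.lf 1801386 0 0) (P.cons (P.lf 144687 0 0) (P.cons (P.lf 0 59070 0) P.nil))) (P.cons (P.cons (P.lf 34725 0 0) (P.cons (P.lf 0 5469 0) P.nil)) (P.cons (P.cons (P.lf 0 11874 0) P.nil) P.nil)))))) 43413)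
 (EL.cons 11 (TM.mk (P.cons (P.cons (P.lf 27919737 0 0) (P.cons (P.lf 0 29441346 0) (P.cons (P.lf 2007042 0 0) (P.cons (P.lf 0 330810 0) (P.cons (P.lf 0 316611 0) (P.cons (P.lf 8016 0 0) P.nil)))))) (P.cons (P.cons (P.lf 13895757 0 0) (P.cons (P.lf 0 11931387 0) (P.cons (P.lf 0 2710203 0) (P.cons (P.lf 538062 0 0) (P.cons (P.lf 130230 0 0) P.nil))))) (P.cons (P.cons (P.lf 0 1846746 0) (P.cons (P.lf 1632216 0 0) (P.cons (P.lf 296766 0 0) (P.cons (P.lf 0 59493 0) P.nil)))) (P.cons (P.cons (P.lf 0 88998 0) (P.cons (P.lf 80340 0 0) (P.cons (P.lf 12009 0 0) P.nil))) (P.cons (P.cons (P.lf 17898 0 0) (P.cons (P.lf 0 15783 0) P.nil)) (P.cons (P.cons (P.lf 0 177 0) P.nil) P.nil)))))) 56661)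
 EL.nil)))
noncomputable def S372_386_660_808_27 : EL := (EL.cons 13 (TM.mk (P.lf 0 4294967296 0) 0)
 EL.nil)
noncomputable def S372_386_660_808_28 : EL := (EL.cons 13 (TM.mk (P.cons (P.cons (P.lf 0 555911560 0) (P.cons (P.lf 68325336 0 0) (P.cons (P.lf 0 29462656 0) (P.lf 0 3273624 0)))) (P.cons (P.cons (P.lf 0 321412888 0) (P.cons (P.lf 0 14687708 0) (P.cons (P.lf 6333504 0 0) (P.lf 703720 0 0)))) (P.cons (P.cons (P.lf 7370395 0 0) (P.cons (P.lf 1008892 0 0) (P.cons (P.lf 0 435044 0) (P.lf 0 48336 0)))) (P.cons (P.cons (P.lf 694799 0 0) (P.cons (P.lf 0 7132 0) (P.cons (P.lf 3072 0 0) P.nil))) (P.cons (P.cons (P.lf 0 35795 0) (P.cons (P.lf 0 2164 0) P.nil)) (P.cons (P.cons (P.lf 0 105 0) P.nil) P.nil)))))) 3535)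
 EL.nil)
noncomputable def S372_386_660_808_29 : EL := (EL.cons 13 (TM.mk (P.cons (P.cons (P.lf 0 71953437 0) (P.cons (P.lf 17687140 0 0) (P.cons (P.lf 0 8713829 0) (P.cons (P.lf 89965 0 0) (P.cons (P.lf 0 97953 0) (P.cons (P.lf 0 44912 0) P.nil)))))) (P.cons (P.cons (P.lf 0 83203027 0) (P.cons (P.lf 6424066 0 0) (P.cons (P.lf 0 2302819 0) (P.cons (P.lf 0 710811 0) (P.cons (P.lf 42113 0 0) P.nil))))) (P.cons (P.cons (P.lf 0 22144911 0) (P.cons (P.lf 0 2171634 0) (P.cons (P.lf 854105 0 0) (P.cons (P.lf 175049 0 0) P.nil)))) (P.cons (P.cons (P.lf 1282983 0 0) (P.cons (P.lf 177457 0 0) (P.cons (P.lf 0 69395 0) P.nil))) (P.cons (P.cons (P.lf 82076 0 0) (P.cons (P.lf 800 0 0) P.nil)) (P.cons (P.cons (P.lf 0 7769 0) P.nil) P.nil)))))) 77712)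
 EL.nil)
noncomputable def S372_386_660_808_30 : EL := (EL.cons 13 (TM.mk (P.cons (P.lf 0 3202944564 0) (P.cons (P.lf 0 100640632 0) (P.cons (P.lf 4888368 0 0) (P.cons (P.lf 0 51604 0) (P.cons (P.lf 0 2228 0) (P.cons (P.lf 92 0 0) P.nil)))))) 64)
 EL.nil)
noncomputable def S372_386_660_808_31 : EL := (EL.cons 13 (TM.mk (P.cons (P.cons (P.lf 0 414567512 0) (P.cons (P.lf 50953185 0 0) (P.cons (P.lf 0 21971588 0) (P.lf 0 2441284 0)))) (P.cons (P.cons (P.lf 0 252717862 0) (P.cons (P.lf 0 9352250 0) (P.cons (P.lf 4032794 0 0) (P.lf 448086 0 0)))) (P.cons (P.cons (P.lf 0 1402275 0) (P.cons (P.lf 330443 0 0) (P.cons (P.lf 0 142489 0) (P.lf 0 15830 0)))) (P.cons (P.cons (P.lf 1049987 0 0) (P.cons (P.lf 35859 0 0) (P.cons (P.lf 0 15465 0) P.nil))) (P.cons (P.cons (P.lf 0 22952 0) (P.cons (P.lf 0 3070 0) P.nil)) (P.cons (P.cons (P.lf 0 1774 0) P.nil) P.nil)))))) 5614)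
 EL.nil)
noncomputable def S372_386_660_808_32 : EL := (EL.cons 13 (TM.mk (P.cons (P.cons (P.lf 0 53658818 0) (P.cons (P.lf 13190072 0 0) (P.cons (P.lf 0 6498282 0) (P.cons (P.lf 67090 0 0) (P.cons (P.lf 0 73047 0) (P.cons (P.lf 0 33492 0) P.nil)))))) (P.cons (P.cons (P.lf 0 63734157 0) (P.cons (P.lf 5205155 0 0) (P.cons (P.lf 0 1921497 0) (P.cons (P.lf 0 527974 0) (P.cons (P.lf 29110 0 0) P.nil))))) (P.cons (P.cons (P.lf 0 18382163 0) (P.cons (P.lf 0 1489082 0) (P.cons (P.lf 592900 0 0) (P.cons (P.lf 113783 0 0) P.nil)))) (P.cons (P.cons (P.lf 531705 0 0) (P.cons (P.lf 74352 0 0) (P.cons (P.lf 0 29221 0) P.nil))) (P.cons (P.cons (P.lf 115438 0 0) (P.cons (P.lf 7312 0 0) P.nil)) (P.cons (P.cons (P.lf 0 5638 0) P.nil) P.nil)))))) 70555)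
 EL.nil)
noncomputable def S372_386_660_808_33 : EL := (EL.cons 14 (TM.mk (P.lf 8589934592 0 0) 0)
 EL.nil)
noncomputable def S372_386_660_808_34 : EL := (EL.cons 14 (TM.mk (P.cons (P.cons (P.lf 1111823120 0 0) (P.cons (P.lf 0 136650672 0) (P.cons (P.lf 58925312 0 0) (P.lf 6547248 0 0)))) (P.cons (P.cons (P.lf 642825776 0 0) (P.cons (P.lf 29375416 0 0) (P.cons (P.lf 0 12667008 0) (P.lf 0 1407440 0)))) (P.cons (P.cons (P.lf 0 14740790 0) (P.cons (P.lf 0 2017784 0) (P.cons (P.lf 870088 0 0) (P.lf 96672 0 0)))) (P.cons (P.cons (P.lf 0 1389598 0) (P.cons (P.lf 14264 0 0) (P.cons (P.lf 0 6144 0) P.nil))) (P.cons (P.cons (P.lf 71590 0 0) (P.cons (P.lf 4328 0 0) P.nil)) (P.cons (P.cons (P.lf 210 0 0) P.nil) P.nil)))))) 7070)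
 EL.nil)
noncomputable def S372_386_660_808_35 : EL := (EL.cons 14 (TM.mk (P.cons (P.cons (P.lf 143906874 0 0) (P.cons (P.lf 0 35374280 0) (P.cons (P.lf 17427658 0 0) (P.cons (P.lf 0 179930 0) (P.cons (P.lf 195906 0 0) (P.cons (P.lf 89824 0 0) P.nil)))))) (P.cons (P.cons (P.lf 166406054 0 0) (P.cons (P.lf 0 12848132 0) (P.cons (P.lf 4605638 0 0) (P.cons (P.lf 1421622 0 0) (P.cons (P.lf 0 84226 0) P.nil))))) (P.cons (P.cons (P.lf 44289822 0 0) (P.cons (P.lf 4343268 0 0) (P.cons (P.lf 0 1708210 0) (P.cons (P.lf 0 350098 0) P.nil)))) (P.cons (P.cons (P.lf 0 2565966 0) (P.cons (P.lf 0 354914 0) (P.cons (P.lf 138790 0 0) P.nil))) (P.cons (P.cons (P.lf 0 164152 0) (P.cons (P.lf 0 1600 0) P.nil)) (P.cons (P.cons (P.lf 15538 0 0) P.nil) P.nil)))))) 155424)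
 EL.nil)
noncomputable def S372_386_660_808_36 : EL := (EL.cons 14 (TM.mk (P.cons (P.lf 6405889128 0 0) (P.cons (P.lf 201281264 0 0) (P.cons (P.lf 0 9776736 0) (P.cons (P.lf 103208 0 0) (P.cons (P.lf 4456 0 0) (P.cons (P.lf 0 184 0) P.nil)))))) 128)
 EL.nil)
noncomputable def S372_386_660_808_37 : EL := (EL.cons 14 (TM.mk (P.cons (P.cons (P.lf 829135024 0 0) (P.cons (P.lf 0 101906370 0) (P.cons (P.lf 43943176 0 0) (P.lf 4882568 0 0)))) (P.cons (P.cons (P.lf 505435724 0 0) (P.cons (P.lf 18704500 0 0) (P.cons (P.lf 0 8065588 0) (P.lf 0 896172 0)))) (P.cons (P.cons (P.lf 2804550 0 0) (P.cons (P.lf 0 660886 0) (P.cons (P.lf 284978 0 0) (P.lf 31660 0 0)))) (P.cons (P.cons (P.lf 0 2099974 0) (P.cons (P.lf 0 71718 0) (P.cons (P.lf 30930 0 0) P.nil))) (P.cons (P.cons (P.lf 45904 0 0) (P.cons (P.lf 6140 0 0) P.nil)) (P.cons (P.cons (P.lf 3548 0 0) P.nil) P.nil))))))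 11228)
 EL.nil)
noncomputable def S372_386_660_808_38 : EL := (EL.cons 14 (TM.mk (P.cons (P.cons (P.lf 107317636 0 0) (P.cons (P.lf 0 26380144 0) (P.cons (P.lf 12996564 0 0) (P.cons (P.lf 0 134180 0) (P.cons (P.lf 146094 0 0) (P.cons (P.lf 66984 0 0) P.nil)))))) (P.cons (P.cons (P.lf 127468314 0 0) (P.cons (P.lf 0 10410310 0) (P.cons (P.lf 3842994 0 0) (P.cons (P.lf 1055948 0 0) (P.cons (P.lf 0 58220 0) P.nil))))) (P.cons (P.cons (P.lf 36764326 0 0) (P.cons (P.lf 2978164 0 0) (P.cons (P.lf 0 1185800 0) (P.cons (P.lf 0 227566 0) P.nil)))) (P.cons (P.cons (P.lf 0 1063410 0) (P.cons (P.lf 0 148704 0) (P.cons (P.lf 58442 0 0) P.nil))) (P.cons (P.cons (P.lf 0 230876 0) (P.cons (P.lf 0 14624 0) P.nil)) (P.cons (P.cons (P.lf 11276 0 0) P.nil) P.nil)))))) 141110)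
 EL.nil)
noncomputable def S372_386_660_808_39 : EL := (EL.cons 14 (TM.mk (P.cons (P.lf 4777151104 0 0) (P.cons (P.lf 300208446 0 0) (P.cons (P.lf 0 9865408 0) (P.cons (P.lf 0 304246 0) (P.cons (P.lf 22610 0 0) (P.cons (P.lf 0 300 0) P.nil)))))) 230)
 EL.nil)
noncomputable def S372_386_660_808_40 : EL := (EL.cons 14 (TM.mk (P.cons (P.cons (P.lf 618322174 0 0) (P.cons (P.lf 0 75996026 0) (P.cons (P.lf 32770344 0 0) (P.lf 3641144 0 0)))) (P.cons (P.cons (P.lf 396353954 0 0) (P.cons (P.lf 11560868 0 0) (P.cons (P.lf 0 4985174 0) (P.lf 0 553904 0)))) (P.cons (P.cons (P.lf 12991268 0 0) (P.cons (P.lf 61420 0 0) (P.cons (P.lf 0 26486 0) (P.lf 0 2944 0)))) (P.cons (P.cons (P.lf 0 2065630 0) (P.cons (P.lf 0 91482 0) (P.cons (P.lf 39452 0 0) P.nil))) (P.cons (P.cons (P.lf 0 11662 0) (P.cons (P.lf 3822 0 0) P.nil)) (P.cons (P.cons (P.lf 6388 0 0) P.nil) P.nil)))))) 12126)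
 EL.nil)
noncomputable def S372_386_660_808_41 : EL := (EL.cons 14 (TM.mk (P.cons (P.cons (P.lf 80031444 0 0) (P.cons (P.lf 0 19672824 0) (P.cons (P.lf 9692104 0 0) (P.cons (P.lf 0 100064 0) (P.cons (P.lf 108948 0 0) (P.cons (P.lf 49954 0 0) P.nil)))))) (P.cons (P.cons (P.lf 97573376 0 0) (P.cons (P.lf 0 8381568 0) (P.cons (P.lf 3170426 0 0) (P.cons (P.lf 784322 0 0) (P.cons (P.lf 0 39994 0) P.nil))))) (P.cons (P.cons (P.lf 30281484 0 0) (P.cons (P.lf 2007036 0 0) (P.cons (P.lf 0 809046 0) (P.cons (P.lf 0 144810 0) P.nil)))) (P.cons (P.cons (P.lf 0 75352 0) (P.cons (P.lf 0 29578 0) (P.cons (P.lf 11578 0 0) P.nil))) (P.cons (P.cons (P.lf 0 237348 0) (P.cons (P.lf 0 17918 0) P.nil)) (P.cons (P.cons (P.lf 4714 0 0) P.nil) P.nil)))))) 121896)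
 EL.nil)
noncomputable def S372_386_660_808_42 : EL := (EL.cons 14 (TM.mk (P.cons (P.lf 3562530074 0 0) (P.cons (P.lf 335817810 0 0) (P.cons (P.lf 0 5759684 0) (P.cons (P.lf 0 742346 0) (P.cons (P.lf 27044 0 0) (P.cons (P.lf 586 0 0) P.nil)))))) 314)
 EL.nil)
noncomputable def S372_386_660_808_43 : EL := (EL.cons 14 (TM.mk (P.cons (P.cons (P.lf 461109832 0 0) (P.cons (P.lf 0 56673554 0) (P.cons (P.lf 24438276 0 0) (P.lf 2715360 0 0)))) (P.cons (P.cons (P.lf 310067106 0 0) (P.cons (P.lf 6840688 0 0) (P.cons (P.lf 0 2949780 0) (P.lf 0 327750 0)))) (P.cons (P.cons (P.lf 18271860 0 0) (P.cons (P.lf 403196 0 0) (P.cons (P.lf 0 173864 0) (P.lf 0 19318 0)))) (P.cons (P.cons (P.lf 0 1679702 0) (P.cons (P.lf 0 80854 0) (P.cons (P.lf 34868 0 0) P.nil))) (P.cons (P.cons (P.lf 0 66802 0) (P.cons (P.lf 736 0 0) P.nil)) (P.cons (P.cons (P.lf 7190 0 0) P.nil) P.nil)))))) 11812)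
 EL.nil)
noncomputable def S372_386_660_808_44 : EL := (EL.cons 14 (TM.mk (P.cons (P.cons (P.lf 59682940 0 0) (P.cons (P.lf 0 14670884 0) (P.cons (P.lf 7227826 0 0) (P.cons (P.lf 0 74622 0) (P.cons (P.lf 81248 0 0) (P.cons (P.lf 37252 0 0) P.nil)))))) (P.cons (P.cons (P.lf 74640040 0 0) (P.cons (P.lf 0 6711478 0) (P.cons (P.lf 2591432 0 0) (P.cons (P.lf 582558 0 0) (P.cons (P.lf 0 27272 0) P.nil))))) (P.cons (P.cons (P.lf 24777496 0 0) (P.cons (P.lf 1322726 0 0) (P.cons (P.lf 0 540082 0) (P.cons (P.lf 0 89498 0) P.nil)))) (P.cons (P.cons (P.lf 543274 0 0) (P.cons (P.lf 34274 0 0) (P.cons (P.lf 0 13814 0) P.nil))) (P.cons (P.cons (P.lf 0 212018 0) (P.cons (P.lf 0 16450 0) P.nil)) (P.cons (P.cons (P.lf 0 1546 0) P.nil) P.nil)))))) 102042)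
 EL.nil)
noncomputable def S372_386_660_808_45 : EL := (EL.cons 14 (TM.mk (P.cons (P.cons (P.lf 18626332 0 0) (P.cons (P.lf 0 6867910 0) (P.cons (P.lf 3805634 0 0) (P.cons (P.lf 0 433506 0) (P.cons (P.lf 120806 0 0) (P.cons (P.lf 20558 0 0) P.nil)))))) (P.cons (P.cons (P.lf 32307712 0 0) (P.cons (P.lf 0 6465302 0) (P.cons (P.lf 2913040 0 0) (P.cons (P.lf 224154 0 0) (P.cons (P.lf 0 17574 0) P.nil))))) (P.cons (P.cons (P.lf 17938582 0 0) (P.cons (P.lf 0 507928 0) (P.cons (P.lf 61942 0 0) (P.cons (P.lf 153480 0 0) P.nil)))) (P.cons (P.cons (P.lf 2673454 0 0) (P.cons (P.lf 460290 0 0) (P.cons (P.lf 0 163294 0) P.nil))) (P.cons (P.cons (P.lf 0 314994 0) (P.cons (P.lf 0 48654 0) P.nil)) (P.cons (P.cons (P.lf 0 11644 0) P.nil) P.nil)))))) 224282)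
 EL.nil)
noncomputable def S372_386_660_808_46 : EL := (EL.cons 15 (TM.mk (P.lf 4294967296 0 0) 0)
 EL.nil)
noncomputable def S372_386_660_808_47 : EL := (EL.cons 15 (TM.mk (P.cons (P.cons (P.lf 555911560 0 0) (P.cons (P.lf 0 68325336 0) (P.cons (P.lf 29462656 0 0) (P.lf 3273624 0 0)))) (P.cons (P.cons (P.lf 321412888 0 0) (P.cons (P.lf 14687708 0 0) (P.cons (P.lf 0 6333504 0) (P.lf 0 703720 0)))) (P.cons (P.cons (P.lf 0 7370395 0) (P.cons (P.lf 0 1008892 0) (P.cons (P.lf 435044 0 0) (P.lf 48336 0 0)))) (P.cons (P.cons (P.lf 0 694799 0) (P.cons (P.lf 7132 0 0) (P.cons (P.lf 0 3072 0) P.nil))) (P.cons (P.cons (P.lf 35795 0 0) (P.cons (P.lf 2164 0 0) P.nil)) (P.cons (P.cons (P.lf 105 0 0) P.nil) P.nil)))))) 3535)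
 EL.nil)
noncomputable def S372_386_660_808_48 : EL := (EL.cons 15 (TM.mk (P.cons (P.cons (P.lf 71953437 0 0) (P.cons (P.lf 0 17687140 0) (P.cons (P.lf 8713829 0 0) (P.cons (P.lf 0 89965 0) (P.cons (P.lf 97953 0 0) (P.cons (P.lf 44912 0 0) P.nil)))))) (P.cons (P.cons (P.lf 83203027 0 0) (P.cons (P.lf 0 6424066 0) (P.cons (P.lf 2302819 0 0) (P.cons (P.lf 710811 0 0) (P.cons (P.lf 0 42113 0) P.nil))))) (P.cons (P.cons (P.lf 22144911 0 0) (P.cons (P.lf 2171634 0 0) (P.cons (P.lf 0 854105 0) (P.cons (P.lf 0 175049 0) P.nil)))) (P.cons (P.cons (P.lf 0 1282983 0) (P.cons (P.lf 0 177457 0) (P.cons (P.lf 69395 0 0) P.nil))) (P.cons (P.cons (P.lf 0 82076 0) (P.cons (P.lf 0 800 0) P.nil)) (P.cons (P.cons (P.lf 7769 0 0) P.nil) P.nil)))))) 77712)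
 EL.nil)
noncomputable def S372_386_660_808 : SL := (SL.cons S372_386_660_808_0 (SL.cons S372_386_660_808_1 (SL.cons S372_386_660_808_2 (SL.cons S372_386_660_808_3 (SL.cons S372_386_660_808_4 (SL.cons S372_386_660_808_5 (SL.cons S372_386_660_808_6 (SL.cons S372_386_660_808_7 (SL.cons S372_386_660_808_8 (SL.cons S372_386_660_808_9 (SL.cons S372_386_660_808_10 (SL.cons S372_386_660_808_11 (SL.cons S372_386_660_808_12 (SL.cons S372_386_660_808_13 (SL.cons S372_386_660_808_14 (SL.cons S372_386_660_808_15 (SL.cons S372_386_660_808_16 (SL.cons S372_386_660_808_17 (SL.cons S372_386_660_808_18 (SL.cons S372_386_660_808_19 (SL.cons S372_386_660_808_20 (SL.cons S372_386_660_808_21 (SL.cons S372_386_660_808_22 (SL.cons S372_386_660_808_23 (SL.cons S372_386_660_808_24 (SL.cons S372_386_660_808_25 (SL.cons S372_386_660_808_26 (SL.cons S372_386_660_808_27 (SL.cons S372_386_660_808_28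 (SL.cons S372_386_660_808_29 (SL.cons S372_386_660_808_30 (SL.cons S372_386_660_808_31 (SL.cons S372_386_660_808_32 (SL.cons S372_386_660_808_33 (SL.cons S372_386_660_808_34 (SL.cons S372_386_660_808_35 (SL.cons S372_386_660_808_36 (SL.cons S372_386_660_808_37 (SL.cons S372_386_660_808_38 (SL.cons S372_386_660_808_39 (SL.cons S372_386_660_808_40 (SL.cons S372_386_660_808_41 (SL.cons S372_386_660_808_42 (SL.cons S372_386_660_808_43 (SL.cons S372_386_660_808_44 (SL.cons S372_386_660_808_45 (SL.cons S372_386_660_808_46 (SL.cons S372_386_660_808_47 (SL.cons S372_386_660_808_48 SL.nil)))))))))))))))))))))))))))))))))))))))))))))))))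
theorem S357_372_660_808_ok : band (seq (shp 5 357 372 660 808) S357_372_660_808) (sok S357_372_660_808) = true := by decide +kernel

theorem S372_386_216_364_ok : band (seq (shp 5 372 386 216 364) S372_386_216_364) (sok S372_386_216_364) = true := by decide +kernel

theorem S372_386_364_512_ok : band (seq (shp 5 372 386 364 512) S372_386_364_512) (sok S372_386_364_512) = true := by decide +kernel

theorem S372_386_512_586_ok : band (seq (shp 5 372 386 512 586) S372_386_512_586) (sok S372_386_512_586) = true := by decide +kernel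

theorem S372_386_512_660_ok : band (seq (shp 5 372 386 512 660) S372_386_512_660) (sok S372_386_512_660) = true := by decide +kernel

theorem S372_386_660_808_ok : band (seq (shp 5 372 386 660 808) S372_386_660_808) (sok S372_386_660_808) = true := by decide +kernel

end Vale.Agent.P098.Ck
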