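import Vale.Agent.P098.CkDefs

namespace Vale.Agent.P098.Ck

noncomputable def S154_157_364_512_0 : EL := (EL.cons 0 (TM.mk (P.cons (P.lf 5183660565 0 0) (P.cons (P.lf 66119190 0 0) (P.cons (P.lf 220259 0 0) (P.cons (P.lf 0 5312 0) (P.cons (P.lf 0 35 0) (P.cons (P.lf 0 0 0) P.nil)))))) 149)
 (EL.cons 1 (TM.mk (P.cons (P.lf 0 1794431471 0) (P.cons (P.lf 0 3303540 0) (P.cons (P.lf 425148 0 0) (P.cons (P.lf 2364 0 0) (P.cons (P.lf 0 13 0) (P.cons (P.lf 0 0 0) P.nil)))))) 110)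
 (EL.cons 5 (TM.mk (P.cons (P.lf 5458365094 0 0) (P.cons (P.lf 0 23509042 0) (P.cons (P.lf 0 78318 0) (P.cons (P.lf 1884 0 0) (P.cons (P.lf 16 0 0) (P.cons (P.lf 0 0 0) P.nil)))))) 81)
 (EL.cons 9 (TM.mk (P.lf 6442450944 0 0) 2)
 EL.nil))))
noncomputable def S154_157_364_512_1 : EL := (EL.cons 0 (TM.mk (P.cons (P.cons (P.lf 0 3594201163 0) (P.cons (P.lf 292023237 0 0) (P.cons (P.lf 19523982 0 0) (P.lf 0 6507987 0)))) (P.cons (P.cons (P.lf 109318958 0 0) (P.cons (P.lf 0 6207741 0) (P.cons (P.lf 0 415048 0) (P.lf 138349 0 0)))) (P.cons (P.cons (P.lf 3246669 0 0) (P.cons (P.lf 0 555601 0) (P.cons (P.lf 0 37143 0) (P.lf 12377 0 0)))) (P.cons (P.cons (P.lf 0 16341 0) (P.cons (P.lf 0 6871 0) (P.cons (P.lf 0 454 0) P.nil))) (P.cons (P.cons (P.lf 0 933 0) (P.cons (P.lf 66 0 0) P.nil)) (P.cons (P.cons (P.lf 0 0 0) P.nil) P.nil)))))) 2936)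
 (EL.cons 1 (TM.mk (P.cons (P.cons (P.lf 141775816 0 0) (P.cons (P.lf 82200175 0 0) (P.cons (P.lf 5495706 0 0) (P.lf 0 1831899 0)))) (P.cons (P.cons (P.lf 0 75425508 0) (P.cons (P.lf 11942281 0 0) (P.cons (P.lf 798424 0 0) (P.lf 0 266134 0)))) (P.cons (P.cons (P.lf 385498 0 0) (P.cons (P.lf 164748 0 0) (P.cons (P.lf 11007 0 0) (P.lf 0 3662 0)))) (P.cons (P.cons (P.lf 37340 0 0) (P.cons (P.lf 0 3418 0) (P.cons (P.lf 0 221 0) P.nil))) (P.cons (P.cons (P.lf 63 0 0) (P.cons (P.lf 0 69 0) P.nil)) (P.cons (P.cons (P.lf 0 0 0) P.nil) P.nil)))))) 1405)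
 (EL.cons 5 (TM.mk (P.cons (P.cons (P.lf 1457701517 0 0) (P.cons (P.lf 0 564097658 0) (P.cons (P.lf 0 37714254 0) (P.lf 12571418 0 0)))) (P.cons (P.cons (P.lf 60331995 0 0) (P.cons (P.lf 0 14285936 0) (P.cons (P.lf 0 955120 0) (P.lf 318372 0 0)))) (P.cons (P.cons (P.lf 0 1503132 0) (P.cons (P.lf 44100 0 0) (P.cons (P.lf 2946 0 0) (P.lf 0 978 0)))) (P.cons (P.cons (P.lf 0 10960 0) (P.cons (P.lf 3500 0 0) (P.cons (P.lf 224 0 0) P.nil))) (P.cons (P.cons (P.lf 290 0 0) (P.cons (P.lf 10 0 0) P.nil)) (P.cons (P.cons (P.lf 0 0 0) P.nil) P.nil)))))) 1545)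
 (EL.cons 9 (TM.mk (P.cons (P.cons (P.lf 158614693 0 0) (P.cons (P.lf 0 406118088 0) (P.cons (P.lf 0 27152106 0) (P.lf 9050700 0 0)))) (P.cons (P.cons (P.lf 87530245 0 0) (P.cons (P.lf 0 14552760 0) (P.cons (P.lf 0 972960 0) (P.lf 324318 0 0)))) (P.cons (P.cons (P.lf 0 307728 0) (P.cons (P.lf 0 135390 0) (P.cons (P.lf 0 9048 0) (P.lf 3012 0 0)))) (P.cons (P.cons (P.lf 0 14788 0) (P.cons (P.lf 930 0 0) (P.cons (P.lf 60 0 0) P.nil))) (P.cons (P.cons (P.lf 0 24 0) (P.cons (P.lf 18 0 0) P.nil)) (P.cons (P.cons (P.lf 0 0 0) P.nil) P.nil)))))) 611)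
 (EL.cons 2 (TM.mk (P.cons (P.cons (P.lf 845032300 0 0) (P.cons (P.lf 130832218 0 0) (P.cons (P.lf 0 63030836 0) (P.cons (P.lf 0 2385270 0) (P.lf 596314 0 0))))) (P.cons (P.cons (P.lf 11649279 0 0) (P.cons (P.lf 1803600 0 0) (P.cons (P.lf 0 868916 0) (P.cons (P.lf 0 32880 0) (P.lf 8218 0 0))))) (P.cons (P.cons (P.lf 0 208285 0) (P.cons (P.lf 0 32248 0) (P.cons (P.lf 15536 0 0) (P.cons (P.lf 587 0 0) P.nil)))) (P.cons (P.cons (P.lf 0 4041 0) (P.cons (P.lf 0 624 0) (P.cons (P.lf 300 0 0) P.nil))) (P.cons (P.cons (P.lf 0 0 0) (P.cons (P.lf 0 0 0) P.nil)) (P.cons (P.cons (P.lf 0 0 0) P.nil) P.nil)))))) 499)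
 (EL.cons 6 (TM.mk (P.cons (P.cons (P.lf 463424958 0 0) (P.cons (P.lf 71749821 0 0) (P.cons (P.lf 0 34566798 0) (P.cons (P.lf 0 1308108 0) (P.lf 327027 0 0))))) (P.cons (P.cons (P.lf 16606290 0 0) (P.cons (P.lf 2571069 0 0) (P.cons (P.lf 0 1238658 0) (P.cons (P.lf 0 46872 0) (P.lf 11715 0 0))))) (P.cons (P.cons (P.lf 154497 0 0) (P.cons (P.lf 23919 0 0) (P.cons (P.lf 0 11523 0) (P.cons (P.lf 0 435 0) P.nil)))) (P.cons (P.cons (P.lf 0 1062 0) (P.cons (P.lf 0 162 0) (P.cons (P.lf 78 0 0) P.nil))) (P.cons (P.cons (P.lf 0 24 0) (P.cons (P.lf 0 3 0) P.nil)) (P.cons (P.cons (P.lf 0 0 0) P.nil) P.nil)))))) 294)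
 EL.nil))))))
noncomputable def S154_157_364_512_2 : EL := (EL.cons 0 (TM.mk (P.cons (P.cons (P.lf 0 180122292 0) (P.cons (P.lf 483610742 0 0) (P.cons (P.lf 0 25082596 0) (P.cons (P.lf 0 18455041 0) (P.cons (P.lf 2302468 0 0) (P.cons (P.lf 171087 0 0) P.nil)))))) (P.cons (P.cons (P.lf 0 95790150 0) (P.cons (P.lf 19745798 0 0) (P.cons (P.lf 0 955493 0) (P.cons (P.lf 0 744326 0) (P.cons (P.lf 91251 0 0) P.nil))))) (P.cons (P.cons (P.lf 2484693 0 0) (P.cons (P.lf 0 562446 0) (P.cons (P.lf 0 11672 0) (P.cons (P.lf 16011 0 0) P.nil)))) (P.cons (P.cons (P.lf 88590 0 0) (P.cons (P.lf 0 30000 0) (P.cons (P.lf 755 0 0) P.nil))) (P.cons (P.cons (P.lf 0 897 0) (P.cons (P.lf 0 109 0) P.nil)) (P.cons (P.cons (P.lf 0 27 0) P.nil) P.nil)))))) 101196)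
 (EL.cons 1 (TM.mk (P.cons (P.cons (P.lf 8068818 0 0) (P.cons (P.lf 0 19396842 0) (P.cons (P.lf 0 4529614 0) (P.cons (P.lf 3 0 0) (P.cons (P.lf 129635 0 0) (P.cons (P.lf 9633 0 0) P.nil)))))) (P.cons (P.cons (P.lf 1340971 0 0) (P.cons (P.lf 8406899 0 0) (P.cons (P.lf 0 790759 0) (P.cons (P.lf 0 368248 0) (P.cons (P.lf 54249 0 0) P.nil))))) (P.cons (P.cons (P.lf 0 1715117 0) (P.cons (P.lf 505047 0 0) (P.cons (P.lf 0 31246 0) (P.cons (P.lf 0 19939 0) P.nil)))) (P.cons (P.cons (P.lf 16652 0 0) (P.cons (P.lf 45 0 0) (P.cons (P.lf 0 749 0) P.nil))) (P.cons (P.cons (P.lf 1124 0 0) (P.cons (P.lf 0 314 0) P.nil)) (P.cons (P.cons (P.lf 0 0 0) P.nil) P.nil)))))) 43475)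
 (EL.cons 5 (TM.mk (P.cons (P.cons (P.lf 68469295 0 0) (P.cons (P.lf 0 194614259 0) (P.cons (P.lf 36417243 0 0) (P.cons (P.lf 10946521 0 0) (P.cons (P.lf 0 1982171 0) (P.cons (P.lf 0 147292 0) P.nil)))))) (P.cons (P.cons (P.lf 38943417 0 0) (P.cons (P.lf 0 20339679 0) (P.cons (P.lf 1528631 0 0) (P.cons (P.lf 839515 0 0) (P.cons (P.lf 0 115831 0) P.nil))))) (P.cons (P.cons (P.lf 447180 0 0) (P.cons (P.lf 0 211780 0) (P.cons (P.lf 33223 0 0) (P.cons (P.lf 11051 0 0) P.nil)))) (P.cons (P.cons (P.lf 0 41796 0) (P.cons (P.lf 10238 0 0) (P.cons (P.lf 262 0 0) P.nil))) (P.cons (P.cons (P.lf 0 129 0) (P.cons (P.lf 168 0 0) P.nil)) (P.cons (P.cons (P.lf 0 0 0) P.nil) P.nil)))))) 48296)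
 (EL.cons 9 (TM.mk (P.cons (P.cons (P.lf 3905131 0 0) (P.cons (P.lf 0 19997449 0) (P.cons (P.lf 24263817 0 0) (P.cons (P.lf 3868879 0 0) (P.cons (P.lf 0 1026637 0) (P.cons (P.lf 0 76288 0) P.nil)))))) (P.cons (P.cons (P.lf 4310031 0 0) (P.cons (P.lf 0 11752017 0) (P.cons (P.lf 1049035 0 0) (P.cons (P.lf 507237 0 0) (P.cons (P.lf 0 73575 0) P.nil))))) (P.cons (P.cons (P.lf 1174074 0 0) (P.cons (P.lf 0 363310 0) (P.cons (P.lf 25651 0 0) (P.cons (P.lf 14773 0 0) P.nil)))) (P.cons (P.cons (P.lf 0 9090 0) (P.cons (P.lf 0 378 0) (P.cons (P.lf 468 0 0) P.nil))) (P.cons (P.cons (P.lf 0 387 0) (P.cons (P.lf 108 0 0) P.nil)) (P.cons (P.cons (P.lf 0 0 0) P.nil) P.nil)))))) 22208)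
 (EL.cons 2 (TM.mk (P.cons (P.cons (P.lf 41609795 0 0) (P.cons (P.lf 0 100095750 0) (P.cons (P.lf 0 26721303 0) (P.cons (P.lf 9100693 0 0) (P.cons (P.lf 1228978 0 0) (P.cons (P.lf 0 232171 0) P.nil)))))) (P.cons (P.cons (P.lf 23535646 0 0) (P.cons (P.lf 0 1642438 0) (P.cons (P.lf 0 2927407 0) (P.cons (P.lf 390960 0 0) (P.cons (P.lf 76128 0 0) P.nil))))) (P.cons (P.cons (P.lf 225562 0 0) (P.cons (P.lf 0 26960 0) (P.cons (P.lf 0 30538 0) (P.cons (P.lf 4713 0 0) P.nil)))) (P.cons (P.cons (P.lf 0 10850 0) (P.cons (P.lf 0 472 0) (P.cons (P.lf 1074 0 0) P.nil))) (P.cons (P.cons (P.lf 0 146 0) (P.cons (P.lf 11 0 0) P.nil)) (P.cons (P.cons (P.lf 0 0 0) P.nil) P.nil)))))) 30053)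
 (EL.cons 6 (TM.mk (P.cons (P.cons (P.lf 22819266 0 0) (P.cons (P.lf 0 54893604 0) (P.cons (P.lf 0 14654256 0) (P.cons (P.lf 4990914 0 0) (P.cons (P.lf 673986 0 0) (P.cons (P.lf 0 127320 0) P.nil)))))) (P.cons (P.cons (P.lf 13410330 0 0) (P.cons (P.lf 0 2111034 0) (P.cons (P.lf 0 1928520 0) (P.cons (P.lf 324444 0 0) (P.cons (P.lf 56610 0 0) P.nil))))) (P.cons (P.cons (P.lf 414576 0 0) (P.cons (P.lf 0 49788 0) (P.cons (P.lf 0 56184 0) (P.cons (P.lf 8688 0 0) P.nil)))) (P.cons (P.cons (P.lf 432 0 0) (P.cons (P.lf 0 1056 0) (P.cons (P.lf 0 282 0) P.nil))) (P.cons (P.cons (P.lf 0 120 0) (P.cons (P.lf 0 6 0) P.nil)) (P.cons (P.cons (P.lf 0 0 0) P.nil) P.nil)))))) 20850)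
 EL.nil))))))
noncomputable def S154_157_364_512_3 : EL := (EL.cons 0 (TM.mk (P.cons (P.lf 3272056298 0 0) (P.cons (P.lf 0 66119190 0) (P.cons (P.lf 0 220259 0) (P.cons (P.lf 5312 0 0) (P.cons (P.lf 35 0 0) (P.cons (P.lf 0 0 0) P.nil)))))) 149)
 (EL.cons 1 (TM.mk (P.cons (P.lf 1794431471 0 0) (P.cons (P.lf 3303540 0 0) (P.cons (P.lf 0 425148 0) (P.cons (P.lf 0 2364 0) (P.cons (P.lf 13 0 0) (P.cons (P.lf 0 0 0) P.nil)))))) 110)
 (EL.cons 5 (TM.mk (P.cons (P.lf 984085850 0 0) (P.cons (P.lf 23509042 0 0) (P.cons (P.lf 78318 0 0) (P.cons (P.lf 0 1884 0) (P.cons (P.lf 0 16 0) (P.cons (P.lf 0 0 0) P.nil)))))) 74)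
 EL.nil)))
noncomputable def S154_157_364_512_4 : EL := (EL.cons 0 (TM.mk (P.cons (P.cons (P.lf 80558813 0 0) (P.cons (P.lf 0 206263307 0) (P.cons (P.lf 0 13790281 0) (P.lf 4596758 0 0)))) (P.cons (P.cons (P.lf 42827864 0 0) (P.cons (P.lf 0 3223190 0) (P.cons (P.lf 0 215491 0) (P.lf 71829 0 0)))) (P.cons (P.cons (P.lf 0 1060041 0) (P.cons (P.lf 94475 0 0) (P.cons (P.lf 6317 0 0) (P.lf 0 2107 0)))) (P.cons (P.cons (P.lf 0 7214 0) (P.cons (P.lf 2023 0 0) (P.cons (P.lf 133 0 0) P.nil))) (P.cons (P.cons (P.lf 221 0 0) (P.cons (P.lf 0 8 0) P.nil)) (P.cons (P.cons (P.lf 0 0 0) P.nil) P.nil)))))) 426)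
 (EL.cons 1 (TM.mk (P.cons (P.cons (P.lf 44179333 0 0) (P.cons (P.lf 0 113117053 0) (P.cons (P.lf 0 7562741 0) (P.lf 2520913 0 0)))) (P.cons (P.cons (P.lf 24461343 0 0) (P.cons (P.lf 0 4261663 0) (P.cons (P.lf 0 284923 0) (P.lf 94972 0 0)))) (P.cons (P.cons (P.lf 0 51294 0) (P.cons (P.lf 0 18371 0) (P.cons (P.lf 0 1226 0) (P.lf 406 0 0)))) (P.cons (P.cons (P.lf 0 10110 0) (P.cons (P.lf 1297 0 0) (P.cons (P.lf 84 0 0) P.nil))) (P.cons (P.cons (P.lf 0 26 0) (P.cons (P.lf 16 0 0) P.nil)) (P.cons (P.cons (P.lf 0 0 0) P.nil) P.nil)))))) 268)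
 (EL.cons 5 (TM.mk (P.cons (P.cons (P.lf 24228428 0 0) (P.cons (P.lf 0 62034628 0) (P.cons (P.lf 0 4147488 0) (P.lf 1382494 0 0)))) (P.cons (P.cons (P.lf 13949062 0 0) (P.cons (P.lf 0 3704896 0) (P.cons (P.lf 0 247700 0) (P.lf 82566 0 0)))) (P.cons (P.cons (P.lf 274326 0 0) (P.cons (P.lf 0 78720 0) (P.cons (P.lf 0 5262 0) (P.lf 1752 0 0)))) (P.cons (P.cons (P.lf 0 2364 0) (P.cons (P.lf 0 410 0) (P.cons (P.lf 0 26 0) P.nil))) (P.cons (P.cons (P.lf 0 86 0) (P.cons (P.lf 8 0 0) P.nil)) (P.cons (P.cons (P.lf 0 0 0) P.nil) P.nil)))))) 172)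
 EL.nil)))
noncomputable def S154_157_364_512_5 : EL := (EL.cons 0 (TM.mk (P.cons (P.cons (P.lf 1983376 0 0) (P.cons (P.lf 0 10156503 0) (P.cons (P.lf 12323348 0 0) (P.cons (P.lf 1964963 0 0) (P.cons (P.lf 0 521418 0) (P.cons (P.lf 0 38745 0) P.nil)))))) (P.cons (P.cons (P.lf 2148941 0 0) (P.cons (P.lf 0 5763496 0) (P.cons (P.lf 283772 0 0) (P.cons (P.lf 217912 0 0) (P.cons (P.lf 0 26831 0) P.nil))))) (P.cons (P.cons (P.lf 551932 0 0) (P.cons (P.lf 0 63225 0) (P.cons (P.lf 1430 0 0) (P.cons (P.lf 2163 0 0) P.nil)))) (P.cons (P.cons (P.lf 0 16809 0) (P.cons (P.lf 3921 0 0) (P.cons (P.lf 0 40 0) P.nil))) (P.cons (P.cons (P.lf 0 138 0) (P.cons (P.lf 59 0 0) P.nil)) (P.cons (P.cons (P.lf 5 0 0) P.nil) P.nil)))))) 13318)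
 (EL.cons 1 (TM.mk (P.cons (P.cons (P.lf 1087704 0 0) (P.cons (P.lf 0 5569936 0) (P.cons (P.lf 6758257 0 0) (P.cons (P.lf 1077607 0 0) (P.cons (P.lf 0 285950 0) (P.cons (P.lf 0 21247 0) P.nil)))))) (P.cons (P.cons (P.lf 1202484 0 0) (P.cons (P.lf 0 3283571 0) (P.cons (P.lf 304631 0 0) (P.cons (P.lf 143265 0 0) (P.cons (P.lf 0 21018 0) P.nil))))) (P.cons (P.cons (P.lf 328968 0 0) (P.cons (P.lf 0 105898 0) (P.cons (P.lf 6080 0 0) (P.cons (P.lf 4117 0 0) P.nil)))) (P.cons (P.cons (P.lf 0 2214 0) (P.cons (P.lf 489 0 0) (P.cons (P.lf 63 0 0) P.nil))) (P.cons (P.cons (P.lf 0 191 0) (P.cons (P.lf 56 0 0) P.nil)) (P.cons (P.cons (P.lf 0 0 0) P.nil) P.nil)))))) 7418)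
 (EL.cons 5 (TM.mk (P.cons (P.cons (P.lf 596508 0 0) (P.cons (P.lf 0 3054614 0) (P.cons (P.lf 3706302 0 0) (P.cons (P.lf 590970 0 0) (P.cons (P.lf 0 156818 0) (P.cons (P.lf 0 11652 0) P.nil)))))) (P.cons (P.cons (P.lf 672606 0 0) (P.cons (P.lf 0 1868094 0) (P.cons (P.lf 248780 0 0) (P.cons (P.lf 91598 0 0) (P.cons (P.lf 0 14984 0) P.nil))))) (P.cons (P.cons (P.lf 195114 0 0) (P.cons (P.lf 0 98622 0) (P.cons (P.lf 8040 0 0) (P.cons (P.lf 4154 0 0) P.nil)))) (P.cons (P.cons (P.lf 2946 0 0) (P.cons (P.lf 0 1520 0) (P.cons (P.lf 170 0 0) P.nil))) (P.cons (P.cons (P.lf 0 78 0) (P.cons (P.lf 12 0 0) P.nil)) (P.cons (P.cons (P.lf 0 0 0) P.nil) P.nil)))))) 4188)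
 EL.nil)))
noncomputable def S154_157_364_512_6 : EL := (EL.cons 12 (TM.mk (P.lf 8589934592 0 0) 0)
 (EL.cons 3 (TM.mk (P.cons (P.lf 0 2650789957 0) (P.cons (P.lf 26782560 0 0) (P.cons (P.lf 224520 0 0) (P.cons (P.lf 116 0 0) (P.cons (P.lf 0 3 0) (P.cons (P.lf 0 0 0) P.nil)))))) 59)
 (EL.cons 7 (TM.mk (P.cons (P.lf 0 1453722213 0) (P.cons (P.lf 0 17364145 0) (P.cons (P.lf 45857 0 0) (P.cons (P.lf 845 0 0) (P.cons (P.lf 3 0 0) (P.cons (P.lf 0 0 0) P.nil)))))) 44)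
 EL.nil)))
noncomputable def S154_157_364_512_7 : EL := (EL.cons 12 (TM.mk (P.cons (P.cons (P.lf 211486258 0 0) (P.cons (P.lf 0 541490784 0) (P.cons (P.lf 0 36202808 0) (P.lf 12067600 0 0)))) (P.cons (P.cons (P.lf 116706994 0 0) (P.cons (P.lf 0 19403680 0) (P.cons (P.lf 0 1297280 0) (P.lf 432424 0 0)))) (P.cons (P.cons (P.lf 0 410304 0) (P.cons (P.lf 0 180520 0) (P.cons (P.lf 0 12064 0) (P.lf 4016 0 0)))) (P.cons (P.cons (P.lf 0 19718 0) (P.cons (P.lf 1240 0 0) (P.cons (P.lf 80 0 0) P.nil))) (P.cons (P.cons (P.lf 0 32 0) (P.cons (P.lf 24 0 0) P.nil)) (P.cons (P.cons (P.lf 0 0 0) P.nil) P.nil)))))) 790)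
 (EL.cons 3 (TM.mk (P.cons (P.cons (P.lf 2949897150 0 0) (P.cons (P.lf 0 334200060 0) (P.cons (P.lf 0 22343832 0) (P.lf 7447942 0 0)))) (P.cons (P.cons (P.lf 0 35079667 0) (P.cons (P.lf 0 8599032 0) (P.cons (P.lf 0 574906 0) (P.lf 191634 0 0)))) (P.cons (P.cons (P.lf 0 1344467 0) (P.cons (P.lf 37888 0 0) (P.cons (P.lf 2534 0 0) (P.lf 0 846 0)))) (P.cons (P.cons (P.lf 0 7220 0) (P.cons (P.lf 2918 0 0) (P.cons (P.lf 192 0 0) P.nil))) (P.cons (P.cons (P.lf 180 0 0) (P.cons (P.lf 14 0 0) P.nil)) (P.cons (P.cons (P.lf 0 0 0) P.nil) P.nil)))))) 1526)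
 (EL.cons 7 (TM.mk (P.cons (P.cons (P.lf 0 1990633425 0) (P.cons (P.lf 416651300 0 0) (P.cons (P.lf 27856338 0 0) (P.lf 0 9285448 0)))) (P.cons (P.cons (P.lf 22743468 0 0) (P.cons (P.lf 5575084 0 0) (P.cons (P.lf 372738 0 0) (P.lf 0 124248 0)))) (P.cons (P.cons (P.lf 620947 0 0) (P.cons (P.lf 0 86021 0) (P.cons (P.lf 0 5748 0) (P.lf 1916 0 0)))) (P.cons (P.cons (P.lf 0 6530 0) (P.cons (P.lf 0 1144 0) (P.cons (P.lf 0 75 0) P.nil))) (P.cons (P.cons (P.lf 0 108 0) (P.cons (P.lf 9 0 0) P.nil)) (P.cons (P.cons (P.lf 0 0 0) P.nil) P.nil)))))) 1024)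
 (EL.cons 10 (TM.mk (P.cons (P.cons (P.lf 0 1369171515 0) (P.cons (P.lf 0 211982133 0) (P.cons (P.lf 102126306 0 0) (P.cons (P.lf 3864759 0 0) (P.lf 0 966189 0))))) (P.cons (P.cons (P.lf 0 32708436 0) (P.cons (P.lf 0 5064087 0) (P.cons (P.lf 2439717 0 0) (P.cons (P.lf 92325 0 0) (P.lf 0 23079 0))))) (P.cons (P.cons (P.lf 0 108963 0) (P.cons (P.lf 0 16869 0) (P.cons (P.lf 8127 0 0) (P.cons (P.lf 306 0 0) P.nil)))) (P.cons (P.cons (P.lf 2619 0 0) (P.cons (P.lf 405 0 0) (P.cons (P.lf 0 195 0) P.nil))) (P.cons (P.cons (P.lf 21 0 0) (P.cons (P.lf 3 0 0) P.nil)) (P.cons P.nil P.nil)))))) 312)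
 EL.nil))))
noncomputable def S154_157_364_512_8 : EL := (EL.cons 12 (TM.mk (P.cons (P.cons (P.lf 5206842 0 0) (P.cons (P.lf 0 26663266 0) (P.cons (P.lf 32351756 0 0) (P.cons (P.lf 5158506 0 0) (P.cons (P.lf 0 1368850 0) (P.cons (P.lf 0 101718 0) P.nil)))))) (P.cons (P.cons (P.lf 5746708 0 0) (P.cons (P.lf 0 15669356 0) (P.cons (P.lf 1398714 0 0) (P.cons (P.lf 676316 0 0) (P.cons (P.lf 0 98100 0) P.nil))))) (P.cons (P.cons (P.lf 1565432 0 0) (P.cons (P.lf 0 484414 0) (P.cons (P.lf 34202 0 0) (P.cons (P.lf 19698 0 0) P.nil)))) (P.cons (P.cons (P.lf 0 12120 0) (P.cons (P.lf 0 504 0) (P.cons (P.lf 624 0 0) P.nil))) (P.cons (P.cons (P.lf 0 516 0) (P.cons (P.lf 144 0 0) P.nil)) (P.cons (P.cons (P.lf 0 0 0) P.nil) P.nil)))))) 29582)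
 (EL.cons 3 (TM.mk (P.cons (P.cons (P.lf 146861150 0 0) (P.cons (P.lf 0 396594447 0) (P.cons (P.lf 26152732 0 0) (P.cons (P.lf 15880989 0 0) (P.cons (P.lf 0 2112086 0) (P.cons (P.lf 0 156945 0) P.nil)))))) (P.cons (P.cons (P.lf 80187268 0 0) (P.cons (P.lf 0 23161205 0) (P.cons (P.lf 1693955 0 0) (P.cons (P.lf 949731 0 0) (P.cons (P.lf 0 130026 0) P.nil))))) (P.cons (P.cons (P.lf 0 836198 0) (P.cons (P.lf 0 95799 0) (P.cons (P.lf 53747 0 0) (P.cons (P.lf 10170 0 0) P.nil)))) (P.cons (P.cons (P.lf 0 55849 0) (P.cons (P.lf 14604 0 0) (P.cons (P.lf 630 0 0) P.nil))) (P.cons (P.cons (P.lf 0 78 0) (P.cons (P.lf 248 0 0) P.nil)) (P.cons (P.cons (P.lf 11 0 0) P.nil) P.nil)))))) 61214)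
 (EL.cons 7 (TM.mk (P.cons (P.cons (P.lf 0 97138564 0) (P.cons (P.lf 266974134 0 0) (P.cons (P.lf 0 28903560 0) (P.cons (P.lf 0 12201320 0) (P.cons (P.lf 1874872 0 0) (P.cons (P.lf 139320 0 0) P.nil)))))) (P.cons (P.cons (P.lf 0 51988436 0) (P.cons (P.lf 15016288 0 0) (P.cons (P.lf 0 1098255 0) (P.cons (P.lf 0 615744 0) (P.cons (P.lf 84301 0 0) P.nil))))) (P.cons (P.cons (P.lf 1115263 0 0) (P.cons (P.lf 0 103424 0) (P.cons (P.lf 0 22734 0) (P.cons (P.lf 187 0 0) P.nil)))) (P.cons (P.cons (P.lf 24598 0 0) (P.cons (P.lf 0 9330 0) (P.cons (P.lf 22 0 0) P.nil))) (P.cons (P.cons (P.lf 0 450 0) (P.cons (P.lf 0 15 0) P.nil)) (P.cons (P.cons (P.lf 0 5 0) P.nil) P.nil)))))) 34801)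
 (EL.cons 10 (TM.mk (P.cons (P.cons (P.lf 0 67418664 0) (P.cons (P.lf 162181080 0 0) (P.cons (P.lf 43295448 0 0) (P.cons (P.lf 0 14745480 0) (P.cons (P.lf 0 1991268 0) (P.cons (P.lf 376176 0 0) P.nil)))))) (P.cons (P.cons (P.lf 0 38815026 0) (P.cons (P.lf 4299798 0 0) (P.cons (P.lf 5180604 0 0) (P.cons (P.lf 0 782442 0) (P.cons (P.lf 0 143472 0) P.nil))))) (P.cons (P.cons (P.lf 0 763350 0) (P.cons (P.lf 100866 0 0) (P.cons (P.lf 105492 0 0) (P.cons (P.lf 0 16794 0) P.nil)))) (P.cons (P.cons (P.lf 6576 0 0) (P.cons (P.lf 2160 0 0) (P.cons (P.lf 0 234 0) P.nil))) (P.cons (P.cons (P.lf 240 0 0) (P.cons (P.lf 6 0 0) P.nil)) (P.cons (P.cons (P.lf 0 0 0) P.nil) P.nil)))))) 54024)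
 EL.nil))))
noncomputable def S154_157_364_512_9 : EL := (EL.cons 3 (TM.mk (P.cons (P.lf 0 2650789957 0) (P.cons (P.lf 26782560 0 0) (P.cons (P.lf 224520 0 0) (P.cons (P.lf 116 0 0) (P.cons (P.lf 0 3 0) (P.cons (P.lf 0 0 0) P.nil)))))) 59)
 (EL.cons 7 (TM.mk (P.cons (P.lf 0 1453722213 0) (P.cons (P.lf 0 17364145 0) (P.cons (P.lf 45857 0 0) (P.cons (P.lf 845 0 0) (P.cons (P.lf 3 0 0) (P.cons (P.lf 0 0 0) P.nil)))))) 44)
 EL.nil))
noncomputable def S154_157_364_512_10 : EL := (EL.cons 3 (TM.mk (P.cons (P.cons (P.lf 0 65263086 0) (P.cons (P.lf 167100030 0 0) (P.cons (P.lf 11171916 0 0) (P.lf 0 3723971 0)))) (P.cons (P.cons (P.lf 0 35355517 0) (P.cons (P.lf 4299516 0 0) (P.cons (P.lf 287453 0 0) (P.lf 0 95817 0)))) (P.cons (P.cons (P.lf 496024 0 0) (P.cons (P.lf 0 18944 0) (P.cons (P.lf 0 1267 0) (P.lf 423 0 0)))) (P.cons (P.cons (P.lf 7858 0 0) (P.cons (P.lf 0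 1459 0) (P.cons (P.lf 0 96 0) P.nil))) (P.cons (P.cons (P.lf 0 60 0) (P.cons (P.lf 0 7 0) P.nil)) (P.cons (P.cons (P.lf 0 0 0) P.nil) P.nil)))))) 313)
 (EL.cons 7 (TM.mk (P.cons (P.cons (P.lf 0 35790990 0) (P.cons (P.lf 91639484 0 0) (P.cons (P.lf 6126801 0 0) (P.lf 0 2042266 0)))) (P.cons (P.cons (P.lf 0 20178480 0) (P.cons (P.lf 4378390 0 0) (P.cons (P.lf 292728 0 0) (P.lf 0 97575 0)))) (P.cons (P.cons (P.lf 0 165350 0) (P.cons (P.lf 66883 0 0) (P.cons (P.lf 4470 0 0) (P.lf 0 1489 0)))) (P.cons (P.cons (P.lf 4810 0 0) (P.cons (P.lf 0 1 0) (P.cons (P.lf 0 0 0) P.nil))) (P.cons (P.cons (P.lf 54 0 0) (P.cons (P.lf 0 9 0) P.nil)) (P.cons (P.cons (P.lf 0 0 0) P.nil) P.nil)))))) 171)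
 EL.nil))
noncomputable def S154_157_364_512_11 : EL := (EL.cons 3 (TM.mk (P.cons (P.cons (P.lf 0 1606792 0) (P.cons (P.lf 8228085 0 0) (P.cons (P.lf 0 9983510 0) (P.cons (P.lf 0 1591875 0) (P.cons (P.lf 422416 0 0) (P.cons (P.lf 31389 0 0) P.nil)))))) (P.cons (P.cons (P.lf 0 1757156 0) (P.cons (P.lf 4752313 0 0) (P.cons (P.lf 0 330763 0) (P.cons (P.lf 0 192621 0) (P.cons (P.lf 26004 0 0) P.nil))))) (P.cons (P.cons (P.lf 0 465026 0) (P.cons (P.lf 99933 0 0) (P.cons (P.lf 0 5347 0) (P.cons (P.lf 0 3834 0) P.nil)))) (P.cons (P.cons (P.lf 8771 0 0) (P.cons (P.lf 0 1764 0) (P.cons (P.lf 0 48 0) P.nil))) (P.cons (P.cons (P.lf 162 0 0) (P.cons (P.lf 0 58 0) P.nil)) (P.cons (P.cons (P.lf 0 1 0) P.nil) P.nil)))))) 10012)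
 (EL.cons 7 (TM.mk (P.cons (P.cons (P.lf 0 881182 0) (P.cons (P.lf 4512372 0 0) (P.cons (P.lf 0 5475066 0) (P.cons (P.lf 0 873002 0) (P.cons (P.lf 231658 0 0) (P.cons (P.lf 17214 0 0) P.nil)))))) (P.cons (P.cons (P.lf 0 983072 0) (P.cons (P.lf 2705710 0 0) (P.cons (P.lf 0 302109 0) (P.cons (P.lf 0 124884 0) (P.cons (P.lf 19369 0 0) P.nil))))) (P.cons (P.cons (P.lf 0 276515 0) (P.cons (P.lf 113512 0 0) (P.cons (P.lf 0 8442 0) (P.cons (P.lf 0 4673 0) P.nil)))) (P.cons (P.cons (P.lf 0 1082 0) (P.cons (P.lf 978 0 0) (P.cons (P.lf 0 164 0) P.nil))) (P.cons (P.cons (P.lf 120 0 0) (P.cons (P.lf 0 27 0) P.nil)) (P.cons (P.cons (P.lf 1 0 0) P.nil) P.nil)))))) 5547)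
 EL.nil))
noncomputable def S154_157_364_512_12 : EL := (EL.cons 4 (TM.mk (P.cons (P.lf 2650789957 0 0) (P.cons (P.lf 0 26782560 0) (P.cons (P.lf 0 224520 0) (P.cons (P.lf 0 116 0) (P.cons (P.lf 3 0 0) (P.cons (P.lf 0 0 0) P.nil)))))) 59)
 (EL.cons 8 (TM.mk (P.cons (P.lf 1453722213 0 0) (P.cons (P.lf 17364145 0 0) (P.cons (P.lf 0 45857 0) (P.cons (P.lf 0 845 0) (P.cons (P.lf 0 3 0) (P.cons (P.lf 0 0 0) P.nil)))))) 44)
 EL.nil))
noncomputable def S154_157_364_512_13 : EL := (EL.cons 4 (TM.mk (P.cons (P.cons (P.lf 65263086 0 0) (P.cons (P.lf 0 167100030 0) (P.cons (P.lf 0 11171916 0) (P.lf 3723971 0 0)))) (P.cons (P.cons (P.lf 35355517 0 0) (P.cons (P.lf 0 4299516 0) (P.cons (P.lf 0 287453 0) (P.lf 95817 0 0)))) (P.cons (P.cons (P.lf 0 496024 0) (P.cons (P.lf 18944 0 0) (P.cons (P.lf 1267 0 0) (P.lf 0 423 0)))) (P.cons (P.cons (P.lf 0 7858 0) (P.cons (P.lf 1459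 0 0) (P.cons (P.lf 96 0 0) P.nil))) (P.cons (P.cons (P.lf 60 0 0) (P.cons (P.lf 7 0 0) P.nil)) (P.cons (P.cons (P.lf 0 0 0) P.nil) P.nil)))))) 313)
 (EL.cons 8 (TM.mk (P.cons (P.cons (P.lf 35790990 0 0) (P.cons (P.lf 0 91639484 0) (P.cons (P.lf 0 6126801 0) (P.lf 2042266 0 0)))) (P.cons (P.cons (P.lf 20178480 0 0) (P.cons (P.lf 0 4378390 0) (P.cons (P.lf 0 292728 0) (P.lf 97575 0 0)))) (P.cons (P.cons (P.lf 165350 0 0) (P.cons (P.lf 0 66883 0) (P.cons (P.lf 0 4470 0) (P.lf 1489 0 0)))) (P.cons (P.cons (P.lf 0 4810 0) (P.cons (P.lf 1 0 0) (P.cons (P.lf 0 0 0) P.nil))) (P.cons (P.cons (P.lf 0 54 0) (P.cons (P.lf 9 0 0) P.nil)) (P.cons (P.cons (P.lf 0 0 0) P.nil) P.nil)))))) 171)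
 EL.nil))
noncomputable def S154_157_364_512_14 : EL := (EL.cons 4 (TM.mk (P.cons (P.cons (P.lf 1606792 0 0) (P.cons (P.lf 0 8228085 0) (P.cons (P.lf 9983510 0 0) (P.cons (P.lf 1591875 0 0) (P.cons (P.lf 0 422416 0) (P.cons (P.lf 0 31389 0) P.nil)))))) (P.cons (P.cons (P.lf 1757156 0 0) (P.cons (P.lf 0 4752313 0) (P.cons (P.lf 330763 0 0) (P.cons (P.lf 192621 0 0) (P.cons (P.lf 0 26004 0) P.nil))))) (P.cons (P.cons (P.lf 465026 0 0) (P.cons (P.lf 0 99933 0) (P.cons (P.lf 5347 0 0) (P.cons (P.lf 3834 0 0) P.nil)))) (P.cons (P.cons (P.lf 0 8771 0) (P.cons (P.lf 1764 0 0) (P.cons (P.lf 48 0 0) P.nil))) (P.cons (P.cons (P.lf 0 162 0) (P.cons (P.lf 58 0 0) P.nil)) (P.cons (P.cons (P.lf 1 0 0) P.nil) P.nil)))))) 10012)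
 (EL.cons 8 (TM.mk (P.cons (P.cons (P.lf 881182 0 0) (P.cons (P.lf 0 4512372 0) (P.cons (P.lf 5475066 0 0) (P.cons (P.lf 873002 0 0) (P.cons (P.lf 0 231658 0) (P.cons (P.lf 0 17214 0) P.nil)))))) (P.cons (P.cons (P.lf 983072 0 0) (P.cons (P.lf 0 2705710 0) (P.cons (P.lf 302109 0 0) (P.cons (P.lf 124884 0 0) (P.cons (P.lf 0 19369 0) P.nil))))) (P.cons (P.cons (P.lf 276515 0 0) (P.cons (P.lf 0 113512 0) (P.cons (P.lf 8442 0 0) (P.cons (P.lf 4673 0 0) P.nil)))) (P.cons (P.cons (P.lf 1082 0 0) (P.cons (P.lf 0 978 0) (P.cons (P.lf 164 0 0) P.nil))) (P.cons (P.cons (P.lf 0 120 0) (P.cons (P.lf 27 0 0) P.nil)) (P.cons (P.cons (P.lf 0 1 0) P.nil) P.nil)))))) 5547)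
 EL.nil))
noncomputable def S154_157_364_512_15 : EL := (EL.cons 4 (TM.mk (P.cons (P.lf 0 1745096692 0) (P.cons (P.lf 35263568 0 0) (P.cons (P.lf 117471 0 0) (P.cons (P.lf 0 2833 0) (P.cons (P.lf 0 18 0) (P.cons (P.lf 0 0 0) P.nil)))))) 82)
 (EL.cons 8 (TM.mk (P.cons (P.lf 0 957030118 0) (P.cons (P.lf 0 1761888 0) (P.cons (P.lf 226746 0 0) (P.cons (P.lf 1261 0 0) (P.cons (P.lf 0 7 0) (P.cons (P.lf 0 0 0) P.nil)))))) 55)
 EL.nil))
noncomputable def S154_157_364_512_16 : EL := (EL.cons 4 (TM.mk (P.cons (P.cons (P.lf 0 42964700 0) (P.cons (P.lf 110007097 0 0) (P.cons (P.lf 7354816 0 0) (P.lf 0 2451604 0)))) (P.cons (P.cons (P.lf 0 22841527 0) (P.cons (P.lf 1719034 0 0) (P.cons (P.lf 114929 0 0) (P.lf 0 38309 0)))) (P.cons (P.cons (P.lf 565355 0 0) (P.cons (P.lf 0 50386 0) (P.cons (P.lf 0 3369 0) (P.lf 1124 0 0)))) (P.cons (P.cons (P.lf 3847 0 0) (P.cons (P.lf 0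 1079 0) (P.cons (P.lf 0 71 0) P.nil))) (P.cons (P.cons (P.lf 0 118 0) (P.cons (P.lf 4 0 0) P.nil)) (P.cons (P.cons (P.lf 0 0 0) P.nil) P.nil)))))) 236)
 (EL.cons 8 (TM.mk (P.cons (P.cons (P.lf 0 23562311 0) (P.cons (P.lf 60329095 0 0) (P.cons (P.lf 4033462 0 0) (P.lf 0 1344487 0)))) (P.cons (P.cons (P.lf 0 13046050 0) (P.cons (P.lf 2272887 0 0) (P.cons (P.lf 151959 0 0) (P.lf 0 50652 0)))) (P.cons (P.cons (P.lf 27357 0 0) (P.cons (P.lf 9798 0 0) (P.cons (P.lf 654 0 0) (P.lf 0 217 0)))) (P.cons (P.cons (P.lf 5392 0 0) (P.cons (P.lf 0 692 0) (P.cons (P.lf 0 45 0) P.nil))) (P.cons (P.cons (P.lf 14 0 0) (P.cons (P.lf 0 9 0) P.nil)) (P.cons (P.cons (P.lf 0 0 0) P.nil) P.nil)))))) 133)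
 EL.nil))
noncomputable def S154_157_364_512_17 : EL := (EL.cons 4 (TM.mk (P.cons (P.cons (P.lf 0 1057800 0) (P.cons (P.lf 5416801 0 0) (P.cons (P.lf 0 6572452 0) (P.cons (P.lf 0 1047980 0) (P.cons (P.lf 278089 0 0) (P.cons (P.lf 20664 0 0) P.nil)))))) (P.cons (P.cons (P.lf 0 1146102 0) (P.cons (P.lf 3073864 0 0) (P.cons (P.lf 0 151345 0) (P.cons (P.lf 0 116220 0) (P.cons (P.lf 14310 0 0) P.nil))))) (P.cons (P.cons (P.lf 0 294363 0) (P.cons (P.lf 33720 0 0) (P.cons (P.lf 0 763 0) (P.cons (P.lf 0 1154 0) P.nil)))) (P.cons (P.cons (P.lf 8965 0 0) (P.cons (P.lf 0 2091 0) (P.cons (P.lf 21 0 0) P.nil))) (P.cons (P.cons (P.lf 74 0 0) (P.cons (P.lf 0 31 0) P.nil)) (P.cons (P.cons (P.lf 0 2 0) P.nil) P.nil)))))) 7113)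
 (EL.cons 8 (TM.mk (P.cons (P.cons (P.lf 0 580109 0) (P.cons (P.lf 2970633 0 0) (P.cons (P.lf 0 3604404 0) (P.cons (P.lf 0 574724 0) (P.cons (P.lf 152507 0 0) (P.cons (P.lf 11332 0 0) P.nil)))))) (P.cons (P.cons (P.lf 0 641325 0) (P.cons (P.lf 1751238 0 0) (P.cons (P.lf 0 162470 0) (P.cons (P.lf 0 76408 0) (P.cons (P.lf 11210 0 0) P.nil))))) (P.cons (P.cons (P.lf 0 175450 0) (P.cons (P.lf 56479 0 0) (P.cons (P.lf 0 3243 0) (P.cons (P.lf 0 2196 0) P.nil)))) (P.cons (P.cons (P.lf 1181 0 0) (P.cons (P.lf 0 261 0) (P.cons (P.lf 0 34 0) P.nil))) (P.cons (P.cons (P.lf 102 0 0) (P.cons (P.lf 0 30 0) P.nil)) (P.cons (P.cons (P.lf 0 0 0) P.nil) P.nil)))))) 3945)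
 EL.nil))
noncomputable def S154_157_364_512_18 : EL := (EL.cons 4 (TM.mk (P.cons (P.lf 1148850914 0 0) (P.cons (P.lf 0 34822639 0) (P.cons (P.lf 59913 0 0) (P.cons (P.lf 4561 0 0) (P.cons (P.lf 1 0 0) (P.cons (P.lf 0 0 0) P.nil)))))) 86)
 (EL.cons 8 (TM.mk (P.cons (P.lf 630042410 0 0) (P.cons (P.lf 0 5205800 0) (P.cons (P.lf 0 214357 0) (P.cons (P.lf 551 0 0) (P.cons (P.lf 26 0 0) (P.cons (P.lf 0 0 0) P.nil)))))) 54)
 EL.nil))
noncomputable def S154_157_364_512_19 : EL := (EL.cons 4 (TM.mk (P.cons (P.cons (P.lf 28284985 0 0) (P.cons (P.lf 0 72421061 0) (P.cons (P.lf 0 4841902 0) (P.lf 1613967 0 0)))) (P.cons (P.cons (P.lf 14751500 0 0) (P.cons (P.lf 0 399978 0) (P.cons (P.lf 0 26740 0) (P.lf 8912 0 0)))) (P.cons (P.cons (P.lf 0 526516 0) (P.cons (P.lf 50739 0 0) (P.cons (P.lf 3392 0 0) (P.lf 0 1131 0)))) (P.cons (P.cons (P.lf 0 46 0) (P.cons (P.lf 474 0 0)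 (P.cons (P.lf 30 0 0) P.nil))) (P.cons (P.cons (P.lf 134 0 0) (P.cons (P.lf 0 13 0) P.nil)) (P.cons (P.cons (P.lf 0 0 0) P.nil) P.nil)))))) 181)
 (EL.cons 8 (TM.mk (P.cons (P.cons (P.lf 15511795 0 0) (P.cons (P.lf 0 39716502 0) (P.cons (P.lf 0 2655352 0) (P.lf 885117 0 0)))) (P.cons (P.cons (P.lf 8431891 0 0) (P.cons (P.lf 0 1095031 0) (P.cons (P.lf 0 73210 0) (P.lf 24403 0 0)))) (P.cons (P.cons (P.lf 0 106100 0) (P.cons (P.lf 12031 0 0) (P.cons (P.lf 804 0 0) (P.lf 0 268 0)))) (P.cons (P.cons (P.lf 0 4096 0) (P.cons (P.lf 649 0 0) (P.cons (P.lf 43 0 0) P.nil))) (P.cons (P.cons (P.lf 27 0 0) (P.cons (P.lf 2 0 0) P.nil)) (P.cons (P.cons (P.lf 0 0 0) P.nil) P.nil)))))) 106)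
 EL.nil))
noncomputable def S154_157_364_512_20 : EL := (EL.cons 4 (TM.mk (P.cons (P.cons (P.lf 696382 0 0) (P.cons (P.lf 0 3566047 0) (P.cons (P.lf 4326847 0 0) (P.cons (P.lf 689918 0 0) (P.cons (P.lf 0 183075 0) (P.cons (P.lf 0 13604 0) P.nil)))))) (P.cons (P.cons (P.lf 747478 0 0) (P.cons (P.lf 0 1987590 0) (P.cons (P.lf 55918 0 0) (P.cons (P.lf 69540 0 0) (P.cons (P.lf 0 7570 0) P.nil))))) (P.cons (P.cons (P.lf 186105 0 0) (P.cons (P.lf 0 1451 0) (P.cons (P.lf 0 870 0) (P.cons (P.lf 0 70 0) P.nil)))) (P.cons (P.cons (P.lf 0 7923 0) (P.cons (P.lf 1772 0 0) (P.cons (P.lf 0 28 0) P.nil))) (P.cons (P.cons (P.lf 0 5 0) (P.cons (P.lf 9 0 0) P.nil)) (P.cons (P.cons (P.lf 2 0 0) P.nil) P.nil)))))) 5033)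
 (EL.cons 8 (TM.mk (P.cons (P.cons (P.lf 381904 0 0) (P.cons (P.lf 0 1955659 0) (P.cons (P.lf 2372890 0 0) (P.cons (P.lf 378358 0 0) (P.cons (P.lf 0 100400 0) (P.cons (P.lf 0 7460 0) P.nil)))))) (P.cons (P.cons (P.lf 418345 0 0) (P.cons (P.lf 0 1133134 0) (P.cons (P.lf 82984 0 0) (P.cons (P.lf 46478 0 0) (P.cons (P.lf 0 6365 0) P.nil))))) (P.cons (P.cons (P.lf 111206 0 0) (P.cons (P.lf 0 25368 0) (P.cons (P.lf 853 0 0) (P.cons (P.lf 905 0 0) P.nil)))) (P.cons (P.cons (P.lf 0 1980 0) (P.cons (P.lf 645 0 0) (P.cons (P.lf 0 7 0) P.nil))) (P.cons (P.cons (P.lf 0 68 0) (P.cons (P.lf 21 0 0) P.nil)) (P.cons (P.cons (P.lf 0 0 0) P.nil) P.nil)))))) 2774)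
 EL.nil))
noncomputable def S154_157_364_512_21 : EL := (EL.cons 4 (TM.mk (P.cons (P.cons (P.lf 0 3015160236 0) (P.cons (P.lf 501300090 0 0) (P.cons (P.lf 33515748 0 0) (P.lf 0 11171913 0)))) (P.cons (P.cons (P.lf 0 275850 0) (P.cons (P.lf 12898548 0 0) (P.cons (P.lf 862359 0 0) (P.lf 0 287451 0)))) (P.cons (P.cons (P.lf 1840491 0 0) (P.cons (P.lf 0 56832 0) (P.cons (P.lf 0 3801 0) (P.lf 1269 0 0)))) (P.cons (P.cons (P.lf 15078 0 0) (P.cons (P.lf 0 4377 0) (P.cons (P.lf 0 288 0) P.nil))) (P.cons (P.cons (P.lf 0 240 0) (P.cons (P.lf 0 21 0) P.nil)) (P.cons (P.cons (P.lf 0 0 0) P.nil) P.nil)))))) 1194)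
 (EL.cons 8 (TM.mk (P.cons (P.cons (P.lf 1954842435 0 0) (P.cons (P.lf 0 325011816 0) (P.cons (P.lf 0 21729537 0) (P.lf 7243182 0 0)))) (P.cons (P.cons (P.lf 0 42921948 0) (P.cons (P.lf 0 1196694 0) (P.cons (P.lf 0 80010 0) (P.lf 26673 0 0)))) (P.cons (P.cons (P.lf 0 786297 0) (P.cons (P.lf 152904 0 0) (P.cons (P.lf 10218 0 0) (P.lf 0 3405 0)))) (P.cons (P.cons (P.lf 11340 0 0) (P.cons (P.lf 1143 0 0) (P.cons (P.lf 75 0 0) P.nil))) (P.cons (P.cons (P.lf 162 0 0) (P.cons (P.lf 0 18 0) P.nil)) (P.cons (P.cons (P.lf 0 0 0) P.nil) P.nil)))))) 834)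
 (EL.cons 11 (TM.mk (P.cons (P.cons (P.lf 1369171515 0 0) (P.cons (P.lf 211982133 0 0) (P.cons (P.lf 0 102126306 0) (P.cons (P.lf 0 3864759 0) (P.lf 966189 0 0))))) (P.cons (P.cons (P.lf 32708436 0 0) (P.cons (P.lf 5064087 0 0) (P.cons (P.lf 0 2439717 0) (P.cons (P.lf 0 92325 0) (P.lf 23079 0 0))))) (P.cons (P.cons (P.lf 108963 0 0) (P.cons (P.lf 16869 0 0) (P.cons (P.lf 0 8127 0) (P.cons (P.lf 0 306 0) P.nil)))) (P.cons (P.cons (P.lf 0 2619 0) (P.cons (P.lf 0 405 0) (P.cons (P.lf 195 0 0) P.nil))) (P.cons (P.cons (P.lf 0 21 0) (P.cons (P.lf 0 3 0) P.nil)) (P.cons P.nil P.nil)))))) 312)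
 EL.nil)))
noncomputable def S154_157_364_512_22 : EL := (EL.cons 4 (TM.mk (P.cons (P.cons (P.lf 0 74233971 0) (P.cons (P.lf 202411266 0 0) (P.cons (P.lf 0 18068121 0) (P.cons (P.lf 0 8736432 0) (P.cons (P.lf 1267251 0 0) (P.cons (P.lf 94167 0 0) P.nil)))))) (P.cons (P.cons (P.lf 0 40972212 0) (P.cons (P.lf 13956759 0 0) (P.cons (P.lf 0 1012359 0) (P.cons (P.lf 0 571176 0) (P.cons (P.lf 78015 0 0) P.nil))))) (P.cons (P.cons (P.lf 185586 0 0) (P.cons (P.lf 97866 0 0) (P.cons (P.lf 0 29547 0) (P.cons (P.lf 0 7002 0) P.nil)))) (P.cons (P.cons (P.lf 32310 0 0) (P.cons (P.lf 0 8184 0) (P.cons (P.lf 0 339 0) P.nil))) (P.cons (P.cons (P.lf 120 0 0) (P.cons (P.lf 0 153 0) P.nil)) (P.cons (P.cons (P.lf 0 6 0) P.nil) P.nil)))))) 25590)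
 (EL.cons 8 (TM.mk (P.cons (P.cons (P.lf 48128691 0 0) (P.cons (P.lf 0 131230881 0) (P.cons (P.lf 11714247 0 0) (P.cons (P.lf 5664159 0 0) (P.cons (P.lf 0 821607 0) (P.cons (P.lf 0 61053 0) P.nil)))))) (P.cons (P.cons (P.lf 25502682 0 0) (P.cons (P.lf 0 6155289 0) (P.cons (P.lf 398073 0 0) (P.cons (P.lf 245430 0 0) (P.cons (P.lf 0 32466 0) P.nil))))) (P.cons (P.cons (P.lf 0 695889 0) (P.cons (P.lf 108468 0 0) (P.cons (P.lf 7146 0 0) (P.cons (P.lf 0 2430 0) P.nil)))) (P.cons (P.cons (P.lf 0 12840 0) (P.cons (P.lf 5154 0 0) (P.cons (P.lf 0 93 0) P.nil))) (P.cons (P.cons (P.lf 285 0 0) (P.cons (P.lf 0 6 0) P.nil)) (P.cons (P.cons (P.lf 3 0 0) P.nil) P.nil)))))) 14616)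
 (EL.cons 11 (TM.mk (P.cons (P.cons (P.lf 33709332 0 0) (P.cons (P.lf 0 81090540 0) (P.cons (P.lf 0 21647724 0) (P.cons (P.lf 7372740 0 0) (P.cons (P.lf 995634 0 0) (P.cons (P.lf 0 188088 0) P.nil)))))) (P.cons (P.cons (P.lf 19407513 0 0) (P.cons (P.lf 0 2149899 0) (P.cons (P.lf 0 2590302 0) (P.cons (P.lf 391221 0 0) (P.cons (P.lf 71736 0 0) P.nil))))) (P.cons (P.cons (P.lf 381675 0 0) (P.cons (P.lf 0 50433 0) (P.cons (P.lf 0 52746 0) (P.cons (P.lf 8397 0 0) P.nil)))) (P.cons (P.cons (P.lf 0 3288 0) (P.cons (P.lf 0 1080 0) (P.cons (P.lf 117 0 0) P.nil))) (P.cons (P.cons (P.lf 0 120 0) (P.cons (P.lf 0 3 0) P.nil)) (P.cons (P.cons (P.lf 0 0 0) P.nil) P.nil)))))) 27012)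
 EL.nil)))
noncomputable def S154_157_364_512_23 : EL := (EL.cons 4 (TM.mk (P.cons (P.cons (P.lf 1984972872 0 0) (P.cons (P.lf 0 330021291 0) (P.cons (P.lf 0 22064448 0) (P.lf 7354812 0 0)))) (P.cons (P.cons (P.lf 0 19873800 0) (P.cons (P.lf 0 5157102 0) (P.cons (P.lf 0 344784 0) (P.lf 114927 0 0)))) (P.cons (P.cons (P.lf 0 1381611 0) (P.cons (P.lf 151161 0 0) (P.cons (P.lf 10107 0 0) (P.lf 0 3369 0)))) (P.cons (P.cons (P.lf 2211 0 0) (P.cons (P.lf 3237 0 0) (P.cons (P.lf 213 0 0) P.nil))) (P.cons (P.cons (P.lf 363 0 0) (P.cons (P.lf 0 18 0) P.nil)) (P.cons (P.cons (P.lf 0 0 0) P.nil) P.nil)))))) 924)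
 (EL.cons 8 (TM.mk (P.cons (P.cons (P.lf 0 1286932998 0) (P.cons (P.lf 213965289 0 0) (P.cons (P.lf 14305221 0 0) (P.lf 0 4768407 0)))) (P.cons (P.cons (P.lf 41259513 0 0) (P.cons (P.lf 0 1374000 0) (P.cons (P.lf 0 91860 0) (P.lf 30618 0 0)))) (P.cons (P.cons (P.lf 341148 0 0) (P.cons (P.lf 0 126741 0) (P.cons (P.lf 0 8469 0) (P.lf 2820 0 0)))) (P.cons (P.cons (P.lf 0 15030 0) (P.cons (P.lf 186 0 0) (P.cons (P.lf 12 0 0) P.nil))) (P.cons (P.cons (P.lf 0 78 0) (P.cons (P.lf 27 0 0) P.nil)) (P.cons (P.cons (P.lf 0 0 0) P.nil) P.nil)))))) 666)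
 (EL.cons 11 (TM.mk (P.cons (P.cons (P.lf 0 901367787 0) (P.cons (P.lf 0 139554366 0) (P.cons (P.lf 67232892 0 0) (P.cons (P.lf 2544288 0 0) (P.lf 0 636069 0))))) (P.cons (P.cons (P.lf 0 12425898 0) (P.cons (P.lf 0 1923840 0) (P.cons (P.lf 926844 0 0) (P.cons (P.lf 35073 0 0) (P.lf 0 8766 0))))) (P.cons (P.cons (P.lf 222171 0 0) (P.cons (P.lf 34398 0 0) (P.cons (P.lf 0 16572 0) (P.cons (P.lf 0 627 0) P.nil)))) (P.cons (P.cons (P.lf 4311 0 0) (P.cons (P.lf 666 0 0) (P.cons (P.lf 0 321 0) P.nil))) (P.cons (P.cons (P.lf 0 0 0) (P.cons (P.lf 0 0 0) P.nil)) (P.cons (P.cons (P.lf 0 0 0) P.nil) P.nil)))))) 510)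
 EL.nil)))
noncomputable def S154_157_364_512_24 : EL := (EL.cons 4 (TM.mk (P.cons (P.cons (P.lf 48870507 0 0) (P.cons (P.lf 0 133253571 0) (P.cons (P.lf 11894802 0 0) (P.cons (P.lf 5751462 0 0) (P.cons (P.lf 0 834270 0) (P.cons (P.lf 0 61992 0) P.nil)))))) (P.cons (P.cons (P.lf 26479500 0 0) (P.cons (P.lf 0 7841820 0) (P.cons (P.lf 546288 0 0) (P.cons (P.lf 317910 0 0) (P.cons (P.lf 0 42930 0) P.nil))))) (P.cons (P.cons (P.lf 0 398841 0) (P.cons (P.lf 39687 0 0) (P.cons (P.lf 11709 0 0) (P.cons (P.lf 324 0 0) P.nil)))) (P.cons (P.cons (P.lf 0 22323 0) (P.cons (P.lf 6822 0 0) (P.cons (P.lf 0 27 0) P.nil))) (P.cons (P.cons (P.lf 141 0 0) (P.cons (P.lf 51 0 0) P.nil)) (P.cons (P.cons (P.lf 6 0 0) P.nil) P.nil)))))) 15669)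
 (EL.cons 8 (TM.mk (P.cons (P.cons (P.lf 0 31684599 0) (P.cons (P.lf 86393331 0 0) (P.cons (P.lf 0 7711848 0) (P.cons (P.lf 0 3728889 0) (P.cons (P.lf 540888 0 0) (P.cons (P.lf 40191 0 0) P.nil)))))) (P.cons (P.cons (P.lf 0 16469073 0) (P.cons (P.lf 3179331 0 0) (P.cons (P.lf 0 184146 0) (P.cons (P.lf 0 123897 0) (P.cons (P.lf 15906 0 0) P.nil))))) (P.cons (P.cons (P.lf 630441 0 0) (P.cons (P.lf 0 119667 0) (P.cons (P.lf 0 1404 0) (P.cons (P.lf 3549 0 0) P.nil)))) (P.cons (P.cons (P.lf 5247 0 0) (P.cons (P.lf 0 3018 0) (P.cons (P.lf 132 0 0) P.nil))) (P.cons (P.cons (P.lf 0 309 0) (P.cons (P.lf 45 0 0) P.nil)) (P.cons (P.cons (P.lf 0 0 0) P.nil) P.nil)))))) 9006)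
 (EL.cons 11 (TM.mk (P.cons (P.cons (P.lf 0 22191891 0) (P.cons (P.lf 53384400 0 0) (P.cons (P.lf 14251362 0 0) (P.cons (P.lf 0 4853703 0) (P.cons (P.lf 0 655455 0) (P.cons (P.lf 123825 0 0) P.nil)))))) (P.cons (P.cons (P.lf 0 12552345 0) (P.cons (P.lf 875967 0 0) (P.cons (P.lf 1561284 0 0) (P.cons (P.lf 0 208512 0) (P.cons (P.lf 0 40602 0) P.nil))))) (P.cons (P.cons (P.lf 0 120300 0) (P.cons (P.lf 14379 0 0) (P.cons (P.lf 16287 0 0) (P.cons (P.lf 0 2514 0) P.nil)))) (P.cons (P.cons (P.lf 5787 0 0) (P.cons (P.lf 252 0 0) (P.cons (P.lf 0 573 0) P.nil))) (P.cons (P.cons (P.lf 78 0 0) (P.cons (P.lf 0 6 0) P.nil)) (P.cons (P.cons (P.lf 0 0 0) P.nil) P.nil)))))) 16017)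
 EL.nil)))
noncomputable def S154_157_364_512_25 : EL := (EL.cons 4 (TM.mk (P.cons (P.cons (P.lf 0 1306768791 0) (P.cons (P.lf 217263183 0 0) (P.cons (P.lf 14525706 0 0) (P.lf 0 4841898 0)))) (P.cons (P.cons (P.lf 26286621 0 0) (P.cons (P.lf 1199934 0 0) (P.cons (P.lf 80220 0 0) (P.lf 0 26739 0)))) (P.cons (P.cons (P.lf 888048 0 0) (P.cons (P.lf 0 152217 0) (P.cons (P.lf 0 10176 0) (P.lf 3393 0 0)))) (P.cons (P.cons (P.lf 0 11697 0) (P.cons (P.lf 0 1422 0) (P.cons (P.lf 0 93 0) P.nil))) (P.cons (P.cons (P.lf 0 303 0) (P.cons (P.lf 42 0 0) P.nil)) (P.cons (P.cons (P.lf 0 0 0) P.nil) P.nil)))))) 681)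
 (EL.cons 8 (TM.mk (P.cons (P.cons (P.lf 847227639 0 0) (P.cons (P.lf 0 140859942 0) (P.cons (P.lf 0 9417567 0) (P.lf 3139191 0 0)))) (P.cons (P.cons (P.lf 0 35722470 0) (P.cons (P.lf 2327742 0 0) (P.cons (P.lf 155625 0 0) (P.lf 0 51873 0)))) (P.cons (P.cons (P.lf 0 21909 0) (P.cons (P.lf 86229 0 0) (P.cons (P.lf 5763 0 0) (P.lf 0 1920 0)))) (P.cons (P.cons (P.lf 14427 0 0) (P.cons (P.lf 0 1035 0) (P.cons (P.lf 0 69 0) P.nil))) (P.cons (P.cons (P.lf 0 27 0) (P.cons (P.lf 0 24 0) P.nil)) (P.cons (P.cons (P.lf 0 0 0) P.nil) P.nil)))))) 507)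
 (EL.cons 11 (TM.mk (P.cons (P.cons (P.lf 593398182 0 0) (P.cons (P.lf 91872939 0 0) (P.cons (P.lf 0 44261484 0) (P.cons (P.lf 0 1674984 0) (P.lf 418743 0 0))))) (P.cons (P.cons (P.lf 2184885 0 0) (P.cons (P.lf 338274 0 0) (P.cons (P.lf 0 162969 0) (P.cons (P.lf 0 6165 0) (P.lf 1539 0 0))))) (P.cons (P.cons (P.lf 0 279174 0) (P.cons (P.lf 0 43221 0) (P.cons (P.lf 20823 0 0) (P.cons (P.lf 786 0 0) P.nil)))) (P.cons (P.cons (P.lf 0 2079 0) (P.cons (P.lf 0 321 0) (P.cons (P.lf 153 0 0) P.nil))) (P.cons (P.cons (P.lf 39 0 0) (P.cons (P.lf 6 0 0) P.nil)) (P.cons (P.cons (P.lf 0 0 0) P.nil) P.nil)))))) 477)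
 EL.nil)))
noncomputable def S154_157_364_512_26 : EL := (EL.cons 4 (TM.mk (P.cons (P.cons (P.lf 0 32172960 0) (P.cons (P.lf 87724932 0 0) (P.cons (P.lf 0 7830714 0) (P.cons (P.lf 0 3786363 0) (P.cons (P.lf 549225 0 0) (P.cons (P.lf 40812 0 0) P.nil)))))) (P.cons (P.cons (P.lf 0 17107206 0) (P.cons (P.lf 4276173 0 0) (P.cons (P.lf 0 280518 0) (P.cons (P.lf 0 171033 0) (P.cons (P.lf 22713 0 0) P.nil))))) (P.cons (P.cons (P.lf 441423 0 0) (P.cons (P.lf 0 85716 0) (P.cons (P.lf 0 3411 0) (P.cons (P.lf 2220 0 0) P.nil)))) (P.cons (P.cons (P.lf 13521 0 0) (P.cons (P.lf 0 4668 0) (P.cons (P.lf 126 0 0) P.nil))) (P.cons (P.cons (P.lf 0 261 0) (P.cons (P.lf 9 0 0) P.nil)) (P.cons (P.cons (P.lf 0 3 0) P.nil) P.nil)))))) 9963)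
 (EL.cons 8 (TM.mk (P.cons (P.cons (P.lf 20858946 0 0) (P.cons (P.lf 0 56875392 0) (P.cons (P.lf 5076948 0 0) (P.cons (P.lf 2454843 0 0) (P.cons (P.lf 0 356082 0) (P.cons (P.lf 0 26460 0) P.nil)))))) (P.cons (P.cons (P.lf 10631346 0 0) (P.cons (P.lf 0 1518402 0) (P.cons (P.lf 69933 0 0) (P.cons (P.lf 56763 0 0) (P.cons (P.lf 0 6873 0) P.nil))))) (P.cons (P.cons (P.lf 0 526350 0) (P.cons (P.lf 104745 0 0) (P.cons (P.lf 0 729 0) (P.cons (P.lf 0 3366 0) P.nil)))) (P.cons (P.cons (P.lf 0 180 0) (P.cons (P.lf 1368 0 0) (P.cons (P.lf 0 105 0) P.nil))) (P.cons (P.cons (P.lf 273 0 0) (P.cons (P.lf 0 54 0) P.nil)) (P.cons (P.cons (P.lf 0 0 0) P.nil) P.nil)))))) 5799)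
 (EL.cons 11 (TM.mk (P.cons (P.cons (P.lf 14609604 0 0) (P.cons (P.lf 0 35144595 0) (P.cons (P.lf 0 9382110 0) (P.cons (P.lf 3195342 0 0) (P.cons (P.lf 431505 0 0) (P.cons (P.lf 0 81516 0) P.nil)))))) (P.cons (P.cons (P.lf 8115984 0 0) (P.cons (P.lf 0 221589 0) (P.cons (P.lf 0 933048 0) (P.cons (P.lf 104985 0 0) (P.cons (P.lf 22371 0 0) P.nil))))) (P.cons (P.cons (P.lf 0 5532 0) (P.cons (P.lf 0 663 0) (P.cons (P.lf 453 0 0) (P.cons (P.lf 0 0 0) P.nil)))) (P.cons (P.cons (P.lf 0 5310 0) (P.cons (P.lf 0 18 0) (P.cons (P.lf 573 0 0) P.nil))) (P.cons (P.cons (P.lf 0 21 0) (P.cons (P.lf 6 0 0) P.nil)) (P.cons (P.cons (P.lf 0 0 0) P.nil) P.nil)))))) 9717)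
 EL.nil)))
noncomputable def S154_157_364_512_27 : EL := (EL.cons 13 (TM.mk (P.lf 0 4294967296 0) 0)
 EL.nil)
noncomputable def S154_157_364_512_28 : EL := (EL.cons 13 (TM.mk (P.cons (P.cons (P.lf 0 105743129 0) (P.cons (P.lf 270745392 0 0) (P.cons (P.lf 18101404 0 0) (P.lf 0 6033800 0)))) (P.cons (P.cons (P.lf 0 58353497 0) (P.cons (P.lf 9701840 0 0) (P.cons (P.lf 648640 0 0) (P.lf 0 216212 0)))) (P.cons (P.cons (P.lf 205152 0 0) (P.cons (P.lf 90260 0 0) (P.cons (P.lf 6032 0 0) (P.lf 0 2008 0)))) (P.cons (P.cons (P.lf 9859 0 0) (P.cons (P.lf 0 620 0) (P.cons (P.lf 0 40 0) P.nil))) (P.cons (P.cons (P.lf 16 0 0) (P.cons (P.lf 0 12 0) P.nil)) (P.cons (P.cons (P.lf 0 0 0) P.nil) P.nil)))))) 395)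
 EL.nil)
noncomputable def S154_157_364_512_29 : EL := (EL.cons 13 (TM.mk (P.cons (P.cons (P.lf 0 2603421 0) (P.cons (P.lf 13331633 0 0) (P.cons (P.lf 0 16175878 0) (P.cons (P.lf 0 2579253 0) (P.cons (P.lf 684425 0 0) (P.cons (P.lf 50859 0 0) P.nil)))))) (P.cons (P.cons (P.lf 0 2873354 0) (P.cons (P.lf 7834678 0 0) (P.cons (P.lf 0 699357 0) (P.cons (P.lf 0 338158 0) (P.cons (P.lf 49050 0 0) P.nil))))) (P.cons (P.cons (P.lf 0 782716 0) (P.cons (P.lf 242207 0 0) (P.cons (P.lf 0 17101 0) (P.cons (P.lf 0 9849 0) P.nil)))) (P.cons (P.cons (P.lf 6060 0 0) (P.cons (P.lf 252 0 0) (P.cons (P.lf 0 312 0) P.nil))) (P.cons (P.cons (P.lf 258 0 0) (P.cons (P.lf 0 72 0) P.nil)) (P.cons (P.cons (P.lf 0 0 0) P.nil) P.nil)))))) 14791)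
 EL.nil)
noncomputable def S154_157_364_512_30 : EL := (EL.cons 13 (TM.mk (P.cons (P.lf 2827509288 0 0) (P.cons (P.lf 0 28568064 0) (P.cons (P.lf 0 239488 0) (P.cons (P.lf 0 124 0) (P.cons (P.lf 4 0 0) (P.cons (P.lf 0 0 0) P.nil)))))) 56)
 EL.nil)
noncomputable def S154_157_364_512_31 : EL := (EL.cons 13 (TM.mk (P.cons (P.cons (P.lf 69613959 0 0) (P.cons (P.lf 0 178240032 0) (P.cons (P.lf 0 11916711 0) (P.lf 3972236 0 0)))) (P.cons (P.cons (P.lf 37712552 0 0) (P.cons (P.lf 0 4586151 0) (P.cons (P.lf 0 306617 0) (P.lf 102205 0 0)))) (P.cons (P.cons (P.lf 0 529093 0) (P.cons (P.lf 20207 0 0) (P.cons (P.lf 1352 0 0) (P.lf 0 452 0)))) (P.cons (P.cons (P.lf 0 8382 0) (P.cons (P.lf 1557 0 0) (P.cons (P.lf 103 0 0) P.nil))) (P.cons (P.cons (P.lf 64 0 0) (P.cons (P.lf 8 0 0) P.nil)) (P.cons (P.cons (P.lf 0 0 0) P.nil) P.nil)))))) 314)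
 EL.nil)
noncomputable def S154_157_364_512_32 : EL := (EL.cons 13 (TM.mk (P.cons (P.cons (P.lf 1713912 0 0) (P.cons (P.lf 0 8776624 0) (P.cons (P.lf 10649078 0 0) (P.cons (P.lf 1698001 0 0) (P.cons (P.lf 0 450578 0) (P.cons (P.lf 0 33482 0) P.nil)))))) (P.cons (P.cons (P.lf 1874300 0 0) (P.cons (P.lf 0 5069134 0) (P.cons (P.lf 352814 0 0) (P.cons (P.lf 205463 0 0) (P.cons (P.lf 0 27738 0) P.nil))))) (P.cons (P.cons (P.lf 496028 0 0) (P.cons (P.lf 0 106596 0) (P.cons (P.lf 5704 0 0) (P.cons (P.lf 4090 0 0) P.nil)))) (P.cons (P.cons (P.lf 0 9356 0) (P.cons (P.lf 1882 0 0) (P.cons (P.lf 52 0 0) P.nil))) (P.cons (P.cons (P.lf 0 173 0) (P.cons (P.lf 62 0 0) P.nil)) (P.cons (P.cons (P.lf 2 0 0) P.nil) P.nil)))))) 10656)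
 EL.nil)
noncomputable def S154_157_364_512_33 : EL := (EL.cons 14 (TM.mk (P.lf 8589934592 0 0) 0)
 EL.nil)
noncomputable def S154_157_364_512_34 : EL := (EL.cons 14 (TM.mk (P.cons (P.cons (P.lf 211486258 0 0) (P.cons (P.lf 0 541490784 0) (P.cons (P.lf 0 36202808 0) (P.lf 12067600 0 0)))) (P.cons (P.cons (P.lf 116706994 0 0) (P.cons (P.lf 0 19403680 0) (P.cons (P.lf 0 1297280 0) (P.lf 432424 0 0)))) (P.cons (P.cons (P.lf 0 410304 0) (P.cons (P.lf 0 180520 0) (P.cons (P.lf 0 12064 0) (P.lf 4016 0 0)))) (P.cons (P.cons (P.lf 0 19718 0) (P.cons (P.lf 1240 0 0) (P.cons (P.lf 80 0 0) P.nil))) (P.cons (P.cons (P.lf 0 32 0) (P.cons (P.lf 24 0 0) P.nil)) (P.cons (P.cons (P.lf 0 0 0) P.nil) P.nil)))))) 790)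
 EL.nil)
noncomputable def S154_157_364_512_35 : EL := (EL.cons 14 (TM.mk (P.cons (P.cons (P.lf 5206842 0 0) (P.cons (P.lf 0 26663266 0) (P.cons (P.lf 32351756 0 0) (P.cons (P.lf 5158506 0 0) (P.cons (P.lf 0 1368850 0) (P.cons (P.lf 0 101718 0) P.nil)))))) (P.cons (P.cons (P.lf 5746708 0 0) (P.cons (P.lf 0 15669356 0) (P.cons (P.lf 1398714 0 0) (P.cons (P.lf 676316 0 0) (P.cons (P.lf 0 98100 0) P.nil))))) (P.cons (P.cons (P.lf 1565432 0 0) (P.cons (P.lf 0 484414 0) (P.cons (P.lf 34202 0 0) (P.cons (P.lf 19698 0 0) P.nil)))) (P.cons (P.cons (P.lf 0 12120 0) (P.cons (P.lf 0 504 0) (P.cons (P.lf 624 0 0) P.nil))) (P.cons (P.cons (P.lf 0 516 0) (P.cons (P.lf 144 0 0) P.nil)) (P.cons (P.cons (P.lf 0 0 0) P.nil) P.nil)))))) 29582)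
 EL.nil)
noncomputable def S154_157_364_512_36 : EL := (EL.cons 14 (TM.mk (P.cons (P.lf 0 5655018576 0) (P.cons (P.lf 57136128 0 0) (P.cons (P.lf 478976 0 0) (P.cons (P.lf 248 0 0) (P.cons (P.lf 0 8 0) (P.cons (P.lf 0 0 0) P.nil)))))) 112)
 EL.nil)
noncomputable def S154_157_364_512_37 : EL := (EL.cons 14 (TM.mk (P.cons (P.cons (P.lf 0 139227918 0) (P.cons (P.lf 356480064 0 0) (P.cons (P.lf 23833422 0 0) (P.lf 0 7944472 0)))) (P.cons (P.cons (P.lf 0 75425104 0) (P.cons (P.lf 9172302 0 0) (P.cons (P.lf 613234 0 0) (P.lf 0 204410 0)))) (P.cons (P.cons (P.lf 1058186 0 0) (P.cons (P.lf 0 40414 0) (P.cons (P.lf 0 2704 0) (P.lf 904 0 0)))) (P.cons (P.cons (P.lf 16764 0 0) (P.cons (P.lf 0 3114 0) (P.cons (P.lf 0 206 0) P.nil))) (P.cons (P.cons (P.lf 0 128 0) (P.cons (P.lf 0 16 0) P.nil)) (P.cons (P.cons (P.lf 0 0 0) P.nil) P.nil)))))) 628)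
 EL.nil)
noncomputable def S154_157_364_512_38 : EL := (EL.cons 14 (TM.mk (P.cons (P.cons (P.lf 0 3427824 0) (P.cons (P.lf 17553248 0 0) (P.cons (P.lf 0 21298156 0) (P.cons (P.lf 0 3396002 0) (P.cons (P.lf 901156 0 0) (P.cons (P.lf 66964 0 0) P.nil)))))) (P.cons (P.cons (P.lf 0 3748600 0) (P.cons (P.lf 10138268 0 0) (P.cons (P.lf 0 705628 0) (P.cons (P.lf 0 410926 0) (P.cons (P.lf 55476 0 0) P.nil))))) (P.cons (P.cons (P.lf 0 992056 0) (P.cons (P.lf 213192 0 0) (P.cons (P.lf 0 11408 0) (P.cons (P.lf 0 8180 0) P.nil)))) (P.cons (P.cons (P.lf 18712 0 0) (P.cons (P.lf 0 3764 0) (P.cons (P.lf 0 104 0) P.nil))) (P.cons (P.cons (P.lf 346 0 0) (P.cons (P.lf 0 124 0) P.nil)) (P.cons (P.cons (P.lf 0 4 0) P.nil) P.nil)))))) 21312)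
 EL.nil)
noncomputable def S154_157_364_512_39 : EL := (EL.cons 14 (TM.mk (P.cons (P.lf 3722872944 0 0) (P.cons (P.lf 0 75228946 0) (P.cons (P.lf 0 250606 0) (P.cons (P.lf 6044 0 0) (P.cons (P.lf 40 0 0) (P.cons (P.lf 0 0 0) P.nil)))))) 162)
 EL.nil)
noncomputable def S154_157_364_512_40 : EL := (EL.cons 14 (TM.mk (P.cons (P.cons (P.lf 91658028 0 0) (P.cons (P.lf 0 234681808 0) (P.cons (P.lf 0 15690276 0) (P.lf 5230090 0 0)))) (P.cons (P.cons (P.lf 48728592 0 0) (P.cons (P.lf 0 3667274 0) (P.cons (P.lf 0 245182 0) (P.lf 81726 0 0)))) (P.cons (P.cons (P.lf 0 1206092 0) (P.cons (P.lf 107492 0 0) (P.cons (P.lf 7188 0 0) (P.lf 0 2398 0)))) (P.cons (P.cons (P.lf 0 8208 0) (P.cons (P.lf 2302 0 0) (P.cons (P.lf 152 0 0) P.nil))) (P.cons (P.cons (P.lf 252 0 0) (P.cons (P.lf 0 10 0) P.nil)) (P.cons (P.cons (P.lf 0 0 0) P.nil) P.nil)))))) 464)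
 EL.nil)
noncomputable def S154_157_364_512_41 : EL := (EL.cons 14 (TM.mk (P.cons (P.cons (P.lf 2256642 0 0) (P.cons (P.lf 0 11555844 0) (P.cons (P.lf 14021232 0 0) (P.cons (P.lf 2235692 0 0) (P.cons (P.lf 0 593258 0) (P.cons (P.lf 0 44084 0) P.nil)))))) (P.cons (P.cons (P.lf 2445018 0 0) (P.cons (P.lf 0 6557578 0) (P.cons (P.lf 322870 0 0) (P.cons (P.lf 247936 0 0) (P.cons (P.lf 0 30528 0) P.nil))))) (P.cons (P.cons (P.lf 627976 0 0) (P.cons (P.lf 0 71936 0) (P.cons (P.lf 1628 0 0) (P.cons (P.lf 2462 0 0) P.nil)))) (P.cons (P.cons (P.lf 0 19126 0) (P.cons (P.lf 4462 0 0) (P.cons (P.lf 0 46 0) P.nil))) (P.cons (P.cons (P.lf 0 158 0) (P.cons (P.lf 68 0 0) P.nil)) (P.cons (P.cons (P.lf 6 0 0) P.nil) P.nil)))))) 15128)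
 EL.nil)
noncomputable def S154_157_364_512_42 : EL := (EL.cons 14 (TM.mk (P.cons (P.lf 0 2450881950 0) (P.cons (P.lf 74288298 0 0) (P.cons (P.lf 0 127816 0) (P.cons (P.lf 0 9732 0) (P.cons (P.lf 0 4 0) (P.cons (P.lf 0 0 0) P.nil)))))) 170)
 EL.nil)
noncomputable def S154_157_364_512_43 : EL := (EL.cons 14 (TM.mk (P.cons (P.cons (P.lf 0 60341302 0) (P.cons (P.lf 154498264 0 0) (P.cons (P.lf 10329392 0 0) (P.lf 0 3443130 0)))) (P.cons (P.cons (P.lf 0 31469868 0) (P.cons (P.lf 853288 0 0) (P.cons (P.lf 57046 0 0) (P.lf 0 19014 0)))) (P.cons (P.cons (P.lf 1123236 0 0) (P.cons (P.lf 0 108244 0) (P.cons (P.lf 0 7238 0) (P.lf 2414 0 0)))) (P.cons (P.cons (P.lf 100 0 0) (P.cons (P.lf 0 1012 0) (P.cons (P.lf 0 66 0) P.nil))) (P.cons (P.cons (P.lf 0 286 0) (P.cons (P.lf 28 0 0) P.nil)) (P.cons (P.cons (P.lf 0 0 0) P.nil) P.nil)))))) 346)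
 EL.nil)
noncomputable def S154_157_364_512_44 : EL := (EL.cons 14 (TM.mk (P.cons (P.cons (P.lf 0 1485616 0) (P.cons (P.lf 7607568 0 0) (P.cons (P.lf 0 9230608 0) (P.cons (P.lf 0 1471826 0) (P.cons (P.lf 390560 0 0) (P.cons (P.lf 29022 0 0) P.nil)))))) (P.cons (P.cons (P.lf 0 1594620 0) (P.cons (P.lf 4240192 0 0) (P.cons (P.lf 0 119292 0) (P.cons (P.lf 0 148354 0) (P.cons (P.lf 16150 0 0) P.nil))))) (P.cons (P.cons (P.lf 0 397026 0) (P.cons (P.lf 3096 0 0) (P.cons (P.lf 1856 0 0) (P.cons (P.lf 150 0 0) P.nil)))) (P.cons (P.cons (P.lf 16904 0 0) (P.cons (P.lf 0 3782 0) (P.cons (P.lf 60 0 0) P.nil))) (P.cons (P.cons (P.lf 12 0 0) (P.cons (P.lf 0 20 0) P.nil)) (P.cons (P.cons (P.lf 0 6 0) P.nil) P.nil)))))) 10692)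
 EL.nil)
noncomputable def S154_157_364_512_45 : EL := (EL.cons 14 (TM.mk (P.cons (P.cons (P.lf 128192 0 0) (P.cons (P.lf 0 984684 0) (P.cons (P.lf 2455356 0 0) (P.cons (P.lf 0 1792690 0) (P.cons (P.lf 0 532688 0) (P.cons (P.lf 107492 0 0) P.nil)))))) (P.cons (P.cons (P.lf 212228 0 0) (P.cons (P.lf 0 1122064 0) (P.cons (P.lf 1496968 0 0) (P.cons (P.lf 3886 0 0) (P.cons (P.lf 0 109434 0) P.nil))))) (P.cons (P.cons (P.lf 116370 0 0) (P.cons (P.lf 0 335316 0) (P.cons (P.lf 77318 0 0) (P.cons (P.lf 10368 0 0) P.nil)))) (P.cons (P.cons (P.lf 20682 0 0) (P.cons (P.lf 0 8676 0) (P.cons (P.lf 1596 0 0) P.nil))) (P.cons (P.cons (P.lf 0 264 0) (P.cons (P.lf 82 0 0) P.nil)) (P.cons (P.cons (P.lf 0 10 0) P.nil) P.nil)))))) 53046)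
 EL.nil)
noncomputable def S154_157_364_512_46 : EL := (EL.cons 15 (TM.mk (P.lf 4294967296 0 0) 0)
 EL.nil)
noncomputable def S154_157_364_512_47 : EL := (EL.cons 15 (TM.mk (P.cons (P.cons (P.lf 105743129 0 0) (P.cons (P.lf 0 270745392 0) (P.cons (P.lf 0 18101404 0) (P.lf 6033800 0 0)))) (P.cons (P.cons (P.lf 58353497 0 0) (P.cons (P.lf 0 9701840 0) (P.cons (P.lf 0 648640 0) (P.lf 216212 0 0)))) (P.cons (P.cons (P.lf 0 205152 0) (P.cons (P.lf 0 90260 0) (P.cons (P.lf 0 6032 0) (P.lf 2008 0 0)))) (P.cons (P.cons (P.lf 0 9859 0) (P.cons (P.lf 620 0 0) (P.cons (P.lf 40 0 0) P.nil))) (P.cons (P.cons (P.lf 0 16 0) (P.cons (P.lf 12 0 0) P.nil)) (P.cons (P.cons (P.lf 0 0 0) P.nil) P.nil)))))) 395)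
 EL.nil)
noncomputable def S154_157_364_512_48 : EL := (EL.cons 15 (TM.mk (P.cons (P.cons (P.lf 2603421 0 0) (P.cons (P.lf 0 13331633 0) (P.cons (P.lf 16175878 0 0) (P.cons (P.lf 2579253 0 0) (P.cons (P.lf 0 684425 0) (P.cons (P.lf 0 50859 0) P.nil)))))) (P.cons (P.cons (P.lf 2873354 0 0) (P.cons (P.lf 0 7834678 0) (P.cons (P.lf 699357 0 0) (P.cons (P.lf 338158 0 0) (P.cons (P.lf 0 49050 0) P.nil))))) (P.cons (P.cons (P.lf 782716 0 0) (P.cons (P.lf 0 242207 0) (P.cons (P.lf 17101 0 0) (P.cons (P.lf 9849 0 0) P.nil)))) (P.cons (P.cons (P.lf 0 6060 0) (P.cons (P.lf 0 252 0) (P.cons (P.lf 312 0 0) P.nil))) (P.cons (P.cons (P.lf 0 258 0) (P.cons (P.lf 72 0 0) P.nil)) (P.cons (P.cons (P.lf 0 0 0) P.nil) P.nil)))))) 14791)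
 EL.nil)
noncomputable def S154_157_364_512 : SL := (SL.cons S154_157_364_512_0 (SL.cons S154_157_364_512_1 (SL.cons S154_157_364_512_2 (SL.cons S154_157_364_512_3 (SL.cons S154_157_364_512_4 (SL.cons S154_157_364_512_5 (SL.cons S154_157_364_512_6 (SL.cons S154_157_364_512_7 (SL.cons S154_157_364_512_8 (SL.cons S154_157_364_512_9 (SL.cons S154_157_364_512_10 (SL.cons S154_157_364_512_11 (SL.cons S154_157_364_512_12 (SL.cons S154_157_364_512_13 (SL.cons S154_157_364_512_14 (SL.cons S154_157_364_512_15 (SL.cons S154_157_364_512_16 (SL.cons S154_157_364_512_17 (SL.cons S154_157_364_512_18 (SL.cons S154_157_364_512_19 (SL.cons S154_157_364_512_20 (SL.cons S154_157_364_512_21 (SL.cons S154_157_364_512_22 (SL.cons S154_157_364_512_23 (SL.cons S154_157_364_512_24 (SL.cons S154_157_364_512_25 (SL.cons S154_157_364_512_26 (SL.cons S154_157_364_512_27 (SL.cons S154_157_364_512_28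 (SL.cons S154_157_364_512_29 (SL.cons S154_157_364_512_30 (SL.cons S154_157_364_512_31 (SL.cons S154_157_364_512_32 (SL.cons S154_157_364_512_33 (SL.cons S154_157_364_512_34 (SL.cons S154_157_364_512_35 (SL.cons S154_157_364_512_36 (SL.cons S154_157_364_512_37 (SL.cons S154_157_364_512_38 (SL.cons S154_157_364_512_39 (SL.cons S154_157_364_512_40 (SL.cons S154_157_364_512_41 (SL.cons S154_157_364_512_42 (SL.cons S154_157_364_512_43 (SL.cons S154_157_364_512_44 (SL.cons S154_157_364_512_45 (SL.cons S154_157_364_512_46 (SL.cons S154_157_364_512_47 (SL.cons S154_157_364_512_48 SL.nil)))))))))))))))))))))))))))))))))))))))))))))))))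
noncomputable def S154_169_216_290_0 : EL := (EL.cons 0 (TM.mk (P.cons (P.lf 5451310535 0 0) (P.cons (P.lf 338075945 0 0) (P.cons (P.lf 3807979 0 0) (P.cons (P.lf 0 751584 0) (P.cons (P.lf 0 26892 0) (P.cons (P.lf 418 0 0) P.nil)))))) 212)
 (EL.cons 1 (TM.mk (P.cons (P.lf 0 1800696082 0) (P.cons (P.lf 1034199 0 0) (P.cons (P.lf 11296008 0 0) (P.cons (P.lf 258390 0 0) (P.cons (P.lf 0 13243 0) (P.cons (P.lf 0 742 0) P.nil)))))) 140)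
 (EL.cons 5 (TM.mk (P.cons (P.lf 5363200660 0 0) (P.cons (P.lf 0 120204780 0) (P.cons (P.lf 0 1353950 0) (P.cons (P.lf 267230 0 0) (P.cons (P.lf 9562 0 0) (P.cons (P.lf 0 146 0) P.nil)))))) 103)
 (EL.cons 9 (TM.mk (P.lf 6442450944 0 0) 2)
 EL.nil))))
noncomputable def S154_169_216_290_1 : EL := (EL.cons 0 (TM.mk (P.cons (P.cons (P.lf 0 3553413549 0) (P.cons (P.lf 31957928 0 0) (P.cons (P.lf 15086092 0 0) (P.lf 0 718381 0)))) (P.cons (P.cons (P.lf 766367051 0 0) (P.cons (P.lf 0 6793943 0) (P.cons (P.lf 0 3207168 0) (P.lf 152735 0 0)))) (P.cons (P.cons (P.lf 101294844 0 0) (P.cons (P.lf 0 1954885 0) (P.cons (P.lf 0 922821 0) (P.lf 43940 0 0)))) (P.cons (P.cons (P.lf 0 2785491 0) (P.cons (P.lf 0 86407 0) (P.cons (P.lf 0 40778 0) P.nil))) (P.cons (P.cons (P.lf 0 730441 0) (P.cons (P.lf 7819 0 0) P.nil)) (P.cons (P.cons (P.lf 0 12494 0) P.nil) P.nil)))))) 22151)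
 (EL.cons 1 (TM.mk (P.cons (P.cons (P.lf 0 380866234 0) (P.cons (P.lf 16403467 0 0) (P.cons (P.lf 7743436 0 0) (P.lf 0 368729 0)))) (P.cons (P.cons (P.lf 0 466044213 0) (P.cons (P.lf 8101798 0 0) (P.cons (P.lf 3824538 0 0) (P.lf 0 182110 0)))) (P.cons (P.cons (P.lf 15895393 0 0) (P.cons (P.lf 359193 0 0) (P.cons (P.lf 169559 0 0) (P.lf 0 8065 0)))) (P.cons (P.cons (P.lf 5706108 0 0) (P.cons (P.lf 0 72818 0) (P.cons (P.lf 0 34365 0) P.nil))) (P.cons (P.cons (P.lf 45231 0 0) (P.cons (P.lf 0 6021 0) P.nil)) (P.cons (P.cons (P.lf 0 24803 0) P.nil) P.nil)))))) 11520)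
 (EL.cons 5 (TM.mk (P.cons (P.cons (P.lf 2749926238 0 0) (P.cons (P.lf 0 76872392 0) (P.cons (P.lf 0 36288472 0) (P.lf 1728024 0 0)))) (P.cons (P.cons (P.lf 358627123 0 0) (P.cons (P.lf 0 8528868 0) (P.cons (P.lf 0 4026144 0) (P.lf 191718 0 0)))) (P.cons (P.cons (P.lf 0 43861350 0) (P.cons (P.lf 267052 0 0) (P.cons (P.lf 126060 0 0) (P.lf 0 6000 0)))) (P.cons (P.cons (P.lf 0 1490045 0) (P.cons (P.lf 53840 0 0) (P.cons (P.lf 25414 0 0) P.nil))) (P.cons (P.cons (P.lf 219820 0 0) (P.cons (P.lf 0 634 0) P.nil)) (P.cons (P.cons (P.lf 8958 0 0) P.nil) P.nil)))))) 9456)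
 (EL.cons 9 (TM.mk (P.cons (P.cons (P.lf 1311609084 0 0) (P.cons (P.lf 0 57802560 0) (P.cons (P.lf 0 27286344 0) (P.lf 1299348 0 0)))) (P.cons (P.cons (P.lf 556864563 0 0) (P.cons (P.lf 0 9656898 0) (P.cons (P.lf 0 4558644 0) (P.lf 217074 0 0)))) (P.cons (P.cons (P.lf 0 6922420 0) (P.cons (P.lf 0 377658 0) (P.cons (P.lf 0 178278 0) (P.lf 8484 0 0)))) (P.cons (P.cons (P.lf 0 2188617 0) (P.cons (P.lf 20400 0 0) (P.cons (P.lf 9624 0 0) P.nil))) (P.cons (P.cons (P.lf 0 35191 0) (P.cons (P.lf 1884 0 0) P.nil)) (P.cons (P.cons (P.lf 3978 0 0) P.nil) P.nil)))))) 2594)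
 (EL.cons 2 (TM.mk (P.cons (P.cons (P.lf 193965856 0 0) (P.cons (P.lf 191258513 0 0) (P.cons (P.lf 0 5984662 0) (P.cons (P.lf 0 1096661 0) (P.lf 39164 0 0))))) (P.cons (P.cons (P.lf 10690365 0 0) (P.cons (P.lf 10541148 0 0) (P.cons (P.lf 0 329841 0) (P.cons (P.lf 0 60440 0) (P.lf 2157 0 0))))) (P.cons (P.cons (P.lf 0 1402079 0) (P.cons (P.lf 0 1382509 0) (P.cons (P.lf 43259 0 0) (P.cons (P.lf 7925 0 0) P.nil)))) (P.cons (P.cons (P.lf 0 109527 0) (P.cons (P.lf 0 108000 0) (P.cons (P.lf 3377 0 0) P.nil))) (P.cons (P.cons (P.lf 846 0 0) (P.cons (P.lf 835 0 0) P.nil)) (P.cons (P.cons (P.lf 278 0 0) P.nil) P.nil)))))) 1711)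
 (EL.cons 6 (TM.mk (P.cons (P.cons (P.lf 116253768 0 0) (P.cons (P.lf 114631116 0 0) (P.cons (P.lf 0 3586917 0) (P.cons (P.lf 0 657285 0) (P.lf 23472 0 0))))) (P.cons (P.cons (P.lf 19422174 0 0) (P.cons (P.lf 19151082 0 0) (P.cons (P.lf 0 599253 0) (P.cons (P.lf 0 109809 0) (P.lf 3921 0 0))))) (P.cons (P.cons (P.lf 759564 0 0) (P.cons (P.lf 748962 0 0) (P.cons (P.lf 0 23433 0) (P.cons (P.lf 0 4293 0) P.nil)))) (P.cons (P.cons (P.lf 0 41031 0) (P.cons (P.lf 0 40458 0) (P.cons (P.lf 1263 0 0) P.nil))) (P.cons (P.cons (P.lf 0 3798 0) (P.cons (P.lf 0 3747 0) P.nil)) (P.cons (P.cons (P.lf 0 30 0) P.nil) P.nil)))))) 939)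
 EL.nil))))))
noncomputable def S154_169_216_290_2 : EL := (EL.cons 0 (TM.mk (P.cons (P.cons (P.lf 0 1672815925 0) (P.cons (P.lf 96690953 0 0) (P.cons (P.lf 44631753 0 0) (P.cons (P.lf 0 3129242 0) (P.cons (P.lf 0 180060 0) (P.cons (P.lf 21477 0 0) P.nil)))))) (P.cons (P.cons (P.lf 0 508115885 0) (P.cons (P.lf 12676636 0 0) (P.cons (P.lf 5836396 0 0) (P.cons (P.lf 0 424420 0) (P.cons (P.lf 0 26271 0) P.nil))))) (P.cons (P.cons (P.lf 130965912 0 0) (P.cons (P.lf 0 3555474 0) (P.cons (P.lf 0 1654077 0) (P.cons (P.lf 102883 0 0) P.nil)))) (P.cons (P.cons (P.lf 16430213 0 0) (P.cons (P.lf 0 654213 0) (P.cons (P.lf 0 302206 0) P.nil))) (P.cons (P.cons (P.lf 0 1042190 0) (P.cons (P.lf 0 2204 0) P.nil)) (P.cons (P.cons (P.lf 0 179496 0) P.nil) P.nil)))))) 141656)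
 (EL.cons 1 (TM.mk (P.cons (P.cons (P.lf 0 80444220 0) (P.cons (P.lf 6935095 0 0) (P.cons (P.lf 3124391 0 0) (P.cons (P.lf 0 296940 0) (P.cons (P.lf 0 26573 0) (P.cons (P.lf 3167 0 0) P.nil)))))) (P.cons (P.cons (P.lf 0 192271444 0) (P.cons (P.lf 11750998 0 0) (P.cons (P.lf 5400984 0 0) (P.cons (P.lf 0 402183 0) (P.cons (P.lf 0 26006 0) P.nil))))) (P.cons (P.cons (P.lf 0 61114837 0) (P.cons (P.lf 2236785 0 0) (P.cons (P.lf 1028239 0 0) (P.cons (P.lf 0 76378 0) P.nil)))) (P.cons (P.cons (P.lf 5332479 0 0) (P.cons (P.lf 0 67449 0) (P.cons (P.lf 0 32563 0) P.nil))) (P.cons (P.cons (P.lf 1096148 0 0) (P.cons (P.lf 0 37524 0) P.nil)) (P.cons (P.cons (P.lf 0 18250 0) P.nil) P.nil)))))) 72787)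
 (EL.cons 5 (TM.mk (P.cons (P.cons (P.lf 897411368 0 0) (P.cons (P.lf 0 61052998 0) (P.cons (P.lf 0 27873063 0) (P.cons (P.lf 2267142 0 0) (P.cons (P.lf 168575 0 0) (P.cons (P.lf 0 20107 0) P.nil)))))) (P.cons (P.cons (P.lf 437638235 0 0) (P.cons (P.lf 0 20288459 0) (P.cons (P.lf 0 9328467 0) (P.cons (P.lf 691061 0 0) (P.cons (P.lf 44267 0 0) P.nil))))) (P.cons (P.cons (P.lf 4791246 0 0) (P.cons (P.lf 0 661352 0) (P.cons (P.lf 0 296760 0) (P.cons (P.lf 29452 0 0) P.nil)))) (P.cons (P.cons (P.lf 0 8208087 0) (P.cons (P.lf 236055 0 0) (P.cons (P.lf 109944 0 0) P.nil))) (P.cons (P.cons (P.lf 0 66063 0) (P.cons (P.lf 14725 0 0) P.nil)) (P.cons (P.cons (P.lf 64082 0 0) P.nil) P.nil)))))) 68762)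
 (EL.cons 9 (TM.mk (P.cons (P.cons (P.lf 267028558 0 0) (P.cons (P.lf 0 23535874 0) (P.cons (P.lf 0 10591759 0) (P.cons (P.lf 1018698 0 0) (P.cons (P.lf 92251 0 0) (P.cons (P.lf 0 11005 0) P.nil)))))) (P.cons (P.cons (P.lf 226742469 0 0) (P.cons (P.lf 0 13924597 0) (P.cons (P.lf 0 6399975 0) (P.cons (P.lf 476613 0 0) (P.cons (P.lf 30823 0 0) P.nil))))) (P.cons (P.cons (P.lf 45314914 0 0) (P.cons (P.lf 0 1698976 0) (P.cons (P.lf 0 780768 0) (P.cons (P.lf 58252 0 0) P.nil)))) (P.cons (P.cons (P.lf 0 2087857 0) (P.cons (P.lf 3045 0 0) (P.cons (P.lf 2200 0 0) P.nil))) (P.cons (P.cons (P.lf 0 385243 0) (P.cons (P.lf 12297 0 0) P.nil)) (P.cons (P.cons (P.lf 238 0 0) P.nil) P.nil)))))) 24970)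
 (EL.cons 2 (TM.mk (P.cons (P.cons (P.lf 78978442 0 0) (P.cons (P.lf 74395496 0 0) (P.cons (P.lf 0 7511855 0) (P.cons (P.lf 0 1881016 0) (P.cons (P.lf 163468 0 0) (P.cons (P.lf 6170 0 0) P.nil)))))) (P.cons (P.cons (P.lf 37884425 0 0) (P.cons (P.lf 36582322 0 0) (P.cons (P.lf 0 2296473 0) (P.cons (P.lf 0 532906 0) (P.cons (P.lf 40421 0 0) P.nil))))) (P.cons (P.cons (P.lf 860349 0 0) (P.cons (P.lf 818713 0 0) (P.cons (P.lf 0 69744 0) (P.cons (P.lf 0 17071 0) P.nil)))) (P.cons (P.cons (P.lf 0 441736 0) (P.cons (P.lf 0 429429 0) (P.cons (P.lf 22584 0 0) P.nil))) (P.cons (P.cons (P.lf 0 24958 0) (P.cons (P.lf 0 23951 0) P.nil)) (P.cons (P.cons (P.lf 1569 0 0) P.nil) P.nil)))))) 21295)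
 (EL.cons 6 (TM.mk (P.cons (P.cons (P.lf 47335860 0 0) (P.cons (P.lf 44589066 0 0) (P.cons (P.lf 0 4502244 0) (P.cons (P.lf 0 1127388 0) (P.cons (P.lf 97974 0 0) (P.cons (P.lf 3696 0 0) P.nil)))))) (P.cons (P.cons (P.lf 28005456 0 0) (P.cons (P.lf 26917530 0 0) (P.cons (P.lf 0 1880430 0) (P.cons (P.lf 0 445614 0) (P.cons (P.lf 35196 0 0) P.nil))))) (P.cons (P.cons (P.lf 3417024 0 0) (P.cons (P.lf 3283848 0 0) (P.cons (P.lf 0 230070 0) (P.cons (P.lf 0 54546 0) P.nil)))) (P.cons (P.cons (P.lf 0 6120 0) (P.cons (P.lf 0 9120 0) (P.cons (P.lf 0 4302 0) P.nil))) (P.cons (P.cons (P.lf 0 24732 0) (P.cons (P.lf 0 24096 0) P.nil)) (P.cons (P.cons (P.lf 0 1164 0) P.nil) P.nil)))))) 17136)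
 EL.nil))))))
noncomputable def S154_169_216_290_3 : EL := (EL.cons 0 (TM.mk (P.cons (P.lf 3004406328 0 0) (P.cons (P.lf 0 338075945 0) (P.cons (P.lf 0 3807979 0) (P.cons (P.lf 751584 0 0) (P.cons (P.lf 26892 0 0) (P.cons (P.lf 0 418 0) P.nil)))))) 212)
 (EL.cons 1 (TM.mk (P.cons (P.lf 1800696082 0 0) (P.cons (P.lf 0 1034199 0) (P.cons (P.lf 0 11296008 0) (P.cons (P.lf 0 258390 0) (P.cons (P.lf 13243 0 0) (P.cons (P.lf 742 0 0) P.nil)))))) 140)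
 (EL.cons 5 (TM.mk (P.cons (P.lf 1079250284 0 0) (P.cons (P.lf 120204780 0 0) (P.cons (P.lf 1353950 0 0) (P.cons (P.lf 0 267230 0) (P.cons (P.lf 0 9562 0) (P.cons (P.lf 146 0 0) P.nil)))))) 96)
 EL.nil)))
noncomputable def S154_169_216_290_4 : EL := (EL.cons 0 (TM.mk (P.cons (P.cons (P.lf 611662651 0 0) (P.cons (P.lf 0 26955947 0) (P.cons (P.lf 0 12724855 0) (P.lf 605944 0 0)))) (P.cons (P.cons (P.lf 190862753 0 0) (P.cons (P.lf 0 1470183 0) (P.cons (P.lf 0 694014 0) (P.lf 33045 0 0)))) (P.cons (P.cons (P.lf 0 33225686 0) (P.cons (P.lf 364804 0 0) (P.cons (P.lf 172209 0 0) (P.lf 0 8201 0)))) (P.cons (P.cons (P.lf 0 833523 0) (P.cons (P.lf 28295 0 0) (P.cons (P.lf 13354 0 0) P.nil))) (P.cons (P.cons (P.lf 172968 0 0) (P.cons (P.lf 0 1335 0) P.nil)) (P.cons (P.cons (P.lf 6426 0 0) P.nil) P.nil)))))) 4292)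
 (EL.cons 1 (TM.mk (P.cons (P.cons (P.lf 366601057 0 0) (P.cons (P.lf 0 16156093 0) (P.cons (P.lf 0 7626663 0) (P.lf 363172 0 0)))) (P.cons (P.cons (P.lf 155435776 0 0) (P.cons (P.lf 0 2689869 0) (P.cons (P.lf 0 1269781 0) (P.lf 60463 0 0)))) (P.cons (P.cons (P.lf 0 4323978 0) (P.cons (P.lf 0 2656 0) (P.cons (P.lf 0 1254 0) (P.lf 58 0 0)))) (P.cons (P.cons (P.lf 0 1639612 0) (P.cons (P.lf 25012 0 0) (P.cons (P.lf 11805 0 0) P.nil))) (P.cons (P.cons (P.lf 0 16983 0) (P.cons (P.lf 1453 0 0) P.nil)) (P.cons (P.cons (P.lf 6526 0 0) P.nil) P.nil)))))) 2750)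
 (EL.cons 5 (TM.mk (P.cons (P.cons (P.lf 219722972 0 0) (P.cons (P.lf 0 9683182 0) (P.cons (P.lf 0 4571054 0) (P.lf 217668 0 0)))) (P.cons (P.cons (P.lf 117759206 0 0) (P.cons (P.lf 0 2696232 0) (P.cons (P.lf 0 1272786 0) (P.lf 60606 0 0)))) (P.cons (P.cons (P.lf 9506102 0 0) (P.cons (P.lf 0 255592 0) (P.cons (P.lf 0 120654 0) (P.lf 5742 0 0)))) (P.cons (P.cons (P.lf 0 433174 0) (P.cons (P.lf 0 3260 0) (P.cons (P.lf 0 1540 0) P.nil))) (P.cons (P.cons (P.lf 0 73230 0) (P.cons (P.lf 1102 0 0) P.nil)) (P.cons (P.cons (P.lf 0 960 0) P.nil) P.nil)))))) 1618)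
 EL.nil)))
noncomputable def S154_169_216_290_5 : EL := (EL.cons 0 (TM.mk (P.cons (P.cons (P.lf 124527496 0 0) (P.cons (P.lf 0 10975842 0) (P.cons (P.lf 0 4939416 0) (P.cons (P.lf 475064 0 0) (P.cons (P.lf 43020 0 0) (P.cons (P.lf 0 5131 0) P.nil)))))) (P.cons (P.cons (P.lf 91727600 0 0) (P.cons (P.lf 0 5258592 0) (P.cons (P.lf 0 2428780 0) (P.cons (P.lf 168808 0 0) (P.cons (P.lf 9532 0 0) P.nil))))) (P.cons (P.cons (P.lf 9075955 0 0) (P.cons (P.lf 0 47685 0) (P.cons (P.lf 0 21999 0) (P.cons (P.lf 1552 0 0) P.nil)))) (P.cons (P.cons (P.lf 0 3454490 0) (P.cons (P.lf 96059 0 0) (P.cons (P.lf 44544 0 0) P.nil))) (P.cons (P.cons (P.lf 0 69310 0) (P.cons (P.lf 4855 0 0) P.nil)) (P.cons (P.cons (P.lf 27776 0 0) P.nil) P.nil)))))) 22050)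
 (EL.cons 1 (TM.mk (P.cons (P.cons (P.lf 74635768 0 0) (P.cons (P.lf 0 6578388 0) (P.cons (P.lf 0 2960446 0) (P.cons (P.lf 284730 0 0) (P.cons (P.lf 25783 0 0) (P.cons (P.lf 0 3075 0) P.nil)))))) (P.cons (P.cons (P.lf 63332745 0 0) (P.cons (P.lf 0 3888211 0) (P.cons (P.lf 0 1787122 0) (P.cons (P.lf 133050 0 0) (P.cons (P.lf 8598 0 0) P.nil))))) (P.cons (P.cons (P.lf 12161137 0 0) (P.cons (P.lf 0 431368 0) (P.cons (P.lf 0 198628 0) (P.cons (P.lf 14418 0 0) P.nil)))) (P.cons (P.cons (P.lf 0 999112 0) (P.cons (P.lf 26480 0 0) (P.cons (P.lf 12384 0 0) P.nil))) (P.cons (P.cons (P.lf 0 195339 0) (P.cons (P.lf 6924 0 0) P.nil)) (P.cons (P.cons (P.lf 2467 0 0) P.nil) P.nil)))))) 14410)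
 (EL.cons 5 (TM.mk (P.cons (P.cons (P.lf 44733074 0 0) (P.cons (P.lf 0 3942768 0) (P.cons (P.lf 0 1774348 0) (P.cons (P.lf 170652 0 0) (P.cons (P.lf 15452 0 0) (P.cons (P.lf 0 1842 0) P.nil)))))) (P.cons (P.cons (P.lf 42966562 0 0) (P.cons (P.lf 0 2771810 0) (P.cons (P.lf 0 1269756 0) (P.cons (P.lf 98848 0 0) (P.cons (P.lf 6884 0 0) P.nil))))) (P.cons (P.cons (P.lf 11877964 0 0) (P.cons (P.lf 0 549368 0) (P.cons (P.lf 0 252432 0) (P.cons (P.lf 18864 0 0) P.nil)))) (P.cons (P.cons (P.lf 532310 0 0) (P.cons (P.lf 0 33138 0) (P.cons (P.lf 0 15104 0) P.nil))) (P.cons (P.cons (P.lf 0 103768 0) (P.cons (P.lf 2372 0 0) P.nil)) (P.cons (P.cons (P.lf 0 9796 0) P.nil) P.nil)))))) 8824)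
 EL.nil)))
noncomputable def S154_169_216_290_6 : EL := (EL.cons 12 (TM.mk (P.lf 8589934592 0 0) 0)
 (EL.cons 3 (TM.mk (P.cons (P.lf 0 2540061705 0) (P.cons (P.lf 142912387 0 0) (P.cons (P.lf 5630085 0 0) (P.cons (P.lf 0 945 0) (P.cons (P.lf 0 5182 0) (P.cons (P.lf 0 116 0) P.nil)))))) 67)
 (EL.cons 7 (TM.mk (P.cons (P.lf 0 1522390337 0) (P.cons (P.lf 0 84780425 0) (P.cons (P.lf 1405728 0 0) (P.cons (P.lf 110195 0 0) (P.cons (P.lf 1257 0 0) (P.cons (P.lf 0 72 0) P.nil)))))) 47)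
 EL.nil)))
noncomputable def S154_169_216_290_7 : EL := (EL.cons 12 (TM.mk (P.cons (P.cons (P.lf 1748812112 0 0) (P.cons (P.lf 0 77070080 0) (P.cons (P.lf 0 36381792 0) (P.lf 1732464 0 0)))) (P.cons (P.cons (P.lf 742486084 0 0) (P.cons (P.lf 0 12875864 0) (P.cons (P.lf 0 6078192 0) (P.lf 289432 0 0)))) (P.cons (P.cons (P.lf 0 9229894 0) (P.cons (P.lf 0 503544 0) (P.cons (P.lf 0 237704 0) (P.lf 11312 0 0)))) (P.cons (P.cons (P.lf 0 2918156 0) (P.cons (P.lf 27200 0 0) (P.cons (P.lf 12832 0 0) P.nil))) (P.cons (P.cons (P.lf 0 46922 0) (P.cons (P.lf 2512 0 0) P.nil)) (P.cons (P.cons (P.lf 5304 0 0) P.nil) P.nil)))))) 3434)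
 (EL.cons 3 (TM.mk (P.cons (P.cons (P.lf 3425385852 0 0) (P.cons (P.lf 0 45579568 0) (P.cons (P.lf 0 21516342 0) (P.lf 1024586 0 0)))) (P.cons (P.cons (P.lf 0 160002769 0) (P.cons (P.lf 0 5050380 0) (P.cons (P.lf 0 2384084 0) (P.lf 113522 0 0)))) (P.cons (P.cons (P.lf 0 38549573 0) (P.cons (P.lf 231664 0 0) (P.cons (P.lf 109358 0 0) (P.lf 0 5210 0)))) (P.cons (P.cons (P.lf 0 1189063 0) (P.cons (P.lf 49702 0 0) (P.cons (P.lf 23456 0 0) P.nil))) (P.cons (P.cons (P.lf 126751 0 0) (P.cons (P.lf 1142 0 0) P.nil)) (P.cons (P.cons (P.lf 8796 0 0) P.nil) P.nil)))))) 8901)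
 (EL.cons 7 (TM.mk (P.cons (P.cons (P.lf 0 2648772429 0) (P.cons (P.lf 54218097 0 0) (P.cons (P.lf 25594262 0 0) (P.lf 0 1218776 0)))) (P.cons (P.cons (P.lf 94919002 0 0) (P.cons (P.lf 2996061 0 0) (P.cons (P.lf 1414324 0 0) (P.lf 0 67350 0)))) (P.cons (P.cons (P.lf 17555697 0 0) (P.cons (P.lf 0 305134 0) (P.cons (P.lf 0 144043 0) (P.lf 6856 0 0)))) (P.cons (P.cons (P.lf 0 845081 0) (P.cons (P.lf 0 14295 0) (P.cons (P.lf 0 6750 0) P.nil))) (P.cons (P.cons (P.lf 0 85173 0) (P.cons (P.lf 1224 0 0) P.nil)) (P.cons (P.cons (P.lf 1116 0 0) P.nil) P.nil)))))) 6309)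
 (EL.cons 10 (TM.mk (P.cons (P.cons (P.lf 0 327975108 0) (P.cons (P.lf 0 323397288 0) (P.cons (P.lf 10119414 0 0) (P.cons (P.lf 1854339 0 0) (P.lf 0 66225 0))))) (P.cons (P.cons (P.lf 0 36529224 0) (P.cons (P.lf 0 36019353 0) (P.cons (P.lf 1127079 0 0) (P.cons (P.lf 206532 0 0) (P.lf 0 7374 0))))) (P.cons (P.cons (P.lf 0 411453 0) (P.cons (P.lf 0 405711 0) (P.cons (P.lf 12693 0 0) (P.cons (P.lf 2325 0 0) P.nil)))) (P.cons (P.cons (P.lf 81207 0 0) (P.cons (P.lf 80073 0 0) (P.cons (P.lf 0 2505 0) P.nil))) (P.cons (P.cons (P.lf 2904 0 0) (P.cons (P.lf 2865 0 0) P.nil)) (P.cons (P.cons (P.lf 0 42 0) P.nil) P.nil)))))) 870)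
 EL.nil))))
noncomputable def S154_169_216_290_8 : EL := (EL.cons 12 (TM.mk (P.cons (P.cons (P.lf 356038078 0 0) (P.cons (P.lf 0 31381166 0) (P.cons (P.lf 0 14122346 0) (P.cons (P.lf 1358264 0 0) (P.cons (P.lf 123002 0 0) (P.cons (P.lf 0 14674 0) P.nil)))))) (P.cons (P.cons (P.lf 302323292 0 0) (P.cons (P.lf 0 18566130 0) (P.cons (P.lf 0 8533300 0) (P.cons (P.lf 635484 0 0) (P.cons (P.lf 41098 0 0) P.nil))))) (P.cons (P.cons (P.lf 60419886 0 0) (P.cons (P.lf 0 2265302 0) (P.cons (P.lf 0 1041024 0) (P.cons (P.lf 77670 0 0) P.nil)))) (P.cons (P.cons (P.lf 0 2783810 0) (P.cons (P.lf 4060 0 0) (P.cons (P.lf 2934 0 0) P.nil))) (P.cons (P.cons (P.lf 0 513658 0) (P.cons (P.lf 16396 0 0) P.nil)) (P.cons (P.cons (P.lf 318 0 0) P.nil) P.nil)))))) 33264)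
 (EL.cons 3 (TM.mk (P.cons (P.cons (P.lf 1500019712 0 0) (P.cons (P.lf 0 89304502 0) (P.cons (P.lf 0 41134818 0) (P.cons (P.lf 2972718 0 0) (P.cons (P.lf 181861 0 0) (P.cons (P.lf 0 21696 0) P.nil)))))) (P.cons (P.cons (P.lf 610483184 0 0) (P.cons (P.lf 0 22301662 0) (P.cons (P.lf 0 10243657 0) (P.cons (P.lf 769521 0 0) (P.cons (P.lf 50530 0 0) P.nil))))) (P.cons (P.cons (P.lf 0 38114777 0) (P.cons (P.lf 0 251371 0) (P.cons (P.lf 0 98256 0) (P.cons (P.lf 24910 0 0) P.nil)))) (P.cons (P.cons (P.lf 0 11158349 0) (P.cons (P.lf 330517 0 0) (P.cons (P.lf 154411 0 0) P.nil))) (P.cons (P.cons (P.lf 0 144741 0) (P.cons (P.lf 25533 0 0) P.nil)) (P.cons (P.cons (P.lf 70877 0 0) P.nil) P.nil)))))) 80199)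
 (EL.cons 7 (TM.mk (P.cons (P.cons (P.lf 0 1015418870 0) (P.cons (P.lf 64044996 0 0) (P.cons (P.lf 29382801 0 0) (P.cons (P.lf 0 2242510 0) (P.cons (P.lf 0 151261 0) (P.cons (P.lf 18044 0 0) P.nil)))))) (P.cons (P.cons (P.lf 0 362159125 0) (P.cons (P.lf 13230095 0 0) (P.cons (P.lf 6076880 0 0) (P.cons (P.lf 0 456506 0) (P.cons (P.lf 0 29977 0) P.nil))))) (P.cons (P.cons (P.lf 42883253 0 0) (P.cons (P.lf 0 591441 0) (P.cons (P.lf 0 281870 0) (P.cons (P.lf 10767 0 0) P.nil)))) (P.cons (P.cons (P.lf 4335419 0 0) (P.cons (P.lf 0 185413 0) (P.cons (P.lf 0 85945 0) P.nil))) (P.cons (P.cons (P.lf 0 386378 0) (P.cons (P.lf 665 0 0) P.nil)) (P.cons (P.cons (P.lf 0 34058 0) P.nil) P.nil)))))) 41160)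
 (EL.cons 10 (TM.mk (P.cons (P.cons (P.lf 0 133543932 0) (P.cons (P.lf 0 125794674 0) (P.cons (P.lf 12701730 0 0) (P.cons (P.lf 3180594 0 0) (P.cons (P.lf 0 276408 0) (P.cons (P.lf 0 10434 0) P.nil)))))) (P.cons (P.cons (P.lf 0 71572068 0) (P.cons (P.lf 0 68934348 0) (P.cons (P.lf 4597728 0 0) (P.cons (P.lf 1080042 0 0) (P.cons (P.lf 0 83904 0) P.nil))))) (P.cons (P.cons (P.lf 0 5777646 0) (P.cons (P.lf 0 5541660 0) (P.cons (P.lf 404772 0 0) (P.cons (P.lf 96690 0 0) P.nil)))) (P.cons (P.cons (P.lf 263274 0 0) (P.cons (P.lf 261582 0 0) (P.cons (P.lf 0 5232 0) P.nil))) (P.cons (P.cons (P.lf 44502 0 0) (P.cons (P.lf 43212 0 0) P.nil)) (P.cons (P.cons (P.lf 582 0 0) P.nil) P.nil)))))) 29544)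
 EL.nil))))
noncomputable def S154_169_216_290_9 : EL := (EL.cons 3 (TM.mk (P.cons (P.lf 0 2540061705 0) (P.cons (P.lf 142912387 0 0) (P.cons (P.lf 5630085 0 0) (P.cons (P.lf 0 945 0) (P.cons (P.lf 0 5182 0) (P.cons (P.lf 0 116 0) P.nil)))))) 67)
 (EL.cons 7 (TM.mk (P.cons (P.lf 0 1522390337 0) (P.cons (P.lf 0 84780425 0) (P.cons (P.lf 1405728 0 0) (P.cons (P.lf 110195 0 0) (P.cons (P.lf 1257 0 0) (P.cons (P.lf 0 72 0) P.nil)))))) 47)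
 EL.nil))
noncomputable def S154_169_216_290_10 : EL := (EL.cons 3 (TM.mk (P.cons (P.cons (P.lf 0 517127415 0) (P.cons (P.lf 22789784 0 0) (P.cons (P.lf 10758171 0 0) (P.lf 0 512293 0)))) (P.cons (P.cons (P.lf 0 190459372 0) (P.cons (P.lf 2525190 0 0) (P.cons (P.lf 1192042 0 0) (P.lf 0 56761 0)))) (P.cons (P.cons (P.lf 16228402 0 0) (P.cons (P.lf 0 115832 0) (P.cons (P.lf 0 54679 0) (P.lf 2605 0 0)))) (P.cons (P.cons (P.lf 1195799 0 0) (P.cons (P.lf 0 24851 0) (P.cons (P.lf 0 11728 0) P.nil))) (P.cons (P.cons (P.lf 0 41861 0) (P.cons (P.lf 0 571 0) P.nil)) (P.cons (P.cons (P.lf 0 4731 0) P.nil) P.nil)))))) 2132)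
 (EL.cons 7 (TM.mk (P.cons (P.cons (P.lf 0 309941202 0) (P.cons (P.lf 13659096 0 0) (P.cons (P.lf 6447929 0 0) (P.lf 0 307043 0)))) (P.cons (P.cons (P.lf 0 148850804 0) (P.cons (P.lf 3042645 0 0) (P.cons (P.lf 1436314 0 0) (P.lf 0 68394 0)))) (P.cons (P.cons (P.lf 0 5406144 0) (P.cons (P.lf 203711 0 0) (P.cons (P.lf 96164 0 0) (P.lf 0 4577 0)))) (P.cons (P.cons (P.lf 752221 0 0) (P.cons (P.lf 0 2946 0) (P.cons (P.lf 0 1389 0) P.nil))) (P.cons (P.cons (P.lf 45387 0 0) (P.cons (P.lf 0 972 0) P.nil)) (P.cons (P.cons (P.lf 0 978 0) P.nil) P.nil)))))) 1265)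
 EL.nil))
noncomputable def S154_169_216_290_11 : EL := (EL.cons 3 (TM.mk (P.cons (P.cons (P.lf 0 105281206 0) (P.cons (P.lf 9279476 0 0) (P.cons (P.lf 4176006 0 0) (P.cons (P.lf 0 401640 0) (P.cons (P.lf 0 36371 0) (P.cons (P.lf 4338 0 0) P.nil)))))) (P.cons (P.cons (P.lf 0 83474158 0) (P.cons (P.lf 4967948 0 0) (P.cons (P.lf 2288357 0 0) (P.cons (P.lf 0 165315 0) (P.cons (P.lf 0 10106 0) P.nil))))) (P.cons (P.cons (P.lf 0 12603119 0) (P.cons (P.lf 340397 0 0) (P.cons (P.lf 156606 0 0) (P.cons (P.lf 0 11504 0) P.nil)))) (P.cons (P.cons (P.lf 2026507 0 0) (P.cons (P.lf 0 51053 0) (P.cons (P.lf 0 23777 0) P.nil))) (P.cons (P.cons (P.lf 144927 0 0) (P.cons (P.lf 0 6243 0) P.nil)) (P.cons (P.cons (P.lf 0 10657 0) P.nil) P.nil)))))) 14699)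
 (EL.cons 7 (TM.mk (P.cons (P.cons (P.lf 0 63100472 0) (P.cons (P.lf 5561670 0 0) (P.cons (P.lf 2502897 0 0) (P.cons (P.lf 0 240724 0) (P.cons (P.lf 0 21799 0) (P.cons (P.lf 2600 0 0) P.nil)))))) (P.cons (P.cons (P.lf 0 57094627 0) (P.cons (P.lf 3600191 0 0) (P.cons (P.lf 1651736 0 0) (P.cons (P.lf 0 126032 0) (P.cons (P.lf 0 8497 0) P.nil))))) (P.cons (P.cons (P.lf 0 13633777 0) (P.cons (P.lf 579585 0 0) (P.cons (P.lf 266410 0 0) (P.cons (P.lf 0 19815 0) P.nil)))) (P.cons (P.cons (P.lf 0 48913 0) (P.cons (P.lf 18197 0 0) (P.cons (P.lf 8177 0 0) P.nil))) (P.cons (P.cons (P.lf 132328 0 0) (P.cons (P.lf 0 3559 0) P.nil)) (P.cons (P.cons (P.lf 5374 0 0) P.nil) P.nil)))))) 8414)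
 EL.nil))
noncomputable def S154_169_216_290_12 : EL := (EL.cons 4 (TM.mk (P.cons (P.lf 2540061705 0 0) (P.cons (P.lf 0 142912387 0) (P.cons (P.lf 0 5630085 0) (P.cons (P.lf 945 0 0) (P.cons (P.lf 5182 0 0) (P.cons (P.lf 116 0 0) P.nil)))))) 67)
 (EL.cons 8 (TM.mk (P.cons (P.lf 1522390337 0 0) (P.cons (P.lf 84780425 0 0) (P.cons (P.lf 0 1405728 0) (P.cons (P.lf 0 110195 0) (P.cons (P.lf 0 1257 0) (P.cons (P.lf 72 0 0) P.nil)))))) 47)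
 EL.nil))
noncomputable def S154_169_216_290_13 : EL := (EL.cons 4 (TM.mk (P.cons (P.cons (P.lf 517127415 0 0) (P.cons (P.lf 0 22789784 0) (P.cons (P.lf 0 10758171 0) (P.lf 512293 0 0)))) (P.cons (P.cons (P.lf 190459372 0 0) (P.cons (P.lf 0 2525190 0) (P.cons (P.lf 0 1192042 0) (P.lf 56761 0 0)))) (P.cons (P.cons (P.lf 0 16228402 0) (P.cons (P.lf 115832 0 0) (P.cons (P.lf 54679 0 0) (P.lf 0 2605 0)))) (P.cons (P.cons (P.lf 0 1195799 0) (P.cons (P.lf 24851 0 0) (P.cons (P.lf 11728 0 0) P.nil))) (P.cons (P.cons (P.lf 41861 0 0) (P.cons (P.lf 571 0 0) P.nil)) (P.cons (P.cons (P.lf 4731 0 0) P.nil) P.nil)))))) 2132)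
 (EL.cons 8 (TM.mk (P.cons (P.cons (P.lf 309941202 0 0) (P.cons (P.lf 0 13659096 0) (P.cons (P.lf 0 6447929 0) (P.lf 307043 0 0)))) (P.cons (P.cons (P.lf 148850804 0 0) (P.cons (P.lf 0 3042645 0) (P.cons (P.lf 0 1436314 0) (P.lf 68394 0 0)))) (P.cons (P.cons (P.lf 5406144 0 0) (P.cons (P.lf 0 203711 0) (P.cons (P.lf 0 96164 0) (P.lf 4577 0 0)))) (P.cons (P.cons (P.lf 0 752221 0) (P.cons (P.lf 2946 0 0) (P.cons (P.lf 1389 0 0) P.nil))) (P.cons (P.cons (P.lf 0 45387 0) (P.cons (P.lf 972 0 0) P.nil)) (P.cons (P.cons (P.lf 978 0 0) P.nil) P.nil)))))) 1265)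
 EL.nil))
noncomputable def S154_169_216_290_14 : EL := (EL.cons 4 (TM.mk (P.cons (P.cons (P.lf 105281206 0 0) (P.cons (P.lf 0 9279476 0) (P.cons (P.lf 0 4176006 0) (P.cons (P.lf 401640 0 0) (P.cons (P.lf 36371 0 0) (P.cons (P.lf 0 4338 0) P.nil)))))) (P.cons (P.cons (P.lf 83474158 0 0) (P.cons (P.lf 0 4967948 0) (P.cons (P.lf 0 2288357 0) (P.cons (P.lf 165315 0 0) (P.cons (P.lf 10106 0 0) P.nil))))) (P.cons (P.cons (P.lf 12603119 0 0) (P.cons (P.lf 0 340397 0) (P.cons (P.lf 0 156606 0) (P.cons (P.lf 11504 0 0) P.nil)))) (P.cons (P.cons (P.lf 0 2026507 0) (P.cons (P.lf 51053 0 0) (P.cons (P.lf 23777 0 0) P.nil))) (P.cons (P.cons (P.lf 0 144927 0) (P.cons (P.lf 6243 0 0) P.nil)) (P.cons (P.cons (P.lf 10657 0 0) P.nil) P.nil)))))) 14699)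
 (EL.cons 8 (TM.mk (P.cons (P.cons (P.lf 63100472 0 0) (P.cons (P.lf 0 5561670 0) (P.cons (P.lf 0 2502897 0) (P.cons (P.lf 240724 0 0) (P.cons (P.lf 21799 0 0) (P.cons (P.lf 0 2600 0) P.nil)))))) (P.cons (P.cons (P.lf 57094627 0 0) (P.cons (P.lf 0 3600191 0) (P.cons (P.lf 0 1651736 0) (P.cons (P.lf 126032 0 0) (P.cons (P.lf 8497 0 0) P.nil))))) (P.cons (P.cons (P.lf 13633777 0 0) (P.cons (P.lf 0 579585 0) (P.cons (P.lf 0 266410 0) (P.cons (P.lf 19815 0 0) P.nil)))) (P.cons (P.cons (P.lf 48913 0 0) (P.cons (P.lf 0 18197 0) (P.cons (P.lf 0 8177 0) P.nil))) (P.cons (P.cons (P.lf 0 132328 0) (P.cons (P.lf 3559 0 0) P.nil)) (P.cons (P.cons (P.lf 0 5374 0) P.nil) P.nil)))))) 8414)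
 EL.nil))
noncomputable def S154_169_216_290_15 : EL := (EL.cons 4 (TM.mk (P.cons (P.lf 0 1602350041 0) (P.cons (P.lf 180307170 0 0) (P.cons (P.lf 2030922 0 0) (P.cons (P.lf 0 400845 0) (P.cons (P.lf 0 14342 0) (P.cons (P.lf 223 0 0) P.nil)))))) 116)
 (EL.cons 8 (TM.mk (P.cons (P.lf 0 960371244 0) (P.cons (P.lf 551573 0 0) (P.cons (P.lf 6024538 0 0) (P.cons (P.lf 137808 0 0) (P.cons (P.lf 0 7063 0) (P.cons (P.lf 0 396 0) P.nil)))))) 71)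
 EL.nil))
noncomputable def S154_169_216_290_16 : EL := (EL.cons 4 (TM.mk (P.cons (P.cons (P.lf 0 326220080 0) (P.cons (P.lf 14376505 0 0) (P.cons (P.lf 6786589 0 0) (P.lf 0 323170 0)))) (P.cons (P.cons (P.lf 0 101793468 0) (P.cons (P.lf 784097 0 0) (P.cons (P.lf 370140 0 0) (P.lf 0 17624 0)))) (P.cons (P.cons (P.lf 17720366 0 0) (P.cons (P.lf 0 194562 0) (P.cons (P.lf 0 91845 0) (P.lf 4374 0 0)))) (P.cons (P.cons (P.lf 444545 0 0) (P.cons (P.lf 0 15090 0) (P.cons (P.lf 0 7122 0) P.nil))) (P.cons (P.cons (P.lf 0 92250 0) (P.cons (P.lf 712 0 0) P.nil)) (P.cons (P.cons (P.lf 0 3427 0) P.nil) P.nil)))))) 2298)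
 (EL.cons 8 (TM.mk (P.cons (P.cons (P.lf 0 195520564 0) (P.cons (P.lf 8616583 0 0) (P.cons (P.lf 4067554 0 0) (P.lf 0 193692 0)))) (P.cons (P.cons (P.lf 0 82899081 0) (P.cons (P.lf 1434597 0 0) (P.cons (P.lf 677217 0 0) (P.lf 0 32247 0)))) (P.cons (P.cons (P.lf 2306122 0 0) (P.cons (P.lf 1417 0 0) (P.cons (P.lf 669 0 0) (P.lf 0 31 0)))) (P.cons (P.cons (P.lf 874460 0 0) (P.cons (P.lf 0 13340 0) (P.cons (P.lf 0 6296 0) P.nil))) (P.cons (P.cons (P.lf 9058 0 0) (P.cons (P.lf 0 775 0) P.nil)) (P.cons (P.cons (P.lf 0 3481 0) P.nil) P.nil)))))) 1457)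
 EL.nil))
noncomputable def S154_169_216_290_17 : EL := (EL.cons 4 (TM.mk (P.cons (P.cons (P.lf 0 66414664 0) (P.cons (P.lf 5853782 0 0) (P.cons (P.lf 2634355 0 0) (P.cons (P.lf 0 253367 0) (P.cons (P.lf 0 22944 0) (P.cons (P.lf 2736 0 0) P.nil)))))) (P.cons (P.cons (P.lf 0 48921387 0) (P.cons (P.lf 2804582 0 0) (P.cons (P.lf 1295349 0 0) (P.cons (P.lf 0 90030 0) (P.cons (P.lf 0 5084 0) P.nil))))) (P.cons (P.cons (P.lf 0 4840509 0) (P.cons (P.lf 25432 0 0) (P.cons (P.lf 11732 0 0) (P.cons (P.lf 0 827 0) P.nil)))) (P.cons (P.cons (P.lf 1842394 0 0) (P.cons (P.lf 0 51231 0) (P.cons (P.lf 0 23757 0) P.nil))) (P.cons (P.cons (P.lf 36965 0 0) (P.cons (P.lf 0 2589 0) P.nil)) (P.cons (P.cons (P.lf 0 14814 0) P.nil) P.nil)))))) 11770)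
 (EL.cons 8 (TM.mk (P.cons (P.cons (P.lf 0 39805743 0) (P.cons (P.lf 3508474 0 0) (P.cons (P.lf 1578905 0 0) (P.cons (P.lf 0 151856 0) (P.cons (P.lf 0 13751 0) (P.cons (P.lf 1640 0 0) P.nil)))))) (P.cons (P.cons (P.lf 0 33777464 0) (P.cons (P.lf 2073713 0 0) (P.cons (P.lf 953132 0 0) (P.cons (P.lf 0 70960 0) (P.cons (P.lf 0 4586 0) P.nil))))) (P.cons (P.cons (P.lf 0 6485940 0) (P.cons (P.lf 230063 0 0) (P.cons (P.lf 105935 0 0) (P.cons (P.lf 0 7690 0) P.nil)))) (P.cons (P.cons (P.lf 532860 0 0) (P.cons (P.lf 0 14123 0) (P.cons (P.lf 0 6605 0) P.nil))) (P.cons (P.cons (P.lf 104181 0 0) (P.cons (P.lf 0 3693 0) P.nil)) (P.cons (P.cons (P.lf 0 1316 0) P.nil) P.nil)))))) 7674)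
 EL.nil))
noncomputable def S154_169_216_290_18 : EL := (EL.cons 4 (TM.mk (P.cons (P.lf 1010812316 0 0) (P.cons (P.lf 0 170615069 0) (P.cons (P.lf 2877933 0 0) (P.cons (P.lf 577438 0 0) (P.cons (P.lf 0 318 0) (P.cons (P.lf 0 1395 0) P.nil)))))) 149)
 (EL.cons 8 (TM.mk (P.cons (P.lf 605832095 0 0) (P.cons (P.lf 0 34434094 0) (P.cons (P.lf 0 5123725 0) (P.cons (P.lf 127889 0 0) (P.cons (P.lf 19006 0 0) (P.cons (P.lf 218 0 0) P.nil)))))) 96)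
 EL.nil))
noncomputable def S154_169_216_290_19 : EL := (EL.cons 4 (TM.mk (P.cons (P.cons (P.lf 205789787 0 0) (P.cons (P.lf 0 9069147 0) (P.cons (P.lf 0 4281192 0) (P.lf 203865 0 0)))) (P.cons (P.cons (P.lf 52636066 0 0) (P.cons (P.lf 15626 0 0) (P.cons (P.lf 7377 0 0) (P.lf 0 351 0)))) (P.cons (P.cons (P.lf 0 15247617 0) (P.cons (P.lf 170667 0 0) (P.cons (P.lf 80565 0 0) (P.lf 0 3837 0)))) (P.cons (P.cons (P.lf 206253 0 0) (P.cons (P.lf 3706 0 0) (P.cons (P.lf 1748 0 0) P.nil))) (P.cons (P.cons (P.lf 99194 0 0) (P.cons (P.lf 0 1275 0) P.nil)) (P.cons (P.cons (P.lf 0 353 0) P.nil) P.nil)))))) 2345)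
 (EL.cons 8 (TM.mk (P.cons (P.cons (P.lf 123340462 0 0) (P.cons (P.lf 0 5435609 0) (P.cons (P.lf 0 2565939 0) (P.lf 122187 0 0)))) (P.cons (P.cons (P.lf 45355774 0 0) (P.cons (P.lf 0 599163 0) (P.cons (P.lf 0 282841 0) (P.lf 13467 0 0)))) (P.cons (P.cons (P.lf 0 4670470 0) (P.cons (P.lf 62071 0 0) (P.cons (P.lf 29301 0 0) (P.lf 0 1395 0)))) (P.cons (P.cons (P.lf 0 585653 0) (P.cons (P.lf 10469 0 0) (P.cons (P.lf 4941 0 0) P.nil))) (P.cons (P.cons (P.lf 28817 0 0) (P.cons (P.lf 6 0 0) P.nil)) (P.cons (P.cons (P.lf 3852 0 0) P.nil) P.nil)))))) 1399)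
 EL.nil))
noncomputable def S154_169_216_290_20 : EL := (EL.cons 4 (TM.mk (P.cons (P.cons (P.lf 41896439 0 0) (P.cons (P.lf 0 3692747 0) (P.cons (P.lf 0 1661833 0) (P.cons (P.lf 159831 0 0) (P.cons (P.lf 14474 0 0) (P.cons (P.lf 0 1725 0) P.nil)))))) (P.cons (P.cons (P.lf 28503900 0 0) (P.cons (P.lf 0 1561452 0) (P.cons (P.lf 0 723646 0) (P.cons (P.lf 47801 0 0) (P.cons (P.lf 2392 0 0) P.nil))))) (P.cons (P.cons (P.lf 1224329 0 0) (P.cons (P.lf 91682 0 0) (P.cons (P.lf 42256 0 0) (P.cons (P.lf 0 3027 0) P.nil)))) (P.cons (P.cons (P.lf 0 1402431 0) (P.cons (P.lf 37140 0 0) (P.cons (P.lf 17213 0 0) P.nil))) (P.cons (P.cons (P.lf 35400 0 0) (P.cons (P.lf 0 156 0) P.nil)) (P.cons (P.cons (P.lf 13299 0 0) P.nil) P.nil)))))) 9758)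
 (EL.cons 8 (TM.mk (P.cons (P.cons (P.lf 25110702 0 0) (P.cons (P.lf 0 2213255 0) (P.cons (P.lf 0 996022 0) (P.cons (P.lf 95795 0 0) (P.cons (P.lf 8675 0 0) (P.cons (P.lf 0 1034 0) P.nil)))))) (P.cons (P.cons (P.lf 19895064 0 0) (P.cons (P.lf 0 1183637 0) (P.cons (P.lf 0 545225 0) (P.cons (P.lf 39374 0 0) (P.cons (P.lf 2405 0 0) P.nil))))) (P.cons (P.cons (P.lf 2837022 0 0) (P.cons (P.lf 0 66623 0) (P.cons (P.lf 0 30790 0) (P.cons (P.lf 2120 0 0) P.nil)))) (P.cons (P.cons (P.lf 0 613568 0) (P.cons (P.lf 19973 0 0) (P.cons (P.lf 9259 0 0) P.nil))) (P.cons (P.cons (P.lf 0 55818 0) (P.cons (P.lf 2145 0 0) P.nil)) (P.cons (P.cons (P.lf 5319 0 0) P.nil) P.nil)))))) 5964)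
 EL.nil))
noncomputable def S154_169_216_290_21 : EL := (EL.cons 4 (TM.mk (P.cons (P.cons (P.lf 0 3942513267 0) (P.cons (P.lf 68369352 0 0) (P.cons (P.lf 32274513 0 0) (P.lf 0 1536879 0)))) (P.cons (P.cons (P.lf 0 30456603 0) (P.cons (P.lf 7575570 0 0) (P.cons (P.lf 3576126 0 0) (P.lf 0 170283 0)))) (P.cons (P.cons (P.lf 54777975 0 0) (P.cons (P.lf 0 347496 0) (P.cons (P.lf 0 164037 0) (P.lf 7815 0 0)))) (P.cons (P.cons (P.lf 2384862 0 0) (P.cons (P.lf 0 74553 0) (P.cons (P.lf 0 35184 0) P.nil))) (P.cons (P.cons (P.lf 0 168612 0) (P.cons (P.lf 0 1713 0) P.nil)) (P.cons (P.cons (P.lf 0 13527 0) P.nil) P.nil)))))) 6750)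
 (EL.cons 8 (TM.mk (P.cons (P.cons (P.lf 2338831227 0 0) (P.cons (P.lf 0 40559001 0) (P.cons (P.lf 0 19146333 0) (P.lf 911733 0 0)))) (P.cons (P.cons (P.lf 0 243769806 0) (P.cons (P.lf 46584 0 0) (P.cons (P.lf 21990 0 0) (P.lf 0 1044 0)))) (P.cons (P.cons (P.lf 0 22961841 0) (P.cons (P.lf 508845 0 0) (P.cons (P.lf 240207 0 0) (P.lf 0 11433 0)))) (P.cons (P.cons (P.lf 1597302 0 0) (P.cons (P.lf 11349 0 0) (P.cons (P.lf 5361 0 0) P.nil))) (P.cons (P.cons (P.lf 130560 0 0) (P.cons (P.lf 0 2196 0) P.nil)) (P.cons (P.cons (P.lf 0 2094 0) P.nil) P.nil)))))) 5025)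
 (EL.cons 11 (TM.mk (P.cons (P.cons (P.lf 327975108 0 0) (P.cons (P.lf 323397288 0 0) (P.cons (P.lf 0 10119414 0) (P.cons (P.lf 0 1854339 0) (P.lf 66225 0 0))))) (P.cons (P.cons (P.lf 36529224 0 0) (P.cons (P.lf 36019353 0 0) (P.cons (P.lf 0 1127079 0) (P.cons (P.lf 0 206532 0) (P.lf 7374 0 0))))) (P.cons (P.cons (P.lf 411453 0 0) (P.cons (P.lf 405711 0 0) (P.cons (P.lf 0 12693 0) (P.cons (P.lf 0 2325 0) P.nil)))) (P.cons (P.cons (P.lf 0 81207 0) (P.cons (P.lf 0 80073 0) (P.cons (P.lf 2505 0 0) P.nil))) (P.cons (P.cons (P.lf 0 2904 0) (P.cons (P.lf 0 2865 0) P.nil)) (P.cons (P.cons (P.lf 42 0 0) P.nil) P.nil)))))) 870)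
 EL.nil)))
noncomputable def S154_169_216_290_22 : EL := (EL.cons 4 (TM.mk (P.cons (P.cons (P.lf 0 802650459 0) (P.cons (P.lf 49291989 0 0) (P.cons (P.lf 22655412 0 0) (P.cons (P.lf 0 1687179 0) (P.cons (P.lf 0 109116 0) (P.cons (P.lf 13017 0 0) P.nil)))))) (P.cons (P.cons (P.lf 0 346978671 0) (P.cons (P.lf 13634805 0 0) (P.cons (P.lf 6266007 0 0) (P.cons (P.lf 0 467418 0) (P.cons (P.lf 0 30318 0) P.nil))))) (P.cons (P.cons (P.lf 12755829 0 0) (P.cons (P.lf 295884 0 0) (P.cons (P.lf 127431 0 0) (P.cons (P.lf 0 18207 0) P.nil)))) (P.cons (P.cons (P.lf 6592428 0 0) (P.cons (P.lf 0 190785 0) (P.cons (P.lf 0 89094 0) P.nil))) (P.cons (P.cons (P.lf 144834 0 0) (P.cons (P.lf 0 15888 0) P.nil)) (P.cons (P.cons (P.lf 0 40767 0) P.nil) P.nil)))))) 32739)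
 (EL.cons 8 (TM.mk (P.cons (P.cons (P.lf 476159199 0 0) (P.cons (P.lf 0 29241663 0) (P.cons (P.lf 0 13439952 0) (P.cons (P.lf 1000893 0 0) (P.cons (P.lf 64731 0 0) (P.cons (P.lf 0 7722 0) P.nil)))))) (P.cons (P.cons (P.lf 152532249 0 0) (P.cons (P.lf 0 4814952 0) (P.cons (P.lf 0 2212572 0) (P.cons (P.lf 165237 0 0) (P.cons (P.lf 10740 0 0) P.nil))))) (P.cons (P.cons (P.lf 0 28258515 0) (P.cons (P.lf 585513 0 0) (P.cons (P.lf 274140 0 0) (P.cons (P.lf 0 15291 0) P.nil)))) (P.cons (P.cons (P.lf 0 2192166 0) (P.cons (P.lf 101805 0 0) (P.cons (P.lf 47061 0 0) P.nil))) (P.cons (P.cons (P.lf 259353 0 0) (P.cons (P.lf 0 2112 0) P.nil)) (P.cons (P.cons (P.lf 19716 0 0) P.nil) P.nil)))))) 16362)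
 (EL.cons 11 (TM.mk (P.cons (P.cons (P.lf 66771966 0 0) (P.cons (P.lf 62897337 0 0) (P.cons (P.lf 0 6350865 0) (P.cons (P.lf 0 1590297 0) (P.cons (P.lf 138204 0 0) (P.cons (P.lf 5217 0 0) P.nil)))))) (P.cons (P.cons (P.lf 35786034 0 0) (P.cons (P.lf 34467174 0 0) (P.cons (P.lf 0 2298864 0) (P.cons (P.lf 0 540021 0) (P.cons (P.lf 41952 0 0) P.nil))))) (P.cons (P.cons (P.lf 2888823 0 0) (P.cons (P.lf 2770830 0 0) (P.cons (P.lf 0 202386 0) (P.cons (P.lf 0 48345 0) P.nil)))) (P.cons (P.cons (P.lf 0 131637 0) (P.cons (P.lf 0 130791 0) (P.cons (P.lf 2616 0 0) P.nil))) (P.cons (P.cons (P.lf 0 22251 0) (P.cons (P.lf 0 21606 0) P.nil)) (P.cons (P.cons (P.lf 0 291 0) P.nil) P.nil)))))) 14772)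
 EL.nil)))
noncomputable def S154_169_216_290_23 : EL := (EL.cons 4 (TM.mk (P.cons (P.cons (P.lf 2487060171 0 0) (P.cons (P.lf 0 43129515 0) (P.cons (P.lf 0 20359767 0) (P.lf 969510 0 0)))) (P.cons (P.cons (P.lf 0 120717369 0) (P.cons (P.lf 0 2352294 0) (P.cons (P.lf 0 1110420 0) (P.lf 52869 0 0)))) (P.cons (P.cons (P.lf 0 41149245 0) (P.cons (P.lf 583683 0 0) (P.cons (P.lf 275532 0 0) (P.lf 0 13122 0)))) (P.cons (P.cons (P.lf 398109 0 0) (P.cons (P.lf 45273 0 0) (P.cons (P.lf 21363 0 0) P.nil))) (P.cons (P.cons (P.lf 272685 0 0) (P.cons (P.lf 0 2139 0) P.nil)) (P.cons (P.cons (P.lf 6021 0 0) P.nil) P.nil)))))) 7722)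
 (EL.cons 8 (TM.mk (P.cons (P.cons (P.lf 0 1475407587 0) (P.cons (P.lf 25585881 0 0) (P.cons (P.lf 12078102 0 0) (P.lf 0 575148 0)))) (P.cons (P.cons (P.lf 236788962 0 0) (P.cons (P.lf 0 1468932 0) (P.cons (P.lf 0 693426 0) (P.lf 33018 0 0)))) (P.cons (P.cons (P.lf 9103263 0 0) (P.cons (P.lf 0 376053 0) (P.cons (P.lf 0 177519 0) (P.lf 8448 0 0)))) (P.cons (P.cons (P.lf 0 2164002 0) (P.cons (P.lf 10974 0 0) (P.cons (P.lf 5178 0 0) P.nil))) (P.cons (P.cons (P.lf 0 60726 0) (P.cons (P.lf 2550 0 0) P.nil)) (P.cons (P.cons (P.lf 8439 0 0) P.nil) P.nil)))))) 4833)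
 (EL.cons 11 (TM.mk (P.cons (P.cons (P.lf 0 206896914 0) (P.cons (P.lf 0 204009081 0) (P.cons (P.lf 6383640 0 0) (P.cons (P.lf 1169772 0 0) (P.lf 0 41775 0))))) (P.cons (P.cons (P.lf 0 11403057 0) (P.cons (P.lf 0 11243892 0) (P.cons (P.lf 351831 0 0) (P.cons (P.lf 64470 0 0) (P.lf 0 2301 0))))) (P.cons (P.cons (P.lf 1495551 0 0) (P.cons (P.lf 1474677 0 0) (P.cons (P.lf 0 46143 0) (P.cons (P.lf 0 8454 0) P.nil)))) (P.cons (P.cons (P.lf 116829 0 0) (P.cons (P.lf 115200 0 0) (P.cons (P.lf 0 3603 0) P.nil))) (P.cons (P.cons (P.lf 0 903 0) (P.cons (P.lf 0 891 0) P.nil)) (P.cons (P.cons (P.lf 0 297 0) P.nil) P.nil)))))) 1803)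
 EL.nil)))
noncomputable def S154_169_216_290_24 : EL := (EL.cons 4 (TM.mk (P.cons (P.cons (P.lf 506336910 0 0) (P.cons (P.lf 0 31094919 0) (P.cons (P.lf 0 14291739 0) (P.cons (P.lf 1064325 0 0) (P.cons (P.lf 68832 0 0) (P.cons (P.lf 0 8211 0) P.nil)))))) (P.cons (P.cons (P.lf 190396740 0 0) (P.cons (P.lf 0 6851754 0) (P.cons (P.lf 0 3148689 0) (P.cons (P.lf 234978 0 0) (P.cons (P.lf 15252 0 0) P.nil))))) (P.cons (P.cons (P.lf 0 21484278 0) (P.cons (P.lf 366201 0 0) (P.cons (P.lf 173685 0 0) (P.cons (P.lf 0 7461 0) P.nil)))) (P.cons (P.cons (P.lf 0 4190943 0) (P.cons (P.lf 149907 0 0) (P.cons (P.lf 69480 0 0) P.nil))) (P.cons (P.cons (P.lf 161565 0 0) (P.cons (P.lf 3597 0 0) P.nil)) (P.cons (P.cons (P.lf 40542 0 0) P.nil) P.nil)))))) 23163)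
 (EL.cons 8 (TM.mk (P.cons (P.cons (P.lf 0 300376053 0) (P.cons (P.lf 18446550 0 0) (P.cons (P.lf 8478339 0 0) (P.cons (P.lf 0 631392 0) (P.cons (P.lf 0 40833 0) (P.cons (P.lf 4869 0 0) P.nil)))))) (P.cons (P.cons (P.lf 0 79321929 0) (P.cons (P.lf 1999557 0 0) (P.cons (P.lf 918738 0 0) (P.cons (P.lf 0 68712 0) (P.cons (P.lf 0 4476 0) P.nil))))) (P.cons (P.cons (P.lf 23905917 0 0) (P.cons (P.lf 0 581142 0) (P.cons (P.lf 0 270258 0) (P.cons (P.lf 16911 0 0) P.nil)))) (P.cons (P.cons (P.lf 593082 0 0) (P.cons (P.lf 0 50163 0) (P.cons (P.lf 0 23046 0) P.nil))) (P.cons (P.cons (P.lf 0 281574 0) (P.cons (P.lf 5805 0 0) P.nil)) (P.cons (P.cons (P.lf 0 6501 0) P.nil) P.nil)))))) 12702)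
 (EL.cons 11 (TM.mk (P.cons (P.cons (P.lf 0 42121836 0) (P.cons (P.lf 0 39677598 0) (P.cons (P.lf 4006323 0 0) (P.cons (P.lf 1003209 0 0) (P.cons (P.lf 0 87183 0) (P.cons (P.lf 0 3291 0) P.nil)))))) (P.cons (P.cons (P.lf 0 20205027 0) (P.cons (P.lf 0 19510572 0) (P.cons (P.lf 1224786 0 0) (P.cons (P.lf 284217 0 0) (P.cons (P.lf 0 21558 0) P.nil))))) (P.cons (P.cons (P.lf 0 458853 0) (P.cons (P.lf 0 436647 0) (P.cons (P.lf 37197 0 0) (P.cons (P.lf 9105 0 0) P.nil)))) (P.cons (P.cons (P.lf 235593 0 0) (P.cons (P.lf 229029 0 0) (P.cons (P.lf 0 12045 0) P.nil))) (P.cons (P.cons (P.lf 13311 0 0) (P.cons (P.lf 12774 0 0) P.nil)) (P.cons (P.cons (P.lf 0 837 0) P.nil) P.nil)))))) 11346)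
 EL.nil)))
noncomputable def S154_169_216_290_25 : EL := (EL.cons 4 (TM.mk (P.cons (P.cons (P.lf 0 1568915022 0) (P.cons (P.lf 27207441 0 0) (P.cons (P.lf 12843573 0 0) (P.lf 0 611595 0)))) (P.cons (P.cons (P.lf 164424696 0 0) (P.cons (P.lf 0 46881 0) (P.cons (P.lf 0 22131 0) (P.lf 1056 0 0)))) (P.cons (P.cons (P.lf 25151166 0 0) (P.cons (P.lf 0 512001 0) (P.cons (P.lf 0 241695 0) (P.lf 11508 0 0)))) (P.cons (P.cons (P.lf 0 1881012 0) (P.cons (P.lf 0 11121 0) (P.cons (P.lf 0 5244 0) P.nil))) (P.cons (P.cons (P.lf 0 218595 0) (P.cons (P.lf 3828 0 0) P.nil)) (P.cons (P.cons (P.lf 6525 0 0) P.nil) P.nil)))))) 7311)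
 (EL.cons 8 (TM.mk (P.cons (P.cons (P.lf 930733062 0 0) (P.cons (P.lf 0 16140369 0) (P.cons (P.lf 0 7619241 0) (P.lf 362820 0 0)))) (P.cons (P.cons (P.lf 0 201740016 0) (P.cons (P.lf 1834758 0 0) (P.cons (P.lf 866118 0 0) (P.lf 0 41241 0)))) (P.cons (P.cons (P.lf 598665 0 0) (P.cons (P.lf 220863 0 0) (P.cons (P.lf 104262 0 0) (P.lf 0 4962 0)))) (P.cons (P.cons (P.lf 2019654 0 0) (P.cons (P.lf 0 22329 0) (P.cons (P.lf 0 10539 0) P.nil))) (P.cons (P.cons (P.lf 0 23925 0) (P.cons (P.lf 0 1776 0) P.nil)) (P.cons (P.cons (P.lf 0 10767 0) P.nil) P.nil)))))) 4029)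
 (EL.cons 11 (TM.mk (P.cons (P.cons (P.lf 130517016 0 0) (P.cons (P.lf 128695281 0 0) (P.cons (P.lf 0 4026999 0) (P.cons (P.lf 0 737928 0) (P.lf 26352 0 0))))) (P.cons (P.cons (P.lf 0 149919 0) (P.cons (P.lf 0 147828 0) (P.cons (P.lf 4626 0 0) (P.cons (P.lf 846 0 0) (P.lf 0 30 0))))) (P.cons (P.cons (P.lf 0 1637457 0) (P.cons (P.lf 0 1614603 0) (P.cons (P.lf 50523 0 0) (P.cons (P.lf 9258 0 0) P.nil)))) (P.cons (P.cons (P.lf 0 36513 0) (P.cons (P.lf 0 36003 0) (P.cons (P.lf 1125 0 0) P.nil))) (P.cons (P.cons (P.lf 7077 0 0) (P.cons (P.lf 6978 0 0) P.nil)) (P.cons (P.cons (P.lf 339 0 0) P.nil) P.nil)))))) 1923)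
 EL.nil)))
noncomputable def S154_169_216_290_26 : EL := (EL.cons 4 (TM.mk (P.cons (P.cons (P.lf 0 319413093 0) (P.cons (P.lf 19615644 0 0) (P.cons (P.lf 9015672 0 0) (P.cons (P.lf 0 671409 0) (P.cons (P.lf 0 43422 0) (P.cons (P.lf 5178 0 0) P.nil)))))) (P.cons (P.cons (P.lf 0 102136941 0) (P.cons (P.lf 3218658 0 0) (P.cons (P.lf 1479039 0 0) (P.cons (P.lf 0 110454 0) (P.cons (P.lf 0 7179 0) P.nil))))) (P.cons (P.cons (P.lf 21018627 0 0) (P.cons (P.lf 0 517677 0) (P.cons (P.lf 0 241305 0) (P.cons (P.lf 14535 0 0) P.nil)))) (P.cons (P.cons (P.lf 2147346 0 0) (P.cons (P.lf 0 91140 0) (P.cons (P.lf 0 42066 0) P.nil))) (P.cons (P.cons (P.lf 0 281403 0) (P.cons (P.lf 3603 0 0) P.nil)) (P.cons (P.cons (P.lf 0 25953 0) P.nil) P.nil)))))) 18012)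
 (EL.cons 8 (TM.mk (P.cons (P.cons (P.lf 189486570 0 0) (P.cons (P.lf 0 11636658 0) (P.cons (P.lf 0 5348400 0) (P.cons (P.lf 398301 0 0) (P.cons (P.lf 25758 0 0) (P.cons (P.lf 0 3072 0) P.nil)))))) (P.cons (P.cons (P.lf 39377592 0 0) (P.cons (P.lf 0 606663 0) (P.cons (P.lf 0 278649 0) (P.cons (P.lf 20934 0 0) (P.cons (P.lf 1374 0 0) P.nil))))) (P.cons (P.cons (P.lf 0 18315942 0) (P.cons (P.lf 463365 0 0) (P.cons (P.lf 214950 0 0) (P.cons (P.lf 0 13989 0) P.nil)))) (P.cons (P.cons (P.lf 363507 0 0) (P.cons (P.lf 13809 0 0) (P.cons (P.lf 6228 0 0) P.nil))) (P.cons (P.cons (P.lf 232506 0 0) (P.cons (P.lf 0 6276 0) P.nil)) (P.cons (P.cons (P.lf 0 4956 0) P.nil) P.nil)))))) 10185)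
 (EL.cons 11 (TM.mk (P.cons (P.cons (P.lf 26571765 0 0) (P.cons (P.lf 25029864 0 0) (P.cons (P.lf 0 2527314 0) (P.cons (P.lf 0 632853 0) (P.cons (P.lf 54996 0 0) (P.cons (P.lf 2076 0 0) P.nil)))))) (P.cons (P.cons (P.lf 11250945 0 0) (P.cons (P.lf 10899612 0 0) (P.cons (P.lf 0 630438 0) (P.cons (P.lf 0 143685 0) (P.cons (P.lf 10506 0 0) P.nil))))) (P.cons (P.cons (P.lf 0 486567 0) (P.cons (P.lf 0 472509 0) (P.cons (P.lf 25605 0 0) (P.cons (P.lf 5745 0 0) P.nil)))) (P.cons (P.cons (P.lf 0 193146 0) (P.cons (P.lf 0 187248 0) (P.cons (P.lf 10629 0 0) P.nil))) (P.cons (P.cons (P.lf 0 615 0) (P.cons (P.lf 0 483 0) P.nil)) (P.cons (P.cons (P.lf 1356 0 0) P.nil) P.nil)))))) 9012)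
 EL.nil)))
noncomputable def S154_169_216_290_27 : EL := (EL.cons 13 (TM.mk (P.lf 0 4294967296 0) 0)
 EL.nil)
noncomputable def S154_169_216_290_28 : EL := (EL.cons 13 (TM.mk (P.cons (P.cons (P.lf 0 874406056 0) (P.cons (P.lf 38535040 0 0) (P.cons (P.lf 18190896 0 0) (P.lf 0 866232 0)))) (P.cons (P.cons (P.lf 0 371243042 0) (P.cons (P.lf 6437932 0 0) (P.cons (P.lf 3039096 0 0) (P.lf 0 144716 0)))) (P.cons (P.cons (P.lf 4614947 0 0) (P.cons (P.lf 251772 0 0) (P.cons (P.lf 118852 0 0) (P.lf 0 5656 0)))) (P.cons (P.cons (P.lf 1459078 0 0) (P.cons (P.lf 0 13600 0) (P.cons (P.lf 0 6416 0) P.nil))) (P.cons (P.cons (P.lf 23461 0 0) (P.cons (P.lf 0 1256 0) P.nil)) (P.cons (P.cons (P.lf 0 2652 0) P.nil) P.nil)))))) 1717)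
 EL.nil)
noncomputable def S154_169_216_290_29 : EL := (EL.cons 13 (TM.mk (P.cons (P.cons (P.lf 0 178019039 0) (P.cons (P.lf 15690583 0 0) (P.cons (P.lf 7061173 0 0) (P.cons (P.lf 0 679132 0) (P.cons (P.lf 0 61501 0) (P.cons (P.lf 7337 0 0) P.nil)))))) (P.cons (P.cons (P.lf 0 151161646 0) (P.cons (P.lf 9283065 0 0) (P.cons (P.lf 4266650 0 0) (P.cons (P.lf 0 317742 0) (P.cons (P.lf 0 20549 0) P.nil))))) (P.cons (P.cons (P.lf 0 30209943 0) (P.cons (P.lf 1132651 0 0) (P.cons (P.lf 520512 0 0) (P.cons (P.lf 0 38835 0) P.nil)))) (P.cons (P.cons (P.lf 1391905 0 0) (P.cons (P.lf 0 2030 0) (P.cons (P.lf 0 1467 0) P.nil))) (P.cons (P.cons (P.lf 256829 0 0) (P.cons (P.lf 0 8198 0) P.nil)) (P.cons (P.cons (P.lf 0 159 0) P.nil) P.nil)))))) 16632)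
 EL.nil)
noncomputable def S154_169_216_290_30 : EL := (EL.cons 13 (TM.mk (P.cons (P.lf 2709399152 0 0) (P.cons (P.lf 0 152439880 0) (P.cons (P.lf 0 6005424 0) (P.cons (P.lf 1008 0 0) (P.cons (P.lf 5528 0 0) (P.cons (P.lf 124 0 0) P.nil)))))) 64)
 EL.nil)
noncomputable def S154_169_216_290_31 : EL := (EL.cons 13 (TM.mk (P.cons (P.cons (P.lf 551602576 0 0) (P.cons (P.lf 0 24309103 0) (P.cons (P.lf 0 11475383 0) (P.lf 546446 0 0)))) (P.cons (P.cons (P.lf 203156664 0 0) (P.cons (P.lf 0 2693536 0) (P.cons (P.lf 0 1271512 0) (P.lf 60546 0 0)))) (P.cons (P.cons (P.lf 0 17310296 0) (P.cons (P.lf 123555 0 0) (P.cons (P.lf 58325 0 0) (P.lf 0 2779 0)))) (P.cons (P.cons (P.lf 0 1275519 0) (P.cons (P.lf 26508 0 0) (P.cons (P.lf 12510 0 0) P.nil))) (P.cons (P.cons (P.lf 44652 0 0) (P.cons (P.lf 610 0 0) P.nil)) (P.cons (P.cons (P.lf 5047 0 0) P.nil) P.nil)))))) 2254)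
 EL.nil)
noncomputable def S154_169_216_290_32 : EL := (EL.cons 13 (TM.mk (P.cons (P.cons (P.lf 112299954 0 0) (P.cons (P.lf 0 9898108 0) (P.cons (P.lf 0 4454407 0) (P.cons (P.lf 428417 0 0) (P.cons (P.lf 38796 0 0) (P.cons (P.lf 0 4628 0) P.nil)))))) (P.cons (P.cons (P.lf 89039102 0 0) (P.cons (P.lf 0 5299145 0) (P.cons (P.lf 0 2440915 0) (P.cons (P.lf 176337 0 0) (P.cons (P.lf 10780 0 0) P.nil))))) (P.cons (P.cons (P.lf 13443327 0 0) (P.cons (P.lf 0 363091 0) (P.cons (P.lf 0 167047 0) (P.cons (P.lf 12271 0 0) P.nil)))) (P.cons (P.cons (P.lf 0 2161608 0) (P.cons (P.lf 54457 0 0) (P.cons (P.lf 25363 0 0) P.nil))) (P.cons (P.cons (P.lf 0 154589 0) (P.cons (P.lf 6660 0 0) P.nil)) (P.cons (P.cons (P.lf 11368 0 0) P.nil) P.nil)))))) 15656)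
 EL.nil)
noncomputable def S154_169_216_290_33 : EL := (EL.cons 14 (TM.mk (P.lf 8589934592 0 0) 0)
 EL.nil)
noncomputable def S154_169_216_290_34 : EL := (EL.cons 14 (TM.mk (P.cons (P.cons (P.lf 1748812112 0 0) (P.cons (P.lf 0 77070080 0) (P.cons (P.lf 0 36381792 0) (P.lf 1732464 0 0)))) (P.cons (P.cons (P.lf 742486084 0 0) (P.cons (P.lf 0 12875864 0) (P.cons (P.lf 0 6078192 0) (P.lf 289432 0 0)))) (P.cons (P.cons (P.lf 0 9229894 0) (P.cons (P.lf 0 503544 0) (P.cons (P.lf 0 237704 0) (P.lf 11312 0 0)))) (P.cons (P.cons (P.lf 0 2918156 0) (P.cons (P.lf 27200 0 0) (P.cons (P.lf 12832 0 0) P.nil))) (P.cons (P.cons (P.lf 0 46922 0) (P.cons (P.lf 2512 0 0) P.nil)) (P.cons (P.cons (P.lf 5304 0 0) P.nil) P.nil)))))) 3434)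
 EL.nil)
noncomputable def S154_169_216_290_35 : EL := (EL.cons 14 (TM.mk (P.cons (P.cons (P.lf 356038078 0 0) (P.cons (P.lf 0 31381166 0) (P.cons (P.lf 0 14122346 0) (P.cons (P.lf 1358264 0 0) (P.cons (P.lf 123002 0 0) (P.cons (P.lf 0 14674 0) P.nil)))))) (P.cons (P.cons (P.lf 302323292 0 0) (P.cons (P.lf 0 18566130 0) (P.cons (P.lf 0 8533300 0) (P.cons (P.lf 635484 0 0) (P.cons (P.lf 41098 0 0) P.nil))))) (P.cons (P.cons (P.lf 60419886 0 0) (P.cons (P.lf 0 2265302 0) (P.cons (P.lf 0 1041024 0) (P.cons (P.lf 77670 0 0) P.nil)))) (P.cons (P.cons (P.lf 0 2783810 0) (P.cons (P.lf 4060 0 0) (P.cons (P.lf 2934 0 0) P.nil))) (P.cons (P.cons (P.lf 0 513658 0) (P.cons (P.lf 16396 0 0) P.nil)) (P.cons (P.cons (P.lf 318 0 0) P.nil) P.nil)))))) 33264)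
 EL.nil)
noncomputable def S154_169_216_290_36 : EL := (EL.cons 14 (TM.mk (P.cons (P.lf 0 5418798304 0) (P.cons (P.lf 304879760 0 0) (P.cons (P.lf 12010848 0 0) (P.cons (P.lf 0 2016 0) (P.cons (P.lf 0 11056 0) (P.cons (P.lf 0 248 0) P.nil)))))) 128)
 EL.nil)
noncomputable def S154_169_216_290_37 : EL := (EL.cons 14 (TM.mk (P.cons (P.cons (P.lf 0 1103205152 0) (P.cons (P.lf 48618206 0 0) (P.cons (P.lf 22950766 0 0) (P.lf 0 1092892 0)))) (P.cons (P.cons (P.lf 0 406313328 0) (P.cons (P.lf 5387072 0 0) (P.cons (P.lf 2543024 0 0) (P.lf 0 121092 0)))) (P.cons (P.cons (P.lf 34620592 0 0) (P.cons (P.lf 0 247110 0) (P.cons (P.lf 0 116650 0) (P.lf 5558 0 0)))) (P.cons (P.cons (P.lf 2551038 0 0) (P.cons (P.lf 0 53016 0) (P.cons (P.lf 0 25020 0) P.nil))) (P.cons (P.cons (P.lf 0 89304 0) (P.cons (P.lf 0 1220 0) P.nil)) (P.cons (P.cons (P.lf 0 10094 0) P.nil) P.nil))))))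 4508)
 EL.nil)
noncomputable def S154_169_216_290_38 : EL := (EL.cons 14 (TM.mk (P.cons (P.cons (P.lf 0 224599908 0) (P.cons (P.lf 19796216 0 0) (P.cons (P.lf 8908814 0 0) (P.cons (P.lf 0 856834 0) (P.cons (P.lf 0 77592 0) (P.cons (P.lf 9256 0 0) P.nil)))))) (P.cons (P.cons (P.lf 0 178078204 0) (P.cons (P.lf 10598290 0 0) (P.cons (P.lf 4881830 0 0) (P.cons (P.lf 0 352674 0) (P.cons (P.lf 0 21560 0) P.nil))))) (P.cons (P.cons (P.lf 0 26886654 0) (P.cons (P.lf 726182 0 0) (P.cons (P.lf 334094 0 0) (P.cons (P.lf 0 24542 0) P.nil)))) (P.cons (P.cons (P.lf 4323216 0 0) (P.cons (P.lf 0 108914 0) (P.cons (P.lf 0 50726 0) P.nil))) (P.cons (P.cons (P.lf 309178 0 0) (P.cons (P.lf 0 13320 0) P.nil)) (P.cons (P.cons (P.lf 0 22736 0) P.nil) P.nil)))))) 31312)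
 EL.nil)
noncomputable def S154_169_216_290_39 : EL := (EL.cons 14 (TM.mk (P.cons (P.lf 3418346756 0 0) (P.cons (P.lf 0 384655298 0) (P.cons (P.lf 0 4332634 0) (P.cons (P.lf 855136 0 0) (P.cons (P.lf 30598 0 0) (P.cons (P.lf 0 476 0) P.nil)))))) 234)
 EL.nil)
noncomputable def S154_169_216_290_40 : EL := (EL.cons 14 (TM.mk (P.cons (P.cons (P.lf 695936172 0 0) (P.cons (P.lf 0 30669878 0) (P.cons (P.lf 0 14478058 0) (P.lf 689430 0 0)))) (P.cons (P.cons (P.lf 217159400 0 0) (P.cons (P.lf 0 1672742 0) (P.cons (P.lf 0 789634 0) (P.lf 37598 0 0)))) (P.cons (P.cons (P.lf 0 37803448 0) (P.cons (P.lf 415066 0 0) (P.cons (P.lf 195936 0 0) (P.lf 0 9332 0)))) (P.cons (P.cons (P.lf 0 948364 0) (P.cons (P.lf 32194 0 0) (P.cons (P.lf 15194 0 0) P.nil))) (P.cons (P.cons (P.lf 196800 0 0) (P.cons (P.lf 0 1520 0) P.nil)) (P.cons (P.cons (P.lf 7312 0 0) P.nil) P.nil)))))) 4862)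
 EL.nil)
noncomputable def S154_169_216_290_41 : EL := (EL.cons 14 (TM.mk (P.cons (P.cons (P.lf 141684618 0 0) (P.cons (P.lf 0 12488070 0) (P.cons (P.lf 0 5619958 0) (P.cons (P.lf 540518 0 0) (P.cons (P.lf 48948 0 0) (P.cons (P.lf 0 5838 0) P.nil)))))) (P.cons (P.cons (P.lf 104365626 0 0) (P.cons (P.lf 0 5983110 0) (P.cons (P.lf 0 2763412 0) (P.cons (P.lf 192066 0 0) (P.cons (P.lf 10846 0 0) P.nil))))) (P.cons (P.cons (P.lf 10326420 0 0) (P.cons (P.lf 0 54256 0) (P.cons (P.lf 0 25030 0) (P.cons (P.lf 1766 0 0) P.nil)))) (P.cons (P.cons (P.lf 0 3930442 0) (P.cons (P.lf 109294 0 0) (P.cons (P.lf 50682 0 0) P.nil))) (P.cons (P.cons (P.lf 0 78860 0) (P.cons (P.lf 5524 0 0) P.nil)) (P.cons (P.cons (P.lf 31604 0 0) P.nil) P.nil)))))) 25064)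
 EL.nil)
noncomputable def S154_169_216_290_42 : EL := (EL.cons 14 (TM.mk (P.cons (P.lf 0 2156399608 0) (P.cons (P.lf 363978814 0 0) (P.cons (P.lf 0 6139592 0) (P.cons (P.lf 0 1231868 0) (P.cons (P.lf 680 0 0) (P.cons (P.lf 2978 0 0) P.nil)))))) 304)
 EL.nil)
noncomputable def S154_169_216_290_43 : EL := (EL.cons 14 (TM.mk (P.cons (P.cons (P.lf 0 439018214 0) (P.cons (P.lf 19347514 0 0) (P.cons (P.lf 9133210 0 0) (P.lf 0 434914 0)))) (P.cons (P.cons (P.lf 0 112290276 0) (P.cons (P.lf 0 33336 0) (P.cons (P.lf 0 15738 0) (P.lf 750 0 0)))) (P.cons (P.cons (P.lf 32528250 0 0) (P.cons (P.lf 0 364090 0) (P.cons (P.lf 0 171872 0) (P.lf 8186 0 0)))) (P.cons (P.cons (P.lf 0 440008 0) (P.cons (P.lf 0 7908 0) (P.cons (P.lf 0 3730 0) P.nil))) (P.cons (P.cons (P.lf 0 211614 0) (P.cons (P.lf 2722 0 0) P.nil)) (P.cons (P.cons (P.lf 754 0 0) P.nil) P.nil)))))) 4964)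
 EL.nil)
noncomputable def S154_169_216_290_44 : EL := (EL.cons 14 (TM.mk (P.cons (P.cons (P.lf 0 89379070 0) (P.cons (P.lf 7877862 0 0) (P.cons (P.lf 3545244 0 0) (P.cons (P.lf 0 340974 0) (P.cons (P.lf 0 30878 0) (P.cons (P.lf 3682 0 0) P.nil)))))) (P.cons (P.cons (P.lf 0 60808322 0) (P.cons (P.lf 3331098 0 0) (P.cons (P.lf 1543780 0 0) (P.cons (P.lf 0 101976 0) (P.cons (P.lf 0 5104 0) P.nil))))) (P.cons (P.cons (P.lf 0 2611902 0) (P.cons (P.lf 0 195590 0) (P.cons (P.lf 0 90148 0) (P.cons (P.lf 6458 0 0) P.nil)))) (P.cons (P.cons (P.lf 2991854 0 0) (P.cons (P.lf 0 79234 0) (P.cons (P.lf 0 36722 0) P.nil))) (P.cons (P.cons (P.lf 0 75522 0) (P.cons (P.lf 334 0 0) P.nil)) (P.cons (P.cons (P.lf 0 28372 0) P.nil) P.nil)))))) 20772)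
 EL.nil)
noncomputable def S154_169_216_290_45 : EL := (EL.cons 14 (TM.mk (P.cons (P.cons (P.lf 72485266 0 0) (P.cons (P.lf 0 9583268 0) (P.cons (P.lf 0 4101554 0) (P.cons (P.lf 607952 0 0) (P.cons (P.lf 66338 0 0) (P.cons (P.lf 0 12692 0) P.nil)))))) (P.cons (P.cons (P.lf 92324328 0 0) (P.cons (P.lf 0 9738506 0) (P.cons (P.lf 0 4276744 0) (P.cons (P.lf 518322 0 0) (P.cons (P.lf 52594 0 0) P.nil))))) (P.cons (P.cons (P.lf 38050076 0 0) (P.cons (P.lf 0 3048398 0) (P.cons (P.lf 0 1364040 0) (P.cons (P.lf 138682 0 0) P.nil)))) (P.cons (P.cons (P.lf 4209946 0 0) (P.cons (P.lf 0 246552 0) (P.cons (P.lf 0 109866 0) P.nil))) (P.cons (P.cons (P.lf 0 514768 0) (P.cons (P.lf 18902 0 0) P.nil)) (P.cons (P.cons (P.lf 0 63300 0) P.nil) P.nil)))))) 74162)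
 EL.nil)
noncomputable def S154_169_216_290_46 : EL := (EL.cons 15 (TM.mk (P.lf 4294967296 0 0) 0)
 EL.nil)
noncomputable def S154_169_216_290_47 : EL := (EL.cons 15 (TM.mk (P.cons (P.cons (P.lf 874406056 0 0) (P.cons (P.lf 0 38535040 0) (P.cons (P.lf 0 18190896 0) (P.lf 866232 0 0)))) (P.cons (P.cons (P.lf 371243042 0 0) (P.cons (P.lf 0 6437932 0) (P.cons (P.lf 0 3039096 0) (P.lf 144716 0 0)))) (P.cons (P.cons (P.lf 0 4614947 0) (P.cons (P.lf 0 251772 0) (P.cons (P.lf 0 118852 0) (P.lf 5656 0 0)))) (P.cons (P.cons (P.lf 0 1459078 0) (P.cons (P.lf 13600 0 0) (P.cons (P.lf 6416 0 0) P.nil))) (P.cons (P.cons (P.lf 0 23461 0) (P.cons (P.lf 1256 0 0) P.nil)) (P.cons (P.cons (P.lf 2652 0 0) P.nil) P.nil)))))) 1717)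
 EL.nil)
noncomputable def S154_169_216_290_48 : EL := (EL.cons 15 (TM.mk (P.cons (P.cons (P.lf 178019039 0 0) (P.cons (P.lf 0 15690583 0) (P.cons (P.lf 0 7061173 0) (P.cons (P.lf 679132 0 0) (P.cons (P.lf 61501 0 0) (P.cons (P.lf 0 7337 0) P.nil)))))) (P.cons (P.cons (P.lf 151161646 0 0) (P.cons (P.lf 0 9283065 0) (P.cons (P.lf 0 4266650 0) (P.cons (P.lf 317742 0 0) (P.cons (P.lf 20549 0 0) P.nil))))) (P.cons (P.cons (P.lf 30209943 0 0) (P.cons (P.lf 0 1132651 0) (P.cons (P.lf 0 520512 0) (P.cons (P.lf 38835 0 0) P.nil)))) (P.cons (P.cons (P.lf 0 1391905 0) (P.cons (P.lf 2030 0 0) (P.cons (P.lf 1467 0 0) P.nil))) (P.cons (P.cons (P.lf 0 256829 0) (P.cons (P.lf 8198 0 0) P.nil)) (P.cons (P.cons (P.lf 159 0 0) P.nil) P.nil)))))) 16632)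
 EL.nil)
noncomputable def S154_169_216_290 : SL := (SL.cons S154_169_216_290_0 (SL.cons S154_169_216_290_1 (SL.cons S154_169_216_290_2 (SL.cons S154_169_216_290_3 (SL.cons S154_169_216_290_4 (SL.cons S154_169_216_290_5 (SL.cons S154_169_216_290_6 (SL.cons S154_169_216_290_7 (SL.cons S154_169_216_290_8 (SL.cons S154_169_216_290_9 (SL.cons S154_169_216_290_10 (SL.cons S154_169_216_290_11 (SL.cons S154_169_216_290_12 (SL.cons S154_169_216_290_13 (SL.cons S154_169_216_290_14 (SL.cons S154_169_216_290_15 (SL.cons S154_169_216_290_16 (SL.cons S154_169_216_290_17 (SL.cons S154_169_216_290_18 (SL.cons S154_169_216_290_19 (SL.cons S154_169_216_290_20 (SL.cons S154_169_216_290_21 (SL.cons S154_169_216_290_22 (SL.cons S154_169_216_290_23 (SL.cons S154_169_216_290_24 (SL.cons S154_169_216_290_25 (SL.cons S154_169_216_290_26 (SL.cons S154_169_216_290_27 (SL.cons S154_169_216_290_28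 (SL.cons S154_169_216_290_29 (SL.cons S154_169_216_290_30 (SL.cons S154_169_216_290_31 (SL.cons S154_169_216_290_32 (SL.cons S154_169_216_290_33 (SL.cons S154_169_216_290_34 (SL.cons S154_169_216_290_35 (SL.cons S154_169_216_290_36 (SL.cons S154_169_216_290_37 (SL.cons S154_169_216_290_38 (SL.cons S154_169_216_290_39 (SL.cons S154_169_216_290_40 (SL.cons S154_169_216_290_41 (SL.cons S154_169_216_290_42 (SL.cons S154_169_216_290_43 (SL.cons S154_169_216_290_44 (SL.cons S154_169_216_290_45 (SL.cons S154_169_216_290_46 (SL.cons S154_169_216_290_47 (SL.cons S154_169_216_290_48 SL.nil)))))))))))))))))))))))))))))))))))))))))))))))))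
noncomputable def S154_169_216_364_0 : EL := (EL.cons 0 (TM.mk (P.cons (P.lf 5451310535 0 0) (P.cons (P.lf 338075945 0 0) (P.cons (P.lf 3807979 0 0) (P.cons (P.lf 0 751584 0) (P.cons (P.lf 0 26892 0) (P.cons (P.lf 418 0 0) P.nil)))))) 212)
 (EL.cons 1 (TM.mk (P.cons (P.lf 0 1800696082 0) (P.cons (P.lf 1034199 0 0) (P.cons (P.lf 11296008 0 0) (P.cons (P.lf 258390 0 0) (P.cons (P.lf 0 13243 0) (P.cons (P.lf 0 742 0) P.nil)))))) 140)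
 (EL.cons 5 (TM.mk (P.cons (P.lf 5363200660 0 0) (P.cons (P.lf 0 120204780 0) (P.cons (P.lf 0 1353950 0) (P.cons (P.lf 267230 0 0) (P.cons (P.lf 9562 0 0) (P.cons (P.lf 0 146 0) P.nil)))))) 103)
 (EL.cons 9 (TM.mk (P.lf 6442450944 0 0) 2)
 EL.nil))))
noncomputable def S154_169_216_364_1 : EL := (EL.cons 0 (TM.mk (P.cons (P.cons (P.lf 0 3507087897 0) (P.cons (P.lf 119949964 0 0) (P.cons (P.lf 51723773 0 0) (P.lf 0 5747077 0)))) (P.cons (P.cons (P.lf 756518675 0 0) (P.cons (P.lf 0 25500174 0) (P.cons (P.lf 0 10995973 0) (P.lf 1221783 0 0)))) (P.cons (P.cons (P.lf 98461064 0 0) (P.cons (P.lf 0 7337435 0) (P.cons (P.lf 0 3163979 0) (P.lf 351547 0 0)))) (P.cons (P.cons (P.lf 0 2910759 0) (P.cons (P.lf 0 324323 0) (P.cons (P.lf 0 139845 0) P.nil))) (P.cons (P.cons (P.lf 0 719104 0) (P.cons (P.lf 29340 0 0) P.nil)) (P.cons (P.cons (P.lf 0 11397 0) P.nil) P.nil))))))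 85431)
 (EL.cons 1 (TM.mk (P.cons (P.cons (P.lf 0 357088052 0) (P.cons (P.lf 61568311 0 0) (P.cons (P.lf 26548946 0 0) (P.lf 0 2949878 0)))) (P.cons (P.cons (P.lf 0 454299979 0) (P.cons (P.lf 30409078 0 0) (P.cons (P.lf 13112732 0 0) (P.lf 0 1456963 0)))) (P.cons (P.cons (P.lf 16416086 0 0) (P.cons (P.lf 1348207 0 0) (P.cons (P.lf 581358 0 0) (P.lf 0 64592 0)))) (P.cons (P.cons (P.lf 5600542 0 0) (P.cons (P.lf 0 273327 0) (P.cons (P.lf 0 117857 0) P.nil))) (P.cons (P.cons (P.lf 36494 0 0) (P.cons (P.lf 0 22633 0) P.nil)) (P.cons (P.cons (P.lf 0 24657 0) P.nil) P.nil)))))) 45442)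
 (EL.cons 5 (TM.mk (P.cons (P.cons (P.lf 2638493388 0 0) (P.cons (P.lf 0 288530554 0) (P.cons (P.lf 0 124417630 0) (P.lf 13824178 0 0)))) (P.cons (P.cons (P.lf 346263829 0 0) (P.cons (P.lf 0 32012004 0) (P.cons (P.lf 0 13803936 0) (P.lf 1533770 0 0)))) (P.cons (P.cons (P.lf 0 43474232 0) (P.cons (P.lf 1002350 0 0) (P.cons (P.lf 432224 0 0) (P.lf 0 48020 0)))) (P.cons (P.cons (P.lf 0 1411987 0) (P.cons (P.lf 202102 0 0) (P.cons (P.lf 87146 0 0) P.nil))) (P.cons (P.cons (P.lf 218898 0 0) (P.cons (P.lf 0 2390 0) P.nil)) (P.cons (P.cons (P.lf 8590 0 0) P.nil) P.nil)))))) 38586)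
 (EL.cons 9 (TM.mk (P.cons (P.cons (P.lf 1227819522 0 0) (P.cons (P.lf 0 216954420 0) (P.cons (P.lf 0 93553194 0) (P.lf 10394796 0 0)))) (P.cons (P.cons (P.lf 542866089 0 0) (P.cons (P.lf 0 36245934 0) (P.cons (P.lf 0 15629652 0) (P.lf 1736628 0 0)))) (P.cons (P.cons (P.lf 0 7469872 0) (P.cons (P.lf 0 1417506 0) (P.cons (P.lf 0 611244 0) (P.lf 67914 0 0)))) (P.cons (P.cons (P.lf 0 2159043 0) (P.cons (P.lf 76572 0 0) (P.cons (P.lf 33018 0 0) P.nil))) (P.cons (P.cons (P.lf 0 32455 0) (P.cons (P.lf 7086 0 0) P.nil)) (P.cons (P.cons (P.lf 4002 0 0) P.nil) P.nil)))))) 9818)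
 (EL.cons 2 (TM.mk (P.cons (P.cons (P.lf 378182207 0 0) (P.cons (P.lf 352311713 0 0) (P.cons (P.lf 0 36158641 0) (P.cons (P.lf 0 7519989 0) (P.lf 626661 0 0))))) (P.cons (P.cons (P.lf 20843392 0 0) (P.cons (P.lf 19417547 0 0) (P.cons (P.lf 0 1992870 0) (P.cons (P.lf 0 414461 0) (P.lf 34537 0 0))))) (P.cons (P.cons (P.lf 0 2733685 0) (P.cons (P.lf 0 2546679 0) (P.cons (P.lf 261371 0 0) (P.cons (P.lf 54357 0 0) P.nil)))) (P.cons (P.cons (P.lf 0 213553 0) (P.cons (P.lf 0 198945 0) (P.cons (P.lf 20415 0 0) P.nil))) (P.cons (P.cons (P.lf 1653 0 0) (P.cons (P.lf 1538 0 0) P.nil)) (P.cons (P.cons (P.lf 548 0 0) P.nil) P.nil)))))) 12772)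
 (EL.cons 6 (TM.mk (P.cons (P.cons (P.lf 226664154 0 0) (P.cons (P.lf 211158630 0 0) (P.cons (P.lf 0 21671742 0) (P.cons (P.lf 0 4507119 0) (P.lf 375591 0 0))))) (P.cons (P.cons (P.lf 37868112 0 0) (P.cons (P.lf 35277648 0 0) (P.cons (P.lf 0 3620634 0) (P.cons (P.lf 0 752988 0) (P.lf 62748 0 0))))) (P.cons (P.cons (P.lf 1480953 0 0) (P.cons (P.lf 1379643 0 0) (P.cons (P.lf 0 141594 0) (P.cons (P.lf 0 29445 0) P.nil)))) (P.cons (P.cons (P.lf 0 80004 0) (P.cons (P.lf 0 74532 0) (P.cons (P.lf 7647 0 0) P.nil))) (P.cons (P.cons (P.lf 0 7410 0) (P.cons (P.lf 0 6903 0) P.nil)) (P.cons (P.cons (P.lf 0 60 0) P.nil) P.nil)))))) 6858)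
 EL.nil))))))
noncomputable def S154_169_216_364_2 : EL := (EL.cons 0 (TM.mk (P.cons (P.cons (P.lf 0 1534781533 0) (P.cons (P.lf 351901645 0 0) (P.cons (P.lf 137483048 0 0) (P.cons (P.lf 0 29159357 0) (P.cons (P.lf 0 1285167 0) (P.cons (P.lf 589267 0 0) P.nil)))))) (P.cons (P.cons (P.lf 0 490050476 0) (P.cons (P.lf 45972563 0 0) (P.cons (P.lf 17742599 0 0) (P.cons (P.lf 0 3997580 0) (P.cons (P.lf 0 187558 0) P.nil))))) (P.cons (P.cons (P.lf 125863061 0 0) (P.cons (P.lf 0 13080403 0) (P.cons (P.lf 0 5297834 0) (P.cons (P.lf 922154 0 0) P.nil)))) (P.cons (P.cons (P.lf 15495739 0 0) (P.cons (P.lf 0 2383667 0) (P.cons (P.lf 0 934810 0) P.nil))) (P.cons (P.cons (P.lf 0 1044661 0) (P.cons (P.lf 0 4464 0) P.nil)) (P.cons (P.cons (P.lf 0 171272 0) P.nil) P.nil)))))) 1359735)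
 (EL.cons 1 (TM.mk (P.cons (P.cons (P.lf 0 70705144 0) (P.cons (P.lf 24404334 0 0) (P.cons (P.lf 8418799 0 0) (P.cons (P.lf 0 2984342 0) (P.cons (P.lf 0 189661 0) (P.cons (P.lf 86964 0 0) P.nil)))))) (P.cons (P.cons (P.lf 0 175544615 0) (P.cons (P.lf 42514918 0 0) (P.cons (P.lf 16273188 0 0) (P.cons (P.lf 0 3813335 0) (P.cons (P.lf 0 185618 0) P.nil))))) (P.cons (P.cons (P.lf 0 57930523 0) (P.cons (P.lf 8094604 0 0) (P.cons (P.lf 3100889 0 0) (P.cons (P.lf 0 723810 0) P.nil)))) (P.cons (P.cons (P.lf 5233176 0 0) (P.cons (P.lf 0 261090 0) (P.cons (P.lf 0 122868 0) P.nil))) (P.cons (P.cons (P.lf 1042344 0 0) (P.cons (P.lf 0 137793 0) P.nil)) (P.cons (P.cons (P.lf 0 20369 0) P.nil) P.nil)))))) 613828)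
 (EL.cons 5 (TM.mk (P.cons (P.cons (P.lf 810901370 0 0) (P.cons (P.lf 0 218842155 0) (P.cons (P.lf 0 81016406 0) (P.cons (P.lf 21999264 0 0) (P.cons (P.lf 1203148 0 0) (P.cons (P.lf 0 551657 0) P.nil)))))) (P.cons (P.cons (P.lf 408751480 0 0) (P.cons (P.lf 0 73441481 0) (P.cons (P.lf 0 28162070 0) (P.cons (P.lf 6543024 0 0) (P.cons (P.lf 316011 0 0) P.nil))))) (P.cons (P.cons (P.lf 3865022 0 0) (P.cons (P.lf 0 2314266 0) (P.cons (P.lf 0 780429 0) (P.cons (P.lf 298467 0 0) P.nil)))) (P.cons (P.cons (P.lf 0 7869005 0) (P.cons (P.lf 869928 0 0) (P.cons (P.lf 354256 0 0) P.nil))) (P.cons (P.cons (P.lf 0 45151 0) (P.cons (P.lf 53006 0 0) P.nil)) (P.cons (P.cons (P.lf 62100 0 0) P.nil) P.nil)))))) 671845)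
 (EL.cons 9 (TM.mk (P.cons (P.cons (P.lf 234001126 0 0) (P.cons (P.lf 0 82695505 0) (P.cons (P.lf 0 28353130 0) (P.cons (P.lf 10263084 0 0) (P.cons (P.lf 658414 0 0) (P.cons (P.lf 0 301893 0) P.nil)))))) (P.cons (P.cons (P.lf 206921740 0 0) (P.cons (P.lf 0 50378547 0) (P.cons (P.lf 0 19282578 0) (P.cons (P.lf 4519116 0 0) (P.cons (P.lf 219997 0 0) P.nil))))) (P.cons (P.cons (P.lf 42896760 0 0) (P.cons (P.lf 0 6145644 0) (P.cons (P.lf 0 2350675 0) (P.cons (P.lf 552655 0 0) P.nil)))) (P.cons (P.cons (P.lf 0 2081833 0) (P.cons (P.lf 19764 0 0) (P.cons (P.lf 19314 0 0) P.nil))) (P.cons (P.cons (P.lf 0 367567 0) (P.cons (P.lf 45372 0 0) P.nil)) (P.cons (P.cons (P.lf 1062 0 0) P.nil) P.nil)))))) 303149)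
 (EL.cons 2 (TM.mk (P.cons (P.cons (P.lf 144149951 0 0) (P.cons (P.lf 108817869 0 0) (P.cons (P.lf 0 48494593 0) (P.cons (P.lf 0 9442732 0) (P.cons (P.lf 2932385 0 0) (P.cons (P.lf 59506 0 0) P.nil)))))) (P.cons (P.cons (P.lf 71678998 0 0) (P.cons (P.lf 61116395 0 0) (P.cons (P.lf 0 14565757 0) (P.cons (P.lf 0 2886451 0) (P.cons (P.lf 717226 0 0) P.nil))))) (P.cons (P.cons (P.lf 1593714 0 0) (P.cons (P.lf 1267858 0 0) (P.cons (P.lf 0 447879 0) (P.cons (P.lf 0 87671 0) P.nil)))) (P.cons (P.cons (P.lf 0 843913 0) (P.cons (P.lf 0 741223 0) (P.cons (P.lf 141958 0 0) P.nil))) (P.cons (P.cons (P.lf 0 46800 0) (P.cons (P.lf 0 38773 0) P.nil)) (P.cons (P.cons (P.lf 3071 0 0) P.nil) P.nil)))))) 298017)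
 (EL.cons 6 (TM.mk (P.cons (P.cons (P.lf 86396520 0 0) (P.cons (P.lf 65220174 0 0) (P.cons (P.lf 0 29065314 0) (P.cons (P.lf 0 5659512 0) (P.cons (P.lf 1757532 0 0) (P.cons (P.lf 35664 0 0) P.nil)))))) (P.cons (P.cons (P.lf 52633224 0 0) (P.cons (P.lf 43931766 0 0) (P.cons (P.lf 0 11983938 0) (P.cons (P.lf 0 2363592 0) (P.cons (P.lf 626628 0 0) P.nil))))) (P.cons (P.cons (P.lf 6420690 0 0) (P.cons (P.lf 5355882 0 0) (P.cons (P.lf 0 1466442 0) (P.cons (P.lf 0 289188 0) P.nil)))) (P.cons (P.cons (P.lf 0 20646 0) (P.cons (P.lf 0 41784 0) (P.cons (P.lf 0 28758 0) P.nil))) (P.cons (P.cons (P.lf 0 47406 0) (P.cons (P.lf 0 42012 0) P.nil)) (P.cons (P.cons (P.lf 0 2178 0) P.nil) P.nil)))))) 247440)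
 EL.nil))))))
noncomputable def S154_169_216_364_3 : EL := (EL.cons 0 (TM.mk (P.cons (P.lf 3004406328 0 0) (P.cons (P.lf 0 338075945 0) (P.cons (P.lf 0 3807979 0) (P.cons (P.lf 751584 0 0) (P.cons (P.lf 26892 0 0) (P.cons (P.lf 0 418 0) P.nil)))))) 212)
 (EL.cons 1 (TM.mk (P.cons (P.lf 1800696082 0 0) (P.cons (P.lf 0 1034199 0) (P.cons (P.lf 0 11296008 0) (P.cons (P.lf 0 258390 0) (P.cons (P.lf 13243 0 0) (P.cons (P.lf 742 0 0) P.nil)))))) 140)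
 (EL.cons 5 (TM.mk (P.cons (P.lf 1079250284 0 0) (P.cons (P.lf 120204780 0 0) (P.cons (P.lf 1353950 0 0) (P.cons (P.lf 0 267230 0) (P.cons (P.lf 0 9562 0) (P.cons (P.lf 146 0 0) P.nil)))))) 96)
 EL.nil)))
noncomputable def S154_169_216_364_4 : EL := (EL.cons 0 (TM.mk (P.cons (P.cons (P.lf 572587788 0 0) (P.cons (P.lf 0 101175660 0) (P.cons (P.lf 0 43628085 0) (P.lf 4847563 0 0)))) (P.cons (P.cons (P.lf 188731597 0 0) (P.cons (P.lf 0 5518154 0) (P.cons (P.lf 0 2379487 0) (P.lf 264387 0 0)))) (P.cons (P.cons (P.lf 0 32696873 0) (P.cons (P.lf 1369241 0 0) (P.cons (P.lf 590431 0 0) (P.lf 0 65603 0)))) (P.cons (P.cons (P.lf 0 792502 0) (P.cons (P.lf 106207 0 0) (P.cons (P.lf 45796 0 0) P.nil))) (P.cons (P.cons (P.lf 171033 0 0) (P.cons (P.lf 0 5009 0) P.nil)) (P.cons (P.cons (P.lf 6159 0 0) P.nil) P.nil)))))) 17129)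
 (EL.cons 1 (TM.mk (P.cons (P.cons (P.lf 343181471 0 0) (P.cons (P.lf 0 60639804 0) (P.cons (P.lf 0 26148568 0) (P.lf 2905395 0 0)))) (P.cons (P.cons (P.lf 151536586 0 0) (P.cons (P.lf 0 10096083 0) (P.cons (P.lf 0 4353543 0) (P.lf 483725 0 0)))) (P.cons (P.cons (P.lf 0 4327833 0) (P.cons (P.lf 0 9978 0) (P.cons (P.lf 0 4303 0) (P.lf 476 0 0)))) (P.cons (P.cons (P.lf 0 1603353 0) (P.cons (P.lf 93883 0 0) (P.cons (P.lf 40481 0 0) P.nil))) (P.cons (P.cons (P.lf 0 14876 0) (P.cons (P.lf 5460 0 0) P.nil)) (P.cons (P.cons (P.lf 6465 0 0) P.nil) P.nil)))))) 10655)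
 (EL.cons 5 (TM.mk (P.cons (P.cons (P.lf 205686402 0 0) (P.cons (P.lf 0 36344570 0) (P.cons (P.lf 0 15672188 0) (P.lf 1741352 0 0)))) (P.cons (P.cons (P.lf 113850794 0 0) (P.cons (P.lf 0 10119966 0) (P.cons (P.lf 0 4363842 0) (P.lf 484870 0 0)))) (P.cons (P.cons (P.lf 9135598 0 0) (P.cons (P.lf 0 959342 0) (P.cons (P.lf 0 413678 0) (P.lf 45962 0 0)))) (P.cons (P.cons (P.lf 0 437900 0) (P.cons (P.lf 0 12238 0) (P.cons (P.lf 0 5276 0) P.nil))) (P.cons (P.cons (P.lf 0 71630 0) (P.cons (P.lf 4142 0 0) P.nil)) (P.cons (P.cons (P.lf 0 856 0) P.nil) P.nil)))))) 6880)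
 EL.nil)))
noncomputable def S154_169_216_364_5 : EL := (EL.cons 0 (TM.mk (P.cons (P.cons (P.lf 109125311 0 0) (P.cons (P.lf 0 38564653 0) (P.cons (P.lf 0 13222346 0) (P.cons (P.lf 4786140 0 0) (P.cons (P.lf 307047 0 0) (P.cons (P.lf 0 140784 0) P.nil)))))) (P.cons (P.cons (P.lf 84217456 0 0) (P.cons (P.lf 0 19154241 0) (P.cons (P.lf 0 7504470 0) (P.cons (P.lf 1568898 0 0) (P.cons (P.lf 68043 0 0) P.nil))))) (P.cons (P.cons (P.lf 9007901 0 0) (P.cons (P.lf 0 173432 0) (P.cons (P.lf 0 67587 0) (P.cons (P.lf 14514 0 0) P.nil)))) (P.cons (P.cons (P.lf 0 3316923 0) (P.cons (P.lf 351847 0 0) (P.cons (P.lf 140450 0 0) P.nil))) (P.cons (P.cons (P.lf 0 62404 0) (P.cons (P.lf 17530 0 0) P.nil)) (P.cons (P.cons (P.lf 26866 0 0) P.nil) P.nil)))))) 228954)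
 (EL.cons 1 (TM.mk (P.cons (P.cons (P.lf 65404440 0 0) (P.cons (P.lf 0 23113790 0) (P.cons (P.lf 0 7924835 0) (P.cons (P.lf 2868581 0 0) (P.cons (P.lf 184029 0 0) (P.cons (P.lf 0 84378 0) P.nil)))))) (P.cons (P.cons (P.lf 57798058 0 0) (P.cons (P.lf 0 14067770 0) (P.cons (P.lf 0 5385020 0) (P.cons (P.lf 1261466 0 0) (P.cons (P.lf 61383 0 0) P.nil))))) (P.cons (P.cons (P.lf 11546341 0 0) (P.cons (P.lf 0 1564651 0) (P.cons (P.lf 0 604215 0) (P.cons (P.lf 135748 0 0) P.nil)))) (P.cons (P.cons (P.lf 0 960963 0) (P.cons (P.lf 98158 0 0) (P.cons (P.lf 40721 0 0) P.nil))) (P.cons (P.cons (P.lf 0 185433 0) (P.cons (P.lf 25303 0 0) P.nil)) (P.cons (P.cons (P.lf 2737 0 0) P.nil) P.nil)))))) 138920)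
 (EL.cons 5 (TM.mk (P.cons (P.cons (P.lf 39200264 0 0) (P.cons (P.lf 0 13853290 0) (P.cons (P.lf 0 4749764 0) (P.cons (P.lf 1719288 0 0) (P.cons (P.lf 110298 0 0) (P.cons (P.lf 0 50572 0) P.nil)))))) (P.cons (P.cons (P.lf 39029928 0 0) (P.cons (P.lf 0 9982450 0) (P.cons (P.lf 0 3759268 0) (P.cons (P.lf 948540 0 0) (P.cons (P.lf 49138 0 0) P.nil))))) (P.cons (P.cons (P.lf 11096110 0 0) (P.cons (P.lf 0 1986882 0) (P.cons (P.lf 0 759526 0) (P.cons (P.lf 179056 0 0) P.nil)))) (P.cons (P.cons (P.lf 485404 0 0) (P.cons (P.lf 0 118512 0) (P.cons (P.lf 0 43498 0) P.nil))) (P.cons (P.cons (P.lf 0 100332 0) (P.cons (P.lf 8890 0 0) P.nil)) (P.cons (P.cons (P.lf 0 9198 0) P.nil) P.nil)))))) 86744)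
 EL.nil)))
noncomputable def S154_169_216_364_6 : EL := (EL.cons 12 (TM.mk (P.lf 8589934592 0 0) 0)
 (EL.cons 3 (TM.mk (P.cons (P.lf 0 2540061705 0) (P.cons (P.lf 142912387 0 0) (P.cons (P.lf 5630085 0 0) (P.cons (P.lf 0 945 0) (P.cons (P.lf 0 5182 0) (P.cons (P.lf 0 116 0) P.nil)))))) 67)
 (EL.cons 7 (TM.mk (P.cons (P.lf 0 1522390337 0) (P.cons (P.lf 0 84780425 0) (P.cons (P.lf 1405728 0 0) (P.cons (P.lf 110195 0 0) (P.cons (P.lf 1257 0 0) (P.cons (P.lf 0 72 0) P.nil)))))) 47)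
 EL.nil)))
noncomputable def S154_169_216_364_7 : EL := (EL.cons 12 (TM.mk (P.cons (P.cons (P.lf 1637092696 0 0) (P.cons (P.lf 0 289272560 0) (P.cons (P.lf 0 124737592 0) (P.lf 13859728 0 0)))) (P.cons (P.cons (P.lf 723821452 0 0) (P.cons (P.lf 0 48327912 0) (P.cons (P.lf 0 20839536 0) (P.lf 2315504 0 0)))) (P.cons (P.cons (P.lf 0 9959830 0) (P.cons (P.lf 0 1890008 0) (P.cons (P.lf 0 814992 0) (P.lf 90552 0 0)))) (P.cons (P.cons (P.lf 0 2878724 0) (P.cons (P.lf 102096 0 0) (P.cons (P.lf 44024 0 0) P.nil))) (P.cons (P.cons (P.lf 0 43274 0) (P.cons (P.lf 9448 0 0) P.nil)) (P.cons (P.cons (P.lf 5336 0 0) P.nil) P.nil)))))) 13066)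
 (EL.cons 3 (TM.mk (P.cons (P.cons (P.lf 3359314521 0 0) (P.cons (P.lf 0 171077006 0) (P.cons (P.lf 0 73770334 0) (P.lf 8196700 0 0)))) (P.cons (P.cons (P.lf 0 167323715 0) (P.cons (P.lf 0 18955962 0) (P.cons (P.lf 0 8174020 0) (P.lf 908222 0 0)))) (P.cons (P.cons (P.lf 0 38213759 0) (P.cons (P.lf 869516 0 0) (P.cons (P.lf 374944 0 0) (P.lf 0 41660 0)))) (P.cons (P.cons (P.lf 0 1117011 0) (P.cons (P.lf 186554 0 0) (P.cons (P.lf 80442 0 0) P.nil))) (P.cons (P.cons (P.lf 128413 0 0) (P.cons (P.lf 4306 0 0) P.nil)) (P.cons (P.cons (P.lf 8616 0 0) P.nil) P.nil)))))) 36509)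
 (EL.cons 7 (TM.mk (P.cons (P.cons (P.lf 0 2570178845 0) (P.cons (P.lf 203500587 0 0) (P.cons (P.lf 87751751 0 0) (P.lf 0 9750196 0)))) (P.cons (P.cons (P.lf 99262035 0 0) (P.cons (P.lf 11245318 0 0) (P.cons (P.lf 4849110 0 0) (P.lf 0 538791 0)))) (P.cons (P.cons (P.lf 17113376 0 0) (P.cons (P.lf 0 1145292 0) (P.cons (P.lf 0 493861 0) (P.lf 54873 0 0)))) (P.cons (P.cons (P.lf 0 865802 0) (P.cons (P.lf 0 53654 0) (P.cons (P.lf 0 23135 0) P.nil))) (P.cons (P.cons (P.lf 0 83398 0) (P.cons (P.lf 4597 0 0) P.nil)) (P.cons (P.cons (P.lf 1225 0 0) P.nil) P.nil)))))) 25871)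
 (EL.cons 10 (TM.mk (P.cons (P.cons (P.lf 0 639464868 0) (P.cons (P.lf 0 595720683 0) (P.cons (P.lf 61140321 0 0) (P.cons (P.lf 12715485 0 0) (P.lf 0 1059621 0))))) (P.cons (P.cons (P.lf 0 71222343 0) (P.cons (P.lf 0 66350199 0) (P.cons (P.lf 6809688 0 0) (P.cons (P.lf 1416225 0 0) (P.lf 0 118017 0))))) (P.cons (P.cons (P.lf 0 802224 0) (P.cons (P.lf 0 747348 0) (P.cons (P.lf 76701 0 0) (P.cons (P.lf 15951 0 0) P.nil)))) (P.cons (P.cons (P.lf 158334 0 0) (P.cons (P.lf 147504 0 0) (P.cons (P.lf 0 15138 0) P.nil))) (P.cons (P.cons (P.lf 5664 0 0) (P.cons (P.lf 5277 0 0) P.nil)) (P.cons (P.cons (P.lf 0 84 0) P.nil) P.nil)))))) 5712)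
 EL.nil))))
noncomputable def S154_169_216_364_8 : EL := (EL.cons 12 (TM.mk (P.cons (P.cons (P.lf 312001502 0 0) (P.cons (P.lf 0 110260674 0) (P.cons (P.lf 0 37804174 0) (P.cons (P.lf 13684112 0 0) (P.cons (P.lf 877886 0 0) (P.cons (P.lf 0 402524 0) P.nil)))))) (P.cons (P.cons (P.lf 275895654 0 0) (P.cons (P.lf 0 67171396 0) (P.cons (P.lf 0 25710104 0) (P.cons (P.lf 6025488 0 0) (P.cons (P.lf 293330 0 0) P.nil))))) (P.cons (P.cons (P.lf 57195680 0 0) (P.cons (P.lf 0 8194192 0) (P.cons (P.lf 0 3134234 0) (P.cons (P.lf 736874 0 0) P.nil)))) (P.cons (P.cons (P.lf 0 2775778 0) (P.cons (P.lf 26352 0 0) (P.cons (P.lf 25752 0 0) P.nil))) (P.cons (P.cons (P.lf 0 490090 0) (P.cons (P.lf 60496 0 0) P.nil)) (P.cons (P.cons (P.lf 1416 0 0) P.nil) P.nil)))))) 404170)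
 (EL.cons 3 (TM.mk (P.cons (P.cons (P.lf 1372713780 0 0) (P.cons (P.lf 0 324067866 0) (P.cons (P.lf 0 125338849 0) (P.cons (P.lf 27948208 0 0) (P.cons (P.lf 1297961 0 0) (P.cons (P.lf 0 595136 0) P.nil)))))) (P.cons (P.cons (P.lf 578752027 0 0) (P.cons (P.lf 0 80615120 0) (P.cons (P.lf 0 30760005 0) (P.cons (P.lf 7313989 0 0) (P.cons (P.lf 360666 0 0) P.nil))))) (P.cons (P.cons (P.lf 0 38436293 0) (P.cons (P.lf 0 721441 0) (P.cons (P.lf 0 23573 0) (P.cons (P.lf 282528 0 0) P.nil)))) (P.cons (P.cons (P.lf 0 10682599 0) (P.cons (P.lf 1223109 0 0) (P.cons (P.lf 504825 0 0) P.nil))) (P.cons (P.cons (P.lf 0 108391 0) (P.cons (P.lf 92388 0 0) P.nil)) (P.cons (P.cons (P.lf 69556 0 0) P.nil) P.nil)))))) 819957)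
 (EL.cons 7 (TM.mk (P.cons (P.cons (P.lf 0 924367215 0) (P.cons (P.lf 231131360 0 0) (P.cons (P.lf 87686853 0 0) (P.cons (P.lf 0 21405521 0) (P.cons (P.lf 0 1079581 0) (P.cons (P.lf 495005 0 0) P.nil)))))) (P.cons (P.cons (P.lf 0 343335135 0) (P.cons (P.lf 47823595 0 0) (P.cons (P.lf 18247871 0 0) (P.cons (P.lf 0 4338907 0) (P.cons (P.lf 0 213957 0) P.nil))))) (P.cons (P.cons (P.lf 42020289 0 0) (P.cons (P.lf 0 2248993 0) (P.cons (P.lf 0 1007456 0) (P.cons (P.lf 75268 0 0) P.nil)))) (P.cons (P.cons (P.lf 4069958 0 0) (P.cons (P.lf 0 678763 0) (P.cons (P.lf 0 270463 0) P.nil))) (P.cons (P.cons (P.lf 0 385219 0) (P.cons (P.lf 3510 0 0) P.nil)) (P.cons (P.cons (P.lf 0 32147 0) P.nil) P.nil)))))) 396219)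
 (EL.cons 10 (TM.mk (P.cons (P.cons (P.lf 0 243741846 0) (P.cons (P.lf 0 183999150 0) (P.cons (P.lf 81999066 0 0) (P.cons (P.lf 15966630 0 0) (P.cons (P.lf 0 4958352 0) (P.cons (P.lf 0 100626 0) P.nil)))))) (P.cons (P.cons (P.lf 0 134915100 0) (P.cons (P.lf 0 113693568 0) (P.cons (P.lf 29242650 0 0) (P.cons (P.lf 5779014 0 0) (P.cons (P.lf 0 1491726 0) P.nil))))) (P.cons (P.cons (P.lf 0 10825836 0) (P.cons (P.lf 0 8948430 0) (P.cons (P.lf 2584362 0 0) (P.cons (P.lf 508782 0 0) P.nil)))) (P.cons (P.cons (P.lf 518916 0 0) (P.cons (P.lf 497922 0 0) (P.cons (P.lf 0 29844 0) P.nil))) (P.cons (P.cons (P.lf 84882 0 0) (P.cons (P.lf 74166 0 0) P.nil)) (P.cons (P.cons (P.lf 1014 0 0) P.nil) P.nil)))))) 524820)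
 EL.nil))))
noncomputable def S154_169_216_364_9 : EL := (EL.cons 3 (TM.mk (P.cons (P.lf 0 2540061705 0) (P.cons (P.lf 142912387 0 0) (P.cons (P.lf 5630085 0 0) (P.cons (P.lf 0 945 0) (P.cons (P.lf 0 5182 0) (P.cons (P.lf 0 116 0) P.nil)))))) 67)
 (EL.cons 7 (TM.mk (P.cons (P.lf 0 1522390337 0) (P.cons (P.lf 0 84780425 0) (P.cons (P.lf 1405728 0 0) (P.cons (P.lf 110195 0 0) (P.cons (P.lf 1257 0 0) (P.cons (P.lf 0 72 0) P.nil)))))) 47)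
 EL.nil))
noncomputable def S154_169_216_364_10 : EL := (EL.cons 3 (TM.mk (P.cons (P.cons (P.lf 0 484091748 0) (P.cons (P.lf 85538503 0 0) (P.cons (P.lf 36885167 0 0) (P.lf 0 4098350 0)))) (P.cons (P.cons (P.lf 0 186798899 0) (P.cons (P.lf 9477981 0 0) (P.cons (P.lf 4087010 0 0) (P.lf 0 454111 0)))) (P.cons (P.cons (P.lf 16060495 0 0) (P.cons (P.lf 0 434758 0) (P.cons (P.lf 0 187472 0) (P.lf 20830 0 0)))) (P.cons (P.cons (P.lf 1159773 0 0) (P.cons (P.lf 0 93277 0) (P.cons (P.lf 0 40221 0) P.nil))) (P.cons (P.cons (P.lf 0 42692 0) (P.cons (P.lf 0 2153 0) P.nil)) (P.cons (P.cons (P.lf 0 4641 0) P.nil) P.nil)))))) 9034)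
 (EL.cons 7 (TM.mk (P.cons (P.cons (P.lf 0 290141219 0) (P.cons (P.lf 51267648 0 0) (P.cons (P.lf 22107188 0 0) (P.lf 0 2456353 0)))) (P.cons (P.cons (P.lf 0 144440238 0) (P.cons (P.lf 11420179 0 0) (P.cons (P.lf 4924509 0 0) (P.lf 0 547167 0)))) (P.cons (P.cons (P.lf 0 5110846 0) (P.cons (P.lf 764610 0 0) (P.cons (P.lf 329708 0 0) (P.lf 0 36633 0)))) (P.cons (P.cons (P.lf 747949 0 0) (P.cons (P.lf 0 11060 0) (P.cons (P.lf 0 4769 0) P.nil))) (P.cons (P.cons (P.lf 43976 0 0) (P.cons (P.lf 0 3653 0) P.nil)) (P.cons (P.cons (P.lf 0 1025 0) P.nil) P.nil)))))) 5110)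
 EL.nil))
noncomputable def S154_169_216_364_11 : EL := (EL.cons 3 (TM.mk (P.cons (P.cons (P.lf 0 92259498 0) (P.cons (P.lf 32604312 0 0) (P.cons (P.lf 11178773 0 0) (P.cons (P.lf 0 4046420 0) (P.cons (P.lf 0 259591 0) (P.cons (P.lf 119026 0 0) P.nil)))))) (P.cons (P.cons (P.lf 0 76392095 0) (P.cons (P.lf 18028294 0 0) (P.cons (P.lf 6973575 0 0) (P.cons (P.lf 0 1554083 0) (P.cons (P.lf 0 72132 0) P.nil))))) (P.cons (P.cons (P.lf 0 12118259 0) (P.cons (P.lf 1233227 0 0) (P.cons (P.lf 474277 0 0) (P.cons (P.lf 0 108678 0) P.nil)))) (P.cons (P.cons (P.lf 1953173 0 0) (P.cons (P.lf 0 188133 0) (P.cons (P.lf 0 76605 0) P.nil))) (P.cons (P.cons (P.lf 136007 0 0) (P.cons (P.lf 0 22746 0) P.nil)) (P.cons (P.cons (P.lf 0 10568 0) P.nil) P.nil)))))) 159911)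
 (EL.cons 7 (TM.mk (P.cons (P.cons (P.lf 0 55295889 0) (P.cons (P.lf 19541450 0 0) (P.cons (P.lf 6700017 0 0) (P.cons (P.lf 0 2425229 0) (P.cons (P.lf 0 155587 0) (P.cons (P.lf 71339 0 0) P.nil)))))) (P.cons (P.cons (P.lf 0 51976239 0) (P.cons (P.lf 12993001 0 0) (P.cons (P.lf 4929707 0 0) (P.cons (P.lf 0 1202953 0) (P.cons (P.lf 0 60651 0) P.nil))))) (P.cons (P.cons (P.lf 0 12808725 0) (P.cons (P.lf 2097173 0 0) (P.cons (P.lf 803044 0 0) (P.cons (P.lf 0 187826 0) P.nil)))) (P.cons (P.cons (P.lf 0 23404 0) (P.cons (P.lf 63797 0 0) (P.cons (P.lf 21677 0 0) P.nil))) (P.cons (P.cons (P.lf 127199 0 0) (P.cons (P.lf 0 13200 0) P.nil)) (P.cons (P.cons (P.lf 4903 0 0) P.nil) P.nil)))))) 93539)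
 EL.nil))
noncomputable def S154_169_216_364_12 : EL := (EL.cons 4 (TM.mk (P.cons (P.lf 2540061705 0 0) (P.cons (P.lf 0 142912387 0) (P.cons (P.lf 0 5630085 0) (P.cons (P.lf 945 0 0) (P.cons (P.lf 5182 0 0) (P.cons (P.lf 116 0 0) P.nil)))))) 67)
 (EL.cons 8 (TM.mk (P.cons (P.lf 1522390337 0 0) (P.cons (P.lf 84780425 0 0) (P.cons (P.lf 0 1405728 0) (P.cons (P.lf 0 110195 0) (P.cons (P.lf 0 1257 0) (P.cons (P.lf 72 0 0) P.nil)))))) 47)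
 EL.nil))
noncomputable def S154_169_216_364_13 : EL := (EL.cons 4 (TM.mk (P.cons (P.cons (P.lf 484091748 0 0) (P.cons (P.lf 0 85538503 0) (P.cons (P.lf 0 36885167 0) (P.lf 4098350 0 0)))) (P.cons (P.cons (P.lf 186798899 0 0) (P.cons (P.lf 0 9477981 0) (P.cons (P.lf 0 4087010 0) (P.lf 454111 0 0)))) (P.cons (P.cons (P.lf 0 16060495 0) (P.cons (P.lf 434758 0 0) (P.cons (P.lf 187472 0 0) (P.lf 0 20830 0)))) (P.cons (P.cons (P.lf 0 1159773 0) (P.cons (P.lf 93277 0 0) (P.cons (P.lf 40221 0 0) P.nil))) (P.cons (P.cons (P.lf 42692 0 0) (P.cons (P.lf 2153 0 0) P.nil)) (P.cons (P.cons (P.lf 4641 0 0) P.nil) P.nil)))))) 9034)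
 (EL.cons 8 (TM.mk (P.cons (P.cons (P.lf 290141219 0 0) (P.cons (P.lf 0 51267648 0) (P.cons (P.lf 0 22107188 0) (P.lf 2456353 0 0)))) (P.cons (P.cons (P.lf 144440238 0 0) (P.cons (P.lf 0 11420179 0) (P.cons (P.lf 0 4924509 0) (P.lf 547167 0 0)))) (P.cons (P.cons (P.lf 5110846 0 0) (P.cons (P.lf 0 764610 0) (P.cons (P.lf 0 329708 0) (P.lf 36633 0 0)))) (P.cons (P.cons (P.lf 0 747949 0) (P.cons (P.lf 11060 0 0) (P.cons (P.lf 4769 0 0) P.nil))) (P.cons (P.cons (P.lf 0 43976 0) (P.cons (P.lf 3653 0 0) P.nil)) (P.cons (P.cons (P.lf 1025 0 0) P.nil) P.nil)))))) 5110)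
 EL.nil))
noncomputable def S154_169_216_364_14 : EL := (EL.cons 4 (TM.mk (P.cons (P.cons (P.lf 92259498 0 0) (P.cons (P.lf 0 32604312 0) (P.cons (P.lf 0 11178773 0) (P.cons (P.lf 4046420 0 0) (P.cons (P.lf 259591 0 0) (P.cons (P.lf 0 119026 0) P.nil)))))) (P.cons (P.cons (P.lf 76392095 0 0) (P.cons (P.lf 0 18028294 0) (P.cons (P.lf 0 6973575 0) (P.cons (P.lf 1554083 0 0) (P.cons (P.lf 72132 0 0) P.nil))))) (P.cons (P.cons (P.lf 12118259 0 0) (P.cons (P.lf 0 1233227 0) (P.cons (P.lf 0 474277 0) (P.cons (P.lf 108678 0 0) P.nil)))) (P.cons (P.cons (P.lf 0 1953173 0) (P.cons (P.lf 188133 0 0) (P.cons (P.lf 76605 0 0) P.nil))) (P.cons (P.cons (P.lf 0 136007 0) (P.cons (P.lf 22746 0 0) P.nil)) (P.cons (P.cons (P.lf 10568 0 0) P.nil) P.nil)))))) 159911)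
 (EL.cons 8 (TM.mk (P.cons (P.cons (P.lf 55295889 0 0) (P.cons (P.lf 0 19541450 0) (P.cons (P.lf 0 6700017 0) (P.cons (P.lf 2425229 0 0) (P.cons (P.lf 155587 0 0) (P.cons (P.lf 0 71339 0) P.nil)))))) (P.cons (P.cons (P.lf 51976239 0 0) (P.cons (P.lf 0 12993001 0) (P.cons (P.lf 0 4929707 0) (P.cons (P.lf 1202953 0 0) (P.cons (P.lf 60651 0 0) P.nil))))) (P.cons (P.cons (P.lf 12808725 0 0) (P.cons (P.lf 0 2097173 0) (P.cons (P.lf 0 803044 0) (P.cons (P.lf 187826 0 0) P.nil)))) (P.cons (P.cons (P.lf 23404 0 0) (P.cons (P.lf 0 63797 0) (P.cons (P.lf 0 21677 0) P.nil))) (P.cons (P.cons (P.lf 0 127199 0) (P.cons (P.lf 13200 0 0) P.nil)) (P.cons (P.cons (P.lf 0 4903 0) P.nil) P.nil)))))) 93539)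
 EL.nil))
noncomputable def S154_169_216_364_15 : EL := (EL.cons 4 (TM.mk (P.cons (P.lf 0 1602350041 0) (P.cons (P.lf 180307170 0 0) (P.cons (P.lf 2030922 0 0) (P.cons (P.lf 0 400845 0) (P.cons (P.lf 0 14342 0) (P.cons (P.lf 223 0 0) P.nil)))))) 116)
 (EL.cons 8 (TM.mk (P.cons (P.lf 0 960371244 0) (P.cons (P.lf 551573 0 0) (P.cons (P.lf 6024538 0 0) (P.cons (P.lf 137808 0 0) (P.cons (P.lf 0 7063 0) (P.cons (P.lf 0 396 0) P.nil)))))) 71)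
 EL.nil))
noncomputable def S154_169_216_364_16 : EL := (EL.cons 4 (TM.mk (P.cons (P.cons (P.lf 0 305380154 0) (P.cons (P.lf 53960352 0 0) (P.cons (P.lf 23268312 0 0) (P.lf 0 2585367 0)))) (P.cons (P.cons (P.lf 0 100656852 0) (P.cons (P.lf 2943015 0 0) (P.cons (P.lf 1269060 0 0) (P.lf 0 141006 0)))) (P.cons (P.cons (P.lf 17438332 0 0) (P.cons (P.lf 0 730261 0) (P.cons (P.lf 0 314896 0) (P.lf 34988 0 0)))) (P.cons (P.cons (P.lf 422668 0 0) (P.cons (P.lf 0 56643 0) (P.cons (P.lf 0 24424 0) P.nil))) (P.cons (P.cons (P.lf 0 91217 0) (P.cons (P.lf 2671 0 0) P.nil)) (P.cons (P.cons (P.lf 0 3285 0) P.nil) P.nil)))))) 9144)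
 (EL.cons 8 (TM.mk (P.cons (P.cons (P.lf 0 183030118 0) (P.cons (P.lf 32341229 0 0) (P.cons (P.lf 13945903 0 0) (P.lf 0 1549544 0)))) (P.cons (P.cons (P.lf 0 80819513 0) (P.cons (P.lf 5384578 0 0) (P.cons (P.lf 2321890 0 0) (P.lf 0 257987 0)))) (P.cons (P.cons (P.lf 2308178 0 0) (P.cons (P.lf 5322 0 0) (P.cons (P.lf 2295 0 0) (P.lf 0 254 0)))) (P.cons (P.cons (P.lf 855122 0 0) (P.cons (P.lf 0 50071 0) (P.cons (P.lf 0 21590 0) P.nil))) (P.cons (P.cons (P.lf 7934 0 0) (P.cons (P.lf 0 2912 0) P.nil)) (P.cons (P.cons (P.lf 0 3448 0) P.nil) P.nil)))))) 5673)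
 EL.nil))
noncomputable def S154_169_216_364_17 : EL := (EL.cons 4 (TM.mk (P.cons (P.cons (P.lf 0 58200165 0) (P.cons (P.lf 20567815 0 0) (P.cons (P.lf 7051918 0 0) (P.cons (P.lf 0 2552608 0) (P.cons (P.lf 0 163758 0) (P.cons (P.lf 75085 0 0) P.nil)))))) (P.cons (P.cons (P.lf 0 44915976 0) (P.cons (P.lf 10215595 0 0) (P.cons (P.lf 4002384 0 0) (P.cons (P.lf 0 836745 0) (P.cons (P.lf 0 36289 0) P.nil))))) (P.cons (P.cons (P.lf 0 4804214 0) (P.cons (P.lf 92497 0 0) (P.cons (P.lf 36046 0 0) (P.cons (P.lf 0 7740 0) P.nil)))) (P.cons (P.cons (P.lf 1769025 0 0) (P.cons (P.lf 0 187651 0) (P.cons (P.lf 0 74907 0) P.nil))) (P.cons (P.cons (P.lf 33282 0 0) (P.cons (P.lf 0 9349 0) P.nil)) (P.cons (P.cons (P.lf 0 14328 0) P.nil) P.nil)))))) 122119)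
 (EL.cons 8 (TM.mk (P.cons (P.cons (P.lf 0 34882368 0) (P.cons (P.lf 12327355 0 0) (P.cons (P.lf 4226579 0 0) (P.cons (P.lf 0 1529910 0) (P.cons (P.lf 0 98149 0) (P.cons (P.lf 45002 0 0) P.nil)))))) (P.cons (P.cons (P.lf 0 30825631 0) (P.cons (P.lf 7502811 0 0) (P.cons (P.lf 2872011 0 0) (P.cons (P.lf 0 672782 0) (P.cons (P.lf 0 32738 0) P.nil))))) (P.cons (P.cons (P.lf 0 6158049 0) (P.cons (P.lf 834481 0 0) (P.cons (P.lf 322248 0 0) (P.cons (P.lf 0 72399 0) P.nil)))) (P.cons (P.cons (P.lf 512514 0 0) (P.cons (P.lf 0 52351 0) (P.cons (P.lf 0 21718 0) P.nil))) (P.cons (P.cons (P.lf 98898 0 0) (P.cons (P.lf 0 13495 0) P.nil)) (P.cons (P.cons (P.lf 0 1460 0) P.nil) P.nil)))))) 74079)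
 EL.nil))
noncomputable def S154_169_216_364_18 : EL := (EL.cons 4 (TM.mk (P.cons (P.lf 1010812316 0 0) (P.cons (P.lf 0 170615069 0) (P.cons (P.lf 2877933 0 0) (P.cons (P.lf 577438 0 0) (P.cons (P.lf 0 318 0) (P.cons (P.lf 0 1395 0) P.nil)))))) 149)
 (EL.cons 8 (TM.mk (P.cons (P.lf 605832095 0 0) (P.cons (P.lf 0 34434094 0) (P.cons (P.lf 0 5123725 0) (P.cons (P.lf 127889 0 0) (P.cons (P.lf 19006 0 0) (P.cons (P.lf 218 0 0) P.nil)))))) 96)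
 EL.nil))
noncomputable def S154_169_216_364_19 : EL := (EL.cons 4 (TM.mk (P.cons (P.cons (P.lf 192643312 0 0) (P.cons (P.lf 0 34039870 0) (P.cons (P.lf 0 14678375 0) (P.lf 1630929 0 0)))) (P.cons (P.cons (P.lf 52658718 0 0) (P.cons (P.lf 58650 0 0) (P.cons (P.lf 25290 0 0) (P.lf 0 2809 0)))) (P.cons (P.cons (P.lf 0 15000221 0) (P.cons (P.lf 640576 0 0) (P.cons (P.lf 276224 0 0) (P.lf 0 30691 0)))) (P.cons (P.cons (P.lf 211628 0 0) (P.cons (P.lf 13916 0 0) (P.cons (P.lf 6000 0 0) P.nil))) (P.cons (P.cons (P.lf 97344 0 0) (P.cons (P.lf 0 4786 0) P.nil)) (P.cons (P.cons (P.lf 0 438 0) P.nil) P.nil)))))) 9094)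
 (EL.cons 8 (TM.mk (P.cons (P.cons (P.lf 115461100 0 0) (P.cons (P.lf 0 20401854 0) (P.cons (P.lf 0 8797509 0) (P.lf 977500 0 0)))) (P.cons (P.cons (P.lf 44487237 0 0) (P.cons (P.lf 0 2248883 0) (P.cons (P.lf 0 969743 0) (P.lf 107749 0 0)))) (P.cons (P.cons (P.lf 0 4580492 0) (P.cons (P.lf 232976 0 0) (P.cons (P.lf 100461 0 0) (P.lf 0 11162 0)))) (P.cons (P.cons (P.lf 0 570476 0) (P.cons (P.lf 39296 0 0) (P.cons (P.lf 16944 0 0) P.nil))) (P.cons (P.cons (P.lf 28827 0 0) (P.cons (P.lf 24 0 0) P.nil)) (P.cons (P.cons (P.lf 3761 0 0) P.nil) P.nil)))))) 5455)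
 EL.nil))
noncomputable def S154_169_216_364_20 : EL := (EL.cons 4 (TM.mk (P.cons (P.cons (P.lf 36714477 0 0) (P.cons (P.lf 0 12974819 0) (P.cons (P.lf 0 4448569 0) (P.cons (P.lf 1610264 0 0) (P.cons (P.lf 103304 0 0) (P.cons (P.lf 0 47366 0) P.nil)))))) (P.cons (P.cons (P.lf 26268717 0 0) (P.cons (P.lf 0 5714309 0) (P.cons (P.lf 0 2274537 0) (P.cons (P.lf 437246 0 0) (P.cons (P.lf 17080 0 0) P.nil))))) (P.cons (P.cons (P.lf 1355081 0 0) (P.cons (P.lf 332986 0 0) (P.cons (P.lf 129175 0 0) (P.cons (P.lf 0 28383 0) P.nil)))) (P.cons (P.cons (P.lf 0 1349260 0) (P.cons (P.lf 135938 0 0) (P.cons (P.lf 54127 0 0) P.nil))) (P.cons (P.cons (P.lf 35159 0 0) (P.cons (P.lf 0 660 0) P.nil)) (P.cons (P.cons (P.lf 12754 0 0) P.nil) P.nil)))))) 94357)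
 (EL.cons 8 (TM.mk (P.cons (P.cons (P.lf 22004885 0 0) (P.cons (P.lf 0 7776479 0) (P.cons (P.lf 0 2666257 0) (P.cons (P.lf 965114 0 0) (P.cons (P.lf 61915 0 0) (P.cons (P.lf 0 28388 0) P.nil)))))) (P.cons (P.cons (P.lf 18207699 0 0) (P.cons (P.lf 0 4295476 0) (P.cons (P.lf 0 1661741 0) (P.cons (P.lf 370111 0 0) (P.cons (P.lf 17168 0 0) P.nil))))) (P.cons (P.cons (P.lf 2741831 0 0) (P.cons (P.lf 0 242885 0) (P.cons (P.lf 0 95439 0) (P.cons (P.lf 19653 0 0) P.nil)))) (P.cons (P.cons (P.lf 0 584969 0) (P.cons (P.lf 73130 0 0) (P.cons (P.lf 29152 0 0) P.nil))) (P.cons (P.cons (P.lf 0 52755 0) (P.cons (P.lf 7804 0 0) P.nil)) (P.cons (P.cons (P.lf 5189 0 0) P.nil) P.nil)))))) 54185)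
 EL.nil))
noncomputable def S154_169_216_364_21 : EL := (EL.cons 4 (TM.mk (P.cons (P.cons (P.lf 0 3843406269 0) (P.cons (P.lf 256615509 0 0) (P.cons (P.lf 110655501 0 0) (P.lf 0 12295050 0)))) (P.cons (P.cons (P.lf 0 19475184 0) (P.cons (P.lf 28433943 0 0) (P.cons (P.lf 12261030 0 0) (P.lf 0 1362333 0)))) (P.cons (P.cons (P.lf 54274254 0 0) (P.cons (P.lf 0 1304274 0) (P.cons (P.lf 0 562416 0) (P.lf 62490 0 0)))) (P.cons (P.cons (P.lf 2276784 0 0) (P.cons (P.lf 0 279831 0) (P.cons (P.lf 0 120663 0) P.nil))) (P.cons (P.cons (P.lf 0 171105 0) (P.cons (P.lf 0 6459 0) P.nil)) (P.cons (P.cons (P.lf 0 13257 0) P.nil) P.nil)))))) 27456)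
 (EL.cons 8 (TM.mk (P.cons (P.cons (P.lf 2280037626 0 0) (P.cons (P.lf 0 152232939 0) (P.cons (P.lf 0 65644563 0) (P.lf 7293843 0 0)))) (P.cons (P.cons (P.lf 0 243702273 0) (P.cons (P.lf 174861 0 0) (P.cons (P.lf 75399 0 0) (P.lf 0 8376 0)))) (P.cons (P.cons (P.lf 0 22224222 0) (P.cons (P.lf 1909902 0 0) (P.cons (P.lf 823569 0 0) (P.lf 0 91506 0)))) (P.cons (P.cons (P.lf 1613751 0 0) (P.cons (P.lf 42594 0 0) (P.cons (P.lf 18366 0 0) P.nil))) (P.cons (P.cons (P.lf 127374 0 0) (P.cons (P.lf 0 8250 0) P.nil)) (P.cons (P.cons (P.lf 0 2250 0) P.nil) P.nil)))))) 20742)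
 (EL.cons 11 (TM.mk (P.cons (P.cons (P.lf 639464868 0 0) (P.cons (P.lf 595720683 0 0) (P.cons (P.lf 0 61140321 0) (P.cons (P.lf 0 12715485 0) (P.lf 1059621 0 0))))) (P.cons (P.cons (P.lf 71222343 0 0) (P.cons (P.lf 66350199 0 0) (P.cons (P.lf 0 6809688 0) (P.cons (P.lf 0 1416225 0) (P.lf 118017 0 0))))) (P.cons (P.cons (P.lf 802224 0 0) (P.cons (P.lf 747348 0 0) (P.cons (P.lf 0 76701 0) (P.cons (P.lf 0 15951 0) P.nil)))) (P.cons (P.cons (P.lf 0 158334 0) (P.cons (P.lf 0 147504 0) (P.cons (P.lf 15138 0 0) P.nil))) (P.cons (P.cons (P.lf 0 5664 0) (P.cons (P.lf 0 5277 0) P.nil)) (P.cons (P.cons (P.lf 84 0 0) P.nil) P.nil)))))) 5712)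
 EL.nil)))
noncomputable def S154_169_216_364_22 : EL := (EL.cons 4 (TM.mk (P.cons (P.cons (P.lf 0 732486639 0) (P.cons (P.lf 178336089 0 0) (P.cons (P.lf 68258811 0 0) (P.cons (P.lf 0 15997314 0) (P.cons (P.lf 0 778776 0) (P.cons (P.lf 357081 0 0) P.nil)))))) (P.cons (P.cons (P.lf 0 327572061 0) (P.cons (P.lf 49321707 0 0) (P.cons (P.lf 18866790 0 0) (P.cons (P.lf 0 4434036 0) (P.cons (P.lf 0 216399 0) P.nil))))) (P.cons (P.cons (P.lf 13159017 0 0) (P.cons (P.lf 977334 0 0) (P.cons (P.lf 248925 0 0) (P.cons (P.lf 0 195603 0) P.nil)))) (P.cons (P.cons (P.lf 6317886 0 0) (P.cons (P.lf 0 705621 0) (P.cons (P.lf 0 290715 0) P.nil))) (P.cons (P.cons (P.lf 122199 0 0) (P.cons (P.lf 0 57567 0) P.nil)) (P.cons (P.cons (P.lf 0 40062 0) P.nil) P.nil)))))) 330012)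
 (EL.cons 8 (TM.mk (P.cons (P.cons (P.lf 434535663 0 0) (P.cons (P.lf 0 105794955 0) (P.cons (P.lf 0 40493418 0) (P.cons (P.lf 9490146 0 0) (P.cons (P.lf 461997 0 0) (P.cons (P.lf 0 211833 0) P.nil)))))) (P.cons (P.cons (P.lf 145679448 0 0) (P.cons (P.lf 0 17415297 0) (P.cons (P.lf 0 6659082 0) (P.cons (P.lf 1567977 0 0) (P.cons (P.lf 76653 0 0) P.nil))))) (P.cons (P.cons (P.lf 0 27414507 0) (P.cons (P.lf 2173083 0 0) (P.cons (P.lf 905250 0 0) (P.cons (P.lf 0 131547 0) P.nil)))) (P.cons (P.cons (P.lf 0 2046681 0) (P.cons (P.lf 371280 0 0) (P.cons (P.lf 146070 0 0) P.nil))) (P.cons (P.cons (P.lf 256209 0 0) (P.cons (P.lf 0 8355 0) P.nil)) (P.cons (P.cons (P.lf 18525 0 0) P.nil) P.nil)))))) 151329)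
 (EL.cons 11 (TM.mk (P.cons (P.cons (P.lf 121870923 0 0) (P.cons (P.lf 91999575 0 0) (P.cons (P.lf 0 40999533 0) (P.cons (P.lf 0 7983315 0) (P.cons (P.lf 2479176 0 0) (P.cons (P.lf 50313 0 0) P.nil)))))) (P.cons (P.cons (P.lf 67457550 0 0) (P.cons (P.lf 56846784 0 0) (P.cons (P.lf 0 14621325 0) (P.cons (P.lf 0 2889507 0) (P.cons (P.lf 745863 0 0) P.nil))))) (P.cons (P.cons (P.lf 5412918 0 0) (P.cons (P.lf 4474215 0 0) (P.cons (P.lf 0 1292181 0) (P.cons (P.lf 0 254391 0) P.nil)))) (P.cons (P.cons (P.lf 0 259458 0) (P.cons (P.lf 0 248961 0) (P.cons (P.lf 14922 0 0) P.nil))) (P.cons (P.cons (P.lf 0 42441 0) (P.cons (P.lf 0 37083 0) P.nil)) (P.cons (P.cons (P.lf 0 507 0) P.nil) P.nil)))))) 262410)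
 EL.nil)))
noncomputable def S154_169_216_364_23 : EL := (EL.cons 4 (TM.mk (P.cons (P.cons (P.lf 2424540390 0 0) (P.cons (P.lf 0 161881056 0) (P.cons (P.lf 0 69804936 0) (P.lf 7756098 0 0)))) (P.cons (P.cons (P.lf 0 124127217 0) (P.cons (P.lf 0 8829045 0) (P.cons (P.lf 0 3807177 0) (P.lf 423015 0 0)))) (P.cons (P.cons (P.lf 0 40303146 0) (P.cons (P.lf 2190783 0 0) (P.cons (P.lf 944688 0 0) (P.lf 0 104964 0)))) (P.cons (P.cons (P.lf 463743 0 0) (P.cons (P.lf 169929 0 0) (P.cons (P.lf 73272 0 0) P.nil))) (P.cons (P.cons (P.lf 269586 0 0) (P.cons (P.lf 0 8016 0) P.nil)) (P.cons (P.cons (P.lf 5595 0 0) P.nil) P.nil)))))) 29568)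
 (EL.cons 8 (TM.mk (P.cons (P.cons (P.lf 0 1438318752 0) (P.cons (P.lf 96033279 0 0) (P.cons (P.lf 41410635 0 0) (P.lf 0 4601181 0)))) (P.cons (P.cons (P.lf 234659619 0 0) (P.cons (P.lf 0 5513460 0) (P.cons (P.lf 0 2377464 0) (P.lf 264159 0 0)))) (P.cons (P.cons (P.lf 8558139 0 0) (P.cons (P.lf 0 1411476 0) (P.cons (P.lf 0 608643 0) (P.lf 67626 0 0)))) (P.cons (P.cons (P.lf 0 2148090 0) (P.cons (P.lf 41196 0 0) (P.cons (P.lf 17763 0 0) P.nil))) (P.cons (P.cons (P.lf 0 57027 0) (P.cons (P.lf 9582 0 0) P.nil)) (P.cons (P.cons (P.lf 8448 0 0) P.nil) P.nil)))))) 19935)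
 (EL.cons 11 (TM.mk (P.cons (P.cons (P.lf 0 403394355 0) (P.cons (P.lf 0 375799161 0) (P.cons (P.lf 38569218 0 0) (P.cons (P.lf 8021322 0 0) (P.lf 0 668439 0))))) (P.cons (P.cons (P.lf 0 22232952 0) (P.cons (P.lf 0 20712051 0) (P.cons (P.lf 2125728 0 0) (P.cons (P.lf 442092 0 0) (P.lf 0 36840 0))))) (P.cons (P.cons (P.lf 2915931 0 0) (P.cons (P.lf 2716458 0 0) (P.cons (P.lf 0 278796 0) (P.cons (P.lf 0 57981 0) P.nil)))) (P.cons (P.cons (P.lf 227790 0 0) (P.cons (P.lf 212208 0 0) (P.cons (P.lf 0 21777 0) P.nil))) (P.cons (P.cons (P.lf 0 1764 0) (P.cons (P.lf 0 1641 0) P.nil)) (P.cons (P.cons (P.lf 0 585 0) P.nil) P.nil)))))) 13602)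
 EL.nil)))
noncomputable def S154_169_216_364_24 : EL := (EL.cons 4 (TM.mk (P.cons (P.cons (P.lf 462075387 0 0) (P.cons (P.lf 0 112499958 0) (P.cons (P.lf 0 43059783 0) (P.cons (P.lf 10091604 0 0) (P.cons (P.lf 491277 0 0) (P.cons (P.lf 0 225258 0) P.nil)))))) (P.cons (P.cons (P.lf 180644748 0 0) (P.cons (P.lf 0 24784044 0) (P.cons (P.lf 0 9479070 0) (P.cons (P.lf 2229339 0 0) (P.cons (P.lf 108870 0 0) P.nil))))) (P.cons (P.cons (P.lf 0 20951724 0) (P.cons (P.lf 1383381 0 0) (P.cons (P.lf 608043 0 0) (P.cons (P.lf 0 56349 0) P.nil)))) (P.cons (P.cons (P.lf 0 3976326 0) (P.cons (P.lf 548736 0 0) (P.cons (P.lf 218589 0 0) P.nil))) (P.cons (P.cons (P.lf 166569 0 0) (P.cons (P.lf 12396 0 0) P.nil)) (P.cons (P.cons (P.lf 38880 0 0) P.nil) P.nil)))))) 195447)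
 (EL.cons 8 (TM.mk (P.cons (P.cons (P.lf 0 274118631 0) (P.cons (P.lf 66738753 0 0) (P.cons (P.lf 25544508 0 0) (P.cons (P.lf 0 5986680 0) (P.cons (P.lf 0 291441 0) (P.cons (P.lf 133629 0 0) P.nil)))))) (P.cons (P.cons (P.lf 0 76476300 0) (P.cons (P.lf 7231164 0 0) (P.cons (P.lf 2763534 0 0) (P.cons (P.lf 0 652296 0) (P.cons (P.lf 0 31956 0) P.nil))))) (P.cons (P.cons (P.lf 23072067 0 0) (P.cons (P.lf 0 2136891 0) (P.cons (P.lf 0 864027 0) (P.cons (P.lf 151905 0 0) P.nil)))) (P.cons (P.cons (P.lf 521688 0 0) (P.cons (P.lf 0 181410 0) (P.cons (P.lf 0 69318 0) P.nil))) (P.cons (P.cons (P.lf 0 273192 0) (P.cons (P.lf 21627 0 0) P.nil)) (P.cons (P.cons (P.lf 0 5646 0) P.nil) P.nil)))))) 92955)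
 (EL.cons 11 (TM.mk (P.cons (P.cons (P.lf 0 76879974 0) (P.cons (P.lf 0 58036197 0) (P.cons (P.lf 25863783 0 0) (P.cons (P.lf 5036124 0 0) (P.cons (P.lf 0 1563939 0) (P.cons (P.lf 0 31737 0) P.nil)))))) (P.cons (P.cons (P.lf 0 38228799 0) (P.cons (P.lf 0 32595411 0) (P.cons (P.lf 7768404 0 0) (P.cons (P.lf 1539441 0 0) (P.cons (P.lf 0 382521 0) P.nil))))) (P.cons (P.cons (P.lf 0 849981 0) (P.cons (P.lf 0 676191 0) (P.cons (P.lf 238869 0 0) (P.cons (P.lf 46758 0 0) P.nil)))) (P.cons (P.cons (P.lf 450087 0 0) (P.cons (P.lf 395319 0 0) (P.cons (P.lf 0 75711 0) P.nil))) (P.cons (P.cons (P.lf 24960 0 0) (P.cons (P.lf 20679 0 0) P.nil)) (P.cons (P.cons (P.lf 0 1638 0) P.nil) P.nil)))))) 158931)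
 EL.nil)))
noncomputable def S154_169_216_364_25 : EL := (EL.cons 4 (TM.mk (P.cons (P.cons (P.lf 0 1529475597 0) (P.cons (P.lf 102119610 0 0) (P.cons (P.lf 44035128 0 0) (P.lf 0 4892787 0)))) (P.cons (P.cons (P.lf 164356740 0 0) (P.cons (P.lf 0 175953 0) (P.cons (P.lf 0 75876 0) (P.lf 8430 0 0)))) (P.cons (P.cons (P.lf 24408978 0 0) (P.cons (P.lf 0 1921731 0) (P.cons (P.lf 0 828669 0) (P.lf 92073 0 0)))) (P.cons (P.cons (P.lf 0 1897137 0) (P.cons (P.lf 0 41748 0) (P.cons (P.lf 0 18000 0) P.nil))) (P.cons (P.cons (P.lf 0 213048 0) (P.cons (P.lf 14361 0 0) P.nil)) (P.cons (P.cons (P.lf 6783 0 0) P.nil) P.nil)))))) 26616)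
 (EL.cons 8 (TM.mk (P.cons (P.cons (P.lf 907336269 0 0) (P.cons (P.lf 0 60580782 0) (P.cons (P.lf 0 26123118 0) (P.lf 2902569 0 0)))) (P.cons (P.cons (P.lf 0 199080378 0) (P.cons (P.lf 6886539 0 0) (P.cons (P.lf 2969553 0 0) (P.lf 0 329949 0)))) (P.cons (P.cons (P.lf 918831 0 0) (P.cons (P.lf 828993 0 0) (P.cons (P.lf 357471 0 0) (P.lf 0 39717 0)))) (P.cons (P.cons (P.lf 1987284 0 0) (P.cons (P.lf 0 83817 0) (P.cons (P.lf 0 36141 0) P.nil))) (P.cons (P.cons (P.lf 0 26502 0) (P.cons (P.lf 0 6678 0) P.nil)) (P.cons (P.cons (P.lf 0 10617 0) P.nil) P.nil)))))) 16863)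
 (EL.cons 11 (TM.mk (P.cons (P.cons (P.lf 254473725 0 0) (P.cons (P.lf 237065817 0 0) (P.cons (P.lf 0 24330663 0) (P.cons (P.lf 0 5060100 0) (P.lf 421671 0 0))))) (P.cons (P.cons (P.lf 0 292305 0) (P.cons (P.lf 0 272310 0) (P.cons (P.lf 27948 0 0) (P.cons (P.lf 5811 0 0) (P.lf 0 483 0))))) (P.cons (P.cons (P.lf 0 3192612 0) (P.cons (P.lf 0 2974212 0) (P.cons (P.lf 305250 0 0) (P.cons (P.lf 63483 0 0) P.nil)))) (P.cons (P.cons (P.lf 0 71196 0) (P.cons (P.lf 0 66324 0) (P.cons (P.lf 6804 0 0) P.nil))) (P.cons (P.cons (P.lf 13797 0 0) (P.cons (P.lf 12855 0 0) P.nil)) (P.cons (P.cons (P.lf 663 0 0) P.nil) P.nil)))))) 13896)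
 EL.nil)))
noncomputable def S154_169_216_364_26 : EL := (EL.cons 4 (TM.mk (P.cons (P.cons (P.lf 0 291491547 0) (P.cons (P.lf 70968477 0 0) (P.cons (P.lf 27163452 0 0) (P.cons (P.lf 0 6366096 0) (P.cons (P.lf 0 309912 0) (P.cons (P.lf 142098 0 0) P.nil)))))) (P.cons (P.cons (P.lf 0 97556040 0) (P.cons (P.lf 11641620 0 0) (P.cons (P.lf 4451385 0 0) (P.cons (P.lf 0 1048158 0) (P.cons (P.lf 0 51240 0) P.nil))))) (P.cons (P.cons (P.lf 20274660 0 0) (P.cons (P.lf 0 1909635 0) (P.cons (P.lf 0 780219 0) (P.cons (P.lf 128781 0 0) P.nil)))) (P.cons (P.cons (P.lf 2017233 0 0) (P.cons (P.lf 0 331686 0) (P.cons (P.lf 0 129555 0) P.nil))) (P.cons (P.cons (P.lf 0 276138 0) (P.cons (P.lf 13740 0 0) P.nil)) (P.cons (P.cons (P.lf 0 24417 0) P.nil) P.nil)))))) 129042)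
 (EL.cons 8 (TM.mk (P.cons (P.cons (P.lf 172922571 0 0) (P.cons (P.lf 0 42100884 0) (P.cons (P.lf 0 16114272 0) (P.cons (P.lf 3776583 0 0) (P.cons (P.lf 183849 0 0) (P.cons (P.lf 0 84297 0) P.nil)))))) (P.cons (P.cons (P.lf 38514426 0 0) (P.cons (P.lf 0 2192907 0) (P.cons (P.lf 0 836679 0) (P.cons (P.lf 199005 0 0) (P.cons (P.lf 9816 0 0) P.nil))))) (P.cons (P.cons (P.lf 0 17652210 0) (P.cons (P.lf 1697988 0 0) (P.cons (P.lf 678858 0 0) (P.cons (P.lf 0 127347 0) P.nil)))) (P.cons (P.cons (P.lf 382920 0 0) (P.cons (P.lf 48690 0 0) (P.cons (P.lf 16917 0 0) P.nil))) (P.cons (P.cons (P.lf 223485 0 0) (P.cons (P.lf 0 23157 0) P.nil)) (P.cons (P.cons (P.lf 0 5301 0) P.nil) P.nil)))))) 63765)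
 (EL.cons 11 (TM.mk (P.cons (P.cons (P.lf 48498282 0 0) (P.cons (P.lf 36611040 0 0) (P.cons (P.lf 0 16315680 0) (P.cons (P.lf 0 3176943 0) (P.cons (P.lf 986583 0 0) (P.cons (P.lf 20022 0 0) P.nil)))))) (P.cons (P.cons (P.lf 21387240 0 0) (P.cons (P.lf 18502338 0 0) (P.cons (P.lf 0 3982575 0) (P.cons (P.lf 0 792381 0) (P.cons (P.lf 185796 0 0) P.nil))))) (P.cons (P.cons (P.lf 0 928143 0) (P.cons (P.lf 0 811482 0) (P.cons (P.lf 161196 0 0) (P.cons (P.lf 32181 0 0) P.nil)))) (P.cons (P.cons (P.lf 0 367530 0) (P.cons (P.lf 0 318942 0) (P.cons (P.lf 67095 0 0) P.nil))) (P.cons (P.cons (P.lf 0 849 0) (P.cons (P.lf 120 0 0) P.nil)) (P.cons (P.cons (P.lf 2601 0 0) P.nil) P.nil)))))) 106011)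
 EL.nil)))
noncomputable def S154_169_216_364_27 : EL := (EL.cons 13 (TM.mk (P.lf 0 4294967296 0) 0)
 EL.nil)
noncomputable def S154_169_216_364_28 : EL := (EL.cons 13 (TM.mk (P.cons (P.cons (P.lf 0 818546348 0) (P.cons (P.lf 144636280 0 0) (P.cons (P.lf 62368796 0 0) (P.lf 0 6929864 0)))) (P.cons (P.cons (P.lf 0 361910726 0) (P.cons (P.lf 24163956 0 0) (P.cons (P.lf 10419768 0 0) (P.lf 0 1157752 0)))) (P.cons (P.cons (P.lf 4979915 0 0) (P.cons (P.lf 945004 0 0) (P.cons (P.lf 407496 0 0) (P.lf 0 45276 0)))) (P.cons (P.cons (P.lf 1439362 0 0) (P.cons (P.lf 0 51048 0) (P.cons (P.lf 0 22012 0) P.nil))) (P.cons (P.cons (P.lf 21637 0 0) (P.cons (P.lf 0 4724 0) P.nil)) (P.cons (P.cons (P.lf 0 2668 0) P.nil) P.nil)))))) 6533)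
 EL.nil)
noncomputable def S154_169_216_364_29 : EL := (EL.cons 13 (TM.mk (P.cons (P.cons (P.lf 0 156000751 0) (P.cons (P.lf 55130337 0 0) (P.cons (P.lf 18902087 0 0) (P.cons (P.lf 0 6842056 0) (P.cons (P.lf 0 438943 0) (P.cons (P.lf 201262 0 0) P.nil)))))) (P.cons (P.cons (P.lf 0 137947827 0) (P.cons (P.lf 33585698 0 0) (P.cons (P.lf 12855052 0 0) (P.cons (P.lf 0 3012744 0) (P.cons (P.lf 0 146665 0) P.nil))))) (P.cons (P.cons (P.lf 0 28597840 0) (P.cons (P.lf 4097096 0 0) (P.cons (P.lf 1567117 0 0) (P.cons (P.lf 0 368437 0) P.nil)))) (P.cons (P.cons (P.lf 1387889 0 0) (P.cons (P.lf 0 13176 0) (P.cons (P.lf 0 12876 0) P.nil))) (P.cons (P.cons (P.lf 245045 0 0) (P.cons (P.lf 0 30248 0) P.nil)) (P.cons (P.cons (P.lf 0 708 0) P.nil) P.nil)))))) 202085)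
 EL.nil)
noncomputable def S154_169_216_364_30 : EL := (EL.cons 13 (TM.mk (P.cons (P.lf 2709399152 0 0) (P.cons (P.lf 0 152439880 0) (P.cons (P.lf 0 6005424 0) (P.cons (P.lf 1008 0 0) (P.cons (P.lf 5528 0 0) (P.cons (P.lf 124 0 0) P.nil)))))) 64)
 EL.nil)
noncomputable def S154_169_216_364_31 : EL := (EL.cons 13 (TM.mk (P.cons (P.cons (P.lf 516364532 0 0) (P.cons (P.lf 0 91241070 0) (P.cons (P.lf 0 39344179 0) (P.lf 4371574 0 0)))) (P.cons (P.cons (P.lf 199252159 0 0) (P.cons (P.lf 0 10109847 0) (P.cons (P.lf 0 4359478 0) (P.lf 484386 0 0)))) (P.cons (P.cons (P.lf 0 17131195 0) (P.cons (P.lf 463742 0 0) (P.cons (P.lf 199971 0 0) (P.lf 0 22219 0)))) (P.cons (P.cons (P.lf 0 1237092 0) (P.cons (P.lf 99496 0 0) (P.cons (P.lf 42903 0 0) P.nil))) (P.cons (P.cons (P.lf 45539 0 0) (P.cons (P.lf 2297 0 0) P.nil)) (P.cons (P.cons (P.lf 4951 0 0) P.nil) P.nil)))))) 9616)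
 EL.nil)
noncomputable def S154_169_216_364_32 : EL := (EL.cons 13 (TM.mk (P.cons (P.cons (P.lf 98410132 0 0) (P.cons (P.lf 0 34777933 0) (P.cons (P.lf 0 11924025 0) (P.cons (P.lf 4316182 0 0) (P.cons (P.lf 276898 0 0) (P.cons (P.lf 0 126962 0) P.nil)))))) (P.cons (P.cons (P.lf 81484902 0 0) (P.cons (P.lf 0 19230181 0) (P.cons (P.lf 0 7438481 0) (P.cons (P.lf 1657689 0 0) (P.cons (P.lf 76941 0 0) P.nil))))) (P.cons (P.cons (P.lf 12926143 0 0) (P.cons (P.lf 0 1315443 0) (P.cons (P.lf 0 505896 0) (P.cons (P.lf 115924 0 0) P.nil)))) (P.cons (P.cons (P.lf 0 2083385 0) (P.cons (P.lf 200676 0 0) (P.cons (P.lf 81713 0 0) P.nil))) (P.cons (P.cons (P.lf 0 145075 0) (P.cons (P.lf 24263 0 0) P.nil)) (P.cons (P.cons (P.lf 11273 0 0) P.nil) P.nil)))))) 170549)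
 EL.nil)
noncomputable def S154_169_216_364_33 : EL := (EL.cons 14 (TM.mk (P.lf 8589934592 0 0) 0)
 EL.nil)
noncomputable def S154_169_216_364_34 : EL := (EL.cons 14 (TM.mk (P.cons (P.cons (P.lf 1637092696 0 0) (P.cons (P.lf 0 289272560 0) (P.cons (P.lf 0 124737592 0) (P.lf 13859728 0 0)))) (P.cons (P.cons (P.lf 723821452 0 0) (P.cons (P.lf 0 48327912 0) (P.cons (P.lf 0 20839536 0) (P.lf 2315504 0 0)))) (P.cons (P.cons (P.lf 0 9959830 0) (P.cons (P.lf 0 1890008 0) (P.cons (P.lf 0 814992 0) (P.lf 90552 0 0)))) (P.cons (P.cons (P.lf 0 2878724 0) (P.cons (P.lf 102096 0 0) (P.cons (P.lf 44024 0 0) P.nil))) (P.cons (P.cons (P.lf 0 43274 0) (P.cons (P.lf 9448 0 0) P.nil)) (P.cons (P.cons (P.lf 5336 0 0) P.nil) P.nil)))))) 13066)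
 EL.nil)
noncomputable def S154_169_216_364_35 : EL := (EL.cons 14 (TM.mk (P.cons (P.cons (P.lf 312001502 0 0) (P.cons (P.lf 0 110260674 0) (P.cons (P.lf 0 37804174 0) (P.cons (P.lf 13684112 0 0) (P.cons (P.lf 877886 0 0) (P.cons (P.lf 0 402524 0) P.nil)))))) (P.cons (P.cons (P.lf 275895654 0 0) (P.cons (P.lf 0 67171396 0) (P.cons (P.lf 0 25710104 0) (P.cons (P.lf 6025488 0 0) (P.cons (P.lf 293330 0 0) P.nil))))) (P.cons (P.cons (P.lf 57195680 0 0) (P.cons (P.lf 0 8194192 0) (P.cons (P.lf 0 3134234 0) (P.cons (P.lf 736874 0 0) P.nil)))) (P.cons (P.cons (P.lf 0 2775778 0) (P.cons (P.lf 26352 0 0) (P.cons (P.lf 25752 0 0) P.nil))) (P.cons (P.cons (P.lf 0 490090 0) (P.cons (P.lf 60496 0 0) P.nil)) (P.cons (P.cons (P.lf 1416 0 0) P.nil) P.nil)))))) 404170)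
 EL.nil)
noncomputable def S154_169_216_364_36 : EL := (EL.cons 14 (TM.mk (P.cons (P.lf 0 5418798304 0) (P.cons (P.lf 304879760 0 0) (P.cons (P.lf 12010848 0 0) (P.cons (P.lf 0 2016 0) (P.cons (P.lf 0 11056 0) (P.cons (P.lf 0 248 0) P.nil)))))) 128)
 EL.nil)
noncomputable def S154_169_216_364_37 : EL := (EL.cons 14 (TM.mk (P.cons (P.cons (P.lf 0 1032729064 0) (P.cons (P.lf 182482140 0 0) (P.cons (P.lf 78688358 0 0) (P.lf 0 8743148 0)))) (P.cons (P.cons (P.lf 0 398504318 0) (P.cons (P.lf 20219694 0 0) (P.cons (P.lf 8718956 0 0) (P.lf 0 968772 0)))) (P.cons (P.cons (P.lf 34262390 0 0) (P.cons (P.lf 0 927484 0) (P.cons (P.lf 0 399942 0) (P.lf 44438 0 0)))) (P.cons (P.cons (P.lf 2474184 0 0) (P.cons (P.lf 0 198992 0) (P.cons (P.lf 0 85806 0) P.nil))) (P.cons (P.cons (P.lf 0 91078 0) (P.cons (P.lf 0 4594 0) P.nil)) (P.cons (P.cons (P.lf 0 9902 0) P.nil) P.nil))))))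 19232)
 EL.nil)
noncomputable def S154_169_216_364_38 : EL := (EL.cons 14 (TM.mk (P.cons (P.cons (P.lf 0 196820264 0) (P.cons (P.lf 69555866 0 0) (P.cons (P.lf 23848050 0 0) (P.cons (P.lf 0 8632364 0) (P.cons (P.lf 0 553796 0) (P.cons (P.lf 253924 0 0) P.nil)))))) (P.cons (P.cons (P.lf 0 162969804 0) (P.cons (P.lf 38460362 0 0) (P.cons (P.lf 14876962 0 0) (P.cons (P.lf 0 3315378 0) (P.cons (P.lf 0 153882 0) P.nil))))) (P.cons (P.cons (P.lf 0 25852286 0) (P.cons (P.lf 2630886 0 0) (P.cons (P.lf 1011792 0 0) (P.cons (P.lf 0 231848 0) P.nil)))) (P.cons (P.cons (P.lf 4166770 0 0) (P.cons (P.lf 0 401352 0) (P.cons (P.lf 0 163426 0) P.nil))) (P.cons (P.cons (P.lf 290150 0 0) (P.cons (P.lf 0 48526 0) P.nil)) (P.cons (P.cons (P.lf 0 22546 0) P.nil) P.nil)))))) 341098)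
 EL.nil)
noncomputable def S154_169_216_364_39 : EL := (EL.cons 14 (TM.mk (P.cons (P.lf 3418346756 0 0) (P.cons (P.lf 0 384655298 0) (P.cons (P.lf 0 4332634 0) (P.cons (P.lf 855136 0 0) (P.cons (P.lf 30598 0 0) (P.cons (P.lf 0 476 0) P.nil)))))) 234)
 EL.nil)
noncomputable def S154_169_216_364_40 : EL := (EL.cons 14 (TM.mk (P.cons (P.cons (P.lf 651477662 0 0) (P.cons (P.lf 0 115115418 0) (P.cons (P.lf 0 49639066 0) (P.lf 5515450 0 0)))) (P.cons (P.cons (P.lf 214734618 0 0) (P.cons (P.lf 0 6278434 0) (P.cons (P.lf 0 2707328 0) (P.lf 300814 0 0)))) (P.cons (P.cons (P.lf 0 37201776 0) (P.cons (P.lf 1557892 0 0) (P.cons (P.lf 671780 0 0) (P.lf 0 74642 0)))) (P.cons (P.cons (P.lf 0 901692 0) (P.cons (P.lf 120840 0 0) (P.cons (P.lf 52106 0 0) P.nil))) (P.cons (P.cons (P.lf 194598 0 0) (P.cons (P.lf 0 5700 0) P.nil)) (P.cons (P.cons (P.lf 7008 0 0) P.nil) P.nil))))))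 19468)
 EL.nil)
noncomputable def S154_169_216_364_41 : EL := (EL.cons 14 (TM.mk (P.cons (P.cons (P.lf 124160354 0 0) (P.cons (P.lf 0 43878006 0) (P.cons (P.lf 0 15044092 0) (P.cons (P.lf 5445564 0 0) (P.cons (P.lf 349352 0 0) (P.cons (P.lf 0 160182 0) P.nil)))))) (P.cons (P.cons (P.lf 95820750 0 0) (P.cons (P.lf 0 21793270 0) (P.cons (P.lf 0 8538420 0) (P.cons (P.lf 1785058 0 0) (P.cons (P.lf 77418 0 0) P.nil))))) (P.cons (P.cons (P.lf 10248990 0 0) (P.cons (P.lf 0 197328 0) (P.cons (P.lf 0 76900 0) (P.cons (P.lf 16514 0 0) P.nil)))) (P.cons (P.cons (P.lf 0 3773922 0) (P.cons (P.lf 400324 0 0) (P.cons (P.lf 159802 0 0) P.nil))) (P.cons (P.cons (P.lf 0 71002 0) (P.cons (P.lf 19946 0 0) P.nil)) (P.cons (P.cons (P.lf 30568 0 0) P.nil) P.nil)))))) 260474)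
 EL.nil)
noncomputable def S154_169_216_364_42 : EL := (EL.cons 14 (TM.mk (P.cons (P.lf 0 2156399608 0) (P.cons (P.lf 363978814 0 0) (P.cons (P.lf 0 6139592 0) (P.cons (P.lf 0 1231868 0) (P.cons (P.lf 680 0 0) (P.cons (P.lf 2978 0 0) P.nil)))))) 304)
 EL.nil)
noncomputable def S154_169_216_364_43 : EL := (EL.cons 14 (TM.mk (P.cons (P.cons (P.lf 0 410972400 0) (P.cons (P.lf 72618390 0 0) (P.cons (P.lf 31313868 0 0) (P.lf 0 3479316 0)))) (P.cons (P.cons (P.lf 0 112338600 0) (P.cons (P.lf 0 125122 0) (P.cons (P.lf 0 53954 0) (P.lf 5994 0 0)))) (P.cons (P.cons (P.lf 32000472 0 0) (P.cons (P.lf 0 1366564 0) (P.cons (P.lf 0 589278 0) (P.lf 65476 0 0)))) (P.cons (P.cons (P.lf 0 451474 0) (P.cons (P.lf 0 29688 0) (P.cons (P.lf 0 12800 0) P.nil))) (P.cons (P.cons (P.lf 0 207668 0) (P.cons (P.lf 10212 0 0) P.nil)) (P.cons (P.cons (P.lf 936 0 0) P.nil) P.nil)))))) 19360)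
 EL.nil)
noncomputable def S154_169_216_364_44 : EL := (EL.cons 14 (TM.mk (P.cons (P.cons (P.lf 0 78324218 0) (P.cons (P.lf 27679614 0 0) (P.cons (P.lf 9490282 0 0) (P.cons (P.lf 0 3435230 0) (P.cons (P.lf 0 220382 0) (P.cons (P.lf 101048 0 0) P.nil)))))) (P.cons (P.cons (P.lf 0 56039930 0) (P.cons (P.lf 12190526 0 0) (P.cons (P.lf 4852346 0 0) (P.cons (P.lf 0 932792 0) (P.cons (P.lf 0 36438 0) P.nil))))) (P.cons (P.cons (P.lf 0 2890840 0) (P.cons (P.lf 0 710372 0) (P.cons (P.lf 0 275574 0) (P.cons (P.lf 60552 0 0) P.nil)))) (P.cons (P.cons (P.lf 2878422 0 0) (P.cons (P.lf 0 290002 0) (P.cons (P.lf 0 115472 0) P.nil))) (P.cons (P.cons (P.lf 0 75006 0) (P.cons (P.lf 1410 0 0) P.nil)) (P.cons (P.cons (P.lf 0 27210 0) P.nil) P.nil)))))) 201248)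
 EL.nil)
noncomputable def S154_169_216_364_45 : EL := (EL.cons 14 (TM.mk (P.cons (P.cons (P.lf 59462080 0 0) (P.cons (P.lf 0 31520660 0) (P.cons (P.lf 0 8022396 0) (P.cons (P.lf 5985584 0 0) (P.cons (P.lf 77550 0 0) (P.cons (P.lf 0 365986 0) P.nil)))))) (P.cons (P.cons (P.lf 78871396 0 0) (P.cons (P.lf 0 33139048 0) (P.cons (P.lf 0 9966352 0) (P.cons (P.lf 5152102 0 0) (P.cons (P.lf 176934 0 0) P.nil))))) (P.cons (P.cons (P.lf 33786792 0 0) (P.cons (P.lf 0 10640926 0) (P.cons (P.lf 0 3571306 0) (P.cons (P.lf 1353170 0 0) P.nil)))) (P.cons (P.cons (P.lf 3866060 0 0) (P.cons (P.lf 0 855924 0) (P.cons (P.lf 0 281060 0) P.nil))) (P.cons (P.cons (P.lf 0 487648 0) (P.cons (P.lf 69476 0 0) P.nil)) (P.cons (P.cons (P.lf 0 58172 0) P.nil) P.nil)))))) 956520)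
 EL.nil)
noncomputable def S154_169_216_364_46 : EL := (EL.cons 15 (TM.mk (P.lf 4294967296 0 0) 0)
 EL.nil)
noncomputable def S154_169_216_364_47 : EL := (EL.cons 15 (TM.mk (P.cons (P.cons (P.lf 818546348 0 0) (P.cons (P.lf 0 144636280 0) (P.cons (P.lf 0 62368796 0) (P.lf 6929864 0 0)))) (P.cons (P.cons (P.lf 361910726 0 0) (P.cons (P.lf 0 24163956 0) (P.cons (P.lf 0 10419768 0) (P.lf 1157752 0 0)))) (P.cons (P.cons (P.lf 0 4979915 0) (P.cons (P.lf 0 945004 0) (P.cons (P.lf 0 407496 0) (P.lf 45276 0 0)))) (P.cons (P.cons (P.lf 0 1439362 0) (P.cons (P.lf 51048 0 0) (P.cons (P.lf 22012 0 0) P.nil))) (P.cons (P.cons (P.lf 0 21637 0) (P.cons (P.lf 4724 0 0) P.nil)) (P.cons (P.cons (P.lf 2668 0 0) P.nil) P.nil)))))) 6533)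
 EL.nil)
noncomputable def S154_169_216_364_48 : EL := (EL.cons 15 (TM.mk (P.cons (P.cons (P.lf 156000751 0 0) (P.cons (P.lf 0 55130337 0) (P.cons (P.lf 0 18902087 0) (P.cons (P.lf 6842056 0 0) (P.cons (P.lf 438943 0 0) (P.cons (P.lf 0 201262 0) P.nil)))))) (P.cons (P.cons (P.lf 137947827 0 0) (P.cons (P.lf 0 33585698 0) (P.cons (P.lf 0 12855052 0) (P.cons (P.lf 3012744 0 0) (P.cons (P.lf 146665 0 0) P.nil))))) (P.cons (P.cons (P.lf 28597840 0 0) (P.cons (P.lf 0 4097096 0) (P.cons (P.lf 0 1567117 0) (P.cons (P.lf 368437 0 0) P.nil)))) (P.cons (P.cons (P.lf 0 1387889 0) (P.cons (P.lf 13176 0 0) (P.cons (P.lf 12876 0 0) P.nil))) (P.cons (P.cons (P.lf 0 245045 0) (P.cons (P.lf 30248 0 0) P.nil)) (P.cons (P.cons (P.lf 708 0 0) P.nil) P.nil)))))) 202085)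
 EL.nil)
noncomputable def S154_169_216_364 : SL := (SL.cons S154_169_216_364_0 (SL.cons S154_169_216_364_1 (SL.cons S154_169_216_364_2 (SL.cons S154_169_216_364_3 (SL.cons S154_169_216_364_4 (SL.cons S154_169_216_364_5 (SL.cons S154_169_216_364_6 (SL.cons S154_169_216_364_7 (SL.cons S154_169_216_364_8 (SL.cons S154_169_216_364_9 (SL.cons S154_169_216_364_10 (SL.cons S154_169_216_364_11 (SL.cons S154_169_216_364_12 (SL.cons S154_169_216_364_13 (SL.cons S154_169_216_364_14 (SL.cons S154_169_216_364_15 (SL.cons S154_169_216_364_16 (SL.cons S154_169_216_364_17 (SL.cons S154_169_216_364_18 (SL.cons S154_169_216_364_19 (SL.cons S154_169_216_364_20 (SL.cons S154_169_216_364_21 (SL.cons S154_169_216_364_22 (SL.cons S154_169_216_364_23 (SL.cons S154_169_216_364_24 (SL.cons S154_169_216_364_25 (SL.cons S154_169_216_364_26 (SL.cons S154_169_216_364_27 (SL.cons S154_169_216_364_28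 (SL.cons S154_169_216_364_29 (SL.cons S154_169_216_364_30 (SL.cons S154_169_216_364_31 (SL.cons S154_169_216_364_32 (SL.cons S154_169_216_364_33 (SL.cons S154_169_216_364_34 (SL.cons S154_169_216_364_35 (SL.cons S154_169_216_364_36 (SL.cons S154_169_216_364_37 (SL.cons S154_169_216_364_38 (SL.cons S154_169_216_364_39 (SL.cons S154_169_216_364_40 (SL.cons S154_169_216_364_41 (SL.cons S154_169_216_364_42 (SL.cons S154_169_216_364_43 (SL.cons S154_169_216_364_44 (SL.cons S154_169_216_364_45 (SL.cons S154_169_216_364_46 (SL.cons S154_169_216_364_47 (SL.cons S154_169_216_364_48 SL.nil)))))))))))))))))))))))))))))))))))))))))))))))))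
noncomputable def S154_169_290_364_0 : EL := (EL.cons 0 (TM.mk (P.cons (P.lf 5451310535 0 0) (P.cons (P.lf 338075945 0 0) (P.cons (P.lf 3807979 0 0) (P.cons (P.lf 0 751584 0) (P.cons (P.lf 0 26892 0) (P.cons (P.lf 418 0 0) P.nil)))))) 212)
 (EL.cons 1 (TM.mk (P.cons (P.lf 0 1800696082 0) (P.cons (P.lf 1034199 0 0) (P.cons (P.lf 11296008 0 0) (P.cons (P.lf 258390 0 0) (P.cons (P.lf 0 13243 0) (P.cons (P.lf 0 742 0) P.nil)))))) 140)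
 (EL.cons 5 (TM.mk (P.cons (P.lf 5363200660 0 0) (P.cons (P.lf 0 120204780 0) (P.cons (P.lf 0 1353950 0) (P.cons (P.lf 267230 0 0) (P.cons (P.lf 9562 0 0) (P.cons (P.lf 0 146 0) P.nil)))))) 103)
 (EL.cons 9 (TM.mk (P.lf 6442450944 0 0) 2)
 EL.nil))))
noncomputable def S154_169_290_364_1 : EL := (EL.cons 0 (TM.mk (P.cons (P.cons (P.lf 0 3434900353 0) (P.cons (P.lf 83681703 0 0) (P.cons (P.lf 10775777 0 0) (P.lf 0 718381 0)))) (P.cons (P.cons (P.lf 741172328 0 0) (P.cons (P.lf 0 17789910 0) (P.cons (P.lf 0 2290828 0) (P.lf 152735 0 0)))) (P.cons (P.cons (P.lf 94045290 0 0) (P.cons (P.lf 0 5118876 0) (P.cons (P.lf 0 659161 0) (P.lf 43940 0 0)))) (P.cons (P.cons (P.lf 0 3105947 0) (P.cons (P.lf 0 226259 0) (P.cons (P.lf 0 29129 0) P.nil))) (P.cons (P.cons (P.lf 0 701453 0) (P.cons (P.lf 20468 0 0) P.nil)) (P.cons (P.cons (P.lf 0 9677 0) P.nil) P.nil)))))) 21099)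
 (EL.cons 1 (TM.mk (P.cons (P.cons (P.lf 0 320035386 0) (P.cons (P.lf 42952420 0 0) (P.cons (P.lf 5531023 0 0) (P.lf 0 368729 0)))) (P.cons (P.cons (P.lf 0 435999367 0) (P.cons (P.lf 21214540 0 0) (P.cons (P.lf 2731811 0 0) (P.lf 0 182110 0)))) (P.cons (P.cons (P.lf 17227459 0 0) (P.cons (P.lf 940560 0 0) (P.cons (P.lf 121108 0 0) (P.lf 0 8065 0)))) (P.cons (P.cons (P.lf 5436048 0 0) (P.cons (P.lf 0 190677 0) (P.cons (P.lf 0 24544 0) P.nil))) (P.cons (P.cons (P.lf 22861 0 0) (P.cons (P.lf 0 15788 0) P.nil)) (P.cons (P.cons (P.lf 0 24423 0) P.nil) P.nil)))))) 10940)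
 (EL.cons 5 (TM.mk (P.cons (P.cons (P.lf 2464851720 0 0) (P.cons (P.lf 0 201290022 0) (P.cons (P.lf 0 25920336 0) (P.lf 1728024 0 0)))) (P.cons (P.cons (P.lf 326998569 0 0) (P.cons (P.lf 0 22332800 0) (P.cons (P.lf 0 2875818 0) (P.lf 191718 0 0)))) (P.cons (P.cons (P.lf 0 42871000 0) (P.cons (P.lf 699274 0 0) (P.cons (P.lf 90046 0 0) (P.lf 0 6000 0)))) (P.cons (P.cons (P.lf 0 1290351 0) (P.cons (P.lf 140994 0 0) (P.cons (P.lf 18152 0 0) P.nil))) (P.cons (P.cons (P.lf 217460 0 0) (P.cons (P.lf 0 1666 0) P.nil)) (P.cons (P.cons (P.lf 8018 0 0) P.nil) P.nil)))))) 9148)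
 (EL.cons 9 (TM.mk (P.cons (P.cons (P.lf 1097253360 0 0) (P.cons (P.lf 0 151355754 0) (P.cons (P.lf 0 19490244 0) (P.lf 1299348 0 0)))) (P.cons (P.cons (P.lf 521052783 0 0) (P.cons (P.lf 0 25286556 0) (P.cons (P.lf 0 3256176 0) (P.lf 217074 0 0)))) (P.cons (P.cons (P.lf 0 8322952 0) (P.cons (P.lf 0 988908 0) (P.cons (P.lf 0 127338 0) (P.lf 8484 0 0)))) (P.cons (P.cons (P.lf 0 2112957 0) (P.cons (P.lf 53418 0 0) (P.cons (P.lf 6876 0 0) P.nil))) (P.cons (P.cons (P.lf 0 28183 0) (P.cons (P.lf 4944 0 0) P.nil)) (P.cons (P.cons (P.lf 4032 0 0) P.nil) P.nil)))))) 2408)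
 (EL.cons 2 (TM.mk (P.cons (P.cons (P.lf 544397571 0 0) (P.cons (P.lf 155413203 0 0) (P.cons (P.lf 0 11624655 0) (P.cons (P.lf 0 783329 0) (P.lf 39164 0 0))))) (P.cons (P.cons (P.lf 30004301 0 0) (P.cons (P.lf 8565547 0 0) (P.cons (P.lf 0 640687 0) (P.cons (P.lf 0 43171 0) (P.lf 2157 0 0))))) (P.cons (P.cons (P.lf 0 3935171 0) (P.cons (P.lf 0 1123402 0) (P.cons (P.lf 84029 0 0) (P.cons (P.lf 5661 0 0) P.nil)))) (P.cons (P.cons (P.lf 0 307414 0) (P.cons (P.lf 0 87758 0) (P.cons (P.lf 6561 0 0) P.nil))) (P.cons (P.cons (P.lf 2379 0 0) (P.cons (P.lf 677 0 0) P.nil)) (P.cons (P.cons (P.lf 790 0 0) P.nil) P.nil)))))) 1688)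
 (EL.cons 6 (TM.mk (P.cons (P.cons (P.lf 326285616 0 0) (P.cons (P.lf 93147168 0 0) (P.cons (P.lf 0 6967257 0) (P.cons (P.lf 0 469488 0) (P.lf 23472 0 0))))) (P.cons (P.cons (P.lf 54511578 0 0) (P.cons (P.lf 15561822 0 0) (P.cons (P.lf 0 1163997 0) (P.cons (P.lf 0 78435 0) (P.lf 3921 0 0))))) (P.cons (P.cons (P.lf 2131848 0 0) (P.cons (P.lf 608592 0 0) (P.cons (P.lf 0 45519 0) (P.cons (P.lf 0 3066 0) P.nil)))) (P.cons (P.cons (P.lf 0 115167 0) (P.cons (P.lf 0 32877 0) (P.cons (P.lf 2457 0 0) P.nil))) (P.cons (P.cons (P.lf 0 10665 0) (P.cons (P.lf 0 3045 0) P.nil)) (P.cons (P.cons (P.lf 0 84 0) P.nil) P.nil)))))) 966)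
 EL.nil))))))
noncomputable def S154_169_290_364_2 : EL := (EL.cons 0 (TM.mk (P.cons (P.cons (P.lf 0 1328167278 0) (P.cons (P.lf 233525286 0 0) (P.cons (P.lf 23130519 0 0) (P.cons (P.lf 0 3792290 0) (P.cons (P.lf 4070 0 0) (P.cons (P.lf 15340 0 0) P.nil)))))) (P.cons (P.cons (P.lf 0 463137341 0) (P.cons (P.lf 30324573 0 0) (P.cons (P.lf 2891972 0 0) (P.cons (P.lf 0 521188 0) (P.cons (P.lf 592 0 0) P.nil))))) (P.cons (P.cons (P.lf 118115164 0 0) (P.cons (P.lf 0 8837733 0) (P.cons (P.lf 0 971312 0) (P.cons (P.lf 118816 0 0) P.nil)))) (P.cons (P.cons (P.lf 14094896 0 0) (P.cons (P.lf 0 1584808 0) (P.cons (P.lf 0 158779 0) P.nil))) (P.cons (P.cons (P.lf 0 1045551 0) (P.cons (P.lf 1089 0 0) P.nil)) (P.cons (P.cons (P.lf 0 158723 0) P.nil) P.nil)))))) 140983)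
 (EL.cons 1 (TM.mk (P.cons (P.cons (P.lf 0 56780527 0) (P.cons (P.lf 15258152 0 0) (P.cons (P.lf 940487 0 0) (P.cons (P.lf 0 394785 0) (P.cons (P.lf 596 0 0) (P.cons (P.lf 2264 0 0) P.nil)))))) (P.cons (P.cons (P.lf 0 150704538 0) (P.cons (P.lf 27930498 0 0) (P.cons (P.lf 2594173 0 0) (P.cons (P.lf 0 497948 0) (P.cons (P.lf 589 0 0) P.nil))))) (P.cons (P.cons (P.lf 0 53200163 0) (P.cons (P.lf 5319964 0 0) (P.cons (P.lf 495441 0 0) (P.cons (P.lf 0 94488 0) P.nil)))) (P.cons (P.cons (P.lf 5072320 0 0) (P.cons (P.lf 0 190777 0) (P.cons (P.lf 0 29564 0) P.nil))) (P.cons (P.cons (P.lf 960842 0 0) (P.cons (P.lf 0 92794 0) P.nil)) (P.cons (P.cons (P.lf 0 23431 0) P.nil) P.nil)))))) 69649)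
 (EL.cons 5 (TM.mk (P.cons (P.cons (P.lf 684034536 0 0) (P.cons (P.lf 0 141462082 0) (P.cons (P.lf 0 11718390 0) (P.cons (P.lf 2887870 0 0) (P.cons (P.lf 0 3804 0) (P.cons (P.lf 0 14357 0) P.nil)))))) (P.cons (P.cons (P.lf 365823435 0 0) (P.cons (P.lf 0 48291015 0) (P.cons (P.lf 0 4511767 0) (P.cons (P.lf 854115 0 0) (P.cons (P.lf 0 999 0) P.nil))))) (P.cons (P.cons (P.lf 2551052 0 0) (P.cons (P.lf 0 1431878 0) (P.cons (P.lf 0 78529 0) (P.cons (P.lf 39558 0 0) P.nil)))) (P.cons (P.cons (P.lf 0 7353018 0) (P.cons (P.lf 589379 0 0) (P.cons (P.lf 65736 0 0) P.nil))) (P.cons (P.cons (P.lf 0 14304 0) (P.cons (P.lf 34506 0 0) P.nil)) (P.cons (P.cons (P.lf 59004 0 0) P.nil) P.nil)))))) 65461)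
 (EL.cons 9 (TM.mk (P.cons (P.cons (P.lf 186879952 0 0) (P.cons (P.lf 0 51556654 0) (P.cons (P.lf 0 3083128 0) (P.cons (P.lf 1358388 0 0) (P.cons (P.lf 0 2088 0) (P.cons (P.lf 0 7861 0) P.nil)))))) (P.cons (P.cons (P.lf 177487393 0 0) (P.cons (P.lf 0 33096129 0) (P.cons (P.lf 0 3073683 0) (P.cons (P.lf 590115 0 0) (P.cons (P.lf 0 697 0) P.nil))))) (P.cons (P.cons (P.lf 39306658 0 0) (P.cons (P.lf 0 4036036 0) (P.cons (P.lf 0 374007 0) (P.cons (P.lf 72172 0 0) P.nil)))) (P.cons (P.cons (P.lf 0 2066028 0) (P.cons (P.lf 22849 0 0) (P.cons (P.lf 8194 0 0) P.nil))) (P.cons (P.cons (P.lf 0 340630 0) (P.cons (P.lf 30790 0 0) P.nil)) (P.cons (P.cons (P.lf 2274 0 0) P.nil) P.nil)))))) 24119)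
 (EL.cons 2 (TM.mk (P.cons (P.cons (P.lf 185439380 0 0) (P.cons (P.lf 27359139 0 0) (P.cons (P.lf 0 14556048 0) (P.cons (P.lf 0 441360 0) (P.cons (P.lf 183166 0 0) (P.cons (P.lf 0 1788 0) P.nil)))))) (P.cons (P.cons (P.lf 98280045 0 0) (P.cons (P.lf 22373409 0 0) (P.cons (P.lf 0 4452901 0) (P.cons (P.lf 0 180191 0) (P.cons (P.lf 44803 0 0) P.nil))))) (P.cons (P.cons (P.lf 2106320 0 0) (P.cons (P.lf 383546 0 0) (P.cons (P.lf 0 135180 0) (P.cons (P.lf 0 4511 0) P.nil)))) (P.cons (P.cons (P.lf 0 1175872 0) (P.cons (P.lf 0 290531 0) (P.cons (P.lf 43807 0 0) P.nil))) (P.cons (P.cons (P.lf 0 63191 0) (P.cons (P.lf 0 13196 0) P.nil)) (P.cons (P.cons (P.lf 4443 0 0) P.nil) P.nil)))))) 22313)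
 (EL.cons 6 (TM.mk (P.cons (P.cons (P.lf 111143406 0 0) (P.cons (P.lf 16397742 0 0) (P.cons (P.lf 0 8724192 0) (P.cons (P.lf 0 264528 0) (P.cons (P.lf 109782 0 0) (P.cons (P.lf 0 1068 0) P.nil)))))) (P.cons (P.cons (P.lf 71347080 0 0) (P.cons (P.lf 15245304 0 0) (P.cons (P.lf 0 3645546 0) (P.cons (P.lf 0 137610 0) (P.cons (P.lf 39138 0 0) P.nil))))) (P.cons (P.cons (P.lf 8700702 0 0) (P.cons (P.lf 1855596 0 0) (P.cons (P.lf 0 446034 0) (P.cons (P.lf 0 16800 0) P.nil)))) (P.cons (P.cons (P.lf 0 49260 0) (P.cons (P.lf 0 36708 0) (P.cons (P.lf 0 8328 0) P.nil))) (P.cons (P.cons (P.lf 0 66378 0) (P.cons (P.lf 0 16794 0) P.nil)) (P.cons (P.cons (P.lf 0 2922 0) P.nil) P.nil)))))) 16176)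
 EL.nil))))))
noncomputable def S154_169_290_364_3 : EL := (EL.cons 0 (TM.mk (P.cons (P.lf 3004406328 0 0) (P.cons (P.lf 0 338075945 0) (P.cons (P.lf 0 3807979 0) (P.cons (P.lf 751584 0 0) (P.cons (P.lf 26892 0 0) (P.cons (P.lf 0 418 0) P.nil)))))) 212)
 (EL.cons 1 (TM.mk (P.cons (P.lf 1800696082 0 0) (P.cons (P.lf 0 1034199 0) (P.cons (P.lf 0 11296008 0) (P.cons (P.lf 0 258390 0) (P.cons (P.lf 13243 0 0) (P.cons (P.lf 742 0 0) P.nil)))))) 140)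
 (EL.cons 5 (TM.mk (P.cons (P.lf 1079250284 0 0) (P.cons (P.lf 120204780 0 0) (P.cons (P.lf 1353950 0 0) (P.cons (P.lf 0 267230 0) (P.cons (P.lf 0 9562 0) (P.cons (P.lf 146 0 0) P.nil)))))) 96)
 EL.nil)))
noncomputable def S154_169_290_364_4 : EL := (EL.cons 0 (TM.mk (P.cons (P.cons (P.lf 511698879 0 0) (P.cons (P.lf 0 70584034 0) (P.cons (P.lf 0 9089180 0) (P.lf 605944 0 0)))) (P.cons (P.cons (P.lf 185410694 0 0) (P.cons (P.lf 0 3849674 0) (P.cons (P.lf 0 495725 0) (P.lf 33045 0 0)))) (P.cons (P.cons (P.lf 0 31872847 0) (P.cons (P.lf 955233 0 0) (P.cons (P.lf 123008 0 0) (P.lf 0 8201 0)))) (P.cons (P.cons (P.lf 0 728583 0) (P.cons (P.lf 74093 0 0) (P.cons (P.lf 9539 0 0) P.nil))) (P.cons (P.cons (P.lf 168022 0 0) (P.cons (P.lf 0 3494 0) P.nil)) (P.cons (P.cons (P.lf 5739 0 0) P.nil) P.nil)))))) 4142)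
 (EL.cons 1 (TM.mk (P.cons (P.cons (P.lf 306687600 0 0) (P.cons (P.lf 0 42304661 0) (P.cons (P.lf 0 5447615 0) (P.lf 363172 0 0)))) (P.cons (P.cons (P.lf 145460621 0 0) (P.cons (P.lf 0 7043415 0) (P.cons (P.lf 0 906986 0) (P.lf 60463 0 0)))) (P.cons (P.cons (P.lf 0 4333841 0) (P.cons (P.lf 0 6961 0) (P.cons (P.lf 0 894 0) (P.lf 58 0 0)))) (P.cons (P.cons (P.lf 0 1546852 0) (P.cons (P.lf 65495 0 0) (P.cons (P.lf 8431 0 0) P.nil))) (P.cons (P.cons (P.lf 0 11587 0) (P.cons (P.lf 3810 0 0) P.nil)) (P.cons (P.cons (P.lf 6367 0 0) P.nil) P.nil)))))) 2587)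
 (EL.cons 5 (TM.mk (P.cons (P.cons (P.lf 183813738 0 0) (P.cons (P.lf 0 25355370 0) (P.cons (P.lf 0 3265038 0) (P.lf 217668 0 0)))) (P.cons (P.cons (P.lf 107760456 0 0) (P.cons (P.lf 0 7060078 0) (P.cons (P.lf 0 909132 0) (P.lf 60606 0 0)))) (P.cons (P.cons (P.lf 8558250 0 0) (P.cons (P.lf 0 669274 0) (P.cons (P.lf 0 86182 0) (P.lf 5742 0 0)))) (P.cons (P.cons (P.lf 0 445266 0) (P.cons (P.lf 0 8538 0) (P.cons (P.lf 0 1100 0) P.nil))) (P.cons (P.cons (P.lf 0 69136 0) (P.cons (P.lf 2890 0 0) P.nil)) (P.cons (P.cons (P.lf 0 698 0) P.nil) P.nil)))))) 1604)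
 EL.nil)))
noncomputable def S154_169_290_364_5 : EL := (EL.cons 0 (TM.mk (P.cons (P.cons (P.lf 87150575 0 0) (P.cons (P.lf 0 24043199 0) (P.cons (P.lf 0 1437800 0) (P.cons (P.lf 633476 0 0) (P.cons (P.lf 0 972 0) (P.cons (P.lf 0 3665 0) P.nil)))))) (P.cons (P.cons (P.lf 72963632 0 0) (P.cons (P.lf 0 12728719 0) (P.cons (P.lf 0 1271605 0) (P.cons (P.lf 203913 0 0) (P.cons (P.lf 0 214 0) P.nil))))) (P.cons (P.cons (P.lf 8906131 0 0) (P.cons (P.lf 0 114948 0) (P.cons (P.lf 0 11297 0) (P.cons (P.lf 1886 0 0) P.nil)))) (P.cons (P.cons (P.lf 0 3109255 0) (P.cons (P.lf 235998 0 0) (P.cons (P.lf 24904 0 0) P.nil))) (P.cons (P.cons (P.lf 0 52180 0) (P.cons (P.lf 11467 0 0) P.nil)) (P.cons (P.cons (P.lf 25470 0 0) P.nil) P.nil)))))) 21639)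
 (EL.cons 1 (TM.mk (P.cons (P.cons (P.lf 52233845 0 0) (P.cons (P.lf 0 14410331 0) (P.cons (P.lf 0 861748 0) (P.cons (P.lf 379674 0 0) (P.cons (P.lf 0 583 0) (P.cons (P.lf 0 2195 0) P.nil)))))) (P.cons (P.cons (P.lf 49578581 0 0) (P.cons (P.lf 0 9242250 0) (P.cons (P.lf 0 858613 0) (P.cons (P.lf 164720 0 0) (P.cons (P.lf 0 193 0) P.nil))))) (P.cons (P.cons (P.lf 10630237 0 0) (P.cons (P.lf 0 1032378 0) (P.cons (P.lf 0 98636 0) (P.cons (P.lf 17694 0 0) P.nil)))) (P.cons (P.cons (P.lf 0 902469 0) (P.cons (P.lf 67130 0 0) (P.cons (P.lf 7861 0 0) P.nil))) (P.cons (P.cons (P.lf 0 170527 0) (P.cons (P.lf 16899 0 0) P.nil)) (P.cons (P.cons (P.lf 3121 0 0) P.nil) P.nil)))))) 13572)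
 (EL.cons 5 (TM.mk (P.cons (P.cons (P.lf 31306444 0 0) (P.cons (P.lf 0 8636856 0) (P.cons (P.lf 0 516490 0) (P.cons (P.lf 227558 0 0) (P.cons (P.lf 0 348 0) (P.cons (P.lf 0 1316 0) P.nil)))))) (P.cons (P.cons (P.lf 33219838 0 0) (P.cons (P.lf 0 6506274 0) (P.cons (P.lf 0 572432 0) (P.cons (P.lf 124200 0 0) (P.cons (P.lf 0 154 0) P.nil))))) (P.cons (P.cons (P.lf 9935594 0 0) (P.cons (P.lf 0 1304474 0) (P.cons (P.lf 0 120650 0) (P.cons (P.lf 23386 0 0) P.nil)))) (P.cons (P.cons (P.lf 416838 0 0) (P.cons (P.lf 0 76294 0) (P.cons (P.lf 0 6122 0) P.nil))) (P.cons (P.cons (P.lf 0 94990 0) (P.cons (P.lf 6184 0 0) P.nil)) (P.cons (P.cons (P.lf 0 8298 0) P.nil) P.nil)))))) 8330)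
 EL.nil)))
noncomputable def S154_169_290_364_6 : EL := (EL.cons 12 (TM.mk (P.lf 8589934592 0 0) 0)
 (EL.cons 3 (TM.mk (P.cons (P.lf 0 2540061705 0) (P.cons (P.lf 142912387 0 0) (P.cons (P.lf 5630085 0 0) (P.cons (P.lf 0 945 0) (P.cons (P.lf 0 5182 0) (P.cons (P.lf 0 116 0) P.nil)))))) 67)
 (EL.cons 7 (TM.mk (P.cons (P.lf 0 1522390337 0) (P.cons (P.lf 0 84780425 0) (P.cons (P.lf 1405728 0 0) (P.cons (P.lf 110195 0 0) (P.cons (P.lf 1257 0 0) (P.cons (P.lf 0 72 0) P.nil)))))) 47)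
 EL.nil)))
noncomputable def S154_169_290_364_7 : EL := (EL.cons 12 (TM.mk (P.cons (P.cons (P.lf 1463004480 0 0) (P.cons (P.lf 0 201807672 0) (P.cons (P.lf 0 25986992 0) (P.lf 1732464 0 0)))) (P.cons (P.cons (P.lf 694737044 0 0) (P.cons (P.lf 0 33715408 0) (P.cons (P.lf 0 4341568 0) (P.lf 289432 0 0)))) (P.cons (P.cons (P.lf 0 11097270 0) (P.cons (P.lf 0 1318544 0) (P.cons (P.lf 0 169784 0) (P.lf 11312 0 0)))) (P.cons (P.cons (P.lf 0 2817276 0) (P.cons (P.lf 71224 0 0) (P.cons (P.lf 9168 0 0) P.nil))) (P.cons (P.cons (P.lf 0 37578 0) (P.cons (P.lf 6592 0 0) P.nil)) (P.cons (P.cons (P.lf 5376 0 0) P.nil) P.nil)))))) 3186)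
 (EL.cons 3 (TM.mk (P.cons (P.cons (P.lf 3256358021 0 0) (P.cons (P.lf 0 119349902 0) (P.cons (P.lf 0 15368816 0) (P.lf 1024586 0 0)))) (P.cons (P.cons (P.lf 0 178731679 0) (P.cons (P.lf 0 13224406 0) (P.cons (P.lf 0 1702920 0) (P.lf 113522 0 0)))) (P.cons (P.cons (P.lf 0 37690475 0) (P.cons (P.lf 606606 0 0) (P.cons (P.lf 78116 0 0) (P.lf 0 5210 0)))) (P.cons (P.cons (P.lf 0 1004737 0) (P.cons (P.lf 130146 0 0) (P.cons (P.lf 16756 0 0) P.nil))) (P.cons (P.cons (P.lf 131013 0 0) (P.cons (P.lf 3004 0 0) P.nil)) (P.cons (P.cons (P.lf 8329 0 0) P.nil) P.nil)))))) 8564)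
 (EL.cons 7 (TM.mk (P.cons (P.cons (P.lf 0 2447709389 0) (P.cons (P.lf 141969846 0 0) (P.cons (P.lf 18281616 0 0) (P.lf 0 1218776 0)))) (P.cons (P.cons (P.lf 106029618 0 0) (P.cons (P.lf 7845167 0 0) (P.cons (P.lf 1010231 0 0) (P.lf 0 67350 0)))) (P.cons (P.cons (P.lf 16424123 0 0) (P.cons (P.lf 0 798999 0) (P.cons (P.lf 0 102888 0) (P.lf 6856 0 0)))) (P.cons (P.cons (P.lf 0 898094 0) (P.cons (P.lf 0 37433 0) (P.cons (P.lf 0 4823 0) P.nil))) (P.cons (P.cons (P.lf 0 80630 0) (P.cons (P.lf 3208 0 0) P.nil)) (P.cons (P.cons (P.lf 1392 0 0) P.nil) P.nil)))))) 5974)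
 (EL.cons 10 (TM.mk (P.cons (P.cons (P.lf 0 920516919 0) (P.cons (P.lf 0 262786779 0) (P.cons (P.lf 19656027 0 0) (P.cons (P.lf 1324527 0 0) (P.lf 0 66225 0))))) (P.cons (P.cons (P.lf 0 102525369 0) (P.cons (P.lf 0 29268675 0) (P.cons (P.lf 2189247 0 0) (P.cons (P.lf 147522 0 0) (P.lf 0 7374 0))))) (P.cons (P.cons (P.lf 0 1154814 0) (P.cons (P.lf 0 329673 0) (P.cons (P.lf 24657 0 0) (P.cons (P.lf 1659 0 0) P.nil)))) (P.cons (P.cons (P.lf 227925 0 0) (P.cons (P.lf 65067 0 0) (P.cons (P.lf 0 4866 0) P.nil))) (P.cons (P.cons (P.lf 8154 0 0) (P.cons (P.lf 2328 0 0) P.nil)) (P.cons (P.cons (P.lf 0 123 0) P.nil) P.nil)))))) 861)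
 EL.nil))))
noncomputable def S154_169_290_364_8 : EL := (EL.cons 12 (TM.mk (P.cons (P.cons (P.lf 249173270 0 0) (P.cons (P.lf 0 68742206 0) (P.cons (P.lf 0 4110838 0) (P.cons (P.lf 1811184 0 0) (P.cons (P.lf 0 2784 0) (P.cons (P.lf 0 10482 0) P.nil)))))) (P.cons (P.cons (P.lf 236649858 0 0) (P.cons (P.lf 0 44128172 0) (P.cons (P.lf 0 4098244 0) (P.cons (P.lf 786820 0 0) (P.cons (P.lf 0 930 0) P.nil))))) (P.cons (P.cons (P.lf 52408878 0 0) (P.cons (P.lf 0 5381382 0) (P.cons (P.lf 0 498676 0) (P.cons (P.lf 96230 0 0) P.nil)))) (P.cons (P.cons (P.lf 0 2754704 0) (P.cons (P.lf 30466 0 0) (P.cons (P.lf 10926 0 0) P.nil))) (P.cons (P.cons (P.lf 0 454174 0) (P.cons (P.lf 41054 0 0) P.nil)) (P.cons (P.cons (P.lf 3032 0 0) P.nil) P.nil)))))) 32130)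
 (EL.cons 3 (TM.mk (P.cons (P.cons (P.lf 1182901695 0 0) (P.cons (P.lf 0 213988170 0) (P.cons (P.lf 0 20545619 0) (P.cons (P.lf 3642362 0 0) (P.cons (P.lf 0 4115 0) (P.cons (P.lf 0 15495 0) P.nil)))))) (P.cons (P.cons (P.lf 531686223 0 0) (P.cons (P.lf 0 52879621 0) (P.cons (P.lf 0 4861527 0) (P.cons (P.lf 955596 0 0) (P.cons (P.lf 0 1141 0) P.nil))))) (P.cons (P.cons (P.lf 0 38766336 0) (P.cons (P.lf 0 261874 0) (P.cons (P.lf 106215 0 0) (P.cons (P.lf 38275 0 0) P.nil)))) (P.cons (P.cons (P.lf 0 9954695 0) (P.cons (P.lf 834315 0 0) (P.cons (P.lf 96434 0 0) P.nil))) (P.cons (P.cons (P.lf 0 54406 0) (P.cons (P.lf 60673 0 0) P.nil)) (P.cons (P.cons (P.lf 67398 0 0) P.nil) P.nil)))))) 77633)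
 (EL.cons 7 (TM.mk (P.cons (P.cons (P.lf 0 789607943 0) (P.cons (P.lf 151186902 0 0) (P.cons (P.lf 13638036 0 0) (P.cons (P.lf 0 2799487 0) (P.cons (P.lf 3421 0 0) (P.cons (P.lf 12885 0 0) P.nil)))))) (P.cons (P.cons (P.lf 0 315414121 0) (P.cons (P.lf 31369970 0 0) (P.cons (P.lf 2884020 0 0) (P.cons (P.lf 0 566895 0) (P.cons (P.lf 678 0 0) P.nil))))) (P.cons (P.cons (P.lf 40653170 0 0) (P.cons (P.lf 0 1600610 0) (P.cons (P.lf 0 224446 0) (P.cons (P.lf 9016 0 0) P.nil)))) (P.cons (P.cons (P.lf 3669516 0 0) (P.cons (P.lf 0 454868 0) (P.cons (P.lf 0 47755 0) P.nil))) (P.cons (P.cons (P.lf 0 382636 0) (P.cons (P.lf 3543 0 0) P.nil)) (P.cons (P.cons (P.lf 0 29209 0) P.nil) P.nil)))))) 41806)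
 (EL.cons 10 (TM.mk (P.cons (P.cons (P.lf 0 313557768 0) (P.cons (P.lf 0 46261320 0) (P.cons (P.lf 24612690 0 0) (P.cons (P.lf 746298 0 0) (P.cons (P.lf 0 309720 0) (P.cons (P.lf 3024 0 0) P.nil)))))) (P.cons (P.cons (P.lf 0 183822648 0) (P.cons (P.lf 0 40433808 0) (P.cons (P.lf 8914164 0 0) (P.cons (P.lf 346674 0 0) (P.cons (P.lf 0 93180 0) P.nil))))) (P.cons (P.cons (P.lf 0 14599050 0) (P.cons (P.lf 0 3026016 0) (P.cons (P.lf 784668 0 0) (P.cons (P.lf 28794 0 0) P.nil)))) (P.cons (P.cons (P.lf 759552 0 0) (P.cons (P.lf 231396 0 0) (P.cons (P.lf 0 10182 0) P.nil))) (P.cons (P.cons (P.lf 117930 0 0) (P.cons (P.lf 28734 0 0) P.nil)) (P.cons (P.cons (P.lf 1188 0 0) P.nil) P.nil)))))) 31266)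
 EL.nil))))
noncomputable def S154_169_290_364_9 : EL := (EL.cons 3 (TM.mk (P.cons (P.lf 0 2540061705 0) (P.cons (P.lf 142912387 0 0) (P.cons (P.lf 5630085 0 0) (P.cons (P.lf 0 945 0) (P.cons (P.lf 0 5182 0) (P.cons (P.lf 0 116 0) P.nil)))))) 67)
 (EL.cons 7 (TM.mk (P.cons (P.lf 0 1522390337 0) (P.cons (P.lf 0 84780425 0) (P.cons (P.lf 1405728 0 0) (P.cons (P.lf 110195 0 0) (P.cons (P.lf 1257 0 0) (P.cons (P.lf 0 72 0) P.nil)))))) 47)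
 EL.nil))
noncomputable def S154_169_290_364_10 : EL := (EL.cons 3 (TM.mk (P.cons (P.cons (P.lf 0 432613498 0) (P.cons (P.lf 59674951 0 0) (P.cons (P.lf 7684408 0 0) (P.lf 0 512293 0)))) (P.cons (P.cons (P.lf 0 181094917 0) (P.cons (P.lf 6612203 0 0) (P.cons (P.lf 851460 0 0) (P.lf 0 56761 0)))) (P.cons (P.cons (P.lf 15798853 0 0) (P.cons (P.lf 0 303303 0) (P.cons (P.lf 0 39058 0) (P.lf 2605 0 0)))) (P.cons (P.cons (P.lf 1103636 0 0) (P.cons (P.lf 0 65073 0) (P.cons (P.lf 0 8378 0) P.nil))) (P.cons (P.cons (P.lf 0 43992 0) (P.cons (P.lf 0 1502 0) P.nil)) (P.cons (P.cons (P.lf 0 4499 0) P.nil) P.nil)))))) 2047)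
 (EL.cons 7 (TM.mk (P.cons (P.cons (P.lf 0 259287641 0) (P.cons (P.lf 35766285 0 0) (P.cons (P.lf 4605663 0 0) (P.lf 0 307043 0)))) (P.cons (P.cons (P.lf 0 137567415 0) (P.cons (P.lf 7967156 0 0) (P.cons (P.lf 1025939 0 0) (P.lf 0 68394 0)))) (P.cons (P.cons (P.lf 0 4650691 0) (P.cons (P.lf 533421 0 0) (P.cons (P.lf 68688 0 0) (P.lf 0 4577 0)))) (P.cons (P.cons (P.lf 741292 0 0) (P.cons (P.lf 0 7715 0) (P.cons (P.lf 0 992 0) P.nil))) (P.cons (P.cons (P.lf 41776 0 0) (P.cons (P.lf 0 2549 0) P.nil)) (P.cons (P.cons (P.lf 0 1095 0) P.nil) P.nil)))))) 1206)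
 EL.nil))
noncomputable def S154_169_290_364_11 : EL := (EL.cons 3 (TM.mk (P.cons (P.cons (P.lf 0 73681059 0) (P.cons (P.lf 20327214 0 0) (P.cons (P.lf 1215583 0 0) (P.cons (P.lf 0 535570 0) (P.cons (P.lf 823 0 0) (P.cons (P.lf 3099 0 0) P.nil)))))) (P.cons (P.cons (P.lf 0 65832315 0) (P.cons (P.lf 11905115 0 0) (P.cons (P.lf 1143465 0 0) (P.cons (P.lf 0 202530 0) (P.cons (P.lf 227 0 0) P.nil))))) (P.cons (P.cons (P.lf 0 11396910 0) (P.cons (P.lf 812060 0 0) (P.cons (P.lf 76581 0 0) (P.cons (P.lf 0 14177 0) P.nil)))) (P.cons (P.cons (P.lf 1841587 0 0) (P.cons (P.lf 0 127455 0) (P.cons (P.lf 0 14212 0) P.nil))) (P.cons (P.cons (P.lf 122642 0 0) (P.cons (P.lf 0 15113 0) P.nil)) (P.cons (P.cons (P.lf 0 10410 0) P.nil) P.nil)))))) 14155)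
 (EL.cons 7 (TM.mk (P.cons (P.cons (P.lf 0 44160869 0) (P.cons (P.lf 12183150 0 0) (P.cons (P.lf 728562 0 0) (P.cons (P.lf 0 320995 0) (P.cons (P.lf 493 0 0) (P.cons (P.lf 1857 0 0) P.nil)))))) (P.cons (P.cons (P.lf 0 44400625 0) (P.cons (P.lf 8499284 0 0) (P.cons (P.lf 766902 0 0) (P.cons (P.lf 0 157323 0) (P.cons (P.lf 192 0 0) P.nil))))) (P.cons (P.cons (P.lf 0 11583298 0) (P.cons (P.lf 1378024 0 0) (P.cons (P.lf 128156 0 0) (P.cons (P.lf 0 24524 0) P.nil)))) (P.cons (P.cons (P.lf 12876 0 0) (P.cons (P.lf 39610 0 0) (P.cons (P.lf 2261 0 0) P.nil))) (P.cons (P.cons (P.lf 119330 0 0) (P.cons (P.lf 0 9033 0) P.nil)) (P.cons (P.cons (P.lf 4199 0 0) P.nil) P.nil)))))) 8190)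
 EL.nil))
noncomputable def S154_169_290_364_12 : EL := (EL.cons 4 (TM.mk (P.cons (P.lf 2540061705 0 0) (P.cons (P.lf 0 142912387 0) (P.cons (P.lf 0 5630085 0) (P.cons (P.lf 945 0 0) (P.cons (P.lf 5182 0 0) (P.cons (P.lf 116 0 0) P.nil)))))) 67)
 (EL.cons 8 (TM.mk (P.cons (P.lf 1522390337 0 0) (P.cons (P.lf 84780425 0 0) (P.cons (P.lf 0 1405728 0) (P.cons (P.lf 0 110195 0) (P.cons (P.lf 0 1257 0) (P.cons (P.lf 72 0 0) P.nil)))))) 47)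
 EL.nil))
noncomputable def S154_169_290_364_13 : EL := (EL.cons 4 (TM.mk (P.cons (P.cons (P.lf 432613498 0 0) (P.cons (P.lf 0 59674951 0) (P.cons (P.lf 0 7684408 0) (P.lf 512293 0 0)))) (P.cons (P.cons (P.lf 181094917 0 0) (P.cons (P.lf 0 6612203 0) (P.cons (P.lf 0 851460 0) (P.lf 56761 0 0)))) (P.cons (P.cons (P.lf 0 15798853 0) (P.cons (P.lf 303303 0 0) (P.cons (P.lf 39058 0 0) (P.lf 0 2605 0)))) (P.cons (P.cons (P.lf 0 1103636 0) (P.cons (P.lf 65073 0 0) (P.cons (P.lf 8378 0 0) P.nil))) (P.cons (P.cons (P.lf 43992 0 0) (P.cons (P.lf 1502 0 0) P.nil)) (P.cons (P.cons (P.lf 4499 0 0) P.nil) P.nil)))))) 2047)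
 (EL.cons 8 (TM.mk (P.cons (P.cons (P.lf 259287641 0 0) (P.cons (P.lf 0 35766285 0) (P.cons (P.lf 0 4605663 0) (P.lf 307043 0 0)))) (P.cons (P.cons (P.lf 137567415 0 0) (P.cons (P.lf 0 7967156 0) (P.cons (P.lf 0 1025939 0) (P.lf 68394 0 0)))) (P.cons (P.cons (P.lf 4650691 0 0) (P.cons (P.lf 0 533421 0) (P.cons (P.lf 0 68688 0) (P.lf 4577 0 0)))) (P.cons (P.cons (P.lf 0 741292 0) (P.cons (P.lf 7715 0 0) (P.cons (P.lf 992 0 0) P.nil))) (P.cons (P.cons (P.lf 0 41776 0) (P.cons (P.lf 2549 0 0) P.nil)) (P.cons (P.cons (P.lf 1095 0 0) P.nil) P.nil)))))) 1206)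
 EL.nil))
noncomputable def S154_169_290_364_14 : EL := (EL.cons 4 (TM.mk (P.cons (P.cons (P.lf 73681059 0 0) (P.cons (P.lf 0 20327214 0) (P.cons (P.lf 0 1215583 0) (P.cons (P.lf 535570 0 0) (P.cons (P.lf 0 823 0) (P.cons (P.lf 0 3099 0) P.nil)))))) (P.cons (P.cons (P.lf 65832315 0 0) (P.cons (P.lf 0 11905115 0) (P.cons (P.lf 0 1143465 0) (P.cons (P.lf 202530 0 0) (P.cons (P.lf 0 227 0) P.nil))))) (P.cons (P.cons (P.lf 11396910 0 0) (P.cons (P.lf 0 812060 0) (P.cons (P.lf 0 76581 0) (P.cons (P.lf 14177 0 0) P.nil)))) (P.cons (P.cons (P.lf 0 1841587 0) (P.cons (P.lf 127455 0 0) (P.cons (P.lf 14212 0 0) P.nil))) (P.cons (P.cons (P.lf 0 122642 0) (P.cons (P.lf 15113 0 0) P.nil)) (P.cons (P.cons (P.lf 10410 0 0) P.nil) P.nil)))))) 14155)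
 (EL.cons 8 (TM.mk (P.cons (P.cons (P.lf 44160869 0 0) (P.cons (P.lf 0 12183150 0) (P.cons (P.lf 0 728562 0) (P.cons (P.lf 320995 0 0) (P.cons (P.lf 0 493 0) (P.cons (P.lf 0 1857 0) P.nil)))))) (P.cons (P.cons (P.lf 44400625 0 0) (P.cons (P.lf 0 8499284 0) (P.cons (P.lf 0 766902 0) (P.cons (P.lf 157323 0 0) (P.cons (P.lf 0 192 0) P.nil))))) (P.cons (P.cons (P.lf 11583298 0 0) (P.cons (P.lf 0 1378024 0) (P.cons (P.lf 0 128156 0) (P.cons (P.lf 24524 0 0) P.nil)))) (P.cons (P.cons (P.lf 0 12876 0) (P.cons (P.lf 0 39610 0) (P.cons (P.lf 0 2261 0) P.nil))) (P.cons (P.cons (P.lf 0 119330 0) (P.cons (P.lf 9033 0 0) P.nil)) (P.cons (P.cons (P.lf 0 4199 0) P.nil) P.nil)))))) 8190)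
 EL.nil))
noncomputable def S154_169_290_364_15 : EL := (EL.cons 4 (TM.mk (P.cons (P.lf 0 1602350041 0) (P.cons (P.lf 180307170 0 0) (P.cons (P.lf 2030922 0 0) (P.cons (P.lf 0 400845 0) (P.cons (P.lf 0 14342 0) (P.cons (P.lf 223 0 0) P.nil)))))) 116)
 (EL.cons 8 (TM.mk (P.cons (P.lf 0 960371244 0) (P.cons (P.lf 551573 0 0) (P.cons (P.lf 6024538 0 0) (P.cons (P.lf 137808 0 0) (P.cons (P.lf 0 7063 0) (P.cons (P.lf 0 396 0) P.nil)))))) 71)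
 EL.nil))
noncomputable def S154_169_290_364_16 : EL := (EL.cons 4 (TM.mk (P.cons (P.cons (P.lf 0 272906069 0) (P.cons (P.lf 37644818 0 0) (P.cons (P.lf 4847563 0 0) (P.lf 0 323170 0)))) (P.cons (P.cons (P.lf 0 98885703 0) (P.cons (P.lf 2053159 0 0) (P.cons (P.lf 264387 0 0) (P.lf 0 17624 0)))) (P.cons (P.cons (P.lf 16998852 0 0) (P.cons (P.lf 0 509458 0) (P.cons (P.lf 0 65604 0) (P.lf 4374 0 0)))) (P.cons (P.cons (P.lf 388577 0 0) (P.cons (P.lf 0 39516 0) (P.cons (P.lf 0 5087 0) P.nil))) (P.cons (P.cons (P.lf 0 89611 0) (P.cons (P.lf 1863 0 0) P.nil)) (P.cons (P.cons (P.lf 0 3060 0) P.nil) P.nil)))))) 2218)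
 (EL.cons 8 (TM.mk (P.cons (P.cons (P.lf 0 163566720 0) (P.cons (P.lf 22562486 0 0) (P.cons (P.lf 2905395 0 0) (P.lf 0 193692 0)))) (P.cons (P.cons (P.lf 0 77578998 0) (P.cons (P.lf 3756488 0 0) (P.cons (P.lf 483726 0 0) (P.lf 0 32247 0)))) (P.cons (P.cons (P.lf 2311382 0 0) (P.cons (P.lf 3713 0 0) (P.cons (P.lf 477 0 0) (P.lf 0 31 0)))) (P.cons (P.cons (P.lf 824988 0 0) (P.cons (P.lf 0 34931 0) (P.cons (P.lf 0 4497 0) P.nil))) (P.cons (P.cons (P.lf 6180 0 0) (P.cons (P.lf 0 2032 0) P.nil)) (P.cons (P.cons (P.lf 0 3396 0) P.nil) P.nil)))))) 1370)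
 EL.nil))
noncomputable def S154_169_290_364_17 : EL := (EL.cons 4 (TM.mk (P.cons (P.cons (P.lf 0 46480306 0) (P.cons (P.lf 12823039 0 0) (P.cons (P.lf 766827 0 0) (P.cons (P.lf 0 337854 0) (P.cons (P.lf 518 0 0) (P.cons (P.lf 1954 0 0) P.nil)))))) (P.cons (P.cons (P.lf 0 38913937 0) (P.cons (P.lf 6788650 0 0) (P.cons (P.lf 678189 0 0) (P.cons (P.lf 0 108753 0) (P.cons (P.lf 114 0 0) P.nil))))) (P.cons (P.cons (P.lf 0 4749936 0) (P.cons (P.lf 61305 0 0) (P.cons (P.lf 6025 0 0) (P.cons (P.lf 0 1005 0) P.nil)))) (P.cons (P.cons (P.lf 1658269 0 0) (P.cons (P.lf 0 125865 0) (P.cons (P.lf 0 13282 0) P.nil))) (P.cons (P.cons (P.lf 27829 0 0) (P.cons (P.lf 0 6116 0) P.nil)) (P.cons (P.cons (P.lf 0 13584 0) P.nil) P.nil)))))) 11551)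
 (EL.cons 8 (TM.mk (P.cons (P.cons (P.lf 0 27858051 0) (P.cons (P.lf 7685510 0 0) (P.cons (P.lf 459599 0 0) (P.cons (P.lf 0 202493 0) (P.cons (P.lf 311 0 0) (P.cons (P.lf 1171 0 0) P.nil)))))) (P.cons (P.cons (P.lf 0 26441910 0) (P.cons (P.lf 4929200 0 0) (P.cons (P.lf 457927 0 0) (P.cons (P.lf 0 87851 0) (P.cons (P.lf 103 0 0) P.nil))))) (P.cons (P.cons (P.lf 0 5669460 0) (P.cons (P.lf 550602 0 0) (P.cons (P.lf 52606 0 0) (P.cons (P.lf 0 9437 0) P.nil)))) (P.cons (P.cons (P.lf 481317 0 0) (P.cons (P.lf 0 35803 0) (P.cons (P.lf 0 4193 0) P.nil))) (P.cons (P.cons (P.lf 90948 0 0) (P.cons (P.lf 0 9013 0) P.nil)) (P.cons (P.cons (P.lf 0 1665 0) P.nil) P.nil)))))) 7227)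
 EL.nil))
noncomputable def S154_169_290_364_18 : EL := (EL.cons 4 (TM.mk (P.cons (P.lf 1010812316 0 0) (P.cons (P.lf 0 170615069 0) (P.cons (P.lf 2877933 0 0) (P.cons (P.lf 577438 0 0) (P.cons (P.lf 0 318 0) (P.cons (P.lf 0 1395 0) P.nil)))))) 149)
 (EL.cons 8 (TM.mk (P.cons (P.lf 605832095 0 0) (P.cons (P.lf 0 34434094 0) (P.cons (P.lf 0 5123725 0) (P.cons (P.lf 127889 0 0) (P.cons (P.lf 19006 0 0) (P.cons (P.lf 218 0 0) P.nil)))))) 96)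
 EL.nil))
noncomputable def S154_169_290_364_19 : EL := (EL.cons 4 (TM.mk (P.cons (P.cons (P.lf 172157648 0 0) (P.cons (P.lf 0 23747523 0) (P.cons (P.lf 0 3057993 0) (P.lf 203865 0 0)))) (P.cons (P.cons (P.lf 52694015 0 0) (P.cons (P.lf 40917 0 0) (P.cons (P.lf 5268 0 0) (P.lf 0 351 0)))) (P.cons (P.cons (P.lf 0 14614713 0) (P.cons (P.lf 446891 0 0) (P.cons (P.lf 57546 0 0) (P.lf 0 3837 0)))) (P.cons (P.cons (P.lf 220004 0 0) (P.cons (P.lf 9707 0 0) (P.cons (P.lf 1248 0 0) P.nil))) (P.cons (P.cons (P.lf 94464 0 0) (P.cons (P.lf 0 3339 0) P.nil)) (P.cons (P.cons (P.lf 0 573 0) P.nil) P.nil)))))) 2250)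
 (EL.cons 8 (TM.mk (P.cons (P.cons (P.lf 103182982 0 0) (P.cons (P.lf 0 14233119 0) (P.cons (P.lf 0 1832813 0) (P.lf 122187 0 0)))) (P.cons (P.cons (P.lf 43133828 0 0) (P.cons (P.lf 0 1568907 0) (P.cons (P.lf 0 202029 0) (P.lf 13467 0 0)))) (P.cons (P.cons (P.lf 0 4440284 0) (P.cons (P.lf 162533 0 0) (P.cons (P.lf 20929 0 0) (P.lf 0 1395 0)))) (P.cons (P.cons (P.lf 0 546826 0) (P.cons (P.lf 27414 0 0) (P.cons (P.lf 3529 0 0) P.nil))) (P.cons (P.cons (P.lf 28842 0 0) (P.cons (P.lf 17 0 0) P.nil)) (P.cons (P.cons (P.lf 3619 0 0) P.nil) P.nil)))))) 1342)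
 EL.nil))
noncomputable def S154_169_290_364_20 : EL := (EL.cons 4 (TM.mk (P.cons (P.cons (P.lf 29321224 0 0) (P.cons (P.lf 0 8089172 0) (P.cons (P.lf 0 483738 0) (P.cons (P.lf 213128 0 0) (P.cons (P.lf 0 327 0) (P.cons (P.lf 0 1232 0) P.nil)))))) (P.cons (P.cons (P.lf 22898413 0 0) (P.cons (P.lf 0 3827368 0) (P.cons (P.lf 0 400605 0) (P.cons (P.lf 56613 0 0) (P.cons (P.lf 0 53 0) P.nil))))) (P.cons (P.cons (P.lf 1550257 0 0) (P.cons (P.lf 220202 0 0) (P.cons (P.lf 21341 0 0) (P.cons (P.lf 0 3696 0) P.nil)))) (P.cons (P.cons (P.lf 0 1269076 0) (P.cons (P.lf 91065 0 0) (P.cons (P.lf 9540 0 0) P.nil))) (P.cons (P.cons (P.lf 34727 0 0) (P.cons (P.lf 0 540 0) P.nil)) (P.cons (P.cons (P.lf 11927 0 0) P.nil) P.nil)))))) 9511)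
 (EL.cons 8 (TM.mk (P.cons (P.cons (P.lf 17573726 0 0) (P.cons (P.lf 0 4848259 0) (P.cons (P.lf 0 289929 0) (P.cons (P.lf 127739 0 0) (P.cons (P.lf 0 196 0) (P.cons (P.lf 0 739 0) P.nil)))))) (P.cons (P.cons (P.lf 15691623 0 0) (P.cons (P.lf 0 2836713 0) (P.cons (P.lf 0 272562 0) (P.cons (P.lf 48232 0 0) (P.cons (P.lf 0 54 0) P.nil))))) (P.cons (P.cons (P.lf 2599025 0 0) (P.cons (P.lf 0 161640 0) (P.cons (P.lf 0 16289 0) (P.cons (P.lf 2552 0 0) P.nil)))) (P.cons (P.cons (P.lf 0 541820 0) (P.cons (P.lf 49018 0 0) (P.cons (P.lf 5152 0 0) P.nil))) (P.cons (P.cons (P.lf 0 48175 0) (P.cons (P.lf 5173 0 0) P.nil)) (P.cons (P.cons (P.lf 4987 0 0) P.nil) P.nil)))))) 5584)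
 EL.nil))
noncomputable def S154_169_290_364_21 : EL := (EL.cons 4 (TM.mk (P.cons (P.cons (P.lf 0 3688971519 0) (P.cons (P.lf 179024853 0 0) (P.cons (P.lf 23053224 0 0) (P.lf 0 1536879 0)))) (P.cons (P.cons (P.lf 0 2363238 0) (P.cons (P.lf 19836609 0 0) (P.cons (P.lf 2554380 0 0) (P.lf 0 170283 0)))) (P.cons (P.cons (P.lf 53489328 0 0) (P.cons (P.lf 0 909909 0) (P.cons (P.lf 0 117174 0) (P.lf 7815 0 0)))) (P.cons (P.cons (P.lf 2108373 0 0) (P.cons (P.lf 0 195219 0) (P.cons (P.lf 0 25134 0) P.nil))) (P.cons (P.cons (P.lf 0 175005 0) (P.cons (P.lf 0 4506 0) P.nil)) (P.cons (P.cons (P.lf 0 12828 0) P.nil) P.nil)))))) 6498)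
 (EL.cons 8 (TM.mk (P.cons (P.cons (P.lf 2188421748 0 0) (P.cons (P.lf 0 106203561 0) (P.cons (P.lf 0 13675953 0) (P.lf 911733 0 0)))) (P.cons (P.cons (P.lf 0 243597033 0) (P.cons (P.lf 121989 0 0) (P.cons (P.lf 15708 0 0) (P.lf 0 1044 0)))) (P.cons (P.cons (P.lf 0 21074814 0) (P.cons (P.lf 1332420 0 0) (P.cons (P.lf 171576 0 0) (P.lf 0 11433 0)))) (P.cons (P.cons (P.lf 1639386 0 0) (P.cons (P.lf 29718 0 0) (P.cons (P.lf 3831 0 0) P.nil))) (P.cons (P.cons (P.lf 122406 0 0) (P.cons (P.lf 0 5757 0) P.nil)) (P.cons (P.cons (P.lf 0 2487 0) P.nil) P.nil)))))) 4749)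
 (EL.cons 11 (TM.mk (P.cons (P.cons (P.lf 920516919 0 0) (P.cons (P.lf 262786779 0 0) (P.cons (P.lf 0 19656027 0) (P.cons (P.lf 0 1324527 0) (P.lf 66225 0 0))))) (P.cons (P.cons (P.lf 102525369 0 0) (P.cons (P.lf 29268675 0 0) (P.cons (P.lf 0 2189247 0) (P.cons (P.lf 0 147522 0) (P.lf 7374 0 0))))) (P.cons (P.cons (P.lf 1154814 0 0) (P.cons (P.lf 329673 0 0) (P.cons (P.lf 0 24657 0) (P.cons (P.lf 0 1659 0) P.nil)))) (P.cons (P.cons (P.lf 0 227925 0) (P.cons (P.lf 0 65067 0) (P.cons (P.lf 4866 0 0) P.nil))) (P.cons (P.cons (P.lf 0 8154 0) (P.cons (P.lf 0 2328 0) P.nil)) (P.cons (P.cons (P.lf 123 0 0) P.nil) P.nil)))))) 861)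
 EL.nil)))
noncomputable def S154_169_290_364_22 : EL := (EL.cons 4 (TM.mk (P.cons (P.cons (P.lf 0 628291377 0) (P.cons (P.lf 117157692 0 0) (P.cons (P.lf 10880601 0 0) (P.cons (P.lf 0 2088966 0) (P.cons (P.lf 2469 0 0) (P.cons (P.lf 9297 0 0) P.nil)))))) (P.cons (P.cons (P.lf 0 298759269 0) (P.cons (P.lf 32392368 0 0) (P.cons (P.lf 3002496 0 0) (P.cons (P.lf 0 579063 0) (P.cons (P.lf 684 0 0) P.nil))))) (P.cons (P.cons (P.lf 13684713 0 0) (P.cons (P.lf 536967 0 0) (P.cons (P.lf 0 14817 0) (P.cons (P.lf 0 26226 0) P.nil)))) (P.cons (P.cons (P.lf 5898141 0 0) (P.cons (P.lf 0 480885 0) (P.cons (P.lf 0 55323 0) P.nil))) (P.cons (P.cons (P.lf 88524 0 0) (P.cons (P.lf 0 37893 0) P.nil)) (P.cons (P.cons (P.lf 0 38904 0) P.nil) P.nil)))))) 31728)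
 (EL.cons 8 (TM.mk (P.cons (P.cons (P.lf 372723537 0 0) (P.cons (P.lf 0 69501876 0) (P.cons (P.lf 0 6454737 0) (P.cons (P.lf 1239246 0 0) (P.cons (P.lf 0 1464 0) (P.cons (P.lf 0 5514 0) P.nil)))))) (P.cons (P.cons (P.lf 135506748 0 0) (P.cons (P.lf 0 11435343 0) (P.cons (P.lf 0 1058559 0) (P.cons (P.lf 204786 0 0) (P.cons (P.lf 0 243 0) P.nil))))) (P.cons (P.cons (P.lf 0 26118234 0) (P.cons (P.lf 1489317 0 0) (P.cons (P.lf 176301 0 0) (P.cons (P.lf 0 16770 0) P.nil)))) (P.cons (P.cons (P.lf 0 1828320 0) (P.cons (P.lf 247239 0 0) (P.cons (P.lf 25008 0 0) P.nil))) (P.cons (P.cons (P.lf 250983 0 0) (P.cons (P.lf 0 6288 0) P.nil)) (P.cons (P.cons (P.lf 16704 0 0) P.nil) P.nil)))))) 16797)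
 (EL.cons 11 (TM.mk (P.cons (P.cons (P.lf 156778884 0 0) (P.cons (P.lf 23130660 0 0) (P.cons (P.lf 0 12306345 0) (P.cons (P.lf 0 373149 0) (P.cons (P.lf 154860 0 0) (P.cons (P.lf 0 1512 0) P.nil)))))) (P.cons (P.cons (P.lf 91911324 0 0) (P.cons (P.lf 20216904 0 0) (P.cons (P.lf 0 4457082 0) (P.cons (P.lf 0 173337 0) (P.cons (P.lf 46590 0 0) P.nil))))) (P.cons (P.cons (P.lf 7299525 0 0) (P.cons (P.lf 1513008 0 0) (P.cons (P.lf 0 392334 0) (P.cons (P.lf 0 14397 0) P.nil)))) (P.cons (P.cons (P.lf 0 379776 0) (P.cons (P.lf 0 115698 0) (P.cons (P.lf 5091 0 0) P.nil))) (P.cons (P.cons (P.lf 0 58965 0) (P.cons (P.lf 0 14367 0) P.nil)) (P.cons (P.cons (P.lf 0 594 0) P.nil) P.nil)))))) 15633)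
 EL.nil)))
noncomputable def S154_169_290_364_23 : EL := (EL.cons 4 (TM.mk (P.cons (P.cons (P.lf 2327118138 0 0) (P.cons (P.lf 0 112934451 0) (P.cons (P.lf 0 14542689 0) (P.lf 969510 0 0)))) (P.cons (P.cons (P.lf 0 129440664 0) (P.cons (P.lf 0 6159477 0) (P.cons (P.lf 0 793161 0) (P.lf 52869 0 0)))) (P.cons (P.cons (P.lf 0 38984703 0) (P.cons (P.lf 1528374 0 0) (P.cons (P.lf 196812 0 0) (P.lf 0 13122 0)))) (P.cons (P.cons (P.lf 566013 0 0) (P.cons (P.lf 118548 0 0) (P.cons (P.lf 15261 0 0) P.nil))) (P.cons (P.cons (P.lf 264768 0 0) (P.cons (P.lf 0 5592 0) P.nil)) (P.cons (P.cons (P.lf 4923 0 0) P.nil) P.nil)))))) 7371)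
 (EL.cons 8 (TM.mk (P.cons (P.cons (P.lf 0 1380524604 0) (P.cons (P.lf 66996513 0 0) (P.cons (P.lf 8627217 0 0) (P.lf 0 575148 0)))) (P.cons (P.cons (P.lf 231341538 0 0) (P.cons (P.lf 0 3846402 0) (P.cons (P.lf 0 495303 0) (P.lf 33018 0 0)))) (P.cons (P.cons (P.lf 7708692 0 0) (P.cons (P.lf 0 984699 0) (P.cons (P.lf 0 126798 0) (P.lf 8448 0 0)))) (P.cons (P.cons (P.lf 0 2123298 0) (P.cons (P.lf 28737 0 0) (P.cons (P.lf 3696 0 0) P.nil))) (P.cons (P.cons (P.lf 0 51258 0) (P.cons (P.lf 6684 0 0) P.nil)) (P.cons (P.cons (P.lf 8460 0 0) P.nil) P.nil)))))) 4650)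
 (EL.cons 11 (TM.mk (P.cons (P.cons (P.lf 0 580690743 0) (P.cons (P.lf 0 165774084 0) (P.cons (P.lf 12399633 0 0) (P.cons (P.lf 835551 0 0) (P.lf 0 41775 0))))) (P.cons (P.cons (P.lf 0 32004588 0) (P.cons (P.lf 0 9136584 0) (P.cons (P.lf 683400 0 0) (P.cons (P.lf 46050 0 0) (P.lf 0 2301 0))))) (P.cons (P.cons (P.lf 4197516 0 0) (P.cons (P.lf 1198296 0 0) (P.cons (P.lf 0 89631 0) (P.cons (P.lf 0 6039 0) P.nil)))) (P.cons (P.cons (P.lf 327909 0 0) (P.cons (P.lf 93609 0 0) (P.cons (P.lf 0 6999 0) P.nil))) (P.cons (P.cons (P.lf 0 2538 0) (P.cons (P.lf 0 723 0) P.nil)) (P.cons (P.cons (P.lf 0 843 0) P.nil) P.nil)))))) 1779)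
 EL.nil)))
noncomputable def S154_169_290_364_24 : EL := (EL.cons 4 (TM.mk (P.cons (P.cons (P.lf 396345771 0 0) (P.cons (P.lf 0 73906719 0) (P.cons (P.lf 0 6863820 0) (P.cons (P.lf 1317786 0 0) (P.cons (P.lf 0 1557 0) (P.cons (P.lf 0 5865 0) P.nil)))))) (P.cons (P.cons (P.lf 166166910 0 0) (P.cons (P.lf 0 16275873 0) (P.cons (P.lf 0 1507887 0) (P.cons (P.lf 291147 0 0) (P.cons (P.lf 0 345 0) P.nil))))) (P.cons (P.cons (P.lf 0 20115015 0) (P.cons (P.lf 974769 0 0) (P.cons (P.lf 131127 0 0) (P.cons (P.lf 0 6927 0) P.nil)))) (P.cons (P.cons (P.lf 0 3652614 0) (P.cons (P.lf 367680 0 0) (P.cons (P.lf 38568 0 0) P.nil))) (P.cons (P.cons (P.lf 173508 0 0) (P.cons (P.lf 7428 0 0) P.nil)) (P.cons (P.cons (P.lf 36330 0 0) P.nil) P.nil)))))) 23391)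
 (EL.cons 8 (TM.mk (P.cons (P.cons (P.lf 0 235125618 0) (P.cons (P.lf 43843947 0 0) (P.cons (P.lf 4071849 0 0) (P.cons (P.lf 0 781755 0) (P.cons (P.lf 924 0 0) (P.cons (P.lf 3477 0 0) P.nil)))))) (P.cons (P.cons (P.lf 0 72252921 0) (P.cons (P.lf 4746963 0 0) (P.cons (P.lf 438675 0 0) (P.cons (P.lf 0 85200 0) (P.cons (P.lf 99 0 0) P.nil))))) (P.cons (P.cons (P.lf 21806850 0 0) (P.cons (P.lf 0 1442559 0) (P.cons (P.lf 0 157812 0) (P.cons (P.lf 19581 0 0) P.nil)))) (P.cons (P.cons (P.lf 415737 0 0) (P.cons (P.lf 0 119079 0) (P.cons (P.lf 0 10998 0) P.nil))) (P.cons (P.cons (P.lf 0 260250 0) (P.cons (P.lf 14916 0 0) P.nil)) (P.cons (P.cons (P.lf 0 4365 0) P.nil) P.nil)))))) 12759)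
 (EL.cons 11 (TM.mk (P.cons (P.cons (P.lf 0 98901003 0) (P.cons (P.lf 0 14591541 0) (P.cons (P.lf 7763226 0 0) (P.cons (P.lf 235392 0 0) (P.cons (P.lf 0 97689 0) (P.cons (P.lf 954 0 0) P.nil)))))) (P.cons (P.cons (P.lf 0 52416024 0) (P.cons (P.lf 0 11932485 0) (P.cons (P.lf 2374881 0 0) (P.cons (P.lf 96102 0 0) (P.cons (P.lf 0 23895 0) P.nil))))) (P.cons (P.cons (P.lf 0 1123371 0) (P.cons (P.lf 0 204558 0) (P.cons (P.lf 72096 0 0) (P.cons (P.lf 2406 0 0) P.nil)))) (P.cons (P.cons (P.lf 627132 0 0) (P.cons (P.lf 154950 0 0) (P.cons (P.lf 0 23364 0) P.nil))) (P.cons (P.cons (P.lf 33702 0 0) (P.cons (P.lf 7038 0 0) P.nil)) (P.cons (P.cons (P.lf 0 2370 0) P.nil) P.nil)))))) 11889)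
 EL.nil)))
noncomputable def S154_169_290_364_25 : EL := (EL.cons 4 (TM.mk (P.cons (P.cons (P.lf 0 1468018608 0) (P.cons (P.lf 71242569 0 0) (P.cons (P.lf 9173982 0 0) (P.lf 0 611595 0)))) (P.cons (P.cons (P.lf 164250849 0 0) (P.cons (P.lf 0 122754 0) (P.cons (P.lf 0 15807 0) (P.lf 1056 0 0)))) (P.cons (P.cons (P.lf 23252454 0 0) (P.cons (P.lf 0 1340670 0) (P.cons (P.lf 0 172641 0) (P.lf 11508 0 0)))) (P.cons (P.cons (P.lf 0 1922265 0) (P.cons (P.lf 0 29124 0) (P.cons (P.lf 0 3747 0) P.nil))) (P.cons (P.cons (P.lf 0 204408 0) (P.cons (P.lf 10020 0 0) P.nil)) (P.cons (P.cons (P.lf 7188 0 0) P.nil) P.nil)))))) 6819)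
 (EL.cons 8 (TM.mk (P.cons (P.cons (P.lf 870877920 0 0) (P.cons (P.lf 0 42263487 0) (P.cons (P.lf 0 5442315 0) (P.lf 362820 0 0)))) (P.cons (P.cons (P.lf 0 194935959 0) (P.cons (P.lf 4804314 0 0) (P.cons (P.lf 618657 0 0) (P.lf 0 41241 0)))) (P.cons (P.cons (P.lf 1417731 0 0) (P.cons (P.lf 578337 0 0) (P.cons (P.lf 74472 0 0) (P.lf 0 4962 0)))) (P.cons (P.cons (P.lf 1936839 0 0) (P.cons (P.lf 0 58473 0) (P.cons (P.lf 0 7527 0) P.nil))) (P.cons (P.cons (P.lf 0 30525 0) (P.cons (P.lf 0 4659 0) P.nil)) (P.cons (P.cons (P.lf 0 10383 0) P.nil) P.nil)))))) 4044)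
 (EL.cons 11 (TM.mk (P.cons (P.cons (P.lf 366317808 0 0) (P.cons (P.lf 104575455 0 0) (P.cons (P.lf 0 7822074 0) (P.cons (P.lf 0 527091 0) (P.lf 26352 0 0))))) (P.cons (P.cons (P.lf 0 420777 0) (P.cons (P.lf 0 120120 0) (P.cons (P.lf 8985 0 0) (P.cons (P.lf 603 0 0) (P.lf 0 30 0))))) (P.cons (P.cons (P.lf 0 4595799 0) (P.cons (P.lf 0 1311996 0) (P.cons (P.lf 98133 0 0) (P.cons (P.lf 6612 0 0) P.nil)))) (P.cons (P.cons (P.lf 0 102486 0) (P.cons (P.lf 0 29256 0) (P.cons (P.lf 2187 0 0) P.nil))) (P.cons (P.cons (P.lf 19863 0 0) (P.cons (P.lf 5670 0 0) P.nil)) (P.cons (P.cons (P.lf 957 0 0) P.nil) P.nil)))))) 2034)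
 EL.nil)))
noncomputable def S154_169_290_364_26 : EL := (EL.cons 4 (TM.mk (P.cons (P.cons (P.lf 0 250027257 0) (P.cons (P.lf 46622661 0 0) (P.cons (P.lf 4329912 0 0) (P.cons (P.lf 0 831300 0) (P.cons (P.lf 981 0 0) (P.cons (P.lf 3699 0 0) P.nil)))))) (P.cons (P.cons (P.lf 0 90755889 0) (P.cons (P.lf 7644180 0 0) (P.cons (P.lf 707604 0 0) (P.cons (P.lf 0 136893 0) (P.cons (P.lf 162 0 0) P.nil))))) (P.cons (P.cons (P.lf 19141074 0 0) (P.cons (P.lf 0 1295928 0) (P.cons (P.lf 0 145836 0) (P.cons (P.lf 16545 0 0) P.nil)))) (P.cons (P.cons (P.lf 1822497 0 0) (P.cons (P.lf 0 220086 0) (P.cons (P.lf 0 21783 0) P.nil))) (P.cons (P.cons (P.lf 0 267768 0) (P.cons (P.lf 9822 0 0) P.nil)) (P.cons (P.cons (P.lf 0 22086 0) P.nil) P.nil)))))) 18246)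
 (EL.cons 8 (TM.mk (P.cons (P.cons (P.lf 148324563 0 0) (P.cons (P.lf 0 27658128 0) (P.cons (P.lf 0 2568648 0) (P.cons (P.lf 493155 0 0) (P.cons (P.lf 0 582 0) (P.cons (P.lf 0 2193 0) P.nil)))))) (P.cons (P.cons (P.lf 37234155 0 0) (P.cons (P.lf 0 1438392 0) (P.cons (P.lf 0 132207 0) (P.cons (P.lf 25998 0 0) (P.cons (P.lf 0 30 0) P.nil))))) (P.cons (P.cons (P.lf 0 16649655 0) (P.cons (P.lf 1139799 0 0) (P.cons (P.lf 120816 0 0) (P.cons (P.lf 0 16467 0) P.nil)))) (P.cons (P.cons (P.lf 410748 0 0) (P.cons (P.lf 30543 0 0) (P.cons (P.lf 1947 0 0) P.nil))) (P.cons (P.cons (P.lf 209739 0 0) (P.cons (P.lf 0 15711 0) P.nil)) (P.cons (P.cons (P.lf 0 5805 0) P.nil) P.nil)))))) 9870)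
 (EL.cons 11 (TM.mk (P.cons (P.cons (P.lf 62389833 0 0) (P.cons (P.lf 9204798 0 0) (P.cons (P.lf 0 4897284 0) (P.cons (P.lf 0 148491 0) (P.cons (P.lf 61626 0 0) (P.cons (P.lf 0 600 0) P.nil)))))) (P.cons (P.cons (P.lf 29555397 0 0) (P.cons (P.lf 7009488 0 0) (P.cons (P.lf 0 1222611 0) (P.cons (P.lf 0 52269 0) (P.cons (P.lf 11604 0 0) P.nil))))) (P.cons (P.cons (P.lf 0 1290012 0) (P.cons (P.lf 0 314874 0) (P.cons (P.lf 49662 0 0) (P.cons (P.lf 2220 0 0) P.nil)))) (P.cons (P.cons (P.lf 0 508752 0) (P.cons (P.lf 0 121689 0) (P.cons (P.lf 20616 0 0) P.nil))) (P.cons (P.cons (P.lf 0 432 0) (P.cons (P.lf 795 0 0) P.nil)) (P.cons (P.cons (P.lf 3639 0 0) P.nil) P.nil)))))) 9387)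
 EL.nil)))
noncomputable def S154_169_290_364_27 : EL := (EL.cons 13 (TM.mk (P.lf 0 4294967296 0) 0)
 EL.nil)
noncomputable def S154_169_290_364_28 : EL := (EL.cons 13 (TM.mk (P.cons (P.cons (P.lf 0 731502240 0) (P.cons (P.lf 100903836 0 0) (P.cons (P.lf 12993496 0 0) (P.lf 0 866232 0)))) (P.cons (P.cons (P.lf 0 347368522 0) (P.cons (P.lf 16857704 0 0) (P.cons (P.lf 2170784 0 0) (P.lf 0 144716 0)))) (P.cons (P.cons (P.lf 5548635 0 0) (P.cons (P.lf 659272 0 0) (P.cons (P.lf 84892 0 0) (P.lf 0 5656 0)))) (P.cons (P.cons (P.lf 1408638 0 0) (P.cons (P.lf 0 35612 0) (P.cons (P.lf 0 4584 0) P.nil))) (P.cons (P.cons (P.lf 18789 0 0) (P.cons (P.lf 0 3296 0) P.nil)) (P.cons (P.cons (P.lf 0 2688 0) P.nil) P.nil)))))) 1593)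
 EL.nil)
noncomputable def S154_169_290_364_29 : EL := (EL.cons 13 (TM.mk (P.cons (P.cons (P.lf 0 124586635 0) (P.cons (P.lf 34371103 0 0) (P.cons (P.lf 2055419 0 0) (P.cons (P.lf 0 905592 0) (P.cons (P.lf 1392 0 0) (P.cons (P.lf 5241 0 0) P.nil)))))) (P.cons (P.cons (P.lf 0 118324929 0) (P.cons (P.lf 22064086 0 0) (P.cons (P.lf 2049122 0 0) (P.cons (P.lf 0 393410 0) (P.cons (P.lf 465 0 0) P.nil))))) (P.cons (P.cons (P.lf 0 26204439 0) (P.cons (P.lf 2690691 0 0) (P.cons (P.lf 249338 0 0) (P.cons (P.lf 0 48115 0) P.nil)))) (P.cons (P.cons (P.lf 1377352 0 0) (P.cons (P.lf 0 15233 0) (P.cons (P.lf 0 5463 0) P.nil))) (P.cons (P.cons (P.lf 227087 0 0) (P.cons (P.lf 0 20527 0) P.nil)) (P.cons (P.cons (P.lf 0 1516 0) P.nil) P.nil)))))) 16065)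
 EL.nil)
noncomputable def S154_169_290_364_30 : EL := (EL.cons 13 (TM.mk (P.cons (P.lf 2709399152 0 0) (P.cons (P.lf 0 152439880 0) (P.cons (P.lf 0 6005424 0) (P.cons (P.lf 1008 0 0) (P.cons (P.lf 5528 0 0) (P.cons (P.lf 124 0 0) P.nil)))))) 64)
 EL.nil)
noncomputable def S154_169_290_364_31 : EL := (EL.cons 13 (TM.mk (P.cons (P.cons (P.lf 461454398 0 0) (P.cons (P.lf 0 63653282 0) (P.cons (P.lf 0 8196702 0) (P.lf 546446 0 0)))) (P.cons (P.cons (P.lf 193167912 0 0) (P.cons (P.lf 0 7053017 0) (P.cons (P.lf 0 908224 0) (P.lf 60546 0 0)))) (P.cons (P.cons (P.lf 0 16852110 0) (P.cons (P.lf 323524 0 0) (P.cons (P.lf 41662 0 0) (P.lf 0 2779 0)))) (P.cons (P.cons (P.lf 0 1177212 0) (P.cons (P.lf 69412 0 0) (P.cons (P.lf 8937 0 0) P.nil))) (P.cons (P.cons (P.lf 46925 0 0) (P.cons (P.lf 1603 0 0) P.nil)) (P.cons (P.cons (P.lf 4799 0 0) P.nil) P.nil)))))) 2164)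
 EL.nil)
noncomputable def S154_169_290_364_32 : EL := (EL.cons 13 (TM.mk (P.cons (P.cons (P.lf 78593130 0 0) (P.cons (P.lf 0 21682362 0) (P.cons (P.lf 0 1296622 0) (P.cons (P.lf 571275 0 0) (P.cons (P.lf 0 878 0) (P.cons (P.lf 0 3306 0) P.nil)))))) (P.cons (P.cons (P.lf 70221137 0 0) (P.cons (P.lf 0 12698790 0) (P.cons (P.lf 0 1219697 0) (P.cons (P.lf 216033 0 0) (P.cons (P.lf 0 243 0) P.nil))))) (P.cons (P.cons (P.lf 12156705 0 0) (P.cons (P.lf 0 866198 0) (P.cons (P.lf 0 81687 0) (P.cons (P.lf 15123 0 0) P.nil)))) (P.cons (P.cons (P.lf 0 1964360 0) (P.cons (P.lf 135952 0 0) (P.cons (P.lf 15160 0 0) P.nil))) (P.cons (P.cons (P.lf 0 130819 0) (P.cons (P.lf 16121 0 0) P.nil)) (P.cons (P.cons (P.lf 11104 0 0) P.nil) P.nil)))))) 15076)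
 EL.nil)
noncomputable def S154_169_290_364_33 : EL := (EL.cons 14 (TM.mk (P.lf 8589934592 0 0) 0)
 EL.nil)
noncomputable def S154_169_290_364_34 : EL := (EL.cons 14 (TM.mk (P.cons (P.cons (P.lf 1463004480 0 0) (P.cons (P.lf 0 201807672 0) (P.cons (P.lf 0 25986992 0) (P.lf 1732464 0 0)))) (P.cons (P.cons (P.lf 694737044 0 0) (P.cons (P.lf 0 33715408 0) (P.cons (P.lf 0 4341568 0) (P.lf 289432 0 0)))) (P.cons (P.cons (P.lf 0 11097270 0) (P.cons (P.lf 0 1318544 0) (P.cons (P.lf 0 169784 0) (P.lf 11312 0 0)))) (P.cons (P.cons (P.lf 0 2817276 0) (P.cons (P.lf 71224 0 0) (P.cons (P.lf 9168 0 0) P.nil))) (P.cons (P.cons (P.lf 0 37578 0) (P.cons (P.lf 6592 0 0) P.nil)) (P.cons (P.cons (P.lf 5376 0 0) P.nil) P.nil)))))) 3186)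
 EL.nil)
noncomputable def S154_169_290_364_35 : EL := (EL.cons 14 (TM.mk (P.cons (P.cons (P.lf 249173270 0 0) (P.cons (P.lf 0 68742206 0) (P.cons (P.lf 0 4110838 0) (P.cons (P.lf 1811184 0 0) (P.cons (P.lf 0 2784 0) (P.cons (P.lf 0 10482 0) P.nil)))))) (P.cons (P.cons (P.lf 236649858 0 0) (P.cons (P.lf 0 44128172 0) (P.cons (P.lf 0 4098244 0) (P.cons (P.lf 786820 0 0) (P.cons (P.lf 0 930 0) P.nil))))) (P.cons (P.cons (P.lf 52408878 0 0) (P.cons (P.lf 0 5381382 0) (P.cons (P.lf 0 498676 0) (P.cons (P.lf 96230 0 0) P.nil)))) (P.cons (P.cons (P.lf 0 2754704 0) (P.cons (P.lf 30466 0 0) (P.cons (P.lf 10926 0 0) P.nil))) (P.cons (P.cons (P.lf 0 454174 0) (P.cons (P.lf 41054 0 0) P.nil)) (P.cons (P.cons (P.lf 3032 0 0) P.nil) P.nil)))))) 32130)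
 EL.nil)
noncomputable def S154_169_290_364_36 : EL := (EL.cons 14 (TM.mk (P.cons (P.lf 0 5418798304 0) (P.cons (P.lf 304879760 0 0) (P.cons (P.lf 12010848 0 0) (P.cons (P.lf 0 2016 0) (P.cons (P.lf 0 11056 0) (P.cons (P.lf 0 248 0) P.nil)))))) 128)
 EL.nil)
noncomputable def S154_169_290_364_37 : EL := (EL.cons 14 (TM.mk (P.cons (P.cons (P.lf 0 922908796 0) (P.cons (P.lf 127306564 0 0) (P.cons (P.lf 16393404 0 0) (P.lf 0 1092892 0)))) (P.cons (P.cons (P.lf 0 386335824 0) (P.cons (P.lf 14106034 0 0) (P.cons (P.lf 1816448 0 0) (P.lf 0 121092 0)))) (P.cons (P.cons (P.lf 33704220 0 0) (P.cons (P.lf 0 647048 0) (P.cons (P.lf 0 83324 0) (P.lf 5558 0 0)))) (P.cons (P.cons (P.lf 2354424 0 0) (P.cons (P.lf 0 138824 0) (P.cons (P.lf 0 17874 0) P.nil))) (P.cons (P.cons (P.lf 0 93850 0) (P.cons (P.lf 0 3206 0) P.nil)) (P.cons (P.cons (P.lf 0 9598 0) P.nil) P.nil))))))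 4328)
 EL.nil)
noncomputable def S154_169_290_364_38 : EL := (EL.cons 14 (TM.mk (P.cons (P.cons (P.lf 0 157186260 0) (P.cons (P.lf 43364724 0 0) (P.cons (P.lf 2593244 0 0) (P.cons (P.lf 0 1142550 0) (P.cons (P.lf 1756 0 0) (P.cons (P.lf 6612 0 0) P.nil)))))) (P.cons (P.cons (P.lf 0 140442274 0) (P.cons (P.lf 25397580 0 0) (P.cons (P.lf 2439394 0 0) (P.cons (P.lf 0 432066 0) (P.cons (P.lf 486 0 0) P.nil))))) (P.cons (P.cons (P.lf 0 24313410 0) (P.cons (P.lf 1732396 0 0) (P.cons (P.lf 163374 0 0) (P.cons (P.lf 0 30246 0) P.nil)))) (P.cons (P.cons (P.lf 3928720 0 0) (P.cons (P.lf 0 271904 0) (P.cons (P.lf 0 30320 0) P.nil))) (P.cons (P.cons (P.lf 261638 0 0) (P.cons (P.lf 0 32242 0) P.nil)) (P.cons (P.cons (P.lf 0 22208 0) P.nil) P.nil)))))) 30152)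
 EL.nil)
noncomputable def S154_169_290_364_39 : EL := (EL.cons 14 (TM.mk (P.cons (P.lf 3418346756 0 0) (P.cons (P.lf 0 384655298 0) (P.cons (P.lf 0 4332634 0) (P.cons (P.lf 855136 0 0) (P.cons (P.lf 30598 0 0) (P.cons (P.lf 0 476 0) P.nil)))))) 234)
 EL.nil)
noncomputable def S154_169_290_364_40 : EL := (EL.cons 14 (TM.mk (P.cons (P.cons (P.lf 582199614 0 0) (P.cons (P.lf 0 80308946 0) (P.cons (P.lf 0 10341468 0) (P.lf 689430 0 0)))) (P.cons (P.cons (P.lf 210956168 0 0) (P.cons (P.lf 0 4380074 0) (P.cons (P.lf 0 564026 0) (P.lf 37598 0 0)))) (P.cons (P.cons (P.lf 0 36264218 0) (P.cons (P.lf 1086844 0 0) (P.cons (P.lf 139956 0 0) (P.lf 0 9332 0)))) (P.cons (P.cons (P.lf 0 828966 0) (P.cons (P.lf 84302 0 0) (P.cons (P.lf 10854 0 0) P.nil))) (P.cons (P.cons (P.lf 191172 0 0) (P.cons (P.lf 0 3976 0) P.nil)) (P.cons (P.cons (P.lf 6530 0 0) P.nil) P.nil)))))) 4692)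
 EL.nil)
noncomputable def S154_169_290_364_41 : EL := (EL.cons 14 (TM.mk (P.cons (P.cons (P.lf 99157988 0 0) (P.cons (P.lf 0 27355818 0) (P.cons (P.lf 0 1635898 0) (P.cons (P.lf 720756 0 0) (P.cons (P.lf 0 1106 0) (P.cons (P.lf 0 4170 0) P.nil)))))) (P.cons (P.cons (P.lf 83016400 0 0) (P.cons (P.lf 0 14482454 0) (P.cons (P.lf 0 1446804 0) (P.cons (P.lf 232008 0 0) (P.cons (P.lf 0 244 0) P.nil))))) (P.cons (P.cons (P.lf 10133198 0 0) (P.cons (P.lf 0 130786 0) (P.cons (P.lf 0 12854 0) (P.cons (P.lf 2146 0 0) P.nil)))) (P.cons (P.cons (P.lf 0 3537642 0) (P.cons (P.lf 268514 0 0) (P.cons (P.lf 28336 0 0) P.nil))) (P.cons (P.cons (P.lf 0 59370 0) (P.cons (P.lf 13048 0 0) P.nil)) (P.cons (P.cons (P.lf 28980 0 0) P.nil) P.nil)))))) 24596)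
 EL.nil)
noncomputable def S154_169_290_364_42 : EL := (EL.cons 14 (TM.mk (P.cons (P.lf 0 2156399608 0) (P.cons (P.lf 363978814 0 0) (P.cons (P.lf 0 6139592 0) (P.cons (P.lf 0 1231868 0) (P.cons (P.lf 680 0 0) (P.cons (P.lf 2978 0 0) P.nil)))))) 304)
 EL.nil)
noncomputable def S154_169_290_364_43 : EL := (EL.cons 14 (TM.mk (P.cons (P.cons (P.lf 0 367269650 0) (P.cons (P.lf 50661384 0 0) (P.cons (P.lf 6523720 0 0) (P.lf 0 434914 0)))) (P.cons (P.cons (P.lf 0 112413900 0) (P.cons (P.lf 0 87290 0) (P.cons (P.lf 0 11240 0) (P.lf 750 0 0)))) (P.cons (P.cons (P.lf 31178056 0 0) (P.cons (P.lf 0 953368 0) (P.cons (P.lf 0 122766 0) (P.lf 8186 0 0)))) (P.cons (P.cons (P.lf 0 469342 0) (P.cons (P.lf 0 20710 0) (P.cons (P.lf 0 2664 0) P.nil))) (P.cons (P.cons (P.lf 0 201524 0) (P.cons (P.lf 7124 0 0) P.nil)) (P.cons (P.cons (P.lf 1224 0 0) P.nil) P.nil)))))) 4760)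
 EL.nil)
noncomputable def S154_169_290_364_44 : EL := (EL.cons 14 (TM.mk (P.cons (P.cons (P.lf 0 62551946 0) (P.cons (P.lf 17256902 0 0) (P.cons (P.lf 1031976 0 0) (P.cons (P.lf 0 454674 0) (P.cons (P.lf 698 0 0) (P.cons (P.lf 2630 0 0) P.nil)))))) (P.cons (P.cons (P.lf 0 48849948 0) (P.cons (P.lf 8165052 0 0) (P.cons (P.lf 854626 0 0) (P.cons (P.lf 0 120776 0) (P.cons (P.lf 114 0 0) P.nil))))) (P.cons (P.cons (P.lf 0 3307216 0) (P.cons (P.lf 0 469766 0) (P.cons (P.lf 0 45528 0) (P.cons (P.lf 7886 0 0) P.nil)))) (P.cons (P.cons (P.lf 2707364 0 0) (P.cons (P.lf 0 194272 0) (P.cons (P.lf 0 20354 0) P.nil))) (P.cons (P.cons (P.lf 0 74086 0) (P.cons (P.lf 1154 0 0) P.nil)) (P.cons (P.cons (P.lf 0 25446 0) P.nil) P.nil)))))) 20244)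
 EL.nil)
noncomputable def S154_169_290_364_45 : EL := (EL.cons 14 (TM.mk (P.cons (P.cons (P.lf 42438228 0 0) (P.cons (P.lf 0 17561860 0) (P.cons (P.lf 161032 0 0) (P.cons (P.lf 663270 0 0) (P.cons (P.lf 0 44452 0) (P.cons (P.lf 0 8028 0) P.nil)))))) (P.cons (P.cons (P.lf 60457934 0 0) (P.cons (P.lf 0 19613210 0) (P.cons (P.lf 0 565806 0) (P.cons (P.lf 617278 0 0) (P.cons (P.lf 0 22716 0) P.nil))))) (P.cons (P.cons (P.lf 27743948 0 0) (P.cons (P.lf 0 6595092 0) (P.cons (P.lf 0 383982 0) (P.cons (P.lf 164932 0 0) P.nil)))) (P.cons (P.cons (P.lf 3382108 0 0) (P.cons (P.lf 0 525738 0) (P.cons (P.lf 0 27784 0) P.nil))) (P.cons (P.cons (P.lf 0 446558 0) (P.cons (P.lf 46772 0 0) P.nil)) (P.cons (P.cons (P.lf 0 50724 0) P.nil) P.nil)))))) 70654)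
 EL.nil)
noncomputable def S154_169_290_364_46 : EL := (EL.cons 15 (TM.mk (P.lf 4294967296 0 0) 0)
 EL.nil)
noncomputable def S154_169_290_364_47 : EL := (EL.cons 15 (TM.mk (P.cons (P.cons (P.lf 731502240 0 0) (P.cons (P.lf 0 100903836 0) (P.cons (P.lf 0 12993496 0) (P.lf 866232 0 0)))) (P.cons (P.cons (P.lf 347368522 0 0) (P.cons (P.lf 0 16857704 0) (P.cons (P.lf 0 2170784 0) (P.lf 144716 0 0)))) (P.cons (P.cons (P.lf 0 5548635 0) (P.cons (P.lf 0 659272 0) (P.cons (P.lf 0 84892 0) (P.lf 5656 0 0)))) (P.cons (P.cons (P.lf 0 1408638 0) (P.cons (P.lf 35612 0 0) (P.cons (P.lf 4584 0 0) P.nil))) (P.cons (P.cons (P.lf 0 18789 0) (P.cons (P.lf 3296 0 0) P.nil)) (P.cons (P.cons (P.lf 2688 0 0) P.nil) P.nil)))))) 1593)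
 EL.nil)
noncomputable def S154_169_290_364_48 : EL := (EL.cons 15 (TM.mk (P.cons (P.cons (P.lf 124586635 0 0) (P.cons (P.lf 0 34371103 0) (P.cons (P.lf 0 2055419 0) (P.cons (P.lf 905592 0 0) (P.cons (P.lf 0 1392 0) (P.cons (P.lf 0 5241 0) P.nil)))))) (P.cons (P.cons (P.lf 118324929 0 0) (P.cons (P.lf 0 22064086 0) (P.cons (P.lf 0 2049122 0) (P.cons (P.lf 393410 0 0) (P.cons (P.lf 0 465 0) P.nil))))) (P.cons (P.cons (P.lf 26204439 0 0) (P.cons (P.lf 0 2690691 0) (P.cons (P.lf 0 249338 0) (P.cons (P.lf 48115 0 0) P.nil)))) (P.cons (P.cons (P.lf 0 1377352 0) (P.cons (P.lf 15233 0 0) (P.cons (P.lf 5463 0 0) P.nil))) (P.cons (P.cons (P.lf 0 227087 0) (P.cons (P.lf 20527 0 0) P.nil)) (P.cons (P.cons (P.lf 1516 0 0) P.nil) P.nil)))))) 16065)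
 EL.nil)
noncomputable def S154_169_290_364 : SL := (SL.cons S154_169_290_364_0 (SL.cons S154_169_290_364_1 (SL.cons S154_169_290_364_2 (SL.cons S154_169_290_364_3 (SL.cons S154_169_290_364_4 (SL.cons S154_169_290_364_5 (SL.cons S154_169_290_364_6 (SL.cons S154_169_290_364_7 (SL.cons S154_169_290_364_8 (SL.cons S154_169_290_364_9 (SL.cons S154_169_290_364_10 (SL.cons S154_169_290_364_11 (SL.cons S154_169_290_364_12 (SL.cons S154_169_290_364_13 (SL.cons S154_169_290_364_14 (SL.cons S154_169_290_364_15 (SL.cons S154_169_290_364_16 (SL.cons S154_169_290_364_17 (SL.cons S154_169_290_364_18 (SL.cons S154_169_290_364_19 (SL.cons S154_169_290_364_20 (SL.cons S154_169_290_364_21 (SL.cons S154_169_290_364_22 (SL.cons S154_169_290_364_23 (SL.cons S154_169_290_364_24 (SL.cons S154_169_290_364_25 (SL.cons S154_169_290_364_26 (SL.cons S154_169_290_364_27 (SL.cons S154_169_290_364_28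 (SL.cons S154_169_290_364_29 (SL.cons S154_169_290_364_30 (SL.cons S154_169_290_364_31 (SL.cons S154_169_290_364_32 (SL.cons S154_169_290_364_33 (SL.cons S154_169_290_364_34 (SL.cons S154_169_290_364_35 (SL.cons S154_169_290_364_36 (SL.cons S154_169_290_364_37 (SL.cons S154_169_290_364_38 (SL.cons S154_169_290_364_39 (SL.cons S154_169_290_364_40 (SL.cons S154_169_290_364_41 (SL.cons S154_169_290_364_42 (SL.cons S154_169_290_364_43 (SL.cons S154_169_290_364_44 (SL.cons S154_169_290_364_45 (SL.cons S154_169_290_364_46 (SL.cons S154_169_290_364_47 (SL.cons S154_169_290_364_48 SL.nil)))))))))))))))))))))))))))))))))))))))))))))))))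
noncomputable def S154_169_364_512_0 : EL := (EL.cons 0 (TM.mk (P.cons (P.lf 5451310535 0 0) (P.cons (P.lf 338075945 0 0) (P.cons (P.lf 3807979 0 0) (P.cons (P.lf 0 751584 0) (P.cons (P.lf 0 26892 0) (P.cons (P.lf 418 0 0) P.nil)))))) 212)
 (EL.cons 1 (TM.mk (P.cons (P.lf 0 1800696082 0) (P.cons (P.lf 1034199 0 0) (P.cons (P.lf 11296008 0 0) (P.cons (P.lf 258390 0 0) (P.cons (P.lf 0 13243 0) (P.cons (P.lf 0 742 0) P.nil)))))) 140)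
 (EL.cons 5 (TM.mk (P.cons (P.lf 5363200660 0 0) (P.cons (P.lf 0 120204780 0) (P.cons (P.lf 0 1353950 0) (P.cons (P.lf 267230 0 0) (P.cons (P.lf 9562 0 0) (P.cons (P.lf 0 146 0) P.nil)))))) 103)
 (EL.cons 9 (TM.mk (P.lf 6442450944 0 0) 2)
 EL.nil))))
noncomputable def S154_169_364_512_1 : EL := (EL.cons 0 (TM.mk (P.cons (P.cons (P.lf 0 3106269530 0) (P.cons (P.lf 257880037 0 0) (P.cons (P.lf 17241248 0 0) (P.lf 0 5747077 0)))) (P.cons (P.cons (P.lf 671308685 0 0) (P.cons (P.lf 0 54822734 0) (P.cons (P.lf 0 3665328 0) (P.lf 1221783 0 0)))) (P.cons (P.cons (P.lf 73942668 0 0) (P.cons (P.lf 0 15774728 0) (P.cons (P.lf 0 1054657 0) (P.lf 351547 0 0)))) (P.cons (P.cons (P.lf 0 3994543 0) (P.cons (P.lf 0 697283 0) (P.cons (P.lf 0 46609 0) P.nil))) (P.cons (P.cons (P.lf 0 621075 0) (P.cons (P.lf 63073 0 0) P.nil)) (P.cons (P.cons (P.lf 0 1881 0) P.nil) P.nil))))))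 68908)
 (EL.cons 1 (TM.mk (P.cons (P.cons (P.lf 0 151354673 0) (P.cons (P.lf 132365517 0 0) (P.cons (P.lf 8849641 0 0) (P.lf 0 2949878 0)))) (P.cons (P.cons (P.lf 0 352686599 0) (P.cons (P.lf 65376390 0 0) (P.cons (P.lf 4370909 0 0) (P.lf 0 1456963 0)))) (P.cons (P.cons (P.lf 20921216 0 0) (P.cons (P.lf 2898519 0 0) (P.cons (P.lf 193783 0 0) (P.lf 0 64592 0)))) (P.cons (P.cons (P.lf 4687170 0 0) (P.cons (P.lf 0 587638 0) (P.cons (P.lf 0 39279 0) P.nil))) (P.cons (P.cons (P.lf 0 39181 0) (P.cons (P.lf 0 48675 0) P.nil)) (P.cons (P.cons (P.lf 0 23372 0) P.nil) P.nil)))))) 36822)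
 (EL.cons 5 (TM.mk (P.cons (P.cons (P.lf 1674355192 0 0) (P.cons (P.lf 0 620310902 0) (P.cons (P.lf 0 41472542 0) (P.lf 13824178 0 0)))) (P.cons (P.cons (P.lf 239294245 0 0) (P.cons (P.lf 0 68822500 0) (P.cons (P.lf 0 4601306 0) (P.lf 1533770 0 0)))) (P.cons (P.cons (P.lf 0 40124824 0) (P.cons (P.lf 2154950 0 0) (P.cons (P.lf 144072 0 0) (P.lf 0 48020 0)))) (P.cons (P.cons (P.lf 0 736635 0) (P.cons (P.lf 434504 0 0) (P.cons (P.lf 29046 0 0) P.nil))) (P.cons (P.cons (P.lf 210904 0 0) (P.cons (P.lf 0 5140 0) P.nil)) (P.cons (P.cons (P.lf 5424 0 0) P.nil) P.nil)))))) 32756)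
 (EL.cons 9 (TM.mk (P.cons (P.cons (P.lf 502856292 0 0) (P.cons (P.lf 0 466429602 0) (P.cons (P.lf 0 31184394 0) (P.lf 10394796 0 0)))) (P.cons (P.cons (P.lf 421748613 0 0) (P.cons (P.lf 0 77925018 0) (P.cons (P.lf 0 5209884 0) (P.lf 1736628 0 0)))) (P.cons (P.cons (P.lf 0 12206560 0) (P.cons (P.lf 0 3047502 0) (P.cons (P.lf 0 203748 0) (P.lf 67914 0 0)))) (P.cons (P.cons (P.lf 0 1903155 0) (P.cons (P.lf 164628 0 0) (P.cons (P.lf 11004 0 0) P.nil))) (P.cons (P.cons (P.lf 0 8749 0) (P.cons (P.lf 15246 0 0) P.nil)) (P.cons (P.cons (P.lf 4194 0 0) P.nil) P.nil)))))) 7892)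
 (EL.cons 2 (TM.mk (P.cons (P.cons (P.lf 888037785 0 0) (P.cons (P.lf 137490547 0 0) (P.cons (P.lf 0 66238607 0) (P.cons (P.lf 0 2506660 0) (P.lf 626661 0 0))))) (P.cons (P.cons (P.lf 48943920 0 0) (P.cons (P.lf 7577746 0 0) (P.cons (P.lf 0 3650717 0) (P.cons (P.lf 0 138152 0) (P.lf 34537 0 0))))) (P.cons (P.cons (P.lf 0 6419171 0) (P.cons (P.lf 0 993847 0) (P.cons (P.lf 478805 0 0) (P.cons (P.lf 18118 0 0) P.nil)))) (P.cons (P.cons (P.lf 0 501463 0) (P.cons (P.lf 0 77639 0) (P.cons (P.lf 37403 0 0) P.nil))) (P.cons (P.cons (P.lf 3881 0 0) (P.cons (P.lf 601 0 0) P.nil)) (P.cons (P.cons (P.lf 1290 0 0) P.nil) P.nil)))))) 10407)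
 (EL.cons 6 (TM.mk (P.cons (P.cons (P.lf 532246968 0 0) (P.cons (P.lf 82405194 0 0) (P.cons (P.lf 0 39700224 0) (P.cons (P.lf 0 1502370 0) (P.lf 375591 0 0))))) (P.cons (P.cons (P.lf 88920933 0 0) (P.cons (P.lf 13767192 0 0) (P.cons (P.lf 0 6632598 0) (P.cons (P.lf 0 250995 0) (P.lf 62748 0 0))))) (P.cons (P.cons (P.lf 3477537 0 0) (P.cons (P.lf 538410 0 0) (P.cons (P.lf 0 259386 0) (P.cons (P.lf 0 9813 0) P.nil)))) (P.cons (P.cons (P.lf 0 187866 0) (P.cons (P.lf 0 29085 0) (P.cons (P.lf 14010 0 0) P.nil))) (P.cons (P.cons (P.lf 0 17400 0) (P.cons (P.lf 0 2691 0) P.nil)) (P.cons (P.cons (P.lf 0 141 0) P.nil) P.nil)))))) 5778)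
 EL.nil))))))
noncomputable def S154_169_364_512_2 : EL := (EL.cons 0 (TM.mk (P.cons (P.cons (P.lf 0 518122186 0) (P.cons (P.lf 551652092 0 0) (P.cons (P.lf 0 29032539 0) (P.cons (P.lf 0 21107853 0) (P.cons (P.lf 2643287 0 0) (P.cons (P.lf 196415 0 0) P.nil)))))) (P.cons (P.cons (P.lf 0 359670367 0) (P.cons (P.lf 68932600 0 0) (P.cons (P.lf 0 5011096 0) (P.cons (P.lf 0 2822520 0) (P.cons (P.lf 385762 0 0) P.nil))))) (P.cons (P.cons (P.lf 85979477 0 0) (P.cons (P.lf 0 23199381 0) (P.cons (P.lf 32360 0 0) (P.cons (P.lf 728739 0 0) P.nil)))) (P.cons (P.cons (P.lf 8569476 0 0) (P.cons (P.lf 0 3787788 0) (P.cons (P.lf 176817 0 0) P.nil))) (P.cons (P.cons (P.lf 0 1003794 0) (P.cons (P.lf 62243 0 0) P.nil)) (P.cons (P.cons (P.lf 0 105384 0) P.nil) P.nil)))))) 919900)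
 (EL.cons 1 (TM.mk (P.cons (P.cons (P.lf 0 12657051 0) (P.cons (P.lf 22227594 0 0) (P.cons (P.lf 0 8241623 0) (P.cons (P.lf 0 1796097 0) (P.cons (P.lf 390093 0 0) (P.cons (P.lf 28988 0 0) P.nil)))))) (P.cons (P.cons (P.lf 0 56477728 0) (P.cons (P.lf 61808722 0 0) (P.cons (P.lf 0 5387750 0) (P.cons (P.lf 0 2650440 0) (P.cons (P.lf 381771 0 0) P.nil))))) (P.cons (P.cons (P.lf 0 35232101 0) (P.cons (P.lf 11804998 0 0) (P.cons (P.lf 0 1011431 0) (P.cons (P.lf 0 503853 0) P.nil)))) (P.cons (P.cons (P.lf 4245893 0 0) (P.cons (P.lf 0 709079 0) (P.cons (P.lf 0 94933 0) P.nil))) (P.cons (P.cons (P.lf 626175 0 0) (P.cons (P.lf 0 239226 0) P.nil)) (P.cons (P.cons (P.lf 0 33787 0) P.nil) P.nil)))))) 420986)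
 (EL.cons 5 (TM.mk (P.cons (P.cons (P.lf 228704243 0 0) (P.cons (P.lf 0 278664355 0) (P.cons (P.lf 43077276 0 0) (P.cons (P.lf 14461597 0 0) (P.cons (P.lf 0 2474600 0) (P.cons (P.lf 0 183878 0) P.nil)))))) (P.cons (P.cons (P.lf 202499154 0 0) (P.cons (P.lf 0 107507168 0) (P.cons (P.lf 9020582 0 0) (P.cons (P.lf 4563183 0 0) (P.cons (P.lf 0 649979 0) P.nil))))) (P.cons (P.cons (P.lf 0 1439480 0) (P.cons (P.lf 0 1850255 0) (P.cons (P.lf 881630 0 0) (P.cons (P.lf 175670 0 0) P.nil)))) (P.cons (P.cons (P.lf 0 5194899 0) (P.cons (P.lf 1570670 0 0) (P.cons (P.lf 8635 0 0) P.nil))) (P.cons (P.cons (P.lf 99162 0 0) (P.cons (P.lf 71702 0 0) P.nil)) (P.cons (P.cons (P.lf 45082 0 0) P.nil) P.nil)))))) 453964)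
 (EL.cons 9 (TM.mk (P.cons (P.cons (P.lf 39249727 0 0) (P.cons (P.lf 0 72812989 0) (P.cons (P.lf 28901118 0 0) (P.cons (P.lf 6138163 0 0) (P.cons (P.lf 0 1354206 0) (P.cons (P.lf 0 100630 0) P.nil)))))) (P.cons (P.cons (P.lf 65837968 0 0) (P.cons (P.lf 0 73233346 0) (P.cons (P.lf 6387238 0 0) (P.cons (P.lf 3140839 0 0) (P.cons (P.lf 0 452485 0) P.nil))))) (P.cons (P.cons (P.lf 25703820 0 0) (P.cons (P.lf 0 8910807 0) (P.cons (P.lf 788064 0 0) (P.cons (P.lf 383622 0 0) P.nil)))) (P.cons (P.cons (P.lf 0 1895275 0) (P.cons (P.lf 197560 0 0) (P.cons (P.lf 63091 0 0) P.nil))) (P.cons (P.cons (P.lf 0 227413 0) (P.cons (P.lf 82788 0 0) P.nil)) (P.cons (P.cons (P.lf 6720 0 0) P.nil) P.nil)))))) 194698)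
 (EL.cons 2 (TM.mk (P.cons (P.cons (P.lf 138629036 0 0) (P.cons (P.lf 0 107123551 0) (P.cons (P.lf 0 38845800 0) (P.cons (P.lf 10734598 0 0) (P.cons (P.lf 1545716 0 0) (P.cons (P.lf 0 280220 0) P.nil)))))) (P.cons (P.cons (P.lf 123909508 0 0) (P.cons (P.lf 0 9385335 0) (P.cons (P.lf 0 15575788 0) (P.cons (P.lf 2122211 0 0) (P.cons (P.lf 409128 0 0) P.nil))))) (P.cons (P.cons (P.lf 2040907 0 0) (P.cons (P.lf 0 778680 0) (P.cons (P.lf 0 394897 0) (P.cons (P.lf 88953 0 0) P.nil)))) (P.cons (P.cons (P.lf 0 1628865 0) (P.cons (P.lf 0 25205 0) (P.cons (P.lf 171810 0 0) P.nil))) (P.cons (P.cons (P.lf 0 72050 0) (P.cons (P.lf 13185 0 0) P.nil)) (P.cons (P.cons (P.lf 7425 0 0) P.nil) P.nil)))))) 207404)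
 (EL.cons 6 (TM.mk (P.cons (P.cons (P.lf 83087544 0 0) (P.cons (P.lf 0 64204680 0) (P.cons (P.lf 0 23282292 0) (P.cons (P.lf 6433800 0 0) (P.cons (P.lf 926424 0 0) (P.cons (P.lf 0 167946 0) P.nil)))))) (P.cons (P.cons (P.lf 83567220 0 0) (P.cons (P.lf 0 12812982 0) (P.cons (P.lf 0 11941878 0) (P.cons (P.lf 1992228 0 0) (P.cons (P.lf 348924 0 0) P.nil))))) (P.cons (P.cons (P.lf 10168200 0 0) (P.cons (P.lf 0 1583886 0) (P.cons (P.lf 0 1458552 0) (P.cons (P.lf 244554 0 0) P.nil)))) (P.cons (P.cons (P.lf 0 225432 0) (P.cons (P.lf 0 148746 0) (P.cons (P.lf 0 8418 0) P.nil))) (P.cons (P.cons (P.lf 0 94470 0) (P.cons (P.lf 0 3786 0) P.nil)) (P.cons (P.cons (P.lf 0 3192 0) P.nil) P.nil)))))) 179010)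
 EL.nil))))))
noncomputable def S154_169_364_512_3 : EL := (EL.cons 0 (TM.mk (P.cons (P.lf 3004406328 0 0) (P.cons (P.lf 0 338075945 0) (P.cons (P.lf 0 3807979 0) (P.cons (P.lf 751584 0 0) (P.cons (P.lf 26892 0 0) (P.cons (P.lf 0 418 0) P.nil)))))) 212)
 (EL.cons 1 (TM.mk (P.cons (P.lf 1800696082 0 0) (P.cons (P.lf 0 1034199 0) (P.cons (P.lf 0 11296008 0) (P.cons (P.lf 0 258390 0) (P.cons (P.lf 13243 0 0) (P.cons (P.lf 742 0 0) P.nil)))))) 140)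
 (EL.cons 5 (TM.mk (P.cons (P.lf 1079250284 0 0) (P.cons (P.lf 120204780 0 0) (P.cons (P.lf 1353950 0 0) (P.cons (P.lf 0 267230 0) (P.cons (P.lf 0 9562 0) (P.cons (P.lf 146 0 0) P.nil)))))) 96)
 EL.nil)))
noncomputable def S154_169_364_512_4 : EL := (EL.cons 0 (TM.mk (P.cons (P.cons (P.lf 234504636 0 0) (P.cons (P.lf 0 217517224 0) (P.cons (P.lf 0 14542692 0) (P.lf 4847563 0 0)))) (P.cons (P.cons (P.lf 170292422 0 0) (P.cons (P.lf 0 11863464 0) (P.cons (P.lf 0 793161 0) (P.lf 264387 0 0)))) (P.cons (P.cons (P.lf 0 28121500 0) (P.cons (P.lf 2943722 0 0) (P.cons (P.lf 196809 0 0) (P.lf 0 65603 0)))) (P.cons (P.cons (P.lf 0 437593 0) (P.cons (P.lf 228339 0 0) (P.cons (P.lf 15264 0 0) P.nil))) (P.cons (P.cons (P.lf 154304 0 0) (P.cons (P.lf 0 10764 0) P.nil)) (P.cons (P.cons (P.lf 3842 0 0) P.nil) P.nil)))))) 13984)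
 (EL.cons 1 (TM.mk (P.cons (P.cons (P.lf 140550755 0 0) (P.cons (P.lf 0 130369320 0) (P.cons (P.lf 0 8716186 0) (P.lf 2905395 0 0)))) (P.cons (P.cons (P.lf 117800045 0 0) (P.cons (P.lf 0 21705541 0) (P.cons (P.lf 0 1451180 0) (P.lf 483725 0 0)))) (P.cons (P.cons (P.lf 0 4361188 0) (P.cons (P.lf 0 21457 0) (P.cons (P.lf 0 1434 0) (P.lf 476 0 0)))) (P.cons (P.cons (P.lf 0 1289630 0) (P.cons (P.lf 201841 0 0) (P.cons (P.lf 13492 0 0) P.nil))) (P.cons (P.cons (P.lf 3380 0 0) (P.cons (P.lf 11743 0 0) P.nil)) (P.cons (P.cons (P.lf 5923 0 0) P.nil) P.nil)))))) 8413)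
 (EL.cons 5 (TM.mk (P.cons (P.cons (P.lf 84239336 0 0) (P.cons (P.lf 0 78137074 0) (P.cons (P.lf 0 5224060 0) (P.lf 1741352 0 0)))) (P.cons (P.cons (P.lf 80034452 0 0) (P.cons (P.lf 0 21756884 0) (P.cons (P.lf 0 1454614 0) (P.lf 484870 0 0)))) (P.cons (P.cons (P.lf 5929902 0 0) (P.cons (P.lf 0 2062490 0) (P.cons (P.lf 0 137892 0) (P.lf 45962 0 0)))) (P.cons (P.cons (P.lf 0 478794 0) (P.cons (P.lf 0 26312 0) (P.cons (P.lf 0 1758 0) P.nil))) (P.cons (P.cons (P.lf 0 57780 0) (P.cons (P.lf 8908 0 0) P.nil)) (P.cons (P.cons (P.lf 30 0 0) P.nil) P.nil)))))) 5970)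
 EL.nil)))
noncomputable def S154_169_364_512_5 : EL := (EL.cons 0 (TM.mk (P.cons (P.cons (P.lf 18303922 0 0) (P.cons (P.lf 0 33955991 0) (P.cons (P.lf 13477897 0 0) (P.cons (P.lf 2862502 0 0) (P.cons (P.lf 0 631525 0) (P.cons (P.lf 0 46928 0) P.nil)))))) (P.cons (P.cons (P.lf 28643542 0 0) (P.cons (P.lf 0 30331065 0) (P.cons (P.lf 1462034 0 0) (P.cons (P.lf 1142606 0 0) (P.cons (P.lf 0 139950 0) P.nil))))) (P.cons (P.cons (P.lf 8508721 0 0) (P.cons (P.lf 0 269458 0) (P.cons (P.lf 15247 0 0) (P.cons (P.lf 10451 0 0) P.nil)))) (P.cons (P.cons (P.lf 0 2267029 0) (P.cons (P.lf 594529 0 0) (P.cons (P.lf 0 12334 0) P.nil))) (P.cons (P.cons (P.lf 0 13942 0) (P.cons (P.lf 24658 0 0) P.nil)) (P.cons (P.cons (P.lf 19457 0 0) P.nil) P.nil)))))) 166587)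
 (EL.cons 1 (TM.mk (P.cons (P.cons (P.lf 10970486 0 0) (P.cons (P.lf 0 20351580 0) (P.cons (P.lf 8078000 0 0) (P.cons (P.lf 1715645 0 0) (P.cons (P.lf 0 378506 0) (P.cons (P.lf 0 28125 0) P.nil)))))) (P.cons (P.cons (P.lf 18395726 0 0) (P.cons (P.lf 0 20457382 0) (P.cons (P.lf 1780623 0 0) (P.cons (P.lf 876892 0 0) (P.cons (P.lf 0 126253 0) P.nil))))) (P.cons (P.cons (P.lf 7104952 0 0) (P.cons (P.lf 0 2351188 0) (P.cons (P.lf 168566 0 0) (P.cons (P.lf 95956 0 0) P.nil)))) (P.cons (P.cons (P.lf 0 650876 0) (P.cons (P.lf 187974 0 0) (P.cons (P.lf 5148 0 0) P.nil))) (P.cons (P.cons (P.lf 0 110885 0) (P.cons (P.lf 41518 0 0) P.nil)) (P.cons (P.cons (P.lf 4346 0 0) P.nil) P.nil)))))) 98080)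
 (EL.cons 5 (TM.mk (P.cons (P.cons (P.lf 6575180 0 0) (P.cons (P.lf 0 12197754 0) (P.cons (P.lf 4841562 0 0) (P.cons (P.lf 1028274 0 0) (P.cons (P.lf 0 226858 0) (P.cons (P.lf 0 16856 0) P.nil)))))) (P.cons (P.cons (P.lf 11761618 0 0) (P.cons (P.lf 0 13626734 0) (P.cons (P.lf 1609244 0 0) (P.cons (P.lf 640684 0 0) (P.cons (P.lf 0 101066 0) P.nil))))) (P.cons (P.cons (P.lf 5542616 0 0) (P.cons (P.lf 0 2874460 0) (P.cons (P.lf 257266 0 0) (P.cons (P.lf 124156 0 0) P.nil)))) (P.cons (P.cons (P.lf 174296 0 0) (P.cons (P.lf 0 145534 0) (P.cons (P.lf 25416 0 0) P.nil))) (P.cons (P.cons (P.lf 0 70844 0) (P.cons (P.lf 18826 0 0) P.nil)) (P.cons (P.cons (P.lf 0 4678 0) P.nil) P.nil)))))) 63426)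
 EL.nil)))
noncomputable def S154_169_364_512_6 : EL := (EL.cons 12 (TM.mk (P.lf 8589934592 0 0) 0)
 (EL.cons 3 (TM.mk (P.cons (P.lf 0 2540061705 0) (P.cons (P.lf 142912387 0 0) (P.cons (P.lf 5630085 0 0) (P.cons (P.lf 0 945 0) (P.cons (P.lf 0 5182 0) (P.cons (P.lf 0 116 0) P.nil)))))) 67)
 (EL.cons 7 (TM.mk (P.cons (P.lf 0 1522390337 0) (P.cons (P.lf 0 84780425 0) (P.cons (P.lf 1405728 0 0) (P.cons (P.lf 110195 0 0) (P.cons (P.lf 1257 0 0) (P.cons (P.lf 0 72 0) P.nil)))))) 47)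
 EL.nil)))
noncomputable def S154_169_364_512_7 : EL := (EL.cons 12 (TM.mk (P.cons (P.cons (P.lf 670475056 0 0) (P.cons (P.lf 0 621906136 0) (P.cons (P.lf 0 41579192 0) (P.lf 13859728 0 0)))) (P.cons (P.cons (P.lf 562331484 0 0) (P.cons (P.lf 0 103900024 0) (P.cons (P.lf 0 6946512 0) (P.lf 2315504 0 0)))) (P.cons (P.cons (P.lf 0 16275414 0) (P.cons (P.lf 0 4063336 0) (P.cons (P.lf 0 271664 0) (P.lf 90552 0 0)))) (P.cons (P.cons (P.lf 0 2537540 0) (P.cons (P.lf 219504 0 0) (P.cons (P.lf 14672 0 0) P.nil))) (P.cons (P.cons (P.lf 0 11666 0) (P.cons (P.lf 20328 0 0) P.nil)) (P.cons (P.cons (P.lf 5592 0 0) P.nil) P.nil)))))) 10498)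
 (EL.cons 3 (TM.mk (P.cons (P.cons (P.lf 2787652787 0 0) (P.cons (P.lf 0 367797900 0) (P.cons (P.lf 0 24590106 0) (P.lf 8196700 0 0)))) (P.cons (P.cons (P.lf 0 230665952 0) (P.cons (P.lf 0 40753366 0) (P.cons (P.lf 0 2724672 0) (P.lf 908222 0 0)))) (P.cons (P.cons (P.lf 0 35308245 0) (P.cons (P.lf 1869362 0 0) (P.cons (P.lf 124980 0 0) (P.lf 0 41660 0)))) (P.cons (P.cons (P.lf 0 493609 0) (P.cons (P.lf 401080 0 0) (P.cons (P.lf 26812 0 0) P.nil))) (P.cons (P.cons (P.lf 142831 0 0) (P.cons (P.lf 9270 0 0) P.nil)) (P.cons (P.cons (P.lf 7046 0 0) P.nil) P.nil)))))) 30729)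
 (EL.cons 7 (TM.mk (P.cons (P.cons (P.lf 0 1890172230 0) (P.cons (P.lf 437505253 0 0) (P.cons (P.lf 29250587 0 0) (P.lf 0 9750196 0)))) (P.cons (P.cons (P.lf 136838775 0 0) (P.cons (P.lf 24176271 0 0) (P.cons (P.lf 1616369 0 0) (P.lf 0 538791 0)))) (P.cons (P.cons (P.lf 13286325 0 0) (P.cons (P.lf 0 2462259 0) (P.cons (P.lf 0 164619 0) (P.lf 54873 0 0)))) (P.cons (P.cons (P.lf 0 1045088 0) (P.cons (P.lf 0 115351 0) (P.cons (P.lf 0 7712 0) P.nil))) (P.cons (P.cons (P.lf 0 68026 0) (P.cons (P.lf 9887 0 0) P.nil)) (P.cons (P.cons (P.lf 2162 0 0) P.nil) P.nil)))))) 21426)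
 (EL.cons 10 (TM.mk (P.cons (P.cons (P.lf 0 1501575039 0) (P.cons (P.lf 0 232481523 0) (P.cons (P.lf 112002264 0 0) (P.cons (P.lf 4238493 0 0) (P.lf 0 1059621 0))))) (P.cons (P.cons (P.lf 0 167242482 0) (P.cons (P.lf 0 25893336 0) (P.cons (P.lf 12474591 0 0) (P.cons (P.lf 472074 0 0) (P.lf 0 118017 0))))) (P.cons (P.cons (P.lf 0 1883766 0) (P.cons (P.lf 0 291654 0) (P.cons (P.lf 140508 0 0) (P.cons (P.lf 5316 0 0) P.nil)))) (P.cons (P.cons (P.lf 371799 0 0) (P.cons (P.lf 57564 0 0) (P.cons (P.lf 0 27732 0) P.nil))) (P.cons (P.cons (P.lf 13302 0 0) (P.cons (P.lf 2058 0 0) P.nil)) (P.cons (P.cons (P.lf 0 201 0) P.nil) P.nil)))))) 3996)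
 EL.nil))))
noncomputable def S154_169_364_512_8 : EL := (EL.cons 12 (TM.mk (P.cons (P.cons (P.lf 52332970 0 0) (P.cons (P.lf 0 97083986 0) (P.cons (P.lf 38534824 0 0) (P.cons (P.lf 8184218 0 0) (P.cons (P.lf 0 1805608 0) (P.cons (P.lf 0 134174 0) P.nil)))))) (P.cons (P.cons (P.lf 87783958 0 0) (P.cons (P.lf 0 97644462 0) (P.cons (P.lf 8516318 0 0) (P.cons (P.lf 4187786 0 0) (P.cons (P.lf 0 603314 0) P.nil))))) (P.cons (P.cons (P.lf 34271760 0 0) (P.cons (P.lf 0 11881076 0) (P.cons (P.lf 1050752 0 0) (P.cons (P.lf 511496 0 0) P.nil)))) (P.cons (P.cons (P.lf 0 2527034 0) (P.cons (P.lf 263414 0 0) (P.cons (P.lf 84122 0 0) P.nil))) (P.cons (P.cons (P.lf 0 303218 0) (P.cons (P.lf 110384 0 0) P.nil)) (P.cons (P.cons (P.lf 8960 0 0) P.nil) P.nil)))))) 259568)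
 (EL.cons 3 (TM.mk (P.cons (P.cons (P.lf 450647470 0 0) (P.cons (P.lf 0 489772612 0) (P.cons (P.lf 33825817 0 0) (P.cons (P.lf 19816559 0 0) (P.cons (P.lf 0 2669611 0) (P.cons (P.lf 0 198375 0) P.nil)))))) (P.cons (P.cons (P.lf 354060430 0 0) (P.cons (P.lf 0 115811660 0) (P.cons (P.lf 10755201 0 0) (P.cons (P.lf 5054438 0 0) (P.cons (P.lf 0 741806 0) P.nil))))) (P.cons (P.cons (P.lf 0 37636617 0) (P.cons (P.lf 2580047 0 0) (P.cons (P.lf 1501436 0 0) (P.cons (P.lf 120197 0 0) P.nil)))) (P.cons (P.cons (P.lf 0 6847760 0) (P.cons (P.lf 2304959 0 0) (P.cons (P.lf 49677 0 0) P.nil))) (P.cons (P.cons (P.lf 150134 0 0) (P.cons (P.lf 133999 0 0) P.nil)) (P.cons (P.cons (P.lf 56197 0 0) P.nil) P.nil)))))) 543493)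
 (EL.cons 7 (TM.mk (P.cons (P.cons (P.lf 0 285794423 0) (P.cons (P.lf 324786222 0 0) (P.cons (P.lf 0 33655911 0) (P.cons (P.lf 0 14642013 0) (P.cons (P.lf 2220447 0 0) (P.cons (P.lf 165001 0 0) P.nil)))))) (P.cons (P.cons (P.lf 0 210040535 0) (P.cons (P.lf 68703368 0 0) (P.cons (P.lf 0 6380342 0) (P.cons (P.lf 0 2998461 0) (P.cons (P.lf 440063 0 0) P.nil))))) (P.cons (P.cons (P.lf 34084575 0 0) (P.cons (P.lf 0 5376323 0) (P.cons (P.lf 0 533552 0) (P.cons (P.lf 96533 0 0) P.nil)))) (P.cons (P.cons (P.lf 2049958 0 0) (P.cons (P.lf 0 1139981 0) (P.cons (P.lf 26499 0 0) P.nil))) (P.cons (P.cons (P.lf 0 358932 0) (P.cons (P.lf 26280 0 0) P.nil)) (P.cons (P.cons (P.lf 0 16731 0) P.nil) P.nil)))))) 275283)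
 (EL.cons 10 (TM.mk (P.cons (P.cons (P.lf 0 234406578 0) (P.cons (P.lf 181134246 0 0) (P.cons (P.lf 65684010 0 0) (P.cons (P.lf 0 18151038 0) (P.cons (P.lf 0 2613636 0) (P.cons (P.lf 473826 0 0) P.nil)))))) (P.cons (P.cons (P.lf 0 222705960 0) (P.cons (P.lf 26060802 0 0) (P.cons (P.lf 30032562 0 0) (P.cons (P.lf 0 4609668 0) (P.cons (P.lf 0 838848 0) P.nil))))) (P.cons (P.cons (P.lf 0 16500702 0) (P.cons (P.lf 3184416 0 0) (P.cons (P.lf 2503050 0 0) (P.cons (P.lf 0 449994 0) P.nil)))) (P.cons (P.cons (P.lf 1332306 0 0) (P.cons (P.lf 279486 0 0) (P.cons (P.lf 0 83142 0) P.nil))) (P.cons (P.cons (P.lf 160782 0 0) (P.cons (P.lf 96 0 0) P.nil)) (P.cons (P.cons (P.lf 0 84 0) P.nil) P.nil)))))) 365184)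
 EL.nil))))
noncomputable def S154_169_364_512_9 : EL := (EL.cons 3 (TM.mk (P.cons (P.lf 0 2540061705 0) (P.cons (P.lf 142912387 0 0) (P.cons (P.lf 5630085 0 0) (P.cons (P.lf 0 945 0) (P.cons (P.lf 0 5182 0) (P.cons (P.lf 0 116 0) P.nil)))))) 67)
 (EL.cons 7 (TM.mk (P.cons (P.lf 0 1522390337 0) (P.cons (P.lf 0 84780425 0) (P.cons (P.lf 1405728 0 0) (P.cons (P.lf 110195 0 0) (P.cons (P.lf 1257 0 0) (P.cons (P.lf 0 72 0) P.nil)))))) 47)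
 EL.nil))
noncomputable def S154_169_364_512_10 : EL := (EL.cons 3 (TM.mk (P.cons (P.cons (P.lf 0 198260881 0) (P.cons (P.lf 183898950 0 0) (P.cons (P.lf 12295053 0 0) (P.lf 0 4098350 0)))) (P.cons (P.cons (P.lf 0 155127779 0) (P.cons (P.lf 20376683 0 0) (P.cons (P.lf 1362336 0 0) (P.lf 0 454111 0)))) (P.cons (P.cons (P.lf 14607738 0 0) (P.cons (P.lf 0 934681 0) (P.cons (P.lf 0 62490 0) (P.lf 20830 0 0)))) (P.cons (P.cons (P.lf 848072 0 0) (P.cons (P.lf 0 200540 0) (P.cons (P.lf 0 13406 0) P.nil))) (P.cons (P.cons (P.lf 0 49901 0) (P.cons (P.lf 0 4635 0) P.nil)) (P.cons (P.cons (P.lf 0 3856 0) P.nil) P.nil)))))) 7589)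
 (EL.cons 7 (TM.mk (P.cons (P.cons (P.lf 0 118827999 0) (P.cons (P.lf 110220151 0 0) (P.cons (P.lf 7369061 0 0) (P.lf 0 2456353 0)))) (P.cons (P.cons (P.lf 0 106279176 0) (P.cons (P.lf 24552207 0 0) (P.cons (P.lf 1641503 0 0) (P.lf 0 547167 0)))) (P.cons (P.cons (P.lf 0 2555859 0) (P.cons (P.lf 1643835 0 0) (P.cons (P.lf 109902 0 0) (P.lf 0 36633 0)))) (P.cons (P.cons (P.lf 710986 0 0) (P.cons (P.lf 0 23779 0) (P.cons (P.lf 0 1589 0) P.nil))) (P.cons (P.cons (P.lf 31760 0 0) (P.cons (P.lf 0 7858 0) P.nil)) (P.cons (P.cons (P.lf 0 1423 0) P.nil) P.nil)))))) 4202)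
 EL.nil))
noncomputable def S154_169_364_512_11 : EL := (EL.cons 3 (TM.mk (P.cons (P.cons (P.lf 0 15474968 0) (P.cons (P.lf 28707938 0 0) (P.cons (P.lf 0 11394827 0) (P.cons (P.lf 0 2420089 0) (P.cons (P.lf 533921 0 0) (P.cons (P.lf 39675 0 0) P.nil)))))) (P.cons (P.cons (P.lf 0 25087226 0) (P.cons (P.lf 27258466 0 0) (P.cons (P.lf 0 1877181 0) (P.cons (P.lf 0 1102174 0) (P.cons (P.lf 148360 0 0) P.nil))))) (P.cons (P.cons (P.lf 0 8639451 0) (P.cons (P.lf 1825097 0 0) (P.cons (P.lf 0 143764 0) (P.cons (P.lf 0 76213 0) P.nil)))) (P.cons (P.cons (P.lf 1374964 0 0) (P.cons (P.lf 0 339547 0) (P.cons (P.lf 0 1815 0) P.nil))) (P.cons (P.cons (P.lf 70040 0 0) (P.cons (P.lf 0 35975 0) P.nil)) (P.cons (P.cons (P.lf 0 9407 0) P.nil) P.nil)))))) 111531)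
 (EL.cons 7 (TM.mk (P.cons (P.cons (P.lf 0 9274949 0) (P.cons (P.lf 17206152 0 0) (P.cons (P.lf 0 6829509 0) (P.cons (P.lf 0 1450485 0) (P.cons (P.lf 320007 0 0) (P.cons (P.lf 23779 0 0) P.nil)))))) (P.cons (P.cons (P.lf 0 16074425 0) (P.cons (P.lf 18263678 0 0) (P.cons (P.lf 0 1889672 0) (P.cons (P.lf 0 822975 0) (P.cons (P.lf 124745 0 0) P.nil))))) (P.cons (P.cons (P.lf 0 6931809 0) (P.cons (P.lf 3053515 0 0) (P.cons (P.lf 0 263972 0) (P.cons (P.lf 0 130645 0) P.nil)))) (P.cons (P.cons (P.lf 124648 0 0) (P.cons (P.lf 53353 0 0) (P.cons (P.lf 0 23391 0) P.nil))) (P.cons (P.cons (P.lf 85422 0 0) (P.cons (P.lf 0 25374 0) P.nil)) (P.cons (P.cons (P.lf 1443 0 0) P.nil) P.nil)))))) 65003)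
 EL.nil))
noncomputable def S154_169_364_512_12 : EL := (EL.cons 4 (TM.mk (P.cons (P.lf 2540061705 0 0) (P.cons (P.lf 0 142912387 0) (P.cons (P.lf 0 5630085 0) (P.cons (P.lf 945 0 0) (P.cons (P.lf 5182 0 0) (P.cons (P.lf 116 0 0) P.nil)))))) 67)
 (EL.cons 8 (TM.mk (P.cons (P.lf 1522390337 0 0) (P.cons (P.lf 84780425 0 0) (P.cons (P.lf 0 1405728 0) (P.cons (P.lf 0 110195 0) (P.cons (P.lf 0 1257 0) (P.cons (P.lf 72 0 0) P.nil)))))) 47)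
 EL.nil))
noncomputable def S154_169_364_512_13 : EL := (EL.cons 4 (TM.mk (P.cons (P.cons (P.lf 198260881 0 0) (P.cons (P.lf 0 183898950 0) (P.cons (P.lf 0 12295053 0) (P.lf 4098350 0 0)))) (P.cons (P.cons (P.lf 155127779 0 0) (P.cons (P.lf 0 20376683 0) (P.cons (P.lf 0 1362336 0) (P.lf 454111 0 0)))) (P.cons (P.cons (P.lf 0 14607738 0) (P.cons (P.lf 934681 0 0) (P.cons (P.lf 62490 0 0) (P.lf 0 20830 0)))) (P.cons (P.cons (P.lf 0 848072 0) (P.cons (P.lf 200540 0 0) (P.cons (P.lf 13406 0 0) P.nil))) (P.cons (P.cons (P.lf 49901 0 0) (P.cons (P.lf 4635 0 0) P.nil)) (P.cons (P.cons (P.lf 3856 0 0) P.nil) P.nil)))))) 7589)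
 (EL.cons 8 (TM.mk (P.cons (P.cons (P.lf 118827999 0 0) (P.cons (P.lf 0 110220151 0) (P.cons (P.lf 0 7369061 0) (P.lf 2456353 0 0)))) (P.cons (P.cons (P.lf 106279176 0 0) (P.cons (P.lf 0 24552207 0) (P.cons (P.lf 0 1641503 0) (P.lf 547167 0 0)))) (P.cons (P.cons (P.lf 2555859 0 0) (P.cons (P.lf 0 1643835 0) (P.cons (P.lf 0 109902 0) (P.lf 36633 0 0)))) (P.cons (P.cons (P.lf 0 710986 0) (P.cons (P.lf 23779 0 0) (P.cons (P.lf 1589 0 0) P.nil))) (P.cons (P.cons (P.lf 0 31760 0) (P.cons (P.lf 7858 0 0) P.nil)) (P.cons (P.cons (P.lf 1423 0 0) P.nil) P.nil)))))) 4202)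
 EL.nil))
noncomputable def S154_169_364_512_14 : EL := (EL.cons 4 (TM.mk (P.cons (P.cons (P.lf 15474968 0 0) (P.cons (P.lf 0 28707938 0) (P.cons (P.lf 11394827 0 0) (P.cons (P.lf 2420089 0 0) (P.cons (P.lf 0 533921 0) (P.cons (P.lf 0 39675 0) P.nil)))))) (P.cons (P.cons (P.lf 25087226 0 0) (P.cons (P.lf 0 27258466 0) (P.cons (P.lf 1877181 0 0) (P.cons (P.lf 1102174 0 0) (P.cons (P.lf 0 148360 0) P.nil))))) (P.cons (P.cons (P.lf 8639451 0 0) (P.cons (P.lf 0 1825097 0) (P.cons (P.lf 143764 0 0) (P.cons (P.lf 76213 0 0) P.nil)))) (P.cons (P.cons (P.lf 0 1374964 0) (P.cons (P.lf 339547 0 0) (P.cons (P.lf 1815 0 0) P.nil))) (P.cons (P.cons (P.lf 0 70040 0) (P.cons (P.lf 35975 0 0) P.nil)) (P.cons (P.cons (P.lf 9407 0 0) P.nil) P.nil)))))) 111531)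
 (EL.cons 8 (TM.mk (P.cons (P.cons (P.lf 9274949 0 0) (P.cons (P.lf 0 17206152 0) (P.cons (P.lf 6829509 0 0) (P.cons (P.lf 1450485 0 0) (P.cons (P.lf 0 320007 0) (P.cons (P.lf 0 23779 0) P.nil)))))) (P.cons (P.cons (P.lf 16074425 0 0) (P.cons (P.lf 0 18263678 0) (P.cons (P.lf 1889672 0 0) (P.cons (P.lf 822975 0 0) (P.cons (P.lf 0 124745 0) P.nil))))) (P.cons (P.cons (P.lf 6931809 0 0) (P.cons (P.lf 0 3053515 0) (P.cons (P.lf 263972 0 0) (P.cons (P.lf 130645 0 0) P.nil)))) (P.cons (P.cons (P.lf 0 124648 0) (P.cons (P.lf 0 53353 0) (P.cons (P.lf 23391 0 0) P.nil))) (P.cons (P.cons (P.lf 0 85422 0) (P.cons (P.lf 25374 0 0) P.nil)) (P.cons (P.cons (P.lf 0 1443 0) P.nil) P.nil)))))) 65003)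
 EL.nil))
noncomputable def S154_169_364_512_15 : EL := (EL.cons 4 (TM.mk (P.cons (P.lf 0 1602350041 0) (P.cons (P.lf 180307170 0 0) (P.cons (P.lf 2030922 0 0) (P.cons (P.lf 0 400845 0) (P.cons (P.lf 0 14342 0) (P.cons (P.lf 223 0 0) P.nil)))))) 116)
 (EL.cons 8 (TM.mk (P.cons (P.lf 0 960371244 0) (P.cons (P.lf 551573 0 0) (P.cons (P.lf 6024538 0 0) (P.cons (P.lf 137808 0 0) (P.cons (P.lf 0 7063 0) (P.cons (P.lf 0 396 0) P.nil)))))) 71)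
 EL.nil))
noncomputable def S154_169_364_512_16 : EL := (EL.cons 4 (TM.mk (P.cons (P.cons (P.lf 0 125069139 0) (P.cons (P.lf 116009186 0 0) (P.cons (P.lf 7756102 0 0) (P.lf 0 2585367 0)))) (P.cons (P.cons (P.lf 0 90822625 0) (P.cons (P.lf 6327180 0 0) (P.cons (P.lf 423019 0 0) (P.lf 0 141006 0)))) (P.cons (P.cons (P.lf 14998133 0 0) (P.cons (P.lf 0 1569985 0) (P.cons (P.lf 0 104965 0) (P.lf 34988 0 0)))) (P.cons (P.cons (P.lf 233383 0 0) (P.cons (P.lf 0 121781 0) (P.cons (P.lf 0 8141 0) P.nil))) (P.cons (P.cons (P.lf 0 82295 0) (P.cons (P.lf 5741 0 0) P.nil)) (P.cons (P.cons (P.lf 0 2049 0) P.nil) P.nil)))))) 7467)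
 (EL.cons 8 (TM.mk (P.cons (P.cons (P.lf 0 74960403 0) (P.cons (P.lf 69530304 0 0) (P.cons (P.lf 4648633 0 0) (P.lf 0 1549544 0)))) (P.cons (P.cons (P.lf 0 62826691 0) (P.cons (P.lf 11576289 0 0) (P.cons (P.lf 773963 0 0) (P.lf 0 257987 0)))) (P.cons (P.cons (P.lf 2325967 0 0) (P.cons (P.lf 11444 0 0) (P.cons (P.lf 765 0 0) (P.lf 0 254 0)))) (P.cons (P.cons (P.lf 687803 0 0) (P.cons (P.lf 0 107649 0) (P.cons (P.lf 0 7196 0) P.nil))) (P.cons (P.cons (P.lf 0 1803 0) (P.cons (P.lf 0 6263 0) P.nil)) (P.cons (P.cons (P.lf 0 3159 0) P.nil) P.nil)))))) 4477)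
 EL.nil))
noncomputable def S154_169_364_512_17 : EL := (EL.cons 4 (TM.mk (P.cons (P.cons (P.lf 0 9762091 0) (P.cons (P.lf 18109861 0 0) (P.cons (P.lf 0 7188211 0) (P.cons (P.lf 0 1526668 0) (P.cons (P.lf 336813 0 0) (P.cons (P.lf 25028 0 0) P.nil)))))) (P.cons (P.cons (P.lf 0 15276555 0) (P.cons (P.lf 16176568 0 0) (P.cons (P.lf 0 779751 0) (P.cons (P.lf 0 609390 0) (P.cons (P.lf 74640 0 0) P.nil))))) (P.cons (P.cons (P.lf 0 4537984 0) (P.cons (P.lf 143711 0 0) (P.cons (P.lf 0 8131 0) (P.cons (P.lf 0 5574 0) P.nil)))) (P.cons (P.cons (P.lf 1209082 0 0) (P.cons (P.lf 0 317082 0) (P.cons (P.lf 6578 0 0) P.nil))) (P.cons (P.cons (P.lf 7436 0 0) (P.cons (P.lf 0 13151 0) P.nil)) (P.cons (P.cons (P.lf 0 10377 0) P.nil) P.nil)))))) 88856)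
 (EL.cons 8 (TM.mk (P.cons (P.cons (P.lf 0 5850926 0) (P.cons (P.lf 10854176 0 0) (P.cons (P.lf 0 4308267 0) (P.cons (P.lf 0 915011 0) (P.cons (P.lf 201870 0 0) (P.cons (P.lf 15000 0 0) P.nil)))))) (P.cons (P.cons (P.lf 0 9811054 0) (P.cons (P.lf 10910604 0 0) (P.cons (P.lf 0 949666 0) (P.cons (P.lf 0 467676 0) (P.cons (P.lf 67335 0 0) P.nil))))) (P.cons (P.cons (P.lf 0 3789308 0) (P.cons (P.lf 1253967 0 0) (P.cons (P.lf 0 89902 0) (P.cons (P.lf 0 51177 0) P.nil)))) (P.cons (P.cons (P.lf 347134 0 0) (P.cons (P.lf 0 100253 0) (P.cons (P.lf 0 2746 0) P.nil))) (P.cons (P.cons (P.lf 59139 0 0) (P.cons (P.lf 0 22143 0) P.nil)) (P.cons (P.cons (P.lf 0 2318 0) P.nil) P.nil)))))) 52298)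
 EL.nil))
noncomputable def S154_169_364_512_18 : EL := (EL.cons 4 (TM.mk (P.cons (P.lf 1010812316 0 0) (P.cons (P.lf 0 170615069 0) (P.cons (P.lf 2877933 0 0) (P.cons (P.lf 577438 0 0) (P.cons (P.lf 0 318 0) (P.cons (P.lf 0 1395 0) P.nil)))))) 149)
 (EL.cons 8 (TM.mk (P.cons (P.lf 605832095 0 0) (P.cons (P.lf 0 34434094 0) (P.cons (P.lf 0 5123725 0) (P.cons (P.lf 127889 0 0) (P.cons (P.lf 19006 0 0) (P.cons (P.lf 218 0 0) P.nil)))))) 96)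
 EL.nil))
noncomputable def S154_169_364_512_19 : EL := (EL.cons 4 (TM.mk (P.cons (P.cons (P.lf 78897509 0 0) (P.cons (P.lf 0 73182208 0) (P.cons (P.lf 0 4892790 0) (P.lf 1630929 0 0)))) (P.cons (P.cons (P.lf 52854702 0 0) (P.cons (P.lf 126092 0 0) (P.cons (P.lf 8430 0 0) (P.lf 0 2809 0)))) (P.cons (P.cons (P.lf 0 12859705 0) (P.cons (P.lf 1377173 0 0) (P.cons (P.lf 92074 0 0) (P.lf 0 30691 0)))) (P.cons (P.cons (P.lf 258135 0 0) (P.cons (P.lf 29920 0 0) (P.cons (P.lf 1999 0 0) P.nil))) (P.cons (P.cons (P.lf 81351 0 0) (P.cons (P.lf 0 10290 0) P.nil)) (P.cons (P.cons (P.lf 0 1184 0) P.nil) P.nil)))))) 7383)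
 (EL.cons 8 (TM.mk (P.cons (P.cons (P.lf 47287357 0 0) (P.cons (P.lf 0 43861881 0) (P.cons (P.lf 0 2932502 0) (P.lf 977500 0 0)))) (P.cons (P.cons (P.lf 36972488 0 0) (P.cons (P.lf 0 4834867 0) (P.cons (P.lf 0 323247 0) (P.lf 107749 0 0)))) (P.cons (P.cons (P.lf 0 3801992 0) (P.cons (P.lf 500874 0 0) (P.cons (P.lf 33487 0 0) (P.lf 0 11162 0)))) (P.cons (P.cons (P.lf 0 439162 0) (P.cons (P.lf 84484 0 0) (P.cons (P.lf 5648 0 0) P.nil))) (P.cons (P.cons (P.lf 28912 0 0) (P.cons (P.lf 54 0 0) P.nil)) (P.cons (P.cons (P.lf 2973 0 0) P.nil) P.nil)))))) 4406)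
 EL.nil))
noncomputable def S154_169_364_512_20 : EL := (EL.cons 4 (TM.mk (P.cons (P.cons (P.lf 6158231 0 0) (P.cons (P.lf 0 11424264 0) (P.cons (P.lf 4534547 0 0) (P.cons (P.lf 963069 0 0) (P.cons (P.lf 0 212473 0) (P.cons (P.lf 0 15788 0) P.nil)))))) (P.cons (P.cons (P.lf 9290444 0 0) (P.cons (P.lf 0 9561915 0) (P.cons (P.lf 236762 0 0) (P.cons (P.lf 330236 0 0) (P.cons (P.lf 0 35130 0) P.nil))))) (P.cons (P.cons (P.lf 2306846 0 0) (P.cons (P.lf 508813 0 0) (P.cons (P.lf 0 32595 0) (P.cons (P.lf 0 20246 0) P.nil)))) (P.cons (P.cons (P.lf 0 945150 0) (P.cons (P.lf 227740 0 0) (P.cons (P.lf 0 5527 0) P.nil))) (P.cons (P.cons (P.lf 31892 0 0) (P.cons (P.lf 0 2783 0) P.nil)) (P.cons (P.cons (P.lf 8521 0 0) P.nil) P.nil)))))) 70511)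
 (EL.cons 8 (TM.mk (P.cons (P.cons (P.lf 3690946 0 0) (P.cons (P.lf 0 6847152 0) (P.cons (P.lf 2717789 0 0) (P.cons (P.lf 577217 0 0) (P.cons (P.lf 0 127345 0) (P.cons (P.lf 0 9462 0) P.nil)))))) (P.cons (P.cons (P.lf 5981454 0 0) (P.cons (P.lf 0 6497505 0) (P.cons (P.lf 446167 0 0) (P.cons (P.lf 262548 0 0) (P.cons (P.lf 0 35312 0) P.nil))))) (P.cons (P.cons (P.lf 2034012 0 0) (P.cons (P.lf 0 388618 0) (P.cons (P.lf 16983 0 0) (P.cons (P.lf 14405 0 0) P.nil)))) (P.cons (P.cons (P.lf 0 367192 0) (P.cons (P.lf 123002 0 0) (P.cons (P.lf 0 2784 0) P.nil))) (P.cons (P.cons (P.lf 0 30274 0) (P.cons (P.lf 12147 0 0) P.nil)) (P.cons (P.cons (P.lf 4060 0 0) P.nil) P.nil)))))) 39008)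
 EL.nil))
noncomputable def S154_169_364_512_21 : EL := (EL.cons 4 (TM.mk (P.cons (P.cons (P.lf 0 2985913668 0) (P.cons (P.lf 551696850 0 0) (P.cons (P.lf 36885159 0 0) (P.lf 0 12295050 0)))) (P.cons (P.cons (P.lf 75538173 0 0) (P.cons (P.lf 61130049 0 0) (P.cons (P.lf 4087008 0 0) (P.lf 0 1362333 0)))) (P.cons (P.cons (P.lf 49915983 0 0) (P.cons (P.lf 0 2804043 0) (P.cons (P.lf 0 187470 0) (P.lf 62490 0 0)))) (P.cons (P.cons (P.lf 1341681 0 0) (P.cons (P.lf 0 601620 0) (P.cons (P.lf 0 40218 0) P.nil))) (P.cons (P.cons (P.lf 0 192732 0) (P.cons (P.lf 0 13905 0) P.nil)) (P.cons (P.cons (P.lf 0 10902 0) P.nil) P.nil)))))) 23121)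
 (EL.cons 8 (TM.mk (P.cons (P.cons (P.lf 1771344231 0 0) (P.cons (P.lf 0 327285102 0) (P.cons (P.lf 0 21881526 0) (P.lf 7293843 0 0)))) (P.cons (P.cons (P.lf 0 243117951 0) (P.cons (P.lf 375936 0 0) (P.cons (P.lf 25134 0 0) (P.lf 0 8376 0)))) (P.cons (P.cons (P.lf 0 15842184 0) (P.cons (P.lf 4106094 0 0) (P.cons (P.lf 274521 0 0) (P.lf 0 91506 0)))) (P.cons (P.cons (P.lf 1756074 0 0) (P.cons (P.lf 91572 0 0) (P.cons (P.lf 6123 0 0) P.nil))) (P.cons (P.cons (P.lf 99786 0 0) (P.cons (P.lf 0 17745 0) P.nil)) (P.cons (P.cons (P.lf 0 3585 0) P.nil) P.nil)))))) 17205)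
 (EL.cons 11 (TM.mk (P.cons (P.cons (P.lf 1501575039 0 0) (P.cons (P.lf 232481523 0 0) (P.cons (P.lf 0 112002264 0) (P.cons (P.lf 0 4238493 0) (P.lf 1059621 0 0))))) (P.cons (P.cons (P.lf 167242482 0 0) (P.cons (P.lf 25893336 0 0) (P.cons (P.lf 0 12474591 0) (P.cons (P.lf 0 472074 0) (P.lf 118017 0 0))))) (P.cons (P.cons (P.lf 1883766 0 0) (P.cons (P.lf 291654 0 0) (P.cons (P.lf 0 140508 0) (P.cons (P.lf 0 5316 0) P.nil)))) (P.cons (P.cons (P.lf 0 371799 0) (P.cons (P.lf 0 57564 0) (P.cons (P.lf 27732 0 0) P.nil))) (P.cons (P.cons (P.lf 0 13302 0) (P.cons (P.lf 0 2058 0) P.nil)) (P.cons (P.cons (P.lf 201 0 0) P.nil) P.nil)))))) 3996)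
 EL.nil)))
noncomputable def S154_169_364_512_22 : EL := (EL.cons 4 (TM.mk (P.cons (P.cons (P.lf 0 233061219 0) (P.cons (P.lf 259240275 0 0) (P.cons (P.lf 0 22610322 0) (P.cons (P.lf 0 11118324 0) (P.cons (P.lf 1601766 0 0) (P.cons (P.lf 119025 0 0) P.nil)))))) (P.cons (P.cons (P.lf 0 189573828 0) (P.cons (P.lf 71535063 0 0) (P.cons (P.lf 0 6316191 0) (P.cons (P.lf 0 3078306 0) (P.cons (P.lf 445083 0 0) P.nil))))) (P.cons (P.cons (P.lf 14498583 0 0) (P.cons (P.lf 0 377475 0) (P.cons (P.lf 0 822600 0) (P.cons (P.lf 0 98205 0) P.nil)))) (P.cons (P.cons (P.lf 4111362 0 0) (P.cons (P.lf 0 1322253 0) (P.cons (P.lf 0 25746 0) P.nil))) (P.cons (P.cons (P.lf 0 40047 0) (P.cons (P.lf 0 84987 0) P.nil)) (P.cons (P.cons (P.lf 0 32802 0) P.nil) P.nil)))))) 215970)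
 (EL.cons 8 (TM.mk (P.cons (P.cons (P.lf 138259737 0 0) (P.cons (P.lf 0 153790035 0) (P.cons (P.lf 13413201 0 0) (P.cons (P.lf 6595764 0 0) (P.cons (P.lf 0 950220 0) (P.cons (P.lf 0 70611 0) P.nil)))))) (P.cons (P.cons (P.lf 96983055 0 0) (P.cons (P.lf 0 25219845 0) (P.cons (P.lf 2245335 0 0) (P.cons (P.lf 1087743 0 0) (P.cons (P.lf 0 157659 0) P.nil))))) (P.cons (P.cons (P.lf 0 20508192 0) (P.cons (P.lf 4214919 0 0) (P.cons (P.lf 134790 0 0) (P.cons (P.lf 0 113589 0) P.nil)))) (P.cons (P.cons (P.lf 0 962655 0) (P.cons (P.lf 596667 0 0) (P.cons (P.lf 0 24945 0) P.nil))) (P.cons (P.cons (P.lf 222177 0 0) (P.cons (P.lf 0 25827 0) P.nil)) (P.cons (P.cons (P.lf 9087 0 0) P.nil) P.nil)))))) 105129)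
 (EL.cons 11 (TM.mk (P.cons (P.cons (P.lf 117203289 0 0) (P.cons (P.lf 0 90567123 0) (P.cons (P.lf 0 32842005 0) (P.cons (P.lf 9075519 0 0) (P.cons (P.lf 1306818 0 0) (P.cons (P.lf 0 236913 0) P.nil)))))) (P.cons (P.cons (P.lf 111352980 0 0) (P.cons (P.lf 0 13030401 0) (P.cons (P.lf 0 15016281 0) (P.cons (P.lf 2304834 0 0) (P.cons (P.lf 419424 0 0) P.nil))))) (P.cons (P.cons (P.lf 8250351 0 0) (P.cons (P.lf 0 1592208 0) (P.cons (P.lf 0 1251525 0) (P.cons (P.lf 224997 0 0) P.nil)))) (P.cons (P.cons (P.lf 0 666153 0) (P.cons (P.lf 0 139743 0) (P.cons (P.lf 41571 0 0) P.nil))) (P.cons (P.cons (P.lf 0 80391 0) (P.cons (P.lf 0 48 0) P.nil)) (P.cons (P.cons (P.lf 42 0 0) P.nil) P.nil)))))) 182592)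
 EL.nil)))
noncomputable def S154_169_364_512_23 : EL := (EL.cons 4 (TM.mk (P.cons (P.cons (P.lf 1883607348 0 0) (P.cons (P.lf 0 348027555 0) (P.cons (P.lf 0 23268306 0) (P.lf 7756098 0 0)))) (P.cons (P.cons (P.lf 0 153629895 0) (P.cons (P.lf 0 18981540 0) (P.cons (P.lf 0 1269057 0) (P.lf 423015 0 0)))) (P.cons (P.cons (P.lf 0 32982549 0) (P.cons (P.lf 4709952 0 0) (P.cons (P.lf 314895 0 0) (P.lf 0 104964 0)))) (P.cons (P.cons (P.lf 1031598 0 0) (P.cons (P.lf 365343 0 0) (P.cons (P.lf 24420 0 0) P.nil))) (P.cons (P.cons (P.lf 242820 0 0) (P.cons (P.lf 0 17226 0) P.nil)) (P.cons (P.cons (P.lf 1890 0 0) P.nil) P.nil)))))) 23781)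
 (EL.cons 8 (TM.mk (P.cons (P.cons (P.lf 0 1117419114 0) (P.cons (P.lf 206461635 0 0) (P.cons (P.lf 13803546 0 0) (P.lf 0 4601181 0)))) (P.cons (P.cons (P.lf 216236121 0 0) (P.cons (P.lf 0 11853375 0) (P.cons (P.lf 0 792489 0) (P.lf 264159 0 0)))) (P.cons (P.cons (P.lf 3841611 0 0) (P.cons (P.lf 0 3034533 0) (P.cons (P.lf 0 202878 0) (P.lf 67626 0 0)))) (P.cons (P.cons (P.lf 0 2010420 0) (P.cons (P.lf 88572 0 0) (P.cons (P.lf 5919 0 0) P.nil))) (P.cons (P.cons (P.lf 0 24993 0) (P.cons (P.lf 20604 0 0) P.nil)) (P.cons (P.cons (P.lf 8523 0 0) P.nil) P.nil)))))) 16719)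
 (EL.cons 11 (TM.mk (P.cons (P.cons (P.lf 0 947240304 0) (P.cons (P.lf 0 146656584 0) (P.cons (P.lf 70654515 0 0) (P.cons (P.lf 2673771 0 0) (P.lf 0 668439 0))))) (P.cons (P.cons (P.lf 0 52206849 0) (P.cons (P.lf 0 8082930 0) (P.cons (P.lf 3894099 0 0) (P.cons (P.lf 147363 0 0) (P.lf 0 36840 0))))) (P.cons (P.cons (P.lf 6847116 0 0) (P.cons (P.lf 1060104 0 0) (P.cons (P.lf 0 510726 0) (P.cons (P.lf 0 19326 0) P.nil)))) (P.cons (P.cons (P.lf 534894 0 0) (P.cons (P.lf 82815 0 0) (P.cons (P.lf 0 39897 0) P.nil))) (P.cons (P.cons (P.lf 0 4140 0) (P.cons (P.lf 0 642 0) P.nil)) (P.cons (P.cons (P.lf 0 1377 0) P.nil) P.nil)))))) 11079)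
 EL.nil)))
noncomputable def S154_169_364_512_24 : EL := (EL.cons 4 (TM.mk (P.cons (P.cons (P.lf 147022275 0 0) (P.cons (P.lf 0 163536840 0) (P.cons (P.lf 14263296 0 0) (P.cons (P.lf 7013784 0 0) (P.cons (P.lf 0 1010442 0) (P.cons (P.lf 0 75084 0) P.nil)))))) (P.cons (P.cons (P.lf 111317109 0 0) (P.cons (P.lf 0 35925414 0) (P.cons (P.lf 3181950 0 0) (P.cons (P.lf 1547271 0 0) (P.cons (P.lf 0 223920 0) P.nil))))) (P.cons (P.cons (P.lf 0 16200516 0) (P.cons (P.lf 3139575 0 0) (P.cons (P.lf 263127 0 0) (P.cons (P.lf 0 62850 0) P.nil)))) (P.cons (P.cons (P.lf 0 2343999 0) (P.cons (P.lf 920682 0 0) (P.cons (P.lf 0 21780 0) P.nil))) (P.cons (P.cons (P.lf 191802 0 0) (P.cons (P.lf 5802 0 0) P.nil)) (P.cons (P.cons (P.lf 25266 0 0) P.nil) P.nil)))))) 132747)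
 (EL.cons 8 (TM.mk (P.cons (P.cons (P.lf 0 87218550 0) (P.cons (P.lf 97015542 0 0) (P.cons (P.lf 0 8461464 0) (P.cons (P.lf 0 4160814 0) (P.cons (P.lf 599430 0 0) (P.cons (P.lf 44541 0 0) P.nil)))))) (P.cons (P.cons (P.lf 0 56272722 0) (P.cons (P.lf 10451043 0 0) (P.cons (P.lf 0 940356 0) (P.cons (P.lf 0 452082 0) (P.cons (P.lf 65730 0 0) P.nil))))) (P.cons (P.cons (P.lf 16572714 0 0) (P.cons (P.lf 0 3769056 0) (P.cons (P.lf 13416 0 0) (P.cons (P.lf 119484 0 0) P.nil)))) (P.cons (P.cons (P.lf 14955 0 0) (P.cons (P.lf 0 262023 0) (P.cons (P.lf 23655 0 0) P.nil))) (P.cons (P.cons (P.lf 0 203199 0) (P.cons (P.lf 43566 0 0) P.nil)) (P.cons (P.cons (P.lf 681 0 0) P.nil) P.nil)))))) 65343)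
 (EL.cons 11 (TM.mk (P.cons (P.cons (P.lf 0 73935486 0) (P.cons (P.lf 57132561 0 0) (P.cons (P.lf 20717760 0 0) (P.cons (P.lf 0 5725119 0) (P.cons (P.lf 0 824382 0) (P.cons (P.lf 149451 0 0) P.nil)))))) (P.cons (P.cons (P.lf 0 66085071 0) (P.cons (P.lf 5005512 0 0) (P.cons (P.lf 8307087 0 0) (P.cons (P.lf 0 1131846 0) (P.cons (P.lf 0 218202 0) P.nil))))) (P.cons (P.cons (P.lf 0 1088484 0) (P.cons (P.lf 415296 0 0) (P.cons (P.lf 210612 0 0) (P.cons (P.lf 0 47442 0) P.nil)))) (P.cons (P.cons (P.lf 868728 0 0) (P.cons (P.lf 13443 0 0) (P.cons (P.lf 0 91632 0) P.nil))) (P.cons (P.cons (P.lf 38427 0 0) (P.cons (P.lf 0 7032 0) P.nil)) (P.cons (P.cons (P.lf 0 3960 0) P.nil) P.nil)))))) 110604)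
 EL.nil)))
noncomputable def S154_169_364_512_25 : EL := (EL.cons 4 (TM.mk (P.cons (P.cons (P.lf 0 1188238185 0) (P.cons (P.lf 219546621 0 0) (P.cons (P.lf 14678370 0 0) (P.lf 0 4892787 0)))) (P.cons (P.cons (P.lf 163768788 0 0) (P.cons (P.lf 0 378279 0) (P.cons (P.lf 0 25290 0) (P.lf 8430 0 0)))) (P.cons (P.cons (P.lf 17987430 0 0) (P.cons (P.lf 0 4131519 0) (P.cons (P.lf 0 276222 0) (P.lf 92073 0 0)))) (P.cons (P.cons (P.lf 0 2036655 0) (P.cons (P.lf 0 89760 0) (P.cons (P.lf 0 5997 0) P.nil))) (P.cons (P.cons (P.lf 0 165069 0) (P.cons (P.lf 30870 0 0) P.nil)) (P.cons (P.cons (P.lf 9018 0 0) P.nil) P.nil)))))) 20307)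
 (EL.cons 8 (TM.mk (P.cons (P.cons (P.lf 704902782 0 0) (P.cons (P.lf 0 130242429 0) (P.cons (P.lf 0 8707707 0) (P.lf 2902569 0 0)))) (P.cons (P.cons (P.lf 0 176068674 0) (P.cons (P.lf 14805354 0 0) (P.cons (P.lf 989850 0 0) (P.lf 0 329949 0)))) (P.cons (P.cons (P.lf 3688962 0 0) (P.cons (P.lf 1782255 0 0) (P.cons (P.lf 119154 0 0) (P.lf 0 39717 0)))) (P.cons (P.cons (P.lf 1707198 0 0) (P.cons (P.lf 0 180198 0) (P.cons (P.lf 0 12045 0) P.nil))) (P.cons (P.cons (P.lf 0 48828 0) (P.cons (P.lf 0 14361 0) P.nil)) (P.cons (P.cons (P.lf 0 9321 0) P.nil) P.nil)))))) 14964)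
 (EL.cons 11 (TM.mk (P.cons (P.cons (P.lf 597548688 0 0) (P.cons (P.lf 92515542 0 0) (P.cons (P.lf 0 44571069 0) (P.cons (P.lf 0 1686699 0) (P.lf 421671 0 0))))) (P.cons (P.cons (P.lf 0 686382 0) (P.cons (P.lf 0 106269 0) (P.cons (P.lf 51195 0 0) (P.cons (P.lf 1935 0 0) (P.lf 0 483 0))))) (P.cons (P.cons (P.lf 0 7496811 0) (P.cons (P.lf 0 1160694 0) (P.cons (P.lf 559185 0 0) (P.cons (P.lf 21159 0 0) P.nil)))) (P.cons (P.cons (P.lf 0 167181 0) (P.cons (P.lf 0 25884 0) (P.cons (P.lf 12468 0 0) P.nil))) (P.cons (P.cons (P.lf 32403 0 0) (P.cons (P.lf 5016 0 0) P.nil)) (P.cons (P.cons (P.lf 1563 0 0) P.nil) P.nil)))))) 12228)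
 EL.nil)))
noncomputable def S154_169_364_512_26 : EL := (EL.cons 4 (TM.mk (P.cons (P.cons (P.lf 0 92746230 0) (P.cons (P.lf 103164132 0 0) (P.cons (P.lf 0 8997732 0) (P.cons (P.lf 0 4424514 0) (P.cons (P.lf 637419 0 0) (P.cons (P.lf 47364 0 0) P.nil)))))) (P.cons (P.cons (P.lf 0 65004084 0) (P.cons (P.lf 16858509 0 0) (P.cons (P.lf 0 1501029 0) (P.cons (P.lf 0 727128 0) (P.cons (P.lf 105393 0 0) P.nil))))) (P.cons (P.cons (P.lf 14376306 0 0) (P.cons (P.lf 0 3484293 0) (P.cons (P.lf 0 33108 0) (P.cons (P.lf 104370 0 0) P.nil)))) (P.cons (P.cons (P.lf 1059282 0 0) (P.cons (P.lf 0 519558 0) (P.cons (P.lf 27525 0 0) P.nil))) (P.cons (P.cons (P.lf 0 227055 0) (P.cons (P.lf 33624 0 0) P.nil)) (P.cons (P.cons (P.lf 0 12552 0) P.nil) P.nil)))))) 90252)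
 (EL.cons 8 (TM.mk (P.cons (P.cons (P.lf 55020177 0 0) (P.cons (P.lf 0 61200426 0) (P.cons (P.lf 5337756 0 0) (P.cons (P.lf 2624769 0 0) (P.cons (P.lf 0 378138 0) (P.cons (P.lf 0 28098 0) P.nil)))))) (P.cons (P.cons (P.lf 32402967 0 0) (P.cons (P.lf 0 3149502 0) (P.cons (P.lf 292887 0 0) (P.cons (P.lf 137508 0 0) (P.cons (P.lf 0 20187 0) P.nil))))) (P.cons (P.cons (P.lf 0 12573807 0) (P.cons (P.lf 2884224 0 0) (P.cons (P.lf 0 53670 0) (P.cons (P.lf 0 97236 0) P.nil)))) (P.cons (P.cons (P.lf 500109 0 0) (P.cons (P.lf 46110 0 0) (P.cons (P.lf 0 15759 0) P.nil))) (P.cons (P.cons (P.lf 152013 0 0) (P.cons (P.lf 0 42180 0) P.nil)) (P.cons (P.cons (P.lf 0 7548 0) P.nil) P.nil)))))) 46581)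
 (EL.cons 11 (TM.mk (P.cons (P.cons (P.lf 46640805 0 0) (P.cons (P.lf 0 36040998 0) (P.cons (P.lf 0 13069407 0) (P.cons (P.lf 3611583 0 0) (P.cons (P.lf 520044 0 0) (P.cons (P.lf 0 94278 0) P.nil)))))) (P.cons (P.cons (P.lf 39064350 0 0) (P.cons (P.lf 0 1129845 0) (P.cons (P.lf 0 4505040 0) (P.cons (P.lf 510804 0 0) (P.cons (P.lf 108390 0 0) P.nil))))) (P.cons (P.cons (P.lf 0 1762266 0) (P.cons (P.lf 0 4437 0) (P.cons (P.lf 190947 0 0) (P.cons (P.lf 0 18249 0) P.nil)))) (P.cons (P.cons (P.lf 0 679038 0) (P.cons (P.lf 13242 0 0) (P.cons (P.lf 76890 0 0) P.nil))) (P.cons (P.cons (P.lf 5178 0 0) (P.cons (P.lf 5421 0 0) P.nil)) (P.cons (P.cons (P.lf 5163 0 0) P.nil) P.nil)))))) 73686)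
 EL.nil)))
noncomputable def S154_169_364_512_27 : EL := (EL.cons 13 (TM.mk (P.lf 0 4294967296 0) 0)
 EL.nil)
noncomputable def S154_169_364_512_28 : EL := (EL.cons 13 (TM.mk (P.cons (P.cons (P.lf 0 335237528 0) (P.cons (P.lf 310953068 0 0) (P.cons (P.lf 20789596 0 0) (P.lf 0 6929864 0)))) (P.cons (P.cons (P.lf 0 281165742 0) (P.cons (P.lf 51950012 0 0) (P.cons (P.lf 3473256 0 0) (P.lf 0 1157752 0)))) (P.cons (P.cons (P.lf 8137707 0 0) (P.cons (P.lf 2031668 0 0) (P.cons (P.lf 135832 0 0) (P.lf 0 45276 0)))) (P.cons (P.cons (P.lf 1268770 0 0) (P.cons (P.lf 0 109752 0) (P.cons (P.lf 0 7336 0) P.nil))) (P.cons (P.cons (P.lf 5833 0 0) (P.cons (P.lf 0 10164 0) P.nil)) (P.cons (P.cons (P.lf 0 2796 0) P.nil) P.nil)))))) 5249)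
 EL.nil)
noncomputable def S154_169_364_512_29 : EL := (EL.cons 13 (TM.mk (P.cons (P.cons (P.lf 0 26166485 0) (P.cons (P.lf 48541993 0 0) (P.cons (P.lf 0 19267412 0) (P.cons (P.lf 0 4092109 0) (P.cons (P.lf 902804 0 0) (P.cons (P.lf 67087 0 0) P.nil)))))) (P.cons (P.cons (P.lf 0 43891979 0) (P.cons (P.lf 48822231 0 0) (P.cons (P.lf 0 4258159 0) (P.cons (P.lf 0 2093893 0) (P.cons (P.lf 301657 0 0) P.nil))))) (P.cons (P.cons (P.lf 0 17135880 0) (P.cons (P.lf 5940538 0 0) (P.cons (P.lf 0 525376 0) (P.cons (P.lf 0 255748 0) P.nil)))) (P.cons (P.cons (P.lf 1263517 0 0) (P.cons (P.lf 0 131707 0) (P.cons (P.lf 0 42061 0) P.nil))) (P.cons (P.cons (P.lf 151609 0 0) (P.cons (P.lf 0 55192 0) P.nil)) (P.cons (P.cons (P.lf 0 4480 0) P.nil) P.nil)))))) 129784)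
 EL.nil)
noncomputable def S154_169_364_512_30 : EL := (EL.cons 13 (TM.mk (P.cons (P.lf 2709399152 0 0) (P.cons (P.lf 0 152439880 0) (P.cons (P.lf 0 6005424 0) (P.cons (P.lf 1008 0 0) (P.cons (P.lf 5528 0 0) (P.cons (P.lf 124 0 0) P.nil)))))) 64)
 EL.nil)
noncomputable def S154_169_364_512_31 : EL := (EL.cons 13 (TM.mk (P.cons (P.cons (P.lf 211478274 0 0) (P.cons (P.lf 0 196158881 0) (P.cons (P.lf 0 13114724 0) (P.lf 4371574 0 0)))) (P.cons (P.cons (P.lf 165469631 0 0) (P.cons (P.lf 0 21735129 0) (P.cons (P.lf 0 1453159 0) (P.lf 484386 0 0)))) (P.cons (P.cons (P.lf 0 15581588 0) (P.cons (P.lf 996994 0 0) (P.cons (P.lf 66657 0 0) (P.lf 0 22219 0)))) (P.cons (P.cons (P.lf 0 904611 0) (P.cons (P.lf 213910 0 0) (P.cons (P.lf 14300 0 0) P.nil))) (P.cons (P.cons (P.lf 53228 0 0) (P.cons (P.lf 4944 0 0) P.nil)) (P.cons (P.cons (P.lf 4114 0 0) P.nil) P.nil)))))) 8075)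
 EL.nil)
noncomputable def S154_169_364_512_32 : EL := (EL.cons 13 (TM.mk (P.cons (P.cons (P.lf 16506633 0 0) (P.cons (P.lf 0 30621801 0) (P.cons (P.lf 12154483 0 0) (P.cons (P.lf 2581429 0 0) (P.cons (P.lf 0 569516 0) (P.cons (P.lf 0 42320 0) P.nil)))))) (P.cons (P.cons (P.lf 26759708 0 0) (P.cons (P.lf 0 29075698 0) (P.cons (P.lf 2002327 0 0) (P.cons (P.lf 1175653 0 0) (P.cons (P.lf 0 158251 0) P.nil))))) (P.cons (P.cons (P.lf 9215415 0 0) (P.cons (P.lf 0 1946771 0) (P.cons (P.lf 153349 0 0) (P.cons (P.lf 81294 0 0) P.nil)))) (P.cons (P.cons (P.lf 0 1466629 0) (P.cons (P.lf 362184 0 0) (P.cons (P.lf 1936 0 0) P.nil))) (P.cons (P.cons (P.lf 0 74710 0) (P.cons (P.lf 38374 0 0) P.nil)) (P.cons (P.cons (P.lf 10035 0 0) P.nil) P.nil)))))) 118943)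
 EL.nil)
noncomputable def S154_169_364_512_33 : EL := (EL.cons 14 (TM.mk (P.lf 8589934592 0 0) 0)
 EL.nil)
noncomputable def S154_169_364_512_34 : EL := (EL.cons 14 (TM.mk (P.cons (P.cons (P.lf 670475056 0 0) (P.cons (P.lf 0 621906136 0) (P.cons (P.lf 0 41579192 0) (P.lf 13859728 0 0)))) (P.cons (P.cons (P.lf 562331484 0 0) (P.cons (P.lf 0 103900024 0) (P.cons (P.lf 0 6946512 0) (P.lf 2315504 0 0)))) (P.cons (P.cons (P.lf 0 16275414 0) (P.cons (P.lf 0 4063336 0) (P.cons (P.lf 0 271664 0) (P.lf 90552 0 0)))) (P.cons (P.cons (P.lf 0 2537540 0) (P.cons (P.lf 219504 0 0) (P.cons (P.lf 14672 0 0) P.nil))) (P.cons (P.cons (P.lf 0 11666 0) (P.cons (P.lf 20328 0 0) P.nil)) (P.cons (P.cons (P.lf 5592 0 0) P.nil) P.nil)))))) 10498)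
 EL.nil)
noncomputable def S154_169_364_512_35 : EL := (EL.cons 14 (TM.mk (P.cons (P.cons (P.lf 52332970 0 0) (P.cons (P.lf 0 97083986 0) (P.cons (P.lf 38534824 0 0) (P.cons (P.lf 8184218 0 0) (P.cons (P.lf 0 1805608 0) (P.cons (P.lf 0 134174 0) P.nil)))))) (P.cons (P.cons (P.lf 87783958 0 0) (P.cons (P.lf 0 97644462 0) (P.cons (P.lf 8516318 0 0) (P.cons (P.lf 4187786 0 0) (P.cons (P.lf 0 603314 0) P.nil))))) (P.cons (P.cons (P.lf 34271760 0 0) (P.cons (P.lf 0 11881076 0) (P.cons (P.lf 1050752 0 0) (P.cons (P.lf 511496 0 0) P.nil)))) (P.cons (P.cons (P.lf 0 2527034 0) (P.cons (P.lf 263414 0 0) (P.cons (P.lf 84122 0 0) P.nil))) (P.cons (P.cons (P.lf 0 303218 0) (P.cons (P.lf 110384 0 0) P.nil)) (P.cons (P.cons (P.lf 8960 0 0) P.nil) P.nil)))))) 259568)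
 EL.nil)
noncomputable def S154_169_364_512_36 : EL := (EL.cons 14 (TM.mk (P.cons (P.lf 0 5418798304 0) (P.cons (P.lf 304879760 0 0) (P.cons (P.lf 12010848 0 0) (P.cons (P.lf 0 2016 0) (P.cons (P.lf 0 11056 0) (P.cons (P.lf 0 248 0) P.nil)))))) 128)
 EL.nil)
noncomputable def S154_169_364_512_37 : EL := (EL.cons 14 (TM.mk (P.cons (P.cons (P.lf 0 422956548 0) (P.cons (P.lf 392317762 0 0) (P.cons (P.lf 26229448 0 0) (P.lf 0 8743148 0)))) (P.cons (P.cons (P.lf 0 330939262 0) (P.cons (P.lf 43470258 0 0) (P.cons (P.lf 2906318 0 0) (P.lf 0 968772 0)))) (P.cons (P.cons (P.lf 31163176 0 0) (P.cons (P.lf 0 1993988 0) (P.cons (P.lf 0 133314 0) (P.lf 44438 0 0)))) (P.cons (P.cons (P.lf 1809222 0 0) (P.cons (P.lf 0 427820 0) (P.cons (P.lf 0 28600 0) P.nil))) (P.cons (P.cons (P.lf 0 106456 0) (P.cons (P.lf 0 9888 0) P.nil)) (P.cons (P.cons (P.lf 0 8228 0) P.nil) P.nil))))))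 16150)
 EL.nil)
noncomputable def S154_169_364_512_38 : EL := (EL.cons 14 (TM.mk (P.cons (P.cons (P.lf 0 33013266 0) (P.cons (P.lf 61243602 0 0) (P.cons (P.lf 0 24308966 0) (P.cons (P.lf 0 5162858 0) (P.cons (P.lf 1139032 0 0) (P.cons (P.lf 84640 0 0) P.nil)))))) (P.cons (P.cons (P.lf 0 53519416 0) (P.cons (P.lf 58151396 0 0) (P.cons (P.lf 0 4004654 0) (P.cons (P.lf 0 2351306 0) (P.cons (P.lf 316502 0 0) P.nil))))) (P.cons (P.cons (P.lf 0 18430830 0) (P.cons (P.lf 3893542 0 0) (P.cons (P.lf 0 306698 0) (P.cons (P.lf 0 162588 0) P.nil)))) (P.cons (P.cons (P.lf 2933258 0 0) (P.cons (P.lf 0 724368 0) (P.cons (P.lf 0 3872 0) P.nil))) (P.cons (P.cons (P.lf 149420 0 0) (P.cons (P.lf 0 76748 0) P.nil)) (P.cons (P.cons (P.lf 0 20070 0) P.nil) P.nil)))))) 237886)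
 EL.nil)
noncomputable def S154_169_364_512_39 : EL := (EL.cons 14 (TM.mk (P.cons (P.lf 3418346756 0 0) (P.cons (P.lf 0 384655298 0) (P.cons (P.lf 0 4332634 0) (P.cons (P.lf 855136 0 0) (P.cons (P.lf 30598 0 0) (P.cons (P.lf 0 476 0) P.nil)))))) 234)
 EL.nil)
noncomputable def S154_169_364_512_40 : EL := (EL.cons 14 (TM.mk (P.cons (P.cons (P.lf 266814164 0 0) (P.cons (P.lf 0 247486264 0) (P.cons (P.lf 0 16546352 0) (P.lf 5515450 0 0)))) (P.cons (P.cons (P.lf 193754934 0 0) (P.cons (P.lf 0 13497986 0) (P.cons (P.lf 0 902442 0) (P.lf 300814 0 0)))) (P.cons (P.cons (P.lf 0 31996018 0) (P.cons (P.lf 3349302 0 0) (P.cons (P.lf 223926 0 0) (P.lf 0 74642 0)))) (P.cons (P.cons (P.lf 0 497884 0) (P.cons (P.lf 259800 0 0) (P.cons (P.lf 17368 0 0) P.nil))) (P.cons (P.cons (P.lf 175564 0 0) (P.cons (P.lf 0 12248 0) P.nil)) (P.cons (P.cons (P.lf 4372 0 0) P.nil) P.nil))))))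 15890)
 EL.nil)
noncomputable def S154_169_364_512_41 : EL := (EL.cons 14 (TM.mk (P.cons (P.cons (P.lf 20825796 0 0) (P.cons (P.lf 0 38634372 0) (P.cons (P.lf 15334852 0 0) (P.cons (P.lf 3256892 0 0) (P.cons (P.lf 0 718536 0) (P.cons (P.lf 0 53394 0) P.nil)))))) (P.cons (P.cons (P.lf 32589986 0 0) (P.cons (P.lf 0 34510012 0) (P.cons (P.lf 1663470 0 0) (P.cons (P.lf 1300032 0 0) (P.cons (P.lf 0 159232 0) P.nil))))) (P.cons (P.cons (P.lf 9681034 0 0) (P.cons (P.lf 0 306584 0) (P.cons (P.lf 17348 0 0) (P.cons (P.lf 11892 0 0) P.nil)))) (P.cons (P.cons (P.lf 0 2579376 0) (P.cons (P.lf 676442 0 0) (P.cons (P.lf 0 14034 0) P.nil))) (P.cons (P.cons (P.lf 0 15864 0) (P.cons (P.lf 28056 0 0) P.nil)) (P.cons (P.cons (P.lf 22138 0 0) P.nil) P.nil)))))) 189514)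
 EL.nil)
noncomputable def S154_169_364_512_42 : EL := (EL.cons 14 (TM.mk (P.cons (P.lf 0 2156399608 0) (P.cons (P.lf 363978814 0 0) (P.cons (P.lf 0 6139592 0) (P.cons (P.lf 0 1231868 0) (P.cons (P.lf 680 0 0) (P.cons (P.lf 2978 0 0) P.nil)))))) 304)
 EL.nil)
noncomputable def S154_169_364_512_43 : EL := (EL.cons 14 (TM.mk (P.cons (P.cons (P.lf 0 168314686 0) (P.cons (P.lf 156122044 0 0) (P.cons (P.lf 10437954 0 0) (P.lf 0 3479316 0)))) (P.cons (P.cons (P.lf 0 112756698 0) (P.cons (P.lf 0 268998 0) (P.cons (P.lf 0 17984 0) (P.lf 5994 0 0)))) (P.cons (P.cons (P.lf 27434038 0 0) (P.cons (P.lf 0 2937970 0) (P.cons (P.lf 0 196426 0) (P.lf 65476 0 0)))) (P.cons (P.cons (P.lf 0 550688 0) (P.cons (P.lf 0 63830 0) (P.cons (P.lf 0 4266 0) P.nil))) (P.cons (P.cons (P.lf 0 173550 0) (P.cons (P.lf 21952 0 0) P.nil)) (P.cons (P.cons (P.lf 2526 0 0) P.nil) P.nil)))))) 15710)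
 EL.nil)
noncomputable def S154_169_364_512_44 : EL := (EL.cons 14 (TM.mk (P.cons (P.cons (P.lf 0 13137560 0) (P.cons (P.lf 24371764 0 0) (P.cons (P.lf 0 9673702 0) (P.cons (P.lf 0 2054548 0) (P.cons (P.lf 453276 0 0) (P.cons (P.lf 33682 0 0) P.nil)))))) (P.cons (P.cons (P.lf 0 19819614 0) (P.cons (P.lf 20398754 0 0) (P.cons (P.lf 0 505094 0) (P.cons (P.lf 0 704504 0) (P.cons (P.lf 74946 0 0) P.nil))))) (P.cons (P.cons (P.lf 0 4921272 0) (P.cons (P.lf 0 1085468 0) (P.cons (P.lf 69538 0 0) (P.cons (P.lf 43192 0 0) P.nil)))) (P.cons (P.cons (P.lf 2016320 0 0) (P.cons (P.lf 0 485846 0) (P.cons (P.lf 11792 0 0) P.nil))) (P.cons (P.cons (P.lf 0 68038 0) (P.cons (P.lf 5938 0 0) P.nil)) (P.cons (P.cons (P.lf 0 18180 0) P.nil) P.nil)))))) 150378)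
 EL.nil)
noncomputable def S154_169_364_512_45 : EL := (EL.cons 14 (TM.mk (P.cons (P.cons (P.lf 4084774 0 0) (P.cons (P.lf 0 11366626 0) (P.cons (P.lf 9783286 0 0) (P.cons (P.lf 0 1596720 0) (P.cons (P.lf 0 1076636 0) (P.cons (P.lf 142812 0 0) P.nil)))))) (P.cons (P.cons (P.lf 10277776 0 0) (P.cons (P.lf 0 20965506 0) (P.cons (P.lf 10963822 0 0) (P.cons (P.lf 486864 0 0) (P.cons (P.lf 0 823582 0) P.nil))))) (P.cons (P.cons (P.lf 8322566 0 0) (P.cons (P.lf 0 10703416 0) (P.cons (P.lf 2415150 0 0) (P.cons (P.lf 320308 0 0) P.nil)))) (P.cons (P.cons (P.lf 1864536 0 0) (P.cons (P.lf 0 815302 0) (P.cons (P.lf 198008 0 0) P.nil))) (P.cons (P.cons (P.lf 0 280034 0) (P.cons (P.lf 116022 0 0) P.nil)) (P.cons (P.cons (P.lf 0 24570 0) P.nil) P.nil)))))) 636664)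
 EL.nil)
noncomputable def S154_169_364_512_46 : EL := (EL.cons 15 (TM.mk (P.lf 4294967296 0 0) 0)
 EL.nil)
noncomputable def S154_169_364_512_47 : EL := (EL.cons 15 (TM.mk (P.cons (P.cons (P.lf 335237528 0 0) (P.cons (P.lf 0 310953068 0) (P.cons (P.lf 0 20789596 0) (P.lf 6929864 0 0)))) (P.cons (P.cons (P.lf 281165742 0 0) (P.cons (P.lf 0 51950012 0) (P.cons (P.lf 0 3473256 0) (P.lf 1157752 0 0)))) (P.cons (P.cons (P.lf 0 8137707 0) (P.cons (P.lf 0 2031668 0) (P.cons (P.lf 0 135832 0) (P.lf 45276 0 0)))) (P.cons (P.cons (P.lf 0 1268770 0) (P.cons (P.lf 109752 0 0) (P.cons (P.lf 7336 0 0) P.nil))) (P.cons (P.cons (P.lf 0 5833 0) (P.cons (P.lf 10164 0 0) P.nil)) (P.cons (P.cons (P.lf 2796 0 0) P.nil) P.nil)))))) 5249)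
 EL.nil)
noncomputable def S154_169_364_512_48 : EL := (EL.cons 15 (TM.mk (P.cons (P.cons (P.lf 26166485 0 0) (P.cons (P.lf 0 48541993 0) (P.cons (P.lf 19267412 0 0) (P.cons (P.lf 4092109 0 0) (P.cons (P.lf 0 902804 0) (P.cons (P.lf 0 67087 0) P.nil)))))) (P.cons (P.cons (P.lf 43891979 0 0) (P.cons (P.lf 0 48822231 0) (P.cons (P.lf 4258159 0 0) (P.cons (P.lf 2093893 0 0) (P.cons (P.lf 0 301657 0) P.nil))))) (P.cons (P.cons (P.lf 17135880 0 0) (P.cons (P.lf 0 5940538 0) (P.cons (P.lf 525376 0 0) (P.cons (P.lf 255748 0 0) P.nil)))) (P.cons (P.cons (P.lf 0 1263517 0) (P.cons (P.lf 131707 0 0) (P.cons (P.lf 42061 0 0) P.nil))) (P.cons (P.cons (P.lf 0 151609 0) (P.cons (P.lf 55192 0 0) P.nil)) (P.cons (P.cons (P.lf 4480 0 0) P.nil) P.nil)))))) 129784)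
 EL.nil)
noncomputable def S154_169_364_512 : SL := (SL.cons S154_169_364_512_0 (SL.cons S154_169_364_512_1 (SL.cons S154_169_364_512_2 (SL.cons S154_169_364_512_3 (SL.cons S154_169_364_512_4 (SL.cons S154_169_364_512_5 (SL.cons S154_169_364_512_6 (SL.cons S154_169_364_512_7 (SL.cons S154_169_364_512_8 (SL.cons S154_169_364_512_9 (SL.cons S154_169_364_512_10 (SL.cons S154_169_364_512_11 (SL.cons S154_169_364_512_12 (SL.cons S154_169_364_512_13 (SL.cons S154_169_364_512_14 (SL.cons S154_169_364_512_15 (SL.cons S154_169_364_512_16 (SL.cons S154_169_364_512_17 (SL.cons S154_169_364_512_18 (SL.cons S154_169_364_512_19 (SL.cons S154_169_364_512_20 (SL.cons S154_169_364_512_21 (SL.cons S154_169_364_512_22 (SL.cons S154_169_364_512_23 (SL.cons S154_169_364_512_24 (SL.cons S154_169_364_512_25 (SL.cons S154_169_364_512_26 (SL.cons S154_169_364_512_27 (SL.cons S154_169_364_512_28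 (SL.cons S154_169_364_512_29 (SL.cons S154_169_364_512_30 (SL.cons S154_169_364_512_31 (SL.cons S154_169_364_512_32 (SL.cons S154_169_364_512_33 (SL.cons S154_169_364_512_34 (SL.cons S154_169_364_512_35 (SL.cons S154_169_364_512_36 (SL.cons S154_169_364_512_37 (SL.cons S154_169_364_512_38 (SL.cons S154_169_364_512_39 (SL.cons S154_169_364_512_40 (SL.cons S154_169_364_512_41 (SL.cons S154_169_364_512_42 (SL.cons S154_169_364_512_43 (SL.cons S154_169_364_512_44 (SL.cons S154_169_364_512_45 (SL.cons S154_169_364_512_46 (SL.cons S154_169_364_512_47 (SL.cons S154_169_364_512_48 SL.nil)))))))))))))))))))))))))))))))))))))))))))))))))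
noncomputable def S154_169_512_660_0 : EL := (EL.cons 0 (TM.mk (P.cons (P.lf 5451310535 0 0) (P.cons (P.lf 338075945 0 0) (P.cons (P.lf 3807979 0 0) (P.cons (P.lf 0 751584 0) (P.cons (P.lf 0 26892 0) (P.cons (P.lf 418 0 0) P.nil)))))) 212)
 (EL.cons 1 (TM.mk (P.cons (P.lf 0 1800696082 0) (P.cons (P.lf 1034199 0 0) (P.cons (P.lf 11296008 0 0) (P.cons (P.lf 258390 0 0) (P.cons (P.lf 0 13243 0) (P.cons (P.lf 0 742 0) P.nil)))))) 140)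
 (EL.cons 5 (TM.mk (P.cons (P.lf 5363200660 0 0) (P.cons (P.lf 0 120204780 0) (P.cons (P.lf 0 1353950 0) (P.cons (P.lf 267230 0 0) (P.cons (P.lf 9562 0 0) (P.cons (P.lf 0 146 0) P.nil)))))) 103)
 (EL.cons 9 (TM.mk (P.lf 6442450944 0 0) 2)
 EL.nil))))
noncomputable def S154_169_512_660_1 : EL := (EL.cons 0 (TM.mk (P.cons (P.cons (P.lf 0 2567521093 0) (P.cons (P.lf 257880037 0 0) (P.cons (P.lf 0 17241248 0) (P.lf 0 5747077 0)))) (P.cons (P.cons (P.lf 556776133 0 0) (P.cons (P.lf 0 54822734 0) (P.cons (P.lf 3665328 0 0) (P.lf 1221783 0 0)))) (P.cons (P.cons (P.lf 40986969 0 0) (P.cons (P.lf 0 15774728 0) (P.cons (P.lf 1054657 0 0) (P.lf 351547 0 0)))) (P.cons (P.cons (P.lf 0 5451281 0) (P.cons (P.lf 0 697283 0) (P.cons (P.lf 46609 0 0) P.nil))) (P.cons (P.cons (P.lf 0 489300 0) (P.cons (P.lf 63073 0 0) P.nil)) (P.cons (P.cons (P.lf 10908 0 0) P.nil) P.nil))))))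 68788)
 (EL.cons 1 (TM.mk (P.cons (P.cons (P.lf 125175906 0 0) (P.cons (P.lf 132365517 0 0) (P.cons (P.lf 0 8849641 0) (P.lf 0 2949878 0)))) (P.cons (P.cons (P.lf 0 216105923 0) (P.cons (P.lf 65376390 0 0) (P.cons (P.lf 0 4370909 0) (P.lf 0 1456963 0)))) (P.cons (P.cons (P.lf 26976643 0 0) (P.cons (P.lf 2898519 0 0) (P.cons (P.lf 0 193783 0) (P.lf 0 64592 0)))) (P.cons (P.cons (P.lf 3459484 0 0) (P.cons (P.lf 0 587638 0) (P.cons (P.lf 39279 0 0) P.nil))) (P.cons (P.cons (P.lf 0 140873 0) (P.cons (P.lf 0 48675 0) P.nil)) (P.cons (P.cons (P.lf 0 21632 0) P.nil) P.nil)))))) 36692)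
 (EL.cons 5 (TM.mk (P.cons (P.cons (P.lf 378436649 0 0) (P.cons (P.lf 0 620310902 0) (P.cons (P.lf 41472542 0 0) (P.lf 13824178 0 0)))) (P.cons (P.cons (P.lf 95514161 0 0) (P.cons (P.lf 0 68822500 0) (P.cons (P.lf 4601306 0 0) (P.lf 1533770 0 0)))) (P.cons (P.cons (P.lf 0 35622812 0) (P.cons (P.lf 2154950 0 0) (P.cons (P.lf 0 144072 0) (P.lf 0 48020 0)))) (P.cons (P.cons (P.lf 171125 0 0) (P.cons (P.lf 434504 0 0) (P.cons (P.lf 0 29046 0) P.nil))) (P.cons (P.cons (P.lf 200155 0 0) (P.cons (P.lf 0 5140 0) P.nil)) (P.cons (P.cons (P.lf 1178 0 0) P.nil) P.nil)))))) 32788)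
 (EL.cons 9 (TM.mk (P.cons (P.cons (P.lf 0 471582118 0) (P.cons (P.lf 0 466429602 0) (P.cons (P.lf 31184394 0 0) (P.lf 10394796 0 0)))) (P.cons (P.cons (P.lf 258952065 0 0) (P.cons (P.lf 0 77925018 0) (P.cons (P.lf 5209884 0 0) (P.lf 1736628 0 0)))) (P.cons (P.cons (P.lf 0 18573232 0) (P.cons (P.lf 0 3047502 0) (P.cons (P.lf 203748 0 0) (P.lf 67914 0 0)))) (P.cons (P.cons (P.lf 0 1559211 0) (P.cons (P.lf 164628 0 0) (P.cons (P.lf 0 11004 0) P.nil))) (P.cons (P.cons (P.lf 23097 0 0) (P.cons (P.lf 15246 0 0) P.nil)) (P.cons (P.cons (P.lf 4446 0 0) P.nil) P.nil)))))) 7892)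
 (EL.cons 2 (TM.mk (P.cons (P.cons (P.lf 888037785 0 0) (P.cons (P.lf 0 137490547 0) (P.cons (P.lf 0 66238607 0) (P.cons (P.lf 2506660 0 0) (P.lf 626661 0 0))))) (P.cons (P.cons (P.lf 48943920 0 0) (P.cons (P.lf 0 7577746 0) (P.cons (P.lf 0 3650717 0) (P.cons (P.lf 138152 0 0) (P.lf 34537 0 0))))) (P.cons (P.cons (P.lf 0 6419171 0) (P.cons (P.lf 993847 0 0) (P.cons (P.lf 478805 0 0) (P.cons (P.lf 0 18118 0) P.nil)))) (P.cons (P.cons (P.lf 0 501463 0) (P.cons (P.lf 77639 0 0) (P.cons (P.lf 37403 0 0) P.nil))) (P.cons (P.cons (P.lf 3881 0 0) (P.cons (P.lf 0 601 0) P.nil)) (P.cons (P.cons (P.lf 1290 0 0) P.nil) P.nil)))))) 10407)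
 (EL.cons 6 (TM.mk (P.cons (P.cons (P.lf 532246968 0 0) (P.cons (P.lf 0 82405194 0) (P.cons (P.lf 0 39700224 0) (P.cons (P.lf 1502370 0 0) (P.lf 375591 0 0))))) (P.cons (P.cons (P.lf 88920933 0 0) (P.cons (P.lf 0 13767192 0) (P.cons (P.lf 0 6632598 0) (P.cons (P.lf 250995 0 0) (P.lf 62748 0 0))))) (P.cons (P.cons (P.lf 3477537 0 0) (P.cons (P.lf 0 538410 0) (P.cons (P.lf 0 259386 0) (P.cons (P.lf 9813 0 0) P.nil)))) (P.cons (P.cons (P.lf 0 187866 0) (P.cons (P.lf 29085 0 0) (P.cons (P.lf 14010 0 0) P.nil))) (P.cons (P.cons (P.lf 0 17400 0) (P.cons (P.lf 2691 0 0) P.nil)) (P.cons (P.cons (P.lf 0 141 0) P.nil) P.nil)))))) 5778)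
 EL.nil))))))
noncomputable def S154_169_512_660_2 : EL := (EL.cons 0 (TM.mk (P.cons (P.cons (P.lf 346672086 0 0) (P.cons (P.lf 276241486 0 0) (P.cons (P.lf 0 84383566 0) (P.cons (P.lf 2657510 0 0) (P.cons (P.lf 2643287 0 0) (P.cons (P.lf 0 196415 0) P.nil)))))) (P.cons (P.cons (P.lf 0 257645918 0) (P.cons (P.lf 28738458 0 0) (P.cons (P.lf 0 11541142 0) (P.cons (P.lf 645843 0 0) (P.cons (P.lf 385762 0 0) P.nil))))) (P.cons (P.cons (P.lf 44423472 0 0) (P.cons (P.lf 0 16583423 0) (P.cons (P.lf 2692141 0 0) (P.cons (P.lf 157850 0 0) P.nil)))) (P.cons (P.cons (P.lf 2533235 0 0) (P.cons (P.lf 0 1990858 0) (P.cons (P.lf 563158 0 0) P.nil))) (P.cons (P.cons (P.lf 0 772876 0) (P.cons (P.lf 158818 0 0) P.nil)) (P.cons (P.cons (P.lf 0 31444 0) P.nil) P.nil)))))) 862142)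
 (EL.cons 1 (TM.mk (P.cons (P.cons (P.lf 0 8677201 0) (P.cons (P.lf 0 18417561 0) (P.cons (P.lf 0 8496346 0) (P.cons (P.lf 1711189 0 0) (P.cons (P.lf 390093 0 0) (P.cons (P.lf 0 28988 0) P.nil)))))) (P.cons (P.cons (P.lf 31098743 0 0) (P.cons (P.lf 22030865 0 0) (P.cons (P.lf 0 10993065 0) (P.cons (P.lf 782008 0 0) (P.cons (P.lf 381771 0 0) P.nil))))) (P.cons (P.cons (P.lf 0 18428907 0) (P.cons (P.lf 4281195 0 0) (P.cons (P.lf 0 2086914 0) (P.cons (P.lf 145367 0 0) P.nil)))) (P.cons (P.cons (P.lf 2557069 0 0) (P.cons (P.lf 0 907674 0) (P.cons (P.lf 13148 0 0) P.nil))) (P.cons (P.cons (P.lf 206450 0 0) (P.cons (P.lf 0 162574 0) P.nil)) (P.cons (P.cons (P.lf 0 38049 0) P.nil) P.nil)))))) 397333)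
 (EL.cons 5 (TM.mk (P.cons (P.cons (P.lf 0 84139166 0) (P.cons (P.lf 0 20830059 0) (P.cons (P.lf 63100769 0 0) (P.cons (P.lf 0 7787099 0) (P.cons (P.lf 0 2474600 0) (P.cons (P.lf 183878 0 0) P.nil)))))) (P.cons (P.cons (P.lf 48642595 0 0) (P.cons (P.lf 0 39784348 0) (P.cons (P.lf 18868151 0 0) (P.cons (P.lf 0 1280654 0) (P.cons (P.lf 0 649979 0) P.nil))))) (P.cons (P.cons (P.lf 0 917085 0) (P.cons (P.lf 2350337 0 0) (P.cons (P.lf 848212 0 0) (P.cons (P.lf 0 186800 0) P.nil)))) (P.cons (P.cons (P.lf 0 2334166 0) (P.cons (P.lf 1167980 0 0) (P.cons (P.lf 0 174448 0) P.nil))) (P.cons (P.cons (P.lf 189593 0 0) (P.cons (P.lf 14877 0 0) P.nil)) (P.cons (P.cons (P.lf 22739 0 0) P.nil) P.nil)))))) 431413)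
 (EL.cons 9 (TM.mk (P.cons (P.cons (P.lf 34519423 0 0) (P.cons (P.lf 68284527 0 0) (P.cons (P.lf 29203879 0 0) (P.cons (P.lf 0 6037243 0) (P.cons (P.lf 0 1354206 0) (P.cons (P.lf 100630 0 0) P.nil)))))) (P.cons (P.cons (P.lf 0 37910157 0) (P.cons (P.lf 0 26087854 0) (P.cons (P.lf 13027621 0 0) (P.cons (P.lf 0 927378 0) (P.cons (P.lf 0 452485 0) P.nil))))) (P.cons (P.cons (P.lf 13127578 0 0) (P.cons (P.lf 0 3128806 0) (P.cons (P.lf 1593004 0 0) (P.cons (P.lf 0 115308 0) P.nil)))) (P.cons (P.cons (P.lf 0 1264822 0) (P.cons (P.lf 405990 0 0) (P.cons (P.lf 22740 0 0) P.nil))) (P.cons (P.cons (P.lf 0 75178 0) (P.cons (P.lf 62947 0 0) P.nil)) (P.cons (P.cons (P.lf 10195 0 0) P.nil) P.nil)))))) 191963)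
 (EL.cons 2 (TM.mk (P.cons (P.cons (P.lf 0 130007272 0) (P.cons (P.lf 0 108458420 0) (P.cons (P.lf 38202699 0 0) (P.cons (P.lf 10758931 0 0) (P.cons (P.lf 0 1539630 0) (P.cons (P.lf 0 280220 0) P.nil)))))) (P.cons (P.cons (P.lf 64223426 0 0) (P.cons (P.lf 0 38513036 0) (P.cons (P.lf 1542976 0 0) (P.cons (P.lf 2653256 0 0) (P.cons (P.lf 0 276373 0) P.nil))))) (P.cons (P.cons (P.lf 0 246003 0) (P.cons (P.lf 0 1056571 0) (P.cons (P.lf 261016 0 0) (P.cons (P.lf 94016 0 0) P.nil)))) (P.cons (P.cons (P.lf 0 1154671 0) (P.cons (P.lf 405748 0 0) (P.cons (P.lf 35808 0 0) P.nil))) (P.cons (P.cons (P.lf 0 21189 0) (P.cons (P.lf 27624 0 0) P.nil)) (P.cons (P.cons (P.lf 7695 0 0) P.nil) P.nil)))))) 199231)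
 (EL.cons 6 (TM.mk (P.cons (P.cons (P.lf 0 77920080 0) (P.cons (P.lf 0 65004738 0) (P.cons (P.lf 22896852 0 0) (P.cons (P.lf 6448386 0 0) (P.cons (P.lf 0 922776 0) (P.cons (P.lf 0 167946 0) P.nil)))))) (P.cons (P.cons (P.lf 29769078 0 0) (P.cons (P.lf 0 30360288 0) (P.cons (P.lf 3488142 0 0) (P.cons (P.lf 2312142 0 0) (P.cons (P.lf 0 268950 0) P.nil))))) (P.cons (P.cons (P.lf 3570306 0 0) (P.cons (P.lf 0 3710952 0) (P.cons (P.lf 433800 0 0) (P.cons (P.lf 283332 0 0) P.nil)))) (P.cons (P.cons (P.lf 0 463272 0) (P.cons (P.lf 0 42114 0) (P.cons (P.lf 59790 0 0) P.nil))) (P.cons (P.cons (P.lf 0 71826 0) (P.cons (P.lf 21954 0 0) P.nil)) (P.cons (P.cons (P.lf 0 606 0) P.nil) P.nil)))))) 174564)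
 EL.nil))))))
noncomputable def S154_169_512_660_3 : EL := (EL.cons 0 (TM.mk (P.cons (P.lf 3004406328 0 0) (P.cons (P.lf 0 338075945 0) (P.cons (P.lf 0 3807979 0) (P.cons (P.lf 751584 0 0) (P.cons (P.lf 26892 0 0) (P.cons (P.lf 0 418 0) P.nil)))))) 212)
 (EL.cons 1 (TM.mk (P.cons (P.lf 1800696082 0 0) (P.cons (P.lf 0 1034199 0) (P.cons (P.lf 0 11296008 0) (P.cons (P.lf 0 258390 0) (P.cons (P.lf 13243 0 0) (P.cons (P.lf 742 0 0) P.nil)))))) 140)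
 (EL.cons 5 (TM.mk (P.cons (P.lf 1079250284 0 0) (P.cons (P.lf 120204780 0 0) (P.cons (P.lf 1353950 0 0) (P.cons (P.lf 0 267230 0) (P.cons (P.lf 0 9562 0) (P.cons (P.lf 146 0 0) P.nil)))))) 96)
 EL.nil)))
noncomputable def S154_169_512_660_4 : EL := (EL.cons 0 (TM.mk (P.cons (P.cons (P.lf 0 219920074 0) (P.cons (P.lf 0 217517224 0) (P.cons (P.lf 14542692 0 0) (P.lf 4847563 0 0)))) (P.cons (P.cons (P.lf 145507942 0 0) (P.cons (P.lf 0 11863464 0) (P.cons (P.lf 793161 0 0) (P.lf 264387 0 0)))) (P.cons (P.cons (P.lf 0 21971641 0) (P.cons (P.lf 2943722 0 0) (P.cons (P.lf 0 196809 0) (P.lf 0 65603 0)))) (P.cons (P.cons (P.lf 39447 0 0) (P.cons (P.lf 228339 0 0) (P.cons (P.lf 0 15264 0) P.nil))) (P.cons (P.cons (P.lf 131811 0 0) (P.cons (P.lf 0 10764 0) P.nil)) (P.cons (P.cons (P.lf 725 0 0) P.nil) P.nil)))))) 13977)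
 (EL.cons 1 (TM.mk (P.cons (P.cons (P.lf 0 131809473 0) (P.cons (P.lf 0 130369320 0) (P.cons (P.lf 8716186 0 0) (P.lf 2905395 0 0)))) (P.cons (P.cons (P.lf 72454051 0 0) (P.cons (P.lf 0 21705541 0) (P.cons (P.lf 1451180 0 0) (P.lf 483725 0 0)))) (P.cons (P.cons (P.lf 0 4406017 0) (P.cons (P.lf 0 21457 0) (P.cons (P.lf 1434 0 0) (P.lf 476 0 0)))) (P.cons (P.cons (P.lf 0 867948 0) (P.cons (P.lf 201841 0 0) (P.cons (P.lf 0 13492 0) P.nil))) (P.cons (P.cons (P.lf 27915 0 0) (P.cons (P.lf 11743 0 0) P.nil)) (P.cons (P.cons (P.lf 5193 0 0) P.nil) P.nil)))))) 8366)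
 (EL.cons 5 (TM.mk (P.cons (P.cons (P.lf 0 79000234 0) (P.cons (P.lf 0 78137074 0) (P.cons (P.lf 5224060 0 0) (P.lf 1741352 0 0)))) (P.cons (P.cons (P.lf 34581196 0 0) (P.cons (P.lf 0 21756884 0) (P.cons (P.lf 1454614 0 0) (P.lf 484870 0 0)))) (P.cons (P.cons (P.lf 1621060 0 0) (P.cons (P.lf 0 2062490 0) (P.cons (P.lf 137892 0 0) (P.lf 45962 0 0)))) (P.cons (P.cons (P.lf 0 533762 0) (P.cons (P.lf 0 26312 0) (P.cons (P.lf 1758 0 0) P.nil))) (P.cons (P.cons (P.lf 0 39166 0) (P.cons (P.lf 8908 0 0) P.nil)) (P.cons (P.cons (P.lf 1222 0 0) P.nil) P.nil)))))) 5972)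
 EL.nil)))
noncomputable def S154_169_512_660_5 : EL := (EL.cons 0 (TM.mk (P.cons (P.cons (P.lf 16097967 0 0) (P.cons (P.lf 31844163 0 0) (P.cons (P.lf 13619090 0 0) (P.cons (P.lf 0 2815439 0) (P.cons (P.lf 0 631525 0) (P.cons (P.lf 46928 0 0) P.nil)))))) (P.cons (P.cons (P.lf 0 19490672 0) (P.cons (P.lf 0 15749265 0) (P.cons (P.lf 4542857 0 0) (P.cons (P.lf 0 115665 0) (P.cons (P.lf 0 139950 0) P.nil))))) (P.cons (P.cons (P.lf 8090963 0 0) (P.cons (P.lf 0 130470 0) (P.cons (P.lf 41985 0 0) (P.cons (P.lf 0 1538 0) P.nil)))) (P.cons (P.cons (P.lf 0 1252295 0) (P.cons (P.lf 376904 0 0) (P.cons (P.lf 0 77282 0) P.nil))) (P.cons (P.cons (P.lf 19274 0 0) (P.cons (P.lf 7140 0 0) P.nil)) (P.cons (P.cons (P.lf 10817 0 0) P.nil) P.nil)))))) 146674)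
 (EL.cons 1 (TM.mk (P.cons (P.cons (P.lf 9648345 0 0) (P.cons (P.lf 19085853 0 0) (P.cons (P.lf 8162623 0 0) (P.cons (P.lf 0 1687438 0) (P.cons (P.lf 0 378506 0) (P.cons (P.lf 28125 0 0) P.nil)))))) (P.cons (P.cons (P.lf 0 10601611 0) (P.cons (P.lf 0 7302641 0) (P.cons (P.lf 3636594 0 0) (P.cons (P.lf 0 258236 0) (P.cons (P.lf 0 126253 0) P.nil))))) (P.cons (P.cons (P.lf 3614780 0 0) (P.cons (P.lf 0 990056 0) (P.cons (P.lf 391953 0 0) (P.cons (P.lf 0 21493 0) P.nil)))) (P.cons (P.cons (P.lf 0 290544 0) (P.cons (P.lf 156980 0 0) (P.cons (P.lf 0 17911 0) P.nil))) (P.cons (P.cons (P.lf 0 42234 0) (P.cons (P.lf 24200 0 0) P.nil)) (P.cons (P.cons (P.lf 4477 0 0) P.nil) P.nil)))))) 88486)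
 (EL.cons 5 (TM.mk (P.cons (P.cons (P.lf 5782750 0 0) (P.cons (P.lf 11439138 0 0) (P.cons (P.lf 4892282 0 0) (P.cons (P.lf 0 1011368 0) (P.cons (P.lf 0 226858 0) (P.cons (P.lf 16856 0 0) P.nil)))))) (P.cons (P.cons (P.lf 0 5706700 0) (P.cons (P.lf 0 3096210 0) (P.cons (P.lf 2727302 0 0) (P.cons (P.lf 0 268000 0) (P.cons (P.lf 0 101066 0) P.nil))))) (P.cons (P.cons (P.lf 1499072 0 0) (P.cons (P.lf 0 996544 0) (P.cons (P.lf 516072 0 0) (P.cons (P.lf 0 37888 0) P.nil)))) (P.cons (P.cons (P.lf 23652 0 0) (P.cons (P.lf 1318 0 0) (P.cons (P.lf 35056 0 0) P.nil))) (P.cons (P.cons (P.lf 0 31912 0) (P.cons (P.lf 18442 0 0) P.nil)) (P.cons (P.cons (P.lf 0 448 0) P.nil) P.nil)))))) 55274)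
 EL.nil)))
noncomputable def S154_169_512_660_6 : EL := (EL.cons 12 (TM.mk (P.lf 8589934592 0 0) 0)
 (EL.cons 3 (TM.mk (P.cons (P.lf 0 2540061705 0) (P.cons (P.lf 142912387 0 0) (P.cons (P.lf 5630085 0 0) (P.cons (P.lf 0 945 0) (P.cons (P.lf 0 5182 0) (P.cons (P.lf 0 116 0) P.nil)))))) 67)
 (EL.cons 7 (TM.mk (P.cons (P.lf 0 1522390337 0) (P.cons (P.lf 0 84780425 0) (P.cons (P.lf 1405728 0 0) (P.cons (P.lf 110195 0 0) (P.cons (P.lf 1257 0 0) (P.cons (P.lf 0 72 0) P.nil)))))) 47)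
 EL.nil)))
noncomputable def S154_169_512_660_7 : EL := (EL.cons 12 (TM.mk (P.cons (P.cons (P.lf 0 628776158 0) (P.cons (P.lf 0 621906136 0) (P.cons (P.lf 41579192 0 0) (P.lf 13859728 0 0)))) (P.cons (P.cons (P.lf 345269420 0 0) (P.cons (P.lf 0 103900024 0) (P.cons (P.lf 6946512 0 0) (P.lf 2315504 0 0)))) (P.cons (P.cons (P.lf 0 24764310 0) (P.cons (P.lf 0 4063336 0) (P.cons (P.lf 271664 0 0) (P.lf 90552 0 0)))) (P.cons (P.cons (P.lf 0 2078948 0) (P.cons (P.lf 219504 0 0) (P.cons (P.lf 0 14672 0) P.nil))) (P.cons (P.cons (P.lf 30796 0 0) (P.cons (P.lf 20328 0 0) P.nil)) (P.cons (P.cons (P.lf 5928 0 0) P.nil) P.nil)))))) 10498)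
 (EL.cons 3 (TM.mk (P.cons (P.cons (P.lf 2019270162 0 0) (P.cons (P.lf 0 367797900 0) (P.cons (P.lf 24590106 0 0) (P.lf 8196700 0 0)))) (P.cons (P.cons (P.lf 0 315805585 0) (P.cons (P.lf 0 40753366 0) (P.cons (P.lf 2724672 0 0) (P.lf 908222 0 0)))) (P.cons (P.cons (P.lf 0 31402875 0) (P.cons (P.lf 1869362 0 0) (P.cons (P.lf 0 124980 0) (P.lf 0 41660 0)))) (P.cons (P.cons (P.lf 344319 0 0) (P.cons (P.lf 401080 0 0) (P.cons (P.lf 0 26812 0) P.nil))) (P.cons (P.cons (P.lf 162195 0 0) (P.cons (P.lf 9270 0 0) P.nil)) (P.cons (P.cons (P.lf 4932 0 0) P.nil) P.nil)))))) 30805)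
 (EL.cons 7 (TM.mk (P.cons (P.cons (P.lf 0 976160948 0) (P.cons (P.lf 437505253 0 0) (P.cons (P.lf 0 29250587 0) (P.lf 0 9750196 0)))) (P.cons (P.cons (P.lf 187346473 0 0) (P.cons (P.lf 24176271 0 0) (P.cons (P.lf 0 1616369 0) (P.lf 0 538791 0)))) (P.cons (P.cons (P.lf 8142307 0 0) (P.cons (P.lf 0 2462259 0) (P.cons (P.lf 164619 0 0) (P.lf 54873 0 0)))) (P.cons (P.cons (P.lf 0 1286068 0) (P.cons (P.lf 0 115351 0) (P.cons (P.lf 7712 0 0) P.nil))) (P.cons (P.cons (P.lf 0 47370 0) (P.cons (P.lf 9887 0 0) P.nil)) (P.cons (P.cons (P.lf 3408 0 0) P.nil) P.nil)))))) 21422)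
 (EL.cons 10 (TM.mk (P.cons (P.cons (P.lf 0 1501575039 0) (P.cons (P.lf 232481523 0 0) (P.cons (P.lf 112002264 0 0) (P.cons (P.lf 0 4238493 0) (P.lf 0 1059621 0))))) (P.cons (P.cons (P.lf 0 167242482 0) (P.cons (P.lf 25893336 0 0) (P.cons (P.lf 12474591 0 0) (P.cons (P.lf 0 472074 0) (P.lf 0 118017 0))))) (P.cons (P.cons (P.lf 0 1883766 0) (P.cons (P.lf 291654 0 0) (P.cons (P.lf 140508 0 0) (P.cons (P.lf 0 5316 0) P.nil)))) (P.cons (P.cons (P.lf 371799 0 0) (P.cons (P.lf 0 57564 0) (P.cons (P.lf 0 27732 0) P.nil))) (P.cons (P.cons (P.lf 13302 0 0) (P.cons (P.lf 0 2058 0) P.nil)) (P.cons (P.cons (P.lf 0 201 0) P.nil) P.nil)))))) 3996)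
 EL.nil))))
noncomputable def S154_169_512_660_8 : EL := (EL.cons 12 (TM.mk (P.cons (P.cons (P.lf 46025898 0 0) (P.cons (P.lf 91046036 0 0) (P.cons (P.lf 38938506 0 0) (P.cons (P.lf 0 8049658 0) (P.cons (P.lf 0 1805608 0) (P.cons (P.lf 134174 0 0) P.nil)))))) (P.cons (P.cons (P.lf 0 50546876 0) (P.cons (P.lf 0 34783806 0) (P.cons (P.lf 17370162 0 0) (P.cons (P.lf 0 1236504 0) (P.cons (P.lf 0 603314 0) P.nil))))) (P.cons (P.cons (P.lf 17503438 0 0) (P.cons (P.lf 0 4171742 0) (P.cons (P.lf 2124006 0 0) (P.cons (P.lf 0 153744 0) P.nil)))) (P.cons (P.cons (P.lf 0 1686430 0) (P.cons (P.lf 541320 0 0) (P.cons (P.lf 30320 0 0) P.nil))) (P.cons (P.cons (P.lf 0 100238 0) (P.cons (P.lf 83930 0 0) P.nil)) (P.cons (P.cons (P.lf 13594 0 0) P.nil) P.nil)))))) 255922)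
 (EL.cons 3 (TM.mk (P.cons (P.cons (P.lf 0 282007876 0) (P.cons (P.lf 0 211620389 0) (P.cons (P.lf 80719315 0 0) (P.cons (P.lf 0 4185398 0) (P.cons (P.lf 0 2669611 0) (P.cons (P.lf 198375 0 0) P.nil)))))) (P.cons (P.cons (P.lf 192848573 0 0) (P.cons (P.lf 0 38521300 0) (P.cons (P.lf 21073541 0 0) (P.cons (P.lf 0 1614998 0) (P.cons (P.lf 0 741806 0) P.nil))))) (P.cons (P.cons (P.lf 0 26446354 0) (P.cons (P.lf 8132727 0 0) (P.cons (P.lf 785202 0 0) (P.cons (P.lf 0 358944 0) P.nil)))) (P.cons (P.cons (P.lf 0 2488131 0) (P.cons (P.lf 1868639 0 0) (P.cons (P.lf 0 229356 0) P.nil))) (P.cons (P.cons (P.lf 339307 0 0) (P.cons (P.lf 47103 0 0) P.nil)) (P.cons (P.cons (P.lf 32818 0 0) P.nil) P.nil)))))) 518186)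
 (EL.cons 7 (TM.mk (P.cons (P.cons (P.lf 151065505 0 0) (P.cons (P.lf 93432934 0 0) (P.cons (P.lf 0 61617070 0) (P.cons (P.lf 5321627 0 0) (P.cons (P.lf 2220447 0 0) (P.cons (P.lf 0 165001 0) P.nil)))))) (P.cons (P.cons (P.lf 0 114404250 0) (P.cons (P.lf 22852123 0 0) (P.cons (P.lf 0 12501531 0) (P.cons (P.lf 958065 0 0) (P.cons (P.lf 440063 0 0) P.nil))))) (P.cons (P.cons (P.lf 22092778 0 0) (P.cons (P.lf 0 6103782 0) (P.cons (P.lf 233979 0 0) (P.cons (P.lf 159304 0 0) P.nil)))) (P.cons (P.cons (P.lf 116667 0 0) (P.cons (P.lf 0 710810 0) (P.cons (P.lf 150232 0 0) P.nil))) (P.cons (P.cons (P.lf 0 277714 0) (P.cons (P.lf 51465 0 0) P.nil)) (P.cons (P.cons (P.lf 639 0 0) P.nil) P.nil)))))) 255318)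
 (EL.cons 10 (TM.mk (P.cons (P.cons (P.lf 219828114 0 0) (P.cons (P.lf 183391356 0 0) (P.cons (P.lf 0 64596606 0) (P.cons (P.lf 0 18192186 0) (P.cons (P.lf 2603346 0 0) (P.cons (P.lf 473826 0 0) P.nil)))))) (P.cons (P.cons (P.lf 0 96226542 0) (P.cons (P.lf 75439560 0 0) (P.cons (P.lf 0 6243432 0) (P.cons (P.lf 0 5509920 0) (P.cons (P.lf 613788 0 0) P.nil))))) (P.cons (P.cons (P.lf 0 4510806 0) (P.cons (P.lf 6437526 0 0) (P.cons (P.lf 0 935802 0) (P.cons (P.lf 0 509304 0) P.nil)))) (P.cons (P.cons (P.lf 1485258 0 0) (P.cons (P.lf 0 156738 0) (P.cons (P.lf 0 127014 0) P.nil))) (P.cons (P.cons (P.lf 108984 0 0) (P.cons (P.lf 0 41664 0) P.nil)) (P.cons (P.cons (P.lf 0 3402 0) P.nil) P.nil)))))) 359640)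
 EL.nil))))
noncomputable def S154_169_512_660_9 : EL := (EL.cons 3 (TM.mk (P.cons (P.lf 0 2540061705 0) (P.cons (P.lf 142912387 0 0) (P.cons (P.lf 5630085 0 0) (P.cons (P.lf 0 945 0) (P.cons (P.lf 0 5182 0) (P.cons (P.lf 0 116 0) P.nil)))))) 67)
 (EL.cons 7 (TM.mk (P.cons (P.lf 0 1522390337 0) (P.cons (P.lf 0 84780425 0) (P.cons (P.lf 1405728 0 0) (P.cons (P.lf 110195 0 0) (P.cons (P.lf 1257 0 0) (P.cons (P.lf 0 72 0) P.nil)))))) 47)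
 EL.nil))
noncomputable def S154_169_512_660_10 : EL := (EL.cons 3 (TM.mk (P.cons (P.cons (P.lf 185930430 0 0) (P.cons (P.lf 183898950 0 0) (P.cons (P.lf 0 12295053 0) (P.lf 0 4098350 0)))) (P.cons (P.cons (P.lf 0 112557961 0) (P.cons (P.lf 20376683 0 0) (P.cons (P.lf 0 1362336 0) (P.lf 0 454111 0)))) (P.cons (P.cons (P.lf 12655053 0 0) (P.cons (P.lf 0 934681 0) (P.cons (P.lf 62490 0 0) (P.lf 20830 0 0)))) (P.cons (P.cons (P.lf 429108 0 0) (P.cons (P.lf 0 200540 0) (P.cons (P.lf 13406 0 0) P.nil))) (P.cons (P.cons (P.lf 0 59583 0) (P.cons (P.lf 0 4635 0) P.nil)) (P.cons (P.cons (P.lf 0 2799 0) P.nil) P.nil)))))) 7608)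
 (EL.cons 7 (TM.mk (P.cons (P.cons (P.lf 111437722 0 0) (P.cons (P.lf 110220151 0 0) (P.cons (P.lf 0 7369061 0) (P.lf 0 2456353 0)))) (P.cons (P.cons (P.lf 0 54986090 0) (P.cons (P.lf 24552207 0 0) (P.cons (P.lf 0 1641503 0) (P.lf 0 547167 0)))) (P.cons (P.cons (P.lf 878350 0 0) (P.cons (P.lf 1643835 0 0) (P.cons (P.lf 0 109902 0) (P.lf 0 36633 0)))) (P.cons (P.cons (P.lf 661304 0 0) (P.cons (P.lf 0 23779 0) (P.cons (P.lf 1589 0 0) P.nil))) (P.cons (P.cons (P.lf 15345 0 0) (P.cons (P.lf 0 7858 0) P.nil)) (P.cons (P.cons (P.lf 0 1956 0) P.nil) P.nil)))))) 4201)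
 EL.nil))
noncomputable def S154_169_512_660_11 : EL := (EL.cons 3 (TM.mk (P.cons (P.cons (P.lf 0 13609954 0) (P.cons (P.lf 0 26922503 0) (P.cons (P.lf 0 11514197 0) (P.cons (P.lf 2380300 0 0) (P.cons (P.lf 533921 0 0) (P.cons (P.lf 0 39675 0) P.nil)))))) (P.cons (P.cons (P.lf 15712559 0 0) (P.cons (P.lf 11800394 0 0) (P.cons (P.lf 0 4488565 0) (P.cons (P.lf 231712 0 0) (P.cons (P.lf 148360 0 0) P.nil))))) (P.cons (P.cons (P.lf 0 5986594 0) (P.cons (P.lf 714561 0 0) (P.cons (P.lf 0 313560 0) (P.cons (P.lf 19614 0 0) P.nil)))) (P.cons (P.cons (P.lf 756753 0 0) (P.cons (P.lf 0 252283 0) (P.cons (P.lf 37752 0 0) P.nil))) (P.cons (P.cons (P.lf 13033 0 0) (P.cons (P.lf 0 18597 0) P.nil)) (P.cons (P.cons (P.lf 0 6764 0) P.nil) P.nil)))))) 101662)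
 (EL.cons 7 (TM.mk (P.cons (P.cons (P.lf 0 8157149 0) (P.cons (P.lf 0 16136048 0) (P.cons (P.lf 0 6901054 0) (P.cons (P.lf 1426637 0 0) (P.cons (P.lf 320007 0 0) (P.cons (P.lf 0 23779 0) P.nil)))))) (P.cons (P.cons (P.lf 8504136 0 0) (P.cons (P.lf 5266117 0 0) (P.cons (P.lf 0 3462819 0) (P.cons (P.lf 298593 0 0) (P.cons (P.lf 124745 0 0) P.nil))))) (P.cons (P.cons (P.lf 0 2595710 0) (P.cons (P.lf 1097562 0 0) (P.cons (P.lf 0 541503 0) (P.cons (P.lf 38134 0 0) P.nil)))) (P.cons (P.cons (P.lf 118449 0 0) (P.cons (P.lf 0 59288 0) (P.cons (P.lf 0 22994 0) P.nil))) (P.cons (P.cons (P.lf 36632 0 0) (P.cons (P.lf 0 21333 0) P.nil)) (P.cons (P.cons (P.lf 0 1479 0) P.nil) P.nil)))))) 59636)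
 EL.nil))
noncomputable def S154_169_512_660_12 : EL := (EL.cons 4 (TM.mk (P.cons (P.lf 2540061705 0 0) (P.cons (P.lf 0 142912387 0) (P.cons (P.lf 0 5630085 0) (P.cons (P.lf 945 0 0) (P.cons (P.lf 5182 0 0) (P.cons (P.lf 116 0 0) P.nil)))))) 67)
 (EL.cons 8 (TM.mk (P.cons (P.lf 1522390337 0 0) (P.cons (P.lf 84780425 0 0) (P.cons (P.lf 0 1405728 0) (P.cons (P.lf 0 110195 0) (P.cons (P.lf 0 1257 0) (P.cons (P.lf 72 0 0) P.nil)))))) 47)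
 EL.nil))
noncomputable def S154_169_512_660_13 : EL := (EL.cons 4 (TM.mk (P.cons (P.cons (P.lf 0 185930430 0) (P.cons (P.lf 0 183898950 0) (P.cons (P.lf 12295053 0 0) (P.lf 4098350 0 0)))) (P.cons (P.cons (P.lf 112557961 0 0) (P.cons (P.lf 0 20376683 0) (P.cons (P.lf 1362336 0 0) (P.lf 454111 0 0)))) (P.cons (P.cons (P.lf 0 12655053 0) (P.cons (P.lf 934681 0 0) (P.cons (P.lf 0 62490 0) (P.lf 0 20830 0)))) (P.cons (P.cons (P.lf 0 429108 0) (P.cons (P.lf 200540 0 0) (P.cons (P.lf 0 13406 0) P.nil))) (P.cons (P.cons (P.lf 59583 0 0) (P.cons (P.lf 4635 0 0) P.nil)) (P.cons (P.cons (P.lf 2799 0 0) P.nil) P.nil)))))) 7608)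
 (EL.cons 8 (TM.mk (P.cons (P.cons (P.lf 0 111437722 0) (P.cons (P.lf 0 110220151 0) (P.cons (P.lf 7369061 0 0) (P.lf 2456353 0 0)))) (P.cons (P.cons (P.lf 54986090 0 0) (P.cons (P.lf 0 24552207 0) (P.cons (P.lf 1641503 0 0) (P.lf 547167 0 0)))) (P.cons (P.cons (P.lf 0 878350 0) (P.cons (P.lf 0 1643835 0) (P.cons (P.lf 109902 0 0) (P.lf 36633 0 0)))) (P.cons (P.cons (P.lf 0 661304 0) (P.cons (P.lf 23779 0 0) (P.cons (P.lf 0 1589 0) P.nil))) (P.cons (P.cons (P.lf 0 15345 0) (P.cons (P.lf 7858 0 0) P.nil)) (P.cons (P.cons (P.lf 1956 0 0) P.nil) P.nil)))))) 4201)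
 EL.nil))
noncomputable def S154_169_512_660_14 : EL := (EL.cons 4 (TM.mk (P.cons (P.cons (P.lf 13609954 0 0) (P.cons (P.lf 26922503 0 0) (P.cons (P.lf 11514197 0 0) (P.cons (P.lf 0 2380300 0) (P.cons (P.lf 0 533921 0) (P.cons (P.lf 39675 0 0) P.nil)))))) (P.cons (P.cons (P.lf 0 15712559 0) (P.cons (P.lf 0 11800394 0) (P.cons (P.lf 4488565 0 0) (P.cons (P.lf 0 231712 0) (P.cons (P.lf 0 148360 0) P.nil))))) (P.cons (P.cons (P.lf 5986594 0 0) (P.cons (P.lf 0 714561 0) (P.cons (P.lf 313560 0 0) (P.cons (P.lf 0 19614 0) P.nil)))) (P.cons (P.cons (P.lf 0 756753 0) (P.cons (P.lf 252283 0 0) (P.cons (P.lf 0 37752 0) P.nil))) (P.cons (P.cons (P.lf 0 13033 0) (P.cons (P.lf 18597 0 0) P.nil)) (P.cons (P.cons (P.lf 6764 0 0) P.nil) P.nil)))))) 101662)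
 (EL.cons 8 (TM.mk (P.cons (P.cons (P.lf 8157149 0 0) (P.cons (P.lf 16136048 0 0) (P.cons (P.lf 6901054 0 0) (P.cons (P.lf 0 1426637 0) (P.cons (P.lf 0 320007 0) (P.cons (P.lf 23779 0 0) P.nil)))))) (P.cons (P.cons (P.lf 0 8504136 0) (P.cons (P.lf 0 5266117 0) (P.cons (P.lf 3462819 0 0) (P.cons (P.lf 0 298593 0) (P.cons (P.lf 0 124745 0) P.nil))))) (P.cons (P.cons (P.lf 2595710 0 0) (P.cons (P.lf 0 1097562 0) (P.cons (P.lf 541503 0 0) (P.cons (P.lf 0 38134 0) P.nil)))) (P.cons (P.cons (P.lf 0 118449 0) (P.cons (P.lf 59288 0 0) (P.cons (P.lf 22994 0 0) P.nil))) (P.cons (P.cons (P.lf 0 36632 0) (P.cons (P.lf 21333 0 0) P.nil)) (P.cons (P.cons (P.lf 1479 0 0) P.nil) P.nil)))))) 59636)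
 EL.nil))
noncomputable def S154_169_512_660_15 : EL := (EL.cons 4 (TM.mk (P.cons (P.lf 0 1602350041 0) (P.cons (P.lf 180307170 0 0) (P.cons (P.lf 2030922 0 0) (P.cons (P.lf 0 400845 0) (P.cons (P.lf 0 14342 0) (P.cons (P.lf 223 0 0) P.nil)))))) 116)
 (EL.cons 8 (TM.mk (P.cons (P.lf 0 960371244 0) (P.cons (P.lf 551573 0 0) (P.cons (P.lf 6024538 0 0) (P.cons (P.lf 137808 0 0) (P.cons (P.lf 0 7063 0) (P.cons (P.lf 0 396 0) P.nil)))))) 71)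
 EL.nil))
noncomputable def S154_169_512_660_16 : EL := (EL.cons 4 (TM.mk (P.cons (P.cons (P.lf 117290706 0 0) (P.cons (P.lf 116009186 0 0) (P.cons (P.lf 0 7756102 0) (P.lf 0 2585367 0)))) (P.cons (P.cons (P.lf 0 77604236 0) (P.cons (P.lf 6327180 0 0) (P.cons (P.lf 0 423019 0) (P.lf 0 141006 0)))) (P.cons (P.cons (P.lf 11718209 0 0) (P.cons (P.lf 0 1569985 0) (P.cons (P.lf 104965 0 0) (P.lf 34988 0 0)))) (P.cons (P.cons (P.lf 0 21038 0) (P.cons (P.lf 0 121781 0) (P.cons (P.lf 8141 0 0) P.nil))) (P.cons (P.cons (P.lf 0 70299 0) (P.cons (P.lf 5741 0 0) P.nil)) (P.cons (P.cons (P.lf 0 387 0) P.nil) P.nil)))))) 7463)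
 (EL.cons 8 (TM.mk (P.cons (P.cons (P.lf 70298386 0 0) (P.cons (P.lf 69530304 0 0) (P.cons (P.lf 0 4648633 0) (P.lf 0 1549544 0)))) (P.cons (P.cons (P.lf 0 38642161 0) (P.cons (P.lf 11576289 0 0) (P.cons (P.lf 0 773963 0) (P.lf 0 257987 0)))) (P.cons (P.cons (P.lf 2349876 0 0) (P.cons (P.lf 11444 0 0) (P.cons (P.lf 0 765 0) (P.lf 0 254 0)))) (P.cons (P.cons (P.lf 462906 0 0) (P.cons (P.lf 0 107649 0) (P.cons (P.lf 7196 0 0) P.nil))) (P.cons (P.cons (P.lf 0 14888 0) (P.cons (P.lf 0 6263 0) P.nil)) (P.cons (P.cons (P.lf 0 2770 0) P.nil) P.nil)))))) 4452)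
 EL.nil))
noncomputable def S154_169_512_660_17 : EL := (EL.cons 4 (TM.mk (P.cons (P.cons (P.lf 0 8585582 0) (P.cons (P.lf 0 16983554 0) (P.cons (P.lf 0 7263514 0) (P.cons (P.lf 1501567 0 0) (P.cons (P.lf 336813 0 0) (P.cons (P.lf 0 25028 0) P.nil)))))) (P.cons (P.cons (P.lf 10395025 0 0) (P.cons (P.lf 8399608 0 0) (P.cons (P.lf 0 2422857 0) (P.cons (P.lf 61688 0 0) (P.cons (P.lf 74640 0 0) P.nil))))) (P.cons (P.cons (P.lf 0 4315180 0) (P.cons (P.lf 69584 0 0) (P.cons (P.lf 0 22392 0) (P.cons (P.lf 820 0 0) P.nil)))) (P.cons (P.cons (P.lf 667890 0 0) (P.cons (P.lf 0 201015 0) (P.cons (P.lf 41217 0 0) P.nil))) (P.cons (P.cons (P.lf 0 10279 0) (P.cons (P.lf 0 3808 0) P.nil)) (P.cons (P.cons (P.lf 0 5769 0) P.nil) P.nil)))))) 78236)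
 (EL.cons 8 (TM.mk (P.cons (P.cons (P.lf 0 5145784 0) (P.cons (P.lf 0 10179122 0) (P.cons (P.lf 0 4353399 0) (P.cons (P.lf 899967 0 0) (P.cons (P.lf 201870 0 0) (P.cons (P.lf 0 15000 0) P.nil)))))) (P.cons (P.cons (P.lf 5654193 0 0) (P.cons (P.lf 3894742 0 0) (P.cons (P.lf 0 1939517 0) (P.cons (P.lf 137726 0 0) (P.cons (P.lf 67335 0 0) P.nil))))) (P.cons (P.cons (P.lf 0 1927883 0) (P.cons (P.lf 528030 0 0) (P.cons (P.lf 0 209042 0) (P.cons (P.lf 11463 0 0) P.nil)))) (P.cons (P.cons (P.lf 154957 0 0) (P.cons (P.lf 0 83723 0) (P.cons (P.lf 9553 0 0) P.nil))) (P.cons (P.cons (P.lf 22525 0 0) (P.cons (P.lf 0 12907 0) P.nil)) (P.cons (P.cons (P.lf 0 2388 0) P.nil) P.nil)))))) 47181)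
 EL.nil))
noncomputable def S154_169_512_660_18 : EL := (EL.cons 4 (TM.mk (P.cons (P.lf 1010812316 0 0) (P.cons (P.lf 0 170615069 0) (P.cons (P.lf 2877933 0 0) (P.cons (P.lf 577438 0 0) (P.cons (P.lf 0 318 0) (P.cons (P.lf 0 1395 0) P.nil)))))) 149)
 (EL.cons 8 (TM.mk (P.cons (P.lf 605832095 0 0) (P.cons (P.lf 0 34434094 0) (P.cons (P.lf 0 5123725 0) (P.cons (P.lf 127889 0 0) (P.cons (P.lf 19006 0 0) (P.cons (P.lf 218 0 0) P.nil)))))) 96)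
 EL.nil))
noncomputable def S154_169_512_660_19 : EL := (EL.cons 4 (TM.mk (P.cons (P.cons (P.lf 0 73990631 0) (P.cons (P.lf 0 73182208 0) (P.cons (P.lf 4892790 0 0) (P.lf 1630929 0 0)))) (P.cons (P.cons (P.lf 53118130 0 0) (P.cons (P.lf 126092 0 0) (P.cons (P.lf 0 8430 0) (P.lf 0 2809 0)))) (P.cons (P.cons (P.lf 0 9982591 0) (P.cons (P.lf 1377173 0 0) (P.cons (P.lf 0 92074 0) (P.lf 0 30691 0)))) (P.cons (P.cons (P.lf 320644 0 0) (P.cons (P.lf 29920 0 0) (P.cons (P.lf 0 1999 0) P.nil))) (P.cons (P.cons (P.lf 59851 0 0) (P.cons (P.lf 0 10290 0) P.nil)) (P.cons (P.cons (P.lf 0 2185 0) P.nil) P.nil)))))) 7328)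
 (EL.cons 8 (TM.mk (P.cons (P.cons (P.lf 0 44346411 0) (P.cons (P.lf 0 43861881 0) (P.cons (P.lf 2932502 0 0) (P.lf 977500 0 0)))) (P.cons (P.cons (P.lf 26871756 0 0) (P.cons (P.lf 0 4834867 0) (P.cons (P.lf 323247 0 0) (P.lf 107749 0 0)))) (P.cons (P.cons (P.lf 0 2755594 0) (P.cons (P.lf 500874 0 0) (P.cons (P.lf 0 33487 0) (P.lf 0 11162 0)))) (P.cons (P.cons (P.lf 0 262660 0) (P.cons (P.lf 84484 0 0) (P.cons (P.lf 0 5648 0) P.nil))) (P.cons (P.cons (P.lf 29026 0 0) (P.cons (P.lf 54 0 0) P.nil)) (P.cons (P.cons (P.lf 1913 0 0) P.nil) P.nil)))))) 4357)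
 EL.nil))
noncomputable def S154_169_512_660_20 : EL := (EL.cons 4 (TM.mk (P.cons (P.cons (P.lf 5416052 0 0) (P.cons (P.lf 10713754 0 0) (P.cons (P.lf 4582050 0 0) (P.cons (P.lf 0 947235 0) (P.cons (P.lf 0 212473 0) (P.cons (P.lf 15788 0 0) P.nil)))))) (P.cons (P.cons (P.lf 0 6862230 0) (P.cons (P.lf 0 5901525 0) (P.cons (P.lf 1270611 0 0) (P.cons (P.lf 14379 0 0) (P.cons (P.lf 0 35130 0) P.nil))))) (P.cons (P.cons (P.lf 3079093 0 0) (P.cons (P.lf 230480 0 0) (P.cons (P.lf 0 82022 0) (P.cons (P.lf 3770 0 0) P.nil)))) (P.cons (P.cons (P.lf 0 559946 0) (P.cons (P.lf 141025 0 0) (P.cons (P.lf 0 30181 0) P.nil))) (P.cons (P.cons (P.lf 24165 0 0) (P.cons (P.lf 0 4614 0) P.nil)) (P.cons (P.cons (P.lf 4196 0 0) P.nil) P.nil)))))) 60487)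
 (EL.cons 8 (TM.mk (P.cons (P.cons (P.lf 3246120 0 0) (P.cons (P.lf 6421307 0 0) (P.cons (P.lf 2746260 0 0) (P.cons (P.lf 0 567727 0) (P.cons (P.lf 0 127345 0) (P.cons (P.lf 9462 0 0) P.nil)))))) (P.cons (P.cons (P.lf 0 3749479 0) (P.cons (P.lf 0 2818209 0) (P.cons (P.lf 1068993 0 0) (P.cons (P.lf 0 54939 0) (P.cons (P.lf 0 35312 0) P.nil))))) (P.cons (P.cons (P.lf 1409656 0 0) (P.cons (P.lf 0 209095 0) (P.cons (P.lf 56944 0 0) (P.cons (P.lf 0 1084 0) P.nil)))) (P.cons (P.cons (P.lf 0 158270 0) (P.cons (P.lf 77004 0 0) (P.cons (P.lf 0 16156 0) P.nil))) (P.cons (P.cons (P.lf 0 11400 0) (P.cons (P.lf 5921 0 0) P.nil)) (P.cons (P.cons (P.lf 2516 0 0) P.nil) P.nil)))))) 34887)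
 EL.nil))
noncomputable def S154_169_512_660_21 : EL := (EL.cons 4 (TM.mk (P.cons (P.cons (P.lf 0 1833339732 0) (P.cons (P.lf 551696850 0 0) (P.cons (P.lf 0 36885159 0) (P.lf 0 12295050 0)))) (P.cons (P.cons (P.lf 203247624 0 0) (P.cons (P.lf 61130049 0 0) (P.cons (P.lf 0 4087008 0) (P.lf 0 1362333 0)))) (P.cons (P.cons (P.lf 44057928 0 0) (P.cons (P.lf 0 2804043 0) (P.cons (P.lf 187470 0 0) (P.lf 62490 0 0)))) (P.cons (P.cons (P.lf 84789 0 0) (P.cons (P.lf 0 601620 0) (P.cons (P.lf 40218 0 0) P.nil))) (P.cons (P.cons (P.lf 0 221778 0) (P.cons (P.lf 0 13905 0) P.nil)) (P.cons (P.cons (P.lf 0 7731 0) P.nil) P.nil)))))) 23178)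
 (EL.cons 8 (TM.mk (P.cons (P.cons (P.lf 1087598670 0 0) (P.cons (P.lf 0 327285102 0) (P.cons (P.lf 21881526 0 0) (P.lf 7293843 0 0)))) (P.cons (P.cons (P.lf 0 242332563 0) (P.cons (P.lf 375936 0 0) (P.cons (P.lf 0 25134 0) (P.lf 0 8376 0)))) (P.cons (P.cons (P.lf 0 7263957 0) (P.cons (P.lf 4106094 0 0) (P.cons (P.lf 0 274521 0) (P.lf 0 91506 0)))) (P.cons (P.cons (P.lf 1947372 0 0) (P.cons (P.lf 91572 0 0) (P.cons (P.lf 0 6123 0) P.nil))) (P.cons (P.cons (P.lf 62715 0 0) (P.cons (P.lf 0 17745 0) P.nil)) (P.cons (P.cons (P.lf 0 5364 0) P.nil) P.nil)))))) 17202)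
 (EL.cons 11 (TM.mk (P.cons (P.cons (P.lf 1501575039 0 0) (P.cons (P.lf 0 232481523 0) (P.cons (P.lf 0 112002264 0) (P.cons (P.lf 4238493 0 0) (P.lf 1059621 0 0))))) (P.cons (P.cons (P.lf 167242482 0 0) (P.cons (P.lf 0 25893336 0) (P.cons (P.lf 0 12474591 0) (P.cons (P.lf 472074 0 0) (P.lf 118017 0 0))))) (P.cons (P.cons (P.lf 1883766 0 0) (P.cons (P.lf 0 291654 0) (P.cons (P.lf 0 140508 0) (P.cons (P.lf 5316 0 0) P.nil)))) (P.cons (P.cons (P.lf 0 371799 0) (P.cons (P.lf 57564 0 0) (P.cons (P.lf 27732 0 0) P.nil))) (P.cons (P.cons (P.lf 0 13302 0) (P.cons (P.lf 2058 0 0) P.nil)) (P.cons (P.cons (P.lf 201 0 0) P.nil) P.nil)))))) 3996)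
 EL.nil)))
noncomputable def S154_169_512_660_22 : EL := (EL.cons 4 (TM.mk (P.cons (P.cons (P.lf 134198961 0 0) (P.cons (P.lf 92348943 0 0) (P.cons (P.lf 0 46116756 0) (P.cons (P.lf 3282849 0 0) (P.cons (P.lf 1601766 0 0) (P.cons (P.lf 0 119025 0) P.nil)))))) (P.cons (P.cons (P.lf 0 88568007 0) (P.cons (P.lf 25160847 0 0) (P.cons (P.lf 0 12781053 0) (P.cons (P.lf 923355 0 0) (P.cons (P.lf 445083 0 0) P.nil))))) (P.cons (P.cons (P.lf 10229880 0 0) (P.cons (P.lf 0 3709083 0) (P.cons (P.lf 0 549381 0) (P.cons (P.lf 189279 0 0) P.nil)))) (P.cons (P.cons (P.lf 1622442 0 0) (P.cons (P.lf 0 1060461 0) (P.cons (P.lf 133554 0 0) P.nil))) (P.cons (P.cons (P.lf 0 163137 0) (P.cons (P.lf 0 32850 0) P.nil)) (P.cons (P.cons (P.lf 0 19791 0) P.nil) P.nil)))))) 208251)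
 (EL.cons 8 (TM.mk (P.cons (P.cons (P.lf 0 79611327 0) (P.cons (P.lf 0 54784491 0) (P.cons (P.lf 27358008 0 0) (P.cons (P.lf 0 1947495 0) (P.cons (P.lf 0 950220 0) (P.cons (P.lf 70611 0 0) P.nil)))))) (P.cons (P.cons (P.lf 61454193 0 0) (P.cons (P.lf 0 8793003 0) (P.cons (P.lf 4519356 0 0) (P.cons (P.lf 0 329736 0) (P.cons (P.lf 0 157659 0) P.nil))))) (P.cons (P.cons (P.lf 0 12344244 0) (P.cons (P.lf 3600672 0 0) (P.cons (P.lf 0 387741 0) (P.cons (P.lf 0 60585 0) P.nil)))) (P.cons (P.cons (P.lf 891 0 0) (P.cons (P.lf 325761 0 0) (P.cons (P.lf 0 86613 0) P.nil))) (P.cons (P.cons (P.lf 157173 0 0) (P.cons (P.lf 0 36399 0) P.nil)) (P.cons (P.cons (P.lf 0 1059 0) P.nil) P.nil)))))) 97830)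
 (EL.cons 11 (TM.mk (P.cons (P.cons (P.lf 0 109914057 0) (P.cons (P.lf 0 91695678 0) (P.cons (P.lf 32298303 0 0) (P.cons (P.lf 9096093 0 0) (P.cons (P.lf 0 1301673 0) (P.cons (P.lf 0 236913 0) P.nil)))))) (P.cons (P.cons (P.lf 48113271 0 0) (P.cons (P.lf 0 37719780 0) (P.cons (P.lf 3121716 0 0) (P.cons (P.lf 2754960 0 0) (P.cons (P.lf 0 306894 0) P.nil))))) (P.cons (P.cons (P.lf 2255403 0 0) (P.cons (P.lf 0 3218763 0) (P.cons (P.lf 467901 0 0) (P.cons (P.lf 254652 0 0) P.nil)))) (P.cons (P.cons (P.lf 0 742629 0) (P.cons (P.lf 78369 0 0) (P.cons (P.lf 63507 0 0) P.nil))) (P.cons (P.cons (P.lf 0 54492 0) (P.cons (P.lf 20832 0 0) P.nil)) (P.cons (P.cons (P.lf 1701 0 0) P.nil) P.nil)))))) 179820)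
 EL.nil)))
noncomputable def S154_169_512_660_23 : EL := (EL.cons 4 (TM.mk (P.cons (P.cons (P.lf 1156527807 0 0) (P.cons (P.lf 0 348027555 0) (P.cons (P.lf 23268306 0 0) (P.lf 7756098 0 0)))) (P.cons (P.cons (P.lf 0 193285062 0) (P.cons (P.lf 0 18981540 0) (P.cons (P.lf 1269057 0 0) (P.lf 423015 0 0)))) (P.cons (P.cons (P.lf 0 23142771 0) (P.cons (P.lf 4709952 0 0) (P.cons (P.lf 0 314895 0) (P.lf 0 104964 0)))) (P.cons (P.cons (P.lf 1794864 0 0) (P.cons (P.lf 365343 0 0) (P.cons (P.lf 0 24420 0) P.nil))) (P.cons (P.cons (P.lf 206829 0 0) (P.cons (P.lf 0 17226 0) P.nil)) (P.cons (P.cons (P.lf 0 3093 0) P.nil) P.nil)))))) 23721)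
 (EL.cons 8 (TM.mk (P.cons (P.cons (P.lf 0 686091117 0) (P.cons (P.lf 206461635 0 0) (P.cons (P.lf 0 13803546 0) (P.lf 0 4601181 0)))) (P.cons (P.cons (P.lf 191472714 0 0) (P.cons (P.lf 0 11853375 0) (P.cons (P.lf 792489 0 0) (P.lf 264159 0 0)))) (P.cons (P.cons (P.lf 0 2497968 0) (P.cons (P.lf 0 3034533 0) (P.cons (P.lf 202878 0 0) (P.lf 67626 0 0)))) (P.cons (P.cons (P.lf 0 1825374 0) (P.cons (P.lf 88572 0 0) (P.cons (P.lf 0 5919 0) P.nil))) (P.cons (P.cons (P.lf 18054 0 0) (P.cons (P.lf 20604 0 0) P.nil)) (P.cons (P.cons (P.lf 8613 0 0) P.nil) P.nil)))))) 16710)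
 (EL.cons 11 (TM.mk (P.cons (P.cons (P.lf 0 947240304 0) (P.cons (P.lf 146656584 0 0) (P.cons (P.lf 70654515 0 0) (P.cons (P.lf 0 2673771 0) (P.lf 0 668439 0))))) (P.cons (P.cons (P.lf 0 52206849 0) (P.cons (P.lf 8082930 0 0) (P.cons (P.lf 3894099 0 0) (P.cons (P.lf 0 147363 0) (P.lf 0 36840 0))))) (P.cons (P.cons (P.lf 6847116 0 0) (P.cons (P.lf 0 1060104 0) (P.cons (P.lf 0 510726 0) (P.cons (P.lf 19326 0 0) P.nil)))) (P.cons (P.cons (P.lf 534894 0 0) (P.cons (P.lf 0 82815 0) (P.cons (P.lf 0 39897 0) P.nil))) (P.cons (P.cons (P.lf 0 4140 0) (P.cons (P.lf 642 0 0) P.nil)) (P.cons (P.cons (P.lf 0 1377 0) P.nil) P.nil)))))) 11079)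
 EL.nil)))
noncomputable def S154_169_512_660_24 : EL := (EL.cons 4 (TM.mk (P.cons (P.cons (P.lf 0 84656883 0) (P.cons (P.lf 0 58256589 0) (P.cons (P.lf 29091885 0 0) (P.cons (P.lf 0 2070921 0) (P.cons (P.lf 0 1010442 0) (P.cons (P.lf 75084 0 0) P.nil)))))) (P.cons (P.cons (P.lf 60634536 0 0) (P.cons (P.lf 0 12594534 0) (P.cons (P.lf 6425877 0 0) (P.cons (P.lf 0 465963 0) (P.cons (P.lf 0 223920 0) P.nil))))) (P.cons (P.cons (P.lf 0 9409197 0) (P.cons (P.lf 3361956 0 0) (P.cons (P.lf 0 171549 0) (P.cons (P.lf 0 82041 0) P.nil)))) (P.cons (P.cons (P.lf 0 784272 0) (P.cons (P.lf 572484 0 0) (P.cons (P.lf 0 121608 0) P.nil))) (P.cons (P.cons (P.lf 174648 0 0) (P.cons (P.lf 0 22224 0) P.nil)) (P.cons (P.cons (P.lf 9069 0 0) P.nil) P.nil)))))) 123612)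
 (EL.cons 8 (TM.mk (P.cons (P.cons (P.lf 50221305 0 0) (P.cons (P.lf 34559763 0 0) (P.cons (P.lf 0 17258283 0) (P.cons (P.lf 1228542 0 0) (P.cons (P.lf 599430 0 0) (P.cons (P.lf 0 44541 0) P.nil)))))) (P.cons (P.cons (P.lf 0 41592837 0) (P.cons (P.lf 3602451 0 0) (P.cons (P.lf 0 1879941 0) (P.cons (P.lf 138885 0 0) (P.cons (P.lf 65730 0 0) P.nil))))) (P.cons (P.cons (P.lf 9856989 0 0) (P.cons (P.lf 0 2660106 0) (P.cons (P.lf 443256 0 0) (P.cons (P.lf 23793 0 0) P.nil)))) (P.cons (P.cons (P.lf 0 352743 0) (P.cons (P.lf 0 89985 0) (P.cons (P.lf 47190 0 0) P.nil))) (P.cons (P.cons (P.lf 0 116289 0) (P.cons (P.lf 39630 0 0) P.nil)) (P.cons (P.cons (P.lf 6174 0 0) P.nil) P.nil)))))) 59064)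
 (EL.cons 11 (TM.mk (P.cons (P.cons (P.lf 69337212 0 0) (P.cons (P.lf 57844491 0 0) (P.cons (P.lf 0 20374773 0) (P.cons (P.lf 0 5738097 0) (P.cons (P.lf 821136 0 0) (P.cons (P.lf 149451 0 0) P.nil)))))) (P.cons (P.cons (P.lf 0 34252494 0) (P.cons (P.lf 20540286 0 0) (P.cons (P.lf 0 822921 0) (P.cons (P.lf 0 1415070 0) (P.cons (P.lf 147399 0 0) P.nil))))) (P.cons (P.cons (P.lf 131202 0 0) (P.cons (P.lf 563505 0 0) (P.cons (P.lf 0 139209 0) (P.cons (P.lf 0 50142 0) P.nil)))) (P.cons (P.cons (P.lf 615825 0 0) (P.cons (P.lf 0 216399 0) (P.cons (P.lf 0 19098 0) P.nil))) (P.cons (P.cons (P.lf 11301 0 0) (P.cons (P.lf 0 14733 0) P.nil)) (P.cons (P.cons (P.lf 0 4104 0) P.nil) P.nil)))))) 106245)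
 EL.nil)))
noncomputable def S154_169_512_660_25 : EL := (EL.cons 4 (TM.mk (P.cons (P.cons (P.lf 0 729573765 0) (P.cons (P.lf 219546621 0 0) (P.cons (P.lf 0 14678370 0) (P.lf 0 4892787 0)))) (P.cons (P.cons (P.lf 162978504 0 0) (P.cons (P.lf 0 378279 0) (P.cons (P.lf 25290 0 0) (P.lf 8430 0 0)))) (P.cons (P.cons (P.lf 9356088 0 0) (P.cons (P.lf 0 4131519 0) (P.cons (P.lf 276222 0 0) (P.lf 92073 0 0)))) (P.cons (P.cons (P.lf 0 2224188 0) (P.cons (P.lf 0 89760 0) (P.cons (P.lf 5997 0 0) P.nil))) (P.cons (P.cons (P.lf 0 100572 0) (P.cons (P.lf 30870 0 0) P.nil)) (P.cons (P.cons (P.lf 12021 0 0) P.nil) P.nil)))))) 20037)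
 (EL.cons 8 (TM.mk (P.cons (P.cons (P.lf 432807645 0 0) (P.cons (P.lf 0 130242429 0) (P.cons (P.lf 8707707 0 0) (P.lf 2902569 0 0)))) (P.cons (P.cons (P.lf 0 145138161 0) (P.cons (P.lf 14805354 0 0) (P.cons (P.lf 0 989850 0) (P.lf 0 329949 0)))) (P.cons (P.cons (P.lf 7412349 0 0) (P.cons (P.lf 1782255 0 0) (P.cons (P.lf 0 119154 0) (P.lf 0 39717 0)))) (P.cons (P.cons (P.lf 1330731 0 0) (P.cons (P.lf 0 180198 0) (P.cons (P.lf 12045 0 0) P.nil))) (P.cons (P.cons (P.lf 0 78831 0) (P.cons (P.lf 0 14361 0) P.nil)) (P.cons (P.cons (P.lf 0 7569 0) P.nil) P.nil)))))) 14991)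
 (EL.cons 11 (TM.mk (P.cons (P.cons (P.lf 597548688 0 0) (P.cons (P.lf 0 92515542 0) (P.cons (P.lf 0 44571069 0) (P.cons (P.lf 1686699 0 0) (P.lf 421671 0 0))))) (P.cons (P.cons (P.lf 0 686382 0) (P.cons (P.lf 106269 0 0) (P.cons (P.lf 51195 0 0) (P.cons (P.lf 0 1935 0) (P.lf 0 483 0))))) (P.cons (P.cons (P.lf 0 7496811 0) (P.cons (P.lf 1160694 0 0) (P.cons (P.lf 559185 0 0) (P.cons (P.lf 0 21159 0) P.nil)))) (P.cons (P.cons (P.lf 0 167181 0) (P.cons (P.lf 25884 0 0) (P.cons (P.lf 12468 0 0) P.nil))) (P.cons (P.cons (P.lf 32403 0 0) (P.cons (P.lf 0 5016 0) P.nil)) (P.cons (P.cons (P.lf 1563 0 0) P.nil) P.nil)))))) 12228)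
 EL.nil)))
noncomputable def S154_169_512_660_26 : EL := (EL.cons 4 (TM.mk (P.cons (P.cons (P.lf 53404200 0 0) (P.cons (P.lf 36750072 0 0) (P.cons (P.lf 0 18352068 0) (P.cons (P.lf 1306401 0 0) (P.cons (P.lf 637419 0 0) (P.cons (P.lf 0 47364 0) P.nil)))))) (P.cons (P.cons (P.lf 0 41254854 0) (P.cons (P.lf 5877342 0 0) (P.cons (P.lf 0 3021093 0) (P.cons (P.lf 220440 0 0) (P.cons (P.lf 105393 0 0) P.nil))))) (P.cons (P.cons (P.lf 7969326 0 0) (P.cons (P.lf 0 2649297 0) (P.cons (P.lf 376965 0 0) (P.cons (P.lf 32319 0 0) P.nil)))) (P.cons (P.cons (P.lf 245586 0 0) (P.cons (P.lf 0 259413 0) (P.cons (P.lf 79602 0 0) P.nil))) (P.cons (P.cons (P.lf 0 151071 0) (P.cons (P.lf 39117 0 0) P.nil)) (P.cons (P.cons (P.lf 0 693 0) P.nil) P.nil)))))) 83034)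
 (EL.cons 8 (TM.mk (P.cons (P.cons (P.lf 0 31681164 0) (P.cons (P.lf 0 21801375 0) (P.cons (P.lf 10887060 0 0) (P.cons (P.lf 0 775002 0) (P.cons (P.lf 0 378138 0) (P.cons (P.lf 28098 0 0) P.nil)))))) (P.cons (P.cons (P.lf 28020546 0 0) (P.cons (P.lf 0 1045920 0) (P.cons (P.lf 573381 0 0) (P.cons (P.lf 0 44010 0) (P.cons (P.lf 0 20187 0) P.nil))))) (P.cons (P.cons (P.lf 0 7624116 0) (P.cons (P.lf 1854261 0 0) (P.cons (P.lf 0 370473 0) (P.cons (P.lf 0 8361 0) P.nil)))) (P.cons (P.cons (P.lf 514203 0 0) (P.cons (P.lf 0 32619 0) (P.cons (P.lf 0 16659 0) P.nil))) (P.cons (P.cons (P.lf 74565 0 0) (P.cons (P.lf 0 31959 0) P.nil)) (P.cons (P.cons (P.lf 0 8466 0) P.nil) P.nil)))))) 42189)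
 (EL.cons 11 (TM.mk (P.cons (P.cons (P.lf 0 43740072 0) (P.cons (P.lf 0 36490104 0) (P.cons (P.lf 12853041 0 0) (P.cons (P.lf 3619770 0 0) (P.cons (P.lf 0 517998 0) (P.cons (P.lf 0 94278 0) P.nil)))))) (P.cons (P.cons (P.lf 24068502 0 0) (P.cons (P.lf 0 10904397 0) (P.cons (P.lf 0 204030 0) (P.cons (P.lf 689007 0 0) (P.cons (P.lf 0 63837 0) P.nil))))) (P.cons (P.cons (P.lf 0 1201527 0) (P.cons (P.lf 454431 0 0) (P.cons (P.lf 30120 0 0) (P.cons (P.lf 0 26613 0) P.nil)))) (P.cons (P.cons (P.lf 0 431733 0) (P.cons (P.lf 185217 0 0) (P.cons (P.lf 5961 0 0) P.nil))) (P.cons (P.cons (P.lf 14829 0 0) (P.cons (P.lf 2322 0 0) P.nil)) (P.cons (P.cons (P.lf 3891 0 0) P.nil) P.nil)))))) 69891)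
 EL.nil)))
noncomputable def S154_169_512_660_27 : EL := (EL.cons 13 (TM.mk (P.lf 0 4294967296 0) 0)
 EL.nil)
noncomputable def S154_169_512_660_28 : EL := (EL.cons 13 (TM.mk (P.cons (P.cons (P.lf 314388079 0 0) (P.cons (P.lf 310953068 0 0) (P.cons (P.lf 0 20789596 0) (P.lf 0 6929864 0)))) (P.cons (P.cons (P.lf 0 172634710 0) (P.cons (P.lf 51950012 0 0) (P.cons (P.lf 0 3473256 0) (P.lf 0 1157752 0)))) (P.cons (P.cons (P.lf 12382155 0 0) (P.cons (P.lf 2031668 0 0) (P.cons (P.lf 0 135832 0) (P.lf 0 45276 0)))) (P.cons (P.cons (P.lf 1039474 0 0) (P.cons (P.lf 0 109752 0) (P.cons (P.lf 7336 0 0) P.nil))) (P.cons (P.cons (P.lf 0 15398 0) (P.cons (P.lf 0 10164 0) P.nil)) (P.cons (P.cons (P.lf 0 2964 0) P.nil) P.nil)))))) 5249)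
 EL.nil)
noncomputable def S154_169_512_660_29 : EL := (EL.cons 13 (TM.mk (P.cons (P.cons (P.lf 0 23012949 0) (P.cons (P.lf 0 45523018 0) (P.cons (P.lf 0 19469253 0) (P.cons (P.lf 4024829 0 0) (P.cons (P.lf 902804 0 0) (P.cons (P.lf 0 67087 0) P.nil)))))) (P.cons (P.cons (P.lf 25273438 0 0) (P.cons (P.lf 17391903 0 0) (P.cons (P.lf 0 8685081 0) (P.cons (P.lf 618252 0 0) (P.cons (P.lf 301657 0 0) P.nil))))) (P.cons (P.cons (P.lf 0 8751719 0) (P.cons (P.lf 2085871 0 0) (P.cons (P.lf 0 1062003 0) (P.cons (P.lf 76872 0 0) P.nil)))) (P.cons (P.cons (P.lf 843215 0 0) (P.cons (P.lf 0 270660 0) (P.cons (P.lf 0 15160 0) P.nil))) (P.cons (P.cons (P.lf 50119 0 0) (P.cons (P.lf 0 41965 0) P.nil)) (P.cons (P.cons (P.lf 0 6797 0) P.nil) P.nil)))))) 127961)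
 EL.nil)
noncomputable def S154_169_512_660_30 : EL := (EL.cons 13 (TM.mk (P.cons (P.lf 2709399152 0 0) (P.cons (P.lf 0 152439880 0) (P.cons (P.lf 0 6005424 0) (P.cons (P.lf 1008 0 0) (P.cons (P.lf 5528 0 0) (P.cons (P.lf 124 0 0) P.nil)))))) 64)
 EL.nil)
noncomputable def S154_169_512_660_31 : EL := (EL.cons 13 (TM.mk (P.cons (P.cons (P.lf 0 198325792 0) (P.cons (P.lf 0 196158881 0) (P.cons (P.lf 13114724 0 0) (P.lf 4371574 0 0)))) (P.cons (P.cons (P.lf 120061826 0 0) (P.cons (P.lf 0 21735129 0) (P.cons (P.lf 1453159 0 0) (P.lf 484386 0 0)))) (P.cons (P.cons (P.lf 0 13498724 0) (P.cons (P.lf 996994 0 0) (P.cons (P.lf 0 66657 0) (P.lf 0 22219 0)))) (P.cons (P.cons (P.lf 0 457716 0) (P.cons (P.lf 213910 0 0) (P.cons (P.lf 0 14300 0) P.nil))) (P.cons (P.cons (P.lf 63556 0 0) (P.cons (P.lf 4944 0 0) P.nil)) (P.cons (P.cons (P.lf 2986 0 0) P.nil) P.nil)))))) 8095)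
 EL.nil)
noncomputable def S154_169_512_660_32 : EL := (EL.cons 13 (TM.mk (P.cons (P.cons (P.lf 14517285 0 0) (P.cons (P.lf 28717337 0 0) (P.cons (P.lf 12281811 0 0) (P.cons (P.lf 0 2538987 0) (P.cons (P.lf 0 569516 0) (P.cons (P.lf 42320 0 0) P.nil)))))) (P.cons (P.cons (P.lf 0 16760063 0) (P.cons (P.lf 0 12587087 0) (P.cons (P.lf 4787803 0 0) (P.cons (P.lf 0 247160 0) (P.cons (P.lf 0 158251 0) P.nil))))) (P.cons (P.cons (P.lf 6385701 0 0) (P.cons (P.lf 0 762199 0) (P.cons (P.lf 334464 0 0) (P.cons (P.lf 0 20922 0) P.nil)))) (P.cons (P.cons (P.lf 0 807204 0) (P.cons (P.lf 269102 0 0) (P.cons (P.lf 0 40269 0) P.nil))) (P.cons (P.cons (P.lf 0 13902 0) (P.cons (P.lf 19837 0 0) P.nil)) (P.cons (P.cons (P.lf 7215 0 0) P.nil) P.nil)))))) 108416)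
 EL.nil)
noncomputable def S154_169_512_660_33 : EL := (EL.cons 14 (TM.mk (P.lf 8589934592 0 0) 0)
 EL.nil)
noncomputable def S154_169_512_660_34 : EL := (EL.cons 14 (TM.mk (P.cons (P.cons (P.lf 0 628776158 0) (P.cons (P.lf 0 621906136 0) (P.cons (P.lf 41579192 0 0) (P.lf 13859728 0 0)))) (P.cons (P.cons (P.lf 345269420 0 0) (P.cons (P.lf 0 103900024 0) (P.cons (P.lf 6946512 0 0) (P.lf 2315504 0 0)))) (P.cons (P.cons (P.lf 0 24764310 0) (P.cons (P.lf 0 4063336 0) (P.cons (P.lf 271664 0 0) (P.lf 90552 0 0)))) (P.cons (P.cons (P.lf 0 2078948 0) (P.cons (P.lf 219504 0 0) (P.cons (P.lf 0 14672 0) P.nil))) (P.cons (P.cons (P.lf 30796 0 0) (P.cons (P.lf 20328 0 0) P.nil)) (P.cons (P.cons (P.lf 5928 0 0) P.nil) P.nil)))))) 10498)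
 EL.nil)
noncomputable def S154_169_512_660_35 : EL := (EL.cons 14 (TM.mk (P.cons (P.cons (P.lf 46025898 0 0) (P.cons (P.lf 91046036 0 0) (P.cons (P.lf 38938506 0 0) (P.cons (P.lf 0 8049658 0) (P.cons (P.lf 0 1805608 0) (P.cons (P.lf 134174 0 0) P.nil)))))) (P.cons (P.cons (P.lf 0 50546876 0) (P.cons (P.lf 0 34783806 0) (P.cons (P.lf 17370162 0 0) (P.cons (P.lf 0 1236504 0) (P.cons (P.lf 0 603314 0) P.nil))))) (P.cons (P.cons (P.lf 17503438 0 0) (P.cons (P.lf 0 4171742 0) (P.cons (P.lf 2124006 0 0) (P.cons (P.lf 0 153744 0) P.nil)))) (P.cons (P.cons (P.lf 0 1686430 0) (P.cons (P.lf 541320 0 0) (P.cons (P.lf 30320 0 0) P.nil))) (P.cons (P.cons (P.lf 0 100238 0) (P.cons (P.lf 83930 0 0) P.nil)) (P.cons (P.cons (P.lf 13594 0 0) P.nil) P.nil)))))) 255922)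
 EL.nil)
noncomputable def S154_169_512_660_36 : EL := (EL.cons 14 (TM.mk (P.cons (P.lf 0 5418798304 0) (P.cons (P.lf 304879760 0 0) (P.cons (P.lf 12010848 0 0) (P.cons (P.lf 0 2016 0) (P.cons (P.lf 0 11056 0) (P.cons (P.lf 0 248 0) P.nil)))))) 128)
 EL.nil)
noncomputable def S154_169_512_660_37 : EL := (EL.cons 14 (TM.mk (P.cons (P.cons (P.lf 396651584 0 0) (P.cons (P.lf 392317762 0 0) (P.cons (P.lf 0 26229448 0) (P.lf 0 8743148 0)))) (P.cons (P.cons (P.lf 0 240123652 0) (P.cons (P.lf 43470258 0 0) (P.cons (P.lf 0 2906318 0) (P.lf 0 968772 0)))) (P.cons (P.cons (P.lf 26997448 0 0) (P.cons (P.lf 0 1993988 0) (P.cons (P.lf 133314 0 0) (P.lf 44438 0 0)))) (P.cons (P.cons (P.lf 915432 0 0) (P.cons (P.lf 0 427820 0) (P.cons (P.lf 28600 0 0) P.nil))) (P.cons (P.cons (P.lf 0 127112 0) (P.cons (P.lf 0 9888 0) P.nil)) (P.cons (P.cons (P.lf 0 5972 0) P.nil) P.nil))))))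 16190)
 EL.nil)
noncomputable def S154_169_512_660_38 : EL := (EL.cons 14 (TM.mk (P.cons (P.cons (P.lf 0 29034570 0) (P.cons (P.lf 0 57434674 0) (P.cons (P.lf 0 24563622 0) (P.cons (P.lf 5077974 0 0) (P.cons (P.lf 1139032 0 0) (P.cons (P.lf 0 84640 0) P.nil)))))) (P.cons (P.cons (P.lf 33520126 0 0) (P.cons (P.lf 25174174 0 0) (P.cons (P.lf 0 9575606 0) (P.cons (P.lf 494320 0 0) (P.cons (P.lf 316502 0 0) P.nil))))) (P.cons (P.cons (P.lf 0 12771402 0) (P.cons (P.lf 1524398 0 0) (P.cons (P.lf 0 668928 0) (P.cons (P.lf 41844 0 0) P.nil)))) (P.cons (P.cons (P.lf 1614408 0 0) (P.cons (P.lf 0 538204 0) (P.cons (P.lf 80538 0 0) P.nil))) (P.cons (P.cons (P.lf 27804 0 0) (P.cons (P.lf 0 39674 0) P.nil)) (P.cons (P.cons (P.lf 0 14430 0) P.nil) P.nil)))))) 216832)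
 EL.nil)
noncomputable def S154_169_512_660_39 : EL := (EL.cons 14 (TM.mk (P.cons (P.lf 3418346756 0 0) (P.cons (P.lf 0 384655298 0) (P.cons (P.lf 0 4332634 0) (P.cons (P.lf 855136 0 0) (P.cons (P.lf 30598 0 0) (P.cons (P.lf 0 476 0) P.nil)))))) 234)
 EL.nil)
noncomputable def S154_169_512_660_40 : EL := (EL.cons 14 (TM.mk (P.cons (P.cons (P.lf 0 250220174 0) (P.cons (P.lf 0 247486264 0) (P.cons (P.lf 16546352 0 0) (P.lf 5515450 0 0)))) (P.cons (P.cons (P.lf 165555704 0 0) (P.cons (P.lf 0 13497986 0) (P.cons (P.lf 902442 0 0) (P.lf 300814 0 0)))) (P.cons (P.cons (P.lf 0 24998846 0) (P.cons (P.lf 3349302 0 0) (P.cons (P.lf 0 223926 0) (P.lf 0 74642 0)))) (P.cons (P.cons (P.lf 44882 0 0) (P.cons (P.lf 259800 0 0) (P.cons (P.lf 0 17368 0) P.nil))) (P.cons (P.cons (P.lf 149972 0 0) (P.cons (P.lf 0 12248 0) P.nil)) (P.cons (P.cons (P.lf 826 0 0) P.nil) P.nil))))))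 15882)
 EL.nil)
noncomputable def S154_169_512_660_41 : EL := (EL.cons 14 (TM.mk (P.cons (P.cons (P.lf 18315910 0 0) (P.cons (P.lf 36231582 0 0) (P.cons (P.lf 15495498 0 0) (P.cons (P.lf 0 3203344 0) (P.cons (P.lf 0 718536 0) (P.cons (P.lf 53394 0 0) P.nil)))))) (P.cons (P.cons (P.lf 0 22176054 0) (P.cons (P.lf 0 17919164 0) (P.cons (P.lf 5168762 0 0) (P.cons (P.lf 0 131602 0) (P.cons (P.lf 0 159232 0) P.nil))))) (P.cons (P.cons (P.lf 9205718 0 0) (P.cons (P.lf 0 148446 0) (P.cons (P.lf 47770 0 0) (P.cons (P.lf 0 1750 0) P.nil)))) (P.cons (P.cons (P.lf 0 1424834 0) (P.cons (P.lf 428834 0 0) (P.cons (P.lf 0 87930 0) P.nil))) (P.cons (P.cons (P.lf 21930 0 0) (P.cons (P.lf 8124 0 0) P.nil)) (P.cons (P.cons (P.lf 12308 0 0) P.nil) P.nil)))))) 166858)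
 EL.nil)
noncomputable def S154_169_512_660_42 : EL := (EL.cons 14 (TM.mk (P.cons (P.lf 0 2156399608 0) (P.cons (P.lf 363978814 0 0) (P.cons (P.lf 0 6139592 0) (P.cons (P.lf 0 1231868 0) (P.cons (P.lf 680 0 0) (P.cons (P.lf 2978 0 0) P.nil)))))) 304)
 EL.nil)
noncomputable def S154_169_512_660_43 : EL := (EL.cons 14 (TM.mk (P.cons (P.cons (P.lf 157846680 0 0) (P.cons (P.lf 156122044 0 0) (P.cons (P.lf 0 10437954 0) (P.lf 0 3479316 0)))) (P.cons (P.cons (P.lf 0 113318678 0) (P.cons (P.lf 0 268998 0) (P.cons (P.lf 17984 0 0) (P.lf 5994 0 0)))) (P.cons (P.cons (P.lf 21296196 0 0) (P.cons (P.lf 0 2937970 0) (P.cons (P.lf 196426 0 0) (P.lf 65476 0 0)))) (P.cons (P.cons (P.lf 0 684042 0) (P.cons (P.lf 0 63830 0) (P.cons (P.lf 4266 0 0) P.nil))) (P.cons (P.cons (P.lf 0 127684 0) (P.cons (P.lf 21952 0 0) P.nil)) (P.cons (P.cons (P.lf 4662 0 0) P.nil) P.nil)))))) 15594)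
 EL.nil)
noncomputable def S154_169_512_660_44 : EL := (EL.cons 14 (TM.mk (P.cons (P.cons (P.lf 0 11554246 0) (P.cons (P.lf 0 22856010 0) (P.cons (P.lf 0 9775042 0) (P.cons (P.lf 2020768 0 0) (P.cons (P.lf 453276 0 0) (P.cons (P.lf 0 33682 0) P.nil)))))) (P.cons (P.cons (P.lf 14639426 0 0) (P.cons (P.lf 12589922 0 0) (P.cons (P.lf 0 2710638 0) (P.cons (P.lf 0 30676 0) (P.cons (P.lf 74946 0 0) P.nil))))) (P.cons (P.cons (P.lf 0 6568732 0) (P.cons (P.lf 0 491692 0) (P.cons (P.lf 174982 0 0) (P.cons (P.lf 0 8044 0) P.nil)))) (P.cons (P.cons (P.lf 1194552 0 0) (P.cons (P.lf 0 300854 0) (P.cons (P.lf 64388 0 0) P.nil))) (P.cons (P.cons (P.lf 0 51552 0) (P.cons (P.lf 9844 0 0) P.nil)) (P.cons (P.cons (P.lf 0 8952 0) P.nil) P.nil)))))) 128994)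
 EL.nil)
noncomputable def S154_169_512_660_45 : EL := (EL.cons 14 (TM.mk (P.cons (P.cons (P.lf 0 3369056 0) (P.cons (P.lf 0 9996742 0) (P.cons (P.lf 0 9219158 0) (P.cons (P.lf 0 1714928 0) (P.cons (P.lf 1050340 0 0) (P.cons (P.lf 144766 0 0) P.nil)))))) (P.cons (P.cons (P.lf 5549984 0 0) (P.cons (P.lf 9308564 0 0) (P.cons (P.lf 1503262 0 0) (P.cons (P.lf 0 2125506 0) (P.cons (P.lf 242460 0 0) P.nil))))) (P.cons (P.cons (P.lf 0 3445640 0) (P.cons (P.lf 0 2032852 0) (P.cons (P.lf 1155450 0 0) (P.cons (P.lf 0 427878 0) P.nil)))) (P.cons (P.cons (P.lf 961574 0 0) (P.cons (P.lf 0 193590 0) (P.cons (P.lf 58016 0 0) P.nil))) (P.cons (P.cons (P.lf 0 98510 0) (P.cons (P.lf 54578 0 0) P.nil)) (P.cons (P.cons (P.lf 0 4546 0) P.nil) P.nil)))))) 470394)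
 EL.nil)
noncomputable def S154_169_512_660_46 : EL := (EL.cons 15 (TM.mk (P.lf 4294967296 0 0) 0)
 EL.nil)
noncomputable def S154_169_512_660_47 : EL := (EL.cons 15 (TM.mk (P.cons (P.cons (P.lf 0 314388079 0) (P.cons (P.lf 0 310953068 0) (P.cons (P.lf 20789596 0 0) (P.lf 6929864 0 0)))) (P.cons (P.cons (P.lf 172634710 0 0) (P.cons (P.lf 0 51950012 0) (P.cons (P.lf 3473256 0 0) (P.lf 1157752 0 0)))) (P.cons (P.cons (P.lf 0 12382155 0) (P.cons (P.lf 0 2031668 0) (P.cons (P.lf 135832 0 0) (P.lf 45276 0 0)))) (P.cons (P.cons (P.lf 0 1039474 0) (P.cons (P.lf 109752 0 0) (P.cons (P.lf 0 7336 0) P.nil))) (P.cons (P.cons (P.lf 15398 0 0) (P.cons (P.lf 10164 0 0) P.nil)) (P.cons (P.cons (P.lf 2964 0 0) P.nil) P.nil)))))) 5249)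
 EL.nil)
noncomputable def S154_169_512_660_48 : EL := (EL.cons 15 (TM.mk (P.cons (P.cons (P.lf 23012949 0 0) (P.cons (P.lf 45523018 0 0) (P.cons (P.lf 19469253 0 0) (P.cons (P.lf 0 4024829 0) (P.cons (P.lf 0 902804 0) (P.cons (P.lf 67087 0 0) P.nil)))))) (P.cons (P.cons (P.lf 0 25273438 0) (P.cons (P.lf 0 17391903 0) (P.cons (P.lf 8685081 0 0) (P.cons (P.lf 0 618252 0) (P.cons (P.lf 0 301657 0) P.nil))))) (P.cons (P.cons (P.lf 8751719 0 0) (P.cons (P.lf 0 2085871 0) (P.cons (P.lf 1062003 0 0) (P.cons (P.lf 0 76872 0) P.nil)))) (P.cons (P.cons (P.lf 0 843215 0) (P.cons (P.lf 270660 0 0) (P.cons (P.lf 15160 0 0) P.nil))) (P.cons (P.cons (P.lf 0 50119 0) (P.cons (P.lf 41965 0 0) P.nil)) (P.cons (P.cons (P.lf 6797 0 0) P.nil) P.nil)))))) 127961)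
 EL.nil)
noncomputable def S154_169_512_660 : SL := (SL.cons S154_169_512_660_0 (SL.cons S154_169_512_660_1 (SL.cons S154_169_512_660_2 (SL.cons S154_169_512_660_3 (SL.cons S154_169_512_660_4 (SL.cons S154_169_512_660_5 (SL.cons S154_169_512_660_6 (SL.cons S154_169_512_660_7 (SL.cons S154_169_512_660_8 (SL.cons S154_169_512_660_9 (SL.cons S154_169_512_660_10 (SL.cons S154_169_512_660_11 (SL.cons S154_169_512_660_12 (SL.cons S154_169_512_660_13 (SL.cons S154_169_512_660_14 (SL.cons S154_169_512_660_15 (SL.cons S154_169_512_660_16 (SL.cons S154_169_512_660_17 (SL.cons S154_169_512_660_18 (SL.cons S154_169_512_660_19 (SL.cons S154_169_512_660_20 (SL.cons S154_169_512_660_21 (SL.cons S154_169_512_660_22 (SL.cons S154_169_512_660_23 (SL.cons S154_169_512_660_24 (SL.cons S154_169_512_660_25 (SL.cons S154_169_512_660_26 (SL.cons S154_169_512_660_27 (SL.cons S154_169_512_660_28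 (SL.cons S154_169_512_660_29 (SL.cons S154_169_512_660_30 (SL.cons S154_169_512_660_31 (SL.cons S154_169_512_660_32 (SL.cons S154_169_512_660_33 (SL.cons S154_169_512_660_34 (SL.cons S154_169_512_660_35 (SL.cons S154_169_512_660_36 (SL.cons S154_169_512_660_37 (SL.cons S154_169_512_660_38 (SL.cons S154_169_512_660_39 (SL.cons S154_169_512_660_40 (SL.cons S154_169_512_660_41 (SL.cons S154_169_512_660_42 (SL.cons S154_169_512_660_43 (SL.cons S154_169_512_660_44 (SL.cons S154_169_512_660_45 (SL.cons S154_169_512_660_46 (SL.cons S154_169_512_660_47 (SL.cons S154_169_512_660_48 SL.nil)))))))))))))))))))))))))))))))))))))))))))))))))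
theorem S154_157_364_512_ok : band (seq (shp 5 154 157 364 512) S154_157_364_512) (sok S154_157_364_512) = true := by decide +kernel

theorem S154_169_216_290_ok : band (seq (shp 5 154 169 216 290) S154_169_216_290) (sok S154_169_216_290) = true := by decide +kernel

theorem S154_169_216_364_ok : band (seq (shp 5 154 169 216 364) S154_169_216_364) (sok S154_169_216_364) = true := by decide +kernel

theorem S154_169_290_364_ok : band (seq (shp 5 154 169 290 364) S154_169_290_364) (sok S154_169_290_364) = true := by decide +kernel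

theorem S154_169_364_512_ok : band (seq (shp 5 154 169 364 512) S154_169_364_512) (sok S154_169_364_512) = true := by decide +kernel

theorem S154_169_512_660_ok : band (seq (shp 5 154 169 512 660) S154_169_512_660) (sok S154_169_512_660) = true := by decide +kernel

end Vale.Agent.P098.Ck
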