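import Vale.Agent.P098.CkDefs

namespace Vale.Agent.P098.Ck

noncomputable def S140_147_216_364_0 : EL := (EL.cons 0 (TM.mk (P.cons (P.lf 4671335772 0 0) (P.cons (P.lf 143893961 0 0) (P.cons (P.lf 1797779 0 0) (P.cons (P.lf 0 48970 0) (P.cons (P.lf 0 1332 0) (P.cons (P.lf 3 0 0) P.nil)))))) 170)
 (EL.cons 1 (TM.mk (P.cons (P.lf 0 1742065813 0) (P.cons (P.lf 0 22451887 0) (P.cons (P.lf 1977159 0 0) (P.cons (P.lf 34953 0 0) (P.cons (P.lf 0 226 0) (P.cons (P.lf 0 9 0) P.nil)))))) 112)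
 (EL.cons 5 (TM.mk (P.cons (P.lf 5640525022 0 0) (P.cons (P.lf 0 51162296 0) (P.cons (P.lf 0 639214 0) (P.cons (P.lf 17408 0 0) (P.cons (P.lf 474 0 0) (P.cons (P.lf 2 0 0) P.nil)))))) 75)
 (EL.cons 9 (TM.mk (P.lf 6442450944 0 0) 2)
 EL.nil))))
noncomputable def S140_147_216_364_1 : EL := (EL.cons 0 (TM.mk (P.cons (P.cons (P.lf 0 4737940951 0) (P.cons (P.lf 144121715 0 0) (P.cons (P.lf 62146905 0 0) (P.lf 0 6905198 0)))) (P.cons (P.cons (P.lf 126271425 0 0) (P.cons (P.lf 1377529 0 0) (P.cons (P.lf 593993 0 0) (P.lf 0 65990 0)))) (P.cons (P.cons (P.lf 21134613 0 0) (P.cons (P.lf 0 950887 0) (P.cons (P.lf 0 410032 0) (P.lf 45561 0 0)))) (P.cons (P.cons (P.lf 290587 0 0) (P.cons (P.lf 0 45936 0) (P.cons (P.lf 0 19800 0) P.nil))) (P.cons (P.cons (P.lf 0 21195 0) (P.cons (P.lf 0 30 0) P.nil)) (P.cons (P.cons (P.lf 0 631 0) P.nil) P.nil)))))) 7989)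
 (EL.cons 1 (TM.mk (P.cons (P.cons (P.lf 753355952 0 0) (P.cons (P.lf 0 633585 0) (P.cons (P.lf 0 273208 0) (P.lf 30367 0 0)))) (P.cons (P.cons (P.lf 0 206248177 0) (P.cons (P.lf 9560671 0 0) (P.cons (P.lf 4122660 0 0) (P.lf 0 458068 0)))) (P.cons (P.cons (P.lf 0 4297353 0) (P.cons (P.lf 549793 0 0) (P.cons (P.lf 237074 0 0) (P.lf 0 26335 0)))) (P.cons (P.cons (P.lf 417746 0 0) (P.cons (P.lf 0 5848 0) (P.cons (P.lf 0 2520 0) P.nil))) (P.cons (P.cons (P.lf 11473 0 0) (P.cons (P.lf 0 944 0) P.nil)) (P.cons (P.cons (P.lf 0 203 0) P.nil) P.nil)))))) 3675)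
 (EL.cons 5 (TM.mk (P.cons (P.cons (P.lf 1583054141 0 0) (P.cons (P.lf 0 208730128 0) (P.cons (P.lf 0 90006786 0) (P.lf 10000748 0 0)))) (P.cons (P.cons (P.lf 242706198 0 0) (P.cons (P.lf 0 15561112 0) (P.cons (P.lf 0 6710124 0) (P.lf 745566 0 0)))) (P.cons (P.cons (P.lf 0 5912918 0) (P.cons (P.lf 0 90594 0) (P.cons (P.lf 0 39070 0) (P.lf 4344 0 0)))) (P.cons (P.cons (P.lf 0 295247 0) (P.cons (P.lf 18006 0 0) (P.cons (P.lf 7760 0 0) P.nil))) (P.cons (P.cons (P.lf 4039 0 0) (P.cons (P.lf 308 0 0) P.nil)) (P.cons (P.cons (P.lf 260 0 0) P.nil) P.nil)))))) 3489)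
 (EL.cons 9 (TM.mk (P.cons (P.cons (P.lf 0 89600367 0) (P.cons (P.lf 0 138958980 0) (P.cons (P.lf 0 59920680 0) (P.lf 6657846 0 0)))) (P.cons (P.cons (P.lf 253767084 0 0) (P.cons (P.lf 0 13298220 0) (P.cons (P.lf 0 5734338 0) (P.lf 637146 0 0)))) (P.cons (P.cons (P.lf 1413175 0 0) (P.cons (P.lf 0 378246 0) (P.cons (P.lf 0 163104 0) (P.lf 18120 0 0)))) (P.cons (P.cons (P.lf 0 169345 0) (P.cons (P.lf 1476 0 0) (P.cons (P.lf 636 0 0) P.nil))) (P.cons (P.cons (P.lf 0 3075 0) (P.cons (P.lf 258 0 0) P.nil)) (P.cons (P.cons (P.lf 34 0 0) P.nil) P.nil)))))) 1163)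
 (EL.cons 2 (TM.mk (P.cons (P.cons (P.lf 315377910 0 0) (P.cons (P.lf 293803700 0 0) (P.cons (P.lf 0 30153813 0) (P.cons (P.lf 0 6271152 0) (P.lf 522593 0 0))))) (P.cons (P.cons (P.lf 14125055 0 0) (P.cons (P.lf 13158795 0 0) (P.cons (P.lf 0 1350520 0) (P.cons (P.lf 0 280867 0) (P.lf 23402 0 0))))) (P.cons (P.cons (P.lf 0 263047 0) (P.cons (P.lf 0 245053 0) (P.cons (P.lf 25149 0 0) (P.cons (P.lf 5231 0 0) P.nil)))) (P.cons (P.cons (P.lf 0 20505 0) (P.cons (P.lf 0 19102 0) (P.cons (P.lf 1957 0 0) P.nil))) (P.cons (P.cons (P.lf 0 168 0) (P.cons (P.lf 0 157 0) P.nil)) (P.cons (P.cons (P.lf 5 0 0) P.nil) P.nil)))))) 1989)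
 (EL.cons 6 (TM.mk (P.cons (P.cons (P.lf 145178052 0 0) (P.cons (P.lf 135246786 0 0) (P.cons (P.lf 0 13880718 0) (P.cons (P.lf 0 2886801 0) (P.lf 240564 0 0))))) (P.cons (P.cons (P.lf 13893381 0 0) (P.cons (P.lf 12942969 0 0) (P.cons (P.lf 0 1328367 0) (P.cons (P.lf 0 276261 0) (P.lf 23019 0 0))))) (P.cons (P.cons (P.lf 395178 0 0) (P.cons (P.lf 368145 0 0) (P.cons (P.lf 0 37782 0) (P.cons (P.lf 0 7857 0) P.nil)))) (P.cons (P.cons (P.lf 0 1545 0) (P.cons (P.lf 0 1437 0) (P.cons (P.lf 147 0 0) P.nil))) (P.cons (P.cons (P.lf 0 276 0) (P.cons (P.lf 0 255 0) P.nil)) (P.cons (P.cons (P.lf 0 3 0) P.nil) P.nil)))))) 1068)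
 EL.nil))))))
noncomputable def S140_147_216_364_2 : EL := (EL.cons 0 (TM.mk (P.cons (P.cons (P.lf 130885175 0 0) (P.cons (P.lf 197576408 0 0) (P.cons (P.lf 76806711 0 0) (P.cons (P.lf 0 16702461 0) (P.cons (P.lf 0 756135 0) (P.cons (P.lf 346687 0 0) P.nil)))))) (P.cons (P.cons (P.lf 0 371675414 0) (P.cons (P.lf 33011151 0 0) (P.cons (P.lf 13097459 0 0) (P.cons (P.lf 0 2562463 0) (P.cons (P.lf 0 102482 0) P.nil))))) (P.cons (P.cons (P.lf 219140 0 0) (P.cons (P.lf 352892 0 0) (P.cons (P.lf 125191 0 0) (P.cons (P.lf 0 40155 0) P.nil)))) (P.cons (P.cons (P.lf 1656823 0 0) (P.cons (P.lf 0 149300 0) (P.cons (P.lf 0 60761 0) P.nil))) (P.cons (P.cons (P.lf 34590 0 0) (P.cons (P.lf 0 7026 0) P.nil)) (P.cons (P.cons (P.lf 0 2235 0) P.nil) P.nil)))))) 239749)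
 (EL.cons 1 (TM.mk (P.cons (P.cons (P.lf 0 20618097 0) (P.cons (P.lf 0 31435879 0) (P.cons (P.lf 0 12717705 0) (P.cons (P.lf 2228702 0 0) (P.cons (P.lf 75505 0 0) (P.cons (P.lf 0 34618 0) P.nil)))))) (P.cons (P.cons (P.lf 63181693 0 0) (P.cons (P.lf 2624646 0 0) (P.cons (P.lf 887527 0 0) (P.cons (P.lf 0 336399 0) (P.cons (P.lf 0 22008 0) P.nil))))) (P.cons (P.cons (P.lf 0 13130813 0) (P.cons (P.lf 1351012 0 0) (P.cons (P.lf 532371 0 0) (P.cons (P.lf 0 108013 0) P.nil)))) (P.cons (P.cons (P.lf 0 412015 0) (P.cons (P.lf 63708 0 0) (P.cons (P.lf 24691 0 0) P.nil))) (P.cons (P.cons (P.lf 34713 0 0) (P.cons (P.lf 0 1939 0) P.nil)) (P.cons (P.cons (P.lf 1295 0 0) P.nil) P.nil)))))) 101801)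
 (EL.cons 5 (TM.mk (P.cons (P.cons (P.lf 0 45124639 0) (P.cons (P.lf 0 65868795 0) (P.cons (P.lf 0 22023210 0) (P.cons (P.lf 8658312 0 0) (P.cons (P.lf 574958 0 0) (P.cons (P.lf 0 263629 0) P.nil)))))) (P.cons (P.cons (P.lf 124151407 0 0) (P.cons (P.lf 0 23724838 0) (P.cons (P.lf 0 9175884 0) (P.cons (P.lf 2046149 0 0) (P.cons (P.lf 95031 0 0) P.nil))))) (P.cons (P.cons (P.lf 11206149 0 0) (P.cons (P.lf 0 1369954 0) (P.cons (P.lf 0 531544 0) (P.cons (P.lf 116673 0 0) P.nil)))) (P.cons (P.cons (P.lf 0 457573 0) (P.cons (P.lf 20931 0 0) (P.cons (P.lf 9434 0 0) P.nil))) (P.cons (P.cons (P.lf 0 26965 0) (P.cons (P.lf 3372 0 0) P.nil)) (P.cons (P.cons (P.lf 427 0 0) P.nil) P.nil)))))) 112399)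
 (EL.cons 9 (TM.mk (P.cons (P.cons (P.lf 1246144 0 0) (P.cons (P.lf 3865228 0 0) (P.cons (P.lf 4663974 0 0) (P.cons (P.lf 2399698 0 0) (P.cons (P.lf 270106 0 0) (P.cons (P.lf 0 123847 0) P.nil)))))) (P.cons (P.cons (P.lf 0 7058686 0) (P.cons (P.lf 0 10577244 0) (P.cons (P.lf 0 3987360 0) (P.cons (P.lf 1001521 0 0) (P.cons (P.lf 51697 0 0) P.nil))))) (P.cons (P.cons (P.lf 9956535 0 0) (P.cons (P.lf 0 1098070 0) (P.cons (P.lf 0 429732 0) (P.cons (P.lf 90355 0 0) P.nil)))) (P.cons (P.cons (P.lf 116038 0 0) (P.cons (P.lf 0 28366 0) (P.cons (P.lf 0 10734 0) P.nil))) (P.cons (P.cons (P.lf 0 12945 0) (P.cons (P.lf 774 0 0) P.nil)) (P.cons (P.cons (P.lf 0 316 0) P.nil) P.nil)))))) 51071)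
 (EL.cons 2 (TM.mk (P.cons (P.cons (P.lf 0 8772429 0) (P.cons (P.lf 0 21777271 0) (P.cons (P.lf 0 17702116 0) (P.cons (P.lf 0 3338212 0) (P.cons (P.lf 1424160 0 0) (P.cons (P.lf 31786 0 0) P.nil)))))) (P.cons (P.cons (P.lf 24452465 0 0) (P.cons (P.lf 20868423 0 0) (P.cons (P.lf 0 4942681 0) (P.cons (P.lf 0 979706 0) (P.cons (P.lf 242634 0 0) P.nil))))) (P.cons (P.cons (P.lf 1258441 0 0) (P.cons (P.lf 1088353 0 0) (P.cons (P.lf 0 234793 0) (P.cons (P.lf 0 46710 0) P.nil)))) (P.cons (P.cons (P.lf 0 30532 0) (P.cons (P.lf 0 27990 0) (P.cons (P.lf 3538 0 0) P.nil))) (P.cons (P.cons (P.lf 0 2767 0) (P.cons (P.lf 0 2424 0) P.nil)) (P.cons (P.cons (P.lf 0 16 0) P.nil) P.nil)))))) 73529)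
 (EL.cons 6 (TM.mk (P.cons (P.cons (P.lf 0 4038210 0) (P.cons (P.lf 0 10024740 0) (P.cons (P.lf 0 8148822 0) (P.cons (P.lf 0 1536678 0) (P.cons (P.lf 655578 0 0) (P.cons (P.lf 14628 0 0) P.nil)))))) (P.cons (P.cons (P.lf 11050626 0 0) (P.cons (P.lf 9095994 0 0) (P.cons (P.lf 0 2690130 0) (P.cons (P.lf 0 529218 0) (P.cons (P.lf 145068 0 0) P.nil))))) (P.cons (P.cons (P.lf 1147212 0 0) (P.cons (P.lf 977280 0 0) (P.cons (P.lf 0 234312 0) (P.cons (P.lf 0 46422 0) P.nil)))) (P.cons (P.cons (P.lf 29634 0 0) (P.cons (P.lf 24480 0 0) (P.cons (P.lf 0 7098 0) P.nil))) (P.cons (P.cons (P.lf 0 804 0) (P.cons (P.lf 0 762 0) P.nil)) (P.cons (P.cons (P.lf 0 48 0) P.nil) P.nil)))))) 45264)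
 EL.nil))))))
noncomputable def S140_147_216_364_3 : EL := (EL.cons 0 (TM.mk (P.cons (P.lf 3784381091 0 0) (P.cons (P.lf 0 143893961 0) (P.cons (P.lf 0 1797779 0) (P.cons (P.lf 48970 0 0) (P.cons (P.lf 1332 0 0) (P.cons (P.lf 0 3 0) P.nil)))))) 170)
 (EL.cons 1 (TM.mk (P.cons (P.lf 1742065813 0 0) (P.cons (P.lf 22451887 0 0) (P.cons (P.lf 0 1977159 0) (P.cons (P.lf 0 34953 0) (P.cons (P.lf 226 0 0) (P.cons (P.lf 9 0 0) P.nil)))))) 112)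
 (EL.cons 5 (TM.mk (P.cons (P.lf 801925922 0 0) (P.cons (P.lf 51162296 0 0) (P.cons (P.lf 639214 0 0) (P.cons (P.lf 0 17408 0) (P.cons (P.lf 0 474 0) (P.cons (P.lf 0 2 0) P.nil)))))) 68)
 EL.nil)))
noncomputable def S140_147_216_364_4 : EL := (EL.cons 0 (TM.mk (P.cons (P.cons (P.lf 0 52632442 0) (P.cons (P.lf 0 81626345 0) (P.cons (P.lf 0 35198200 0) (P.lf 3910906 0 0)))) (P.cons (P.cons (P.lf 151067397 0 0) (P.cons (P.lf 0 4707861 0) (P.cons (P.lf 0 2030080 0) (P.lf 225562 0 0)))) (P.cons (P.cons (P.lf 0 4812837 0) (P.cons (P.lf 113609 0 0) (P.cons (P.lf 48988 0 0) (P.lf 0 5443 0)))) (P.cons (P.cons (P.lf 0 202533 0) (P.cons (P.lf 11968 0 0) (P.cons (P.lf 5160 0 0) P.nil))) (P.cons (P.cons (P.lf 3491 0 0) (P.cons (P.lf 93 0 0) P.nil)) (P.cons (P.cons (P.lf 198 0 0) P.nil) P.nil)))))) 1543)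
 (EL.cons 1 (TM.mk (P.cons (P.cons (P.lf 0 24228315 0) (P.cons (P.lf 0 37575090 0) (P.cons (P.lf 0 16202803 0) (P.lf 1800307 0 0)))) (P.cons (P.cons (P.lf 68307427 0 0) (P.cons (P.lf 0 4080165 0) (P.cons (P.lf 0 1759410 0) (P.lf 195487 0 0)))) (P.cons (P.cons (P.lf 1294001 0 0) (P.cons (P.lf 0 105976 0) (P.cons (P.lf 0 45697 0) (P.lf 5075 0 0)))) (P.cons (P.cons (P.lf 0 118260 0) (P.cons (P.lf 3915 0 0) (P.cons (P.lf 1687 0 0) P.nil))) (P.cons (P.cons (P.lf 0 3234 0) (P.cons (P.lf 256 0 0) P.nil)) (P.cons (P.cons (P.lf 50 0 0) P.nil) P.nil)))))) 731)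
 (EL.cons 5 (TM.mk (P.cons (P.cons (P.lf 0 11153030 0) (P.cons (P.lf 0 17296958 0) (P.cons (P.lf 0 7458642 0) (P.lf 828736 0 0)))) (P.cons (P.cons (P.lf 30876174 0 0) (P.cons (P.lf 0 2758832 0) (P.cons (P.lf 0 1189638 0) (P.lf 132180 0 0)))) (P.cons (P.cons (P.lf 2182288 0 0) (P.cons (P.lf 0 166476 0) (P.cons (P.lf 0 71786 0) (P.lf 7974 0 0)))) (P.cons (P.cons (P.lf 15562 0 0) (P.cons (P.lf 0 3762 0) (P.cons (P.lf 0 1622 0) P.nil))) (P.cons (P.cons (P.lf 0 2266 0) (P.cons (P.lf 52 0 0) P.nil)) (P.cons (P.cons (P.lf 0 58 0) P.nil) P.nil)))))) 508)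
 EL.nil)))
noncomputable def S140_147_216_364_5 : EL := (EL.cons 0 (TM.mk (P.cons (P.cons (P.lf 732000 0 0) (P.cons (P.lf 2270485 0 0) (P.cons (P.lf 2739679 0 0) (P.cons (P.lf 1409614 0 0) (P.cons (P.lf 158663 0 0) (P.cons (P.lf 0 72748 0) P.nil)))))) (P.cons (P.cons (P.lf 0 4174198 0) (P.cons (P.lf 0 6299542 0) (P.cons (P.lf 0 2446398 0) (P.cons (P.lf 534708 0 0) (P.cons (P.lf 24333 0 0) P.nil))))) (P.cons (P.cons (P.lf 6005909 0 0) (P.cons (P.lf 0 409853 0) (P.cons (P.lf 0 164671 0) (P.cons (P.lf 30035 0 0) P.nil)))) (P.cons (P.cons (P.lf 0 152238 0) (P.cons (P.lf 10842 0 0) (P.cons (P.lf 4440 0 0) P.nil))) (P.cons (P.cons (P.lf 0 13027 0) (P.cons (P.lf 1314 0 0) P.nil)) (P.cons (P.cons (P.lf 144 0 0) P.nil) P.nil)))))) 38050)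
 (EL.cons 1 (TM.mk (P.cons (P.cons (P.lf 336961 0 0) (P.cons (P.lf 1045173 0 0) (P.cons (P.lf 1261156 0 0) (P.cons (P.lf 648886 0 0) (P.cons (P.lf 73036 0 0) (P.cons (P.lf 0 33487 0) P.nil)))))) (P.cons (P.cons (P.lf 0 1904355 0) (P.cons (P.lf 0 2846660 0) (P.cons (P.lf 0 1061943 0) (P.cons (P.lf 279178 0 0) (P.cons (P.lf 14919 0 0) P.nil))))) (P.cons (P.cons (P.lf 2667305 0 0) (P.cons (P.lf 0 334968 0) (P.cons (P.lf 0 131527 0) (P.cons (P.lf 27185 0 0) P.nil)))) (P.cons (P.cons (P.lf 68235 0 0) (P.cons (P.lf 0 8270 0) (P.cons (P.lf 0 3200 0) P.nil))) (P.cons (P.cons (P.lf 0 6112 0) (P.cons (P.lf 504 0 0) P.nil)) (P.cons (P.cons (P.lf 0 219 0) P.nil) P.nil)))))) 18487)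
 (EL.cons 5 (TM.mk (P.cons (P.cons (P.lf 155112 0 0) (P.cons (P.lf 481124 0 0) (P.cons (P.lf 580548 0 0) (P.cons (P.lf 298702 0 0) (P.cons (P.lf 33620 0 0) (P.cons (P.lf 0 15414 0) P.nil)))))) (P.cons (P.cons (P.lf 0 868734 0) (P.cons (P.lf 0 1285910 0) (P.cons (P.lf 0 459288 0) (P.cons (P.lf 143720 0 0) (P.cons (P.lf 8578 0 0) P.nil))))) (P.cons (P.cons (P.lf 1183410 0 0) (P.cons (P.lf 0 220296 0) (P.cons (P.lf 0 84692 0) (P.cons (P.lf 19438 0 0) P.nil)))) (P.cons (P.cons (P.lf 92808 0 0) (P.cons (P.lf 0 13310 0) (P.cons (P.lf 0 5156 0) P.nil))) (P.cons (P.cons (P.lf 316 0 0) (P.cons (P.lf 0 210 0) P.nil)) (P.cons (P.cons (P.lf 0 156 0) P.nil) P.nil)))))) 9356)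
 EL.nil)))
noncomputable def S140_147_216_364_6 : EL := (EL.cons 12 (TM.mk (P.lf 8589934592 0 0) 0)
 (EL.cons 3 (TM.mk (P.cons (P.lf 0 2850771213 0) (P.cons (P.lf 54197602 0 0) (P.cons (P.lf 1192323 0 0) (P.cons (P.lf 4222 0 0) (P.cons (P.lf 0 172 0) (P.cons (P.lf 0 0 0) P.nil)))))) 63)
 (EL.cons 7 (TM.mk (P.cons (P.lf 0 1312296768 0) (P.cons (P.lf 0 41861795 0) (P.cons (P.lf 144673 0 0) (P.cons (P.lf 9629 0 0) (P.cons (P.lf 89 0 0) (P.cons (P.lf 0 0 0) P.nil)))))) 43)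
 EL.nil)))
noncomputable def S140_147_216_364_7 : EL := (EL.cons 12 (TM.mk (P.cons (P.cons (P.lf 0 119467156 0) (P.cons (P.lf 0 185278640 0) (P.cons (P.lf 0 79894240 0) (P.lf 8877128 0 0)))) (P.cons (P.cons (P.lf 338356112 0 0) (P.cons (P.lf 0 17730960 0) (P.cons (P.lf 0 7645784 0) (P.lf 849528 0 0)))) (P.cons (P.cons (P.lf 1884234 0 0) (P.cons (P.lf 0 504328 0) (P.cons (P.lf 0 217472 0) (P.lf 24160 0 0)))) (P.cons (P.cons (P.lf 0 225794 0) (P.cons (P.lf 1968 0 0) (P.cons (P.lf 848 0 0) P.nil))) (P.cons (P.cons (P.lf 0 4100 0) (P.cons (P.lf 344 0 0) P.nil)) (P.cons (P.cons (P.lf 46 0 0) P.nil) P.nil)))))) 1526)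
 (EL.cons 3 (TM.mk (P.cons (P.cons (P.lf 3559794693 0 0) (P.cons (P.lf 0 122978120 0) (P.cons (P.lf 0 53029552 0) (P.lf 5892164 0 0)))) (P.cons (P.cons (P.lf 0 4139979 0) (P.cons (P.lf 0 9430862 0) (P.cons (P.lf 0 4066688 0) (P.lf 451850 0 0)))) (P.cons (P.cons (P.lf 0 5862299 0) (P.cons (P.lf 0 59564 0) (P.cons (P.lf 0 25684 0) (P.lf 2850 0 0)))) (P.cons (P.cons (P.lf 0 189110 0) (P.cons (P.lf 12774 0 0) (P.cons (P.lf 5506 0 0) P.nil))) (P.cons (P.cons (P.lf 1400 0 0) (P.cons (P.lf 352 0 0) P.nil)) (P.cons (P.cons (P.lf 154 0 0) P.nil) P.nil)))))) 3816)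
 (EL.cons 7 (TM.mk (P.cons (P.cons (P.lf 0 2700682037 0) (P.cons (P.lf 170786272 0 0) (P.cons (P.lf 73644967 0 0) (P.lf 0 8182776 0)))) (P.cons (P.cons (P.lf 3197676 0 0) (P.cons (P.lf 7284330 0 0) (P.cons (P.lf 3141086 0 0) (P.lf 0 349010 0)))) (P.cons (P.cons (P.lf 4446588 0 0) (P.cons (P.lf 0 139413 0) (P.cons (P.lf 0 60117 0) (P.lf 6680 0 0)))) (P.cons (P.cons (P.lf 0 6212 0) (P.cons (P.lf 0 8235 0) (P.cons (P.lf 0 3549 0) P.nil))) (P.cons (P.cons (P.lf 0 3702 0) (P.cons (P.lf 52 0 0) P.nil)) (P.cons (P.cons (P.lf 0 31 0) P.nil) P.nil)))))) 2369)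
 (EL.cons 10 (TM.mk (P.cons (P.cons (P.lf 0 475147851 0) (P.cons (P.lf 0 442644180 0) (P.cons (P.lf 45429690 0 0) (P.cons (P.lf 9448110 0 0) (P.lf 0 787341 0))))) (P.cons (P.cons (P.lf 0 30314088 0) (P.cons (P.lf 0 28240377 0) (P.cons (P.lf 2898381 0 0) (P.cons (P.lf 602781 0 0) (P.lf 0 50229 0))))) (P.cons (P.cons (P.lf 0 378738 0) (P.cons (P.lf 0 352830 0) (P.cons (P.lf 36210 0 0) (P.cons (P.lf 7530 0 0) P.nil)))) (P.cons (P.cons (P.lf 10314 0 0) (P.cons (P.lf 9606 0 0) (P.cons (P.lf 0 984 0) P.nil))) (P.cons (P.cons (P.lf 279 0 0) (P.cons (P.lf 261 0 0) P.nil)) (P.cons (P.cons (P.lf 0 0 0) P.nil) P.nil)))))) 1065)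
 EL.nil))))
noncomputable def S140_147_216_364_8 : EL := (EL.cons 12 (TM.mk (P.cons (P.cons (P.lf 1661526 0 0) (P.cons (P.lf 5153638 0 0) (P.cons (P.lf 6218632 0 0) (P.cons (P.lf 3199598 0 0) (P.cons (P.lf 360142 0 0) (P.cons (P.lf 0 165130 0) P.nil)))))) (P.cons (P.cons (P.lf 0 9411582 0) (P.cons (P.lf 0 14102992 0) (P.cons (P.lf 0 5316480 0) (P.cons (P.lf 1335362 0 0) (P.cons (P.lf 68930 0 0) P.nil))))) (P.cons (P.cons (P.lf 13275380 0 0) (P.cons (P.lf 0 1464094 0) (P.cons (P.lf 0 572976 0) (P.cons (P.lf 120474 0 0) P.nil)))) (P.cons (P.cons (P.lf 154718 0 0) (P.cons (P.lf 0 37822 0) (P.cons (P.lf 0 14312 0) P.nil))) (P.cons (P.cons (P.lf 0 17260 0) (P.cons (P.lf 1032 0 0) P.nil)) (P.cons (P.cons (P.lf 0 422 0) P.nil) P.nil)))))) 68066)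
 (EL.cons 3 (TM.mk (P.cons (P.cons (P.lf 0 98466459 0) (P.cons (P.lf 0 148433293 0) (P.cons (P.lf 0 57374738 0) (P.cons (P.lf 12830827 0 0) (P.cons (P.lf 597606 0 0) (P.cons (P.lf 0 274011 0) P.nil)))))) (P.cons (P.cons (P.lf 277420672 0 0) (P.cons (P.lf 0 28656117 0) (P.cons (P.lf 0 11213679 0) (P.cons (P.lf 2358863 0 0) (P.cons (P.lf 103015 0 0) P.nil))))) (P.cons (P.cons (P.lf 5863521 0 0) (P.cons (P.lf 0 1340898 0) (P.cons (P.lf 0 508280 0) (P.cons (P.lf 124547 0 0) P.nil)))) (P.cons (P.cons (P.lf 0 676635 0) (P.cons (P.lf 30393 0 0) (P.cons (P.lf 14037 0 0) P.nil))) (P.cons (P.cons (P.lf 0 29229 0) (P.cons (P.lf 4063 0 0) P.nil)) (P.cons (P.cons (P.lf 311 0 0) P.nil) P.nil)))))) 143218)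
 (EL.cons 7 (TM.mk (P.cons (P.cons (P.lf 75374961 0 0) (P.cons (P.lf 112540294 0 0) (P.cons (P.lf 41771699 0 0) (P.cons (P.lf 0 11219405 0) (P.cons (P.lf 0 608921 0) (P.cons (P.lf 279201 0 0) P.nil)))))) (P.cons (P.cons (P.lf 0 214277513 0) (P.cons (P.lf 22133755 0 0) (P.cons (P.lf 8661352 0 0) (P.cons (P.lf 0 1821963 0) (P.cons (P.lf 0 79569 0) P.nil))))) (P.cons (P.cons (P.lf 925623 0 0) (P.cons (P.lf 472271 0 0) (P.cons (P.lf 172108 0 0) (P.cons (P.lf 0 49818 0) P.nil)))) (P.cons (P.cons (P.lf 582342 0 0) (P.cons (P.lf 0 48915 0) (P.cons (P.lf 0 20364 0) P.nil))) (P.cons (P.cons (P.lf 1879 0 0) (P.cons (P.lf 0 1789 0) P.nil)) (P.cons (P.cons (P.lf 0 723 0) P.nil) P.nil)))))) 82618)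
 (EL.cons 10 (TM.mk (P.cons (P.cons (P.lf 13216524 0 0) (P.cons (P.lf 32809602 0 0) (P.cons (P.lf 26669988 0 0) (P.cons (P.lf 5029344 0 0) (P.cons (P.lf 0 2145636 0) (P.cons (P.lf 0 47886 0) P.nil)))))) (P.cons (P.cons (P.lf 0 36588786 0) (P.cons (P.lf 0 30816570 0) (P.cons (P.lf 7953678 0 0) (P.cons (P.lf 1571640 0 0) (P.cons (P.lf 0 406344 0) P.nil))))) (P.cons (P.cons (P.lf 0 2586048 0) (P.cons (P.lf 0 2211864 0) (P.cons (P.lf 516102 0 0) (P.cons (P.lf 102354 0 0) P.nil)))) (P.cons (P.cons (P.lf 0 18438 0) (P.cons (P.lf 0 12720 0) (P.cons (P.lf 7842 0 0) P.nil))) (P.cons (P.cons (P.lf 2682 0 0) (P.cons (P.lf 2436 0 0) P.nil)) (P.cons (P.cons (P.lf 66 0 0) P.nil) P.nil)))))) 124950)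
 EL.nil))))
noncomputable def S140_147_216_364_9 : EL := (EL.cons 3 (TM.mk (P.cons (P.lf 0 2850771213 0) (P.cons (P.lf 54197602 0 0) (P.cons (P.lf 1192323 0 0) (P.cons (P.lf 4222 0 0) (P.cons (P.lf 0 172 0) (P.cons (P.lf 0 0 0) P.nil)))))) 63)
 (EL.cons 7 (TM.mk (P.cons (P.lf 0 1312296768 0) (P.cons (P.lf 0 41861795 0) (P.cons (P.lf 144673 0 0) (P.cons (P.lf 9629 0 0) (P.cons (P.lf 89 0 0) (P.cons (P.lf 0 0 0) P.nil)))))) 43)
 EL.nil))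
noncomputable def S140_147_216_364_10 : EL := (EL.cons 3 (TM.mk (P.cons (P.cons (P.lf 39647976 0 0) (P.cons (P.lf 61489060 0 0) (P.cons (P.lf 26514776 0 0) (P.lf 0 2946082 0)))) (P.cons (P.cons (P.lf 0 113045178 0) (P.cons (P.lf 4715431 0 0) (P.cons (P.lf 2033344 0 0) (P.lf 0 225925 0)))) (P.cons (P.cons (P.lf 1492924 0 0) (P.cons (P.lf 29782 0 0) (P.cons (P.lf 12842 0 0) (P.lf 0 1425 0)))) (P.cons (P.cons (P.lf 133729 0 0) (P.cons (P.lf 0 6387 0) (P.cons (P.lf 0 2753 0) P.nil))) (P.cons (P.cons (P.lf 365 0 0) (P.cons (P.lf 0 176 0) P.nil)) (P.cons (P.cons (P.lf 0 77 0) P.nil) P.nil)))))) 881)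
 (EL.cons 7 (TM.mk (P.cons (P.cons (P.lf 18251170 0 0) (P.cons (P.lf 28305286 0 0) (P.cons (P.lf 12205558 0 0) (P.lf 0 1356171 0)))) (P.cons (P.cons (P.lf 0 51108948 0) (P.cons (P.lf 3611712 0 0) (P.cons (P.lf 1557410 0 0) (P.lf 0 173045 0)))) (P.cons (P.cons (P.lf 0 1938798 0) (P.cons (P.lf 160335 0 0) (P.cons (P.lf 69138 0 0) (P.lf 0 7681 0)))) (P.cons (P.cons (P.lf 30877 0 0) (P.cons (P.lf 1650 0 0) (P.cons (P.lf 711 0 0) P.nil))) (P.cons (P.cons (P.lf 2136 0 0) (P.cons (P.lf 0 92 0) P.nil)) (P.cons (P.cons (P.lf 14 0 0) P.nil) P.nil)))))) 427)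
 EL.nil))
noncomputable def S140_147_216_364_11 : EL := (EL.cons 3 (TM.mk (P.cons (P.cons (P.lf 0 551415 0) (P.cons (P.lf 0 1710355 0) (P.cons (P.lf 0 2063798 0) (P.cons (P.lf 0 1061861 0) (P.cons (P.lf 0 119520 0) (P.cons (P.lf 54801 0 0) P.nil)))))) (P.cons (P.cons (P.lf 3133936 0 0) (P.cons (P.lf 4712925 0 0) (P.cons (P.lf 1803633 0 0) (P.cons (P.lf 0 422983 0) (P.cons (P.lf 0 20603 0) P.nil))))) (P.cons (P.cons (P.lf 0 4464897 0) (P.cons (P.lf 397626 0 0) (P.cons (P.lf 157474 0 0) (P.cons (P.lf 0 31111 0) P.nil)))) (P.cons (P.cons (P.lf 31107 0 0) (P.cons (P.lf 1359 0 0) (P.cons (P.lf 399 0 0) P.nil))) (P.cons (P.cons (P.lf 8541 0 0) (P.cons (P.lf 0 791 0) P.nil)) (P.cons (P.cons (P.lf 59 0 0) P.nil) P.nil)))))) 25788)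
 (EL.cons 7 (TM.mk (P.cons (P.cons (P.lf 0 253833 0) (P.cons (P.lf 0 787328 0) (P.cons (P.lf 0 950029 0) (P.cons (P.lf 0 488807 0) (P.cons (P.lf 0 55019 0) (P.cons (P.lf 25227 0 0) P.nil)))))) (P.cons (P.cons (P.lf 1429723 0 0) (P.cons (P.lf 2129419 0 0) (P.cons (P.lf 781900 0 0) (P.cons (P.lf 0 219597 0) (P.cons (P.lf 0 12285 0) P.nil))))) (P.cons (P.cons (P.lf 0 1982205 0) (P.cons (P.lf 292487 0 0) (P.cons (P.lf 113548 0 0) (P.cons (P.lf 0 24858 0) P.nil)))) (P.cons (P.cons (P.lf 0 88488 0) (P.cons (P.lf 12681 0 0) (P.cons (P.lf 4896 0 0) P.nil))) (P.cons (P.cons (P.lf 2095 0 0) (P.cons (P.lf 0 13 0) P.nil)) (P.cons (P.cons (P.lf 165 0 0) P.nil) P.nil)))))) 12618)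
 EL.nil))
noncomputable def S140_147_216_364_12 : EL := (EL.cons 4 (TM.mk (P.cons (P.lf 2850771213 0 0) (P.cons (P.lf 0 54197602 0) (P.cons (P.lf 0 1192323 0) (P.cons (P.lf 0 4222 0) (P.cons (P.lf 172 0 0) (P.cons (P.lf 0 0 0) P.nil)))))) 63)
 (EL.cons 8 (TM.mk (P.cons (P.lf 1312296768 0 0) (P.cons (P.lf 41861795 0 0) (P.cons (P.lf 0 144673 0) (P.cons (P.lf 0 9629 0) (P.cons (P.lf 0 89 0) (P.cons (P.lf 0 0 0) P.nil)))))) 43)
 EL.nil))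
noncomputable def S140_147_216_364_13 : EL := (EL.cons 4 (TM.mk (P.cons (P.cons (P.lf 0 39647976 0) (P.cons (P.lf 0 61489060 0) (P.cons (P.lf 0 26514776 0) (P.lf 2946082 0 0)))) (P.cons (P.cons (P.lf 113045178 0 0) (P.cons (P.lf 0 4715431 0) (P.cons (P.lf 0 2033344 0) (P.lf 225925 0 0)))) (P.cons (P.cons (P.lf 0 1492924 0) (P.cons (P.lf 0 29782 0) (P.cons (P.lf 0 12842 0) (P.lf 1425 0 0)))) (P.cons (P.cons (P.lf 0 133729 0) (P.cons (P.lf 6387 0 0) (P.cons (P.lf 2753 0 0) P.nil))) (P.cons (P.cons (P.lf 0 365 0) (P.cons (P.lf 176 0 0) P.nil)) (P.cons (P.cons (P.lf 77 0 0) P.nil) P.nil)))))) 881)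
 (EL.cons 8 (TM.mk (P.cons (P.cons (P.lf 0 18251170 0) (P.cons (P.lf 0 28305286 0) (P.cons (P.lf 0 12205558 0) (P.lf 1356171 0 0)))) (P.cons (P.cons (P.lf 51108948 0 0) (P.cons (P.lf 0 3611712 0) (P.cons (P.lf 0 1557410 0) (P.lf 173045 0 0)))) (P.cons (P.cons (P.lf 1938798 0 0) (P.cons (P.lf 0 160335 0) (P.cons (P.lf 0 69138 0) (P.lf 7681 0 0)))) (P.cons (P.cons (P.lf 0 30877 0) (P.cons (P.lf 0 1650 0) (P.cons (P.lf 0 711 0) P.nil))) (P.cons (P.cons (P.lf 0 2136 0) (P.cons (P.lf 92 0 0) P.nil)) (P.cons (P.cons (P.lf 0 14 0) P.nil) P.nil)))))) 427)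
 EL.nil))
noncomputable def S140_147_216_364_14 : EL := (EL.cons 4 (TM.mk (P.cons (P.cons (P.lf 551415 0 0) (P.cons (P.lf 1710355 0 0) (P.cons (P.lf 2063798 0 0) (P.cons (P.lf 1061861 0 0) (P.cons (P.lf 119520 0 0) (P.cons (P.lf 0 54801 0) P.nil)))))) (P.cons (P.cons (P.lf 0 3133936 0) (P.cons (P.lf 0 4712925 0) (P.cons (P.lf 0 1803633 0) (P.cons (P.lf 422983 0 0) (P.cons (P.lf 20603 0 0) P.nil))))) (P.cons (P.cons (P.lf 4464897 0 0) (P.cons (P.lf 0 397626 0) (P.cons (P.lf 0 157474 0) (P.cons (P.lf 31111 0 0) P.nil)))) (P.cons (P.cons (P.lf 0 31107 0) (P.cons (P.lf 0 1359 0) (P.cons (P.lf 0 399 0) P.nil))) (P.cons (P.cons (P.lf 0 8541 0) (P.cons (P.lf 791 0 0) P.nil)) (P.cons (P.cons (P.lf 0 59 0) P.nil) P.nil)))))) 25788)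
 (EL.cons 8 (TM.mk (P.cons (P.cons (P.lf 253833 0 0) (P.cons (P.lf 787328 0 0) (P.cons (P.lf 950029 0 0) (P.cons (P.lf 488807 0 0) (P.cons (P.lf 55019 0 0) (P.cons (P.lf 0 25227 0) P.nil)))))) (P.cons (P.cons (P.lf 0 1429723 0) (P.cons (P.lf 0 2129419 0) (P.cons (P.lf 0 781900 0) (P.cons (P.lf 219597 0 0) (P.cons (P.lf 12285 0 0) P.nil))))) (P.cons (P.cons (P.lf 1982205 0 0) (P.cons (P.lf 0 292487 0) (P.cons (P.lf 0 113548 0) (P.cons (P.lf 24858 0 0) P.nil)))) (P.cons (P.cons (P.lf 88488 0 0) (P.cons (P.lf 0 12681 0) (P.cons (P.lf 0 4896 0) P.nil))) (P.cons (P.cons (P.lf 0 2095 0) (P.cons (P.lf 13 0 0) P.nil)) (P.cons (P.cons (P.lf 0 165 0) P.nil) P.nil)))))) 12618)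
 EL.nil))
noncomputable def S140_147_216_364_15 : EL := (EL.cons 4 (TM.mk (P.cons (P.lf 0 2018336581 0) (P.cons (P.lf 76743446 0 0) (P.cons (P.lf 958815 0 0) (P.cons (P.lf 0 26117 0) (P.cons (P.lf 0 710 0) (P.cons (P.lf 1 0 0) P.nil)))))) 94)
 (EL.cons 8 (TM.mk (P.cons (P.lf 0 929101767 0) (P.cons (P.lf 0 11974340 0) (P.cons (P.lf 1054485 0 0) (P.cons (P.lf 18642 0 0) (P.cons (P.lf 0 121 0) (P.cons (P.lf 0 5 0) P.nil)))))) 56)
 EL.nil))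
noncomputable def S140_147_216_364_16 : EL := (EL.cons 4 (TM.mk (P.cons (P.cons (P.lf 28070636 0 0) (P.cons (P.lf 43534050 0 0) (P.cons (P.lf 18772373 0 0) (P.lf 0 2085816 0)))) (P.cons (P.cons (P.lf 0 80569278 0) (P.cons (P.lf 2510859 0 0) (P.cons (P.lf 1082709 0 0) (P.lf 0 120300 0)))) (P.cons (P.cons (P.lf 2566846 0 0) (P.cons (P.lf 0 60591 0) (P.cons (P.lf 0 26127 0) (P.lf 2903 0 0)))) (P.cons (P.cons (P.lf 108017 0 0) (P.cons (P.lf 0 6383 0) (P.cons (P.lf 0 2752 0) P.nil))) (P.cons (P.cons (P.lf 0 1861 0) (P.cons (P.lf 0 49 0) P.nil)) (P.cons (P.cons (P.lf 0 105 0) P.nil) P.nil)))))) 831)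
 (EL.cons 8 (TM.mk (P.cons (P.cons (P.lf 12921768 0 0) (P.cons (P.lf 20040048 0 0) (P.cons (P.lf 8641495 0 0) (P.lf 0 960164 0)))) (P.cons (P.cons (P.lf 0 36430628 0) (P.cons (P.lf 2176088 0 0) (P.cons (P.lf 938352 0 0) (P.lf 0 104260 0)))) (P.cons (P.cons (P.lf 0 690134 0) (P.cons (P.lf 56521 0 0) (P.cons (P.lf 24372 0 0) (P.lf 0 2707 0)))) (P.cons (P.cons (P.lf 63072 0 0) (P.cons (P.lf 0 2088 0) (P.cons (P.lf 0 900 0) P.nil))) (P.cons (P.cons (P.lf 1725 0 0) (P.cons (P.lf 0 137 0) P.nil)) (P.cons (P.cons (P.lf 0 27 0) P.nil) P.nil)))))) 380)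
 EL.nil))
noncomputable def S140_147_216_364_17 : EL := (EL.cons 4 (TM.mk (P.cons (P.cons (P.lf 0 390400 0) (P.cons (P.lf 0 1210925 0) (P.cons (P.lf 0 1461162 0) (P.cons (P.lf 0 751794 0) (P.cons (P.lf 0 84620 0) (P.cons (P.lf 38799 0 0) P.nil)))))) (P.cons (P.cons (P.lf 2226239 0 0) (P.cons (P.lf 3359756 0 0) (P.cons (P.lf 1304745 0 0) (P.cons (P.lf 0 285178 0) (P.cons (P.lf 0 12977 0) P.nil))))) (P.cons (P.cons (P.lf 0 3203151 0) (P.cons (P.lf 218588 0 0) (P.cons (P.lf 87825 0 0) (P.cons (P.lf 0 16019 0) P.nil)))) (P.cons (P.cons (P.lf 81194 0 0) (P.cons (P.lf 0 5782 0) (P.cons (P.lf 0 2368 0) P.nil))) (P.cons (P.cons (P.lf 6947 0 0) (P.cons (P.lf 0 701 0) P.nil)) (P.cons (P.cons (P.lf 0 76 0) P.nil) P.nil)))))) 20303)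
 (EL.cons 8 (TM.mk (P.cons (P.cons (P.lf 0 179713 0) (P.cons (P.lf 0 557426 0) (P.cons (P.lf 0 672617 0) (P.cons (P.lf 0 346073 0) (P.cons (P.lf 0 38953 0) (P.cons (P.lf 17860 0 0) P.nil)))))) (P.cons (P.cons (P.lf 1015656 0 0) (P.cons (P.lf 1518219 0 0) (P.cons (P.lf 566370 0 0) (P.cons (P.lf 0 148895 0) (P.cons (P.lf 0 7957 0) P.nil))))) (P.cons (P.cons (P.lf 0 1422563 0) (P.cons (P.lf 178650 0 0) (P.cons (P.lf 70148 0 0) (P.cons (P.lf 0 14499 0) P.nil)))) (P.cons (P.cons (P.lf 0 36392 0) (P.cons (P.lf 4411 0 0) (P.cons (P.lf 1707 0 0) P.nil))) (P.cons (P.cons (P.lf 3260 0 0) (P.cons (P.lf 0 269 0) P.nil)) (P.cons (P.cons (P.lf 117 0 0) P.nil) P.nil)))))) 9848)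
 EL.nil))
noncomputable def S140_147_216_364_18 : EL := (EL.cons 4 (TM.mk (P.cons (P.lf 1428975617 0 0) (P.cons (P.lf 0 81501158 0) (P.cons (P.lf 0 243525 0) (P.cons (P.lf 52005 0 0) (P.cons (P.lf 601 0 0) (P.cons (P.lf 0 20 0) P.nil)))))) 105)
 (EL.cons 8 (TM.mk (P.cons (P.lf 657800975 0 0) (P.cons (P.lf 0 4028028 0) (P.cons (P.lf 0 1182871 0) (P.cons (P.lf 0 3525 0) (P.cons (P.lf 676 0 0) (P.cons (P.lf 9 0 0) P.nil)))))) 58)
 EL.nil))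
noncomputable def S140_147_216_364_19 : EL := (EL.cons 4 (TM.mk (P.cons (P.cons (P.lf 0 19873917 0) (P.cons (P.lf 0 30821964 0) (P.cons (P.lf 0 13290778 0) (P.lf 1476750 0 0)))) (P.cons (P.cons (P.lf 57420616 0 0) (P.cons (P.lf 0 1191706 0) (P.cons (P.lf 0 513875 0) (P.lf 57096 0 0)))) (P.cons (P.cons (P.lf 0 2893478 0) (P.cons (P.lf 89585 0 0) (P.cons (P.lf 38629 0 0) (P.lf 0 4292 0)))) (P.cons (P.cons (P.lf 0 65754 0) (P.cons (P.lf 4492 0 0) (P.cons (P.lf 1936 0 0) P.nil))) (P.cons (P.cons (P.lf 3446 0 0) (P.cons (P.lf 0 66 0) P.nil)) (P.cons (P.cons (P.lf 88 0 0) P.nil) P.nil)))))) 706)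
 (EL.cons 8 (TM.mk (P.cons (P.cons (P.lf 0 9148569 0) (P.cons (P.lf 0 14188288 0) (P.cons (P.lf 0 6118149 0) (P.lf 679793 0 0)))) (P.cons (P.cons (P.lf 25966693 0 0) (P.cons (P.lf 0 1270921 0) (P.cons (P.lf 0 548035 0) (P.lf 60892 0 0)))) (P.cons (P.cons (P.lf 2078 0 0) (P.cons (P.lf 0 4792 0) (P.cons (P.lf 0 2066 0) (P.lf 229 0 0)))) (P.cons (P.cons (P.lf 0 64718 0) (P.cons (P.lf 2904 0 0) (P.cons (P.lf 1252 0 0) P.nil))) (P.cons (P.cons (P.lf 0 616 0) (P.cons (P.lf 87 0 0) P.nil)) (P.cons (P.cons (P.lf 62 0 0) P.nil) P.nil)))))) 369)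
 EL.nil))
noncomputable def S140_147_216_364_20 : EL := (EL.cons 4 (TM.mk (P.cons (P.cons (P.lf 276402 0 0) (P.cons (P.lf 857331 0 0) (P.cons (P.lf 1034497 0 0) (P.cons (P.lf 532267 0 0) (P.cons (P.lf 59910 0 0) (P.cons (P.lf 0 27469 0) P.nil)))))) (P.cons (P.cons (P.lf 0 1581424 0) (P.cons (P.lf 0 2394995 0) (P.cons (P.lf 0 943423 0) (P.cons (P.lf 191785 0 0) (P.cons (P.lf 8049 0 0) P.nil))))) (P.cons (P.cons (P.lf 2297670 0 0) (P.cons (P.lf 0 109895 0) (P.cons (P.lf 0 45050 0) (P.cons (P.lf 7280 0 0) P.nil)))) (P.cons (P.cons (P.lf 0 99941 0) (P.cons (P.lf 8029 0 0) (P.cons (P.lf 3243 0 0) P.nil))) (P.cons (P.cons (P.lf 0 4771 0) (P.cons (P.lf 486 0 0) P.nil)) (P.cons (P.cons (P.lf 168 0 0) P.nil) P.nil)))))) 15684)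
 (EL.cons 8 (TM.mk (P.cons (P.cons (P.lf 127236 0 0) (P.cons (P.lf 394655 0 0) (P.cons (P.lf 476210 0 0) (P.cons (P.lf 245019 0 0) (P.cons (P.lf 27578 0 0) (P.cons (P.lf 0 12645 0) P.nil)))))) (P.cons (P.cons (P.lf 0 721500 0) (P.cons (P.lf 0 1082396 0) (P.cons (P.lf 0 410041 0) (P.cons (P.lf 100759 0 0) (P.cons (P.lf 5109 0 0) P.nil))))) (P.cons (P.cons (P.lf 1020787 0 0) (P.cons (P.lf 0 106213 0) (P.cons (P.lf 0 42240 0) (P.cons (P.lf 8158 0 0) P.nil)))) (P.cons (P.cons (P.lf 6918 0 0) (P.cons (P.lf 0 270 0) (P.cons (P.lf 0 97 0) P.nil))) (P.cons (P.cons (P.lf 0 3218 0) (P.cons (P.lf 304 0 0) P.nil)) (P.cons (P.cons (P.lf 0 51 0) P.nil) P.nil)))))) 7608)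
 EL.nil))
noncomputable def S140_147_216_364_21 : EL := (EL.cons 4 (TM.mk (P.cons (P.cons (P.lf 0 3520146717 0) (P.cons (P.lf 184467180 0 0) (P.cons (P.lf 79544328 0 0) (P.lf 0 8838246 0)))) (P.cons (P.cons (P.lf 0 108905199 0) (P.cons (P.lf 14146293 0 0) (P.cons (P.lf 6100032 0 0) (P.lf 0 677775 0)))) (P.cons (P.cons (P.lf 7355223 0 0) (P.cons (P.lf 89346 0 0) (P.cons (P.lf 38526 0 0) (P.lf 0 4275 0)))) (P.cons (P.cons (P.lf 322839 0 0) (P.cons (P.lf 0 19161 0) (P.cons (P.lf 0 8259 0) P.nil))) (P.cons (P.cons (P.lf 0 1035 0) (P.cons (P.lf 0 528 0) P.nil)) (P.cons (P.cons (P.lf 0 231 0) P.nil) P.nil)))))) 2916)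
 (EL.cons 8 (TM.mk (P.cons (P.cons (P.lf 2718933207 0 0) (P.cons (P.lf 0 142480986 0) (P.cons (P.lf 0 61439409 0) (P.lf 6826605 0 0)))) (P.cons (P.cons (P.lf 0 54306624 0) (P.cons (P.lf 0 3672618 0) (P.cons (P.lf 0 1583676 0) (P.lf 175965 0 0)))) (P.cons (P.cons (P.lf 0 6385386 0) (P.cons (P.lf 299748 0 0) (P.cons (P.lf 129255 0 0) (P.lf 0 14361 0)))) (P.cons (P.cons (P.lf 37089 0 0) (P.cons (P.lf 9885 0 0) (P.cons (P.lf 4260 0 0) P.nil))) (P.cons (P.cons (P.lf 5838 0 0) (P.cons (P.lf 0 144 0) P.nil)) (P.cons (P.cons (P.lf 45 0 0) P.nil) P.nil)))))) 1923)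
 (EL.cons 11 (TM.mk (P.cons (P.cons (P.lf 475147851 0 0) (P.cons (P.lf 442644180 0 0) (P.cons (P.lf 0 45429690 0) (P.cons (P.lf 0 9448110 0) (P.lf 787341 0 0))))) (P.cons (P.cons (P.lf 30314088 0 0) (P.cons (P.lf 28240377 0 0) (P.cons (P.lf 0 2898381 0) (P.cons (P.lf 0 602781 0) (P.lf 50229 0 0))))) (P.cons (P.cons (P.lf 378738 0 0) (P.cons (P.lf 352830 0 0) (P.cons (P.lf 0 36210 0) (P.cons (P.lf 0 7530 0) P.nil)))) (P.cons (P.cons (P.lf 0 10314 0) (P.cons (P.lf 0 9606 0) (P.cons (P.lf 984 0 0) P.nil))) (P.cons (P.cons (P.lf 0 279 0) (P.cons (P.lf 0 261 0) P.nil)) (P.cons (P.cons (P.lf 0 0 0) P.nil) P.nil)))))) 1065)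
 EL.nil)))
noncomputable def S140_147_216_364_22 : EL := (EL.cons 4 (TM.mk (P.cons (P.cons (P.lf 48957522 0 0) (P.cons (P.lf 73361469 0 0) (P.cons (P.lf 27655470 0 0) (P.cons (P.lf 0 6946344 0) (P.cons (P.lf 0 358563 0) (P.cons (P.lf 164406 0 0) P.nil)))))) (P.cons (P.cons (P.lf 0 137143368 0) (P.cons (P.lf 16684521 0 0) (P.cons (P.lf 6508656 0 0) (P.cons (P.lf 0 1390923 0) (P.cons (P.lf 0 61809 0) P.nil))))) (P.cons (P.cons (P.lf 0 5164209 0) (P.cons (P.lf 869262 0 0) (P.cons (P.lf 332877 0 0) (P.cons (P.lf 0 77829 0) P.nil)))) (P.cons (P.cons (P.lf 353871 0 0) (P.cons (P.lf 0 14517 0) (P.cons (P.lf 0 6819 0) P.nil))) (P.cons (P.cons (P.lf 18885 0 0) (P.cons (P.lf 0 2427 0) P.nil)) (P.cons (P.cons (P.lf 0 126 0) P.nil) P.nil)))))) 58704)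
 (EL.cons 8 (TM.mk (P.cons (P.cons (P.lf 0 37814397 0) (P.cons (P.lf 0 56663811 0) (P.cons (P.lf 0 21360864 0) (P.cons (P.lf 5365299 0 0) (P.cons (P.lf 276951 0 0) (P.cons (P.lf 0 126987 0) P.nil)))))) (P.cons (P.cons (P.lf 107853618 0 0) (P.cons (P.lf 0 10002168 0) (P.cons (P.lf 0 3939726 0) (P.cons (P.lf 801183 0 0) (P.cons (P.lf 33642 0 0) P.nil))))) (P.cons (P.cons (P.lf 0 1453914 0) (P.cons (P.lf 0 89892 0) (P.cons (P.lf 0 29280 0) (P.cons (P.lf 12480 0 0) P.nil)))) (P.cons (P.cons (P.lf 0 335415 0) (P.cons (P.lf 30798 0 0) (P.cons (P.lf 12630 0 0) P.nil))) (P.cons (P.cons (P.lf 108 0 0) (P.cons (P.lf 888 0 0) P.nil)) (P.cons (P.cons (P.lf 444 0 0) P.nil) P.nil)))))) 34989)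
 (EL.cons 11 (TM.mk (P.cons (P.cons (P.lf 0 6608262 0) (P.cons (P.lf 0 16404801 0) (P.cons (P.lf 0 13334994 0) (P.cons (P.lf 0 2514672 0) (P.cons (P.lf 1072818 0 0) (P.cons (P.lf 23943 0 0) P.nil)))))) (P.cons (P.cons (P.lf 18294393 0 0) (P.cons (P.lf 15408285 0 0) (P.cons (P.lf 0 3976839 0) (P.cons (P.lf 0 785820 0) (P.cons (P.lf 203172 0 0) P.nil))))) (P.cons (P.cons (P.lf 1293024 0 0) (P.cons (P.lf 1105932 0 0) (P.cons (P.lf 0 258051 0) (P.cons (P.lf 0 51177 0) P.nil)))) (P.cons (P.cons (P.lf 9219 0 0) (P.cons (P.lf 6360 0 0) (P.cons (P.lf 0 3921 0) P.nil))) (P.cons (P.cons (P.lf 0 1341 0) (P.cons (P.lf 0 1218 0) P.nil)) (P.cons (P.cons (P.lf 0 33 0) P.nil) P.nil)))))) 62475)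
 EL.nil)))
noncomputable def S140_147_216_364_23 : EL := (EL.cons 4 (TM.mk (P.cons (P.cons (P.lf 2492252220 0 0) (P.cons (P.lf 0 130602150 0) (P.cons (P.lf 0 56317119 0) (P.lf 6257448 0 0)))) (P.cons (P.cons (P.lf 29722920 0 0) (P.cons (P.lf 0 7532577 0) (P.cons (P.lf 0 3248124 0) (P.lf 360897 0 0)))) (P.cons (P.cons (P.lf 0 7715724 0) (P.cons (P.lf 181776 0 0) (P.cons (P.lf 78384 0 0) (P.lf 0 8712 0)))) (P.cons (P.cons (P.lf 0 165504 0) (P.cons (P.lf 19149 0 0) (P.cons (P.lf 8253 0 0) P.nil))) (P.cons (P.cons (P.lf 7290 0 0) (P.cons (P.lf 147 0 0) P.nil)) (P.cons (P.cons (P.lf 255 0 0) P.nil) P.nil)))))) 2637)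
 (EL.cons 8 (TM.mk (P.cons (P.cons (P.lf 0 1924995708 0) (P.cons (P.lf 100876065 0 0) (P.cons (P.lf 43498896 0 0) (P.lf 0 4833213 0)))) (P.cons (P.cons (P.lf 75046077 0 0) (P.cons (P.lf 682389 0 0) (P.cons (P.lf 294255 0 0) (P.lf 0 32694 0)))) (P.cons (P.cons (P.lf 4594980 0 0) (P.cons (P.lf 0 303843 0) (P.cons (P.lf 0 131019 0) (P.lf 14556 0 0)))) (P.cons (P.cons (P.lf 0 125436 0) (P.cons (P.lf 0 4200 0) (P.cons (P.lf 0 1809 0) P.nil))) (P.cons (P.cons (P.lf 0 5697 0) (P.cons (P.lf 324 0 0) P.nil)) (P.cons (P.cons (P.lf 51 0 0) P.nil) P.nil)))))) 1851)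
 (EL.cons 11 (TM.mk (P.cons (P.cons (P.lf 0 336403104 0) (P.cons (P.lf 0 313390614 0) (P.cons (P.lf 32164068 0 0) (P.cons (P.lf 6689229 0 0) (P.lf 0 557433 0))))) (P.cons (P.cons (P.lf 0 15066726 0) (P.cons (P.lf 0 14036049 0) (P.cons (P.lf 1440555 0 0) (P.cons (P.lf 299592 0 0) (P.lf 0 24963 0))))) (P.cons (P.cons (P.lf 280584 0 0) (P.cons (P.lf 261390 0 0) (P.cons (P.lf 0 26826 0) (P.cons (P.lf 0 5580 0) P.nil)))) (P.cons (P.cons (P.lf 21873 0 0) (P.cons (P.lf 20376 0 0) (P.cons (P.lf 0 2088 0) P.nil))) (P.cons (P.cons (P.lf 180 0 0) (P.cons (P.lf 168 0 0) P.nil)) (P.cons (P.cons (P.lf 0 6 0) P.nil) P.nil)))))) 2100)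
 EL.nil)))
noncomputable def S140_147_216_364_24 : EL := (EL.cons 4 (TM.mk (P.cons (P.cons (P.lf 0 34661763 0) (P.cons (P.lf 0 51939675 0) (P.cons (P.lf 0 19579980 0) (P.cons (P.lf 4917987 0 0) (P.cons (P.lf 253863 0 0) (P.cons (P.lf 0 116397 0) P.nil)))))) (P.cons (P.cons (P.lf 97756023 0 0) (P.cons (P.lf 0 10825131 0) (P.cons (P.lf 0 4235859 0) (P.cons (P.lf 891267 0 0) (P.cons (P.lf 38934 0 0) P.nil))))) (P.cons (P.cons (P.lf 1824774 0 0) (P.cons (P.lf 0 369135 0) (P.cons (P.lf 0 139878 0) (P.cons (P.lf 34323 0 0) P.nil)))) (P.cons (P.cons (P.lf 0 360609 0) (P.cons (P.lf 26994 0 0) (P.cons (P.lf 11262 0 0) P.nil))) (P.cons (P.cons (P.lf 0 10281 0) (P.cons (P.lf 1794 0 0) P.nil)) (P.cons (P.cons (P.lf 447 0 0) P.nil) P.nil)))))) 35919)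
 (EL.cons 8 (TM.mk (P.cons (P.cons (P.lf 26772468 0 0) (P.cons (P.lf 40117791 0 0) (P.cons (P.lf 15123420 0 0) (P.cons (P.lf 0 3798612 0) (P.cons (P.lf 0 196080 0) (P.cons (P.lf 89904 0 0) P.nil)))))) (P.cons (P.cons (P.lf 0 76868988 0) (P.cons (P.lf 6318801 0 0) (P.cons (P.lf 2501793 0 0) (P.cons (P.lf 0 495018 0) (P.cons (P.lf 0 20091 0) P.nil))))) (P.cons (P.cons (P.lf 2469891 0 0) (P.cons (P.lf 0 87765 0) (P.cons (P.lf 0 38622 0) (P.cons (P.lf 3534 0 0) P.nil)))) (P.cons (P.cons (P.lf 249801 0 0) (P.cons (P.lf 0 26037 0) (P.cons (P.lf 0 10524 0) P.nil))) (P.cons (P.cons (P.lf 0 4908 0) (P.cons (P.lf 0 249 0) P.nil)) (P.cons (P.cons (P.lf 0 417 0) P.nil) P.nil)))))) 21228)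
 (EL.cons 11 (TM.mk (P.cons (P.cons (P.lf 4678629 0 0) (P.cons (P.lf 11614545 0 0) (P.cons (P.lf 9441129 0 0) (P.cons (P.lf 1780380 0 0) (P.cons (P.lf 0 759552 0) (P.cons (P.lf 0 16953 0) P.nil)))))) (P.cons (P.cons (P.lf 0 13041315 0) (P.cons (P.lf 0 11129826 0) (P.cons (P.lf 2636097 0 0) (P.cons (P.lf 522510 0 0) (P.cons (P.lf 0 129405 0) P.nil))))) (P.cons (P.cons (P.lf 0 671169 0) (P.cons (P.lf 0 580455 0) (P.cons (P.lf 125223 0 0) (P.cons (P.lf 24912 0 0) P.nil)))) (P.cons (P.cons (P.lf 16284 0 0) (P.cons (P.lf 14928 0 0) (P.cons (P.lf 0 1887 0) P.nil))) (P.cons (P.cons (P.lf 1476 0 0) (P.cons (P.lf 1293 0 0) P.nil)) (P.cons (P.cons (P.lf 9 0 0) P.nil) P.nil)))))) 39204)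
 EL.nil)))
noncomputable def S140_147_216_364_25 : EL := (EL.cons 4 (TM.mk (P.cons (P.cons (P.lf 0 1764506322 0) (P.cons (P.lf 92465889 0 0) (P.cons (P.lf 39872334 0 0) (P.lf 0 4430253 0)))) (P.cons (P.cons (P.lf 12502281 0 0) (P.cons (P.lf 3575118 0 0) (P.cons (P.lf 1541625 0 0) (P.lf 0 171288 0)))) (P.cons (P.cons (P.lf 6600777 0 0) (P.cons (P.lf 0 268761 0) (P.cons (P.lf 0 115893 0) (P.lf 12879 0 0)))) (P.cons (P.cons (P.lf 24738 0 0) (P.cons (P.lf 0 13479 0) (P.cons (P.lf 0 5808 0) P.nil))) (P.cons (P.cons (P.lf 0 9750 0) (P.cons (P.lf 201 0 0) P.nil)) (P.cons (P.cons (P.lf 0 141 0) P.nil) P.nil)))))) 2217)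
 (EL.cons 8 (TM.mk (P.cons (P.cons (P.lf 1362890589 0 0) (P.cons (P.lf 0 71419920 0) (P.cons (P.lf 0 30797073 0) (P.lf 3421899 0 0)))) (P.cons (P.cons (P.lf 0 79043046 0) (P.cons (P.lf 874671 0 0) (P.cons (P.lf 377166 0 0) (P.lf 0 41907 0)))) (P.cons (P.cons (P.lf 0 2813124 0) (P.cons (P.lf 254175 0 0) (P.cons (P.lf 109602 0 0) (P.lf 0 12177 0)))) (P.cons (P.cons (P.lf 170859 0 0) (P.cons (P.lf 0 807 0) (P.cons (P.lf 0 348 0) P.nil))) (P.cons (P.cons (P.lf 3867 0 0) (P.cons (P.lf 0 378 0) P.nil)) (P.cons (P.cons (P.lf 0 147 0) P.nil) P.nil)))))) 1635)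
 (EL.cons 11 (TM.mk (P.cons (P.cons (P.lf 238172283 0 0) (P.cons (P.lf 221879517 0 0) (P.cons (P.lf 0 22772055 0) (P.cons (P.lf 0 4735953 0) (P.lf 394662 0 0))))) (P.cons (P.cons (P.lf 6139164 0 0) (P.cons (P.lf 5719200 0 0) (P.cons (P.lf 0 586974 0) (P.cons (P.lf 0 122073 0) (P.lf 10170 0 0))))) (P.cons (P.cons (P.lf 0 501066 0) (P.cons (P.lf 0 466788 0) (P.cons (P.lf 47907 0 0) (P.cons (P.lf 9963 0 0) P.nil)))) (P.cons (P.cons (P.lf 0 16524 0) (P.cons (P.lf 0 15393 0) (P.cons (P.lf 1578 0 0) P.nil))) (P.cons (P.cons (P.lf 246 0 0) (P.cons (P.lf 228 0 0) P.nil)) (P.cons (P.cons (P.lf 15 0 0) P.nil) P.nil)))))) 2226)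
 EL.nil)))
noncomputable def S140_147_216_364_26 : EL := (EL.cons 4 (TM.mk (P.cons (P.cons (P.lf 24540411 0 0) (P.cons (P.lf 36773118 0 0) (P.cons (P.lf 13862559 0 0) (P.cons (P.lf 0 3481917 0) (P.cons (P.lf 0 179733 0) (P.cons (P.lf 82410 0 0) P.nil)))))) (P.cons (P.cons (P.lf 0 69677490 0) (P.cons (P.lf 6965043 0 0) (P.cons (P.lf 2735427 0 0) (P.cons (P.lf 0 564819 0) (P.cons (P.lf 0 24147 0) P.nil))))) (P.cons (P.cons (P.lf 13608 0 0) (P.cons (P.lf 100260 0 0) (P.cons (P.lf 36222 0 0) (P.cons (P.lf 0 10848 0) P.nil)))) (P.cons (P.cons (P.lf 308781 0 0) (P.cons (P.lf 0 27339 0) (P.cons (P.lf 0 11133 0) P.nil))) (P.cons (P.cons (P.lf 3072 0 0) (P.cons (P.lf 0 1026 0) P.nil)) (P.cons (P.cons (P.lf 0 564 0) P.nil) P.nil)))))) 24276)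
 (EL.cons 8 (TM.mk (P.cons (P.cons (P.lf 0 18954819 0) (P.cons (P.lf 0 28403262 0) (P.cons (P.lf 0 10707330 0) (P.cons (P.lf 2689404 0 0) (P.cons (P.lf 138825 0 0) (P.cons (P.lf 0 63651 0) P.nil)))))) (P.cons (P.cons (P.lf 54783351 0 0) (P.cons (P.lf 0 3933699 0) (P.cons (P.lf 0 1567698 0) (P.cons (P.lf 299340 0 0) (P.cons (P.lf 11583 0 0) P.nil))))) (P.cons (P.cons (P.lf 0 2775411 0) (P.cons (P.lf 159066 0 0) (P.cons (P.lf 65496 0 0) (P.cons (P.lf 0 10290 0) P.nil)))) (P.cons (P.cons (P.lf 0 166347 0) (P.cons (P.lf 19164 0 0) (P.cons (P.lf 7689 0 0) P.nil))) (P.cons (P.cons (P.lf 7485 0 0) (P.cons (P.lf 0 192 0) P.nil)) (P.cons (P.cons (P.lf 309 0 0) P.nil) P.nil)))))) 14373)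
 (EL.cons 11 (TM.mk (P.cons (P.cons (P.lf 0 3312453 0) (P.cons (P.lf 0 8223060 0) (P.cons (P.lf 0 6684288 0) (P.cons (P.lf 0 1260501 0) (P.cons (P.lf 537759 0 0) (P.cons (P.lf 12000 0 0) P.nil)))))) (P.cons (P.cons (P.lf 9296184 0 0) (P.cons (P.lf 8036214 0 0) (P.cons (P.lf 0 1739268 0) (P.cons (P.lf 0 345969 0) (P.cons (P.lf 81393 0 0) P.nil))))) (P.cons (P.cons (P.lf 301032 0 0) (P.cons (P.lf 264591 0 0) (P.cons (P.lf 0 50379 0) (P.cons (P.lf 0 10077 0) P.nil)))) (P.cons (P.cons (P.lf 0 24420 0) (P.cons (P.lf 0 21663 0) (P.cons (P.lf 3813 0 0) P.nil))) (P.cons (P.cons (P.lf 0 1038 0) (P.cons (P.lf 0 897 0) P.nil)) (P.cons (P.cons (P.lf 15 0 0) P.nil) P.nil)))))) 26970)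
 EL.nil)))
noncomputable def S140_147_216_364_27 : EL := (EL.cons 13 (TM.mk (P.lf 0 4294967296 0) 0)
 EL.nil)
noncomputable def S140_147_216_364_28 : EL := (EL.cons 13 (TM.mk (P.cons (P.cons (P.lf 59733578 0 0) (P.cons (P.lf 92639320 0 0) (P.cons (P.lf 39947120 0 0) (P.lf 0 4438564 0)))) (P.cons (P.cons (P.lf 0 169178056 0) (P.cons (P.lf 8865480 0 0) (P.cons (P.lf 3822892 0 0) (P.lf 0 424764 0)))) (P.cons (P.cons (P.lf 0 942117 0) (P.cons (P.lf 252164 0 0) (P.cons (P.lf 108736 0 0) (P.lf 0 12080 0)))) (P.cons (P.cons (P.lf 112897 0 0) (P.cons (P.lf 0 984 0) (P.cons (P.lf 0 424 0) P.nil))) (P.cons (P.cons (P.lf 2050 0 0) (P.cons (P.lf 0 172 0) P.nil)) (P.cons (P.cons (P.lf 0 23 0) P.nil) P.nil)))))) 763)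
 EL.nil)
noncomputable def S140_147_216_364_29 : EL := (EL.cons 13 (TM.mk (P.cons (P.cons (P.lf 0 830763 0) (P.cons (P.lf 0 2576819 0) (P.cons (P.lf 0 3109316 0) (P.cons (P.lf 0 1599799 0) (P.cons (P.lf 0 180071 0) (P.cons (P.lf 82565 0 0) P.nil)))))) (P.cons (P.cons (P.lf 4705791 0 0) (P.cons (P.lf 7051496 0 0) (P.cons (P.lf 2658240 0 0) (P.cons (P.lf 0 667681 0) (P.cons (P.lf 0 34465 0) P.nil))))) (P.cons (P.cons (P.lf 0 6637690 0) (P.cons (P.lf 732047 0 0) (P.cons (P.lf 286488 0 0) (P.cons (P.lf 0 60237 0) P.nil)))) (P.cons (P.cons (P.lf 0 77359 0) (P.cons (P.lf 18911 0 0) (P.cons (P.lf 7156 0 0) P.nil))) (P.cons (P.cons (P.lf 8630 0 0) (P.cons (P.lf 0 516 0) P.nil)) (P.cons (P.cons (P.lf 211 0 0) P.nil) P.nil)))))) 34033)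
 EL.nil)
noncomputable def S140_147_216_364_30 : EL := (EL.cons 13 (TM.mk (P.cons (P.lf 3040822628 0 0) (P.cons (P.lf 0 57810776 0) (P.cons (P.lf 0 1271812 0) (P.cons (P.lf 0 4504 0) (P.cons (P.lf 184 0 0) (P.cons (P.lf 0 0 0) P.nil)))))) 60)
 EL.nil)
noncomputable def S140_147_216_364_31 : EL := (EL.cons 13 (TM.mk (P.cons (P.cons (P.lf 0 42291175 0) (P.cons (P.lf 0 65588331 0) (P.cons (P.lf 0 28282428 0) (P.lf 3142488 0 0)))) (P.cons (P.cons (P.lf 120581524 0 0) (P.cons (P.lf 0 5029794 0) (P.cons (P.lf 0 2168901 0) (P.lf 240987 0 0)))) (P.cons (P.cons (P.lf 0 1592453 0) (P.cons (P.lf 0 31768 0) (P.cons (P.lf 0 13699 0) (P.lf 1520 0 0)))) (P.cons (P.cons (P.lf 0 142645 0) (P.cons (P.lf 6813 0 0) (P.cons (P.lf 2937 0 0) P.nil))) (P.cons (P.cons (P.lf 0 390 0) (P.cons (P.lf 188 0 0) P.nil)) (P.cons (P.cons (P.lf 83 0 0) P.nil) P.nil)))))) 920)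
 EL.nil)
noncomputable def S140_147_216_364_32 : EL := (EL.cons 13 (TM.mk (P.cons (P.cons (P.lf 588177 0 0) (P.cons (P.lf 1824379 0 0) (P.cons (P.lf 2201385 0 0) (P.cons (P.lf 1132652 0 0) (P.cons (P.lf 127489 0 0) (P.cons (P.lf 0 58455 0) P.nil)))))) (P.cons (P.cons (P.lf 0 3342866 0) (P.cons (P.lf 0 5027120 0) (P.cons (P.lf 0 1923876 0) (P.cons (P.lf 451182 0 0) (P.cons (P.lf 21977 0 0) P.nil))))) (P.cons (P.cons (P.lf 4762557 0 0) (P.cons (P.lf 0 424135 0) (P.cons (P.lf 0 167973 0) (P.cons (P.lf 33186 0 0) P.nil)))) (P.cons (P.cons (P.lf 0 33181 0) (P.cons (P.lf 0 1450 0) (P.cons (P.lf 0 426 0) P.nil))) (P.cons (P.cons (P.lf 0 9111 0) (P.cons (P.lf 844 0 0) P.nil)) (P.cons (P.cons (P.lf 0 63 0) P.nil) P.nil)))))) 27484)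
 EL.nil)
noncomputable def S140_147_216_364_33 : EL := (EL.cons 14 (TM.mk (P.lf 8589934592 0 0) 0)
 EL.nil)
noncomputable def S140_147_216_364_34 : EL := (EL.cons 14 (TM.mk (P.cons (P.cons (P.lf 0 119467156 0) (P.cons (P.lf 0 185278640 0) (P.cons (P.lf 0 79894240 0) (P.lf 8877128 0 0)))) (P.cons (P.cons (P.lf 338356112 0 0) (P.cons (P.lf 0 17730960 0) (P.cons (P.lf 0 7645784 0) (P.lf 849528 0 0)))) (P.cons (P.cons (P.lf 1884234 0 0) (P.cons (P.lf 0 504328 0) (P.cons (P.lf 0 217472 0) (P.lf 24160 0 0)))) (P.cons (P.cons (P.lf 0 225794 0) (P.cons (P.lf 1968 0 0) (P.cons (P.lf 848 0 0) P.nil))) (P.cons (P.cons (P.lf 0 4100 0) (P.cons (P.lf 344 0 0) P.nil)) (P.cons (P.cons (P.lf 46 0 0) P.nil) P.nil)))))) 1526)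
 EL.nil)
noncomputable def S140_147_216_364_35 : EL := (EL.cons 14 (TM.mk (P.cons (P.cons (P.lf 1661526 0 0) (P.cons (P.lf 5153638 0 0) (P.cons (P.lf 6218632 0 0) (P.cons (P.lf 3199598 0 0) (P.cons (P.lf 360142 0 0) (P.cons (P.lf 0 165130 0) P.nil)))))) (P.cons (P.cons (P.lf 0 9411582 0) (P.cons (P.lf 0 14102992 0) (P.cons (P.lf 0 5316480 0) (P.cons (P.lf 1335362 0 0) (P.cons (P.lf 68930 0 0) P.nil))))) (P.cons (P.cons (P.lf 13275380 0 0) (P.cons (P.lf 0 1464094 0) (P.cons (P.lf 0 572976 0) (P.cons (P.lf 120474 0 0) P.nil)))) (P.cons (P.cons (P.lf 154718 0 0) (P.cons (P.lf 0 37822 0) (P.cons (P.lf 0 14312 0) P.nil))) (P.cons (P.cons (P.lf 0 17260 0) (P.cons (P.lf 1032 0 0) P.nil)) (P.cons (P.cons (P.lf 0 422 0) P.nil) P.nil)))))) 68066)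
 EL.nil)
noncomputable def S140_147_216_364_36 : EL := (EL.cons 14 (TM.mk (P.cons (P.lf 0 6081645256 0) (P.cons (P.lf 115621552 0 0) (P.cons (P.lf 2543624 0 0) (P.cons (P.lf 9008 0 0) (P.cons (P.lf 0 368 0) (P.cons (P.lf 0 0 0) P.nil)))))) 120)
 EL.nil)
noncomputable def S140_147_216_364_37 : EL := (EL.cons 14 (TM.mk (P.cons (P.cons (P.lf 84582350 0 0) (P.cons (P.lf 131176662 0 0) (P.cons (P.lf 56564856 0 0) (P.lf 0 6284976 0)))) (P.cons (P.cons (P.lf 0 241163048 0) (P.cons (P.lf 10059588 0 0) (P.cons (P.lf 4337802 0 0) (P.lf 0 481974 0)))) (P.cons (P.cons (P.lf 3184906 0 0) (P.cons (P.lf 63536 0 0) (P.cons (P.lf 27398 0 0) (P.lf 0 3040 0)))) (P.cons (P.cons (P.lf 285290 0 0) (P.cons (P.lf 0 13626 0) (P.cons (P.lf 0 5874 0) P.nil))) (P.cons (P.cons (P.lf 780 0 0) (P.cons (P.lf 0 376 0) P.nil)) (P.cons (P.cons (P.lf 0 166 0) P.nil) P.nil)))))) 1840)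
 EL.nil)
noncomputable def S140_147_216_364_38 : EL := (EL.cons 14 (TM.mk (P.cons (P.cons (P.lf 0 1176354 0) (P.cons (P.lf 0 3648758 0) (P.cons (P.lf 0 4402770 0) (P.cons (P.lf 0 2265304 0) (P.cons (P.lf 0 254978 0) (P.cons (P.lf 116910 0 0) P.nil)))))) (P.cons (P.cons (P.lf 6685732 0 0) (P.cons (P.lf 10054240 0 0) (P.cons (P.lf 3847752 0 0) (P.cons (P.lf 0 902364 0) (P.cons (P.lf 0 43954 0) P.nil))))) (P.cons (P.cons (P.lf 0 9525114 0) (P.cons (P.lf 848270 0 0) (P.cons (P.lf 335946 0 0) (P.cons (P.lf 0 66372 0) P.nil)))) (P.cons (P.cons (P.lf 66362 0 0) (P.cons (P.lf 2900 0 0) (P.cons (P.lf 852 0 0) P.nil))) (P.cons (P.cons (P.lf 18222 0 0) (P.cons (P.lf 0 1688 0) P.nil)) (P.cons (P.cons (P.lf 126 0 0) P.nil) P.nil)))))) 54968)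
 EL.nil)
noncomputable def S140_147_216_364_39 : EL := (EL.cons 14 (TM.mk (P.cons (P.lf 4305784708 0 0) (P.cons (P.lf 0 163719352 0) (P.cons (P.lf 0 2045474 0) (P.cons (P.lf 55718 0 0) (P.cons (P.lf 1516 0 0) (P.cons (P.lf 0 4 0) P.nil)))))) 186)
 EL.nil)
noncomputable def S140_147_216_364_40 : EL := (EL.cons 14 (TM.mk (P.cons (P.cons (P.lf 0 59884024 0) (P.cons (P.lf 0 92872642 0) (P.cons (P.lf 0 40047730 0) (P.lf 4449742 0 0)))) (P.cons (P.cons (P.lf 171881128 0 0) (P.cons (P.lf 0 5356500 0) (P.cons (P.lf 0 2309780 0) (P.lf 256640 0 0)))) (P.cons (P.cons (P.lf 0 5475940 0) (P.cons (P.lf 129262 0 0) (P.cons (P.lf 55738 0 0) (P.lf 0 6194 0)))) (P.cons (P.cons (P.lf 0 230438 0) (P.cons (P.lf 13618 0 0) (P.cons (P.lf 5872 0 0) P.nil))) (P.cons (P.cons (P.lf 3972 0 0) (P.cons (P.lf 106 0 0) P.nil)) (P.cons (P.cons (P.lf 226 0 0) P.nil) P.nil)))))) 1734)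
 EL.nil)
noncomputable def S140_147_216_364_41 : EL := (EL.cons 14 (TM.mk (P.cons (P.cons (P.lf 832854 0 0) (P.cons (P.lf 2583308 0 0) (P.cons (P.lf 3117146 0 0) (P.cons (P.lf 1603828 0 0) (P.cons (P.lf 180524 0 0) (P.cons (P.lf 0 82772 0) P.nil)))))) (P.cons (P.cons (P.lf 0 4749310 0) (P.cons (P.lf 0 7167480 0) (P.cons (P.lf 0 2783458 0) (P.cons (P.lf 608380 0 0) (P.cons (P.lf 27686 0 0) P.nil))))) (P.cons (P.cons (P.lf 6833390 0 0) (P.cons (P.lf 0 466322 0) (P.cons (P.lf 0 187360 0) (P.cons (P.lf 34174 0 0) P.nil)))) (P.cons (P.cons (P.lf 0 173214 0) (P.cons (P.lf 12336 0 0) (P.cons (P.lf 5052 0 0) P.nil))) (P.cons (P.cons (P.lf 0 14822 0) (P.cons (P.lf 1496 0 0) P.nil)) (P.cons (P.cons (P.lf 164 0 0) P.nil) P.nil)))))) 43268)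
 EL.nil)
noncomputable def S140_147_216_364_42 : EL := (EL.cons 14 (TM.mk (P.cons (P.lf 0 3048481318 0) (P.cons (P.lf 173869138 0 0) (P.cons (P.lf 519520 0 0) (P.cons (P.lf 0 110944 0) (P.cons (P.lf 0 1284 0) (P.cons (P.lf 44 0 0) P.nil)))))) 210)
 EL.nil)
noncomputable def S140_147_216_364_43 : EL := (EL.cons 14 (TM.mk (P.cons (P.cons (P.lf 42397690 0 0) (P.cons (P.lf 65753524 0 0) (P.cons (P.lf 28353660 0 0) (P.lf 0 3150402 0)))) (P.cons (P.cons (P.lf 0 122497316 0) (P.cons (P.lf 2542308 0 0) (P.cons (P.lf 1096268 0 0) (P.lf 0 121806 0)))) (P.cons (P.cons (P.lf 6172754 0 0) (P.cons (P.lf 0 191116 0) (P.cons (P.lf 0 82410 0) (P.lf 9158 0 0)))) (P.cons (P.cons (P.lf 140276 0 0) (P.cons (P.lf 0 9584 0) (P.cons (P.lf 0 4132 0) P.nil))) (P.cons (P.cons (P.lf 0 7352 0) (P.cons (P.lf 142 0 0) P.nil)) (P.cons (P.cons (P.lf 0 188 0) P.nil) P.nil)))))) 1466)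
 EL.nil)
noncomputable def S140_147_216_364_44 : EL := (EL.cons 14 (TM.mk (P.cons (P.cons (P.lf 0 589658 0) (P.cons (P.lf 0 1828974 0) (P.cons (P.lf 0 2206928 0) (P.cons (P.lf 0 1135504 0) (P.cons (P.lf 0 127810 0) (P.cons (P.lf 58602 0 0) P.nil)))))) (P.cons (P.cons (P.lf 3373706 0 0) (P.cons (P.lf 5109324 0 0) (P.cons (P.lf 2012636 0 0) (P.cons (P.lf 0 409142 0) (P.cons (P.lf 0 17172 0) P.nil))))) (P.cons (P.cons (P.lf 0 4901698 0) (P.cons (P.lf 234444 0 0) (P.cons (P.lf 96108 0 0) (P.cons (P.lf 0 15532 0) P.nil)))) (P.cons (P.cons (P.lf 213208 0 0) (P.cons (P.lf 0 17130 0) (P.cons (P.lf 0 6920 0) P.nil))) (P.cons (P.cons (P.lf 10180 0 0) (P.cons (P.lf 0 1038 0) P.nil)) (P.cons (P.cons (P.lf 0 360 0) P.nil) P.nil)))))) 33414)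
 EL.nil)
noncomputable def S140_147_216_364_45 : EL := (EL.cons 14 (TM.mk (P.cons (P.cons (P.lf 0 23108 0) (P.cons (P.lf 0 107512 0) (P.cons (P.lf 0 213100 0) (P.cons (P.lf 0 224846 0) (P.cons (P.lf 0 126534 0) (P.cons (P.lf 0 28804 0) P.nil)))))) (P.cons (P.cons (P.lf 196340 0 0) (P.cons (P.lf 598712 0 0) (P.cons (P.lf 698502 0 0) (P.cons (P.lf 326316 0 0) (P.cons (P.lf 7668 0 0) P.nil))))) (P.cons (P.cons (P.lf 0 554986 0) (P.cons (P.lf 0 801032 0) (P.cons (P.lf 0 254832 0) (P.cons (P.lf 113426 0 0) P.nil)))) (P.cons (P.cons (P.lf 518654 0 0) (P.cons (P.lf 0 90560 0) (P.cons (P.lf 0 32048 0) P.nil))) (P.cons (P.cons (P.lf 9492 0 0) (P.cons (P.lf 0 2184 0) P.nil)) (P.cons (P.cons (P.lf 0 984 0) P.nil) P.nil)))))) 91610)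
 EL.nil)
noncomputable def S140_147_216_364_46 : EL := (EL.cons 15 (TM.mk (P.lf 4294967296 0 0) 0)
 EL.nil)
noncomputable def S140_147_216_364_47 : EL := (EL.cons 15 (TM.mk (P.cons (P.cons (P.lf 0 59733578 0) (P.cons (P.lf 0 92639320 0) (P.cons (P.lf 0 39947120 0) (P.lf 4438564 0 0)))) (P.cons (P.cons (P.lf 169178056 0 0) (P.cons (P.lf 0 8865480 0) (P.cons (P.lf 0 3822892 0) (P.lf 424764 0 0)))) (P.cons (P.cons (P.lf 942117 0 0) (P.cons (P.lf 0 252164 0) (P.cons (P.lf 0 108736 0) (P.lf 12080 0 0)))) (P.cons (P.cons (P.lf 0 112897 0) (P.cons (P.lf 984 0 0) (P.cons (P.lf 424 0 0) P.nil))) (P.cons (P.cons (P.lf 0 2050 0) (P.cons (P.lf 172 0 0) P.nil)) (P.cons (P.cons (P.lf 23 0 0) P.nil) P.nil)))))) 763)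
 EL.nil)
noncomputable def S140_147_216_364_48 : EL := (EL.cons 15 (TM.mk (P.cons (P.cons (P.lf 830763 0 0) (P.cons (P.lf 2576819 0 0) (P.cons (P.lf 3109316 0 0) (P.cons (P.lf 1599799 0 0) (P.cons (P.lf 180071 0 0) (P.cons (P.lf 0 82565 0) P.nil)))))) (P.cons (P.cons (P.lf 0 4705791 0) (P.cons (P.lf 0 7051496 0) (P.cons (P.lf 0 2658240 0) (P.cons (P.lf 667681 0 0) (P.cons (P.lf 34465 0 0) P.nil))))) (P.cons (P.cons (P.lf 6637690 0 0) (P.cons (P.lf 0 732047 0) (P.cons (P.lf 0 286488 0) (P.cons (P.lf 60237 0 0) P.nil)))) (P.cons (P.cons (P.lf 77359 0 0) (P.cons (P.lf 0 18911 0) (P.cons (P.lf 0 7156 0) P.nil))) (P.cons (P.cons (P.lf 0 8630 0) (P.cons (P.lf 516 0 0) P.nil)) (P.cons (P.cons (P.lf 0 211 0) P.nil) P.nil)))))) 34033)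
 EL.nil)
noncomputable def S140_147_216_364 : SL := (SL.cons S140_147_216_364_0 (SL.cons S140_147_216_364_1 (SL.cons S140_147_216_364_2 (SL.cons S140_147_216_364_3 (SL.cons S140_147_216_364_4 (SL.cons S140_147_216_364_5 (SL.cons S140_147_216_364_6 (SL.cons S140_147_216_364_7 (SL.cons S140_147_216_364_8 (SL.cons S140_147_216_364_9 (SL.cons S140_147_216_364_10 (SL.cons S140_147_216_364_11 (SL.cons S140_147_216_364_12 (SL.cons S140_147_216_364_13 (SL.cons S140_147_216_364_14 (SL.cons S140_147_216_364_15 (SL.cons S140_147_216_364_16 (SL.cons S140_147_216_364_17 (SL.cons S140_147_216_364_18 (SL.cons S140_147_216_364_19 (SL.cons S140_147_216_364_20 (SL.cons S140_147_216_364_21 (SL.cons S140_147_216_364_22 (SL.cons S140_147_216_364_23 (SL.cons S140_147_216_364_24 (SL.cons S140_147_216_364_25 (SL.cons S140_147_216_364_26 (SL.cons S140_147_216_364_27 (SL.cons S140_147_216_364_28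 (SL.cons S140_147_216_364_29 (SL.cons S140_147_216_364_30 (SL.cons S140_147_216_364_31 (SL.cons S140_147_216_364_32 (SL.cons S140_147_216_364_33 (SL.cons S140_147_216_364_34 (SL.cons S140_147_216_364_35 (SL.cons S140_147_216_364_36 (SL.cons S140_147_216_364_37 (SL.cons S140_147_216_364_38 (SL.cons S140_147_216_364_39 (SL.cons S140_147_216_364_40 (SL.cons S140_147_216_364_41 (SL.cons S140_147_216_364_42 (SL.cons S140_147_216_364_43 (SL.cons S140_147_216_364_44 (SL.cons S140_147_216_364_45 (SL.cons S140_147_216_364_46 (SL.cons S140_147_216_364_47 (SL.cons S140_147_216_364_48 SL.nil)))))))))))))))))))))))))))))))))))))))))))))))))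
noncomputable def S140_154_216_290_0 : EL := (EL.cons 0 (TM.mk (P.cons (P.lf 4816977213 0 0) (P.cons (P.lf 294674568 0 0) (P.cons (P.lf 6571395 0 0) (P.cons (P.lf 0 434682 0) (P.cons (P.lf 0 21573 0) (P.cons (P.lf 0 42 0) P.nil)))))) 205)
 (EL.cons 1 (TM.mk (P.cons (P.lf 0 1762505823 0) (P.cons (P.lf 0 36787346 0) (P.cons (P.lf 8322086 0 0) (P.cons (P.lf 271203 0 0) (P.cons (P.lf 0 4801 0) (P.cons (P.lf 0 468 0) P.nil)))))) 132)
 (EL.cons 5 (TM.mk (P.cons (P.lf 5588741396 0 0) (P.cons (P.lf 0 104773178 0) (P.cons (P.lf 0 2336498 0) (P.cons (P.lf 154550 0 0) (P.cons (P.lf 7670 0 0) (P.cons (P.lf 18 0 0) P.nil)))))) 87)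
 (EL.cons 9 (TM.mk (P.lf 6442450944 0 0) 2)
 EL.nil))))
noncomputable def S140_154_216_290_1 : EL := (EL.cons 0 (TM.mk (P.cons (P.cons (P.lf 0 4646074169 0) (P.cons (P.lf 38499373 0 0) (P.cons (P.lf 18174054 0 0) (P.lf 0 865420 0)))) (P.cons (P.cons (P.lf 339160334 0 0) (P.cons (P.lf 0 352774 0) (P.cons (P.lf 0 166531 0) (P.lf 7937 0 0)))) (P.cons (P.cons (P.lf 89172910 0 0) (P.cons (P.lf 0 1160076 0) (P.cons (P.lf 0 547628 0) (P.lf 26085 0 0)))) (P.cons (P.cons (P.lf 1736195 0 0) (P.cons (P.lf 0 97330 0) (P.cons (P.lf 0 45941 0) P.nil))) (P.cons (P.cons (P.lf 0 391407 0) (P.cons (P.lf 823 0 0) P.nil)) (P.cons (P.cons (P.lf 0 20462 0) P.nil) P.nil)))))) 14656)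
 (EL.cons 1 (TM.mk (P.cons (P.cons (P.lf 539582006 0 0) (P.cons (P.lf 2523084 0 0) (P.cons (P.lf 1191041 0 0) (P.lf 0 56708 0)))) (P.cons (P.cons (P.lf 0 435307161 0) (P.cons (P.lf 5668935 0 0) (P.cons (P.lf 2676084 0 0) (P.lf 0 127429 0)))) (P.cons (P.cons (P.lf 0 12722561 0) (P.cons (P.lf 560927 0 0) (P.cons (P.lf 264786 0 0) (P.lf 0 12599 0)))) (P.cons (P.cons (P.lf 3722080 0 0) (P.cons (P.lf 0 20936 0) (P.cons (P.lf 0 9880 0) P.nil))) (P.cons (P.cons (P.lf 171283 0 0) (P.cons (P.lf 0 4353 0) P.nil)) (P.cons (P.cons (P.lf 0 8540 0) P.nil) P.nil)))))) 7385)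
 (EL.cons 5 (TM.mk (P.cons (P.cons (P.lf 1906207489 0 0) (P.cons (P.lf 0 59776548 0) (P.cons (P.lf 0 28218188 0) (P.lf 1343720 0 0)))) (P.cons (P.cons (P.lf 472141093 0 0) (P.cons (P.lf 0 8358906 0) (P.cons (P.lf 0 3945918 0) (P.lf 187902 0 0)))) (P.cons (P.cons (P.lf 0 27033368 0) (P.cons (P.lf 0 37052 0) (P.cons (P.lf 0 17490 0) (P.lf 834 0 0)))) (P.cons (P.cons (P.lf 0 2270428 0) (P.cons (P.lf 40832 0 0) (P.cons (P.lf 19272 0 0) P.nil))) (P.cons (P.cons (P.lf 84619 0 0) (P.cons (P.lf 1084 0 0) P.nil)) (P.cons (P.cons (P.lf 8778 0 0) P.nil) P.nil)))))) 6094)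
 (EL.cons 9 (TM.mk (P.cons (P.cons (P.lf 224355889 0 0) (P.cons (P.lf 0 40665774 0) (P.cons (P.lf 0 19196730 0) (P.lf 914124 0 0)))) (P.cons (P.cons (P.lf 522998313 0 0) (P.cons (P.lf 0 7486176 0) (P.cons (P.lf 0 3533934 0) (P.lf 168282 0 0)))) (P.cons (P.cons (P.lf 4122841 0 0) (P.cons (P.lf 0 396630 0) (P.cons (P.lf 0 187230 0) (P.lf 8910 0 0)))) (P.cons (P.cons (P.lf 0 1458622 0) (P.cons (P.lf 5496 0 0) (P.cons (P.lf 2592 0 0) P.nil))) (P.cons (P.cons (P.lf 0 48123 0) (P.cons (P.lf 1206 0 0) P.nil)) (P.cons (P.cons (P.lf 1330 0 0) P.nil) P.nil)))))) 1870)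
 (EL.cons 2 (TM.mk (P.cons (P.cons (P.lf 168853244 0 0) (P.cons (P.lf 166496419 0 0) (P.cons (P.lf 0 5209830 0) (P.cons (P.lf 0 954680 0) (P.lf 34093 0 0))))) (P.cons (P.cons (P.lf 13885756 0 0) (P.cons (P.lf 13691941 0 0) (P.cons (P.lf 0 428430 0) (P.cons (P.lf 0 78508 0) (P.lf 2801 0 0))))) (P.cons (P.cons (P.lf 0 667856 0) (P.cons (P.lf 0 658532 0) (P.cons (P.lf 20607 0 0) (P.cons (P.lf 3774 0 0) P.nil)))) (P.cons (P.cons (P.lf 0 86670 0) (P.cons (P.lf 0 85460 0) (P.cons (P.lf 2671 0 0) P.nil))) (P.cons (P.cons (P.lf 0 1099 0) (P.cons (P.lf 0 1085 0) P.nil)) (P.cons (P.cons (P.lf 135 0 0) P.nil) P.nil)))))) 1323)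
 (EL.cons 6 (TM.mk (P.cons (P.cons (P.lf 81787887 0 0) (P.cons (P.lf 80646303 0 0) (P.cons (P.lf 0 2523498 0) (P.cons (P.lf 0 462420 0) (P.lf 16512 0 0))))) (P.cons (P.cons (P.lf 15056367 0 0) (P.cons (P.lf 14846211 0 0) (P.cons (P.lf 0 464550 0) (P.cons (P.lf 0 85125 0) (P.lf 3039 0 0))))) (P.cons (P.cons (P.lf 797718 0 0) (P.cons (P.lf 786585 0 0) (P.cons (P.lf 0 24612 0) (P.cons (P.lf 0 4509 0) P.nil)))) (P.cons (P.cons (P.lf 0 11052 0) (P.cons (P.lf 0 10899 0) (P.cons (P.lf 339 0 0) P.nil))) (P.cons (P.cons (P.lf 0 2430 0) (P.cons (P.lf 0 2397 0) P.nil)) (P.cons (P.cons (P.lf 0 57 0) P.nil) P.nil)))))) 696)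
 EL.nil))))))
noncomputable def S140_154_216_290_2 : EL := (EL.cons 0 (TM.mk (P.cons (P.cons (P.lf 0 329437307 0) (P.cons (P.lf 63452678 0 0) (P.cons (P.lf 29275585 0 0) (P.cons (P.lf 0 2066407 0) (P.cons (P.lf 0 120592 0) (P.cons (P.lf 14388 0 0) P.nil)))))) (P.cons (P.cons (P.lf 0 758307713 0) (P.cons (P.lf 18198104 0 0) (P.cons (P.lf 8423187 0 0) (P.cons (P.lf 0 567130 0) (P.cons (P.lf 0 29779 0) P.nil))))) (P.cons (P.cons (P.lf 21696787 0 0) (P.cons (P.lf 0 133605 0) (P.cons (P.lf 0 67183 0) (P.cons (P.lf 0 859 0) P.nil)))) (P.cons (P.cons (P.lf 14720688 0 0) (P.cons (P.lf 0 384276 0) (P.cons (P.lf 0 178709 0) P.nil))) (P.cons (P.cons (P.lf 395103 0 0) (P.cons (P.lf 0 28860 0) P.nil)) (P.cons (P.cons (P.lf 0 89646 0) P.nil) P.nil)))))) 81485)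
 (EL.cons 1 (TM.mk (P.cons (P.cons (P.lf 39718959 0 0) (P.cons (P.lf 0 7410986 0) (P.cons (P.lf 0 3460070 0) (P.cons (P.lf 202818 0 0) (P.cons (P.lf 6830 0 0) (P.cons (P.lf 0 819 0) P.nil)))))) (P.cons (P.cons (P.lf 67297792 0 0) (P.cons (P.lf 3080833 0 0) (P.cons (P.lf 1404226 0 0) (P.cons (P.lf 0 116560 0) (P.cons (P.lf 0 8907 0) P.nil))))) (P.cons (P.cons (P.lf 0 58980264 0) (P.cons (P.lf 1677201 0 0) (P.cons (P.lf 775123 0 0) (P.cons (P.lf 0 53374 0) P.nil)))) (P.cons (P.cons (P.lf 0 2255846 0) (P.cons (P.lf 119658 0 0) (P.cons (P.lf 54929 0 0) P.nil))) (P.cons (P.cons (P.lf 670524 0 0) (P.cons (P.lf 0 12495 0) P.nil)) (P.cons (P.cons (P.lf 37973 0 0) P.nil) P.nil)))))) 39454)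
 (EL.cons 5 (TM.mk (P.cons (P.cons (P.lf 125988121 0 0) (P.cons (P.lf 0 25770929 0) (P.cons (P.lf 0 11633486 0) (P.cons (P.lf 1081535 0 0) (P.cons (P.lf 94618 0 0) (P.cons (P.lf 0 11278 0) P.nil)))))) (P.cons (P.cons (P.lf 310903812 0 0) (P.cons (P.lf 0 14544186 0) (P.cons (P.lf 0 6699108 0) (P.cons (P.lf 484260 0 0) (P.cons (P.lf 29634 0 0) P.nil))))) (P.cons (P.cons (P.lf 40728976 0 0) (P.cons (P.lf 0 1420314 0) (P.cons (P.lf 0 653473 0) (P.cons (P.lf 47962 0 0) P.nil)))) (P.cons (P.cons (P.lf 0 4590516 0) (P.cons (P.lf 74085 0 0) (P.cons (P.lf 34980 0 0) P.nil))) (P.cons (P.cons (P.lf 0 409684 0) (P.cons (P.lf 15313 0 0) P.nil)) (P.cons (P.cons (P.lf 21007 0 0) P.nil) P.nil)))))) 39940)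
 (EL.cons 9 (TM.mk (P.cons (P.cons (P.lf 7813107 0 0) (P.cons (P.lf 0 2832339 0) (P.cons (P.lf 0 1080348 0) (P.cons (P.lf 306013 0 0) (P.cons (P.lf 45660 0 0) (P.cons (P.lf 0 5446 0) P.nil)))))) (P.cons (P.cons (P.lf 36426432 0 0) (P.cons (P.lf 0 7123902 0) (P.cons (P.lf 0 3268408 0) (P.cons (P.lf 249364 0 0) (P.cons (P.lf 16810 0 0) P.nil))))) (P.cons (P.cons (P.lf 42744166 0 0) (P.cons (P.lf 0 1295128 0) (P.cons (P.lf 0 597673 0) (P.cons (P.lf 42052 0 0) P.nil)))) (P.cons (P.cons (P.lf 567792 0 0) (P.cons (P.lf 0 55180 0) (P.cons (P.lf 0 25195 0) P.nil))) (P.cons (P.cons (P.lf 0 237534 0) (P.cons (P.lf 4465 0 0) P.nil)) (P.cons (P.cons (P.lf 0 9586 0) P.nil) P.nil)))))) 14054)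
 (EL.cons 2 (TM.mk (P.cons (P.cons (P.lf 11760496 0 0) (P.cons (P.lf 9464686 0 0) (P.cons (P.lf 0 3471035 0) (P.cons (P.lf 0 945028 0) (P.cons (P.lf 92722 0 0) (P.cons (P.lf 3780 0 0) P.nil)))))) (P.cons (P.cons (P.lf 28382152 0 0) (P.cons (P.lf 27418280 0 0) (P.cons (P.lf 0 1703491 0) (P.cons (P.lf 0 394447 0) (P.cons (P.lf 29790 0 0) P.nil))))) (P.cons (P.cons (P.lf 2424088 0 0) (P.cons (P.lf 2345625 0 0) (P.cons (P.lf 0 139865 0) (P.cons (P.lf 0 32096 0) P.nil)))) (P.cons (P.cons (P.lf 0 173154 0) (P.cons (P.lf 0 169515 0) (P.cons (P.lf 7126 0 0) P.nil))) (P.cons (P.cons (P.lf 0 23810 0) (P.cons (P.lf 0 23096 0) P.nil)) (P.cons (P.cons (P.lf 0 112 0) P.nil) P.nil)))))) 12633)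
 (EL.cons 6 (TM.mk (P.cons (P.cons (P.lf 5696460 0 0) (P.cons (P.lf 4584432 0 0) (P.cons (P.lf 0 1681272 0) (P.cons (P.lf 0 457746 0) (P.cons (P.lf 44910 0 0) (P.cons (P.lf 1830 0 0) P.nil)))))) (P.cons (P.cons (P.lf 14327748 0 0) (P.cons (P.lf 13747608 0 0) (P.cons (P.lf 0 996366 0) (P.cons (P.lf 0 237678 0) (P.cons (P.lf 19002 0 0) P.nil))))) (P.cons (P.cons (P.lf 2604792 0 0) (P.cons (P.lf 2513298 0 0) (P.cons (P.lf 0 160752 0) (P.cons (P.lf 0 37446 0) P.nil)))) (P.cons (P.cons (P.lf 110982 0 0) (P.cons (P.lf 106002 0 0) (P.cons (P.lf 0 8418 0) P.nil))) (P.cons (P.cons (P.lf 0 8982 0) (P.cons (P.lf 0 8838 0) P.nil)) (P.cons (P.cons (P.lf 0 960 0) P.nil) P.nil)))))) 10560)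
 EL.nil))))))
noncomputable def S140_154_216_290_3 : EL := (EL.cons 0 (TM.mk (P.cons (P.lf 3638739650 0 0) (P.cons (P.lf 0 294674568 0) (P.cons (P.lf 0 6571395 0) (P.cons (P.lf 434682 0 0) (P.cons (P.lf 21573 0 0) (P.cons (P.lf 42 0 0) P.nil)))))) 205)
 (EL.cons 1 (TM.mk (P.cons (P.lf 1762505823 0 0) (P.cons (P.lf 36787346 0 0) (P.cons (P.lf 0 8322086 0) (P.cons (P.lf 0 271203 0) (P.cons (P.lf 4801 0 0) (P.cons (P.lf 468 0 0) P.nil)))))) 132)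
 (EL.cons 5 (TM.mk (P.cons (P.lf 853709548 0 0) (P.cons (P.lf 104773178 0 0) (P.cons (P.lf 2336498 0 0) (P.cons (P.lf 0 154550 0) (P.cons (P.lf 0 7670 0) (P.cons (P.lf 0 18 0) P.nil)))))) 80)
 EL.nil)))
noncomputable def S140_154_216_290_4 : EL := (EL.cons 0 (TM.mk (P.cons (P.cons (P.lf 126717714 0 0) (P.cons (P.lf 0 22968302 0) (P.cons (P.lf 0 10842440 0) (P.lf 516302 0 0)))) (P.cons (P.cons (P.lf 285131037 0 0) (P.cons (P.lf 0 2368209 0) (P.cons (P.lf 0 1117940 0) (P.lf 53233 0 0)))) (P.cons (P.cons (P.lf 0 21821925 0) (P.cons (P.lf 159873 0 0) (P.cons (P.lf 75471 0 0) (P.lf 0 3596 0)))) (P.cons (P.cons (P.lf 0 1530743 0) (P.cons (P.lf 26136 0 0) (P.cons (P.lf 12336 0 0) P.nil))) (P.cons (P.cons (P.lf 71368 0 0) (P.cons (P.lf 191 0 0) P.nil)) (P.cons (P.cons (P.lf 6470 0 0) P.nil) P.nil)))))) 2866)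
 (EL.cons 1 (TM.mk (P.cons (P.cons (P.lf 61378590 0 0) (P.cons (P.lf 0 11125215 0) (P.cons (P.lf 0 5251781 0) (P.lf 250081 0 0)))) (P.cons (P.cons (P.lf 144361366 0 0) (P.cons (P.lf 0 2280251 0) (P.cons (P.lf 0 1076416 0) (P.lf 51256 0 0)))) (P.cons (P.cons (P.lf 3824497 0 0) (P.cons (P.lf 0 98724 0) (P.cons (P.lf 0 46603 0) (P.lf 2216 0 0)))) (P.cons (P.cons (P.lf 0 1060533 0) (P.cons (P.lf 10620 0 0) (P.cons (P.lf 5011 0 0) P.nil))) (P.cons (P.cons (P.lf 0 48667 0) (P.cons (P.lf 1156 0 0) P.nil)) (P.cons (P.cons (P.lf 2205 0 0) P.nil) P.nil)))))) 1620)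
 (EL.cons 5 (TM.mk (P.cons (P.cons (P.lf 29730108 0 0) (P.cons (P.lf 0 5388750 0) (P.cons (P.lf 0 2543818 0) (P.lf 121132 0 0)))) (P.cons (P.cons (P.lf 72952844 0 0) (P.cons (P.lf 0 1653360 0) (P.cons (P.lf 0 780486 0) (P.lf 37164 0 0)))) (P.cons (P.cons (P.lf 9133186 0 0) (P.cons (P.lf 0 189052 0) (P.cons (P.lf 0 89244 0) (P.lf 4248 0 0)))) (P.cons (P.cons (P.lf 58056 0 0) (P.cons (P.lf 0 7460 0) (P.cons (P.lf 0 3522 0) P.nil))) (P.cons (P.cons (P.lf 0 41416 0) (P.cons (P.lf 332 0 0) P.nil)) (P.cons (P.cons (P.lf 0 1856 0) P.nil) P.nil)))))) 918)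
 EL.nil)))
noncomputable def S140_154_216_290_5 : EL := (EL.cons 0 (TM.mk (P.cons (P.cons (P.lf 4412895 0 0) (P.cons (P.lf 0 1599723 0) (P.cons (P.lf 0 610187 0) (P.cons (P.lf 172836 0 0) (P.cons (P.lf 25788 0 0) (P.cons (P.lf 0 3076 0) P.nil)))))) (P.cons (P.cons (P.lf 20216525 0 0) (P.cons (P.lf 0 3894076 0) (P.cons (P.lf 0 1796603 0) (P.cons (P.lf 126845 0 0) (P.cons (P.lf 7405 0 0) P.nil))))) (P.cons (P.cons (P.lf 22468095 0 0) (P.cons (P.lf 0 402764 0) (P.cons (P.lf 0 186971 0) (P.cons (P.lf 12032 0 0) P.nil)))) (P.cons (P.cons (P.lf 0 1671032 0) (P.cons (P.lf 35147 0 0) (P.cons (P.lf 16366 0 0) P.nil))) (P.cons (P.cons (P.lf 0 201246 0) (P.cons (P.lf 5876 0 0) P.nil)) (P.cons (P.cons (P.lf 7876 0 0) P.nil) P.nil)))))) 15344)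
 (EL.cons 1 (TM.mk (P.cons (P.cons (P.lf 2137485 0 0) (P.cons (P.lf 0 774860 0) (P.cons (P.lf 0 295556 0) (P.cons (P.lf 83716 0 0) (P.cons (P.lf 12489 0 0) (P.cons (P.lf 0 1488 0) P.nil)))))) (P.cons (P.cons (P.lf 10010043 0 0) (P.cons (P.lf 0 1965106 0) (P.cons (P.lf 0 900328 0) (P.cons (P.lf 69965 0 0) (P.cons (P.lf 4858 0 0) P.nil))))) (P.cons (P.cons (P.lf 11891724 0 0) (P.cons (P.lf 0 391336 0) (P.cons (P.lf 0 180776 0) (P.cons (P.lf 12532 0 0) P.nil)))) (P.cons (P.cons (P.lf 352027 0 0) (P.cons (P.lf 0 13170 0) (P.cons (P.lf 0 6037 0) P.nil))) (P.cons (P.cons (P.lf 0 118483 0) (P.cons (P.lf 2876 0 0) P.nil)) (P.cons (P.cons (P.lf 0 6483 0) P.nil) P.nil)))))) 7640)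
 (EL.cons 5 (TM.mk (P.cons (P.cons (P.lf 1035338 0 0) (P.cons (P.lf 0 375322 0) (P.cons (P.lf 0 143158 0) (P.cons (P.lf 40550 0 0) (P.cons (P.lf 6050 0 0) (P.cons (P.lf 0 720 0) P.nil)))))) (P.cons (P.cons (P.lf 4954044 0 0) (P.cons (P.lf 0 990072 0) (P.cons (P.lf 0 450676 0) (P.cons (P.lf 38020 0 0) (P.cons (P.lf 2968 0 0) P.nil))))) (P.cons (P.cons (P.lf 6259398 0 0) (P.cons (P.lf 0 288502 0) (P.cons (P.lf 0 132744 0) (P.cons (P.lf 9738 0 0) P.nil)))) (P.cons (P.cons (P.lf 783408 0 0) (P.cons (P.lf 0 30890 0) (P.cons (P.lf 0 14216 0) P.nil))) (P.cons (P.cons (P.lf 0 7622 0) (P.cons (P.lf 0 600 0) P.nil)) (P.cons (P.cons (P.lf 0 5994 0) P.nil) P.nil)))))) 4802)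
 EL.nil)))
noncomputable def S140_154_216_290_6 : EL := (EL.cons 12 (TM.mk (P.lf 8589934592 0 0) 0)
 (EL.cons 3 (TM.mk (P.cons (P.lf 0 2795377237 0) (P.cons (P.lf 113188447 0 0) (P.cons (P.lf 4815735 0 0) (P.cons (P.lf 28027 0 0) (P.cons (P.lf 0 3003 0) (P.cons (P.lf 0 90 0) P.nil)))))) 67)
 (EL.cons 7 (TM.mk (P.cons (P.lf 0 1354004171 0) (P.cons (P.lf 0 83086409 0) (P.cons (P.lf 696363 0 0) (P.cons (P.lf 79830 0 0) (P.cons (P.lf 1364 0 0) (P.cons (P.lf 0 28 0) P.nil)))))) 46)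
 EL.nil)))
noncomputable def S140_154_216_290_7 : EL := (EL.cons 12 (TM.mk (P.cons (P.cons (P.lf 299141186 0 0) (P.cons (P.lf 0 54221032 0) (P.cons (P.lf 0 25595640 0) (P.lf 1218832 0 0)))) (P.cons (P.cons (P.lf 697331084 0 0) (P.cons (P.lf 0 9981568 0) (P.cons (P.lf 0 4711912 0) (P.lf 224376 0 0)))) (P.cons (P.cons (P.lf 5497122 0 0) (P.cons (P.lf 0 528840 0) (P.cons (P.lf 0 249640 0) (P.lf 11880 0 0)))) (P.cons (P.cons (P.lf 0 1944830 0) (P.cons (P.lf 7328 0 0) (P.cons (P.lf 3456 0 0) P.nil))) (P.cons (P.cons (P.lf 0 64164 0) (P.cons (P.lf 1608 0 0) P.nil)) (P.cons (P.cons (P.lf 1774 0 0) P.nil) P.nil)))))) 2468)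
 (EL.cons 3 (TM.mk (P.cons (P.cons (P.lf 3600760224 0 0) (P.cons (P.lf 0 35289728 0) (P.cons (P.lf 0 16658908 0) (P.lf 793274 0 0)))) (P.cons (P.cons (P.lf 0 25505226 0) (P.cons (P.lf 0 5067570 0) (P.cons (P.lf 0 2392202 0) (P.lf 113912 0 0)))) (P.cons (P.cons (P.lf 0 25649127 0) (P.cons (P.lf 0 20346 0) (P.cons (P.lf 0 9600 0) (P.lf 450 0 0)))) (P.cons (P.cons (P.lf 0 1499006 0) (P.cons (P.lf 30250 0 0) (P.cons (P.lf 14278 0 0) P.nil))) (P.cons (P.cons (P.lf 33503 0 0) (P.cons (P.lf 1470 0 0) P.nil)) (P.cons (P.cons (P.lf 5551 0 0) P.nil) P.nil)))))) 6342)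
 (EL.cons 7 (TM.mk (P.cons (P.cons (P.lf 0 2761763031 0) (P.cons (P.lf 47403532 0 0) (P.cons (P.lf 22377372 0 0) (P.lf 0 1065591 0)))) (P.cons (P.cons (P.lf 18722199 0 0) (P.cons (P.lf 3719875 0 0) (P.cons (P.lf 1756009 0 0) (P.lf 0 83621 0)))) (P.cons (P.cons (P.lf 17874371 0 0) (P.cons (P.lf 0 174500 0) (P.cons (P.lf 0 82374 0) (P.lf 3922 0 0)))) (P.cons (P.cons (P.lf 0 146648 0) (P.cons (P.lf 0 16970 0) (P.cons (P.lf 0 8011 0) P.nil))) (P.cons (P.cons (P.lf 0 62648 0) (P.cons (P.lf 357 0 0) P.nil)) (P.cons (P.cons (P.lf 0 1033 0) P.nil) P.nil)))))) 3966)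
 (EL.cons 10 (TM.mk (P.cons (P.cons (P.lf 0 259435170 0) (P.cons (P.lf 0 255814017 0) (P.cons (P.lf 8004666 0 0) (P.cons (P.lf 1466823 0 0) (P.lf 0 52386 0))))) (P.cons (P.cons (P.lf 0 31839690 0) (P.cons (P.lf 0 31395276 0) (P.cons (P.lf 982386 0 0) (P.cons (P.lf 180018 0 0) (P.lf 0 6429 0))))) (P.cons (P.cons (P.lf 0 710040 0) (P.cons (P.lf 0 700131 0) (P.cons (P.lf 21906 0 0) (P.cons (P.lf 4014 0 0) P.nil)))) (P.cons (P.cons (P.lf 46965 0 0) (P.cons (P.lf 46308 0 0) (P.cons (P.lf 0 1449 0) P.nil))) (P.cons (P.cons (P.lf 2328 0 0) (P.cons (P.lf 2298 0 0) P.nil)) (P.cons (P.cons (P.lf 3 0 0) P.nil) P.nil)))))) 657)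
 EL.nil))))
noncomputable def S140_154_216_290_8 : EL := (EL.cons 12 (TM.mk (P.cons (P.cons (P.lf 10417476 0 0) (P.cons (P.lf 0 3776452 0) (P.cons (P.lf 0 1440464 0) (P.cons (P.lf 408018 0 0) (P.cons (P.lf 60880 0 0) (P.cons (P.lf 0 7262 0) P.nil)))))) (P.cons (P.cons (P.lf 48568576 0 0) (P.cons (P.lf 0 9498536 0) (P.cons (P.lf 0 4357878 0) (P.cons (P.lf 332486 0 0) (P.cons (P.lf 22414 0 0) P.nil))))) (P.cons (P.cons (P.lf 56992222 0 0) (P.cons (P.lf 0 1726838 0) (P.cons (P.lf 0 796898 0) (P.cons (P.lf 56070 0 0) P.nil)))) (P.cons (P.cons (P.lf 757056 0 0) (P.cons (P.lf 0 73574 0) (P.cons (P.lf 0 33594 0) P.nil))) (P.cons (P.cons (P.lf 0 316712 0) (P.cons (P.lf 5954 0 0) P.nil)) (P.cons (P.cons (P.lf 0 12782 0) P.nil) P.nil)))))) 18710)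
 (EL.cons 3 (TM.mk (P.cons (P.cons (P.lf 254180296 0 0) (P.cons (P.lf 0 49143996 0) (P.cons (P.lf 0 22642080 0) (P.cons (P.lf 1630471 0 0) (P.cons (P.lf 99061 0 0) (P.cons (P.lf 0 11816 0) P.nil)))))) (P.cons (P.cons (P.lf 598511319 0 0) (P.cons (P.lf 0 17170125 0) (P.cons (P.lf 0 7922864 0) (P.cons (P.lf 558252 0 0) (P.cons (P.lf 32461 0 0) P.nil))))) (P.cons (P.cons (P.lf 16581990 0 0) (P.cons (P.lf 0 1364315 0) (P.cons (P.lf 0 623559 0) (P.cons (P.lf 49989 0 0) P.nil)))) (P.cons (P.cons (P.lf 0 6463800 0) (P.cons (P.lf 100258 0 0) (P.cons (P.lf 47611 0 0) P.nil))) (P.cons (P.cons (P.lf 0 461261 0) (P.cons (P.lf 19238 0 0) P.nil)) (P.cons (P.cons (P.lf 16809 0 0) P.nil) P.nil)))))) 47279)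
 (EL.cons 7 (TM.mk (P.cons (P.cons (P.lf 0 190712603 0) (P.cons (P.lf 37571722 0 0) (P.cons (P.lf 17191659 0 0) (P.cons (P.lf 0 1358634 0) (P.cons (P.lf 0 96854 0) (P.cons (P.lf 11554 0 0) P.nil)))))) (P.cons (P.cons (P.lf 0 439339504 0) (P.cons (P.lf 12603793 0 0) (P.cons (P.lf 5815809 0 0) (P.cons (P.lf 0 409791 0) (P.cons (P.lf 0 23825 0) P.nil))))) (P.cons (P.cons (P.lf 10202337 0 0) (P.cons (P.lf 359606 0 0) (P.cons (P.lf 161551 0 0) (P.cons (P.lf 0 15825 0) P.nil)))) (P.cons (P.cons (P.lf 4832959 0 0) (P.cons (P.lf 0 120417 0) (P.cons (P.lf 0 56256 0) P.nil))) (P.cons (P.cons (P.lf 0 20188 0) (P.cons (P.lf 0 6959 0) P.nil)) (P.cons (P.cons (P.lf 0 25620 0) P.nil) P.nil)))))) 26539)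
 (EL.cons 10 (TM.mk (P.cons (P.cons (P.lf 0 18069456 0) (P.cons (P.lf 0 14542056 0) (P.cons (P.lf 5333082 0 0) (P.cons (P.lf 1451994 0 0) (P.cons (P.lf 0 142464 0) (P.cons (P.lf 0 5808 0) P.nil)))))) (P.cons (P.cons (P.lf 0 44339514 0) (P.cons (P.lf 0 42715746 0) (P.cons (P.lf 2833284 0 0) (P.cons (P.lf 664842 0 0) (P.cons (P.lf 0 51540 0) P.nil))))) (P.cons (P.cons (P.lf 0 5550996 0) (P.cons (P.lf 0 5358612 0) (P.cons (P.lf 338808 0 0) (P.cons (P.lf 78738 0 0) P.nil)))) (P.cons (P.cons (P.lf 0 35286 0) (P.cons (P.lf 0 30258 0) (P.cons (P.lf 7698 0 0) P.nil))) (P.cons (P.cons (P.lf 25170 0 0) (P.cons (P.lf 24612 0 0) P.nil)) (P.cons (P.cons (P.lf 1128 0 0) P.nil) P.nil)))))) 20010)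
 EL.nil))))
noncomputable def S140_154_216_290_9 : EL := (EL.cons 3 (TM.mk (P.cons (P.lf 0 2795377237 0) (P.cons (P.lf 113188447 0 0) (P.cons (P.lf 4815735 0 0) (P.cons (P.lf 28027 0 0) (P.cons (P.lf 0 3003 0) (P.cons (P.lf 0 90 0) P.nil)))))) 67)
 (EL.cons 7 (TM.mk (P.cons (P.lf 0 1354004171 0) (P.cons (P.lf 0 83086409 0) (P.cons (P.lf 696363 0 0) (P.cons (P.lf 79830 0 0) (P.cons (P.lf 1364 0 0) (P.cons (P.lf 0 28 0) P.nil)))))) 46)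
 EL.nil))
noncomputable def S140_154_216_290_10 : EL := (EL.cons 3 (TM.mk (P.cons (P.cons (P.lf 0 97347942 0) (P.cons (P.lf 17644864 0 0) (P.cons (P.lf 8329454 0 0) (P.lf 0 396637 0)))) (P.cons (P.cons (P.lf 0 222987042 0) (P.cons (P.lf 2533785 0 0) (P.cons (P.lf 1196101 0 0) (P.lf 0 56956 0)))) (P.cons (P.cons (P.lf 7567446 0 0) (P.cons (P.lf 10173 0 0) (P.cons (P.lf 4800 0 0) (P.lf 0 225 0)))) (P.cons (P.cons (P.lf 1097248 0 0) (P.cons (P.lf 0 15125 0) (P.cons (P.lf 0 7139 0) P.nil))) (P.cons (P.cons (P.lf 506 0 0) (P.cons (P.lf 0 735 0) P.nil)) (P.cons (P.cons (P.lf 0 2741 0) P.nil) P.nil)))))) 1499)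
 (EL.cons 7 (TM.mk (P.cons (P.cons (P.lf 0 47152677 0) (P.cons (P.lf 8546689 0 0) (P.cons (P.lf 4034559 0 0) (P.lf 0 192120 0)))) (P.cons (P.cons (P.lf 0 112811541 0) (P.cons (P.lf 2097817 0 0) (P.cons (P.lf 990298 0 0) (P.lf 0 47156 0)))) (P.cons (P.cons (P.lf 0 7587199 0) (P.cons (P.lf 175510 0 0) (P.cons (P.lf 82851 0 0) (P.lf 0 3944 0)))) (P.cons (P.cons (P.lf 312697 0 0) (P.cons (P.lf 2647 0 0) (P.cons (P.lf 1250 0 0) P.nil))) (P.cons (P.cons (P.lf 35899 0 0) (P.cons (P.lf 0 468 0) P.nil)) (P.cons (P.cons (P.lf 344 0 0) P.nil) P.nil)))))) 758)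
 EL.nil))
noncomputable def S140_154_216_290_11 : EL := (EL.cons 3 (TM.mk (P.cons (P.cons (P.lf 0 3390104 0) (P.cons (P.lf 1228950 0 0) (P.cons (P.lf 468762 0 0) (P.cons (P.lf 0 132779 0) (P.cons (P.lf 0 19811 0) (P.cons (P.lf 2362 0 0) P.nil)))))) (P.cons (P.cons (P.lf 0 15668145 0) (P.cons (P.lf 3041295 0 0) (P.cons (P.lf 1399180 0 0) (P.cons (P.lf 0 102822 0) (P.cons (P.lf 0 6491 0) P.nil))))) (P.cons (P.cons (P.lf 0 17900856 0) (P.cons (P.lf 434677 0 0) (P.cons (P.lf 201099 0 0) (P.cons (P.lf 0 13635 0) P.nil)))) (P.cons (P.cons (P.lf 531876 0 0) (P.cons (P.lf 0 4148 0) (P.cons (P.lf 0 2015 0) P.nil))) (P.cons (P.cons (P.lf 145147 0 0) (P.cons (P.lf 0 3904 0) P.nil)) (P.cons (P.cons (P.lf 579 0 0) P.nil) P.nil)))))) 9229)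
 (EL.cons 7 (TM.mk (P.cons (P.cons (P.lf 0 1642073 0) (P.cons (P.lf 595270 0 0) (P.cons (P.lf 227055 0 0) (P.cons (P.lf 0 64314 0) (P.cons (P.lf 0 9596 0) (P.cons (P.lf 1144 0 0) P.nil)))))) (P.cons (P.cons (P.lf 0 7756474 0) (P.cons (P.lf 1533751 0 0) (P.cons (P.lf 700851 0 0) (P.cons (P.lf 0 56355 0) (P.cons (P.lf 0 4121 0) P.nil))))) (P.cons (P.cons (P.lf 0 9452439 0) (P.cons (P.lf 363764 0 0) (P.cons (P.lf 167647 0 0) (P.cons (P.lf 0 12021 0) P.nil)))) (P.cons (P.cons (P.lf 0 666557 0) (P.cons (P.lf 27495 0 0) (P.cons (P.lf 12636 0 0) P.nil))) (P.cons (P.cons (P.lf 47672 0 0) (P.cons (P.lf 0 455 0) P.nil)) (P.cons (P.cons (P.lf 5676 0 0) P.nil) P.nil)))))) 4725)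
 EL.nil))
noncomputable def S140_154_216_290_12 : EL := (EL.cons 4 (TM.mk (P.cons (P.lf 2795377237 0 0) (P.cons (P.lf 0 113188447 0) (P.cons (P.lf 0 4815735 0) (P.cons (P.lf 0 28027 0) (P.cons (P.lf 3003 0 0) (P.cons (P.lf 90 0 0) P.nil)))))) 67)
 (EL.cons 8 (TM.mk (P.cons (P.lf 1354004171 0 0) (P.cons (P.lf 83086409 0 0) (P.cons (P.lf 0 696363 0) (P.cons (P.lf 0 79830 0) (P.cons (P.lf 0 1364 0) (P.cons (P.lf 28 0 0) P.nil)))))) 46)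
 EL.nil))
noncomputable def S140_154_216_290_13 : EL := (EL.cons 4 (TM.mk (P.cons (P.cons (P.lf 97347942 0 0) (P.cons (P.lf 0 17644864 0) (P.cons (P.lf 0 8329454 0) (P.lf 396637 0 0)))) (P.cons (P.cons (P.lf 222987042 0 0) (P.cons (P.lf 0 2533785 0) (P.cons (P.lf 0 1196101 0) (P.lf 56956 0 0)))) (P.cons (P.cons (P.lf 0 7567446 0) (P.cons (P.lf 0 10173 0) (P.cons (P.lf 0 4800 0) (P.lf 225 0 0)))) (P.cons (P.cons (P.lf 0 1097248 0) (P.cons (P.lf 15125 0 0) (P.cons (P.lf 7139 0 0) P.nil))) (P.cons (P.cons (P.lf 0 506 0) (P.cons (P.lf 735 0 0) P.nil)) (P.cons (P.cons (P.lf 2741 0 0) P.nil) P.nil)))))) 1499)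
 (EL.cons 8 (TM.mk (P.cons (P.cons (P.lf 47152677 0 0) (P.cons (P.lf 0 8546689 0) (P.cons (P.lf 0 4034559 0) (P.lf 192120 0 0)))) (P.cons (P.cons (P.lf 112811541 0 0) (P.cons (P.lf 0 2097817 0) (P.cons (P.lf 0 990298 0) (P.lf 47156 0 0)))) (P.cons (P.cons (P.lf 7587199 0 0) (P.cons (P.lf 0 175510 0) (P.cons (P.lf 0 82851 0) (P.lf 3944 0 0)))) (P.cons (P.cons (P.lf 0 312697 0) (P.cons (P.lf 0 2647 0) (P.cons (P.lf 0 1250 0) P.nil))) (P.cons (P.cons (P.lf 0 35899 0) (P.cons (P.lf 468 0 0) P.nil)) (P.cons (P.cons (P.lf 0 344 0) P.nil) P.nil)))))) 758)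
 EL.nil))
noncomputable def S140_154_216_290_14 : EL := (EL.cons 4 (TM.mk (P.cons (P.cons (P.lf 3390104 0 0) (P.cons (P.lf 0 1228950 0) (P.cons (P.lf 0 468762 0) (P.cons (P.lf 132779 0 0) (P.cons (P.lf 19811 0 0) (P.cons (P.lf 0 2362 0) P.nil)))))) (P.cons (P.cons (P.lf 15668145 0 0) (P.cons (P.lf 0 3041295 0) (P.cons (P.lf 0 1399180 0) (P.cons (P.lf 102822 0 0) (P.cons (P.lf 6491 0 0) P.nil))))) (P.cons (P.cons (P.lf 17900856 0 0) (P.cons (P.lf 0 434677 0) (P.cons (P.lf 0 201099 0) (P.cons (P.lf 13635 0 0) P.nil)))) (P.cons (P.cons (P.lf 0 531876 0) (P.cons (P.lf 4148 0 0) (P.cons (P.lf 2015 0 0) P.nil))) (P.cons (P.cons (P.lf 0 145147 0) (P.cons (P.lf 3904 0 0) P.nil)) (P.cons (P.cons (P.lf 0 579 0) P.nil) P.nil)))))) 9229)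
 (EL.cons 8 (TM.mk (P.cons (P.cons (P.lf 1642073 0 0) (P.cons (P.lf 0 595270 0) (P.cons (P.lf 0 227055 0) (P.cons (P.lf 64314 0 0) (P.cons (P.lf 9596 0 0) (P.cons (P.lf 0 1144 0) P.nil)))))) (P.cons (P.cons (P.lf 7756474 0 0) (P.cons (P.lf 0 1533751 0) (P.cons (P.lf 0 700851 0) (P.cons (P.lf 56355 0 0) (P.cons (P.lf 4121 0 0) P.nil))))) (P.cons (P.cons (P.lf 9452439 0 0) (P.cons (P.lf 0 363764 0) (P.cons (P.lf 0 167647 0) (P.cons (P.lf 12021 0 0) P.nil)))) (P.cons (P.cons (P.lf 666557 0 0) (P.cons (P.lf 0 27495 0) (P.cons (P.lf 0 12636 0) P.nil))) (P.cons (P.cons (P.lf 0 47672 0) (P.cons (P.lf 455 0 0) P.nil)) (P.cons (P.cons (P.lf 0 5676 0) P.nil) P.nil)))))) 4725)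
 EL.nil))
noncomputable def S140_154_216_290_15 : EL := (EL.cons 4 (TM.mk (P.cons (P.lf 0 1940661147 0) (P.cons (P.lf 157159770 0 0) (P.cons (P.lf 3504744 0 0) (P.cons (P.lf 0 231830 0) (P.cons (P.lf 0 11505 0) (P.cons (P.lf 0 22 0) P.nil)))))) 112)
 (EL.cons 8 (TM.mk (P.cons (P.lf 0 940003106 0) (P.cons (P.lf 0 19619918 0) (P.cons (P.lf 4438446 0 0) (P.cons (P.lf 144642 0 0) (P.cons (P.lf 0 2561 0) (P.cons (P.lf 0 250 0) P.nil)))))) 67)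
 EL.nil))
noncomputable def S140_154_216_290_16 : EL := (EL.cons 4 (TM.mk (P.cons (P.cons (P.lf 0 67582781 0) (P.cons (P.lf 12249761 0 0) (P.cons (P.lf 5782635 0 0) (P.lf 0 275361 0)))) (P.cons (P.cons (P.lf 0 152069886 0) (P.cons (P.lf 1263045 0 0) (P.cons (P.lf 596235 0 0) (P.lf 0 28391 0)))) (P.cons (P.cons (P.lf 11638360 0 0) (P.cons (P.lf 0 85265 0) (P.cons (P.lf 0 40251 0) (P.lf 1918 0 0)))) (P.cons (P.cons (P.lf 816396 0 0) (P.cons (P.lf 0 13939 0) (P.cons (P.lf 0 6579 0) P.nil))) (P.cons (P.cons (P.lf 0 38063 0) (P.cons (P.lf 0 102 0) P.nil)) (P.cons (P.cons (P.lf 0 3450 0) P.nil) P.nil)))))) 1537)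
 (EL.cons 8 (TM.mk (P.cons (P.cons (P.lf 0 32735248 0) (P.cons (P.lf 5933448 0 0) (P.cons (P.lf 2800950 0 0) (P.lf 0 133377 0)))) (P.cons (P.cons (P.lf 0 76992729 0) (P.cons (P.lf 1216134 0 0) (P.cons (P.lf 574089 0 0) (P.lf 0 27337 0)))) (P.cons (P.cons (P.lf 0 2039732 0) (P.cons (P.lf 52653 0 0) (P.cons (P.lf 24855 0 0) (P.lf 0 1182 0)))) (P.cons (P.cons (P.lf 565618 0 0) (P.cons (P.lf 0 5664 0) (P.cons (P.lf 0 2673 0) P.nil))) (P.cons (P.cons (P.lf 25956 0 0) (P.cons (P.lf 0 617 0) P.nil)) (P.cons (P.cons (P.lf 0 1176 0) P.nil) P.nil)))))) 854)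
 EL.nil))
noncomputable def S140_154_216_290_17 : EL := (EL.cons 4 (TM.mk (P.cons (P.cons (P.lf 0 2353544 0) (P.cons (P.lf 853185 0 0) (P.cons (P.lf 325433 0 0) (P.cons (P.lf 0 92179 0) (P.cons (P.lf 0 13754 0) (P.cons (P.lf 1640 0 0) P.nil)))))) (P.cons (P.cons (P.lf 0 10782147 0) (P.cons (P.lf 2076840 0 0) (P.cons (P.lf 958188 0 0) (P.cons (P.lf 0 67650 0) (P.cons (P.lf 0 3949 0) P.nil))))) (P.cons (P.cons (P.lf 0 11982984 0) (P.cons (P.lf 214807 0 0) (P.cons (P.lf 99718 0 0) (P.cons (P.lf 0 6417 0) P.nil)))) (P.cons (P.cons (P.lf 891217 0 0) (P.cons (P.lf 0 18745 0) (P.cons (P.lf 0 8729 0) P.nil))) (P.cons (P.cons (P.lf 107331 0 0) (P.cons (P.lf 0 3134 0) P.nil)) (P.cons (P.cons (P.lf 0 4200 0) P.nil) P.nil)))))) 8194)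
 (EL.cons 8 (TM.mk (P.cons (P.cons (P.lf 0 1139992 0) (P.cons (P.lf 413259 0 0) (P.cons (P.lf 157630 0 0) (P.cons (P.lf 0 44649 0) (P.cons (P.lf 0 6661 0) (P.cons (P.lf 794 0 0) P.nil)))))) (P.cons (P.cons (P.lf 0 5338690 0) (P.cons (P.lf 1048057 0 0) (P.cons (P.lf 480175 0 0) (P.cons (P.lf 0 37315 0) (P.cons (P.lf 0 2591 0) P.nil))))) (P.cons (P.cons (P.lf 0 6342253 0) (P.cons (P.lf 208713 0 0) (P.cons (P.lf 96414 0 0) (P.cons (P.lf 0 6684 0) P.nil)))) (P.cons (P.cons (P.lf 0 187748 0) (P.cons (P.lf 7024 0 0) (P.cons (P.lf 3220 0 0) P.nil))) (P.cons (P.cons (P.lf 63191 0 0) (P.cons (P.lf 0 1534 0) P.nil)) (P.cons (P.cons (P.lf 3458 0 0) P.nil) P.nil)))))) 4063)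
 EL.nil))
noncomputable def S140_154_216_290_18 : EL := (EL.cons 4 (TM.mk (P.cons (P.lf 1347283520 0 0) (P.cons (P.lf 0 163659767 0) (P.cons (P.lf 0 336299 0) (P.cons (P.lf 433920 0 0) (P.cons (P.lf 8204 0 0) (P.cons (P.lf 0 633 0) P.nil)))))) 143)
 (EL.cons 8 (TM.mk (P.cons (P.lf 652587236 0 0) (P.cons (P.lf 0 12803181 0) (P.cons (P.lf 0 4757117 0) (P.cons (P.lf 0 5657 0) (P.cons (P.lf 11717 0 0) (P.cons (P.lf 341 0 0) P.nil)))))) 78)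
 EL.nil))
noncomputable def S140_154_216_290_19 : EL := (EL.cons 4 (TM.mk (P.cons (P.cons (P.lf 46918633 0 0) (P.cons (P.lf 0 8504266 0) (P.cons (P.lf 0 4014533 0) (P.lf 191166 0 0)))) (P.cons (P.cons (P.lf 103673116 0 0) (P.cons (P.lf 0 532506 0) (P.cons (P.lf 0 251375 0) (P.lf 11970 0 0)))) (P.cons (P.cons (P.lf 0 12435421 0) (P.cons (P.lf 109350 0 0) (P.cons (P.lf 51620 0 0) (P.lf 0 2459 0)))) (P.cons (P.cons (P.lf 0 421958 0) (P.cons (P.lf 8876 0 0) (P.cons (P.lf 4189 0 0) P.nil))) (P.cons (P.cons (P.lf 62285 0 0) (P.cons (P.lf 0 421 0) P.nil)) (P.cons (P.cons (P.lf 2498 0 0) P.nil) P.nil)))))) 1427)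
 (EL.cons 8 (TM.mk (P.cons (P.cons (P.lf 22726100 0 0) (P.cons (P.lf 0 4119234 0) (P.cons (P.lf 0 1944529 0) (P.lf 92595 0 0)))) (P.cons (P.cons (P.lf 52531180 0 0) (P.cons (P.lf 0 677495 0) (P.cons (P.lf 0 319819 0) (P.lf 15229 0 0)))) (P.cons (P.cons (P.lf 0 787404 0) (P.cons (P.lf 4728 0 0) (P.cons (P.lf 2232 0 0) (P.lf 0 106 0)))) (P.cons (P.cons (P.lf 0 542324 0) (P.cons (P.lf 6908 0 0) (P.cons (P.lf 3260 0 0) P.nil))) (P.cons (P.cons (P.lf 0 5071 0) (P.cons (P.lf 336 0 0) P.nil)) (P.cons (P.cons (P.lf 2266 0 0) P.nil) P.nil)))))) 881)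
 EL.nil))
noncomputable def S140_154_216_290_20 : EL := (EL.cons 4 (TM.mk (P.cons (P.cons (P.lf 1633922 0 0) (P.cons (P.lf 0 592315 0) (P.cons (P.lf 0 225928 0) (P.cons (P.lf 63994 0 0) (P.cons (P.lf 9548 0 0) (P.cons (P.lf 0 1138 0) P.nil)))))) (P.cons (P.cons (P.lf 7419231 0 0) (P.cons (P.lf 0 1417841 0) (P.cons (P.lf 0 656064 0) (P.cons (P.lf 44374 0 0) (P.cons (P.lf 2355 0 0) P.nil))))) (P.cons (P.cons (P.lf 8013151 0 0) (P.cons (P.lf 0 89725 0) (P.cons (P.lf 0 41903 0) (P.cons (P.lf 2443 0 0) P.nil)))) (P.cons (P.cons (P.lf 0 968479 0) (P.cons (P.lf 21541 0 0) (P.cons (P.lf 10011 0 0) P.nil))) (P.cons (P.cons (P.lf 0 63865 0) (P.cons (P.lf 1919 0 0) P.nil)) (P.cons (P.cons (P.lf 6923 0 0) P.nil) P.nil)))))) 6571)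
 (EL.cons 8 (TM.mk (P.cons (P.cons (P.lf 791427 0 0) (P.cons (P.lf 0 286901 0) (P.cons (P.lf 0 109433 0) (P.cons (P.lf 30997 0 0) (P.cons (P.lf 4625 0 0) (P.cons (P.lf 0 551 0) P.nil)))))) (P.cons (P.cons (P.lf 3674283 0 0) (P.cons (P.lf 0 715985 0) (P.cons (P.lf 0 328925 0) (P.cons (P.lf 24651 0 0) (P.cons (P.lf 1611 0 0) P.nil))))) (P.cons (P.cons (P.lf 4251604 0 0) (P.cons (P.lf 0 114940 0) (P.cons (P.lf 0 53247 0) (P.cons (P.lf 3537 0 0) P.nil)))) (P.cons (P.cons (P.lf 0 54335 0) (P.cons (P.lf 2247 0 0) (P.cons (P.lf 1049 0 0) P.nil))) (P.cons (P.cons (P.lf 0 56769 0) (P.cons (P.lf 1519 0 0) P.nil)) (P.cons (P.cons (P.lf 0 889 0) P.nil) P.nil)))))) 3633)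
 EL.nil))
noncomputable def S140_154_216_290_21 : EL := (EL.cons 4 (TM.mk (P.cons (P.cons (P.lf 0 3698108166 0) (P.cons (P.lf 52934592 0 0) (P.cons (P.lf 24988362 0 0) (P.lf 0 1189911 0)))) (P.cons (P.cons (P.lf 0 197481816 0) (P.cons (P.lf 7601355 0 0) (P.cons (P.lf 3588303 0 0) (P.lf 0 170868 0)))) (P.cons (P.cons (P.lf 33216573 0 0) (P.cons (P.lf 30519 0 0) (P.cons (P.lf 14400 0 0) (P.lf 0 675 0)))) (P.cons (P.cons (P.lf 2596254 0 0) (P.cons (P.lf 0 45375 0) (P.cons (P.lf 0 21417 0) P.nil))) (P.cons (P.cons (P.lf 0 32997 0) (P.cons (P.lf 0 2205 0) P.nil)) (P.cons (P.cons (P.lf 0 8292 0) P.nil) P.nil)))))) 4824)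
 (EL.cons 8 (TM.mk (P.cons (P.cons (P.lf 2714610354 0 0) (P.cons (P.lf 0 38856843 0) (P.cons (P.lf 0 18342813 0) (P.lf 873471 0 0)))) (P.cons (P.cons (P.lf 0 131533740 0) (P.cons (P.lf 0 1622058 0) (P.cons (P.lf 0 765711 0) (P.lf 36465 0 0)))) (P.cons (P.cons (P.lf 0 25461570 0) (P.cons (P.lf 350010 0 0) (P.cons (P.lf 165225 0 0) (P.lf 0 7866 0)))) (P.cons (P.cons (P.lf 459345 0 0) (P.cons (P.lf 19617 0 0) (P.cons (P.lf 9261 0 0) P.nil))) (P.cons (P.cons (P.lf 98547 0 0) (P.cons (P.lf 0 825 0) P.nil)) (P.cons (P.cons (P.lf 1377 0 0) P.nil) P.nil)))))) 3189)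
 (EL.cons 11 (TM.mk (P.cons (P.cons (P.lf 259435170 0 0) (P.cons (P.lf 255814017 0 0) (P.cons (P.lf 0 8004666 0) (P.cons (P.lf 0 1466823 0) (P.lf 52386 0 0))))) (P.cons (P.cons (P.lf 31839690 0 0) (P.cons (P.lf 31395276 0 0) (P.cons (P.lf 0 982386 0) (P.cons (P.lf 0 180018 0) (P.lf 6429 0 0))))) (P.cons (P.cons (P.lf 710040 0 0) (P.cons (P.lf 700131 0 0) (P.cons (P.lf 0 21906 0) (P.cons (P.lf 0 4014 0) P.nil)))) (P.cons (P.cons (P.lf 0 46965 0) (P.cons (P.lf 0 46308 0) (P.cons (P.lf 1449 0 0) P.nil))) (P.cons (P.cons (P.lf 0 2328 0) (P.cons (P.lf 0 2298 0) P.nil)) (P.cons (P.cons (P.lf 0 3 0) P.nil) P.nil)))))) 657)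
 EL.nil)))
noncomputable def S140_154_216_290_22 : EL := (EL.cons 4 (TM.mk (P.cons (P.cons (P.lf 0 128785200 0) (P.cons (P.lf 25186473 0 0) (P.cons (P.lf 11555421 0 0) (P.cons (P.lf 0 881625 0) (P.cons (P.lf 0 59436 0) (P.cons (P.lf 7089 0 0) P.nil)))))) (P.cons (P.cons (P.lf 0 307089732 0) (P.cons (P.lf 10105710 0 0) (P.cons (P.lf 4661022 0 0) (P.cons (P.lf 0 330537 0) (P.cons (P.lf 0 19476 0) P.nil))))) (P.cons (P.cons (P.lf 0 17241423 0) (P.cons (P.lf 899496 0 0) (P.cons (P.lf 412329 0 0) (P.cons (P.lf 0 31812 0) P.nil)))) (P.cons (P.cons (P.lf 3497838 0 0) (P.cons (P.lf 0 52203 0) (P.cons (P.lf 0 24813 0) P.nil))) (P.cons (P.cons (P.lf 303204 0 0) (P.cons (P.lf 0 11571 0) P.nil)) (P.cons (P.cons (P.lf 0 8115 0) P.nil) P.nil)))))) 19014)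
 (EL.cons 8 (TM.mk (P.cons (P.cons (P.lf 94535265 0 0) (P.cons (P.lf 0 18488226 0) (P.cons (P.lf 0 8482302 0) (P.cons (P.lf 647160 0 0) (P.cons (P.lf 43629 0 0) (P.cons (P.lf 0 5205 0) P.nil)))))) (P.cons (P.cons (P.lf 215791515 0 0) (P.cons (P.lf 0 5535021 0) (P.cons (P.lf 0 2557479 0) (P.cons (P.lf 176718 0 0) (P.cons (P.lf 9852 0 0) P.nil))))) (P.cons (P.cons (P.lf 0 9827388 0) (P.cons (P.lf 2079 0 0) (P.cons (P.lf 3048 0 0) (P.cons (P.lf 1902 0 0) P.nil)))) (P.cons (P.cons (P.lf 0 2749758 0) (P.cons (P.lf 73956 0 0) (P.cons (P.lf 34446 0 0) P.nil))) (P.cons (P.cons (P.lf 33930 0 0) (P.cons (P.lf 3252 0 0) P.nil)) (P.cons (P.cons (P.lf 15648 0 0) P.nil) P.nil)))))) 10896)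
 (EL.cons 11 (TM.mk (P.cons (P.cons (P.lf 9034728 0 0) (P.cons (P.lf 7271028 0 0) (P.cons (P.lf 0 2666541 0) (P.cons (P.lf 0 725997 0) (P.cons (P.lf 71232 0 0) (P.cons (P.lf 2904 0 0) P.nil)))))) (P.cons (P.cons (P.lf 22169757 0 0) (P.cons (P.lf 21357873 0 0) (P.cons (P.lf 0 1416642 0) (P.cons (P.lf 0 332421 0) (P.cons (P.lf 25770 0 0) P.nil))))) (P.cons (P.cons (P.lf 2775498 0 0) (P.cons (P.lf 2679306 0 0) (P.cons (P.lf 0 169404 0) (P.cons (P.lf 0 39369 0) P.nil)))) (P.cons (P.cons (P.lf 17643 0 0) (P.cons (P.lf 15129 0 0) (P.cons (P.lf 0 3849 0) P.nil))) (P.cons (P.cons (P.lf 0 12585 0) (P.cons (P.lf 0 12306 0) P.nil)) (P.cons (P.cons (P.lf 0 564 0) P.nil) P.nil)))))) 10005)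
 EL.nil)))
noncomputable def S140_154_216_290_23 : EL := (EL.cons 4 (TM.mk (P.cons (P.cons (P.lf 2567372565 0 0) (P.cons (P.lf 0 36749280 0) (P.cons (P.lf 0 17347905 0) (P.lf 826083 0 0)))) (P.cons (P.cons (P.lf 33143421 0 0) (P.cons (P.lf 0 3789132 0) (P.cons (P.lf 0 1788702 0) (P.lf 85173 0 0)))) (P.cons (P.cons (P.lf 0 33034536 0) (P.cons (P.lf 255801 0 0) (P.cons (P.lf 120756 0 0) (P.lf 0 5757 0)))) (P.cons (P.cons (P.lf 0 1130610 0) (P.cons (P.lf 41817 0 0) (P.cons (P.lf 19737 0 0) P.nil))) (P.cons (P.cons (P.lf 137001 0 0) (P.cons (P.lf 303 0 0) P.nil)) (P.cons (P.cons (P.lf 8394 0 0) P.nil) P.nil)))))) 4992)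
 (EL.cons 8 (TM.mk (P.cons (P.cons (P.lf 0 1884589590 0) (P.cons (P.lf 26975952 0 0) (P.cons (P.lf 12734304 0 0) (P.lf 0 606396 0)))) (P.cons (P.cons (P.lf 167625384 0 0) (P.cons (P.lf 33804 0 0) (P.cons (P.lf 15957 0 0) (P.lf 0 759 0)))) (P.cons (P.cons (P.lf 17225601 0 0) (P.cons (P.lf 0 335058 0) (P.cons (P.lf 0 158166 0) (P.lf 7530 0 0)))) (P.cons (P.cons (P.lf 0 1173054 0) (P.cons (P.lf 0 5988 0) (P.cons (P.lf 0 2826 0) P.nil))) (P.cons (P.cons (P.lf 0 88893 0) (P.cons (P.lf 1560 0 0) P.nil)) (P.cons (P.cons (P.lf 2223 0 0) P.nil) P.nil)))))) 3417)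
 (EL.cons 11 (TM.mk (P.cons (P.cons (P.lf 0 180110127 0) (P.cons (P.lf 0 177596181 0) (P.cons (P.lf 5557152 0 0) (P.cons (P.lf 1018326 0 0) (P.lf 0 36366 0))))) (P.cons (P.cons (P.lf 0 14811474 0) (P.cons (P.lf 0 14604738 0) (P.cons (P.lf 456993 0 0) (P.cons (P.lf 83742 0 0) (P.lf 0 2988 0))))) (P.cons (P.cons (P.lf 712380 0 0) (P.cons (P.lf 702435 0 0) (P.cons (P.lf 0 21981 0) (P.cons (P.lf 0 4026 0) P.nil)))) (P.cons (P.cons (P.lf 92448 0 0) (P.cons (P.lf 91158 0 0) (P.cons (P.lf 0 2850 0) P.nil))) (P.cons (P.cons (P.lf 1173 0 0) (P.cons (P.lf 1158 0 0) P.nil)) (P.cons (P.cons (P.lf 0 144 0) P.nil) P.nil)))))) 1389)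
 EL.nil)))
noncomputable def S140_154_216_290_24 : EL := (EL.cons 4 (TM.mk (P.cons (P.cons (P.lf 89407764 0 0) (P.cons (P.lf 0 17485440 0) (P.cons (P.lf 0 8022228 0) (P.cons (P.lf 612057 0 0) (P.cons (P.lf 41262 0 0) (P.cons (P.lf 0 4923 0) P.nil)))))) (P.cons (P.cons (P.lf 209573568 0 0) (P.cons (P.lf 0 6307773 0) (P.cons (P.lf 0 2911032 0) (P.cons (P.lf 204687 0 0) (P.cons (P.lf 11850 0 0) P.nil))))) (P.cons (P.cons (P.lf 3183156 0 0) (P.cons (P.lf 0 310263 0) (P.cons (P.lf 0 141411 0) (P.cons (P.lf 11739 0 0) P.nil)))) (P.cons (P.cons (P.lf 0 3281181 0) (P.cons (P.lf 73788 0 0) (P.cons (P.lf 34473 0 0) P.nil))) (P.cons (P.cons (P.lf 0 134832 0) (P.cons (P.lf 7692 0 0) P.nil)) (P.cons (P.cons (P.lf 18450 0 0) P.nil) P.nil)))))) 12726)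
 (EL.cons 8 (TM.mk (P.cons (P.cons (P.lf 0 65630109 0) (P.cons (P.lf 12835254 0 0) (P.cons (P.lf 5888748 0 0) (P.cons (P.lf 0 449283 0) (P.cons (P.lf 0 30288 0) (P.cons (P.lf 3612 0 0) P.nil)))))) (P.cons (P.cons (P.lf 0 147153534 0) (P.cons (P.lf 3322914 0 0) (P.cons (P.lf 1537059 0 0) (P.cons (P.lf 0 104490 0) (P.cons (P.lf 0 5613 0) P.nil))))) (P.cons (P.cons (P.lf 13001664 0 0) (P.cons (P.lf 0 179148 0) (P.cons (P.lf 0 84153 0) (P.cons (P.lf 4419 0 0) P.nil)))) (P.cons (P.cons (P.lf 1891479 0 0) (P.cons (P.lf 0 58032 0) (P.cons (P.lf 0 26946 0) P.nil))) (P.cons (P.cons (P.lf 0 111174 0) (P.cons (P.lf 0 201 0) P.nil)) (P.cons (P.cons (P.lf 0 13428 0) P.nil) P.nil)))))) 7521)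
 (EL.cons 11 (TM.mk (P.cons (P.cons (P.lf 0 6272265 0) (P.cons (P.lf 0 5047833 0) (P.cons (P.lf 1851219 0 0) (P.cons (P.lf 504015 0 0) (P.cons (P.lf 0 49452 0) (P.cons (P.lf 0 2016 0) P.nil)))))) (P.cons (P.cons (P.lf 0 15137148 0) (P.cons (P.lf 0 14623083 0) (P.cons (P.lf 908529 0 0) (P.cons (P.lf 210372 0 0) (P.cons (P.lf 0 15888 0) P.nil))))) (P.cons (P.cons (P.lf 0 1292847 0) (P.cons (P.lf 0 1251000 0) (P.cons (P.lf 74595 0 0) (P.cons (P.lf 17118 0 0) P.nil)))) (P.cons (P.cons (P.lf 92349 0 0) (P.cons (P.lf 90408 0 0) (P.cons (P.lf 0 3801 0) P.nil))) (P.cons (P.cons (P.lf 12699 0 0) (P.cons (P.lf 12318 0 0) P.nil)) (P.cons (P.cons (P.lf 60 0 0) P.nil) P.nil)))))) 6726)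
 EL.nil)))
noncomputable def S140_154_216_290_25 : EL := (EL.cons 4 (TM.mk (P.cons (P.cons (P.lf 0 1782371310 0) (P.cons (P.lf 25512801 0 0) (P.cons (P.lf 12043599 0 0) (P.lf 0 573498 0)))) (P.cons (P.cons (P.lf 49161051 0 0) (P.cons (P.lf 1597518 0 0) (P.cons (P.lf 754125 0 0) (P.lf 0 35907 0)))) (P.cons (P.cons (P.lf 26936139 0 0) (P.cons (P.lf 0 328053 0) (P.cons (P.lf 0 154863 0) (P.lf 7377 0 0)))) (P.cons (P.cons (P.lf 0 86196 0) (P.cons (P.lf 0 26628 0) (P.cons (P.lf 0 12567 0) P.nil))) (P.cons (P.cons (P.lf 0 168087 0) (P.cons (P.lf 1269 0 0) P.nil)) (P.cons (P.cons (P.lf 0 3639 0) P.nil) P.nil)))))) 4863)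
 (EL.cons 8 (TM.mk (P.cons (P.cons (P.lf 1308356433 0 0) (P.cons (P.lf 0 18727770 0) (P.cons (P.lf 0 8840655 0) (P.lf 420984 0 0)))) (P.cons (P.cons (P.lf 0 169349202 0) (P.cons (P.lf 734841 0 0) (P.cons (P.lf 346890 0 0) (P.lf 0 16515 0)))) (P.cons (P.cons (P.lf 0 9500601 0) (P.cons (P.lf 265824 0 0) (P.cons (P.lf 125484 0 0) (P.lf 0 5973 0)))) (P.cons (P.cons (P.lf 1485966 0 0) (P.cons (P.lf 0 5031 0) (P.cons (P.lf 0 2373 0) P.nil))) (P.cons (P.cons (P.lf 51912 0 0) (P.cons (P.lf 0 1671 0) P.nil)) (P.cons (P.cons (P.lf 0 5409 0) P.nil) P.nil)))))) 3147)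
 (EL.cons 11 (TM.mk (P.cons (P.cons (P.lf 125039556 0 0) (P.cons (P.lf 123294273 0 0) (P.cons (P.lf 0 3857994 0) (P.cons (P.lf 0 706962 0) (P.lf 25248 0 0))))) (P.cons (P.cons (P.lf 5219697 0 0) (P.cons (P.lf 5146839 0 0) (P.cons (P.lf 0 161046 0) (P.cons (P.lf 0 29511 0) (P.lf 1053 0 0))))) (P.cons (P.cons (P.lf 0 1126335 0) (P.cons (P.lf 0 1110612 0) (P.cons (P.lf 34752 0 0) (P.cons (P.lf 6366 0 0) P.nil)))) (P.cons (P.cons (P.lf 0 63123 0) (P.cons (P.lf 0 62244 0) (P.cons (P.lf 1947 0 0) P.nil))) (P.cons (P.cons (P.lf 2667 0 0) (P.cons (P.lf 2628 0 0) P.nil)) (P.cons (P.cons (P.lf 261 0 0) P.nil) P.nil)))))) 1578)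
 EL.nil)))
noncomputable def S140_154_216_290_26 : EL := (EL.cons 4 (TM.mk (P.cons (P.cons (P.lf 0 62070396 0) (P.cons (P.lf 12139083 0 0) (P.cons (P.lf 5569347 0 0) (P.cons (P.lf 0 424914 0) (P.cons (P.lf 0 28644 0) (P.cons (P.lf 3417 0 0) P.nil)))))) (P.cons (P.cons (P.lf 0 142980927 0) (P.cons (P.lf 3887577 0 0) (P.cons (P.lf 1795443 0 0) (P.cons (P.lf 0 124896 0) (P.cons (P.lf 0 7065 0) P.nil))))) (P.cons (P.cons (P.lf 3788307 0 0) (P.cons (P.lf 17169 0 0) (P.cons (P.lf 6747 0 0) (P.cons (P.lf 0 1662 0) P.nil)))) (P.cons (P.cons (P.lf 2618676 0 0) (P.cons (P.lf 0 67614 0) (P.cons (P.lf 0 31443 0) P.nil))) (P.cons (P.cons (P.lf 6570 0 0) (P.cons (P.lf 0 3666 0) P.nil)) (P.cons (P.cons (P.lf 0 20658 0) P.nil) P.nil)))))) 11151)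
 (EL.cons 8 (TM.mk (P.cons (P.cons (P.lf 45563010 0 0) (P.cons (P.lf 0 8910738 0) (P.cons (P.lf 0 4088199 0) (P.cons (P.lf 311910 0 0) (P.cons (P.lf 21027 0 0) (P.cons (P.lf 0 2508 0) P.nil)))))) (P.cons (P.cons (P.lf 100314882 0 0) (P.cons (P.lf 0 1946088 0) (P.cons (P.lf 0 901551 0) (P.cons (P.lf 59910 0 0) (P.cons (P.lf 3045 0 0) P.nil))))) (P.cons (P.cons (P.lf 0 13241343 0) (P.cons (P.lf 233130 0 0) (P.cons (P.lf 108672 0 0) (P.cons (P.lf 0 6543 0) P.nil)))) (P.cons (P.cons (P.lf 0 1124106 0) (P.cons (P.lf 39315 0 0) (P.cons (P.lf 18219 0 0) P.nil))) (P.cons (P.cons (P.lf 144927 0 0) (P.cons (P.lf 0 1692 0) P.nil)) (P.cons (P.cons (P.lf 8661 0 0) P.nil) P.nil)))))) 7059)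
 (EL.cons 11 (TM.mk (P.cons (P.cons (P.lf 4354452 0 0) (P.cons (P.lf 3504405 0 0) (P.cons (P.lf 0 1285188 0) (P.cons (P.lf 0 349908 0) (P.cons (P.lf 34329 0 0) (P.cons (P.lf 1398 0 0) P.nil)))))) (P.cons (P.cons (P.lf 10332486 0 0) (P.cons (P.lf 10010022 0 0) (P.cons (P.lf 0 578697 0) (P.cons (P.lf 0 131880 0) (P.cons (P.lf 9639 0 0) P.nil))))) (P.cons (P.cons (P.lf 464529 0 0) (P.cons (P.lf 451392 0 0) (P.cons (P.lf 0 24033 0) (P.cons (P.lf 0 5367 0) P.nil)))) (P.cons (P.cons (P.lf 0 118602 0) (P.cons (P.lf 0 115455 0) (P.cons (P.lf 5835 0 0) P.nil))) (P.cons (P.cons (P.lf 0 7866 0) (P.cons (P.lf 0 7602 0) P.nil)) (P.cons (P.cons (P.lf 426 0 0) P.nil) P.nil)))))) 6225)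
 EL.nil)))
noncomputable def S140_154_216_290_27 : EL := (EL.cons 13 (TM.mk (P.lf 0 4294967296 0) 0)
 EL.nil)
noncomputable def S140_154_216_290_28 : EL := (EL.cons 13 (TM.mk (P.cons (P.cons (P.lf 0 149570593 0) (P.cons (P.lf 27110516 0 0) (P.cons (P.lf 12797820 0 0) (P.lf 0 609416 0)))) (P.cons (P.cons (P.lf 0 348665542 0) (P.cons (P.lf 4990784 0 0) (P.cons (P.lf 2355956 0 0) (P.lf 0 112188 0)))) (P.cons (P.cons (P.lf 0 2748561 0) (P.cons (P.lf 264420 0 0) (P.cons (P.lf 124820 0 0) (P.lf 0 5940 0)))) (P.cons (P.cons (P.lf 972415 0 0) (P.cons (P.lf 0 3664 0) (P.cons (P.lf 0 1728 0) P.nil))) (P.cons (P.cons (P.lf 32082 0 0) (P.cons (P.lf 0 804 0) P.nil)) (P.cons (P.cons (P.lf 0 887 0) P.nil) P.nil)))))) 1234)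
 EL.nil)
noncomputable def S140_154_216_290_29 : EL := (EL.cons 13 (TM.mk (P.cons (P.cons (P.lf 0 5208738 0) (P.cons (P.lf 1888226 0 0) (P.cons (P.lf 720232 0 0) (P.cons (P.lf 0 204009 0) (P.cons (P.lf 0 30440 0) (P.cons (P.lf 3631 0 0) P.nil)))))) (P.cons (P.cons (P.lf 0 24284288 0) (P.cons (P.lf 4749268 0 0) (P.cons (P.lf 2178939 0 0) (P.cons (P.lf 0 166243 0) (P.cons (P.lf 0 11207 0) P.nil))))) (P.cons (P.cons (P.lf 0 28496111 0) (P.cons (P.lf 863419 0 0) (P.cons (P.lf 398449 0 0) (P.cons (P.lf 0 28035 0) P.nil)))) (P.cons (P.cons (P.lf 0 378528 0) (P.cons (P.lf 36787 0 0) (P.cons (P.lf 16797 0 0) P.nil))) (P.cons (P.cons (P.lf 158356 0 0) (P.cons (P.lf 0 2977 0) P.nil)) (P.cons (P.cons (P.lf 6391 0 0) P.nil) P.nil)))))) 9355)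
 EL.nil)
noncomputable def S140_154_216_290_30 : EL := (EL.cons 13 (TM.mk (P.cons (P.lf 2981735720 0 0) (P.cons (P.lf 0 120734344 0) (P.cons (P.lf 0 5136784 0) (P.cons (P.lf 0 29896 0) (P.cons (P.lf 3204 0 0) (P.cons (P.lf 96 0 0) P.nil)))))) 64)
 EL.nil)
noncomputable def S140_154_216_290_31 : EL := (EL.cons 13 (TM.mk (P.cons (P.cons (P.lf 103837805 0 0) (P.cons (P.lf 0 18821189 0) (P.cons (P.lf 0 8884751 0) (P.lf 423080 0 0)))) (P.cons (P.cons (P.lf 237852845 0 0) (P.cons (P.lf 0 2702704 0) (P.cons (P.lf 0 1275842 0) (P.lf 60754 0 0)))) (P.cons (P.cons (P.lf 0 8071943 0) (P.cons (P.lf 0 10852 0) (P.cons (P.lf 0 5121 0) (P.lf 241 0 0)))) (P.cons (P.cons (P.lf 0 1170398 0) (P.cons (P.lf 16134 0 0) (P.cons (P.lf 7615 0 0) P.nil))) (P.cons (P.cons (P.lf 0 540 0) (P.cons (P.lf 785 0 0) P.nil)) (P.cons (P.cons (P.lf 2924 0 0) P.nil) P.nil)))))) 1579)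
 EL.nil)
noncomputable def S140_154_216_290_32 : EL := (EL.cons 13 (TM.mk (P.cons (P.cons (P.lf 3616111 0 0) (P.cons (P.lf 0 1310880 0) (P.cons (P.lf 0 500013 0) (P.cons (P.lf 141631 0 0) (P.cons (P.lf 21132 0 0) (P.cons (P.lf 0 2520 0) P.nil)))))) (P.cons (P.cons (P.lf 16712689 0 0) (P.cons (P.lf 0 3244049 0) (P.cons (P.lf 0 1492459 0) (P.cons (P.lf 109677 0 0) (P.cons (P.lf 6924 0 0) P.nil))))) (P.cons (P.cons (P.lf 19094247 0 0) (P.cons (P.lf 0 463656 0) (P.cons (P.lf 0 214506 0) (P.cons (P.lf 14545 0 0) P.nil)))) (P.cons (P.cons (P.lf 0 567335 0) (P.cons (P.lf 4425 0 0) (P.cons (P.lf 2150 0 0) P.nil))) (P.cons (P.cons (P.lf 0 154824 0) (P.cons (P.lf 4165 0 0) P.nil)) (P.cons (P.cons (P.lf 0 618 0) P.nil) P.nil)))))) 9821)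
 EL.nil)
noncomputable def S140_154_216_290_33 : EL := (EL.cons 14 (TM.mk (P.lf 8589934592 0 0) 0)
 EL.nil)
noncomputable def S140_154_216_290_34 : EL := (EL.cons 14 (TM.mk (P.cons (P.cons (P.lf 299141186 0 0) (P.cons (P.lf 0 54221032 0) (P.cons (P.lf 0 25595640 0) (P.lf 1218832 0 0)))) (P.cons (P.cons (P.lf 697331084 0 0) (P.cons (P.lf 0 9981568 0) (P.cons (P.lf 0 4711912 0) (P.lf 224376 0 0)))) (P.cons (P.cons (P.lf 5497122 0 0) (P.cons (P.lf 0 528840 0) (P.cons (P.lf 0 249640 0) (P.lf 11880 0 0)))) (P.cons (P.cons (P.lf 0 1944830 0) (P.cons (P.lf 7328 0 0) (P.cons (P.lf 3456 0 0) P.nil))) (P.cons (P.cons (P.lf 0 64164 0) (P.cons (P.lf 1608 0 0) P.nil)) (P.cons (P.cons (P.lf 1774 0 0) P.nil) P.nil)))))) 2468)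
 EL.nil)
noncomputable def S140_154_216_290_35 : EL := (EL.cons 14 (TM.mk (P.cons (P.cons (P.lf 10417476 0 0) (P.cons (P.lf 0 3776452 0) (P.cons (P.lf 0 1440464 0) (P.cons (P.lf 408018 0 0) (P.cons (P.lf 60880 0 0) (P.cons (P.lf 0 7262 0) P.nil)))))) (P.cons (P.cons (P.lf 48568576 0 0) (P.cons (P.lf 0 9498536 0) (P.cons (P.lf 0 4357878 0) (P.cons (P.lf 332486 0 0) (P.cons (P.lf 22414 0 0) P.nil))))) (P.cons (P.cons (P.lf 56992222 0 0) (P.cons (P.lf 0 1726838 0) (P.cons (P.lf 0 796898 0) (P.cons (P.lf 56070 0 0) P.nil)))) (P.cons (P.cons (P.lf 757056 0 0) (P.cons (P.lf 0 73574 0) (P.cons (P.lf 0 33594 0) P.nil))) (P.cons (P.cons (P.lf 0 316712 0) (P.cons (P.lf 5954 0 0) P.nil)) (P.cons (P.cons (P.lf 0 12782 0) P.nil) P.nil)))))) 18710)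
 EL.nil)
noncomputable def S140_154_216_290_36 : EL := (EL.cons 14 (TM.mk (P.cons (P.lf 0 5963471440 0) (P.cons (P.lf 241468688 0 0) (P.cons (P.lf 10273568 0 0) (P.cons (P.lf 59792 0 0) (P.cons (P.lf 0 6408 0) (P.cons (P.lf 0 192 0) P.nil)))))) 128)
 EL.nil)
noncomputable def S140_154_216_290_37 : EL := (EL.cons 14 (TM.mk (P.cons (P.cons (P.lf 0 207675610 0) (P.cons (P.lf 37642378 0 0) (P.cons (P.lf 17769502 0 0) (P.lf 0 846160 0)))) (P.cons (P.cons (P.lf 0 475705690 0) (P.cons (P.lf 5405408 0 0) (P.cons (P.lf 2551684 0 0) (P.lf 0 121508 0)))) (P.cons (P.cons (P.lf 16143886 0 0) (P.cons (P.lf 21704 0 0) (P.cons (P.lf 10242 0 0) (P.lf 0 482 0)))) (P.cons (P.cons (P.lf 2340796 0 0) (P.cons (P.lf 0 32268 0) (P.cons (P.lf 0 15230 0) P.nil))) (P.cons (P.cons (P.lf 1080 0 0) (P.cons (P.lf 0 1570 0) P.nil)) (P.cons (P.cons (P.lf 0 5848 0) P.nil) P.nil)))))) 3158)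
 EL.nil)
noncomputable def S140_154_216_290_38 : EL := (EL.cons 14 (TM.mk (P.cons (P.cons (P.lf 0 7232222 0) (P.cons (P.lf 2621760 0 0) (P.cons (P.lf 1000026 0 0) (P.cons (P.lf 0 283262 0) (P.cons (P.lf 0 42264 0) (P.cons (P.lf 5040 0 0) P.nil)))))) (P.cons (P.cons (P.lf 0 33425378 0) (P.cons (P.lf 6488098 0 0) (P.cons (P.lf 2984918 0 0) (P.cons (P.lf 0 219354 0) (P.cons (P.lf 0 13848 0) P.nil))))) (P.cons (P.cons (P.lf 0 38188494 0) (P.cons (P.lf 927312 0 0) (P.cons (P.lf 429012 0 0) (P.cons (P.lf 0 29090 0) P.nil)))) (P.cons (P.cons (P.lf 1134670 0 0) (P.cons (P.lf 0 8850 0) (P.cons (P.lf 0 4300 0) P.nil))) (P.cons (P.cons (P.lf 309648 0 0) (P.cons (P.lf 0 8330 0) P.nil)) (P.cons (P.cons (P.lf 1236 0 0) P.nil) P.nil)))))) 19642)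
 EL.nil)
noncomputable def S140_154_216_290_39 : EL := (EL.cons 14 (TM.mk (P.cons (P.lf 4140077114 0 0) (P.cons (P.lf 0 335274176 0) (P.cons (P.lf 0 7476788 0) (P.cons (P.lf 494572 0 0) (P.cons (P.lf 24546 0 0) (P.cons (P.lf 48 0 0) P.nil)))))) 226)
 EL.nil)
noncomputable def S140_154_216_290_40 : EL := (EL.cons 14 (TM.mk (P.cons (P.cons (P.lf 144176600 0 0) (P.cons (P.lf 0 26132824 0) (P.cons (P.lf 0 12336288 0) (P.lf 587438 0 0)))) (P.cons (P.cons (P.lf 324415758 0 0) (P.cons (P.lf 0 2694496 0) (P.cons (P.lf 0 1271968 0) (P.lf 60568 0 0)))) (P.cons (P.cons (P.lf 0 24828502 0) (P.cons (P.lf 181900 0 0) (P.cons (P.lf 85870 0 0) (P.lf 0 4092 0)))) (P.cons (P.cons (P.lf 0 1741646 0) (P.cons (P.lf 29738 0 0) (P.cons (P.lf 14036 0 0) P.nil))) (P.cons (P.cons (P.lf 81202 0 0) (P.cons (P.lf 218 0 0) P.nil)) (P.cons (P.cons (P.lf 7362 0 0) P.nil) P.nil)))))) 3240)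
 EL.nil)
noncomputable def S140_154_216_290_41 : EL := (EL.cons 14 (TM.mk (P.cons (P.cons (P.lf 5020894 0 0) (P.cons (P.lf 0 1820130 0) (P.cons (P.lf 0 694258 0) (P.cons (P.lf 196650 0 0) (P.cons (P.lf 29342 0 0) (P.cons (P.lf 0 3500 0) P.nil)))))) (P.cons (P.cons (P.lf 23001914 0 0) (P.cons (P.lf 0 4430594 0) (P.cons (P.lf 0 2044136 0) (P.cons (P.lf 144322 0 0) (P.cons (P.lf 8426 0 0) P.nil))))) (P.cons (P.cons (P.lf 25563700 0 0) (P.cons (P.lf 0 458256 0) (P.cons (P.lf 0 212732 0) (P.cons (P.lf 13690 0 0) P.nil)))) (P.cons (P.cons (P.lf 0 1901264 0) (P.cons (P.lf 39990 0 0) (P.cons (P.lf 18622 0 0) P.nil))) (P.cons (P.cons (P.lf 0 228974 0) (P.cons (P.lf 6686 0 0) P.nil)) (P.cons (P.cons (P.lf 8962 0 0) P.nil) P.nil)))))) 17434)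
 EL.nil)
noncomputable def S140_154_216_290_42 : EL := (EL.cons 14 (TM.mk (P.cons (P.lf 0 2874204844 0) (P.cons (P.lf 349140838 0 0) (P.cons (P.lf 717438 0 0) (P.cons (P.lf 0 925698 0) (P.cons (P.lf 0 17502 0) (P.cons (P.lf 1352 0 0) P.nil)))))) 292)
 EL.nil)
noncomputable def S140_154_216_290_43 : EL := (EL.cons 14 (TM.mk (P.cons (P.cons (P.lf 0 100093084 0) (P.cons (P.lf 18142436 0 0) (P.cons (P.lf 8564338 0 0) (P.lf 0 407822 0)))) (P.cons (P.cons (P.lf 0 221169316 0) (P.cons (P.lf 1136014 0 0) (P.cons (P.lf 536268 0 0) (P.lf 0 25536 0)))) (P.cons (P.cons (P.lf 26528900 0 0) (P.cons (P.lf 0 233282 0) (P.cons (P.lf 0 110124 0) (P.lf 5246 0 0)))) (P.cons (P.cons (P.lf 900178 0 0) (P.cons (P.lf 0 18936 0) (P.cons (P.lf 0 8938 0) P.nil))) (P.cons (P.cons (P.lf 0 132876 0) (P.cons (P.lf 900 0 0) P.nil)) (P.cons (P.cons (P.lf 0 5330 0) P.nil) P.nil)))))) 3004)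
 EL.nil)
noncomputable def S140_154_216_290_44 : EL := (EL.cons 14 (TM.mk (P.cons (P.cons (P.lf 0 3485702 0) (P.cons (P.lf 1263606 0 0) (P.cons (P.lf 481980 0 0) (P.cons (P.lf 0 136522 0) (P.cons (P.lf 0 20370 0) (P.cons (P.lf 2428 0 0) P.nil)))))) (P.cons (P.cons (P.lf 0 15827694 0) (P.cons (P.lf 3024728 0 0) (P.cons (P.lf 1399604 0 0) (P.cons (P.lf 0 94666 0) (P.cons (P.lf 0 5024 0) P.nil))))) (P.cons (P.cons (P.lf 0 17094724 0) (P.cons (P.lf 191414 0 0) (P.cons (P.lf 89394 0 0) (P.cons (P.lf 0 5212 0) P.nil)))) (P.cons (P.cons (P.lf 2066090 0 0) (P.cons (P.lf 0 45956 0) (P.cons (P.lf 0 21358 0) P.nil))) (P.cons (P.cons (P.lf 136246 0 0) (P.cons (P.lf 0 4094 0) P.nil)) (P.cons (P.cons (P.lf 0 14770 0) P.nil) P.nil)))))) 13972)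
 EL.nil)
noncomputable def S140_154_216_290_45 : EL := (EL.cons 14 (TM.mk (P.cons (P.cons (P.lf 362784 0 0) (P.cons (P.lf 0 197270 0) (P.cons (P.lf 0 57366 0) (P.cons (P.lf 36032 0 0) (P.cons (P.lf 3300 0 0) (P.cons (P.lf 0 2056 0) P.nil)))))) (P.cons (P.cons (P.lf 2537072 0 0) (P.cons (P.lf 0 956032 0) (P.cons (P.lf 0 354788 0) (P.cons (P.lf 111420 0 0) (P.cons (P.lf 15478 0 0) P.nil))))) (P.cons (P.cons (P.lf 5934196 0 0) (P.cons (P.lf 0 1250466 0) (P.cons (P.lf 0 557040 0) (P.cons (P.lf 59222 0 0) P.nil)))) (P.cons (P.cons (P.lf 4681716 0 0) (P.cons (P.lf 0 221954 0) (P.cons (P.lf 0 100196 0) P.nil))) (P.cons (P.cons (P.lf 75826 0 0) (P.cons (P.lf 0 7036 0) P.nil)) (P.cons (P.cons (P.lf 0 38934 0) P.nil) P.nil)))))) 36720)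
 EL.nil)
noncomputable def S140_154_216_290_46 : EL := (EL.cons 15 (TM.mk (P.lf 4294967296 0 0) 0)
 EL.nil)
noncomputable def S140_154_216_290_47 : EL := (EL.cons 15 (TM.mk (P.cons (P.cons (P.lf 149570593 0 0) (P.cons (P.lf 0 27110516 0) (P.cons (P.lf 0 12797820 0) (P.lf 609416 0 0)))) (P.cons (P.cons (P.lf 348665542 0 0) (P.cons (P.lf 0 4990784 0) (P.cons (P.lf 0 2355956 0) (P.lf 112188 0 0)))) (P.cons (P.cons (P.lf 2748561 0 0) (P.cons (P.lf 0 264420 0) (P.cons (P.lf 0 124820 0) (P.lf 5940 0 0)))) (P.cons (P.cons (P.lf 0 972415 0) (P.cons (P.lf 3664 0 0) (P.cons (P.lf 1728 0 0) P.nil))) (P.cons (P.cons (P.lf 0 32082 0) (P.cons (P.lf 804 0 0) P.nil)) (P.cons (P.cons (P.lf 887 0 0) P.nil) P.nil)))))) 1234)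
 EL.nil)
noncomputable def S140_154_216_290_48 : EL := (EL.cons 15 (TM.mk (P.cons (P.cons (P.lf 5208738 0 0) (P.cons (P.lf 0 1888226 0) (P.cons (P.lf 0 720232 0) (P.cons (P.lf 204009 0 0) (P.cons (P.lf 30440 0 0) (P.cons (P.lf 0 3631 0) P.nil)))))) (P.cons (P.cons (P.lf 24284288 0 0) (P.cons (P.lf 0 4749268 0) (P.cons (P.lf 0 2178939 0) (P.cons (P.lf 166243 0 0) (P.cons (P.lf 11207 0 0) P.nil))))) (P.cons (P.cons (P.lf 28496111 0 0) (P.cons (P.lf 0 863419 0) (P.cons (P.lf 0 398449 0) (P.cons (P.lf 28035 0 0) P.nil)))) (P.cons (P.cons (P.lf 378528 0 0) (P.cons (P.lf 0 36787 0) (P.cons (P.lf 0 16797 0) P.nil))) (P.cons (P.cons (P.lf 0 158356 0) (P.cons (P.lf 2977 0 0) P.nil)) (P.cons (P.cons (P.lf 0 6391 0) P.nil) P.nil)))))) 9355)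
 EL.nil)
noncomputable def S140_154_216_290 : SL := (SL.cons S140_154_216_290_0 (SL.cons S140_154_216_290_1 (SL.cons S140_154_216_290_2 (SL.cons S140_154_216_290_3 (SL.cons S140_154_216_290_4 (SL.cons S140_154_216_290_5 (SL.cons S140_154_216_290_6 (SL.cons S140_154_216_290_7 (SL.cons S140_154_216_290_8 (SL.cons S140_154_216_290_9 (SL.cons S140_154_216_290_10 (SL.cons S140_154_216_290_11 (SL.cons S140_154_216_290_12 (SL.cons S140_154_216_290_13 (SL.cons S140_154_216_290_14 (SL.cons S140_154_216_290_15 (SL.cons S140_154_216_290_16 (SL.cons S140_154_216_290_17 (SL.cons S140_154_216_290_18 (SL.cons S140_154_216_290_19 (SL.cons S140_154_216_290_20 (SL.cons S140_154_216_290_21 (SL.cons S140_154_216_290_22 (SL.cons S140_154_216_290_23 (SL.cons S140_154_216_290_24 (SL.cons S140_154_216_290_25 (SL.cons S140_154_216_290_26 (SL.cons S140_154_216_290_27 (SL.cons S140_154_216_290_28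 (SL.cons S140_154_216_290_29 (SL.cons S140_154_216_290_30 (SL.cons S140_154_216_290_31 (SL.cons S140_154_216_290_32 (SL.cons S140_154_216_290_33 (SL.cons S140_154_216_290_34 (SL.cons S140_154_216_290_35 (SL.cons S140_154_216_290_36 (SL.cons S140_154_216_290_37 (SL.cons S140_154_216_290_38 (SL.cons S140_154_216_290_39 (SL.cons S140_154_216_290_40 (SL.cons S140_154_216_290_41 (SL.cons S140_154_216_290_42 (SL.cons S140_154_216_290_43 (SL.cons S140_154_216_290_44 (SL.cons S140_154_216_290_45 (SL.cons S140_154_216_290_46 (SL.cons S140_154_216_290_47 (SL.cons S140_154_216_290_48 SL.nil)))))))))))))))))))))))))))))))))))))))))))))))))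
noncomputable def S140_154_216_364_0 : EL := (EL.cons 0 (TM.mk (P.cons (P.lf 4816977213 0 0) (P.cons (P.lf 294674568 0 0) (P.cons (P.lf 6571395 0 0) (P.cons (P.lf 0 434682 0) (P.cons (P.lf 0 21573 0) (P.cons (P.lf 0 42 0) P.nil)))))) 205)
 (EL.cons 1 (TM.mk (P.cons (P.lf 0 1762505823 0) (P.cons (P.lf 0 36787346 0) (P.cons (P.lf 8322086 0 0) (P.cons (P.lf 271203 0 0) (P.cons (P.lf 0 4801 0) (P.cons (P.lf 0 468 0) P.nil)))))) 132)
 (EL.cons 5 (TM.mk (P.cons (P.lf 5588741396 0 0) (P.cons (P.lf 0 104773178 0) (P.cons (P.lf 0 2336498 0) (P.cons (P.lf 154550 0 0) (P.cons (P.lf 7670 0 0) (P.cons (P.lf 18 0 0) P.nil)))))) 87)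
 (EL.cons 9 (TM.mk (P.lf 6442450944 0 0) 2)
 EL.nil))))
noncomputable def S140_154_216_364_1 : EL := (EL.cons 0 (TM.mk (P.cons (P.cons (P.lf 0 4590266147 0) (P.cons (P.lf 144502436 0 0) (P.cons (P.lf 62311072 0 0) (P.lf 0 6923445 0)))) (P.cons (P.cons (P.lf 338648965 0 0) (P.cons (P.lf 0 1324058 0) (P.cons (P.lf 0 570955 0) (P.lf 63447 0 0)))) (P.cons (P.cons (P.lf 87491293 0 0) (P.cons (P.lf 0 4354181 0) (P.cons (P.lf 0 1877574 0) (P.lf 208622 0 0)))) (P.cons (P.cons (P.lf 1595093 0 0) (P.cons (P.lf 0 365342 0) (P.cons (P.lf 0 157531 0) P.nil))) (P.cons (P.cons (P.lf 0 390232 0) (P.cons (P.lf 3041 0 0) P.nil)) (P.cons (P.cons (P.lf 0 19850 0) P.nil) P.nil)))))) 56921)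
 (EL.cons 1 (TM.mk (P.cons (P.cons (P.lf 543239435 0 0) (P.cons (P.lf 9470073 0 0) (P.cons (P.lf 4083598 0 0) (P.lf 0 453732 0)))) (P.cons (P.cons (P.lf 0 427089564 0) (P.cons (P.lf 21277639 0 0) (P.cons (P.lf 9175155 0 0) (P.lf 0 1019454 0)))) (P.cons (P.cons (P.lf 0 11909427 0) (P.cons (P.lf 2105407 0 0) (P.cons (P.lf 907869 0 0) (P.lf 0 100864 0)))) (P.cons (P.cons (P.lf 3691730 0 0) (P.cons (P.lf 0 78578 0) (P.cons (P.lf 0 33882 0) P.nil))) (P.cons (P.cons (P.lf 164960 0 0) (P.cons (P.lf 0 16373 0) P.nil)) (P.cons (P.cons (P.lf 0 8680 0) P.nil) P.nil)))))) 28300)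
 (EL.cons 5 (TM.mk (P.cons (P.cons (P.lf 1819556475 0 0) (P.cons (P.lf 0 224363516 0) (P.cons (P.lf 0 96748074 0) (P.lf 10749786 0 0)))) (P.cons (P.cons (P.lf 460024161 0 0) (P.cons (P.lf 0 31374084 0) (P.cons (P.lf 0 13528854 0) (P.lf 1503202 0 0)))) (P.cons (P.cons (P.lf 0 27087074 0) (P.cons (P.lf 0 139066 0) (P.cons (P.lf 0 59964 0) (P.lf 6666 0 0)))) (P.cons (P.cons (P.lf 0 2211228 0) (P.cons (P.lf 153278 0 0) (P.cons (P.lf 66088 0 0) P.nil))) (P.cons (P.cons (P.lf 86187 0 0) (P.cons (P.lf 4066 0 0) P.nil)) (P.cons (P.cons (P.lf 8612 0 0) P.nil) P.nil)))))) 24452)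
 (EL.cons 9 (TM.mk (P.cons (P.cons (P.lf 165407503 0 0) (P.cons (P.lf 0 152633706 0) (P.cons (P.lf 0 65817372 0) (P.lf 7313040 0 0)))) (P.cons (P.cons (P.lf 512146479 0 0) (P.cons (P.lf 0 28098402 0) (P.cons (P.lf 0 12116346 0) (P.lf 1346256 0 0)))) (P.cons (P.cons (P.lf 3547885 0 0) (P.cons (P.lf 0 1488714 0) (P.cons (P.lf 0 641946 0) (P.lf 71322 0 0)))) (P.cons (P.cons (P.lf 0 1450654 0) (P.cons (P.lf 20628 0 0) (P.cons (P.lf 8892 0 0) P.nil))) (P.cons (P.cons (P.lf 0 46371 0) (P.cons (P.lf 4536 0 0) P.nil)) (P.cons (P.cons (P.lf 1372 0 0) P.nil) P.nil)))))) 6640)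
 (EL.cons 2 (TM.mk (P.cons (P.cons (P.lf 329219246 0 0) (P.cons (P.lf 306698186 0 0) (P.cons (P.lf 0 31477210 0) (P.cons (P.lf 0 6546380 0) (P.lf 545529 0 0))))) (P.cons (P.cons (P.lf 27073560 0 0) (P.cons (P.lf 25221526 0 0) (P.cons (P.lf 0 2588546 0) (P.cons (P.lf 0 538343 0) (P.lf 44859 0 0))))) (P.cons (P.cons (P.lf 0 1302142 0) (P.cons (P.lf 0 1213065 0) (P.cons (P.lf 124500 0 0) (P.cons (P.lf 25891 0 0) P.nil)))) (P.cons (P.cons (P.lf 0 168989 0) (P.cons (P.lf 0 157426 0) (P.cons (P.lf 16155 0 0) P.nil))) (P.cons (P.cons (P.lf 0 2145 0) (P.cons (P.lf 0 1999 0) P.nil)) (P.cons (P.cons (P.lf 258 0 0) P.nil) P.nil)))))) 10236)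
 (EL.cons 6 (TM.mk (P.cons (P.cons (P.lf 159464784 0 0) (P.cons (P.lf 148556199 0 0) (P.cons (P.lf 0 15246696 0) (P.cons (P.lf 0 3170886 0) (P.lf 264237 0 0))))) (P.cons (P.cons (P.lf 29355942 0 0) (P.cons (P.lf 27347775 0 0) (P.cons (P.lf 0 2806770 0) (P.cons (P.lf 0 583728 0) (P.lf 48642 0 0))))) (P.cons (P.cons (P.lf 1555341 0 0) (P.cons (P.lf 1448946 0 0) (P.cons (P.lf 0 148707 0) (P.cons (P.lf 0 30927 0) P.nil)))) (P.cons (P.cons (P.lf 0 21552 0) (P.cons (P.lf 0 20076 0) (P.cons (P.lf 2058 0 0) P.nil))) (P.cons (P.cons (P.lf 0 4740 0) (P.cons (P.lf 0 4416 0) P.nil)) (P.cons (P.cons (P.lf 0 117 0) P.nil) P.nil)))))) 5331)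
 EL.nil))))))
noncomputable def S140_154_216_364_2 : EL := (EL.cons 0 (TM.mk (P.cons (P.cons (P.lf 0 238881986 0) (P.cons (P.lf 230784194 0 0) (P.cons (P.lf 89965886 0 0) (P.cons (P.lf 0 19294281 0) (P.cons (P.lf 0 860705 0) (P.cons (P.lf 394639 0 0) P.nil)))))) (P.cons (P.cons (P.lf 0 732279843 0) (P.cons (P.lf 66482432 0 0) (P.cons (P.lf 26309340 0 0) (P.cons (P.lf 0 5219449 0) (P.cons (P.lf 0 212553 0) P.nil))))) (P.cons (P.cons (P.lf 21494511 0 0) (P.cons (P.lf 0 546118 0) (P.cons (P.lf 0 293380 0) (P.cons (P.lf 0 23732 0) P.nil)))) (P.cons (P.cons (P.lf 14169279 0 0) (P.cons (P.lf 0 1413084 0) (P.cons (P.lf 0 571415 0) P.nil))) (P.cons (P.cons (P.lf 353950 0 0) (P.cons (P.lf 0 104765 0) P.nil)) (P.cons (P.cons (P.lf 0 87958 0) P.nil) P.nil)))))) 822117)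
 (EL.cons 1 (TM.mk (P.cons (P.cons (P.lf 29056755 0 0) (P.cons (P.lf 0 27398627 0) (P.cons (P.lf 0 11274022 0) (P.cons (P.lf 1778937 0 0) (P.cons (P.lf 48717 0 0) (P.cons (P.lf 0 22339 0) P.nil)))))) (P.cons (P.cons (P.lf 71658427 0 0) (P.cons (P.lf 11018242 0 0) (P.cons (P.lf 4045260 0 0) (P.cons (P.lf 0 1136712 0) (P.cons (P.lf 0 63613 0) P.nil))))) (P.cons (P.cons (P.lf 0 56583918 0) (P.cons (P.lf 6114434 0 0) (P.cons (P.lf 2402626 0 0) (P.cons (P.lf 0 494746 0) P.nil)))) (P.cons (P.cons (P.lf 0 2085660 0) (P.cons (P.lf 432199 0 0) (P.cons (P.lf 164466 0 0) P.nil))) (P.cons (P.cons (P.lf 652457 0 0) (P.cons (P.lf 0 46604 0) P.nil)) (P.cons (P.cons (P.lf 35494 0 0) P.nil) P.nil)))))) 371996)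
 (EL.cons 5 (TM.mk (P.cons (P.cons (P.lf 89748826 0 0) (P.cons (P.lf 0 90939244 0) (P.cons (P.lf 0 31719825 0) (P.cons (P.lf 10820269 0 0) (P.cons (P.lf 675366 0 0) (P.cons (P.lf 0 309660 0) P.nil)))))) (P.cons (P.cons (P.lf 290170948 0 0) (P.cons (P.lf 0 52776474 0) (P.cons (P.lf 0 20410251 0) (P.cons (P.lf 4553212 0 0) (P.cons (P.lf 211549 0 0) P.nil))))) (P.cons (P.cons (P.lf 38705821 0 0) (P.cons (P.lf 0 5146036 0) (P.cons (P.lf 0 1979609 0) (P.cons (P.lf 453028 0 0) P.nil)))) (P.cons (P.cons (P.lf 0 4483089 0) (P.cons (P.lf 278195 0 0) (P.cons (P.lf 120086 0 0) P.nil))) (P.cons (P.cons (P.lf 0 387727 0) (P.cons (P.lf 56199 0 0) P.nil)) (P.cons (P.cons (P.lf 21182 0 0) P.nil) P.nil)))))) 407515)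
 (EL.cons 9 (TM.mk (P.cons (P.cons (P.lf 4246774 0 0) (P.cons (P.lf 0 7837624 0) (P.cons (P.lf 236505 0 0) (P.cons (P.lf 3494191 0 0) (P.cons (P.lf 325884 0 0) (P.cons (P.lf 0 149422 0) P.nil)))))) (P.cons (P.cons (P.lf 26298336 0 0) (P.cons (P.lf 0 25710246 0) (P.cons (P.lf 0 9755139 0) (P.cons (P.lf 2380072 0 0) (P.cons (P.lf 119983 0 0) P.nil))))) (P.cons (P.cons (P.lf 40895569 0 0) (P.cons (P.lf 0 4711954 0) (P.cons (P.lf 0 1838757 0) (P.cons (P.lf 392284 0 0) P.nil)))) (P.cons (P.cons (P.lf 489592 0 0) (P.cons (P.lf 0 197842 0) (P.cons (P.lf 0 73302 0) P.nil))) (P.cons (P.cons (P.lf 0 231067 0) (P.cons (P.lf 16723 0 0) P.nil)) (P.cons (P.cons (P.lf 0 8899 0) P.nil) P.nil)))))) 177821)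
 (EL.cons 2 (TM.mk (P.cons (P.cons (P.lf 16905155 0 0) (P.cons (P.lf 149079 0 0) (P.cons (P.lf 0 22875575 0) (P.cons (P.lf 0 4363807 0) (P.cons (P.lf 1677645 0 0) (P.cons (P.lf 36444 0 0) P.nil)))))) (P.cons (P.cons (P.lf 53733166 0 0) (P.cons (P.lf 45902823 0 0) (P.cons (P.lf 0 10799409 0) (P.cons (P.lf 0 2141128 0) (P.cons (P.lf 528373 0 0) P.nil))))) (P.cons (P.cons (P.lf 4600198 0 0) (P.cons (P.lf 3958897 0 0) (P.cons (P.lf 0 884936 0) (P.cons (P.lf 0 175798 0) P.nil)))) (P.cons (P.cons (P.lf 0 334147 0) (P.cons (P.lf 0 302326 0) (P.cons (P.lf 44156 0 0) P.nil))) (P.cons (P.cons (P.lf 0 45343 0) (P.cons (P.lf 0 39425 0) P.nil)) (P.cons (P.cons (P.lf 0 174 0) P.nil) P.nil)))))) 194005)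
 (EL.cons 6 (TM.mk (P.cons (P.cons (P.lf 8188392 0 0) (P.cons (P.lf 72210 0 0) (P.cons (P.lf 0 11080302 0) (P.cons (P.lf 0 2113704 0) (P.cons (P.lf 812604 0 0) (P.cons (P.lf 17652 0 0) P.nil)))))) (P.cons (P.cons (P.lf 26860896 0 0) (P.cons (P.lf 22241424 0 0) (P.cons (P.lf 0 6359514 0) (P.cons (P.lf 0 1252392 0) (P.cons (P.lf 338694 0 0) P.nil))))) (P.cons (P.cons (P.lf 4922832 0 0) (P.cons (P.lf 4182612 0 0) (P.cons (P.lf 0 1020522 0) (P.cons (P.lf 0 202056 0) P.nil)))) (P.cons (P.cons (P.lf 206694 0 0) (P.cons (P.lf 167460 0 0) (P.cons (P.lf 0 53952 0) P.nil))) (P.cons (P.cons (P.lf 0 17472 0) (P.cons (P.lf 0 16164 0) P.nil)) (P.cons (P.cons (P.lf 0 1836 0) P.nil) P.nil)))))) 146634)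
 EL.nil))))))
noncomputable def S140_154_216_364_3 : EL := (EL.cons 0 (TM.mk (P.cons (P.lf 3638739650 0 0) (P.cons (P.lf 0 294674568 0) (P.cons (P.lf 0 6571395 0) (P.cons (P.lf 434682 0 0) (P.cons (P.lf 21573 0 0) (P.cons (P.lf 42 0 0) P.nil)))))) 205)
 (EL.cons 1 (TM.mk (P.cons (P.lf 1762505823 0 0) (P.cons (P.lf 36787346 0 0) (P.cons (P.lf 0 8322086 0) (P.cons (P.lf 0 271203 0) (P.cons (P.lf 4801 0 0) (P.cons (P.lf 468 0 0) P.nil)))))) 132)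
 (EL.cons 5 (TM.mk (P.cons (P.lf 853709548 0 0) (P.cons (P.lf 104773178 0 0) (P.cons (P.lf 2336498 0 0) (P.cons (P.lf 0 154550 0) (P.cons (P.lf 0 7670 0) (P.cons (P.lf 0 18 0) P.nil)))))) 80)
 EL.nil)))
noncomputable def S140_154_216_364_4 : EL := (EL.cons 0 (TM.mk (P.cons (P.cons (P.lf 93423269 0 0) (P.cons (P.lf 0 86208544 0) (P.cons (P.lf 0 37174093 0) (P.lf 4130453 0 0)))) (P.cons (P.cons (P.lf 281698119 0 0) (P.cons (P.lf 0 8888774 0) (P.cons (P.lf 0 3832938 0) (P.lf 425879 0 0)))) (P.cons (P.cons (P.lf 0 21590177 0) (P.cons (P.lf 600059 0 0) (P.cons (P.lf 258753 0 0) (P.lf 0 28752 0)))) (P.cons (P.cons (P.lf 0 1492853 0) (P.cons (P.lf 98105 0 0) (P.cons (P.lf 42301 0 0) P.nil))) (P.cons (P.cons (P.lf 71650 0 0) (P.cons (P.lf 729 0 0) P.nil)) (P.cons (P.cons (P.lf 6329 0 0) P.nil) P.nil)))))) 12321)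
 (EL.cons 1 (TM.mk (P.cons (P.cons (P.lf 45251671 0 0) (P.cons (P.lf 0 41757056 0) (P.cons (P.lf 0 18006112 0) (P.lf 2000677 0 0)))) (P.cons (P.cons (P.lf 141055951 0 0) (P.cons (P.lf 0 8558634 0) (P.cons (P.lf 0 3690577 0) (P.lf 410062 0 0)))) (P.cons (P.cons (P.lf 3681384 0 0) (P.cons (P.lf 0 370556 0) (P.cons (P.lf 0 159785 0) (P.lf 17750 0 0)))) (P.cons (P.cons (P.lf 0 1045138 0) (P.cons (P.lf 39862 0 0) (P.cons (P.lf 17188 0 0) P.nil))) (P.cons (P.cons (P.lf 0 46987 0) (P.cons (P.lf 4350 0 0) P.nil)) (P.cons (P.cons (P.lf 2227 0 0) P.nil) P.nil)))))) 6069)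
 (EL.cons 5 (TM.mk (P.cons (P.cons (P.lf 21918670 0 0) (P.cons (P.lf 0 20225974 0) (P.cons (P.lf 0 8721666 0) (P.lf 969072 0 0)))) (P.cons (P.cons (P.lf 70556160 0 0) (P.cons (P.lf 0 6205680 0) (P.cons (P.lf 0 2675958 0) (P.lf 297326 0 0)))) (P.cons (P.cons (P.lf 8859136 0 0) (P.cons (P.lf 0 709592 0) (P.cons (P.lf 0 305982 0) (P.lf 33996 0 0)))) (P.cons (P.cons (P.lf 47240 0 0) (P.cons (P.lf 0 28004 0) (P.cons (P.lf 0 12076 0) P.nil))) (P.cons (P.cons (P.lf 0 40932 0) (P.cons (P.lf 1250 0 0) P.nil)) (P.cons (P.cons (P.lf 0 1792 0) P.nil) P.nil)))))) 4150)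
 EL.nil)))
noncomputable def S140_154_216_364_5 : EL := (EL.cons 0 (TM.mk (P.cons (P.cons (P.lf 2398605 0 0) (P.cons (P.lf 0 4426741 0) (P.cons (P.lf 133577 0 0) (P.cons (P.lf 1973541 0 0) (P.cons (P.lf 184060 0 0) (P.cons (P.lf 0 84394 0) P.nil)))))) (P.cons (P.cons (P.lf 14659231 0 0) (P.cons (P.lf 0 14162830 0) (P.cons (P.lf 0 5520584 0) (P.cons (P.lf 1184458 0 0) (P.cons (P.lf 52860 0 0) P.nil))))) (P.cons (P.cons (P.lf 21890886 0 0) (P.cons (P.lf 0 1477374 0) (P.cons (P.lf 0 592586 0) (P.cons (P.lf 109137 0 0) P.nil)))) (P.cons (P.cons (P.lf 0 1620555 0) (P.cons (P.lf 129475 0 0) (P.cons (P.lf 52667 0 0) P.nil))) (P.cons (P.cons (P.lf 0 192826 0) (P.cons (P.lf 21538 0 0) P.nil)) (P.cons (P.cons (P.lf 7889 0 0) P.nil) P.nil)))))) 151388)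
 (EL.cons 1 (TM.mk (P.cons (P.cons (P.lf 1161817 0 0) (P.cons (P.lf 0 2144191 0) (P.cons (P.lf 64700 0 0) (P.cons (P.lf 955929 0 0) (P.cons (P.lf 89152 0 0) (P.cons (P.lf 0 40876 0) P.nil)))))) (P.cons (P.cons (P.lf 7218866 0 0) (P.cons (P.lf 0 7078483 0) (P.cons (P.lf 0 2667429 0) (P.cons (P.lf 671083 0 0) (P.cons (P.lf 34683 0 0) P.nil))))) (P.cons (P.cons (P.lf 11332764 0 0) (P.cons (P.lf 0 1425766 0) (P.cons (P.lf 0 559050 0) (P.cons (P.lf 116396 0 0) P.nil)))) (P.cons (P.cons (P.lf 333311 0 0) (P.cons (P.lf 0 47488 0) (P.cons (P.lf 0 17960 0) P.nil))) (P.cons (P.cons (P.lf 0 114348 0) (P.cons (P.lf 10606 0 0) P.nil)) (P.cons (P.cons (P.lf 0 6086 0) P.nil) P.nil)))))) 76964)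
 (EL.cons 5 (TM.mk (P.cons (P.cons (P.lf 562752 0 0) (P.cons (P.lf 0 1038588 0) (P.cons (P.lf 31338 0 0) (P.cons (P.lf 463026 0 0) (P.cons (P.lf 43182 0 0) (P.cons (P.lf 0 19798 0) P.nil)))))) (P.cons (P.cons (P.lf 3553940 0 0) (P.cons (P.lf 0 3534408 0) (P.cons (P.lf 0 1288836 0) (P.cons (P.lf 372216 0 0) (P.cons (P.lf 21198 0 0) P.nil))))) (P.cons (P.cons (P.lf 5848428 0 0) (P.cons (P.lf 0 1045362 0) (P.cons (P.lf 0 402220 0) (P.cons (P.lf 91956 0 0) P.nil)))) (P.cons (P.cons (P.lf 739394 0 0) (P.cons (P.lf 0 111982 0) (P.cons (P.lf 0 43160 0) P.nil))) (P.cons (P.cons (P.lf 0 8460 0) (P.cons (P.lf 0 2084 0) P.nil)) (P.cons (P.cons (P.lf 0 5770 0) P.nil) P.nil)))))) 43022)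
 EL.nil)))
noncomputable def S140_154_216_364_6 : EL := (EL.cons 12 (TM.mk (P.lf 8589934592 0 0) 0)
 (EL.cons 3 (TM.mk (P.cons (P.lf 0 2795377237 0) (P.cons (P.lf 113188447 0 0) (P.cons (P.lf 4815735 0 0) (P.cons (P.lf 28027 0 0) (P.cons (P.lf 0 3003 0) (P.cons (P.lf 0 90 0) P.nil)))))) 67)
 (EL.cons 7 (TM.mk (P.cons (P.lf 0 1354004171 0) (P.cons (P.lf 0 83086409 0) (P.cons (P.lf 696363 0 0) (P.cons (P.lf 79830 0 0) (P.cons (P.lf 1364 0 0) (P.cons (P.lf 0 28 0) P.nil)))))) 46)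
 EL.nil)))
noncomputable def S140_154_216_364_7 : EL := (EL.cons 12 (TM.mk (P.cons (P.cons (P.lf 220543338 0 0) (P.cons (P.lf 0 203511608 0) (P.cons (P.lf 0 87756496 0) (P.lf 9750720 0 0)))) (P.cons (P.cons (P.lf 682861972 0 0) (P.cons (P.lf 0 37464536 0) (P.cons (P.lf 0 16155128 0) (P.lf 1795008 0 0)))) (P.cons (P.cons (P.lf 4730514 0 0) (P.cons (P.lf 0 1984952 0) (P.cons (P.lf 0 855928 0) (P.lf 95096 0 0)))) (P.cons (P.cons (P.lf 0 1934206 0) (P.cons (P.lf 27504 0 0) (P.cons (P.lf 11856 0 0) P.nil))) (P.cons (P.cons (P.lf 0 61828 0) (P.cons (P.lf 6048 0 0) P.nil)) (P.cons (P.cons (P.lf 1830 0 0) P.nil) P.nil)))))) 8828)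
 (EL.cons 3 (TM.mk (P.cons (P.cons (P.lf 3549604856 0 0) (P.cons (P.lf 0 132455424 0) (P.cons (P.lf 0 57116268 0) (P.lf 6346250 0 0)))) (P.cons (P.cons (P.lf 0 32851089 0) (P.cons (P.lf 0 19020480 0) (P.cons (P.lf 0 8201844 0) (P.lf 911310 0 0)))) (P.cons (P.cons (P.lf 0 25678631 0) (P.cons (P.lf 0 76384 0) (P.cons (P.lf 0 32934 0) (P.lf 3654 0 0)))) (P.cons (P.cons (P.lf 0 1455153 0) (P.cons (P.lf 113546 0 0) (P.cons (P.lf 48958 0 0) P.nil))) (P.cons (P.cons (P.lf 35642 0 0) (P.cons (P.lf 5538 0 0) P.nil)) (P.cons (P.cons (P.lf 5510 0 0) P.nil) P.nil)))))) 25654)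
 (EL.cons 7 (TM.mk (P.cons (P.cons (P.lf 0 2693047722 0) (P.cons (P.lf 177923007 0 0) (P.cons (P.lf 76722408 0 0) (P.lf 0 8524710 0)))) (P.cons (P.cons (P.lf 24114463 0 0) (P.cons (P.lf 13962061 0 0) (P.cons (P.lf 6020597 0 0) (P.lf 0 668957 0)))) (P.cons (P.cons (P.lf 17621412 0 0) (P.cons (P.lf 0 654976 0) (P.cons (P.lf 0 282432 0) (P.lf 31379 0 0)))) (P.cons (P.cons (P.lf 0 171245 0) (P.cons (P.lf 0 63694 0) (P.cons (P.lf 0 27465 0) P.nil))) (P.cons (P.cons (P.lf 0 62128 0) (P.cons (P.lf 1348 0 0) P.nil)) (P.cons (P.cons (P.lf 0 956 0) P.nil) P.nil)))))) 16262)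
 (EL.cons 10 (TM.mk (P.cons (P.cons (P.lf 0 505830084 0) (P.cons (P.lf 0 471227520 0) (P.cons (P.lf 48363273 0 0) (P.cons (P.lf 10058214 0 0) (P.lf 0 838182 0))))) (P.cons (P.cons (P.lf 0 62078988 0) (P.cons (P.lf 0 57832320 0) (P.cons (P.lf 5935476 0 0) (P.cons (P.lf 1234413 0 0) (P.lf 0 102867 0))))) (P.cons (P.cons (P.lf 0 1384392 0) (P.cons (P.lf 0 1289691 0) (P.cons (P.lf 132363 0 0) (P.cons (P.lf 27528 0 0) P.nil)))) (P.cons (P.cons (P.lf 91572 0 0) (P.cons (P.lf 85305 0 0) (P.cons (P.lf 0 8754 0) P.nil))) (P.cons (P.cons (P.lf 4542 0 0) (P.cons (P.lf 4233 0 0) P.nil)) (P.cons (P.cons (P.lf 9 0 0) P.nil) P.nil)))))) 5007)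
 EL.nil))))
noncomputable def S140_154_216_364_8 : EL := (EL.cons 12 (TM.mk (P.cons (P.cons (P.lf 5662366 0 0) (P.cons (P.lf 0 10450166 0) (P.cons (P.lf 315340 0 0) (P.cons (P.lf 4658922 0 0) (P.cons (P.lf 434512 0 0) (P.cons (P.lf 0 199230 0) P.nil)))))) (P.cons (P.cons (P.lf 35064448 0 0) (P.cons (P.lf 0 34280328 0) (P.cons (P.lf 0 13006852 0) (P.cons (P.lf 3173430 0 0) (P.cons (P.lf 159978 0 0) P.nil))))) (P.cons (P.cons (P.lf 54527426 0 0) (P.cons (P.lf 0 6282606 0) (P.cons (P.lf 0 2451676 0) (P.cons (P.lf 523046 0 0) P.nil)))) (P.cons (P.cons (P.lf 652790 0 0) (P.cons (P.lf 0 263790 0) (P.cons (P.lf 0 97736 0) P.nil))) (P.cons (P.cons (P.lf 0 308090 0) (P.cons (P.lf 22298 0 0) P.nil)) (P.cons (P.cons (P.lf 0 11866 0) P.nil) P.nil)))))) 237066)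
 (EL.cons 3 (TM.mk (P.cons (P.cons (P.lf 184112213 0 0) (P.cons (P.lf 0 178395779 0) (P.cons (P.lf 0 69080970 0) (P.cons (P.lf 15313315 0 0) (P.cons (P.lf 707006 0 0) (P.cons (P.lf 0 324171 0) P.nil)))))) (P.cons (P.cons (P.lf 574005252 0 0) (P.cons (P.lf 0 62460111 0) (P.cons (P.lf 0 24362682 0) (P.cons (P.lf 5209734 0 0) (P.cons (P.lf 231675 0 0) P.nil))))) (P.cons (P.cons (P.lf 14647314 0 0) (P.cons (P.lf 0 4898019 0) (P.cons (P.lf 0 1823639 0) (P.cons (P.lf 483421 0 0) P.nil)))) (P.cons (P.cons (P.lf 0 6317858 0) (P.cons (P.lf 379435 0 0) (P.cons (P.lf 167644 0 0) P.nil))) (P.cons (P.cons (P.lf 0 433655 0) (P.cons (P.lf 70748 0 0) P.nil)) (P.cons (P.cons (P.lf 17558 0 0) P.nil) P.nil)))))) 491959)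
 (EL.cons 7 (TM.mk (P.cons (P.cons (P.lf 0 137393428 0) (P.cons (P.lf 135095650 0 0) (P.cons (P.lf 50584114 0 0) (P.cons (P.lf 0 13088089 0) (P.cons (P.lf 0 691266 0) (P.cons (P.lf 316955 0 0) P.nil)))))) (P.cons (P.cons (P.lf 0 421350739 0) (P.cons (P.lf 45849083 0 0) (P.cons (P.lf 17883518 0 0) (P.cons (P.lf 0 3824227 0) (P.cons (P.lf 0 170059 0) P.nil))))) (P.cons (P.cons (P.lf 10706376 0 0) (P.cons (P.lf 1260437 0 0) (P.cons (P.lf 427894 0 0) (P.cons (P.lf 0 160097 0) P.nil)))) (P.cons (P.cons (P.lf 4659624 0 0) (P.cons (P.lf 0 445610 0) (P.cons (P.lf 0 183902 0) P.nil))) (P.cons (P.cons (P.lf 0 30092 0) (P.cons (P.lf 0 25174 0) P.nil)) (P.cons (P.cons (P.lf 0 24957 0) P.nil) P.nil)))))) 280660)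
 (EL.cons 10 (TM.mk (P.cons (P.cons (P.lf 0 25973994 0) (P.cons (P.lf 0 229056 0) (P.cons (P.lf 35147262 0 0) (P.cons (P.lf 6704784 0 0) (P.cons (P.lf 0 2577624 0) (P.cons (P.lf 0 55998 0) P.nil)))))) (P.cons (P.cons (P.lf 0 83610234 0) (P.cons (P.lf 0 70536834 0) (P.cons (P.lf 18015948 0 0) (P.cons (P.lf 3561234 0 0) (P.cons (P.lf 0 916194 0) P.nil))))) (P.cons (P.cons (P.lf 0 10498224 0) (P.cons (P.lf 0 8939184 0) (P.cons (P.lf 2149704 0 0) (P.cons (P.lf 425856 0 0) P.nil)))) (P.cons (P.cons (P.lf 0 55980 0) (P.cons (P.lf 0 18960 0) (P.cons (P.lf 50580 0 0) P.nil))) (P.cons (P.cons (P.lf 48504 0 0) (P.cons (P.lf 43698 0 0) P.nil)) (P.cons (P.cons (P.lf 2124 0 0) P.nil) P.nil)))))) 343902)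
 EL.nil))))
noncomputable def S140_154_216_364_9 : EL := (EL.cons 3 (TM.mk (P.cons (P.lf 0 2795377237 0) (P.cons (P.lf 113188447 0 0) (P.cons (P.lf 4815735 0 0) (P.cons (P.lf 28027 0 0) (P.cons (P.lf 0 3003 0) (P.cons (P.lf 0 90 0) P.nil)))))) 67)
 (EL.cons 7 (TM.mk (P.cons (P.lf 0 1354004171 0) (P.cons (P.lf 0 83086409 0) (P.cons (P.lf 696363 0 0) (P.cons (P.lf 79830 0 0) (P.cons (P.lf 1364 0 0) (P.cons (P.lf 0 28 0) P.nil)))))) 46)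
 EL.nil))
noncomputable def S140_154_216_364_10 : EL := (EL.cons 3 (TM.mk (P.cons (P.cons (P.lf 0 71770258 0) (P.cons (P.lf 66227712 0 0) (P.cons (P.lf 28558134 0 0) (P.lf 0 3173125 0)))) (P.cons (P.cons (P.lf 0 219314109 0) (P.cons (P.lf 9510240 0 0) (P.cons (P.lf 4100922 0 0) (P.lf 0 455655 0)))) (P.cons (P.cons (P.lf 7582198 0 0) (P.cons (P.lf 38192 0 0) (P.cons (P.lf 16467 0 0) (P.lf 0 1827 0)))) (P.cons (P.cons (P.lf 1075320 0 0) (P.cons (P.lf 0 56773 0) (P.cons (P.lf 0 24479 0) P.nil))) (P.cons (P.cons (P.lf 0 562 0) (P.cons (P.lf 0 2769 0) P.nil)) (P.cons (P.cons (P.lf 0 2719 0) P.nil) P.nil)))))) 6327)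
 (EL.cons 7 (TM.mk (P.cons (P.cons (P.lf 0 34763547 0) (P.cons (P.lf 32078889 0 0) (P.cons (P.lf 13832778 0 0) (P.lf 0 1536975 0)))) (P.cons (P.cons (P.lf 0 109770581 0) (P.cons (P.lf 7873888 0 0) (P.cons (P.lf 3395309 0 0) (P.lf 0 377255 0)))) (P.cons (P.cons (P.lf 0 7332780 0) (P.cons (P.lf 658760 0 0) (P.cons (P.lf 284064 0 0) (P.lf 0 31561 0)))) (P.cons (P.cons (P.lf 316534 0 0) (P.cons (P.lf 9935 0 0) (P.cons (P.lf 4284 0 0) P.nil))) (P.cons (P.cons (P.lf 35219 0 0) (P.cons (P.lf 0 1760 0) P.nil)) (P.cons (P.cons (P.lf 304 0 0) P.nil) P.nil)))))) 3178)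
 EL.nil))
noncomputable def S140_154_216_364_11 : EL := (EL.cons 3 (TM.mk (P.cons (P.cons (P.lf 0 1842673 0) (P.cons (P.lf 3400741 0 0) (P.cons (P.lf 0 102618 0) (P.cons (P.lf 0 1516127 0) (P.cons (P.lf 0 141400 0) (P.cons (P.lf 64833 0 0) P.nil)))))) (P.cons (P.cons (P.lf 0 11336226 0) (P.cons (P.lf 11017965 0 0) (P.cons (P.lf 4236906 0 0) (P.cons (P.lf 0 971322 0) (P.cons (P.lf 0 46335 0) P.nil))))) (P.cons (P.cons (P.lf 0 17279358 0) (P.cons (P.lf 1586949 0 0) (P.cons (P.lf 626623 0 0) (P.cons (P.lf 0 125783 0) P.nil)))) (P.cons (P.cons (P.lf 525742 0 0) (P.cons (P.lf 0 16193 0) (P.cons (P.lf 0 7790 0) P.nil))) (P.cons (P.cons (P.lf 139543 0 0) (P.cons (P.lf 0 14362 0) P.nil)) (P.cons (P.cons (P.lf 332 0 0) P.nil) P.nil)))))) 98247)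
 (EL.cons 7 (TM.mk (P.cons (P.cons (P.lf 0 892540 0) (P.cons (P.lf 1647226 0 0) (P.cons (P.lf 0 49706 0) (P.cons (P.lf 0 734371 0) (P.cons (P.lf 0 68490 0) (P.cons (P.lf 31403 0 0) P.nil)))))) (P.cons (P.cons (P.lf 0 5581867 0) (P.cons (P.lf 5504579 0 0) (P.cons (P.lf 2047178 0 0) (P.cons (P.lf 0 545281 0) (P.cons (P.lf 0 29419 0) P.nil))))) (P.cons (P.cons (P.lf 0 8933688 0) (P.cons (P.lf 1321037 0 0) (P.cons (P.lf 512284 0 0) (P.cons (P.lf 0 112763 0) P.nil)))) (P.cons (P.cons (P.lf 0 627420 0) (P.cons (P.lf 99472 0 0) (P.cons (P.lf 38068 0 0) P.nil))) (P.cons (P.cons (P.lf 46996 0 0) (P.cons (P.lf 0 1792 0) P.nil)) (P.cons (P.cons (P.lf 5415 0 0) P.nil) P.nil)))))) 50454)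
 EL.nil))
noncomputable def S140_154_216_364_12 : EL := (EL.cons 4 (TM.mk (P.cons (P.lf 2795377237 0 0) (P.cons (P.lf 0 113188447 0) (P.cons (P.lf 0 4815735 0) (P.cons (P.lf 0 28027 0) (P.cons (P.lf 3003 0 0) (P.cons (P.lf 90 0 0) P.nil)))))) 67)
 (EL.cons 8 (TM.mk (P.cons (P.lf 1354004171 0 0) (P.cons (P.lf 83086409 0 0) (P.cons (P.lf 0 696363 0) (P.cons (P.lf 0 79830 0) (P.cons (P.lf 0 1364 0) (P.cons (P.lf 28 0 0) P.nil)))))) 46)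
 EL.nil))
noncomputable def S140_154_216_364_13 : EL := (EL.cons 4 (TM.mk (P.cons (P.cons (P.lf 71770258 0 0) (P.cons (P.lf 0 66227712 0) (P.cons (P.lf 0 28558134 0) (P.lf 3173125 0 0)))) (P.cons (P.cons (P.lf 219314109 0 0) (P.cons (P.lf 0 9510240 0) (P.cons (P.lf 0 4100922 0) (P.lf 455655 0 0)))) (P.cons (P.cons (P.lf 0 7582198 0) (P.cons (P.lf 0 38192 0) (P.cons (P.lf 0 16467 0) (P.lf 1827 0 0)))) (P.cons (P.cons (P.lf 0 1075320 0) (P.cons (P.lf 56773 0 0) (P.cons (P.lf 24479 0 0) P.nil))) (P.cons (P.cons (P.lf 562 0 0) (P.cons (P.lf 2769 0 0) P.nil)) (P.cons (P.cons (P.lf 2719 0 0) P.nil) P.nil)))))) 6327)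
 (EL.cons 8 (TM.mk (P.cons (P.cons (P.lf 34763547 0 0) (P.cons (P.lf 0 32078889 0) (P.cons (P.lf 0 13832778 0) (P.lf 1536975 0 0)))) (P.cons (P.cons (P.lf 109770581 0 0) (P.cons (P.lf 0 7873888 0) (P.cons (P.lf 0 3395309 0) (P.lf 377255 0 0)))) (P.cons (P.cons (P.lf 7332780 0 0) (P.cons (P.lf 0 658760 0) (P.cons (P.lf 0 284064 0) (P.lf 31561 0 0)))) (P.cons (P.cons (P.lf 0 316534 0) (P.cons (P.lf 0 9935 0) (P.cons (P.lf 0 4284 0) P.nil))) (P.cons (P.cons (P.lf 0 35219 0) (P.cons (P.lf 1760 0 0) P.nil)) (P.cons (P.cons (P.lf 0 304 0) P.nil) P.nil)))))) 3178)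
 EL.nil))
noncomputable def S140_154_216_364_14 : EL := (EL.cons 4 (TM.mk (P.cons (P.cons (P.lf 1842673 0 0) (P.cons (P.lf 0 3400741 0) (P.cons (P.lf 102618 0 0) (P.cons (P.lf 1516127 0 0) (P.cons (P.lf 141400 0 0) (P.cons (P.lf 0 64833 0) P.nil)))))) (P.cons (P.cons (P.lf 11336226 0 0) (P.cons (P.lf 0 11017965 0) (P.cons (P.lf 0 4236906 0) (P.cons (P.lf 971322 0 0) (P.cons (P.lf 46335 0 0) P.nil))))) (P.cons (P.cons (P.lf 17279358 0 0) (P.cons (P.lf 0 1586949 0) (P.cons (P.lf 0 626623 0) (P.cons (P.lf 125783 0 0) P.nil)))) (P.cons (P.cons (P.lf 0 525742 0) (P.cons (P.lf 16193 0 0) (P.cons (P.lf 7790 0 0) P.nil))) (P.cons (P.cons (P.lf 0 139543 0) (P.cons (P.lf 14362 0 0) P.nil)) (P.cons (P.cons (P.lf 0 332 0) P.nil) P.nil)))))) 98247)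
 (EL.cons 8 (TM.mk (P.cons (P.cons (P.lf 892540 0 0) (P.cons (P.lf 0 1647226 0) (P.cons (P.lf 49706 0 0) (P.cons (P.lf 734371 0 0) (P.cons (P.lf 68490 0 0) (P.cons (P.lf 0 31403 0) P.nil)))))) (P.cons (P.cons (P.lf 5581867 0 0) (P.cons (P.lf 0 5504579 0) (P.cons (P.lf 0 2047178 0) (P.cons (P.lf 545281 0 0) (P.cons (P.lf 29419 0 0) P.nil))))) (P.cons (P.cons (P.lf 8933688 0 0) (P.cons (P.lf 0 1321037 0) (P.cons (P.lf 0 512284 0) (P.cons (P.lf 112763 0 0) P.nil)))) (P.cons (P.cons (P.lf 627420 0 0) (P.cons (P.lf 0 99472 0) (P.cons (P.lf 0 38068 0) P.nil))) (P.cons (P.cons (P.lf 0 46996 0) (P.cons (P.lf 1792 0 0) P.nil)) (P.cons (P.cons (P.lf 0 5415 0) P.nil) P.nil)))))) 50454)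
 EL.nil))
noncomputable def S140_154_216_364_15 : EL := (EL.cons 4 (TM.mk (P.cons (P.lf 0 1940661147 0) (P.cons (P.lf 157159770 0 0) (P.cons (P.lf 3504744 0 0) (P.cons (P.lf 0 231830 0) (P.cons (P.lf 0 11505 0) (P.cons (P.lf 0 22 0) P.nil)))))) 112)
 (EL.cons 8 (TM.mk (P.cons (P.lf 0 940003106 0) (P.cons (P.lf 0 19619918 0) (P.cons (P.lf 4438446 0 0) (P.cons (P.lf 144642 0 0) (P.cons (P.lf 0 2561 0) (P.cons (P.lf 0 250 0) P.nil)))))) 67)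
 EL.nil))
noncomputable def S140_154_216_364_16 : EL := (EL.cons 4 (TM.mk (P.cons (P.cons (P.lf 0 49825743 0) (P.cons (P.lf 45977890 0 0) (P.cons (P.lf 19826183 0 0) (P.lf 0 2202908 0)))) (P.cons (P.cons (P.lf 0 150238996 0) (P.cons (P.lf 4740679 0 0) (P.cons (P.lf 2044233 0 0) (P.lf 0 227135 0)))) (P.cons (P.cons (P.lf 11514761 0 0) (P.cons (P.lf 0 320031 0) (P.cons (P.lf 0 138001 0) (P.lf 15334 0 0)))) (P.cons (P.cons (P.lf 796188 0 0) (P.cons (P.lf 0 52322 0) (P.cons (P.lf 0 22560 0) P.nil))) (P.cons (P.cons (P.lf 0 38213 0) (P.cons (P.lf 0 389 0) P.nil)) (P.cons (P.cons (P.lf 0 3375 0) P.nil) P.nil)))))) 6580)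
 (EL.cons 8 (TM.mk (P.cons (P.cons (P.lf 0 24134225 0) (P.cons (P.lf 22270430 0 0) (P.cons (P.lf 9603260 0 0) (P.lf 0 1067028 0)))) (P.cons (P.cons (P.lf 0 75229841 0) (P.cons (P.lf 4564605 0 0) (P.cons (P.lf 1968308 0 0) (P.lf 0 218700 0)))) (P.cons (P.cons (P.lf 0 1963405 0) (P.cons (P.lf 197630 0 0) (P.cons (P.lf 85219 0 0) (P.lf 0 9467 0)))) (P.cons (P.cons (P.lf 557407 0 0) (P.cons (P.lf 0 21260 0) (P.cons (P.lf 0 9167 0) P.nil))) (P.cons (P.cons (P.lf 25060 0 0) (P.cons (P.lf 0 2320 0) P.nil)) (P.cons (P.cons (P.lf 0 1188 0) P.nil) P.nil)))))) 3227)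
 EL.nil))
noncomputable def S140_154_216_364_17 : EL := (EL.cons 4 (TM.mk (P.cons (P.cons (P.lf 0 1279256 0) (P.cons (P.lf 2360928 0 0) (P.cons (P.lf 0 71241 0) (P.cons (P.lf 0 1052555 0) (P.cons (P.lf 0 98165 0) (P.cons (P.lf 45010 0 0) P.nil)))))) (P.cons (P.cons (P.lf 0 7818256 0) (P.cons (P.lf 7553509 0 0) (P.cons (P.lf 2944311 0 0) (P.cons (P.lf 0 631710 0) (P.cons (P.lf 0 28192 0) P.nil))))) (P.cons (P.cons (P.lf 0 11675139 0) (P.cons (P.lf 787933 0 0) (P.cons (P.lf 316046 0 0) (P.cons (P.lf 0 58206 0) P.nil)))) (P.cons (P.cons (P.lf 864296 0 0) (P.cons (P.lf 0 69053 0) (P.cons (P.lf 0 28089 0) P.nil))) (P.cons (P.cons (P.lf 102840 0 0) (P.cons (P.lf 0 11487 0) P.nil)) (P.cons (P.cons (P.lf 0 4207 0) P.nil) P.nil)))))) 80751)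
 (EL.cons 8 (TM.mk (P.cons (P.cons (P.lf 0 619636 0) (P.cons (P.lf 1143569 0 0) (P.cons (P.lf 0 34507 0) (P.cons (P.lf 0 509829 0) (P.cons (P.lf 0 47548 0) (P.cons (P.lf 21801 0 0) P.nil)))))) (P.cons (P.cons (P.lf 0 3850062 0) (P.cons (P.lf 3775191 0 0) (P.cons (P.lf 1422629 0 0) (P.cons (P.lf 0 357911 0) (P.cons (P.lf 0 18498 0) P.nil))))) (P.cons (P.cons (P.lf 0 6044141 0) (P.cons (P.lf 760409 0 0) (P.cons (P.lf 298160 0 0) (P.cons (P.lf 0 62078 0) P.nil)))) (P.cons (P.cons (P.lf 0 177766 0) (P.cons (P.lf 25327 0 0) (P.cons (P.lf 9579 0 0) P.nil))) (P.cons (P.cons (P.lf 60986 0 0) (P.cons (P.lf 0 5657 0) P.nil)) (P.cons (P.cons (P.lf 3246 0 0) P.nil) P.nil)))))) 41036)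
 EL.nil))
noncomputable def S140_154_216_364_18 : EL := (EL.cons 4 (TM.mk (P.cons (P.lf 1347283520 0 0) (P.cons (P.lf 0 163659767 0) (P.cons (P.lf 0 336299 0) (P.cons (P.lf 433920 0 0) (P.cons (P.lf 8204 0 0) (P.cons (P.lf 0 633 0) P.nil)))))) 143)
 (EL.cons 8 (TM.mk (P.cons (P.lf 652587236 0 0) (P.cons (P.lf 0 12803181 0) (P.cons (P.lf 0 4757117 0) (P.cons (P.lf 0 5657 0) (P.cons (P.lf 11717 0 0) (P.cons (P.lf 341 0 0) P.nil)))))) 78)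
 EL.nil))
noncomputable def S140_154_216_364_19 : EL := (EL.cons 4 (TM.mk (P.cons (P.cons (P.lf 34590996 0 0) (P.cons (P.lf 0 31919664 0) (P.cons (P.lf 0 13764118 0) (P.lf 1529345 0 0)))) (P.cons (P.cons (P.lf 102901203 0 0) (P.cons (P.lf 0 1998698 0) (P.cons (P.lf 0 861860 0) (P.lf 95760 0 0)))) (P.cons (P.cons (P.lf 0 12276910 0) (P.cons (P.lf 410431 0 0) (P.cons (P.lf 176983 0 0) (P.lf 0 19665 0)))) (P.cons (P.cons (P.lf 0 409090 0) (P.cons (P.lf 33317 0 0) (P.cons (P.lf 14366 0 0) P.nil))) (P.cons (P.cons (P.lf 61673 0 0) (P.cons (P.lf 0 1584 0) P.nil)) (P.cons (P.cons (P.lf 2415 0 0) P.nil) P.nil)))))) 5793)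
 (EL.cons 8 (TM.mk (P.cons (P.cons (P.lf 16754931 0 0) (P.cons (P.lf 0 15461011 0) (P.cons (P.lf 0 6666962 0) (P.lf 740773 0 0)))) (P.cons (P.cons (P.lf 51549094 0 0) (P.cons (P.lf 0 2542892 0) (P.cons (P.lf 0 1096523 0) (P.lf 121835 0 0)))) (P.cons (P.cons (P.lf 0 780550 0) (P.cons (P.lf 17746 0 0) (P.cons (P.lf 7652 0 0) (P.lf 0 850 0)))) (P.cons (P.cons (P.lf 0 532309 0) (P.cons (P.lf 25929 0 0) (P.cons (P.lf 11180 0 0) P.nil))) (P.cons (P.cons (P.lf 0 4583 0) (P.cons (P.lf 1264 0 0) P.nil)) (P.cons (P.cons (P.lf 2239 0 0) P.nil) P.nil)))))) 3443)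
 EL.nil))
noncomputable def S140_154_216_364_20 : EL := (EL.cons 4 (TM.mk (P.cons (P.cons (P.lf 888110 0 0) (P.cons (P.lf 0 1639050 0) (P.cons (P.lf 49458 0 0) (P.cons (P.lf 730725 0 0) (P.cons (P.lf 68150 0 0) (P.cons (P.lf 0 31247 0) P.nil)))))) (P.cons (P.cons (P.lf 5391780 0 0) (P.cons (P.lf 0 5177576 0) (P.cons (P.lf 0 2046060 0) (P.cons (P.lf 408970 0 0) (P.cons (P.lf 16812 0 0) P.nil))))) (P.cons (P.cons (P.lf 7884036 0 0) (P.cons (P.lf 0 331856 0) (P.cons (P.lf 0 136730 0) (P.cons (P.lf 21391 0 0) P.nil)))) (P.cons (P.cons (P.lf 0 937583 0) (P.cons (P.lf 79139 0 0) (P.cons (P.lf 31905 0 0) P.nil))) (P.cons (P.cons (P.lf 0 61117 0) (P.cons (P.lf 7026 0 0) P.nil)) (P.cons (P.cons (P.lf 6770 0 0) P.nil) P.nil)))))) 63143)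
 (EL.cons 8 (TM.mk (P.cons (P.cons (P.lf 430176 0 0) (P.cons (P.lf 0 793910 0) (P.cons (P.lf 23956 0 0) (P.cons (P.lf 353943 0 0) (P.cons (P.lf 33010 0 0) (P.cons (P.lf 0 15135 0) P.nil)))))) (P.cons (P.cons (P.lf 2655446 0 0) (P.cons (P.lf 0 2588740 0) (P.cons (P.lf 0 988615 0) (P.cons (P.lf 234145 0 0) (P.cons (P.lf 11505 0 0) P.nil))))) (P.cons (P.cons (P.lf 4087112 0 0) (P.cons (P.lf 0 420415 0) (P.cons (P.lf 0 167044 0) (P.cons (P.lf 32426 0 0) P.nil)))) (P.cons (P.cons (P.lf 0 51101 0) (P.cons (P.lf 8314 0 0) (P.cons (P.lf 3431 0 0) P.nil))) (P.cons (P.cons (P.lf 0 54591 0) (P.cons (P.lf 5574 0 0) P.nil)) (P.cons (P.cons (P.lf 0 791 0) P.nil) P.nil)))))) 32855)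
 EL.nil))
noncomputable def S140_154_216_364_21 : EL := (EL.cons 4 (TM.mk (P.cons (P.cons (P.lf 0 3621375114 0) (P.cons (P.lf 198683136 0 0) (P.cons (P.lf 85674402 0 0) (P.lf 0 9519375 0)))) (P.cons (P.cons (P.lf 0 186463020 0) (P.cons (P.lf 28530720 0 0) (P.cons (P.lf 12302766 0 0) (P.lf 0 1366965 0)))) (P.cons (P.cons (P.lf 33260829 0 0) (P.cons (P.lf 114576 0 0) (P.cons (P.lf 49401 0 0) (P.lf 0 5481 0)))) (P.cons (P.cons (P.lf 2530473 0 0) (P.cons (P.lf 0 170319 0) (P.cons (P.lf 0 73437 0) P.nil))) (P.cons (P.cons (P.lf 0 36204 0) (P.cons (P.lf 0 8307 0) P.nil)) (P.cons (P.cons (P.lf 0 8229 0) P.nil) P.nil)))))) 19308)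
 (EL.cons 8 (TM.mk (P.cons (P.cons (P.lf 2658284175 0 0) (P.cons (P.lf 0 145844118 0) (P.cons (P.lf 0 62889630 0) (P.lf 6987735 0 0)))) (P.cons (P.cons (P.lf 0 133885044 0) (P.cons (P.lf 0 6088173 0) (P.cons (P.lf 0 2625288 0) (P.lf 291702 0 0)))) (P.cons (P.cons (P.lf 0 24954192 0) (P.cons (P.lf 1313736 0 0) (P.cons (P.lf 566496 0 0) (P.lf 0 62940 0)))) (P.cons (P.cons (P.lf 487779 0 0) (P.cons (P.lf 73629 0 0) (P.cons (P.lf 31749 0 0) P.nil))) (P.cons (P.cons (P.lf 97347 0 0) (P.cons (P.lf 0 3108 0) P.nil)) (P.cons (P.cons (P.lf 1260 0 0) P.nil) P.nil)))))) 13065)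
 (EL.cons 11 (TM.mk (P.cons (P.cons (P.lf 505830084 0 0) (P.cons (P.lf 471227520 0 0) (P.cons (P.lf 0 48363273 0) (P.cons (P.lf 0 10058214 0) (P.lf 838182 0 0))))) (P.cons (P.cons (P.lf 62078988 0 0) (P.cons (P.lf 57832320 0 0) (P.cons (P.lf 0 5935476 0) (P.cons (P.lf 0 1234413 0) (P.lf 102867 0 0))))) (P.cons (P.cons (P.lf 1384392 0 0) (P.cons (P.lf 1289691 0 0) (P.cons (P.lf 0 132363 0) (P.cons (P.lf 0 27528 0) P.nil)))) (P.cons (P.cons (P.lf 0 91572 0) (P.cons (P.lf 0 85305 0) (P.cons (P.lf 8754 0 0) P.nil))) (P.cons (P.cons (P.lf 0 4542 0) (P.cons (P.lf 0 4233 0) P.nil)) (P.cons (P.cons (P.lf 0 9 0) P.nil) P.nil)))))) 5007)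
 EL.nil)))
noncomputable def S140_154_216_364_22 : EL := (EL.cons 4 (TM.mk (P.cons (P.cons (P.lf 0 92977443 0) (P.cons (P.lf 90898260 0 0) (P.cons (P.lf 34489176 0 0) (P.cons (P.lf 0 8414721 0) (P.cons (P.lf 0 424203 0) (P.cons (P.lf 194502 0 0) P.nil)))))) (P.cons (P.cons (P.lf 0 292670739 0) (P.cons (P.lf 36739038 0 0) (P.cons (P.lf 14299794 0 0) (P.cons (P.lf 0 3090528 0) (P.cons (P.lf 0 139005 0) P.nil))))) (P.cons (P.cons (P.lf 0 15963336 0) (P.cons (P.lf 3242484 0 0) (P.cons (P.lf 1225131 0 0) (P.cons (P.lf 0 304602 0) P.nil)))) (P.cons (P.cons (P.lf 3421800 0 0) (P.cons (P.lf 0 197814 0) (P.cons (P.lf 0 87717 0) P.nil))) (P.cons (P.cons (P.lf 286599 0 0) (P.cons (P.lf 0 42555 0) P.nil)) (P.cons (P.cons (P.lf 0 8613 0) P.nil) P.nil)))))) 196845)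
 (EL.cons 8 (TM.mk (P.cons (P.cons (P.lf 68250444 0 0) (P.cons (P.lf 0 66724212 0) (P.cons (P.lf 0 25316910 0) (P.cons (P.lf 6176859 0 0) (P.cons (P.lf 311388 0 0) (P.cons (P.lf 0 142776 0) P.nil)))))) (P.cons (P.cons (P.lf 207884436 0 0) (P.cons (P.lf 0 20172252 0) (P.cons (P.lf 0 7918170 0) (P.cons (P.lf 1639473 0 0) (P.cons (P.lf 70320 0 0) P.nil))))) (P.cons (P.cons (P.lf 0 9820032 0) (P.cons (P.lf 30300 0 0) (P.cons (P.lf 42195 0 0) (P.cons (P.lf 23667 0 0) P.nil)))) (P.cons (P.cons (P.lf 0 2643522 0) (P.cons (P.lf 272541 0 0) (P.cons (P.lf 110985 0 0) P.nil))) (P.cons (P.cons (P.lf 38544 0 0) (P.cons (P.lf 11691 0 0) P.nil)) (P.cons (P.cons (P.lf 15186 0 0) P.nil) P.nil)))))) 115092)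
 (EL.cons 11 (TM.mk (P.cons (P.cons (P.lf 12986997 0 0) (P.cons (P.lf 114528 0 0) (P.cons (P.lf 0 17573631 0) (P.cons (P.lf 0 3352392 0) (P.cons (P.lf 1288812 0 0) (P.cons (P.lf 27999 0 0) P.nil)))))) (P.cons (P.cons (P.lf 41805117 0 0) (P.cons (P.lf 35268417 0 0) (P.cons (P.lf 0 9007974 0) (P.cons (P.lf 0 1780617 0) (P.cons (P.lf 458097 0 0) P.nil))))) (P.cons (P.cons (P.lf 5249112 0 0) (P.cons (P.lf 4469592 0 0) (P.cons (P.lf 0 1074852 0) (P.cons (P.lf 0 212928 0) P.nil)))) (P.cons (P.cons (P.lf 27990 0 0) (P.cons (P.lf 9480 0 0) (P.cons (P.lf 0 25290 0) P.nil))) (P.cons (P.cons (P.lf 0 24252 0) (P.cons (P.lf 0 21849 0) P.nil)) (P.cons (P.cons (P.lf 0 1062 0) P.nil) P.nil)))))) 171951)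
 EL.nil)))
noncomputable def S140_154_216_364_23 : EL := (EL.cons 4 (TM.mk (P.cons (P.cons (P.lf 2514101454 0 0) (P.cons (P.lf 0 137933670 0) (P.cons (P.lf 0 59478549 0) (P.lf 6608724 0 0)))) (P.cons (P.cons (P.lf 27650757 0 0) (P.cons (P.lf 0 14222037 0) (P.cons (P.lf 0 6132699 0) (P.lf 681405 0 0)))) (P.cons (P.cons (P.lf 0 32663742 0) (P.cons (P.lf 960099 0 0) (P.cons (P.lf 414009 0 0) (P.lf 0 46005 0)))) (P.cons (P.cons (P.lf 0 1069986 0) (P.cons (P.lf 156966 0 0) (P.cons (P.lf 67680 0 0) P.nil))) (P.cons (P.cons (P.lf 137451 0 0) (P.cons (P.lf 1164 0 0) P.nil)) (P.cons (P.cons (P.lf 8172 0 0) P.nil) P.nil)))))) 19152)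
 (EL.cons 8 (TM.mk (P.cons (P.cons (P.lf 0 1845485733 0) (P.cons (P.lf 101250738 0 0) (P.cons (P.lf 43660461 0 0) (P.lf 0 4851159 0)))) (P.cons (P.cons (P.lf 167674386 0 0) (P.cons (P.lf 126876 0 0) (P.cons (P.lf 54708 0 0) (P.lf 0 6081 0)))) (P.cons (P.cons (P.lf 16739895 0 0) (P.cons (P.lf 0 1257618 0) (P.cons (P.lf 0 542298 0) (P.lf 60252 0 0)))) (P.cons (P.cons (P.lf 0 1181736 0) (P.cons (P.lf 0 22482 0) (P.cons (P.lf 0 9693 0) P.nil))) (P.cons (P.cons (P.lf 0 86628 0) (P.cons (P.lf 5865 0 0) P.nil)) (P.cons (P.cons (P.lf 2310 0 0) P.nil) P.nil)))))) 13863)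
 (EL.cons 11 (TM.mk (P.cons (P.cons (P.lf 0 351167196 0) (P.cons (P.lf 0 327144732 0) (P.cons (P.lf 33575691 0 0) (P.cons (P.lf 6982806 0 0) (P.lf 0 581898 0))))) (P.cons (P.cons (P.lf 0 28878465 0) (P.cons (P.lf 0 26902962 0) (P.cons (P.lf 2761116 0 0) (P.cons (P.lf 574233 0 0) (P.lf 0 47850 0))))) (P.cons (P.cons (P.lf 1388952 0 0) (P.cons (P.lf 1293936 0 0) (P.cons (P.lf 0 132801 0) (P.cons (P.lf 0 27618 0) P.nil)))) (P.cons (P.cons (P.lf 180255 0 0) (P.cons (P.lf 167922 0 0) (P.cons (P.lf 0 17232 0) P.nil))) (P.cons (P.cons (P.lf 2289 0 0) (P.cons (P.lf 2133 0 0) P.nil)) (P.cons (P.cons (P.lf 0 276 0) P.nil) P.nil)))))) 10896)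
 EL.nil)))
noncomputable def S140_154_216_364_24 : EL := (EL.cons 4 (TM.mk (P.cons (P.cons (P.lf 64548606 0 0) (P.cons (P.lf 0 63105156 0) (P.cons (P.lf 0 23943747 0) (P.cons (P.lf 5841831 0 0) (P.cons (P.lf 294498 0 0) (P.cons (P.lf 0 135030 0) P.nil)))))) (P.cons (P.cons (P.lf 200569914 0 0) (P.cons (P.lf 0 22950480 0) (P.cons (P.lf 0 8957967 0) (P.cons (P.lf 1909023 0 0) (P.cons (P.lf 84579 0 0) P.nil))))) (P.cons (P.cons (P.lf 2744010 0 0) (P.cons (P.lf 0 1109586 0) (P.cons (P.lf 0 407307 0) (P.cons (P.lf 114525 0 0) P.nil)))) (P.cons (P.cons (P.lf 0 3174969 0) (P.cons (P.lf 273051 0 0) (P.cons (P.lf 112677 0 0) P.nil))) (P.cons (P.cons (P.lf 0 123840 0) (P.cons (P.lf 28047 0 0) P.nil)) (P.cons (P.cons (P.lf 18237 0 0) P.nil) P.nil)))))) 116631)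
 (EL.cons 8 (TM.mk (P.cons (P.cons (P.lf 0 47382150 0) (P.cons (P.lf 46322580 0 0) (P.cons (P.lf 17575998 0 0) (P.cons (P.lf 0 4288218 0) (P.cons (P.lf 0 216177 0) (P.cons (P.lf 99120 0 0) P.nil)))))) (P.cons (P.cons (P.lf 0 142403010 0) (P.cons (P.lf 12128712 0 0) (P.cons (P.lf 4785429 0 0) (P.cons (P.lf 0 964551 0) (P.cons (P.lf 0 40065 0) P.nil))))) (P.cons (P.cons (P.lf 12742848 0 0) (P.cons (P.lf 0 667893 0) (P.cons (P.lf 0 282159 0) (P.cons (P.lf 37041 0 0) P.nil)))) (P.cons (P.cons (P.lf 1808295 0 0) (P.cons (P.lf 0 212946 0) (P.cons (P.lf 0 85509 0) P.nil))) (P.cons (P.cons (P.lf 0 111417 0) (P.cons (P.lf 0 510 0) P.nil)) (P.cons (P.cons (P.lf 0 12846 0) P.nil) P.nil)))))) 69165)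
 (EL.cons 11 (TM.mk (P.cons (P.cons (P.lf 0 9016083 0) (P.cons (P.lf 0 79509 0) (P.cons (P.lf 12200307 0 0) (P.cons (P.lf 2327364 0 0) (P.cons (P.lf 0 894744 0) (P.cons (P.lf 0 19437 0) P.nil)))))) (P.cons (P.cons (P.lf 0 28657689 0) (P.cons (P.lf 0 24481506 0) (P.cons (P.lf 5759685 0 0) (P.cons (P.lf 1141935 0 0) (P.cons (P.lf 0 281799 0) P.nil))))) (P.cons (P.cons (P.lf 0 2453439 0) (P.cons (P.lf 0 2111412 0) (P.cons (P.lf 471966 0 0) (P.cons (P.lf 93759 0 0) P.nil)))) (P.cons (P.cons (P.lf 178212 0 0) (P.cons (P.lf 161241 0 0) (P.cons (P.lf 0 23550 0) P.nil))) (P.cons (P.cons (P.lf 24183 0 0) (P.cons (P.lf 21027 0 0) P.nil)) (P.cons (P.cons (P.lf 93 0 0) P.nil) P.nil)))))) 103458)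
 EL.nil)))
noncomputable def S140_154_216_364_25 : EL := (EL.cons 4 (TM.mk (P.cons (P.cons (P.lf 0 1745388402 0) (P.cons (P.lf 95758995 0 0) (P.cons (P.lf 41292354 0 0) (P.lf 0 4588038 0)))) (P.cons (P.cons (P.lf 51476790 0 0) (P.cons (P.lf 5996094 0 0) (P.cons (P.lf 2585580 0 0) (P.lf 0 287280 0)))) (P.cons (P.cons (P.lf 26460606 0 0) (P.cons (P.lf 0 1231296 0) (P.cons (P.lf 0 530952 0) (P.lf 58998 0 0)))) (P.cons (P.cons (P.lf 0 124800 0) (P.cons (P.lf 0 99954 0) (P.cons (P.lf 0 43098 0) P.nil))) (P.cons (P.cons (P.lf 0 166248 0) (P.cons (P.lf 4752 0 0) P.nil)) (P.cons (P.cons (P.lf 0 3393 0) P.nil) P.nil)))))) 17472)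
 (EL.cons 8 (TM.mk (P.cons (P.cons (P.lf 1281208995 0 0) (P.cons (P.lf 0 70292256 0) (P.cons (P.lf 0 30310812 0) (P.lf 3367866 0 0)))) (P.cons (P.cons (P.lf 0 168283986 0) (P.cons (P.lf 2758140 0 0) (P.cons (P.lf 1189341 0 0) (P.lf 0 132147 0)))) (P.cons (P.cons (P.lf 0 9115260 0) (P.cons (P.lf 997749 0 0) (P.cons (P.lf 430239 0 0) (P.lf 0 47802 0)))) (P.cons (P.cons (P.lf 1478670 0 0) (P.cons (P.lf 0 18885 0) (P.cons (P.lf 0 8142 0) P.nil))) (P.cons (P.cons (P.lf 49485 0 0) (P.cons (P.lf 0 6282 0) P.nil)) (P.cons (P.cons (P.lf 0 5421 0) P.nil) P.nil)))))) 12831)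
 (EL.cons 11 (TM.mk (P.cons (P.cons (P.lf 243794121 0 0) (P.cons (P.lf 227116776 0 0) (P.cons (P.lf 0 23309568 0) (P.cons (P.lf 0 4847739 0) (P.lf 403977 0 0))))) (P.cons (P.cons (P.lf 10177029 0 0) (P.cons (P.lf 9480843 0 0) (P.cons (P.lf 0 973041 0) (P.cons (P.lf 0 202365 0) (P.lf 16863 0 0))))) (P.cons (P.cons (P.lf 0 2196054 0) (P.cons (P.lf 0 2045826 0) (P.cons (P.lf 209967 0 0) (P.cons (P.lf 43665 0 0) P.nil)))) (P.cons (P.cons (P.lf 0 123078 0) (P.cons (P.lf 0 114657 0) (P.cons (P.lf 11766 0 0) P.nil))) (P.cons (P.cons (P.lf 5199 0 0) (P.cons (P.lf 4842 0 0) P.nil)) (P.cons (P.cons (P.lf 510 0 0) P.nil) P.nil)))))) 11934)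
 EL.nil)))
noncomputable def S140_154_216_364_26 : EL := (EL.cons 4 (TM.mk (P.cons (P.cons (P.lf 0 44812188 0) (P.cons (P.lf 43810089 0 0) (P.cons (P.lf 16622694 0 0) (P.cons (P.lf 0 4055628 0) (P.cons (P.lf 0 204450 0) (P.cons (P.lf 93744 0 0) P.nil)))))) (P.cons (P.cons (P.lf 0 137429043 0) (P.cons (P.lf 14159199 0 0) (P.cons (P.lf 5545899 0 0) (P.cons (P.lf 0 1161102 0) (P.cons (P.lf 0 50439 0) P.nil))))) (P.cons (P.cons (P.lf 3810348 0 0) (P.cons (P.lf 49692 0 0) (P.cons (P.lf 2319 0 0) (P.cons (P.lf 0 18858 0) P.nil)))) (P.cons (P.cons (P.lf 2521656 0 0) (P.cons (P.lf 0 248640 0) (P.cons (P.lf 0 100554 0) P.nil))) (P.cons (P.cons (P.lf 1353 0 0) (P.cons (P.lf 0 13236 0) P.nil)) (P.cons (P.cons (P.lf 0 20070 0) P.nil) P.nil)))))) 88620)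
 (EL.cons 8 (TM.mk (P.cons (P.cons (P.lf 32894556 0 0) (P.cons (P.lf 0 32158962 0) (P.cons (P.lf 0 12201951 0) (P.cons (P.lf 2977050 0 0) (P.cons (P.lf 150078 0 0) (P.cons (P.lf 0 68811 0) P.nil)))))) (P.cons (P.cons (P.lf 97529844 0 0) (P.cons (P.lf 0 7118070 0) (P.cons (P.lf 0 2828160 0) (P.cons (P.lf 549084 0 0) (P.cons (P.lf 21738 0 0) P.nil))))) (P.cons (P.cons (P.lf 0 12906297 0) (P.cons (P.lf 860025 0 0) (P.cons (P.lf 351426 0 0) (P.cons (P.lf 0 57957 0) P.nil)))) (P.cons (P.cons (P.lf 0 1067823 0) (P.cons (P.lf 143889 0 0) (P.cons (P.lf 57279 0 0) P.nil))) (P.cons (P.cons (P.lf 142467 0 0) (P.cons (P.lf 0 6378 0) P.nil)) (P.cons (P.cons (P.lf 8145 0 0) P.nil) P.nil)))))) 53649)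
 (EL.cons 11 (TM.mk (P.cons (P.cons (P.lf 6259320 0 0) (P.cons (P.lf 55197 0 0) (P.cons (P.lf 0 8469933 0) (P.cons (P.lf 0 1615746 0) (P.cons (P.lf 621165 0 0) (P.cons (P.lf 13494 0 0) P.nil)))))) (P.cons (P.cons (P.lf 19641849 0 0) (P.cons (P.lf 16993791 0 0) (P.cons (P.lf 0 3655641 0) (P.cons (P.lf 0 727353 0) (P.cons (P.lf 170484 0 0) P.nil))))) (P.cons (P.cons (P.lf 886902 0 0) (P.cons (P.lf 777540 0 0) (P.cons (P.lf 0 151158 0) (P.cons (P.lf 0 30207 0) P.nil)))) (P.cons (P.cons (P.lf 0 227025 0) (P.cons (P.lf 0 200574 0) (P.cons (P.lf 36591 0 0) P.nil))) (P.cons (P.cons (P.lf 0 14904 0) (P.cons (P.lf 0 12759 0) P.nil)) (P.cons (P.cons (P.lf 831 0 0) P.nil) P.nil)))))) 78804)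
 EL.nil)))
noncomputable def S140_154_216_364_27 : EL := (EL.cons 13 (TM.mk (P.lf 0 4294967296 0) 0)
 EL.nil)
noncomputable def S140_154_216_364_28 : EL := (EL.cons 13 (TM.mk (P.cons (P.cons (P.lf 0 110271669 0) (P.cons (P.lf 101755804 0 0) (P.cons (P.lf 43878248 0 0) (P.lf 0 4875360 0)))) (P.cons (P.cons (P.lf 0 341430986 0) (P.cons (P.lf 18732268 0 0) (P.cons (P.lf 8077564 0 0) (P.lf 0 897504 0)))) (P.cons (P.cons (P.lf 0 2365257 0) (P.cons (P.lf 992476 0 0) (P.cons (P.lf 427964 0 0) (P.lf 0 47548 0)))) (P.cons (P.cons (P.lf 967103 0 0) (P.cons (P.lf 0 13752 0) (P.cons (P.lf 0 5928 0) P.nil))) (P.cons (P.cons (P.lf 30914 0 0) (P.cons (P.lf 0 3024 0) P.nil)) (P.cons (P.cons (P.lf 0 915 0) P.nil) P.nil)))))) 4414)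
 EL.nil)
noncomputable def S140_154_216_364_29 : EL := (EL.cons 13 (TM.mk (P.cons (P.cons (P.lf 0 2831183 0) (P.cons (P.lf 5225083 0 0) (P.cons (P.lf 0 157670 0) (P.cons (P.lf 0 2329461 0) (P.cons (P.lf 0 217256 0) (P.cons (P.lf 99615 0 0) P.nil)))))) (P.cons (P.cons (P.lf 0 17532224 0) (P.cons (P.lf 17140164 0 0) (P.cons (P.lf 6503426 0 0) (P.cons (P.lf 0 1586715 0) (P.cons (P.lf 0 79989 0) P.nil))))) (P.cons (P.cons (P.lf 0 27263713 0) (P.cons (P.lf 3141303 0 0) (P.cons (P.lf 1225838 0 0) (P.cons (P.lf 0 261523 0) P.nil)))) (P.cons (P.cons (P.lf 0 326395 0) (P.cons (P.lf 131895 0 0) (P.cons (P.lf 48868 0 0) P.nil))) (P.cons (P.cons (P.lf 154045 0 0) (P.cons (P.lf 0 11149 0) P.nil)) (P.cons (P.cons (P.lf 5933 0 0) P.nil) P.nil)))))) 118533)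
 EL.nil)
noncomputable def S140_154_216_364_30 : EL := (EL.cons 13 (TM.mk (P.cons (P.lf 2981735720 0 0) (P.cons (P.lf 0 120734344 0) (P.cons (P.lf 0 5136784 0) (P.cons (P.lf 0 29896 0) (P.cons (P.lf 3204 0 0) (P.cons (P.lf 96 0 0) P.nil)))))) 64)
 EL.nil)
noncomputable def S140_154_216_364_31 : EL := (EL.cons 13 (TM.mk (P.cons (P.cons (P.lf 76554942 0 0) (P.cons (P.lf 0 70642893 0) (P.cons (P.lf 0 30462010 0) (P.lf 3384667 0 0)))) (P.cons (P.cons (P.lf 233935050 0 0) (P.cons (P.lf 0 10144257 0) (P.cons (P.lf 0 4374317 0) (P.lf 486033 0 0)))) (P.cons (P.cons (P.lf 0 8087678 0) (P.cons (P.lf 0 40739 0) (P.cons (P.lf 0 17565 0) (P.lf 1949 0 0)))) (P.cons (P.cons (P.lf 0 1147009 0) (P.cons (P.lf 60558 0 0) (P.cons (P.lf 26111 0 0) P.nil))) (P.cons (P.cons (P.lf 600 0 0) (P.cons (P.lf 2954 0 0) P.nil)) (P.cons (P.cons (P.lf 2901 0 0) P.nil) P.nil)))))) 6729)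
 EL.nil)
noncomputable def S140_154_216_364_32 : EL := (EL.cons 13 (TM.mk (P.cons (P.cons (P.lf 1965518 0 0) (P.cons (P.lf 0 3627458 0) (P.cons (P.lf 109460 0 0) (P.cons (P.lf 1617203 0 0) (P.cons (P.lf 150827 0 0) (P.cons (P.lf 0 69156 0) P.nil)))))) (P.cons (P.cons (P.lf 12091975 0 0) (P.cons (P.lf 0 11752497 0) (P.cons (P.lf 0 4519367 0) (P.cons (P.lf 1036077 0 0) (P.cons (P.lf 49424 0 0) P.nil))))) (P.cons (P.cons (P.lf 18431316 0 0) (P.cons (P.lf 0 1692746 0) (P.cons (P.lf 0 668398 0) (P.cons (P.lf 134169 0 0) P.nil)))) (P.cons (P.cons (P.lf 0 560792 0) (P.cons (P.lf 17273 0 0) (P.cons (P.lf 8310 0 0) P.nil))) (P.cons (P.cons (P.lf 0 148846 0) (P.cons (P.lf 15320 0 0) P.nil)) (P.cons (P.cons (P.lf 0 355 0) P.nil) P.nil)))))) 104774)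
 EL.nil)
noncomputable def S140_154_216_364_33 : EL := (EL.cons 14 (TM.mk (P.lf 8589934592 0 0) 0)
 EL.nil)
noncomputable def S140_154_216_364_34 : EL := (EL.cons 14 (TM.mk (P.cons (P.cons (P.lf 220543338 0 0) (P.cons (P.lf 0 203511608 0) (P.cons (P.lf 0 87756496 0) (P.lf 9750720 0 0)))) (P.cons (P.cons (P.lf 682861972 0 0) (P.cons (P.lf 0 37464536 0) (P.cons (P.lf 0 16155128 0) (P.lf 1795008 0 0)))) (P.cons (P.cons (P.lf 4730514 0 0) (P.cons (P.lf 0 1984952 0) (P.cons (P.lf 0 855928 0) (P.lf 95096 0 0)))) (P.cons (P.cons (P.lf 0 1934206 0) (P.cons (P.lf 27504 0 0) (P.cons (P.lf 11856 0 0) P.nil))) (P.cons (P.cons (P.lf 0 61828 0) (P.cons (P.lf 6048 0 0) P.nil)) (P.cons (P.cons (P.lf 1830 0 0) P.nil) P.nil)))))) 8828)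
 EL.nil)
noncomputable def S140_154_216_364_35 : EL := (EL.cons 14 (TM.mk (P.cons (P.cons (P.lf 5662366 0 0) (P.cons (P.lf 0 10450166 0) (P.cons (P.lf 315340 0 0) (P.cons (P.lf 4658922 0 0) (P.cons (P.lf 434512 0 0) (P.cons (P.lf 0 199230 0) P.nil)))))) (P.cons (P.cons (P.lf 35064448 0 0) (P.cons (P.lf 0 34280328 0) (P.cons (P.lf 0 13006852 0) (P.cons (P.lf 3173430 0 0) (P.cons (P.lf 159978 0 0) P.nil))))) (P.cons (P.cons (P.lf 54527426 0 0) (P.cons (P.lf 0 6282606 0) (P.cons (P.lf 0 2451676 0) (P.cons (P.lf 523046 0 0) P.nil)))) (P.cons (P.cons (P.lf 652790 0 0) (P.cons (P.lf 0 263790 0) (P.cons (P.lf 0 97736 0) P.nil))) (P.cons (P.cons (P.lf 0 308090 0) (P.cons (P.lf 22298 0 0) P.nil)) (P.cons (P.cons (P.lf 0 11866 0) P.nil) P.nil)))))) 237066)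
 EL.nil)
noncomputable def S140_154_216_364_36 : EL := (EL.cons 14 (TM.mk (P.cons (P.lf 0 5963471440 0) (P.cons (P.lf 241468688 0 0) (P.cons (P.lf 10273568 0 0) (P.cons (P.lf 59792 0 0) (P.cons (P.lf 0 6408 0) (P.cons (P.lf 0 192 0) P.nil)))))) 128)
 EL.nil)
noncomputable def S140_154_216_364_37 : EL := (EL.cons 14 (TM.mk (P.cons (P.cons (P.lf 0 153109884 0) (P.cons (P.lf 141285786 0 0) (P.cons (P.lf 60924020 0 0) (P.lf 0 6769334 0)))) (P.cons (P.cons (P.lf 0 467870100 0) (P.cons (P.lf 20288514 0 0) (P.cons (P.lf 8748634 0 0) (P.lf 0 972066 0)))) (P.cons (P.cons (P.lf 16175356 0 0) (P.cons (P.lf 81478 0 0) (P.cons (P.lf 35130 0 0) (P.lf 0 3898 0)))) (P.cons (P.cons (P.lf 2294018 0 0) (P.cons (P.lf 0 121116 0) (P.cons (P.lf 0 52222 0) P.nil))) (P.cons (P.cons (P.lf 0 1200 0) (P.cons (P.lf 0 5908 0) P.nil)) (P.cons (P.cons (P.lf 0 5802 0) P.nil) P.nil))))))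 13458)
 EL.nil)
noncomputable def S140_154_216_364_38 : EL := (EL.cons 14 (TM.mk (P.cons (P.cons (P.lf 0 3931036 0) (P.cons (P.lf 7254916 0 0) (P.cons (P.lf 0 218920 0) (P.cons (P.lf 0 3234406 0) (P.cons (P.lf 0 301654 0) (P.cons (P.lf 138312 0 0) P.nil)))))) (P.cons (P.cons (P.lf 0 24183950 0) (P.cons (P.lf 23504994 0 0) (P.cons (P.lf 9038734 0 0) (P.cons (P.lf 0 2072154 0) (P.cons (P.lf 0 98848 0) P.nil))))) (P.cons (P.cons (P.lf 0 36862632 0) (P.cons (P.lf 3385492 0 0) (P.cons (P.lf 1336796 0 0) (P.cons (P.lf 0 268338 0) P.nil)))) (P.cons (P.cons (P.lf 1121584 0 0) (P.cons (P.lf 0 34546 0) (P.cons (P.lf 0 16620 0) P.nil))) (P.cons (P.cons (P.lf 297692 0 0) (P.cons (P.lf 0 30640 0) P.nil)) (P.cons (P.cons (P.lf 710 0 0) P.nil) P.nil)))))) 209548)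
 EL.nil)
noncomputable def S140_154_216_364_39 : EL := (EL.cons 14 (TM.mk (P.cons (P.lf 4140077114 0 0) (P.cons (P.lf 0 335274176 0) (P.cons (P.lf 0 7476788 0) (P.cons (P.lf 494572 0 0) (P.cons (P.lf 24546 0 0) (P.cons (P.lf 48 0 0) P.nil)))))) 226)
 EL.nil)
noncomputable def S140_154_216_364_40 : EL := (EL.cons 14 (TM.mk (P.cons (P.cons (P.lf 106294920 0 0) (P.cons (P.lf 0 98086166 0) (P.cons (P.lf 0 42295858 0) (P.lf 4699538 0 0)))) (P.cons (P.cons (P.lf 320509860 0 0) (P.cons (P.lf 0 10113450 0) (P.cons (P.lf 0 4361032 0) (P.lf 484556 0 0)))) (P.cons (P.cons (P.lf 0 24564824 0) (P.cons (P.lf 682734 0 0) (P.cons (P.lf 294404 0 0) (P.lf 0 32714 0)))) (P.cons (P.cons (P.lf 0 1698536 0) (P.cons (P.lf 111622 0 0) (P.cons (P.lf 48130 0 0) P.nil))) (P.cons (P.cons (P.lf 81522 0 0) (P.cons (P.lf 830 0 0) P.nil)) (P.cons (P.cons (P.lf 7202 0 0) P.nil) P.nil))))))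 13998)
 EL.nil)
noncomputable def S140_154_216_364_41 : EL := (EL.cons 14 (TM.mk (P.cons (P.cons (P.lf 2729080 0 0) (P.cons (P.lf 0 5036648 0) (P.cons (P.lf 151982 0 0) (P.cons (P.lf 2245452 0 0) (P.cons (P.lf 209420 0 0) (P.cons (P.lf 0 96022 0) P.nil)))))) (P.cons (P.cons (P.lf 16678948 0 0) (P.cons (P.lf 0 16114154 0) (P.cons (P.lf 0 6281198 0) (P.cons (P.lf 1347650 0 0) (P.cons (P.lf 60144 0 0) P.nil))))) (P.cons (P.cons (P.lf 24906964 0 0) (P.cons (P.lf 0 1680924 0) (P.cons (P.lf 0 674232 0) (P.cons (P.lf 124174 0 0) P.nil)))) (P.cons (P.cons (P.lf 0 1843832 0) (P.cons (P.lf 147314 0 0) (P.cons (P.lf 59924 0 0) P.nil))) (P.cons (P.cons (P.lf 0 219394 0) (P.cons (P.lf 24506 0 0) P.nil)) (P.cons (P.cons (P.lf 8976 0 0) P.nil) P.nil)))))) 172222)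
 EL.nil)
noncomputable def S140_154_216_364_42 : EL := (EL.cons 14 (TM.mk (P.cons (P.lf 0 2874204844 0) (P.cons (P.lf 349140838 0 0) (P.cons (P.lf 717438 0 0) (P.cons (P.lf 0 925698 0) (P.cons (P.lf 0 17502 0) (P.cons (P.lf 1352 0 0) P.nil)))))) 292)
 EL.nil)
noncomputable def S140_154_216_364_43 : EL := (EL.cons 14 (TM.mk (P.cons (P.cons (P.lf 0 73794126 0) (P.cons (P.lf 68095284 0 0) (P.cons (P.lf 29363452 0 0) (P.lf 0 3262604 0)))) (P.cons (P.cons (P.lf 0 219522568 0) (P.cons (P.lf 4263890 0 0) (P.cons (P.lf 1838636 0 0) (P.lf 0 204290 0)))) (P.cons (P.cons (P.lf 26190742 0 0) (P.cons (P.lf 0 875588 0) (P.cons (P.lf 0 377564 0) (P.lf 41952 0 0)))) (P.cons (P.cons (P.lf 872726 0 0) (P.cons (P.lf 0 71078 0) (P.cons (P.lf 0 30648 0) P.nil))) (P.cons (P.cons (P.lf 0 131570 0) (P.cons (P.lf 3380 0 0) P.nil)) (P.cons (P.cons (P.lf 0 5152 0) P.nil) P.nil))))))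 12318)
 EL.nil)
noncomputable def S140_154_216_364_44 : EL := (EL.cons 14 (TM.mk (P.cons (P.cons (P.lf 0 1894636 0) (P.cons (P.lf 3496640 0 0) (P.cons (P.lf 0 105512 0) (P.cons (P.lf 0 1558882 0) (P.cons (P.lf 0 145388 0) (P.cons (P.lf 66662 0 0) P.nil)))))) (P.cons (P.cons (P.lf 0 11502466 0) (P.cons (P.lf 11045496 0 0) (P.cons (P.lf 4364928 0 0) (P.cons (P.lf 0 872470 0) (P.cons (P.lf 0 35866 0) P.nil))))) (P.cons (P.cons (P.lf 0 16819278 0) (P.cons (P.lf 707960 0 0) (P.cons (P.lf 291692 0 0) (P.cons (P.lf 0 45636 0) P.nil)))) (P.cons (P.cons (P.lf 2000178 0 0) (P.cons (P.lf 0 168830 0) (P.cons (P.lf 0 68066 0) P.nil))) (P.cons (P.cons (P.lf 130384 0 0) (P.cons (P.lf 0 14990 0) P.nil)) (P.cons (P.cons (P.lf 0 14444 0) P.nil) P.nil)))))) 134660)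
 EL.nil)
noncomputable def S140_154_216_364_45 : EL := (EL.cons 14 (TM.mk (P.cons (P.cons (P.lf 145378 0 0) (P.cons (P.lf 0 402456 0) (P.cons (P.lf 197832 0 0) (P.cons (P.lf 225332 0 0) (P.cons (P.lf 0 114306 0) (P.cons (P.lf 0 62648 0) P.nil)))))) (P.cons (P.cons (P.lf 1350398 0 0) (P.cons (P.lf 0 2566314 0) (P.cons (P.lf 179990 0 0) (P.cons (P.lf 1169476 0 0) (P.cons (P.lf 34336 0 0) P.nil))))) (P.cons (P.cons (P.lf 4190558 0 0) (P.cons (P.lf 0 4338290 0) (P.cons (P.lf 0 1419558 0) (P.cons (P.lf 581990 0 0) P.nil)))) (P.cons (P.cons (P.lf 4369484 0 0) (P.cons (P.lf 0 784106 0) (P.cons (P.lf 0 275806 0) P.nil))) (P.cons (P.cons (P.lf 66076 0 0) (P.cons (P.lf 0 24094 0) P.nil)) (P.cons (P.cons (P.lf 0 36966 0) P.nil) P.nil)))))) 408484)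
 EL.nil)
noncomputable def S140_154_216_364_46 : EL := (EL.cons 15 (TM.mk (P.lf 4294967296 0 0) 0)
 EL.nil)
noncomputable def S140_154_216_364_47 : EL := (EL.cons 15 (TM.mk (P.cons (P.cons (P.lf 110271669 0 0) (P.cons (P.lf 0 101755804 0) (P.cons (P.lf 0 43878248 0) (P.lf 4875360 0 0)))) (P.cons (P.cons (P.lf 341430986 0 0) (P.cons (P.lf 0 18732268 0) (P.cons (P.lf 0 8077564 0) (P.lf 897504 0 0)))) (P.cons (P.cons (P.lf 2365257 0 0) (P.cons (P.lf 0 992476 0) (P.cons (P.lf 0 427964 0) (P.lf 47548 0 0)))) (P.cons (P.cons (P.lf 0 967103 0) (P.cons (P.lf 13752 0 0) (P.cons (P.lf 5928 0 0) P.nil))) (P.cons (P.cons (P.lf 0 30914 0) (P.cons (P.lf 3024 0 0) P.nil)) (P.cons (P.cons (P.lf 915 0 0) P.nil) P.nil)))))) 4414)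
 EL.nil)
noncomputable def S140_154_216_364_48 : EL := (EL.cons 15 (TM.mk (P.cons (P.cons (P.lf 2831183 0 0) (P.cons (P.lf 0 5225083 0) (P.cons (P.lf 157670 0 0) (P.cons (P.lf 2329461 0 0) (P.cons (P.lf 217256 0 0) (P.cons (P.lf 0 99615 0) P.nil)))))) (P.cons (P.cons (P.lf 17532224 0 0) (P.cons (P.lf 0 17140164 0) (P.cons (P.lf 0 6503426 0) (P.cons (P.lf 1586715 0 0) (P.cons (P.lf 79989 0 0) P.nil))))) (P.cons (P.cons (P.lf 27263713 0 0) (P.cons (P.lf 0 3141303 0) (P.cons (P.lf 0 1225838 0) (P.cons (P.lf 261523 0 0) P.nil)))) (P.cons (P.cons (P.lf 326395 0 0) (P.cons (P.lf 0 131895 0) (P.cons (P.lf 0 48868 0) P.nil))) (P.cons (P.cons (P.lf 0 154045 0) (P.cons (P.lf 11149 0 0) P.nil)) (P.cons (P.cons (P.lf 0 5933 0) P.nil) P.nil)))))) 118533)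
 EL.nil)
noncomputable def S140_154_216_364 : SL := (SL.cons S140_154_216_364_0 (SL.cons S140_154_216_364_1 (SL.cons S140_154_216_364_2 (SL.cons S140_154_216_364_3 (SL.cons S140_154_216_364_4 (SL.cons S140_154_216_364_5 (SL.cons S140_154_216_364_6 (SL.cons S140_154_216_364_7 (SL.cons S140_154_216_364_8 (SL.cons S140_154_216_364_9 (SL.cons S140_154_216_364_10 (SL.cons S140_154_216_364_11 (SL.cons S140_154_216_364_12 (SL.cons S140_154_216_364_13 (SL.cons S140_154_216_364_14 (SL.cons S140_154_216_364_15 (SL.cons S140_154_216_364_16 (SL.cons S140_154_216_364_17 (SL.cons S140_154_216_364_18 (SL.cons S140_154_216_364_19 (SL.cons S140_154_216_364_20 (SL.cons S140_154_216_364_21 (SL.cons S140_154_216_364_22 (SL.cons S140_154_216_364_23 (SL.cons S140_154_216_364_24 (SL.cons S140_154_216_364_25 (SL.cons S140_154_216_364_26 (SL.cons S140_154_216_364_27 (SL.cons S140_154_216_364_28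 (SL.cons S140_154_216_364_29 (SL.cons S140_154_216_364_30 (SL.cons S140_154_216_364_31 (SL.cons S140_154_216_364_32 (SL.cons S140_154_216_364_33 (SL.cons S140_154_216_364_34 (SL.cons S140_154_216_364_35 (SL.cons S140_154_216_364_36 (SL.cons S140_154_216_364_37 (SL.cons S140_154_216_364_38 (SL.cons S140_154_216_364_39 (SL.cons S140_154_216_364_40 (SL.cons S140_154_216_364_41 (SL.cons S140_154_216_364_42 (SL.cons S140_154_216_364_43 (SL.cons S140_154_216_364_44 (SL.cons S140_154_216_364_45 (SL.cons S140_154_216_364_46 (SL.cons S140_154_216_364_47 (SL.cons S140_154_216_364_48 SL.nil)))))))))))))))))))))))))))))))))))))))))))))))))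
noncomputable def S140_154_290_364_0 : EL := (EL.cons 0 (TM.mk (P.cons (P.lf 4816977213 0 0) (P.cons (P.lf 294674568 0 0) (P.cons (P.lf 6571395 0 0) (P.cons (P.lf 0 434682 0) (P.cons (P.lf 0 21573 0) (P.cons (P.lf 0 42 0) P.nil)))))) 205)
 (EL.cons 1 (TM.mk (P.cons (P.lf 0 1762505823 0) (P.cons (P.lf 0 36787346 0) (P.cons (P.lf 8322086 0 0) (P.cons (P.lf 271203 0 0) (P.cons (P.lf 0 4801 0) (P.cons (P.lf 0 468 0) P.nil)))))) 132)
 (EL.cons 5 (TM.mk (P.cons (P.lf 5588741396 0 0) (P.cons (P.lf 0 104773178 0) (P.cons (P.lf 0 2336498 0) (P.cons (P.lf 154550 0 0) (P.cons (P.lf 7670 0 0) (P.cons (P.lf 18 0 0) P.nil)))))) 87)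
 (EL.cons 9 (TM.mk (P.lf 6442450944 0 0) 2)
 EL.nil))))
noncomputable def S140_154_290_364_1 : EL := (EL.cons 0 (TM.mk (P.cons (P.cons (P.lf 0 4503302588 0) (P.cons (P.lf 100810459 0 0) (P.cons (P.lf 12981463 0 0) (P.lf 0 865420 0)))) (P.cons (P.cons (P.lf 337852143 0 0) (P.cons (P.lf 0 923716 0) (P.cons (P.lf 0 118957 0) (P.lf 7937 0 0)))) (P.cons (P.cons (P.lf 84870897 0 0) (P.cons (P.lf 0 3037646 0) (P.cons (P.lf 0 391164 0) (P.lf 26085 0 0)))) (P.cons (P.cons (P.lf 1375219 0 0) (P.cons (P.lf 0 254874 0) (P.cons (P.lf 0 32810 0) P.nil))) (P.cons (P.cons (P.lf 0 388410 0) (P.cons (P.lf 2125 0 0) P.nil)) (P.cons (P.cons (P.lf 0 18893 0) P.nil) P.nil)))))) 14166)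
 (EL.cons 1 (TM.mk (P.cons (P.cons (P.lf 548938657 0 0) (P.cons (P.lf 6606689 0 0) (P.cons (P.lf 850746 0 0) (P.lf 0 56708 0)))) (P.cons (P.cons (P.lf 0 414284378 0) (P.cons (P.lf 14844097 0 0) (P.cons (P.lf 1911485 0 0) (P.lf 0 127429 0)))) (P.cons (P.cons (P.lf 0 10642358 0) (P.cons (P.lf 1468811 0 0) (P.cons (P.lf 189129 0 0) (P.lf 0 12599 0)))) (P.cons (P.cons (P.lf 3644439 0 0) (P.cons (P.lf 0 54816 0) (P.cons (P.lf 0 7053 0) P.nil))) (P.cons (P.cons (P.lf 155105 0 0) (P.cons (P.lf 0 11415 0) P.nil)) (P.cons (P.cons (P.lf 0 8899 0) P.nil) P.nil)))))) 7009)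
 (EL.cons 5 (TM.mk (P.cons (P.cons (P.lf 1684531423 0 0) (P.cons (P.lf 0 156524626 0) (P.cons (P.lf 0 20155846 0) (P.lf 1343720 0 0)))) (P.cons (P.cons (P.lf 441142803 0 0) (P.cons (P.lf 0 21887770 0) (P.cons (P.lf 0 2818506 0) (P.lf 187902 0 0)))) (P.cons (P.cons (P.lf 0 27170768 0) (P.cons (P.lf 0 97018 0) (P.cons (P.lf 0 12498 0) (P.lf 834 0 0)))) (P.cons (P.cons (P.lf 0 2118978 0) (P.cons (P.lf 106934 0 0) (P.cons (P.lf 13760 0 0) P.nil))) (P.cons (P.cons (P.lf 88637 0 0) (P.cons (P.lf 2836 0 0) P.nil)) (P.cons (P.cons (P.lf 8344 0 0) P.nil) P.nil)))))) 5804)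
 (EL.cons 9 (TM.mk (P.cons (P.cons (P.lf 73550437 0 0) (P.cons (P.lf 0 106483152 0) (P.cons (P.lf 0 13711950 0) (P.lf 914124 0 0)))) (P.cons (P.cons (P.lf 495236469 0 0) (P.cons (P.lf 0 19602528 0) (P.cons (P.lf 0 2524236 0) (P.lf 168282 0 0)))) (P.cons (P.cons (P.lf 2651953 0 0) (P.cons (P.lf 0 1038582 0) (P.cons (P.lf 0 133734 0) (P.lf 8910 0 0)))) (P.cons (P.cons (P.lf 0 1438240 0) (P.cons (P.lf 14388 0 0) (P.cons (P.lf 1848 0 0) P.nil))) (P.cons (P.cons (P.lf 0 43641 0) (P.cons (P.lf 3162 0 0) P.nil)) (P.cons (P.cons (P.lf 1438 0 0) P.nil) P.nil)))))) 1750)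
 (EL.cons 2 (TM.mk (P.cons (P.cons (P.lf 473914836 0 0) (P.cons (P.lf 135291974 0 0) (P.cons (P.lf 0 10119619 0) (P.cons (P.lf 0 681913 0) (P.lf 34093 0 0))))) (P.cons (P.cons (P.lf 38972700 0 0) (P.cons (P.lf 11125822 0 0) (P.cons (P.lf 0 832190 0) (P.cons (P.lf 0 56075 0) (P.lf 2801 0 0))))) (P.cons (P.cons (P.lf 0 1874449 0) (P.cons (P.lf 0 535111 0) (P.cons (P.lf 40024 0 0) (P.cons (P.lf 2697 0 0) P.nil)))) (P.cons (P.cons (P.lf 0 243261 0) (P.cons (P.lf 0 69443 0) (P.cons (P.lf 5191 0 0) P.nil))) (P.cons (P.cons (P.lf 0 3090 0) (P.cons (P.lf 0 880 0) P.nil)) (P.cons (P.cons (P.lf 374 0 0) P.nil) P.nil)))))) 1309)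
 (EL.cons 6 (TM.mk (P.cons (P.cons (P.lf 229551366 0 0) (P.cons (P.lf 65531727 0 0) (P.cons (P.lf 0 4901667 0) (P.cons (P.lf 0 330300 0) (P.lf 16512 0 0))))) (P.cons (P.cons (P.lf 42258210 0 0) (P.cons (P.lf 12063762 0 0) (P.cons (P.lf 0 902349 0) (P.cons (P.lf 0 60804 0) (P.lf 3039 0 0))))) (P.cons (P.cons (P.lf 2238933 0 0) (P.cons (P.lf 639165 0 0) (P.cons (P.lf 0 47805 0) (P.cons (P.lf 0 3219 0) P.nil)))) (P.cons (P.cons (P.lf 0 31026 0) (P.cons (P.lf 0 8856 0) (P.cons (P.lf 660 0 0) P.nil))) (P.cons (P.cons (P.lf 0 6825 0) (P.cons (P.lf 0 1947 0) P.nil)) (P.cons (P.cons (P.lf 0 168 0) P.nil) P.nil)))))) 711)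
 EL.nil))))))
noncomputable def S140_154_290_364_2 : EL := (EL.cons 0 (TM.mk (P.cons (P.cons (P.lf 0 103452005 0) (P.cons (P.lf 152984119 0 0) (P.cons (P.lf 15051530 0 0) (P.cons (P.lf 0 2510466 0) (P.cons (P.lf 2725 0 0) (P.cons (P.lf 10275 0 0) P.nil)))))) (P.cons (P.cons (P.lf 0 693124037 0) (P.cons (P.lf 44400165 0 0) (P.cons (P.lf 4569507 0 0) (P.cons (P.lf 0 676799 0) (P.cons (P.lf 670 0 0) P.nil))))) (P.cons (P.cons (P.lf 21144902 0 0) (P.cons (P.lf 0 429597 0) (P.cons (P.lf 0 83501 0) (P.cons (P.lf 0 3554 0) P.nil)))) (P.cons (P.cons (P.lf 13332594 0 0) (P.cons (P.lf 0 953978 0) (P.cons (P.lf 0 104384 0) P.nil))) (P.cons (P.cons (P.lf 292574 0 0) (P.cons (P.lf 0 69180 0) P.nil)) (P.cons (P.cons (P.lf 0 85275 0) P.nil) P.nil)))))) 78119)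
 (EL.cons 1 (TM.mk (P.cons (P.cons (P.lf 12763673 0 0) (P.cons (P.lf 0 18660415 0) (P.cons (P.lf 0 2139826 0) (P.cons (P.lf 227953 0 0) (P.cons (P.lf 0 155 0) (P.cons (P.lf 0 582 0) P.nil)))))) (P.cons (P.cons (P.lf 78033688 0 0) (P.cons (P.lf 7093986 0 0) (P.cons (P.lf 569920 0 0) (P.cons (P.lf 0 149382 0) (P.cons (P.lf 196 0 0) P.nil))))) (P.cons (P.cons (P.lf 0 52988908 0) (P.cons (P.lf 4069188 0 0) (P.cons (P.lf 410106 0 0) (P.cons (P.lf 0 64253 0) P.nil)))) (P.cons (P.cons (P.lf 0 1833484 0) (P.cons (P.lf 283134 0 0) (P.cons (P.lf 25795 0 0) P.nil))) (P.cons (P.cons (P.lf 624551 0 0) (P.cons (P.lf 0 32191 0) P.nil)) (P.cons (P.cons (P.lf 31747 0 0) P.nil) P.nil)))))) 38475)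
 (EL.cons 5 (TM.mk (P.cons (P.cons (P.lf 37734585 0 0) (P.cons (P.lf 0 57149865 0) (P.cons (P.lf 0 3711818 0) (P.cons (P.lf 1429970 0 0) (P.cons (P.lf 0 2133 0) (P.cons (P.lf 0 8057 0) P.nil)))))) (P.cons (P.cons (P.lf 259259565 0 0) (P.cons (P.lf 0 34847670 0) (P.cons (P.lf 0 3344809 0) (P.cons (P.lf 593402 0 0) (P.cons (P.lf 0 661 0) P.nil))))) (P.cons (P.cons (P.lf 35695570 0 0) (P.cons (P.lf 0 3389039 0) (P.cons (P.lf 0 319879 0) (P.cons (P.lf 59088 0 0) P.nil)))) (P.cons (P.cons (P.lf 0 4315610 0) (P.cons (P.lf 194194 0 0) (P.cons (P.lf 25059 0 0) P.nil))) (P.cons (P.cons (P.lf 0 354512 0) (P.cons (P.lf 37765 0 0) P.nil)) (P.cons (P.cons (P.lf 21398 0 0) P.nil) P.nil)))))) 37118)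
 (EL.cons 9 (TM.mk (P.cons (P.cons (P.lf 839689 0 0) (P.cons (P.lf 0 2431335 0) (P.cons (P.lf 1446906 0 0) (P.cons (P.lf 474144 0 0) (P.cons (P.lf 0 1033 0) (P.cons (P.lf 0 3891 0) P.nil)))))) (P.cons (P.cons (P.lf 11307763 0 0) (P.cons (P.lf 0 16818478 0) (P.cons (P.lf 0 1517737 0) (P.cons (P.lf 311266 0 0) (P.cons (P.lf 0 379 0) P.nil))))) (P.cons (P.cons (P.lf 38129784 0 0) (P.cons (P.lf 0 3125103 0) (P.cons (P.lf 0 308445 0) (P.cons (P.lf 51030 0 0) P.nil)))) (P.cons (P.cons (P.lf 374875 0 0) (P.cons (P.lf 0 127939 0) (P.cons (P.lf 0 10629 0) P.nil))) (P.cons (P.cons (P.lf 0 221022 0) (P.cons (P.lf 11623 0 0) P.nil)) (P.cons (P.cons (P.lf 0 7860 0) P.nil) P.nil)))))) 13642)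
 (EL.cons 2 (TM.mk (P.cons (P.cons (P.lf 10820925 0 0) (P.cons (P.lf 0 12576937 0) (P.cons (P.lf 0 6720705 0) (P.cons (P.lf 0 122461 0) (P.cons (P.lf 104788 0 0) (P.cons (P.lf 0 1091 0) P.nil)))))) (P.cons (P.cons (P.lf 73750303 0 0) (P.cons (P.lf 16881761 0 0) (P.cons (P.lf 0 3303168 0) (P.cons (P.lf 0 134583 0) (P.cons (P.lf 33001 0 0) P.nil))))) (P.cons (P.cons (P.lf 6339088 0 0) (P.cons (P.lf 1481664 0 0) (P.cons (P.lf 0 271231 0) (P.cons (P.lf 0 11356 0) P.nil)))) (P.cons (P.cons (P.lf 0 473242 0) (P.cons (P.lf 0 126101 0) (P.cons (P.lf 13831 0 0) P.nil))) (P.cons (P.cons (P.lf 0 62831 0) (P.cons (P.lf 0 15108 0) P.nil)) (P.cons (P.cons (P.lf 0 146 0) P.nil) P.nil)))))) 13370)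
 (EL.cons 6 (TM.mk (P.cons (P.cons (P.lf 5241360 0 0) (P.cons (P.lf 0 6091920 0) (P.cons (P.lf 0 3255324 0) (P.cons (P.lf 0 59316 0) (P.cons (P.lf 50754 0 0) (P.cons (P.lf 0 528 0) P.nil)))))) (P.cons (P.cons (P.lf 36256482 0 0) (P.cons (P.lf 7556568 0 0) (P.cons (P.lf 0 1931532 0) (P.cons (P.lf 0 71226 0) (P.cons (P.lf 21150 0 0) P.nil))))) (P.cons (P.cons (P.lf 6736950 0 0) (P.cons (P.lf 1518060 0 0) (P.cons (P.lf 0 311700 0) (P.cons (P.lf 0 12456 0) P.nil)))) (P.cons (P.cons (P.lf 275802 0 0) (P.cons (P.lf 53538 0 0) (P.cons (P.lf 0 16326 0) P.nil))) (P.cons (P.cons (P.lf 0 25056 0) (P.cons (P.lf 0 7044 0) P.nil)) (P.cons (P.cons (P.lf 0 2544 0) P.nil) P.nil)))))) 9834)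
 EL.nil))))))
noncomputable def S140_154_290_364_3 : EL := (EL.cons 0 (TM.mk (P.cons (P.lf 3638739650 0 0) (P.cons (P.lf 0 294674568 0) (P.cons (P.lf 0 6571395 0) (P.cons (P.lf 434682 0 0) (P.cons (P.lf 21573 0 0) (P.cons (P.lf 42 0 0) P.nil)))))) 205)
 (EL.cons 1 (TM.mk (P.cons (P.lf 1762505823 0 0) (P.cons (P.lf 36787346 0 0) (P.cons (P.lf 0 8322086 0) (P.cons (P.lf 0 271203 0) (P.cons (P.lf 4801 0 0) (P.cons (P.lf 468 0 0) P.nil)))))) 132)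
 (EL.cons 5 (TM.mk (P.cons (P.lf 853709548 0 0) (P.cons (P.lf 104773178 0 0) (P.cons (P.lf 2336498 0 0) (P.cons (P.lf 0 154550 0) (P.cons (P.lf 0 7670 0) (P.cons (P.lf 0 18 0) P.nil)))))) 80)
 EL.nil)))
noncomputable def S140_154_290_364_4 : EL := (EL.cons 0 (TM.mk (P.cons (P.cons (P.lf 41541781 0 0) (P.cons (P.lf 0 60142399 0) (P.cons (P.lf 0 7744600 0) (P.lf 516302 0 0)))) (P.cons (P.cons (P.lf 276348728 0 0) (P.cons (P.lf 0 6201151 0) (P.cons (P.lf 0 798526 0) (P.lf 53233 0 0)))) (P.cons (P.cons (P.lf 0 21229055 0) (P.cons (P.lf 418624 0 0) (P.cons (P.lf 53908 0 0) (P.lf 0 3596 0)))) (P.cons (P.cons (P.lf 0 1433812 0) (P.cons (P.lf 68440 0 0) (P.cons (P.lf 8810 0 0) P.nil))) (P.cons (P.cons (P.lf 72089 0 0) (P.cons (P.lf 506 0 0) P.nil)) (P.cons (P.cons (P.lf 6111 0 0) P.nil) P.nil)))))) 2787)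
 (EL.cons 1 (TM.mk (P.cons (P.cons (P.lf 20121699 0 0) (P.cons (P.lf 0 29131331 0) (P.cons (P.lf 0 3751271 0) (P.lf 250081 0 0)))) (P.cons (P.cons (P.lf 135905246 0 0) (P.cons (P.lf 0 5970832 0) (P.cons (P.lf 0 768868 0) (P.lf 51256 0 0)))) (P.cons (P.cons (P.lf 3458375 0 0) (P.cons (P.lf 0 258513 0) (P.cons (P.lf 0 33286 0) (P.lf 2216 0 0)))) (P.cons (P.cons (P.lf 0 1021147 0) (P.cons (P.lf 27808 0 0) (P.cons (P.lf 3579 0 0) P.nil))) (P.cons (P.cons (P.lf 0 44370 0) (P.cons (P.lf 3033 0 0) P.nil)) (P.cons (P.cons (P.lf 2263 0 0) P.nil) P.nil)))))) 1535)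
 (EL.cons 5 (TM.mk (P.cons (P.cons (P.lf 9746400 0 0) (P.cons (P.lf 0 14110418 0) (P.cons (P.lf 0 1817012 0) (P.lf 121132 0 0)))) (P.cons (P.cons (P.lf 66821496 0 0) (P.cons (P.lf 0 4329320 0) (P.cons (P.lf 0 557490 0) (P.lf 37164 0 0)))) (P.cons (P.cons (P.lf 8432092 0 0) (P.cons (P.lf 0 495038 0) (P.cons (P.lf 0 63744 0) (P.lf 4248 0 0)))) (P.cons (P.cons (P.lf 30386 0 0) (P.cons (P.lf 0 19538 0) (P.cons (P.lf 0 2516 0) P.nil))) (P.cons (P.cons (P.lf 0 40178 0) (P.cons (P.lf 872 0 0) P.nil)) (P.cons (P.cons (P.lf 0 1692 0) P.nil) P.nil)))))) 910)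
 EL.nil)))
noncomputable def S140_154_290_364_5 : EL := (EL.cons 0 (TM.mk (P.cons (P.cons (P.lf 474261 0 0) (P.cons (P.lf 0 1373233 0) (P.cons (P.lf 817221 0 0) (P.cons (P.lf 267799 0 0) (P.cons (P.lf 0 583 0) (P.cons (P.lf 0 2197 0) P.nil)))))) (P.cons (P.cons (P.lf 6348292 0 0) (P.cons (P.lf 0 9387980 0) (P.cons (P.lf 0 923408 0) (P.cons (P.lf 154117 0 0) (P.cons (P.lf 0 166 0) P.nil))))) (P.cons (P.cons (P.lf 21017889 0 0) (P.cons (P.lf 0 993329 0) (P.cons (P.lf 0 106266 0) (P.cons (P.lf 14101 0 0) P.nil)))) (P.cons (P.cons (P.lf 0 1543781 0) (P.cons (P.lf 87669 0 0) (P.cons (P.lf 9748 0 0) P.nil))) (P.cons (P.cons (P.lf 0 180107 0) (P.cons (P.lf 14461 0 0) P.nil)) (P.cons (P.cons (P.lf 7897 0 0) P.nil) P.nil)))))) 14028)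
 (EL.cons 1 (TM.mk (P.cons (P.cons (P.lf 229719 0 0) (P.cons (P.lf 0 665156 0) (P.cons (P.lf 395838 0 0) (P.cons (P.lf 129714 0 0) (P.cons (P.lf 0 281 0) (P.cons (P.lf 0 1063 0) P.nil)))))) (P.cons (P.cons (P.lf 3098336 0 0) (P.cons (P.lf 0 4615029 0) (P.cons (P.lf 0 406953 0) (P.cons (P.lf 87860 0 0) (P.cons (P.lf 0 108 0) P.nil))))) (P.cons (P.cons (P.lf 10494911 0 0) (P.cons (P.lf 0 947850 0) (P.cons (P.lf 0 94918 0) (P.cons (P.lf 15123 0 0) P.nil)))) (P.cons (P.cons (P.lf 305641 0 0) (P.cons (P.lf 0 31018 0) (P.cons (P.lf 0 2769 0) P.nil))) (P.cons (P.cons (P.lf 0 108054 0) (P.cons (P.lf 7190 0 0) P.nil)) (P.cons (P.cons (P.lf 0 5491 0) P.nil) P.nil)))))) 7184)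
 (EL.cons 5 (TM.mk (P.cons (P.cons (P.lf 111268 0 0) (P.cons (P.lf 0 322182 0) (P.cons (P.lf 191732 0 0) (P.cons (P.lf 62830 0 0) (P.cons (P.lf 0 136 0) (P.cons (P.lf 0 514 0) P.nil)))))) (P.cons (P.cons (P.lf 1512082 0 0) (P.cons (P.lf 0 2268208 0) (P.cons (P.lf 0 177588 0) (P.cons (P.lf 48956 0 0) (P.cons (P.lf 0 66 0) P.nil))))) (P.cons (P.cons (P.lf 5236898 0 0) (P.cons (P.lf 0 688516 0) (P.cons (P.lf 0 65030 0) (P.cons (P.lf 11994 0 0) P.nil)))) (P.cons (P.cons (P.lf 673858 0 0) (P.cons (P.lf 0 73818 0) (P.cons (P.lf 0 7008 0) P.nil))) (P.cons (P.cons (P.lf 0 9634 0) (P.cons (P.lf 0 1266 0) P.nil)) (P.cons (P.cons (P.lf 0 5426 0) P.nil) P.nil)))))) 4240)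
 EL.nil)))
noncomputable def S140_154_290_364_6 : EL := (EL.cons 12 (TM.mk (P.lf 8589934592 0 0) 0)
 (EL.cons 3 (TM.mk (P.cons (P.lf 0 2795377237 0) (P.cons (P.lf 113188447 0 0) (P.cons (P.lf 4815735 0 0) (P.cons (P.lf 28027 0 0) (P.cons (P.lf 0 3003 0) (P.cons (P.lf 0 90 0) P.nil)))))) 67)
 (EL.cons 7 (TM.mk (P.cons (P.lf 0 1354004171 0) (P.cons (P.lf 0 83086409 0) (P.cons (P.lf 696363 0 0) (P.cons (P.lf 79830 0 0) (P.cons (P.lf 1364 0 0) (P.cons (P.lf 0 28 0) P.nil)))))) 46)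
 EL.nil)))
noncomputable def S140_154_290_364_7 : EL := (EL.cons 12 (TM.mk (P.cons (P.cons (P.lf 98067250 0 0) (P.cons (P.lf 0 141977536 0) (P.cons (P.lf 0 18282600 0) (P.lf 1218832 0 0)))) (P.cons (P.cons (P.lf 660315292 0 0) (P.cons (P.lf 0 26136704 0) (P.cons (P.lf 0 3365648 0) (P.lf 224376 0 0)))) (P.cons (P.cons (P.lf 3535938 0 0) (P.cons (P.lf 0 1384776 0) (P.cons (P.lf 0 178312 0) (P.lf 11880 0 0)))) (P.cons (P.cons (P.lf 0 1917654 0) (P.cons (P.lf 19184 0 0) (P.cons (P.lf 2464 0 0) P.nil))) (P.cons (P.cons (P.lf 0 58188 0) (P.cons (P.lf 4216 0 0) P.nil)) (P.cons (P.cons (P.lf 1918 0 0) P.nil) P.nil)))))) 2308)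
 (EL.cons 3 (TM.mk (P.cons (P.cons (P.lf 3469891356 0 0) (P.cons (P.lf 0 92406004 0) (P.cons (P.lf 0 11899220 0) (P.lf 793274 0 0)))) (P.cons (P.cons (P.lf 0 44297884 0) (P.cons (P.lf 0 13269420 0) (P.cons (P.lf 0 1708712 0) (P.lf 113912 0 0)))) (P.cons (P.cons (P.lf 0 25724605 0) (P.cons (P.lf 0 53286 0) (P.cons (P.lf 0 6856 0) (P.lf 450 0 0)))) (P.cons (P.cons (P.lf 0 1386819 0) (P.cons (P.lf 79210 0 0) (P.cons (P.lf 10194 0 0) P.nil))) (P.cons (P.cons (P.lf 38978 0 0) (P.cons (P.lf 3860 0 0) P.nil)) (P.cons (P.cons (P.lf 5442 0 0) P.nil) P.nil)))))) 6077)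
 (EL.cons 7 (TM.mk (P.cons (P.cons (P.lf 0 2585971207 0) (P.cons (P.lf 124125939 0 0) (P.cons (P.lf 15983836 0 0) (P.lf 0 1065591 0)))) (P.cons (P.cons (P.lf 32517021 0 0) (P.cons (P.lf 9740473 0 0) (P.cons (P.lf 1254291 0 0) (P.lf 0 83621 0)))) (P.cons (P.cons (P.lf 17227238 0 0) (P.cons (P.lf 0 456936 0) (P.cons (P.lf 0 58836 0) (P.lf 3922 0 0)))) (P.cons (P.cons (P.lf 0 209579 0) (P.cons (P.lf 0 44437 0) (P.cons (P.lf 0 5722 0) P.nil))) (P.cons (P.cons (P.lf 0 61316 0) (P.cons (P.lf 939 0 0) P.nil)) (P.cons (P.cons (P.lf 0 835 0) P.nil) P.nil)))))) 3796)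
 (EL.cons 10 (TM.mk (P.cons (P.cons (P.lf 0 728148138 0) (P.cons (P.lf 0 207869838 0) (P.cons (P.lf 15548328 0 0) (P.cons (P.lf 1047729 0 0) (P.lf 0 52386 0))))) (P.cons (P.cons (P.lf 0 89363406 0) (P.cons (P.lf 0 25511232 0) (P.cons (P.lf 1908198 0 0) (P.cons (P.lf 128583 0 0) (P.lf 0 6429 0))))) (P.cons (P.cons (P.lf 0 1992849 0) (P.cons (P.lf 0 568914 0) (P.cons (P.lf 42552 0 0) (P.cons (P.lf 2865 0 0) P.nil)))) (P.cons (P.cons (P.lf 131817 0 0) (P.cons (P.lf 37629 0 0) (P.cons (P.lf 0 2814 0) P.nil))) (P.cons (P.cons (P.lf 6540 0 0) (P.cons (P.lf 1866 0 0) P.nil)) (P.cons (P.cons (P.lf 15 0 0) P.nil) P.nil)))))) 687)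
 EL.nil))))
noncomputable def S140_154_290_364_8 : EL := (EL.cons 12 (TM.mk (P.cons (P.cons (P.lf 1119586 0 0) (P.cons (P.lf 0 3241780 0) (P.cons (P.lf 1929208 0 0) (P.cons (P.lf 632192 0 0) (P.cons (P.lf 0 1378 0) (P.cons (P.lf 0 5188 0) P.nil)))))) (P.cons (P.cons (P.lf 15077018 0 0) (P.cons (P.lf 0 22424638 0) (P.cons (P.lf 0 2023650 0) (P.cons (P.lf 415022 0 0) (P.cons (P.lf 0 506 0) P.nil))))) (P.cons (P.cons (P.lf 50839712 0 0) (P.cons (P.lf 0 4166804 0) (P.cons (P.lf 0 411260 0) (P.cons (P.lf 68040 0 0) P.nil)))) (P.cons (P.cons (P.lf 499834 0 0) (P.cons (P.lf 0 170586 0) (P.cons (P.lf 0 14172 0) P.nil))) (P.cons (P.cons (P.lf 0 294696 0) (P.cons (P.lf 15498 0 0) P.nil)) (P.cons (P.cons (P.lf 0 10480 0) P.nil) P.nil)))))) 18160)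
 (EL.cons 3 (TM.mk (P.cons (P.cons (P.lf 79592578 0 0) (P.cons (P.lf 0 117868100 0) (P.cons (P.lf 0 11359699 0) (P.cons (P.lf 1995232 0 0) (P.cons (P.lf 0 2240 0) (P.cons (P.lf 0 8441 0) P.nil)))))) (P.cons (P.cons (P.lf 537346991 0 0) (P.cons (P.lf 0 41415872 0) (P.cons (P.lf 0 4081942 0) (P.cons (P.lf 677783 0 0) (P.cons (P.lf 0 730 0) P.nil))))) (P.cons (P.cons (P.lf 11804079 0 0) (P.cons (P.lf 0 3174846 0) (P.cons (P.lf 0 268436 0) (P.cons (P.lf 63398 0 0) P.nil)))) (P.cons (P.cons (P.lf 0 6088045 0) (P.cons (P.lf 268094 0 0) (P.cons (P.lf 36483 0 0) P.nil))) (P.cons (P.cons (P.lf 0 391766 0) (P.cons (P.lf 47752 0 0) P.nil)) (P.cons (P.cons (P.lf 18641 0 0) P.nil) P.nil)))))) 44248)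
 (EL.cons 7 (TM.mk (P.cons (P.cons (P.lf 0 58869160 0) (P.cons (P.lf 87806911 0 0) (P.cons (P.lf 7573690 0 0) (P.cons (P.lf 0 1715276 0) (P.cons (P.lf 2191 0 0) (P.cons (P.lf 8251 0 0) P.nil)))))) (P.cons (P.cons (P.lf 0 394441603 0) (P.cons (P.lf 30401476 0 0) (P.cons (P.lf 2996367 0 0) (P.cons (P.lf 0 497527 0) (P.cons (P.lf 537 0 0) P.nil))))) (P.cons (P.cons (P.lf 11423050 0 0) (P.cons (P.lf 782246 0 0) (P.cons (P.lf 44457 0 0) (P.cons (P.lf 0 21197 0) P.nil)))) (P.cons (P.cons (P.lf 4394437 0 0) (P.cons (P.lf 0 303950 0) (P.cons (P.lf 0 35119 0) P.nil))) (P.cons (P.cons (P.lf 0 44799 0) (P.cons (P.lf 0 16519 0) P.nil)) (P.cons (P.cons (P.lf 0 23921 0) P.nil) P.nil)))))) 25814)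
 (EL.cons 10 (TM.mk (P.cons (P.cons (P.lf 0 16625850 0) (P.cons (P.lf 19323882 0 0) (P.cons (P.lf 10326054 0 0) (P.cons (P.lf 188160 0 0) (P.cons (P.lf 0 161004 0) (P.cons (P.lf 1680 0 0) P.nil)))))) (P.cons (P.cons (P.lf 0 113987124 0) (P.cons (P.lf 0 25155594 0) (P.cons (P.lf 5493282 0 0) (P.cons (P.lf 214404 0 0) (P.cons (P.lf 0 57228 0) P.nil))))) (P.cons (P.cons (P.lf 0 14383842 0) (P.cons (P.lf 0 3261798 0) (P.cons (P.lf 656952 0 0) (P.cons (P.lf 26454 0 0) P.nil)))) (P.cons (P.cons (P.lf 0 51834 0) (P.cons (P.lf 18528 0 0) (P.cons (P.lf 14910 0 0) P.nil))) (P.cons (P.cons (P.lf 68538 0 0) (P.cons (P.lf 18072 0 0) P.nil)) (P.cons (P.cons (P.lf 2886 0 0) P.nil) P.nil)))))) 20742)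
 EL.nil))))
noncomputable def S140_154_290_364_9 : EL := (EL.cons 3 (TM.mk (P.cons (P.lf 0 2795377237 0) (P.cons (P.lf 113188447 0 0) (P.cons (P.lf 4815735 0 0) (P.cons (P.lf 28027 0 0) (P.cons (P.lf 0 3003 0) (P.cons (P.lf 0 90 0) P.nil)))))) 67)
 (EL.cons 7 (TM.mk (P.cons (P.lf 0 1354004171 0) (P.cons (P.lf 0 83086409 0) (P.cons (P.lf 696363 0 0) (P.cons (P.lf 79830 0 0) (P.cons (P.lf 1364 0 0) (P.cons (P.lf 0 28 0) P.nil)))))) 46)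
 EL.nil))
noncomputable def S140_154_290_364_10 : EL := (EL.cons 3 (TM.mk (P.cons (P.cons (P.lf 0 31913508 0) (P.cons (P.lf 46203002 0 0) (P.cons (P.lf 5949610 0 0) (P.lf 0 396637 0)))) (P.cons (P.cons (P.lf 0 213590713 0) (P.cons (P.lf 6634710 0 0) (P.cons (P.lf 854356 0 0) (P.lf 0 56956 0)))) (P.cons (P.cons (P.lf 7605185 0 0) (P.cons (P.lf 26643 0 0) (P.cons (P.lf 3428 0 0) (P.lf 0 225 0)))) (P.cons (P.cons (P.lf 1041153 0 0) (P.cons (P.lf 0 39605 0) (P.cons (P.lf 0 5097 0) P.nil))) (P.cons (P.cons (P.lf 0 2230 0) (P.cons (P.lf 0 1930 0) P.nil)) (P.cons (P.cons (P.lf 0 2685 0) P.nil) P.nil)))))) 1432)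
 (EL.cons 7 (TM.mk (P.cons (P.cons (P.lf 0 15458029 0) (P.cons (P.lf 22379469 0 0) (P.cons (P.lf 2881828 0 0) (P.lf 0 192120 0)))) (P.cons (P.cons (P.lf 0 105031965 0) (P.cons (P.lf 5493127 0 0) (P.cons (P.lf 707355 0 0) (P.lf 0 47156 0)))) (P.cons (P.cons (P.lf 0 6936328 0) (P.cons (P.lf 459576 0 0) (P.cons (P.lf 59178 0 0) (P.lf 0 3944 0)))) (P.cons (P.cons (P.lf 322513 0 0) (P.cons (P.lf 6932 0 0) (P.cons (P.lf 893 0 0) P.nil))) (P.cons (P.cons (P.lf 34159 0 0) (P.cons (P.lf 0 1227 0) P.nil)) (P.cons (P.cons (P.lf 242 0 0) P.nil) P.nil)))))) 738)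
 EL.nil))
noncomputable def S140_154_290_364_11 : EL := (EL.cons 3 (TM.mk (P.cons (P.cons (P.lf 0 364340 0) (P.cons (P.lf 1054954 0 0) (P.cons (P.lf 0 627811 0) (P.cons (P.lf 0 205730 0) (P.cons (P.lf 448 0 0) (P.cons (P.lf 1687 0 0) P.nil)))))) (P.cons (P.cons (P.lf 0 4891681 0) (P.cons (P.lf 7254814 0 0) (P.cons (P.lf 683966 0 0) (P.cons (P.lf 0 126727 0) (P.cons (P.lf 146 0 0) P.nil))))) (P.cons (P.cons (P.lf 0 16345203 0) (P.cons (P.lf 1058676 0 0) (P.cons (P.lf 108250 0 0) (P.cons (P.lf 0 16318 0) P.nil)))) (P.cons (P.cons (P.lf 515705 0 0) (P.cons (P.lf 0 11974 0) (P.cons (P.lf 0 1935 0) P.nil))) (P.cons (P.cons (P.lf 131038 0 0) (P.cons (P.lf 0 9698 0) P.nil)) (P.cons (P.cons (P.lf 0 31 0) P.nil) P.nil)))))) 8550)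
 (EL.cons 7 (TM.mk (P.cons (P.cons (P.lf 0 176476 0) (P.cons (P.lf 510991 0 0) (P.cons (P.lf 0 304094 0) (P.cons (P.lf 0 99650 0) (P.cons (P.lf 217 0 0) (P.cons (P.lf 817 0 0) P.nil)))))) (P.cons (P.cons (P.lf 0 2387371 0) (P.cons (P.lf 3566080 0 0) (P.cons (P.lf 300321 0 0) (P.cons (P.lf 0 71533 0) (P.cons (P.lf 93 0 0) P.nil))))) (P.cons (P.cons (P.lf 0 8159444 0) (P.cons (P.lf 873440 0 0) (P.cons (P.lf 84555 0 0) (P.cons (P.lf 0 14687 0) P.nil)))) (P.cons (P.cons (P.lf 0 569303 0) (P.cons (P.lf 65344 0 0) (P.cons (P.lf 6065 0 0) P.nil))) (P.cons (P.cons (P.lf 45879 0 0) (P.cons (P.lf 0 1339 0) P.nil)) (P.cons (P.cons (P.lf 5017 0 0) P.nil) P.nil)))))) 4372)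
 EL.nil))
noncomputable def S140_154_290_364_12 : EL := (EL.cons 4 (TM.mk (P.cons (P.lf 2795377237 0 0) (P.cons (P.lf 0 113188447 0) (P.cons (P.lf 0 4815735 0) (P.cons (P.lf 0 28027 0) (P.cons (P.lf 3003 0 0) (P.cons (P.lf 90 0 0) P.nil)))))) 67)
 (EL.cons 8 (TM.mk (P.cons (P.lf 1354004171 0 0) (P.cons (P.lf 83086409 0 0) (P.cons (P.lf 0 696363 0) (P.cons (P.lf 0 79830 0) (P.cons (P.lf 0 1364 0) (P.cons (P.lf 28 0 0) P.nil)))))) 46)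
 EL.nil))
noncomputable def S140_154_290_364_13 : EL := (EL.cons 4 (TM.mk (P.cons (P.cons (P.lf 31913508 0 0) (P.cons (P.lf 0 46203002 0) (P.cons (P.lf 0 5949610 0) (P.lf 396637 0 0)))) (P.cons (P.cons (P.lf 213590713 0 0) (P.cons (P.lf 0 6634710 0) (P.cons (P.lf 0 854356 0) (P.lf 56956 0 0)))) (P.cons (P.cons (P.lf 0 7605185 0) (P.cons (P.lf 0 26643 0) (P.cons (P.lf 0 3428 0) (P.lf 225 0 0)))) (P.cons (P.cons (P.lf 0 1041153 0) (P.cons (P.lf 39605 0 0) (P.cons (P.lf 5097 0 0) P.nil))) (P.cons (P.cons (P.lf 2230 0 0) (P.cons (P.lf 1930 0 0) P.nil)) (P.cons (P.cons (P.lf 2685 0 0) P.nil) P.nil)))))) 1432)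
 (EL.cons 8 (TM.mk (P.cons (P.cons (P.lf 15458029 0 0) (P.cons (P.lf 0 22379469 0) (P.cons (P.lf 0 2881828 0) (P.lf 192120 0 0)))) (P.cons (P.cons (P.lf 105031965 0 0) (P.cons (P.lf 0 5493127 0) (P.cons (P.lf 0 707355 0) (P.lf 47156 0 0)))) (P.cons (P.cons (P.lf 6936328 0 0) (P.cons (P.lf 0 459576 0) (P.cons (P.lf 0 59178 0) (P.lf 3944 0 0)))) (P.cons (P.cons (P.lf 0 322513 0) (P.cons (P.lf 0 6932 0) (P.cons (P.lf 0 893 0) P.nil))) (P.cons (P.cons (P.lf 0 34159 0) (P.cons (P.lf 1227 0 0) P.nil)) (P.cons (P.cons (P.lf 0 242 0) P.nil) P.nil)))))) 738)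
 EL.nil))
noncomputable def S140_154_290_364_14 : EL := (EL.cons 4 (TM.mk (P.cons (P.cons (P.lf 364340 0 0) (P.cons (P.lf 0 1054954 0) (P.cons (P.lf 627811 0 0) (P.cons (P.lf 205730 0 0) (P.cons (P.lf 0 448 0) (P.cons (P.lf 0 1687 0) P.nil)))))) (P.cons (P.cons (P.lf 4891681 0 0) (P.cons (P.lf 0 7254814 0) (P.cons (P.lf 0 683966 0) (P.cons (P.lf 126727 0 0) (P.cons (P.lf 0 146 0) P.nil))))) (P.cons (P.cons (P.lf 16345203 0 0) (P.cons (P.lf 0 1058676 0) (P.cons (P.lf 0 108250 0) (P.cons (P.lf 16318 0 0) P.nil)))) (P.cons (P.cons (P.lf 0 515705 0) (P.cons (P.lf 11974 0 0) (P.cons (P.lf 1935 0 0) P.nil))) (P.cons (P.cons (P.lf 0 131038 0) (P.cons (P.lf 9698 0 0) P.nil)) (P.cons (P.cons (P.lf 31 0 0) P.nil) P.nil)))))) 8550)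
 (EL.cons 8 (TM.mk (P.cons (P.cons (P.lf 176476 0 0) (P.cons (P.lf 0 510991 0) (P.cons (P.lf 304094 0 0) (P.cons (P.lf 99650 0 0) (P.cons (P.lf 0 217 0) (P.cons (P.lf 0 817 0) P.nil)))))) (P.cons (P.cons (P.lf 2387371 0 0) (P.cons (P.lf 0 3566080 0) (P.cons (P.lf 0 300321 0) (P.cons (P.lf 71533 0 0) (P.cons (P.lf 0 93 0) P.nil))))) (P.cons (P.cons (P.lf 8159444 0 0) (P.cons (P.lf 0 873440 0) (P.cons (P.lf 0 84555 0) (P.cons (P.lf 14687 0 0) P.nil)))) (P.cons (P.cons (P.lf 569303 0 0) (P.cons (P.lf 0 65344 0) (P.cons (P.lf 0 6065 0) P.nil))) (P.cons (P.cons (P.lf 0 45879 0) (P.cons (P.lf 1339 0 0) P.nil)) (P.cons (P.cons (P.lf 0 5017 0) P.nil) P.nil)))))) 4372)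
 EL.nil))
noncomputable def S140_154_290_364_15 : EL := (EL.cons 4 (TM.mk (P.cons (P.lf 0 1940661147 0) (P.cons (P.lf 157159770 0 0) (P.cons (P.lf 3504744 0 0) (P.cons (P.lf 0 231830 0) (P.cons (P.lf 0 11505 0) (P.cons (P.lf 0 22 0) P.nil)))))) 112)
 (EL.cons 8 (TM.mk (P.cons (P.lf 0 940003106 0) (P.cons (P.lf 0 19619918 0) (P.cons (P.lf 4438446 0 0) (P.cons (P.lf 144642 0 0) (P.cons (P.lf 0 2561 0) (P.cons (P.lf 0 250 0) P.nil)))))) 67)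
 EL.nil))
noncomputable def S140_154_290_364_16 : EL := (EL.cons 4 (TM.mk (P.cons (P.cons (P.lf 0 22155616 0) (P.cons (P.lf 32075946 0 0) (P.cons (P.lf 4130453 0 0) (P.lf 0 275361 0)))) (P.cons (P.cons (P.lf 0 147385988 0) (P.cons (P.lf 3307280 0 0) (P.cons (P.lf 425880 0 0) (P.lf 0 28391 0)))) (P.cons (P.cons (P.lf 11322163 0 0) (P.cons (P.lf 0 223266 0) (P.cons (P.lf 0 28751 0) (P.lf 1918 0 0)))) (P.cons (P.cons (P.lf 764700 0 0) (P.cons (P.lf 0 36501 0) (P.cons (P.lf 0 4698 0) P.nil))) (P.cons (P.cons (P.lf 0 38447 0) (P.cons (P.lf 0 270 0) P.nil)) (P.cons (P.cons (P.lf 0 3259 0) P.nil) P.nil)))))) 1495)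
 (EL.cons 8 (TM.mk (P.cons (P.cons (P.lf 0 10731573 0) (P.cons (P.lf 15536710 0 0) (P.cons (P.lf 2000678 0 0) (P.lf 0 133377 0)))) (P.cons (P.cons (P.lf 0 72482798 0) (P.cons (P.lf 3184444 0 0) (P.cons (P.lf 410063 0 0) (P.lf 0 27337 0)))) (P.cons (P.cons (P.lf 0 1844467 0) (P.cons (P.lf 137874 0 0) (P.cons (P.lf 17753 0 0) (P.lf 0 1182 0)))) (P.cons (P.cons (P.lf 544612 0 0) (P.cons (P.lf 0 14831 0) (P.cons (P.lf 0 1909 0) P.nil))) (P.cons (P.cons (P.lf 23664 0 0) (P.cons (P.lf 0 1618 0) P.nil)) (P.cons (P.cons (P.lf 0 1207 0) P.nil) P.nil)))))) 809)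
 EL.nil))
noncomputable def S140_154_290_364_17 : EL := (EL.cons 4 (TM.mk (P.cons (P.cons (P.lf 0 252939 0) (P.cons (P.lf 732390 0 0) (P.cons (P.lf 0 435851 0) (P.cons (P.lf 0 142826 0) (P.cons (P.lf 311 0 0) (P.cons (P.lf 1171 0 0) P.nil)))))) (P.cons (P.cons (P.lf 0 3385755 0) (P.cons (P.lf 5006923 0 0) (P.cons (P.lf 492484 0 0) (P.cons (P.lf 0 82196 0) (P.cons (P.lf 89 0 0) P.nil))))) (P.cons (P.cons (P.lf 0 11209541 0) (P.cons (P.lf 529775 0 0) (P.cons (P.lf 56675 0 0) (P.cons (P.lf 0 7520 0) P.nil)))) (P.cons (P.cons (P.lf 823350 0 0) (P.cons (P.lf 0 46756 0) (P.cons (P.lf 0 5199 0) P.nil))) (P.cons (P.cons (P.lf 96057 0 0) (P.cons (P.lf 0 7712 0) P.nil)) (P.cons (P.cons (P.lf 0 4212 0) P.nil) P.nil)))))) 7492)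
 (EL.cons 8 (TM.mk (P.cons (P.cons (P.lf 0 122517 0) (P.cons (P.lf 354750 0 0) (P.cons (P.lf 0 211114 0) (P.cons (P.lf 0 69181 0) (P.cons (P.lf 150 0 0) (P.cons (P.lf 567 0 0) P.nil)))))) (P.cons (P.cons (P.lf 0 1652446 0) (P.cons (P.lf 2461349 0 0) (P.cons (P.lf 217042 0 0) (P.cons (P.lf 0 46859 0) (P.cons (P.lf 58 0 0) P.nil))))) (P.cons (P.cons (P.lf 0 5597286 0) (P.cons (P.lf 505520 0 0) (P.cons (P.lf 50623 0 0) (P.cons (P.lf 0 8066 0) P.nil)))) (P.cons (P.cons (P.lf 0 163009 0) (P.cons (P.lf 16543 0 0) (P.cons (P.lf 1477 0 0) P.nil))) (P.cons (P.cons (P.lf 57629 0 0) (P.cons (P.lf 0 3835 0) P.nil)) (P.cons (P.cons (P.lf 2929 0 0) P.nil) P.nil)))))) 3820)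
 EL.nil))
noncomputable def S140_154_290_364_18 : EL := (EL.cons 4 (TM.mk (P.cons (P.lf 1347283520 0 0) (P.cons (P.lf 0 163659767 0) (P.cons (P.lf 0 336299 0) (P.cons (P.lf 433920 0 0) (P.cons (P.lf 8204 0 0) (P.cons (P.lf 0 633 0) P.nil)))))) 143)
 (EL.cons 8 (TM.mk (P.cons (P.lf 652587236 0 0) (P.cons (P.lf 0 12803181 0) (P.cons (P.lf 0 4757117 0) (P.cons (P.lf 0 5657 0) (P.cons (P.lf 11717 0 0) (P.cons (P.lf 341 0 0) P.nil)))))) 78)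
 EL.nil))
noncomputable def S140_154_290_364_19 : EL := (EL.cons 4 (TM.mk (P.cons (P.cons (P.lf 15381302 0 0) (P.cons (P.lf 0 22268386 0) (P.cons (P.lf 0 2867523 0) (P.lf 191166 0 0)))) (P.cons (P.cons (P.lf 101698358 0 0) (P.cons (P.lf 0 1394369 0) (P.cons (P.lf 0 179553 0) (P.lf 11970 0 0)))) (P.cons (P.cons (P.lf 0 12029907 0) (P.cons (P.lf 286333 0 0) (P.cons (P.lf 36871 0 0) (P.lf 0 2459 0)))) (P.cons (P.cons (P.lf 0 389039 0) (P.cons (P.lf 23243 0 0) (P.cons (P.lf 2991 0 0) P.nil))) (P.cons (P.cons (P.lf 60720 0 0) (P.cons (P.lf 0 1105 0) P.nil)) (P.cons (P.cons (P.lf 2286 0 0) P.nil) P.nil)))))) 1408)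
 (EL.cons 8 (TM.mk (P.cons (P.cons (P.lf 7450281 0 0) (P.cons (P.lf 0 10786196 0) (P.cons (P.lf 0 1388949 0) (P.lf 92595 0 0)))) (P.cons (P.cons (P.lf 50018746 0 0) (P.cons (P.lf 0 1774019 0) (P.cons (P.lf 0 228442 0) (P.lf 15229 0 0)))) (P.cons (P.cons (P.lf 0 769871 0) (P.cons (P.lf 12380 0 0) (P.cons (P.lf 1594 0 0) (P.lf 0 106 0)))) (P.cons (P.cons (P.lf 0 516704 0) (P.cons (P.lf 18089 0 0) (P.cons (P.lf 2328 0 0) P.nil))) (P.cons (P.cons (P.lf 0 3821 0) (P.cons (P.lf 881 0 0) P.nil)) (P.cons (P.cons (P.lf 2196 0 0) P.nil) P.nil)))))) 827)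
 EL.nil))
noncomputable def S140_154_290_364_20 : EL := (EL.cons 4 (TM.mk (P.cons (P.cons (P.lf 175600 0 0) (P.cons (P.lf 0 508455 0) (P.cons (P.lf 302584 0 0) (P.cons (P.lf 99155 0 0) (P.cons (P.lf 0 215 0) (P.cons (P.lf 0 812 0) P.nil)))))) (P.cons (P.cons (P.lf 2343415 0 0) (P.cons (P.lf 0 3455415 0) (P.cons (P.lf 0 354153 0) (P.cons (P.lf 53048 0 0) (P.cons (P.lf 0 52 0) P.nil))))) (P.cons (P.cons (P.lf 7686627 0 0) (P.cons (P.lf 0 226167 0) (P.cons (P.lf 0 26023 0) (P.cons (P.lf 2739 0 0) P.nil)))) (P.cons (P.cons (P.lf 0 890760 0) (P.cons (P.lf 53346 0 0) (P.cons (P.lf 5789 0 0) P.nil))) (P.cons (P.cons (P.lf 0 56971 0) (P.cons (P.lf 4707 0 0) P.nil)) (P.cons (P.cons (P.lf 6533 0 0) P.nil) P.nil)))))) 5992)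
 (EL.cons 8 (TM.mk (P.cons (P.cons (P.lf 85056 0 0) (P.cons (P.lf 0 246281 0) (P.cons (P.lf 146563 0 0) (P.cons (P.lf 48028 0 0) (P.cons (P.lf 0 104 0) (P.cons (P.lf 0 394 0) P.nil)))))) (P.cons (P.cons (P.lf 1143749 0 0) (P.cons (P.lf 0 1698793 0) (P.cons (P.lf 0 156614 0) (P.cons (P.lf 30587 0 0) (P.cons (P.lf 0 36 0) P.nil))))) (P.cons (P.cons (P.lf 3839259 0 0) (P.cons (P.lf 0 281337 0) (P.cons (P.lf 0 29296 0) (P.cons (P.lf 4200 0 0) P.nil)))) (P.cons (P.cons (P.lf 0 46153 0) (P.cons (P.lf 5671 0 0) (P.cons (P.lf 655 0 0) P.nil))) (P.cons (P.cons (P.lf 0 51296 0) (P.cons (P.lf 3749 0 0) P.nil)) (P.cons (P.cons (P.lf 0 646 0) P.nil) P.nil)))))) 3329)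
 EL.nil))
noncomputable def S140_154_290_364_21 : EL := (EL.cons 4 (TM.mk (P.cons (P.cons (P.lf 0 3501804864 0) (P.cons (P.lf 138609006 0 0) (P.cons (P.lf 17848830 0 0) (P.lf 0 1189911 0)))) (P.cons (P.cons (P.lf 0 169292829 0) (P.cons (P.lf 19904130 0 0) (P.cons (P.lf 2563068 0 0) (P.lf 0 170868 0)))) (P.cons (P.cons (P.lf 33329790 0 0) (P.cons (P.lf 79929 0 0) (P.cons (P.lf 10284 0 0) (P.lf 0 675 0)))) (P.cons (P.cons (P.lf 2427972 0 0) (P.cons (P.lf 0 118815 0) (P.cons (P.lf 0 15291 0) P.nil))) (P.cons (P.cons (P.lf 0 41208 0) (P.cons (P.lf 0 5790 0) P.nil)) (P.cons (P.cons (P.lf 0 8127 0) P.nil) P.nil)))))) 4626)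
 (EL.cons 8 (TM.mk (P.cons (P.cons (P.lf 2570513178 0 0) (P.cons (P.lf 0 101746470 0) (P.cons (P.lf 0 13102008 0) (P.lf 873471 0 0)))) (P.cons (P.cons (P.lf 0 137548986 0) (P.cons (P.lf 0 4247346 0) (P.cons (P.lf 0 546936 0) (P.lf 36465 0 0)))) (P.cons (P.cons (P.lf 0 24163566 0) (P.cons (P.lf 916512 0 0) (P.cons (P.lf 118014 0 0) (P.lf 0 7866 0)))) (P.cons (P.cons (P.lf 532092 0 0) (P.cons (P.lf 51369 0 0) (P.cons (P.lf 6615 0 0) P.nil))) (P.cons (P.cons (P.lf 95475 0 0) (P.cons (P.lf 0 2166 0) P.nil)) (P.cons (P.cons (P.lf 1077 0 0) P.nil) P.nil)))))) 3039)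
 (EL.cons 11 (TM.mk (P.cons (P.cons (P.lf 728148138 0 0) (P.cons (P.lf 207869838 0 0) (P.cons (P.lf 0 15548328 0) (P.cons (P.lf 0 1047729 0) (P.lf 52386 0 0))))) (P.cons (P.cons (P.lf 89363406 0 0) (P.cons (P.lf 25511232 0 0) (P.cons (P.lf 0 1908198 0) (P.cons (P.lf 0 128583 0) (P.lf 6429 0 0))))) (P.cons (P.cons (P.lf 1992849 0 0) (P.cons (P.lf 568914 0 0) (P.cons (P.lf 0 42552 0) (P.cons (P.lf 0 2865 0) P.nil)))) (P.cons (P.cons (P.lf 0 131817 0) (P.cons (P.lf 0 37629 0) (P.cons (P.lf 2814 0 0) P.nil))) (P.cons (P.cons (P.lf 0 6540 0) (P.cons (P.lf 0 1866 0) P.nil)) (P.cons (P.cons (P.lf 0 15 0) P.nil) P.nil)))))) 687)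
 EL.nil)))
noncomputable def S140_154_290_364_22 : EL := (EL.cons 4 (TM.mk (P.cons (P.cons (P.lf 0 39978459 0) (P.cons (P.lf 59461527 0 0) (P.cons (P.lf 5365944 0 0) (P.cons (P.lf 0 1100481 0) (P.cons (P.lf 1344 0 0) (P.cons (P.lf 5064 0 0) P.nil)))))) (P.cons (P.cons (P.lf 0 271119336 0) (P.cons (P.lf 24335343 0 0) (P.cons (P.lf 2382954 0 0) (P.cons (P.lf 0 402255 0) (P.cons (P.lf 438 0 0) P.nil))))) (P.cons (P.cons (P.lf 0 14074641 0) (P.cons (P.lf 2116761 0 0) (P.cons (P.lf 188343 0 0) (P.cons (P.lf 0 39858 0) P.nil)))) (P.cons (P.cons (P.lf 3301875 0 0) (P.cons (P.lf 0 140034 0) (P.cons (P.lf 0 19209 0) P.nil))) (P.cons (P.cons (P.lf 261402 0 0) (P.cons (P.lf 0 28725 0) P.nil)) (P.cons (P.cons (P.lf 0 9336 0) P.nil) P.nil)))))) 17838)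
 (EL.cons 8 (TM.mk (P.cons (P.cons (P.lf 29346342 0 0) (P.cons (P.lf 0 43647960 0) (P.cons (P.lf 0 3938892 0) (P.cons (P.lf 807813 0 0) (P.cons (P.lf 0 987 0) (P.cons (P.lf 0 3717 0) P.nil)))))) (P.cons (P.cons (P.lf 196027116 0 0) (P.cons (P.lf 0 13417698 0) (P.cons (P.lf 0 1348023 0) (P.cons (P.lf 212997 0 0) (P.cons (P.lf 0 222 0) P.nil))))) (P.cons (P.cons (P.lf 0 9791247 0) (P.cons (P.lf 45597 0 0) (P.cons (P.lf 20049 0 0) (P.cons (P.lf 3255 0 0) P.nil)))) (P.cons (P.cons (P.lf 0 2481870 0) (P.cons (P.lf 184647 0 0) (P.cons (P.lf 20592 0 0) P.nil))) (P.cons (P.cons (P.lf 45339 0 0) (P.cons (P.lf 7590 0 0) P.nil)) (P.cons (P.cons (P.lf 14469 0 0) P.nil) P.nil)))))) 10710)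
 (EL.cons 11 (TM.mk (P.cons (P.cons (P.lf 8312925 0 0) (P.cons (P.lf 0 9661941 0) (P.cons (P.lf 0 5163027 0) (P.cons (P.lf 0 94080 0) (P.cons (P.lf 80502 0 0) (P.cons (P.lf 0 840 0) P.nil)))))) (P.cons (P.cons (P.lf 56993562 0 0) (P.cons (P.lf 12577797 0 0) (P.cons (P.lf 0 2746641 0) (P.cons (P.lf 0 107202 0) (P.cons (P.lf 28614 0 0) P.nil))))) (P.cons (P.cons (P.lf 7191921 0 0) (P.cons (P.lf 1630899 0 0) (P.cons (P.lf 0 328476 0) (P.cons (P.lf 0 13227 0) P.nil)))) (P.cons (P.cons (P.lf 25917 0 0) (P.cons (P.lf 0 9264 0) (P.cons (P.lf 0 7455 0) P.nil))) (P.cons (P.cons (P.lf 0 34269 0) (P.cons (P.lf 0 9036 0) P.nil)) (P.cons (P.cons (P.lf 0 1443 0) P.nil) P.nil)))))) 10371)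
 EL.nil)))
noncomputable def S140_154_290_364_23 : EL := (EL.cons 4 (TM.mk (P.cons (P.cons (P.lf 2431091070 0 0) (P.cons (P.lf 0 96227838 0) (P.cons (P.lf 0 12391359 0) (P.lf 826083 0 0)))) (P.cons (P.cons (P.lf 19091730 0 0) (P.cons (P.lf 0 9921840 0) (P.cons (P.lf 0 1277640 0) (P.lf 85173 0 0)))) (P.cons (P.cons (P.lf 0 32085948 0) (P.cons (P.lf 669804 0 0) (P.cons (P.lf 86256 0 0) (P.lf 0 5757 0)))) (P.cons (P.cons (P.lf 0 975519 0) (P.cons (P.lf 109503 0 0) (P.cons (P.lf 14094 0 0) P.nil))) (P.cons (P.cons (P.lf 138156 0 0) (P.cons (P.lf 810 0 0) P.nil)) (P.cons (P.cons (P.lf 7824 0 0) P.nil) P.nil)))))) 4857)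
 (EL.cons 8 (TM.mk (P.cons (P.cons (P.lf 0 1784551644 0) (P.cons (P.lf 70636413 0 0) (P.cons (P.lf 9095928 0 0) (P.lf 0 606396 0)))) (P.cons (P.cons (P.lf 167750739 0 0) (P.cons (P.lf 88515 0 0) (P.cons (P.lf 11397 0 0) (P.lf 0 759 0)))) (P.cons (P.cons (P.lf 15983043 0 0) (P.cons (P.lf 0 877362 0) (P.cons (P.lf 0 112974 0) (P.lf 7530 0 0)))) (P.cons (P.cons (P.lf 0 1195269 0) (P.cons (P.lf 0 15684 0) (P.cons (P.lf 0 2019 0) P.nil))) (P.cons (P.cons (P.lf 0 83097 0) (P.cons (P.lf 4089 0 0) P.nil)) (P.cons (P.cons (P.lf 2448 0 0) P.nil) P.nil)))))) 3240)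
 (EL.cons 11 (TM.mk (P.cons (P.cons (P.lf 0 505509159 0) (P.cons (P.lf 0 144311439 0) (P.cons (P.lf 10794261 0 0) (P.cons (P.lf 727374 0 0) (P.lf 0 36366 0))))) (P.cons (P.cons (P.lf 0 41570880 0) (P.cons (P.lf 0 11867544 0) (P.cons (P.lf 887670 0 0) (P.cons (P.lf 59814 0 0) (P.lf 0 2988 0))))) (P.cons (P.cons (P.lf 1999413 0 0) (P.cons (P.lf 570786 0 0) (P.cons (P.lf 0 42693 0) (P.cons (P.lf 0 2877 0) P.nil)))) (P.cons (P.cons (P.lf 259479 0 0) (P.cons (P.lf 74073 0 0) (P.cons (P.lf 0 5538 0) P.nil))) (P.cons (P.cons (P.lf 3297 0 0) (P.cons (P.lf 939 0 0) P.nil)) (P.cons (P.cons (P.lf 0 399 0) P.nil) P.nil)))))) 1374)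
 EL.nil)))
noncomputable def S140_154_290_364_24 : EL := (EL.cons 4 (TM.mk (P.cons (P.cons (P.lf 27754623 0 0) (P.cons (P.lf 0 41280537 0) (P.cons (P.lf 0 3725250 0) (P.cons (P.lf 763995 0 0) (P.cons (P.lf 0 933 0) (P.cons (P.lf 0 3516 0) P.nil)))))) (P.cons (P.cons (P.lf 187097916 0 0) (P.cons (P.lf 0 15223050 0) (P.cons (P.lf 0 1503501 0) (P.cons (P.lf 248325 0 0) (P.cons (P.lf 0 267 0) P.nil))))) (P.cons (P.cons (P.lf 2102013 0 0) (P.cons (P.lf 0 714339 0) (P.cons (P.lf 0 57351 0) (P.cons (P.lf 15048 0 0) P.nil)))) (P.cons (P.cons (P.lf 0 3012477 0) (P.cons (P.lf 186237 0 0) (P.cons (P.lf 21516 0 0) P.nil))) (P.cons (P.cons (P.lf 0 107349 0) (P.cons (P.lf 18660 0 0) P.nil)) (P.cons (P.cons (P.lf 17883 0 0) P.nil) P.nil)))))) 12324)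
 (EL.cons 8 (TM.mk (P.cons (P.cons (P.lf 0 20373387 0) (P.cons (P.lf 30302133 0 0) (P.cons (P.lf 2734533 0 0) (P.cons (P.lf 0 560814 0) (P.cons (P.lf 684 0 0) (P.cons (P.lf 2580 0 0) P.nil)))))) (P.cons (P.cons (P.lf 0 135264810 0) (P.cons (P.lf 8088120 0 0) (P.cons (P.lf 825126 0 0) (P.cons (P.lf 0 125163 0) (P.cons (P.lf 126 0 0) P.nil))))) (P.cons (P.cons (P.lf 12343017 0 0) (P.cons (P.lf 0 461040 0) (P.cons (P.lf 0 56523 0) (P.cons (P.lf 4692 0 0) P.nil)))) (P.cons (P.cons (P.lf 1682427 0 0) (P.cons (P.lf 0 143259 0) (P.cons (P.lf 0 15372 0) P.nil))) (P.cons (P.cons (P.lf 0 111609 0) (P.cons (P.lf 0 84 0) P.nil)) (P.cons (P.cons (P.lf 0 11952 0) P.nil) P.nil)))))) 7719)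
 (EL.cons 11 (TM.mk (P.cons (P.cons (P.lf 0 5771160 0) (P.cons (P.lf 6707700 0 0) (P.cons (P.lf 3584376 0 0) (P.cons (P.lf 65313 0 0) (P.cons (P.lf 0 55887 0) (P.cons (P.lf 582 0 0) P.nil)))))) (P.cons (P.cons (P.lf 0 39333495 0) (P.cons (P.lf 0 9003606 0) (P.cons (P.lf 1761690 0 0) (P.cons (P.lf 71778 0 0) (P.cons (P.lf 0 17601 0) P.nil))))) (P.cons (P.cons (P.lf 0 3380847 0) (P.cons (P.lf 0 790221 0) (P.cons (P.lf 144657 0 0) (P.cons (P.lf 6057 0 0) P.nil)))) (P.cons (P.cons (P.lf 252396 0 0) (P.cons (P.lf 67254 0 0) (P.cons (P.lf 0 7377 0) P.nil))) (P.cons (P.cons (P.lf 33510 0 0) (P.cons (P.lf 8058 0 0) P.nil)) (P.cons (P.cons (P.lf 78 0 0) P.nil) P.nil)))))) 7119)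
 EL.nil)))
noncomputable def S140_154_290_364_25 : EL := (EL.cons 4 (TM.mk (P.cons (P.cons (P.lf 0 1687759320 0) (P.cons (P.lf 66805161 0 0) (P.cons (P.lf 8602572 0 0) (P.lf 0 573498 0)))) (P.cons (P.cons (P.lf 55085328 0 0) (P.cons (P.lf 4183104 0 0) (P.cons (P.lf 538659 0 0) (P.lf 0 35907 0)))) (P.cons (P.cons (P.lf 25719597 0 0) (P.cons (P.lf 0 859002 0) (P.cons (P.lf 0 110616 0) (P.lf 7377 0 0)))) (P.cons (P.cons (P.lf 0 184953 0) (P.cons (P.lf 0 69729 0) (P.cons (P.lf 0 8973 0) P.nil))) (P.cons (P.cons (P.lf 0 163389 0) (P.cons (P.lf 3318 0 0) P.nil)) (P.cons (P.cons (P.lf 0 3006 0) P.nil) P.nil)))))) 4668)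
 (EL.cons 8 (TM.mk (P.cons (P.cons (P.lf 1238906148 0 0) (P.cons (P.lf 0 49038582 0) (P.cons (P.lf 0 6314751 0) (P.lf 420984 0 0)))) (P.cons (P.cons (P.lf 0 166624095 0) (P.cons (P.lf 1924185 0 0) (P.cons (P.lf 247779 0 0) (P.lf 0 16515 0)))) (P.cons (P.cons (P.lf 0 8514801 0) (P.cons (P.lf 696069 0 0) (P.cons (P.lf 89628 0 0) (P.lf 0 5973 0)))) (P.cons (P.cons (P.lf 1467303 0 0) (P.cons (P.lf 0 13173 0) (P.cons (P.lf 0 1695 0) P.nil))) (P.cons (P.cons (P.lf 45705 0 0) (P.cons (P.lf 0 4380 0) P.nil)) (P.cons (P.cons (P.lf 0 5439 0) P.nil) P.nil)))))) 3000)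
 (EL.cons 11 (TM.mk (P.cons (P.cons (P.lf 350944398 0 0) (P.cons (P.lf 100186695 0 0) (P.cons (P.lf 0 7493802 0) (P.cons (P.lf 0 504972 0) (P.lf 25248 0 0))))) (P.cons (P.cons (P.lf 14649951 0 0) (P.cons (P.lf 4182228 0 0) (P.cons (P.lf 0 312822 0) (P.cons (P.lf 0 21078 0) (P.lf 1053 0 0))))) (P.cons (P.cons (P.lf 0 3161244 0) (P.cons (P.lf 0 902463 0) (P.cons (P.lf 67503 0 0) (P.cons (P.lf 4548 0 0) P.nil)))) (P.cons (P.cons (P.lf 0 177171 0) (P.cons (P.lf 0 50577 0) (P.cons (P.lf 3780 0 0) P.nil))) (P.cons (P.cons (P.lf 7482 0 0) (P.cons (P.lf 2136 0 0) P.nil)) (P.cons (P.cons (P.lf 735 0 0) P.nil) P.nil)))))) 1602)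
 EL.nil)))
noncomputable def S140_154_290_364_26 : EL := (EL.cons 4 (TM.mk (P.cons (P.cons (P.lf 0 19268355 0) (P.cons (P.lf 28658577 0 0) (P.cons (P.lf 2586213 0 0) (P.cons (P.lf 0 530397 0) (P.cons (P.lf 648 0 0) (P.cons (P.lf 2439 0 0) P.nil)))))) (P.cons (P.cons (P.lf 0 129110553 0) (P.cons (P.lf 9408018 0 0) (P.cons (P.lf 939069 0 0) (P.cons (P.lf 0 150918 0) (P.cons (P.lf 159 0 0) P.nil))))) (P.cons (P.cons (P.lf 3833337 0 0) (P.cons (P.lf 18621 0 0) (P.cons (P.lf 0 6900 0) (P.cons (P.lf 0 2553 0) P.nil)))) (P.cons (P.cons (P.lf 2374431 0 0) (P.cons (P.lf 0 167868 0) (P.cons (P.lf 0 18372 0) P.nil))) (P.cons (P.cons (P.lf 0 6357 0) (P.cons (P.lf 0 8649 0) P.nil)) (P.cons (P.cons (P.lf 0 19161 0) P.nil) P.nil)))))) 11109)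
 (EL.cons 8 (TM.mk (P.cons (P.cons (P.lf 14144007 0 0) (P.cons (P.lf 0 21036936 0) (P.cons (P.lf 0 1898421 0) (P.cons (P.lf 389340 0 0) (P.cons (P.lf 0 474 0) (P.cons (P.lf 0 1791 0) P.nil)))))) (P.cons (P.cons (P.lf 93333456 0 0) (P.cons (P.lf 0 4763280 0) (P.cons (P.lf 0 495963 0) (P.cons (P.lf 71127 0 0) (P.cons (P.lf 0 66 0) P.nil))))) (P.cons (P.cons (P.lf 0 12395757 0) (P.cons (P.lf 583674 0 0) (P.cons (P.lf 65706 0 0) (P.cons (P.lf 0 7446 0) P.nil)))) (P.cons (P.cons (P.lf 0 982953 0) (P.cons (P.lf 96378 0 0) (P.cons (P.lf 10089 0 0) P.nil))) (P.cons (P.cons (P.lf 138612 0 0) (P.cons (P.lf 0 4485 0) P.nil)) (P.cons (P.cons (P.lf 7359 0 0) P.nil) P.nil)))))) 7074)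
 (EL.cons 11 (TM.mk (P.cons (P.cons (P.lf 4006566 0 0) (P.cons (P.lf 0 4656750 0) (P.cons (P.lf 0 2488416 0) (P.cons (P.lf 0 45342 0) (P.cons (P.lf 38799 0 0) (P.cons (P.lf 0 405 0) P.nil)))))) (P.cons (P.cons (P.lf 27144633 0 0) (P.cons (P.lf 6439215 0 0) (P.cons (P.lf 0 1122273 0) (P.cons (P.lf 0 47994 0) (P.cons (P.lf 10650 0 0) P.nil))))) (P.cons (P.cons (P.lf 1234524 0 0) (P.cons (P.lf 303528 0 0) (P.cons (P.lf 0 46617 0) (P.cons (P.lf 0 2109 0) P.nil)))) (P.cons (P.cons (P.lf 0 317346 0) (P.cons (P.lf 0 79623 0) (P.cons (P.lf 11319 0 0) P.nil))) (P.cons (P.cons (P.lf 0 20481 0) (P.cons (P.lf 0 4716 0) P.nil)) (P.cons (P.cons (P.lf 1194 0 0) P.nil) P.nil)))))) 6492)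
 EL.nil)))
noncomputable def S140_154_290_364_27 : EL := (EL.cons 13 (TM.mk (P.lf 0 4294967296 0) 0)
 EL.nil)
noncomputable def S140_154_290_364_28 : EL := (EL.cons 13 (TM.mk (P.cons (P.cons (P.lf 0 49033625 0) (P.cons (P.lf 70988768 0 0) (P.cons (P.lf 9141300 0 0) (P.lf 0 609416 0)))) (P.cons (P.cons (P.lf 0 330157646 0) (P.cons (P.lf 13068352 0 0) (P.cons (P.lf 1682824 0 0) (P.lf 0 112188 0)))) (P.cons (P.cons (P.lf 0 1767969 0) (P.cons (P.lf 692388 0 0) (P.cons (P.lf 89156 0 0) (P.lf 0 5940 0)))) (P.cons (P.cons (P.lf 958827 0 0) (P.cons (P.lf 0 9592 0) (P.cons (P.lf 0 1232 0) P.nil))) (P.cons (P.cons (P.lf 29094 0 0) (P.cons (P.lf 0 2108 0) P.nil)) (P.cons (P.cons (P.lf 0 959 0) P.nil) P.nil)))))) 1154)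
 EL.nil)
noncomputable def S140_154_290_364_29 : EL := (EL.cons 13 (TM.mk (P.cons (P.cons (P.lf 0 559793 0) (P.cons (P.lf 1620890 0 0) (P.cons (P.lf 0 964604 0) (P.cons (P.lf 0 316096 0) (P.cons (P.lf 689 0 0) (P.cons (P.lf 2594 0 0) P.nil)))))) (P.cons (P.cons (P.lf 0 7538509 0) (P.cons (P.lf 11212319 0 0) (P.cons (P.lf 1011825 0 0) (P.cons (P.lf 0 207511 0) (P.cons (P.lf 253 0 0) P.nil))))) (P.cons (P.cons (P.lf 0 25419856 0) (P.cons (P.lf 2083402 0 0) (P.cons (P.lf 205630 0 0) (P.cons (P.lf 0 34020 0) P.nil)))) (P.cons (P.cons (P.lf 0 249917 0) (P.cons (P.lf 85293 0 0) (P.cons (P.lf 7086 0 0) P.nil))) (P.cons (P.cons (P.lf 147348 0 0) (P.cons (P.lf 0 7749 0) P.nil)) (P.cons (P.cons (P.lf 5240 0 0) P.nil) P.nil)))))) 9080)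
 EL.nil)
noncomputable def S140_154_290_364_30 : EL := (EL.cons 13 (TM.mk (P.cons (P.lf 2981735720 0 0) (P.cons (P.lf 0 120734344 0) (P.cons (P.lf 0 5136784 0) (P.cons (P.lf 0 29896 0) (P.cons (P.lf 3204 0 0) (P.cons (P.lf 96 0 0) P.nil)))))) 64)
 EL.nil)
noncomputable def S140_154_290_364_31 : EL := (EL.cons 13 (TM.mk (P.cons (P.cons (P.lf 34041076 0 0) (P.cons (P.lf 0 49283203 0) (P.cons (P.lf 0 6346251 0) (P.lf 423080 0 0)))) (P.cons (P.cons (P.lf 227830094 0 0) (P.cons (P.lf 0 7077024 0) (P.cons (P.lf 0 911314 0) (P.lf 60754 0 0)))) (P.cons (P.cons (P.lf 0 8112198 0) (P.cons (P.lf 0 28420 0) (P.cons (P.lf 0 3657 0) (P.lf 241 0 0)))) (P.cons (P.cons (P.lf 0 1110564 0) (P.cons (P.lf 42246 0 0) (P.cons (P.lf 5437 0 0) P.nil))) (P.cons (P.cons (P.lf 2379 0 0) (P.cons (P.lf 2059 0 0) P.nil)) (P.cons (P.cons (P.lf 2865 0 0) P.nil) P.nil)))))) 1508)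
 EL.nil)
noncomputable def S140_154_290_364_32 : EL := (EL.cons 13 (TM.mk (P.cons (P.cons (P.lf 388630 0 0) (P.cons (P.lf 0 1125285 0) (P.cons (P.lf 669666 0 0) (P.cons (P.lf 219446 0 0) (P.cons (P.lf 0 478 0) (P.cons (P.lf 0 1800 0) P.nil)))))) (P.cons (P.cons (P.lf 5217794 0 0) (P.cons (P.lf 0 7738469 0) (P.cons (P.lf 0 729564 0) (P.cons (P.lf 135176 0 0) (P.cons (P.lf 0 156 0) P.nil))))) (P.cons (P.cons (P.lf 17434884 0 0) (P.cons (P.lf 0 1129255 0) (P.cons (P.lf 0 115467 0) (P.cons (P.lf 17406 0 0) P.nil)))) (P.cons (P.cons (P.lf 0 550086 0) (P.cons (P.lf 12773 0 0) (P.cons (P.lf 2064 0 0) P.nil))) (P.cons (P.cons (P.lf 0 139774 0) (P.cons (P.lf 10345 0 0) P.nil)) (P.cons (P.cons (P.lf 34 0 0) P.nil) P.nil)))))) 9097)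
 EL.nil)
noncomputable def S140_154_290_364_33 : EL := (EL.cons 14 (TM.mk (P.lf 8589934592 0 0) 0)
 EL.nil)
noncomputable def S140_154_290_364_34 : EL := (EL.cons 14 (TM.mk (P.cons (P.cons (P.lf 98067250 0 0) (P.cons (P.lf 0 141977536 0) (P.cons (P.lf 0 18282600 0) (P.lf 1218832 0 0)))) (P.cons (P.cons (P.lf 660315292 0 0) (P.cons (P.lf 0 26136704 0) (P.cons (P.lf 0 3365648 0) (P.lf 224376 0 0)))) (P.cons (P.cons (P.lf 3535938 0 0) (P.cons (P.lf 0 1384776 0) (P.cons (P.lf 0 178312 0) (P.lf 11880 0 0)))) (P.cons (P.cons (P.lf 0 1917654 0) (P.cons (P.lf 19184 0 0) (P.cons (P.lf 2464 0 0) P.nil))) (P.cons (P.cons (P.lf 0 58188 0) (P.cons (P.lf 4216 0 0) P.nil)) (P.cons (P.cons (P.lf 1918 0 0) P.nil) P.nil)))))) 2308)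
 EL.nil)
noncomputable def S140_154_290_364_35 : EL := (EL.cons 14 (TM.mk (P.cons (P.cons (P.lf 1119586 0 0) (P.cons (P.lf 0 3241780 0) (P.cons (P.lf 1929208 0 0) (P.cons (P.lf 632192 0 0) (P.cons (P.lf 0 1378 0) (P.cons (P.lf 0 5188 0) P.nil)))))) (P.cons (P.cons (P.lf 15077018 0 0) (P.cons (P.lf 0 22424638 0) (P.cons (P.lf 0 2023650 0) (P.cons (P.lf 415022 0 0) (P.cons (P.lf 0 506 0) P.nil))))) (P.cons (P.cons (P.lf 50839712 0 0) (P.cons (P.lf 0 4166804 0) (P.cons (P.lf 0 411260 0) (P.cons (P.lf 68040 0 0) P.nil)))) (P.cons (P.cons (P.lf 499834 0 0) (P.cons (P.lf 0 170586 0) (P.cons (P.lf 0 14172 0) P.nil))) (P.cons (P.cons (P.lf 0 294696 0) (P.cons (P.lf 15498 0 0) P.nil)) (P.cons (P.cons (P.lf 0 10480 0) P.nil) P.nil)))))) 18160)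
 EL.nil)
noncomputable def S140_154_290_364_36 : EL := (EL.cons 14 (TM.mk (P.cons (P.lf 0 5963471440 0) (P.cons (P.lf 241468688 0 0) (P.cons (P.lf 10273568 0 0) (P.cons (P.lf 59792 0 0) (P.cons (P.lf 0 6408 0) (P.cons (P.lf 0 192 0) P.nil)))))) 128)
 EL.nil)
noncomputable def S140_154_290_364_37 : EL := (EL.cons 14 (TM.mk (P.cons (P.cons (P.lf 0 68082152 0) (P.cons (P.lf 98566406 0 0) (P.cons (P.lf 12692502 0 0) (P.lf 0 846160 0)))) (P.cons (P.cons (P.lf 0 455660188 0) (P.cons (P.lf 14154048 0 0) (P.cons (P.lf 1822628 0 0) (P.lf 0 121508 0)))) (P.cons (P.cons (P.lf 16224396 0 0) (P.cons (P.lf 56840 0 0) (P.cons (P.lf 7314 0 0) (P.lf 0 482 0)))) (P.cons (P.cons (P.lf 2221128 0 0) (P.cons (P.lf 0 84492 0) (P.cons (P.lf 0 10874 0) P.nil))) (P.cons (P.cons (P.lf 0 4758 0) (P.cons (P.lf 0 4118 0) P.nil)) (P.cons (P.cons (P.lf 0 5730 0) P.nil) P.nil)))))) 3016)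
 EL.nil)
noncomputable def S140_154_290_364_38 : EL := (EL.cons 14 (TM.mk (P.cons (P.cons (P.lf 0 777260 0) (P.cons (P.lf 2250570 0 0) (P.cons (P.lf 0 1339332 0) (P.cons (P.lf 0 438892 0) (P.cons (P.lf 956 0 0) (P.cons (P.lf 3600 0 0) P.nil)))))) (P.cons (P.cons (P.lf 0 10435588 0) (P.cons (P.lf 15476938 0 0) (P.cons (P.lf 1459128 0 0) (P.cons (P.lf 0 270352 0) (P.cons (P.lf 312 0 0) P.nil))))) (P.cons (P.cons (P.lf 0 34869768 0) (P.cons (P.lf 2258510 0 0) (P.cons (P.lf 230934 0 0) (P.cons (P.lf 0 34812 0) P.nil)))) (P.cons (P.cons (P.lf 1100172 0 0) (P.cons (P.lf 0 25546 0) (P.cons (P.lf 0 4128 0) P.nil))) (P.cons (P.cons (P.lf 279548 0 0) (P.cons (P.lf 0 20690 0) P.nil)) (P.cons (P.cons (P.lf 0 68 0) P.nil) P.nil)))))) 18194)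
 EL.nil)
noncomputable def S140_154_290_364_39 : EL := (EL.cons 14 (TM.mk (P.cons (P.lf 4140077114 0 0) (P.cons (P.lf 0 335274176 0) (P.cons (P.lf 0 7476788 0) (P.cons (P.lf 494572 0 0) (P.cons (P.lf 24546 0 0) (P.cons (P.lf 48 0 0) P.nil)))))) 226)
 EL.nil)
noncomputable def S140_154_290_364_40 : EL := (EL.cons 14 (TM.mk (P.cons (P.cons (P.lf 47265316 0 0) (P.cons (P.lf 0 68428686 0) (P.cons (P.lf 0 8811634 0) (P.lf 587438 0 0)))) (P.cons (P.cons (P.lf 314423442 0 0) (P.cons (P.lf 0 7055532 0) (P.cons (P.lf 0 908546 0) (P.lf 60568 0 0)))) (P.cons (P.cons (P.lf 0 24153948 0) (P.cons (P.lf 476302 0 0) (P.cons (P.lf 61336 0 0) (P.lf 0 4092 0)))) (P.cons (P.cons (P.lf 0 1631360 0) (P.cons (P.lf 77870 0 0) (P.cons (P.lf 10024 0 0) P.nil))) (P.cons (P.cons (P.lf 82022 0 0) (P.cons (P.lf 576 0 0) P.nil)) (P.cons (P.cons (P.lf 6954 0 0) P.nil) P.nil)))))) 3150)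
 EL.nil)
noncomputable def S140_154_290_364_41 : EL := (EL.cons 14 (TM.mk (P.cons (P.cons (P.lf 539604 0 0) (P.cons (P.lf 0 1562434 0) (P.cons (P.lf 929816 0 0) (P.cons (P.lf 304696 0 0) (P.cons (P.lf 0 664 0) (P.cons (P.lf 0 2500 0) P.nil)))))) (P.cons (P.cons (P.lf 7222946 0 0) (P.cons (P.lf 0 10681436 0) (P.cons (P.lf 0 1050634 0) (P.cons (P.lf 175352 0 0) (P.cons (P.lf 0 190 0) P.nil))))) (P.cons (P.cons (P.lf 23913688 0 0) (P.cons (P.lf 0 1130188 0) (P.cons (P.lf 0 120908 0) (P.cons (P.lf 16044 0 0) P.nil)))) (P.cons (P.cons (P.lf 0 1756480 0) (P.cons (P.lf 99748 0 0) (P.cons (P.lf 11092 0 0) P.nil))) (P.cons (P.cons (P.lf 0 204922 0) (P.cons (P.lf 16454 0 0) P.nil)) (P.cons (P.cons (P.lf 8986 0 0) P.nil) P.nil)))))) 15936)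
 EL.nil)
noncomputable def S140_154_290_364_42 : EL := (EL.cons 14 (TM.mk (P.cons (P.lf 0 2874204844 0) (P.cons (P.lf 349140838 0 0) (P.cons (P.lf 717438 0 0) (P.cons (P.lf 0 925698 0) (P.cons (P.lf 0 17502 0) (P.cons (P.lf 1352 0 0) P.nil)))))) 292)
 EL.nil)
noncomputable def S140_154_290_364_43 : EL := (EL.cons 14 (TM.mk (P.cons (P.cons (P.lf 0 32813446 0) (P.cons (P.lf 47505892 0 0) (P.cons (P.lf 6117384 0 0) (P.lf 0 407822 0)))) (P.cons (P.cons (P.lf 0 216956498 0) (P.cons (P.lf 2974654 0 0) (P.cons (P.lf 383048 0 0) (P.lf 0 25536 0)))) (P.cons (P.cons (P.lf 25663802 0 0) (P.cons (P.lf 0 610844 0) (P.cons (P.lf 0 78660 0) (P.lf 5246 0 0)))) (P.cons (P.cons (P.lf 829950 0 0) (P.cons (P.lf 0 49586 0) (P.cons (P.lf 0 6382 0) P.nil))) (P.cons (P.cons (P.lf 0 129536 0) (P.cons (P.lf 2358 0 0) P.nil)) (P.cons (P.cons (P.lf 0 4878 0) P.nil) P.nil)))))) 2964)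
 EL.nil)
noncomputable def S140_154_290_364_44 : EL := (EL.cons 14 (TM.mk (P.cons (P.cons (P.lf 0 374614 0) (P.cons (P.lf 1084704 0 0) (P.cons (P.lf 0 645514 0) (P.cons (P.lf 0 211532 0) (P.cons (P.lf 460 0 0) (P.cons (P.lf 1734 0 0) P.nil)))))) (P.cons (P.cons (P.lf 0 4999286 0) (P.cons (P.lf 7371552 0 0) (P.cons (P.lf 755528 0 0) (P.cons (P.lf 0 113170 0) (P.cons (P.lf 112 0 0) P.nil))))) (P.cons (P.cons (P.lf 0 16398138 0) (P.cons (P.lf 482490 0 0) (P.cons (P.lf 55516 0 0) (P.cons (P.lf 0 5844 0) P.nil)))) (P.cons (P.cons (P.lf 1900290 0 0) (P.cons (P.lf 0 113806 0) (P.cons (P.lf 0 12350 0) P.nil))) (P.cons (P.cons (P.lf 121540 0 0) (P.cons (P.lf 0 10042 0) P.nil)) (P.cons (P.cons (P.lf 0 13938 0) P.nil) P.nil)))))) 12738)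
 EL.nil)
noncomputable def S140_154_290_364_45 : EL := (EL.cons 14 (TM.mk (P.cons (P.cons (P.lf 12780 0 0) (P.cons (P.lf 0 55514 0) (P.cons (P.lf 73222 0 0) (P.cons (P.lf 0 17610 0) (P.cons (P.lf 0 15030 0) (P.cons (P.lf 0 1108 0) P.nil)))))) (P.cons (P.cons (P.lf 258190 0 0) (P.cons (P.lf 0 757814 0) (P.cons (P.lf 473174 0 0) (P.cons (P.lf 132078 0 0) (P.cons (P.lf 0 8610 0) P.nil))))) (P.cons (P.cons (P.lf 1739856 0 0) (P.cons (P.lf 0 2659056 0) (P.cons (P.lf 0 135972 0) (P.cons (P.lf 70914 0 0) P.nil)))) (P.cons (P.cons (P.lf 3919752 0 0) (P.cons (P.lf 0 496140 0) (P.cons (P.lf 0 35228 0) P.nil))) (P.cons (P.cons (P.lf 52612 0 0) (P.cons (P.lf 0 14434 0) P.nil)) (P.cons (P.cons (P.lf 0 34018 0) P.nil) P.nil)))))) 33532)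
 EL.nil)
noncomputable def S140_154_290_364_46 : EL := (EL.cons 15 (TM.mk (P.lf 4294967296 0 0) 0)
 EL.nil)
noncomputable def S140_154_290_364_47 : EL := (EL.cons 15 (TM.mk (P.cons (P.cons (P.lf 49033625 0 0) (P.cons (P.lf 0 70988768 0) (P.cons (P.lf 0 9141300 0) (P.lf 609416 0 0)))) (P.cons (P.cons (P.lf 330157646 0 0) (P.cons (P.lf 0 13068352 0) (P.cons (P.lf 0 1682824 0) (P.lf 112188 0 0)))) (P.cons (P.cons (P.lf 1767969 0 0) (P.cons (P.lf 0 692388 0) (P.cons (P.lf 0 89156 0) (P.lf 5940 0 0)))) (P.cons (P.cons (P.lf 0 958827 0) (P.cons (P.lf 9592 0 0) (P.cons (P.lf 1232 0 0) P.nil))) (P.cons (P.cons (P.lf 0 29094 0) (P.cons (P.lf 2108 0 0) P.nil)) (P.cons (P.cons (P.lf 959 0 0) P.nil) P.nil)))))) 1154)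
 EL.nil)
noncomputable def S140_154_290_364_48 : EL := (EL.cons 15 (TM.mk (P.cons (P.cons (P.lf 559793 0 0) (P.cons (P.lf 0 1620890 0) (P.cons (P.lf 964604 0 0) (P.cons (P.lf 316096 0 0) (P.cons (P.lf 0 689 0) (P.cons (P.lf 0 2594 0) P.nil)))))) (P.cons (P.cons (P.lf 7538509 0 0) (P.cons (P.lf 0 11212319 0) (P.cons (P.lf 0 1011825 0) (P.cons (P.lf 207511 0 0) (P.cons (P.lf 0 253 0) P.nil))))) (P.cons (P.cons (P.lf 25419856 0 0) (P.cons (P.lf 0 2083402 0) (P.cons (P.lf 0 205630 0) (P.cons (P.lf 34020 0 0) P.nil)))) (P.cons (P.cons (P.lf 249917 0 0) (P.cons (P.lf 0 85293 0) (P.cons (P.lf 0 7086 0) P.nil))) (P.cons (P.cons (P.lf 0 147348 0) (P.cons (P.lf 7749 0 0) P.nil)) (P.cons (P.cons (P.lf 0 5240 0) P.nil) P.nil)))))) 9080)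
 EL.nil)
noncomputable def S140_154_290_364 : SL := (SL.cons S140_154_290_364_0 (SL.cons S140_154_290_364_1 (SL.cons S140_154_290_364_2 (SL.cons S140_154_290_364_3 (SL.cons S140_154_290_364_4 (SL.cons S140_154_290_364_5 (SL.cons S140_154_290_364_6 (SL.cons S140_154_290_364_7 (SL.cons S140_154_290_364_8 (SL.cons S140_154_290_364_9 (SL.cons S140_154_290_364_10 (SL.cons S140_154_290_364_11 (SL.cons S140_154_290_364_12 (SL.cons S140_154_290_364_13 (SL.cons S140_154_290_364_14 (SL.cons S140_154_290_364_15 (SL.cons S140_154_290_364_16 (SL.cons S140_154_290_364_17 (SL.cons S140_154_290_364_18 (SL.cons S140_154_290_364_19 (SL.cons S140_154_290_364_20 (SL.cons S140_154_290_364_21 (SL.cons S140_154_290_364_22 (SL.cons S140_154_290_364_23 (SL.cons S140_154_290_364_24 (SL.cons S140_154_290_364_25 (SL.cons S140_154_290_364_26 (SL.cons S140_154_290_364_27 (SL.cons S140_154_290_364_28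 (SL.cons S140_154_290_364_29 (SL.cons S140_154_290_364_30 (SL.cons S140_154_290_364_31 (SL.cons S140_154_290_364_32 (SL.cons S140_154_290_364_33 (SL.cons S140_154_290_364_34 (SL.cons S140_154_290_364_35 (SL.cons S140_154_290_364_36 (SL.cons S140_154_290_364_37 (SL.cons S140_154_290_364_38 (SL.cons S140_154_290_364_39 (SL.cons S140_154_290_364_40 (SL.cons S140_154_290_364_41 (SL.cons S140_154_290_364_42 (SL.cons S140_154_290_364_43 (SL.cons S140_154_290_364_44 (SL.cons S140_154_290_364_45 (SL.cons S140_154_290_364_46 (SL.cons S140_154_290_364_47 (SL.cons S140_154_290_364_48 SL.nil)))))))))))))))))))))))))))))))))))))))))))))))))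
noncomputable def S140_154_364_438_0 : EL := (EL.cons 0 (TM.mk (P.cons (P.lf 4816977213 0 0) (P.cons (P.lf 294674568 0 0) (P.cons (P.lf 6571395 0 0) (P.cons (P.lf 0 434682 0) (P.cons (P.lf 0 21573 0) (P.cons (P.lf 0 42 0) P.nil)))))) 205)
 (EL.cons 1 (TM.mk (P.cons (P.lf 0 1762505823 0) (P.cons (P.lf 0 36787346 0) (P.cons (P.lf 8322086 0 0) (P.cons (P.lf 271203 0 0) (P.cons (P.lf 0 4801 0) (P.cons (P.lf 0 468 0) P.nil)))))) 132)
 (EL.cons 5 (TM.mk (P.cons (P.lf 5588741396 0 0) (P.cons (P.lf 0 104773178 0) (P.cons (P.lf 0 2336498 0) (P.cons (P.lf 154550 0 0) (P.cons (P.lf 7670 0 0) (P.cons (P.lf 18 0 0) P.nil)))))) 87)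
 (EL.cons 9 (TM.mk (P.lf 6442450944 0 0) 2)
 EL.nil))))
noncomputable def S140_154_364_438_1 : EL := (EL.cons 0 (TM.mk (P.cons (P.cons (P.lf 0 4256679217 0) (P.cons (P.lf 142351174 0 0) (P.cons (P.lf 7788873 0 0) (P.lf 0 865420 0)))) (P.cons (P.cons (P.lf 335592370 0 0) (P.cons (P.lf 0 1304343 0) (P.cons (P.lf 0 71378 0) (P.lf 7937 0 0)))) (P.cons (P.cons (P.lf 77439582 0 0) (P.cons (P.lf 0 4289355 0) (P.cons (P.lf 0 234700 0) (P.lf 26085 0 0)))) (P.cons (P.cons (P.lf 751665 0 0) (P.cons (P.lf 0 359906 0) (P.cons (P.lf 0 19685 0) P.nil))) (P.cons (P.cons (P.lf 0 383234 0) (P.cons (P.lf 2993 0 0) P.nil)) (P.cons (P.cons (P.lf 0 16182 0) P.nil) P.nil)))))) 13261)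
 (EL.cons 1 (TM.mk (P.cons (P.cons (P.lf 565101305 0 0) (P.cons (P.lf 9329085 0 0) (P.cons (P.lf 510445 0 0) (P.lf 0 56708 0)))) (P.cons (P.cons (P.lf 0 377969664 0) (P.cons (P.lf 20960871 0 0) (P.cons (P.lf 1146886 0 0) (P.lf 0 127429 0)))) (P.cons (P.cons (P.lf 0 7049031 0) (P.cons (P.lf 2074064 0 0) (P.cons (P.lf 113471 0 0) (P.lf 0 12599 0)))) (P.cons (P.cons (P.lf 3510314 0 0) (P.cons (P.lf 0 77413 0) (P.cons (P.lf 0 4235 0) P.nil))) (P.cons (P.cons (P.lf 127146 0 0) (P.cons (P.lf 0 16124 0) P.nil)) (P.cons (P.cons (P.lf 0 9528 0) P.nil) P.nil)))))) 6422)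
 (EL.cons 5 (TM.mk (P.cons (P.cons (P.lf 1301608551 0 0) (P.cons (P.lf 0 221023348 0) (P.cons (P.lf 0 12093510 0) (P.lf 1343720 0 0)))) (P.cons (P.cons (P.lf 387596419 0 0) (P.cons (P.lf 0 30907012 0) (P.cons (P.lf 0 1691102 0) (P.lf 187902 0 0)))) (P.cons (P.cons (P.lf 0 27408100 0) (P.cons (P.lf 0 136994 0) (P.cons (P.lf 0 7498 0) (P.lf 834 0 0)))) (P.cons (P.cons (P.lf 0 1857366 0) (P.cons (P.lf 150996 0 0) (P.cons (P.lf 8252 0 0) P.nil))) (P.cons (P.cons (P.lf 95575 0 0) (P.cons (P.lf 4006 0 0) P.nil)) (P.cons (P.cons (P.lf 7606 0 0) P.nil) P.nil)))))) 5356)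
 (EL.cons 9 (TM.mk (P.cons (P.cons (P.lf 0 186950637 0) (P.cons (P.lf 0 150361398 0) (P.cons (P.lf 0 8227170 0) (P.lf 914124 0 0)))) (P.cons (P.cons (P.lf 447280713 0 0) (P.cons (P.lf 0 27680094 0) (P.cons (P.lf 0 1514538 0) (P.lf 168282 0 0)))) (P.cons (P.cons (P.lf 111151 0 0) (P.cons (P.lf 0 1466550 0) (P.cons (P.lf 0 80238 0) (P.lf 8910 0 0)))) (P.cons (P.cons (P.lf 0 1403026 0) (P.cons (P.lf 20322 0 0) (P.cons (P.lf 1110 0 0) P.nil))) (P.cons (P.cons (P.lf 0 35889 0) (P.cons (P.lf 4470 0 0) P.nil)) (P.cons (P.cons (P.lf 1636 0 0) P.nil) P.nil)))))) 1588)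
 (EL.cons 2 (TM.mk (P.cons (P.cons (P.lf 699110510 0 0) (P.cons (P.lf 87721568 0 0) (P.cons (P.lf 0 13392812 0) (P.cons (P.lf 0 409148 0) (P.lf 34093 0 0))))) (P.cons (P.cons (P.lf 57491814 0 0) (P.cons (P.lf 7213840 0 0) (P.cons (P.lf 0 1101366 0) (P.cons (P.lf 0 33643 0) (P.lf 2801 0 0))))) (P.cons (P.cons (P.lf 0 2765154 0) (P.cons (P.lf 0 346961 0) (P.cons (P.lf 52970 0 0) (P.cons (P.lf 1617 0 0) P.nil)))) (P.cons (P.cons (P.lf 0 358858 0) (P.cons (P.lf 0 45025 0) (P.cons (P.lf 6870 0 0) P.nil))) (P.cons (P.cons (P.lf 0 4559 0) (P.cons (P.lf 0 570 0) P.nil)) (P.cons (P.cons (P.lf 554 0 0) P.nil) P.nil)))))) 1227)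
 (EL.cons 6 (TM.mk (P.cons (P.cons (P.lf 338629983 0 0) (P.cons (P.lf 42489924 0 0) (P.cons (P.lf 0 6487110 0) (P.cons (P.lf 0 198180 0) (P.lf 16512 0 0))))) (P.cons (P.cons (P.lf 62338542 0 0) (P.cons (P.lf 7821987 0 0) (P.cons (P.lf 0 1194213 0) (P.cons (P.lf 0 36480 0) (P.lf 3039 0 0))))) (P.cons (P.cons (P.lf 3302835 0 0) (P.cons (P.lf 414426 0 0) (P.cons (P.lf 0 63270 0) (P.cons (P.lf 0 1932 0) P.nil)))) (P.cons (P.cons (P.lf 0 45771 0) (P.cons (P.lf 0 5742 0) (P.cons (P.lf 876 0 0) P.nil))) (P.cons (P.cons (P.lf 0 10071 0) (P.cons (P.lf 0 1263 0) P.nil)) (P.cons (P.cons (P.lf 0 249 0) P.nil) P.nil)))))) 684)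
 EL.nil))))))
noncomputable def S140_154_364_438_2 : EL := (EL.cons 0 (TM.mk (P.cons (P.cons (P.lf 242989119 0 0) (P.cons (P.lf 183908207 0 0) (P.cons (P.lf 794122 0 0) (P.cons (P.lf 0 2132343 0) (P.cons (P.lf 84941 0 0) (P.cons (P.lf 6161 0 0) P.nil)))))) (P.cons (P.cons (P.lf 0 591373482 0) (P.cons (P.lf 54764921 0 0) (P.cons (P.lf 707583 0 0) (P.cons (P.lf 0 583416 0) (P.cons (P.lf 20971 0 0) P.nil))))) (P.cons (P.cons (P.lf 19925381 0 0) (P.cons (P.lf 0 801225 0) (P.cons (P.lf 0 100013 0) (P.cons (P.lf 0 1261 0) P.nil)))) (P.cons (P.cons (P.lf 11109138 0 0) (P.cons (P.lf 0 1219639 0) (P.cons (P.lf 0 29938 0) P.nil))) (P.cons (P.cons (P.lf 136805 0 0) (P.cons (P.lf 0 82080 0) P.nil)) (P.cons (P.cons (P.lf 0 77309 0) P.nil) P.nil)))))) 70133)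
 (EL.cons 1 (TM.mk (P.cons (P.cons (P.lf 0 31312686 0) (P.cons (P.lf 0 24532028 0) (P.cons (P.lf 0 817692 0) (P.cons (P.lf 206556 0 0) (P.cons (P.lf 0 4813 0) (P.cons (P.lf 0 351 0) P.nil)))))) (P.cons (P.cons (P.lf 93332191 0 0) (P.cons (P.lf 7643430 0 0) (P.cons (P.lf 0 266850 0) (P.cons (P.lf 0 121437 0) (P.cons (P.lf 6274 0 0) P.nil))))) (P.cons (P.cons (P.lf 0 43715575 0) (P.cons (P.lf 4959169 0 0) (P.cons (P.lf 44274 0 0) (P.cons (P.lf 0 54989 0) P.nil)))) (P.cons (P.cons (P.lf 0 1204604 0) (P.cons (P.lf 326164 0 0) (P.cons (P.lf 0 3402 0) P.nil))) (P.cons (P.cons (P.lf 546940 0 0) (P.cons (P.lf 0 44133 0) P.nil)) (P.cons (P.cons (P.lf 21936 0 0) P.nil) P.nil)))))) 35366)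
 (EL.cons 5 (TM.mk (P.cons (P.cons (P.lf 0 80247743 0) (P.cons (P.lf 0 55499499 0) (P.cons (P.lf 4236004 0 0) (P.cons (P.lf 1133274 0 0) (P.cons (P.lf 0 66651 0) (P.cons (P.lf 0 4834 0) P.nil)))))) (P.cons (P.cons (P.lf 180846050 0 0) (P.cons (P.lf 0 41313383 0) (P.cons (P.lf 17676 0 0) (P.cons (P.lf 500467 0 0) (P.cons (P.lf 0 20875 0) P.nil))))) (P.cons (P.cons (P.lf 28101969 0 0) (P.cons (P.lf 0 3980502 0) (P.cons (P.lf 14533 0 0) (P.cons (P.lf 49608 0 0) P.nil)))) (P.cons (P.cons (P.lf 0 3840127 0) (P.cons (P.lf 274662 0 0) (P.cons (P.lf 15152 0 0) P.nil))) (P.cons (P.cons (P.lf 0 267068 0) (P.cons (P.lf 47584 0 0) P.nil)) (P.cons (P.cons (P.lf 21674 0 0) P.nil) P.nil)))))) 32460)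
 (EL.cons 9 (TM.mk (P.cons (P.cons (P.lf 5425036 0 0) (P.cons (P.lf 8726541 0 0) (P.cons (P.lf 3986790 0 0) (P.cons (P.lf 330976 0 0) (P.cons (P.lf 0 32163 0) (P.cons (P.lf 0 2334 0) P.nil)))))) (P.cons (P.cons (P.lf 0 25958881 0) (P.cons (P.lf 0 19271839 0) (P.cons (P.lf 237582 0 0) (P.cons (P.lf 258555 0 0) (P.cons (P.lf 0 11841 0) P.nil))))) (P.cons (P.cons (P.lf 31046953 0 0) (P.cons (P.lf 0 3763570 0) (P.cons (P.lf 0 18543 0) (P.cons (P.lf 43386 0 0) P.nil)))) (P.cons (P.cons (P.lf 96861 0 0) (P.cons (P.lf 0 140280 0) (P.cons (P.lf 3978 0 0) P.nil))) (P.cons (P.cons (P.lf 0 192730 0) (P.cons (P.lf 16242 0 0) P.nil)) (P.cons (P.cons (P.lf 0 5125 0) P.nil) P.nil)))))) 11938)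
 (EL.cons 2 (TM.mk (P.cons (P.cons (P.lf 0 40574356 0) (P.cons (P.lf 0 37724411 0) (P.cons (P.lf 0 5102977 0) (P.cons (P.lf 623244 0 0) (P.cons (P.lf 76218 0 0) (P.cons (P.lf 0 4342 0) P.nil)))))) (P.cons (P.cons (P.lf 93737773 0 0) (P.cons (P.lf 3070732 0 0) (P.cons (P.lf 0 3361792 0) (P.cons (P.lf 104799 0 0) (P.cons (P.lf 25396 0 0) P.nil))))) (P.cons (P.cons (P.lf 8167584 0 0) (P.cons (P.lf 341589 0 0) (P.cons (P.lf 0 279579 0) (P.cons (P.lf 7768 0 0) P.nil)))) (P.cons (P.cons (P.lf 0 665640 0) (P.cons (P.lf 0 64771 0) (P.cons (P.lf 16126 0 0) P.nil))) (P.cons (P.cons (P.lf 0 82485 0) (P.cons (P.lf 0 4460 0) P.nil)) (P.cons (P.cons (P.lf 236 0 0) P.nil) P.nil)))))) 12166)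
 (EL.cons 6 (TM.mk (P.cons (P.cons (P.lf 0 19653102 0) (P.cons (P.lf 0 18272670 0) (P.cons (P.lf 0 2471742 0) (P.cons (P.lf 301878 0 0) (P.cons (P.lf 36912 0 0) (P.cons (P.lf 0 2100 0) P.nil)))))) (P.cons (P.cons (P.lf 43402248 0 0) (P.cons (P.lf 0 373776 0) (P.cons (P.lf 0 1880118 0) (P.cons (P.lf 81510 0 0) (P.cons (P.lf 16062 0 0) P.nil))))) (P.cons (P.cons (P.lf 8475966 0 0) (P.cons (P.lf 219510 0 0) (P.cons (P.lf 0 314454 0) (P.cons (P.lf 10542 0 0) P.nil)))) (P.cons (P.cons (P.lf 315924 0 0) (P.cons (P.lf 0 12846 0) (P.cons (P.lf 0 15510 0) P.nil))) (P.cons (P.cons (P.lf 0 36576 0) (P.cons (P.lf 0 4362 0) P.nil)) (P.cons (P.cons (P.lf 0 3342 0) P.nil) P.nil)))))) 8466)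
 EL.nil))))))
noncomputable def S140_154_364_438_3 : EL := (EL.cons 0 (TM.mk (P.cons (P.lf 3638739650 0 0) (P.cons (P.lf 0 294674568 0) (P.cons (P.lf 0 6571395 0) (P.cons (P.lf 434682 0 0) (P.cons (P.lf 21573 0 0) (P.cons (P.lf 42 0 0) P.nil)))))) 205)
 (EL.cons 1 (TM.mk (P.cons (P.lf 1762505823 0 0) (P.cons (P.lf 36787346 0 0) (P.cons (P.lf 0 8322086 0) (P.cons (P.lf 0 271203 0) (P.cons (P.lf 4801 0 0) (P.cons (P.lf 468 0 0) P.nil)))))) 132)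
 (EL.cons 5 (TM.mk (P.cons (P.lf 853709548 0 0) (P.cons (P.lf 104773178 0 0) (P.cons (P.lf 2336498 0 0) (P.cons (P.lf 0 154550 0) (P.cons (P.lf 0 7670 0) (P.cons (P.lf 0 18 0) P.nil)))))) 80)
 EL.nil)))
noncomputable def S140_154_364_438_4 : EL := (EL.cons 0 (TM.mk (P.cons (P.cons (P.lf 0 105590977 0) (P.cons (P.lf 0 84925128 0) (P.cons (P.lf 0 4646759 0) (P.lf 516302 0 0)))) (P.cons (P.cons (P.lf 261178187 0 0) (P.cons (P.lf 0 8756444 0) (P.cons (P.lf 0 479112 0) (P.lf 53233 0 0)))) (P.cons (P.cons (P.lf 0 20204929 0) (P.cons (P.lf 591125 0 0) (P.cons (P.lf 32345 0 0) (P.lf 0 3596 0)))) (P.cons (P.cons (P.lf 0 1266368 0) (P.cons (P.lf 96644 0 0) (P.cons (P.lf 5285 0 0) P.nil))) (P.cons (P.cons (P.lf 73341 0 0) (P.cons (P.lf 718 0 0) P.nil)) (P.cons (P.cons (P.lf 5500 0 0) P.nil) P.nil)))))) 2624)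
 (EL.cons 1 (TM.mk (P.cons (P.cons (P.lf 0 51145376 0) (P.cons (P.lf 0 41135405 0) (P.cons (P.lf 0 2250763 0) (P.lf 250081 0 0)))) (P.cons (P.cons (P.lf 121298158 0 0) (P.cons (P.lf 0 8431218 0) (P.cons (P.lf 0 461319 0) (P.lf 51256 0 0)))) (P.cons (P.cons (P.lf 2825941 0 0) (P.cons (P.lf 0 365040 0) (P.cons (P.lf 0 19970 0) (P.lf 2216 0 0)))) (P.cons (P.cons (P.lf 0 953107 0) (P.cons (P.lf 39270 0 0) (P.cons (P.lf 2146 0 0) P.nil))) (P.cons (P.cons (P.lf 0 36941 0) (P.cons (P.lf 4284 0 0) P.nil)) (P.cons (P.cons (P.lf 2368 0 0) P.nil) P.nil)))))) 1408)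
 (EL.cons 5 (TM.mk (P.cons (P.cons (P.lf 0 24773418 0) (P.cons (P.lf 0 19924862 0) (P.cons (P.lf 0 1090206 0) (P.lf 121132 0 0)))) (P.cons (P.cons (P.lf 56230214 0 0) (P.cons (P.lf 0 6113294 0) (P.cons (P.lf 0 334492 0) (P.lf 37164 0 0)))) (P.cons (P.cons (P.lf 7221024 0 0) (P.cons (P.lf 0 699028 0) (P.cons (P.lf 0 38246 0) (P.lf 4248 0 0)))) (P.cons (P.cons (P.lf 0 17410 0) (P.cons (P.lf 0 27588 0) (P.cons (P.lf 0 1508 0) P.nil))) (P.cons (P.cons (P.lf 0 38038 0) (P.cons (P.lf 1232 0 0) P.nil)) (P.cons (P.cons (P.lf 0 1410 0) P.nil) P.nil)))))) 870)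
 EL.nil)))
noncomputable def S140_154_364_438_5 : EL := (EL.cons 0 (TM.mk (P.cons (P.cons (P.lf 3064095 0 0) (P.cons (P.lf 4928807 0 0) (P.cons (P.lf 2251764 0 0) (P.cons (P.lf 186936 0 0) (P.cons (P.lf 0 18165 0) (P.cons (P.lf 0 1316 0) P.nil)))))) (P.cons (P.cons (P.lf 0 14909888 0) (P.cons (P.lf 0 11284011 0) (P.cons (P.lf 0 48165 0) (P.cons (P.lf 130893 0 0) (P.cons (P.lf 0 5215 0) P.nil))))) (P.cons (P.cons (P.lf 18717340 0 0) (P.cons (P.lf 0 1253105 0) (P.cons (P.lf 0 25405 0) (P.cons (P.lf 12339 0 0) P.nil)))) (P.cons (P.cons (P.lf 0 1338519 0) (P.cons (P.lf 113157 0 0) (P.cons (P.lf 3120 0 0) P.nil))) (P.cons (P.cons (P.lf 0 146685 0) (P.cons (P.lf 18156 0 0) P.nil)) (P.cons (P.cons (P.lf 7829 0 0) P.nil) P.nil)))))) 12430)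
 (EL.cons 1 (TM.mk (P.cons (P.cons (P.lf 1484163 0 0) (P.cons (P.lf 2387379 0 0) (P.cons (P.lf 1090693 0 0) (P.cons (P.lf 90545 0 0) (P.cons (P.lf 0 8797 0) (P.cons (P.lf 0 637 0) P.nil)))))) (P.cons (P.cons (P.lf 0 7070771 0) (P.cons (P.lf 0 5222499 0) (P.cons (P.lf 87761 0 0) (P.cons (P.lf 72622 0 0) (P.cons (P.lf 0 3421 0) P.nil))))) (P.cons (P.cons (P.lf 8338490 0 0) (P.cons (P.lf 0 1150942 0) (P.cons (P.lf 0 8865 0) (P.cons (P.lf 12916 0 0) P.nil)))) (P.cons (P.cons (P.lf 237086 0 0) (P.cons (P.lf 0 35340 0) (P.cons (P.lf 506 0 0) P.nil))) (P.cons (P.cons (P.lf 0 91181 0) (P.cons (P.lf 9320 0 0) P.nil)) (P.cons (P.cons (P.lf 0 3952 0) P.nil) P.nil)))))) 6603)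
 (EL.cons 5 (TM.mk (P.cons (P.cons (P.lf 718888 0 0) (P.cons (P.lf 1156380 0 0) (P.cons (P.lf 528302 0 0) (P.cons (P.lf 43858 0 0) (P.cons (P.lf 0 4260 0) (P.cons (P.lf 0 308 0) P.nil)))))) (P.cons (P.cons (P.lf 0 3351664 0) (P.cons (P.lf 0 2411852 0) (P.cons (P.lf 96318 0 0) (P.cons (P.lf 39644 0 0) (P.cons (P.lf 0 2090 0) P.nil))))) (P.cons (P.cons (P.lf 3693928 0 0) (P.cons (P.lf 0 808972 0) (P.cons (P.lf 2852 0 0) (P.cons (P.lf 10074 0 0) P.nil)))) (P.cons (P.cons (P.lf 508204 0 0) (P.cons (P.lf 0 86994 0) (P.cons (P.lf 214 0 0) P.nil))) (P.cons (P.cons (P.lf 0 12086 0) (P.cons (P.lf 0 1042 0) P.nil)) (P.cons (P.cons (P.lf 0 4492 0) P.nil) P.nil)))))) 3674)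
 EL.nil)))
noncomputable def S140_154_364_438_6 : EL := (EL.cons 12 (TM.mk (P.lf 8589934592 0 0) 0)
 (EL.cons 3 (TM.mk (P.cons (P.lf 0 2795377237 0) (P.cons (P.lf 113188447 0 0) (P.cons (P.lf 4815735 0 0) (P.cons (P.lf 28027 0 0) (P.cons (P.lf 0 3003 0) (P.cons (P.lf 0 90 0) P.nil)))))) 67)
 (EL.cons 7 (TM.mk (P.cons (P.lf 0 1354004171 0) (P.cons (P.lf 0 83086409 0) (P.cons (P.lf 696363 0 0) (P.cons (P.lf 79830 0 0) (P.cons (P.lf 1364 0 0) (P.cons (P.lf 0 28 0) P.nil)))))) 46)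
 EL.nil)))
noncomputable def S140_154_364_438_7 : EL := (EL.cons 12 (TM.mk (P.cons (P.cons (P.lf 0 249267516 0) (P.cons (P.lf 0 200481864 0) (P.cons (P.lf 0 10969560 0) (P.lf 1218832 0 0)))) (P.cons (P.cons (P.lf 596374284 0 0) (P.cons (P.lf 0 36906792 0) (P.cons (P.lf 0 2019384 0) (P.lf 224376 0 0)))) (P.cons (P.cons (P.lf 148202 0 0) (P.cons (P.lf 0 1955400 0) (P.cons (P.lf 0 106984 0) (P.lf 11880 0 0)))) (P.cons (P.cons (P.lf 0 1870702 0) (P.cons (P.lf 27096 0 0) (P.cons (P.lf 1480 0 0) P.nil))) (P.cons (P.cons (P.lf 0 47852 0) (P.cons (P.lf 5960 0 0) P.nil)) (P.cons (P.cons (P.lf 2182 0 0) P.nil) P.nil)))))) 2092)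
 (EL.cons 3 (TM.mk (P.cons (P.cons (P.lf 3243828705 0 0) (P.cons (P.lf 0 130483516 0) (P.cons (P.lf 0 7139530 0) (P.lf 793274 0 0)))) (P.cons (P.cons (P.lf 0 76760286 0) (P.cons (P.lf 0 18737318 0) (P.cons (P.lf 0 1025224 0) (P.lf 113912 0 0)))) (P.cons (P.cons (P.lf 0 25854975 0) (P.cons (P.lf 0 75246 0) (P.cons (P.lf 0 4110 0) (P.lf 450 0 0)))) (P.cons (P.cons (P.lf 0 1193021 0) (P.cons (P.lf 111856 0 0) (P.cons (P.lf 6118 0 0) P.nil))) (P.cons (P.cons (P.lf 48438 0 0) (P.cons (P.lf 5456 0 0) P.nil)) (P.cons (P.cons (P.lf 5257 0 0) P.nil) P.nil)))))) 5665)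
 (EL.cons 7 (TM.mk (P.cons (P.cons (P.lf 0 2282308696 0) (P.cons (P.lf 175274215 0 0) (P.cons (P.lf 9590302 0 0) (P.lf 0 1065591 0)))) (P.cons (P.cons (P.lf 56346171 0 0) (P.cons (P.lf 13754204 0 0) (P.cons (P.lf 752576 0 0) (P.lf 0 83621 0)))) (P.cons (P.cons (P.lf 16109383 0 0) (P.cons (P.lf 0 645226 0) (P.cons (P.lf 0 35300 0) (P.lf 3922 0 0)))) (P.cons (P.cons (P.lf 0 318287 0) (P.cons (P.lf 0 62744 0) (P.cons (P.lf 0 3431 0) P.nil))) (P.cons (P.cons (P.lf 0 59011 0) (P.cons (P.lf 1326 0 0) P.nil)) (P.cons (P.cons (P.lf 0 488 0) P.nil) P.nil)))))) 3525)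
 (EL.cons 10 (TM.mk (P.cons (P.cons (P.lf 0 1074150834 0) (P.cons (P.lf 0 134780118 0) (P.cons (P.lf 20577435 0 0) (P.cons (P.lf 628638 0 0) (P.lf 0 52386 0))))) (P.cons (P.cons (P.lf 0 131827266 0) (P.cons (P.lf 0 16541154 0) (P.cons (P.lf 2525406 0 0) (P.cons (P.lf 77148 0 0) (P.lf 0 6429 0))))) (P.cons (P.cons (P.lf 0 2939817 0) (P.cons (P.lf 0 368874 0) (P.cons (P.lf 56316 0 0) (P.cons (P.lf 1719 0 0) P.nil)))) (P.cons (P.cons (P.lf 194457 0 0) (P.cons (P.lf 24399 0 0) (P.cons (P.lf 0 3723 0) P.nil))) (P.cons (P.cons (P.lf 9648 0 0) (P.cons (P.lf 1209 0 0) P.nil)) (P.cons (P.cons (P.lf 21 0 0) P.nil) P.nil)))))) 678)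
 EL.nil))))
noncomputable def S140_154_364_438_8 : EL := (EL.cons 12 (TM.mk (P.cons (P.cons (P.lf 7233382 0 0) (P.cons (P.lf 11635388 0 0) (P.cons (P.lf 5315720 0 0) (P.cons (P.lf 441302 0 0) (P.cons (P.lf 0 42884 0) (P.cons (P.lf 0 3112 0) P.nil)))))) (P.cons (P.cons (P.lf 0 34611842 0) (P.cons (P.lf 0 25695786 0) (P.cons (P.lf 316776 0 0) (P.cons (P.lf 344740 0 0) (P.cons (P.lf 0 15788 0) P.nil))))) (P.cons (P.cons (P.lf 41395938 0 0) (P.cons (P.lf 0 5018094 0) (P.cons (P.lf 0 24724 0) (P.cons (P.lf 57848 0 0) P.nil)))) (P.cons (P.cons (P.lf 129148 0 0) (P.cons (P.lf 0 187040 0) (P.cons (P.lf 5304 0 0) P.nil))) (P.cons (P.cons (P.lf 0 256974 0) (P.cons (P.lf 21656 0 0) P.nil)) (P.cons (P.cons (P.lf 0 6834 0) P.nil) P.nil)))))) 15888)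
 (EL.cons 3 (TM.mk (P.cons (P.cons (P.lf 0 185908536 0) (P.cons (P.lf 0 140057146 0) (P.cons (P.lf 0 49926 0) (P.cons (P.lf 1684632 0 0) (P.cons (P.lf 0 69776 0) (P.cons (P.lf 0 5066 0) P.nil)))))) (P.cons (P.cons (P.lf 443515342 0 0) (P.cons (P.lf 0 49837368 0) (P.cons (P.lf 0 232050 0) (P.cons (P.lf 576003 0 0) (P.cons (P.lf 0 22866 0) P.nil))))) (P.cons (P.cons (P.lf 4877274 0 0) (P.cons (P.lf 0 3513204 0) (P.cons (P.lf 87685 0 0) (P.cons (P.lf 51984 0 0) P.nil)))) (P.cons (P.cons (P.lf 0 5420409 0) (P.cons (P.lf 392140 0 0) (P.cons (P.lf 25372 0 0) P.nil))) (P.cons (P.cons (P.lf 0 280483 0) (P.cons (P.lf 61016 0 0) P.nil)) (P.cons (P.cons (P.lf 21084 0 0) P.nil) P.nil)))))) 38253)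
 (EL.cons 7 (TM.mk (P.cons (P.cons (P.lf 133598789 0 0) (P.cons (P.lf 98195977 0 0) (P.cons (P.lf 0 2071068 0) (P.cons (P.lf 0 1411587 0) (P.cons (P.lf 68223 0 0) (P.cons (P.lf 4948 0 0) P.nil)))))) (P.cons (P.cons (P.lf 0 325564125 0) (P.cons (P.lf 36583309 0 0) (P.cons (P.lf 170338 0 0) (P.cons (P.lf 0 422814 0) (P.cons (P.lf 16781 0 0) P.nil))))) (P.cons (P.cons (P.lf 12999946 0 0) (P.cons (P.lf 715794 0 0) (P.cons (P.lf 0 73040 0) (P.cons (P.lf 0 16623 0) P.nil)))) (P.cons (P.cons (P.lf 3674843 0 0) (P.cons (P.lf 0 401483 0) (P.cons (P.lf 0 13961 0) P.nil))) (P.cons (P.cons (P.lf 0 81620 0) (P.cons (P.lf 0 19162 0) P.nil)) (P.cons (P.cons (P.lf 0 20930 0) P.nil) P.nil)))))) 23146)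
 (EL.cons 10 (TM.mk (P.cons (P.cons (P.lf 62340612 0 0) (P.cons (P.lf 57961806 0 0) (P.cons (P.lf 7840488 0 0) (P.cons (P.lf 0 957588 0) (P.cons (P.lf 0 117102 0) (P.cons (P.lf 6678 0 0) P.nil)))))) (P.cons (P.cons (P.lf 0 141499488 0) (P.cons (P.lf 0 2371092 0) (P.cons (P.lf 5482710 0 0) (P.cons (P.lf 0 199800 0) (P.cons (P.lf 0 43764 0) P.nil))))) (P.cons (P.cons (P.lf 0 18171216 0) (P.cons (P.lf 0 520992 0) (P.cons (P.lf 665070 0 0) (P.cons (P.lf 0 21678 0) P.nil)))) (P.cons (P.cons (P.lf 43812 0 0) (P.cons (P.lf 74922 0 0) (P.cons (P.lf 11670 0 0) P.nil))) (P.cons (P.cons (P.lf 95724 0 0) (P.cons (P.lf 8904 0 0) P.nil)) (P.cons (P.cons (P.lf 3546 0 0) P.nil) P.nil)))))) 18228)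
 EL.nil))))
noncomputable def S140_154_364_438_9 : EL := (EL.cons 3 (TM.mk (P.cons (P.lf 0 2795377237 0) (P.cons (P.lf 113188447 0 0) (P.cons (P.lf 4815735 0 0) (P.cons (P.lf 28027 0 0) (P.cons (P.lf 0 3003 0) (P.cons (P.lf 0 90 0) P.nil)))))) 67)
 (EL.cons 7 (TM.mk (P.cons (P.lf 0 1354004171 0) (P.cons (P.lf 0 83086409 0) (P.cons (P.lf 696363 0 0) (P.cons (P.lf 79830 0 0) (P.cons (P.lf 1364 0 0) (P.cons (P.lf 0 28 0) P.nil)))))) 46)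
 EL.nil))
noncomputable def S140_154_364_438_10 : EL := (EL.cons 3 (TM.mk (P.cons (P.cons (P.lf 81117816 0 0) (P.cons (P.lf 65241758 0 0) (P.cons (P.lf 3569765 0 0) (P.lf 0 396637 0)))) (P.cons (P.cons (P.lf 0 197359512 0) (P.cons (P.lf 9368659 0 0) (P.cons (P.lf 512612 0 0) (P.lf 0 56956 0)))) (P.cons (P.cons (P.lf 7670370 0 0) (P.cons (P.lf 37623 0 0) (P.cons (P.lf 2055 0 0) (P.lf 0 225 0)))) (P.cons (P.cons (P.lf 944254 0 0) (P.cons (P.lf 0 55928 0) (P.cons (P.lf 0 3059 0) P.nil))) (P.cons (P.cons (P.lf 0 6960 0) (P.cons (P.lf 0 2728 0) P.nil)) (P.cons (P.cons (P.lf 0 2594 0) P.nil) P.nil)))))) 1329)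
 (EL.cons 7 (TM.mk (P.cons (P.cons (P.lf 39291248 0 0) (P.cons (P.lf 31601320 0 0) (P.cons (P.lf 1729096 0 0) (P.lf 0 192120 0)))) (P.cons (P.cons (P.lf 0 91593540 0) (P.cons (P.lf 7756667 0 0) (P.cons (P.lf 424412 0 0) (P.lf 0 47156 0)))) (P.cons (P.cons (P.lf 0 5812016 0) (P.cons (P.lf 648953 0 0) (P.cons (P.lf 35506 0 0) (P.lf 0 3944 0)))) (P.cons (P.cons (P.lf 339469 0 0) (P.cons (P.lf 9787 0 0) (P.cons (P.lf 535 0 0) P.nil))) (P.cons (P.cons (P.lf 31151 0 0) (P.cons (P.lf 0 1734 0) P.nil)) (P.cons (P.cons (P.lf 64 0 0) P.nil) P.nil)))))) 698)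
 EL.nil))
noncomputable def S140_154_364_438_11 : EL := (EL.cons 3 (TM.mk (P.cons (P.cons (P.lf 0 2353920 0) (P.cons (P.lf 0 3786442 0) (P.cons (P.lf 0 1729866 0) (P.cons (P.lf 0 143610 0) (P.cons (P.lf 13954 0 0) (P.cons (P.lf 1012 0 0) P.nil)))))) (P.cons (P.cons (P.lf 11358862 0 0) (P.cons (P.lf 8515362 0 0) (P.cons (P.lf 0 33042 0) (P.cons (P.lf 0 106371 0) (P.cons (P.lf 4572 0 0) P.nil))))) (P.cons (P.cons (P.lf 0 13923282 0) (P.cons (P.lf 1300944 0 0) (P.cons (P.lf 15199 0 0) (P.cons (P.lf 0 14034 0) P.nil)))) (P.cons (P.cons (P.lf 484059 0 0) (P.cons (P.lf 0 19622 0) (P.cons (P.lf 0 1856 0) P.nil))) (P.cons (P.cons (P.lf 108419 0 0) (P.cons (P.lf 0 12412 0) P.nil)) (P.cons (P.cons (P.lf 0 942 0) P.nil) P.nil)))))) 7481)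
 (EL.cons 7 (TM.mk (P.cons (P.cons (P.lf 0 1140175 0) (P.cons (P.lf 0 1834049 0) (P.cons (P.lf 0 837900 0) (P.cons (P.lf 0 69561 0) (P.cons (P.lf 6759 0 0) (P.cons (P.lf 490 0 0) P.nil)))))) (P.cons (P.cons (P.lf 5385789 0 0) (P.cons (P.lf 3937801 0 0) (P.cons (P.lf 0 101348 0) (P.cons (P.lf 0 58608 0) (P.cons (P.lf 2903 0 0) P.nil))))) (P.cons (P.cons (P.lf 0 6189740 0) (P.cons (P.lf 1040472 0 0) (P.cons (P.lf 1264 0 0) (P.cons (P.lf 0 12417 0) P.nil)))) (P.cons (P.cons (P.lf 0 423499 0) (P.cons (P.lf 76045 0 0) (P.cons (P.lf 0 521 0) P.nil))) (P.cons (P.cons (P.lf 42292 0 0) (P.cons (P.lf 0 2248 0) P.nil)) (P.cons (P.cons (P.lf 3952 0 0) P.nil) P.nil)))))) 3906)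
 EL.nil))
noncomputable def S140_154_364_438_12 : EL := (EL.cons 4 (TM.mk (P.cons (P.lf 2795377237 0 0) (P.cons (P.lf 0 113188447 0) (P.cons (P.lf 0 4815735 0) (P.cons (P.lf 0 28027 0) (P.cons (P.lf 3003 0 0) (P.cons (P.lf 90 0 0) P.nil)))))) 67)
 (EL.cons 8 (TM.mk (P.cons (P.lf 1354004171 0 0) (P.cons (P.lf 83086409 0 0) (P.cons (P.lf 0 696363 0) (P.cons (P.lf 0 79830 0) (P.cons (P.lf 0 1364 0) (P.cons (P.lf 28 0 0) P.nil)))))) 46)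
 EL.nil))
noncomputable def S140_154_364_438_13 : EL := (EL.cons 4 (TM.mk (P.cons (P.cons (P.lf 0 81117816 0) (P.cons (P.lf 0 65241758 0) (P.cons (P.lf 0 3569765 0) (P.lf 396637 0 0)))) (P.cons (P.cons (P.lf 197359512 0 0) (P.cons (P.lf 0 9368659 0) (P.cons (P.lf 0 512612 0) (P.lf 56956 0 0)))) (P.cons (P.cons (P.lf 0 7670370 0) (P.cons (P.lf 0 37623 0) (P.cons (P.lf 0 2055 0) (P.lf 225 0 0)))) (P.cons (P.cons (P.lf 0 944254 0) (P.cons (P.lf 55928 0 0) (P.cons (P.lf 3059 0 0) P.nil))) (P.cons (P.cons (P.lf 6960 0 0) (P.cons (P.lf 2728 0 0) P.nil)) (P.cons (P.cons (P.lf 2594 0 0) P.nil) P.nil)))))) 1329)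
 (EL.cons 8 (TM.mk (P.cons (P.cons (P.lf 0 39291248 0) (P.cons (P.lf 0 31601320 0) (P.cons (P.lf 0 1729096 0) (P.lf 192120 0 0)))) (P.cons (P.cons (P.lf 91593540 0 0) (P.cons (P.lf 0 7756667 0) (P.cons (P.lf 0 424412 0) (P.lf 47156 0 0)))) (P.cons (P.cons (P.lf 5812016 0 0) (P.cons (P.lf 0 648953 0) (P.cons (P.lf 0 35506 0) (P.lf 3944 0 0)))) (P.cons (P.cons (P.lf 0 339469 0) (P.cons (P.lf 0 9787 0) (P.cons (P.lf 0 535 0) P.nil))) (P.cons (P.cons (P.lf 0 31151 0) (P.cons (P.lf 1734 0 0) P.nil)) (P.cons (P.cons (P.lf 0 64 0) P.nil) P.nil)))))) 698)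
 EL.nil))
noncomputable def S140_154_364_438_14 : EL := (EL.cons 4 (TM.mk (P.cons (P.cons (P.lf 2353920 0 0) (P.cons (P.lf 3786442 0 0) (P.cons (P.lf 1729866 0 0) (P.cons (P.lf 143610 0 0) (P.cons (P.lf 0 13954 0) (P.cons (P.lf 0 1012 0) P.nil)))))) (P.cons (P.cons (P.lf 0 11358862 0) (P.cons (P.lf 0 8515362 0) (P.cons (P.lf 33042 0 0) (P.cons (P.lf 106371 0 0) (P.cons (P.lf 0 4572 0) P.nil))))) (P.cons (P.cons (P.lf 13923282 0 0) (P.cons (P.lf 0 1300944 0) (P.cons (P.lf 0 15199 0) (P.cons (P.lf 14034 0 0) P.nil)))) (P.cons (P.cons (P.lf 0 484059 0) (P.cons (P.lf 19622 0 0) (P.cons (P.lf 1856 0 0) P.nil))) (P.cons (P.cons (P.lf 0 108419 0) (P.cons (P.lf 12412 0 0) P.nil)) (P.cons (P.cons (P.lf 942 0 0) P.nil) P.nil)))))) 7481)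
 (EL.cons 8 (TM.mk (P.cons (P.cons (P.lf 1140175 0 0) (P.cons (P.lf 1834049 0 0) (P.cons (P.lf 837900 0 0) (P.cons (P.lf 69561 0 0) (P.cons (P.lf 0 6759 0) (P.cons (P.lf 0 490 0) P.nil)))))) (P.cons (P.cons (P.lf 0 5385789 0) (P.cons (P.lf 0 3937801 0) (P.cons (P.lf 101348 0 0) (P.cons (P.lf 58608 0 0) (P.cons (P.lf 0 2903 0) P.nil))))) (P.cons (P.cons (P.lf 6189740 0 0) (P.cons (P.lf 0 1040472 0) (P.cons (P.lf 0 1264 0) (P.cons (P.lf 12417 0 0) P.nil)))) (P.cons (P.cons (P.lf 423499 0 0) (P.cons (P.lf 0 76045 0) (P.cons (P.lf 521 0 0) P.nil))) (P.cons (P.cons (P.lf 0 42292 0) (P.cons (P.lf 2248 0 0) P.nil)) (P.cons (P.cons (P.lf 0 3952 0) P.nil) P.nil)))))) 3906)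
 EL.nil))
noncomputable def S140_154_364_438_15 : EL := (EL.cons 4 (TM.mk (P.cons (P.lf 0 1940661147 0) (P.cons (P.lf 157159770 0 0) (P.cons (P.lf 3504744 0 0) (P.cons (P.lf 0 231830 0) (P.cons (P.lf 0 11505 0) (P.cons (P.lf 0 22 0) P.nil)))))) 112)
 (EL.cons 8 (TM.mk (P.cons (P.lf 0 940003106 0) (P.cons (P.lf 0 19619918 0) (P.cons (P.lf 4438446 0 0) (P.cons (P.lf 144642 0 0) (P.cons (P.lf 0 2561 0) (P.cons (P.lf 0 250 0) P.nil)))))) 67)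
 EL.nil))
noncomputable def S140_154_364_438_16 : EL := (EL.cons 4 (TM.mk (P.cons (P.cons (P.lf 56315188 0 0) (P.cons (P.lf 45293401 0 0) (P.cons (P.lf 2478271 0 0) (P.lf 0 275361 0)))) (P.cons (P.cons (P.lf 0 139295033 0) (P.cons (P.lf 4670103 0 0) (P.cons (P.lf 255526 0 0) (P.lf 0 28391 0)))) (P.cons (P.cons (P.lf 10775962 0 0) (P.cons (P.lf 0 315267 0) (P.cons (P.lf 0 17250 0) (P.lf 1918 0 0)))) (P.cons (P.cons (P.lf 675396 0 0) (P.cons (P.lf 0 51543 0) (P.cons (P.lf 0 2819 0) P.nil))) (P.cons (P.cons (P.lf 0 39115 0) (P.cons (P.lf 0 383 0) P.nil)) (P.cons (P.cons (P.lf 0 2933 0) P.nil) P.nil)))))) 1408)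
 (EL.cons 8 (TM.mk (P.cons (P.cons (P.lf 27277534 0 0) (P.cons (P.lf 21938883 0 0) (P.cons (P.lf 1200407 0 0) (P.lf 0 133377 0)))) (P.cons (P.cons (P.lf 0 64692351 0) (P.cons (P.lf 4496650 0 0) (P.cons (P.lf 246037 0 0) (P.lf 0 27337 0)))) (P.cons (P.cons (P.lf 0 1507169 0) (P.cons (P.lf 194688 0 0) (P.cons (P.lf 10651 0 0) (P.lf 0 1182 0)))) (P.cons (P.cons (P.lf 508324 0 0) (P.cons (P.lf 0 20944 0) (P.cons (P.lf 0 1145 0) P.nil))) (P.cons (P.cons (P.lf 19702 0 0) (P.cons (P.lf 0 2285 0) P.nil)) (P.cons (P.cons (P.lf 0 1263 0) P.nil) P.nil)))))) 741)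
 EL.nil))
noncomputable def S140_154_364_438_17 : EL := (EL.cons 4 (TM.mk (P.cons (P.cons (P.lf 0 1634184 0) (P.cons (P.lf 0 2628697 0) (P.cons (P.lf 0 1200941 0) (P.cons (P.lf 0 99699 0) (P.cons (P.lf 9688 0 0) (P.cons (P.lf 702 0 0) P.nil)))))) (P.cons (P.cons (P.lf 7951940 0 0) (P.cons (P.lf 6018139 0 0) (P.cons (P.lf 25688 0 0) (P.cons (P.lf 0 69810 0) (P.cons (P.lf 2781 0 0) P.nil))))) (P.cons (P.cons (P.lf 0 9982581 0) (P.cons (P.lf 668323 0 0) (P.cons (P.lf 13549 0 0) (P.cons (P.lf 0 6581 0) P.nil)))) (P.cons (P.cons (P.lf 713877 0 0) (P.cons (P.lf 0 60350 0) (P.cons (P.lf 0 1664 0) P.nil))) (P.cons (P.cons (P.lf 78232 0 0) (P.cons (P.lf 0 9683 0) P.nil)) (P.cons (P.cons (P.lf 0 4175 0) P.nil) P.nil)))))) 6639)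
 (EL.cons 8 (TM.mk (P.cons (P.cons (P.lf 0 791554 0) (P.cons (P.lf 0 1273269 0) (P.cons (P.lf 0 581703 0) (P.cons (P.lf 0 48291 0) (P.cons (P.lf 4692 0 0) (P.cons (P.lf 340 0 0) P.nil)))))) (P.cons (P.cons (P.lf 3771078 0 0) (P.cons (P.lf 2785333 0 0) (P.cons (P.lf 0 46806 0) (P.cons (P.lf 0 38732 0) (P.cons (P.lf 1825 0 0) P.nil))))) (P.cons (P.cons (P.lf 0 4447195 0) (P.cons (P.lf 613836 0 0) (P.cons (P.lf 4728 0 0) (P.cons (P.lf 0 6889 0) P.nil)))) (P.cons (P.cons (P.lf 0 126446 0) (P.cons (P.lf 18848 0 0) (P.cons (P.lf 0 270 0) P.nil))) (P.cons (P.cons (P.lf 48630 0 0) (P.cons (P.lf 0 4971 0) P.nil)) (P.cons (P.cons (P.lf 2108 0 0) P.nil) P.nil)))))) 3510)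
 EL.nil))
noncomputable def S140_154_364_438_18 : EL := (EL.cons 4 (TM.mk (P.cons (P.lf 1347283520 0 0) (P.cons (P.lf 0 163659767 0) (P.cons (P.lf 0 336299 0) (P.cons (P.lf 433920 0 0) (P.cons (P.lf 8204 0 0) (P.cons (P.lf 0 633 0) P.nil)))))) 143)
 (EL.cons 8 (TM.mk (P.cons (P.lf 652587236 0 0) (P.cons (P.lf 0 12803181 0) (P.cons (P.lf 0 4757117 0) (P.cons (P.lf 0 5657 0) (P.cons (P.lf 11717 0 0) (P.cons (P.lf 341 0 0) P.nil)))))) 78)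
 EL.nil))
noncomputable def S140_154_364_438_19 : EL := (EL.cons 4 (TM.mk (P.cons (P.cons (P.lf 0 39096225 0) (P.cons (P.lf 0 31444466 0) (P.cons (P.lf 0 1720514 0) (P.lf 191166 0 0)))) (P.cons (P.cons (P.lf 98287163 0 0) (P.cons (P.lf 0 1968943 0) (P.cons (P.lf 0 107730 0) (P.lf 11970 0 0)))) (P.cons (P.cons (P.lf 0 11329419 0) (P.cons (P.lf 404321 0 0) (P.cons (P.lf 22123 0 0) (P.lf 0 2459 0)))) (P.cons (P.cons (P.lf 0 332172 0) (P.cons (P.lf 32821 0 0) (P.cons (P.lf 1795 0 0) P.nil))) (P.cons (P.cons (P.lf 58018 0 0) (P.cons (P.lf 0 1560 0) P.nil)) (P.cons (P.cons (P.lf 1921 0 0) P.nil) P.nil)))))) 1342)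
 (EL.cons 8 (TM.mk (P.cons (P.cons (P.lf 0 18937140 0) (P.cons (P.lf 0 15230838 0) (P.cons (P.lf 0 833369 0) (P.lf 92595 0 0)))) (P.cons (P.cons (P.lf 45678771 0 0) (P.cons (P.lf 0 2505035 0) (P.cons (P.lf 0 137064 0) (P.lf 15229 0 0)))) (P.cons (P.cons (P.lf 0 739583 0) (P.cons (P.lf 17481 0 0) (P.cons (P.lf 956 0 0) (P.lf 0 106 0)))) (P.cons (P.cons (P.lf 0 472448 0) (P.cons (P.lf 25543 0 0) (P.cons (P.lf 1397 0 0) P.nil))) (P.cons (P.cons (P.lf 0 1662 0) (P.cons (P.lf 1245 0 0) P.nil)) (P.cons (P.cons (P.lf 2076 0 0) P.nil) P.nil)))))) 750)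
 EL.nil))
noncomputable def S140_154_364_438_20 : EL := (EL.cons 4 (TM.mk (P.cons (P.cons (P.lf 1134515 0 0) (P.cons (P.lf 1824945 0 0) (P.cons (P.lf 833740 0 0) (P.cons (P.lf 69215 0 0) (P.cons (P.lf 0 6725 0) (P.cons (P.lf 0 487 0) P.nil)))))) (P.cons (P.cons (P.lf 0 5566488 0) (P.cons (P.lf 0 4251924 0) (P.cons (P.lf 0 51592 0) (P.cons (P.lf 45661 0 0) (P.cons (P.lf 0 1658 0) P.nil))))) (P.cons (P.cons (P.lf 7151881 0 0) (P.cons (P.lf 0 297945 0) (P.cons (P.lf 0 10121 0) (P.cons (P.lf 2487 0 0) P.nil)))) (P.cons (P.cons (P.lf 0 766719 0) (P.cons (P.lf 67864 0 0) (P.cons (P.lf 1559 0 0) P.nil))) (P.cons (P.cons (P.lf 0 46126 0) (P.cons (P.lf 5869 0 0) P.nil)) (P.cons (P.cons (P.lf 5876 0 0) P.nil) P.nil)))))) 5416)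
 (EL.cons 8 (TM.mk (P.cons (P.cons (P.lf 549528 0 0) (P.cons (P.lf 883953 0 0) (P.cons (P.lf 403841 0 0) (P.cons (P.lf 33525 0 0) (P.cons (P.lf 0 3257 0) (P.cons (P.lf 0 236 0) P.nil)))))) (P.cons (P.cons (P.lf 0 2640282 0) (P.cons (P.lf 0 1969480 0) (P.cons (P.lf 16142 0 0) (P.cons (P.lf 25532 0 0) (P.cons (P.lf 0 1135 0) P.nil))))) (P.cons (P.cons (P.lf 3192479 0 0) (P.cons (P.lf 0 349374 0) (P.cons (P.lf 0 5294 0) (P.cons (P.lf 3636 0 0) P.nil)))) (P.cons (P.cons (P.lf 0 32725 0) (P.cons (P.lf 7492 0 0) (P.cons (P.lf 260 0 0) P.nil))) (P.cons (P.cons (P.lf 0 42607 0) (P.cons (P.lf 4735 0 0) P.nil)) (P.cons (P.cons (P.lf 0 281 0) P.nil) P.nil)))))) 2999)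
 EL.nil))
noncomputable def S140_154_364_438_21 : EL := (EL.cons 4 (TM.mk (P.cons (P.cons (P.lf 0 3162710889 0) (P.cons (P.lf 195725274 0 0) (P.cons (P.lf 10709295 0 0) (P.lf 0 1189911 0)))) (P.cons (P.cons (P.lf 0 120599226 0) (P.cons (P.lf 28105977 0 0) (P.cons (P.lf 1537836 0 0) (P.lf 0 170868 0)))) (P.cons (P.cons (P.lf 33525345 0 0) (P.cons (P.lf 112869 0 0) (P.cons (P.lf 6165 0 0) (P.lf 0 675 0)))) (P.cons (P.cons (P.lf 2137275 0 0) (P.cons (P.lf 0 167784 0) (P.cons (P.lf 0 9177 0) P.nil))) (P.cons (P.cons (P.lf 0 55398 0) (P.cons (P.lf 0 8184 0) P.nil)) (P.cons (P.cons (P.lf 0 7851 0) P.nil) P.nil)))))) 4317)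
 (EL.cons 8 (TM.mk (P.cons (P.cons (P.lf 2321599944 0 0) (P.cons (P.lf 0 143672895 0) (P.cons (P.lf 0 7861206 0) (P.lf 873471 0 0)))) (P.cons (P.cons (P.lf 0 147939711 0) (P.cons (P.lf 0 5997537 0) (P.cons (P.lf 0 328164 0) (P.lf 36465 0 0)))) (P.cons (P.cons (P.lf 0 21921399 0) (P.cons (P.lf 1294179 0 0) (P.cons (P.lf 70806 0 0) (P.lf 0 7866 0)))) (P.cons (P.cons (P.lf 657756 0 0) (P.cons (P.lf 72531 0 0) (P.cons (P.lf 3966 0 0) P.nil))) (P.cons (P.cons (P.lf 90162 0 0) (P.cons (P.lf 0 3060 0) P.nil)) (P.cons (P.cons (P.lf 552 0 0) P.nil) P.nil)))))) 2808)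
 (EL.cons 11 (TM.mk (P.cons (P.cons (P.lf 1074150834 0 0) (P.cons (P.lf 134780118 0 0) (P.cons (P.lf 0 20577435 0) (P.cons (P.lf 0 628638 0) (P.lf 52386 0 0))))) (P.cons (P.cons (P.lf 131827266 0 0) (P.cons (P.lf 16541154 0 0) (P.cons (P.lf 0 2525406 0) (P.cons (P.lf 0 77148 0) (P.lf 6429 0 0))))) (P.cons (P.cons (P.lf 2939817 0 0) (P.cons (P.lf 368874 0 0) (P.cons (P.lf 0 56316 0) (P.cons (P.lf 0 1719 0) P.nil)))) (P.cons (P.cons (P.lf 0 194457 0) (P.cons (P.lf 0 24399 0) (P.cons (P.lf 3723 0 0) P.nil))) (P.cons (P.cons (P.lf 0 9648 0) (P.cons (P.lf 0 1209 0) P.nil)) (P.cons (P.cons (P.lf 0 21 0) P.nil) P.nil)))))) 678)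
 EL.nil)))
noncomputable def S140_154_364_438_22 : EL := (EL.cons 4 (TM.mk (P.cons (P.cons (P.lf 91777308 0 0) (P.cons (P.lf 68135352 0 0) (P.cons (P.lf 0 839970 0) (P.cons (P.lf 0 914121 0) (P.cons (P.lf 41865 0 0) (P.cons (P.lf 3039 0 0) P.nil)))))) (P.cons (P.cons (P.lf 0 216078240 0) (P.cons (P.lf 29176365 0 0) (P.cons (P.lf 99504 0 0) (P.cons (P.lf 0 341187 0) (P.cons (P.lf 13719 0 0) P.nil))))) (P.cons (P.cons (P.lf 0 9400278 0) (P.cons (P.lf 2407074 0 0) (P.cons (P.lf 0 36243 0) (P.cons (P.lf 0 33009 0) P.nil)))) (P.cons (P.cons (P.lf 2952234 0 0) (P.cons (P.lf 0 205881 0) (P.cons (P.lf 0 13614 0) P.nil))) (P.cons (P.cons (P.lf 194451 0 0) (P.cons (P.lf 0 36714 0) P.nil)) (P.cons (P.cons (P.lf 0 11013 0) P.nil) P.nil)))))) 15375)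
 (EL.cons 8 (TM.mk (P.cons (P.cons (P.lf 0 67369482 0) (P.cons (P.lf 0 50015013 0) (P.cons (P.lf 616584 0 0) (P.cons (P.lf 671013 0 0) (P.cons (P.lf 0 30732 0) (P.cons (P.lf 0 2229 0) P.nil)))))) (P.cons (P.cons (P.lf 165474957 0 0) (P.cons (P.lf 0 16322754 0) (P.cons (P.lf 0 135843 0) (P.cons (P.lf 182103 0 0) (P.cons (P.lf 0 6939 0) P.nil))))) (P.cons (P.cons (P.lf 0 9594843 0) (P.cons (P.lf 162339 0 0) (P.cons (P.lf 37152 0 0) (P.cons (P.lf 2103 0 0) P.nil)))) (P.cons (P.cons (P.lf 0 2049171 0) (P.cons (P.lf 238764 0 0) (P.cons (P.lf 6720 0 0) P.nil))) (P.cons (P.cons (P.lf 61956 0 0) (P.cons (P.lf 8457 0 0) P.nil)) (P.cons (P.cons (P.lf 12441 0 0) P.nil) P.nil)))))) 9609)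
 (EL.cons 11 (TM.mk (P.cons (P.cons (P.lf 0 31170306 0) (P.cons (P.lf 0 28980903 0) (P.cons (P.lf 0 3920244 0) (P.cons (P.lf 478794 0 0) (P.cons (P.lf 58551 0 0) (P.cons (P.lf 0 3339 0) P.nil)))))) (P.cons (P.cons (P.lf 70749744 0 0) (P.cons (P.lf 1185546 0 0) (P.cons (P.lf 0 2741355 0) (P.cons (P.lf 99900 0 0) (P.cons (P.lf 21882 0 0) P.nil))))) (P.cons (P.cons (P.lf 9085608 0 0) (P.cons (P.lf 260496 0 0) (P.cons (P.lf 0 332535 0) (P.cons (P.lf 10839 0 0) P.nil)))) (P.cons (P.cons (P.lf 0 21906 0) (P.cons (P.lf 0 37461 0) (P.cons (P.lf 0 5835 0) P.nil))) (P.cons (P.cons (P.lf 0 47862 0) (P.cons (P.lf 0 4452 0) P.nil)) (P.cons (P.cons (P.lf 0 1773 0) P.nil) P.nil)))))) 9114)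
 EL.nil)))
noncomputable def S140_154_364_438_23 : EL := (EL.cons 4 (TM.mk (P.cons (P.cons (P.lf 2195678658 0 0) (P.cons (P.lf 0 135880203 0) (P.cons (P.lf 0 7434813 0) (P.lf 826083 0 0)))) (P.cons (P.cons (P.lf 0 5181132 0) (P.cons (P.lf 0 14010312 0) (P.cons (P.lf 0 766581 0) (P.lf 85173 0 0)))) (P.cons (P.cons (P.lf 0 30447342 0) (P.cons (P.lf 945804 0 0) (P.cons (P.lf 51756 0 0) (P.lf 0 5757 0)))) (P.cons (P.cons (P.lf 0 707610 0) (P.cons (P.lf 154632 0 0) (P.cons (P.lf 8457 0 0) P.nil))) (P.cons (P.cons (P.lf 140154 0 0) (P.cons (P.lf 1149 0 0) P.nil)) (P.cons (P.cons (P.lf 6843 0 0) P.nil) P.nil)))))) 4575)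
 (EL.cons 8 (TM.mk (P.cons (P.cons (P.lf 0 1611746259 0) (P.cons (P.lf 99743391 0 0) (P.cons (P.lf 5457558 0 0) (P.lf 0 606396 0)))) (P.cons (P.cons (P.lf 167967276 0 0) (P.cons (P.lf 124986 0 0) (P.cons (P.lf 6840 0 0) (P.lf 0 759 0)))) (P.cons (P.cons (P.lf 13836651 0 0) (P.cons (P.lf 0 1238895 0) (P.cons (P.lf 0 67782 0) (P.lf 7530 0 0)))) (P.cons (P.cons (P.lf 0 1233639 0) (P.cons (P.lf 0 22146 0) (P.cons (P.lf 0 1209 0) P.nil))) (P.cons (P.cons (P.lf 0 73083 0) (P.cons (P.lf 5775 0 0) P.nil)) (P.cons (P.cons (P.lf 2841 0 0) P.nil) P.nil)))))) 2964)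
 (EL.cons 11 (TM.mk (P.cons (P.cons (P.lf 0 745717878 0) (P.cons (P.lf 0 93569673 0) (P.cons (P.lf 14285667 0 0) (P.cons (P.lf 436425 0 0) (P.lf 0 36366 0))))) (P.cons (P.cons (P.lf 0 61324602 0) (P.cons (P.lf 0 7694763 0) (P.cons (P.lf 1174791 0 0) (P.cons (P.lf 35886 0 0) (P.lf 0 2988 0))))) (P.cons (P.cons (P.lf 2949498 0 0) (P.cons (P.lf 370092 0 0) (P.cons (P.lf 0 56502 0) (P.cons (P.lf 0 1725 0) P.nil)))) (P.cons (P.cons (P.lf 382782 0 0) (P.cons (P.lf 48027 0 0) (P.cons (P.lf 0 7329 0) P.nil))) (P.cons (P.cons (P.lf 4863 0 0) (P.cons (P.lf 609 0 0) P.nil)) (P.cons (P.cons (P.lf 0 591 0) P.nil) P.nil)))))) 1287)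
 EL.nil)))
noncomputable def S140_154_364_438_24 : EL := (EL.cons 4 (TM.mk (P.cons (P.cons (P.lf 0 63715428 0) (P.cons (P.lf 0 47302248 0) (P.cons (P.lf 583140 0 0) (P.cons (P.lf 634617 0 0) (P.cons (P.lf 0 29064 0) (P.cons (P.lf 0 2109 0) P.nil)))))) (P.cons (P.cons (P.lf 152589957 0 0) (P.cons (P.lf 0 18340053 0) (P.cons (P.lf 0 92691 0) (P.cons (P.lf 211167 0 0) (P.cons (P.lf 0 8346 0) P.nil))))) (P.cons (P.cons (P.lf 561708 0 0) (P.cons (P.lf 0 769428 0) (P.cons (P.lf 26955 0 0) (P.cons (P.lf 12231 0 0) P.nil)))) (P.cons (P.cons (P.lf 0 2571597 0) (P.cons (P.lf 245964 0 0) (P.cons (P.lf 8544 0 0) P.nil))) (P.cons (P.cons (P.lf 0 64821 0) (P.cons (P.lf 22731 0 0) P.nil)) (P.cons (P.cons (P.lf 16734 0 0) P.nil) P.nil)))))) 11217)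
 (EL.cons 8 (TM.mk (P.cons (P.cons (P.lf 46770552 0 0) (P.cons (P.lf 34722393 0 0) (P.cons (P.lf 0 428055 0) (P.cons (P.lf 0 465843 0) (P.cons (P.lf 21336 0 0) (P.cons (P.lf 1548 0 0) P.nil)))))) (P.cons (P.cons (P.lf 0 116773041 0) (P.cons (P.lf 9925944 0 0) (P.cons (P.lf 111639 0 0) (P.cons (P.lf 0 107559 0) (P.cons (P.lf 3954 0 0) P.nil))))) (P.cons (P.cons (P.lf 11232153 0 0) (P.cons (P.lf 0 631365 0) (P.cons (P.lf 0 28872 0) (P.cons (P.lf 4458 0 0) P.nil)))) (P.cons (P.cons (P.lf 1350336 0 0) (P.cons (P.lf 0 181065 0) (P.cons (P.lf 0 3780 0) P.nil))) (P.cons (P.cons (P.lf 0 110889 0) (P.cons (P.lf 957 0 0) P.nil)) (P.cons (P.cons (P.lf 0 9534 0) P.nil) P.nil)))))) 7161)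
 (EL.cons 11 (TM.mk (P.cons (P.cons (P.lf 21639657 0 0) (P.cons (P.lf 20119686 0 0) (P.cons (P.lf 2721588 0 0) (P.cons (P.lf 0 332397 0) (P.cons (P.lf 0 40650 0) (P.cons (P.lf 2316 0 0) P.nil)))))) (P.cons (P.cons (P.lf 0 49993479 0) (P.cons (P.lf 0 1637724 0) (P.cons (P.lf 1792956 0 0) (P.cons (P.lf 0 55893 0) (P.cons (P.lf 0 13545 0) P.nil))))) (P.cons (P.cons (P.lf 0 4356045 0) (P.cons (P.lf 0 182181 0) (P.cons (P.lf 149109 0 0) (P.cons (P.lf 0 4143 0) P.nil)))) (P.cons (P.cons (P.lf 355008 0 0) (P.cons (P.lf 34545 0 0) (P.cons (P.lf 0 8601 0) P.nil))) (P.cons (P.cons (P.lf 43992 0 0) (P.cons (P.lf 2379 0 0) P.nil)) (P.cons (P.cons (P.lf 0 126 0) P.nil) P.nil)))))) 6477)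
 EL.nil)))
noncomputable def S140_154_364_438_25 : EL := (EL.cons 4 (TM.mk (P.cons (P.cons (P.lf 0 1524326736 0) (P.cons (P.lf 94333398 0 0) (P.cons (P.lf 5161539 0 0) (P.lf 0 573498 0)))) (P.cons (P.cons (P.lf 65318913 0 0) (P.cons (P.lf 5906829 0 0) (P.cons (P.lf 323193 0 0) (P.lf 0 35907 0)))) (P.cons (P.cons (P.lf 23618133 0 0) (P.cons (P.lf 0 1212966 0) (P.cons (P.lf 0 66372 0) (P.lf 7377 0 0)))) (P.cons (P.cons (P.lf 0 355554 0) (P.cons (P.lf 0 98466 0) (P.cons (P.lf 0 5385 0) P.nil))) (P.cons (P.cons (P.lf 0 155280 0) (P.cons (P.lf 4683 0 0) P.nil)) (P.cons (P.cons (P.lf 0 1914 0) P.nil) P.nil)))))) 4320)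
 (EL.cons 8 (TM.mk (P.cons (P.cons (P.lf 1118937831 0 0) (P.cons (P.lf 0 69245796 0) (P.cons (P.lf 0 3788850 0) (P.lf 420984 0 0)))) (P.cons (P.cons (P.lf 0 161916753 0) (P.cons (P.lf 2717079 0 0) (P.cons (P.lf 148665 0 0) (P.lf 0 16515 0)))) (P.cons (P.cons (P.lf 0 6811929 0) (P.cons (P.lf 982896 0 0) (P.cons (P.lf 53775 0 0) (P.lf 0 5973 0)))) (P.cons (P.cons (P.lf 1435068 0 0) (P.cons (P.lf 0 18606 0) (P.cons (P.lf 0 1017 0) P.nil))) (P.cons (P.cons (P.lf 34977 0 0) (P.cons (P.lf 0 6186 0) P.nil)) (P.cons (P.cons (P.lf 0 5496 0) P.nil) P.nil)))))) 2754)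
 (EL.cons 11 (TM.mk (P.cons (P.cons (P.lf 517706769 0 0) (P.cons (P.lf 64959759 0 0) (P.cons (P.lf 0 9917673 0) (P.cons (P.lf 0 302982 0) (P.lf 25248 0 0))))) (P.cons (P.cons (P.lf 21611340 0 0) (P.cons (P.lf 2711703 0 0) (P.cons (P.lf 0 414006 0) (P.cons (P.lf 0 12645 0) (P.lf 1053 0 0))))) (P.cons (P.cons (P.lf 0 4663410 0) (P.cons (P.lf 0 585147 0) (P.cons (P.lf 89337 0 0) (P.cons (P.lf 2727 0 0) P.nil)))) (P.cons (P.cons (P.lf 0 261363 0) (P.cons (P.lf 0 32793 0) (P.cons (P.lf 5004 0 0) P.nil))) (P.cons (P.cons (P.lf 11040 0 0) (P.cons (P.lf 1386 0 0) P.nil)) (P.cons (P.cons (P.lf 1086 0 0) P.nil) P.nil)))))) 1521)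
 EL.nil)))
noncomputable def S140_154_364_438_26 : EL := (EL.cons 4 (TM.mk (P.cons (P.cons (P.lf 44233761 0 0) (P.cons (P.lf 32839086 0 0) (P.cons (P.lf 0 404838 0) (P.cons (P.lf 0 440577 0) (P.cons (P.lf 20178 0 0) (P.cons (P.lf 1464 0 0) P.nil)))))) (P.cons (P.cons (P.lf 0 107725050 0) (P.cons (P.lf 11402691 0 0) (P.cons (P.lf 80742 0 0) (P.cons (P.lf 0 128760 0) (P.cons (P.lf 4977 0 0) P.nil))))) (P.cons (P.cons (P.lf 3823239 0 0) (P.cons (P.lf 0 37953 0) (P.cons (P.lf 0 20619 0) (P.cons (P.lf 0 1797 0) P.nil)))) (P.cons (P.cons (P.lf 1983147 0 0) (P.cons (P.lf 0 214650 0) (P.cons (P.lf 0 5280 0) P.nil))) (P.cons (P.cons (P.lf 0 25503 0) (P.cons (P.lf 0 9879 0) P.nil)) (P.cons (P.cons (P.lf 0 16623 0) P.nil) P.nil)))))) 10116)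
 (EL.cons 8 (TM.mk (P.cons (P.cons (P.lf 0 32469960 0) (P.cons (P.lf 0 24105654 0) (P.cons (P.lf 297174 0 0) (P.cons (P.lf 323406 0 0) (P.cons (P.lf 0 14811 0) (P.cons (P.lf 0 1074 0) P.nil)))))) (P.cons (P.cons (P.lf 82383204 0 0) (P.cons (P.lf 0 5914911 0) (P.cons (P.lf 0 89535 0) (P.cons (P.lf 61575 0 0) (P.cons (P.lf 0 2145 0) P.nil))))) (P.cons (P.cons (P.lf 0 11024433 0) (P.cons (P.lf 758868 0 0) (P.cons (P.lf 22671 0 0) (P.cons (P.lf 0 6675 0) P.nil)))) (P.cons (P.cons (P.lf 0 761049 0) (P.cons (P.lf 120066 0 0) (P.cons (P.lf 1941 0 0) P.nil))) (P.cons (P.cons (P.lf 127527 0 0) (P.cons (P.lf 0 6465 0) P.nil)) (P.cons (P.cons (P.lf 5280 0 0) P.nil) P.nil)))))) 6429)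
 (EL.cons 11 (TM.mk (P.cons (P.cons (P.lf 0 15023103 0) (P.cons (P.lf 0 13967877 0) (P.cons (P.lf 0 1889433 0) (P.cons (P.lf 230763 0 0) (P.cons (P.lf 28221 0 0) (P.cons (P.lf 0 1608 0) P.nil)))))) (P.cons (P.cons (P.lf 35315751 0 0) (P.cons (P.lf 1702551 0 0) (P.cons (P.lf 0 1168233 0) (P.cons (P.lf 29460 0 0) (P.cons (P.lf 8259 0 0) P.nil))))) (P.cons (P.cons (P.lf 1644669 0 0) (P.cons (P.lf 104502 0 0) (P.cons (P.lf 0 49860 0) (P.cons (P.lf 906 0 0) P.nil)))) (P.cons (P.cons (P.lf 0 428553 0) (P.cons (P.lf 0 30921 0) (P.cons (P.lf 12324 0 0) P.nil))) (P.cons (P.cons (P.lf 0 26136 0) (P.cons (P.lf 0 924 0) P.nil)) (P.cons (P.cons (P.lf 1755 0 0) P.nil) P.nil)))))) 5829)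
 EL.nil)))
noncomputable def S140_154_364_438_27 : EL := (EL.cons 13 (TM.mk (P.lf 0 4294967296 0) 0)
 EL.nil)
noncomputable def S140_154_364_438_28 : EL := (EL.cons 13 (TM.mk (P.cons (P.cons (P.lf 124633758 0 0) (P.cons (P.lf 100240932 0 0) (P.cons (P.lf 5484780 0 0) (P.lf 0 609416 0)))) (P.cons (P.cons (P.lf 0 298187142 0) (P.cons (P.lf 18453396 0 0) (P.cons (P.lf 1009692 0 0) (P.lf 0 112188 0)))) (P.cons (P.cons (P.lf 0 74101 0) (P.cons (P.lf 977700 0 0) (P.cons (P.lf 53492 0 0) (P.lf 0 5940 0)))) (P.cons (P.cons (P.lf 935351 0 0) (P.cons (P.lf 0 13548 0) (P.cons (P.lf 0 740 0) P.nil))) (P.cons (P.cons (P.lf 23926 0 0) (P.cons (P.lf 0 2980 0) P.nil)) (P.cons (P.cons (P.lf 0 1091 0) P.nil) P.nil)))))) 1046)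
 EL.nil)
noncomputable def S140_154_364_438_29 : EL := (EL.cons 13 (TM.mk (P.cons (P.cons (P.lf 0 3616691 0) (P.cons (P.lf 0 5817694 0) (P.cons (P.lf 0 2657860 0) (P.cons (P.lf 0 220651 0) (P.cons (P.lf 21442 0 0) (P.cons (P.lf 1556 0 0) P.nil)))))) (P.cons (P.cons (P.lf 17305921 0 0) (P.cons (P.lf 12847893 0 0) (P.cons (P.lf 0 158388 0) (P.cons (P.lf 0 172370 0) (P.cons (P.lf 7894 0 0) P.nil))))) (P.cons (P.cons (P.lf 0 20697969 0) (P.cons (P.lf 2509047 0 0) (P.cons (P.lf 12362 0 0) (P.cons (P.lf 0 28924 0) P.nil)))) (P.cons (P.cons (P.lf 0 64574 0) (P.cons (P.lf 93520 0 0) (P.cons (P.lf 0 2652 0) P.nil))) (P.cons (P.cons (P.lf 128487 0 0) (P.cons (P.lf 0 10828 0) P.nil)) (P.cons (P.cons (P.lf 3417 0 0) P.nil) P.nil)))))) 7944)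
 EL.nil)
noncomputable def S140_154_364_438_30 : EL := (EL.cons 13 (TM.mk (P.cons (P.lf 2981735720 0 0) (P.cons (P.lf 0 120734344 0) (P.cons (P.lf 0 5136784 0) (P.cons (P.lf 0 29896 0) (P.cons (P.lf 3204 0 0) (P.cons (P.lf 96 0 0) P.nil)))))) 64)
 EL.nil)
noncomputable def S140_154_364_438_31 : EL := (EL.cons 13 (TM.mk (P.cons (P.cons (P.lf 0 86525671 0) (P.cons (P.lf 0 69591209 0) (P.cons (P.lf 0 3807750 0) (P.lf 423080 0 0)))) (P.cons (P.cons (P.lf 210516813 0 0) (P.cons (P.lf 0 9993237 0) (P.cons (P.lf 0 546787 0) (P.lf 60754 0 0)))) (P.cons (P.cons (P.lf 0 8181729 0) (P.cons (P.lf 0 40132 0) (P.cons (P.lf 0 2193 0) (P.lf 241 0 0)))) (P.cons (P.cons (P.lf 0 1007205 0) (P.cons (P.lf 59657 0 0) (P.cons (P.lf 3263 0 0) P.nil))) (P.cons (P.cons (P.lf 7425 0 0) (P.cons (P.lf 2910 0 0) P.nil)) (P.cons (P.cons (P.lf 2767 0 0) P.nil) P.nil)))))) 1398)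
 EL.nil)
noncomputable def S140_154_364_438_32 : EL := (EL.cons 13 (TM.mk (P.cons (P.cons (P.lf 2510849 0 0) (P.cons (P.lf 4038872 0 0) (P.cons (P.lf 1845191 0 0) (P.cons (P.lf 153184 0 0) (P.cons (P.lf 0 14885 0) (P.cons (P.lf 0 1080 0) P.nil)))))) (P.cons (P.cons (P.lf 0 12116120 0) (P.cons (P.lf 0 9083053 0) (P.cons (P.lf 35245 0 0) (P.cons (P.lf 113463 0 0) (P.cons (P.lf 0 4877 0) P.nil))))) (P.cons (P.cons (P.lf 14851501 0 0) (P.cons (P.lf 0 1387674 0) (P.cons (P.lf 0 16213 0) (P.cons (P.lf 14970 0 0) P.nil)))) (P.cons (P.cons (P.lf 0 516330 0) (P.cons (P.lf 20931 0 0) (P.cons (P.lf 1980 0 0) P.nil))) (P.cons (P.cons (P.lf 0 115647 0) (P.cons (P.lf 13240 0 0) P.nil)) (P.cons (P.cons (P.lf 1005 0 0) P.nil) P.nil)))))) 7957)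
 EL.nil)
noncomputable def S140_154_364_438_33 : EL := (EL.cons 14 (TM.mk (P.lf 8589934592 0 0) 0)
 EL.nil)
noncomputable def S140_154_364_438_34 : EL := (EL.cons 14 (TM.mk (P.cons (P.cons (P.lf 0 249267516 0) (P.cons (P.lf 0 200481864 0) (P.cons (P.lf 0 10969560 0) (P.lf 1218832 0 0)))) (P.cons (P.cons (P.lf 596374284 0 0) (P.cons (P.lf 0 36906792 0) (P.cons (P.lf 0 2019384 0) (P.lf 224376 0 0)))) (P.cons (P.cons (P.lf 148202 0 0) (P.cons (P.lf 0 1955400 0) (P.cons (P.lf 0 106984 0) (P.lf 11880 0 0)))) (P.cons (P.cons (P.lf 0 1870702 0) (P.cons (P.lf 27096 0 0) (P.cons (P.lf 1480 0 0) P.nil))) (P.cons (P.cons (P.lf 0 47852 0) (P.cons (P.lf 5960 0 0) P.nil)) (P.cons (P.cons (P.lf 2182 0 0) P.nil) P.nil)))))) 2092)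
 EL.nil)
noncomputable def S140_154_364_438_35 : EL := (EL.cons 14 (TM.mk (P.cons (P.cons (P.lf 7233382 0 0) (P.cons (P.lf 11635388 0 0) (P.cons (P.lf 5315720 0 0) (P.cons (P.lf 441302 0 0) (P.cons (P.lf 0 42884 0) (P.cons (P.lf 0 3112 0) P.nil)))))) (P.cons (P.cons (P.lf 0 34611842 0) (P.cons (P.lf 0 25695786 0) (P.cons (P.lf 316776 0 0) (P.cons (P.lf 344740 0 0) (P.cons (P.lf 0 15788 0) P.nil))))) (P.cons (P.cons (P.lf 41395938 0 0) (P.cons (P.lf 0 5018094 0) (P.cons (P.lf 0 24724 0) (P.cons (P.lf 57848 0 0) P.nil)))) (P.cons (P.cons (P.lf 129148 0 0) (P.cons (P.lf 0 187040 0) (P.cons (P.lf 5304 0 0) P.nil))) (P.cons (P.cons (P.lf 0 256974 0) (P.cons (P.lf 21656 0 0) P.nil)) (P.cons (P.cons (P.lf 0 6834 0) P.nil) P.nil)))))) 15888)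
 EL.nil)
noncomputable def S140_154_364_438_36 : EL := (EL.cons 14 (TM.mk (P.cons (P.lf 0 5963471440 0) (P.cons (P.lf 241468688 0 0) (P.cons (P.lf 10273568 0 0) (P.cons (P.lf 59792 0 0) (P.cons (P.lf 0 6408 0) (P.cons (P.lf 0 192 0) P.nil)))))) 128)
 EL.nil)
noncomputable def S140_154_364_438_37 : EL := (EL.cons 14 (TM.mk (P.cons (P.cons (P.lf 173051342 0 0) (P.cons (P.lf 139182418 0 0) (P.cons (P.lf 7615500 0 0) (P.lf 0 846160 0)))) (P.cons (P.cons (P.lf 0 421033626 0) (P.cons (P.lf 19986474 0 0) (P.cons (P.lf 1093574 0 0) (P.lf 0 121508 0)))) (P.cons (P.cons (P.lf 16363458 0 0) (P.cons (P.lf 80264 0 0) (P.cons (P.lf 4386 0 0) (P.lf 0 482 0)))) (P.cons (P.cons (P.lf 2014410 0 0) (P.cons (P.lf 0 119314 0) (P.cons (P.lf 0 6526 0) P.nil))) (P.cons (P.cons (P.lf 0 14850 0) (P.cons (P.lf 0 5820 0) P.nil)) (P.cons (P.cons (P.lf 0 5534 0) P.nil) P.nil)))))) 2796)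
 EL.nil)
noncomputable def S140_154_364_438_38 : EL := (EL.cons 14 (TM.mk (P.cons (P.cons (P.lf 0 5021698 0) (P.cons (P.lf 0 8077744 0) (P.cons (P.lf 0 3690382 0) (P.cons (P.lf 0 306368 0) (P.cons (P.lf 29770 0 0) (P.cons (P.lf 2160 0 0) P.nil)))))) (P.cons (P.cons (P.lf 24232240 0 0) (P.cons (P.lf 18166106 0 0) (P.cons (P.lf 0 70490 0) (P.cons (P.lf 0 226926 0) (P.cons (P.lf 9754 0 0) P.nil))))) (P.cons (P.cons (P.lf 0 29703002 0) (P.cons (P.lf 2775348 0 0) (P.cons (P.lf 32426 0 0) (P.cons (P.lf 0 29940 0) P.nil)))) (P.cons (P.cons (P.lf 1032660 0 0) (P.cons (P.lf 0 41862 0) (P.cons (P.lf 0 3960 0) P.nil))) (P.cons (P.cons (P.lf 231294 0 0) (P.cons (P.lf 0 26480 0) P.nil)) (P.cons (P.cons (P.lf 0 2010 0) P.nil) P.nil)))))) 15914)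
 EL.nil)
noncomputable def S140_154_364_438_39 : EL := (EL.cons 14 (TM.mk (P.cons (P.lf 4140077114 0 0) (P.cons (P.lf 0 335274176 0) (P.cons (P.lf 0 7476788 0) (P.cons (P.lf 494572 0 0) (P.cons (P.lf 24546 0 0) (P.cons (P.lf 48 0 0) P.nil)))))) 226)
 EL.nil)
noncomputable def S140_154_364_438_40 : EL := (EL.cons 14 (TM.mk (P.cons (P.cons (P.lf 0 120139068 0) (P.cons (P.lf 0 96625924 0) (P.cons (P.lf 0 5286980 0) (P.lf 587438 0 0)))) (P.cons (P.cons (P.lf 297162738 0 0) (P.cons (P.lf 0 9962888 0) (P.cons (P.lf 0 545124 0) (P.lf 60568 0 0)))) (P.cons (P.cons (P.lf 0 22988720 0) (P.cons (P.lf 672570 0 0) (P.cons (P.lf 36802 0 0) (P.lf 0 4092 0)))) (P.cons (P.cons (P.lf 0 1440846 0) (P.cons (P.lf 109960 0 0) (P.cons (P.lf 6014 0 0) P.nil))) (P.cons (P.cons (P.lf 83446 0 0) (P.cons (P.lf 818 0 0) P.nil)) (P.cons (P.cons (P.lf 6258 0 0) P.nil) P.nil)))))) 2964)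
 EL.nil)
noncomputable def S140_154_364_438_41 : EL := (EL.cons 14 (TM.mk (P.cons (P.cons (P.lf 3486260 0 0) (P.cons (P.lf 5607888 0 0) (P.cons (P.lf 2562008 0 0) (P.cons (P.lf 212692 0 0) (P.cons (P.lf 0 20668 0) (P.cons (P.lf 0 1498 0) P.nil)))))) (P.cons (P.cons (P.lf 0 16964140 0) (P.cons (P.lf 0 12838698 0) (P.cons (P.lf 0 54802 0) (P.cons (P.lf 148928 0 0) (P.cons (P.lf 0 5934 0) P.nil))))) (P.cons (P.cons (P.lf 21296174 0 0) (P.cons (P.lf 0 1425756 0) (P.cons (P.lf 0 28906 0) (P.cons (P.lf 14040 0 0) P.nil)))) (P.cons (P.cons (P.lf 0 1522938 0) (P.cons (P.lf 128748 0 0) (P.cons (P.lf 3550 0 0) P.nil))) (P.cons (P.cons (P.lf 0 166896 0) (P.cons (P.lf 20658 0 0) P.nil)) (P.cons (P.cons (P.lf 8908 0 0) P.nil) P.nil)))))) 14118)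
 EL.nil)
noncomputable def S140_154_364_438_42 : EL := (EL.cons 14 (TM.mk (P.cons (P.lf 0 2874204844 0) (P.cons (P.lf 349140838 0 0) (P.cons (P.lf 717438 0 0) (P.cons (P.lf 0 925698 0) (P.cons (P.lf 0 17502 0) (P.cons (P.lf 1352 0 0) P.nil)))))) 292)
 EL.nil)
noncomputable def S140_154_364_438_43 : EL := (EL.cons 14 (TM.mk (P.cons (P.cons (P.lf 83405280 0 0) (P.cons (P.lf 67081528 0 0) (P.cons (P.lf 3670430 0 0) (P.lf 0 407822 0)))) (P.cons (P.cons (P.lf 0 209679282 0) (P.cons (P.lf 4200412 0 0) (P.cons (P.lf 229826 0 0) (P.lf 0 25536 0)))) (P.cons (P.cons (P.lf 24169428 0 0) (P.cons (P.lf 0 862552 0) (P.cons (P.lf 0 47196 0) (P.lf 5246 0 0)))) (P.cons (P.cons (P.lf 708634 0 0) (P.cons (P.lf 0 70020 0) (P.cons (P.lf 0 3830 0) P.nil))) (P.cons (P.cons (P.lf 0 123772 0) (P.cons (P.lf 3328 0 0) P.nil)) (P.cons (P.cons (P.lf 0 4100 0) P.nil) P.nil)))))) 2824)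
 EL.nil)
noncomputable def S140_154_364_438_44 : EL := (EL.cons 14 (TM.mk (P.cons (P.cons (P.lf 0 2420300 0) (P.cons (P.lf 0 3893218 0) (P.cons (P.lf 0 1778646 0) (P.cons (P.lf 0 147660 0) (P.cons (P.lf 14348 0 0) (P.cons (P.lf 1040 0 0) P.nil)))))) (P.cons (P.cons (P.lf 11875176 0 0) (P.cons (P.lf 9070772 0 0) (P.cons (P.lf 110064 0 0) (P.cons (P.lf 0 97412 0) (P.cons (P.lf 3538 0 0) P.nil))))) (P.cons (P.cons (P.lf 0 15257348 0) (P.cons (P.lf 635618 0 0) (P.cons (P.lf 21592 0 0) (P.cons (P.lf 0 5306 0) P.nil)))) (P.cons (P.cons (P.lf 1635668 0 0) (P.cons (P.lf 0 144778 0) (P.cons (P.lf 0 3326 0) P.nil))) (P.cons (P.cons (P.lf 98404 0 0) (P.cons (P.lf 0 12522 0) P.nil)) (P.cons (P.cons (P.lf 0 12536 0) P.nil) P.nil)))))) 11508)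
 EL.nil)
noncomputable def S140_154_364_438_45 : EL := (EL.cons 14 (TM.mk (P.cons (P.cons (P.lf 0 209902 0) (P.cons (P.lf 0 506462 0) (P.cons (P.lf 0 435050 0) (P.cons (P.lf 0 150702 0) (P.cons (P.lf 0 14192 0) (P.cons (P.lf 1280 0 0) P.nil)))))) (P.cons (P.cons (P.lf 1506578 0 0) (P.cons (P.lf 2330198 0 0) (P.cons (P.lf 952088 0 0) (P.cons (P.lf 15758 0 0) (P.cons (P.lf 0 17456 0) P.nil))))) (P.cons (P.cons (P.lf 0 3604124 0) (P.cons (P.lf 0 2457248 0) (P.cons (P.lf 202856 0 0) (P.cons (P.lf 37552 0 0) P.nil)))) (P.cons (P.cons (P.lf 2868078 0 0) (P.cons (P.lf 0 518912 0) (P.cons (P.lf 19324 0 0) P.nil))) (P.cons (P.cons (P.lf 24634 0 0) (P.cons (P.lf 0 12254 0) P.nil)) (P.cons (P.cons (P.lf 0 26460 0) P.nil) P.nil)))))) 27490)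
 EL.nil)
noncomputable def S140_154_364_438_46 : EL := (EL.cons 15 (TM.mk (P.lf 4294967296 0 0) 0)
 EL.nil)
noncomputable def S140_154_364_438_47 : EL := (EL.cons 15 (TM.mk (P.cons (P.cons (P.lf 0 124633758 0) (P.cons (P.lf 0 100240932 0) (P.cons (P.lf 0 5484780 0) (P.lf 609416 0 0)))) (P.cons (P.cons (P.lf 298187142 0 0) (P.cons (P.lf 0 18453396 0) (P.cons (P.lf 0 1009692 0) (P.lf 112188 0 0)))) (P.cons (P.cons (P.lf 74101 0 0) (P.cons (P.lf 0 977700 0) (P.cons (P.lf 0 53492 0) (P.lf 5940 0 0)))) (P.cons (P.cons (P.lf 0 935351 0) (P.cons (P.lf 13548 0 0) (P.cons (P.lf 740 0 0) P.nil))) (P.cons (P.cons (P.lf 0 23926 0) (P.cons (P.lf 2980 0 0) P.nil)) (P.cons (P.cons (P.lf 1091 0 0) P.nil) P.nil)))))) 1046)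
 EL.nil)
noncomputable def S140_154_364_438_48 : EL := (EL.cons 15 (TM.mk (P.cons (P.cons (P.lf 3616691 0 0) (P.cons (P.lf 5817694 0 0) (P.cons (P.lf 2657860 0 0) (P.cons (P.lf 220651 0 0) (P.cons (P.lf 0 21442 0) (P.cons (P.lf 0 1556 0) P.nil)))))) (P.cons (P.cons (P.lf 0 17305921 0) (P.cons (P.lf 0 12847893 0) (P.cons (P.lf 158388 0 0) (P.cons (P.lf 172370 0 0) (P.cons (P.lf 0 7894 0) P.nil))))) (P.cons (P.cons (P.lf 20697969 0 0) (P.cons (P.lf 0 2509047 0) (P.cons (P.lf 0 12362 0) (P.cons (P.lf 28924 0 0) P.nil)))) (P.cons (P.cons (P.lf 64574 0 0) (P.cons (P.lf 0 93520 0) (P.cons (P.lf 2652 0 0) P.nil))) (P.cons (P.cons (P.lf 0 128487 0) (P.cons (P.lf 10828 0 0) P.nil)) (P.cons (P.cons (P.lf 0 3417 0) P.nil) P.nil)))))) 7944)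
 EL.nil)
noncomputable def S140_154_364_438 : SL := (SL.cons S140_154_364_438_0 (SL.cons S140_154_364_438_1 (SL.cons S140_154_364_438_2 (SL.cons S140_154_364_438_3 (SL.cons S140_154_364_438_4 (SL.cons S140_154_364_438_5 (SL.cons S140_154_364_438_6 (SL.cons S140_154_364_438_7 (SL.cons S140_154_364_438_8 (SL.cons S140_154_364_438_9 (SL.cons S140_154_364_438_10 (SL.cons S140_154_364_438_11 (SL.cons S140_154_364_438_12 (SL.cons S140_154_364_438_13 (SL.cons S140_154_364_438_14 (SL.cons S140_154_364_438_15 (SL.cons S140_154_364_438_16 (SL.cons S140_154_364_438_17 (SL.cons S140_154_364_438_18 (SL.cons S140_154_364_438_19 (SL.cons S140_154_364_438_20 (SL.cons S140_154_364_438_21 (SL.cons S140_154_364_438_22 (SL.cons S140_154_364_438_23 (SL.cons S140_154_364_438_24 (SL.cons S140_154_364_438_25 (SL.cons S140_154_364_438_26 (SL.cons S140_154_364_438_27 (SL.cons S140_154_364_438_28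 (SL.cons S140_154_364_438_29 (SL.cons S140_154_364_438_30 (SL.cons S140_154_364_438_31 (SL.cons S140_154_364_438_32 (SL.cons S140_154_364_438_33 (SL.cons S140_154_364_438_34 (SL.cons S140_154_364_438_35 (SL.cons S140_154_364_438_36 (SL.cons S140_154_364_438_37 (SL.cons S140_154_364_438_38 (SL.cons S140_154_364_438_39 (SL.cons S140_154_364_438_40 (SL.cons S140_154_364_438_41 (SL.cons S140_154_364_438_42 (SL.cons S140_154_364_438_43 (SL.cons S140_154_364_438_44 (SL.cons S140_154_364_438_45 (SL.cons S140_154_364_438_46 (SL.cons S140_154_364_438_47 (SL.cons S140_154_364_438_48 SL.nil)))))))))))))))))))))))))))))))))))))))))))))))))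
noncomputable def S140_154_364_512_0 : EL := (EL.cons 0 (TM.mk (P.cons (P.lf 4816977213 0 0) (P.cons (P.lf 294674568 0 0) (P.cons (P.lf 6571395 0 0) (P.cons (P.lf 0 434682 0) (P.cons (P.lf 0 21573 0) (P.cons (P.lf 0 42 0) P.nil)))))) 205)
 (EL.cons 1 (TM.mk (P.cons (P.lf 0 1762505823 0) (P.cons (P.lf 0 36787346 0) (P.cons (P.lf 8322086 0 0) (P.cons (P.lf 271203 0 0) (P.cons (P.lf 0 4801 0) (P.cons (P.lf 0 468 0) P.nil)))))) 132)
 (EL.cons 5 (TM.mk (P.cons (P.lf 5588741396 0 0) (P.cons (P.lf 0 104773178 0) (P.cons (P.lf 0 2336498 0) (P.cons (P.lf 154550 0 0) (P.cons (P.lf 7670 0 0) (P.cons (P.lf 18 0 0) P.nil)))))) 87)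
 (EL.cons 9 (TM.mk (P.lf 6442450944 0 0) 2)
 EL.nil))))
noncomputable def S140_154_364_512_1 : EL := (EL.cons 0 (TM.mk (P.cons (P.cons (P.lf 0 4107404564 0) (P.cons (P.lf 310665323 0 0) (P.cons (P.lf 20770344 0 0) (P.lf 0 6923445 0)))) (P.cons (P.cons (P.lf 334224593 0 0) (P.cons (P.lf 0 2846575 0) (P.cons (P.lf 0 190322 0) (P.lf 63447 0 0)))) (P.cons (P.cons (P.lf 72941617 0 0) (P.cons (P.lf 0 9361029 0) (P.cons (P.lf 0 625859 0) (P.lf 208622 0 0)))) (P.cons (P.cons (P.lf 374246 0 0) (P.cons (P.lf 0 785464 0) (P.cons (P.lf 0 52503 0) P.nil))) (P.cons (P.cons (P.lf 0 380099 0) (P.cons (P.lf 6525 0 0) P.nil)) (P.cons (P.cons (P.lf 0 14539 0) P.nil) P.nil)))))) 47895)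
 (EL.cons 1 (TM.mk (P.cons (P.cons (P.lf 574884138 0 0) (P.cons (P.lf 20359688 0 0) (P.cons (P.lf 1361194 0 0) (P.lf 0 453732 0)))) (P.cons (P.cons (P.lf 0 355989325 0) (P.cons (P.lf 45744738 0 0) (P.cons (P.lf 3058379 0 0) (P.lf 0 1019454 0)))) (P.cons (P.cons (P.lf 0 4874082 0) (P.cons (P.lf 4526422 0 0) (P.cons (P.lf 302613 0 0) (P.lf 0 100864 0)))) (P.cons (P.cons (P.lf 3429134 0 0) (P.cons (P.lf 0 168948 0) (P.cons (P.lf 0 11293 0) P.nil))) (P.cons (P.cons (P.lf 110229 0 0) (P.cons (P.lf 0 35206 0) P.nil)) (P.cons (P.cons (P.lf 0 9907 0) P.nil) P.nil)))))) 23050)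
 (EL.cons 5 (TM.mk (P.cons (P.cons (P.lf 1069835411 0 0) (P.cons (P.lf 0 482358396 0) (P.cons (P.lf 0 32249354 0) (P.lf 10749786 0 0)))) (P.cons (P.cons (P.lf 355186203 0 0) (P.cons (P.lf 0 67451050 0) (P.cons (P.lf 0 4509618 0) (P.lf 1503202 0 0)))) (P.cons (P.cons (P.lf 0 27551755 0) (P.cons (P.lf 0 298970 0) (P.cons (P.lf 0 19988 0) (P.lf 6666 0 0)))) (P.cons (P.cons (P.lf 0 1699022 0) (P.cons (P.lf 329542 0 0) (P.cons (P.lf 22024 0 0) P.nil))) (P.cons (P.cons (P.lf 99777 0 0) (P.cons (P.lf 8738 0 0) P.nil)) (P.cons (P.cons (P.lf 7152 0 0) P.nil) P.nil)))))) 20614)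
 (EL.cons 9 (TM.mk (P.cons (P.cons (P.lf 0 344625087 0) (P.cons (P.lf 0 328146714 0) (P.cons (P.lf 0 21939120 0) (P.lf 7313040 0 0)))) (P.cons (P.cons (P.lf 418254357 0 0) (P.cons (P.lf 0 60408672 0) (P.cons (P.lf 0 4038780 0) (P.lf 1346256 0 0)))) (P.cons (P.cons (P.lf 0 1426731 0) (P.cons (P.lf 0 3200586 0) (P.cons (P.lf 0 213978 0) (P.lf 71322 0 0)))) (P.cons (P.cons (P.lf 0 1381714 0) (P.cons (P.lf 44352 0 0) (P.cons (P.lf 2964 0 0) P.nil))) (P.cons (P.cons (P.lf 0 31203 0) (P.cons (P.lf 9756 0 0) P.nil)) (P.cons (P.cons (P.lf 1750 0 0) P.nil) P.nil)))))) 5398)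
 (EL.cons 2 (TM.mk (P.cons (P.cons (P.lf 773064213 0 0) (P.cons (P.lf 119689751 0 0) (P.cons (P.lf 0 57662746 0) (P.cons (P.lf 0 2182125 0) (P.lf 545529 0 0))))) (P.cons (P.cons (P.lf 63573446 0 0) (P.cons (P.lf 9842762 0 0) (P.cons (P.lf 0 4741934 0) (P.cons (P.lf 0 179445 0) (P.lf 44859 0 0))))) (P.cons (P.cons (P.lf 0 3057657 0) (P.cons (P.lf 0 473402 0) (P.cons (P.lf 228071 0 0) (P.cons (P.lf 8631 0 0) P.nil)))) (P.cons (P.cons (P.lf 0 396815 0) (P.cons (P.lf 0 61436 0) (P.cons (P.lf 29595 0 0) P.nil))) (P.cons (P.cons (P.lf 0 5042 0) (P.cons (P.lf 0 779 0) P.nil)) (P.cons (P.cons (P.lf 610 0 0) P.nil) P.nil)))))) 8402)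
 (EL.cons 6 (TM.mk (P.cons (P.cons (P.lf 374451132 0 0) (P.cons (P.lf 57974436 0 0) (P.cons (P.lf 0 27930255 0) (P.cons (P.lf 0 1056960 0) (P.lf 264237 0 0))))) (P.cons (P.cons (P.lf 68932872 0 0) (P.cons (P.lf 10672539 0 0) (P.cons (P.lf 0 5141691 0) (P.cons (P.lf 0 194574 0) (P.lf 48642 0 0))))) (P.cons (P.cons (P.lf 3652218 0 0) (P.cons (P.lf 565455 0 0) (P.cons (P.lf 0 272418 0) (P.cons (P.lf 0 10308 0) P.nil)))) (P.cons (P.cons (P.lf 0 50610 0) (P.cons (P.lf 0 7833 0) (P.cons (P.lf 3774 0 0) P.nil))) (P.cons (P.cons (P.lf 0 11136 0) (P.cons (P.lf 0 1722 0) P.nil)) (P.cons (P.cons (P.lf 0 276 0) P.nil) P.nil)))))) 4596)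
 EL.nil))))))
noncomputable def S140_154_364_512_2 : EL := (EL.cons 0 (TM.mk (P.cons (P.cons (P.lf 425649865 0 0) (P.cons (P.lf 358935883 0 0) (P.cons (P.lf 0 20146980 0) (P.cons (P.lf 0 13902008 0) (P.cons (P.lf 1770276 0 0) (P.cons (P.lf 131541 0 0) P.nil)))))) (P.cons (P.cons (P.lf 0 536461970 0) (P.cons (P.lf 109041713 0 0) (P.cons (P.lf 0 3611435 0) (P.cons (P.lf 0 3887802 0) (P.cons (P.lf 437169 0 0) P.nil))))) (P.cons (P.cons (P.lf 19023425 0 0) (P.cons (P.lf 0 2005627 0) (P.cons (P.lf 0 401593 0) (P.cons (P.lf 8941 0 0) P.nil)))) (P.cons (P.cons (P.lf 9870618 0 0) (P.cons (P.lf 0 2493369 0) (P.cons (P.lf 8505 0 0) P.nil))) (P.cons (P.cons (P.lf 55684 0 0) (P.cons (P.lf 0 158516 0) P.nil)) (P.cons (P.cons (P.lf 0 72227 0) P.nil) P.nil)))))) 546060)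
 (EL.cons 1 (TM.mk (P.cons (P.cons (P.lf 0 56460997 0) (P.cons (P.lf 0 51137261 0) (P.cons (P.lf 0 920345 0) (P.cons (P.lf 1473737 0 0) (P.cons (P.lf 0 100202 0) (P.cons (P.lf 0 7450 0) P.nil)))))) (P.cons (P.cons (P.lf 100594044 0 0) (P.cons (P.lf 13545325 0 0) (P.cons (P.lf 0 2357235 0) (P.cons (P.lf 0 738163 0) (P.cons (P.lf 130845 0 0) P.nil))))) (P.cons (P.cons (P.lf 0 38764899 0) (P.cons (P.lf 9783513 0 0) (P.cons (P.lf 0 427388 0) (P.cons (P.lf 0 362639 0) P.nil)))) (P.cons (P.cons (P.lf 0 885938 0) (P.cons (P.lf 614555 0 0) (P.cons (P.lf 0 60127 0) P.nil))) (P.cons (P.cons (P.lf 501063 0 0) (P.cons (P.lf 0 94593 0) P.nil)) (P.cons (P.cons (P.lf 16575 0 0) P.nil) P.nil)))))) 258379)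
 (EL.cons 5 (TM.mk (P.cons (P.cons (P.lf 0 130449189 0) (P.cons (P.lf 0 87833692 0) (P.cons (P.lf 28766231 0 0) (P.cons (P.lf 6589150 0 0) (P.cons (P.lf 0 1389061 0) (P.cons (P.lf 0 103221 0) P.nil)))))) (P.cons (P.cons (P.lf 140028488 0 0) (P.cons (P.lf 0 79734452 0) (P.cons (P.lf 5519648 0 0) (P.cons (P.lf 3227820 0 0) (P.cons (P.lf 0 435114 0) P.nil))))) (P.cons (P.cons (P.lf 24183360 0 0) (P.cons (P.lf 0 7623567 0) (P.cons (P.lf 596883 0 0) (P.cons (P.lf 317857 0 0) P.nil)))) (P.cons (P.cons (P.lf 0 3551964 0) (P.cons (P.lf 600011 0 0) (P.cons (P.lf 40713 0 0) P.nil))) (P.cons (P.cons (P.lf 0 218982 0) (P.cons (P.lf 96281 0 0) P.nil)) (P.cons (P.cons (P.lf 21566 0 0) P.nil) P.nil)))))) 271462)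
 (EL.cons 9 (TM.mk (P.cons (P.cons (P.lf 18434979 0 0) (P.cons (P.lf 35107008 0 0) (P.cons (P.lf 19061349 0 0) (P.cons (P.lf 1452550 0 0) (P.cons (P.lf 0 670267 0) (P.cons (P.lf 0 49807 0) P.nil)))))) (P.cons (P.cons (P.lf 0 44747238 0) (P.cons (P.lf 0 36144768 0) (P.cons (P.lf 3737284 0 0) (P.cons (P.lf 1628380 0 0) (P.cons (P.lf 0 246778 0) P.nil))))) (P.cons (P.cons (P.lf 27306390 0 0) (P.cons (P.lf 0 7355899 0) (P.cons (P.lf 400677 0 0) (P.cons (P.lf 283269 0 0) P.nil)))) (P.cons (P.cons (P.lf 0 37426 0) (P.cons (P.lf 0 252807 0) (P.cons (P.lf 38601 0 0) P.nil))) (P.cons (P.cons (P.lf 0 175752 0) (P.cons (P.lf 35223 0 0) P.nil)) (P.cons (P.cons (P.lf 0 3625 0) P.nil) P.nil)))))) 115084)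
 (EL.cons 2 (TM.mk (P.cons (P.cons (P.lf 0 82706821 0) (P.cons (P.lf 0 91557253 0) (P.cons (P.lf 0 11288902 0) (P.cons (P.lf 7047444 0 0) (P.cons (P.lf 828382 0 0) (P.cons (P.lf 0 171618 0) P.nil)))))) (P.cons (P.cons (P.lf 93575711 0 0) (P.cons (P.lf 0 6485883 0) (P.cons (P.lf 0 11629316 0) (P.cons (P.lf 1550604 0 0) (P.cons (P.lf 302197 0 0) P.nil))))) (P.cons (P.cons (P.lf 8239303 0 0) (P.cons (P.lf 0 373185 0) (P.cons (P.lf 0 980083 0) (P.cons (P.lf 119401 0 0) P.nil)))) (P.cons (P.cons (P.lf 0 714313 0) (P.cons (P.lf 0 65351 0) (P.cons (P.lf 63309 0 0) P.nil))) (P.cons (P.cons (P.lf 0 84386 0) (P.cons (P.lf 1141 0 0) P.nil)) (P.cons (P.cons (P.lf 568 0 0) P.nil) P.nil)))))) 137193)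
 (EL.cons 6 (TM.mk (P.cons (P.cons (P.lf 0 40060914 0) (P.cons (P.lf 0 44347824 0) (P.cons (P.lf 0 5468034 0) (P.cons (P.lf 3413586 0 0) (P.cons (P.lf 401244 0 0) (P.cons (P.lf 0 83124 0) P.nil)))))) (P.cons (P.cons (P.lf 41245116 0 0) (P.cons (P.lf 0 7658622 0) (P.cons (P.lf 0 6189864 0) (P.cons (P.lf 1098756 0 0) (P.cons (P.lf 187242 0 0) P.nil))))) (P.cons (P.cons (P.lf 8393880 0 0) (P.cons (P.lf 0 737238 0) (P.cons (P.lf 0 1077624 0) (P.cons (P.lf 152538 0 0) P.nil)))) (P.cons (P.cons (P.lf 288480 0 0) (P.cons (P.lf 0 82002 0) (P.cons (P.lf 0 49596 0) P.nil))) (P.cons (P.cons (P.lf 0 40188 0) (P.cons (P.lf 0 5682 0) P.nil)) (P.cons (P.cons (P.lf 0 3420 0) P.nil) P.nil)))))) 104046)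
 EL.nil))))))
noncomputable def S140_154_364_512_3 : EL := (EL.cons 0 (TM.mk (P.cons (P.lf 3638739650 0 0) (P.cons (P.lf 0 294674568 0) (P.cons (P.lf 0 6571395 0) (P.cons (P.lf 434682 0 0) (P.cons (P.lf 21573 0 0) (P.cons (P.lf 42 0 0) P.nil)))))) 205)
 (EL.cons 1 (TM.mk (P.cons (P.lf 1762505823 0 0) (P.cons (P.lf 36787346 0 0) (P.cons (P.lf 0 8322086 0) (P.cons (P.lf 0 271203 0) (P.cons (P.lf 4801 0 0) (P.cons (P.lf 468 0 0) P.nil)))))) 132)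
 (EL.cons 5 (TM.mk (P.cons (P.lf 853709548 0 0) (P.cons (P.lf 104773178 0 0) (P.cons (P.lf 2336498 0 0) (P.cons (P.lf 0 154550 0) (P.cons (P.lf 0 7670 0) (P.cons (P.lf 0 18 0) P.nil)))))) 80)
 EL.nil)))
noncomputable def S140_154_364_512_4 : EL := (EL.cons 0 (TM.mk (P.cons (P.cons (P.lf 0 194646568 0) (P.cons (P.lf 0 185339471 0) (P.cons (P.lf 0 12391361 0) (P.lf 4130453 0 0)))) (P.cons (P.cons (P.lf 251995858 0 0) (P.cons (P.lf 0 19109953 0) (P.cons (P.lf 0 1277644 0) (P.lf 425879 0 0)))) (P.cons (P.cons (P.lf 0 19585054 0) (P.cons (P.lf 1290063 0 0) (P.cons (P.lf 86252 0 0) (P.lf 0 28752 0)))) (P.cons (P.cons (P.lf 0 1165020 0) (P.cons (P.lf 210919 0 0) (P.cons (P.lf 14099 0 0) P.nil))) (P.cons (P.cons (P.lf 74095 0 0) (P.cons (P.lf 1571 0 0) P.nil)) (P.cons (P.cons (P.lf 5125 0 0) P.nil) P.nil)))))) 10595)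
 (EL.cons 1 (TM.mk (P.cons (P.cons (P.lf 0 94281465 0) (P.cons (P.lf 0 89773363 0) (P.cons (P.lf 0 6002036 0) (P.lf 2000677 0 0)))) (P.cons (P.cons (P.lf 112456873 0 0) (P.cons (P.lf 0 18400183 0) (P.cons (P.lf 0 1230191 0) (P.lf 410062 0 0)))) (P.cons (P.cons (P.lf 2443145 0 0) (P.cons (P.lf 0 796661 0) (P.cons (P.lf 0 53259 0) (P.lf 17750 0 0)))) (P.cons (P.cons (P.lf 0 911926 0) (P.cons (P.lf 85704 0 0) (P.cons (P.lf 5728 0 0) P.nil))) (P.cons (P.cons (P.lf 0 32446 0) (P.cons (P.lf 9354 0 0) P.nil)) (P.cons (P.cons (P.lf 2431 0 0) P.nil) P.nil)))))) 4847)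
 (EL.cons 5 (TM.mk (P.cons (P.cons (P.lf 0 45667358 0) (P.cons (P.lf 0 43483758 0) (P.cons (P.lf 0 2907220 0) (P.lf 969072 0 0)))) (P.cons (P.cons (P.lf 49819590 0 0) (P.cons (P.lf 0 13341572 0) (P.cons (P.lf 0 891984 0) (P.lf 297326 0 0)))) (P.cons (P.cons (P.lf 6487996 0 0) (P.cons (P.lf 0 1525552 0) (P.cons (P.lf 0 101992 0) (P.lf 33996 0 0)))) (P.cons (P.cons (P.lf 0 46340 0) (P.cons (P.lf 0 60208 0) (P.cons (P.lf 0 4024 0) P.nil))) (P.cons (P.cons (P.lf 0 36744 0) (P.cons (P.lf 2692 0 0) P.nil)) (P.cons (P.cons (P.lf 0 1238 0) P.nil) P.nil)))))) 3708)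
 EL.nil)))
noncomputable def S140_154_364_512_5 : EL := (EL.cons 0 (TM.mk (P.cons (P.cons (P.lf 10412200 0 0) (P.cons (P.lf 19828673 0 0) (P.cons (P.lf 10765977 0 0) (P.cons (P.lf 820409 0 0) (P.cons (P.lf 0 378571 0) (P.cons (P.lf 0 28130 0) P.nil)))))) (P.cons (P.cons (P.lf 0 26116746 0) (P.cons (P.lf 0 22020584 0) (P.cons (P.lf 1238985 0 0) (P.cons (P.lf 853280 0 0) (P.cons (P.lf 0 108724 0) P.nil))))) (P.cons (P.cons (P.lf 17450745 0 0) (P.cons (P.lf 0 2537226 0) (P.cons (P.lf 35919 0 0) (P.cons (P.lf 84028 0 0) P.nil)))) (P.cons (P.cons (P.lf 0 1223231 0) (P.cons (P.lf 232904 0 0) (P.cons (P.lf 949 0 0) P.nil))) (P.cons (P.cons (P.lf 0 128364 0) (P.cons (P.lf 36638 0 0) P.nil)) (P.cons (P.cons (P.lf 7720 0 0) P.nil) P.nil)))))) 105803)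
 (EL.cons 1 (TM.mk (P.cons (P.cons (P.lf 5043384 0 0) (P.cons (P.lf 9604466 0 0) (P.cons (P.lf 5214744 0 0) (P.cons (P.lf 397383 0 0) (P.cons (P.lf 0 183369 0) (P.cons (P.lf 0 13625 0) P.nil)))))) (P.cons (P.cons (P.lf 0 12136543 0) (P.cons (P.lf 0 9687905 0) (P.cons (P.lf 1131277 0 0) (P.cons (P.lf 453780 0 0) (P.cons (P.lf 0 71338 0) P.nil))))) (P.cons (P.cons (P.lf 7191069 0 0) (P.cons (P.lf 0 2264145 0) (P.cons (P.lf 106333 0 0) (P.cons (P.lf 84916 0 0) P.nil)))) (P.cons (P.cons (P.lf 202710 0 0) (P.cons (P.lf 0 65953 0) (P.cons (P.lf 7216 0 0) P.nil))) (P.cons (P.cons (P.lf 0 81669 0) (P.cons (P.lf 19241 0 0) P.nil)) (P.cons (P.cons (P.lf 0 3127 0) P.nil) P.nil)))))) 54794)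
 (EL.cons 5 (TM.mk (P.cons (P.cons (P.lf 2442876 0 0) (P.cons (P.lf 4652140 0 0) (P.cons (P.lf 2525878 0 0) (P.cons (P.lf 192480 0 0) (P.cons (P.lf 0 88818 0) (P.cons (P.lf 0 6598 0) P.nil)))))) (P.cons (P.cons (P.lf 0 5629790 0) (P.cons (P.lf 0 4218712 0) (P.cons (P.lf 805232 0 0) (P.cons (P.lf 239404 0 0) (P.cons (P.lf 0 43600 0) P.nil))))) (P.cons (P.cons (P.lf 2897418 0 0) (P.cons (P.lf 0 1549840 0) (P.cons (P.lf 120786 0 0) (P.cons (P.lf 64544 0 0) P.nil)))) (P.cons (P.cons (P.lf 422450 0 0) (P.cons (P.lf 0 167078 0) (P.cons (P.lf 12528 0 0) P.nil))) (P.cons (P.cons (P.lf 0 12942 0) (P.cons (P.lf 0 1286 0) P.nil)) (P.cons (P.cons (P.lf 0 3952 0) P.nil) P.nil)))))) 30546)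
 EL.nil)))
noncomputable def S140_154_364_512_6 : EL := (EL.cons 12 (TM.mk (P.lf 8589934592 0 0) 0)
 (EL.cons 3 (TM.mk (P.cons (P.lf 0 2795377237 0) (P.cons (P.lf 113188447 0 0) (P.cons (P.lf 4815735 0 0) (P.cons (P.lf 28027 0 0) (P.cons (P.lf 0 3003 0) (P.cons (P.lf 0 90 0) P.nil)))))) 67)
 (EL.cons 7 (TM.mk (P.cons (P.lf 0 1354004171 0) (P.cons (P.lf 0 83086409 0) (P.cons (P.lf 696363 0 0) (P.cons (P.lf 79830 0 0) (P.cons (P.lf 1364 0 0) (P.cons (P.lf 0 28 0) P.nil)))))) 46)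
 EL.nil)))
noncomputable def S140_154_364_512_7 : EL := (EL.cons 12 (TM.mk (P.cons (P.cons (P.lf 0 459500116 0) (P.cons (P.lf 0 437528952 0) (P.cons (P.lf 0 29252160 0) (P.lf 9750720 0 0)))) (P.cons (P.cons (P.lf 557672476 0 0) (P.cons (P.lf 0 80544896 0) (P.cons (P.lf 0 5385040 0) (P.lf 1795008 0 0)))) (P.cons (P.cons (P.lf 0 1902308 0) (P.cons (P.lf 0 4267448 0) (P.cons (P.lf 0 285304 0) (P.lf 95096 0 0)))) (P.cons (P.cons (P.lf 0 1842286 0) (P.cons (P.lf 59136 0 0) (P.cons (P.lf 3952 0 0) P.nil))) (P.cons (P.cons (P.lf 0 41604 0) (P.cons (P.lf 13008 0 0) P.nil)) (P.cons (P.cons (P.lf 2334 0 0) P.nil) P.nil)))))) 7172)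
 (EL.cons 3 (TM.mk (P.cons (P.cons (P.lf 3106998924 0 0) (P.cons (P.lf 0 284765490 0) (P.cons (P.lf 0 19038750 0) (P.lf 6346250 0 0)))) (P.cons (P.cons (P.lf 0 96408921 0) (P.cons (P.lf 0 40892078 0) (P.cons (P.lf 0 2733944 0) (P.lf 911310 0 0)))) (P.cons (P.cons (P.lf 0 25933889 0) (P.cons (P.lf 0 164226 0) (P.cons (P.lf 0 10974 0) (P.lf 3654 0 0)))) (P.cons (P.cons (P.lf 0 1075721 0) (P.cons (P.lf 244116 0 0) (P.cons (P.lf 16318 0 0) P.nil))) (P.cons (P.cons (P.lf 54159 0 0) (P.cons (P.lf 11910 0 0) P.nil)) (P.cons (P.cons (P.lf 5144 0 0) P.nil) P.nil)))))) 21985)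
 (EL.cons 7 (TM.mk (P.cons (P.cons (P.lf 0 2098509776 0) (P.cons (P.lf 382516093 0 0) (P.cons (P.lf 25574136 0 0) (P.lf 0 8524710 0)))) (P.cons (P.cons (P.lf 70769331 0 0) (P.cons (P.lf 30016986 0 0) (P.cons (P.lf 2006866 0 0) (P.lf 0 668957 0)))) (P.cons (P.cons (P.lf 15432775 0 0) (P.cons (P.lf 0 1408133 0) (P.cons (P.lf 0 94142 0) (P.lf 31379 0 0)))) (P.cons (P.cons (P.lf 0 384083 0) (P.cons (P.lf 0 136936 0) (P.cons (P.lf 0 9153 0) P.nil))) (P.cons (P.cons (P.lf 0 57620 0) (P.cons (P.lf 2898 0 0) P.nil)) (P.cons (P.cons (P.lf 0 282 0) P.nil) P.nil)))))) 13928)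
 (EL.cons 10 (TM.mk (P.cons (P.cons (P.lf 0 1187777262 0) (P.cons (P.lf 0 183897747 0) (P.cons (P.lf 88596135 0 0) (P.cons (P.lf 3352737 0 0) (P.lf 0 838182 0))))) (P.cons (P.cons (P.lf 0 145772292 0) (P.cons (P.lf 0 22569210 0) (P.cons (P.lf 10873134 0 0) (P.cons (P.lf 411471 0 0) (P.lf 0 102867 0))))) (P.cons (P.cons (P.lf 0 3250800 0) (P.cons (P.lf 0 503304 0) (P.cons (P.lf 242475 0 0) (P.cons (P.lf 9174 0 0) P.nil)))) (P.cons (P.cons (P.lf 215025 0 0) (P.cons (P.lf 33291 0 0) (P.cons (P.lf 0 16038 0) P.nil))) (P.cons (P.cons (P.lf 10671 0 0) (P.cons (P.lf 1650 0 0) P.nil)) (P.cons (P.cons (P.lf 24 0 0) P.nil) P.nil)))))) 4131)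
 EL.nil))))
noncomputable def S140_154_364_512_8 : EL := (EL.cons 12 (TM.mk (P.cons (P.cons (P.lf 24579972 0 0) (P.cons (P.lf 46809344 0 0) (P.cons (P.lf 25415132 0 0) (P.cons (P.lf 1936734 0 0) (P.cons (P.lf 0 893690 0) (P.cons (P.lf 0 66410 0) P.nil)))))) (P.cons (P.cons (P.lf 0 59662984 0) (P.cons (P.lf 0 48193024 0) (P.cons (P.lf 4983046 0 0) (P.cons (P.lf 2171174 0 0) (P.cons (P.lf 0 329038 0) P.nil))))) (P.cons (P.cons (P.lf 36408520 0 0) (P.cons (P.lf 0 9807866 0) (P.cons (P.lf 534236 0 0) (P.cons (P.lf 377692 0 0) P.nil)))) (P.cons (P.cons (P.lf 0 49902 0) (P.cons (P.lf 0 337076 0) (P.cons (P.lf 51468 0 0) P.nil))) (P.cons (P.cons (P.lf 0 234336 0) (P.cons (P.lf 46964 0 0) P.nil)) (P.cons (P.cons (P.lf 0 4834 0) P.nil) P.nil)))))) 153416)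
 (EL.cons 3 (TM.mk (P.cons (P.cons (P.lf 0 324405546 0) (P.cons (P.lf 0 270811678 0) (P.cons (P.lf 18155544 0 0) (P.cons (P.lf 10883980 0 0) (P.cons (P.lf 0 1454146 0) (P.cons (P.lf 0 108055 0) P.nil)))))) (P.cons (P.cons (P.lf 393997486 0 0) (P.cons (P.lf 0 97345362 0) (P.cons (P.lf 5374192 0 0) (P.cons (P.lf 3758290 0 0) (P.cons (P.lf 0 476506 0) P.nil))))) (P.cons (P.cons (P.lf 1500994 0 0) (P.cons (P.lf 0 6386007 0) (P.cons (P.lf 906214 0 0) (P.cons (P.lf 320576 0 0) P.nil)))) (P.cons (P.cons (P.lf 0 5004892 0) (P.cons (P.lf 873727 0 0) (P.cons (P.lf 77066 0 0) P.nil))) (P.cons (P.cons (P.lf 0 218532 0) (P.cons (P.lf 124694 0 0) P.nil)) (P.cons (P.cons (P.lf 22106 0 0) P.nil) P.nil)))))) 317193)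
 (EL.cons 7 (TM.mk (P.cons (P.cons (P.lf 228385015 0 0) (P.cons (P.lf 180230150 0 0) (P.cons (P.lf 0 23404400 0) (P.cons (P.lf 0 8757349 0) (P.cons (P.lf 1421773 0 0) (P.cons (P.lf 105651 0 0) P.nil)))))) (P.cons (P.cons (P.lf 0 289215352 0) (P.cons (P.lf 71456734 0 0) (P.cons (P.lf 0 3944944 0) (P.cons (P.lf 0 2758784 0) (P.cons (P.lf 349781 0 0) P.nil))))) (P.cons (P.cons (P.lf 13627170 0 0) (P.cons (P.lf 1048570 0 0) (P.cons (P.lf 0 464302 0) (P.cons (P.lf 0 94820 0) P.nil)))) (P.cons (P.cons (P.lf 3262628 0 0) (P.cons (P.lf 0 839581 0) (P.cons (P.lf 0 18027 0) P.nil))) (P.cons (P.cons (P.lf 0 100387 0) (P.cons (P.lf 0 36307 0) P.nil)) (P.cons (P.cons (P.lf 0 19081 0) P.nil) P.nil)))))) 191880)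
 (EL.cons 10 (TM.mk (P.cons (P.cons (P.lf 127075188 0 0) (P.cons (P.lf 140673474 0 0) (P.cons (P.lf 17344878 0 0) (P.cons (P.lf 0 10828074 0) (P.cons (P.lf 0 1272774 0) (P.cons (P.lf 263682 0 0) P.nil)))))) (P.cons (P.cons (P.lf 0 138629298 0) (P.cons (P.lf 15661314 0 0) (P.cons (P.lf 18570222 0 0) (P.cons (P.lf 0 2820876 0) (P.cons (P.lf 0 515850 0) P.nil))))) (P.cons (P.cons (P.lf 0 18053670 0) (P.cons (P.lf 1449876 0 0) (P.cons (P.lf 2287668 0 0) (P.cons (P.lf 0 316332 0) P.nil)))) (P.cons (P.cons (P.lf 128946 0 0) (P.cons (P.lf 187506 0 0) (P.cons (P.lf 27522 0 0) P.nil))) (P.cons (P.cons (P.lf 102246 0 0) (P.cons (P.lf 8334 0 0) P.nil)) (P.cons (P.cons (P.lf 3444 0 0) P.nil) P.nil)))))) 238770)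
 EL.nil))))
noncomputable def S140_154_364_512_9 : EL := (EL.cons 3 (TM.mk (P.cons (P.lf 0 2795377237 0) (P.cons (P.lf 113188447 0 0) (P.cons (P.lf 4815735 0 0) (P.cons (P.lf 28027 0 0) (P.cons (P.lf 0 3003 0) (P.cons (P.lf 0 90 0) P.nil)))))) 67)
 (EL.cons 7 (TM.mk (P.cons (P.lf 0 1354004171 0) (P.cons (P.lf 0 83086409 0) (P.cons (P.lf 696363 0 0) (P.cons (P.lf 79830 0 0) (P.cons (P.lf 1364 0 0) (P.cons (P.lf 0 28 0) P.nil)))))) 46)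
 EL.nil))
noncomputable def S140_154_364_512_10 : EL := (EL.cons 3 (TM.mk (P.cons (P.cons (P.lf 149532705 0 0) (P.cons (P.lf 142382745 0 0) (P.cons (P.lf 9519375 0 0) (P.lf 0 3173125 0)))) (P.cons (P.cons (P.lf 0 187535193 0) (P.cons (P.lf 20446039 0 0) (P.cons (P.lf 1366972 0 0) (P.lf 0 455655 0)))) (P.cons (P.cons (P.lf 7709827 0 0) (P.cons (P.lf 82113 0 0) (P.cons (P.lf 5487 0 0) (P.lf 0 1827 0)))) (P.cons (P.cons (P.lf 885604 0 0) (P.cons (P.lf 0 122058 0) (P.cons (P.lf 0 8159 0) P.nil))) (P.cons (P.cons (P.lf 0 9822 0) (P.cons (P.lf 0 5955 0) P.nil)) (P.cons (P.cons (P.lf 0 2536 0) P.nil) P.nil)))))) 5409)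
 (EL.cons 7 (TM.mk (P.cons (P.cons (P.lf 72429547 0 0) (P.cons (P.lf 68966302 0 0) (P.cons (P.lf 4610925 0 0) (P.lf 0 1536975 0)))) (P.cons (P.cons (P.lf 0 83459616 0) (P.cons (P.lf 16928049 0 0) (P.cons (P.lf 1131769 0 0) (P.lf 0 377255 0)))) (P.cons (P.cons (P.lf 0 5131499 0) (P.cons (P.lf 1416268 0 0) (P.cons (P.lf 94687 0 0) (P.lf 0 31561 0)))) (P.cons (P.cons (P.lf 349732 0 0) (P.cons (P.lf 21359 0 0) (P.cons (P.lf 1428 0 0) P.nil))) (P.cons (P.cons (P.lf 29332 0 0) (P.cons (P.lf 0 3786 0) P.nil)) (P.cons (P.cons (P.lf 0 42 0) P.nil) P.nil)))))) 2764)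
 EL.nil))
noncomputable def S140_154_364_512_11 : EL := (EL.cons 3 (TM.mk (P.cons (P.cons (P.lf 0 7998930 0) (P.cons (P.lf 0 15232918 0) (P.cons (P.lf 0 8270712 0) (P.cons (P.lf 0 630260 0) (P.cons (P.lf 290828 0 0) (P.cons (P.lf 21611 0 0) P.nil)))))) (P.cons (P.cons (P.lf 19739698 0 0) (P.cons (P.lf 16300002 0 0) (P.cons (P.lf 0 1286714 0) (P.cons (P.lf 0 681032 0) (P.cons (P.lf 95300 0 0) P.nil))))) (P.cons (P.cons (P.lf 0 12620624 0) (P.cons (P.lf 2582931 0 0) (P.cons (P.lf 0 93944 0) (P.cons (P.lf 0 93214 0) P.nil)))) (P.cons (P.cons (P.lf 462620 0 0) (P.cons (P.lf 0 46409 0) (P.cons (P.lf 0 6832 0) P.nil))) (P.cons (P.cons (P.lf 95808 0 0) (P.cons (P.lf 0 25396 0) P.nil)) (P.cons (P.cons (P.lf 0 1402 0) P.nil) P.nil)))))) 66575)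
 (EL.cons 7 (TM.mk (P.cons (P.cons (P.lf 0 3874463 0) (P.cons (P.lf 0 7378408 0) (P.cons (P.lf 0 4006106 0) (P.cons (P.lf 0 305281 0) (P.cons (P.lf 140869 0 0) (P.cons (P.lf 10467 0 0) P.nil)))))) (P.cons (P.cons (P.lf 9166736 0 0) (P.cons (P.lf 7143748 0 0) (P.cons (P.lf 0 1031290 0) (P.cons (P.lf 0 360968 0) (P.cons (P.lf 60509 0 0) P.nil))))) (P.cons (P.cons (P.lf 0 5159874 0) (P.cons (P.lf 2015926 0 0) (P.cons (P.lf 0 130348 0) (P.cons (P.lf 0 80378 0) P.nil)))) (P.cons (P.cons (P.lf 0 348904 0) (P.cons (P.lf 144527 0 0) (P.cons (P.lf 0 12639 0) P.nil))) (P.cons (P.cons (P.lf 39821 0 0) (P.cons (P.lf 0 5377 0) P.nil)) (P.cons (P.cons (P.lf 3353 0 0) P.nil) P.nil)))))) 34814)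
 EL.nil))
noncomputable def S140_154_364_512_12 : EL := (EL.cons 4 (TM.mk (P.cons (P.lf 2795377237 0 0) (P.cons (P.lf 0 113188447 0) (P.cons (P.lf 0 4815735 0) (P.cons (P.lf 0 28027 0) (P.cons (P.lf 3003 0 0) (P.cons (P.lf 90 0 0) P.nil)))))) 67)
 (EL.cons 8 (TM.mk (P.cons (P.lf 1354004171 0 0) (P.cons (P.lf 83086409 0 0) (P.cons (P.lf 0 696363 0) (P.cons (P.lf 0 79830 0) (P.cons (P.lf 0 1364 0) (P.cons (P.lf 28 0 0) P.nil)))))) 46)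
 EL.nil))
noncomputable def S140_154_364_512_13 : EL := (EL.cons 4 (TM.mk (P.cons (P.cons (P.lf 0 149532705 0) (P.cons (P.lf 0 142382745 0) (P.cons (P.lf 0 9519375 0) (P.lf 3173125 0 0)))) (P.cons (P.cons (P.lf 187535193 0 0) (P.cons (P.lf 0 20446039 0) (P.cons (P.lf 0 1366972 0) (P.lf 455655 0 0)))) (P.cons (P.cons (P.lf 0 7709827 0) (P.cons (P.lf 0 82113 0) (P.cons (P.lf 0 5487 0) (P.lf 1827 0 0)))) (P.cons (P.cons (P.lf 0 885604 0) (P.cons (P.lf 122058 0 0) (P.cons (P.lf 8159 0 0) P.nil))) (P.cons (P.cons (P.lf 9822 0 0) (P.cons (P.lf 5955 0 0) P.nil)) (P.cons (P.cons (P.lf 2536 0 0) P.nil) P.nil)))))) 5409)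
 (EL.cons 8 (TM.mk (P.cons (P.cons (P.lf 0 72429547 0) (P.cons (P.lf 0 68966302 0) (P.cons (P.lf 0 4610925 0) (P.lf 1536975 0 0)))) (P.cons (P.cons (P.lf 83459616 0 0) (P.cons (P.lf 0 16928049 0) (P.cons (P.lf 0 1131769 0) (P.lf 377255 0 0)))) (P.cons (P.cons (P.lf 5131499 0 0) (P.cons (P.lf 0 1416268 0) (P.cons (P.lf 0 94687 0) (P.lf 31561 0 0)))) (P.cons (P.cons (P.lf 0 349732 0) (P.cons (P.lf 0 21359 0) (P.cons (P.lf 0 1428 0) P.nil))) (P.cons (P.cons (P.lf 0 29332 0) (P.cons (P.lf 3786 0 0) P.nil)) (P.cons (P.cons (P.lf 42 0 0) P.nil) P.nil)))))) 2764)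
 EL.nil))
noncomputable def S140_154_364_512_14 : EL := (EL.cons 4 (TM.mk (P.cons (P.cons (P.lf 7998930 0 0) (P.cons (P.lf 15232918 0 0) (P.cons (P.lf 8270712 0 0) (P.cons (P.lf 630260 0 0) (P.cons (P.lf 0 290828 0) (P.cons (P.lf 0 21611 0) P.nil)))))) (P.cons (P.cons (P.lf 0 19739698 0) (P.cons (P.lf 0 16300002 0) (P.cons (P.lf 1286714 0 0) (P.cons (P.lf 681032 0 0) (P.cons (P.lf 0 95300 0) P.nil))))) (P.cons (P.cons (P.lf 12620624 0 0) (P.cons (P.lf 0 2582931 0) (P.cons (P.lf 93944 0 0) (P.cons (P.lf 93214 0 0) P.nil)))) (P.cons (P.cons (P.lf 0 462620 0) (P.cons (P.lf 46409 0 0) (P.cons (P.lf 6832 0 0) P.nil))) (P.cons (P.cons (P.lf 0 95808 0) (P.cons (P.lf 25396 0 0) P.nil)) (P.cons (P.cons (P.lf 1402 0 0) P.nil) P.nil)))))) 66575)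
 (EL.cons 8 (TM.mk (P.cons (P.cons (P.lf 3874463 0 0) (P.cons (P.lf 7378408 0 0) (P.cons (P.lf 4006106 0 0) (P.cons (P.lf 305281 0 0) (P.cons (P.lf 0 140869 0) (P.cons (P.lf 0 10467 0) P.nil)))))) (P.cons (P.cons (P.lf 0 9166736 0) (P.cons (P.lf 0 7143748 0) (P.cons (P.lf 1031290 0 0) (P.cons (P.lf 360968 0 0) (P.cons (P.lf 0 60509 0) P.nil))))) (P.cons (P.cons (P.lf 5159874 0 0) (P.cons (P.lf 0 2015926 0) (P.cons (P.lf 130348 0 0) (P.cons (P.lf 80378 0 0) P.nil)))) (P.cons (P.cons (P.lf 348904 0 0) (P.cons (P.lf 0 144527 0) (P.cons (P.lf 12639 0 0) P.nil))) (P.cons (P.cons (P.lf 0 39821 0) (P.cons (P.lf 5377 0 0) P.nil)) (P.cons (P.cons (P.lf 0 3353 0) P.nil) P.nil)))))) 34814)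
 EL.nil))
noncomputable def S140_154_364_512_15 : EL := (EL.cons 4 (TM.mk (P.cons (P.lf 0 1940661147 0) (P.cons (P.lf 157159770 0 0) (P.cons (P.lf 3504744 0 0) (P.cons (P.lf 0 231830 0) (P.cons (P.lf 0 11505 0) (P.cons (P.lf 0 22 0) P.nil)))))) 112)
 (EL.cons 8 (TM.mk (P.cons (P.lf 0 940003106 0) (P.cons (P.lf 0 19619918 0) (P.cons (P.lf 4438446 0 0) (P.cons (P.lf 144642 0 0) (P.cons (P.lf 0 2561 0) (P.cons (P.lf 0 250 0) P.nil)))))) 67)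
 EL.nil))
noncomputable def S140_154_364_512_16 : EL := (EL.cons 4 (TM.mk (P.cons (P.cons (P.lf 103811503 0 0) (P.cons (P.lf 98847718 0 0) (P.cons (P.lf 6608726 0 0) (P.lf 0 2202908 0)))) (P.cons (P.cons (P.lf 0 134397791 0) (P.cons (P.lf 10191975 0 0) (P.cons (P.lf 681410 0 0) (P.lf 0 227135 0)))) (P.cons (P.cons (P.lf 10445362 0 0) (P.cons (P.lf 0 688034 0) (P.cons (P.lf 0 46001 0) (P.lf 15334 0 0)))) (P.cons (P.cons (P.lf 621344 0 0) (P.cons (P.lf 0 112490 0) (P.cons (P.lf 0 7519 0) P.nil))) (P.cons (P.cons (P.lf 0 39517 0) (P.cons (P.lf 0 838 0) P.nil)) (P.cons (P.cons (P.lf 0 2733 0) P.nil) P.nil)))))) 5659)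
 (EL.cons 8 (TM.mk (P.cons (P.cons (P.lf 50283448 0 0) (P.cons (P.lf 47879127 0 0) (P.cons (P.lf 3201086 0 0) (P.lf 0 1067028 0)))) (P.cons (P.cons (P.lf 0 59976999 0) (P.cons (P.lf 9813431 0 0) (P.cons (P.lf 656102 0 0) (P.lf 0 218700 0)))) (P.cons (P.cons (P.lf 0 1303011 0) (P.cons (P.lf 424886 0 0) (P.cons (P.lf 28405 0 0) (P.lf 0 9467 0)))) (P.cons (P.cons (P.lf 486361 0 0) (P.cons (P.lf 0 45709 0) (P.cons (P.lf 0 3055 0) P.nil))) (P.cons (P.cons (P.lf 17305 0 0) (P.cons (P.lf 0 4989 0) P.nil)) (P.cons (P.cons (P.lf 0 1297 0) P.nil) P.nil)))))) 2575)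
 EL.nil))
noncomputable def S140_154_364_512_17 : EL := (EL.cons 4 (TM.mk (P.cons (P.cons (P.lf 0 5553173 0) (P.cons (P.lf 0 10575292 0) (P.cons (P.lf 0 5741854 0) (P.cons (P.lf 0 437551 0) (P.cons (P.lf 201904 0 0) (P.cons (P.lf 15002 0 0) P.nil)))))) (P.cons (P.cons (P.lf 13928931 0 0) (P.cons (P.lf 11744311 0 0) (P.cons (P.lf 0 660792 0) (P.cons (P.lf 0 455083 0) (P.cons (P.lf 57986 0 0) P.nil))))) (P.cons (P.cons (P.lf 0 9307064 0) (P.cons (P.lf 1353187 0 0) (P.cons (P.lf 0 19156 0) (P.cons (P.lf 0 44815 0) P.nil)))) (P.cons (P.cons (P.lf 652390 0 0) (P.cons (P.lf 0 124215 0) (P.cons (P.lf 0 506 0) P.nil))) (P.cons (P.cons (P.lf 68460 0 0) (P.cons (P.lf 0 19540 0) P.nil)) (P.cons (P.cons (P.lf 0 4117 0) P.nil) P.nil)))))) 56438)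
 (EL.cons 8 (TM.mk (P.cons (P.cons (P.lf 0 2689805 0) (P.cons (P.lf 0 5122382 0) (P.cons (P.lf 0 2781197 0) (P.cons (P.lf 0 211938 0) (P.cons (P.lf 97797 0 0) (P.cons (P.lf 7267 0 0) P.nil)))))) (P.cons (P.cons (P.lf 6472823 0 0) (P.cons (P.lf 5166883 0 0) (P.cons (P.lf 0 603348 0) (P.cons (P.lf 0 242016 0) (P.cons (P.lf 38047 0 0) P.nil))))) (P.cons (P.cons (P.lf 0 3835237 0) (P.cons (P.lf 1207544 0 0) (P.cons (P.lf 0 56711 0) (P.cons (P.lf 0 45289 0) P.nil)))) (P.cons (P.cons (P.lf 0 108112 0) (P.cons (P.lf 35175 0 0) (P.cons (P.lf 0 3849 0) P.nil))) (P.cons (P.cons (P.lf 43557 0 0) (P.cons (P.lf 0 10262 0) P.nil)) (P.cons (P.cons (P.lf 1668 0 0) P.nil) P.nil)))))) 29212)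
 EL.nil))
noncomputable def S140_154_364_512_18 : EL := (EL.cons 4 (TM.mk (P.cons (P.lf 1347283520 0 0) (P.cons (P.lf 0 163659767 0) (P.cons (P.lf 0 336299 0) (P.cons (P.lf 433920 0 0) (P.cons (P.lf 8204 0 0) (P.cons (P.lf 0 633 0) P.nil)))))) 143)
 (EL.cons 8 (TM.mk (P.cons (P.lf 652587236 0 0) (P.cons (P.lf 0 12803181 0) (P.cons (P.lf 0 4757117 0) (P.cons (P.lf 0 5657 0) (P.cons (P.lf 11717 0 0) (P.cons (P.lf 341 0 0) P.nil)))))) 78)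
 EL.nil))
noncomputable def S140_154_364_512_19 : EL := (EL.cons 4 (TM.mk (P.cons (P.cons (P.lf 0 72070039 0) (P.cons (P.lf 0 68623984 0) (P.cons (P.lf 0 4588038 0) (P.lf 1529345 0 0)))) (P.cons (P.cons (P.lf 96222457 0 0) (P.cons (P.lf 0 4296996 0) (P.cons (P.lf 0 287286 0) (P.lf 95760 0 0)))) (P.cons (P.cons (P.lf 0 10905434 0) (P.cons (P.lf 882385 0 0) (P.cons (P.lf 58995 0 0) (P.lf 0 19665 0)))) (P.cons (P.cons (P.lf 0 297752 0) (P.cons (P.lf 71631 0 0) (P.cons (P.lf 4788 0 0) P.nil))) (P.cons (P.cons (P.lf 56381 0 0) (P.cons (P.lf 0 3405 0) P.nil)) (P.cons (P.cons (P.lf 1700 0 0) P.nil) P.nil)))))) 4995)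
 (EL.cons 8 (TM.mk (P.cons (P.cons (P.lf 0 34908753 0) (P.cons (P.lf 0 33239578 0) (P.cons (P.lf 0 2222320 0) (P.lf 740773 0 0)))) (P.cons (P.cons (P.lf 43051899 0 0) (P.cons (P.lf 0 5466957 0) (P.cons (P.lf 0 365507 0) (P.lf 121835 0 0)))) (P.cons (P.cons (P.lf 0 721251 0) (P.cons (P.lf 38152 0 0) (P.cons (P.lf 2551 0 0) (P.lf 0 850 0)))) (P.cons (P.cons (P.lf 0 445662 0) (P.cons (P.lf 55747 0 0) (P.cons (P.lf 3726 0 0) P.nil))) (P.cons (P.cons (P.lf 0 355 0) (P.cons (P.lf 2719 0 0) P.nil)) (P.cons (P.cons (P.lf 2003 0 0) P.nil) P.nil)))))) 2765)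
 EL.nil))
noncomputable def S140_154_364_512_20 : EL := (EL.cons 4 (TM.mk (P.cons (P.cons (P.lf 3855231 0 0) (P.cons (P.lf 7341784 0 0) (P.cons (P.lf 3986221 0 0) (P.cons (P.lf 303765 0 0) (P.cons (P.lf 0 140169 0) (P.cons (P.lf 0 10415 0) P.nil)))))) (P.cons (P.cons (P.lf 0 9826117 0) (P.cons (P.lf 0 8450642 0) (P.cons (P.lf 297340 0 0) (P.cons (P.lf 303636 0 0) (P.cons (P.lf 0 34580 0) P.nil))))) (P.cons (P.cons (P.lf 6846240 0 0) (P.cons (P.lf 0 621944 0) (P.cons (P.lf 0 12142 0) (P.cons (P.lf 17796 0 0) P.nil)))) (P.cons (P.cons (P.lf 0 697922 0) (P.cons (P.lf 138246 0 0) (P.cons (P.lf 0 1017 0) P.nil))) (P.cons (P.cons (P.lf 0 40218 0) (P.cons (P.lf 11781 0 0) P.nil)) (P.cons (P.cons (P.lf 5488 0 0) P.nil) P.nil)))))) 45187)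
 (EL.cons 8 (TM.mk (P.cons (P.cons (P.lf 1867368 0 0) (P.cons (P.lf 3556159 0 0) (P.cons (P.lf 1930816 0 0) (P.cons (P.lf 147135 0 0) (P.cons (P.lf 0 67894 0) (P.cons (P.lf 0 5045 0) P.nil)))))) (P.cons (P.cons (P.lf 0 4569301 0) (P.cons (P.lf 0 3731048 0) (P.cons (P.lf 340686 0 0) (P.cons (P.lf 162059 0 0) (P.cons (P.lf 0 23665 0) P.nil))))) (P.cons (P.cons (P.lf 2841311 0 0) (P.cons (P.lf 0 699206 0) (P.cons (P.lf 19084 0 0) (P.cons (P.lf 24384 0 0) P.nil)))) (P.cons (P.cons (P.lf 0 25032 0) (P.cons (P.lf 15668 0 0) (P.cons (P.lf 337 0 0) P.nil))) (P.cons (P.cons (P.lf 0 37818 0) (P.cons (P.lf 9597 0 0) P.nil)) (P.cons (P.cons (P.lf 0 95 0) P.nil) P.nil)))))) 23365)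
 EL.nil))
noncomputable def S140_154_364_512_21 : EL := (EL.cons 4 (TM.mk (P.cons (P.cons (P.lf 0 2957466219 0) (P.cons (P.lf 427148235 0 0) (P.cons (P.lf 28558125 0 0) (P.lf 0 9519375 0)))) (P.cons (P.cons (P.lf 0 91126272 0) (P.cons (P.lf 61338117 0 0) (P.cons (P.lf 4100916 0 0) (P.lf 0 1366965 0)))) (P.cons (P.cons (P.lf 33643716 0 0) (P.cons (P.lf 246339 0 0) (P.cons (P.lf 16461 0 0) (P.lf 0 5481 0)))) (P.cons (P.cons (P.lf 1961325 0 0) (P.cons (P.lf 0 366174 0) (P.cons (P.lf 0 24477 0) P.nil))) (P.cons (P.cons (P.lf 0 63981 0) (P.cons (P.lf 0 17865 0) P.nil)) (P.cons (P.cons (P.lf 0 7680 0) P.nil) P.nil)))))) 16557)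
 (EL.cons 8 (TM.mk (P.cons (P.cons (P.lf 2170939323 0 0) (P.cons (P.lf 0 313549791 0) (P.cons (P.lf 0 20963211 0) (P.lf 6987735 0 0)))) (P.cons (P.cons (P.lf 0 154228947 0) (P.cons (P.lf 0 13088937 0) (P.cons (P.lf 0 875097 0) (P.lf 291702 0 0)))) (P.cons (P.cons (P.lf 0 20564274 0) (P.cons (P.lf 2824401 0 0) (P.cons (P.lf 188829 0 0) (P.lf 0 62940 0)))) (P.cons (P.cons (P.lf 733815 0 0) (P.cons (P.lf 158295 0 0) (P.cons (P.lf 10581 0 0) P.nil))) (P.cons (P.cons (P.lf 86952 0 0) (P.cons (P.lf 0 6684 0) P.nil)) (P.cons (P.cons (P.lf 240 0 0) P.nil) P.nil)))))) 11145)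
 (EL.cons 11 (TM.mk (P.cons (P.cons (P.lf 1187777262 0 0) (P.cons (P.lf 183897747 0 0) (P.cons (P.lf 0 88596135 0) (P.cons (P.lf 0 3352737 0) (P.lf 838182 0 0))))) (P.cons (P.cons (P.lf 145772292 0 0) (P.cons (P.lf 22569210 0 0) (P.cons (P.lf 0 10873134 0) (P.cons (P.lf 0 411471 0) (P.lf 102867 0 0))))) (P.cons (P.cons (P.lf 3250800 0 0) (P.cons (P.lf 503304 0 0) (P.cons (P.lf 0 242475 0) (P.cons (P.lf 0 9174 0) P.nil)))) (P.cons (P.cons (P.lf 0 215025 0) (P.cons (P.lf 0 33291 0) (P.cons (P.lf 16038 0 0) P.nil))) (P.cons (P.cons (P.lf 0 10671 0) (P.cons (P.lf 0 1650 0) P.nil)) (P.cons (P.cons (P.lf 0 24 0) P.nil) P.nil)))))) 4131)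
 EL.nil)))
noncomputable def S140_154_364_512_22 : EL := (EL.cons 4 (TM.mk (P.cons (P.cons (P.lf 158203308 0 0) (P.cons (P.lf 127789380 0 0) (P.cons (P.lf 0 13213128 0) (P.cons (P.lf 0 5757120 0) (P.cons (P.lf 872487 0 0) (P.cons (P.lf 64833 0 0) P.nil)))))) (P.cons (P.cons (P.lf 0 187128894 0) (P.cons (P.lf 56822682 0 0) (P.cons (P.lf 0 3330453 0) (P.cons (P.lf 0 2219661 0) (P.cons (P.lf 285903 0 0) P.nil))))) (P.cons (P.cons (P.lf 0 7060809 0) (P.cons (P.lf 4484469 0 0) (P.cons (P.lf 0 500079 0) (P.cons (P.lf 0 206895 0) P.nil)))) (P.cons (P.cons (P.lf 2733756 0 0) (P.cons (P.lf 0 460068 0) (P.cons (P.lf 0 41949 0) P.nil))) (P.cons (P.cons (P.lf 157170 0 0) (P.cons (P.lf 0 75045 0) P.nil)) (P.cons (P.cons (P.lf 0 11754 0) P.nil) P.nil)))))) 125298)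
 (EL.cons 8 (TM.mk (P.cons (P.cons (P.lf 0 116129739 0) (P.cons (P.lf 0 93804279 0) (P.cons (P.lf 9699147 0 0) (P.cons (P.lf 4226034 0 0) (P.cons (P.lf 0 640452 0) (P.cons (P.lf 0 47592 0) P.nil)))))) (P.cons (P.cons (P.lf 149191044 0 0) (P.cons (P.lf 0 32156493 0) (P.cons (P.lf 1456827 0 0) (P.cons (P.lf 1198908 0 0) (P.cons (P.lf 0 144636 0) P.nil))))) (P.cons (P.cons (P.lf 0 9393522 0) (P.cons (P.lf 483678 0 0) (P.cons (P.lf 166977 0 0) (P.cons (P.lf 7221 0 0) P.nil)))) (P.cons (P.cons (P.lf 0 1805766 0) (P.cons (P.lf 492054 0 0) (P.cons (P.lf 2694 0 0) P.nil))) (P.cons (P.cons (P.lf 70104 0 0) (P.cons (P.lf 15465 0 0) P.nil)) (P.cons (P.cons (P.lf 11217 0 0) P.nil) P.nil)))))) 78522)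
 (EL.cons 11 (TM.mk (P.cons (P.cons (P.lf 0 63537594 0) (P.cons (P.lf 0 70336737 0) (P.cons (P.lf 0 8672439 0) (P.cons (P.lf 5414037 0 0) (P.cons (P.lf 636387 0 0) (P.cons (P.lf 0 131841 0) P.nil)))))) (P.cons (P.cons (P.lf 69314649 0 0) (P.cons (P.lf 0 7830657 0) (P.cons (P.lf 0 9285111 0) (P.cons (P.lf 1410438 0 0) (P.cons (P.lf 257925 0 0) P.nil))))) (P.cons (P.cons (P.lf 9026835 0 0) (P.cons (P.lf 0 724938 0) (P.cons (P.lf 0 1143834 0) (P.cons (P.lf 158166 0 0) P.nil)))) (P.cons (P.cons (P.lf 0 64473 0) (P.cons (P.lf 0 93753 0) (P.cons (P.lf 0 13761 0) P.nil))) (P.cons (P.cons (P.lf 0 51123 0) (P.cons (P.lf 0 4167 0) P.nil)) (P.cons (P.cons (P.lf 0 1722 0) P.nil) P.nil)))))) 119385)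
 EL.nil)))
noncomputable def S140_154_364_512_23 : EL := (EL.cons 4 (TM.mk (P.cons (P.cons (P.lf 2053189710 0 0) (P.cons (P.lf 0 296543154 0) (P.cons (P.lf 0 19826175 0) (P.lf 6608724 0 0)))) (P.cons (P.cons (P.lf 0 19872858 0) (P.cons (P.lf 0 30575922 0) (P.cons (P.lf 0 2044230 0) (P.lf 681405 0 0)))) (P.cons (P.cons (P.lf 0 29455545 0) (P.cons (P.lf 2064105 0 0) (P.cons (P.lf 138006 0 0) (P.lf 0 46005 0)))) (P.cons (P.cons (P.lf 0 545454 0) (P.cons (P.lf 337470 0 0) (P.cons (P.lf 22557 0 0) P.nil))) (P.cons (P.cons (P.lf 141360 0 0) (P.cons (P.lf 2511 0 0) P.nil)) (P.cons (P.cons (P.lf 6246 0 0) P.nil) P.nil)))))) 16128)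
 (EL.cons 8 (TM.mk (P.cons (P.cons (P.lf 0 1507151712 0) (P.cons (P.lf 217678632 0 0) (P.cons (P.lf 14553486 0 0) (P.lf 0 4851159 0)))) (P.cons (P.cons (P.lf 168098343 0 0) (P.cons (P.lf 272766 0 0) (P.cons (P.lf 18237 0 0) (P.lf 0 6081 0)))) (P.cons (P.cons (P.lf 12537498 0 0) (P.cons (P.lf 0 2703753 0) (P.cons (P.lf 0 180762 0) (P.lf 60252 0 0)))) (P.cons (P.cons (P.lf 0 1256865 0) (P.cons (P.lf 0 48333 0) (P.cons (P.lf 0 3228 0) P.nil))) (P.cons (P.cons (P.lf 0 67023 0) (P.cons (P.lf 12609 0 0) P.nil)) (P.cons (P.cons (P.lf 3078 0 0) P.nil) P.nil)))))) 11532)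
 (EL.cons 11 (TM.mk (P.cons (P.cons (P.lf 0 824601828 0) (P.cons (P.lf 0 127669068 0) (P.cons (P.lf 61506930 0 0) (P.cons (P.lf 2327601 0 0) (P.lf 0 581898 0))))) (P.cons (P.cons (P.lf 0 67811676 0) (P.cons (P.lf 0 10498947 0) (P.cons (P.lf 5058063 0 0) (P.cons (P.lf 191409 0 0) (P.lf 0 47850 0))))) (P.cons (P.cons (P.lf 3261501 0 0) (P.cons (P.lf 504963 0 0) (P.cons (P.lf 0 243276 0) (P.cons (P.lf 0 9207 0) P.nil)))) (P.cons (P.cons (P.lf 423270 0 0) (P.cons (P.lf 65532 0 0) (P.cons (P.lf 0 31569 0) P.nil))) (P.cons (P.cons (P.lf 5379 0 0) (P.cons (P.lf 831 0 0) P.nil)) (P.cons (P.cons (P.lf 0 651 0) P.nil) P.nil)))))) 8940)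
 EL.nil)))
noncomputable def S140_154_364_512_24 : EL := (EL.cons 4 (TM.mk (P.cons (P.cons (P.lf 0 109830975 0) (P.cons (P.lf 0 88716429 0) (P.cons (P.lf 9173073 0 0) (P.cons (P.lf 3996819 0 0) (P.cons (P.lf 0 605715 0) (P.cons (P.lf 0 45009 0) P.nil)))))) (P.cons (P.cons (P.lf 134359458 0 0) (P.cons (P.lf 0 35856303 0) (P.cons (P.lf 1940703 0 0) (P.cons (P.lf 1379139 0 0) (P.cons (P.lf 0 173958 0) P.nil))))) (P.cons (P.cons (P.lf 0 169209 0) (P.cons (P.lf 0 1363137 0) (P.cons (P.lf 237750 0 0) (P.cons (P.lf 74352 0 0) P.nil)))) (P.cons (P.cons (P.lf 0 2319069 0) (P.cons (P.lf 514308 0 0) (P.cons (P.lf 10989 0 0) P.nil))) (P.cons (P.cons (P.lf 0 42132 0) (P.cons (P.lf 44829 0 0) P.nil)) (P.cons (P.cons (P.lf 15933 0 0) P.nil) P.nil)))))) 77130)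
 (EL.cons 8 (TM.mk (P.cons (P.cons (P.lf 80621844 0 0) (P.cons (P.lf 65122632 0 0) (P.cons (P.lf 0 6733530 0) (P.cons (P.lf 0 2933880 0) (P.cons (P.lf 444627 0 0) (P.cons (P.lf 33039 0 0) P.nil)))))) (P.cons (P.cons (P.lf 0 106838790 0) (P.cons (P.lf 19687404 0 0) (P.cons (P.lf 0 738738 0) (P.cons (P.lf 0 713532 0) (P.cons (P.lf 82407 0 0) P.nil))))) (P.cons (P.cons (P.lf 10576320 0 0) (P.cons (P.lf 0 1351917 0) (P.cons (P.lf 0 63369 0) (P.cons (P.lf 33741 0 0) P.nil)))) (P.cons (P.cons (P.lf 1167198 0 0) (P.cons (P.lf 0 367119 0) (P.cons (P.lf 4632 0 0) P.nil))) (P.cons (P.cons (P.lf 0 109539 0) (P.cons (P.lf 3516 0 0) P.nil)) (P.cons (P.cons (P.lf 0 8148 0) P.nil) P.nil)))))) 48294)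
 (EL.cons 11 (TM.mk (P.cons (P.cons (P.lf 44110305 0 0) (P.cons (P.lf 48830535 0 0) (P.cons (P.lf 6020748 0 0) (P.cons (P.lf 0 3758637 0) (P.cons (P.lf 0 441804 0) (P.cons (P.lf 91530 0 0) P.nil)))))) (P.cons (P.cons (P.lf 0 49907046 0) (P.cons (P.lf 3459138 0 0) (P.cons (P.lf 6202302 0 0) (P.cons (P.lf 0 826989 0) (P.cons (P.lf 0 161172 0) P.nil))))) (P.cons (P.cons (P.lf 0 4394295 0) (P.cons (P.lf 199032 0 0) (P.cons (P.lf 522711 0 0) (P.cons (P.lf 0 63681 0) P.nil)))) (P.cons (P.cons (P.lf 380967 0 0) (P.cons (P.lf 34854 0 0) (P.cons (P.lf 0 33765 0) P.nil))) (P.cons (P.cons (P.lf 45006 0 0) (P.cons (P.lf 0 609 0) P.nil)) (P.cons (P.cons (P.lf 0 303 0) P.nil) P.nil)))))) 73158)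
 EL.nil)))
noncomputable def S140_154_364_512_25 : EL := (EL.cons 4 (TM.mk (P.cons (P.cons (P.lf 0 1425405288 0) (P.cons (P.lf 205871955 0 0) (P.cons (P.lf 13764114 0 0) (P.lf 0 4588038 0)))) (P.cons (P.cons (P.lf 71513028 0 0) (P.cons (P.lf 12890988 0 0) (P.cons (P.lf 861858 0 0) (P.lf 0 287280 0)))) (P.cons (P.cons (P.lf 22346178 0 0) (P.cons (P.lf 0 2647158 0) (P.cons (P.lf 0 176985 0) (P.lf 58998 0 0)))) (P.cons (P.cons (P.lf 0 458811 0) (P.cons (P.lf 0 214893 0) (P.cons (P.lf 0 14364 0) P.nil))) (P.cons (P.cons (P.lf 0 150369 0) (P.cons (P.lf 10218 0 0) P.nil)) (P.cons (P.cons (P.lf 0 1251 0) P.nil) P.nil)))))) 14013)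
 (EL.cons 8 (TM.mk (P.cons (P.cons (P.lf 1046324172 0 0) (P.cons (P.lf 0 151121094 0) (P.cons (P.lf 0 10103604 0) (P.lf 3367866 0 0)))) (P.cons (P.cons (P.lf 0 159067521 0) (P.cons (P.lf 5929722 0 0) (P.cons (P.lf 396447 0 0) (P.lf 0 132147 0)))) (P.cons (P.cons (P.lf 0 5781225 0) (P.cons (P.lf 2145063 0 0) (P.cons (P.lf 143412 0 0) (P.lf 0 47802 0)))) (P.cons (P.cons (P.lf 1415556 0 0) (P.cons (P.lf 0 40605 0) (P.cons (P.lf 0 2715 0) P.nil))) (P.cons (P.cons (P.lf 28488 0 0) (P.cons (P.lf 0 13506 0) P.nil)) (P.cons (P.cons (P.lf 0 5529 0) P.nil) P.nil)))))) 10683)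
 (EL.cons 11 (TM.mk (P.cons (P.cons (P.lf 572471115 0 0) (P.cons (P.lf 88632903 0 0) (P.cons (P.lf 0 42700536 0) (P.cons (P.lf 0 1615911 0) (P.lf 403977 0 0))))) (P.cons (P.cons (P.lf 23897442 0 0) (P.cons (P.lf 3699921 0 0) (P.cons (P.lf 0 1782504 0) (P.cons (P.lf 0 67455 0) (P.lf 16863 0 0))))) (P.cons (P.cons (P.lf 0 5156718 0) (P.cons (P.lf 0 798390 0) (P.cons (P.lf 384639 0 0) (P.cons (P.lf 14556 0 0) P.nil)))) (P.cons (P.cons (P.lf 0 289011 0) (P.cons (P.lf 0 44745 0) (P.cons (P.lf 21555 0 0) P.nil))) (P.cons (P.cons (P.lf 12207 0 0) (P.cons (P.lf 1890 0 0) P.nil)) (P.cons (P.cons (P.lf 1200 0 0) P.nil) P.nil)))))) 10110)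
 EL.nil)))
noncomputable def S140_154_364_512_26 : EL := (EL.cons 4 (TM.mk (P.cons (P.cons (P.lf 76248996 0 0) (P.cons (P.lf 61590444 0 0) (P.cons (P.lf 0 6368310 0) (P.cons (P.lf 0 2774748 0) (P.cons (P.lf 420510 0 0) (P.cons (P.lf 31248 0 0) P.nil)))))) (P.cons (P.cons (P.lf 0 96365055 0) (P.cons (P.lf 22398984 0 0) (P.cons (P.lf 0 1089450 0) (P.cons (P.lf 0 845100 0) (P.cons (P.lf 103740 0 0) P.nil))))) (P.cons (P.cons (P.lf 3763047 0 0) (P.cons (P.lf 0 167703 0) (P.cons (P.lf 0 99528 0) (P.cons (P.lf 0 8070 0) P.nil)))) (P.cons (P.cons (P.lf 1765161 0 0) (P.cons (P.lf 0 438873 0) (P.cons (P.lf 1437 0 0) P.nil))) (P.cons (P.cons (P.lf 0 35124 0) (P.cons (P.lf 0 18480 0) P.nil)) (P.cons (P.cons (P.lf 0 15117 0) P.nil) P.nil)))))) 60183)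
 (EL.cons 8 (TM.mk (P.cons (P.cons (P.lf 0 55970865 0) (P.cons (P.lf 0 45210699 0) (P.cons (P.lf 4674681 0 0) (P.cons (P.lf 2036814 0 0) (P.cons (P.lf 0 308676 0) (P.cons (P.lf 0 22935 0) P.nil)))))) (P.cons (P.cons (P.lf 76438035 0 0) (P.cons (P.lf 0 11837133 0) (P.cons (P.lf 323577 0 0) (P.cons (P.lf 412890 0 0) (P.cons (P.lf 0 44712 0) P.nil))))) (P.cons (P.cons (P.lf 0 10249383 0) (P.cons (P.lf 1569867 0 0) (P.cons (P.lf 15174 0 0) (P.cons (P.lf 0 46989 0) P.nil)))) (P.cons (P.cons (P.lf 0 640227 0) (P.cons (P.lf 240864 0 0) (P.cons (P.lf 0 5928 0) P.nil))) (P.cons (P.cons (P.lf 120702 0 0) (P.cons (P.lf 0 14289 0) P.nil)) (P.cons (P.cons (P.lf 4125 0 0) P.nil) P.nil)))))) 38292)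
 (EL.cons 11 (TM.mk (P.cons (P.cons (P.lf 0 30623112 0) (P.cons (P.lf 0 33900084 0) (P.cons (P.lf 0 4179840 0) (P.cons (P.lf 2609394 0 0) (P.cons (P.lf 306717 0 0) (P.cons (P.lf 0 63543 0) P.nil)))))) (P.cons (P.cons (P.lf 35887410 0 0) (P.cons (P.lf 0 1028811 0) (P.cons (P.lf 0 4136634 0) (P.cons (P.lf 468471 0 0) (P.cons (P.lf 99471 0 0) P.nil))))) (P.cons (P.cons (P.lf 1700529 0 0) (P.cons (P.lf 17460 0 0) (P.cons (P.lf 0 181335 0) (P.cons (P.lf 16467 0 0) P.nil)))) (P.cons (P.cons (P.lf 0 447390 0) (P.cons (P.lf 0 14124 0) (P.cons (P.lf 45594 0 0) P.nil))) (P.cons (P.cons (P.lf 0 26172 0) (P.cons (P.lf 1629 0 0) P.nil)) (P.cons (P.cons (P.lf 1935 0 0) P.nil) P.nil)))))) 55698)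
 EL.nil)))
noncomputable def S140_154_364_512_27 : EL := (EL.cons 13 (TM.mk (P.lf 0 4294967296 0) 0)
 EL.nil)
noncomputable def S140_154_364_512_28 : EL := (EL.cons 13 (TM.mk (P.cons (P.cons (P.lf 229750058 0 0) (P.cons (P.lf 218764476 0 0) (P.cons (P.lf 14626080 0 0) (P.lf 0 4875360 0)))) (P.cons (P.cons (P.lf 0 278836238 0) (P.cons (P.lf 40272448 0 0) (P.cons (P.lf 2692520 0 0) (P.lf 0 897504 0)))) (P.cons (P.cons (P.lf 951154 0 0) (P.cons (P.lf 2133724 0 0) (P.cons (P.lf 142652 0 0) (P.lf 0 47548 0)))) (P.cons (P.cons (P.lf 921143 0 0) (P.cons (P.lf 0 29568 0) (P.cons (P.lf 0 1976 0) P.nil))) (P.cons (P.cons (P.lf 20802 0 0) (P.cons (P.lf 0 6504 0) P.nil)) (P.cons (P.cons (P.lf 0 1167 0) P.nil) P.nil)))))) 3586)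
 EL.nil)
noncomputable def S140_154_364_512_29 : EL := (EL.cons 13 (TM.mk (P.cons (P.cons (P.lf 0 12289986 0) (P.cons (P.lf 0 23404672 0) (P.cons (P.lf 0 12707566 0) (P.cons (P.lf 0 968367 0) (P.cons (P.lf 446845 0 0) (P.cons (P.lf 33205 0 0) P.nil)))))) (P.cons (P.cons (P.lf 29831492 0 0) (P.cons (P.lf 24096512 0 0) (P.cons (P.lf 0 2491523 0) (P.cons (P.lf 0 1085587 0) (P.cons (P.lf 164519 0 0) P.nil))))) (P.cons (P.cons (P.lf 0 18204260 0) (P.cons (P.lf 4903933 0 0) (P.cons (P.lf 0 267118 0) (P.cons (P.lf 0 188846 0) P.nil)))) (P.cons (P.cons (P.lf 24951 0 0) (P.cons (P.lf 168538 0 0) (P.cons (P.lf 0 25734 0) P.nil))) (P.cons (P.cons (P.lf 117168 0 0) (P.cons (P.lf 0 23482 0) P.nil)) (P.cons (P.cons (P.lf 2417 0 0) P.nil) P.nil)))))) 76708)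
 EL.nil)
noncomputable def S140_154_364_512_30 : EL := (EL.cons 13 (TM.mk (P.cons (P.lf 2981735720 0 0) (P.cons (P.lf 0 120734344 0) (P.cons (P.lf 0 5136784 0) (P.cons (P.lf 0 29896 0) (P.cons (P.lf 3204 0 0) (P.cons (P.lf 96 0 0) P.nil)))))) 64)
 EL.nil)
noncomputable def S140_154_364_512_31 : EL := (EL.cons 13 (TM.mk (P.cons (P.cons (P.lf 0 159501553 0) (P.cons (P.lf 0 151874928 0) (P.cons (P.lf 0 10154001 0) (P.lf 3384667 0 0)))) (P.cons (P.cons (P.lf 200037540 0 0) (P.cons (P.lf 0 21809109 0) (P.cons (P.lf 0 1458104 0) (P.lf 486033 0 0)))) (P.cons (P.cons (P.lf 0 8223816 0) (P.cons (P.lf 0 87588 0) (P.cons (P.lf 0 5853 0) (P.lf 1949 0 0)))) (P.cons (P.cons (P.lf 0 944645 0) (P.cons (P.lf 130196 0 0) (P.cons (P.lf 8703 0 0) P.nil))) (P.cons (P.cons (P.lf 10477 0 0) (P.cons (P.lf 6353 0 0) P.nil)) (P.cons (P.cons (P.lf 2706 0 0) P.nil) P.nil)))))) 5750)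
 EL.nil)
noncomputable def S140_154_364_512_32 : EL := (EL.cons 13 (TM.mk (P.cons (P.cons (P.lf 8532193 0 0) (P.cons (P.lf 16248446 0 0) (P.cons (P.lf 8822093 0 0) (P.cons (P.lf 672278 0 0) (P.cons (P.lf 0 310217 0) (P.cons (P.lf 0 23052 0) P.nil)))))) (P.cons (P.cons (P.lf 0 21055678 0) (P.cons (P.lf 0 17386669 0) (P.cons (P.lf 1372495 0 0) (P.cons (P.lf 726435 0 0) (P.cons (P.lf 0 101654 0) P.nil))))) (P.cons (P.cons (P.lf 13461999 0 0) (P.cons (P.lf 0 2755127 0) (P.cons (P.lf 100207 0 0) (P.cons (P.lf 99429 0 0) P.nil)))) (P.cons (P.cons (P.lf 0 493462 0) (P.cons (P.lf 49503 0 0) (P.cons (P.lf 7288 0 0) P.nil))) (P.cons (P.cons (P.lf 0 102196 0) (P.cons (P.lf 27090 0 0) P.nil)) (P.cons (P.cons (P.lf 1496 0 0) P.nil) P.nil)))))) 70990)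
 EL.nil)
noncomputable def S140_154_364_512_33 : EL := (EL.cons 14 (TM.mk (P.lf 8589934592 0 0) 0)
 EL.nil)
noncomputable def S140_154_364_512_34 : EL := (EL.cons 14 (TM.mk (P.cons (P.cons (P.lf 0 459500116 0) (P.cons (P.lf 0 437528952 0) (P.cons (P.lf 0 29252160 0) (P.lf 9750720 0 0)))) (P.cons (P.cons (P.lf 557672476 0 0) (P.cons (P.lf 0 80544896 0) (P.cons (P.lf 0 5385040 0) (P.lf 1795008 0 0)))) (P.cons (P.cons (P.lf 0 1902308 0) (P.cons (P.lf 0 4267448 0) (P.cons (P.lf 0 285304 0) (P.lf 95096 0 0)))) (P.cons (P.cons (P.lf 0 1842286 0) (P.cons (P.lf 59136 0 0) (P.cons (P.lf 3952 0 0) P.nil))) (P.cons (P.cons (P.lf 0 41604 0) (P.cons (P.lf 13008 0 0) P.nil)) (P.cons (P.cons (P.lf 2334 0 0) P.nil) P.nil)))))) 7172)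
 EL.nil)
noncomputable def S140_154_364_512_35 : EL := (EL.cons 14 (TM.mk (P.cons (P.cons (P.lf 24579972 0 0) (P.cons (P.lf 46809344 0 0) (P.cons (P.lf 25415132 0 0) (P.cons (P.lf 1936734 0 0) (P.cons (P.lf 0 893690 0) (P.cons (P.lf 0 66410 0) P.nil)))))) (P.cons (P.cons (P.lf 0 59662984 0) (P.cons (P.lf 0 48193024 0) (P.cons (P.lf 4983046 0 0) (P.cons (P.lf 2171174 0 0) (P.cons (P.lf 0 329038 0) P.nil))))) (P.cons (P.cons (P.lf 36408520 0 0) (P.cons (P.lf 0 9807866 0) (P.cons (P.lf 534236 0 0) (P.cons (P.lf 377692 0 0) P.nil)))) (P.cons (P.cons (P.lf 0 49902 0) (P.cons (P.lf 0 337076 0) (P.cons (P.lf 51468 0 0) P.nil))) (P.cons (P.cons (P.lf 0 234336 0) (P.cons (P.lf 46964 0 0) P.nil)) (P.cons (P.cons (P.lf 0 4834 0) P.nil) P.nil)))))) 153416)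
 EL.nil)
noncomputable def S140_154_364_512_36 : EL := (EL.cons 14 (TM.mk (P.cons (P.lf 0 5963471440 0) (P.cons (P.lf 241468688 0 0) (P.cons (P.lf 10273568 0 0) (P.cons (P.lf 59792 0 0) (P.cons (P.lf 0 6408 0) (P.cons (P.lf 0 192 0) P.nil)))))) 128)
 EL.nil)
noncomputable def S140_154_364_512_37 : EL := (EL.cons 14 (TM.mk (P.cons (P.cons (P.lf 319003106 0 0) (P.cons (P.lf 303749856 0 0) (P.cons (P.lf 20308002 0 0) (P.lf 0 6769334 0)))) (P.cons (P.cons (P.lf 0 400075080 0) (P.cons (P.lf 43618218 0 0) (P.cons (P.lf 2916208 0 0) (P.lf 0 972066 0)))) (P.cons (P.cons (P.lf 16447632 0 0) (P.cons (P.lf 175176 0 0) (P.cons (P.lf 11706 0 0) (P.lf 0 3898 0)))) (P.cons (P.cons (P.lf 1889290 0 0) (P.cons (P.lf 0 260392 0) (P.cons (P.lf 0 17406 0) P.nil))) (P.cons (P.cons (P.lf 0 20954 0) (P.cons (P.lf 0 12706 0) P.nil)) (P.cons (P.cons (P.lf 0 5412 0) P.nil) P.nil))))))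 11500)
 EL.nil)
noncomputable def S140_154_364_512_38 : EL := (EL.cons 14 (TM.mk (P.cons (P.cons (P.lf 0 17064386 0) (P.cons (P.lf 0 32496892 0) (P.cons (P.lf 0 17644186 0) (P.cons (P.lf 0 1344556 0) (P.cons (P.lf 620434 0 0) (P.cons (P.lf 46104 0 0) P.nil)))))) (P.cons (P.cons (P.lf 42111356 0 0) (P.cons (P.lf 34773338 0 0) (P.cons (P.lf 0 2744990 0) (P.cons (P.lf 0 1452870 0) (P.cons (P.lf 203308 0 0) P.nil))))) (P.cons (P.cons (P.lf 0 26923998 0) (P.cons (P.lf 5510254 0 0) (P.cons (P.lf 0 200414 0) (P.cons (P.lf 0 198858 0) P.nil)))) (P.cons (P.cons (P.lf 986924 0 0) (P.cons (P.lf 0 99006 0) (P.cons (P.lf 0 14576 0) P.nil))) (P.cons (P.cons (P.lf 204392 0 0) (P.cons (P.lf 0 54180 0) P.nil)) (P.cons (P.cons (P.lf 0 2992 0) P.nil) P.nil)))))) 141980)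
 EL.nil)
noncomputable def S140_154_364_512_39 : EL := (EL.cons 14 (TM.mk (P.cons (P.lf 4140077114 0 0) (P.cons (P.lf 0 335274176 0) (P.cons (P.lf 0 7476788 0) (P.cons (P.lf 494572 0 0) (P.cons (P.lf 24546 0 0) (P.cons (P.lf 48 0 0) P.nil)))))) 226)
 EL.nil)
noncomputable def S140_154_364_512_40 : EL := (EL.cons 14 (TM.mk (P.cons (P.cons (P.lf 0 221464540 0) (P.cons (P.lf 0 210875132 0) (P.cons (P.lf 0 14098616 0) (P.lf 4699538 0 0)))) (P.cons (P.cons (P.lf 286715288 0 0) (P.cons (P.lf 0 21742880 0) (P.cons (P.lf 0 1453676 0) (P.lf 484556 0 0)))) (P.cons (P.cons (P.lf 0 22283440 0) (P.cons (P.lf 1467806 0 0) (P.cons (P.lf 98136 0 0) (P.lf 0 32714 0)))) (P.cons (P.cons (P.lf 0 1325534 0) (P.cons (P.lf 239980 0 0) (P.cons (P.lf 16042 0 0) P.nil))) (P.cons (P.cons (P.lf 84304 0 0) (P.cons (P.lf 1788 0 0) P.nil)) (P.cons (P.cons (P.lf 5832 0 0) P.nil) P.nil))))))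 12034)
 EL.nil)
noncomputable def S140_154_364_512_41 : EL := (EL.cons 14 (TM.mk (P.cons (P.cons (P.lf 11846770 0 0) (P.cons (P.lf 22560624 0 0) (P.cons (P.lf 12249290 0 0) (P.cons (P.lf 933444 0 0) (P.cons (P.lf 0 430730 0) (P.cons (P.lf 0 32006 0) P.nil)))))) (P.cons (P.cons (P.lf 0 29715054 0) (P.cons (P.lf 0 25054532 0) (P.cons (P.lf 1409690 0 0) (P.cons (P.lf 970844 0 0) (P.cons (P.lf 0 123704 0) P.nil))))) (P.cons (P.cons (P.lf 19855070 0 0) (P.cons (P.lf 0 2886800 0) (P.cons (P.lf 40868 0 0) (P.cons (P.lf 95606 0 0) P.nil)))) (P.cons (P.cons (P.lf 0 1391766 0) (P.cons (P.lf 264994 0 0) (P.cons (P.lf 1080 0 0) P.nil))) (P.cons (P.cons (P.lf 0 146050 0) (P.cons (P.lf 41686 0 0) P.nil)) (P.cons (P.cons (P.lf 8784 0 0) P.nil) P.nil)))))) 120356)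
 EL.nil)
noncomputable def S140_154_364_512_42 : EL := (EL.cons 14 (TM.mk (P.cons (P.lf 0 2874204844 0) (P.cons (P.lf 349140838 0 0) (P.cons (P.lf 717438 0 0) (P.cons (P.lf 0 925698 0) (P.cons (P.lf 0 17502 0) (P.cons (P.lf 1352 0 0) P.nil)))))) 292)
 EL.nil)
noncomputable def S140_154_364_512_43 : EL := (EL.cons 14 (TM.mk (P.cons (P.cons (P.lf 153749418 0 0) (P.cons (P.lf 146397834 0 0) (P.cons (P.lf 9787816 0 0) (P.lf 0 3262604 0)))) (P.cons (P.cons (P.lf 0 205274576 0) (P.cons (P.lf 9166926 0 0) (P.cons (P.lf 612878 0 0) (P.lf 0 204290 0)))) (P.cons (P.cons (P.lf 23264926 0 0) (P.cons (P.lf 0 1882422 0) (P.cons (P.lf 0 125856 0) (P.lf 41952 0 0)))) (P.cons (P.cons (P.lf 635206 0 0) (P.cons (P.lf 0 152814 0) (P.cons (P.lf 0 10216 0) P.nil))) (P.cons (P.cons (P.lf 0 120280 0) (P.cons (P.lf 7266 0 0) P.nil)) (P.cons (P.cons (P.lf 0 3628 0) P.nil) P.nil))))))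 10616)
 EL.nil)
noncomputable def S140_154_364_512_44 : EL := (EL.cons 14 (TM.mk (P.cons (P.cons (P.lf 0 8224494 0) (P.cons (P.lf 0 15662474 0) (P.cons (P.lf 0 8503940 0) (P.cons (P.lf 0 648034 0) (P.cons (P.lf 299028 0 0) (P.cons (P.lf 22220 0 0) P.nil)))))) (P.cons (P.cons (P.lf 20962384 0 0) (P.cons (P.lf 18028038 0 0) (P.cons (P.lf 0 634326 0) (P.cons (P.lf 0 647758 0) (P.cons (P.lf 73772 0 0) P.nil))))) (P.cons (P.cons (P.lf 0 14605314 0) (P.cons (P.lf 1326814 0 0) (P.cons (P.lf 25904 0 0) (P.cons (P.lf 0 37966 0) P.nil)))) (P.cons (P.cons (P.lf 1488902 0 0) (P.cons (P.lf 0 294926 0) (P.cons (P.lf 2170 0 0) P.nil))) (P.cons (P.cons (P.lf 85800 0 0) (P.cons (P.lf 0 25134 0) P.nil)) (P.cons (P.cons (P.lf 0 11708 0) P.nil) P.nil)))))) 96352)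
 EL.nil)
noncomputable def S140_154_364_512_45 : EL := (EL.cons 14 (TM.mk (P.cons (P.cons (P.lf 0 1314852 0) (P.cons (P.lf 0 3755948 0) (P.cons (P.lf 0 3827468 0) (P.cons (P.lf 0 1529626 0) (P.cons (P.lf 0 84254 0) (P.cons (P.lf 71326 0 0) P.nil)))))) (P.cons (P.cons (P.lf 4787314 0 0) (P.cons (P.lf 8425380 0 0) (P.cons (P.lf 3587000 0 0) (P.cons (P.lf 0 410344 0) (P.cons (P.lf 0 246992 0) P.nil))))) (P.cons (P.cons (P.lf 0 5826456 0) (P.cons (P.lf 0 3921726 0) (P.cons (P.lf 1130100 0 0) (P.cons (P.lf 124950 0 0) P.nil)))) (P.cons (P.cons (P.lf 2374310 0 0) (P.cons (P.lf 0 927116 0) (P.cons (P.lf 138112 0 0) P.nil))) (P.cons (P.cons (P.lf 13908 0 0) (P.cons (P.lf 0 18170 0) P.nil)) (P.cons (P.cons (P.lf 0 22456 0) P.nil) P.nil)))))) 286452)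
 EL.nil)
noncomputable def S140_154_364_512_46 : EL := (EL.cons 15 (TM.mk (P.lf 4294967296 0 0) 0)
 EL.nil)
noncomputable def S140_154_364_512_47 : EL := (EL.cons 15 (TM.mk (P.cons (P.cons (P.lf 0 229750058 0) (P.cons (P.lf 0 218764476 0) (P.cons (P.lf 0 14626080 0) (P.lf 4875360 0 0)))) (P.cons (P.cons (P.lf 278836238 0 0) (P.cons (P.lf 0 40272448 0) (P.cons (P.lf 0 2692520 0) (P.lf 897504 0 0)))) (P.cons (P.cons (P.lf 0 951154 0) (P.cons (P.lf 0 2133724 0) (P.cons (P.lf 0 142652 0) (P.lf 47548 0 0)))) (P.cons (P.cons (P.lf 0 921143 0) (P.cons (P.lf 29568 0 0) (P.cons (P.lf 1976 0 0) P.nil))) (P.cons (P.cons (P.lf 0 20802 0) (P.cons (P.lf 6504 0 0) P.nil)) (P.cons (P.cons (P.lf 1167 0 0) P.nil) P.nil)))))) 3586)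
 EL.nil)
noncomputable def S140_154_364_512_48 : EL := (EL.cons 15 (TM.mk (P.cons (P.cons (P.lf 12289986 0 0) (P.cons (P.lf 23404672 0 0) (P.cons (P.lf 12707566 0 0) (P.cons (P.lf 968367 0 0) (P.cons (P.lf 0 446845 0) (P.cons (P.lf 0 33205 0) P.nil)))))) (P.cons (P.cons (P.lf 0 29831492 0) (P.cons (P.lf 0 24096512 0) (P.cons (P.lf 2491523 0 0) (P.cons (P.lf 1085587 0 0) (P.cons (P.lf 0 164519 0) P.nil))))) (P.cons (P.cons (P.lf 18204260 0 0) (P.cons (P.lf 0 4903933 0) (P.cons (P.lf 267118 0 0) (P.cons (P.lf 188846 0 0) P.nil)))) (P.cons (P.cons (P.lf 0 24951 0) (P.cons (P.lf 0 168538 0) (P.cons (P.lf 25734 0 0) P.nil))) (P.cons (P.cons (P.lf 0 117168 0) (P.cons (P.lf 23482 0 0) P.nil)) (P.cons (P.cons (P.lf 0 2417 0) P.nil) P.nil)))))) 76708)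
 EL.nil)
noncomputable def S140_154_364_512 : SL := (SL.cons S140_154_364_512_0 (SL.cons S140_154_364_512_1 (SL.cons S140_154_364_512_2 (SL.cons S140_154_364_512_3 (SL.cons S140_154_364_512_4 (SL.cons S140_154_364_512_5 (SL.cons S140_154_364_512_6 (SL.cons S140_154_364_512_7 (SL.cons S140_154_364_512_8 (SL.cons S140_154_364_512_9 (SL.cons S140_154_364_512_10 (SL.cons S140_154_364_512_11 (SL.cons S140_154_364_512_12 (SL.cons S140_154_364_512_13 (SL.cons S140_154_364_512_14 (SL.cons S140_154_364_512_15 (SL.cons S140_154_364_512_16 (SL.cons S140_154_364_512_17 (SL.cons S140_154_364_512_18 (SL.cons S140_154_364_512_19 (SL.cons S140_154_364_512_20 (SL.cons S140_154_364_512_21 (SL.cons S140_154_364_512_22 (SL.cons S140_154_364_512_23 (SL.cons S140_154_364_512_24 (SL.cons S140_154_364_512_25 (SL.cons S140_154_364_512_26 (SL.cons S140_154_364_512_27 (SL.cons S140_154_364_512_28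 (SL.cons S140_154_364_512_29 (SL.cons S140_154_364_512_30 (SL.cons S140_154_364_512_31 (SL.cons S140_154_364_512_32 (SL.cons S140_154_364_512_33 (SL.cons S140_154_364_512_34 (SL.cons S140_154_364_512_35 (SL.cons S140_154_364_512_36 (SL.cons S140_154_364_512_37 (SL.cons S140_154_364_512_38 (SL.cons S140_154_364_512_39 (SL.cons S140_154_364_512_40 (SL.cons S140_154_364_512_41 (SL.cons S140_154_364_512_42 (SL.cons S140_154_364_512_43 (SL.cons S140_154_364_512_44 (SL.cons S140_154_364_512_45 (SL.cons S140_154_364_512_46 (SL.cons S140_154_364_512_47 (SL.cons S140_154_364_512_48 SL.nil)))))))))))))))))))))))))))))))))))))))))))))))))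
theorem S140_147_216_364_ok : band (seq (shp 5 140 147 216 364) S140_147_216_364) (sok S140_147_216_364) = true := by decide +kernel

theorem S140_154_216_290_ok : band (seq (shp 5 140 154 216 290) S140_154_216_290) (sok S140_154_216_290) = true := by decide +kernel

theorem S140_154_216_364_ok : band (seq (shp 5 140 154 216 364) S140_154_216_364) (sok S140_154_216_364) = true := by decide +kernel

theorem S140_154_290_364_ok : band (seq (shp 5 140 154 290 364) S140_154_290_364) (sok S140_154_290_364) = true := by decide +kernel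

theorem S140_154_364_438_ok : band (seq (shp 5 140 154 364 438) S140_154_364_438) (sok S140_154_364_438) = true := by decide +kernel

theorem S140_154_364_512_ok : band (seq (shp 5 140 154 364 512) S140_154_364_512) (sok S140_154_364_512) = true := by decide +kernel

end Vale.Agent.P098.Ck
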