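import Vale.Agent.P098.CkDefs

namespace Vale.Agent.P098.Ck

noncomputable def S169_183_290_308_0 : EL := (EL.cons 0 (TM.mk (P.cons (P.lf 6113364111 0 0) (P.cons (P.lf 320722925 0 0) (P.cons (P.lf 0 970595 0) (P.cons (P.lf 0 761763 0) (P.cons (P.lf 0 15236 0) (P.cons (P.lf 715 0 0) P.nil)))))) 165)
 (EL.cons 1 (TM.mk (P.cons (P.lf 0 1754812605 0) (P.cons (P.lf 44029685 0 0) (P.cons (P.lf 10840057 0 0) (P.cons (P.lf 104334 0 0) (P.cons (P.lf 0 15399 0) (P.cons (P.lf 0 481 0) P.nil)))))) 128)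
 (EL.cons 5 (TM.mk (P.cons (P.lf 5127803834 0 0) (P.cons (P.lf 0 114034818 0) (P.cons (P.lf 345096 0 0) (P.cons (P.lf 270848 0 0) (P.cons (P.lf 5418 0 0) (P.cons (P.lf 0 254 0) P.nil)))))) 109)
 (EL.cons 9 (TM.mk (P.lf 6442450944 0 0) 2)
 EL.nil))))
noncomputable def S169_183_290_308_1 : EL := (EL.cons 0 (TM.mk (P.cons (P.cons (P.lf 0 1702433894 0) (P.cons (P.lf 5548060 0 0) (P.cons (P.lf 253149 0 0) (P.lf 0 3559 0)))) (P.cons (P.cons (P.lf 1004432671 0 0) (P.cons (P.lf 0 7068007 0) (P.cons (P.lf 0 322510 0) (P.lf 4539 0 0)))) (P.cons (P.cons (P.lf 55810843 0 0) (P.cons (P.lf 0 976512 0) (P.cons (P.lf 0 44551 0) (P.lf 620 0 0)))) (P.cons (P.cons (P.lf 0 6940515 0) (P.cons (P.lf 631 0 0) (P.cons (P.lf 33 0 0) P.nil))) (P.cons (P.cons (P.lf 0 513734 0) (P.cons (P.lf 5586 0 0) P.nil)) (P.cons (P.cons (P.lf 14816 0 0) P.nil) P.nil)))))) 6258)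
 (EL.cons 1 (TM.mk (P.cons (P.cons (P.lf 0 1118017633 0) (P.cons (P.lf 16513180 0 0) (P.cons (P.lf 753482 0 0) (P.lf 0 10603 0)))) (P.cons (P.cons (P.lf 0 303078931 0) (P.cons (P.lf 3998944 0 0) (P.cons (P.lf 182462 0 0) (P.lf 0 2565 0)))) (P.cons (P.cons (P.lf 41547091 0 0) (P.cons (P.lf 0 81280 0) (P.cons (P.lf 0 3711 0) (P.lf 51 0 0)))) (P.cons (P.cons (P.lf 3909723 0 0) (P.cons (P.lf 0 45690 0) (P.cons (P.lf 0 2072 0) P.nil))) (P.cons (P.cons (P.lf 0 180152 0) (P.cons (P.lf 0 1325 0) P.nil)) (P.cons (P.cons (P.lf 0 20880 0) P.nil) P.nil)))))) 3348)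
 (EL.cons 5 (TM.mk (P.cons (P.cons (P.lf 3094327577 0 0) (P.cons (P.lf 0 46307948 0) (P.cons (P.lf 0 2113004 0) (P.lf 29756 0 0)))) (P.cons (P.cons (P.lf 154769554 0 0) (P.cons (P.lf 0 3255516 0) (P.cons (P.lf 0 148552 0) (P.lf 2098 0 0)))) (P.cons (P.cons (P.lf 0 40082435 0) (P.cons (P.lf 239564 0 0) (P.cons (P.lf 10922 0 0) (P.lf 0 146 0)))) (P.cons (P.cons (P.lf 422444 0 0) (P.cons (P.lf 16044 0 0) (P.cons (P.lf 728 0 0) P.nil))) (P.cons (P.cons (P.lf 196528 0 0) (P.cons (P.lf 0 1192 0) P.nil)) (P.cons (P.cons (P.lf 0 663 0) P.nil) P.nil)))))) 3333)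
 (EL.cons 9 (TM.mk (P.cons (P.cons (P.lf 2196192121 0 0) (P.cons (P.lf 0 39119382 0) (P.cons (P.lf 0 1784994 0) (P.lf 25134 0 0)))) (P.cons (P.cons (P.lf 451677490 0 0) (P.cons (P.lf 0 5089926 0) (P.cons (P.lf 0 232248 0) (P.lf 3270 0 0)))) (P.cons (P.cons (P.lf 0 17857567 0) (P.cons (P.lf 0 94974 0) (P.cons (P.lf 0 4332 0) (P.lf 60 0 0)))) (P.cons (P.cons (P.lf 0 1804656 0) (P.cons (P.lf 14346 0 0) (P.cons (P.lf 648 0 0) P.nil))) (P.cons (P.cons (P.lf 12240 0 0) (P.cons (P.lf 696 0 0) P.nil)) (P.cons (P.cons (P.lf 4047 0 0) P.nil) P.nil)))))) 917)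
 (EL.cons 2 (TM.mk (P.cons (P.cons (P.lf 452253518 0 0) (P.cons (P.lf 44892691 0 0) (P.cons (P.lf 0 618030 0) (P.cons (P.lf 0 13958 0) (P.lf 146 0 0))))) (P.cons (P.cons (P.lf 8267222 0 0) (P.cons (P.lf 820639 0 0) (P.cons (P.lf 0 11295 0) (P.cons (P.lf 0 253 0) (P.lf 0 0 0))))) (P.cons (P.cons (P.lf 0 3770575 0) (P.cons (P.lf 0 374281 0) (P.cons (P.lf 5149 0 0) (P.cons (P.lf 115 0 0) P.nil)))) (P.cons (P.cons (P.lf 0 161457 0) (P.cons (P.lf 0 16025 0) (P.cons (P.lf 219 0 0) P.nil))) (P.cons (P.cons (P.lf 6356 0 0) (P.cons (P.lf 630 0 0) P.nil)) (P.cons (P.cons (P.lf 503 0 0) P.nil) P.nil)))))) 276)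
 (EL.cons 6 (TM.mk (P.cons (P.cons (P.lf 338813259 0 0) (P.cons (P.lf 33632109 0 0) (P.cons (P.lf 0 463008 0) (P.cons (P.lf 0 10458 0) (P.lf 108 0 0))))) (P.cons (P.cons (P.lf 44083890 0 0) (P.cons (P.lf 4375962 0 0) (P.cons (P.lf 0 60240 0) (P.cons (P.lf 0 1359 0) (P.lf 12 0 0))))) (P.cons (P.cons (P.lf 822570 0 0) (P.cons (P.lf 81651 0 0) (P.cons (P.lf 0 1122 0) (P.cons (P.lf 0 24 0) P.nil)))) (P.cons (P.cons (P.lf 0 124311 0) (P.cons (P.lf 0 12336 0) (P.cons (P.lf 168 0 0) P.nil))) (P.cons (P.cons (P.lf 0 6048 0) (P.cons (P.lf 0 600 0) P.nil)) (P.cons (P.cons (P.lf 93 0 0) P.nil) P.nil)))))) 192)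
 EL.nil))))))
noncomputable def S169_183_290_308_2 : EL := (EL.cons 0 (TM.mk (P.cons (P.cons (P.lf 0 1871124327 0) (P.cons (P.lf 49766108 0 0) (P.cons (P.lf 1978008 0 0) (P.cons (P.lf 0 58681 0) (P.cons (P.lf 0 225 0) (P.cons (P.lf 8 0 0) P.nil)))))) (P.cons (P.cons (P.lf 116607419 0 0) (P.cons (P.lf 0 3723141 0) (P.cons (P.lf 0 163303 0) (P.cons (P.lf 3002 0 0) (P.cons (P.lf 10 0 0) P.nil))))) (P.cons (P.cons (P.lf 154615757 0 0) (P.cons (P.lf 0 2927590 0) (P.cons (P.lf 0 118667 0) (P.cons (P.lf 3227 0 0) P.nil)))) (P.cons (P.cons (P.lf 1187434 0 0) (P.cons (P.lf 0 162274 0) (P.cons (P.lf 0 5823 0) P.nil))) (P.cons (P.cons (P.lf 0 1789774 0) (P.cons (P.lf 24000 0 0) P.nil)) (P.cons (P.cons (P.lf 0 54670 0) P.nil) P.nil)))))) 23048)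
 (EL.cons 1 (TM.mk (P.cons (P.cons (P.lf 0 558326362 0) (P.cons (P.lf 17571220 0 0) (P.cons (P.lf 665922 0 0) (P.cons (P.lf 0 23680 0) (P.cons (P.lf 0 105 0) (P.cons (P.lf 2 0 0) P.nil)))))) (P.cons (P.cons (P.lf 0 284639833 0) (P.cons (P.lf 8232105 0 0) (P.cons (P.lf 316171 0 0) (P.cons (P.lf 0 10706 0) (P.cons (P.lf 0 41 0) P.nil))))) (P.cons (P.cons (P.lf 0 6028274 0) (P.cons (P.lf 374189 0 0) (P.cons (P.lf 11841 0 0) (P.cons (P.lf 0 713 0) P.nil)))) (P.cons (P.cons (P.lf 9117168 0 0) (P.cons (P.lf 0 151103 0) (P.cons (P.lf 0 6388 0) P.nil))) (P.cons (P.cons (P.lf 296970 0 0) (P.cons (P.lf 0 13575 0) P.nil)) (P.cons (P.cons (P.lf 0 74959 0) P.nil) P.nil)))))) 12129)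
 (EL.cons 5 (TM.mk (P.cons (P.cons (P.lf 1513779574 0 0) (P.cons (P.lf 0 47921886 0) (P.cons (P.lf 0 1813337 0) (P.cons (P.lf 64854 0 0) (P.cons (P.lf 295 0 0) (P.cons (P.lf 0 11 0) P.nil)))))) (P.cons (P.cons (P.lf 307547526 0 0) (P.cons (P.lf 0 8825817 0) (P.cons (P.lf 0 334995 0) (P.cons (P.lf 11852 0 0) (P.cons (P.lf 48 0 0) P.nil))))) (P.cons (P.cons (P.lf 0 32883729 0) (P.cons (P.lf 404440 0 0) (P.cons (P.lf 19006 0 0) (P.cons (P.lf 0 197 0) P.nil)))) (P.cons (P.cons (P.lf 0 4654488 0) (P.cons (P.lf 110504 0 0) (P.cons (P.lf 4445 0 0) P.nil))) (P.cons (P.cons (P.lf 415129 0 0) (P.cons (P.lf 0 2043 0) P.nil)) (P.cons (P.cons (P.lf 35855 0 0) P.nil) P.nil)))))) 10189)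
 (EL.cons 9 (TM.mk (P.cons (P.cons (P.lf 748668460 0 0) (P.cons (P.lf 0 26671116 0) (P.cons (P.lf 0 979449 0) (P.cons (P.lf 38812 0 0) (P.cons (P.lf 189 0 0) (P.cons (P.lf 0 13 0) P.nil)))))) (P.cons (P.cons (P.lf 307948186 0 0) (P.cons (P.lf 0 8955535 0) (P.cons (P.lf 0 346819 0) (P.cons (P.lf 11394 0 0) (P.cons (P.lf 48 0 0) P.nil))))) (P.cons (P.cons (P.lf 19491844 0 0) (P.cons (P.lf 0 561589 0) (P.cons (P.lf 0 20448 0) (P.cons (P.lf 831 0 0) P.nil)))) (P.cons (P.cons (P.lf 0 3734364 0) (P.cons (P.lf 46596 0 0) (P.cons (P.lf 2097 0 0) P.nil))) (P.cons (P.cons (P.lf 0 195202 0) (P.cons (P.lf 5715 0 0) P.nil)) (P.cons (P.cons (P.lf 14479 0 0) P.nil) P.nil)))))) 2695)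
 (EL.cons 2 (TM.mk (P.cons (P.cons (P.lf 308340916 0 0) (P.cons (P.lf 25115006 0 0) (P.cons (P.lf 0 1217160 0) (P.cons (P.lf 0 23355 0) (P.cons (P.lf 961 0 0) (P.cons (P.lf 0 0 0) P.nil)))))) (P.cons (P.cons (P.lf 69051093 0 0) (P.cons (P.lf 6039298 0 0) (P.cons (P.lf 0 212450 0) (P.cons (P.lf 0 4185 0) (P.cons (P.lf 146 0 0) P.nil))))) (P.cons (P.cons (P.lf 0 3918673 0) (P.cons (P.lf 0 369590 0) (P.cons (P.lf 8161 0 0) (P.cons (P.lf 168 0 0) P.nil)))) (P.cons (P.cons (P.lf 0 937985 0) (P.cons (P.lf 0 83418 0) (P.cons (P.lf 2683 0 0) P.nil))) (P.cons (P.cons (P.lf 0 315 0) (P.cons (P.lf 388 0 0) P.nil)) (P.cons (P.cons (P.lf 4837 0 0) P.nil) P.nil)))))) 1512)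
 (EL.cons 6 (TM.mk (P.cons (P.cons (P.lf 230998734 0 0) (P.cons (P.lf 18815322 0 0) (P.cons (P.lf 0 911856 0) (P.cons (P.lf 0 17496 0) (P.cons (P.lf 720 0 0) (P.cons (P.lf 0 0 0) P.nil)))))) (P.cons (P.cons (P.lf 77563962 0 0) (P.cons (P.lf 6628608 0 0) (P.cons (P.lf 0 261132 0) (P.cons (P.lf 0 5088 0) (P.cons (P.lf 186 0 0) P.nil))))) (P.cons (P.cons (P.lf 4863936 0 0) (P.cons (P.lf 393174 0 0) (P.cons (P.lf 0 19632 0) (P.cons (P.lf 0 372 0) P.nil)))) (P.cons (P.cons (P.lf 0 403614 0) (P.cons (P.lf 0 39642 0) (P.cons (P.lf 606 0 0) P.nil))) (P.cons (P.cons (P.lf 0 49524 0) (P.cons (P.lf 0 4398 0) P.nil)) (P.cons (P.cons (P.lf 30 0 0) P.nil) P.nil)))))) 1092)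
 EL.nil))))))
noncomputable def S169_183_290_308_3 : EL := (EL.cons 0 (TM.mk (P.cons (P.lf 2342352752 0 0) (P.cons (P.lf 0 320722925 0) (P.cons (P.lf 970595 0 0) (P.cons (P.lf 761763 0 0) (P.cons (P.lf 15236 0 0) (P.cons (P.lf 0 715 0) P.nil)))))) 165)
 (EL.cons 1 (TM.mk (P.cons (P.lf 1754812605 0 0) (P.cons (P.lf 0 44029685 0) (P.cons (P.lf 0 10840057 0) (P.cons (P.lf 0 104334 0) (P.cons (P.lf 15399 0 0) (P.cons (P.lf 481 0 0) P.nil)))))) 128)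
 (EL.cons 5 (TM.mk (P.cons (P.lf 1314647110 0 0) (P.cons (P.lf 114034818 0 0) (P.cons (P.lf 0 345096 0) (P.cons (P.lf 0 270848 0) (P.cons (P.lf 0 5418 0) (P.cons (P.lf 254 0 0) P.nil)))))) 102)
 EL.nil)))
noncomputable def S169_183_290_308_4 : EL := (EL.cons 0 (TM.mk (P.cons (P.cons (P.lf 798493725 0 0) (P.cons (P.lf 0 14223063 0) (P.cons (P.lf 0 648989 0) (P.lf 9137 0 0)))) (P.cons (P.cons (P.lf 54888869 0 0) (P.cons (P.lf 96869 0 0) (P.cons (P.lf 4420 0 0) (P.lf 0 61 0)))) (P.cons (P.cons (P.lf 0 28647548 0) (P.cons (P.lf 212966 0 0) (P.cons (P.lf 9717 0 0) (P.lf 0 137 0)))) (P.cons (P.cons (P.lf 560587 0 0) (P.cons (P.lf 4550 0 0) (P.cons (P.lf 203 0 0) P.nil))) (P.cons (P.cons (P.lf 150201 0 0) (P.cons (P.lf 0 1168 0) P.nil)) (P.cons (P.cons (P.lf 0 696 0) P.nil) P.nil)))))) 1147)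
 (EL.cons 1 (TM.mk (P.cons (P.cons (P.lf 598204882 0 0) (P.cons (P.lf 0 10655445 0) (P.cons (P.lf 0 486200 0) (P.lf 6845 0 0)))) (P.cons (P.cons (P.lf 108019711 0 0) (P.cons (P.lf 0 1119052 0) (P.cons (P.lf 0 51060 0) (P.lf 718 0 0)))) (P.cons (P.cons (P.lf 0 11646303 0) (P.cons (P.lf 74737 0 0) (P.cons (P.lf 3408 0 0) (P.lf 0 46 0)))) (P.cons (P.cons (P.lf 0 1165070 0) (P.cons (P.lf 13753 0 0) (P.cons (P.lf 624 0 0) P.nil))) (P.cons (P.cons (P.lf 43648 0 0) (P.cons (P.lf 240 0 0) P.nil)) (P.cons (P.cons (P.lf 5587 0 0) P.nil) P.nil)))))) 767)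
 (EL.cons 5 (TM.mk (P.cons (P.cons (P.lf 448155158 0 0) (P.cons (P.lf 0 7982704 0) (P.cons (P.lf 0 364246 0) (P.lf 5128 0 0)))) (P.cons (P.cons (P.lf 131043120 0 0) (P.cons (P.lf 0 1731084 0) (P.cons (P.lf 0 78986 0) (P.lf 1112 0 0)))) (P.cons (P.cons (P.lf 4233274 0 0) (P.cons (P.lf 0 107378 0) (P.cons (P.lf 0 4898 0) (P.lf 68 0 0)))) (P.cons (P.cons (P.lf 0 800870 0) (P.cons (P.lf 3162 0 0) (P.cons (P.lf 142 0 0) P.nil))) (P.cons (P.cons (P.lf 0 49324 0) (P.cons (P.lf 646 0 0) P.nil)) (P.cons (P.cons (P.lf 1596 0 0) P.nil) P.nil)))))) 544)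
 EL.nil)))
noncomputable def S169_183_290_308_5 : EL := (EL.cons 0 (TM.mk (P.cons (P.cons (P.lf 272201626 0 0) (P.cons (P.lf 0 9697109 0) (P.cons (P.lf 0 356108 0) (P.cons (P.lf 14109 0 0) (P.cons (P.lf 68 0 0) (P.cons (P.lf 0 3 0) P.nil)))))) (P.cons (P.cons (P.lf 74693334 0 0) (P.cons (P.lf 0 1928300 0) (P.cons (P.lf 0 77336 0) (P.cons (P.lf 2209 0 0) (P.cons (P.lf 7 0 0) P.nil))))) (P.cons (P.cons (P.lf 0 8130851 0) (P.cons (P.lf 237628 0 0) (P.cons (P.lf 9682 0 0) (P.cons (P.lf 0 258 0) P.nil)))) (P.cons (P.cons (P.lf 0 2193182 0) (P.cons (P.lf 40394 0 0) (P.cons (P.lf 1611 0 0) P.nil))) (P.cons (P.cons (P.lf 156053 0 0) (P.cons (P.lf 0 1446 0) P.nil)) (P.cons (P.cons (P.lf 17368 0 0) P.nil) P.nil)))))) 3103)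
 (EL.cons 1 (TM.mk (P.cons (P.cons (P.lf 203924385 0 0) (P.cons (P.lf 0 7264751 0) (P.cons (P.lf 0 266784 0) (P.cons (P.lf 10571 0 0) (P.cons (P.lf 50 0 0) (P.cons (P.lf 0 1 0) P.nil)))))) (P.cons (P.cons (P.lf 78763147 0 0) (P.cons (P.lf 0 2257053 0) (P.cons (P.lf 0 87772 0) (P.cons (P.lf 2836 0 0) (P.cons (P.lf 11 0 0) P.nil))))) (P.cons (P.cons (P.lf 1944920 0 0) (P.cons (P.lf 0 46884 0) (P.cons (P.lf 0 1550 0) (P.cons (P.lf 82 0 0) P.nil)))) (P.cons (P.cons (P.lf 0 1680665 0) (P.cons (P.lf 32028 0 0) (P.cons (P.lf 1308 0 0) P.nil))) (P.cons (P.cons (P.lf 0 63641 0) (P.cons (P.lf 2263 0 0) P.nil)) (P.cons (P.cons (P.lf 12037 0 0) P.nil) P.nil)))))) 2270)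
 (EL.cons 5 (TM.mk (P.cons (P.cons (P.lf 152773350 0 0) (P.cons (P.lf 0 5442510 0) (P.cons (P.lf 0 199864 0) (P.cons (P.lf 7918 0 0) (P.cons (P.lf 38 0 0) (P.cons (P.lf 0 2 0) P.nil)))))) (P.cons (P.cons (P.lf 76091764 0 0) (P.cons (P.lf 0 2299558 0) (P.cons (P.lf 0 88108 0) (P.cons (P.lf 3010 0 0) (P.cons (P.lf 12 0 0) P.nil))))) (P.cons (P.cons (P.lf 9388250 0 0) (P.cons (P.lf 0 271686 0) (P.cons (P.lf 0 10258 0) (P.cons (P.lf 368 0 0) P.nil)))) (P.cons (P.cons (P.lf 0 464988 0) (P.cons (P.lf 1168 0 0) (P.cons (P.lf 124 0 0) P.nil))) (P.cons (P.cons (P.lf 0 120552 0) (P.cons (P.lf 2418 0 0) P.nil)) (P.cons (P.cons (P.lf 0 1348 0) P.nil) P.nil)))))) 1374)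
 EL.nil)))
noncomputable def S169_183_290_308_6 : EL := (EL.cons 12 (TM.mk (P.lf 8589934592 0 0) 0)
 (EL.cons 3 (TM.mk (P.cons (P.lf 0 2242802763 0) (P.cons (P.lf 153546101 0 0) (P.cons (P.lf 4791341 0 0) (P.cons (P.lf 0 36671 0) (P.cons (P.lf 0 4687 0) (P.cons (P.lf 0 56 0) P.nil)))))) 59)
 (EL.cons 7 (TM.mk (P.cons (P.lf 0 1680233071 0) (P.cons (P.lf 0 72873196 0) (P.cons (P.lf 1800820 0 0) (P.cons (P.lf 94981 0 0) (P.cons (P.lf 308 0 0) (P.cons (P.lf 0 74 0) P.nil)))))) 48)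
 EL.nil)))
noncomputable def S169_183_290_308_7 : EL := (EL.cons 12 (TM.mk (P.cons (P.cons (P.lf 2928256162 0 0) (P.cons (P.lf 0 52159176 0) (P.cons (P.lf 0 2379992 0) (P.lf 33512 0 0)))) (P.cons (P.cons (P.lf 602236654 0 0) (P.cons (P.lf 0 6786568 0) (P.cons (P.lf 0 309664 0) (P.lf 4360 0 0)))) (P.cons (P.cons (P.lf 0 23810090 0) (P.cons (P.lf 0 126632 0) (P.cons (P.lf 0 5776 0) (P.lf 80 0 0)))) (P.cons (P.cons (P.lf 0 2406208 0) (P.cons (P.lf 19128 0 0) (P.cons (P.lf 864 0 0) P.nil))) (P.cons (P.cons (P.lf 16320 0 0) (P.cons (P.lf 928 0 0) P.nil)) (P.cons (P.cons (P.lf 5396 0 0) P.nil) P.nil)))))) 1198)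
 (EL.cons 3 (TM.mk (P.cons (P.cons (P.lf 2860960791 0 0) (P.cons (P.lf 0 27237166 0) (P.cons (P.lf 0 1242814 0) (P.lf 17498 0 0)))) (P.cons (P.cons (P.lf 0 303358643 0) (P.cons (P.lf 0 1679194 0) (P.cons (P.lf 0 76618 0) (P.lf 1078 0 0)))) (P.cons (P.cons (P.lf 0 35677299 0) (P.cons (P.lf 234680 0 0) (P.cons (P.lf 10708 0 0) (P.lf 0 150 0)))) (P.cons (P.cons (P.lf 166698 0 0) (P.cons (P.lf 21638 0 0) (P.cons (P.lf 982 0 0) P.nil))) (P.cons (P.cons (P.lf 153822 0 0) (P.cons (P.lf 0 172 0) P.nil)) (P.cons (P.cons (P.lf 4265 0 0) P.nil) P.nil)))))) 2678)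
 (EL.cons 7 (TM.mk (P.cons (P.cons (P.lf 0 2293457393 0) (P.cons (P.lf 29592792 0 0) (P.cons (P.lf 1350304 0 0) (P.lf 0 19020 0)))) (P.cons (P.cons (P.lf 143974432 0 0) (P.cons (P.lf 796949 0 0) (P.cons (P.lf 36365 0 0) (P.lf 0 513 0)))) (P.cons (P.cons (P.lf 8881979 0 0) (P.cons (P.lf 0 155940 0) (P.cons (P.lf 0 7111 0) (P.lf 96 0 0)))) (P.cons (P.cons (P.lf 0 1159825 0) (P.cons (P.lf 0 967 0) (P.cons (P.lf 0 46 0) P.nil))) (P.cons (P.cons (P.lf 0 41919 0) (P.cons (P.lf 690 0 0) P.nil)) (P.cons (P.cons (P.lf 3150 0 0) P.nil) P.nil)))))) 2011)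
 (EL.cons 10 (TM.mk (P.cons (P.cons (P.lf 0 866065491 0) (P.cons (P.lf 0 85969509 0) (P.cons (P.lf 1183530 0 0) (P.cons (P.lf 26733 0 0) (P.lf 0 282 0))))) (P.cons (P.cons (P.lf 0 75124053 0) (P.cons (P.lf 0 7457145 0) (P.cons (P.lf 102660 0 0) (P.cons (P.lf 2319 0 0) (P.lf 0 24 0))))) (P.cons (P.cons (P.lf 227340 0 0) (P.cons (P.lf 22566 0 0) (P.cons (P.lf 0 309 0) (P.cons (P.lf 0 6 0) P.nil)))) (P.cons (P.cons (P.lf 178428 0 0) (P.cons (P.lf 17709 0 0) (P.cons (P.lf 0 243 0) P.nil))) (P.cons (P.cons (P.lf 3567 0 0) (P.cons (P.lf 354 0 0) P.nil)) (P.cons (P.cons (P.lf 0 165 0) P.nil) P.nil)))))) 204)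
 EL.nil))))
noncomputable def S169_183_290_308_8 : EL := (EL.cons 12 (TM.mk (P.cons (P.cons (P.lf 998224614 0 0) (P.cons (P.lf 0 35561488 0) (P.cons (P.lf 0 1305932 0) (P.cons (P.lf 51750 0 0) (P.cons (P.lf 252 0 0) (P.cons (P.lf 0 18 0) P.nil)))))) (P.cons (P.cons (P.lf 410597582 0 0) (P.cons (P.lf 0 11940714 0) (P.cons (P.lf 0 462426 0) (P.cons (P.lf 15192 0 0) (P.cons (P.lf 64 0 0) P.nil))))) (P.cons (P.cons (P.lf 25989126 0 0) (P.cons (P.lf 0 748786 0) (P.cons (P.lf 0 27264 0) (P.cons (P.lf 1108 0 0) P.nil)))) (P.cons (P.cons (P.lf 0 4979152 0) (P.cons (P.lf 62128 0 0) (P.cons (P.lf 2796 0 0) P.nil))) (P.cons (P.cons (P.lf 0 260270 0) (P.cons (P.lf 7620 0 0) P.nil)) (P.cons (P.cons (P.lf 19306 0 0) P.nil) P.nil)))))) 3564)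
 (EL.cons 3 (TM.mk (P.cons (P.cons (P.lf 2211201127 0 0) (P.cons (P.lf 0 62599181 0) (P.cons (P.lf 0 2442888 0) (P.cons (P.lf 77947 0 0) (P.cons (P.lf 325 0 0) (P.cons (P.lf 0 20 0) P.nil)))))) (P.cons (P.cons (P.lf 283697524 0 0) (P.cons (P.lf 0 8282635 0) (P.cons (P.lf 0 298636 0) (P.cons (P.lf 12553 0 0) (P.cons (P.lf 60 0 0) P.nil))))) (P.cons (P.cons (P.lf 0 83831998 0) (P.cons (P.lf 941579 0 0) (P.cons (P.lf 43719 0 0) (P.cons (P.lf 0 536 0) P.nil)))) (P.cons (P.cons (P.lf 0 6799433 0) (P.cons (P.lf 184374 0 0) (P.cons (P.lf 7519 0 0) P.nil))) (P.cons (P.cons (P.lf 515702 0 0) (P.cons (P.lf 1864 0 0) P.nil)) (P.cons (P.cons (P.lf 58793 0 0) P.nil) P.nil)))))) 10257)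
 (EL.cons 7 (TM.mk (P.cons (P.cons (P.lf 0 1368393589 0) (P.cons (P.lf 41072330 0 0) (P.cons (P.lf 1576676 0 0) (P.cons (P.lf 0 53532 0) (P.cons (P.lf 0 235 0) (P.cons (P.lf 15 0 0) P.nil)))))) (P.cons (P.cons (P.lf 0 134643249 0) (P.cons (P.lf 3930949 0 0) (P.cons (P.lf 141731 0 0) (P.cons (P.lf 0 5960 0) (P.cons (P.lf 0 26 0) P.nil))))) (P.cons (P.cons (P.lf 47315534 0 0) (P.cons (P.lf 0 666674 0) (P.cons (P.lf 0 28668 0) (P.cons (P.lf 584 0 0) P.nil)))) (P.cons (P.cons (P.lf 90820 0 0) (P.cons (P.lf 0 49232 0) (P.cons (P.lf 0 1842 0) P.nil))) (P.cons (P.cons (P.lf 0 432997 0) (P.cons (P.lf 5397 0 0) P.nil)) (P.cons (P.cons (P.lf 0 2294 0) P.nil) P.nil)))))) 7133)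
 (EL.cons 10 (TM.mk (P.cons (P.cons (P.lf 0 590472852 0) (P.cons (P.lf 0 48095238 0) (P.cons (P.lf 2330868 0 0) (P.cons (P.lf 44730 0 0) (P.cons (P.lf 0 1842 0) (P.cons (P.lf 0 0 0) P.nil)))))) (P.cons (P.cons (P.lf 0 172657620 0) (P.cons (P.lf 0 14857944 0) (P.cons (P.lf 566418 0 0) (P.cons (P.lf 11076 0 0) (P.cons (P.lf 0 408 0) P.nil))))) (P.cons (P.cons (P.lf 0 5577606 0) (P.cons (P.lf 0 412176 0) (P.cons (P.lf 28122 0 0) (P.cons (P.lf 528 0 0) P.nil)))) (P.cons (P.cons (P.lf 1055196 0 0) (P.cons (P.lf 100572 0 0) (P.cons (P.lf 0 2040 0) P.nil))) (P.cons (P.cons (P.lf 64986 0 0) (P.cons (P.lf 5592 0 0) P.nil)) (P.cons (P.cons (P.lf 0 2100 0) P.nil) P.nil)))))) 1524)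
 EL.nil))))
noncomputable def S169_183_290_308_9 : EL := (EL.cons 3 (TM.mk (P.cons (P.lf 0 2242802763 0) (P.cons (P.lf 153546101 0 0) (P.cons (P.lf 4791341 0 0) (P.cons (P.lf 0 36671 0) (P.cons (P.lf 0 4687 0) (P.cons (P.lf 0 56 0) P.nil)))))) 59)
 (EL.cons 7 (TM.mk (P.cons (P.lf 0 1680233071 0) (P.cons (P.lf 0 72873196 0) (P.cons (P.lf 1800820 0 0) (P.cons (P.lf 94981 0 0) (P.cons (P.lf 308 0 0) (P.cons (P.lf 0 74 0) P.nil)))))) 48)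
 EL.nil))
noncomputable def S169_183_290_308_10 : EL := (EL.cons 3 (TM.mk (P.cons (P.cons (P.lf 0 764557743 0) (P.cons (P.lf 13618583 0 0) (P.cons (P.lf 621407 0 0) (P.lf 0 8749 0)))) (P.cons (P.cons (P.lf 0 104899019 0) (P.cons (P.lf 839597 0 0) (P.cons (P.lf 38309 0 0) (P.lf 0 539 0)))) (P.cons (P.cons (P.lf 18615123 0 0) (P.cons (P.lf 0 117340 0) (P.cons (P.lf 0 5354 0) (P.lf 75 0 0)))) (P.cons (P.cons (P.lf 526062 0 0) (P.cons (P.lf 0 10819 0) (P.cons (P.lf 0 491 0) P.nil))) (P.cons (P.cons (P.lf 0 64722 0) (P.cons (P.lf 86 0 0) P.nil)) (P.cons (P.cons (P.lf 0 2704 0) P.nil) P.nil)))))) 589)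
 (EL.cons 7 (TM.mk (P.cons (P.cons (P.lf 0 572781176 0) (P.cons (P.lf 10202589 0 0) (P.cons (P.lf 465538 0 0) (P.lf 0 6555 0)))) (P.cons (P.cons (P.lf 0 142642451 0) (P.cons (P.lf 1769981 0 0) (P.cons (P.lf 80762 0 0) (P.lf 0 1137 0)))) (P.cons (P.cons (P.lf 162149 0 0) (P.cons (P.lf 71409 0 0) (P.cons (P.lf 3257 0 0) (P.lf 0 45 0)))) (P.cons (P.cons (P.lf 831293 0 0) (P.cons (P.lf 0 4666 0) (P.cons (P.lf 0 211 0) P.nil))) (P.cons (P.cons (P.lf 18993 0 0) (P.cons (P.lf 0 447 0) P.nil)) (P.cons (P.cons (P.lf 0 1965 0) P.nil) P.nil)))))) 396)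
 EL.nil))
noncomputable def S169_183_290_308_11 : EL := (EL.cons 3 (TM.mk (P.cons (P.cons (P.lf 0 260633057 0) (P.cons (P.lf 9284983 0 0) (P.cons (P.lf 340974 0 0) (P.cons (P.lf 0 13511 0) (P.cons (P.lf 0 65 0) (P.cons (P.lf 4 0 0) P.nil)))))) (P.cons (P.cons (P.lf 0 89362250 0) (P.cons (P.lf 2482013 0 0) (P.cons (P.lf 97394 0 0) (P.cons (P.lf 0 3041 0) (P.cons (P.lf 0 12 0) P.nil))))) (P.cons (P.cons (P.lf 1110602 0 0) (P.cons (P.lf 0 37771 0) (P.cons (P.lf 0 1875 0) (P.cons (P.lf 10 0 0) P.nil)))) (P.cons (P.cons (P.lf 1989361 0 0) (P.cons (P.lf 0 36114 0) (P.cons (P.lf 0 1469 0) P.nil))) (P.cons (P.cons (P.lf 0 8848 0) (P.cons (P.lf 0 1226 0) P.nil)) (P.cons (P.cons (P.lf 0 12811 0) P.nil) P.nil)))))) 1877)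
 (EL.cons 7 (TM.mk (P.cons (P.cons (P.lf 0 195257599 0) (P.cons (P.lf 6956000 0 0) (P.cons (P.lf 255446 0 0) (P.cons (P.lf 0 10122 0) (P.cons (P.lf 0 49 0) (P.cons (P.lf 3 0 0) P.nil)))))) (P.cons (P.cons (P.lf 0 88783383 0) (P.cons (P.lf 2637349 0 0) (P.cons (P.lf 101531 0 0) (P.cons (P.lf 0 3410 0) (P.cons (P.lf 0 14 0) P.nil))))) (P.cons (P.cons (P.lf 0 8357656 0) (P.cons (P.lf 240310 0 0) (P.cons (P.lf 8982 0 0) (P.cons (P.lf 0 334 0) P.nil)))) (P.cons (P.cons (P.lf 850582 0 0) (P.cons (P.lf 0 8696 0) (P.cons (P.lf 0 426 0) P.nil))) (P.cons (P.cons (P.lf 103175 0 0) (P.cons (P.lf 0 2307 0) P.nil)) (P.cons (P.cons (P.lf 0 2318 0) P.nil) P.nil)))))) 1183)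
 EL.nil))
noncomputable def S169_183_290_308_12 : EL := (EL.cons 4 (TM.mk (P.cons (P.lf 2242802763 0 0) (P.cons (P.lf 0 153546101 0) (P.cons (P.lf 0 4791341 0) (P.cons (P.lf 36671 0 0) (P.cons (P.lf 4687 0 0) (P.cons (P.lf 56 0 0) P.nil)))))) 59)
 (EL.cons 8 (TM.mk (P.cons (P.lf 1680233071 0 0) (P.cons (P.lf 72873196 0 0) (P.cons (P.lf 0 1800820 0) (P.cons (P.lf 0 94981 0) (P.cons (P.lf 0 308 0) (P.cons (P.lf 74 0 0) P.nil)))))) 48)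
 EL.nil))
noncomputable def S169_183_290_308_13 : EL := (EL.cons 4 (TM.mk (P.cons (P.cons (P.lf 764557743 0 0) (P.cons (P.lf 0 13618583 0) (P.cons (P.lf 0 621407 0) (P.lf 8749 0 0)))) (P.cons (P.cons (P.lf 104899019 0 0) (P.cons (P.lf 0 839597 0) (P.cons (P.lf 0 38309 0) (P.lf 539 0 0)))) (P.cons (P.cons (P.lf 0 18615123 0) (P.cons (P.lf 117340 0 0) (P.cons (P.lf 5354 0 0) (P.lf 0 75 0)))) (P.cons (P.cons (P.lf 0 526062 0) (P.cons (P.lf 10819 0 0) (P.cons (P.lf 491 0 0) P.nil))) (P.cons (P.cons (P.lf 64722 0 0) (P.cons (P.lf 0 86 0) P.nil)) (P.cons (P.cons (P.lf 2704 0 0) P.nil) P.nil)))))) 589)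
 (EL.cons 8 (TM.mk (P.cons (P.cons (P.lf 572781176 0 0) (P.cons (P.lf 0 10202589 0) (P.cons (P.lf 0 465538 0) (P.lf 6555 0 0)))) (P.cons (P.cons (P.lf 142642451 0 0) (P.cons (P.lf 0 1769981 0) (P.cons (P.lf 0 80762 0) (P.lf 1137 0 0)))) (P.cons (P.cons (P.lf 0 162149 0) (P.cons (P.lf 0 71409 0) (P.cons (P.lf 0 3257 0) (P.lf 45 0 0)))) (P.cons (P.cons (P.lf 0 831293 0) (P.cons (P.lf 4666 0 0) (P.cons (P.lf 211 0 0) P.nil))) (P.cons (P.cons (P.lf 0 18993 0) (P.cons (P.lf 447 0 0) P.nil)) (P.cons (P.cons (P.lf 1965 0 0) P.nil) P.nil)))))) 396)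
 EL.nil))
noncomputable def S169_183_290_308_14 : EL := (EL.cons 4 (TM.mk (P.cons (P.cons (P.lf 260633057 0 0) (P.cons (P.lf 0 9284983 0) (P.cons (P.lf 0 340974 0) (P.cons (P.lf 13511 0 0) (P.cons (P.lf 65 0 0) (P.cons (P.lf 0 4 0) P.nil)))))) (P.cons (P.cons (P.lf 89362250 0 0) (P.cons (P.lf 0 2482013 0) (P.cons (P.lf 0 97394 0) (P.cons (P.lf 3041 0 0) (P.cons (P.lf 12 0 0) P.nil))))) (P.cons (P.cons (P.lf 0 1110602 0) (P.cons (P.lf 37771 0 0) (P.cons (P.lf 1875 0 0) (P.cons (P.lf 0 10 0) P.nil)))) (P.cons (P.cons (P.lf 0 1989361 0) (P.cons (P.lf 36114 0 0) (P.cons (P.lf 1469 0 0) P.nil))) (P.cons (P.cons (P.lf 8848 0 0) (P.cons (P.lf 1226 0 0) P.nil)) (P.cons (P.cons (P.lf 12811 0 0) P.nil) P.nil)))))) 1877)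
 (EL.cons 8 (TM.mk (P.cons (P.cons (P.lf 195257599 0 0) (P.cons (P.lf 0 6956000 0) (P.cons (P.lf 0 255446 0) (P.cons (P.lf 10122 0 0) (P.cons (P.lf 49 0 0) (P.cons (P.lf 0 3 0) P.nil)))))) (P.cons (P.cons (P.lf 88783383 0 0) (P.cons (P.lf 0 2637349 0) (P.cons (P.lf 0 101531 0) (P.cons (P.lf 3410 0 0) (P.cons (P.lf 14 0 0) P.nil))))) (P.cons (P.cons (P.lf 8357656 0 0) (P.cons (P.lf 0 240310 0) (P.cons (P.lf 0 8982 0) (P.cons (P.lf 334 0 0) P.nil)))) (P.cons (P.cons (P.lf 0 850582 0) (P.cons (P.lf 8696 0 0) (P.cons (P.lf 426 0 0) P.nil))) (P.cons (P.cons (P.lf 0 103175 0) (P.cons (P.lf 2307 0 0) P.nil)) (P.cons (P.cons (P.lf 2318 0 0) P.nil) P.nil)))))) 1183)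
 EL.nil))
noncomputable def S169_183_290_308_15 : EL := (EL.cons 4 (TM.mk (P.cons (P.lf 0 1249254801 0) (P.cons (P.lf 171052227 0 0) (P.cons (P.lf 0 517650 0) (P.cons (P.lf 0 406274 0) (P.cons (P.lf 0 8126 0) (P.cons (P.lf 381 0 0) P.nil)))))) 91)
 (EL.cons 8 (TM.mk (P.cons (P.lf 0 935900056 0) (P.cons (P.lf 23482499 0 0) (P.cons (P.lf 5781364 0 0) (P.cons (P.lf 55645 0 0) (P.cons (P.lf 0 8213 0) (P.cons (P.lf 0 257 0) P.nil)))))) 65)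
 EL.nil))
noncomputable def S169_183_290_308_16 : EL := (EL.cons 4 (TM.mk (P.cons (P.cons (P.lf 0 425863320 0) (P.cons (P.lf 7585634 0 0) (P.cons (P.lf 346127 0 0) (P.lf 0 4873 0)))) (P.cons (P.cons (P.lf 0 29274063 0) (P.cons (P.lf 0 51663 0) (P.cons (P.lf 0 2357 0) (P.lf 32 0 0)))) (P.cons (P.cons (P.lf 15278692 0 0) (P.cons (P.lf 0 113581 0) (P.cons (P.lf 0 5182 0) (P.lf 73 0 0)))) (P.cons (P.cons (P.lf 0 298980 0) (P.cons (P.lf 0 2427 0) (P.cons (P.lf 0 108 0) P.nil))) (P.cons (P.cons (P.lf 0 80107 0) (P.cons (P.lf 623 0 0) P.nil)) (P.cons (P.cons (P.lf 371 0 0) P.nil) P.nil)))))) 620)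
 (EL.cons 8 (TM.mk (P.cons (P.cons (P.lf 0 319042604 0) (P.cons (P.lf 5682904 0 0) (P.cons (P.lf 259307 0 0) (P.lf 0 3651 0)))) (P.cons (P.cons (P.lf 0 57610513 0) (P.cons (P.lf 596828 0 0) (P.cons (P.lf 27232 0 0) (P.lf 0 383 0)))) (P.cons (P.cons (P.lf 6211362 0 0) (P.cons (P.lf 0 39860 0) (P.cons (P.lf 0 1818 0) (P.lf 25 0 0)))) (P.cons (P.cons (P.lf 621371 0 0) (P.cons (P.lf 0 7335 0) (P.cons (P.lf 0 333 0) P.nil))) (P.cons (P.cons (P.lf 0 23279 0) (P.cons (P.lf 0 128 0) P.nil)) (P.cons (P.cons (P.lf 0 2980 0) P.nil) P.nil)))))) 399)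
 EL.nil))
noncomputable def S169_183_290_308_17 : EL := (EL.cons 4 (TM.mk (P.cons (P.cons (P.lf 0 145174200 0) (P.cons (P.lf 5171791 0 0) (P.cons (P.lf 189924 0 0) (P.cons (P.lf 0 7525 0) (P.cons (P.lf 0 36 0) (P.cons (P.lf 1 0 0) P.nil)))))) (P.cons (P.cons (P.lf 0 39836445 0) (P.cons (P.lf 1028427 0 0) (P.cons (P.lf 41246 0 0) (P.cons (P.lf 0 1178 0) (P.cons (P.lf 0 3 0) P.nil))))) (P.cons (P.cons (P.lf 4336454 0 0) (P.cons (P.lf 0 126735 0) (P.cons (P.lf 0 5163 0) (P.cons (P.lf 137 0 0) P.nil)))) (P.cons (P.cons (P.lf 1169697 0 0) (P.cons (P.lf 0 21543 0) (P.cons (P.lf 0 859 0) P.nil))) (P.cons (P.cons (P.lf 0 83228 0) (P.cons (P.lf 771 0 0) P.nil)) (P.cons (P.cons (P.lf 0 9263 0) P.nil) P.nil)))))) 1665)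
 (EL.cons 8 (TM.mk (P.cons (P.cons (P.lf 0 108759672 0) (P.cons (P.lf 3874534 0 0) (P.cons (P.lf 142285 0 0) (P.cons (P.lf 0 5638 0) (P.cons (P.lf 0 27 0) (P.cons (P.lf 1 0 0) P.nil)))))) (P.cons (P.cons (P.lf 0 42007012 0) (P.cons (P.lf 1203762 0 0) (P.cons (P.lf 46812 0 0) (P.cons (P.lf 0 1513 0) (P.cons (P.lf 0 6 0) P.nil))))) (P.cons (P.cons (P.lf 0 1037291 0) (P.cons (P.lf 25005 0 0) (P.cons (P.lf 827 0 0) (P.cons (P.lf 0 44 0) P.nil)))) (P.cons (P.cons (P.lf 896355 0 0) (P.cons (P.lf 0 17082 0) (P.cons (P.lf 0 698 0) P.nil))) (P.cons (P.cons (P.lf 33942 0 0) (P.cons (P.lf 0 1207 0) P.nil)) (P.cons (P.cons (P.lf 0 6420 0) P.nil) P.nil)))))) 1199)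
 EL.nil))
noncomputable def S169_183_290_308_18 : EL := (EL.cons 4 (TM.mk (P.cons (P.lf 695842534 0 0) (P.cons (P.lf 0 142915698 0) (P.cons (P.lf 5324627 0 0) (P.cons (P.lf 421476 0 0) (P.cons (P.lf 0 11685 0) (P.cons (P.lf 0 1182 0) P.nil)))))) 113)
 (EL.cons 8 (TM.mk (P.cons (P.lf 521302032 0 0) (P.cons (P.lf 0 48769121 0) (P.cons (P.lf 0 3438450 0) (P.cons (P.lf 225935 0 0) (P.cons (P.lf 14451 0 0) (P.cons (P.lf 0 170 0) P.nil)))))) 84)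
 EL.nil))
noncomputable def S169_183_290_308_19 : EL := (EL.cons 4 (TM.mk (P.cons (P.cons (P.lf 237208463 0 0) (P.cons (P.lf 0 4225244 0) (P.cons (P.lf 0 192795 0) (P.lf 2714 0 0)))) (P.cons (P.cons (P.lf 66135 0 0) (P.cons (P.lf 318044 0 0) (P.cons (P.lf 14511 0 0) (P.lf 0 203 0)))) (P.cons (P.cons (P.lf 0 10133402 0) (P.cons (P.lf 70321 0 0) (P.cons (P.lf 3208 0 0) (P.lf 0 45 0)))) (P.cons (P.cons (P.lf 718208 0 0) (P.cons (P.lf 0 3109 0) (P.cons (P.lf 0 142 0) P.nil))) (P.cons (P.cons (P.lf 52162 0 0) (P.cons (P.lf 0 583 0) P.nil)) (P.cons (P.cons (P.lf 0 3716 0) P.nil) P.nil)))))) 640)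
 (EL.cons 8 (TM.mk (P.cons (P.cons (P.lf 177708673 0 0) (P.cons (P.lf 0 3165412 0) (P.cons (P.lf 0 144435 0) (P.lf 2033 0 0)))) (P.cons (P.cons (P.lf 19923168 0 0) (P.cons (P.lf 0 115727 0) (P.cons (P.lf 0 5280 0) (P.lf 74 0 0)))) (P.cons (P.cons (P.lf 0 6036304 0) (P.cons (P.lf 51724 0 0) (P.cons (P.lf 2360 0 0) (P.lf 0 33 0)))) (P.cons (P.cons (P.lf 0 174894 0) (P.cons (P.lf 3224 0 0) (P.cons (P.lf 146 0 0) P.nil))) (P.cons (P.cons (P.lf 44949 0 0) (P.cons (P.lf 0 267 0) P.nil)) (P.cons (P.cons (P.lf 1527 0 0) P.nil) P.nil)))))) 362)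
 EL.nil))
noncomputable def S169_183_290_308_20 : EL := (EL.cons 4 (TM.mk (P.cons (P.cons (P.lf 80862914 0 0) (P.cons (P.lf 0 2880719 0) (P.cons (P.lf 0 105788 0) (P.cons (P.lf 4191 0 0) (P.cons (P.lf 19 0 0) (P.cons (P.lf 0 0 0) P.nil)))))) (P.cons (P.cons (P.lf 16653129 0 0) (P.cons (P.lf 0 375620 0) (P.cons (P.lf 0 15731 0) (P.cons (P.lf 369 0 0) (P.cons (P.lf 0 0 0) P.nil))))) (P.cons (P.cons (P.lf 0 4107286 0) (P.cons (P.lf 115964 0 0) (P.cons (P.lf 4675 0 0) (P.cons (P.lf 0 130 0) P.nil)))) (P.cons (P.cons (P.lf 0 532245 0) (P.cons (P.lf 8343 0 0) (P.cons (P.lf 329 0 0) P.nil))) (P.cons (P.cons (P.lf 96655 0 0) (P.cons (P.lf 0 1417 0) P.nil)) (P.cons (P.cons (P.lf 3386 0 0) P.nil) P.nil)))))) 1627)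
 (EL.cons 8 (TM.mk (P.cons (P.cons (P.lf 60579799 0 0) (P.cons (P.lf 0 2158139 0) (P.cons (P.lf 0 79253 0) (P.cons (P.lf 3140 0 0) (P.cons (P.lf 15 0 0) (P.cons (P.lf 0 0 0) P.nil)))))) (P.cons (P.cons (P.lf 19250765 0 0) (P.cons (P.lf 0 522753 0) (P.cons (P.lf 0 20648 0) (P.cons (P.lf 627 0 0) (P.cons (P.lf 2 0 0) P.nil))))) (P.cons (P.cons (P.lf 0 1153518 0) (P.cons (P.lf 36585 0 0) (P.cons (P.lf 1493 0 0) (P.cons (P.lf 0 39 0) P.nil)))) (P.cons (P.cons (P.lf 0 587826 0) (P.cons (P.lf 11865 0 0) (P.cons (P.lf 475 0 0) P.nil))) (P.cons (P.cons (P.lf 14549 0 0) (P.cons (P.lf 35 0 0) P.nil)) (P.cons (P.cons (P.lf 5996 0 0) P.nil) P.nil)))))) 1031)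
 EL.nil))
noncomputable def S169_183_290_308_21 : EL := (EL.cons 4 (TM.mk (P.cons (P.cons (P.lf 0 3625518534 0) (P.cons (P.lf 40855749 0 0) (P.cons (P.lf 1864221 0 0) (P.lf 0 26247 0)))) (P.cons (P.cons (P.lf 198459624 0 0) (P.cons (P.lf 2518791 0 0) (P.cons (P.lf 114927 0 0) (P.lf 0 1617 0)))) (P.cons (P.cons (P.lf 54292422 0 0) (P.cons (P.lf 0 352020 0) (P.cons (P.lf 0 16062 0) (P.lf 225 0 0)))) (P.cons (P.cons (P.lf 359364 0 0) (P.cons (P.lf 0 32457 0) (P.cons (P.lf 0 1473 0) P.nil))) (P.cons (P.cons (P.lf 0 218544 0) (P.cons (P.lf 258 0 0) P.nil)) (P.cons (P.cons (P.lf 0 6969 0) P.nil) P.nil)))))) 2070)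
 (EL.cons 8 (TM.mk (P.cons (P.cons (P.lf 1720676217 0 0) (P.cons (P.lf 0 19390203 0) (P.cons (P.lf 0 884766 0) (P.lf 12465 0 0)))) (P.cons (P.cons (P.lf 0 286616883 0) (P.cons (P.lf 973032 0 0) (P.cons (P.lf 44397 0 0) (P.lf 0 624 0)))) (P.cons (P.cons (P.lf 0 8719830 0) (P.cons (P.lf 227349 0 0) (P.cons (P.lf 10368 0 0) (P.lf 0 141 0)))) (P.cons (P.cons (P.lf 1991118 0 0) (P.cons (P.lf 0 3699 0) (P.cons (P.lf 0 165 0) P.nil))) (P.cons (P.cons (P.lf 60912 0 0) (P.cons (P.lf 0 1137 0) P.nil)) (P.cons (P.cons (P.lf 0 5115 0) P.nil) P.nil)))))) 1596)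
 (EL.cons 11 (TM.mk (P.cons (P.cons (P.lf 866065491 0 0) (P.cons (P.lf 85969509 0 0) (P.cons (P.lf 0 1183530 0) (P.cons (P.lf 0 26733 0) (P.lf 282 0 0))))) (P.cons (P.cons (P.lf 75124053 0 0) (P.cons (P.lf 7457145 0 0) (P.cons (P.lf 0 102660 0) (P.cons (P.lf 0 2319 0) (P.lf 24 0 0))))) (P.cons (P.cons (P.lf 0 227340 0) (P.cons (P.lf 0 22566 0) (P.cons (P.lf 309 0 0) (P.cons (P.lf 6 0 0) P.nil)))) (P.cons (P.cons (P.lf 0 178428 0) (P.cons (P.lf 0 17709 0) (P.cons (P.lf 243 0 0) P.nil))) (P.cons (P.cons (P.lf 0 3567 0) (P.cons (P.lf 0 354 0) P.nil)) (P.cons (P.cons (P.lf 165 0 0) P.nil) P.nil)))))) 204)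
 EL.nil)))
noncomputable def S169_183_290_308_22 : EL := (EL.cons 4 (TM.mk (P.cons (P.cons (P.lf 0 1235917092 0) (P.cons (P.lf 35942082 0 0) (P.cons (P.lf 1391931 0 0) (P.cons (P.lf 0 45729 0) (P.cons (P.lf 0 195 0) (P.cons (P.lf 12 0 0) P.nil)))))) (P.cons (P.cons (P.lf 0 186529887 0) (P.cons (P.lf 5382324 0 0) (P.cons (P.lf 198015 0 0) (P.cons (P.lf 0 7797 0) (P.cons (P.lf 0 36 0) P.nil))))) (P.cons (P.cons (P.lf 42471300 0 0) (P.cons (P.lf 0 489675 0) (P.cons (P.lf 0 22797 0) (P.cons (P.lf 273 0 0) P.nil)))) (P.cons (P.cons (P.lf 4394397 0 0) (P.cons (P.lf 0 110244 0) (P.cons (P.lf 0 4494 0) P.nil))) (P.cons (P.cons (P.lf 0 262275 0) (P.cons (P.lf 0 1545 0) P.nil)) (P.cons (P.cons (P.lf 0 35802 0) P.nil) P.nil)))))) 4179)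
 (EL.cons 8 (TM.mk (P.cons (P.cons (P.lf 586567995 0 0) (P.cons (P.lf 0 17058165 0) (P.cons (P.lf 0 660615 0) (P.cons (P.lf 21705 0 0) (P.cons (P.lf 93 0 0) (P.cons (P.lf 0 6 0) P.nil)))))) (P.cons (P.cons (P.lf 22929933 0 0) (P.cons (P.lf 0 646800 0) (P.cons (P.lf 0 20100 0) (P.cons (P.lf 1275 0 0) (P.cons (P.lf 6 0 0) P.nil))))) (P.cons (P.cons (P.lf 0 27836595 0) (P.cons (P.lf 453492 0 0) (P.cons (P.lf 18825 0 0) (P.cons (P.lf 0 459 0) P.nil)))) (P.cons (P.cons (P.lf 379881 0 0) (P.cons (P.lf 20268 0 0) (P.cons (P.lf 708 0 0) P.nil))) (P.cons (P.cons (P.lf 268086 0 0) (P.cons (P.lf 0 3852 0) P.nil)) (P.cons (P.cons (P.lf 0 12 0) P.nil) P.nil)))))) 2964)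
 (EL.cons 11 (TM.mk (P.cons (P.cons (P.lf 295236426 0 0) (P.cons (P.lf 24047619 0 0) (P.cons (P.lf 0 1165434 0) (P.cons (P.lf 0 22365 0) (P.cons (P.lf 921 0 0) (P.cons (P.lf 0 0 0) P.nil)))))) (P.cons (P.cons (P.lf 86328810 0 0) (P.cons (P.lf 7428972 0 0) (P.cons (P.lf 0 283209 0) (P.cons (P.lf 0 5538 0) (P.cons (P.lf 204 0 0) P.nil))))) (P.cons (P.cons (P.lf 2788803 0 0) (P.cons (P.lf 206088 0 0) (P.cons (P.lf 0 14061 0) (P.cons (P.lf 0 264 0) P.nil)))) (P.cons (P.cons (P.lf 0 527598 0) (P.cons (P.lf 0 50286 0) (P.cons (P.lf 1020 0 0) P.nil))) (P.cons (P.cons (P.lf 0 32493 0) (P.cons (P.lf 0 2796 0) P.nil)) (P.cons (P.cons (P.lf 1050 0 0) P.nil) P.nil)))))) 762)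
 EL.nil)))
noncomputable def S169_183_290_308_23 : EL := (EL.cons 4 (TM.mk (P.cons (P.cons (P.lf 2019435909 0 0) (P.cons (P.lf 0 22756899 0) (P.cons (P.lf 0 1038381 0) (P.lf 14619 0 0)))) (P.cons (P.cons (P.lf 0 248797245 0) (P.cons (P.lf 154992 0 0) (P.cons (P.lf 7074 0 0) (P.lf 0 99 0)))) (P.cons (P.cons (P.lf 0 26987388 0) (P.cons (P.lf 340743 0 0) (P.cons (P.lf 15546 0 0) (P.lf 0 216 0)))) (P.cons (P.cons (P.lf 2139369 0 0) (P.cons (P.lf 7278 0 0) (P.cons (P.lf 327 0 0) P.nil))) (P.cons (P.cons (P.lf 202452 0 0) (P.cons (P.lf 0 1869 0) P.nil)) (P.cons (P.cons (P.lf 0 4698 0) P.nil) P.nil)))))) 2097)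
 (EL.cons 8 (TM.mk (P.cons (P.cons (P.lf 0 958427133 0) (P.cons (P.lf 10800459 0 0) (P.cons (P.lf 492819 0 0) (P.lf 0 6942 0)))) (P.cons (P.cons (P.lf 225262905 0 0) (P.cons (P.lf 0 1281402 0) (P.cons (P.lf 0 58467 0) (P.lf 822 0 0)))) (P.cons (P.cons (P.lf 0 4025223 0) (P.cons (P.lf 0 112602 0) (P.cons (P.lf 0 5133 0) (P.lf 69 0 0)))) (P.cons (P.cons (P.lf 0 1798311 0) (P.cons (P.lf 12063 0 0) (P.cons (P.lf 546 0 0) P.nil))) (P.cons (P.cons (P.lf 32229 0 0) (P.cons (P.lf 774 0 0) P.nil)) (P.cons (P.cons (P.lf 7929 0 0) P.nil) P.nil)))))) 1422)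
 (EL.cons 11 (TM.mk (P.cons (P.cons (P.lf 0 482403753 0) (P.cons (P.lf 0 47885538 0) (P.cons (P.lf 659232 0 0) (P.cons (P.lf 14889 0 0) (P.lf 0 156 0))))) (P.cons (P.cons (P.lf 0 8818371 0) (P.cons (P.lf 0 875349 0) (P.cons (P.lf 12048 0 0) (P.cons (P.lf 270 0 0) (P.lf 0 0 0))))) (P.cons (P.cons (P.lf 4021947 0 0) (P.cons (P.lf 399234 0 0) (P.cons (P.lf 0 5493 0) (P.cons (P.lf 0 123 0) P.nil)))) (P.cons (P.cons (P.lf 172221 0 0) (P.cons (P.lf 17094 0 0) (P.cons (P.lf 0 234 0) P.nil))) (P.cons (P.cons (P.lf 0 6780 0) (P.cons (P.lf 0 672 0) P.nil)) (P.cons (P.cons (P.lf 0 537 0) P.nil) P.nil)))))) 273)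
 EL.nil)))
noncomputable def S169_183_290_308_24 : EL := (EL.cons 4 (TM.mk (P.cons (P.cons (P.lf 688413348 0 0) (P.cons (P.lf 0 20019957 0) (P.cons (P.lf 0 775314 0) (P.cons (P.lf 25470 0 0) (P.cons (P.lf 108 0 0) (P.cons (P.lf 0 6 0) P.nil)))))) (P.cons (P.cons (P.lf 56768331 0 0) (P.cons (P.lf 0 1627386 0) (P.cons (P.lf 0 57216 0) (P.cons (P.lf 2598 0 0) (P.cons (P.lf 12 0 0) P.nil))))) (P.cons (P.cons (P.lf 0 32240496 0) (P.cons (P.lf 520767 0 0) (P.cons (P.lf 21906 0 0) (P.cons (P.lf 0 501 0) P.nil)))) (P.cons (P.cons (P.lf 0 1038828 0) (P.cons (P.lf 48810 0 0) (P.cons (P.lf 1857 0 0) P.nil))) (P.cons (P.cons (P.lf 367338 0 0) (P.cons (P.lf 0 4014 0) P.nil)) (P.cons (P.cons (P.lf 15015 0 0) P.nil) P.nil)))))) 4383)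
 (EL.cons 8 (TM.mk (P.cons (P.cons (P.lf 0 326721945 0) (P.cons (P.lf 9501501 0 0) (P.cons (P.lf 367965 0 0) (P.cons (P.lf 0 12090 0) (P.cons (P.lf 0 51 0) (P.cons (P.lf 3 0 0) P.nil)))))) (P.cons (P.cons (P.lf 9595827 0 0) (P.cons (P.lf 0 290214 0) (P.cons (P.lf 0 13992 0) (P.cons (P.lf 117 0 0) (P.cons (P.lf 0 0 0) P.nil))))) (P.cons (P.cons (P.lf 17077536 0 0) (P.cons (P.lf 0 297561 0) (P.cons (P.lf 0 12039 0) (P.cons (P.lf 330 0 0) P.nil)))) (P.cons (P.cons (P.lf 0 1251162 0) (P.cons (P.lf 5388 0 0) (P.cons (P.lf 303 0 0) P.nil))) (P.cons (P.cons (P.lf 0 168855 0) (P.cons (P.lf 3483 0 0) P.nil)) (P.cons (P.cons (P.lf 10899 0 0) P.nil) P.nil)))))) 2247)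
 (EL.cons 11 (TM.mk (P.cons (P.cons (P.lf 0 164448489 0) (P.cons (P.lf 0 13394670 0) (P.cons (P.lf 649152 0 0) (P.cons (P.lf 12456 0 0) (P.cons (P.lf 0 513 0) (P.cons (P.lf 0 0 0) P.nil)))))) (P.cons (P.cons (P.lf 0 36827250 0) (P.cons (P.lf 0 3220959 0) (P.cons (P.lf 113307 0 0) (P.cons (P.lf 2232 0 0) (P.cons (P.lf 0 78 0) P.nil))))) (P.cons (P.cons (P.lf 2089959 0 0) (P.cons (P.lf 197115 0 0) (P.cons (P.lf 0 4353 0) (P.cons (P.lf 0 90 0) P.nil)))) (P.cons (P.cons (P.lf 500259 0 0) (P.cons (P.lf 44490 0 0) (P.cons (P.lf 0 1431 0) P.nil))) (P.cons (P.cons (P.lf 168 0 0) (P.cons (P.lf 0 207 0) P.nil)) (P.cons (P.cons (P.lf 0 2580 0) P.nil) P.nil)))))) 795)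
 EL.nil)))
noncomputable def S169_183_290_308_25 : EL := (EL.cons 4 (TM.mk (P.cons (P.cons (P.lf 0 1124838102 0) (P.cons (P.lf 12675732 0 0) (P.cons (P.lf 578385 0 0) (P.lf 0 8142 0)))) (P.cons (P.cons (P.lf 215589915 0 0) (P.cons (P.lf 0 954135 0) (P.cons (P.lf 0 43536 0) (P.lf 612 0 0)))) (P.cons (P.cons (P.lf 7947621 0 0) (P.cons (P.lf 0 210963 0) (P.cons (P.lf 0 9624 0) (P.lf 135 0 0)))) (P.cons (P.cons (P.lf 0 2535213 0) (P.cons (P.lf 9330 0 0) (P.cons (P.lf 426 0 0) P.nil))) (P.cons (P.cons (P.lf 0 63381 0) (P.cons (P.lf 1749 0 0) P.nil)) (P.cons (P.cons (P.lf 13389 0 0) P.nil) P.nil)))))) 1545)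
 (EL.cons 8 (TM.mk (P.cons (P.cons (P.lf 533849751 0 0) (P.cons (P.lf 0 6015921 0) (P.cons (P.lf 0 274503 0) (P.lf 3867 0 0)))) (P.cons (P.cons (P.lf 0 162021072 0) (P.cons (P.lf 1125609 0 0) (P.cons (P.lf 51360 0 0) (P.lf 0 723 0)))) (P.cons (P.cons (P.lf 9691683 0 0) (P.cons (P.lf 26706 0 0) (P.cons (P.lf 1215 0 0) (P.lf 0 15 0)))) (P.cons (P.cons (P.lf 1124952 0 0) (P.cons (P.lf 0 12636 0) (P.cons (P.lf 0 573 0) P.nil))) (P.cons (P.cons (P.lf 0 92253 0) (P.cons (P.lf 0 105 0) P.nil)) (P.cons (P.cons (P.lf 0 5538 0) P.nil) P.nil)))))) 1245)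
 (EL.cons 11 (TM.mk (P.cons (P.cons (P.lf 268701828 0 0) (P.cons (P.lf 26672535 0 0) (P.cons (P.lf 0 367197 0) (P.cons (P.lf 0 8292 0) (P.lf 87 0 0))))) (P.cons (P.cons (P.lf 0 13483896 0) (P.cons (P.lf 0 1338471 0) (P.cons (P.lf 18426 0 0) (P.cons (P.lf 414 0 0) (P.lf 0 3 0))))) (P.cons (P.cons (P.lf 0 3150558 0) (P.cons (P.lf 0 312738 0) (P.cons (P.lf 4302 0 0) (P.cons (P.lf 96 0 0) P.nil)))) (P.cons (P.cons (P.lf 51342 0 0) (P.cons (P.lf 5097 0 0) (P.cons (P.lf 0 69 0) P.nil))) (P.cons (P.cons (P.lf 15771 0 0) (P.cons (P.lf 1563 0 0) P.nil)) (P.cons (P.cons (P.lf 225 0 0) P.nil) P.nil)))))) 264)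
 EL.nil)))
noncomputable def S169_183_290_308_26 : EL := (EL.cons 4 (TM.mk (P.cons (P.cons (P.lf 0 383450427 0) (P.cons (P.lf 11151237 0 0) (P.cons (P.lf 431853 0 0) (P.cons (P.lf 0 14187 0) (P.cons (P.lf 0 60 0) (P.cons (P.lf 3 0 0) P.nil)))))) (P.cons (P.cons (P.lf 0 5368635 0) (P.cons (P.lf 143031 0 0) (P.cons (P.lf 2304 0 0) (P.cons (P.lf 0 477 0) (P.cons (P.lf 0 3 0) P.nil))))) (P.cons (P.cons (P.lf 20942103 0 0) (P.cons (P.lf 0 375951 0) (P.cons (P.lf 0 15306 0) (P.cons (P.lf 408 0 0) P.nil)))) (P.cons (P.cons (P.lf 0 589530 0) (P.cons (P.lf 0 9081 0) (P.cons (P.lf 0 258 0) P.nil))) (P.cons (P.cons (P.lf 0 283905 0) (P.cons (P.lf 4755 0 0) P.nil)) (P.cons (P.cons (P.lf 4623 0 0) P.nil) P.nil)))))) 3567)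
 (EL.cons 8 (TM.mk (P.cons (P.cons (P.lf 181986114 0 0) (P.cons (P.lf 0 5292393 0) (P.cons (P.lf 0 204957 0) (P.cons (P.lf 6732 0 0) (P.cons (P.lf 27 0 0) (P.cons (P.lf 0 0 0) P.nil)))))) (P.cons (P.cons (P.lf 0 17804013 0) (P.cons (P.lf 523977 0 0) (P.cons (P.lf 21825 0 0) (P.cons (P.lf 0 525 0) (P.cons (P.lf 0 0 0) P.nil))))) (P.cons (P.cons (P.lf 0 9535146 0) (P.cons (P.lf 165981 0 0) (P.cons (P.lf 6609 0 0) (P.cons (P.lf 0 192 0) P.nil)))) (P.cons (P.cons (P.lf 1362525 0 0) (P.cons (P.lf 0 14781 0) (P.cons (P.lf 0 648 0) P.nil))) (P.cons (P.cons (P.lf 66954 0 0) (P.cons (P.lf 0 2097 0) P.nil)) (P.cons (P.cons (P.lf 0 14160 0) P.nil) P.nil)))))) 1560)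
 (EL.cons 11 (TM.mk (P.cons (P.cons (P.lf 91598808 0 0) (P.cons (P.lf 7460913 0 0) (P.cons (P.lf 0 361581 0) (P.cons (P.lf 0 6939 0) (P.cons (P.lf 285 0 0) (P.cons (P.lf 0 0 0) P.nil)))))) (P.cons (P.cons (P.lf 14241990 0 0) (P.cons (P.lf 1283307 0 0) (P.cons (P.lf 0 38358 0) (P.cons (P.lf 0 768 0) (P.cons (P.lf 24 0 0) P.nil))))) (P.cons (P.cons (P.lf 0 2764158 0) (P.cons (P.lf 0 248559 0) (P.cons (P.lf 7518 0 0) (P.cons (P.lf 150 0 0) P.nil)))) (P.cons (P.cons (P.lf 0 241275 0) (P.cons (P.lf 0 20973 0) (P.cons (P.lf 759 0 0) P.nil))) (P.cons (P.cons (P.lf 21996 0 0) (P.cons (P.lf 2091 0 0) P.nil)) (P.cons (P.cons (P.lf 2064 0 0) P.nil) P.nil)))))) 636)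
 EL.nil)))
noncomputable def S169_183_290_308_27 : EL := (EL.cons 13 (TM.mk (P.lf 0 4294967296 0) 0)
 EL.nil)
noncomputable def S169_183_290_308_28 : EL := (EL.cons 13 (TM.mk (P.cons (P.cons (P.lf 0 1464128081 0) (P.cons (P.lf 26079588 0 0) (P.cons (P.lf 1189996 0 0) (P.lf 0 16756 0)))) (P.cons (P.cons (P.lf 0 301118327 0) (P.cons (P.lf 3393284 0 0) (P.cons (P.lf 154832 0 0) (P.lf 0 2180 0)))) (P.cons (P.cons (P.lf 11905045 0 0) (P.cons (P.lf 63316 0 0) (P.cons (P.lf 2888 0 0) (P.lf 0 40 0)))) (P.cons (P.cons (P.lf 1203104 0 0) (P.cons (P.lf 0 9564 0) (P.cons (P.lf 0 432 0) P.nil))) (P.cons (P.cons (P.lf 0 8160 0) (P.cons (P.lf 0 464 0) P.nil)) (P.cons (P.cons (P.lf 0 2698 0) P.nil) P.nil)))))) 599)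
 EL.nil)
noncomputable def S169_183_290_308_29 : EL := (EL.cons 13 (TM.mk (P.cons (P.cons (P.lf 0 499112307 0) (P.cons (P.lf 17780744 0 0) (P.cons (P.lf 652966 0 0) (P.cons (P.lf 0 25875 0) (P.cons (P.lf 0 126 0) (P.cons (P.lf 9 0 0) P.nil)))))) (P.cons (P.cons (P.lf 0 205298791 0) (P.cons (P.lf 5970357 0 0) (P.cons (P.lf 231213 0 0) (P.cons (P.lf 0 7596 0) (P.cons (P.lf 0 32 0) P.nil))))) (P.cons (P.cons (P.lf 0 12994563 0) (P.cons (P.lf 374393 0 0) (P.cons (P.lf 13632 0 0) (P.cons (P.lf 0 554 0) P.nil)))) (P.cons (P.cons (P.lf 2489576 0 0) (P.cons (P.lf 0 31064 0) (P.cons (P.lf 0 1398 0) P.nil))) (P.cons (P.cons (P.lf 130135 0 0) (P.cons (P.lf 0 3810 0) P.nil)) (P.cons (P.cons (P.lf 0 9653 0) P.nil) P.nil)))))) 1782)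
 EL.nil)
noncomputable def S169_183_290_308_30 : EL := (EL.cons 13 (TM.mk (P.cons (P.lf 2392322948 0 0) (P.cons (P.lf 0 163782508 0) (P.cons (P.lf 0 5110764 0) (P.cons (P.lf 39116 0 0) (P.cons (P.lf 5000 0 0) (P.cons (P.lf 60 0 0) P.nil)))))) 56)
 EL.nil)
noncomputable def S169_183_290_308_31 : EL := (EL.cons 13 (TM.mk (P.cons (P.cons (P.lf 815528260 0 0) (P.cons (P.lf 0 14526489 0) (P.cons (P.lf 0 662835 0) (P.lf 9333 0 0)))) (P.cons (P.cons (P.lf 111892287 0 0) (P.cons (P.lf 0 895571 0) (P.cons (P.lf 0 40863 0) (P.lf 575 0 0)))) (P.cons (P.cons (P.lf 0 19856132 0) (P.cons (P.lf 125163 0 0) (P.cons (P.lf 5711 0 0) (P.lf 0 80 0)))) (P.cons (P.cons (P.lf 0 561133 0) (P.cons (P.lf 11541 0 0) (P.cons (P.lf 524 0 0) P.nil))) (P.cons (P.cons (P.lf 69037 0 0) (P.cons (P.lf 0 92 0) P.nil)) (P.cons (P.cons (P.lf 2885 0 0) P.nil) P.nil)))))) 608)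
 EL.nil)
noncomputable def S169_183_290_308_32 : EL := (EL.cons 13 (TM.mk (P.cons (P.cons (P.lf 278008595 0 0) (P.cons (P.lf 0 9903982 0) (P.cons (P.lf 0 363706 0) (P.cons (P.lf 14412 0 0) (P.cons (P.lf 70 0 0) (P.cons (P.lf 0 5 0) P.nil)))))) (P.cons (P.cons (P.lf 95319734 0 0) (P.cons (P.lf 0 2647481 0) (P.cons (P.lf 0 103887 0) (P.cons (P.lf 3244 0 0) (P.cons (P.lf 13 0 0) P.nil))))) (P.cons (P.cons (P.lf 0 1184643 0) (P.cons (P.lf 40290 0 0) (P.cons (P.lf 2000 0 0) (P.cons (P.lf 0 11 0) P.nil)))) (P.cons (P.cons (P.lf 0 2121986 0) (P.cons (P.lf 38522 0 0) (P.cons (P.lf 1567 0 0) P.nil))) (P.cons (P.cons (P.lf 9438 0 0) (P.cons (P.lf 1308 0 0) P.nil)) (P.cons (P.cons (P.lf 13666 0 0) P.nil) P.nil)))))) 1979)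
 EL.nil)
noncomputable def S169_183_290_308_33 : EL := (EL.cons 14 (TM.mk (P.lf 8589934592 0 0) 0)
 EL.nil)
noncomputable def S169_183_290_308_34 : EL := (EL.cons 14 (TM.mk (P.cons (P.cons (P.lf 2928256162 0 0) (P.cons (P.lf 0 52159176 0) (P.cons (P.lf 0 2379992 0) (P.lf 33512 0 0)))) (P.cons (P.cons (P.lf 602236654 0 0) (P.cons (P.lf 0 6786568 0) (P.cons (P.lf 0 309664 0) (P.lf 4360 0 0)))) (P.cons (P.cons (P.lf 0 23810090 0) (P.cons (P.lf 0 126632 0) (P.cons (P.lf 0 5776 0) (P.lf 80 0 0)))) (P.cons (P.cons (P.lf 0 2406208 0) (P.cons (P.lf 19128 0 0) (P.cons (P.lf 864 0 0) P.nil))) (P.cons (P.cons (P.lf 16320 0 0) (P.cons (P.lf 928 0 0) P.nil)) (P.cons (P.cons (P.lf 5396 0 0) P.nil) P.nil)))))) 1198)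
 EL.nil)
noncomputable def S169_183_290_308_35 : EL := (EL.cons 14 (TM.mk (P.cons (P.cons (P.lf 998224614 0 0) (P.cons (P.lf 0 35561488 0) (P.cons (P.lf 0 1305932 0) (P.cons (P.lf 51750 0 0) (P.cons (P.lf 252 0 0) (P.cons (P.lf 0 18 0) P.nil)))))) (P.cons (P.cons (P.lf 410597582 0 0) (P.cons (P.lf 0 11940714 0) (P.cons (P.lf 0 462426 0) (P.cons (P.lf 15192 0 0) (P.cons (P.lf 64 0 0) P.nil))))) (P.cons (P.cons (P.lf 25989126 0 0) (P.cons (P.lf 0 748786 0) (P.cons (P.lf 0 27264 0) (P.cons (P.lf 1108 0 0) P.nil)))) (P.cons (P.cons (P.lf 0 4979152 0) (P.cons (P.lf 62128 0 0) (P.cons (P.lf 2796 0 0) P.nil))) (P.cons (P.cons (P.lf 0 260270 0) (P.cons (P.lf 7620 0 0) P.nil)) (P.cons (P.cons (P.lf 19306 0 0) P.nil) P.nil)))))) 3564)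
 EL.nil)
noncomputable def S169_183_290_308_36 : EL := (EL.cons 14 (TM.mk (P.cons (P.lf 0 4784645896 0) (P.cons (P.lf 327565016 0 0) (P.cons (P.lf 10221528 0 0) (P.cons (P.lf 0 78232 0) (P.cons (P.lf 0 10000 0) (P.cons (P.lf 0 120 0) P.nil)))))) 112)
 EL.nil)
noncomputable def S169_183_290_308_37 : EL := (EL.cons 14 (TM.mk (P.cons (P.cons (P.lf 0 1631056520 0) (P.cons (P.lf 29052978 0 0) (P.cons (P.lf 1325670 0 0) (P.lf 0 18666 0)))) (P.cons (P.cons (P.lf 0 223784574 0) (P.cons (P.lf 1791142 0 0) (P.cons (P.lf 81726 0 0) (P.lf 0 1150 0)))) (P.cons (P.cons (P.lf 39712264 0 0) (P.cons (P.lf 0 250326 0) (P.cons (P.lf 0 11422 0) (P.lf 160 0 0)))) (P.cons (P.cons (P.lf 1122266 0 0) (P.cons (P.lf 0 23082 0) (P.cons (P.lf 0 1048 0) P.nil))) (P.cons (P.cons (P.lf 0 138074 0) (P.cons (P.lf 184 0 0) P.nil)) (P.cons (P.cons (P.lf 0 5770 0) P.nil) P.nil)))))) 1216)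
 EL.nil)
noncomputable def S169_183_290_308_38 : EL := (EL.cons 14 (TM.mk (P.cons (P.cons (P.lf 0 556017190 0) (P.cons (P.lf 19807964 0 0) (P.cons (P.lf 727412 0 0) (P.cons (P.lf 0 28824 0) (P.cons (P.lf 0 140 0) (P.cons (P.lf 10 0 0) P.nil)))))) (P.cons (P.cons (P.lf 0 190639468 0) (P.cons (P.lf 5294962 0 0) (P.cons (P.lf 207774 0 0) (P.cons (P.lf 0 6488 0) (P.cons (P.lf 0 26 0) P.nil))))) (P.cons (P.cons (P.lf 2369286 0 0) (P.cons (P.lf 0 80580 0) (P.cons (P.lf 0 4000 0) (P.cons (P.lf 22 0 0) P.nil)))) (P.cons (P.cons (P.lf 4243972 0 0) (P.cons (P.lf 0 77044 0) (P.cons (P.lf 0 3134 0) P.nil))) (P.cons (P.cons (P.lf 0 18876 0) (P.cons (P.lf 0 2616 0) P.nil)) (P.cons (P.cons (P.lf 0 27332 0) P.nil) P.nil)))))) 3958)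
 EL.nil)
noncomputable def S169_183_290_308_39 : EL := (EL.cons 14 (TM.mk (P.cons (P.lf 2665076910 0 0) (P.cons (P.lf 0 364911418 0) (P.cons (P.lf 1104322 0 0) (P.cons (P.lf 866718 0 0) (P.cons (P.lf 17336 0 0) (P.cons (P.lf 0 814 0) P.nil)))))) 180)
 EL.nil)
noncomputable def S169_183_290_308_40 : EL := (EL.cons 14 (TM.mk (P.cons (P.cons (P.lf 908508416 0 0) (P.cons (P.lf 0 16182686 0) (P.cons (P.lf 0 738406 0) (P.lf 10396 0 0)))) (P.cons (P.cons (P.lf 62451336 0 0) (P.cons (P.lf 110216 0 0) (P.cons (P.lf 5030 0 0) (P.lf 0 70 0)))) (P.cons (P.cons (P.lf 0 32594544 0) (P.cons (P.lf 242308 0 0) (P.cons (P.lf 11056 0 0) (P.lf 0 156 0)))) (P.cons (P.cons (P.lf 637824 0 0) (P.cons (P.lf 5178 0 0) (P.cons (P.lf 232 0 0) P.nil))) (P.cons (P.cons (P.lf 170896 0 0) (P.cons (P.lf 0 1330 0) P.nil)) (P.cons (P.cons (P.lf 0 792 0) P.nil) P.nil)))))) 1284)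
 EL.nil)
noncomputable def S169_183_290_308_41 : EL := (EL.cons 14 (TM.mk (P.cons (P.cons (P.lf 309704962 0 0) (P.cons (P.lf 0 11033156 0) (P.cons (P.lf 0 405172 0) (P.cons (P.lf 16054 0 0) (P.cons (P.lf 78 0 0) (P.cons (P.lf 0 4 0) P.nil)))))) (P.cons (P.cons (P.lf 84984416 0 0) (P.cons (P.lf 0 2193978 0) (P.cons (P.lf 0 87992 0) (P.cons (P.lf 2514 0 0) (P.cons (P.lf 8 0 0) P.nil))))) (P.cons (P.cons (P.lf 0 9251102 0) (P.cons (P.lf 270368 0 0) (P.cons (P.lf 11016 0 0) (P.cons (P.lf 0 294 0) P.nil)))) (P.cons (P.cons (P.lf 0 2495354 0) (P.cons (P.lf 45960 0 0) (P.cons (P.lf 1834 0 0) P.nil))) (P.cons (P.cons (P.lf 177554 0 0) (P.cons (P.lf 0 1646 0) P.nil)) (P.cons (P.cons (P.lf 19762 0 0) P.nil) P.nil)))))) 3506)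
 EL.nil)
noncomputable def S169_183_290_308_42 : EL := (EL.cons 14 (TM.mk (P.cons (P.lf 0 1484464074 0) (P.cons (P.lf 304886824 0 0) (P.cons (P.lf 0 11359206 0) (P.cons (P.lf 0 899150 0) (P.cons (P.lf 24928 0 0) (P.cons (P.lf 2522 0 0) P.nil)))))) 228)
 EL.nil)
noncomputable def S169_183_290_308_43 : EL := (EL.cons 14 (TM.mk (P.cons (P.cons (P.lf 0 506044722 0) (P.cons (P.lf 9013854 0 0) (P.cons (P.lf 411296 0 0) (P.lf 0 5790 0)))) (P.cons (P.cons (P.lf 0 141090 0) (P.cons (P.lf 0 678494 0) (P.cons (P.lf 0 30958 0) (P.lf 434 0 0)))) (P.cons (P.cons (P.lf 21617926 0 0) (P.cons (P.lf 0 150020 0) (P.cons (P.lf 0 6844 0) (P.lf 96 0 0)))) (P.cons (P.cons (P.lf 0 1532178 0) (P.cons (P.lf 6634 0 0) (P.cons (P.lf 304 0 0) P.nil))) (P.cons (P.cons (P.lf 0 111280 0) (P.cons (P.lf 1244 0 0) P.nil)) (P.cons (P.cons (P.lf 7928 0 0) P.nil) P.nil)))))) 1326)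
 EL.nil)
noncomputable def S169_183_290_308_44 : EL := (EL.cons 14 (TM.mk (P.cons (P.cons (P.lf 0 172507550 0) (P.cons (P.lf 6145534 0 0) (P.cons (P.lf 225682 0 0) (P.cons (P.lf 0 8942 0) (P.cons (P.lf 0 42 0) (P.cons (P.lf 2 0 0) P.nil)))))) (P.cons (P.cons (P.lf 0 35526676 0) (P.cons (P.lf 801324 0 0) (P.cons (P.lf 33560 0 0) (P.cons (P.lf 0 788 0) (P.cons (P.lf 0 2 0) P.nil))))) (P.cons (P.cons (P.lf 8762212 0 0) (P.cons (P.lf 0 247390 0) (P.cons (P.lf 0 9974 0) (P.cons (P.lf 278 0 0) P.nil)))) (P.cons (P.cons (P.lf 1135456 0 0) (P.cons (P.lf 0 17800 0) (P.cons (P.lf 0 702 0) P.nil))) (P.cons (P.cons (P.lf 0 206198 0) (P.cons (P.lf 3024 0 0) P.nil)) (P.cons (P.cons (P.lf 0 7224 0) P.nil) P.nil)))))) 3424)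
 EL.nil)
noncomputable def S169_183_290_308_45 : EL := (EL.cons 14 (TM.mk (P.cons (P.cons (P.lf 340288664 0 0) (P.cons (P.lf 0 18184040 0) (P.cons (P.lf 0 505824 0) (P.cons (P.lf 39318 0 0) (P.cons (P.lf 0 4 0) (P.cons (P.lf 0 26 0) P.nil)))))) (P.cons (P.cons (P.lf 209955306 0 0) (P.cons (P.lf 0 9845574 0) (P.cons (P.lf 0 298344 0) (P.cons (P.lf 19344 0 0) (P.cons (P.lf 16 0 0) P.nil))))) (P.cons (P.cons (P.lf 34879416 0 0) (P.cons (P.lf 0 1490764 0) (P.cons (P.lf 0 46262 0) (P.cons (P.lf 2830 0 0) P.nil)))) (P.cons (P.cons (P.lf 0 1293016 0) (P.cons (P.lf 17612 0 0) (P.cons (P.lf 1266 0 0) P.nil))) (P.cons (P.cons (P.lf 0 622968 0) (P.cons (P.lf 18458 0 0) P.nil)) (P.cons (P.cons (P.lf 0 3736 0) P.nil) P.nil)))))) 8510)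
 EL.nil)
noncomputable def S169_183_290_308_46 : EL := (EL.cons 15 (TM.mk (P.lf 4294967296 0 0) 0)
 EL.nil)
noncomputable def S169_183_290_308_47 : EL := (EL.cons 15 (TM.mk (P.cons (P.cons (P.lf 1464128081 0 0) (P.cons (P.lf 0 26079588 0) (P.cons (P.lf 0 1189996 0) (P.lf 16756 0 0)))) (P.cons (P.cons (P.lf 301118327 0 0) (P.cons (P.lf 0 3393284 0) (P.cons (P.lf 0 154832 0) (P.lf 2180 0 0)))) (P.cons (P.cons (P.lf 0 11905045 0) (P.cons (P.lf 0 63316 0) (P.cons (P.lf 0 2888 0) (P.lf 40 0 0)))) (P.cons (P.cons (P.lf 0 1203104 0) (P.cons (P.lf 9564 0 0) (P.cons (P.lf 432 0 0) P.nil))) (P.cons (P.cons (P.lf 8160 0 0) (P.cons (P.lf 464 0 0) P.nil)) (P.cons (P.cons (P.lf 2698 0 0) P.nil) P.nil)))))) 599)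
 EL.nil)
noncomputable def S169_183_290_308_48 : EL := (EL.cons 15 (TM.mk (P.cons (P.cons (P.lf 499112307 0 0) (P.cons (P.lf 0 17780744 0) (P.cons (P.lf 0 652966 0) (P.cons (P.lf 25875 0 0) (P.cons (P.lf 126 0 0) (P.cons (P.lf 0 9 0) P.nil)))))) (P.cons (P.cons (P.lf 205298791 0 0) (P.cons (P.lf 0 5970357 0) (P.cons (P.lf 0 231213 0) (P.cons (P.lf 7596 0 0) (P.cons (P.lf 32 0 0) P.nil))))) (P.cons (P.cons (P.lf 12994563 0 0) (P.cons (P.lf 0 374393 0) (P.cons (P.lf 0 13632 0) (P.cons (P.lf 554 0 0) P.nil)))) (P.cons (P.cons (P.lf 0 2489576 0) (P.cons (P.lf 31064 0 0) (P.cons (P.lf 1398 0 0) P.nil))) (P.cons (P.cons (P.lf 0 130135 0) (P.cons (P.lf 3810 0 0) P.nil)) (P.cons (P.cons (P.lf 9653 0 0) P.nil) P.nil)))))) 1782)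
 EL.nil)
noncomputable def S169_183_290_308 : SL := (SL.cons S169_183_290_308_0 (SL.cons S169_183_290_308_1 (SL.cons S169_183_290_308_2 (SL.cons S169_183_290_308_3 (SL.cons S169_183_290_308_4 (SL.cons S169_183_290_308_5 (SL.cons S169_183_290_308_6 (SL.cons S169_183_290_308_7 (SL.cons S169_183_290_308_8 (SL.cons S169_183_290_308_9 (SL.cons S169_183_290_308_10 (SL.cons S169_183_290_308_11 (SL.cons S169_183_290_308_12 (SL.cons S169_183_290_308_13 (SL.cons S169_183_290_308_14 (SL.cons S169_183_290_308_15 (SL.cons S169_183_290_308_16 (SL.cons S169_183_290_308_17 (SL.cons S169_183_290_308_18 (SL.cons S169_183_290_308_19 (SL.cons S169_183_290_308_20 (SL.cons S169_183_290_308_21 (SL.cons S169_183_290_308_22 (SL.cons S169_183_290_308_23 (SL.cons S169_183_290_308_24 (SL.cons S169_183_290_308_25 (SL.cons S169_183_290_308_26 (SL.cons S169_183_290_308_27 (SL.cons S169_183_290_308_28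 (SL.cons S169_183_290_308_29 (SL.cons S169_183_290_308_30 (SL.cons S169_183_290_308_31 (SL.cons S169_183_290_308_32 (SL.cons S169_183_290_308_33 (SL.cons S169_183_290_308_34 (SL.cons S169_183_290_308_35 (SL.cons S169_183_290_308_36 (SL.cons S169_183_290_308_37 (SL.cons S169_183_290_308_38 (SL.cons S169_183_290_308_39 (SL.cons S169_183_290_308_40 (SL.cons S169_183_290_308_41 (SL.cons S169_183_290_308_42 (SL.cons S169_183_290_308_43 (SL.cons S169_183_290_308_44 (SL.cons S169_183_290_308_45 (SL.cons S169_183_290_308_46 (SL.cons S169_183_290_308_47 (SL.cons S169_183_290_308_48 SL.nil)))))))))))))))))))))))))))))))))))))))))))))))))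
noncomputable def S169_183_290_364_0 : EL := (EL.cons 0 (TM.mk (P.cons (P.lf 6113364111 0 0) (P.cons (P.lf 320722925 0 0) (P.cons (P.lf 0 970595 0) (P.cons (P.lf 0 761763 0) (P.cons (P.lf 0 15236 0) (P.cons (P.lf 715 0 0) P.nil)))))) 165)
 (EL.cons 1 (TM.mk (P.cons (P.lf 0 1754812605 0) (P.cons (P.lf 44029685 0 0) (P.cons (P.lf 10840057 0 0) (P.cons (P.lf 104334 0 0) (P.cons (P.lf 0 15399 0) (P.cons (P.lf 0 481 0) P.nil)))))) 128)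
 (EL.cons 5 (TM.mk (P.cons (P.lf 5127803834 0 0) (P.cons (P.lf 0 114034818 0) (P.cons (P.lf 345096 0 0) (P.cons (P.lf 270848 0 0) (P.cons (P.lf 5418 0 0) (P.cons (P.lf 0 254 0) P.nil)))))) 109)
 (EL.cons 9 (TM.mk (P.lf 6442450944 0 0) 2)
 EL.nil))))
noncomputable def S169_183_290_364_1 : EL := (EL.cons 0 (TM.mk (P.cons (P.cons (P.lf 0 1682830311 0) (P.cons (P.lf 28858853 0 0) (P.cons (P.lf 3716178 0 0) (P.lf 0 247739 0)))) (P.cons (P.cons (P.lf 979458513 0 0) (P.cons (P.lf 0 36764995 0) (P.cons (P.lf 0 4734269 0) (P.lf 315615 0 0)))) (P.cons (P.cons (P.lf 52360411 0 0) (P.cons (P.lf 0 5079457 0) (P.cons (P.lf 0 654077 0) (P.lf 43595 0 0)))) (P.cons (P.cons (P.lf 0 6938320 0) (P.cons (P.lf 3239 0 0) (P.cons (P.lf 426 0 0) P.nil))) (P.cons (P.cons (P.lf 0 493966 0) (P.cons (P.lf 29088 0 0) P.nil)) (P.cons (P.cons (P.lf 15549 0 0) P.nil) P.nil)))))) 17956)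
 (EL.cons 1 (TM.mk (P.cons (P.cons (P.lf 0 1059669823 0) (P.cons (P.lf 85895083 0 0) (P.cons (P.lf 11060800 0 0) (P.lf 0 737380 0)))) (P.cons (P.cons (P.lf 0 288949007 0) (P.cons (P.lf 20800961 0 0) (P.cons (P.lf 2678555 0 0) (P.lf 0 178563 0)))) (P.cons (P.cons (P.lf 41259890 0 0) (P.cons (P.lf 0 422790 0) (P.cons (P.lf 0 54444 0) (P.lf 3633 0 0)))) (P.cons (P.cons (P.lf 3748226 0 0) (P.cons (P.lf 0 237730 0) (P.cons (P.lf 0 30599 0) P.nil))) (P.cons (P.cons (P.lf 0 184860 0) (P.cons (P.lf 0 6916 0) P.nil)) (P.cons (P.cons (P.lf 0 20343 0) P.nil) P.nil)))))) 9803)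
 (EL.cons 5 (TM.mk (P.cons (P.cons (P.lf 2930702733 0 0) (P.cons (P.lf 0 240875706 0) (P.cons (P.lf 0 31017830 0) (P.lf 2067850 0 0)))) (P.cons (P.cons (P.lf 143266498 0 0) (P.cons (P.lf 0 16933904 0) (P.cons (P.lf 0 2180604 0) (P.lf 145378 0 0)))) (P.cons (P.cons (P.lf 0 39235937 0) (P.cons (P.lf 1246138 0 0) (P.cons (P.lf 160464 0 0) (P.lf 0 10690 0)))) (P.cons (P.cons (P.lf 479144 0 0) (P.cons (P.lf 83462 0 0) (P.cons (P.lf 10740 0 0) P.nil))) (P.cons (P.cons (P.lf 192298 0 0) (P.cons (P.lf 0 6222 0) P.nil)) (P.cons (P.cons (P.lf 0 965 0) P.nil) P.nil)))))) 8785)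
 (EL.cons 9 (TM.mk (P.cons (P.cons (P.lf 2057967403 0 0) (P.cons (P.lf 0 203483628 0) (P.cons (P.lf 0 26202810 0) (P.lf 1746852 0 0)))) (P.cons (P.cons (P.lf 433692706 0 0) (P.cons (P.lf 0 26475792 0) (P.cons (P.lf 0 3409314 0) (P.lf 227286 0 0)))) (P.cons (P.cons (P.lf 0 18193147 0) (P.cons (P.lf 0 494016 0) (P.cons (P.lf 0 63612 0) (P.lf 4236 0 0)))) (P.cons (P.cons (P.lf 0 1753938 0) (P.cons (P.lf 74658 0 0) (P.cons (P.lf 9606 0 0) P.nil))) (P.cons (P.cons (P.lf 14712 0 0) (P.cons (P.lf 3630 0 0) P.nil)) (P.cons (P.cons (P.lf 4011 0 0) P.nil) P.nil)))))) 2159)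
 (EL.cons 2 (TM.mk (P.cons (P.cons (P.lf 585531163 0 0) (P.cons (P.lf 167155914 0 0) (P.cons (P.lf 0 12502991 0) (P.cons (P.lf 0 842518 0) (P.lf 42122 0 0))))) (P.cons (P.cons (P.lf 10703545 0 0) (P.cons (P.lf 3055618 0 0) (P.cons (P.lf 0 228552 0) (P.cons (P.lf 0 15398 0) (P.lf 767 0 0))))) (P.cons (P.cons (P.lf 0 4881751 0) (P.cons (P.lf 0 1393627 0) (P.cons (P.lf 104239 0 0) (P.cons (P.lf 7022 0 0) P.nil)))) (P.cons (P.cons (P.lf 0 209039 0) (P.cons (P.lf 0 59672 0) (P.cons (P.lf 4460 0 0) P.nil))) (P.cons (P.cons (P.lf 8226 0 0) (P.cons (P.lf 2348 0 0) P.nil)) (P.cons (P.cons (P.lf 652 0 0) P.nil) P.nil)))))) 1469)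
 (EL.cons 6 (TM.mk (P.cons (P.cons (P.lf 438660429 0 0) (P.cons (P.lf 125227638 0 0) (P.cons (P.lf 0 9366825 0) (P.cons (P.lf 0 631185 0) (P.lf 31557 0 0))))) (P.cons (P.cons (P.lf 57075273 0 0) (P.cons (P.lf 16293699 0 0) (P.cons (P.lf 0 1218741 0) (P.cons (P.lf 0 82122 0) (P.lf 4104 0 0))))) (P.cons (P.cons (P.lf 1064979 0 0) (P.cons (P.lf 304026 0 0) (P.cons (P.lf 0 22740 0) (P.cons (P.lf 0 1530 0) P.nil)))) (P.cons (P.cons (P.lf 0 160944 0) (P.cons (P.lf 0 45945 0) (P.cons (P.lf 3435 0 0) P.nil))) (P.cons (P.cons (P.lf 0 7833 0) (P.cons (P.lf 0 2235 0) P.nil)) (P.cons (P.cons (P.lf 120 0 0) P.nil) P.nil)))))) 864)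
 EL.nil))))))
noncomputable def S169_183_290_364_2 : EL := (EL.cons 0 (TM.mk (P.cons (P.cons (P.lf 0 1698935691 0) (P.cons (P.lf 248101489 0 0) (P.cons (P.lf 24026591 0 0) (P.cons (P.lf 0 4170047 0) (P.cons (P.lf 4650 0 0) (P.cons (P.lf 17509 0 0) P.nil)))))) (P.cons (P.cons (P.lf 103534335 0 0) (P.cons (P.lf 0 19124110 0) (P.cons (P.lf 0 2284399 0) (P.cons (P.lf 210097 0 0) (P.cons (P.lf 0 108 0) P.nil))))) (P.cons (P.cons (P.lf 144457527 0 0) (P.cons (P.lf 0 14680074 0) (P.cons (P.lf 0 1486891 0) (P.cons (P.lf 229924 0 0) P.nil)))) (P.cons (P.cons (P.lf 633590 0 0) (P.cons (P.lf 0 786430 0) (P.cons (P.lf 0 58731 0) P.nil))) (P.cons (P.cons (P.lf 0 1705344 0) (P.cons (P.lf 123689 0 0) P.nil)) (P.cons (P.cons (P.lf 0 46372 0) P.nil) P.nil)))))) 136808)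
 (EL.cons 1 (TM.mk (P.cons (P.cons (P.lf 0 497936005 0) (P.cons (P.lf 86405316 0 0) (P.cons (P.lf 7451142 0 0) (P.cons (P.lf 0 1688323 0) (P.cons (P.lf 2159 0 0) (P.cons (P.lf 8122 0 0) P.nil)))))) (P.cons (P.cons (P.lf 0 256294557 0) (P.cons (P.lf 40635141 0 0) (P.cons (P.lf 3624269 0 0) (P.cons (P.lf 0 763045 0) (P.cons (P.lf 943 0 0) P.nil))))) (P.cons (P.cons (P.lf 0 4771418 0) (P.cons (P.lf 1754083 0 0) (P.cons (P.lf 84333 0 0) (P.cons (P.lf 0 51505 0) P.nil)))) (P.cons (P.cons (P.lf 8589295 0 0) (P.cons (P.lf 0 768076 0) (P.cons (P.lf 0 85649 0) P.nil))) (P.cons (P.cons (P.lf 250149 0 0) (P.cons (P.lf 0 67158 0) P.nil)) (P.cons (P.cons (P.lf 0 72588 0) P.nil) P.nil)))))) 68042)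
 (EL.cons 5 (TM.mk (P.cons (P.cons (P.lf 1349112783 0 0) (P.cons (P.lf 0 235548381 0) (P.cons (P.lf 0 20231287 0) (P.cons (P.lf 4623423 0 0) (P.cons (P.lf 0 5923 0) (P.cons (P.lf 0 22327 0) P.nil)))))) (P.cons (P.cons (P.lf 277207681 0 0) (P.cons (P.lf 0 43419437 0) (P.cons (P.lf 0 3759074 0) (P.cons (P.lf 844572 0 0) (P.cons (P.lf 0 1063 0) P.nil))))) (P.cons (P.cons (P.lf 0 31447593 0) (P.cons (P.lf 2124488 0 0) (P.cons (P.lf 288791 0 0) (P.cons (P.lf 0 14311 0) P.nil)))) (P.cons (P.cons (P.lf 0 4271291 0) (P.cons (P.lf 553322 0 0) (P.cons (P.lf 55381 0 0) P.nil))) (P.cons (P.cons (P.lf 407583 0 0) (P.cons (P.lf 0 11503 0) P.nil)) (P.cons (P.cons (P.lf 32866 0 0) P.nil) P.nil)))))) 68827)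
 (EL.cons 9 (TM.mk (P.cons (P.cons (P.lf 657394191 0 0) (P.cons (P.lf 0 130001043 0) (P.cons (P.lf 0 10313383 0) (P.cons (P.lf 2771245 0 0) (P.cons (P.lf 0 3775 0) (P.cons (P.lf 0 14209 0) P.nil)))))) (P.cons (P.cons (P.lf 277076367 0 0) (P.cons (P.lf 0 44310987 0) (P.cons (P.lf 0 4033506 0) (P.cons (P.lf 811126 0 0) (P.cons (P.lf 0 981 0) P.nil))))) (P.cons (P.cons (P.lf 17572125 0 0) (P.cons (P.lf 0 2730954 0) (P.cons (P.lf 0 211653 0) (P.cons (P.lf 59499 0 0) P.nil)))) (P.cons (P.cons (P.lf 0 3570001 0) (P.cons (P.lf 241512 0 0) (P.cons (P.lf 30439 0 0) P.nil))) (P.cons (P.cons (P.lf 0 175366 0) (P.cons (P.lf 28647 0 0) P.nil)) (P.cons (P.cons (P.lf 14448 0 0) P.nil) P.nil)))))) 24443)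
 (EL.cons 2 (TM.mk (P.cons (P.cons (P.lf 374082491 0 0) (P.cons (P.lf 69804309 0 0) (P.cons (P.lf 0 23310011 0) (P.cons (P.lf 0 790638 0) (P.cons (P.lf 272486 0 0) (P.cons (P.lf 0 2587 0) P.nil)))))) (P.cons (P.cons (P.lf 85671787 0 0) (P.cons (P.lf 18968636 0 0) (P.cons (P.lf 0 4103060 0) (P.cons (P.lf 0 160723 0) (P.cons (P.lf 42603 0 0) P.nil))))) (P.cons (P.cons (P.lf 0 4984773 0) (P.cons (P.lf 0 1292433 0) (P.cons (P.lf 160543 0 0) (P.cons (P.lf 8060 0 0) P.nil)))) (P.cons (P.cons (P.lf 0 1170078 0) (P.cons (P.lf 0 268768 0) (P.cons (P.lf 52014 0 0) P.nil))) (P.cons (P.cons (P.lf 1530 0 0) (P.cons (P.lf 3290 0 0) P.nil)) (P.cons (P.cons (P.lf 6136 0 0) P.nil) P.nil)))))) 21678)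
 (EL.cons 6 (TM.mk (P.cons (P.cons (P.lf 280250130 0 0) (P.cons (P.lf 52295058 0 0) (P.cons (P.lf 0 17463078 0) (P.cons (P.lf 0 592320 0) (P.cons (P.lf 204132 0 0) (P.cons (P.lf 0 1932 0) P.nil)))))) (P.cons (P.cons (P.lf 95523540 0 0) (P.cons (P.lf 20058960 0 0) (P.cons (P.lf 0 5026812 0) (P.cons (P.lf 0 186648 0) (P.cons (P.lf 54744 0 0) P.nil))))) (P.cons (P.cons (P.lf 5887260 0 0) (P.cons (P.lf 1077018 0 0) (P.cons (P.lf 0 375774 0) (P.cons (P.lf 0 12588 0) P.nil)))) (P.cons (P.cons (P.lf 0 520638 0) (P.cons (P.lf 0 145800 0) (P.cons (P.lf 12282 0 0) P.nil))) (P.cons (P.cons (P.lf 0 61758 0) (P.cons (P.lf 0 14154 0) P.nil)) (P.cons (P.cons (P.lf 156 0 0) P.nil) P.nil)))))) 17520)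
 EL.nil))))))
noncomputable def S169_183_290_364_3 : EL := (EL.cons 0 (TM.mk (P.cons (P.lf 2342352752 0 0) (P.cons (P.lf 0 320722925 0) (P.cons (P.lf 970595 0 0) (P.cons (P.lf 761763 0 0) (P.cons (P.lf 15236 0 0) (P.cons (P.lf 0 715 0) P.nil)))))) 165)
 (EL.cons 1 (TM.mk (P.cons (P.lf 1754812605 0 0) (P.cons (P.lf 0 44029685 0) (P.cons (P.lf 0 10840057 0) (P.cons (P.lf 0 104334 0) (P.cons (P.lf 15399 0 0) (P.cons (P.lf 481 0 0) P.nil)))))) 128)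
 (EL.cons 5 (TM.mk (P.cons (P.lf 1314647110 0 0) (P.cons (P.lf 114034818 0 0) (P.cons (P.lf 0 345096 0) (P.cons (P.lf 0 270848 0) (P.cons (P.lf 0 5418 0) (P.cons (P.lf 254 0 0) P.nil)))))) 102)
 EL.nil)))
noncomputable def S169_183_290_364_4 : EL := (EL.cons 0 (TM.mk (P.cons (P.cons (P.lf 748237844 0 0) (P.cons (P.lf 0 73982779 0) (P.cons (P.lf 0 9526842 0) (P.lf 635120 0 0)))) (P.cons (P.cons (P.lf 55231149 0 0) (P.cons (P.lf 503878 0 0) (P.cons (P.lf 64886 0 0) (P.lf 0 4325 0)))) (P.cons (P.cons (P.lf 0 27895051 0) (P.cons (P.lf 1107766 0 0) (P.cons (P.lf 142648 0 0) (P.lf 0 9511 0)))) (P.cons (P.cons (P.lf 576680 0 0) (P.cons (P.lf 23688 0 0) (P.cons (P.lf 3046 0 0) P.nil))) (P.cons (P.cons (P.lf 146070 0 0) (P.cons (P.lf 0 6082 0) P.nil)) (P.cons (P.cons (P.lf 0 891 0) P.nil) P.nil)))))) 3323)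
 (EL.cons 1 (TM.mk (P.cons (P.cons (P.lf 560554850 0 0) (P.cons (P.lf 0 55425433 0) (P.cons (P.lf 0 7137193 0) (P.lf 475811 0 0)))) (P.cons (P.cons (P.lf 104065636 0 0) (P.cons (P.lf 0 5820879 0) (P.cons (P.lf 0 749559 0) (P.lf 49968 0 0)))) (P.cons (P.cons (P.lf 0 11382221 0) (P.cons (P.lf 388762 0 0) (P.cons (P.lf 50060 0 0) (P.lf 0 3337 0)))) (P.cons (P.cons (P.lf 0 1116463 0) (P.cons (P.lf 71553 0 0) (P.cons (P.lf 9210 0 0) P.nil))) (P.cons (P.cons (P.lf 44501 0 0) (P.cons (P.lf 1252 0 0) P.nil)) (P.cons (P.cons (P.lf 5428 0 0) P.nil) P.nil)))))) 2372)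
 (EL.cons 5 (TM.mk (P.cons (P.cons (P.lf 419949010 0 0) (P.cons (P.lf 0 41522886 0) (P.cons (P.lf 0 5346946 0) (P.lf 356462 0 0)))) (P.cons (P.cons (P.lf 124926492 0 0) (P.cons (P.lf 0 9004420 0) (P.cons (P.lf 0 1159506 0) (P.lf 77300 0 0)))) (P.cons (P.cons (P.lf 3853858 0 0) (P.cons (P.lf 0 558544 0) (P.cons (P.lf 0 71922 0) (P.lf 4792 0 0)))) (P.cons (P.cons (P.lf 0 789686 0) (P.cons (P.lf 16462 0 0) (P.cons (P.lf 2118 0 0) P.nil))) (P.cons (P.cons (P.lf 0 47032 0) (P.cons (P.lf 3372 0 0) P.nil)) (P.cons (P.cons (P.lf 1652 0 0) P.nil) P.nil)))))) 1610)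
 EL.nil)))
noncomputable def S169_183_290_364_5 : EL := (EL.cons 0 (TM.mk (P.cons (P.cons (P.lf 239016035 0 0) (P.cons (P.lf 0 47265908 0) (P.cons (P.lf 0 3749749 0) (P.cons (P.lf 1007571 0 0) (P.cons (P.lf 0 1371 0) (P.cons (P.lf 0 5166 0) P.nil)))))) (P.cons (P.cons (P.lf 68012810 0 0) (P.cons (P.lf 0 9638822 0) (P.cons (P.lf 0 953077 0) (P.cons (P.lf 156949 0 0) (P.cons (P.lf 0 166 0) P.nil))))) (P.cons (P.cons (P.lf 0 7305691 0) (P.cons (P.lf 1193414 0 0) (P.cons (P.lf 122291 0 0) (P.cons (P.lf 0 18328 0) P.nil)))) (P.cons (P.cons (P.lf 0 2053297 0) (P.cons (P.lf 201716 0 0) (P.cons (P.lf 19775 0 0) P.nil))) (P.cons (P.cons (P.lf 150927 0 0) (P.cons (P.lf 0 7565 0) P.nil)) (P.cons (P.cons (P.lf 16105 0 0) P.nil) P.nil)))))) 19806)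
 (EL.cons 1 (TM.mk (P.cons (P.cons (P.lf 179062846 0 0) (P.cons (P.lf 0 35410042 0) (P.cons (P.lf 0 2809186 0) (P.cons (P.lf 754839 0 0) (P.cons (P.lf 0 1027 0) (P.cons (P.lf 0 3870 0) P.nil)))))) (P.cons (P.cons (P.lf 70977991 0 0) (P.cons (P.lf 0 11181080 0) (P.cons (P.lf 0 1028171 0) (P.cons (P.lf 201995 0 0) (P.cons (P.lf 0 240 0) P.nil))))) (P.cons (P.cons (P.lf 1786588 0 0) (P.cons (P.lf 0 222288 0) (P.cons (P.lf 0 12731 0) (P.cons (P.lf 6000 0 0) P.nil)))) (P.cons (P.cons (P.lf 0 1569354 0) (P.cons (P.lf 161109 0 0) (P.cons (P.lf 16691 0 0) P.nil))) (P.cons (P.cons (P.lf 0 55850 0) (P.cons (P.lf 11152 0 0) P.nil)) (P.cons (P.cons (P.lf 11566 0 0) P.nil) P.nil)))))) 13576)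
 (EL.cons 5 (TM.mk (P.cons (P.cons (P.lf 134147916 0 0) (P.cons (P.lf 0 26528022 0) (P.cons (P.lf 0 2104548 0) (P.cons (P.lf 565498 0 0) (P.cons (P.lf 0 768 0) (P.cons (P.lf 0 2898 0) P.nil)))))) (P.cons (P.cons (P.lf 68176454 0 0) (P.cons (P.lf 0 11343190 0) (P.cons (P.lf 0 1005628 0) (P.cons (P.lf 214570 0 0) (P.cons (P.lf 0 266 0) P.nil))))) (P.cons (P.cons (P.lf 8454954 0 0) (P.cons (P.lf 0 1334642 0) (P.cons (P.lf 0 114032 0) (P.cons (P.lf 26350 0 0) P.nil)))) (P.cons (P.cons (P.lf 0 459938 0) (P.cons (P.lf 8782 0 0) (P.cons (P.lf 3114 0 0) P.nil))) (P.cons (P.cons (P.lf 0 112118 0) (P.cons (P.lf 12238 0 0) P.nil)) (P.cons (P.cons (P.lf 0 910 0) P.nil) P.nil)))))) 9740)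
 EL.nil)))
noncomputable def S169_183_290_364_6 : EL := (EL.cons 12 (TM.mk (P.lf 8589934592 0 0) 0)
 (EL.cons 3 (TM.mk (P.cons (P.lf 0 2242802763 0) (P.cons (P.lf 153546101 0 0) (P.cons (P.lf 4791341 0 0) (P.cons (P.lf 0 36671 0) (P.cons (P.lf 0 4687 0) (P.cons (P.lf 0 56 0) P.nil)))))) 59)
 (EL.cons 7 (TM.mk (P.cons (P.lf 0 1680233071 0) (P.cons (P.lf 0 72873196 0) (P.cons (P.lf 1800820 0 0) (P.cons (P.lf 94981 0 0) (P.cons (P.lf 308 0 0) (P.cons (P.lf 0 74 0) P.nil)))))) 48)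
 EL.nil)))
noncomputable def S169_183_290_364_7 : EL := (EL.cons 12 (TM.mk (P.cons (P.cons (P.lf 2743956538 0 0) (P.cons (P.lf 0 271311504 0) (P.cons (P.lf 0 34937080 0) (P.lf 2329136 0 0)))) (P.cons (P.cons (P.lf 578256942 0 0) (P.cons (P.lf 0 35301056 0) (P.cons (P.lf 0 4545752 0) (P.lf 303048 0 0)))) (P.cons (P.cons (P.lf 0 24257530 0) (P.cons (P.lf 0 658688 0) (P.cons (P.lf 0 84816 0) (P.lf 5648 0 0)))) (P.cons (P.cons (P.lf 0 2338584 0) (P.cons (P.lf 99544 0 0) (P.cons (P.lf 12808 0 0) P.nil))) (P.cons (P.cons (P.lf 19616 0 0) (P.cons (P.lf 4840 0 0) P.nil)) (P.cons (P.cons (P.lf 5348 0 0) P.nil) P.nil)))))) 2854)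
 (EL.cons 3 (TM.mk (P.cons (P.cons (P.lf 2764720779 0 0) (P.cons (P.lf 0 141677024 0) (P.cons (P.lf 0 18243904 0) (P.lf 1216258 0 0)))) (P.cons (P.cons (P.lf 0 309291928 0) (P.cons (P.lf 0 8734520 0) (P.cons (P.lf 0 1124750 0) (P.lf 74980 0 0)))) (P.cons (P.cons (P.lf 0 34848069 0) (P.cons (P.lf 1220724 0 0) (P.cons (P.lf 157194 0 0) (P.lf 0 10480 0)))) (P.cons (P.cons (P.lf 243183 0 0) (P.cons (P.lf 112592 0 0) (P.cons (P.lf 14490 0 0) P.nil))) (P.cons (P.cons (P.lf 153218 0 0) (P.cons (P.lf 0 892 0) P.nil)) (P.cons (P.cons (P.lf 4014 0 0) P.nil) P.nil)))))) 7425)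
 (EL.cons 7 (TM.mk (P.cons (P.cons (P.lf 0 2188894023 0) (P.cons (P.lf 153930029 0 0) (P.cons (P.lf 19821742 0 0) (P.lf 0 1321450 0)))) (P.cons (P.cons (P.lf 146790377 0 0) (P.cons (P.lf 4145418 0 0) (P.cons (P.lf 533811 0 0) (P.lf 0 35588 0)))) (P.cons (P.cons (P.lf 8330969 0 0) (P.cons (P.lf 0 811152 0) (P.cons (P.lf 0 104450 0) (P.lf 6959 0 0)))) (P.cons (P.cons (P.lf 0 1163230 0) (P.cons (P.lf 0 5014 0) (P.cons (P.lf 0 647 0) P.nil))) (P.cons (P.cons (P.lf 0 39477 0) (P.cons (P.lf 3587 0 0) P.nil)) (P.cons (P.cons (P.lf 3202 0 0) P.nil) P.nil)))))) 5489)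
 (EL.cons 10 (TM.mk (P.cons (P.cons (P.lf 0 1121292183 0) (P.cons (P.lf 0 320103579 0) (P.cons (P.lf 23943231 0 0) (P.cons (P.lf 1613424 0 0) (P.lf 0 80670 0))))) (P.cons (P.cons (P.lf 0 97262868 0) (P.cons (P.lf 0 27766350 0) (P.cons (P.lf 2076876 0 0) (P.cons (P.lf 139950 0 0) (P.lf 0 6996 0))))) (P.cons (P.cons (P.lf 294339 0 0) (P.cons (P.lf 84027 0 0) (P.cons (P.lf 0 6285 0) (P.cons (P.lf 0 423 0) P.nil)))) (P.cons (P.cons (P.lf 231012 0 0) (P.cons (P.lf 65946 0 0) (P.cons (P.lf 0 4932 0) P.nil))) (P.cons (P.cons (P.lf 4620 0 0) (P.cons (P.lf 1317 0 0) P.nil)) (P.cons (P.cons (P.lf 0 216 0) P.nil) P.nil)))))) 759)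
 EL.nil))))
noncomputable def S169_183_290_364_8 : EL := (EL.cons 12 (TM.mk (P.cons (P.cons (P.lf 876525588 0 0) (P.cons (P.lf 0 173334724 0) (P.cons (P.lf 0 13751178 0) (P.cons (P.lf 3694994 0 0) (P.cons (P.lf 0 5034 0) (P.cons (P.lf 0 18946 0) P.nil)))))) (P.cons (P.cons (P.lf 369435156 0 0) (P.cons (P.lf 0 59081316 0) (P.cons (P.lf 0 5378008 0) (P.cons (P.lf 1081502 0 0) (P.cons (P.lf 0 1308 0) P.nil))))) (P.cons (P.cons (P.lf 23429500 0 0) (P.cons (P.lf 0 3641272 0) (P.cons (P.lf 0 282204 0) (P.cons (P.lf 79332 0 0) P.nil)))) (P.cons (P.cons (P.lf 0 4760002 0) (P.cons (P.lf 322016 0 0) (P.cons (P.lf 40586 0 0) P.nil))) (P.cons (P.cons (P.lf 0 233822 0) (P.cons (P.lf 38196 0 0) P.nil)) (P.cons (P.cons (P.lf 19264 0 0) P.nil) P.nil)))))) 32562)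
 (EL.cons 3 (TM.mk (P.cons (P.cons (P.lf 1995174835 0 0) (P.cons (P.lf 0 310417715 0) (P.cons (P.lf 0 28785717 0) (P.cons (P.lf 5546000 0 0) (P.cons (P.lf 0 6571 0) (P.cons (P.lf 0 24730 0) P.nil)))))) (P.cons (P.cons (P.lf 255421481 0 0) (P.cons (P.lf 0 40168500 0) (P.cons (P.lf 0 3027255 0) (P.cons (P.lf 897327 0 0) (P.cons (P.lf 0 1255 0) P.nil))))) (P.cons (P.cons (P.lf 0 80495543 0) (P.cons (P.lf 4925591 0 0) (P.cons (P.lf 654780 0 0) (P.cons (P.lf 0 37008 0) P.nil)))) (P.cons (P.cons (P.lf 0 6158910 0) (P.cons (P.lf 926706 0 0) (P.cons (P.lf 95454 0 0) P.nil))) (P.cons (P.cons (P.lf 521501 0 0) (P.cons (P.lf 7318 0 0) P.nil)) (P.cons (P.cons (P.lf 54993 0 0) P.nil) P.nil)))))) 77715)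
 (EL.cons 7 (TM.mk (P.cons (P.cons (P.lf 0 1226981730 0) (P.cons (P.lf 202708888 0 0) (P.cons (P.lf 18055545 0 0) (P.cons (P.lf 0 3812770 0) (P.cons (P.lf 4722 0 0) (P.cons (P.lf 17787 0 0) P.nil)))))) (P.cons (P.cons (P.lf 0 121223403 0) (P.cons (P.lf 19064030 0 0) (P.cons (P.lf 1436739 0 0) (P.cons (P.lf 0 425875 0) (P.cons (P.lf 592 0 0) P.nil))))) (P.cons (P.cons (P.lf 44981662 0 0) (P.cons (P.lf 0 3403677 0) (P.cons (P.lf 0 391094 0) (P.cons (P.lf 41374 0 0) P.nil)))) (P.cons (P.cons (P.lf 0 78181 0) (P.cons (P.lf 0 241471 0) (P.cons (P.lf 0 20324 0) P.nil))) (P.cons (P.cons (P.lf 0 413954 0) (P.cons (P.lf 27980 0 0) P.nil)) (P.cons (P.cons (P.lf 0 777 0) P.nil) P.nil)))))) 43361)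
 (EL.cons 10 (TM.mk (P.cons (P.cons (P.lf 0 716367972 0) (P.cons (P.lf 0 133675248 0) (P.cons (P.lf 44638668 0 0) (P.cons (P.lf 1514082 0 0) (P.cons (P.lf 0 521808 0) (P.cons (P.lf 4950 0 0) P.nil)))))) (P.cons (P.cons (P.lf 0 213105246 0) (P.cons (P.lf 0 45476580 0) (P.cons (P.lf 10913400 0 0) (P.cons (P.lf 411438 0 0) (P.cons (P.lf 0 117306 0) P.nil))))) (P.cons (P.cons (P.lf 0 6574086 0) (P.cons (P.lf 0 923958 0) (P.cons (P.lf 535068 0 0) (P.cons (P.lf 15960 0 0) P.nil)))) (P.cons (P.cons (P.lf 1347084 0 0) (P.cons (P.lf 356472 0 0) (P.cons (P.lf 0 40392 0) P.nil))) (P.cons (P.cons (P.lf 80226 0 0) (P.cons (P.lf 17148 0 0) P.nil)) (P.cons (P.cons (P.lf 0 2820 0) P.nil) P.nil)))))) 31170)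
 EL.nil))))
noncomputable def S169_183_290_364_9 : EL := (EL.cons 3 (TM.mk (P.cons (P.lf 0 2242802763 0) (P.cons (P.lf 153546101 0 0) (P.cons (P.lf 4791341 0 0) (P.cons (P.lf 0 36671 0) (P.cons (P.lf 0 4687 0) (P.cons (P.lf 0 56 0) P.nil)))))) 59)
 (EL.cons 7 (TM.mk (P.cons (P.lf 0 1680233071 0) (P.cons (P.lf 0 72873196 0) (P.cons (P.lf 1800820 0 0) (P.cons (P.lf 94981 0 0) (P.cons (P.lf 308 0 0) (P.cons (P.lf 0 74 0) P.nil)))))) 48)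
 EL.nil))
noncomputable def S169_183_290_364_10 : EL := (EL.cons 3 (TM.mk (P.cons (P.cons (P.lf 0 716437737 0) (P.cons (P.lf 70838512 0 0) (P.cons (P.lf 9121952 0 0) (P.lf 0 608129 0)))) (P.cons (P.cons (P.lf 0 101932375 0) (P.cons (P.lf 4367260 0 0) (P.cons (P.lf 562375 0 0) (P.lf 0 37490 0)))) (P.cons (P.cons (P.lf 18200508 0 0) (P.cons (P.lf 0 610362 0) (P.cons (P.lf 0 78597 0) (P.lf 5240 0 0)))) (P.cons (P.cons (P.lf 487818 0 0) (P.cons (P.lf 0 56296 0) (P.cons (P.lf 0 7245 0) P.nil))) (P.cons (P.cons (P.lf 0 64420 0) (P.cons (P.lf 446 0 0) P.nil)) (P.cons (P.cons (P.lf 0 2580 0) P.nil) P.nil)))))) 1775)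
 (EL.cons 7 (TM.mk (P.cons (P.cons (P.lf 0 536731272 0) (P.cons (P.lf 53069852 0 0) (P.cons (P.lf 6833863 0 0) (P.lf 0 455590 0)))) (P.cons (P.cons (P.lf 0 136388386 0) (P.cons (P.lf 9206745 0 0) (P.cons (P.lf 1185561 0 0) (P.lf 0 79037 0)))) (P.cons (P.cons (P.lf 414467 0 0) (P.cons (P.lf 371442 0 0) (P.cons (P.lf 47830 0 0) (P.lf 0 3187 0)))) (P.cons (P.cons (P.lf 814796 0 0) (P.cons (P.lf 0 24283 0) (P.cons (P.lf 0 3125 0) P.nil))) (P.cons (P.cons (P.lf 17409 0 0) (P.cons (P.lf 0 2329 0) P.nil)) (P.cons (P.cons (P.lf 0 1973 0) P.nil) P.nil)))))) 1105)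
 EL.nil))
noncomputable def S169_183_290_364_11 : EL := (EL.cons 3 (TM.mk (P.cons (P.cons (P.lf 0 228857855 0) (P.cons (P.lf 45257107 0 0) (P.cons (P.lf 3590385 0 0) (P.cons (P.lf 0 964750 0) (P.cons (P.lf 1313 0 0) (P.cons (P.lf 4946 0 0) P.nil)))))) (P.cons (P.cons (P.lf 0 80790265 0) (P.cons (P.lf 12327552 0 0) (P.cons (P.lf 1158375 0 0) (P.cons (P.lf 0 216327 0) (P.cons (P.lf 251 0 0) P.nil))))) (P.cons (P.cons (P.lf 975247 0 0) (P.cons (P.lf 0 202045 0) (P.cons (P.lf 0 30120 0) (P.cons (P.lf 678 0 0) P.nil)))) (P.cons (P.cons (P.lf 1863948 0 0) (P.cons (P.lf 0 181380 0) (P.cons (P.lf 0 18582 0) P.nil))) (P.cons (P.cons (P.lf 0 13021 0) (P.cons (P.lf 0 5900 0) P.nil)) (P.cons (P.cons (P.lf 0 12171 0) P.nil) P.nil)))))) 14021)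
 (EL.cons 7 (TM.mk (P.cons (P.cons (P.lf 0 171452676 0) (P.cons (P.lf 33905116 0 0) (P.cons (P.lf 2689797 0 0) (P.cons (P.lf 0 722758 0) (P.cons (P.lf 984 0 0) (P.cons (P.lf 3705 0 0) P.nil)))))) (P.cons (P.cons (P.lf 0 79699371 0) (P.cons (P.lf 13027088 0 0) (P.cons (P.lf 1168623 0 0) (P.cons (P.lf 0 242893 0) (P.cons (P.lf 298 0 0) P.nil))))) (P.cons (P.cons (P.lf 0 7533290 0) (P.cons (P.lf 1177131 0 0) (P.cons (P.lf 97942 0 0) (P.cons (P.lf 0 23918 0) P.nil)))) (P.cons (P.cons (P.lf 819455 0 0) (P.cons (P.lf 0 46399 0) (P.cons (P.lf 0 6824 0) P.nil))) (P.cons (P.cons (P.lf 95146 0 0) (P.cons (P.lf 0 11626 0) P.nil)) (P.cons (P.cons (P.lf 0 2517 0) P.nil) P.nil)))))) 9031)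
 EL.nil))
noncomputable def S169_183_290_364_12 : EL := (EL.cons 4 (TM.mk (P.cons (P.lf 2242802763 0 0) (P.cons (P.lf 0 153546101 0) (P.cons (P.lf 0 4791341 0) (P.cons (P.lf 36671 0 0) (P.cons (P.lf 4687 0 0) (P.cons (P.lf 56 0 0) P.nil)))))) 59)
 (EL.cons 8 (TM.mk (P.cons (P.lf 1680233071 0 0) (P.cons (P.lf 72873196 0 0) (P.cons (P.lf 0 1800820 0) (P.cons (P.lf 0 94981 0) (P.cons (P.lf 0 308 0) (P.cons (P.lf 74 0 0) P.nil)))))) 48)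
 EL.nil))
noncomputable def S169_183_290_364_13 : EL := (EL.cons 4 (TM.mk (P.cons (P.cons (P.lf 716437737 0 0) (P.cons (P.lf 0 70838512 0) (P.cons (P.lf 0 9121952 0) (P.lf 608129 0 0)))) (P.cons (P.cons (P.lf 101932375 0 0) (P.cons (P.lf 0 4367260 0) (P.cons (P.lf 0 562375 0) (P.lf 37490 0 0)))) (P.cons (P.cons (P.lf 0 18200508 0) (P.cons (P.lf 610362 0 0) (P.cons (P.lf 78597 0 0) (P.lf 0 5240 0)))) (P.cons (P.cons (P.lf 0 487818 0) (P.cons (P.lf 56296 0 0) (P.cons (P.lf 7245 0 0) P.nil))) (P.cons (P.cons (P.lf 64420 0 0) (P.cons (P.lf 0 446 0) P.nil)) (P.cons (P.cons (P.lf 2580 0 0) P.nil) P.nil)))))) 1775)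
 (EL.cons 8 (TM.mk (P.cons (P.cons (P.lf 536731272 0 0) (P.cons (P.lf 0 53069852 0) (P.cons (P.lf 0 6833863 0) (P.lf 455590 0 0)))) (P.cons (P.cons (P.lf 136388386 0 0) (P.cons (P.lf 0 9206745 0) (P.cons (P.lf 0 1185561 0) (P.lf 79037 0 0)))) (P.cons (P.cons (P.lf 0 414467 0) (P.cons (P.lf 0 371442 0) (P.cons (P.lf 0 47830 0) (P.lf 3187 0 0)))) (P.cons (P.cons (P.lf 0 814796 0) (P.cons (P.lf 24283 0 0) (P.cons (P.lf 3125 0 0) P.nil))) (P.cons (P.cons (P.lf 0 17409 0) (P.cons (P.lf 2329 0 0) P.nil)) (P.cons (P.cons (P.lf 1973 0 0) P.nil) P.nil)))))) 1105)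
 EL.nil))
noncomputable def S169_183_290_364_14 : EL := (EL.cons 4 (TM.mk (P.cons (P.cons (P.lf 228857855 0 0) (P.cons (P.lf 0 45257107 0) (P.cons (P.lf 0 3590385 0) (P.cons (P.lf 964750 0 0) (P.cons (P.lf 0 1313 0) (P.cons (P.lf 0 4946 0) P.nil)))))) (P.cons (P.cons (P.lf 80790265 0 0) (P.cons (P.lf 0 12327552 0) (P.cons (P.lf 0 1158375 0) (P.cons (P.lf 216327 0 0) (P.cons (P.lf 0 251 0) P.nil))))) (P.cons (P.cons (P.lf 0 975247 0) (P.cons (P.lf 202045 0 0) (P.cons (P.lf 30120 0 0) (P.cons (P.lf 0 678 0) P.nil)))) (P.cons (P.cons (P.lf 0 1863948 0) (P.cons (P.lf 181380 0 0) (P.cons (P.lf 18582 0 0) P.nil))) (P.cons (P.cons (P.lf 13021 0 0) (P.cons (P.lf 5900 0 0) P.nil)) (P.cons (P.cons (P.lf 12171 0 0) P.nil) P.nil)))))) 14021)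
 (EL.cons 8 (TM.mk (P.cons (P.cons (P.lf 171452676 0 0) (P.cons (P.lf 0 33905116 0) (P.cons (P.lf 0 2689797 0) (P.cons (P.lf 722758 0 0) (P.cons (P.lf 0 984 0) (P.cons (P.lf 0 3705 0) P.nil)))))) (P.cons (P.cons (P.lf 79699371 0 0) (P.cons (P.lf 0 13027088 0) (P.cons (P.lf 0 1168623 0) (P.cons (P.lf 242893 0 0) (P.cons (P.lf 0 298 0) P.nil))))) (P.cons (P.cons (P.lf 7533290 0 0) (P.cons (P.lf 0 1177131 0) (P.cons (P.lf 0 97942 0) (P.cons (P.lf 23918 0 0) P.nil)))) (P.cons (P.cons (P.lf 0 819455 0) (P.cons (P.lf 46399 0 0) (P.cons (P.lf 6824 0 0) P.nil))) (P.cons (P.cons (P.lf 0 95146 0) (P.cons (P.lf 11626 0 0) P.nil)) (P.cons (P.cons (P.lf 2517 0 0) P.nil) P.nil)))))) 9031)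
 EL.nil))
noncomputable def S169_183_290_364_15 : EL := (EL.cons 4 (TM.mk (P.cons (P.lf 0 1249254801 0) (P.cons (P.lf 171052227 0 0) (P.cons (P.lf 0 517650 0) (P.cons (P.lf 0 406274 0) (P.cons (P.lf 0 8126 0) (P.cons (P.lf 381 0 0) P.nil)))))) 91)
 (EL.cons 8 (TM.mk (P.cons (P.lf 0 935900056 0) (P.cons (P.lf 23482499 0 0) (P.cons (P.lf 5781364 0 0) (P.cons (P.lf 55645 0 0) (P.cons (P.lf 0 8213 0) (P.cons (P.lf 0 257 0) P.nil)))))) 65)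
 EL.nil))
noncomputable def S169_183_290_364_16 : EL := (EL.cons 4 (TM.mk (P.cons (P.cons (P.lf 0 399060183 0) (P.cons (P.lf 39457482 0 0) (P.cons (P.lf 5080982 0 0) (P.lf 0 338730 0)))) (P.cons (P.cons (P.lf 0 29456612 0) (P.cons (P.lf 0 268735 0) (P.cons (P.lf 0 34605 0) (P.lf 2307 0 0)))) (P.cons (P.cons (P.lf 14877360 0 0) (P.cons (P.lf 0 590808 0) (P.cons (P.lf 0 76079 0) (P.lf 5072 0 0)))) (P.cons (P.cons (P.lf 0 307562 0) (P.cons (P.lf 0 12633 0) (P.cons (P.lf 0 1624 0) P.nil))) (P.cons (P.cons (P.lf 0 77904 0) (P.cons (P.lf 3243 0 0) P.nil)) (P.cons (P.cons (P.lf 475 0 0) P.nil) P.nil)))))) 1781)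
 (EL.cons 8 (TM.mk (P.cons (P.cons (P.lf 0 298962587 0) (P.cons (P.lf 29560231 0 0) (P.cons (P.lf 3806503 0 0) (P.lf 0 253766 0)))) (P.cons (P.cons (P.lf 0 55501673 0) (P.cons (P.lf 3104469 0 0) (P.cons (P.lf 399765 0 0) (P.lf 0 26650 0)))) (P.cons (P.cons (P.lf 6070518 0 0) (P.cons (P.lf 0 207340 0) (P.cons (P.lf 0 26699 0) (P.lf 1780 0 0)))) (P.cons (P.cons (P.lf 595447 0 0) (P.cons (P.lf 0 38162 0) (P.cons (P.lf 0 4912 0) P.nil))) (P.cons (P.cons (P.lf 0 23734 0) (P.cons (P.lf 0 668 0) P.nil)) (P.cons (P.cons (P.lf 0 2895 0) P.nil) P.nil)))))) 1255)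
 EL.nil))
noncomputable def S169_183_290_364_17 : EL := (EL.cons 4 (TM.mk (P.cons (P.cons (P.lf 0 127475219 0) (P.cons (P.lf 25208484 0 0) (P.cons (P.lf 1999866 0 0) (P.cons (P.lf 0 537371 0) (P.cons (P.lf 731 0 0) (P.cons (P.lf 2755 0 0) P.nil)))))) (P.cons (P.cons (P.lf 0 36273498 0) (P.cons (P.lf 5140705 0 0) (P.cons (P.lf 508307 0 0) (P.cons (P.lf 0 83706 0) (P.cons (P.lf 89 0 0) P.nil))))) (P.cons (P.cons (P.lf 3896369 0 0) (P.cons (P.lf 0 636487 0) (P.cons (P.lf 0 65221 0) (P.cons (P.lf 9775 0 0) P.nil)))) (P.cons (P.cons (P.lf 1095091 0 0) (P.cons (P.lf 0 107581 0) (P.cons (P.lf 0 10546 0) P.nil))) (P.cons (P.cons (P.lf 0 80494 0) (P.cons (P.lf 4035 0 0) P.nil)) (P.cons (P.cons (P.lf 0 8589 0) P.nil) P.nil)))))) 10573)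
 (EL.cons 8 (TM.mk (P.cons (P.cons (P.lf 0 95500185 0) (P.cons (P.lf 18885356 0 0) (P.cons (P.lf 1498233 0 0) (P.cons (P.lf 0 402581 0) (P.cons (P.lf 548 0 0) (P.cons (P.lf 2064 0 0) P.nil)))))) (P.cons (P.cons (P.lf 0 37854929 0) (P.cons (P.lf 5963243 0 0) (P.cons (P.lf 548358 0 0) (P.cons (P.lf 0 107731 0) (P.cons (P.lf 128 0 0) P.nil))))) (P.cons (P.cons (P.lf 0 952847 0) (P.cons (P.lf 118554 0 0) (P.cons (P.lf 6790 0 0) (P.cons (P.lf 0 3200 0) P.nil)))) (P.cons (P.cons (P.lf 836989 0 0) (P.cons (P.lf 0 85925 0) (P.cons (P.lf 0 8902 0) P.nil))) (P.cons (P.cons (P.lf 29787 0 0) (P.cons (P.lf 0 5948 0) P.nil)) (P.cons (P.cons (P.lf 0 6169 0) P.nil) P.nil)))))) 7229)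
 EL.nil))
noncomputable def S169_183_290_364_18 : EL := (EL.cons 4 (TM.mk (P.cons (P.lf 695842534 0 0) (P.cons (P.lf 0 142915698 0) (P.cons (P.lf 5324627 0 0) (P.cons (P.lf 421476 0 0) (P.cons (P.lf 0 11685 0) (P.cons (P.lf 0 1182 0) P.nil)))))) 113)
 (EL.cons 8 (TM.mk (P.cons (P.lf 521302032 0 0) (P.cons (P.lf 0 48769121 0) (P.cons (P.lf 0 3438450 0) (P.cons (P.lf 225935 0 0) (P.cons (P.lf 14451 0 0) (P.cons (P.lf 0 170 0) P.nil)))))) 84)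
 EL.nil))
noncomputable def S169_183_290_364_19 : EL := (EL.cons 4 (TM.mk (P.cons (P.cons (P.lf 222278953 0 0) (P.cons (P.lf 0 21978058 0) (P.cons (P.lf 0 2830138 0) (P.lf 188675 0 0)))) (P.cons (P.cons (P.lf 1189916 0 0) (P.cons (P.lf 1654342 0 0) (P.cons (P.lf 213030 0 0) (P.lf 0 14202 0)))) (P.cons (P.cons (P.lf 0 9884925 0) (P.cons (P.lf 365788 0 0) (P.cons (P.lf 47102 0 0) (P.lf 0 3140 0)))) (P.cons (P.cons (P.lf 707223 0 0) (P.cons (P.lf 0 16170 0) (P.cons (P.lf 0 2083 0) P.nil))) (P.cons (P.cons (P.lf 50100 0 0) (P.cons (P.lf 0 3034 0) P.nil)) (P.cons (P.cons (P.lf 0 3696 0) P.nil) P.nil)))))) 1955)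
 (EL.cons 8 (TM.mk (P.cons (P.cons (P.lf 166523982 0 0) (P.cons (P.lf 0 16465228 0) (P.cons (P.lf 0 2120245 0) (P.lf 141349 0 0)))) (P.cons (P.cons (P.lf 19514254 0 0) (P.cons (P.lf 0 601970 0) (P.cons (P.lf 0 77516 0) (P.lf 5167 0 0)))) (P.cons (P.cons (P.lf 0 5853541 0) (P.cons (P.lf 269049 0 0) (P.cons (P.lf 34645 0 0) (P.lf 0 2310 0)))) (P.cons (P.cons (P.lf 0 163498 0) (P.cons (P.lf 16775 0 0) (P.cons (P.lf 2159 0 0) P.nil))) (P.cons (P.cons (P.lf 44003 0 0) (P.cons (P.lf 0 1392 0) P.nil)) (P.cons (P.cons (P.lf 1430 0 0) P.nil) P.nil)))))) 1099)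
 EL.nil))
noncomputable def S169_183_290_364_20 : EL := (EL.cons 4 (TM.mk (P.cons (P.cons (P.lf 71004473 0 0) (P.cons (P.lf 0 14041278 0) (P.cons (P.lf 0 1113937 0) (P.cons (P.lf 299319 0 0) (P.cons (P.lf 0 406 0) (P.cons (P.lf 0 1534 0) P.nil)))))) (P.cons (P.cons (P.lf 15343472 0 0) (P.cons (P.lf 0 1902114 0) (P.cons (P.lf 0 206867 0) (P.cons (P.lf 26132 0 0) (P.cons (P.lf 0 21 0) P.nil))))) (P.cons (P.cons (P.lf 0 3705227 0) (P.cons (P.lf 580557 0 0) (P.cons (P.lf 58092 0 0) (P.cons (P.lf 0 9276 0) P.nil)))) (P.cons (P.cons (P.lf 0 503392 0) (P.cons (P.lf 41539 0 0) (P.cons (P.lf 3974 0 0) P.nil))) (P.cons (P.cons (P.lf 91710 0 0) (P.cons (P.lf 0 7183 0) P.nil)) (P.cons (P.cons (P.lf 3026 0 0) P.nil) P.nil)))))) 9076)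
 (EL.cons 8 (TM.mk (P.cons (P.cons (P.lf 53194184 0 0) (P.cons (P.lf 0 10519258 0) (P.cons (P.lf 0 834525 0) (P.cons (P.lf 224239 0 0) (P.cons (P.lf 0 305 0) (P.cons (P.lf 0 1149 0) P.nil)))))) (P.cons (P.cons (P.lf 17443661 0 0) (P.cons (P.lf 0 2601396 0) (P.cons (P.lf 0 248306 0) (P.cons (P.lf 44655 0 0) (P.cons (P.lf 0 50 0) P.nil))))) (P.cons (P.cons (P.lf 0 1026442 0) (P.cons (P.lf 183836 0 0) (P.cons (P.lf 18911 0 0) (P.cons (P.lf 0 2804 0) P.nil)))) (P.cons (P.cons (P.lf 0 546718 0) (P.cons (P.lf 59305 0 0) (P.cons (P.lf 5856 0 0) P.nil))) (P.cons (P.cons (P.lf 14647 0 0) (P.cons (P.lf 101 0 0) P.nil)) (P.cons (P.cons (P.lf 5622 0 0) P.nil) P.nil)))))) 5515)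
 EL.nil))
noncomputable def S169_183_290_364_21 : EL := (EL.cons 4 (TM.mk (P.cons (P.cons (P.lf 0 3481158516 0) (P.cons (P.lf 212515536 0 0) (P.cons (P.lf 27365856 0 0) (P.lf 0 1824387 0)))) (P.cons (P.cons (P.lf 207359553 0 0) (P.cons (P.lf 13101780 0 0) (P.cons (P.lf 1687125 0 0) (P.lf 0 112470 0)))) (P.cons (P.cons (P.lf 53048577 0 0) (P.cons (P.lf 0 1831086 0) (P.cons (P.lf 0 235791 0) (P.lf 15720 0 0)))) (P.cons (P.cons (P.lf 244635 0 0) (P.cons (P.lf 0 168888 0) (P.cons (P.lf 0 21735 0) P.nil))) (P.cons (P.cons (P.lf 0 217638 0) (P.cons (P.lf 1338 0 0) P.nil)) (P.cons (P.cons (P.lf 0 6594 0) P.nil) P.nil)))))) 5631)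
 (EL.cons 8 (TM.mk (P.cons (P.cons (P.lf 1652162751 0 0) (P.cons (P.lf 0 100860177 0) (P.cons (P.lf 0 12987879 0) (P.lf 865860 0 0)))) (P.cons (P.cons (P.lf 0 283178763 0) (P.cons (P.lf 5061327 0 0) (P.cons (P.lf 651750 0 0) (P.lf 0 43449 0)))) (P.cons (P.cons (P.lf 0 7916502 0) (P.cons (P.lf 1182594 0 0) (P.cons (P.lf 152280 0 0) (P.lf 0 10146 0)))) (P.cons (P.cons (P.lf 1978026 0 0) (P.cons (P.lf 0 19269 0) (P.cons (P.lf 0 2478 0) P.nil))) (P.cons (P.cons (P.lf 56886 0 0) (P.cons (P.lf 0 5916 0) P.nil)) (P.cons (P.cons (P.lf 0 5175 0) P.nil) P.nil)))))) 4365)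
 (EL.cons 11 (TM.mk (P.cons (P.cons (P.lf 1121292183 0 0) (P.cons (P.lf 320103579 0 0) (P.cons (P.lf 0 23943231 0) (P.cons (P.lf 0 1613424 0) (P.lf 80670 0 0))))) (P.cons (P.cons (P.lf 97262868 0 0) (P.cons (P.lf 27766350 0 0) (P.cons (P.lf 0 2076876 0) (P.cons (P.lf 0 139950 0) (P.lf 6996 0 0))))) (P.cons (P.cons (P.lf 0 294339 0) (P.cons (P.lf 0 84027 0) (P.cons (P.lf 6285 0 0) (P.cons (P.lf 423 0 0) P.nil)))) (P.cons (P.cons (P.lf 0 231012 0) (P.cons (P.lf 0 65946 0) (P.cons (P.lf 4932 0 0) P.nil))) (P.cons (P.cons (P.lf 0 4620 0) (P.cons (P.lf 0 1317 0) P.nil)) (P.cons (P.cons (P.lf 216 0 0) P.nil) P.nil)))))) 759)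
 EL.nil)))
noncomputable def S169_183_290_364_22 : EL := (EL.cons 4 (TM.mk (P.cons (P.cons (P.lf 0 1112016345 0) (P.cons (P.lf 177837411 0 0) (P.cons (P.lf 16188051 0 0) (P.cons (P.lf 0 3255375 0) (P.cons (P.lf 3942 0 0) (P.cons (P.lf 14838 0 0) P.nil)))))) (P.cons (P.cons (P.lf 0 168105873 0) (P.cons (P.lf 26248026 0 0) (P.cons (P.lf 2092815 0 0) (P.cons (P.lf 0 556827 0) (P.cons (P.lf 753 0 0) P.nil))))) (P.cons (P.cons (P.lf 40735395 0 0) (P.cons (P.lf 0 2563818 0) (P.cons (P.lf 0 342450 0) (P.cons (P.lf 18843 0 0) P.nil)))) (P.cons (P.cons (P.lf 4011429 0 0) (P.cons (P.lf 0 554043 0) (P.cons (P.lf 0 57018 0) P.nil))) (P.cons (P.cons (P.lf 0 267261 0) (P.cons (P.lf 0 6609 0) P.nil)) (P.cons (P.cons (P.lf 0 33582 0) P.nil) P.nil)))))) 31836)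
 (EL.cons 8 (TM.mk (P.cons (P.cons (P.lf 527764527 0 0) (P.cons (P.lf 0 84401886 0) (P.cons (P.lf 0 7682874 0) (P.cons (P.lf 1545006 0 0) (P.cons (P.lf 0 1869 0) (P.cons (P.lf 0 7041 0) P.nil)))))) (P.cons (P.cons (P.lf 20762016 0 0) (P.cons (P.lf 0 3018471 0) (P.cons (P.lf 0 134058 0) (P.cons (P.lf 91491 0 0) (P.cons (P.lf 0 147 0) P.nil))))) (P.cons (P.cons (P.lf 0 26257476 0) (P.cons (P.lf 2290404 0 0) (P.cons (P.lf 244518 0 0) (P.cons (P.lf 0 32646 0) P.nil)))) (P.cons (P.cons (P.lf 448818 0 0) (P.cons (P.lf 97536 0 0) (P.cons (P.lf 6750 0 0) P.nil))) (P.cons (P.cons (P.lf 254550 0 0) (P.cons (P.lf 0 19803 0) P.nil)) (P.cons (P.cons (P.lf 0 870 0) P.nil) P.nil)))))) 17154)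
 (EL.cons 11 (TM.mk (P.cons (P.cons (P.lf 358183986 0 0) (P.cons (P.lf 66837624 0 0) (P.cons (P.lf 0 22319334 0) (P.cons (P.lf 0 757041 0) (P.cons (P.lf 260904 0 0) (P.cons (P.lf 0 2475 0) P.nil)))))) (P.cons (P.cons (P.lf 106552623 0 0) (P.cons (P.lf 22738290 0 0) (P.cons (P.lf 0 5456700 0) (P.cons (P.lf 0 205719 0) (P.cons (P.lf 58653 0 0) P.nil))))) (P.cons (P.cons (P.lf 3287043 0 0) (P.cons (P.lf 461979 0 0) (P.cons (P.lf 0 267534 0) (P.cons (P.lf 0 7980 0) P.nil)))) (P.cons (P.cons (P.lf 0 673542 0) (P.cons (P.lf 0 178236 0) (P.cons (P.lf 20196 0 0) P.nil))) (P.cons (P.cons (P.lf 0 40113 0) (P.cons (P.lf 0 8574 0) P.nil)) (P.cons (P.cons (P.lf 1410 0 0) P.nil) P.nil)))))) 15585)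
 EL.nil)))
noncomputable def S169_183_290_364_23 : EL := (EL.cons 4 (TM.mk (P.cons (P.cons (P.lf 1939026498 0 0) (P.cons (P.lf 0 118372446 0) (P.cons (P.lf 0 15242946 0) (P.lf 1016193 0 0)))) (P.cons (P.cons (P.lf 0 248249592 0) (P.cons (P.lf 806208 0 0) (P.cons (P.lf 103818 0 0) (P.lf 0 6921 0)))) (P.cons (P.cons (P.lf 0 25783395 0) (P.cons (P.lf 1772424 0 0) (P.cons (P.lf 228234 0 0) (P.lf 0 15213 0)))) (P.cons (P.cons (P.lf 2165118 0 0) (P.cons (P.lf 37899 0 0) (P.cons (P.lf 4872 0 0) P.nil))) (P.cons (P.cons (P.lf 195843 0 0) (P.cons (P.lf 0 9729 0) P.nil)) (P.cons (P.cons (P.lf 0 5010 0) P.nil) P.nil)))))) 6306)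
 (EL.cons 8 (TM.mk (P.cons (P.cons (P.lf 0 920264715 0) (P.cons (P.lf 56179731 0 0) (P.cons (P.lf 7234326 0 0) (P.lf 0 482289 0)))) (P.cons (P.cons (P.lf 220735185 0 0) (P.cons (P.lf 0 6665349 0) (P.cons (P.lf 0 858303 0) (P.lf 57219 0 0)))) (P.cons (P.cons (P.lf 0 4423101 0) (P.cons (P.lf 0 585723 0) (P.cons (P.lf 0 75420 0) (P.lf 5022 0 0)))) (P.cons (P.cons (P.lf 0 1755669 0) (P.cons (P.lf 62769 0 0) (P.cons (P.lf 8079 0 0) P.nil))) (P.cons (P.cons (P.lf 34977 0 0) (P.cons (P.lf 4038 0 0) P.nil)) (P.cons (P.cons (P.lf 7782 0 0) P.nil) P.nil)))))) 4029)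
 (EL.cons 11 (TM.mk (P.cons (P.cons (P.lf 0 624566574 0) (P.cons (P.lf 0 178299642 0) (P.cons (P.lf 13336524 0 0) (P.cons (P.lf 898686 0 0) (P.lf 0 44931 0))))) (P.cons (P.cons (P.lf 0 11417115 0) (P.cons (P.lf 0 3259326 0) (P.cons (P.lf 243789 0 0) (P.cons (P.lf 16425 0 0) (P.lf 0 819 0))))) (P.cons (P.cons (P.lf 5207202 0 0) (P.cons (P.lf 1486536 0 0) (P.cons (P.lf 0 111189 0) (P.cons (P.lf 0 7491 0) P.nil)))) (P.cons (P.cons (P.lf 222975 0 0) (P.cons (P.lf 63651 0 0) (P.cons (P.lf 0 4758 0) P.nil))) (P.cons (P.cons (P.lf 0 8775 0) (P.cons (P.lf 0 2505 0) P.nil)) (P.cons (P.cons (P.lf 0 696 0) P.nil) P.nil)))))) 1545)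
 EL.nil)))
noncomputable def S169_183_290_364_24 : EL := (EL.cons 4 (TM.mk (P.cons (P.cons (P.lf 619399875 0 0) (P.cons (P.lf 0 99056520 0) (P.cons (P.lf 0 9016842 0) (P.cons (P.lf 1813263 0 0) (P.cons (P.lf 0 2196 0) (P.cons (P.lf 0 8265 0) P.nil)))))) (P.cons (P.cons (P.lf 51230823 0 0) (P.cons (P.lf 0 7838730 0) (P.cons (P.lf 0 548400 0) (P.cons (P.lf 186015 0 0) (P.cons (P.lf 0 270 0) P.nil))))) (P.cons (P.cons (P.lf 0 30423579 0) (P.cons (P.lf 2640609 0 0) (P.cons (P.lf 289815 0 0) (P.cons (P.lf 0 35601 0) P.nil)))) (P.cons (P.cons (P.lf 0 870912 0) (P.cons (P.lf 240453 0 0) (P.cons (P.lf 21042 0 0) P.nil))) (P.cons (P.cons (P.lf 353133 0 0) (P.cons (P.lf 0 20940 0) P.nil)) (P.cons (P.cons (P.lf 13128 0 0) P.nil) P.nil)))))) 22653)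
 (EL.cons 8 (TM.mk (P.cons (P.cons (P.lf 0 293968056 0) (P.cons (P.lf 47012364 0 0) (P.cons (P.lf 4279407 0 0) (P.cons (P.lf 0 860577 0) (P.cons (P.lf 1041 0 0) (P.cons (P.lf 3921 0 0) P.nil)))))) (P.cons (P.cons (P.lf 8560983 0 0) (P.cons (P.lf 0 1537239 0) (P.cons (P.lf 0 218301 0) (P.cons (P.lf 7953 0 0) (P.cons (P.lf 9 0 0) P.nil))))) (P.cons (P.cons (P.lf 16045311 0 0) (P.cons (P.lf 0 1491306 0) (P.cons (P.lf 0 150450 0) (P.cons (P.lf 23511 0 0) P.nil)))) (P.cons (P.cons (P.lf 0 1231386 0) (P.cons (P.lf 30186 0 0) (P.cons (P.lf 5472 0 0) P.nil))) (P.cons (P.cons (P.lf 0 156717 0) (P.cons (P.lf 17601 0 0) P.nil)) (P.cons (P.cons (P.lf 10932 0 0) P.nil) P.nil)))))) 11532)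
 (EL.cons 11 (TM.mk (P.cons (P.cons (P.lf 0 199510662 0) (P.cons (P.lf 0 37228965 0) (P.cons (P.lf 12432006 0 0) (P.cons (P.lf 421674 0 0) (P.cons (P.lf 0 145326 0) (P.cons (P.lf 1380 0 0) P.nil)))))) (P.cons (P.cons (P.lf 0 45691620 0) (P.cons (P.lf 0 10116606 0) (P.cons (P.lf 2188299 0 0) (P.cons (P.lf 85719 0 0) (P.cons (P.lf 0 22722 0) P.nil))))) (P.cons (P.cons (P.lf 2658546 0 0) (P.cons (P.lf 689298 0 0) (P.cons (P.lf 0 85623 0) (P.cons (P.lf 0 4299 0) P.nil)))) (P.cons (P.cons (P.lf 624042 0 0) (P.cons (P.lf 143343 0 0) (P.cons (P.lf 0 27741 0) P.nil))) (P.cons (P.cons (P.lf 0 816 0) (P.cons (P.lf 0 1755 0) P.nil)) (P.cons (P.cons (P.lf 0 3273 0) P.nil) P.nil)))))) 11550)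
 EL.nil)))
noncomputable def S169_183_290_364_25 : EL := (EL.cons 4 (TM.mk (P.cons (P.cons (P.lf 0 1080049572 0) (P.cons (P.lf 65934174 0 0) (P.cons (P.lf 8490414 0 0) (P.lf 0 566025 0)))) (P.cons (P.cons (P.lf 212218569 0 0) (P.cons (P.lf 0 4963026 0) (P.cons (P.lf 0 639096 0) (P.lf 42606 0 0)))) (P.cons (P.cons (P.lf 7202190 0 0) (P.cons (P.lf 0 1097364 0) (P.cons (P.lf 0 141306 0) (P.lf 9420 0 0)))) (P.cons (P.cons (P.lf 0 2502258 0) (P.cons (P.lf 48513 0 0) (P.cons (P.lf 6249 0 0) P.nil))) (P.cons (P.cons (P.lf 0 57198 0) (P.cons (P.lf 9105 0 0) P.nil)) (P.cons (P.cons (P.lf 13332 0 0) P.nil) P.nil)))))) 5049)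
 (EL.cons 8 (TM.mk (P.cons (P.cons (P.lf 512593053 0 0) (P.cons (P.lf 0 31292451 0) (P.cons (P.lf 0 4029564 0) (P.lf 268638 0 0)))) (P.cons (P.cons (P.lf 0 158043837 0) (P.cons (P.lf 5854974 0 0) (P.cons (P.lf 753948 0 0) (P.lf 0 50262 0)))) (P.cons (P.cons (P.lf 9786057 0 0) (P.cons (P.lf 138927 0 0) (P.cons (P.lf 17886 0 0) (P.lf 0 1188 0)))) (P.cons (P.cons (P.lf 1080291 0 0) (P.cons (P.lf 0 65742 0) (P.cons (P.lf 0 8463 0) P.nil))) (P.cons (P.cons (P.lf 0 92634 0) (P.cons (P.lf 0 555 0) P.nil)) (P.cons (P.cons (P.lf 0 5292 0) P.nil) P.nil)))))) 3288)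
 (EL.cons 11 (TM.mk (P.cons (P.cons (P.lf 347887386 0 0) (P.cons (P.lf 99313986 0 0) (P.cons (P.lf 0 7428525 0) (P.cons (P.lf 0 500574 0) (P.lf 25026 0 0))))) (P.cons (P.cons (P.lf 0 17457558 0) (P.cons (P.lf 0 4983738 0) (P.cons (P.lf 372774 0 0) (P.cons (P.lf 25119 0 0) (P.lf 0 1254 0))))) (P.cons (P.cons (P.lf 0 4079016 0) (P.cons (P.lf 0 1164465 0) (P.cons (P.lf 87099 0 0) (P.cons (P.lf 5868 0 0) P.nil)))) (P.cons (P.cons (P.lf 66471 0 0) (P.cons (P.lf 18975 0 0) (P.cons (P.lf 0 1419 0) P.nil))) (P.cons (P.cons (P.lf 20418 0 0) (P.cons (P.lf 5829 0 0) P.nil)) (P.cons (P.cons (P.lf 291 0 0) P.nil) P.nil)))))) 1587)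
 EL.nil)))
noncomputable def S169_183_290_364_26 : EL := (EL.cons 4 (TM.mk (P.cons (P.cons (P.lf 0 345009504 0) (P.cons (P.lf 55175085 0 0) (P.cons (P.lf 5022435 0 0) (P.cons (P.lf 0 1009998 0) (P.cons (P.lf 1221 0 0) (P.cons (P.lf 4602 0 0) P.nil)))))) (P.cons (P.cons (P.lf 0 4915941 0) (P.cons (P.lf 588840 0 0) (P.cons (P.lf 0 38379 0) (P.cons (P.lf 0 34467 0) (P.cons (P.lf 66 0 0) P.nil))))) (P.cons (P.cons (P.lf 19636782 0 0) (P.cons (P.lf 0 1887624 0) (P.cons (P.lf 0 193071 0) (P.cons (P.lf 29082 0 0) P.nil)))) (P.cons (P.cons (P.lf 0 619734 0) (P.cons (P.lf 0 41661 0) (P.cons (P.lf 0 1239 0) P.nil))) (P.cons (P.cons (P.lf 0 267297 0) (P.cons (P.lf 24162 0 0) P.nil)) (P.cons (P.cons (P.lf 5325 0 0) P.nil) P.nil)))))) 14742)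
 (EL.cons 8 (TM.mk (P.cons (P.cons (P.lf 163741998 0 0) (P.cons (P.lf 0 26186172 0) (P.cons (P.lf 0 2383656 0) (P.cons (P.lf 479346 0 0) (P.cons (P.lf 0 579 0) (P.cons (P.lf 0 2184 0) P.nil)))))) (P.cons (P.cons (P.lf 0 15978576 0) (P.cons (P.lf 2649000 0 0) (P.cons (P.lf 284784 0 0) (P.cons (P.lf 0 37248 0) (P.cons (P.lf 33 0 0) P.nil))))) (P.cons (P.cons (P.lf 0 8960679 0) (P.cons (P.lf 827988 0 0) (P.cons (P.lf 80568 0 0) (P.cons (P.lf 0 13815 0) P.nil)))) (P.cons (P.cons (P.lf 1310619 0 0) (P.cons (P.lf 0 75939 0) (P.cons (P.lf 0 9084 0) P.nil))) (P.cons (P.cons (P.lf 59691 0 0) (P.cons (P.lf 0 10467 0) P.nil)) (P.cons (P.cons (P.lf 0 13683 0) P.nil) P.nil)))))) 7332)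
 (EL.cons 11 (TM.mk (P.cons (P.cons (P.lf 111128652 0 0) (P.cons (P.lf 20736759 0 0) (P.cons (P.lf 0 6924702 0) (P.cons (P.lf 0 234876 0) (P.cons (P.lf 80946 0 0) (P.cons (P.lf 0 768 0) P.nil)))))) (P.cons (P.cons (P.lf 17842452 0 0) (P.cons (P.lf 4215336 0 0) (P.cons (P.lf 0 744819 0) (P.cons (P.lf 0 31665 0) (P.cons (P.lf 7113 0 0) P.nil))))) (P.cons (P.cons (P.lf 0 3460617 0) (P.cons (P.lf 0 814026 0) (P.cons (P.lf 145932 0 0) (P.cons (P.lf 6165 0 0) P.nil)))) (P.cons (P.cons (P.lf 0 298767 0) (P.cons (P.lf 0 65256 0) (P.cons (P.lf 14676 0 0) P.nil))) (P.cons (P.cons (P.lf 28062 0 0) (P.cons (P.lf 7398 0 0) P.nil)) (P.cons (P.cons (P.lf 2568 0 0) P.nil) P.nil)))))) 7608)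
 EL.nil)))
noncomputable def S169_183_290_364_27 : EL := (EL.cons 13 (TM.mk (P.lf 0 4294967296 0) 0)
 EL.nil)
noncomputable def S169_183_290_364_28 : EL := (EL.cons 13 (TM.mk (P.cons (P.cons (P.lf 0 1371978269 0) (P.cons (P.lf 135655752 0 0) (P.cons (P.lf 17468540 0 0) (P.lf 0 1164568 0)))) (P.cons (P.cons (P.lf 0 289128471 0) (P.cons (P.lf 17650528 0 0) (P.cons (P.lf 2272876 0 0) (P.lf 0 151524 0)))) (P.cons (P.cons (P.lf 12128765 0 0) (P.cons (P.lf 329344 0 0) (P.cons (P.lf 42408 0 0) (P.lf 0 2824 0)))) (P.cons (P.cons (P.lf 1169292 0 0) (P.cons (P.lf 0 49772 0) (P.cons (P.lf 0 6404 0) P.nil))) (P.cons (P.cons (P.lf 0 9808 0) (P.cons (P.lf 0 2420 0) P.nil)) (P.cons (P.cons (P.lf 0 2674 0) P.nil) P.nil)))))) 1427)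
 EL.nil)
noncomputable def S169_183_290_364_29 : EL := (EL.cons 13 (TM.mk (P.cons (P.cons (P.lf 0 438262794 0) (P.cons (P.lf 86667362 0 0) (P.cons (P.lf 6875589 0 0) (P.cons (P.lf 0 1847497 0) (P.cons (P.lf 2517 0 0) (P.cons (P.lf 9473 0 0) P.nil)))))) (P.cons (P.cons (P.lf 0 184717578 0) (P.cons (P.lf 29540658 0 0) (P.cons (P.lf 2689004 0 0) (P.cons (P.lf 0 540751 0) (P.cons (P.lf 654 0 0) P.nil))))) (P.cons (P.cons (P.lf 0 11714750 0) (P.cons (P.lf 1820636 0 0) (P.cons (P.lf 141102 0 0) (P.cons (P.lf 0 39666 0) P.nil)))) (P.cons (P.cons (P.lf 2380001 0 0) (P.cons (P.lf 0 161008 0) (P.cons (P.lf 0 20293 0) P.nil))) (P.cons (P.cons (P.lf 116911 0 0) (P.cons (P.lf 0 19098 0) P.nil)) (P.cons (P.cons (P.lf 0 9632 0) P.nil) P.nil)))))) 16281)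
 EL.nil)
noncomputable def S169_183_290_364_30 : EL := (EL.cons 13 (TM.mk (P.cons (P.lf 2392322948 0 0) (P.cons (P.lf 0 163782508 0) (P.cons (P.lf 0 5110764 0) (P.cons (P.lf 39116 0 0) (P.cons (P.lf 5000 0 0) (P.cons (P.lf 60 0 0) P.nil)))))) 56)
 EL.nil)
noncomputable def S169_183_290_364_31 : EL := (EL.cons 13 (TM.mk (P.cons (P.cons (P.lf 764200253 0 0) (P.cons (P.lf 0 75561080 0) (P.cons (P.lf 0 9730083 0) (P.lf 648671 0 0)))) (P.cons (P.cons (P.lf 108727867 0 0) (P.cons (P.lf 0 4658411 0) (P.cons (P.lf 0 599867 0) (P.lf 39990 0 0)))) (P.cons (P.cons (P.lf 0 19413876 0) (P.cons (P.lf 651053 0 0) (P.cons (P.lf 83837 0 0) (P.lf 0 5590 0)))) (P.cons (P.cons (P.lf 0 520340 0) (P.cons (P.lf 60050 0 0) (P.cons (P.lf 7729 0 0) P.nil))) (P.cons (P.cons (P.lf 68715 0 0) (P.cons (P.lf 0 476 0) P.nil)) (P.cons (P.cons (P.lf 2752 0 0) P.nil) P.nil)))))) 1874)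
 EL.nil)
noncomputable def S169_183_290_364_32 : EL := (EL.cons 13 (TM.mk (P.cons (P.cons (P.lf 244115046 0 0) (P.cons (P.lf 0 48274248 0) (P.cons (P.lf 0 3829744 0) (P.cons (P.lf 1029067 0 0) (P.cons (P.lf 0 1401 0) (P.cons (P.lf 0 5276 0) P.nil)))))) (P.cons (P.cons (P.lf 86176283 0 0) (P.cons (P.lf 0 13149389 0) (P.cons (P.lf 0 1235600 0) (P.cons (P.lf 230749 0 0) (P.cons (P.lf 0 268 0) P.nil))))) (P.cons (P.cons (P.lf 0 1040264 0) (P.cons (P.lf 215515 0 0) (P.cons (P.lf 32128 0 0) (P.cons (P.lf 0 724 0) P.nil)))) (P.cons (P.cons (P.lf 0 1988212 0) (P.cons (P.lf 193472 0 0) (P.cons (P.lf 19821 0 0) P.nil))) (P.cons (P.cons (P.lf 13890 0 0) (P.cons (P.lf 6294 0 0) P.nil)) (P.cons (P.cons (P.lf 12983 0 0) P.nil) P.nil)))))) 14933)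
 EL.nil)
noncomputable def S169_183_290_364_33 : EL := (EL.cons 14 (TM.mk (P.lf 8589934592 0 0) 0)
 EL.nil)
noncomputable def S169_183_290_364_34 : EL := (EL.cons 14 (TM.mk (P.cons (P.cons (P.lf 2743956538 0 0) (P.cons (P.lf 0 271311504 0) (P.cons (P.lf 0 34937080 0) (P.lf 2329136 0 0)))) (P.cons (P.cons (P.lf 578256942 0 0) (P.cons (P.lf 0 35301056 0) (P.cons (P.lf 0 4545752 0) (P.lf 303048 0 0)))) (P.cons (P.cons (P.lf 0 24257530 0) (P.cons (P.lf 0 658688 0) (P.cons (P.lf 0 84816 0) (P.lf 5648 0 0)))) (P.cons (P.cons (P.lf 0 2338584 0) (P.cons (P.lf 99544 0 0) (P.cons (P.lf 12808 0 0) P.nil))) (P.cons (P.cons (P.lf 19616 0 0) (P.cons (P.lf 4840 0 0) P.nil)) (P.cons (P.cons (P.lf 5348 0 0) P.nil) P.nil)))))) 2854)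
 EL.nil)
noncomputable def S169_183_290_364_35 : EL := (EL.cons 14 (TM.mk (P.cons (P.cons (P.lf 876525588 0 0) (P.cons (P.lf 0 173334724 0) (P.cons (P.lf 0 13751178 0) (P.cons (P.lf 3694994 0 0) (P.cons (P.lf 0 5034 0) (P.cons (P.lf 0 18946 0) P.nil)))))) (P.cons (P.cons (P.lf 369435156 0 0) (P.cons (P.lf 0 59081316 0) (P.cons (P.lf 0 5378008 0) (P.cons (P.lf 1081502 0 0) (P.cons (P.lf 0 1308 0) P.nil))))) (P.cons (P.cons (P.lf 23429500 0 0) (P.cons (P.lf 0 3641272 0) (P.cons (P.lf 0 282204 0) (P.cons (P.lf 79332 0 0) P.nil)))) (P.cons (P.cons (P.lf 0 4760002 0) (P.cons (P.lf 322016 0 0) (P.cons (P.lf 40586 0 0) P.nil))) (P.cons (P.cons (P.lf 0 233822 0) (P.cons (P.lf 38196 0 0) P.nil)) (P.cons (P.cons (P.lf 19264 0 0) P.nil) P.nil)))))) 32562)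
 EL.nil)
noncomputable def S169_183_290_364_36 : EL := (EL.cons 14 (TM.mk (P.cons (P.lf 0 4784645896 0) (P.cons (P.lf 327565016 0 0) (P.cons (P.lf 10221528 0 0) (P.cons (P.lf 0 78232 0) (P.cons (P.lf 0 10000 0) (P.cons (P.lf 0 120 0) P.nil)))))) 112)
 EL.nil)
noncomputable def S169_183_290_364_37 : EL := (EL.cons 14 (TM.mk (P.cons (P.cons (P.lf 0 1528400506 0) (P.cons (P.lf 151122160 0 0) (P.cons (P.lf 19460166 0 0) (P.lf 0 1297342 0)))) (P.cons (P.cons (P.lf 0 217455734 0) (P.cons (P.lf 9316822 0 0) (P.cons (P.lf 1199734 0 0) (P.lf 0 79980 0)))) (P.cons (P.cons (P.lf 38827752 0 0) (P.cons (P.lf 0 1302106 0) (P.cons (P.lf 0 167674 0) (P.lf 11180 0 0)))) (P.cons (P.cons (P.lf 1040680 0 0) (P.cons (P.lf 0 120100 0) (P.cons (P.lf 0 15458 0) P.nil))) (P.cons (P.cons (P.lf 0 137430 0) (P.cons (P.lf 952 0 0) P.nil)) (P.cons (P.cons (P.lf 0 5504 0) P.nil) P.nil))))))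 3748)
 EL.nil)
noncomputable def S169_183_290_364_38 : EL := (EL.cons 14 (TM.mk (P.cons (P.cons (P.lf 0 488230092 0) (P.cons (P.lf 96548496 0 0) (P.cons (P.lf 7659488 0 0) (P.cons (P.lf 0 2058134 0) (P.cons (P.lf 2802 0 0) (P.cons (P.lf 10552 0 0) P.nil)))))) (P.cons (P.cons (P.lf 0 172352566 0) (P.cons (P.lf 26298778 0 0) (P.cons (P.lf 2471200 0 0) (P.cons (P.lf 0 461498 0) (P.cons (P.lf 536 0 0) P.nil))))) (P.cons (P.cons (P.lf 2080528 0 0) (P.cons (P.lf 0 431030 0) (P.cons (P.lf 0 64256 0) (P.cons (P.lf 1448 0 0) P.nil)))) (P.cons (P.cons (P.lf 3976424 0 0) (P.cons (P.lf 0 386944 0) (P.cons (P.lf 0 39642 0) P.nil))) (P.cons (P.cons (P.lf 0 27780 0) (P.cons (P.lf 0 12588 0) P.nil)) (P.cons (P.cons (P.lf 0 25966 0) P.nil) P.nil)))))) 29866)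
 EL.nil)
noncomputable def S169_183_290_364_39 : EL := (EL.cons 14 (TM.mk (P.cons (P.lf 2665076910 0 0) (P.cons (P.lf 0 364911418 0) (P.cons (P.lf 1104322 0 0) (P.cons (P.lf 866718 0 0) (P.cons (P.lf 17336 0 0) (P.cons (P.lf 0 814 0) P.nil)))))) 180)
 EL.nil)
noncomputable def S169_183_290_364_40 : EL := (EL.cons 14 (TM.mk (P.cons (P.cons (P.lf 851328392 0 0) (P.cons (P.lf 0 84175962 0) (P.cons (P.lf 0 10839430 0) (P.lf 722626 0 0)))) (P.cons (P.cons (P.lf 62840774 0 0) (P.cons (P.lf 573302 0 0) (P.cons (P.lf 73826 0 0) (P.lf 0 4922 0)))) (P.cons (P.cons (P.lf 0 31738370 0) (P.cons (P.lf 1260392 0 0) (P.cons (P.lf 162302 0 0) (P.lf 0 10822 0)))) (P.cons (P.cons (P.lf 656134 0 0) (P.cons (P.lf 26952 0 0) (P.cons (P.lf 3466 0 0) P.nil))) (P.cons (P.cons (P.lf 166196 0 0) (P.cons (P.lf 0 6920 0) P.nil)) (P.cons (P.cons (P.lf 0 1014 0) P.nil) P.nil)))))) 3760)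
 EL.nil)
noncomputable def S169_183_290_364_41 : EL := (EL.cons 14 (TM.mk (P.cons (P.cons (P.lf 271947134 0 0) (P.cons (P.lf 0 53778100 0) (P.cons (P.lf 0 4266382 0) (P.cons (P.lf 1146392 0 0) (P.cons (P.lf 0 1560 0) (P.cons (P.lf 0 5878 0) P.nil)))))) (P.cons (P.cons (P.lf 77383464 0 0) (P.cons (P.lf 0 10966838 0) (P.cons (P.lf 0 1084390 0) (P.cons (P.lf 178574 0 0) (P.cons (P.lf 0 190 0) P.nil))))) (P.cons (P.cons (P.lf 0 8312254 0) (P.cons (P.lf 1357840 0 0) (P.cons (P.lf 139140 0 0) (P.cons (P.lf 0 20854 0) P.nil)))) (P.cons (P.cons (P.lf 0 2336196 0) (P.cons (P.lf 229508 0 0) (P.cons (P.lf 22500 0 0) P.nil))) (P.cons (P.cons (P.lf 171722 0 0) (P.cons (P.lf 0 8608 0) P.nil)) (P.cons (P.cons (P.lf 18324 0 0) P.nil) P.nil)))))) 22510)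
 EL.nil)
noncomputable def S169_183_290_364_42 : EL := (EL.cons 14 (TM.mk (P.cons (P.lf 0 1484464074 0) (P.cons (P.lf 304886824 0 0) (P.cons (P.lf 0 11359206 0) (P.cons (P.lf 0 899150 0) (P.cons (P.lf 24928 0 0) (P.cons (P.lf 2522 0 0) P.nil)))))) 228)
 EL.nil)
noncomputable def S169_183_290_364_43 : EL := (EL.cons 14 (TM.mk (P.cons (P.cons (P.lf 0 474195100 0) (P.cons (P.lf 46886524 0 0) (P.cons (P.lf 6037628 0 0) (P.lf 0 402508 0)))) (P.cons (P.cons (P.lf 0 2538488 0) (P.cons (P.lf 0 3529264 0) (P.cons (P.lf 0 454466 0) (P.lf 30298 0 0)))) (P.cons (P.cons (P.lf 21087842 0 0) (P.cons (P.lf 0 780348 0) (P.cons (P.lf 0 100486 0) (P.lf 6700 0 0)))) (P.cons (P.cons (P.lf 0 1508744 0) (P.cons (P.lf 34498 0 0) (P.cons (P.lf 4444 0 0) P.nil))) (P.cons (P.cons (P.lf 0 106882 0) (P.cons (P.lf 6474 0 0) P.nil)) (P.cons (P.cons (P.lf 7886 0 0) P.nil) P.nil)))))) 4132)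
 EL.nil)
noncomputable def S169_183_290_364_44 : EL := (EL.cons 14 (TM.mk (P.cons (P.cons (P.lf 0 151476210 0) (P.cons (P.lf 29954728 0 0) (P.cons (P.lf 2376400 0 0) (P.cons (P.lf 0 638548 0) (P.cons (P.lf 868 0 0) (P.cons (P.lf 3274 0 0) P.nil)))))) (P.cons (P.cons (P.lf 0 32732742 0) (P.cons (P.lf 4057844 0 0) (P.cons (P.lf 441318 0 0) (P.cons (P.lf 0 55750 0) (P.cons (P.lf 46 0 0) P.nil))))) (P.cons (P.cons (P.lf 7904486 0 0) (P.cons (P.lf 0 1238522 0) (P.cons (P.lf 0 123930 0) (P.cons (P.lf 19790 0 0) P.nil)))) (P.cons (P.cons (P.lf 1073904 0 0) (P.cons (P.lf 0 88618 0) (P.cons (P.lf 0 8478 0) P.nil))) (P.cons (P.cons (P.lf 0 195650 0) (P.cons (P.lf 15324 0 0) P.nil)) (P.cons (P.cons (P.lf 0 6456 0) P.nil) P.nil)))))) 19316)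
 EL.nil)
noncomputable def S169_183_290_364_45 : EL := (EL.cons 14 (TM.mk (P.cons (P.cons (P.lf 279996092 0 0) (P.cons (P.lf 0 83054698 0) (P.cons (P.lf 0 2482926 0) (P.cons (P.lf 2557308 0 0) (P.cons (P.lf 0 109384 0) (P.cons (P.lf 0 24648 0) P.nil)))))) (P.cons (P.cons (P.lf 177017764 0 0) (P.cons (P.lf 0 45812090 0) (P.cons (P.lf 0 2031662 0) (P.cons (P.lf 1283706 0 0) (P.cons (P.lf 0 43084 0) P.nil))))) (P.cons (P.cons (P.lf 29878646 0 0) (P.cons (P.lf 0 6976362 0) (P.cons (P.lf 0 341700 0) (P.cons (P.lf 187530 0 0) P.nil)))) (P.cons (P.cons (P.lf 0 1225198 0) (P.cons (P.lf 107660 0 0) (P.cons (P.lf 24832 0 0) P.nil))) (P.cons (P.cons (P.lf 0 559864 0) (P.cons (P.lf 89774 0 0) P.nil)) (P.cons (P.cons (P.lf 0 1134 0) P.nil) P.nil)))))) 89022)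
 EL.nil)
noncomputable def S169_183_290_364_46 : EL := (EL.cons 15 (TM.mk (P.lf 4294967296 0 0) 0)
 EL.nil)
noncomputable def S169_183_290_364_47 : EL := (EL.cons 15 (TM.mk (P.cons (P.cons (P.lf 1371978269 0 0) (P.cons (P.lf 0 135655752 0) (P.cons (P.lf 0 17468540 0) (P.lf 1164568 0 0)))) (P.cons (P.cons (P.lf 289128471 0 0) (P.cons (P.lf 0 17650528 0) (P.cons (P.lf 0 2272876 0) (P.lf 151524 0 0)))) (P.cons (P.cons (P.lf 0 12128765 0) (P.cons (P.lf 0 329344 0) (P.cons (P.lf 0 42408 0) (P.lf 2824 0 0)))) (P.cons (P.cons (P.lf 0 1169292 0) (P.cons (P.lf 49772 0 0) (P.cons (P.lf 6404 0 0) P.nil))) (P.cons (P.cons (P.lf 9808 0 0) (P.cons (P.lf 2420 0 0) P.nil)) (P.cons (P.cons (P.lf 2674 0 0) P.nil) P.nil)))))) 1427)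
 EL.nil)
noncomputable def S169_183_290_364_48 : EL := (EL.cons 15 (TM.mk (P.cons (P.cons (P.lf 438262794 0 0) (P.cons (P.lf 0 86667362 0) (P.cons (P.lf 0 6875589 0) (P.cons (P.lf 1847497 0 0) (P.cons (P.lf 0 2517 0) (P.cons (P.lf 0 9473 0) P.nil)))))) (P.cons (P.cons (P.lf 184717578 0 0) (P.cons (P.lf 0 29540658 0) (P.cons (P.lf 0 2689004 0) (P.cons (P.lf 540751 0 0) (P.cons (P.lf 0 654 0) P.nil))))) (P.cons (P.cons (P.lf 11714750 0 0) (P.cons (P.lf 0 1820636 0) (P.cons (P.lf 0 141102 0) (P.cons (P.lf 39666 0 0) P.nil)))) (P.cons (P.cons (P.lf 0 2380001 0) (P.cons (P.lf 161008 0 0) (P.cons (P.lf 20293 0 0) P.nil))) (P.cons (P.cons (P.lf 0 116911 0) (P.cons (P.lf 19098 0 0) P.nil)) (P.cons (P.cons (P.lf 9632 0 0) P.nil) P.nil)))))) 16281)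
 EL.nil)
noncomputable def S169_183_290_364 : SL := (SL.cons S169_183_290_364_0 (SL.cons S169_183_290_364_1 (SL.cons S169_183_290_364_2 (SL.cons S169_183_290_364_3 (SL.cons S169_183_290_364_4 (SL.cons S169_183_290_364_5 (SL.cons S169_183_290_364_6 (SL.cons S169_183_290_364_7 (SL.cons S169_183_290_364_8 (SL.cons S169_183_290_364_9 (SL.cons S169_183_290_364_10 (SL.cons S169_183_290_364_11 (SL.cons S169_183_290_364_12 (SL.cons S169_183_290_364_13 (SL.cons S169_183_290_364_14 (SL.cons S169_183_290_364_15 (SL.cons S169_183_290_364_16 (SL.cons S169_183_290_364_17 (SL.cons S169_183_290_364_18 (SL.cons S169_183_290_364_19 (SL.cons S169_183_290_364_20 (SL.cons S169_183_290_364_21 (SL.cons S169_183_290_364_22 (SL.cons S169_183_290_364_23 (SL.cons S169_183_290_364_24 (SL.cons S169_183_290_364_25 (SL.cons S169_183_290_364_26 (SL.cons S169_183_290_364_27 (SL.cons S169_183_290_364_28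 (SL.cons S169_183_290_364_29 (SL.cons S169_183_290_364_30 (SL.cons S169_183_290_364_31 (SL.cons S169_183_290_364_32 (SL.cons S169_183_290_364_33 (SL.cons S169_183_290_364_34 (SL.cons S169_183_290_364_35 (SL.cons S169_183_290_364_36 (SL.cons S169_183_290_364_37 (SL.cons S169_183_290_364_38 (SL.cons S169_183_290_364_39 (SL.cons S169_183_290_364_40 (SL.cons S169_183_290_364_41 (SL.cons S169_183_290_364_42 (SL.cons S169_183_290_364_43 (SL.cons S169_183_290_364_44 (SL.cons S169_183_290_364_45 (SL.cons S169_183_290_364_46 (SL.cons S169_183_290_364_47 (SL.cons S169_183_290_364_48 SL.nil)))))))))))))))))))))))))))))))))))))))))))))))))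
noncomputable def S169_183_308_327_0 : EL := (EL.cons 0 (TM.mk (P.cons (P.lf 6113364111 0 0) (P.cons (P.lf 320722925 0 0) (P.cons (P.lf 0 970595 0) (P.cons (P.lf 0 761763 0) (P.cons (P.lf 0 15236 0) (P.cons (P.lf 715 0 0) P.nil)))))) 165)
 (EL.cons 1 (TM.mk (P.cons (P.lf 0 1754812605 0) (P.cons (P.lf 44029685 0 0) (P.cons (P.lf 10840057 0 0) (P.cons (P.lf 104334 0 0) (P.cons (P.lf 0 15399 0) (P.cons (P.lf 0 481 0) P.nil)))))) 128)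
 (EL.cons 5 (TM.mk (P.cons (P.lf 5127803834 0 0) (P.cons (P.lf 0 114034818 0) (P.cons (P.lf 345096 0 0) (P.cons (P.lf 270848 0 0) (P.cons (P.lf 5418 0 0) (P.cons (P.lf 0 254 0) P.nil)))))) 109)
 (EL.cons 9 (TM.mk (P.lf 6442450944 0 0) 2)
 EL.nil))))
noncomputable def S169_183_308_327_1 : EL := (EL.cons 0 (TM.mk (P.cons (P.cons (P.lf 0 1689990837 0) (P.cons (P.lf 6907150 0 0) (P.cons (P.lf 257558 0 0) (P.lf 0 4184 0)))) (P.cons (P.cons (P.lf 988580730 0 0) (P.cons (P.lf 0 8799429 0) (P.cons (P.lf 0 328125 0) (P.lf 5338 0 0)))) (P.cons (P.cons (P.lf 53620737 0 0) (P.cons (P.lf 0 1215724 0) (P.cons (P.lf 0 45328 0) (P.lf 732 0 0)))) (P.cons (P.cons (P.lf 0 6939125 0) (P.cons (P.lf 785 0 0) (P.cons (P.lf 40 0 0) P.nil))) (P.cons (P.cons (P.lf 0 501186 0) (P.cons (P.lf 6956 0 0) P.nil)) (P.cons (P.cons (P.lf 15281 0 0) P.nil) P.nil)))))) 6287)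
 (EL.cons 1 (TM.mk (P.cons (P.cons (P.lf 0 1080982312 0) (P.cons (P.lf 20558349 0 0) (P.cons (P.lf 766605 0 0) (P.lf 0 12470 0)))) (P.cons (P.cons (P.lf 0 294110195 0) (P.cons (P.lf 4978546 0 0) (P.cons (P.lf 185637 0 0) (P.lf 0 3007 0)))) (P.cons (P.cons (P.lf 41364795 0 0) (P.cons (P.lf 0 101193 0) (P.cons (P.lf 0 3779 0) (P.lf 62 0 0)))) (P.cons (P.cons (P.lf 3807219 0 0) (P.cons (P.lf 0 56887 0) (P.cons (P.lf 0 2106 0) P.nil))) (P.cons (P.cons (P.lf 0 183144 0) (P.cons (P.lf 0 1647 0) P.nil)) (P.cons (P.cons (P.lf 0 20539 0) P.nil) P.nil)))))) 3374)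
 (EL.cons 5 (TM.mk (P.cons (P.cons (P.lf 2990469381 0 0) (P.cons (P.lf 0 57651818 0) (P.cons (P.lf 0 2149824 0) (P.lf 34998 0 0)))) (P.cons (P.cons (P.lf 147468176 0 0) (P.cons (P.lf 0 4053006 0) (P.cons (P.lf 0 151142 0) (P.lf 2462 0 0)))) (P.cons (P.cons (P.lf 0 39545141 0) (P.cons (P.lf 298250 0 0) (P.cons (P.lf 11114 0 0) (P.lf 0 176 0)))) (P.cons (P.cons (P.lf 458432 0 0) (P.cons (P.lf 19972 0 0) (P.cons (P.lf 744 0 0) P.nil))) (P.cons (P.cons (P.lf 193848 0 0) (P.cons (P.lf 0 1490 0) P.nil)) (P.cons (P.cons (P.lf 0 861 0) P.nil) P.nil)))))) 3345)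
 (EL.cons 9 (TM.mk (P.cons (P.cons (P.lf 2108456239 0 0) (P.cons (P.lf 0 48702300 0) (P.cons (P.lf 0 1816092 0) (P.lf 29562 0 0)))) (P.cons (P.cons (P.lf 440261944 0 0) (P.cons (P.lf 0 6336780 0) (P.cons (P.lf 0 236292 0) (P.lf 3840 0 0)))) (P.cons (P.cons (P.lf 0 18070573 0) (P.cons (P.lf 0 118236 0) (P.cons (P.lf 0 4404 0) (P.lf 72 0 0)))) (P.cons (P.cons (P.lf 0 1772466 0) (P.cons (P.lf 17862 0 0) (P.cons (P.lf 660 0 0) P.nil))) (P.cons (P.cons (P.lf 13812 0 0) (P.cons (P.lf 864 0 0) P.nil)) (P.cons (P.cons (P.lf 4023 0 0) P.nil) P.nil)))))) 911)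
 (EL.cons 2 (TM.mk (P.cons (P.cons (P.lf 541802950 0 0) (P.cons (P.lf 44523388 0 0) (P.cons (P.lf 0 780364 0) (P.cons (P.lf 0 14990 0) (P.lf 180 0 0))))) (P.cons (P.cons (P.lf 9904190 0 0) (P.cons (P.lf 813889 0 0) (P.cons (P.lf 0 14265 0) (P.cons (P.lf 0 272 0) (P.lf 2 0 0))))) (P.cons (P.cons (P.lf 0 4517175 0) (P.cons (P.lf 0 371202 0) (P.cons (P.lf 6502 0 0) (P.cons (P.lf 123 0 0) P.nil)))) (P.cons (P.cons (P.lf 0 193426 0) (P.cons (P.lf 0 15893 0) (P.cons (P.lf 275 0 0) P.nil))) (P.cons (P.cons (P.lf 7613 0 0) (P.cons (P.lf 624 0 0) P.nil)) (P.cons (P.cons (P.lf 601 0 0) P.nil) P.nil)))))) 293)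
 (EL.cons 6 (TM.mk (P.cons (P.cons (P.lf 405900708 0 0) (P.cons (P.lf 33355437 0 0) (P.cons (P.lf 0 584622 0) (P.cons (P.lf 0 11229 0) (P.lf 135 0 0))))) (P.cons (P.cons (P.lf 52812819 0 0) (P.cons (P.lf 4339962 0 0) (P.cons (P.lf 0 76065 0) (P.cons (P.lf 0 1461 0) (P.lf 15 0 0))))) (P.cons (P.cons (P.lf 985443 0 0) (P.cons (P.lf 80979 0 0) (P.cons (P.lf 0 1419 0) (P.cons (P.lf 0 27 0) P.nil)))) (P.cons (P.cons (P.lf 0 148926 0) (P.cons (P.lf 0 12237 0) (P.cons (P.lf 213 0 0) P.nil))) (P.cons (P.cons (P.lf 0 7248 0) (P.cons (P.lf 0 594 0) P.nil)) (P.cons (P.cons (P.lf 111 0 0) P.nil) P.nil)))))) 204)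
 EL.nil))))))
noncomputable def S169_183_308_327_2 : EL := (EL.cons 0 (TM.mk (P.cons (P.cons (P.lf 0 1760982916 0) (P.cons (P.lf 60322135 0 0) (P.cons (P.lf 1795585 0 0) (P.cons (P.lf 0 70445 0) (P.cons (P.lf 0 73 0) (P.cons (P.lf 17 0 0) P.nil)))))) (P.cons (P.cons (P.lf 108290414 0 0) (P.cons (P.lf 0 4598392 0) (P.cons (P.lf 0 161281 0) (P.cons (P.lf 3573 0 0) (P.cons (P.lf 8 0 0) P.nil))))) (P.cons (P.cons (P.lf 148124825 0 0) (P.cons (P.lf 0 3561481 0) (P.cons (P.lf 0 109687 0) (P.cons (P.lf 3876 0 0) P.nil)))) (P.cons (P.cons (P.lf 831338 0 0) (P.cons (P.lf 0 193256 0) (P.cons (P.lf 0 4755 0) P.nil))) (P.cons (P.cons (P.lf 0 1736100 0) (P.cons (P.lf 29704 0 0) P.nil)) (P.cons (P.cons (P.lf 0 49361 0) P.nil) P.nil)))))) 23499)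
 (EL.cons 1 (TM.mk (P.cons (P.cons (P.lf 0 519601367 0) (P.cons (P.lf 21117001 0 0) (P.cons (P.lf 576894 0 0) (P.cons (P.lf 0 28515 0) (P.cons (P.lf 0 34 0) (P.cons (P.lf 4 0 0) P.nil)))))) (P.cons (P.cons (P.lf 0 266476070 0) (P.cons (P.lf 9916735 0 0) (P.cons (P.lf 277638 0 0) (P.cons (P.lf 0 12874 0) (P.cons (P.lf 0 7 0) P.nil))))) (P.cons (P.cons (P.lf 0 5215360 0) (P.cons (P.lf 436635 0 0) (P.cons (P.lf 8165 0 0) (P.cons (P.lf 0 861 0) P.nil)))) (P.cons (P.cons (P.lf 8780701 0 0) (P.cons (P.lf 0 185394 0) (P.cons (P.lf 0 6138 0) P.nil))) (P.cons (P.cons (P.lf 266969 0 0) (P.cons (P.lf 0 16368 0) P.nil)) (P.cons (P.cons (P.lf 0 73456 0) P.nil) P.nil)))))) 12253)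
 (EL.cons 5 (TM.mk (P.cons (P.cons (P.lf 1408179434 0 0) (P.cons (P.lf 0 57576426 0) (P.cons (P.lf 0 1568390 0) (P.cons (P.lf 78093 0 0) (P.cons (P.lf 88 0 0) (P.cons (P.lf 0 14 0) P.nil)))))) (P.cons (P.cons (P.lf 288093810 0 0) (P.cons (P.lf 0 10609708 0) (P.cons (P.lf 0 290668 0) (P.cons (P.lf 14264 0 0) (P.cons (P.lf 12 0 0) P.nil))))) (P.cons (P.cons (P.lf 0 31973794 0) (P.cons (P.lf 506664 0 0) (P.cons (P.lf 19760 0 0) (P.cons (P.lf 0 232 0) P.nil)))) (P.cons (P.cons (P.lf 0 4409568 0) (P.cons (P.lf 134313 0 0) (P.cons (P.lf 4084 0 0) P.nil))) (P.cons (P.cons (P.lf 410401 0 0) (P.cons (P.lf 0 2670 0) P.nil)) (P.cons (P.cons (P.lf 33949 0 0) P.nil) P.nil)))))) 10478)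
 (EL.cons 9 (TM.mk (P.cons (P.cons (P.lf 690046032 0 0) (P.cons (P.lf 0 31878136 0) (P.cons (P.lf 0 820554 0) (P.cons (P.lf 46807 0 0) (P.cons (P.lf 64 0 0) (P.cons (P.lf 0 16 0) P.nil)))))) (P.cons (P.cons (P.lf 288173880 0 0) (P.cons (P.lf 0 10804146 0) (P.cons (P.lf 0 307072 0) (P.cons (P.lf 13698 0 0) (P.cons (P.lf 16 0 0) P.nil))))) (P.cons (P.cons (P.lf 18258354 0 0) (P.cons (P.lf 0 670260 0) (P.cons (P.lf 0 16968 0) (P.cons (P.lf 1003 0 0) P.nil)))) (P.cons (P.cons (P.lf 0 3629970 0) (P.cons (P.lf 57877 0 0) (P.cons (P.lf 2116 0 0) P.nil))) (P.cons (P.cons (P.lf 0 182524 0) (P.cons (P.lf 6948 0 0) P.nil)) (P.cons (P.cons (P.lf 14463 0 0) P.nil) P.nil)))))) 2758)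
 (EL.cons 2 (TM.mk (P.cons (P.cons (P.lf 354637642 0 0) (P.cons (P.lf 20951206 0 0) (P.cons (P.lf 0 1489404 0) (P.cons (P.lf 0 18140 0) (P.cons (P.lf 1192 0 0) (P.cons (P.lf 0 0 0) P.nil)))))) (P.cons (P.cons (P.lf 80533873 0 0) (P.cons (P.lf 5402401 0 0) (P.cons (P.lf 0 261208 0) (P.cons (P.lf 0 3465 0) (P.cons (P.lf 185 0 0) P.nil))))) (P.cons (P.cons (P.lf 0 4642492 0) (P.cons (P.lf 0 352575 0) (P.cons (P.lf 10141 0 0) (P.cons (P.lf 157 0 0) P.nil)))) (P.cons (P.cons (P.lf 0 1097679 0) (P.cons (P.lf 0 75751 0) (P.cons (P.lf 3301 0 0) P.nil))) (P.cons (P.cons (P.lf 759 0 0) (P.cons (P.lf 691 0 0) P.nil)) (P.cons (P.cons (P.lf 5720 0 0) P.nil) P.nil)))))) 1647)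
 (EL.cons 6 (TM.mk (P.cons (P.cons (P.lf 265682694 0 0) (P.cons (P.lf 15695946 0 0) (P.cons (P.lf 0 1115808 0) (P.cons (P.lf 0 13590 0) (P.cons (P.lf 894 0 0) (P.cons (P.lf 0 0 0) P.nil)))))) (P.cons (P.cons (P.lf 90045276 0 0) (P.cons (P.lf 5802612 0 0) (P.cons (P.lf 0 320472 0) (P.cons (P.lf 0 4110 0) (P.cons (P.lf 234 0 0) P.nil))))) (P.cons (P.cons (P.lf 5586186 0 0) (P.cons (P.lf 325356 0 0) (P.cons (P.lf 0 24012 0) (P.cons (P.lf 0 288 0) P.nil)))) (P.cons (P.cons (P.lf 0 482406 0) (P.cons (P.lf 0 39012 0) (P.cons (P.lf 768 0 0) P.nil))) (P.cons (P.cons (P.lf 0 57942 0) (P.cons (P.lf 0 3990 0) P.nil)) (P.cons (P.cons (P.lf 108 0 0) P.nil) P.nil)))))) 1182)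
 EL.nil))))))
noncomputable def S169_183_308_327_3 : EL := (EL.cons 0 (TM.mk (P.cons (P.lf 2342352752 0 0) (P.cons (P.lf 0 320722925 0) (P.cons (P.lf 970595 0 0) (P.cons (P.lf 761763 0 0) (P.cons (P.lf 15236 0 0) (P.cons (P.lf 0 715 0) P.nil)))))) 165)
 (EL.cons 1 (TM.mk (P.cons (P.lf 1754812605 0 0) (P.cons (P.lf 0 44029685 0) (P.cons (P.lf 0 10840057 0) (P.cons (P.lf 0 104334 0) (P.cons (P.lf 15399 0 0) (P.cons (P.lf 481 0 0) P.nil)))))) 128)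
 (EL.cons 5 (TM.mk (P.cons (P.lf 1314647110 0 0) (P.cons (P.lf 114034818 0 0) (P.cons (P.lf 0 345096 0) (P.cons (P.lf 0 270848 0) (P.cons (P.lf 0 5418 0) (P.cons (P.lf 254 0 0) P.nil)))))) 102)
 EL.nil)))
noncomputable def S169_183_308_327_4 : EL := (EL.cons 0 (TM.mk (P.cons (P.cons (P.lf 766594625 0 0) (P.cons (P.lf 0 17707229 0) (P.cons (P.lf 0 660295 0) (P.lf 10747 0 0)))) (P.cons (P.cons (P.lf 55106126 0 0) (P.cons (P.lf 120600 0 0) (P.cons (P.lf 4498 0 0) (P.lf 0 73 0)))) (P.cons (P.cons (P.lf 0 28169913 0) (P.cons (P.lf 265136 0 0) (P.cons (P.lf 9887 0 0) (P.lf 0 159 0)))) (P.cons (P.cons (P.lf 570802 0 0) (P.cons (P.lf 5665 0 0) (P.cons (P.lf 207 0 0) P.nil))) (P.cons (P.cons (P.lf 147580 0 0) (P.cons (P.lf 0 1457 0) P.nil)) (P.cons (P.cons (P.lf 0 820 0) P.nil) P.nil)))))) 1156)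
 (EL.cons 1 (TM.mk (P.cons (P.cons (P.lf 574307141 0 0) (P.cons (P.lf 0 13265666 0) (P.cons (P.lf 0 494670 0) (P.lf 8051 0 0)))) (P.cons (P.cons (P.lf 105509928 0 0) (P.cons (P.lf 0 1393181 0) (P.cons (P.lf 0 51948 0) (P.lf 841 0 0)))) (P.cons (P.cons (P.lf 0 11478682 0) (P.cons (P.lf 93046 0 0) (P.cons (P.lf 3470 0 0) (P.lf 0 54 0)))) (P.cons (P.cons (P.lf 0 1134219 0) (P.cons (P.lf 17122 0 0) (P.cons (P.lf 635 0 0) P.nil))) (P.cons (P.cons (P.lf 44190 0 0) (P.cons (P.lf 298 0 0) P.nil)) (P.cons (P.cons (P.lf 5486 0 0) P.nil) P.nil)))))) 772)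
 (EL.cons 5 (TM.mk (P.cons (P.cons (P.lf 430251766 0 0) (P.cons (P.lf 0 9938194 0) (P.cons (P.lf 0 370590 0) (P.lf 6030 0 0)))) (P.cons (P.cons (P.lf 127160690 0 0) (P.cons (P.lf 0 2155140 0) (P.cons (P.lf 0 80362 0) (P.lf 1306 0 0)))) (P.cons (P.cons (P.lf 3992446 0 0) (P.cons (P.lf 0 133682 0) (P.cons (P.lf 0 4982 0) (P.lf 80 0 0)))) (P.cons (P.cons (P.lf 0 793772 0) (P.cons (P.lf 3938 0 0) (P.cons (P.lf 144 0 0) P.nil))) (P.cons (P.cons (P.lf 0 47868 0) (P.cons (P.lf 806 0 0) P.nil)) (P.cons (P.cons (P.lf 1632 0 0) P.nil) P.nil)))))) 550)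
 EL.nil)))
noncomputable def S169_183_308_327_5 : EL := (EL.cons 0 (TM.mk (P.cons (P.cons (P.lf 250887624 0 0) (P.cons (P.lf 0 11590284 0) (P.cons (P.lf 0 298337 0) (P.cons (P.lf 17017 0 0) (P.cons (P.lf 22 0 0) (P.cons (P.lf 0 5 0) P.nil)))))) (P.cons (P.cons (P.lf 70422157 0 0) (P.cons (P.lf 0 2341200 0) (P.cons (P.lf 0 70795 0) (P.cons (P.lf 2649 0 0) (P.cons (P.lf 1 0 0) P.nil))))) (P.cons (P.cons (P.lf 0 7603737 0) (P.cons (P.lf 289362 0 0) (P.cons (P.lf 8992 0 0) (P.cons (P.lf 0 309 0) P.nil)))) (P.cons (P.cons (P.lf 0 2103730 0) (P.cons (P.lf 49013 0 0) (P.cons (P.lf 1469 0 0) P.nil))) (P.cons (P.cons (P.lf 152803 0 0) (P.cons (P.lf 0 1808 0) P.nil)) (P.cons (P.cons (P.lf 16560 0 0) P.nil) P.nil)))))) 3191)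
 (EL.cons 1 (TM.mk (P.cons (P.cons (P.lf 187956645 0 0) (P.cons (P.lf 0 8683053 0) (P.cons (P.lf 0 223503 0) (P.cons (P.lf 12748 0 0) (P.cons (P.lf 15 0 0) (P.cons (P.lf 0 3 0) P.nil)))))) (P.cons (P.cons (P.lf 73777610 0 0) (P.cons (P.lf 0 2724995 0) (P.cons (P.lf 0 78031 0) (P.cons (P.lf 3410 0 0) (P.cons (P.lf 1 0 0) P.nil))))) (P.cons (P.cons (P.lf 1842721 0 0) (P.cons (P.lf 0 55089 0) (P.cons (P.lf 0 1141 0) (P.cons (P.lf 101 0 0) P.nil)))) (P.cons (P.cons (P.lf 0 1609578 0) (P.cons (P.lf 39039 0 0) (P.cons (P.lf 1220 0 0) P.nil))) (P.cons (P.cons (P.lf 0 58646 0) (P.cons (P.lf 2722 0 0) P.nil)) (P.cons (P.cons (P.lf 11737 0 0) P.nil) P.nil)))))) 2311)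
 (EL.cons 5 (TM.mk (P.cons (P.cons (P.lf 140810854 0 0) (P.cons (P.lf 0 6505054 0) (P.cons (P.lf 0 167440 0) (P.cons (P.lf 9550 0 0) (P.cons (P.lf 12 0 0) (P.cons (P.lf 0 2 0) P.nil)))))) (P.cons (P.cons (P.lf 71018970 0 0) (P.cons (P.lf 0 2768954 0) (P.cons (P.lf 0 77184 0) (P.cons (P.lf 3622 0 0) (P.cons (P.lf 4 0 0) P.nil))))) (P.cons (P.cons (P.lf 8789668 0 0) (P.cons (P.lf 0 326304 0) (P.cons (P.lf 0 8852 0) (P.cons (P.lf 444 0 0) P.nil)))) (P.cons (P.cons (P.lf 0 461994 0) (P.cons (P.lf 1864 0 0) (P.cons (P.lf 180 0 0) P.nil))) (P.cons (P.cons (P.lf 0 115170 0) (P.cons (P.lf 2958 0 0) P.nil)) (P.cons (P.cons (P.lf 0 1066 0) P.nil) P.nil)))))) 1420)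
 EL.nil)))
noncomputable def S169_183_308_327_6 : EL := (EL.cons 12 (TM.mk (P.lf 8589934592 0 0) 0)
 (EL.cons 3 (TM.mk (P.cons (P.lf 0 2242802763 0) (P.cons (P.lf 153546101 0 0) (P.cons (P.lf 4791341 0 0) (P.cons (P.lf 0 36671 0) (P.cons (P.lf 0 4687 0) (P.cons (P.lf 0 56 0) P.nil)))))) 59)
 (EL.cons 7 (TM.mk (P.cons (P.lf 0 1680233071 0) (P.cons (P.lf 0 72873196 0) (P.cons (P.lf 1800820 0 0) (P.cons (P.lf 94981 0 0) (P.cons (P.lf 308 0 0) (P.cons (P.lf 0 74 0) P.nil)))))) 48)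
 EL.nil)))
noncomputable def S169_183_308_327_7 : EL := (EL.cons 12 (TM.mk (P.cons (P.cons (P.lf 2811274986 0 0) (P.cons (P.lf 0 64936400 0) (P.cons (P.lf 0 2421456 0) (P.lf 39416 0 0)))) (P.cons (P.cons (P.lf 587015926 0 0) (P.cons (P.lf 0 8449040 0) (P.cons (P.lf 0 315056 0) (P.lf 5120 0 0)))) (P.cons (P.cons (P.lf 0 24094098 0) (P.cons (P.lf 0 157648 0) (P.cons (P.lf 0 5872 0) (P.lf 96 0 0)))) (P.cons (P.cons (P.lf 0 2363288 0) (P.cons (P.lf 23816 0 0) (P.cons (P.lf 880 0 0) P.nil))) (P.cons (P.cons (P.lf 18416 0 0) (P.cons (P.lf 1152 0 0) P.nil)) (P.cons (P.cons (P.lf 5364 0 0) P.nil) P.nil)))))) 1190)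
 (EL.cons 3 (TM.mk (P.cons (P.cons (P.lf 2799874015 0 0) (P.cons (P.lf 0 33909346 0) (P.cons (P.lf 0 1264466 0) (P.lf 20580 0 0)))) (P.cons (P.cons (P.lf 0 307124696 0) (P.cons (P.lf 0 2090538 0) (P.cons (P.lf 0 77950 0) (P.lf 1262 0 0)))) (P.cons (P.cons (P.lf 0 35150961 0) (P.cons (P.lf 292170 0 0) (P.cons (P.lf 10896 0 0) (P.lf 0 176 0)))) (P.cons (P.cons (P.lf 215246 0 0) (P.cons (P.lf 26940 0 0) (P.cons (P.lf 998 0 0) P.nil))) (P.cons (P.cons (P.lf 153443 0 0) (P.cons (P.lf 0 214 0) P.nil)) (P.cons (P.cons (P.lf 4104 0 0) P.nil) P.nil)))))) 2705)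
 (EL.cons 7 (TM.mk (P.cons (P.cons (P.lf 0 2227087503 0) (P.cons (P.lf 36842015 0 0) (P.cons (P.lf 1373834 0 0) (P.lf 0 22370 0)))) (P.cons (P.cons (P.lf 145761807 0 0) (P.cons (P.lf 992177 0 0) (P.cons (P.lf 37001 0 0) (P.lf 0 606 0)))) (P.cons (P.cons (P.lf 8532236 0 0) (P.cons (P.lf 0 194140 0) (P.cons (P.lf 0 7235 0) (P.lf 115 0 0)))) (P.cons (P.cons (P.lf 0 1161988 0) (P.cons (P.lf 0 1202 0) (P.cons (P.lf 0 47 0) P.nil))) (P.cons (P.cons (P.lf 0 40369 0) (P.cons (P.lf 857 0 0) P.nil)) (P.cons (P.cons (P.lf 3184 0 0) P.nil) P.nil)))))) 2012)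
 (EL.cons 10 (TM.mk (P.cons (P.cons (P.lf 0 1037552652 0) (P.cons (P.lf 0 85262292 0) (P.cons (P.lf 1494402 0 0) (P.cons (P.lf 28710 0 0) (P.lf 0 348 0))))) (P.cons (P.cons (P.lf 0 89999154 0) (P.cons (P.lf 0 7395801 0) (P.cons (P.lf 129627 0 0) (P.cons (P.lf 2490 0 0) (P.lf 0 30 0))))) (P.cons (P.cons (P.lf 272358 0 0) (P.cons (P.lf 22380 0 0) (P.cons (P.lf 0 390 0) (P.cons (P.lf 0 6 0) P.nil)))) (P.cons (P.cons (P.lf 213759 0 0) (P.cons (P.lf 17565 0 0) (P.cons (P.lf 0 306 0) P.nil))) (P.cons (P.cons (P.lf 4275 0 0) (P.cons (P.lf 351 0 0) P.nil)) (P.cons (P.cons (P.lf 0 198 0) P.nil) P.nil)))))) 219)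
 EL.nil))))
noncomputable def S169_183_308_327_8 : EL := (EL.cons 12 (TM.mk (P.cons (P.cons (P.lf 920061376 0 0) (P.cons (P.lf 0 42504182 0) (P.cons (P.lf 0 1094072 0) (P.cons (P.lf 62410 0 0) (P.cons (P.lf 86 0 0) (P.cons (P.lf 0 22 0) P.nil)))))) (P.cons (P.cons (P.lf 384231840 0 0) (P.cons (P.lf 0 14405528 0) (P.cons (P.lf 0 409430 0) (P.cons (P.lf 18264 0 0) (P.cons (P.lf 22 0 0) P.nil))))) (P.cons (P.cons (P.lf 24344472 0 0) (P.cons (P.lf 0 893680 0) (P.cons (P.lf 0 22624 0) (P.cons (P.lf 1338 0 0) P.nil)))) (P.cons (P.cons (P.lf 0 4839960 0) (P.cons (P.lf 77170 0 0) (P.cons (P.lf 2822 0 0) P.nil))) (P.cons (P.cons (P.lf 0 243366 0) (P.cons (P.lf 9264 0 0) P.nil)) (P.cons (P.cons (P.lf 19284 0 0) P.nil) P.nil)))))) 3648)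
 (EL.cons 3 (TM.mk (P.cons (P.cons (P.lf 2072885139 0 0) (P.cons (P.lf 0 75624899 0) (P.cons (P.lf 0 2179172 0) (P.cons (P.lf 93692 0 0) (P.cons (P.lf 111 0 0) (P.cons (P.lf 0 25 0) P.nil)))))) (P.cons (P.cons (P.lf 265520262 0 0) (P.cons (P.lf 0 9868822 0) (P.cons (P.lf 0 245098 0) (P.cons (P.lf 15140 0 0) (P.cons (P.lf 21 0 0) P.nil))))) (P.cons (P.cons (P.lf 0 81716433 0) (P.cons (P.lf 1176465 0 0) (P.cons (P.lf 45049 0 0) (P.cons (P.lf 0 625 0) P.nil)))) (P.cons (P.cons (P.lf 0 6390325 0) (P.cons (P.lf 224619 0 0) (P.cons (P.lf 6994 0 0) P.nil))) (P.cons (P.cons (P.lf 519579 0 0) (P.cons (P.lf 1955 0 0) P.nil)) (P.cons (P.cons (P.lf 56374 0 0) P.nil) P.nil)))))) 10576)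
 (EL.cons 7 (TM.mk (P.cons (P.cons (P.lf 0 1277773783 0) (P.cons (P.lf 49472693 0 0) (P.cons (P.lf 1383819 0 0) (P.cons (P.lf 0 64413 0) (P.cons (P.lf 0 76 0) (P.cons (P.lf 16 0 0) P.nil)))))) (P.cons (P.cons (P.lf 0 126016295 0) (P.cons (P.lf 4683760 0 0) (P.cons (P.lf 116326 0 0) (P.cons (P.lf 0 7191 0) (P.cons (P.lf 0 5 0) P.nil))))) (P.cons (P.cons (P.lf 45829101 0 0) (P.cons (P.lf 0 820249 0) (P.cons (P.lf 0 27881 0) (P.cons (P.lf 695 0 0) P.nil)))) (P.cons (P.cons (P.lf 0 17604 0) (P.cons (P.lf 0 59069 0) (P.cons (P.lf 0 1579 0) P.nil))) (P.cons (P.cons (P.lf 0 420904 0) (P.cons (P.lf 6702 0 0) P.nil)) (P.cons (P.cons (P.lf 0 1319 0) P.nil) P.nil)))))) 7260)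
 (EL.cons 10 (TM.mk (P.cons (P.cons (P.lf 0 679131084 0) (P.cons (P.lf 0 40121562 0) (P.cons (P.lf 2852214 0 0) (P.cons (P.lf 34746 0 0) (P.cons (P.lf 0 2286 0) (P.cons (P.lf 0 0 0) P.nil)))))) (P.cons (P.cons (P.lf 0 200716848 0) (P.cons (P.lf 0 13092390 0) (P.cons (P.lf 695490 0 0) (P.cons (P.lf 9012 0 0) (P.cons (P.lf 0 510 0) P.nil))))) (P.cons (P.cons (P.lf 0 6301878 0) (P.cons (P.lf 0 306852 0) (P.cons (P.lf 34284 0 0) (P.cons (P.lf 384 0 0) P.nil)))) (P.cons (P.cons (P.lf 1252926 0 0) (P.cons (P.lf 96738 0 0) (P.cons (P.lf 0 2544 0) P.nil))) (P.cons (P.cons (P.lf 75558 0 0) (P.cons (P.lf 4932 0 0) P.nil)) (P.cons (P.cons (P.lf 0 2574 0) P.nil) P.nil)))))) 1716)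
 EL.nil))))
noncomputable def S169_183_308_327_9 : EL := (EL.cons 3 (TM.mk (P.cons (P.lf 0 2242802763 0) (P.cons (P.lf 153546101 0 0) (P.cons (P.lf 4791341 0 0) (P.cons (P.lf 0 36671 0) (P.cons (P.lf 0 4687 0) (P.cons (P.lf 0 56 0) P.nil)))))) 59)
 (EL.cons 7 (TM.mk (P.cons (P.lf 0 1680233071 0) (P.cons (P.lf 0 72873196 0) (P.cons (P.lf 1800820 0 0) (P.cons (P.lf 94981 0 0) (P.cons (P.lf 308 0 0) (P.cons (P.lf 0 74 0) P.nil)))))) 48)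
 EL.nil))
noncomputable def S169_183_308_327_10 : EL := (EL.cons 3 (TM.mk (P.cons (P.cons (P.lf 0 734014355 0) (P.cons (P.lf 16954673 0 0) (P.cons (P.lf 632233 0 0) (P.lf 0 10290 0)))) (P.cons (P.cons (P.lf 0 103015991 0) (P.cons (P.lf 1045269 0 0) (P.cons (P.lf 38975 0 0) (P.lf 0 631 0)))) (P.cons (P.cons (P.lf 18351954 0 0) (P.cons (P.lf 0 146085 0) (P.cons (P.lf 0 5448 0) (P.lf 88 0 0)))) (P.cons (P.cons (P.lf 501788 0 0) (P.cons (P.lf 0 13470 0) (P.cons (P.lf 0 499 0) P.nil))) (P.cons (P.cons (P.lf 0 64531 0) (P.cons (P.lf 107 0 0) P.nil)) (P.cons (P.cons (P.lf 0 2625 0) P.nil) P.nil)))))) 595)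
 (EL.cons 7 (TM.mk (P.cons (P.cons (P.lf 0 549899088 0) (P.cons (P.lf 12701876 0 0) (P.cons (P.lf 473648 0 0) (P.lf 0 7709 0)))) (P.cons (P.cons (P.lf 0 138672786 0) (P.cons (P.lf 2203565 0 0) (P.cons (P.lf 82169 0 0) (P.lf 0 1335 0)))) (P.cons (P.cons (P.lf 322304 0 0) (P.cons (P.lf 88901 0 0) (P.cons (P.lf 3313 0 0) (P.lf 0 53 0)))) (P.cons (P.cons (P.lf 820823 0 0) (P.cons (P.lf 0 5810 0) (P.cons (P.lf 0 215 0) P.nil))) (P.cons (P.cons (P.lf 17987 0 0) (P.cons (P.lf 0 556 0) P.nil)) (P.cons (P.cons (P.lf 0 1970 0) P.nil) P.nil)))))) 397)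
 EL.nil))
noncomputable def S169_183_308_327_11 : EL := (EL.cons 3 (TM.mk (P.cons (P.cons (P.lf 0 240224901 0) (P.cons (P.lf 11097697 0 0) (P.cons (P.lf 285658 0 0) (P.cons (P.lf 0 16294 0) (P.cons (P.lf 0 21 0) (P.cons (P.lf 5 0 0) P.nil)))))) (P.cons (P.cons (P.lf 0 83875422 0) (P.cons (P.lf 3001466 0 0) (P.cons (P.lf 87344 0 0) (P.cons (P.lf 0 3652 0) (P.cons (P.lf 0 3 0) P.nil))))) (P.cons (P.cons (P.lf 1025127 0 0) (P.cons (P.lf 0 47871 0) (P.cons (P.lf 0 2021 0) (P.cons (P.lf 11 0 0) P.nil)))) (P.cons (P.cons (P.lf 1909247 0 0) (P.cons (P.lf 0 43977 0) (P.cons (P.lf 0 1364 0) P.nil))) (P.cons (P.cons (P.lf 0 11535 0) (P.cons (P.lf 0 1453 0) P.nil)) (P.cons (P.cons (P.lf 0 12404 0) P.nil) P.nil)))))) 1932)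
 (EL.cons 7 (TM.mk (P.cons (P.cons (P.lf 0 179968489 0) (P.cons (P.lf 8314025 0 0) (P.cons (P.lf 214005 0 0) (P.cons (P.lf 0 12207 0) (P.cons (P.lf 0 16 0) (P.cons (P.lf 4 0 0) P.nil)))))) (P.cons (P.cons (P.lf 0 82963013 0) (P.cons (P.lf 3178378 0 0) (P.cons (P.lf 89368 0 0) (P.cons (P.lf 0 4101 0) (P.cons (P.lf 0 5 0) P.nil))))) (P.cons (P.cons (P.lf 0 7828665 0) (P.cons (P.lf 288107 0 0) (P.cons (P.lf 7669 0 0) (P.cons (P.lf 0 403 0) P.nil)))) (P.cons (P.cons (P.lf 830916 0 0) (P.cons (P.lf 0 11003 0) (P.cons (P.lf 0 457 0) P.nil))) (P.cons (P.cons (P.lf 98048 0 0) (P.cons (P.lf 0 2814 0) P.nil)) (P.cons (P.cons (P.lf 0 2447 0) P.nil) P.nil)))))) 1214)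
 EL.nil))
noncomputable def S169_183_308_327_12 : EL := (EL.cons 4 (TM.mk (P.cons (P.lf 2242802763 0 0) (P.cons (P.lf 0 153546101 0) (P.cons (P.lf 0 4791341 0) (P.cons (P.lf 36671 0 0) (P.cons (P.lf 4687 0 0) (P.cons (P.lf 56 0 0) P.nil)))))) 59)
 (EL.cons 8 (TM.mk (P.cons (P.lf 1680233071 0 0) (P.cons (P.lf 72873196 0 0) (P.cons (P.lf 0 1800820 0) (P.cons (P.lf 0 94981 0) (P.cons (P.lf 0 308 0) (P.cons (P.lf 74 0 0) P.nil)))))) 48)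
 EL.nil))
noncomputable def S169_183_308_327_13 : EL := (EL.cons 4 (TM.mk (P.cons (P.cons (P.lf 734014355 0 0) (P.cons (P.lf 0 16954673 0) (P.cons (P.lf 0 632233 0) (P.lf 10290 0 0)))) (P.cons (P.cons (P.lf 103015991 0 0) (P.cons (P.lf 0 1045269 0) (P.cons (P.lf 0 38975 0) (P.lf 631 0 0)))) (P.cons (P.cons (P.lf 0 18351954 0) (P.cons (P.lf 146085 0 0) (P.cons (P.lf 5448 0 0) (P.lf 0 88 0)))) (P.cons (P.cons (P.lf 0 501788 0) (P.cons (P.lf 13470 0 0) (P.cons (P.lf 499 0 0) P.nil))) (P.cons (P.cons (P.lf 64531 0 0) (P.cons (P.lf 0 107 0) P.nil)) (P.cons (P.cons (P.lf 2625 0 0) P.nil) P.nil)))))) 595)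
 (EL.cons 8 (TM.mk (P.cons (P.cons (P.lf 549899088 0 0) (P.cons (P.lf 0 12701876 0) (P.cons (P.lf 0 473648 0) (P.lf 7709 0 0)))) (P.cons (P.cons (P.lf 138672786 0 0) (P.cons (P.lf 0 2203565 0) (P.cons (P.lf 0 82169 0) (P.lf 1335 0 0)))) (P.cons (P.cons (P.lf 0 322304 0) (P.cons (P.lf 0 88901 0) (P.cons (P.lf 0 3313 0) (P.lf 53 0 0)))) (P.cons (P.cons (P.lf 0 820823 0) (P.cons (P.lf 5810 0 0) (P.cons (P.lf 215 0 0) P.nil))) (P.cons (P.cons (P.lf 0 17987 0) (P.cons (P.lf 556 0 0) P.nil)) (P.cons (P.cons (P.lf 1970 0 0) P.nil) P.nil)))))) 397)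
 EL.nil))
noncomputable def S169_183_308_327_14 : EL := (EL.cons 4 (TM.mk (P.cons (P.cons (P.lf 240224901 0 0) (P.cons (P.lf 0 11097697 0) (P.cons (P.lf 0 285658 0) (P.cons (P.lf 16294 0 0) (P.cons (P.lf 21 0 0) (P.cons (P.lf 0 5 0) P.nil)))))) (P.cons (P.cons (P.lf 83875422 0 0) (P.cons (P.lf 0 3001466 0) (P.cons (P.lf 0 87344 0) (P.cons (P.lf 3652 0 0) (P.cons (P.lf 3 0 0) P.nil))))) (P.cons (P.cons (P.lf 0 1025127 0) (P.cons (P.lf 47871 0 0) (P.cons (P.lf 2021 0 0) (P.cons (P.lf 0 11 0) P.nil)))) (P.cons (P.cons (P.lf 0 1909247 0) (P.cons (P.lf 43977 0 0) (P.cons (P.lf 1364 0 0) P.nil))) (P.cons (P.cons (P.lf 11535 0 0) (P.cons (P.lf 1453 0 0) P.nil)) (P.cons (P.cons (P.lf 12404 0 0) P.nil) P.nil)))))) 1932)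
 (EL.cons 8 (TM.mk (P.cons (P.cons (P.lf 179968489 0 0) (P.cons (P.lf 0 8314025 0) (P.cons (P.lf 0 214005 0) (P.cons (P.lf 12207 0 0) (P.cons (P.lf 16 0 0) (P.cons (P.lf 0 4 0) P.nil)))))) (P.cons (P.cons (P.lf 82963013 0 0) (P.cons (P.lf 0 3178378 0) (P.cons (P.lf 0 89368 0) (P.cons (P.lf 4101 0 0) (P.cons (P.lf 5 0 0) P.nil))))) (P.cons (P.cons (P.lf 7828665 0 0) (P.cons (P.lf 0 288107 0) (P.cons (P.lf 0 7669 0) (P.cons (P.lf 403 0 0) P.nil)))) (P.cons (P.cons (P.lf 0 830916 0) (P.cons (P.lf 11003 0 0) (P.cons (P.lf 457 0 0) P.nil))) (P.cons (P.cons (P.lf 0 98048 0) (P.cons (P.lf 2814 0 0) P.nil)) (P.cons (P.cons (P.lf 2447 0 0) P.nil) P.nil)))))) 1214)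
 EL.nil))
noncomputable def S169_183_308_327_15 : EL := (EL.cons 4 (TM.mk (P.cons (P.lf 0 1249254801 0) (P.cons (P.lf 171052227 0 0) (P.cons (P.lf 0 517650 0) (P.cons (P.lf 0 406274 0) (P.cons (P.lf 0 8126 0) (P.cons (P.lf 381 0 0) P.nil)))))) 91)
 (EL.cons 8 (TM.mk (P.cons (P.lf 0 935900056 0) (P.cons (P.lf 23482499 0 0) (P.cons (P.lf 5781364 0 0) (P.cons (P.lf 55645 0 0) (P.cons (P.lf 0 8213 0) (P.cons (P.lf 0 257 0) P.nil)))))) 65)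
 EL.nil))
noncomputable def S169_183_308_327_16 : EL := (EL.cons 4 (TM.mk (P.cons (P.cons (P.lf 0 408850467 0) (P.cons (P.lf 9443855 0 0) (P.cons (P.lf 352157 0 0) (P.lf 0 5731 0)))) (P.cons (P.cons (P.lf 0 29389934 0) (P.cons (P.lf 0 64320 0) (P.cons (P.lf 0 2399 0) (P.lf 39 0 0)))) (P.cons (P.cons (P.lf 15023954 0 0) (P.cons (P.lf 0 141405 0) (P.cons (P.lf 0 5273 0) (P.lf 85 0 0)))) (P.cons (P.cons (P.lf 0 304427 0) (P.cons (P.lf 0 3021 0) (P.cons (P.lf 0 110 0) P.nil))) (P.cons (P.cons (P.lf 0 78709 0) (P.cons (P.lf 777 0 0) P.nil)) (P.cons (P.cons (P.lf 437 0 0) P.nil) P.nil)))))) 625)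
 (EL.cons 8 (TM.mk (P.cons (P.cons (P.lf 0 306297142 0) (P.cons (P.lf 7075022 0 0) (P.cons (P.lf 263824 0 0) (P.lf 0 4294 0)))) (P.cons (P.cons (P.lf 0 56271962 0) (P.cons (P.lf 743030 0 0) (P.cons (P.lf 27706 0 0) (P.lf 0 449 0)))) (P.cons (P.cons (P.lf 6121964 0 0) (P.cons (P.lf 0 49625 0) (P.cons (P.lf 0 1851 0) (P.lf 29 0 0)))) (P.cons (P.cons (P.lf 604917 0 0) (P.cons (P.lf 0 9132 0) (P.cons (P.lf 0 339 0) P.nil))) (P.cons (P.cons (P.lf 0 23568 0) (P.cons (P.lf 0 159 0) P.nil)) (P.cons (P.cons (P.lf 0 2926 0) P.nil) P.nil)))))) 402)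
 EL.nil))
noncomputable def S169_183_308_327_17 : EL := (EL.cons 4 (TM.mk (P.cons (P.cons (P.lf 0 133806733 0) (P.cons (P.lf 6181485 0 0) (P.cons (P.lf 159113 0 0) (P.cons (P.lf 0 9075 0) (P.cons (P.lf 0 12 0) (P.cons (P.lf 2 0 0) P.nil)))))) (P.cons (P.cons (P.lf 0 37558484 0) (P.cons (P.lf 1248640 0 0) (P.cons (P.lf 37757 0 0) (P.cons (P.lf 0 1412 0) (P.cons (P.lf 0 0 0) P.nil))))) (P.cons (P.cons (P.lf 4055326 0 0) (P.cons (P.lf 0 154326 0) (P.cons (P.lf 0 4796 0) (P.cons (P.lf 165 0 0) P.nil)))) (P.cons (P.cons (P.lf 1121989 0 0) (P.cons (P.lf 0 26140 0) (P.cons (P.lf 0 783 0) P.nil))) (P.cons (P.cons (P.lf 0 81495 0) (P.cons (P.lf 964 0 0) P.nil)) (P.cons (P.cons (P.lf 0 8832 0) P.nil) P.nil)))))) 1712)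
 (EL.cons 8 (TM.mk (P.cons (P.cons (P.lf 0 100243544 0) (P.cons (P.lf 4630962 0 0) (P.cons (P.lf 119202 0 0) (P.cons (P.lf 0 6799 0) (P.cons (P.lf 0 8 0) (P.cons (P.lf 2 0 0) P.nil)))))) (P.cons (P.cons (P.lf 0 39348059 0) (P.cons (P.lf 1453331 0 0) (P.cons (P.lf 41617 0 0) (P.cons (P.lf 0 1819 0) (P.cons (P.lf 0 1 0) P.nil))))) (P.cons (P.cons (P.lf 0 982785 0) (P.cons (P.lf 29381 0 0) (P.cons (P.lf 609 0 0) (P.cons (P.lf 0 54 0) P.nil)))) (P.cons (P.cons (P.lf 858442 0 0) (P.cons (P.lf 0 20821 0) (P.cons (P.lf 0 651 0) P.nil))) (P.cons (P.cons (P.lf 31278 0 0) (P.cons (P.lf 0 1452 0) P.nil)) (P.cons (P.cons (P.lf 0 6260 0) P.nil) P.nil)))))) 1221)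
 EL.nil))
noncomputable def S169_183_308_327_18 : EL := (EL.cons 4 (TM.mk (P.cons (P.lf 695842534 0 0) (P.cons (P.lf 0 142915698 0) (P.cons (P.lf 5324627 0 0) (P.cons (P.lf 421476 0 0) (P.cons (P.lf 0 11685 0) (P.cons (P.lf 0 1182 0) P.nil)))))) 113)
 (EL.cons 8 (TM.mk (P.cons (P.lf 521302032 0 0) (P.cons (P.lf 0 48769121 0) (P.cons (P.lf 0 3438450 0) (P.cons (P.lf 225935 0 0) (P.cons (P.lf 14451 0 0) (P.cons (P.lf 0 170 0) P.nil)))))) 84)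
 EL.nil))
noncomputable def S169_183_308_327_19 : EL := (EL.cons 4 (TM.mk (P.cons (P.cons (P.lf 227732200 0 0) (P.cons (P.lf 0 5260285 0) (P.cons (P.lf 0 196154 0) (P.lf 3192 0 0)))) (P.cons (P.cons (P.lf 779437 0 0) (P.cons (P.lf 395955 0 0) (P.cons (P.lf 14764 0 0) (P.lf 0 240 0)))) (P.cons (P.cons (P.lf 0 9975686 0) (P.cons (P.lf 87548 0 0) (P.cons (P.lf 3264 0 0) (P.lf 0 52 0)))) (P.cons (P.cons (P.lf 711236 0 0) (P.cons (P.lf 0 3870 0) (P.cons (P.lf 0 144 0) P.nil))) (P.cons (P.cons (P.lf 50853 0 0) (P.cons (P.lf 0 726 0) P.nil)) (P.cons (P.cons (P.lf 0 3704 0) P.nil) P.nil)))))) 649)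
 (EL.cons 8 (TM.mk (P.cons (P.cons (P.lf 170609373 0 0) (P.cons (P.lf 0 3940830 0) (P.cons (P.lf 0 146952 0) (P.lf 2391 0 0)))) (P.cons (P.cons (P.lf 19663616 0 0) (P.cons (P.lf 0 144077 0) (P.cons (P.lf 0 5372 0) (P.lf 87 0 0)))) (P.cons (P.cons (P.lf 0 5920298 0) (P.cons (P.lf 64395 0 0) (P.cons (P.lf 2401 0 0) (P.lf 0 38 0)))) (P.cons (P.cons (P.lf 0 167661 0) (P.cons (P.lf 4014 0 0) (P.cons (P.lf 148 0 0) P.nil))) (P.cons (P.cons (P.lf 44349 0 0) (P.cons (P.lf 0 333 0) P.nil)) (P.cons (P.cons (P.lf 1465 0 0) P.nil) P.nil)))))) 369)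
 EL.nil))
noncomputable def S169_183_308_327_20 : EL := (EL.cons 4 (TM.mk (P.cons (P.cons (P.lf 74531165 0 0) (P.cons (P.lf 0 3443124 0) (P.cons (P.lf 0 88626 0) (P.cons (P.lf 5055 0 0) (P.cons (P.lf 6 0 0) (P.cons (P.lf 0 0 0) P.nil)))))) (P.cons (P.cons (P.lf 15817773 0 0) (P.cons (P.lf 0 459778 0) (P.cons (P.lf 0 14963 0) (P.cons (P.lf 440 0 0) (P.cons (P.lf 0 0 0) P.nil))))) (P.cons (P.cons (P.lf 0 3850303 0) (P.cons (P.lf 140931 0 0) (P.cons (P.lf 4300 0 0) (P.cons (P.lf 0 156 0) P.nil)))) (P.cons (P.cons (P.lf 0 513784 0) (P.cons (P.lf 10104 0 0) (P.cons (P.lf 297 0 0) P.nil))) (P.cons (P.cons (P.lf 93502 0 0) (P.cons (P.lf 0 1736 0) P.nil)) (P.cons (P.cons (P.lf 3155 0 0) P.nil) P.nil)))))) 1659)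
 (EL.cons 8 (TM.mk (P.cons (P.cons (P.lf 55836264 0 0) (P.cons (P.lf 0 2579474 0) (P.cons (P.lf 0 66396 0) (P.cons (P.lf 3787 0 0) (P.cons (P.lf 5 0 0) (P.cons (P.lf 0 1 0) P.nil)))))) (P.cons (P.cons (P.lf 18094462 0 0) (P.cons (P.lf 0 632919 0) (P.cons (P.lf 0 18635 0) (P.cons (P.lf 753 0 0) (P.cons (P.lf 0 0 0) P.nil))))) (P.cons (P.cons (P.lf 0 1072349 0) (P.cons (P.lf 44565 0 0) (P.cons (P.lf 1389 0 0) (P.cons (P.lf 0 47 0) P.nil)))) (P.cons (P.cons (P.lf 0 561543 0) (P.cons (P.lf 14405 0 0) (P.cons (P.lf 434 0 0) P.nil))) (P.cons (P.cons (P.lf 14618 0 0) (P.cons (P.lf 31 0 0) P.nil)) (P.cons (P.cons (P.lf 5757 0 0) P.nil) P.nil)))))) 1046)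
 EL.nil))
noncomputable def S169_183_308_327_21 : EL := (EL.cons 4 (TM.mk (P.cons (P.cons (P.lf 0 3533888370 0) (P.cons (P.lf 50864019 0 0) (P.cons (P.lf 1896699 0 0) (P.lf 0 30870 0)))) (P.cons (P.cons (P.lf 204108705 0 0) (P.cons (P.lf 3135807 0 0) (P.cons (P.lf 116925 0 0) (P.lf 0 1893 0)))) (P.cons (P.cons (P.lf 53502915 0 0) (P.cons (P.lf 0 438255 0) (P.cons (P.lf 0 16344 0) (P.lf 264 0 0)))) (P.cons (P.cons (P.lf 286542 0 0) (P.cons (P.lf 0 40410 0) (P.cons (P.lf 0 1497 0) P.nil))) (P.cons (P.cons (P.lf 0 217974 0) (P.cons (P.lf 321 0 0) P.nil)) (P.cons (P.cons (P.lf 0 6729 0) P.nil) P.nil)))))) 2091)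
 (EL.cons 8 (TM.mk (P.cons (P.cons (P.lf 1677188415 0 0) (P.cons (P.lf 0 24140139 0) (P.cons (P.lf 0 900186 0) (P.lf 14661 0 0)))) (P.cons (P.cons (P.lf 0 284434593 0) (P.cons (P.lf 1211388 0 0) (P.cons (P.lf 45168 0 0) (P.lf 0 729 0)))) (P.cons (P.cons (P.lf 0 8209932 0) (P.cons (P.lf 283041 0 0) (P.cons (P.lf 10548 0 0) (P.lf 0 168 0)))) (P.cons (P.cons (P.lf 1982811 0 0) (P.cons (P.lf 0 4608 0) (P.cons (P.lf 0 168 0) P.nil))) (P.cons (P.cons (P.lf 58356 0 0) (P.cons (P.lf 0 1413 0) P.nil)) (P.cons (P.cons (P.lf 0 5154 0) P.nil) P.nil)))))) 1596)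
 (EL.cons 11 (TM.mk (P.cons (P.cons (P.lf 1037552652 0 0) (P.cons (P.lf 85262292 0 0) (P.cons (P.lf 0 1494402 0) (P.cons (P.lf 0 28710 0) (P.lf 348 0 0))))) (P.cons (P.cons (P.lf 89999154 0 0) (P.cons (P.lf 7395801 0 0) (P.cons (P.lf 0 129627 0) (P.cons (P.lf 0 2490 0) (P.lf 30 0 0))))) (P.cons (P.cons (P.lf 0 272358 0) (P.cons (P.lf 0 22380 0) (P.cons (P.lf 390 0 0) (P.cons (P.lf 6 0 0) P.nil)))) (P.cons (P.cons (P.lf 0 213759 0) (P.cons (P.lf 0 17565 0) (P.cons (P.lf 306 0 0) P.nil))) (P.cons (P.cons (P.lf 0 4275 0) (P.cons (P.lf 0 351 0) P.nil)) (P.cons (P.cons (P.lf 198 0 0) P.nil) P.nil)))))) 219)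
 EL.nil)))
noncomputable def S169_183_308_327_22 : EL := (EL.cons 4 (TM.mk (P.cons (P.cons (P.lf 0 1156555020 0) (P.cons (P.lf 43361298 0 0) (P.cons (P.lf 1232415 0 0) (P.cons (P.lf 0 54993 0) (P.cons (P.lf 0 66 0) (P.cons (P.lf 15 0 0) P.nil)))))) (P.cons (P.cons (P.lf 0 174697842 0) (P.cons (P.lf 6435144 0 0) (P.cons (P.lf 166221 0 0) (P.cons (P.lf 0 9396 0) (P.cons (P.lf 0 12 0) P.nil))))) (P.cons (P.cons (P.lf 41370780 0 0) (P.cons (P.lf 0 612168 0) (P.cons (P.lf 0 23535 0) (P.cons (P.lf 318 0 0) P.nil)))) (P.cons (P.cons (P.lf 4149786 0 0) (P.cons (P.lf 0 134298 0) (P.cons (P.lf 0 4179 0) P.nil))) (P.cons (P.cons (P.lf 0 265557 0) (P.cons (P.lf 0 1704 0) P.nil)) (P.cons (P.cons (P.lf 0 34389 0) P.nil) P.nil)))))) 4311)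
 (EL.cons 8 (TM.mk (P.cons (P.cons (P.lf 548902647 0 0) (P.cons (P.lf 0 20579334 0) (P.cons (P.lf 0 584907 0) (P.cons (P.lf 26103 0 0) (P.cons (P.lf 30 0 0) (P.cons (P.lf 0 6 0) P.nil)))))) (P.cons (P.cons (P.lf 21526641 0 0) (P.cons (P.lf 0 752691 0) (P.cons (P.lf 0 13479 0) (P.cons (P.lf 1545 0 0) (P.cons (P.lf 0 0 0) P.nil))))) (P.cons (P.cons (P.lf 0 26828883 0) (P.cons (P.lf 554178 0 0) (P.cons (P.lf 17775 0 0) (P.cons (P.lf 0 549 0) P.nil)))) (P.cons (P.cons (P.lf 424260 0 0) (P.cons (P.lf 24033 0 0) (P.cons (P.lf 561 0 0) P.nil))) (P.cons (P.cons (P.lf 259476 0 0) (P.cons (P.lf 0 4758 0) P.nil)) (P.cons (P.cons (P.lf 0 564 0) P.nil) P.nil)))))) 3012)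
 (EL.cons 11 (TM.mk (P.cons (P.cons (P.lf 339565542 0 0) (P.cons (P.lf 20060781 0 0) (P.cons (P.lf 0 1426107 0) (P.cons (P.lf 0 17373 0) (P.cons (P.lf 1143 0 0) (P.cons (P.lf 0 0 0) P.nil)))))) (P.cons (P.cons (P.lf 100358424 0 0) (P.cons (P.lf 6546195 0 0) (P.cons (P.lf 0 347745 0) (P.cons (P.lf 0 4506 0) (P.cons (P.lf 255 0 0) P.nil))))) (P.cons (P.cons (P.lf 3150939 0 0) (P.cons (P.lf 153426 0 0) (P.cons (P.lf 0 17142 0) (P.cons (P.lf 0 192 0) P.nil)))) (P.cons (P.cons (P.lf 0 626463 0) (P.cons (P.lf 0 48369 0) (P.cons (P.lf 1272 0 0) P.nil))) (P.cons (P.cons (P.lf 0 37779 0) (P.cons (P.lf 0 2466 0) P.nil)) (P.cons (P.cons (P.lf 1287 0 0) P.nil) P.nil)))))) 858)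
 EL.nil)))
noncomputable def S169_183_308_327_23 : EL := (EL.cons 4 (TM.mk (P.cons (P.cons (P.lf 1968397347 0 0) (P.cons (P.lf 0 28331568 0) (P.cons (P.lf 0 1056471 0) (P.lf 17193 0 0)))) (P.cons (P.cons (P.lf 0 248449629 0) (P.cons (P.lf 192963 0 0) (P.cons (P.lf 7197 0 0) (P.lf 0 120 0)))) (P.cons (P.cons (P.lf 0 26223174 0) (P.cons (P.lf 424215 0 0) (P.cons (P.lf 15819 0 0) (P.lf 0 255 0)))) (P.cons (P.cons (P.lf 2155713 0 0) (P.cons (P.lf 9063 0 0) (P.cons (P.lf 330 0 0) P.nil))) (P.cons (P.cons (P.lf 198258 0 0) (P.cons (P.lf 0 2328 0) P.nil)) (P.cons (P.cons (P.lf 0 4896 0) P.nil) P.nil)))))) 2112)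
 (EL.cons 8 (TM.mk (P.cons (P.cons (P.lf 0 934204164 0) (P.cons (P.lf 13446204 0 0) (P.cons (P.lf 501408 0 0) (P.lf 0 8166 0)))) (P.cons (P.cons (P.lf 222389010 0 0) (P.cons (P.lf 0 1595298 0) (P.cons (P.lf 0 59484 0) (P.lf 963 0 0)))) (P.cons (P.cons (P.lf 0 4277769 0) (P.cons (P.lf 0 140184 0) (P.cons (P.lf 0 5223 0) (P.lf 81 0 0)))) (P.cons (P.cons (P.lf 0 1771245 0) (P.cons (P.lf 15021 0 0) (P.cons (P.lf 555 0 0) P.nil))) (P.cons (P.cons (P.lf 33975 0 0) (P.cons (P.lf 963 0 0) P.nil)) (P.cons (P.cons (P.lf 7836 0 0) P.nil) P.nil)))))) 1434)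
 (EL.cons 11 (TM.mk (P.cons (P.cons (P.lf 0 577923147 0) (P.cons (P.lf 0 47491614 0) (P.cons (P.lf 832389 0 0) (P.cons (P.lf 15990 0 0) (P.lf 0 192 0))))) (P.cons (P.cons (P.lf 0 10564470 0) (P.cons (P.lf 0 868149 0) (P.cons (P.lf 15216 0 0) (P.cons (P.lf 291 0 0) (P.lf 0 3 0))))) (P.cons (P.cons (P.lf 4818321 0 0) (P.cons (P.lf 395949 0 0) (P.cons (P.lf 0 6936 0) (P.cons (P.lf 0 132 0) P.nil)))) (P.cons (P.cons (P.lf 206322 0 0) (P.cons (P.lf 16953 0 0) (P.cons (P.lf 0 294 0) P.nil))) (P.cons (P.cons (P.lf 0 8121 0) (P.cons (P.lf 0 666 0) P.nil)) (P.cons (P.cons (P.lf 0 642 0) P.nil) P.nil)))))) 291)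
 EL.nil)))
noncomputable def S169_183_308_327_24 : EL := (EL.cons 4 (TM.mk (P.cons (P.cons (P.lf 644208189 0 0) (P.cons (P.lf 0 24152508 0) (P.cons (P.lf 0 686460 0) (P.cons (P.lf 30630 0 0) (P.cons (P.lf 36 0 0) (P.cons (P.lf 0 9 0) P.nil)))))) (P.cons (P.cons (P.lf 53204172 0 0) (P.cons (P.lf 0 1930893 0) (P.cons (P.lf 0 45588 0) (P.cons (P.lf 3135 0 0) (P.cons (P.lf 3 0 0) P.nil))))) (P.cons (P.cons (P.lf 0 31081866 0) (P.cons (P.lf 637974 0 0) (P.cons (P.lf 20913 0 0) (P.cons (P.lf 0 600 0) P.nil)))) (P.cons (P.cons (P.lf 0 931185 0) (P.cons (P.lf 58722 0 0) (P.cons (P.lf 1617 0 0) P.nil))) (P.cons (P.cons (P.lf 358329 0 0) (P.cons (P.lf 0 5007 0) P.nil)) (P.cons (P.cons (P.lf 13809 0 0) P.nil) P.nil)))))) 4458)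
 (EL.cons 8 (TM.mk (P.cons (P.cons (P.lf 0 305742117 0) (P.cons (P.lf 11462814 0 0) (P.cons (P.lf 325797 0 0) (P.cons (P.lf 0 14538 0) (P.cons (P.lf 0 15 0) (P.cons (P.lf 3 0 0) P.nil)))))) (P.cons (P.cons (P.lf 8941155 0 0) (P.cons (P.lf 0 365508 0) (P.cons (P.lf 0 14793 0) (P.cons (P.lf 132 0 0) (P.cons (P.lf 0 0 0) P.nil))))) (P.cons (P.cons (P.lf 16417899 0 0) (P.cons (P.lf 0 361869 0) (P.cons (P.lf 0 11109 0) (P.cons (P.lf 396 0 0) P.nil)))) (P.cons (P.cons (P.lf 0 1238781 0) (P.cons (P.lf 7035 0 0) (P.cons (P.lf 351 0 0) P.nil))) (P.cons (P.cons (P.lf 0 161109 0) (P.cons (P.lf 4257 0 0) P.nil)) (P.cons (P.cons (P.lf 10923 0 0) P.nil) P.nil)))))) 2253)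
 (EL.cons 11 (TM.mk (P.cons (P.cons (P.lf 0 189140076 0) (P.cons (P.lf 0 11173977 0) (P.cons (P.lf 794349 0 0) (P.cons (P.lf 9675 0 0) (P.cons (P.lf 0 636 0) (P.cons (P.lf 0 0 0) P.nil)))))) (P.cons (P.cons (P.lf 0 42951399 0) (P.cons (P.lf 0 2881281 0) (P.cons (P.lf 139311 0 0) (P.cons (P.lf 1848 0 0) (P.cons (P.lf 0 99 0) P.nil))))) (P.cons (P.cons (P.lf 2475996 0 0) (P.cons (P.lf 188040 0 0) (P.cons (P.lf 0 5409 0) (P.cons (P.lf 0 84 0) P.nil)))) (P.cons (P.cons (P.lf 585429 0 0) (P.cons (P.lf 40401 0 0) (P.cons (P.lf 0 1761 0) P.nil))) (P.cons (P.cons (P.lf 0 405 0) (P.cons (P.lf 0 369 0) P.nil)) (P.cons (P.cons (P.lf 0 3051 0) P.nil) P.nil)))))) 867)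
 EL.nil)))
noncomputable def S169_183_308_327_25 : EL := (EL.cons 4 (TM.mk (P.cons (P.cons (P.lf 0 1096409313 0) (P.cons (P.lf 15780855 0 0) (P.cons (P.lf 588459 0 0) (P.lf 0 9576 0)))) (P.cons (P.cons (P.lf 213450006 0 0) (P.cons (P.lf 0 1187865 0) (P.cons (P.lf 0 44295 0) (P.lf 723 0 0)))) (P.cons (P.cons (P.lf 7474473 0 0) (P.cons (P.lf 0 262644 0) (P.cons (P.lf 0 9792 0) (P.lf 156 0 0)))) (P.cons (P.cons (P.lf 0 2514297 0) (P.cons (P.lf 11613 0 0) (P.cons (P.lf 435 0 0) P.nil))) (P.cons (P.cons (P.lf 0 59457 0) (P.cons (P.lf 2178 0 0) P.nil)) (P.cons (P.cons (P.lf 13353 0 0) P.nil) P.nil)))))) 1551)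
 (EL.cons 8 (TM.mk (P.cons (P.cons (P.lf 520357410 0 0) (P.cons (P.lf 0 7489617 0) (P.cons (P.lf 0 279285 0) (P.lf 4548 0 0)))) (P.cons (P.cons (P.lf 0 159496587 0) (P.cons (P.lf 1401342 0 0) (P.cons (P.lf 52254 0 0) (P.lf 0 846 0)))) (P.cons (P.cons (P.lf 9751584 0 0) (P.cons (P.lf 33249 0 0) (P.cons (P.lf 1236 0 0) (P.lf 0 18 0)))) (P.cons (P.cons (P.lf 1096605 0 0) (P.cons (P.lf 0 15732 0) (P.cons (P.lf 0 585 0) P.nil))) (P.cons (P.cons (P.lf 0 92496 0) (P.cons (P.lf 0 132 0) P.nil)) (P.cons (P.cons (P.lf 0 5382 0) P.nil) P.nil)))))) 1263)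
 (EL.cons 11 (TM.mk (P.cons (P.cons (P.lf 321906711 0 0) (P.cons (P.lf 26453118 0 0) (P.cons (P.lf 0 463644 0) (P.cons (P.lf 0 8907 0) (P.lf 105 0 0))))) (P.cons (P.cons (P.lf 0 16153806 0) (P.cons (P.lf 0 1327461 0) (P.cons (P.lf 23265 0 0) (P.cons (P.lf 447 0 0) (P.lf 0 3 0))))) (P.cons (P.cons (P.lf 0 3774390 0) (P.cons (P.lf 0 310164 0) (P.cons (P.lf 5433 0 0) (P.cons (P.lf 102 0 0) P.nil)))) (P.cons (P.cons (P.lf 61506 0 0) (P.cons (P.lf 5052 0 0) (P.cons (P.lf 0 87 0) P.nil))) (P.cons (P.cons (P.lf 18894 0 0) (P.cons (P.lf 1551 0 0) P.nil)) (P.cons (P.cons (P.lf 270 0 0) P.nil) P.nil)))))) 285)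
 EL.nil)))
noncomputable def S169_183_308_327_26 : EL := (EL.cons 4 (TM.mk (P.cons (P.cons (P.lf 0 358827885 0) (P.cons (P.lf 13453092 0 0) (P.cons (P.lf 382362 0 0) (P.cons (P.lf 0 17061 0) (P.cons (P.lf 0 21 0) (P.cons (P.lf 3 0 0) P.nil)))))) (P.cons (P.cons (P.lf 0 5069076 0) (P.cons (P.lf 154497 0 0) (P.cons (P.lf 0 780 0) (P.cons (P.lf 0 579 0) (P.cons (P.lf 0 0 0) P.nil))))) (P.cons (P.cons (P.lf 20108223 0 0) (P.cons (P.lf 0 457728 0) (P.cons (P.lf 0 14202 0) (P.cons (P.lf 489 0 0) P.nil)))) (P.cons (P.cons (P.lf 0 609141 0) (P.cons (P.lf 0 10458 0) (P.cons (P.lf 0 150 0) P.nil))) (P.cons (P.cons (P.lf 0 273321 0) (P.cons (P.lf 5832 0 0) P.nil)) (P.cons (P.cons (P.lf 5073 0 0) P.nil) P.nil)))))) 3597)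
 (EL.cons 8 (TM.mk (P.cons (P.cons (P.lf 170300220 0 0) (P.cons (P.lf 0 6384855 0) (P.cons (P.lf 0 181470 0) (P.cons (P.lf 8097 0 0) (P.cons (P.lf 9 0 0) (P.cons (P.lf 0 0 0) P.nil)))))) (P.cons (P.cons (P.lf 0 16639320 0) (P.cons (P.lf 640707 0 0) (P.cons (P.lf 20664 0 0) (P.cons (P.lf 0 627 0) (P.cons (P.lf 0 0 0) P.nil))))) (P.cons (P.cons (P.lf 0 9167727 0) (P.cons (P.lf 201264 0 0) (P.cons (P.lf 6012 0 0) (P.cons (P.lf 0 231 0) P.nil)))) (P.cons (P.cons (P.lf 1329504 0 0) (P.cons (P.lf 0 18258 0) (P.cons (P.lf 0 639 0) P.nil))) (P.cons (P.cons (P.lf 62310 0 0) (P.cons (P.lf 0 2544 0) P.nil)) (P.cons (P.cons (P.lf 0 13857 0) P.nil) P.nil)))))) 1587)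
 (EL.cons 11 (TM.mk (P.cons (P.cons (P.lf 105352173 0 0) (P.cons (P.lf 6223974 0 0) (P.cons (P.lf 0 442458 0) (P.cons (P.lf 0 5388 0) (P.cons (P.lf 354 0 0) (P.cons (P.lf 0 0 0) P.nil)))))) (P.cons (P.cons (P.lf 16711602 0 0) (P.cons (P.lf 1178787 0 0) (P.cons (P.lf 0 47307 0) (P.cons (P.lf 0 660 0) (P.cons (P.lf 30 0 0) P.nil))))) (P.cons (P.cons (P.lf 0 3242100 0) (P.cons (P.lf 0 227910 0) (P.cons (P.lf 9270 0 0) (P.cons (P.lf 126 0 0) P.nil)))) (P.cons (P.cons (P.lf 0 281055 0) (P.cons (P.lf 0 18657 0) (P.cons (P.lf 933 0 0) P.nil))) (P.cons (P.cons (P.lf 26106 0 0) (P.cons (P.lf 2007 0 0) P.nil)) (P.cons (P.cons (P.lf 2412 0 0) P.nil) P.nil)))))) 702)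
 EL.nil)))
noncomputable def S169_183_308_327_27 : EL := (EL.cons 13 (TM.mk (P.lf 0 4294967296 0) 0)
 EL.nil)
noncomputable def S169_183_308_327_28 : EL := (EL.cons 13 (TM.mk (P.cons (P.cons (P.lf 0 1405637493 0) (P.cons (P.lf 32468200 0 0) (P.cons (P.lf 1210728 0 0) (P.lf 0 19708 0)))) (P.cons (P.cons (P.lf 0 293507963 0) (P.cons (P.lf 4224520 0 0) (P.cons (P.lf 157528 0 0) (P.lf 0 2560 0)))) (P.cons (P.cons (P.lf 12047049 0 0) (P.cons (P.lf 78824 0 0) (P.cons (P.lf 2936 0 0) (P.lf 0 48 0)))) (P.cons (P.cons (P.lf 1181644 0 0) (P.cons (P.lf 0 11908 0) (P.cons (P.lf 0 440 0) P.nil))) (P.cons (P.cons (P.lf 0 9208 0) (P.cons (P.lf 0 576 0) P.nil)) (P.cons (P.cons (P.lf 0 2682 0) P.nil) P.nil)))))) 595)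
 EL.nil)
noncomputable def S169_183_308_327_29 : EL := (EL.cons 13 (TM.mk (P.cons (P.cons (P.lf 0 460030688 0) (P.cons (P.lf 21252091 0 0) (P.cons (P.lf 547036 0 0) (P.cons (P.lf 0 31205 0) (P.cons (P.lf 0 43 0) (P.cons (P.lf 11 0 0) P.nil)))))) (P.cons (P.cons (P.lf 0 192115920 0) (P.cons (P.lf 7202764 0 0) (P.cons (P.lf 204715 0 0) (P.cons (P.lf 0 9132 0) (P.cons (P.lf 0 11 0) P.nil))))) (P.cons (P.cons (P.lf 0 12172236 0) (P.cons (P.lf 446840 0 0) (P.cons (P.lf 11312 0 0) (P.cons (P.lf 0 669 0) P.nil)))) (P.cons (P.cons (P.lf 2419980 0 0) (P.cons (P.lf 0 38585 0) (P.cons (P.lf 0 1411 0) P.nil))) (P.cons (P.cons (P.lf 121683 0 0) (P.cons (P.lf 0 4632 0) P.nil)) (P.cons (P.cons (P.lf 0 9642 0) P.nil) P.nil)))))) 1824)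
 EL.nil)
noncomputable def S169_183_308_327_30 : EL := (EL.cons 13 (TM.mk (P.cons (P.lf 2392322948 0 0) (P.cons (P.lf 0 163782508 0) (P.cons (P.lf 0 5110764 0) (P.cons (P.lf 39116 0 0) (P.cons (P.lf 5000 0 0) (P.cons (P.lf 60 0 0) P.nil)))))) 56)
 EL.nil)
noncomputable def S169_183_308_327_31 : EL := (EL.cons 13 (TM.mk (P.cons (P.cons (P.lf 782948646 0 0) (P.cons (P.lf 0 18084985 0) (P.cons (P.lf 0 674382 0) (P.lf 10977 0 0)))) (P.cons (P.cons (P.lf 109883724 0 0) (P.cons (P.lf 0 1114954 0) (P.cons (P.lf 0 41574 0) (P.lf 674 0 0)))) (P.cons (P.cons (P.lf 0 19575418 0) (P.cons (P.lf 155825 0 0) (P.cons (P.lf 5812 0 0) (P.lf 0 94 0)))) (P.cons (P.cons (P.lf 0 535241 0) (P.cons (P.lf 14369 0 0) (P.cons (P.lf 533 0 0) P.nil))) (P.cons (P.cons (P.lf 68834 0 0) (P.cons (P.lf 0 115 0) P.nil)) (P.cons (P.cons (P.lf 2800 0 0) P.nil) P.nil)))))) 615)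
 EL.nil)
noncomputable def S169_183_308_327_32 : EL := (EL.cons 13 (TM.mk (P.cons (P.cons (P.lf 256239895 0 0) (P.cons (P.lf 0 11837544 0) (P.cons (P.lf 0 304702 0) (P.cons (P.lf 17381 0 0) (P.cons (P.lf 23 0 0) (P.cons (P.lf 0 6 0) P.nil)))))) (P.cons (P.cons (P.lf 89467117 0 0) (P.cons (P.lf 0 3201564 0) (P.cons (P.lf 0 93167 0) (P.cons (P.lf 3896 0 0) (P.cons (P.lf 4 0 0) P.nil))))) (P.cons (P.cons (P.lf 0 1093469 0) (P.cons (P.lf 51063 0 0) (P.cons (P.lf 2156 0 0) (P.cons (P.lf 0 12 0) P.nil)))) (P.cons (P.cons (P.lf 0 2036531 0) (P.cons (P.lf 46909 0 0) (P.cons (P.lf 1455 0 0) P.nil))) (P.cons (P.cons (P.lf 12305 0 0) (P.cons (P.lf 1550 0 0) P.nil)) (P.cons (P.cons (P.lf 13231 0 0) P.nil) P.nil)))))) 2038)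
 EL.nil)
noncomputable def S169_183_308_327_33 : EL := (EL.cons 14 (TM.mk (P.lf 8589934592 0 0) 0)
 EL.nil)
noncomputable def S169_183_308_327_34 : EL := (EL.cons 14 (TM.mk (P.cons (P.cons (P.lf 2811274986 0 0) (P.cons (P.lf 0 64936400 0) (P.cons (P.lf 0 2421456 0) (P.lf 39416 0 0)))) (P.cons (P.cons (P.lf 587015926 0 0) (P.cons (P.lf 0 8449040 0) (P.cons (P.lf 0 315056 0) (P.lf 5120 0 0)))) (P.cons (P.cons (P.lf 0 24094098 0) (P.cons (P.lf 0 157648 0) (P.cons (P.lf 0 5872 0) (P.lf 96 0 0)))) (P.cons (P.cons (P.lf 0 2363288 0) (P.cons (P.lf 23816 0 0) (P.cons (P.lf 880 0 0) P.nil))) (P.cons (P.cons (P.lf 18416 0 0) (P.cons (P.lf 1152 0 0) P.nil)) (P.cons (P.cons (P.lf 5364 0 0) P.nil) P.nil)))))) 1190)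
 EL.nil)
noncomputable def S169_183_308_327_35 : EL := (EL.cons 14 (TM.mk (P.cons (P.cons (P.lf 920061376 0 0) (P.cons (P.lf 0 42504182 0) (P.cons (P.lf 0 1094072 0) (P.cons (P.lf 62410 0 0) (P.cons (P.lf 86 0 0) (P.cons (P.lf 0 22 0) P.nil)))))) (P.cons (P.cons (P.lf 384231840 0 0) (P.cons (P.lf 0 14405528 0) (P.cons (P.lf 0 409430 0) (P.cons (P.lf 18264 0 0) (P.cons (P.lf 22 0 0) P.nil))))) (P.cons (P.cons (P.lf 24344472 0 0) (P.cons (P.lf 0 893680 0) (P.cons (P.lf 0 22624 0) (P.cons (P.lf 1338 0 0) P.nil)))) (P.cons (P.cons (P.lf 0 4839960 0) (P.cons (P.lf 77170 0 0) (P.cons (P.lf 2822 0 0) P.nil))) (P.cons (P.cons (P.lf 0 243366 0) (P.cons (P.lf 9264 0 0) P.nil)) (P.cons (P.cons (P.lf 19284 0 0) P.nil) P.nil)))))) 3648)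
 EL.nil)
noncomputable def S169_183_308_327_36 : EL := (EL.cons 14 (TM.mk (P.cons (P.lf 0 4784645896 0) (P.cons (P.lf 327565016 0 0) (P.cons (P.lf 10221528 0 0) (P.cons (P.lf 0 78232 0) (P.cons (P.lf 0 10000 0) (P.cons (P.lf 0 120 0) P.nil)))))) 112)
 EL.nil)
noncomputable def S169_183_308_327_37 : EL := (EL.cons 14 (TM.mk (P.cons (P.cons (P.lf 0 1565897292 0) (P.cons (P.lf 36169970 0 0) (P.cons (P.lf 1348764 0 0) (P.lf 0 21954 0)))) (P.cons (P.cons (P.lf 0 219767448 0) (P.cons (P.lf 2229908 0 0) (P.cons (P.lf 83148 0 0) (P.lf 0 1348 0)))) (P.cons (P.cons (P.lf 39150836 0 0) (P.cons (P.lf 0 311650 0) (P.cons (P.lf 0 11624 0) (P.lf 188 0 0)))) (P.cons (P.cons (P.lf 1070482 0 0) (P.cons (P.lf 0 28738 0) (P.cons (P.lf 0 1066 0) P.nil))) (P.cons (P.cons (P.lf 0 137668 0) (P.cons (P.lf 230 0 0) P.nil)) (P.cons (P.cons (P.lf 0 5600 0) P.nil) P.nil)))))) 1230)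
 EL.nil)
noncomputable def S169_183_308_327_38 : EL := (EL.cons 14 (TM.mk (P.cons (P.cons (P.lf 0 512479790 0) (P.cons (P.lf 23675088 0 0) (P.cons (P.lf 609404 0 0) (P.cons (P.lf 0 34762 0) (P.cons (P.lf 0 46 0) (P.cons (P.lf 12 0 0) P.nil)))))) (P.cons (P.cons (P.lf 0 178934234 0) (P.cons (P.lf 6403128 0 0) (P.cons (P.lf 186334 0 0) (P.cons (P.lf 0 7792 0) (P.cons (P.lf 0 8 0) P.nil))))) (P.cons (P.cons (P.lf 2186938 0 0) (P.cons (P.lf 0 102126 0) (P.cons (P.lf 0 4312 0) (P.cons (P.lf 24 0 0) P.nil)))) (P.cons (P.cons (P.lf 4073062 0 0) (P.cons (P.lf 0 93818 0) (P.cons (P.lf 0 2910 0) P.nil))) (P.cons (P.cons (P.lf 0 24610 0) (P.cons (P.lf 0 3100 0) P.nil)) (P.cons (P.cons (P.lf 0 26462 0) P.nil) P.nil)))))) 4076)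
 EL.nil)
noncomputable def S169_183_308_327_39 : EL := (EL.cons 14 (TM.mk (P.cons (P.lf 2665076910 0 0) (P.cons (P.lf 0 364911418 0) (P.cons (P.lf 1104322 0 0) (P.cons (P.lf 866718 0 0) (P.cons (P.lf 17336 0 0) (P.cons (P.lf 0 814 0) P.nil)))))) 180)
 EL.nil)
noncomputable def S169_183_308_327_40 : EL := (EL.cons 14 (TM.mk (P.cons (P.cons (P.lf 872214330 0 0) (P.cons (P.lf 0 20146892 0) (P.cons (P.lf 0 751270 0) (P.lf 12228 0 0)))) (P.cons (P.cons (P.lf 62698526 0 0) (P.cons (P.lf 137216 0 0) (P.cons (P.lf 5118 0 0) (P.lf 0 84 0)))) (P.cons (P.cons (P.lf 0 32051102 0) (P.cons (P.lf 301666 0 0) (P.cons (P.lf 11250 0 0) (P.lf 0 182 0)))) (P.cons (P.cons (P.lf 649446 0 0) (P.cons (P.lf 6446 0 0) (P.cons (P.lf 236 0 0) P.nil))) (P.cons (P.cons (P.lf 167914 0 0) (P.cons (P.lf 0 1658 0) P.nil)) (P.cons (P.cons (P.lf 0 934 0) P.nil) P.nil)))))) 1294)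
 EL.nil)
noncomputable def S169_183_308_327_41 : EL := (EL.cons 14 (TM.mk (P.cons (P.cons (P.lf 285454364 0 0) (P.cons (P.lf 0 13187168 0) (P.cons (P.lf 0 339442 0) (P.cons (P.lf 19362 0 0) (P.cons (P.lf 26 0 0) (P.cons (P.lf 0 6 0) P.nil)))))) (P.cons (P.cons (P.lf 80124766 0 0) (P.cons (P.lf 0 2663766 0) (P.cons (P.lf 0 80550 0) (P.cons (P.lf 3014 0 0) (P.cons (P.lf 2 0 0) P.nil))))) (P.cons (P.cons (P.lf 0 8651364 0) (P.cons (P.lf 329230 0 0) (P.cons (P.lf 10232 0 0) (P.cons (P.lf 0 352 0) P.nil)))) (P.cons (P.cons (P.lf 0 2393578 0) (P.cons (P.lf 55766 0 0) (P.cons (P.lf 1672 0 0) P.nil))) (P.cons (P.cons (P.lf 173856 0 0) (P.cons (P.lf 0 2058 0) P.nil)) (P.cons (P.cons (P.lf 18842 0 0) P.nil) P.nil)))))) 3606)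
 EL.nil)
noncomputable def S169_183_308_327_42 : EL := (EL.cons 14 (TM.mk (P.cons (P.lf 0 1484464074 0) (P.cons (P.lf 304886824 0 0) (P.cons (P.lf 0 11359206 0) (P.cons (P.lf 0 899150 0) (P.cons (P.lf 24928 0 0) (P.cons (P.lf 2522 0 0) P.nil)))))) 228)
 EL.nil)
noncomputable def S169_183_308_327_43 : EL := (EL.cons 14 (TM.mk (P.cons (P.cons (P.lf 0 485828694 0) (P.cons (P.lf 11221942 0 0) (P.cons (P.lf 418462 0 0) (P.lf 0 6810 0)))) (P.cons (P.cons (P.lf 0 1662800 0) (P.cons (P.lf 0 844704 0) (P.cons (P.lf 0 31498 0) (P.lf 514 0 0)))) (P.cons (P.cons (P.lf 21281464 0 0) (P.cons (P.lf 0 186770 0) (P.cons (P.lf 0 6964 0) (P.lf 112 0 0)))) (P.cons (P.cons (P.lf 0 1517304 0) (P.cons (P.lf 8258 0 0) (P.cons (P.lf 308 0 0) P.nil))) (P.cons (P.cons (P.lf 0 108488 0) (P.cons (P.lf 1550 0 0) P.nil)) (P.cons (P.cons (P.lf 7902 0 0) P.nil) P.nil)))))) 1346)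
 EL.nil)
noncomputable def S169_183_308_327_44 : EL := (EL.cons 14 (TM.mk (P.cons (P.cons (P.lf 0 158999820 0) (P.cons (P.lf 7345332 0 0) (P.cons (P.lf 189070 0 0) (P.cons (P.lf 0 10784 0) (P.cons (P.lf 0 14 0) (P.cons (P.lf 2 0 0) P.nil)))))) (P.cons (P.cons (P.lf 0 33744584 0) (P.cons (P.lf 980860 0 0) (P.cons (P.lf 31922 0 0) (P.cons (P.lf 0 940 0) (P.cons (P.lf 0 0 0) P.nil))))) (P.cons (P.cons (P.lf 8213980 0 0) (P.cons (P.lf 0 300654 0) (P.cons (P.lf 0 9174 0) (P.cons (P.lf 334 0 0) P.nil)))) (P.cons (P.cons (P.lf 1096074 0 0) (P.cons (P.lf 0 21556 0) (P.cons (P.lf 0 634 0) P.nil))) (P.cons (P.cons (P.lf 0 199472 0) (P.cons (P.lf 3704 0 0) P.nil)) (P.cons (P.cons (P.lf 0 6732 0) P.nil) P.nil)))))) 3494)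
 EL.nil)
noncomputable def S169_183_308_327_45 : EL := (EL.cons 14 (TM.mk (P.cons (P.cons (P.lf 301113530 0 0) (P.cons (P.lf 0 20865864 0) (P.cons (P.lf 0 296108 0) (P.cons (P.lf 44898 0 0) (P.cons (P.lf 0 330 0) (P.cons (P.lf 0 30 0) P.nil)))))) (P.cons (P.cons (P.lf 188624490 0 0) (P.cons (P.lf 0 11428818 0) (P.cons (P.lf 0 200114 0) (P.cons (P.lf 22344 0 0) (P.cons (P.lf 0 122 0) P.nil))))) (P.cons (P.cons (P.lf 31644148 0 0) (P.cons (P.lf 0 1736546 0) (P.cons (P.lf 0 32192 0) (P.cons (P.lf 3264 0 0) P.nil)))) (P.cons (P.cons (P.lf 0 1251226 0) (P.cons (P.lf 24426 0 0) (P.cons (P.lf 1572 0 0) P.nil))) (P.cons (P.cons (P.lf 0 582422 0) (P.cons (P.lf 22026 0 0) P.nil)) (P.cons (P.cons (P.lf 0 2042 0) P.nil) P.nil)))))) 8724)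
 EL.nil)
noncomputable def S169_183_308_327_46 : EL := (EL.cons 15 (TM.mk (P.lf 4294967296 0 0) 0)
 EL.nil)
noncomputable def S169_183_308_327_47 : EL := (EL.cons 15 (TM.mk (P.cons (P.cons (P.lf 1405637493 0 0) (P.cons (P.lf 0 32468200 0) (P.cons (P.lf 0 1210728 0) (P.lf 19708 0 0)))) (P.cons (P.cons (P.lf 293507963 0 0) (P.cons (P.lf 0 4224520 0) (P.cons (P.lf 0 157528 0) (P.lf 2560 0 0)))) (P.cons (P.cons (P.lf 0 12047049 0) (P.cons (P.lf 0 78824 0) (P.cons (P.lf 0 2936 0) (P.lf 48 0 0)))) (P.cons (P.cons (P.lf 0 1181644 0) (P.cons (P.lf 11908 0 0) (P.cons (P.lf 440 0 0) P.nil))) (P.cons (P.cons (P.lf 9208 0 0) (P.cons (P.lf 576 0 0) P.nil)) (P.cons (P.cons (P.lf 2682 0 0) P.nil) P.nil)))))) 595)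
 EL.nil)
noncomputable def S169_183_308_327_48 : EL := (EL.cons 15 (TM.mk (P.cons (P.cons (P.lf 460030688 0 0) (P.cons (P.lf 0 21252091 0) (P.cons (P.lf 0 547036 0) (P.cons (P.lf 31205 0 0) (P.cons (P.lf 43 0 0) (P.cons (P.lf 0 11 0) P.nil)))))) (P.cons (P.cons (P.lf 192115920 0 0) (P.cons (P.lf 0 7202764 0) (P.cons (P.lf 0 204715 0) (P.cons (P.lf 9132 0 0) (P.cons (P.lf 11 0 0) P.nil))))) (P.cons (P.cons (P.lf 12172236 0 0) (P.cons (P.lf 0 446840 0) (P.cons (P.lf 0 11312 0) (P.cons (P.lf 669 0 0) P.nil)))) (P.cons (P.cons (P.lf 0 2419980 0) (P.cons (P.lf 38585 0 0) (P.cons (P.lf 1411 0 0) P.nil))) (P.cons (P.cons (P.lf 0 121683 0) (P.cons (P.lf 4632 0 0) P.nil)) (P.cons (P.cons (P.lf 9642 0 0) P.nil) P.nil)))))) 1824)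
 EL.nil)
noncomputable def S169_183_308_327 : SL := (SL.cons S169_183_308_327_0 (SL.cons S169_183_308_327_1 (SL.cons S169_183_308_327_2 (SL.cons S169_183_308_327_3 (SL.cons S169_183_308_327_4 (SL.cons S169_183_308_327_5 (SL.cons S169_183_308_327_6 (SL.cons S169_183_308_327_7 (SL.cons S169_183_308_327_8 (SL.cons S169_183_308_327_9 (SL.cons S169_183_308_327_10 (SL.cons S169_183_308_327_11 (SL.cons S169_183_308_327_12 (SL.cons S169_183_308_327_13 (SL.cons S169_183_308_327_14 (SL.cons S169_183_308_327_15 (SL.cons S169_183_308_327_16 (SL.cons S169_183_308_327_17 (SL.cons S169_183_308_327_18 (SL.cons S169_183_308_327_19 (SL.cons S169_183_308_327_20 (SL.cons S169_183_308_327_21 (SL.cons S169_183_308_327_22 (SL.cons S169_183_308_327_23 (SL.cons S169_183_308_327_24 (SL.cons S169_183_308_327_25 (SL.cons S169_183_308_327_26 (SL.cons S169_183_308_327_27 (SL.cons S169_183_308_327_28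 (SL.cons S169_183_308_327_29 (SL.cons S169_183_308_327_30 (SL.cons S169_183_308_327_31 (SL.cons S169_183_308_327_32 (SL.cons S169_183_308_327_33 (SL.cons S169_183_308_327_34 (SL.cons S169_183_308_327_35 (SL.cons S169_183_308_327_36 (SL.cons S169_183_308_327_37 (SL.cons S169_183_308_327_38 (SL.cons S169_183_308_327_39 (SL.cons S169_183_308_327_40 (SL.cons S169_183_308_327_41 (SL.cons S169_183_308_327_42 (SL.cons S169_183_308_327_43 (SL.cons S169_183_308_327_44 (SL.cons S169_183_308_327_45 (SL.cons S169_183_308_327_46 (SL.cons S169_183_308_327_47 (SL.cons S169_183_308_327_48 SL.nil)))))))))))))))))))))))))))))))))))))))))))))))))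
noncomputable def S169_183_364_401_0 : EL := (EL.cons 0 (TM.mk (P.cons (P.lf 6113364111 0 0) (P.cons (P.lf 320722925 0 0) (P.cons (P.lf 0 970595 0) (P.cons (P.lf 0 761763 0) (P.cons (P.lf 0 15236 0) (P.cons (P.lf 715 0 0) P.nil)))))) 165)
 (EL.cons 1 (TM.mk (P.cons (P.lf 0 1754812605 0) (P.cons (P.lf 44029685 0 0) (P.cons (P.lf 10840057 0 0) (P.cons (P.lf 104334 0 0) (P.cons (P.lf 0 15399 0) (P.cons (P.lf 0 481 0) P.nil)))))) 128)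
 (EL.cons 5 (TM.mk (P.cons (P.lf 5127803834 0 0) (P.cons (P.lf 0 114034818 0) (P.cons (P.lf 345096 0 0) (P.cons (P.lf 270848 0 0) (P.cons (P.lf 5418 0 0) (P.cons (P.lf 0 254 0) P.nil)))))) 109)
 (EL.cons 9 (TM.mk (P.lf 6442450944 0 0) 2)
 EL.nil))))
noncomputable def S169_183_364_401_1 : EL := (EL.cons 0 (TM.mk (P.cons (P.cons (P.lf 0 1632016737 0) (P.cons (P.lf 19167567 0 0) (P.cons (P.lf 650329 0 0) (P.lf 0 30963 0)))) (P.cons (P.cons (P.lf 914724124 0 0) (P.cons (P.lf 0 24418692 0) (P.cons (P.lf 0 828494 0) (P.lf 39453 0 0)))) (P.cons (P.cons (P.lf 43416686 0 0) (P.cons (P.lf 0 3373683 0) (P.cons (P.lf 0 114462 0) (P.lf 5441 0 0)))) (P.cons (P.cons (P.lf 0 6932626 0) (P.cons (P.lf 2152 0 0) (P.cons (P.lf 80 0 0) P.nil))) (P.cons (P.cons (P.lf 0 442733 0) (P.cons (P.lf 19321 0 0) P.nil)) (P.cons (P.cons (P.lf 17455 0 0) P.nil) P.nil)))))) 7945)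
 (EL.cons 1 (TM.mk (P.cons (P.cons (P.lf 0 908429062 0) (P.cons (P.lf 57050070 0 0) (P.cons (P.lf 1935635 0 0) (P.lf 0 92166 0)))) (P.cons (P.cons (P.lf 0 252323466 0) (P.cons (P.lf 13815642 0 0) (P.cons (P.lf 468742 0 0) (P.lf 0 22314 0)))) (P.cons (P.cons (P.lf 40515464 0 0) (P.cons (P.lf 0 280811 0) (P.cons (P.lf 0 9530 0) (P.lf 455 0 0)))) (P.cons (P.cons (P.lf 3329628 0 0) (P.cons (P.lf 0 157895 0) (P.cons (P.lf 0 5350 0) P.nil))) (P.cons (P.cons (P.lf 0 197045 0) (P.cons (P.lf 0 4593 0) P.nil)) (P.cons (P.cons (P.lf 0 18944 0) P.nil) P.nil)))))) 4338)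
 (EL.cons 5 (TM.mk (P.cons (P.cons (P.lf 2506578057 0 0) (P.cons (P.lf 0 159985590 0) (P.cons (P.lf 0 5428120 0) (P.lf 258480 0 0)))) (P.cons (P.cons (P.lf 113449936 0 0) (P.cons (P.lf 0 11247218 0) (P.cons (P.lf 0 381608 0) (P.lf 18180 0 0)))) (P.cons (P.cons (P.lf 0 37041775 0) (P.cons (P.lf 827664 0 0) (P.cons (P.lf 28076 0 0) (P.lf 0 1330 0)))) (P.cons (P.cons (P.lf 626100 0 0) (P.cons (P.lf 55434 0 0) (P.cons (P.lf 1880 0 0) P.nil))) (P.cons (P.cons (P.lf 181336 0 0) (P.cons (P.lf 0 4130 0) P.nil)) (P.cons (P.cons (P.lf 0 1755 0) P.nil) P.nil)))))) 4119)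
 (EL.cons 9 (TM.mk (P.cons (P.cons (P.lf 1699681261 0 0) (P.cons (P.lf 0 135150402 0) (P.cons (P.lf 0 4585488 0) (P.lf 218352 0 0)))) (P.cons (P.cons (P.lf 387075148 0 0) (P.cons (P.lf 0 17584770 0) (P.cons (P.lf 0 596628 0) (P.lf 28410 0 0)))) (P.cons (P.cons (P.lf 0 19062997 0) (P.cons (P.lf 0 328116 0) (P.cons (P.lf 0 11130 0) (P.lf 528 0 0)))) (P.cons (P.cons (P.lf 0 1622484 0) (P.cons (P.lf 49584 0 0) (P.cons (P.lf 1680 0 0) P.nil))) (P.cons (P.cons (P.lf 21108 0 0) (P.cons (P.lf 2412 0 0) P.nil)) (P.cons (P.cons (P.lf 3909 0 0) P.nil) P.nil)))))) 1049)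
 (EL.cons 2 (TM.mk (P.cons (P.cons (P.lf 805503062 0 0) (P.cons (P.lf 62264311 0 0) (P.cons (P.lf 0 3931405 0) (P.cons (P.lf 0 73718 0) (P.lf 2629 0 0))))) (P.cons (P.cons (P.lf 14724646 0 0) (P.cons (P.lf 1138193 0 0) (P.cons (P.lf 0 71865 0) (P.cons (P.lf 0 1344 0) (P.lf 45 0 0))))) (P.cons (P.cons (P.lf 0 6715726 0) (P.cons (P.lf 0 519114 0) (P.cons (P.lf 32774 0 0) (P.cons (P.lf 613 0 0) P.nil)))) (P.cons (P.cons (P.lf 0 287569 0) (P.cons (P.lf 0 22227 0) (P.cons (P.lf 1403 0 0) P.nil))) (P.cons (P.cons (P.lf 11317 0 0) (P.cons (P.lf 874 0 0) P.nil)) (P.cons (P.cons (P.lf 897 0 0) P.nil) P.nil)))))) 473)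
 (EL.cons 6 (TM.mk (P.cons (P.cons (P.lf 603456045 0 0) (P.cons (P.lf 46646346 0 0) (P.cons (P.lf 0 2945277 0) (P.cons (P.lf 0 55227 0) (P.lf 1971 0 0))))) (P.cons (P.cons (P.lf 78517266 0 0) (P.cons (P.lf 6069279 0 0) (P.cons (P.lf 0 383217 0) (P.cons (P.lf 0 7182 0) (P.lf 255 0 0))))) (P.cons (P.cons (P.lf 1465068 0 0) (P.cons (P.lf 113247 0 0) (P.cons (P.lf 0 7149 0) (P.cons (P.lf 0 132 0) P.nil)))) (P.cons (P.cons (P.lf 0 221409 0) (P.cons (P.lf 0 17112 0) (P.cons (P.lf 1080 0 0) P.nil))) (P.cons (P.cons (P.lf 0 10776 0) (P.cons (P.lf 0 831 0) P.nil)) (P.cons (P.cons (P.lf 165 0 0) P.nil) P.nil)))))) 315)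
 EL.nil))))))
noncomputable def S169_183_364_401_2 : EL := (EL.cons 0 (TM.mk (P.cons (P.cons (P.lf 0 1286647617 0) (P.cons (P.lf 146256479 0 0) (P.cons (P.lf 1467727 0 0) (P.cons (P.lf 0 473424 0) (P.cons (P.lf 7262 0 0) (P.cons (P.lf 379 0 0) P.nil)))))) (P.cons (P.cons (P.lf 70413974 0 0) (P.cons (P.lf 0 12285014 0) (P.cons (P.lf 0 338185 0) (P.cons (P.lf 25195 0 0) (P.cons (P.lf 0 175 0) P.nil))))) (P.cons (P.cons (P.lf 119860275 0 0) (P.cons (P.lf 0 8806571 0) (P.cons (P.lf 0 120802 0) (P.cons (P.lf 26298 0 0) P.nil)))) (P.cons (P.cons (P.lf 0 619315 0) (P.cons (P.lf 0 422879 0) (P.cons (P.lf 4419 0 0) P.nil))) (P.cons (P.cons (P.lf 0 1490254 0) (P.cons (P.lf 80101 0 0) P.nil)) (P.cons (P.cons (P.lf 0 26427 0) P.nil) P.nil)))))) 37008)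
 (EL.cons 1 (TM.mk (P.cons (P.cons (P.lf 0 357191489 0) (P.cons (P.lf 48792521 0 0) (P.cons (P.lf 34123 0 0) (P.cons (P.lf 0 188843 0) (P.cons (P.lf 3374 0 0) (P.cons (P.lf 177 0 0) P.nil)))))) (P.cons (P.cons (P.lf 0 189732082 0) (P.cons (P.lf 23227342 0 0) (P.cons (P.lf 78569 0 0) (P.cons (P.lf 0 85665 0) (P.cons (P.lf 1471 0 0) P.nil))))) (P.cons (P.cons (P.lf 0 2121701 0) (P.cons (P.lf 833984 0 0) (P.cons (P.lf 0 34137 0) (P.cons (P.lf 0 5578 0) P.nil)))) (P.cons (P.cons (P.lf 7277920 0 0) (P.cons (P.lf 0 479172 0) (P.cons (P.lf 0 10408 0) P.nil))) (P.cons (P.cons (P.lf 139857 0 0) (P.cons (P.lf 0 38584 0) P.nil)) (P.cons (P.cons (P.lf 0 66193 0) P.nil) P.nil)))))) 18439)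
 (EL.cons 5 (TM.mk (P.cons (P.cons (P.lf 965682735 0 0) (P.cons (P.lf 0 132822774 0) (P.cons (P.lf 0 50766 0) (P.cons (P.lf 516946 0 0) (P.cons (P.lf 0 9266 0) (P.cons (P.lf 0 476 0) P.nil)))))) (P.cons (P.cons (P.lf 206436373 0 0) (P.cons (P.lf 0 24553319 0) (P.cons (P.lf 0 24867 0) (P.cons (P.lf 94509 0 0) (P.cons (P.lf 0 1670 0) P.nil))))) (P.cons (P.cons (P.lf 0 27659662 0) (P.cons (P.lf 1446652 0 0) (P.cons (P.lf 55796 0 0) (P.cons (P.lf 0 1871 0) P.nil)))) (P.cons (P.cons (P.lf 0 3346172 0) (P.cons (P.lf 330416 0 0) (P.cons (P.lf 4208 0 0) P.nil))) (P.cons (P.cons (P.lf 385451 0 0) (P.cons (P.lf 0 9050 0) P.nil)) (P.cons (P.cons (P.lf 25500 0 0) P.nil) P.nil)))))) 17457)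
 (EL.cons 9 (TM.mk (P.cons (P.cons (P.lf 448418841 0 0) (P.cons (P.lf 0 71312178 0) (P.cons (P.lf 415663 0 0) (P.cons (P.lf 307602 0 0) (P.cons (P.lf 0 5896 0) (P.cons (P.lf 0 310 0) P.nil)))))) (P.cons (P.cons (P.lf 204240399 0 0) (P.cons (P.lf 0 25518817 0) (P.cons (P.lf 0 128031 0) (P.cons (P.lf 91293 0 0) (P.cons (P.lf 0 1534 0) P.nil))))) (P.cons (P.cons (P.lf 13197636 0 0) (P.cons (P.lf 0 1486374 0) (P.cons (P.lf 11334 0 0) (P.cons (P.lf 6591 0 0) P.nil)))) (P.cons (P.cons (P.lf 0 3146788 0) (P.cons (P.lf 158874 0 0) (P.cons (P.lf 5100 0 0) P.nil))) (P.cons (P.cons (P.lf 0 127419 0) (P.cons (P.lf 17143 0 0) P.nil)) (P.cons (P.cons (P.lf 14200 0 0) P.nil) P.nil)))))) 4973)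
 (EL.cons 2 (TM.mk (P.cons (P.cons (P.lf 425024100 0 0) (P.cons (P.lf 0 942052 0) (P.cons (P.lf 0 5833434 0) (P.cons (P.lf 92013 0 0) (P.cons (P.lf 14298 0 0) (P.cons (P.lf 0 270 0) P.nil)))))) (P.cons (P.cons (P.lf 104561887 0 0) (P.cons (P.lf 3067436 0 0) (P.cons (P.lf 0 1068142 0) (P.cons (P.lf 9855 0 0) (P.cons (P.lf 2255 0 0) P.nil))))) (P.cons (P.cons (P.lf 0 6541093 0) (P.cons (P.lf 0 386280 0) (P.cons (P.lf 45196 0 0) (P.cons (P.lf 135 0 0) P.nil)))) (P.cons (P.cons (P.lf 0 1451581 0) (P.cons (P.lf 0 52576 0) (P.cons (P.lf 13713 0 0) P.nil))) (P.cons (P.cons (P.lf 9016 0 0) (P.cons (P.lf 3301 0 0) P.nil)) (P.cons (P.cons (P.lf 7987 0 0) P.nil) P.nil)))))) 3813)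
 (EL.cons 6 (TM.mk (P.cons (P.cons (P.lf 318413886 0 0) (P.cons (P.lf 0 705750 0) (P.cons (P.lf 0 4370214 0) (P.cons (P.lf 68934 0 0) (P.cons (P.lf 10710 0 0) (P.cons (P.lf 0 198 0) P.nil)))))) (P.cons (P.cons (P.lf 113943330 0 0) (P.cons (P.lf 2219094 0 0) (P.cons (P.lf 0 1288944 0) (P.cons (P.lf 15090 0 0) (P.cons (P.lf 2886 0 0) P.nil))))) (P.cons (P.cons (P.lf 6636774 0 0) (P.cons (P.lf 0 38544 0) (P.cons (P.lf 0 93738 0) (P.cons (P.lf 1524 0 0) P.nil)))) (P.cons (P.cons (P.lf 0 709386 0) (P.cons (P.lf 0 52248 0) (P.cons (P.lf 3744 0 0) P.nil))) (P.cons (P.cons (P.lf 0 76554 0) (P.cons (P.lf 0 2742 0) P.nil)) (P.cons (P.cons (P.lf 606 0 0) P.nil) P.nil)))))) 2748)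
 EL.nil))))))
noncomputable def S169_183_364_401_3 : EL := (EL.cons 0 (TM.mk (P.cons (P.lf 2342352752 0 0) (P.cons (P.lf 0 320722925 0) (P.cons (P.lf 970595 0 0) (P.cons (P.lf 761763 0 0) (P.cons (P.lf 15236 0 0) (P.cons (P.lf 0 715 0) P.nil)))))) 165)
 (EL.cons 1 (TM.mk (P.cons (P.lf 1754812605 0 0) (P.cons (P.lf 0 44029685 0) (P.cons (P.lf 0 10840057 0) (P.cons (P.lf 0 104334 0) (P.cons (P.lf 15399 0 0) (P.cons (P.lf 481 0 0) P.nil)))))) 128)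
 (EL.cons 5 (TM.mk (P.cons (P.lf 1314647110 0 0) (P.cons (P.lf 114034818 0 0) (P.cons (P.lf 0 345096 0) (P.cons (P.lf 0 270848 0) (P.cons (P.lf 0 5418 0) (P.cons (P.lf 254 0 0) P.nil)))))) 102)
 EL.nil)))
noncomputable def S169_183_364_401_4 : EL := (EL.cons 0 (TM.mk (P.cons (P.cons (P.lf 617971811 0 0) (P.cons (P.lf 0 49138117 0) (P.cons (P.lf 0 1667195 0) (P.lf 79388 0 0)))) (P.cons (P.cons (P.lf 56118360 0 0) (P.cons (P.lf 334669 0 0) (P.cons (P.lf 11355 0 0) (P.lf 0 539 0)))) (P.cons (P.cons (P.lf 0 25944540 0) (P.cons (P.lf 735758 0 0) (P.cons (P.lf 24962 0 0) (P.lf 0 1188 0)))) (P.cons (P.cons (P.lf 618391 0 0) (P.cons (P.lf 15732 0 0) (P.cons (P.lf 532 0 0) P.nil))) (P.cons (P.cons (P.lf 135362 0 0) (P.cons (P.lf 0 4039 0) P.nil)) (P.cons (P.cons (P.lf 0 1400 0) P.nil) P.nil)))))) 1485)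
 (EL.cons 1 (TM.mk (P.cons (P.cons (P.lf 462963881 0 0) (P.cons (P.lf 0 36812640 0) (P.cons (P.lf 0 1249006 0) (P.lf 59475 0 0)))) (P.cons (P.cons (P.lf 93816455 0 0) (P.cons (P.lf 0 3866128 0) (P.cons (P.lf 0 131171 0) (P.lf 6243 0 0)))) (P.cons (P.cons (P.lf 0 10697701 0) (P.cons (P.lf 258210 0 0) (P.cons (P.lf 8760 0 0) (P.lf 0 416 0)))) (P.cons (P.cons (P.lf 0 990470 0) (P.cons (P.lf 47523 0 0) (P.cons (P.lf 1610 0 0) P.nil))) (P.cons (P.cons (P.lf 46706 0 0) (P.cons (P.lf 830 0 0) P.nil)) (P.cons (P.cons (P.lf 5010 0 0) P.nil) P.nil)))))) 1009)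
 (EL.cons 5 (TM.mk (P.cons (P.cons (P.lf 346837108 0 0) (P.cons (P.lf 0 27578802 0) (P.cons (P.lf 0 935714 0) (P.lf 44556 0 0)))) (P.cons (P.cons (P.lf 109071852 0 0) (P.cons (P.lf 0 5980582 0) (P.cons (P.lf 0 202912 0) (P.lf 9660 0 0)))) (P.cons (P.cons (P.lf 2870394 0 0) (P.cons (P.lf 0 370974 0) (P.cons (P.lf 0 12584 0) (P.lf 598 0 0)))) (P.cons (P.cons (P.lf 0 760698 0) (P.cons (P.lf 10932 0 0) (P.cons (P.lf 370 0 0) P.nil))) (P.cons (P.cons (P.lf 0 41092 0) (P.cons (P.lf 2240 0 0) P.nil)) (P.cons (P.cons (P.lf 1800 0 0) P.nil) P.nil)))))) 718)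
 EL.nil)))
noncomputable def S169_183_364_401_5 : EL := (EL.cons 0 (TM.mk (P.cons (P.cons (P.lf 163036569 0 0) (P.cons (P.lf 0 25927751 0) (P.cons (P.lf 151126 0 0) (P.cons (P.lf 111837 0 0) (P.cons (P.lf 0 2142 0) (P.cons (P.lf 0 112 0) P.nil)))))) (P.cons (P.cons (P.lf 51934405 0 0) (P.cons (P.lf 0 5728039 0) (P.cons (P.lf 0 67241 0) (P.cons (P.lf 17878 0 0) (P.cons (P.lf 0 263 0) P.nil))))) (P.cons (P.cons (P.lf 0 5301680 0) (P.cons (P.lf 719235 0 0) (P.cons (P.lf 10555 0 0) (P.cons (P.lf 0 2100 0) P.nil)))) (P.cons (P.cons (P.lf 0 1717335 0) (P.cons (P.lf 119482 0 0) (P.cons (P.lf 1318 0 0) P.nil))) (P.cons (P.cons (P.lf 137525 0 0) (P.cons (P.lf 0 5085 0) P.nil)) (P.cons (P.cons (P.lf 13025 0 0) P.nil) P.nil)))))) 5219)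
 (EL.cons 1 (TM.mk (P.cons (P.cons (P.lf 122141563 0 0) (P.cons (P.lf 0 19424206 0) (P.cons (P.lf 113218 0 0) (P.cons (P.lf 83784 0 0) (P.cons (P.lf 0 1605 0) (P.cons (P.lf 0 82 0) P.nil)))))) (P.cons (P.cons (P.lf 52566931 0 0) (P.cons (P.lf 0 6463515 0) (P.cons (P.lf 0 37711 0) (P.cons (P.lf 22762 0 0) (P.cons (P.lf 0 376 0) P.nil))))) (P.cons (P.cons (P.lf 1444458 0 0) (P.cons (P.lf 0 110469 0) (P.cons (P.lf 3260 0 0) (P.cons (P.lf 652 0 0) P.nil)))) (P.cons (P.cons (P.lf 0 1298242 0) (P.cons (P.lf 97524 0 0) (P.cons (P.lf 1518 0 0) P.nil))) (P.cons (P.cons (P.lf 0 37642 0) (P.cons (P.lf 6326 0 0) P.nil)) (P.cons (P.cons (P.lf 10340 0 0) P.nil) P.nil)))))) 3578)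
 (EL.cons 5 (TM.mk (P.cons (P.cons (P.lf 91504386 0 0) (P.cons (P.lf 0 14551968 0) (P.cons (P.lf 84818 0 0) (P.cons (P.lf 62768 0 0) (P.cons (P.lf 0 1202 0) (P.cons (P.lf 0 62 0) P.nil)))))) (P.cons (P.cons (P.lf 49614566 0 0) (P.cons (P.lf 0 6469634 0) (P.cons (P.lf 0 18768 0) (P.cons (P.lf 24072 0 0) (P.cons (P.lf 0 416 0) P.nil))))) (P.cons (P.cons (P.lf 6284254 0 0) (P.cons (P.lf 0 751186 0) (P.cons (P.lf 22 0 0) (P.cons (P.lf 2942 0 0) P.nil)))) (P.cons (P.cons (P.lf 0 438320 0) (P.cons (P.lf 10474 0 0) (P.cons (P.lf 1228 0 0) P.nil))) (P.cons (P.cons (P.lf 0 91370 0) (P.cons (P.lf 7522 0 0) P.nil)) (P.cons (P.cons (P.lf 100 0 0) P.nil) P.nil)))))) 2464)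
 EL.nil)))
noncomputable def S169_183_364_401_6 : EL := (EL.cons 12 (TM.mk (P.lf 8589934592 0 0) 0)
 (EL.cons 3 (TM.mk (P.cons (P.lf 0 2242802763 0) (P.cons (P.lf 153546101 0 0) (P.cons (P.lf 4791341 0 0) (P.cons (P.lf 0 36671 0) (P.cons (P.lf 0 4687 0) (P.cons (P.lf 0 56 0) P.nil)))))) 59)
 (EL.cons 7 (TM.mk (P.cons (P.lf 0 1680233071 0) (P.cons (P.lf 0 72873196 0) (P.cons (P.lf 1800820 0 0) (P.cons (P.lf 94981 0 0) (P.cons (P.lf 308 0 0) (P.cons (P.lf 0 74 0) P.nil)))))) 48)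
 EL.nil)))
noncomputable def S169_183_364_401_7 : EL := (EL.cons 12 (TM.mk (P.cons (P.cons (P.lf 2266241682 0 0) (P.cons (P.lf 0 180200536 0) (P.cons (P.lf 0 6113984 0) (P.lf 291136 0 0)))) (P.cons (P.cons (P.lf 516100198 0 0) (P.cons (P.lf 0 23446360 0) (P.cons (P.lf 0 795504 0) (P.lf 37880 0 0)))) (P.cons (P.cons (P.lf 0 25417330 0) (P.cons (P.lf 0 437488 0) (P.cons (P.lf 0 14840 0) (P.lf 704 0 0)))) (P.cons (P.cons (P.lf 0 2163312 0) (P.cons (P.lf 66112 0 0) (P.cons (P.lf 2240 0 0) P.nil))) (P.cons (P.cons (P.lf 28144 0 0) (P.cons (P.lf 3216 0 0) P.nil)) (P.cons (P.cons (P.lf 5212 0 0) P.nil) P.nil)))))) 1374)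
 (EL.cons 3 (TM.mk (P.cons (P.cons (P.lf 2515261325 0 0) (P.cons (P.lf 0 94099496 0) (P.cons (P.lf 0 3192680 0) (P.lf 152028 0 0)))) (P.cons (P.cons (P.lf 0 324671338 0) (P.cons (P.lf 0 5801316 0) (P.cons (P.lf 0 196830 0) (P.lf 9370 0 0)))) (P.cons (P.cons (P.lf 0 32698667 0) (P.cons (P.lf 810784 0 0) (P.cons (P.lf 27510 0 0) (P.lf 0 1310 0)))) (P.cons (P.cons (P.lf 441433 0 0) (P.cons (P.lf 74780 0 0) (P.cons (P.lf 2534 0 0) P.nil))) (P.cons (P.cons (P.lf 151649 0 0) (P.cons (P.lf 0 592 0) P.nil)) (P.cons (P.cons (P.lf 3359 0 0) P.nil) P.nil)))))) 3458)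
 (EL.cons 7 (TM.mk (P.cons (P.cons (P.lf 0 1917859956 0) (P.cons (P.lf 102237734 0 0) (P.cons (P.lf 3468806 0 0) (P.lf 0 165184 0)))) (P.cons (P.cons (P.lf 154089469 0 0) (P.cons (P.lf 2753319 0 0) (P.cons (P.lf 93418 0 0) (P.lf 0 4449 0)))) (P.cons (P.cons (P.lf 6902719 0 0) (P.cons (P.lf 0 538752 0) (P.cons (P.lf 0 18274 0) (P.lf 868 0 0)))) (P.cons (P.cons (P.lf 0 1172055 0) (P.cons (P.lf 0 3330 0) (P.cons (P.lf 0 114 0) P.nil))) (P.cons (P.cons (P.lf 0 33158 0) (P.cons (P.lf 2383 0 0) P.nil)) (P.cons (P.cons (P.lf 3329 0 0) P.nil) P.nil)))))) 2466)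
 (EL.cons 10 (TM.mk (P.cons (P.cons (P.lf 0 1542538368 0) (P.cons (P.lf 0 119236161 0) (P.cons (P.lf 7528644 0 0) (P.cons (P.lf 141174 0 0) (P.lf 0 5040 0))))) (P.cons (P.cons (P.lf 0 133802508 0) (P.cons (P.lf 0 10342755 0) (P.cons (P.lf 653046 0 0) (P.cons (P.lf 12243 0 0) (P.lf 0 435 0))))) (P.cons (P.cons (P.lf 404916 0 0) (P.cons (P.lf 31299 0 0) (P.cons (P.lf 0 1974 0) (P.cons (P.lf 0 36 0) P.nil)))) (P.cons (P.cons (P.lf 317796 0 0) (P.cons (P.lf 24564 0 0) (P.cons (P.lf 0 1551 0) P.nil))) (P.cons (P.cons (P.lf 6357 0 0) (P.cons (P.lf 489 0 0) P.nil)) (P.cons (P.cons (P.lf 0 297 0) P.nil) P.nil)))))) 321)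
 EL.nil))))
noncomputable def S169_183_364_401_8 : EL := (EL.cons 12 (TM.mk (P.cons (P.cons (P.lf 597891788 0 0) (P.cons (P.lf 0 95082904 0) (P.cons (P.lf 554218 0 0) (P.cons (P.lf 410136 0 0) (P.cons (P.lf 0 7862 0) (P.cons (P.lf 0 414 0) P.nil)))))) (P.cons (P.cons (P.lf 272320532 0 0) (P.cons (P.lf 0 34025090 0) (P.cons (P.lf 0 170708 0) (P.cons (P.lf 121724 0 0) (P.cons (P.lf 0 2046 0) P.nil))))) (P.cons (P.cons (P.lf 17596848 0 0) (P.cons (P.lf 0 1981832 0) (P.cons (P.lf 15112 0 0) (P.cons (P.lf 8788 0 0) P.nil)))) (P.cons (P.cons (P.lf 0 4195718 0) (P.cons (P.lf 211832 0 0) (P.cons (P.lf 6800 0 0) P.nil))) (P.cons (P.cons (P.lf 0 169892 0) (P.cons (P.lf 22858 0 0) P.nil)) (P.cons (P.cons (P.lf 18934 0 0) P.nil) P.nil)))))) 6602)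
 (EL.cons 3 (TM.mk (P.cons (P.cons (P.lf 1483286434 0 0) (P.cons (P.lf 0 180008291 0) (P.cons (P.lf 0 1172384 0) (P.cons (P.lf 625701 0 0) (P.cons (P.lf 0 10266 0) (P.cons (P.lf 0 541 0) P.nil)))))) (P.cons (P.cons (P.lf 191345295 0 0) (P.cons (P.lf 0 21661557 0) (P.cons (P.lf 211413 0 0) (P.cons (P.lf 99210 0 0) (P.cons (P.lf 0 1966 0) P.nil))))) (P.cons (P.cons (P.lf 0 71759179 0) (P.cons (P.lf 3319460 0 0) (P.cons (P.lf 121671 0 0) (P.cons (P.lf 0 4751 0) P.nil)))) (P.cons (P.cons (P.lf 0 4601172 0) (P.cons (P.lf 559688 0 0) (P.cons (P.lf 8454 0 0) P.nil))) (P.cons (P.cons (P.lf 528895 0 0) (P.cons (P.lf 715 0 0) P.nil)) (P.cons (P.cons (P.lf 45325 0 0) P.nil) P.nil)))))) 18829)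
 (EL.cons 7 (TM.mk (P.cons (P.cons (P.lf 0 895009229 0) (P.cons (P.lf 115813241 0 0) (P.cons (P.lf 379333 0 0) (P.cons (P.lf 0 428008 0) (P.cons (P.lf 7381 0 0) (P.cons (P.lf 386 0 0) P.nil)))))) (P.cons (P.cons (P.lf 0 90812750 0) (P.cons (P.lf 10280608 0 0) (P.cons (P.lf 0 100335 0) (P.cons (P.lf 0 47083 0) (P.cons (P.lf 928 0 0) P.nil))))) (P.cons (P.cons (P.lf 39134916 0 0) (P.cons (P.lf 0 2150268 0) (P.cons (P.lf 0 52127 0) (P.cons (P.lf 4883 0 0) P.nil)))) (P.cons (P.cons (P.lf 0 469986 0) (P.cons (P.lf 0 135196 0) (P.cons (P.lf 163 0 0) P.nil))) (P.cons (P.cons (P.lf 0 364913 0) (P.cons (P.lf 18413 0 0) P.nil)) (P.cons (P.cons (P.lf 2854 0 0) P.nil) P.nil)))))) 11350)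
 (EL.cons 10 (TM.mk (P.cons (P.cons (P.lf 0 813921150 0) (P.cons (P.lf 1804032 0 0) (P.cons (P.lf 11171028 0 0) (P.cons (P.lf 0 176208 0) (P.cons (P.lf 0 27378 0) (P.cons (P.lf 516 0 0) P.nil)))))) (P.cons (P.cons (P.lf 0 255958446 0) (P.cons (P.lf 0 5750634 0) (P.cons (P.lf 2810280 0 0) (P.cons (P.lf 0 30936 0) (P.cons (P.lf 0 6192 0) P.nil))))) (P.cons (P.cons (P.lf 0 6735942 0) (P.cons (P.lf 349884 0 0) (P.cons (P.lf 129702 0 0) (P.cons (P.lf 0 2754 0) P.nil)))) (P.cons (P.cons (P.lf 1785126 0 0) (P.cons (P.lf 112326 0 0) (P.cons (P.lf 0 11562 0) P.nil))) (P.cons (P.cons (P.lf 96432 0 0) (P.cons (P.lf 2190 0 0) P.nil)) (P.cons (P.cons (P.lf 0 4224 0) P.nil) P.nil)))))) 4482)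
 EL.nil))))
noncomputable def S169_183_364_401_9 : EL := (EL.cons 3 (TM.mk (P.cons (P.lf 0 2242802763 0) (P.cons (P.lf 153546101 0 0) (P.cons (P.lf 4791341 0 0) (P.cons (P.lf 0 36671 0) (P.cons (P.lf 0 4687 0) (P.cons (P.lf 0 56 0) P.nil)))))) 59)
 (EL.cons 7 (TM.mk (P.cons (P.lf 0 1680233071 0) (P.cons (P.lf 0 72873196 0) (P.cons (P.lf 1800820 0 0) (P.cons (P.lf 94981 0 0) (P.cons (P.lf 308 0 0) (P.cons (P.lf 0 74 0) P.nil)))))) 48)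
 EL.nil))
noncomputable def S169_183_364_401_10 : EL := (EL.cons 3 (TM.mk (P.cons (P.cons (P.lf 0 591708010 0) (P.cons (P.lf 47049748 0 0) (P.cons (P.lf 1596340 0 0) (P.lf 0 76014 0)))) (P.cons (P.cons (P.lf 0 94242670 0) (P.cons (P.lf 2900658 0 0) (P.cons (P.lf 98415 0 0) (P.lf 0 4685 0)))) (P.cons (P.cons (P.lf 17125807 0 0) (P.cons (P.lf 0 405392 0) (P.cons (P.lf 0 13755 0) (P.lf 655 0 0)))) (P.cons (P.cons (P.lf 388693 0 0) (P.cons (P.lf 0 37390 0) (P.cons (P.lf 0 1267 0) P.nil))) (P.cons (P.cons (P.lf 0 63634 0) (P.cons (P.lf 296 0 0) P.nil)) (P.cons (P.cons (P.lf 0 2251 0) P.nil) P.nil)))))) 784)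
 (EL.cons 7 (TM.mk (P.cons (P.cons (P.lf 0 443287917 0) (P.cons (P.lf 35248103 0 0) (P.cons (P.lf 1195925 0 0) (P.lf 0 56947 0)))) (P.cons (P.cons (P.lf 0 120177503 0) (P.cons (P.lf 6114963 0 0) (P.cons (P.lf 207472 0 0) (P.lf 0 9879 0)))) (P.cons (P.cons (P.lf 1068490 0 0) (P.cons (P.lf 246705 0 0) (P.cons (P.lf 8369 0 0) (P.lf 0 398 0)))) (P.cons (P.cons (P.lf 772038 0 0) (P.cons (P.lf 0 16128 0) (P.cons (P.lf 0 546 0) P.nil))) (P.cons (P.cons (P.lf 13306 0 0) (P.cons (P.lf 0 1547 0) P.nil)) (P.cons (P.cons (P.lf 0 1993 0) P.nil) P.nil)))))) 497)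
 EL.nil))
noncomputable def S169_183_364_401_11 : EL := (EL.cons 3 (TM.mk (P.cons (P.cons (P.lf 0 156107516 0) (P.cons (P.lf 24825823 0 0) (P.cons (P.lf 0 144704 0) (P.cons (P.lf 0 107085 0) (P.cons (P.lf 2052 0 0) (P.cons (P.lf 107 0 0) P.nil)))))) (P.cons (P.cons (P.lf 0 60414579 0) (P.cons (P.lf 7184217 0 0) (P.cons (P.lf 54477 0 0) (P.cons (P.lf 0 24450 0) (P.cons (P.lf 392 0 0) P.nil))))) (P.cons (P.cons (P.lf 606779 0 0) (P.cons (P.lf 0 143788 0) (P.cons (P.lf 0 6687 0) (P.cons (P.lf 109 0 0) P.nil)))) (P.cons (P.cons (P.lf 1559376 0 0) (P.cons (P.lf 0 109306 0) (P.cons (P.lf 0 1602 0) P.nil))) (P.cons (P.cons (P.lf 0 22313 0) (P.cons (P.lf 0 3089 0) P.nil)) (P.cons (P.cons (P.lf 0 10547 0) P.nil) P.nil)))))) 3357)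
 (EL.cons 7 (TM.mk (P.cons (P.cons (P.lf 0 116950547 0) (P.cons (P.lf 18598679 0 0) (P.cons (P.lf 0 108407 0) (P.cons (P.lf 0 80224 0) (P.cons (P.lf 1537 0 0) (P.cons (P.lf 80 0 0) P.nil)))))) (P.cons (P.cons (P.lf 0 58339472 0) (P.cons (P.lf 7462114 0 0) (P.cons (P.lf 28689 0 0) (P.cons (P.lf 0 27289 0) (P.cons (P.lf 466 0 0) P.nil))))) (P.cons (P.cons (P.lf 0 5626932 0) (P.cons (P.lf 656376 0 0) (P.cons (P.lf 0 1391 0) (P.cons (P.lf 0 2665 0) P.nil)))) (P.cons (P.cons (P.lf 735120 0 0) (P.cons (P.lf 0 32806 0) (P.cons (P.lf 0 1487 0) P.nil))) (P.cons (P.cons (P.lf 75547 0 0) (P.cons (P.lf 0 7063 0) P.nil)) (P.cons (P.cons (P.lf 0 2942 0) P.nil) P.nil)))))) 2094)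
 EL.nil))
noncomputable def S169_183_364_401_12 : EL := (EL.cons 4 (TM.mk (P.cons (P.lf 2242802763 0 0) (P.cons (P.lf 0 153546101 0) (P.cons (P.lf 0 4791341 0) (P.cons (P.lf 36671 0 0) (P.cons (P.lf 4687 0 0) (P.cons (P.lf 56 0 0) P.nil)))))) 59)
 (EL.cons 8 (TM.mk (P.cons (P.lf 1680233071 0 0) (P.cons (P.lf 72873196 0 0) (P.cons (P.lf 0 1800820 0) (P.cons (P.lf 0 94981 0) (P.cons (P.lf 0 308 0) (P.cons (P.lf 74 0 0) P.nil)))))) 48)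
 EL.nil))
noncomputable def S169_183_364_401_13 : EL := (EL.cons 4 (TM.mk (P.cons (P.cons (P.lf 591708010 0 0) (P.cons (P.lf 0 47049748 0) (P.cons (P.lf 0 1596340 0) (P.lf 76014 0 0)))) (P.cons (P.cons (P.lf 94242670 0 0) (P.cons (P.lf 0 2900658 0) (P.cons (P.lf 0 98415 0) (P.lf 4685 0 0)))) (P.cons (P.cons (P.lf 0 17125807 0) (P.cons (P.lf 405392 0 0) (P.cons (P.lf 13755 0 0) (P.lf 0 655 0)))) (P.cons (P.cons (P.lf 0 388693 0) (P.cons (P.lf 37390 0 0) (P.cons (P.lf 1267 0 0) P.nil))) (P.cons (P.cons (P.lf 63634 0 0) (P.cons (P.lf 0 296 0) P.nil)) (P.cons (P.cons (P.lf 2251 0 0) P.nil) P.nil)))))) 784)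
 (EL.cons 8 (TM.mk (P.cons (P.cons (P.lf 443287917 0 0) (P.cons (P.lf 0 35248103 0) (P.cons (P.lf 0 1195925 0) (P.lf 56947 0 0)))) (P.cons (P.cons (P.lf 120177503 0 0) (P.cons (P.lf 0 6114963 0) (P.cons (P.lf 0 207472 0) (P.lf 9879 0 0)))) (P.cons (P.cons (P.lf 0 1068490 0) (P.cons (P.lf 0 246705 0) (P.cons (P.lf 0 8369 0) (P.lf 398 0 0)))) (P.cons (P.cons (P.lf 0 772038 0) (P.cons (P.lf 16128 0 0) (P.cons (P.lf 546 0 0) P.nil))) (P.cons (P.cons (P.lf 0 13306 0) (P.cons (P.lf 1547 0 0) P.nil)) (P.cons (P.cons (P.lf 1993 0 0) P.nil) P.nil)))))) 497)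
 EL.nil))
noncomputable def S169_183_364_401_14 : EL := (EL.cons 4 (TM.mk (P.cons (P.cons (P.lf 156107516 0 0) (P.cons (P.lf 0 24825823 0) (P.cons (P.lf 144704 0 0) (P.cons (P.lf 107085 0 0) (P.cons (P.lf 0 2052 0) (P.cons (P.lf 0 107 0) P.nil)))))) (P.cons (P.cons (P.lf 60414579 0 0) (P.cons (P.lf 0 7184217 0) (P.cons (P.lf 0 54477 0) (P.cons (P.lf 24450 0 0) (P.cons (P.lf 0 392 0) P.nil))))) (P.cons (P.cons (P.lf 0 606779 0) (P.cons (P.lf 143788 0 0) (P.cons (P.lf 6687 0 0) (P.cons (P.lf 0 109 0) P.nil)))) (P.cons (P.cons (P.lf 0 1559376 0) (P.cons (P.lf 109306 0 0) (P.cons (P.lf 1602 0 0) P.nil))) (P.cons (P.cons (P.lf 22313 0 0) (P.cons (P.lf 3089 0 0) P.nil)) (P.cons (P.cons (P.lf 10547 0 0) P.nil) P.nil)))))) 3357)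
 (EL.cons 8 (TM.mk (P.cons (P.cons (P.lf 116950547 0 0) (P.cons (P.lf 0 18598679 0) (P.cons (P.lf 108407 0 0) (P.cons (P.lf 80224 0 0) (P.cons (P.lf 0 1537 0) (P.cons (P.lf 0 80 0) P.nil)))))) (P.cons (P.cons (P.lf 58339472 0 0) (P.cons (P.lf 0 7462114 0) (P.cons (P.lf 0 28689 0) (P.cons (P.lf 27289 0 0) (P.cons (P.lf 0 466 0) P.nil))))) (P.cons (P.cons (P.lf 5626932 0 0) (P.cons (P.lf 0 656376 0) (P.cons (P.lf 1391 0 0) (P.cons (P.lf 2665 0 0) P.nil)))) (P.cons (P.cons (P.lf 0 735120 0) (P.cons (P.lf 32806 0 0) (P.cons (P.lf 1487 0 0) P.nil))) (P.cons (P.cons (P.lf 0 75547 0) (P.cons (P.lf 7063 0 0) P.nil)) (P.cons (P.cons (P.lf 2942 0 0) P.nil) P.nil)))))) 2094)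
 EL.nil))
noncomputable def S169_183_364_401_15 : EL := (EL.cons 4 (TM.mk (P.cons (P.lf 0 1249254801 0) (P.cons (P.lf 171052227 0 0) (P.cons (P.lf 0 517650 0) (P.cons (P.lf 0 406274 0) (P.cons (P.lf 0 8126 0) (P.cons (P.lf 381 0 0) P.nil)))))) 91)
 (EL.cons 8 (TM.mk (P.cons (P.lf 0 935900056 0) (P.cons (P.lf 23482499 0 0) (P.cons (P.lf 5781364 0 0) (P.cons (P.lf 55645 0 0) (P.cons (P.lf 0 8213 0) (P.cons (P.lf 0 257 0) P.nil)))))) 65)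
 EL.nil))
noncomputable def S169_183_364_401_16 : EL := (EL.cons 4 (TM.mk (P.cons (P.cons (P.lf 0 329584965 0) (P.cons (P.lf 26206995 0 0) (P.cons (P.lf 889170 0 0) (P.lf 0 42340 0)))) (P.cons (P.cons (P.lf 0 29929792 0) (P.cons (P.lf 0 178490 0) (P.cons (P.lf 0 6056 0) (P.lf 287 0 0)))) (P.cons (P.cons (P.lf 13837088 0 0) (P.cons (P.lf 0 392404 0) (P.cons (P.lf 0 13313 0) (P.lf 633 0 0)))) (P.cons (P.cons (P.lf 0 329808 0) (P.cons (P.lf 0 8390 0) (P.cons (P.lf 0 284 0) P.nil))) (P.cons (P.cons (P.lf 0 72193 0) (P.cons (P.lf 2154 0 0) P.nil)) (P.cons (P.cons (P.lf 747 0 0) P.nil) P.nil)))))) 800)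
 (EL.cons 8 (TM.mk (P.cons (P.cons (P.lf 0 246914070 0) (P.cons (P.lf 19633408 0 0) (P.cons (P.lf 666137 0 0) (P.lf 0 31720 0)))) (P.cons (P.cons (P.lf 0 50035443 0) (P.cons (P.lf 2061935 0 0) (P.cons (P.lf 69958 0 0) (P.lf 0 3330 0)))) (P.cons (P.cons (P.lf 5705441 0 0) (P.cons (P.lf 0 137712 0) (P.cons (P.lf 0 4672 0) (P.lf 222 0 0)))) (P.cons (P.cons (P.lf 528251 0 0) (P.cons (P.lf 0 25346 0) (P.cons (P.lf 0 859 0) P.nil))) (P.cons (P.cons (P.lf 0 24910 0) (P.cons (P.lf 0 443 0) P.nil)) (P.cons (P.cons (P.lf 0 2672 0) P.nil) P.nil)))))) 528)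
 EL.nil))
noncomputable def S169_183_364_401_17 : EL := (EL.cons 4 (TM.mk (P.cons (P.cons (P.lf 0 86952837 0) (P.cons (P.lf 13828134 0 0) (P.cons (P.lf 0 80600 0) (P.cons (P.lf 0 59646 0) (P.cons (P.lf 1142 0 0) (P.cons (P.lf 60 0 0) P.nil)))))) (P.cons (P.cons (P.lf 0 27698349 0) (P.cons (P.lf 3054954 0 0) (P.cons (P.lf 35862 0 0) (P.cons (P.lf 0 9535 0) (P.cons (P.lf 140 0 0) P.nil))))) (P.cons (P.cons (P.lf 2827562 0 0) (P.cons (P.lf 0 383592 0) (P.cons (P.lf 0 5629 0) (P.cons (P.lf 1120 0 0) P.nil)))) (P.cons (P.cons (P.lf 915912 0 0) (P.cons (P.lf 0 63723 0) (P.cons (P.lf 0 703 0) P.nil))) (P.cons (P.cons (P.lf 0 73347 0) (P.cons (P.lf 2712 0 0) P.nil)) (P.cons (P.cons (P.lf 0 6946 0) P.nil) P.nil)))))) 2794)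
 (EL.cons 8 (TM.mk (P.cons (P.cons (P.lf 0 65142167 0) (P.cons (P.lf 10359577 0 0) (P.cons (P.lf 0 60383 0) (P.cons (P.lf 0 44685 0) (P.cons (P.lf 856 0 0) (P.cons (P.lf 44 0 0) P.nil)))))) (P.cons (P.cons (P.lf 0 28035697 0) (P.cons (P.lf 3447208 0 0) (P.cons (P.lf 20113 0 0) (P.cons (P.lf 0 12140 0) (P.cons (P.lf 201 0 0) P.nil))))) (P.cons (P.cons (P.lf 0 770378 0) (P.cons (P.lf 58917 0 0) (P.cons (P.lf 0 1739 0) (P.cons (P.lf 0 348 0) P.nil)))) (P.cons (P.cons (P.lf 692396 0 0) (P.cons (P.lf 0 52013 0) (P.cons (P.lf 0 810 0) P.nil))) (P.cons (P.cons (P.lf 20076 0 0) (P.cons (P.lf 0 3374 0) P.nil)) (P.cons (P.cons (P.lf 0 5515 0) P.nil) P.nil)))))) 1897)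
 EL.nil))
noncomputable def S169_183_364_401_18 : EL := (EL.cons 4 (TM.mk (P.cons (P.lf 695842534 0 0) (P.cons (P.lf 0 142915698 0) (P.cons (P.lf 5324627 0 0) (P.cons (P.lf 421476 0 0) (P.cons (P.lf 0 11685 0) (P.cons (P.lf 0 1182 0) P.nil)))))) 113)
 (EL.cons 8 (TM.mk (P.cons (P.lf 521302032 0 0) (P.cons (P.lf 0 48769121 0) (P.cons (P.lf 0 3438450 0) (P.cons (P.lf 225935 0 0) (P.cons (P.lf 14451 0 0) (P.cons (P.lf 0 170 0) P.nil)))))) 84)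
 EL.nil))
noncomputable def S169_183_364_401_19 : EL := (EL.cons 4 (TM.mk (P.cons (P.cons (P.lf 183580833 0 0) (P.cons (P.lf 0 14597456 0) (P.cons (P.lf 0 495273 0) (P.lf 23583 0 0)))) (P.cons (P.cons (P.lf 4102819 0 0) (P.cons (P.lf 1098786 0 0) (P.cons (P.lf 37280 0 0) (P.lf 0 1774 0)))) (P.cons (P.cons (P.lf 0 9240859 0) (P.cons (P.lf 242950 0 0) (P.cons (P.lf 8242 0 0) (P.lf 0 391 0)))) (P.cons (P.cons (P.lf 678750 0 0) (P.cons (P.lf 0 10740 0) (P.cons (P.lf 0 364 0) P.nil))) (P.cons (P.cons (P.lf 44756 0 0) (P.cons (P.lf 0 2015 0) P.nil)) (P.cons (P.cons (P.lf 0 3647 0) P.nil) P.nil)))))) 869)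
 (EL.cons 8 (TM.mk (P.cons (P.cons (P.lf 137532641 0 0) (P.cons (P.lf 0 10935927 0) (P.cons (P.lf 0 371042 0) (P.lf 17668 0 0)))) (P.cons (P.cons (P.lf 18454327 0 0) (P.cons (P.lf 0 399818 0) (P.cons (P.lf 0 13565 0) (P.lf 646 0 0)))) (P.cons (P.cons (P.lf 0 5379810 0) (P.cons (P.lf 178697 0 0) (P.cons (P.lf 6062 0 0) (P.lf 0 288 0)))) (P.cons (P.cons (P.lf 0 133961 0) (P.cons (P.lf 11141 0 0) (P.cons (P.lf 377 0 0) P.nil))) (P.cons (P.cons (P.lf 41551 0 0) (P.cons (P.lf 0 924 0) P.nil)) (P.cons (P.cons (P.lf 1177 0 0) P.nil) P.nil)))))) 500)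
 EL.nil))
noncomputable def S169_183_364_401_20 : EL := (EL.cons 4 (TM.mk (P.cons (P.cons (P.lf 48433260 0 0) (P.cons (P.lf 0 7702354 0) (P.cons (P.lf 44895 0 0) (P.cons (P.lf 33223 0 0) (P.cons (P.lf 0 636 0) (P.cons (P.lf 0 32 0) P.nil)))))) (P.cons (P.cons (P.lf 12112325 0 0) (P.cons (P.lf 0 1174311 0) (P.cons (P.lf 0 23048 0) (P.cons (P.lf 3036 0 0) (P.cons (P.lf 0 34 0) P.nil))))) (P.cons (P.cons (P.lf 0 2734676 0) (P.cons (P.lf 346614 0 0) (P.cons (P.lf 4407 0 0) (P.cons (P.lf 0 1058 0) P.nil)))) (P.cons (P.cons (P.lf 0 434510 0) (P.cons (P.lf 24375 0 0) (P.cons (P.lf 220 0 0) P.nil))) (P.cons (P.cons (P.lf 79500 0 0) (P.cons (P.lf 0 4440 0) P.nil)) (P.cons (P.cons (P.lf 2169 0 0) P.nil) P.nil)))))) 2562)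
 (EL.cons 8 (TM.mk (P.cons (P.cons (P.lf 36284583 0 0) (P.cons (P.lf 0 5770347 0) (P.cons (P.lf 33633 0 0) (P.cons (P.lf 24889 0 0) (P.cons (P.lf 0 476 0) (P.cons (P.lf 0 25 0) P.nil)))))) (P.cons (P.cons (P.lf 13131949 0 0) (P.cons (P.lf 0 1525068 0) (P.cons (P.lf 0 13506 0) (P.cons (P.lf 5058 0 0) (P.cons (P.lf 0 79 0) P.nil))))) (P.cons (P.cons (P.lf 0 717511 0) (P.cons (P.lf 110964 0 0) (P.cons (P.lf 1664 0 0) (P.cons (P.lf 0 321 0) P.nil)))) (P.cons (P.cons (P.lf 0 447814 0) (P.cons (P.lf 35226 0 0) (P.cons (P.lf 409 0 0) P.nil))) (P.cons (P.cons (P.lf 14635 0 0) (P.cons (P.lf 0 76 0) P.nil)) (P.cons (P.cons (P.lf 4702 0 0) P.nil) P.nil)))))) 1555)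
 EL.nil))
noncomputable def S169_183_364_401_21 : EL := (EL.cons 4 (TM.mk (P.cons (P.cons (P.lf 0 3106969335 0) (P.cons (P.lf 141149244 0 0) (P.cons (P.lf 4789020 0 0) (P.lf 0 228042 0)))) (P.cons (P.cons (P.lf 230428668 0 0) (P.cons (P.lf 8701974 0 0) (P.cons (P.lf 295245 0 0) (P.lf 0 14055 0)))) (P.cons (P.cons (P.lf 49824474 0 0) (P.cons (P.lf 0 1216176 0) (P.cons (P.lf 0 41265 0) (P.lf 1965 0 0)))) (P.cons (P.cons (P.lf 0 52740 0) (P.cons (P.lf 0 112170 0) (P.cons (P.lf 0 3801 0) P.nil))) (P.cons (P.cons (P.lf 0 215283 0) (P.cons (P.lf 888 0 0) P.nil)) (P.cons (P.cons (P.lf 0 5610 0) P.nil) P.nil)))))) 2655)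
 (EL.cons 8 (TM.mk (P.cons (P.cons (P.lf 1474572039 0 0) (P.cons (P.lf 0 66989631 0) (P.cons (P.lf 0 2272881 0) (P.lf 108237 0 0)))) (P.cons (P.cons (P.lf 0 274266972 0) (P.cons (P.lf 3361644 0 0) (P.cons (P.lf 114054 0 0) (P.lf 0 5430 0)))) (P.cons (P.cons (P.lf 0 5834229 0) (P.cons (P.lf 785457 0 0) (P.cons (P.lf 26643 0 0) (P.lf 0 1266 0)))) (P.cons (P.cons (P.lf 1944093 0 0) (P.cons (P.lf 0 12798 0) (P.cons (P.lf 0 432 0) P.nil))) (P.cons (P.cons (P.lf 46464 0 0) (P.cons (P.lf 0 3930 0) P.nil)) (P.cons (P.cons (P.lf 0 5322 0) P.nil) P.nil)))))) 1950)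
 (EL.cons 11 (TM.mk (P.cons (P.cons (P.lf 1542538368 0 0) (P.cons (P.lf 119236161 0 0) (P.cons (P.lf 0 7528644 0) (P.cons (P.lf 0 141174 0) (P.lf 5040 0 0))))) (P.cons (P.cons (P.lf 133802508 0 0) (P.cons (P.lf 10342755 0 0) (P.cons (P.lf 0 653046 0) (P.cons (P.lf 0 12243 0) (P.lf 435 0 0))))) (P.cons (P.cons (P.lf 0 404916 0) (P.cons (P.lf 0 31299 0) (P.cons (P.lf 1974 0 0) (P.cons (P.lf 36 0 0) P.nil)))) (P.cons (P.cons (P.lf 0 317796 0) (P.cons (P.lf 0 24564 0) (P.cons (P.lf 1551 0 0) P.nil))) (P.cons (P.cons (P.lf 0 6357 0) (P.cons (P.lf 0 489 0) P.nil)) (P.cons (P.cons (P.lf 297 0 0) P.nil) P.nil)))))) 321)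
 EL.nil)))
noncomputable def S169_183_364_401_22 : EL := (EL.cons 4 (TM.mk (P.cons (P.cons (P.lf 0 819696975 0) (P.cons (P.lf 102417057 0 0) (P.cons (P.lf 513840 0 0) (P.cons (P.lf 0 366393 0) (P.cons (P.lf 6159 0 0) (P.cons (P.lf 324 0 0) P.nil)))))) (P.cons (P.cons (P.lf 0 125879937 0) (P.cons (P.lf 14422887 0 0) (P.cons (P.lf 0 78468 0) (P.cons (P.lf 0 61830 0) (P.cons (P.lf 1179 0 0) P.nil))))) (P.cons (P.cons (P.lf 36182979 0 0) (P.cons (P.lf 0 1731624 0) (P.cons (P.lf 0 64179 0) (P.cons (P.lf 2430 0 0) P.nil)))) (P.cons (P.cons (P.lf 3080274 0 0) (P.cons (P.lf 0 334497 0) (P.cons (P.lf 0 5028 0) P.nil))) (P.cons (P.cons (P.lf 0 275604 0) (P.cons (P.lf 0 1902 0) P.nil)) (P.cons (P.cons (P.lf 0 27936 0) P.nil) P.nil)))))) 7725)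
 (EL.cons 8 (TM.mk (P.cons (P.cons (P.lf 389029341 0 0) (P.cons (P.lf 0 48607281 0) (P.cons (P.lf 0 243870 0) (P.cons (P.lf 173892 0 0) (P.cons (P.lf 0 2922 0) (P.cons (P.lf 0 153 0) P.nil)))))) (P.cons (P.cons (P.lf 16236639 0 0) (P.cons (P.lf 0 1409247 0) (P.cons (P.lf 64512 0 0) (P.cons (P.lf 9897 0 0) (P.cons (P.lf 0 231 0) P.nil))))) (P.cons (P.cons (P.lf 0 22380924 0) (P.cons (P.lf 1403322 0 0) (P.cons (P.lf 25368 0 0) (P.cons (P.lf 0 3774 0) P.nil)))) (P.cons (P.cons (P.lf 602553 0 0) (P.cons (P.lf 51195 0 0) (P.cons (P.lf 0 825 0) P.nil))) (P.cons (P.cons (P.lf 220230 0 0) (P.cons (P.lf 0 12738 0) P.nil)) (P.cons (P.cons (P.lf 0 2898 0) P.nil) P.nil)))))) 4617)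
 (EL.cons 11 (TM.mk (P.cons (P.cons (P.lf 406960575 0 0) (P.cons (P.lf 0 902016 0) (P.cons (P.lf 0 5585514 0) (P.cons (P.lf 88104 0 0) (P.cons (P.lf 13689 0 0) (P.cons (P.lf 0 258 0) P.nil)))))) (P.cons (P.cons (P.lf 127979223 0 0) (P.cons (P.lf 2875317 0 0) (P.cons (P.lf 0 1405140 0) (P.cons (P.lf 15468 0 0) (P.cons (P.lf 3096 0 0) P.nil))))) (P.cons (P.cons (P.lf 3367971 0 0) (P.cons (P.lf 0 174942 0) (P.cons (P.lf 0 64851 0) (P.cons (P.lf 1377 0 0) P.nil)))) (P.cons (P.cons (P.lf 0 892563 0) (P.cons (P.lf 0 56163 0) (P.cons (P.lf 5781 0 0) P.nil))) (P.cons (P.cons (P.lf 0 48216 0) (P.cons (P.lf 0 1095 0) P.nil)) (P.cons (P.cons (P.lf 2112 0 0) P.nil) P.nil)))))) 2241)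
 EL.nil)))
noncomputable def S169_183_364_401_23 : EL := (EL.cons 4 (TM.mk (P.cons (P.cons (P.lf 1730600844 0 0) (P.cons (P.lf 0 78620988 0) (P.cons (P.lf 0 2667513 0) (P.lf 127020 0 0)))) (P.cons (P.cons (P.lf 0 246830055 0) (P.cons (P.lf 535473 0 0) (P.cons (P.lf 18168 0 0) (P.lf 0 867 0)))) (P.cons (P.cons (P.lf 0 22662576 0) (P.cons (P.lf 1177212 0 0) (P.cons (P.lf 39942 0 0) (P.lf 0 1899 0)))) (P.cons (P.cons (P.lf 2231853 0 0) (P.cons (P.lf 25170 0 0) (P.cons (P.lf 849 0 0) P.nil))) (P.cons (P.cons (P.lf 178707 0 0) (P.cons (P.lf 0 6462 0) P.nil)) (P.cons (P.cons (P.lf 0 5826 0) P.nil) P.nil)))))) 2724)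
 (EL.cons 8 (TM.mk (P.cons (P.cons (P.lf 0 821345607 0) (P.cons (P.lf 37313631 0 0) (P.cons (P.lf 1266006 0 0) (P.lf 0 60288 0)))) (P.cons (P.cons (P.lf 208999092 0 0) (P.cons (P.lf 0 4427010 0) (P.cons (P.lf 0 150201 0) (P.lf 7152 0 0)))) (P.cons (P.cons (P.lf 0 5454426 0) (P.cons (P.lf 0 389025 0) (P.cons (P.lf 0 13194 0) (P.lf 624 0 0)))) (P.cons (P.cons (P.lf 0 1645143 0) (P.cons (P.lf 41691 0 0) (P.cons (P.lf 1413 0 0) P.nil))) (P.cons (P.cons (P.lf 42093 0 0) (P.cons (P.lf 2682 0 0) P.nil)) (P.cons (P.cons (P.lf 7401 0 0) P.nil) P.nil)))))) 1830)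
 (EL.cons 11 (TM.mk (P.cons (P.cons (P.lf 0 859203267 0) (P.cons (P.lf 0 66415266 0) (P.cons (P.lf 4193499 0 0) (P.cons (P.lf 78633 0 0) (P.lf 0 2805 0))))) (P.cons (P.cons (P.lf 0 15706290 0) (P.cons (P.lf 0 1214073 0) (P.cons (P.lf 76656 0 0) (P.cons (P.lf 1434 0 0) (P.lf 0 48 0))))) (P.cons (P.cons (P.lf 7163442 0 0) (P.cons (P.lf 553722 0 0) (P.cons (P.lf 0 34959 0) (P.cons (P.lf 0 654 0) P.nil)))) (P.cons (P.cons (P.lf 306741 0 0) (P.cons (P.lf 23709 0 0) (P.cons (P.lf 0 1497 0) P.nil))) (P.cons (P.cons (P.lf 0 12072 0) (P.cons (P.lf 0 933 0) P.nil)) (P.cons (P.cons (P.lf 0 957 0) P.nil) P.nil)))))) 483)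
 EL.nil)))
noncomputable def S169_183_364_401_24 : EL := (EL.cons 4 (TM.mk (P.cons (P.cons (P.lf 456576207 0 0) (P.cons (P.lf 0 57046923 0) (P.cons (P.lf 0 286212 0) (P.cons (P.lf 204084 0 0) (P.cons (P.lf 0 3429 0) (P.cons (P.lf 0 180 0) P.nil)))))) (P.cons (P.cons (P.lf 38857905 0 0) (P.cons (P.lf 0 4128105 0) (P.cons (P.lf 63303 0 0) (P.cons (P.lf 20466 0 0) (P.cons (P.lf 0 420 0) P.nil))))) (P.cons (P.cons (P.lf 0 25929786 0) (P.cons (P.lf 1636392 0 0) (P.cons (P.lf 33366 0 0) (P.cons (P.lf 0 4146 0) P.nil)))) (P.cons (P.cons (P.lf 0 478269 0) (P.cons (P.lf 136512 0 0) (P.cons (P.lf 255 0 0) P.nil))) (P.cons (P.cons (P.lf 316131 0 0) (P.cons (P.lf 0 14004 0) P.nil)) (P.cons (P.cons (P.lf 8544 0 0) P.nil) P.nil)))))) 6744)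
 (EL.cons 8 (TM.mk (P.cons (P.cons (P.lf 0 216691713 0) (P.cons (P.lf 27074550 0 0) (P.cons (P.lf 135837 0 0) (P.cons (P.lf 0 96858 0) (P.cons (P.lf 1626 0 0) (P.cons (P.lf 84 0 0) P.nil)))))) (P.cons (P.cons (P.lf 5791176 0 0) (P.cons (P.lf 0 1068609 0) (P.cons (P.lf 0 45234 0) (P.cons (P.lf 1116 0 0) (P.cons (P.lf 18 0 0) P.nil))))) (P.cons (P.cons (P.lf 13548396 0 0) (P.cons (P.lf 0 893238 0) (P.cons (P.lf 0 11961 0) (P.cons (P.lf 2685 0 0) P.nil)))) (P.cons (P.cons (P.lf 0 1173312 0) (P.cons (P.lf 23760 0 0) (P.cons (P.lf 1506 0 0) P.nil))) (P.cons (P.cons (P.lf 0 126924 0) (P.cons (P.lf 10785 0 0) P.nil)) (P.cons (P.cons (P.lf 10908 0 0) P.nil) P.nil)))))) 3273)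
 (EL.cons 11 (TM.mk (P.cons (P.cons (P.lf 0 226679520 0) (P.cons (P.lf 502428 0 0) (P.cons (P.lf 3111165 0 0) (P.cons (P.lf 0 49074 0) (P.cons (P.lf 0 7626 0) (P.cons (P.lf 144 0 0) P.nil)))))) (P.cons (P.cons (P.lf 0 55766340 0) (P.cons (P.lf 0 1635966 0) (P.cons (P.lf 569676 0 0) (P.cons (P.lf 0 5256 0) (P.cons (P.lf 0 1203 0) P.nil))))) (P.cons (P.cons (P.lf 3488583 0 0) (P.cons (P.lf 206016 0 0) (P.cons (P.lf 0 24105 0) (P.cons (P.lf 0 72 0) P.nil)))) (P.cons (P.cons (P.lf 774177 0 0) (P.cons (P.lf 28041 0 0) (P.cons (P.lf 0 7314 0) P.nil))) (P.cons (P.cons (P.lf 0 4809 0) (P.cons (P.lf 0 1761 0) P.nil)) (P.cons (P.cons (P.lf 0 4260 0) P.nil) P.nil)))))) 2022)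
 EL.nil)))
noncomputable def S169_183_364_401_25 : EL := (EL.cons 4 (TM.mk (P.cons (P.cons (P.lf 0 963955212 0) (P.cons (P.lf 43792368 0 0) (P.cons (P.lf 1485819 0 0) (P.lf 0 70749 0)))) (P.cons (P.cons (P.lf 203479860 0 0) (P.cons (P.lf 0 3296361 0) (P.cons (P.lf 0 111840 0) (P.lf 5325 0 0)))) (P.cons (P.cons (P.lf 5269992 0 0) (P.cons (P.lf 0 728850 0) (P.cons (P.lf 0 24729 0) (P.lf 1176 0 0)))) (P.cons (P.cons (P.lf 0 2416836 0) (P.cons (P.lf 32223 0 0) (P.cons (P.lf 1092 0 0) P.nil))) (P.cons (P.cons (P.lf 0 41166 0) (P.cons (P.lf 6045 0 0) P.nil)) (P.cons (P.cons (P.lf 13182 0 0) P.nil) P.nil)))))) 2034)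
 (EL.cons 8 (TM.mk (P.cons (P.cons (P.lf 457494507 0 0) (P.cons (P.lf 0 20783919 0) (P.cons (P.lf 0 705174 0) (P.lf 33579 0 0)))) (P.cons (P.cons (P.lf 0 147734622 0) (P.cons (P.lf 3888774 0 0) (P.cons (P.lf 131940 0 0) (P.lf 0 6282 0)))) (P.cons (P.cons (P.lf 10030677 0 0) (P.cons (P.lf 92271 0 0) (P.cons (P.lf 3126 0 0) (P.lf 0 147 0)))) (P.cons (P.cons (P.lf 964533 0 0) (P.cons (P.lf 0 43662 0) (P.cons (P.lf 0 1479 0) P.nil))) (P.cons (P.cons (P.lf 0 93618 0) (P.cons (P.lf 0 369 0) P.nil)) (P.cons (P.cons (P.lf 0 4656 0) P.nil) P.nil)))))) 1632)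
 (EL.cons 11 (TM.mk (P.cons (P.cons (P.lf 478581453 0 0) (P.cons (P.lf 36993708 0 0) (P.cons (P.lf 0 2335803 0) (P.cons (P.lf 0 43800 0) (P.lf 1563 0 0))))) (P.cons (P.cons (P.lf 0 24016002 0) (P.cons (P.lf 0 1856403 0) (P.cons (P.lf 117213 0 0) (P.cons (P.lf 2196 0 0) (P.lf 0 78 0))))) (P.cons (P.cons (P.lf 0 5611419 0) (P.cons (P.lf 0 433755 0) (P.cons (P.lf 27384 0 0) (P.cons (P.lf 513 0 0) P.nil)))) (P.cons (P.cons (P.lf 91443 0 0) (P.cons (P.lf 7068 0 0) (P.cons (P.lf 0 444 0) P.nil))) (P.cons (P.cons (P.lf 28089 0 0) (P.cons (P.lf 2169 0 0) P.nil)) (P.cons (P.cons (P.lf 402 0 0) P.nil) P.nil)))))) 525)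
 EL.nil)))
noncomputable def S169_183_364_401_26 : EL := (EL.cons 4 (TM.mk (P.cons (P.cons (P.lf 0 254315727 0) (P.cons (P.lf 31775484 0 0) (P.cons (P.lf 159420 0 0) (P.cons (P.lf 0 113676 0) (P.cons (P.lf 1908 0 0) (P.cons (P.lf 99 0 0) P.nil)))))) (P.cons (P.cons (P.lf 0 4233201 0) (P.cons (P.lf 123975 0 0) (P.cons (P.lf 0 46173 0) (P.cons (P.lf 0 3618 0) (P.cons (P.lf 102 0 0) P.nil))))) (P.cons (P.cons (P.lf 16468137 0 0) (P.cons (P.lf 0 1136781 0) (P.cons (P.lf 0 16512 0) (P.cons (P.lf 3333 0 0) P.nil)))) (P.cons (P.cons (P.lf 0 680313 0) (P.cons (P.lf 0 18030 0) (P.cons (P.lf 1206 0 0) P.nil))) (P.cons (P.cons (P.lf 0 226065 0) (P.cons (P.lf 15057 0 0) P.nil)) (P.cons (P.cons (P.lf 6909 0 0) P.nil) P.nil)))))) 5016)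
 (EL.cons 8 (TM.mk (P.cons (P.cons (P.lf 120698604 0 0) (P.cons (P.lf 0 15080688 0) (P.cons (P.lf 0 75660 0) (P.cons (P.lf 53949 0 0) (P.cons (P.lf 0 906 0) (P.cons (P.lf 0 45 0) P.nil)))))) (P.cons (P.cons (P.lf 0 11488953 0) (P.cons (P.lf 1627671 0 0) (P.cons (P.lf 30375 0 0) (P.cons (P.lf 0 4314 0) (P.cons (P.lf 51 0 0) P.nil))))) (P.cons (P.cons (P.lf 0 7583550 0) (P.cons (P.lf 489006 0 0) (P.cons (P.lf 5097 0 0) (P.cons (P.lf 0 1569 0) P.nil)))) (P.cons (P.cons (P.lf 1179054 0 0) (P.cons (P.lf 0 48816 0) (P.cons (P.lf 0 1350 0) P.nil))) (P.cons (P.cons (P.lf 42276 0 0) (P.cons (P.lf 0 6186 0) P.nil)) (P.cons (P.cons (P.lf 0 12438 0) P.nil) P.nil)))))) 2406)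
 (EL.cons 11 (TM.mk (P.cons (P.cons (P.lf 126261873 0 0) (P.cons (P.lf 0 279855 0) (P.cons (P.lf 0 1732935 0) (P.cons (P.lf 27333 0 0) (P.cons (P.lf 4245 0 0) (P.cons (P.lf 0 78 0) P.nil)))))) (P.cons (P.cons (P.lf 22418088 0 0) (P.cons (P.lf 930402 0 0) (P.cons (P.lf 0 198672 0) (P.cons (P.lf 1056 0 0) (P.cons (P.lf 378 0 0) P.nil))))) (P.cons (P.cons (P.lf 0 4339467 0) (P.cons (P.lf 0 176538 0) (P.cons (P.lf 38850 0 0) (P.cons (P.lf 0 216 0) P.nil)))) (P.cons (P.cons (P.lf 0 362484 0) (P.cons (P.lf 0 9714 0) (P.cons (P.lf 3804 0 0) P.nil))) (P.cons (P.cons (P.lf 37125 0 0) (P.cons (P.lf 2310 0 0) P.nil)) (P.cons (P.cons (P.lf 3147 0 0) P.nil) P.nil)))))) 1626)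
 EL.nil)))
noncomputable def S169_183_364_401_27 : EL := (EL.cons 13 (TM.mk (P.lf 0 4294967296 0) 0)
 EL.nil)
noncomputable def S169_183_364_401_28 : EL := (EL.cons 13 (TM.mk (P.cons (P.cons (P.lf 0 1133120841 0) (P.cons (P.lf 90100268 0 0) (P.cons (P.lf 3056992 0 0) (P.lf 0 145568 0)))) (P.cons (P.cons (P.lf 0 258050099 0) (P.cons (P.lf 11723180 0 0) (P.cons (P.lf 397752 0 0) (P.lf 0 18940 0)))) (P.cons (P.cons (P.lf 12708665 0 0) (P.cons (P.lf 218744 0 0) (P.cons (P.lf 7420 0 0) (P.lf 0 352 0)))) (P.cons (P.cons (P.lf 1081656 0 0) (P.cons (P.lf 0 33056 0) (P.cons (P.lf 0 1120 0) P.nil))) (P.cons (P.cons (P.lf 0 14072 0) (P.cons (P.lf 0 1608 0) P.nil)) (P.cons (P.cons (P.lf 0 2606 0) P.nil) P.nil)))))) 687)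
 EL.nil)
noncomputable def S169_183_364_401_29 : EL := (EL.cons 13 (TM.mk (P.cons (P.cons (P.lf 0 298945894 0) (P.cons (P.lf 47541452 0 0) (P.cons (P.lf 0 277109 0) (P.cons (P.lf 0 205068 0) (P.cons (P.lf 3931 0 0) (P.cons (P.lf 207 0 0) P.nil)))))) (P.cons (P.cons (P.lf 0 136160266 0) (P.cons (P.lf 17012545 0 0) (P.cons (P.lf 85354 0 0) (P.cons (P.lf 0 60862 0) (P.cons (P.lf 1023 0 0) P.nil))))) (P.cons (P.cons (P.lf 0 8798424 0) (P.cons (P.lf 990916 0 0) (P.cons (P.lf 0 7556 0) (P.cons (P.lf 0 4394 0) P.nil)))) (P.cons (P.cons (P.lf 2097859 0 0) (P.cons (P.lf 0 105916 0) (P.cons (P.lf 0 3400 0) P.nil))) (P.cons (P.cons (P.lf 84946 0 0) (P.cons (P.lf 0 11429 0) P.nil)) (P.cons (P.cons (P.lf 0 9467 0) P.nil) P.nil)))))) 3301)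
 EL.nil)
noncomputable def S169_183_364_401_30 : EL := (EL.cons 13 (TM.mk (P.cons (P.lf 2392322948 0 0) (P.cons (P.lf 0 163782508 0) (P.cons (P.lf 0 5110764 0) (P.cons (P.lf 39116 0 0) (P.cons (P.lf 5000 0 0) (P.cons (P.lf 60 0 0) P.nil)))))) 56)
 EL.nil)
noncomputable def S169_183_364_401_31 : EL := (EL.cons 13 (TM.mk (P.cons (P.cons (P.lf 631155211 0 0) (P.cons (P.lf 0 50186398 0) (P.cons (P.lf 0 1702763 0) (P.lf 81082 0 0)))) (P.cons (P.cons (P.lf 100525515 0 0) (P.cons (P.lf 0 3094036 0) (P.cons (P.lf 0 104976 0) (P.lf 4998 0 0)))) (P.cons (P.cons (P.lf 0 18267528 0) (P.cons (P.lf 432419 0 0) (P.cons (P.lf 14672 0 0) (P.lf 0 699 0)))) (P.cons (P.cons (P.lf 0 414606 0) (P.cons (P.lf 39883 0 0) (P.cons (P.lf 1352 0 0) P.nil))) (P.cons (P.cons (P.lf 67877 0 0) (P.cons (P.lf 0 316 0) P.nil)) (P.cons (P.cons (P.lf 2402 0 0) P.nil) P.nil)))))) 816)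
 EL.nil)
noncomputable def S169_183_364_401_32 : EL := (EL.cons 13 (TM.mk (P.cons (P.cons (P.lf 166514684 0 0) (P.cons (P.lf 0 26480878 0) (P.cons (P.lf 154351 0 0) (P.cons (P.lf 114224 0 0) (P.cons (P.lf 0 2189 0) (P.cons (P.lf 0 115 0) P.nil)))))) (P.cons (P.cons (P.lf 64442218 0 0) (P.cons (P.lf 0 7663165 0) (P.cons (P.lf 0 58109 0) (P.cons (P.lf 26080 0 0) (P.cons (P.lf 0 419 0) P.nil))))) (P.cons (P.cons (P.lf 0 647231 0) (P.cons (P.lf 153374 0 0) (P.cons (P.lf 7133 0 0) (P.cons (P.lf 0 117 0) P.nil)))) (P.cons (P.cons (P.lf 0 1663335 0) (P.cons (P.lf 116594 0 0) (P.cons (P.lf 1709 0 0) P.nil))) (P.cons (P.cons (P.lf 23801 0 0) (P.cons (P.lf 3295 0 0) P.nil)) (P.cons (P.cons (P.lf 11251 0 0) P.nil) P.nil)))))) 3558)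
 EL.nil)
noncomputable def S169_183_364_401_33 : EL := (EL.cons 14 (TM.mk (P.lf 8589934592 0 0) 0)
 EL.nil)
noncomputable def S169_183_364_401_34 : EL := (EL.cons 14 (TM.mk (P.cons (P.cons (P.lf 2266241682 0 0) (P.cons (P.lf 0 180200536 0) (P.cons (P.lf 0 6113984 0) (P.lf 291136 0 0)))) (P.cons (P.cons (P.lf 516100198 0 0) (P.cons (P.lf 0 23446360 0) (P.cons (P.lf 0 795504 0) (P.lf 37880 0 0)))) (P.cons (P.cons (P.lf 0 25417330 0) (P.cons (P.lf 0 437488 0) (P.cons (P.lf 0 14840 0) (P.lf 704 0 0)))) (P.cons (P.cons (P.lf 0 2163312 0) (P.cons (P.lf 66112 0 0) (P.cons (P.lf 2240 0 0) P.nil))) (P.cons (P.cons (P.lf 28144 0 0) (P.cons (P.lf 3216 0 0) P.nil)) (P.cons (P.cons (P.lf 5212 0 0) P.nil) P.nil)))))) 1374)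
 EL.nil)
noncomputable def S169_183_364_401_35 : EL := (EL.cons 14 (TM.mk (P.cons (P.cons (P.lf 597891788 0 0) (P.cons (P.lf 0 95082904 0) (P.cons (P.lf 554218 0 0) (P.cons (P.lf 410136 0 0) (P.cons (P.lf 0 7862 0) (P.cons (P.lf 0 414 0) P.nil)))))) (P.cons (P.cons (P.lf 272320532 0 0) (P.cons (P.lf 0 34025090 0) (P.cons (P.lf 0 170708 0) (P.cons (P.lf 121724 0 0) (P.cons (P.lf 0 2046 0) P.nil))))) (P.cons (P.cons (P.lf 17596848 0 0) (P.cons (P.lf 0 1981832 0) (P.cons (P.lf 15112 0 0) (P.cons (P.lf 8788 0 0) P.nil)))) (P.cons (P.cons (P.lf 0 4195718 0) (P.cons (P.lf 211832 0 0) (P.cons (P.lf 6800 0 0) P.nil))) (P.cons (P.cons (P.lf 0 169892 0) (P.cons (P.lf 22858 0 0) P.nil)) (P.cons (P.cons (P.lf 18934 0 0) P.nil) P.nil)))))) 6602)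
 EL.nil)
noncomputable def S169_183_364_401_36 : EL := (EL.cons 14 (TM.mk (P.cons (P.lf 0 4784645896 0) (P.cons (P.lf 327565016 0 0) (P.cons (P.lf 10221528 0 0) (P.cons (P.lf 0 78232 0) (P.cons (P.lf 0 10000 0) (P.cons (P.lf 0 120 0) P.nil)))))) 112)
 EL.nil)
noncomputable def S169_183_364_401_37 : EL := (EL.cons 14 (TM.mk (P.cons (P.cons (P.lf 0 1262310422 0) (P.cons (P.lf 100372796 0 0) (P.cons (P.lf 3405526 0 0) (P.lf 0 162164 0)))) (P.cons (P.cons (P.lf 0 201051030 0) (P.cons (P.lf 6188072 0 0) (P.cons (P.lf 209952 0 0) (P.lf 0 9996 0)))) (P.cons (P.cons (P.lf 36535056 0 0) (P.cons (P.lf 0 864838 0) (P.cons (P.lf 0 29344 0) (P.lf 1398 0 0)))) (P.cons (P.cons (P.lf 829212 0 0) (P.cons (P.lf 0 79766 0) (P.cons (P.lf 0 2704 0) P.nil))) (P.cons (P.cons (P.lf 0 135754 0) (P.cons (P.lf 632 0 0) P.nil)) (P.cons (P.cons (P.lf 0 4804 0) P.nil) P.nil)))))) 1632)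
 EL.nil)
noncomputable def S169_183_364_401_38 : EL := (EL.cons 14 (TM.mk (P.cons (P.cons (P.lf 0 333029368 0) (P.cons (P.lf 52961756 0 0) (P.cons (P.lf 0 308702 0) (P.cons (P.lf 0 228448 0) (P.cons (P.lf 4378 0 0) (P.cons (P.lf 230 0 0) P.nil)))))) (P.cons (P.cons (P.lf 0 128884436 0) (P.cons (P.lf 15326330 0 0) (P.cons (P.lf 116218 0 0) (P.cons (P.lf 0 52160 0) (P.cons (P.lf 838 0 0) P.nil))))) (P.cons (P.cons (P.lf 1294462 0 0) (P.cons (P.lf 0 306748 0) (P.cons (P.lf 0 14266 0) (P.cons (P.lf 234 0 0) P.nil)))) (P.cons (P.cons (P.lf 3326670 0 0) (P.cons (P.lf 0 233188 0) (P.cons (P.lf 0 3418 0) P.nil))) (P.cons (P.cons (P.lf 0 47602 0) (P.cons (P.lf 0 6590 0) P.nil)) (P.cons (P.cons (P.lf 0 22502 0) P.nil) P.nil)))))) 7116)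
 EL.nil)
noncomputable def S169_183_364_401_39 : EL := (EL.cons 14 (TM.mk (P.cons (P.lf 2665076910 0 0) (P.cons (P.lf 0 364911418 0) (P.cons (P.lf 1104322 0 0) (P.cons (P.lf 866718 0 0) (P.cons (P.lf 17336 0 0) (P.cons (P.lf 0 814 0) P.nil)))))) 180)
 EL.nil)
noncomputable def S169_183_364_401_40 : EL := (EL.cons 14 (TM.mk (P.cons (P.cons (P.lf 703114594 0 0) (P.cons (P.lf 0 55908258 0) (P.cons (P.lf 0 1896898 0) (P.lf 90326 0 0)))) (P.cons (P.cons (P.lf 63850224 0 0) (P.cons (P.lf 380780 0 0) (P.cons (P.lf 12920 0 0) (P.lf 0 614 0)))) (P.cons (P.cons (P.lf 0 29519122 0) (P.cons (P.lf 837130 0 0) (P.cons (P.lf 28402 0 0) (P.lf 0 1352 0)))) (P.cons (P.cons (P.lf 703592 0 0) (P.cons (P.lf 17900 0 0) (P.cons (P.lf 606 0 0) P.nil))) (P.cons (P.cons (P.lf 154012 0 0) (P.cons (P.lf 0 4596 0) P.nil)) (P.cons (P.cons (P.lf 0 1594 0) P.nil) P.nil)))))) 1668)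
 EL.nil)
noncomputable def S169_183_364_401_41 : EL := (EL.cons 14 (TM.mk (P.cons (P.cons (P.lf 185499386 0 0) (P.cons (P.lf 0 29500020 0) (P.cons (P.lf 171948 0 0) (P.cons (P.lf 127246 0 0) (P.cons (P.lf 0 2438 0) (P.cons (P.lf 0 128 0) P.nil)))))) (P.cons (P.cons (P.lf 59089812 0 0) (P.cons (P.lf 0 6517236 0) (P.cons (P.lf 0 76506 0) (P.cons (P.lf 20342 0 0) (P.cons (P.lf 0 300 0) P.nil))))) (P.cons (P.cons (P.lf 0 6032134 0) (P.cons (P.lf 818330 0 0) (P.cons (P.lf 12010 0 0) (P.cons (P.lf 0 2390 0) P.nil)))) (P.cons (P.cons (P.lf 0 1953946 0) (P.cons (P.lf 135944 0 0) (P.cons (P.lf 1500 0 0) P.nil))) (P.cons (P.cons (P.lf 156474 0 0) (P.cons (P.lf 0 5786 0) P.nil)) (P.cons (P.cons (P.lf 14820 0 0) P.nil) P.nil)))))) 5914)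
 EL.nil)
noncomputable def S169_183_364_401_42 : EL := (EL.cons 14 (TM.mk (P.cons (P.lf 0 1484464074 0) (P.cons (P.lf 304886824 0 0) (P.cons (P.lf 0 11359206 0) (P.cons (P.lf 0 899150 0) (P.cons (P.lf 24928 0 0) (P.cons (P.lf 2522 0 0) P.nil)))))) 228)
 EL.nil)
noncomputable def S169_183_364_401_43 : EL := (EL.cons 14 (TM.mk (P.cons (P.cons (P.lf 0 391639112 0) (P.cons (P.lf 31141240 0 0) (P.cons (P.lf 1056584 0 0) (P.lf 0 50312 0)))) (P.cons (P.cons (P.lf 0 8752682 0) (P.cons (P.lf 0 2344078 0) (P.cons (P.lf 0 79532 0) (P.lf 3786 0 0)))) (P.cons (P.cons (P.lf 19713834 0 0) (P.cons (P.lf 0 518294 0) (P.cons (P.lf 0 17584 0) (P.lf 836 0 0)))) (P.cons (P.cons (P.lf 0 1448000 0) (P.cons (P.lf 22914 0 0) (P.cons (P.lf 778 0 0) P.nil))) (P.cons (P.cons (P.lf 0 95480 0) (P.cons (P.lf 4300 0 0) P.nil)) (P.cons (P.cons (P.lf 7782 0 0) P.nil) P.nil)))))) 1814)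
 EL.nil)
noncomputable def S169_183_364_401_44 : EL := (EL.cons 14 (TM.mk (P.cons (P.cons (P.lf 0 103324288 0) (P.cons (P.lf 16431690 0 0) (P.cons (P.lf 0 95776 0) (P.cons (P.lf 0 70876 0) (P.cons (P.lf 1358 0 0) (P.cons (P.lf 70 0 0) P.nil)))))) (P.cons (P.cons (P.lf 0 25839628 0) (P.cons (P.lf 2505198 0 0) (P.cons (P.lf 49170 0 0) (P.cons (P.lf 0 6478 0) (P.cons (P.lf 74 0 0) P.nil))))) (P.cons (P.cons (P.lf 5833976 0 0) (P.cons (P.lf 0 739444 0) (P.cons (P.lf 0 9402 0) (P.cons (P.lf 2258 0 0) P.nil)))) (P.cons (P.cons (P.lf 926956 0 0) (P.cons (P.lf 0 52002 0) (P.cons (P.lf 0 470 0) P.nil))) (P.cons (P.cons (P.lf 0 169600 0) (P.cons (P.lf 9474 0 0) P.nil)) (P.cons (P.cons (P.lf 0 4628 0) P.nil) P.nil)))))) 5420)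
 EL.nil)
noncomputable def S169_183_364_401_45 : EL := (EL.cons 14 (TM.mk (P.cons (P.cons (P.lf 157738952 0 0) (P.cons (P.lf 0 37627906 0) (P.cons (P.lf 1715318 0 0) (P.cons (P.lf 184518 0 0) (P.cons (P.lf 0 14294 0) (P.cons (P.lf 0 216 0) P.nil)))))) (P.cons (P.cons (P.lf 107767550 0 0) (P.cons (P.lf 0 22034168 0) (P.cons (P.lf 712376 0 0) (P.cons (P.lf 103712 0 0) (P.cons (P.lf 0 6186 0) P.nil))))) (P.cons (P.cons (P.lf 19234904 0 0) (P.cons (P.lf 0 3428706 0) (P.cons (P.lf 92602 0 0) (P.cons (P.lf 15110 0 0) P.nil)))) (P.cons (P.cons (P.lf 0 1006044 0) (P.cons (P.lf 92158 0 0) (P.cons (P.lf 6076 0 0) P.nil))) (P.cons (P.cons (P.lf 0 415600 0) (P.cons (P.lf 49318 0 0) P.nil)) (P.cons (P.cons (P.lf 4026 0 0) P.nil) P.nil)))))) 15868)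
 EL.nil)
noncomputable def S169_183_364_401_46 : EL := (EL.cons 15 (TM.mk (P.lf 4294967296 0 0) 0)
 EL.nil)
noncomputable def S169_183_364_401_47 : EL := (EL.cons 15 (TM.mk (P.cons (P.cons (P.lf 1133120841 0 0) (P.cons (P.lf 0 90100268 0) (P.cons (P.lf 0 3056992 0) (P.lf 145568 0 0)))) (P.cons (P.cons (P.lf 258050099 0 0) (P.cons (P.lf 0 11723180 0) (P.cons (P.lf 0 397752 0) (P.lf 18940 0 0)))) (P.cons (P.cons (P.lf 0 12708665 0) (P.cons (P.lf 0 218744 0) (P.cons (P.lf 0 7420 0) (P.lf 352 0 0)))) (P.cons (P.cons (P.lf 0 1081656 0) (P.cons (P.lf 33056 0 0) (P.cons (P.lf 1120 0 0) P.nil))) (P.cons (P.cons (P.lf 14072 0 0) (P.cons (P.lf 1608 0 0) P.nil)) (P.cons (P.cons (P.lf 2606 0 0) P.nil) P.nil)))))) 687)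
 EL.nil)
noncomputable def S169_183_364_401_48 : EL := (EL.cons 15 (TM.mk (P.cons (P.cons (P.lf 298945894 0 0) (P.cons (P.lf 0 47541452 0) (P.cons (P.lf 277109 0 0) (P.cons (P.lf 205068 0 0) (P.cons (P.lf 0 3931 0) (P.cons (P.lf 0 207 0) P.nil)))))) (P.cons (P.cons (P.lf 136160266 0 0) (P.cons (P.lf 0 17012545 0) (P.cons (P.lf 0 85354 0) (P.cons (P.lf 60862 0 0) (P.cons (P.lf 0 1023 0) P.nil))))) (P.cons (P.cons (P.lf 8798424 0 0) (P.cons (P.lf 0 990916 0) (P.cons (P.lf 7556 0 0) (P.cons (P.lf 4394 0 0) P.nil)))) (P.cons (P.cons (P.lf 0 2097859 0) (P.cons (P.lf 105916 0 0) (P.cons (P.lf 3400 0 0) P.nil))) (P.cons (P.cons (P.lf 0 84946 0) (P.cons (P.lf 11429 0 0) P.nil)) (P.cons (P.cons (P.lf 9467 0 0) P.nil) P.nil)))))) 3301)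
 EL.nil)
noncomputable def S169_183_364_401 : SL := (SL.cons S169_183_364_401_0 (SL.cons S169_183_364_401_1 (SL.cons S169_183_364_401_2 (SL.cons S169_183_364_401_3 (SL.cons S169_183_364_401_4 (SL.cons S169_183_364_401_5 (SL.cons S169_183_364_401_6 (SL.cons S169_183_364_401_7 (SL.cons S169_183_364_401_8 (SL.cons S169_183_364_401_9 (SL.cons S169_183_364_401_10 (SL.cons S169_183_364_401_11 (SL.cons S169_183_364_401_12 (SL.cons S169_183_364_401_13 (SL.cons S169_183_364_401_14 (SL.cons S169_183_364_401_15 (SL.cons S169_183_364_401_16 (SL.cons S169_183_364_401_17 (SL.cons S169_183_364_401_18 (SL.cons S169_183_364_401_19 (SL.cons S169_183_364_401_20 (SL.cons S169_183_364_401_21 (SL.cons S169_183_364_401_22 (SL.cons S169_183_364_401_23 (SL.cons S169_183_364_401_24 (SL.cons S169_183_364_401_25 (SL.cons S169_183_364_401_26 (SL.cons S169_183_364_401_27 (SL.cons S169_183_364_401_28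 (SL.cons S169_183_364_401_29 (SL.cons S169_183_364_401_30 (SL.cons S169_183_364_401_31 (SL.cons S169_183_364_401_32 (SL.cons S169_183_364_401_33 (SL.cons S169_183_364_401_34 (SL.cons S169_183_364_401_35 (SL.cons S169_183_364_401_36 (SL.cons S169_183_364_401_37 (SL.cons S169_183_364_401_38 (SL.cons S169_183_364_401_39 (SL.cons S169_183_364_401_40 (SL.cons S169_183_364_401_41 (SL.cons S169_183_364_401_42 (SL.cons S169_183_364_401_43 (SL.cons S169_183_364_401_44 (SL.cons S169_183_364_401_45 (SL.cons S169_183_364_401_46 (SL.cons S169_183_364_401_47 (SL.cons S169_183_364_401_48 SL.nil)))))))))))))))))))))))))))))))))))))))))))))))))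
noncomputable def S169_183_364_438_0 : EL := (EL.cons 0 (TM.mk (P.cons (P.lf 6113364111 0 0) (P.cons (P.lf 320722925 0 0) (P.cons (P.lf 0 970595 0) (P.cons (P.lf 0 761763 0) (P.cons (P.lf 0 15236 0) (P.cons (P.lf 715 0 0) P.nil)))))) 165)
 (EL.cons 1 (TM.mk (P.cons (P.lf 0 1754812605 0) (P.cons (P.lf 44029685 0 0) (P.cons (P.lf 10840057 0 0) (P.cons (P.lf 104334 0 0) (P.cons (P.lf 0 15399 0) (P.cons (P.lf 0 481 0) P.nil)))))) 128)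
 (EL.cons 5 (TM.mk (P.cons (P.lf 5127803834 0 0) (P.cons (P.lf 0 114034818 0) (P.cons (P.lf 345096 0 0) (P.cons (P.lf 270848 0 0) (P.cons (P.lf 5418 0 0) (P.cons (P.lf 0 254 0) P.nil)))))) 109)
 (EL.cons 9 (TM.mk (P.lf 6442450944 0 0) 2)
 EL.nil))))
noncomputable def S169_183_364_438_1 : EL := (EL.cons 0 (TM.mk (P.cons (P.cons (P.lf 0 1612229803 0) (P.cons (P.lf 40750655 0 0) (P.cons (P.lf 2229705 0 0) (P.lf 0 247739 0)))) (P.cons (P.cons (P.lf 889516391 0 0) (P.cons (P.lf 0 51914658 0) (P.cons (P.lf 0 2840561 0) (P.lf 315615 0 0)))) (P.cons (P.cons (P.lf 39933973 0 0) (P.cons (P.lf 0 7172537 0) (P.cons (P.lf 0 392446 0) (P.lf 43595 0 0)))) (P.cons (P.cons (P.lf 0 6930413 0) (P.cons (P.lf 4577 0 0) (P.cons (P.lf 255 0 0) P.nil))) (P.cons (P.cons (P.lf 0 422783 0) (P.cons (P.lf 41076 0 0) P.nil)) (P.cons (P.cons (P.lf 18195 0 0) P.nil) P.nil)))))) 16079)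
 (EL.cons 1 (TM.mk (P.cons (P.cons (P.lf 0 849535525 0) (P.cons (P.lf 121289654 0 0) (P.cons (P.lf 6636477 0 0) (P.lf 0 737380 0)))) (P.cons (P.cons (P.lf 0 238061383 0) (P.cons (P.lf 29372364 0 0) (P.cons (P.lf 1607128 0 0) (P.lf 0 178563 0)))) (P.cons (P.cons (P.lf 40225574 0 0) (P.cons (P.lf 0 597009 0) (P.cons (P.lf 0 32670 0) (P.lf 3633 0 0)))) (P.cons (P.cons (P.lf 3166623 0 0) (P.cons (P.lf 0 335690 0) (P.cons (P.lf 0 18359 0) P.nil))) (P.cons (P.cons (P.lf 0 201797 0) (P.cons (P.lf 0 9766 0) P.nil)) (P.cons (P.cons (P.lf 0 18402 0) P.nil) P.nil)))))) 8980)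
 (EL.cons 5 (TM.mk (P.cons (P.cons (P.lf 2341422829 0 0) (P.cons (P.lf 0 340132772 0) (P.cons (P.lf 0 18610702 0) (P.lf 2067850 0 0)))) (P.cons (P.cons (P.lf 101839286 0 0) (P.cons (P.lf 0 23911820 0) (P.cons (P.lf 0 1308362 0) (P.lf 145378 0 0)))) (P.cons (P.cons (P.lf 0 36187361 0) (P.cons (P.lf 1759634 0 0) (P.cons (P.lf 96276 0 0) (P.lf 0 10690 0)))) (P.cons (P.cons (P.lf 683332 0 0) (P.cons (P.lf 117856 0 0) (P.cons (P.lf 6446 0 0) P.nil))) (P.cons (P.cons (P.lf 177066 0 0) (P.cons (P.lf 0 8788 0) P.nil)) (P.cons (P.cons (P.lf 0 2065 0) P.nil) P.nil)))))) 8151)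
 (EL.cons 9 (TM.mk (P.cons (P.cons (P.lf 1560163723 0 0) (P.cons (P.lf 0 287332626 0) (P.cons (P.lf 0 15721686 0) (P.lf 1746852 0 0)))) (P.cons (P.cons (P.lf 368922148 0 0) (P.cons (P.lf 0 37385610 0) (P.cons (P.lf 0 2045586 0) (P.lf 227286 0 0)))) (P.cons (P.cons (P.lf 0 19401715 0) (P.cons (P.lf 0 697584 0) (P.cons (P.lf 0 38166 0) (P.lf 4236 0 0)))) (P.cons (P.cons (P.lf 0 1571292 0) (P.cons (P.lf 105420 0 0) (P.cons (P.lf 5766 0 0) P.nil))) (P.cons (P.cons (P.lf 23604 0 0) (P.cons (P.lf 5130 0 0) P.nil)) (P.cons (P.cons (P.lf 3873 0 0) P.nil) P.nil)))))) 1961)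
 (EL.cons 2 (TM.mk (P.cons (P.cons (P.lf 863764880 0 0) (P.cons (P.lf 108381735 0 0) (P.cons (P.lf 0 16547085 0) (P.cons (P.lf 0 505507 0) (P.lf 42122 0 0))))) (P.cons (P.cons (P.lf 15789675 0 0) (P.cons (P.lf 1981223 0 0) (P.cons (P.lf 0 302478 0) (P.cons (P.lf 0 9239 0) (P.lf 767 0 0))))) (P.cons (P.cons (P.lf 0 7201473 0) (P.cons (P.lf 0 903608 0) (P.cons (P.lf 137955 0 0) (P.cons (P.lf 4213 0 0) P.nil)))) (P.cons (P.cons (P.lf 0 308370 0) (P.cons (P.lf 0 38691 0) (P.cons (P.lf 5906 0 0) P.nil))) (P.cons (P.cons (P.lf 12135 0 0) (P.cons (P.lf 1521 0 0) P.nil)) (P.cons (P.cons (P.lf 961 0 0) P.nil) P.nil)))))) 1379)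
 (EL.cons 6 (TM.mk (P.cons (P.cons (P.lf 647103855 0 0) (P.cons (P.lf 81195984 0 0) (P.cons (P.lf 0 12396525 0) (P.cons (P.lf 0 378711 0) (P.lf 31557 0 0))))) (P.cons (P.cons (P.lf 84196398 0 0) (P.cons (P.lf 10564623 0 0) (P.cons (P.lf 0 1612941 0) (P.cons (P.lf 0 49272 0) (P.lf 4104 0 0))))) (P.cons (P.cons (P.lf 1571037 0 0) (P.cons (P.lf 197127 0 0) (P.cons (P.lf 0 30096 0) (P.cons (P.lf 0 918 0) P.nil)))) (P.cons (P.cons (P.lf 0 237423 0) (P.cons (P.lf 0 29790 0) (P.cons (P.lf 4548 0 0) P.nil))) (P.cons (P.cons (P.lf 0 11556 0) (P.cons (P.lf 0 1449 0) P.nil)) (P.cons (P.cons (P.lf 177 0 0) P.nil) P.nil)))))) 819)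
 EL.nil))))))
noncomputable def S169_183_364_438_2 : EL := (EL.cons 0 (TM.mk (P.cons (P.cons (P.lf 0 1139389184 0) (P.cons (P.lf 295605177 0 0) (P.cons (P.lf 378979 0 0) (P.cons (P.lf 0 3525657 0) (P.cons (P.lf 144766 0 0) (P.cons (P.lf 10506 0 0) P.nil)))))) (P.cons (P.cons (P.lf 57815814 0 0) (P.cons (P.lf 0 25773014 0) (P.cons (P.lf 0 1054784 0) (P.cons (P.lf 195599 0 0) (P.cons (P.lf 0 3260 0) P.nil))))) (P.cons (P.cons (P.lf 110958801 0 0) (P.cons (P.lf 0 17941706 0) (P.cons (P.lf 0 177209 0) (P.cons (P.lf 197112 0 0) P.nil)))) (P.cons (P.cons (P.lf 0 1035898 0) (P.cons (P.lf 0 816736 0) (P.cons (P.lf 40079 0 0) P.nil))) (P.cons (P.cons (P.lf 0 1407963 0) (P.cons (P.lf 168614 0 0) P.nil)) (P.cons (P.cons (P.lf 0 19279 0) P.nil) P.nil)))))) 120167)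
 (EL.cons 1 (TM.mk (P.cons (P.cons (P.lf 0 308550142 0) (P.cons (P.lf 96617148 0 0) (P.cons (P.lf 0 2041921 0) (P.cons (P.lf 0 1389348 0) (P.cons (P.lf 67160 0 0) (P.cons (P.lf 4877 0 0) P.nil)))))) (P.cons (P.cons (P.lf 0 166510273 0) (P.cons (P.lf 46267518 0 0) (P.cons (P.lf 0 675369 0) (P.cons (P.lf 0 632214 0) (P.cons (P.lf 29388 0 0) P.nil))))) (P.cons (P.cons (P.lf 0 1327305 0) (P.cons (P.lf 1498996 0 0) (P.cons (P.lf 0 200205 0) (P.cons (P.lf 0 39990 0) P.nil)))) (P.cons (P.cons (P.lf 6789476 0 0) (P.cons (P.lf 0 993114 0) (P.cons (P.lf 0 27935 0) P.nil))) (P.cons (P.cons (P.lf 101219 0 0) (P.cons (P.lf 0 77061 0) P.nil)) (P.cons (P.cons (P.lf 0 63619 0) P.nil) P.nil)))))) 59080)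
 (EL.cons 5 (TM.mk (P.cons (P.cons (P.lf 833316379 0 0) (P.cons (P.lf 0 262825835 0) (P.cons (P.lf 5759014 0 0) (P.cons (P.lf 3801794 0 0) (P.cons (P.lf 0 184577 0) (P.cons (P.lf 0 13386 0) P.nil)))))) (P.cons (P.cons (P.lf 181950917 0 0) (P.cons (P.lf 0 48653337 0) (P.cons (P.lf 990930 0 0) (P.cons (P.lf 695537 0 0) (P.cons (P.lf 0 33482 0) P.nil))))) (P.cons (P.cons (P.lf 0 26159084 0) (P.cons (P.lf 3105115 0 0) (P.cons (P.lf 200246 0 0) (P.cons (P.lf 0 15547 0) P.nil)))) (P.cons (P.cons (P.lf 0 3012526 0) (P.cons (P.lf 671757 0 0) (P.cons (P.lf 5143 0 0) P.nil))) (P.cons (P.cons (P.lf 375822 0 0) (P.cons (P.lf 0 20406 0) P.nil)) (P.cons (P.cons (P.lf 22777 0 0) P.nil) P.nil)))))) 61171)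
 (EL.cons 9 (TM.mk (P.cons (P.cons (P.lf 377823729 0 0) (P.cons (P.lf 0 139166271 0) (P.cons (P.lf 5200384 0 0) (P.cons (P.lf 2248438 0 0) (P.cons (P.lf 0 117451 0) (P.cons (P.lf 0 8524 0) P.nil)))))) (P.cons (P.cons (P.lf 178683223 0 0) (P.cons (P.lf 0 51015069 0) (P.cons (P.lf 543450 0 0) (P.cons (P.lf 675079 0 0) (P.cons (P.lf 0 30564 0) P.nil))))) (P.cons (P.cons (P.lf 11729052 0 0) (P.cons (P.lf 0 2888955 0) (P.cons (P.lf 121102 0 0) (P.cons (P.lf 48111 0 0) P.nil)))) (P.cons (P.cons (P.lf 0 2983086 0) (P.cons (P.lf 336501 0 0) (P.cons (P.lf 17103 0 0) P.nil))) (P.cons (P.cons (P.lf 0 110095 0) (P.cons (P.lf 34890 0 0) P.nil)) (P.cons (P.cons (P.lf 14043 0 0) P.nil) P.nil)))))) 21125)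
 (EL.cons 2 (TM.mk (P.cons (P.cons (P.lf 418354638 0 0) (P.cons (P.lf 0 24554188 0) (P.cons (P.lf 0 21897753 0) (P.cons (P.lf 1170596 0 0) (P.cons (P.lf 205025 0 0) (P.cons (P.lf 0 10260 0) P.nil)))))) (P.cons (P.cons (P.lf 106573252 0 0) (P.cons (P.lf 1939072 0 0) (P.cons (P.lf 0 4101800 0) (P.cons (P.lf 147667 0 0) (P.cons (P.lf 32591 0 0) P.nil))))) (P.cons (P.cons (P.lf 0 6882108 0) (P.cons (P.lf 0 591480 0) (P.cons (P.lf 180860 0 0) (P.cons (P.lf 0 967 0) P.nil)))) (P.cons (P.cons (P.lf 0 1490568 0) (P.cons (P.lf 0 51091 0) (P.cons (P.lf 53043 0 0) P.nil))) (P.cons (P.cons (P.lf 12560 0 0) (P.cons (P.lf 7520 0 0) P.nil)) (P.cons (P.cons (P.lf 8381 0 0) P.nil) P.nil)))))) 18871)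
 (EL.cons 6 (TM.mk (P.cons (P.cons (P.lf 313417350 0 0) (P.cons (P.lf 0 18395178 0) (P.cons (P.lf 0 16405068 0) (P.cons (P.lf 876972 0 0) (P.cons (P.lf 153594 0 0) (P.cons (P.lf 0 7686 0) P.nil)))))) (P.cons (P.cons (P.lf 114891402 0 0) (P.cons (P.lf 0 604488 0) (P.cons (P.lf 0 4907550 0) (P.cons (P.lf 208698 0 0) (P.cons (P.lf 41592 0 0) P.nil))))) (P.cons (P.cons (P.lf 6506238 0 0) (P.cons (P.lf 0 441078 0) (P.cons (P.lf 0 351222 0) (P.cons (P.lf 19284 0 0) P.nil)))) (P.cons (P.cons (P.lf 0 757836 0) (P.cons (P.lf 0 89196 0) (P.cons (P.lf 15576 0 0) P.nil))) (P.cons (P.cons (P.lf 0 78576 0) (P.cons (P.lf 0 2622 0) P.nil)) (P.cons (P.cons (P.lf 816 0 0) P.nil) P.nil)))))) 15804)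
 EL.nil))))))
noncomputable def S169_183_364_438_3 : EL := (EL.cons 0 (TM.mk (P.cons (P.lf 2342352752 0 0) (P.cons (P.lf 0 320722925 0) (P.cons (P.lf 970595 0 0) (P.cons (P.lf 761763 0 0) (P.cons (P.lf 15236 0 0) (P.cons (P.lf 0 715 0) P.nil)))))) 165)
 (EL.cons 1 (TM.mk (P.cons (P.lf 1754812605 0 0) (P.cons (P.lf 0 44029685 0) (P.cons (P.lf 0 10840057 0) (P.cons (P.lf 0 104334 0) (P.cons (P.lf 15399 0 0) (P.cons (P.lf 481 0 0) P.nil)))))) 128)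
 (EL.cons 5 (TM.mk (P.cons (P.lf 1314647110 0 0) (P.cons (P.lf 114034818 0 0) (P.cons (P.lf 0 345096 0) (P.cons (P.lf 0 270848 0) (P.cons (P.lf 0 5418 0) (P.cons (P.lf 254 0 0) P.nil)))))) 102)
 EL.nil)))
noncomputable def S169_183_364_438_4 : EL := (EL.cons 0 (TM.mk (P.cons (P.cons (P.lf 567245884 0 0) (P.cons (P.lf 0 104468683 0) (P.cons (P.lf 0 5716105 0) (P.lf 635120 0 0)))) (P.cons (P.cons (P.lf 56463841 0 0) (P.cons (P.lf 711509 0 0) (P.cons (P.lf 38932 0 0) (P.lf 0 4325 0)))) (P.cons (P.cons (P.lf 0 25185004 0) (P.cons (P.lf 1564240 0 0) (P.cons (P.lf 85589 0 0) (P.lf 0 9511 0)))) (P.cons (P.cons (P.lf 634633 0 0) (P.cons (P.lf 33447 0 0) (P.cons (P.lf 1828 0 0) P.nil))) (P.cons (P.cons (P.lf 131192 0 0) (P.cons (P.lf 0 8586 0) P.nil)) (P.cons (P.cons (P.lf 0 1597 0) P.nil) P.nil)))))) 2954)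
 (EL.cons 1 (TM.mk (P.cons (P.cons (P.lf 424961709 0 0) (P.cons (P.lf 0 78264453 0) (P.cons (P.lf 0 4282314 0) (P.lf 475811 0 0)))) (P.cons (P.cons (P.lf 89825396 0 0) (P.cons (P.lf 0 8219475 0) (P.cons (P.lf 0 449733 0) (P.lf 49968 0 0)))) (P.cons (P.cons (P.lf 0 10431148 0) (P.cons (P.lf 548958 0 0) (P.cons (P.lf 30037 0 0) (P.lf 0 3337 0)))) (P.cons (P.cons (P.lf 0 941409 0) (P.cons (P.lf 101038 0 0) (P.cons (P.lf 5525 0 0) P.nil))) (P.cons (P.cons (P.lf 47566 0 0) (P.cons (P.lf 1768 0 0) P.nil)) (P.cons (P.cons (P.lf 4848 0 0) P.nil) P.nil)))))) 2134)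
 (EL.cons 5 (TM.mk (P.cons (P.cons (P.lf 318367146 0 0) (P.cons (P.lf 0 58633120 0) (P.cons (P.lf 0 3208166 0) (P.lf 356462 0 0)))) (P.cons (P.cons (P.lf 102898016 0 0) (P.cons (P.lf 0 12714850 0) (P.cons (P.lf 0 695704 0) (P.lf 77300 0 0)))) (P.cons (P.cons (P.lf 2487430 0 0) (P.cons (P.lf 0 788702 0) (P.cons (P.lf 0 43152 0) (P.lf 4792 0 0)))) (P.cons (P.cons (P.lf 0 749410 0) (P.cons (P.lf 23246 0 0) (P.cons (P.lf 1270 0 0) P.nil))) (P.cons (P.cons (P.lf 0 38778 0) (P.cons (P.lf 4762 0 0) P.nil)) (P.cons (P.cons (P.lf 1858 0 0) P.nil) P.nil)))))) 1486)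
 EL.nil)))
noncomputable def S169_183_364_438_5 : EL := (EL.cons 0 (TM.mk (P.cons (P.cons (P.lf 137369527 0 0) (P.cons (P.lf 0 50598210 0) (P.cons (P.lf 1890759 0 0) (P.cons (P.lf 817488 0 0) (P.cons (P.lf 0 42702 0) (P.cons (P.lf 0 3099 0) P.nil)))))) (P.cons (P.cons (P.lf 46156719 0 0) (P.cons (P.lf 0 11620028 0) (P.cons (P.lf 0 61300 0) (P.cons (P.lf 133511 0 0) (P.cons (P.lf 0 5264 0) P.nil))))) (P.cons (P.cons (P.lf 0 4573959 0) (P.cons (P.lf 1468334 0 0) (P.cons (P.lf 17759 0 0) (P.cons (P.lf 0 15774 0) P.nil)))) (P.cons (P.cons (P.lf 0 1596902 0) (P.cons (P.lf 242024 0 0) (P.cons (P.lf 885 0 0) P.nil))) (P.cons (P.cons (P.lf 132264 0 0) (P.cons (P.lf 0 10861 0) P.nil)) (P.cons (P.cons (P.lf 11903 0 0) P.nil) P.nil)))))) 18095)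
 (EL.cons 1 (TM.mk (P.cons (P.cons (P.lf 102912671 0 0) (P.cons (P.lf 0 37906492 0) (P.cons (P.lf 1416493 0 0) (P.cons (P.lf 612435 0 0) (P.cons (P.lf 0 31991 0) (P.cons (P.lf 0 2321 0) P.nil)))))) (P.cons (P.cons (P.lf 46088066 0 0) (P.cons (P.lf 0 12944520 0) (P.cons (P.lf 112485 0 0) (P.cons (P.lf 168511 0 0) (P.cons (P.lf 0 7520 0) P.nil))))) (P.cons (P.cons (P.lf 1337889 0 0) (P.cons (P.lf 0 204088 0) (P.cons (P.lf 20520 0 0) (P.cons (P.lf 4706 0 0) P.nil)))) (P.cons (P.cons (P.lf 0 1199471 0) (P.cons (P.lf 199490 0 0) (P.cons (P.lf 2831 0 0) P.nil))) (P.cons (P.cons (P.lf 0 31325 0) (P.cons (P.lf 12556 0 0) P.nil)) (P.cons (P.cons (P.lf 9860 0 0) P.nil) P.nil)))))) 12134)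
 (EL.cons 5 (TM.mk (P.cons (P.cons (P.lf 77098742 0 0) (P.cons (P.lf 0 28398280 0) (P.cons (P.lf 1061190 0 0) (P.cons (P.lf 458816 0 0) (P.cons (P.lf 0 23966 0) (P.cons (P.lf 0 1738 0) P.nil)))))) (P.cons (P.cons (P.lf 43149794 0 0) (P.cons (P.lf 0 12873456 0) (P.cons (P.lf 202944 0 0) (P.cons (P.lf 177554 0 0) (P.cons (P.lf 0 8314 0) P.nil))))) (P.cons (P.cons (P.lf 5535980 0 0) (P.cons (P.lf 0 1485058 0) (P.cons (P.lf 34052 0 0) (P.cons (P.lf 21646 0 0) P.nil)))) (P.cons (P.cons (P.lf 0 426572 0) (P.cons (P.lf 26112 0 0) (P.cons (P.lf 5384 0 0) P.nil))) (P.cons (P.cons (P.lf 0 83726 0) (P.cons (P.lf 15492 0 0) P.nil)) (P.cons (P.cons (P.lf 446 0 0) P.nil) P.nil)))))) 9038)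
 EL.nil)))
noncomputable def S169_183_364_438_6 : EL := (EL.cons 12 (TM.mk (P.lf 8589934592 0 0) 0)
 (EL.cons 3 (TM.mk (P.cons (P.lf 0 2242802763 0) (P.cons (P.lf 153546101 0 0) (P.cons (P.lf 4791341 0 0) (P.cons (P.lf 0 36671 0) (P.cons (P.lf 0 4687 0) (P.cons (P.lf 0 56 0) P.nil)))))) 59)
 (EL.cons 7 (TM.mk (P.cons (P.lf 0 1680233071 0) (P.cons (P.lf 0 72873196 0) (P.cons (P.lf 1800820 0 0) (P.cons (P.lf 94981 0 0) (P.cons (P.lf 308 0 0) (P.cons (P.lf 0 74 0) P.nil)))))) 48)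
 EL.nil)))
noncomputable def S169_183_364_438_7 : EL := (EL.cons 12 (TM.mk (P.cons (P.cons (P.lf 2080218298 0 0) (P.cons (P.lf 0 383110168 0) (P.cons (P.lf 0 20962248 0) (P.lf 2329136 0 0)))) (P.cons (P.cons (P.lf 491896198 0 0) (P.cons (P.lf 0 49847480 0) (P.cons (P.lf 0 2727448 0) (P.lf 303048 0 0)))) (P.cons (P.cons (P.lf 0 25868954 0) (P.cons (P.lf 0 930112 0) (P.cons (P.lf 0 50888 0) (P.lf 5648 0 0)))) (P.cons (P.cons (P.lf 0 2095056 0) (P.cons (P.lf 140560 0 0) (P.cons (P.lf 7688 0 0) P.nil))) (P.cons (P.cons (P.lf 31472 0 0) (P.cons (P.lf 6840 0 0) P.nil)) (P.cons (P.cons (P.lf 5164 0 0) P.nil) P.nil)))))) 2590)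
 (EL.cons 3 (TM.mk (P.cons (P.cons (P.lf 2418121177 0 0) (P.cons (P.lf 0 200057526 0) (P.cons (P.lf 0 10946340 0) (P.lf 1216258 0 0)))) (P.cons (P.cons (P.lf 0 330660124 0) (P.cons (P.lf 0 12333734 0) (P.cons (P.lf 0 674848 0) (P.lf 74980 0 0)))) (P.cons (P.cons (P.lf 0 31861678 0) (P.cons (P.lf 1723746 0 0) (P.cons (P.lf 94318 0 0) (P.lf 0 10480 0)))) (P.cons (P.cons (P.lf 518635 0 0) (P.cons (P.lf 158986 0 0) (P.cons (P.lf 8696 0 0) P.nil))) (P.cons (P.cons (P.lf 151041 0 0) (P.cons (P.lf 0 1258 0) P.nil)) (P.cons (P.cons (P.lf 3104 0 0) P.nil) P.nil)))))) 6881)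
 (EL.cons 7 (TM.mk (P.cons (P.cons (P.lf 0 1812318598 0) (P.cons (P.lf 217359601 0 0) (P.cons (P.lf 11893045 0 0) (P.lf 0 1321450 0)))) (P.cons (P.cons (P.lf 156931755 0 0) (P.cons (P.lf 5853610 0 0) (P.cons (P.lf 320289 0 0) (P.lf 0 35588 0)))) (P.cons (P.cons (P.lf 6346556 0 0) (P.cons (P.lf 0 1145401 0) (P.cons (P.lf 0 62668 0) (P.lf 6959 0 0)))) (P.cons (P.cons (P.lf 0 1175491 0) (P.cons (P.lf 0 7079 0) (P.cons (P.lf 0 387 0) P.nil))) (P.cons (P.cons (P.lf 0 30695 0) (P.cons (P.lf 5068 0 0) P.nil)) (P.cons (P.cons (P.lf 3383 0 0) P.nil) P.nil)))))) 5003)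
 (EL.cons 10 (TM.mk (P.cons (P.cons (P.lf 0 1654109751 0) (P.cons (P.lf 0 207551025 0) (P.cons (P.lf 31687671 0 0) (P.cons (P.lf 968052 0 0) (P.lf 0 80670 0))))) (P.cons (P.cons (P.lf 0 143480406 0) (P.cons (P.lf 0 18003342 0) (P.cons (P.lf 2748642 0 0) (P.cons (P.lf 83970 0 0) (P.lf 0 6996 0))))) (P.cons (P.cons (P.lf 434205 0 0) (P.cons (P.lf 54480 0 0) (P.cons (P.lf 0 8316 0) (P.cons (P.lf 0 252 0) P.nil)))) (P.cons (P.cons (P.lf 340785 0 0) (P.cons (P.lf 42759 0 0) (P.cons (P.lf 0 6528 0) P.nil))) (P.cons (P.cons (P.lf 6816 0 0) (P.cons (P.lf 855 0 0) P.nil)) (P.cons (P.cons (P.lf 0 318 0) P.nil) P.nil)))))) 669)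
 EL.nil))))
noncomputable def S169_183_364_438_8 : EL := (EL.cons 12 (TM.mk (P.cons (P.cons (P.lf 503764972 0 0) (P.cons (P.lf 0 185555028 0) (P.cons (P.lf 6933846 0 0) (P.cons (P.lf 2997918 0 0) (P.cons (P.lf 0 156602 0) (P.cons (P.lf 0 11366 0) P.nil)))))) (P.cons (P.cons (P.lf 238244298 0 0) (P.cons (P.lf 0 68020092 0) (P.cons (P.lf 724600 0 0) (P.cons (P.lf 900106 0 0) (P.cons (P.lf 0 40752 0) P.nil))))) (P.cons (P.cons (P.lf 15638736 0 0) (P.cons (P.lf 0 3851940 0) (P.cons (P.lf 161470 0 0) (P.cons (P.lf 64148 0 0) P.nil)))) (P.cons (P.cons (P.lf 0 3977448 0) (P.cons (P.lf 448668 0 0) (P.cons (P.lf 22804 0 0) P.nil))) (P.cons (P.cons (P.lf 0 146794 0) (P.cons (P.lf 46520 0 0) P.nil)) (P.cons (P.cons (P.lf 18724 0 0) P.nil) P.nil)))))) 28138)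
 (EL.cons 3 (TM.mk (P.cons (P.cons (P.lf 1302720664 0 0) (P.cons (P.lf 0 361039253 0) (P.cons (P.lf 2551747 0 0) (P.cons (P.lf 4635981 0 0) (P.cons (P.lf 0 204440 0) (P.cons (P.lf 0 14841 0) P.nil)))))) (P.cons (P.cons (P.lf 169992276 0 0) (P.cons (P.lf 0 41898942 0) (P.cons (P.lf 1985013 0 0) (P.cons (P.lf 722823 0 0) (P.cons (P.lf 0 39200 0) P.nil))))) (P.cons (P.cons (P.lf 0 68322814 0) (P.cons (P.lf 7096951 0 0) (P.cons (P.lf 429210 0 0) (P.cons (P.lf 0 38672 0) P.nil)))) (P.cons (P.cons (P.lf 0 4034602 0) (P.cons (P.lf 1143713 0 0) (P.cons (P.lf 14996 0 0) P.nil))) (P.cons (P.cons (P.lf 528810 0 0) (P.cons (P.lf 0 1916 0) P.nil)) (P.cons (P.cons (P.lf 41634 0 0) P.nil) P.nil)))))) 69507)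
 (EL.cons 7 (TM.mk (P.cons (P.cons (P.lf 0 779236903 0) (P.cons (P.lf 230638599 0 0) (P.cons (P.lf 0 3426570 0) (P.cons (P.lf 0 3158145 0) (P.cons (P.lf 147062 0 0) (P.cons (P.lf 10671 0 0) P.nil)))))) (P.cons (P.cons (P.lf 0 80678574 0) (P.cons (P.lf 19885298 0 0) (P.cons (P.lf 0 942080 0) (P.cons (P.lf 0 343050 0) (P.cons (P.lf 18605 0 0) P.nil))))) (P.cons (P.cons (P.lf 36937347 0 0) (P.cons (P.lf 0 4480132 0) (P.cons (P.lf 0 151021 0) (P.cons (P.lf 37535 0 0) P.nil)))) (P.cons (P.cons (P.lf 0 604502 0) (P.cons (P.lf 0 266593 0) (P.cons (P.lf 6879 0 0) P.nil))) (P.cons (P.cons (P.lf 0 345937 0) (P.cons (P.lf 39006 0 0) P.nil)) (P.cons (P.cons (P.lf 4151 0 0) P.nil) P.nil)))))) 37759)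
 (EL.cons 10 (TM.mk (P.cons (P.cons (P.lf 0 801149142 0) (P.cons (P.lf 47021268 0 0) (P.cons (P.lf 41934204 0 0) (P.cons (P.lf 0 2241696 0) (P.cons (P.lf 0 392628 0) (P.cons (P.lf 19650 0 0) P.nil)))))) (P.cons (P.cons (P.lf 0 258935814 0) (P.cons (P.lf 0 494166 0) (P.cons (P.lf 10725840 0 0) (P.cons (P.lf 0 436254 0) (P.cons (P.lf 0 89298 0) P.nil))))) (P.cons (P.cons (P.lf 0 6259446 0) (P.cons (P.lf 1199304 0 0) (P.cons (P.lf 477540 0 0) (P.cons (P.lf 0 32790 0) P.nil)))) (P.cons (P.cons (P.lf 1885842 0 0) (P.cons (P.lf 178128 0 0) (P.cons (P.lf 0 46662 0) P.nil))) (P.cons (P.cons (P.lf 97578 0 0) (P.cons (P.lf 252 0 0) P.nil)) (P.cons (P.cons (P.lf 0 4674 0) P.nil) P.nil)))))) 27486)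
 EL.nil))))
noncomputable def S169_183_364_438_9 : EL := (EL.cons 3 (TM.mk (P.cons (P.lf 0 2242802763 0) (P.cons (P.lf 153546101 0 0) (P.cons (P.lf 4791341 0 0) (P.cons (P.lf 0 36671 0) (P.cons (P.lf 0 4687 0) (P.cons (P.lf 0 56 0) P.nil)))))) 59)
 (EL.cons 7 (TM.mk (P.cons (P.lf 0 1680233071 0) (P.cons (P.lf 0 72873196 0) (P.cons (P.lf 1800820 0 0) (P.cons (P.lf 94981 0 0) (P.cons (P.lf 308 0 0) (P.cons (P.lf 0 74 0) P.nil)))))) 48)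
 EL.nil))
noncomputable def S169_183_364_438_10 : EL := (EL.cons 3 (TM.mk (P.cons (P.cons (P.lf 0 543137936 0) (P.cons (P.lf 100028763 0 0) (P.cons (P.lf 5473170 0 0) (P.lf 0 608129 0)))) (P.cons (P.cons (P.lf 0 91248277 0) (P.cons (P.lf 6166867 0 0) (P.cons (P.lf 337424 0 0) (P.lf 0 37490 0)))) (P.cons (P.cons (P.lf 16707314 0 0) (P.cons (P.lf 0 861873 0) (P.cons (P.lf 0 47159 0) (P.lf 5240 0 0)))) (P.cons (P.cons (P.lf 350092 0 0) (P.cons (P.lf 0 79493 0) (P.cons (P.lf 0 4348 0) P.nil))) (P.cons (P.cons (P.lf 0 63330 0) (P.cons (P.lf 629 0 0) P.nil)) (P.cons (P.cons (P.lf 0 2125 0) P.nil) P.nil)))))) 1639)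
 (EL.cons 7 (TM.mk (P.cons (P.cons (P.lf 0 406900837 0) (P.cons (P.lf 74938216 0 0) (P.cons (P.lf 4100317 0 0) (P.lf 0 455590 0)))) (P.cons (P.cons (P.lf 0 113864943 0) (P.cons (P.lf 13000546 0 0) (P.cons (P.lf 711336 0 0) (P.lf 0 79037 0)))) (P.cons (P.cons (P.lf 1323167 0 0) (P.cons (P.lf 524501 0 0) (P.cons (P.lf 28697 0 0) (P.lf 0 3187 0)))) (P.cons (P.cons (P.lf 755387 0 0) (P.cons (P.lf 0 34289 0) (P.cons (P.lf 0 1875 0) P.nil))) (P.cons (P.cons (P.lf 11707 0 0) (P.cons (P.lf 0 3290 0) P.nil)) (P.cons (P.cons (P.lf 0 2002 0) P.nil) P.nil)))))) 1003)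
 EL.nil))
noncomputable def S169_183_364_438_11 : EL := (EL.cons 3 (TM.mk (P.cons (P.cons (P.lf 0 131531324 0) (P.cons (P.lf 48447787 0 0) (P.cons (P.lf 0 1810403 0) (P.cons (P.lf 0 782745 0) (P.cons (P.lf 40888 0 0) (P.cons (P.lf 2967 0 0) P.nil)))))) (P.cons (P.cons (P.lf 0 53199918 0) (P.cons (P.lf 14442996 0 0) (P.cons (P.lf 0 65247 0) (P.cons (P.lf 0 181425 0) (P.cons (P.lf 7840 0 0) P.nil))))) (P.cons (P.cons (P.lf 456416 0 0) (P.cons (P.lf 0 313637 0) (P.cons (P.lf 0 25338 0) (P.cons (P.lf 1012 0 0) P.nil)))) (P.cons (P.cons (P.lf 1448780 0 0) (P.cons (P.lf 0 223147 0) (P.cons (P.lf 0 2692 0) P.nil))) (P.cons (P.cons (P.lf 0 25338 0) (P.cons (P.lf 0 5882 0) P.nil)) (P.cons (P.cons (P.lf 0 9930 0) P.nil) P.nil)))))) 12809)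
 (EL.cons 7 (TM.mk (P.cons (P.cons (P.lf 0 98538883 0) (P.cons (P.lf 36295467 0 0) (P.cons (P.lf 0 1356294 0) (P.cons (P.lf 0 586407 0) (P.cons (P.lf 30632 0 0) (P.cons (P.lf 2223 0 0) P.nil)))))) (P.cons (P.cons (P.lf 0 50875464 0) (P.cons (P.lf 14879228 0 0) (P.cons (P.lf 0 200558 0) (P.cons (P.lf 0 201498 0) (P.cons (P.lf 9299 0 0) P.nil))))) (P.cons (P.cons (P.lf 0 4974561 0) (P.cons (P.lf 1291610 0 0) (P.cons (P.lf 0 36277 0) (P.cons (P.lf 0 19555 0) P.nil)))) (P.cons (P.cons (P.lf 700852 0 0) (P.cons (P.lf 0 71395 0) (P.cons (P.lf 0 5601 0) P.nil))) (P.cons (P.cons (P.lf 68387 0 0) (P.cons (P.lf 0 14472 0) P.nil)) (P.cons (P.cons (P.lf 0 3073 0) P.nil) P.nil)))))) 8091)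
 EL.nil))
noncomputable def S169_183_364_438_12 : EL := (EL.cons 4 (TM.mk (P.cons (P.lf 2242802763 0 0) (P.cons (P.lf 0 153546101 0) (P.cons (P.lf 0 4791341 0) (P.cons (P.lf 36671 0 0) (P.cons (P.lf 4687 0 0) (P.cons (P.lf 56 0 0) P.nil)))))) 59)
 (EL.cons 8 (TM.mk (P.cons (P.lf 1680233071 0 0) (P.cons (P.lf 72873196 0 0) (P.cons (P.lf 0 1800820 0) (P.cons (P.lf 0 94981 0) (P.cons (P.lf 0 308 0) (P.cons (P.lf 74 0 0) P.nil)))))) 48)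
 EL.nil))
noncomputable def S169_183_364_438_13 : EL := (EL.cons 4 (TM.mk (P.cons (P.cons (P.lf 543137936 0 0) (P.cons (P.lf 0 100028763 0) (P.cons (P.lf 0 5473170 0) (P.lf 608129 0 0)))) (P.cons (P.cons (P.lf 91248277 0 0) (P.cons (P.lf 0 6166867 0) (P.cons (P.lf 0 337424 0) (P.lf 37490 0 0)))) (P.cons (P.cons (P.lf 0 16707314 0) (P.cons (P.lf 861873 0 0) (P.cons (P.lf 47159 0 0) (P.lf 0 5240 0)))) (P.cons (P.cons (P.lf 0 350092 0) (P.cons (P.lf 79493 0 0) (P.cons (P.lf 4348 0 0) P.nil))) (P.cons (P.cons (P.lf 63330 0 0) (P.cons (P.lf 0 629 0) P.nil)) (P.cons (P.cons (P.lf 2125 0 0) P.nil) P.nil)))))) 1639)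
 (EL.cons 8 (TM.mk (P.cons (P.cons (P.lf 406900837 0 0) (P.cons (P.lf 0 74938216 0) (P.cons (P.lf 0 4100317 0) (P.lf 455590 0 0)))) (P.cons (P.cons (P.lf 113864943 0 0) (P.cons (P.lf 0 13000546 0) (P.cons (P.lf 0 711336 0) (P.lf 79037 0 0)))) (P.cons (P.cons (P.lf 0 1323167 0) (P.cons (P.lf 0 524501 0) (P.cons (P.lf 0 28697 0) (P.lf 3187 0 0)))) (P.cons (P.cons (P.lf 0 755387 0) (P.cons (P.lf 34289 0 0) (P.cons (P.lf 1875 0 0) P.nil))) (P.cons (P.cons (P.lf 0 11707 0) (P.cons (P.lf 3290 0 0) P.nil)) (P.cons (P.cons (P.lf 2002 0 0) P.nil) P.nil)))))) 1003)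
 EL.nil))
noncomputable def S169_183_364_438_14 : EL := (EL.cons 4 (TM.mk (P.cons (P.cons (P.lf 131531324 0 0) (P.cons (P.lf 0 48447787 0) (P.cons (P.lf 1810403 0 0) (P.cons (P.lf 782745 0 0) (P.cons (P.lf 0 40888 0) (P.cons (P.lf 0 2967 0) P.nil)))))) (P.cons (P.cons (P.lf 53199918 0 0) (P.cons (P.lf 0 14442996 0) (P.cons (P.lf 65247 0 0) (P.cons (P.lf 181425 0 0) (P.cons (P.lf 0 7840 0) P.nil))))) (P.cons (P.cons (P.lf 0 456416 0) (P.cons (P.lf 313637 0 0) (P.cons (P.lf 25338 0 0) (P.cons (P.lf 0 1012 0) P.nil)))) (P.cons (P.cons (P.lf 0 1448780 0) (P.cons (P.lf 223147 0 0) (P.cons (P.lf 2692 0 0) P.nil))) (P.cons (P.cons (P.lf 25338 0 0) (P.cons (P.lf 5882 0 0) P.nil)) (P.cons (P.cons (P.lf 9930 0 0) P.nil) P.nil)))))) 12809)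
 (EL.cons 8 (TM.mk (P.cons (P.cons (P.lf 98538883 0 0) (P.cons (P.lf 0 36295467 0) (P.cons (P.lf 1356294 0 0) (P.cons (P.lf 586407 0 0) (P.cons (P.lf 0 30632 0) (P.cons (P.lf 0 2223 0) P.nil)))))) (P.cons (P.cons (P.lf 50875464 0 0) (P.cons (P.lf 0 14879228 0) (P.cons (P.lf 200558 0 0) (P.cons (P.lf 201498 0 0) (P.cons (P.lf 0 9299 0) P.nil))))) (P.cons (P.cons (P.lf 4974561 0 0) (P.cons (P.lf 0 1291610 0) (P.cons (P.lf 36277 0 0) (P.cons (P.lf 19555 0 0) P.nil)))) (P.cons (P.cons (P.lf 0 700852 0) (P.cons (P.lf 71395 0 0) (P.cons (P.lf 5601 0 0) P.nil))) (P.cons (P.cons (P.lf 0 68387 0) (P.cons (P.lf 14472 0 0) P.nil)) (P.cons (P.cons (P.lf 3073 0 0) P.nil) P.nil)))))) 8091)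
 EL.nil))
noncomputable def S169_183_364_438_15 : EL := (EL.cons 4 (TM.mk (P.cons (P.lf 0 1249254801 0) (P.cons (P.lf 171052227 0 0) (P.cons (P.lf 0 517650 0) (P.cons (P.lf 0 406274 0) (P.cons (P.lf 0 8126 0) (P.cons (P.lf 381 0 0) P.nil)))))) 91)
 (EL.cons 8 (TM.mk (P.cons (P.lf 0 935900056 0) (P.cons (P.lf 23482499 0 0) (P.cons (P.lf 5781364 0 0) (P.cons (P.lf 55645 0 0) (P.cons (P.lf 0 8213 0) (P.cons (P.lf 0 257 0) P.nil)))))) 65)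
 EL.nil))
noncomputable def S169_183_364_438_16 : EL := (EL.cons 4 (TM.mk (P.cons (P.cons (P.lf 0 302531138 0) (P.cons (P.lf 55716630 0 0) (P.cons (P.lf 3048589 0 0) (P.lf 0 338730 0)))) (P.cons (P.cons (P.lf 0 30114048 0) (P.cons (P.lf 0 379471 0) (P.cons (P.lf 0 20763 0) (P.lf 2307 0 0)))) (P.cons (P.cons (P.lf 13432002 0 0) (P.cons (P.lf 0 834261 0) (P.cons (P.lf 0 45647 0) (P.lf 5072 0 0)))) (P.cons (P.cons (P.lf 0 338471 0) (P.cons (P.lf 0 17838 0) (P.cons (P.lf 0 975 0) P.nil))) (P.cons (P.cons (P.lf 0 69969 0) (P.cons (P.lf 4579 0 0) P.nil)) (P.cons (P.cons (P.lf 852 0 0) P.nil) P.nil)))))) 1584)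
 (EL.cons 8 (TM.mk (P.cons (P.cons (P.lf 0 226646245 0) (P.cons (P.lf 41741042 0 0) (P.cons (P.lf 2283901 0 0) (P.lf 0 253766 0)))) (P.cons (P.cons (P.lf 0 47906878 0) (P.cons (P.lf 4383720 0 0) (P.cons (P.lf 239858 0 0) (P.lf 0 26650 0)))) (P.cons (P.cons (P.lf 5563279 0 0) (P.cons (P.lf 0 292778 0) (P.cons (P.lf 0 16020 0) (P.lf 1780 0 0)))) (P.cons (P.cons (P.lf 502085 0 0) (P.cons (P.lf 0 53887 0) (P.cons (P.lf 0 2947 0) P.nil))) (P.cons (P.cons (P.lf 0 25369 0) (P.cons (P.lf 0 943 0) P.nil)) (P.cons (P.cons (P.lf 0 2586 0) P.nil) P.nil)))))) 1128)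
 EL.nil))
noncomputable def S169_183_364_438_17 : EL := (EL.cons 4 (TM.mk (P.cons (P.cons (P.lf 0 73263748 0) (P.cons (P.lf 26985712 0 0) (P.cons (P.lf 0 1008405 0) (P.cons (P.lf 0 435993 0) (P.cons (P.lf 22774 0 0) (P.cons (P.lf 1652 0 0) P.nil)))))) (P.cons (P.cons (P.lf 0 24616917 0) (P.cons (P.lf 6197348 0 0) (P.cons (P.lf 32693 0 0) (P.cons (P.lf 0 71205 0) (P.cons (P.lf 2807 0 0) P.nil))))) (P.cons (P.cons (P.lf 2439445 0 0) (P.cons (P.lf 0 783111 0) (P.cons (P.lf 0 9471 0) (P.cons (P.lf 8413 0 0) P.nil)))) (P.cons (P.cons (P.lf 851681 0 0) (P.cons (P.lf 0 129079 0) (P.cons (P.lf 0 472 0) P.nil))) (P.cons (P.cons (P.lf 0 70541 0) (P.cons (P.lf 5792 0 0) P.nil)) (P.cons (P.cons (P.lf 0 6348 0) P.nil) P.nil)))))) 9661)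
 (EL.cons 8 (TM.mk (P.cons (P.cons (P.lf 0 54886758 0) (P.cons (P.lf 20216796 0 0) (P.cons (P.lf 0 755463 0) (P.cons (P.lf 0 326632 0) (P.cons (P.lf 17062 0 0) (P.cons (P.lf 1238 0 0) P.nil)))))) (P.cons (P.cons (P.lf 0 24580302 0) (P.cons (P.lf 6903744 0 0) (P.cons (P.lf 0 59992 0) (P.cons (P.lf 0 89873 0) (P.cons (P.lf 4011 0 0) P.nil))))) (P.cons (P.cons (P.lf 0 713541 0) (P.cons (P.lf 108847 0 0) (P.cons (P.lf 0 10944 0) (P.cons (P.lf 0 2510 0) P.nil)))) (P.cons (P.cons (P.lf 639718 0 0) (P.cons (P.lf 0 106395 0) (P.cons (P.lf 0 1510 0) P.nil))) (P.cons (P.cons (P.lf 16707 0 0) (P.cons (P.lf 0 6697 0) P.nil)) (P.cons (P.cons (P.lf 0 5259 0) P.nil) P.nil)))))) 6460)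
 EL.nil))
noncomputable def S169_183_364_438_18 : EL := (EL.cons 4 (TM.mk (P.cons (P.lf 695842534 0 0) (P.cons (P.lf 0 142915698 0) (P.cons (P.lf 5324627 0 0) (P.cons (P.lf 421476 0 0) (P.cons (P.lf 0 11685 0) (P.cons (P.lf 0 1182 0) P.nil)))))) 113)
 (EL.cons 8 (TM.mk (P.cons (P.lf 521302032 0 0) (P.cons (P.lf 0 48769121 0) (P.cons (P.lf 0 3438450 0) (P.cons (P.lf 225935 0 0) (P.cons (P.lf 14451 0 0) (P.cons (P.lf 0 170 0) P.nil)))))) 84)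
 EL.nil))
noncomputable def S169_183_364_438_19 : EL := (EL.cons 4 (TM.mk (P.cons (P.cons (P.lf 168511686 0 0) (P.cons (P.lf 0 31034502 0) (P.cons (P.lf 0 1698082 0) (P.lf 188675 0 0)))) (P.cons (P.cons (P.lf 5237111 0 0) (P.cons (P.lf 2336042 0 0) (P.cons (P.lf 127818 0 0) (P.lf 0 14202 0)))) (P.cons (P.cons (P.lf 0 8990058 0) (P.cons (P.lf 516517 0 0) (P.cons (P.lf 28261 0 0) (P.lf 0 3140 0)))) (P.cons (P.cons (P.lf 667662 0 0) (P.cons (P.lf 0 22834 0) (P.cons (P.lf 0 1249 0) P.nil))) (P.cons (P.cons (P.lf 42675 0 0) (P.cons (P.lf 0 4285 0) P.nil)) (P.cons (P.cons (P.lf 0 3628 0) P.nil) P.nil)))))) 1794)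
 (EL.cons 8 (TM.mk (P.cons (P.cons (P.lf 126243338 0 0) (P.cons (P.lf 0 23250015 0) (P.cons (P.lf 0 1272147 0) (P.lf 141349 0 0)))) (P.cons (P.cons (P.lf 18041588 0 0) (P.cons (P.lf 0 850023 0) (P.cons (P.lf 0 46509 0) (P.lf 5167 0 0)))) (P.cons (P.cons (P.lf 0 5195337 0) (P.cons (P.lf 379915 0 0) (P.cons (P.lf 20787 0 0) (P.lf 0 2310 0)))) (P.cons (P.cons (P.lf 0 122459 0) (P.cons (P.lf 23687 0 0) (P.cons (P.lf 1295 0 0) P.nil))) (P.cons (P.cons (P.lf 40597 0 0) (P.cons (P.lf 0 1966 0) P.nil)) (P.cons (P.cons (P.lf 1079 0 0) P.nil) P.nil)))))) 1022)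
 EL.nil))
noncomputable def S169_183_364_438_20 : EL := (EL.cons 4 (TM.mk (P.cons (P.cons (P.lf 40808354 0 0) (P.cons (P.lf 0 15031205 0) (P.cons (P.lf 561688 0 0) (P.cons (P.lf 242850 0 0) (P.cons (P.lf 0 12685 0) (P.cons (P.lf 0 920 0) P.nil)))))) (P.cons (P.cons (P.lf 10917962 0 0) (P.cons (P.lf 0 2422898 0) (P.cons (P.lf 0 56664 0) (P.cons (P.lf 23036 0 0) (P.cons (P.lf 0 695 0) P.nil))))) (P.cons (P.cons (P.lf 0 2384696 0) (P.cons (P.lf 704636 0 0) (P.cons (P.lf 5322 0 0) (P.cons (P.lf 0 7920 0) P.nil)))) (P.cons (P.cons (P.lf 0 409992 0) (P.cons (P.lf 49163 0 0) (P.cons (P.lf 0 49 0) P.nil))) (P.cons (P.cons (P.lf 74982 0 0) (P.cons (P.lf 0 9168 0) P.nil)) (P.cons (P.cons (P.lf 1866 0 0) P.nil) P.nil)))))) 8351)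
 (EL.cons 8 (TM.mk (P.cons (P.cons (P.lf 30572258 0 0) (P.cons (P.lf 0 11260878 0) (P.cons (P.lf 420797 0 0) (P.cons (P.lf 181936 0 0) (P.cons (P.lf 0 9503 0) (P.cons (P.lf 0 689 0) P.nil)))))) (P.cons (P.cons (P.lf 11598349 0 0) (P.cons (P.lf 0 3074488 0) (P.cons (P.lf 4607 0 0) (P.cons (P.lf 37604 0 0) (P.cons (P.lf 0 1583 0) P.nil))))) (P.cons (P.cons (P.lf 0 605200 0) (P.cons (P.lf 226692 0 0) (P.cons (P.lf 2909 0 0) (P.cons (P.lf 0 2417 0) P.nil)))) (P.cons (P.cons (P.lf 0 412285 0) (P.cons (P.lf 71444 0 0) (P.cons (P.lf 359 0 0) P.nil))) (P.cons (P.cons (P.lf 14526 0 0) (P.cons (P.lf 0 283 0) P.nil)) (P.cons (P.cons (P.lf 4363 0 0) P.nil) P.nil)))))) 4892)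
 EL.nil))
noncomputable def S169_183_364_438_21 : EL := (EL.cons 4 (TM.mk (P.cons (P.cons (P.lf 0 2961259113 0) (P.cons (P.lf 300086289 0 0) (P.cons (P.lf 16419510 0 0) (P.lf 0 1824387 0)))) (P.cons (P.cons (P.lf 239411847 0 0) (P.cons (P.lf 18500601 0 0) (P.cons (P.lf 1012272 0 0) (P.lf 0 112470 0)))) (P.cons (P.cons (P.lf 48568992 0 0) (P.cons (P.lf 0 2585619 0) (P.cons (P.lf 0 141477 0) (P.lf 15720 0 0)))) (P.cons (P.cons (P.lf 0 168543 0) (P.cons (P.lf 0 238479 0) (P.cons (P.lf 0 13044 0) P.nil))) (P.cons (P.cons (P.lf 0 214371 0) (P.cons (P.lf 1887 0 0) P.nil)) (P.cons (P.cons (P.lf 0 5229 0) P.nil) P.nil)))))) 5223)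
 (EL.cons 8 (TM.mk (P.cons (P.cons (P.lf 1405417761 0 0) (P.cons (P.lf 0 142421385 0) (P.cons (P.lf 0 7792728 0) (P.lf 865860 0 0)))) (P.cons (P.cons (P.lf 0 270796698 0) (P.cons (P.lf 7146936 0 0) (P.cons (P.lf 391047 0 0) (P.lf 0 43449 0)))) (P.cons (P.cons (P.lf 0 5023389 0) (P.cons (P.lf 1669902 0 0) (P.cons (P.lf 91365 0 0) (P.lf 0 10146 0)))) (P.cons (P.cons (P.lf 1930878 0 0) (P.cons (P.lf 0 27210 0) (P.cons (P.lf 0 1488 0) P.nil))) (P.cons (P.cons (P.lf 42402 0 0) (P.cons (P.lf 0 8358 0) P.nil)) (P.cons (P.cons (P.lf 0 5385 0) P.nil) P.nil)))))) 3981)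
 (EL.cons 11 (TM.mk (P.cons (P.cons (P.lf 1654109751 0 0) (P.cons (P.lf 207551025 0 0) (P.cons (P.lf 0 31687671 0) (P.cons (P.lf 0 968052 0) (P.lf 80670 0 0))))) (P.cons (P.cons (P.lf 143480406 0 0) (P.cons (P.lf 18003342 0 0) (P.cons (P.lf 0 2748642 0) (P.cons (P.lf 0 83970 0) (P.lf 6996 0 0))))) (P.cons (P.cons (P.lf 0 434205 0) (P.cons (P.lf 0 54480 0) (P.cons (P.lf 8316 0 0) (P.cons (P.lf 252 0 0) P.nil)))) (P.cons (P.cons (P.lf 0 340785 0) (P.cons (P.lf 0 42759 0) (P.cons (P.lf 6528 0 0) P.nil))) (P.cons (P.cons (P.lf 0 6816 0) (P.cons (P.lf 0 855 0) P.nil)) (P.cons (P.cons (P.lf 318 0 0) P.nil) P.nil)))))) 669)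
 EL.nil)))
noncomputable def S169_183_364_438_22 : EL := (EL.cons 4 (TM.mk (P.cons (P.cons (P.lf 0 717125994 0) (P.cons (P.lf 204743520 0 0) (P.cons (P.lf 0 2181075 0) (P.cons (P.lf 0 2709363 0) (P.cons (P.lf 122664 0 0) (P.cons (P.lf 8904 0 0) P.nil)))))) (P.cons (P.cons (P.lf 0 111596097 0) (P.cons (P.lf 28170969 0 0) (P.cons (P.lf 0 1025130 0) (P.cons (P.lf 0 452124 0) (P.cons (P.lf 23520 0 0) P.nil))))) (P.cons (P.cons (P.lf 34389615 0 0) (P.cons (P.lf 0 3705294 0) (P.cons (P.lf 0 227274 0) (P.cons (P.lf 19842 0 0) P.nil)))) (P.cons (P.cons (P.lf 2741691 0 0) (P.cons (P.lf 0 683430 0) (P.cons (P.lf 0 8844 0) P.nil))) (P.cons (P.cons (P.lf 0 277074 0) (P.cons (P.lf 0 1983 0) P.nil)) (P.cons (P.cons (P.lf 0 25782 0) P.nil) P.nil)))))) 28338)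
 (EL.cons 8 (TM.mk (P.cons (P.cons (P.lf 340349010 0 0) (P.cons (P.lf 0 97171566 0) (P.cons (P.lf 1035138 0 0) (P.cons (P.lf 1285869 0 0) (P.cons (P.lf 0 58215 0) (P.cons (P.lf 0 4224 0) P.nil)))))) (P.cons (P.cons (P.lf 14901555 0 0) (P.cons (P.lf 0 2503035 0) (P.cons (P.lf 370761 0 0) (P.cons (P.lf 70776 0 0) (P.cons (P.lf 0 4653 0) P.nil))))) (P.cons (P.cons (P.lf 0 20955954 0) (P.cons (P.lf 2885871 0 0) (P.cons (P.lf 57372 0 0) (P.cons (P.lf 0 28545 0) P.nil)))) (P.cons (P.cons (P.lf 652677 0 0) (P.cons (P.lf 97599 0 0) (P.cons (P.lf 0 6240 0) P.nil))) (P.cons (P.cons (P.lf 207162 0 0) (P.cons (P.lf 0 26739 0) P.nil)) (P.cons (P.cons (P.lf 0 3612 0) P.nil) P.nil)))))) 14823)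
 (EL.cons 11 (TM.mk (P.cons (P.cons (P.lf 400574571 0 0) (P.cons (P.lf 0 23510634 0) (P.cons (P.lf 0 20967102 0) (P.cons (P.lf 1120848 0 0) (P.cons (P.lf 196314 0 0) (P.cons (P.lf 0 9825 0) P.nil)))))) (P.cons (P.cons (P.lf 129467907 0 0) (P.cons (P.lf 247083 0 0) (P.cons (P.lf 0 5362920 0) (P.cons (P.lf 218127 0 0) (P.cons (P.lf 44649 0 0) P.nil))))) (P.cons (P.cons (P.lf 3129723 0 0) (P.cons (P.lf 0 599652 0) (P.cons (P.lf 0 238770 0) (P.cons (P.lf 16395 0 0) P.nil)))) (P.cons (P.cons (P.lf 0 942921 0) (P.cons (P.lf 0 89064 0) (P.cons (P.lf 23331 0 0) P.nil))) (P.cons (P.cons (P.lf 0 48789 0) (P.cons (P.lf 0 126 0) P.nil)) (P.cons (P.cons (P.lf 2337 0 0) P.nil) P.nil)))))) 13743)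
 EL.nil)))
noncomputable def S169_183_364_438_23 : EL := (EL.cons 4 (TM.mk (P.cons (P.cons (P.lf 1649439363 0 0) (P.cons (P.lf 0 167149890 0) (P.cons (P.lf 0 9145767 0) (P.lf 1016193 0 0)))) (P.cons (P.cons (P.lf 0 246277287 0) (P.cons (P.lf 1138419 0 0) (P.cons (P.lf 62292 0 0) (P.lf 0 6921 0)))) (P.cons (P.cons (P.lf 0 21447318 0) (P.cons (P.lf 2502783 0 0) (P.cons (P.lf 136941 0 0) (P.lf 0 15213 0)))) (P.cons (P.cons (P.lf 2257845 0 0) (P.cons (P.lf 53514 0 0) (P.cons (P.lf 2925 0 0) P.nil))) (P.cons (P.cons (P.lf 172038 0 0) (P.cons (P.lf 0 13737 0) P.nil)) (P.cons (P.cons (P.lf 0 6141 0) P.nil) P.nil)))))) 5640)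
 (EL.cons 8 (TM.mk (P.cons (P.cons (P.lf 0 782826252 0) (P.cons (P.lf 79329579 0 0) (P.cons (P.lf 4340595 0 0) (P.lf 0 482289 0)))) (P.cons (P.cons (P.lf 204429030 0 0) (P.cons (P.lf 0 9411924 0) (P.cons (P.lf 0 514980 0) (P.lf 57219 0 0)))) (P.cons (P.cons (P.lf 0 5856024 0) (P.cons (P.lf 0 827079 0) (P.cons (P.lf 0 45249 0) (P.lf 5022 0 0)))) (P.cons (P.cons (P.lf 0 1602102 0) (P.cons (P.lf 88635 0 0) (P.cons (P.lf 4848 0 0) P.nil))) (P.cons (P.cons (P.lf 44865 0 0) (P.cons (P.lf 5703 0 0) P.nil)) (P.cons (P.cons (P.lf 7254 0 0) P.nil) P.nil)))))) 3777)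
 (EL.cons 11 (TM.mk (P.cons (P.cons (P.lf 0 921349206 0) (P.cons (P.lf 0 115607184 0) (P.cons (P.lf 17650224 0 0) (P.cons (P.lf 539208 0 0) (P.lf 0 44931 0))))) (P.cons (P.cons (P.lf 0 16842321 0) (P.cons (P.lf 0 2113305 0) (P.cons (P.lf 322644 0 0) (P.cons (P.lf 9855 0 0) (P.lf 0 819 0))))) (P.cons (P.cons (P.lf 7681572 0 0) (P.cons (P.lf 963849 0 0) (P.cons (P.lf 0 147153 0) (P.cons (P.lf 0 4494 0) P.nil)))) (P.cons (P.cons (P.lf 328929 0 0) (P.cons (P.lf 41271 0 0) (P.cons (P.lf 0 6300 0) P.nil))) (P.cons (P.cons (P.lf 0 12945 0) (P.cons (P.lf 0 1623 0) P.nil)) (P.cons (P.cons (P.lf 0 1026 0) P.nil) P.nil)))))) 1449)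
 EL.nil)))
noncomputable def S169_183_364_438_24 : EL := (EL.cons 4 (TM.mk (P.cons (P.cons (P.lf 399443547 0 0) (P.cons (P.lf 0 114043386 0) (P.cons (P.lf 1214871 0 0) (P.cons (P.lf 1509132 0 0) (P.cons (P.lf 0 68325 0) (P.cons (P.lf 0 4959 0) P.nil)))))) (P.cons (P.cons (P.lf 34813119 0 0) (P.cons (P.lf 0 7883796 0) (P.cons (P.lf 487830 0 0) (P.cons (P.lf 148515 0 0) (P.cons (P.lf 0 8424 0) P.nil))))) (P.cons (P.cons (P.lf 0 24264123 0) (P.cons (P.lf 3381765 0 0) (P.cons (P.lf 84906 0 0) (P.cons (P.lf 0 31518 0) P.nil)))) (P.cons (P.cons (P.lf 0 342000 0) (P.cons (P.lf 271032 0 0) (P.cons (P.lf 0 4938 0) P.nil))) (P.cons (P.cons (P.lf 301653 0 0) (P.cons (P.lf 0 29856 0) P.nil)) (P.cons (P.cons (P.lf 6882 0 0) P.nil) P.nil)))))) 19833)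
 (EL.cons 8 (TM.mk (P.cons (P.cons (P.lf 0 189576471 0) (P.cons (P.lf 54125154 0 0) (P.cons (P.lf 0 576579 0) (P.cons (P.lf 0 716235 0) (P.cons (P.lf 32427 0 0) (P.cons (P.lf 2352 0 0) P.nil)))))) (P.cons (P.cons (P.lf 4678470 0 0) (P.cons (P.lf 0 2311293 0) (P.cons (P.lf 0 167043 0) (P.cons (P.lf 9609 0 0) (P.cons (P.lf 369 0 0) P.nil))))) (P.cons (P.cons (P.lf 12645840 0 0) (P.cons (P.lf 0 1818525 0) (P.cons (P.lf 0 16584 0) (P.cons (P.lf 20127 0 0) P.nil)))) (P.cons (P.cons (P.lf 0 1148037 0) (P.cons (P.lf 53589 0 0) (P.cons (P.lf 6096 0 0) P.nil))) (P.cons (P.cons (P.lf 0 115968 0) (P.cons (P.lf 22185 0 0) P.nil)) (P.cons (P.cons (P.lf 10857 0 0) P.nil) P.nil)))))) 9870)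
 (EL.cons 11 (TM.mk (P.cons (P.cons (P.lf 0 223122474 0) (P.cons (P.lf 13095567 0 0) (P.cons (P.lf 11678802 0 0) (P.cons (P.lf 0 624318 0) (P.cons (P.lf 0 109347 0) (P.cons (P.lf 5472 0 0) P.nil)))))) (P.cons (P.cons (P.lf 0 56839068 0) (P.cons (P.lf 0 1034172 0) (P.cons (P.lf 2187627 0 0) (P.cons (P.lf 0 78756 0) (P.cons (P.lf 0 17382 0) P.nil))))) (P.cons (P.cons (P.lf 3670458 0 0) (P.cons (P.lf 315456 0 0) (P.cons (P.lf 0 96459 0) (P.cons (P.lf 516 0 0) P.nil)))) (P.cons (P.cons (P.lf 794970 0 0) (P.cons (P.lf 27249 0 0) (P.cons (P.lf 0 28290 0) P.nil))) (P.cons (P.cons (P.lf 0 6699 0) (P.cons (P.lf 0 4011 0) P.nil)) (P.cons (P.cons (P.lf 0 4470 0) P.nil) P.nil)))))) 10053)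
 EL.nil)))
noncomputable def S169_183_364_438_25 : EL := (EL.cons 4 (TM.mk (P.cons (P.cons (P.lf 0 918747774 0) (P.cons (P.lf 93103506 0 0) (P.cons (P.lf 5094246 0 0) (P.lf 0 566025 0)))) (P.cons (P.cons (P.lf 200076987 0 0) (P.cons (P.lf 0 7008129 0) (P.cons (P.lf 0 383457 0) (P.lf 42606 0 0)))) (P.cons (P.cons (P.lf 4517589 0 0) (P.cons (P.lf 0 1549551 0) (P.cons (P.lf 0 84783 0) (P.lf 9420 0 0)))) (P.cons (P.cons (P.lf 0 2383572 0) (P.cons (P.lf 68505 0 0) (P.cons (P.lf 3750 0 0) P.nil))) (P.cons (P.cons (P.lf 0 34923 0) (P.cons (P.lf 12855 0 0) P.nil)) (P.cons (P.cons (P.lf 13125 0 0) P.nil) P.nil)))))) 4473)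
 (EL.cons 8 (TM.mk (P.cons (P.cons (P.lf 436038990 0 0) (P.cons (P.lf 0 44187057 0) (P.cons (P.lf 0 2417736 0) (P.lf 268638 0 0)))) (P.cons (P.cons (P.lf 0 143720187 0) (P.cons (P.lf 8267619 0 0) (P.cons (P.lf 452367 0 0) (P.lf 0 50262 0)))) (P.cons (P.cons (P.lf 10125933 0 0) (P.cons (P.lf 196176 0 0) (P.cons (P.lf 10731 0 0) (P.lf 0 1188 0)))) (P.cons (P.cons (P.lf 919458 0 0) (P.cons (P.lf 0 92832 0) (P.cons (P.lf 0 5076 0) P.nil))) (P.cons (P.cons (P.lf 0 94002 0) (P.cons (P.lf 0 786 0) P.nil)) (P.cons (P.cons (P.lf 0 4410 0) P.nil) P.nil)))))) 3213)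
 (EL.cons 11 (TM.mk (P.cons (P.cons (P.lf 513197121 0 0) (P.cons (P.lf 64393905 0 0) (P.cons (P.lf 0 9831282 0) (P.cons (P.lf 0 300342 0) (P.lf 25026 0 0))))) (P.cons (P.cons (P.lf 0 25753071 0) (P.cons (P.lf 0 3231390 0) (P.cons (P.lf 493350 0 0) (P.cons (P.lf 15069 0 0) (P.lf 0 1254 0))))) (P.cons (P.cons (P.lf 0 6017292 0) (P.cons (P.lf 0 755022 0) (P.cons (P.lf 115272 0 0) (P.cons (P.lf 3519 0 0) P.nil)))) (P.cons (P.cons (P.lf 98058 0 0) (P.cons (P.lf 12303 0 0) (P.cons (P.lf 0 1878 0) P.nil))) (P.cons (P.cons (P.lf 30120 0 0) (P.cons (P.lf 3777 0 0) P.nil)) (P.cons (P.cons (P.lf 432 0 0) P.nil) P.nil)))))) 1593)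
 EL.nil)))
noncomputable def S169_183_364_438_26 : EL := (EL.cons 4 (TM.mk (P.cons (P.cons (P.lf 0 222492486 0) (P.cons (P.lf 63522861 0 0) (P.cons (P.lf 0 676689 0) (P.cons (P.lf 0 840594 0) (P.cons (P.lf 38055 0 0) (P.cons (P.lf 2760 0 0) P.nil)))))) (P.cons (P.cons (P.lf 0 4158903 0) (P.cons (P.lf 42438 0 0) (P.cons (P.lf 0 225396 0) (P.cons (P.lf 0 25176 0) (P.cons (P.lf 2085 0 0) P.nil))))) (P.cons (P.cons (P.lf 15318126 0 0) (P.cons (P.lf 0 2320005 0) (P.cons (P.lf 0 27243 0) (P.cons (P.lf 25014 0 0) P.nil)))) (P.cons (P.cons (P.lf 0 696990 0) (P.cons (P.lf 0 30351 0) (P.cons (P.lf 6558 0 0) P.nil))) (P.cons (P.cons (P.lf 0 210720 0) (P.cons (P.lf 31194 0 0) P.nil)) (P.cons (P.cons (P.lf 7434 0 0) P.nil) P.nil)))))) 13095)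
 (EL.cons 8 (TM.mk (P.cons (P.cons (P.lf 105595248 0 0) (P.cons (P.lf 0 30148038 0) (P.cons (P.lf 321156 0 0) (P.cons (P.lf 398946 0 0) (P.cons (P.lf 0 18060 0) (P.cons (P.lf 0 1311 0) P.nil)))))) (P.cons (P.cons (P.lf 0 9835167 0) (P.cons (P.lf 3351390 0 0) (P.cons (P.lf 71055 0 0) (P.cons (P.lf 0 32664 0) (P.cons (P.lf 1029 0 0) P.nil))))) (P.cons (P.cons (P.lf 0 7090986 0) (P.cons (P.lf 989196 0 0) (P.cons (P.lf 2181 0 0) (P.cons (P.lf 0 11697 0) P.nil)))) (P.cons (P.cons (P.lf 1128987 0 0) (P.cons (P.lf 0 102438 0) (P.cons (P.lf 0 4221 0) P.nil))) (P.cons (P.cons (P.lf 36042 0 0) (P.cons (P.lf 0 12519 0) P.nil)) (P.cons (P.cons (P.lf 0 11952 0) P.nil) P.nil)))))) 6717)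
 (EL.cons 11 (TM.mk (P.cons (P.cons (P.lf 124280577 0 0) (P.cons (P.lf 0 7294308 0) (P.cons (P.lf 0 6505164 0) (P.cons (P.lf 347748 0 0) (P.cons (P.lf 60906 0 0) (P.cons (P.lf 0 3048 0) P.nil)))))) (P.cons (P.cons (P.lf 23151246 0 0) (P.cons (P.lf 1075419 0 0) (P.cons (P.lf 0 773166 0) (P.cons (P.lf 20058 0 0) (P.cons (P.lf 5511 0 0) P.nil))))) (P.cons (P.cons (P.lf 0 4477446 0) (P.cons (P.lf 0 199563 0) (P.cons (P.lf 151047 0 0) (P.cons (P.lf 0 4032 0) P.nil)))) (P.cons (P.cons (P.lf 0 368439 0) (P.cons (P.lf 0 4497 0) (P.cons (P.lf 14577 0 0) P.nil))) (P.cons (P.cons (P.lf 39192 0 0) (P.cons (P.lf 3642 0 0) P.nil)) (P.cons (P.cons (P.lf 3216 0 0) P.nil) P.nil)))))) 6894)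
 EL.nil)))
noncomputable def S169_183_364_438_27 : EL := (EL.cons 13 (TM.mk (P.lf 0 4294967296 0) 0)
 EL.nil)
noncomputable def S169_183_364_438_28 : EL := (EL.cons 13 (TM.mk (P.cons (P.cons (P.lf 0 1040109149 0) (P.cons (P.lf 191555084 0 0) (P.cons (P.lf 10481124 0 0) (P.lf 0 1164568 0)))) (P.cons (P.cons (P.lf 0 245948099 0) (P.cons (P.lf 24923740 0 0) (P.cons (P.lf 1363724 0 0) (P.lf 0 151524 0)))) (P.cons (P.cons (P.lf 12934477 0 0) (P.cons (P.lf 465056 0 0) (P.cons (P.lf 25444 0 0) (P.lf 0 2824 0)))) (P.cons (P.cons (P.lf 1047528 0 0) (P.cons (P.lf 0 70280 0) (P.cons (P.lf 0 3844 0) P.nil))) (P.cons (P.cons (P.lf 0 15736 0) (P.cons (P.lf 0 3420 0) P.nil)) (P.cons (P.cons (P.lf 0 2582 0) P.nil) P.nil)))))) 1295)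
 EL.nil)
noncomputable def S169_183_364_438_29 : EL := (EL.cons 13 (TM.mk (P.cons (P.cons (P.lf 0 251882486 0) (P.cons (P.lf 92777514 0 0) (P.cons (P.lf 0 3466923 0) (P.cons (P.lf 0 1498959 0) (P.cons (P.lf 78301 0 0) (P.cons (P.lf 5683 0 0) P.nil)))))) (P.cons (P.cons (P.lf 0 119122149 0) (P.cons (P.lf 34010046 0 0) (P.cons (P.lf 0 362300 0) (P.cons (P.lf 0 450053 0) (P.cons (P.lf 20376 0 0) P.nil))))) (P.cons (P.cons (P.lf 0 7819368 0) (P.cons (P.lf 1925970 0 0) (P.cons (P.lf 0 80735 0) (P.cons (P.lf 0 32074 0) P.nil)))) (P.cons (P.cons (P.lf 1988724 0 0) (P.cons (P.lf 0 224334 0) (P.cons (P.lf 0 11402 0) P.nil))) (P.cons (P.cons (P.lf 73397 0 0) (P.cons (P.lf 0 23260 0) P.nil)) (P.cons (P.cons (P.lf 0 9362 0) P.nil) P.nil)))))) 14069)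
 EL.nil)
noncomputable def S169_183_364_438_30 : EL := (EL.cons 13 (TM.mk (P.cons (P.lf 2392322948 0 0) (P.cons (P.lf 0 163782508 0) (P.cons (P.lf 0 5110764 0) (P.cons (P.lf 39116 0 0) (P.cons (P.lf 5000 0 0) (P.cons (P.lf 60 0 0) P.nil)))))) 56)
 EL.nil)
noncomputable def S169_183_364_438_31 : EL := (EL.cons 13 (TM.mk (P.cons (P.cons (P.lf 579347132 0 0) (P.cons (P.lf 0 106697348 0) (P.cons (P.lf 0 5838049 0) (P.lf 648671 0 0)))) (P.cons (P.cons (P.lf 97331496 0 0) (P.cons (P.lf 0 6577992 0) (P.cons (P.lf 0 359919 0) (P.lf 39990 0 0)))) (P.cons (P.cons (P.lf 0 17821135 0) (P.cons (P.lf 919332 0 0) (P.cons (P.lf 50303 0 0) (P.lf 0 5590 0)))) (P.cons (P.cons (P.lf 0 373432 0) (P.cons (P.lf 84793 0 0) (P.cons (P.lf 4638 0 0) P.nil))) (P.cons (P.cons (P.lf 67553 0 0) (P.cons (P.lf 0 671 0) P.nil)) (P.cons (P.cons (P.lf 2267 0 0) P.nil) P.nil)))))) 1729)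
 EL.nil)
noncomputable def S169_183_364_438_32 : EL := (EL.cons 13 (TM.mk (P.cons (P.cons (P.lf 140300079 0 0) (P.cons (P.lf 0 51677640 0) (P.cons (P.lf 1931097 0 0) (P.cons (P.lf 834929 0 0) (P.cons (P.lf 0 43614 0) (P.cons (P.lf 0 3165 0) P.nil)))))) (P.cons (P.cons (P.lf 56746580 0 0) (P.cons (P.lf 0 15405863 0) (P.cons (P.lf 69597 0 0) (P.cons (P.lf 193521 0 0) (P.cons (P.lf 0 8363 0) P.nil))))) (P.cons (P.cons (P.lf 0 486844 0) (P.cons (P.lf 334547 0 0) (P.cons (P.lf 27028 0 0) (P.cons (P.lf 0 1080 0) P.nil)))) (P.cons (P.cons (P.lf 0 1545366 0) (P.cons (P.lf 238024 0 0) (P.cons (P.lf 2872 0 0) P.nil))) (P.cons (P.cons (P.lf 27028 0 0) (P.cons (P.lf 6275 0 0) P.nil)) (P.cons (P.cons (P.lf 10593 0 0) P.nil) P.nil)))))) 13640)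
 EL.nil)
noncomputable def S169_183_364_438_33 : EL := (EL.cons 14 (TM.mk (P.lf 8589934592 0 0) 0)
 EL.nil)
noncomputable def S169_183_364_438_34 : EL := (EL.cons 14 (TM.mk (P.cons (P.cons (P.lf 2080218298 0 0) (P.cons (P.lf 0 383110168 0) (P.cons (P.lf 0 20962248 0) (P.lf 2329136 0 0)))) (P.cons (P.cons (P.lf 491896198 0 0) (P.cons (P.lf 0 49847480 0) (P.cons (P.lf 0 2727448 0) (P.lf 303048 0 0)))) (P.cons (P.cons (P.lf 0 25868954 0) (P.cons (P.lf 0 930112 0) (P.cons (P.lf 0 50888 0) (P.lf 5648 0 0)))) (P.cons (P.cons (P.lf 0 2095056 0) (P.cons (P.lf 140560 0 0) (P.cons (P.lf 7688 0 0) P.nil))) (P.cons (P.cons (P.lf 31472 0 0) (P.cons (P.lf 6840 0 0) P.nil)) (P.cons (P.cons (P.lf 5164 0 0) P.nil) P.nil)))))) 2590)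
 EL.nil)
noncomputable def S169_183_364_438_35 : EL := (EL.cons 14 (TM.mk (P.cons (P.cons (P.lf 503764972 0 0) (P.cons (P.lf 0 185555028 0) (P.cons (P.lf 6933846 0 0) (P.cons (P.lf 2997918 0 0) (P.cons (P.lf 0 156602 0) (P.cons (P.lf 0 11366 0) P.nil)))))) (P.cons (P.cons (P.lf 238244298 0 0) (P.cons (P.lf 0 68020092 0) (P.cons (P.lf 724600 0 0) (P.cons (P.lf 900106 0 0) (P.cons (P.lf 0 40752 0) P.nil))))) (P.cons (P.cons (P.lf 15638736 0 0) (P.cons (P.lf 0 3851940 0) (P.cons (P.lf 161470 0 0) (P.cons (P.lf 64148 0 0) P.nil)))) (P.cons (P.cons (P.lf 0 3977448 0) (P.cons (P.lf 448668 0 0) (P.cons (P.lf 22804 0 0) P.nil))) (P.cons (P.cons (P.lf 0 146794 0) (P.cons (P.lf 46520 0 0) P.nil)) (P.cons (P.cons (P.lf 18724 0 0) P.nil) P.nil)))))) 28138)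
 EL.nil)
noncomputable def S169_183_364_438_36 : EL := (EL.cons 14 (TM.mk (P.cons (P.lf 0 4784645896 0) (P.cons (P.lf 327565016 0 0) (P.cons (P.lf 10221528 0 0) (P.cons (P.lf 0 78232 0) (P.cons (P.lf 0 10000 0) (P.cons (P.lf 0 120 0) P.nil)))))) 112)
 EL.nil)
noncomputable def S169_183_364_438_37 : EL := (EL.cons 14 (TM.mk (P.cons (P.cons (P.lf 0 1158694264 0) (P.cons (P.lf 213394696 0 0) (P.cons (P.lf 11676098 0 0) (P.lf 0 1297342 0)))) (P.cons (P.cons (P.lf 0 194662992 0) (P.cons (P.lf 13155984 0 0) (P.cons (P.lf 719838 0 0) (P.lf 0 79980 0)))) (P.cons (P.cons (P.lf 35642270 0 0) (P.cons (P.lf 0 1838664 0) (P.cons (P.lf 0 100606 0) (P.lf 11180 0 0)))) (P.cons (P.cons (P.lf 746864 0 0) (P.cons (P.lf 0 169586 0) (P.cons (P.lf 0 9276 0) P.nil))) (P.cons (P.cons (P.lf 0 135106 0) (P.cons (P.lf 1342 0 0) P.nil)) (P.cons (P.cons (P.lf 0 4534 0) P.nil) P.nil))))))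 3458)
 EL.nil)
noncomputable def S169_183_364_438_38 : EL := (EL.cons 14 (TM.mk (P.cons (P.cons (P.lf 0 280600158 0) (P.cons (P.lf 103355280 0 0) (P.cons (P.lf 0 3862194 0) (P.cons (P.lf 0 1669858 0) (P.cons (P.lf 87228 0 0) (P.cons (P.lf 6330 0 0) P.nil)))))) (P.cons (P.cons (P.lf 0 113493160 0) (P.cons (P.lf 30811726 0 0) (P.cons (P.lf 0 139194 0) (P.cons (P.lf 0 387042 0) (P.cons (P.lf 16726 0 0) P.nil))))) (P.cons (P.cons (P.lf 973688 0 0) (P.cons (P.lf 0 669094 0) (P.cons (P.lf 0 54056 0) (P.cons (P.lf 2160 0 0) P.nil)))) (P.cons (P.cons (P.lf 3090732 0 0) (P.cons (P.lf 0 476048 0) (P.cons (P.lf 0 5744 0) P.nil))) (P.cons (P.cons (P.lf 0 54056 0) (P.cons (P.lf 0 12550 0) P.nil)) (P.cons (P.cons (P.lf 0 21186 0) P.nil) P.nil)))))) 27280)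
 EL.nil)
noncomputable def S169_183_364_438_39 : EL := (EL.cons 14 (TM.mk (P.cons (P.lf 2665076910 0 0) (P.cons (P.lf 0 364911418 0) (P.cons (P.lf 1104322 0 0) (P.cons (P.lf 866718 0 0) (P.cons (P.lf 17336 0 0) (P.cons (P.lf 0 814 0) P.nil)))))) 180)
 EL.nil)
noncomputable def S169_183_364_438_40 : EL := (EL.cons 14 (TM.mk (P.cons (P.cons (P.lf 645399762 0 0) (P.cons (P.lf 0 118862146 0) (P.cons (P.lf 0 6503658 0) (P.lf 722626 0 0)))) (P.cons (P.cons (P.lf 64243304 0 0) (P.cons (P.lf 809540 0 0) (P.cons (P.lf 44296 0 0) (P.lf 0 4922 0)))) (P.cons (P.cons (P.lf 0 28654938 0) (P.cons (P.lf 1779758 0 0) (P.cons (P.lf 97382 0 0) (P.lf 0 10822 0)))) (P.cons (P.cons (P.lf 722072 0 0) (P.cons (P.lf 38056 0 0) (P.cons (P.lf 2080 0 0) P.nil))) (P.cons (P.cons (P.lf 149268 0 0) (P.cons (P.lf 0 9770 0) P.nil)) (P.cons (P.cons (P.lf 0 1818 0) P.nil) P.nil)))))) 3340)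
 EL.nil)
noncomputable def S169_183_364_438_41 : EL := (EL.cons 14 (TM.mk (P.cons (P.cons (P.lf 156295996 0 0) (P.cons (P.lf 0 57569520 0) (P.cons (P.lf 2151264 0 0) (P.cons (P.lf 930120 0 0) (P.cons (P.lf 0 48586 0) (P.cons (P.lf 0 3526 0) P.nil)))))) (P.cons (P.cons (P.lf 52516090 0 0) (P.cons (P.lf 0 13221010 0) (P.cons (P.lf 0 69746 0) (P.cons (P.lf 151906 0 0) (P.cons (P.lf 0 5990 0) P.nil))))) (P.cons (P.cons (P.lf 0 5204150 0) (P.cons (P.lf 1670638 0 0) (P.cons (P.lf 20206 0 0) (P.cons (P.lf 0 17948 0) P.nil)))) (P.cons (P.cons (P.lf 0 1816920 0) (P.cons (P.lf 275370 0 0) (P.cons (P.lf 1008 0 0) P.nil))) (P.cons (P.cons (P.lf 150488 0 0) (P.cons (P.lf 0 12358 0) P.nil)) (P.cons (P.cons (P.lf 13544 0 0) P.nil) P.nil)))))) 20564)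
 EL.nil)
noncomputable def S169_183_364_438_42 : EL := (EL.cons 14 (TM.mk (P.cons (P.lf 0 1484464074 0) (P.cons (P.lf 304886824 0 0) (P.cons (P.lf 0 11359206 0) (P.cons (P.lf 0 899150 0) (P.cons (P.lf 24928 0 0) (P.cons (P.lf 2522 0 0) P.nil)))))) 228)
 EL.nil)
noncomputable def S169_183_364_438_43 : EL := (EL.cons 14 (TM.mk (P.cons (P.cons (P.lf 0 359491598 0) (P.cons (P.lf 66206938 0 0) (P.cons (P.lf 3622576 0 0) (P.lf 0 402508 0)))) (P.cons (P.cons (P.lf 0 11172504 0) (P.cons (P.lf 0 4983558 0) (P.cons (P.lf 0 272680 0) (P.lf 30298 0 0)))) (P.cons (P.cons (P.lf 19178792 0 0) (P.cons (P.lf 0 1101904 0) (P.cons (P.lf 0 60292 0) (P.lf 6700 0 0)))) (P.cons (P.cons (P.lf 0 1424346 0) (P.cons (P.lf 48714 0 0) (P.cons (P.lf 2666 0 0) P.nil))) (P.cons (P.cons (P.lf 0 91042 0) (P.cons (P.lf 9142 0 0) P.nil)) (P.cons (P.cons (P.lf 7740 0 0) P.nil) P.nil)))))) 3788)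
 EL.nil)
noncomputable def S169_183_364_438_44 : EL := (EL.cons 14 (TM.mk (P.cons (P.cons (P.lf 0 87057822 0) (P.cons (P.lf 32066572 0 0) (P.cons (P.lf 0 1198268 0) (P.cons (P.lf 0 518082 0) (P.cons (P.lf 27062 0 0) (P.cons (P.lf 1964 0 0) P.nil)))))) (P.cons (P.cons (P.lf 0 23291654 0) (P.cons (P.lf 5168850 0 0) (P.cons (P.lf 120884 0 0) (P.cons (P.lf 0 49144 0) (P.cons (P.lf 1484 0 0) P.nil))))) (P.cons (P.cons (P.lf 5087352 0 0) (P.cons (P.lf 0 1503224 0) (P.cons (P.lf 0 11354 0) (P.cons (P.lf 16896 0 0) P.nil)))) (P.cons (P.cons (P.lf 874650 0 0) (P.cons (P.lf 0 104882 0) (P.cons (P.lf 106 0 0) P.nil))) (P.cons (P.cons (P.lf 0 159962 0) (P.cons (P.lf 19560 0 0) P.nil)) (P.cons (P.cons (P.lf 0 3982 0) P.nil) P.nil)))))) 17770)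
 EL.nil)
noncomputable def S169_183_364_438_45 : EL := (EL.cons 14 (TM.mk (P.cons (P.cons (P.lf 121996400 0 0) (P.cons (P.lf 0 67403592 0) (P.cons (P.lf 8725546 0 0) (P.cons (P.lf 1006164 0 0) (P.cons (P.lf 0 238864 0) (P.cons (P.lf 0 1202 0) P.nil)))))) (P.cons (P.cons (P.lf 86543176 0 0) (P.cons (P.lf 0 40647070 0) (P.cons (P.lf 3941656 0 0) (P.cons (P.lf 624376 0 0) (P.cons (P.lf 0 105336 0) P.nil))))) (P.cons (P.cons (P.lf 15912992 0 0) (P.cons (P.lf 0 6403700 0) (P.cons (P.lf 529528 0 0) (P.cons (P.lf 90966 0 0) P.nil)))) (P.cons (P.cons (P.lf 0 908024 0) (P.cons (P.lf 207264 0 0) (P.cons (P.lf 21346 0 0) P.nil))) (P.cons (P.cons (P.lf 0 366672 0) (P.cons (P.lf 96702 0 0) P.nil)) (P.cons (P.cons (P.lf 5468 0 0) P.nil) P.nil)))))) 74606)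
 EL.nil)
noncomputable def S169_183_364_438_46 : EL := (EL.cons 15 (TM.mk (P.lf 4294967296 0 0) 0)
 EL.nil)
noncomputable def S169_183_364_438_47 : EL := (EL.cons 15 (TM.mk (P.cons (P.cons (P.lf 1040109149 0 0) (P.cons (P.lf 0 191555084 0) (P.cons (P.lf 0 10481124 0) (P.lf 1164568 0 0)))) (P.cons (P.cons (P.lf 245948099 0 0) (P.cons (P.lf 0 24923740 0) (P.cons (P.lf 0 1363724 0) (P.lf 151524 0 0)))) (P.cons (P.cons (P.lf 0 12934477 0) (P.cons (P.lf 0 465056 0) (P.cons (P.lf 0 25444 0) (P.lf 2824 0 0)))) (P.cons (P.cons (P.lf 0 1047528 0) (P.cons (P.lf 70280 0 0) (P.cons (P.lf 3844 0 0) P.nil))) (P.cons (P.cons (P.lf 15736 0 0) (P.cons (P.lf 3420 0 0) P.nil)) (P.cons (P.cons (P.lf 2582 0 0) P.nil) P.nil)))))) 1295)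
 EL.nil)
noncomputable def S169_183_364_438_48 : EL := (EL.cons 15 (TM.mk (P.cons (P.cons (P.lf 251882486 0 0) (P.cons (P.lf 0 92777514 0) (P.cons (P.lf 3466923 0 0) (P.cons (P.lf 1498959 0 0) (P.cons (P.lf 0 78301 0) (P.cons (P.lf 0 5683 0) P.nil)))))) (P.cons (P.cons (P.lf 119122149 0 0) (P.cons (P.lf 0 34010046 0) (P.cons (P.lf 362300 0 0) (P.cons (P.lf 450053 0 0) (P.cons (P.lf 0 20376 0) P.nil))))) (P.cons (P.cons (P.lf 7819368 0 0) (P.cons (P.lf 0 1925970 0) (P.cons (P.lf 80735 0 0) (P.cons (P.lf 32074 0 0) P.nil)))) (P.cons (P.cons (P.lf 0 1988724 0) (P.cons (P.lf 224334 0 0) (P.cons (P.lf 11402 0 0) P.nil))) (P.cons (P.cons (P.lf 0 73397 0) (P.cons (P.lf 23260 0 0) P.nil)) (P.cons (P.cons (P.lf 9362 0 0) P.nil) P.nil)))))) 14069)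
 EL.nil)
noncomputable def S169_183_364_438 : SL := (SL.cons S169_183_364_438_0 (SL.cons S169_183_364_438_1 (SL.cons S169_183_364_438_2 (SL.cons S169_183_364_438_3 (SL.cons S169_183_364_438_4 (SL.cons S169_183_364_438_5 (SL.cons S169_183_364_438_6 (SL.cons S169_183_364_438_7 (SL.cons S169_183_364_438_8 (SL.cons S169_183_364_438_9 (SL.cons S169_183_364_438_10 (SL.cons S169_183_364_438_11 (SL.cons S169_183_364_438_12 (SL.cons S169_183_364_438_13 (SL.cons S169_183_364_438_14 (SL.cons S169_183_364_438_15 (SL.cons S169_183_364_438_16 (SL.cons S169_183_364_438_17 (SL.cons S169_183_364_438_18 (SL.cons S169_183_364_438_19 (SL.cons S169_183_364_438_20 (SL.cons S169_183_364_438_21 (SL.cons S169_183_364_438_22 (SL.cons S169_183_364_438_23 (SL.cons S169_183_364_438_24 (SL.cons S169_183_364_438_25 (SL.cons S169_183_364_438_26 (SL.cons S169_183_364_438_27 (SL.cons S169_183_364_438_28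 (SL.cons S169_183_364_438_29 (SL.cons S169_183_364_438_30 (SL.cons S169_183_364_438_31 (SL.cons S169_183_364_438_32 (SL.cons S169_183_364_438_33 (SL.cons S169_183_364_438_34 (SL.cons S169_183_364_438_35 (SL.cons S169_183_364_438_36 (SL.cons S169_183_364_438_37 (SL.cons S169_183_364_438_38 (SL.cons S169_183_364_438_39 (SL.cons S169_183_364_438_40 (SL.cons S169_183_364_438_41 (SL.cons S169_183_364_438_42 (SL.cons S169_183_364_438_43 (SL.cons S169_183_364_438_44 (SL.cons S169_183_364_438_45 (SL.cons S169_183_364_438_46 (SL.cons S169_183_364_438_47 (SL.cons S169_183_364_438_48 SL.nil)))))))))))))))))))))))))))))))))))))))))))))))))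
noncomputable def S169_183_364_512_0 : EL := (EL.cons 0 (TM.mk (P.cons (P.lf 6113364111 0 0) (P.cons (P.lf 320722925 0 0) (P.cons (P.lf 0 970595 0) (P.cons (P.lf 0 761763 0) (P.cons (P.lf 0 15236 0) (P.cons (P.lf 715 0 0) P.nil)))))) 165)
 (EL.cons 1 (TM.mk (P.cons (P.lf 0 1754812605 0) (P.cons (P.lf 44029685 0 0) (P.cons (P.lf 10840057 0 0) (P.cons (P.lf 104334 0 0) (P.cons (P.lf 0 15399 0) (P.cons (P.lf 0 481 0) P.nil)))))) 128)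
 (EL.cons 5 (TM.mk (P.cons (P.lf 5127803834 0 0) (P.cons (P.lf 0 114034818 0) (P.cons (P.lf 345096 0 0) (P.cons (P.lf 270848 0 0) (P.cons (P.lf 5418 0 0) (P.cons (P.lf 0 254 0) P.nil)))))) 109)
 (EL.cons 9 (TM.mk (P.lf 6442450944 0 0) 2)
 EL.nil))))
noncomputable def S169_183_364_512_1 : EL := (EL.cons 0 (TM.mk (P.cons (P.cons (P.lf 0 1569497170 0) (P.cons (P.lf 88933691 0 0) (P.cons (P.lf 5945889 0 0) (P.lf 0 1981959 0)))) (P.cons (P.cons (P.lf 835076785 0 0) (P.cons (P.lf 0 113297852 0) (P.cons (P.lf 0 7574831 0) (P.lf 2524938 0 0)))) (P.cons (P.cons (P.lf 32412583 0 0) (P.cons (P.lf 0 15653262 0) (P.cons (P.lf 0 1046536 0) (P.lf 348840 0 0)))) (P.cons (P.cons (P.lf 0 6925620 0) (P.cons (P.lf 9968 0 0) (P.cons (P.lf 675 0 0) P.nil))) (P.cons (P.cons (P.lf 0 379697 0) (P.cons (P.lf 89658 0 0) P.nil)) (P.cons (P.cons (P.lf 19789 0 0) P.nil) P.nil)))))) 59228)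
 (EL.cons 1 (TM.mk (P.cons (P.cons (P.lf 0 722346761 0) (P.cons (P.lf 264700935 0 0) (P.cons (P.lf 17697280 0 0) (P.lf 0 5899089 0)))) (P.cons (P.cons (P.lf 0 207260438 0) (P.cons (P.lf 64101863 0 0) (P.cons (P.lf 4285696 0 0) (P.lf 0 1428559 0)))) (P.cons (P.cons (P.lf 39599531 0 0) (P.cons (P.lf 0 1302905 0) (P.cons (P.lf 0 87112 0) (P.lf 29035 0 0)))) (P.cons (P.cons (P.lf 2814596 0 0) (P.cons (P.lf 0 732621 0) (P.cons (P.lf 0 48971 0) P.nil))) (P.cons (P.cons (P.lf 0 212043 0) (P.cons (P.lf 0 21325 0) P.nil)) (P.cons (P.cons (P.lf 0 17227 0) P.nil) P.nil)))))) 34339)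
 (EL.cons 5 (TM.mk (P.cons (P.cons (P.lf 1984747209 0 0) (P.cons (P.lf 0 742301214 0) (P.cons (P.lf 0 49628530 0) (P.lf 16542842 0 0)))) (P.cons (P.cons (P.lf 76764486 0 0) (P.cons (P.lf 0 52184828 0) (P.cons (P.lf 0 3488962 0) (P.lf 1162992 0 0)))) (P.cons (P.cons (P.lf 0 34342135 0) (P.cons (P.lf 3840214 0 0) (P.cons (P.lf 256744 0 0) (P.lf 0 85572 0)))) (P.cons (P.cons (P.lf 806920 0 0) (P.cons (P.lf 257206 0 0) (P.cons (P.lf 17190 0 0) P.nil))) (P.cons (P.cons (P.lf 167846 0 0) (P.cons (P.lf 0 19184 0) P.nil)) (P.cons (P.cons (P.lf 0 2729 0) P.nil) P.nil)))))) 31135)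
 (EL.cons 9 (TM.mk (P.cons (P.cons (P.lf 1258856257 0 0) (P.cons (P.lf 0 627070890 0) (P.cons (P.lf 0 41924496 0) (P.lf 13974828 0 0)))) (P.cons (P.cons (P.lf 329718232 0 0) (P.cons (P.lf 0 81589854 0) (P.cons (P.lf 0 5454906 0) (P.lf 1818300 0 0)))) (P.cons (P.cons (P.lf 0 20133229 0) (P.cons (P.lf 0 1522398 0) (P.cons (P.lf 0 101784 0) (P.lf 33930 0 0)))) (P.cons (P.cons (P.lf 0 1460742 0) (P.cons (P.lf 230070 0 0) (P.cons (P.lf 15378 0 0) P.nil))) (P.cons (P.cons (P.lf 28986 0 0) (P.cons (P.lf 11196 0 0) P.nil)) (P.cons (P.cons (P.lf 3789 0 0) P.nil) P.nil)))))) 7415)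
 (EL.cons 2 (TM.mk (P.cons (P.cons (P.lf 955136145 0 0) (P.cons (P.lf 147879059 0 0) (P.cons (P.lf 0 71243465 0) (P.cons (P.lf 0 2696059 0) (P.lf 674012 0 0))))) (P.cons (P.cons (P.lf 17459949 0 0) (P.cons (P.lf 2703237 0 0) (P.cons (P.lf 0 1302333 0) (P.cons (P.lf 0 49283 0) (P.lf 12318 0 0))))) (P.cons (P.cons (P.lf 0 7963261 0) (P.cons (P.lf 0 1232912 0) (P.cons (P.lf 593977 0 0) (P.cons (P.lf 22474 0 0) P.nil)))) (P.cons (P.cons (P.lf 0 340990 0) (P.cons (P.lf 0 52790 0) (P.cons (P.lf 25433 0 0) P.nil))) (P.cons (P.cons (P.lf 13421 0 0) (P.cons (P.lf 2075 0 0) P.nil)) (P.cons (P.cons (P.lf 1065 0 0) P.nil) P.nil)))))) 9265)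
 (EL.cons 6 (TM.mk (P.cons (P.cons (P.lf 715556163 0 0) (P.cons (P.lf 110786061 0 0) (P.cons (P.lf 0 53373228 0) (P.cons (P.lf 0 2019798 0) (P.lf 504948 0 0))))) (P.cons (P.cons (P.lf 93102912 0 0) (P.cons (P.lf 14414667 0 0) (P.cons (P.lf 0 6944532 0) (P.cons (P.lf 0 262800 0) (P.lf 65697 0 0))))) (P.cons (P.cons (P.lf 1737225 0 0) (P.cons (P.lf 268965 0 0) (P.cons (P.lf 0 129579 0) (P.cons (P.lf 0 4902 0) P.nil)))) (P.cons (P.cons (P.lf 0 262539 0) (P.cons (P.lf 0 40644 0) (P.cons (P.lf 19581 0 0) P.nil))) (P.cons (P.cons (P.lf 0 12780 0) (P.cons (P.lf 0 1977 0) P.nil)) (P.cons (P.cons (P.lf 198 0 0) P.nil) P.nil)))))) 4869)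
 EL.nil))))))
noncomputable def S169_183_364_512_2 : EL := (EL.cons 0 (TM.mk (P.cons (P.cons (P.lf 0 846775969 0) (P.cons (P.lf 572828541 0 0) (P.cons (P.lf 0 36932296 0) (P.cons (P.lf 0 22825426 0) (P.cons (P.lf 3016871 0 0) (P.cons (P.lf 224173 0 0) P.nil)))))) (P.cons (P.cons (P.lf 31180124 0 0) (P.cons (P.lf 0 54619940 0) (P.cons (P.lf 0 1958990 0) (P.cons (P.lf 1443616 0 0) (P.cons (P.lf 0 67889 0) P.nil))))) (P.cons (P.cons (P.lf 93029117 0 0) (P.cons (P.lf 0 35473541 0) (P.cons (P.lf 1459944 0 0) (P.cons (P.lf 1302899 0 0) P.nil)))) (P.cons (P.cons (P.lf 0 1799150 0) (P.cons (P.lf 0 1394452 0) (P.cons (P.lf 310530 0 0) P.nil))) (P.cons (P.cons (P.lf 0 1233056 0) (P.cons (P.lf 360029 0 0) P.nil)) (P.cons (P.cons (P.lf 0 5060 0) P.nil) P.nil)))))) 959666)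
 (EL.cons 1 (TM.mk (P.cons (P.cons (P.lf 0 215292489 0) (P.cons (P.lf 177313338 0 0) (P.cons (P.lf 0 23049156 0) (P.cons (P.lf 0 8618767 0) (P.cons (P.lf 1399706 0 0) (P.cons (P.lf 104008 0 0) P.nil)))))) (P.cons (P.cons (P.lf 0 121518929 0) (P.cons (P.lf 86295250 0 0) (P.cons (P.lf 0 9504557 0) (P.cons (P.lf 0 3965536 0) (P.cons (P.lf 612511 0 0) P.nil))))) (P.cons (P.cons (P.lf 0 65736 0) (P.cons (P.lf 1979653 0 0) (P.cons (P.lf 0 1211803 0) (P.cons (P.lf 0 223851 0) P.nil)))) (P.cons (P.cons (P.lf 5777082 0 0) (P.cons (P.lf 0 2046530 0) (P.cons (P.lf 0 11089 0) P.nil))) (P.cons (P.cons (P.lf 26040 0 0) (P.cons (P.lf 0 144710 0) P.nil)) (P.cons (P.cons (P.lf 0 57875 0) P.nil) P.nil)))))) 472577)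
 (EL.cons 5 (TM.mk (P.cons (P.cons (P.lf 579854112 0 0) (P.cons (P.lf 0 481406542 0) (P.cons (P.lf 63736330 0 0) (P.cons (P.lf 23554809 0 0) (P.cons (P.lf 0 3846641 0) (P.cons (P.lf 0 285840 0) P.nil)))))) (P.cons (P.cons (P.lf 134948293 0 0) (P.cons (P.lf 0 89460133 0) (P.cons (P.lf 11417730 0 0) (P.cons (P.lf 4320186 0 0) (P.cons (P.lf 0 697722 0) P.nil))))) (P.cons (P.cons (P.lf 0 22869566 0) (P.cons (P.lf 6915516 0 0) (P.cons (P.lf 606943 0 0) (P.cons (P.lf 0 134774 0) P.nil)))) (P.cons (P.cons (P.lf 0 2342849 0) (P.cons (P.lf 1321318 0 0) (P.cons (P.lf 0 62266 0) P.nil))) (P.cons (P.cons (P.lf 353100 0 0) (P.cons (P.lf 0 50032 0) P.nil)) (P.cons (P.cons (P.lf 17192 0 0) P.nil) P.nil)))))) 528352)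
 (EL.cons 9 (TM.mk (P.cons (P.cons (P.lf 245980774 0 0) (P.cons (P.lf 0 245059564 0) (P.cons (P.lf 44651340 0 0) (P.cons (P.lf 13622743 0 0) (P.cons (P.lf 0 2447631 0) (P.cons (P.lf 0 181882 0) P.nil)))))) (P.cons (P.cons (P.lf 128854021 0 0) (P.cons (P.lf 0 96071077 0) (P.cons (P.lf 9459880 0 0) (P.cons (P.lf 4264824 0 0) (P.cons (P.lf 0 636934 0) P.nil))))) (P.cons (P.cons (P.lf 9006576 0 0) (P.cons (P.lf 0 5027023 0) (P.cons (P.lf 993555 0 0) (P.cons (P.lf 289825 0 0) P.nil)))) (P.cons (P.cons (P.lf 0 2631655 0) (P.cons (P.lf 728392 0 0) (P.cons (P.lf 42469 0 0) P.nil))) (P.cons (P.cons (P.lf 0 75271 0) (P.cons (P.lf 68796 0 0) P.nil)) (P.cons (P.cons (P.lf 13576 0 0) P.nil) P.nil)))))) 219032)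
 (EL.cons 2 (TM.mk (P.cons (P.cons (P.lf 373267603 0 0) (P.cons (P.lf 0 128143648 0) (P.cons (P.lf 0 69060526 0) (P.cons (P.lf 15034291 0 0) (P.cons (P.lf 2357032 0 0) (P.cons (P.lf 0 405196 0) P.nil)))))) (P.cons (P.cons (P.lf 104589191 0 0) (P.cons (P.lf 0 11398342 0) (P.cons (P.lf 0 13917819 0) (P.cons (P.lf 2092100 0 0) (P.cons (P.lf 384480 0 0) P.nil))))) (P.cons (P.cons (P.lf 0 7294646 0) (P.cons (P.lf 0 472848 0) (P.cons (P.lf 689647 0 0) (P.cons (P.lf 0 36213 0) P.nil)))) (P.cons (P.cons (P.lf 0 1490619 0) (P.cons (P.lf 97261 0 0) (P.cons (P.lf 183903 0 0) P.nil))) (P.cons (P.cons (P.lf 20790 0 0) (P.cons (P.lf 17572 0 0) P.nil)) (P.cons (P.cons (P.lf 8808 0 0) P.nil) P.nil)))))) 212748)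
 (EL.cons 6 (TM.mk (P.cons (P.cons (P.lf 279639642 0 0) (P.cons (P.lf 0 96000948 0) (P.cons (P.lf 0 51737844 0) (P.cons (P.lf 11263188 0 0) (P.cons (P.lf 1765806 0 0) (P.cons (P.lf 0 303558 0) P.nil)))))) (P.cons (P.cons (P.lf 109627560 0 0) (P.cons (P.lf 0 19275288 0) (P.cons (P.lf 0 16212744 0) (P.cons (P.lf 2826924 0 0) (P.cons (P.lf 485514 0 0) P.nil))))) (P.cons (P.cons (P.lf 5736378 0 0) (P.cons (P.lf 0 2146410 0) (P.cons (P.lf 0 1100580 0) (P.cons (P.lf 246366 0 0) P.nil)))) (P.cons (P.cons (P.lf 0 831174 0) (P.cons (P.lf 0 114468 0) (P.cons (P.lf 65142 0 0) P.nil))) (P.cons (P.cons (P.lf 0 78504 0) (P.cons (P.lf 5292 0 0) P.nil)) (P.cons (P.cons (P.lf 1296 0 0) P.nil) P.nil)))))) 216276)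
 EL.nil))))))
noncomputable def S169_183_364_512_3 : EL := (EL.cons 0 (TM.mk (P.cons (P.lf 2342352752 0 0) (P.cons (P.lf 0 320722925 0) (P.cons (P.lf 970595 0 0) (P.cons (P.lf 761763 0 0) (P.cons (P.lf 15236 0 0) (P.cons (P.lf 0 715 0) P.nil)))))) 165)
 (EL.cons 1 (TM.mk (P.cons (P.lf 1754812605 0 0) (P.cons (P.lf 0 44029685 0) (P.cons (P.lf 0 10840057 0) (P.cons (P.lf 0 104334 0) (P.cons (P.lf 15399 0 0) (P.cons (P.lf 481 0 0) P.nil)))))) 128)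
 (EL.cons 5 (TM.mk (P.cons (P.lf 1314647110 0 0) (P.cons (P.lf 114034818 0 0) (P.cons (P.lf 0 345096 0) (P.cons (P.lf 0 270848 0) (P.cons (P.lf 0 5418 0) (P.cons (P.lf 254 0 0) P.nil)))))) 102)
 EL.nil)))
noncomputable def S169_183_364_512_4 : EL := (EL.cons 0 (TM.mk (P.cons (P.cons (P.lf 457696214 0 0) (P.cons (P.lf 0 227991060 0) (P.cons (P.lf 0 15242948 0) (P.lf 5080981 0 0)))) (P.cons (P.cons (P.lf 57209957 0 0) (P.cons (P.lf 1552791 0 0) (P.cons (P.lf 103816 0 0) (P.lf 0 34604 0)))) (P.cons (P.cons (P.lf 0 23544683 0) (P.cons (P.lf 3413779 0 0) (P.cons (P.lf 228236 0 0) (P.lf 0 76078 0)))) (P.cons (P.cons (P.lf 669710 0 0) (P.cons (P.lf 73000 0 0) (P.cons (P.lf 4877 0 0) P.nil))) (P.cons (P.cons (P.lf 122187 0 0) (P.cons (P.lf 0 18741 0) P.nil)) (P.cons (P.cons (P.lf 0 2025 0) P.nil) P.nil)))))) 10145)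
 (EL.cons 1 (TM.mk (P.cons (P.cons (P.lf 342890746 0 0) (P.cons (P.lf 0 170803301 0) (P.cons (P.lf 0 11419509 0) (P.lf 3806501 0 0)))) (P.cons (P.cons (P.lf 81206152 0 0) (P.cons (P.lf 0 17938074 0) (P.cons (P.lf 0 1199296 0) (P.lf 399765 0 0)))) (P.cons (P.cons (P.lf 0 9855489 0) (P.cons (P.lf 1198042 0 0) (P.cons (P.lf 80098 0 0) (P.lf 0 26698 0)))) (P.cons (P.cons (P.lf 0 835453 0) (P.cons (P.lf 220509 0 0) (P.cons (P.lf 14739 0 0) P.nil))) (P.cons (P.cons (P.lf 49423 0 0) (P.cons (P.lf 3860 0 0) P.nil)) (P.cons (P.cons (P.lf 4500 0 0) P.nil) P.nil)))))) 8122)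
 (EL.cons 5 (TM.mk (P.cons (P.cons (P.lf 256882318 0 0) (P.cons (P.lf 0 127960140 0) (P.cons (P.lf 0 8555114 0) (P.lf 2851702 0 0)))) (P.cons (P.cons (P.lf 89564758 0 0) (P.cons (P.lf 0 27748720 0) (P.cons (P.lf 0 1855214 0) (P.lf 618402 0 0)))) (P.cons (P.cons (P.lf 1660368 0 0) (P.cons (P.lf 0 1721254 0) (P.cons (P.lf 0 115078 0) (P.lf 38358 0 0)))) (P.cons (P.cons (P.lf 0 725032 0) (P.cons (P.lf 50732 0 0) (P.cons (P.lf 3390 0 0) P.nil))) (P.cons (P.cons (P.lf 0 33782 0) (P.cons (P.lf 10394 0 0) P.nil)) (P.cons (P.cons (P.lf 1982 0 0) P.nil) P.nil)))))) 5576)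
 EL.nil)))
noncomputable def S169_183_364_512_5 : EL := (EL.cons 0 (TM.mk (P.cons (P.cons (P.lf 89433935 0 0) (P.cons (P.lf 0 89098999 0) (P.cons (P.lf 16234377 0 0) (P.cons (P.lf 4952968 0 0) (P.cons (P.lf 0 889911 0) (P.cons (P.lf 0 66128 0) P.nil)))))) (P.cons (P.cons (P.lf 34603273 0 0) (P.cons (P.lf 0 22729877 0) (P.cons (P.lf 1216566 0 0) (P.cons (P.lf 872430 0 0) (P.cons (P.lf 0 109726 0) P.nil))))) (P.cons (P.cons (P.lf 0 3103027 0) (P.cons (P.lf 2918032 0 0) (P.cons (P.lf 0 102972 0) (P.cons (P.lf 0 104886 0) P.nil)))) (P.cons (P.cons (P.lf 0 1356693 0) (P.cons (P.lf 471638 0 0) (P.cons (P.lf 0 27314 0) P.nil))) (P.cons (P.cons (P.lf 120817 0 0) (P.cons (P.lf 0 23944 0) P.nil)) (P.cons (P.cons (P.lf 9627 0 0) P.nil) P.nil)))))) 158843)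
 (EL.cons 1 (TM.mk (P.cons (P.cons (P.lf 67000921 0 0) (P.cons (P.lf 0 66750000 0) (P.cons (P.lf 12162255 0 0) (P.cons (P.lf 3710598 0 0) (P.cons (P.lf 0 666690 0) (P.cons (P.lf 0 49539 0) P.nil)))))) (P.cons (P.cons (P.lf 33416505 0 0) (P.cons (P.lf 0 24493291 0) (P.cons (P.lf 2271545 0 0) (P.cons (P.lf 1068560 0 0) (P.cons (P.lf 0 156761 0) P.nil))))) (P.cons (P.cons (P.lf 1158720 0 0) (P.cons (P.lf 0 300358 0) (P.cons (P.lf 130843 0 0) (P.cons (P.lf 26874 0 0) P.nil)))) (P.cons (P.cons (P.lf 0 999163 0) (P.cons (P.lf 398373 0 0) (P.cons (P.lf 0 11861 0) P.nil))) (P.cons (P.cons (P.lf 0 19170 0) (P.cons (P.lf 23188 0 0) P.nil)) (P.cons (P.cons (P.lf 8820 0 0) P.nil) P.nil)))))) 109184)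
 (EL.cons 5 (TM.mk (P.cons (P.cons (P.lf 50194858 0 0) (P.cons (P.lf 0 50006874 0) (P.cons (P.lf 9111554 0 0) (P.cons (P.lf 2779858 0 0) (P.cons (P.lf 0 499462 0) (P.cons (P.lf 0 37114 0) P.nil)))))) (P.cons (P.cons (P.lf 30647952 0 0) (P.cons (P.lf 0 23941956 0) (P.cons (P.lf 2720734 0 0) (P.cons (P.lf 1111410 0 0) (P.cons (P.lf 0 173296 0) P.nil))))) (P.cons (P.cons (P.lf 4105490 0 0) (P.cons (P.lf 0 2713196 0) (P.cons (P.lf 367796 0 0) (P.cons (P.lf 133900 0 0) P.nil)))) (P.cons (P.cons (P.lf 0 394838 0) (P.cons (P.lf 75102 0 0) (P.cons (P.lf 23868 0 0) P.nil))) (P.cons (P.cons (P.lf 0 68048 0) (P.cons (P.lf 31444 0 0) P.nil)) (P.cons (P.cons (P.lf 1100 0 0) P.nil) P.nil)))))) 79940)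
 EL.nil)))
noncomputable def S169_183_364_512_6 : EL := (EL.cons 12 (TM.mk (P.lf 8589934592 0 0) 0)
 (EL.cons 3 (TM.mk (P.cons (P.lf 0 2242802763 0) (P.cons (P.lf 153546101 0 0) (P.cons (P.lf 4791341 0 0) (P.cons (P.lf 0 36671 0) (P.cons (P.lf 0 4687 0) (P.cons (P.lf 0 56 0) P.nil)))))) 59)
 (EL.cons 7 (TM.mk (P.cons (P.lf 0 1680233071 0) (P.cons (P.lf 0 72873196 0) (P.cons (P.lf 1800820 0 0) (P.cons (P.lf 94981 0 0) (P.cons (P.lf 308 0 0) (P.cons (P.lf 0 74 0) P.nil)))))) 48)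
 EL.nil)))
noncomputable def S169_183_364_512_7 : EL := (EL.cons 12 (TM.mk (P.cons (P.cons (P.lf 1678475010 0 0) (P.cons (P.lf 0 836094520 0) (P.cons (P.lf 0 55899328 0) (P.lf 18633104 0 0)))) (P.cons (P.cons (P.lf 439624310 0 0) (P.cons (P.lf 0 108786472 0) (P.cons (P.lf 0 7273208 0) (P.lf 2424400 0 0)))) (P.cons (P.cons (P.lf 0 26844306 0) (P.cons (P.lf 0 2029864 0) (P.cons (P.lf 0 135712 0) (P.lf 45240 0 0)))) (P.cons (P.cons (P.lf 0 1947656 0) (P.cons (P.lf 306760 0 0) (P.cons (P.lf 20504 0 0) P.nil))) (P.cons (P.cons (P.lf 38648 0 0) (P.cons (P.lf 14928 0 0) P.nil)) (P.cons (P.cons (P.lf 5052 0 0) P.nil) P.nil)))))) 9862)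
 (EL.cons 3 (TM.mk (P.cons (P.cons (P.lf 2208333557 0 0) (P.cons (P.lf 0 436602880 0) (P.cons (P.lf 0 29190248 0) (P.lf 9730080 0 0)))) (P.cons (P.cons (P.lf 0 343593730 0) (P.cons (P.lf 0 26916978 0) (P.cons (P.lf 0 1799604 0) (P.lf 599866 0 0)))) (P.cons (P.cons (P.lf 0 30054097 0) (P.cons (P.lf 3761882 0 0) (P.cons (P.lf 251510 0 0) (P.lf 0 83834 0)))) (P.cons (P.cons (P.lf 685356 0 0) (P.cons (P.lf 346976 0 0) (P.cons (P.lf 23192 0 0) P.nil))) (P.cons (P.cons (P.lf 149721 0 0) (P.cons (P.lf 0 2746 0) P.nil)) (P.cons (P.cons (P.lf 2557 0 0) P.nil) P.nil)))))) 25466)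
 (EL.cons 7 (TM.mk (P.cons (P.cons (P.lf 0 1584387403 0) (P.cons (P.lf 474362681 0 0) (P.cons (P.lf 31714787 0 0) (P.lf 0 10571599 0)))) (P.cons (P.cons (P.lf 163070060 0 0) (P.cons (P.lf 12774841 0 0) (P.cons (P.lf 854097 0 0) (P.lf 0 284701 0)))) (P.cons (P.cons (P.lf 5145444 0 0) (P.cons (P.lf 0 2499713 0) (P.cons (P.lf 0 167122 0) (P.lf 55706 0 0)))) (P.cons (P.cons (P.lf 0 1182913 0) (P.cons (P.lf 0 15449 0) (P.cons (P.lf 0 1033 0) P.nil))) (P.cons (P.cons (P.lf 0 25380 0) (P.cons (P.lf 11060 0 0) P.nil)) (P.cons (P.cons (P.lf 3492 0 0) P.nil) P.nil)))))) 19676)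
 (EL.cons 10 (TM.mk (P.cons (P.cons (P.lf 0 1829085723 0) (P.cons (P.lf 0 283188402 0) (P.cons (P.lf 136431240 0 0) (P.cons (P.lf 5162958 0 0) (P.lf 0 1290738 0))))) (P.cons (P.cons (P.lf 0 158658132 0) (P.cons (P.lf 0 24564261 0) (P.cons (P.lf 11834286 0 0) (P.cons (P.lf 447843 0 0) (P.lf 0 111960 0))))) (P.cons (P.cons (P.lf 480135 0 0) (P.cons (P.lf 74337 0 0) (P.cons (P.lf 0 35811 0) (P.cons (P.lf 0 1353 0) P.nil)))) (P.cons (P.cons (P.lf 376833 0 0) (P.cons (P.lf 58341 0 0) (P.cons (P.lf 0 28107 0) P.nil))) (P.cons (P.cons (P.lf 7536 0 0) (P.cons (P.lf 1167 0 0) P.nil)) (P.cons (P.cons (P.lf 0 351 0) P.nil) P.nil)))))) 2619)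
 EL.nil))))
noncomputable def S169_183_364_512_8 : EL := (EL.cons 12 (TM.mk (P.cons (P.cons (P.lf 327974366 0 0) (P.cons (P.lf 0 326746086 0) (P.cons (P.lf 59535120 0 0) (P.cons (P.lf 18163658 0 0) (P.cons (P.lf 0 3263508 0) (P.cons (P.lf 0 242510 0) P.nil)))))) (P.cons (P.cons (P.lf 171805362 0 0) (P.cons (P.lf 0 128094770 0) (P.cons (P.lf 12613174 0 0) (P.cons (P.lf 5686432 0 0) (P.cons (P.lf 0 849246 0) P.nil))))) (P.cons (P.cons (P.lf 12008768 0 0) (P.cons (P.lf 0 6702698 0) (P.cons (P.lf 1324740 0 0) (P.cons (P.lf 386434 0 0) P.nil)))) (P.cons (P.cons (P.lf 0 3508874 0) (P.cons (P.lf 971190 0 0) (P.cons (P.lf 56626 0 0) P.nil))) (P.cons (P.cons (P.lf 0 100362 0) (P.cons (P.lf 91728 0 0) P.nil)) (P.cons (P.cons (P.lf 18102 0 0) P.nil) P.nil)))))) 292014)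
 (EL.cons 3 (TM.mk (P.cons (P.cons (P.lf 948650668 0 0) (P.cons (P.lf 0 685829697 0) (P.cons (P.lf 60388019 0 0) (P.cons (P.lf 29490369 0 0) (P.cons (P.lf 0 4260456 0) (P.cons (P.lf 0 316591 0) P.nil)))))) (P.cons (P.cons (P.lf 130759275 0 0) (P.cons (P.lf 0 71861092 0) (P.cons (P.lf 15568687 0 0) (P.cons (P.lf 4325687 0 0) (P.cons (P.lf 0 816996 0) P.nil))))) (P.cons (P.cons (P.lf 0 60835727 0) (P.cons (P.lf 15675447 0 0) (P.cons (P.lf 1242776 0 0) (P.cons (P.lf 0 323297 0) P.nil)))) (P.cons (P.cons (P.lf 0 2887583 0) (P.cons (P.lf 2278250 0 0) (P.cons (P.lf 0 74301 0) P.nil))) (P.cons (P.cons (P.lf 522919 0 0) (P.cons (P.lf 0 20348 0) P.nil)) (P.cons (P.cons (P.lf 33796 0 0) P.nil) P.nil)))))) 593184)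
 (EL.cons 7 (TM.mk (P.cons (P.cons (P.lf 0 555025870 0) (P.cons (P.lf 429898204 0 0) (P.cons (P.lf 0 47682997 0) (P.cons (P.lf 0 19799856 0) (P.cons (P.lf 3064782 0 0) (P.cons (P.lf 227742 0 0) P.nil)))))) (P.cons (P.cons (P.lf 0 62058539 0) (P.cons (P.lf 34105376 0 0) (P.cons (P.lf 0 7388921 0) (P.cons (P.lf 0 2052980 0) (P.cons (P.lf 387746 0 0) P.nil))))) (P.cons (P.cons (P.lf 32342808 0 0) (P.cons (P.lf 0 9346637 0) (P.cons (P.lf 0 176661 0) (P.cons (P.lf 268227 0 0) P.nil)))) (P.cons (P.cons (P.lf 0 860460 0) (P.cons (P.lf 0 483565 0) (P.cons (P.lf 69908 0 0) P.nil))) (P.cons (P.cons (P.lf 0 305188 0) (P.cons (P.lf 84464 0 0) P.nil)) (P.cons (P.cons (P.lf 6720 0 0) P.nil) P.nil)))))) 309529)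
 (EL.cons 10 (TM.mk (P.cons (P.cons (P.lf 0 714807462 0) (P.cons (P.lf 245395086 0 0) (P.cons (P.lf 132250914 0 0) (P.cons (P.lf 0 28790676 0) (P.cons (P.lf 0 4513716 0) (P.cons (P.lf 775956 0 0) P.nil)))))) (P.cons (P.cons (P.lf 0 249225240 0) (P.cons (P.lf 38627994 0 0) (P.cons (P.lf 35706756 0 0) (P.cons (P.lf 0 5977440 0) (P.cons (P.lf 0 1045302 0) P.nil))))) (P.cons (P.cons (P.lf 0 4620180 0) (P.cons (P.lf 4074288 0 0) (P.cons (P.lf 1406388 0 0) (P.cons (P.lf 0 401376 0) P.nil)))) (P.cons (P.cons (P.lf 2017494 0 0) (P.cons (P.lf 171180 0 0) (P.cons (P.lf 0 181776 0) P.nil))) (P.cons (P.cons (P.lf 94002 0 0) (P.cons (P.lf 0 14370 0) P.nil)) (P.cons (P.cons (P.lf 0 5514 0) P.nil) P.nil)))))) 408606)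
 EL.nil))))
noncomputable def S169_183_364_512_9 : EL := (EL.cons 3 (TM.mk (P.cons (P.lf 0 2242802763 0) (P.cons (P.lf 153546101 0 0) (P.cons (P.lf 4791341 0 0) (P.cons (P.lf 0 36671 0) (P.cons (P.lf 0 4687 0) (P.cons (P.lf 0 56 0) P.nil)))))) 59)
 (EL.cons 7 (TM.mk (P.cons (P.lf 0 1680233071 0) (P.cons (P.lf 0 72873196 0) (P.cons (P.lf 1800820 0 0) (P.cons (P.lf 94981 0 0) (P.cons (P.lf 308 0 0) (P.cons (P.lf 0 74 0) P.nil)))))) 48)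
 EL.nil))
noncomputable def S169_183_364_512_10 : EL := (EL.cons 3 (TM.mk (P.cons (P.cons (P.lf 0 438244126 0) (P.cons (P.lf 218301440 0 0) (P.cons (P.lf 14595124 0 0) (P.lf 0 4865040 0)))) (P.cons (P.cons (P.lf 0 84781474 0) (P.cons (P.lf 13458489 0 0) (P.cons (P.lf 899802 0 0) (P.lf 0 299933 0)))) (P.cons (P.cons (P.lf 15803522 0 0) (P.cons (P.lf 0 1880941 0) (P.cons (P.lf 0 125755 0) (P.lf 41917 0 0)))) (P.cons (P.cons (P.lf 266730 0 0) (P.cons (P.lf 0 173488 0) (P.cons (P.lf 0 11596 0) P.nil))) (P.cons (P.cons (P.lf 0 62670 0) (P.cons (P.lf 1373 0 0) P.nil)) (P.cons (P.cons (P.lf 0 1850 0) P.nil) P.nil)))))) 6286)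
 (EL.cons 7 (TM.mk (P.cons (P.cons (P.lf 0 328317892 0) (P.cons (P.lf 163544162 0 0) (P.cons (P.lf 10934180 0 0) (P.lf 0 3644725 0)))) (P.cons (P.cons (P.lf 0 100232095 0) (P.cons (P.lf 28372219 0 0) (P.cons (P.lf 1896900 0 0) (P.lf 0 632299 0)))) (P.cons (P.cons (P.lf 1873179 0 0) (P.cons (P.lf 1144666 0 0) (P.cons (P.lf 76529 0 0) (P.lf 0 25510 0)))) (P.cons (P.cons (P.lf 719429 0 0) (P.cons (P.lf 0 74834 0) (P.cons (P.lf 0 5002 0) P.nil))) (P.cons (P.cons (P.lf 8256 0 0) (P.cons (P.lf 0 7180 0) P.nil)) (P.cons (P.cons (P.lf 0 2019 0) P.nil) P.nil)))))) 3790)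
 EL.nil))
noncomputable def S169_183_364_512_11 : EL := (EL.cons 3 (TM.mk (P.cons (P.cons (P.lf 0 85632992 0) (P.cons (P.lf 85312293 0 0) (P.cons (P.lf 0 15544417 0) (P.cons (P.lf 0 4742469 0) (P.cons (P.lf 852090 0 0) (P.cons (P.lf 63317 0 0) P.nil)))))) (P.cons (P.cons (P.lf 0 38995215 0) (P.cons (P.lf 27604484 0 0) (P.cons (P.lf 0 2229059 0) (P.cons (P.lf 0 1160029 0) (P.cons (P.lf 163398 0 0) P.nil))))) (P.cons (P.cons (P.lf 118531 0 0) (P.cons (P.lf 0 721911 0) (P.cons (P.lf 0 87214 0) (P.cons (P.lf 10879 0 0) P.nil)))) (P.cons (P.cons (P.lf 1225243 0 0) (P.cons (P.lf 0 443440 0) (P.cons (P.lf 15675 0 0) P.nil))) (P.cons (P.cons (P.lf 0 30731 0) (P.cons (P.lf 0 9602 0) P.nil)) (P.cons (P.cons (P.lf 0 8624 0) P.nil) P.nil)))))) 118694)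
 (EL.cons 7 (TM.mk (P.cons (P.cons (P.lf 0 64153384 0) (P.cons (P.lf 63913126 0 0) (P.cons (P.lf 0 11645359 0) (P.cons (P.lf 0 3552900 0) (P.cons (P.lf 638358 0 0) (P.cons (P.lf 47436 0 0) P.nil)))))) (P.cons (P.cons (P.lf 0 36388355 0) (P.cons (P.lf 27827930 0 0) (P.cons (P.lf 0 2972267 0) (P.cons (P.lf 0 1266386 0) (P.cons (P.lf 193802 0 0) P.nil))))) (P.cons (P.cons (P.lf 0 3737736 0) (P.cons (P.lf 2329279 0 0) (P.cons (P.lf 0 353649 0) (P.cons (P.lf 0 120021 0) P.nil)))) (P.cons (P.cons (P.lf 624120 0 0) (P.cons (P.lf 0 163573 0) (P.cons (P.lf 0 19012 0) P.nil))) (P.cons (P.cons (P.lf 53828 0 0) (P.cons (P.lf 0 29014 0) P.nil)) (P.cons (P.cons (P.lf 0 3288 0) P.nil) P.nil)))))) 76977)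
 EL.nil))
noncomputable def S169_183_364_512_12 : EL := (EL.cons 4 (TM.mk (P.cons (P.lf 2242802763 0 0) (P.cons (P.lf 0 153546101 0) (P.cons (P.lf 0 4791341 0) (P.cons (P.lf 36671 0 0) (P.cons (P.lf 4687 0 0) (P.cons (P.lf 56 0 0) P.nil)))))) 59)
 (EL.cons 8 (TM.mk (P.cons (P.lf 1680233071 0 0) (P.cons (P.lf 72873196 0 0) (P.cons (P.lf 0 1800820 0) (P.cons (P.lf 0 94981 0) (P.cons (P.lf 0 308 0) (P.cons (P.lf 74 0 0) P.nil)))))) 48)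
 EL.nil))
noncomputable def S169_183_364_512_13 : EL := (EL.cons 4 (TM.mk (P.cons (P.cons (P.lf 438244126 0 0) (P.cons (P.lf 0 218301440 0) (P.cons (P.lf 0 14595124 0) (P.lf 4865040 0 0)))) (P.cons (P.cons (P.lf 84781474 0 0) (P.cons (P.lf 0 13458489 0) (P.cons (P.lf 0 899802 0) (P.lf 299933 0 0)))) (P.cons (P.cons (P.lf 0 15803522 0) (P.cons (P.lf 1880941 0 0) (P.cons (P.lf 125755 0 0) (P.lf 0 41917 0)))) (P.cons (P.cons (P.lf 0 266730 0) (P.cons (P.lf 173488 0 0) (P.cons (P.lf 11596 0 0) P.nil))) (P.cons (P.cons (P.lf 62670 0 0) (P.cons (P.lf 0 1373 0) P.nil)) (P.cons (P.cons (P.lf 1850 0 0) P.nil) P.nil)))))) 6286)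
 (EL.cons 8 (TM.mk (P.cons (P.cons (P.lf 328317892 0 0) (P.cons (P.lf 0 163544162 0) (P.cons (P.lf 0 10934180 0) (P.lf 3644725 0 0)))) (P.cons (P.cons (P.lf 100232095 0 0) (P.cons (P.lf 0 28372219 0) (P.cons (P.lf 0 1896900 0) (P.lf 632299 0 0)))) (P.cons (P.cons (P.lf 0 1873179 0) (P.cons (P.lf 0 1144666 0) (P.cons (P.lf 0 76529 0) (P.lf 25510 0 0)))) (P.cons (P.cons (P.lf 0 719429 0) (P.cons (P.lf 74834 0 0) (P.cons (P.lf 5002 0 0) P.nil))) (P.cons (P.cons (P.lf 0 8256 0) (P.cons (P.lf 7180 0 0) P.nil)) (P.cons (P.cons (P.lf 2019 0 0) P.nil) P.nil)))))) 3790)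
 EL.nil))
noncomputable def S169_183_364_512_14 : EL := (EL.cons 4 (TM.mk (P.cons (P.cons (P.lf 85632992 0 0) (P.cons (P.lf 0 85312293 0) (P.cons (P.lf 15544417 0 0) (P.cons (P.lf 4742469 0 0) (P.cons (P.lf 0 852090 0) (P.cons (P.lf 0 63317 0) P.nil)))))) (P.cons (P.cons (P.lf 38995215 0 0) (P.cons (P.lf 0 27604484 0) (P.cons (P.lf 2229059 0 0) (P.cons (P.lf 1160029 0 0) (P.cons (P.lf 0 163398 0) P.nil))))) (P.cons (P.cons (P.lf 0 118531 0) (P.cons (P.lf 721911 0 0) (P.cons (P.lf 87214 0 0) (P.cons (P.lf 0 10879 0) P.nil)))) (P.cons (P.cons (P.lf 0 1225243 0) (P.cons (P.lf 443440 0 0) (P.cons (P.lf 0 15675 0) P.nil))) (P.cons (P.cons (P.lf 30731 0 0) (P.cons (P.lf 9602 0 0) P.nil)) (P.cons (P.cons (P.lf 8624 0 0) P.nil) P.nil)))))) 118694)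
 (EL.cons 8 (TM.mk (P.cons (P.cons (P.lf 64153384 0 0) (P.cons (P.lf 0 63913126 0) (P.cons (P.lf 11645359 0 0) (P.cons (P.lf 3552900 0 0) (P.cons (P.lf 0 638358 0) (P.cons (P.lf 0 47436 0) P.nil)))))) (P.cons (P.cons (P.lf 36388355 0 0) (P.cons (P.lf 0 27827930 0) (P.cons (P.lf 2972267 0 0) (P.cons (P.lf 1266386 0 0) (P.cons (P.lf 0 193802 0) P.nil))))) (P.cons (P.cons (P.lf 3737736 0 0) (P.cons (P.lf 0 2329279 0) (P.cons (P.lf 353649 0 0) (P.cons (P.lf 120021 0 0) P.nil)))) (P.cons (P.cons (P.lf 0 624120 0) (P.cons (P.lf 163573 0 0) (P.cons (P.lf 19012 0 0) P.nil))) (P.cons (P.cons (P.lf 0 53828 0) (P.cons (P.lf 29014 0 0) P.nil)) (P.cons (P.cons (P.lf 3288 0 0) P.nil) P.nil)))))) 76977)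
 EL.nil))
noncomputable def S169_183_364_512_15 : EL := (EL.cons 4 (TM.mk (P.cons (P.lf 0 1249254801 0) (P.cons (P.lf 171052227 0 0) (P.cons (P.lf 0 517650 0) (P.cons (P.lf 0 406274 0) (P.cons (P.lf 0 8126 0) (P.cons (P.lf 381 0 0) P.nil)))))) 91)
 (EL.cons 8 (TM.mk (P.cons (P.lf 0 935900056 0) (P.cons (P.lf 23482499 0 0) (P.cons (P.lf 5781364 0 0) (P.cons (P.lf 55645 0 0) (P.cons (P.lf 0 8213 0) (P.cons (P.lf 0 257 0) P.nil)))))) 65)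
 EL.nil))
noncomputable def S169_183_364_512_16 : EL := (EL.cons 4 (TM.mk (P.cons (P.cons (P.lf 0 244104647 0) (P.cons (P.lf 121595232 0 0) (P.cons (P.lf 8129572 0 0) (P.lf 0 2709856 0)))) (P.cons (P.cons (P.lf 0 30511977 0) (P.cons (P.lf 0 828155 0) (P.cons (P.lf 0 55368 0) (P.lf 18455 0 0)))) (P.cons (P.cons (P.lf 12557164 0 0) (P.cons (P.lf 0 1820682 0) (P.cons (P.lf 0 121725 0) (P.lf 40575 0 0)))) (P.cons (P.cons (P.lf 0 357179 0) (P.cons (P.lf 0 38933 0) (P.cons (P.lf 0 2601 0) P.nil))) (P.cons (P.cons (P.lf 0 65166 0) (P.cons (P.lf 9995 0 0) P.nil)) (P.cons (P.cons (P.lf 1080 0 0) P.nil) P.nil)))))) 5419)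
 (EL.cons 8 (TM.mk (P.cons (P.cons (P.lf 0 182875065 0) (P.cons (P.lf 91095094 0 0) (P.cons (P.lf 6090405 0 0) (P.lf 0 2030134 0)))) (P.cons (P.cons (P.lf 0 43309948 0) (P.cons (P.lf 9566973 0 0) (P.cons (P.lf 639625 0 0) (P.lf 0 213208 0)))) (P.cons (P.cons (P.lf 5256261 0 0) (P.cons (P.lf 0 638956 0) (P.cons (P.lf 0 42719 0) (P.lf 14239 0 0)))) (P.cons (P.cons (P.lf 445575 0 0) (P.cons (P.lf 0 117605 0) (P.cons (P.lf 0 7861 0) P.nil))) (P.cons (P.cons (P.lf 0 26359 0) (P.cons (P.lf 0 2059 0) P.nil)) (P.cons (P.cons (P.lf 0 2400 0) P.nil) P.nil)))))) 4322)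
 EL.nil))
noncomputable def S169_183_364_512_17 : EL := (EL.cons 4 (TM.mk (P.cons (P.cons (P.lf 0 47698098 0) (P.cons (P.lf 47519466 0 0) (P.cons (P.lf 0 8658334 0) (P.cons (P.lf 0 2641583 0) (P.cons (P.lf 474619 0 0) (P.cons (P.lf 35268 0 0) P.nil)))))) (P.cons (P.cons (P.lf 0 18455079 0) (P.cons (P.lf 12122601 0 0) (P.cons (P.lf 0 648835 0) (P.cons (P.lf 0 465296 0) (P.cons (P.lf 58520 0 0) P.nil))))) (P.cons (P.cons (P.lf 1654948 0 0) (P.cons (P.lf 0 1556283 0) (P.cons (P.lf 54918 0 0) (P.cons (P.lf 55939 0 0) P.nil)))) (P.cons (P.cons (P.lf 723570 0 0) (P.cons (P.lf 0 251540 0) (P.cons (P.lf 14567 0 0) P.nil))) (P.cons (P.cons (P.lf 0 64436 0) (P.cons (P.lf 12770 0 0) P.nil)) (P.cons (P.cons (P.lf 0 5134 0) P.nil) P.nil)))))) 84727)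
 (EL.cons 8 (TM.mk (P.cons (P.cons (P.lf 0 35733825 0) (P.cons (P.lf 35600000 0 0) (P.cons (P.lf 0 6486536 0) (P.cons (P.lf 0 1978986 0) (P.cons (P.lf 355568 0 0) (P.cons (P.lf 26421 0 0) P.nil)))))) (P.cons (P.cons (P.lf 0 17822136 0) (P.cons (P.lf 13063089 0 0) (P.cons (P.lf 0 1211491 0) (P.cons (P.lf 0 569899 0) (P.cons (P.lf 83606 0 0) P.nil))))) (P.cons (P.cons (P.lf 0 617984 0) (P.cons (P.lf 160191 0 0) (P.cons (P.lf 0 69783 0) (P.cons (P.lf 0 14333 0) P.nil)))) (P.cons (P.cons (P.lf 532887 0 0) (P.cons (P.lf 0 212466 0) (P.cons (P.lf 6326 0 0) P.nil))) (P.cons (P.cons (P.lf 10224 0 0) (P.cons (P.lf 0 12367 0) P.nil)) (P.cons (P.cons (P.lf 0 4704 0) P.nil) P.nil)))))) 58220)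
 EL.nil))
noncomputable def S169_183_364_512_18 : EL := (EL.cons 4 (TM.mk (P.cons (P.lf 695842534 0 0) (P.cons (P.lf 0 142915698 0) (P.cons (P.lf 5324627 0 0) (P.cons (P.lf 421476 0 0) (P.cons (P.lf 0 11685 0) (P.cons (P.lf 0 1182 0) P.nil)))))) 113)
 (EL.cons 8 (TM.mk (P.cons (P.lf 521302032 0 0) (P.cons (P.lf 0 48769121 0) (P.cons (P.lf 0 3438450 0) (P.cons (P.lf 225935 0 0) (P.cons (P.lf 14451 0 0) (P.cons (P.lf 0 170 0) P.nil)))))) 84)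
 EL.nil))
noncomputable def S169_183_364_512_19 : EL := (EL.cons 4 (TM.mk (P.cons (P.cons (P.lf 135967775 0 0) (P.cons (P.lf 0 67729284 0) (P.cons (P.lf 0 4528221 0) (P.lf 1509405 0 0)))) (P.cons (P.cons (P.lf 7686771 0 0) (P.cons (P.lf 5098150 0 0) (P.cons (P.lf 340849 0 0) (P.lf 0 113616 0)))) (P.cons (P.cons (P.lf 0 8448419 0) (P.cons (P.lf 1127241 0 0) (P.cons (P.lf 75364 0 0) (P.lf 0 25121 0)))) (P.cons (P.cons (P.lf 643716 0 0) (P.cons (P.lf 0 49835 0) (P.cons (P.lf 0 3331 0) P.nil))) (P.cons (P.cons (P.lf 38182 0 0) (P.cons (P.lf 0 9352 0) P.nil)) (P.cons (P.cons (P.lf 0 3586 0) P.nil) P.nil)))))) 6450)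
 (EL.cons 8 (TM.mk (P.cons (P.cons (P.lf 101862525 0 0) (P.cons (P.lf 0 50740522 0) (P.cons (P.lf 0 3392392 0) (P.lf 1130797 0 0)))) (P.cons (P.cons (P.lf 17150223 0 0) (P.cons (P.lf 0 1855080 0) (P.cons (P.lf 0 124026 0) (P.lf 41342 0 0)))) (P.cons (P.cons (P.lf 0 4796943 0) (P.cons (P.lf 829123 0 0) (P.cons (P.lf 55433 0 0) (P.lf 0 18477 0)))) (P.cons (P.cons (P.lf 0 97619 0) (P.cons (P.lf 51695 0 0) (P.cons (P.lf 3455 0 0) P.nil))) (P.cons (P.cons (P.lf 38535 0 0) (P.cons (P.lf 0 4290 0) P.nil)) (P.cons (P.cons (P.lf 867 0 0) P.nil) P.nil)))))) 3622)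
 EL.nil))
noncomputable def S169_183_364_512_20 : EL := (EL.cons 4 (TM.mk (P.cons (P.cons (P.lf 26568131 0 0) (P.cons (P.lf 0 26468632 0) (P.cons (P.lf 4822744 0 0) (P.cons (P.lf 1471378 0 0) (P.cons (P.lf 0 264365 0) (P.cons (P.lf 0 19644 0) P.nil)))))) (P.cons (P.cons (P.lf 8460691 0 0) (P.cons (P.lf 0 4940275 0) (P.cons (P.lf 31230 0 0) (P.cons (P.lf 158439 0 0) (P.cons (P.lf 0 14497 0) P.nil))))) (P.cons (P.cons (P.lf 0 1682332 0) (P.cons (P.lf 1385683 0 0) (P.cons (P.lf 0 65635 0) (P.cons (P.lf 0 52045 0) P.nil)))) (P.cons (P.cons (P.lf 0 361449 0) (P.cons (P.lf 94755 0 0) (P.cons (P.lf 0 6713 0) P.nil))) (P.cons (P.cons (P.lf 65676 0 0) (P.cons (P.lf 0 18722 0) P.nil)) (P.cons (P.cons (P.lf 1271 0 0) P.nil) P.nil)))))) 67277)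
 (EL.cons 8 (TM.mk (P.cons (P.cons (P.lf 19903958 0 0) (P.cons (P.lf 0 19829417 0) (P.cons (P.lf 3613039 0 0) (P.cons (P.lf 1102307 0 0) (P.cons (P.lf 0 198054 0) (P.cons (P.lf 0 14717 0) P.nil)))))) (P.cons (P.cons (P.lf 8564379 0 0) (P.cons (P.lf 0 5918664 0) (P.cons (P.lf 427453 0 0) (P.cons (P.lf 241971 0 0) (P.cons (P.lf 0 33009 0) P.nil))))) (P.cons (P.cons (P.lf 0 377921 0) (P.cons (P.lf 451276 0 0) (P.cons (P.lf 0 15046 0) (P.cons (P.lf 0 16103 0) P.nil)))) (P.cons (P.cons (P.lf 0 341269 0) (P.cons (P.lf 139674 0 0) (P.cons (P.lf 0 7567 0) P.nil))) (P.cons (P.cons (P.lf 14094 0 0) (P.cons (P.lf 0 1183 0) P.nil)) (P.cons (P.cons (P.lf 3670 0 0) P.nil) P.nil)))))) 41079)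
 EL.nil))
noncomputable def S169_183_364_512_21 : EL := (EL.cons 4 (TM.mk (P.cons (P.cons (P.lf 0 2646577683 0) (P.cons (P.lf 654904320 0 0) (P.cons (P.lf 43785372 0 0) (P.lf 0 14595120 0)))) (P.cons (P.cons (P.lf 258812256 0 0) (P.cons (P.lf 40375467 0 0) (P.cons (P.lf 2699406 0 0) (P.lf 0 899799 0)))) (P.cons (P.cons (P.lf 45857619 0 0) (P.cons (P.lf 0 5642823 0) (P.cons (P.lf 0 377265 0) (P.lf 125751 0 0)))) (P.cons (P.cons (P.lf 0 418626 0) (P.cons (P.lf 0 520464 0) (P.cons (P.lf 0 34788 0) P.nil))) (P.cons (P.cons (P.lf 0 212391 0) (P.cons (P.lf 4119 0 0) P.nil)) (P.cons (P.cons (P.lf 0 4407 0) P.nil) P.nil)))))) 19161)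
 (EL.cons 8 (TM.mk (P.cons (P.cons (P.lf 1256069511 0 0) (P.cons (P.lf 0 310818519 0) (P.cons (P.lf 0 20780607 0) (P.lf 6926874 0 0)))) (P.cons (P.cons (P.lf 0 263302155 0) (P.cons (P.lf 15597378 0 0) (P.cons (P.lf 1042803 0 0) (P.lf 0 347598 0)))) (P.cons (P.cons (P.lf 0 3272265 0) (P.cons (P.lf 3644379 0 0) (P.cons (P.lf 243651 0 0) (P.lf 0 81216 0)))) (P.cons (P.cons (P.lf 1902342 0 0) (P.cons (P.lf 0 59385 0) (P.cons (P.lf 0 3969 0) P.nil))) (P.cons (P.cons (P.lf 33636 0 0) (P.cons (P.lf 0 18240 0) P.nil)) (P.cons (P.cons (P.lf 0 5511 0) P.nil) P.nil)))))) 15867)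
 (EL.cons 11 (TM.mk (P.cons (P.cons (P.lf 1829085723 0 0) (P.cons (P.lf 283188402 0 0) (P.cons (P.lf 0 136431240 0) (P.cons (P.lf 0 5162958 0) (P.lf 1290738 0 0))))) (P.cons (P.cons (P.lf 158658132 0 0) (P.cons (P.lf 24564261 0 0) (P.cons (P.lf 0 11834286 0) (P.cons (P.lf 0 447843 0) (P.lf 111960 0 0))))) (P.cons (P.cons (P.lf 0 480135 0) (P.cons (P.lf 0 74337 0) (P.cons (P.lf 35811 0 0) (P.cons (P.lf 1353 0 0) P.nil)))) (P.cons (P.cons (P.lf 0 376833 0) (P.cons (P.lf 0 58341 0) (P.cons (P.lf 28107 0 0) P.nil))) (P.cons (P.cons (P.lf 0 7536 0) (P.cons (P.lf 0 1167 0) P.nil)) (P.cons (P.cons (P.lf 351 0 0) P.nil) P.nil)))))) 2619)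
 EL.nil)))
noncomputable def S169_183_364_512_22 : EL := (EL.cons 4 (TM.mk (P.cons (P.cons (P.lf 0 517141830 0) (P.cons (P.lf 385570995 0 0) (P.cons (P.lf 0 37966218 0) (P.cons (P.lf 0 17116419 0) (P.cons (P.lf 2556273 0 0) (P.cons (P.lf 189954 0 0) P.nil)))))) (P.cons (P.cons (P.lf 0 84877245 0) (P.cons (P.lf 49732788 0 0) (P.cons (P.lf 0 8898873 0) (P.cons (P.lf 0 2742858 0) (P.cons (P.lf 490197 0 0) P.nil))))) (P.cons (P.cons (P.lf 30477129 0 0) (P.cons (P.lf 0 8198679 0) (P.cons (P.lf 0 664995 0) (P.cons (P.lf 167088 0 0) P.nil)))) (P.cons (P.cons (P.lf 2056413 0 0) (P.cons (P.lf 0 1360845 0) (P.cons (P.lf 44988 0 0) P.nil))) (P.cons (P.cons (P.lf 0 276825 0) (P.cons (P.lf 5373 0 0) P.nil)) (P.cons (P.cons (P.lf 0 21210 0) P.nil) P.nil)))))) 237234)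
 (EL.cons 8 (TM.mk (P.cons (P.cons (P.lf 245436243 0 0) (P.cons (P.lf 0 182992539 0) (P.cons (P.lf 18018819 0 0) (P.cons (P.lf 8123478 0 0) (P.cons (P.lf 0 1213212 0) (P.cons (P.lf 0 90153 0) P.nil)))))) (P.cons (P.cons (P.lf 12835092 0 0) (P.cons (P.lf 0 3138723 0) (P.cons (P.lf 2208327 0 0) (P.cons (P.lf 393297 0 0) (P.cons (P.lf 0 96972 0) P.nil))))) (P.cons (P.cons (P.lf 0 18040272 0) (P.cons (P.lf 5837958 0 0) (P.cons (P.lf 0 88494 0) (P.cons (P.lf 0 194124 0) P.nil)))) (P.cons (P.cons (P.lf 742290 0 0) (P.cons (P.lf 159996 0 0) (P.cons (P.lf 0 44460 0) P.nil))) (P.cons (P.cons (P.lf 179508 0 0) (P.cons (P.lf 0 56739 0) P.nil)) (P.cons (P.cons (P.lf 0 5004 0) P.nil) P.nil)))))) 116265)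
 (EL.cons 11 (TM.mk (P.cons (P.cons (P.lf 357403731 0 0) (P.cons (P.lf 0 122697543 0) (P.cons (P.lf 0 66125457 0) (P.cons (P.lf 14395338 0 0) (P.cons (P.lf 2256858 0 0) (P.cons (P.lf 0 387978 0) P.nil)))))) (P.cons (P.cons (P.lf 124612620 0 0) (P.cons (P.lf 0 19313997 0) (P.cons (P.lf 0 17853378 0) (P.cons (P.lf 2988720 0 0) (P.cons (P.lf 522651 0 0) P.nil))))) (P.cons (P.cons (P.lf 2310090 0 0) (P.cons (P.lf 0 2037144 0) (P.cons (P.lf 0 703194 0) (P.cons (P.lf 200688 0 0) P.nil)))) (P.cons (P.cons (P.lf 0 1008747 0) (P.cons (P.lf 0 85590 0) (P.cons (P.lf 90888 0 0) P.nil))) (P.cons (P.cons (P.lf 0 47001 0) (P.cons (P.lf 7185 0 0) P.nil)) (P.cons (P.cons (P.lf 2757 0 0) P.nil) P.nil)))))) 204303)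
 EL.nil)))
noncomputable def S169_183_364_512_23 : EL := (EL.cons 4 (TM.mk (P.cons (P.cons (P.lf 1474159890 0 0) (P.cons (P.lf 0 364785693 0) (P.cons (P.lf 0 24388716 0) (P.lf 8129568 0 0)))) (P.cons (P.cons (P.lf 0 245083500 0) (P.cons (P.lf 2484468 0 0) (P.cons (P.lf 166107 0 0) (P.lf 0 55368 0)))) (P.cons (P.cons (P.lf 0 18822807 0) (P.cons (P.lf 5462046 0 0) (P.cons (P.lf 365178 0 0) (P.lf 0 121722 0)))) (P.cons (P.cons (P.lf 2313966 0 0) (P.cons (P.lf 116799 0 0) (P.cons (P.lf 7803 0 0) P.nil))) (P.cons (P.cons (P.lf 157629 0 0) (P.cons (P.lf 0 29985 0) P.nil)) (P.cons (P.cons (P.lf 0 6822 0) P.nil) P.nil)))))) 21000)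
 (EL.cons 8 (TM.mk (P.cons (P.cons (P.lf 0 699638367 0) (P.cons (P.lf 173127807 0 0) (P.cons (P.lf 11574924 0 0) (P.lf 0 3858309 0)))) (P.cons (P.cons (P.lf 194559339 0 0) (P.cons (P.lf 0 20540457 0) (P.cons (P.lf 0 1373286 0) (P.lf 457758 0 0)))) (P.cons (P.cons (P.lf 0 6723333 0) (P.cons (P.lf 0 1805013 0) (P.cons (P.lf 0 120675 0) (P.lf 40224 0 0)))) (P.cons (P.cons (P.lf 0 1509153 0) (P.cons (P.lf 193440 0 0) (P.cons (P.lf 12930 0 0) P.nil))) (P.cons (P.cons (P.lf 50847 0 0) (P.cons (P.lf 12450 0 0) P.nil)) (P.cons (P.cons (P.lf 6933 0 0) P.nil) P.nil)))))) 14841)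
 (EL.cons 11 (TM.mk (P.cons (P.cons (P.lf 0 1018811889 0) (P.cons (P.lf 0 157737663 0) (P.cons (P.lf 75993030 0 0) (P.cons (P.lf 2875797 0 0) (P.lf 0 718947 0))))) (P.cons (P.cons (P.lf 0 18623946 0) (P.cons (P.lf 0 2883453 0) (P.cons (P.lf 1389156 0 0) (P.cons (P.lf 52569 0 0) (P.lf 0 13140 0))))) (P.cons (P.cons (P.lf 8494146 0 0) (P.cons (P.lf 1315107 0 0) (P.cons (P.lf 0 633576 0) (P.cons (P.lf 0 23973 0) P.nil)))) (P.cons (P.cons (P.lf 363723 0 0) (P.cons (P.lf 56310 0 0) (P.cons (P.lf 0 27129 0) P.nil))) (P.cons (P.cons (P.lf 0 14316 0) (P.cons (P.lf 0 2214 0) P.nil)) (P.cons (P.cons (P.lf 0 1137 0) P.nil) P.nil)))))) 9861)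
 EL.nil)))
noncomputable def S169_183_364_512_24 : EL := (EL.cons 4 (TM.mk (P.cons (P.cons (P.lf 288051147 0 0) (P.cons (P.lf 0 214765392 0) (P.cons (P.lf 21147414 0 0) (P.cons (P.lf 9533949 0 0) (P.cons (P.lf 0 1423860 0) (P.cons (P.lf 0 105804 0) P.nil)))))) (P.cons (P.cons (P.lf 27556668 0 0) (P.cons (P.lf 0 12998259 0) (P.cons (P.lf 3508938 0 0) (P.cons (P.lf 875076 0 0) (P.cons (P.lf 0 175563 0) P.nil))))) (P.cons (P.cons (P.lf 0 20827989 0) (P.cons (P.lf 6922011 0 0) (P.cons (P.lf 0 14115 0) (P.cons (P.lf 0 218031 0) P.nil)))) (P.cons (P.cons (P.lf 0 79521 0) (P.cons (P.lf 501021 0 0) (P.cons (P.lf 0 60660 0) P.nil))) (P.cons (P.cons (P.lf 270252 0 0) (P.cons (P.lf 0 65544 0) P.nil)) (P.cons (P.cons (P.lf 3534 0 0) P.nil) P.nil)))))) 136899)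
 (EL.cons 8 (TM.mk (P.cons (P.cons (P.lf 0 136709481 0) (P.cons (P.lf 101927958 0 0) (P.cons (P.lf 0 10036590 0) (P.cons (P.lf 0 4524825 0) (P.cons (P.lf 675765 0 0) (P.cons (P.lf 50214 0 0) P.nil)))))) (P.cons (P.cons (P.lf 2210139 0 0) (P.cons (P.lf 0 5229870 0) (P.cons (P.lf 0 542928 0) (P.cons (P.lf 90708 0 0) (P.cons (P.lf 7749 0 0) P.nil))))) (P.cons (P.cons (P.lf 10830042 0 0) (P.cons (P.lf 0 3589218 0) (P.cons (P.lf 154944 0 0) (P.cons (P.lf 132792 0 0) P.nil)))) (P.cons (P.cons (P.lf 0 1088361 0) (P.cons (P.lf 131433 0 0) (P.cons (P.lf 23853 0 0) P.nil))) (P.cons (P.cons (P.lf 0 93549 0) (P.cons (P.lf 44892 0 0) P.nil)) (P.cons (P.cons (P.lf 10662 0 0) P.nil) P.nil)))))) 68805)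
 (EL.cons 11 (TM.mk (P.cons (P.cons (P.lf 0 199076055 0) (P.cons (P.lf 68343279 0 0) (P.cons (P.lf 36832281 0 0) (P.cons (P.lf 0 8018289 0) (P.cons (P.lf 0 1257084 0) (P.cons (P.lf 216105 0 0) P.nil)))))) (P.cons (P.cons (P.lf 0 55780902 0) (P.cons (P.lf 6079116 0 0) (P.cons (P.lf 7422837 0 0) (P.cons (P.lf 0 1115787 0) (P.cons (P.lf 0 205056 0) P.nil))))) (P.cons (P.cons (P.lf 3890478 0 0) (P.cons (P.lf 252186 0 0) (P.cons (P.lf 0 367812 0) (P.cons (P.lf 19314 0 0) P.nil)))) (P.cons (P.cons (P.lf 794997 0 0) (P.cons (P.lf 0 51873 0) (P.cons (P.lf 0 98082 0) P.nil))) (P.cons (P.cons (P.lf 0 11088 0) (P.cons (P.lf 0 9372 0) P.nil)) (P.cons (P.cons (P.lf 0 4698 0) P.nil) P.nil)))))) 113454)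
 EL.nil)))
noncomputable def S169_183_364_512_25 : EL := (EL.cons 4 (TM.mk (P.cons (P.cons (P.lf 0 821116038 0) (P.cons (P.lf 203187852 0 0) (P.cons (P.lf 13584663 0 0) (P.lf 0 4528218 0)))) (P.cons (P.cons (P.lf 192728007 0 0) (P.cons (P.lf 0 15294450 0) (P.cons (P.lf 0 1022550 0) (P.lf 340851 0 0)))) (P.cons (P.cons (P.lf 2892669 0 0) (P.cons (P.lf 0 3381723 0) (P.cons (P.lf 0 226092 0) (P.lf 75363 0 0)))) (P.cons (P.cons (P.lf 0 2311734 0) (P.cons (P.lf 149505 0 0) (P.cons (P.lf 9996 0 0) P.nil))) (P.cons (P.cons (P.lf 0 21441 0) (P.cons (P.lf 28056 0 0) P.nil)) (P.cons (P.cons (P.lf 12999 0 0) P.nil) P.nil)))))) 17352)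
 (EL.cons 8 (TM.mk (P.cons (P.cons (P.lf 389702832 0 0) (P.cons (P.lf 0 96433242 0) (P.cons (P.lf 0 6447303 0) (P.lf 2149101 0 0)))) (P.cons (P.cons (P.lf 0 135050457 0) (P.cons (P.lf 18043143 0 0) (P.cons (P.lf 1206321 0 0) (P.lf 0 402105 0)))) (P.cons (P.cons (P.lf 10331652 0 0) (P.cons (P.lf 428133 0 0) (P.cons (P.lf 28620 0 0) (P.lf 0 9540 0)))) (P.cons (P.cons (P.lf 822108 0 0) (P.cons (P.lf 0 202596 0) (P.cons (P.lf 0 13542 0) P.nil))) (P.cons (P.cons (P.lf 0 94830 0) (P.cons (P.lf 0 1719 0) P.nil)) (P.cons (P.cons (P.lf 0 3873 0) P.nil) P.nil)))))) 12036)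
 (EL.cons 11 (TM.mk (P.cons (P.cons (P.lf 567484428 0 0) (P.cons (P.lf 87860838 0 0) (P.cons (P.lf 0 42328581 0) (P.cons (P.lf 0 1601835 0) (P.lf 400458 0 0))))) (P.cons (P.cons (P.lf 0 28477299 0) (P.cons (P.lf 0 4409001 0) (P.cons (P.lf 2124117 0 0) (P.cons (P.lf 80382 0 0) (P.lf 0 20094 0))))) (P.cons (P.cons (P.lf 0 6653817 0) (P.cons (P.lf 0 1030176 0) (P.cons (P.lf 496305 0 0) (P.cons (P.lf 18780 0 0) P.nil)))) (P.cons (P.cons (P.lf 108432 0 0) (P.cons (P.lf 16788 0 0) (P.cons (P.lf 0 8088 0) P.nil))) (P.cons (P.cons (P.lf 33306 0 0) (P.cons (P.lf 5154 0 0) P.nil)) (P.cons (P.cons (P.lf 477 0 0) P.nil) P.nil)))))) 9750)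
 EL.nil)))
noncomputable def S169_183_364_512_26 : EL := (EL.cons 4 (TM.mk (P.cons (P.cons (P.lf 0 160446243 0) (P.cons (P.lf 119625630 0 0) (P.cons (P.lf 0 11779239 0) (P.cons (P.lf 0 5310465 0) (P.cons (P.lf 793098 0 0) (P.cons (P.lf 58935 0 0) P.nil)))))) (P.cons (P.cons (P.lf 0 4364808 0) (P.cons (P.lf 0 949662 0) (P.cons (P.lf 0 1148073 0) (P.cons (P.lf 0 123861 0) (P.cons (P.lf 43491 0 0) P.nil))))) (P.cons (P.cons (P.lf 12994914 0 0) (P.cons (P.lf 0 4606830 0) (P.cons (P.lf 166836 0 0) (P.cons (P.lf 166158 0 0) P.nil)))) (P.cons (P.cons (P.lf 0 719781 0) (P.cons (P.lf 0 28620 0) (P.cons (P.lf 37233 0 0) P.nil))) (P.cons (P.cons (P.lf 0 178932 0) (P.cons (P.lf 64218 0 0) P.nil)) (P.cons (P.cons (P.lf 8394 0 0) P.nil) P.nil)))))) 80283)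
 (EL.cons 8 (TM.mk (P.cons (P.cons (P.lf 76148013 0 0) (P.cons (P.lf 0 56774493 0) (P.cons (P.lf 5590443 0 0) (P.cons (P.lf 2520354 0 0) (P.cons (P.lf 0 376404 0) (P.cons (P.lf 0 27969 0) P.nil)))))) (P.cons (P.cons (P.lf 0 6444282 0) (P.cons (P.lf 6799947 0 0) (P.cons (P.lf 0 80316 0) (P.cons (P.lf 0 223071 0) (P.cons (P.lf 21450 0 0) P.nil))))) (P.cons (P.cons (P.lf 0 6110796 0) (P.cons (P.lf 1921071 0 0) (P.cons (P.lf 0 118950 0) (P.cons (P.lf 0 75891 0) P.nil)))) (P.cons (P.cons (P.lf 1023087 0 0) (P.cons (P.lf 0 217230 0) (P.cons (P.lf 0 7932 0) P.nil))) (P.cons (P.cons (P.lf 23631 0 0) (P.cons (P.lf 0 24336 0) P.nil)) (P.cons (P.cons (P.lf 0 10899 0) P.nil) P.nil)))))) 41916)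
 (EL.cons 11 (TM.mk (P.cons (P.cons (P.lf 110886573 0 0) (P.cons (P.lf 0 38067621 0) (P.cons (P.lf 0 20515803 0) (P.cons (P.lf 4466235 0 0) (P.cons (P.lf 700203 0 0) (P.cons (P.lf 0 120372 0) P.nil)))))) (P.cons (P.cons (P.lf 23478816 0 0) (P.cons (P.lf 0 779928 0) (P.cons (P.lf 0 2730018 0) (P.cons (P.lf 315735 0 0) (P.cons (P.lf 66279 0 0) P.nil))))) (P.cons (P.cons (P.lf 0 4531035 0) (P.cons (P.lf 172671 0 0) (P.cons (P.lf 531762 0 0) (P.cons (P.lf 0 62847 0) P.nil)))) (P.cons (P.cons (P.lf 0 359022 0) (P.cons (P.lf 45120 0 0) (P.cons (P.lf 49101 0 0) P.nil))) (P.cons (P.cons (P.lf 41859 0 0) (P.cons (P.lf 3405 0 0) P.nil)) (P.cons (P.cons (P.lf 3171 0 0) P.nil) P.nil)))))) 62847)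
 EL.nil)))
noncomputable def S169_183_364_512_27 : EL := (EL.cons 13 (TM.mk (P.lf 0 4294967296 0) 0)
 EL.nil)
noncomputable def S169_183_364_512_28 : EL := (EL.cons 13 (TM.mk (P.cons (P.cons (P.lf 0 839237505 0) (P.cons (P.lf 418047260 0 0) (P.cons (P.lf 27949664 0 0) (P.lf 0 9316552 0)))) (P.cons (P.cons (P.lf 0 219812155 0) (P.cons (P.lf 54393236 0 0) (P.cons (P.lf 3636604 0 0) (P.lf 0 1212200 0)))) (P.cons (P.cons (P.lf 13422153 0 0) (P.cons (P.lf 1014932 0 0) (P.cons (P.lf 67856 0 0) (P.lf 0 22620 0)))) (P.cons (P.cons (P.lf 973828 0 0) (P.cons (P.lf 0 153380 0) (P.cons (P.lf 0 10252 0) P.nil))) (P.cons (P.cons (P.lf 0 19324 0) (P.cons (P.lf 0 7464 0) P.nil)) (P.cons (P.cons (P.lf 0 2526 0) P.nil) P.nil)))))) 4931)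
 EL.nil)
noncomputable def S169_183_364_512_29 : EL := (EL.cons 13 (TM.mk (P.cons (P.cons (P.lf 0 163987183 0) (P.cons (P.lf 163373043 0 0) (P.cons (P.lf 0 29767560 0) (P.cons (P.lf 0 9081829 0) (P.cons (P.lf 1631754 0 0) (P.cons (P.lf 121255 0 0) P.nil)))))) (P.cons (P.cons (P.lf 0 85902681 0) (P.cons (P.lf 64047385 0 0) (P.cons (P.lf 0 6306587 0) (P.cons (P.lf 0 2843216 0) (P.cons (P.lf 424623 0 0) P.nil))))) (P.cons (P.cons (P.lf 0 6004384 0) (P.cons (P.lf 3351349 0 0) (P.cons (P.lf 0 662370 0) (P.cons (P.lf 0 193217 0) P.nil)))) (P.cons (P.cons (P.lf 1754437 0 0) (P.cons (P.lf 0 485595 0) (P.cons (P.lf 0 28313 0) P.nil))) (P.cons (P.cons (P.lf 50181 0 0) (P.cons (P.lf 0 45864 0) P.nil)) (P.cons (P.cons (P.lf 0 9051 0) P.nil) P.nil)))))) 146007)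
 EL.nil)
noncomputable def S169_183_364_512_30 : EL := (EL.cons 13 (TM.mk (P.cons (P.lf 2392322948 0 0) (P.cons (P.lf 0 163782508 0) (P.cons (P.lf 0 5110764 0) (P.cons (P.lf 39116 0 0) (P.cons (P.lf 5000 0 0) (P.cons (P.lf 60 0 0) P.nil)))))) 56)
 EL.nil)
noncomputable def S169_183_364_512_31 : EL := (EL.cons 13 (TM.mk (P.cons (P.cons (P.lf 467460402 0 0) (P.cons (P.lf 0 232854870 0) (P.cons (P.lf 0 15568133 0) (P.lf 5189376 0 0)))) (P.cons (P.cons (P.lf 90433573 0 0) (P.cons (P.lf 0 14355722 0) (P.cons (P.lf 0 959789 0) (P.lf 319929 0 0)))) (P.cons (P.cons (P.lf 0 16857091 0) (P.cons (P.lf 2006338 0 0) (P.cons (P.lf 134139 0 0) (P.lf 0 44712 0)))) (P.cons (P.cons (P.lf 0 284513 0) (P.cons (P.lf 185054 0 0) (P.cons (P.lf 12370 0 0) P.nil))) (P.cons (P.cons (P.lf 66849 0 0) (P.cons (P.lf 0 1465 0) P.nil)) (P.cons (P.cons (P.lf 1974 0 0) P.nil) P.nil))))))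 6685)
 EL.nil)
noncomputable def S169_183_364_512_32 : EL := (EL.cons 13 (TM.mk (P.cons (P.cons (P.lf 91341859 0 0) (P.cons (P.lf 0 90999780 0) (P.cons (P.lf 16580712 0 0) (P.cons (P.lf 5058634 0 0) (P.cons (P.lf 0 908896 0) (P.cons (P.lf 0 67539 0) P.nil)))))) (P.cons (P.cons (P.lf 41594897 0 0) (P.cons (P.lf 0 29444783 0) (P.cons (P.lf 2377663 0 0) (P.cons (P.lf 1237365 0 0) (P.cons (P.lf 0 174292 0) P.nil))))) (P.cons (P.cons (P.lf 0 126434 0) (P.cons (P.lf 770039 0 0) (P.cons (P.lf 93029 0 0) (P.cons (P.lf 0 11605 0) P.nil)))) (P.cons (P.cons (P.lf 0 1306926 0) (P.cons (P.lf 473003 0 0) (P.cons (P.lf 0 16721 0) P.nil))) (P.cons (P.cons (P.lf 32780 0 0) (P.cons (P.lf 10243 0 0) P.nil)) (P.cons (P.cons (P.lf 9199 0 0) P.nil) P.nil)))))) 126584)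
 EL.nil)
noncomputable def S169_183_364_512_33 : EL := (EL.cons 14 (TM.mk (P.lf 8589934592 0 0) 0)
 EL.nil)
noncomputable def S169_183_364_512_34 : EL := (EL.cons 14 (TM.mk (P.cons (P.cons (P.lf 1678475010 0 0) (P.cons (P.lf 0 836094520 0) (P.cons (P.lf 0 55899328 0) (P.lf 18633104 0 0)))) (P.cons (P.cons (P.lf 439624310 0 0) (P.cons (P.lf 0 108786472 0) (P.cons (P.lf 0 7273208 0) (P.lf 2424400 0 0)))) (P.cons (P.cons (P.lf 0 26844306 0) (P.cons (P.lf 0 2029864 0) (P.cons (P.lf 0 135712 0) (P.lf 45240 0 0)))) (P.cons (P.cons (P.lf 0 1947656 0) (P.cons (P.lf 306760 0 0) (P.cons (P.lf 20504 0 0) P.nil))) (P.cons (P.cons (P.lf 38648 0 0) (P.cons (P.lf 14928 0 0) P.nil)) (P.cons (P.cons (P.lf 5052 0 0) P.nil) P.nil)))))) 9862)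
 EL.nil)
noncomputable def S169_183_364_512_35 : EL := (EL.cons 14 (TM.mk (P.cons (P.cons (P.lf 327974366 0 0) (P.cons (P.lf 0 326746086 0) (P.cons (P.lf 59535120 0 0) (P.cons (P.lf 18163658 0 0) (P.cons (P.lf 0 3263508 0) (P.cons (P.lf 0 242510 0) P.nil)))))) (P.cons (P.cons (P.lf 171805362 0 0) (P.cons (P.lf 0 128094770 0) (P.cons (P.lf 12613174 0 0) (P.cons (P.lf 5686432 0 0) (P.cons (P.lf 0 849246 0) P.nil))))) (P.cons (P.cons (P.lf 12008768 0 0) (P.cons (P.lf 0 6702698 0) (P.cons (P.lf 1324740 0 0) (P.cons (P.lf 386434 0 0) P.nil)))) (P.cons (P.cons (P.lf 0 3508874 0) (P.cons (P.lf 971190 0 0) (P.cons (P.lf 56626 0 0) P.nil))) (P.cons (P.cons (P.lf 0 100362 0) (P.cons (P.lf 91728 0 0) P.nil)) (P.cons (P.cons (P.lf 18102 0 0) P.nil) P.nil)))))) 292014)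
 EL.nil)
noncomputable def S169_183_364_512_36 : EL := (EL.cons 14 (TM.mk (P.cons (P.lf 0 4784645896 0) (P.cons (P.lf 327565016 0 0) (P.cons (P.lf 10221528 0 0) (P.cons (P.lf 0 78232 0) (P.cons (P.lf 0 10000 0) (P.cons (P.lf 0 120 0) P.nil)))))) 112)
 EL.nil)
noncomputable def S169_183_364_512_37 : EL := (EL.cons 14 (TM.mk (P.cons (P.cons (P.lf 0 934920804 0) (P.cons (P.lf 465709740 0 0) (P.cons (P.lf 31136266 0 0) (P.lf 0 10378752 0)))) (P.cons (P.cons (P.lf 0 180867146 0) (P.cons (P.lf 28711444 0 0) (P.cons (P.lf 1919578 0 0) (P.lf 0 639858 0)))) (P.cons (P.cons (P.lf 33714182 0 0) (P.cons (P.lf 0 4012676 0) (P.cons (P.lf 0 268278 0) (P.lf 89424 0 0)))) (P.cons (P.cons (P.lf 569026 0 0) (P.cons (P.lf 0 370108 0) (P.cons (P.lf 0 24740 0) P.nil))) (P.cons (P.cons (P.lf 0 133698 0) (P.cons (P.lf 2930 0 0) P.nil)) (P.cons (P.cons (P.lf 0 3948 0) P.nil) P.nil))))))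 13370)
 EL.nil)
noncomputable def S169_183_364_512_38 : EL := (EL.cons 14 (TM.mk (P.cons (P.cons (P.lf 0 182683718 0) (P.cons (P.lf 181999560 0 0) (P.cons (P.lf 0 33161424 0) (P.cons (P.lf 0 10117268 0) (P.cons (P.lf 1817792 0 0) (P.cons (P.lf 135078 0 0) P.nil)))))) (P.cons (P.cons (P.lf 0 83189794 0) (P.cons (P.lf 58889566 0 0) (P.cons (P.lf 0 4755326 0) (P.cons (P.lf 0 2474730 0) (P.cons (P.lf 348584 0 0) P.nil))))) (P.cons (P.cons (P.lf 252868 0 0) (P.cons (P.lf 0 1540078 0) (P.cons (P.lf 0 186058 0) (P.cons (P.lf 23210 0 0) P.nil)))) (P.cons (P.cons (P.lf 2613852 0 0) (P.cons (P.lf 0 946006 0) (P.cons (P.lf 33442 0 0) P.nil))) (P.cons (P.cons (P.lf 0 65560 0) (P.cons (P.lf 0 20486 0) P.nil)) (P.cons (P.cons (P.lf 0 18398 0) P.nil) P.nil)))))) 253168)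
 EL.nil)
noncomputable def S169_183_364_512_39 : EL := (EL.cons 14 (TM.mk (P.cons (P.lf 2665076910 0 0) (P.cons (P.lf 0 364911418 0) (P.cons (P.lf 1104322 0 0) (P.cons (P.lf 866718 0 0) (P.cons (P.lf 17336 0 0) (P.cons (P.lf 0 814 0) P.nil)))))) 180)
 EL.nil)
noncomputable def S169_183_364_512_40 : EL := (EL.cons 14 (TM.mk (P.cons (P.cons (P.lf 520756582 0 0) (P.cons (P.lf 0 259403162 0) (P.cons (P.lf 0 17343088 0) (P.lf 5781028 0 0)))) (P.cons (P.cons (P.lf 65092218 0 0) (P.cons (P.lf 1766732 0 0) (P.cons (P.lf 118120 0 0) (P.lf 0 39372 0)))) (P.cons (P.cons (P.lf 0 26788618 0) (P.cons (P.lf 3884122 0 0) (P.cons (P.lf 259682 0 0) (P.lf 0 86560 0)))) (P.cons (P.cons (P.lf 761982 0 0) (P.cons (P.lf 83058 0 0) (P.cons (P.lf 5550 0 0) P.nil))) (P.cons (P.cons (P.lf 139022 0 0) (P.cons (P.lf 0 21324 0) P.nil)) (P.cons (P.cons (P.lf 0 2304 0) P.nil) P.nil))))))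 11522)
 EL.nil)
noncomputable def S169_183_364_512_41 : EL := (EL.cons 14 (TM.mk (P.cons (P.cons (P.lf 101755944 0 0) (P.cons (P.lf 0 101374862 0) (P.cons (P.lf 18471114 0 0) (P.cons (P.lf 5635378 0 0) (P.cons (P.lf 0 1012522 0) (P.cons (P.lf 0 75240 0) P.nil)))))) (P.cons (P.cons (P.lf 39370836 0 0) (P.cons (P.lf 0 25861550 0) (P.cons (P.lf 1384182 0 0) (P.cons (P.lf 992632 0 0) (P.cons (P.lf 0 124844 0) P.nil))))) (P.cons (P.cons (P.lf 0 3530556 0) (P.cons (P.lf 3320072 0 0) (P.cons (P.lf 0 117160 0) (P.cons (P.lf 0 119338 0) P.nil)))) (P.cons (P.cons (P.lf 0 1543616 0) (P.cons (P.lf 536620 0 0) (P.cons (P.lf 0 31078 0) P.nil))) (P.cons (P.cons (P.lf 137464 0 0) (P.cons (P.lf 0 27244 0) P.nil)) (P.cons (P.cons (P.lf 10954 0 0) P.nil) P.nil)))))) 180704)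
 EL.nil)
noncomputable def S169_183_364_512_42 : EL := (EL.cons 14 (TM.mk (P.cons (P.lf 0 1484464074 0) (P.cons (P.lf 304886824 0 0) (P.cons (P.lf 0 11359206 0) (P.cons (P.lf 0 899150 0) (P.cons (P.lf 24928 0 0) (P.cons (P.lf 2522 0 0) P.nil)))))) 228)
 EL.nil)
noncomputable def S169_183_364_512_43 : EL := (EL.cons 14 (TM.mk (P.cons (P.cons (P.lf 0 290064588 0) (P.cons (P.lf 144489140 0 0) (P.cons (P.lf 9660206 0 0) (P.lf 0 3220066 0)))) (P.cons (P.cons (P.lf 0 16398446 0) (P.cons (P.lf 0 10876054 0) (P.cons (P.lf 0 727146 0) (P.lf 242382 0 0)))) (P.cons (P.cons (P.lf 18023294 0 0) (P.cons (P.lf 0 2404782 0) (P.cons (P.lf 0 160778 0) (P.lf 53592 0 0)))) (P.cons (P.cons (P.lf 0 1373262 0) (P.cons (P.lf 106316 0 0) (P.cons (P.lf 7108 0 0) P.nil))) (P.cons (P.cons (P.lf 0 81456 0) (P.cons (P.lf 19952 0 0) P.nil)) (P.cons (P.cons (P.lf 7652 0 0) P.nil) P.nil))))))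 13720)
 EL.nil)
noncomputable def S169_183_364_512_44 : EL := (EL.cons 14 (TM.mk (P.cons (P.cons (P.lf 0 56678680 0) (P.cons (P.lf 56466416 0 0) (P.cons (P.lf 0 10288522 0) (P.cons (P.lf 0 3138940 0) (P.cons (P.lf 563980 0 0) (P.cons (P.lf 41908 0 0) P.nil)))))) (P.cons (P.cons (P.lf 0 18049476 0) (P.cons (P.lf 10539254 0 0) (P.cons (P.lf 0 66626 0) (P.cons (P.lf 0 338004 0) (P.cons (P.lf 30928 0 0) P.nil))))) (P.cons (P.cons (P.lf 3588976 0 0) (P.cons (P.lf 0 2956124 0) (P.cons (P.lf 140022 0 0) (P.cons (P.lf 111030 0 0) P.nil)))) (P.cons (P.cons (P.lf 771092 0 0) (P.cons (P.lf 0 202144 0) (P.cons (P.lf 14322 0 0) P.nil))) (P.cons (P.cons (P.lf 0 140110 0) (P.cons (P.lf 39942 0 0) P.nil)) (P.cons (P.cons (P.lf 0 2712 0) P.nil) P.nil)))))) 143478)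
 EL.nil)
noncomputable def S169_183_364_512_45 : EL := (EL.cons 14 (TM.mk (P.cons (P.cons (P.lf 64086258 0 0) (P.cons (P.lf 0 95769378 0) (P.cons (P.lf 41302442 0 0) (P.cons (P.lf 592126 0 0) (P.cons (P.lf 0 3501832 0) (P.cons (P.lf 281206 0 0) P.nil)))))) (P.cons (P.cons (P.lf 50356204 0 0) (P.cons (P.lf 0 62628426 0) (P.cons (P.lf 20721884 0 0) (P.cons (P.lf 1634542 0 0) (P.cons (P.lf 0 1619052 0) P.nil))))) (P.cons (P.cons (P.lf 10114394 0 0) (P.cons (P.lf 0 10266540 0) (P.cons (P.lf 2841390 0 0) (P.cons (P.lf 240528 0 0) P.nil)))) (P.cons (P.cons (P.lf 0 682308 0) (P.cons (P.lf 481688 0 0) (P.cons (P.lf 45638 0 0) P.nil))) (P.cons (P.cons (P.lf 0 274198 0) (P.cons (P.lf 174222 0 0) P.nil)) (P.cons (P.cons (P.lf 7608 0 0) P.nil) P.nil)))))) 924332)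
 EL.nil)
noncomputable def S169_183_364_512_46 : EL := (EL.cons 15 (TM.mk (P.lf 4294967296 0 0) 0)
 EL.nil)
noncomputable def S169_183_364_512_47 : EL := (EL.cons 15 (TM.mk (P.cons (P.cons (P.lf 839237505 0 0) (P.cons (P.lf 0 418047260 0) (P.cons (P.lf 0 27949664 0) (P.lf 9316552 0 0)))) (P.cons (P.cons (P.lf 219812155 0 0) (P.cons (P.lf 0 54393236 0) (P.cons (P.lf 0 3636604 0) (P.lf 1212200 0 0)))) (P.cons (P.cons (P.lf 0 13422153 0) (P.cons (P.lf 0 1014932 0) (P.cons (P.lf 0 67856 0) (P.lf 22620 0 0)))) (P.cons (P.cons (P.lf 0 973828 0) (P.cons (P.lf 153380 0 0) (P.cons (P.lf 10252 0 0) P.nil))) (P.cons (P.cons (P.lf 19324 0 0) (P.cons (P.lf 7464 0 0) P.nil)) (P.cons (P.cons (P.lf 2526 0 0) P.nil) P.nil)))))) 4931)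
 EL.nil)
noncomputable def S169_183_364_512_48 : EL := (EL.cons 15 (TM.mk (P.cons (P.cons (P.lf 163987183 0 0) (P.cons (P.lf 0 163373043 0) (P.cons (P.lf 29767560 0 0) (P.cons (P.lf 9081829 0 0) (P.cons (P.lf 0 1631754 0) (P.cons (P.lf 0 121255 0) P.nil)))))) (P.cons (P.cons (P.lf 85902681 0 0) (P.cons (P.lf 0 64047385 0) (P.cons (P.lf 6306587 0 0) (P.cons (P.lf 2843216 0 0) (P.cons (P.lf 0 424623 0) P.nil))))) (P.cons (P.cons (P.lf 6004384 0 0) (P.cons (P.lf 0 3351349 0) (P.cons (P.lf 662370 0 0) (P.cons (P.lf 193217 0 0) P.nil)))) (P.cons (P.cons (P.lf 0 1754437 0) (P.cons (P.lf 485595 0 0) (P.cons (P.lf 28313 0 0) P.nil))) (P.cons (P.cons (P.lf 0 50181 0) (P.cons (P.lf 45864 0 0) P.nil)) (P.cons (P.cons (P.lf 9051 0 0) P.nil) P.nil)))))) 146007)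
 EL.nil)
noncomputable def S169_183_364_512 : SL := (SL.cons S169_183_364_512_0 (SL.cons S169_183_364_512_1 (SL.cons S169_183_364_512_2 (SL.cons S169_183_364_512_3 (SL.cons S169_183_364_512_4 (SL.cons S169_183_364_512_5 (SL.cons S169_183_364_512_6 (SL.cons S169_183_364_512_7 (SL.cons S169_183_364_512_8 (SL.cons S169_183_364_512_9 (SL.cons S169_183_364_512_10 (SL.cons S169_183_364_512_11 (SL.cons S169_183_364_512_12 (SL.cons S169_183_364_512_13 (SL.cons S169_183_364_512_14 (SL.cons S169_183_364_512_15 (SL.cons S169_183_364_512_16 (SL.cons S169_183_364_512_17 (SL.cons S169_183_364_512_18 (SL.cons S169_183_364_512_19 (SL.cons S169_183_364_512_20 (SL.cons S169_183_364_512_21 (SL.cons S169_183_364_512_22 (SL.cons S169_183_364_512_23 (SL.cons S169_183_364_512_24 (SL.cons S169_183_364_512_25 (SL.cons S169_183_364_512_26 (SL.cons S169_183_364_512_27 (SL.cons S169_183_364_512_28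 (SL.cons S169_183_364_512_29 (SL.cons S169_183_364_512_30 (SL.cons S169_183_364_512_31 (SL.cons S169_183_364_512_32 (SL.cons S169_183_364_512_33 (SL.cons S169_183_364_512_34 (SL.cons S169_183_364_512_35 (SL.cons S169_183_364_512_36 (SL.cons S169_183_364_512_37 (SL.cons S169_183_364_512_38 (SL.cons S169_183_364_512_39 (SL.cons S169_183_364_512_40 (SL.cons S169_183_364_512_41 (SL.cons S169_183_364_512_42 (SL.cons S169_183_364_512_43 (SL.cons S169_183_364_512_44 (SL.cons S169_183_364_512_45 (SL.cons S169_183_364_512_46 (SL.cons S169_183_364_512_47 (SL.cons S169_183_364_512_48 SL.nil)))))))))))))))))))))))))))))))))))))))))))))))))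
theorem S169_183_290_308_ok : band (seq (shp 5 169 183 290 308) S169_183_290_308) (sok S169_183_290_308) = true := by decide +kernel

theorem S169_183_290_364_ok : band (seq (shp 5 169 183 290 364) S169_183_290_364) (sok S169_183_290_364) = true := by decide +kernel

theorem S169_183_308_327_ok : band (seq (shp 5 169 183 308 327) S169_183_308_327) (sok S169_183_308_327) = true := by decide +kernel

theorem S169_183_364_401_ok : band (seq (shp 5 169 183 364 401) S169_183_364_401) (sok S169_183_364_401) = true := by decide +kernel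

theorem S169_183_364_438_ok : band (seq (shp 5 169 183 364 438) S169_183_364_438) (sok S169_183_364_438) = true := by decide +kernel

theorem S169_183_364_512_ok : band (seq (shp 5 169 183 364 512) S169_183_364_512) (sok S169_183_364_512) = true := by decide +kernel

end Vale.Agent.P098.Ck
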