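import Vale.Agent.P098.CkDefs

namespace Vale.Agent.P098.Ck

noncomputable def S183_198_290_364_0 : EL := (EL.cons 0 (TM.mk (P.cons (P.lf 6766532673 0 0) (P.cons (P.lf 328315225 0 0) (P.cons (P.lf 0 6915520 0) (P.cons (P.lf 0 1047332 0) (P.cons (P.lf 0 7546 0) (P.cons (P.lf 1573 0 0) P.nil)))))) 161)
 (EL.cons 1 (TM.mk (P.cons (P.lf 0 1616469420 0) (P.cons (P.lf 96098353 0 0) (P.cons (P.lf 12687056 0 0) (P.cons (P.lf 0 51723 0) (P.cons (P.lf 0 25867 0) (P.cons (P.lf 0 433 0) P.nil)))))) 140)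
 (EL.cons 5 (TM.mk (P.cons (P.lf 4895566122 0 0) (P.cons (P.lf 0 116734300 0) (P.cons (P.lf 2458850 0 0) (P.cons (P.lf 372384 0 0) (P.cons (P.lf 2686 0 0) (P.cons (P.lf 0 556 0) P.nil)))))) 123)
 (EL.cons 9 (TM.mk (P.lf 6442450944 0 0) 2)
 EL.nil))))
noncomputable def S183_198_290_364_1 : EL := (EL.cons 0 (TM.mk (P.cons (P.cons (P.lf 500707494 0 0) (P.cons (P.lf 0 68492005 0) (P.cons (P.lf 0 8819794 0) (P.lf 587992 0 0)))) (P.cons (P.cons (P.lf 1169359186 0 0) (P.cons (P.lf 0 60695298 0) (P.cons (P.lf 0 7815795 0) (P.lf 521048 0 0)))) (P.cons (P.cons (P.lf 0 1757220 0) (P.cons (P.lf 0 4860663 0) (P.cons (P.lf 0 625905 0) (P.lf 41719 0 0)))) (P.cons (P.cons (P.lf 0 12305371 0) (P.cons (P.lf 341019 0 0) (P.cons (P.lf 43911 0 0) P.nil))) (P.cons (P.cons (P.lf 0 269363 0) (P.cons (P.lf 46229 0 0) P.nil)) (P.cons (P.cons (P.lf 55718 0 0) P.nil) P.nil)))))) 24225)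
 (EL.cons 1 (TM.mk (P.cons (P.cons (P.lf 0 1452013605 0) (P.cons (P.lf 124962043 0 0) (P.cons (P.lf 16091493 0 0) (P.lf 0 1072762 0)))) (P.cons (P.cons (P.lf 0 83732135 0) (P.cons (P.lf 16956822 0 0) (P.cons (P.lf 2183540 0 0) (P.lf 0 145556 0)))) (P.cons (P.cons (P.lf 66659157 0 0) (P.cons (P.lf 0 2290887 0) (P.cons (P.lf 0 294996 0) (P.lf 19662 0 0)))) (P.cons (P.cons (P.lf 1728137 0 0) (P.cons (P.lf 0 311645 0) (P.cons (P.lf 0 40120 0) P.nil))) (P.cons (P.cons (P.lf 0 485301 0) (P.cons (P.lf 5181 0 0) P.nil)) (P.cons (P.cons (P.lf 0 18524 0) P.nil) P.nil)))))) 13973)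
 (EL.cons 5 (TM.mk (P.cons (P.cons (P.lf 3066824448 0 0) (P.cons (P.lf 0 269994772 0) (P.cons (P.lf 0 34767522 0) (P.lf 2317834 0 0)))) (P.cons (P.cons (P.lf 0 6985255 0) (P.cons (P.lf 0 11738464 0) (P.cons (P.lf 0 1511578 0) (P.lf 100778 0 0)))) (P.cons (P.cons (P.lf 0 36250340 0) (P.cons (P.lf 1801450 0 0) (P.cons (P.lf 231968 0 0) (P.lf 0 15456 0)))) (P.cons (P.cons (P.lf 2351853 0 0) (P.cons (P.lf 19428 0 0) (P.cons (P.lf 2506 0 0) P.nil))) (P.cons (P.cons (P.lf 183603 0 0) (P.cons (P.lf 0 12660 0) P.nil)) (P.cons (P.cons (P.lf 0 12913 0) P.nil) P.nil)))))) 12963)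
 (EL.cons 9 (TM.mk (P.cons (P.cons (P.lf 2863106272 0 0) (P.cons (P.lf 0 259718358 0) (P.cons (P.lf 0 33444216 0) (P.lf 2229612 0 0)))) (P.cons (P.cons (P.lf 360694318 0 0) (P.cons (P.lf 0 29399124 0) (P.cons (P.lf 0 3785754 0) (P.lf 252378 0 0)))) (P.cons (P.cons (P.lf 0 32536870 0) (P.cons (P.lf 64602 0 0) (P.cons (P.lf 8316 0 0) (P.lf 0 552 0)))) (P.cons (P.cons (P.lf 0 1785334 0) (P.cons (P.lf 124122 0 0) (P.cons (P.lf 15978 0 0) P.nil))) (P.cons (P.cons (P.lf 77491 0 0) (P.cons (P.lf 3330 0 0) P.nil)) (P.cons (P.cons (P.lf 6070 0 0) P.nil) P.nil)))))) 3029)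
 (EL.cons 2 (TM.mk (P.cons (P.cons (P.lf 585074483 0 0) (P.cons (P.lf 167025540 0 0) (P.cons (P.lf 0 12493240 0) (P.cons (P.lf 0 841860 0) (P.lf 42091 0 0))))) (P.cons (P.cons (P.lf 0 12706340 0) (P.cons (P.lf 0 3627371 0) (P.cons (P.lf 271319 0 0) (P.cons (P.lf 18284 0 0) (P.lf 0 914 0))))) (P.cons (P.cons (P.lf 0 6785926 0) (P.cons (P.lf 0 1937227 0) (P.cons (P.lf 144900 0 0) (P.cons (P.lf 9762 0 0) P.nil)))) (P.cons (P.cons (P.lf 0 139300 0) (P.cons (P.lf 0 39765 0) (P.cons (P.lf 2972 0 0) P.nil))) (P.cons (P.cons (P.lf 19425 0 0) (P.cons (P.lf 5543 0 0) P.nil)) (P.cons (P.cons (P.lf 798 0 0) P.nil) P.nil)))))) 2088)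
 (EL.cons 6 (TM.mk (P.cons (P.cons (P.lf 559888623 0 0) (P.cons (P.lf 159835548 0 0) (P.cons (P.lf 0 11955441 0) (P.cons (P.lf 0 805620 0) (P.lf 40278 0 0))))) (P.cons (P.cons (P.lf 63377250 0 0) (P.cons (P.lf 18092772 0 0) (P.cons (P.lf 0 1353309 0) (P.cons (P.lf 0 91191 0) (P.lf 4557 0 0))))) (P.cons (P.cons (P.lf 0 139278 0) (P.cons (P.lf 0 39759 0) (P.cons (P.lf 2973 0 0) (P.cons (P.lf 198 0 0) P.nil)))) (P.cons (P.cons (P.lf 0 267582 0) (P.cons (P.lf 0 76386 0) (P.cons (P.lf 5712 0 0) P.nil))) (P.cons (P.cons (P.lf 0 7179 0) (P.cons (P.lf 0 2049 0) P.nil)) (P.cons (P.cons (P.lf 477 0 0) P.nil) P.nil)))))) 1263)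
 EL.nil))))))
noncomputable def S183_198_290_364_2 : EL := (EL.cons 0 (TM.mk (P.cons (P.cons (P.lf 0 891365996 0) (P.cons (P.lf 141208571 0 0) (P.cons (P.lf 12709023 0 0) (P.cons (P.lf 0 2622161 0) (P.cons (P.lf 3215 0 0) (P.cons (P.lf 12102 0 0) P.nil)))))) (P.cons (P.cons (P.lf 693857731 0 0) (P.cons (P.lf 0 90714822 0) (P.cons (P.lf 0 9185824 0) (P.cons (P.lf 1421486 0 0) (P.cons (P.lf 0 1472 0) P.nil))))) (P.cons (P.cons (P.lf 118510954 0 0) (P.cons (P.lf 0 17737612 0) (P.cons (P.lf 0 1584602 0) (P.cons (P.lf 332409 0 0) P.nil)))) (P.cons (P.cons (P.lf 0 16734154 0) (P.cons (P.lf 808596 0 0) (P.cons (P.lf 125943 0 0) P.nil))) (P.cons (P.cons (P.lf 0 1959791 0) (P.cons (P.lf 273989 0 0) P.nil)) (P.cons (P.cons (P.lf 131314 0 0) P.nil) P.nil)))))) 181170)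
 (EL.cons 1 (TM.mk (P.cons (P.cons (P.lf 0 971329411 0) (P.cons (P.lf 170220274 0 0) (P.cons (P.lf 14471171 0 0) (P.cons (P.lf 0 3379533 0) (P.cons (P.lf 4372 0 0) (P.cons (P.lf 16463 0 0) P.nil)))))) (P.cons (P.cons (P.lf 0 175551041 0) (P.cons (P.lf 38657408 0 0) (P.cons (P.lf 2908849 0 0) (P.cons (P.lf 0 864723 0) (P.cons (P.lf 1204 0 0) P.nil))))) (P.cons (P.cons (P.lf 55061835 0 0) (P.cons (P.lf 0 4914325 0) (P.cons (P.lf 0 623982 0) (P.cons (P.lf 44459 0 0) P.nil)))) (P.cons (P.cons (P.lf 8847369 0 0) (P.cons (P.lf 0 1323278 0) (P.cons (P.lf 0 128361 0) P.nil))) (P.cons (P.cons (P.lf 0 788436 0) (P.cons (P.lf 4512 0 0) P.nil)) (P.cons (P.cons (P.lf 0 110792 0) P.nil) P.nil)))))) 99622)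
 (EL.cons 5 (TM.mk (P.cons (P.cons (P.lf 1758983980 0 0) (P.cons (P.lf 0 311830939 0) (P.cons (P.lf 0 26342095 0) (P.cons (P.lf 6234336 0 0) (P.cons (P.lf 0 8108 0) (P.cons (P.lf 0 30528 0) P.nil)))))) (P.cons (P.cons (P.lf 116635117 0 0) (P.cons (P.lf 0 30319956 0) (P.cons (P.lf 0 2105261 0) (P.cons (P.lf 723637 0 0) (P.cons (P.lf 0 1056 0) P.nil))))) (P.cons (P.cons (P.lf 0 52025962 0) (P.cons (P.lf 5614040 0 0) (P.cons (P.lf 620347 0 0) (P.cons (P.lf 0 74595 0) P.nil)))) (P.cons (P.cons (P.lf 22406 0 0) (P.cons (P.lf 345430 0 0) (P.cons (P.lf 24721 0 0) P.nil))) (P.cons (P.cons (P.lf 734544 0 0) (P.cons (P.lf 0 67658 0) P.nil)) (P.cons (P.cons (P.lf 0 10279 0) P.nil) P.nil)))))) 104161)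
 (EL.cons 9 (TM.mk (P.cons (P.cons (P.lf 1272400456 0 0) (P.cons (P.lf 0 230844213 0) (P.cons (P.lf 0 19255879 0) (P.cons (P.lf 4678248 0 0) (P.cons (P.lf 0 6150 0) (P.cons (P.lf 0 23148 0) P.nil)))))) (P.cons (P.cons (P.lf 320594187 0 0) (P.cons (P.lf 0 55212450 0) (P.cons (P.lf 0 4739395 0) (P.cons (P.lf 1084447 0 0) (P.cons (P.lf 0 1392 0) P.nil))))) (P.cons (P.cons (P.lf 0 8725350 0) (P.cons (P.lf 0 611167 0) (P.cons (P.lf 50245 0 0) (P.cons (P.lf 38458 0 0) P.nil)))) (P.cons (P.cons (P.lf 0 5230141 0) (P.cons (P.lf 558456 0 0) (P.cons (P.lf 61309 0 0) P.nil))) (P.cons (P.cons (P.lf 33288 0 0) (P.cons (P.lf 26251 0 0) P.nil)) (P.cons (P.cons (P.lf 32104 0 0) P.nil) P.nil)))))) 33689)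
 (EL.cons 2 (TM.mk (P.cons (P.cons (P.lf 520028921 0 0) (P.cons (P.lf 101283592 0 0) (P.cons (P.lf 0 30645613 0) (P.cons (P.lf 0 1070139 0) (P.cons (P.lf 350606 0 0) (P.cons (P.lf 0 3296 0) P.nil)))))) (P.cons (P.cons (P.lf 54219560 0 0) (P.cons (P.lf 11163138 0 0) (P.cons (P.lf 0 2945373 0) (P.cons (P.lf 0 107460 0) (P.cons (P.lf 32546 0 0) P.nil))))) (P.cons (P.cons (P.lf 0 13363987 0) (P.cons (P.lf 0 3140285 0) (P.cons (P.lf 564907 0 0) (P.cons (P.lf 23833 0 0) P.nil)))) (P.cons (P.cons (P.lf 0 1079589 0) (P.cons (P.lf 0 212743 0) (P.cons (P.lf 62589 0 0) P.nil))) (P.cons (P.cons (P.lf 91327 0 0) (P.cons (P.lf 25751 0 0) P.nil)) (P.cons (P.cons (P.lf 8848 0 0) P.nil) P.nil)))))) 29159)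
 (EL.cons 6 (TM.mk (P.cons (P.cons (P.lf 497643096 0 0) (P.cons (P.lf 96923610 0 0) (P.cons (P.lf 0 29326398 0) (P.cons (P.lf 0 1024068 0) (P.cons (P.lf 335514 0 0) (P.cons (P.lf 0 3156 0) P.nil)))))) (P.cons (P.cons (P.lf 119024400 0 0) (P.cons (P.lf 23758914 0 0) (P.cons (P.lf 0 6775116 0) (P.cons (P.lf 0 240996 0) (P.cons (P.lf 76410 0 0) P.nil))))) (P.cons (P.cons (P.lf 1317516 0 0) (P.cons (P.lf 0 179844 0) (P.cons (P.lf 0 258438 0) (P.cons (P.lf 0 5688 0) P.nil)))) (P.cons (P.cons (P.lf 0 1203900 0) (P.cons (P.lf 0 297990 0) (P.cons (P.lf 44628 0 0) P.nil))) (P.cons (P.cons (P.lf 0 56592 0) (P.cons (P.lf 0 10110 0) P.nil)) (P.cons (P.cons (P.lf 4980 0 0) P.nil) P.nil)))))) 26178)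
 EL.nil))))))
noncomputable def S183_198_290_364_3 : EL := (EL.cons 0 (TM.mk (P.cons (P.lf 1689184190 0 0) (P.cons (P.lf 0 328315225 0) (P.cons (P.lf 6915520 0 0) (P.cons (P.lf 1047332 0 0) (P.cons (P.lf 7546 0 0) (P.cons (P.lf 0 1573 0) P.nil)))))) 161)
 (EL.cons 1 (TM.mk (P.cons (P.lf 1616469420 0 0) (P.cons (P.lf 0 96098353 0) (P.cons (P.lf 0 12687056 0) (P.cons (P.lf 51723 0 0) (P.cons (P.lf 25867 0 0) (P.cons (P.lf 433 0 0) P.nil)))))) 140)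
 (EL.cons 5 (TM.mk (P.cons (P.lf 1546884822 0 0) (P.cons (P.lf 116734300 0 0) (P.cons (P.lf 0 2458850 0) (P.cons (P.lf 0 372384 0) (P.cons (P.lf 0 2686 0) (P.cons (P.lf 556 0 0) P.nil)))))) 116)
 EL.nil)))
noncomputable def S183_198_290_364_4 : EL := (EL.cons 0 (TM.mk (P.cons (P.cons (P.lf 750694710 0 0) (P.cons (P.lf 0 68097086 0) (P.cons (P.lf 0 8768935 0) (P.lf 584593 0 0)))) (P.cons (P.cons (P.lf 0 51334846 0) (P.cons (P.lf 5527235 0 0) (P.cons (P.lf 711748 0 0) (P.lf 0 47450 0)))) (P.cons (P.cons (P.lf 0 23839113 0) (P.cons (P.lf 1236362 0 0) (P.cons (P.lf 159206 0 0) (P.lf 0 10611 0)))) (P.cons (P.cons (P.lf 2042637 0 0) (P.cons (P.lf 0 44527 0) (P.cons (P.lf 0 5733 0) P.nil))) (P.cons (P.cons (P.lf 138364 0 0) (P.cons (P.lf 0 10466 0) P.nil)) (P.cons (P.cons (P.lf 0 9838 0) P.nil) P.nil)))))) 4585)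
 (EL.cons 1 (TM.mk (P.cons (P.cons (P.lf 718379351 0 0) (P.cons (P.lf 0 65165692 0) (P.cons (P.lf 0 8391455 0) (P.lf 559428 0 0)))) (P.cons (P.cons (P.lf 47794158 0 0) (P.cons (P.lf 0 3502436 0) (P.cons (P.lf 0 451010 0) (P.lf 30063 0 0)))) (P.cons (P.cons (P.lf 0 19182354 0) (P.cons (P.lf 966198 0 0) (P.cons (P.lf 124417 0 0) (P.lf 0 8293 0)))) (P.cons (P.cons (P.lf 0 649946 0) (P.cons (P.lf 85989 0 0) (P.cons (P.lf 11070 0 0) P.nil))) (P.cons (P.cons (P.lf 124539 0 0) (P.cons (P.lf 0 2420 0) P.nil)) (P.cons (P.cons (P.lf 5261 0 0) P.nil) P.nil)))))) 3409)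
 (EL.cons 5 (TM.mk (P.cons (P.cons (P.lf 687455080 0 0) (P.cons (P.lf 0 62360486 0) (P.cons (P.lf 0 8030226 0) (P.lf 535346 0 0)))) (P.cons (P.cons (P.lf 138483828 0 0) (P.cons (P.lf 0 11764946 0) (P.cons (P.lf 0 1514984 0) (P.lf 100996 0 0)))) (P.cons (P.cons (P.lf 0 2369492 0) (P.cons (P.lf 0 418060 0) (P.cons (P.lf 0 53834 0) (P.lf 3588 0 0)))) (P.cons (P.cons (P.lf 0 1321382 0) (P.cons (P.lf 57204 0 0) (P.cons (P.lf 7364 0 0) P.nil))) (P.cons (P.cons (P.lf 0 23366 0) (P.cons (P.lf 4830 0 0) P.nil)) (P.cons (P.cons (P.lf 5520 0 0) P.nil) P.nil)))))) 2416)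
 EL.nil)))
noncomputable def S183_198_290_364_5 : EL := (EL.cons 0 (TM.mk (P.cons (P.cons (P.lf 333618175 0 0) (P.cons (P.lf 0 60526404 0) (P.cons (P.lf 0 5048811 0) (P.cons (P.lf 1226617 0 0) (P.cons (P.lf 0 1611 0) (P.cons (P.lf 0 6067 0) P.nil)))))) (P.cons (P.cons (P.lf 19215386 0 0) (P.cons (P.lf 0 2712371 0) (P.cons (P.lf 0 261346 0) (P.cons (P.lf 45928 0 0) (P.cons (P.lf 0 50 0) P.nil))))) (P.cons (P.cons (P.lf 0 17259790 0) (P.cons (P.lf 2405652 0 0) (P.cons (P.lf 234028 0 0) (P.cons (P.lf 0 40158 0) P.nil)))) (P.cons (P.cons (P.lf 0 375679 0) (P.cons (P.lf 80775 0 0) (P.cons (P.lf 5296 0 0) P.nil))) (P.cons (P.cons (P.lf 319503 0 0) (P.cons (P.lf 0 31477 0) P.nil)) (P.cons (P.cons (P.lf 0 246 0) P.nil) P.nil)))))) 25123)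
 (EL.cons 1 (TM.mk (P.cons (P.cons (P.lf 319256823 0 0) (P.cons (P.lf 0 57920906 0) (P.cons (P.lf 0 4831473 0) (P.cons (P.lf 1173813 0 0) (P.cons (P.lf 0 1541 0) (P.cons (P.lf 0 5806 0) P.nil)))))) (P.cons (P.cons (P.lf 61460321 0 0) (P.cons (P.lf 0 10409932 0) (P.cons (P.lf 0 901927 0) (P.cons (P.lf 202314 0 0) (P.cons (P.lf 0 256 0) P.nil))))) (P.cons (P.cons (P.lf 0 9477114 0) (P.cons (P.lf 1124823 0 0) (P.cons (P.lf 121220 0 0) (P.cons (P.lf 0 15738 0) P.nil)))) (P.cons (P.cons (P.lf 0 1803264 0) (P.cons (P.lf 256113 0 0) (P.cons (P.lf 23810 0 0) P.nil))) (P.cons (P.cons (P.lf 111232 0 0) (P.cons (P.lf 0 1908 0) P.nil)) (P.cons (P.cons (P.lf 19160 0 0) P.nil) P.nil)))))) 19771)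
 (EL.cons 5 (TM.mk (P.cons (P.cons (P.lf 305513688 0 0) (P.cons (P.lf 0 55427570 0) (P.cons (P.lf 0 4623492 0) (P.cons (P.lf 1123284 0 0) (P.cons (P.lf 0 1474 0) (P.cons (P.lf 0 5556 0) P.nil)))))) (P.cons (P.cons (P.lf 100032590 0 0) (P.cons (P.lf 0 17439750 0) (P.cons (P.lf 0 1486874 0) (P.cons (P.lf 345150 0 0) (P.cons (P.lf 0 444 0) P.nil))))) (P.cons (P.cons (P.lf 3228364 0 0) (P.cons (P.lf 0 1059064 0) (P.cons (P.lf 0 66462 0) (P.cons (P.lf 27098 0 0) P.nil)))) (P.cons (P.cons (P.lf 0 1609804 0) (P.cons (P.lf 157430 0 0) (P.cons (P.lf 18552 0 0) P.nil))) (P.cons (P.cons (P.lf 0 102504 0) (P.cons (P.lf 19942 0 0) P.nil)) (P.cons (P.cons (P.lf 10788 0 0) P.nil) P.nil)))))) 15152)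
 EL.nil)))
noncomputable def S183_198_290_364_6 : EL := (EL.cons 12 (TM.mk (P.lf 8589934592 0 0) 0)
 (EL.cons 3 (TM.mk (P.cons (P.lf 0 1904598495 0) (P.cons (P.lf 185091918 0 0) (P.cons (P.lf 5095050 0 0) (P.cons (P.lf 0 95302 0) (P.cons (P.lf 0 6701 0) (P.cons (P.lf 0 18 0) P.nil)))))) 59)
 (EL.cons 7 (TM.mk (P.cons (P.lf 0 1822610727 0) (P.cons (P.lf 0 68770857 0) (P.cons (P.lf 2745999 0 0) (P.cons (P.lf 115768 0 0) (P.cons (P.lf 0 717 0) (P.cons (P.lf 0 127 0) P.nil)))))) 49)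
 EL.nil)))
noncomputable def S183_198_290_364_7 : EL := (EL.cons 12 (TM.mk (P.cons (P.cons (P.lf 3817475030 0 0) (P.cons (P.lf 0 346291144 0) (P.cons (P.lf 0 44592288 0) (P.lf 2972816 0 0)))) (P.cons (P.cons (P.lf 480925758 0 0) (P.cons (P.lf 0 39198832 0) (P.cons (P.lf 0 5047672 0) (P.lf 336504 0 0)))) (P.cons (P.cons (P.lf 0 43382494 0) (P.cons (P.lf 86136 0 0) (P.cons (P.lf 11088 0 0) (P.lf 0 736 0)))) (P.cons (P.cons (P.lf 0 2380446 0) (P.cons (P.lf 165496 0 0) (P.cons (P.lf 21304 0 0) P.nil))) (P.cons (P.cons (P.lf 103322 0 0) (P.cons (P.lf 4440 0 0) P.nil)) (P.cons (P.cons (P.lf 8094 0 0) P.nil) P.nil)))))) 4014)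
 (EL.cons 3 (TM.mk (P.cons (P.cons (P.lf 1979630680 0 0) (P.cons (P.lf 0 153562422 0) (P.cons (P.lf 0 19774400 0) (P.lf 1318290 0 0)))) (P.cons (P.cons (P.lf 0 476552718 0) (P.cons (P.lf 0 2459236 0) (P.cons (P.lf 0 316676 0) (P.lf 21106 0 0)))) (P.cons (P.cons (P.lf 0 33427225 0) (P.cons (P.lf 2138272 0 0) (P.cons (P.lf 275344 0 0) (P.lf 0 18354 0)))) (P.cons (P.cons (P.lf 2003887 0 0) (P.cons (P.lf 108492 0 0) (P.cons (P.lf 13966 0 0) P.nil))) (P.cons (P.cons (P.lf 228572 0 0) (P.cons (P.lf 0 6674 0) P.nil)) (P.cons (P.cons (P.lf 0 750 0) P.nil) P.nil)))))) 9973)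
 (EL.cons 7 (TM.mk (P.cons (P.cons (P.lf 0 1860012398 0) (P.cons (P.lf 159060122 0 0) (P.cons (P.lf 20482350 0 0) (P.lf 0 1365492 0)))) (P.cons (P.cons (P.lf 177063046 0 0) (P.cons (P.lf 913730 0 0) (P.cons (P.lf 117664 0 0) (P.lf 0 7848 0)))) (P.cons (P.cons (P.lf 475774 0 0) (P.cons (P.lf 0 856114 0) (P.cons (P.lf 0 110243 0) (P.lf 7347 0 0)))) (P.cons (P.cons (P.lf 0 1630127 0) (P.cons (P.lf 32339 0 0) (P.cons (P.lf 4160 0 0) P.nil))) (P.cons (P.cons (P.lf 4241 0 0) (P.cons (P.lf 4945 0 0) P.nil)) (P.cons (P.cons (P.lf 6838 0 0) P.nil) P.nil)))))) 7638)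
 (EL.cons 10 (TM.mk (P.cons (P.cons (P.lf 0 1319372970 0) (P.cons (P.lf 0 376651167 0) (P.cons (P.lf 28172901 0 0) (P.cons (P.lf 1898442 0 0) (P.lf 0 94920 0))))) (P.cons (P.cons (P.lf 0 99565317 0) (P.cons (P.lf 0 28423647 0) (P.cons (P.lf 2126043 0 0) (P.cons (P.lf 143262 0 0) (P.lf 0 7161 0))))) (P.cons (P.cons (P.lf 2097207 0 0) (P.cons (P.lf 598704 0 0) (P.cons (P.lf 0 44781 0) (P.cons (P.lf 0 3015 0) P.nil)))) (P.cons (P.cons (P.lf 317613 0 0) (P.cons (P.lf 90669 0 0) (P.cons (P.lf 0 6780 0) P.nil))) (P.cons (P.cons (P.lf 2289 0 0) (P.cons (P.lf 654 0 0) P.nil)) (P.cons (P.cons (P.lf 0 474 0) P.nil) P.nil)))))) 1065)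
 EL.nil))))
noncomputable def S183_198_290_364_8 : EL := (EL.cons 12 (TM.mk (P.cons (P.cons (P.lf 1696533942 0 0) (P.cons (P.lf 0 307792284 0) (P.cons (P.lf 0 25674506 0) (P.cons (P.lf 6237664 0 0) (P.cons (P.lf 0 8200 0) (P.cons (P.lf 0 30864 0) P.nil)))))) (P.cons (P.cons (P.lf 427458916 0 0) (P.cons (P.lf 0 73616600 0) (P.cons (P.lf 0 6319194 0) (P.cons (P.lf 1445930 0 0) (P.cons (P.lf 0 1856 0) P.nil))))) (P.cons (P.cons (P.lf 0 11633800 0) (P.cons (P.lf 0 814890 0) (P.cons (P.lf 66994 0 0) (P.cons (P.lf 51278 0 0) P.nil)))) (P.cons (P.cons (P.lf 0 6973522 0) (P.cons (P.lf 744608 0 0) (P.cons (P.lf 81746 0 0) P.nil))) (P.cons (P.cons (P.lf 44384 0 0) (P.cons (P.lf 35002 0 0) P.nil)) (P.cons (P.cons (P.lf 42806 0 0) P.nil) P.nil)))))) 44890)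
 (EL.cons 3 (TM.mk (P.cons (P.cons (P.lf 2135708619 0 0) (P.cons (P.lf 0 364347277 0) (P.cons (P.lf 0 31440759 0) (P.cons (P.lf 7113702 0 0) (P.cons (P.lf 0 9091 0) (P.cons (P.lf 0 34216 0) P.nil)))))) (P.cons (P.cons (P.lf 0 143682414 0) (P.cons (P.lf 0 8715670 0) (P.cons (P.lf 877422 0 0) (P.cons (P.lf 589825 0 0) (P.cons (P.lf 0 1170 0) P.nil))))) (P.cons (P.cons (P.lf 0 115864861 0) (P.cons (P.lf 11848609 0 0) (P.cons (P.lf 1334451 0 0) (P.cons (P.lf 0 150976 0) P.nil)))) (P.cons (P.cons (P.lf 224233 0 0) (P.cons (P.lf 878952 0 0) (P.cons (P.lf 70384 0 0) P.nil))) (P.cons (P.cons (P.lf 1249999 0 0) (P.cons (P.lf 0 80274 0) P.nil)) (P.cons (P.cons (P.lf 28360 0 0) P.nil) P.nil)))))) 112926)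
 (EL.cons 7 (TM.mk (P.cons (P.cons (P.lf 0 1293255574 0) (P.cons (P.lf 226036899 0 0) (P.cons (P.lf 19244527 0 0) (P.cons (P.lf 0 4480472 0) (P.cons (P.lf 5789 0 0) (P.cons (P.lf 21800 0 0) P.nil)))))) (P.cons (P.cons (P.lf 53385160 0 0) (P.cons (P.lf 3238311 0 0) (P.cons (P.lf 0 325999 0) (P.cons (P.lf 0 219161 0) (P.cons (P.lf 441 0 0) P.nil))))) (P.cons (P.cons (P.lf 39448372 0 0) (P.cons (P.lf 0 4620792 0) (P.cons (P.lf 0 473821 0) (P.cons (P.lf 70876 0 0) P.nil)))) (P.cons (P.cons (P.lf 0 3885495 0) (P.cons (P.lf 73608 0 0) (P.cons (P.lf 18009 0 0) P.nil))) (P.cons (P.cons (P.lf 0 374760 0) (P.cons (P.lf 54044 0 0) P.nil)) (P.cons (P.cons (P.lf 35390 0 0) P.nil) P.nil)))))) 62562)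
 (EL.cons 10 (TM.mk (P.cons (P.cons (P.lf 0 1172691900 0) (P.cons (P.lf 0 228399696 0) (P.cons (P.lf 69107430 0 0) (P.cons (P.lf 2413218 0 0) (P.cons (P.lf 0 790638 0) (P.cons (P.lf 7440 0 0) P.nil)))))) (P.cons (P.cons (P.lf 0 236231958 0) (P.cons (P.lf 0 47369706 0) (P.cons (P.lf 13357944 0 0) (P.cons (P.lf 476850 0 0) (P.cons (P.lf 0 150234 0) P.nil))))) (P.cons (P.cons (P.lf 4041984 0 0) (P.cons (P.lf 1867044 0 0) (P.cons (P.lf 209112 0 0) (P.cons (P.lf 0 948 0) P.nil)))) (P.cons (P.cons (P.lf 2254068 0 0) (P.cons (P.lf 545898 0 0) (P.cons (P.lf 0 88548 0) P.nil))) (P.cons (P.cons (P.lf 39858 0 0) (P.cons (P.lf 3132 0 0) P.nil)) (P.cons (P.cons (P.lf 0 9414 0) P.nil) P.nil)))))) 44766)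
 EL.nil))))
noncomputable def S183_198_290_364_9 : EL := (EL.cons 3 (TM.mk (P.cons (P.lf 0 1904598495 0) (P.cons (P.lf 185091918 0 0) (P.cons (P.lf 5095050 0 0) (P.cons (P.lf 0 95302 0) (P.cons (P.lf 0 6701 0) (P.cons (P.lf 0 18 0) P.nil)))))) 59)
 (EL.cons 7 (TM.mk (P.cons (P.lf 0 1822610727 0) (P.cons (P.lf 0 68770857 0) (P.cons (P.lf 2745999 0 0) (P.cons (P.lf 115768 0 0) (P.cons (P.lf 0 717 0) (P.cons (P.lf 0 127 0) P.nil)))))) 49)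
 EL.nil))
noncomputable def S183_198_290_364_10 : EL := (EL.cons 3 (TM.mk (P.cons (P.cons (P.lf 0 846427538 0) (P.cons (P.lf 76781211 0 0) (P.cons (P.lf 9887200 0 0) (P.lf 0 659145 0)))) (P.cons (P.cons (P.lf 0 24375819 0) (P.cons (P.lf 1229618 0 0) (P.cons (P.lf 158338 0 0) (P.lf 0 10553 0)))) (P.cons (P.cons (P.lf 22246028 0 0) (P.cons (P.lf 0 1069136 0) (P.cons (P.lf 0 137672 0) (P.lf 9177 0 0)))) (P.cons (P.cons (P.lf 0 164078 0) (P.cons (P.lf 0 54246 0) (P.cons (P.lf 0 6983 0) P.nil))) (P.cons (P.cons (P.lf 0 108247 0) (P.cons (P.lf 3337 0 0) P.nil)) (P.cons (P.cons (P.lf 0 882 0) P.nil) P.nil)))))) 2409)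
 (EL.cons 7 (TM.mk (P.cons (P.cons (P.lf 0 809991143 0) (P.cons (P.lf 73475990 0 0) (P.cons (P.lf 9461583 0 0) (P.lf 0 630771 0)))) (P.cons (P.cons (P.lf 0 132605372 0) (P.cons (P.lf 11089601 0 0) (P.cons (P.lf 1428019 0 0) (P.lf 0 95199 0)))) (P.cons (P.cons (P.lf 6574963 0 0) (P.cons (P.lf 184847 0 0) (P.cons (P.lf 23803 0 0) (P.lf 0 1587 0)))) (P.cons (P.cons (P.lf 1057591 0 0) (P.cons (P.lf 0 53002 0) (P.cons (P.lf 0 6823 0) P.nil))) (P.cons (P.cons (P.lf 0 10570 0) (P.cons (P.lf 0 2738 0) P.nil)) (P.cons (P.cons (P.lf 0 3986 0) P.nil) P.nil)))))) 1592)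
 EL.nil))
noncomputable def S183_198_290_364_11 : EL := (EL.cons 3 (TM.mk (P.cons (P.cons (P.lf 0 376163049 0) (P.cons (P.lf 68245073 0 0) (P.cons (P.lf 5692665 0 0) (P.cons (P.lf 0 1383042 0) (P.cons (P.lf 1817 0 0) (P.cons (P.lf 6842 0 0) P.nil)))))) (P.cons (P.cons (P.lf 0 58221966 0) (P.cons (P.lf 9690434 0 0) (P.cons (P.lf 847896 0 0) (P.cons (P.lf 0 186191 0) (P.cons (P.lf 234 0 0) P.nil))))) (P.cons (P.cons (P.lf 12796469 0 0) (P.cons (P.lf 0 1588139 0) (P.cons (P.lf 0 166245 0) (P.cons (P.lf 23486 0 0) P.nil)))) (P.cons (P.cons (P.lf 1530241 0 0) (P.cons (P.lf 0 222906 0) (P.cons (P.lf 0 20144 0) P.nil))) (P.cons (P.cons (P.lf 0 173069 0) (P.cons (P.lf 8856 0 0) P.nil)) (P.cons (P.cons (P.lf 0 12878 0) P.nil) P.nil)))))) 18128)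
 (EL.cons 7 (TM.mk (P.cons (P.cons (P.lf 0 359970256 0) (P.cons (P.lf 65307309 0 0) (P.cons (P.lf 5447611 0 0) (P.cons (P.lf 0 1323506 0) (P.cons (P.lf 1739 0 0) (P.cons (P.lf 6548 0 0) P.nil)))))) (P.cons (P.cons (P.lf 0 104280572 0) (P.cons (P.lf 18084135 0 0) (P.cons (P.lf 1546355 0 0) (P.cons (P.lf 0 356735 0) (P.cons (P.lf 459 0 0) P.nil))))) (P.cons (P.cons (P.lf 0 411428 0) (P.cons (P.lf 663882 0 0) (P.cons (P.lf 28169 0 0) (P.cons (P.lf 0 20462 0) P.nil)))) (P.cons (P.cons (P.lf 1732293 0 0) (P.cons (P.lf 0 179148 0) (P.cons (P.lf 0 20247 0) P.nil))) (P.cons (P.cons (P.lf 48312 0 0) (P.cons (P.lf 0 14614 0) P.nil)) (P.cons (P.cons (P.lf 0 11884 0) P.nil) P.nil)))))) 13034)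
 EL.nil))
noncomputable def S183_198_290_364_12 : EL := (EL.cons 4 (TM.mk (P.cons (P.lf 1904598495 0 0) (P.cons (P.lf 0 185091918 0) (P.cons (P.lf 0 5095050 0) (P.cons (P.lf 95302 0 0) (P.cons (P.lf 6701 0 0) (P.cons (P.lf 18 0 0) P.nil)))))) 59)
 (EL.cons 8 (TM.mk (P.cons (P.lf 1822610727 0 0) (P.cons (P.lf 68770857 0 0) (P.cons (P.lf 0 2745999 0) (P.cons (P.lf 0 115768 0) (P.cons (P.lf 717 0 0) (P.cons (P.lf 127 0 0) P.nil)))))) 49)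
 EL.nil))
noncomputable def S183_198_290_364_13 : EL := (EL.cons 4 (TM.mk (P.cons (P.cons (P.lf 846427538 0 0) (P.cons (P.lf 0 76781211 0) (P.cons (P.lf 0 9887200 0) (P.lf 659145 0 0)))) (P.cons (P.cons (P.lf 24375819 0 0) (P.cons (P.lf 0 1229618 0) (P.cons (P.lf 0 158338 0) (P.lf 10553 0 0)))) (P.cons (P.cons (P.lf 0 22246028 0) (P.cons (P.lf 1069136 0 0) (P.cons (P.lf 137672 0 0) (P.lf 0 9177 0)))) (P.cons (P.cons (P.lf 164078 0 0) (P.cons (P.lf 54246 0 0) (P.cons (P.lf 6983 0 0) P.nil))) (P.cons (P.cons (P.lf 108247 0 0) (P.cons (P.lf 0 3337 0) P.nil)) (P.cons (P.cons (P.lf 882 0 0) P.nil) P.nil)))))) 2409)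
 (EL.cons 8 (TM.mk (P.cons (P.cons (P.lf 809991143 0 0) (P.cons (P.lf 0 73475990 0) (P.cons (P.lf 0 9461583 0) (P.lf 630771 0 0)))) (P.cons (P.cons (P.lf 132605372 0 0) (P.cons (P.lf 0 11089601 0) (P.cons (P.lf 0 1428019 0) (P.lf 95199 0 0)))) (P.cons (P.cons (P.lf 0 6574963 0) (P.cons (P.lf 0 184847 0) (P.cons (P.lf 0 23803 0) (P.lf 1587 0 0)))) (P.cons (P.cons (P.lf 0 1057591 0) (P.cons (P.lf 53002 0 0) (P.cons (P.lf 6823 0 0) P.nil))) (P.cons (P.cons (P.lf 10570 0 0) (P.cons (P.lf 2738 0 0) P.nil)) (P.cons (P.cons (P.lf 3986 0 0) P.nil) P.nil)))))) 1592)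
 EL.nil))
noncomputable def S183_198_290_364_14 : EL := (EL.cons 4 (TM.mk (P.cons (P.cons (P.lf 376163049 0 0) (P.cons (P.lf 0 68245073 0) (P.cons (P.lf 0 5692665 0) (P.cons (P.lf 1383042 0 0) (P.cons (P.lf 0 1817 0) (P.cons (P.lf 0 6842 0) P.nil)))))) (P.cons (P.cons (P.lf 58221966 0 0) (P.cons (P.lf 0 9690434 0) (P.cons (P.lf 0 847896 0) (P.cons (P.lf 186191 0 0) (P.cons (P.lf 0 234 0) P.nil))))) (P.cons (P.cons (P.lf 0 12796469 0) (P.cons (P.lf 1588139 0 0) (P.cons (P.lf 166245 0 0) (P.cons (P.lf 0 23486 0) P.nil)))) (P.cons (P.cons (P.lf 0 1530241 0) (P.cons (P.lf 222906 0 0) (P.cons (P.lf 20144 0 0) P.nil))) (P.cons (P.cons (P.lf 173069 0 0) (P.cons (P.lf 0 8856 0) P.nil)) (P.cons (P.cons (P.lf 12878 0 0) P.nil) P.nil)))))) 18128)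
 (EL.cons 8 (TM.mk (P.cons (P.cons (P.lf 359970256 0 0) (P.cons (P.lf 0 65307309 0) (P.cons (P.lf 0 5447611 0) (P.cons (P.lf 1323506 0 0) (P.cons (P.lf 0 1739 0) (P.cons (P.lf 0 6548 0) P.nil)))))) (P.cons (P.cons (P.lf 104280572 0 0) (P.cons (P.lf 0 18084135 0) (P.cons (P.lf 0 1546355 0) (P.cons (P.lf 356735 0 0) (P.cons (P.lf 0 459 0) P.nil))))) (P.cons (P.cons (P.lf 411428 0 0) (P.cons (P.lf 0 663882 0) (P.cons (P.lf 0 28169 0) (P.cons (P.lf 20462 0 0) P.nil)))) (P.cons (P.cons (P.lf 0 1732293 0) (P.cons (P.lf 179148 0 0) (P.cons (P.lf 20247 0 0) P.nil))) (P.cons (P.cons (P.lf 0 48312 0) (P.cons (P.lf 14614 0 0) P.nil)) (P.cons (P.cons (P.lf 11884 0 0) P.nil) P.nil)))))) 13034)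
 EL.nil))
noncomputable def S183_198_290_364_15 : EL := (EL.cons 4 (TM.mk (P.cons (P.lf 0 900898234 0) (P.cons (P.lf 175101453 0 0) (P.cons (P.lf 0 3688277 0) (P.cons (P.lf 0 558577 0) (P.cons (P.lf 0 4024 0) (P.cons (P.lf 839 0 0) P.nil)))))) 89)
 (EL.cons 8 (TM.mk (P.cons (P.lf 0 862117024 0) (P.cons (P.lf 51252455 0 0) (P.cons (P.lf 6766430 0 0) (P.cons (P.lf 0 27586 0) (P.cons (P.lf 0 13796 0) (P.cons (P.lf 0 231 0) P.nil)))))) 71)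
 EL.nil))
noncomputable def S183_198_290_364_16 : EL := (EL.cons 4 (TM.mk (P.cons (P.cons (P.lf 0 400370512 0) (P.cons (P.lf 36318446 0 0) (P.cons (P.lf 4676765 0 0) (P.lf 0 311783 0)))) (P.cons (P.cons (P.lf 27378585 0 0) (P.cons (P.lf 0 2947859 0) (P.cons (P.lf 0 379599 0) (P.lf 25306 0 0)))) (P.cons (P.cons (P.lf 12714194 0 0) (P.cons (P.lf 0 659393 0) (P.cons (P.lf 0 84910 0) (P.lf 5659 0 0)))) (P.cons (P.cons (P.lf 0 1089406 0) (P.cons (P.lf 23747 0 0) (P.cons (P.lf 3058 0 0) P.nil))) (P.cons (P.cons (P.lf 0 73794 0) (P.cons (P.lf 5581 0 0) P.nil)) (P.cons (P.cons (P.lf 5247 0 0) P.nil) P.nil)))))) 2454)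
 (EL.cons 8 (TM.mk (P.cons (P.cons (P.lf 0 383135654 0) (P.cons (P.lf 34755036 0 0) (P.cons (P.lf 4475443 0 0) (P.lf 0 298362 0)))) (P.cons (P.cons (P.lf 0 25490218 0) (P.cons (P.lf 1867966 0 0) (P.cons (P.lf 240539 0 0) (P.lf 0 16034 0)))) (P.cons (P.cons (P.lf 10230589 0 0) (P.cons (P.lf 0 515306 0) (P.cons (P.lf 0 66356 0) (P.lf 4423 0 0)))) (P.cons (P.cons (P.lf 346638 0 0) (P.cons (P.lf 0 45861 0) (P.cons (P.lf 0 5904 0) P.nil))) (P.cons (P.cons (P.lf 0 66421 0) (P.cons (P.lf 1291 0 0) P.nil)) (P.cons (P.cons (P.lf 0 2806 0) P.nil) P.nil)))))) 1808)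
 EL.nil))
noncomputable def S183_198_290_364_17 : EL := (EL.cons 4 (TM.mk (P.cons (P.cons (P.lf 0 177929693 0) (P.cons (P.lf 32280749 0 0) (P.cons (P.lf 2692699 0 0) (P.cons (P.lf 0 654195 0) (P.cons (P.lf 859 0 0) (P.cons (P.lf 3236 0 0) P.nil)))))) (P.cons (P.cons (P.lf 0 10248206 0) (P.cons (P.lf 1446598 0 0) (P.cons (P.lf 139384 0 0) (P.cons (P.lf 0 24495 0) (P.cons (P.lf 27 0 0) P.nil))))) (P.cons (P.cons (P.lf 9205221 0 0) (P.cons (P.lf 0 1283014 0) (P.cons (P.lf 0 124815 0) (P.cons (P.lf 21418 0 0) P.nil)))) (P.cons (P.cons (P.lf 200362 0 0) (P.cons (P.lf 0 43080 0) (P.cons (P.lf 0 2824 0) P.nil))) (P.cons (P.cons (P.lf 0 170401 0) (P.cons (P.lf 16787 0 0) P.nil)) (P.cons (P.cons (P.lf 131 0 0) P.nil) P.nil)))))) 13409)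
 (EL.cons 8 (TM.mk (P.cons (P.cons (P.lf 0 170270306 0) (P.cons (P.lf 30891150 0 0) (P.cons (P.lf 2576786 0 0) (P.cons (P.lf 0 626034 0) (P.cons (P.lf 822 0 0) (P.cons (P.lf 3097 0 0) P.nil)))))) (P.cons (P.cons (P.lf 0 32778838 0) (P.cons (P.lf 5551964 0 0) (P.cons (P.lf 481028 0 0) (P.cons (P.lf 0 107901 0) (P.cons (P.lf 137 0 0) P.nil))))) (P.cons (P.cons (P.lf 5054461 0 0) (P.cons (P.lf 0 599906 0) (P.cons (P.lf 0 64651 0) (P.cons (P.lf 8394 0 0) P.nil)))) (P.cons (P.cons (P.lf 961741 0 0) (P.cons (P.lf 0 136594 0) (P.cons (P.lf 0 12699 0) P.nil))) (P.cons (P.cons (P.lf 0 59324 0) (P.cons (P.lf 1018 0 0) P.nil)) (P.cons (P.cons (P.lf 0 10219 0) P.nil) P.nil)))))) 10533)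
 EL.nil))
noncomputable def S183_198_290_364_18 : EL := (EL.cons 4 (TM.mk (P.cons (P.lf 426135812 0 0) (P.cons (P.lf 0 124237673 0) (P.cons (P.lf 8653707 0 0) (P.cons (P.lf 337561 0 0) (P.cons (P.lf 0 31084 0) (P.cons (P.lf 0 1487 0) P.nil)))))) 136)
 (EL.cons 8 (TM.mk (P.cons (P.lf 407791829 0 0) (P.cons (P.lf 0 63872894 0) (P.cons (P.lf 0 1935523 0) (P.cons (P.lf 409346 0 0) (P.cons (P.lf 14041 0 0) (P.cons (P.lf 0 800 0) P.nil)))))) 99)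
 EL.nil))
noncomputable def S183_198_290_364_19 : EL := (EL.cons 4 (TM.mk (P.cons (P.cons (P.lf 189380116 0 0) (P.cons (P.lf 0 17179065 0) (P.cons (P.lf 0 2212166 0) (P.lf 147477 0 0)))) (P.cons (P.cons (P.lf 0 31354665 0) (P.cons (P.lf 3063862 0 0) (P.cons (P.lf 394536 0 0) (P.lf 0 26302 0)))) (P.cons (P.cons (P.lf 0 5262044 0) (P.cons (P.lf 222349 0 0) (P.cons (P.lf 28631 0 0) (P.lf 0 1907 0)))) (P.cons (P.cons (P.lf 1143870 0 0) (P.cons (P.lf 0 46133 0) (P.cons (P.lf 0 5940 0) P.nil))) (P.cons (P.cons (P.lf 933 0 0) (P.cons (P.lf 0 2373 0) P.nil)) (P.cons (P.cons (P.lf 0 7596 0) P.nil) P.nil)))))) 2630)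
 (EL.cons 8 (TM.mk (P.cons (P.cons (P.lf 181227820 0 0) (P.cons (P.lf 0 16439554 0) (P.cons (P.lf 0 2116939 0) (P.lf 141128 0 0)))) (P.cons (P.cons (P.lf 0 5554824 0) (P.cons (P.lf 714050 0 0) (P.cons (P.lf 91949 0 0) (P.lf 0 6130 0)))) (P.cons (P.cons (P.lf 0 6495737 0) (P.cons (P.lf 373590 0 0) (P.cons (P.lf 48107 0 0) (P.lf 0 3206 0)))) (P.cons (P.cons (P.lf 283129 0 0) (P.cons (P.lf 0 453 0) (P.cons (P.lf 0 58 0) P.nil))) (P.cons (P.cons (P.lf 61538 0 0) (P.cons (P.lf 0 3473 0) P.nil)) (P.cons (P.cons (P.lf 0 1484 0) P.nil) P.nil)))))) 1743)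
 EL.nil))
noncomputable def S183_198_290_364_20 : EL := (EL.cons 4 (TM.mk (P.cons (P.cons (P.lf 84162906 0 0) (P.cons (P.lf 0 15269186 0) (P.cons (P.lf 0 1273679 0) (P.cons (P.lf 309442 0 0) (P.cons (P.lf 0 405 0) (P.cons (P.lf 0 1530 0) P.nil)))))) (P.cons (P.cons (P.lf 0 3331559 0) (P.cons (P.lf 799624 0 0) (P.cons (P.lf 57846 0 0) (P.cons (P.lf 0 18484 0) (P.cons (P.lf 26 0 0) P.nil))))) (P.cons (P.cons (P.lf 0 5050418 0) (P.cons (P.lf 714225 0 0) (P.cons (P.lf 68853 0 0) (P.cons (P.lf 0 12084 0) P.nil)))) (P.cons (P.cons (P.lf 319615 0 0) (P.cons (P.lf 0 37532 0) (P.cons (P.lf 0 4288 0) P.nil))) (P.cons (P.cons (P.lf 101999 0 0) (P.cons (P.lf 0 11632 0) P.nil)) (P.cons (P.cons (P.lf 0 7841 0) P.nil) P.nil)))))) 10633)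
 (EL.cons 8 (TM.mk (P.cons (P.cons (P.lf 80539923 0 0) (P.cons (P.lf 0 14611889 0) (P.cons (P.lf 0 1218851 0) (P.cons (P.lf 296121 0 0) (P.cons (P.lf 0 389 0) (P.cons (P.lf 0 1464 0) P.nil)))))) (P.cons (P.cons (P.lf 7677790 0 0) (P.cons (P.lf 0 1206139 0) (P.cons (P.lf 0 109082 0) (P.cons (P.lf 22260 0 0) (P.cons (P.lf 0 26 0) P.nil))))) (P.cons (P.cons (P.lf 0 4113056 0) (P.cons (P.lf 578064 0 0) (P.cons (P.lf 55953 0 0) (P.cons (P.lf 0 9722 0) P.nil)))) (P.cons (P.cons (P.lf 0 260018 0) (P.cons (P.lf 43327 0 0) (P.cons (P.lf 3582 0 0) P.nil))) (P.cons (P.cons (P.lf 79725 0 0) (P.cons (P.lf 0 7702 0) P.nil)) (P.cons (P.cons (P.lf 3259 0 0) P.nil) P.nil)))))) 7441)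
 EL.nil))
noncomputable def S183_198_290_364_21 : EL := (EL.cons 4 (TM.mk (P.cons (P.cons (P.lf 0 2826058218 0) (P.cons (P.lf 230343633 0 0) (P.cons (P.lf 29661600 0 0) (P.lf 0 1977435 0)))) (P.cons (P.cons (P.lf 452176899 0 0) (P.cons (P.lf 3688854 0 0) (P.cons (P.lf 475014 0 0) (P.lf 0 31659 0)))) (P.cons (P.cons (P.lf 55673253 0 0) (P.cons (P.lf 0 3207408 0) (P.cons (P.lf 0 413016 0) (P.lf 27531 0 0)))) (P.cons (P.cons (P.lf 0 2167965 0) (P.cons (P.lf 0 162738 0) (P.cons (P.lf 0 20949 0) P.nil))) (P.cons (P.cons (P.lf 0 336819 0) (P.cons (P.lf 10011 0 0) P.nil)) (P.cons (P.cons (P.lf 0 132 0) P.nil) P.nil)))))) 7545)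
 (EL.cons 8 (TM.mk (P.cons (P.cons (P.lf 1050021255 0 0) (P.cons (P.lf 0 85584132 0) (P.cons (P.lf 0 11020767 0) (P.lf 734721 0 0)))) (P.cons (P.cons (P.lf 0 309668418 0) (P.cons (P.lf 10175871 0 0) (P.cons (P.lf 1310355 0 0) (P.lf 0 87351 0)))) (P.cons (P.cons (P.lf 6099189 0 0) (P.cons (P.lf 1040961 0 0) (P.cons (P.lf 134046 0 0) (P.lf 0 8934 0)))) (P.cons (P.cons (P.lf 2687718 0 0) (P.cons (P.lf 0 85341 0) (P.cons (P.lf 0 10983 0) P.nil))) (P.cons (P.cons (P.lf 0 14811 0) (P.cons (P.lf 0 7683 0) P.nil)) (P.cons (P.cons (P.lf 0 10824 0) P.nil) P.nil)))))) 6027)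
 (EL.cons 11 (TM.mk (P.cons (P.cons (P.lf 1319372970 0 0) (P.cons (P.lf 376651167 0 0) (P.cons (P.lf 0 28172901 0) (P.cons (P.lf 0 1898442 0) (P.lf 94920 0 0))))) (P.cons (P.cons (P.lf 99565317 0 0) (P.cons (P.lf 28423647 0 0) (P.cons (P.lf 0 2126043 0) (P.cons (P.lf 0 143262 0) (P.lf 7161 0 0))))) (P.cons (P.cons (P.lf 0 2097207 0) (P.cons (P.lf 0 598704 0) (P.cons (P.lf 44781 0 0) (P.cons (P.lf 3015 0 0) P.nil)))) (P.cons (P.cons (P.lf 0 317613 0) (P.cons (P.lf 0 90669 0) (P.cons (P.lf 6780 0 0) P.nil))) (P.cons (P.cons (P.lf 0 2289 0) (P.cons (P.lf 0 654 0) P.nil)) (P.cons (P.cons (P.lf 474 0 0) P.nil) P.nil)))))) 1065)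
 EL.nil)))
noncomputable def S183_198_290_364_22 : EL := (EL.cons 4 (TM.mk (P.cons (P.cons (P.lf 0 1255935834 0) (P.cons (P.lf 216296175 0 0) (P.cons (P.lf 18566712 0 0) (P.cons (P.lf 0 4248372 0) (P.cons (P.lf 5454 0 0) (P.cons (P.lf 20529 0 0) P.nil)))))) (P.cons (P.cons (P.lf 42730224 0 0) (P.cons (P.lf 9203052 0 0) (P.cons (P.lf 0 14763 0) (P.cons (P.lf 0 388008 0) (P.cons (P.lf 702 0 0) P.nil))))) (P.cons (P.cons (P.lf 64330665 0 0) (P.cons (P.lf 0 6718374 0) (P.cons (P.lf 0 750348 0) (P.cons (P.lf 87231 0 0) P.nil)))) (P.cons (P.cons (P.lf 653004 0 0) (P.cons (P.lf 0 550929 0) (P.cons (P.lf 0 45264 0) P.nil))) (P.cons (P.cons (P.lf 0 711534 0) (P.cons (P.lf 44565 0 0) P.nil)) (P.cons (P.cons (P.lf 0 20619 0) P.nil) P.nil)))))) 47388)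
 (EL.cons 8 (TM.mk (P.cons (P.cons (P.lf 466642659 0 0) (P.cons (P.lf 0 80364795 0) (P.cons (P.lf 0 6898458 0) (P.cons (P.lf 1578483 0 0) (P.cons (P.lf 0 2025 0) (P.cons (P.lf 0 7626 0) P.nil)))))) (P.cons (P.cons (P.lf 0 78832866 0) (P.cons (P.lf 7422912 0 0) (P.cons (P.lf 936177 0 0) (P.cons (P.lf 0 68787 0) (P.cons (P.lf 9 0 0) P.nil))))) (P.cons (P.cons (P.lf 0 19929900 0) (P.cons (P.lf 2642337 0 0) (P.cons (P.lf 250995 0 0) (P.cons (P.lf 0 45669 0) P.nil)))) (P.cons (P.cons (P.lf 2808894 0 0) (P.cons (P.lf 0 126378 0) (P.cons (P.lf 0 19128 0) P.nil))) (P.cons (P.cons (P.lf 211536 0 0) (P.cons (P.lf 0 34329 0) P.nil)) (P.cons (P.cons (P.lf 0 23637 0) P.nil) P.nil)))))) 24753)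
 (EL.cons 11 (TM.mk (P.cons (P.cons (P.lf 586345950 0 0) (P.cons (P.lf 114199848 0 0) (P.cons (P.lf 0 34553715 0) (P.cons (P.lf 0 1206609 0) (P.cons (P.lf 395319 0 0) (P.cons (P.lf 0 3720 0) P.nil)))))) (P.cons (P.cons (P.lf 118115979 0 0) (P.cons (P.lf 23684853 0 0) (P.cons (P.lf 0 6678972 0) (P.cons (P.lf 0 238425 0) (P.cons (P.lf 75117 0 0) P.nil))))) (P.cons (P.cons (P.lf 0 2020992 0) (P.cons (P.lf 0 933522 0) (P.cons (P.lf 0 104556 0) (P.cons (P.lf 474 0 0) P.nil)))) (P.cons (P.cons (P.lf 0 1127034 0) (P.cons (P.lf 0 272949 0) (P.cons (P.lf 44274 0 0) P.nil))) (P.cons (P.cons (P.lf 0 19929 0) (P.cons (P.lf 0 1566 0) P.nil)) (P.cons (P.cons (P.lf 4707 0 0) P.nil) P.nil)))))) 22383)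
 EL.nil)))
noncomputable def S183_198_290_364_23 : EL := (EL.cons 4 (TM.mk (P.cons (P.cons (P.lf 1336759881 0 0) (P.cons (P.lf 0 108955335 0) (P.cons (P.lf 0 14030295 0) (P.lf 935349 0 0)))) (P.cons (P.cons (P.lf 0 343793625 0) (P.cons (P.lf 8843580 0 0) (P.cons (P.lf 1138797 0 0) (P.lf 0 75921 0)))) (P.cons (P.cons (P.lf 0 9124431 0) (P.cons (P.lf 1978182 0 0) (P.cons (P.lf 254727 0 0) (P.lf 0 16977 0)))) (P.cons (P.cons (P.lf 4223724 0 0) (P.cons (P.lf 0 71244 0) (P.cons (P.lf 0 9177 0) P.nil))) (P.cons (P.cons (P.lf 124110 0 0) (P.cons (P.lf 0 16743 0) P.nil)) (P.cons (P.cons (P.lf 0 20220 0) P.nil) P.nil)))))) 8367)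
 (EL.cons 8 (TM.mk (P.cons (P.cons (P.lf 0 496672812 0) (P.cons (P.lf 40482333 0 0) (P.cons (P.lf 5212956 0 0) (P.lf 0 347529 0)))) (P.cons (P.cons (P.lf 194744379 0 0) (P.cons (P.lf 0 8747448 0) (P.cons (P.lf 0 1126416 0) (P.lf 75090 0 0)))) (P.cons (P.cons (P.lf 0 15791184 0) (P.cons (P.lf 0 132915 0) (P.cons (P.lf 0 17115 0) (P.lf 1140 0 0)))) (P.cons (P.cons (P.lf 0 1407651 0) (P.cons (P.lf 103119 0 0) (P.cons (P.lf 13275 0 0) P.nil))) (P.cons (P.cons (P.lf 143853 0 0) (P.cons (P.lf 927 0 0) P.nil)) (P.cons (P.cons (P.lf 8205 0 0) P.nil) P.nil)))))) 5634)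
 (EL.cons 11 (TM.mk (P.cons (P.cons (P.lf 0 624079449 0) (P.cons (P.lf 0 178160577 0) (P.cons (P.lf 13326123 0 0) (P.cons (P.lf 897984 0 0) (P.lf 0 44898 0))))) (P.cons (P.cons (P.lf 13553430 0 0) (P.cons (P.lf 3869196 0 0) (P.cons (P.lf 0 289407 0) (P.cons (P.lf 0 19503 0) (P.lf 975 0 0))))) (P.cons (P.cons (P.lf 7238322 0 0) (P.cons (P.lf 2066376 0 0) (P.cons (P.lf 0 154560 0) (P.cons (P.lf 0 10413 0) P.nil)))) (P.cons (P.cons (P.lf 148587 0 0) (P.cons (P.lf 42417 0 0) (P.cons (P.lf 0 3171 0) P.nil))) (P.cons (P.cons (P.lf 0 20721 0) (P.cons (P.lf 0 5913 0) P.nil)) (P.cons (P.cons (P.lf 0 852 0) P.nil) P.nil)))))) 2205)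
 EL.nil)))
noncomputable def S183_198_290_364_24 : EL := (EL.cons 4 (TM.mk (P.cons (P.cons (P.lf 594072912 0 0) (P.cons (P.lf 0 102310719 0) (P.cons (P.lf 0 8782281 0) (P.cons (P.lf 2009532 0 0) (P.cons (P.lf 0 2580 0) (P.cons (P.lf 0 9711 0) P.nil)))))) (P.cons (P.cons (P.lf 0 77944866 0) (P.cons (P.lf 5589561 0 0) (P.cons (P.lf 860457 0 0) (P.cons (P.lf 0 11754 0) (P.cons (P.lf 0 81 0) P.nil))))) (P.cons (P.cons (P.lf 0 30054183 0) (P.cons (P.lf 3874614 0 0) (P.cons (P.lf 377739 0 0) (P.cons (P.lf 0 64473 0) P.nil)))) (P.cons (P.cons (P.lf 2732073 0 0) (P.cons (P.lf 0 41706 0) (P.cons (P.lf 0 13539 0) P.nil))) (P.cons (P.cons (P.lf 449061 0 0) (P.cons (P.lf 0 55482 0) P.nil)) (P.cons (P.cons (P.lf 0 23715 0) P.nil) P.nil)))))) 29829)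
 (EL.cons 8 (TM.mk (P.cons (P.cons (P.lf 0 220727646 0) (P.cons (P.lf 38013525 0 0) (P.cons (P.lf 3263055 0 0) (P.cons (P.lf 0 746640 0) (P.cons (P.lf 957 0 0) (P.cons (P.lf 3606 0 0) P.nil)))))) (P.cons (P.cons (P.lf 58739568 0 0) (P.cons (P.lf 0 7205343 0) (P.cons (P.lf 0 759933 0) (P.cons (P.lf 105096 0 0) (P.cons (P.lf 0 96 0) P.nil))))) (P.cons (P.cons (P.lf 6393765 0 0) (P.cons (P.lf 0 1010331 0) (P.cons (P.lf 0 84417 0) (P.cons (P.lf 20436 0 0) P.nil)))) (P.cons (P.cons (P.lf 0 2355576 0) (P.cons (P.lf 192537 0 0) (P.cons (P.lf 21933 0 0) P.nil))) (P.cons (P.cons (P.lf 4929 0 0) (P.cons (P.lf 13728 0 0) P.nil)) (P.cons (P.cons (P.lf 25059 0 0) P.nil) P.nil)))))) 14235)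
 (EL.cons 11 (TM.mk (P.cons (P.cons (P.lf 0 277348758 0) (P.cons (P.lf 0 54017916 0) (P.cons (P.lf 16344327 0 0) (P.cons (P.lf 570741 0 0) (P.cons (P.lf 0 186990 0) (P.cons (P.lf 1758 0 0) P.nil)))))) (P.cons (P.cons (P.lf 0 28917099 0) (P.cons (P.lf 0 5953674 0) (P.cons (P.lf 1570866 0 0) (P.cons (P.lf 57312 0 0) (P.cons (P.lf 0 17358 0) P.nil))))) (P.cons (P.cons (P.lf 7127460 0 0) (P.cons (P.lf 1674819 0 0) (P.cons (P.lf 0 301284 0) (P.cons (P.lf 0 12711 0) P.nil)))) (P.cons (P.cons (P.lf 575781 0 0) (P.cons (P.lf 113463 0 0) (P.cons (P.lf 0 33381 0) P.nil))) (P.cons (P.cons (P.lf 0 48708 0) (P.cons (P.lf 0 13734 0) P.nil)) (P.cons (P.cons (P.lf 0 4719 0) P.nil) P.nil)))))) 15540)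
 EL.nil)))
noncomputable def S183_198_290_364_25 : EL := (EL.cons 4 (TM.mk (P.cons (P.cons (P.lf 0 632303667 0) (P.cons (P.lf 51537198 0 0) (P.cons (P.lf 6636501 0 0) (P.lf 0 442431 0)))) (P.cons (P.cons (P.lf 224066841 0 0) (P.cons (P.lf 0 9191586 0) (P.cons (P.lf 0 1183611 0) (P.lf 78909 0 0)))) (P.cons (P.cons (P.lf 0 9796068 0) (P.cons (P.lf 0 667050 0) (P.cons (P.lf 0 85893 0) (P.lf 5724 0 0)))) (P.cons (P.cons (P.lf 0 2883969 0) (P.cons (P.lf 138402 0 0) (P.cons (P.lf 17823 0 0) P.nil))) (P.cons (P.cons (P.lf 129816 0 0) (P.cons (P.lf 7119 0 0) P.nil)) (P.cons (P.cons (P.lf 21393 0 0) P.nil) P.nil)))))) 7107)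
 (EL.cons 8 (TM.mk (P.cons (P.cons (P.lf 234932277 0 0) (P.cons (P.lf 0 19148634 0) (P.cons (P.lf 0 2465790 0) (P.lf 164385 0 0)))) (P.cons (P.cons (P.lf 0 114947550 0) (P.cons (P.lf 5998542 0 0) (P.cons (P.lf 772437 0 0) (P.lf 0 51492 0)))) (P.cons (P.cons (P.lf 15792972 0 0) (P.cons (P.lf 0 288006 0) (P.cons (P.lf 0 37086 0) (P.lf 2472 0 0)))) (P.cons (P.cons (P.lf 198123 0 0) (P.cons (P.lf 0 66912 0) (P.cons (P.lf 0 8613 0) P.nil))) (P.cons (P.cons (P.lf 0 156516 0) (P.cons (P.lf 4269 0 0) P.nil)) (P.cons (P.cons (P.lf 1002 0 0) P.nil) P.nil)))))) 4677)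
 (EL.cons 11 (TM.mk (P.cons (P.cons (P.lf 295197162 0 0) (P.cons (P.lf 84272118 0 0) (P.cons (P.lf 0 6303417 0) (P.cons (P.lf 0 424758 0) (P.lf 21237 0 0))))) (P.cons (P.cons (P.lf 0 35098668 0) (P.cons (P.lf 0 10019874 0) (P.cons (P.lf 749469 0 0) (P.cons (P.lf 50502 0 0) (P.lf 0 2523 0))))) (P.cons (P.cons (P.lf 0 3590481 0) (P.cons (P.lf 0 1024998 0) (P.cons (P.lf 76668 0 0) (P.cons (P.lf 5163 0 0) P.nil)))) (P.cons (P.cons (P.lf 294366 0 0) (P.cons (P.lf 84033 0 0) (P.cons (P.lf 0 6285 0) P.nil))) (P.cons (P.cons (P.lf 26508 0 0) (P.cons (P.lf 7566 0 0) P.nil)) (P.cons (P.cons (P.lf 0 549 0) P.nil) P.nil)))))) 2448)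
 EL.nil)))
noncomputable def S183_198_290_364_26 : EL := (EL.cons 4 (TM.mk (P.cons (P.cons (P.lf 0 281003706 0) (P.cons (P.lf 48394212 0 0) (P.cons (P.lf 4154124 0 0) (P.cons (P.lf 0 950532 0) (P.cons (P.lf 1218 0 0) (P.cons (P.lf 4593 0 0) P.nil)))))) (P.cons (P.cons (P.lf 64177257 0 0) (P.cons (P.lf 0 7346955 0) (P.cons (P.lf 0 810711 0) (P.cons (P.lf 97932 0 0) (P.cons (P.lf 0 78 0) P.nil))))) (P.cons (P.cons (P.lf 11384739 0 0) (P.cons (P.lf 0 1705257 0) (P.cons (P.lf 0 150234 0) (P.cons (P.lf 32499 0 0) P.nil)))) (P.cons (P.cons (P.lf 0 2786526 0) (P.cons (P.lf 207330 0 0) (P.cons (P.lf 25062 0 0) P.nil))) (P.cons (P.cons (P.lf 0 123996 0) (P.cons (P.lf 29268 0 0) P.nil)) (P.cons (P.cons (P.lf 36153 0 0) P.nil) P.nil)))))) 23340)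
 (EL.cons 8 (TM.mk (P.cons (P.cons (P.lf 104406858 0 0) (P.cons (P.lf 0 17980857 0) (P.cons (P.lf 0 1543464 0) (P.cons (P.lf 353169 0 0) (P.cons (P.lf 0 453 0) (P.cons (P.lf 0 1704 0) P.nil)))))) (P.cons (P.cons (P.lf 0 37930953 0) (P.cons (P.lf 5155623 0 0) (P.cons (P.lf 509451 0 0) (P.cons (P.lf 0 84033 0) (P.cons (P.lf 90 0 0) P.nil))))) (P.cons (P.cons (P.lf 0 603483 0) (P.cons (P.lf 194784 0 0) (P.cons (P.lf 9126 0 0) (P.cons (P.lf 0 5778 0) P.nil)))) (P.cons (P.cons (P.lf 1487676 0 0) (P.cons (P.lf 0 147531 0) (P.cons (P.lf 0 15294 0) P.nil))) (P.cons (P.cons (P.lf 0 103545 0) (P.cons (P.lf 1182 0 0) P.nil)) (P.cons (P.cons (P.lf 0 14853 0) P.nil) P.nil)))))) 11637)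
 (EL.cons 11 (TM.mk (P.cons (P.cons (P.lf 131189334 0 0) (P.cons (P.lf 25551129 0 0) (P.cons (P.lf 0 7731063 0) (P.cons (P.lf 0 269967 0) (P.cons (P.lf 88449 0 0) (P.cons (P.lf 0 831 0) P.nil)))))) (P.cons (P.cons (P.lf 928950 0 0) (P.cons (P.lf 333060 0 0) (P.cons (P.lf 8277 0 0) (P.cons (P.lf 0 873 0) (P.cons (P.lf 0 384 0) P.nil))))) (P.cons (P.cons (P.lf 0 5051586 0) (P.cons (P.lf 0 1134240 0) (P.cons (P.lf 235401 0 0) (P.cons (P.lf 9369 0 0) P.nil)))) (P.cons (P.cons (P.lf 25254 0 0) (P.cons (P.lf 17061 0 0) (P.cons (P.lf 3540 0 0) P.nil))) (P.cons (P.cons (P.lf 59670 0 0) (P.cons (P.lf 14061 0 0) P.nil)) (P.cons (P.cons (P.lf 603 0 0) P.nil) P.nil)))))) 12753)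
 EL.nil)))
noncomputable def S183_198_290_364_27 : EL := (EL.cons 13 (TM.mk (P.lf 0 4294967296 0) 0)
 EL.nil)
noncomputable def S183_198_290_364_28 : EL := (EL.cons 13 (TM.mk (P.cons (P.cons (P.lf 0 1908737515 0) (P.cons (P.lf 173145572 0 0) (P.cons (P.lf 22296144 0 0) (P.lf 0 1486408 0)))) (P.cons (P.cons (P.lf 0 240462879 0) (P.cons (P.lf 19599416 0 0) (P.cons (P.lf 2523836 0 0) (P.lf 0 168252 0)))) (P.cons (P.cons (P.lf 21691247 0 0) (P.cons (P.lf 0 43068 0) (P.cons (P.lf 0 5544 0) (P.lf 368 0 0)))) (P.cons (P.cons (P.lf 1190223 0 0) (P.cons (P.lf 0 82748 0) (P.cons (P.lf 0 10652 0) P.nil))) (P.cons (P.cons (P.lf 0 51661 0) (P.cons (P.lf 0 2220 0) P.nil)) (P.cons (P.cons (P.lf 0 4047 0) P.nil) P.nil)))))) 2007)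
 EL.nil)
noncomputable def S183_198_290_364_29 : EL := (EL.cons 13 (TM.mk (P.cons (P.cons (P.lf 0 848266971 0) (P.cons (P.lf 153896142 0 0) (P.cons (P.lf 12837253 0 0) (P.cons (P.lf 0 3118832 0) (P.cons (P.lf 4100 0 0) (P.cons (P.lf 15432 0 0) P.nil)))))) (P.cons (P.cons (P.lf 0 213729458 0) (P.cons (P.lf 36808300 0 0) (P.cons (P.lf 3159597 0 0) (P.cons (P.lf 0 722965 0) (P.cons (P.lf 928 0 0) P.nil))))) (P.cons (P.cons (P.lf 5816900 0 0) (P.cons (P.lf 407445 0 0) (P.cons (P.lf 0 33497 0) (P.cons (P.lf 0 25639 0) P.nil)))) (P.cons (P.cons (P.lf 3486761 0 0) (P.cons (P.lf 0 372304 0) (P.cons (P.lf 0 40873 0) P.nil))) (P.cons (P.cons (P.lf 0 22192 0) (P.cons (P.lf 0 17501 0) P.nil)) (P.cons (P.cons (P.lf 0 21403 0) P.nil) P.nil)))))) 22445)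
 EL.nil)
noncomputable def S183_198_290_364_30 : EL := (EL.cons 13 (TM.mk (P.cons (P.lf 2031571728 0 0) (P.cons (P.lf 0 197431380 0) (P.cons (P.lf 0 5434720 0) (P.cons (P.lf 101656 0 0) (P.cons (P.lf 7148 0 0) (P.cons (P.lf 20 0 0) P.nil)))))) 56)
 EL.nil)
noncomputable def S183_198_290_364_31 : EL := (EL.cons 13 (TM.mk (P.cons (P.cons (P.lf 902856041 0 0) (P.cons (P.lf 0 81899959 0) (P.cons (P.lf 0 10546347 0) (P.lf 703089 0 0)))) (P.cons (P.cons (P.lf 26000874 0 0) (P.cons (P.lf 0 1311593 0) (P.cons (P.lf 0 168894 0) (P.lf 11257 0 0)))) (P.cons (P.cons (P.lf 0 23729097 0) (P.cons (P.lf 1140412 0 0) (P.cons (P.lf 146851 0 0) (P.lf 0 9789 0)))) (P.cons (P.cons (P.lf 175017 0 0) (P.cons (P.lf 57863 0 0) (P.cons (P.lf 7449 0 0) P.nil))) (P.cons (P.cons (P.lf 115464 0 0) (P.cons (P.lf 0 3560 0) P.nil)) (P.cons (P.cons (P.lf 941 0 0) P.nil) P.nil)))))) 2550)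
 EL.nil)
noncomputable def S183_198_290_364_32 : EL := (EL.cons 13 (TM.mk (P.cons (P.cons (P.lf 401240586 0 0) (P.cons (P.lf 0 72794745 0) (P.cons (P.lf 0 6072176 0) (P.cons (P.lf 1475245 0 0) (P.cons (P.lf 0 1939 0) (P.cons (P.lf 0 7299 0) P.nil)))))) (P.cons (P.cons (P.lf 62103431 0 0) (P.cons (P.lf 0 10336463 0) (P.cons (P.lf 0 904423 0) (P.cons (P.lf 198604 0 0) (P.cons (P.lf 0 250 0) P.nil))))) (P.cons (P.cons (P.lf 0 13649567 0) (P.cons (P.lf 1694015 0 0) (P.cons (P.lf 177328 0 0) (P.cons (P.lf 0 25052 0) P.nil)))) (P.cons (P.cons (P.lf 0 1632258 0) (P.cons (P.lf 237767 0 0) (P.cons (P.lf 21487 0 0) P.nil))) (P.cons (P.cons (P.lf 184607 0 0) (P.cons (P.lf 0 9447 0) P.nil)) (P.cons (P.cons (P.lf 13737 0 0) P.nil) P.nil)))))) 19314)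
 EL.nil)
noncomputable def S183_198_290_364_33 : EL := (EL.cons 14 (TM.mk (P.lf 8589934592 0 0) 0)
 EL.nil)
noncomputable def S183_198_290_364_34 : EL := (EL.cons 14 (TM.mk (P.cons (P.cons (P.lf 3817475030 0 0) (P.cons (P.lf 0 346291144 0) (P.cons (P.lf 0 44592288 0) (P.lf 2972816 0 0)))) (P.cons (P.cons (P.lf 480925758 0 0) (P.cons (P.lf 0 39198832 0) (P.cons (P.lf 0 5047672 0) (P.lf 336504 0 0)))) (P.cons (P.cons (P.lf 0 43382494 0) (P.cons (P.lf 86136 0 0) (P.cons (P.lf 11088 0 0) (P.lf 0 736 0)))) (P.cons (P.cons (P.lf 0 2380446 0) (P.cons (P.lf 165496 0 0) (P.cons (P.lf 21304 0 0) P.nil))) (P.cons (P.cons (P.lf 103322 0 0) (P.cons (P.lf 4440 0 0) P.nil)) (P.cons (P.cons (P.lf 8094 0 0) P.nil) P.nil)))))) 4014)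
 EL.nil)
noncomputable def S183_198_290_364_35 : EL := (EL.cons 14 (TM.mk (P.cons (P.cons (P.lf 1696533942 0 0) (P.cons (P.lf 0 307792284 0) (P.cons (P.lf 0 25674506 0) (P.cons (P.lf 6237664 0 0) (P.cons (P.lf 0 8200 0) (P.cons (P.lf 0 30864 0) P.nil)))))) (P.cons (P.cons (P.lf 427458916 0 0) (P.cons (P.lf 0 73616600 0) (P.cons (P.lf 0 6319194 0) (P.cons (P.lf 1445930 0 0) (P.cons (P.lf 0 1856 0) P.nil))))) (P.cons (P.cons (P.lf 0 11633800 0) (P.cons (P.lf 0 814890 0) (P.cons (P.lf 66994 0 0) (P.cons (P.lf 51278 0 0) P.nil)))) (P.cons (P.cons (P.lf 0 6973522 0) (P.cons (P.lf 744608 0 0) (P.cons (P.lf 81746 0 0) P.nil))) (P.cons (P.cons (P.lf 44384 0 0) (P.cons (P.lf 35002 0 0) P.nil)) (P.cons (P.cons (P.lf 42806 0 0) P.nil) P.nil)))))) 44890)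
 EL.nil)
noncomputable def S183_198_290_364_36 : EL := (EL.cons 14 (TM.mk (P.cons (P.lf 0 4063143456 0) (P.cons (P.lf 394862760 0 0) (P.cons (P.lf 10869440 0 0) (P.cons (P.lf 0 203312 0) (P.cons (P.lf 0 14296 0) (P.cons (P.lf 0 40 0) P.nil)))))) 112)
 EL.nil)
noncomputable def S183_198_290_364_37 : EL := (EL.cons 14 (TM.mk (P.cons (P.cons (P.lf 0 1805712082 0) (P.cons (P.lf 163799918 0 0) (P.cons (P.lf 21092694 0 0) (P.lf 0 1406178 0)))) (P.cons (P.cons (P.lf 0 52001748 0) (P.cons (P.lf 2623186 0 0) (P.cons (P.lf 337788 0 0) (P.lf 0 22514 0)))) (P.cons (P.cons (P.lf 47458194 0 0) (P.cons (P.lf 0 2280824 0) (P.cons (P.lf 0 293702 0) (P.lf 19578 0 0)))) (P.cons (P.cons (P.lf 0 350034 0) (P.cons (P.lf 0 115726 0) (P.cons (P.lf 0 14898 0) P.nil))) (P.cons (P.cons (P.lf 0 230928 0) (P.cons (P.lf 7120 0 0) P.nil)) (P.cons (P.cons (P.lf 0 1882 0) P.nil) P.nil))))))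 5100)
 EL.nil)
noncomputable def S183_198_290_364_38 : EL := (EL.cons 14 (TM.mk (P.cons (P.cons (P.lf 0 802481172 0) (P.cons (P.lf 145589490 0 0) (P.cons (P.lf 12144352 0 0) (P.cons (P.lf 0 2950490 0) (P.cons (P.lf 3878 0 0) (P.cons (P.lf 14598 0 0) P.nil)))))) (P.cons (P.cons (P.lf 0 124206862 0) (P.cons (P.lf 20672926 0 0) (P.cons (P.lf 1808846 0 0) (P.cons (P.lf 0 397208 0) (P.cons (P.lf 500 0 0) P.nil))))) (P.cons (P.cons (P.lf 27299134 0 0) (P.cons (P.lf 0 3388030 0) (P.cons (P.lf 0 354656 0) (P.cons (P.lf 50104 0 0) P.nil)))) (P.cons (P.cons (P.lf 3264516 0 0) (P.cons (P.lf 0 475534 0) (P.cons (P.lf 0 42974 0) P.nil))) (P.cons (P.cons (P.lf 0 369214 0) (P.cons (P.lf 18894 0 0) P.nil)) (P.cons (P.cons (P.lf 0 27474 0) P.nil) P.nil)))))) 38628)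
 EL.nil)
noncomputable def S183_198_290_364_39 : EL := (EL.cons 14 (TM.mk (P.cons (P.lf 1921916234 0 0) (P.cons (P.lf 0 373549768 0) (P.cons (P.lf 7868326 0 0) (P.cons (P.lf 1191632 0 0) (P.cons (P.lf 8586 0 0) (P.cons (P.lf 0 1790 0) P.nil)))))) 176)
 EL.nil)
noncomputable def S183_198_290_364_40 : EL := (EL.cons 14 (TM.mk (P.cons (P.cons (P.lf 854123760 0 0) (P.cons (P.lf 0 77479352 0) (P.cons (P.lf 0 9977100 0) (P.lf 665138 0 0)))) (P.cons (P.cons (P.lf 0 58407648 0) (P.cons (P.lf 6288766 0 0) (P.cons (P.lf 809812 0 0) (P.lf 0 53988 0)))) (P.cons (P.cons (P.lf 0 27123614 0) (P.cons (P.lf 1406706 0 0) (P.cons (P.lf 181142 0 0) (P.lf 0 12074 0)))) (P.cons (P.cons (P.lf 2324068 0 0) (P.cons (P.lf 0 50662 0) (P.cons (P.lf 0 6524 0) P.nil))) (P.cons (P.cons (P.lf 157428 0 0) (P.cons (P.lf 0 11908 0) P.nil)) (P.cons (P.cons (P.lf 0 11194 0) P.nil) P.nil))))))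 5196)
 EL.nil)
noncomputable def S183_198_290_364_41 : EL := (EL.cons 14 (TM.mk (P.cons (P.cons (P.lf 379583346 0 0) (P.cons (P.lf 0 68865598 0) (P.cons (P.lf 0 5744426 0) (P.cons (P.lf 1395618 0 0) (P.cons (P.lf 0 1834 0) (P.cons (P.lf 0 6904 0) P.nil)))))) (P.cons (P.cons (P.lf 21862840 0 0) (P.cons (P.lf 0 3086076 0) (P.cons (P.lf 0 297354 0) (P.cons (P.lf 52256 0 0) (P.cons (P.lf 0 58 0) P.nil))))) (P.cons (P.cons (P.lf 0 19637806 0) (P.cons (P.lf 2737098 0 0) (P.cons (P.lf 266272 0 0) (P.cons (P.lf 0 45692 0) P.nil)))) (P.cons (P.cons (P.lf 0 427440 0) (P.cons (P.lf 91904 0 0) (P.cons (P.lf 6026 0 0) P.nil))) (P.cons (P.cons (P.lf 363524 0 0) (P.cons (P.lf 0 35814 0) P.nil)) (P.cons (P.cons (P.lf 0 280 0) P.nil) P.nil)))))) 28560)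
 EL.nil)
noncomputable def S183_198_290_364_42 : EL := (EL.cons 14 (TM.mk (P.cons (P.lf 0 909089734 0) (P.cons (P.lf 265040370 0 0) (P.cons (P.lf 0 18461242 0) (P.cons (P.lf 0 720132 0) (P.cons (P.lf 66314 0 0) (P.cons (P.lf 3174 0 0) P.nil)))))) 276)
 EL.nil)
noncomputable def S183_198_290_364_43 : EL := (EL.cons 14 (TM.mk (P.cons (P.cons (P.lf 0 404010916 0) (P.cons (P.lf 36648674 0 0) (P.cons (P.lf 4719288 0 0) (P.lf 0 314618 0)))) (P.cons (P.cons (P.lf 66889952 0 0) (P.cons (P.lf 0 6536240 0) (P.cons (P.lf 0 841678 0) (P.lf 56112 0 0)))) (P.cons (P.cons (P.lf 11225694 0 0) (P.cons (P.lf 0 474346 0) (P.cons (P.lf 0 61080 0) (P.lf 4070 0 0)))) (P.cons (P.cons (P.lf 0 2440256 0) (P.cons (P.lf 98418 0 0) (P.cons (P.lf 12674 0 0) P.nil))) (P.cons (P.cons (P.lf 0 1992 0) (P.cons (P.lf 5064 0 0) P.nil)) (P.cons (P.cons (P.lf 16206 0 0) P.nil) P.nil)))))) 5572)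
 EL.nil)
noncomputable def S183_198_290_364_44 : EL := (EL.cons 14 (TM.mk (P.cons (P.cons (P.lf 0 179547534 0) (P.cons (P.lf 32574264 0 0) (P.cons (P.lf 2717182 0 0) (P.cons (P.lf 0 660144 0) (P.cons (P.lf 866 0 0) (P.cons (P.lf 3266 0 0) P.nil)))))) (P.cons (P.cons (P.lf 7107326 0 0) (P.cons (P.lf 0 1705866 0) (P.cons (P.lf 0 123406 0) (P.cons (P.lf 39434 0 0) (P.cons (P.lf 0 56 0) P.nil))))) (P.cons (P.cons (P.lf 10774226 0 0) (P.cons (P.lf 0 1523682 0) (P.cons (P.lf 0 146888 0) (P.cons (P.lf 25780 0 0) P.nil)))) (P.cons (P.cons (P.lf 0 681846 0) (P.cons (P.lf 80070 0 0) (P.cons (P.lf 9148 0 0) P.nil))) (P.cons (P.cons (P.lf 0 217598 0) (P.cons (P.lf 24816 0 0) P.nil)) (P.cons (P.cons (P.lf 16728 0 0) P.nil) P.nil)))))) 22638)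
 EL.nil)
noncomputable def S183_198_290_364_45 : EL := (EL.cons 14 (TM.mk (P.cons (P.cons (P.lf 753961032 0 0) (P.cons (P.lf 0 205180146 0) (P.cons (P.lf 0 7808950 0) (P.cons (P.lf 5992084 0 0) (P.cons (P.lf 0 228344 0) (P.cons (P.lf 0 54652 0) P.nil)))))) (P.cons (P.cons (P.lf 284952182 0 0) (P.cons (P.lf 0 74922822 0) (P.cons (P.lf 0 3089422 0) (P.cons (P.lf 2141152 0 0) (P.cons (P.lf 0 77682 0) P.nil))))) (P.cons (P.cons (P.lf 10193836 0 0) (P.cons (P.lf 0 4393888 0) (P.cons (P.lf 0 17254 0) (P.cons (P.lf 157782 0 0) P.nil)))) (P.cons (P.cons (P.lf 0 6379440 0) (P.cons (P.lf 1113566 0 0) (P.cons (P.lf 93938 0 0) P.nil))) (P.cons (P.cons (P.lf 0 409998 0) (P.cons (P.lf 117086 0 0) P.nil)) (P.cons (P.cons (P.lf 66690 0 0) P.nil) P.nil)))))) 128556)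
 EL.nil)
noncomputable def S183_198_290_364_46 : EL := (EL.cons 15 (TM.mk (P.lf 4294967296 0 0) 0)
 EL.nil)
noncomputable def S183_198_290_364_47 : EL := (EL.cons 15 (TM.mk (P.cons (P.cons (P.lf 1908737515 0 0) (P.cons (P.lf 0 173145572 0) (P.cons (P.lf 0 22296144 0) (P.lf 1486408 0 0)))) (P.cons (P.cons (P.lf 240462879 0 0) (P.cons (P.lf 0 19599416 0) (P.cons (P.lf 0 2523836 0) (P.lf 168252 0 0)))) (P.cons (P.cons (P.lf 0 21691247 0) (P.cons (P.lf 43068 0 0) (P.cons (P.lf 5544 0 0) (P.lf 0 368 0)))) (P.cons (P.cons (P.lf 0 1190223 0) (P.cons (P.lf 82748 0 0) (P.cons (P.lf 10652 0 0) P.nil))) (P.cons (P.cons (P.lf 51661 0 0) (P.cons (P.lf 2220 0 0) P.nil)) (P.cons (P.cons (P.lf 4047 0 0) P.nil) P.nil)))))) 2007)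
 EL.nil)
noncomputable def S183_198_290_364_48 : EL := (EL.cons 15 (TM.mk (P.cons (P.cons (P.lf 848266971 0 0) (P.cons (P.lf 0 153896142 0) (P.cons (P.lf 0 12837253 0) (P.cons (P.lf 3118832 0 0) (P.cons (P.lf 0 4100 0) (P.cons (P.lf 0 15432 0) P.nil)))))) (P.cons (P.cons (P.lf 213729458 0 0) (P.cons (P.lf 0 36808300 0) (P.cons (P.lf 0 3159597 0) (P.cons (P.lf 722965 0 0) (P.cons (P.lf 0 928 0) P.nil))))) (P.cons (P.cons (P.lf 0 5816900 0) (P.cons (P.lf 0 407445 0) (P.cons (P.lf 33497 0 0) (P.cons (P.lf 25639 0 0) P.nil)))) (P.cons (P.cons (P.lf 0 3486761 0) (P.cons (P.lf 372304 0 0) (P.cons (P.lf 40873 0 0) P.nil))) (P.cons (P.cons (P.lf 22192 0 0) (P.cons (P.lf 17501 0 0) P.nil)) (P.cons (P.cons (P.lf 21403 0 0) P.nil) P.nil)))))) 22445)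
 EL.nil)
noncomputable def S183_198_290_364 : SL := (SL.cons S183_198_290_364_0 (SL.cons S183_198_290_364_1 (SL.cons S183_198_290_364_2 (SL.cons S183_198_290_364_3 (SL.cons S183_198_290_364_4 (SL.cons S183_198_290_364_5 (SL.cons S183_198_290_364_6 (SL.cons S183_198_290_364_7 (SL.cons S183_198_290_364_8 (SL.cons S183_198_290_364_9 (SL.cons S183_198_290_364_10 (SL.cons S183_198_290_364_11 (SL.cons S183_198_290_364_12 (SL.cons S183_198_290_364_13 (SL.cons S183_198_290_364_14 (SL.cons S183_198_290_364_15 (SL.cons S183_198_290_364_16 (SL.cons S183_198_290_364_17 (SL.cons S183_198_290_364_18 (SL.cons S183_198_290_364_19 (SL.cons S183_198_290_364_20 (SL.cons S183_198_290_364_21 (SL.cons S183_198_290_364_22 (SL.cons S183_198_290_364_23 (SL.cons S183_198_290_364_24 (SL.cons S183_198_290_364_25 (SL.cons S183_198_290_364_26 (SL.cons S183_198_290_364_27 (SL.cons S183_198_290_364_28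 (SL.cons S183_198_290_364_29 (SL.cons S183_198_290_364_30 (SL.cons S183_198_290_364_31 (SL.cons S183_198_290_364_32 (SL.cons S183_198_290_364_33 (SL.cons S183_198_290_364_34 (SL.cons S183_198_290_364_35 (SL.cons S183_198_290_364_36 (SL.cons S183_198_290_364_37 (SL.cons S183_198_290_364_38 (SL.cons S183_198_290_364_39 (SL.cons S183_198_290_364_40 (SL.cons S183_198_290_364_41 (SL.cons S183_198_290_364_42 (SL.cons S183_198_290_364_43 (SL.cons S183_198_290_364_44 (SL.cons S183_198_290_364_45 (SL.cons S183_198_290_364_46 (SL.cons S183_198_290_364_47 (SL.cons S183_198_290_364_48 SL.nil)))))))))))))))))))))))))))))))))))))))))))))))))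
noncomputable def S183_198_308_327_0 : EL := (EL.cons 0 (TM.mk (P.cons (P.lf 6766532673 0 0) (P.cons (P.lf 328315225 0 0) (P.cons (P.lf 0 6915520 0) (P.cons (P.lf 0 1047332 0) (P.cons (P.lf 0 7546 0) (P.cons (P.lf 1573 0 0) P.nil)))))) 161)
 (EL.cons 1 (TM.mk (P.cons (P.lf 0 1616469420 0) (P.cons (P.lf 96098353 0 0) (P.cons (P.lf 12687056 0 0) (P.cons (P.lf 0 51723 0) (P.cons (P.lf 0 25867 0) (P.cons (P.lf 0 433 0) P.nil)))))) 140)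
 (EL.cons 5 (TM.mk (P.cons (P.lf 4895566122 0 0) (P.cons (P.lf 0 116734300 0) (P.cons (P.lf 2458850 0 0) (P.cons (P.lf 372384 0 0) (P.cons (P.lf 2686 0 0) (P.cons (P.lf 0 556 0) P.nil)))))) 123)
 (EL.cons 9 (TM.mk (P.lf 6442450944 0 0) 2)
 EL.nil))))
noncomputable def S183_198_308_327_1 : EL := (EL.cons 0 (TM.mk (P.cons (P.cons (P.lf 517701888 0 0) (P.cons (P.lf 0 16393063 0) (P.cons (P.lf 0 611298 0) (P.lf 9955 0 0)))) (P.cons (P.cons (P.lf 1184419045 0 0) (P.cons (P.lf 0 14526967 0) (P.cons (P.lf 0 541704 0) (P.lf 8815 0 0)))) (P.cons (P.cons (P.lf 0 551184 0) (P.cons (P.lf 0 1163357 0) (P.cons (P.lf 0 43375 0) (P.lf 698 0 0)))) (P.cons (P.cons (P.lf 0 12389986 0) (P.cons (P.lf 81619 0 0) (P.cons (P.lf 3038 0 0) P.nil))) (P.cons (P.cons (P.lf 0 280831 0) (P.cons (P.lf 11059 0 0) P.nil)) (P.cons (P.cons (P.lf 55737 0 0) P.nil) P.nil)))))) 7643)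
 (EL.cons 1 (TM.mk (P.cons (P.cons (P.lf 0 1483019478 0) (P.cons (P.lf 29908734 0 0) (P.cons (P.lf 1115286 0 0) (P.lf 0 18150 0)))) (P.cons (P.cons (P.lf 0 87939500 0) (P.cons (P.lf 4058482 0 0) (P.cons (P.lf 151334 0 0) (P.lf 0 2452 0)))) (P.cons (P.cons (P.lf 67227579 0 0) (P.cons (P.lf 0 548308 0) (P.cons (P.lf 0 20440 0) (P.lf 328 0 0)))) (P.cons (P.cons (P.lf 1805466 0 0) (P.cons (P.lf 0 74582 0) (P.cons (P.lf 0 2768 0) P.nil))) (P.cons (P.cons (P.lf 0 486585 0) (P.cons (P.lf 1241 0 0) P.nil)) (P.cons (P.cons (P.lf 0 18956 0) P.nil) P.nil)))))) 4716)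
 (EL.cons 5 (TM.mk (P.cons (P.cons (P.lf 3133816180 0 0) (P.cons (P.lf 0 64621250 0) (P.cons (P.lf 0 2409712 0) (P.lf 39228 0 0)))) (P.cons (P.cons (P.lf 0 4072677 0) (P.cons (P.lf 0 2809522 0) (P.cons (P.lf 0 104772 0) (P.lf 1714 0 0)))) (P.cons (P.cons (P.lf 0 36697324 0) (P.cons (P.lf 431156 0 0) (P.cons (P.lf 16072 0 0) (P.lf 0 252 0)))) (P.cons (P.cons (P.lf 2347033 0 0) (P.cons (P.lf 4652 0 0) (P.cons (P.lf 182 0 0) P.nil))) (P.cons (P.cons (P.lf 186741 0 0) (P.cons (P.lf 0 3026 0) P.nil)) (P.cons (P.cons (P.lf 0 12859 0) P.nil) P.nil)))))) 4685)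
 (EL.cons 9 (TM.mk (P.cons (P.cons (P.lf 2927548198 0 0) (P.cons (P.lf 0 62161668 0) (P.cons (P.lf 0 2317992 0) (P.lf 37734 0 0)))) (P.cons (P.cons (P.lf 367988896 0 0) (P.cons (P.lf 0 7036458 0) (P.cons (P.lf 0 262386 0) (P.lf 4266 0 0)))) (P.cons (P.cons (P.lf 0 32552902 0) (P.cons (P.lf 15462 0 0) (P.cons (P.lf 576 0 0) (P.lf 0 6 0)))) (P.cons (P.cons (P.lf 0 1816132 0) (P.cons (P.lf 29706 0 0) (P.cons (P.lf 1104 0 0) P.nil))) (P.cons (P.cons (P.lf 76663 0 0) (P.cons (P.lf 792 0 0) P.nil)) (P.cons (P.cons (P.lf 6124 0 0) P.nil) P.nil)))))) 1121)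
 (EL.cons 2 (TM.mk (P.cons (P.cons (P.lf 541380372 0 0) (P.cons (P.lf 44488662 0 0) (P.cons (P.lf 0 779757 0) (P.cons (P.lf 0 14979 0) (P.lf 180 0 0))))) (P.cons (P.cons (P.lf 0 11757414 0) (P.cons (P.lf 0 966180 0) (P.cons (P.lf 16934 0 0) (P.cons (P.lf 326 0 0) (P.lf 0 2 0))))) (P.cons (P.cons (P.lf 0 6279145 0) (P.cons (P.lf 0 515995 0) (P.cons (P.lf 9042 0 0) (P.cons (P.lf 171 0 0) P.nil)))) (P.cons (P.cons (P.lf 0 128896 0) (P.cons (P.lf 0 10591 0) (P.cons (P.lf 182 0 0) P.nil))) (P.cons (P.cons (P.lf 17974 0 0) (P.cons (P.lf 1476 0 0) P.nil)) (P.cons (P.cons (P.lf 739 0 0) P.nil) P.nil)))))) 341)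
 (EL.cons 6 (TM.mk (P.cons (P.cons (P.lf 518075424 0 0) (P.cons (P.lf 42573549 0 0) (P.cons (P.lf 0 746190 0) (P.cons (P.lf 0 14334 0) (P.lf 174 0 0))))) (P.cons (P.cons (P.lf 58644156 0 0) (P.cons (P.lf 4819161 0 0) (P.cons (P.lf 0 84462 0) (P.cons (P.lf 0 1620 0) (P.lf 18 0 0))))) (P.cons (P.cons (P.lf 0 128877 0) (P.cons (P.lf 0 10587 0) (P.cons (P.lf 183 0 0) (P.cons (P.lf 0 0 0) P.nil)))) (P.cons (P.cons (P.lf 0 247596 0) (P.cons (P.lf 0 20346 0) (P.cons (P.lf 354 0 0) P.nil))) (P.cons (P.cons (P.lf 0 6642 0) (P.cons (P.lf 0 543 0) P.nil)) (P.cons (P.cons (P.lf 441 0 0) P.nil) P.nil)))))) 255)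
 EL.nil))))))
noncomputable def S183_198_308_327_2 : EL := (EL.cons 0 (TM.mk (P.cons (P.cons (P.lf 0 926740038 0) (P.cons (P.lf 34447442 0 0) (P.cons (P.lf 970912 0 0) (P.cons (P.lf 0 44293 0) (P.cons (P.lf 0 46 0) (P.cons (P.lf 5 0 0) P.nil)))))) (P.cons (P.cons (P.lf 716519755 0 0) (P.cons (P.lf 0 22008336 0) (P.cons (P.lf 0 677725 0) (P.cons (P.lf 24028 0 0) (P.cons (P.lf 31 0 0) P.nil))))) (P.cons (P.cons (P.lf 122955120 0 0) (P.cons (P.lf 0 4328440 0) (P.cons (P.lf 0 121317 0) (P.cons (P.lf 5603 0 0) P.nil)))) (P.cons (P.cons (P.lf 0 16933443 0) (P.cons (P.lf 190939 0 0) (P.cons (P.lf 8366 0 0) P.nil))) (P.cons (P.cons (P.lf 0 2028195 0) (P.cons (P.lf 66374 0 0) P.nil)) (P.cons (P.cons (P.lf 130496 0 0) P.nil) P.nil)))))) 36034)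
 (EL.cons 1 (TM.mk (P.cons (P.cons (P.lf 0 1014023415 0) (P.cons (P.lf 41625611 0 0) (P.cons (P.lf 1125532 0 0) (P.cons (P.lf 0 57084 0) (P.cons (P.lf 0 76 0) (P.cons (P.lf 18 0 0) P.nil)))))) (P.cons (P.cons (P.lf 0 185270189 0) (P.cons (P.lf 9498100 0 0) (P.cons (P.lf 235638 0 0) (P.cons (P.lf 0 14586 0) (P.cons (P.lf 0 15 0) P.nil))))) (P.cons (P.cons (P.lf 56281738 0 0) (P.cons (P.lf 0 1177254 0) (P.cons (P.lf 0 43387 0) (P.cons (P.lf 751 0 0) P.nil)))) (P.cons (P.cons (P.lf 9178295 0 0) (P.cons (P.lf 0 321694 0) (P.cons (P.lf 0 9578 0) P.nil))) (P.cons (P.cons (P.lf 0 789381 0) (P.cons (P.lf 747 0 0) P.nil)) (P.cons (P.cons (P.lf 0 114133 0) P.nil) P.nil)))))) 17978)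
 (EL.cons 5 (TM.mk (P.cons (P.cons (P.lf 1837206582 0 0) (P.cons (P.lf 0 76274989 0) (P.cons (P.lf 0 2053009 0) (P.cons (P.lf 105316 0 0) (P.cons (P.lf 129 0 0) (P.cons (P.lf 0 23 0) P.nil)))))) (P.cons (P.cons (P.lf 124268935 0 0) (P.cons (P.lf 0 7470549 0) (P.cons (P.lf 0 175528 0) (P.cons (P.lf 12233 0 0) (P.cons (P.lf 18 0 0) P.nil))))) (P.cons (P.cons (P.lf 0 53425251 0) (P.cons (P.lf 1355856 0 0) (P.cons (P.lf 44664 0 0) (P.cons (P.lf 0 1245 0) P.nil)))) (P.cons (P.cons (P.lf 0 64515 0) (P.cons (P.lf 85025 0 0) (P.cons (P.lf 2052 0 0) P.nil))) (P.cons (P.cons (P.lf 751380 0 0) (P.cons (P.lf 0 16292 0) P.nil)) (P.cons (P.cons (P.lf 0 9348 0) P.nil) P.nil)))))) 18796)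
 (EL.cons 9 (TM.mk (P.cons (P.cons (P.lf 1330322656 0 0) (P.cons (P.lf 0 56494423 0) (P.cons (P.lf 0 1506877 0) (P.cons (P.lf 79024 0 0) (P.cons (P.lf 105 0 0) (P.cons (P.lf 0 27 0) P.nil)))))) (P.cons (P.cons (P.lf 334439559 0 0) (P.cons (P.lf 0 13496221 0) (P.cons (P.lf 0 367482 0) (P.cons (P.lf 18313 0 0) (P.cons (P.lf 24 0 0) P.nil))))) (P.cons (P.cons (P.lf 0 8565769 0) (P.cons (P.lf 0 161593 0) (P.cons (P.lf 1360 0 0) (P.cons (P.lf 651 0 0) P.nil)))) (P.cons (P.cons (P.lf 0 5369359 0) (P.cons (P.lf 134919 0 0) (P.cons (P.lf 4420 0 0) P.nil))) (P.cons (P.cons (P.lf 26686 0 0) (P.cons (P.lf 6444 0 0) P.nil)) (P.cons (P.cons (P.lf 32676 0 0) P.nil) P.nil)))))) 4628)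
 (EL.cons 2 (TM.mk (P.cons (P.cons (P.lf 492023036 0 0) (P.cons (P.lf 29985356 0 0) (P.cons (P.lf 0 1956763 0) (P.cons (P.lf 0 24238 0) (P.cons (P.lf 1535 0 0) (P.cons (P.lf 0 0 0) P.nil)))))) (P.cons (P.cons (P.lf 51161135 0 0) (P.cons (P.lf 3248527 0 0) (P.cons (P.lf 0 187858 0) (P.cons (P.lf 0 2385 0) (P.cons (P.lf 140 0 0) P.nil))))) (P.cons (P.cons (P.lf 0 12520884 0) (P.cons (P.lf 0 879463 0) (P.cons (P.lf 35881 0 0) (P.cons (P.lf 495 0 0) P.nil)))) (P.cons (P.cons (P.lf 0 1020881 0) (P.cons (P.lf 0 62752 0) (P.cons (P.lf 3993 0 0) P.nil))) (P.cons (P.cons (P.lf 84577 0 0) (P.cons (P.lf 6879 0 0) P.nil)) (P.cons (P.cons (P.lf 8313 0 0) P.nil) P.nil)))))) 2260)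
 (EL.cons 6 (TM.mk (P.cons (P.cons (P.lf 470842782 0 0) (P.cons (P.lf 28694568 0 0) (P.cons (P.lf 0 1872528 0) (P.cons (P.lf 0 23190 0) (P.cons (P.lf 1464 0 0) (P.cons (P.lf 0 0 0) P.nil)))))) (P.cons (P.cons (P.lf 112481910 0 0) (P.cons (P.lf 6979974 0 0) (P.cons (P.lf 0 432402 0) (P.cons (P.lf 0 5412 0) (P.cons (P.lf 330 0 0) P.nil))))) (P.cons (P.cons (P.lf 1346766 0 0) (P.cons (P.lf 0 12450 0) (P.cons (P.lf 0 16644 0) (P.cons (P.lf 0 156 0) P.nil)))) (P.cons (P.cons (P.lf 0 1124478 0) (P.cons (P.lf 0 82284 0) (P.cons (P.lf 2826 0 0) P.nil))) (P.cons (P.cons (P.lf 0 53748 0) (P.cons (P.lf 0 3078 0) P.nil)) (P.cons (P.cons (P.lf 4596 0 0) P.nil) P.nil)))))) 1914)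
 EL.nil))))))
noncomputable def S183_198_308_327_3 : EL := (EL.cons 0 (TM.mk (P.cons (P.lf 1689184190 0 0) (P.cons (P.lf 0 328315225 0) (P.cons (P.lf 6915520 0 0) (P.cons (P.lf 1047332 0 0) (P.cons (P.lf 7546 0 0) (P.cons (P.lf 0 1573 0) P.nil)))))) 161)
 (EL.cons 1 (TM.mk (P.cons (P.lf 1616469420 0 0) (P.cons (P.lf 0 96098353 0) (P.cons (P.lf 0 12687056 0) (P.cons (P.lf 51723 0 0) (P.cons (P.lf 25867 0 0) (P.cons (P.lf 433 0 0) P.nil)))))) 140)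
 (EL.cons 5 (TM.mk (P.cons (P.lf 1546884822 0 0) (P.cons (P.lf 116734300 0 0) (P.cons (P.lf 0 2458850 0) (P.cons (P.lf 0 372384 0) (P.cons (P.lf 0 2686 0) (P.cons (P.lf 556 0 0) P.nil)))))) 116)
 EL.nil)))
noncomputable def S183_198_308_327_4 : EL := (EL.cons 0 (TM.mk (P.cons (P.cons (P.lf 767591119 0 0) (P.cons (P.lf 0 16298532 0) (P.cons (P.lf 0 607767 0) (P.lf 9892 0 0)))) (P.cons (P.cons (P.lf 0 52706278 0) (P.cons (P.lf 1322903 0 0) (P.cons (P.lf 49329 0 0) (P.lf 0 803 0)))) (P.cons (P.cons (P.lf 0 24145885 0) (P.cons (P.lf 295913 0 0) (P.cons (P.lf 11033 0 0) (P.lf 0 177 0)))) (P.cons (P.cons (P.lf 2053687 0 0) (P.cons (P.lf 0 10657 0) (P.cons (P.lf 0 397 0) P.nil))) (P.cons (P.cons (P.lf 140960 0 0) (P.cons (P.lf 0 2504 0) P.nil)) (P.cons (P.cons (P.lf 0 9826 0) P.nil) P.nil)))))) 1550)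
 (EL.cons 1 (TM.mk (P.cons (P.cons (P.lf 734548415 0 0) (P.cons (P.lf 0 15596925 0) (P.cons (P.lf 0 581604 0) (P.lf 9466 0 0)))) (P.cons (P.cons (P.lf 48663191 0 0) (P.cons (P.lf 0 838280 0) (P.cons (P.lf 0 31258 0) (P.lf 506 0 0)))) (P.cons (P.cons (P.lf 0 19422090 0) (P.cons (P.lf 231251 0 0) (P.cons (P.lf 8621 0 0) (P.lf 0 138 0)))) (P.cons (P.cons (P.lf 0 671283 0) (P.cons (P.lf 20580 0 0) (P.cons (P.lf 765 0 0) P.nil))) (P.cons (P.cons (P.lf 125139 0 0) (P.cons (P.lf 0 579 0) P.nil)) (P.cons (P.cons (P.lf 5381 0 0) P.nil) P.nil)))))) 1078)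
 (EL.cons 5 (TM.mk (P.cons (P.cons (P.lf 702928110 0 0) (P.cons (P.lf 0 14925520 0) (P.cons (P.lf 0 556568 0) (P.lf 9060 0 0)))) (P.cons (P.cons (P.lf 141402974 0 0) (P.cons (P.lf 0 2815850 0) (P.cons (P.lf 0 105000 0) (P.lf 1706 0 0)))) (P.cons (P.cons (P.lf 0 2265762 0) (P.cons (P.lf 0 100058 0) (P.cons (P.lf 0 3730 0) (P.lf 60 0 0)))) (P.cons (P.cons (P.lf 0 1335576 0) (P.cons (P.lf 13690 0 0) (P.cons (P.lf 508 0 0) P.nil))) (P.cons (P.cons (P.lf 0 24566 0) (P.cons (P.lf 1154 0 0) P.nil)) (P.cons (P.cons (P.lf 5532 0 0) P.nil) P.nil)))))) 840)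
 EL.nil)))
noncomputable def S183_198_308_327_5 : EL := (EL.cons 0 (TM.mk (P.cons (P.cons (P.lf 348805139 0 0) (P.cons (P.lf 0 14812604 0) (P.cons (P.lf 0 395096 0) (P.cons (P.lf 20719 0 0) (P.cons (P.lf 26 0 0) (P.cons (P.lf 0 7 0) P.nil)))))) (P.cons (P.cons (P.lf 19893798 0 0) (P.cons (P.lf 0 659627 0) (P.cons (P.lf 0 19559 0) (P.cons (P.lf 773 0 0) (P.cons (P.lf 0 0 0) P.nil))))) (P.cons (P.cons (P.lf 0 17861352 0) (P.cons (P.lf 584771 0 0) (P.cons (P.lf 17465 0 0) (P.cons (P.lf 0 676 0) P.nil)))) (P.cons (P.cons (P.lf 0 396036 0) (P.cons (P.lf 19937 0 0) (P.cons (P.lf 450 0 0) P.nil))) (P.cons (P.cons (P.lf 327357 0 0) (P.cons (P.lf 0 7618 0) P.nil)) (P.cons (P.cons (P.lf 117 0 0) P.nil) P.nil)))))) 5193)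
 (EL.cons 1 (TM.mk (P.cons (P.cons (P.lf 333790029 0 0) (P.cons (P.lf 0 14174962 0) (P.cons (P.lf 0 378088 0) (P.cons (P.lf 19826 0 0) (P.cons (P.lf 26 0 0) (P.cons (P.lf 0 5 0) P.nil)))))) (P.cons (P.cons (P.lf 64070257 0 0) (P.cons (P.lf 0 2543628 0) (P.cons (P.lf 0 69725 0) (P.cons (P.lf 3414 0 0) (P.cons (P.lf 3 0 0) P.nil))))) (P.cons (P.cons (P.lf 0 9757663 0) (P.cons (P.lf 272023 0 0) (P.cons (P.lf 8788 0 0) (P.cons (P.lf 0 264 0) P.nil)))) (P.cons (P.cons (P.lf 0 1867376 0) (P.cons (P.lf 62386 0 0) (P.cons (P.lf 1800 0 0) P.nil))) (P.cons (P.cons (P.lf 111680 0 0) (P.cons (P.lf 0 410 0) P.nil)) (P.cons (P.cons (P.lf 19736 0 0) P.nil) P.nil)))))) 3843)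
 (EL.cons 5 (TM.mk (P.cons (P.cons (P.lf 319421278 0 0) (P.cons (P.lf 0 13564770 0) (P.cons (P.lf 0 361812 0) (P.cons (P.lf 18972 0 0) (P.cons (P.lf 24 0 0) (P.cons (P.lf 0 4 0) P.nil)))))) (P.cons (P.cons (P.lf 104406500 0 0) (P.cons (P.lf 0 4264204 0) (P.cons (P.lf 0 115538 0) (P.cons (P.lf 5828 0 0) (P.cons (P.lf 6 0 0) P.nil))))) (P.cons (P.cons (P.lf 3495446 0 0) (P.cons (P.lf 0 261782 0) (P.cons (P.lf 0 5756 0) (P.cons (P.lf 456 0 0) P.nil)))) (P.cons (P.cons (P.lf 0 1648972 0) (P.cons (P.lf 37882 0 0) (P.cons (P.lf 1312 0 0) P.nil))) (P.cons (P.cons (P.lf 0 107498 0) (P.cons (P.lf 4856 0 0) P.nil)) (P.cons (P.cons (P.lf 10848 0 0) P.nil) P.nil)))))) 2732)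
 EL.nil)))
noncomputable def S183_198_308_327_6 : EL := (EL.cons 12 (TM.mk (P.lf 8589934592 0 0) 0)
 (EL.cons 3 (TM.mk (P.cons (P.lf 0 1904598495 0) (P.cons (P.lf 185091918 0 0) (P.cons (P.lf 5095050 0 0) (P.cons (P.lf 0 95302 0) (P.cons (P.lf 0 6701 0) (P.cons (P.lf 0 18 0) P.nil)))))) 59)
 (EL.cons 7 (TM.mk (P.cons (P.lf 0 1822610727 0) (P.cons (P.lf 0 68770857 0) (P.cons (P.lf 2745999 0 0) (P.cons (P.lf 115768 0 0) (P.cons (P.lf 0 717 0) (P.cons (P.lf 0 127 0) P.nil)))))) 49)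
 EL.nil)))
noncomputable def S183_198_308_327_7 : EL := (EL.cons 12 (TM.mk (P.cons (P.cons (P.lf 3903397598 0 0) (P.cons (P.lf 0 82882224 0) (P.cons (P.lf 0 3090656 0) (P.lf 50312 0 0)))) (P.cons (P.cons (P.lf 490651862 0 0) (P.cons (P.lf 0 9381944 0) (P.cons (P.lf 0 349848 0) (P.lf 5688 0 0)))) (P.cons (P.cons (P.lf 0 43403870 0) (P.cons (P.lf 20616 0 0) (P.cons (P.lf 768 0 0) (P.lf 0 8 0)))) (P.cons (P.cons (P.lf 0 2421510 0) (P.cons (P.lf 39608 0 0) (P.cons (P.lf 1472 0 0) P.nil))) (P.cons (P.cons (P.lf 102218 0 0) (P.cons (P.lf 1056 0 0) P.nil)) (P.cons (P.cons (P.lf 8166 0 0) P.nil) P.nil)))))) 1470)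
 (EL.cons 3 (TM.mk (P.cons (P.cons (P.lf 2017732948 0 0) (P.cons (P.lf 0 36754028 0) (P.cons (P.lf 0 1370546 0) (P.lf 22310 0 0)))) (P.cons (P.cons (P.lf 0 475942528 0) (P.cons (P.lf 0 588596 0) (P.cons (P.lf 0 21946 0) (P.lf 352 0 0)))) (P.cons (P.cons (P.lf 0 33957779 0) (P.cons (P.lf 511778 0 0) (P.cons (P.lf 19080 0 0) (P.lf 0 306 0)))) (P.cons (P.cons (P.lf 1976967 0 0) (P.cons (P.lf 25964 0 0) (P.cons (P.lf 964 0 0) P.nil))) (P.cons (P.cons (P.lf 230226 0 0) (P.cons (P.lf 0 1598 0) P.nil)) (P.cons (P.cons (P.lf 0 608 0) P.nil) P.nil)))))) 3646)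
 (EL.cons 7 (TM.mk (P.cons (P.cons (P.lf 0 1899478767 0) (P.cons (P.lf 38069865 0 0) (P.cons (P.lf 1419619 0 0) (P.lf 0 23116 0)))) (P.cons (P.cons (P.lf 176836329 0 0) (P.cons (P.lf 218698 0 0) (P.cons (P.lf 8155 0 0) (P.lf 0 136 0)))) (P.cons (P.cons (P.lf 688195 0 0) (P.cons (P.lf 0 204903 0) (P.cons (P.lf 0 7639 0) (P.lf 123 0 0)))) (P.cons (P.cons (P.lf 0 1638150 0) (P.cons (P.lf 7739 0 0) (P.cons (P.lf 285 0 0) P.nil))) (P.cons (P.cons (P.lf 3013 0 0) (P.cons (P.lf 1182 0 0) P.nil)) (P.cons (P.cons (P.lf 6855 0 0) P.nil) P.nil)))))) 2709)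
 (EL.cons 10 (TM.mk (P.cons (P.cons (P.lf 0 1220840511 0) (P.cons (P.lf 0 100324221 0) (P.cons (P.lf 1758393 0 0) (P.cons (P.lf 33783 0 0) (P.lf 0 411 0))))) (P.cons (P.cons (P.lf 0 92129652 0) (P.cons (P.lf 0 7570878 0) (P.cons (P.lf 132693 0 0) (P.cons (P.lf 2547 0 0) (P.lf 0 30 0))))) (P.cons (P.cons (P.lf 1940586 0 0) (P.cons (P.lf 159468 0 0) (P.cons (P.lf 0 2793 0) (P.cons (P.lf 0 51 0) P.nil)))) (P.cons (P.cons (P.lf 293892 0 0) (P.cons (P.lf 24150 0 0) (P.cons (P.lf 0 423 0) P.nil))) (P.cons (P.cons (P.lf 2118 0 0) (P.cons (P.lf 174 0 0) P.nil)) (P.cons (P.cons (P.lf 0 438 0) P.nil) P.nil)))))) 252)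
 EL.nil))))
noncomputable def S183_198_308_327_8 : EL := (EL.cons 12 (TM.mk (P.cons (P.cons (P.lf 1773763542 0 0) (P.cons (P.lf 0 75325898 0) (P.cons (P.lf 0 2009170 0) (P.cons (P.lf 105366 0 0) (P.cons (P.lf 140 0 0) (P.cons (P.lf 0 36 0) P.nil)))))) (P.cons (P.cons (P.lf 445919412 0 0) (P.cons (P.lf 0 17994962 0) (P.cons (P.lf 0 489976 0) (P.cons (P.lf 24418 0 0) (P.cons (P.lf 32 0 0) P.nil))))) (P.cons (P.cons (P.lf 0 11421026 0) (P.cons (P.lf 0 215458 0) (P.cons (P.lf 1814 0 0) (P.cons (P.lf 868 0 0) P.nil)))) (P.cons (P.cons (P.lf 0 7159146 0) (P.cons (P.lf 179892 0 0) (P.cons (P.lf 5894 0 0) P.nil))) (P.cons (P.cons (P.lf 35582 0 0) (P.cons (P.lf 8592 0 0) P.nil)) (P.cons (P.cons (P.lf 43568 0 0) P.nil) P.nil)))))) 6142)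
 (EL.cons 3 (TM.mk (P.cons (P.cons (P.lf 2227064130 0 0) (P.cons (P.lf 0 89042018 0) (P.cons (P.lf 0 2433775 0) (P.cons (P.lf 120171 0 0) (P.cons (P.lf 156 0 0) (P.cons (P.lf 0 41 0) P.nil)))))) (P.cons (P.cons (P.lf 0 141396745 0) (P.cons (P.lf 0 2323533 0) (P.cons (P.lf 27918 0 0) (P.cons (P.lf 9943 0 0) (P.cons (P.lf 21 0 0) P.nil))))) (P.cons (P.cons (P.lf 0 118816549 0) (P.cons (P.lf 2858593 0 0) (P.cons (P.lf 95628 0 0) (P.cons (P.lf 0 2545 0) P.nil)))) (P.cons (P.cons (P.lf 3510 0 0) (P.cons (P.lf 215448 0 0) (P.cons (P.lf 5575 0 0) P.nil))) (P.cons (P.cons (P.lf 1269862 0 0) (P.cons (P.lf 0 19116 0) P.nil)) (P.cons (P.cons (P.lf 30784 0 0) P.nil) P.nil)))))) 19217)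
 (EL.cons 7 (TM.mk (P.cons (P.cons (P.lf 0 1349947557 0) (P.cons (P.lf 55271649 0 0) (P.cons (P.lf 1496093 0 0) (P.cons (P.lf 0 75690 0) (P.cons (P.lf 0 95 0) (P.cons (P.lf 19 0 0) P.nil)))))) (P.cons (P.cons (P.lf 52535920 0 0) (P.cons (P.lf 863321 0 0) (P.cons (P.lf 0 10368 0) (P.cons (P.lf 0 3702 0) (P.cons (P.lf 0 7 0) P.nil))))) (P.cons (P.cons (P.lf 40602357 0 0) (P.cons (P.lf 0 1120343 0) (P.cons (P.lf 0 34827 0) (P.cons (P.lf 1191 0 0) P.nil)))) (P.cons (P.cons (P.lf 0 3903235 0) (P.cons (P.lf 16602 0 0) (P.cons (P.lf 1102 0 0) P.nil))) (P.cons (P.cons (P.lf 0 388238 0) (P.cons (P.lf 13064 0 0) P.nil)) (P.cons (P.cons (P.lf 35371 0 0) P.nil) P.nil)))))) 10875)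
 (EL.cons 10 (TM.mk (P.cons (P.cons (P.lf 0 1109537178 0) (P.cons (P.lf 0 67618518 0) (P.cons (P.lf 4412604 0 0) (P.cons (P.lf 54660 0 0) (P.cons (P.lf 0 3462 0) (P.cons (P.lf 0 0 0) P.nil)))))) (P.cons (P.cons (P.lf 0 223197582 0) (P.cons (P.lf 0 13896876 0) (P.cons (P.lf 852456 0 0) (P.cons (P.lf 10692 0 0) (P.cons (P.lf 0 654 0) P.nil))))) (P.cons (P.cons (P.lf 3576390 0 0) (P.cons (P.lf 451830 0 0) (P.cons (P.lf 13716 0 0) (P.cons (P.lf 60 0 0) P.nil)))) (P.cons (P.cons (P.lf 2108136 0 0) (P.cons (P.lf 151626 0 0) (P.cons (P.lf 0 5616 0) P.nil))) (P.cons (P.cons (P.lf 38772 0 0) (P.cons (P.lf 1362 0 0) P.nil)) (P.cons (P.cons (P.lf 0 8730 0) P.nil) P.nil)))))) 2814)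
 EL.nil))))
noncomputable def S183_198_308_327_9 : EL := (EL.cons 3 (TM.mk (P.cons (P.lf 0 1904598495 0) (P.cons (P.lf 185091918 0 0) (P.cons (P.lf 5095050 0 0) (P.cons (P.lf 0 95302 0) (P.cons (P.lf 0 6701 0) (P.cons (P.lf 0 18 0) P.nil)))))) 59)
 (EL.cons 7 (TM.mk (P.cons (P.lf 0 1822610727 0) (P.cons (P.lf 0 68770857 0) (P.cons (P.lf 2745999 0 0) (P.cons (P.lf 115768 0 0) (P.cons (P.lf 0 717 0) (P.cons (P.lf 0 127 0) P.nil)))))) 49)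
 EL.nil))
noncomputable def S183_198_308_327_10 : EL := (EL.cons 3 (TM.mk (P.cons (P.cons (P.lf 0 865478672 0) (P.cons (P.lf 18377014 0 0) (P.cons (P.lf 685273 0 0) (P.lf 0 11155 0)))) (P.cons (P.cons (P.lf 0 24680914 0) (P.cons (P.lf 294298 0 0) (P.cons (P.lf 10973 0 0) (P.lf 0 176 0)))) (P.cons (P.cons (P.lf 22511305 0 0) (P.cons (P.lf 0 255889 0) (P.cons (P.lf 0 9540 0) (P.lf 153 0 0)))) (P.cons (P.cons (P.lf 0 150618 0) (P.cons (P.lf 0 12982 0) (P.cons (P.lf 0 482 0) P.nil))) (P.cons (P.cons (P.lf 0 109074 0) (P.cons (P.lf 799 0 0) P.nil)) (P.cons (P.cons (P.lf 0 953 0) P.nil) P.nil)))))) 828)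
 (EL.cons 7 (TM.mk (P.cons (P.cons (P.lf 0 828222177 0) (P.cons (P.lf 17585934 0 0) (P.cons (P.lf 655774 0 0) (P.lf 0 10675 0)))) (P.cons (P.cons (P.lf 0 135356949 0) (P.cons (P.lf 2654212 0 0) (P.cons (P.lf 98974 0 0) (P.lf 0 1609 0)))) (P.cons (P.cons (P.lf 6529099 0 0) (P.cons (P.lf 44241 0 0) (P.cons (P.lf 1649 0 0) (P.lf 0 27 0)))) (P.cons (P.cons (P.lf 1070742 0 0) (P.cons (P.lf 0 12685 0) (P.cons (P.lf 0 471 0) P.nil))) (P.cons (P.cons (P.lf 0 9890 0) (P.cons (P.lf 0 654 0) P.nil)) (P.cons (P.cons (P.lf 0 4008 0) P.nil) P.nil)))))) 560)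
 EL.nil))
noncomputable def S183_198_308_327_11 : EL := (EL.cons 3 (TM.mk (P.cons (P.cons (P.lf 0 393286740 0) (P.cons (P.lf 16701592 0 0) (P.cons (P.lf 445481 0 0) (P.cons (P.lf 0 23361 0) (P.cons (P.lf 0 30 0) (P.cons (P.lf 7 0 0) P.nil)))))) (P.cons (P.cons (P.lf 0 60651001 0) (P.cons (P.lf 2366835 0 0) (P.cons (P.lf 65346 0 0) (P.cons (P.lf 0 3143 0) (P.cons (P.lf 0 3 0) P.nil))))) (P.cons (P.cons (P.lf 13192877 0 0) (P.cons (P.lf 0 384653 0) (P.cons (P.lf 0 12150 0) (P.cons (P.lf 395 0 0) P.nil)))) (P.cons (P.cons (P.lf 1586076 0 0) (P.cons (P.lf 0 54366 0) (P.cons (P.lf 0 1535 0) P.nil))) (P.cons (P.cons (P.lf 0 175256 0) (P.cons (P.lf 2100 0 0) P.nil)) (P.cons (P.cons (P.lf 0 13364 0) P.nil) P.nil)))))) 3127)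
 (EL.cons 7 (TM.mk (P.cons (P.cons (P.lf 0 376356819 0) (P.cons (P.lf 15982635 0 0) (P.cons (P.lf 426305 0 0) (P.cons (P.lf 0 22356 0) (P.cons (P.lf 0 29 0) (P.cons (P.lf 7 0 0) P.nil)))))) (P.cons (P.cons (P.lf 0 108815816 0) (P.cons (P.lf 4421225 0 0) (P.cons (P.lf 120048 0 0) (P.cons (P.lf 0 6024 0) (P.cons (P.lf 0 7 0) P.nil))))) (P.cons (P.cons (P.lf 0 579681 0) (P.cons (P.lf 165703 0 0) (P.cons (P.lf 2895 0 0) (P.cons (P.lf 0 345 0) P.nil)))) (P.cons (P.cons (P.lf 1776917 0 0) (P.cons (P.lf 0 43212 0) (P.cons (P.lf 0 1448 0) P.nil))) (P.cons (P.cons (P.lf 51976 0 0) (P.cons (P.lf 0 3568 0) P.nil)) (P.cons (P.cons (P.lf 0 12035 0) P.nil) P.nil)))))) 2081)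
 EL.nil))
noncomputable def S183_198_308_327_12 : EL := (EL.cons 4 (TM.mk (P.cons (P.lf 1904598495 0 0) (P.cons (P.lf 0 185091918 0) (P.cons (P.lf 0 5095050 0) (P.cons (P.lf 95302 0 0) (P.cons (P.lf 6701 0 0) (P.cons (P.lf 18 0 0) P.nil)))))) 59)
 (EL.cons 8 (TM.mk (P.cons (P.lf 1822610727 0 0) (P.cons (P.lf 68770857 0 0) (P.cons (P.lf 0 2745999 0) (P.cons (P.lf 0 115768 0) (P.cons (P.lf 717 0 0) (P.cons (P.lf 127 0 0) P.nil)))))) 49)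
 EL.nil))
noncomputable def S183_198_308_327_13 : EL := (EL.cons 4 (TM.mk (P.cons (P.cons (P.lf 865478672 0 0) (P.cons (P.lf 0 18377014 0) (P.cons (P.lf 0 685273 0) (P.lf 11155 0 0)))) (P.cons (P.cons (P.lf 24680914 0 0) (P.cons (P.lf 0 294298 0) (P.cons (P.lf 0 10973 0) (P.lf 176 0 0)))) (P.cons (P.cons (P.lf 0 22511305 0) (P.cons (P.lf 255889 0 0) (P.cons (P.lf 9540 0 0) (P.lf 0 153 0)))) (P.cons (P.cons (P.lf 150618 0 0) (P.cons (P.lf 12982 0 0) (P.cons (P.lf 482 0 0) P.nil))) (P.cons (P.cons (P.lf 109074 0 0) (P.cons (P.lf 0 799 0) P.nil)) (P.cons (P.cons (P.lf 953 0 0) P.nil) P.nil)))))) 828)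
 (EL.cons 8 (TM.mk (P.cons (P.cons (P.lf 828222177 0 0) (P.cons (P.lf 0 17585934 0) (P.cons (P.lf 0 655774 0) (P.lf 10675 0 0)))) (P.cons (P.cons (P.lf 135356949 0 0) (P.cons (P.lf 0 2654212 0) (P.cons (P.lf 0 98974 0) (P.lf 1609 0 0)))) (P.cons (P.cons (P.lf 0 6529099 0) (P.cons (P.lf 0 44241 0) (P.cons (P.lf 0 1649 0) (P.lf 27 0 0)))) (P.cons (P.cons (P.lf 0 1070742 0) (P.cons (P.lf 12685 0 0) (P.cons (P.lf 471 0 0) P.nil))) (P.cons (P.cons (P.lf 9890 0 0) (P.cons (P.lf 654 0 0) P.nil)) (P.cons (P.cons (P.lf 4008 0 0) P.nil) P.nil)))))) 560)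
 EL.nil))
noncomputable def S183_198_308_327_14 : EL := (EL.cons 4 (TM.mk (P.cons (P.cons (P.lf 393286740 0 0) (P.cons (P.lf 0 16701592 0) (P.cons (P.lf 0 445481 0) (P.cons (P.lf 23361 0 0) (P.cons (P.lf 30 0 0) (P.cons (P.lf 0 7 0) P.nil)))))) (P.cons (P.cons (P.lf 60651001 0 0) (P.cons (P.lf 0 2366835 0) (P.cons (P.lf 0 65346 0) (P.cons (P.lf 3143 0 0) (P.cons (P.lf 3 0 0) P.nil))))) (P.cons (P.cons (P.lf 0 13192877 0) (P.cons (P.lf 384653 0 0) (P.cons (P.lf 12150 0 0) (P.cons (P.lf 0 395 0) P.nil)))) (P.cons (P.cons (P.lf 0 1586076 0) (P.cons (P.lf 54366 0 0) (P.cons (P.lf 1535 0 0) P.nil))) (P.cons (P.cons (P.lf 175256 0 0) (P.cons (P.lf 0 2100 0) P.nil)) (P.cons (P.cons (P.lf 13364 0 0) P.nil) P.nil)))))) 3127)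
 (EL.cons 8 (TM.mk (P.cons (P.cons (P.lf 376356819 0 0) (P.cons (P.lf 0 15982635 0) (P.cons (P.lf 0 426305 0) (P.cons (P.lf 22356 0 0) (P.cons (P.lf 29 0 0) (P.cons (P.lf 0 7 0) P.nil)))))) (P.cons (P.cons (P.lf 108815816 0 0) (P.cons (P.lf 0 4421225 0) (P.cons (P.lf 0 120048 0) (P.cons (P.lf 6024 0 0) (P.cons (P.lf 7 0 0) P.nil))))) (P.cons (P.cons (P.lf 579681 0 0) (P.cons (P.lf 0 165703 0) (P.cons (P.lf 0 2895 0) (P.cons (P.lf 345 0 0) P.nil)))) (P.cons (P.cons (P.lf 0 1776917 0) (P.cons (P.lf 43212 0 0) (P.cons (P.lf 1448 0 0) P.nil))) (P.cons (P.cons (P.lf 0 51976 0) (P.cons (P.lf 3568 0 0) P.nil)) (P.cons (P.cons (P.lf 12035 0 0) P.nil) P.nil)))))) 2081)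
 EL.nil))
noncomputable def S183_198_308_327_15 : EL := (EL.cons 4 (TM.mk (P.cons (P.lf 0 900898234 0) (P.cons (P.lf 175101453 0 0) (P.cons (P.lf 0 3688277 0) (P.cons (P.lf 0 558577 0) (P.cons (P.lf 0 4024 0) (P.cons (P.lf 839 0 0) P.nil)))))) 89)
 (EL.cons 8 (TM.mk (P.cons (P.lf 0 862117024 0) (P.cons (P.lf 51252455 0 0) (P.cons (P.lf 6766430 0 0) (P.cons (P.lf 0 27586 0) (P.cons (P.lf 0 13796 0) (P.cons (P.lf 0 231 0) P.nil)))))) 71)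
 EL.nil))
noncomputable def S183_198_308_327_16 : EL := (EL.cons 4 (TM.mk (P.cons (P.cons (P.lf 0 409381930 0) (P.cons (P.lf 8692550 0 0) (P.cons (P.lf 324142 0 0) (P.lf 0 5276 0)))) (P.cons (P.cons (P.lf 28110015 0 0) (P.cons (P.lf 0 705548 0) (P.cons (P.lf 0 26309 0) (P.lf 428 0 0)))) (P.cons (P.cons (P.lf 12877805 0 0) (P.cons (P.lf 0 157820 0) (P.cons (P.lf 0 5884 0) (P.lf 94 0 0)))) (P.cons (P.cons (P.lf 0 1095300 0) (P.cons (P.lf 5684 0 0) (P.cons (P.lf 211 0 0) P.nil))) (P.cons (P.cons (P.lf 0 75179 0) (P.cons (P.lf 1335 0 0) P.nil)) (P.cons (P.cons (P.lf 5240 0 0) P.nil) P.nil)))))) 835)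
 (EL.cons 8 (TM.mk (P.cons (P.cons (P.lf 0 391759155 0) (P.cons (P.lf 8318360 0 0) (P.cons (P.lf 310189 0 0) (P.lf 0 5049 0)))) (P.cons (P.cons (P.lf 0 25953702 0) (P.cons (P.lf 447083 0 0) (P.cons (P.lf 16671 0 0) (P.lf 0 270 0)))) (P.cons (P.cons (P.lf 10358448 0 0) (P.cons (P.lf 0 123334 0) (P.cons (P.lf 0 4598 0) (P.lf 74 0 0)))) (P.cons (P.cons (P.lf 358018 0 0) (P.cons (P.lf 0 10976 0) (P.cons (P.lf 0 408 0) P.nil))) (P.cons (P.cons (P.lf 0 66741 0) (P.cons (P.lf 309 0 0) P.nil)) (P.cons (P.cons (P.lf 0 2870 0) P.nil) P.nil)))))) 565)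
 EL.nil))
noncomputable def S183_198_308_327_17 : EL := (EL.cons 4 (TM.mk (P.cons (P.cons (P.lf 0 186029407 0) (P.cons (P.lf 7900055 0 0) (P.cons (P.lf 210718 0 0) (P.cons (P.lf 0 11050 0) (P.cons (P.lf 0 14 0) (P.cons (P.lf 3 0 0) P.nil)))))) (P.cons (P.cons (P.lf 0 10610025 0) (P.cons (P.lf 351801 0 0) (P.cons (P.lf 10431 0 0) (P.cons (P.lf 0 412 0) (P.cons (P.lf 0 0 0) P.nil))))) (P.cons (P.cons (P.lf 9526054 0 0) (P.cons (P.lf 0 311878 0) (P.cons (P.lf 0 9315 0) (P.cons (P.lf 360 0 0) P.nil)))) (P.cons (P.cons (P.lf 211219 0 0) (P.cons (P.lf 0 10633 0) (P.cons (P.lf 0 240 0) P.nil))) (P.cons (P.cons (P.lf 0 174590 0) (P.cons (P.lf 4063 0 0) P.nil)) (P.cons (P.cons (P.lf 0 62 0) P.nil) P.nil)))))) 2780)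
 (EL.cons 8 (TM.mk (P.cons (P.cons (P.lf 0 178021349 0) (P.cons (P.lf 7559980 0 0) (P.cons (P.lf 201647 0 0) (P.cons (P.lf 0 10574 0) (P.cons (P.lf 0 14 0) (P.cons (P.lf 3 0 0) P.nil)))))) (P.cons (P.cons (P.lf 0 34170804 0) (P.cons (P.lf 1356602 0 0) (P.cons (P.lf 37187 0 0) (P.cons (P.lf 0 1821 0) (P.cons (P.lf 0 2 0) P.nil))))) (P.cons (P.cons (P.lf 5204087 0 0) (P.cons (P.lf 0 145079 0) (P.cons (P.lf 0 4687 0) (P.cons (P.lf 141 0 0) P.nil)))) (P.cons (P.cons (P.lf 995934 0 0) (P.cons (P.lf 0 33273 0) (P.cons (P.lf 0 960 0) P.nil))) (P.cons (P.cons (P.lf 0 59563 0) (P.cons (P.lf 219 0 0) P.nil)) (P.cons (P.cons (P.lf 0 10526 0) P.nil) P.nil)))))) 2038)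
 EL.nil))
noncomputable def S183_198_308_327_18 : EL := (EL.cons 4 (TM.mk (P.cons (P.lf 426135812 0 0) (P.cons (P.lf 0 124237673 0) (P.cons (P.lf 8653707 0 0) (P.cons (P.lf 337561 0 0) (P.cons (P.lf 0 31084 0) (P.cons (P.lf 0 1487 0) P.nil)))))) 136)
 (EL.cons 8 (TM.mk (P.cons (P.lf 407791829 0 0) (P.cons (P.lf 0 63872894 0) (P.cons (P.lf 0 1935523 0) (P.cons (P.lf 409346 0 0) (P.cons (P.lf 14041 0 0) (P.cons (P.lf 0 800 0) P.nil)))))) 99)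
 EL.nil))
noncomputable def S183_198_308_327_19 : EL := (EL.cons 4 (TM.mk (P.cons (P.cons (P.lf 193642627 0 0) (P.cons (P.lf 0 4111681 0) (P.cons (P.lf 0 153323 0) (P.lf 2495 0 0)))) (P.cons (P.cons (P.lf 0 32114878 0) (P.cons (P.lf 733312 0 0) (P.cons (P.lf 27345 0 0) (P.lf 0 445 0)))) (P.cons (P.cons (P.lf 0 5317215 0) (P.cons (P.lf 53217 0 0) (P.cons (P.lf 1983 0 0) (P.lf 0 31 0)))) (P.cons (P.cons (P.lf 1155316 0 0) (P.cons (P.lf 0 11041 0) (P.cons (P.lf 0 411 0) P.nil))) (P.cons (P.cons (P.lf 1523 0 0) (P.cons (P.lf 0 568 0) P.nil)) (P.cons (P.cons (P.lf 0 7669 0) P.nil) P.nil)))))) 955)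
 (EL.cons 8 (TM.mk (P.cons (P.cons (P.lf 185306841 0 0) (P.cons (P.lf 0 3934685 0) (P.cons (P.lf 0 146723 0) (P.lf 2388 0 0)))) (P.cons (P.cons (P.lf 0 5731997 0) (P.cons (P.lf 170902 0 0) (P.cons (P.lf 6372 0 0) (P.lf 0 103 0)))) (P.cons (P.cons (P.lf 0 6588433 0) (P.cons (P.lf 89416 0 0) (P.cons (P.lf 3334 0 0) (P.lf 0 53 0)))) (P.cons (P.cons (P.lf 283242 0 0) (P.cons (P.lf 0 108 0) (P.cons (P.lf 0 4 0) P.nil))) (P.cons (P.cons (P.lf 62400 0 0) (P.cons (P.lf 0 831 0) P.nil)) (P.cons (P.cons (P.lf 0 1456 0) P.nil) P.nil)))))) 634)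
 EL.nil))
noncomputable def S183_198_308_327_20 : EL := (EL.cons 4 (TM.mk (P.cons (P.cons (P.lf 87994170 0 0) (P.cons (P.lf 0 3736822 0) (P.cons (P.lf 0 99672 0) (P.cons (P.lf 5226 0 0) (P.cons (P.lf 6 0 0) (P.cons (P.lf 0 0 0) P.nil)))))) (P.cons (P.cons (P.lf 0 3532741 0) (P.cons (P.lf 196743 0 0) (P.cons (P.lf 4751 0 0) (P.cons (P.lf 0 312 0) (P.cons (P.lf 0 0 0) P.nil))))) (P.cons (P.cons (P.lf 0 5229058 0) (P.cons (P.lf 173689 0 0) (P.cons (P.lf 5152 0 0) (P.cons (P.lf 0 203 0) P.nil)))) (P.cons (P.cons (P.lf 328962 0 0) (P.cons (P.lf 0 9047 0) (P.cons (P.lf 0 305 0) P.nil))) (P.cons (P.cons (P.lf 104907 0 0) (P.cons (P.lf 0 2826 0) P.nil)) (P.cons (P.cons (P.lf 0 7935 0) P.nil) P.nil)))))) 2199)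
 (EL.cons 8 (TM.mk (P.cons (P.cons (P.lf 84206261 0 0) (P.cons (P.lf 0 3575962 0) (P.cons (P.lf 0 95381 0) (P.cons (P.lf 5001 0 0) (P.cons (P.lf 6 0 0) (P.cons (P.lf 0 1 0) P.nil)))))) (P.cons (P.cons (P.lf 7979906 0 0) (P.cons (P.lf 0 294171 0) (P.cons (P.lf 0 8320 0) (P.cons (P.lf 375 0 0) (P.cons (P.lf 0 0 0) P.nil))))) (P.cons (P.cons (P.lf 0 4257625 0) (P.cons (P.lf 140550 0 0) (P.cons (P.lf 4181 0 0) (P.cons (P.lf 0 163 0) P.nil)))) (P.cons (P.cons (P.lf 0 270892 0) (P.cons (P.lf 10606 0 0) (P.cons (P.lf 280 0 0) P.nil))) (P.cons (P.cons (P.lf 81645 0 0) (P.cons (P.lf 0 1861 0) P.nil)) (P.cons (P.cons (P.lf 3436 0 0) P.nil) P.nil)))))) 1563)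
 EL.nil))
noncomputable def S183_198_308_327_21 : EL := (EL.cons 4 (TM.mk (P.cons (P.cons (P.lf 0 2883211620 0) (P.cons (P.lf 55131042 0 0) (P.cons (P.lf 2055819 0 0) (P.lf 0 33465 0)))) (P.cons (P.cons (P.lf 451261614 0 0) (P.cons (P.lf 882894 0 0) (P.cons (P.lf 32919 0 0) (P.lf 0 528 0)))) (P.cons (P.cons (P.lf 56469084 0 0) (P.cons (P.lf 0 767667 0) (P.cons (P.lf 0 28620 0) (P.lf 459 0 0)))) (P.cons (P.cons (P.lf 0 2127585 0) (P.cons (P.lf 0 38946 0) (P.cons (P.lf 0 1446 0) P.nil))) (P.cons (P.cons (P.lf 0 339300 0) (P.cons (P.lf 2397 0 0) P.nil)) (P.cons (P.cons (P.lf 0 345 0) P.nil) P.nil)))))) 2799)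
 (EL.cons 8 (TM.mk (P.cons (P.cons (P.lf 1071256590 0 0) (P.cons (P.lf 0 20483931 0) (P.cons (P.lf 0 763845 0) (P.lf 12441 0 0)))) (P.cons (P.cons (P.lf 0 312193278 0) (P.cons (P.lf 2435514 0 0) (P.cons (P.lf 90819 0 0) (P.lf 0 1473 0)))) (P.cons (P.cons (P.lf 5840904 0 0) (P.cons (P.lf 249144 0 0) (P.cons (P.lf 9288 0 0) (P.lf 0 150 0)))) (P.cons (P.cons (P.lf 2708892 0 0) (P.cons (P.lf 0 20424 0) (P.cons (P.lf 0 756 0) P.nil))) (P.cons (P.cons (P.lf 0 12903 0) (P.cons (P.lf 0 1836 0) P.nil)) (P.cons (P.cons (P.lf 0 10863 0) P.nil) P.nil)))))) 2130)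
 (EL.cons 11 (TM.mk (P.cons (P.cons (P.lf 1220840511 0 0) (P.cons (P.lf 100324221 0 0) (P.cons (P.lf 0 1758393 0) (P.cons (P.lf 0 33783 0) (P.lf 411 0 0))))) (P.cons (P.cons (P.lf 92129652 0 0) (P.cons (P.lf 7570878 0 0) (P.cons (P.lf 0 132693 0) (P.cons (P.lf 0 2547 0) (P.lf 30 0 0))))) (P.cons (P.cons (P.lf 0 1940586 0) (P.cons (P.lf 0 159468 0) (P.cons (P.lf 2793 0 0) (P.cons (P.lf 51 0 0) P.nil)))) (P.cons (P.cons (P.lf 0 293892 0) (P.cons (P.lf 0 24150 0) (P.cons (P.lf 423 0 0) P.nil))) (P.cons (P.cons (P.lf 0 2118 0) (P.cons (P.lf 0 174 0) P.nil)) (P.cons (P.cons (P.lf 438 0 0) P.nil) P.nil)))))) 252)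
 EL.nil)))
noncomputable def S183_198_308_327_22 : EL := (EL.cons 4 (TM.mk (P.cons (P.cons (P.lf 0 1310175435 0) (P.cons (P.lf 52871805 0 0) (P.cons (P.lf 1439628 0 0) (P.cons (P.lf 0 71766 0) (P.cons (P.lf 0 93 0) (P.cons (P.lf 24 0 0) P.nil)))))) (P.cons (P.cons (P.lf 40372872 0 0) (P.cons (P.lf 2345184 0 0) (P.cons (P.lf 18714 0 0) (P.cons (P.lf 0 6543 0) (P.cons (P.lf 0 12 0) P.nil))))) (P.cons (P.cons (P.lf 66004713 0 0) (P.cons (P.lf 0 1621623 0) (P.cons (P.lf 0 53889 0) (P.cons (P.lf 1470 0 0) P.nil)))) (P.cons (P.cons (P.lf 791283 0 0) (P.cons (P.lf 0 134907 0) (P.cons (P.lf 0 3555 0) P.nil))) (P.cons (P.cons (P.lf 0 722559 0) (P.cons (P.lf 10608 0 0) P.nil)) (P.cons (P.cons (P.lf 0 22074 0) P.nil) P.nil)))))) 8034)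
 (EL.cons 8 (TM.mk (P.cons (P.cons (P.lf 486795369 0 0) (P.cons (P.lf 0 19644507 0) (P.cons (P.lf 0 534894 0) (P.cons (P.lf 26667 0 0) (P.cons (P.lf 33 0 0) (P.cons (P.lf 0 6 0) P.nil)))))) (P.cons (P.cons (P.lf 0 80675868 0) (P.cons (P.lf 1778952 0 0) (P.cons (P.lf 65208 0 0) (P.cons (P.lf 0 1161 0) (P.cons (P.lf 0 0 0) P.nil))))) (P.cons (P.cons (P.lf 0 20591019 0) (P.cons (P.lf 643023 0 0) (P.cons (P.lf 18861 0 0) (P.cons (P.lf 0 768 0) P.nil)))) (P.cons (P.cons (P.lf 2840076 0 0) (P.cons (P.lf 0 29907 0) (P.cons (P.lf 0 1275 0) P.nil))) (P.cons (P.cons (P.lf 220107 0 0) (P.cons (P.lf 0 8316 0) P.nil)) (P.cons (P.cons (P.lf 0 23703 0) P.nil) P.nil)))))) 4386)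
 (EL.cons 11 (TM.mk (P.cons (P.cons (P.lf 554768589 0 0) (P.cons (P.lf 33809259 0 0) (P.cons (P.lf 0 2206302 0) (P.cons (P.lf 0 27330 0) (P.cons (P.lf 1731 0 0) (P.cons (P.lf 0 0 0) P.nil)))))) (P.cons (P.cons (P.lf 111598791 0 0) (P.cons (P.lf 6948438 0 0) (P.cons (P.lf 0 426228 0) (P.cons (P.lf 0 5346 0) (P.cons (P.lf 327 0 0) P.nil))))) (P.cons (P.cons (P.lf 0 1788195 0) (P.cons (P.lf 0 225915 0) (P.cons (P.lf 0 6858 0) (P.cons (P.lf 0 30 0) P.nil)))) (P.cons (P.cons (P.lf 0 1054068 0) (P.cons (P.lf 0 75813 0) (P.cons (P.lf 2808 0 0) P.nil))) (P.cons (P.cons (P.lf 0 19386 0) (P.cons (P.lf 0 681 0) P.nil)) (P.cons (P.cons (P.lf 4365 0 0) P.nil) P.nil)))))) 1407)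
 EL.nil)))
noncomputable def S183_198_308_327_23 : EL := (EL.cons 4 (TM.mk (P.cons (P.cons (P.lf 1363794135 0 0) (P.cons (P.lf 0 26077650 0) (P.cons (P.lf 0 972426 0) (P.lf 15828 0 0)))) (P.cons (P.cons (P.lf 0 345987915 0) (P.cons (P.lf 2116647 0 0) (P.cons (P.lf 78930 0 0) (P.lf 0 1287 0)))) (P.cons (P.cons (P.lf 0 9615261 0) (P.cons (P.lf 473460 0 0) (P.cons (P.lf 17652 0 0) (P.lf 0 282 0)))) (P.cons (P.cons (P.lf 4241400 0 0) (P.cons (P.lf 0 17052 0) (P.cons (P.lf 0 636 0) P.nil))) (P.cons (P.cons (P.lf 128262 0 0) (P.cons (P.lf 0 4008 0) P.nil)) (P.cons (P.cons (P.lf 0 20199 0) P.nil) P.nil)))))) 2478)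
 (EL.cons 8 (TM.mk (P.cons (P.cons (P.lf 0 506717385 0) (P.cons (P.lf 9689148 0 0) (P.cons (P.lf 361305 0 0) (P.lf 0 5883 0)))) (P.cons (P.cons (P.lf 196914816 0 0) (P.cons (P.lf 0 2093634 0) (P.cons (P.lf 0 78069 0) (P.lf 1266 0 0)))) (P.cons (P.cons (P.lf 0 15758205 0) (P.cons (P.lf 0 31809 0) (P.cons (P.lf 0 1185 0) (P.lf 18 0 0)))) (P.cons (P.cons (P.lf 0 1433238 0) (P.cons (P.lf 24678 0 0) (P.cons (P.lf 915 0 0) P.nil))) (P.cons (P.cons (P.lf 143622 0 0) (P.cons (P.lf 219 0 0) P.nil)) (P.cons (P.cons (P.lf 8349 0 0) P.nil) P.nil)))))) 1977)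
 (EL.cons 11 (TM.mk (P.cons (P.cons (P.lf 0 577472397 0) (P.cons (P.lf 0 47454573 0) (P.cons (P.lf 831741 0 0) (P.cons (P.lf 15978 0 0) (P.lf 0 192 0))))) (P.cons (P.cons (P.lf 12541242 0 0) (P.cons (P.lf 1030593 0 0) (P.cons (P.lf 0 18063 0) (P.cons (P.lf 0 348 0) (P.lf 3 0 0))))) (P.cons (P.cons (P.lf 6697755 0 0) (P.cons (P.lf 550395 0 0) (P.cons (P.lf 0 9645 0) (P.cons (P.lf 0 183 0) P.nil)))) (P.cons (P.cons (P.lf 137490 0 0) (P.cons (P.lf 11298 0 0) (P.cons (P.lf 0 195 0) P.nil))) (P.cons (P.cons (P.lf 0 19173 0) (P.cons (P.lf 0 1575 0) P.nil)) (P.cons (P.cons (P.lf 0 789 0) P.nil) P.nil)))))) 342)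
 EL.nil)))
noncomputable def S183_198_308_327_24 : EL := (EL.cons 4 (TM.mk (P.cons (P.cons (P.lf 619728903 0 0) (P.cons (P.lf 0 25009005 0) (P.cons (P.lf 0 680958 0) (P.cons (P.lf 33945 0 0) (P.cons (P.lf 42 0 0) (P.cons (P.lf 0 9 0) P.nil)))))) (P.cons (P.cons (P.lf 0 79323102 0) (P.cons (P.lf 1321113 0 0) (P.cons (P.lf 57324 0 0) (P.cons (P.lf 0 204 0) (P.cons (P.lf 0 0 0) P.nil))))) (P.cons (P.cons (P.lf 0 31023024 0) (P.cons (P.lf 941754 0 0) (P.cons (P.lf 28170 0 0) (P.cons (P.lf 0 1086 0) P.nil)))) (P.cons (P.cons (P.lf 2741919 0 0) (P.cons (P.lf 0 9012 0) (P.cons (P.lf 0 804 0) P.nil))) (P.cons (P.cons (P.lf 462897 0 0) (P.cons (P.lf 0 13413 0) P.nil)) (P.cons (P.cons (P.lf 0 23394 0) P.nil) P.nil)))))) 6612)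
 (EL.cons 8 (TM.mk (P.cons (P.cons (P.lf 0 230260125 0) (P.cons (P.lf 9292089 0 0) (P.cons (P.lf 253011 0 0) (P.cons (P.lf 0 12612 0) (P.cons (P.lf 0 15 0) (P.cons (P.lf 3 0 0) P.nil)))))) (P.cons (P.cons (P.lf 60537711 0 0) (P.cons (P.lf 0 1744485 0) (P.cons (P.lf 0 55431 0) (P.cons (P.lf 1773 0 0) (P.cons (P.lf 0 0 0) P.nil))))) (P.cons (P.cons (P.lf 6647262 0 0) (P.cons (P.lf 0 247239 0) (P.cons (P.lf 0 6600 0) (P.cons (P.lf 342 0 0) P.nil)))) (P.cons (P.cons (P.lf 0 2403525 0) (P.cons (P.lf 46419 0 0) (P.cons (P.lf 1566 0 0) P.nil))) (P.cons (P.cons (P.lf 1482 0 0) (P.cons (P.lf 3363 0 0) P.nil)) (P.cons (P.cons (P.lf 25542 0 0) P.nil) P.nil)))))) 2259)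
 (EL.cons 11 (TM.mk (P.cons (P.cons (P.lf 0 262412286 0) (P.cons (P.lf 0 15992190 0) (P.cons (P.lf 1043607 0 0) (P.cons (P.lf 12927 0 0) (P.cons (P.lf 0 819 0) (P.cons (P.lf 0 0 0) P.nil)))))) (P.cons (P.cons (P.lf 0 27285939 0) (P.cons (P.lf 0 1732548 0) (P.cons (P.lf 100191 0 0) (P.cons (P.lf 1272 0 0) (P.cons (P.lf 0 75 0) P.nil))))) (P.cons (P.cons (P.lf 6677805 0 0) (P.cons (P.lf 469047 0 0) (P.cons (P.lf 0 19137 0) (P.cons (P.lf 0 264 0) P.nil)))) (P.cons (P.cons (P.lf 544470 0 0) (P.cons (P.lf 33468 0 0) (P.cons (P.lf 0 2130 0) P.nil))) (P.cons (P.cons (P.lf 0 45108 0) (P.cons (P.lf 0 3669 0) P.nil)) (P.cons (P.cons (P.lf 0 4434 0) P.nil) P.nil)))))) 1194)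
 EL.nil)))
noncomputable def S183_198_308_327_25 : EL := (EL.cons 4 (TM.mk (P.cons (P.cons (P.lf 0 645091200 0) (P.cons (P.lf 12335046 0 0) (P.cons (P.lf 459969 0 0) (P.lf 0 7485 0)))) (P.cons (P.cons (P.lf 226347480 0 0) (P.cons (P.lf 0 2199939 0) (P.cons (P.lf 0 82035 0) (P.lf 1335 0 0)))) (P.cons (P.cons (P.lf 0 9630558 0) (P.cons (P.lf 0 159651 0) (P.cons (P.lf 0 5949 0) (P.lf 93 0 0)))) (P.cons (P.cons (P.lf 0 2918310 0) (P.cons (P.lf 33126 0 0) (P.cons (P.lf 1236 0 0) P.nil))) (P.cons (P.cons (P.lf 128049 0 0) (P.cons (P.lf 1704 0 0) P.nil)) (P.cons (P.cons (P.lf 21612 0 0) P.nil) P.nil)))))) 2106)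
 (EL.cons 8 (TM.mk (P.cons (P.cons (P.lf 239683479 0 0) (P.cons (P.lf 0 4583082 0) (P.cons (P.lf 0 170901 0) (P.lf 2781 0 0)))) (P.cons (P.cons (P.lf 0 116435922 0) (P.cons (P.lf 1435704 0 0) (P.cons (P.lf 53535 0 0) (P.lf 0 870 0)))) (P.cons (P.cons (P.lf 15864432 0 0) (P.cons (P.lf 0 68931 0) (P.cons (P.lf 0 2571 0) (P.lf 39 0 0)))) (P.cons (P.cons (P.lf 214728 0 0) (P.cons (P.lf 0 16014 0) (P.cons (P.lf 0 594 0) P.nil))) (P.cons (P.cons (P.lf 0 157575 0) (P.cons (P.lf 1020 0 0) P.nil)) (P.cons (P.cons (P.lf 885 0 0) P.nil) P.nil)))))) 1818)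
 (EL.cons 11 (TM.mk (P.cons (P.cons (P.lf 273151461 0 0) (P.cons (P.lf 22446591 0 0) (P.cons (P.lf 0 393423 0) (P.cons (P.lf 0 7557 0) (P.lf 90 0 0))))) (P.cons (P.cons (P.lf 0 32477454 0) (P.cons (P.lf 0 2668878 0) (P.cons (P.lf 46776 0 0) (P.cons (P.lf 897 0 0) (P.lf 0 9 0))))) (P.cons (P.cons (P.lf 0 3322338 0) (P.cons (P.lf 0 273015 0) (P.cons (P.lf 4782 0 0) (P.cons (P.lf 90 0 0) P.nil)))) (P.cons (P.cons (P.lf 272382 0 0) (P.cons (P.lf 22383 0 0) (P.cons (P.lf 0 390 0) P.nil))) (P.cons (P.cons (P.lf 24528 0 0) (P.cons (P.lf 2013 0 0) P.nil)) (P.cons (P.cons (P.lf 0 510 0) P.nil) P.nil)))))) 381)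
 EL.nil)))
noncomputable def S183_198_308_327_26 : EL := (EL.cons 4 (TM.mk (P.cons (P.cons (P.lf 0 293139303 0) (P.cons (P.lf 11829561 0 0) (P.cons (P.lf 322101 0 0) (P.cons (P.lf 0 16056 0) (P.cons (P.lf 0 21 0) (P.cons (P.lf 3 0 0) P.nil)))))) (P.cons (P.cons (P.lf 66008535 0 0) (P.cons (P.lf 0 1774518 0) (P.cons (P.lf 0 58416 0) (P.cons (P.lf 1656 0 0) (P.cons (P.lf 0 0 0) P.nil))))) (P.cons (P.cons (P.lf 11812122 0 0) (P.cons (P.lf 0 416376 0) (P.cons (P.lf 0 11550 0) (P.cons (P.lf 546 0 0) P.nil)))) (P.cons (P.cons (P.lf 0 2838069 0) (P.cons (P.lf 49815 0 0) (P.cons (P.lf 1764 0 0) P.nil))) (P.cons (P.cons (P.lf 0 131325 0) (P.cons (P.lf 7131 0 0) P.nil)) (P.cons (P.cons (P.lf 36675 0 0) P.nil) P.nil)))))) 5961)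
 (EL.cons 8 (TM.mk (P.cons (P.cons (P.lf 108915837 0 0) (P.cons (P.lf 0 4395270 0) (P.cons (P.lf 0 119676 0) (P.cons (P.lf 5964 0 0) (P.cons (P.lf 6 0 0) (P.cons (P.lf 0 0 0) P.nil)))))) (P.cons (P.cons (P.lf 0 39219687 0) (P.cons (P.lf 1252302 0 0) (P.cons (P.lf 37848 0 0) (P.cons (P.lf 0 1419 0) (P.cons (P.lf 0 0 0) P.nil))))) (P.cons (P.cons (P.lf 0 652797 0) (P.cons (P.lf 48513 0 0) (P.cons (P.lf 894 0 0) (P.cons (P.lf 0 96 0) P.nil)))) (P.cons (P.cons (P.lf 1524510 0 0) (P.cons (P.lf 0 35748 0) (P.cons (P.lf 0 1119 0) P.nil))) (P.cons (P.cons (P.lf 0 103824 0) (P.cons (P.lf 255 0 0) P.nil)) (P.cons (P.cons (P.lf 0 15312 0) P.nil) P.nil)))))) 2766)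
 (EL.cons 11 (TM.mk (P.cons (P.cons (P.lf 124124199 0 0) (P.cons (P.lf 7564500 0 0) (P.cons (P.lf 0 493638 0) (P.cons (P.lf 0 6114 0) (P.cons (P.lf 387 0 0) (P.cons (P.lf 0 0 0) P.nil)))))) (P.cons (P.cons (P.lf 843993 0 0) (P.cons (P.lf 84384 0 0) (P.cons (P.lf 579 0 0) (P.cons (P.lf 0 6 0) (P.cons (P.lf 0 0 0) P.nil))))) (P.cons (P.cons (P.lf 0 4745013 0) (P.cons (P.lf 0 321741 0) (P.cons (P.lf 14979 0 0) (P.cons (P.lf 198 0 0) P.nil)))) (P.cons (P.cons (P.lf 21108 0 0) (P.cons (P.lf 3915 0 0) (P.cons (P.lf 228 0 0) P.nil))) (P.cons (P.cons (P.lf 55896 0 0) (P.cons (P.lf 3933 0 0) P.nil)) (P.cons (P.cons (P.lf 600 0 0) P.nil) P.nil)))))) 1323)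
 EL.nil)))
noncomputable def S183_198_308_327_27 : EL := (EL.cons 13 (TM.mk (P.lf 0 4294967296 0) 0)
 EL.nil)
noncomputable def S183_198_308_327_28 : EL := (EL.cons 13 (TM.mk (P.cons (P.cons (P.lf 0 1951698799 0) (P.cons (P.lf 41441112 0 0) (P.cons (P.lf 1545328 0 0) (P.lf 0 25156 0)))) (P.cons (P.cons (P.lf 0 245325931 0) (P.cons (P.lf 4690972 0 0) (P.cons (P.lf 174924 0 0) (P.lf 0 2844 0)))) (P.cons (P.cons (P.lf 21701935 0 0) (P.cons (P.lf 0 10308 0) (P.cons (P.lf 0 384 0) (P.lf 4 0 0)))) (P.cons (P.cons (P.lf 1210755 0 0) (P.cons (P.lf 0 19804 0) (P.cons (P.lf 0 736 0) P.nil))) (P.cons (P.cons (P.lf 0 51109 0) (P.cons (P.lf 0 528 0) P.nil)) (P.cons (P.cons (P.lf 0 4083 0) P.nil) P.nil)))))) 735)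
 EL.nil)
noncomputable def S183_198_308_327_29 : EL := (EL.cons 13 (TM.mk (P.cons (P.cons (P.lf 0 886881771 0) (P.cons (P.lf 37662949 0 0) (P.cons (P.lf 1004585 0 0) (P.cons (P.lf 0 52683 0) (P.cons (P.lf 0 70 0) (P.cons (P.lf 18 0 0) P.nil)))))) (P.cons (P.cons (P.lf 0 222959706 0) (P.cons (P.lf 8997481 0 0) (P.cons (P.lf 244988 0 0) (P.cons (P.lf 0 12209 0) (P.cons (P.lf 0 16 0) P.nil))))) (P.cons (P.cons (P.lf 5710513 0 0) (P.cons (P.lf 107729 0 0) (P.cons (P.lf 0 907 0) (P.cons (P.lf 0 434 0) P.nil)))) (P.cons (P.cons (P.lf 3579573 0 0) (P.cons (P.lf 0 89946 0) (P.cons (P.lf 0 2947 0) P.nil))) (P.cons (P.cons (P.lf 0 17791 0) (P.cons (P.lf 0 4296 0) P.nil)) (P.cons (P.cons (P.lf 0 21784 0) P.nil) P.nil)))))) 3071)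
 EL.nil)
noncomputable def S183_198_308_327_30 : EL := (EL.cons 13 (TM.mk (P.cons (P.lf 2031571728 0 0) (P.cons (P.lf 0 197431380 0) (P.cons (P.lf 0 5434720 0) (P.cons (P.lf 101656 0 0) (P.cons (P.lf 7148 0 0) (P.cons (P.lf 20 0 0) P.nil)))))) 56)
 EL.nil)
noncomputable def S183_198_308_327_31 : EL := (EL.cons 13 (TM.mk (P.cons (P.cons (P.lf 923177251 0 0) (P.cons (P.lf 0 19602149 0) (P.cons (P.lf 0 730958 0) (P.lf 11899 0 0)))) (P.cons (P.cons (P.lf 26326309 0 0) (P.cons (P.lf 0 313918 0) (P.cons (P.lf 0 11705 0) (P.lf 188 0 0)))) (P.cons (P.cons (P.lf 0 24012059 0) (P.cons (P.lf 272949 0 0) (P.cons (P.lf 10177 0 0) (P.lf 0 164 0)))) (P.cons (P.cons (P.lf 160660 0 0) (P.cons (P.lf 13848 0 0) (P.cons (P.lf 515 0 0) P.nil))) (P.cons (P.cons (P.lf 116346 0 0) (P.cons (P.lf 0 853 0) P.nil)) (P.cons (P.cons (P.lf 1017 0 0) P.nil) P.nil)))))) 863)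
 EL.nil)
noncomputable def S183_198_308_327_32 : EL := (EL.cons 13 (TM.mk (P.cons (P.cons (P.lf 419505856 0 0) (P.cons (P.lf 0 17815032 0) (P.cons (P.lf 0 475180 0) (P.cons (P.lf 24919 0 0) (P.cons (P.lf 33 0 0) (P.cons (P.lf 0 8 0) P.nil)))))) (P.cons (P.cons (P.lf 64694402 0 0) (P.cons (P.lf 0 2524624 0) (P.cons (P.lf 0 69703 0) (P.cons (P.lf 3353 0 0) (P.cons (P.lf 4 0 0) P.nil))))) (P.cons (P.cons (P.lf 0 14072403 0) (P.cons (P.lf 410297 0 0) (P.cons (P.lf 12961 0 0) (P.cons (P.lf 0 422 0) P.nil)))) (P.cons (P.cons (P.lf 0 1691815 0) (P.cons (P.lf 57991 0 0) (P.cons (P.lf 1638 0 0) P.nil))) (P.cons (P.cons (P.lf 186940 0 0) (P.cons (P.lf 0 2241 0) P.nil)) (P.cons (P.cons (P.lf 14255 0 0) P.nil) P.nil)))))) 3313)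
 EL.nil)
noncomputable def S183_198_308_327_33 : EL := (EL.cons 14 (TM.mk (P.lf 8589934592 0 0) 0)
 EL.nil)
noncomputable def S183_198_308_327_34 : EL := (EL.cons 14 (TM.mk (P.cons (P.cons (P.lf 3903397598 0 0) (P.cons (P.lf 0 82882224 0) (P.cons (P.lf 0 3090656 0) (P.lf 50312 0 0)))) (P.cons (P.cons (P.lf 490651862 0 0) (P.cons (P.lf 0 9381944 0) (P.cons (P.lf 0 349848 0) (P.lf 5688 0 0)))) (P.cons (P.cons (P.lf 0 43403870 0) (P.cons (P.lf 20616 0 0) (P.cons (P.lf 768 0 0) (P.lf 0 8 0)))) (P.cons (P.cons (P.lf 0 2421510 0) (P.cons (P.lf 39608 0 0) (P.cons (P.lf 1472 0 0) P.nil))) (P.cons (P.cons (P.lf 102218 0 0) (P.cons (P.lf 1056 0 0) P.nil)) (P.cons (P.cons (P.lf 8166 0 0) P.nil) P.nil)))))) 1470)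
 EL.nil)
noncomputable def S183_198_308_327_35 : EL := (EL.cons 14 (TM.mk (P.cons (P.cons (P.lf 1773763542 0 0) (P.cons (P.lf 0 75325898 0) (P.cons (P.lf 0 2009170 0) (P.cons (P.lf 105366 0 0) (P.cons (P.lf 140 0 0) (P.cons (P.lf 0 36 0) P.nil)))))) (P.cons (P.cons (P.lf 445919412 0 0) (P.cons (P.lf 0 17994962 0) (P.cons (P.lf 0 489976 0) (P.cons (P.lf 24418 0 0) (P.cons (P.lf 32 0 0) P.nil))))) (P.cons (P.cons (P.lf 0 11421026 0) (P.cons (P.lf 0 215458 0) (P.cons (P.lf 1814 0 0) (P.cons (P.lf 868 0 0) P.nil)))) (P.cons (P.cons (P.lf 0 7159146 0) (P.cons (P.lf 179892 0 0) (P.cons (P.lf 5894 0 0) P.nil))) (P.cons (P.cons (P.lf 35582 0 0) (P.cons (P.lf 8592 0 0) P.nil)) (P.cons (P.cons (P.lf 43568 0 0) P.nil) P.nil)))))) 6142)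
 EL.nil)
noncomputable def S183_198_308_327_36 : EL := (EL.cons 14 (TM.mk (P.cons (P.lf 0 4063143456 0) (P.cons (P.lf 394862760 0 0) (P.cons (P.lf 10869440 0 0) (P.cons (P.lf 0 203312 0) (P.cons (P.lf 0 14296 0) (P.cons (P.lf 0 40 0) P.nil)))))) 112)
 EL.nil)
noncomputable def S183_198_308_327_37 : EL := (EL.cons 14 (TM.mk (P.cons (P.cons (P.lf 0 1846354502 0) (P.cons (P.lf 39204298 0 0) (P.cons (P.lf 1461916 0 0) (P.lf 0 23798 0)))) (P.cons (P.cons (P.lf 0 52652618 0) (P.cons (P.lf 627836 0 0) (P.cons (P.lf 23410 0 0) (P.lf 0 376 0)))) (P.cons (P.cons (P.lf 48024118 0 0) (P.cons (P.lf 0 545898 0) (P.cons (P.lf 0 20354 0) (P.lf 328 0 0)))) (P.cons (P.cons (P.lf 0 321320 0) (P.cons (P.lf 0 27696 0) (P.cons (P.lf 0 1030 0) P.nil))) (P.cons (P.cons (P.lf 0 232692 0) (P.cons (P.lf 1706 0 0) P.nil)) (P.cons (P.cons (P.lf 0 2034 0) P.nil) P.nil)))))) 1726)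
 EL.nil)
noncomputable def S183_198_308_327_38 : EL := (EL.cons 14 (TM.mk (P.cons (P.cons (P.lf 0 839011712 0) (P.cons (P.lf 35630064 0 0) (P.cons (P.lf 950360 0 0) (P.cons (P.lf 0 49838 0) (P.cons (P.lf 0 66 0) (P.cons (P.lf 16 0 0) P.nil)))))) (P.cons (P.cons (P.lf 0 129388804 0) (P.cons (P.lf 5049248 0 0) (P.cons (P.lf 139406 0 0) (P.cons (P.lf 0 6706 0) (P.cons (P.lf 0 8 0) P.nil))))) (P.cons (P.cons (P.lf 28144806 0 0) (P.cons (P.lf 0 820594 0) (P.cons (P.lf 0 25922 0) (P.cons (P.lf 844 0 0) P.nil)))) (P.cons (P.cons (P.lf 3383630 0 0) (P.cons (P.lf 0 115982 0) (P.cons (P.lf 0 3276 0) P.nil))) (P.cons (P.cons (P.lf 0 373880 0) (P.cons (P.lf 4482 0 0) P.nil)) (P.cons (P.cons (P.lf 0 28510 0) P.nil) P.nil)))))) 6626)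
 EL.nil)
noncomputable def S183_198_308_327_39 : EL := (EL.cons 14 (TM.mk (P.cons (P.lf 1921916234 0 0) (P.cons (P.lf 0 373549768 0) (P.cons (P.lf 7868326 0 0) (P.cons (P.lf 1191632 0 0) (P.cons (P.lf 8586 0 0) (P.cons (P.lf 0 1790 0) P.nil)))))) 176)
 EL.nil)
noncomputable def S183_198_308_327_40 : EL := (EL.cons 14 (TM.mk (P.cons (P.cons (P.lf 873348118 0 0) (P.cons (P.lf 0 18544108 0) (P.cons (P.lf 0 691504 0) (P.lf 11256 0 0)))) (P.cons (P.cons (P.lf 0 59968032 0) (P.cons (P.lf 1505170 0 0) (P.cons (P.lf 56126 0 0) (P.lf 0 914 0)))) (P.cons (P.cons (P.lf 0 27472652 0) (P.cons (P.lf 336684 0 0) (P.cons (P.lf 12554 0 0) (P.lf 0 202 0)))) (P.cons (P.cons (P.lf 2336640 0 0) (P.cons (P.lf 0 12126 0) (P.cons (P.lf 0 452 0) P.nil))) (P.cons (P.cons (P.lf 160382 0 0) (P.cons (P.lf 0 2850 0) P.nil)) (P.cons (P.cons (P.lf 0 11180 0) P.nil) P.nil)))))) 1742)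
 EL.nil)
noncomputable def S183_198_308_327_41 : EL := (EL.cons 14 (TM.mk (P.cons (P.cons (P.lf 396862736 0 0) (P.cons (P.lf 0 16853452 0) (P.cons (P.lf 0 449532 0) (P.cons (P.lf 23574 0 0) (P.cons (P.lf 30 0 0) (P.cons (P.lf 0 8 0) P.nil)))))) (P.cons (P.cons (P.lf 22634722 0 0) (P.cons (P.lf 0 750510 0) (P.cons (P.lf 0 22254 0) (P.cons (P.lf 880 0 0) (P.cons (P.lf 0 0 0) P.nil))))) (P.cons (P.cons (P.lf 0 20322250 0) (P.cons (P.lf 665340 0 0) (P.cons (P.lf 19872 0 0) (P.cons (P.lf 0 770 0) P.nil)))) (P.cons (P.cons (P.lf 0 450602 0) (P.cons (P.lf 22684 0 0) (P.cons (P.lf 512 0 0) P.nil))) (P.cons (P.cons (P.lf 372460 0 0) (P.cons (P.lf 0 8668 0) P.nil)) (P.cons (P.cons (P.lf 134 0 0) P.nil) P.nil)))))) 5884)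
 EL.nil)
noncomputable def S183_198_308_327_42 : EL := (EL.cons 14 (TM.mk (P.cons (P.lf 0 909089734 0) (P.cons (P.lf 265040370 0 0) (P.cons (P.lf 0 18461242 0) (P.cons (P.lf 0 720132 0) (P.cons (P.lf 66314 0 0) (P.cons (P.lf 3174 0 0) P.nil)))))) 276)
 EL.nil)
noncomputable def S183_198_308_327_43 : EL := (EL.cons 14 (TM.mk (P.cons (P.cons (P.lf 0 413104272 0) (P.cons (P.lf 8771588 0 0) (P.cons (P.lf 327090 0 0) (P.lf 0 5324 0)))) (P.cons (P.cons (P.lf 68511740 0 0) (P.cons (P.lf 0 1564400 0) (P.cons (P.lf 0 58336 0) (P.lf 950 0 0)))) (P.cons (P.cons (P.lf 11343392 0 0) (P.cons (P.lf 0 113530 0) (P.cons (P.lf 0 4232 0) (P.lf 68 0 0)))) (P.cons (P.cons (P.lf 0 2464676 0) (P.cons (P.lf 23556 0 0) (P.cons (P.lf 878 0 0) P.nil))) (P.cons (P.cons (P.lf 0 3250 0) (P.cons (P.lf 1212 0 0) P.nil)) (P.cons (P.cons (P.lf 16362 0 0) P.nil) P.nil)))))) 1998)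
 EL.nil)
noncomputable def S183_198_308_327_44 : EL := (EL.cons 14 (TM.mk (P.cons (P.cons (P.lf 0 187720896 0) (P.cons (P.lf 7971888 0 0) (P.cons (P.lf 212634 0 0) (P.cons (P.lf 0 11150 0) (P.cons (P.lf 0 14 0) (P.cons (P.lf 2 0 0) P.nil)))))) (P.cons (P.cons (P.lf 7536516 0 0) (P.cons (P.lf 0 419720 0) (P.cons (P.lf 0 10136 0) (P.cons (P.lf 666 0 0) (P.cons (P.lf 0 0 0) P.nil))))) (P.cons (P.cons (P.lf 11155324 0 0) (P.cons (P.lf 0 370538 0) (P.cons (P.lf 0 10992 0) (P.cons (P.lf 434 0 0) P.nil)))) (P.cons (P.cons (P.lf 0 701786 0) (P.cons (P.lf 19302 0 0) (P.cons (P.lf 652 0 0) P.nil))) (P.cons (P.cons (P.lf 0 223802 0) (P.cons (P.lf 6030 0 0) P.nil)) (P.cons (P.cons (P.lf 16928 0 0) P.nil) P.nil)))))) 4646)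
 EL.nil)
noncomputable def S183_198_308_327_45 : EL := (EL.cons 14 (TM.mk (P.cons (P.cons (P.lf 806025270 0 0) (P.cons (P.lf 0 51343858 0) (P.cons (P.lf 0 824394 0) (P.cons (P.lf 104756 0 0) (P.cons (P.lf 0 670 0) (P.cons (P.lf 0 66 0) P.nil)))))) (P.cons (P.cons (P.lf 303948896 0 0) (P.cons (P.lf 0 18719632 0) (P.cons (P.lf 0 314196 0) (P.cons (P.lf 37364 0 0) (P.cons (P.lf 0 224 0) P.nil))))) (P.cons (P.cons (P.lf 11318150 0 0) (P.cons (P.lf 0 1117734 0) (P.cons (P.lf 0 9350 0) (P.cons (P.lf 2800 0 0) P.nil)))) (P.cons (P.cons (P.lf 0 6658788 0) (P.cons (P.lf 272398 0 0) (P.cons (P.lf 7318 0 0) P.nil))) (P.cons (P.cons (P.lf 0 439644 0) (P.cons (P.lf 29166 0 0) P.nil)) (P.cons (P.cons (P.lf 68216 0 0) P.nil) P.nil)))))) 13702)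
 EL.nil)
noncomputable def S183_198_308_327_46 : EL := (EL.cons 15 (TM.mk (P.lf 4294967296 0 0) 0)
 EL.nil)
noncomputable def S183_198_308_327_47 : EL := (EL.cons 15 (TM.mk (P.cons (P.cons (P.lf 1951698799 0 0) (P.cons (P.lf 0 41441112 0) (P.cons (P.lf 0 1545328 0) (P.lf 25156 0 0)))) (P.cons (P.cons (P.lf 245325931 0 0) (P.cons (P.lf 0 4690972 0) (P.cons (P.lf 0 174924 0) (P.lf 2844 0 0)))) (P.cons (P.cons (P.lf 0 21701935 0) (P.cons (P.lf 10308 0 0) (P.cons (P.lf 384 0 0) (P.lf 0 4 0)))) (P.cons (P.cons (P.lf 0 1210755 0) (P.cons (P.lf 19804 0 0) (P.cons (P.lf 736 0 0) P.nil))) (P.cons (P.cons (P.lf 51109 0 0) (P.cons (P.lf 528 0 0) P.nil)) (P.cons (P.cons (P.lf 4083 0 0) P.nil) P.nil)))))) 735)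
 EL.nil)
noncomputable def S183_198_308_327_48 : EL := (EL.cons 15 (TM.mk (P.cons (P.cons (P.lf 886881771 0 0) (P.cons (P.lf 0 37662949 0) (P.cons (P.lf 0 1004585 0) (P.cons (P.lf 52683 0 0) (P.cons (P.lf 70 0 0) (P.cons (P.lf 0 18 0) P.nil)))))) (P.cons (P.cons (P.lf 222959706 0 0) (P.cons (P.lf 0 8997481 0) (P.cons (P.lf 0 244988 0) (P.cons (P.lf 12209 0 0) (P.cons (P.lf 16 0 0) P.nil))))) (P.cons (P.cons (P.lf 0 5710513 0) (P.cons (P.lf 0 107729 0) (P.cons (P.lf 907 0 0) (P.cons (P.lf 434 0 0) P.nil)))) (P.cons (P.cons (P.lf 0 3579573 0) (P.cons (P.lf 89946 0 0) (P.cons (P.lf 2947 0 0) P.nil))) (P.cons (P.cons (P.lf 17791 0 0) (P.cons (P.lf 4296 0 0) P.nil)) (P.cons (P.cons (P.lf 21784 0 0) P.nil) P.nil)))))) 3071)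
 EL.nil)
noncomputable def S183_198_308_327 : SL := (SL.cons S183_198_308_327_0 (SL.cons S183_198_308_327_1 (SL.cons S183_198_308_327_2 (SL.cons S183_198_308_327_3 (SL.cons S183_198_308_327_4 (SL.cons S183_198_308_327_5 (SL.cons S183_198_308_327_6 (SL.cons S183_198_308_327_7 (SL.cons S183_198_308_327_8 (SL.cons S183_198_308_327_9 (SL.cons S183_198_308_327_10 (SL.cons S183_198_308_327_11 (SL.cons S183_198_308_327_12 (SL.cons S183_198_308_327_13 (SL.cons S183_198_308_327_14 (SL.cons S183_198_308_327_15 (SL.cons S183_198_308_327_16 (SL.cons S183_198_308_327_17 (SL.cons S183_198_308_327_18 (SL.cons S183_198_308_327_19 (SL.cons S183_198_308_327_20 (SL.cons S183_198_308_327_21 (SL.cons S183_198_308_327_22 (SL.cons S183_198_308_327_23 (SL.cons S183_198_308_327_24 (SL.cons S183_198_308_327_25 (SL.cons S183_198_308_327_26 (SL.cons S183_198_308_327_27 (SL.cons S183_198_308_327_28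 (SL.cons S183_198_308_327_29 (SL.cons S183_198_308_327_30 (SL.cons S183_198_308_327_31 (SL.cons S183_198_308_327_32 (SL.cons S183_198_308_327_33 (SL.cons S183_198_308_327_34 (SL.cons S183_198_308_327_35 (SL.cons S183_198_308_327_36 (SL.cons S183_198_308_327_37 (SL.cons S183_198_308_327_38 (SL.cons S183_198_308_327_39 (SL.cons S183_198_308_327_40 (SL.cons S183_198_308_327_41 (SL.cons S183_198_308_327_42 (SL.cons S183_198_308_327_43 (SL.cons S183_198_308_327_44 (SL.cons S183_198_308_327_45 (SL.cons S183_198_308_327_46 (SL.cons S183_198_308_327_47 (SL.cons S183_198_308_327_48 SL.nil)))))))))))))))))))))))))))))))))))))))))))))))))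
noncomputable def S183_198_364_401_0 : EL := (EL.cons 0 (TM.mk (P.cons (P.lf 6766532673 0 0) (P.cons (P.lf 328315225 0 0) (P.cons (P.lf 0 6915520 0) (P.cons (P.lf 0 1047332 0) (P.cons (P.lf 0 7546 0) (P.cons (P.lf 1573 0 0) P.nil)))))) 161)
 (EL.cons 1 (TM.mk (P.cons (P.lf 0 1616469420 0) (P.cons (P.lf 96098353 0 0) (P.cons (P.lf 12687056 0 0) (P.cons (P.lf 0 51723 0) (P.cons (P.lf 0 25867 0) (P.cons (P.lf 0 433 0) P.nil)))))) 140)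
 (EL.cons 5 (TM.mk (P.cons (P.lf 4895566122 0 0) (P.cons (P.lf 0 116734300 0) (P.cons (P.lf 2458850 0 0) (P.cons (P.lf 372384 0 0) (P.cons (P.lf 2686 0 0) (P.cons (P.lf 0 556 0) P.nil)))))) 123)
 (EL.cons 9 (TM.mk (P.lf 6442450944 0 0) 2)
 EL.nil))))
noncomputable def S183_198_364_401_1 : EL := (EL.cons 0 (TM.mk (P.cons (P.cons (P.lf 380109425 0 0) (P.cons (P.lf 0 45491238 0) (P.cons (P.lf 0 1543467 0) (P.lf 73501 0 0)))) (P.cons (P.cons (P.lf 1062489235 0 0) (P.cons (P.lf 0 40312792 0) (P.cons (P.lf 0 1367765 0) (P.lf 65127 0 0)))) (P.cons (P.cons (P.lf 0 10315695 0) (P.cons (P.lf 0 3228364 0) (P.cons (P.lf 0 109524 0) (P.lf 5210 0 0)))) (P.cons (P.cons (P.lf 0 11704913 0) (P.cons (P.lf 226493 0 0) (P.cons (P.lf 7681 0 0) P.nil))) (P.cons (P.cons (P.lf 0 187946 0) (P.cons (P.lf 30702 0 0) P.nil)) (P.cons (P.cons (P.lf 55589 0 0) P.nil) P.nil)))))) 10335)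
 (EL.cons 1 (TM.mk (P.cons (P.cons (P.lf 0 1231985232 0) (P.cons (P.lf 82997687 0 0) (P.cons (P.lf 2816009 0 0) (P.lf 0 134082 0)))) (P.cons (P.cons (P.lf 0 53875205 0) (P.cons (P.lf 11262428 0 0) (P.cons (P.lf 382111 0 0) (P.lf 0 18187 0)))) (P.cons (P.cons (P.lf 62625441 0 0) (P.cons (P.lf 0 1521566 0) (P.cons (P.lf 0 51618 0) (P.lf 2453 0 0)))) (P.cons (P.cons (P.lf 1179393 0 0) (P.cons (P.lf 0 206989 0) (P.cons (P.lf 0 7017 0) P.nil))) (P.cons (P.cons (P.lf 0 476172 0) (P.cons (P.lf 3444 0 0) P.nil)) (P.cons (P.cons (P.lf 0 15435 0) P.nil) P.nil)))))) 6306)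
 (EL.cons 5 (TM.mk (P.cons (P.cons (P.lf 2591428056 0 0) (P.cons (P.lf 0 179325978 0) (P.cons (P.lf 0 6084314 0) (P.lf 289724 0 0)))) (P.cons (P.cons (P.lf 0 27653877 0) (P.cons (P.lf 0 7796488 0) (P.cons (P.lf 0 264530 0) (P.lf 12602 0 0)))) (P.cons (P.cons (P.lf 0 33078402 0) (P.cons (P.lf 1196492 0 0) (P.cons (P.lf 40584 0 0) (P.lf 0 1924 0)))) (P.cons (P.cons (P.lf 2386049 0 0) (P.cons (P.lf 12904 0 0) (P.cons (P.lf 440 0 0) P.nil))) (P.cons (P.cons (P.lf 161303 0 0) (P.cons (P.lf 0 8410 0) P.nil)) (P.cons (P.cons (P.lf 0 13313 0) P.nil) P.nil)))))) 5929)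
 (EL.cons 9 (TM.mk (P.cons (P.cons (P.lf 2405804176 0 0) (P.cons (P.lf 0 172500564 0) (P.cons (P.lf 0 5852736 0) (P.lf 278694 0 0)))) (P.cons (P.cons (P.lf 308929468 0 0) (P.cons (P.lf 0 19526400 0) (P.cons (P.lf 0 662502 0) (P.lf 31542 0 0)))) (P.cons (P.cons (P.lf 0 32423116 0) (P.cons (P.lf 42906 0 0) (P.cons (P.lf 1452 0 0) (P.lf 0 66 0)))) (P.cons (P.cons (P.lf 0 1566784 0) (P.cons (P.lf 82440 0 0) (P.cons (P.lf 2796 0 0) P.nil))) (P.cons (P.cons (P.lf 83353 0 0) (P.cons (P.lf 2208 0 0) P.nil)) (P.cons (P.cons (P.lf 5674 0 0) P.nil) P.nil)))))) 1355)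
 (EL.cons 2 (TM.mk (P.cons (P.cons (P.lf 804874812 0 0) (P.cons (P.lf 62215748 0 0) (P.cons (P.lf 0 3928339 0) (P.cons (P.lf 0 73662 0) (P.lf 2629 0 0))))) (P.cons (P.cons (P.lf 0 17479847 0) (P.cons (P.lf 0 1351167 0) (P.cons (P.lf 85314 0 0) (P.cons (P.lf 1600 0 0) (P.lf 0 56 0))))) (P.cons (P.cons (P.lf 0 9335261 0) (P.cons (P.lf 0 721600 0) (P.cons (P.lf 45559 0 0) (P.cons (P.lf 852 0 0) P.nil)))) (P.cons (P.cons (P.lf 0 191635 0) (P.cons (P.lf 0 14810 0) (P.cons (P.lf 933 0 0) P.nil))) (P.cons (P.cons (P.lf 26724 0 0) (P.cons (P.lf 2064 0 0) P.nil)) (P.cons (P.cons (P.lf 1099 0 0) P.nil) P.nil)))))) 606)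
 (EL.cons 6 (TM.mk (P.cons (P.cons (P.lf 770227149 0 0) (P.cons (P.lf 59537532 0 0) (P.cons (P.lf 0 3759234 0) (P.cons (P.lf 0 70491 0) (P.lf 2514 0 0))))) (P.cons (P.cons (P.lf 87186768 0 0) (P.cons (P.lf 6739419 0 0) (P.cons (P.lf 0 425529 0) (P.cons (P.lf 0 7977 0) (P.lf 282 0 0))))) (P.cons (P.cons (P.lf 0 191601 0) (P.cons (P.lf 0 14808 0) (P.cons (P.lf 933 0 0) (P.cons (P.lf 15 0 0) P.nil)))) (P.cons (P.cons (P.lf 0 368106 0) (P.cons (P.lf 0 28452 0) (P.cons (P.lf 1794 0 0) P.nil))) (P.cons (P.cons (P.lf 0 9876 0) (P.cons (P.lf 0 762 0) P.nil)) (P.cons (P.cons (P.lf 657 0 0) P.nil) P.nil)))))) 411)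
 EL.nil))))))
noncomputable def S183_198_364_401_2 : EL := (EL.cons 0 (TM.mk (P.cons (P.cons (P.lf 0 659704026 0) (P.cons (P.lf 80983715 0 0) (P.cons (P.lf 332630 0 0) (P.cons (P.lf 0 294709 0) (P.cons (P.lf 5018 0 0) (P.cons (P.lf 255 0 0) P.nil)))))) (P.cons (P.cons (P.lf 541867668 0 0) (P.cons (P.lf 0 54414178 0) (P.cons (P.lf 0 745297 0) (P.cons (P.lf 162616 0 0) (P.cons (P.lf 0 2301 0) P.nil))))) (P.cons (P.cons (P.lf 89447823 0 0) (P.cons (P.lf 0 10144976 0) (P.cons (P.lf 0 35627 0) (P.cons (P.lf 37312 0 0) P.nil)))) (P.cons (P.cons (P.lf 0 15242758 0) (P.cons (P.lf 588072 0 0) (P.cons (P.lf 29572 0 0) P.nil))) (P.cons (P.cons (P.lf 0 1498424 0) (P.cons (P.lf 166069 0 0) P.nil)) (P.cons (P.cons (P.lf 135173 0 0) P.nil) P.nil)))))) 53667)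
 (EL.cons 1 (TM.mk (P.cons (P.cons (P.lf 0 694703827 0) (P.cons (P.lf 95636401 0 0) (P.cons (P.lf 0 40905 0) (P.cons (P.lf 0 377464 0) (P.cons (P.lf 6832 0 0) (P.cons (P.lf 357 0 0) P.nil)))))) (P.cons (P.cons (P.lf 0 113899356 0) (P.cons (P.lf 20836093 0 0) (P.cons (P.lf 0 205824 0) (P.cons (P.lf 0 95583 0) (P.cons (P.lf 1888 0 0) P.nil))))) (P.cons (P.cons (P.lf 46436261 0 0) (P.cons (P.lf 0 3243344 0) (P.cons (P.lf 0 106134 0) (P.cons (P.lf 5497 0 0) P.nil)))) (P.cons (P.cons (P.lf 6647673 0 0) (P.cons (P.lf 0 780603 0) (P.cons (P.lf 0 7939 0) P.nil))) (P.cons (P.cons (P.lf 0 771879 0) (P.cons (P.lf 9490 0 0) P.nil)) (P.cons (P.cons (P.lf 0 87840 0) P.nil) P.nil)))))) 29146)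
 (EL.cons 5 (TM.mk (P.cons (P.cons (P.lf 1252747362 0 0) (P.cons (P.lf 0 174805793 0) (P.cons (P.lf 162387 0 0) (P.cons (P.lf 695892 0 0) (P.cons (P.lf 0 12666 0) (P.cons (P.lf 0 661 0) P.nil)))))) (P.cons (P.cons (P.lf 68826592 0 0) (P.cons (P.lf 0 15930053 0) (P.cons (P.lf 253154 0 0) (P.cons (P.lf 79596 0 0) (P.cons (P.lf 0 1647 0) P.nil))))) (P.cons (P.cons (P.lf 0 42458924 0) (P.cons (P.lf 3488864 0 0) (P.cons (P.lf 73123 0 0) (P.cons (P.lf 0 8689 0) P.nil)))) (P.cons (P.cons (P.lf 569323 0 0) (P.cons (P.lf 183199 0 0) (P.cons (P.lf 0 2497 0) P.nil))) (P.cons (P.cons (P.lf 617958 0 0) (P.cons (P.lf 0 42993 0) P.nil)) (P.cons (P.cons (P.lf 0 16308 0) P.nil) P.nil)))))) 29208)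
 (EL.cons 9 (TM.mk (P.cons (P.cons (P.lf 898399348 0 0) (P.cons (P.lf 0 128833755 0) (P.cons (P.lf 247633 0 0) (P.cons (P.lf 521566 0 0) (P.cons (P.lf 0 9606 0) (P.cons (P.lf 0 505 0) P.nil)))))) (P.cons (P.cons (P.lf 230727036 0 0) (P.cons (P.lf 0 31127035 0) (P.cons (P.lf 0 10435 0) (P.cons (P.lf 121240 0 0) (P.cons (P.lf 0 2173 0) P.nil))))) (P.cons (P.cons (P.lf 0 9401688 0) (P.cons (P.lf 0 104323 0) (P.cons (P.lf 53341 0 0) (P.cons (P.lf 4030 0 0) P.nil)))) (P.cons (P.cons (P.lf 0 4279684 0) (P.cons (P.lf 346131 0 0) (P.cons (P.lf 7066 0 0) P.nil))) (P.cons (P.cons (P.lf 75168 0 0) (P.cons (P.lf 14157 0 0) P.nil)) (P.cons (P.cons (P.lf 28002 0 0) P.nil) P.nil)))))) 7826)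
 (EL.cons 2 (TM.mk (P.cons (P.cons (P.lf 601128731 0 0) (P.cons (P.lf 3364419 0 0) (P.cons (P.lf 0 7728046 0) (P.cons (P.lf 111943 0 0) (P.cons (P.lf 18427 0 0) (P.cons (P.lf 0 343 0) P.nil)))))) (P.cons (P.cons (P.lf 64135974 0 0) (P.cons (P.lf 1014705 0 0) (P.cons (P.lf 0 751584 0) (P.cons (P.lf 9399 0 0) (P.cons (P.lf 1710 0 0) P.nil))))) (P.cons (P.cons (P.lf 0 16749956 0) (P.cons (P.lf 0 678150 0) (P.cons (P.lf 150328 0 0) (P.cons (P.lf 0 849 0) P.nil)))) (P.cons (P.cons (P.lf 0 1253958 0) (P.cons (P.lf 0 9708 0) (P.cons (P.lf 15817 0 0) P.nil))) (P.cons (P.cons (P.lf 124869 0 0) (P.cons (P.lf 9360 0 0) P.nil)) (P.cons (P.cons (P.lf 10816 0 0) P.nil) P.nil)))))) 5540)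
 (EL.cons 6 (TM.mk (P.cons (P.cons (P.lf 575251776 0 0) (P.cons (P.lf 3219588 0 0) (P.cons (P.lf 0 7395372 0) (P.cons (P.lf 107124 0 0) (P.cons (P.lf 17634 0 0) (P.cons (P.lf 0 330 0) P.nil)))))) (P.cons (P.cons (P.lf 138984420 0 0) (P.cons (P.lf 1405392 0 0) (P.cons (P.lf 0 1716966 0) (P.cons (P.lf 23448 0 0) (P.cons (P.lf 4014 0 0) P.nil))))) (P.cons (P.cons (P.lf 465798 0 0) (P.cons (P.lf 0 471978 0) (P.cons (P.lf 0 58770 0) (P.cons (P.lf 1920 0 0) P.nil)))) (P.cons (P.cons (P.lf 0 1545504 0) (P.cons (P.lf 0 77712 0) (P.cons (P.lf 12180 0 0) P.nil))) (P.cons (P.cons (P.lf 0 63222 0) (P.cons (P.lf 624 0 0) P.nil)) (P.cons (P.cons (P.lf 6954 0 0) P.nil) P.nil)))))) 4518)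
 EL.nil))))))
noncomputable def S183_198_364_401_3 : EL := (EL.cons 0 (TM.mk (P.cons (P.lf 1689184190 0 0) (P.cons (P.lf 0 328315225 0) (P.cons (P.lf 6915520 0 0) (P.cons (P.lf 1047332 0 0) (P.cons (P.lf 7546 0 0) (P.cons (P.lf 0 1573 0) P.nil)))))) 161)
 (EL.cons 1 (TM.mk (P.cons (P.lf 1616469420 0 0) (P.cons (P.lf 0 96098353 0) (P.cons (P.lf 0 12687056 0) (P.cons (P.lf 51723 0 0) (P.cons (P.lf 25867 0 0) (P.cons (P.lf 433 0 0) P.nil)))))) 140)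
 (EL.cons 5 (TM.mk (P.cons (P.lf 1546884822 0 0) (P.cons (P.lf 116734300 0 0) (P.cons (P.lf 0 2458850 0) (P.cons (P.lf 0 372384 0) (P.cons (P.lf 0 2686 0) (P.cons (P.lf 556 0 0) P.nil)))))) 116)
 EL.nil)))
noncomputable def S183_198_364_401_4 : EL := (EL.cons 0 (TM.mk (P.cons (P.cons (P.lf 630791977 0 0) (P.cons (P.lf 0 45228939 0) (P.cons (P.lf 0 1534563 0) (P.lf 73072 0 0)))) (P.cons (P.cons (P.lf 0 41602700 0) (P.cons (P.lf 3671098 0 0) (P.cons (P.lf 124556 0 0) (P.lf 0 5930 0)))) (P.cons (P.cons (P.lf 0 21662170 0) (P.cons (P.lf 821170 0 0) (P.cons (P.lf 27859 0 0) (P.lf 0 1325 0)))) (P.cons (P.cons (P.lf 1964235 0 0) (P.cons (P.lf 0 29573 0) (P.cons (P.lf 0 1001 0) P.nil))) (P.cons (P.cons (P.lf 119935 0 0) (P.cons (P.lf 0 6952 0) P.nil)) (P.cons (P.cons (P.lf 0 9936 0) P.nil) P.nil)))))) 1966)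
 (EL.cons 1 (TM.mk (P.cons (P.cons (P.lf 603638103 0 0) (P.cons (P.lf 0 43281956 0) (P.cons (P.lf 0 1468503 0) (P.lf 69924 0 0)))) (P.cons (P.cons (P.lf 41627201 0 0) (P.cons (P.lf 0 2326258 0) (P.cons (P.lf 0 78924 0) (P.lf 3755 0 0)))) (P.cons (P.cons (P.lf 0 17481105 0) (P.cons (P.lf 641731 0 0) (P.cons (P.lf 21770 0 0) (P.lf 0 1035 0)))) (P.cons (P.cons (P.lf 0 498538 0) (P.cons (P.lf 57112 0 0) (P.cons (P.lf 1936 0 0) P.nil))) (P.cons (P.cons (P.lf 120273 0 0) (P.cons (P.lf 0 1608 0) P.nil)) (P.cons (P.cons (P.lf 4406 0 0) P.nil) P.nil)))))) 1459)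
 (EL.cons 5 (TM.mk (P.cons (P.cons (P.lf 577653130 0 0) (P.cons (P.lf 0 41418786 0) (P.cons (P.lf 0 1405288 0) (P.lf 66916 0 0)))) (P.cons (P.cons (P.lf 117768560 0 0) (P.cons (P.lf 0 7814078 0) (P.cons (P.lf 0 265120 0) (P.lf 12622 0 0)))) (P.cons (P.cons (P.lf 0 3105598 0) (P.cons (P.lf 0 277670 0) (P.cons (P.lf 0 9420 0) (P.lf 448 0 0)))) (P.cons (P.cons (P.lf 0 1220656 0) (P.cons (P.lf 37994 0 0) (P.cons (P.lf 1288 0 0) P.nil))) (P.cons (P.cons (P.lf 0 14860 0) (P.cons (P.lf 3208 0 0) P.nil)) (P.cons (P.cons (P.lf 5422 0 0) P.nil) P.nil)))))) 1094)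
 EL.nil)))
noncomputable def S183_198_364_401_5 : EL := (EL.cons 0 (TM.mk (P.cons (P.cons (P.lf 235556620 0 0) (P.cons (P.lf 0 33779680 0) (P.cons (P.lf 64928 0 0) (P.cons (P.lf 136752 0 0) (P.cons (P.lf 0 2517 0) (P.cons (P.lf 0 131 0) P.nil)))))) (P.cons (P.cons (P.lf 14712145 0 0) (P.cons (P.lf 0 1595852 0) (P.cons (P.lf 0 15354 0) (P.cons (P.lf 5208 0 0) (P.cons (P.lf 0 79 0) P.nil))))) (P.cons (P.cons (P.lf 0 13258847 0) (P.cons (P.lf 1420623 0 0) (P.cons (P.lf 14783 0 0) (P.cons (P.lf 0 4561 0) P.nil)))) (P.cons (P.cons (P.lf 0 249273 0) (P.cons (P.lf 41712 0 0) (P.cons (P.lf 0 834 0) P.nil))) (P.cons (P.cons (P.lf 266275 0 0) (P.cons (P.lf 0 19249 0) P.nil)) (P.cons (P.cons (P.lf 0 2559 0) P.nil) P.nil)))))) 7165)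
 (EL.cons 1 (TM.mk (P.cons (P.cons (P.lf 225416550 0 0) (P.cons (P.lf 0 32325556 0) (P.cons (P.lf 62131 0 0) (P.cons (P.lf 130863 0 0) (P.cons (P.lf 0 2409 0) (P.cons (P.lf 0 125 0) P.nil)))))) (P.cons (P.cons (P.lf 44490598 0 0) (P.cons (P.lf 0 5888315 0) (P.cons (P.lf 0 6311 0) (P.cons (P.lf 22638 0 0) (P.cons (P.lf 0 401 0) P.nil))))) (P.cons (P.cons (P.lf 0 7569800 0) (P.cons (P.lf 691837 0 0) (P.cons (P.lf 13050 0 0) (P.cons (P.lf 0 1822 0) P.nil)))) (P.cons (P.cons (P.lf 0 1380725 0) (P.cons (P.lf 148665 0 0) (P.cons (P.lf 999 0 0) P.nil))) (P.cons (P.cons (P.lf 106670 0 0) (P.cons (P.lf 0 2171 0) P.nil)) (P.cons (P.cons (P.lf 15243 0 0) P.nil) P.nil)))))) 5555)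
 (EL.cons 5 (TM.mk (P.cons (P.cons (P.lf 215712982 0 0) (P.cons (P.lf 0 30934030 0) (P.cons (P.lf 59458 0 0) (P.cons (P.lf 125230 0 0) (P.cons (P.lf 0 2304 0) (P.cons (P.lf 0 120 0) P.nil)))))) (P.cons (P.cons (P.lf 71678024 0 0) (P.cons (P.lf 0 9808262 0) (P.cons (P.lf 1982 0 0) (P.cons (P.lf 38560 0 0) (P.cons (P.lf 0 694 0) P.nil))))) (P.cons (P.cons (P.lf 1580360 0 0) (P.cons (P.lf 0 539884 0) (P.cons (P.lf 12522 0 0) (P.cons (P.lf 2964 0 0) P.nil)))) (P.cons (P.cons (P.lf 0 1337928 0) (P.cons (P.lf 100544 0 0) (P.cons (P.lf 2652 0 0) P.nil))) (P.cons (P.cons (P.lf 0 69618 0) (P.cons (P.lf 11562 0 0) P.nil)) (P.cons (P.cons (P.lf 10242 0 0) P.nil) P.nil)))))) 4174)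
 EL.nil)))
noncomputable def S183_198_364_401_6 : EL := (EL.cons 12 (TM.mk (P.lf 8589934592 0 0) 0)
 (EL.cons 3 (TM.mk (P.cons (P.lf 0 1904598495 0) (P.cons (P.lf 185091918 0 0) (P.cons (P.lf 5095050 0 0) (P.cons (P.lf 0 95302 0) (P.cons (P.lf 0 6701 0) (P.cons (P.lf 0 18 0) P.nil)))))) 59)
 (EL.cons 7 (TM.mk (P.cons (P.lf 0 1822610727 0) (P.cons (P.lf 0 68770857 0) (P.cons (P.lf 2745999 0 0) (P.cons (P.lf 115768 0 0) (P.cons (P.lf 0 717 0) (P.cons (P.lf 0 127 0) P.nil)))))) 49)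
 EL.nil)))
noncomputable def S183_198_364_401_7 : EL := (EL.cons 12 (TM.mk (P.cons (P.cons (P.lf 3207738902 0 0) (P.cons (P.lf 0 230000752 0) (P.cons (P.lf 0 7803648 0) (P.lf 371592 0 0)))) (P.cons (P.cons (P.lf 411905958 0 0) (P.cons (P.lf 0 26035200 0) (P.cons (P.lf 0 883336 0) (P.lf 42056 0 0)))) (P.cons (P.cons (P.lf 0 43230822 0) (P.cons (P.lf 57208 0 0) (P.cons (P.lf 1936 0 0) (P.lf 0 88 0)))) (P.cons (P.cons (P.lf 0 2089046 0) (P.cons (P.lf 109920 0 0) (P.cons (P.lf 3728 0 0) P.nil))) (P.cons (P.cons (P.lf 111138 0 0) (P.cons (P.lf 2944 0 0) P.nil)) (P.cons (P.cons (P.lf 7566 0 0) P.nil) P.nil)))))) 1782)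
 (EL.cons 3 (TM.mk (P.cons (P.cons (P.lf 1709243867 0 0) (P.cons (P.lf 0 101993578 0) (P.cons (P.lf 0 3460518 0) (P.lf 164780 0 0)))) (P.cons (P.cons (P.lf 0 480882850 0) (P.cons (P.lf 0 1633380 0) (P.cons (P.lf 0 55412 0) (P.lf 2634 0 0)))) (P.cons (P.cons (P.lf 0 29662233 0) (P.cons (P.lf 1420202 0 0) (P.cons (P.lf 48180 0 0) (P.lf 0 2290 0)))) (P.cons (P.cons (P.lf 2194919 0 0) (P.cons (P.lf 72060 0 0) (P.cons (P.lf 2442 0 0) P.nil))) (P.cons (P.cons (P.lf 216816 0 0) (P.cons (P.lf 0 4434 0) P.nil)) (P.cons (P.cons (P.lf 0 1771 0) P.nil) P.nil)))))) 4633)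
 (EL.cons 7 (TM.mk (P.cons (P.cons (P.lf 0 1579945468 0) (P.cons (P.lf 105645054 0 0) (P.cons (P.lf 3584413 0 0) (P.lf 0 170689 0)))) (P.cons (P.cons (P.lf 178671904 0 0) (P.cons (P.lf 606885 0 0) (P.cons (P.lf 20593 0 0) (P.lf 0 984 0)))) (P.cons (P.cons (P.lf 0 1031638 0) (P.cons (P.lf 0 568616 0) (P.cons (P.lf 0 19291 0) (P.lf 917 0 0)))) (P.cons (P.cons (P.lf 0 1573185 0) (P.cons (P.lf 21479 0 0) (P.cons (P.lf 729 0 0) P.nil))) (P.cons (P.cons (P.lf 12949 0 0) (P.cons (P.lf 3285 0 0) P.nil)) (P.cons (P.cons (P.lf 6715 0 0) P.nil) P.nil)))))) 3376)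
 (EL.cons 10 (TM.mk (P.cons (P.cons (P.lf 0 1815033990 0) (P.cons (P.lf 0 140299710 0) (P.cons (P.lf 8858610 0 0) (P.cons (P.lf 166113 0 0) (P.lf 0 5931 0))))) (P.cons (P.cons (P.lf 0 136969938 0) (P.cons (P.lf 0 10587594 0) (P.cons (P.lf 668505 0 0) (P.cons (P.lf 12534 0 0) (P.lf 0 447 0))))) (P.cons (P.cons (P.lf 2885085 0 0) (P.cons (P.lf 223011 0 0) (P.cons (P.lf 0 14079 0) (P.cons (P.lf 0 264 0) P.nil)))) (P.cons (P.cons (P.lf 436935 0 0) (P.cons (P.lf 33774 0 0) (P.cons (P.lf 0 2130 0) P.nil))) (P.cons (P.cons (P.lf 3150 0 0) (P.cons (P.lf 243 0 0) P.nil)) (P.cons (P.cons (P.lf 0 651 0) P.nil) P.nil)))))) 372)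
 EL.nil))))
noncomputable def S183_198_364_401_8 : EL := (EL.cons 12 (TM.mk (P.cons (P.cons (P.lf 1197865798 0 0) (P.cons (P.lf 0 171778340 0) (P.cons (P.lf 330178 0 0) (P.cons (P.lf 695422 0 0) (P.cons (P.lf 0 12808 0) (P.cons (P.lf 0 674 0) P.nil)))))) (P.cons (P.cons (P.lf 307636048 0 0) (P.cons (P.lf 0 41502714 0) (P.cons (P.lf 0 13914 0) (P.cons (P.lf 161654 0 0) (P.cons (P.lf 0 2898 0) P.nil))))) (P.cons (P.cons (P.lf 0 12535584 0) (P.cons (P.lf 0 139098 0) (P.cons (P.lf 71122 0 0) (P.cons (P.lf 5374 0 0) P.nil)))) (P.cons (P.cons (P.lf 0 5706246 0) (P.cons (P.lf 461508 0 0) (P.cons (P.lf 9422 0 0) P.nil))) (P.cons (P.cons (P.lf 100224 0 0) (P.cons (P.lf 18876 0 0) P.nil)) (P.cons (P.cons (P.lf 37336 0 0) P.nil) P.nil)))))) 10406)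
 (EL.cons 3 (TM.mk (P.cons (P.cons (P.lf 1542161857 0 0) (P.cons (P.lf 0 205794471 0) (P.cons (P.lf 0 155000 0) (P.cons (P.lf 795765 0 0) (P.cons (P.lf 0 14201 0) (P.cons (P.lf 0 745 0) P.nil)))))) (P.cons (P.cons (P.lf 0 152828854 0) (P.cons (P.lf 0 1111510 0) (P.cons (P.lf 844463 0 0) (P.cons (P.lf 61649 0 0) (P.cons (P.lf 0 1830 0) P.nil))))) (P.cons (P.cons (P.lf 0 95595355 0) (P.cons (P.lf 7422211 0 0) (P.cons (P.lf 167428 0 0) (P.cons (P.lf 0 17709 0) P.nil)))) (P.cons (P.cons (P.lf 1639209 0 0) (P.cons (P.lf 483713 0 0) (P.cons (P.lf 0 2464 0) P.nil))) (P.cons (P.cons (P.lf 1106082 0 0) (P.cons (P.lf 0 55254 0) P.nil)) (P.cons (P.cons (P.lf 11976 0 0) P.nil) P.nil)))))) 31544)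
 (EL.cons 7 (TM.mk (P.cons (P.cons (P.lf 0 925834988 0) (P.cons (P.lf 127062170 0 0) (P.cons (P.lf 0 39667 0) (P.cons (P.lf 0 500516 0) (P.cons (P.lf 9047 0 0) (P.cons (P.lf 473 0 0) P.nil)))))) (P.cons (P.cons (P.lf 56783520 0 0) (P.cons (P.lf 412986 0 0) (P.cons (P.lf 0 313756 0) (P.cons (P.lf 0 22911 0) (P.cons (P.lf 687 0 0) P.nil))))) (P.cons (P.cons (P.lf 31687998 0 0) (P.cons (P.lf 0 2785578 0) (P.cons (P.lf 0 41039 0) (P.cons (P.lf 8120 0 0) P.nil)))) (P.cons (P.cons (P.lf 0 3729423 0) (P.cons (P.lf 68851 0 0) (P.cons (P.lf 6096 0 0) P.nil))) (P.cons (P.cons (P.lf 0 283061 0) (P.cons (P.lf 33279 0 0) P.nil)) (P.cons (P.cons (P.lf 35194 0 0) P.nil) P.nil)))))) 17099)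
 (EL.cons 10 (TM.mk (P.cons (P.cons (P.lf 0 1355576124 0) (P.cons (P.lf 0 7586934 0) (P.cons (P.lf 17427144 0 0) (P.cons (P.lf 0 252444 0) (P.cons (P.lf 0 41556 0) (P.cons (P.lf 780 0 0) P.nil)))))) (P.cons (P.cons (P.lf 0 276366972 0) (P.cons (P.lf 0 3025530 0) (P.cons (P.lf 3388458 0 0) (P.cons (P.lf 0 45732 0) (P.cons (P.lf 0 7902 0) P.nil))))) (P.cons (P.cons (P.lf 7287894 0 0) (P.cons (P.lf 1214946 0 0) (P.cons (P.lf 36906 0 0) (P.cons (P.lf 0 3192 0) P.nil)))) (P.cons (P.cons (P.lf 2864508 0 0) (P.cons (P.lf 132258 0 0) (P.cons (P.lf 0 23892 0) P.nil))) (P.cons (P.cons (P.lf 34866 0 0) (P.cons (P.lf 0 4830 0) P.nil)) (P.cons (P.cons (P.lf 0 12726 0) P.nil) P.nil)))))) 6942)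
 EL.nil))))
noncomputable def S183_198_364_401_9 : EL := (EL.cons 3 (TM.mk (P.cons (P.lf 0 1904598495 0) (P.cons (P.lf 185091918 0 0) (P.cons (P.lf 5095050 0 0) (P.cons (P.lf 0 95302 0) (P.cons (P.lf 0 6701 0) (P.cons (P.lf 0 18 0) P.nil)))))) 59)
 (EL.cons 7 (TM.mk (P.cons (P.lf 0 1822610727 0) (P.cons (P.lf 0 68770857 0) (P.cons (P.lf 2745999 0 0) (P.cons (P.lf 115768 0 0) (P.cons (P.lf 0 717 0) (P.cons (P.lf 0 127 0) P.nil)))))) 49)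
 EL.nil))
noncomputable def S183_198_364_401_10 : EL := (EL.cons 3 (TM.mk (P.cons (P.cons (P.lf 0 711234133 0) (P.cons (P.lf 50996789 0 0) (P.cons (P.lf 1730259 0 0) (P.lf 0 82390 0)))) (P.cons (P.cons (P.lf 0 22210753 0) (P.cons (P.lf 816690 0 0) (P.cons (P.lf 27706 0 0) (P.lf 0 1317 0)))) (P.cons (P.cons (P.lf 20363532 0 0) (P.cons (P.lf 0 710101 0) (P.cons (P.lf 0 24090 0) (P.lf 1145 0 0)))) (P.cons (P.cons (P.lf 0 259594 0) (P.cons (P.lf 0 36030 0) (P.cons (P.lf 0 1221 0) P.nil))) (P.cons (P.cons (P.lf 0 102369 0) (P.cons (P.lf 2217 0 0) P.nil)) (P.cons (P.cons (P.lf 0 370 0) P.nil) P.nil)))))) 1074)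
 (EL.cons 7 (TM.mk (P.cons (P.cons (P.lf 0 680617444 0) (P.cons (P.lf 48801516 0 0) (P.cons (P.lf 1655776 0 0) (P.lf 0 78844 0)))) (P.cons (P.cons (P.lf 0 113079227 0) (P.cons (P.lf 7365525 0 0) (P.cons (P.lf 249901 0 0) (P.lf 0 11898 0)))) (P.cons (P.cons (P.lf 6900434 0 0) (P.cons (P.lf 122773 0 0) (P.cons (P.lf 4166 0 0) (P.lf 0 199 0)))) (P.cons (P.cons (P.lf 964266 0 0) (P.cons (P.lf 0 35203 0) (P.cons (P.lf 0 1194 0) P.nil))) (P.cons (P.cons (P.lf 0 15392 0) (P.cons (P.lf 0 1818 0) P.nil)) (P.cons (P.cons (P.lf 0 3827 0) P.nil) P.nil)))))) 705)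
 EL.nil))
noncomputable def S183_198_364_401_11 : EL := (EL.cons 3 (TM.mk (P.cons (P.cons (P.lf 0 265596131 0) (P.cons (P.lf 38087457 0 0) (P.cons (P.lf 0 73208 0) (P.cons (P.lf 0 154191 0) (P.cons (P.lf 2839 0 0) (P.cons (P.lf 149 0 0) P.nil)))))) (P.cons (P.cons (P.lf 0 42399376 0) (P.cons (P.lf 5500766 0 0) (P.cons (P.lf 10199 0 0) (P.cons (P.lf 0 20857 0) (P.cons (P.lf 366 0 0) P.nil))))) (P.cons (P.cons (P.lf 10118747 0 0) (P.cons (P.lf 0 965327 0) (P.cons (P.lf 0 15872 0) (P.cons (P.lf 2703 0 0) P.nil)))) (P.cons (P.cons (P.lf 1164285 0 0) (P.cons (P.lf 0 128035 0) (P.cons (P.lf 0 568 0) P.nil))) (P.cons (P.cons (P.lf 0 156960 0) (P.cons (P.lf 6270 0 0) P.nil)) (P.cons (P.cons (P.lf 0 9606 0) P.nil) P.nil)))))) 4852)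
 (EL.cons 7 (TM.mk (P.cons (P.cons (P.lf 0 254162942 0) (P.cons (P.lf 36447896 0 0) (P.cons (P.lf 0 70057 0) (P.cons (P.lf 0 147554 0) (P.cons (P.lf 2717 0 0) (P.cons (P.lf 143 0 0) P.nil)))))) (P.cons (P.cons (P.lf 0 74864250 0) (P.cons (P.lf 10181292 0 0) (P.cons (P.lf 308 0 0) (P.cons (P.lf 0 39867 0) (P.cons (P.lf 717 0 0) P.nil))))) (P.cons (P.cons (P.lf 579798 0 0) (P.cons (P.lf 306870 0 0) (P.cons (P.lf 0 14873 0) (P.cons (P.lf 0 2212 0) P.nil)))) (P.cons (P.cons (P.lf 1425597 0 0) (P.cons (P.lf 0 112391 0) (P.cons (P.lf 0 2568 0) P.nil))) (P.cons (P.cons (P.lf 24457 0 0) (P.cons (P.lf 0 8289 0) P.nil)) (P.cons (P.cons (P.lf 0 10760 0) P.nil) P.nil)))))) 3319)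
 EL.nil))
noncomputable def S183_198_364_401_12 : EL := (EL.cons 4 (TM.mk (P.cons (P.lf 1904598495 0 0) (P.cons (P.lf 0 185091918 0) (P.cons (P.lf 0 5095050 0) (P.cons (P.lf 95302 0 0) (P.cons (P.lf 6701 0 0) (P.cons (P.lf 18 0 0) P.nil)))))) 59)
 (EL.cons 8 (TM.mk (P.cons (P.lf 1822610727 0 0) (P.cons (P.lf 68770857 0 0) (P.cons (P.lf 0 2745999 0) (P.cons (P.lf 0 115768 0) (P.cons (P.lf 717 0 0) (P.cons (P.lf 127 0 0) P.nil)))))) 49)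
 EL.nil))
noncomputable def S183_198_364_401_13 : EL := (EL.cons 4 (TM.mk (P.cons (P.cons (P.lf 711234133 0 0) (P.cons (P.lf 0 50996789 0) (P.cons (P.lf 0 1730259 0) (P.lf 82390 0 0)))) (P.cons (P.cons (P.lf 22210753 0 0) (P.cons (P.lf 0 816690 0) (P.cons (P.lf 0 27706 0) (P.lf 1317 0 0)))) (P.cons (P.cons (P.lf 0 20363532 0) (P.cons (P.lf 710101 0 0) (P.cons (P.lf 24090 0 0) (P.lf 0 1145 0)))) (P.cons (P.cons (P.lf 259594 0 0) (P.cons (P.lf 36030 0 0) (P.cons (P.lf 1221 0 0) P.nil))) (P.cons (P.cons (P.lf 102369 0 0) (P.cons (P.lf 0 2217 0) P.nil)) (P.cons (P.cons (P.lf 370 0 0) P.nil) P.nil)))))) 1074)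
 (EL.cons 8 (TM.mk (P.cons (P.cons (P.lf 680617444 0 0) (P.cons (P.lf 0 48801516 0) (P.cons (P.lf 0 1655776 0) (P.lf 78844 0 0)))) (P.cons (P.cons (P.lf 113079227 0 0) (P.cons (P.lf 0 7365525 0) (P.cons (P.lf 0 249901 0) (P.lf 11898 0 0)))) (P.cons (P.cons (P.lf 0 6900434 0) (P.cons (P.lf 0 122773 0) (P.cons (P.lf 0 4166 0) (P.lf 199 0 0)))) (P.cons (P.cons (P.lf 0 964266 0) (P.cons (P.lf 35203 0 0) (P.cons (P.lf 1194 0 0) P.nil))) (P.cons (P.cons (P.lf 15392 0 0) (P.cons (P.lf 1818 0 0) P.nil)) (P.cons (P.cons (P.lf 3827 0 0) P.nil) P.nil)))))) 705)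
 EL.nil))
noncomputable def S183_198_364_401_14 : EL := (EL.cons 4 (TM.mk (P.cons (P.cons (P.lf 265596131 0 0) (P.cons (P.lf 0 38087457 0) (P.cons (P.lf 73208 0 0) (P.cons (P.lf 154191 0 0) (P.cons (P.lf 0 2839 0) (P.cons (P.lf 0 149 0) P.nil)))))) (P.cons (P.cons (P.lf 42399376 0 0) (P.cons (P.lf 0 5500766 0) (P.cons (P.lf 0 10199 0) (P.cons (P.lf 20857 0 0) (P.cons (P.lf 0 366 0) P.nil))))) (P.cons (P.cons (P.lf 0 10118747 0) (P.cons (P.lf 965327 0 0) (P.cons (P.lf 15872 0 0) (P.cons (P.lf 0 2703 0) P.nil)))) (P.cons (P.cons (P.lf 0 1164285 0) (P.cons (P.lf 128035 0 0) (P.cons (P.lf 568 0 0) P.nil))) (P.cons (P.cons (P.lf 156960 0 0) (P.cons (P.lf 0 6270 0) P.nil)) (P.cons (P.cons (P.lf 9606 0 0) P.nil) P.nil)))))) 4852)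
 (EL.cons 8 (TM.mk (P.cons (P.cons (P.lf 254162942 0 0) (P.cons (P.lf 0 36447896 0) (P.cons (P.lf 70057 0 0) (P.cons (P.lf 147554 0 0) (P.cons (P.lf 0 2717 0) (P.cons (P.lf 0 143 0) P.nil)))))) (P.cons (P.cons (P.lf 74864250 0 0) (P.cons (P.lf 0 10181292 0) (P.cons (P.lf 0 308 0) (P.cons (P.lf 39867 0 0) (P.cons (P.lf 0 717 0) P.nil))))) (P.cons (P.cons (P.lf 0 579798 0) (P.cons (P.lf 0 306870 0) (P.cons (P.lf 14873 0 0) (P.cons (P.lf 2212 0 0) P.nil)))) (P.cons (P.cons (P.lf 0 1425597 0) (P.cons (P.lf 112391 0 0) (P.cons (P.lf 2568 0 0) P.nil))) (P.cons (P.cons (P.lf 0 24457 0) (P.cons (P.lf 8289 0 0) P.nil)) (P.cons (P.cons (P.lf 10760 0 0) P.nil) P.nil)))))) 3319)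
 EL.nil))
noncomputable def S183_198_364_401_15 : EL := (EL.cons 4 (TM.mk (P.cons (P.lf 0 900898234 0) (P.cons (P.lf 175101453 0 0) (P.cons (P.lf 0 3688277 0) (P.cons (P.lf 0 558577 0) (P.cons (P.lf 0 4024 0) (P.cons (P.lf 839 0 0) P.nil)))))) 89)
 (EL.cons 8 (TM.mk (P.cons (P.lf 0 862117024 0) (P.cons (P.lf 51252455 0 0) (P.cons (P.lf 6766430 0 0) (P.cons (P.lf 0 27586 0) (P.cons (P.lf 0 13796 0) (P.cons (P.lf 0 231 0) P.nil)))))) 71)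
 EL.nil))
noncomputable def S183_198_364_401_16 : EL := (EL.cons 4 (TM.mk (P.cons (P.cons (P.lf 0 336422387 0) (P.cons (P.lf 24122100 0 0) (P.cons (P.lf 818433 0 0) (P.lf 0 38971 0)))) (P.cons (P.cons (P.lf 22188106 0 0) (P.cons (P.lf 0 1957919 0) (P.cons (P.lf 0 66430 0) (P.lf 3163 0 0)))) (P.cons (P.cons (P.lf 11553157 0 0) (P.cons (P.lf 0 437957 0) (P.cons (P.lf 0 14858 0) (P.lf 706 0 0)))) (P.cons (P.cons (P.lf 0 1047592 0) (P.cons (P.lf 15772 0 0) (P.cons (P.lf 534 0 0) P.nil))) (P.cons (P.cons (P.lf 0 63965 0) (P.cons (P.lf 3707 0 0) P.nil)) (P.cons (P.cons (P.lf 5299 0 0) P.nil) P.nil)))))) 1057)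
 (EL.cons 8 (TM.mk (P.cons (P.cons (P.lf 0 321940322 0) (P.cons (P.lf 23083710 0 0) (P.cons (P.lf 783202 0 0) (P.lf 0 37293 0)))) (P.cons (P.cons (P.lf 0 22201174 0) (P.cons (P.lf 1240671 0 0) (P.cons (P.lf 42093 0 0) (P.lf 0 2003 0)))) (P.cons (P.cons (P.lf 9323256 0 0) (P.cons (P.lf 0 342257 0) (P.cons (P.lf 0 11611 0) (P.lf 552 0 0)))) (P.cons (P.cons (P.lf 265887 0 0) (P.cons (P.lf 0 30460 0) (P.cons (P.lf 0 1033 0) P.nil))) (P.cons (P.cons (P.lf 0 64146 0) (P.cons (P.lf 858 0 0) P.nil)) (P.cons (P.cons (P.lf 0 2350 0) P.nil) P.nil)))))) 768)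
 EL.nil))
noncomputable def S183_198_364_401_17 : EL := (EL.cons 4 (TM.mk (P.cons (P.cons (P.lf 0 125630197 0) (P.cons (P.lf 18015829 0 0) (P.cons (P.lf 0 34628 0) (P.cons (P.lf 0 72934 0) (P.cons (P.lf 1342 0 0) (P.cons (P.lf 70 0 0) P.nil)))))) (P.cons (P.cons (P.lf 0 7846477 0) (P.cons (P.lf 851121 0 0) (P.cons (P.lf 8189 0 0) (P.cons (P.lf 0 2777 0) (P.cons (P.lf 42 0 0) P.nil))))) (P.cons (P.cons (P.lf 7071385 0 0) (P.cons (P.lf 0 757665 0) (P.cons (P.lf 0 7884 0) (P.cons (P.lf 2432 0 0) P.nil)))) (P.cons (P.cons (P.lf 132945 0 0) (P.cons (P.lf 0 22246 0) (P.cons (P.lf 445 0 0) P.nil))) (P.cons (P.cons (P.lf 0 142013 0) (P.cons (P.lf 10266 0 0) P.nil)) (P.cons (P.cons (P.lf 1365 0 0) P.nil) P.nil)))))) 3832)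
 (EL.cons 8 (TM.mk (P.cons (P.cons (P.lf 0 120222160 0) (P.cons (P.lf 17240297 0 0) (P.cons (P.lf 0 33137 0) (P.cons (P.lf 0 69794 0) (P.cons (P.lf 1285 0 0) (P.cons (P.lf 67 0 0) P.nil)))))) (P.cons (P.cons (P.lf 0 23728319 0) (P.cons (P.lf 3140435 0 0) (P.cons (P.lf 3366 0 0) (P.cons (P.lf 0 12074 0) (P.cons (P.lf 214 0 0) P.nil))))) (P.cons (P.cons (P.lf 4037227 0 0) (P.cons (P.lf 0 368980 0) (P.cons (P.lf 0 6960 0) (P.cons (P.lf 972 0 0) P.nil)))) (P.cons (P.cons (P.lf 736387 0 0) (P.cons (P.lf 0 79288 0) (P.cons (P.lf 0 533 0) P.nil))) (P.cons (P.cons (P.lf 0 56891 0) (P.cons (P.lf 1158 0 0) P.nil)) (P.cons (P.cons (P.lf 0 8130 0) P.nil) P.nil)))))) 2951)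
 EL.nil))
noncomputable def S183_198_364_401_18 : EL := (EL.cons 4 (TM.mk (P.cons (P.lf 426135812 0 0) (P.cons (P.lf 0 124237673 0) (P.cons (P.lf 8653707 0 0) (P.cons (P.lf 337561 0 0) (P.cons (P.lf 0 31084 0) (P.cons (P.lf 0 1487 0) P.nil)))))) 136)
 (EL.cons 8 (TM.mk (P.cons (P.lf 407791829 0 0) (P.cons (P.lf 0 63872894 0) (P.cons (P.lf 0 1935523 0) (P.cons (P.lf 409346 0 0) (P.cons (P.lf 14041 0 0) (P.cons (P.lf 0 800 0) P.nil)))))) 99)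
 EL.nil))
noncomputable def S183_198_364_401_19 : EL := (EL.cons 4 (TM.mk (P.cons (P.cons (P.lf 159131877 0 0) (P.cons (P.lf 0 11410046 0) (P.cons (P.lf 0 387128 0) (P.lf 18434 0 0)))) (P.cons (P.cons (P.lf 0 25959933 0) (P.cons (P.lf 2034965 0 0) (P.cons (P.lf 69044 0 0) (P.lf 0 3287 0)))) (P.cons (P.cons (P.lf 0 4870537 0) (P.cons (P.lf 147680 0 0) (P.cons (P.lf 5010 0 0) (P.lf 0 238 0)))) (P.cons (P.cons (P.lf 1062639 0 0) (P.cons (P.lf 0 30641 0) (P.cons (P.lf 0 1038 0) P.nil))) (P.cons (P.cons (P.lf 0 3244 0) (P.cons (P.lf 0 1576 0) P.nil)) (P.cons (P.cons (P.lf 0 7080 0) P.nil) P.nil)))))) 1262)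
 (EL.cons 8 (TM.mk (P.cons (P.cons (P.lf 152281684 0 0) (P.cons (P.lf 0 10918875 0) (P.cons (P.lf 0 370464 0) (P.lf 17640 0 0)))) (P.cons (P.cons (P.lf 0 4297550 0) (P.cons (P.lf 474260 0 0) (P.cons (P.lf 16091 0 0) (P.lf 0 766 0)))) (P.cons (P.cons (P.lf 0 5837932 0) (P.cons (P.lf 248132 0 0) (P.cons (P.lf 8418 0 0) (P.lf 0 400 0)))) (P.cons (P.cons (P.lf 282330 0 0) (P.cons (P.lf 0 301 0) (P.cons (P.lf 0 9 0) P.nil))) (P.cons (P.cons (P.lf 55423 0 0) (P.cons (P.lf 0 2306 0) P.nil)) (P.cons (P.cons (P.lf 0 1682 0) P.nil) P.nil)))))) 814)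
 EL.nil))
noncomputable def S183_198_364_401_20 : EL := (EL.cons 4 (TM.mk (P.cons (P.cons (P.lf 59424609 0 0) (P.cons (P.lf 0 8521706 0) (P.cons (P.lf 16379 0 0) (P.cons (P.lf 34498 0 0) (P.cons (P.lf 0 634 0) (P.cons (P.lf 0 32 0) P.nil)))))) (P.cons (P.cons (P.lf 0 2063498 0) (P.cons (P.lf 425561 0 0) (P.cons (P.lf 0 5465 0) (P.cons (P.lf 0 2038 0) (P.cons (P.lf 41 0 0) P.nil))))) (P.cons (P.cons (P.lf 0 3864507 0) (P.cons (P.lf 420306 0 0) (P.cons (P.lf 4061 0 0) (P.cons (P.lf 0 1370 0) P.nil)))) (P.cons (P.cons (P.lf 255217 0 0) (P.cons (P.lf 0 23654 0) (P.cons (P.lf 0 561 0) P.nil))) (P.cons (P.cons (P.lf 82627 0 0) (P.cons (P.lf 0 6887 0) P.nil)) (P.cons (P.cons (P.lf 0 7158 0) P.nil) P.nil)))))) 3322)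
 (EL.cons 8 (TM.mk (P.cons (P.cons (P.lf 56866542 0 0) (P.cons (P.lf 0 8154870 0) (P.cons (P.lf 15674 0 0) (P.cons (P.lf 33013 0 0) (P.cons (P.lf 0 607 0) (P.cons (P.lf 0 31 0) P.nil)))))) (P.cons (P.cons (P.lf 5697401 0 0) (P.cons (P.lf 0 692960 0) (P.cons (P.lf 0 3115 0) (P.cons (P.lf 2503 0 0) (P.cons (P.lf 0 42 0) P.nil))))) (P.cons (P.cons (P.lf 0 3152527 0) (P.cons (P.lf 340707 0 0) (P.cons (P.lf 3405 0 0) (P.cons (P.lf 0 1103 0) P.nil)))) (P.cons (P.cons (P.lf 0 189916 0) (P.cons (P.lf 24108 0 0) (P.cons (P.lf 0 62 0) P.nil))) (P.cons (P.cons (P.lf 66631 0 0) (P.cons (P.lf 0 4762 0) P.nil)) (P.cons (P.cons (P.lf 2106 0 0) P.nil) P.nil)))))) 2232)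
 EL.nil))
noncomputable def S183_198_364_401_21 : EL := (EL.cons 4 (TM.mk (P.cons (P.cons (P.lf 0 2420478000 0) (P.cons (P.lf 152990367 0 0) (P.cons (P.lf 5190777 0 0) (P.lf 0 247170 0)))) (P.cons (P.cons (P.lf 458672097 0 0) (P.cons (P.lf 2450070 0 0) (P.cons (P.lf 83118 0 0) (P.lf 0 3951 0)))) (P.cons (P.cons (P.lf 50025765 0 0) (P.cons (P.lf 0 2130303 0) (P.cons (P.lf 0 72270 0) (P.lf 3435 0 0)))) (P.cons (P.cons (P.lf 0 2454513 0) (P.cons (P.lf 0 108090 0) (P.cons (P.lf 0 3663 0) P.nil))) (P.cons (P.cons (P.lf 0 319185 0) (P.cons (P.lf 6651 0 0) P.nil)) (P.cons (P.cons (P.lf 1401 0 0) P.nil) P.nil)))))) 3540)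
 (EL.cons 8 (TM.mk (P.cons (P.cons (P.lf 899328024 0 0) (P.cons (P.lf 0 56843538 0) (P.cons (P.lf 0 1928637 0) (P.lf 91845 0 0)))) (P.cons (P.cons (P.lf 0 291751131 0) (P.cons (P.lf 6758640 0 0) (P.cons (P.lf 229308 0 0) (P.lf 0 10914 0)))) (P.cons (P.cons (P.lf 7932072 0 0) (P.cons (P.lf 691389 0 0) (P.cons (P.lf 23457 0 0) (P.lf 0 1116 0)))) (P.cons (P.cons (P.lf 2537451 0 0) (P.cons (P.lf 0 56682 0) (P.cons (P.lf 0 1923 0) P.nil))) (P.cons (P.cons (P.lf 0 28341 0) (P.cons (P.lf 0 5103 0) P.nil)) (P.cons (P.cons (P.lf 0 10542 0) P.nil) P.nil)))))) 2652)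
 (EL.cons 11 (TM.mk (P.cons (P.cons (P.lf 1815033990 0 0) (P.cons (P.lf 140299710 0 0) (P.cons (P.lf 0 8858610 0) (P.cons (P.lf 0 166113 0) (P.lf 5931 0 0))))) (P.cons (P.cons (P.lf 136969938 0 0) (P.cons (P.lf 10587594 0 0) (P.cons (P.lf 0 668505 0) (P.cons (P.lf 0 12534 0) (P.lf 447 0 0))))) (P.cons (P.cons (P.lf 0 2885085 0) (P.cons (P.lf 0 223011 0) (P.cons (P.lf 14079 0 0) (P.cons (P.lf 264 0 0) P.nil)))) (P.cons (P.cons (P.lf 0 436935 0) (P.cons (P.lf 0 33774 0) (P.cons (P.lf 2130 0 0) P.nil))) (P.cons (P.cons (P.lf 0 3150 0) (P.cons (P.lf 0 243 0) P.nil)) (P.cons (P.cons (P.lf 651 0 0) P.nil) P.nil)))))) 372)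
 EL.nil)))
noncomputable def S183_198_364_401_22 : EL := (EL.cons 4 (TM.mk (P.cons (P.cons (P.lf 0 903878994 0) (P.cons (P.lf 121940964 0 0) (P.cons (P.lf 40896 0 0) (P.cons (P.lf 0 474978 0) (P.cons (P.lf 8520 0 0) (P.cons (P.lf 447 0 0) P.nil)))))) (P.cons (P.cons (P.lf 55214739 0 0) (P.cons (P.lf 3306138 0 0) (P.cons (P.lf 0 417132 0) (P.cons (P.lf 0 41253 0) (P.cons (P.lf 1098 0 0) P.nil))))) (P.cons (P.cons (P.lf 52857051 0 0) (P.cons (P.lf 0 4193769 0) (P.cons (P.lf 0 91650 0) (P.cons (P.lf 10206 0 0) P.nil)))) (P.cons (P.cons (P.lf 0 237462 0) (P.cons (P.lf 0 305874 0) (P.cons (P.lf 948 0 0) P.nil))) (P.cons (P.cons (P.lf 0 631521 0) (P.cons (P.lf 30762 0 0) P.nil)) (P.cons (P.cons (P.lf 0 10791 0) P.nil) P.nil)))))) 13335)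
 (EL.cons 8 (TM.mk (P.cons (P.cons (P.lf 335836023 0 0) (P.cons (P.lf 0 45307137 0) (P.cons (P.lf 0 15195 0) (P.cons (P.lf 176481 0 0) (P.cons (P.lf 0 3165 0) (P.cons (P.lf 0 165 0) P.nil)))))) (P.cons (P.cons (P.lf 0 65823885 0) (P.cons (P.lf 4884153 0 0) (P.cons (P.lf 157032 0 0) (P.cons (P.lf 0 8478 0) (P.cons (P.lf 15 0 0) P.nil))))) (P.cons (P.cons (P.lf 0 15554100 0) (P.cons (P.lf 1546224 0 0) (P.cons (P.lf 13083 0 0) (P.cons (P.lf 0 5166 0) P.nil)))) (P.cons (P.cons (P.lf 2577510 0 0) (P.cons (P.lf 0 90621 0) (P.cons (P.lf 0 4332 0) P.nil))) (P.cons (P.cons (P.lf 153759 0 0) (P.cons (P.lf 0 20784 0) P.nil)) (P.cons (P.cons (P.lf 0 22977 0) P.nil) P.nil)))))) 6879)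
 (EL.cons 11 (TM.mk (P.cons (P.cons (P.lf 677788062 0 0) (P.cons (P.lf 3793467 0 0) (P.cons (P.lf 0 8713572 0) (P.cons (P.lf 126222 0 0) (P.cons (P.lf 20778 0 0) (P.cons (P.lf 0 390 0) P.nil)))))) (P.cons (P.cons (P.lf 138183486 0 0) (P.cons (P.lf 1512765 0 0) (P.cons (P.lf 0 1694229 0) (P.cons (P.lf 22866 0 0) (P.cons (P.lf 3951 0 0) P.nil))))) (P.cons (P.cons (P.lf 0 3643947 0) (P.cons (P.lf 0 607473 0) (P.cons (P.lf 0 18453 0) (P.cons (P.lf 1596 0 0) P.nil)))) (P.cons (P.cons (P.lf 0 1432254 0) (P.cons (P.lf 0 66129 0) (P.cons (P.lf 11946 0 0) P.nil))) (P.cons (P.cons (P.lf 0 17433 0) (P.cons (P.lf 2415 0 0) P.nil)) (P.cons (P.cons (P.lf 6363 0 0) P.nil) P.nil)))))) 3471)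
 EL.nil)))
noncomputable def S183_198_364_401_23 : EL := (EL.cons 4 (TM.mk (P.cons (P.cons (P.lf 1144915509 0 0) (P.cons (P.lf 0 72366300 0) (P.cons (P.lf 0 2455299 0) (P.lf 116913 0 0)))) (P.cons (P.cons (P.lf 0 328222191 0) (P.cons (P.lf 5873757 0 0) (P.cons (P.lf 199293 0 0) (P.lf 0 9492 0)))) (P.cons (P.cons (P.lf 0 5641320 0) (P.cons (P.lf 1313871 0 0) (P.cons (P.lf 44571 0 0) (P.lf 0 2118 0)))) (P.cons (P.cons (P.lf 4098279 0 0) (P.cons (P.lf 0 47316 0) (P.cons (P.lf 0 1605 0) P.nil))) (P.cons (P.cons (P.lf 94620 0 0) (P.cons (P.lf 0 11121 0) P.nil)) (P.cons (P.cons (P.lf 0 20376 0) P.nil) P.nil)))))) 3528)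
 (EL.cons 8 (TM.mk (P.cons (P.cons (P.lf 0 425393082 0) (P.cons (P.lf 26887683 0 0) (P.cons (P.lf 912267 0 0) (P.lf 0 43443 0)))) (P.cons (P.cons (P.lf 179342208 0 0) (P.cons (P.lf 0 5809905 0) (P.cons (P.lf 0 197121 0) (P.lf 9384 0 0)))) (P.cons (P.cons (P.lf 0 16025220 0) (P.cons (P.lf 0 88281 0) (P.cons (P.lf 0 2994 0) (P.lf 141 0 0)))) (P.cons (P.cons (P.lf 0 1226079 0) (P.cons (P.lf 68490 0 0) (P.cons (P.lf 2322 0 0) P.nil))) (P.cons (P.cons (P.lf 145491 0 0) (P.cons (P.lf 615 0 0) P.nil)) (P.cons (P.cons (P.lf 7188 0 0) P.nil) P.nil)))))) 2607)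
 (EL.cons 11 (TM.mk (P.cons (P.cons (P.lf 0 858533133 0) (P.cons (P.lf 0 66363465 0) (P.cons (P.lf 4190229 0 0) (P.cons (P.lf 78573 0 0) (P.lf 0 2805 0))))) (P.cons (P.cons (P.lf 18645171 0 0) (P.cons (P.lf 1441245 0 0) (P.cons (P.lf 0 91002 0) (P.cons (P.lf 0 1707 0) (P.lf 60 0 0))))) (P.cons (P.cons (P.lf 9957612 0 0) (P.cons (P.lf 769707 0 0) (P.cons (P.lf 0 48597 0) (P.cons (P.lf 0 909 0) P.nil)))) (P.cons (P.cons (P.lf 204411 0 0) (P.cons (P.lf 15798 0 0) (P.cons (P.lf 0 996 0) P.nil))) (P.cons (P.cons (P.lf 0 28506 0) (P.cons (P.lf 0 2202 0) P.nil)) (P.cons (P.cons (P.lf 0 1173 0) P.nil) P.nil)))))) 624)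
 EL.nil)))
noncomputable def S183_198_364_401_24 : EL := (EL.cons 4 (TM.mk (P.cons (P.cons (P.lf 427545747 0 0) (P.cons (P.lf 0 57679557 0) (P.cons (P.lf 0 19344 0) (P.cons (P.lf 224670 0 0) (P.cons (P.lf 0 4029 0) (P.cons (P.lf 0 210 0) P.nil)))))) (P.cons (P.cons (P.lf 0 67666821 0) (P.cons (P.lf 4041546 0 0) (P.cons (P.lf 199188 0 0) (P.cons (P.lf 0 2319 0) (P.cons (P.lf 0 126 0) P.nil))))) (P.cons (P.cons (P.lf 0 23607651 0) (P.cons (P.lf 2289981 0 0) (P.cons (P.lf 24228 0 0) (P.cons (P.lf 0 7323 0) P.nil)))) (P.cons (P.cons (P.lf 2633319 0 0) (P.cons (P.lf 0 46797 0) (P.cons (P.lf 0 5190 0) P.nil))) (P.cons (P.cons (P.lf 354882 0 0) (P.cons (P.lf 0 34197 0) P.nil)) (P.cons (P.cons (P.lf 0 25563 0) P.nil) P.nil)))))) 9669)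
 (EL.cons 8 (TM.mk (P.cons (P.cons (P.lf 0 158854521 0) (P.cons (P.lf 21430824 0 0) (P.cons (P.lf 7188 0 0) (P.cons (P.lf 0 83478 0) (P.cons (P.lf 1497 0 0) (P.cons (P.lf 78 0 0) P.nil)))))) (P.cons (P.cons (P.lf 46573233 0 0) (P.cons (P.lf 0 4392945 0) (P.cons (P.lf 0 74976 0) (P.cons (P.lf 12120 0 0) (P.cons (P.lf 0 153 0) P.nil))))) (P.cons (P.cons (P.lf 4756437 0 0) (P.cons (P.lf 0 564198 0) (P.cons (P.lf 1008 0 0) (P.cons (P.lf 2277 0 0) P.nil)))) (P.cons (P.cons (P.lf 0 2025426 0) (P.cons (P.lf 121194 0 0) (P.cons (P.lf 2850 0 0) P.nil))) (P.cons (P.cons (P.lf 27069 0 0) (P.cons (P.lf 7581 0 0) P.nil)) (P.cons (P.cons (P.lf 21672 0 0) P.nil) P.nil)))))) 4323)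
 (EL.cons 11 (TM.mk (P.cons (P.cons (P.lf 0 320601990 0) (P.cons (P.lf 0 1794357 0) (P.cons (P.lf 4121625 0 0) (P.cons (P.lf 0 59703 0) (P.cons (P.lf 0 9828 0) (P.cons (P.lf 183 0 0) P.nil)))))) (P.cons (P.cons (P.lf 0 34205853 0) (P.cons (P.lf 0 541176 0) (P.cons (P.lf 400845 0 0) (P.cons (P.lf 0 5013 0) (P.cons (P.lf 0 912 0) P.nil))))) (P.cons (P.cons (P.lf 8933310 0 0) (P.cons (P.lf 361680 0 0) (P.cons (P.lf 0 80175 0) (P.cons (P.lf 453 0 0) P.nil)))) (P.cons (P.cons (P.lf 668778 0 0) (P.cons (P.lf 5178 0 0) (P.cons (P.lf 0 8436 0) P.nil))) (P.cons (P.cons (P.lf 0 66597 0) (P.cons (P.lf 0 4992 0) P.nil)) (P.cons (P.cons (P.lf 0 5769 0) P.nil) P.nil)))))) 2943)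
 EL.nil)))
noncomputable def S183_198_364_401_25 : EL := (EL.cons 4 (TM.mk (P.cons (P.cons (P.lf 0 541558950 0) (P.cons (P.lf 34230138 0 0) (P.cons (P.lf 1161387 0 0) (P.lf 0 55299 0)))) (P.cons (P.cons (P.lf 207882645 0 0) (P.cons (P.lf 0 6104898 0) (P.cons (P.lf 0 207132 0) (P.lf 9864 0 0)))) (P.cons (P.cons (P.lf 0 10970586 0) (P.cons (P.lf 0 443040 0) (P.cons (P.lf 0 15027 0) (P.lf 711 0 0)))) (P.cons (P.cons (P.lf 0 2640276 0) (P.cons (P.lf 91923 0 0) (P.cons (P.lf 3117 0 0) P.nil))) (P.cons (P.cons (P.lf 142356 0 0) (P.cons (P.lf 4728 0 0) P.nil)) (P.cons (P.cons (P.lf 19848 0 0) P.nil) P.nil)))))) 3159)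
 (EL.cons 8 (TM.mk (P.cons (P.cons (P.lf 201216096 0 0) (P.cons (P.lf 0 12718200 0) (P.cons (P.lf 0 431514 0) (P.lf 20547 0 0)))) (P.cons (P.cons (P.lf 0 104385543 0) (P.cons (P.lf 3984129 0 0) (P.cons (P.lf 135174 0 0) (P.lf 0 6435 0)))) (P.cons (P.cons (P.lf 15285861 0 0) (P.cons (P.lf 0 191289 0) (P.cons (P.lf 0 6489 0) (P.lf 309 0 0)))) (P.cons (P.cons (P.lf 80304 0 0) (P.cons (P.lf 0 44442 0) (P.cons (P.lf 0 1506 0) P.nil))) (P.cons (P.cons (P.lf 0 148995 0) (P.cons (P.lf 2835 0 0) P.nil)) (P.cons (P.cons (P.lf 1818 0 0) P.nil) P.nil)))))) 2340)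
 (EL.cons 11 (TM.mk (P.cons (P.cons (P.lf 406096605 0 0) (P.cons (P.lf 31390725 0 0) (P.cons (P.lf 0 1982028 0) (P.cons (P.lf 0 37164 0) (P.lf 1326 0 0))))) (P.cons (P.cons (P.lf 0 48284508 0) (P.cons (P.lf 0 3732327 0) (P.cons (P.lf 235659 0 0) (P.cons (P.lf 4419 0 0) (P.lf 0 156 0))))) (P.cons (P.cons (P.lf 0 4939350 0) (P.cons (P.lf 0 381804 0) (P.cons (P.lf 24105 0 0) (P.cons (P.lf 450 0 0) P.nil)))) (P.cons (P.cons (P.lf 404955 0 0) (P.cons (P.lf 31302 0 0) (P.cons (P.lf 0 1974 0) P.nil))) (P.cons (P.cons (P.lf 36468 0 0) (P.cons (P.lf 2817 0 0) P.nil)) (P.cons (P.cons (P.lf 0 759 0) P.nil) P.nil)))))) 738)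
 EL.nil)))
noncomputable def S183_198_364_401_26 : EL := (EL.cons 4 (TM.mk (P.cons (P.cons (P.lf 0 202234332 0) (P.cons (P.lf 27283131 0 0) (P.cons (P.lf 9150 0 0) (P.cons (P.lf 0 106272 0) (P.cons (P.lf 1905 0 0) (P.cons (P.lf 99 0 0) P.nil)))))) (P.cons (P.cons (P.lf 51660681 0 0) (P.cons (P.lf 0 4563117 0) (P.cons (P.lf 0 95106 0) (P.cons (P.lf 11424 0 0) (P.cons (P.lf 0 123 0) P.nil))))) (P.cons (P.cons (P.lf 8597196 0 0) (P.cons (P.lf 0 970392 0) (P.cons (P.lf 0 2328 0) (P.cons (P.lf 3642 0 0) P.nil)))) (P.cons (P.cons (P.lf 0 2426532 0) (P.cons (P.lf 133881 0 0) (P.cons (P.lf 3819 0 0) P.nil))) (P.cons (P.cons (P.lf 0 75795 0) (P.cons (P.lf 16923 0 0) P.nil)) (P.cons (P.cons (P.lf 32406 0 0) P.nil) P.nil)))))) 8631)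
 (EL.cons 8 (TM.mk (P.cons (P.cons (P.lf 75140118 0 0) (P.cons (P.lf 0 10137039 0) (P.cons (P.lf 0 3399 0) (P.cons (P.lf 39486 0 0) (P.cons (P.lf 0 708 0) (P.cons (P.lf 0 36 0) P.nil)))))) (P.cons (P.cons (P.lf 0 29331942 0) (P.cons (P.lf 3063048 0 0) (P.cons (P.lf 35793 0 0) (P.cons (P.lf 0 9570 0) (P.cons (P.lf 141 0 0) P.nil))))) (P.cons (P.cons (P.lf 0 309978 0) (P.cons (P.lf 92055 0 0) (P.cons (P.lf 0 3915 0) (P.cons (P.lf 0 624 0) P.nil)))) (P.cons (P.cons (P.lf 1239387 0 0) (P.cons (P.lf 0 89325 0) (P.cons (P.lf 0 1395 0) P.nil))) (P.cons (P.cons (P.lf 0 100728 0) (P.cons (P.lf 1338 0 0) P.nil)) (P.cons (P.cons (P.lf 0 11757 0) P.nil) P.nil)))))) 4251)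
 (EL.cons 11 (TM.mk (P.cons (P.cons (P.lf 151648635 0 0) (P.cons (P.lf 848751 0 0) (P.cons (P.lf 0 1949577 0) (P.cons (P.lf 28239 0 0) (P.cons (P.lf 4647 0 0) (P.cons (P.lf 0 87 0) P.nil)))))) (P.cons (P.cons (P.lf 1442328 0 0) (P.cons (P.lf 173499 0 0) (P.cons (P.lf 0 141 0) (P.cons (P.lf 0 372 0) (P.cons (P.lf 0 18 0) P.nil))))) (P.cons (P.cons (P.lf 0 6203622 0) (P.cons (P.lf 0 198225 0) (P.cons (P.lf 61566 0 0) (P.cons (P.lf 0 519 0) P.nil)))) (P.cons (P.cons (P.lf 58611 0 0) (P.cons (P.lf 13533 0 0) (P.cons (P.lf 714 0 0) P.nil))) (P.cons (P.cons (P.lf 74892 0 0) (P.cons (P.lf 3072 0 0) P.nil)) (P.cons (P.cons (P.lf 360 0 0) P.nil) P.nil)))))) 2916)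
 EL.nil)))
noncomputable def S183_198_364_401_27 : EL := (EL.cons 13 (TM.mk (P.lf 0 4294967296 0) 0)
 EL.nil)
noncomputable def S183_198_364_401_28 : EL := (EL.cons 13 (TM.mk (P.cons (P.cons (P.lf 0 1603869451 0) (P.cons (P.lf 115000376 0 0) (P.cons (P.lf 3901824 0 0) (P.lf 0 185796 0)))) (P.cons (P.cons (P.lf 0 205952979 0) (P.cons (P.lf 13017600 0 0) (P.cons (P.lf 441668 0 0) (P.lf 0 21028 0)))) (P.cons (P.cons (P.lf 21615411 0 0) (P.cons (P.lf 0 28604 0) (P.cons (P.lf 0 968 0) (P.lf 44 0 0)))) (P.cons (P.cons (P.lf 1044523 0 0) (P.cons (P.lf 0 54960 0) (P.cons (P.lf 0 1864 0) P.nil))) (P.cons (P.cons (P.lf 0 55569 0) (P.cons (P.lf 0 1472 0) P.nil)) (P.cons (P.cons (P.lf 0 3783 0) P.nil) P.nil)))))) 891)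
 EL.nil)
noncomputable def S183_198_364_401_29 : EL := (EL.cons 13 (TM.mk (P.cons (P.cons (P.lf 0 598932899 0) (P.cons (P.lf 85889170 0 0) (P.cons (P.lf 0 165089 0) (P.cons (P.lf 0 347711 0) (P.cons (P.lf 6404 0 0) (P.cons (P.lf 337 0 0) P.nil)))))) (P.cons (P.cons (P.lf 0 153818024 0) (P.cons (P.lf 20751357 0 0) (P.cons (P.lf 6957 0 0) (P.cons (P.lf 0 80827 0) (P.cons (P.lf 1449 0 0) P.nil))))) (P.cons (P.cons (P.lf 6267792 0 0) (P.cons (P.lf 69549 0 0) (P.cons (P.lf 0 35561 0) (P.cons (P.lf 0 2687 0) P.nil)))) (P.cons (P.cons (P.lf 2853123 0 0) (P.cons (P.lf 0 230754 0) (P.cons (P.lf 0 4711 0) P.nil))) (P.cons (P.cons (P.lf 0 50112 0) (P.cons (P.lf 0 9438 0) P.nil)) (P.cons (P.cons (P.lf 0 18668 0) P.nil) P.nil)))))) 5203)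
 EL.nil)
noncomputable def S183_198_364_401_30 : EL := (EL.cons 13 (TM.mk (P.cons (P.lf 2031571728 0 0) (P.cons (P.lf 0 197431380 0) (P.cons (P.lf 0 5434720 0) (P.cons (P.lf 101656 0 0) (P.cons (P.lf 7148 0 0) (P.cons (P.lf 20 0 0) P.nil)))))) 56)
 EL.nil)
noncomputable def S183_198_364_401_31 : EL := (EL.cons 13 (TM.mk (P.cons (P.cons (P.lf 758649742 0 0) (P.cons (P.lf 0 54396575 0) (P.cons (P.lf 0 1845610 0) (P.lf 87883 0 0)))) (P.cons (P.cons (P.lf 23691470 0 0) (P.cons (P.lf 0 871137 0) (P.cons (P.lf 0 29554 0) (P.lf 1405 0 0)))) (P.cons (P.cons (P.lf 0 21721101 0) (P.cons (P.lf 757442 0 0) (P.cons (P.lf 25697 0 0) (P.lf 0 1222 0)))) (P.cons (P.cons (P.lf 276901 0 0) (P.cons (P.lf 38432 0 0) (P.cons (P.lf 1303 0 0) P.nil))) (P.cons (P.cons (P.lf 109194 0 0) (P.cons (P.lf 0 2365 0) P.nil)) (P.cons (P.cons (P.lf 395 0 0) P.nil) P.nil)))))) 1126)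
 EL.nil)
noncomputable def S183_198_364_401_32 : EL := (EL.cons 13 (TM.mk (P.cons (P.cons (P.lf 283302540 0 0) (P.cons (P.lf 0 40626621 0) (P.cons (P.lf 78089 0 0) (P.cons (P.lf 164471 0 0) (P.cons (P.lf 0 3029 0) (P.cons (P.lf 0 159 0) P.nil)))))) (P.cons (P.cons (P.lf 45226002 0 0) (P.cons (P.lf 0 5867484 0) (P.cons (P.lf 0 10879 0) (P.cons (P.lf 22248 0 0) (P.cons (P.lf 0 391 0) P.nil))))) (P.cons (P.cons (P.lf 0 10793331 0) (P.cons (P.lf 1029683 0 0) (P.cons (P.lf 16931 0 0) (P.cons (P.lf 0 2884 0) P.nil)))) (P.cons (P.cons (P.lf 0 1241904 0) (P.cons (P.lf 136571 0 0) (P.cons (P.lf 606 0 0) P.nil))) (P.cons (P.cons (P.lf 167424 0 0) (P.cons (P.lf 0 6689 0) P.nil)) (P.cons (P.cons (P.lf 10247 0 0) P.nil) P.nil)))))) 5153)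
 EL.nil)
noncomputable def S183_198_364_401_33 : EL := (EL.cons 14 (TM.mk (P.lf 8589934592 0 0) 0)
 EL.nil)
noncomputable def S183_198_364_401_34 : EL := (EL.cons 14 (TM.mk (P.cons (P.cons (P.lf 3207738902 0 0) (P.cons (P.lf 0 230000752 0) (P.cons (P.lf 0 7803648 0) (P.lf 371592 0 0)))) (P.cons (P.cons (P.lf 411905958 0 0) (P.cons (P.lf 0 26035200 0) (P.cons (P.lf 0 883336 0) (P.lf 42056 0 0)))) (P.cons (P.cons (P.lf 0 43230822 0) (P.cons (P.lf 57208 0 0) (P.cons (P.lf 1936 0 0) (P.lf 0 88 0)))) (P.cons (P.cons (P.lf 0 2089046 0) (P.cons (P.lf 109920 0 0) (P.cons (P.lf 3728 0 0) P.nil))) (P.cons (P.cons (P.lf 111138 0 0) (P.cons (P.lf 2944 0 0) P.nil)) (P.cons (P.cons (P.lf 7566 0 0) P.nil) P.nil)))))) 1782)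
 EL.nil)
noncomputable def S183_198_364_401_35 : EL := (EL.cons 14 (TM.mk (P.cons (P.cons (P.lf 1197865798 0 0) (P.cons (P.lf 0 171778340 0) (P.cons (P.lf 330178 0 0) (P.cons (P.lf 695422 0 0) (P.cons (P.lf 0 12808 0) (P.cons (P.lf 0 674 0) P.nil)))))) (P.cons (P.cons (P.lf 307636048 0 0) (P.cons (P.lf 0 41502714 0) (P.cons (P.lf 0 13914 0) (P.cons (P.lf 161654 0 0) (P.cons (P.lf 0 2898 0) P.nil))))) (P.cons (P.cons (P.lf 0 12535584 0) (P.cons (P.lf 0 139098 0) (P.cons (P.lf 71122 0 0) (P.cons (P.lf 5374 0 0) P.nil)))) (P.cons (P.cons (P.lf 0 5706246 0) (P.cons (P.lf 461508 0 0) (P.cons (P.lf 9422 0 0) P.nil))) (P.cons (P.cons (P.lf 100224 0 0) (P.cons (P.lf 18876 0 0) P.nil)) (P.cons (P.cons (P.lf 37336 0 0) P.nil) P.nil)))))) 10406)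
 EL.nil)
noncomputable def S183_198_364_401_36 : EL := (EL.cons 14 (TM.mk (P.cons (P.lf 0 4063143456 0) (P.cons (P.lf 394862760 0 0) (P.cons (P.lf 10869440 0 0) (P.cons (P.lf 0 203312 0) (P.cons (P.lf 0 14296 0) (P.cons (P.lf 0 40 0) P.nil)))))) 112)
 EL.nil)
noncomputable def S183_198_364_401_37 : EL := (EL.cons 14 (TM.mk (P.cons (P.cons (P.lf 0 1517299484 0) (P.cons (P.lf 108793150 0 0) (P.cons (P.lf 3691220 0 0) (P.lf 0 175766 0)))) (P.cons (P.cons (P.lf 0 47382940 0) (P.cons (P.lf 1742274 0 0) (P.cons (P.lf 59108 0 0) (P.lf 0 2810 0)))) (P.cons (P.cons (P.lf 43442202 0 0) (P.cons (P.lf 0 1514884 0) (P.cons (P.lf 0 51394 0) (P.lf 2444 0 0)))) (P.cons (P.cons (P.lf 0 553802 0) (P.cons (P.lf 0 76864 0) (P.cons (P.lf 0 2606 0) P.nil))) (P.cons (P.cons (P.lf 0 218388 0) (P.cons (P.lf 4730 0 0) P.nil)) (P.cons (P.cons (P.lf 0 790 0) P.nil) P.nil)))))) 2252)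
 EL.nil)
noncomputable def S183_198_364_401_38 : EL := (EL.cons 14 (TM.mk (P.cons (P.cons (P.lf 0 566605080 0) (P.cons (P.lf 81253242 0 0) (P.cons (P.lf 0 156178 0) (P.cons (P.lf 0 328942 0) (P.cons (P.lf 6058 0 0) (P.cons (P.lf 318 0 0) P.nil)))))) (P.cons (P.cons (P.lf 0 90452004 0) (P.cons (P.lf 11734968 0 0) (P.cons (P.lf 21758 0 0) (P.cons (P.lf 0 44496 0) (P.cons (P.lf 782 0 0) P.nil))))) (P.cons (P.cons (P.lf 21586662 0 0) (P.cons (P.lf 0 2059366 0) (P.cons (P.lf 0 33862 0) (P.cons (P.lf 5768 0 0) P.nil)))) (P.cons (P.cons (P.lf 2483808 0 0) (P.cons (P.lf 0 273142 0) (P.cons (P.lf 0 1212 0) P.nil))) (P.cons (P.cons (P.lf 0 334848 0) (P.cons (P.lf 13378 0 0) P.nil)) (P.cons (P.cons (P.lf 0 20494 0) P.nil) P.nil)))))) 10306)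
 EL.nil)
noncomputable def S183_198_364_401_39 : EL := (EL.cons 14 (TM.mk (P.cons (P.lf 1921916234 0 0) (P.cons (P.lf 0 373549768 0) (P.cons (P.lf 7868326 0 0) (P.cons (P.lf 1191632 0 0) (P.cons (P.lf 8586 0 0) (P.cons (P.lf 0 1790 0) P.nil)))))) 176)
 EL.nil)
noncomputable def S183_198_364_401_40 : EL := (EL.cons 14 (TM.mk (P.cons (P.cons (P.lf 717701094 0 0) (P.cons (P.lf 0 51460482 0) (P.cons (P.lf 0 1745992 0) (P.lf 83140 0 0)))) (P.cons (P.cons (P.lf 0 47334628 0) (P.cons (P.lf 4176894 0 0) (P.cons (P.lf 141718 0 0) (P.lf 0 6748 0)))) (P.cons (P.cons (P.lf 0 24646736 0) (P.cons (P.lf 934310 0 0) (P.cons (P.lf 31698 0 0) (P.lf 0 1508 0)))) (P.cons (P.cons (P.lf 2234864 0 0) (P.cons (P.lf 0 33648 0) (P.cons (P.lf 0 1140 0) P.nil))) (P.cons (P.cons (P.lf 136460 0 0) (P.cons (P.lf 0 7910 0) P.nil)) (P.cons (P.cons (P.lf 0 11306 0) P.nil) P.nil)))))) 2216)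
 EL.nil)
noncomputable def S183_198_364_401_41 : EL := (EL.cons 14 (TM.mk (P.cons (P.cons (P.lf 268011088 0 0) (P.cons (P.lf 0 38433770 0) (P.cons (P.lf 73874 0 0) (P.cons (P.lf 155594 0 0) (P.cons (P.lf 0 2864 0) (P.cons (P.lf 0 150 0) P.nil)))))) (P.cons (P.cons (P.lf 16739152 0 0) (P.cons (P.lf 0 1815726 0) (P.cons (P.lf 0 17470 0) (P.cons (P.lf 5926 0 0) (P.cons (P.lf 0 90 0) P.nil))))) (P.cons (P.cons (P.lf 0 15085622 0) (P.cons (P.lf 1616354 0 0) (P.cons (P.lf 16820 0 0) (P.cons (P.lf 0 5190 0) P.nil)))) (P.cons (P.cons (P.lf 0 283618 0) (P.cons (P.lf 47460 0 0) (P.cons (P.lf 0 950 0) P.nil))) (P.cons (P.cons (P.lf 302962 0 0) (P.cons (P.lf 0 21902 0) P.nil)) (P.cons (P.cons (P.lf 0 2912 0) P.nil) P.nil)))))) 8128)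
 EL.nil)
noncomputable def S183_198_364_401_42 : EL := (EL.cons 14 (TM.mk (P.cons (P.lf 0 909089734 0) (P.cons (P.lf 265040370 0 0) (P.cons (P.lf 0 18461242 0) (P.cons (P.lf 0 720132 0) (P.cons (P.lf 66314 0 0) (P.cons (P.lf 3174 0 0) P.nil)))))) 276)
 EL.nil)
noncomputable def S183_198_364_401_43 : EL := (EL.cons 14 (TM.mk (P.cons (P.cons (P.lf 0 339481338 0) (P.cons (P.lf 24341432 0 0) (P.cons (P.lf 825874 0 0) (P.lf 0 39326 0)))) (P.cons (P.cons (P.lf 55381192 0 0) (P.cons (P.lf 0 4341260 0) (P.cons (P.lf 0 147294 0) (P.lf 7014 0 0)))) (P.cons (P.cons (P.lf 10390480 0 0) (P.cons (P.lf 0 315052 0) (P.cons (P.lf 0 10688 0) (P.lf 508 0 0)))) (P.cons (P.cons (P.lf 0 2266964 0) (P.cons (P.lf 65368 0 0) (P.cons (P.lf 2216 0 0) P.nil))) (P.cons (P.cons (P.lf 6922 0 0) (P.cons (P.lf 3364 0 0) P.nil)) (P.cons (P.cons (P.lf 15106 0 0) P.nil) P.nil)))))) 2652)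
 EL.nil)
noncomputable def S183_198_364_401_44 : EL := (EL.cons 14 (TM.mk (P.cons (P.cons (P.lf 0 126772500 0) (P.cons (P.lf 18179640 0 0) (P.cons (P.lf 0 34942 0) (P.cons (P.lf 0 73596 0) (P.cons (P.lf 1354 0 0) (P.cons (P.lf 70 0 0) P.nil)))))) (P.cons (P.cons (P.lf 4402130 0 0) (P.cons (P.lf 0 907864 0) (P.cons (P.lf 11660 0 0) (P.cons (P.lf 4348 0 0) (P.cons (P.lf 0 88 0) P.nil))))) (P.cons (P.cons (P.lf 8244282 0 0) (P.cons (P.lf 0 896654 0) (P.cons (P.lf 0 8664 0) (P.cons (P.lf 2924 0 0) P.nil)))) (P.cons (P.cons (P.lf 0 544464 0) (P.cons (P.lf 50462 0 0) (P.cons (P.lf 1198 0 0) P.nil))) (P.cons (P.cons (P.lf 0 176272 0) (P.cons (P.lf 14694 0 0) P.nil)) (P.cons (P.cons (P.lf 15272 0 0) P.nil) P.nil)))))) 7042)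
 EL.nil)
noncomputable def S183_198_364_401_45 : EL := (EL.cons 14 (TM.mk (P.cons (P.cons (P.lf 447318972 0 0) (P.cons (P.lf 0 96220766 0) (P.cons (P.lf 3634550 0 0) (P.cons (P.lf 458722 0 0) (P.cons (P.lf 0 31134 0) (P.cons (P.lf 0 526 0) P.nil)))))) (P.cons (P.cons (P.lf 172320774 0 0) (P.cons (P.lf 0 35603250 0) (P.cons (P.lf 1239882 0 0) (P.cons (P.lf 167626 0 0) (P.cons (P.lf 0 10790 0) P.nil))))) (P.cons (P.cons (P.lf 4042116 0 0) (P.cons (P.lf 0 1766360 0) (P.cons (P.lf 132622 0 0) (P.cons (P.lf 9704 0 0) P.nil)))) (P.cons (P.cons (P.lf 0 4571558 0) (P.cons (P.lf 624478 0 0) (P.cons (P.lf 0 428 0) P.nil))) (P.cons (P.cons (P.lf 0 232428 0) (P.cons (P.lf 56624 0 0) P.nil)) (P.cons (P.cons (P.lf 55550 0 0) P.nil) P.nil)))))) 24404)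
 EL.nil)
noncomputable def S183_198_364_401_46 : EL := (EL.cons 15 (TM.mk (P.lf 4294967296 0 0) 0)
 EL.nil)
noncomputable def S183_198_364_401_47 : EL := (EL.cons 15 (TM.mk (P.cons (P.cons (P.lf 1603869451 0 0) (P.cons (P.lf 0 115000376 0) (P.cons (P.lf 0 3901824 0) (P.lf 185796 0 0)))) (P.cons (P.cons (P.lf 205952979 0 0) (P.cons (P.lf 0 13017600 0) (P.cons (P.lf 0 441668 0) (P.lf 21028 0 0)))) (P.cons (P.cons (P.lf 0 21615411 0) (P.cons (P.lf 28604 0 0) (P.cons (P.lf 968 0 0) (P.lf 0 44 0)))) (P.cons (P.cons (P.lf 0 1044523 0) (P.cons (P.lf 54960 0 0) (P.cons (P.lf 1864 0 0) P.nil))) (P.cons (P.cons (P.lf 55569 0 0) (P.cons (P.lf 1472 0 0) P.nil)) (P.cons (P.cons (P.lf 3783 0 0) P.nil) P.nil)))))) 891)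
 EL.nil)
noncomputable def S183_198_364_401_48 : EL := (EL.cons 15 (TM.mk (P.cons (P.cons (P.lf 598932899 0 0) (P.cons (P.lf 0 85889170 0) (P.cons (P.lf 165089 0 0) (P.cons (P.lf 347711 0 0) (P.cons (P.lf 0 6404 0) (P.cons (P.lf 0 337 0) P.nil)))))) (P.cons (P.cons (P.lf 153818024 0 0) (P.cons (P.lf 0 20751357 0) (P.cons (P.lf 0 6957 0) (P.cons (P.lf 80827 0 0) (P.cons (P.lf 0 1449 0) P.nil))))) (P.cons (P.cons (P.lf 0 6267792 0) (P.cons (P.lf 0 69549 0) (P.cons (P.lf 35561 0 0) (P.cons (P.lf 2687 0 0) P.nil)))) (P.cons (P.cons (P.lf 0 2853123 0) (P.cons (P.lf 230754 0 0) (P.cons (P.lf 4711 0 0) P.nil))) (P.cons (P.cons (P.lf 50112 0 0) (P.cons (P.lf 9438 0 0) P.nil)) (P.cons (P.cons (P.lf 18668 0 0) P.nil) P.nil)))))) 5203)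
 EL.nil)
noncomputable def S183_198_364_401 : SL := (SL.cons S183_198_364_401_0 (SL.cons S183_198_364_401_1 (SL.cons S183_198_364_401_2 (SL.cons S183_198_364_401_3 (SL.cons S183_198_364_401_4 (SL.cons S183_198_364_401_5 (SL.cons S183_198_364_401_6 (SL.cons S183_198_364_401_7 (SL.cons S183_198_364_401_8 (SL.cons S183_198_364_401_9 (SL.cons S183_198_364_401_10 (SL.cons S183_198_364_401_11 (SL.cons S183_198_364_401_12 (SL.cons S183_198_364_401_13 (SL.cons S183_198_364_401_14 (SL.cons S183_198_364_401_15 (SL.cons S183_198_364_401_16 (SL.cons S183_198_364_401_17 (SL.cons S183_198_364_401_18 (SL.cons S183_198_364_401_19 (SL.cons S183_198_364_401_20 (SL.cons S183_198_364_401_21 (SL.cons S183_198_364_401_22 (SL.cons S183_198_364_401_23 (SL.cons S183_198_364_401_24 (SL.cons S183_198_364_401_25 (SL.cons S183_198_364_401_26 (SL.cons S183_198_364_401_27 (SL.cons S183_198_364_401_28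 (SL.cons S183_198_364_401_29 (SL.cons S183_198_364_401_30 (SL.cons S183_198_364_401_31 (SL.cons S183_198_364_401_32 (SL.cons S183_198_364_401_33 (SL.cons S183_198_364_401_34 (SL.cons S183_198_364_401_35 (SL.cons S183_198_364_401_36 (SL.cons S183_198_364_401_37 (SL.cons S183_198_364_401_38 (SL.cons S183_198_364_401_39 (SL.cons S183_198_364_401_40 (SL.cons S183_198_364_401_41 (SL.cons S183_198_364_401_42 (SL.cons S183_198_364_401_43 (SL.cons S183_198_364_401_44 (SL.cons S183_198_364_401_45 (SL.cons S183_198_364_401_46 (SL.cons S183_198_364_401_47 (SL.cons S183_198_364_401_48 SL.nil)))))))))))))))))))))))))))))))))))))))))))))))))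
noncomputable def S183_198_364_438_0 : EL := (EL.cons 0 (TM.mk (P.cons (P.lf 6766532673 0 0) (P.cons (P.lf 328315225 0 0) (P.cons (P.lf 0 6915520 0) (P.cons (P.lf 0 1047332 0) (P.cons (P.lf 0 7546 0) (P.cons (P.lf 1573 0 0) P.nil)))))) 161)
 (EL.cons 1 (TM.mk (P.cons (P.lf 0 1616469420 0) (P.cons (P.lf 96098353 0 0) (P.cons (P.lf 12687056 0 0) (P.cons (P.lf 0 51723 0) (P.cons (P.lf 0 25867 0) (P.cons (P.lf 0 433 0) P.nil)))))) 140)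
 (EL.cons 5 (TM.mk (P.cons (P.lf 4895566122 0 0) (P.cons (P.lf 0 116734300 0) (P.cons (P.lf 2458850 0 0) (P.cons (P.lf 372384 0 0) (P.cons (P.lf 2686 0 0) (P.cons (P.lf 0 556 0) P.nil)))))) 123)
 (EL.cons 9 (TM.mk (P.lf 6442450944 0 0) 2)
 EL.nil))))
noncomputable def S183_198_364_438_1 : EL := (EL.cons 0 (TM.mk (P.cons (P.cons (P.lf 333148226 0 0) (P.cons (P.lf 0 96715332 0) (P.cons (P.lf 0 5291879 0) (P.lf 587992 0 0)))) (P.cons (P.cons (P.lf 1020873801 0 0) (P.cons (P.lf 0 85705861 0) (P.cons (P.lf 0 4689476 0) (P.lf 521048 0 0)))) (P.cons (P.cons (P.lf 0 13648386 0) (P.cons (P.lf 0 6863580 0) (P.cons (P.lf 0 375544 0) (P.lf 41719 0 0)))) (P.cons (P.cons (P.lf 0 11471098 0) (P.cons (P.lf 481548 0 0) (P.cons (P.lf 26346 0 0) P.nil))) (P.cons (P.cons (P.lf 0 156243 0) (P.cons (P.lf 65282 0 0) P.nil)) (P.cons (P.cons (P.lf 55543 0 0) P.nil) P.nil)))))) 22140)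
 (EL.cons 1 (TM.mk (P.cons (P.cons (P.lf 0 1146305622 0) (P.cons (P.lf 176454852 0 0) (P.cons (P.lf 9654892 0 0) (P.lf 0 1072762 0)))) (P.cons (P.cons (P.lf 0 42248842 0) (P.cons (P.lf 23944178 0 0) (P.cons (P.lf 1310120 0 0) (P.lf 0 145556 0)))) (P.cons (P.cons (P.lf 61054703 0 0) (P.cons (P.lf 0 3234894 0) (P.cons (P.lf 0 176994 0) (P.lf 19662 0 0)))) (P.cons (P.cons (P.lf 965705 0 0) (P.cons (P.lf 0 440066 0) (P.cons (P.lf 0 24073 0) P.nil))) (P.cons (P.cons (P.lf 0 472625 0) (P.cons (P.lf 7320 0 0) P.nil)) (P.cons (P.cons (P.lf 0 14230 0) P.nil) P.nil)))))) 12971)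
 (EL.cons 5 (TM.mk (P.cons (P.cons (P.lf 2406307484 0 0) (P.cons (P.lf 0 381250850 0) (P.cons (P.lf 0 20860510 0) (P.lf 2317834 0 0)))) (P.cons (P.cons (P.lf 0 35702295 0) (P.cons (P.lf 0 16575500 0) (P.cons (P.lf 0 906948 0) (P.lf 100778 0 0)))) (P.cons (P.cons (P.lf 0 31843244 0) (P.cons (P.lf 2543780 0 0) (P.cons (P.lf 139178 0 0) (P.lf 0 15456 0)))) (P.cons (P.cons (P.lf 2399365 0 0) (P.cons (P.lf 27432 0 0) (P.cons (P.lf 1504 0 0) P.nil))) (P.cons (P.cons (P.lf 152613 0 0) (P.cons (P.lf 0 17878 0) P.nil)) (P.cons (P.cons (P.lf 0 13469 0) P.nil) P.nil)))))) 12049)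
 (EL.cons 9 (TM.mk (P.cons (P.cons (P.lf 2227729570 0 0) (P.cons (P.lf 0 366739872 0) (P.cons (P.lf 0 20066526 0) (P.lf 2229612 0 0)))) (P.cons (P.cons (P.lf 288772102 0 0) (P.cons (P.lf 0 41513550 0) (P.cons (P.lf 0 2271450 0) (P.lf 252378 0 0)))) (P.cons (P.cons (P.lf 0 32378818 0) (P.cons (P.lf 91230 0 0) (P.cons (P.lf 4986 0 0) (P.lf 0 552 0)))) (P.cons (P.cons (P.lf 0 1481674 0) (P.cons (P.lf 175272 0 0) (P.cons (P.lf 9588 0 0) P.nil))) (P.cons (P.cons (P.lf 85639 0 0) (P.cons (P.lf 4698 0 0) P.nil)) (P.cons (P.cons (P.lf 5524 0 0) P.nil) P.nil)))))) 2795)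
 (EL.cons 2 (TM.mk (P.cons (P.cons (P.lf 863091191 0 0) (P.cons (P.lf 108297202 0 0) (P.cons (P.lf 0 16534178 0) (P.cons (P.lf 0 505116 0) (P.lf 42091 0 0))))) (P.cons (P.cons (P.lf 0 18744162 0) (P.cons (P.lf 0 2351941 0) (P.cons (P.lf 359080 0 0) (P.cons (P.lf 10968 0 0) (P.lf 0 914 0))))) (P.cons (P.cons (P.lf 0 10010477 0) (P.cons (P.lf 0 1256070 0) (P.cons (P.lf 191767 0 0) (P.cons (P.lf 5855 0 0) P.nil)))) (P.cons (P.cons (P.lf 0 205495 0) (P.cons (P.lf 0 25782 0) (P.cons (P.lf 3934 0 0) P.nil))) (P.cons (P.cons (P.lf 28659 0 0) (P.cons (P.lf 3594 0 0) P.nil)) (P.cons (P.cons (P.lf 1178 0 0) P.nil) P.nil)))))) 1961)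
 (EL.cons 6 (TM.mk (P.cons (P.cons (P.lf 825937470 0 0) (P.cons (P.lf 103635303 0 0) (P.cons (P.lf 0 15822429 0) (P.cons (P.lf 0 483372 0) (P.lf 40278 0 0))))) (P.cons (P.cons (P.lf 93492963 0 0) (P.cons (P.lf 11731119 0 0) (P.cons (P.lf 0 1791036 0) (P.cons (P.lf 0 54714 0) (P.lf 4557 0 0))))) (P.cons (P.cons (P.lf 0 205461 0) (P.cons (P.lf 0 25779 0) (P.cons (P.lf 3933 0 0) (P.cons (P.lf 117 0 0) P.nil)))) (P.cons (P.cons (P.lf 0 394731 0) (P.cons (P.lf 0 49527 0) (P.cons (P.lf 7560 0 0) P.nil))) (P.cons (P.cons (P.lf 0 10590 0) (P.cons (P.lf 0 1326 0) P.nil)) (P.cons (P.cons (P.lf 705 0 0) P.nil) P.nil)))))) 1155)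
 EL.nil))))))
noncomputable def S183_198_364_438_2 : EL := (EL.cons 0 (TM.mk (P.cons (P.cons (P.lf 0 578677103 0) (P.cons (P.lf 161572423 0 0) (P.cons (P.lf 0 2075313 0) (P.cons (P.lf 0 2176832 0) (P.cons (P.lf 100037 0 0) (P.cons (P.lf 7259 0 0) P.nil)))))) (P.cons (P.cons (P.lf 486868405 0 0) (P.cons (P.lf 0 110853305 0) (P.cons (P.lf 0 1089355 0) (P.cons (P.lf 1218485 0 0) (P.cons (P.lf 0 45618 0) P.nil))))) (P.cons (P.cons (P.lf 79303859 0 0) (P.cons (P.lf 0 20214002 0) (P.cons (P.lf 288698 0 0) (P.cons (P.lf 275511 0 0) P.nil)))) (P.cons (P.cons (P.lf 0 14625419 0) (P.cons (P.lf 1292520 0 0) (P.cons (P.lf 114213 0 0) P.nil))) (P.cons (P.cons (P.lf 0 1330173 0) (P.cons (P.lf 339919 0 0) P.nil)) (P.cons (P.cons (P.lf 135728 0 0) P.nil) P.nil)))))) 160648)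
 (EL.cons 1 (TM.mk (P.cons (P.cons (P.lf 0 599478606 0) (P.cons (P.lf 188902527 0 0) (P.cons (P.lf 0 4515392 0) (P.cons (P.lf 0 2773646 0) (P.cons (P.lf 136113 0 0) (P.cons (P.lf 9880 0 0) P.nil)))))) (P.cons (P.cons (P.lf 0 93362663 0) (P.cons (P.lf 40291485 0 0) (P.cons (P.lf 0 1921070 0) (P.cons (P.lf 0 696415 0) (P.cons (P.lf 37796 0 0) P.nil))))) (P.cons (P.cons (P.lf 43092260 0 0) (P.cons (P.lf 0 6878331 0) (P.cons (P.lf 0 358732 0) (P.cons (P.lf 43740 0 0) P.nil)))) (P.cons (P.cons (P.lf 5861584 0 0) (P.cons (P.lf 0 1578212 0) (P.cons (P.lf 0 2560 0) P.nil))) (P.cons (P.cons (P.lf 0 760770 0) (P.cons (P.lf 25562 0 0) P.nil)) (P.cons (P.cons (P.lf 0 79277 0) P.nil) P.nil)))))) 90206)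
 (EL.cons 5 (TM.mk (P.cons (P.cons (P.lf 1078786507 0 0) (P.cons (P.lf 0 344894550 0) (P.cons (P.lf 8670395 0 0) (P.cons (P.lf 5110733 0 0) (P.cons (P.lf 0 252415 0) (P.cons (P.lf 0 18318 0) P.nil)))))) (P.cons (P.cons (P.lf 53227563 0 0) (P.cons (P.lf 0 30383956 0) (P.cons (P.lf 1924761 0 0) (P.cons (P.lf 577284 0 0) (P.cons (P.lf 0 32883 0) P.nil))))) (P.cons (P.cons (P.lf 0 38905513 0) (P.cons (P.lf 7218815 0 0) (P.cons (P.lf 190481 0 0) (P.cons (P.lf 0 66257 0) P.nil)))) (P.cons (P.cons (P.lf 749145 0 0) (P.cons (P.lf 351199 0 0) (P.cons (P.lf 0 20185 0) P.nil))) (P.cons (P.cons (P.lf 573964 0 0) (P.cons (P.lf 0 89811 0) P.nil)) (P.cons (P.cons (P.lf 0 18339 0) P.nil) P.nil)))))) 92221)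
 (EL.cons 9 (TM.mk (P.cons (P.cons (P.lf 770324691 0 0) (P.cons (P.lf 0 253629328 0) (P.cons (P.lf 6999283 0 0) (P.cons (P.lf 3826545 0 0) (P.cons (P.lf 0 191341 0) (P.cons (P.lf 0 13888 0) P.nil)))))) (P.cons (P.cons (P.lf 199708513 0 0) (P.cons (P.lf 0 61586872 0) (P.cons (P.lf 1356577 0 0) (P.cons (P.lf 891630 0 0) (P.cons (P.lf 0 43317 0) P.nil))))) (P.cons (P.cons (P.lf 0 9448759 0) (P.cons (P.lf 27903 0 0) (P.cons (P.lf 258639 0 0) (P.cons (P.lf 27969 0 0) P.nil)))) (P.cons (P.cons (P.lf 0 3927346 0) (P.cons (P.lf 715365 0 0) (P.cons (P.lf 18009 0 0) P.nil))) (P.cons (P.cons (P.lf 89130 0 0) (P.cons (P.lf 27388 0 0) P.nil)) (P.cons (P.cons (P.lf 26391 0 0) P.nil) P.nil)))))) 29269)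
 (EL.cons 2 (TM.mk (P.cons (P.cons (P.lf 596895120 0 0) (P.cons (P.lf 0 23367830 0) (P.cons (P.lf 0 29141026 0) (P.cons (P.lf 1455868 0 0) (P.cons (P.lf 264571 0 0) (P.cons (P.lf 0 13089 0) P.nil)))))) (P.cons (P.cons (P.lf 64410181 0 0) (P.cons (P.lf 0 907115 0) (P.cons (P.lf 0 2853652 0) (P.cons (P.lf 127440 0 0) (P.cons (P.lf 24676 0 0) P.nil))))) (P.cons (P.cons (P.lf 0 17278920 0) (P.cons (P.lf 0 762373 0) (P.cons (P.lf 584302 0 0) (P.cons (P.lf 0 15710 0) P.nil)))) (P.cons (P.cons (P.lf 0 1248108 0) (P.cons (P.lf 42226 0 0) (P.cons (P.lf 59731 0 0) P.nil))) (P.cons (P.cons (P.lf 133588 0 0) (P.cons (P.lf 16098 0 0) P.nil)) (P.cons (P.cons (P.lf 11036 0 0) P.nil) P.nil)))))) 26155)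
 (EL.cons 6 (TM.mk (P.cons (P.cons (P.lf 571200408 0 0) (P.cons (P.lf 0 22361910 0) (P.cons (P.lf 0 27886584 0) (P.cons (P.lf 1393194 0 0) (P.cons (P.lf 253182 0 0) (P.cons (P.lf 0 12522 0) P.nil)))))) (P.cons (P.cons (P.lf 138700236 0 0) (P.cons (P.lf 0 3884988 0) (P.cons (P.lf 0 6493092 0) (P.cons (P.lf 309912 0 0) (P.cons (P.lf 57774 0 0) P.nil))))) (P.cons (P.cons (P.lf 0 62838 0) (P.cons (P.lf 0 1165986 0) (P.cons (P.lf 0 207474 0) (P.cons (P.lf 21312 0 0) P.nil)))) (P.cons (P.cons (P.lf 0 1611078 0) (P.cons (P.lf 0 106968 0) (P.cons (P.lf 48006 0 0) P.nil))) (P.cons (P.cons (P.lf 0 61686 0) (P.cons (P.lf 4836 0 0) P.nil)) (P.cons (P.cons (P.lf 7500 0 0) P.nil) P.nil)))))) 23958)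
 EL.nil))))))
noncomputable def S183_198_364_438_3 : EL := (EL.cons 0 (TM.mk (P.cons (P.lf 1689184190 0 0) (P.cons (P.lf 0 328315225 0) (P.cons (P.lf 6915520 0 0) (P.cons (P.lf 1047332 0 0) (P.cons (P.lf 7546 0 0) (P.cons (P.lf 0 1573 0) P.nil)))))) 161)
 (EL.cons 1 (TM.mk (P.cons (P.lf 1616469420 0 0) (P.cons (P.lf 0 96098353 0) (P.cons (P.lf 0 12687056 0) (P.cons (P.lf 51723 0 0) (P.cons (P.lf 25867 0 0) (P.cons (P.lf 433 0 0) P.nil)))))) 140)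
 (EL.cons 5 (TM.mk (P.cons (P.lf 1546884822 0 0) (P.cons (P.lf 116734300 0 0) (P.cons (P.lf 0 2458850 0) (P.cons (P.lf 0 372384 0) (P.cons (P.lf 0 2686 0) (P.cons (P.lf 556 0 0) P.nil)))))) 116)
 EL.nil)))
noncomputable def S183_198_364_438_4 : EL := (EL.cons 0 (TM.mk (P.cons (P.cons (P.lf 584101546 0 0) (P.cons (P.lf 0 96157687 0) (P.cons (P.lf 0 5261359 0) (P.lf 584593 0 0)))) (P.cons (P.cons (P.lf 0 37812979 0) (P.cons (P.lf 7804831 0 0) (P.cons (P.lf 427048 0 0) (P.lf 0 47450 0)))) (P.cons (P.cons (P.lf 0 20814461 0) (P.cons (P.lf 1745831 0 0) (P.cons (P.lf 95523 0 0) (P.lf 0 10611 0)))) (P.cons (P.cons (P.lf 1933708 0 0) (P.cons (P.lf 0 62875 0) (P.cons (P.lf 0 3440 0) P.nil))) (P.cons (P.cons (P.lf 112760 0 0) (P.cons (P.lf 0 14779 0) P.nil)) (P.cons (P.cons (P.lf 0 9975 0) P.nil) P.nil)))))) 3989)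
 (EL.cons 1 (TM.mk (P.cons (P.cons (P.lf 558957570 0 0) (P.cons (P.lf 0 92018360 0) (P.cons (P.lf 0 5034871 0) (P.lf 559428 0 0)))) (P.cons (P.cons (P.lf 39225772 0 0) (P.cons (P.lf 0 4945676 0) (P.cons (P.lf 0 270605 0) (P.lf 30063 0 0)))) (P.cons (P.cons (P.lf 0 16818633 0) (P.cons (P.lf 1364340 0 0) (P.cons (P.lf 74649 0 0) (P.lf 0 8293 0)))) (P.cons (P.cons (P.lf 0 439578 0) (P.cons (P.lf 121423 0 0) (P.cons (P.lf 6643 0 0) P.nil))) (P.cons (P.cons (P.lf 118614 0 0) (P.cons (P.lf 0 3420 0) P.nil)) (P.cons (P.cons (P.lf 4074 0 0) P.nil) P.nil)))))) 3103)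
 (EL.cons 5 (TM.mk (P.cons (P.cons (P.lf 534895970 0 0) (P.cons (P.lf 0 88057222 0) (P.cons (P.lf 0 4818134 0) (P.lf 535346 0 0)))) (P.cons (P.cons (P.lf 109701980 0 0) (P.cons (P.lf 0 16612900 0) (P.cons (P.lf 0 908988 0) (P.lf 100996 0 0)))) (P.cons (P.cons (P.lf 0 3392240 0) (P.cons (P.lf 0 590330 0) (P.cons (P.lf 0 32300 0) (P.lf 3588 0 0)))) (P.cons (P.cons (P.lf 0 1181430 0) (P.cons (P.lf 80778 0 0) (P.cons (P.lf 4418 0 0) P.nil))) (P.cons (P.cons (P.lf 0 11546 0) (P.cons (P.lf 6820 0 0) P.nil)) (P.cons (P.cons (P.lf 5386 0 0) P.nil) P.nil)))))) 2216)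
 EL.nil)))
noncomputable def S183_198_364_438_5 : EL := (EL.cons 0 (TM.mk (P.cons (P.cons (P.lf 201975971 0 0) (P.cons (P.lf 0 66500567 0) (P.cons (P.lf 1835182 0 0) (P.cons (P.lf 1003303 0 0) (P.cons (P.lf 0 50167 0) (P.cons (P.lf 0 3640 0) P.nil)))))) (P.cons (P.cons (P.lf 13106058 0 0) (P.cons (P.lf 0 3222562 0) (P.cons (P.lf 0 1001 0) (P.cons (P.lf 38775 0 0) (P.cons (P.lf 0 1604 0) P.nil))))) (P.cons (P.cons (P.lf 0 11827926 0) (P.cons (P.lf 2873605 0 0) (P.cons (P.lf 6192 0 0) (P.cons (P.lf 0 33996 0) P.nil)))) (P.cons (P.cons (P.lf 0 208610 0) (P.cons (P.lf 78800 0 0) (P.cons (P.lf 0 5864 0) P.nil))) (P.cons (P.cons (P.lf 246737 0 0) (P.cons (P.lf 0 39552 0) P.nil)) (P.cons (P.cons (P.lf 0 3327 0) P.nil) P.nil)))))) 21855)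
 (EL.cons 1 (TM.mk (P.cons (P.cons (P.lf 193281455 0 0) (P.cons (P.lf 0 63637899 0) (P.cons (P.lf 1756183 0 0) (P.cons (P.lf 960114 0 0) (P.cons (P.lf 0 48007 0) (P.cons (P.lf 0 3483 0) P.nil)))))) (P.cons (P.cons (P.lf 38618184 0 0) (P.cons (P.lf 0 11669460 0) (P.cons (P.lf 235972 0 0) (P.cons (P.lf 166638 0 0) (P.cons (P.lf 0 8011 0) P.nil))))) (P.cons (P.cons (P.lf 0 6866709 0) (P.cons (P.lf 1425125 0 0) (P.cons (P.lf 30875 0 0) (P.cons (P.lf 0 13816 0) P.nil)))) (P.cons (P.cons (P.lf 0 1231563 0) (P.cons (P.lf 298320 0 0) (P.cons (P.lf 0 1953 0) P.nil))) (P.cons (P.cons (P.lf 104248 0 0) (P.cons (P.lf 0 5364 0) P.nil)) (P.cons (P.cons (P.lf 13801 0 0) P.nil) P.nil)))))) 17318)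
 (EL.cons 5 (TM.mk (P.cons (P.cons (P.lf 184961216 0 0) (P.cons (P.lf 0 60898462 0) (P.cons (P.lf 1680584 0 0) (P.cons (P.lf 918784 0 0) (P.cons (P.lf 0 45942 0) (P.cons (P.lf 0 3334 0) P.nil)))))) (P.cons (P.cons (P.lf 61909570 0 0) (P.cons (P.lf 0 19383156 0) (P.cons (P.lf 452548 0 0) (P.cons (P.lf 283422 0 0) (P.cons (P.lf 0 13866 0) P.nil))))) (P.cons (P.cons (P.lf 1055898 0 0) (P.cons (P.lf 0 1012424 0) (P.cons (P.lf 84010 0 0) (P.cons (P.lf 21410 0 0) P.nil)))) (P.cons (P.cons (P.lf 0 1234940 0) (P.cons (P.lf 210434 0 0) (P.cons (P.lf 8086 0 0) P.nil))) (P.cons (P.cons (P.lf 0 58018 0) (P.cons (P.lf 23192 0 0) P.nil)) (P.cons (P.cons (P.lf 9978 0 0) P.nil) P.nil)))))) 13584)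
 EL.nil)))
noncomputable def S183_198_364_438_6 : EL := (EL.cons 12 (TM.mk (P.lf 8589934592 0 0) 0)
 (EL.cons 3 (TM.mk (P.cons (P.lf 0 1904598495 0) (P.cons (P.lf 185091918 0 0) (P.cons (P.lf 5095050 0 0) (P.cons (P.lf 0 95302 0) (P.cons (P.lf 0 6701 0) (P.cons (P.lf 0 18 0) P.nil)))))) 59)
 (EL.cons 7 (TM.mk (P.cons (P.lf 0 1822610727 0) (P.cons (P.lf 0 68770857 0) (P.cons (P.lf 2745999 0 0) (P.cons (P.lf 115768 0 0) (P.cons (P.lf 0 717 0) (P.cons (P.lf 0 127 0) P.nil)))))) 49)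
 EL.nil)))
noncomputable def S183_198_364_438_7 : EL := (EL.cons 12 (TM.mk (P.cons (P.cons (P.lf 2970306094 0 0) (P.cons (P.lf 0 488986496 0) (P.cons (P.lf 0 26755368 0) (P.lf 2972816 0 0)))) (P.cons (P.cons (P.lf 385029470 0 0) (P.cons (P.lf 0 55351400 0) (P.cons (P.lf 0 3028600 0) (P.lf 336504 0 0)))) (P.cons (P.cons (P.lf 0 43171758 0) (P.cons (P.lf 121640 0 0) (P.cons (P.lf 6648 0 0) (P.lf 0 736 0)))) (P.cons (P.cons (P.lf 0 1975566 0) (P.cons (P.lf 233696 0 0) (P.cons (P.lf 12784 0 0) P.nil))) (P.cons (P.cons (P.lf 114186 0 0) (P.cons (P.lf 6264 0 0) P.nil)) (P.cons (P.cons (P.lf 7366 0 0) P.nil) P.nil)))))) 3702)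
 (EL.cons 3 (TM.mk (P.cons (P.cons (P.lf 1603954551 0 0) (P.cons (P.lf 0 216840518 0) (P.cons (P.lf 0 11864638 0) (P.lf 1318290 0 0)))) (P.cons (P.cons (P.lf 0 482569016 0) (P.cons (P.lf 0 3472608 0) (P.cons (P.lf 0 190002 0) (P.lf 21106 0 0)))) (P.cons (P.cons (P.lf 0 28196135 0) (P.cons (P.lf 3019388 0 0) (P.cons (P.lf 165204 0 0) (P.lf 0 18354 0)))) (P.cons (P.cons (P.lf 2269314 0 0) (P.cons (P.lf 153200 0 0) (P.cons (P.lf 8380 0 0) P.nil))) (P.cons (P.cons (P.lf 212240 0 0) (P.cons (P.lf 0 9426 0) P.nil)) (P.cons (P.cons (P.lf 0 2169 0) P.nil) P.nil)))))) 9050)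
 (EL.cons 7 (TM.mk (P.cons (P.cons (P.lf 0 1470886692 0) (P.cons (P.lf 224603632 0 0) (P.cons (P.lf 12289411 0 0) (P.lf 0 1365492 0)))) (P.cons (P.cons (P.lf 179298398 0 0) (P.cons (P.lf 1290250 0 0) (P.cons (P.lf 70600 0 0) (P.lf 0 7848 0)))) (P.cons (P.cons (P.lf 0 1618629 0) (P.cons (P.lf 0 1208889 0) (P.cons (P.lf 0 66147 0) (P.lf 7347 0 0)))) (P.cons (P.cons (P.lf 0 1551010 0) (P.cons (P.lf 45666 0 0) (P.cons (P.lf 2497 0 0) P.nil))) (P.cons (P.cons (P.lf 16344 0 0) (P.cons (P.lf 6982 0 0) P.nil)) (P.cons (P.cons (P.lf 6668 0 0) P.nil) P.nil)))))) 7030)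
 (EL.cons 10 (TM.mk (P.cons (P.cons (P.lf 0 1946314908 0) (P.cons (P.lf 0 244215750 0) (P.cons (P.lf 37285425 0 0) (P.cons (P.lf 1139064 0 0) (P.lf 0 94920 0))))) (P.cons (P.cons (P.lf 0 146876937 0) (P.cons (P.lf 0 18429525 0) (P.cons (P.lf 2813709 0 0) (P.cons (P.lf 85956 0 0) (P.lf 0 7161 0))))) (P.cons (P.cons (P.lf 3093762 0 0) (P.cons (P.lf 388191 0 0) (P.cons (P.lf 0 59265 0) (P.cons (P.lf 0 1809 0) P.nil)))) (P.cons (P.cons (P.lf 468537 0 0) (P.cons (P.lf 58788 0 0) (P.cons (P.lf 0 8973 0) P.nil))) (P.cons (P.cons (P.lf 3378 0 0) (P.cons (P.lf 423 0 0) P.nil)) (P.cons (P.cons (P.lf 0 699 0) P.nil) P.nil)))))) 891)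
 EL.nil))))
noncomputable def S183_198_364_438_8 : EL := (EL.cons 12 (TM.mk (P.cons (P.cons (P.lf 1027099588 0 0) (P.cons (P.lf 0 338172438 0) (P.cons (P.lf 9332378 0 0) (P.cons (P.lf 5102060 0 0) (P.cons (P.lf 0 255122 0) (P.cons (P.lf 0 18518 0) P.nil)))))) (P.cons (P.cons (P.lf 266278018 0 0) (P.cons (P.lf 0 82115830 0) (P.cons (P.lf 1808770 0 0) (P.cons (P.lf 1188840 0 0) (P.cons (P.lf 0 57756 0) P.nil))))) (P.cons (P.cons (P.lf 0 12598346 0) (P.cons (P.lf 37204 0 0) (P.cons (P.lf 344852 0 0) (P.cons (P.lf 37292 0 0) P.nil)))) (P.cons (P.cons (P.lf 0 5236462 0) (P.cons (P.lf 953820 0 0) (P.cons (P.lf 24012 0 0) P.nil))) (P.cons (P.cons (P.lf 118840 0 0) (P.cons (P.lf 36518 0 0) P.nil)) (P.cons (P.cons (P.lf 35188 0 0) P.nil) P.nil)))))) 38996)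
 (EL.cons 3 (TM.mk (P.cons (P.cons (P.lf 1336993215 0 0) (P.cons (P.lf 0 407555182 0) (P.cons (P.lf 8559622 0 0) (P.cons (P.lf 5854747 0 0) (P.cons (P.lf 0 282831 0) (P.cons (P.lf 0 20531 0) P.nil)))))) (P.cons (P.cons (P.lf 0 153036198 0) (P.cons (P.lf 1509105 0 0) (P.cons (P.lf 4069942 0 0) (P.cons (P.lf 427161 0 0) (P.cons (P.lf 0 36541 0) P.nil))))) (P.cons (P.cons (P.lf 0 88023231 0) (P.cons (P.lf 15409372 0 0) (P.cons (P.lf 461693 0 0) (P.cons (P.lf 0 135417 0) P.nil)))) (P.cons (P.cons (P.lf 2118449 0 0) (P.cons (P.lf 945527 0 0) (P.cons (P.lf 0 33579 0) P.nil))) (P.cons (P.cons (P.lf 1048654 0 0) (P.cons (P.lf 0 119081 0) P.nil)) (P.cons (P.cons (P.lf 6020 0 0) P.nil) P.nil)))))) 100228)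
 (EL.cons 7 (TM.mk (P.cons (P.cons (P.lf 0 799303483 0) (P.cons (P.lf 251039605 0 0) (P.cons (P.lf 0 5929276 0) (P.cons (P.lf 0 3678202 0) (P.cons (P.lf 180233 0 0) (P.cons (P.lf 13079 0 0) P.nil)))))) (P.cons (P.cons (P.lf 56860560 0 0) (P.cons (P.lf 0 560703 0) (P.cons (P.lf 0 1512177 0) (P.cons (P.lf 0 158718 0) (P.cons (P.lf 13583 0 0) P.nil))))) (P.cons (P.cons (P.lf 28869375 0 0) (P.cons (P.lf 0 5687524 0) (P.cons (P.lf 0 69542 0) (P.cons (P.lf 61019 0 0) P.nil)))) (P.cons (P.cons (P.lf 0 3654336 0) (P.cons (P.lf 162903 0 0) (P.cons (P.lf 25927 0 0) P.nil))) (P.cons (P.cons (P.lf 0 249227 0) (P.cons (P.lf 68593 0 0) P.nil)) (P.cons (P.cons (P.lf 34954 0 0) P.nil) P.nil)))))) 55360)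
 (EL.cons 10 (TM.mk (P.cons (P.cons (P.lf 0 1346029110 0) (P.cons (P.lf 52695666 0 0) (P.cons (P.lf 65714514 0 0) (P.cons (P.lf 0 3283062 0) (P.cons (P.lf 0 596628 0) (P.cons (P.lf 29514 0 0) P.nil)))))) (P.cons (P.cons (P.lf 0 276057528 0) (P.cons (P.lf 7166640 0 0) (P.cons (P.lf 12821376 0 0) (P.cons (P.lf 0 606438 0) (P.cons (P.lf 0 113634 0) P.nil))))) (P.cons (P.cons (P.lf 8536338 0 0) (P.cons (P.lf 2556630 0 0) (P.cons (P.lf 104154 0 0) (P.cons (P.lf 0 32286 0) P.nil)))) (P.cons (P.cons (P.lf 2972988 0 0) (P.cons (P.lf 169758 0 0) (P.cons (P.lf 0 93576 0) P.nil))) (P.cons (P.cons (P.lf 29052 0 0) (P.cons (P.lf 0 13518 0) P.nil)) (P.cons (P.cons (P.lf 0 13554 0) P.nil) P.nil)))))) 39114)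
 EL.nil))))
noncomputable def S183_198_364_438_9 : EL := (EL.cons 3 (TM.mk (P.cons (P.lf 0 1904598495 0) (P.cons (P.lf 185091918 0 0) (P.cons (P.lf 5095050 0 0) (P.cons (P.lf 0 95302 0) (P.cons (P.lf 0 6701 0) (P.cons (P.lf 0 18 0) P.nil)))))) 59)
 (EL.cons 7 (TM.mk (P.cons (P.lf 0 1822610727 0) (P.cons (P.lf 0 68770857 0) (P.cons (P.lf 2745999 0 0) (P.cons (P.lf 115768 0 0) (P.cons (P.lf 0 717 0) (P.cons (P.lf 0 127 0) P.nil)))))) 49)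
 EL.nil))
noncomputable def S183_198_364_438_10 : EL := (EL.cons 3 (TM.mk (P.cons (P.cons (P.lf 0 658589475 0) (P.cons (P.lf 108420259 0 0) (P.cons (P.lf 5932319 0 0) (P.lf 0 659145 0)))) (P.cons (P.cons (P.lf 0 21367670 0) (P.cons (P.lf 1736304 0 0) (P.cons (P.lf 95001 0 0) (P.lf 0 10553 0)))) (P.cons (P.cons (P.lf 19630483 0 0) (P.cons (P.lf 0 1509694 0) (P.cons (P.lf 0 82602 0) (P.lf 9177 0 0)))) (P.cons (P.cons (P.lf 0 296790 0) (P.cons (P.lf 0 76600 0) (P.cons (P.lf 0 4190 0) P.nil))) (P.cons (P.cons (P.lf 0 100081 0) (P.cons (P.lf 4713 0 0) P.nil)) (P.cons (P.cons (P.lf 0 171 0) P.nil) P.nil)))))) 2179)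
 (EL.cons 7 (TM.mk (P.cons (P.cons (P.lf 0 630238995 0) (P.cons (P.lf 103753063 0 0) (P.cons (P.lf 5676949 0 0) (P.lf 0 630771 0)))) (P.cons (P.cons (P.lf 0 105475696 0) (P.cons (P.lf 15659266 0 0) (P.cons (P.lf 856810 0 0) (P.lf 0 95199 0)))) (P.cons (P.cons (P.lf 7027173 0 0) (P.cons (P.lf 261015 0 0) (P.cons (P.lf 14283 0 0) (P.lf 0 1587 0)))) (P.cons (P.cons (P.lf 927923 0 0) (P.cons (P.lf 0 74844 0) (P.cons (P.lf 0 4094 0) P.nil))) (P.cons (P.cons (P.lf 0 17271 0) (P.cons (P.lf 0 3866 0) P.nil)) (P.cons (P.cons (P.lf 0 3766 0) P.nil) P.nil)))))) 1449)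
 EL.nil))
noncomputable def S183_198_364_438_11 : EL := (EL.cons 3 (TM.mk (P.cons (P.cons (P.lf 0 227733087 0) (P.cons (P.lf 74981096 0 0) (P.cons (P.lf 0 2069216 0) (P.cons (P.lf 0 1131251 0) (P.cons (P.lf 56565 0 0) (P.cons (P.lf 4105 0 0) P.nil)))))) (P.cons (P.cons (P.lf 0 36908880 0) (P.cons (P.lf 10920303 0 0) (P.cons (P.lf 0 199958 0) (P.cons (P.lf 0 153657 0) (P.cons (P.lf 7307 0 0) P.nil))))) (P.cons (P.cons (P.lf 9140211 0 0) (P.cons (P.lf 0 1978226 0) (P.cons (P.lf 0 31951 0) (P.cons (P.lf 20373 0 0) P.nil)))) (P.cons (P.cons (P.lf 1036133 0 0) (P.cons (P.lf 0 255637 0) (P.cons (P.lf 3075 0 0) P.nil))) (P.cons (P.cons (P.lf 0 150410 0) (P.cons (P.lf 13651 0 0) P.nil)) (P.cons (P.cons (P.lf 0 8416 0) P.nil) P.nil)))))) 16158)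
 (EL.cons 7 (TM.mk (P.cons (P.cons (P.lf 0 217929799 0) (P.cons (P.lf 71753365 0 0) (P.cons (P.lf 0 1980142 0) (P.cons (P.lf 0 1082554 0) (P.cons (P.lf 54131 0 0) (P.cons (P.lf 3929 0 0) P.nil)))))) (P.cons (P.cons (P.lf 0 64721760 0) (P.cons (P.lf 20130723 0 0) (P.cons (P.lf 0 458499 0) (P.cons (P.lf 0 293094 0) (P.cons (P.lf 14297 0 0) P.nil))))) (P.cons (P.cons (P.lf 869637 0 0) (P.cons (P.lf 541418 0 0) (P.cons (P.lf 0 84668 0) (P.cons (P.lf 0 15799 0) P.nil)))) (P.cons (P.cons (P.lf 1310898 0 0) (P.cons (P.lf 0 233487 0) (P.cons (P.lf 0 7151 0) P.nil))) (P.cons (P.cons (P.lf 16183 0 0) (P.cons (P.lf 0 16451 0) P.nil)) (P.cons (P.cons (P.lf 0 10298 0) P.nil) P.nil)))))) 11514)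
 EL.nil))
noncomputable def S183_198_364_438_12 : EL := (EL.cons 4 (TM.mk (P.cons (P.lf 1904598495 0 0) (P.cons (P.lf 0 185091918 0) (P.cons (P.lf 0 5095050 0) (P.cons (P.lf 95302 0 0) (P.cons (P.lf 6701 0 0) (P.cons (P.lf 18 0 0) P.nil)))))) 59)
 (EL.cons 8 (TM.mk (P.cons (P.lf 1822610727 0 0) (P.cons (P.lf 68770857 0 0) (P.cons (P.lf 0 2745999 0) (P.cons (P.lf 0 115768 0) (P.cons (P.lf 717 0 0) (P.cons (P.lf 127 0 0) P.nil)))))) 49)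
 EL.nil))
noncomputable def S183_198_364_438_13 : EL := (EL.cons 4 (TM.mk (P.cons (P.cons (P.lf 658589475 0 0) (P.cons (P.lf 0 108420259 0) (P.cons (P.lf 0 5932319 0) (P.lf 659145 0 0)))) (P.cons (P.cons (P.lf 21367670 0 0) (P.cons (P.lf 0 1736304 0) (P.cons (P.lf 0 95001 0) (P.lf 10553 0 0)))) (P.cons (P.cons (P.lf 0 19630483 0) (P.cons (P.lf 1509694 0 0) (P.cons (P.lf 82602 0 0) (P.lf 0 9177 0)))) (P.cons (P.cons (P.lf 296790 0 0) (P.cons (P.lf 76600 0 0) (P.cons (P.lf 4190 0 0) P.nil))) (P.cons (P.cons (P.lf 100081 0 0) (P.cons (P.lf 0 4713 0) P.nil)) (P.cons (P.cons (P.lf 171 0 0) P.nil) P.nil)))))) 2179)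
 (EL.cons 8 (TM.mk (P.cons (P.cons (P.lf 630238995 0 0) (P.cons (P.lf 0 103753063 0) (P.cons (P.lf 0 5676949 0) (P.lf 630771 0 0)))) (P.cons (P.cons (P.lf 105475696 0 0) (P.cons (P.lf 0 15659266 0) (P.cons (P.lf 0 856810 0) (P.lf 95199 0 0)))) (P.cons (P.cons (P.lf 0 7027173 0) (P.cons (P.lf 0 261015 0) (P.cons (P.lf 0 14283 0) (P.lf 1587 0 0)))) (P.cons (P.cons (P.lf 0 927923 0) (P.cons (P.lf 74844 0 0) (P.cons (P.lf 4094 0 0) P.nil))) (P.cons (P.cons (P.lf 17271 0 0) (P.cons (P.lf 3866 0 0) P.nil)) (P.cons (P.cons (P.lf 3766 0 0) P.nil) P.nil)))))) 1449)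
 EL.nil))
noncomputable def S183_198_364_438_14 : EL := (EL.cons 4 (TM.mk (P.cons (P.cons (P.lf 227733087 0 0) (P.cons (P.lf 0 74981096 0) (P.cons (P.lf 2069216 0 0) (P.cons (P.lf 1131251 0 0) (P.cons (P.lf 0 56565 0) (P.cons (P.lf 0 4105 0) P.nil)))))) (P.cons (P.cons (P.lf 36908880 0 0) (P.cons (P.lf 0 10920303 0) (P.cons (P.lf 199958 0 0) (P.cons (P.lf 153657 0 0) (P.cons (P.lf 0 7307 0) P.nil))))) (P.cons (P.cons (P.lf 0 9140211 0) (P.cons (P.lf 1978226 0 0) (P.cons (P.lf 31951 0 0) (P.cons (P.lf 0 20373 0) P.nil)))) (P.cons (P.cons (P.lf 0 1036133 0) (P.cons (P.lf 255637 0 0) (P.cons (P.lf 0 3075 0) P.nil))) (P.cons (P.cons (P.lf 150410 0 0) (P.cons (P.lf 0 13651 0) P.nil)) (P.cons (P.cons (P.lf 8416 0 0) P.nil) P.nil)))))) 16158)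
 (EL.cons 8 (TM.mk (P.cons (P.cons (P.lf 217929799 0 0) (P.cons (P.lf 0 71753365 0) (P.cons (P.lf 1980142 0 0) (P.cons (P.lf 1082554 0 0) (P.cons (P.lf 0 54131 0) (P.cons (P.lf 0 3929 0) P.nil)))))) (P.cons (P.cons (P.lf 64721760 0 0) (P.cons (P.lf 0 20130723 0) (P.cons (P.lf 458499 0 0) (P.cons (P.lf 293094 0 0) (P.cons (P.lf 0 14297 0) P.nil))))) (P.cons (P.cons (P.lf 0 869637 0) (P.cons (P.lf 0 541418 0) (P.cons (P.lf 84668 0 0) (P.cons (P.lf 15799 0 0) P.nil)))) (P.cons (P.cons (P.lf 0 1310898 0) (P.cons (P.lf 233487 0 0) (P.cons (P.lf 7151 0 0) P.nil))) (P.cons (P.cons (P.lf 0 16183 0) (P.cons (P.lf 16451 0 0) P.nil)) (P.cons (P.cons (P.lf 10298 0 0) P.nil) P.nil)))))) 11514)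
 EL.nil))
noncomputable def S183_198_364_438_15 : EL := (EL.cons 4 (TM.mk (P.cons (P.lf 0 900898234 0) (P.cons (P.lf 175101453 0 0) (P.cons (P.lf 0 3688277 0) (P.cons (P.lf 0 558577 0) (P.cons (P.lf 0 4024 0) (P.cons (P.lf 839 0 0) P.nil)))))) 89)
 (EL.cons 8 (TM.mk (P.cons (P.lf 0 862117024 0) (P.cons (P.lf 51252455 0 0) (P.cons (P.lf 6766430 0 0) (P.cons (P.lf 0 27586 0) (P.cons (P.lf 0 13796 0) (P.cons (P.lf 0 231 0) P.nil)))))) 71)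
 EL.nil))
noncomputable def S183_198_364_438_16 : EL := (EL.cons 4 (TM.mk (P.cons (P.cons (P.lf 0 311520825 0) (P.cons (P.lf 51284100 0 0) (P.cons (P.lf 2806058 0 0) (P.lf 0 311783 0)))) (P.cons (P.cons (P.lf 20166922 0 0) (P.cons (P.lf 0 4162576 0) (P.cons (P.lf 0 227759 0) (P.lf 25306 0 0)))) (P.cons (P.cons (P.lf 11101046 0 0) (P.cons (P.lf 0 931110 0) (P.cons (P.lf 0 50945 0) (P.lf 5659 0 0)))) (P.cons (P.cons (P.lf 0 1031310 0) (P.cons (P.lf 33533 0 0) (P.cons (P.lf 1834 0 0) P.nil))) (P.cons (P.cons (P.lf 0 60138 0) (P.cons (P.lf 7882 0 0) P.nil)) (P.cons (P.cons (P.lf 5320 0 0) P.nil) P.nil)))))) 2136)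
 (EL.cons 8 (TM.mk (P.cons (P.cons (P.lf 0 298110704 0) (P.cons (P.lf 49076459 0 0) (P.cons (P.lf 2685265 0 0) (P.lf 0 298362 0)))) (P.cons (P.cons (P.lf 0 20920412 0) (P.cons (P.lf 2637694 0 0) (P.cons (P.lf 144323 0 0) (P.lf 0 16034 0)))) (P.cons (P.cons (P.lf 8969938 0 0) (P.cons (P.lf 0 727648 0) (P.cons (P.lf 0 39813 0) (P.lf 4423 0 0)))) (P.cons (P.cons (P.lf 234442 0 0) (P.cons (P.lf 0 64759 0) (P.cons (P.lf 0 3543 0) P.nil))) (P.cons (P.cons (P.lf 0 63261 0) (P.cons (P.lf 1824 0 0) P.nil)) (P.cons (P.cons (P.lf 0 2173 0) P.nil) P.nil)))))) 1645)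
 EL.nil))
noncomputable def S183_198_364_438_17 : EL := (EL.cons 4 (TM.mk (P.cons (P.cons (P.lf 0 107720518 0) (P.cons (P.lf 35466969 0 0) (P.cons (P.lf 0 978764 0) (P.cons (P.lf 0 535095 0) (P.cons (P.lf 26756 0 0) (P.cons (P.lf 1941 0 0) P.nil)))))) (P.cons (P.cons (P.lf 0 6989897 0) (P.cons (P.lf 1718700 0 0) (P.cons (P.lf 534 0 0) (P.cons (P.lf 0 20680 0) (P.cons (P.lf 855 0 0) P.nil))))) (P.cons (P.cons (P.lf 6308227 0 0) (P.cons (P.lf 0 1532589 0) (P.cons (P.lf 0 3302 0) (P.cons (P.lf 18131 0 0) P.nil)))) (P.cons (P.cons (P.lf 111258 0 0) (P.cons (P.lf 0 42027 0) (P.cons (P.lf 3127 0 0) P.nil))) (P.cons (P.cons (P.lf 0 131593 0) (P.cons (P.lf 21094 0 0) P.nil)) (P.cons (P.cons (P.lf 1774 0 0) P.nil) P.nil)))))) 11666)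
 (EL.cons 8 (TM.mk (P.cons (P.cons (P.lf 0 103083443 0) (P.cons (P.lf 33940213 0 0) (P.cons (P.lf 0 936631 0) (P.cons (P.lf 0 512061 0) (P.cons (P.lf 25604 0 0) (P.cons (P.lf 1858 0 0) P.nil)))))) (P.cons (P.cons (P.lf 0 20596365 0) (P.cons (P.lf 6223712 0 0) (P.cons (P.lf 0 125852 0) (P.cons (P.lf 0 88874 0) (P.cons (P.lf 4273 0 0) P.nil))))) (P.cons (P.cons (P.lf 3662245 0 0) (P.cons (P.lf 0 760067 0) (P.cons (P.lf 0 16467 0) (P.cons (P.lf 7369 0 0) P.nil)))) (P.cons (P.cons (P.lf 656834 0 0) (P.cons (P.lf 0 159104 0) (P.cons (P.lf 1042 0 0) P.nil))) (P.cons (P.cons (P.lf 0 55599 0) (P.cons (P.lf 2861 0 0) P.nil)) (P.cons (P.cons (P.lf 0 7361 0) P.nil) P.nil)))))) 9225)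
 EL.nil))
noncomputable def S183_198_364_438_18 : EL := (EL.cons 4 (TM.mk (P.cons (P.lf 426135812 0 0) (P.cons (P.lf 0 124237673 0) (P.cons (P.lf 8653707 0 0) (P.cons (P.lf 337561 0 0) (P.cons (P.lf 0 31084 0) (P.cons (P.lf 0 1487 0) P.nil)))))) 136)
 (EL.cons 8 (TM.mk (P.cons (P.lf 407791829 0 0) (P.cons (P.lf 0 63872894 0) (P.cons (P.lf 0 1935523 0) (P.cons (P.lf 409346 0 0) (P.cons (P.lf 14041 0 0) (P.cons (P.lf 0 800 0) P.nil)))))) 99)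
 EL.nil))
noncomputable def S183_198_364_438_19 : EL := (EL.cons 4 (TM.mk (P.cons (P.cons (P.lf 147353135 0 0) (P.cons (P.lf 0 24258002 0) (P.cons (P.lf 0 1327299 0) (P.lf 147477 0 0)))) (P.cons (P.cons (P.lf 0 23859211 0) (P.cons (P.lf 4326380 0 0) (P.cons (P.lf 236721 0 0) (P.lf 0 26302 0)))) (P.cons (P.cons (P.lf 0 4718084 0) (P.cons (P.lf 313973 0 0) (P.cons (P.lf 17178 0 0) (P.lf 0 1907 0)))) (P.cons (P.cons (P.lf 1031008 0 0) (P.cons (P.lf 0 65144 0) (P.cons (P.lf 0 3564 0) P.nil))) (P.cons (P.cons (P.lf 0 4872 0) (P.cons (P.lf 0 3351 0) P.nil)) (P.cons (P.cons (P.lf 0 6880 0) P.nil) P.nil)))))) 2460)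
 (EL.cons 8 (TM.mk (P.cons (P.cons (P.lf 141009985 0 0) (P.cons (P.lf 0 23213761 0) (P.cons (P.lf 0 1270163 0) (P.lf 141128 0 0)))) (P.cons (P.cons (P.lf 0 3807965 0) (P.cons (P.lf 1008288 0 0) (P.cons (P.lf 55169 0 0) (P.lf 0 6130 0)))) (P.cons (P.cons (P.lf 0 5581780 0) (P.cons (P.lf 527536 0 0) (P.cons (P.lf 28864 0 0) (P.lf 0 3206 0)))) (P.cons (P.cons (P.lf 282020 0 0) (P.cons (P.lf 0 640 0) (P.cons (P.lf 0 34 0) P.nil))) (P.cons (P.cons (P.lf 53041 0 0) (P.cons (P.lf 0 4904 0) P.nil)) (P.cons (P.cons (P.lf 0 1759 0) P.nil) P.nil)))))) 1587)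
 EL.nil))
noncomputable def S183_198_364_438_20 : EL := (EL.cons 4 (TM.mk (P.cons (P.cons (P.lf 50953113 0 0) (P.cons (P.lf 0 16776307 0) (P.cons (P.lf 462966 0 0) (P.cons (P.lf 253106 0 0) (P.cons (P.lf 0 12656 0) (P.cons (P.lf 0 917 0) P.nil)))))) (P.cons (P.cons (P.lf 0 1645397 0) (P.cons (P.lf 817381 0 0) (P.cons (P.lf 0 45244 0) (P.cons (P.lf 0 14814 0) (P.cons (P.lf 824 0 0) P.nil))))) (P.cons (P.cons (P.lf 0 3441486 0) (P.cons (P.lf 848817 0 0) (P.cons (P.lf 348 0 0) (P.cons (P.lf 0 10203 0) P.nil)))) (P.cons (P.cons (P.lf 231054 0 0) (P.cons (P.lf 0 49234 0) (P.cons (P.lf 0 1606 0) P.nil))) (P.cons (P.cons (P.lf 75686 0 0) (P.cons (P.lf 0 13949 0) P.nil)) (P.cons (P.cons (P.lf 0 6885 0) P.nil) P.nil)))))) 9885)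
 (EL.cons 8 (TM.mk (P.cons (P.cons (P.lf 48759721 0 0) (P.cons (P.lf 0 16054133 0) (P.cons (P.lf 443037 0 0) (P.cons (P.lf 242210 0 0) (P.cons (P.lf 0 12111 0) (P.cons (P.lf 0 878 0) P.nil)))))) (P.cons (P.cons (P.lf 5003783 0 0) (P.cons (P.lf 0 1383725 0) (P.cons (P.lf 16474 0 0) (P.cons (P.lf 18500 0 0) (P.cons (P.lf 0 844 0) P.nil))))) (P.cons (P.cons (P.lf 0 2809500 0) (P.cons (P.lf 688560 0 0) (P.cons (P.lf 818 0 0) (P.cons (P.lf 0 8218 0) P.nil)))) (P.cons (P.cons (P.lf 0 165966 0) (P.cons (P.lf 47391 0 0) (P.cons (P.lf 0 1387 0) P.nil))) (P.cons (P.cons (P.lf 61785 0 0) (P.cons (P.lf 0 9832 0) P.nil)) (P.cons (P.cons (P.lf 1706 0 0) P.nil) P.nil)))))) 6562)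
 EL.nil))
noncomputable def S183_198_364_438_21 : EL := (EL.cons 4 (TM.mk (P.cons (P.cons (P.lf 0 2262544026 0) (P.cons (P.lf 325260777 0 0) (P.cons (P.lf 17796957 0 0) (P.lf 0 1977435 0)))) (P.cons (P.cons (P.lf 461201346 0 0) (P.cons (P.lf 5208912 0 0) (P.cons (P.lf 285003 0 0) (P.lf 0 31659 0)))) (P.cons (P.cons (P.lf 47826618 0 0) (P.cons (P.lf 0 4529082 0) (P.cons (P.lf 0 247806 0) (P.lf 27531 0 0)))) (P.cons (P.cons (P.lf 0 2566104 0) (P.cons (P.lf 0 229800 0) (P.cons (P.lf 0 12570 0) P.nil))) (P.cons (P.cons (P.lf 0 312321 0) (P.cons (P.lf 14139 0 0) P.nil)) (P.cons (P.cons (P.lf 1998 0 0) P.nil) P.nil)))))) 6852)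
 (EL.cons 8 (TM.mk (P.cons (P.cons (P.lf 840647697 0 0) (P.cons (P.lf 0 120850569 0) (P.cons (P.lf 0 6612462 0) (P.lf 734721 0 0)))) (P.cons (P.cons (P.lf 0 284774094 0) (P.cons (P.lf 14369016 0 0) (P.cons (P.lf 786210 0 0) (P.lf 0 87351 0)))) (P.cons (P.cons (P.lf 8645802 0 0) (P.cons (P.lf 1469904 0 0) (P.cons (P.lf 80430 0 0) (P.lf 0 8934 0)))) (P.cons (P.cons (P.lf 2478933 0 0) (P.cons (P.lf 0 120510 0) (P.cons (P.lf 0 6591 0) P.nil))) (P.cons (P.cons (P.lf 0 33615 0) (P.cons (P.lf 0 10848 0) P.nil)) (P.cons (P.cons (P.lf 0 10434 0) P.nil) P.nil)))))) 5562)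
 (EL.cons 11 (TM.mk (P.cons (P.cons (P.lf 1946314908 0 0) (P.cons (P.lf 244215750 0 0) (P.cons (P.lf 0 37285425 0) (P.cons (P.lf 0 1139064 0) (P.lf 94920 0 0))))) (P.cons (P.cons (P.lf 146876937 0 0) (P.cons (P.lf 18429525 0 0) (P.cons (P.lf 0 2813709 0) (P.cons (P.lf 0 85956 0) (P.lf 7161 0 0))))) (P.cons (P.cons (P.lf 0 3093762 0) (P.cons (P.lf 0 388191 0) (P.cons (P.lf 59265 0 0) (P.cons (P.lf 1809 0 0) P.nil)))) (P.cons (P.cons (P.lf 0 468537 0) (P.cons (P.lf 0 58788 0) (P.cons (P.lf 8973 0 0) P.nil))) (P.cons (P.cons (P.lf 0 3378 0) (P.cons (P.lf 0 423 0) P.nil)) (P.cons (P.cons (P.lf 699 0 0) P.nil) P.nil)))))) 891)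
 EL.nil)))
noncomputable def S183_198_364_438_22 : EL := (EL.cons 4 (TM.mk (P.cons (P.cons (P.lf 0 782363151 0) (P.cons (P.lf 241268139 0 0) (P.cons (P.lf 0 5314419 0) (P.cons (P.lf 0 3492999 0) (P.cons (P.lf 169698 0 0) (P.cons (P.lf 12318 0 0) P.nil)))))) (P.cons (P.cons (P.lf 58063659 0 0) (P.cons (P.lf 4705599 0 0) (P.cons (P.lf 0 2134950 0) (P.cons (P.lf 0 290409 0) (P.cons (P.lf 21924 0 0) P.nil))))) (P.cons (P.cons (P.lf 48581721 0 0) (P.cons (P.lf 0 8693799 0) (P.cons (P.lf 0 246822 0) (P.cons (P.lf 77895 0 0) P.nil)))) (P.cons (P.cons (P.lf 0 541158 0) (P.cons (P.lf 0 600582 0) (P.cons (P.lf 18327 0 0) P.nil))) (P.cons (P.cons (P.lf 0 599532 0) (P.cons (P.lf 66366 0 0) P.nil)) (P.cons (P.cons (P.lf 0 7218 0) P.nil) P.nil)))))) 42024)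
 (EL.cons 8 (TM.mk (P.cons (P.cons (P.lf 290686842 0 0) (P.cons (P.lf 0 89643120 0) (P.cons (P.lf 1974567 0 0) (P.cons (P.lf 1297824 0 0) (P.cons (P.lf 0 63051 0) (P.cons (P.lf 0 4575 0) P.nil)))))) (P.cons (P.cons (P.lf 0 60791160 0) (P.cons (P.lf 10345713 0 0) (P.cons (P.lf 526839 0 0) (P.cons (P.lf 0 67188 0) (P.cons (P.lf 357 0 0) P.nil))))) (P.cons (P.cons (P.lf 0 13999869 0) (P.cons (P.lf 3114471 0 0) (P.cons (P.lf 0 7563 0) (P.cons (P.lf 0 38409 0) P.nil)))) (P.cons (P.cons (P.lf 2482617 0 0) (P.cons (P.lf 0 198195 0) (P.cons (P.lf 0 16539 0) P.nil))) (P.cons (P.cons (P.lf 132705 0 0) (P.cons (P.lf 0 42522 0) P.nil)) (P.cons (P.cons (P.lf 0 22626 0) P.nil) P.nil)))))) 21912)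
 (EL.cons 11 (TM.mk (P.cons (P.cons (P.lf 673014555 0 0) (P.cons (P.lf 0 26347833 0) (P.cons (P.lf 0 32857257 0) (P.cons (P.lf 1641531 0 0) (P.cons (P.lf 298314 0 0) (P.cons (P.lf 0 14757 0) P.nil)))))) (P.cons (P.cons (P.lf 138028764 0 0) (P.cons (P.lf 0 3583320 0) (P.cons (P.lf 0 6410688 0) (P.cons (P.lf 303219 0 0) (P.cons (P.lf 56817 0 0) P.nil))))) (P.cons (P.cons (P.lf 0 4268169 0) (P.cons (P.lf 0 1278315 0) (P.cons (P.lf 0 52077 0) (P.cons (P.lf 16143 0 0) P.nil)))) (P.cons (P.cons (P.lf 0 1486494 0) (P.cons (P.lf 0 84879 0) (P.cons (P.lf 46788 0 0) P.nil))) (P.cons (P.cons (P.lf 0 14526 0) (P.cons (P.lf 6759 0 0) P.nil)) (P.cons (P.cons (P.lf 6777 0 0) P.nil) P.nil)))))) 19557)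
 EL.nil)))
noncomputable def S183_198_364_438_23 : EL := (EL.cons 4 (TM.mk (P.cons (P.cons (P.lf 1070210820 0 0) (P.cons (P.lf 0 153852300 0) (P.cons (P.lf 0 8418174 0) (P.lf 935349 0 0)))) (P.cons (P.cons (P.lf 0 322158633 0) (P.cons (P.lf 12487731 0 0) (P.cons (P.lf 683280 0 0) (P.lf 0 75921 0)))) (P.cons (P.cons (P.lf 0 4284987 0) (P.cons (P.lf 2793327 0 0) (P.cons (P.lf 152835 0 0) (P.lf 0 16977 0)))) (P.cons (P.cons (P.lf 4049436 0 0) (P.cons (P.lf 0 100602 0) (P.cons (P.lf 0 5505 0) P.nil))) (P.cons (P.cons (P.lf 83139 0 0) (P.cons (P.lf 0 23646 0) P.nil)) (P.cons (P.cons (P.lf 0 20436 0) P.nil) P.nil)))))) 7737)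
 (EL.cons 8 (TM.mk (P.cons (P.cons (P.lf 0 397636575 0) (P.cons (P.lf 57163785 0 0) (P.cons (P.lf 3127773 0 0) (P.lf 0 347529 0)))) (P.cons (P.cons (P.lf 173344563 0 0) (P.cons (P.lf 0 12351987 0) (P.cons (P.lf 0 675849 0) (P.lf 75090 0 0)))) (P.cons (P.cons (P.lf 0 16116354 0) (P.cons (P.lf 0 187686 0) (P.cons (P.lf 0 10269 0) (P.lf 1140 0 0)))) (P.cons (P.cons (P.lf 0 1155375 0) (P.cons (P.lf 145611 0 0) (P.cons (P.lf 7965 0 0) P.nil))) (P.cons (P.cons (P.lf 146133 0 0) (P.cons (P.lf 1311 0 0) P.nil)) (P.cons (P.cons (P.lf 6792 0 0) P.nil) P.nil)))))) 5310)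
 (EL.cons 11 (TM.mk (P.cons (P.cons (P.lf 0 920630604 0) (P.cons (P.lf 0 115517016 0) (P.cons (P.lf 17636457 0 0) (P.cons (P.lf 538791 0 0) (P.lf 0 44898 0))))) (P.cons (P.cons (P.lf 19993773 0 0) (P.cons (P.lf 2508738 0 0) (P.cons (P.lf 0 383019 0) (P.cons (P.lf 0 11700 0) (P.lf 975 0 0))))) (P.cons (P.cons (P.lf 10677843 0 0) (P.cons (P.lf 1339809 0 0) (P.cons (P.lf 0 204552 0) (P.cons (P.lf 0 6246 0) P.nil)))) (P.cons (P.cons (P.lf 219195 0 0) (P.cons (P.lf 27501 0 0) (P.cons (P.lf 0 4197 0) P.nil))) (P.cons (P.cons (P.lf 0 30570 0) (P.cons (P.lf 0 3834 0) P.nil)) (P.cons (P.cons (P.lf 0 1257 0) P.nil) P.nil)))))) 2070)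
 EL.nil)))
noncomputable def S183_198_364_438_24 : EL := (EL.cons 4 (TM.mk (P.cons (P.cons (P.lf 370067277 0 0) (P.cons (P.lf 0 114122760 0) (P.cons (P.lf 2513784 0 0) (P.cons (P.lf 1652232 0 0) (P.cons (P.lf 0 80268 0) (P.cons (P.lf 0 5826 0) P.nil)))))) (P.cons (P.cons (P.lf 0 63428544 0) (P.cons (P.lf 8864826 0 0) (P.cons (P.lf 765564 0 0) (P.cons (P.lf 0 23199 0) (P.cons (P.lf 0 2568 0) P.nil))))) (P.cons (P.cons (P.lf 0 21300648 0) (P.cons (P.lf 4633872 0 0) (P.cons (P.lf 11886 0 0) (P.cons (P.lf 0 54615 0) P.nil)))) (P.cons (P.cons (P.lf 2581170 0 0) (P.cons (P.lf 0 115308 0) (P.cons (P.lf 0 22590 0) P.nil))) (P.cons (P.cons (P.lf 320112 0 0) (P.cons (P.lf 0 70512 0) P.nil)) (P.cons (P.cons (P.lf 0 26070 0) P.nil) P.nil)))))) 26775)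
 (EL.cons 8 (TM.mk (P.cons (P.cons (P.lf 0 137498409 0) (P.cons (P.lf 42402285 0 0) (P.cons (P.lf 0 933993 0) (P.cons (P.lf 0 613887 0) (P.cons (P.lf 29823 0 0) (P.cons (P.lf 2163 0 0) P.nil)))))) (P.cons (P.cons (P.lf 42117270 0 0) (P.cons (P.lf 0 9014370 0) (P.cons (P.lf 0 158433 0) (P.cons (P.lf 91437 0 0) (P.cons (P.lf 0 3066 0) P.nil))))) (P.cons (P.cons (P.lf 4195482 0 0) (P.cons (P.lf 0 1111041 0) (P.cons (P.lf 30294 0 0) (P.cons (P.lf 16719 0 0) P.nil)))) (P.cons (P.cons (P.lf 0 1901658 0) (P.cons (P.lf 252126 0 0) (P.cons (P.lf 8094 0 0) P.nil))) (P.cons (P.cons (P.lf 34587 0 0) (P.cons (P.lf 14847 0 0) P.nil)) (P.cons (P.cons (P.lf 20373 0 0) P.nil) P.nil)))))) 13584)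
 (EL.cons 11 (TM.mk (P.cons (P.cons (P.lf 0 318344064 0) (P.cons (P.lf 12462843 0 0) (P.cons (P.lf 15541881 0 0) (P.cons (P.lf 0 776463 0) (P.cons (P.lf 0 141105 0) (P.cons (P.lf 6981 0 0) P.nil)))))) (P.cons (P.cons (P.lf 0 34352097 0) (P.cons (P.lf 483795 0 0) (P.cons (P.lf 1521948 0 0) (P.cons (P.lf 0 67968 0) (P.cons (P.lf 0 13161 0) P.nil))))) (P.cons (P.cons (P.lf 9215424 0 0) (P.cons (P.lf 406599 0 0) (P.cons (P.lf 0 311628 0) (P.cons (P.lf 8379 0 0) P.nil)))) (P.cons (P.cons (P.lf 665658 0 0) (P.cons (P.lf 0 22521 0) (P.cons (P.lf 0 31857 0) P.nil))) (P.cons (P.cons (P.lf 0 71247 0) (P.cons (P.lf 0 8586 0) P.nil)) (P.cons (P.cons (P.lf 0 5886 0) P.nil) P.nil)))))) 13938)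
 EL.nil)))
noncomputable def S183_198_364_438_25 : EL := (EL.cons 4 (TM.mk (P.cons (P.cons (P.lf 0 506222724 0) (P.cons (P.lf 72774006 0 0) (P.cons (P.lf 3981900 0 0) (P.lf 0 442431 0)))) (P.cons (P.cons (P.lf 201580479 0 0) (P.cons (P.lf 0 12979143 0) (P.cons (P.lf 0 710166 0) (P.lf 78909 0 0)))) (P.cons (P.cons (P.lf 0 11427948 0) (P.cons (P.lf 0 941919 0) (P.cons (P.lf 0 51534 0) (P.lf 5724 0 0)))) (P.cons (P.cons (P.lf 0 2545383 0) (P.cons (P.lf 195432 0 0) (P.cons (P.lf 10692 0 0) P.nil))) (P.cons (P.cons (P.lf 147240 0 0) (P.cons (P.lf 10053 0 0) P.nil)) (P.cons (P.cons (P.lf 19245 0 0) P.nil) P.nil)))))) 6888)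
 (EL.cons 8 (TM.mk (P.cons (P.cons (P.lf 188086932 0 0) (P.cons (P.lf 0 27039165 0) (P.cons (P.lf 0 1479474 0) (P.lf 164385 0 0)))) (P.cons (P.cons (P.lf 0 100272672 0) (P.cons (P.lf 8470347 0 0) (P.cons (P.lf 463461 0 0) (P.lf 0 51492 0)))) (P.cons (P.cons (P.lf 15088389 0 0) (P.cons (P.lf 0 406683 0) (P.cons (P.lf 0 22251 0) (P.lf 2472 0 0)))) (P.cons (P.cons (P.lf 34425 0 0) (P.cons (P.lf 0 94485 0) (P.cons (P.lf 0 5169 0) P.nil))) (P.cons (P.cons (P.lf 0 146067 0) (P.cons (P.lf 6030 0 0) P.nil)) (P.cons (P.cons (P.lf 2136 0 0) P.nil) P.nil)))))) 4440)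
 (EL.cons 11 (TM.mk (P.cons (P.cons (P.lf 435469464 0 0) (P.cons (P.lf 54640953 0 0) (P.cons (P.lf 0 8342259 0) (P.cons (P.lf 0 254853 0) (P.lf 21237 0 0))))) (P.cons (P.cons (P.lf 0 51776913 0) (P.cons (P.lf 0 6496758 0) (P.cons (P.lf 991887 0 0) (P.cons (P.lf 30300 0 0) (P.lf 0 2523 0))))) (P.cons (P.cons (P.lf 0 5296611 0) (P.cons (P.lf 0 664596 0) (P.cons (P.lf 101466 0 0) (P.cons (P.lf 3099 0 0) P.nil)))) (P.cons (P.cons (P.lf 434244 0 0) (P.cons (P.lf 54486 0 0) (P.cons (P.lf 0 8319 0) P.nil))) (P.cons (P.cons (P.lf 39105 0 0) (P.cons (P.lf 4905 0 0) P.nil)) (P.cons (P.cons (P.lf 0 813 0) P.nil) P.nil)))))) 2343)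
 EL.nil)))
noncomputable def S183_198_364_438_26 : EL := (EL.cons 4 (TM.mk (P.cons (P.cons (P.lf 0 175046319 0) (P.cons (P.lf 53981451 0 0) (P.cons (P.lf 0 1189050 0) (P.cons (P.lf 0 781524 0) (P.cons (P.lf 37968 0 0) (P.cons (P.lf 2754 0 0) P.nil)))))) (P.cons (P.cons (P.lf 47013753 0 0) (P.cons (P.lf 0 9439173 0) (P.cons (P.lf 0 246564 0) (P.cons (P.lf 86922 0 0) (P.cons (P.lf 0 2472 0) P.nil))))) (P.cons (P.cons (P.lf 7628046 0 0) (P.cons (P.lf 0 1928787 0) (P.cons (P.lf 32748 0 0) (P.cons (P.lf 26856 0 0) P.nil)))) (P.cons (P.cons (P.lf 0 2289093 0) (P.cons (P.lf 281469 0 0) (P.cons (P.lf 12141 0 0) P.nil))) (P.cons (P.cons (P.lf 0 58833 0) (P.cons (P.lf 33894 0 0) P.nil)) (P.cons (P.cons (P.lf 30921 0 0) P.nil) P.nil)))))) 21576)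
 (EL.cons 8 (TM.mk (P.cons (P.cons (P.lf 65038416 0 0) (P.cons (P.lf 0 20056794 0) (P.cons (P.lf 441789 0 0) (P.cons (P.lf 290376 0 0) (P.cons (P.lf 0 14106 0) (P.cons (P.lf 0 1023 0) P.nil)))))) (P.cons (P.cons (P.lf 0 26242518 0) (P.cons (P.lf 6213057 0 0) (P.cons (P.lf 32007 0 0) (P.cons (P.lf 0 71469 0) (P.cons (P.lf 2820 0 0) P.nil))))) (P.cons (P.cons (P.lf 0 222450 0) (P.cons (P.lf 164817 0 0) (P.cons (P.lf 0 22794 0) (P.cons (P.lf 0 4482 0) P.nil)))) (P.cons (P.cons (P.lf 1148913 0 0) (P.cons (P.lf 0 182742 0) (P.cons (P.lf 0 2613 0) P.nil))) (P.cons (P.cons (P.lf 0 99234 0) (P.cons (P.lf 3303 0 0) P.nil)) (P.cons (P.cons (P.lf 0 10620 0) P.nil) P.nil)))))) 10944)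
 (EL.cons 11 (TM.mk (P.cons (P.cons (P.lf 150580611 0 0) (P.cons (P.lf 0 5895075 0) (P.cons (P.lf 0 7351497 0) (P.cons (P.lf 367275 0 0) (P.cons (P.lf 66744 0 0) (P.cons (P.lf 0 3300 0) P.nil)))))) (P.cons (P.cons (P.lf 1615296 0 0) (P.cons (P.lf 344049 0 0) (P.cons (P.lf 0 5469 0) (P.cons (P.lf 0 3540 0) (P.cons (P.lf 0 258 0) P.nil))))) (P.cons (P.cons (P.lf 0 6340929 0) (P.cons (P.lf 0 154317 0) (P.cons (P.lf 237030 0 0) (P.cons (P.lf 0 8070 0) P.nil)))) (P.cons (P.cons (P.lf 72816 0 0) (P.cons (P.lf 29661 0 0) (P.cons (P.lf 2301 0 0) P.nil))) (P.cons (P.cons (P.lf 77301 0 0) (P.cons (P.lf 3507 0 0) P.nil)) (P.cons (P.cons (P.lf 192 0 0) P.nil) P.nil)))))) 11424)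
 EL.nil)))
noncomputable def S183_198_364_438_27 : EL := (EL.cons 13 (TM.mk (P.lf 0 4294967296 0) 0)
 EL.nil)
noncomputable def S183_198_364_438_28 : EL := (EL.cons 13 (TM.mk (P.cons (P.cons (P.lf 0 1485153047 0) (P.cons (P.lf 244493248 0 0) (P.cons (P.lf 13377684 0 0) (P.lf 0 1486408 0)))) (P.cons (P.cons (P.lf 0 192514735 0) (P.cons (P.lf 27675700 0 0) (P.cons (P.lf 1514300 0 0) (P.lf 0 168252 0)))) (P.cons (P.cons (P.lf 21585879 0 0) (P.cons (P.lf 0 60820 0) (P.cons (P.lf 0 3324 0) (P.lf 368 0 0)))) (P.cons (P.cons (P.lf 987783 0 0) (P.cons (P.lf 0 116848 0) (P.cons (P.lf 0 6392 0) P.nil))) (P.cons (P.cons (P.lf 0 57093 0) (P.cons (P.lf 0 3132 0) P.nil)) (P.cons (P.cons (P.lf 0 3683 0) P.nil) P.nil)))))) 1851)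
 EL.nil)
noncomputable def S183_198_364_438_29 : EL := (EL.cons 13 (TM.mk (P.cons (P.cons (P.lf 0 513549794 0) (P.cons (P.lf 169086219 0 0) (P.cons (P.lf 0 4666189 0) (P.cons (P.lf 0 2551030 0) (P.cons (P.lf 127561 0 0) (P.cons (P.lf 9259 0 0) P.nil)))))) (P.cons (P.cons (P.lf 0 133139009 0) (P.cons (P.lf 41057915 0 0) (P.cons (P.lf 0 904385 0) (P.cons (P.lf 0 594420 0) (P.cons (P.lf 28878 0 0) P.nil))))) (P.cons (P.cons (P.lf 6299173 0 0) (P.cons (P.lf 0 18602 0) (P.cons (P.lf 0 172426 0) (P.cons (P.lf 0 18646 0) P.nil)))) (P.cons (P.cons (P.lf 2618231 0 0) (P.cons (P.lf 0 476910 0) (P.cons (P.lf 0 12006 0) P.nil))) (P.cons (P.cons (P.lf 0 59420 0) (P.cons (P.lf 0 18259 0) P.nil)) (P.cons (P.cons (P.lf 0 17594 0) P.nil) P.nil)))))) 19498)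
 EL.nil)
noncomputable def S183_198_364_438_30 : EL := (EL.cons 13 (TM.mk (P.cons (P.lf 2031571728 0 0) (P.cons (P.lf 0 197431380 0) (P.cons (P.lf 0 5434720 0) (P.cons (P.lf 101656 0 0) (P.cons (P.lf 7148 0 0) (P.cons (P.lf 20 0 0) P.nil)))))) 56)
 EL.nil)
noncomputable def S183_198_364_438_31 : EL := (EL.cons 13 (TM.mk (P.cons (P.cons (P.lf 702495440 0 0) (P.cons (P.lf 0 115648277 0) (P.cons (P.lf 0 6327807 0) (P.lf 703089 0 0)))) (P.cons (P.cons (P.lf 22792182 0 0) (P.cons (P.lf 0 1852058 0) (P.cons (P.lf 0 101335 0) (P.lf 11257 0 0)))) (P.cons (P.cons (P.lf 0 20939182 0) (P.cons (P.lf 1610341 0 0) (P.cons (P.lf 88109 0 0) (P.lf 0 9789 0)))) (P.cons (P.cons (P.lf 316577 0 0) (P.cons (P.lf 81707 0 0) (P.cons (P.lf 4470 0 0) P.nil))) (P.cons (P.cons (P.lf 106754 0 0) (P.cons (P.lf 0 5028 0) P.nil)) (P.cons (P.cons (P.lf 183 0 0) P.nil) P.nil)))))) 2304)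
 EL.nil)
noncomputable def S183_198_364_438_32 : EL := (EL.cons 13 (TM.mk (P.cons (P.cons (P.lf 242915293 0 0) (P.cons (P.lf 0 79979836 0) (P.cons (P.lf 2207164 0 0) (P.cons (P.lf 1206668 0 0) (P.cons (P.lf 0 60337 0) (P.cons (P.lf 0 4379 0) P.nil)))))) (P.cons (P.cons (P.lf 39369473 0 0) (P.cons (P.lf 0 11648324 0) (P.cons (P.lf 213289 0 0) (P.cons (P.lf 163901 0 0) (P.cons (P.lf 0 7795 0) P.nil))))) (P.cons (P.cons (P.lf 0 9749559 0) (P.cons (P.lf 2110108 0 0) (P.cons (P.lf 34082 0 0) (P.cons (P.lf 0 21732 0) P.nil)))) (P.cons (P.cons (P.lf 0 1105209 0) (P.cons (P.lf 272680 0 0) (P.cons (P.lf 0 3281 0) P.nil))) (P.cons (P.cons (P.lf 160438 0 0) (P.cons (P.lf 0 14562 0) P.nil)) (P.cons (P.cons (P.lf 8978 0 0) P.nil) P.nil)))))) 17212)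
 EL.nil)
noncomputable def S183_198_364_438_33 : EL := (EL.cons 14 (TM.mk (P.lf 8589934592 0 0) 0)
 EL.nil)
noncomputable def S183_198_364_438_34 : EL := (EL.cons 14 (TM.mk (P.cons (P.cons (P.lf 2970306094 0 0) (P.cons (P.lf 0 488986496 0) (P.cons (P.lf 0 26755368 0) (P.lf 2972816 0 0)))) (P.cons (P.cons (P.lf 385029470 0 0) (P.cons (P.lf 0 55351400 0) (P.cons (P.lf 0 3028600 0) (P.lf 336504 0 0)))) (P.cons (P.cons (P.lf 0 43171758 0) (P.cons (P.lf 121640 0 0) (P.cons (P.lf 6648 0 0) (P.lf 0 736 0)))) (P.cons (P.cons (P.lf 0 1975566 0) (P.cons (P.lf 233696 0 0) (P.cons (P.lf 12784 0 0) P.nil))) (P.cons (P.cons (P.lf 114186 0 0) (P.cons (P.lf 6264 0 0) P.nil)) (P.cons (P.cons (P.lf 7366 0 0) P.nil) P.nil)))))) 3702)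
 EL.nil)
noncomputable def S183_198_364_438_35 : EL := (EL.cons 14 (TM.mk (P.cons (P.cons (P.lf 1027099588 0 0) (P.cons (P.lf 0 338172438 0) (P.cons (P.lf 9332378 0 0) (P.cons (P.lf 5102060 0 0) (P.cons (P.lf 0 255122 0) (P.cons (P.lf 0 18518 0) P.nil)))))) (P.cons (P.cons (P.lf 266278018 0 0) (P.cons (P.lf 0 82115830 0) (P.cons (P.lf 1808770 0 0) (P.cons (P.lf 1188840 0 0) (P.cons (P.lf 0 57756 0) P.nil))))) (P.cons (P.cons (P.lf 0 12598346 0) (P.cons (P.lf 37204 0 0) (P.cons (P.lf 344852 0 0) (P.cons (P.lf 37292 0 0) P.nil)))) (P.cons (P.cons (P.lf 0 5236462 0) (P.cons (P.lf 953820 0 0) (P.cons (P.lf 24012 0 0) P.nil))) (P.cons (P.cons (P.lf 118840 0 0) (P.cons (P.lf 36518 0 0) P.nil)) (P.cons (P.cons (P.lf 35188 0 0) P.nil) P.nil)))))) 38996)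
 EL.nil)
noncomputable def S183_198_364_438_36 : EL := (EL.cons 14 (TM.mk (P.cons (P.lf 0 4063143456 0) (P.cons (P.lf 394862760 0 0) (P.cons (P.lf 10869440 0 0) (P.cons (P.lf 0 203312 0) (P.cons (P.lf 0 14296 0) (P.cons (P.lf 0 40 0) P.nil)))))) 112)
 EL.nil)
noncomputable def S183_198_364_438_37 : EL := (EL.cons 14 (TM.mk (P.cons (P.cons (P.lf 0 1404990880 0) (P.cons (P.lf 231296554 0 0) (P.cons (P.lf 12655614 0 0) (P.lf 0 1406178 0)))) (P.cons (P.cons (P.lf 0 45584364 0) (P.cons (P.lf 3704116 0 0) (P.cons (P.lf 202670 0 0) (P.lf 0 22514 0)))) (P.cons (P.cons (P.lf 41878364 0 0) (P.cons (P.lf 0 3220682 0) (P.cons (P.lf 0 176218 0) (P.lf 19578 0 0)))) (P.cons (P.cons (P.lf 0 633154 0) (P.cons (P.lf 0 163414 0) (P.cons (P.lf 0 8940 0) P.nil))) (P.cons (P.cons (P.lf 0 213508 0) (P.cons (P.lf 10056 0 0) P.nil)) (P.cons (P.cons (P.lf 0 366 0) P.nil) P.nil))))))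 4608)
 EL.nil)
noncomputable def S183_198_364_438_38 : EL := (EL.cons 14 (TM.mk (P.cons (P.cons (P.lf 0 485830586 0) (P.cons (P.lf 159959672 0 0) (P.cons (P.lf 0 4414328 0) (P.cons (P.lf 0 2413336 0) (P.cons (P.lf 120674 0 0) (P.cons (P.lf 8758 0 0) P.nil)))))) (P.cons (P.cons (P.lf 0 78738946 0) (P.cons (P.lf 23296648 0 0) (P.cons (P.lf 0 426578 0) (P.cons (P.lf 0 327802 0) (P.cons (P.lf 15590 0 0) P.nil))))) (P.cons (P.cons (P.lf 19499118 0 0) (P.cons (P.lf 0 4220216 0) (P.cons (P.lf 0 68164 0) (P.cons (P.lf 43464 0 0) P.nil)))) (P.cons (P.cons (P.lf 2210418 0 0) (P.cons (P.lf 0 545360 0) (P.cons (P.lf 6562 0 0) P.nil))) (P.cons (P.cons (P.lf 0 320876 0) (P.cons (P.lf 29124 0 0) P.nil)) (P.cons (P.cons (P.lf 0 17956 0) P.nil) P.nil)))))) 34424)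
 EL.nil)
noncomputable def S183_198_364_438_39 : EL := (EL.cons 14 (TM.mk (P.cons (P.lf 1921916234 0 0) (P.cons (P.lf 0 373549768 0) (P.cons (P.lf 7868326 0 0) (P.cons (P.lf 1191632 0 0) (P.cons (P.lf 8586 0 0) (P.cons (P.lf 0 1790 0) P.nil)))))) 176)
 EL.nil)
noncomputable def S183_198_364_438_40 : EL := (EL.cons 14 (TM.mk (P.cons (P.cons (P.lf 664577760 0 0) (P.cons (P.lf 0 109406080 0) (P.cons (P.lf 0 5986258 0) (P.lf 665138 0 0)))) (P.cons (P.cons (P.lf 0 43022768 0) (P.cons (P.lf 8880164 0 0) (P.cons (P.lf 485886 0 0) (P.lf 0 53988 0)))) (P.cons (P.cons (P.lf 0 23682232 0) (P.cons (P.lf 1986368 0 0) (P.cons (P.lf 108684 0 0) (P.lf 0 12074 0)))) (P.cons (P.cons (P.lf 2200130 0 0) (P.cons (P.lf 0 71538 0) (P.cons (P.lf 0 3914 0) P.nil))) (P.cons (P.cons (P.lf 128296 0 0) (P.cons (P.lf 0 16816 0) P.nil)) (P.cons (P.cons (P.lf 0 11350 0) P.nil) P.nil))))))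 4518)
 EL.nil)
noncomputable def S183_198_364_438_41 : EL := (EL.cons 14 (TM.mk (P.cons (P.cons (P.lf 229803772 0 0) (P.cons (P.lf 0 75662868 0) (P.cons (P.lf 2088030 0 0) (P.cons (P.lf 1141536 0 0) (P.cons (P.lf 0 57080 0) (P.cons (P.lf 0 4142 0) P.nil)))))) (P.cons (P.cons (P.lf 14911782 0 0) (P.cons (P.lf 0 3666560 0) (P.cons (P.lf 0 1140 0) (P.cons (P.lf 44118 0 0) (P.cons (P.lf 0 1826 0) P.nil))))) (P.cons (P.cons (P.lf 0 13457552 0) (P.cons (P.lf 3269524 0 0) (P.cons (P.lf 7046 0 0) (P.cons (P.lf 0 38680 0) P.nil)))) (P.cons (P.cons (P.lf 0 237352 0) (P.cons (P.lf 89658 0 0) (P.cons (P.lf 0 6672 0) P.nil))) (P.cons (P.cons (P.lf 280732 0 0) (P.cons (P.lf 0 45002 0) P.nil)) (P.cons (P.cons (P.lf 0 3786 0) P.nil) P.nil)))))) 24842)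
 EL.nil)
noncomputable def S183_198_364_438_42 : EL := (EL.cons 14 (TM.mk (P.cons (P.lf 0 909089734 0) (P.cons (P.lf 265040370 0 0) (P.cons (P.lf 0 18461242 0) (P.cons (P.lf 0 720132 0) (P.cons (P.lf 66314 0 0) (P.cons (P.lf 3174 0 0) P.nil)))))) 276)
 EL.nil)
noncomputable def S183_198_364_438_43 : EL := (EL.cons 14 (TM.mk (P.cons (P.cons (P.lf 0 314353356 0) (P.cons (P.lf 51750406 0 0) (P.cons (P.lf 2831572 0 0) (P.lf 0 314618 0)))) (P.cons (P.cons (P.lf 50899652 0 0) (P.cons (P.lf 0 9229612 0) (P.cons (P.lf 0 505006 0) (P.lf 56112 0 0)))) (P.cons (P.cons (P.lf 10065246 0 0) (P.cons (P.lf 0 669810 0) (P.cons (P.lf 0 36648 0) (P.lf 4070 0 0)))) (P.cons (P.cons (P.lf 0 2199484 0) (P.cons (P.lf 138974 0 0) (P.cons (P.lf 7604 0 0) P.nil))) (P.cons (P.cons (P.lf 10394 0 0) (P.cons (P.lf 7150 0 0) P.nil)) (P.cons (P.cons (P.lf 14678 0 0) P.nil) P.nil)))))) 5208)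
 EL.nil)
noncomputable def S183_198_364_438_44 : EL := (EL.cons 14 (TM.mk (P.cons (P.cons (P.lf 0 108699976 0) (P.cons (P.lf 35789456 0 0) (P.cons (P.lf 0 987662 0) (P.cons (P.lf 0 539960 0) (P.cons (P.lf 27000 0 0) (P.cons (P.lf 1958 0 0) P.nil)))))) (P.cons (P.cons (P.lf 3510182 0 0) (P.cons (P.lf 0 1743748 0) (P.cons (P.lf 96522 0 0) (P.cons (P.lf 31604 0 0) (P.cons (P.lf 0 1758 0) P.nil))))) (P.cons (P.cons (P.lf 7341838 0 0) (P.cons (P.lf 0 1810810 0) (P.cons (P.lf 0 744 0) (P.cons (P.lf 21768 0 0) P.nil)))) (P.cons (P.cons (P.lf 0 492916 0) (P.cons (P.lf 105034 0 0) (P.cons (P.lf 3428 0 0) P.nil))) (P.cons (P.cons (P.lf 0 161464 0) (P.cons (P.lf 29758 0 0) P.nil)) (P.cons (P.cons (P.lf 14688 0 0) P.nil) P.nil)))))) 21042)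
 EL.nil)
noncomputable def S183_198_364_438_45 : EL := (EL.cons 14 (TM.mk (P.cons (P.cons (P.lf 355159882 0 0) (P.cons (P.lf 0 175404534 0) (P.cons (P.lf 19278534 0 0) (P.cons (P.lf 2641762 0 0) (P.cons (P.lf 0 524758 0) (P.cons (P.lf 0 4542 0) P.nil)))))) (P.cons (P.cons (P.lf 138114070 0 0) (P.cons (P.lf 0 65329164 0) (P.cons (P.lf 6705830 0 0) (P.cons (P.lf 984068 0 0) (P.cons (P.lf 0 182548 0) P.nil))))) (P.cons (P.cons (P.lf 2417042 0 0) (P.cons (P.lf 0 2952352 0) (P.cons (P.lf 621796 0 0) (P.cons (P.lf 43944 0 0) P.nil)))) (P.cons (P.cons (P.lf 0 3949904 0) (P.cons (P.lf 1232948 0 0) (P.cons (P.lf 0 29888 0) P.nil))) (P.cons (P.cons (P.lf 0 177890 0) (P.cons (P.lf 104376 0 0) P.nil)) (P.cons (P.cons (P.lf 51128 0 0) P.nil) P.nil)))))) 111206)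
 EL.nil)
noncomputable def S183_198_364_438_46 : EL := (EL.cons 15 (TM.mk (P.lf 4294967296 0 0) 0)
 EL.nil)
noncomputable def S183_198_364_438_47 : EL := (EL.cons 15 (TM.mk (P.cons (P.cons (P.lf 1485153047 0 0) (P.cons (P.lf 0 244493248 0) (P.cons (P.lf 0 13377684 0) (P.lf 1486408 0 0)))) (P.cons (P.cons (P.lf 192514735 0 0) (P.cons (P.lf 0 27675700 0) (P.cons (P.lf 0 1514300 0) (P.lf 168252 0 0)))) (P.cons (P.cons (P.lf 0 21585879 0) (P.cons (P.lf 60820 0 0) (P.cons (P.lf 3324 0 0) (P.lf 0 368 0)))) (P.cons (P.cons (P.lf 0 987783 0) (P.cons (P.lf 116848 0 0) (P.cons (P.lf 6392 0 0) P.nil))) (P.cons (P.cons (P.lf 57093 0 0) (P.cons (P.lf 3132 0 0) P.nil)) (P.cons (P.cons (P.lf 3683 0 0) P.nil) P.nil)))))) 1851)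
 EL.nil)
noncomputable def S183_198_364_438_48 : EL := (EL.cons 15 (TM.mk (P.cons (P.cons (P.lf 513549794 0 0) (P.cons (P.lf 0 169086219 0) (P.cons (P.lf 4666189 0 0) (P.cons (P.lf 2551030 0 0) (P.cons (P.lf 0 127561 0) (P.cons (P.lf 0 9259 0) P.nil)))))) (P.cons (P.cons (P.lf 133139009 0 0) (P.cons (P.lf 0 41057915 0) (P.cons (P.lf 904385 0 0) (P.cons (P.lf 594420 0 0) (P.cons (P.lf 0 28878 0) P.nil))))) (P.cons (P.cons (P.lf 0 6299173 0) (P.cons (P.lf 18602 0 0) (P.cons (P.lf 172426 0 0) (P.cons (P.lf 18646 0 0) P.nil)))) (P.cons (P.cons (P.lf 0 2618231 0) (P.cons (P.lf 476910 0 0) (P.cons (P.lf 12006 0 0) P.nil))) (P.cons (P.cons (P.lf 59420 0 0) (P.cons (P.lf 18259 0 0) P.nil)) (P.cons (P.cons (P.lf 17594 0 0) P.nil) P.nil)))))) 19498)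
 EL.nil)
noncomputable def S183_198_364_438 : SL := (SL.cons S183_198_364_438_0 (SL.cons S183_198_364_438_1 (SL.cons S183_198_364_438_2 (SL.cons S183_198_364_438_3 (SL.cons S183_198_364_438_4 (SL.cons S183_198_364_438_5 (SL.cons S183_198_364_438_6 (SL.cons S183_198_364_438_7 (SL.cons S183_198_364_438_8 (SL.cons S183_198_364_438_9 (SL.cons S183_198_364_438_10 (SL.cons S183_198_364_438_11 (SL.cons S183_198_364_438_12 (SL.cons S183_198_364_438_13 (SL.cons S183_198_364_438_14 (SL.cons S183_198_364_438_15 (SL.cons S183_198_364_438_16 (SL.cons S183_198_364_438_17 (SL.cons S183_198_364_438_18 (SL.cons S183_198_364_438_19 (SL.cons S183_198_364_438_20 (SL.cons S183_198_364_438_21 (SL.cons S183_198_364_438_22 (SL.cons S183_198_364_438_23 (SL.cons S183_198_364_438_24 (SL.cons S183_198_364_438_25 (SL.cons S183_198_364_438_26 (SL.cons S183_198_364_438_27 (SL.cons S183_198_364_438_28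 (SL.cons S183_198_364_438_29 (SL.cons S183_198_364_438_30 (SL.cons S183_198_364_438_31 (SL.cons S183_198_364_438_32 (SL.cons S183_198_364_438_33 (SL.cons S183_198_364_438_34 (SL.cons S183_198_364_438_35 (SL.cons S183_198_364_438_36 (SL.cons S183_198_364_438_37 (SL.cons S183_198_364_438_38 (SL.cons S183_198_364_438_39 (SL.cons S183_198_364_438_40 (SL.cons S183_198_364_438_41 (SL.cons S183_198_364_438_42 (SL.cons S183_198_364_438_43 (SL.cons S183_198_364_438_44 (SL.cons S183_198_364_438_45 (SL.cons S183_198_364_438_46 (SL.cons S183_198_364_438_47 (SL.cons S183_198_364_438_48 SL.nil)))))))))))))))))))))))))))))))))))))))))))))))))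
noncomputable def S183_198_364_512_0 : EL := (EL.cons 0 (TM.mk (P.cons (P.lf 6766532673 0 0) (P.cons (P.lf 328315225 0 0) (P.cons (P.lf 0 6915520 0) (P.cons (P.lf 0 1047332 0) (P.cons (P.lf 0 7546 0) (P.cons (P.lf 1573 0 0) P.nil)))))) 161)
 (EL.cons 1 (TM.mk (P.cons (P.lf 0 1616469420 0) (P.cons (P.lf 96098353 0 0) (P.cons (P.lf 12687056 0 0) (P.cons (P.lf 0 51723 0) (P.cons (P.lf 0 25867 0) (P.cons (P.lf 0 433 0) P.nil)))))) 140)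
 (EL.cons 5 (TM.mk (P.cons (P.lf 4895566122 0 0) (P.cons (P.lf 0 116734300 0) (P.cons (P.lf 2458850 0 0) (P.cons (P.lf 372384 0 0) (P.cons (P.lf 2686 0 0) (P.cons (P.lf 0 556 0) P.nil)))))) 123)
 (EL.cons 9 (TM.mk (P.lf 6442450944 0 0) 2)
 EL.nil))))
noncomputable def S183_198_364_512_1 : EL := (EL.cons 0 (TM.mk (P.cons (P.cons (P.lf 231729012 0 0) (P.cons (P.lf 0 211070242 0) (P.cons (P.lf 0 14111669 0) (P.lf 4703892 0 0)))) (P.cons (P.cons (P.lf 930999507 0 0) (P.cons (P.lf 0 187043334 0) (P.cons (P.lf 0 12505279 0) (P.lf 4168421 0 0)))) (P.cons (P.cons (P.lf 0 20845797 0) (P.cons (P.lf 0 14978999 0) (P.cons (P.lf 0 1001454 0) (P.lf 333817 0 0)))) (P.cons (P.cons (P.lf 0 10966126 0) (P.cons (P.lf 1050917 0 0) (P.cons (P.lf 70260 0 0) P.nil))) (P.cons (P.cons (P.lf 0 87775 0) (P.cons (P.lf 142481 0 0) P.nil)) (P.cons (P.cons (P.lf 55433 0 0) P.nil) P.nil))))))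 83878)
 (EL.cons 1 (TM.mk (P.cons (P.cons (P.lf 0 961268628 0) (P.cons (P.lf 385092720 0 0) (P.cons (P.lf 25746398 0 0) (P.lf 0 8582127 0)))) (P.cons (P.cons (P.lf 0 17140097 0) (P.cons (P.lf 52255457 0 0) (P.cons (P.lf 3493671 0 0) (P.lf 0 1164551 0)))) (P.cons (P.cons (P.lf 57662467 0 0) (P.cons (P.lf 0 7059791 0) (P.cons (P.lf 0 471996 0) (P.lf 157329 0 0)))) (P.cons (P.cons (P.lf 504231 0 0) (P.cons (P.lf 0 960407 0) (P.cons (P.lf 0 64201 0) P.nil))) (P.cons (P.cons (P.lf 0 464950 0) (P.cons (P.lf 15969 0 0) P.nil)) (P.cons (P.cons (P.lf 0 11636 0) P.nil) P.nil)))))) 47216)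
 (EL.cons 5 (TM.mk (P.cons (P.cons (P.lf 2006513948 0 0) (P.cons (P.lf 0 832036758 0) (P.cons (P.lf 0 55628038 0) (P.lf 18542678 0 0)))) (P.cons (P.cons (P.lf 0 53083963 0) (P.cons (P.lf 0 36174146 0) (P.cons (P.lf 0 2418524 0) (P.lf 806178 0 0)))) (P.cons (P.cons (P.lf 0 29175736 0) (P.cons (P.lf 5551508 0 0) (P.cons (P.lf 371152 0 0) (P.lf 0 123714 0)))) (P.cons (P.cons (P.lf 2428123 0 0) (P.cons (P.lf 59864 0 0) (P.cons (P.lf 4008 0 0) P.nil))) (P.cons (P.cons (P.lf 133861 0 0) (P.cons (P.lf 0 39026 0) P.nil)) (P.cons (P.cons (P.lf 0 13809 0) P.nil) P.nil)))))) 46341)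
 (EL.cons 9 (TM.mk (P.cons (P.cons (P.lf 1843152778 0 0) (P.cons (P.lf 0 800368194 0) (P.cons (P.lf 0 53510754 0) (P.lf 17836914 0 0)))) (P.cons (P.cons (P.lf 245239480 0 0) (P.cons (P.lf 0 90598614 0) (P.cons (P.lf 0 6057210 0) (P.lf 2019066 0 0)))) (P.cons (P.cons (P.lf 0 32283148 0) (P.cons (P.lf 199098 0 0) (P.cons (P.lf 13308 0 0) (P.lf 0 4434 0)))) (P.cons (P.cons (P.lf 0 1297876 0) (P.cons (P.lf 382512 0 0) (P.cons (P.lf 25572 0 0) P.nil))) (P.cons (P.cons (P.lf 90571 0 0) (P.cons (P.lf 10260 0 0) P.nil)) (P.cons (P.cons (P.lf 5194 0 0) P.nil) P.nil)))))) 11651)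
 (EL.cons 2 (TM.mk (P.cons (P.cons (P.lf 954391190 0 0) (P.cons (P.lf 147763721 0 0) (P.cons (P.lf 0 71187899 0) (P.cons (P.lf 0 2693955 0) (P.lf 673486 0 0))))) (P.cons (P.cons (P.lf 0 20726966 0) (P.cons (P.lf 0 3209054 0) (P.cons (P.lf 1546020 0 0) (P.cons (P.lf 58505 0 0) (P.lf 0 14625 0))))) (P.cons (P.cons (P.lf 0 11069412 0) (P.cons (P.lf 0 1713819 0) (P.cons (P.lf 825665 0 0) (P.cons (P.lf 31244 0 0) P.nil)))) (P.cons (P.cons (P.lf 0 227233 0) (P.cons (P.lf 0 35178 0) (P.cons (P.lf 16948 0 0) P.nil))) (P.cons (P.cons (P.lf 31691 0 0) (P.cons (P.lf 4905 0 0) P.nil)) (P.cons (P.cons (P.lf 1302 0 0) P.nil) P.nil)))))) 13397)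
 (EL.cons 6 (TM.mk (P.cons (P.cons (P.lf 913307253 0 0) (P.cons (P.lf 141402897 0 0) (P.cons (P.lf 0 68123454 0) (P.cons (P.lf 0 2577990 0) (P.lf 644496 0 0))))) (P.cons (P.cons (P.lf 103382889 0 0) (P.cons (P.lf 16006266 0 0) (P.cons (P.lf 0 7711314 0) (P.cons (P.lf 0 291816 0) (P.lf 72951 0 0))))) (P.cons (P.cons (P.lf 0 227193 0) (P.cons (P.lf 0 35172 0) (P.cons (P.lf 16944 0 0) (P.cons (P.lf 639 0 0) P.nil)))) (P.cons (P.cons (P.lf 0 436488 0) (P.cons (P.lf 0 67578 0) (P.cons (P.lf 32556 0 0) P.nil))) (P.cons (P.cons (P.lf 0 11712 0) (P.cons (P.lf 0 1812 0) P.nil)) (P.cons (P.cons (P.lf 780 0 0) P.nil) P.nil)))))) 7164)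
 EL.nil))))))
noncomputable def S183_198_364_512_2 : EL := (EL.cons 0 (TM.mk (P.cons (P.cons (P.lf 0 421249911 0) (P.cons (P.lf 302650746 0 0) (P.cons (P.lf 0 31755893 0) (P.cons (P.lf 0 13696753 0) (P.cons (P.lf 2084898 0 0) (P.cons (P.lf 154921 0 0) P.nil)))))) (P.cons (P.cons (P.lf 376095489 0 0) (P.cons (P.lf 0 219148885 0) (P.cons (P.lf 9048418 0 0) (P.cons (P.lf 8053005 0 0) (P.cons (P.lf 0 950422 0) P.nil))))) (P.cons (P.cons (P.lf 59640388 0 0) (P.cons (P.lf 0 37731061 0) (P.cons (P.lf 4120178 0 0) (P.cons (P.lf 1729101 0 0) P.nil)))) (P.cons (P.cons (P.lf 0 13222206 0) (P.cons (P.lf 3019871 0 0) (P.cons (P.lf 409076 0 0) P.nil))) (P.cons (P.cons (P.lf 0 988617 0) (P.cons (P.lf 679787 0 0) P.nil)) (P.cons (P.cons (P.lf 135120 0 0) P.nil) P.nil)))))) 1198555)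
 (EL.cons 1 (TM.mk (P.cons (P.cons (P.lf 0 417719676 0) (P.cons (P.lf 344282715 0 0) (P.cons (P.lf 0 47716362 0) (P.cons (P.lf 0 17130904 0) (P.cons (P.lf 2836571 0 0) (P.cons (P.lf 210778 0 0) P.nil)))))) (P.cons (P.cons (P.lf 0 55648260 0) (P.cons (P.lf 69048241 0 0) (P.cons (P.lf 0 15033297 0) (P.cons (P.lf 0 4166256 0) (P.cons (P.lf 787978 0 0) P.nil))))) (P.cons (P.cons (P.lf 35898752 0 0) (P.cons (P.lf 0 14930575 0) (P.cons (P.lf 0 914326 0) (P.cons (P.lf 343951 0 0) P.nil)))) (P.cons (P.cons (P.lf 4298737 0 0) (P.cons (P.lf 0 3060744 0) (P.cons (P.lf 194466 0 0) P.nil))) (P.cons (P.cons (P.lf 0 727889 0) (P.cons (P.lf 81121 0 0) P.nil)) (P.cons (P.cons (P.lf 0 61513 0) P.nil) P.nil)))))) 643342)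
 (EL.cons 5 (TM.mk (P.cons (P.cons (P.lf 747403379 0 0) (P.cons (P.lf 0 626633459 0) (P.cons (P.lf 89280422 0 0) (P.cons (P.lf 31505280 0 0) (P.cons (P.lf 0 5260382 0) (P.cons (P.lf 0 390892 0) P.nil)))))) (P.cons (P.cons (P.lf 25310534 0 0) (P.cons (P.lf 0 49890409 0) (P.cons (P.lf 13749900 0 0) (P.cons (P.lf 3396455 0 0) (P.cons (P.lf 0 685157 0) P.nil))))) (P.cons (P.cons (P.lf 0 31560468 0) (P.cons (P.lf 14818254 0 0) (P.cons (P.lf 16716 0 0) (P.cons (P.lf 0 460460 0) P.nil)))) (P.cons (P.cons (P.lf 1074065 0 0) (P.cons (P.lf 586032 0 0) (P.cons (P.lf 0 148538 0) P.nil))) (P.cons (P.cons (P.lf 481592 0 0) (P.cons (P.lf 0 188425 0) P.nil)) (P.cons (P.cons (P.lf 0 22110 0) P.nil) P.nil)))))) 733634)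
 (EL.cons 9 (TM.mk (P.cons (P.cons (P.lf 527316729 0 0) (P.cons (P.lf 0 457962621 0) (P.cons (P.lf 68814222 0 0) (P.cons (P.lf 23501758 0 0) (P.cons (P.lf 0 3987426 0) (P.cons (P.lf 0 296304 0) P.nil)))))) (P.cons (P.cons (P.lf 140323560 0 0) (P.cons (P.lf 0 112773529 0) (P.cons (P.lf 14970990 0 0) (P.cons (P.lf 5523289 0 0) (P.cons (P.lf 0 902721 0) P.nil))))) (P.cons (P.cons (P.lf 0 9136762 0) (P.cons (P.lf 1237732 0 0) (P.cons (P.lf 1307346 0 0) (P.cons (P.lf 136165 0 0) P.nil)))) (P.cons (P.cons (P.lf 0 3200422 0) (P.cons (P.lf 1464486 0 0) (P.cons (P.lf 0 2730 0) P.nil))) (P.cons (P.cons (P.lf 114784 0 0) (P.cons (P.lf 46995 0 0) P.nil)) (P.cons (P.cons (P.lf 22873 0 0) P.nil) P.nil)))))) 286856)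
 (EL.cons 2 (TM.mk (P.cons (P.cons (P.lf 546093028 0 0) (P.cons (P.lf 0 152585786 0) (P.cons (P.lf 0 93301678 0) (P.cons (P.lf 18976500 0 0) (P.cons (P.lf 3055500 0 0) (P.cons (P.lf 0 516774 0) P.nil)))))) (P.cons (P.cons (P.lf 60800281 0 0) (P.cons (P.lf 0 12279358 0) (P.cons (P.lf 0 9343991 0) (P.cons (P.lf 1705331 0 0) (P.cons (P.lf 287161 0 0) P.nil))))) (P.cons (P.cons (P.lf 0 17476711 0) (P.cons (P.lf 686491 0 0) (P.cons (P.lf 2055600 0 0) (P.cons (P.lf 0 244186 0) P.nil)))) (P.cons (P.cons (P.lf 0 1149570 0) (P.cons (P.lf 301860 0 0) (P.cons (P.lf 192116 0 0) P.nil))) (P.cons (P.cons (P.lf 146953 0 0) (P.cons (P.lf 21161 0 0) P.nil)) (P.cons (P.cons (P.lf 10850 0 0) P.nil) P.nil)))))) 255560)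
 (EL.cons 6 (TM.mk (P.cons (P.cons (P.lf 522585210 0 0) (P.cons (P.lf 0 146017386 0) (P.cons (P.lf 0 89285292 0) (P.cons (P.lf 18159612 0 0) (P.cons (P.lf 2923968 0 0) (P.cons (P.lf 0 494526 0) P.nil)))))) (P.cons (P.cons (P.lf 128686878 0 0) (P.cons (P.lf 0 31450506 0) (P.cons (P.lf 0 20987568 0) (P.cons (P.lf 4081902 0 0) (P.cons (P.lf 669282 0 0) P.nil))))) (P.cons (P.cons (P.lf 0 1412388 0) (P.cons (P.lf 0 3013464 0) (P.cons (P.lf 0 514206 0) (P.cons (P.lf 245802 0 0) P.nil)))) (P.cons (P.cons (P.lf 0 1671138 0) (P.cons (P.lf 0 29046 0) (P.cons (P.lf 175560 0 0) P.nil))) (P.cons (P.cons (P.lf 0 53628 0) (P.cons (P.lf 22050 0 0) P.nil)) (P.cons (P.cons (P.lf 8394 0 0) P.nil) P.nil)))))) 308712)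
 EL.nil))))))
noncomputable def S183_198_364_512_3 : EL := (EL.cons 0 (TM.mk (P.cons (P.lf 1689184190 0 0) (P.cons (P.lf 0 328315225 0) (P.cons (P.lf 6915520 0 0) (P.cons (P.lf 1047332 0 0) (P.cons (P.lf 7546 0 0) (P.cons (P.lf 0 1573 0) P.nil)))))) 161)
 (EL.cons 1 (TM.mk (P.cons (P.lf 1616469420 0 0) (P.cons (P.lf 0 96098353 0) (P.cons (P.lf 0 12687056 0) (P.cons (P.lf 51723 0 0) (P.cons (P.lf 25867 0 0) (P.cons (P.lf 433 0 0) P.nil)))))) 140)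
 (EL.cons 5 (TM.mk (P.cons (P.lf 1546884822 0 0) (P.cons (P.lf 116734300 0 0) (P.cons (P.lf 0 2458850 0) (P.cons (P.lf 0 372384 0) (P.cons (P.lf 0 2686 0) (P.cons (P.lf 556 0 0) P.nil)))))) 116)
 EL.nil)))
noncomputable def S183_198_364_512_4 : EL := (EL.cons 0 (TM.mk (P.cons (P.cons (P.lf 483267091 0 0) (P.cons (P.lf 0 209853253 0) (P.cons (P.lf 0 14030298 0) (P.lf 4676765 0 0)))) (P.cons (P.cons (P.lf 0 29628546 0) (P.cons (P.lf 17033162 0 0) (P.cons (P.lf 1138797 0 0) (P.lf 0 379599 0)))) (P.cons (P.cons (P.lf 0 18983717 0) (P.cons (P.lf 3810079 0 0) (P.cons (P.lf 254731 0 0) (P.lf 0 84909 0)))) (P.cons (P.cons (P.lf 1867774 0 0) (P.cons (P.lf 0 137216 0) (P.cons (P.lf 0 9174 0) P.nil))) (P.cons (P.cons (P.lf 97261 0 0) (P.cons (P.lf 0 32254 0) P.nil)) (P.cons (P.cons (P.lf 0 10056 0) P.nil) P.nil)))))) 13925)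
 (EL.cons 1 (TM.mk (P.cons (P.cons (P.lf 462463760 0 0) (P.cons (P.lf 0 200819643 0) (P.cons (P.lf 0 13426331 0) (P.lf 4475443 0 0)))) (P.cons (P.cons (P.lf 34039554 0 0) (P.cons (P.lf 0 10793379 0) (P.cons (P.lf 0 721618 0) (P.lf 240538 0 0)))) (P.cons (P.cons (P.lf 0 15387933 0) (P.cons (P.lf 2977518 0 0) (P.cons (P.lf 199066 0 0) (P.lf 0 66354 0)))) (P.cons (P.cons (P.lf 0 312249 0) (P.cons (P.lf 264993 0 0) (P.cons (P.lf 17715 0 0) P.nil))) (P.cons (P.cons (P.lf 115027 0 0) (P.cons (P.lf 0 7462 0) P.nil)) (P.cons (P.cons (P.lf 3358 0 0) P.nil) P.nil)))))) 11392)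
 (EL.cons 5 (TM.mk (P.cons (P.cons (P.lf 442555958 0 0) (P.cons (P.lf 0 192174906 0) (P.cons (P.lf 0 12848366 0) (P.lf 4282786 0 0)))) (P.cons (P.cons (P.lf 92281086 0 0) (P.cons (P.lf 0 36255772 0) (P.cons (P.lf 0 2423974 0) (P.lf 807990 0 0)))) (P.cons (P.cons (P.lf 0 4011282 0) (P.cons (P.lf 0 1288328 0) (P.cons (P.lf 0 86134 0) (P.lf 28710 0 0)))) (P.cons (P.cons (P.lf 0 1096722 0) (P.cons (P.lf 176290 0 0) (P.cons (P.lf 11784 0 0) P.nil))) (P.cons (P.cons (P.lf 0 4392 0) (P.cons (P.lf 14888 0 0) P.nil)) (P.cons (P.cons (P.lf 5306 0 0) P.nil) P.nil)))))) 8002)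
 EL.nil)))
noncomputable def S183_198_364_512_5 : EL := (EL.cons 0 (TM.mk (P.cons (P.cons (P.lf 138260279 0 0) (P.cons (P.lf 0 120075918 0) (P.cons (P.lf 18042806 0 0) (P.cons (P.lf 6162064 0 0) (P.cons (P.lf 0 1045485 0) (P.cons (P.lf 0 77688 0) P.nil)))))) (P.cons (P.cons (P.lf 9919550 0 0) (P.cons (P.lf 0 6230416 0) (P.cons (P.lf 418473 0 0) (P.cons (P.lf 250504 0 0) (P.cons (P.lf 0 33484 0) P.nil))))) (P.cons (P.cons (P.lf 0 8980644 0) (P.cons (P.lf 5580014 0 0) (P.cons (P.lf 0 346290 0) (P.cons (P.lf 0 220543 0) P.nil)))) (P.cons (P.cons (P.lf 0 137163 0) (P.cons (P.lf 125400 0 0) (P.cons (P.lf 0 40081 0) P.nil))) (P.cons (P.cons (P.lf 206815 0 0) (P.cons (P.lf 0 79850 0) P.nil)) (P.cons (P.cons (P.lf 0 4737 0) P.nil) P.nil)))))) 186550)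
 (EL.cons 1 (TM.mk (P.cons (P.cons (P.lf 132308551 0 0) (P.cons (P.lf 0 114906976 0) (P.cons (P.lf 17266111 0 0) (P.cons (P.lf 5896803 0 0) (P.cons (P.lf 0 1000479 0) (P.cons (P.lf 0 74343 0) P.nil)))))) (P.cons (P.cons (P.lf 27342772 0 0) (P.cons (P.lf 0 21464733 0) (P.cons (P.lf 2729893 0 0) (P.cons (P.lf 1035279 0 0) (P.cons (P.lf 0 167021 0) P.nil))))) (P.cons (P.cons (P.lf 0 5424061 0) (P.cons (P.lf 2894596 0 0) (P.cons (P.lf 0 30802 0) (P.cons (P.lf 0 94503 0) P.nil)))) (P.cons (P.cons (P.lf 0 938829 0) (P.cons (P.lf 567395 0 0) (P.cons (P.lf 0 49113 0) P.nil))) (P.cons (P.cons (P.lf 97775 0 0) (P.cons (P.lf 0 15234 0) P.nil)) (P.cons (P.cons (P.lf 10854 0 0) P.nil) P.nil)))))) 148700)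
 (EL.cons 5 (TM.mk (P.cons (P.cons (P.lf 126613030 0 0) (P.cons (P.lf 0 109960546 0) (P.cons (P.lf 16522852 0 0) (P.cons (P.lf 5642962 0 0) (P.cons (P.lf 0 957412 0) (P.cons (P.lf 0 71144 0) P.nil)))))) (P.cons (P.cons (P.lf 43247566 0 0) (P.cons (P.lf 0 35375916 0) (P.cons (P.lf 4841538 0 0) (P.cons (P.lf 1752026 0 0) (P.cons (P.lf 0 289000 0) P.nil))))) (P.cons (P.cons (P.lf 147530 0 0) (P.cons (P.lf 0 1571426 0) (P.cons (P.lf 558906 0 0) (P.cons (P.lf 123802 0 0) P.nil)))) (P.cons (P.cons (P.lf 0 1018036 0) (P.cons (P.lf 443574 0 0) (P.cons (P.lf 13340 0 0) P.nil))) (P.cons (P.cons (P.lf 0 35272 0) (P.cons (P.lf 44056 0 0) P.nil)) (P.cons (P.cons (P.lf 9308 0 0) P.nil) P.nil)))))) 117006)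
 EL.nil)))
noncomputable def S183_198_364_512_6 : EL := (EL.cons 12 (TM.mk (P.lf 8589934592 0 0) 0)
 (EL.cons 3 (TM.mk (P.cons (P.lf 0 1904598495 0) (P.cons (P.lf 185091918 0 0) (P.cons (P.lf 5095050 0 0) (P.cons (P.lf 0 95302 0) (P.cons (P.lf 0 6701 0) (P.cons (P.lf 0 18 0) P.nil)))))) 59)
 (EL.cons 7 (TM.mk (P.cons (P.lf 0 1822610727 0) (P.cons (P.lf 0 68770857 0) (P.cons (P.lf 2745999 0 0) (P.cons (P.lf 115768 0 0) (P.cons (P.lf 0 717 0) (P.cons (P.lf 0 127 0) P.nil)))))) 49)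
 EL.nil)))
noncomputable def S183_198_364_512_7 : EL := (EL.cons 12 (TM.mk (P.cons (P.cons (P.lf 2457537038 0 0) (P.cons (P.lf 0 1067157592 0) (P.cons (P.lf 0 71347672 0) (P.lf 23782552 0 0)))) (P.cons (P.cons (P.lf 326985974 0 0) (P.cons (P.lf 0 120798152 0) (P.cons (P.lf 0 8076280 0) (P.lf 2692088 0 0)))) (P.cons (P.cons (P.lf 0 43044198 0) (P.cons (P.lf 265464 0 0) (P.cons (P.lf 17744 0 0) (P.lf 0 5912 0)))) (P.cons (P.cons (P.lf 0 1730502 0) (P.cons (P.lf 510016 0 0) (P.cons (P.lf 34096 0 0) P.nil))) (P.cons (P.cons (P.lf 120762 0 0) (P.cons (P.lf 13680 0 0) P.nil)) (P.cons (P.cons (P.lf 6926 0 0) P.nil) P.nil)))))) 15510)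
 (EL.cons 3 (TM.mk (P.cons (P.cons (P.lf 1376567682 0 0) (P.cons (P.lf 0 473229852 0) (P.cons (P.lf 0 31639044 0) (P.lf 10546346 0 0)))) (P.cons (P.cons (P.lf 0 486210520 0) (P.cons (P.lf 0 7578572 0) (P.cons (P.lf 0 506682 0) (P.lf 168892 0 0)))) (P.cons (P.cons (P.lf 0 25029889 0) (P.cons (P.lf 6589474 0 0) (P.cons (P.lf 440552 0 0) (P.lf 0 146850 0)))) (P.cons (P.cons (P.lf 2429965 0 0) (P.cons (P.lf 334346 0 0) (P.cons (P.lf 22350 0 0) P.nil))) (P.cons (P.cons (P.lf 202356 0 0) (P.cons (P.lf 0 20572 0) P.nil)) (P.cons (P.cons (P.lf 0 3026 0) P.nil) P.nil)))))) 31522)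
 (EL.cons 7 (TM.mk (P.cons (P.cons (P.lf 0 1235359139 0) (P.cons (P.lf 490171959 0 0) (P.cons (P.lf 32771758 0 0) (P.lf 0 10923921 0)))) (P.cons (P.cons (P.lf 180651400 0 0) (P.cons (P.lf 2815822 0 0) (P.cons (P.lf 188260 0 0) (P.lf 0 62756 0)))) (P.cons (P.cons (P.lf 0 2886314 0) (P.cons (P.lf 0 2638264 0) (P.cons (P.lf 0 176388 0) (P.lf 58795 0 0)))) (P.cons (P.cons (P.lf 0 1503120 0) (P.cons (P.lf 99660 0 0) (P.cons (P.lf 6661 0 0) P.nil))) (P.cons (P.cons (P.lf 23670 0 0) (P.cons (P.lf 15243 0 0) P.nil)) (P.cons (P.cons (P.lf 6564 0 0) P.nil) P.nil)))))) 28310)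
 (EL.cons 10 (TM.mk (P.cons (P.cons (P.lf 0 2152201089 0) (P.cons (P.lf 0 333214773 0) (P.cons (P.lf 160532370 0 0) (P.cons (P.lf 6075015 0 0) (P.lf 0 1518753 0))))) (P.cons (P.cons (P.lf 0 162413958 0) (P.cons (P.lf 0 25145757 0) (P.cons (P.lf 12114432 0 0) (P.cons (P.lf 458445 0 0) (P.lf 0 114609 0))))) (P.cons (P.cons (P.lf 3421029 0 0) (P.cons (P.lf 529659 0 0) (P.cons (P.lf 0 255174 0) (P.cons (P.lf 0 9654 0) P.nil)))) (P.cons (P.cons (P.lf 518100 0 0) (P.cons (P.lf 80214 0 0) (P.cons (P.lf 0 38643 0) P.nil))) (P.cons (P.cons (P.lf 3735 0 0) (P.cons (P.lf 576 0 0) P.nil)) (P.cons (P.cons (P.lf 0 771 0) P.nil) P.nil)))))) 5019)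
 EL.nil))))
noncomputable def S183_198_364_512_8 : EL := (EL.cons 12 (TM.mk (P.cons (P.cons (P.lf 703088972 0 0) (P.cons (P.lf 0 610616828 0) (P.cons (P.lf 91752296 0 0) (P.cons (P.lf 31335678 0 0) (P.cons (P.lf 0 5316568 0) (P.cons (P.lf 0 395072 0) P.nil)))))) (P.cons (P.cons (P.lf 187098080 0 0) (P.cons (P.lf 0 150364706 0) (P.cons (P.lf 19961320 0 0) (P.cons (P.lf 7364386 0 0) (P.cons (P.lf 0 1203628 0) P.nil))))) (P.cons (P.cons (P.lf 0 12182350 0) (P.cons (P.lf 1650310 0 0) (P.cons (P.lf 1743128 0 0) (P.cons (P.lf 181554 0 0) P.nil)))) (P.cons (P.cons (P.lf 0 4267230 0) (P.cons (P.lf 1952648 0 0) (P.cons (P.lf 0 3640 0) P.nil))) (P.cons (P.cons (P.lf 153046 0 0) (P.cons (P.lf 62660 0 0) P.nil)) (P.cons (P.cons (P.lf 30498 0 0) P.nil) P.nil)))))) 382446)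
 (EL.cons 3 (TM.mk (P.cons (P.cons (P.lf 943550177 0 0) (P.cons (P.lf 0 748197656 0) (P.cons (P.lf 96954744 0 0) (P.cons (P.lf 36327391 0 0) (P.cons (P.lf 0 5894066 0) (P.cons (P.lf 0 437986 0) P.nil)))))) (P.cons (P.cons (P.lf 0 147069035 0) (P.cons (P.lf 21543859 0 0) (P.cons (P.lf 20431446 0 0) (P.cons (P.lf 2059263 0 0) (P.cons (P.lf 0 761570 0) P.nil))))) (P.cons (P.cons (P.lf 0 72283832 0) (P.cons (P.lf 31883355 0 0) (P.cons (P.lf 314932 0 0) (P.cons (P.lf 0 953461 0) P.nil)))) (P.cons (P.cons (P.lf 3016154 0 0) (P.cons (P.lf 1673028 0 0) (P.cons (P.lf 0 294486 0) P.nil))) (P.cons (P.cons (P.lf 921972 0 0) (P.cons (P.lf 0 267430 0) P.nil)) (P.cons (P.cons (P.lf 0 6031 0) P.nil) P.nil)))))) 751981)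
 (EL.cons 7 (TM.mk (P.cons (P.cons (P.lf 0 557678771 0) (P.cons (P.lf 457856859 0 0) (P.cons (P.lf 0 63050197 0) (P.cons (P.lf 0 22727718 0) (P.cons (P.lf 3755990 0 0) (P.cons (P.lf 279102 0 0) P.nil)))))) (P.cons (P.cons (P.lf 54643465 0 0) (P.cons (P.lf 0 8004612 0) (P.cons (P.lf 0 7591296 0) (P.cons (P.lf 0 765126 0) (P.cons (P.lf 282967 0 0) P.nil))))) (P.cons (P.cons (P.lf 23170965 0 0) (P.cons (P.lf 0 11306290 0) (P.cons (P.lf 395069 0 0) (P.cons (P.lf 405869 0 0) P.nil)))) (P.cons (P.cons (P.lf 0 3464794 0) (P.cons (P.lf 433392 0 0) (P.cons (P.lf 110013 0 0) P.nil))) (P.cons (P.cons (P.lf 0 179742 0) (P.cons (P.lf 139502 0 0) P.nil)) (P.cons (P.cons (P.lf 34124 0 0) P.nil) P.nil)))))) 430048)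
 (EL.cons 10 (TM.mk (P.cons (P.cons (P.lf 0 1231467786 0) (P.cons (P.lf 344088786 0 0) (P.cons (P.lf 210400074 0 0) (P.cons (P.lf 0 42792990 0) (P.cons (P.lf 0 6890316 0) (P.cons (P.lf 1165356 0 0) P.nil)))))) (P.cons (P.cons (P.lf 0 256783764 0) (P.cons (P.lf 61129686 0 0) (P.cons (P.lf 41518206 0 0) (P.cons (P.lf 0 8004306 0) (P.cons (P.lf 0 1317180 0) P.nil))))) (P.cons (P.cons (P.lf 11161896 0 0) (P.cons (P.lf 5313078 0 0) (P.cons (P.lf 0 37842 0) (P.cons (P.lf 0 341688 0) P.nil)))) (P.cons (P.cons (P.lf 3051768 0 0) (P.cons (P.lf 0 18060 0) (P.cons (P.lf 0 336372 0) P.nil))) (P.cons (P.cons (P.lf 12216 0 0) (P.cons (P.lf 0 39534 0) P.nil)) (P.cons (P.cons (P.lf 0 14760 0) P.nil) P.nil)))))) 549552)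
 EL.nil))))
noncomputable def S183_198_364_512_9 : EL := (EL.cons 3 (TM.mk (P.cons (P.lf 0 1904598495 0) (P.cons (P.lf 185091918 0 0) (P.cons (P.lf 5095050 0 0) (P.cons (P.lf 0 95302 0) (P.cons (P.lf 0 6701 0) (P.cons (P.lf 0 18 0) P.nil)))))) 59)
 (EL.cons 7 (TM.mk (P.cons (P.lf 0 1822610727 0) (P.cons (P.lf 0 68770857 0) (P.cons (P.lf 2745999 0 0) (P.cons (P.lf 115768 0 0) (P.cons (P.lf 0 717 0) (P.cons (P.lf 0 127 0) P.nil)))))) 49)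
 EL.nil))
noncomputable def S183_198_364_512_10 : EL := (EL.cons 3 (TM.mk (P.cons (P.cons (P.lf 0 544896039 0) (P.cons (P.lf 236614926 0 0) (P.cons (P.lf 15819522 0 0) (P.lf 0 5273173 0)))) (P.cons (P.cons (P.lf 0 19546918 0) (P.cons (P.lf 3789286 0 0) (P.cons (P.lf 253341 0 0) (P.lf 0 84446 0)))) (P.cons (P.cons (P.lf 18047360 0 0) (P.cons (P.lf 0 3294737 0) (P.cons (P.lf 0 220276 0) (P.lf 73425 0 0)))) (P.cons (P.cons (P.lf 0 377117 0) (P.cons (P.lf 0 167173 0) (P.cons (P.lf 0 11175 0) P.nil))) (P.cons (P.cons (P.lf 0 95139 0) (P.cons (P.lf 10286 0 0) P.nil)) (P.cons (P.cons (P.lf 256 0 0) P.nil) P.nil)))))) 7797)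
 (EL.cons 7 (TM.mk (P.cons (P.cons (P.lf 0 521439752 0) (P.cons (P.lf 226429299 0 0) (P.cons (P.lf 15138535 0 0) (P.lf 0 5046177 0)))) (P.cons (P.cons (P.lf 0 89054819 0) (P.cons (P.lf 34174573 0 0) (P.cons (P.lf 2284831 0 0) (P.lf 0 761609 0)))) (P.cons (P.cons (P.lf 7300882 0 0) (P.cons (P.lf 569636 0 0) (P.cons (P.lf 38085 0 0) (P.lf 0 12695 0)))) (P.cons (P.cons (P.lf 849438 0 0) (P.cons (P.lf 0 163338 0) (P.cons (P.lf 0 10919 0) P.nil))) (P.cons (P.cons (P.lf 0 21327 0) (P.cons (P.lf 0 8439 0) P.nil)) (P.cons (P.cons (P.lf 0 3633 0) P.nil) P.nil)))))) 5584)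
 EL.nil))
noncomputable def S183_198_364_512_11 : EL := (EL.cons 3 (TM.mk (P.cons (P.cons (P.lf 0 155892013 0) (P.cons (P.lf 135388678 0 0) (P.cons (P.lf 0 20343726 0) (P.cons (P.lf 0 6947885 0) (P.cons (P.lf 1178812 0 0) (P.cons (P.lf 87596 0 0) P.nil)))))) (P.cons (P.cons (P.lf 0 26334383 0) (P.cons (P.lf 20182243 0 0) (P.cons (P.lf 0 2448876 0) (P.cons (P.lf 0 957657 0) (P.cons (P.lf 152314 0 0) P.nil))))) (P.cons (P.cons (P.lf 7149658 0 0) (P.cons (P.lf 0 3968085 0) (P.cons (P.lf 98044 0 0) (P.cons (P.lf 137015 0 0) P.nil)))) (P.cons (P.cons (P.lf 786824 0 0) (P.cons (P.lf 0 479802 0) (P.cons (P.lf 49188 0 0) P.nil))) (P.cons (P.cons (P.lf 0 135732 0) (P.cons (P.lf 31304 0 0) P.nil)) (P.cons (P.cons (P.lf 0 6007 0) P.nil) P.nil)))))) 145785)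
 (EL.cons 7 (TM.mk (P.cons (P.cons (P.lf 0 149181287 0) (P.cons (P.lf 129560565 0 0) (P.cons (P.lf 0 19467985 0) (P.cons (P.lf 0 6648798 0) (P.cons (P.lf 1128068 0 0) (P.cons (P.lf 83826 0 0) P.nil)))))) (P.cons (P.cons (P.lf 0 45327353 0) (P.cons (P.lf 36792942 0 0) (P.cons (P.lf 0 4969956 0) (P.cons (P.lf 0 1813446 0) (P.cons (P.lf 297949 0 0) P.nil))))) (P.cons (P.cons (P.lf 1311705 0 0) (P.cons (P.lf 658454 0 0) (P.cons (P.lf 0 500335 0) (P.cons (P.lf 0 87463 0) P.nil)))) (P.cons (P.cons (P.lf 1072238 0 0) (P.cons (P.lf 0 483822 0) (P.cons (P.lf 0 5565 0) P.nil))) (P.cons (P.cons (P.lf 258 0 0) (P.cons (P.lf 0 30376 0) P.nil)) (P.cons (P.cons (P.lf 0 9250 0) P.nil) P.nil)))))) 106344)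
 EL.nil))
noncomputable def S183_198_364_512_12 : EL := (EL.cons 4 (TM.mk (P.cons (P.lf 1904598495 0 0) (P.cons (P.lf 0 185091918 0) (P.cons (P.lf 0 5095050 0) (P.cons (P.lf 95302 0 0) (P.cons (P.lf 6701 0 0) (P.cons (P.lf 18 0 0) P.nil)))))) 59)
 (EL.cons 8 (TM.mk (P.cons (P.lf 1822610727 0 0) (P.cons (P.lf 68770857 0 0) (P.cons (P.lf 0 2745999 0) (P.cons (P.lf 0 115768 0) (P.cons (P.lf 717 0 0) (P.cons (P.lf 127 0 0) P.nil)))))) 49)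
 EL.nil))
noncomputable def S183_198_364_512_13 : EL := (EL.cons 4 (TM.mk (P.cons (P.cons (P.lf 544896039 0 0) (P.cons (P.lf 0 236614926 0) (P.cons (P.lf 0 15819522 0) (P.lf 5273173 0 0)))) (P.cons (P.cons (P.lf 19546918 0 0) (P.cons (P.lf 0 3789286 0) (P.cons (P.lf 0 253341 0) (P.lf 84446 0 0)))) (P.cons (P.cons (P.lf 0 18047360 0) (P.cons (P.lf 3294737 0 0) (P.cons (P.lf 220276 0 0) (P.lf 0 73425 0)))) (P.cons (P.cons (P.lf 377117 0 0) (P.cons (P.lf 167173 0 0) (P.cons (P.lf 11175 0 0) P.nil))) (P.cons (P.cons (P.lf 95139 0 0) (P.cons (P.lf 0 10286 0) P.nil)) (P.cons (P.cons (P.lf 0 256 0) P.nil) P.nil)))))) 7797)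
 (EL.cons 8 (TM.mk (P.cons (P.cons (P.lf 521439752 0 0) (P.cons (P.lf 0 226429299 0) (P.cons (P.lf 0 15138535 0) (P.lf 5046177 0 0)))) (P.cons (P.cons (P.lf 89054819 0 0) (P.cons (P.lf 0 34174573 0) (P.cons (P.lf 0 2284831 0) (P.lf 761609 0 0)))) (P.cons (P.cons (P.lf 0 7300882 0) (P.cons (P.lf 0 569636 0) (P.cons (P.lf 0 38085 0) (P.lf 12695 0 0)))) (P.cons (P.cons (P.lf 0 849438 0) (P.cons (P.lf 163338 0 0) (P.cons (P.lf 10919 0 0) P.nil))) (P.cons (P.cons (P.lf 21327 0 0) (P.cons (P.lf 8439 0 0) P.nil)) (P.cons (P.cons (P.lf 3633 0 0) P.nil) P.nil)))))) 5584)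
 EL.nil))
noncomputable def S183_198_364_512_14 : EL := (EL.cons 4 (TM.mk (P.cons (P.cons (P.lf 155892013 0 0) (P.cons (P.lf 0 135388678 0) (P.cons (P.lf 20343726 0 0) (P.cons (P.lf 6947885 0 0) (P.cons (P.lf 0 1178812 0) (P.cons (P.lf 0 87596 0) P.nil)))))) (P.cons (P.cons (P.lf 26334383 0 0) (P.cons (P.lf 0 20182243 0) (P.cons (P.lf 2448876 0 0) (P.cons (P.lf 957657 0 0) (P.cons (P.lf 0 152314 0) P.nil))))) (P.cons (P.cons (P.lf 0 7149658 0) (P.cons (P.lf 3968085 0 0) (P.cons (P.lf 0 98044 0) (P.cons (P.lf 0 137015 0) P.nil)))) (P.cons (P.cons (P.lf 0 786824 0) (P.cons (P.lf 479802 0 0) (P.cons (P.lf 0 49188 0) P.nil))) (P.cons (P.cons (P.lf 135732 0 0) (P.cons (P.lf 0 31304 0) P.nil)) (P.cons (P.cons (P.lf 6007 0 0) P.nil) P.nil)))))) 145785)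
 (EL.cons 8 (TM.mk (P.cons (P.cons (P.lf 149181287 0 0) (P.cons (P.lf 0 129560565 0) (P.cons (P.lf 19467985 0 0) (P.cons (P.lf 6648798 0 0) (P.cons (P.lf 0 1128068 0) (P.cons (P.lf 0 83826 0) P.nil)))))) (P.cons (P.cons (P.lf 45327353 0 0) (P.cons (P.lf 0 36792942 0) (P.cons (P.lf 4969956 0 0) (P.cons (P.lf 1813446 0 0) (P.cons (P.lf 0 297949 0) P.nil))))) (P.cons (P.cons (P.lf 0 1311705 0) (P.cons (P.lf 0 658454 0) (P.cons (P.lf 500335 0 0) (P.cons (P.lf 87463 0 0) P.nil)))) (P.cons (P.cons (P.lf 0 1072238 0) (P.cons (P.lf 483822 0 0) (P.cons (P.lf 5565 0 0) P.nil))) (P.cons (P.cons (P.lf 0 258 0) (P.cons (P.lf 30376 0 0) P.nil)) (P.cons (P.cons (P.lf 9250 0 0) P.nil) P.nil)))))) 106344)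
 EL.nil))
noncomputable def S183_198_364_512_15 : EL := (EL.cons 4 (TM.mk (P.cons (P.lf 0 900898234 0) (P.cons (P.lf 175101453 0 0) (P.cons (P.lf 0 3688277 0) (P.cons (P.lf 0 558577 0) (P.cons (P.lf 0 4024 0) (P.cons (P.lf 839 0 0) P.nil)))))) 89)
 (EL.cons 8 (TM.mk (P.cons (P.lf 0 862117024 0) (P.cons (P.lf 51252455 0 0) (P.cons (P.lf 6766430 0 0) (P.cons (P.lf 0 27586 0) (P.cons (P.lf 0 13796 0) (P.cons (P.lf 0 231 0) P.nil)))))) 71)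
 EL.nil))
noncomputable def S183_198_364_512_16 : EL := (EL.cons 4 (TM.mk (P.cons (P.cons (P.lf 0 257742449 0) (P.cons (P.lf 111921735 0 0) (P.cons (P.lf 7482825 0 0) (P.lf 0 2494275 0)))) (P.cons (P.cons (P.lf 15801891 0 0) (P.cons (P.lf 0 9084353 0) (P.cons (P.lf 0 607358 0) (P.lf 202453 0 0)))) (P.cons (P.cons (P.lf 10124649 0 0) (P.cons (P.lf 0 2032042 0) (P.cons (P.lf 0 135856 0) (P.lf 45285 0 0)))) (P.cons (P.cons (P.lf 0 996146 0) (P.cons (P.lf 73182 0 0) (P.cons (P.lf 4892 0 0) P.nil))) (P.cons (P.cons (P.lf 0 51872 0) (P.cons (P.lf 17202 0 0) P.nil)) (P.cons (P.cons (P.lf 5363 0 0) P.nil) P.nil)))))) 7435)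
 (EL.cons 8 (TM.mk (P.cons (P.cons (P.lf 0 246647339 0) (P.cons (P.lf 107103810 0 0) (P.cons (P.lf 7160710 0 0) (P.lf 0 2386903 0)))) (P.cons (P.cons (P.lf 0 18154429 0) (P.cons (P.lf 5756469 0 0) (P.cons (P.lf 384863 0 0) (P.lf 0 128287 0)))) (P.cons (P.cons (P.lf 8206898 0 0) (P.cons (P.lf 0 1588010 0) (P.cons (P.lf 0 106169 0) (P.lf 35389 0 0)))) (P.cons (P.cons (P.lf 166533 0 0) (P.cons (P.lf 0 141330 0) (P.cons (P.lf 0 9448 0) P.nil))) (P.cons (P.cons (P.lf 0 61348 0) (P.cons (P.lf 3980 0 0) P.nil)) (P.cons (P.cons (P.lf 0 1791 0) P.nil) P.nil)))))) 6066)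
 EL.nil))
noncomputable def S183_198_364_512_17 : EL := (EL.cons 4 (TM.mk (P.cons (P.cons (P.lf 0 73738815 0) (P.cons (P.lf 64040490 0 0) (P.cons (P.lf 0 9622830 0) (P.cons (P.lf 0 3286434 0) (P.cons (P.lf 557592 0 0) (P.cons (P.lf 41433 0 0) P.nil)))))) (P.cons (P.cons (P.lf 0 5290426 0) (P.cons (P.lf 3322889 0 0) (P.cons (P.lf 0 223185 0) (P.cons (P.lf 0 133602 0) (P.cons (P.lf 17858 0 0) P.nil))))) (P.cons (P.cons (P.lf 4789677 0 0) (P.cons (P.lf 0 2976007 0) (P.cons (P.lf 184688 0 0) (P.cons (P.lf 117623 0 0) P.nil)))) (P.cons (P.cons (P.lf 73154 0 0) (P.cons (P.lf 0 66880 0) (P.cons (P.lf 21376 0 0) P.nil))) (P.cons (P.cons (P.lf 0 110301 0) (P.cons (P.lf 42586 0 0) P.nil)) (P.cons (P.cons (P.lf 2526 0 0) P.nil) P.nil)))))) 99503)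
 (EL.cons 8 (TM.mk (P.cons (P.cons (P.lf 0 70564561 0) (P.cons (P.lf 61283721 0 0) (P.cons (P.lf 0 9208593 0) (P.cons (P.lf 0 3144962 0) (P.cons (P.lf 533589 0 0) (P.cons (P.lf 39650 0 0) P.nil)))))) (P.cons (P.cons (P.lf 0 14582812 0) (P.cons (P.lf 11447858 0 0) (P.cons (P.lf 0 1455943 0) (P.cons (P.lf 0 552149 0) (P.cons (P.lf 89078 0 0) P.nil))))) (P.cons (P.cons (P.lf 2892833 0 0) (P.cons (P.lf 0 1543785 0) (P.cons (P.lf 16428 0 0) (P.cons (P.lf 50402 0 0) P.nil)))) (P.cons (P.cons (P.lf 500709 0 0) (P.cons (P.lf 0 302611 0) (P.cons (P.lf 26194 0 0) P.nil))) (P.cons (P.cons (P.lf 0 52147 0) (P.cons (P.lf 8125 0 0) P.nil)) (P.cons (P.cons (P.lf 0 5789 0) P.nil) P.nil)))))) 79295)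
 EL.nil))
noncomputable def S183_198_364_512_18 : EL := (EL.cons 4 (TM.mk (P.cons (P.lf 426135812 0 0) (P.cons (P.lf 0 124237673 0) (P.cons (P.lf 8653707 0 0) (P.cons (P.lf 337561 0 0) (P.cons (P.lf 0 31084 0) (P.cons (P.lf 0 1487 0) P.nil)))))) 136)
 (EL.cons 8 (TM.mk (P.cons (P.lf 407791829 0 0) (P.cons (P.lf 0 63872894 0) (P.cons (P.lf 0 1935523 0) (P.cons (P.lf 409346 0 0) (P.cons (P.lf 14041 0 0) (P.cons (P.lf 0 800 0) P.nil)))))) 99)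
 EL.nil))
noncomputable def S183_198_364_512_19 : EL := (EL.cons 4 (TM.mk (P.cons (P.cons (P.lf 121915309 0 0) (P.cons (P.lf 0 52940340 0) (P.cons (P.lf 0 3539467 0) (P.lf 1179822 0 0)))) (P.cons (P.cons (P.lf 0 19322411 0) (P.cons (P.lf 9441836 0 0) (P.cons (P.lf 631259 0 0) (P.lf 0 210419 0)))) (P.cons (P.cons (P.lf 0 4388838 0) (P.cons (P.lf 685212 0 0) (P.cons (P.lf 45810 0 0) (P.lf 0 15270 0)))) (P.cons (P.cons (P.lf 962695 0 0) (P.cons (P.lf 0 142169 0) (P.cons (P.lf 0 9504 0) P.nil))) (P.cons (P.cons (P.lf 0 8387 0) (P.cons (P.lf 0 7315 0) P.nil)) (P.cons (P.cons (P.lf 0 6446 0) P.nil) P.nil)))))) 8149)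
 (EL.cons 8 (TM.mk (P.cons (P.cons (P.lf 116667189 0 0) (P.cons (P.lf 0 50661403 0) (P.cons (P.lf 0 3387103 0) (P.lf 1129034 0 0)))) (P.cons (P.cons (P.lf 0 2750637 0) (P.cons (P.lf 2200475 0 0) (P.cons (P.lf 147118 0 0) (P.lf 0 49039 0)))) (P.cons (P.cons (P.lf 0 5028586 0) (P.cons (P.lf 1151288 0 0) (P.cons (P.lf 76972 0 0) (P.lf 0 25657 0)))) (P.cons (P.cons (P.lf 281348 0 0) (P.cons (P.lf 0 1397 0) (P.cons (P.lf 0 93 0) P.nil))) (P.cons (P.cons (P.lf 47898 0 0) (P.cons (P.lf 0 10703 0) P.nil)) (P.cons (P.cons (P.lf 0 1924 0) P.nil) P.nil)))))) 5323)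
 EL.nil))
noncomputable def S183_198_364_512_20 : EL := (EL.cons 4 (TM.mk (P.cons (P.cons (P.lf 34879355 0 0) (P.cons (P.lf 0 30291930 0) (P.cons (P.lf 4551715 0 0) (P.cons (P.lf 1554523 0 0) (P.cons (P.lf 0 263747 0) (P.cons (P.lf 0 19598 0) P.nil)))))) (P.cons (P.cons (P.lf 0 887194 0) (P.cons (P.lf 1372050 0 0) (P.cons (P.lf 0 336772 0) (P.cons (P.lf 0 87874 0) (P.cons (P.lf 17183 0 0) P.nil))))) (P.cons (P.cons (P.lf 0 2602072 0) (P.cons (P.lf 1641469 0 0) (P.cons (P.lf 0 109795 0) (P.cons (P.lf 0 65937 0) P.nil)))) (P.cons (P.cons (P.lf 180619 0 0) (P.cons (P.lf 0 102476 0) (P.cons (P.lf 0 1676 0) P.nil))) (P.cons (P.cons (P.lf 61845 0 0) (P.cons (P.lf 0 27169 0) P.nil)) (P.cons (P.cons (P.lf 0 6276 0) P.nil) P.nil)))))) 75027)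
 (EL.cons 8 (TM.mk (P.cons (P.cons (P.lf 33377894 0 0) (P.cons (P.lf 0 28987945 0) (P.cons (P.lf 4355776 0 0) (P.cons (P.lf 1487605 0 0) (P.cons (P.lf 0 252394 0) (P.cons (P.lf 0 18754 0) P.nil)))))) (P.cons (P.cons (P.lf 3654129 0 0) (P.cons (P.lf 0 2597881 0) (P.cons (P.lf 265377 0 0) (P.cons (P.lf 116605 0 0) (P.cons (P.lf 0 17606 0) P.nil))))) (P.cons (P.cons (P.lf 0 2127979 0) (P.cons (P.lf 1334011 0 0) (P.cons (P.lf 0 86349 0) (P.cons (P.lf 0 53201 0) P.nil)))) (P.cons (P.cons (P.lf 0 120646 0) (P.cons (P.lf 85209 0 0) (P.cons (P.lf 0 13259 0) P.nil))) (P.cons (P.cons (P.lf 51806 0 0) (P.cons (P.lf 0 20080 0) P.nil)) (P.cons (P.cons (P.lf 931 0 0) P.nil) P.nil)))))) 52099)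
 EL.nil))
noncomputable def S183_198_364_512_21 : EL := (EL.cons 4 (TM.mk (P.cons (P.cons (P.lf 0 1921463721 0) (P.cons (P.lf 709844778 0 0) (P.cons (P.lf 47458566 0 0) (P.lf 0 15819519 0)))) (P.cons (P.cons (P.lf 466663602 0 0) (P.cons (P.lf 11367858 0 0) (P.cons (P.lf 760023 0 0) (P.lf 0 253338 0)))) (P.cons (P.cons (P.lf 43077249 0 0) (P.cons (P.lf 0 9884211 0) (P.cons (P.lf 0 660828 0) (P.lf 220275 0 0)))) (P.cons (P.cons (P.lf 0 2807082 0) (P.cons (P.lf 0 501519 0) (P.cons (P.lf 0 33525 0) P.nil))) (P.cons (P.cons (P.lf 0 297495 0) (P.cons (P.lf 30858 0 0) P.nil)) (P.cons (P.cons (P.lf 3282 0 0) P.nil) P.nil)))))) 23706)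
 (EL.cons 8 (TM.mk (P.cons (P.cons (P.lf 713919387 0 0) (P.cons (P.lf 0 263742660 0) (P.cons (P.lf 0 17633223 0) (P.lf 5877744 0 0)))) (P.cons (P.cons (P.lf 0 269706219 0) (P.cons (P.lf 31358751 0 0) (P.cons (P.lf 2096571 0 0) (P.lf 0 698853 0)))) (P.cons (P.cons (P.lf 10187196 0 0) (P.cons (P.lf 3207900 0 0) (P.cons (P.lf 214473 0 0) (P.lf 0 71490 0)))) (P.cons (P.cons (P.lf 2352558 0 0) (P.cons (P.lf 0 262998 0) (P.cons (P.lf 0 17580 0) P.nil))) (P.cons (P.cons (P.lf 0 44997 0) (P.cons (P.lf 0 23682 0) P.nil)) (P.cons (P.cons (P.lf 0 10197 0) P.nil) P.nil)))))) 22707)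
 (EL.cons 11 (TM.mk (P.cons (P.cons (P.lf 2152201089 0 0) (P.cons (P.lf 333214773 0 0) (P.cons (P.lf 0 160532370 0) (P.cons (P.lf 0 6075015 0) (P.lf 1518753 0 0))))) (P.cons (P.cons (P.lf 162413958 0 0) (P.cons (P.lf 25145757 0 0) (P.cons (P.lf 0 12114432 0) (P.cons (P.lf 0 458445 0) (P.lf 114609 0 0))))) (P.cons (P.cons (P.lf 0 3421029 0) (P.cons (P.lf 0 529659 0) (P.cons (P.lf 255174 0 0) (P.cons (P.lf 9654 0 0) P.nil)))) (P.cons (P.cons (P.lf 0 518100 0) (P.cons (P.lf 0 80214 0) (P.cons (P.lf 38643 0 0) P.nil))) (P.cons (P.cons (P.lf 0 3735 0) (P.cons (P.lf 0 576 0) P.nil)) (P.cons (P.cons (P.lf 771 0 0) P.nil) P.nil)))))) 5019)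
 EL.nil)))
noncomputable def S183_198_364_512_22 : EL := (EL.cons 4 (TM.mk (P.cons (P.cons (P.lf 0 549721095 0) (P.cons (P.lf 441793167 0 0) (P.cons (P.lf 0 58649235 0) (P.cons (P.lf 0 21637638 0) (P.cons (P.lf 3536439 0 0) (P.cons (P.lf 262791 0 0) P.nil)))))) (P.cons (P.cons (P.lf 60367326 0 0) (P.cons (P.lf 0 680808 0) (P.cons (P.lf 0 11440161 0) (P.cons (P.lf 0 1508460 0) (P.cons (P.lf 456942 0 0) P.nil))))) (P.cons (P.cons (P.lf 39716745 0 0) (P.cons (P.lf 0 17925720 0) (P.cons (P.lf 0 108444 0) (P.cons (P.lf 545238 0 0) P.nil)))) (P.cons (P.cons (P.lf 0 1114665 0) (P.cons (P.lf 0 1076415 0) (P.cons (P.lf 171837 0 0) P.nil))) (P.cons (P.cons (P.lf 0 528852 0) (P.cons (P.lf 149367 0 0) P.nil)) (P.cons (P.cons (P.lf 12 0 0) P.nil) P.nil)))))) 303087)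
 (EL.cons 8 (TM.mk (P.cons (P.cons (P.lf 204248742 0 0) (P.cons (P.lf 0 164148147 0) (P.cons (P.lf 21791106 0 0) (P.cons (P.lf 8039460 0 0) (P.cons (P.lf 0 1313961 0) (P.cons (P.lf 0 97638 0) P.nil)))))) (P.cons (P.cons (P.lf 0 49985409 0) (P.cons (P.lf 22398777 0 0) (P.cons (P.lf 1310670 0 0) (P.cons (P.lf 0 524160 0) (P.cons (P.lf 7491 0 0) P.nil))))) (P.cons (P.cons (P.lf 0 10929630 0) (P.cons (P.lf 5982372 0 0) (P.cons (P.lf 0 447702 0) (P.cons (P.lf 0 246666 0) P.nil)))) (P.cons (P.cons (P.lf 2268516 0 0) (P.cons (P.lf 0 458607 0) (P.cons (P.lf 0 57789 0) P.nil))) (P.cons (P.cons (P.lf 90000 0 0) (P.cons (P.lf 0 84939 0) P.nil)) (P.cons (P.cons (P.lf 0 21687 0) P.nil) P.nil)))))) 161841)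
 (EL.cons 11 (TM.mk (P.cons (P.cons (P.lf 615733893 0 0) (P.cons (P.lf 0 172044393 0) (P.cons (P.lf 0 105200037 0) (P.cons (P.lf 21396495 0 0) (P.cons (P.lf 3445158 0 0) (P.cons (P.lf 0 582678 0) P.nil)))))) (P.cons (P.cons (P.lf 128391882 0 0) (P.cons (P.lf 0 30564843 0) (P.cons (P.lf 0 20759103 0) (P.cons (P.lf 4002153 0 0) (P.cons (P.lf 658590 0 0) P.nil))))) (P.cons (P.cons (P.lf 0 5580948 0) (P.cons (P.lf 0 2656539 0) (P.cons (P.lf 18921 0 0) (P.cons (P.lf 170844 0 0) P.nil)))) (P.cons (P.cons (P.lf 0 1525884 0) (P.cons (P.lf 9030 0 0) (P.cons (P.lf 168186 0 0) P.nil))) (P.cons (P.cons (P.lf 0 6108 0) (P.cons (P.lf 19767 0 0) P.nil)) (P.cons (P.cons (P.lf 7380 0 0) P.nil) P.nil)))))) 274776)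
 EL.nil)))
noncomputable def S183_198_364_512_23 : EL := (EL.cons 4 (TM.mk (P.cons (P.cons (P.lf 908875689 0 0) (P.cons (P.lf 0 335765205 0) (P.cons (P.lf 0 22448478 0) (P.lf 7482822 0 0)))) (P.cons (P.cons (P.lf 0 309063543 0) (P.cons (P.lf 27253062 0 0) (P.cons (P.lf 1822077 0 0) (P.lf 0 607359 0)))) (P.cons (P.cons (P.lf 0 1355796 0) (P.cons (P.lf 6096126 0 0) (P.cons (P.lf 407568 0 0) (P.lf 0 135855 0)))) (P.cons (P.cons (P.lf 3943941 0 0) (P.cons (P.lf 0 219549 0) (P.cons (P.lf 0 14679 0) P.nil))) (P.cons (P.cons (P.lf 58341 0 0) (P.cons (P.lf 0 51606 0) P.nil)) (P.cons (P.cons (P.lf 0 20565 0) P.nil) P.nil)))))) 29166)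
 (EL.cons 8 (TM.mk (P.cons (P.cons (P.lf 0 337692546 0) (P.cons (P.lf 124753482 0 0) (P.cons (P.lf 8340726 0 0) (P.lf 0 2780244 0)))) (P.cons (P.cons (P.lf 160391817 0 0) (P.cons (P.lf 0 26956812 0) (P.cons (P.lf 0 1802268 0) (P.lf 600753 0 0)))) (P.cons (P.cons (P.lf 0 16313169 0) (P.cons (P.lf 0 409605 0) (P.cons (P.lf 0 27384 0) (P.lf 9126 0 0)))) (P.cons (P.cons (P.lf 0 1002678 0) (P.cons (P.lf 317784 0 0) (P.cons (P.lf 21243 0 0) P.nil))) (P.cons (P.cons (P.lf 147510 0 0) (P.cons (P.lf 2868 0 0) P.nil)) (P.cons (P.cons (P.lf 5934 0 0) P.nil) P.nil)))))) 19716)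
 (EL.cons 11 (TM.mk (P.cons (P.cons (P.lf 0 1018017270 0) (P.cons (P.lf 0 157614636 0) (P.cons (P.lf 75933759 0 0) (P.cons (P.lf 2873553 0 0) (P.lf 0 718386 0))))) (P.cons (P.cons (P.lf 22108764 0 0) (P.cons (P.lf 3422991 0 0) (P.cons (P.lf 0 1649088 0) (P.cons (P.lf 0 62406 0) (P.lf 15600 0 0))))) (P.cons (P.cons (P.lf 11807373 0 0) (P.cons (P.lf 1828074 0 0) (P.cons (P.lf 0 880710 0) (P.cons (P.lf 0 33327 0) P.nil)))) (P.cons (P.cons (P.lf 242382 0 0) (P.cons (P.lf 37524 0 0) (P.cons (P.lf 0 18078 0) P.nil))) (P.cons (P.cons (P.lf 0 33804 0) (P.cons (P.lf 0 5232 0) P.nil)) (P.cons (P.cons (P.lf 0 1389 0) P.nil) P.nil)))))) 14268)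
 EL.nil)))
noncomputable def S183_198_364_512_24 : EL := (EL.cons 4 (TM.mk (P.cons (P.cons (P.lf 260024757 0 0) (P.cons (P.lf 0 208973538 0) (P.cons (P.lf 27741801 0 0) (P.cons (P.lf 10234866 0 0) (P.cons (P.lf 0 1672776 0) (P.cons (P.lf 0 124302 0) P.nil)))))) (P.cons (P.cons (P.lf 0 53824098 0) (P.cons (P.lf 20630412 0 0) (P.cons (P.lf 2715342 0 0) (P.cons (P.lf 0 281118 0) (P.cons (P.lf 0 53577 0) P.nil))))) (P.cons (P.cons (P.lf 0 16707132 0) (P.cons (P.lf 9006819 0 0) (P.cons (P.lf 0 548799 0) (P.cons (P.lf 0 354624 0) P.nil)))) (P.cons (P.cons (P.lf 2442351 0 0) (P.cons (P.lf 0 326169 0) (P.cons (P.lf 0 99354 0) P.nil))) (P.cons (P.cons (P.lf 248655 0 0) (P.cons (P.lf 0 143535 0) P.nil)) (P.cons (P.cons (P.lf 0 26763 0) P.nil) P.nil)))))) 169476)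
 (EL.cons 8 (TM.mk (P.cons (P.cons (P.lf 0 96612135 0) (P.cons (P.lf 77644068 0 0) (P.cons (P.lf 0 10307457 0) (P.cons (P.lf 0 3802761 0) (P.cons (P.lf 621519 0 0) (P.cons (P.lf 46185 0 0) P.nil)))))) (P.cons (P.cons (P.lf 33032625 0 0) (P.cons (P.lf 0 18140466 0) (P.cons (P.lf 381729 0 0) (P.cons (P.lf 617493 0 0) (P.cons (P.lf 0 63942 0) P.nil))))) (P.cons (P.cons (P.lf 3130563 0 0) (P.cons (P.lf 0 2007813 0) (P.cons (P.lf 299589 0 0) (P.cons (P.lf 102753 0 0) P.nil)))) (P.cons (P.cons (P.lf 0 1643532 0) (P.cons (P.lf 524151 0 0) (P.cons (P.lf 7896 0 0) P.nil))) (P.cons (P.cons (P.lf 48720 0 0) (P.cons (P.lf 26409 0 0) P.nil)) (P.cons (P.cons (P.lf 17604 0 0) P.nil) P.nil)))))) 86571)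
 (EL.cons 11 (TM.mk (P.cons (P.cons (P.lf 0 291249615 0) (P.cons (P.lf 81379086 0 0) (P.cons (P.lf 49760895 0 0) (P.cons (P.lf 0 10120800 0) (P.cons (P.lf 0 1629600 0) (P.cons (P.lf 275613 0 0) P.nil)))))) (P.cons (P.cons (P.lf 0 32426817 0) (P.cons (P.lf 6548991 0 0) (P.cons (P.lf 4983462 0 0) (P.cons (P.lf 0 909510 0) (P.cons (P.lf 0 153153 0) P.nil))))) (P.cons (P.cons (P.lf 9320913 0 0) (P.cons (P.lf 0 366129 0) (P.cons (P.lf 0 1096320 0) (P.cons (P.lf 130233 0 0) P.nil)))) (P.cons (P.cons (P.lf 613104 0 0) (P.cons (P.lf 0 160992 0) (P.cons (P.lf 0 102462 0) P.nil))) (P.cons (P.cons (P.lf 0 78375 0) (P.cons (P.lf 0 11286 0) P.nil)) (P.cons (P.cons (P.lf 0 5787 0) P.nil) P.nil)))))) 136287)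
 EL.nil)))
noncomputable def S183_198_364_512_25 : EL := (EL.cons 4 (TM.mk (P.cons (P.cons (P.lf 0 429909246 0) (P.cons (P.lf 158821023 0 0) (P.cons (P.lf 10618401 0 0) (P.lf 0 3539466 0)))) (P.cons (P.cons (P.lf 187970076 0 0) (P.cons (P.lf 0 28325508 0) (P.cons (P.lf 0 1893777 0) (P.lf 631260 0 0)))) (P.cons (P.cons (P.lf 0 12415683 0) (P.cons (P.lf 0 2055636 0) (P.cons (P.lf 0 137433 0) (P.lf 45810 0 0)))) (P.cons (P.cons (P.lf 0 2340447 0) (P.cons (P.lf 426507 0 0) (P.cons (P.lf 28515 0 0) P.nil))) (P.cons (P.cons (P.lf 157785 0 0) (P.cons (P.lf 21945 0 0) P.nil)) (P.cons (P.cons (P.lf 17940 0 0) P.nil) P.nil)))))) 25581)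
 (EL.cons 8 (TM.mk (P.cons (P.cons (P.lf 159732678 0 0) (P.cons (P.lf 0 59009913 0) (P.cons (P.lf 0 3945264 0) (P.lf 1315089 0 0)))) (P.cons (P.cons (P.lf 0 91390356 0) (P.cons (P.lf 18485577 0 0) (P.cons (P.lf 1235901 0 0) (P.lf 0 411966 0)))) (P.cons (P.cons (P.lf 14661924 0 0) (P.cons (P.lf 0 887544 0) (P.cons (P.lf 0 59337 0) (P.lf 19779 0 0)))) (P.cons (P.cons (P.lf 0 64656 0) (P.cons (P.lf 0 206208 0) (P.cons (P.lf 0 13785 0) P.nil))) (P.cons (P.cons (P.lf 0 139740 0) (P.cons (P.lf 13161 0 0) P.nil)) (P.cons (P.cons (P.lf 2823 0 0) P.nil) P.nil)))))) 15018)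
 (EL.cons 11 (TM.mk (P.cons (P.cons (P.lf 481534539 0 0) (P.cons (P.lf 74553636 0 0) (P.cons (P.lf 0 35917590 0) (P.cons (P.lf 0 1359225 0) (P.lf 339804 0 0))))) (P.cons (P.cons (P.lf 0 57254007 0) (P.cons (P.lf 0 8864358 0) (P.cons (P.lf 4270566 0 0) (P.cons (P.lf 161610 0 0) (P.lf 0 40401 0))))) (P.cons (P.cons (P.lf 0 5856900 0) (P.cons (P.lf 0 906792 0) (P.cons (P.lf 436863 0 0) (P.cons (P.lf 16530 0 0) P.nil)))) (P.cons (P.cons (P.lf 480180 0 0) (P.cons (P.lf 74343 0 0) (P.cons (P.lf 0 35817 0) P.nil))) (P.cons (P.cons (P.lf 43242 0 0) (P.cons (P.lf 6693 0 0) P.nil)) (P.cons (P.cons (P.lf 0 900 0) P.nil) P.nil)))))) 14253)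
 EL.nil)))
noncomputable def S183_198_364_512_26 : EL := (EL.cons 4 (TM.mk (P.cons (P.cons (P.lf 0 122994870 0) (P.cons (P.lf 98847021 0 0) (P.cons (P.lf 0 13122207 0) (P.cons (P.lf 0 4841214 0) (P.cons (P.lf 791244 0 0) (P.cons (P.lf 58797 0 0) P.nil)))))) (P.cons (P.cons (P.lf 37412289 0 0) (P.cons (P.lf 0 19364547 0) (P.cons (P.lf 0 9150 0) (P.cons (P.lf 603447 0 0) (P.cons (P.lf 0 51549 0) P.nil))))) (P.cons (P.cons (P.lf 5757513 0 0) (P.cons (P.lf 0 3576423 0) (P.cons (P.lf 419511 0 0) (P.cons (P.lf 167769 0 0) P.nil)))) (P.cons (P.cons (P.lf 0 1997517 0) (P.cons (P.lf 599358 0 0) (P.cons (P.lf 24546 0 0) P.nil))) (P.cons (P.cons (P.lf 0 25644 0) (P.cons (P.lf 64155 0 0) P.nil)) (P.cons (P.cons (P.lf 27663 0 0) P.nil) P.nil)))))) 117474)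
 (EL.cons 8 (TM.mk (P.cons (P.cons (P.lf 45698715 0 0) (P.cons (P.lf 0 36726585 0) (P.cons (P.lf 4875552 0 0) (P.cons (P.lf 1798752 0 0) (P.cons (P.lf 0 293985 0) (P.cons (P.lf 0 21846 0) P.nil)))))) (P.cons (P.cons (P.lf 0 20065908 0) (P.cons (P.lf 12149808 0 0) (P.cons (P.lf 0 654378 0) (P.cons (P.lf 0 466887 0) (P.cons (P.lf 58815 0 0) P.nil))))) (P.cons (P.cons (P.lf 0 84597 0) (P.cons (P.lf 214086 0 0) (P.cons (P.lf 0 137205 0) (P.cons (P.lf 0 25029 0) P.nil)))) (P.cons (P.cons (P.lf 965403 0 0) (P.cons (P.lf 0 365016 0) (P.cons (P.lf 10761 0 0) P.nil))) (P.cons (P.cons (P.lf 0 95253 0) (P.cons (P.lf 9360 0 0) P.nil)) (P.cons (P.cons (P.lf 0 8295 0) P.nil) P.nil)))))) 59820)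
 (EL.cons 11 (TM.mk (P.cons (P.cons (P.lf 137764605 0 0) (P.cons (P.lf 0 38493297 0) (P.cons (P.lf 0 23537508 0) (P.cons (P.lf 4787262 0 0) (P.cons (P.lf 770820 0 0) (P.cons (P.lf 0 130368 0) P.nil)))))) (P.cons (P.cons (P.lf 1950093 0 0) (P.cons (P.lf 643086 0 0) (P.cons (P.lf 0 69825 0) (P.cons (P.lf 0 35022 0) (P.cons (P.lf 0 2463 0) P.nil))))) (P.cons (P.cons (P.lf 0 6268041 0) (P.cons (P.lf 577203 0 0) (P.cons (P.lf 810618 0 0) (P.cons (P.lf 0 116214 0) P.nil)))) (P.cons (P.cons (P.lf 104319 0 0) (P.cons (P.lf 65682 0 0) (P.cons (P.lf 3198 0 0) P.nil))) (P.cons (P.cons (P.lf 78303 0 0) (P.cons (P.lf 0 2814 0) P.nil)) (P.cons (P.cons (P.lf 0 252 0) P.nil) P.nil)))))) 97590)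
 EL.nil)))
noncomputable def S183_198_364_512_27 : EL := (EL.cons 13 (TM.mk (P.lf 0 4294967296 0) 0)
 EL.nil)
noncomputable def S183_198_364_512_28 : EL := (EL.cons 13 (TM.mk (P.cons (P.cons (P.lf 0 1228768519 0) (P.cons (P.lf 533578796 0 0) (P.cons (P.lf 35673836 0 0) (P.lf 0 11891276 0)))) (P.cons (P.cons (P.lf 0 163492987 0) (P.cons (P.lf 60399076 0 0) (P.cons (P.lf 4038140 0 0) (P.lf 0 1346044 0)))) (P.cons (P.cons (P.lf 21522099 0 0) (P.cons (P.lf 0 132732 0) (P.cons (P.lf 0 8872 0) (P.lf 2956 0 0)))) (P.cons (P.cons (P.lf 865251 0 0) (P.cons (P.lf 0 255008 0) (P.cons (P.lf 0 17048 0) P.nil))) (P.cons (P.cons (P.lf 0 60381 0) (P.cons (P.lf 0 6840 0) P.nil)) (P.cons (P.cons (P.lf 0 3463 0) P.nil) P.nil)))))) 7755)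
 EL.nil)
noncomputable def S183_198_364_512_29 : EL := (EL.cons 13 (TM.mk (P.cons (P.cons (P.lf 0 351544486 0) (P.cons (P.lf 305308414 0 0) (P.cons (P.lf 0 45876148 0) (P.cons (P.lf 0 15667839 0) (P.cons (P.lf 2658284 0 0) (P.cons (P.lf 197536 0 0) P.nil)))))) (P.cons (P.cons (P.lf 0 93549040 0) (P.cons (P.lf 75182353 0 0) (P.cons (P.lf 0 9980660 0) (P.cons (P.lf 0 3682193 0) (P.cons (P.lf 601814 0 0) P.nil))))) (P.cons (P.cons (P.lf 6091175 0 0) (P.cons (P.lf 0 825155 0) (P.cons (P.lf 0 871564 0) (P.cons (P.lf 0 90777 0) P.nil)))) (P.cons (P.cons (P.lf 2133615 0 0) (P.cons (P.lf 0 976324 0) (P.cons (P.lf 1820 0 0) P.nil))) (P.cons (P.cons (P.lf 0 76523 0) (P.cons (P.lf 0 31330 0) P.nil)) (P.cons (P.cons (P.lf 0 15249 0) P.nil) P.nil)))))) 191223)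
 EL.nil)
noncomputable def S183_198_364_512_30 : EL := (EL.cons 13 (TM.mk (P.cons (P.lf 2031571728 0 0) (P.cons (P.lf 0 197431380 0) (P.cons (P.lf 0 5434720 0) (P.cons (P.lf 101656 0 0) (P.cons (P.lf 7148 0 0) (P.cons (P.lf 20 0 0) P.nil)))))) 56)
 EL.nil)
noncomputable def S183_198_364_512_31 : EL := (EL.cons 13 (TM.mk (P.cons (P.cons (P.lf 581222442 0 0) (P.cons (P.lf 0 252389255 0) (P.cons (P.lf 0 16874157 0) (P.lf 5624718 0 0)))) (P.cons (P.cons (P.lf 20850046 0 0) (P.cons (P.lf 0 4041906 0) (P.cons (P.lf 0 270231 0) (P.lf 90076 0 0)))) (P.cons (P.cons (P.lf 0 19250518 0) (P.cons (P.lf 3514387 0 0) (P.cons (P.lf 234962 0 0) (P.lf 0 78320 0)))) (P.cons (P.cons (P.lf 402259 0 0) (P.cons (P.lf 178318 0 0) (P.cons (P.lf 11921 0 0) P.nil))) (P.cons (P.cons (P.lf 101482 0 0) (P.cons (P.lf 0 10972 0) P.nil)) (P.cons (P.cons (P.lf 0 274 0) P.nil) P.nil)))))) 8297)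
 EL.nil)
noncomputable def S183_198_364_512_32 : EL := (EL.cons 13 (TM.mk (P.cons (P.cons (P.lf 166284814 0 0) (P.cons (P.lf 0 144414590 0) (P.cons (P.lf 21699975 0 0) (P.cons (P.lf 7411078 0 0) (P.cons (P.lf 0 1257400 0) (P.cons (P.lf 0 93436 0) P.nil)))))) (P.cons (P.cons (P.lf 28090009 0 0) (P.cons (P.lf 0 21527726 0) (P.cons (P.lf 2612135 0 0) (P.cons (P.lf 1021501 0 0) (P.cons (P.lf 0 162469 0) P.nil))))) (P.cons (P.cons (P.lf 0 7626302 0) (P.cons (P.lf 4232624 0 0) (P.cons (P.lf 0 104581 0) (P.cons (P.lf 0 146150 0) P.nil)))) (P.cons (P.cons (P.lf 0 839279 0) (P.cons (P.lf 511789 0 0) (P.cons (P.lf 0 52468 0) P.nil))) (P.cons (P.cons (P.lf 144781 0 0) (P.cons (P.lf 0 33391 0) P.nil)) (P.cons (P.cons (P.lf 6408 0 0) P.nil) P.nil)))))) 155481)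
 EL.nil)
noncomputable def S183_198_364_512_33 : EL := (EL.cons 14 (TM.mk (P.lf 8589934592 0 0) 0)
 EL.nil)
noncomputable def S183_198_364_512_34 : EL := (EL.cons 14 (TM.mk (P.cons (P.cons (P.lf 2457537038 0 0) (P.cons (P.lf 0 1067157592 0) (P.cons (P.lf 0 71347672 0) (P.lf 23782552 0 0)))) (P.cons (P.cons (P.lf 326985974 0 0) (P.cons (P.lf 0 120798152 0) (P.cons (P.lf 0 8076280 0) (P.lf 2692088 0 0)))) (P.cons (P.cons (P.lf 0 43044198 0) (P.cons (P.lf 265464 0 0) (P.cons (P.lf 17744 0 0) (P.lf 0 5912 0)))) (P.cons (P.cons (P.lf 0 1730502 0) (P.cons (P.lf 510016 0 0) (P.cons (P.lf 34096 0 0) P.nil))) (P.cons (P.cons (P.lf 120762 0 0) (P.cons (P.lf 13680 0 0) P.nil)) (P.cons (P.cons (P.lf 6926 0 0) P.nil) P.nil)))))) 15510)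
 EL.nil)
noncomputable def S183_198_364_512_35 : EL := (EL.cons 14 (TM.mk (P.cons (P.cons (P.lf 703088972 0 0) (P.cons (P.lf 0 610616828 0) (P.cons (P.lf 91752296 0 0) (P.cons (P.lf 31335678 0 0) (P.cons (P.lf 0 5316568 0) (P.cons (P.lf 0 395072 0) P.nil)))))) (P.cons (P.cons (P.lf 187098080 0 0) (P.cons (P.lf 0 150364706 0) (P.cons (P.lf 19961320 0 0) (P.cons (P.lf 7364386 0 0) (P.cons (P.lf 0 1203628 0) P.nil))))) (P.cons (P.cons (P.lf 0 12182350 0) (P.cons (P.lf 1650310 0 0) (P.cons (P.lf 1743128 0 0) (P.cons (P.lf 181554 0 0) P.nil)))) (P.cons (P.cons (P.lf 0 4267230 0) (P.cons (P.lf 1952648 0 0) (P.cons (P.lf 0 3640 0) P.nil))) (P.cons (P.cons (P.lf 153046 0 0) (P.cons (P.lf 62660 0 0) P.nil)) (P.cons (P.cons (P.lf 30498 0 0) P.nil) P.nil)))))) 382446)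
 EL.nil)
noncomputable def S183_198_364_512_36 : EL := (EL.cons 14 (TM.mk (P.cons (P.lf 0 4063143456 0) (P.cons (P.lf 394862760 0 0) (P.cons (P.lf 10869440 0 0) (P.cons (P.lf 0 203312 0) (P.cons (P.lf 0 14296 0) (P.cons (P.lf 0 40 0) P.nil)))))) 112)
 EL.nil)
noncomputable def S183_198_364_512_37 : EL := (EL.cons 14 (TM.mk (P.cons (P.cons (P.lf 0 1162444884 0) (P.cons (P.lf 504778510 0 0) (P.cons (P.lf 33748314 0 0) (P.lf 0 11249436 0)))) (P.cons (P.cons (P.lf 0 41700092 0) (P.cons (P.lf 8083812 0 0) (P.cons (P.lf 540462 0 0) (P.lf 0 180152 0)))) (P.cons (P.cons (P.lf 38501036 0 0) (P.cons (P.lf 0 7028774 0) (P.cons (P.lf 0 469924 0) (P.lf 156640 0 0)))) (P.cons (P.cons (P.lf 0 804518 0) (P.cons (P.lf 0 356636 0) (P.cons (P.lf 0 23842 0) P.nil))) (P.cons (P.cons (P.lf 0 202964 0) (P.cons (P.lf 21944 0 0) P.nil)) (P.cons (P.cons (P.lf 548 0 0) P.nil) P.nil))))))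 16594)
 EL.nil)
noncomputable def S183_198_364_512_38 : EL := (EL.cons 14 (TM.mk (P.cons (P.cons (P.lf 0 332569628 0) (P.cons (P.lf 288829180 0 0) (P.cons (P.lf 0 43399950 0) (P.cons (P.lf 0 14822156 0) (P.cons (P.lf 2514800 0 0) (P.cons (P.lf 186872 0 0) P.nil)))))) (P.cons (P.cons (P.lf 0 56180018 0) (P.cons (P.lf 43055452 0 0) (P.cons (P.lf 0 5224270 0) (P.cons (P.lf 0 2043002 0) (P.cons (P.lf 324938 0 0) P.nil))))) (P.cons (P.cons (P.lf 15252604 0 0) (P.cons (P.lf 0 8465248 0) (P.cons (P.lf 209162 0 0) (P.cons (P.lf 292300 0 0) P.nil)))) (P.cons (P.cons (P.lf 1678558 0 0) (P.cons (P.lf 0 1023578 0) (P.cons (P.lf 104936 0 0) P.nil))) (P.cons (P.cons (P.lf 0 289562 0) (P.cons (P.lf 66782 0 0) P.nil)) (P.cons (P.cons (P.lf 0 12816 0) P.nil) P.nil)))))) 310962)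
 EL.nil)
noncomputable def S183_198_364_512_39 : EL := (EL.cons 14 (TM.mk (P.cons (P.lf 1921916234 0 0) (P.cons (P.lf 0 373549768 0) (P.cons (P.lf 7868326 0 0) (P.cons (P.lf 1191632 0 0) (P.cons (P.lf 8586 0 0) (P.cons (P.lf 0 1790 0) P.nil)))))) 176)
 EL.nil)
noncomputable def S183_198_364_512_40 : EL := (EL.cons 14 (TM.mk (P.cons (P.cons (P.lf 549850558 0 0) (P.cons (P.lf 0 238766368 0) (P.cons (P.lf 0 15963362 0) (P.lf 5321120 0 0)))) (P.cons (P.cons (P.lf 0 33710702 0) (P.cons (P.lf 19379954 0 0) (P.cons (P.lf 1295698 0 0) (P.lf 0 431900 0)))) (P.cons (P.cons (P.lf 0 21599252 0) (P.cons (P.lf 4335024 0 0) (P.cons (P.lf 289828 0 0) (P.lf 0 96608 0)))) (P.cons (P.cons (P.lf 2125112 0 0) (P.cons (P.lf 0 156122 0) (P.cons (P.lf 0 10438 0) P.nil))) (P.cons (P.cons (P.lf 110662 0 0) (P.cons (P.lf 0 36698 0) P.nil)) (P.cons (P.cons (P.lf 0 11442 0) P.nil) P.nil))))))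 15822)
 EL.nil)
noncomputable def S183_198_364_512_41 : EL := (EL.cons 14 (TM.mk (P.cons (P.cons (P.lf 157309474 0 0) (P.cons (P.lf 0 136619712 0) (P.cons (P.lf 20528704 0 0) (P.cons (P.lf 7011060 0 0) (P.cons (P.lf 0 1189530 0) (P.cons (P.lf 0 88392 0) P.nil)))))) (P.cons (P.cons (P.lf 11286244 0 0) (P.cons (P.lf 0 7088830 0) (P.cons (P.lf 476130 0 0) (P.cons (P.lf 285018 0 0) (P.cons (P.lf 0 38098 0) P.nil))))) (P.cons (P.cons (P.lf 0 10217978 0) (P.cons (P.lf 6348816 0 0) (P.cons (P.lf 0 394002 0) (P.cons (P.lf 0 250930 0) P.nil)))) (P.cons (P.cons (P.lf 0 156062 0) (P.cons (P.lf 142678 0 0) (P.cons (P.lf 0 45604 0) P.nil))) (P.cons (P.cons (P.lf 235310 0 0) (P.cons (P.lf 0 90852 0) P.nil)) (P.cons (P.cons (P.lf 0 5390 0) P.nil) P.nil)))))) 212228)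
 EL.nil)
noncomputable def S183_198_364_512_42 : EL := (EL.cons 14 (TM.mk (P.cons (P.lf 0 909089734 0) (P.cons (P.lf 265040370 0 0) (P.cons (P.lf 0 18461242 0) (P.cons (P.lf 0 720132 0) (P.cons (P.lf 66314 0 0) (P.cons (P.lf 3174 0 0) P.nil)))))) 276)
 EL.nil)
noncomputable def S183_198_364_512_43 : EL := (EL.cons 14 (TM.mk (P.cons (P.cons (P.lf 0 260085994 0) (P.cons (P.lf 112939394 0 0) (P.cons (P.lf 7550864 0 0) (P.lf 0 2516954 0)))) (P.cons (P.cons (P.lf 41221144 0 0) (P.cons (P.lf 0 20142584 0) (P.cons (P.lf 0 1346686 0) (P.lf 448894 0 0)))) (P.cons (P.cons (P.lf 9362856 0 0) (P.cons (P.lf 0 1461786 0) (P.cons (P.lf 0 97730 0) (P.lf 32576 0 0)))) (P.cons (P.cons (P.lf 0 2053750 0) (P.cons (P.lf 303294 0 0) (P.cons (P.lf 20276 0 0) P.nil))) (P.cons (P.cons (P.lf 17894 0 0) (P.cons (P.lf 15606 0 0) P.nil)) (P.cons (P.cons (P.lf 13752 0 0) P.nil) P.nil))))))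 17346)
 EL.nil)
noncomputable def S183_198_364_512_44 : EL := (EL.cons 14 (TM.mk (P.cons (P.cons (P.lf 0 74409292 0) (P.cons (P.lf 64622784 0 0) (P.cons (P.lf 0 9710326 0) (P.cons (P.lf 0 3316316 0) (P.cons (P.lf 562662 0 0) (P.cons (P.lf 41810 0 0) P.nil)))))) (P.cons (P.cons (P.lf 1892682 0 0) (P.cons (P.lf 0 2927042 0) (P.cons (P.lf 718448 0 0) (P.cons (P.lf 187466 0 0) (P.cons (P.lf 0 36658 0) P.nil))))) (P.cons (P.cons (P.lf 5551088 0 0) (P.cons (P.lf 0 3501802 0) (P.cons (P.lf 234230 0 0) (P.cons (P.lf 140666 0 0) P.nil)))) (P.cons (P.cons (P.lf 0 385322 0) (P.cons (P.lf 218616 0 0) (P.cons (P.lf 3576 0 0) P.nil))) (P.cons (P.cons (P.lf 0 131936 0) (P.cons (P.lf 57962 0 0) P.nil)) (P.cons (P.cons (P.lf 13390 0 0) P.nil) P.nil)))))) 160012)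
 EL.nil)
noncomputable def S183_198_364_512_45 : EL := (EL.cons 14 (TM.mk (P.cons (P.cons (P.lf 201150214 0 0) (P.cons (P.lf 0 262041600 0) (P.cons (P.lf 96269100 0 0) (P.cons (P.lf 4584640 0 0) (P.cons (P.lf 0 7866660 0) (P.cons (P.lf 541224 0 0) P.nil)))))) (P.cons (P.cons (P.lf 80291728 0 0) (P.cons (P.lf 0 99393650 0) (P.cons (P.lf 34255704 0 0) (P.cons (P.lf 2090972 0 0) (P.cons (P.lf 0 2762040 0) P.nil))))) (P.cons (P.cons (P.lf 113616 0 0) (P.cons (P.lf 0 3287790 0) (P.cons (P.lf 2616156 0 0) (P.cons (P.lf 0 168348 0) P.nil)))) (P.cons (P.cons (P.lf 0 2763758 0) (P.cons (P.lf 2246932 0 0) (P.cons (P.lf 0 309816 0) P.nil))) (P.cons (P.cons (P.lf 0 85412 0) (P.cons (P.lf 158540 0 0) P.nil)) (P.cons (P.cons (P.lf 41584 0 0) P.nil) P.nil)))))) 1429888)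
 EL.nil)
noncomputable def S183_198_364_512_46 : EL := (EL.cons 15 (TM.mk (P.lf 4294967296 0 0) 0)
 EL.nil)
noncomputable def S183_198_364_512_47 : EL := (EL.cons 15 (TM.mk (P.cons (P.cons (P.lf 1228768519 0 0) (P.cons (P.lf 0 533578796 0) (P.cons (P.lf 0 35673836 0) (P.lf 11891276 0 0)))) (P.cons (P.cons (P.lf 163492987 0 0) (P.cons (P.lf 0 60399076 0) (P.cons (P.lf 0 4038140 0) (P.lf 1346044 0 0)))) (P.cons (P.cons (P.lf 0 21522099 0) (P.cons (P.lf 132732 0 0) (P.cons (P.lf 8872 0 0) (P.lf 0 2956 0)))) (P.cons (P.cons (P.lf 0 865251 0) (P.cons (P.lf 255008 0 0) (P.cons (P.lf 17048 0 0) P.nil))) (P.cons (P.cons (P.lf 60381 0 0) (P.cons (P.lf 6840 0 0) P.nil)) (P.cons (P.cons (P.lf 3463 0 0) P.nil) P.nil)))))) 7755)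
 EL.nil)
noncomputable def S183_198_364_512_48 : EL := (EL.cons 15 (TM.mk (P.cons (P.cons (P.lf 351544486 0 0) (P.cons (P.lf 0 305308414 0) (P.cons (P.lf 45876148 0 0) (P.cons (P.lf 15667839 0 0) (P.cons (P.lf 0 2658284 0) (P.cons (P.lf 0 197536 0) P.nil)))))) (P.cons (P.cons (P.lf 93549040 0 0) (P.cons (P.lf 0 75182353 0) (P.cons (P.lf 9980660 0 0) (P.cons (P.lf 3682193 0 0) (P.cons (P.lf 0 601814 0) P.nil))))) (P.cons (P.cons (P.lf 0 6091175 0) (P.cons (P.lf 825155 0 0) (P.cons (P.lf 871564 0 0) (P.cons (P.lf 90777 0 0) P.nil)))) (P.cons (P.cons (P.lf 0 2133615 0) (P.cons (P.lf 976324 0 0) (P.cons (P.lf 0 1820 0) P.nil))) (P.cons (P.cons (P.lf 76523 0 0) (P.cons (P.lf 31330 0 0) P.nil)) (P.cons (P.cons (P.lf 15249 0 0) P.nil) P.nil)))))) 191223)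
 EL.nil)
noncomputable def S183_198_364_512 : SL := (SL.cons S183_198_364_512_0 (SL.cons S183_198_364_512_1 (SL.cons S183_198_364_512_2 (SL.cons S183_198_364_512_3 (SL.cons S183_198_364_512_4 (SL.cons S183_198_364_512_5 (SL.cons S183_198_364_512_6 (SL.cons S183_198_364_512_7 (SL.cons S183_198_364_512_8 (SL.cons S183_198_364_512_9 (SL.cons S183_198_364_512_10 (SL.cons S183_198_364_512_11 (SL.cons S183_198_364_512_12 (SL.cons S183_198_364_512_13 (SL.cons S183_198_364_512_14 (SL.cons S183_198_364_512_15 (SL.cons S183_198_364_512_16 (SL.cons S183_198_364_512_17 (SL.cons S183_198_364_512_18 (SL.cons S183_198_364_512_19 (SL.cons S183_198_364_512_20 (SL.cons S183_198_364_512_21 (SL.cons S183_198_364_512_22 (SL.cons S183_198_364_512_23 (SL.cons S183_198_364_512_24 (SL.cons S183_198_364_512_25 (SL.cons S183_198_364_512_26 (SL.cons S183_198_364_512_27 (SL.cons S183_198_364_512_28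 (SL.cons S183_198_364_512_29 (SL.cons S183_198_364_512_30 (SL.cons S183_198_364_512_31 (SL.cons S183_198_364_512_32 (SL.cons S183_198_364_512_33 (SL.cons S183_198_364_512_34 (SL.cons S183_198_364_512_35 (SL.cons S183_198_364_512_36 (SL.cons S183_198_364_512_37 (SL.cons S183_198_364_512_38 (SL.cons S183_198_364_512_39 (SL.cons S183_198_364_512_40 (SL.cons S183_198_364_512_41 (SL.cons S183_198_364_512_42 (SL.cons S183_198_364_512_43 (SL.cons S183_198_364_512_44 (SL.cons S183_198_364_512_45 (SL.cons S183_198_364_512_46 (SL.cons S183_198_364_512_47 (SL.cons S183_198_364_512_48 SL.nil)))))))))))))))))))))))))))))))))))))))))))))))))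
noncomputable def S183_198_438_512_0 : EL := (EL.cons 0 (TM.mk (P.cons (P.lf 6766532673 0 0) (P.cons (P.lf 328315225 0 0) (P.cons (P.lf 0 6915520 0) (P.cons (P.lf 0 1047332 0) (P.cons (P.lf 0 7546 0) (P.cons (P.lf 1573 0 0) P.nil)))))) 161)
 (EL.cons 1 (TM.mk (P.cons (P.lf 0 1616469420 0) (P.cons (P.lf 96098353 0 0) (P.cons (P.lf 12687056 0 0) (P.cons (P.lf 0 51723 0) (P.cons (P.lf 0 25867 0) (P.cons (P.lf 0 433 0) P.nil)))))) 140)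
 (EL.cons 5 (TM.mk (P.cons (P.lf 4895566122 0 0) (P.cons (P.lf 0 116734300 0) (P.cons (P.lf 2458850 0 0) (P.cons (P.lf 372384 0 0) (P.cons (P.lf 2686 0 0) (P.cons (P.lf 0 556 0) P.nil)))))) 123)
 (EL.cons 9 (TM.mk (P.lf 6442450944 0 0) 2)
 EL.nil))))
noncomputable def S183_198_438_512_1 : EL := (EL.cons 0 (TM.mk (P.cons (P.cons (P.lf 123253964 0 0) (P.cons (P.lf 0 110826999 0) (P.cons (P.lf 0 1763964 0) (P.lf 587992 0 0)))) (P.cons (P.cons (P.lf 834872576 0 0) (P.cons (P.lf 0 98211142 0) (P.cons (P.lf 0 1563159 0) (P.lf 521048 0 0)))) (P.cons (P.cons (P.lf 0 28543935 0) (P.cons (P.lf 0 7865046 0) (P.cons (P.lf 0 125178 0) (P.lf 41719 0 0)))) (P.cons (P.cons (P.lf 0 10426028 0) (P.cons (P.lf 551803 0 0) (P.cons (P.lf 8778 0 0) P.nil))) (P.cons (P.cons (P.lf 0 14552 0) (P.cons (P.lf 74811 0 0) P.nil)) (P.cons (P.cons (P.lf 55321 0 0) P.nil) P.nil)))))) 19337)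
 (EL.cons 1 (TM.mk (P.cons (P.cons (P.lf 0 763358432 0) (P.cons (P.lf 202201254 0 0) (P.cons (P.lf 3218296 0 0) (P.lf 0 1072762 0)))) (P.cons (P.cons (P.lf 9715487 0 0) (P.cons (P.lf 27437854 0 0) (P.cons (P.lf 436702 0 0) (P.lf 0 145556 0)))) (P.cons (P.cons (P.lf 54034237 0 0) (P.cons (P.lf 0 3706897 0) (P.cons (P.lf 0 58990 0) (P.lf 19662 0 0)))) (P.cons (P.cons (P.lf 10644 0 0) (P.cons (P.lf 0 504281 0) (P.cons (P.lf 0 8016 0) P.nil))) (P.cons (P.cons (P.lf 0 456745 0) (P.cons (P.lf 8382 0 0) P.nil)) (P.cons (P.cons (P.lf 0 8857 0) P.nil) P.nil)))))) 11532)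
 (EL.cons 5 (TM.mk (P.cons (P.cons (P.lf 1578906394 0 0) (P.cons (P.lf 0 436878894 0) (P.cons (P.lf 0 6953502 0) (P.lf 2317834 0 0)))) (P.cons (P.cons (P.lf 0 71674889 0) (P.cons (P.lf 0 18994016 0) (P.cons (P.lf 0 302316 0) (P.lf 100778 0 0)))) (P.cons (P.cons (P.lf 0 26322662 0) (P.cons (P.lf 2914938 0 0) (P.cons (P.lf 46382 0 0) (P.lf 0 15456 0)))) (P.cons (P.cons (P.lf 2458889 0 0) (P.cons (P.lf 31432 0 0) (P.cons (P.lf 504 0 0) P.nil))) (P.cons (P.cons (P.lf 113803 0 0) (P.cons (P.lf 0 20488 0) P.nil)) (P.cons (P.cons (P.lf 0 14171 0) P.nil) P.nil)))))) 10719)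
 (EL.cons 9 (TM.mk (P.cons (P.cons (P.lf 1431820606 0 0) (P.cons (P.lf 0 420250626 0) (P.cons (P.lf 0 6688842 0) (P.lf 2229612 0 0)))) (P.cons (P.cons (P.lf 198678250 0 0) (P.cons (P.lf 0 47570760 0) (P.cons (P.lf 0 757146 0) (P.lf 252378 0 0)))) (P.cons (P.cons (P.lf 0 32180824 0) (P.cons (P.lf 104538 0 0) (P.cons (P.lf 1656 0 0) (P.lf 0 552 0)))) (P.cons (P.cons (P.lf 0 1101292 0) (P.cons (P.lf 200844 0 0) (P.cons (P.lf 3192 0 0) P.nil))) (P.cons (P.cons (P.lf 95845 0 0) (P.cons (P.lf 5388 0 0) P.nil)) (P.cons (P.cons (P.lf 4840 0 0) P.nil) P.nil)))))) 2483)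
 (EL.cons 2 (TM.mk (P.cons (P.cons (P.lf 1010181422 0 0) (P.cons (P.lf 37446046 0 0) (P.cons (P.lf 0 18554650 0) (P.cons (P.lf 0 168370 0) (P.lf 42091 0 0))))) (P.cons (P.cons (P.lf 0 21938591 0) (P.cons (P.lf 0 813234 0) (P.cons (P.lf 402958 0 0) (P.cons (P.lf 3656 0 0) (P.lf 0 914 0))))) (P.cons (P.cons (P.lf 0 11716489 0) (P.cons (P.lf 0 434311 0) (P.cons (P.lf 215201 0 0) (P.cons (P.lf 1951 0 0) P.nil)))) (P.cons (P.cons (P.lf 0 240516 0) (P.cons (P.lf 0 8915 0) (P.cons (P.lf 4415 0 0) P.nil))) (P.cons (P.cons (P.lf 33541 0 0) (P.cons (P.lf 1243 0 0) P.nil)) (P.cons (P.cons (P.lf 1378 0 0) P.nil) P.nil)))))) 1711)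
 (EL.cons 6 (TM.mk (P.cons (P.cons (P.lf 966695871 0 0) (P.cons (P.lf 35834097 0 0) (P.cons (P.lf 0 17755923 0) (P.cons (P.lf 0 161121 0) (P.lf 40278 0 0))))) (P.cons (P.cons (P.lf 109426275 0 0) (P.cons (P.lf 4056279 0 0) (P.cons (P.lf 0 2009901 0) (P.cons (P.lf 0 18237 0) (P.lf 4557 0 0))))) (P.cons (P.cons (P.lf 0 240474 0) (P.cons (P.lf 0 8910 0) (P.cons (P.lf 4413 0 0) (P.cons (P.lf 39 0 0) P.nil)))) (P.cons (P.cons (P.lf 0 462003 0) (P.cons (P.lf 0 17124 0) (P.cons (P.lf 8484 0 0) P.nil))) (P.cons (P.cons (P.lf 0 12396 0) (P.cons (P.lf 0 456 0) P.nil)) (P.cons (P.cons (P.lf 825 0 0) P.nil) P.nil)))))) 975)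
 EL.nil))))))
noncomputable def S183_198_438_512_2 : EL := (EL.cons 0 (TM.mk (P.cons (P.cons (P.lf 0 279440861 0) (P.cons (P.lf 130854146 0 0) (P.cons (P.lf 0 12251052 0) (P.cons (P.lf 0 1150508 0) (P.cons (P.lf 148461 0 0) (P.cons (P.lf 2416 0 0) P.nil)))))) (P.cons (P.cons (P.lf 269728351 0 0) (P.cons (P.lf 0 102277893 0) (P.cons (P.lf 4906260 0 0) (P.cons (P.lf 750628 0 0) (P.cons (P.lf 0 67684 0) P.nil))))) (P.cons (P.cons (P.lf 42003820 0 0) (P.cons (P.lf 0 16226397 0) (P.cons (P.lf 1573155 0 0) (P.cons (P.lf 144374 0 0) P.nil)))) (P.cons (P.cons (P.lf 0 11615479 0) (P.cons (P.lf 1697458 0 0) (P.cons (P.lf 84130 0 0) P.nil))) (P.cons (P.cons (P.lf 0 656305 0) (P.cons (P.lf 322079 0 0) P.nil)) (P.cons (P.cons (P.lf 131739 0 0) P.nil) P.nil)))))) 132617)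
 (EL.cons 1 (TM.mk (P.cons (P.cons (P.lf 0 259465446 0) (P.cons (P.lf 142597869 0 0) (P.cons (P.lf 0 17231826 0) (P.cons (P.lf 0 1377321 0) (P.cons (P.lf 201986 0 0) (P.cons (P.lf 3290 0 0) P.nil)))))) (P.cons (P.cons (P.lf 0 25352320 0) (P.cons (P.lf 25650347 0 0) (P.cons (P.lf 0 5009161 0) (P.cons (P.lf 0 308524 0) (P.cons (P.lf 56100 0 0) P.nil))))) (P.cons (P.cons (P.lf 28247651 0 0) (P.cons (P.lf 0 7794346 0) (P.cons (P.lf 0 100931 0) (P.cons (P.lf 42081 0 0) P.nil)))) (P.cons (P.cons (P.lf 2831146 0 0) (P.cons (P.lf 0 1391717 0) (P.cons (P.lf 87873 0 0) P.nil))) (P.cons (P.cons (P.lf 0 679229 0) (P.cons (P.lf 56823 0 0) P.nil)) (P.cons (P.cons (P.lf 0 43596 0) P.nil) P.nil)))))) 75531)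
 (EL.cons 5 (TM.mk (P.cons (P.cons (P.lf 460004944 0 0) (P.cons (P.lf 0 258232089 0) (P.cons (P.lf 32055053 0 0) (P.cons (P.lf 2521265 0 0) (P.cons (P.lf 0 374570 0) (P.cons (P.lf 0 6099 0) P.nil)))))) (P.cons (P.cons (P.lf 4183084 0 0) (P.cons (P.lf 0 16975037 0) (P.cons (P.lf 4440282 0 0) (P.cons (P.lf 240016 0 0) (P.cons (P.lf 0 48789 0) P.nil))))) (P.cons (P.cons (P.lf 0 24202195 0) (P.cons (P.lf 7254963 0 0) (P.cons (P.lf 0 153048 0) (P.cons (P.lf 0 47024 0) P.nil)))) (P.cons (P.cons (P.lf 1325657 0 0) (P.cons (P.lf 206392 0 0) (P.cons (P.lf 0 48468 0) P.nil))) (P.cons (P.cons (P.lf 386834 0 0) (P.cons (P.lf 0 94672 0) P.nil)) (P.cons (P.cons (P.lf 0 25229 0) P.nil) P.nil)))))) 73586)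
 (EL.cons 9 (TM.mk (P.cons (P.cons (P.lf 318218992 0 0) (P.cons (P.lf 0 186799561 0) (P.cons (P.lf 24440409 0 0) (P.cons (P.lf 1863697 0 0) (P.cons (P.lf 0 283936 0) (P.cons (P.lf 0 4629 0) P.nil)))))) (P.cons (P.cons (P.lf 88311610 0 0) (P.cons (P.lf 0 47065147 0) (P.cons (P.lf 5457120 0 0) (P.cons (P.lf 447258 0 0) (P.cons (P.lf 0 64279 0) P.nil))))) (P.cons (P.cons (P.lf 0 8177211 0) (P.cons (P.lf 1310809 0 0) (P.cons (P.lf 358482 0 0) (P.cons (P.lf 3793 0 0) P.nil)))) (P.cons (P.cons (P.lf 0 2474362 0) (P.cons (P.lf 714642 0 0) (P.cons (P.lf 0 16374 0) P.nil))) (P.cons (P.cons (P.lf 135424 0 0) (P.cons (P.lf 17497 0 0) P.nil)) (P.cons (P.cons (P.lf 19065 0 0) P.nil) P.nil)))))) 23044)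
 (EL.cons 2 (TM.mk (P.cons (P.cons (P.lf 449021216 0 0) (P.cons (P.lf 0 115146658 0) (P.cons (P.lf 0 15230413 0) (P.cons (P.lf 2967305 0 0) (P.cons (P.lf 105120 0 0) (P.cons (P.lf 0 17983 0) P.nil)))))) (P.cons (P.cons (P.lf 52554206 0 0) (P.cons (P.lf 0 10107978 0) (P.cons (P.lf 0 1604081 0) (P.cons (P.lf 269527 0 0) (P.cons (P.lf 10091 0 0) P.nil))))) (P.cons (P.cons (P.lf 0 16653009 0) (P.cons (P.lf 1268032 0 0) (P.cons (P.lf 405765 0 0) (P.cons (P.lf 0 40741 0) P.nil)))) (P.cons (P.cons (P.lf 0 955749 0) (P.cons (P.lf 231249 0 0) (P.cons (P.lf 31680 0 0) P.nil))) (P.cons (P.cons (P.lf 154681 0 0) (P.cons (P.lf 4848 0 0) P.nil)) (P.cons (P.cons (P.lf 9956 0 0) P.nil) P.nil)))))) 20069)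
 (EL.cons 6 (TM.mk (P.cons (P.cons (P.lf 429692076 0 0) (P.cons (P.lf 0 110189904 0) (P.cons (P.lf 0 14574780 0) (P.cons (P.lf 2839566 0 0) (P.cons (P.lf 100596 0 0) (P.cons (P.lf 0 17208 0) P.nil)))))) (P.cons (P.cons (P.lf 108263220 0 0) (P.cons (P.lf 0 24538974 0) (P.cons (P.lf 0 3501366 0) (P.cons (P.lf 641022 0 0) (P.cons (P.lf 23226 0 0) P.nil))))) (P.cons (P.cons (P.lf 0 3015234 0) (P.cons (P.lf 0 1665018 0) (P.cons (P.lf 0 26916 0) (P.cons (P.lf 36354 0 0) P.nil)))) (P.cons (P.cons (P.lf 0 1643886 0) (P.cons (P.lf 66714 0 0) (P.cons (P.lf 36954 0 0) P.nil))) (P.cons (P.cons (P.lf 0 40248 0) (P.cons (P.lf 15378 0 0) P.nil)) (P.cons (P.cons (P.lf 9006 0 0) P.nil) P.nil)))))) 18828)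
 EL.nil))))))
noncomputable def S183_198_438_512_3 : EL := (EL.cons 0 (TM.mk (P.cons (P.lf 1689184190 0 0) (P.cons (P.lf 0 328315225 0) (P.cons (P.lf 6915520 0 0) (P.cons (P.lf 1047332 0 0) (P.cons (P.lf 7546 0 0) (P.cons (P.lf 0 1573 0) P.nil)))))) 161)
 (EL.cons 1 (TM.mk (P.cons (P.lf 1616469420 0 0) (P.cons (P.lf 0 96098353 0) (P.cons (P.lf 0 12687056 0) (P.cons (P.lf 51723 0 0) (P.cons (P.lf 25867 0 0) (P.cons (P.lf 433 0 0) P.nil)))))) 140)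
 (EL.cons 5 (TM.mk (P.cons (P.lf 1546884822 0 0) (P.cons (P.lf 116734300 0 0) (P.cons (P.lf 0 2458850 0) (P.cons (P.lf 0 372384 0) (P.cons (P.lf 0 2686 0) (P.cons (P.lf 556 0 0) P.nil)))))) 116)
 EL.nil)))
noncomputable def S183_198_438_512_4 : EL := (EL.cons 0 (TM.mk (P.cons (P.cons (P.lf 375417483 0 0) (P.cons (P.lf 0 110187987 0) (P.cons (P.lf 0 1753785 0) (P.lf 584593 0 0)))) (P.cons (P.cons (P.lf 0 20874717 0) (P.cons (P.lf 8943630 0 0) (P.cons (P.lf 142349 0 0) (P.lf 0 47450 0)))) (P.cons (P.cons (P.lf 0 17025607 0) (P.cons (P.lf 2000562 0 0) (P.cons (P.lf 31839 0 0) (P.lf 0 10611 0)))) (P.cons (P.cons (P.lf 1797254 0 0) (P.cons (P.lf 0 72049 0) (P.cons (P.lf 0 1146 0) P.nil))) (P.cons (P.cons (P.lf 80685 0 0) (P.cons (P.lf 0 16934 0) P.nil)) (P.cons (P.cons (P.lf 0 10144 0) P.nil) P.nil)))))) 3249)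
 (EL.cons 1 (TM.mk (P.cons (P.cons (P.lf 359256785 0 0) (P.cons (P.lf 0 105444695 0) (P.cons (P.lf 0 1678290 0) (P.lf 559428 0 0)))) (P.cons (P.cons (P.lf 28492526 0 0) (P.cons (P.lf 0 5667296 0) (P.cons (P.lf 0 90200 0) (P.lf 30063 0 0)))) (P.cons (P.cons (P.lf 0 13857701 0) (P.cons (P.lf 1563410 0 0) (P.cons (P.lf 24879 0 0) (P.lf 0 8293 0)))) (P.cons (P.cons (P.lf 0 176060 0) (P.cons (P.lf 139140 0 0) (P.cons (P.lf 2212 0 0) P.nil))) (P.cons (P.cons (P.lf 111193 0 0) (P.cons (P.lf 0 3916 0) P.nil)) (P.cons (P.cons (P.lf 2589 0 0) P.nil) P.nil)))))) 2717)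
 (EL.cons 5 (TM.mk (P.cons (P.cons (P.lf 343791762 0 0) (P.cons (P.lf 0 100905588 0) (P.cons (P.lf 0 1606044 0) (P.lf 535346 0 0)))) (P.cons (P.cons (P.lf 73648204 0 0) (P.cons (P.lf 0 19036876 0) (P.cons (P.lf 0 302994 0) (P.lf 100996 0 0)))) (P.cons (P.cons (P.lf 0 4673390 0) (P.cons (P.lf 0 676464 0) (P.cons (P.lf 0 10766 0) (P.lf 3588 0 0)))) (P.cons (P.cons (P.lf 0 1006120 0) (P.cons (P.lf 92564 0 0) (P.cons (P.lf 1470 0 0) P.nil))) (P.cons (P.cons (P.lf 3258 0 0) (P.cons (P.lf 7816 0 0) P.nil)) (P.cons (P.cons (P.lf 5218 0 0) P.nil) P.nil)))))) 1936)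
 EL.nil)))
noncomputable def S183_198_438_512_5 : EL := (EL.cons 0 (TM.mk (P.cons (P.cons (P.lf 83435712 0 0) (P.cons (P.lf 0 48978077 0) (P.cons (P.lf 6408174 0 0) (P.cons (P.lf 488652 0 0) (P.cons (P.lf 0 74446 0) (P.cons (P.lf 0 1212 0) P.nil)))))) (P.cons (P.cons (P.lf 6938108 0 0) (P.cons (P.lf 0 2820752 0) (P.cons (P.lf 185320 0 0) (P.cons (P.lf 22292 0 0) (P.cons (P.lf 0 2383 0) P.nil))))) (P.cons (P.cons (P.lf 0 6302912 0) (P.cons (P.lf 2541670 0 0) (P.cons (P.lf 0 157872 0) (P.cons (P.lf 0 19796 0) P.nil)))) (P.cons (P.cons (P.lf 0 85517 0) (P.cons (P.lf 39686 0 0) (P.cons (P.lf 0 12730 0) P.nil))) (P.cons (P.cons (P.lf 167554 0 0) (P.cons (P.lf 0 38293 0) P.nil)) (P.cons (P.cons (P.lf 0 5860 0) P.nil) P.nil)))))) 18273)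
 (EL.cons 1 (TM.mk (P.cons (P.cons (P.lf 79844032 0 0) (P.cons (P.lf 0 46869703 0) (P.cons (P.lf 6132318 0 0) (P.cons (P.lf 467617 0 0) (P.cons (P.lf 0 71240 0) (P.cons (P.lf 0 1160 0) P.nil)))))) (P.cons (P.cons (P.lf 17411491 0 0) (P.cons (P.lf 0 9022689 0) (P.cons (P.lf 1004675 0 0) (P.cons (P.lf 84420 0 0) (P.cons (P.lf 0 11891 0) P.nil))))) (P.cons (P.cons (P.lf 0 3995694 0) (P.cons (P.lf 1398798 0 0) (P.cons (P.lf 0 39583 0) (P.cons (P.lf 0 9388 0) P.nil)))) (P.cons (P.cons (P.lf 0 670220 0) (P.cons (P.lf 250940 0 0) (P.cons (P.lf 0 20004 0) P.nil))) (P.cons (P.cons (P.lf 88976 0 0) (P.cons (P.lf 0 9976 0) P.nil)) (P.cons (P.cons (P.lf 7946 0 0) P.nil) P.nil)))))) 14731)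
 (EL.cons 5 (TM.mk (P.cons (P.cons (P.lf 76406964 0 0) (P.cons (P.lf 0 44852092 0) (P.cons (P.lf 5868340 0 0) (P.cons (P.lf 447488 0 0) (P.cons (P.lf 0 68174 0) (P.cons (P.lf 0 1110 0) P.nil)))))) (P.cons (P.cons (P.lf 26970318 0 0) (P.cons (P.lf 0 14685446 0) (P.cons (P.lf 1753146 0 0) (P.cons (P.lf 141158 0 0) (P.cons (P.lf 0 20578 0) P.nil))))) (P.cons (P.cons (P.lf 0 484700 0) (P.cons (P.lf 0 466766 0) (P.cons (P.lf 175626 0 0) (P.cons (P.lf 8302 0 0) P.nil)))) (P.cons (P.cons (P.lf 0 794380 0) (P.cons (P.lf 224102 0 0) (P.cons (P.lf 0 930 0) P.nil))) (P.cons (P.cons (P.lf 0 14434 0) (P.cons (P.lf 19446 0 0) P.nil)) (P.cons (P.cons (P.lf 8438 0 0) P.nil) P.nil)))))) 10990)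
 EL.nil)))
noncomputable def S183_198_438_512_6 : EL := (EL.cons 12 (TM.mk (P.lf 8589934592 0 0) 0)
 (EL.cons 3 (TM.mk (P.cons (P.lf 0 1904598495 0) (P.cons (P.lf 185091918 0 0) (P.cons (P.lf 5095050 0 0) (P.cons (P.lf 0 95302 0) (P.cons (P.lf 0 6701 0) (P.cons (P.lf 0 18 0) P.nil)))))) 59)
 (EL.cons 7 (TM.mk (P.cons (P.lf 0 1822610727 0) (P.cons (P.lf 0 68770857 0) (P.cons (P.lf 2745999 0 0) (P.cons (P.lf 115768 0 0) (P.cons (P.lf 0 717 0) (P.cons (P.lf 0 127 0) P.nil)))))) 49)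
 EL.nil)))
noncomputable def S183_198_438_512_7 : EL := (EL.cons 12 (TM.mk (P.cons (P.cons (P.lf 1909094142 0 0) (P.cons (P.lf 0 560334168 0) (P.cons (P.lf 0 8918456 0) (P.lf 2972816 0 0)))) (P.cons (P.cons (P.lf 264904334 0 0) (P.cons (P.lf 0 63427680 0) (P.cons (P.lf 0 1009528 0) (P.lf 336504 0 0)))) (P.cons (P.cons (P.lf 0 42907766 0) (P.cons (P.lf 139384 0 0) (P.cons (P.lf 2208 0 0) (P.lf 0 736 0)))) (P.cons (P.cons (P.lf 0 1468390 0) (P.cons (P.lf 267792 0 0) (P.cons (P.lf 4256 0 0) P.nil))) (P.cons (P.cons (P.lf 127794 0 0) (P.cons (P.lf 7184 0 0) P.nil)) (P.cons (P.cons (P.lf 6454 0 0) P.nil) P.nil)))))) 3286)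
 (EL.cons 3 (TM.mk (P.cons (P.cons (P.lf 1133361285 0 0) (P.cons (P.lf 0 248479564 0) (P.cons (P.lf 0 3954878 0) (P.lf 1318290 0 0)))) (P.cons (P.cons (P.lf 0 490105370 0) (P.cons (P.lf 0 3979292 0) (P.cons (P.lf 0 63330 0) (P.lf 21106 0 0)))) (P.cons (P.cons (P.lf 0 21643367 0) (P.cons (P.lf 3459944 0 0) (P.cons (P.lf 55062 0 0) (P.lf 0 18354 0)))) (P.cons (P.cons (P.lf 2601797 0 0) (P.cons (P.lf 175554 0 0) (P.cons (P.lf 2790 0 0) P.nil))) (P.cons (P.cons (P.lf 191784 0 0) (P.cons (P.lf 0 10800 0) P.nil)) (P.cons (P.cons (P.lf 0 3946 0) P.nil) P.nil)))))) 7814)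
 (EL.cons 7 (TM.mk (P.cons (P.cons (P.lf 0 983445713 0) (P.cons (P.lf 257375391 0 0) (P.cons (P.lf 4096470 0 0) (P.lf 0 1365492 0)))) (P.cons (P.cons (P.lf 182098530 0 0) (P.cons (P.lf 1478508 0 0) (P.cons (P.lf 23534 0 0) (P.lf 0 7848 0)))) (P.cons (P.cons (P.lf 0 4242194 0) (P.cons (P.lf 0 1385277 0) (P.cons (P.lf 0 22049 0) (P.lf 7347 0 0)))) (P.cons (P.cons (P.lf 0 1451902 0) (P.cons (P.lf 52329 0 0) (P.cons (P.lf 830 0 0) P.nil))) (P.cons (P.cons (P.lf 31503 0 0) (P.cons (P.lf 8004 0 0) P.nil)) (P.cons (P.cons (P.lf 6455 0 0) P.nil) P.nil)))))) 6192)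
 (EL.cons 10 (TM.mk (P.cons (P.cons (P.lf 0 2278010928 0) (P.cons (P.lf 0 84442758 0) (P.cons (P.lf 41841690 0 0) (P.cons (P.lf 379686 0 0) (P.lf 0 94920 0))))) (P.cons (P.cons (P.lf 0 171908085 0) (P.cons (P.lf 0 6372396 0) (P.cons (P.lf 3157545 0 0) (P.cons (P.lf 28650 0 0) (P.lf 0 7161 0))))) (P.cons (P.cons (P.lf 3621009 0 0) (P.cons (P.lf 134223 0 0) (P.cons (P.lf 0 66507 0) (P.cons (P.lf 0 603 0) P.nil)))) (P.cons (P.cons (P.lf 548388 0 0) (P.cons (P.lf 20328 0 0) (P.cons (P.lf 0 10071 0) P.nil))) (P.cons (P.cons (P.lf 3954 0 0) (P.cons (P.lf 144 0 0) P.nil)) (P.cons (P.cons (P.lf 0 816 0) P.nil) P.nil)))))) 672)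
 EL.nil))))
noncomputable def S183_198_438_512_8 : EL := (EL.cons 12 (TM.mk (P.cons (P.cons (P.lf 424291990 0 0) (P.cons (P.lf 0 249066082 0) (P.cons (P.lf 32587212 0 0) (P.cons (P.lf 2484930 0 0) (P.cons (P.lf 0 378582 0) (P.cons (P.lf 0 6172 0) P.nil)))))) (P.cons (P.cons (P.lf 117748814 0 0) (P.cons (P.lf 0 62753530 0) (P.cons (P.lf 7276160 0 0) (P.cons (P.lf 596344 0 0) (P.cons (P.lf 0 85706 0) P.nil))))) (P.cons (P.cons (P.lf 0 10902948 0) (P.cons (P.lf 1747746 0 0) (P.cons (P.lf 477976 0 0) (P.cons (P.lf 5058 0 0) P.nil)))) (P.cons (P.cons (P.lf 0 3299150 0) (P.cons (P.lf 952856 0 0) (P.cons (P.lf 0 21832 0) P.nil))) (P.cons (P.cons (P.lf 180566 0 0) (P.cons (P.lf 23330 0 0) P.nil)) (P.cons (P.cons (P.lf 25420 0 0) P.nil) P.nil)))))) 30696)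
 (EL.cons 3 (TM.mk (P.cons (P.cons (P.lf 597850029 0 0) (P.cons (P.lf 0 313533790 0) (P.cons (P.lf 35531424 0 0) (P.cons (P.lf 2953343 0 0) (P.cons (P.lf 0 419706 0) (P.cons (P.lf 0 6841 0) P.nil)))))) (P.cons (P.cons (P.lf 0 130981057 0) (P.cons (P.lf 21561530 0 0) (P.cons (P.lf 5579024 0 0) (P.cons (P.lf 52265 0 0) (P.cons (P.lf 0 54225 0) P.nil))))) (P.cons (P.cons (P.lf 0 56377893 0) (P.cons (P.lf 15760565 0 0) (P.cons (P.lf 0 250022 0) (P.cons (P.lf 0 99551 0) P.nil)))) (P.cons (P.cons (P.lf 3768650 0 0) (P.cons (P.lf 659159 0 0) (P.cons (P.lf 0 101536 0) P.nil))) (P.cons (P.cons (P.lf 782452 0 0) (P.cons (P.lf 0 144661 0) P.nil)) (P.cons (P.cons (P.lf 0 17720 0) P.nil) P.nil)))))) 76967)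
 (EL.cons 7 (TM.mk (P.cons (P.cons (P.lf 0 347111111 0) (P.cons (P.lf 189858679 0 0) (P.cons (P.lf 0 22800626 0) (P.cons (P.lf 0 1829281 0) (P.cons (P.lf 267455 0 0) (P.cons (P.lf 4357 0 0) P.nil)))))) (P.cons (P.cons (P.lf 48665979 0 0) (P.cons (P.lf 0 8011180 0) (P.cons (P.lf 0 2072880 0) (P.cons (P.lf 0 19430 0) (P.cons (P.lf 20154 0 0) P.nil))))) (P.cons (P.cons (P.lf 17664338 0 0) (P.cons (P.lf 0 5315426 0) (P.cons (P.lf 232720 0 0) (P.cons (P.lf 38297 0 0) P.nil)))) (P.cons (P.cons (P.lf 0 3220653 0) (P.cons (P.lf 271302 0 0) (P.cons (P.lf 26658 0 0) P.nil))) (P.cons (P.cons (P.lf 0 110847 0) (P.cons (P.lf 67520 0 0) P.nil)) (P.cons (P.cons (P.lf 32762 0 0) P.nil) P.nil)))))) 43890)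
 (EL.cons 10 (TM.mk (P.cons (P.cons (P.lf 0 1012565874 0) (P.cons (P.lf 259661622 0 0) (P.cons (P.lf 34345362 0 0) (P.cons (P.lf 0 6691428 0) (P.cons (P.lf 0 237054 0) (P.cons (P.lf 40554 0 0) P.nil)))))) (P.cons (P.cons (P.lf 0 216915198 0) (P.cons (P.lf 48028338 0 0) (P.cons (P.lf 6955032 0 0) (P.cons (P.lf 0 1258086 0) (P.cons (P.lf 0 45798 0) P.nil))))) (P.cons (P.cons (P.lf 13764480 0 0) (P.cons (P.lf 2502612 0 0) (P.cons (P.lf 0 147246 0) (P.cons (P.lf 0 48282 0) P.nil)))) (P.cons (P.cons (P.lf 2963316 0 0) (P.cons (P.lf 0 162786 0) (P.cons (P.lf 0 68868 0) P.nil))) (P.cons (P.cons (P.lf 0 9600 0) (P.cons (P.lf 0 23382 0) P.nil)) (P.cons (P.cons (P.lf 0 15372 0) P.nil) P.nil)))))) 29202)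
 EL.nil))))
noncomputable def S183_198_438_512_9 : EL := (EL.cons 3 (TM.mk (P.cons (P.lf 0 1904598495 0) (P.cons (P.lf 185091918 0 0) (P.cons (P.lf 5095050 0 0) (P.cons (P.lf 0 95302 0) (P.cons (P.lf 0 6701 0) (P.cons (P.lf 0 18 0) P.nil)))))) 59)
 (EL.cons 7 (TM.mk (P.cons (P.lf 0 1822610727 0) (P.cons (P.lf 0 68770857 0) (P.cons (P.lf 2745999 0 0) (P.cons (P.lf 115768 0 0) (P.cons (P.lf 0 717 0) (P.cons (P.lf 0 127 0) P.nil)))))) 49)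
 EL.nil))
noncomputable def S183_198_438_512_10 : EL := (EL.cons 3 (TM.mk (P.cons (P.cons (P.lf 0 423292842 0) (P.cons (P.lf 124239782 0 0) (P.cons (P.lf 1977439 0 0) (P.lf 0 659145 0)))) (P.cons (P.cons (P.lf 0 17599493 0) (P.cons (P.lf 1989646 0 0) (P.cons (P.lf 31665 0 0) (P.lf 0 10553 0)))) (P.cons (P.cons (P.lf 16354099 0 0) (P.cons (P.lf 0 1729972 0) (P.cons (P.lf 0 27531 0) (P.lf 9177 0 0)))) (P.cons (P.cons (P.lf 0 463033 0) (P.cons (P.lf 0 87777 0) (P.cons (P.lf 0 1395 0) P.nil))) (P.cons (P.cons (P.lf 0 89853 0) (P.cons (P.lf 5400 0 0) P.nil)) (P.cons (P.cons (P.lf 716 0 0) P.nil) P.nil)))))) 1870)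
 (EL.cons 7 (TM.mk (P.cons (P.cons (P.lf 0 405071240 0) (P.cons (P.lf 118891599 0 0) (P.cons (P.lf 1892316 0 0) (P.lf 0 630771 0)))) (P.cons (P.cons (P.lf 0 71491524 0) (P.cons (P.lf 17944098 0 0) (P.cons (P.lf 285602 0 0) (P.lf 0 95199 0)))) (P.cons (P.cons (P.lf 7593634 0 0) (P.cons (P.lf 299100 0 0) (P.cons (P.lf 4762 0 0) (P.lf 0 1587 0)))) (P.cons (P.cons (P.lf 765494 0 0) (P.cons (P.lf 0 85764 0) (P.cons (P.lf 0 1363 0) P.nil))) (P.cons (P.cons (P.lf 0 25665 0) (P.cons (P.lf 0 4431 0) P.nil)) (P.cons (P.cons (P.lf 0 3490 0) P.nil) P.nil)))))) 1259)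
 EL.nil))
noncomputable def S183_198_438_512_11 : EL := (EL.cons 3 (TM.mk (P.cons (P.cons (P.lf 0 94075905 0) (P.cons (P.lf 55224038 0 0) (P.cons (P.lf 0 7225380 0) (P.cons (P.lf 0 550969 0) (P.cons (P.lf 83940 0 0) (P.cons (P.lf 1367 0 0) P.nil)))))) (P.cons (P.cons (P.lf 0 16965343 0) (P.cons (P.lf 8547230 0 0) (P.cons (P.lf 0 911128 0) (P.cons (P.lf 0 78679 0) (P.cons (P.lf 10845 0 0) P.nil))))) (P.cons (P.cons (P.lf 5206311 0 0) (P.cons (P.lf 0 1887433 0) (P.cons (P.lf 70132 0 0) (P.cons (P.lf 13201 0 0) P.nil)))) (P.cons (P.cons (P.lf 561704 0 0) (P.cons (P.lf 0 208069 0) (P.cons (P.lf 19094 0 0) P.nil))) (P.cons (P.cons (P.lf 0 119228 0) (P.cons (P.lf 17285 0 0) P.nil)) (P.cons (P.cons (P.lf 0 3674 0) P.nil) P.nil)))))) 13069)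
 (EL.cons 7 (TM.mk (P.cons (P.cons (P.lf 0 90026195 0) (P.cons (P.lf 52846795 0 0) (P.cons (P.lf 0 6914348 0) (P.cons (P.lf 0 527251 0) (P.cons (P.lf 80327 0 0) (P.cons (P.lf 1309 0 0) P.nil)))))) (P.cons (P.cons (P.lf 0 28380795 0) (P.cons (P.lf 15309050 0 0) (P.cons (P.lf 0 1804746 0) (P.cons (P.lf 0 146426 0) (P.cons (P.lf 21216 0 0) P.nil))))) (P.cons (P.cons (P.lf 1506326 0 0) (P.cons (P.lf 51946 0 0) (P.cons (P.lf 0 149252 0) (P.cons (P.lf 0 5053 0) P.nil)))) (P.cons (P.cons (P.lf 830661 0 0) (P.cons (P.lf 0 239586 0) (P.cons (P.lf 3570 0 0) P.nil))) (P.cons (P.cons (P.lf 0 13833 0) (P.cons (P.lf 0 12844 0) P.nil)) (P.cons (P.cons (P.lf 0 8056 0) P.nil) P.nil)))))) 9272)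
 EL.nil))
noncomputable def S183_198_438_512_12 : EL := (EL.cons 4 (TM.mk (P.cons (P.lf 1904598495 0 0) (P.cons (P.lf 0 185091918 0) (P.cons (P.lf 0 5095050 0) (P.cons (P.lf 95302 0 0) (P.cons (P.lf 6701 0 0) (P.cons (P.lf 18 0 0) P.nil)))))) 59)
 (EL.cons 8 (TM.mk (P.cons (P.lf 1822610727 0 0) (P.cons (P.lf 68770857 0 0) (P.cons (P.lf 0 2745999 0) (P.cons (P.lf 0 115768 0) (P.cons (P.lf 717 0 0) (P.cons (P.lf 127 0 0) P.nil)))))) 49)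
 EL.nil))
noncomputable def S183_198_438_512_13 : EL := (EL.cons 4 (TM.mk (P.cons (P.cons (P.lf 423292842 0 0) (P.cons (P.lf 0 124239782 0) (P.cons (P.lf 0 1977439 0) (P.lf 659145 0 0)))) (P.cons (P.cons (P.lf 17599493 0 0) (P.cons (P.lf 0 1989646 0) (P.cons (P.lf 0 31665 0) (P.lf 10553 0 0)))) (P.cons (P.cons (P.lf 0 16354099 0) (P.cons (P.lf 1729972 0 0) (P.cons (P.lf 27531 0 0) (P.lf 0 9177 0)))) (P.cons (P.cons (P.lf 463033 0 0) (P.cons (P.lf 87777 0 0) (P.cons (P.lf 1395 0 0) P.nil))) (P.cons (P.cons (P.lf 89853 0 0) (P.cons (P.lf 0 5400 0) P.nil)) (P.cons (P.cons (P.lf 0 716 0) P.nil) P.nil)))))) 1870)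
 (EL.cons 8 (TM.mk (P.cons (P.cons (P.lf 405071240 0 0) (P.cons (P.lf 0 118891599 0) (P.cons (P.lf 0 1892316 0) (P.lf 630771 0 0)))) (P.cons (P.cons (P.lf 71491524 0 0) (P.cons (P.lf 0 17944098 0) (P.cons (P.lf 0 285602 0) (P.lf 95199 0 0)))) (P.cons (P.cons (P.lf 0 7593634 0) (P.cons (P.lf 0 299100 0) (P.cons (P.lf 0 4762 0) (P.lf 1587 0 0)))) (P.cons (P.cons (P.lf 0 765494 0) (P.cons (P.lf 85764 0 0) (P.cons (P.lf 1363 0 0) P.nil))) (P.cons (P.cons (P.lf 25665 0 0) (P.cons (P.lf 4431 0 0) P.nil)) (P.cons (P.cons (P.lf 3490 0 0) P.nil) P.nil)))))) 1259)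
 EL.nil))
noncomputable def S183_198_438_512_14 : EL := (EL.cons 4 (TM.mk (P.cons (P.cons (P.lf 94075905 0 0) (P.cons (P.lf 0 55224038 0) (P.cons (P.lf 7225380 0 0) (P.cons (P.lf 550969 0 0) (P.cons (P.lf 0 83940 0) (P.cons (P.lf 0 1367 0) P.nil)))))) (P.cons (P.cons (P.lf 16965343 0 0) (P.cons (P.lf 0 8547230 0) (P.cons (P.lf 911128 0 0) (P.cons (P.lf 78679 0 0) (P.cons (P.lf 0 10845 0) P.nil))))) (P.cons (P.cons (P.lf 0 5206311 0) (P.cons (P.lf 1887433 0 0) (P.cons (P.lf 0 70132 0) (P.cons (P.lf 0 13201 0) P.nil)))) (P.cons (P.cons (P.lf 0 561704 0) (P.cons (P.lf 208069 0 0) (P.cons (P.lf 0 19094 0) P.nil))) (P.cons (P.cons (P.lf 119228 0 0) (P.cons (P.lf 0 17285 0) P.nil)) (P.cons (P.cons (P.lf 3674 0 0) P.nil) P.nil)))))) 13069)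
 (EL.cons 8 (TM.mk (P.cons (P.cons (P.lf 90026195 0 0) (P.cons (P.lf 0 52846795 0) (P.cons (P.lf 6914348 0 0) (P.cons (P.lf 527251 0 0) (P.cons (P.lf 0 80327 0) (P.cons (P.lf 0 1309 0) P.nil)))))) (P.cons (P.cons (P.lf 28380795 0 0) (P.cons (P.lf 0 15309050 0) (P.cons (P.lf 1804746 0 0) (P.cons (P.lf 146426 0 0) (P.cons (P.lf 0 21216 0) P.nil))))) (P.cons (P.cons (P.lf 0 1506326 0) (P.cons (P.lf 0 51946 0) (P.cons (P.lf 149252 0 0) (P.cons (P.lf 5053 0 0) P.nil)))) (P.cons (P.cons (P.lf 0 830661 0) (P.cons (P.lf 239586 0 0) (P.cons (P.lf 0 3570 0) P.nil))) (P.cons (P.cons (P.lf 13833 0 0) (P.cons (P.lf 12844 0 0) P.nil)) (P.cons (P.cons (P.lf 8056 0 0) P.nil) P.nil)))))) 9272)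
 EL.nil))
noncomputable def S183_198_438_512_15 : EL := (EL.cons 4 (TM.mk (P.cons (P.lf 0 900898234 0) (P.cons (P.lf 175101453 0 0) (P.cons (P.lf 0 3688277 0) (P.cons (P.lf 0 558577 0) (P.cons (P.lf 0 4024 0) (P.cons (P.lf 839 0 0) P.nil)))))) 89)
 (EL.cons 8 (TM.mk (P.cons (P.lf 0 862117024 0) (P.cons (P.lf 51252455 0 0) (P.cons (P.lf 6766430 0 0) (P.cons (P.lf 0 27586 0) (P.cons (P.lf 0 13796 0) (P.cons (P.lf 0 231 0) P.nil)))))) 71)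
 EL.nil))
noncomputable def S183_198_438_512_16 : EL := (EL.cons 4 (TM.mk (P.cons (P.cons (P.lf 0 200222657 0) (P.cons (P.lf 58766926 0 0) (P.cons (P.lf 935352 0 0) (P.lf 0 311783 0)))) (P.cons (P.cons (P.lf 11133182 0 0) (P.cons (P.lf 0 4769936 0) (P.cons (P.lf 0 75919 0) (P.lf 25306 0 0)))) (P.cons (P.cons (P.lf 9080324 0 0) (P.cons (P.lf 0 1066966 0) (P.cons (P.lf 0 16980 0) (P.lf 5659 0 0)))) (P.cons (P.cons (P.lf 0 958535 0) (P.cons (P.lf 38426 0 0) (P.cons (P.lf 611 0 0) P.nil))) (P.cons (P.cons (P.lf 0 43032 0) (P.cons (P.lf 9031 0 0) P.nil)) (P.cons (P.cons (P.lf 5410 0 0) P.nil) P.nil)))))) 1742)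
 (EL.cons 8 (TM.mk (P.cons (P.cons (P.lf 0 191603619 0) (P.cons (P.lf 56237171 0 0) (P.cons (P.lf 895088 0 0) (P.lf 0 298362 0)))) (P.cons (P.cons (P.lf 0 15196014 0) (P.cons (P.lf 3022558 0 0) (P.cons (P.lf 48107 0 0) (P.lf 0 16034 0)))) (P.cons (P.cons (P.lf 7390774 0 0) (P.cons (P.lf 0 833819 0) (P.cons (P.lf 0 13269 0) (P.lf 4423 0 0)))) (P.cons (P.cons (P.lf 93899 0 0) (P.cons (P.lf 0 74208 0) (P.cons (P.lf 0 1180 0) P.nil))) (P.cons (P.cons (P.lf 0 59303 0) (P.cons (P.lf 2089 0 0) P.nil)) (P.cons (P.cons (P.lf 0 1381 0) P.nil) P.nil)))))) 1439)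
 EL.nil))
noncomputable def S183_198_438_512_17 : EL := (EL.cons 4 (TM.mk (P.cons (P.cons (P.lf 0 44499046 0) (P.cons (P.lf 26121641 0 0) (P.cons (P.lf 0 3417692 0) (P.cons (P.lf 0 260614 0) (P.cons (P.lf 39705 0 0) (P.cons (P.lf 646 0 0) P.nil)))))) (P.cons (P.cons (P.lf 0 3700324 0) (P.cons (P.lf 1504401 0 0) (P.cons (P.lf 0 98837 0) (P.cons (P.lf 0 11889 0) (P.cons (P.lf 1271 0 0) P.nil))))) (P.cons (P.cons (P.lf 3361553 0 0) (P.cons (P.lf 0 1355557 0) (P.cons (P.lf 84198 0 0) (P.cons (P.lf 10558 0 0) P.nil)))) (P.cons (P.cons (P.lf 45609 0 0) (P.cons (P.lf 0 21165 0) (P.cons (P.lf 6789 0 0) P.nil))) (P.cons (P.cons (P.lf 0 89362 0) (P.cons (P.lf 20423 0 0) P.nil)) (P.cons (P.cons (P.lf 3125 0 0) P.nil) P.nil)))))) 9756)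
 (EL.cons 8 (TM.mk (P.cons (P.cons (P.lf 0 42583484 0) (P.cons (P.lf 24997175 0 0) (P.cons (P.lf 0 3270570 0) (P.cons (P.lf 0 249396 0) (P.cons (P.lf 37995 0 0) (P.cons (P.lf 619 0 0) P.nil)))))) (P.cons (P.cons (P.lf 0 9286129 0) (P.cons (P.lf 4812101 0 0) (P.cons (P.lf 0 535827 0) (P.cons (P.lf 0 45024 0) (P.cons (P.lf 6342 0 0) P.nil))))) (P.cons (P.cons (P.lf 2131037 0 0) (P.cons (P.lf 0 746026 0) (P.cons (P.lf 21111 0 0) (P.cons (P.lf 5007 0 0) P.nil)))) (P.cons (P.cons (P.lf 357451 0 0) (P.cons (P.lf 0 133835 0) (P.cons (P.lf 10669 0 0) P.nil))) (P.cons (P.cons (P.lf 0 47454 0) (P.cons (P.lf 5321 0 0) P.nil)) (P.cons (P.cons (P.lf 0 4238 0) P.nil) P.nil)))))) 7845)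
 EL.nil))
noncomputable def S183_198_438_512_18 : EL := (EL.cons 4 (TM.mk (P.cons (P.lf 426135812 0 0) (P.cons (P.lf 0 124237673 0) (P.cons (P.lf 8653707 0 0) (P.cons (P.lf 337561 0 0) (P.cons (P.lf 0 31084 0) (P.cons (P.lf 0 1487 0) P.nil)))))) 136)
 (EL.cons 8 (TM.mk (P.cons (P.lf 407791829 0 0) (P.cons (P.lf 0 63872894 0) (P.cons (P.lf 0 1935523 0) (P.cons (P.lf 409346 0 0) (P.cons (P.lf 14041 0 0) (P.cons (P.lf 0 800 0) P.nil)))))) 99)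
 EL.nil))
noncomputable def S183_198_438_512_19 : EL := (EL.cons 4 (TM.mk (P.cons (P.cons (P.lf 94707750 0 0) (P.cons (P.lf 0 27797470 0) (P.cons (P.lf 0 442432 0) (P.lf 147477 0 0)))) (P.cons (P.cons (P.lf 0 14469980 0) (P.cons (P.lf 4957639 0 0) (P.cons (P.lf 78907 0 0) (P.lf 0 26302 0)))) (P.cons (P.cons (P.lf 0 4036688 0) (P.cons (P.lf 359785 0 0) (P.cons (P.lf 5725 0 0) (P.lf 0 1907 0)))) (P.cons (P.cons (P.lf 889630 0 0) (P.cons (P.lf 0 74648 0) (P.cons (P.lf 0 1187 0) P.nil))) (P.cons (P.cons (P.lf 0 12147 0) (P.cons (P.lf 0 3840 0) P.nil)) (P.cons (P.cons (P.lf 0 5982 0) P.nil) P.nil)))))) 2174)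
 (EL.cons 8 (TM.mk (P.cons (P.cons (P.lf 90630840 0 0) (P.cons (P.lf 0 26600865 0) (P.cons (P.lf 0 423387 0) (P.lf 141128 0 0)))) (P.cons (P.cons (P.lf 0 1619749 0) (P.cons (P.lf 1155407 0 0) (P.cons (P.lf 18389 0 0) (P.lf 0 6130 0)))) (P.cons (P.cons (P.lf 0 4436906 0) (P.cons (P.lf 604508 0 0) (P.cons (P.lf 9620 0 0) (P.lf 0 3206 0)))) (P.cons (P.cons (P.lf 280630 0 0) (P.cons (P.lf 0 733 0) (P.cons (P.lf 0 11 0) P.nil))) (P.cons (P.cons (P.lf 42398 0 0) (P.cons (P.lf 0 5619 0) P.nil)) (P.cons (P.cons (P.lf 0 2102 0) P.nil) P.nil)))))) 1364)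
 EL.nil))
noncomputable def S183_198_438_512_20 : EL := (EL.cons 4 (TM.mk (P.cons (P.cons (P.lf 21048589 0 0) (P.cons (P.lf 0 12355853 0) (P.cons (P.lf 1616610 0 0) (P.cons (P.lf 123273 0 0) (P.cons (P.lf 0 18780 0) (P.cons (P.lf 0 305 0) P.nil)))))) (P.cons (P.cons (P.lf 0 295236 0) (P.cons (P.lf 489161 0 0) (P.cons (P.lf 0 110353 0) (P.cons (P.lf 0 6355 0) (P.cons (P.lf 1223 0 0) P.nil))))) (P.cons (P.cons (P.lf 0 1816459 0) (P.cons (P.lf 743402 0 0) (P.cons (P.lf 0 48694 0) (P.cons (P.lf 0 5870 0) P.nil)))) (P.cons (P.cons (P.lf 129320 0 0) (P.cons (P.lf 0 51015 0) (P.cons (P.lf 614 0 0) P.nil))) (P.cons (P.cons (P.lf 48780 0 0) (P.cons (P.lf 0 12427 0) P.nil)) (P.cons (P.cons (P.lf 0 5601 0) P.nil) P.nil)))))) 8475)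
 (EL.cons 8 (TM.mk (P.cons (P.cons (P.lf 20142505 0 0) (P.cons (P.lf 0 11823967 0) (P.cons (P.lf 1547019 0 0) (P.cons (P.lf 117967 0 0) (P.cons (P.lf 0 17972 0) (P.cons (P.lf 0 292 0) P.nil)))))) (P.cons (P.cons (P.lf 2434971 0 0) (P.cons (P.lf 0 1127110 0) (P.cons (P.lf 103111 0 0) (P.cons (P.lf 9832 0 0) (P.cons (P.lf 0 1253 0) P.nil))))) (P.cons (P.cons (P.lf 0 1488755 0) (P.cons (P.lf 605713 0 0) (P.cons (P.lf 0 38755 0) (P.cons (P.lf 0 4753 0) P.nil)))) (P.cons (P.cons (P.lf 0 81861 0) (P.cons (P.lf 34509 0 0) (P.cons (P.lf 0 4676 0) P.nil))) (P.cons (P.cons (P.lf 41865 0 0) (P.cons (P.lf 0 9769 0) P.nil)) (P.cons (P.cons (P.lf 241 0 0) P.nil) P.nil)))))) 5592)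
 EL.nil))
noncomputable def S183_198_438_512_21 : EL := (EL.cons 4 (TM.mk (P.cons (P.cons (P.lf 0 1556654127 0) (P.cons (P.lf 372719346 0 0) (P.cons (P.lf 5932317 0 0) (P.lf 0 1977435 0)))) (P.cons (P.cons (P.lf 472505877 0 0) (P.cons (P.lf 5968938 0 0) (P.cons (P.lf 94995 0 0) (P.lf 0 31659 0)))) (P.cons (P.cons (P.lf 37997466 0 0) (P.cons (P.lf 0 5189916 0) (P.cons (P.lf 0 82593 0) (P.lf 27531 0 0)))) (P.cons (P.cons (P.lf 0 3064830 0) (P.cons (P.lf 0 263331 0) (P.cons (P.lf 0 4185 0) P.nil))) (P.cons (P.cons (P.lf 0 281637 0) (P.cons (P.lf 16200 0 0) P.nil)) (P.cons (P.cons (P.lf 4662 0 0) P.nil) P.nil)))))) 5925)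
 (EL.cons 8 (TM.mk (P.cons (P.cons (P.lf 578374473 0 0) (P.cons (P.lf 0 138483792 0) (P.cons (P.lf 0 2204154 0) (P.lf 734721 0 0)))) (P.cons (P.cons (P.lf 0 253590054 0) (P.cons (P.lf 16465590 0 0) (P.cons (P.lf 262068 0 0) (P.lf 0 87351 0)))) (P.cons (P.cons (P.lf 11835828 0 0) (P.cons (P.lf 1684377 0 0) (P.cons (P.lf 26811 0 0) (P.lf 0 8934 0)))) (P.cons (P.cons (P.lf 2217396 0 0) (P.cons (P.lf 0 138093 0) (P.cons (P.lf 0 2193 0) P.nil))) (P.cons (P.cons (P.lf 0 57168 0) (P.cons (P.lf 0 12435 0) P.nil)) (P.cons (P.cons (P.lf 0 9945 0) P.nil) P.nil)))))) 4914)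
 (EL.cons 11 (TM.mk (P.cons (P.cons (P.lf 2278010928 0 0) (P.cons (P.lf 84442758 0 0) (P.cons (P.lf 0 41841690 0) (P.cons (P.lf 0 379686 0) (P.lf 94920 0 0))))) (P.cons (P.cons (P.lf 171908085 0 0) (P.cons (P.lf 6372396 0 0) (P.cons (P.lf 0 3157545 0) (P.cons (P.lf 0 28650 0) (P.lf 7161 0 0))))) (P.cons (P.cons (P.lf 0 3621009 0) (P.cons (P.lf 0 134223 0) (P.cons (P.lf 66507 0 0) (P.cons (P.lf 603 0 0) P.nil)))) (P.cons (P.cons (P.lf 0 548388 0) (P.cons (P.lf 0 20328 0) (P.cons (P.lf 10071 0 0) P.nil))) (P.cons (P.cons (P.lf 0 3954 0) (P.cons (P.lf 0 144 0) P.nil)) (P.cons (P.cons (P.lf 816 0 0) P.nil) P.nil)))))) 672)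
 EL.nil)))
noncomputable def S183_198_438_512_22 : EL := (EL.cons 4 (TM.mk (P.cons (P.cons (P.lf 0 345962967 0) (P.cons (P.lf 184378914 0 0) (P.cons (P.lf 0 21378402 0) (P.cons (P.lf 0 1752156 0) (P.cons (P.lf 251823 0 0) (P.cons (P.lf 4104 0 0) P.nil)))))) (P.cons (P.cons (P.lf 57007857 0 0) (P.cons (P.lf 0 6507150 0) (P.cons (P.lf 0 3245076 0) (P.cons (P.lf 0 65472 0) (P.cons (P.lf 32535 0 0) P.nil))))) (P.cons (P.cons (P.lf 30792102 0 0) (P.cons (P.lf 0 8823999 0) (P.cons (P.lf 160077 0 0) (P.cons (P.lf 56376 0 0) P.nil)))) (P.cons (P.cons (P.lf 0 1603473 0) (P.cons (P.lf 0 433614 0) (P.cons (P.lf 60315 0 0) P.nil))) (P.cons (P.cons (P.lf 0 450840 0) (P.cons (P.lf 80973 0 0) P.nil)) (P.cons (P.cons (P.lf 7023 0 0) P.nil) P.nil)))))) 31938)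
 (EL.cons 8 (TM.mk (P.cons (P.cons (P.lf 128542458 0 0) (P.cons (P.lf 0 68505942 0) (P.cons (P.lf 7943139 0 0) (P.cons (P.lf 651015 0 0) (P.cons (P.lf 0 93564 0) (P.cons (P.lf 0 1524 0) P.nil)))))) (P.cons (P.cons (P.lf 0 38523387 0) (P.cons (P.lf 11660115 0 0) (P.cons (P.lf 134067 0 0) (P.cons (P.lf 0 63498 0) (P.cons (P.lf 531 0 0) P.nil))))) (P.cons (P.cons (P.lf 0 8079006 0) (P.cons (P.lf 2683686 0 0) (P.cons (P.lf 0 190986 0) (P.cons (P.lf 0 21675 0) P.nil)))) (P.cons (P.cons (P.lf 2025657 0 0) (P.cons (P.lf 0 255444 0) (P.cons (P.lf 0 11544 0) P.nil))) (P.cons (P.cons (P.lf 48507 0 0) (P.cons (P.lf 0 40182 0) P.nil)) (P.cons (P.cons (P.lf 0 20409 0) P.nil) P.nil)))))) 17298)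
 (EL.cons 11 (TM.mk (P.cons (P.cons (P.lf 506282937 0 0) (P.cons (P.lf 0 129830811 0) (P.cons (P.lf 0 17172681 0) (P.cons (P.lf 3345714 0 0) (P.cons (P.lf 118527 0 0) (P.cons (P.lf 0 20277 0) P.nil)))))) (P.cons (P.cons (P.lf 108457599 0 0) (P.cons (P.lf 0 24014169 0) (P.cons (P.lf 0 3477516 0) (P.cons (P.lf 629043 0 0) (P.cons (P.lf 22899 0 0) P.nil))))) (P.cons (P.cons (P.lf 0 6882240 0) (P.cons (P.lf 0 1251306 0) (P.cons (P.lf 73623 0 0) (P.cons (P.lf 24141 0 0) P.nil)))) (P.cons (P.cons (P.lf 0 1481658 0) (P.cons (P.lf 81393 0 0) (P.cons (P.lf 34434 0 0) P.nil))) (P.cons (P.cons (P.lf 4800 0 0) (P.cons (P.lf 11691 0 0) P.nil)) (P.cons (P.cons (P.lf 7686 0 0) P.nil) P.nil)))))) 14601)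
 EL.nil)))
noncomputable def S183_198_438_512_23 : EL := (EL.cons 4 (TM.mk (P.cons (P.cons (P.lf 736316319 0 0) (P.cons (P.lf 0 176300778 0) (P.cons (P.lf 0 2806056 0) (P.lf 935349 0 0)))) (P.cons (P.cons (P.lf 0 295057416 0) (P.cons (P.lf 14309808 0 0) (P.cons (P.lf 227763 0 0) (P.lf 0 75921 0)))) (P.cons (P.cons (P.lf 1777179 0 0) (P.cons (P.lf 3200901 0 0) (P.cons (P.lf 50940 0 0) (P.lf 0 16977 0)))) (P.cons (P.cons (P.lf 3831108 0 0) (P.cons (P.lf 0 115278 0) (P.cons (P.lf 0 1836 0) P.nil))) (P.cons (P.cons (P.lf 31821 0 0) (P.cons (P.lf 0 27096 0) P.nil)) (P.cons (P.cons (P.lf 0 20706 0) P.nil) P.nil)))))) 6855)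
 (EL.cons 8 (TM.mk (P.cons (P.cons (P.lf 0 273578154 0) (P.cons (P.lf 65504514 0 0) (P.cons (P.lf 1042590 0 0) (P.lf 0 347529 0)))) (P.cons (P.cons (P.lf 146537937 0 0) (P.cons (P.lf 0 14154255 0) (P.cons (P.lf 0 225282 0) (P.lf 75090 0 0)))) (P.cons (P.cons (P.lf 0 16523679 0) (P.cons (P.lf 0 215070 0) (P.cons (P.lf 0 3423 0) (P.lf 1140 0 0)))) (P.cons (P.cons (P.lf 0 839358 0) (P.cons (P.lf 166860 0 0) (P.cons (P.lf 2652 0 0) P.nil))) (P.cons (P.cons (P.lf 148986 0 0) (P.cons (P.lf 1506 0 0) P.nil)) (P.cons (P.cons (P.lf 5019 0 0) P.nil) P.nil)))))) 4785)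
 (EL.cons 11 (TM.mk (P.cons (P.cons (P.lf 0 1077526851 0) (P.cons (P.lf 0 39942450 0) (P.cons (P.lf 19791627 0 0) (P.cons (P.lf 179595 0 0) (P.lf 0 44898 0))))) (P.cons (P.cons (P.lf 23401164 0 0) (P.cons (P.lf 867450 0 0) (P.cons (P.lf 0 429822 0) (P.cons (P.lf 0 3900 0) (P.lf 975 0 0))))) (P.cons (P.cons (P.lf 12497589 0 0) (P.cons (P.lf 463266 0 0) (P.cons (P.lf 0 229548 0) (P.cons (P.lf 0 2082 0) P.nil)))) (P.cons (P.cons (P.lf 256551 0 0) (P.cons (P.lf 9510 0 0) (P.cons (P.lf 0 4710 0) P.nil))) (P.cons (P.cons (P.lf 0 35778 0) (P.cons (P.lf 0 1326 0) P.nil)) (P.cons (P.cons (P.lf 0 1470 0) P.nil) P.nil)))))) 1803)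
 EL.nil)))
noncomputable def S183_198_438_512_24 : EL := (EL.cons 4 (TM.mk (P.cons (P.cons (P.lf 163644687 0 0) (P.cons (P.lf 0 87213465 0) (P.cons (P.lf 10112244 0 0) (P.cons (P.lf 828789 0 0) (P.cons (P.lf 0 119115 0) (P.cons (P.lf 0 1941 0) P.nil)))))) (P.cons (P.cons (P.lf 0 42868659 0) (P.cons (P.lf 11553504 0 0) (P.cons (P.lf 552237 0 0) (P.cons (P.lf 0 49572 0) (P.cons (P.lf 0 3813 0) P.nil))))) (P.cons (P.cons (P.lf 0 12382266 0) (P.cons (P.lf 4108044 0 0) (P.cons (P.lf 0 251940 0) (P.cons (P.lf 0 31893 0) P.nil)))) (P.cons (P.cons (P.lf 2254239 0 0) (P.cons (P.lf 0 213114 0) (P.cons (P.lf 0 24771 0) P.nil))) (P.cons (P.cons (P.lf 177732 0 0) (P.cons (P.lf 0 69552 0) P.nil)) (P.cons (P.cons (P.lf 0 26895 0) P.nil) P.nil)))))) 22434)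
 (EL.cons 8 (TM.mk (P.cons (P.cons (P.lf 0 60802143 0) (P.cons (P.lf 32404143 0 0) (P.cons (P.lf 0 3757200 0) (P.cons (P.lf 0 307938 0) (P.cons (P.lf 44256 0 0) (P.cons (P.lf 720 0 0) P.nil)))))) (P.cons (P.cons (P.lf 24130878 0 0) (P.cons (P.lf 0 8664462 0) (P.cons (P.lf 301713 0 0) (P.cons (P.lf 59961 0 0) (P.cons (P.lf 0 4551 0) P.nil))))) (P.cons (P.cons (P.lf 2213274 0 0) (P.cons (P.lf 0 820107 0) (P.cons (P.lf 106554 0 0) (P.cons (P.lf 8157 0 0) P.nil)))) (P.cons (P.cons (P.lf 0 1381326 0) (P.cons (P.lf 260568 0 0) (P.cons (P.lf 0 3336 0) P.nil))) (P.cons (P.cons (P.lf 60645 0 0) (P.cons (P.lf 10497 0 0) P.nil)) (P.cons (P.cons (P.lf 14700 0 0) P.nil) P.nil)))))) 11598)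
 (EL.cons 11 (TM.mk (P.cons (P.cons (P.lf 0 239477982 0) (P.cons (P.lf 61411551 0 0) (P.cons (P.lf 8122887 0 0) (P.cons (P.lf 0 1582563 0) (P.cons (P.lf 0 56064 0) (P.cons (P.lf 9591 0 0) P.nil)))))) (P.cons (P.cons (P.lf 0 28028910 0) (P.cons (P.lf 5390922 0 0) (P.cons (P.lf 855510 0 0) (P.cons (P.lf 0 143748 0) (P.cons (P.lf 0 5382 0) P.nil))))) (P.cons (P.cons (P.lf 8881605 0 0) (P.cons (P.lf 0 676284 0) (P.cons (P.lf 0 216408 0) (P.cons (P.lf 21729 0 0) P.nil)))) (P.cons (P.cons (P.lf 509733 0 0) (P.cons (P.lf 0 123333 0) (P.cons (P.lf 0 16896 0) P.nil))) (P.cons (P.cons (P.lf 0 82497 0) (P.cons (P.lf 0 2586 0) P.nil)) (P.cons (P.cons (P.lf 0 5310 0) P.nil) P.nil)))))) 10692)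
 EL.nil)))
noncomputable def S183_198_438_512_25 : EL := (EL.cons 4 (TM.mk (P.cons (P.cons (P.lf 0 348286566 0) (P.cons (P.lf 83392410 0 0) (P.cons (P.lf 1327299 0 0) (P.lf 0 442431 0)))) (P.cons (P.cons (P.lf 173412786 0 0) (P.cons (P.lf 0 14872920 0) (P.cons (P.lf 0 236721 0) (P.lf 78909 0 0)))) (P.cons (P.cons (P.lf 0 13472136 0) (P.cons (P.lf 0 1079355 0) (P.cons (P.lf 0 17175 0) (P.lf 5724 0 0)))) (P.cons (P.cons (P.lf 0 2121252 0) (P.cons (P.lf 223947 0 0) (P.cons (P.lf 3564 0 0) P.nil))) (P.cons (P.cons (P.lf 169062 0 0) (P.cons (P.lf 11520 0 0) P.nil)) (P.cons (P.cons (P.lf 16551 0 0) P.nil) P.nil)))))) 6414)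
 (EL.cons 8 (TM.mk (P.cons (P.cons (P.lf 129405789 0 0) (P.cons (P.lf 0 30984432 0) (P.cons (P.lf 0 493158 0) (P.lf 164385 0 0)))) (P.cons (P.cons (P.lf 0 81890085 0) (P.cons (P.lf 9706251 0 0) (P.cons (P.lf 154485 0 0) (P.lf 0 51492 0)))) (P.cons (P.cons (P.lf 14205789 0 0) (P.cons (P.lf 0 466023 0) (P.cons (P.lf 0 7416 0) (P.lf 2472 0 0)))) (P.cons (P.cons (P.lf 0 170634 0) (P.cons (P.lf 0 108273 0) (P.cons (P.lf 0 1722 0) P.nil))) (P.cons (P.cons (P.lf 0 132975 0) (P.cons (P.lf 6909 0 0) P.nil)) (P.cons (P.cons (P.lf 3558 0 0) P.nil) P.nil)))))) 4017)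
 (EL.cons 11 (TM.mk (P.cons (P.cons (P.lf 509683296 0 0) (P.cons (P.lf 18893262 0 0) (P.cons (P.lf 0 9361680 0) (P.cons (P.lf 0 84951 0) (P.lf 21237 0 0))))) (P.cons (P.cons (P.lf 0 60600870 0) (P.cons (P.lf 0 2246391 0) (P.cons (P.lf 1113093 0 0) (P.cons (P.lf 10101 0 0) (P.lf 0 2523 0))))) (P.cons (P.cons (P.lf 0 6199275 0) (P.cons (P.lf 0 229797 0) (P.cons (P.lf 113865 0 0) (P.cons (P.lf 1032 0 0) P.nil)))) (P.cons (P.cons (P.lf 508251 0 0) (P.cons (P.lf 18840 0 0) (P.cons (P.lf 0 9333 0) P.nil))) (P.cons (P.cons (P.lf 45768 0 0) (P.cons (P.lf 1695 0 0) P.nil)) (P.cons (P.cons (P.lf 0 951 0) P.nil) P.nil)))))) 2064)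
 EL.nil)))
noncomputable def S183_198_438_512_26 : EL := (EL.cons 4 (TM.mk (P.cons (P.cons (P.lf 0 77405925 0) (P.cons (P.lf 41253027 0 0) (P.cons (P.lf 0 4783212 0) (P.cons (P.lf 0 392028 0) (P.cons (P.lf 56340 0 0) (P.cons (P.lf 918 0 0) P.nil)))))) (P.cons (P.cons (P.lf 27799827 0 0) (P.cons (P.lf 0 9473982 0) (P.cons (P.lf 203625 0 0) (P.cons (P.lf 61545 0 0) (P.cons (P.lf 0 3669 0) P.nil))))) (P.cons (P.cons (P.lf 4093443 0 0) (P.cons (P.lf 0 1522419 0) (P.cons (P.lf 157350 0 0) (P.cons (P.lf 13854 0 0) P.nil)))) (P.cons (P.cons (P.lf 0 1693590 0) (P.cons (P.lf 306327 0 0) (P.cons (P.lf 594 0 0) P.nil))) (P.cons (P.cons (P.lf 4626 0 0) (P.cons (P.lf 28170 0 0) P.nil)) (P.cons (P.cons (P.lf 24108 0 0) P.nil) P.nil)))))) 18219)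
 (EL.cons 8 (TM.mk (P.cons (P.cons (P.lf 28760151 0 0) (P.cons (P.lf 0 15327552 0) (P.cons (P.lf 1777200 0 0) (P.cons (P.lf 145656 0 0) (P.cons (P.lf 0 20934 0) (P.cons (P.lf 0 339 0) P.nil)))))) (P.cons (P.cons (P.lf 0 14209155 0) (P.cons (P.lf 5587950 0 0) (P.cons (P.lf 0 315426 0) (P.cons (P.lf 0 42516 0) (P.cons (P.lf 4188 0 0) P.nil))))) (P.cons (P.cons (P.lf 0 14592 0) (P.cons (P.lf 30633 0 0) (P.cons (P.lf 0 41286 0) (P.cons (P.lf 0 1491 0) P.nil)))) (P.cons (P.cons (P.lf 787095 0 0) (P.cons (P.lf 0 172680 0) (P.cons (P.lf 6945 0 0) P.nil))) (P.cons (P.cons (P.lf 0 89850 0) (P.cons (P.lf 6123 0 0) P.nil)) (P.cons (P.cons (P.lf 0 6006 0) P.nil) P.nil)))))) 9129)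
 (EL.cons 11 (TM.mk (P.cons (P.cons (P.lf 113275995 0 0) (P.cons (P.lf 0 29048409 0) (P.cons (P.lf 0 3842223 0) (P.cons (P.lf 748569 0 0) (P.cons (P.lf 26517 0 0) (P.cons (P.lf 0 4536 0) P.nil)))))) (P.cons (P.cons (P.lf 2249673 0 0) (P.cons (P.lf 272997 0 0) (P.cons (P.lf 0 31272 0) (P.cons (P.lf 0 4749 0) (P.cons (P.lf 0 30 0) P.nil))))) (P.cons (P.cons (P.lf 0 5792568 0) (P.cons (P.lf 645408 0 0) (P.cons (P.lf 151968 0 0) (P.cons (P.lf 0 18888 0) P.nil)))) (P.cons (P.cons (P.lf 137358 0 0) (P.cons (P.lf 32619 0 0) (P.cons (P.lf 0 1062 0) P.nil))) (P.cons (P.cons (P.lf 74754 0 0) (P.cons (P.lf 0 5529 0) P.nil)) (P.cons (P.cons (P.lf 0 795 0) P.nil) P.nil)))))) 8412)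
 EL.nil)))
noncomputable def S183_198_438_512_27 : EL := (EL.cons 13 (TM.mk (P.lf 0 4294967296 0) 0)
 EL.nil)
noncomputable def S183_198_438_512_28 : EL := (EL.cons 13 (TM.mk (P.cons (P.cons (P.lf 0 954547071 0) (P.cons (P.lf 280167084 0 0) (P.cons (P.lf 4459228 0 0) (P.lf 0 1486408 0)))) (P.cons (P.cons (P.lf 0 132452167 0) (P.cons (P.lf 31713840 0 0) (P.cons (P.lf 504764 0 0) (P.lf 0 168252 0)))) (P.cons (P.cons (P.lf 21453883 0 0) (P.cons (P.lf 0 69692 0) (P.cons (P.lf 0 1104 0) (P.lf 368 0 0)))) (P.cons (P.cons (P.lf 734195 0 0) (P.cons (P.lf 0 133896 0) (P.cons (P.lf 0 2128 0) P.nil))) (P.cons (P.cons (P.lf 0 63897 0) (P.cons (P.lf 0 3592 0) P.nil)) (P.cons (P.cons (P.lf 0 3227 0) P.nil) P.nil)))))) 1643)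
 EL.nil)
noncomputable def S183_198_438_512_29 : EL := (EL.cons 13 (TM.mk (P.cons (P.cons (P.lf 0 212145995 0) (P.cons (P.lf 124533041 0 0) (P.cons (P.lf 0 16293606 0) (P.cons (P.lf 0 1242465 0) (P.cons (P.lf 189291 0 0) (P.cons (P.lf 3086 0 0) P.nil)))))) (P.cons (P.cons (P.lf 0 58874407 0) (P.cons (P.lf 31376765 0 0) (P.cons (P.lf 0 3638080 0) (P.cons (P.lf 0 298172 0) (P.cons (P.lf 42853 0 0) P.nil))))) (P.cons (P.cons (P.lf 5451474 0 0) (P.cons (P.lf 0 873873 0) (P.cons (P.lf 0 238988 0) (P.cons (P.lf 0 2529 0) P.nil)))) (P.cons (P.cons (P.lf 1649575 0 0) (P.cons (P.lf 0 476428 0) (P.cons (P.lf 10916 0 0) P.nil))) (P.cons (P.cons (P.lf 0 90283 0) (P.cons (P.lf 0 11665 0) P.nil)) (P.cons (P.cons (P.lf 0 12710 0) P.nil) P.nil)))))) 15348)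
 EL.nil)
noncomputable def S183_198_438_512_30 : EL := (EL.cons 13 (TM.mk (P.cons (P.lf 2031571728 0 0) (P.cons (P.lf 0 197431380 0) (P.cons (P.lf 0 5434720 0) (P.cons (P.lf 101656 0 0) (P.cons (P.lf 7148 0 0) (P.cons (P.lf 20 0 0) P.nil)))))) 56)
 EL.nil)
noncomputable def S183_198_438_512_31 : EL := (EL.cons 13 (TM.mk (P.cons (P.cons (P.lf 451512365 0 0) (P.cons (P.lf 0 132522435 0) (P.cons (P.lf 0 2109269 0) (P.lf 703089 0 0)))) (P.cons (P.cons (P.lf 18772793 0 0) (P.cons (P.lf 0 2122290 0) (P.cons (P.lf 0 33777 0) (P.lf 11257 0 0)))) (P.cons (P.cons (P.lf 0 17444373 0) (P.cons (P.lf 1845304 0 0) (P.cons (P.lf 29367 0 0) (P.lf 0 9789 0)))) (P.cons (P.cons (P.lf 493902 0 0) (P.cons (P.lf 93629 0 0) (P.cons (P.lf 1488 0 0) P.nil))) (P.cons (P.cons (P.lf 95844 0 0) (P.cons (P.lf 0 5760 0) P.nil)) (P.cons (P.cons (P.lf 0 764 0) P.nil) P.nil)))))) 1975)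
 EL.nil)
noncomputable def S183_198_438_512_32 : EL := (EL.cons 13 (TM.mk (P.cons (P.cons (P.lf 100347633 0 0) (P.cons (P.lf 0 58905641 0) (P.cons (P.lf 7707073 0 0) (P.cons (P.lf 587701 0 0) (P.cons (P.lf 0 89536 0) (P.cons (P.lf 0 1459 0) P.nil)))))) (P.cons (P.cons (P.lf 18096366 0 0) (P.cons (P.lf 0 9117046 0) (P.cons (P.lf 971870 0 0) (P.cons (P.lf 83925 0 0) (P.cons (P.lf 0 11568 0) P.nil))))) (P.cons (P.cons (P.lf 0 5553399 0) (P.cons (P.lf 2013262 0 0) (P.cons (P.lf 0 74808 0) (P.cons (P.lf 0 14082 0) P.nil)))) (P.cons (P.cons (P.lf 0 599151 0) (P.cons (P.lf 221941 0 0) (P.cons (P.lf 0 20367 0) P.nil))) (P.cons (P.cons (P.lf 127177 0 0) (P.cons (P.lf 0 18438 0) P.nil)) (P.cons (P.cons (P.lf 3919 0 0) P.nil) P.nil)))))) 13917)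
 EL.nil)
noncomputable def S183_198_438_512_33 : EL := (EL.cons 14 (TM.mk (P.lf 8589934592 0 0) 0)
 EL.nil)
noncomputable def S183_198_438_512_34 : EL := (EL.cons 14 (TM.mk (P.cons (P.cons (P.lf 1909094142 0 0) (P.cons (P.lf 0 560334168 0) (P.cons (P.lf 0 8918456 0) (P.lf 2972816 0 0)))) (P.cons (P.cons (P.lf 264904334 0 0) (P.cons (P.lf 0 63427680 0) (P.cons (P.lf 0 1009528 0) (P.lf 336504 0 0)))) (P.cons (P.cons (P.lf 0 42907766 0) (P.cons (P.lf 139384 0 0) (P.cons (P.lf 2208 0 0) (P.lf 0 736 0)))) (P.cons (P.cons (P.lf 0 1468390 0) (P.cons (P.lf 267792 0 0) (P.cons (P.lf 4256 0 0) P.nil))) (P.cons (P.cons (P.lf 127794 0 0) (P.cons (P.lf 7184 0 0) P.nil)) (P.cons (P.cons (P.lf 6454 0 0) P.nil) P.nil)))))) 3286)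
 EL.nil)
noncomputable def S183_198_438_512_35 : EL := (EL.cons 14 (TM.mk (P.cons (P.cons (P.lf 424291990 0 0) (P.cons (P.lf 0 249066082 0) (P.cons (P.lf 32587212 0 0) (P.cons (P.lf 2484930 0 0) (P.cons (P.lf 0 378582 0) (P.cons (P.lf 0 6172 0) P.nil)))))) (P.cons (P.cons (P.lf 117748814 0 0) (P.cons (P.lf 0 62753530 0) (P.cons (P.lf 7276160 0 0) (P.cons (P.lf 596344 0 0) (P.cons (P.lf 0 85706 0) P.nil))))) (P.cons (P.cons (P.lf 0 10902948 0) (P.cons (P.lf 1747746 0 0) (P.cons (P.lf 477976 0 0) (P.cons (P.lf 5058 0 0) P.nil)))) (P.cons (P.cons (P.lf 0 3299150 0) (P.cons (P.lf 952856 0 0) (P.cons (P.lf 0 21832 0) P.nil))) (P.cons (P.cons (P.lf 180566 0 0) (P.cons (P.lf 23330 0 0) P.nil)) (P.cons (P.cons (P.lf 25420 0 0) P.nil) P.nil)))))) 30696)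
 EL.nil)
noncomputable def S183_198_438_512_36 : EL := (EL.cons 14 (TM.mk (P.cons (P.lf 0 4063143456 0) (P.cons (P.lf 394862760 0 0) (P.cons (P.lf 10869440 0 0) (P.cons (P.lf 0 203312 0) (P.cons (P.lf 0 14296 0) (P.cons (P.lf 0 40 0) P.nil)))))) 112)
 EL.nil)
noncomputable def S183_198_438_512_37 : EL := (EL.cons 14 (TM.mk (P.cons (P.cons (P.lf 0 903024730 0) (P.cons (P.lf 265044870 0 0) (P.cons (P.lf 4218538 0 0) (P.lf 0 1406178 0)))) (P.cons (P.cons (P.lf 0 37545586 0) (P.cons (P.lf 4244580 0 0) (P.cons (P.lf 67554 0 0) (P.lf 0 22514 0)))) (P.cons (P.cons (P.lf 34888746 0 0) (P.cons (P.lf 0 3690608 0) (P.cons (P.lf 0 58734 0) (P.lf 19578 0 0)))) (P.cons (P.cons (P.lf 0 987804 0) (P.cons (P.lf 0 187258 0) (P.cons (P.lf 0 2976 0) P.nil))) (P.cons (P.cons (P.lf 0 191688 0) (P.cons (P.lf 11520 0 0) P.nil)) (P.cons (P.cons (P.lf 1528 0 0) P.nil) P.nil)))))) 3950)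
 EL.nil)
noncomputable def S183_198_438_512_38 : EL := (EL.cons 14 (TM.mk (P.cons (P.cons (P.lf 0 200695266 0) (P.cons (P.lf 117811282 0 0) (P.cons (P.lf 0 15414146 0) (P.cons (P.lf 0 1175402 0) (P.cons (P.lf 179072 0 0) (P.cons (P.lf 2918 0 0) P.nil)))))) (P.cons (P.cons (P.lf 0 36192732 0) (P.cons (P.lf 18234092 0 0) (P.cons (P.lf 0 1943740 0) (P.cons (P.lf 0 167850 0) (P.cons (P.lf 23136 0 0) P.nil))))) (P.cons (P.cons (P.lf 11106798 0 0) (P.cons (P.lf 0 4026524 0) (P.cons (P.lf 149616 0 0) (P.cons (P.lf 28164 0 0) P.nil)))) (P.cons (P.cons (P.lf 1198302 0 0) (P.cons (P.lf 0 443882 0) (P.cons (P.lf 40734 0 0) P.nil))) (P.cons (P.cons (P.lf 0 254354 0) (P.cons (P.lf 36876 0 0) P.nil)) (P.cons (P.cons (P.lf 0 7838 0) P.nil) P.nil)))))) 27834)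
 EL.nil)
noncomputable def S183_198_438_512_39 : EL := (EL.cons 14 (TM.mk (P.cons (P.lf 1921916234 0 0) (P.cons (P.lf 0 373549768 0) (P.cons (P.lf 7868326 0 0) (P.cons (P.lf 1191632 0 0) (P.cons (P.lf 8586 0 0) (P.cons (P.lf 0 1790 0) P.nil)))))) 176)
 EL.nil)
noncomputable def S183_198_438_512_40 : EL := (EL.cons 14 (TM.mk (P.cons (P.cons (P.lf 427141670 0 0) (P.cons (P.lf 0 125369444 0) (P.cons (P.lf 0 1995418 0) (P.lf 665138 0 0)))) (P.cons (P.cons (P.lf 0 23750790 0) (P.cons (P.lf 10175864 0 0) (P.cons (P.lf 161962 0 0) (P.lf 0 53988 0)))) (P.cons (P.cons (P.lf 0 19371358 0) (P.cons (P.lf 2276196 0 0) (P.cons (P.lf 36226 0 0) (P.lf 0 12074 0)))) (P.cons (P.cons (P.lf 2044876 0 0) (P.cons (P.lf 0 81976 0) (P.cons (P.lf 0 1304 0) P.nil))) (P.cons (P.cons (P.lf 91802 0 0) (P.cons (P.lf 0 19268 0) P.nil)) (P.cons (P.cons (P.lf 0 11542 0) P.nil) P.nil))))))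 3676)
 EL.nil)
noncomputable def S183_198_438_512_41 : EL := (EL.cons 14 (TM.mk (P.cons (P.cons (P.lf 94931300 0 0) (P.cons (P.lf 0 55726168 0) (P.cons (P.lf 7291078 0 0) (P.cons (P.lf 555978 0 0) (P.cons (P.lf 0 84704 0) (P.cons (P.lf 0 1380 0) P.nil)))))) (P.cons (P.cons (P.lf 7894026 0 0) (P.cons (P.lf 0 3209390 0) (P.cons (P.lf 210854 0 0) (P.cons (P.lf 25364 0 0) (P.cons (P.lf 0 2712 0) P.nil))))) (P.cons (P.cons (P.lf 0 7171314 0) (P.cons (P.lf 2891856 0 0) (P.cons (P.lf 0 179624 0) (P.cons (P.lf 0 22524 0) P.nil)))) (P.cons (P.cons (P.lf 0 97300 0) (P.cons (P.lf 45154 0 0) (P.cons (P.lf 0 14484 0) P.nil))) (P.cons (P.cons (P.lf 190640 0 0) (P.cons (P.lf 0 43570 0) P.nil)) (P.cons (P.cons (P.lf 0 6668 0) P.nil) P.nil)))))) 20766)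
 EL.nil)
noncomputable def S183_198_438_512_42 : EL := (EL.cons 14 (TM.mk (P.cons (P.lf 0 909089734 0) (P.cons (P.lf 265040370 0 0) (P.cons (P.lf 0 18461242 0) (P.cons (P.lf 0 720132 0) (P.cons (P.lf 66314 0 0) (P.cons (P.lf 3174 0 0) P.nil)))))) 276)
 EL.nil)
noncomputable def S183_198_438_512_43 : EL := (EL.cons 14 (TM.mk (P.cons (P.cons (P.lf 0 202043200 0) (P.cons (P.lf 59301270 0 0) (P.cons (P.lf 943856 0 0) (P.lf 0 314618 0)))) (P.cons (P.cons (P.lf 30869292 0 0) (P.cons (P.lf 0 10576298 0) (P.cons (P.lf 0 168336 0) (P.lf 56112 0 0)))) (P.cons (P.cons (P.lf 8611602 0 0) (P.cons (P.lf 0 767542 0) (P.cons (P.lf 0 12214 0) (P.lf 4070 0 0)))) (P.cons (P.cons (P.lf 0 1897878 0) (P.cons (P.lf 159250 0 0) (P.cons (P.lf 2534 0 0) P.nil))) (P.cons (P.cons (P.lf 25914 0 0) (P.cons (P.lf 8194 0 0) P.nil)) (P.cons (P.cons (P.lf 12762 0 0) P.nil) P.nil)))))) 4598)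
 EL.nil)
noncomputable def S183_198_438_512_44 : EL := (EL.cons 14 (TM.mk (P.cons (P.cons (P.lf 0 44903658 0) (P.cons (P.lf 26359154 0 0) (P.cons (P.lf 0 3448768 0) (P.cons (P.lf 0 262984 0) (P.cons (P.lf 40066 0 0) (P.cons (P.lf 652 0 0) P.nil)))))) (P.cons (P.cons (P.lf 629838 0 0) (P.cons (P.lf 0 1043544 0) (P.cons (P.lf 235420 0 0) (P.cons (P.lf 13558 0 0) (P.cons (P.lf 0 2610 0) P.nil))))) (P.cons (P.cons (P.lf 3875114 0 0) (P.cons (P.lf 0 1585926 0) (P.cons (P.lf 103882 0 0) (P.cons (P.lf 12524 0 0) P.nil)))) (P.cons (P.cons (P.lf 0 275884 0) (P.cons (P.lf 108832 0 0) (P.cons (P.lf 0 1310 0) P.nil))) (P.cons (P.cons (P.lf 0 104066 0) (P.cons (P.lf 26512 0 0) P.nil)) (P.cons (P.cons (P.lf 11950 0 0) P.nil) P.nil)))))) 18034)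
 EL.nil)
noncomputable def S183_198_438_512_45 : EL := (EL.cons 14 (TM.mk (P.cons (P.cons (P.lf 94297964 0 0) (P.cons (P.lf 0 83031586 0) (P.cons (P.lf 23048866 0 0) (P.cons (P.lf 0 1168010 0) (P.cons (P.lf 0 366264 0) (P.cons (P.lf 32020 0 0) P.nil)))))) (P.cons (P.cons (P.lf 39254124 0 0) (P.cons (P.lf 0 32441646 0) (P.cons (P.lf 8382546 0 0) (P.cons (P.lf 0 354290 0) (P.cons (P.lf 0 130830 0) P.nil))))) (P.cons (P.cons (P.lf 0 911298 0) (P.cons (P.lf 0 454054 0) (P.cons (P.lf 510750 0 0) (P.cons (P.lf 0 70974 0) P.nil)))) (P.cons (P.cons (P.lf 0 1730162 0) (P.cons (P.lf 932558 0 0) (P.cons (P.lf 0 110924 0) P.nil))) (P.cons (P.cons (P.lf 0 20966 0) (P.cons (P.lf 49292 0 0) P.nil)) (P.cons (P.cons (P.lf 31630 0 0) P.nil) P.nil)))))) 86718)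
 EL.nil)
noncomputable def S183_198_438_512_46 : EL := (EL.cons 15 (TM.mk (P.lf 4294967296 0 0) 0)
 EL.nil)
noncomputable def S183_198_438_512_47 : EL := (EL.cons 15 (TM.mk (P.cons (P.cons (P.lf 954547071 0 0) (P.cons (P.lf 0 280167084 0) (P.cons (P.lf 0 4459228 0) (P.lf 1486408 0 0)))) (P.cons (P.cons (P.lf 132452167 0 0) (P.cons (P.lf 0 31713840 0) (P.cons (P.lf 0 504764 0) (P.lf 168252 0 0)))) (P.cons (P.cons (P.lf 0 21453883 0) (P.cons (P.lf 69692 0 0) (P.cons (P.lf 1104 0 0) (P.lf 0 368 0)))) (P.cons (P.cons (P.lf 0 734195 0) (P.cons (P.lf 133896 0 0) (P.cons (P.lf 2128 0 0) P.nil))) (P.cons (P.cons (P.lf 63897 0 0) (P.cons (P.lf 3592 0 0) P.nil)) (P.cons (P.cons (P.lf 3227 0 0) P.nil) P.nil)))))) 1643)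
 EL.nil)
noncomputable def S183_198_438_512_48 : EL := (EL.cons 15 (TM.mk (P.cons (P.cons (P.lf 212145995 0 0) (P.cons (P.lf 0 124533041 0) (P.cons (P.lf 16293606 0 0) (P.cons (P.lf 1242465 0 0) (P.cons (P.lf 0 189291 0) (P.cons (P.lf 0 3086 0) P.nil)))))) (P.cons (P.cons (P.lf 58874407 0 0) (P.cons (P.lf 0 31376765 0) (P.cons (P.lf 3638080 0 0) (P.cons (P.lf 298172 0 0) (P.cons (P.lf 0 42853 0) P.nil))))) (P.cons (P.cons (P.lf 0 5451474 0) (P.cons (P.lf 873873 0 0) (P.cons (P.lf 238988 0 0) (P.cons (P.lf 2529 0 0) P.nil)))) (P.cons (P.cons (P.lf 0 1649575 0) (P.cons (P.lf 476428 0 0) (P.cons (P.lf 0 10916 0) P.nil))) (P.cons (P.cons (P.lf 90283 0 0) (P.cons (P.lf 11665 0 0) P.nil)) (P.cons (P.cons (P.lf 12710 0 0) P.nil) P.nil)))))) 15348)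
 EL.nil)
noncomputable def S183_198_438_512 : SL := (SL.cons S183_198_438_512_0 (SL.cons S183_198_438_512_1 (SL.cons S183_198_438_512_2 (SL.cons S183_198_438_512_3 (SL.cons S183_198_438_512_4 (SL.cons S183_198_438_512_5 (SL.cons S183_198_438_512_6 (SL.cons S183_198_438_512_7 (SL.cons S183_198_438_512_8 (SL.cons S183_198_438_512_9 (SL.cons S183_198_438_512_10 (SL.cons S183_198_438_512_11 (SL.cons S183_198_438_512_12 (SL.cons S183_198_438_512_13 (SL.cons S183_198_438_512_14 (SL.cons S183_198_438_512_15 (SL.cons S183_198_438_512_16 (SL.cons S183_198_438_512_17 (SL.cons S183_198_438_512_18 (SL.cons S183_198_438_512_19 (SL.cons S183_198_438_512_20 (SL.cons S183_198_438_512_21 (SL.cons S183_198_438_512_22 (SL.cons S183_198_438_512_23 (SL.cons S183_198_438_512_24 (SL.cons S183_198_438_512_25 (SL.cons S183_198_438_512_26 (SL.cons S183_198_438_512_27 (SL.cons S183_198_438_512_28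 (SL.cons S183_198_438_512_29 (SL.cons S183_198_438_512_30 (SL.cons S183_198_438_512_31 (SL.cons S183_198_438_512_32 (SL.cons S183_198_438_512_33 (SL.cons S183_198_438_512_34 (SL.cons S183_198_438_512_35 (SL.cons S183_198_438_512_36 (SL.cons S183_198_438_512_37 (SL.cons S183_198_438_512_38 (SL.cons S183_198_438_512_39 (SL.cons S183_198_438_512_40 (SL.cons S183_198_438_512_41 (SL.cons S183_198_438_512_42 (SL.cons S183_198_438_512_43 (SL.cons S183_198_438_512_44 (SL.cons S183_198_438_512_45 (SL.cons S183_198_438_512_46 (SL.cons S183_198_438_512_47 (SL.cons S183_198_438_512_48 SL.nil)))))))))))))))))))))))))))))))))))))))))))))))))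
theorem S183_198_290_364_ok : band (seq (shp 5 183 198 290 364) S183_198_290_364) (sok S183_198_290_364) = true := by decide +kernel

theorem S183_198_308_327_ok : band (seq (shp 5 183 198 308 327) S183_198_308_327) (sok S183_198_308_327) = true := by decide +kernel

theorem S183_198_364_401_ok : band (seq (shp 5 183 198 364 401) S183_198_364_401) (sok S183_198_364_401) = true := by decide +kernel

theorem S183_198_364_438_ok : band (seq (shp 5 183 198 364 438) S183_198_364_438) (sok S183_198_364_438) = true := by decide +kernel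

theorem S183_198_364_512_ok : band (seq (shp 5 183 198 364 512) S183_198_364_512) (sok S183_198_364_512) = true := by decide +kernel

theorem S183_198_438_512_ok : band (seq (shp 5 183 198 438 512) S183_198_438_512) (sok S183_198_438_512) = true := by decide +kernel

end Vale.Agent.P098.Ck
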