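import Vale.Agent.P098.CkDefs

namespace Vale.Agent.P098.Ck

noncomputable def S219_227_734_808_0 : EL := (EL.cons 0 (TM.mk (P.cons (P.lf 7974119968 0 0) (P.cons (P.lf 111999383 0 0) (P.cons (P.lf 0 5671151 0) (P.cons (P.lf 0 127063 0) (P.cons (P.lf 2649 0 0) (P.cons (P.lf 73 0 0) P.nil)))))) 59)
 (EL.cons 1 (TM.mk (P.cons (P.lf 0 975579558 0) (P.cons (P.lf 103610482 0 0) (P.cons (P.lf 2541390 0 0) (P.cons (P.lf 0 79128 0) (P.cons (P.lf 0 1965 0) (P.cons (P.lf 24 0 0) P.nil)))))) 82)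
 (EL.cons 5 (TM.mk (P.cons (P.lf 4466201750 0 0) (P.cons (P.lf 0 39822002 0) (P.cons (P.lf 2016406 0 0) (P.cons (P.lf 45176 0 0) (P.cons (P.lf 0 938 0) (P.cons (P.lf 0 26 0) P.nil)))))) 113)
 (EL.cons 9 (TM.mk (P.lf 6442450944 0 0) 2)
 EL.nil))))
noncomputable def S219_227_734_808_1 : EL := (EL.cons 0 (TM.mk (P.cons (P.cons (P.lf 0 1435802391 0) (P.cons (P.lf 0 145158962 0) (P.cons (P.lf 68523916 0 0) (P.lf 3263047 0 0)))) (P.cons (P.cons (P.lf 0 331099339 0) (P.cons (P.lf 0 14347288 0) (P.cons (P.lf 6772793 0 0) (P.lf 322500 0 0)))) (P.cons (P.cons (P.lf 0 23123360 0) (P.cons (P.lf 403334 0 0) (P.cons (P.lf 0 190398 0) (P.lf 0 9059 0)))) (P.cons (P.cons (P.lf 1221169 0 0) (P.cons (P.lf 47549 0 0) (P.cons (P.lf 0 22441 0) P.nil))) (P.cons (P.cons (P.lf 77764 0 0) (P.cons (P.lf 0 201 0) P.nil)) (P.cons (P.cons (P.lf 0 1219 0) P.nil) P.nil)))))) 3825)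
 (EL.cons 1 (TM.mk (P.cons (P.cons (P.lf 1505186265 0 0) (P.cons (P.lf 51403409 0 0) (P.cons (P.lf 0 24265552 0) (P.lf 0 1155498 0)))) (P.cons (P.cons (P.lf 92013132 0 0) (P.cons (P.lf 0 3193199 0) (P.cons (P.lf 1507387 0 0) (P.lf 71781 0 0)))) (P.cons (P.cons (P.lf 0 10948460 0) (P.cons (P.lf 0 474299 0) (P.cons (P.lf 223895 0 0) (P.lf 10653 0 0)))) (P.cons (P.cons (P.lf 0 830942 0) (P.cons (P.lf 4706 0 0) (P.cons (P.lf 0 2222 0) P.nil))) (P.cons (P.cons (P.lf 21100 0 0) (P.cons (P.lf 1047 0 0) P.nil)) (P.cons (P.cons (P.lf 1736 0 0) P.nil) P.nil)))))) 2296)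
 (EL.cons 5 (TM.mk (P.cons (P.cons (P.lf 0 1966406227 0) (P.cons (P.lf 0 110712422 0) (P.cons (P.lf 52263040 0 0) (P.lf 2488714 0 0)))) (P.cons (P.cons (P.lf 0 76160361 0) (P.cons (P.lf 194930 0 0) (P.cons (P.lf 0 92010 0) (P.lf 0 4378 0)))) (P.cons (P.cons (P.lf 3661421 0 0) (P.cons (P.lf 80314 0 0) (P.cons (P.lf 0 37912 0) (P.lf 0 1812 0)))) (P.cons (P.cons (P.lf 0 16947 0) (P.cons (P.lf 0 8752 0) (P.cons (P.lf 4126 0 0) P.nil))) (P.cons (P.cons (P.lf 0 18420 0) (P.cons (P.lf 0 66 0) P.nil)) (P.cons (P.cons (P.lf 162 0 0) P.nil) P.nil)))))) 3488)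
 (EL.cons 9 (TM.mk (P.cons (P.cons (P.lf 0 2185512123 0) (P.cons (P.lf 0 143227494 0) (P.cons (P.lf 67612140 0 0) (P.lf 3219624 0 0)))) (P.cons (P.cons (P.lf 0 171074611 0) (P.cons (P.lf 0 4329108 0) (P.cons (P.lf 2043600 0 0) (P.lf 97308 0 0)))) (P.cons (P.cons (P.lf 0 4023718 0) (P.cons (P.lf 197394 0 0) (P.cons (P.lf 0 93180 0) (P.lf 0 4434 0)))) (P.cons (P.cons (P.lf 368151 0 0) (P.cons (P.lf 7188 0 0) (P.cons (P.lf 0 3390 0) P.nil))) (P.cons (P.cons (P.lf 8142 0 0) (P.cons (P.lf 0 114 0) P.nil)) (P.cons (P.cons (P.lf 0 229 0) P.nil) P.nil)))))) 956)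
 (EL.cons 2 (TM.mk (P.cons (P.cons (P.lf 142202531 0 0) (P.cons (P.lf 0 140217693 0) (P.cons (P.lf 0 4387545 0) (P.cons (P.lf 803998 0 0) (P.lf 28712 0 0))))) (P.cons (P.cons (P.lf 0 13669770 0) (P.cons (P.lf 13478970 0 0) (P.cons (P.lf 421768 0 0) (P.cons (P.lf 0 77287 0) (P.lf 0 2759 0))))) (P.cons (P.cons (P.lf 0 602358 0) (P.cons (P.lf 593952 0 0) (P.cons (P.lf 18585 0 0) (P.cons (P.lf 0 3403 0) P.nil)))) (P.cons (P.cons (P.lf 15449 0 0) (P.cons (P.lf 0 15235 0) (P.cons (P.lf 0 475 0) P.nil))) (P.cons (P.cons (P.lf 717 0 0) (P.cons (P.lf 0 705 0) P.nil)) (P.cons (P.cons (P.lf 0 5 0) P.nil) P.nil)))))) 459)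
 (EL.cons 6 (TM.mk (P.cons (P.cons (P.lf 288062244 0 0) (P.cons (P.lf 0 284041521 0) (P.cons (P.lf 0 8887932 0) (P.cons (P.lf 1628676 0 0) (P.lf 58164 0 0))))) (P.cons (P.cons (P.lf 8706807 0 0) (P.cons (P.lf 0 8585277 0) (P.cons (P.lf 0 268641 0) (P.cons (P.lf 49227 0 0) (P.lf 1755 0 0))))) (P.cons (P.cons (P.lf 0 397011 0) (P.cons (P.lf 391470 0 0) (P.cons (P.lf 12249 0 0) (P.cons (P.lf 0 2241 0) P.nil)))) (P.cons (P.cons (P.lf 0 14466 0) (P.cons (P.lf 14262 0 0) (P.cons (P.lf 444 0 0) P.nil))) (P.cons (P.cons (P.lf 240 0 0) (P.cons (P.lf 0 237 0) P.nil)) (P.cons (P.cons (P.lf 9 0 0) P.nil) P.nil)))))) 375)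
 EL.nil))))))
noncomputable def S219_227_734_808_2 : EL := (EL.cons 0 (TM.mk (P.cons (P.cons (P.lf 56481192 0 0) (P.cons (P.lf 42048276 0 0) (P.cons (P.lf 0 17336310 0) (P.cons (P.lf 0 3317846 0) (P.cons (P.lf 447035 0 0) (P.cons (P.lf 53338 0 0) P.nil)))))) (P.cons (P.cons (P.lf 144341643 0 0) (P.cons (P.lf 19355035 0 0) (P.cons (P.lf 0 8597336 0) (P.cons (P.lf 0 944333 0) (P.cons (P.lf 95944 0 0) P.nil))))) (P.cons (P.cons (P.lf 24699272 0 0) (P.cons (P.lf 1616758 0 0) (P.cons (P.lf 0 764027 0) (P.cons (P.lf 0 35553 0) P.nil)))) (P.cons (P.cons (P.lf 684027 0 0) (P.cons (P.lf 0 60056 0) (P.cons (P.lf 25549 0 0) P.nil))) (P.cons (P.cons (P.lf 0 93258 0) (P.cons (P.lf 0 9481 0) P.nil)) (P.cons (P.cons (P.lf 0 6837 0) P.nil) P.nil)))))) 44920)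
 (EL.cons 1 (TM.mk (P.cons (P.cons (P.lf 0 908956308 0) (P.cons (P.lf 0 87086550 0) (P.cons (P.lf 39306779 0 0) (P.cons (P.lf 3660253 0 0) (P.cons (P.lf 0 320796 0) (P.cons (P.lf 0 38272 0) P.nil)))))) (P.cons (P.cons (P.lf 0 136713852 0) (P.cons (P.lf 0 6643745 0) (P.cons (P.lf 3187082 0 0) (P.cons (P.lf 101340 0 0) (P.cons (P.lf 9034 0 0) P.nil))))) (P.cons (P.cons (P.lf 0 396457 0) (P.cons (P.lf 716285 0 0) (P.cons (P.lf 0 314842 0) (P.cons (P.lf 0 38077 0) P.nil)))) (P.cons (P.cons (P.lf 1043201 0 0) (P.cons (P.lf 81132 0 0) (P.cons (P.lf 0 37979 0) P.nil))) (P.cons (P.cons (P.lf 53744 0 0) (P.cons (P.lf 0 680 0) P.nil)) (P.cons (P.cons (P.lf 0 1996 0) P.nil) P.nil)))))) 23516)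
 (EL.cons 5 (TM.mk (P.cons (P.cons (P.lf 820176425 0 0) (P.cons (P.lf 95182168 0 0) (P.cons (P.lf 0 42216560 0) (P.cons (P.lf 0 4703122 0) (P.cons (P.lf 482992 0 0) (P.cons (P.lf 57614 0 0) P.nil)))))) (P.cons (P.cons (P.lf 80223827 0 0) (P.cons (P.lf 5067843 0 0) (P.cons (P.lf 0 2365974 0) (P.cons (P.lf 0 138819 0) (P.cons (P.lf 4698 0 0) P.nil))))) (P.cons (P.cons (P.lf 0 539515 0) (P.cons (P.lf 0 263299 0) (P.cons (P.lf 117928 0 0) (P.cons (P.lf 11905 0 0) P.nil)))) (P.cons (P.cons (P.lf 0 284105 0) (P.cons (P.lf 0 8490 0) (P.cons (P.lf 4346 0 0) P.nil))) (P.cons (P.cons (P.lf 7579 0 0) (P.cons (P.lf 1779 0 0) P.nil)) (P.cons (P.cons (P.lf 1591 0 0) P.nil) P.nil)))))) 27987)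
 (EL.cons 9 (TM.mk (P.cons (P.cons (P.lf 741404673 0 0) (P.cons (P.lf 97175880 0 0) (P.cons (P.lf 0 42688750 0) (P.cons (P.lf 0 5190708 0) (P.cons (P.lf 566418 0 0) (P.cons (P.lf 67578 0 0) P.nil)))))) (P.cons (P.cons (P.lf 116069377 0 0) (P.cons (P.lf 10543783 0 0) (P.cons (P.lf 0 4784820 0) (P.cons (P.lf 0 418741 0) (P.cons (P.lf 34240 0 0) P.nil))))) (P.cons (P.cons (P.lf 7272742 0 0) (P.cons (P.lf 274894 0 0) (P.cons (P.lf 0 135636 0) (P.cons (P.lf 0 640 0) P.nil)))) (P.cons (P.cons (P.lf 0 36085 0) (P.cons (P.lf 0 26320 0) (P.cons (P.lf 11838 0 0) P.nil))) (P.cons (P.cons (P.lf 0 22563 0) (P.cons (P.lf 0 1407 0) P.nil)) (P.cons (P.cons (P.lf 0 736 0) P.nil) P.nil)))))) 12317)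
 (EL.cons 2 (TM.mk (P.cons (P.cons (P.lf 0 96480472 0) (P.cons (P.lf 88810965 0 0) (P.cons (P.lf 12196186 0 0) (P.cons (P.lf 0 3151378 0) (P.cons (P.lf 0 287465 0) (P.cons (P.lf 11210 0 0) P.nil)))))) (P.cons (P.cons (P.lf 1722386 0 0) (P.cons (P.lf 0 1281650 0) (P.cons (P.lf 0 660729 0) (P.cons (P.lf 181473 0 0) (P.cons (P.lf 18005 0 0) P.nil))))) (P.cons (P.cons (P.lf 957037 0 0) (P.cons (P.lf 0 889807 0) (P.cons (P.lf 0 108073 0) (P.cons (P.lf 27607 0 0) P.nil)))) (P.cons (P.cons (P.lf 54832 0 0) (P.cons (P.lf 0 54461 0) (P.cons (P.lf 0 1108 0) P.nil))) (P.cons (P.cons (P.lf 0 1755 0) (P.cons (P.lf 1603 0 0) P.nil)) (P.cons (P.cons (P.lf 0 163 0) P.nil) P.nil)))))) 9134)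
 (EL.cons 6 (TM.mk (P.cons (P.cons (P.lf 0 195442242 0) (P.cons (P.lf 179905986 0 0) (P.cons (P.lf 24706044 0 0) (P.cons (P.lf 0 6383808 0) (P.cons (P.lf 0 582330 0) (P.cons (P.lf 22710 0 0) P.nil)))))) (P.cons (P.cons (P.lf 0 21205890 0) (P.cons (P.lf 20135628 0 0) (P.cons (P.lf 1783254 0 0) (P.cons (P.lf 0 438996 0) (P.cons (P.lf 0 37092 0) P.nil))))) (P.cons (P.cons (P.lf 0 552864 0) (P.cons (P.lf 568752 0 0) (P.cons (P.lf 0 17352 0) (P.cons (P.lf 6600 0 0) P.nil)))) (P.cons (P.cons (P.lf 52944 0 0) (P.cons (P.lf 0 49848 0) (P.cons (P.lf 0 5058 0) P.nil))) (P.cons (P.cons (P.lf 2820 0 0) (P.cons (P.lf 0 2790 0) P.nil)) (P.cons (P.cons (P.lf 0 42 0) P.nil) P.nil)))))) 10746)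
 EL.nil))))))
noncomputable def S219_227_734_808_3 : EL := (EL.cons 0 (TM.mk (P.cons (P.lf 481596895 0 0) (P.cons (P.lf 0 111999383 0) (P.cons (P.lf 5671151 0 0) (P.cons (P.lf 127063 0 0) (P.cons (P.lf 0 2649 0) (P.cons (P.lf 0 73 0) P.nil)))))) 59)
 (EL.cons 1 (TM.mk (P.cons (P.lf 975579558 0 0) (P.cons (P.lf 0 103610482 0) (P.cons (P.lf 0 2541390 0) (P.cons (P.lf 79128 0 0) (P.cons (P.lf 1965 0 0) (P.cons (P.lf 0 24 0) P.nil)))))) 82)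
 (EL.cons 5 (TM.mk (P.cons (P.lf 1976249194 0 0) (P.cons (P.lf 39822002 0 0) (P.cons (P.lf 0 2016406 0) (P.cons (P.lf 0 45176 0) (P.cons (P.lf 938 0 0) (P.cons (P.lf 26 0 0) P.nil)))))) 106)
 EL.nil)))
noncomputable def S219_227_734_808_4 : EL := (EL.cons 0 (TM.mk (P.cons (P.cons (P.lf 0 163375066 0) (P.cons (P.lf 0 10706781 0) (P.cons (P.lf 5054255 0 0) (P.lf 240677 0 0)))) (P.cons (P.cons (P.lf 25205779 0 0) (P.cons (P.lf 2166333 0 0) (P.cons (P.lf 0 1022642 0) (P.lf 0 48696 0)))) (P.cons (P.cons (P.lf 749413 0 0) (P.cons (P.lf 0 36063 0) (P.cons (P.lf 17024 0 0) (P.lf 810 0 0)))) (P.cons (P.cons (P.lf 0 96226 0) (P.cons (P.lf 0 9529 0) (P.cons (P.lf 4498 0 0) P.nil))) (P.cons (P.cons (P.lf 0 11807 0) (P.cons (P.lf 12 0 0) P.nil)) (P.cons (P.cons (P.lf 181 0 0) P.nil) P.nil)))))) 648)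
 (EL.cons 1 (TM.mk (P.cons (P.cons (P.lf 0 330951832 0) (P.cons (P.lf 0 21688921 0) (P.cons (P.lf 10238497 0 0) (P.lf 487545 0 0)))) (P.cons (P.cons (P.lf 9242610 0 0) (P.cons (P.lf 1647894 0 0) (P.cons (P.lf 0 777905 0) (P.lf 0 37042 0)))) (P.cons (P.cons (P.lf 3004119 0 0) (P.cons (P.lf 156013 0 0) (P.cons (P.lf 0 73646 0) (P.lf 0 3504 0)))) (P.cons (P.cons (P.lf 161100 0 0) (P.cons (P.lf 0 2135 0) (P.cons (P.lf 1008 0 0) P.nil))) (P.cons (P.cons (P.lf 0 5866 0) (P.cons (P.lf 0 307 0) P.nil)) (P.cons (P.cons (P.lf 0 403 0) P.nil) P.nil)))))) 581)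
 (EL.cons 5 (TM.mk (P.cons (P.cons (P.lf 0 670415126 0) (P.cons (P.lf 0 43935640 0) (P.cons (P.lf 20740310 0 0) (P.lf 987632 0 0)))) (P.cons (P.cons (P.lf 0 65986924 0) (P.cons (P.lf 0 2213288 0) (P.cons (P.lf 1044804 0 0) (P.lf 49750 0 0)))) (P.cons (P.cons (P.lf 0 1607698 0) (P.cons (P.lf 78620 0 0) (P.cons (P.lf 0 37112 0) (P.lf 0 1764 0)))) (P.cons (P.cons (P.lf 156930 0 0) (P.cons (P.lf 5782 0 0) (P.cons (P.lf 0 2728 0) P.nil))) (P.cons (P.cons (P.lf 6912 0 0) (P.cons (P.lf 0 42 0) P.nil)) (P.cons (P.cons (P.lf 0 140 0) P.nil) P.nil)))))) 564)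
 EL.nil)))
noncomputable def S219_227_734_808_5 : EL := (EL.cons 0 (TM.mk (P.cons (P.cons (P.lf 55422724 0 0) (P.cons (P.lf 7264253 0 0) (P.cons (P.lf 0 3191139 0) (P.cons (P.lf 0 388023 0) (P.cons (P.lf 42340 0 0) (P.cons (P.lf 5050 0 0) P.nil)))))) (P.cons (P.cons (P.lf 0 4212404 0) (P.cons (P.lf 0 901175 0) (P.cons (P.lf 384442 0 0) (P.cons (P.lf 58934 0 0) (P.cons (P.lf 0 7286 0) P.nil))))) (P.cons (P.cons (P.lf 0 821511 0) (P.cons (P.lf 0 77206 0) (P.cons (P.lf 35463 0 0) (P.cons (P.lf 2661 0 0) P.nil)))) (P.cons (P.cons (P.lf 0 12334 0) (P.cons (P.lf 4450 0 0) (P.cons (P.lf 0 1810 0) P.nil))) (P.cons (P.cons (P.lf 7326 0 0) (P.cons (P.lf 761 0 0) P.nil)) (P.cons (P.cons (P.lf 391 0 0) P.nil) P.nil)))))) 4629)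
 (EL.cons 1 (TM.mk (P.cons (P.cons (P.lf 112270816 0 0) (P.cons (P.lf 14715330 0 0) (P.cons (P.lf 0 6464351 0) (P.cons (P.lf 0 786028 0) (P.cons (P.lf 85771 0 0) (P.cons (P.lf 10231 0 0) P.nil)))))) (P.cons (P.cons (P.lf 5652757 0 0) (P.cons (P.lf 33815 0 0) (P.cons (P.lf 0 38023 0) (P.cons (P.lf 20068 0 0) (P.cons (P.lf 0 3922 0) P.nil))))) (P.cons (P.cons (P.lf 0 1057835 0) (P.cons (P.lf 0 166275 0) (P.cons (P.lf 73250 0 0) (P.cons (P.lf 8683 0 0) P.nil)))) (P.cons (P.cons (P.lf 0 159106 0) (P.cons (P.lf 0 11370 0) (P.cons (P.lf 5336 0 0) P.nil))) (P.cons (P.cons (P.lf 0 4051 0) (P.cons (P.lf 258 0 0) P.nil)) (P.cons (P.cons (P.lf 386 0 0) P.nil) P.nil)))))) 4913)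
 (EL.cons 5 (TM.mk (P.cons (P.cons (P.lf 227429032 0 0) (P.cons (P.lf 29809112 0 0) (P.cons (P.lf 0 13094954 0) (P.cons (P.lf 0 1592270 0) (P.cons (P.lf 173750 0 0) (P.cons (P.lf 20728 0 0) P.nil)))))) (P.cons (P.cons (P.lf 40187534 0 0) (P.cons (P.lf 3835012 0 0) (P.cons (P.lf 0 1731630 0) (P.cons (P.lf 0 160534 0) (P.cons (P.lf 14002 0 0) P.nil))))) (P.cons (P.cons (P.lf 2716338 0 0) (P.cons (P.lf 119082 0 0) (P.cons (P.lf 0 57820 0) (P.cons (P.lf 0 1158 0) P.nil)))) (P.cons (P.cons (P.lf 0 7640 0) (P.cons (P.lf 0 10354 0) (P.cons (P.lf 4588 0 0) P.nil))) (P.cons (P.cons (P.lf 0 10126 0) (P.cons (P.lf 0 738 0) P.nil)) (P.cons (P.cons (P.lf 0 384 0) P.nil) P.nil)))))) 5194)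
 EL.nil)))
noncomputable def S219_227_734_808_6 : EL := (EL.cons 12 (TM.mk (P.lf 8589934592 0 0) 0)
 (EL.cons 3 (TM.mk (P.cons (P.lf 0 1016966793 0) (P.cons (P.lf 118252065 0 0) (P.cons (P.lf 887366 0 0) (P.cons (P.lf 0 30975 0) (P.cons (P.lf 0 416 0) (P.cons (P.lf 3 0 0) P.nil)))))) 44)
 (EL.cons 7 (TM.mk (P.cons (P.lf 0 2060088064 0) (P.cons (P.lf 0 20755690 0) (P.cons (P.lf 1155533 0 0) (P.cons (P.lf 11905 0 0) (P.cons (P.lf 0 285 0) (P.cons (P.lf 0 5 0) P.nil)))))) 48)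
 EL.nil)))
noncomputable def S219_227_734_808_7 : EL := (EL.cons 12 (TM.mk (P.cons (P.cons (P.lf 0 2914016164 0) (P.cons (P.lf 0 190969992 0) (P.cons (P.lf 90149520 0 0) (P.lf 4292832 0 0)))) (P.cons (P.cons (P.lf 0 228099482 0) (P.cons (P.lf 0 5772144 0) (P.cons (P.lf 2724800 0 0) (P.lf 129744 0 0)))) (P.cons (P.cons (P.lf 0 5364958 0) (P.cons (P.lf 263192 0 0) (P.cons (P.lf 0 124240 0) (P.lf 0 5912 0)))) (P.cons (P.cons (P.lf 490868 0 0) (P.cons (P.lf 9584 0 0) (P.cons (P.lf 0 4520 0) P.nil))) (P.cons (P.cons (P.lf 10856 0 0) (P.cons (P.lf 0 152 0) P.nil)) (P.cons (P.cons (P.lf 0 306 0) P.nil) P.nil)))))) 1250)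
 (EL.cons 3 (TM.mk (P.cons (P.cons (P.lf 0 2335347823 0) (P.cons (P.lf 0 45218070 0) (P.cons (P.lf 21345694 0 0) (P.lf 1016460 0 0)))) (P.cons (P.cons (P.lf 0 152977897 0) (P.cons (P.lf 3891184 0 0) (P.cons (P.lf 0 1836876 0) (P.lf 0 87470 0)))) (P.cons (P.cons (P.lf 14685765 0 0) (P.cons (P.lf 260696 0 0) (P.cons (P.lf 0 123062 0) (P.lf 0 5856 0)))) (P.cons (P.cons (P.lf 493349 0 0) (P.cons (P.lf 0 5160 0) (P.cons (P.lf 2436 0 0) P.nil))) (P.cons (P.cons (P.lf 0 15996 0) (P.cons (P.lf 0 414 0) P.nil)) (P.cons (P.cons (P.lf 0 647 0) P.nil) P.nil)))))) 1922)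
 (EL.cons 7 (TM.mk (P.cons (P.cons (P.lf 1169311528 0 0) (P.cons (P.lf 57704604 0 0) (P.cons (P.lf 0 27240106 0) (P.lf 0 1297149 0)))) (P.cons (P.cons (P.lf 26850799 0 0) (P.cons (P.lf 0 682981 0) (P.cons (P.lf 322406 0 0) (P.lf 15350 0 0)))) (P.cons (P.cons (P.lf 0 4274012 0) (P.cons (P.lf 0 2613 0) (P.cons (P.lf 1232 0 0) (P.lf 61 0 0)))) (P.cons (P.cons (P.lf 139140 0 0) (P.cons (P.lf 4539 0 0) (P.cons (P.lf 0 2139 0) P.nil))) (P.cons (P.cons (P.lf 9475 0 0) (P.cons (P.lf 0 25 0) P.nil)) (P.cons (P.cons (P.lf 0 167 0) P.nil) P.nil)))))) 2201)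
 (EL.cons 10 (TM.mk (P.cons (P.cons (P.lf 0 600565554 0) (P.cons (P.lf 592182963 0 0) (P.cons (P.lf 18529977 0 0) (P.cons (P.lf 0 3395541 0) (P.lf 0 121269 0))))) (P.cons (P.cons (P.lf 0 12101571 0) (P.cons (P.lf 11932659 0 0) (P.cons (P.lf 373383 0 0) (P.cons (P.lf 0 68421 0) (P.lf 0 2442 0))))) (P.cons (P.cons (P.lf 612768 0 0) (P.cons (P.lf 0 604215 0) (P.cons (P.lf 0 18906 0) (P.cons (P.lf 3462 0 0) P.nil)))) (P.cons (P.cons (P.lf 13728 0 0) (P.cons (P.lf 0 13536 0) (P.cons (P.lf 0 423 0) P.nil))) (P.cons (P.cons (P.lf 0 285 0) (P.cons (P.lf 279 0 0) P.nil)) (P.cons (P.cons (P.lf 0 6 0) P.nil) P.nil)))))) 393)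
 EL.nil))))
noncomputable def S219_227_734_808_8 : EL := (EL.cons 12 (TM.mk (P.cons (P.cons (P.lf 988539564 0 0) (P.cons (P.lf 129567840 0 0) (P.cons (P.lf 0 56918334 0) (P.cons (P.lf 0 6920944 0) (P.cons (P.lf 755224 0 0) (P.cons (P.lf 90104 0 0) P.nil)))))) (P.cons (P.cons (P.lf 154759170 0 0) (P.cons (P.lf 14058378 0 0) (P.cons (P.lf 0 6379760 0) (P.cons (P.lf 0 558322 0) (P.cons (P.lf 45654 0 0) P.nil))))) (P.cons (P.cons (P.lf 9696990 0 0) (P.cons (P.lf 366526 0 0) (P.cons (P.lf 0 180848 0) (P.cons (P.lf 0 854 0) P.nil)))) (P.cons (P.cons (P.lf 0 48114 0) (P.cons (P.lf 0 35094 0) (P.cons (P.lf 15784 0 0) P.nil))) (P.cons (P.cons (P.lf 0 30084 0) (P.cons (P.lf 0 1876 0) P.nil)) (P.cons (P.cons (P.lf 0 982 0) P.nil) P.nil)))))) 16394)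
 (EL.cons 3 (TM.mk (P.cons (P.cons (P.lf 1701502422 0 0) (P.cons (P.lf 149856934 0 0) (P.cons (P.lf 0 68228434 0) (P.cons (P.lf 0 5741416 0) (P.cons (P.lf 447055 0 0) (P.cons (P.lf 53336 0 0) P.nil)))))) (P.cons (P.cons (P.lf 232531624 0 0) (P.cons (P.lf 9582611 0 0) (P.cons (P.lf 0 4663884 0) (P.cons (P.lf 0 82935 0) (P.cons (P.lf 0 24955 0) P.nil))))) (P.cons (P.cons (P.lf 0 6856 0) (P.cons (P.lf 0 1081069 0) (P.cons (P.lf 485838 0 0) (P.cons (P.lf 47417 0 0) P.nil)))) (P.cons (P.cons (P.lf 0 1342090 0) (P.cons (P.lf 0 86817 0) (P.cons (P.lf 40999 0 0) P.nil))) (P.cons (P.cons (P.lf 0 60372 0) (P.cons (P.lf 1527 0 0) P.nil)) (P.cons (P.cons (P.lf 2470 0 0) P.nil) P.nil)))))) 31457)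
 (EL.cons 7 (TM.mk (P.cons (P.cons (P.lf 0 556268126 0) (P.cons (P.lf 0 60069132 0) (P.cons (P.lf 26808755 0 0) (P.cons (P.lf 2811377 0 0) (P.cons (P.lf 0 275280 0) (P.cons (P.lf 0 32841 0) P.nil)))))) (P.cons (P.cons (P.lf 0 40814124 0) (P.cons (P.lf 0 1681954 0) (P.cons (P.lf 818615 0 0) (P.cons (P.lf 14560 0 0) (P.cons (P.lf 4381 0 0) P.nil))))) (P.cons (P.cons (P.lf 2579723 0 0) (P.cons (P.lf 296011 0 0) (P.cons (P.lf 0 136988 0) (P.cons (P.lf 0 9242 0) P.nil)))) (P.cons (P.cons (P.lf 222384 0 0) (P.cons (P.lf 0 1283 0) (P.cons (P.lf 245 0 0) P.nil))) (P.cons (P.cons (P.lf 0 11271 0) (P.cons (P.lf 0 1603 0) P.nil)) (P.cons (P.cons (P.lf 0 1377 0) P.nil) P.nil)))))) 14423)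
 (EL.cons 10 (TM.mk (P.cons (P.cons (P.lf 407467068 0 0) (P.cons (P.lf 0 375076362 0) (P.cons (P.lf 0 51508314 0) (P.cons (P.lf 13309266 0 0) (P.cons (P.lf 1214076 0 0) (P.cons (P.lf 0 47358 0) P.nil)))))) (P.cons (P.cons (P.lf 40105740 0 0) (P.cons (P.lf 0 38200752 0) (P.cons (P.lf 0 3198864 0) (P.cons (P.lf 781158 0 0) (P.cons (P.lf 65106 0 0) P.nil))))) (P.cons (P.cons (P.lf 977130 0 0) (P.cons (P.lf 0 1011276 0) (P.cons (P.lf 39522 0 0) (P.cons (P.lf 0 14166 0) P.nil)))) (P.cons (P.cons (P.lf 0 95376 0) (P.cons (P.lf 90528 0 0) (P.cons (P.lf 8064 0 0) P.nil))) (P.cons (P.cons (P.lf 0 4200 0) (P.cons (P.lf 4170 0 0) P.nil)) (P.cons (P.cons (P.lf 84 0 0) P.nil) P.nil)))))) 19104)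
 EL.nil))))
noncomputable def S219_227_734_808_9 : EL := (EL.cons 3 (TM.mk (P.cons (P.lf 0 1016966793 0) (P.cons (P.lf 118252065 0 0) (P.cons (P.lf 887366 0 0) (P.cons (P.lf 0 30975 0) (P.cons (P.lf 0 416 0) (P.cons (P.lf 3 0 0) P.nil)))))) 44)
 (EL.cons 7 (TM.mk (P.cons (P.lf 0 2060088064 0) (P.cons (P.lf 0 20755690 0) (P.cons (P.lf 1155533 0 0) (P.cons (P.lf 11905 0 0) (P.cons (P.lf 0 285 0) (P.cons (P.lf 0 5 0) P.nil)))))) 48)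
 EL.nil))
noncomputable def S219_227_734_808_10 : EL := (EL.cons 3 (TM.mk (P.cons (P.cons (P.lf 344991878 0 0) (P.cons (P.lf 22609035 0 0) (P.cons (P.lf 0 10672847 0) (P.lf 0 508230 0)))) (P.cons (P.cons (P.lf 0 13110556 0) (P.cons (P.lf 0 1945592 0) (P.cons (P.lf 918438 0 0) (P.lf 43735 0 0)))) (P.cons (P.cons (P.lf 0 2805963 0) (P.cons (P.lf 0 130348 0) (P.cons (P.lf 61531 0 0) (P.lf 2928 0 0)))) (P.cons (P.cons (P.lf 0 145024 0) (P.cons (P.lf 2580 0 0) (P.cons (P.lf 0 1218 0) P.nil))) (P.cons (P.cons (P.lf 5880 0 0) (P.cons (P.lf 207 0 0) P.nil)) (P.cons (P.cons (P.lf 265 0 0) P.nil) P.nil)))))) 430)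
 (EL.cons 7 (TM.mk (P.cons (P.cons (P.lf 698856301 0 0) (P.cons (P.lf 45799533 0 0) (P.cons (P.lf 0 21620182 0) (P.lf 0 1029531 0)))) (P.cons (P.cons (P.lf 61745224 0 0) (P.cons (P.lf 1845746 0 0) (P.cons (P.lf 0 871303 0) (P.lf 0 41488 0)))) (P.cons (P.cons (P.lf 1445809 0 0) (P.cons (P.lf 0 74862 0) (P.cons (P.lf 35339 0 0) (P.lf 1681 0 0)))) (P.cons (P.cons (P.lf 0 139482 0) (P.cons (P.lf 0 3975 0) (P.cons (P.lf 1875 0 0) P.nil))) (P.cons (P.cons (P.lf 0 4730 0) (P.cons (P.lf 47 0 0) P.nil)) (P.cons (P.cons (P.lf 115 0 0) P.nil) P.nil)))))) 421)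
 EL.nil))
noncomputable def S219_227_734_808_11 : EL := (EL.cons 3 (TM.mk (P.cons (P.cons (P.lf 0 117033708 0) (P.cons (P.lf 0 15339602 0) (P.cons (P.lf 6738590 0 0) (P.cons (P.lf 819374 0 0) (P.cons (P.lf 0 89411 0) (P.cons (P.lf 0 10666 0) P.nil)))))) (P.cons (P.cons (P.lf 0 4713434 0) (P.cons (P.lf 119297 0 0) (P.cons (P.lf 0 28254 0) (P.cons (P.lf 0 29175 0) (P.cons (P.lf 4991 0 0) P.nil))))) (P.cons (P.cons (P.lf 1084556 0 0) (P.cons (P.lf 163523 0 0) (P.cons (P.lf 0 72294 0) (P.cons (P.lf 0 8299 0) P.nil)))) (P.cons (P.cons (P.lf 151610 0 0) (P.cons (P.lf 10185 0 0) (P.cons (P.lf 0 4811 0) P.nil))) (P.cons (P.cons (P.lf 3294 0 0) (P.cons (P.lf 0 279 0) P.nil)) (P.cons (P.cons (P.lf 0 344 0) P.nil) P.nil)))))) 4591)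
 (EL.cons 7 (TM.mk (P.cons (P.cons (P.lf 0 237077306 0) (P.cons (P.lf 0 31073712 0) (P.cons (P.lf 13650485 0 0) (P.cons (P.lf 1659821 0 0) (P.cons (P.lf 0 181122 0) (P.cons (P.lf 0 21609 0) P.nil)))))) (P.cons (P.cons (P.lf 0 39503832 0) (P.cons (P.lf 0 3684634 0) (P.cons (P.lf 1667561 0 0) (P.cons (P.lf 150622 0 0) (P.cons (P.lf 0 12773 0) P.nil))))) (P.cons (P.cons (P.lf 0 2566549 0) (P.cons (P.lf 0 104441 0) (P.cons (P.lf 51130 0 0) (P.cons (P.lf 622 0 0) P.nil)))) (P.cons (P.cons (P.lf 10296 0 0) (P.cons (P.lf 9601 0 0) (P.cons (P.lf 0 4285 0) P.nil))) (P.cons (P.cons (P.lf 8817 0 0) (P.cons (P.lf 599 0 0) P.nil)) (P.cons (P.cons (P.lf 309 0 0) P.nil) P.nil)))))) 4633)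
 EL.nil))
noncomputable def S219_227_734_808_12 : EL := (EL.cons 4 (TM.mk (P.cons (P.lf 1016966793 0 0) (P.cons (P.lf 0 118252065 0) (P.cons (P.lf 0 887366 0) (P.cons (P.lf 30975 0 0) (P.cons (P.lf 416 0 0) (P.cons (P.lf 0 3 0) P.nil)))))) 44)
 (EL.cons 8 (TM.mk (P.cons (P.lf 2060088064 0 0) (P.cons (P.lf 20755690 0 0) (P.cons (P.lf 0 1155533 0) (P.cons (P.lf 0 11905 0) (P.cons (P.lf 285 0 0) (P.cons (P.lf 5 0 0) P.nil)))))) 48)
 EL.nil))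
noncomputable def S219_227_734_808_13 : EL := (EL.cons 4 (TM.mk (P.cons (P.cons (P.lf 0 344991878 0) (P.cons (P.lf 0 22609035 0) (P.cons (P.lf 10672847 0 0) (P.lf 508230 0 0)))) (P.cons (P.cons (P.lf 13110556 0 0) (P.cons (P.lf 1945592 0 0) (P.cons (P.lf 0 918438 0) (P.lf 0 43735 0)))) (P.cons (P.cons (P.lf 2805963 0 0) (P.cons (P.lf 130348 0 0) (P.cons (P.lf 0 61531 0) (P.lf 0 2928 0)))) (P.cons (P.cons (P.lf 145024 0 0) (P.cons (P.lf 0 2580 0) (P.cons (P.lf 1218 0 0) P.nil))) (P.cons (P.cons (P.lf 0 5880 0) (P.cons (P.lf 0 207 0) P.nil)) (P.cons (P.cons (P.lf 0 265 0) P.nil) P.nil)))))) 430)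
 (EL.cons 8 (TM.mk (P.cons (P.cons (P.lf 0 698856301 0) (P.cons (P.lf 0 45799533 0) (P.cons (P.lf 21620182 0 0) (P.lf 1029531 0 0)))) (P.cons (P.cons (P.lf 0 61745224 0) (P.cons (P.lf 0 1845746 0) (P.cons (P.lf 871303 0 0) (P.lf 41488 0 0)))) (P.cons (P.cons (P.lf 0 1445809 0) (P.cons (P.lf 74862 0 0) (P.cons (P.lf 0 35339 0) (P.lf 0 1681 0)))) (P.cons (P.cons (P.lf 139482 0 0) (P.cons (P.lf 3975 0 0) (P.cons (P.lf 0 1875 0) P.nil))) (P.cons (P.cons (P.lf 4730 0 0) (P.cons (P.lf 0 47 0) P.nil)) (P.cons (P.cons (P.lf 0 115 0) P.nil) P.nil)))))) 421)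
 EL.nil))
noncomputable def S219_227_734_808_14 : EL := (EL.cons 4 (TM.mk (P.cons (P.cons (P.lf 117033708 0 0) (P.cons (P.lf 15339602 0 0) (P.cons (P.lf 0 6738590 0) (P.cons (P.lf 0 819374 0) (P.cons (P.lf 89411 0 0) (P.cons (P.lf 10666 0 0) P.nil)))))) (P.cons (P.cons (P.lf 4713434 0 0) (P.cons (P.lf 0 119297 0) (P.cons (P.lf 28254 0 0) (P.cons (P.lf 29175 0 0) (P.cons (P.lf 0 4991 0) P.nil))))) (P.cons (P.cons (P.lf 0 1084556 0) (P.cons (P.lf 0 163523 0) (P.cons (P.lf 72294 0 0) (P.cons (P.lf 8299 0 0) P.nil)))) (P.cons (P.cons (P.lf 0 151610 0) (P.cons (P.lf 0 10185 0) (P.cons (P.lf 4811 0 0) P.nil))) (P.cons (P.cons (P.lf 0 3294 0) (P.cons (P.lf 279 0 0) P.nil)) (P.cons (P.cons (P.lf 344 0 0) P.nil) P.nil)))))) 4591)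
 (EL.cons 8 (TM.mk (P.cons (P.cons (P.lf 237077306 0 0) (P.cons (P.lf 31073712 0 0) (P.cons (P.lf 0 13650485 0) (P.cons (P.lf 0 1659821 0) (P.cons (P.lf 181122 0 0) (P.cons (P.lf 21609 0 0) P.nil)))))) (P.cons (P.cons (P.lf 39503832 0 0) (P.cons (P.lf 3684634 0 0) (P.cons (P.lf 0 1667561 0) (P.cons (P.lf 0 150622 0) (P.cons (P.lf 12773 0 0) P.nil))))) (P.cons (P.cons (P.lf 2566549 0 0) (P.cons (P.lf 104441 0 0) (P.cons (P.lf 0 51130 0) (P.cons (P.lf 0 622 0) P.nil)))) (P.cons (P.cons (P.lf 0 10296 0) (P.cons (P.lf 0 9601 0) (P.cons (P.lf 4285 0 0) P.nil))) (P.cons (P.cons (P.lf 0 8817 0) (P.cons (P.lf 0 599 0) P.nil)) (P.cons (P.cons (P.lf 0 309 0) P.nil) P.nil)))))) 4633)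
 EL.nil))
noncomputable def S219_227_734_808_15 : EL := (EL.cons 4 (TM.mk (P.cons (P.lf 0 256851677 0) (P.cons (P.lf 59733004 0 0) (P.cons (P.lf 0 3024614 0) (P.cons (P.lf 0 67767 0) (P.cons (P.lf 1412 0 0) (P.cons (P.lf 39 0 0) P.nil)))))) 35)
 (EL.cons 8 (TM.mk (P.cons (P.lf 0 520309098 0) (P.cons (P.lf 55258924 0 0) (P.cons (P.lf 1355408 0 0) (P.cons (P.lf 0 42202 0) (P.cons (P.lf 0 1048 0) (P.cons (P.lf 13 0 0) P.nil)))))) 40)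
 EL.nil))
noncomputable def S219_227_734_808_16 : EL := (EL.cons 4 (TM.mk (P.cons (P.cons (P.lf 87133368 0 0) (P.cons (P.lf 5710283 0 0) (P.cons (P.lf 0 2695603 0) (P.lf 0 128361 0)))) (P.cons (P.cons (P.lf 0 13443082 0) (P.cons (P.lf 0 1155377 0) (P.cons (P.lf 545409 0 0) (P.lf 25971 0 0)))) (P.cons (P.cons (P.lf 0 399687 0) (P.cons (P.lf 19233 0 0) (P.cons (P.lf 0 9079 0) (P.lf 0 432 0)))) (P.cons (P.cons (P.lf 51320 0 0) (P.cons (P.lf 5082 0 0) (P.cons (P.lf 0 2399 0) P.nil))) (P.cons (P.cons (P.lf 6297 0 0) (P.cons (P.lf 0 6 0) P.nil)) (P.cons (P.cons (P.lf 0 96 0) P.nil) P.nil)))))) 354)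
 (EL.cons 8 (TM.mk (P.cons (P.cons (P.lf 176507644 0 0) (P.cons (P.lf 11567425 0 0) (P.cons (P.lf 0 5460532 0) (P.lf 0 260024 0)))) (P.cons (P.cons (P.lf 0 4929392 0) (P.cons (P.lf 0 878877 0) (P.cons (P.lf 414883 0 0) (P.lf 19756 0 0)))) (P.cons (P.cons (P.lf 0 1602197 0) (P.cons (P.lf 0 83207 0) (P.cons (P.lf 39278 0 0) (P.lf 1869 0 0)))) (P.cons (P.cons (P.lf 0 85920 0) (P.cons (P.lf 1139 0 0) (P.cons (P.lf 0 538 0) P.nil))) (P.cons (P.cons (P.lf 3129 0 0) (P.cons (P.lf 164 0 0) P.nil)) (P.cons (P.cons (P.lf 215 0 0) P.nil) P.nil)))))) 300)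
 EL.nil))
noncomputable def S219_227_734_808_17 : EL := (EL.cons 4 (TM.mk (P.cons (P.cons (P.lf 0 29558786 0) (P.cons (P.lf 0 3874268 0) (P.cons (P.lf 1701941 0 0) (P.cons (P.lf 206945 0 0) (P.cons (P.lf 0 22581 0) (P.cons (P.lf 0 2693 0) P.nil)))))) (P.cons (P.cons (P.lf 2246615 0 0) (P.cons (P.lf 480627 0 0) (P.cons (P.lf 0 205035 0) (P.cons (P.lf 0 31431 0) (P.cons (P.lf 3885 0 0) P.nil))))) (P.cons (P.cons (P.lf 438139 0 0) (P.cons (P.lf 41176 0 0) (P.cons (P.lf 0 18914 0) (P.cons (P.lf 0 1419 0) P.nil)))) (P.cons (P.cons (P.lf 6578 0 0) (P.cons (P.lf 0 2373 0) (P.cons (P.lf 965 0 0) P.nil))) (P.cons (P.cons (P.lf 0 3907 0) (P.cons (P.lf 0 405 0) P.nil)) (P.cons (P.cons (P.lf 0 209 0) P.nil) P.nil)))))) 2479)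
 (EL.cons 8 (TM.mk (P.cons (P.cons (P.lf 0 59877769 0) (P.cons (P.lf 0 7848176 0) (P.cons (P.lf 3447654 0 0) (P.cons (P.lf 419215 0 0) (P.cons (P.lf 0 45745 0) (P.cons (P.lf 0 5457 0) P.nil)))))) (P.cons (P.cons (P.lf 0 3014804 0) (P.cons (P.lf 0 18035 0) (P.cons (P.lf 20279 0 0) (P.cons (P.lf 0 10703 0) (P.cons (P.lf 2092 0 0) P.nil))))) (P.cons (P.cons (P.lf 564179 0 0) (P.cons (P.lf 88680 0 0) (P.cons (P.lf 0 39067 0) (P.cons (P.lf 0 4631 0) P.nil)))) (P.cons (P.cons (P.lf 84857 0 0) (P.cons (P.lf 6064 0 0) (P.cons (P.lf 0 2846 0) P.nil))) (P.cons (P.cons (P.lf 2161 0 0) (P.cons (P.lf 0 138 0) P.nil)) (P.cons (P.cons (P.lf 0 206 0) P.nil) P.nil)))))) 2609)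
 EL.nil))
noncomputable def S219_227_734_808_18 : EL := (EL.cons 4 (TM.mk (P.cons (P.lf 64872112 0 0) (P.cons (P.lf 0 22629827 0) (P.cons (P.lf 2461562 0 0) (P.cons (P.lf 0 56571 0) (P.cons (P.lf 0 3446 0) (P.cons (P.lf 32 0 0) P.nil)))))) 26)
 (EL.cons 8 (TM.mk (P.cons (P.lf 131412614 0 0) (P.cons (P.lf 0 29237100 0) (P.cons (P.lf 1165859 0 0) (P.cons (P.lf 66645 0 0) (P.cons (P.lf 0 1046 0) (P.cons (P.lf 0 59 0) P.nil)))))) 26)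
 EL.nil))
noncomputable def S219_227_734_808_19 : EL := (EL.cons 4 (TM.mk (P.cons (P.cons (P.lf 0 22006964 0) (P.cons (P.lf 0 1442225 0) (P.cons (P.lf 680818 0 0) (P.lf 32419 0 0)))) (P.cons (P.cons (P.lf 5954222 0 0) (P.cons (P.lf 459510 0 0) (P.cons (P.lf 0 216916 0) (P.lf 0 10329 0)))) (P.cons (P.cons (P.lf 0 274649 0) (P.cons (P.lf 0 37530 0) (P.cons (P.lf 17716 0 0) (P.lf 842 0 0)))) (P.cons (P.cons (P.lf 0 28332 0) (P.cons (P.lf 0 1017 0) (P.cons (P.lf 480 0 0) P.nil))) (P.cons (P.cons (P.lf 0 76 0) (P.cons (P.lf 163 0 0) P.nil)) (P.cons (P.cons (P.lf 225 0 0) P.nil) P.nil)))))) 266)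
 (EL.cons 8 (TM.mk (P.cons (P.cons (P.lf 0 44579906 0) (P.cons (P.lf 0 2921543 0) (P.cons (P.lf 1379147 0 0) (P.lf 65673 0 0)))) (P.cons (P.cons (P.lf 6428713 0 0) (P.cons (P.lf 561689 0 0) (P.cons (P.lf 0 265151 0) (P.lf 0 12626 0)))) (P.cons (P.cons (P.lf 298792 0 0) (P.cons (P.lf 0 2246 0) (P.cons (P.lf 1060 0 0) (P.lf 50 0 0)))) (P.cons (P.cons (P.lf 0 27797 0) (P.cons (P.lf 0 3014 0) (P.cons (P.lf 1422 0 0) P.nil))) (P.cons (P.cons (P.lf 0 3646 0) (P.cons (P.lf 0 21 0) P.nil)) (P.cons (P.cons (P.lf 31 0 0) P.nil) P.nil)))))) 225)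
 EL.nil))
noncomputable def S219_227_734_808_20 : EL := (EL.cons 4 (TM.mk (P.cons (P.cons (P.lf 7465557 0 0) (P.cons (P.lf 978510 0 0) (P.cons (P.lf 0 429853 0) (P.cons (P.lf 0 52267 0) (P.cons (P.lf 5702 0 0) (P.cons (P.lf 679 0 0) P.nil)))))) (P.cons (P.cons (P.lf 0 1435508 0) (P.cons (P.lf 0 235170 0) (P.cons (P.lf 101767 0 0) (P.cons (P.lf 14015 0 0) (P.cons (P.lf 0 1644 0) P.nil))))) (P.cons (P.cons (P.lf 0 51194 0) (P.cons (P.lf 2861 0 0) (P.cons (P.lf 0 869 0) (P.cons (P.lf 0 518 0) P.nil)))) (P.cons (P.cons (P.lf 11927 0 0) (P.cons (P.lf 1944 0 0) (P.cons (P.lf 0 856 0) P.nil))) (P.cons (P.cons (P.lf 1261 0 0) (P.cons (P.lf 38 0 0) P.nil)) (P.cons (P.cons (P.lf 0 63 0) P.nil) P.nil)))))) 1259)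
 (EL.cons 8 (TM.mk (P.cons (P.cons (P.lf 15123114 0 0) (P.cons (P.lf 1982185 0 0) (P.cons (P.lf 0 870761 0) (P.cons (P.lf 0 105879 0) (P.cons (P.lf 11553 0 0) (P.cons (P.lf 1378 0 0) P.nil)))))) (P.cons (P.cons (P.lf 0 997064 0) (P.cons (P.lf 0 225931 0) (P.cons (P.lf 96129 0 0) (P.cons (P.lf 15014 0 0) (P.cons (P.lf 0 1871 0) P.nil))))) (P.cons (P.cons (P.lf 0 244228 0) (P.cons (P.lf 0 24656 0) (P.cons (P.lf 11222 0 0) (P.cons (P.lf 947 0 0) P.nil)))) (P.cons (P.cons (P.lf 0 5066 0) (P.cons (P.lf 1128 0 0) (P.cons (P.lf 0 450 0) P.nil))) (P.cons (P.cons (P.lf 2099 0 0) (P.cons (P.lf 233 0 0) P.nil)) (P.cons (P.cons (P.lf 130 0 0) P.nil) P.nil)))))) 1369)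
 EL.nil))
noncomputable def S219_227_734_808_21 : EL := (EL.cons 4 (TM.mk (P.cons (P.cons (P.lf 2680339701 0 0) (P.cons (P.lf 67827105 0 0) (P.cons (P.lf 0 32018541 0) (P.lf 0 1524690 0)))) (P.cons (P.cons (P.lf 139867341 0 0) (P.cons (P.lf 0 5836776 0) (P.cons (P.lf 2755314 0 0) (P.lf 131205 0 0)))) (P.cons (P.cons (P.lf 0 17491728 0) (P.cons (P.lf 0 391044 0) (P.cons (P.lf 184593 0 0) (P.lf 8784 0 0)))) (P.cons (P.cons (P.lf 0 638373 0) (P.cons (P.lf 7740 0 0) (P.cons (P.lf 0 3654 0) P.nil))) (P.cons (P.cons (P.lf 21876 0 0) (P.cons (P.lf 621 0 0) P.nil)) (P.cons (P.cons (P.lf 912 0 0) P.nil) P.nil)))))) 1473)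
 (EL.cons 8 (TM.mk (P.cons (P.cons (P.lf 0 470455227 0) (P.cons (P.lf 0 11905071 0) (P.cons (P.lf 5619924 0 0) (P.lf 267618 0 0)))) (P.cons (P.cons (P.lf 34894425 0 0) (P.cons (P.lf 2528727 0 0) (P.cons (P.lf 0 1193709 0) (P.lf 0 56838 0)))) (P.cons (P.cons (P.lf 5719821 0 0) (P.cons (P.lf 0 72249 0) (P.cons (P.lf 34107 0 0) (P.lf 1620 0 0)))) (P.cons (P.cons (P.lf 0 278622 0) (P.cons (P.lf 0 8514 0) (P.cons (P.lf 4014 0 0) P.nil))) (P.cons (P.cons (P.lf 0 14205 0) (P.cons (P.lf 72 0 0) P.nil)) (P.cons (P.cons (P.lf 282 0 0) P.nil) P.nil)))))) 1761)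
 (EL.cons 11 (TM.mk (P.cons (P.cons (P.lf 600565554 0 0) (P.cons (P.lf 0 592182963 0) (P.cons (P.lf 0 18529977 0) (P.cons (P.lf 3395541 0 0) (P.lf 121269 0 0))))) (P.cons (P.cons (P.lf 12101571 0 0) (P.cons (P.lf 0 11932659 0) (P.cons (P.lf 0 373383 0) (P.cons (P.lf 68421 0 0) (P.lf 2442 0 0))))) (P.cons (P.cons (P.lf 0 612768 0) (P.cons (P.lf 604215 0 0) (P.cons (P.lf 18906 0 0) (P.cons (P.lf 0 3462 0) P.nil)))) (P.cons (P.cons (P.lf 0 13728 0) (P.cons (P.lf 13536 0 0) (P.cons (P.lf 423 0 0) P.nil))) (P.cons (P.cons (P.lf 285 0 0) (P.cons (P.lf 0 279 0) P.nil)) (P.cons (P.cons (P.lf 6 0 0) P.nil) P.nil)))))) 393)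
 EL.nil)))
noncomputable def S219_227_734_808_22 : EL := (EL.cons 4 (TM.mk (P.cons (P.cons (P.lf 0 909268065 0) (P.cons (P.lf 0 82598268 0) (P.cons (P.lf 37483512 0 0) (P.cons (P.lf 3280395 0 0) (P.cons (P.lf 0 268233 0) (P.cons (P.lf 0 32001 0) P.nil)))))) (P.cons (P.cons (P.lf 0 118622529 0) (P.cons (P.lf 0 4731657 0) (P.cons (P.lf 2317815 0 0) (P.cons (P.lf 26880 0 0) (P.cons (P.lf 14973 0 0) P.nil))))) (P.cons (P.cons (P.lf 545706 0 0) (P.cons (P.lf 622296 0 0) (P.cons (P.lf 0 279066 0) (P.cons (P.lf 0 27858 0) P.nil)))) (P.cons (P.cons (P.lf 746850 0 0) (P.cons (P.lf 48501 0 0) (P.cons (P.lf 0 22905 0) P.nil))) (P.cons (P.cons (P.lf 31833 0 0) (P.cons (P.lf 0 903 0) P.nil)) (P.cons (P.cons (P.lf 0 1407 0) P.nil) P.nil)))))) 13422)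
 (EL.cons 8 (TM.mk (P.cons (P.cons (P.lf 159595410 0 0) (P.cons (P.lf 14497710 0 0) (P.cons (P.lf 0 6579135 0) (P.cons (P.lf 0 575778 0) (P.cons (P.lf 47079 0 0) (P.cons (P.lf 5616 0 0) P.nil)))))) (P.cons (P.cons (P.lf 655146 0 0) (P.cons (P.lf 0 1001340 0) (P.cons (P.lf 424473 0 0) (P.cons (P.lf 68031 0 0) (P.cons (P.lf 0 8577 0) P.nil))))) (P.cons (P.cons (P.lf 0 2573136 0) (P.cons (P.lf 0 200226 0) (P.cons (P.lf 94059 0 0) (P.cons (P.lf 4932 0 0) P.nil)))) (P.cons (P.cons (P.lf 0 106044 0) (P.cons (P.lf 5442 0 0) (P.cons (P.lf 0 2265 0) P.nil))) (P.cons (P.cons (P.lf 10044 0 0) (P.cons (P.lf 1101 0 0) P.nil)) (P.cons (P.cons (P.lf 843 0 0) P.nil) P.nil)))))) 4884)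
 (EL.cons 11 (TM.mk (P.cons (P.cons (P.lf 0 203733534 0) (P.cons (P.lf 187538181 0 0) (P.cons (P.lf 25754157 0 0) (P.cons (P.lf 0 6654633 0) (P.cons (P.lf 0 607038 0) (P.cons (P.lf 23679 0 0) P.nil)))))) (P.cons (P.cons (P.lf 0 20052870 0) (P.cons (P.lf 19100376 0 0) (P.cons (P.lf 1599432 0 0) (P.cons (P.lf 0 390579 0) (P.cons (P.lf 0 32553 0) P.nil))))) (P.cons (P.cons (P.lf 0 488565 0) (P.cons (P.lf 505638 0 0) (P.cons (P.lf 0 19761 0) (P.cons (P.lf 7083 0 0) P.nil)))) (P.cons (P.cons (P.lf 47688 0 0) (P.cons (P.lf 0 45264 0) (P.cons (P.lf 0 4032 0) P.nil))) (P.cons (P.cons (P.lf 2100 0 0) (P.cons (P.lf 0 2085 0) P.nil)) (P.cons (P.cons (P.lf 0 42 0) P.nil) P.nil)))))) 9552)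
 EL.nil)))
noncomputable def S219_227_734_808_23 : EL := (EL.cons 4 (TM.mk (P.cons (P.cons (P.lf 0 676963842 0) (P.cons (P.lf 0 17130849 0) (P.cons (P.lf 8086806 0 0) (P.lf 385083 0 0)))) (P.cons (P.cons (P.lf 43391004 0 0) (P.cons (P.lf 3466134 0 0) (P.cons (P.lf 0 1636227 0) (P.lf 0 77913 0)))) (P.cons (P.cons (P.lf 9116169 0 0) (P.cons (P.lf 0 57702 0) (P.cons (P.lf 27240 0 0) (P.lf 1296 0 0)))) (P.cons (P.cons (P.lf 0 342264 0) (P.cons (P.lf 0 15246 0) (P.cons (P.lf 7197 0 0) P.nil))) (P.cons (P.cons (P.lf 0 29478 0) (P.cons (P.lf 21 0 0) P.nil)) (P.cons (P.cons (P.lf 393 0 0) P.nil) P.nil)))))) 1038)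
 (EL.cons 8 (TM.mk (P.cons (P.cons (P.lf 118821198 0 0) (P.cons (P.lf 3006819 0 0) (P.cons (P.lf 0 1419402 0) (P.lf 0 67590 0)))) (P.cons (P.cons (P.lf 0 22629591 0) (P.cons (P.lf 0 988302 0) (P.cons (P.lf 466536 0 0) (P.lf 22212 0 0)))) (P.cons (P.cons (P.lf 0 523524 0) (P.cons (P.lf 89886 0 0) (P.cons (P.lf 0 42432 0) (P.lf 0 2019 0)))) (P.cons (P.cons (P.lf 249660 0 0) (P.cons (P.lf 675 0 0) (P.cons (P.lf 0 318 0) P.nil))) (P.cons (P.cons (P.lf 0 3552 0) (P.cons (P.lf 0 300 0) P.nil)) (P.cons (P.cons (P.lf 0 597 0) P.nil) P.nil)))))) 777)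
 (EL.cons 11 (TM.mk (P.cons (P.cons (P.lf 0 151682700 0) (P.cons (P.lf 149565540 0 0) (P.cons (P.lf 4680048 0 0) (P.cons (P.lf 0 857598 0) (P.lf 0 30627 0))))) (P.cons (P.cons (P.lf 14581089 0 0) (P.cons (P.lf 0 14377569 0) (P.cons (P.lf 0 449886 0) (P.cons (P.lf 82440 0 0) (P.lf 2943 0 0))))) (P.cons (P.cons (P.lf 642516 0 0) (P.cons (P.lf 0 633549 0) (P.cons (P.lf 0 19824 0) (P.cons (P.lf 3630 0 0) P.nil)))) (P.cons (P.cons (P.lf 0 16479 0) (P.cons (P.lf 16251 0 0) (P.cons (P.lf 507 0 0) P.nil))) (P.cons (P.cons (P.lf 0 765 0) (P.cons (P.lf 753 0 0) P.nil)) (P.cons (P.cons (P.lf 6 0 0) P.nil) P.nil)))))) 468)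
 EL.nil)))
noncomputable def S219_227_734_808_24 : EL := (EL.cons 4 (TM.mk (P.cons (P.cons (P.lf 229650591 0 0) (P.cons (P.lf 20861550 0 0) (P.cons (P.lf 0 9467076 0) (P.cons (P.lf 0 828516 0) (P.cons (P.lf 67746 0 0) (P.cons (P.lf 8082 0 0) P.nil)))))) (P.cons (P.cons (P.lf 3256485 0 0) (P.cons (P.lf 0 1230705 0) (P.cons (P.lf 515418 0 0) (P.cons (P.lf 89547 0 0) (P.cons (P.lf 0 11658 0) P.nil))))) (P.cons (P.cons (P.lf 0 3821943 0) (P.cons (P.lf 0 314334 0) (P.cons (P.lf 146811 0 0) (P.cons (P.lf 8547 0 0) P.nil)))) (P.cons (P.cons (P.lf 0 191748 0) (P.cons (P.lf 5616 0 0) (P.cons (P.lf 0 2187 0) P.nil))) (P.cons (P.cons (P.lf 15018 0 0) (P.cons (P.lf 1833 0 0) P.nil)) (P.cons (P.cons (P.lf 1461 0 0) P.nil) P.nil)))))) 6441)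
 (EL.cons 8 (TM.mk (P.cons (P.cons (P.lf 0 40308441 0) (P.cons (P.lf 0 3661635 0) (P.cons (P.lf 1661667 0 0) (P.cons (P.lf 145422 0 0) (P.cons (P.lf 0 11889 0) (P.cons (P.lf 0 1416 0) P.nil)))))) (P.cons (P.cons (P.lf 4521564 0 0) (P.cons (P.lf 678675 0 0) (P.cons (P.lf 0 300423 0) (P.cons (P.lf 0 34092 0) (P.cons (P.lf 3549 0 0) P.nil))))) (P.cons (P.cons (P.lf 704298 0 0) (P.cons (P.lf 24357 0 0) (P.cons (P.lf 0 12738 0) (P.cons (P.lf 624 0 0) P.nil)))) (P.cons (P.cons (P.lf 0 49866 0) (P.cons (P.lf 0 7584 0) (P.cons (P.lf 3477 0 0) P.nil))) (P.cons (P.cons (P.lf 0 6237 0) (P.cons (P.lf 0 156 0) P.nil)) (P.cons (P.cons (P.lf 78 0 0) P.nil) P.nil)))))) 2139)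
 (EL.cons 11 (TM.mk (P.cons (P.cons (P.lf 51456252 0 0) (P.cons (P.lf 0 47365848 0) (P.cons (P.lf 0 6504633 0) (P.cons (P.lf 1680735 0 0) (P.cons (P.lf 153315 0 0) (P.cons (P.lf 0 5979 0) P.nil)))))) (P.cons (P.cons (P.lf 0 918606 0) (P.cons (P.lf 683547 0 0) (P.cons (P.lf 352389 0 0) (P.cons (P.lf 0 96786 0) (P.cons (P.lf 0 9603 0) P.nil))))) (P.cons (P.cons (P.lf 0 510420 0) (P.cons (P.lf 474564 0 0) (P.cons (P.lf 57639 0 0) (P.cons (P.lf 0 14724 0) P.nil)))) (P.cons (P.cons (P.lf 0 29244 0) (P.cons (P.lf 29046 0 0) (P.cons (P.lf 591 0 0) P.nil))) (P.cons (P.cons (P.lf 936 0 0) (P.cons (P.lf 0 855 0) P.nil)) (P.cons (P.cons (P.lf 87 0 0) P.nil) P.nil)))))) 4860)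
 EL.nil)))
noncomputable def S219_227_734_808_25 : EL := (EL.cons 4 (TM.mk (P.cons (P.cons (P.lf 170978343 0 0) (P.cons (P.lf 4326675 0 0) (P.cons (P.lf 0 2042454 0) (P.lf 0 97257 0)))) (P.cons (P.cons (P.lf 0 30840330 0) (P.cons (P.lf 0 1378530 0) (P.cons (P.lf 650751 0 0) (P.lf 30987 0 0)))) (P.cons (P.cons (P.lf 0 1177311 0) (P.cons (P.lf 112590 0 0) (P.cons (P.lf 0 53148 0) (P.lf 0 2529 0)))) (P.cons (P.cons (P.lf 368940 0 0) (P.cons (P.lf 3051 0 0) (P.cons (P.lf 0 1440 0) P.nil))) (P.cons (P.cons (P.lf 0 858 0) (P.cons (P.lf 0 489 0) P.nil)) (P.cons (P.cons (P.lf 0 1113 0) P.nil) P.nil)))))) 789)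
 (EL.cons 8 (TM.mk (P.cons (P.cons (P.lf 0 30010245 0) (P.cons (P.lf 0 759420 0) (P.cons (P.lf 358491 0 0) (P.lf 17070 0 0)))) (P.cons (P.cons (P.lf 9205041 0 0) (P.cons (P.lf 337914 0 0) (P.cons (P.lf 0 159516 0) (P.lf 0 7593 0)))) (P.cons (P.cons (P.lf 0 506178 0) (P.cons (P.lf 0 51063 0) (P.cons (P.lf 24105 0 0) (P.lf 1146 0 0)))) (P.cons (P.cons (P.lf 0 84330 0) (P.cons (P.lf 2226 0 0) (P.cons (P.lf 0 1050 0) P.nil))) (P.cons (P.cons (P.lf 8274 0 0) (P.cons (P.lf 123 0 0) P.nil)) (P.cons (P.cons (P.lf 108 0 0) P.nil) P.nil)))))) 417)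
 (EL.cons 11 (TM.mk (P.cons (P.cons (P.lf 38309958 0 0) (P.cons (P.lf 0 37775235 0) (P.cons (P.lf 0 1182021 0) (P.cons (P.lf 216600 0 0) (P.lf 7734 0 0))))) (P.cons (P.cons (P.lf 0 8137344 0) (P.cons (P.lf 8023764 0 0) (P.cons (P.lf 251070 0 0) (P.cons (P.lf 0 46005 0) (P.lf 0 1641 0))))) (P.cons (P.cons (P.lf 232512 0 0) (P.cons (P.lf 0 229266 0) (P.cons (P.lf 0 7173 0) (P.cons (P.lf 1314 0 0) P.nil)))) (P.cons (P.cons (P.lf 27411 0 0) (P.cons (P.lf 0 27027 0) (P.cons (P.lf 0 843 0) P.nil))) (P.cons (P.cons (P.lf 0 243 0) (P.cons (P.lf 240 0 0) P.nil)) (P.cons (P.cons (P.lf 0 33 0) P.nil) P.nil)))))) 468)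
 EL.nil)))
noncomputable def S219_227_734_808_26 : EL := (EL.cons 4 (TM.mk (P.cons (P.cons (P.lf 0 58002030 0) (P.cons (P.lf 0 5268927 0) (P.cons (P.lf 2391066 0 0) (P.cons (P.lf 209253 0 0) (P.cons (P.lf 0 17109 0) (P.cons (P.lf 0 2040 0) P.nil)))))) (P.cons (P.cons (P.lf 5921946 0 0) (P.cons (P.lf 923499 0 0) (P.cons (P.lf 0 408207 0) (P.cons (P.lf 0 46947 0) (P.cons (P.lf 4932 0 0) P.nil))))) (P.cons (P.cons (P.lf 1111539 0 0) (P.cons (P.lf 47844 0 0) (P.cons (P.lf 0 24027 0) (P.cons (P.lf 288 0 0) P.nil)))) (P.cons (P.cons (P.lf 0 64860 0) (P.cons (P.lf 0 11079 0) (P.cons (P.lf 5049 0 0) P.nil))) (P.cons (P.cons (P.lf 0 10314 0) (P.cons (P.lf 0 360 0) P.nil)) (P.cons (P.cons (P.lf 57 0 0) P.nil) P.nil)))))) 2745)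
 (EL.cons 8 (TM.mk (P.cons (P.cons (P.lf 10180557 0 0) (P.cons (P.lf 924804 0 0) (P.cons (P.lf 0 419679 0) (P.cons (P.lf 0 36726 0) (P.cons (P.lf 3003 0 0) (P.cons (P.lf 357 0 0) P.nil)))))) (P.cons (P.cons (P.lf 0 2325780 0) (P.cons (P.lf 0 278946 0) (P.cons (P.lf 124677 0 0) (P.cons (P.lf 12879 0 0) (P.cons (P.lf 0 1245 0) P.nil))))) (P.cons (P.cons (P.lf 0 53973 0) (P.cons (P.lf 12972 0 0) (P.cons (P.lf 0 5238 0) (P.cons (P.lf 0 1125 0) P.nil)))) (P.cons (P.cons (P.lf 34584 0 0) (P.cons (P.lf 2808 0 0) (P.cons (P.lf 0 1329 0) P.nil))) (P.cons (P.cons (P.lf 234 0 0) (P.cons (P.lf 0 180 0) P.nil)) (P.cons (P.cons (P.lf 0 219 0) P.nil) P.nil)))))) 897)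
 (EL.cons 11 (TM.mk (P.cons (P.cons (P.lf 0 12996120 0) (P.cons (P.lf 11963022 0 0) (P.cons (P.lf 1642851 0 0) (P.cons (P.lf 0 424497 0) (P.cons (P.lf 0 38721 0) (P.cons (P.lf 1509 0 0) P.nil)))))) (P.cons (P.cons (P.lf 1743186 0 0) (P.cons (P.lf 0 1563690 0) (P.cons (P.lf 0 280029 0) (P.cons (P.lf 73803 0 0) (P.cons (P.lf 6927 0 0) P.nil))))) (P.cons (P.cons (P.lf 113274 0 0) (P.cons (P.lf 0 110223 0) (P.cons (P.lf 0 5640 0) (P.cons (P.lf 1245 0 0) P.nil)))) (P.cons (P.cons (P.lf 0 8202 0) (P.cons (P.lf 7113 0 0) (P.cons (P.lf 1668 0 0) P.nil))) (P.cons (P.cons (P.lf 0 1206 0) (P.cons (P.lf 1173 0 0) P.nil)) (P.cons (P.cons (P.lf 0 0 0) P.nil) P.nil)))))) 2184)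
 EL.nil)))
noncomputable def S219_227_734_808_27 : EL := (EL.cons 13 (TM.mk (P.lf 0 4294967296 0) 0)
 EL.nil)
noncomputable def S219_227_734_808_28 : EL := (EL.cons 13 (TM.mk (P.cons (P.cons (P.lf 1457008082 0 0) (P.cons (P.lf 95484996 0 0) (P.cons (P.lf 0 45074760 0) (P.lf 0 2146416 0)))) (P.cons (P.cons (P.lf 114049741 0 0) (P.cons (P.lf 2886072 0 0) (P.cons (P.lf 0 1362400 0) (P.lf 0 64872 0)))) (P.cons (P.cons (P.lf 2682479 0 0) (P.cons (P.lf 0 131596 0) (P.cons (P.lf 62120 0 0) (P.lf 2956 0 0)))) (P.cons (P.cons (P.lf 0 245434 0) (P.cons (P.lf 0 4792 0) (P.cons (P.lf 2260 0 0) P.nil))) (P.cons (P.cons (P.lf 0 5428 0) (P.cons (P.lf 76 0 0) P.nil)) (P.cons (P.cons (P.lf 153 0 0) P.nil) P.nil)))))) 625)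
 EL.nil)
noncomputable def S219_227_734_808_29 : EL := (EL.cons 13 (TM.mk (P.cons (P.cons (P.lf 0 494269782 0) (P.cons (P.lf 0 64783920 0) (P.cons (P.lf 28459167 0 0) (P.cons (P.lf 3460472 0 0) (P.cons (P.lf 0 377612 0) (P.cons (P.lf 0 45052 0) P.nil)))))) (P.cons (P.cons (P.lf 0 77379585 0) (P.cons (P.lf 0 7029189 0) (P.cons (P.lf 3189880 0 0) (P.cons (P.lf 279161 0 0) (P.cons (P.lf 0 22827 0) P.nil))))) (P.cons (P.cons (P.lf 0 4848495 0) (P.cons (P.lf 0 183263 0) (P.cons (P.lf 90424 0 0) (P.cons (P.lf 427 0 0) P.nil)))) (P.cons (P.cons (P.lf 24057 0 0) (P.cons (P.lf 17547 0 0) (P.cons (P.lf 0 7892 0) P.nil))) (P.cons (P.cons (P.lf 15042 0 0) (P.cons (P.lf 938 0 0) P.nil)) (P.cons (P.cons (P.lf 491 0 0) P.nil) P.nil)))))) 8197)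
 EL.nil)
noncomputable def S219_227_734_808_30 : EL := (EL.cons 13 (TM.mk (P.cons (P.lf 1084764580 0 0) (P.cons (P.lf 0 126135536 0) (P.cons (P.lf 0 946524 0) (P.cons (P.lf 33040 0 0) (P.cons (P.lf 444 0 0) (P.cons (P.lf 0 4 0) P.nil)))))) 40)
 EL.nil)
noncomputable def S219_227_734_808_31 : EL := (EL.cons 13 (TM.mk (P.cons (P.cons (P.lf 0 367991337 0) (P.cons (P.lf 0 24116305 0) (P.cons (P.lf 11384371 0 0) (P.lf 542112 0 0)))) (P.cons (P.cons (P.lf 13984594 0 0) (P.cons (P.lf 2075299 0 0) (P.cons (P.lf 0 979668 0) (P.lf 0 46651 0)))) (P.cons (P.cons (P.lf 2993028 0 0) (P.cons (P.lf 139038 0 0) (P.cons (P.lf 0 65634 0) (P.lf 0 3124 0)))) (P.cons (P.cons (P.lf 154693 0 0) (P.cons (P.lf 0 2752 0) (P.cons (P.lf 1300 0 0) P.nil))) (P.cons (P.cons (P.lf 0 6273 0) (P.cons (P.lf 0 221 0) P.nil)) (P.cons (P.cons (P.lf 0 283 0) P.nil) P.nil)))))) 439)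
 EL.nil)
noncomputable def S219_227_734_808_32 : EL := (EL.cons 13 (TM.mk (P.cons (P.cons (P.lf 124835956 0 0) (P.cons (P.lf 16362243 0 0) (P.cons (P.lf 0 7187830 0) (P.cons (P.lf 0 873999 0) (P.cons (P.lf 95372 0 0) (P.cons (P.lf 11378 0 0) P.nil)))))) (P.cons (P.cons (P.lf 5027663 0 0) (P.cons (P.lf 0 127251 0) (P.cons (P.lf 30138 0 0) (P.cons (P.lf 31121 0 0) (P.cons (P.lf 0 5324 0) P.nil))))) (P.cons (P.cons (P.lf 0 1156860 0) (P.cons (P.lf 0 174425 0) (P.cons (P.lf 77114 0 0) (P.cons (P.lf 8853 0 0) P.nil)))) (P.cons (P.cons (P.lf 0 161718 0) (P.cons (P.lf 0 10864 0) (P.cons (P.lf 5132 0 0) P.nil))) (P.cons (P.cons (P.lf 0 3514 0) (P.cons (P.lf 298 0 0) P.nil)) (P.cons (P.cons (P.lf 367 0 0) P.nil) P.nil)))))) 4874)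
 EL.nil)
noncomputable def S219_227_734_808_33 : EL := (EL.cons 14 (TM.mk (P.lf 8589934592 0 0) 0)
 EL.nil)
noncomputable def S219_227_734_808_34 : EL := (EL.cons 14 (TM.mk (P.cons (P.cons (P.lf 0 2914016164 0) (P.cons (P.lf 0 190969992 0) (P.cons (P.lf 90149520 0 0) (P.lf 4292832 0 0)))) (P.cons (P.cons (P.lf 0 228099482 0) (P.cons (P.lf 0 5772144 0) (P.cons (P.lf 2724800 0 0) (P.lf 129744 0 0)))) (P.cons (P.cons (P.lf 0 5364958 0) (P.cons (P.lf 263192 0 0) (P.cons (P.lf 0 124240 0) (P.lf 0 5912 0)))) (P.cons (P.cons (P.lf 490868 0 0) (P.cons (P.lf 9584 0 0) (P.cons (P.lf 0 4520 0) P.nil))) (P.cons (P.cons (P.lf 10856 0 0) (P.cons (P.lf 0 152 0) P.nil)) (P.cons (P.cons (P.lf 0 306 0) P.nil) P.nil)))))) 1250)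
 EL.nil)
noncomputable def S219_227_734_808_35 : EL := (EL.cons 14 (TM.mk (P.cons (P.cons (P.lf 988539564 0 0) (P.cons (P.lf 129567840 0 0) (P.cons (P.lf 0 56918334 0) (P.cons (P.lf 0 6920944 0) (P.cons (P.lf 755224 0 0) (P.cons (P.lf 90104 0 0) P.nil)))))) (P.cons (P.cons (P.lf 154759170 0 0) (P.cons (P.lf 14058378 0 0) (P.cons (P.lf 0 6379760 0) (P.cons (P.lf 0 558322 0) (P.cons (P.lf 45654 0 0) P.nil))))) (P.cons (P.cons (P.lf 9696990 0 0) (P.cons (P.lf 366526 0 0) (P.cons (P.lf 0 180848 0) (P.cons (P.lf 0 854 0) P.nil)))) (P.cons (P.cons (P.lf 0 48114 0) (P.cons (P.lf 0 35094 0) (P.cons (P.lf 15784 0 0) P.nil))) (P.cons (P.cons (P.lf 0 30084 0) (P.cons (P.lf 0 1876 0) P.nil)) (P.cons (P.cons (P.lf 0 982 0) P.nil) P.nil)))))) 16394)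
 EL.nil)
noncomputable def S219_227_734_808_36 : EL := (EL.cons 14 (TM.mk (P.cons (P.lf 0 2169529160 0) (P.cons (P.lf 252271072 0 0) (P.cons (P.lf 1893048 0 0) (P.cons (P.lf 0 66080 0) (P.cons (P.lf 0 888 0) (P.cons (P.lf 8 0 0) P.nil)))))) 80)
 EL.nil)
noncomputable def S219_227_734_808_37 : EL := (EL.cons 14 (TM.mk (P.cons (P.cons (P.lf 735982674 0 0) (P.cons (P.lf 48232610 0 0) (P.cons (P.lf 0 22768742 0) (P.lf 0 1084224 0)))) (P.cons (P.cons (P.lf 0 27969188 0) (P.cons (P.lf 0 4150598 0) (P.cons (P.lf 1959336 0 0) (P.lf 93302 0 0)))) (P.cons (P.cons (P.lf 0 5986056 0) (P.cons (P.lf 0 278076 0) (P.cons (P.lf 131268 0 0) (P.lf 6248 0 0)))) (P.cons (P.cons (P.lf 0 309386 0) (P.cons (P.lf 5504 0 0) (P.cons (P.lf 0 2600 0) P.nil))) (P.cons (P.cons (P.lf 12546 0 0) (P.cons (P.lf 442 0 0) P.nil)) (P.cons (P.cons (P.lf 566 0 0) P.nil) P.nil)))))) 878)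
 EL.nil)
noncomputable def S219_227_734_808_38 : EL := (EL.cons 14 (TM.mk (P.cons (P.cons (P.lf 0 249671912 0) (P.cons (P.lf 0 32724486 0) (P.cons (P.lf 14375660 0 0) (P.cons (P.lf 1747998 0 0) (P.cons (P.lf 0 190744 0) (P.cons (P.lf 0 22756 0) P.nil)))))) (P.cons (P.cons (P.lf 0 10055326 0) (P.cons (P.lf 254502 0 0) (P.cons (P.lf 0 60276 0) (P.cons (P.lf 0 62242 0) (P.cons (P.lf 10648 0 0) P.nil))))) (P.cons (P.cons (P.lf 2313720 0 0) (P.cons (P.lf 348850 0 0) (P.cons (P.lf 0 154228 0) (P.cons (P.lf 0 17706 0) P.nil)))) (P.cons (P.cons (P.lf 323436 0 0) (P.cons (P.lf 21728 0 0) (P.cons (P.lf 0 10264 0) P.nil))) (P.cons (P.cons (P.lf 7028 0 0) (P.cons (P.lf 0 596 0) P.nil)) (P.cons (P.cons (P.lf 0 734 0) P.nil) P.nil)))))) 9748)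
 EL.nil)
noncomputable def S219_227_734_808_39 : EL := (EL.cons 14 (TM.mk (P.cons (P.lf 547950246 0 0) (P.cons (P.lf 0 127430410 0) (P.cons (P.lf 6452510 0 0) (P.cons (P.lf 144570 0 0) (P.cons (P.lf 0 3014 0) (P.cons (P.lf 0 84 0) P.nil)))))) 60)
 EL.nil)
noncomputable def S219_227_734_808_40 : EL := (EL.cons 14 (TM.mk (P.cons (P.cons (P.lf 0 185884520 0) (P.cons (P.lf 0 12181938 0) (P.cons (P.lf 5750620 0 0) (P.lf 273838 0 0)))) (P.cons (P.cons (P.lf 28678576 0 0) (P.cons (P.lf 2464806 0 0) (P.cons (P.lf 0 1163540 0) (P.lf 0 55406 0)))) (P.cons (P.cons (P.lf 852666 0 0) (P.cons (P.lf 0 41032 0) (P.cons (P.lf 19370 0 0) (P.lf 922 0 0)))) (P.cons (P.cons (P.lf 0 109484 0) (P.cons (P.lf 0 10842 0) (P.cons (P.lf 5118 0 0) P.nil))) (P.cons (P.cons (P.lf 0 13434 0) (P.cons (P.lf 14 0 0) P.nil)) (P.cons (P.cons (P.lf 206 0 0) P.nil) P.nil)))))) 716)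
 EL.nil)
noncomputable def S219_227_734_808_41 : EL := (EL.cons 14 (TM.mk (P.cons (P.cons (P.lf 63058744 0 0) (P.cons (P.lf 8265106 0 0) (P.cons (P.lf 0 3630808 0) (P.cons (P.lf 0 441484 0) (P.cons (P.lf 48174 0 0) (P.cons (P.lf 5746 0 0) P.nil)))))) (P.cons (P.cons (P.lf 0 4792780 0) (P.cons (P.lf 0 1025338 0) (P.cons (P.lf 437410 0 0) (P.cons (P.lf 67054 0 0) (P.cons (P.lf 0 8290 0) P.nil))))) (P.cons (P.cons (P.lf 0 934698 0) (P.cons (P.lf 0 87844 0) (P.cons (P.lf 40350 0 0) (P.cons (P.lf 3028 0 0) P.nil)))) (P.cons (P.cons (P.lf 0 14034 0) (P.cons (P.lf 5064 0 0) (P.cons (P.lf 0 2060 0) P.nil))) (P.cons (P.cons (P.lf 8336 0 0) (P.cons (P.lf 866 0 0) P.nil)) (P.cons (P.cons (P.lf 446 0 0) P.nil) P.nil)))))) 5242)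
 EL.nil)
noncomputable def S219_227_734_808_42 : EL := (EL.cons 14 (TM.mk (P.cons (P.lf 0 138393840 0) (P.cons (P.lf 48276966 0 0) (P.cons (P.lf 0 5251334 0) (P.cons (P.lf 120686 0 0) (P.cons (P.lf 7352 0 0) (P.cons (P.lf 0 70 0) P.nil)))))) 42)
 EL.nil)
noncomputable def S219_227_734_808_43 : EL := (EL.cons 14 (TM.mk (P.cons (P.cons (P.lf 46948190 0 0) (P.cons (P.lf 3076748 0 0) (P.cons (P.lf 0 1452412 0) (P.lf 0 69162 0)))) (P.cons (P.cons (P.lf 0 12702342 0) (P.cons (P.lf 0 980288 0) (P.cons (P.lf 462756 0 0) (P.lf 22036 0 0)))) (P.cons (P.cons (P.lf 585918 0 0) (P.cons (P.lf 80064 0 0) (P.cons (P.lf 0 37796 0) (P.lf 0 1798 0)))) (P.cons (P.cons (P.lf 60442 0 0) (P.cons (P.lf 2170 0 0) (P.cons (P.lf 0 1024 0) P.nil))) (P.cons (P.cons (P.lf 164 0 0) (P.cons (P.lf 0 348 0) P.nil)) (P.cons (P.cons (P.lf 0 480 0) P.nil) P.nil)))))) 528)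
 EL.nil)
noncomputable def S219_227_734_808_44 : EL := (EL.cons 14 (TM.mk (P.cons (P.cons (P.lf 0 15926522 0) (P.cons (P.lf 0 2087488 0) (P.cons (P.lf 917020 0 0) (P.cons (P.lf 111504 0 0) (P.cons (P.lf 0 12166 0) (P.cons (P.lf 0 1450 0) P.nil)))))) (P.cons (P.cons (P.lf 3062418 0 0) (P.cons (P.lf 501696 0 0) (P.cons (P.lf 0 217104 0) (P.cons (P.lf 0 29900 0) (P.cons (P.lf 3508 0 0) P.nil))))) (P.cons (P.cons (P.lf 109214 0 0) (P.cons (P.lf 0 6104 0) (P.cons (P.lf 1854 0 0) (P.cons (P.lf 1106 0 0) P.nil)))) (P.cons (P.cons (P.lf 0 25446 0) (P.cons (P.lf 0 4148 0) (P.cons (P.lf 1828 0 0) P.nil))) (P.cons (P.cons (P.lf 0 2692 0) (P.cons (P.lf 0 82 0) P.nil)) (P.cons (P.cons (P.lf 136 0 0) P.nil) P.nil)))))) 2640)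
 EL.nil)
noncomputable def S219_227_734_808_45 : EL := (EL.cons 14 (TM.mk (P.cons (P.cons (P.lf 0 335348334 0) (P.cons (P.lf 0 65931138 0) (P.cons (P.lf 26802734 0 0) (P.cons (P.lf 5467042 0 0) (P.cons (P.lf 0 634926 0) (P.cons (P.lf 0 148434 0) P.nil)))))) (P.cons (P.cons (P.lf 0 78749852 0) (P.cons (P.lf 0 12314534 0) (P.cons (P.lf 5213798 0 0) (P.cons (P.lf 834176 0 0) (P.cons (P.lf 0 94504 0) P.nil))))) (P.cons (P.cons (P.lf 0 8016492 0) (P.cons (P.lf 0 867858 0) (P.cons (P.lf 389244 0 0) (P.cons (P.lf 38936 0 0) P.nil)))) (P.cons (P.cons (P.lf 0 281340 0) (P.cons (P.lf 1194 0 0) (P.cons (P.lf 1100 0 0) P.nil))) (P.cons (P.cons (P.lf 15518 0 0) (P.cons (P.lf 3458 0 0) P.nil)) (P.cons (P.cons (P.lf 1876 0 0) P.nil) P.nil)))))) 52120)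
 EL.nil)
noncomputable def S219_227_734_808_46 : EL := (EL.cons 15 (TM.mk (P.lf 4294967296 0 0) 0)
 EL.nil)
noncomputable def S219_227_734_808_47 : EL := (EL.cons 15 (TM.mk (P.cons (P.cons (P.lf 0 1457008082 0) (P.cons (P.lf 0 95484996 0) (P.cons (P.lf 45074760 0 0) (P.lf 2146416 0 0)))) (P.cons (P.cons (P.lf 0 114049741 0) (P.cons (P.lf 0 2886072 0) (P.cons (P.lf 1362400 0 0) (P.lf 64872 0 0)))) (P.cons (P.cons (P.lf 0 2682479 0) (P.cons (P.lf 131596 0 0) (P.cons (P.lf 0 62120 0) (P.lf 0 2956 0)))) (P.cons (P.cons (P.lf 245434 0 0) (P.cons (P.lf 4792 0 0) (P.cons (P.lf 0 2260 0) P.nil))) (P.cons (P.cons (P.lf 5428 0 0) (P.cons (P.lf 0 76 0) P.nil)) (P.cons (P.cons (P.lf 0 153 0) P.nil) P.nil)))))) 625)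
 EL.nil)
noncomputable def S219_227_734_808_48 : EL := (EL.cons 15 (TM.mk (P.cons (P.cons (P.lf 494269782 0 0) (P.cons (P.lf 64783920 0 0) (P.cons (P.lf 0 28459167 0) (P.cons (P.lf 0 3460472 0) (P.cons (P.lf 377612 0 0) (P.cons (P.lf 45052 0 0) P.nil)))))) (P.cons (P.cons (P.lf 77379585 0 0) (P.cons (P.lf 7029189 0 0) (P.cons (P.lf 0 3189880 0) (P.cons (P.lf 0 279161 0) (P.cons (P.lf 22827 0 0) P.nil))))) (P.cons (P.cons (P.lf 4848495 0 0) (P.cons (P.lf 183263 0 0) (P.cons (P.lf 0 90424 0) (P.cons (P.lf 0 427 0) P.nil)))) (P.cons (P.cons (P.lf 0 24057 0) (P.cons (P.lf 0 17547 0) (P.cons (P.lf 7892 0 0) P.nil))) (P.cons (P.cons (P.lf 0 15042 0) (P.cons (P.lf 0 938 0) P.nil)) (P.cons (P.cons (P.lf 0 491 0) P.nil) P.nil)))))) 8197)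
 EL.nil)
noncomputable def S219_227_734_808 : SL := (SL.cons S219_227_734_808_0 (SL.cons S219_227_734_808_1 (SL.cons S219_227_734_808_2 (SL.cons S219_227_734_808_3 (SL.cons S219_227_734_808_4 (SL.cons S219_227_734_808_5 (SL.cons S219_227_734_808_6 (SL.cons S219_227_734_808_7 (SL.cons S219_227_734_808_8 (SL.cons S219_227_734_808_9 (SL.cons S219_227_734_808_10 (SL.cons S219_227_734_808_11 (SL.cons S219_227_734_808_12 (SL.cons S219_227_734_808_13 (SL.cons S219_227_734_808_14 (SL.cons S219_227_734_808_15 (SL.cons S219_227_734_808_16 (SL.cons S219_227_734_808_17 (SL.cons S219_227_734_808_18 (SL.cons S219_227_734_808_19 (SL.cons S219_227_734_808_20 (SL.cons S219_227_734_808_21 (SL.cons S219_227_734_808_22 (SL.cons S219_227_734_808_23 (SL.cons S219_227_734_808_24 (SL.cons S219_227_734_808_25 (SL.cons S219_227_734_808_26 (SL.cons S219_227_734_808_27 (SL.cons S219_227_734_808_28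 (SL.cons S219_227_734_808_29 (SL.cons S219_227_734_808_30 (SL.cons S219_227_734_808_31 (SL.cons S219_227_734_808_32 (SL.cons S219_227_734_808_33 (SL.cons S219_227_734_808_34 (SL.cons S219_227_734_808_35 (SL.cons S219_227_734_808_36 (SL.cons S219_227_734_808_37 (SL.cons S219_227_734_808_38 (SL.cons S219_227_734_808_39 (SL.cons S219_227_734_808_40 (SL.cons S219_227_734_808_41 (SL.cons S219_227_734_808_42 (SL.cons S219_227_734_808_43 (SL.cons S219_227_734_808_44 (SL.cons S219_227_734_808_45 (SL.cons S219_227_734_808_46 (SL.cons S219_227_734_808_47 (SL.cons S219_227_734_808_48 SL.nil)))))))))))))))))))))))))))))))))))))))))))))))))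
noncomputable def S227_230_660_808_0 : EL := (EL.cons 0 (TM.mk (P.cons (P.lf 8117076636 0 0) (P.cons (P.lf 35891978 0 0) (P.cons (P.lf 0 866707 0) (P.cons (P.lf 0 5853 0) (P.cons (P.lf 65 0 0) (P.cons (P.lf 0 0 0) P.nil)))))) 47)
 (EL.cons 1 (TM.mk (P.cons (P.lf 0 828522922 0) (P.cons (P.lf 41298954 0 0) (P.cons (P.lf 308448 0 0) (P.cons (P.lf 0 4710 0) (P.cons (P.lf 0 30 0) (P.cons (P.lf 0 0 0) P.nil)))))) 72)
 (EL.cons 5 (TM.mk (P.cons (P.lf 4415372712 0 0) (P.cons (P.lf 0 12761590 0) (P.cons (P.lf 308160 0 0) (P.cons (P.lf 2080 0 0) (P.cons (P.lf 0 18 0) (P.cons (P.lf 0 0 0) P.nil)))))) 111)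
 (EL.cons 9 (TM.mk (P.lf 6442450944 0 0) 2)
 EL.nil))))
noncomputable def S227_230_660_808_1 : EL := (EL.cons 0 (TM.mk (P.cons (P.cons (P.lf 0 1693602371 0) (P.cons (P.lf 0 615557954 0) (P.cons (P.lf 265435539 0 0) (P.lf 29492839 0 0)))) (P.cons (P.cons (P.lf 0 138065663 0) (P.cons (P.lf 0 18257974 0) (P.cons (P.lf 7873048 0 0) (P.lf 874774 0 0)))) (P.cons (P.cons (P.lf 0 2545979 0) (P.cons (P.lf 314204 0 0) (P.cons (P.lf 0 135484 0) (P.lf 0 15048 0)))) (P.cons (P.cons (P.lf 81951 0 0) (P.cons (P.lf 8913 0 0) (P.cons (P.lf 0 3830 0) P.nil))) (P.cons (P.cons (P.lf 1322 0 0) (P.cons (P.lf 0 44 0) P.nil)) (P.cons (P.cons (P.lf 0 13 0) P.nil) P.nil)))))) 1891)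
 (EL.cons 1 (TM.mk (P.cons (P.cons (P.lf 1542056512 0 0) (P.cons (P.lf 173150604 0 0) (P.cons (P.lf 0 74664493 0) (P.lf 0 8296049 0)))) (P.cons (P.cons (P.lf 23965130 0 0) (P.cons (P.lf 0 6277325 0) (P.cons (P.lf 2706850 0 0) (P.lf 300760 0 0)))) (P.cons (P.cons (P.lf 0 1891405 0) (P.cons (P.lf 0 233773 0) (P.cons (P.lf 100801 0 0) (P.lf 11192 0 0)))) (P.cons (P.cons (P.lf 0 36787 0) (P.cons (P.lf 2072 0 0) (P.cons (P.lf 0 893 0) P.nil))) (P.cons (P.cons (P.lf 604 0 0) (P.cons (P.lf 70 0 0) P.nil)) (P.cons (P.cons (P.lf 4 0 0) P.nil) P.nil)))))) 1155)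
 (EL.cons 5 (TM.mk (P.cons (P.cons (P.lf 0 1904401932 0) (P.cons (P.lf 0 414054746 0) (P.cons (P.lf 178545078 0 0) (P.lf 19838344 0 0)))) (P.cons (P.cons (P.lf 0 25089594 0) (P.cons (P.lf 514846 0 0) (P.cons (P.lf 0 222008 0) (P.lf 0 24664 0)))) (P.cons (P.cons (P.lf 467527 0 0) (P.cons (P.lf 23206 0 0) (P.cons (P.lf 0 10010 0) (P.lf 0 1120 0)))) (P.cons (P.cons (P.lf 0 5320 0) (P.cons (P.lf 0 1726 0) (P.cons (P.lf 738 0 0) P.nil))) (P.cons (P.cons (P.lf 0 318 0) (P.cons (P.lf 0 2 0) P.nil)) (P.cons (P.cons (P.lf 0 0 0) P.nil) P.nil)))))) 2504)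
 (EL.cons 9 (TM.mk (P.cons (P.cons (P.lf 0 2211680872 0) (P.cons (P.lf 0 558458640 0) (P.cons (P.lf 240813666 0 0) (P.lf 26757072 0 0)))) (P.cons (P.cons (P.lf 0 65452582 0) (P.cons (P.lf 0 5273706 0) (P.cons (P.lf 2274084 0 0) (P.lf 252672 0 0)))) (P.cons (P.cons (P.lf 0 386212 0) (P.cons (P.lf 119040 0 0) (P.cons (P.lf 0 51330 0) (P.lf 0 5700 0)))) (P.cons (P.cons (P.lf 21006 0 0) (P.cons (P.lf 1266 0 0) (P.cons (P.lf 0 540 0) P.nil))) (P.cons (P.cons (P.lf 132 0 0) (P.cons (P.lf 0 6 0) P.nil)) (P.cons (P.cons (P.lf 0 0 0) P.nil) P.nil)))))) 736)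
 (EL.cons 2 (TM.mk (P.cons (P.cons (P.lf 238473087 0 0) (P.cons (P.lf 0 222159740 0) (P.cons (P.lf 0 22800813 0) (P.cons (P.lf 4741934 0 0) (P.lf 395159 0 0))))) (P.cons (P.cons (P.lf 0 11136383 0) (P.cons (P.lf 10374570 0 0) (P.cons (P.lf 1064767 0 0) (P.cons (P.lf 0 221442 0) (P.lf 0 18452 0))))) (P.cons (P.cons (P.lf 0 145504 0) (P.cons (P.lf 135551 0 0) (P.cons (P.lf 13910 0 0) (P.cons (P.lf 0 2891 0) P.nil)))) (P.cons (P.cons (P.lf 1977 0 0) (P.cons (P.lf 0 1842 0) (P.cons (P.lf 0 188 0) P.nil))) (P.cons (P.cons (P.lf 22 0 0) (P.cons (P.lf 0 19 0) P.nil)) (P.cons (P.cons (P.lf 0 0 0) P.nil) P.nil)))))) 451)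
 (EL.cons 6 (TM.mk (P.cons (P.cons (P.lf 583452297 0 0) (P.cons (P.lf 0 543539790 0) (P.cons (P.lf 0 55784862 0) (P.cons (P.lf 11601699 0 0) (P.lf 966807 0 0))))) (P.cons (P.cons (P.lf 5509734 0 0) (P.cons (P.lf 0 5132829 0) (P.cons (P.lf 0 526794 0) (P.cons (P.lf 109557 0 0) (P.lf 9129 0 0))))) (P.cons (P.cons (P.lf 0 124371 0) (P.cons (P.lf 115866 0 0) (P.cons (P.lf 11889 0 0) (P.cons (P.lf 0 2472 0) P.nil)))) (P.cons (P.cons (P.lf 0 1323 0) (P.cons (P.lf 1233 0 0) (P.cons (P.lf 126 0 0) P.nil))) (P.cons (P.cons (P.lf 9 0 0) (P.cons (P.lf 0 9 0) P.nil)) (P.cons (P.cons (P.lf 0 0 0) P.nil) P.nil)))))) 477)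
 EL.nil))))))
noncomputable def S227_230_660_808_2 : EL := (EL.cons 0 (TM.mk (P.cons (P.cons (P.lf 206194470 0 0) (P.cons (P.lf 233152525 0 0) (P.cons (P.lf 0 54812637 0) (P.cons (P.lf 0 50605475 0) (P.cons (P.lf 4120700 0 0) (P.cons (P.lf 1889414 0 0) P.nil)))))) (P.cons (P.cons (P.lf 68357036 0 0) (P.cons (P.lf 30757107 0 0) (P.cons (P.lf 0 10511323 0) (P.cons (P.lf 0 3846569 0) (P.cons (P.lf 247950 0 0) P.nil))))) (P.cons (P.cons (P.lf 3436344 0 0) (P.cons (P.lf 685691 0 0) (P.cons (P.lf 0 321023 0) (P.cons (P.lf 0 10983 0) P.nil)))) (P.cons (P.cons (P.lf 10807 0 0) (P.cons (P.lf 0 20343 0) (P.cons (P.lf 6569 0 0) P.nil))) (P.cons (P.cons (P.lf 0 2413 0) (P.cons (P.lf 0 656 0) P.nil)) (P.cons (P.cons (P.lf 0 30 0) P.nil) P.nil)))))) 347925)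
 (EL.cons 1 (TM.mk (P.cons (P.cons (P.lf 0 961125622 0) (P.cons (P.lf 0 336917150 0) (P.cons (P.lf 121489277 0 0) (P.cons (P.lf 36662284 0 0) (P.cons (P.lf 0 2144202 0) (P.cons (P.lf 0 983146 0) P.nil)))))) (P.cons (P.cons (P.lf 0 46875489 0) (P.cons (P.lf 0 6420704 0) (P.cons (P.lf 3380743 0 0) (P.cons (P.lf 0 220222 0) (P.cons (P.lf 55156 0 0) P.nil))))) (P.cons (P.cons (P.lf 421979 0 0) (P.cons (P.lf 510523 0 0) (P.cons (P.lf 0 173212 0) (P.cons (P.lf 0 64917 0) P.nil)))) (P.cons (P.cons (P.lf 62464 0 0) (P.cons (P.lf 14328 0 0) (P.cons (P.lf 0 6266 0) P.nil))) (P.cons (P.cons (P.lf 736 0 0) (P.cons (P.lf 0 161 0) P.nil)) (P.cons (P.cons (P.lf 0 7 0) P.nil) P.nil)))))) 150604)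
 (EL.cons 5 (TM.mk (P.cons (P.cons (P.lf 787187582 0 0) (P.cons (P.lf 351661595 0 0) (P.cons (P.lf 0 113034213 0) (P.cons (P.lf 0 50143815 0) (P.cons (P.lf 3479121 0 0) (P.cons (P.lf 1595220 0 0) P.nil)))))) (P.cons (P.cons (P.lf 26626715 0 0) (P.cons (P.lf 6028250 0 0) (P.cons (P.lf 0 2541552 0) (P.cons (P.lf 0 338763 0) (P.cons (P.lf 5229 0 0) P.nil))))) (P.cons (P.cons (P.lf 0 167631 0) (P.cons (P.lf 0 139093 0) (P.cons (P.lf 50485 0 0) (P.cons (P.lf 14844 0 0) P.nil)))) (P.cons (P.cons (P.lf 0 11286 0) (P.cons (P.lf 83 0 0) (P.cons (P.lf 280 0 0) P.nil))) (P.cons (P.cons (P.lf 294 0 0) (P.cons (P.lf 123 0 0) P.nil)) (P.cons (P.cons (P.lf 0 4 0) P.nil) P.nil)))))) 263496)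
 (EL.cons 9 (TM.mk (P.cons (P.cons (P.lf 759265738 0 0) (P.cons (P.lf 383435527 0 0) (P.cons (P.lf 0 116932191 0) (P.cons (P.lf 0 60120775 0) (P.cons (P.lf 4362591 0 0) (P.cons (P.lf 2000314 0 0) P.nil)))))) (P.cons (P.cons (P.lf 44939487 0 0) (P.cons (P.lf 14968314 0 0) (P.cons (P.lf 0 5540212 0) (P.cons (P.lf 0 1505671 0) (P.cons (P.lf 82395 0 0) P.nil))))) (P.cons (P.cons (P.lf 930142 0 0) (P.cons (P.lf 92380 0 0) (P.cons (P.lf 0 56157 0) (P.cons (P.lf 9646 0 0) P.nil)))) (P.cons (P.cons (P.lf 0 6574 0) (P.cons (P.lf 0 6297 0) (P.cons (P.lf 2296 0 0) P.nil))) (P.cons (P.cons (P.lf 0 493 0) (P.cons (P.lf 0 93 0) P.nil)) (P.cons (P.cons (P.lf 0 4 0) P.nil) P.nil)))))) 160726)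
 (EL.cons 2 (TM.mk (P.cons (P.cons (P.lf 0 163734688 0) (P.cons (P.lf 111190320 0 0) (P.cons (P.lf 71998290 0 0) (P.cons (P.lf 0 13930284 0) (P.cons (P.lf 0 4643336 0) (P.cons (P.lf 96592 0 0) P.nil)))))) (P.cons (P.cons (P.lf 2800625 0 0) (P.cons (P.lf 0 1068766 0) (P.cons (P.lf 0 2366859 0) (P.cons (P.lf 453369 0 0) (P.cons (P.lf 167518 0 0) P.nil))))) (P.cons (P.cons (P.lf 297590 0 0) (P.cons (P.lf 0 224960 0) (P.cons (P.lf 0 99686 0) (P.cons (P.lf 19411 0 0) P.nil)))) (P.cons (P.cons (P.lf 4483 0 0) (P.cons (P.lf 0 4601 0) (P.cons (P.lf 146 0 0) P.nil))) (P.cons (P.cons (P.lf 0 101 0) (P.cons (P.lf 73 0 0) P.nil)) (P.cons (P.cons (P.lf 0 0 0) P.nil) P.nil)))))) 114389)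
 (EL.cons 6 (TM.mk (P.cons (P.cons (P.lf 0 400596072 0) (P.cons (P.lf 272040120 0 0) (P.cons (P.lf 176152242 0 0) (P.cons (P.lf 0 34082070 0) (P.cons (P.lf 0 11360466 0) (P.cons (P.lf 236328 0 0) P.nil)))))) (P.cons (P.cons (P.lf 0 15638220 0) (P.cons (P.lf 12658020 0 0) (P.cons (P.lf 4098732 0 0) (P.cons (P.lf 0 804210 0) (P.cons (P.lf 0 227934 0) P.nil))))) (P.cons (P.cons (P.lf 0 96510 0) (P.cons (P.lf 124008 0 0) (P.cons (P.lf 0 37248 0) (P.cons (P.lf 6882 0 0) P.nil)))) (P.cons (P.cons (P.lf 6576 0 0) (P.cons (P.lf 0 5262 0) (P.cons (P.lf 0 1806 0) P.nil))) (P.cons (P.cons (P.lf 90 0 0) (P.cons (P.lf 0 84 0) P.nil)) (P.cons (P.cons (P.lf 0 0 0) P.nil) P.nil)))))) 212850)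
 EL.nil))))))
noncomputable def S227_230_660_808_3 : EL := (EL.cons 0 (TM.mk (P.cons (P.lf 338640227 0 0) (P.cons (P.lf 0 35891978 0) (P.cons (P.lf 866707 0 0) (P.cons (P.lf 5853 0 0) (P.cons (P.lf 0 65 0) (P.cons (P.lf 0 0 0) P.nil)))))) 47)
 (EL.cons 1 (TM.mk (P.cons (P.lf 828522922 0 0) (P.cons (P.lf 0 41298954 0) (P.cons (P.lf 0 308448 0) (P.cons (P.lf 4710 0 0) (P.cons (P.lf 30 0 0) (P.cons (P.lf 0 0 0) P.nil)))))) 72)
 (EL.cons 5 (TM.mk (P.cons (P.lf 2027078232 0 0) (P.cons (P.lf 12761590 0 0) (P.cons (P.lf 0 308160 0) (P.cons (P.lf 0 2080 0) (P.cons (P.lf 18 0 0) (P.cons (P.lf 0 0 0) P.nil)))))) 104)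
 EL.nil)))
noncomputable def S227_230_660_808_4 : EL := (EL.cons 0 (TM.mk (P.cons (P.cons (P.lf 0 116254531 0) (P.cons (P.lf 0 29354753 0) (P.cons (P.lf 12658100 0 0) (P.lf 1406453 0 0)))) (P.cons (P.cons (P.lf 8881203 0 0) (P.cons (P.lf 2834059 0 0) (P.cons (P.lf 0 1222078 0) (P.lf 0 135785 0)))) (P.cons (P.cons (P.lf 46807 0 0) (P.cons (P.lf 0 39491 0) (P.cons (P.lf 17027 0 0) (P.lf 1891 0 0)))) (P.cons (P.cons (P.lf 0 7558 0) (P.cons (P.lf 0 1812 0) (P.cons (P.lf 782 0 0) P.nil))) (P.cons (P.cons (P.lf 0 198 0) (P.cons (P.lf 8 0 0) P.nil)) (P.cons (P.cons (P.lf 1 0 0) P.nil) P.nil)))))) 219)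
 (EL.cons 1 (TM.mk (P.cons (P.cons (P.lf 0 284430305 0) (P.cons (P.lf 0 71819836 0) (P.cons (P.lf 30969523 0 0) (P.lf 3441056 0 0)))) (P.cons (P.cons (P.lf 5760406 0 0) (P.cons (P.lf 2901746 0 0) (P.cons (P.lf 0 1251264 0) (P.lf 0 139029 0)))) (P.cons (P.cons (P.lf 475800 0 0) (P.cons (P.lf 75853 0 0) (P.cons (P.lf 0 32707 0) (P.lf 0 3631 0)))) (P.cons (P.cons (P.lf 6691 0 0) (P.cons (P.lf 0 755 0) (P.cons (P.lf 326 0 0) P.nil))) (P.cons (P.cons (P.lf 0 157 0) (P.cons (P.lf 0 20 0) P.nil)) (P.cons (P.cons (P.lf 0 1 0) P.nil) P.nil)))))) 274)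
 (EL.cons 5 (TM.mk (P.cons (P.cons (P.lf 0 695892010 0) (P.cons (P.lf 0 175715632 0) (P.cons (P.lf 75770562 0 0) (P.lf 8418950 0 0)))) (P.cons (P.cons (P.lf 0 24975286 0) (P.cons (P.lf 0 2765566 0) (P.cons (P.lf 1192544 0 0) (P.lf 132502 0 0)))) (P.cons (P.cons (P.lf 0 145380 0) (P.cons (P.lf 53720 0 0) (P.cons (P.lf 0 23164 0) (P.lf 0 2570 0)))) (P.cons (P.cons (P.lf 9688 0 0) (P.cons (P.lf 1066 0 0) (P.cons (P.lf 0 456 0) P.nil))) (P.cons (P.cons (P.lf 114 0 0) (P.cons (P.lf 0 4 0) P.nil)) (P.cons (P.cons (P.lf 0 0 0) P.nil) P.nil)))))) 364)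
 EL.nil)))
noncomputable def S227_230_660_808_5 : EL := (EL.cons 0 (TM.mk (P.cons (P.cons (P.lf 39909953 0 0) (P.cons (P.lf 20154858 0 0) (P.cons (P.lf 0 6146409 0) (P.cons (P.lf 0 3160181 0) (P.cons (P.lf 229313 0 0) (P.cons (P.lf 105143 0 0) P.nil)))))) (P.cons (P.cons (P.lf 0 1867802 0) (P.cons (P.lf 0 1349390 0) (P.cons (P.lf 360233 0 0) (P.cons (P.lf 255798 0 0) (P.cons (P.lf 0 19972 0) P.nil))))) (P.cons (P.cons (P.lf 0 99328 0) (P.cons (P.lf 0 26950 0) (P.cons (P.lf 12181 0 0) (P.cons (P.lf 806 0 0) P.nil)))) (P.cons (P.cons (P.lf 1207 0 0) (P.cons (P.lf 1515 0 0) (P.cons (P.lf 0 416 0) P.nil))) (P.cons (P.cons (P.lf 168 0 0) (P.cons (P.lf 50 0 0) P.nil)) (P.cons (P.cons (P.lf 1 0 0) P.nil) P.nil)))))) 22251)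
 (EL.cons 1 (TM.mk (P.cons (P.cons (P.lf 97644369 0 0) (P.cons (P.lf 49311219 0 0) (P.cons (P.lf 0 15037908 0) (P.cons (P.lf 0 7731751 0) (P.cons (P.lf 561043 0 0) (P.cons (P.lf 257246 0 0) P.nil)))))) (P.cons (P.cons (P.lf 912153 0 0) (P.cons (P.lf 0 533008 0) (P.cons (P.lf 37095 0 0) (P.cons (P.lf 191763 0 0) (P.cons (P.lf 0 17368 0) P.nil))))) (P.cons (P.cons (P.lf 0 204811 0) (P.cons (P.lf 0 102429 0) (P.cons (P.lf 33890 0 0) (P.cons (P.lf 13770 0 0) P.nil)))) (P.cons (P.cons (P.lf 0 8403 0) (P.cons (P.lf 0 1837 0) (P.cons (P.lf 834 0 0) P.nil))) (P.cons (P.cons (P.lf 0 28 0) (P.cons (P.lf 35 0 0) P.nil)) (P.cons (P.cons (P.lf 1 0 0) P.nil) P.nil)))))) 37402)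
 (EL.cons 5 (TM.mk (P.cons (P.cons (P.lf 238898372 0 0) (P.cons (P.lf 120645668 0 0) (P.cons (P.lf 0 36792006 0) (P.cons (P.lf 0 18916636 0) (P.cons (P.lf 1372662 0 0) (P.cons (P.lf 629386 0 0) P.nil)))))) (P.cons (P.cons (P.lf 15643936 0 0) (P.cons (P.lf 5469220 0 0) (P.cons (P.lf 0 1974820 0) (P.cons (P.lf 0 592840 0) (P.cons (P.lf 34566 0 0) P.nil))))) (P.cons (P.cons (P.lf 345362 0 0) (P.cons (P.lf 40374 0 0) (P.cons (P.lf 0 23050 0) (P.cons (P.lf 2926 0 0) P.nil)))) (P.cons (P.cons (P.lf 0 2620 0) (P.cons (P.lf 0 2636 0) (P.cons (P.lf 912 0 0) P.nil))) (P.cons (P.cons (P.lf 0 224 0) (P.cons (P.lf 0 48 0) P.nil)) (P.cons (P.cons (P.lf 0 0 0) P.nil) P.nil)))))) 55574)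
 EL.nil)))
noncomputable def S227_230_660_808_6 : EL := (EL.cons 12 (TM.mk (P.lf 8589934592 0 0) 0)
 (EL.cons 3 (TM.mk (P.cons (P.lf 0 852774502 0) (P.cons (P.lf 45192157 0 0) (P.cons (P.lf 106177 0 0) (P.cons (P.lf 0 1743 0) (P.cons (P.lf 0 3 0) (P.cons (P.lf 0 0 0) P.nil)))))) 40)
 (EL.cons 7 (TM.mk (P.cons (P.lf 0 2086412557 0) (P.cons (P.lf 0 6567567 0) (P.cons (P.lf 168927 0 0) (P.cons (P.lf 539 0 0) (P.cons (P.lf 0 5 0) (P.cons (P.lf 0 0 0) P.nil)))))) 47)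
 EL.nil)))
noncomputable def S227_230_660_808_7 : EL := (EL.cons 12 (TM.mk (P.cons (P.cons (P.lf 0 2948907830 0) (P.cons (P.lf 0 744611520 0) (P.cons (P.lf 321084888 0 0) (P.lf 35676096 0 0)))) (P.cons (P.cons (P.lf 0 87270110 0) (P.cons (P.lf 0 7031608 0) (P.cons (P.lf 3032112 0 0) (P.lf 336896 0 0)))) (P.cons (P.cons (P.lf 0 514950 0) (P.cons (P.lf 158720 0 0) (P.cons (P.lf 0 68440 0) (P.lf 0 7600 0)))) (P.cons (P.cons (P.lf 28008 0 0) (P.cons (P.lf 1688 0 0) (P.cons (P.lf 0 720 0) P.nil))) (P.cons (P.cons (P.lf 176 0 0) (P.cons (P.lf 0 8 0) P.nil)) (P.cons (P.cons (P.lf 0 0 0) P.nil) P.nil)))))) 956)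
 (EL.cons 3 (TM.mk (P.cons (P.cons (P.lf 0 2459606390 0) (P.cons (P.lf 0 147844132 0) (P.cons (P.lf 63752056 0 0) (P.lf 7083560 0 0)))) (P.cons (P.cons (P.lf 0 43726061 0) (P.cons (P.lf 6438750 0 0) (P.cons (P.lf 0 2776460 0) (P.lf 0 308494 0)))) (P.cons (P.cons (P.lf 2275651 0 0) (P.cons (P.lf 123908 0 0) (P.cons (P.lf 0 53430 0) (P.lf 0 5934 0)))) (P.cons (P.cons (P.lf 21301 0 0) (P.cons (P.lf 0 1462 0) (P.cons (P.lf 630 0 0) P.nil))) (P.cons (P.cons (P.lf 0 383 0) (P.cons (P.lf 0 26 0) P.nil)) (P.cons (P.cons (P.lf 0 0 0) P.nil) P.nil)))))) 1020)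
 (EL.cons 7 (TM.mk (P.cons (P.cons (P.lf 1116249483 0 0) (P.cons (P.lf 213087243 0 0) (P.cons (P.lf 0 91885624 0) (P.lf 0 10209516 0)))) (P.cons (P.cons (P.lf 6354514 0 0) (P.cons (P.lf 0 935711 0) (P.cons (P.lf 403490 0 0) (P.lf 44831 0 0)))) (P.cons (P.cons (P.lf 0 509084 0) (P.cons (P.lf 8255 0 0) (P.cons (P.lf 0 3558 0) (P.lf 0 393 0)))) (P.cons (P.cons (P.lf 9558 0 0) (P.cons (P.lf 844 0 0) (P.cons (P.lf 0 360 0) P.nil))) (P.cons (P.cons (P.lf 159 0 0) (P.cons (P.lf 0 3 0) P.nil)) (P.cons (P.cons (P.lf 0 0 0) P.nil) P.nil)))))) 1600)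
 (EL.cons 10 (TM.mk (P.cons (P.cons (P.lf 0 1201060899 0) (P.cons (P.lf 1118899338 0 0) (P.cons (P.lf 114835470 0 0) (P.cons (P.lf 0 23882583 0) (P.lf 0 1990215 0))))) (P.cons (P.cons (P.lf 0 7561347 0) (P.cons (P.lf 7044096 0 0) (P.cons (P.lf 722952 0 0) (P.cons (P.lf 0 150354 0) (P.lf 0 12528 0))))) (P.cons (P.cons (P.lf 182586 0 0) (P.cons (P.lf 0 170097 0) (P.cons (P.lf 0 17457 0) (P.cons (P.lf 3630 0 0) P.nil)))) (P.cons (P.cons (P.lf 1230 0 0) (P.cons (P.lf 0 1146 0) (P.cons (P.lf 0 117 0) P.nil))) (P.cons (P.cons (P.lf 0 9 0) (P.cons (P.lf 9 0 0) P.nil)) (P.cons P.nil P.nil)))))) 561)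
 EL.nil))))
noncomputable def S227_230_660_808_8 : EL := (EL.cons 12 (TM.mk (P.cons (P.cons (P.lf 1012354318 0 0) (P.cons (P.lf 511247370 0 0) (P.cons (P.lf 0 155909588 0) (P.cons (P.lf 0 80161034 0) (P.cons (P.lf 5816788 0 0) (P.cons (P.lf 2667086 0 0) P.nil)))))) (P.cons (P.cons (P.lf 59919316 0 0) (P.cons (P.lf 19957752 0 0) (P.cons (P.lf 0 7386950 0) (P.cons (P.lf 0 2007562 0) (P.cons (P.lf 109860 0 0) P.nil))))) (P.cons (P.cons (P.lf 1240190 0 0) (P.cons (P.lf 123174 0 0) (P.cons (P.lf 0 74876 0) (P.cons (P.lf 12862 0 0) P.nil)))) (P.cons (P.cons (P.lf 0 8766 0) (P.cons (P.lf 0 8396 0) (P.cons (P.lf 3062 0 0) P.nil))) (P.cons (P.cons (P.lf 0 658 0) (P.cons (P.lf 0 124 0) P.nil)) (P.cons (P.cons (P.lf 0 6 0) P.nil) P.nil)))))) 214272)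
 (EL.cons 3 (TM.mk (P.cons (P.cons (P.lf 1789258677 0 0) (P.cons (P.lf 578681782 0 0) (P.cons (P.lf 0 217494736 0) (P.cons (P.lf 0 55357484 0) (P.cons (P.lf 2887335 0 0) (P.cons (P.lf 1323885 0 0) P.nil)))))) (P.cons (P.cons (P.lf 80621760 0 0) (P.cons (P.lf 9482385 0 0) (P.cons (P.lf 0 5181700 0) (P.cons (P.lf 488116 0 0) (P.cons (P.lf 0 98481 0) P.nil))))) (P.cons (P.cons (P.lf 0 583710 0) (P.cons (P.lf 0 711096 0) (P.cons (P.lf 259774 0 0) (P.cons (P.lf 74478 0 0) P.nil)))) (P.cons (P.cons (P.lf 0 79587 0) (P.cons (P.lf 0 14877 0) (P.cons (P.lf 6695 0 0) P.nil))) (P.cons (P.cons (P.lf 0 849 0) (P.cons (P.lf 207 0 0) P.nil)) (P.cons (P.cons (P.lf 16 0 0) P.nil) P.nil)))))) 236681)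
 (EL.cons 7 (TM.mk (P.cons (P.cons (P.lf 0 520521412 0) (P.cons (P.lf 0 215650162 0) (P.cons (P.lf 71725806 0 0) (P.cons (P.lf 28671704 0 0) (P.cons (P.lf 0 1916361 0) (P.cons (P.lf 0 878677 0) P.nil)))))) (P.cons (P.cons (P.lf 0 11716395 0) (P.cons (P.lf 0 1378040 0) (P.cons (P.lf 753034 0 0) (P.cons (P.lf 0 70931 0) (P.cons (P.lf 14307 0 0) P.nil))))) (P.cons (P.cons (P.lf 413711 0 0) (P.cons (P.lf 142022 0 0) (P.cons (P.lf 0 58888 0) (P.cons (P.lf 0 8835 0) P.nil)))) (P.cons (P.cons (P.lf 7870 0 0) (P.cons (P.lf 0 1765 0) (P.cons (P.lf 467 0 0) P.nil))) (P.cons (P.cons (P.lf 0 346 0) (P.cons (P.lf 0 111 0) P.nil)) (P.cons (P.cons (P.lf 0 5 0) P.nil) P.nil)))))) 101749)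
 (EL.cons 10 (TM.mk (P.cons (P.cons (P.lf 824643738 0 0) (P.cons (P.lf 0 560005944 0) (P.cons (P.lf 0 362616744 0) (P.cons (P.lf 70159374 0 0) (P.cons (P.lf 23385996 0 0) (P.cons (P.lf 0 486498 0) P.nil)))))) (P.cons (P.cons (P.lf 29596134 0 0) (P.cons (P.lf 0 24294294 0) (P.cons (P.lf 0 7295976 0) (P.cons (P.lf 1434654 0 0) (P.cons (P.lf 395598 0 0) P.nil))))) (P.cons (P.cons (P.lf 172278 0 0) (P.cons (P.lf 0 224154 0) (P.cons (P.lf 70284 0 0) (P.cons (P.lf 0 13008 0) P.nil)))) (P.cons (P.cons (P.lf 0 11478 0) (P.cons (P.lf 9426 0 0) (P.cons (P.lf 2814 0 0) P.nil))) (P.cons (P.cons (P.lf 0 138 0) (P.cons (P.lf 132 0 0) P.nil)) (P.cons (P.cons (P.lf 0 0 0) P.nil) P.nil)))))) 431514)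
 EL.nil))))
noncomputable def S227_230_660_808_9 : EL := (EL.cons 3 (TM.mk (P.cons (P.lf 0 852774502 0) (P.cons (P.lf 45192157 0 0) (P.cons (P.lf 106177 0 0) (P.cons (P.lf 0 1743 0) (P.cons (P.lf 0 3 0) (P.cons (P.lf 0 0 0) P.nil)))))) 40)
 (EL.cons 7 (TM.mk (P.cons (P.lf 0 2086412557 0) (P.cons (P.lf 0 6567567 0) (P.cons (P.lf 168927 0 0) (P.cons (P.lf 539 0 0) (P.cons (P.lf 0 5 0) (P.cons (P.lf 0 0 0) P.nil)))))) 47)
 EL.nil))
noncomputable def S227_230_660_808_10 : EL := (EL.cons 3 (TM.mk (P.cons (P.cons (P.lf 292755826 0 0) (P.cons (P.lf 73922066 0 0) (P.cons (P.lf 0 31876028 0) (P.lf 0 3541780 0)))) (P.cons (P.cons (P.lf 0 6850550 0) (P.cons (P.lf 0 3219375 0) (P.cons (P.lf 1388230 0 0) (P.lf 154247 0 0)))) (P.cons (P.cons (P.lf 0 444461 0) (P.cons (P.lf 0 61954 0) (P.cons (P.lf 26715 0 0) (P.lf 2967 0 0)))) (P.cons (P.cons (P.lf 0 5969 0) (P.cons (P.lf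 731 0 0) (P.cons (P.lf 0 315 0) P.nil))) (P.cons (P.cons (P.lf 142 0 0) (P.cons (P.lf 13 0 0) P.nil)) (P.cons (P.cons (P.lf 0 0 0) P.nil) P.nil)))))) 209)
 (EL.cons 7 (TM.mk (P.cons (P.cons (P.lf 716261370 0 0) (P.cons (P.lf 180858981 0 0) (P.cons (P.lf 0 77988433 0) (P.lf 0 8665380 0)))) (P.cons (P.cons (P.lf 23451703 0 0) (P.cons (P.lf 2277214 0 0) (P.cons (P.lf 0 981961 0) (P.lf 0 109105 0)))) (P.cons (P.cons (P.lf 133807 0 0) (P.cons (P.lf 0 47818 0) (P.cons (P.lf 20619 0 0) (P.lf 2289 0 0)))) (P.cons (P.cons (P.lf 0 8310 0) (P.cons (P.lf 0 716 0) (P.cons (P.lf 306 0 0) P.nil))) (P.cons (P.cons (P.lf 0 78 0) (P.cons (P.lf 3 0 0) P.nil)) (P.cons (P.cons (P.lf 0 0 0) P.nil) P.nil)))))) 291)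
 EL.nil))
noncomputable def S227_230_660_808_11 : EL := (EL.cons 3 (TM.mk (P.cons (P.cons (P.lf 0 100502505 0) (P.cons (P.lf 0 50754602 0) (P.cons (P.lf 15478082 0 0) (P.cons (P.lf 7958068 0 0) (P.cons (P.lf 0 577467 0) (P.cons (P.lf 0 264777 0) P.nil)))))) (P.cons (P.cons (P.lf 0 622494 0) (P.cons (P.lf 708375 0 0) (P.cons (P.lf 0 86902 0) (P.cons (P.lf 0 222428 0) (P.cons (P.lf 19695 0 0) P.nil))))) (P.cons (P.cons (P.lf 204630 0 0) (P.cons (P.lf 99090 0 0) (P.cons (P.lf 0 33356 0) (P.cons (P.lf 0 12828 0) P.nil)))) (P.cons (P.cons (P.lf 7929 0 0) (P.cons (P.lf 1623 0 0) (P.cons (P.lf 0 757 0) P.nil))) (P.cons (P.cons (P.lf 21 0 0) (P.cons (P.lf 0 33 0) P.nil)) (P.cons (P.cons (P.lf 0 2 0) P.nil) P.nil)))))) 37297)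
 (EL.cons 7 (TM.mk (P.cons (P.cons (P.lf 0 245891134 0) (P.cons (P.lf 0 124177072 0) (P.cons (P.lf 37868940 0 0) (P.cons (P.lf 19470344 0 0) (P.cons (P.lf 0 1412841 0) (P.cons (P.lf 0 647809 0) P.nil)))))) (P.cons (P.cons (P.lf 0 15327837 0) (P.cons (P.lf 0 5238428 0) (P.cons (P.lf 1913422 0 0) (P.cons (P.lf 548905 0 0) (P.cons (P.lf 0 31131 0) P.nil))))) (P.cons (P.cons (P.lf 0 327133 0) (P.cons (P.lf 0 35122 0) (P.cons (P.lf 20768 0 0) (P.cons (P.lf 0 3165 0) P.nil)))) (P.cons (P.cons (P.lf 2422 0 0) (P.cons (P.lf 2369 0 0) (P.cons (P.lf 0 841 0) P.nil))) (P.cons (P.cons (P.lf 194 0 0) (P.cons (P.lf 39 0 0) P.nil)) (P.cons (P.cons (P.lf 1 0 0) P.nil) P.nil)))))) 54597)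
 EL.nil))
noncomputable def S227_230_660_808_12 : EL := (EL.cons 4 (TM.mk (P.cons (P.lf 852774502 0 0) (P.cons (P.lf 0 45192157 0) (P.cons (P.lf 0 106177 0) (P.cons (P.lf 1743 0 0) (P.cons (P.lf 3 0 0) (P.cons (P.lf 0 0 0) P.nil)))))) 40)
 (EL.cons 8 (TM.mk (P.cons (P.lf 2086412557 0 0) (P.cons (P.lf 6567567 0 0) (P.cons (P.lf 0 168927 0) (P.cons (P.lf 0 539 0) (P.cons (P.lf 5 0 0) (P.cons (P.lf 0 0 0) P.nil)))))) 47)
 EL.nil))
noncomputable def S227_230_660_808_13 : EL := (EL.cons 4 (TM.mk (P.cons (P.cons (P.lf 0 292755826 0) (P.cons (P.lf 0 73922066 0) (P.cons (P.lf 31876028 0 0) (P.lf 3541780 0 0)))) (P.cons (P.cons (P.lf 6850550 0 0) (P.cons (P.lf 3219375 0 0) (P.cons (P.lf 0 1388230 0) (P.lf 0 154247 0)))) (P.cons (P.cons (P.lf 444461 0 0) (P.cons (P.lf 61954 0 0) (P.cons (P.lf 0 26715 0) (P.lf 0 2967 0)))) (P.cons (P.cons (P.lf 5969 0 0) (P.cons (P.lf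 0 731 0) (P.cons (P.lf 315 0 0) P.nil))) (P.cons (P.cons (P.lf 0 142 0) (P.cons (P.lf 0 13 0) P.nil)) (P.cons (P.cons (P.lf 0 0 0) P.nil) P.nil)))))) 209)
 (EL.cons 8 (TM.mk (P.cons (P.cons (P.lf 0 716261370 0) (P.cons (P.lf 0 180858981 0) (P.cons (P.lf 77988433 0 0) (P.lf 8665380 0 0)))) (P.cons (P.cons (P.lf 0 23451703 0) (P.cons (P.lf 0 2277214 0) (P.cons (P.lf 981961 0 0) (P.lf 109105 0 0)))) (P.cons (P.cons (P.lf 0 133807 0) (P.cons (P.lf 47818 0 0) (P.cons (P.lf 0 20619 0) (P.lf 0 2289 0)))) (P.cons (P.cons (P.lf 8310 0 0) (P.cons (P.lf 716 0 0) (P.cons (P.lf 0 306 0) P.nil))) (P.cons (P.cons (P.lf 78 0 0) (P.cons (P.lf 0 3 0) P.nil)) (P.cons (P.cons (P.lf 0 0 0) P.nil) P.nil)))))) 291)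
 EL.nil))
noncomputable def S227_230_660_808_14 : EL := (EL.cons 4 (TM.mk (P.cons (P.cons (P.lf 100502505 0 0) (P.cons (P.lf 50754602 0 0) (P.cons (P.lf 0 15478082 0) (P.cons (P.lf 0 7958068 0) (P.cons (P.lf 577467 0 0) (P.cons (P.lf 264777 0 0) P.nil)))))) (P.cons (P.cons (P.lf 622494 0 0) (P.cons (P.lf 0 708375 0) (P.cons (P.lf 86902 0 0) (P.cons (P.lf 222428 0 0) (P.cons (P.lf 0 19695 0) P.nil))))) (P.cons (P.cons (P.lf 0 204630 0) (P.cons (P.lf 0 99090 0) (P.cons (P.lf 33356 0 0) (P.cons (P.lf 12828 0 0) P.nil)))) (P.cons (P.cons (P.lf 0 7929 0) (P.cons (P.lf 0 1623 0) (P.cons (P.lf 757 0 0) P.nil))) (P.cons (P.cons (P.lf 0 21 0) (P.cons (P.lf 33 0 0) P.nil)) (P.cons (P.cons (P.lf 2 0 0) P.nil) P.nil)))))) 37297)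
 (EL.cons 8 (TM.mk (P.cons (P.cons (P.lf 245891134 0 0) (P.cons (P.lf 124177072 0 0) (P.cons (P.lf 0 37868940 0) (P.cons (P.lf 0 19470344 0) (P.cons (P.lf 1412841 0 0) (P.cons (P.lf 647809 0 0) P.nil)))))) (P.cons (P.cons (P.lf 15327837 0 0) (P.cons (P.lf 5238428 0 0) (P.cons (P.lf 0 1913422 0) (P.cons (P.lf 0 548905 0) (P.cons (P.lf 31131 0 0) P.nil))))) (P.cons (P.cons (P.lf 327133 0 0) (P.cons (P.lf 35122 0 0) (P.cons (P.lf 0 20768 0) (P.cons (P.lf 3165 0 0) P.nil)))) (P.cons (P.cons (P.lf 0 2422 0) (P.cons (P.lf 0 2369 0) (P.cons (P.lf 841 0 0) P.nil))) (P.cons (P.cons (P.lf 0 194 0) (P.cons (P.lf 0 39 0) P.nil)) (P.cons (P.cons (P.lf 0 1 0) P.nil) P.nil)))))) 54597)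
 EL.nil))
noncomputable def S227_230_660_808_15 : EL := (EL.cons 4 (TM.mk (P.cons (P.lf 0 180608121 0) (P.cons (P.lf 19142388 0 0) (P.cons (P.lf 0 462243 0) (P.cons (P.lf 0 3121 0) (P.cons (P.lf 34 0 0) (P.cons (P.lf 0 0 0) P.nil)))))) 28)
 (EL.cons 8 (TM.mk (P.cons (P.lf 0 441878892 0) (P.cons (P.lf 22026109 0 0) (P.cons (P.lf 164506 0 0) (P.cons (P.lf 0 2512 0) (P.cons (P.lf 0 16 0) (P.cons (P.lf 0 0 0) P.nil)))))) 35)
 EL.nil))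
noncomputable def S227_230_660_808_16 : EL := (EL.cons 4 (TM.mk (P.cons (P.cons (P.lf 62002416 0 0) (P.cons (P.lf 15655868 0 0) (P.cons (P.lf 0 6750987 0) (P.lf 0 750108 0)))) (P.cons (P.cons (P.lf 0 4736641 0) (P.cons (P.lf 0 1511498 0) (P.cons (P.lf 651775 0 0) (P.lf 72419 0 0)))) (P.cons (P.cons (P.lf 0 24963 0) (P.cons (P.lf 21061 0 0) (P.cons (P.lf 0 9081 0) (P.lf 0 1008 0)))) (P.cons (P.cons (P.lf 4031 0 0) (P.cons (P.lf 966 0 0) (P.cons (P.lf 0 417 0) P.nil))) (P.cons (P.cons (P.lf 105 0 0) (P.cons (P.lf 0 4 0) P.nil)) (P.cons (P.cons (P.lf 0 0 0) P.nil) P.nil)))))) 125)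
 (EL.cons 8 (TM.mk (P.cons (P.cons (P.lf 151696163 0 0) (P.cons (P.lf 38303913 0 0) (P.cons (P.lf 0 16517079 0) (P.lf 0 1835230 0)))) (P.cons (P.cons (P.lf 0 3072217 0) (P.cons (P.lf 0 1547598 0) (P.cons (P.lf 667341 0 0) (P.lf 74149 0 0)))) (P.cons (P.cons (P.lf 0 253760 0) (P.cons (P.lf 0 40455 0) (P.cons (P.lf 17444 0 0) (P.lf 1937 0 0)))) (P.cons (P.cons (P.lf 0 3569 0) (P.cons (P.lf 403 0 0) (P.cons (P.lf 0 174 0) P.nil))) (P.cons (P.cons (P.lf 84 0 0) (P.cons (P.lf 11 0 0) P.nil)) (P.cons (P.cons (P.lf 1 0 0) P.nil) P.nil)))))) 136)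
 EL.nil))
noncomputable def S227_230_660_808_17 : EL := (EL.cons 4 (TM.mk (P.cons (P.cons (P.lf 0 21285308 0) (P.cons (P.lf 0 10749257 0) (P.cons (P.lf 3278085 0 0) (P.cons (P.lf 1685430 0 0) (P.cons (P.lf 0 122300 0) (P.cons (P.lf 0 56076 0) P.nil)))))) (P.cons (P.cons (P.lf 996161 0 0) (P.cons (P.lf 719674 0 0) (P.cons (P.lf 0 192124 0) (P.cons (P.lf 0 136425 0) (P.cons (P.lf 10651 0 0) P.nil))))) (P.cons (P.cons (P.lf 52975 0 0) (P.cons (P.lf 14373 0 0) (P.cons (P.lf 0 6496 0) (P.cons (P.lf 0 430 0) P.nil)))) (P.cons (P.cons (P.lf 0 644 0) (P.cons (P.lf 0 808 0) (P.cons (P.lf 222 0 0) P.nil))) (P.cons (P.cons (P.lf 0 90 0) (P.cons (P.lf 0 27 0) P.nil)) (P.cons (P.cons (P.lf 0 0 0) P.nil) P.nil)))))) 11877)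
 (EL.cons 8 (TM.mk (P.cons (P.cons (P.lf 0 52076997 0) (P.cons (P.lf 0 26299317 0) (P.cons (P.lf 8020218 0 0) (P.cons (P.lf 4123601 0 0) (P.cons (P.lf 0 299223 0) (P.cons (P.lf 0 137198 0) P.nil)))))) (P.cons (P.cons (P.lf 0 486482 0) (P.cons (P.lf 284271 0 0) (P.cons (P.lf 0 19784 0) (P.cons (P.lf 0 102274 0) (P.cons (P.lf 9263 0 0) P.nil))))) (P.cons (P.cons (P.lf 109233 0 0) (P.cons (P.lf 54629 0 0) (P.cons (P.lf 0 18075 0) (P.cons (P.lf 0 7344 0) P.nil)))) (P.cons (P.cons (P.lf 4482 0 0) (P.cons (P.lf 980 0 0) (P.cons (P.lf 0 445 0) P.nil))) (P.cons (P.cons (P.lf 15 0 0) (P.cons (P.lf 0 19 0) P.nil)) (P.cons (P.cons (P.lf 0 1 0) P.nil) P.nil)))))) 19936)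
 EL.nil))
noncomputable def S227_230_660_808_18 : EL := (EL.cons 4 (TM.mk (P.cons (P.lf 38250783 0 0) (P.cons (P.lf 0 6081215 0) (P.cons (P.lf 307981 0 0) (P.cons (P.lf 0 3943 0) (P.cons (P.lf 0 61 0) (P.cons (P.lf 0 0 0) P.nil)))))) 19)
 (EL.cons 8 (TM.mk (P.cons (P.lf 93585017 0 0) (P.cons (P.lf 0 9624353 0) (P.cons (P.lf 200719 0 0) (P.cons (P.lf 3150 0 0) (P.cons (P.lf 0 29 0) (P.cons (P.lf 0 0 0) P.nil)))))) 20)
 EL.nil))
noncomputable def S227_230_660_808_19 : EL := (EL.cons 4 (TM.mk (P.cons (P.cons (P.lf 0 13131419 0) (P.cons (P.lf 0 3315737 0) (P.cons (P.lf 1429783 0 0) (P.lf 158864 0 0)))) (P.cons (P.cons (P.lf 1699057 0 0) (P.cons (P.lf 495833 0 0) (P.cons (P.lf 0 213808 0) (P.lf 0 23756 0)))) (P.cons (P.cons (P.lf 0 46239 0) (P.cons (P.lf 0 21012 0) (P.cons (P.lf 9060 0 0) (P.lf 1005 0 0)))) (P.cons (P.cons (P.lf 0 1285 0) (P.cons (P.lf 0 15 0)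 (P.cons (P.lf 6 0 0) P.nil))) (P.cons (P.cons (P.lf 23 0 0) (P.cons (P.lf 12 0 0) P.nil)) (P.cons (P.cons (P.lf 0 0 0) P.nil) P.nil)))))) 88)
 (EL.cons 8 (TM.mk (P.cons (P.cons (P.lf 0 32127554 0) (P.cons (P.lf 0 8112341 0) (P.cons (P.lf 3498133 0 0) (P.lf 388680 0 0)))) (P.cons (P.cons (P.lf 2353237 0 0) (P.cons (P.lf 757671 0 0) (P.cons (P.lf 0 326716 0) (P.lf 0 36301 0)))) (P.cons (P.cons (P.lf 23262 0 0) (P.cons (P.lf 0 7791 0) (P.cons (P.lf 3359 0 0) (P.lf 373 0 0)))) (P.cons (P.cons (P.lf 0 2238 0) (P.cons (P.lf 0 596 0) (P.cons (P.lf 257 0 0) P.nil))) (P.cons (P.cons (P.lf 0 63 0) (P.cons (P.lf 1 0 0) P.nil)) (P.cons (P.cons (P.lf 0 0 0) P.nil) P.nil)))))) 81)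
 EL.nil))
noncomputable def S227_230_660_808_20 : EL := (EL.cons 4 (TM.mk (P.cons (P.cons (P.lf 4507990 0 0) (P.cons (P.lf 2276572 0 0) (P.cons (P.lf 0 694260 0) (P.cons (P.lf 0 356955 0) (P.cons (P.lf 25901 0 0) (P.cons (P.lf 11876 0 0) P.nil)))))) (P.cons (P.cons (P.lf 0 449873 0) (P.cons (P.lf 0 273063 0) (P.cons (P.lf 77481 0 0) (P.cons (P.lf 47809 0 0) (P.cons (P.lf 0 3628 0) P.nil))))) (P.cons (P.cons (P.lf 0 600 0) (P.cons (P.lf 4749 0 0) (P.cons (P.lf 0 693 0) (P.cons (P.lf 0 1395 0) P.nil)))) (P.cons (P.cons (P.lf 765 0 0) (P.cons (P.lf 356 0 0) (P.cons (P.lf 0 126 0) P.nil))) (P.cons (P.cons (P.lf 12 0 0) (P.cons (P.lf 0 2 0) P.nil)) (P.cons (P.cons (P.lf 0 0 0) P.nil) P.nil)))))) 3566)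
 (EL.cons 8 (TM.mk (P.cons (P.cons (P.lf 11029326 0 0) (P.cons (P.lf 5569901 0 0) (P.cons (P.lf 0 1698592 0) (P.cons (P.lf 0 873332 0) (P.cons (P.lf 63372 0 0) (P.cons (P.lf 29056 0 0) P.nil)))))) (P.cons (P.cons (P.lf 0 481459 0) (P.cons (P.lf 0 355378 0) (P.cons (P.lf 94205 0 0) (P.cons (P.lf 67942 0 0) (P.cons (P.lf 0 5319 0) P.nil))))) (P.cons (P.cons (P.lf 0 29967 0) (P.cons (P.lf 0 9072 0) (P.cons (P.lf 3817 0 0) (P.cons (P.lf 516 0 0) P.nil)))) (P.cons (P.cons (P.lf 286 0 0) (P.cons (P.lf 424 0 0) (P.cons (P.lf 0 112 0) P.nil))) (P.cons (P.cons (P.lf 50 0 0) (P.cons (P.lf 16 0 0) P.nil)) (P.cons (P.cons (P.lf 0 0 0) P.nil) P.nil)))))) 6309)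
 EL.nil))
noncomputable def S227_230_660_808_21 : EL := (EL.cons 4 (TM.mk (P.cons (P.cons (P.lf 2752362216 0 0) (P.cons (P.lf 221766198 0 0) (P.cons (P.lf 0 95628084 0) (P.lf 0 10625340 0)))) (P.cons (P.cons (P.lf 36875511 0 0) (P.cons (P.lf 0 9658125 0) (P.cons (P.lf 4164690 0 0) (P.lf 462741 0 0)))) (P.cons (P.cons (P.lf 0 2720112 0) (P.cons (P.lf 0 185862 0) (P.cons (P.lf 80145 0 0) (P.lf 8901 0 0)))) (P.cons (P.cons (P.lf 0 27270 0) (P.cons (P.lf 2193 0 0) (P.cons (P.lf 0 945 0) P.nil))) (P.cons (P.cons (P.lf 525 0 0) (P.cons (P.lf 39 0 0) P.nil)) (P.cons (P.cons (P.lf 0 0 0) P.nil) P.nil)))))) 792)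
 (EL.cons 8 (TM.mk (P.cons (P.cons (P.lf 0 399988113 0) (P.cons (P.lf 0 32228262 0) (P.cons (P.lf 13897191 0 0) (P.lf 1544136 0 0)))) (P.cons (P.cons (P.lf 17097189 0 0) (P.cons (P.lf 3212925 0 0) (P.cons (P.lf 0 1385451 0) (P.lf 0 153936 0)))) (P.cons (P.cons (P.lf 642891 0 0) (P.cons (P.lf 0 56073 0) (P.cons (P.lf 24177 0 0) (P.lf 2682 0 0)))) (P.cons (P.cons (P.lf 0 17868 0) (P.cons (P.lf 0 1560 0) (P.cons (P.lf 666 0 0) P.nil))) (P.cons (P.cons (P.lf 0 237 0) (P.cons (P.lf 6 0 0) P.nil)) (P.cons (P.cons (P.lf 0 0 0) P.nil) P.nil)))))) 1290)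
 (EL.cons 11 (TM.mk (P.cons (P.cons (P.lf 1201060899 0 0) (P.cons (P.lf 0 1118899338 0) (P.cons (P.lf 0 114835470 0) (P.cons (P.lf 23882583 0 0) (P.lf 1990215 0 0))))) (P.cons (P.cons (P.lf 7561347 0 0) (P.cons (P.lf 0 7044096 0) (P.cons (P.lf 0 722952 0) (P.cons (P.lf 150354 0 0) (P.lf 12528 0 0))))) (P.cons (P.cons (P.lf 0 182586 0) (P.cons (P.lf 170097 0 0) (P.cons (P.lf 17457 0 0) (P.cons (P.lf 0 3630 0) P.nil)))) (P.cons (P.cons (P.lf 0 1230 0) (P.cons (P.lf 1146 0 0) (P.cons (P.lf 117 0 0) P.nil))) (P.cons (P.cons (P.lf 9 0 0) (P.cons (P.lf 0 9 0) P.nil)) (P.cons P.nil P.nil)))))) 561)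
 EL.nil)))
noncomputable def S227_230_660_808_22 : EL := (EL.cons 4 (TM.mk (P.cons (P.cons (P.lf 0 944880591 0) (P.cons (P.lf 0 314718192 0) (P.cons (P.lf 116486409 0 0) (P.cons (P.lf 31657776 0 0) (P.cons (P.lf 0 1732401 0) (P.cons (P.lf 0 794331 0) P.nil)))))) (P.cons (P.cons (P.lf 0 40622127 0) (P.cons (P.lf 0 4387005 0) (P.cons (P.lf 2547399 0 0) (P.cons (P.lf 0 355272 0) (P.cons (P.lf 59088 0 0) P.nil))))) (P.cons (P.cons (P.lf 394170 0 0) (P.cons (P.lf 405093 0 0) (P.cons (P.lf 0 146565 0) (P.cons (P.lf 0 43653 0) P.nil)))) (P.cons (P.cons (P.lf 43758 0 0) (P.cons (P.lf 8250 0 0) (P.cons (P.lf 0 3726 0) P.nil))) (P.cons (P.cons (P.lf 435 0 0) (P.cons (P.lf 0 120 0) P.nil)) (P.cons (P.cons (P.lf 0 9 0) P.nil) P.nil)))))) 99681)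
 (EL.cons 8 (TM.mk (P.cons (P.cons (P.lf 137315139 0 0) (P.cons (P.lf 45736545 0 0) (P.cons (P.lf 0 16928433 0) (P.cons (P.lf 0 4600680 0) (P.cons (P.lf 251760 0 0) (P.cons (P.lf 115434 0 0) P.nil)))))) (P.cons (P.cons (P.lf 0 1805721 0) (P.cons (P.lf 0 1930194 0) (P.cons (P.lf 580194 0 0) (P.cons (P.lf 309918 0 0) (P.cons (P.lf 0 22719 0) P.nil))))) (P.cons (P.cons (P.lf 0 370422 0) (P.cons (P.lf 0 88572 0) (P.cons (P.lf 39828 0 0) (P.cons (P.lf 2835 0 0) P.nil)))) (P.cons (P.cons (P.lf 0 2724 0) (P.cons (P.lf 2067 0 0) (P.cons (P.lf 0 654 0) P.nil))) (P.cons (P.cons (P.lf 270 0 0) (P.cons (P.lf 75 0 0) P.nil)) (P.cons (P.cons (P.lf 3 0 0) P.nil) P.nil)))))) 23565)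
 (EL.cons 11 (TM.mk (P.cons (P.cons (P.lf 0 412321869 0) (P.cons (P.lf 280002972 0 0) (P.cons (P.lf 181308372 0 0) (P.cons (P.lf 0 35079687 0) (P.cons (P.lf 0 11692998 0) (P.cons (P.lf 243249 0 0) P.nil)))))) (P.cons (P.cons (P.lf 0 14798067 0) (P.cons (P.lf 12147147 0 0) (P.cons (P.lf 3647988 0 0) (P.cons (P.lf 0 717327 0) (P.cons (P.lf 0 197799 0) P.nil))))) (P.cons (P.cons (P.lf 0 86139 0) (P.cons (P.lf 112077 0 0) (P.cons (P.lf 0 35142 0) (P.cons (P.lf 6504 0 0) P.nil)))) (P.cons (P.cons (P.lf 5739 0 0) (P.cons (P.lf 0 4713 0) (P.cons (P.lf 0 1407 0) P.nil))) (P.cons (P.cons (P.lf 69 0 0) (P.cons (P.lf 0 66 0) P.nil)) (P.cons (P.cons (P.lf 0 0 0) P.nil) P.nil)))))) 215757)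
 EL.nil)))
noncomputable def S227_230_660_808_23 : EL := (EL.cons 4 (TM.mk (P.cons (P.cons (P.lf 0 582919596 0) (P.cons (P.lf 0 46967604 0) (P.cons (P.lf 20252958 0 0) (P.lf 2250327 0 0)))) (P.cons (P.cons (P.lf 23081571 0 0) (P.cons (P.lf 4534494 0 0) (P.cons (P.lf 0 1955325 0) (P.lf 0 217257 0)))) (P.cons (P.cons (P.lf 1062543 0 0) (P.cons (P.lf 0 63186 0) (P.cons (P.lf 27246 0 0) (P.lf 3027 0 0)))) (P.cons (P.cons (P.lf 0 24972 0) (P.cons (P.lf 0 2901 0) (P.cons (P.lf 1248 0 0) P.nil))) (P.cons (P.cons (P.lf 0 507 0) (P.cons (P.lf 15 0 0) P.nil)) (P.cons (P.cons (P.lf 6 0 0) P.nil) P.nil)))))) 390)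
 (EL.cons 8 (TM.mk (P.cons (P.cons (P.lf 84713016 0 0) (P.cons (P.lf 6825585 0 0) (P.cons (P.lf 0 2943267 0) (P.lf 0 327030 0)))) (P.cons (P.cons (P.lf 0 8110296 0) (P.cons (P.lf 0 1042176 0) (P.cons (P.lf 449397 0 0) (P.lf 49932 0 0)))) (P.cons (P.cons (P.lf 45186 0 0) (P.cons (P.lf 47085 0 0) (P.cons (P.lf 0 20301 0) (P.lf 0 2253 0)))) (P.cons (P.cons (P.lf 11622 0 0) (P.cons (P.lf 0 198 0) (P.cons (P.lf 87 0 0) P.nil))) (P.cons (P.cons (P.lf 0 138 0) (P.cons (P.lf 0 21 0) P.nil)) (P.cons (P.cons (P.lf 0 3 0) P.nil) P.nil)))))) 390)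
 (EL.cons 11 (TM.mk (P.cons (P.cons (P.lf 0 254371293 0) (P.cons (P.lf 236970390 0 0) (P.cons (P.lf 24320868 0 0) (P.cons (P.lf 0 5058063 0) (P.lf 0 421503 0))))) (P.cons (P.cons (P.lf 11878809 0 0) (P.cons (P.lf 0 11066208 0) (P.cons (P.lf 0 1135752 0) (P.cons (P.lf 236205 0 0) (P.lf 19683 0 0))))) (P.cons (P.cons (P.lf 155205 0 0) (P.cons (P.lf 0 144588 0) (P.cons (P.lf 0 14838 0) (P.cons (P.lf 3084 0 0) P.nil)))) (P.cons (P.cons (P.lf 0 2109 0) (P.cons (P.lf 1965 0 0) (P.cons (P.lf 201 0 0) P.nil))) (P.cons (P.cons (P.lf 0 24 0) (P.cons (P.lf 21 0 0) P.nil)) (P.cons (P.cons (P.lf 0 0 0) P.nil) P.nil)))))) 459)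
 EL.nil)))
noncomputable def S227_230_660_808_24 : EL := (EL.cons 4 (TM.mk (P.cons (P.cons (P.lf 200115162 0 0) (P.cons (P.lf 66653799 0 0) (P.cons (P.lf 0 24670521 0) (P.cons (P.lf 0 6704763 0) (P.cons (P.lf 366903 0 0) (P.cons (P.lf 168228 0 0) P.nil)))))) (P.cons (P.cons (P.lf 0 2001642 0) (P.cons (P.lf 0 2603148 0) (P.cons (P.lf 767883 0 0) (P.cons (P.lf 430554 0 0) (P.cons (P.lf 0 31956 0) P.nil))))) (P.cons (P.cons (P.lf 0 564321 0) (P.cons (P.lf 0 143331 0) (P.cons (P.lf 62703 0 0) (P.cons (P.lf 6090 0 0) P.nil)))) (P.cons (P.cons (P.lf 0 5505 0) (P.cons (P.lf 2817 0 0) (P.cons (P.lf 0 837 0) P.nil))) (P.cons (P.cons (P.lf 426 0 0) (P.cons (P.lf 129 0 0) P.nil)) (P.cons (P.cons (P.lf 6 0 0) P.nil) P.nil)))))) 30600)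
 (EL.cons 8 (TM.mk (P.cons (P.cons (P.lf 0 29081814 0) (P.cons (P.lf 0 9686487 0) (P.cons (P.lf 3585252 0 0) (P.cons (P.lf 974370 0 0) (P.cons (P.lf 0 53319 0) (P.cons (P.lf 0 24447 0) P.nil)))))) (P.cons (P.cons (P.lf 1923600 0 0) (P.cons (P.lf 922122 0 0) (P.cons (P.lf 0 312876 0) (P.cons (P.lf 0 117273 0) (P.cons (P.lf 7635 0 0) P.nil))))) (P.cons (P.cons (P.lf 61806 0 0) (P.cons (P.lf 0 1698 0) (P.cons (P.lf 0 2370 0) (P.cons (P.lf 2754 0 0) P.nil)))) (P.cons (P.cons (P.lf 0 3687 0) (P.cons (P.lf 0 1500 0) (P.cons (P.lf 606 0 0) P.nil))) (P.cons (P.cons (P.lf 0 96 0) (P.cons (P.lf 3 0 0) P.nil)) (P.cons (P.cons (P.lf 0 0 0) P.nil) P.nil)))))) 6864)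
 (EL.cons 11 (TM.mk (P.cons (P.cons (P.lf 87325167 0 0) (P.cons (P.lf 0 59301504 0) (P.cons (P.lf 0 38399088 0) (P.cons (P.lf 7429485 0 0) (P.cons (P.lf 2476446 0 0) (P.cons (P.lf 0 51516 0) P.nil)))))) (P.cons (P.cons (P.lf 0 1493667 0) (P.cons (P.lf 570009 0 0) (P.cons (P.lf 1262325 0 0) (P.cons (P.lf 0 241797 0) (P.cons (P.lf 0 89343 0) P.nil))))) (P.cons (P.cons (P.lf 0 158715 0) (P.cons (P.lf 119979 0 0) (P.cons (P.lf 53166 0 0) (P.cons (P.lf 0 10353 0) P.nil)))) (P.cons (P.cons (P.lf 0 2391 0) (P.cons (P.lf 2454 0 0) (P.cons (P.lf 0 78 0) P.nil))) (P.cons (P.cons (P.lf 54 0 0) (P.cons (P.lf 0 39 0) P.nil)) (P.cons (P.cons (P.lf 0 0 0) P.nil) P.nil)))))) 60996)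
 EL.nil)))
noncomputable def S227_230_660_808_25 : EL := (EL.cons 4 (TM.mk (P.cons (P.cons (P.lf 123455862 0 0) (P.cons (P.lf 9947214 0 0) (P.cons (P.lf 0 4289349 0) (P.lf 0 476592 0)))) (P.cons (P.cons (P.lf 0 11430870 0) (P.cons (P.lf 0 1487499 0) (P.cons (P.lf 641427 0 0) (P.lf 71268 0 0)))) (P.cons (P.cons (P.lf 18651 0 0) (P.cons (P.lf 63036 0 0) (P.cons (P.lf 0 27180 0) (P.lf 0 3018 0)))) (P.cons (P.cons (P.lf 18075 0 0) (P.cons (P.lf 45 0 0) (P.cons (P.lf 0 18 0) P.nil))) (P.cons (P.cons (P.lf 0 153 0) (P.cons (P.lf 0 39 0) P.nil)) (P.cons (P.cons (P.lf 0 6 0) P.nil) P.nil)))))) 237)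
 (EL.cons 8 (TM.mk (P.cons (P.cons (P.lf 0 17941269 0) (P.cons (P.lf 0 1445580 0) (P.cons (P.lf 623349 0 0) (P.lf 69261 0 0)))) (P.cons (P.cons (P.lf 2668455 0 0) (P.cons (P.lf 297327 0 0) (P.cons (P.lf 0 128211 0) (P.lf 0 14244 0)))) (P.cons (P.cons (P.lf 0 98361 0) (P.cons (P.lf 0 21489 0) (P.cons (P.lf 9264 0 0) (P.lf 1029 0 0)))) (P.cons (P.cons (P.lf 0 2205 0) (P.cons (P.lf 540 0 0) (P.cons (P.lf 0 231 0) P.nil))) (P.cons (P.cons (P.lf 162 0 0) (P.cons (P.lf 3 0 0) P.nil)) (P.cons (P.cons (P.lf 0 0 0) P.nil) P.nil)))))) 162)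
 (EL.cons 11 (TM.mk (P.cons (P.cons (P.lf 53872998 0 0) (P.cons (P.lf 0 50187684 0) (P.cons (P.lf 0 5150886 0) (P.cons (P.lf 1071240 0 0) (P.lf 89268 0 0))))) (P.cons (P.cons (P.lf 0 5370759 0) (P.cons (P.lf 5003358 0 0) (P.cons (P.lf 513507 0 0) (P.cons (P.lf 0 106794 0) (P.lf 0 8898 0))))) (P.cons (P.cons (P.lf 93744 0 0) (P.cons (P.lf 0 87330 0) (P.cons (P.lf 0 8961 0) (P.cons (P.lf 1863 0 0) P.nil)))) (P.cons (P.cons (P.lf 2610 0 0) (P.cons (P.lf 0 2433 0) (P.cons (P.lf 0 249 0) P.nil))) (P.cons (P.cons (P.lf 0 18 0) (P.cons (P.lf 15 0 0) P.nil)) (P.cons (P.cons (P.lf 0 0 0) P.nil) P.nil)))))) 453)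
 EL.nil)))
noncomputable def S227_230_660_808_26 : EL := (EL.cons 4 (TM.mk (P.cons (P.cons (P.lf 0 42382158 0) (P.cons (P.lf 0 14116530 0) (P.cons (P.lf 5224941 0 0) (P.cons (P.lf 1419993 0 0) (P.cons (P.lf 0 77706 0) (P.cons (P.lf 0 35628 0) P.nil)))))) (P.cons (P.cons (P.lf 2669934 0 0) (P.cons (P.lf 1299411 0 0) (P.cons (P.lf 0 439521 0) (P.cons (P.lf 0 166437 0) (P.cons (P.lf 10884 0 0) P.nil))))) (P.cons (P.cons (P.lf 102327 0 0) (P.cons (P.lf 2895 0 0) (P.cons (P.lf 0 5310 0) (P.cons (P.lf 3363 0 0) P.nil)))) (P.cons (P.cons (P.lf 0 5304 0) (P.cons (P.lf 0 2301 0) (P.cons (P.lf 912 0 0) P.nil))) (P.cons (P.cons (P.lf 0 165 0) (P.cons (P.lf 0 0 0) P.nil)) (P.cons (P.cons (P.lf 0 0 0) P.nil) P.nil)))))) 9543)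
 (EL.cons 8 (TM.mk (P.cons (P.cons (P.lf 6159201 0 0) (P.cons (P.lf 2051490 0 0) (P.cons (P.lf 0 759315 0) (P.cons (P.lf 0 206361 0) (P.cons (P.lf 11292 0 0) (P.cons (P.lf 5175 0 0) P.nil)))))) (P.cons (P.cons (P.lf 0 733797 0) (P.cons (P.lf 0 304011 0) (P.cons (P.lf 106503 0 0) (P.cons (P.lf 35772 0 0) (P.cons (P.lf 0 2214 0) P.nil))))) (P.cons (P.cons (P.lf 7731 0 0) (P.cons (P.lf 10452 0 0) (P.cons (P.lf 0 2913 0) (P.cons (P.lf 0 1872 0) P.nil)))) (P.cons (P.cons (P.lf 1536 0 0) (P.cons (P.lf 327 0 0) (P.cons (P.lf 0 165 0) P.nil))) (P.cons (P.cons (P.lf 0 18 0) (P.cons (P.lf 0 18 0) P.nil)) (P.cons (P.cons (P.lf 0 0 0) P.nil) P.nil)))))) 2085)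
 (EL.cons 11 (TM.mk (P.cons (P.cons (P.lf 0 18494496 0) (P.cons (P.lf 12559395 0 0) (P.cons (P.lf 8132496 0 0) (P.cons (P.lf 0 1573482 0) (P.cons (P.lf 0 524481 0) (P.cons (P.lf 10908 0 0) P.nil)))))) (P.cons (P.cons (P.lf 1296444 0 0) (P.cons (P.lf 0 786297 0) (P.cons (P.lf 0 698322 0) (P.cons (P.lf 134595 0 0) (P.cons (P.lf 46716 0 0) P.nil))))) (P.cons (P.cons (P.lf 19152 0 0) (P.cons (P.lf 0 20574 0) (P.cons (P.lf 1893 0 0) (P.cons (P.lf 0 324 0) P.nil)))) (P.cons (P.cons (P.lf 0 1350 0) (P.cons (P.lf 867 0 0) (P.cons (P.lf 663 0 0) P.nil))) (P.cons (P.cons (P.lf 0 39 0) (P.cons (P.lf 39 0 0) P.nil)) (P.cons (P.cons (P.lf 0 0 0) P.nil) P.nil)))))) 17763)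
 EL.nil)))
noncomputable def S227_230_660_808_27 : EL := (EL.cons 13 (TM.mk (P.lf 0 4294967296 0) 0)
 EL.nil)
noncomputable def S227_230_660_808_28 : EL := (EL.cons 13 (TM.mk (P.cons (P.cons (P.lf 1474453915 0 0) (P.cons (P.lf 372305760 0 0) (P.cons (P.lf 0 160542444 0) (P.lf 0 17838048 0)))) (P.cons (P.cons (P.lf 43635055 0 0) (P.cons (P.lf 3515804 0 0) (P.cons (P.lf 0 1516056 0) (P.lf 0 168448 0)))) (P.cons (P.cons (P.lf 257475 0 0) (P.cons (P.lf 0 79360 0) (P.cons (P.lf 34220 0 0) (P.lf 3800 0 0)))) (P.cons (P.cons (P.lf 0 14004 0) (P.cons (P.lf 0 844 0) (P.cons (P.lf 360 0 0) P.nil))) (P.cons (P.cons (P.lf 0 88 0) (P.cons (P.lf 4 0 0) P.nil)) (P.cons (P.cons (P.lf 0 0 0) P.nil) P.nil)))))) 478)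
 EL.nil)
noncomputable def S227_230_660_808_29 : EL := (EL.cons 13 (TM.mk (P.cons (P.cons (P.lf 0 506177159 0) (P.cons (P.lf 0 255623685 0) (P.cons (P.lf 77954794 0 0) (P.cons (P.lf 40080517 0 0) (P.cons (P.lf 0 2908394 0) (P.cons (P.lf 0 1333543 0) P.nil)))))) (P.cons (P.cons (P.lf 0 29959658 0) (P.cons (P.lf 0 9978876 0) (P.cons (P.lf 3693475 0 0) (P.cons (P.lf 1003781 0 0) (P.cons (P.lf 0 54930 0) P.nil))))) (P.cons (P.cons (P.lf 0 620095 0) (P.cons (P.lf 0 61587 0) (P.cons (P.lf 37438 0 0) (P.cons (P.lf 0 6431 0) P.nil)))) (P.cons (P.cons (P.lf 4383 0 0) (P.cons (P.lf 4198 0 0) (P.cons (P.lf 0 1531 0) P.nil))) (P.cons (P.cons (P.lf 329 0 0) (P.cons (P.lf 62 0 0) P.nil)) (P.cons (P.cons (P.lf 3 0 0) P.nil) P.nil)))))) 107136)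
 EL.nil)
noncomputable def S227_230_660_808_30 : EL := (EL.cons 13 (TM.mk (P.cons (P.lf 909626136 0 0) (P.cons (P.lf 0 48204968 0) (P.cons (P.lf 0 113256 0) (P.cons (P.lf 1860 0 0) (P.cons (P.lf 4 0 0) (P.cons (P.lf 0 0 0) P.nil)))))) 36)
 EL.nil)
noncomputable def S227_230_660_808_31 : EL := (EL.cons 13 (TM.mk (P.cons (P.cons (P.lf 0 312272882 0) (P.cons (P.lf 0 78850204 0) (P.cons (P.lf 34001097 0 0) (P.lf 3777899 0 0)))) (P.cons (P.cons (P.lf 7307254 0 0) (P.cons (P.lf 3434000 0 0) (P.cons (P.lf 0 1480779 0) (P.lf 0 164531 0)))) (P.cons (P.cons (P.lf 474092 0 0) (P.cons (P.lf 66085 0 0) (P.cons (P.lf 0 28496 0) (P.lf 0 3165 0)))) (P.cons (P.cons (P.lf 6367 0 0) (P.cons (P.lf 0 780 0) (P.cons (P.lf 337 0 0) P.nil))) (P.cons (P.cons (P.lf 0 152 0) (P.cons (P.lf 0 14 0) P.nil)) (P.cons (P.cons (P.lf 0 1 0) P.nil) P.nil)))))) 203)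
 EL.nil)
noncomputable def S227_230_660_808_32 : EL := (EL.cons 13 (TM.mk (P.cons (P.cons (P.lf 107202672 0 0) (P.cons (P.lf 54138243 0 0) (P.cons (P.lf 0 16509955 0) (P.cons (P.lf 0 8488606 0) (P.cons (P.lf 615965 0 0) (P.cons (P.lf 282429 0 0) P.nil)))))) (P.cons (P.cons (P.lf 663994 0 0) (P.cons (P.lf 0 755601 0) (P.cons (P.lf 92696 0 0) (P.cons (P.lf 237257 0 0) (P.cons (P.lf 0 21009 0) P.nil))))) (P.cons (P.cons (P.lf 0 218273 0) (P.cons (P.lf 0 105696 0) (P.cons (P.lf 35580 0 0) (P.cons (P.lf 13684 0 0) P.nil)))) (P.cons (P.cons (P.lf 0 8458 0) (P.cons (P.lf 0 1732 0) (P.cons (P.lf 808 0 0) P.nil))) (P.cons (P.cons (P.lf 0 23 0) (P.cons (P.lf 36 0 0) P.nil)) (P.cons (P.cons (P.lf 3 0 0) P.nil) P.nil)))))) 39761)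
 EL.nil)
noncomputable def S227_230_660_808_33 : EL := (EL.cons 14 (TM.mk (P.lf 8589934592 0 0) 0)
 EL.nil)
noncomputable def S227_230_660_808_34 : EL := (EL.cons 14 (TM.mk (P.cons (P.cons (P.lf 0 2948907830 0) (P.cons (P.lf 0 744611520 0) (P.cons (P.lf 321084888 0 0) (P.lf 35676096 0 0)))) (P.cons (P.cons (P.lf 0 87270110 0) (P.cons (P.lf 0 7031608 0) (P.cons (P.lf 3032112 0 0) (P.lf 336896 0 0)))) (P.cons (P.cons (P.lf 0 514950 0) (P.cons (P.lf 158720 0 0) (P.cons (P.lf 0 68440 0) (P.lf 0 7600 0)))) (P.cons (P.cons (P.lf 28008 0 0) (P.cons (P.lf 1688 0 0) (P.cons (P.lf 0 720 0) P.nil))) (P.cons (P.cons (P.lf 176 0 0) (P.cons (P.lf 0 8 0) P.nil)) (P.cons (P.cons (P.lf 0 0 0) P.nil) P.nil)))))) 956)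
 EL.nil)
noncomputable def S227_230_660_808_35 : EL := (EL.cons 14 (TM.mk (P.cons (P.cons (P.lf 1012354318 0 0) (P.cons (P.lf 511247370 0 0) (P.cons (P.lf 0 155909588 0) (P.cons (P.lf 0 80161034 0) (P.cons (P.lf 5816788 0 0) (P.cons (P.lf 2667086 0 0) P.nil)))))) (P.cons (P.cons (P.lf 59919316 0 0) (P.cons (P.lf 19957752 0 0) (P.cons (P.lf 0 7386950 0) (P.cons (P.lf 0 2007562 0) (P.cons (P.lf 109860 0 0) P.nil))))) (P.cons (P.cons (P.lf 1240190 0 0) (P.cons (P.lf 123174 0 0) (P.cons (P.lf 0 74876 0) (P.cons (P.lf 12862 0 0) P.nil)))) (P.cons (P.cons (P.lf 0 8766 0) (P.cons (P.lf 0 8396 0) (P.cons (P.lf 3062 0 0) P.nil))) (P.cons (P.cons (P.lf 0 658 0) (P.cons (P.lf 0 124 0) P.nil)) (P.cons (P.cons (P.lf 0 6 0) P.nil) P.nil)))))) 214272)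
 EL.nil)
noncomputable def S227_230_660_808_36 : EL := (EL.cons 14 (TM.mk (P.cons (P.lf 0 1819252272 0) (P.cons (P.lf 96409936 0 0) (P.cons (P.lf 226512 0 0) (P.cons (P.lf 0 3720 0) (P.cons (P.lf 0 8 0) (P.cons (P.lf 0 0 0) P.nil)))))) 72)
 EL.nil)
noncomputable def S227_230_660_808_37 : EL := (EL.cons 14 (TM.mk (P.cons (P.cons (P.lf 624545764 0 0) (P.cons (P.lf 157700408 0 0) (P.cons (P.lf 0 68002194 0) (P.lf 0 7555798 0)))) (P.cons (P.cons (P.lf 0 14614508 0) (P.cons (P.lf 0 6868000 0) (P.cons (P.lf 2961558 0 0) (P.lf 329062 0 0)))) (P.cons (P.cons (P.lf 0 948184 0) (P.cons (P.lf 0 132170 0) (P.cons (P.lf 56992 0 0) (P.lf 6330 0 0)))) (P.cons (P.cons (P.lf 0 12734 0) (P.cons (P.lf 1560 0 0) (P.cons (P.lf 0 674 0) P.nil))) (P.cons (P.cons (P.lf 304 0 0) (P.cons (P.lf 28 0 0) P.nil)) (P.cons (P.cons (P.lf 2 0 0) P.nil) P.nil)))))) 406)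
 EL.nil)
noncomputable def S227_230_660_808_38 : EL := (EL.cons 14 (TM.mk (P.cons (P.cons (P.lf 0 214405344 0) (P.cons (P.lf 0 108276486 0) (P.cons (P.lf 33019910 0 0) (P.cons (P.lf 16977212 0 0) (P.cons (P.lf 0 1231930 0) (P.cons (P.lf 0 564858 0) P.nil)))))) (P.cons (P.cons (P.lf 0 1327988 0) (P.cons (P.lf 1511202 0 0) (P.cons (P.lf 0 185392 0) (P.cons (P.lf 0 474514 0) (P.cons (P.lf 42018 0 0) P.nil))))) (P.cons (P.cons (P.lf 436546 0 0) (P.cons (P.lf 211392 0 0) (P.cons (P.lf 0 71160 0) (P.cons (P.lf 0 27368 0) P.nil)))) (P.cons (P.cons (P.lf 16916 0 0) (P.cons (P.lf 3464 0 0) (P.cons (P.lf 0 1616 0) P.nil))) (P.cons (P.cons (P.lf 46 0 0) (P.cons (P.lf 0 72 0) P.nil)) (P.cons (P.cons (P.lf 0 6 0) P.nil) P.nil)))))) 79522)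
 EL.nil)
noncomputable def S227_230_660_808_39 : EL := (EL.cons 14 (TM.mk (P.cons (P.lf 385297326 0 0) (P.cons (P.lf 0 40837096 0) (P.cons (P.lf 986120 0 0) (P.cons (P.lf 6660 0 0) (P.cons (P.lf 0 74 0) (P.cons (P.lf 0 0 0) P.nil)))))) 46)
 EL.nil)
noncomputable def S227_230_660_808_40 : EL := (EL.cons 14 (TM.mk (P.cons (P.cons (P.lf 0 132271822 0) (P.cons (P.lf 0 33399186 0) (P.cons (P.lf 14402106 0 0) (P.lf 1600232 0 0)))) (P.cons (P.cons (P.lf 10104836 0 0) (P.cons (P.lf 3224530 0 0) (P.cons (P.lf 0 1390454 0) (P.lf 0 154494 0)))) (P.cons (P.cons (P.lf 53256 0 0) (P.cons (P.lf 0 44932 0) (P.cons (P.lf 19374 0 0) (P.lf 2152 0 0)))) (P.cons (P.cons (P.lf 0 8600 0) (P.cons (P.lf 0 2062 0) (P.cons (P.lf 890 0 0) P.nil))) (P.cons (P.cons (P.lf 0 226 0) (P.cons (P.lf 10 0 0) P.nil)) (P.cons (P.cons (P.lf 2 0 0) P.nil) P.nil)))))) 228)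
 EL.nil)
noncomputable def S227_230_660_808_41 : EL := (EL.cons 14 (TM.mk (P.cons (P.cons (P.lf 45408658 0 0) (P.cons (P.lf 22931750 0 0) (P.cons (P.lf 0 6993248 0) (P.cons (P.lf 0 3595584 0) (P.cons (P.lf 260908 0 0) (P.cons (P.lf 119630 0 0) P.nil)))))) (P.cons (P.cons (P.lf 0 2125144 0) (P.cons (P.lf 0 1535306 0) (P.cons (P.lf 409866 0 0) (P.cons (P.lf 291042 0 0) (P.cons (P.lf 0 22724 0) P.nil))))) (P.cons (P.cons (P.lf 0 113014 0) (P.cons (P.lf 0 30664 0) (P.cons (P.lf 13860 0 0) (P.cons (P.lf 918 0 0) P.nil)))) (P.cons (P.cons (P.lf 1374 0 0) (P.cons (P.lf 1724 0 0) (P.cons (P.lf 0 474 0) P.nil))) (P.cons (P.cons (P.lf 192 0 0) (P.cons (P.lf 58 0 0) P.nil)) (P.cons (P.cons (P.lf 2 0 0) P.nil) P.nil)))))) 25292)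
 EL.nil)
noncomputable def S227_230_660_808_42 : EL := (EL.cons 14 (TM.mk (P.cons (P.lf 0 81601672 0) (P.cons (P.lf 12973260 0 0) (P.cons (P.lf 0 657028 0) (P.cons (P.lf 8412 0 0) (P.cons (P.lf 132 0 0) (P.cons (P.lf 0 0 0) P.nil)))))) 26)
 EL.nil)
noncomputable def S227_230_660_808_43 : EL := (EL.cons 14 (TM.mk (P.cons (P.cons (P.lf 28013694 0 0) (P.cons (P.lf 7073574 0 0) (P.cons (P.lf 0 3050204 0) (P.lf 0 338910 0)))) (P.cons (P.cons (P.lf 0 3624656 0) (P.cons (P.lf 0 1057778 0) (P.cons (P.lf 456124 0 0) (P.lf 50680 0 0)))) (P.cons (P.cons (P.lf 98644 0 0) (P.cons (P.lf 44826 0 0) (P.cons (P.lf 0 19328 0) (P.lf 0 2146 0)))) (P.cons (P.cons (P.lf 2742 0 0) (P.cons (P.lf 32 0 0) (P.cons (P.lf 0 14 0) P.nil))) (P.cons (P.cons (P.lf 0 50 0) (P.cons (P.lf 0 26 0) P.nil)) (P.cons (P.cons (P.lf 0 2 0) P.nil) P.nil)))))) 148)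
 EL.nil)
noncomputable def S227_230_660_808_44 : EL := (EL.cons 14 (TM.mk (P.cons (P.cons (P.lf 0 9617046 0) (P.cons (P.lf 0 4856688 0) (P.cons (P.lf 1481090 0 0) (P.cons (P.lf 761504 0 0) (P.cons (P.lf 0 55256 0) (P.cons (P.lf 0 25336 0) P.nil)))))) (P.cons (P.cons (P.lf 959730 0 0) (P.cons (P.lf 582536 0 0) (P.cons (P.lf 0 165294 0) (P.cons (P.lf 0 101994 0) (P.cons (P.lf 7740 0 0) P.nil))))) (P.cons (P.cons (P.lf 1280 0 0) (P.cons (P.lf 0 10132 0) (P.cons (P.lf 1480 0 0) (P.cons (P.lf 2976 0 0) P.nil)))) (P.cons (P.cons (P.lf 0 1634 0) (P.cons (P.lf 0 760 0) (P.cons (P.lf 270 0 0) P.nil))) (P.cons (P.cons (P.lf 0 26 0) (P.cons (P.lf 6 0 0) P.nil)) (P.cons (P.cons (P.lf 0 0 0) P.nil) P.nil)))))) 7562)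
 EL.nil)
noncomputable def S227_230_660_808_45 : EL := (EL.cons 14 (TM.mk (P.cons (P.cons (P.lf 0 347539266 0) (P.cons (P.lf 0 263265340 0) (P.cons (P.lf 47047388 0 0) (P.cons (P.lf 64348594 0 0) (P.cons (P.lf 1247360 0 0) (P.cons (P.lf 0 5063714 0) P.nil)))))) (P.cons (P.cons (P.lf 0 30855276 0) (P.cons (P.lf 0 18068272 0) (P.cons (P.lf 4568460 0 0) (P.cons (P.lf 3486582 0 0) (P.cons (P.lf 0 85378 0) P.nil))))) (P.cons (P.cons (P.lf 0 1095198 0) (P.cons (P.lf 0 413544 0) (P.cons (P.lf 151972 0 0) (P.cons (P.lf 44622 0 0) P.nil)))) (P.cons (P.cons (P.lf 0 9880 0) (P.cons (P.lf 3152 0 0) (P.cons (P.lf 288 0 0) P.nil))) (P.cons (P.cons (P.lf 456 0 0) (P.cons (P.lf 292 0 0) P.nil)) (P.cons (P.cons (P.lf 14 0 0) P.nil) P.nil)))))) 1242976)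
 EL.nil)
noncomputable def S227_230_660_808_46 : EL := (EL.cons 15 (TM.mk (P.lf 4294967296 0 0) 0)
 EL.nil)
noncomputable def S227_230_660_808_47 : EL := (EL.cons 15 (TM.mk (P.cons (P.cons (P.lf 0 1474453915 0) (P.cons (P.lf 0 372305760 0) (P.cons (P.lf 160542444 0 0) (P.lf 17838048 0 0)))) (P.cons (P.cons (P.lf 0 43635055 0) (P.cons (P.lf 0 3515804 0) (P.cons (P.lf 1516056 0 0) (P.lf 168448 0 0)))) (P.cons (P.cons (P.lf 0 257475 0) (P.cons (P.lf 79360 0 0) (P.cons (P.lf 0 34220 0) (P.lf 0 3800 0)))) (P.cons (P.cons (P.lf 14004 0 0) (P.cons (P.lf 844 0 0) (P.cons (P.lf 0 360 0) P.nil))) (P.cons (P.cons (P.lf 88 0 0) (P.cons (P.lf 0 4 0) P.nil)) (P.cons (P.cons (P.lf 0 0 0) P.nil) P.nil)))))) 478)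
 EL.nil)
noncomputable def S227_230_660_808_48 : EL := (EL.cons 15 (TM.mk (P.cons (P.cons (P.lf 506177159 0 0) (P.cons (P.lf 255623685 0 0) (P.cons (P.lf 0 77954794 0) (P.cons (P.lf 0 40080517 0) (P.cons (P.lf 2908394 0 0) (P.cons (P.lf 1333543 0 0) P.nil)))))) (P.cons (P.cons (P.lf 29959658 0 0) (P.cons (P.lf 9978876 0 0) (P.cons (P.lf 0 3693475 0) (P.cons (P.lf 0 1003781 0) (P.cons (P.lf 54930 0 0) P.nil))))) (P.cons (P.cons (P.lf 620095 0 0) (P.cons (P.lf 61587 0 0) (P.cons (P.lf 0 37438 0) (P.cons (P.lf 6431 0 0) P.nil)))) (P.cons (P.cons (P.lf 0 4383 0) (P.cons (P.lf 0 4198 0) (P.cons (P.lf 1531 0 0) P.nil))) (P.cons (P.cons (P.lf 0 329 0) (P.cons (P.lf 0 62 0) P.nil)) (P.cons (P.cons (P.lf 0 3 0) P.nil) P.nil)))))) 107136)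
 EL.nil)
noncomputable def S227_230_660_808 : SL := (SL.cons S227_230_660_808_0 (SL.cons S227_230_660_808_1 (SL.cons S227_230_660_808_2 (SL.cons S227_230_660_808_3 (SL.cons S227_230_660_808_4 (SL.cons S227_230_660_808_5 (SL.cons S227_230_660_808_6 (SL.cons S227_230_660_808_7 (SL.cons S227_230_660_808_8 (SL.cons S227_230_660_808_9 (SL.cons S227_230_660_808_10 (SL.cons S227_230_660_808_11 (SL.cons S227_230_660_808_12 (SL.cons S227_230_660_808_13 (SL.cons S227_230_660_808_14 (SL.cons S227_230_660_808_15 (SL.cons S227_230_660_808_16 (SL.cons S227_230_660_808_17 (SL.cons S227_230_660_808_18 (SL.cons S227_230_660_808_19 (SL.cons S227_230_660_808_20 (SL.cons S227_230_660_808_21 (SL.cons S227_230_660_808_22 (SL.cons S227_230_660_808_23 (SL.cons S227_230_660_808_24 (SL.cons S227_230_660_808_25 (SL.cons S227_230_660_808_26 (SL.cons S227_230_660_808_27 (SL.cons S227_230_660_808_28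 (SL.cons S227_230_660_808_29 (SL.cons S227_230_660_808_30 (SL.cons S227_230_660_808_31 (SL.cons S227_230_660_808_32 (SL.cons S227_230_660_808_33 (SL.cons S227_230_660_808_34 (SL.cons S227_230_660_808_35 (SL.cons S227_230_660_808_36 (SL.cons S227_230_660_808_37 (SL.cons S227_230_660_808_38 (SL.cons S227_230_660_808_39 (SL.cons S227_230_660_808_40 (SL.cons S227_230_660_808_41 (SL.cons S227_230_660_808_42 (SL.cons S227_230_660_808_43 (SL.cons S227_230_660_808_44 (SL.cons S227_230_660_808_45 (SL.cons S227_230_660_808_46 (SL.cons S227_230_660_808_47 (SL.cons S227_230_660_808_48 SL.nil)))))))))))))))))))))))))))))))))))))))))))))))))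
noncomputable def S227_234_660_808_0 : EL := (EL.cons 0 (TM.mk (P.cons (P.lf 8163378116 0 0) (P.cons (P.lf 78283633 0 0) (P.cons (P.lf 0 4842578 0) (P.cons (P.lf 0 70041 0) (P.cons (P.lf 1956 0 0) (P.cons (P.lf 33 0 0) P.nil)))))) 47)
 (EL.cons 1 (TM.mk (P.cons (P.lf 0 772920571 0) (P.cons (P.lf 98224066 0 0) (P.cons (P.lf 1574720 0 0) (P.cons (P.lf 0 62154 0) (P.cons (P.lf 0 965 0) (P.cons (P.lf 18 0 0) P.nil)))))) 72)
 (EL.cons 5 (TM.mk (P.cons (P.lf 4398909964 0 0) (P.cons (P.lf 0 27834178 0) (P.cons (P.lf 1721804 0 0) (P.cons (P.lf 24900 0 0) (P.cons (P.lf 0 692 0) (P.cons (P.lf 0 12 0) P.nil)))))) 115)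
 (EL.cons 9 (TM.mk (P.lf 6442450944 0 0) 2)
 EL.nil))))
noncomputable def S227_234_660_808_1 : EL := (EL.cons 0 (TM.mk (P.cons (P.cons (P.lf 0 1882017698 0) (P.cons (P.lf 0 639322360 0) (P.cons (P.lf 275683017 0 0) (P.lf 30631442 0 0)))) (P.cons (P.cons (P.lf 0 336945928 0) (P.cons (P.lf 0 40537043 0) (P.cons (P.lf 17480022 0 0) (P.lf 1942216 0 0)))) (P.cons (P.cons (P.lf 0 12001014 0) (P.cons (P.lf 1901765 0 0) (P.cons (P.lf 0 820063 0) (P.lf 0 91112 0)))) (P.cons (P.cons (P.lf 1127860 0 0) (P.cons (P.lf 109397 0 0) (P.cons (P.lf 0 47167 0) P.nil))) (P.cons (P.cons (P.lf 36203 0 0) (P.cons (P.lf 0 1897 0) P.nil)) (P.cons (P.cons (P.lf 0 1175 0) P.nil) P.nil)))))) 9328)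
 (EL.cons 1 (TM.mk (P.cons (P.cons (P.lf 1570562278 0 0) (P.cons (P.lf 164370395 0 0) (P.cons (P.lf 0 70878362 0) (P.lf 0 7875368 0)))) (P.cons (P.cons (P.lf 43705872 0 0) (P.cons (P.lf 0 16074193 0) (P.cons (P.lf 6931373 0 0) (P.lf 770149 0 0)))) (P.cons (P.cons (P.lf 0 11062038 0) (P.cons (P.lf 0 1223138 0) (P.cons (P.lf 527428 0 0) (P.lf 58595 0 0)))) (P.cons (P.cons (P.lf 0 423323 0) (P.cons (P.lf 31531 0 0) (P.cons (P.lf 0 13593 0) P.nil))) (P.cons (P.cons (P.lf 20433 0 0) (P.cons (P.lf 2210 0 0) P.nil)) (P.cons (P.cons (P.lf 744 0 0) P.nil) P.nil)))))) 5509)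
 (EL.cons 5 (TM.mk (P.cons (P.cons (P.lf 0 1937037177 0) (P.cons (P.lf 0 413331122 0) (P.cons (P.lf 178233044 0 0) (P.lf 19803672 0 0)))) (P.cons (P.cons (P.lf 0 55706611 0) (P.cons (P.lf 1324236 0 0) (P.cons (P.lf 0 571022 0) (P.lf 0 63438 0)))) (P.cons (P.cons (P.lf 2410994 0 0) (P.cons (P.lf 88920 0 0) (P.cons (P.lf 0 38346 0) (P.lf 0 4270 0)))) (P.cons (P.cons (P.lf 0 89021 0) (P.cons (P.lf 0 21566 0) (P.cons (P.lf 9296 0 0) P.nil))) (P.cons (P.cons (P.lf 0 9041 0) (P.cons (P.lf 230 0 0) P.nil)) (P.cons (P.cons (P.lf 241 0 0) P.nil) P.nil)))))) 6791)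
 (EL.cons 9 (TM.mk (P.cons (P.cons (P.lf 0 2299587373 0) (P.cons (P.lf 0 565275648 0) (P.cons (P.lf 243753234 0 0) (P.lf 27083688 0 0)))) (P.cons (P.cons (P.lf 0 154861407 0) (P.cons (P.lf 0 11549058 0) (P.cons (P.lf 4980078 0 0) (P.lf 553338 0 0)))) (P.cons (P.cons (P.lf 0 1637670 0) (P.cons (P.lf 675084 0 0) (P.cons (P.lf 0 291102 0) (P.lf 0 32340 0)))) (P.cons (P.cons (P.lf 275272 0 0) (P.cons (P.lf 15282 0 0) (P.cons (P.lf 0 6588 0) P.nil))) (P.cons (P.cons (P.lf 3381 0 0) (P.cons (P.lf 0 378 0) P.nil)) (P.cons (P.cons (P.lf 0 148 0) P.nil) P.nil)))))) 1691)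
 (EL.cons 2 (TM.mk (P.cons (P.cons (P.lf 223370662 0 0) (P.cons (P.lf 0 208090434 0) (P.cons (P.lf 0 21356848 0) (P.cons (P.lf 4441629 0 0) (P.lf 370133 0 0))))) (P.cons (P.cons (P.lf 0 26865106 0) (P.cons (P.lf 25027332 0 0) (P.cons (P.lf 2568616 0 0) (P.cons (P.lf 0 534200 0) (P.lf 0 44516 0))))) (P.cons (P.cons (P.lf 0 747686 0) (P.cons (P.lf 696538 0 0) (P.cons (P.lf 71485 0 0) (P.cons (P.lf 0 14866 0) P.nil)))) (P.cons (P.cons (P.lf 26794 0 0) (P.cons (P.lf 0 24960 0) (P.cons (P.lf 0 2559 0) P.nil))) (P.cons (P.cons (P.lf 708 0 0) (P.cons (P.lf 0 660 0) P.nil)) (P.cons (P.cons (P.lf 0 11 0) P.nil) P.nil)))))) 2276)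
 (EL.cons 6 (TM.mk (P.cons (P.cons (P.lf 590574399 0 0) (P.cons (P.lf 0 550174686 0) (P.cons (P.lf 0 56465820 0) (P.cons (P.lf 11743317 0 0) (P.lf 978606 0 0))))) (P.cons (P.cons (P.lf 12065931 0 0) (P.cons (P.lf 0 11240532 0) (P.cons (P.lf 0 1153641 0) (P.cons (P.lf 239925 0 0) (P.lf 19992 0 0))))) (P.cons (P.cons (P.lf 0 705303 0) (P.cons (P.lf 657054 0 0) (P.cons (P.lf 67434 0 0) (P.cons (P.lf 0 14022 0) P.nil)))) (P.cons (P.cons (P.lf 0 15969 0) (P.cons (P.lf 14877 0 0) (P.cons (P.lf 1524 0 0) P.nil))) (P.cons (P.cons (P.lf 399 0 0) (P.cons (P.lf 0 372 0) P.nil)) (P.cons (P.cons (P.lf 9 0 0) P.nil) P.nil)))))) 1977)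
 EL.nil))))))
noncomputable def S227_234_660_808_2 : EL := (EL.cons 0 (TM.mk (P.cons (P.cons (P.lf 303464045 0 0) (P.cons (P.lf 275330687 0 0) (P.cons (P.lf 0 69381970 0) (P.cons (P.lf 0 55746904 0) (P.cons (P.lf 4446785 0 0) (P.cons (P.lf 2038926 0 0) P.nil)))))) (P.cons (P.cons (P.lf 180960800 0 0) (P.cons (P.lf 75765197 0 0) (P.cons (P.lf 0 26435748 0) (P.cons (P.lf 0 9007329 0) (P.cons (P.lf 561884 0 0) P.nil))))) (P.cons (P.cons (P.lf 18798293 0 0) (P.cons (P.lf 3251738 0 0) (P.cons (P.lf 0 1588022 0) (P.cons (P.lf 4481 0 0) P.nil)))) (P.cons (P.cons (P.lf 0 35914 0) (P.cons (P.lf 0 302633 0) (P.cons (P.lf 102665 0 0) P.nil))) (P.cons (P.cons (P.lf 0 79370 0) (P.cons (P.lf 0 18687 0) P.nil)) (P.cons (P.cons (P.lf 0 2394 0) P.nil) P.nil)))))) 704394)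
 (EL.cons 1 (TM.mk (P.cons (P.cons (P.lf 0 1022725758 0) (P.cons (P.lf 0 344537076 0) (P.cons (P.lf 125674284 0 0) (P.cons (P.lf 36251868 0 0) (P.cons (P.lf 0 2063165 0) (P.cons (P.lf 0 945991 0) P.nil)))))) (P.cons (P.cons (P.lf 0 105957391 0) (P.cons (P.lf 0 11630711 0) (P.cons (P.lf 6733688 0 0) (P.cons (P.lf 0 924733 0) (P.cons (P.lf 154858 0 0) P.nil))))) (P.cons (P.cons (P.lf 3698079 0 0) (P.cons (P.lf 3080646 0 0) (P.cons (P.lf 0 1076437 0) (P.cons (P.lf 0 364888 0) P.nil)))) (P.cons (P.cons (P.lf 838188 0 0) (P.cons (P.lf 168503 0 0) (P.cons (P.lf 0 75527 0) P.nil))) (P.cons (P.cons (P.lf 16722 0 0) (P.cons (P.lf 0 6694 0) P.nil)) (P.cons (P.cons (P.lf 0 1965 0) P.nil) P.nil)))))) 340348)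
 (EL.cons 5 (TM.mk (P.cons (P.cons (P.lf 822366004 0 0) (P.cons (P.lf 359452587 0 0) (P.cons (P.lf 0 116332692 0) (P.cons (P.lf 0 50569785 0) (P.cons (P.lf 3484632 0 0) (P.cons (P.lf 1597750 0 0) P.nil)))))) (P.cons (P.cons (P.lf 60952210 0 0) (P.cons (P.lf 13204517 0 0) (P.cons (P.lf 0 5613947 0) (P.cons (P.lf 0 701667 0) (P.cons (P.lf 7213 0 0) P.nil))))) (P.cons (P.cons (P.lf 0 1139998 0) (P.cons (P.lf 0 747401 0) (P.cons (P.lf 277562 0 0) (P.cons (P.lf 74363 0 0) P.nil)))) (P.cons (P.cons (P.lf 0 120713 0) (P.cons (P.lf 10355 0 0) (P.cons (P.lf 0 349 0) P.nil))) (P.cons (P.cons (P.lf 10955 0 0) (P.cons (P.lf 3932 0 0) P.nil)) (P.cons (P.cons (P.lf 625 0 0) P.nil) P.nil)))))) 478318)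
 (EL.cons 9 (TM.mk (P.cons (P.cons (P.lf 820821474 0 0) (P.cons (P.lf 403542301 0 0) (P.cons (P.lf 0 124413388 0) (P.cons (P.lf 0 62109615 0) (P.cons (P.lf 4469748 0 0) (P.cons (P.lf 2049448 0 0) P.nil)))))) (P.cons (P.cons (P.lf 110553370 0 0) (P.cons (P.lf 35420509 0 0) (P.cons (P.lf 0 13247035 0) (P.cons (P.lf 0 3444931 0) (P.cons (P.lf 182641 0 0) P.nil))))) (P.cons (P.cons (P.lf 4891614 0 0) (P.cons (P.lf 360676 0 0) (P.cons (P.lf 0 253291 0) (P.cons (P.lf 67027 0 0) P.nil)))) (P.cons (P.cons (P.lf 0 117781 0) (P.cons (P.lf 0 85798 0) (P.cons (P.lf 31893 0 0) P.nil))) (P.cons (P.cons (P.lf 0 15231 0) (P.cons (P.lf 0 2388 0) P.nil)) (P.cons (P.cons (P.lf 0 195 0) P.nil) P.nil)))))) 261142)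
 (EL.cons 2 (TM.mk (P.cons (P.cons (P.lf 0 159461156 0) (P.cons (P.lf 109354696 0 0) (P.cons (P.lf 68665702 0 0) (P.cons (P.lf 0 13291346 0) (P.cons (P.lf 0 4409364 0) (P.cons (P.lf 91580 0 0) P.nil)))))) (P.cons (P.cons (P.lf 8440003 0 0) (P.cons (P.lf 0 3949081 0) (P.cons (P.lf 0 6140379 0) (P.cons (P.lf 1178263 0 0) (P.cons (P.lf 427837 0 0) P.nil))))) (P.cons (P.cons (P.lf 1711749 0 0) (P.cons (P.lf 0 1320311 0) (P.cons (P.lf 0 537530 0) (P.cons (P.lf 104866 0 0) P.nil)))) (P.cons (P.cons (P.lf 49561 0 0) (P.cons (P.lf 0 52762 0) (P.cons (P.lf 4241 0 0) P.nil))) (P.cons (P.cons (P.lf 0 3476 0) (P.cons (P.lf 2705 0 0) P.nil)) (P.cons (P.cons (P.lf 0 140 0) P.nil) P.nil)))))) 199619)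
 (EL.cons 6 (TM.mk (P.cons (P.cons (P.lf 0 421602720 0) (P.cons (P.lf 289125192 0 0) (P.cons (P.lf 181546698 0 0) (P.cons (P.lf 0 35141268 0) (P.cons (P.lf 0 11658012 0) (P.cons (P.lf 242136 0 0) P.nil)))))) (P.cons (P.cons (P.lf 0 37005744 0) (P.cons (P.lf 30239496 0 0) (P.cons (P.lf 9309336 0 0) (P.cons (P.lf 0 1829214 0) (P.cons (P.lf 0 509130 0) P.nil))))) (P.cons (P.cons (P.lf 0 376806 0) (P.cons (P.lf 555312 0 0) (P.cons (P.lf 0 242358 0) (P.cons (P.lf 45246 0 0) P.nil)))) (P.cons (P.cons (P.lf 89640 0 0) (P.cons (P.lf 0 72846 0) (P.cons (P.lf 0 23094 0) P.nil))) (P.cons (P.cons (P.lf 2484 0 0) (P.cons (P.lf 0 2490 0) P.nil)) (P.cons (P.cons (P.lf 0 90 0) P.nil) P.nil)))))) 292440)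
 EL.nil))))))
noncomputable def S227_234_660_808_3 : EL := (EL.cons 0 (TM.mk (P.cons (P.lf 292338747 0 0) (P.cons (P.lf 0 78283633 0) (P.cons (P.lf 4842578 0 0) (P.cons (P.lf 70041 0 0) (P.cons (P.lf 0 1956 0) (P.cons (P.lf 0 33 0) P.nil)))))) 47)
 (EL.cons 1 (TM.mk (P.cons (P.lf 772920571 0 0) (P.cons (P.lf 0 98224066 0) (P.cons (P.lf 0 1574720 0) (P.cons (P.lf 62154 0 0) (P.cons (P.lf 965 0 0) (P.cons (P.lf 0 18 0) P.nil)))))) 72)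
 (EL.cons 5 (TM.mk (P.cons (P.lf 2043540980 0 0) (P.cons (P.lf 27834178 0 0) (P.cons (P.lf 0 1721804 0) (P.cons (P.lf 0 24900 0) (P.cons (P.lf 692 0 0) (P.cons (P.lf 12 0 0) P.nil)))))) 108)
 EL.nil)))
noncomputable def S227_234_660_808_4 : EL := (EL.cons 0 (TM.mk (P.cons (P.cons (P.lf 0 104348250 0) (P.cons (P.lf 0 25650481 0) (P.cons (P.lf 11060776 0 0) (P.lf 1228974 0 0)))) (P.cons (P.cons (P.lf 20915651 0 0) (P.cons (P.lf 6344725 0 0) (P.cons (P.lf 0 2735917 0) (P.lf 0 303990 0)))) (P.cons (P.cons (P.lf 78916 0 0) (P.cons (P.lf 0 253930 0) (P.cons (P.lf 109497 0 0) (P.lf 12165 0 0)))) (P.cons (P.cons (P.lf 0 109014 0) (P.cons (P.lf 0 22334 0) (P.cons (P.lf 9631 0 0) P.nil))) (P.cons (P.cons (P.lf 0 5407 0) (P.cons (P.lf 349 0 0) P.nil)) (P.cons (P.cons (P.lf 198 0 0) P.nil) P.nil)))))) 1789)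
 (EL.cons 1 (TM.mk (P.cons (P.cons (P.lf 0 275888540 0) (P.cons (P.lf 0 67817850 0) (P.cons (P.lf 29243820 0 0) (P.lf 3249311 0 0)))) (P.cons (P.cons (P.lf 16481188 0 0) (P.cons (P.lf 7232831 0 0) (P.cons (P.lf 0 3118878 0) (P.lf 0 346541 0)))) (P.cons (P.cons (P.lf 2726685 0 0) (P.cons (P.lf 395240 0 0) (P.cons (P.lf 0 170431 0) (P.lf 0 18935 0)))) (P.cons (P.cons (P.lf 73659 0 0) (P.cons (P.lf 0 11088 0) (P.cons (P.lf 4781 0 0) P.nil))) (P.cons (P.cons (P.lf 0 5229 0) (P.cons (P.lf 0 637 0) P.nil)) (P.cons (P.cons (P.lf 0 166 0) P.nil) P.nil)))))) 1567)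
 (EL.cons 5 (TM.mk (P.cons (P.cons (P.lf 0 729427522 0) (P.cons (P.lf 0 179305042 0) (P.cons (P.lf 77318356 0 0) (P.lf 8590926 0 0)))) (P.cons (P.cons (P.lf 0 59057144 0) (P.cons (P.lf 0 6105588 0) (P.cons (P.lf 2632796 0 0) (P.lf 292530 0 0)))) (P.cons (P.cons (P.lf 0 573950 0) (P.cons (P.lf 315312 0 0) (P.cons (P.lf 0 135966 0) (P.lf 0 15104 0)))) (P.cons (P.cons (P.lf 130516 0 0) (P.cons (P.lf 13034 0 0) (P.cons (P.lf 0 5618 0) P.nil))) (P.cons (P.cons (P.lf 3050 0 0) (P.cons (P.lf 0 248 0) P.nil)) (P.cons (P.cons (P.lf 0 120 0) P.nil) P.nil)))))) 1224)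
 EL.nil)))
noncomputable def S227_234_660_808_5 : EL := (EL.cons 0 (TM.mk (P.cons (P.cons (P.lf 37246369 0 0) (P.cons (P.lf 18311516 0 0) (P.cons (P.lf 0 5645497 0) (P.cons (P.lf 0 2818342 0) (P.cons (P.lf 202823 0 0) (P.cons (P.lf 92997 0 0) P.nil)))))) (P.cons (P.cons (P.lf 0 4957405 0) (P.cons (P.lf 0 3296255 0) (P.cons (P.lf 910662 0 0) (P.cons (P.lf 598385 0 0) (P.cons (P.lf 0 46024 0) P.nil))))) (P.cons (P.cons (P.lf 0 504406 0) (P.cons (P.lf 0 110705 0) (P.cons (P.lf 55956 0 0) (P.cons (P.lf 0 1782 0) P.nil)))) (P.cons (P.cons (P.lf 27239 0 0) (P.cons (P.lf 22735 0 0) (P.cons (P.lf 0 6783 0) P.nil))) (P.cons (P.cons (P.lf 5368 0 0) (P.cons (P.lf 1467 0 0) P.nil)) (P.cons (P.cons (P.lf 101 0 0) P.nil) P.nil)))))) 52636)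
 (EL.cons 1 (TM.mk (P.cons (P.cons (P.lf 98476464 0 0) (P.cons (P.lf 48414204 0 0) (P.cons (P.lf 0 14926254 0) (P.cons (P.lf 0 7451478 0) (P.cons (P.lf 536248 0 0) (P.cons (P.lf 245876 0 0) P.nil)))))) (P.cons (P.cons (P.lf 748867 0 0) (P.cons (P.lf 0 1903051 0) (P.cons (P.lf 307565 0 0) (P.cons (P.lf 533645 0 0) (P.cons (P.lf 0 46233 0) P.nil))))) (P.cons (P.cons (P.lf 0 1299307 0) (P.cons (P.lf 0 595398 0) (P.cons (P.lf 201990 0 0) (P.cons (P.lf 75744 0 0) P.nil)))) (P.cons (P.cons (P.lf 0 107812 0) (P.cons (P.lf 0 20555 0) (P.cons (P.lf 9723 0 0) P.nil))) (P.cons (P.cons (P.lf 0 37 0) (P.cons (P.lf 1335 0 0) P.nil)) (P.cons (P.cons (P.lf 296 0 0) P.nil) P.nil)))))) 78173)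
 (EL.cons 5 (TM.mk (P.cons (P.cons (P.lf 260364002 0 0) (P.cons (P.lf 128003338 0 0) (P.cons (P.lf 0 39463840 0) (P.cons (P.lf 0 19701126 0) (P.cons (P.lf 1417800 0 0) (P.cons (P.lf 650082 0 0) P.nil)))))) (P.cons (P.cons (P.lf 38613756 0 0) (P.cons (P.lf 12978836 0 0) (P.cons (P.lf 0 4739468 0) (P.cons (P.lf 0 1361068 0) (P.cons (P.lf 77244 0 0) P.nil))))) (P.cons (P.cons (P.lf 1809880 0 0) (P.cons (P.lf 159586 0 0) (P.cons (P.lf 0 104326 0) (P.cons (P.lf 22976 0 0) P.nil)))) (P.cons (P.cons (P.lf 0 48944 0) (P.cons (P.lf 0 36682 0) (P.cons (P.lf 13042 0 0) P.nil))) (P.cons (P.cons (P.lf 0 6986 0) (P.cons (P.lf 0 1316 0) P.nil)) (P.cons (P.cons (P.lf 0 100 0) P.nil) P.nil)))))) 97584)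
 EL.nil)))
noncomputable def S227_234_660_808_6 : EL := (EL.cons 12 (TM.mk (P.lf 8589934592 0 0) 0)
 (EL.cons 3 (TM.mk (P.cons (P.lf 0 792333693 0) (P.cons (P.lf 106087136 0 0) (P.cons (P.lf 539621 0 0) (P.cons (P.lf 0 22668 0) (P.cons (P.lf 0 198 0) (P.cons (P.lf 3 0 0) P.nil)))))) 40)
 (EL.cons 7 (TM.mk (P.cons (P.lf 0 2094867738 0) (P.cons (P.lf 0 14266639 0) (P.cons (P.lf 931105 0 0) (P.cons (P.lf 6422 0 0) (P.cons (P.lf 0 192 0) (P.cons (P.lf 0 2 0) P.nil)))))) 48)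
 EL.nil)))
noncomputable def S227_234_660_808_7 : EL := (EL.cons 12 (TM.mk (P.cons (P.cons (P.lf 0 3066116498 0) (P.cons (P.lf 0 753700864 0) (P.cons (P.lf 325004312 0 0) (P.lf 36111584 0 0)))) (P.cons (P.cons (P.lf 0 206481876 0) (P.cons (P.lf 0 15398744 0) (P.cons (P.lf 6640104 0 0) (P.lf 737784 0 0)))) (P.cons (P.cons (P.lf 0 2183560 0) (P.cons (P.lf 900112 0 0) (P.cons (P.lf 0 388136 0) (P.lf 0 43120 0)))) (P.cons (P.cons (P.lf 367030 0 0) (P.cons (P.lf 20376 0 0) (P.cons (P.lf 0 8784 0) P.nil))) (P.cons (P.cons (P.lf 4508 0 0) (P.cons (P.lf 0 504 0) P.nil)) (P.cons (P.cons (P.lf 0 198 0) P.nil) P.nil)))))) 2230)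
 (EL.cons 3 (TM.mk (P.cons (P.cons (P.lf 0 2513812938 0) (P.cons (P.lf 0 139042406 0) (P.cons (P.lf 59956650 0 0) (P.lf 6661848 0 0)))) (P.cons (P.cons (P.lf 0 87611387 0) (P.cons (P.lf 15775910 0 0) (P.cons (P.lf 0 6802750 0) (P.lf 0 755860 0)))) (P.cons (P.cons (P.lf 12830700 0 0) (P.cons (P.lf 641100 0 0) (P.cons (P.lf 0 276448 0) (P.lf 0 30714 0)))) (P.cons (P.cons (P.lf 243467 0 0) (P.cons (P.lf 0 20516 0) (P.cons (P.lf 8846 0 0) P.nil))) (P.cons (P.cons (P.lf 0 12316 0) (P.cons (P.lf 0 824 0) P.nil)) (P.cons (P.cons (P.lf 0 264 0) P.nil) P.nil)))))) 4751)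
 (EL.cons 7 (TM.mk (P.cons (P.cons (P.lf 1123840276 0 0) (P.cons (P.lf 211856293 0 0) (P.cons (P.lf 0 91354826 0) (P.lf 0 10150539 0)))) (P.cons (P.cons (P.lf 11782020 0 0) (P.cons (P.lf 0 2121550 0) (P.cons (P.lf 914833 0 0) (P.lf 101645 0 0)))) (P.cons (P.cons (P.lf 0 2554352 0) (P.cons (P.lf 63034 0 0) (P.cons (P.lf 0 27180 0) (P.lf 0 3017 0)))) (P.cons (P.cons (P.lf 131937 0 0) (P.cons (P.lf 10333 0 0) (P.cons (P.lf 0 4456 0) P.nil))) (P.cons (P.cons (P.lf 4383 0 0) (P.cons (P.lf 0 187 0) P.nil)) (P.cons (P.cons (P.lf 0 135 0) P.nil) P.nil)))))) 4264)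
 (EL.cons 10 (TM.mk (P.cons (P.cons (P.lf 0 1210815216 0) (P.cons (P.lf 1127986386 0 0) (P.cons (P.lf 115768098 0 0) (P.cons (P.lf 0 24076542 0) (P.lf 0 2006376 0))))) (P.cons (P.cons (P.lf 0 16491984 0) (P.cons (P.lf 15363807 0 0) (P.cons (P.lf 1576824 0 0) (P.cons (P.lf 0 327936 0) (P.lf 0 27327 0))))) (P.cons (P.cons (P.lf 1020183 0 0) (P.cons (P.lf 0 950394 0) (P.cons (P.lf 0 97539 0) (P.cons (P.lf 20283 0 0) P.nil)))) (P.cons (P.cons (P.lf 14751 0 0) (P.cons (P.lf 0 13743 0) (P.cons (P.lf 0 1410 0) P.nil))) (P.cons (P.cons (P.lf 0 408 0) (P.cons (P.lf 381 0 0) P.nil)) (P.cons (P.cons (P.lf 0 6 0) P.nil) P.nil)))))) 2304)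
 EL.nil))))
noncomputable def S227_234_660_808_8 : EL := (EL.cons 12 (TM.mk (P.cons (P.cons (P.lf 1094428632 0 0) (P.cons (P.lf 538056402 0 0) (P.cons (P.lf 0 165884518 0) (P.cons (P.lf 0 82812820 0) (P.cons (P.lf 5959664 0 0) (P.cons (P.lf 2732598 0 0) P.nil)))))) (P.cons (P.cons (P.lf 147404494 0 0) (P.cons (P.lf 47227346 0 0) (P.cons (P.lf 0 17662714 0) (P.cons (P.lf 0 4593242 0) (P.cons (P.lf 243522 0 0) P.nil))))) (P.cons (P.cons (P.lf 6522152 0 0) (P.cons (P.lf 480902 0 0) (P.cons (P.lf 0 337722 0) (P.cons (P.lf 89370 0 0) P.nil)))) (P.cons (P.cons (P.lf 0 157042 0) (P.cons (P.lf 0 114398 0) (P.cons (P.lf 42524 0 0) P.nil))) (P.cons (P.cons (P.lf 0 20308 0) (P.cons (P.lf 0 3184 0) P.nil)) (P.cons (P.cons (P.lf 0 260 0) P.nil) P.nil)))))) 348160)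
 (EL.cons 3 (TM.mk (P.cons (P.cons (P.lf 1895525411 0 0) (P.cons (P.lf 590026214 0 0) (P.cons (P.lf 0 223926193 0) (P.cons (P.lf 0 54573223 0) (P.cons (P.lf 2748591 0 0) (P.cons (P.lf 1260271 0 0) P.nil)))))) (P.cons (P.cons (P.lf 183477040 0 0) (P.cons (P.lf 17520686 0 0) (P.cons (P.lf 0 10392510 0) (P.cons (P.lf 1607585 0 0) (P.cons (P.lf 0 255701 0) P.nil))))) (P.cons (P.cons (P.lf 0 4957307 0) (P.cons (P.lf 0 4182425 0) (P.cons (P.lf 1555752 0 0) (P.cons (P.lf 414052 0 0) P.nil)))) (P.cons (P.cons (P.lf 0 1062330 0) (P.cons (P.lf 0 173129 0) (P.cons (P.lf 79586 0 0) P.nil))) (P.cons (P.cons (P.lf 0 19486 0) (P.cons (P.lf 7529 0 0) P.nil)) (P.cons (P.cons (P.lf 2031 0 0) P.nil) P.nil)))))) 510453)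
 (EL.cons 7 (TM.mk (P.cons (P.cons (P.lf 0 535390244 0) (P.cons (P.lf 0 217239594 0) (P.cons (P.lf 72626425 0 0) (P.cons (P.lf 28562231 0 0) (P.cons (P.lf 0 1896967 0) (P.cons (P.lf 0 869787 0) P.nil)))))) (P.cons (P.cons (P.lf 0 24674070 0) (P.cons (P.lf 0 2356190 0) (P.cons (P.lf 1397593 0 0) (P.cons (P.lf 0 216185 0) (P.cons (P.lf 34388 0 0) P.nil))))) (P.cons (P.cons (P.lf 2402502 0 0) (P.cons (P.lf 728213 0 0) (P.cons (P.lf 0 307540 0) (P.cons (P.lf 0 40470 0) P.nil)))) (P.cons (P.cons (P.lf 74394 0 0) (P.cons (P.lf 0 30037 0) (P.cons (P.lf 9254 0 0) P.nil))) (P.cons (P.cons (P.lf 0 11988 0) (P.cons (P.lf 0 3249 0) P.nil)) (P.cons (P.cons (P.lf 0 519 0) P.nil) P.nil)))))) 210183)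
 (EL.cons 10 (TM.mk (P.cons (P.cons (P.lf 864383880 0 0) (P.cons (P.lf 0 592774056 0) (P.cons (P.lf 0 372213066 0) (P.cons (P.lf 72047796 0 0) (P.cons (P.lf 23901648 0 0) (P.cons (P.lf 0 496440 0) P.nil)))))) (P.cons (P.cons (P.lf 69983706 0 0) (P.cons (P.lf 0 57961068 0) (P.cons (P.lf 0 16551444 0) (P.cons (P.lf 3259650 0 0) (P.cons (P.lf 881070 0 0) P.nil))))) (P.cons (P.cons (P.lf 680136 0 0) (P.cons (P.lf 0 1007262 0) (P.cons (P.lf 444180 0 0) (P.cons (P.lf 0 82944 0) P.nil)))) (P.cons (P.cons (P.lf 0 154662 0) (P.cons (P.lf 128634 0 0) (P.cons (P.lf 35832 0 0) P.nil))) (P.cons (P.cons (P.lf 0 3612 0) (P.cons (P.lf 3660 0 0) P.nil)) (P.cons (P.cons (P.lf 138 0 0) P.nil) P.nil)))))) 571482)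
 EL.nil))))
noncomputable def S227_234_660_808_9 : EL := (EL.cons 3 (TM.mk (P.cons (P.lf 0 792333693 0) (P.cons (P.lf 106087136 0 0) (P.cons (P.lf 539621 0 0) (P.cons (P.lf 0 22668 0) (P.cons (P.lf 0 198 0) (P.cons (P.lf 3 0 0) P.nil)))))) 40)
 (EL.cons 7 (TM.mk (P.cons (P.lf 0 2094867738 0) (P.cons (P.lf 0 14266639 0) (P.cons (P.lf 931105 0 0) (P.cons (P.lf 6422 0 0) (P.cons (P.lf 0 192 0) (P.cons (P.lf 0 2 0) P.nil)))))) 48)
 EL.nil))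
noncomputable def S227_234_660_808_10 : EL := (EL.cons 3 (TM.mk (P.cons (P.cons (P.lf 282817917 0 0) (P.cons (P.lf 69521203 0 0) (P.cons (P.lf 0 29978325 0) (P.lf 0 3330924 0)))) (P.cons (P.cons (P.lf 0 18821210 0) (P.cons (P.lf 0 7887955 0) (P.cons (P.lf 3401375 0 0) (P.lf 377930 0 0)))) (P.cons (P.cons (P.lf 0 2541288 0) (P.cons (P.lf 0 320550 0) (P.cons (P.lf 138224 0 0) (P.lf 15357 0 0)))) (P.cons (P.cons (P.lf 0 65701 0) (P.cons (P.lf 10258 0 0) (P.cons (P.lf 0 4423 0) P.nil))) (P.cons (P.cons (P.lf 4595 0 0) (P.cons (P.lf 412 0 0) P.nil)) (P.cons (P.cons (P.lf 105 0 0) P.nil) P.nil)))))) 1141)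
 (EL.cons 7 (TM.mk (P.cons (P.cons (P.lf 747748246 0 0) (P.cons (P.lf 183808573 0 0) (P.cons (P.lf 0 79260329 0) (P.lf 0 8806701 0)))) (P.cons (P.cons (P.lf 55448082 0 0) (P.cons (P.lf 5007152 0 0) (P.cons (P.lf 0 2159138 0) (P.lf 0 239902 0)))) (P.cons (P.cons (P.lf 543100 0 0) (P.cons (P.lf 0 275636 0) (P.cons (P.lf 118857 0 0) (P.lf 13204 0 0)))) (P.cons (P.cons (P.lf 0 110556 0) (P.cons (P.lf 0 8696 0) (P.cons (P.lf 3749 0 0) P.nil))) (P.cons (P.cons (P.lf 0 2031 0) (P.cons (P.lf 191 0 0) P.nil)) (P.cons (P.cons (P.lf 84 0 0) P.nil) P.nil)))))) 852)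
 EL.nil))
noncomputable def S227_234_660_808_11 : EL := (EL.cons 3 (TM.mk (P.cons (P.cons (P.lf 0 100949857 0) (P.cons (P.lf 0 49630204 0) (P.cons (P.lf 15301151 0 0) (P.cons (P.lf 7638635 0 0) (P.cons (P.lf 0 549717 0) (P.cons (P.lf 0 252053 0) P.nil)))))) (P.cons (P.cons (P.lf 0 80180 0) (P.cons (P.lf 2288846 0 0) (P.cons (P.lf 0 419496 0) (P.cons (P.lf 0 599071 0) (P.cons (P.lf 51139 0 0) P.nil))))) (P.cons (P.cons (P.lf 1287619 0 0) (P.cons (P.lf 572707 0 0) (P.cons (P.lf 0 197406 0) (P.cons (P.lf 0 70172 0) P.nil)))) (P.cons (P.cons (P.lf 101406 0 0) (P.cons (P.lf 18037 0 0) (P.cons (P.lf 0 8764 0) P.nil))) (P.cons (P.cons (P.lf 0 70 0) (P.cons (P.lf 0 1225 0) P.nil)) (P.cons (P.cons (P.lf 0 255 0) P.nil) P.nil)))))) 76115)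
 (EL.cons 7 (TM.mk (P.cons (P.cons (P.lf 0 266903456 0) (P.cons (P.lf 0 131218344 0) (P.cons (P.lf 40455037 0 0) (P.cons (P.lf 20195951 0 0) (P.cons (P.lf 0 1453411 0) (P.cons (P.lf 0 666411 0) P.nil)))))) (P.cons (P.cons (P.lf 0 37765914 0) (P.cons (P.lf 0 12411188 0) (P.cons (P.lf 4582999 0 0) (P.cons (P.lf 1257715 0 0) (P.cons (P.lf 0 69286 0) P.nil))))) (P.cons (P.cons (P.lf 0 1716774 0) (P.cons (P.lf 0 137395 0) (P.cons (P.lf 93716 0 0) (P.cons (P.lf 0 23142 0) P.nil)))) (P.cons (P.cons (P.lf 44262 0 0) (P.cons (P.lf 32621 0 0) (P.cons (P.lf 0 11848 0) P.nil))) (P.cons (P.cons (P.lf 6006 0 0) (P.cons (P.lf 1041 0 0) P.nil)) (P.cons (P.cons (P.lf 81 0 0) P.nil) P.nil)))))) 92351)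
 EL.nil))
noncomputable def S227_234_660_808_12 : EL := (EL.cons 4 (TM.mk (P.cons (P.lf 792333693 0 0) (P.cons (P.lf 0 106087136 0) (P.cons (P.lf 0 539621 0) (P.cons (P.lf 22668 0 0) (P.cons (P.lf 198 0 0) (P.cons (P.lf 0 3 0) P.nil)))))) 40)
 (EL.cons 8 (TM.mk (P.cons (P.lf 2094867738 0 0) (P.cons (P.lf 14266639 0 0) (P.cons (P.lf 0 931105 0) (P.cons (P.lf 0 6422 0) (P.cons (P.lf 192 0 0) (P.cons (P.lf 2 0 0) P.nil)))))) 48)
 EL.nil))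
noncomputable def S227_234_660_808_13 : EL := (EL.cons 4 (TM.mk (P.cons (P.cons (P.lf 0 282817917 0) (P.cons (P.lf 0 69521203 0) (P.cons (P.lf 29978325 0 0) (P.lf 3330924 0 0)))) (P.cons (P.cons (P.lf 18821210 0 0) (P.cons (P.lf 7887955 0 0) (P.cons (P.lf 0 3401375 0) (P.lf 0 377930 0)))) (P.cons (P.cons (P.lf 2541288 0 0) (P.cons (P.lf 320550 0 0) (P.cons (P.lf 0 138224 0) (P.lf 0 15357 0)))) (P.cons (P.cons (P.lf 65701 0 0) (P.cons (P.lf 0 10258 0) (P.cons (P.lf 4423 0 0) P.nil))) (P.cons (P.cons (P.lf 0 4595 0) (P.cons (P.lf 0 412 0) P.nil)) (P.cons (P.cons (P.lf 0 105 0) P.nil) P.nil)))))) 1141)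
 (EL.cons 8 (TM.mk (P.cons (P.cons (P.lf 0 747748246 0) (P.cons (P.lf 0 183808573 0) (P.cons (P.lf 79260329 0 0) (P.lf 8806701 0 0)))) (P.cons (P.cons (P.lf 0 55448082 0) (P.cons (P.lf 0 5007152 0) (P.cons (P.lf 2159138 0 0) (P.lf 239902 0 0)))) (P.cons (P.cons (P.lf 0 543100 0) (P.cons (P.lf 275636 0 0) (P.cons (P.lf 0 118857 0) (P.lf 0 13204 0)))) (P.cons (P.cons (P.lf 110556 0 0) (P.cons (P.lf 8696 0 0) (P.cons (P.lf 0 3749 0) P.nil))) (P.cons (P.cons (P.lf 2031 0 0) (P.cons (P.lf 0 191 0) P.nil)) (P.cons (P.cons (P.lf 0 84 0) P.nil) P.nil)))))) 852)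
 EL.nil))
noncomputable def S227_234_660_808_14 : EL := (EL.cons 4 (TM.mk (P.cons (P.cons (P.lf 100949857 0 0) (P.cons (P.lf 49630204 0 0) (P.cons (P.lf 0 15301151 0) (P.cons (P.lf 0 7638635 0) (P.cons (P.lf 549717 0 0) (P.cons (P.lf 252053 0 0) P.nil)))))) (P.cons (P.cons (P.lf 80180 0 0) (P.cons (P.lf 0 2288846 0) (P.cons (P.lf 419496 0 0) (P.cons (P.lf 599071 0 0) (P.cons (P.lf 0 51139 0) P.nil))))) (P.cons (P.cons (P.lf 0 1287619 0) (P.cons (P.lf 0 572707 0) (P.cons (P.lf 197406 0 0) (P.cons (P.lf 70172 0 0) P.nil)))) (P.cons (P.cons (P.lf 0 101406 0) (P.cons (P.lf 0 18037 0) (P.cons (P.lf 8764 0 0) P.nil))) (P.cons (P.cons (P.lf 70 0 0) (P.cons (P.lf 1225 0 0) P.nil)) (P.cons (P.cons (P.lf 255 0 0) P.nil) P.nil)))))) 76115)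
 (EL.cons 8 (TM.mk (P.cons (P.cons (P.lf 266903456 0 0) (P.cons (P.lf 131218344 0 0) (P.cons (P.lf 0 40455037 0) (P.cons (P.lf 0 20195951 0) (P.cons (P.lf 1453411 0 0) (P.cons (P.lf 666411 0 0) P.nil)))))) (P.cons (P.cons (P.lf 37765914 0 0) (P.cons (P.lf 12411188 0 0) (P.cons (P.lf 0 4582999 0) (P.cons (P.lf 0 1257715 0) (P.cons (P.lf 69286 0 0) P.nil))))) (P.cons (P.cons (P.lf 1716774 0 0) (P.cons (P.lf 137395 0 0) (P.cons (P.lf 0 93716 0) (P.cons (P.lf 23142 0 0) P.nil)))) (P.cons (P.cons (P.lf 0 44262 0) (P.cons (P.lf 0 32621 0) (P.cons (P.lf 11848 0 0) P.nil))) (P.cons (P.cons (P.lf 0 6006 0) (P.cons (P.lf 0 1041 0) P.nil)) (P.cons (P.cons (P.lf 0 81 0) P.nil) P.nil)))))) 92351)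
 EL.nil))
noncomputable def S227_234_660_808_15 : EL := (EL.cons 4 (TM.mk (P.cons (P.lf 0 155913998 0) (P.cons (P.lf 41751270 0 0) (P.cons (P.lf 0 2582708 0) (P.cons (P.lf 0 37355 0) (P.cons (P.lf 1043 0 0) (P.cons (P.lf 17 0 0) P.nil)))))) 28)
 (EL.cons 8 (TM.mk (P.cons (P.lf 0 412224305 0) (P.cons (P.lf 52386169 0 0) (P.cons (P.lf 839851 0 0) (P.cons (P.lf 0 33149 0) (P.cons (P.lf 0 515 0) (P.cons (P.lf 10 0 0) P.nil)))))) 35)
 EL.nil))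
noncomputable def S227_234_660_808_16 : EL := (EL.cons 4 (TM.mk (P.cons (P.cons (P.lf 55652400 0 0) (P.cons (P.lf 13680256 0 0) (P.cons (P.lf 0 5899080 0) (P.lf 0 655453 0)))) (P.cons (P.cons (P.lf 0 11155014 0) (P.cons (P.lf 0 3383853 0) (P.cons (P.lf 1459155 0 0) (P.lf 162128 0 0)))) (P.cons (P.cons (P.lf 0 42089 0) (P.cons (P.lf 135429 0 0) (P.cons (P.lf 0 58398 0) (P.lf 0 6488 0)))) (P.cons (P.cons (P.lf 58140 0 0) (P.cons (P.lf 11911 0 0) (P.cons (P.lf 0 5136 0) P.nil))) (P.cons (P.cons (P.lf 2883 0 0) (P.cons (P.lf 0 186 0) P.nil)) (P.cons (P.cons (P.lf 0 105 0) P.nil) P.nil)))))) 963)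
 (EL.cons 8 (TM.mk (P.cons (P.cons (P.lf 147140555 0 0) (P.cons (P.lf 36169520 0 0) (P.cons (P.lf 0 15596704 0) (P.lf 0 1732966 0)))) (P.cons (P.cons (P.lf 0 8789967 0) (P.cons (P.lf 0 3857510 0) (P.cons (P.lf 1663402 0 0) (P.lf 184822 0 0)))) (P.cons (P.cons (P.lf 0 1454232 0) (P.cons (P.lf 0 210795 0) (P.cons (P.lf 90897 0 0) (P.lf 10099 0 0)))) (P.cons (P.cons (P.lf 0 39285 0) (P.cons (P.lf 5914 0 0) (P.cons (P.lf 0 2550 0) P.nil))) (P.cons (P.cons (P.lf 2789 0 0) (P.cons (P.lf 340 0 0) P.nil)) (P.cons (P.cons (P.lf 89 0 0) P.nil) P.nil)))))) 826)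
 EL.nil))
noncomputable def S227_234_660_808_17 : EL := (EL.cons 4 (TM.mk (P.cons (P.cons (P.lf 0 19864730 0) (P.cons (P.lf 0 9766141 0) (P.cons (P.lf 3010932 0 0) (P.cons (P.lf 1503116 0 0) (P.cons (P.lf 0 108172 0) (P.cons (P.lf 0 49598 0) P.nil)))))) (P.cons (P.cons (P.lf 2643949 0 0) (P.cons (P.lf 1758002 0 0) (P.cons (P.lf 0 485686 0) (P.cons (P.lf 0 319139 0) (P.cons (P.lf 24546 0 0) P.nil))))) (P.cons (P.cons (P.lf 269016 0 0) (P.cons (P.lf 59042 0 0) (P.cons (P.lf 0 29843 0) (P.cons (P.lf 950 0 0) P.nil)))) (P.cons (P.cons (P.lf 0 14527 0) (P.cons (P.lf 0 12125 0) (P.cons (P.lf 3617 0 0) P.nil))) (P.cons (P.cons (P.lf 0 2863 0) (P.cons (P.lf 0 782 0) P.nil)) (P.cons (P.cons (P.lf 0 54 0) P.nil) P.nil)))))) 28083)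
 (EL.cons 8 (TM.mk (P.cons (P.cons (P.lf 0 52520781 0) (P.cons (P.lf 0 25820909 0) (P.cons (P.lf 7960669 0 0) (P.cons (P.lf 3974122 0 0) (P.cons (P.lf 0 285999 0) (P.cons (P.lf 0 131134 0) P.nil)))))) (P.cons (P.cons (P.lf 0 399396 0) (P.cons (P.lf 1014961 0 0) (P.cons (P.lf 0 164035 0) (P.cons (P.lf 0 284611 0) (P.cons (P.lf 24658 0 0) P.nil))))) (P.cons (P.cons (P.lf 692964 0 0) (P.cons (P.lf 317546 0 0) (P.cons (P.lf 0 107728 0) (P.cons (P.lf 0 40397 0) P.nil)))) (P.cons (P.cons (P.lf 57500 0 0) (P.cons (P.lf 10963 0 0) (P.cons (P.lf 0 5186 0) P.nil))) (P.cons (P.cons (P.lf 20 0 0) (P.cons (P.lf 0 712 0) P.nil)) (P.cons (P.cons (P.lf 0 158 0) P.nil) P.nil)))))) 41681)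
 EL.nil))
noncomputable def S227_234_660_808_18 : EL := (EL.cons 4 (TM.mk (P.cons (P.lf 30680475 0 0) (P.cons (P.lf 0 12323610 0) (P.cons (P.lf 1587346 0 0) (P.cons (P.lf 0 54222 0) (P.cons (P.lf 0 1762 0) (P.cons (P.lf 30 0 0) P.nil)))))) 20)
 (EL.cons 8 (TM.mk (P.cons (P.lf 81116757 0 0) (P.cons (P.lf 0 21169340 0) (P.cons (P.lf 1159710 0 0) (P.cons (P.lf 37991 0 0) (P.cons (P.lf 0 933 0) (P.cons (P.lf 0 27 0) P.nil)))))) 21)
 EL.nil))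
noncomputable def S227_234_660_808_19 : EL := (EL.cons 4 (TM.mk (P.cons (P.cons (P.lf 0 10951178 0) (P.cons (P.lf 0 2691975 0) (P.cons (P.lf 1160809 0 0) (P.lf 128978 0 0)))) (P.cons (P.cons (P.lf 3661338 0 0) (P.cons (P.lf 1026302 0 0) (P.cons (P.lf 0 442552 0) (P.lf 0 49171 0)))) (P.cons (P.cons (P.lf 0 278160 0) (P.cons (P.lf 0 113970 0) (P.cons (P.lf 49144 0 0) (P.lf 5460 0 0)))) (P.cons (P.cons (P.lf 0 14357 0) (P.cons (P.lf 692 0 0) (P.cons (P.lf 0 298 0) P.nil))) (P.cons (P.cons (P.lf 1018 0 0) (P.cons (P.lf 386 0 0) P.nil)) (P.cons (P.cons (P.lf 105 0 0) P.nil) P.nil)))))) 722)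
 (EL.cons 8 (TM.mk (P.cons (P.cons (P.lf 0 28954053 0) (P.cons (P.lf 0 7117372 0) (P.cons (P.lf 3069091 0 0) (P.lf 341009 0 0)))) (P.cons (P.cons (P.lf 5606389 0 0) (P.cons (P.lf 1712032 0 0) (P.cons (P.lf 0 738247 0) (P.lf 0 82027 0)))) (P.cons (P.cons (P.lf 74290 0 0) (P.cons (P.lf 0 55306 0) (P.cons (P.lf 23848 0 0) (P.lf 2649 0 0)))) (P.cons (P.cons (P.lf 0 32590 0) (P.cons (P.lf 0 7437 0) (P.cons (P.lf 3207 0 0) P.nil))) (P.cons (P.cons (P.lf 0 1736 0) (P.cons (P.lf 80 0 0) P.nil)) (P.cons (P.cons (P.lf 58 0 0) P.nil) P.nil)))))) 618)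
 EL.nil))
noncomputable def S227_234_660_808_20 : EL := (EL.cons 4 (TM.mk (P.cons (P.cons (P.lf 3908945 0 0) (P.cons (P.lf 1921763 0 0) (P.cons (P.lf 0 592485 0) (P.cons (P.lf 0 295780 0) (P.cons (P.lf 21285 0 0) (P.cons (P.lf 9759 0 0) P.nil)))))) (P.cons (P.cons (P.lf 0 1043647 0) (P.cons (P.lf 0 603244 0) (P.cons (P.lf 174900 0 0) (P.cons (P.lf 102402 0 0) (P.cons (P.lf 0 7680 0) P.nil))))) (P.cons (P.cons (P.lf 14060 0 0) (P.cons (P.lf 33390 0 0) (P.cons (P.lf 0 6520 0) (P.cons (P.lf 0 8393 0) P.nil)))) (P.cons (P.cons (P.lf 10411 0 0) (P.cons (P.lf 4231 0 0) (P.cons (P.lf 0 1579 0) P.nil))) (P.cons (P.cons (P.lf 202 0 0) (P.cons (P.lf 0 166 0) P.nil)) (P.cons (P.cons (P.lf 0 67 0) P.nil) P.nil)))))) 9730)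
 (EL.cons 8 (TM.mk (P.cons (P.cons (P.lf 10334944 0 0) (P.cons (P.lf 5080991 0 0) (P.cons (P.lf 0 1566485 0) (P.cons (P.lf 0 782020 0) (P.cons (P.lf 56278 0 0) (P.cons (P.lf 25804 0 0) P.nil)))))) (P.cons (P.cons (P.lf 0 1305173 0) (P.cons (P.lf 0 880026 0) (P.cons (P.lf 242018 0 0) (P.cons (P.lf 160711 0 0) (P.cons (P.lf 0 12387 0) P.nil))))) (P.cons (P.cons (P.lf 0 153921 0) (P.cons (P.lf 0 39205 0) (P.cons (P.lf 17943 0 0) (P.cons (P.lf 983 0 0) P.nil)))) (P.cons (P.cons (P.lf 7184 0 0) (P.cons (P.lf 6490 0 0) (P.cons (P.lf 0 1883 0) P.nil))) (P.cons (P.cons (P.lf 1608 0 0) (P.cons (P.lf 467 0 0) P.nil)) (P.cons (P.cons (P.lf 35 0 0) P.nil) P.nil)))))) 15141)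
 EL.nil))
noncomputable def S227_234_660_808_21 : EL := (EL.cons 4 (TM.mk (P.cons (P.cons (P.lf 2796630855 0 0) (P.cons (P.lf 208563609 0 0) (P.cons (P.lf 0 89934975 0) (P.lf 0 9992772 0)))) (P.cons (P.cons (P.lf 68790177 0 0) (P.cons (P.lf 0 23663865 0) (P.cons (P.lf 10204125 0 0) (P.lf 1133790 0 0)))) (P.cons (P.cons (P.lf 0 15371988 0) (P.cons (P.lf 0 961650 0) (P.cons (P.lf 414672 0 0) (P.lf 46071 0 0)))) (P.cons (P.cons (P.lf 0 309168 0) (P.cons (P.lf 30774 0 0) (P.cons (P.lf 0 13269 0) P.nil))) (P.cons (P.cons (P.lf 16911 0 0) (P.cons (P.lf 1236 0 0) P.nil)) (P.cons (P.cons (P.lf 369 0 0) P.nil) P.nil)))))) 3591)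
 (EL.cons 8 (TM.mk (P.cons (P.cons (P.lf 0 376092030 0) (P.cons (P.lf 0 28047720 0) (P.cons (P.lf 12094497 0 0) (P.lf 1343838 0 0)))) (P.cons (P.cons (P.lf 43666062 0 0) (P.cons (P.lf 7128702 0 0) (P.cons (P.lf 0 3073971 0) (P.lf 0 341547 0)))) (P.cons (P.cons (P.lf 3097452 0 0) (P.cons (P.lf 0 338670 0) (P.cons (P.lf 146037 0 0) (P.lf 16221 0 0)))) (P.cons (P.cons (P.lf 0 242493 0) (P.cons (P.lf 0 19029 0) (P.cons (P.lf 8205 0 0) P.nil))) (P.cons (P.cons (P.lf 0 6414 0) (P.cons (P.lf 378 0 0) P.nil)) (P.cons (P.cons (P.lf 219 0 0) P.nil) P.nil)))))) 3393)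
 (EL.cons 11 (TM.mk (P.cons (P.cons (P.lf 1210815216 0 0) (P.cons (P.lf 0 1127986386 0) (P.cons (P.lf 0 115768098 0) (P.cons (P.lf 24076542 0 0) (P.lf 2006376 0 0))))) (P.cons (P.cons (P.lf 16491984 0 0) (P.cons (P.lf 0 15363807 0) (P.cons (P.lf 0 1576824 0) (P.cons (P.lf 327936 0 0) (P.lf 27327 0 0))))) (P.cons (P.cons (P.lf 0 1020183 0) (P.cons (P.lf 950394 0 0) (P.cons (P.lf 97539 0 0) (P.cons (P.lf 0 20283 0) P.nil)))) (P.cons (P.cons (P.lf 0 14751 0) (P.cons (P.lf 13743 0 0) (P.cons (P.lf 1410 0 0) P.nil))) (P.cons (P.cons (P.lf 408 0 0) (P.cons (P.lf 0 381 0) P.nil)) (P.cons (P.cons (P.lf 6 0 0) P.nil) P.nil)))))) 2304)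
 EL.nil)))
noncomputable def S227_234_660_808_22 : EL := (EL.cons 4 (TM.mk (P.cons (P.cons (P.lf 0 998237634 0) (P.cons (P.lf 0 319828209 0) (P.cons (P.lf 119613672 0 0) (P.cons (P.lf 31105929 0 0) (P.cons (P.lf 0 1649154 0) (P.cons (P.lf 0 756162 0) P.nil)))))) (P.cons (P.cons (P.lf 0 91778610 0) (P.cons (P.lf 0 7615920 0) (P.cons (P.lf 4986507 0 0) (P.cons (P.lf 0 1103328 0) (P.cons (P.lf 153420 0 0) P.nil))))) (P.cons (P.cons (P.lf 3122463 0 0) (P.cons (P.lf 2377566 0 0) (P.cons (P.lf 0 876579 0) (P.cons (P.lf 0 242112 0) P.nil)))) (P.cons (P.cons (P.lf 581868 0 0) (P.cons (P.lf 95583 0 0) (P.cons (P.lf 0 44175 0) P.nil))) (P.cons (P.cons (P.lf 9708 0 0) (P.cons (P.lf 0 4377 0) P.nil)) (P.cons (P.cons (P.lf 0 1143 0) P.nil) P.nil)))))) 217158)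
 (EL.cons 8 (TM.mk (P.cons (P.cons (P.lf 134243394 0 0) (P.cons (P.lf 43010625 0 0) (P.cons (P.lf 0 16085694 0) (P.cons (P.lf 0 4183140 0) (P.cons (P.lf 221778 0 0) (P.cons (P.lf 101688 0 0) P.nil)))))) (P.cons (P.cons (P.lf 0 6545922 0) (P.cons (P.lf 0 5027499 0) (P.cons (P.lf 1592703 0 0) (P.cons (P.lf 736950 0 0) (P.cons (P.lf 0 51837 0) P.nil))))) (P.cons (P.cons (P.lf 0 2059638 0) (P.cons (P.lf 0 432804 0) (P.cons (P.lf 200628 0 0) (P.cons (P.lf 8664 0 0) P.nil)))) (P.cons (P.cons (P.lf 0 15066 0) (P.cons (P.lf 31329 0 0) (P.cons (P.lf 0 10551 0) P.nil))) (P.cons (P.cons (P.lf 8997 0 0) (P.cons (P.lf 2145 0 0) P.nil)) (P.cons (P.cons (P.lf 300 0 0) P.nil) P.nil)))))) 58905)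
 (EL.cons 11 (TM.mk (P.cons (P.cons (P.lf 0 432191940 0) (P.cons (P.lf 296387028 0 0) (P.cons (P.lf 186106533 0 0) (P.cons (P.lf 0 36023898 0) (P.cons (P.lf 0 11950824 0) (P.cons (P.lf 248220 0 0) P.nil)))))) (P.cons (P.cons (P.lf 0 34991853 0) (P.cons (P.lf 28980534 0 0) (P.cons (P.lf 8275722 0 0) (P.cons (P.lf 0 1629825 0) (P.cons (P.lf 0 440535 0) P.nil))))) (P.cons (P.cons (P.lf 0 340068 0) (P.cons (P.lf 503631 0 0) (P.cons (P.lf 0 222090 0) (P.cons (P.lf 41472 0 0) P.nil)))) (P.cons (P.cons (P.lf 77331 0 0) (P.cons (P.lf 0 64317 0) (P.cons (P.lf 0 17916 0) P.nil))) (P.cons (P.cons (P.lf 1806 0 0) (P.cons (P.lf 0 1830 0) P.nil)) (P.cons (P.cons (P.lf 0 69 0) P.nil) P.nil)))))) 285741)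
 EL.nil)))
noncomputable def S227_234_660_808_23 : EL := (EL.cons 4 (TM.mk (P.cons (P.cons (P.lf 0 550315989 0) (P.cons (P.lf 0 41040771 0) (P.cons (P.lf 17697240 0 0) (P.lf 1966359 0 0)))) (P.cons (P.cons (P.lf 60146496 0 0) (P.cons (P.lf 10151562 0 0) (P.cons (P.lf 0 4377468 0) (P.lf 0 486384 0)))) (P.cons (P.cons (P.lf 5212083 0 0) (P.cons (P.lf 0 406287 0) (P.cons (P.lf 175197 0 0) (P.lf 19467 0 0)))) (P.cons (P.cons (P.lf 0 350694 0) (P.cons (P.lf 0 35736 0) (P.cons (P.lf 15408 0 0) P.nil))) (P.cons (P.cons (P.lf 0 14058 0) (P.cons (P.lf 561 0 0) P.nil)) (P.cons (P.cons (P.lf 417 0 0) P.nil) P.nil)))))) 2850)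
 (EL.cons 8 (TM.mk (P.cons (P.cons (P.lf 74006712 0 0) (P.cons (P.lf 5519178 0 0) (P.cons (P.lf 0 2379933 0) (P.lf 0 264438 0)))) (P.cons (P.cons (P.lf 0 18501435 0) (P.cons (P.lf 0 2141745 0) (P.cons (P.lf 923544 0 0) (P.lf 102615 0 0)))) (P.cons (P.cons (P.lf 490557 0 0) (P.cons (P.lf 250704 0 0) (P.cons (P.lf 0 108105 0) (P.lf 0 12009 0)))) (P.cons (P.cons (P.lf 137295 0 0) (P.cons (P.lf 0 4065 0) (P.cons (P.lf 1752 0 0) P.nil))) (P.cons (P.cons (P.lf 0 4938 0) (P.cons (P.lf 0 657 0) P.nil)) (P.cons (P.cons (P.lf 0 264 0) P.nil) P.nil)))))) 1581)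
 (EL.cons 11 (TM.mk (P.cons (P.cons (P.lf 0 238262040 0) (P.cons (P.lf 221963130 0 0) (P.cons (P.lf 22780638 0 0) (P.cons (P.lf 0 4737738 0) (P.lf 0 394809 0))))) (P.cons (P.cons (P.lf 28656114 0 0) (P.cons (P.lf 0 26695821 0) (P.cons (P.lf 0 2739858 0) (P.cons (P.lf 569814 0 0) (P.lf 47484 0 0))))) (P.cons (P.cons (P.lf 797532 0 0) (P.cons (P.lf 0 742974 0) (P.cons (P.lf 0 76251 0) (P.cons (P.lf 15858 0 0) P.nil)))) (P.cons (P.cons (P.lf 0 28581 0) (P.cons (P.lf 26625 0 0) (P.cons (P.lf 2730 0 0) P.nil))) (P.cons (P.cons (P.lf 0 756 0) (P.cons (P.lf 705 0 0) P.nil)) (P.cons (P.cons (P.lf 12 0 0) P.nil) P.nil)))))) 2406)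
 EL.nil)))
noncomputable def S227_234_660_808_24 : EL := (EL.cons 4 (TM.mk (P.cons (P.cons (P.lf 196431405 0 0) (P.cons (P.lf 62935218 0 0) (P.cons (P.lf 0 23537361 0) (P.cons (P.lf 0 6120966 0) (P.cons (P.lf 324516 0 0) (P.cons (P.lf 148794 0 0) P.nil)))))) (P.cons (P.cons (P.lf 0 8240559 0) (P.cons (P.lf 0 6927873 0) (P.cons (P.lf 2170227 0 0) (P.cons (P.lf 1036659 0 0) (P.cons (P.lf 0 73638 0) P.nil))))) (P.cons (P.cons (P.lf 0 3166305 0) (P.cons (P.lf 0 711372 0) (P.cons (P.lf 319899 0 0) (P.cons (P.lf 22740 0 0) P.nil)))) (P.cons (P.cons (P.lf 0 38910 0) (P.cons (P.lf 44610 0 0) (P.cons (P.lf 0 14406 0) P.nil))) (P.cons (P.cons (P.lf 14403 0 0) (P.cons (P.lf 3756 0 0) P.nil)) (P.cons (P.cons (P.lf 543 0 0) P.nil) P.nil)))))) 82410)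
 (EL.cons 8 (TM.mk (P.cons (P.cons (P.lf 0 26416173 0) (P.cons (P.lf 0 8463552 0) (P.cons (P.lf 3165312 0 0) (P.cons (P.lf 823149 0 0) (P.cons (P.lf 0 43641 0) (P.cons (P.lf 0 20010 0) P.nil)))))) (P.cons (P.cons (P.lf 4825008 0 0) (P.cons (P.lf 2122503 0 0) (P.cons (P.lf 0 737217 0) (P.cons (P.lf 0 255228 0) (P.cons (P.lf 16041 0 0) P.nil))))) (P.cons (P.cons (P.lf 250815 0 0) (P.cons (P.lf 0 41526 0) (P.cons (P.lf 327 0 0) (P.cons (P.lf 17148 0 0) P.nil)))) (P.cons (P.cons (P.lf 0 52932 0) (P.cons (P.lf 0 18483 0) (P.cons (P.lf 7665 0 0) P.nil))) (P.cons (P.cons (P.lf 0 2412 0) (P.cons (P.lf 369 0 0) P.nil)) (P.cons (P.cons (P.lf 186 0 0) P.nil) P.nil)))))) 20463)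
 (EL.cons 11 (TM.mk (P.cons (P.cons (P.lf 85045950 0 0) (P.cons (P.lf 0 58322505 0) (P.cons (P.lf 0 36621708 0) (P.cons (P.lf 7088718 0 0) (P.cons (P.lf 2351661 0 0) (P.cons (P.lf 0 48843 0) P.nil)))))) (P.cons (P.cons (P.lf 0 4501335 0) (P.cons (P.lf 2106177 0 0) (P.cons (P.lf 3274869 0 0) (P.cons (P.lf 0 628407 0) (P.cons (P.lf 0 228180 0) P.nil))))) (P.cons (P.cons (P.lf 0 912933 0) (P.cons (P.lf 704166 0 0) (P.cons (P.lf 286683 0 0) (P.cons (P.lf 0 55929 0) P.nil)))) (P.cons (P.cons (P.lf 0 26433 0) (P.cons (P.lf 28140 0 0) (P.cons (P.lf 0 2262 0) P.nil))) (P.cons (P.cons (P.lf 1854 0 0) (P.cons (P.lf 0 1443 0) P.nil)) (P.cons (P.cons (P.lf 75 0 0) P.nil) P.nil)))))) 106452)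
 EL.nil)))
noncomputable def S227_234_660_808_25 : EL := (EL.cons 4 (TM.mk (P.cons (P.cons (P.lf 108290190 0 0) (P.cons (P.lf 8075928 0 0) (P.cons (P.lf 0 3482430 0) (P.lf 0 386934 0)))) (P.cons (P.cons (P.lf 0 26334708 0) (P.cons (P.lf 0 3078906 0) (P.cons (P.lf 1327659 0 0) (P.lf 147516 0 0)))) (P.cons (P.cons (P.lf 485304 0 0) (P.cons (P.lf 341910 0 0) (P.cons (P.lf 0 147435 0) (P.lf 0 16380 0)))) (P.cons (P.cons (P.lf 217488 0 0) (P.cons (P.lf 0 2079 0) (P.cons (P.lf 897 0 0) P.nil))) (P.cons (P.cons (P.lf 0 6084 0) (P.cons (P.lf 0 1161 0) P.nil)) (P.cons (P.cons (P.lf 0 531 0) P.nil) P.nil)))))) 2202)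
 (EL.cons 8 (TM.mk (P.cons (P.cons (P.lf 0 14562906 0) (P.cons (P.lf 0 1086054 0) (P.cons (P.lf 468318 0 0) (P.lf 52035 0 0)))) (P.cons (P.cons (P.lf 5590533 0 0) (P.cons (P.lf 566862 0 0) (P.cons (P.lf 0 244437 0) (P.lf 0 27159 0)))) (P.cons (P.cons (P.lf 0 574068 0) (P.cons (P.lf 0 105021 0) (P.cons (P.lf 45285 0 0) (P.lf 5031 0 0)))) (P.cons (P.cons (P.lf 0 16986 0) (P.cons (P.lf 7086 0 0) (P.cons (P.lf 0 3054 0) P.nil))) (P.cons (P.cons (P.lf 4755 0 0) (P.cons (P.lf 66 0 0) P.nil)) (P.cons (P.cons (P.lf 0 60 0) P.nil) P.nil)))))) 891)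
 (EL.cons 11 (TM.mk (P.cons (P.cons (P.lf 46884774 0 0) (P.cons (P.lf 0 43677504 0) (P.cons (P.lf 0 4482732 0) (P.cons (P.lf 932283 0 0) (P.lf 77688 0 0))))) (P.cons (P.cons (P.lf 0 11916393 0) (P.cons (P.lf 11101224 0 0) (P.cons (P.lf 1139346 0 0) (P.cons (P.lf 0 236952 0) (P.lf 0 19746 0))))) (P.cons (P.cons (P.lf 566133 0 0) (P.cons (P.lf 0 527406 0) (P.cons (P.lf 0 54129 0) (P.cons (P.lf 11256 0 0) P.nil)))) (P.cons (P.cons (P.lf 31818 0 0) (P.cons (P.lf 0 29640 0) (P.cons (P.lf 0 3042 0) P.nil))) (P.cons (P.cons (P.lf 0 645 0) (P.cons (P.lf 600 0 0) P.nil)) (P.cons (P.cons (P.lf 0 30 0) P.nil) P.nil)))))) 2619)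
 EL.nil)))
noncomputable def S227_234_660_808_26 : EL := (EL.cons 4 (TM.mk (P.cons (P.cons (P.lf 0 38653416 0) (P.cons (P.lf 0 12384279 0) (P.cons (P.lf 4631637 0 0) (P.cons (P.lf 1204473 0 0) (P.cons (P.lf 0 63858 0) (P.cons (P.lf 0 29277 0) P.nil)))))) (P.cons (P.cons (P.lf 6796944 0 0) (P.cons (P.lf 3021408 0 0) (P.cons (P.lf 0 1047192 0) (P.cons (P.lf 0 365259 0) (P.cons (P.lf 23040 0 0) P.nil))))) (P.cons (P.cons (P.lf 432270 0 0) (P.cons (P.lf 0 34110 0) (P.cons (P.lf 0 8925 0) (P.cons (P.lf 22017 0 0) P.nil)))) (P.cons (P.cons (P.lf 0 77973 0) (P.cons (P.lf 0 28803 0) (P.cons (P.lf 11685 0 0) P.nil))) (P.cons (P.cons (P.lf 0 4245 0) (P.cons (P.lf 375 0 0) P.nil)) (P.cons (P.cons (P.lf 282 0 0) P.nil) P.nil)))))) 28533)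
 (EL.cons 8 (TM.mk (P.cons (P.cons (P.lf 5198127 0 0) (P.cons (P.lf 1665441 0 0) (P.cons (P.lf 0 622863 0) (P.cons (P.lf 0 161976 0) (P.cons (P.lf 8586 0 0) (P.cons (P.lf 3936 0 0) P.nil)))))) (P.cons (P.cons (P.lf 0 1645443 0) (P.cons (P.lf 0 640650 0) (P.cons (P.lf 228465 0 0) (P.cons (P.lf 71910 0 0) (P.cons (P.lf 0 4305 0) P.nil))))) (P.cons (P.cons (P.lf 74229 0 0) (P.cons (P.lf 62958 0 0) (P.cons (P.lf 0 19062 0) (P.cons (P.lf 0 9987 0) P.nil)))) (P.cons (P.cons (P.lf 17817 0 0) (P.cons (P.lf 2874 0 0) (P.cons (P.lf 0 1614 0) P.nil))) (P.cons (P.cons (P.lf 0 909 0) (P.cons (P.lf 0 576 0) P.nil)) (P.cons (P.cons (P.lf 0 108 0) P.nil) P.nil)))))) 6750)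
 (EL.cons 11 (TM.mk (P.cons (P.cons (P.lf 0 16735188 0) (P.cons (P.lf 11476596 0 0) (P.cons (P.lf 7206351 0 0) (P.cons (P.lf 0 1394904 0) (P.cons (P.lf 0 462753 0) (P.cons (P.lf 9609 0 0) P.nil)))))) (P.cons (P.cons (P.lf 3126471 0 0) (P.cons (P.lf 0 1951074 0) (P.cons (P.lf 0 1609293 0) (P.cons (P.lf 310422 0 0) (P.cons (P.lf 106860 0 0) P.nil))))) (P.cons (P.cons (P.lf 72444 0 0) (P.cons (P.lf 0 90888 0) (P.cons (P.lf 24960 0 0) (P.cons (P.lf 0 4599 0) P.nil)))) (P.cons (P.cons (P.lf 0 19932 0) (P.cons (P.lf 13623 0 0) (P.cons (P.lf 8643 0 0) P.nil))) (P.cons (P.cons (P.lf 0 1161 0) (P.cons (P.lf 1110 0 0) P.nil)) (P.cons (P.cons (P.lf 33 0 0) P.nil) P.nil)))))) 36771)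
 EL.nil)))
noncomputable def S227_234_660_808_27 : EL := (EL.cons 13 (TM.mk (P.lf 0 4294967296 0) 0)
 EL.nil)
noncomputable def S227_234_660_808_28 : EL := (EL.cons 13 (TM.mk (P.cons (P.cons (P.lf 1533058249 0 0) (P.cons (P.lf 376850432 0 0) (P.cons (P.lf 0 162502156 0) (P.lf 0 18055792 0)))) (P.cons (P.cons (P.lf 103240938 0 0) (P.cons (P.lf 7699372 0 0) (P.cons (P.lf 0 3320052 0) (P.lf 0 368892 0)))) (P.cons (P.cons (P.lf 1091780 0 0) (P.cons (P.lf 0 450056 0) (P.cons (P.lf 194068 0 0) (P.lf 21560 0 0)))) (P.cons (P.cons (P.lf 0 183515 0) (P.cons (P.lf 0 10188 0) (P.cons (P.lf 4392 0 0) P.nil))) (P.cons (P.cons (P.lf 0 2254 0) (P.cons (P.lf 252 0 0) P.nil)) (P.cons (P.cons (P.lf 99 0 0) P.nil) P.nil)))))) 1115)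
 EL.nil)
noncomputable def S227_234_660_808_29 : EL := (EL.cons 13 (TM.mk (P.cons (P.cons (P.lf 0 547214316 0) (P.cons (P.lf 0 269028201 0) (P.cons (P.lf 82942259 0 0) (P.cons (P.lf 41406410 0 0) (P.cons (P.lf 0 2979832 0) (P.cons (P.lf 0 1366299 0) P.nil)))))) (P.cons (P.cons (P.lf 0 73702247 0) (P.cons (P.lf 0 23613673 0) (P.cons (P.lf 8831357 0 0) (P.cons (P.lf 2296621 0 0) (P.cons (P.lf 0 121761 0) P.nil))))) (P.cons (P.cons (P.lf 0 3261076 0) (P.cons (P.lf 0 240451 0) (P.cons (P.lf 168861 0 0) (P.cons (P.lf 0 44685 0) P.nil)))) (P.cons (P.cons (P.lf 78521 0 0) (P.cons (P.lf 57199 0 0) (P.cons (P.lf 0 21262 0) P.nil))) (P.cons (P.cons (P.lf 10154 0 0) (P.cons (P.lf 1592 0 0) P.nil)) (P.cons (P.cons (P.lf 130 0 0) P.nil) P.nil)))))) 174080)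
 EL.nil)
noncomputable def S227_234_660_808_30 : EL := (EL.cons 13 (TM.mk (P.cons (P.lf 845155940 0 0) (P.cons (P.lf 0 113159612 0) (P.cons (P.lf 0 575596 0) (P.cons (P.lf 24180 0 0) (P.cons (P.lf 212 0 0) (P.cons (P.lf 0 4 0) P.nil)))))) 36)
 EL.nil)
noncomputable def S227_234_660_808_31 : EL := (EL.cons 13 (TM.mk (P.cons (P.cons (P.lf 0 301672445 0) (P.cons (P.lf 0 74155950 0) (P.cons (P.lf 31976881 0 0) (P.lf 3552986 0 0)))) (P.cons (P.cons (P.lf 20075958 0 0) (P.cons (P.lf 8413819 0 0) (P.cons (P.lf 0 3628134 0) (P.lf 0 403126 0)))) (P.cons (P.cons (P.lf 2710708 0 0) (P.cons (P.lf 341920 0 0) (P.cons (P.lf 0 147439 0) (P.lf 0 16381 0)))) (P.cons (P.cons (P.lf 70082 0 0) (P.cons (P.lf 0 10942 0) (P.cons (P.lf 4718 0 0) P.nil))) (P.cons (P.cons (P.lf 0 4902 0) (P.cons (P.lf 0 440 0) P.nil)) (P.cons (P.cons (P.lf 0 113 0) P.nil) P.nil)))))) 1197)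
 EL.nil)
noncomputable def S227_234_660_808_32 : EL := (EL.cons 13 (TM.mk (P.cons (P.cons (P.lf 107679848 0 0) (P.cons (P.lf 52938885 0 0) (P.cons (P.lf 0 16321228 0) (P.cons (P.lf 0 8147878 0) (P.cons (P.lf 586365 0 0) (P.cons (P.lf 268857 0 0) P.nil)))))) (P.cons (P.cons (P.lf 85526 0 0) (P.cons (P.lf 0 2441436 0) (P.cons (P.lf 447463 0 0) (P.cons (P.lf 639010 0 0) (P.cons (P.lf 0 54549 0) P.nil))))) (P.cons (P.cons (P.lf 0 1373461 0) (P.cons (P.lf 0 610888 0) (P.cons (P.lf 210567 0 0) (P.cons (P.lf 74851 0 0) P.nil)))) (P.cons (P.cons (P.lf 0 108167 0) (P.cons (P.lf 0 19240 0) (P.cons (P.lf 9349 0 0) P.nil))) (P.cons (P.cons (P.lf 75 0 0) (P.cons (P.lf 1307 0 0) P.nil)) (P.cons (P.cons (P.lf 273 0 0) P.nil) P.nil)))))) 81166)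
 EL.nil)
noncomputable def S227_234_660_808_33 : EL := (EL.cons 14 (TM.mk (P.lf 8589934592 0 0) 0)
 EL.nil)
noncomputable def S227_234_660_808_34 : EL := (EL.cons 14 (TM.mk (P.cons (P.cons (P.lf 0 3066116498 0) (P.cons (P.lf 0 753700864 0) (P.cons (P.lf 325004312 0 0) (P.lf 36111584 0 0)))) (P.cons (P.cons (P.lf 0 206481876 0) (P.cons (P.lf 0 15398744 0) (P.cons (P.lf 6640104 0 0) (P.lf 737784 0 0)))) (P.cons (P.cons (P.lf 0 2183560 0) (P.cons (P.lf 900112 0 0) (P.cons (P.lf 0 388136 0) (P.lf 0 43120 0)))) (P.cons (P.cons (P.lf 367030 0 0) (P.cons (P.lf 20376 0 0) (P.cons (P.lf 0 8784 0) P.nil))) (P.cons (P.cons (P.lf 4508 0 0) (P.cons (P.lf 0 504 0) P.nil)) (P.cons (P.cons (P.lf 0 198 0) P.nil) P.nil)))))) 2230)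
 EL.nil)
noncomputable def S227_234_660_808_35 : EL := (EL.cons 14 (TM.mk (P.cons (P.cons (P.lf 1094428632 0 0) (P.cons (P.lf 538056402 0 0) (P.cons (P.lf 0 165884518 0) (P.cons (P.lf 0 82812820 0) (P.cons (P.lf 5959664 0 0) (P.cons (P.lf 2732598 0 0) P.nil)))))) (P.cons (P.cons (P.lf 147404494 0 0) (P.cons (P.lf 47227346 0 0) (P.cons (P.lf 0 17662714 0) (P.cons (P.lf 0 4593242 0) (P.cons (P.lf 243522 0 0) P.nil))))) (P.cons (P.cons (P.lf 6522152 0 0) (P.cons (P.lf 480902 0 0) (P.cons (P.lf 0 337722 0) (P.cons (P.lf 89370 0 0) P.nil)))) (P.cons (P.cons (P.lf 0 157042 0) (P.cons (P.lf 0 114398 0) (P.cons (P.lf 42524 0 0) P.nil))) (P.cons (P.cons (P.lf 0 20308 0) (P.cons (P.lf 0 3184 0) P.nil)) (P.cons (P.cons (P.lf 0 260 0) P.nil) P.nil)))))) 348160)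
 EL.nil)
noncomputable def S227_234_660_808_36 : EL := (EL.cons 14 (TM.mk (P.cons (P.lf 0 1690311880 0) (P.cons (P.lf 226319224 0 0) (P.cons (P.lf 1151192 0 0) (P.cons (P.lf 0 48360 0) (P.cons (P.lf 0 424 0) (P.cons (P.lf 8 0 0) P.nil)))))) 72)
 EL.nil)
noncomputable def S227_234_660_808_37 : EL := (EL.cons 14 (TM.mk (P.cons (P.cons (P.lf 603344890 0 0) (P.cons (P.lf 148311900 0 0) (P.cons (P.lf 0 63953762 0) (P.lf 0 7105972 0)))) (P.cons (P.cons (P.lf 0 40151916 0) (P.cons (P.lf 0 16827638 0) (P.cons (P.lf 7256268 0 0) (P.lf 806252 0 0)))) (P.cons (P.cons (P.lf 0 5421416 0) (P.cons (P.lf 0 683840 0) (P.cons (P.lf 294878 0 0) (P.lf 32762 0 0)))) (P.cons (P.cons (P.lf 0 140164 0) (P.cons (P.lf 21884 0 0) (P.cons (P.lf 0 9436 0) P.nil))) (P.cons (P.cons (P.lf 9804 0 0) (P.cons (P.lf 880 0 0) P.nil)) (P.cons (P.cons (P.lf 226 0 0) P.nil) P.nil)))))) 2394)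
 EL.nil)
noncomputable def S227_234_660_808_38 : EL := (EL.cons 14 (TM.mk (P.cons (P.cons (P.lf 0 215359696 0) (P.cons (P.lf 0 105877770 0) (P.cons (P.lf 32642456 0 0) (P.cons (P.lf 16295756 0 0) (P.cons (P.lf 0 1172730 0) (P.cons (P.lf 0 537714 0) P.nil)))))) (P.cons (P.cons (P.lf 0 171052 0) (P.cons (P.lf 4882872 0 0) (P.cons (P.lf 0 894926 0) (P.cons (P.lf 0 1278020 0) (P.cons (P.lf 109098 0 0) P.nil))))) (P.cons (P.cons (P.lf 2746922 0 0) (P.cons (P.lf 1221776 0 0) (P.cons (P.lf 0 421134 0) (P.cons (P.lf 0 149702 0) P.nil)))) (P.cons (P.cons (P.lf 216334 0 0) (P.cons (P.lf 38480 0 0) (P.cons (P.lf 0 18698 0) P.nil))) (P.cons (P.cons (P.lf 0 150 0) (P.cons (P.lf 0 2614 0) P.nil)) (P.cons (P.cons (P.lf 0 546 0) P.nil) P.nil)))))) 162332)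
 EL.nil)
noncomputable def S227_234_660_808_39 : EL := (EL.cons 14 (TM.mk (P.cons (P.lf 332616530 0 0) (P.cons (P.lf 0 89069378 0) (P.cons (P.lf 5509778 0 0) (P.cons (P.lf 79692 0 0) (P.cons (P.lf 0 2226 0) (P.cons (P.lf 0 38 0) P.nil)))))) 46)
 EL.nil)
noncomputable def S227_234_660_808_40 : EL := (EL.cons 14 (TM.mk (P.cons (P.cons (P.lf 0 118725120 0) (P.cons (P.lf 0 29184548 0) (P.cons (P.lf 12584706 0 0) (P.lf 1398300 0 0)))) (P.cons (P.cons (P.lf 23797364 0 0) (P.cons (P.lf 7218888 0 0) (P.cons (P.lf 0 3112866 0) (P.lf 0 345874 0)))) (P.cons (P.cons (P.lf 89790 0 0) (P.cons (P.lf 0 288916 0) (P.cons (P.lf 124584 0 0) (P.lf 13842 0 0)))) (P.cons (P.cons (P.lf 0 124034 0) (P.cons (P.lf 0 25412 0) (P.cons (P.lf 10958 0 0) P.nil))) (P.cons (P.cons (P.lf 0 6152 0) (P.cons (P.lf 398 0 0) P.nil)) (P.cons (P.cons (P.lf 226 0 0) P.nil) P.nil)))))) 2014)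
 EL.nil)
noncomputable def S227_234_660_808_41 : EL := (EL.cons 14 (TM.mk (P.cons (P.cons (P.lf 42378092 0 0) (P.cons (P.lf 20834436 0 0) (P.cons (P.lf 0 6423322 0) (P.cons (P.lf 0 3206648 0) (P.cons (P.lf 230768 0 0) (P.cons (P.lf 105810 0 0) P.nil)))))) (P.cons (P.cons (P.lf 0 5640426 0) (P.cons (P.lf 0 3750406 0) (P.cons (P.lf 1036132 0 0) (P.cons (P.lf 680830 0 0) (P.cons (P.lf 0 52366 0) P.nil))))) (P.cons (P.cons (P.lf 0 573902 0) (P.cons (P.lf 0 125958 0) (P.cons (P.lf 63666 0 0) (P.cons (P.lf 0 2028 0) P.nil)))) (P.cons (P.cons (P.lf 30992 0 0) (P.cons (P.lf 25868 0 0) (P.cons (P.lf 0 7718 0) P.nil))) (P.cons (P.cons (P.lf 6108 0 0) (P.cons (P.lf 1670 0 0) P.nil)) (P.cons (P.cons (P.lf 116 0 0) P.nil) P.nil)))))) 59864)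
 EL.nil)
noncomputable def S227_234_660_808_42 : EL := (EL.cons 14 (TM.mk (P.cons (P.lf 0 65451682 0) (P.cons (P.lf 26290368 0 0) (P.cons (P.lf 0 3386340 0) (P.cons (P.lf 115674 0 0) (P.cons (P.lf 3760 0 0) (P.cons (P.lf 0 66 0) P.nil)))))) 28)
 EL.nil)
noncomputable def S227_234_660_808_43 : EL := (EL.cons 14 (TM.mk (P.cons (P.cons (P.lf 23362514 0 0) (P.cons (P.lf 5742882 0 0) (P.cons (P.lf 0 2476394 0) (P.lf 0 275154 0)))) (P.cons (P.cons (P.lf 0 7810856 0) (P.cons (P.lf 0 2189446 0) (P.cons (P.lf 944112 0 0) (P.lf 104900 0 0)))) (P.cons (P.cons (P.lf 593408 0 0) (P.cons (P.lf 243136 0 0) (P.cons (P.lf 0 104842 0) (P.lf 0 11648 0)))) (P.cons (P.cons (P.lf 30630 0 0) (P.cons (P.lf 0 1478 0) (P.cons (P.lf 636 0 0) P.nil))) (P.cons (P.cons (P.lf 0 2172 0) (P.cons (P.lf 0 824 0) P.nil)) (P.cons (P.cons (P.lf 0 224 0) P.nil) P.nil)))))) 1500)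
 EL.nil)
noncomputable def S227_234_660_808_44 : EL := (EL.cons 14 (TM.mk (P.cons (P.cons (P.lf 0 8339084 0) (P.cons (P.lf 0 4099762 0) (P.cons (P.lf 1263970 0 0) (P.cons (P.lf 630998 0 0) (P.cons (P.lf 0 45410 0) (P.cons (P.lf 0 20820 0) P.nil)))))) (P.cons (P.cons (P.lf 2226448 0 0) (P.cons (P.lf 1286922 0 0) (P.cons (P.lf 0 373122 0) (P.cons (P.lf 0 218458 0) (P.cons (P.lf 16384 0 0) P.nil))))) (P.cons (P.cons (P.lf 0 29996 0) (P.cons (P.lf 0 71232 0) (P.cons (P.lf 13910 0 0) (P.cons (P.lf 17906 0 0) P.nil)))) (P.cons (P.cons (P.lf 0 22212 0) (P.cons (P.lf 0 9028 0) (P.cons (P.lf 3370 0 0) P.nil))) (P.cons (P.cons (P.lf 0 432 0) (P.cons (P.lf 356 0 0) P.nil)) (P.cons (P.cons (P.lf 144 0 0) P.nil) P.nil)))))) 20712)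
 EL.nil)
noncomputable def S227_234_660_808_45 : EL := (EL.cons 14 (TM.mk (P.cons (P.cons (P.lf 0 390648572 0) (P.cons (P.lf 0 288083150 0) (P.cons (P.lf 53409220 0 0) (P.cons (P.lf 69073082 0 0) (P.cons (P.lf 1124566 0 0) (P.cons (P.lf 0 5328928 0) P.nil)))))) (P.cons (P.cons (P.lf 0 78922490 0) (P.cons (P.lf 0 44686622 0) (P.cons (P.lf 11606794 0 0) (P.cons (P.lf 8393762 0 0) (P.cons (P.lf 0 230456 0) P.nil))))) (P.cons (P.cons (P.lf 0 6149496 0) (P.cons (P.lf 0 2165494 0) (P.cons (P.lf 828070 0 0) (P.cons (P.lf 208450 0 0) P.nil)))) (P.cons (P.cons (P.lf 0 91428 0) (P.cons (P.lf 60388 0 0) (P.cons (P.lf 0 2936 0) P.nil))) (P.cons (P.cons (P.lf 16238 0 0) (P.cons (P.lf 9096 0 0) P.nil)) (P.cons (P.cons (P.lf 950 0 0) P.nil) P.nil)))))) 1732818)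
 EL.nil)
noncomputable def S227_234_660_808_46 : EL := (EL.cons 15 (TM.mk (P.lf 4294967296 0 0) 0)
 EL.nil)
noncomputable def S227_234_660_808_47 : EL := (EL.cons 15 (TM.mk (P.cons (P.cons (P.lf 0 1533058249 0) (P.cons (P.lf 0 376850432 0) (P.cons (P.lf 162502156 0 0) (P.lf 18055792 0 0)))) (P.cons (P.cons (P.lf 0 103240938 0) (P.cons (P.lf 0 7699372 0) (P.cons (P.lf 3320052 0 0) (P.lf 368892 0 0)))) (P.cons (P.cons (P.lf 0 1091780 0) (P.cons (P.lf 450056 0 0) (P.cons (P.lf 0 194068 0) (P.lf 0 21560 0)))) (P.cons (P.cons (P.lf 183515 0 0) (P.cons (P.lf 10188 0 0) (P.cons (P.lf 0 4392 0) P.nil))) (P.cons (P.cons (P.lf 2254 0 0) (P.cons (P.lf 0 252 0) P.nil)) (P.cons (P.cons (P.lf 0 99 0) P.nil) P.nil)))))) 1115)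
 EL.nil)
noncomputable def S227_234_660_808_48 : EL := (EL.cons 15 (TM.mk (P.cons (P.cons (P.lf 547214316 0 0) (P.cons (P.lf 269028201 0 0) (P.cons (P.lf 0 82942259 0) (P.cons (P.lf 0 41406410 0) (P.cons (P.lf 2979832 0 0) (P.cons (P.lf 1366299 0 0) P.nil)))))) (P.cons (P.cons (P.lf 73702247 0 0) (P.cons (P.lf 23613673 0 0) (P.cons (P.lf 0 8831357 0) (P.cons (P.lf 0 2296621 0) (P.cons (P.lf 121761 0 0) P.nil))))) (P.cons (P.cons (P.lf 3261076 0 0) (P.cons (P.lf 240451 0 0) (P.cons (P.lf 0 168861 0) (P.cons (P.lf 44685 0 0) P.nil)))) (P.cons (P.cons (P.lf 0 78521 0) (P.cons (P.lf 0 57199 0) (P.cons (P.lf 21262 0 0) P.nil))) (P.cons (P.cons (P.lf 0 10154 0) (P.cons (P.lf 0 1592 0) P.nil)) (P.cons (P.cons (P.lf 0 130 0) P.nil) P.nil)))))) 174080)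
 EL.nil)
noncomputable def S227_234_660_808 : SL := (SL.cons S227_234_660_808_0 (SL.cons S227_234_660_808_1 (SL.cons S227_234_660_808_2 (SL.cons S227_234_660_808_3 (SL.cons S227_234_660_808_4 (SL.cons S227_234_660_808_5 (SL.cons S227_234_660_808_6 (SL.cons S227_234_660_808_7 (SL.cons S227_234_660_808_8 (SL.cons S227_234_660_808_9 (SL.cons S227_234_660_808_10 (SL.cons S227_234_660_808_11 (SL.cons S227_234_660_808_12 (SL.cons S227_234_660_808_13 (SL.cons S227_234_660_808_14 (SL.cons S227_234_660_808_15 (SL.cons S227_234_660_808_16 (SL.cons S227_234_660_808_17 (SL.cons S227_234_660_808_18 (SL.cons S227_234_660_808_19 (SL.cons S227_234_660_808_20 (SL.cons S227_234_660_808_21 (SL.cons S227_234_660_808_22 (SL.cons S227_234_660_808_23 (SL.cons S227_234_660_808_24 (SL.cons S227_234_660_808_25 (SL.cons S227_234_660_808_26 (SL.cons S227_234_660_808_27 (SL.cons S227_234_660_808_28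 (SL.cons S227_234_660_808_29 (SL.cons S227_234_660_808_30 (SL.cons S227_234_660_808_31 (SL.cons S227_234_660_808_32 (SL.cons S227_234_660_808_33 (SL.cons S227_234_660_808_34 (SL.cons S227_234_660_808_35 (SL.cons S227_234_660_808_36 (SL.cons S227_234_660_808_37 (SL.cons S227_234_660_808_38 (SL.cons S227_234_660_808_39 (SL.cons S227_234_660_808_40 (SL.cons S227_234_660_808_41 (SL.cons S227_234_660_808_42 (SL.cons S227_234_660_808_43 (SL.cons S227_234_660_808_44 (SL.cons S227_234_660_808_45 (SL.cons S227_234_660_808_46 (SL.cons S227_234_660_808_47 (SL.cons S227_234_660_808_48 SL.nil)))))))))))))))))))))))))))))))))))))))))))))))))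
noncomputable def S227_241_216_290_0 : EL := (EL.cons 0 (TM.mk (P.cons (P.lf 8236751121 0 0) (P.cons (P.lf 136792680 0 0) (P.cons (P.lf 0 20162540 0) (P.cons (P.lf 0 495075 0) (P.cons (P.lf 33925 0 0) (P.cons (P.lf 991 0 0) P.nil)))))) 101)
 (EL.cons 1 (TM.mk (P.cons (P.lf 0 673184881 0) (P.cons (P.lf 202366545 0 0) (P.cons (P.lf 5530590 0 0) (P.cons (P.lf 0 526580 0) (P.cons (P.lf 0 13798 0) (P.cons (P.lf 714 0 0) P.nil)))))) 98)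
 (EL.cons 5 (TM.mk (P.cons (P.lf 4372821786 0 0) (P.cons (P.lf 0 48637396 0) (P.cons (P.lf 7168902 0 0) (P.cons (P.lf 176026 0 0) (P.cons (P.lf 0 12058 0) (P.cons (P.lf 0 354 0) P.nil)))))) 135)
 (EL.cons 9 (TM.mk (P.lf 6442450944 0 0) 2)
 EL.nil))))
noncomputable def S227_241_216_290_1 : EL := (EL.cons 0 (TM.mk (P.cons (P.cons (P.lf 5606651159 0 0) (P.cons (P.lf 0 180597761 0) (P.cons (P.lf 0 85253196 0) (P.lf 4059675 0 0)))) (P.cons (P.cons (P.lf 127083786 0 0) (P.cons (P.lf 0 19403100 0) (P.cons (P.lf 0 9159448 0) (P.lf 436159 0 0)))) (P.cons (P.cons (P.lf 0 136183487 0) (P.cons (P.lf 2362951 0 0) (P.cons (P.lf 1115447 0 0) (P.lf 0 53109 0)))) (P.cons (P.cons (P.lf 786624 0 0) (P.cons (P.lf 214158 0 0) (P.cons (P.lf 101088 0 0) P.nil))) (P.cons (P.cons (P.lf 946041 0 0) (P.cons (P.lf 0 10863 0) P.nil)) (P.cons (P.cons (P.lf 279 0 0) P.nil) P.nil)))))) 21465)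
 (EL.cons 1 (TM.mk (P.cons (P.cons (P.lf 0 97859874 0) (P.cons (P.lf 39193247 0 0) (P.cons (P.lf 18501608 0 0) (P.lf 0 881026 0)))) (P.cons (P.cons (P.lf 466625772 0 0) (P.cons (P.lf 0 9813644 0) (P.cons (P.lf 0 4632642 0) (P.lf 220599 0 0)))) (P.cons (P.cons (P.lf 2774565 0 0) (P.cons (P.lf 0 1188765 0) (P.cons (P.lf 0 561166 0) (P.lf 26715 0 0)))) (P.cons (P.cons (P.lf 0 6387904 0) (P.cons (P.lf 85559 0 0) (P.cons (P.lf 40386 0 0) P.nil))) (P.cons (P.cons (P.lf 0 380 0) (P.cons (P.lf 8827 0 0) P.nil)) (P.cons (P.cons (P.lf 33857 0 0) P.nil) P.nil)))))) 11344)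
 (EL.cons 5 (TM.mk (P.cons (P.cons (P.lf 2771893583 0 0) (P.cons (P.lf 0 109751836 0) (P.cons (P.lf 0 51809582 0) (P.lf 2467122 0 0)))) (P.cons (P.cons (P.lf 0 135633047 0) (P.cons (P.lf 766498 0 0) (P.cons (P.lf 361832 0 0) (P.lf 0 17224 0)))) (P.cons (P.cons (P.lf 7167417 0 0) (P.cons (P.lf 27692 0 0) (P.cons (P.lf 13078 0 0) (P.lf 0 630 0)))) (P.cons (P.cons (P.lf 893908 0 0) (P.cons (P.lf 0 43192 0) (P.cons (P.lf 0 20388 0) P.nil))) (P.cons (P.cons (P.lf 0 198703 0) (P.cons (P.lf 1756 0 0) P.nil)) (P.cons (P.cons (P.lf 0 2298 0) P.nil) P.nil)))))) 13202)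
 (EL.cons 9 (TM.mk (P.cons (P.cons (P.lf 4204737819 0 0) (P.cons (P.lf 0 153497970 0) (P.cons (P.lf 0 72460434 0) (P.lf 3450492 0 0)))) (P.cons (P.cons (P.lf 0 79806801 0) (P.cons (P.lf 0 5410920 0) (P.cons (P.lf 0 2554284 0) (P.lf 121632 0 0)))) (P.cons (P.cons (P.lf 0 36400029 0) (P.cons (P.lf 765750 0 0) (P.cons (P.lf 361476 0 0) (P.lf 0 17208 0)))) (P.cons (P.cons (P.lf 1035520 0 0) (P.cons (P.lf 29076 0 0) (P.cons (P.lf 13722 0 0) P.nil))) (P.cons (P.cons (P.lf 121450 0 0) (P.cons (P.lf 0 1854 0) P.nil)) (P.cons (P.cons (P.lf 0 1936 0) P.nil) P.nil)))))) 2914)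
 (EL.cons 2 (TM.mk (P.cons (P.cons (P.lf 100416344 0 0) (P.cons (P.lf 99014748 0 0) (P.cons (P.lf 0 3098266 0) (P.cons (P.lf 0 567742 0) (P.lf 20275 0 0))))) (P.cons (P.cons (P.lf 0 29006302 0) (P.cons (P.lf 0 28601437 0) (P.cons (P.lf 894965 0 0) (P.cons (P.lf 163996 0 0) (P.lf 0 5855 0))))) (P.cons (P.cons (P.lf 0 1360515 0) (P.cons (P.lf 0 1341525 0) (P.cons (P.lf 41976 0 0) (P.cons (P.lf 7689 0 0) P.nil)))) (P.cons (P.cons (P.lf 121072 0 0) (P.cons (P.lf 119382 0 0) (P.cons (P.lf 0 3735 0) P.nil))) (P.cons (P.cons (P.lf 5265 0 0) (P.cons (P.lf 5191 0 0) P.nil)) (P.cons (P.cons (P.lf 0 247 0) P.nil) P.nil)))))) 1863)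
 (EL.cons 6 (TM.mk (P.cons (P.cons (P.lf 308718450 0 0) (P.cons (P.lf 304409409 0 0) (P.cons (P.lf 0 9525264 0) (P.cons (P.lf 0 1745463 0) (P.lf 62337 0 0))))) (P.cons (P.cons (P.lf 10882572 0 0) (P.cons (P.lf 10730676 0 0) (P.cons (P.lf 0 335772 0) (P.cons (P.lf 0 61527 0) (P.lf 2196 0 0))))) (P.cons (P.cons (P.lf 0 1540095 0) (P.cons (P.lf 0 1518600 0) (P.cons (P.lf 47517 0 0) (P.cons (P.lf 8706 0 0) P.nil)))) (P.cons (P.cons (P.lf 0 58482 0) (P.cons (P.lf 0 57666 0) (P.cons (P.lf 1803 0 0) P.nil))) (P.cons (P.cons (P.lf 3735 0 0) (P.cons (P.lf 3684 0 0) P.nil)) (P.cons (P.cons (P.lf 162 0 0) P.nil) P.nil)))))) 1209)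
 EL.nil))))))
noncomputable def S227_241_216_290_2 : EL := (EL.cons 0 (TM.mk (P.cons (P.cons (P.lf 3809906134 0 0) (P.cons (P.lf 0 246738462 0) (P.cons (P.lf 0 112545628 0) (P.cons (P.lf 9256871 0 0) (P.cons (P.lf 699094 0 0) (P.cons (P.lf 0 83418 0) P.nil)))))) (P.cons (P.cons (P.lf 101896991 0 0) (P.cons (P.lf 0 27904297 0) (P.cons (P.lf 0 12351871 0) (P.cons (P.lf 1402051 0 0) (P.cons (P.lf 145970 0 0) P.nil))))) (P.cons (P.cons (P.lf 0 173983901 0) (P.cons (P.lf 8989851 0 0) (P.cons (P.lf 4167630 0 0) (P.cons (P.lf 0 273941 0) P.nil)))) (P.cons (P.cons (P.lf 2758671 0 0) (P.cons (P.lf 528443 0 0) (P.cons (P.lf 234208 0 0) P.nil))) (P.cons (P.cons (P.lf 2357789 0 0) (P.cons (P.lf 0 106265 0) P.nil)) (P.cons (P.cons (P.lf 0 55861 0) P.nil) P.nil)))))) 204369)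
 (EL.cons 1 (TM.mk (P.cons (P.cons (P.lf 159015622 0 0) (P.cons (P.lf 34886560 0 0) (P.cons (P.lf 14983103 0 0) (P.cons (P.lf 0 2186696 0) (P.cons (P.lf 0 264243 0) (P.cons (P.lf 31522 0 0) P.nil)))))) (P.cons (P.cons (P.lf 514434873 0 0) (P.cons (P.lf 0 29899199 0) (P.cons (P.lf 0 13800380 0) (P.cons (P.lf 968431 0 0) (P.cons (P.lf 55828 0 0) P.nil))))) (P.cons (P.cons (P.lf 0 10778382 0) (P.cons (P.lf 0 2116669 0) (P.cons (P.lf 0 931318 0) (P.cons (P.lf 111646 0 0) P.nil)))) (P.cons (P.cons (P.lf 0 11700738 0) (P.cons (P.lf 573946 0 0) (P.cons (P.lf 267678 0 0) P.nil))) (P.cons (P.cons (P.lf 274618 0 0) (P.cons (P.lf 30685 0 0) P.nil)) (P.cons (P.cons (P.lf 116226 0 0) P.nil) P.nil)))))) 103327)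
 (EL.cons 5 (TM.mk (P.cons (P.cons (P.lf 1755538570 0 0) (P.cons (P.lf 0 139350364 0) (P.cons (P.lf 0 63034358 0) (P.cons (P.lf 5726479 0 0) (P.cons (P.lf 488731 0 0) (P.cons (P.lf 0 58299 0) P.nil)))))) (P.cons (P.cons (P.lf 0 154293457 0) (P.cons (P.lf 6226803 0 0) (P.cons (P.lf 2939863 0 0) (P.cons (P.lf 0 139555 0) (P.cons (P.lf 85 0 0) P.nil))))) (P.cons (P.cons (P.lf 9132413 0 0) (P.cons (P.lf 54178 0 0) (P.cons (P.lf 16445 0 0) (P.cons (P.lf 0 9860 0) P.nil)))) (P.cons (P.cons (P.lf 1573128 0 0) (P.cons (P.lf 0 152998 0) (P.cons (P.lf 0 69827 0) P.nil))) (P.cons (P.cons (P.lf 0 454615 0) (P.cons (P.lf 15870 0 0) P.nil)) (P.cons (P.cons (P.lf 306 0 0) P.nil) P.nil)))))) 113062)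
 (EL.cons 9 (TM.mk (P.cons (P.cons (P.lf 2744269266 0 0) (P.cons (P.lf 0 200364340 0) (P.cons (P.lf 0 90926982 0) (P.cons (P.lf 7956891 0 0) (P.cons (P.lf 650563 0 0) (P.cons (P.lf 0 77617 0) P.nil)))))) (P.cons (P.cons (P.lf 0 104173605 0) (P.cons (P.lf 0 3260037 0) (P.cons (P.lf 0 1281093 0) (P.cons (P.lf 316714 0 0) (P.cons (P.lf 45865 0 0) P.nil))))) (P.cons (P.cons (P.lf 0 46525155 0) (P.cons (P.lf 2868142 0 0) (P.cons (P.lf 1321987 0 0) (P.cons (P.lf 0 94624 0) P.nil)))) (P.cons (P.cons (P.lf 2253508 0 0) (P.cons (P.lf 30780 0 0) (P.cons (P.lf 11853 0 0) P.nil))) (P.cons (P.cons (P.lf 338536 0 0) (P.cons (P.lf 0 19320 0) P.nil)) (P.cons (P.cons (P.lf 0 17238 0) P.nil) P.nil)))))) 41524)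
 (EL.cons 2 (TM.mk (P.cons (P.cons (P.lf 131075701 0 0) (P.cons (P.lf 124461123 0 0) (P.cons (P.lf 0 11021321 0) (P.cons (P.lf 0 2713190 0) (P.cons (P.lf 229275 0 0) (P.cons (P.lf 8482 0 0) P.nil)))))) (P.cons (P.cons (P.lf 0 40350420 0) (P.cons (P.lf 0 38573685 0) (P.cons (P.lf 3014431 0 0) (P.cons (P.lf 728280 0 0) (P.cons (P.lf 0 59580 0) P.nil))))) (P.cons (P.cons (P.lf 0 2191983 0) (P.cons (P.lf 0 2023959 0) (P.cons (P.lf 268008 0 0) (P.cons (P.lf 69030 0 0) P.nil)))) (P.cons (P.cons (P.lf 551795 0 0) (P.cons (P.lf 534622 0 0) (P.cons (P.lf 0 30836 0) P.nil))) (P.cons (P.cons (P.lf 13708 0 0) (P.cons (P.lf 12420 0 0) P.nil)) (P.cons (P.cons (P.lf 0 3414 0) P.nil) P.nil)))))) 32748)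
 (EL.cons 6 (TM.mk (P.cons (P.cons (P.lf 402977112 0 0) (P.cons (P.lf 382641360 0 0) (P.cons (P.lf 0 33883788 0) (P.cons (P.lf 0 8341392 0) (P.cons (P.lf 704886 0 0) (P.cons (P.lf 26082 0 0) P.nil)))))) (P.cons (P.cons (P.lf 6556674 0 0) (P.cons (P.lf 5428002 0 0) (P.cons (P.lf 0 1714572 0) (P.cons (P.lf 0 464514 0) (P.cons (P.lf 45276 0 0) P.nil))))) (P.cons (P.cons (P.lf 0 5768472 0) (P.cons (P.lf 0 5559462 0) (P.cons (P.lf 365340 0 0) (P.cons (P.lf 85566 0 0) P.nil)))) (P.cons (P.cons (P.lf 0 61914 0) (P.cons (P.lf 0 50304 0) (P.cons (P.lf 17574 0 0) P.nil))) (P.cons (P.cons (P.lf 38862 0 0) (P.cons (P.lf 37794 0 0) P.nil)) (P.cons (P.cons (P.lf 504 0 0) P.nil) P.nil)))))) 29802)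
 EL.nil))))))
noncomputable def S227_241_216_290_3 : EL := (EL.cons 0 (TM.mk (P.cons (P.lf 218965742 0 0) (P.cons (P.lf 0 136792680 0) (P.cons (P.lf 20162540 0 0) (P.cons (P.lf 495075 0 0) (P.cons (P.lf 0 33925 0) (P.cons (P.lf 0 991 0) P.nil)))))) 101)
 (EL.cons 1 (TM.mk (P.cons (P.lf 673184881 0 0) (P.cons (P.lf 0 202366545 0) (P.cons (P.lf 0 5530590 0) (P.cons (P.lf 526580 0 0) (P.cons (P.lf 13798 0 0) (P.cons (P.lf 0 714 0) P.nil)))))) 98)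
 (EL.cons 5 (TM.mk (P.cons (P.lf 2069629158 0 0) (P.cons (P.lf 48637396 0 0) (P.cons (P.lf 0 7168902 0) (P.cons (P.lf 0 176026 0) (P.cons (P.lf 12058 0 0) (P.cons (P.lf 354 0 0) P.nil)))))) 128)
 EL.nil)))
noncomputable def S227_241_216_290_4 : EL := (EL.cons 0 (TM.mk (P.cons (P.cons (P.lf 142910444 0 0) (P.cons (P.lf 0 5217082 0) (P.cons (P.lf 0 2462781 0) (P.lf 117274 0 0)))) (P.cons (P.cons (P.lf 0 91991745 0) (P.cons (P.lf 3075317 0 0) (P.cons (P.lf 1451738 0 0) (P.lf 0 69129 0)))) (P.cons (P.cons (P.lf 13616683 0 0) (P.cons (P.lf 0 339475 0) (P.cons (P.lf 0 160252 0) (P.lf 7630 0 0)))) (P.cons (P.cons (P.lf 881426 0 0) (P.cons (P.lf 0 43999 0) (P.cons (P.lf 0 20770 0) P.nil))) (P.cons (P.cons (P.lf 0 160052 0) (P.cons (P.lf 2107 0 0) P.nil)) (P.cons (P.cons (P.lf 0 2427 0) P.nil) P.nil)))))) 4469)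
 (EL.cons 1 (TM.mk (P.cons (P.cons (P.lf 439361658 0 0) (P.cons (P.lf 0 16039316 0) (P.cons (P.lf 0 7571536 0) (P.lf 360547 0 0)))) (P.cons (P.cons (P.lf 0 140415969 0) (P.cons (P.lf 4256190 0 0) (P.cons (P.lf 2009182 0 0) (P.lf 0 95673 0)))) (P.cons (P.cons (P.lf 0 4906269 0) (P.cons (P.lf 381750 0 0) (P.cons (P.lf 180208 0 0) (P.lf 0 8580 0)))) (P.cons (P.cons (P.lf 1663768 0 0) (P.cons (P.lf 0 28916 0) (P.cons (P.lf 0 13648 0) P.nil))) (P.cons (P.cons (P.lf 13893 0 0) (P.cons (P.lf 0 2535 0) P.nil)) (P.cons (P.cons (P.lf 0 8518 0) P.nil) P.nil)))))) 3144)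
 (EL.cons 5 (TM.mk (P.cons (P.cons (P.lf 1350766666 0 0) (P.cons (P.lf 0 49311026 0) (P.cons (P.lf 0 23277820 0) (P.lf 1108464 0 0)))) (P.cons (P.cons (P.lf 6105908 0 0) (P.cons (P.lf 0 2897086 0) (P.cons (P.lf 0 1367600 0) (P.lf 65122 0 0)))) (P.cons (P.cons (P.lf 0 16974828 0) (P.cons (P.lf 375952 0 0) (P.cons (P.lf 177470 0 0) (P.lf 0 8448 0)))) (P.cons (P.cons (P.lf 31776 0 0) (P.cons (P.lf 25336 0 0) (P.cons (P.lf 11958 0 0) P.nil))) (P.cons (P.cons (P.lf 97386 0 0) (P.cons (P.lf 0 1366 0) P.nil)) (P.cons (P.cons (P.lf 218 0 0) P.nil) P.nil)))))) 2596)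
 EL.nil)))
noncomputable def S227_241_216_290_5 : EL := (EL.cons 0 (TM.mk (P.cons (P.cons (P.lf 93272102 0 0) (P.cons (P.lf 0 6809973 0) (P.cons (P.lf 0 3090420 0) (P.cons (P.lf 270437 0 0) (P.cons (P.lf 22109 0 0) (P.cons (P.lf 0 2636 0) P.nil)))))) (P.cons (P.cons (P.lf 0 61809767 0) (P.cons (P.lf 4143536 0 0) (P.cons (P.lf 1887111 0 0) (P.cons (P.lf 0 158183 0) (P.cons (P.lf 0 12253 0) P.nil))))) (P.cons (P.cons (P.lf 9219193 0 0) (P.cons (P.lf 0 460364 0) (P.cons (P.lf 0 212435 0) (P.cons (P.lf 14960 0 0) P.nil)))) (P.cons (P.cons (P.lf 949320 0 0) (P.cons (P.lf 0 85452 0) (P.cons (P.lf 0 38663 0) P.nil))) (P.cons (P.cons (P.lf 0 204405 0) (P.cons (P.lf 8469 0 0) P.nil)) (P.cons (P.cons (P.lf 0 4169 0) P.nil) P.nil)))))) 19577)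
 (EL.cons 1 (TM.mk (P.cons (P.cons (P.lf 286754310 0 0) (P.cons (P.lf 0 20936478 0) (P.cons (P.lf 0 9501144 0) (P.cons (P.lf 831431 0 0) (P.cons (P.lf 67976 0 0) (P.cons (P.lf 0 8109 0) P.nil)))))) (P.cons (P.cons (P.lf 0 97086712 0) (P.cons (P.lf 5953080 0 0) (P.cons (P.lf 2722280 0 0) (P.cons (P.lf 0 216841 0) (P.cons (P.lf 0 15641 0) P.nil))))) (P.cons (P.cons (P.lf 0 3945112 0) (P.cons (P.lf 574104 0 0) (P.cons (P.lf 256434 0 0) (P.cons (P.lf 0 26666 0) P.nil)))) (P.cons (P.cons (P.lf 2010630 0 0) (P.cons (P.lf 0 100453 0) (P.cons (P.lf 0 46618 0) P.nil))) (P.cons (P.cons (P.lf 1891 0 0) (P.cons (P.lf 0 6142 0) P.nil)) (P.cons (P.cons (P.lf 0 18699 0) P.nil) P.nil)))))) 18940)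
 (EL.cons 5 (TM.mk (P.cons (P.cons (P.lf 881593004 0 0) (P.cons (P.lf 0 64366788 0) (P.cons (P.lf 0 29210176 0) (P.cons (P.lf 2556140 0 0) (P.cons (P.lf 208992 0 0) (P.cons (P.lf 0 24934 0) P.nil)))))) (P.cons (P.cons (P.lf 0 12747728 0) (P.cons (P.lf 0 2559936 0) (P.cons (P.lf 0 1098004 0) (P.cons (P.lf 161814 0 0) (P.cons (P.lf 19644 0 0) P.nil))))) (P.cons (P.cons (P.lf 0 18786320 0) (P.cons (P.lf 1119732 0 0) (P.cons (P.lf 516194 0 0) (P.cons (P.lf 0 36860 0) P.nil)))) (P.cons (P.cons (P.lf 413632 0 0) (P.cons (P.lf 40642 0 0) (P.cons (P.lf 17696 0 0) P.nil))) (P.cons (P.cons (P.lf 185520 0 0) (P.cons (P.lf 0 9450 0) P.nil)) (P.cons (P.cons (P.lf 0 4260 0) P.nil) P.nil)))))) 20082)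
 EL.nil)))
noncomputable def S227_241_216_290_6 : EL := (EL.cons 12 (TM.mk (P.lf 8589934592 0 0) 0)
 (EL.cons 3 (TM.mk (P.cons (P.lf 0 685729796 0) (P.cons (P.lf 214195188 0 0) (P.cons (P.lf 1881828 0 0) (P.cons (P.lf 0 187398 0) (P.cons (P.lf 0 2831 0) (P.cons (P.lf 153 0 0) P.nil)))))) 44)
 (EL.cons 7 (TM.mk (P.cons (P.lf 0 2108197044 0) (P.cons (P.lf 0 24771881 0) (P.cons (P.lf 3796786 0 0) (P.cons (P.lf 45040 0 0) (P.cons (P.lf 0 3252 0) (P.cons (P.lf 0 61 0) P.nil)))))) 51)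
 EL.nil)))
noncomputable def S227_241_216_290_7 : EL := (EL.cons 12 (TM.mk (P.cons (P.cons (P.lf 5606317092 0 0) (P.cons (P.lf 0 204663960 0) (P.cons (P.lf 0 96613912 0) (P.lf 4600656 0 0)))) (P.cons (P.cons (P.lf 0 106409068 0) (P.cons (P.lf 0 7214560 0) (P.cons (P.lf 0 3405712 0) (P.lf 162176 0 0)))) (P.cons (P.cons (P.lf 0 48533372 0) (P.cons (P.lf 1021000 0 0) (P.cons (P.lf 481968 0 0) (P.lf 0 22944 0)))) (P.cons (P.cons (P.lf 1380694 0 0) (P.cons (P.lf 38768 0 0) (P.cons (P.lf 18296 0 0) P.nil))) (P.cons (P.cons (P.lf 161934 0 0) (P.cons (P.lf 0 2472 0) P.nil)) (P.cons (P.cons (P.lf 0 2582 0) P.nil) P.nil)))))) 3860)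
 (EL.cons 3 (TM.mk (P.cons (P.cons (P.lf 0 1170475437 0) (P.cons (P.lf 0 32676422 0) (P.cons (P.lf 0 15425270 0) (P.lf 734534 0 0)))) (P.cons (P.cons (P.lf 0 515451221 0) (P.cons (P.lf 9054966 0 0) (P.cons (P.lf 4274498 0 0) (P.lf 0 203546 0)))) (P.cons (P.cons (P.lf 27361632 0 0) (P.cons (P.lf 612480 0 0) (P.cons (P.lf 289126 0 0) (P.lf 0 13766 0)))) (P.cons (P.cons (P.lf 3724214 0 0) (P.cons (P.lf 0 50496 0) (P.cons (P.lf 0 23836 0) P.nil))) (P.cons (P.cons (P.lf 0 76958 0) (P.cons (P.lf 0 3224 0) P.nil)) (P.cons (P.cons (P.lf 0 13067 0) P.nil) P.nil)))))) 8781)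
 (EL.cons 7 (TM.mk (P.cons (P.cons (P.lf 0 1292331328 0) (P.cons (P.lf 55898542 0 0) (P.cons (P.lf 26387536 0 0) (P.lf 0 1256553 0)))) (P.cons (P.cons (P.lf 59612436 0 0) (P.cons (P.lf 0 1047213 0) (P.cons (P.lf 0 494347 0) (P.lf 23539 0 0)))) (P.cons (P.cons (P.lf 0 12824923 0) (P.cons (P.lf 98872 0 0) (P.cons (P.lf 46669 0 0) (P.lf 0 2218 0)))) (P.cons (P.cons (P.lf 309963 0 0) (P.cons (P.lf 20146 0 0) (P.cons (P.lf 9508 0 0) P.nil))) (P.cons (P.cons (P.lf 104248 0 0) (P.cons (P.lf 0 1061 0) P.nil)) (P.cons (P.cons (P.lf 0 1068 0) P.nil) P.nil)))))) 7911)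
 (EL.cons 10 (TM.mk (P.cons (P.cons (P.lf 0 628942941 0) (P.cons (P.lf 0 620164263 0) (P.cons (P.lf 19405539 0 0) (P.cons (P.lf 3555984 0 0) (P.lf 0 126999 0))))) (P.cons (P.cons (P.lf 0 14780496 0) (P.cons (P.lf 0 14574192 0) (P.cons (P.lf 456039 0 0) (P.cons (P.lf 83565 0 0) (P.lf 0 2982 0))))) (P.cons (P.cons (P.lf 2178567 0 0) (P.cons (P.lf 2148159 0 0) (P.cons (P.lf 0 67218 0) (P.cons (P.lf 0 12315 0) P.nil)))) (P.cons (P.cons (P.lf 53490 0 0) (P.cons (P.lf 52746 0 0) (P.cons (P.lf 0 1650 0) P.nil))) (P.cons (P.cons (P.lf 0 3663 0) (P.cons (P.lf 0 3612 0) P.nil)) (P.cons (P.cons (P.lf 0 105 0) P.nil) P.nil)))))) 1182)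
 EL.nil))))
noncomputable def S227_241_216_290_8 : EL := (EL.cons 12 (TM.mk (P.cons (P.cons (P.lf 3659025688 0 0) (P.cons (P.lf 0 267152454 0) (P.cons (P.lf 0 121235976 0) (P.cons (P.lf 10609188 0 0) (P.cons (P.lf 867418 0 0) (P.cons (P.lf 0 103490 0) P.nil)))))) (P.cons (P.cons (P.lf 0 138898140 0) (P.cons (P.lf 0 4346716 0) (P.cons (P.lf 0 1708124 0) (P.cons (P.lf 422286 0 0) (P.cons (P.lf 61154 0 0) P.nil))))) (P.cons (P.cons (P.lf 0 62033540 0) (P.cons (P.lf 3824190 0 0) (P.cons (P.lf 1762650 0 0) (P.cons (P.lf 0 126166 0) P.nil)))) (P.cons (P.cons (P.lf 3004678 0 0) (P.cons (P.lf 41040 0 0) (P.cons (P.lf 15804 0 0) P.nil))) (P.cons (P.cons (P.lf 451382 0 0) (P.cons (P.lf 0 25760 0) P.nil)) (P.cons (P.cons (P.lf 0 22984 0) P.nil) P.nil)))))) 55336)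
 (EL.cons 3 (TM.mk (P.cons (P.cons (P.lf 0 1235749795 0) (P.cons (P.lf 0 8204352 0) (P.cons (P.lf 0 1926579 0) (P.cons (P.lf 2022035 0 0) (P.cons (P.lf 346226 0 0) (P.cons (P.lf 0 41305 0) P.nil)))))) (P.cons (P.cons (P.lf 0 746159328 0) (P.cons (P.lf 45472260 0 0) (P.cons (P.lf 20994935 0 0) (P.cons (P.lf 0 1466613 0) (P.cons (P.lf 0 83735 0) P.nil))))) (P.cons (P.cons (P.lf 59422448 0 0) (P.cons (P.lf 700342 0 0) (P.cons (P.lf 265396 0 0) (P.cons (P.lf 0 77299 0) P.nil)))) (P.cons (P.cons (P.lf 11528718 0 0) (P.cons (P.lf 0 647396 0) (P.cons (P.lf 0 301563 0) P.nil))) (P.cons (P.cons (P.lf 0 738861 0) (P.cons (P.lf 0 12359 0) P.nil)) (P.cons (P.cons (P.lf 0 82378 0) P.nil) P.nil)))))) 126640)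
 (EL.cons 7 (TM.mk (P.cons (P.cons (P.lf 0 788887416 0) (P.cons (P.lf 68981571 0 0) (P.cons (P.lf 31096623 0 0) (P.cons (P.lf 0 2935581 0) (P.cons (P.lf 0 260935 0) (P.cons (P.lf 31129 0 0) P.nil)))))) (P.cons (P.cons (P.lf 86294052 0 0) (P.cons (P.lf 0 5258908 0) (P.cons (P.lf 0 2428078 0) (P.cons (P.lf 169611 0 0) (P.cons (P.lf 9682 0 0) P.nil))))) (P.cons (P.cons (P.lf 0 20856687 0) (P.cons (P.lf 771238 0 0) (P.cons (P.lf 362783 0 0) (P.cons (P.lf 0 18539 0) P.nil)))) (P.cons (P.cons (P.lf 234015 0 0) (P.cons (P.lf 87352 0 0) (P.cons (P.lf 39184 0 0) P.nil))) (P.cons (P.cons (P.lf 392732 0 0) (P.cons (P.lf 0 16454 0) P.nil)) (P.cons (P.cons (P.lf 0 13940 0) P.nil) P.nil)))))) 62298)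
 (EL.cons 10 (TM.mk (P.cons (P.cons (P.lf 0 820973316 0) (P.cons (P.lf 0 779543898 0) (P.cons (P.lf 69030444 0 0) (P.cons (P.lf 16993680 0 0) (P.cons (P.lf 0 1436046 0) (P.cons (P.lf 0 53148 0) P.nil)))))) (P.cons (P.cons (P.lf 0 3711066 0) (P.cons (P.lf 0 1898466 0) (P.cons (P.lf 2681928 0 0) (P.cons (P.lf 746670 0 0) (P.cons (P.lf 0 75372 0) P.nil))))) (P.cons (P.cons (P.lf 10317012 0 0) (P.cons (P.lf 9944508 0 0) (P.cons (P.lf 0 651492 0) (P.cons (P.lf 0 152496 0) P.nil)))) (P.cons (P.cons (P.lf 0 19314 0) (P.cons (P.lf 0 34440 0) (P.cons (P.lf 0 21852 0) P.nil))) (P.cons (P.cons (P.lf 0 59184 0) (P.cons (P.lf 0 57528 0) P.nil)) (P.cons (P.cons (P.lf 0 126 0) P.nil) P.nil)))))) 48690)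
 EL.nil))))
noncomputable def S227_241_216_290_9 : EL := (EL.cons 3 (TM.mk (P.cons (P.lf 0 685729796 0) (P.cons (P.lf 214195188 0 0) (P.cons (P.lf 1881828 0 0) (P.cons (P.lf 0 187398 0) (P.cons (P.lf 0 2831 0) (P.cons (P.lf 153 0 0) P.nil)))))) 44)
 (EL.cons 7 (TM.mk (P.cons (P.lf 0 2108197044 0) (P.cons (P.lf 0 24771881 0) (P.cons (P.lf 3796786 0 0) (P.cons (P.lf 45040 0 0) (P.cons (P.lf 0 3252 0) (P.cons (P.lf 0 61 0) P.nil)))))) 51)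
 EL.nil))
noncomputable def S227_241_216_290_10 : EL := (EL.cons 3 (TM.mk (P.cons (P.cons (P.lf 0 447549237 0) (P.cons (P.lf 16338211 0 0) (P.cons (P.lf 7712635 0 0) (P.lf 0 367267 0)))) (P.cons (P.cons (P.lf 148291468 0 0) (P.cons (P.lf 0 4527483 0) (P.cons (P.lf 0 2137249 0) (P.lf 101773 0 0)))) (P.cons (P.cons (P.lf 2449215 0 0) (P.cons (P.lf 0 306240 0) (P.cons (P.lf 0 144563 0) (P.lf 6883 0 0)))) (P.cons (P.cons (P.lf 0 1466047 0) (P.cons (P.lf 25248 0 0) (P.cons (P.lf 11918 0 0) P.nil))) (P.cons (P.cons (P.lf 11341 0 0) (P.cons (P.lf 1612 0 0) P.nil)) (P.cons (P.cons (P.lf 5740 0 0) P.nil) P.nil)))))) 2126)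
 (EL.cons 7 (TM.mk (P.cons (P.cons (P.lf 0 1375938430 0) (P.cons (P.lf 50229946 0 0) (P.cons (P.lf 23711608 0 0) (P.lf 0 1129122 0)))) (P.cons (P.cons (P.lf 9947952 0 0) (P.cons (P.lf 2360859 0 0) (P.cons (P.lf 1114469 0 0) (P.lf 0 53069 0)))) (P.cons (P.cons (P.lf 14696252 0 0) (P.cons (P.lf 0 320237 0) (P.cons (P.lf 0 151169 0) (P.lf 7196 0 0)))) (P.cons (P.cons (P.lf 0 216534 0) (P.cons (P.lf 0 16721 0) (P.cons (P.lf 0 7892 0) P.nil))) (P.cons (P.cons (P.lf 0 67856 0) (P.cons (P.lf 985 0 0) P.nil)) (P.cons (P.cons (P.lf 522 0 0) P.nil) P.nil)))))) 1667)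
 EL.nil))
noncomputable def S227_241_216_290_11 : EL := (EL.cons 3 (TM.mk (P.cons (P.cons (P.lf 0 292098025 0) (P.cons (P.lf 21326634 0 0) (P.cons (P.lf 9678201 0 0) (P.cons (P.lf 0 846925 0) (P.cons (P.lf 0 69244 0) (P.cons (P.lf 8261 0 0) P.nil)))))) (P.cons (P.cons (P.lf 102328170 0 0) (P.cons (P.lf 0 6314610 0) (P.cons (P.lf 0 2886733 0) (P.cons (P.lf 230835 0 0) (P.cons (P.lf 16747 0 0) P.nil))))) (P.cons (P.cons (P.lf 2290190 0 0) (P.cons (P.lf 0 472196 0) (P.cons (P.lf 0 209864 0) (P.cons (P.lf 22925 0 0) P.nil)))) (P.cons (P.cons (P.lf 0 1896960 0) (P.cons (P.lf 96958 0 0) (P.cons (P.lf 44961 0 0) P.nil))) (P.cons (P.cons (P.lf 27123 0 0) (P.cons (P.lf 4099 0 0) P.nil)) (P.cons (P.cons (P.lf 15212 0 0) P.nil) P.nil)))))) 16170)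
 (EL.cons 7 (TM.mk (P.cons (P.cons (P.lf 0 898021638 0) (P.cons (P.lf 65566275 0 0) (P.cons (P.lf 29754513 0 0) (P.cons (P.lf 0 2603775 0) (P.cons (P.lf 0 212887 0) (P.cons (P.lf 25399 0 0) P.nil)))))) (P.cons (P.cons (P.lf 23537280 0 0) (P.cons (P.lf 1837220 0 0) (P.cons (P.lf 768842 0 0) (P.cons (P.lf 0 134235 0) (P.cons (P.lf 0 17510 0) P.nil))))) (P.cons (P.cons (P.lf 17242533 0 0) (P.cons (P.lf 0 1044104 0) (P.cons (P.lf 0 481261 0) (P.cons (P.lf 34435 0 0) P.nil)))) (P.cons (P.cons (P.lf 0 600741 0) (P.cons (P.lf 0 24422 0) (P.cons (P.lf 0 10352 0) P.nil))) (P.cons (P.cons (P.lf 0 148978 0) (P.cons (P.lf 7972 0 0) P.nil)) (P.cons (P.cons (P.lf 5368 0 0) P.nil) P.nil)))))) 16766)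
 EL.nil))
noncomputable def S227_241_216_290_12 : EL := (EL.cons 4 (TM.mk (P.cons (P.lf 685729796 0 0) (P.cons (P.lf 0 214195188 0) (P.cons (P.lf 0 1881828 0) (P.cons (P.lf 187398 0 0) (P.cons (P.lf 2831 0 0) (P.cons (P.lf 0 153 0) P.nil)))))) 44)
 (EL.cons 8 (TM.mk (P.cons (P.lf 2108197044 0 0) (P.cons (P.lf 24771881 0 0) (P.cons (P.lf 0 3796786 0) (P.cons (P.lf 0 45040 0) (P.cons (P.lf 3252 0 0) (P.cons (P.lf 61 0 0) P.nil)))))) 51)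
 EL.nil))
noncomputable def S227_241_216_290_13 : EL := (EL.cons 4 (TM.mk (P.cons (P.cons (P.lf 447549237 0 0) (P.cons (P.lf 0 16338211 0) (P.cons (P.lf 0 7712635 0) (P.lf 367267 0 0)))) (P.cons (P.cons (P.lf 0 148291468 0) (P.cons (P.lf 4527483 0 0) (P.cons (P.lf 2137249 0 0) (P.lf 0 101773 0)))) (P.cons (P.cons (P.lf 0 2449215 0) (P.cons (P.lf 306240 0 0) (P.cons (P.lf 144563 0 0) (P.lf 0 6883 0)))) (P.cons (P.cons (P.lf 1466047 0 0) (P.cons (P.lf 0 25248 0) (P.cons (P.lf 0 11918 0) P.nil))) (P.cons (P.cons (P.lf 0 11341 0) (P.cons (P.lf 0 1612 0) P.nil)) (P.cons (P.cons (P.lf 0 5740 0) P.nil) P.nil)))))) 2126)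
 (EL.cons 8 (TM.mk (P.cons (P.cons (P.lf 1375938430 0 0) (P.cons (P.lf 0 50229946 0) (P.cons (P.lf 0 23711608 0) (P.lf 1129122 0 0)))) (P.cons (P.cons (P.lf 0 9947952 0) (P.cons (P.lf 0 2360859 0) (P.cons (P.lf 0 1114469 0) (P.lf 53069 0 0)))) (P.cons (P.cons (P.lf 0 14696252 0) (P.cons (P.lf 320237 0 0) (P.cons (P.lf 151169 0 0) (P.lf 0 7196 0)))) (P.cons (P.cons (P.lf 216534 0 0) (P.cons (P.lf 16721 0 0) (P.cons (P.lf 7892 0 0) P.nil))) (P.cons (P.cons (P.lf 67856 0 0) (P.cons (P.lf 0 985 0) P.nil)) (P.cons (P.cons (P.lf 0 522 0) P.nil) P.nil)))))) 1667)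
 EL.nil))
noncomputable def S227_241_216_290_14 : EL := (EL.cons 4 (TM.mk (P.cons (P.cons (P.lf 292098025 0 0) (P.cons (P.lf 0 21326634 0) (P.cons (P.lf 0 9678201 0) (P.cons (P.lf 846925 0 0) (P.cons (P.lf 69244 0 0) (P.cons (P.lf 0 8261 0) P.nil)))))) (P.cons (P.cons (P.lf 0 102328170 0) (P.cons (P.lf 6314610 0 0) (P.cons (P.lf 2886733 0 0) (P.cons (P.lf 0 230835 0) (P.cons (P.lf 0 16747 0) P.nil))))) (P.cons (P.cons (P.lf 0 2290190 0) (P.cons (P.lf 472196 0 0) (P.cons (P.lf 209864 0 0) (P.cons (P.lf 0 22925 0) P.nil)))) (P.cons (P.cons (P.lf 1896960 0 0) (P.cons (P.lf 0 96958 0) (P.cons (P.lf 0 44961 0) P.nil))) (P.cons (P.cons (P.lf 0 27123 0) (P.cons (P.lf 0 4099 0) P.nil)) (P.cons (P.cons (P.lf 0 15212 0) P.nil) P.nil)))))) 16170)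
 (EL.cons 8 (TM.mk (P.cons (P.cons (P.lf 898021638 0 0) (P.cons (P.lf 0 65566275 0) (P.cons (P.lf 0 29754513 0) (P.cons (P.lf 2603775 0 0) (P.cons (P.lf 212887 0 0) (P.cons (P.lf 0 25399 0) P.nil)))))) (P.cons (P.cons (P.lf 0 23537280 0) (P.cons (P.lf 0 1837220 0) (P.cons (P.lf 0 768842 0) (P.cons (P.lf 134235 0 0) (P.cons (P.lf 17510 0 0) P.nil))))) (P.cons (P.cons (P.lf 0 17242533 0) (P.cons (P.lf 1044104 0 0) (P.cons (P.lf 481261 0 0) (P.cons (P.lf 0 34435 0) P.nil)))) (P.cons (P.cons (P.lf 600741 0 0) (P.cons (P.lf 24422 0 0) (P.cons (P.lf 10352 0 0) P.nil))) (P.cons (P.cons (P.lf 148978 0 0) (P.cons (P.lf 0 7972 0) P.nil)) (P.cons (P.cons (P.lf 0 5368 0) P.nil) P.nil)))))) 16766)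
 EL.nil))
noncomputable def S227_241_216_290_15 : EL := (EL.cons 4 (TM.mk (P.cons (P.lf 0 116781729 0) (P.cons (P.lf 72956096 0 0) (P.cons (P.lf 0 10753354 0) (P.cons (P.lf 0 264040 0) (P.cons (P.lf 18093 0 0) (P.cons (P.lf 528 0 0) P.nil)))))) 57)
 (EL.cons 8 (TM.mk (P.cons (P.lf 0 359031937 0) (P.cons (P.lf 107928824 0 0) (P.cons (P.lf 2949648 0 0) (P.cons (P.lf 0 280843 0) (P.cons (P.lf 0 7359 0) (P.cons (P.lf 381 0 0) P.nil)))))) 49)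
 EL.nil))
noncomputable def S227_241_216_290_16 : EL := (EL.cons 4 (TM.mk (P.cons (P.cons (P.lf 0 76218903 0) (P.cons (P.lf 2782443 0 0) (P.cons (P.lf 1313483 0 0) (P.lf 0 62546 0)))) (P.cons (P.cons (P.lf 49062264 0 0) (P.cons (P.lf 0 1640169 0) (P.cons (P.lf 0 774260 0) (P.lf 36869 0 0)))) (P.cons (P.cons (P.lf 0 7262231 0) (P.cons (P.lf 181053 0 0) (P.cons (P.lf 85468 0 0) (P.lf 0 4069 0)))) (P.cons (P.cons (P.lf 0 470094 0) (P.cons (P.lf 23466 0 0) (P.cons (P.lf 11077 0 0) P.nil))) (P.cons (P.cons (P.lf 85361 0 0) (P.cons (P.lf 0 1124 0) P.nil)) (P.cons (P.cons (P.lf 1294 0 0) P.nil) P.nil)))))) 2392)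
 (EL.cons 8 (TM.mk (P.cons (P.cons (P.lf 0 234326218 0) (P.cons (P.lf 8554302 0 0) (P.cons (P.lf 4038153 0 0) (P.lf 0 192292 0)))) (P.cons (P.cons (P.lf 74888517 0 0) (P.cons (P.lf 0 2269968 0) (P.cons (P.lf 0 1071564 0) (P.lf 51026 0 0)))) (P.cons (P.cons (P.lf 2616677 0 0) (P.cons (P.lf 0 203600 0) (P.cons (P.lf 0 96111 0) (P.lf 4576 0 0)))) (P.cons (P.cons (P.lf 0 887343 0) (P.cons (P.lf 15422 0 0) (P.cons (P.lf 7279 0 0) P.nil))) (P.cons (P.cons (P.lf 0 7410 0) (P.cons (P.lf 1352 0 0) P.nil)) (P.cons (P.cons (P.lf 4543 0 0) P.nil) P.nil)))))) 1667)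
 EL.nil))
noncomputable def S227_241_216_290_17 : EL := (EL.cons 4 (TM.mk (P.cons (P.cons (P.lf 0 49745121 0) (P.cons (P.lf 3631985 0 0) (P.cons (P.lf 1648224 0 0) (P.cons (P.lf 0 144233 0) (P.cons (P.lf 0 11791 0) (P.cons (P.lf 1406 0 0) P.nil)))))) (P.cons (P.cons (P.lf 32965209 0 0) (P.cons (P.lf 0 2209886 0) (P.cons (P.lf 0 1006459 0) (P.cons (P.lf 84364 0 0) (P.cons (P.lf 6535 0 0) P.nil))))) (P.cons (P.cons (P.lf 0 4916903 0) (P.cons (P.lf 245527 0 0) (P.cons (P.lf 113298 0 0) (P.cons (P.lf 0 7979 0) P.nil)))) (P.cons (P.cons (P.lf 0 506304 0) (P.cons (P.lf 45574 0 0) (P.cons (P.lf 20620 0 0) P.nil))) (P.cons (P.cons (P.lf 109016 0 0) (P.cons (P.lf 0 4516 0) P.nil)) (P.cons (P.cons (P.lf 2223 0 0) P.nil) P.nil)))))) 10451)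
 (EL.cons 8 (TM.mk (P.cons (P.cons (P.lf 0 152935632 0) (P.cons (P.lf 11166122 0 0) (P.cons (P.lf 5067277 0 0) (P.cons (P.lf 0 443430 0) (P.cons (P.lf 0 36254 0) (P.cons (P.lf 4325 0 0) P.nil)))))) (P.cons (P.cons (P.lf 51779580 0 0) (P.cons (P.lf 0 3174976 0) (P.cons (P.lf 0 1451883 0) (P.cons (P.lf 115649 0 0) (P.cons (P.lf 8342 0 0) P.nil))))) (P.cons (P.cons (P.lf 2104060 0 0) (P.cons (P.lf 0 306189 0) (P.cons (P.lf 0 136765 0) (P.cons (P.lf 14222 0 0) P.nil)))) (P.cons (P.cons (P.lf 0 1072336 0) (P.cons (P.lf 53575 0 0) (P.cons (P.lf 24863 0 0) P.nil))) (P.cons (P.cons (P.lf 0 1009 0) (P.cons (P.lf 3276 0 0) P.nil)) (P.cons (P.cons (P.lf 9973 0 0) P.nil) P.nil)))))) 10090)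
 EL.nil))
noncomputable def S227_241_216_290_18 : EL := (EL.cons 4 (TM.mk (P.cons (P.lf 19888259 0 0) (P.cons (P.lf 0 18636945 0) (P.cons (P.lf 5657716 0 0) (P.cons (P.lf 0 487535 0) (P.cons (P.lf 0 25466 0) (P.cons (P.lf 1193 0 0) P.nil)))))) 87)
 (EL.cons 8 (TM.mk (P.cons (P.lf 61144157 0 0) (P.cons (P.lf 0 37479629 0) (P.cons (P.lf 5071246 0 0) (P.cons (P.lf 271888 0 0) (P.cons (P.lf 0 17078 0) (P.cons (P.lf 0 814 0) P.nil)))))) 70)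
 EL.nil))
noncomputable def S227_241_216_290_19 : EL := (EL.cons 4 (TM.mk (P.cons (P.cons (P.lf 12980295 0 0) (P.cons (P.lf 0 473857 0) (P.cons (P.lf 0 223689 0) (P.lf 10651 0 0)))) (P.cons (P.cons (P.lf 0 12409979 0) (P.cons (P.lf 427339 0 0) (P.cons (P.lf 201730 0 0) (P.lf 0 9605 0)))) (P.cons (P.cons (P.lf 3811070 0 0) (P.cons (P.lf 0 116783 0) (P.cons (P.lf 0 55128 0) (P.lf 2625 0 0)))) (P.cons (P.cons (P.lf 0 279784 0) (P.cons (P.lf 4738 0 0) (P.cons (P.lf 2236 0 0) P.nil))) (P.cons (P.cons (P.lf 0 45167 0) (P.cons (P.lf 1598 0 0) P.nil)) (P.cons (P.cons (P.lf 4400 0 0) P.nil) P.nil)))))) 1993)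
 (EL.cons 8 (TM.mk (P.cons (P.cons (P.lf 39906419 0 0) (P.cons (P.lf 0 1456821 0) (P.cons (P.lf 0 687708 0) (P.lf 32747 0 0)))) (P.cons (P.cons (P.lf 0 25218932 0) (P.cons (P.lf 841635 0 0) (P.cons (P.lf 397303 0 0) (P.lf 0 18918 0)))) (P.cons (P.cons (P.lf 3428623 0 0) (P.cons (P.lf 0 82081 0) (P.cons (P.lf 0 38747 0) (P.lf 1844 0 0)))) (P.cons (P.cons (P.lf 336219 0 0) (P.cons (P.lf 0 14915 0) (P.cons (P.lf 0 7041 0) P.nil))) (P.cons (P.cons (P.lf 0 48038 0) (P.cons (P.lf 594 0 0) P.nil)) (P.cons (P.cons (P.lf 0 1765 0) P.nil) P.nil)))))) 1653)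
 EL.nil))
noncomputable def S227_241_216_290_20 : EL := (EL.cons 4 (TM.mk (P.cons (P.cons (P.lf 8471734 0 0) (P.cons (P.lf 0 618537 0) (P.cons (P.lf 0 280696 0) (P.cons (P.lf 24562 0 0) (P.cons (P.lf 2008 0 0) (P.cons (P.lf 0 239 0) P.nil)))))) (P.cons (P.cons (P.lf 0 8260306 0) (P.cons (P.lf 569556 0 0) (P.cons (P.lf 259081 0 0) (P.cons (P.lf 0 22039 0) (P.cons (P.lf 0 1740 0) P.nil))))) (P.cons (P.cons (P.lf 2567729 0 0) (P.cons (P.lf 0 157673 0) (P.cons (P.lf 0 72063 0) (P.cons (P.lf 5778 0 0) P.nil)))) (P.cons (P.cons (P.lf 0 157611 0) (P.cons (P.lf 4096 0 0) (P.cons (P.lf 1967 0 0) P.nil))) (P.cons (P.cons (P.lf 0 49295 0) (P.cons (P.lf 3408 0 0) P.nil)) (P.cons (P.cons (P.lf 5386 0 0) P.nil) P.nil)))))) 5728)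
 (EL.cons 8 (TM.mk (P.cons (P.cons (P.lf 26045371 0 0) (P.cons (P.lf 0 1901621 0) (P.cons (P.lf 0 862971 0) (P.cons (P.lf 75517 0 0) (P.cons (P.lf 6173 0 0) (P.cons (P.lf 0 736 0) P.nil)))))) (P.cons (P.cons (P.lf 0 16953765 0) (P.cons (P.lf 1134699 0 0) (P.cons (P.lf 516818 0 0) (P.cons (P.lf 0 43284 0) (P.cons (P.lf 0 3349 0) P.nil))))) (P.cons (P.cons (P.lf 2324660 0 0) (P.cons (P.lf 0 111532 0) (P.cons (P.lf 0 51574 0) (P.cons (P.lf 3522 0 0) P.nil)))) (P.cons (P.cons (P.lf 325866 0 0) (P.cons (P.lf 0 27415 0) (P.cons (P.lf 0 12423 0) P.nil))) (P.cons (P.cons (P.lf 0 58190 0) (P.cons (P.lf 2288 0 0) P.nil)) (P.cons (P.cons (P.lf 0 2393 0) P.nil) P.nil)))))) 6243)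
 EL.nil))
noncomputable def S227_241_216_290_21 : EL := (EL.cons 4 (TM.mk (P.cons (P.cons (P.lf 722926200 0 0) (P.cons (P.lf 49014633 0 0) (P.cons (P.lf 23137905 0 0) (P.lf 0 1101801 0)))) (P.cons (P.cons (P.lf 663742689 0 0) (P.cons (P.lf 0 13582449 0) (P.cons (P.lf 0 6411747 0) (P.lf 305319 0 0)))) (P.cons (P.cons (P.lf 0 24912417 0) (P.cons (P.lf 0 918720 0) (P.cons (P.lf 0 433689 0) (P.lf 20649 0 0)))) (P.cons (P.cons (P.lf 0 5190261 0) (P.cons (P.lf 75744 0 0) (P.cons (P.lf 35754 0 0) P.nil))) (P.cons (P.cons (P.lf 88299 0 0) (P.cons (P.lf 4836 0 0) P.nil)) (P.cons (P.cons (P.lf 18807 0 0) P.nil) P.nil)))))) 6636)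
 (EL.cons 8 (TM.mk (P.cons (P.cons (P.lf 0 83607102 0) (P.cons (P.lf 0 5668596 0) (P.cons (P.lf 0 2675928 0) (P.lf 127431 0 0)))) (P.cons (P.cons (P.lf 0 49664484 0) (P.cons (P.lf 3408072 0 0) (P.cons (P.lf 1608816 0 0) (P.lf 0 76608 0)))) (P.cons (P.cons (P.lf 27521175 0 0) (P.cons (P.lf 0 419109 0) (P.cons (P.lf 0 197838 0) (P.lf 9414 0 0)))) (P.cons (P.cons (P.lf 0 526497 0) (P.cons (P.lf 0 36867 0) (P.cons (P.lf 0 17400 0) P.nil))) (P.cons (P.cons (P.lf 0 172104 0) (P.cons (P.lf 2046 0 0) P.nil)) (P.cons (P.cons (P.lf 1590 0 0) P.nil) P.nil)))))) 6225)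
 (EL.cons 11 (TM.mk (P.cons (P.cons (P.lf 628942941 0 0) (P.cons (P.lf 620164263 0 0) (P.cons (P.lf 0 19405539 0) (P.cons (P.lf 0 3555984 0) (P.lf 126999 0 0))))) (P.cons (P.cons (P.lf 14780496 0 0) (P.cons (P.lf 14574192 0 0) (P.cons (P.lf 0 456039 0) (P.cons (P.lf 0 83565 0) (P.lf 2982 0 0))))) (P.cons (P.cons (P.lf 0 2178567 0) (P.cons (P.lf 0 2148159 0) (P.cons (P.lf 67218 0 0) (P.cons (P.lf 12315 0 0) P.nil)))) (P.cons (P.cons (P.lf 0 53490 0) (P.cons (P.lf 0 52746 0) (P.cons (P.lf 1650 0 0) P.nil))) (P.cons (P.cons (P.lf 3663 0 0) (P.cons (P.lf 3612 0 0) P.nil)) (P.cons (P.cons (P.lf 105 0 0) P.nil) P.nil)))))) 1182)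
 EL.nil)))
noncomputable def S227_241_216_290_22 : EL := (EL.cons 4 (TM.mk (P.cons (P.cons (P.lf 471825885 0 0) (P.cons (P.lf 14765493 0 0) (P.cons (P.lf 5802390 0 0) (P.cons (P.lf 0 1434480 0) (P.cons (P.lf 0 207735 0) (P.cons (P.lf 24783 0 0) P.nil)))))) (P.cons (P.cons (P.lf 424243749 0 0) (P.cons (P.lf 0 25893435 0) (P.cons (P.lf 0 11940834 0) (P.cons (P.lf 848724 0 0) (P.cons (P.lf 50241 0 0) P.nil))))) (P.cons (P.cons (P.lf 0 28566129 0) (P.cons (P.lf 0 586269 0) (P.cons (P.lf 0 237630 0) (P.cons (P.lf 50112 0 0) P.nil)))) (P.cons (P.cons (P.lf 0 6712839 0) (P.cons (P.lf 372177 0 0) (P.cons (P.lf 173262 0 0) P.nil))) (P.cons (P.cons (P.lf 382992 0 0) (P.cons (P.lf 8229 0 0) P.nil)) (P.cons (P.cons (P.lf 48795 0 0) P.nil) P.nil)))))) 55224)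
 (EL.cons 8 (TM.mk (P.cons (P.cons (P.lf 0 54567111 0) (P.cons (P.lf 0 1707648 0) (P.cons (P.lf 0 671055 0) (P.cons (P.lf 165903 0 0) (P.cons (P.lf 24024 0 0) (P.cons (P.lf 0 2865 0) P.nil)))))) (P.cons (P.cons (P.lf 0 31378386 0) (P.cons (P.lf 3548064 0 0) (P.cons (P.lf 1598460 0 0) (P.cons (P.lf 0 151923 0) (P.cons (P.lf 0 13596 0) P.nil))))) (P.cons (P.cons (P.lf 19049610 0 0) (P.cons (P.lf 0 907671 0) (P.cons (P.lf 0 422022 0) (P.cons (P.lf 26487 0 0) P.nil)))) (P.cons (P.cons (P.lf 0 417378 0) (P.cons (P.lf 0 55887 0) (P.cons (P.lf 0 24768 0) P.nil))) (P.cons (P.cons (P.lf 0 270855 0) (P.cons (P.lf 12213 0 0) P.nil)) (P.cons (P.cons (P.lf 9654 0 0) P.nil) P.nil)))))) 22755)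
 (EL.cons 11 (TM.mk (P.cons (P.cons (P.lf 410486658 0 0) (P.cons (P.lf 389771949 0 0) (P.cons (P.lf 0 34515222 0) (P.cons (P.lf 0 8496840 0) (P.cons (P.lf 718023 0 0) (P.cons (P.lf 26574 0 0) P.nil)))))) (P.cons (P.cons (P.lf 1855533 0 0) (P.cons (P.lf 949233 0 0) (P.cons (P.lf 0 1340964 0) (P.cons (P.lf 0 373335 0) (P.cons (P.lf 37686 0 0) P.nil))))) (P.cons (P.cons (P.lf 0 5158506 0) (P.cons (P.lf 0 4972254 0) (P.cons (P.lf 325746 0 0) (P.cons (P.lf 76248 0 0) P.nil)))) (P.cons (P.cons (P.lf 9657 0 0) (P.cons (P.lf 17220 0 0) (P.cons (P.lf 10926 0 0) P.nil))) (P.cons (P.cons (P.lf 29592 0 0) (P.cons (P.lf 28764 0 0) P.nil)) (P.cons (P.cons (P.lf 63 0 0) P.nil) P.nil)))))) 24345)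
 EL.nil)))
noncomputable def S227_241_216_290_23 : EL := (EL.cons 4 (TM.mk (P.cons (P.cons (P.lf 0 123116382 0) (P.cons (P.lf 0 8347329 0) (P.cons (P.lf 0 3940449 0) (P.lf 187638 0 0)))) (P.cons (P.cons (P.lf 0 74580516 0) (P.cons (P.lf 4920507 0 0) (P.cons (P.lf 2322780 0 0) (P.lf 0 110607 0)))) (P.cons (P.cons (P.lf 39888942 0 0) (P.cons (P.lf 0 543162 0) (P.cons (P.lf 0 256404 0) (P.lf 12210 0 0)))) (P.cons (P.cons (P.lf 0 164763 0) (P.cons (P.lf 0 70398 0) (P.cons (P.lf 0 33231 0) P.nil))) (P.cons (P.cons (P.lf 0 334179 0) (P.cons (P.lf 3372 0 0) P.nil)) (P.cons (P.cons (P.lf 0 210 0) P.nil) P.nil)))))) 7038)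
 (EL.cons 8 (TM.mk (P.cons (P.cons (P.lf 14238525 0 0) (P.cons (P.lf 965376 0 0) (P.cons (P.lf 455718 0 0) (P.lf 0 21699 0)))) (P.cons (P.cons (P.lf 4010442 0 0) (P.cons (P.lf 0 881949 0) (P.cons (P.lf 0 416334 0) (P.lf 19824 0 0)))) (P.cons (P.cons (P.lf 0 7367958 0) (P.cons (P.lf 250020 0 0) (P.cons (P.lf 118023 0 0) (P.lf 0 5616 0)))) (P.cons (P.cons (P.lf 1534359 0 0) (P.cons (P.lf 0 14157 0) (P.cons (P.lf 0 6684 0) P.nil))) (P.cons (P.cons (P.lf 16533 0 0) (P.cons (P.lf 0 2658 0) P.nil)) (P.cons (P.cons (P.lf 0 10920 0) P.nil) P.nil)))))) 3489)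
 (EL.cons 11 (TM.mk (P.cons (P.cons (P.lf 0 107110767 0) (P.cons (P.lf 0 105615732 0) (P.cons (P.lf 3304818 0 0) (P.cons (P.lf 605592 0 0) (P.lf 0 21627 0))))) (P.cons (P.cons (P.lf 30940056 0 0) (P.cons (P.lf 30508200 0 0) (P.cons (P.lf 0 954630 0) (P.cons (P.lf 0 174930 0) (P.lf 6246 0 0))))) (P.cons (P.cons (P.lf 1451217 0 0) (P.cons (P.lf 1430961 0 0) (P.cons (P.lf 0 44775 0) (P.cons (P.lf 0 8202 0) P.nil)))) (P.cons (P.cons (P.lf 0 129144 0) (P.cons (P.lf 0 127341 0) (P.cons (P.lf 3984 0 0) P.nil))) (P.cons (P.cons (P.lf 0 5616 0) (P.cons (P.lf 0 5538 0) P.nil)) (P.cons (P.cons (P.lf 264 0 0) P.nil) P.nil)))))) 1965)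
 EL.nil)))
noncomputable def S227_241_216_290_24 : EL := (EL.cons 4 (TM.mk (P.cons (P.cons (P.lf 0 80353287 0) (P.cons (P.lf 0 2514603 0) (P.cons (P.lf 0 988164 0) (P.cons (P.lf 244296 0 0) (P.cons (P.lf 35376 0 0) (P.cons (P.lf 0 4218 0) P.nil)))))) (P.cons (P.cons (P.lf 0 47150688 0) (P.cons (P.lf 5195190 0 0) (P.cons (P.lf 2342220 0 0) (P.cons (P.lf 0 220848 0) (P.cons (P.lf 0 19605 0) P.nil))))) (P.cons (P.cons (P.lf 27653451 0 0) (P.cons (P.lf 0 1270680 0) (P.cons (P.lf 0 592023 0) (P.cons (P.lf 35943 0 0) P.nil)))) (P.cons (P.cons (P.lf 0 200070 0) (P.cons (P.lf 0 107358 0) (P.cons (P.lf 0 47997 0) P.nil))) (P.cons (P.cons (P.lf 0 455748 0) (P.cons (P.lf 19317 0 0) P.nil)) (P.cons (P.cons (P.lf 9975 0 0) P.nil) P.nil)))))) 34752)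
 (EL.cons 8 (TM.mk (P.cons (P.cons (P.lf 9292932 0 0) (P.cons (P.lf 290817 0 0) (P.cons (P.lf 114282 0 0) (P.cons (P.lf 0 28251 0) (P.cons (P.lf 0 4089 0) (P.cons (P.lf 486 0 0) P.nil)))))) (P.cons (P.cons (P.lf 2441076 0 0) (P.cons (P.lf 0 695085 0) (P.cons (P.lf 0 307920 0) (P.cons (P.lf 34698 0 0) (P.cons (P.lf 3591 0 0) P.nil))))) (P.cons (P.cons (P.lf 0 4938906 0) (P.cons (P.lf 342522 0 0) (P.cons (P.lf 156588 0 0) (P.cons (P.lf 0 12513 0) P.nil)))) (P.cons (P.cons (P.lf 1072317 0 0) (P.cons (P.lf 0 37026 0) (P.cons (P.lf 0 17451 0) P.nil))) (P.cons (P.cons (P.lf 34326 0 0) (P.cons (P.lf 0 5640 0) P.nil)) (P.cons (P.cons (P.lf 0 17112 0) P.nil) P.nil)))))) 10830)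
 (EL.cons 11 (TM.mk (P.cons (P.cons (P.lf 0 69907041 0) (P.cons (P.lf 0 66379266 0) (P.cons (P.lf 5878038 0 0) (P.cons (P.lf 1447035 0 0) (P.cons (P.lf 0 122280 0) (P.cons (P.lf 0 4524 0) P.nil)))))) (P.cons (P.cons (P.lf 21520224 0 0) (P.cons (P.lf 20572632 0 0) (P.cons (P.lf 0 1607697 0) (P.cons (P.lf 0 388416 0) (P.cons (P.lf 31776 0 0) P.nil))))) (P.cons (P.cons (P.lf 1169058 0 0) (P.cons (P.lf 1079445 0 0) (P.cons (P.lf 0 142938 0) (P.cons (P.lf 0 36816 0) P.nil)))) (P.cons (P.cons (P.lf 0 294291 0) (P.cons (P.lf 0 285132 0) (P.cons (P.lf 16446 0 0) P.nil))) (P.cons (P.cons (P.lf 0 7311 0) (P.cons (P.lf 0 6624 0) P.nil)) (P.cons (P.cons (P.lf 1821 0 0) P.nil) P.nil)))))) 17454)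
 EL.nil)))
noncomputable def S227_241_216_290_25 : EL := (EL.cons 4 (TM.mk (P.cons (P.cons (P.lf 20967069 0 0) (P.cons (P.lf 1421574 0 0) (P.cons (P.lf 671067 0 0) (P.lf 0 31953 0)))) (P.cons (P.cons (P.lf 6151980 0 0) (P.cons (P.lf 0 1282020 0) (P.cons (P.lf 0 605190 0) (P.lf 28818 0 0)))) (P.cons (P.cons (P.lf 0 10818120 0) (P.cons (P.lf 350352 0 0) (P.cons (P.lf 165387 0 0) (P.lf 0 7875 0)))) (P.cons (P.cons (P.lf 2120862 0 0) (P.cons (P.lf 0 14214 0) (P.cons (P.lf 0 6711 0) P.nil))) (P.cons (P.cons (P.lf 70347 0 0) (P.cons (P.lf 0 4794 0) P.nil)) (P.cons (P.cons (P.lf 0 19626 0) P.nil) P.nil)))))) 5886)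
 (EL.cons 8 (TM.mk (P.cons (P.cons (P.lf 0 2424861 0) (P.cons (P.lf 0 164406 0) (P.cons (P.lf 0 77610 0) (P.lf 3693 0 0)))) (P.cons (P.cons (P.lf 74442 0 0) (P.cons (P.lf 201552 0 0) (P.cons (P.lf 95145 0 0) (P.lf 0 4530 0)))) (P.cons (P.cons (P.lf 1474776 0 0) (P.cons (P.lf 0 89043 0) (P.cons (P.lf 0 42033 0) (P.lf 2001 0 0)))) (P.cons (P.cons (P.lf 0 652038 0) (P.cons (P.lf 15252 0 0) (P.cons (P.lf 7200 0 0) P.nil))) (P.cons (P.cons (P.lf 75165 0 0) (P.cons (P.lf 0 141 0) P.nil)) (P.cons (P.cons (P.lf 3795 0 0) P.nil) P.nil)))))) 2679)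
 (EL.cons 11 (TM.mk (P.cons (P.cons (P.lf 18241266 0 0) (P.cons (P.lf 17986656 0 0) (P.cons (P.lf 0 562818 0) (P.cons (P.lf 0 103134 0) (P.lf 3681 0 0))))) (P.cons (P.cons (P.lf 0 10967037 0) (P.cons (P.lf 0 10813962 0) (P.cons (P.lf 338379 0 0) (P.cons (P.lf 62004 0 0) (P.lf 0 2214 0))))) (P.cons (P.cons (P.lf 1348677 0 0) (P.cons (P.lf 1329855 0 0) (P.cons (P.lf 0 41610 0) (P.cons (P.lf 0 7623 0) P.nil)))) (P.cons (P.cons (P.lf 118635 0 0) (P.cons (P.lf 116979 0 0) (P.cons (P.lf 0 3660 0) P.nil))) (P.cons (P.cons (P.lf 0 6597 0) (P.cons (P.lf 0 6507 0) P.nil)) (P.cons (P.cons (P.lf 0 498 0) P.nil) P.nil)))))) 2172)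
 EL.nil)))
noncomputable def S227_241_216_290_26 : EL := (EL.cons 4 (TM.mk (P.cons (P.cons (P.lf 13684392 0 0) (P.cons (P.lf 428244 0 0) (P.cons (P.lf 168285 0 0) (P.cons (P.lf 0 41604 0) (P.cons (P.lf 0 6024 0) (P.cons (P.lf 717 0 0) P.nil)))))) (P.cons (P.cons (P.lf 3755424 0 0) (P.cons (P.lf 0 1018521 0) (P.cons (P.lf 0 451452 0) (P.cons (P.lf 50604 0 0) (P.cons (P.lf 5220 0 0) P.nil))))) (P.cons (P.cons (P.lf 0 7255239 0) (P.cons (P.lf 491586 0 0) (P.cons (P.lf 224958 0 0) (P.cons (P.lf 0 17754 0) P.nil)))) (P.cons (P.cons (P.lf 1486827 0 0) (P.cons (P.lf 0 46764 0) (P.cons (P.lf 0 22176 0) P.nil))) (P.cons (P.cons (P.lf 82146 0 0) (P.cons (P.lf 0 9834 0) P.nil)) (P.cons (P.cons (P.lf 0 27291 0) P.nil) P.nil)))))) 17928)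
 (EL.cons 8 (TM.mk (P.cons (P.cons (P.lf 0 1582611 0) (P.cons (P.lf 0 49527 0) (P.cons (P.lf 0 19461 0) (P.cons (P.lf 4809 0 0) (P.cons (P.lf 696 0 0) (P.cons (P.lf 0 81 0) P.nil)))))) (P.cons (P.cons (P.lf 78621 0 0) (P.cons (P.lf 133845 0 0) (P.cons (P.lf 58518 0 0) (P.cons (P.lf 0 7410 0) (P.cons (P.lf 0 828 0) P.nil))))) (P.cons (P.cons (P.lf 975306 0 0) (P.cons (P.lf 0 95172 0) (P.cons (P.lf 0 42993 0) (P.cons (P.lf 3963 0 0) P.nil)))) (P.cons (P.cons (P.lf 0 444639 0) (P.cons (P.lf 24186 0 0) (P.cons (P.lf 11151 0 0) P.nil))) (P.cons (P.cons (P.lf 48768 0 0) (P.cons (P.lf 0 816 0) P.nil)) (P.cons (P.cons (P.lf 5469 0 0) P.nil) P.nil)))))) 5775)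
 (EL.cons 11 (TM.mk (P.cons (P.cons (P.lf 11905365 0 0) (P.cons (P.lf 11304576 0 0) (P.cons (P.lf 0 1001046 0) (P.cons (P.lf 0 246432 0) (P.cons (P.lf 20823 0 0) (P.cons (P.lf 768 0 0) P.nil)))))) (P.cons (P.cons (P.lf 0 7383726 0) (P.cons (P.lf 0 7034685 0) (P.cons (P.lf 586482 0 0) (P.cons (P.lf 143124 0 0) (P.cons (P.lf 0 11916 0) P.nil))))) (P.cons (P.cons (P.lf 913023 0 0) (P.cons (P.lf 879522 0 0) (P.cons (P.lf 0 58431 0) (P.cons (P.lf 0 13713 0) P.nil)))) (P.cons (P.cons (P.lf 125619 0 0) (P.cons (P.lf 118683 0 0) (P.cons (P.lf 0 11427 0) P.nil))) (P.cons (P.cons (P.lf 0 14814 0) (P.cons (P.lf 0 14445 0) P.nil)) (P.cons (P.cons (P.lf 0 909 0) P.nil) P.nil)))))) 9879)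
 EL.nil)))
noncomputable def S227_241_216_290_27 : EL := (EL.cons 13 (TM.mk (P.lf 0 4294967296 0) 0)
 EL.nil)
noncomputable def S227_241_216_290_28 : EL := (EL.cons 13 (TM.mk (P.cons (P.cons (P.lf 0 2803158546 0) (P.cons (P.lf 102331980 0 0) (P.cons (P.lf 48306956 0 0) (P.lf 0 2300328 0)))) (P.cons (P.cons (P.lf 53204534 0 0) (P.cons (P.lf 3607280 0 0) (P.cons (P.lf 1702856 0 0) (P.lf 0 81088 0)))) (P.cons (P.cons (P.lf 24266686 0 0) (P.cons (P.lf 0 510500 0) (P.cons (P.lf 0 240984 0) (P.lf 11472 0 0)))) (P.cons (P.cons (P.lf 0 690347 0) (P.cons (P.lf 0 19384 0) (P.cons (P.lf 0 9148 0) P.nil))) (P.cons (P.cons (P.lf 0 80967 0) (P.cons (P.lf 1236 0 0) P.nil)) (P.cons (P.cons (P.lf 1291 0 0) P.nil) P.nil)))))) 1930)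
 EL.nil)
noncomputable def S227_241_216_290_29 : EL := (EL.cons 13 (TM.mk (P.cons (P.cons (P.lf 0 1829512844 0) (P.cons (P.lf 133576227 0 0) (P.cons (P.lf 60617988 0 0) (P.cons (P.lf 0 5304594 0) (P.cons (P.lf 0 433709 0) (P.cons (P.lf 51745 0 0) P.nil)))))) (P.cons (P.cons (P.lf 69449070 0 0) (P.cons (P.lf 2173358 0 0) (P.cons (P.lf 854062 0 0) (P.cons (P.lf 0 211143 0) (P.cons (P.lf 0 30577 0) P.nil))))) (P.cons (P.cons (P.lf 31016770 0 0) (P.cons (P.lf 0 1912095 0) (P.cons (P.lf 0 881325 0) (P.cons (P.lf 63083 0 0) P.nil)))) (P.cons (P.cons (P.lf 0 1502339 0) (P.cons (P.lf 0 20520 0) (P.cons (P.lf 0 7902 0) P.nil))) (P.cons (P.cons (P.lf 0 225691 0) (P.cons (P.lf 12880 0 0) P.nil)) (P.cons (P.cons (P.lf 11492 0 0) P.nil) P.nil)))))) 27668)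
 EL.nil)
noncomputable def S227_241_216_290_30 : EL := (EL.cons 13 (TM.mk (P.cons (P.lf 731445116 0 0) (P.cons (P.lf 0 228474868 0) (P.cons (P.lf 0 2007284 0) (P.cons (P.lf 199892 0 0) (P.cons (P.lf 3020 0 0) (P.cons (P.lf 0 164 0) P.nil)))))) 40)
 EL.nil)
noncomputable def S227_241_216_290_31 : EL := (EL.cons 13 (TM.mk (P.cons (P.cons (P.lf 477385853 0 0) (P.cons (P.lf 0 17427426 0) (P.cons (P.lf 0 8226811 0) (P.lf 391752 0 0)))) (P.cons (P.cons (P.lf 0 158177566 0) (P.cons (P.lf 4829316 0 0) (P.cons (P.lf 2279733 0 0) (P.lf 0 108558 0)))) (P.cons (P.cons (P.lf 0 2612496 0) (P.cons (P.lf 326657 0 0) (P.cons (P.lf 154201 0 0) (P.lf 0 7342 0)))) (P.cons (P.cons (P.lf 1563784 0 0) (P.cons (P.lf 0 26932 0) (P.cons (P.lf 0 12713 0) P.nil))) (P.cons (P.cons (P.lf 0 12098 0) (P.cons (P.lf 0 1720 0) P.nil)) (P.cons (P.cons (P.lf 0 6123 0) P.nil) P.nil)))))) 2248)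
 EL.nil)
noncomputable def S227_241_216_290_32 : EL := (EL.cons 13 (TM.mk (P.cons (P.cons (P.lf 311571227 0 0) (P.cons (P.lf 0 22748410 0) (P.cons (P.lf 0 10323415 0) (P.cons (P.lf 903387 0 0) (P.cons (P.lf 73861 0 0) (P.cons (P.lf 0 8812 0) P.nil)))))) (P.cons (P.cons (P.lf 0 109150048 0) (P.cons (P.lf 6735585 0 0) (P.cons (P.lf 3079182 0 0) (P.cons (P.lf 0 246224 0) (P.cons (P.lf 0 17864 0) P.nil))))) (P.cons (P.cons (P.lf 0 2442870 0) (P.cons (P.lf 503676 0 0) (P.cons (P.lf 223855 0 0) (P.cons (P.lf 0 24454 0) P.nil)))) (P.cons (P.cons (P.lf 2023424 0 0) (P.cons (P.lf 0 103422 0) (P.cons (P.lf 0 47959 0) P.nil))) (P.cons (P.cons (P.lf 0 28932 0) (P.cons (P.lf 0 4373 0) P.nil)) (P.cons (P.cons (P.lf 0 16227 0) P.nil) P.nil)))))) 17225)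
 EL.nil)
noncomputable def S227_241_216_290_33 : EL := (EL.cons 14 (TM.mk (P.lf 8589934592 0 0) 0)
 EL.nil)
noncomputable def S227_241_216_290_34 : EL := (EL.cons 14 (TM.mk (P.cons (P.cons (P.lf 5606317092 0 0) (P.cons (P.lf 0 204663960 0) (P.cons (P.lf 0 96613912 0) (P.lf 4600656 0 0)))) (P.cons (P.cons (P.lf 0 106409068 0) (P.cons (P.lf 0 7214560 0) (P.cons (P.lf 0 3405712 0) (P.lf 162176 0 0)))) (P.cons (P.cons (P.lf 0 48533372 0) (P.cons (P.lf 1021000 0 0) (P.cons (P.lf 481968 0 0) (P.lf 0 22944 0)))) (P.cons (P.cons (P.lf 1380694 0 0) (P.cons (P.lf 38768 0 0) (P.cons (P.lf 18296 0 0) P.nil))) (P.cons (P.cons (P.lf 161934 0 0) (P.cons (P.lf 0 2472 0) P.nil)) (P.cons (P.cons (P.lf 0 2582 0) P.nil) P.nil)))))) 3860)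
 EL.nil)
noncomputable def S227_241_216_290_35 : EL := (EL.cons 14 (TM.mk (P.cons (P.cons (P.lf 3659025688 0 0) (P.cons (P.lf 0 267152454 0) (P.cons (P.lf 0 121235976 0) (P.cons (P.lf 10609188 0 0) (P.cons (P.lf 867418 0 0) (P.cons (P.lf 0 103490 0) P.nil)))))) (P.cons (P.cons (P.lf 0 138898140 0) (P.cons (P.lf 0 4346716 0) (P.cons (P.lf 0 1708124 0) (P.cons (P.lf 422286 0 0) (P.cons (P.lf 61154 0 0) P.nil))))) (P.cons (P.cons (P.lf 0 62033540 0) (P.cons (P.lf 3824190 0 0) (P.cons (P.lf 1762650 0 0) (P.cons (P.lf 0 126166 0) P.nil)))) (P.cons (P.cons (P.lf 3004678 0 0) (P.cons (P.lf 41040 0 0) (P.cons (P.lf 15804 0 0) P.nil))) (P.cons (P.cons (P.lf 451382 0 0) (P.cons (P.lf 0 25760 0) P.nil)) (P.cons (P.cons (P.lf 0 22984 0) P.nil) P.nil)))))) 55336)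
 EL.nil)
noncomputable def S227_241_216_290_36 : EL := (EL.cons 14 (TM.mk (P.cons (P.lf 0 1462890232 0) (P.cons (P.lf 456949736 0 0) (P.cons (P.lf 4014568 0 0) (P.cons (P.lf 0 399784 0) (P.cons (P.lf 0 6040 0) (P.cons (P.lf 328 0 0) P.nil)))))) 80)
 EL.nil)
noncomputable def S227_241_216_290_37 : EL := (EL.cons 14 (TM.mk (P.cons (P.cons (P.lf 0 954771706 0) (P.cons (P.lf 34854852 0 0) (P.cons (P.lf 16453622 0 0) (P.lf 0 783504 0)))) (P.cons (P.cons (P.lf 316355132 0 0) (P.cons (P.lf 0 9658632 0) (P.cons (P.lf 0 4559466 0) (P.lf 217116 0 0)))) (P.cons (P.cons (P.lf 5224992 0 0) (P.cons (P.lf 0 653314 0) (P.cons (P.lf 0 308402 0) (P.lf 14684 0 0)))) (P.cons (P.cons (P.lf 0 3127568 0) (P.cons (P.lf 53864 0 0) (P.cons (P.lf 25426 0 0) P.nil))) (P.cons (P.cons (P.lf 24196 0 0) (P.cons (P.lf 3440 0 0) P.nil)) (P.cons (P.cons (P.lf 12246 0 0) P.nil) P.nil)))))) 4496)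
 EL.nil)
noncomputable def S227_241_216_290_38 : EL := (EL.cons 14 (TM.mk (P.cons (P.cons (P.lf 0 623142454 0) (P.cons (P.lf 45496820 0 0) (P.cons (P.lf 20646830 0 0) (P.cons (P.lf 0 1806774 0) (P.cons (P.lf 0 147722 0) (P.cons (P.lf 17624 0 0) P.nil)))))) (P.cons (P.cons (P.lf 218300096 0 0) (P.cons (P.lf 0 13471170 0) (P.cons (P.lf 0 6158364 0) (P.cons (P.lf 492448 0 0) (P.cons (P.lf 35728 0 0) P.nil))))) (P.cons (P.cons (P.lf 4885740 0 0) (P.cons (P.lf 0 1007352 0) (P.cons (P.lf 0 447710 0) (P.cons (P.lf 48908 0 0) P.nil)))) (P.cons (P.cons (P.lf 0 4046848 0) (P.cons (P.lf 206844 0 0) (P.cons (P.lf 95918 0 0) P.nil))) (P.cons (P.cons (P.lf 57864 0 0) (P.cons (P.lf 8746 0 0) P.nil)) (P.cons (P.cons (P.lf 32454 0 0) P.nil) P.nil)))))) 34450)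
 EL.nil)
noncomputable def S227_241_216_290_39 : EL := (EL.cons 14 (TM.mk (P.cons (P.lf 249134356 0 0) (P.cons (P.lf 0 155639672 0) (P.cons (P.lf 22940490 0 0) (P.cons (P.lf 563286 0 0) (P.cons (P.lf 0 38600 0) (P.cons (P.lf 0 1128 0) P.nil)))))) 108)
 EL.nil)
noncomputable def S227_241_216_290_40 : EL := (EL.cons 14 (TM.mk (P.cons (P.cons (P.lf 162600328 0 0) (P.cons (P.lf 0 5935880 0) (P.cons (P.lf 0 2802098 0) (P.lf 133432 0 0)))) (P.cons (P.cons (P.lf 0 104666164 0) (P.cons (P.lf 3499028 0 0) (P.cons (P.lf 1651756 0 0) (P.lf 0 78654 0)))) (P.cons (P.cons (P.lf 15492760 0 0) (P.cons (P.lf 0 386248 0) (P.cons (P.lf 0 182332 0) (P.lf 8682 0 0)))) (P.cons (P.cons (P.lf 1002868 0 0) (P.cons (P.lf 0 50062 0) (P.cons (P.lf 0 23632 0) P.nil))) (P.cons (P.cons (P.lf 0 182104 0) (P.cons (P.lf 2398 0 0) P.nil)) (P.cons (P.cons (P.lf 0 2762 0) P.nil) P.nil)))))) 5064)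
 EL.nil)
noncomputable def S227_241_216_290_41 : EL := (EL.cons 14 (TM.mk (P.cons (P.cons (P.lf 106122926 0 0) (P.cons (P.lf 0 7748236 0) (P.cons (P.lf 0 3516212 0) (P.cons (P.lf 307698 0 0) (P.cons (P.lf 25156 0 0) (P.cons (P.lf 0 3000 0) P.nil)))))) (P.cons (P.cons (P.lf 0 70325780 0) (P.cons (P.lf 4714424 0 0) (P.cons (P.lf 2147114 0 0) (P.cons (P.lf 0 179978 0) (P.cons (P.lf 0 13942 0) P.nil))))) (P.cons (P.cons (P.lf 10489394 0 0) (P.cons (P.lf 0 523792 0) (P.cons (P.lf 0 241704 0) (P.cons (P.lf 17022 0 0) P.nil)))) (P.cons (P.cons (P.lf 1080116 0 0) (P.cons (P.lf 0 97226 0) (P.cons (P.lf 0 43990 0) P.nil))) (P.cons (P.cons (P.lf 0 232568 0) (P.cons (P.lf 9636 0 0) P.nil)) (P.cons (P.cons (P.lf 0 4744 0) P.nil) P.nil)))))) 22250)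
 EL.nil)
noncomputable def S227_241_216_290_42 : EL := (EL.cons 14 (TM.mk (P.cons (P.lf 0 42428286 0) (P.cons (P.lf 39758816 0 0) (P.cons (P.lf 0 12069796 0) (P.cons (P.lf 1040076 0 0) (P.cons (P.lf 54328 0 0) (P.cons (P.lf 0 2546 0) P.nil)))))) 172)
 EL.nil)
noncomputable def S227_241_216_290_43 : EL := (EL.cons 14 (TM.mk (P.cons (P.cons (P.lf 0 27691296 0) (P.cons (P.lf 1010896 0 0) (P.cons (P.lf 477204 0 0) (P.lf 0 22724 0)))) (P.cons (P.cons (P.lf 26474622 0 0) (P.cons (P.lf 0 911658 0) (P.cons (P.lf 0 430358 0) (P.lf 20492 0 0)))) (P.cons (P.cons (P.lf 0 8130284 0) (P.cons (P.lf 249138 0 0) (P.cons (P.lf 117608 0 0) (P.lf 0 5600 0)))) (P.cons (P.cons (P.lf 596874 0 0) (P.cons (P.lf 0 10108 0) (P.cons (P.lf 0 4772 0) P.nil))) (P.cons (P.cons (P.lf 96358 0 0) (P.cons (P.lf 0 3410 0) P.nil)) (P.cons (P.cons (P.lf 0 9388 0) P.nil) P.nil)))))) 4212)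
 EL.nil)
noncomputable def S227_241_216_290_44 : EL := (EL.cons 14 (TM.mk (P.cons (P.cons (P.lf 0 18073034 0) (P.cons (P.lf 1319546 0 0) (P.cons (P.lf 598820 0 0) (P.cons (P.lf 0 52400 0) (P.cons (P.lf 0 4284 0) (P.cons (P.lf 510 0 0) P.nil)))))) (P.cons (P.cons (P.lf 17621988 0 0) (P.cons (P.lf 0 1215054 0) (P.cons (P.lf 0 552708 0) (P.cons (P.lf 47018 0 0) (P.cons (P.lf 3712 0 0) P.nil))))) (P.cons (P.cons (P.lf 0 5477822 0) (P.cons (P.lf 336370 0 0) (P.cons (P.lf 153736 0 0) (P.cons (P.lf 0 12328 0) P.nil)))) (P.cons (P.cons (P.lf 336238 0 0) (P.cons (P.lf 0 8740 0) (P.cons (P.lf 0 4198 0) P.nil))) (P.cons (P.cons (P.lf 105164 0 0) (P.cons (P.lf 0 7272 0) P.nil)) (P.cons (P.cons (P.lf 0 11492 0) P.nil) P.nil)))))) 12174)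
 EL.nil)
noncomputable def S227_241_216_290_45 : EL := (EL.cons 14 (TM.mk (P.cons (P.cons (P.lf 2388104126 0 0) (P.cons (P.lf 0 261540064 0) (P.cons (P.lf 0 113915142 0) (P.cons (P.lf 14777256 0 0) (P.cons (P.lf 1533854 0 0) (P.cons (P.lf 0 272468 0) P.nil)))))) (P.cons (P.cons (P.lf 0 135980142 0) (P.cons (P.lf 708684 0 0) (P.cons (P.lf 826458 0 0) (P.cons (P.lf 436206 0 0) (P.cons (P.lf 70102 0 0) P.nil))))) (P.cons (P.cons (P.lf 0 59439862 0) (P.cons (P.lf 6088746 0 0) (P.cons (P.lf 2695424 0 0) (P.cons (P.lf 0 304386 0) P.nil)))) (P.cons (P.cons (P.lf 4102394 0 0) (P.cons (P.lf 0 58452 0) (P.cons (P.lf 0 36466 0) P.nil))) (P.cons (P.cons (P.lf 654522 0 0) (P.cons (P.lf 0 66994 0) P.nil)) (P.cons (P.cons (P.lf 0 51258 0) P.nil) P.nil)))))) 175152)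
 EL.nil)
noncomputable def S227_241_216_290_46 : EL := (EL.cons 15 (TM.mk (P.lf 4294967296 0 0) 0)
 EL.nil)
noncomputable def S227_241_216_290_47 : EL := (EL.cons 15 (TM.mk (P.cons (P.cons (P.lf 2803158546 0 0) (P.cons (P.lf 0 102331980 0) (P.cons (P.lf 0 48306956 0) (P.lf 2300328 0 0)))) (P.cons (P.cons (P.lf 0 53204534 0) (P.cons (P.lf 0 3607280 0) (P.cons (P.lf 0 1702856 0) (P.lf 81088 0 0)))) (P.cons (P.cons (P.lf 0 24266686 0) (P.cons (P.lf 510500 0 0) (P.cons (P.lf 240984 0 0) (P.lf 0 11472 0)))) (P.cons (P.cons (P.lf 690347 0 0) (P.cons (P.lf 19384 0 0) (P.cons (P.lf 9148 0 0) P.nil))) (P.cons (P.cons (P.lf 80967 0 0) (P.cons (P.lf 0 1236 0) P.nil)) (P.cons (P.cons (P.lf 0 1291 0) P.nil) P.nil)))))) 1930)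
 EL.nil)
noncomputable def S227_241_216_290_48 : EL := (EL.cons 15 (TM.mk (P.cons (P.cons (P.lf 1829512844 0 0) (P.cons (P.lf 0 133576227 0) (P.cons (P.lf 0 60617988 0) (P.cons (P.lf 5304594 0 0) (P.cons (P.lf 433709 0 0) (P.cons (P.lf 0 51745 0) P.nil)))))) (P.cons (P.cons (P.lf 0 69449070 0) (P.cons (P.lf 0 2173358 0) (P.cons (P.lf 0 854062 0) (P.cons (P.lf 211143 0 0) (P.cons (P.lf 30577 0 0) P.nil))))) (P.cons (P.cons (P.lf 0 31016770 0) (P.cons (P.lf 1912095 0 0) (P.cons (P.lf 881325 0 0) (P.cons (P.lf 0 63083 0) P.nil)))) (P.cons (P.cons (P.lf 1502339 0 0) (P.cons (P.lf 20520 0 0) (P.cons (P.lf 7902 0 0) P.nil))) (P.cons (P.cons (P.lf 225691 0 0) (P.cons (P.lf 0 12880 0) P.nil)) (P.cons (P.cons (P.lf 0 11492 0) P.nil) P.nil)))))) 27668)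
 EL.nil)
noncomputable def S227_241_216_290 : SL := (SL.cons S227_241_216_290_0 (SL.cons S227_241_216_290_1 (SL.cons S227_241_216_290_2 (SL.cons S227_241_216_290_3 (SL.cons S227_241_216_290_4 (SL.cons S227_241_216_290_5 (SL.cons S227_241_216_290_6 (SL.cons S227_241_216_290_7 (SL.cons S227_241_216_290_8 (SL.cons S227_241_216_290_9 (SL.cons S227_241_216_290_10 (SL.cons S227_241_216_290_11 (SL.cons S227_241_216_290_12 (SL.cons S227_241_216_290_13 (SL.cons S227_241_216_290_14 (SL.cons S227_241_216_290_15 (SL.cons S227_241_216_290_16 (SL.cons S227_241_216_290_17 (SL.cons S227_241_216_290_18 (SL.cons S227_241_216_290_19 (SL.cons S227_241_216_290_20 (SL.cons S227_241_216_290_21 (SL.cons S227_241_216_290_22 (SL.cons S227_241_216_290_23 (SL.cons S227_241_216_290_24 (SL.cons S227_241_216_290_25 (SL.cons S227_241_216_290_26 (SL.cons S227_241_216_290_27 (SL.cons S227_241_216_290_28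 (SL.cons S227_241_216_290_29 (SL.cons S227_241_216_290_30 (SL.cons S227_241_216_290_31 (SL.cons S227_241_216_290_32 (SL.cons S227_241_216_290_33 (SL.cons S227_241_216_290_34 (SL.cons S227_241_216_290_35 (SL.cons S227_241_216_290_36 (SL.cons S227_241_216_290_37 (SL.cons S227_241_216_290_38 (SL.cons S227_241_216_290_39 (SL.cons S227_241_216_290_40 (SL.cons S227_241_216_290_41 (SL.cons S227_241_216_290_42 (SL.cons S227_241_216_290_43 (SL.cons S227_241_216_290_44 (SL.cons S227_241_216_290_45 (SL.cons S227_241_216_290_46 (SL.cons S227_241_216_290_47 (SL.cons S227_241_216_290_48 SL.nil)))))))))))))))))))))))))))))))))))))))))))))))))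
noncomputable def S227_241_216_364_0 : EL := (EL.cons 0 (TM.mk (P.cons (P.lf 8236751121 0 0) (P.cons (P.lf 136792680 0 0) (P.cons (P.lf 0 20162540 0) (P.cons (P.lf 0 495075 0) (P.cons (P.lf 33925 0 0) (P.cons (P.lf 991 0 0) P.nil)))))) 101)
 (EL.cons 1 (TM.mk (P.cons (P.lf 0 673184881 0) (P.cons (P.lf 202366545 0 0) (P.cons (P.lf 5530590 0 0) (P.cons (P.lf 0 526580 0) (P.cons (P.lf 0 13798 0) (P.cons (P.lf 714 0 0) P.nil)))))) 98)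
 (EL.cons 5 (TM.mk (P.cons (P.lf 4372821786 0 0) (P.cons (P.lf 0 48637396 0) (P.cons (P.lf 7168902 0 0) (P.cons (P.lf 176026 0 0) (P.cons (P.lf 0 12058 0) (P.cons (P.lf 0 354 0) P.nil)))))) 135)
 (EL.cons 9 (TM.mk (P.lf 6442450944 0 0) 2)
 EL.nil))))
noncomputable def S227_241_216_364_1 : EL := (EL.cons 0 (TM.mk (P.cons (P.cons (P.lf 5344859882 0 0) (P.cons (P.lf 0 677850260 0) (P.cons (P.lf 0 292296676 0) (P.lf 32477406 0 0)))) (P.cons (P.cons (P.lf 98957375 0 0) (P.cons (P.lf 0 72827073 0) (P.cons (P.lf 0 31403849 0) (P.lf 3489306 0 0)))) (P.cons (P.cons (P.lf 0 132758183 0) (P.cons (P.lf 8869044 0 0) (P.cons (P.lf 3824429 0 0) (P.lf 0 424932 0)))) (P.cons (P.cons (P.lf 1097074 0 0) (P.cons (P.lf 803846 0 0) (P.cons (P.lf 346621 0 0) P.nil))) (P.cons (P.cons (P.lf 930280 0 0) (P.cons (P.lf 0 40801 0) P.nil)) (P.cons (P.cons (P.lf 0 1259 0) P.nil) P.nil))))))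 86397)
 (EL.cons 1 (TM.mk (P.cons (P.cons (P.lf 0 41046038 0) (P.cons (P.lf 147106784 0 0) (P.cons (P.lf 63434102 0 0) (P.lf 0 7048229 0)))) (P.cons (P.cons (P.lf 452400087 0 0) (P.cons (P.lf 0 36834251 0) (P.cons (P.lf 0 15883341 0) (P.lf 1764817 0 0)))) (P.cons (P.cons (P.lf 1051332 0 0) (P.cons (P.lf 0 4461907 0) (P.cons (P.lf 0 1924021 0) (P.lf 213775 0 0)))) (P.cons (P.cons (P.lf 0 6263869 0) (P.cons (P.lf 321153 0 0) (P.cons (P.lf 138481 0 0) P.nil))) (P.cons (P.cons (P.lf 12428 0 0) (P.cons (P.lf 33149 0 0) P.nil)) (P.cons (P.cons (P.lf 33409 0 0) P.nil) P.nil)))))) 50186)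
 (EL.cons 5 (TM.mk (P.cons (P.cons (P.lf 2612799287 0 0) (P.cons (P.lf 0 411939266 0) (P.cons (P.lf 0 177632860 0) (P.lf 19736984 0 0)))) (P.cons (P.cons (P.lf 0 134521943 0) (P.cons (P.lf 2876960 0 0) (P.cons (P.lf 1240574 0 0) (P.lf 0 137834 0)))) (P.cons (P.cons (P.lf 7207555 0 0) (P.cons (P.lf 103940 0 0) (P.cons (P.lf 44820 0 0) (P.lf 0 4988 0)))) (P.cons (P.cons (P.lf 831296 0 0) (P.cons (P.lf 0 162112 0) (P.cons (P.lf 0 69902 0) P.nil))) (P.cons (P.cons (P.lf 0 196155 0) (P.cons (P.lf 6600 0 0) P.nil)) (P.cons (P.cons (P.lf 0 1888 0) P.nil) P.nil)))))) 50006)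
 (EL.cons 9 (TM.mk (P.cons (P.cons (P.lf 3982229907 0 0) (P.cons (P.lf 0 576134724 0) (P.cons (P.lf 0 248435790 0) (P.lf 27603972 0 0)))) (P.cons (P.cons (P.lf 0 87650385 0) (P.cons (P.lf 0 20309208 0) (P.cons (P.lf 0 8757558 0) (P.lf 973056 0 0)))) (P.cons (P.cons (P.lf 0 35290005 0) (P.cons (P.lf 2874150 0 0) (P.cons (P.lf 1239366 0 0) (P.lf 0 137706 0)))) (P.cons (P.cons (P.lf 1077670 0 0) (P.cons (P.lf 109140 0 0) (P.cons (P.lf 47058 0 0) P.nil))) (P.cons (P.cons (P.lf 118756 0 0) (P.cons (P.lf 0 6972 0) P.nil)) (P.cons (P.cons (P.lf 0 2056 0) P.nil) P.nil)))))) 10888)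
 (EL.cons 2 (TM.mk (P.cons (P.cons (P.lf 195785358 0 0) (P.cons (P.lf 182392171 0 0) (P.cons (P.lf 0 18719370 0) (P.cons (P.lf 0 3893107 0) (P.lf 324424 0 0))))) (P.cons (P.cons (P.lf 0 56554633 0) (P.cons (P.lf 0 52685870 0) (P.cons (P.lf 5407284 0 0) (P.cons (P.lf 1124564 0 0) (P.lf 0 93712 0))))) (P.cons (P.cons (P.lf 0 2652651 0) (P.cons (P.lf 0 2471189 0) (P.cons (P.lf 253622 0 0) (P.cons (P.lf 52745 0 0) P.nil)))) (P.cons (P.cons (P.lf 236058 0 0) (P.cons (P.lf 219912 0 0) (P.cons (P.lf 0 22567 0) P.nil))) (P.cons (P.cons (P.lf 10268 0 0) (P.cons (P.lf 9565 0 0) P.nil)) (P.cons (P.cons (P.lf 0 486 0) P.nil) P.nil)))))) 12865)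
 (EL.cons 6 (TM.mk (P.cons (P.cons (P.lf 601919469 0 0) (P.cons (P.lf 560743668 0 0) (P.cons (P.lf 0 57550542 0) (P.cons (P.lf 0 11968908 0) (P.lf 997407 0 0))))) (P.cons (P.cons (P.lf 21218145 0 0) (P.cons (P.lf 19766664 0 0) (P.cons (P.lf 0 2028702 0) (P.cons (P.lf 0 421911 0) (P.lf 35157 0 0))))) (P.cons (P.cons (P.lf 0 3002784 0) (P.cons (P.lf 0 2797371 0) (P.cons (P.lf 287100 0 0) (P.cons (P.lf 59706 0 0) P.nil)))) (P.cons (P.cons (P.lf 0 114027 0) (P.cons (P.lf 0 106227 0) (P.cons (P.lf 10902 0 0) P.nil))) (P.cons (P.cons (P.lf 7284 0 0) (P.cons (P.lf 6786 0 0) P.nil)) (P.cons (P.cons (P.lf 318 0 0) P.nil) P.nil)))))) 9633)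
 EL.nil))))))
noncomputable def S227_241_216_364_2 : EL := (EL.cons 0 (TM.mk (P.cons (P.cons (P.lf 3460496584 0 0) (P.cons (P.lf 0 883335737 0) (P.cons (P.lf 0 325539058 0) (P.cons (P.lf 90070970 0 0) (P.cons (P.lf 4989440 0 0) (P.cons (P.lf 0 2287735 0) P.nil)))))) (P.cons (P.cons (P.lf 63171812 0 0) (P.cons (P.lf 0 95805153 0) (P.cons (P.lf 0 29751073 0) (P.cons (P.lf 14560857 0 0) (P.cons (P.lf 1041873 0 0) P.nil))))) (P.cons (P.cons (P.lf 0 161112321 0) (P.cons (P.lf 32913896 0 0) (P.cons (P.lf 13120400 0 0) (P.cons (P.lf 0 2501866 0) P.nil)))) (P.cons (P.cons (P.lf 3492696 0 0) (P.cons (P.lf 1817684 0 0) (P.cons (P.lf 569169 0 0) P.nil))) (P.cons (P.cons (P.lf 2204658 0 0) (P.cons (P.lf 0 394100 0) P.nil)) (P.cons (P.cons (P.lf 0 63082 0) P.nil) P.nil)))))) 2133916)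
 (EL.cons 1 (TM.mk (P.cons (P.cons (P.lf 206465136 0 0) (P.cons (P.lf 114777708 0 0) (P.cons (P.lf 28566237 0 0) (P.cons (P.lf 0 23547358 0) (P.cons (P.lf 0 1885925 0) (P.cons (P.lf 864721 0 0) P.nil)))))) (P.cons (P.cons (P.lf 471753041 0 0) (P.cons (P.lf 0 108807397 0) (P.cons (P.lf 0 42497275 0) (P.cons (P.lf 9026593 0 0) (P.cons (P.lf 398473 0 0) P.nil))))) (P.cons (P.cons (P.lf 0 13704069 0) (P.cons (P.lf 0 7206112 0) (P.cons (P.lf 0 2151177 0) (P.cons (P.lf 1169874 0 0) P.nil)))) (P.cons (P.cons (P.lf 0 10875576 0) (P.cons (P.lf 2118831 0 0) (P.cons (P.lf 867759 0 0) P.nil))) (P.cons (P.cons (P.lf 317430 0 0) (P.cons (P.lf 106462 0 0) P.nil)) (P.cons (P.cons (P.lf 109101 0 0) P.nil) P.nil)))))) 1098147)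
 (EL.cons 5 (TM.mk (P.cons (P.cons (P.lf 1559312144 0 0) (P.cons (P.lf 0 493135780 0) (P.cons (P.lf 0 173938970 0) (P.cons (P.lf 57008867 0 0) (P.cons (P.lf 3488178 0 0) (P.cons (P.lf 0 1599381 0) P.nil)))))) (P.cons (P.cons (P.lf 0 145266267 0) (P.cons (P.lf 23376238 0 0) (P.cons (P.lf 10086182 0 0) (P.cons (P.lf 0 1114737 0) (P.cons (P.lf 560 0 0) P.nil))))) (P.cons (P.cons (P.lf 9191737 0 0) (P.cons (P.lf 103909 0 0) (P.cons (P.lf 0 83921 0) (P.cons (P.lf 0 116012 0) P.nil)))) (P.cons (P.cons (P.lf 1356362 0 0) (P.cons (P.lf 0 548284 0) (P.cons (P.lf 0 202770 0) P.nil))) (P.cons (P.cons (P.lf 0 431607 0) (P.cons (P.lf 59519 0 0) P.nil)) (P.cons (P.cons (P.lf 2490 0 0) P.nil) P.nil)))))) 1276659)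
 (EL.cons 9 (TM.mk (P.cons (P.cons (P.lf 2461509628 0 0) (P.cons (P.lf 0 712244748 0) (P.cons (P.lf 0 255605460 0) (P.cons (P.lf 78559495 0 0) (P.cons (P.lf 4643128 0 0) (P.cons (P.lf 0 2128945 0) P.nil)))))) (P.cons (P.cons (P.lf 0 108357513 0) (P.cons (P.lf 0 9430417 0) (P.cons (P.lf 0 434082 0) (P.cons (P.lf 3584505 0 0) (P.cons (P.lf 327348 0 0) P.nil))))) (P.cons (P.cons (P.lf 0 42434662 0) (P.cons (P.lf 10417597 0 0) (P.cons (P.lf 4042150 0 0) (P.cons (P.lf 0 887250 0) P.nil)))) (P.cons (P.cons (P.lf 2292516 0 0) (P.cons (P.lf 86466 0 0) (P.cons (P.lf 0 360 0) P.nil))) (P.cons (P.cons (P.lf 310797 0 0) (P.cons (P.lf 0 71110 0) P.nil)) (P.cons (P.cons (P.lf 0 17580 0) P.nil) P.nil)))))) 591757)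
 (EL.cons 2 (TM.mk (P.cons (P.cons (P.lf 242039036 0 0) (P.cons (P.lf 190464412 0 0) (P.cons (P.lf 0 70863519 0) (P.cons (P.lf 0 13853936 0) (P.cons (P.lf 4104090 0 0) (P.cons (P.lf 81810 0 0) P.nil)))))) (P.cons (P.cons (P.lf 0 75242857 0) (P.cons (P.lf 0 61214951 0) (P.cons (P.lf 19296793 0 0) (P.cons (P.lf 3789078 0 0) (P.cons (P.lf 0 1063800 0) P.nil))))) (P.cons (P.cons (P.lf 0 3885384 0) (P.cons (P.lf 0 2613892 0) (P.cons (P.lf 1742051 0 0) (P.cons (P.lf 336915 0 0) P.nil)))) (P.cons (P.cons (P.lf 1049090 0 0) (P.cons (P.lf 907998 0 0) (P.cons (P.lf 0 194776 0) P.nil))) (P.cons (P.cons (P.lf 23625 0 0) (P.cons (P.lf 13978 0 0) P.nil)) (P.cons (P.cons (P.lf 0 6564 0) P.nil) P.nil)))))) 493711)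
 (EL.cons 6 (TM.mk (P.cons (P.cons (P.lf 744121056 0 0) (P.cons (P.lf 585560838 0 0) (P.cons (P.lf 0 217861716 0) (P.cons (P.lf 0 42592332 0) (P.cons (P.lf 12617550 0 0) (P.cons (P.lf 251526 0 0) P.nil)))))) (P.cons (P.cons (P.lf 9852474 0 0) (P.cons (P.lf 1588524 0 0) (P.cons (P.lf 0 11285652 0) (P.cons (P.lf 0 2155554 0) (P.cons (P.lf 818946 0 0) P.nil))))) (P.cons (P.cons (P.lf 0 10883832 0) (P.cons (P.lf 0 9198942 0) (P.cons (P.lf 2322138 0 0) (P.cons (P.lf 459204 0 0) P.nil)))) (P.cons (P.cons (P.lf 0 90336 0) (P.cons (P.lf 0 5508 0) (P.cons (P.lf 115824 0 0) P.nil))) (P.cons (P.cons (P.lf 74292 0 0) (P.cons (P.lf 65364 0 0) P.nil)) (P.cons (P.cons (P.lf 834 0 0) P.nil) P.nil)))))) 556704)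
 EL.nil))))))
noncomputable def S227_241_216_364_3 : EL := (EL.cons 0 (TM.mk (P.cons (P.lf 218965742 0 0) (P.cons (P.lf 0 136792680 0) (P.cons (P.lf 20162540 0 0) (P.cons (P.lf 495075 0 0) (P.cons (P.lf 0 33925 0) (P.cons (P.lf 0 991 0) P.nil)))))) 101)
 (EL.cons 1 (TM.mk (P.cons (P.lf 673184881 0 0) (P.cons (P.lf 0 202366545 0) (P.cons (P.lf 0 5530590 0) (P.cons (P.lf 526580 0 0) (P.cons (P.lf 13798 0 0) (P.cons (P.lf 0 714 0) P.nil)))))) 98)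
 (EL.cons 5 (TM.mk (P.cons (P.lf 2069629158 0 0) (P.cons (P.lf 48637396 0 0) (P.cons (P.lf 0 7168902 0) (P.cons (P.lf 0 176026 0) (P.cons (P.lf 12058 0 0) (P.cons (P.lf 354 0 0) P.nil)))))) 128)
 EL.nil)))
noncomputable def S227_241_216_364_4 : EL := (EL.cons 0 (TM.mk (P.cons (P.cons (P.lf 135347855 0 0) (P.cons (P.lf 0 19581641 0) (P.cons (P.lf 0 8443824 0) (P.lf 938202 0 0)))) (P.cons (P.cons (P.lf 0 87533818 0) (P.cons (P.lf 11542809 0 0) (P.cons (P.lf 4977390 0 0) (P.lf 0 553042 0)))) (P.cons (P.cons (P.lf 13124583 0 0) (P.cons (P.lf 0 1274180 0) (P.cons (P.lf 0 549439 0) (P.lf 61048 0 0)))) (P.cons (P.cons (P.lf 817644 0 0) (P.cons (P.lf 0 165150 0) (P.cons (P.lf 0 71214 0) P.nil))) (P.cons (P.cons (P.lf 0 156995 0) (P.cons (P.lf 7913 0 0) P.nil)) (P.cons (P.cons (P.lf 0 2081 0) P.nil) P.nil)))))) 18402)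
 (EL.cons 1 (TM.mk (P.cons (P.cons (P.lf 416111351 0 0) (P.cons (P.lf 0 60201495 0) (P.cons (P.lf 0 25959562 0) (P.lf 2884395 0 0)))) (P.cons (P.cons (P.lf 0 134246270 0) (P.cons (P.lf 15975058 0 0) (P.cons (P.lf 6888624 0 0) (P.lf 0 765403 0)))) (P.cons (P.cons (P.lf 0 4352887 0) (P.cons (P.lf 1432854 0 0) (P.cons (P.lf 617861 0 0) (P.lf 0 68649 0)))) (P.cons (P.cons (P.lf 1621852 0 0) (P.cons (P.lf 0 108532 0) (P.cons (P.lf 0 46800 0) P.nil))) (P.cons (P.cons (P.lf 10218 0 0) (P.cons (P.lf 0 9515 0) P.nil)) (P.cons (P.cons (P.lf 0 8383 0) P.nil) P.nil)))))) 14565)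
 (EL.cons 5 (TM.mk (P.cons (P.cons (P.lf 1279286284 0 0) (P.cons (P.lf 0 185082544 0) (P.cons (P.lf 0 79809680 0) (P.lf 8867740 0 0)))) (P.cons (P.cons (P.lf 1906340 0 0) (P.cons (P.lf 0 10873844 0) (P.cons (P.lf 0 4688924 0) (P.lf 520988 0 0)))) (P.cons (P.cons (P.lf 0 16429852 0) (P.cons (P.lf 1411090 0 0) (P.cons (P.lf 608478 0 0) (P.lf 0 67606 0)))) (P.cons (P.cons (P.lf 68504 0 0) (P.cons (P.lf 95098 0 0) (P.cons (P.lf 41006 0 0) P.nil))) (P.cons (P.cons (P.lf 95402 0 0) (P.cons (P.lf 0 5136 0) P.nil)) (P.cons (P.cons (P.lf 54 0 0) P.nil) P.nil)))))) 10084)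
 EL.nil)))
noncomputable def S227_241_216_364_5 : EL := (EL.cons 0 (TM.mk (P.cons (P.cons (P.lf 83661681 0 0) (P.cons (P.lf 0 24207742 0) (P.cons (P.lf 0 8687506 0) (P.cons (P.lf 2670075 0 0) (P.cons (P.lf 157809 0 0) (P.cons (P.lf 0 72356 0) P.nil)))))) (P.cons (P.cons (P.lf 0 55948129 0) (P.cons (P.lf 14802584 0 0) (P.cons (P.lf 5412520 0 0) (P.cons (P.lf 0 1546224 0) (P.cons (P.lf 0 87461 0) P.nil))))) (P.cons (P.cons (P.lf 8562123 0 0) (P.cons (P.lf 0 1674757 0) (P.cons (P.lf 0 653350 0) (P.cons (P.lf 139596 0 0) P.nil)))) (P.cons (P.cons (P.lf 828970 0 0) (P.cons (P.lf 0 302503 0) (P.cons (P.lf 0 106839 0) P.nil))) (P.cons (P.cons (P.lf 0 192206 0) (P.cons (P.lf 31375 0 0) P.nil)) (P.cons (P.cons (P.lf 0 3090 0) P.nil) P.nil)))))) 168622)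
 (EL.cons 1 (TM.mk (P.cons (P.cons (P.lf 257208176 0 0) (P.cons (P.lf 0 74423910 0) (P.cons (P.lf 0 26708735 0) (P.cons (P.lf 8208840 0 0) (P.cons (P.lf 485169 0 0) (P.cons (P.lf 0 222457 0) P.nil)))))) (P.cons (P.cons (P.lf 0 88642014 0) (P.cons (P.lf 21387215 0 0) (P.cons (P.lf 7983571 0 0) (P.cons (P.lf 0 2093111 0) (P.cons (P.lf 0 111641 0) P.nil))))) (P.cons (P.cons (P.lf 0 3143529 0) (P.cons (P.lf 1996211 0 0) (P.cons (P.lf 655434 0 0) (P.cons (P.lf 0 272743 0) P.nil)))) (P.cons (P.cons (P.lf 1866695 0 0) (P.cons (P.lf 0 368315 0) (P.cons (P.lf 0 147525 0) P.nil))) (P.cons (P.cons (P.lf 0 6690 0) (P.cons (P.lf 0 21384 0) P.nil)) (P.cons (P.cons (P.lf 0 17540 0) P.nil) P.nil)))))) 221193)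
 (EL.cons 5 (TM.mk (P.cons (P.cons (P.lf 790756832 0 0) (P.cons (P.lf 0 228807716 0) (P.cons (P.lf 0 82112926 0) (P.cons (P.lf 25237136 0 0) (P.cons (P.lf 1491598 0 0) (P.cons (P.lf 0 683920 0) P.nil)))))) (P.cons (P.cons (P.lf 0 16226502 0) (P.cons (P.lf 0 8406612 0) (P.cons (P.lf 0 2069144 0) (P.cons (P.lf 1744602 0 0) (P.cons (P.lf 140212 0 0) P.nil))))) (P.cons (P.cons (P.lf 0 17189196 0) (P.cons (P.lf 4068000 0 0) (P.cons (P.lf 1579684 0 0) (P.cons (P.lf 0 345382 0) P.nil)))) (P.cons (P.cons (P.lf 469426 0 0) (P.cons (P.lf 136378 0 0) (P.cons (P.lf 37866 0 0) P.nil))) (P.cons (P.cons (P.lf 171936 0 0) (P.cons (P.lf 0 34858 0) P.nil)) (P.cons (P.cons (P.lf 0 4758 0) P.nil) P.nil)))))) 244166)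
 EL.nil)))
noncomputable def S227_241_216_364_6 : EL := (EL.cons 12 (TM.mk (P.lf 8589934592 0 0) 0)
 (EL.cons 3 (TM.mk (P.cons (P.lf 0 685729796 0) (P.cons (P.lf 214195188 0 0) (P.cons (P.lf 1881828 0 0) (P.cons (P.lf 0 187398 0) (P.cons (P.lf 0 2831 0) (P.cons (P.lf 153 0 0) P.nil)))))) 44)
 (EL.cons 7 (TM.mk (P.cons (P.lf 0 2108197044 0) (P.cons (P.lf 0 24771881 0) (P.cons (P.lf 3796786 0 0) (P.cons (P.lf 45040 0 0) (P.cons (P.lf 0 3252 0) (P.cons (P.lf 0 61 0) P.nil)))))) 51)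
 EL.nil)))
noncomputable def S227_241_216_364_7 : EL := (EL.cons 12 (TM.mk (P.cons (P.cons (P.lf 5309639876 0 0) (P.cons (P.lf 0 768179632 0) (P.cons (P.lf 0 331247720 0) (P.lf 36805296 0 0)))) (P.cons (P.cons (P.lf 0 116867180 0) (P.cons (P.lf 0 27078944 0) (P.cons (P.lf 0 11676744 0) (P.lf 1297408 0 0)))) (P.cons (P.cons (P.lf 0 47053340 0) (P.cons (P.lf 3832200 0 0) (P.cons (P.lf 1652488 0 0) (P.lf 0 183608 0)))) (P.cons (P.cons (P.lf 1436894 0 0) (P.cons (P.lf 145520 0 0) (P.cons (P.lf 62744 0 0) P.nil))) (P.cons (P.cons (P.lf 158342 0 0) (P.cons (P.lf 0 9296 0) P.nil)) (P.cons (P.cons (P.lf 0 2742 0) P.nil) P.nil)))))) 14492)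
 (EL.cons 3 (TM.mk (P.cons (P.cons (P.lf 0 1217842596 0) (P.cons (P.lf 0 122646720 0) (P.cons (P.lf 0 52886648 0) (P.lf 5876292 0 0)))) (P.cons (P.cons (P.lf 0 502325304 0) (P.cons (P.lf 33986646 0 0) (P.cons (P.lf 14655424 0 0) (P.lf 0 1628380 0)))) (P.cons (P.cons (P.lf 28249479 0 0) (P.cons (P.lf 2298878 0 0) (P.cons (P.lf 991300 0 0) (P.lf 0 110142 0)))) (P.cons (P.cons (P.lf 3651014 0 0) (P.cons (P.lf 0 189534 0) (P.cons (P.lf 0 81728 0) P.nil))) (P.cons (P.cons (P.lf 0 81636 0) (P.cons (P.lf 0 12106 0) P.nil)) (P.cons (P.cons (P.lf 0 12872 0) P.nil) P.nil)))))) 41177)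
 (EL.cons 7 (TM.mk (P.cons (P.cons (P.lf 0 1211301803 0) (P.cons (P.lf 209807911 0 0) (P.cons (P.lf 90471541 0 0) (P.lf 0 10052395 0)))) (P.cons (P.cons (P.lf 58094410 0 0) (P.cons (P.lf 0 3930587 0) (P.cons (P.lf 0 1694911 0) (P.lf 188321 0 0)))) (P.cons (P.cons (P.lf 0 12681599 0) (P.cons (P.lf 371104 0 0) (P.cons (P.lf 160024 0 0) (P.lf 0 17778 0)))) (P.cons (P.cons (P.lf 339163 0 0) (P.cons (P.lf 75610 0 0) (P.cons (P.lf 32602 0 0) P.nil))) (P.cons (P.cons (P.lf 102706 0 0) (P.cons (P.lf 0 3991 0) P.nil)) (P.cons (P.cons (P.lf 0 1207 0) P.nil) P.nil)))))) 30441)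
 (EL.cons 10 (TM.mk (P.cons (P.cons (P.lf 0 1226272680 0) (P.cons (P.lf 0 1142386443 0) (P.cons (P.lf 117246012 0 0) (P.cons (P.lf 24383907 0 0) (P.lf 0 2031990 0))))) (P.cons (P.cons (P.lf 0 28818066 0) (P.cons (P.lf 0 26846694 0) (P.cons (P.lf 2755344 0 0) (P.cons (P.lf 573033 0 0) (P.lf 0 47751 0))))) (P.cons (P.cons (P.lf 4247634 0 0) (P.cons (P.lf 3957063 0 0) (P.cons (P.lf 0 406122 0) (P.cons (P.lf 0 84462 0) P.nil)))) (P.cons (P.cons (P.lf 104295 0 0) (P.cons (P.lf 97161 0 0) (P.cons (P.lf 0 9972 0) P.nil))) (P.cons (P.cons (P.lf 0 7143 0) (P.cons (P.lf 0 6654 0) P.nil)) (P.cons (P.cons (P.lf 0 207 0) P.nil) P.nil)))))) 10608)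
 EL.nil))))
noncomputable def S227_241_216_364_8 : EL := (EL.cons 12 (TM.mk (P.cons (P.cons (P.lf 3282012838 0 0) (P.cons (P.lf 0 949659664 0) (P.cons (P.lf 0 340807280 0) (P.cons (P.lf 104745994 0 0) (P.cons (P.lf 6190838 0 0) (P.cons (P.lf 0 2838594 0) P.nil)))))) (P.cons (P.cons (P.lf 0 144476684 0) (P.cons (P.lf 0 12573890 0) (P.cons (P.lf 0 578776 0) (P.cons (P.lf 4779340 0 0) (P.cons (P.lf 436464 0 0) P.nil))))) (P.cons (P.cons (P.lf 0 56579550 0) (P.cons (P.lf 13890130 0 0) (P.cons (P.lf 5389534 0 0) (P.cons (P.lf 0 1183000 0) P.nil)))) (P.cons (P.cons (P.lf 3056688 0 0) (P.cons (P.lf 115288 0 0) (P.cons (P.lf 0 480 0) P.nil))) (P.cons (P.cons (P.lf 414396 0 0) (P.cons (P.lf 0 94814 0) P.nil)) (P.cons (P.cons (P.lf 0 23440 0) P.nil) P.nil)))))) 788980)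
 (EL.cons 3 (TM.mk (P.cons (P.cons (P.lf 0 1243552797 0) (P.cons (P.lf 0 9614272 0) (P.cons (P.lf 23274311 0 0) (P.cons (P.lf 24108344 0 0) (P.cons (P.lf 2471056 0 0) (P.cons (P.lf 0 1133015 0) P.nil)))))) (P.cons (P.cons (P.lf 0 681232725 0) (P.cons (P.lf 165551737 0 0) (P.cons (P.lf 64755967 0 0) (P.cons (P.lf 0 13651389 0) (P.cons (P.lf 0 597645 0) P.nil))))) (P.cons (P.cons (P.lf 60300653 0 0) (P.cons (P.lf 1919128 0 0) (P.cons (P.lf 0 91057 0) (P.cons (P.lf 0 884162 0) P.nil)))) (P.cons (P.cons (P.lf 10598759 0 0) (P.cons (P.lf 0 2385928 0) (P.cons (P.lf 0 971863 0) P.nil))) (P.cons (P.cons (P.lf 0 755514 0) (P.cons (P.lf 0 39813 0) P.nil)) (P.cons (P.cons (P.lf 0 76194 0) P.nil) P.nil)))))) 1527479)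
 (EL.cons 7 (TM.mk (P.cons (P.cons (P.lf 0 691975346 0) (P.cons (P.lf 242951086 0 0) (P.cons (P.lf 84097880 0 0) (P.cons (P.lf 0 29462644 0) (P.cons (P.lf 0 1862325 0) (P.cons (P.lf 853902 0 0) P.nil)))))) (P.cons (P.cons (P.lf 78785224 0 0) (P.cons (P.lf 0 19146218 0) (P.cons (P.lf 0 7489085 0) (P.cons (P.lf 1578787 0 0) (P.cons (P.lf 69115 0 0) P.nil))))) (P.cons (P.cons (P.lf 0 19741404 0) (P.cons (P.lf 2880793 0 0) (P.cons (P.lf 1224175 0 0) (P.cons (P.lf 0 153588 0) P.nil)))) (P.cons (P.cons (P.lf 356336 0 0) (P.cons (P.lf 305604 0 0) (P.cons (P.lf 102965 0 0) P.nil))) (P.cons (P.cons (P.lf 368975 0 0) (P.cons (P.lf 0 61236 0) P.nil)) (P.cons (P.cons (P.lf 0 14973 0) P.nil) P.nil)))))) 635368)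
 (EL.cons 10 (TM.mk (P.cons (P.cons (P.lf 0 1515975762 0) (P.cons (P.lf 0 1192945734 0) (P.cons (P.lf 443843220 0 0) (P.cons (P.lf 86772102 0 0) (P.cons (P.lf 0 25705362 0) (P.cons (P.lf 0 512436 0) P.nil)))))) (P.cons (P.cons (P.lf 0 2259042 0) (P.cons (P.lf 10781178 0 0) (P.cons (P.lf 17776656 0 0) (P.cons (P.lf 3371862 0 0) (P.cons (P.lf 0 1366374 0) P.nil))))) (P.cons (P.cons (P.lf 19469646 0 0) (P.cons (P.lf 16465608 0 0) (P.cons (P.lf 0 4140360 0) (P.cons (P.lf 0 818880 0) P.nil)))) (P.cons (P.cons (P.lf 0 81180 0) (P.cons (P.lf 0 188322 0) (P.cons (P.lf 0 145818 0) P.nil))) (P.cons (P.cons (P.lf 0 113052 0) (P.cons (P.lf 0 99228 0) P.nil)) (P.cons (P.cons (P.lf 0 60 0) P.nil) P.nil)))))) 1015386)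
 EL.nil))))
noncomputable def S227_241_216_364_9 : EL := (EL.cons 3 (TM.mk (P.cons (P.lf 0 685729796 0) (P.cons (P.lf 214195188 0 0) (P.cons (P.lf 1881828 0 0) (P.cons (P.lf 0 187398 0) (P.cons (P.lf 0 2831 0) (P.cons (P.lf 153 0 0) P.nil)))))) 44)
 (EL.cons 7 (TM.mk (P.cons (P.lf 0 2108197044 0) (P.cons (P.lf 0 24771881 0) (P.cons (P.lf 3796786 0 0) (P.cons (P.lf 45040 0 0) (P.cons (P.lf 0 3252 0) (P.cons (P.lf 0 61 0) P.nil)))))) 51)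
 EL.nil))
noncomputable def S227_241_216_364_10 : EL := (EL.cons 3 (TM.mk (P.cons (P.cons (P.lf 0 423865656 0) (P.cons (P.lf 61323360 0 0) (P.cons (P.lf 26443324 0 0) (P.lf 0 2938146 0)))) (P.cons (P.cons (P.lf 141728508 0 0) (P.cons (P.lf 0 16993323 0) (P.cons (P.lf 0 7327712 0) (P.lf 814190 0 0)))) (P.cons (P.cons (P.lf 2005290 0 0) (P.cons (P.lf 0 1149439 0) (P.cons (P.lf 0 495650 0) (P.lf 55071 0 0)))) (P.cons (P.cons (P.lf 0 1429447 0) (P.cons (P.lf 94767 0 0) (P.cons (P.lf 40864 0 0) P.nil))) (P.cons (P.cons (P.lf 13680 0 0) (P.cons (P.lf 6053 0 0) P.nil)) (P.cons (P.cons (P.lf 5641 0 0) P.nil) P.nil)))))) 10225)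
 (EL.cons 7 (TM.mk (P.cons (P.cons (P.lf 0 1303125998 0) (P.cons (P.lf 188531590 0 0) (P.cons (P.lf 81296947 0 0) (P.lf 0 9032992 0)))) (P.cons (P.cons (P.lf 13370215 0 0) (P.cons (P.lf 8861185 0 0) (P.cons (P.lf 3821042 0 0) (P.lf 0 424558 0)))) (P.cons (P.cons (P.lf 14232040 0 0) (P.cons (P.lf 0 1201970 0) (P.cons (P.lf 0 518303 0) (P.lf 57588 0 0)))) (P.cons (P.cons (P.lf 0 240773 0) (P.cons (P.lf 0 62762 0) (P.cons (P.lf 0 27062 0) P.nil))) (P.cons (P.cons (P.lf 0 66425 0) (P.cons (P.lf 3704 0 0) P.nil)) (P.cons (P.cons (P.lf 611 0 0) P.nil) P.nil)))))) 6446)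
 EL.nil))
noncomputable def S227_241_216_364_11 : EL := (EL.cons 3 (TM.mk (P.cons (P.cons (P.lf 0 262001295 0) (P.cons (P.lf 75810812 0 0) (P.cons (P.lf 27206459 0 0) (P.cons (P.lf 0 8361814 0) (P.cons (P.lf 0 494210 0) (P.cons (P.lf 226603 0 0) P.nil)))))) (P.cons (P.cons (P.lf 93372459 0 0) (P.cons (P.lf 0 22676567 0) (P.cons (P.lf 0 8452031 0) (P.cons (P.lf 2230371 0 0) (P.cons (P.lf 119529 0 0) P.nil))))) (P.cons (P.cons (P.lf 1633103 0 0) (P.cons (P.lf 0 1630424 0) (P.cons (P.lf 0 519337 0) (P.cons (P.lf 236560 0 0) P.nil)))) (P.cons (P.cons (P.lf 0 1758109 0) (P.cons (P.lf 355118 0 0) (P.cons (P.lf 141737 0 0) P.nil))) (P.cons (P.cons (P.lf 32814 0 0) (P.cons (P.lf 14073 0 0) P.nil)) (P.cons (P.cons (P.lf 14214 0 0) P.nil) P.nil)))))) 205087)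
 (EL.cons 7 (TM.mk (P.cons (P.cons (P.lf 0 805492718 0) (P.cons (P.lf 233071588 0 0) (P.cons (P.lf 83643116 0 0) (P.cons (P.lf 0 25707436 0) (P.cons (P.lf 0 1519395 0) (P.cons (P.lf 696666 0 0) P.nil)))))) (P.cons (P.cons (P.lf 25993642 0 0) (P.cons (P.lf 5824618 0 0) (P.cons (P.lf 1124875 0 0) (P.cons (P.lf 0 1475045 0) (P.cons (P.lf 0 124973 0) P.nil))))) (P.cons (P.cons (P.lf 15753426 0 0) (P.cons (P.lf 0 3792497 0) (P.cons (P.lf 0 1471703 0) (P.cons (P.lf 322854 0 0) P.nil)))) (P.cons (P.cons (P.lf 0 633676 0) (P.cons (P.lf 0 78888 0) (P.cons (P.lf 0 17467 0) P.nil))) (P.cons (P.cons (P.lf 0 137527 0) (P.cons (P.lf 29370 0 0) P.nil)) (P.cons (P.cons (P.lf 5643 0 0) P.nil) P.nil)))))) 219978)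
 EL.nil))
noncomputable def S227_241_216_364_12 : EL := (EL.cons 4 (TM.mk (P.cons (P.lf 685729796 0 0) (P.cons (P.lf 0 214195188 0) (P.cons (P.lf 0 1881828 0) (P.cons (P.lf 187398 0 0) (P.cons (P.lf 2831 0 0) (P.cons (P.lf 0 153 0) P.nil)))))) 44)
 (EL.cons 8 (TM.mk (P.cons (P.lf 2108197044 0 0) (P.cons (P.lf 24771881 0 0) (P.cons (P.lf 0 3796786 0) (P.cons (P.lf 0 45040 0) (P.cons (P.lf 3252 0 0) (P.cons (P.lf 61 0 0) P.nil)))))) 51)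
 EL.nil))
noncomputable def S227_241_216_364_13 : EL := (EL.cons 4 (TM.mk (P.cons (P.cons (P.lf 423865656 0 0) (P.cons (P.lf 0 61323360 0) (P.cons (P.lf 0 26443324 0) (P.lf 2938146 0 0)))) (P.cons (P.cons (P.lf 0 141728508 0) (P.cons (P.lf 16993323 0 0) (P.cons (P.lf 7327712 0 0) (P.lf 0 814190 0)))) (P.cons (P.cons (P.lf 0 2005290 0) (P.cons (P.lf 1149439 0 0) (P.cons (P.lf 495650 0 0) (P.lf 0 55071 0)))) (P.cons (P.cons (P.lf 1429447 0 0) (P.cons (P.lf 0 94767 0) (P.cons (P.lf 0 40864 0) P.nil))) (P.cons (P.cons (P.lf 0 13680 0) (P.cons (P.lf 0 6053 0) P.nil)) (P.cons (P.cons (P.lf 0 5641 0) P.nil) P.nil)))))) 10225)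
 (EL.cons 8 (TM.mk (P.cons (P.cons (P.lf 1303125998 0 0) (P.cons (P.lf 0 188531590 0) (P.cons (P.lf 0 81296947 0) (P.lf 9032992 0 0)))) (P.cons (P.cons (P.lf 0 13370215 0) (P.cons (P.lf 0 8861185 0) (P.cons (P.lf 0 3821042 0) (P.lf 424558 0 0)))) (P.cons (P.cons (P.lf 0 14232040 0) (P.cons (P.lf 1201970 0 0) (P.cons (P.lf 518303 0 0) (P.lf 0 57588 0)))) (P.cons (P.cons (P.lf 240773 0 0) (P.cons (P.lf 62762 0 0) (P.cons (P.lf 27062 0 0) P.nil))) (P.cons (P.cons (P.lf 66425 0 0) (P.cons (P.lf 0 3704 0) P.nil)) (P.cons (P.cons (P.lf 0 611 0) P.nil) P.nil)))))) 6446)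
 EL.nil))
noncomputable def S227_241_216_364_14 : EL := (EL.cons 4 (TM.mk (P.cons (P.cons (P.lf 262001295 0 0) (P.cons (P.lf 0 75810812 0) (P.cons (P.lf 0 27206459 0) (P.cons (P.lf 8361814 0 0) (P.cons (P.lf 494210 0 0) (P.cons (P.lf 0 226603 0) P.nil)))))) (P.cons (P.cons (P.lf 0 93372459 0) (P.cons (P.lf 22676567 0 0) (P.cons (P.lf 8452031 0 0) (P.cons (P.lf 0 2230371 0) (P.cons (P.lf 0 119529 0) P.nil))))) (P.cons (P.cons (P.lf 0 1633103 0) (P.cons (P.lf 1630424 0 0) (P.cons (P.lf 519337 0 0) (P.cons (P.lf 0 236560 0) P.nil)))) (P.cons (P.cons (P.lf 1758109 0 0) (P.cons (P.lf 0 355118 0) (P.cons (P.lf 0 141737 0) P.nil))) (P.cons (P.cons (P.lf 0 32814 0) (P.cons (P.lf 0 14073 0) P.nil)) (P.cons (P.cons (P.lf 0 14214 0) P.nil) P.nil)))))) 205087)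
 (EL.cons 8 (TM.mk (P.cons (P.cons (P.lf 805492718 0 0) (P.cons (P.lf 0 233071588 0) (P.cons (P.lf 0 83643116 0) (P.cons (P.lf 25707436 0 0) (P.cons (P.lf 1519395 0 0) (P.cons (P.lf 0 696666 0) P.nil)))))) (P.cons (P.cons (P.lf 0 25993642 0) (P.cons (P.lf 0 5824618 0) (P.cons (P.lf 0 1124875 0) (P.cons (P.lf 1475045 0 0) (P.cons (P.lf 124973 0 0) P.nil))))) (P.cons (P.cons (P.lf 0 15753426 0) (P.cons (P.lf 3792497 0 0) (P.cons (P.lf 1471703 0 0) (P.cons (P.lf 0 322854 0) P.nil)))) (P.cons (P.cons (P.lf 633676 0 0) (P.cons (P.lf 78888 0 0) (P.cons (P.lf 17467 0 0) P.nil))) (P.cons (P.cons (P.lf 137527 0 0) (P.cons (P.lf 0 29370 0) P.nil)) (P.cons (P.cons (P.lf 0 5643 0) P.nil) P.nil)))))) 219978)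
 EL.nil))
noncomputable def S227_241_216_364_15 : EL := (EL.cons 4 (TM.mk (P.cons (P.lf 0 116781729 0) (P.cons (P.lf 72956096 0 0) (P.cons (P.lf 0 10753354 0) (P.cons (P.lf 0 264040 0) (P.cons (P.lf 18093 0 0) (P.cons (P.lf 528 0 0) P.nil)))))) 57)
 (EL.cons 8 (TM.mk (P.cons (P.lf 0 359031937 0) (P.cons (P.lf 107928824 0 0) (P.cons (P.lf 2949648 0 0) (P.cons (P.lf 0 280843 0) (P.cons (P.lf 0 7359 0) (P.cons (P.lf 381 0 0) P.nil)))))) 49)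
 EL.nil))
noncomputable def S227_241_216_364_16 : EL := (EL.cons 4 (TM.mk (P.cons (P.cons (P.lf 0 72185522 0) (P.cons (P.lf 10443541 0 0) (P.cons (P.lf 4503373 0 0) (P.lf 0 500374 0)))) (P.cons (P.cons (P.lf 46684703 0 0) (P.cons (P.lf 0 6156165 0) (P.cons (P.lf 0 2654608 0) (P.lf 294956 0 0)))) (P.cons (P.cons (P.lf 0 6999778 0) (P.cons (P.lf 679562 0 0) (P.cons (P.lf 293034 0 0) (P.lf 0 32559 0)))) (P.cons (P.cons (P.lf 0 436077 0) (P.cons (P.lf 88080 0 0) (P.cons (P.lf 37980 0 0) P.nil))) (P.cons (P.cons (P.lf 83730 0 0) (P.cons (P.lf 0 4220 0) P.nil)) (P.cons (P.cons (P.lf 1110 0 0) P.nil) P.nil)))))) 9823)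
 (EL.cons 8 (TM.mk (P.cons (P.cons (P.lf 0 221926054 0) (P.cons (P.lf 32107464 0 0) (P.cons (P.lf 13845100 0 0) (P.lf 0 1538344 0)))) (P.cons (P.cons (P.lf 71598011 0 0) (P.cons (P.lf 0 8520031 0) (P.cons (P.lf 0 3673933 0) (P.lf 408215 0 0)))) (P.cons (P.cons (P.lf 2321540 0 0) (P.cons (P.lf 0 764189 0) (P.cons (P.lf 0 329526 0) (P.lf 36613 0 0)))) (P.cons (P.cons (P.lf 0 864988 0) (P.cons (P.lf 57884 0 0) (P.cons (P.lf 24960 0 0) P.nil))) (P.cons (P.cons (P.lf 0 5450 0) (P.cons (P.lf 5075 0 0) P.nil)) (P.cons (P.cons (P.lf 4471 0 0) P.nil) P.nil)))))) 7758)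
 EL.nil))
noncomputable def S227_241_216_364_17 : EL := (EL.cons 4 (TM.mk (P.cons (P.cons (P.lf 0 44619563 0) (P.cons (P.lf 12910796 0 0) (P.cons (P.lf 4633336 0 0) (P.cons (P.lf 0 1424040 0) (P.cons (P.lf 0 84165 0) (P.cons (P.lf 38590 0 0) P.nil)))))) (P.cons (P.cons (P.lf 29839002 0 0) (P.cons (P.lf 0 7894711 0) (P.cons (P.lf 0 2886677 0) (P.cons (P.lf 824653 0 0) (P.cons (P.lf 46646 0 0) P.nil))))) (P.cons (P.cons (P.lf 0 4566465 0) (P.cons (P.lf 893204 0 0) (P.cons (P.lf 348453 0 0) (P.cons (P.lf 0 74451 0) P.nil)))) (P.cons (P.cons (P.lf 0 442117 0) (P.cons (P.lf 161335 0 0) (P.cons (P.lf 56981 0 0) P.nil))) (P.cons (P.cons (P.lf 102510 0 0) (P.cons (P.lf 0 16733 0) P.nil)) (P.cons (P.cons (P.lf 1648 0 0) P.nil) P.nil)))))) 89942)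
 (EL.cons 8 (TM.mk (P.cons (P.cons (P.lf 0 137177694 0) (P.cons (P.lf 39692752 0 0) (P.cons (P.lf 14244659 0 0) (P.cons (P.lf 0 4378048 0) (P.cons (P.lf 0 258757 0) (P.cons (P.lf 118644 0 0) P.nil)))))) (P.cons (P.cons (P.lf 47275741 0 0) (P.cons (P.lf 0 11406515 0) (P.cons (P.lf 0 4257905 0) (P.cons (P.lf 1116326 0 0) (P.cons (P.lf 59542 0 0) P.nil))))) (P.cons (P.cons (P.lf 1676549 0 0) (P.cons (P.lf 0 1064646 0) (P.cons (P.lf 0 349565 0) (P.cons (P.lf 145463 0 0) P.nil)))) (P.cons (P.cons (P.lf 0 995571 0) (P.cons (P.lf 196435 0 0) (P.cons (P.lf 78680 0 0) P.nil))) (P.cons (P.cons (P.lf 3568 0 0) (P.cons (P.lf 11405 0 0) P.nil)) (P.cons (P.cons (P.lf 9355 0 0) P.nil) P.nil)))))) 117958)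
 EL.nil))
noncomputable def S227_241_216_364_18 : EL := (EL.cons 4 (TM.mk (P.cons (P.lf 19888259 0 0) (P.cons (P.lf 0 18636945 0) (P.cons (P.lf 5657716 0 0) (P.cons (P.lf 0 487535 0) (P.cons (P.lf 0 25466 0) (P.cons (P.lf 1193 0 0) P.nil)))))) 87)
 (EL.cons 8 (TM.mk (P.cons (P.lf 61144157 0 0) (P.cons (P.lf 0 37479629 0) (P.cons (P.lf 5071246 0 0) (P.cons (P.lf 271888 0 0) (P.cons (P.lf 0 17078 0) (P.cons (P.lf 0 814 0) P.nil)))))) 70)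
 EL.nil))
noncomputable def S227_241_216_364_19 : EL := (EL.cons 4 (TM.mk (P.cons (P.cons (P.lf 12293398 0 0) (P.cons (P.lf 0 1778564 0) (P.cons (P.lf 0 766936 0) (P.lf 85215 0 0)))) (P.cons (P.cons (P.lf 0 11790514 0) (P.cons (P.lf 1603965 0 0) (P.cons (P.lf 691648 0 0) (P.lf 0 76849 0)))) (P.cons (P.cons (P.lf 3641782 0 0) (P.cons (P.lf 0 438333 0) (P.cons (P.lf 0 189014 0) (P.lf 21000 0 0)))) (P.cons (P.cons (P.lf 0 272915 0) (P.cons (P.lf 17786 0 0) (P.cons (P.lf 7668 0 0) P.nil))) (P.cons (P.cons (P.lf 0 42850 0) (P.cons (P.lf 6000 0 0) P.nil)) (P.cons (P.cons (P.lf 4350 0 0) P.nil) P.nil)))))) 7857)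
 (EL.cons 8 (TM.mk (P.cons (P.cons (P.lf 37794636 0 0) (P.cons (P.lf 0 5467992 0) (P.cons (P.lf 0 2357859 0) (P.lf 261984 0 0)))) (P.cons (P.cons (P.lf 0 23998911 0) (P.cons (P.lf 3158972 0 0) (P.cons (P.lf 1362184 0 0) (P.lf 0 151353 0)))) (P.cons (P.cons (P.lf 3309639 0 0) (P.cons (P.lf 0 308081 0) (P.cons (P.lf 0 132847 0) (P.lf 14760 0 0)))) (P.cons (P.cons (P.lf 314597 0 0) (P.cons (P.lf 0 55985 0) (P.cons (P.lf 0 24141 0) P.nil))) (P.cons (P.cons (P.lf 0 47176 0) (P.cons (P.lf 2231 0 0) P.nil)) (P.cons (P.cons (P.lf 0 1622 0) P.nil) P.nil)))))) 6555)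
 EL.nil))
noncomputable def S227_241_216_364_20 : EL := (EL.cons 4 (TM.mk (P.cons (P.cons (P.lf 7598837 0 0) (P.cons (P.lf 0 2198745 0) (P.cons (P.lf 0 789070 0) (P.cons (P.lf 242518 0 0) (P.cons (P.lf 14333 0 0) (P.cons (P.lf 0 6571 0) P.nil)))))) (P.cons (P.cons (P.lf 0 7455246 0) (P.cons (P.lf 2031293 0 0) (P.cons (P.lf 738083 0 0) (P.cons (P.lf 0 216193 0) (P.cons (P.lf 0 12420 0) P.nil))))) (P.cons (P.cons (P.lf 2344142 0 0) (P.cons (P.lf 0 566047 0) (P.cons (P.lf 0 210736 0) (P.cons (P.lf 55881 0 0) P.nil)))) (P.cons (P.cons (P.lf 0 151600 0) (P.cons (P.lf 15748 0 0) (P.cons (P.lf 7266 0 0) P.nil))) (P.cons (P.cons (P.lf 0 44467 0) (P.cons (P.lf 12207 0 0) P.nil)) (P.cons (P.cons (P.lf 5155 0 0) P.nil) P.nil)))))) 38290)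
 (EL.cons 8 (TM.mk (P.cons (P.cons (P.lf 23361750 0 0) (P.cons (P.lf 0 6759788 0) (P.cons (P.lf 0 2425905 0) (P.cons (P.lf 745593 0 0) (P.cons (P.lf 44066 0 0) (P.cons (P.lf 0 20204 0) P.nil)))))) (P.cons (P.cons (P.lf 0 15348490 0) (P.cons (P.lf 4054055 0 0) (P.cons (P.lf 1482891 0 0) (P.cons (P.lf 0 423007 0) (P.cons (P.lf 0 23905 0) P.nil))))) (P.cons (P.cons (P.lf 2165245 0 0) (P.cons (P.lf 0 406916 0) (P.cons (P.lf 0 160313 0) (P.cons (P.lf 32564 0 0) P.nil)))) (P.cons (P.cons (P.lf 287213 0 0) (P.cons (P.lf 0 97266 0) (P.cons (P.lf 0 34647 0) P.nil))) (P.cons (P.cons (P.lf 0 54887 0) (P.cons (P.lf 8512 0 0) P.nil)) (P.cons (P.cons (P.lf 0 1984 0) P.nil) P.nil)))))) 50948)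
 EL.nil))
noncomputable def S227_241_216_364_21 : EL := (EL.cons 4 (TM.mk (P.cons (P.cons (P.lf 793976940 0 0) (P.cons (P.lf 183970080 0 0) (P.cons (P.lf 79329972 0 0) (P.lf 0 8814438 0)))) (P.cons (P.cons (P.lf 644053812 0 0) (P.cons (P.lf 0 50979969 0) (P.cons (P.lf 0 21983136 0) (P.lf 2442570 0 0)))) (P.cons (P.cons (P.lf 0 26244189 0) (P.cons (P.lf 0 3448317 0) (P.cons (P.lf 0 1486950 0) (P.lf 165213 0 0)))) (P.cons (P.cons (P.lf 0 5080461 0) (P.cons (P.lf 284301 0 0) (P.cons (P.lf 122592 0 0) P.nil))) (P.cons (P.cons (P.lf 95316 0 0) (P.cons (P.lf 18159 0 0) P.nil)) (P.cons (P.cons (P.lf 18513 0 0) P.nil) P.nil)))))) 30933)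
 (EL.cons 8 (TM.mk (P.cons (P.cons (P.lf 0 91824195 0) (P.cons (P.lf 0 21276321 0) (P.cons (P.lf 0 9174594 0) (P.lf 1019403 0 0)))) (P.cons (P.cons (P.lf 0 44724195 0) (P.cons (P.lf 12791772 0 0) (P.cons (P.lf 5515953 0 0) (P.lf 0 612879 0)))) (P.cons (P.cons (P.lf 26913639 0 0) (P.cons (P.lf 0 1573074 0) (P.cons (P.lf 0 678327 0) (P.lf 75366 0 0)))) (P.cons (P.cons (P.lf 0 579936 0) (P.cons (P.lf 0 138372 0) (P.cons (P.lf 0 59664 0) P.nil))) (P.cons (P.cons (P.lf 0 169131 0) (P.cons (P.lf 7695 0 0) P.nil)) (P.cons (P.cons (P.lf 1818 0 0) P.nil) P.nil)))))) 23976)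
 (EL.cons 11 (TM.mk (P.cons (P.cons (P.lf 1226272680 0 0) (P.cons (P.lf 1142386443 0 0) (P.cons (P.lf 0 117246012 0) (P.cons (P.lf 0 24383907 0) (P.lf 2031990 0 0))))) (P.cons (P.cons (P.lf 28818066 0 0) (P.cons (P.lf 26846694 0 0) (P.cons (P.lf 0 2755344 0) (P.cons (P.lf 0 573033 0) (P.lf 47751 0 0))))) (P.cons (P.cons (P.lf 0 4247634 0) (P.cons (P.lf 0 3957063 0) (P.cons (P.lf 406122 0 0) (P.cons (P.lf 84462 0 0) P.nil)))) (P.cons (P.cons (P.lf 0 104295 0) (P.cons (P.lf 0 97161 0) (P.cons (P.lf 9972 0 0) P.nil))) (P.cons (P.cons (P.lf 7143 0 0) (P.cons (P.lf 6654 0 0) P.nil)) (P.cons (P.cons (P.lf 207 0 0) P.nil) P.nil)))))) 10608)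
 EL.nil)))
noncomputable def S227_241_216_364_22 : EL := (EL.cons 4 (TM.mk (P.cons (P.cons (P.lf 490775751 0 0) (P.cons (P.lf 42712542 0 0) (P.cons (P.lf 1966074 0 0) (P.cons (P.lf 0 16235079 0) (P.cons (P.lf 0 1482633 0) (P.cons (P.lf 679809 0 0) P.nil)))))) (P.cons (P.cons (P.lf 387302592 0 0) (P.cons (P.lf 0 94114152 0) (P.cons (P.lf 0 36603999 0) (P.cons (P.lf 7940880 0 0) (P.cons (P.lf 358587 0 0) P.nil))))) (P.cons (P.cons (P.lf 0 29333775 0) (P.cons (P.lf 0 1774776 0) (P.cons (P.lf 0 214140 0) (P.cons (P.lf 560361 0 0) P.nil)))) (P.cons (P.cons (P.lf 0 6178434 0) (P.cons (P.lf 1370523 0 0) (P.cons (P.lf 556800 0 0) P.nil))) (P.cons (P.cons (P.lf 394164 0 0) (P.cons (P.lf 26943 0 0) P.nil)) (P.cons (P.cons (P.lf 45204 0 0) P.nil) P.nil)))))) 661185)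
 (EL.cons 8 (TM.mk (P.cons (P.cons (P.lf 0 56758686 0) (P.cons (P.lf 0 4939749 0) (P.cons (P.lf 0 227382 0) (P.cons (P.lf 1877604 0 0) (P.cons (P.lf 171465 0 0) (P.cons (P.lf 0 78618 0) P.nil)))))) (P.cons (P.cons (P.lf 0 26395791 0) (P.cons (P.lf 12485418 0 0) (P.cons (P.lf 4306980 0 0) (P.cons (P.lf 0 1526916 0) (P.cons (P.lf 0 97044 0) P.nil))))) (P.cons (P.cons (P.lf 17747415 0 0) (P.cons (P.lf 0 3336645 0) (P.cons (P.lf 0 1347939 0) (P.cons (P.lf 238221 0 0) P.nil)))) (P.cons (P.cons (P.lf 0 495006 0) (P.cons (P.lf 0 192246 0) (P.cons (P.lf 0 60216 0) P.nil))) (P.cons (P.cons (P.lf 0 253251 0) (P.cons (P.lf 45303 0 0) P.nil)) (P.cons (P.cons (P.lf 10308 0 0) P.nil) P.nil)))))) 207684)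
 (EL.cons 11 (TM.mk (P.cons (P.cons (P.lf 757987881 0 0) (P.cons (P.lf 596472867 0 0) (P.cons (P.lf 0 221921610 0) (P.cons (P.lf 0 43386051 0) (P.cons (P.lf 12852681 0 0) (P.cons (P.lf 256218 0 0) P.nil)))))) (P.cons (P.cons (P.lf 1129521 0 0) (P.cons (P.lf 0 5390589 0) (P.cons (P.lf 0 8888328 0) (P.cons (P.lf 0 1685931 0) (P.cons (P.lf 683187 0 0) P.nil))))) (P.cons (P.cons (P.lf 0 9734823 0) (P.cons (P.lf 0 8232804 0) (P.cons (P.lf 2070180 0 0) (P.cons (P.lf 409440 0 0) P.nil)))) (P.cons (P.cons (P.lf 40590 0 0) (P.cons (P.lf 94161 0 0) (P.cons (P.lf 72909 0 0) P.nil))) (P.cons (P.cons (P.lf 56526 0 0) (P.cons (P.lf 49614 0 0) P.nil)) (P.cons (P.cons (P.lf 30 0 0) P.nil) P.nil)))))) 507693)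
 EL.nil)))
noncomputable def S227_241_216_364_23 : EL := (EL.cons 4 (TM.mk (P.cons (P.cons (P.lf 0 135216525 0) (P.cons (P.lf 0 31330626 0) (P.cons (P.lf 0 13510119 0) (P.lf 1501122 0 0)))) (P.cons (P.cons (P.lf 0 67447833 0) (P.cons (P.lf 18468495 0 0) (P.cons (P.lf 7963821 0 0) (P.lf 0 884868 0)))) (P.cons (P.cons (P.lf 39101583 0 0) (P.cons (P.lf 0 2038689 0) (P.cons (P.lf 0 879105 0) (P.lf 97677 0 0)))) (P.cons (P.cons (P.lf 0 266814 0) (P.cons (P.lf 0 264240 0) (P.cons (P.lf 0 113943 0) P.nil))) (P.cons (P.cons (P.lf 0 329289 0) (P.cons (P.lf 12660 0 0) P.nil)) (P.cons (P.cons (P.lf 342 0 0) P.nil) P.nil)))))) 28656)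
 (EL.cons 8 (TM.mk (P.cons (P.cons (P.lf 15637920 0 0) (P.cons (P.lf 3623415 0 0) (P.cons (P.lf 1562457 0 0) (P.lf 0 173607 0)))) (P.cons (P.cons (P.lf 2731980 0 0) (P.cons (P.lf 0 3310287 0) (P.cons (P.lf 0 1427433 0) (P.lf 158601 0 0)))) (P.cons (P.cons (P.lf 0 7005528 0) (P.cons (P.lf 938424 0 0) (P.cons (P.lf 404658 0 0) (P.lf 0 44961 0)))) (P.cons (P.cons (P.lf 1513830 0 0) (P.cons (P.lf 0 53145 0) (P.cons (P.lf 0 22917 0) P.nil))) (P.cons (P.cons (P.lf 12675 0 0) (P.cons (P.lf 0 9984 0) P.nil)) (P.cons (P.cons (P.lf 0 10800 0) P.nil) P.nil)))))) 14463)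
 (EL.cons 11 (TM.mk (P.cons (P.cons (P.lf 0 208837716 0) (P.cons (P.lf 0 194551650 0) (P.cons (P.lf 19967328 0 0) (P.cons (P.lf 4152648 0 0) (P.lf 0 346053 0))))) (P.cons (P.cons (P.lf 60324942 0 0) (P.cons (P.lf 56198262 0 0) (P.cons (P.lf 0 5767770 0) (P.cons (P.lf 0 1199535 0) (P.lf 99960 0 0))))) (P.cons (P.cons (P.lf 2829495 0 0) (P.cons (P.lf 2635935 0 0) (P.cons (P.lf 0 270531 0) (P.cons (P.lf 0 56262 0) P.nil)))) (P.cons (P.cons (P.lf 0 251796 0) (P.cons (P.lf 0 234573 0) (P.cons (P.lf 24072 0 0) P.nil))) (P.cons (P.cons (P.lf 0 10953 0) (P.cons (P.lf 0 10203 0) P.nil)) (P.cons (P.cons (P.lf 519 0 0) P.nil) P.nil)))))) 13701)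
 EL.nil)))
noncomputable def S227_241_216_364_24 : EL := (EL.cons 4 (TM.mk (P.cons (P.cons (P.lf 0 83580501 0) (P.cons (P.lf 0 7274067 0) (P.cons (P.lf 0 334827 0) (P.cons (P.lf 2764878 0 0) (P.cons (P.lf 252495 0 0) (P.cons (P.lf 0 115773 0) P.nil)))))) (P.cons (P.cons (P.lf 0 39851445 0) (P.cons (P.lf 18300039 0 0) (P.cons (P.lf 6338352 0 0) (P.cons (P.lf 0 2215992 0) (P.cons (P.lf 0 139938 0) P.nil))))) (P.cons (P.cons (P.lf 25827921 0 0) (P.cons (P.lf 0 4684278 0) (P.cons (P.lf 0 1909794 0) (P.cons (P.lf 319401 0 0) P.nil)))) (P.cons (P.cons (P.lf 0 350064 0) (P.cons (P.lf 0 373785 0) (P.cons (P.lf 0 123414 0) P.nil))) (P.cons (P.cons (P.lf 0 427875 0) (P.cons (P.lf 71838 0 0) P.nil)) (P.cons (P.cons (P.lf 11493 0 0) P.nil) P.nil)))))) 316971)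
 (EL.cons 8 (TM.mk (P.cons (P.cons (P.lf 9666165 0 0) (P.cons (P.lf 841251 0 0) (P.cons (P.lf 38721 0 0) (P.cons (P.lf 0 319761 0) (P.cons (P.lf 0 29199 0) (P.cons (P.lf 13389 0 0) P.nil)))))) (P.cons (P.cons (P.lf 1475946 0 0) (P.cons (P.lf 0 2389074 0) (P.cons (P.lf 0 745584 0) (P.cons (P.lf 359919 0 0) (P.cons (P.lf 25647 0 0) P.nil))))) (P.cons (P.cons (P.lf 0 4453110 0) (P.cons (P.lf 1230105 0 0) (P.cons (P.lf 458565 0 0) (P.cons (P.lf 0 120918 0) P.nil)))) (P.cons (P.cons (P.lf 1018695 0 0) (P.cons (P.lf 0 138690 0) (P.cons (P.lf 0 59424 0) P.nil))) (P.cons (P.cons (P.lf 26358 0 0) (P.cons (P.lf 0 20079 0) P.nil)) (P.cons (P.cons (P.lf 0 16266 0) P.nil) P.nil)))))) 89184)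
 (EL.cons 11 (TM.mk (P.cons (P.cons (P.lf 0 129087486 0) (P.cons (P.lf 0 101581020 0) (P.cons (P.lf 37793877 0 0) (P.cons (P.lf 7388766 0 0) (P.cons (P.lf 0 2188848 0) (P.cons (P.lf 0 43632 0) P.nil)))))) (P.cons (P.cons (P.lf 40129524 0 0) (P.cons (P.lf 32647974 0 0) (P.cons (P.lf 0 10291623 0) (P.cons (P.lf 0 2020842 0) (P.cons (P.lf 567360 0 0) P.nil))))) (P.cons (P.cons (P.lf 2072205 0 0) (P.cons (P.lf 1394076 0 0) (P.cons (P.lf 0 929094 0) (P.cons (P.lf 0 179688 0) P.nil)))) (P.cons (P.cons (P.lf 0 559515 0) (P.cons (P.lf 0 484266 0) (P.cons (P.lf 103881 0 0) P.nil))) (P.cons (P.cons (P.lf 0 12600 0) (P.cons (P.lf 0 7455 0) P.nil)) (P.cons (P.cons (P.lf 3501 0 0) P.nil) P.nil)))))) 263301)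
 EL.nil)))
noncomputable def S227_241_216_364_25 : EL := (EL.cons 4 (TM.mk (P.cons (P.cons (P.lf 23027757 0 0) (P.cons (P.lf 5335692 0 0) (P.cons (P.lf 2300811 0 0) (P.lf 0 255645 0)))) (P.cons (P.cons (P.lf 4293585 0 0) (P.cons (P.lf 0 4811898 0) (P.cons (P.lf 0 2074944 0) (P.lf 230547 0 0)))) (P.cons (P.cons (P.lf 0 10310256 0) (P.cons (P.lf 1314999 0 0) (P.cons (P.lf 567042 0 0) (P.lf 0 63003 0)))) (P.cons (P.cons (P.lf 2100255 0 0) (P.cons (P.lf 0 53358 0) (P.cons (P.lf 0 23007 0) P.nil))) (P.cons (P.cons (P.lf 63393 0 0) (P.cons (P.lf 0 18003 0) P.nil)) (P.cons (P.cons (P.lf 0 19476 0) P.nil) P.nil)))))) 23793)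
 (EL.cons 8 (TM.mk (P.cons (P.cons (P.lf 0 2663181 0) (P.cons (P.lf 0 617076 0) (P.cons (P.lf 0 266091 0) (P.lf 29565 0 0)))) (P.cons (P.cons (P.lf 366609 0 0) (P.cons (P.lf 756501 0 0) (P.cons (P.lf 326211 0 0) (P.lf 0 36243 0)))) (P.cons (P.cons (P.lf 1345698 0 0) (P.cons (P.lf 0 334215 0) (P.cons (P.lf 0 144117 0) (P.lf 16011 0 0)))) (P.cons (P.cons (P.lf 0 629925 0) (P.cons (P.lf 57255 0 0) (P.cons (P.lf 24687 0 0) P.nil))) (P.cons (P.cons (P.lf 74958 0 0) (P.cons (P.lf 0 534 0) P.nil)) (P.cons (P.cons (P.lf 3546 0 0) P.nil) P.nil)))))) 9495)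
 (EL.cons 11 (TM.mk (P.cons (P.cons (P.lf 35565654 0 0) (P.cons (P.lf 33132696 0 0) (P.cons (P.lf 0 3400491 0) (P.cons (P.lf 0 707205 0) (P.lf 58932 0 0))))) (P.cons (P.cons (P.lf 0 21382827 0) (P.cons (P.lf 0 19920081 0) (P.cons (P.lf 2044446 0 0) (P.cons (P.lf 425187 0 0) (P.lf 0 35430 0))))) (P.cons (P.cons (P.lf 2629569 0 0) (P.cons (P.lf 2449686 0 0) (P.cons (P.lf 0 251415 0) (P.cons (P.lf 0 52287 0) P.nil)))) (P.cons (P.cons (P.lf 231312 0 0) (P.cons (P.lf 215487 0 0) (P.cons (P.lf 0 22116 0) P.nil))) (P.cons (P.cons (P.lf 0 12867 0) (P.cons (P.lf 0 11985 0) P.nil)) (P.cons (P.cons (P.lf 0 969 0) P.nil) P.nil)))))) 15300)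
 EL.nil)))
noncomputable def S227_241_216_364_26 : EL := (EL.cons 4 (TM.mk (P.cons (P.cons (P.lf 14233995 0 0) (P.cons (P.lf 1238793 0 0) (P.cons (P.lf 57021 0 0) (P.cons (P.lf 0 470865 0) (P.cons (P.lf 0 42999 0) (P.cons (P.lf 19716 0 0) P.nil)))))) (P.cons (P.cons (P.lf 2340669 0 0) (P.cons (P.lf 0 3503499 0) (P.cons (P.lf 0 1097250 0) (P.cons (P.lf 524469 0 0) (P.cons (P.lf 37263 0 0) P.nil))))) (P.cons (P.cons (P.lf 0 6557565 0) (P.cons (P.lf 1767834 0 0) (P.cons (P.lf 662262 0 0) (P.cons (P.lf 0 170985 0) P.nil)))) (P.cons (P.cons (P.lf 1418820 0 0) (P.cons (P.lf 0 176634 0) (P.cons (P.lf 0 77595 0) P.nil))) (P.cons (P.cons (P.lf 68229 0 0) (P.cons (P.lf 0 35151 0) P.nil)) (P.cons (P.cons (P.lf 0 26058 0) P.nil) P.nil)))))) 134439)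
 (EL.cons 8 (TM.mk (P.cons (P.cons (P.lf 0 1646175 0) (P.cons (P.lf 0 143265 0) (P.cons (P.lf 0 6594 0) (P.cons (P.lf 54456 0 0) (P.cons (P.lf 4971 0 0) (P.cons (P.lf 0 2280 0) P.nil)))))) (P.cons (P.cons (P.lf 262842 0 0) (P.cons (P.lf 451617 0 0) (P.cons (P.lf 129033 0 0) (P.cons (P.lf 0 78303 0) (P.cons (P.lf 0 5919 0) P.nil))))) (P.cons (P.cons (P.lf 841407 0 0) (P.cons (P.lf 0 336186 0) (P.cons (P.lf 0 117738 0) (P.cons (P.lf 39588 0 0) P.nil)))) (P.cons (P.cons (P.lf 0 410133 0) (P.cons (P.lf 87900 0 0) (P.cons (P.lf 34164 0 0) P.nil))) (P.cons (P.cons (P.lf 47544 0 0) (P.cons (P.lf 0 3270 0) P.nil)) (P.cons (P.cons (P.lf 4854 0 0) P.nil) P.nil)))))) 35811)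
 (EL.cons 11 (TM.mk (P.cons (P.cons (P.lf 21983964 0 0) (P.cons (P.lf 17299536 0 0) (P.cons (P.lf 0 6436404 0) (P.cons (P.lf 0 1258326 0) (P.cons (P.lf 372765 0 0) (P.cons (P.lf 7431 0 0) P.nil)))))) (P.cons (P.cons (P.lf 0 13701102 0) (P.cons (P.lf 0 10963740 0) (P.cons (P.lf 3763173 0 0) (P.cons (P.lf 737205 0 0) (P.cons (P.lf 0 213060 0) P.nil))))) (P.cons (P.cons (P.lf 1721493 0 0) (P.cons (P.lf 1451847 0 0) (P.cons (P.lf 0 371580 0) (P.cons (P.lf 0 73443 0) P.nil)))) (P.cons (P.cons (P.lf 230280 0 0) (P.cons (P.lf 176616 0 0) (P.cons (P.lf 0 73683 0) P.nil))) (P.cons (P.cons (P.lf 0 28425 0) (P.cons (P.lf 0 25287 0) P.nil)) (P.cons (P.cons (P.lf 0 1656 0) P.nil) P.nil)))))) 119742)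
 EL.nil)))
noncomputable def S227_241_216_364_27 : EL := (EL.cons 13 (TM.mk (P.lf 0 4294967296 0) 0)
 EL.nil)
noncomputable def S227_241_216_364_28 : EL := (EL.cons 13 (TM.mk (P.cons (P.cons (P.lf 0 2654819938 0) (P.cons (P.lf 384089816 0 0) (P.cons (P.lf 165623860 0 0) (P.lf 0 18402648 0)))) (P.cons (P.cons (P.lf 58433590 0 0) (P.cons (P.lf 13539472 0 0) (P.cons (P.lf 5838372 0 0) (P.lf 0 648704 0)))) (P.cons (P.cons (P.lf 23526670 0 0) (P.cons (P.lf 0 1916100 0) (P.cons (P.lf 0 826244 0) (P.lf 91804 0 0)))) (P.cons (P.cons (P.lf 0 718447 0) (P.cons (P.lf 0 72760 0) (P.cons (P.lf 0 31372 0) P.nil))) (P.cons (P.cons (P.lf 0 79171 0) (P.cons (P.lf 4648 0 0) P.nil)) (P.cons (P.cons (P.lf 1371 0 0) P.nil) P.nil)))))) 7246)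
 EL.nil)
noncomputable def S227_241_216_364_29 : EL := (EL.cons 13 (TM.mk (P.cons (P.cons (P.lf 0 1641006419 0) (P.cons (P.lf 474829832 0 0) (P.cons (P.lf 170403640 0 0) (P.cons (P.lf 0 52372997 0) (P.cons (P.lf 0 3095419 0) (P.cons (P.lf 1419297 0 0) P.nil)))))) (P.cons (P.cons (P.lf 72238342 0 0) (P.cons (P.lf 6286945 0 0) (P.cons (P.lf 289388 0 0) (P.cons (P.lf 0 2389670 0) (P.cons (P.lf 0 218232 0) P.nil))))) (P.cons (P.cons (P.lf 28289775 0 0) (P.cons (P.lf 0 6945065 0) (P.cons (P.lf 0 2694767 0) (P.cons (P.lf 591500 0 0) P.nil)))) (P.cons (P.cons (P.lf 0 1528344 0) (P.cons (P.lf 0 57644 0) (P.cons (P.lf 240 0 0) P.nil))) (P.cons (P.cons (P.lf 0 207198 0) (P.cons (P.lf 47407 0 0) P.nil)) (P.cons (P.cons (P.lf 11720 0 0) P.nil) P.nil)))))) 394490)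
 EL.nil)
noncomputable def S227_241_216_364_30 : EL := (EL.cons 13 (TM.mk (P.cons (P.lf 731445116 0 0) (P.cons (P.lf 0 228474868 0) (P.cons (P.lf 0 2007284 0) (P.cons (P.lf 199892 0 0) (P.cons (P.lf 3020 0 0) (P.cons (P.lf 0 164 0) P.nil)))))) 40)
 EL.nil)
noncomputable def S227_241_216_364_31 : EL := (EL.cons 13 (TM.mk (P.cons (P.cons (P.lf 452123367 0 0) (P.cons (P.lf 0 65411585 0) (P.cons (P.lf 0 28206213 0) (P.lf 3134023 0 0)))) (P.cons (P.cons (P.lf 0 151177076 0) (P.cons (P.lf 18126212 0 0) (P.cons (P.lf 7816227 0 0) (P.lf 0 868470 0)))) (P.cons (P.cons (P.lf 0 2138977 0) (P.cons (P.lf 1226069 0 0) (P.cons (P.lf 528694 0 0) (P.lf 0 58743 0)))) (P.cons (P.cons (P.lf 1524744 0 0) (P.cons (P.lf 0 101085 0) (P.cons (P.lf 0 43589 0) P.nil))) (P.cons (P.cons (P.lf 0 14592 0) (P.cons (P.lf 0 6457 0) P.nil)) (P.cons (P.cons (P.lf 0 6018 0) P.nil) P.nil))))))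 10887)
 EL.nil)
noncomputable def S227_241_216_364_32 : EL := (EL.cons 13 (TM.mk (P.cons (P.cons (P.lf 279468048 0 0) (P.cons (P.lf 0 80864867 0) (P.cons (P.lf 0 29020223 0) (P.cons (P.lf 8919269 0 0) (P.cons (P.lf 527158 0 0) (P.cons (P.lf 0 241710 0) P.nil)))))) (P.cons (P.cons (P.lf 0 99597290 0) (P.cons (P.lf 24188339 0 0) (P.cons (P.lf 9015500 0 0) (P.cons (P.lf 0 2379063 0) (P.cons (P.lf 0 127498 0) P.nil))))) (P.cons (P.cons (P.lf 0 1741977 0) (P.cons (P.lf 1739119 0 0) (P.cons (P.lf 553960 0 0) (P.cons (P.lf 0 252331 0) P.nil)))) (P.cons (P.cons (P.lf 1875317 0 0) (P.cons (P.lf 0 378793 0) (P.cons (P.lf 0 151187 0) P.nil))) (P.cons (P.cons (P.lf 0 35002 0) (P.cons (P.lf 0 15012 0) P.nil)) (P.cons (P.cons (P.lf 0 15162 0) P.nil) P.nil)))))) 218736)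
 EL.nil)
noncomputable def S227_241_216_364_33 : EL := (EL.cons 14 (TM.mk (P.lf 8589934592 0 0) 0)
 EL.nil)
noncomputable def S227_241_216_364_34 : EL := (EL.cons 14 (TM.mk (P.cons (P.cons (P.lf 5309639876 0 0) (P.cons (P.lf 0 768179632 0) (P.cons (P.lf 0 331247720 0) (P.lf 36805296 0 0)))) (P.cons (P.cons (P.lf 0 116867180 0) (P.cons (P.lf 0 27078944 0) (P.cons (P.lf 0 11676744 0) (P.lf 1297408 0 0)))) (P.cons (P.cons (P.lf 0 47053340 0) (P.cons (P.lf 3832200 0 0) (P.cons (P.lf 1652488 0 0) (P.lf 0 183608 0)))) (P.cons (P.cons (P.lf 1436894 0 0) (P.cons (P.lf 145520 0 0) (P.cons (P.lf 62744 0 0) P.nil))) (P.cons (P.cons (P.lf 158342 0 0) (P.cons (P.lf 0 9296 0) P.nil)) (P.cons (P.cons (P.lf 0 2742 0) P.nil) P.nil)))))) 14492)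
 EL.nil)
noncomputable def S227_241_216_364_35 : EL := (EL.cons 14 (TM.mk (P.cons (P.cons (P.lf 3282012838 0 0) (P.cons (P.lf 0 949659664 0) (P.cons (P.lf 0 340807280 0) (P.cons (P.lf 104745994 0 0) (P.cons (P.lf 6190838 0 0) (P.cons (P.lf 0 2838594 0) P.nil)))))) (P.cons (P.cons (P.lf 0 144476684 0) (P.cons (P.lf 0 12573890 0) (P.cons (P.lf 0 578776 0) (P.cons (P.lf 4779340 0 0) (P.cons (P.lf 436464 0 0) P.nil))))) (P.cons (P.cons (P.lf 0 56579550 0) (P.cons (P.lf 13890130 0 0) (P.cons (P.lf 5389534 0 0) (P.cons (P.lf 0 1183000 0) P.nil)))) (P.cons (P.cons (P.lf 3056688 0 0) (P.cons (P.lf 115288 0 0) (P.cons (P.lf 0 480 0) P.nil))) (P.cons (P.cons (P.lf 414396 0 0) (P.cons (P.lf 0 94814 0) P.nil)) (P.cons (P.cons (P.lf 0 23440 0) P.nil) P.nil)))))) 788980)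
 EL.nil)
noncomputable def S227_241_216_364_36 : EL := (EL.cons 14 (TM.mk (P.cons (P.lf 0 1462890232 0) (P.cons (P.lf 456949736 0 0) (P.cons (P.lf 4014568 0 0) (P.cons (P.lf 0 399784 0) (P.cons (P.lf 0 6040 0) (P.cons (P.lf 328 0 0) P.nil)))))) 80)
 EL.nil)
noncomputable def S227_241_216_364_37 : EL := (EL.cons 14 (TM.mk (P.cons (P.cons (P.lf 0 904246734 0) (P.cons (P.lf 130823170 0 0) (P.cons (P.lf 56412426 0 0) (P.lf 0 6268046 0)))) (P.cons (P.cons (P.lf 302354152 0 0) (P.cons (P.lf 0 36252424 0) (P.cons (P.lf 0 15632454 0) (P.lf 1736940 0 0)))) (P.cons (P.cons (P.lf 4277954 0 0) (P.cons (P.lf 0 2452138 0) (P.cons (P.lf 0 1057388 0) (P.lf 117486 0 0)))) (P.cons (P.cons (P.lf 0 3049488 0) (P.cons (P.lf 202170 0 0) (P.cons (P.lf 87178 0 0) P.nil))) (P.cons (P.cons (P.lf 29184 0 0) (P.cons (P.lf 12914 0 0) P.nil)) (P.cons (P.cons (P.lf 12036 0 0) P.nil) P.nil))))))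 21774)
 EL.nil)
noncomputable def S227_241_216_364_38 : EL := (EL.cons 14 (TM.mk (P.cons (P.cons (P.lf 0 558936096 0) (P.cons (P.lf 161729734 0 0) (P.cons (P.lf 58040446 0 0) (P.cons (P.lf 0 17838538 0) (P.cons (P.lf 0 1054316 0) (P.cons (P.lf 483420 0 0) P.nil)))))) (P.cons (P.cons (P.lf 199194580 0 0) (P.cons (P.lf 0 48376678 0) (P.cons (P.lf 0 18031000 0) (P.cons (P.lf 4758126 0 0) (P.cons (P.lf 254996 0 0) P.nil))))) (P.cons (P.cons (P.lf 3483954 0 0) (P.cons (P.lf 0 3478238 0) (P.cons (P.lf 0 1107920 0) (P.cons (P.lf 504662 0 0) P.nil)))) (P.cons (P.cons (P.lf 0 3750634 0) (P.cons (P.lf 757586 0 0) (P.cons (P.lf 302374 0 0) P.nil))) (P.cons (P.cons (P.lf 70004 0 0) (P.cons (P.lf 30024 0 0) P.nil)) (P.cons (P.cons (P.lf 30324 0 0) P.nil) P.nil)))))) 437472)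
 EL.nil)
noncomputable def S227_241_216_364_39 : EL := (EL.cons 14 (TM.mk (P.cons (P.lf 249134356 0 0) (P.cons (P.lf 0 155639672 0) (P.cons (P.lf 22940490 0 0) (P.cons (P.lf 563286 0 0) (P.cons (P.lf 0 38600 0) (P.cons (P.lf 0 1128 0) P.nil)))))) 108)
 EL.nil)
noncomputable def S227_241_216_364_40 : EL := (EL.cons 14 (TM.mk (P.cons (P.cons (P.lf 153995782 0 0) (P.cons (P.lf 0 22279556 0) (P.cons (P.lf 0 9607196 0) (P.lf 1067466 0 0)))) (P.cons (P.cons (P.lf 0 99594034 0) (P.cons (P.lf 13133152 0 0) (P.cons (P.lf 5663164 0 0) (P.lf 0 629240 0)))) (P.cons (P.cons (P.lf 14932860 0 0) (P.cons (P.lf 0 1449734 0) (P.cons (P.lf 0 625140 0) (P.lf 69460 0 0)))) (P.cons (P.cons (P.lf 930298 0 0) (P.cons (P.lf 0 187904 0) (P.cons (P.lf 0 81026 0) P.nil))) (P.cons (P.cons (P.lf 0 178626 0) (P.cons (P.lf 9004 0 0) P.nil)) (P.cons (P.cons (P.lf 0 2368 0) P.nil) P.nil))))))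 20916)
 EL.nil)
noncomputable def S227_241_216_364_41 : EL := (EL.cons 14 (TM.mk (P.cons (P.cons (P.lf 95188402 0 0) (P.cons (P.lf 0 27543032 0) (P.cons (P.lf 0 9884452 0) (P.cons (P.lf 3037952 0 0) (P.cons (P.lf 179552 0 0) (P.cons (P.lf 0 82326 0) P.nil)))))) (P.cons (P.cons (P.lf 0 63656538 0) (P.cons (P.lf 16842052 0 0) (P.cons (P.lf 6158246 0 0) (P.cons (P.lf 0 1759260 0) (P.cons (P.lf 0 99512 0) P.nil))))) (P.cons (P.cons (P.lf 9741794 0 0) (P.cons (P.lf 0 1905502 0) (P.cons (P.lf 0 743368 0) (P.cons (P.lf 158830 0 0) P.nil)))) (P.cons (P.cons (P.lf 943184 0 0) (P.cons (P.lf 0 344182 0) (P.cons (P.lf 0 121560 0) P.nil))) (P.cons (P.cons (P.lf 0 218688 0) (P.cons (P.lf 35698 0 0) P.nil)) (P.cons (P.cons (P.lf 0 3516 0) P.nil) P.nil)))))) 191830)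
 EL.nil)
noncomputable def S227_241_216_364_42 : EL := (EL.cons 14 (TM.mk (P.cons (P.lf 0 42428286 0) (P.cons (P.lf 39758816 0 0) (P.cons (P.lf 0 12069796 0) (P.cons (P.lf 1040076 0 0) (P.cons (P.lf 54328 0 0) (P.cons (P.lf 0 2546 0) P.nil)))))) 172)
 EL.nil)
noncomputable def S227_241_216_364_43 : EL := (EL.cons 14 (TM.mk (P.cons (P.cons (P.lf 0 26225916 0) (P.cons (P.lf 3794270 0 0) (P.cons (P.lf 1636132 0 0) (P.lf 0 181792 0)))) (P.cons (P.cons (P.lf 25153098 0 0) (P.cons (P.lf 0 3421794 0) (P.cons (P.lf 0 1475516 0) (P.lf 163946 0 0)))) (P.cons (P.cons (P.lf 0 7769136 0) (P.cons (P.lf 935112 0 0) (P.cons (P.lf 403230 0 0) (P.lf 0 44802 0)))) (P.cons (P.cons (P.lf 582220 0 0) (P.cons (P.lf 0 37944 0) (P.cons (P.lf 0 16360 0) P.nil))) (P.cons (P.cons (P.lf 91414 0 0) (P.cons (P.lf 0 12802 0) P.nil)) (P.cons (P.cons (P.lf 0 9282 0) P.nil) P.nil)))))) 16722)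
 EL.nil)
noncomputable def S227_241_216_364_44 : EL := (EL.cons 14 (TM.mk (P.cons (P.cons (P.lf 0 16210854 0) (P.cons (P.lf 4690656 0 0) (P.cons (P.lf 1683350 0 0) (P.cons (P.lf 0 517372 0) (P.cons (P.lf 0 30578 0) (P.cons (P.lf 14020 0 0) P.nil)))))) (P.cons (P.cons (P.lf 15904526 0 0) (P.cons (P.lf 0 4333426 0) (P.cons (P.lf 0 1574578 0) (P.cons (P.lf 461212 0 0) (P.cons (P.lf 26498 0 0) P.nil))))) (P.cons (P.cons (P.lf 0 5000838 0) (P.cons (P.lf 1207568 0 0) (P.cons (P.lf 449572 0 0) (P.cons (P.lf 0 119214 0) P.nil)))) (P.cons (P.cons (P.lf 323414 0 0) (P.cons (P.lf 0 33596 0) (P.cons (P.lf 0 15502 0) P.nil))) (P.cons (P.cons (P.lf 94864 0 0) (P.cons (P.lf 0 26042 0) P.nil)) (P.cons (P.cons (P.lf 0 10998 0) P.nil) P.nil)))))) 81640)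
 EL.nil)
noncomputable def S227_241_216_364_45 : EL := (EL.cons 14 (TM.mk (P.cons (P.cons (P.lf 2028689048 0 0) (P.cons (P.lf 0 880510340 0) (P.cons (P.lf 0 252296912 0) (P.cons (P.lf 145907136 0 0) (P.cons (P.lf 3532798 0 0) (P.cons (P.lf 0 7807738 0) P.nil)))))) (P.cons (P.cons (P.lf 0 133956636 0) (P.cons (P.lf 7722040 0 0) (P.cons (P.lf 9507082 0 0) (P.cons (P.lf 4307728 0 0) (P.cons (P.lf 0 283760 0) P.nil))))) (P.cons (P.cons (P.lf 0 50985500 0) (P.cons (P.lf 20938294 0 0) (P.cons (P.lf 6589536 0 0) (P.cons (P.lf 0 3037860 0) P.nil)))) (P.cons (P.cons (P.lf 3999590 0 0) (P.cons (P.lf 0 311540 0) (P.cons (P.lf 0 248036 0) P.nil))) (P.cons (P.cons (P.lf 560818 0 0) (P.cons (P.lf 0 233804 0) P.nil)) (P.cons (P.cons (P.lf 0 50044 0) P.nil) P.nil)))))) 3263170)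
 EL.nil)
noncomputable def S227_241_216_364_46 : EL := (EL.cons 15 (TM.mk (P.lf 4294967296 0 0) 0)
 EL.nil)
noncomputable def S227_241_216_364_47 : EL := (EL.cons 15 (TM.mk (P.cons (P.cons (P.lf 2654819938 0 0) (P.cons (P.lf 0 384089816 0) (P.cons (P.lf 0 165623860 0) (P.lf 18402648 0 0)))) (P.cons (P.cons (P.lf 0 58433590 0) (P.cons (P.lf 0 13539472 0) (P.cons (P.lf 0 5838372 0) (P.lf 648704 0 0)))) (P.cons (P.cons (P.lf 0 23526670 0) (P.cons (P.lf 1916100 0 0) (P.cons (P.lf 826244 0 0) (P.lf 0 91804 0)))) (P.cons (P.cons (P.lf 718447 0 0) (P.cons (P.lf 72760 0 0) (P.cons (P.lf 31372 0 0) P.nil))) (P.cons (P.cons (P.lf 79171 0 0) (P.cons (P.lf 0 4648 0) P.nil)) (P.cons (P.cons (P.lf 0 1371 0) P.nil) P.nil)))))) 7246)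
 EL.nil)
noncomputable def S227_241_216_364_48 : EL := (EL.cons 15 (TM.mk (P.cons (P.cons (P.lf 1641006419 0 0) (P.cons (P.lf 0 474829832 0) (P.cons (P.lf 0 170403640 0) (P.cons (P.lf 52372997 0 0) (P.cons (P.lf 3095419 0 0) (P.cons (P.lf 0 1419297 0) P.nil)))))) (P.cons (P.cons (P.lf 0 72238342 0) (P.cons (P.lf 0 6286945 0) (P.cons (P.lf 0 289388 0) (P.cons (P.lf 2389670 0 0) (P.cons (P.lf 218232 0 0) P.nil))))) (P.cons (P.cons (P.lf 0 28289775 0) (P.cons (P.lf 6945065 0 0) (P.cons (P.lf 2694767 0 0) (P.cons (P.lf 0 591500 0) P.nil)))) (P.cons (P.cons (P.lf 1528344 0 0) (P.cons (P.lf 57644 0 0) (P.cons (P.lf 0 240 0) P.nil))) (P.cons (P.cons (P.lf 207198 0 0) (P.cons (P.lf 0 47407 0) P.nil)) (P.cons (P.cons (P.lf 0 11720 0) P.nil) P.nil)))))) 394490)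
 EL.nil)
noncomputable def S227_241_216_364 : SL := (SL.cons S227_241_216_364_0 (SL.cons S227_241_216_364_1 (SL.cons S227_241_216_364_2 (SL.cons S227_241_216_364_3 (SL.cons S227_241_216_364_4 (SL.cons S227_241_216_364_5 (SL.cons S227_241_216_364_6 (SL.cons S227_241_216_364_7 (SL.cons S227_241_216_364_8 (SL.cons S227_241_216_364_9 (SL.cons S227_241_216_364_10 (SL.cons S227_241_216_364_11 (SL.cons S227_241_216_364_12 (SL.cons S227_241_216_364_13 (SL.cons S227_241_216_364_14 (SL.cons S227_241_216_364_15 (SL.cons S227_241_216_364_16 (SL.cons S227_241_216_364_17 (SL.cons S227_241_216_364_18 (SL.cons S227_241_216_364_19 (SL.cons S227_241_216_364_20 (SL.cons S227_241_216_364_21 (SL.cons S227_241_216_364_22 (SL.cons S227_241_216_364_23 (SL.cons S227_241_216_364_24 (SL.cons S227_241_216_364_25 (SL.cons S227_241_216_364_26 (SL.cons S227_241_216_364_27 (SL.cons S227_241_216_364_28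 (SL.cons S227_241_216_364_29 (SL.cons S227_241_216_364_30 (SL.cons S227_241_216_364_31 (SL.cons S227_241_216_364_32 (SL.cons S227_241_216_364_33 (SL.cons S227_241_216_364_34 (SL.cons S227_241_216_364_35 (SL.cons S227_241_216_364_36 (SL.cons S227_241_216_364_37 (SL.cons S227_241_216_364_38 (SL.cons S227_241_216_364_39 (SL.cons S227_241_216_364_40 (SL.cons S227_241_216_364_41 (SL.cons S227_241_216_364_42 (SL.cons S227_241_216_364_43 (SL.cons S227_241_216_364_44 (SL.cons S227_241_216_364_45 (SL.cons S227_241_216_364_46 (SL.cons S227_241_216_364_47 (SL.cons S227_241_216_364_48 SL.nil)))))))))))))))))))))))))))))))))))))))))))))))))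
noncomputable def S227_241_290_364_0 : EL := (EL.cons 0 (TM.mk (P.cons (P.lf 8236751121 0 0) (P.cons (P.lf 136792680 0 0) (P.cons (P.lf 0 20162540 0) (P.cons (P.lf 0 495075 0) (P.cons (P.lf 33925 0 0) (P.cons (P.lf 991 0 0) P.nil)))))) 101)
 (EL.cons 1 (TM.mk (P.cons (P.lf 0 673184881 0) (P.cons (P.lf 202366545 0 0) (P.cons (P.lf 5530590 0 0) (P.cons (P.lf 0 526580 0) (P.cons (P.lf 0 13798 0) (P.cons (P.lf 714 0 0) P.nil)))))) 98)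
 (EL.cons 5 (TM.mk (P.cons (P.lf 4372821786 0 0) (P.cons (P.lf 0 48637396 0) (P.cons (P.lf 7168902 0 0) (P.cons (P.lf 176026 0 0) (P.cons (P.lf 0 12058 0) (P.cons (P.lf 0 354 0) P.nil)))))) 135)
 (EL.cons 9 (TM.mk (P.lf 6442450944 0 0) 2)
 EL.nil))))
noncomputable def S227_241_290_364_1 : EL := (EL.cons 0 (TM.mk (P.cons (P.cons (P.lf 4936920251 0 0) (P.cons (P.lf 0 472894440 0) (P.cons (P.lf 0 60895140 0) (P.lf 4059675 0 0)))) (P.cons (P.cons (P.lf 55129033 0 0) (P.cons (P.lf 0 50806969 0) (P.cons (P.lf 0 6542459 0) (P.lf 436159 0 0)))) (P.cons (P.cons (P.lf 0 127420671 0) (P.cons (P.lf 6187382 0 0) (P.cons (P.lf 796752 0 0) (P.lf 0 53109 0)))) (P.cons (P.cons (P.lf 1580855 0 0) (P.cons (P.lf 560794 0 0) (P.cons (P.lf 72200 0 0) P.nil))) (P.cons (P.cons (P.lf 905726 0 0) (P.cons (P.lf 0 28458 0) P.nil)) (P.cons (P.cons (P.lf 0 3649 0) P.nil) P.nil)))))) 20534)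
 (EL.cons 1 (TM.mk (P.cons (P.cons (P.lf 47484854 0 0) (P.cons (P.lf 102627357 0 0) (P.cons (P.lf 13215433 0 0) (P.lf 0 881026 0)))) (P.cons (P.cons (P.lf 430232723 0 0) (P.cons (P.lf 0 25696991 0) (P.cons (P.lf 0 3309030 0) (P.lf 220599 0 0)))) (P.cons (P.cons (P.lf 0 1633910 0) (P.cons (P.lf 0 3112799 0) (P.cons (P.lf 0 400834 0) (P.lf 26715 0 0)))) (P.cons (P.cons (P.lf 0 6070592 0) (P.cons (P.lf 224049 0 0) (P.cons (P.lf 28846 0 0) P.nil))) (P.cons (P.cons (P.lf 32383 0 0) (P.cons (P.lf 23125 0 0) P.nil)) (P.cons (P.cons (P.lf 32706 0 0) P.nil) P.nil)))))) 11068)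
 (EL.cons 5 (TM.mk (P.cons (P.cons (P.lf 2364888567 0 0) (P.cons (P.lf 0 287384692 0) (P.cons (P.lf 0 37006848 0) (P.lf 2467122 0 0)))) (P.cons (P.cons (P.lf 0 132790545 0) (P.cons (P.lf 2007074 0 0) (P.cons (P.lf 258446 0 0) (P.lf 0 17224 0)))) (P.cons (P.cons (P.lf 7270105 0 0) (P.cons (P.lf 72512 0 0) (P.cons (P.lf 9340 0 0) (P.lf 0 630 0)))) (P.cons (P.cons (P.lf 733728 0 0) (P.cons (P.lf 0 113096 0) (P.cons (P.lf 0 14558 0) P.nil))) (P.cons (P.cons (P.lf 0 192183 0) (P.cons (P.lf 4602 0 0) P.nil)) (P.cons (P.cons (P.lf 0 1250 0) P.nil) P.nil)))))) 12332)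
 (EL.cons 9 (TM.mk (P.cons (P.cons (P.lf 3635504091 0 0) (P.cons (P.lf 0 401933766 0) (P.cons (P.lf 0 51757452 0) (P.lf 3450492 0 0)))) (P.cons (P.cons (P.lf 0 99872745 0) (P.cons (P.lf 0 14168484 0) (P.cons (P.lf 0 1824486 0) (P.lf 121632 0 0)))) (P.cons (P.cons (P.lf 0 33560301 0) (P.cons (P.lf 2005116 0 0) (P.cons (P.lf 258198 0 0) (P.lf 0 17208 0)))) (P.cons (P.cons (P.lf 1143358 0 0) (P.cons (P.lf 76140 0 0) (P.cons (P.lf 9798 0 0) P.nil))) (P.cons (P.cons (P.lf 114562 0 0) (P.cons (P.lf 0 4860 0) P.nil)) (P.cons (P.cons (P.lf 0 2236 0) P.nil) P.nil)))))) 2680)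
 (EL.cons 2 (TM.mk (P.cons (P.cons (P.lf 281835241 0 0) (P.cons (P.lf 80457589 0 0) (P.cons (P.lf 0 6018097 0) (P.cons (P.lf 0 405531 0) (P.lf 20275 0 0))))) (P.cons (P.cons (P.lf 0 81411035 0) (P.cons (P.lf 0 23241009 0) (P.cons (P.lf 1738389 0 0) (P.cons (P.lf 117140 0 0) (P.lf 0 5855 0))))) (P.cons (P.cons (P.lf 0 3818522 0) (P.cons (P.lf 0 1090099 0) (P.cons (P.lf 81537 0 0) (P.cons (P.lf 5492 0 0) P.nil)))) (P.cons (P.cons (P.lf 339811 0 0) (P.cons (P.lf 97008 0 0) (P.cons (P.lf 0 7256 0) P.nil))) (P.cons (P.cons (P.lf 14779 0 0) (P.cons (P.lf 4218 0 0) P.nil)) (P.cons (P.cons (P.lf 0 700 0) P.nil) P.nil)))))) 1750)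
 (EL.cons 6 (TM.mk (P.cons (P.cons (P.lf 866469894 0 0) (P.cons (P.lf 247357572 0 0) (P.cons (P.lf 0 18501948 0) (P.cons (P.lf 0 1246758 0) (P.lf 62337 0 0))))) (P.cons (P.cons (P.lf 30543759 0 0) (P.cons (P.lf 8719551 0 0) (P.cons (P.lf 0 652206 0) (P.cons (P.lf 0 43947 0) (P.lf 2196 0 0))))) (P.cons (P.cons (P.lf 0 4322541 0) (P.cons (P.lf 0 1233987 0) (P.cons (P.lf 92298 0 0) (P.cons (P.lf 6216 0 0) P.nil)))) (P.cons (P.cons (P.lf 0 164142 0) (P.cons (P.lf 0 46857 0) (P.cons (P.lf 3504 0 0) P.nil))) (P.cons (P.cons (P.lf 10488 0 0) (P.cons (P.lf 2991 0 0) P.nil)) (P.cons (P.cons (P.lf 459 0 0) P.nil) P.nil)))))) 1275)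
 EL.nil))))))
noncomputable def S227_241_290_364_2 : EL := (EL.cons 0 (TM.mk (P.cons (P.cons (P.lf 2948945153 0 0) (P.cons (P.lf 0 569758974 0) (P.cons (P.lf 0 46422229 0) (P.cons (P.lf 11831031 0 0) (P.cons (P.lf 0 15830 0) (P.cons (P.lf 0 59587 0) P.nil)))))) (P.cons (P.cons (P.lf 9702175 0 0) (P.cons (P.lf 0 57129467 0) (P.cons (P.lf 0 1729787 0) (P.cons (P.lf 1939580 0 0) (P.cons (P.lf 0 3292 0) P.nil))))) (P.cons (P.cons (P.lf 0 141692692 0) (P.cons (P.lf 22061475 0 0) (P.cons (P.lf 2318918 0 0) (P.cons (P.lf 0 323797 0) P.nil)))) (P.cons (P.cons (P.lf 4508883 0 0) (P.cons (P.lf 1087864 0 0) (P.cons (P.lf 35603 0 0) P.nil))) (P.cons (P.cons (P.lf 1969725 0 0) (P.cons (P.lf 0 269733 0) P.nil)) (P.cons (P.cons (P.lf 0 73284 0) P.nil) P.nil)))))) 203098)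
 (EL.cons 1 (TM.mk (P.cons (P.cons (P.lf 267960540 0 0) (P.cons (P.lf 62500840 0 0) (P.cons (P.lf 0 2136962 0) (P.cons (P.lf 0 3159680 0) (P.cons (P.lf 5982 0 0) (P.cons (P.lf 22515 0 0) P.nil)))))) (P.cons (P.cons (P.lf 407872704 0 0) (P.cons (P.lf 0 72195342 0) (P.cons (P.lf 0 7144631 0) (P.cons (P.lf 1174011 0 0) (P.cons (P.lf 0 1256 0) P.nil))))) (P.cons (P.cons (P.lf 0 17694504 0) (P.cons (P.lf 0 4224366 0) (P.cons (P.lf 0 78606 0) (P.cons (P.lf 156103 0 0) P.nil)))) (P.cons (P.cons (P.lf 0 9617053 0) (P.cons (P.lf 1439635 0 0) (P.cons (P.lf 163042 0 0) P.nil))) (P.cons (P.cons (P.lf 377406 0 0) (P.cons (P.lf 64745 0 0) P.nil)) (P.cons (P.cons (P.lf 98086 0 0) P.nil) P.nil)))))) 105288)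
 (EL.cons 5 (TM.mk (P.cons (P.cons (P.lf 1276555043 0 0) (P.cons (P.lf 0 311528578 0) (P.cons (P.lf 0 21277336 0) (P.cons (P.lf 7526107 0 0) (P.cons (P.lf 0 11056 0) (P.cons (P.lf 0 41640 0) P.nil)))))) (P.cons (P.cons (P.lf 0 131195915 0) (P.cons (P.lf 16313278 0 0) (P.cons (P.lf 2103634 0 0) (P.cons (P.lf 0 139271 0) (P.cons (P.lf 0 6 0) P.nil))))) (P.cons (P.cons (P.lf 9207636 0 0) (P.cons (P.lf 0 35595 0) (P.cons (P.lf 0 67224 0) (P.cons (P.lf 0 15845 0) P.nil)))) (P.cons (P.cons (P.lf 1038568 0 0) (P.cons (P.lf 0 354245 0) (P.cons (P.lf 0 29233 0) P.nil))) (P.cons (P.cons (P.lf 0 395832 0) (P.cons (P.lf 41413 0 0) P.nil)) (P.cons (P.cons (P.lf 5652 0 0) P.nil) P.nil)))))) 108991)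
 (EL.cons 9 (TM.mk (P.cons (P.cons (P.lf 2051531335 0 0) (P.cons (P.lf 0 453626068 0) (P.cons (P.lf 0 33337948 0) (P.cons (P.lf 10352377 0 0) (P.cons (P.lf 0 14730 0) (P.cons (P.lf 0 55440 0) P.nil)))))) (P.cons (P.cons (P.lf 0 112717279 0) (P.cons (P.lf 0 3528889 0) (P.cons (P.lf 1313482 0 0) (P.cons (P.lf 485601 0 0) (P.cons (P.lf 0 1038 0) P.nil))))) (P.cons (P.cons (P.lf 0 36328201 0) (P.cons (P.lf 6889821 0 0) (P.cons (P.lf 668173 0 0) (P.cons (P.lf 0 115549 0) P.nil)))) (P.cons (P.cons (P.lf 2330926 0 0) (P.cons (P.lf 28713 0 0) (P.cons (P.lf 0 14629 0) P.nil))) (P.cons (P.cons (P.lf 268669 0 0) (P.cons (P.lf 0 48058 0) P.nil)) (P.cons (P.cons (P.lf 0 17988 0) P.nil) P.nil)))))) 40199)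
 (EL.cons 2 (TM.mk (P.cons (P.cons (P.lf 318081791 0 0) (P.cons (P.lf 55638697 0 0) (P.cons (P.lf 0 21359728 0) (P.cons (P.lf 0 697635 0) (P.cons (P.lf 256365 0 0) (P.cons (P.lf 0 2458 0) P.nil)))))) (P.cons (P.cons (P.lf 0 100619409 0) (P.cons (P.lf 0 19806013 0) (P.cons (P.lf 5843047 0 0) (P.cons (P.lf 205633 0 0) (P.cons (P.lf 0 66448 0) P.nil))))) (P.cons (P.cons (P.lf 0 4721799 0) (P.cons (P.lf 0 337983 0) (P.cons (P.lf 519204 0 0) (P.cons (P.lf 13685 0 0) P.nil)))) (P.cons (P.cons (P.lf 1450119 0 0) (P.cons (P.lf 344356 0 0) (P.cons (P.lf 0 59799 0) P.nil))) (P.cons (P.cons (P.lf 27056 0 0) (P.cons (P.lf 0 337 0) P.nil)) (P.cons (P.cons (P.lf 0 9236 0) P.nil) P.nil)))))) 33760)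
 (EL.cons 6 (TM.mk (P.cons (P.cons (P.lf 977905728 0 0) (P.cons (P.lf 171054762 0 0) (P.cons (P.lf 0 65668032 0) (P.cons (P.lf 0 2144802 0) (P.cons (P.lf 788166 0 0) (P.cons (P.lf 0 7560 0) P.nil)))))) (P.cons (P.cons (P.lf 7607424 0 0) (P.cons (P.lf 0 5450544 0) (P.cons (P.lf 0 3319962 0) (P.cons (P.lf 0 62952 0) (P.cons (P.lf 51150 0 0) P.nil))))) (P.cons (P.cons (P.lf 0 14852760 0) (P.cons (P.lf 0 3295764 0) (P.cons (P.lf 708348 0 0) (P.cons (P.lf 27810 0 0) P.nil)))) (P.cons (P.cons (P.lf 0 61902 0) (P.cons (P.lf 61314 0 0) (P.cons (P.lf 34038 0 0) P.nil))) (P.cons (P.cons (P.lf 103614 0 0) (P.cons (P.lf 25710 0 0) P.nil)) (P.cons (P.cons (P.lf 852 0 0) P.nil) P.nil)))))) 30228)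
 EL.nil))))))
noncomputable def S227_241_290_364_3 : EL := (EL.cons 0 (TM.mk (P.cons (P.lf 218965742 0 0) (P.cons (P.lf 0 136792680 0) (P.cons (P.lf 20162540 0 0) (P.cons (P.lf 495075 0 0) (P.cons (P.lf 0 33925 0) (P.cons (P.lf 0 991 0) P.nil)))))) 101)
 (EL.cons 1 (TM.mk (P.cons (P.lf 673184881 0 0) (P.cons (P.lf 0 202366545 0) (P.cons (P.lf 0 5530590 0) (P.cons (P.lf 526580 0 0) (P.cons (P.lf 13798 0 0) (P.cons (P.lf 0 714 0) P.nil)))))) 98)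
 (EL.cons 5 (TM.mk (P.cons (P.lf 2069629158 0 0) (P.cons (P.lf 48637396 0 0) (P.cons (P.lf 0 7168902 0) (P.cons (P.lf 0 176026 0) (P.cons (P.lf 12058 0 0) (P.cons (P.lf 354 0 0) P.nil)))))) 128)
 EL.nil)))
noncomputable def S227_241_290_364_4 : EL := (EL.cons 0 (TM.mk (P.cons (P.cons (P.lf 123563353 0 0) (P.cons (P.lf 0 13660906 0) (P.cons (P.lf 0 1759129 0) (P.lf 117274 0 0)))) (P.cons (P.cons (P.lf 0 80587195 0) (P.cons (P.lf 8052707 0 0) (P.cons (P.lf 1036954 0 0) (P.lf 0 69129 0)))) (P.cons (P.cons (P.lf 12357764 0 0) (P.cons (P.lf 0 888916 0) (P.cons (P.lf 0 114466 0) (P.lf 7630 0 0)))) (P.cons (P.cons (P.lf 718254 0 0) (P.cons (P.lf 0 115215 0) (P.cons (P.lf 0 14835 0) P.nil))) (P.cons (P.cons (P.lf 0 152233 0) (P.cons (P.lf 5519 0 0) P.nil)) (P.cons (P.cons (P.lf 0 1541 0) P.nil) P.nil)))))) 4244)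
 (EL.cons 1 (TM.mk (P.cons (P.cons (P.lf 379881260 0 0) (P.cons (P.lf 0 41998880 0) (P.cons (P.lf 0 5408240 0) (P.lf 360547 0 0)))) (P.cons (P.cons (P.lf 0 124632258 0) (P.cons (P.lf 11144816 0 0) (P.cons (P.lf 1435130 0 0) (P.lf 0 95673 0)))) (P.cons (P.cons (P.lf 0 3490575 0) (P.cons (P.lf 999615 0 0) (P.cons (P.lf 128720 0 0) (P.lf 0 8580 0)))) (P.cons (P.cons (P.lf 1556536 0 0) (P.cons (P.lf 0 75716 0) (P.cons (P.lf 0 9750 0) P.nil))) (P.cons (P.cons (P.lf 4488 0 0) (P.cons (P.lf 0 6637 0) P.nil)) (P.cons (P.cons (P.lf 0 8173 0) P.nil) P.nil)))))) 3084)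
 (EL.cons 5 (TM.mk (P.cons (P.cons (P.lf 1167901056 0 0) (P.cons (P.lf 0 129120710 0) (P.cons (P.lf 0 16627014 0) (P.lf 1108464 0 0)))) (P.cons (P.cons (P.lf 0 4637688 0) (P.cons (P.lf 0 7586012 0) (P.cons (P.lf 0 976856 0) (P.lf 65122 0 0)))) (P.cons (P.cons (P.lf 0 15580636 0) (P.cons (P.lf 984430 0 0) (P.cons (P.lf 126764 0 0) (P.lf 0 8448 0)))) (P.cons (P.cons (P.lf 125740 0 0) (P.cons (P.lf 66344 0 0) (P.cons (P.lf 8540 0 0) P.nil))) (P.cons (P.cons (P.lf 92312 0 0) (P.cons (P.lf 0 3582 0) P.nil)) (P.cons (P.cons (P.lf 0 194 0) P.nil) P.nil)))))) 2434)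
 EL.nil)))
noncomputable def S227_241_290_364_5 : EL := (EL.cons 0 (TM.mk (P.cons (P.cons (P.lf 69727357 0 0) (P.cons (P.lf 0 15417822 0) (P.cons (P.lf 0 1133087 0) (P.cons (P.lf 351856 0 0) (P.cons (P.lf 0 499 0) (P.cons (P.lf 0 1882 0) P.nil)))))) (P.cons (P.cons (P.lf 0 47391231 0) (P.cons (P.lf 9511910 0 0) (P.cons (P.lf 752507 0 0) (P.cons (P.lf 0 203306 0) (P.cons (P.lf 275 0 0) P.nil))))) (P.cons (P.cons (P.lf 7579156 0 0) (P.cons (P.lf 0 1110584 0) (P.cons (P.lf 0 109513 0) (P.cons (P.lf 18159 0 0) P.nil)))) (P.cons (P.cons (P.lf 655467 0 0) (P.cons (P.lf 0 191218 0) (P.cons (P.lf 0 13134 0) P.nil))) (P.cons (P.cons (P.lf 0 173518 0) (P.cons (P.lf 21436 0 0) P.nil)) (P.cons (P.cons (P.lf 0 1534 0) P.nil) P.nil)))))) 15534)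
 (EL.cons 1 (TM.mk (P.cons (P.cons (P.lf 214368706 0 0) (P.cons (P.lf 0 47400315 0) (P.cons (P.lf 0 3483549 0) (P.cons (P.lf 1081740 0 0) (P.cons (P.lf 0 1537 0) (P.cons (P.lf 0 5791 0) P.nil)))))) (P.cons (P.cons (P.lf 0 76219575 0) (P.cons (P.lf 13880296 0 0) (P.cons (P.lf 1184439 0 0) (P.cons (P.lf 0 274440 0) (P.cons (P.lf 352 0 0) P.nil))))) (P.cons (P.cons (P.lf 0 2016555 0) (P.cons (P.lf 1220197 0 0) (P.cons (P.lf 57178 0 0) (P.cons (P.lf 0 36213 0) P.nil)))) (P.cons (P.cons (P.lf 1649130 0 0) (P.cons (P.lf 0 247466 0) (P.cons (P.lf 0 26368 0) P.nil))) (P.cons (P.cons (P.lf 0 18774 0) (P.cons (P.lf 0 13096 0) P.nil)) (P.cons (P.cons (P.lf 0 15757 0) P.nil) P.nil)))))) 17630)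
 (EL.cons 5 (TM.mk (P.cons (P.cons (P.lf 659051828 0 0) (P.cons (P.lf 0 145726794 0) (P.cons (P.lf 0 10709772 0) (P.cons (P.lf 3325686 0 0) (P.cons (P.lf 0 4730 0) (P.cons (P.lf 0 17808 0) P.nil)))))) (P.cons (P.cons (P.lf 0 20722208 0) (P.cons (P.lf 0 4558308 0) (P.cons (P.lf 170268 0 0) (P.cons (P.lf 234152 0 0) (P.cons (P.lf 0 444 0) P.nil))))) (P.cons (P.cons (P.lf 0 14804210 0) (P.cons (P.lf 2691480 0 0) (P.cons (P.lf 261662 0 0) (P.cons (P.lf 0 44972 0) P.nil)))) (P.cons (P.cons (P.lf 543918 0 0) (P.cons (P.lf 77558 0 0) (P.cons (P.lf 0 204 0) P.nil))) (P.cons (P.cons (P.lf 151250 0 0) (P.cons (P.lf 0 23640 0) P.nil)) (P.cons (P.cons (P.lf 0 5448 0) P.nil) P.nil)))))) 18032)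
 EL.nil)))
noncomputable def S227_241_290_364_6 : EL := (EL.cons 12 (TM.mk (P.lf 8589934592 0 0) 0)
 (EL.cons 3 (TM.mk (P.cons (P.lf 0 685729796 0) (P.cons (P.lf 214195188 0 0) (P.cons (P.lf 1881828 0 0) (P.cons (P.lf 0 187398 0) (P.cons (P.lf 0 2831 0) (P.cons (P.lf 153 0 0) P.nil)))))) 44)
 (EL.cons 7 (TM.mk (P.cons (P.lf 0 2108197044 0) (P.cons (P.lf 0 24771881 0) (P.cons (P.lf 3796786 0 0) (P.cons (P.lf 45040 0 0) (P.cons (P.lf 0 3252 0) (P.cons (P.lf 0 61 0) P.nil)))))) 51)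
 EL.nil)))
noncomputable def S227_241_290_364_7 : EL := (EL.cons 12 (TM.mk (P.cons (P.cons (P.lf 4847338788 0 0) (P.cons (P.lf 0 535911688 0) (P.cons (P.lf 0 69009936 0) (P.lf 4600656 0 0)))) (P.cons (P.cons (P.lf 0 133163660 0) (P.cons (P.lf 0 18891312 0) (P.cons (P.lf 0 2432648 0) (P.lf 162176 0 0)))) (P.cons (P.cons (P.lf 0 44747068 0) (P.cons (P.lf 2673488 0 0) (P.cons (P.lf 344264 0 0) (P.lf 0 22944 0)))) (P.cons (P.cons (P.lf 1524478 0 0) (P.cons (P.lf 101520 0 0) (P.cons (P.lf 13064 0 0) P.nil))) (P.cons (P.cons (P.lf 152750 0 0) (P.cons (P.lf 0 6480 0) P.nil)) (P.cons (P.cons (P.lf 0 2982 0) P.nil) P.nil)))))) 3548)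
 (EL.cons 3 (TM.mk (P.cons (P.cons (P.lf 0 1291653085 0) (P.cons (P.lf 0 85563074 0) (P.cons (P.lf 0 11018048 0) (P.lf 734534 0 0)))) (P.cons (P.cons (P.lf 0 481871670 0) (P.cons (P.lf 23710392 0 0) (P.cons (P.lf 3053214 0 0) (P.lf 0 203546 0)))) (P.cons (P.cons (P.lf 29632977 0 0) (P.cons (P.lf 1603786 0 0) (P.cons (P.lf 206520 0 0) (P.lf 0 13766 0)))) (P.cons (P.cons (P.lf 3536950 0 0) (P.cons (P.lf 0 132226 0) (P.cons (P.lf 0 17026 0) P.nil))) (P.cons (P.cons (P.lf 0 88924 0) (P.cons (P.lf 0 8444 0) P.nil)) (P.cons (P.cons (P.lf 0 12561 0) P.nil) P.nil)))))) 8553)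
 (EL.cons 7 (TM.mk (P.cons (P.cons (P.lf 0 1085036516 0) (P.cons (P.lf 146370077 0 0) (P.cons (P.lf 18848240 0 0) (P.lf 0 1256553 0)))) (P.cons (P.cons (P.lf 55728929 0 0) (P.cons (P.lf 0 2742128 0) (P.cons (P.lf 0 353102 0) (P.lf 23539 0 0)))) (P.cons (P.cons (P.lf 0 12458261 0) (P.cons (P.lf 258896 0 0) (P.cons (P.lf 33337 0 0) (P.lf 0 2218 0)))) (P.cons (P.cons (P.lf 384672 0 0) (P.cons (P.lf 52749 0 0) (P.cons (P.lf 6790 0 0) P.nil))) (P.cons (P.cons (P.lf 100306 0 0) (P.cons (P.lf 0 2781 0) P.nil)) (P.cons (P.cons (P.lf 0 1417 0) P.nil) P.nil)))))) 7322)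
 (EL.cons 10 (TM.mk (P.cons (P.cons (P.lf 0 1765233411 0) (P.cons (P.lf 0 503934246 0) (P.cons (P.lf 37693470 0 0) (P.cons (P.lf 2539989 0 0) (P.lf 0 126999 0))))) (P.cons (P.cons (P.lf 0 41483931 0) (P.cons (P.lf 0 11842725 0) (P.cons (P.lf 885816 0 0) (P.cons (P.lf 59691 0 0) (P.lf 0 2982 0))))) (P.cons (P.cons (P.lf 6114516 0 0) (P.cons (P.lf 1745556 0 0) (P.cons (P.lf 0 130563 0) (P.cons (P.lf 0 8796 0) P.nil)))) (P.cons (P.cons (P.lf 150135 0 0) (P.cons (P.lf 42858 0 0) (P.cons (P.lf 0 3204 0) P.nil))) (P.cons (P.cons (P.lf 0 10284 0) (P.cons (P.lf 0 2934 0) P.nil)) (P.cons (P.cons (P.lf 0 300 0) P.nil) P.nil)))))) 1248)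
 EL.nil))))
noncomputable def S227_241_290_364_8 : EL := (EL.cons 12 (TM.mk (P.cons (P.cons (P.lf 2735375114 0 0) (P.cons (P.lf 0 604834758 0) (P.cons (P.lf 0 44450598 0) (P.cons (P.lf 13803170 0 0) (P.cons (P.lf 0 19640 0) (P.cons (P.lf 0 73920 0) P.nil)))))) (P.cons (P.cons (P.lf 0 150289706 0) (P.cons (P.lf 0 4705186 0) (P.cons (P.lf 1751310 0 0) (P.cons (P.lf 647468 0 0) (P.cons (P.lf 0 1384 0) P.nil))))) (P.cons (P.cons (P.lf 0 48437602 0) (P.cons (P.lf 9186428 0 0) (P.cons (P.lf 890898 0 0) (P.cons (P.lf 0 154066 0) P.nil)))) (P.cons (P.cons (P.lf 3107902 0 0) (P.cons (P.lf 38284 0 0) (P.cons (P.lf 0 19506 0) P.nil))) (P.cons (P.cons (P.lf 358226 0 0) (P.cons (P.lf 0 64078 0) P.nil)) (P.cons (P.cons (P.lf 0 23984 0) P.nil) P.nil)))))) 53570)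
 (EL.cons 3 (TM.mk (P.cons (P.cons (P.lf 0 1239407804 0) (P.cons (P.lf 16317278 0 0) (P.cons (P.lf 15446538 0 0) (P.cons (P.lf 3296905 0 0) (P.cons (P.lf 0 7835 0) (P.cons (P.lf 0 29506 0) P.nil)))))) (P.cons (P.cons (P.lf 0 584003315 0) (P.cons (P.lf 109926559 0 0) (P.cons (P.lf 10927664 0 0) (P.cons (P.lf 0 1774954 0) (P.cons (P.lf 1896 0 0) P.nil))))) (P.cons (P.cons (P.lf 61122915 0 0) (P.cons (P.lf 567512 0 0) (P.cons (P.lf 0 373997 0) (P.cons (P.lf 0 120009 0) P.nil)))) (P.cons (P.cons (P.lf 9183504 0 0) (P.cons (P.lf 0 1616676 0) (P.cons (P.lf 0 180447 0) P.nil))) (P.cons (P.cons (P.lf 0 776391 0) (P.cons (P.lf 0 20602 0) P.nil)) (P.cons (P.cons (P.lf 0 66674 0) P.nil) P.nil)))))) 130338)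
 (EL.cons 7 (TM.mk (P.cons (P.cons (P.lf 0 553248623 0) (P.cons (P.lf 152139381 0 0) (P.cons (P.lf 9533335 0 0) (P.cons (P.lf 0 3896396 0) (P.cons (P.lf 5906 0 0) (P.cons (P.lf 22233 0 0) P.nil)))))) (P.cons (P.cons (P.lf 67540551 0 0) (P.cons (P.lf 0 12713111 0) (P.cons (P.lf 0 1263783 0) (P.cons (P.lf 205269 0 0) (P.cons (P.lf 0 216 0) P.nil))))) (P.cons (P.cons (P.lf 0 18014238 0) (P.cons (P.lf 1994590 0 0) (P.cons (P.lf 248053 0 0) (P.cons (P.lf 0 19377 0) P.nil)))) (P.cons (P.cons (P.lf 529831 0 0) (P.cons (P.lf 189009 0 0) (P.cons (P.lf 10313 0 0) P.nil))) (P.cons (P.cons (P.lf 332377 0 0) (P.cons (P.lf 0 42124 0) P.nil)) (P.cons (P.cons (P.lf 0 16412 0) P.nil) P.nil)))))) 61134)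
 (EL.cons 10 (TM.mk (P.cons (P.cons (P.lf 0 1992258330 0) (P.cons (P.lf 0 348484794 0) (P.cons (P.lf 133783536 0 0) (P.cons (P.lf 4369542 0 0) (P.cons (P.lf 0 1605708 0) (P.cons (P.lf 15408 0 0) P.nil)))))) (P.cons (P.cons (P.lf 7911180 0 0) (P.cons (P.lf 15199026 0 0) (P.cons (P.lf 5191674 0 0) (P.cons (P.lf 76908 0 0) (P.cons (P.lf 0 85344 0) P.nil))))) (P.cons (P.cons (P.lf 26578152 0 0) (P.cons (P.lf 5908170 0 0) (P.cons (P.lf 0 1263168 0) (P.cons (P.lf 0 49698 0) P.nil)))) (P.cons (P.cons (P.lf 0 214494 0) (P.cons (P.lf 0 174408 0) (P.cons (P.lf 0 42294 0) P.nil))) (P.cons (P.cons (P.lf 0 157470 0) (P.cons (P.lf 0 38838 0) P.nil)) (P.cons (P.cons (P.lf 336 0 0) P.nil) P.nil)))))) 50796)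
 EL.nil))))
noncomputable def S227_241_290_364_9 : EL := (EL.cons 3 (TM.mk (P.cons (P.lf 0 685729796 0) (P.cons (P.lf 214195188 0 0) (P.cons (P.lf 1881828 0 0) (P.cons (P.lf 0 187398 0) (P.cons (P.lf 0 2831 0) (P.cons (P.lf 153 0 0) P.nil)))))) 44)
 (EL.cons 7 (TM.mk (P.cons (P.lf 0 2108197044 0) (P.cons (P.lf 0 24771881 0) (P.cons (P.lf 3796786 0 0) (P.cons (P.lf 45040 0 0) (P.cons (P.lf 0 3252 0) (P.cons (P.lf 0 61 0) P.nil)))))) 51)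
 EL.nil))
noncomputable def S227_241_290_364_10 : EL := (EL.cons 3 (TM.mk (P.cons (P.cons (P.lf 0 386960413 0) (P.cons (P.lf 42781537 0 0) (P.cons (P.lf 5509024 0 0) (P.lf 0 367267 0)))) (P.cons (P.cons (P.lf 131501691 0 0) (P.cons (P.lf 0 11855196 0) (P.cons (P.lf 0 1526607 0) (P.lf 101773 0 0)))) (P.cons (P.cons (P.lf 1313541 0 0) (P.cons (P.lf 0 801893 0) (P.cons (P.lf 0 103260 0) (P.lf 6883 0 0)))) (P.cons (P.cons (P.lf 0 1372415 0) (P.cons (P.lf 66113 0 0) (P.cons (P.lf 8513 0 0) P.nil))) (P.cons (P.cons (P.lf 17324 0 0) (P.cons (P.lf 4222 0 0) P.nil)) (P.cons (P.cons (P.lf 5487 0 0) P.nil) P.nil)))))) 2069)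
 (EL.cons 7 (TM.mk (P.cons (P.cons (P.lf 0 1189665089 0) (P.cons (P.lf 131526896 0 0) (P.cons (P.lf 16936862 0 0) (P.lf 0 1129122 0)))) (P.cons (P.cons (P.lf 18702998 0 0) (P.cons (P.lf 6181903 0 0) (P.cons (P.lf 796048 0 0) (P.lf 0 53069 0)))) (P.cons (P.cons (P.lf 13508677 0 0) (P.cons (P.lf 0 838540 0) (P.cons (P.lf 0 107978 0) (P.lf 7196 0 0)))) (P.cons (P.cons (P.lf 0 278547 0) (P.cons (P.lf 0 43785 0) (P.cons (P.lf 0 5636 0) P.nil))) (P.cons (P.cons (P.lf 0 64196 0) (P.cons (P.lf 2583 0 0) P.nil)) (P.cons (P.cons (P.lf 746 0 0) P.nil) P.nil)))))) 1546)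
 EL.nil))
noncomputable def S227_241_290_364_11 : EL := (EL.cons 3 (TM.mk (P.cons (P.cons (P.lf 0 218363504 0) (P.cons (P.lf 48283628 0 0) (P.cons (P.lf 3548466 0 0) (P.cons (P.lf 0 1101899 0) (P.cons (P.lf 1567 0 0) (P.cons (P.lf 5900 0 0) P.nil)))))) (P.cons (P.cons (P.lf 80205769 0 0) (P.cons (P.lf 0 14706305 0) (P.cons (P.lf 0 1248208 0) (P.cons (P.lf 292502 0 0) (P.cons (P.lf 0 378 0) P.nil))))) (P.cons (P.cons (P.lf 718431 0 0) (P.cons (P.lf 0 983176 0) (P.cons (P.lf 0 37187 0) (P.cons (P.lf 31467 0 0) P.nil)))) (P.cons (P.cons (P.lf 0 1548522 0) (P.cons (P.lf 238176 0 0) (P.cons (P.lf 25125 0 0) P.nil))) (P.cons (P.cons (P.lf 40665 0 0) (P.cons (P.lf 8384 0 0) P.nil)) (P.cons (P.cons (P.lf 12682 0 0) P.nil) P.nil)))))) 15302)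
 (EL.cons 7 (TM.mk (P.cons (P.cons (P.lf 0 671333369 0) (P.cons (P.lf 148442439 0 0) (P.cons (P.lf 10909351 0 0) (P.cons (P.lf 0 3387662 0) (P.cons (P.lf 4820 0 0) (P.cons (P.lf 18141 0 0) P.nil)))))) (P.cons (P.cons (P.lf 28996719 0 0) (P.cons (P.lf 2899015 0 0) (P.cons (P.lf 0 301629 0) (P.cons (P.lf 0 198711 0) (P.cons (P.lf 396 0 0) P.nil))))) (P.cons (P.cons (P.lf 13530324 0 0) (P.cons (P.lf 0 2508362 0) (P.cons (P.lf 0 243347 0) (P.cons (P.lf 42045 0 0) P.nil)))) (P.cons (P.cons (P.lf 0 675161 0) (P.cons (P.lf 0 41139 0) (P.cons (P.lf 2759 0 0) P.nil))) (P.cons (P.cons (P.lf 0 120113 0) (P.cons (P.lf 19880 0 0) P.nil)) (P.cons (P.cons (P.lf 6010 0 0) P.nil) P.nil)))))) 15566)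
 EL.nil))
noncomputable def S227_241_290_364_12 : EL := (EL.cons 4 (TM.mk (P.cons (P.lf 685729796 0 0) (P.cons (P.lf 0 214195188 0) (P.cons (P.lf 0 1881828 0) (P.cons (P.lf 187398 0 0) (P.cons (P.lf 2831 0 0) (P.cons (P.lf 0 153 0) P.nil)))))) 44)
 (EL.cons 8 (TM.mk (P.cons (P.lf 2108197044 0 0) (P.cons (P.lf 24771881 0 0) (P.cons (P.lf 0 3796786 0) (P.cons (P.lf 0 45040 0) (P.cons (P.lf 3252 0 0) (P.cons (P.lf 61 0 0) P.nil)))))) 51)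
 EL.nil))
noncomputable def S227_241_290_364_13 : EL := (EL.cons 4 (TM.mk (P.cons (P.cons (P.lf 386960413 0 0) (P.cons (P.lf 0 42781537 0) (P.cons (P.lf 0 5509024 0) (P.lf 367267 0 0)))) (P.cons (P.cons (P.lf 0 131501691 0) (P.cons (P.lf 11855196 0 0) (P.cons (P.lf 1526607 0 0) (P.lf 0 101773 0)))) (P.cons (P.cons (P.lf 0 1313541 0) (P.cons (P.lf 801893 0 0) (P.cons (P.lf 103260 0 0) (P.lf 0 6883 0)))) (P.cons (P.cons (P.lf 1372415 0 0) (P.cons (P.lf 0 66113 0) (P.cons (P.lf 0 8513 0) P.nil))) (P.cons (P.cons (P.lf 0 17324 0) (P.cons (P.lf 0 4222 0) P.nil)) (P.cons (P.cons (P.lf 0 5487 0) P.nil) P.nil)))))) 2069)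
 (EL.cons 8 (TM.mk (P.cons (P.cons (P.lf 1189665089 0 0) (P.cons (P.lf 0 131526896 0) (P.cons (P.lf 0 16936862 0) (P.lf 1129122 0 0)))) (P.cons (P.cons (P.lf 0 18702998 0) (P.cons (P.lf 0 6181903 0) (P.cons (P.lf 0 796048 0) (P.lf 53069 0 0)))) (P.cons (P.cons (P.lf 0 13508677 0) (P.cons (P.lf 838540 0 0) (P.cons (P.lf 107978 0 0) (P.lf 0 7196 0)))) (P.cons (P.cons (P.lf 278547 0 0) (P.cons (P.lf 43785 0 0) (P.cons (P.lf 5636 0 0) P.nil))) (P.cons (P.cons (P.lf 64196 0 0) (P.cons (P.lf 0 2583 0) P.nil)) (P.cons (P.cons (P.lf 0 746 0) P.nil) P.nil)))))) 1546)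
 EL.nil))
noncomputable def S227_241_290_364_14 : EL := (EL.cons 4 (TM.mk (P.cons (P.cons (P.lf 218363504 0 0) (P.cons (P.lf 0 48283628 0) (P.cons (P.lf 0 3548466 0) (P.cons (P.lf 1101899 0 0) (P.cons (P.lf 0 1567 0) (P.cons (P.lf 0 5900 0) P.nil)))))) (P.cons (P.cons (P.lf 0 80205769 0) (P.cons (P.lf 14706305 0 0) (P.cons (P.lf 1248208 0 0) (P.cons (P.lf 0 292502 0) (P.cons (P.lf 378 0 0) P.nil))))) (P.cons (P.cons (P.lf 0 718431 0) (P.cons (P.lf 983176 0 0) (P.cons (P.lf 37187 0 0) (P.cons (P.lf 0 31467 0) P.nil)))) (P.cons (P.cons (P.lf 1548522 0 0) (P.cons (P.lf 0 238176 0) (P.cons (P.lf 0 25125 0) P.nil))) (P.cons (P.cons (P.lf 0 40665 0) (P.cons (P.lf 0 8384 0) P.nil)) (P.cons (P.cons (P.lf 0 12682 0) P.nil) P.nil)))))) 15302)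
 (EL.cons 8 (TM.mk (P.cons (P.cons (P.lf 671333369 0 0) (P.cons (P.lf 0 148442439 0) (P.cons (P.lf 0 10909351 0) (P.cons (P.lf 3387662 0 0) (P.cons (P.lf 0 4820 0) (P.cons (P.lf 0 18141 0) P.nil)))))) (P.cons (P.cons (P.lf 0 28996719 0) (P.cons (P.lf 0 2899015 0) (P.cons (P.lf 301629 0 0) (P.cons (P.lf 198711 0 0) (P.cons (P.lf 0 396 0) P.nil))))) (P.cons (P.cons (P.lf 0 13530324 0) (P.cons (P.lf 2508362 0 0) (P.cons (P.lf 243347 0 0) (P.cons (P.lf 0 42045 0) P.nil)))) (P.cons (P.cons (P.lf 675161 0 0) (P.cons (P.lf 41139 0 0) (P.cons (P.lf 0 2759 0) P.nil))) (P.cons (P.cons (P.lf 120113 0 0) (P.cons (P.lf 0 19880 0) P.nil)) (P.cons (P.cons (P.lf 0 6010 0) P.nil) P.nil)))))) 15566)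
 EL.nil))
noncomputable def S227_241_290_364_15 : EL := (EL.cons 4 (TM.mk (P.cons (P.lf 0 116781729 0) (P.cons (P.lf 72956096 0 0) (P.cons (P.lf 0 10753354 0) (P.cons (P.lf 0 264040 0) (P.cons (P.lf 18093 0 0) (P.cons (P.lf 528 0 0) P.nil)))))) 57)
 (EL.cons 8 (TM.mk (P.cons (P.lf 0 359031937 0) (P.cons (P.lf 107928824 0 0) (P.cons (P.lf 2949648 0 0) (P.cons (P.lf 0 280843 0) (P.cons (P.lf 0 7359 0) (P.cons (P.lf 381 0 0) P.nil)))))) 49)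
 EL.nil))
noncomputable def S227_241_290_364_16 : EL := (EL.cons 4 (TM.mk (P.cons (P.cons (P.lf 0 65900455 0) (P.cons (P.lf 7285816 0 0) (P.cons (P.lf 938202 0 0) (P.lf 0 62546 0)))) (P.cons (P.cons (P.lf 42979837 0 0) (P.cons (P.lf 0 4294777 0) (P.cons (P.lf 0 553042 0) (P.lf 36869 0 0)))) (P.cons (P.cons (P.lf 0 6590807 0) (P.cons (P.lf 474089 0 0) (P.cons (P.lf 61049 0 0) (P.lf 0 4069 0)))) (P.cons (P.cons (P.lf 0 383069 0) (P.cons (P.lf 61448 0 0) (P.cons (P.lf 7912 0 0) P.nil))) (P.cons (P.cons (P.lf 81191 0 0) (P.cons (P.lf 0 2943 0) P.nil)) (P.cons (P.cons (P.lf 822 0 0) P.nil) P.nil)))))) 2272)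
 (EL.cons 8 (TM.mk (P.cons (P.cons (P.lf 0 202603339 0) (P.cons (P.lf 22399403 0 0) (P.cons (P.lf 2884395 0 0) (P.lf 0 192292 0)))) (P.cons (P.cons (P.lf 66470538 0 0) (P.cons (P.lf 0 5943902 0) (P.cons (P.lf 0 765403 0) (P.lf 51026 0 0)))) (P.cons (P.cons (P.lf 1861640 0 0) (P.cons (P.lf 0 533128 0) (P.cons (P.lf 0 68651 0) (P.lf 4576 0 0)))) (P.cons (P.cons (P.lf 0 830153 0) (P.cons (P.lf 40382 0 0) (P.cons (P.lf 5200 0 0) P.nil))) (P.cons (P.cons (P.lf 0 2394 0) (P.cons (P.lf 3540 0 0) P.nil)) (P.cons (P.cons (P.lf 4359 0 0) P.nil) P.nil)))))) 1635)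
 EL.nil))
noncomputable def S227_241_290_364_17 : EL := (EL.cons 4 (TM.mk (P.cons (P.cons (P.lf 0 37187924 0) (P.cons (P.lf 8222838 0 0) (P.cons (P.lf 604313 0 0) (P.cons (P.lf 0 187656 0) (P.cons (P.lf 266 0 0) (P.cons (P.lf 1004 0 0) P.nil)))))) (P.cons (P.cons (P.lf 25275323 0 0) (P.cons (P.lf 0 5073018 0) (P.cons (P.lf 0 401337 0) (P.cons (P.lf 108430 0 0) (P.cons (P.lf 0 147 0) P.nil))))) (P.cons (P.cons (P.lf 0 4042216 0) (P.cons (P.lf 592311 0 0) (P.cons (P.lf 58407 0 0) (P.cons (P.lf 0 9685 0) P.nil)))) (P.cons (P.cons (P.lf 0 349582 0) (P.cons (P.lf 101983 0 0) (P.cons (P.lf 7005 0 0) P.nil))) (P.cons (P.cons (P.lf 92543 0 0) (P.cons (P.lf 0 11432 0) P.nil)) (P.cons (P.cons (P.lf 818 0 0) P.nil) P.nil)))))) 8295)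
 (EL.cons 8 (TM.mk (P.cons (P.cons (P.lf 0 114329977 0) (P.cons (P.lf 25280168 0 0) (P.cons (P.lf 1857893 0 0) (P.cons (P.lf 0 576928 0) (P.cons (P.lf 820 0 0) (P.cons (P.lf 3089 0 0) P.nil)))))) (P.cons (P.cons (P.lf 40650440 0 0) (P.cons (P.lf 0 7402825 0) (P.cons (P.lf 0 631701 0) (P.cons (P.lf 146368 0 0) (P.cons (P.lf 0 188 0) P.nil))))) (P.cons (P.cons (P.lf 1075496 0 0) (P.cons (P.lf 0 650772 0) (P.cons (P.lf 0 30495 0) (P.cons (P.lf 19314 0 0) P.nil)))) (P.cons (P.cons (P.lf 0 879536 0) (P.cons (P.lf 131982 0 0) (P.cons (P.lf 14063 0 0) P.nil))) (P.cons (P.cons (P.lf 10013 0 0) (P.cons (P.lf 6985 0 0) P.nil)) (P.cons (P.cons (P.lf 8404 0 0) P.nil) P.nil)))))) 9391)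
 EL.nil))
noncomputable def S227_241_290_364_18 : EL := (EL.cons 4 (TM.mk (P.cons (P.lf 19888259 0 0) (P.cons (P.lf 0 18636945 0) (P.cons (P.lf 5657716 0 0) (P.cons (P.lf 0 487535 0) (P.cons (P.lf 0 25466 0) (P.cons (P.lf 1193 0 0) P.nil)))))) 87)
 (EL.cons 8 (TM.mk (P.cons (P.lf 61144157 0 0) (P.cons (P.lf 0 37479629 0) (P.cons (P.lf 5071246 0 0) (P.cons (P.lf 271888 0 0) (P.cons (P.lf 0 17078 0) (P.cons (P.lf 0 814 0) P.nil)))))) 70)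
 EL.nil))
noncomputable def S227_241_290_364_19 : EL := (EL.cons 4 (TM.mk (P.cons (P.cons (P.lf 11223033 0 0) (P.cons (P.lf 0 1240794 0) (P.cons (P.lf 0 159778 0) (P.lf 10651 0 0)))) (P.cons (P.cons (P.lf 0 10825225 0) (P.cons (P.lf 1118988 0 0) (P.cons (P.lf 144092 0 0) (P.lf 0 9605 0)))) (P.cons (P.cons (P.lf 3377986 0 0) (P.cons (P.lf 0 305798 0) (P.cons (P.lf 0 39377 0) (P.lf 2625 0 0)))) (P.cons (P.cons (P.lf 0 262211 0) (P.cons (P.lf 12407 0 0) (P.cons (P.lf 1597 0 0) P.nil))) (P.cons (P.cons (P.lf 0 39239 0) (P.cons (P.lf 4185 0 0) P.nil)) (P.cons (P.cons (P.lf 4273 0 0) P.nil) P.nil)))))) 1962)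
 (EL.cons 8 (TM.mk (P.cons (P.cons (P.lf 34503923 0 0) (P.cons (P.lf 0 3814681 0) (P.cons (P.lf 0 491220 0) (P.lf 32747 0 0)))) (P.cons (P.cons (P.lf 0 22097798 0) (P.cons (P.lf 2203820 0 0) (P.cons (P.lf 283788 0 0) (P.lf 0 18918 0)))) (P.cons (P.cons (P.lf 3124232 0 0) (P.cons (P.lf 0 214929 0) (P.cons (P.lf 0 27676 0) (P.lf 1844 0 0)))) (P.cons (P.cons (P.lf 280903 0 0) (P.cons (P.lf 0 39057 0) (P.cons (P.lf 0 5029 0) P.nil))) (P.cons (P.cons (P.lf 0 45833 0) (P.cons (P.lf 1556 0 0) P.nil)) (P.cons (P.cons (P.lf 0 1398 0) P.nil) P.nil)))))) 1586)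
 EL.nil))
noncomputable def S227_241_290_364_20 : EL := (EL.cons 4 (TM.mk (P.cons (P.cons (P.lf 6333208 0 0) (P.cons (P.lf 0 1400371 0) (P.cons (P.lf 0 102915 0) (P.cons (P.lf 31958 0 0) (P.cons (P.lf 0 45 0) (P.cons (P.lf 0 170 0) P.nil)))))) (P.cons (P.cons (P.lf 0 6282705 0) (P.cons (P.lf 1301370 0 0) (P.cons (P.lf 100495 0 0) (P.cons (P.lf 0 28448 0) (P.cons (P.lf 39 0 0) P.nil))))) (P.cons (P.cons (P.lf 2015565 0 0) (P.cons (P.lf 0 366893 0) (P.cons (P.lf 0 31013 0) (P.cons (P.lf 7329 0 0) P.nil)))) (P.cons (P.cons (P.lf 0 141950 0) (P.cons (P.lf 11385 0 0) (P.cons (P.lf 1697 0 0) P.nil))) (P.cons (P.cons (P.lf 0 37395 0) (P.cons (P.lf 7878 0 0) P.nil)) (P.cons (P.cons (P.lf 4788 0 0) P.nil) P.nil)))))) 4807)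
 (EL.cons 8 (TM.mk (P.cons (P.cons (P.lf 19470719 0 0) (P.cons (P.lf 0 4305284 0) (P.cons (P.lf 0 316404 0) (P.cons (P.lf 98252 0 0) (P.cons (P.lf 0 139 0) (P.cons (P.lf 0 525 0) P.nil)))))) (P.cons (P.cons (P.lf 0 13004776 0) (P.cons (P.lf 2605524 0 0) (P.cons (P.lf 206412 0 0) (P.cons (P.lf 0 55617 0) (P.cons (P.lf 75 0 0) P.nil))))) (P.cons (P.cons (P.lf 1925845 0 0) (P.cons (P.lf 0 271156 0) (P.cons (P.lf 0 27541 0) (P.cons (P.lf 4226 0 0) P.nil)))) (P.cons (P.cons (P.lf 231318 0 0) (P.cons (P.lf 0 61731 0) (P.cons (P.lf 0 4398 0) P.nil))) (P.cons (P.cons (P.lf 0 49801 0) (P.cons (P.lf 5853 0 0) P.nil)) (P.cons (P.cons (P.lf 0 1392 0) P.nil) P.nil)))))) 4999)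
 EL.nil))
noncomputable def S227_241_290_364_21 : EL := (EL.cons 4 (TM.mk (P.cons (P.cons (P.lf 904692672 0 0) (P.cons (P.lf 128344611 0 0) (P.cons (P.lf 16527072 0 0) (P.lf 0 1101801 0)))) (P.cons (P.cons (P.lf 613373361 0 0) (P.cons (P.lf 0 35565588 0) (P.cons (P.lf 0 4579821 0) (P.lf 305319 0 0)))) (P.cons (P.cons (P.lf 0 28319436 0) (P.cons (P.lf 0 2405679 0) (P.cons (P.lf 0 309780 0) (P.lf 20649 0 0)))) (P.cons (P.cons (P.lf 0 4909365 0) (P.cons (P.lf 198339 0 0) (P.cons (P.lf 25539 0 0) P.nil))) (P.cons (P.cons (P.lf 106248 0 0) (P.cons (P.lf 12666 0 0) P.nil)) (P.cons (P.cons (P.lf 18048 0 0) P.nil) P.nil)))))) 6465)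
 (EL.cons 8 (TM.mk (P.cons (P.cons (P.lf 0 104628573 0) (P.cons (P.lf 0 14843181 0) (P.cons (P.lf 0 1911378 0) (P.lf 127431 0 0)))) (P.cons (P.cons (P.lf 0 37025931 0) (P.cons (P.lf 8924031 0 0) (P.cons (P.lf 1149150 0 0) (P.lf 0 76608 0)))) (P.cons (P.cons (P.lf 25966938 0 0) (P.cons (P.lf 0 1097436 0) (P.cons (P.lf 0 141315 0) (P.lf 9414 0 0)))) (P.cons (P.cons (P.lf 0 663219 0) (P.cons (P.lf 0 96534 0) (P.cons (P.lf 0 12426 0) P.nil))) (P.cons (P.cons (P.lf 0 164502 0) (P.cons (P.lf 5364 0 0) P.nil)) (P.cons (P.cons (P.lf 2163 0 0) P.nil) P.nil)))))) 5757)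
 (EL.cons 11 (TM.mk (P.cons (P.cons (P.lf 1765233411 0 0) (P.cons (P.lf 503934246 0 0) (P.cons (P.lf 0 37693470 0) (P.cons (P.lf 0 2539989 0) (P.lf 126999 0 0))))) (P.cons (P.cons (P.lf 41483931 0 0) (P.cons (P.lf 11842725 0 0) (P.cons (P.lf 0 885816 0) (P.cons (P.lf 0 59691 0) (P.lf 2982 0 0))))) (P.cons (P.cons (P.lf 0 6114516 0) (P.cons (P.lf 0 1745556 0) (P.cons (P.lf 130563 0 0) (P.cons (P.lf 8796 0 0) P.nil)))) (P.cons (P.cons (P.lf 0 150135 0) (P.cons (P.lf 0 42858 0) (P.cons (P.lf 3204 0 0) P.nil))) (P.cons (P.cons (P.lf 10284 0 0) (P.cons (P.lf 2934 0 0) P.nil)) (P.cons (P.cons (P.lf 300 0 0) P.nil) P.nil)))))) 1248)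
 EL.nil)))
noncomputable def S227_241_290_364_22 : EL := (EL.cons 4 (TM.mk (P.cons (P.cons (P.lf 510522150 0 0) (P.cons (P.lf 15983175 0 0) (P.cons (P.lf 0 5949036 0) (P.cons (P.lf 0 2199402 0) (P.cons (P.lf 4701 0 0) (P.cons (P.lf 17703 0 0) P.nil)))))) (P.cons (P.cons (P.lf 332104542 0 0) (P.cons (P.lf 0 62316432 0) (P.cons (P.lf 0 6087936 0) (P.cons (P.lf 1033728 0 0) (P.cons (P.lf 0 1137 0) P.nil))))) (P.cons (P.cons (P.lf 0 30202242 0) (P.cons (P.lf 0 775344 0) (P.cons (P.lf 168405 0 0) (P.cons (P.lf 75738 0 0) P.nil)))) (P.cons (P.cons (P.lf 0 5366013 0) (P.cons (P.lf 927426 0 0) (P.cons (P.lf 102786 0 0) P.nil))) (P.cons (P.cons (P.lf 408528 0 0) (P.cons (P.lf 14493 0 0) P.nil)) (P.cons (P.cons (P.lf 39678 0 0) P.nil) P.nil)))))) 57507)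
 (EL.cons 8 (TM.mk (P.cons (P.cons (P.lf 0 59042373 0) (P.cons (P.lf 0 1848471 0) (P.cons (P.lf 688008 0 0) (P.cons (P.lf 254367 0 0) (P.cons (P.lf 0 543 0) (P.cons (P.lf 0 2046 0) P.nil)))))) (P.cons (P.cons (P.lf 0 19271916 0) (P.cons (P.lf 7806063 0 0) (P.cons (P.lf 481077 0 0) (P.cons (P.lf 0 201990 0) (P.cons (P.lf 306 0 0) P.nil))))) (P.cons (P.cons (P.lf 15772281 0 0) (P.cons (P.lf 0 2251476 0) (P.cons (P.lf 0 245700 0) (P.cons (P.lf 30711 0 0) P.nil)))) (P.cons (P.cons (P.lf 0 602496 0) (P.cons (P.lf 0 115074 0) (P.cons (P.lf 0 3777 0) P.nil))) (P.cons (P.cons (P.lf 0 226245 0) (P.cons (P.lf 31002 0 0) P.nil)) (P.cons (P.cons (P.lf 11211 0 0) P.nil) P.nil)))))) 22773)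
 (EL.cons 11 (TM.mk (P.cons (P.cons (P.lf 996129165 0 0) (P.cons (P.lf 174242397 0 0) (P.cons (P.lf 0 66891768 0) (P.cons (P.lf 0 2184771 0) (P.cons (P.lf 802854 0 0) (P.cons (P.lf 0 7704 0) P.nil)))))) (P.cons (P.cons (P.lf 0 3955590 0) (P.cons (P.lf 0 7599513 0) (P.cons (P.lf 0 2595837 0) (P.cons (P.lf 0 38454 0) (P.cons (P.lf 42672 0 0) P.nil))))) (P.cons (P.cons (P.lf 0 13289076 0) (P.cons (P.lf 0 2954085 0) (P.cons (P.lf 631584 0 0) (P.cons (P.lf 24849 0 0) P.nil)))) (P.cons (P.cons (P.lf 107247 0 0) (P.cons (P.lf 87204 0 0) (P.cons (P.lf 21147 0 0) P.nil))) (P.cons (P.cons (P.lf 78735 0 0) (P.cons (P.lf 19419 0 0) P.nil)) (P.cons (P.cons (P.lf 0 168 0) P.nil) P.nil)))))) 25398)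
 EL.nil)))
noncomputable def S227_241_290_364_23 : EL := (EL.cons 4 (TM.mk (P.cons (P.cons (P.lf 0 154071726 0) (P.cons (P.lf 0 21857451 0) (P.cons (P.lf 0 2814606 0) (P.lf 187638 0 0)))) (P.cons (P.cons (P.lf 0 56333235 0) (P.cons (P.lf 12884334 0 0) (P.cons (P.lf 1659129 0 0) (P.lf 0 110607 0)))) (P.cons (P.cons (P.lf 37874673 0 0) (P.cons (P.lf 0 1422267 0) (P.cons (P.lf 0 183147 0) (P.lf 12210 0 0)))) (P.cons (P.cons (P.lf 0 425841 0) (P.cons (P.lf 0 184344 0) (P.cons (P.lf 0 23736 0) P.nil))) (P.cons (P.cons (P.lf 0 321669 0) (P.cons (P.lf 8832 0 0) P.nil)) (P.cons (P.cons (P.lf 1203 0 0) P.nil) P.nil)))))) 6825)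
 (EL.cons 8 (TM.mk (P.cons (P.cons (P.lf 17818542 0 0) (P.cons (P.lf 2527833 0 0) (P.cons (P.lf 325512 0 0) (P.lf 0 21699 0)))) (P.cons (P.cons (P.lf 739803 0 0) (P.cons (P.lf 0 2309382 0) (P.cons (P.lf 0 297381 0) (P.lf 19824 0 0)))) (P.cons (P.cons (P.lf 0 6440769 0) (P.cons (P.lf 654681 0 0) (P.cons (P.lf 84303 0 0) (P.lf 0 5616 0)))) (P.cons (P.cons (P.lf 1481847 0 0) (P.cons (P.lf 0 37077 0) (P.cons (P.lf 0 4773 0) P.nil))) (P.cons (P.cons (P.lf 6666 0 0) (P.cons (P.lf 0 6966 0) P.nil)) (P.cons (P.cons (P.lf 0 10614 0) P.nil) P.nil)))))) 3345)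
 (EL.cons 11 (TM.mk (P.cons (P.cons (P.lf 0 300624258 0) (P.cons (P.lf 0 85821429 0) (P.cons (P.lf 6419304 0 0) (P.cons (P.lf 432567 0 0) (P.lf 0 21627 0))))) (P.cons (P.cons (P.lf 86838438 0 0) (P.cons (P.lf 24790410 0 0) (P.cons (P.lf 0 1854282 0) (P.cons (P.lf 0 124950 0) (P.lf 6246 0 0))))) (P.cons (P.cons (P.lf 4073091 0 0) (P.cons (P.lf 1162773 0 0) (P.cons (P.lf 0 86973 0) (P.cons (P.lf 0 5859 0) P.nil)))) (P.cons (P.cons (P.lf 0 362466 0) (P.cons (P.lf 0 103476 0) (P.cons (P.lf 7740 0 0) P.nil))) (P.cons (P.cons (P.lf 0 15765 0) (P.cons (P.lf 0 4500 0) P.nil)) (P.cons (P.cons (P.lf 747 0 0) P.nil) P.nil)))))) 1845)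
 EL.nil)))
noncomputable def S227_241_290_364_24 : EL := (EL.cons 4 (TM.mk (P.cons (P.cons (P.lf 0 86943369 0) (P.cons (P.lf 0 2721978 0) (P.cons (P.lf 1013136 0 0) (P.cons (P.lf 374562 0 0) (P.cons (P.lf 0 801 0) (P.cons (P.lf 0 3012 0) P.nil)))))) (P.cons (P.cons (P.lf 0 29400633 0) (P.cons (P.lf 11462904 0 0) (P.cons (P.lf 720327 0 0) (P.cons (P.lf 0 293046 0) (P.cons (P.lf 441 0 0) P.nil))))) (P.cons (P.cons (P.lf 23048739 0 0) (P.cons (P.lf 0 3175467 0) (P.cons (P.lf 0 355314 0) (P.cons (P.lf 41061 0 0) P.nil)))) (P.cons (P.cons (P.lf 0 561336 0) (P.cons (P.lf 0 229056 0) (P.cons (P.lf 0 11112 0) P.nil))) (P.cons (P.cons (P.lf 0 384954 0) (P.cons (P.lf 49392 0 0) P.nil)) (P.cons (P.cons (P.lf 13656 0 0) P.nil) P.nil)))))) 35955)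
 (EL.cons 8 (TM.mk (P.cons (P.cons (P.lf 10055082 0 0) (P.cons (P.lf 314799 0 0) (P.cons (P.lf 0 117168 0) (P.cons (P.lf 0 43317 0) (P.cons (P.lf 90 0 0) (P.cons (P.lf 348 0 0) P.nil)))))) (P.cons (P.cons (P.lf 141246 0 0) (P.cons (P.lf 0 1427724 0) (P.cons (P.lf 0 45327 0) (P.cons (P.lf 47931 0 0) (P.cons (P.lf 0 81 0) P.nil))))) (P.cons (P.cons (P.lf 0 3738846 0) (P.cons (P.lf 797820 0 0) (P.cons (P.lf 67755 0 0) (P.cons (P.lf 0 15855 0) P.nil)))) (P.cons (P.cons (P.lf 935367 0 0) (P.cons (P.lf 0 96435 0) (P.cons (P.lf 0 12234 0) P.nil))) (P.cons (P.cons (P.lf 14787 0 0) (P.cons (P.lf 0 12813 0) P.nil)) (P.cons (P.cons (P.lf 0 14949 0) P.nil) P.nil)))))) 11676)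
 (EL.cons 11 (TM.mk (P.cons (P.cons (P.lf 0 169643622 0) (P.cons (P.lf 0 29673972 0) (P.cons (P.lf 11391855 0 0) (P.cons (P.lf 372072 0 0) (P.cons (P.lf 0 136728 0) (P.cons (P.lf 1311 0 0) P.nil)))))) (P.cons (P.cons (P.lf 53663685 0 0) (P.cons (P.lf 10563207 0 0) (P.cons (P.lf 0 3116292 0) (P.cons (P.lf 0 109671 0) (P.cons (P.lf 35439 0 0) P.nil))))) (P.cons (P.cons (P.lf 2518293 0 0) (P.cons (P.lf 180258 0 0) (P.cons (P.lf 0 276909 0) (P.cons (P.lf 0 7299 0) P.nil)))) (P.cons (P.cons (P.lf 0 773397 0) (P.cons (P.lf 0 183657 0) (P.cons (P.lf 31893 0 0) P.nil))) (P.cons (P.cons (P.lf 0 14430 0) (P.cons (P.lf 180 0 0) P.nil)) (P.cons (P.cons (P.lf 4926 0 0) P.nil) P.nil)))))) 17994)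
 EL.nil)))
noncomputable def S227_241_290_364_25 : EL := (EL.cons 4 (TM.mk (P.cons (P.cons (P.lf 26238852 0 0) (P.cons (P.lf 3722385 0 0) (P.cons (P.lf 479334 0 0) (P.lf 0 31953 0)))) (P.cons (P.cons (P.lf 1397718 0 0) (P.cons (P.lf 0 3356964 0) (P.cons (P.lf 0 432279 0) (P.lf 28818 0 0)))) (P.cons (P.cons (P.lf 0 9518871 0) (P.cons (P.lf 917394 0 0) (P.cons (P.lf 118134 0 0) (P.lf 0 7875 0)))) (P.cons (P.cons (P.lf 2068143 0 0) (P.cons (P.lf 0 37224 0) (P.cons (P.lf 0 4791 0) P.nil))) (P.cons (P.cons (P.lf 52557 0 0) (P.cons (P.lf 0 12558 0) P.nil)) (P.cons (P.cons (P.lf 0 19242 0) P.nil) P.nil)))))) 5907)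
 (EL.cons 8 (TM.mk (P.cons (P.cons (P.lf 0 3034548 0) (P.cons (P.lf 0 430497 0) (P.cons (P.lf 0 55434 0) (P.lf 3693 0 0)))) (P.cons (P.cons (P.lf 821883 0 0) (P.cons (P.lf 527763 0 0) (P.cons (P.lf 67959 0 0) (P.lf 0 4530 0)))) (P.cons (P.cons (P.lf 1144563 0 0) (P.cons (P.lf 0 233160 0) (P.cons (P.lf 0 30024 0) (P.lf 2001 0 0)))) (P.cons (P.cons (P.lf 0 595467 0) (P.cons (P.lf 39942 0 0) (P.cons (P.lf 5142 0 0) P.nil))) (P.cons (P.cons (P.lf 74634 0 0) (P.cons (P.lf 0 372 0) P.nil)) (P.cons (P.cons (P.lf 3153 0 0) P.nil) P.nil)))))) 2661)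
 (EL.cons 11 (TM.mk (P.cons (P.cons (P.lf 51197163 0 0) (P.cons (P.lf 14615631 0 0) (P.cons (P.lf 0 1093224 0) (P.cons (P.lf 0 73665 0) (P.lf 3681 0 0))))) (P.cons (P.cons (P.lf 0 30780825 0) (P.cons (P.lf 0 8787228 0) (P.cons (P.lf 657270 0 0) (P.cons (P.lf 44289 0 0) (P.lf 0 2214 0))))) (P.cons (P.cons (P.lf 3785295 0 0) (P.cons (P.lf 1080615 0 0) (P.cons (P.lf 0 80826 0) (P.cons (P.lf 0 5445 0) P.nil)))) (P.cons (P.cons (P.lf 332976 0 0) (P.cons (P.lf 95055 0 0) (P.cons (P.lf 0 7110 0) P.nil))) (P.cons (P.cons (P.lf 0 18522 0) (P.cons (P.lf 0 5286 0) P.nil)) (P.cons (P.cons (P.lf 0 1395 0) P.nil) P.nil)))))) 2250)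
 EL.nil)))
noncomputable def S227_241_290_364_26 : EL := (EL.cons 4 (TM.mk (P.cons (P.cons (P.lf 14806701 0 0) (P.cons (P.lf 463560 0 0) (P.cons (P.lf 0 172539 0) (P.cons (P.lf 0 63789 0) (P.cons (P.lf 135 0 0) (P.cons (P.lf 513 0 0) P.nil)))))) (P.cons (P.cons (P.lf 381975 0 0) (P.cons (P.lf 0 2096961 0) (P.cons (P.lf 0 68778 0) (P.cons (P.lf 69831 0 0) (P.cons (P.lf 0 117 0) P.nil))))) (P.cons (P.cons (P.lf 0 5529894 0) (P.cons (P.lf 1149297 0 0) (P.cons (P.lf 99300 0 0) (P.cons (P.lf 0 22407 0) P.nil)))) (P.cons (P.cons (P.lf 1312002 0 0) (P.cons (P.lf 0 124428 0) (P.cons (P.lf 0 16716 0) P.nil))) (P.cons (P.cons (P.lf 47898 0 0) (P.cons (P.lf 0 22611 0) P.nil)) (P.cons (P.cons (P.lf 0 24120 0) P.nil) P.nil)))))) 19161)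
 (EL.cons 8 (TM.mk (P.cons (P.cons (P.lf 0 1712409 0) (P.cons (P.lf 0 53610 0) (P.cons (P.lf 19953 0 0) (P.cons (P.lf 7377 0 0) (P.cons (P.lf 0 15 0) (P.cons (P.lf 0 57 0) P.nil)))))) (P.cons (P.cons (P.lf 510834 0 0) (P.cons (P.lf 259890 0 0) (P.cons (P.lf 1485 0 0) (P.cons (P.lf 0 10467 0) (P.cons (P.lf 18 0 0) P.nil))))) (P.cons (P.cons (P.lf 648948 0 0) (P.cons (P.lf 0 211671 0) (P.cons (P.lf 0 14004 0) (P.cons (P.lf 5229 0 0) P.nil)))) (P.cons (P.cons (P.lf 0 358587 0) (P.cons (P.lf 58182 0 0) (P.cons (P.lf 5670 0 0) P.nil))) (P.cons (P.cons (P.lf 45477 0 0) (P.cons (P.lf 0 2508 0) P.nil)) (P.cons (P.cons (P.lf 3942 0 0) P.nil) P.nil)))))) 6288)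
 (EL.cons 11 (TM.mk (P.cons (P.cons (P.lf 28890789 0 0) (P.cons (P.lf 5053560 0 0) (P.cons (P.lf 0 1940064 0) (P.cons (P.lf 0 63363 0) (P.cons (P.lf 23283 0 0) (P.cons (P.lf 0 222 0) P.nil)))))) (P.cons (P.cons (P.lf 0 18163431 0) (P.cons (P.lf 0 3377478 0) (P.cons (P.lf 1136712 0 0) (P.cons (P.lf 38469 0 0) (P.cons (P.lf 0 13308 0) P.nil))))) (P.cons (P.cons (P.lf 2346531 0 0) (P.cons (P.lf 517350 0 0) (P.cons (P.lf 0 113289 0) (P.cons (P.lf 0 4416 0) P.nil)))) (P.cons (P.cons (P.lf 298650 0 0) (P.cons (P.lf 47184 0 0) (P.cons (P.lf 0 22146 0) P.nil))) (P.cons (P.cons (P.lf 0 39885 0) (P.cons (P.lf 0 10185 0) P.nil)) (P.cons (P.cons (P.lf 0 2127 0) P.nil) P.nil)))))) 10929)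
 EL.nil)))
noncomputable def S227_241_290_364_27 : EL := (EL.cons 13 (TM.mk (P.lf 0 4294967296 0) 0)
 EL.nil)
noncomputable def S227_241_290_364_28 : EL := (EL.cons 13 (TM.mk (P.cons (P.cons (P.lf 0 2423669394 0) (P.cons (P.lf 267955844 0 0) (P.cons (P.lf 34504968 0 0) (P.lf 0 2300328 0)))) (P.cons (P.cons (P.lf 66581830 0 0) (P.cons (P.lf 9445656 0 0) (P.cons (P.lf 1216324 0 0) (P.lf 0 81088 0)))) (P.cons (P.cons (P.lf 22373534 0 0) (P.cons (P.lf 0 1336744 0) (P.cons (P.lf 0 172132 0) (P.lf 11472 0 0)))) (P.cons (P.cons (P.lf 0 762239 0) (P.cons (P.lf 0 50760 0) (P.cons (P.lf 0 6532 0) P.nil))) (P.cons (P.cons (P.lf 0 76375 0) (P.cons (P.lf 3240 0 0) P.nil)) (P.cons (P.cons (P.lf 1491 0 0) P.nil) P.nil)))))) 1774)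
 EL.nil)
noncomputable def S227_241_290_364_29 : EL := (EL.cons 13 (TM.mk (P.cons (P.cons (P.lf 0 1367687557 0) (P.cons (P.lf 302417379 0 0) (P.cons (P.lf 22225299 0 0) (P.cons (P.lf 0 6901585 0) (P.cons (P.lf 9820 0 0) (P.cons (P.lf 36960 0 0) P.nil)))))) (P.cons (P.cons (P.lf 75144853 0 0) (P.cons (P.lf 2352593 0 0) (P.cons (P.lf 0 875655 0) (P.cons (P.lf 0 323734 0) (P.cons (P.lf 692 0 0) P.nil))))) (P.cons (P.cons (P.lf 24218801 0 0) (P.cons (P.lf 0 4593214 0) (P.cons (P.lf 0 445449 0) (P.cons (P.lf 77033 0 0) P.nil)))) (P.cons (P.cons (P.lf 0 1553951 0) (P.cons (P.lf 0 19142 0) (P.cons (P.lf 9753 0 0) P.nil))) (P.cons (P.cons (P.lf 0 179113 0) (P.cons (P.lf 32039 0 0) P.nil)) (P.cons (P.cons (P.lf 11992 0 0) P.nil) P.nil)))))) 26785)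
 EL.nil)
noncomputable def S227_241_290_364_30 : EL := (EL.cons 13 (TM.mk (P.cons (P.lf 731445116 0 0) (P.cons (P.lf 0 228474868 0) (P.cons (P.lf 0 2007284 0) (P.cons (P.lf 199892 0 0) (P.cons (P.lf 3020 0 0) (P.cons (P.lf 0 164 0) P.nil)))))) 40)
 EL.nil)
noncomputable def S227_241_290_364_31 : EL := (EL.cons 13 (TM.mk (P.cons (P.cons (P.lf 412757774 0 0) (P.cons (P.lf 0 45633640 0) (P.cons (P.lf 0 5876293 0) (P.lf 391752 0 0)))) (P.cons (P.cons (P.lf 0 140268471 0) (P.cons (P.lf 12645543 0 0) (P.cons (P.lf 1628381 0 0) (P.lf 0 108558 0)))) (P.cons (P.cons (P.lf 0 1401111 0) (P.cons (P.lf 855353 0 0) (P.cons (P.lf 110144 0 0) (P.lf 0 7342 0)))) (P.cons (P.cons (P.lf 1463910 0 0) (P.cons (P.lf 0 70521 0) (P.cons (P.lf 0 9081 0) P.nil))) (P.cons (P.cons (P.lf 0 18479 0) (P.cons (P.lf 0 4504 0) P.nil)) (P.cons (P.cons (P.lf 0 5853 0) P.nil) P.nil)))))) 2187)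
 EL.nil)
noncomputable def S227_241_290_364_32 : EL := (EL.cons 13 (TM.mk (P.cons (P.cons (P.lf 232921071 0 0) (P.cons (P.lf 0 51502537 0) (P.cons (P.lf 0 3785031 0) (P.cons (P.lf 1175359 0 0) (P.cons (P.lf 0 1672 0) (P.cons (P.lf 0 6294 0) P.nil)))))) (P.cons (P.cons (P.lf 0 85552821 0) (P.cons (P.lf 15686726 0 0) (P.cons (P.lf 1331422 0 0) (P.cons (P.lf 0 312003 0) (P.cons (P.lf 404 0 0) P.nil))))) (P.cons (P.cons (P.lf 0 766327 0) (P.cons (P.lf 1048722 0 0) (P.cons (P.lf 39667 0 0) (P.cons (P.lf 0 33565 0) P.nil)))) (P.cons (P.cons (P.lf 1651757 0 0) (P.cons (P.lf 0 254055 0) (P.cons (P.lf 0 26800 0) P.nil))) (P.cons (P.cons (P.lf 0 43377 0) (P.cons (P.lf 0 8943 0) P.nil)) (P.cons (P.cons (P.lf 0 13528 0) P.nil) P.nil)))))) 16299)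
 EL.nil)
noncomputable def S227_241_290_364_33 : EL := (EL.cons 14 (TM.mk (P.lf 8589934592 0 0) 0)
 EL.nil)
noncomputable def S227_241_290_364_34 : EL := (EL.cons 14 (TM.mk (P.cons (P.cons (P.lf 4847338788 0 0) (P.cons (P.lf 0 535911688 0) (P.cons (P.lf 0 69009936 0) (P.lf 4600656 0 0)))) (P.cons (P.cons (P.lf 0 133163660 0) (P.cons (P.lf 0 18891312 0) (P.cons (P.lf 0 2432648 0) (P.lf 162176 0 0)))) (P.cons (P.cons (P.lf 0 44747068 0) (P.cons (P.lf 2673488 0 0) (P.cons (P.lf 344264 0 0) (P.lf 0 22944 0)))) (P.cons (P.cons (P.lf 1524478 0 0) (P.cons (P.lf 101520 0 0) (P.cons (P.lf 13064 0 0) P.nil))) (P.cons (P.cons (P.lf 152750 0 0) (P.cons (P.lf 0 6480 0) P.nil)) (P.cons (P.cons (P.lf 0 2982 0) P.nil) P.nil)))))) 3548)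
 EL.nil)
noncomputable def S227_241_290_364_35 : EL := (EL.cons 14 (TM.mk (P.cons (P.cons (P.lf 2735375114 0 0) (P.cons (P.lf 0 604834758 0) (P.cons (P.lf 0 44450598 0) (P.cons (P.lf 13803170 0 0) (P.cons (P.lf 0 19640 0) (P.cons (P.lf 0 73920 0) P.nil)))))) (P.cons (P.cons (P.lf 0 150289706 0) (P.cons (P.lf 0 4705186 0) (P.cons (P.lf 1751310 0 0) (P.cons (P.lf 647468 0 0) (P.cons (P.lf 0 1384 0) P.nil))))) (P.cons (P.cons (P.lf 0 48437602 0) (P.cons (P.lf 9186428 0 0) (P.cons (P.lf 890898 0 0) (P.cons (P.lf 0 154066 0) P.nil)))) (P.cons (P.cons (P.lf 3107902 0 0) (P.cons (P.lf 38284 0 0) (P.cons (P.lf 0 19506 0) P.nil))) (P.cons (P.cons (P.lf 358226 0 0) (P.cons (P.lf 0 64078 0) P.nil)) (P.cons (P.cons (P.lf 0 23984 0) P.nil) P.nil)))))) 53570)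
 EL.nil)
noncomputable def S227_241_290_364_36 : EL := (EL.cons 14 (TM.mk (P.cons (P.lf 0 1462890232 0) (P.cons (P.lf 456949736 0 0) (P.cons (P.lf 4014568 0 0) (P.cons (P.lf 0 399784 0) (P.cons (P.lf 0 6040 0) (P.cons (P.lf 328 0 0) P.nil)))))) 80)
 EL.nil)
noncomputable def S227_241_290_364_37 : EL := (EL.cons 14 (TM.mk (P.cons (P.cons (P.lf 0 825515548 0) (P.cons (P.lf 91267280 0 0) (P.cons (P.lf 11752586 0 0) (P.lf 0 783504 0)))) (P.cons (P.cons (P.lf 280536942 0 0) (P.cons (P.lf 0 25291086 0) (P.cons (P.lf 0 3256762 0) (P.lf 217116 0 0)))) (P.cons (P.cons (P.lf 2802222 0 0) (P.cons (P.lf 0 1710706 0) (P.cons (P.lf 0 220288 0) (P.lf 14684 0 0)))) (P.cons (P.cons (P.lf 0 2927820 0) (P.cons (P.lf 141042 0 0) (P.cons (P.lf 18162 0 0) P.nil))) (P.cons (P.cons (P.lf 36958 0 0) (P.cons (P.lf 9008 0 0) P.nil)) (P.cons (P.cons (P.lf 11706 0 0) P.nil) P.nil))))))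 4374)
 EL.nil)
noncomputable def S227_241_290_364_38 : EL := (EL.cons 14 (TM.mk (P.cons (P.cons (P.lf 0 465842142 0) (P.cons (P.lf 103005074 0 0) (P.cons (P.lf 7570062 0 0) (P.cons (P.lf 0 2350718 0) (P.cons (P.lf 3344 0 0) (P.cons (P.lf 12588 0 0) P.nil)))))) (P.cons (P.cons (P.lf 171105642 0 0) (P.cons (P.lf 0 31373452 0) (P.cons (P.lf 0 2662844 0) (P.cons (P.lf 624006 0 0) (P.cons (P.lf 0 808 0) P.nil))))) (P.cons (P.cons (P.lf 1532654 0 0) (P.cons (P.lf 0 2097444 0) (P.cons (P.lf 0 79334 0) (P.cons (P.lf 67130 0 0) P.nil)))) (P.cons (P.cons (P.lf 0 3303514 0) (P.cons (P.lf 508110 0 0) (P.cons (P.lf 53600 0 0) P.nil))) (P.cons (P.cons (P.lf 86754 0 0) (P.cons (P.lf 17886 0 0) P.nil)) (P.cons (P.cons (P.lf 27056 0 0) P.nil) P.nil)))))) 32598)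
 EL.nil)
noncomputable def S227_241_290_364_39 : EL := (EL.cons 14 (TM.mk (P.cons (P.lf 249134356 0 0) (P.cons (P.lf 0 155639672 0) (P.cons (P.lf 22940490 0 0) (P.cons (P.lf 563286 0 0) (P.cons (P.lf 0 38600 0) (P.cons (P.lf 0 1128 0) P.nil)))))) 108)
 EL.nil)
noncomputable def S227_241_290_364_40 : EL := (EL.cons 14 (TM.mk (P.cons (P.cons (P.lf 140587638 0 0) (P.cons (P.lf 0 15543076 0) (P.cons (P.lf 0 2001498 0) (P.lf 133432 0 0)))) (P.cons (P.cons (P.lf 0 91690320 0) (P.cons (P.lf 9162192 0 0) (P.cons (P.lf 1179824 0 0) (P.lf 0 78654 0)))) (P.cons (P.cons (P.lf 14060390 0 0) (P.cons (P.lf 0 1011390 0) (P.cons (P.lf 0 130238 0) (P.lf 8682 0 0)))) (P.cons (P.cons (P.lf 817214 0 0) (P.cons (P.lf 0 131090 0) (P.cons (P.lf 0 16880 0) P.nil))) (P.cons (P.cons (P.lf 0 173208 0) (P.cons (P.lf 6280 0 0) P.nil)) (P.cons (P.cons (P.lf 0 1754 0) P.nil) P.nil))))))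 4808)
 EL.nil)
noncomputable def S227_241_290_364_41 : EL := (EL.cons 14 (TM.mk (P.cons (P.cons (P.lf 79334238 0 0) (P.cons (P.lf 0 17542056 0) (P.cons (P.lf 0 1289202 0) (P.cons (P.lf 400334 0 0) (P.cons (P.lf 0 568 0) (P.cons (P.lf 0 2142 0) P.nil)))))) (P.cons (P.cons (P.lf 0 53920690 0) (P.cons (P.lf 10822440 0 0) (P.cons (P.lf 856186 0 0) (P.cons (P.lf 0 231318 0) (P.cons (P.lf 314 0 0) P.nil))))) (P.cons (P.cons (P.lf 8623396 0 0) (P.cons (P.lf 0 1263598 0) (P.cons (P.lf 0 124602 0) (P.cons (P.lf 20662 0 0) P.nil)))) (P.cons (P.cons (P.lf 745776 0 0) (P.cons (P.lf 0 217564 0) (P.cons (P.lf 0 14944 0) P.nil))) (P.cons (P.cons (P.lf 0 197426 0) (P.cons (P.lf 24390 0 0) P.nil)) (P.cons (P.cons (P.lf 0 1746 0) P.nil) P.nil)))))) 17650)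
 EL.nil)
noncomputable def S227_241_290_364_42 : EL := (EL.cons 14 (TM.mk (P.cons (P.lf 0 42428286 0) (P.cons (P.lf 39758816 0 0) (P.cons (P.lf 0 12069796 0) (P.cons (P.lf 1040076 0 0) (P.cons (P.lf 54328 0 0) (P.cons (P.lf 0 2546 0) P.nil)))))) 172)
 EL.nil)
noncomputable def S227_241_290_364_43 : EL := (EL.cons 14 (TM.mk (P.cons (P.cons (P.lf 0 23942472 0) (P.cons (P.lf 2647028 0 0) (P.cons (P.lf 340860 0 0) (P.lf 0 22724 0)))) (P.cons (P.cons (P.lf 23093814 0 0) (P.cons (P.lf 0 2387176 0) (P.cons (P.lf 0 307398 0) (P.lf 20492 0 0)))) (P.cons (P.cons (P.lf 0 7206372 0) (P.cons (P.lf 652370 0 0) (P.cons (P.lf 84006 0 0) (P.lf 0 5600 0)))) (P.cons (P.cons (P.lf 559384 0 0) (P.cons (P.lf 0 26470 0) (P.cons (P.lf 0 3408 0) P.nil))) (P.cons (P.cons (P.lf 83710 0 0) (P.cons (P.lf 0 8930 0) P.nil)) (P.cons (P.cons (P.lf 0 9116 0) P.nil) P.nil)))))) 4146)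
 EL.nil)
noncomputable def S227_241_290_364_44 : EL := (EL.cons 14 (TM.mk (P.cons (P.cons (P.lf 0 13510844 0) (P.cons (P.lf 2987460 0 0) (P.cons (P.lf 219554 0 0) (P.cons (P.lf 0 68178 0) (P.cons (P.lf 96 0 0) (P.cons (P.lf 364 0 0) P.nil)))))) (P.cons (P.cons (P.lf 13403106 0 0) (P.cons (P.lf 0 2776258 0) (P.cons (P.lf 0 214390 0) (P.cons (P.lf 60690 0 0) (P.cons (P.lf 0 84 0) P.nil))))) (P.cons (P.cons (P.lf 0 4299872 0) (P.cons (P.lf 782706 0 0) (P.cons (P.lf 66162 0 0) (P.cons (P.lf 0 15636 0) P.nil)))) (P.cons (P.cons (P.lf 302828 0 0) (P.cons (P.lf 0 24290 0) (P.cons (P.lf 0 3622 0) P.nil))) (P.cons (P.cons (P.lf 79778 0 0) (P.cons (P.lf 0 16808 0) P.nil)) (P.cons (P.cons (P.lf 0 10216 0) P.nil) P.nil)))))) 10208)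
 EL.nil)
noncomputable def S227_241_290_364_45 : EL := (EL.cons 14 (TM.mk (P.cons (P.cons (P.lf 1543584498 0 0) (P.cons (P.lf 0 511966468 0) (P.cons (P.lf 0 9324534 0) (P.cons (P.lf 16886550 0 0) (P.cons (P.lf 0 839072 0) (P.cons (P.lf 0 175186 0) P.nil)))))) (P.cons (P.cons (P.lf 0 127213736 0) (P.cons (P.lf 10081748 0 0) (P.cons (P.lf 3733830 0 0) (P.cons (P.lf 320122 0 0) (P.cons (P.lf 0 86648 0) P.nil))))) (P.cons (P.cons (P.lf 0 39252958 0) (P.cons (P.lf 12611424 0 0) (P.cons (P.lf 497446 0 0) (P.cons (P.lf 0 374944 0) P.nil)))) (P.cons (P.cons (P.lf 3773046 0 0) (P.cons (P.lf 0 305456 0) (P.cons (P.lf 0 86148 0) P.nil))) (P.cons (P.cons (P.lf 428260 0 0) (P.cons (P.lf 0 144296 0) P.nil)) (P.cons (P.cons (P.lf 0 47494 0) P.nil) P.nil)))))) 153866)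
 EL.nil)
noncomputable def S227_241_290_364_46 : EL := (EL.cons 15 (TM.mk (P.lf 4294967296 0 0) 0)
 EL.nil)
noncomputable def S227_241_290_364_47 : EL := (EL.cons 15 (TM.mk (P.cons (P.cons (P.lf 2423669394 0 0) (P.cons (P.lf 0 267955844 0) (P.cons (P.lf 0 34504968 0) (P.lf 2300328 0 0)))) (P.cons (P.cons (P.lf 0 66581830 0) (P.cons (P.lf 0 9445656 0) (P.cons (P.lf 0 1216324 0) (P.lf 81088 0 0)))) (P.cons (P.cons (P.lf 0 22373534 0) (P.cons (P.lf 1336744 0 0) (P.cons (P.lf 172132 0 0) (P.lf 0 11472 0)))) (P.cons (P.cons (P.lf 762239 0 0) (P.cons (P.lf 50760 0 0) (P.cons (P.lf 6532 0 0) P.nil))) (P.cons (P.cons (P.lf 76375 0 0) (P.cons (P.lf 0 3240 0) P.nil)) (P.cons (P.cons (P.lf 0 1491 0) P.nil) P.nil)))))) 1774)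
 EL.nil)
noncomputable def S227_241_290_364_48 : EL := (EL.cons 15 (TM.mk (P.cons (P.cons (P.lf 1367687557 0 0) (P.cons (P.lf 0 302417379 0) (P.cons (P.lf 0 22225299 0) (P.cons (P.lf 6901585 0 0) (P.cons (P.lf 0 9820 0) (P.cons (P.lf 0 36960 0) P.nil)))))) (P.cons (P.cons (P.lf 0 75144853 0) (P.cons (P.lf 0 2352593 0) (P.cons (P.lf 875655 0 0) (P.cons (P.lf 323734 0 0) (P.cons (P.lf 0 692 0) P.nil))))) (P.cons (P.cons (P.lf 0 24218801 0) (P.cons (P.lf 4593214 0 0) (P.cons (P.lf 445449 0 0) (P.cons (P.lf 0 77033 0) P.nil)))) (P.cons (P.cons (P.lf 1553951 0 0) (P.cons (P.lf 19142 0 0) (P.cons (P.lf 0 9753 0) P.nil))) (P.cons (P.cons (P.lf 179113 0 0) (P.cons (P.lf 0 32039 0) P.nil)) (P.cons (P.cons (P.lf 0 11992 0) P.nil) P.nil)))))) 26785)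
 EL.nil)
noncomputable def S227_241_290_364 : SL := (SL.cons S227_241_290_364_0 (SL.cons S227_241_290_364_1 (SL.cons S227_241_290_364_2 (SL.cons S227_241_290_364_3 (SL.cons S227_241_290_364_4 (SL.cons S227_241_290_364_5 (SL.cons S227_241_290_364_6 (SL.cons S227_241_290_364_7 (SL.cons S227_241_290_364_8 (SL.cons S227_241_290_364_9 (SL.cons S227_241_290_364_10 (SL.cons S227_241_290_364_11 (SL.cons S227_241_290_364_12 (SL.cons S227_241_290_364_13 (SL.cons S227_241_290_364_14 (SL.cons S227_241_290_364_15 (SL.cons S227_241_290_364_16 (SL.cons S227_241_290_364_17 (SL.cons S227_241_290_364_18 (SL.cons S227_241_290_364_19 (SL.cons S227_241_290_364_20 (SL.cons S227_241_290_364_21 (SL.cons S227_241_290_364_22 (SL.cons S227_241_290_364_23 (SL.cons S227_241_290_364_24 (SL.cons S227_241_290_364_25 (SL.cons S227_241_290_364_26 (SL.cons S227_241_290_364_27 (SL.cons S227_241_290_364_28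 (SL.cons S227_241_290_364_29 (SL.cons S227_241_290_364_30 (SL.cons S227_241_290_364_31 (SL.cons S227_241_290_364_32 (SL.cons S227_241_290_364_33 (SL.cons S227_241_290_364_34 (SL.cons S227_241_290_364_35 (SL.cons S227_241_290_364_36 (SL.cons S227_241_290_364_37 (SL.cons S227_241_290_364_38 (SL.cons S227_241_290_364_39 (SL.cons S227_241_290_364_40 (SL.cons S227_241_290_364_41 (SL.cons S227_241_290_364_42 (SL.cons S227_241_290_364_43 (SL.cons S227_241_290_364_44 (SL.cons S227_241_290_364_45 (SL.cons S227_241_290_364_46 (SL.cons S227_241_290_364_47 (SL.cons S227_241_290_364_48 SL.nil)))))))))))))))))))))))))))))))))))))))))))))))))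
theorem S219_227_734_808_ok : band (seq (shp 5 219 227 734 808) S219_227_734_808) (sok S219_227_734_808) = true := by decide +kernel

theorem S227_230_660_808_ok : band (seq (shp 5 227 230 660 808) S227_230_660_808) (sok S227_230_660_808) = true := by decide +kernel

theorem S227_234_660_808_ok : band (seq (shp 5 227 234 660 808) S227_234_660_808) (sok S227_234_660_808) = true := by decide +kernel

theorem S227_241_216_290_ok : band (seq (shp 5 227 241 216 290) S227_241_216_290) (sok S227_241_216_290) = true := by decide +kernel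

theorem S227_241_216_364_ok : band (seq (shp 5 227 241 216 364) S227_241_216_364) (sok S227_241_216_364) = true := by decide +kernel

theorem S227_241_290_364_ok : band (seq (shp 5 227 241 290 364) S227_241_290_364) (sok S227_241_290_364) = true := by decide +kernel

end Vale.Agent.P098.Ck
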