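import Vale.Agent.P098.CkDefs

namespace Vale.Agent.P098.Ck

noncomputable def S241_256_216_290_0 : EL := (EL.cons 0 (TM.mk (P.cons (P.lf 8429852393 0 0) (P.cons (P.lf 51618062 0 0) (P.cons (P.lf 0 25587627 0) (P.cons (P.lf 0 220688 0) (P.cons (P.lf 54283 0 0) (P.cons (P.lf 527 0 0) P.nil)))))) 119)
 (EL.cons 1 (TM.mk (P.cons (P.lf 0 235171578 0) (P.cons (P.lf 233658247 0 0) (P.cons (P.lf 2264585 0 0) (P.cons (P.lf 0 745863 0) (P.cons (P.lf 0 6716 0) (P.cons (P.lf 1310 0 0) P.nil)))))) 72)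
 (EL.cons 5 (TM.mk (P.cons (P.lf 4304163554 0 0) (P.cons (P.lf 0 18353086 0) (P.cons (P.lf 9097822 0 0) (P.cons (P.lf 78466 0 0) (P.cons (P.lf 0 19296 0) (P.cons (P.lf 0 186 0) P.nil)))))) 147)
 (EL.cons 9 (TM.mk (P.lf 6442450944 0 0) 2)
 EL.nil))))
noncomputable def S241_256_216_290_1 : EL := (EL.cons 0 (TM.mk (P.cons (P.cons (P.lf 5309693961 0 0) (P.cons (P.lf 0 208985322 0) (P.cons (P.lf 0 98653864 0) (P.lf 4697801 0 0)))) (P.cons (P.cons (P.lf 0 422293659 0) (P.cons (P.lf 0 7856818 0) (P.cons (P.lf 0 3708901 0) (P.lf 176608 0 0)))) (P.cons (P.cons (P.lf 0 123869170 0) (P.cons (P.lf 3822421 0 0) (P.cons (P.lf 1804414 0 0) (P.lf 0 85918 0)))) (P.cons (P.cons (P.lf 9844292 0 0) (P.cons (P.lf 105111 0 0) (P.cons (P.lf 49614 0 0) P.nil))) (P.cons (P.cons (P.lf 952063 0 0) (P.cons (P.lf 0 25192 0) P.nil)) (P.cons (P.cons (P.lf 0 59052 0) P.nil) P.nil)))))) 22332)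
 (EL.cons 1 (TM.mk (P.cons (P.cons (P.lf 825130807 0 0) (P.cons (P.lf 14672849 0 0) (P.cons (P.lf 6926481 0 0) (P.lf 0 329827 0)))) (P.cons (P.cons (P.lf 427472947 0 0) (P.cons (P.lf 0 14313440 0) (P.cons (P.lf 0 6756818 0) (P.lf 321749 0 0)))) (P.cons (P.cons (P.lf 0 38987266 0) (P.cons (P.lf 0 535199 0) (P.cons (P.lf 0 252645 0) (P.lf 12024 0 0)))) (P.cons (P.cons (P.lf 0 6123087 0) (P.cons (P.lf 171907 0 0) (P.cons (P.lf 81147 0 0) P.nil))) (P.cons (P.cons (P.lf 431318 0 0) (P.cons (P.lf 4813 0 0) P.nil)) (P.cons (P.cons (P.lf 36992 0 0) P.nil) P.nil)))))) 11516)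
 (EL.cons 5 (TM.mk (P.cons (P.cons (P.lf 2525970692 0 0) (P.cons (P.lf 0 108386566 0) (P.cons (P.lf 0 51165090 0) (P.lf 2436436 0 0)))) (P.cons (P.cons (P.lf 0 108731138 0) (P.cons (P.lf 441438 0 0) (P.cons (P.lf 208384 0 0) (P.lf 0 9918 0)))) (P.cons (P.cons (P.lf 8811132 0 0) (P.cons (P.lf 0 198168 0) (P.cons (P.lf 0 93542 0) (P.lf 4452 0 0)))) (P.cons (P.cons (P.lf 0 831411 0) (P.cons (P.lf 0 22302 0) (P.cons (P.lf 0 10526 0) P.nil))) (P.cons (P.cons (P.lf 0 210486 0) (P.cons (P.lf 5274 0 0) P.nil)) (P.cons (P.cons (P.lf 13301 0 0) P.nil) P.nil)))))) 13707)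
 (EL.cons 9 (TM.mk (P.cons (P.cons (P.lf 3894583996 0 0) (P.cons (P.lf 0 161199222 0) (P.cons (P.lf 0 76095900 0) (P.lf 3623610 0 0)))) (P.cons (P.cons (P.lf 0 228423526 0) (P.cons (P.lf 0 2075370 0) (P.cons (P.lf 0 979704 0) (P.lf 46650 0 0)))) (P.cons (P.cons (P.lf 0 31086378 0) (P.cons (P.lf 1024332 0 0) (P.cons (P.lf 483546 0 0) (P.lf 0 23022 0)))) (P.cons (P.cons (P.lf 2354800 0 0) (P.cons (P.lf 13290 0 0) (P.cons (P.lf 6270 0 0) P.nil))) (P.cons (P.cons (P.lf 112945 0 0) (P.cons (P.lf 0 3240 0) P.nil)) (P.cons (P.cons (P.lf 0 6784 0) P.nil) P.nil)))))) 2959)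
 (EL.cons 2 (TM.mk (P.cons (P.cons (P.lf 35656740 0 0) (P.cons (P.lf 35159051 0 0) (P.cons (P.lf 0 1100160 0) (P.cons (P.lf 0 201597 0) (P.lf 7197 0 0))))) (P.cons (P.cons (P.lf 0 35274268 0) (P.cons (P.lf 0 34781914 0) (P.cons (P.lf 1088358 0 0) (P.cons (P.lf 199437 0 0) (P.lf 0 7121 0))))) (P.cons (P.cons (P.lf 0 571575 0) (P.cons (P.lf 0 563596 0) (P.cons (P.lf 17634 0 0) (P.cons (P.lf 3228 0 0) P.nil)))) (P.cons (P.cons (P.lf 186977 0 0) (P.cons (P.lf 184367 0 0) (P.cons (P.lf 0 5768 0) P.nil))) (P.cons (P.cons (P.lf 2640 0 0) (P.cons (P.lf 2604 0 0) P.nil)) (P.cons (P.cons (P.lf 0 511 0) P.nil) P.nil)))))) 2001)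
 (EL.cons 6 (TM.mk (P.cons (P.cons (P.lf 324207378 0 0) (P.cons (P.lf 319682148 0 0) (P.cons (P.lf 0 10003161 0) (P.cons (P.lf 0 1833039 0) (P.lf 65463 0 0))))) (P.cons (P.cons (P.lf 4174044 0 0) (P.cons (P.lf 4115784 0 0) (P.cons (P.lf 0 128784 0) (P.cons (P.lf 0 23598 0) (P.lf 840 0 0))))) (P.cons (P.cons (P.lf 0 2060160 0) (P.cons (P.lf 0 2031405 0) (P.cons (P.lf 63561 0 0) (P.cons (P.lf 11646 0 0) P.nil)))) (P.cons (P.cons (P.lf 0 26736 0) (P.cons (P.lf 0 26364 0) (P.cons (P.lf 822 0 0) P.nil))) (P.cons (P.cons (P.lf 6531 0 0) (P.cons (P.lf 6438 0 0) P.nil)) (P.cons (P.cons (P.lf 87 0 0) P.nil) P.nil)))))) 1110)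
 EL.nil))))))
noncomputable def S241_256_216_290_2 : EL := (EL.cons 0 (TM.mk (P.cons (P.cons (P.lf 3338989340 0 0) (P.cons (P.lf 0 263364738 0) (P.cons (P.lf 0 119143744 0) (P.cons (P.lf 10811246 0 0) (P.cons (P.lf 921535 0 0) (P.cons (P.lf 0 109949 0) P.nil)))))) (P.cons (P.cons (P.lf 0 544585585 0) (P.cons (P.lf 12919760 0 0) (P.cons (P.lf 6458515 0 0) (P.cons (P.lf 49075 0 0) (P.cons (P.lf 63963 0 0) P.nil))))) (P.cons (P.cons (P.lf 0 120912866 0) (P.cons (P.lf 10660528 0 0) (P.cons (P.lf 4861118 0 0) (P.cons (P.lf 0 401342 0) P.nil)))) (P.cons (P.cons (P.lf 21253073 0 0) (P.cons (P.lf 0 538926 0) (P.cons (P.lf 0 262796 0) P.nil))) (P.cons (P.cons (P.lf 1182529 0 0) (P.cons (P.lf 0 144789 0) P.nil)) (P.cons (P.cons (P.lf 0 279266 0) P.nil) P.nil)))))) 221020)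
 (EL.cons 1 (TM.mk (P.cons (P.cons (P.lf 1083556356 0 0) (P.cons (P.lf 0 30666212 0) (P.cons (P.lf 0 15063370 0) (P.cons (P.lf 135113 0 0) (P.cons (P.lf 0 104414 0) (P.cons (P.lf 12456 0 0) P.nil)))))) (P.cons (P.cons (P.lf 362849284 0 0) (P.cons (P.lf 0 32875269 0) (P.cons (P.lf 0 14954800 0) (P.cons (P.lf 1271803 0 0) (P.cons (P.lf 100383 0 0) P.nil))))) (P.cons (P.cons (P.lf 0 77300477 0) (P.cons (P.lf 2016607 0 0) (P.cons (P.lf 985600 0 0) (P.cons (P.lf 0 13573 0) P.nil)))) (P.cons (P.cons (P.lf 0 6537056 0) (P.cons (P.lf 727509 0 0) (P.cons (P.lf 332891 0 0) P.nil))) (P.cons (P.cons (P.lf 1475350 0 0) (P.cons (P.lf 0 35651 0) P.nil)) (P.cons (P.cons (P.lf 46262 0 0) P.nil) P.nil)))))) 115361)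
 (EL.cons 5 (TM.mk (P.cons (P.cons (P.lf 1481067162 0 0) (P.cons (P.lf 0 127241334 0) (P.cons (P.lf 0 57336450 0) (P.cons (P.lf 5437046 0 0) (P.cons (P.lf 485479 0 0) (P.cons (P.lf 0 57910 0) P.nil)))))) (P.cons (P.cons (P.lf 0 119365326 0) (P.cons (P.lf 5517629 0 0) (P.cons (P.lf 2594502 0 0) (P.cons (P.lf 0 133607 0) (P.cons (P.lf 0 1796 0) P.nil))))) (P.cons (P.cons (P.lf 9574180 0 0) (P.cons (P.lf 0 456953 0) (P.cons (P.lf 0 212142 0) (P.cons (P.lf 13632 0 0) P.nil)))) (P.cons (P.cons (P.lf 0 1831671 0) (P.cons (P.lf 16652 0 0) (P.cons (P.lf 9329 0 0) P.nil))) (P.cons (P.cons (P.lf 0 284915 0) (P.cons (P.lf 26632 0 0) P.nil)) (P.cons (P.cons (P.lf 55158 0 0) P.nil) P.nil)))))) 119778)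
 (EL.cons 9 (TM.mk (P.cons (P.cons (P.lf 2354350018 0 0) (P.cons (P.lf 0 194895984 0) (P.cons (P.lf 0 87969402 0) (P.cons (P.lf 8189134 0 0) (P.cons (P.lf 717481 0 0) (P.cons (P.lf 0 85600 0) P.nil)))))) (P.cons (P.cons (P.lf 0 276172722 0) (P.cons (P.lf 8921757 0 0) (P.cons (P.lf 4315470 0 0) (P.cons (P.lf 0 102501 0) (P.cons (P.lf 18474 0 0) P.nil))))) (P.cons (P.cons (P.lf 0 29485627 0) (P.cons (P.lf 2941275 0 0) (P.cons (P.lf 1337868 0 0) (P.cons (P.lf 0 113875 0) P.nil)))) (P.cons (P.cons (P.lf 5051439 0 0) (P.cons (P.lf 0 154381 0) (P.cons (P.lf 0 74206 0) P.nil))) (P.cons (P.cons (P.lf 119571 0 0) (P.cons (P.lf 0 21913 0) P.nil)) (P.cons (P.cons (P.lf 0 38935 0) P.nil) P.nil)))))) 44116)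
 (EL.cons 2 (TM.mk (P.cons (P.cons (P.lf 43110354 0 0) (P.cons (P.lf 40724263 0 0) (P.cons (P.lf 0 3931920 0) (P.cons (P.lf 0 979143 0) (P.cons (P.lf 84330 0 0) (P.cons (P.lf 3161 0 0) P.nil)))))) (P.cons (P.cons (P.lf 0 45176416 0) (P.cons (P.lf 0 42803600 0) (P.cons (P.lf 3934260 0 0) (P.cons (P.lf 973468 0 0) (P.cons (P.lf 0 82963 0) P.nil))))) (P.cons (P.cons (P.lf 1466201 0 0) (P.cons (P.lf 1508405 0 0) (P.cons (P.lf 46136 0 0) (P.cons (P.lf 17533 0 0) P.nil)))) (P.cons (P.cons (P.lf 633076 0 0) (P.cons (P.lf 604181 0 0) (P.cons (P.lf 0 48780 0) P.nil))) (P.cons (P.cons (P.lf 0 29081 0) (P.cons (P.lf 0 29289 0) P.nil)) (P.cons (P.cons (P.lf 0 4336 0) P.nil) P.nil)))))) 34492)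
 (EL.cons 6 (TM.mk (P.cons (P.cons (P.lf 391979040 0 0) (P.cons (P.lf 370283610 0 0) (P.cons (P.lf 0 35750838 0) (P.cons (P.lf 0 8902854 0) (P.cons (P.lf 766800 0 0) (P.cons (P.lf 28770 0 0) P.nil)))))) (P.cons (P.cons (P.lf 0 17943612 0) (P.cons (P.lf 0 18110916 0) (P.cons (P.lf 0 55500 0) (P.cons (P.lf 0 70722 0) (P.cons (P.lf 14076 0 0) P.nil))))) (P.cons (P.cons (P.lf 0 5915556 0) (P.cons (P.lf 0 5629482 0) (P.cons (P.lf 479244 0 0) (P.cons (P.lf 117312 0 0) P.nil)))) (P.cons (P.cons (P.lf 310482 0 0) (P.cons (P.lf 311478 0 0) (P.cons (P.lf 0 1806 0) P.nil))) (P.cons (P.cons (P.lf 44088 0 0) (P.cons (P.lf 42204 0 0) P.nil)) (P.cons (P.cons (P.lf 0 2136 0) P.nil) P.nil)))))) 29220)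
 EL.nil))))))
noncomputable def S241_256_216_290_3 : EL := (EL.cons 0 (TM.mk (P.cons (P.lf 25864470 0 0) (P.cons (P.lf 0 51618062 0) (P.cons (P.lf 25587627 0 0) (P.cons (P.lf 220688 0 0) (P.cons (P.lf 0 54283 0) (P.cons (P.lf 0 527 0) P.nil)))))) 119)
 (EL.cons 1 (TM.mk (P.cons (P.lf 235171578 0 0) (P.cons (P.lf 0 233658247 0) (P.cons (P.lf 0 2264585 0) (P.cons (P.lf 745863 0 0) (P.cons (P.lf 6716 0 0) (P.cons (P.lf 0 1310 0) P.nil)))))) 72)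
 (EL.cons 5 (TM.mk (P.cons (P.lf 2138287390 0 0) (P.cons (P.lf 18353086 0 0) (P.cons (P.lf 0 9097822 0) (P.cons (P.lf 0 78466 0) (P.cons (P.lf 19296 0 0) (P.cons (P.lf 186 0 0) P.nil)))))) 140)
 EL.nil)))
noncomputable def S241_256_216_290_4 : EL := (EL.cons 0 (TM.mk (P.cons (P.cons (P.lf 15635562 0 0) (P.cons (P.lf 0 647165 0) (P.cons (P.lf 0 305500 0) (P.lf 14547 0 0)))) (P.cons (P.cons (P.lf 0 32121149 0) (P.cons (P.lf 1283224 0 0) (P.cons (P.lf 605759 0 0) (P.lf 0 28845 0)))) (P.cons (P.cons (P.lf 17173573 0 0) (P.cons (P.lf 0 619497 0) (P.cons (P.lf 0 292440 0) (P.lf 13925 0 0)))) (P.cons (P.cons (P.lf 0 515300 0) (P.cons (P.lf 0 21918 0) (P.cons (P.lf 0 10346 0) P.nil))) (P.cons (P.cons (P.lf 0 182518 0) (P.cons (P.lf 5234 0 0) P.nil)) (P.cons (P.cons (P.lf 8961 0 0) P.nil) P.nil)))))) 4585)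
 (EL.cons 1 (TM.mk (P.cons (P.cons (P.lf 142165687 0 0) (P.cons (P.lf 0 5884323 0) (P.cons (P.lf 0 2777760 0) (P.lf 132271 0 0)))) (P.cons (P.cons (P.lf 0 149589091 0) (P.cons (P.lf 5770700 0 0) (P.cons (P.lf 2724123 0 0) (P.lf 0 129718 0)))) (P.cons (P.cons (P.lf 5780838 0 0) (P.cons (P.lf 169323 0 0) (P.cons (P.lf 79931 0 0) (P.lf 0 3804 0)))) (P.cons (P.cons (P.lf 1744597 0 0) (P.cons (P.lf 0 54598 0) (P.cons (P.lf 0 25771 0) P.nil))) (P.cons (P.cons (P.lf 0 92739 0) (P.cons (P.lf 0 1366 0) P.nil)) (P.cons (P.cons (P.lf 0 9800 0) P.nil) P.nil)))))) 3195)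
 (EL.cons 5 (TM.mk (P.cons (P.cons (P.lf 1292635352 0 0) (P.cons (P.lf 0 53502968 0) (P.cons (P.lf 0 25256676 0) (P.lf 1202696 0 0)))) (P.cons (P.cons (P.lf 0 64720322 0) (P.cons (P.lf 0 1148046 0) (P.cons (P.lf 0 541948 0) (P.lf 25806 0 0)))) (P.cons (P.cons (P.lf 0 16468284 0) (P.cons (P.lf 561708 0 0) (P.cons (P.lf 265160 0 0) (P.lf 0 12624 0)))) (P.cons (P.cons (P.lf 968150 0 0) (P.cons (P.lf 12222 0 0) (P.cons (P.lf 5768 0 0) P.nil))) (P.cons (P.cons (P.lf 102542 0 0) (P.cons (P.lf 0 2940 0) P.nil)) (P.cons (P.cons (P.lf 0 5446 0) P.nil) P.nil)))))) 2702)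
 EL.nil)))
noncomputable def S241_256_216_290_5 : EL := (EL.cons 0 (TM.mk (P.cons (P.cons (P.lf 9451995 0 0) (P.cons (P.lf 0 782446 0) (P.cons (P.lf 0 353169 0) (P.cons (P.lf 32876 0 0) (P.cons (P.lf 2879 0 0) (P.cons (P.lf 0 342 0) P.nil)))))) (P.cons (P.cons (P.lf 0 19972218 0) (P.cons (P.lf 1597359 0 0) (P.cons (P.lf 722151 0 0) (P.cons (P.lf 0 66023 0) (P.cons (P.lf 0 5674 0) P.nil))))) (P.cons (P.cons (P.lf 11445192 0 0) (P.cons (P.lf 0 833746 0) (P.cons (P.lf 0 378594 0) (P.cons (P.lf 32888 0 0) P.nil)))) (P.cons (P.cons (P.lf 0 759707 0) (P.cons (P.lf 4572 0 0) (P.cons (P.lf 3107 0 0) P.nil))) (P.cons (P.cons (P.lf 0 186398 0) (P.cons (P.lf 14777 0 0) P.nil)) (P.cons (P.cons (P.lf 20072 0 0) P.nil) P.nil)))))) 16817)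
 (EL.cons 1 (TM.mk (P.cons (P.cons (P.lf 85941858 0 0) (P.cons (P.lf 0 7114372 0) (P.cons (P.lf 0 3211183 0) (P.cons (P.lf 298931 0 0) (P.cons (P.lf 26188 0 0) (P.cons (P.lf 0 3123 0) P.nil)))))) (P.cons (P.cons (P.lf 0 95470074 0) (P.cons (P.lf 7394265 0 0) (P.cons (P.lf 3348048 0 0) (P.cons (P.lf 0 300748 0) (P.cons (P.lf 0 25346 0) P.nil))))) (P.cons (P.cons (P.lf 8112472 0 0) (P.cons (P.lf 0 147703 0) (P.cons (P.lf 0 76755 0) (P.cons (P.lf 0 3316 0) P.nil)))) (P.cons (P.cons (P.lf 1623442 0 0) (P.cons (P.lf 0 138009 0) (P.cons (P.lf 0 62932 0) P.nil))) (P.cons (P.cons (P.lf 0 197996 0) (P.cons (P.lf 4593 0 0) P.nil)) (P.cons (P.cons (P.lf 0 11713 0) P.nil) P.nil)))))) 19893)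
 (EL.cons 5 (TM.mk (P.cons (P.cons (P.lf 781422628 0 0) (P.cons (P.lf 0 64687122 0) (P.cons (P.lf 0 29197560 0) (P.cons (P.lf 2718020 0 0) (P.cons (P.lf 238134 0 0) (P.cons (P.lf 0 28410 0) P.nil)))))) (P.cons (P.cons (P.lf 0 84956340 0) (P.cons (P.lf 2405968 0 0) (P.cons (P.lf 1181724 0 0) (P.cons (P.lf 0 10690 0) (P.cons (P.lf 8174 0 0) P.nil))))) (P.cons (P.cons (P.lf 0 13897944 0) (P.cons (P.lf 1276868 0 0) (P.cons (P.lf 580566 0 0) (P.cons (P.lf 0 49652 0) P.nil)))) (P.cons (P.cons (P.lf 1953930 0 0) (P.cons (P.lf 0 53086 0) (P.cons (P.lf 0 25840 0) P.nil))) (P.cons (P.cons (P.lf 106130 0 0) (P.cons (P.lf 0 12558 0) P.nil)) (P.cons (P.cons (P.lf 0 20114 0) P.nil) P.nil)))))) 20570)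
 EL.nil)))
noncomputable def S241_256_216_290_6 : EL := (EL.cons 12 (TM.mk (P.lf 8589934592 0 0) 0)
 (EL.cons 3 (TM.mk (P.cons (P.lf 0 235676745 0) (P.cons (P.lf 235171578 0 0) (P.cons (P.lf 756663 0 0) (P.cons (P.lf 0 250417 0) (P.cons (P.lf 0 1346 0) (P.cons (P.lf 262 0 0) P.nil)))))) 37)
 (EL.cons 7 (TM.mk (P.cons (P.lf 0 2142880586 0) (P.cons (P.lf 0 9196255 0) (P.cons (P.lf 4578416 0 0) (P.cons (P.lf 19669 0 0) (P.cons (P.lf 0 4863 0) (P.cons (P.lf 0 31 0) P.nil)))))) 53)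
 EL.nil)))
noncomputable def S241_256_216_290_7 : EL := (EL.cons 12 (TM.mk (P.cons (P.cons (P.lf 5192778662 0 0) (P.cons (P.lf 0 214932296 0) (P.cons (P.lf 0 101461200 0) (P.lf 4831480 0 0)))) (P.cons (P.cons (P.lf 0 304564702 0) (P.cons (P.lf 0 2767160 0) (P.cons (P.lf 0 1306272 0) (P.lf 62200 0 0)))) (P.cons (P.cons (P.lf 0 41448504 0) (P.cons (P.lf 1365776 0 0) (P.cons (P.lf 644728 0 0) (P.lf 0 30696 0)))) (P.cons (P.cons (P.lf 3139734 0 0) (P.cons (P.lf 17720 0 0) (P.cons (P.lf 8360 0 0) P.nil))) (P.cons (P.cons (P.lf 150594 0 0) (P.cons (P.lf 0 4320 0) P.nil)) (P.cons (P.cons (P.lf 0 9046 0) P.nil) P.nil)))))) 3920)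
 (EL.cons 3 (TM.mk (P.cons (P.cons (P.lf 0 2089593808 0) (P.cons (P.lf 0 11793930 0) (P.cons (P.lf 0 5567456 0) (P.lf 265114 0 0)))) (P.cons (P.cons (P.lf 0 383632576 0) (P.cons (P.lf 11616808 0 0) (P.cons (P.lf 5483844 0 0) (P.lf 0 261134 0)))) (P.cons (P.cons (P.lf 54427459 0 0) (P.cons (P.lf 264324 0 0) (P.cons (P.lf 124776 0 0) (P.lf 0 5940 0)))) (P.cons (P.cons (P.lf 3151324 0 0) (P.cons (P.lf 0 85854 0) (P.cons (P.lf 0 40528 0) P.nil))) (P.cons (P.cons (P.lf 0 259325 0) (P.cons (P.lf 0 1676 0) P.nil)) (P.cons (P.cons (P.lf 0 12965 0) P.nil) P.nil)))))) 8997)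
 (EL.cons 7 (TM.mk (P.cons (P.cons (P.lf 0 1219270866 0) (P.cons (P.lf 54309698 0 0) (P.cons (P.lf 25637501 0 0) (P.lf 0 1220838 0)))) (P.cons (P.cons (P.lf 15001740 0 0) (P.cons (P.lf 0 454265 0) (P.cons (P.lf 0 214440 0) (P.lf 10211 0 0)))) (P.cons (P.cons (P.lf 0 9645335 0) (P.cons (P.lf 217286 0 0) (P.cons (P.lf 102570 0 0) (P.lf 0 4882 0)))) (P.cons (P.cons (P.lf 1314854 0 0) (P.cons (P.lf 9770 0 0) (P.cons (P.lf 4612 0 0) P.nil))) (P.cons (P.cons (P.lf 95261 0 0) (P.cons (P.lf 0 2349 0) P.nil)) (P.cons (P.cons (P.lf 0 6919 0) P.nil) P.nil)))))) 8158)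
 (EL.cons 10 (TM.mk (P.cons (P.cons (P.lf 0 649807602 0) (P.cons (P.lf 0 640737699 0) (P.cons (P.lf 20049300 0 0) (P.cons (P.lf 3673953 0 0) (P.lf 0 131211 0))))) (P.cons (P.cons (P.lf 0 5577348 0) (P.cons (P.lf 0 5499501 0) (P.cons (P.lf 172083 0 0) (P.cons (P.lf 31533 0 0) (P.lf 0 1125 0))))) (P.cons (P.cons (P.lf 2764749 0 0) (P.cons (P.lf 2726160 0 0) (P.cons (P.lf 0 85302 0) (P.cons (P.lf 0 15630 0) P.nil)))) (P.cons (P.cons (P.lf 23844 0 0) (P.cons (P.lf 23511 0 0) (P.cons (P.lf 0 735 0) P.nil))) (P.cons (P.cons (P.lf 0 5862 0) (P.cons (P.lf 0 5781 0) P.nil)) (P.cons (P.cons (P.lf 0 54 0) P.nil) P.nil)))))) 1164)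
 EL.nil))))
noncomputable def S241_256_216_290_8 : EL := (EL.cons 12 (TM.mk (P.cons (P.cons (P.lf 3139133358 0 0) (P.cons (P.lf 0 259861312 0) (P.cons (P.lf 0 117292536 0) (P.cons (P.lf 10918846 0 0) (P.cons (P.lf 956642 0 0) (P.cons (P.lf 0 114134 0) P.nil)))))) (P.cons (P.cons (P.lf 0 368230296 0) (P.cons (P.lf 11895676 0 0) (P.cons (P.lf 5753960 0 0) (P.cons (P.lf 0 136668 0) (P.cons (P.lf 24632 0 0) P.nil))))) (P.cons (P.cons (P.lf 0 39314170 0) (P.cons (P.lf 3921700 0 0) (P.cons (P.lf 1783824 0 0) (P.cons (P.lf 0 151834 0) P.nil)))) (P.cons (P.cons (P.lf 6735252 0 0) (P.cons (P.lf 0 205842 0) (P.cons (P.lf 0 98942 0) P.nil))) (P.cons (P.cons (P.lf 159428 0 0) (P.cons (P.lf 0 29218 0) P.nil)) (P.cons (P.cons (P.lf 0 51914 0) P.nil) P.nil)))))) 58792)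
 (EL.cons 3 (TM.mk (P.cons (P.cons (P.lf 0 2440271846 0) (P.cons (P.lf 83180206 0 0) (P.cons (P.lf 40003902 0 0) (P.cons (P.lf 0 1173287 0) (P.cons (P.lf 131230 0 0) (P.cons (P.lf 0 15655 0) P.nil)))))) (P.cons (P.cons (P.lf 0 411693858 0) (P.cons (P.lf 42866578 0 0) (P.cons (P.lf 19518476 0 0) (P.cons (P.lf 0 1640696 0) (P.cons (P.lf 0 127570 0) P.nil))))) (P.cons (P.cons (P.lf 121900697 0 0) (P.cons (P.lf 0 3726576 0) (P.cons (P.lf 0 1789753 0) (P.cons (P.lf 54899 0 0) P.nil)))) (P.cons (P.cons (P.lf 3510267 0 0) (P.cons (P.lf 0 688292 0) (P.cons (P.lf 0 315197 0) P.nil))) (P.cons (P.cons (P.lf 0 1602761 0) (P.cons (P.lf 43158 0 0) P.nil)) (P.cons (P.cons (P.lf 0 4637 0) P.nil) P.nil)))))) 144298)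
 (EL.cons 7 (TM.mk (P.cons (P.cons (P.lf 0 691043625 0) (P.cons (P.lf 61852170 0 0) (P.cons (P.lf 27821798 0 0) (P.cons (P.lf 0 2689708 0) (P.cons (P.lf 0 244803 0) (P.cons (P.lf 29204 0 0) P.nil)))))) (P.cons (P.cons (P.lf 16099066 0 0) (P.cons (P.lf 0 1676270 0) (P.cons (P.lf 0 763259 0) (P.cons (P.lf 64152 0 0) (P.cons (P.lf 4988 0 0) P.nil))))) (P.cons (P.cons (P.lf 0 12833674 0) (P.cons (P.lf 985658 0 0) (P.cons (P.lf 452432 0 0) (P.cons (P.lf 0 34289 0) P.nil)))) (P.cons (P.cons (P.lf 3064776 0 0) (P.cons (P.lf 0 72251 0) (P.cons (P.lf 0 35251 0) P.nil))) (P.cons (P.cons (P.lf 153790 0 0) (P.cons (P.lf 0 21223 0) P.nil)) (P.cons (P.cons (P.lf 0 48240 0) P.nil) P.nil)))))) 67455)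
 (EL.cons 10 (TM.mk (P.cons (P.cons (P.lf 0 785642082 0) (P.cons (P.lf 0 742158012 0) (P.cons (P.lf 71655270 0 0) (P.cons (P.lf 17843964 0 0) (P.cons (P.lf 0 1536900 0) (P.cons (P.lf 0 57666 0) P.nil)))))) (P.cons (P.cons (P.lf 39335928 0 0) (P.cons (P.lf 39484644 0 0) (P.cons (P.lf 0 196266 0) (P.cons (P.lf 65172 0 0) (P.cons (P.lf 0 21624 0) P.nil))))) (P.cons (P.cons (P.lf 10009140 0 0) (P.cons (P.lf 9528036 0 0) (P.cons (P.lf 0 806610 0) (P.cons (P.lf 0 197292 0) P.nil)))) (P.cons (P.cons (P.lf 0 588426 0) (P.cons (P.lf 0 587640 0) (P.cons (P.lf 7320 0 0) P.nil))) (P.cons (P.cons (P.lf 0 62316 0) (P.cons (P.lf 0 59664 0) P.nil)) (P.cons (P.cons (P.lf 3312 0 0) P.nil) P.nil)))))) 48540)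
 EL.nil))))
noncomputable def S241_256_216_290_9 : EL := (EL.cons 3 (TM.mk (P.cons (P.lf 0 235676745 0) (P.cons (P.lf 235171578 0 0) (P.cons (P.lf 756663 0 0) (P.cons (P.lf 0 250417 0) (P.cons (P.lf 0 1346 0) (P.cons (P.lf 262 0 0) P.nil)))))) 37)
 (EL.cons 7 (TM.mk (P.cons (P.lf 0 2142880586 0) (P.cons (P.lf 0 9196255 0) (P.cons (P.lf 4578416 0 0) (P.cons (P.lf 19669 0 0) (P.cons (P.lf 0 4863 0) (P.cons (P.lf 0 31 0) P.nil)))))) 53)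
 EL.nil))
noncomputable def S241_256_216_290_10 : EL := (EL.cons 3 (TM.mk (P.cons (P.cons (P.lf 0 142471069 0) (P.cons (P.lf 5896965 0 0) (P.cons (P.lf 2783728 0 0) (P.lf 0 132557 0)))) (P.cons (P.cons (P.lf 150521840 0 0) (P.cons (P.lf 0 5808404 0) (P.cons (P.lf 0 2741922 0) (P.lf 130567 0 0)))) (P.cons (P.cons (P.lf 0 6743627 0) (P.cons (P.lf 0 132162 0) (P.cons (P.lf 0 62388 0) (P.lf 2970 0 0)))) (P.cons (P.cons (P.lf 0 1399112 0) (P.cons (P.lf 42927 0 0) (P.cons (P.lf 20264 0 0) P.nil))) (P.cons (P.cons (P.lf 86239 0 0) (P.cons (P.lf 838 0 0) P.nil)) (P.cons (P.cons (P.lf 6061 0 0) P.nil) P.nil)))))) 2171)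
 (EL.cons 7 (TM.mk (P.cons (P.cons (P.lf 0 1295412027 0) (P.cons (P.lf 53617898 0 0) (P.cons (P.lf 25310930 0 0) (P.lf 0 1205280 0)))) (P.cons (P.cons (P.lf 70418658 0 0) (P.cons (P.lf 920410 0 0) (P.cons (P.lf 434490 0 0) (P.lf 0 20689 0)))) (P.cons (P.cons (P.lf 13433716 0 0) (P.cons (P.lf 0 452308 0) (P.cons (P.lf 0 213516 0) (P.lf 10166 0 0)))) (P.cons (P.cons (P.lf 0 889318 0) (P.cons (P.lf 0 7849 0) (P.cons (P.lf 0 3704 0) P.nil))) (P.cons (P.cons (P.lf 0 66658 0) (P.cons (P.lf 1902 0 0) P.nil)) (P.cons (P.cons (P.lf 3827 0 0) P.nil) P.nil)))))) 1707)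
 EL.nil))
noncomputable def S241_256_216_290_11 : EL := (EL.cons 3 (TM.mk (P.cons (P.cons (P.lf 0 86126468 0) (P.cons (P.lf 7129654 0 0) (P.cons (P.lf 3218082 0 0) (P.cons (P.lf 0 299573 0) (P.cons (P.lf 0 26246 0) (P.cons (P.lf 3131 0 0) P.nil)))))) (P.cons (P.cons (P.lf 96044766 0 0) (P.cons (P.lf 0 7440746 0) (P.cons (P.lf 0 3369052 0) (P.cons (P.lf 302680 0 0) (P.cons (P.lf 25514 0 0) P.nil))))) (P.cons (P.cons (P.lf 0 8726095 0) (P.cons (P.lf 195186 0 0) (P.cons (P.lf 98255 0 0) (P.cons (P.lf 1385 0 0) P.nil)))) (P.cons (P.cons (P.lf 0 1385067 0) (P.cons (P.lf 121636 0 0) (P.cons (P.lf 55477 0 0) P.nil))) (P.cons (P.cons (P.lf 186799 0 0) (P.cons (P.lf 0 4794 0) P.nil)) (P.cons (P.cons (P.lf 7681 0 0) P.nil) P.nil)))))) 17460)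
 (EL.cons 7 (TM.mk (P.cons (P.cons (P.lf 0 783101181 0) (P.cons (P.lf 64826076 0 0) (P.cons (P.lf 29260280 0 0) (P.cons (P.lf 0 2723860 0) (P.cons (P.lf 0 238647 0) (P.cons (P.lf 28472 0 0) P.nil)))))) (P.cons (P.cons (P.lf 88499542 0 0) (P.cons (P.lf 0 2689340 0) (P.cons (P.lf 0 1309835 0) (P.cons (P.lf 22404 0 0) (P.cons (P.lf 0 7168 0) P.nil))))) (P.cons (P.cons (P.lf 11874848 0 0) (P.cons (P.lf 0 1129564 0) (P.cons (P.lf 0 513676 0) (P.cons (P.lf 43843 0 0) P.nil)))) (P.cons (P.cons (P.lf 0 1827192 0) (P.cons (P.lf 52897 0 0) (P.cons (P.lf 25571 0 0) P.nil))) (P.cons (P.cons (P.lf 0 70556 0) (P.cons (P.lf 9773 0 0) P.nil)) (P.cons (P.cons (P.lf 16476 0 0) P.nil) P.nil)))))) 17477)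
 EL.nil))
noncomputable def S241_256_216_290_12 : EL := (EL.cons 4 (TM.mk (P.cons (P.lf 235676745 0 0) (P.cons (P.lf 0 235171578 0) (P.cons (P.lf 0 756663 0) (P.cons (P.lf 250417 0 0) (P.cons (P.lf 1346 0 0) (P.cons (P.lf 0 262 0) P.nil)))))) 37)
 (EL.cons 8 (TM.mk (P.cons (P.lf 2142880586 0 0) (P.cons (P.lf 9196255 0 0) (P.cons (P.lf 0 4578416 0) (P.cons (P.lf 0 19669 0) (P.cons (P.lf 4863 0 0) (P.cons (P.lf 31 0 0) P.nil)))))) 53)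
 EL.nil))
noncomputable def S241_256_216_290_13 : EL := (EL.cons 4 (TM.mk (P.cons (P.cons (P.lf 142471069 0 0) (P.cons (P.lf 0 5896965 0) (P.cons (P.lf 0 2783728 0) (P.lf 132557 0 0)))) (P.cons (P.cons (P.lf 0 150521840 0) (P.cons (P.lf 5808404 0 0) (P.cons (P.lf 2741922 0 0) (P.lf 0 130567 0)))) (P.cons (P.cons (P.lf 6743627 0 0) (P.cons (P.lf 132162 0 0) (P.cons (P.lf 62388 0 0) (P.lf 0 2970 0)))) (P.cons (P.cons (P.lf 1399112 0 0) (P.cons (P.lf 0 42927 0) (P.cons (P.lf 0 20264 0) P.nil))) (P.cons (P.cons (P.lf 0 86239 0) (P.cons (P.lf 0 838 0) P.nil)) (P.cons (P.cons (P.lf 0 6061 0) P.nil) P.nil)))))) 2171)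
 (EL.cons 8 (TM.mk (P.cons (P.cons (P.lf 1295412027 0 0) (P.cons (P.lf 0 53617898 0) (P.cons (P.lf 0 25310930 0) (P.lf 1205280 0 0)))) (P.cons (P.cons (P.lf 0 70418658 0) (P.cons (P.lf 0 920410 0) (P.cons (P.lf 0 434490 0) (P.lf 20689 0 0)))) (P.cons (P.cons (P.lf 0 13433716 0) (P.cons (P.lf 452308 0 0) (P.cons (P.lf 213516 0 0) (P.lf 0 10166 0)))) (P.cons (P.cons (P.lf 889318 0 0) (P.cons (P.lf 7849 0 0) (P.cons (P.lf 3704 0 0) P.nil))) (P.cons (P.cons (P.lf 66658 0 0) (P.cons (P.lf 0 1902 0) P.nil)) (P.cons (P.cons (P.lf 0 3827 0) P.nil) P.nil)))))) 1707)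
 EL.nil))
noncomputable def S241_256_216_290_14 : EL := (EL.cons 4 (TM.mk (P.cons (P.cons (P.lf 86126468 0 0) (P.cons (P.lf 0 7129654 0) (P.cons (P.lf 0 3218082 0) (P.cons (P.lf 299573 0 0) (P.cons (P.lf 26246 0 0) (P.cons (P.lf 0 3131 0) P.nil)))))) (P.cons (P.cons (P.lf 0 96044766 0) (P.cons (P.lf 7440746 0 0) (P.cons (P.lf 3369052 0 0) (P.cons (P.lf 0 302680 0) (P.cons (P.lf 0 25514 0) P.nil))))) (P.cons (P.cons (P.lf 8726095 0 0) (P.cons (P.lf 0 195186 0) (P.cons (P.lf 0 98255 0) (P.cons (P.lf 0 1385 0) P.nil)))) (P.cons (P.cons (P.lf 1385067 0 0) (P.cons (P.lf 0 121636 0) (P.cons (P.lf 0 55477 0) P.nil))) (P.cons (P.cons (P.lf 0 186799 0) (P.cons (P.lf 4794 0 0) P.nil)) (P.cons (P.cons (P.lf 0 7681 0) P.nil) P.nil)))))) 17460)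
 (EL.cons 8 (TM.mk (P.cons (P.cons (P.lf 783101181 0 0) (P.cons (P.lf 0 64826076 0) (P.cons (P.lf 0 29260280 0) (P.cons (P.lf 2723860 0 0) (P.cons (P.lf 238647 0 0) (P.cons (P.lf 0 28472 0) P.nil)))))) (P.cons (P.cons (P.lf 0 88499542 0) (P.cons (P.lf 2689340 0 0) (P.cons (P.lf 1309835 0 0) (P.cons (P.lf 0 22404 0) (P.cons (P.lf 7168 0 0) P.nil))))) (P.cons (P.cons (P.lf 0 11874848 0) (P.cons (P.lf 1129564 0 0) (P.cons (P.lf 513676 0 0) (P.cons (P.lf 0 43843 0) P.nil)))) (P.cons (P.cons (P.lf 1827192 0 0) (P.cons (P.lf 0 52897 0) (P.cons (P.lf 0 25571 0) P.nil))) (P.cons (P.cons (P.lf 70556 0 0) (P.cons (P.lf 0 9773 0) P.nil)) (P.cons (P.cons (P.lf 0 16476 0) P.nil) P.nil)))))) 17477)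
 EL.nil))
noncomputable def S241_256_216_290_15 : EL := (EL.cons 4 (TM.mk (P.cons (P.lf 0 13794384 0) (P.cons (P.lf 27529633 0 0) (P.cons (P.lf 0 13646734 0) (P.cons (P.lf 0 117700 0) (P.cons (P.lf 28950 0 0) (P.cons (P.lf 281 0 0) P.nil)))))) 67)
 (EL.cons 8 (TM.mk (P.cons (P.lf 0 125424842 0) (P.cons (P.lf 124617732 0 0) (P.cons (P.lf 1207779 0 0) (P.cons (P.lf 0 397794 0) (P.cons (P.lf 0 3582 0) (P.cons (P.lf 699 0 0) P.nil)))))) 35)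
 EL.nil))
noncomputable def S241_256_216_290_16 : EL := (EL.cons 4 (TM.mk (P.cons (P.cons (P.lf 0 8338966 0) (P.cons (P.lf 345154 0 0) (P.cons (P.lf 162933 0 0) (P.lf 0 7758 0)))) (P.cons (P.cons (P.lf 17131279 0 0) (P.cons (P.lf 0 684386 0) (P.cons (P.lf 0 323071 0) (P.lf 15384 0 0)))) (P.cons (P.cons (P.lf 0 9159239 0) (P.cons (P.lf 330398 0 0) (P.cons (P.lf 155968 0 0) (P.lf 0 7426 0)))) (P.cons (P.cons (P.lf 274827 0 0) (P.cons (P.lf 11689 0 0) (P.cons (P.lf 5518 0 0) P.nil))) (P.cons (P.cons (P.lf 97343 0 0) (P.cons (P.lf 0 2791 0) P.nil)) (P.cons (P.cons (P.lf 0 4779 0) P.nil) P.nil)))))) 2454)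
 (EL.cons 8 (TM.mk (P.cons (P.cons (P.lf 0 75821700 0) (P.cons (P.lf 3138306 0 0) (P.cons (P.lf 1481472 0 0) (P.lf 0 70545 0)))) (P.cons (P.cons (P.lf 79780849 0 0) (P.cons (P.lf 0 3077707 0) (P.cons (P.lf 0 1452866 0) (P.lf 69183 0 0)))) (P.cons (P.cons (P.lf 0 3083114 0) (P.cons (P.lf 0 90306 0) (P.cons (P.lf 0 42630 0) (P.lf 2029 0 0)))) (P.cons (P.cons (P.lf 0 930452 0) (P.cons (P.lf 29119 0 0) (P.cons (P.lf 13745 0 0) P.nil))) (P.cons (P.cons (P.lf 49461 0 0) (P.cons (P.lf 729 0 0) P.nil)) (P.cons (P.cons (P.lf 5227 0 0) P.nil) P.nil)))))) 1694)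
 EL.nil))
noncomputable def S241_256_216_290_17 : EL := (EL.cons 4 (TM.mk (P.cons (P.cons (P.lf 0 5041064 0) (P.cons (P.lf 417304 0 0) (P.cons (P.lf 188356 0 0) (P.cons (P.lf 0 17534 0) (P.cons (P.lf 0 1535 0) (P.cons (P.lf 182 0 0) P.nil)))))) (P.cons (P.cons (P.lf 10651849 0 0) (P.cons (P.lf 0 851925 0) (P.cons (P.lf 0 385147 0) (P.cons (P.lf 35212 0 0) (P.cons (P.lf 3026 0 0) P.nil))))) (P.cons (P.cons (P.lf 0 6104102 0) (P.cons (P.lf 444664 0 0) (P.cons (P.lf 201916 0 0) (P.cons (P.lf 0 17540 0) P.nil)))) (P.cons (P.cons (P.lf 405177 0 0) (P.cons (P.lf 0 2438 0) (P.cons (P.lf 0 1657 0) P.nil))) (P.cons (P.cons (P.lf 99412 0 0) (P.cons (P.lf 0 7881 0) P.nil)) (P.cons (P.cons (P.lf 0 10705 0) P.nil) P.nil)))))) 8979)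
 (EL.cons 8 (TM.mk (P.cons (P.cons (P.lf 0 45835658 0) (P.cons (P.lf 3794332 0 0) (P.cons (P.lf 1712631 0 0) (P.cons (P.lf 0 159430 0) (P.cons (P.lf 0 13967 0) (P.cons (P.lf 1666 0 0) P.nil)))))) (P.cons (P.cons (P.lf 50917373 0 0) (P.cons (P.lf 0 3943608 0) (P.cons (P.lf 0 1785626 0) (P.cons (P.lf 160399 0 0) (P.cons (P.lf 13518 0 0) P.nil))))) (P.cons (P.cons (P.lf 0 4326652 0) (P.cons (P.lf 78775 0 0) (P.cons (P.lf 40936 0 0) (P.cons (P.lf 1769 0 0) P.nil)))) (P.cons (P.cons (P.lf 0 865836 0) (P.cons (P.lf 73605 0 0) (P.cons (P.lf 33564 0 0) P.nil))) (P.cons (P.cons (P.lf 105598 0 0) (P.cons (P.lf 0 2450 0) P.nil)) (P.cons (P.cons (P.lf 6247 0 0) P.nil) P.nil)))))) 10598)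
 EL.nil))
noncomputable def S241_256_216_290_18 : EL := (EL.cons 4 (TM.mk (P.cons (P.lf 807398 0 0) (P.cons (P.lf 0 2417003 0) (P.cons (P.lf 2404045 0 0) (P.cons (P.lf 0 784123 0) (P.cons (P.lf 0 12840 0) (P.cons (P.lf 2490 0 0) P.nil)))))) 58)
 (EL.cons 8 (TM.mk (P.cons (P.lf 7341235 0 0) (P.cons (P.lf 0 14619494 0) (P.cons (P.lf 7184097 0 0) (P.cons (P.lf 125042 0 0) (P.cons (P.lf 0 30504 0) (P.cons (P.lf 0 449 0) P.nil)))))) 91)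
 EL.nil))
noncomputable def S241_256_216_290_19 : EL := (EL.cons 4 (TM.mk (P.cons (P.cons (P.lf 488086 0 0) (P.cons (P.lf 0 20202 0) (P.cons (P.lf 0 9536 0) (P.lf 453 0 0)))) (P.cons (P.cons (P.lf 0 1489751 0) (P.cons (P.lf 60216 0 0) (P.cons (P.lf 28425 0 0) (P.lf 0 1352 0)))) (P.cons (P.cons (P.lf 1535091 0 0) (P.cons (P.lf 0 59245 0) (P.cons (P.lf 0 27967 0) (P.lf 1331 0 0)))) (P.cons (P.cons (P.lf 0 547296 0) (P.cons (P.lf 18462 0 0) (P.cons (P.lf 8715 0 0) P.nil))) (P.cons (P.cons (P.lf 7570 0 0) (P.cons (P.lf 950 0 0) P.nil)) (P.cons (P.cons (P.lf 6579 0 0) P.nil) P.nil)))))) 1835)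
 (EL.cons 8 (TM.mk (P.cons (P.cons (P.lf 4437916 0 0) (P.cons (P.lf 0 183687 0) (P.cons (P.lf 0 86711 0) (P.lf 4129 0 0)))) (P.cons (P.cons (P.lf 0 9098052 0) (P.cons (P.lf 363435 0 0) (P.cons (P.lf 171563 0 0) (P.lf 0 8169 0)))) (P.cons (P.cons (P.lf 4825848 0 0) (P.cons (P.lf 0 173879 0) (P.cons (P.lf 0 82081 0) (P.lf 3908 0 0)))) (P.cons (P.cons (P.lf 0 105902 0) (P.cons (P.lf 0 7752 0) (P.cons (P.lf 0 3659 0) P.nil))) (P.cons (P.cons (P.lf 0 62753 0) (P.cons (P.lf 1831 0 0) P.nil)) (P.cons (P.cons (P.lf 2568 0 0) P.nil) P.nil)))))) 1732)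
 EL.nil))
noncomputable def S241_256_216_290_20 : EL := (EL.cons 4 (TM.mk (P.cons (P.cons (P.lf 295057 0 0) (P.cons (P.lf 0 24424 0) (P.cons (P.lf 0 11024 0) (P.cons (P.lf 1025 0 0) (P.cons (P.lf 89 0 0) (P.cons (P.lf 0 10 0) P.nil)))))) (P.cons (P.cons (P.lf 0 917888 0) (P.cons (P.lf 74236 0 0) (P.cons (P.lf 33543 0 0) (P.cons (P.lf 0 3084 0) (P.cons (P.lf 0 266 0) P.nil))))) (P.cons (P.cons (P.lf 978457 0 0) (P.cons (P.lf 0 75705 0) (P.cons (P.lf 0 34276 0) (P.cons (P.lf 3079 0 0) P.nil)))) (P.cons (P.cons (P.lf 0 377912 0) (P.cons (P.lf 25927 0 0) (P.cons (P.lf 11805 0 0) P.nil))) (P.cons (P.cons (P.lf 16037 0 0) (P.cons (P.lf 454 0 0) P.nil)) (P.cons (P.cons (P.lf 6884 0 0) P.nil) P.nil)))))) 4653)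
 (EL.cons 8 (TM.mk (P.cons (P.cons (P.lf 2682804 0 0) (P.cons (P.lf 0 222085 0) (P.cons (P.lf 0 100241 0) (P.cons (P.lf 9331 0 0) (P.cons (P.lf 817 0 0) (P.cons (P.lf 0 97 0) P.nil)))))) (P.cons (P.cons (P.lf 0 5657296 0) (P.cons (P.lf 452433 0 0) (P.cons (P.lf 204541 0 0) (P.cons (P.lf 0 18699 0) (P.cons (P.lf 0 1607 0) P.nil))))) (P.cons (P.cons (P.lf 3218483 0 0) (P.cons (P.lf 0 234225 0) (P.cons (P.lf 0 106364 0) (P.cons (P.lf 9234 0 0) P.nil)))) (P.cons (P.cons (P.lf 0 189602 0) (P.cons (P.lf 0 684 0) (P.cons (P.lf 0 16 0) P.nil))) (P.cons (P.cons (P.lf 0 60714 0) (P.cons (P.lf 4701 0 0) P.nil)) (P.cons (P.cons (P.lf 5888 0 0) P.nil) P.nil)))))) 5366)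
 EL.nil))
noncomputable def S241_256_216_290_21 : EL := (EL.cons 4 (TM.mk (P.cons (P.cons (P.lf 1947122739 0 0) (P.cons (P.lf 17690895 0 0) (P.cons (P.lf 8351184 0 0) (P.lf 0 397671 0)))) (P.cons (P.cons (P.lf 534154416 0 0) (P.cons (P.lf 0 17425212 0) (P.cons (P.lf 0 8225766 0) (P.lf 391701 0 0)))) (P.cons (P.cons (P.lf 0 61171086 0) (P.cons (P.lf 0 396486 0) (P.cons (P.lf 0 187164 0) (P.lf 8910 0 0)))) (P.cons (P.cons (P.lf 0 4550436 0) (P.cons (P.lf 128781 0 0) (P.cons (P.lf 60792 0 0) P.nil))) (P.cons (P.cons (P.lf 345564 0 0) (P.cons (P.lf 2514 0 0) P.nil)) (P.cons (P.cons (P.lf 19026 0 0) P.nil) P.nil)))))) 6807)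
 (EL.cons 8 (TM.mk (P.cons (P.cons (P.lf 0 76141161 0) (P.cons (P.lf 0 691800 0) (P.cons (P.lf 0 326571 0) (P.lf 15558 0 0)))) (P.cons (P.cons (P.lf 55416918 0 0) (P.cons (P.lf 1374675 0 0) (P.cons (P.lf 648930 0 0) (P.lf 0 30900 0)))) (P.cons (P.cons (P.lf 23079051 0 0) (P.cons (P.lf 0 669594 0) (P.cons (P.lf 0 316086 0) (P.lf 15048 0 0)))) (P.cons (P.cons (P.lf 0 2204172 0) (P.cons (P.lf 0 17619 0) (P.cons (P.lf 0 8316 0) P.nil))) (P.cons (P.cons (P.lf 0 161919 0) (P.cons (P.lf 4251 0 0) P.nil)) (P.cons (P.cons (P.lf 10746 0 0) P.nil) P.nil)))))) 6432)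
 (EL.cons 11 (TM.mk (P.cons (P.cons (P.lf 649807602 0 0) (P.cons (P.lf 640737699 0 0) (P.cons (P.lf 0 20049300 0) (P.cons (P.lf 0 3673953 0) (P.lf 131211 0 0))))) (P.cons (P.cons (P.lf 5577348 0 0) (P.cons (P.lf 5499501 0 0) (P.cons (P.lf 0 172083 0) (P.cons (P.lf 0 31533 0) (P.lf 1125 0 0))))) (P.cons (P.cons (P.lf 0 2764749 0) (P.cons (P.lf 0 2726160 0) (P.cons (P.lf 85302 0 0) (P.cons (P.lf 15630 0 0) P.nil)))) (P.cons (P.cons (P.lf 0 23844 0) (P.cons (P.lf 0 23511 0) (P.cons (P.lf 735 0 0) P.nil))) (P.cons (P.cons (P.lf 5862 0 0) (P.cons (P.lf 5781 0 0) P.nil)) (P.cons (P.cons (P.lf 54 0 0) P.nil) P.nil)))))) 1164)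
 EL.nil)))
noncomputable def S241_256_216_290_22 : EL := (EL.cons 4 (TM.mk (P.cons (P.cons (P.lf 1177072689 0 0) (P.cons (P.lf 0 38025276 0) (P.cons (P.lf 0 18392910 0) (P.cons (P.lf 436857 0 0) (P.cons (P.lf 0 78738 0) (P.cons (P.lf 9393 0 0) P.nil)))))) (P.cons (P.cons (P.lf 253869312 0 0) (P.cons (P.lf 0 25153662 0) (P.cons (P.lf 0 11443764 0) (P.cons (P.lf 971688 0 0) (P.cons (P.lf 76542 0 0) P.nil))))) (P.cons (P.cons (P.lf 0 65313396 0) (P.cons (P.lf 1960881 0 0) (P.cons (P.lf 944004 0 0) (P.cons (P.lf 0 26757 0) P.nil)))) (P.cons (P.cons (P.lf 0 2447667 0) (P.cons (P.lf 404964 0 0) (P.cons (P.lf 185337 0 0) P.nil))) (P.cons (P.cons (P.lf 894780 0 0) (P.cons (P.lf 0 23976 0) P.nil)) (P.cons (P.cons (P.lf 6159 0 0) P.nil) P.nil)))))) 63408)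
 (EL.cons 8 (TM.mk (P.cons (P.cons (P.lf 0 46028778 0) (P.cons (P.lf 1486953 0 0) (P.cons (P.lf 719241 0 0) (P.cons (P.lf 0 17076 0) (P.cons (P.lf 3078 0 0) (P.cons (P.lf 0 366 0) P.nil)))))) (P.cons (P.cons (P.lf 36200238 0 0) (P.cons (P.lf 0 506535 0) (P.cons (P.lf 0 273288 0) (P.cons (P.lf 0 20874 0) (P.cons (P.lf 0 6078 0) P.nil))))) (P.cons (P.cons (P.lf 12354261 0 0) (P.cons (P.lf 0 1057611 0) (P.cons (P.lf 0 483054 0) (P.cons (P.lf 39066 0 0) P.nil)))) (P.cons (P.cons (P.lf 0 2445984 0) (P.cons (P.lf 62574 0 0) (P.cons (P.lf 30411 0 0) P.nil))) (P.cons (P.cons (P.lf 0 112173 0) (P.cons (P.lf 15498 0 0) P.nil)) (P.cons (P.cons (P.lf 32358 0 0) P.nil) P.nil)))))) 24978)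
 (EL.cons 11 (TM.mk (P.cons (P.cons (P.lf 392821041 0 0) (P.cons (P.lf 371079006 0 0) (P.cons (P.lf 0 35827635 0) (P.cons (P.lf 0 8921982 0) (P.cons (P.lf 768450 0 0) (P.cons (P.lf 28833 0 0) P.nil)))))) (P.cons (P.cons (P.lf 0 19667964 0) (P.cons (P.lf 0 19742322 0) (P.cons (P.lf 98133 0 0) (P.cons (P.lf 0 32586 0) (P.cons (P.lf 10812 0 0) P.nil))))) (P.cons (P.cons (P.lf 0 5004570 0) (P.cons (P.lf 0 4764018 0) (P.cons (P.lf 403305 0 0) (P.cons (P.lf 98646 0 0) P.nil)))) (P.cons (P.cons (P.lf 294213 0 0) (P.cons (P.lf 293820 0 0) (P.cons (P.lf 0 3660 0) P.nil))) (P.cons (P.cons (P.lf 31158 0 0) (P.cons (P.lf 29832 0 0) P.nil)) (P.cons (P.cons (P.lf 0 1656 0) P.nil) P.nil)))))) 24270)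
 EL.nil)))
noncomputable def S241_256_216_290_23 : EL := (EL.cons 4 (TM.mk (P.cons (P.cons (P.lf 0 113966949 0) (P.cons (P.lf 0 1035462 0) (P.cons (P.lf 0 488802 0) (P.lf 23274 0 0)))) (P.cons (P.cons (P.lf 82458096 0 0) (P.cons (P.lf 2053158 0 0) (P.cons (P.lf 969216 0 0) (P.lf 0 46152 0)))) (P.cons (P.cons (P.lf 35143854 0 0) (P.cons (P.lf 0 991194 0) (P.cons (P.lf 0 467904 0) (P.lf 22281 0 0)))) (P.cons (P.cons (P.lf 0 3327102 0) (P.cons (P.lf 0 35067 0) (P.cons (P.lf 0 16554 0) P.nil))) (P.cons (P.cons (P.lf 0 331362 0) (P.cons (P.lf 8376 0 0) P.nil)) (P.cons (P.cons (P.lf 21966 0 0) P.nil) P.nil)))))) 7407)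
 (EL.cons 8 (TM.mk (P.cons (P.cons (P.lf 4456614 0 0) (P.cons (P.lf 40491 0 0) (P.cons (P.lf 19113 0 0) (P.lf 0 909 0)))) (P.cons (P.cons (P.lf 0 7690665 0) (P.cons (P.lf 0 120864 0) (P.cons (P.lf 0 57054 0) (P.lf 2715 0 0)))) (P.cons (P.cons (P.lf 1871505 0 0) (P.cons (P.lf 119349 0 0) (P.cons (P.lf 56340 0 0) (P.lf 0 2682 0)))) (P.cons (P.cons (P.lf 1492104 0 0) (P.cons (P.lf 0 37773 0) (P.cons (P.lf 0 17832 0) P.nil))) (P.cons (P.cons (P.lf 0 118341 0) (P.cons (P.lf 0 1488 0) P.nil)) (P.cons (P.cons (P.lf 0 11958 0) P.nil) P.nil)))))) 3426)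
 (EL.cons 11 (TM.mk (P.cons (P.cons (P.lf 0 38033856 0) (P.cons (P.lf 0 37502988 0) (P.cons (P.lf 1173504 0 0) (P.cons (P.lf 215037 0 0) (P.lf 0 7677 0))))) (P.cons (P.cons (P.lf 37625886 0 0) (P.cons (P.lf 37100709 0 0) (P.cons (P.lf 0 1160916 0) (P.cons (P.lf 0 212733 0) (P.lf 7596 0 0))))) (P.cons (P.cons (P.lf 609681 0 0) (P.cons (P.lf 601170 0 0) (P.cons (P.lf 0 18810 0) (P.cons (P.lf 0 3444 0) P.nil)))) (P.cons (P.cons (P.lf 0 199443 0) (P.cons (P.lf 0 196659 0) (P.cons (P.lf 6153 0 0) P.nil))) (P.cons (P.cons (P.lf 0 2817 0) (P.cons (P.lf 0 2778 0) P.nil)) (P.cons (P.cons (P.lf 546 0 0) P.nil) P.nil)))))) 2112)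
 EL.nil)))
noncomputable def S241_256_216_290_24 : EL := (EL.cons 4 (TM.mk (P.cons (P.cons (P.lf 0 68895183 0) (P.cons (P.lf 2225655 0 0) (P.cons (P.lf 1076553 0 0) (P.cons (P.lf 0 25569 0) (P.cons (P.lf 4608 0 0) (P.cons (P.lf 0 549 0) P.nil)))))) (P.cons (P.cons (P.lf 53888295 0 0) (P.cons (P.lf 0 748617 0) (P.cons (P.lf 0 404430 0) (P.cons (P.lf 0 31356 0) (P.cons (P.lf 0 9078 0) P.nil))))) (P.cons (P.cons (P.lf 18871410 0 0) (P.cons (P.lf 0 1591029 0) (P.cons (P.lf 0 727086 0) (P.cons (P.lf 58398 0 0) P.nil)))) (P.cons (P.cons (P.lf 0 3696894 0) (P.cons (P.lf 88461 0 0) (P.cons (P.lf 43278 0 0) P.nil))) (P.cons (P.cons (P.lf 0 223785 0) (P.cons (P.lf 27000 0 0) P.nil)) (P.cons (P.cons (P.lf 55491 0 0) P.nil) P.nil)))))) 39021)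
 (EL.cons 8 (TM.mk (P.cons (P.cons (P.lf 2694108 0 0) (P.cons (P.lf 0 87030 0) (P.cons (P.lf 0 42096 0) (P.cons (P.lf 999 0 0) (P.cons (P.lf 0 180 0) (P.cons (P.lf 21 0 0) P.nil)))))) (P.cons (P.cons (P.lf 0 4807167 0) (P.cons (P.lf 116493 0 0) (P.cons (P.lf 58002 0 0) (P.cons (P.lf 222 0 0) (P.cons (P.lf 534 0 0) P.nil))))) (P.cons (P.cons (P.lf 1382535 0 0) (P.cons (P.lf 32598 0 0) (P.cons (P.lf 12447 0 0) (P.cons (P.lf 0 3507 0) P.nil)))) (P.cons (P.cons (P.lf 874386 0 0) (P.cons (P.lf 0 65619 0) (P.cons (P.lf 0 30087 0) P.nil))) (P.cons (P.cons (P.lf 0 136206 0) (P.cons (P.lf 2577 0 0) P.nil)) (P.cons (P.cons (P.lf 0 9687 0) P.nil) P.nil)))))) 11739)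
 (EL.cons 11 (TM.mk (P.cons (P.cons (P.lf 0 22992189 0) (P.cons (P.lf 0 21719607 0) (P.cons (P.lf 2097024 0 0) (P.cons (P.lf 522210 0 0) (P.cons (P.lf 0 44976 0) (P.cons (P.lf 0 1686 0) P.nil)))))) (P.cons (P.cons (P.lf 24094089 0 0) (P.cons (P.lf 22828587 0 0) (P.cons (P.lf 0 2098272 0) (P.cons (P.lf 0 519183 0) (P.cons (P.lf 44247 0 0) P.nil))))) (P.cons (P.cons (P.lf 0 781974 0) (P.cons (P.lf 0 804483 0) (P.cons (P.lf 0 24606 0) (P.cons (P.lf 0 9351 0) P.nil)))) (P.cons (P.cons (P.lf 0 337641 0) (P.cons (P.lf 0 322230 0) (P.cons (P.lf 26016 0 0) P.nil))) (P.cons (P.cons (P.lf 15510 0 0) (P.cons (P.lf 15621 0 0) P.nil)) (P.cons (P.cons (P.lf 2313 0 0) P.nil) P.nil)))))) 18384)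
 EL.nil)))
noncomputable def S241_256_216_290_25 : EL := (EL.cons 4 (TM.mk (P.cons (P.cons (P.lf 6670593 0 0) (P.cons (P.lf 60606 0 0) (P.cons (P.lf 28608 0 0) (P.lf 0 1362 0)))) (P.cons (P.cons (P.lf 0 11482644 0) (P.cons (P.lf 0 180648 0) (P.cons (P.lf 0 85275 0) (P.lf 4059 0 0)))) (P.cons (P.cons (P.lf 2737584 0 0) (P.cons (P.lf 177735 0 0) (P.cons (P.lf 83901 0 0) (P.lf 0 3993 0)))) (P.cons (P.cons (P.lf 2269914 0 0) (P.cons (P.lf 0 55386 0) (P.cons (P.lf 0 26145 0) P.nil))) (P.cons (P.cons (P.lf 0 173409 0) (P.cons (P.lf 0 2850 0) P.nil)) (P.cons (P.cons (P.lf 0 23484 0) P.nil) P.nil)))))) 5898)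
 (EL.cons 8 (TM.mk (P.cons (P.cons (P.lf 0 260847 0) (P.cons (P.lf 0 2370 0) (P.cons (P.lf 0 1116 0) (P.lf 51 0 0)))) (P.cons (P.cons (P.lf 710430 0 0) (P.cons (P.lf 9438 0 0) (P.cons (P.lf 4455 0 0) (P.lf 0 210 0)))) (P.cons (P.cons (P.lf 0 557880 0) (P.cons (P.lf 0 14037 0) (P.cons (P.lf 0 6624 0) (P.lf 315 0 0)))) (P.cons (P.cons (P.lf 20247 0 0) (P.cons (P.lf 9156 0 0) (P.cons (P.lf 4320 0 0) P.nil))) (P.cons (P.cons (P.lf 94902 0 0) (P.cons (P.lf 0 2088 0) P.nil)) (P.cons (P.cons (P.lf 0 6045 0) P.nil) P.nil)))))) 2655)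
 (EL.cons 11 (TM.mk (P.cons (P.cons (P.lf 2226156 0 0) (P.cons (P.lf 2195085 0 0) (P.cons (P.lf 0 68685 0) (P.cons (P.lf 0 12585 0) (P.lf 447 0 0))))) (P.cons (P.cons (P.lf 0 4423665 0) (P.cons (P.lf 0 4361919 0) (P.cons (P.lf 136488 0 0) (P.cons (P.lf 25011 0 0) (P.lf 0 891 0))))) (P.cons (P.cons (P.lf 2154723 0 0) (P.cons (P.lf 2124648 0 0) (P.cons (P.lf 0 66480 0) (P.cons (P.lf 0 12180 0) P.nil)))) (P.cons (P.cons (P.lf 56718 0 0) (P.cons (P.lf 55926 0 0) (P.cons (P.lf 0 1749 0) P.nil))) (P.cons (P.cons (P.lf 0 13695 0) (P.cons (P.lf 0 13503 0) P.nil)) (P.cons (P.cons (P.lf 0 285 0) P.nil) P.nil)))))) 1779)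
 EL.nil)))
noncomputable def S241_256_216_290_26 : EL := (EL.cons 4 (TM.mk (P.cons (P.cons (P.lf 4032498 0 0) (P.cons (P.lf 0 130269 0) (P.cons (P.lf 0 63009 0) (P.cons (P.lf 1494 0 0) (P.cons (P.lf 0 267 0) (P.cons (P.lf 30 0 0) P.nil)))))) (P.cons (P.cons (P.lf 0 7177989 0) (P.cons (P.lf 173805 0 0) (P.cons (P.lf 86547 0 0) (P.cons (P.lf 342 0 0) (P.cons (P.lf 798 0 0) P.nil))))) (P.cons (P.cons (P.lf 2029863 0 0) (P.cons (P.lf 49818 0 0) (P.cons (P.lf 19137 0 0) (P.cons (P.lf 0 5253 0) P.nil)))) (P.cons (P.cons (P.lf 1332987 0 0) (P.cons (P.lf 0 98379 0) (P.cons (P.lf 0 45141 0) P.nil))) (P.cons (P.cons (P.lf 0 202602 0) (P.cons (P.lf 3330 0 0) P.nil)) (P.cons (P.cons (P.lf 0 18207 0) P.nil) P.nil)))))) 18771)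
 (EL.cons 8 (TM.mk (P.cons (P.cons (P.lf 0 157686 0) (P.cons (P.lf 5094 0 0) (P.cons (P.lf 2463 0 0) (P.cons (P.lf 0 57 0) (P.cons (P.lf 9 0 0) (P.cons (P.lf 0 0 0) P.nil)))))) (P.cons (P.cons (P.lf 438717 0 0) (P.cons (P.lf 0 11901 0) (P.cons (P.lf 0 5853 0) (P.cons (P.lf 45 0 0) (P.cons (P.lf 0 39 0) P.nil))))) (P.cons (P.cons (P.lf 0 361179 0) (P.cons (P.lf 4878 0 0) (P.cons (P.lf 2649 0 0) (P.cons (P.lf 216 0 0) P.nil)))) (P.cons (P.cons (P.lf 28497 0 0) (P.cons (P.lf 5772 0 0) (P.cons (P.lf 2499 0 0) P.nil))) (P.cons (P.cons (P.lf 59598 0 0) (P.cons (P.lf 0 3984 0) P.nil)) (P.cons (P.cons (P.lf 0 7308 0) P.nil) P.nil)))))) 5190)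
 (EL.cons 11 (TM.mk (P.cons (P.cons (P.lf 1345752 0 0) (P.cons (P.lf 1271268 0 0) (P.cons (P.lf 0 122739 0) (P.cons (P.lf 0 30564 0) (P.cons (P.lf 2631 0 0) (P.cons (P.lf 96 0 0) P.nil)))))) (P.cons (P.cons (P.lf 0 2753118 0) (P.cons (P.lf 0 2604723 0) (P.cons (P.lf 245289 0 0) (P.cons (P.lf 60888 0 0) (P.cons (P.lf 0 5214 0) P.nil))))) (P.cons (P.cons (P.lf 1448676 0 0) (P.cons (P.lf 1376319 0 0) (P.cons (P.lf 0 120714 0) (P.cons (P.lf 0 29676 0) P.nil)))) (P.cons (P.cons (P.lf 0 19950 0) (P.cons (P.lf 0 22485 0) (P.cons (P.lf 0 3483 0) P.nil))) (P.cons (P.cons (P.lf 0 22263 0) (P.cons (P.lf 0 21297 0) P.nil)) (P.cons (P.cons (P.lf 744 0 0) P.nil) P.nil)))))) 9258)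
 EL.nil)))
noncomputable def S241_256_216_290_27 : EL := (EL.cons 13 (TM.mk (P.lf 0 4294967296 0) 0)
 EL.nil)
noncomputable def S241_256_216_290_28 : EL := (EL.cons 13 (TM.mk (P.cons (P.cons (P.lf 0 2596389331 0) (P.cons (P.lf 107466148 0 0) (P.cons (P.lf 50730600 0 0) (P.lf 0 2415740 0)))) (P.cons (P.cons (P.lf 152282351 0 0) (P.cons (P.lf 1383580 0 0) (P.cons (P.lf 653136 0 0) (P.lf 0 31100 0)))) (P.cons (P.cons (P.lf 20724252 0 0) (P.cons (P.lf 0 682888 0) (P.cons (P.lf 0 322364 0) (P.lf 15348 0 0)))) (P.cons (P.cons (P.lf 0 1569867 0) (P.cons (P.lf 0 8860 0) (P.cons (P.lf 0 4180 0) P.nil))) (P.cons (P.cons (P.lf 0 75297 0) (P.cons (P.lf 2160 0 0) P.nil)) (P.cons (P.cons (P.lf 4523 0 0) P.nil) P.nil)))))) 1960)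
 EL.nil)
noncomputable def S241_256_216_290_29 : EL := (EL.cons 13 (TM.mk (P.cons (P.cons (P.lf 0 1569566679 0) (P.cons (P.lf 129930656 0 0) (P.cons (P.lf 58646268 0 0) (P.cons (P.lf 0 5459423 0) (P.cons (P.lf 0 478321 0) (P.cons (P.lf 57067 0 0) P.nil)))))) (P.cons (P.cons (P.lf 184115148 0 0) (P.cons (P.lf 0 5947838 0) (P.cons (P.lf 0 2876980 0) (P.cons (P.lf 68334 0 0) (P.cons (P.lf 0 12316 0) P.nil))))) (P.cons (P.cons (P.lf 19657085 0 0) (P.cons (P.lf 0 1960850 0) (P.cons (P.lf 0 891912 0) (P.cons (P.lf 75917 0 0) P.nil)))) (P.cons (P.cons (P.lf 0 3367626 0) (P.cons (P.lf 102921 0 0) (P.cons (P.lf 49471 0 0) P.nil))) (P.cons (P.cons (P.lf 0 79714 0) (P.cons (P.lf 14609 0 0) P.nil)) (P.cons (P.cons (P.lf 25957 0 0) P.nil) P.nil)))))) 29396)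
 EL.nil)
noncomputable def S241_256_216_290_30 : EL := (EL.cons 13 (TM.mk (P.cons (P.lf 251388528 0 0) (P.cons (P.lf 0 250849684 0) (P.cons (P.lf 0 807108 0) (P.cons (P.lf 267112 0 0) (P.cons (P.lf 1436 0 0) (P.cons (P.lf 0 280 0) P.nil)))))) 32)
 EL.nil)
noncomputable def S241_256_216_290_31 : EL := (EL.cons 13 (TM.mk (P.cons (P.cons (P.lf 151969141 0 0) (P.cons (P.lf 0 6290096 0) (P.cons (P.lf 0 2969310 0) (P.lf 141395 0 0)))) (P.cons (P.cons (P.lf 0 160556630 0) (P.cons (P.lf 6195631 0 0) (P.cons (P.lf 2924717 0 0) (P.lf 0 139272 0)))) (P.cons (P.cons (P.lf 7193203 0 0) (P.cons (P.lf 140973 0 0) (P.cons (P.lf 66548 0 0) (P.lf 0 3168 0)))) (P.cons (P.cons (P.lf 1492387 0 0) (P.cons (P.lf 0 45789 0) (P.cons (P.lf 0 21615 0) P.nil))) (P.cons (P.cons (P.lf 0 91989 0) (P.cons (P.lf 0 894 0) P.nil)) (P.cons (P.cons (P.lf 0 6466 0) P.nil) P.nil)))))) 2296)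
 EL.nil)
noncomputable def S241_256_216_290_32 : EL := (EL.cons 13 (TM.mk (P.cons (P.cons (P.lf 91868233 0 0) (P.cons (P.lf 0 7604965 0) (P.cons (P.lf 0 3432621 0) (P.cons (P.lf 319545 0 0) (P.cons (P.lf 27996 0 0) (P.cons (P.lf 0 3340 0) P.nil)))))) (P.cons (P.cons (P.lf 0 102447751 0) (P.cons (P.lf 7936796 0 0) (P.cons (P.lf 3593656 0 0) (P.cons (P.lf 0 322859 0) (P.cons (P.lf 0 27215 0) P.nil))))) (P.cons (P.cons (P.lf 9307835 0 0) (P.cons (P.lf 0 208199 0) (P.cons (P.lf 0 104806 0) (P.cons (P.lf 0 1478 0) P.nil)))) (P.cons (P.cons (P.lf 1477405 0 0) (P.cons (P.lf 0 129746 0) (P.cons (P.lf 0 59176 0) P.nil))) (P.cons (P.cons (P.lf 0 199253 0) (P.cons (P.lf 5114 0 0) P.nil)) (P.cons (P.cons (P.lf 0 8194 0) P.nil) P.nil)))))) 18601)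
 EL.nil)
noncomputable def S241_256_216_290_33 : EL := (EL.cons 14 (TM.mk (P.lf 8589934592 0 0) 0)
 EL.nil)
noncomputable def S241_256_216_290_34 : EL := (EL.cons 14 (TM.mk (P.cons (P.cons (P.lf 5192778662 0 0) (P.cons (P.lf 0 214932296 0) (P.cons (P.lf 0 101461200 0) (P.lf 4831480 0 0)))) (P.cons (P.cons (P.lf 0 304564702 0) (P.cons (P.lf 0 2767160 0) (P.cons (P.lf 0 1306272 0) (P.lf 62200 0 0)))) (P.cons (P.cons (P.lf 0 41448504 0) (P.cons (P.lf 1365776 0 0) (P.cons (P.lf 644728 0 0) (P.lf 0 30696 0)))) (P.cons (P.cons (P.lf 3139734 0 0) (P.cons (P.lf 17720 0 0) (P.cons (P.lf 8360 0 0) P.nil))) (P.cons (P.cons (P.lf 150594 0 0) (P.cons (P.lf 0 4320 0) P.nil)) (P.cons (P.cons (P.lf 0 9046 0) P.nil) P.nil)))))) 3920)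
 EL.nil)
noncomputable def S241_256_216_290_35 : EL := (EL.cons 14 (TM.mk (P.cons (P.cons (P.lf 3139133358 0 0) (P.cons (P.lf 0 259861312 0) (P.cons (P.lf 0 117292536 0) (P.cons (P.lf 10918846 0 0) (P.cons (P.lf 956642 0 0) (P.cons (P.lf 0 114134 0) P.nil)))))) (P.cons (P.cons (P.lf 0 368230296 0) (P.cons (P.lf 11895676 0 0) (P.cons (P.lf 5753960 0 0) (P.cons (P.lf 0 136668 0) (P.cons (P.lf 24632 0 0) P.nil))))) (P.cons (P.cons (P.lf 0 39314170 0) (P.cons (P.lf 3921700 0 0) (P.cons (P.lf 1783824 0 0) (P.cons (P.lf 0 151834 0) P.nil)))) (P.cons (P.cons (P.lf 6735252 0 0) (P.cons (P.lf 0 205842 0) (P.cons (P.lf 0 98942 0) P.nil))) (P.cons (P.cons (P.lf 159428 0 0) (P.cons (P.lf 0 29218 0) P.nil)) (P.cons (P.cons (P.lf 0 51914 0) P.nil) P.nil)))))) 58792)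
 EL.nil)
noncomputable def S241_256_216_290_36 : EL := (EL.cons 14 (TM.mk (P.cons (P.lf 0 502777056 0) (P.cons (P.lf 501699368 0 0) (P.cons (P.lf 1614216 0 0) (P.cons (P.lf 0 534224 0) (P.cons (P.lf 0 2872 0) (P.cons (P.lf 560 0 0) P.nil)))))) 64)
 EL.nil)
noncomputable def S241_256_216_290_37 : EL := (EL.cons 14 (TM.mk (P.cons (P.cons (P.lf 0 303938282 0) (P.cons (P.lf 12580192 0 0) (P.cons (P.lf 5938620 0 0) (P.lf 0 282790 0)))) (P.cons (P.cons (P.lf 321113260 0 0) (P.cons (P.lf 0 12391262 0) (P.cons (P.lf 0 5849434 0) (P.lf 278544 0 0)))) (P.cons (P.cons (P.lf 0 14386406 0) (P.cons (P.lf 0 281946 0) (P.cons (P.lf 0 133096 0) (P.lf 6336 0 0)))) (P.cons (P.cons (P.lf 0 2984774 0) (P.cons (P.lf 91578 0 0) (P.cons (P.lf 43230 0 0) P.nil))) (P.cons (P.cons (P.lf 183978 0 0) (P.cons (P.lf 1788 0 0) P.nil)) (P.cons (P.cons (P.lf 12932 0 0) P.nil) P.nil)))))) 4592)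
 EL.nil)
noncomputable def S241_256_216_290_38 : EL := (EL.cons 14 (TM.mk (P.cons (P.cons (P.lf 0 183736466 0) (P.cons (P.lf 15209930 0 0) (P.cons (P.lf 6865242 0 0) (P.cons (P.lf 0 639090 0) (P.cons (P.lf 0 55992 0) (P.cons (P.lf 6680 0 0) P.nil)))))) (P.cons (P.cons (P.lf 204895502 0 0) (P.cons (P.lf 0 15873592 0) (P.cons (P.lf 0 7187312 0) (P.cons (P.lf 645718 0 0) (P.cons (P.lf 54430 0 0) P.nil))))) (P.cons (P.cons (P.lf 0 18615670 0) (P.cons (P.lf 416398 0 0) (P.cons (P.lf 209612 0 0) (P.cons (P.lf 2956 0 0) P.nil)))) (P.cons (P.cons (P.lf 0 2954810 0) (P.cons (P.lf 259492 0 0) (P.cons (P.lf 118352 0 0) P.nil))) (P.cons (P.cons (P.lf 398506 0 0) (P.cons (P.lf 0 10228 0) P.nil)) (P.cons (P.cons (P.lf 16388 0 0) P.nil) P.nil)))))) 37202)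
 EL.nil)
noncomputable def S241_256_216_290_39 : EL := (EL.cons 14 (TM.mk (P.cons (P.lf 29428020 0 0) (P.cons (P.lf 0 58729884 0) (P.cons (P.lf 29113034 0 0) (P.cons (P.lf 251094 0 0) (P.cons (P.lf 0 61762 0) (P.cons (P.lf 0 600 0) P.nil)))))) 128)
 EL.nil)
noncomputable def S241_256_216_290_40 : EL := (EL.cons 14 (TM.mk (P.cons (P.cons (P.lf 17789796 0 0) (P.cons (P.lf 0 736330 0) (P.cons (P.lf 0 347592 0) (P.lf 16552 0 0)))) (P.cons (P.cons (P.lf 0 36546730 0) (P.cons (P.lf 1460024 0 0) (P.cons (P.lf 689220 0 0) (P.lf 0 32820 0)))) (P.cons (P.cons (P.lf 19539710 0 0) (P.cons (P.lf 0 704850 0) (P.cons (P.lf 0 332732 0) (P.lf 15844 0 0)))) (P.cons (P.cons (P.lf 0 586298 0) (P.cons (P.lf 0 24938 0) (P.cons (P.lf 0 11772 0) P.nil))) (P.cons (P.cons (P.lf 0 207666 0) (P.cons (P.lf 5956 0 0) P.nil)) (P.cons (P.cons (P.lf 10196 0 0) P.nil) P.nil)))))) 5196)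
 EL.nil)
noncomputable def S241_256_216_290_41 : EL := (EL.cons 14 (TM.mk (P.cons (P.cons (P.lf 10754270 0 0) (P.cons (P.lf 0 890250 0) (P.cons (P.lf 0 401828 0) (P.cons (P.lf 37406 0 0) (P.cons (P.lf 3276 0 0) (P.cons (P.lf 0 390 0) P.nil)))))) (P.cons (P.cons (P.lf 0 22723946 0) (P.cons (P.lf 1817440 0 0) (P.cons (P.lf 821648 0 0) (P.cons (P.lf 0 75120 0) (P.cons (P.lf 0 6456 0) P.nil))))) (P.cons (P.cons (P.lf 13022086 0 0) (P.cons (P.lf 0 948618 0) (P.cons (P.lf 0 430756 0) (P.cons (P.lf 37420 0 0) P.nil)))) (P.cons (P.cons (P.lf 0 864378 0) (P.cons (P.lf 5202 0 0) (P.cons (P.lf 3536 0 0) P.nil))) (P.cons (P.cons (P.lf 0 212080 0) (P.cons (P.lf 16814 0 0) P.nil)) (P.cons (P.cons (P.lf 22838 0 0) P.nil) P.nil)))))) 19110)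
 EL.nil)
noncomputable def S241_256_216_290_42 : EL := (EL.cons 14 (TM.mk (P.cons (P.lf 0 1722450 0) (P.cons (P.lf 5156274 0 0) (P.cons (P.lf 0 5128630 0) (P.cons (P.lf 1672796 0 0) (P.cons (P.lf 27392 0 0) (P.cons (P.lf 0 5312 0) P.nil)))))) 110)
 EL.nil)
noncomputable def S241_256_216_290_43 : EL := (EL.cons 14 (TM.mk (P.cons (P.cons (P.lf 0 1041252 0) (P.cons (P.lf 43098 0 0) (P.cons (P.lf 20344 0 0) (P.lf 0 968 0)))) (P.cons (P.cons (P.lf 3178136 0 0) (P.cons (P.lf 0 128462 0) (P.cons (P.lf 0 60642 0) (P.lf 2886 0 0)))) (P.cons (P.cons (P.lf 0 3274862 0) (P.cons (P.lf 126390 0 0) (P.cons (P.lf 59664 0 0) (P.lf 0 2840 0)))) (P.cons (P.cons (P.lf 1167566 0 0) (P.cons (P.lf 0 39386 0) (P.cons (P.lf 0 18592 0) P.nil))) (P.cons (P.cons (P.lf 0 16150 0) (P.cons (P.lf 0 2028 0) P.nil)) (P.cons (P.cons (P.lf 0 14036 0) P.nil) P.nil)))))) 3876)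
 EL.nil)
noncomputable def S241_256_216_290_44 : EL := (EL.cons 14 (TM.mk (P.cons (P.cons (P.lf 0 629456 0) (P.cons (P.lf 52106 0 0) (P.cons (P.lf 23518 0 0) (P.cons (P.lf 0 2188 0) (P.cons (P.lf 0 190 0) (P.cons (P.lf 22 0 0) P.nil)))))) (P.cons (P.cons (P.lf 1958162 0 0) (P.cons (P.lf 0 158372 0) (P.cons (P.lf 0 71560 0) (P.cons (P.lf 6580 0 0) (P.cons (P.lf 568 0 0) P.nil))))) (P.cons (P.cons (P.lf 0 2087376 0) (P.cons (P.lf 161504 0 0) (P.cons (P.lf 73124 0 0) (P.cons (P.lf 0 6570 0) P.nil)))) (P.cons (P.cons (P.lf 806214 0 0) (P.cons (P.lf 0 55312 0) (P.cons (P.lf 0 25186 0) P.nil))) (P.cons (P.cons (P.lf 0 34214 0) (P.cons (P.lf 0 970 0) P.nil)) (P.cons (P.cons (P.lf 0 14686 0) P.nil) P.nil)))))) 9880)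
 EL.nil)
noncomputable def S241_256_216_290_45 : EL := (EL.cons 14 (TM.mk (P.cons (P.cons (P.lf 1897665754 0 0) (P.cons (P.lf 0 235636650 0) (P.cons (P.lf 0 101481776 0) (P.cons (P.lf 14370494 0 0) (P.cons (P.lf 1544358 0 0) (P.cons (P.lf 0 287874 0) P.nil)))))) (P.cons (P.cons (P.lf 0 333903314 0) (P.cons (P.lf 24607206 0 0) (P.cons (P.lf 11295200 0 0) (P.cons (P.lf 0 861318 0) (P.cons (P.lf 0 64442 0) P.nil))))) (P.cons (P.cons (P.lf 0 25857264 0) (P.cons (P.lf 4804292 0 0) (P.cons (P.lf 2053004 0 0) (P.cons (P.lf 0 308394 0) P.nil)))) (P.cons (P.cons (P.lf 8389704 0 0) (P.cons (P.lf 0 623798 0) (P.cons (P.lf 0 286612 0) P.nil))) (P.cons (P.cons (P.lf 0 32286 0) (P.cons (P.lf 0 44242 0) P.nil)) (P.cons (P.cons (P.lf 0 93666 0) P.nil) P.nil)))))) 197308)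
 EL.nil)
noncomputable def S241_256_216_290_46 : EL := (EL.cons 15 (TM.mk (P.lf 4294967296 0 0) 0)
 EL.nil)
noncomputable def S241_256_216_290_47 : EL := (EL.cons 15 (TM.mk (P.cons (P.cons (P.lf 2596389331 0 0) (P.cons (P.lf 0 107466148 0) (P.cons (P.lf 0 50730600 0) (P.lf 2415740 0 0)))) (P.cons (P.cons (P.lf 0 152282351 0) (P.cons (P.lf 0 1383580 0) (P.cons (P.lf 0 653136 0) (P.lf 31100 0 0)))) (P.cons (P.cons (P.lf 0 20724252 0) (P.cons (P.lf 682888 0 0) (P.cons (P.lf 322364 0 0) (P.lf 0 15348 0)))) (P.cons (P.cons (P.lf 1569867 0 0) (P.cons (P.lf 8860 0 0) (P.cons (P.lf 4180 0 0) P.nil))) (P.cons (P.cons (P.lf 75297 0 0) (P.cons (P.lf 0 2160 0) P.nil)) (P.cons (P.cons (P.lf 0 4523 0) P.nil) P.nil)))))) 1960)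
 EL.nil)
noncomputable def S241_256_216_290_48 : EL := (EL.cons 15 (TM.mk (P.cons (P.cons (P.lf 1569566679 0 0) (P.cons (P.lf 0 129930656 0) (P.cons (P.lf 0 58646268 0) (P.cons (P.lf 5459423 0 0) (P.cons (P.lf 478321 0 0) (P.cons (P.lf 0 57067 0) P.nil)))))) (P.cons (P.cons (P.lf 0 184115148 0) (P.cons (P.lf 5947838 0 0) (P.cons (P.lf 2876980 0 0) (P.cons (P.lf 0 68334 0) (P.cons (P.lf 12316 0 0) P.nil))))) (P.cons (P.cons (P.lf 0 19657085 0) (P.cons (P.lf 1960850 0 0) (P.cons (P.lf 891912 0 0) (P.cons (P.lf 0 75917 0) P.nil)))) (P.cons (P.cons (P.lf 3367626 0 0) (P.cons (P.lf 0 102921 0) (P.cons (P.lf 0 49471 0) P.nil))) (P.cons (P.cons (P.lf 79714 0 0) (P.cons (P.lf 0 14609 0) P.nil)) (P.cons (P.cons (P.lf 0 25957 0) P.nil) P.nil)))))) 29396)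
 EL.nil)
noncomputable def S241_256_216_290 : SL := (SL.cons S241_256_216_290_0 (SL.cons S241_256_216_290_1 (SL.cons S241_256_216_290_2 (SL.cons S241_256_216_290_3 (SL.cons S241_256_216_290_4 (SL.cons S241_256_216_290_5 (SL.cons S241_256_216_290_6 (SL.cons S241_256_216_290_7 (SL.cons S241_256_216_290_8 (SL.cons S241_256_216_290_9 (SL.cons S241_256_216_290_10 (SL.cons S241_256_216_290_11 (SL.cons S241_256_216_290_12 (SL.cons S241_256_216_290_13 (SL.cons S241_256_216_290_14 (SL.cons S241_256_216_290_15 (SL.cons S241_256_216_290_16 (SL.cons S241_256_216_290_17 (SL.cons S241_256_216_290_18 (SL.cons S241_256_216_290_19 (SL.cons S241_256_216_290_20 (SL.cons S241_256_216_290_21 (SL.cons S241_256_216_290_22 (SL.cons S241_256_216_290_23 (SL.cons S241_256_216_290_24 (SL.cons S241_256_216_290_25 (SL.cons S241_256_216_290_26 (SL.cons S241_256_216_290_27 (SL.cons S241_256_216_290_28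 (SL.cons S241_256_216_290_29 (SL.cons S241_256_216_290_30 (SL.cons S241_256_216_290_31 (SL.cons S241_256_216_290_32 (SL.cons S241_256_216_290_33 (SL.cons S241_256_216_290_34 (SL.cons S241_256_216_290_35 (SL.cons S241_256_216_290_36 (SL.cons S241_256_216_290_37 (SL.cons S241_256_216_290_38 (SL.cons S241_256_216_290_39 (SL.cons S241_256_216_290_40 (SL.cons S241_256_216_290_41 (SL.cons S241_256_216_290_42 (SL.cons S241_256_216_290_43 (SL.cons S241_256_216_290_44 (SL.cons S241_256_216_290_45 (SL.cons S241_256_216_290_46 (SL.cons S241_256_216_290_47 (SL.cons S241_256_216_290_48 SL.nil)))))))))))))))))))))))))))))))))))))))))))))))))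
noncomputable def S241_256_216_364_0 : EL := (EL.cons 0 (TM.mk (P.cons (P.lf 8429852393 0 0) (P.cons (P.lf 51618062 0 0) (P.cons (P.lf 0 25587627 0) (P.cons (P.lf 0 220688 0) (P.cons (P.lf 54283 0 0) (P.cons (P.lf 527 0 0) P.nil)))))) 119)
 (EL.cons 1 (TM.mk (P.cons (P.lf 0 235171578 0) (P.cons (P.lf 233658247 0 0) (P.cons (P.lf 2264585 0 0) (P.cons (P.lf 0 745863 0) (P.cons (P.lf 0 6716 0) (P.cons (P.lf 1310 0 0) P.nil)))))) 72)
 (EL.cons 5 (TM.mk (P.cons (P.lf 4304163554 0 0) (P.cons (P.lf 0 18353086 0) (P.cons (P.lf 9097822 0 0) (P.cons (P.lf 78466 0 0) (P.cons (P.lf 0 19296 0) (P.cons (P.lf 0 186 0) P.nil)))))) 147)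
 (EL.cons 9 (TM.mk (P.lf 6442450944 0 0) 2)
 EL.nil))))
noncomputable def S241_256_216_364_1 : EL := (EL.cons 0 (TM.mk (P.cons (P.cons (P.lf 5006752570 0 0) (P.cons (P.lf 0 784399291 0) (P.cons (P.lf 0 338241829 0) (P.lf 37582419 0 0)))) (P.cons (P.cons (P.lf 0 433682785 0) (P.cons (P.lf 0 29489592 0) (P.cons (P.lf 0 12716239 0) (P.lf 1412911 0 0)))) (P.cons (P.cons (P.lf 0 118328247 0) (P.cons (P.lf 14346983 0 0) (P.cons (P.lf 6186582 0 0) (P.lf 0 687390 0)))) (P.cons (P.cons (P.lf 9996675 0 0) (P.cons (P.lf 394558 0 0) (P.cons (P.lf 170133 0 0) P.nil))) (P.cons (P.cons (P.lf 915529 0 0) (P.cons (P.lf 0 94602 0) P.nil)) (P.cons (P.cons (P.lf 0 59964 0) P.nil) P.nil)))))) 76607)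
 (EL.cons 1 (TM.mk (P.cons (P.cons (P.lf 846400313 0 0) (P.cons (P.lf 55072642 0 0) (P.cons (P.lf 23747945 0 0) (P.lf 0 2638655 0)))) (P.cons (P.cons (P.lf 406724437 0 0) (P.cons (P.lf 0 53723639 0) (P.cons (P.lf 0 23166239 0) (P.lf 2574020 0 0)))) (P.cons (P.cons (P.lf 0 39763088 0) (P.cons (P.lf 0 2008818 0) (P.cons (P.lf 0 866220 0) (P.lf 96240 0 0)))) (P.cons (P.cons (P.lf 0 5873885 0) (P.cons (P.lf 645241 0 0) (P.cons (P.lf 278231 0 0) P.nil))) (P.cons (P.cons (P.lf 438302 0 0) (P.cons (P.lf 18081 0 0) P.nil)) (P.cons (P.cons (P.lf 35665 0 0) P.nil) P.nil)))))) 51094)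
 (EL.cons 5 (TM.mk (P.cons (P.cons (P.lf 2368855472 0 0) (P.cons (P.lf 0 406814908 0) (P.cons (P.lf 0 175423180 0) (P.lf 19491468 0 0)))) (P.cons (P.cons (P.lf 0 108091228 0) (P.cons (P.lf 1656904 0 0) (P.cons (P.lf 714476 0 0) (P.lf 0 79380 0)))) (P.cons (P.cons (P.lf 8523860 0 0) (P.cons (P.lf 0 743814 0) (P.cons (P.lf 0 320740 0) (P.lf 35636 0 0)))) (P.cons (P.cons (P.lf 0 863755 0) (P.cons (P.lf 0 83736 0) (P.cons (P.lf 0 36104 0) P.nil))) (P.cons (P.cons (P.lf 0 202828 0) (P.cons (P.lf 19820 0 0) P.nil)) (P.cons (P.cons (P.lf 13551 0 0) P.nil) P.nil)))))) 44733)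
 (EL.cons 9 (TM.mk (P.cons (P.cons (P.lf 3660912478 0 0) (P.cons (P.lf 0 605040378 0) (P.cons (P.lf 0 260900238 0) (P.lf 28988910 0 0)))) (P.cons (P.cons (P.lf 0 231431956 0) (P.cons (P.lf 0 7789656 0) (P.cons (P.lf 0 3358986 0) (P.lf 373218 0 0)))) (P.cons (P.cons (P.lf 0 29601522 0) (P.cons (P.lf 3844698 0 0) (P.cons (P.lf 1657878 0 0) (P.lf 0 184206 0)))) (P.cons (P.cons (P.lf 2374072 0 0) (P.cons (P.lf 49896 0 0) (P.cons (P.lf 21516 0 0) P.nil))) (P.cons (P.cons (P.lf 108241 0 0) (P.cons (P.lf 0 12186 0) P.nil)) (P.cons (P.cons (P.lf 0 6844 0) P.nil) P.nil)))))) 9619)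
 (EL.cons 2 (TM.mk (P.cons (P.cons (P.lf 69521231 0 0) (P.cons (P.lf 64765456 0 0) (P.cons (P.lf 0 6647042 0) (P.cons (P.lf 0 1382397 0) (P.lf 115197 0 0))))) (P.cons (P.cons (P.lf 0 68775508 0) (P.cons (P.lf 0 64070749 0) (P.cons (P.lf 6575743 0 0) (P.cons (P.lf 1367569 0 0) (P.lf 0 113962 0))))) (P.cons (P.cons (P.lf 0 1114425 0) (P.cons (P.lf 0 1038189 0) (P.cons (P.lf 106551 0 0) (P.cons (P.lf 22159 0 0) P.nil)))) (P.cons (P.cons (P.lf 364561 0 0) (P.cons (P.lf 339620 0 0) (P.cons (P.lf 0 34855 0) P.nil))) (P.cons (P.cons (P.lf 5152 0 0) (P.cons (P.lf 4800 0 0) P.nil)) (P.cons (P.cons (P.lf 0 998 0) P.nil) P.nil)))))) 11737)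
 (EL.cons 6 (TM.mk (P.cons (P.cons (P.lf 632118792 0 0) (P.cons (P.lf 588877131 0 0) (P.cons (P.lf 0 60437949 0) (P.cons (P.lf 0 12569409 0) (P.lf 1047450 0 0))))) (P.cons (P.cons (P.lf 8138283 0 0) (P.cons (P.lf 7581564 0 0) (P.cons (P.lf 0 778113 0) (P.cons (P.lf 0 161823 0) (P.lf 13482 0 0))))) (P.cons (P.cons (P.lf 0 4016772 0) (P.cons (P.lf 0 3741993 0) (P.cons (P.lf 384048 0 0) (P.cons (P.lf 79869 0 0) P.nil)))) (P.cons (P.cons (P.lf 0 52131 0) (P.cons (P.lf 0 48564 0) (P.cons (P.lf 4983 0 0) P.nil))) (P.cons (P.cons (P.lf 12735 0 0) (P.cons (P.lf 11862 0 0) P.nil)) (P.cons (P.cons (P.lf 174 0 0) P.nil) P.nil)))))) 9840)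
 EL.nil))))))
noncomputable def S241_256_216_364_2 : EL := (EL.cons 0 (TM.mk (P.cons (P.cons (P.lf 2968106304 0 0) (P.cons (P.lf 0 932132761 0) (P.cons (P.lf 0 328963964 0) (P.cons (P.lf 107602164 0 0) (P.cons (P.lf 6577045 0 0) (P.cons (P.lf 0 3015677 0) P.nil)))))) (P.cons (P.cons (P.lf 0 525101711 0) (P.cons (P.lf 52405762 0 0) (P.cons (P.lf 27664069 0 0) (P.cons (P.lf 1858237 0 0) (P.cons (P.lf 456546 0 0) P.nil))))) (P.cons (P.cons (P.lf 0 105819482 0) (P.cons (P.lf 38148979 0 0) (P.cons (P.lf 14037125 0 0) (P.cons (P.lf 0 3908939 0) P.nil)))) (P.cons (P.cons (P.lf 20454219 0 0) (P.cons (P.lf 0 2114115 0) (P.cons (P.lf 0 1029876 0) P.nil))) (P.cons (P.cons (P.lf 976722 0 0) (P.cons (P.lf 0 522257 0) P.nil)) (P.cons (P.cons (P.lf 0 269681 0) P.nil) P.nil)))))) 1931157)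
 (EL.cons 1 (TM.mk (P.cons (P.cons (P.lf 1037869627 0 0) (P.cons (P.lf 0 121489582 0) (P.cons (P.lf 0 60657726 0) (P.cons (P.lf 0 1311421 0) (P.cons (P.lf 0 745281 0) (P.cons (P.lf 341721 0 0) P.nil)))))) (P.cons (P.cons (P.lf 316379693 0 0) (P.cons (P.lf 0 117252185 0) (P.cons (P.lf 0 42610211 0) (P.cons (P.lf 12474296 0 0) (P.cons (P.lf 716457 0 0) P.nil))))) (P.cons (P.cons (P.lf 0 74306538 0) (P.cons (P.lf 7935157 0 0) (P.cons (P.lf 3895629 0 0) (P.cons (P.lf 28512 0 0) P.nil)))) (P.cons (P.cons (P.lf 0 5504584 0) (P.cons (P.lf 2616039 0 0) (P.cons (P.lf 979684 0 0) P.nil))) (P.cons (P.cons (P.lf 1422604 0 0) (P.cons (P.lf 0 139299 0) P.nil)) (P.cons (P.cons (P.lf 35678 0 0) P.nil) P.nil)))))) 1027919)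
 (EL.cons 5 (TM.mk (P.cons (P.cons (P.lf 1302355377 0 0) (P.cons (P.lf 0 447885024 0) (P.cons (P.lf 0 154683880 0) (P.cons (P.lf 54618708 0 0) (P.cons (P.lf 3464974 0 0) (P.cons (P.lf 0 1588739 0) P.nil)))))) (P.cons (P.cons (P.lf 0 111388412 0) (P.cons (P.lf 20599188 0 0) (P.cons (P.lf 8739531 0 0) (P.cons (P.lf 0 1110339 0) (P.cons (P.lf 0 12883 0) P.nil))))) (P.cons (P.cons (P.lf 8919268 0 0) (P.cons (P.lf 0 1676335 0) (P.cons (P.lf 0 672611 0) (P.cons (P.lf 123646 0 0) P.nil)))) (P.cons (P.cons (P.lf 0 1804411 0) (P.cons (P.lf 78648 0 0) (P.cons (P.lf 54798 0 0) P.nil))) (P.cons (P.cons (P.lf 0 246998 0) (P.cons (P.lf 96333 0 0) P.nil)) (P.cons (P.cons (P.lf 53507 0 0) P.nil) P.nil)))))) 1173222)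
 (EL.cons 9 (TM.mk (P.cons (P.cons (P.lf 2080307679 0 0) (P.cons (P.lf 0 687626460 0) (P.cons (P.lf 0 239690146 0) (P.cons (P.lf 81950500 0 0) (P.cons (P.lf 5120722 0 0) (P.cons (P.lf 0 2347929 0) P.nil)))))) (P.cons (P.cons (P.lf 0 263021680 0) (P.cons (P.lf 34616772 0 0) (P.cons (P.lf 16390269 0 0) (P.cons (P.lf 0 396741 0) (P.cons (P.lf 131854 0 0) P.nil))))) (P.cons (P.cons (P.lf 0 25328311 0) (P.cons (P.lf 10489173 0 0) (P.cons (P.lf 3810322 0 0) (P.cons (P.lf 0 1117230 0) P.nil)))) (P.cons (P.cons (P.lf 4824874 0 0) (P.cons (P.lf 0 593856 0) (P.cons (P.lf 0 274746 0) P.nil))) (P.cons (P.cons (P.lf 88459 0 0) (P.cons (P.lf 0 78837 0) P.nil)) (P.cons (P.cons (P.lf 0 37371 0) P.nil) P.nil)))))) 557050)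
 (EL.cons 2 (TM.mk (P.cons (P.cons (P.lf 79010656 0 0) (P.cons (P.lf 60547612 0 0) (P.cons (P.lf 0 25349996 0) (P.cons (P.lf 0 4942558 0) (P.cons (P.lf 1511791 0 0) (P.cons (P.lf 30504 0 0) P.nil)))))) (P.cons (P.cons (P.lf 0 83157963 0) (P.cons (P.lf 0 64719399 0) (P.cons (P.lf 25326528 0 0) (P.cons (P.lf 4945455 0 0) (P.cons (P.lf 0 1486074 0) P.nil))))) (P.cons (P.cons (P.lf 3035829 0 0) (P.cons (P.lf 3286771 0 0) (P.cons (P.lf 334738 0 0) (P.cons (P.lf 58038 0 0) P.nil)))) (P.cons (P.cons (P.lf 1177638 0 0) (P.cons (P.lf 950287 0 0) (P.cons (P.lf 0 312637 0) P.nil))) (P.cons (P.cons (P.lf 0 58443 0) (P.cons (P.lf 0 58950 0) P.nil)) (P.cons (P.cons (P.lf 0 8133 0) P.nil) P.nil)))))) 461474)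
 (EL.cons 6 (TM.mk (P.cons (P.cons (P.lf 718400988 0 0) (P.cons (P.lf 550526580 0 0) (P.cons (P.lf 0 230493774 0) (P.cons (P.lf 0 44939994 0) (P.cons (P.lf 13745946 0 0) (P.cons (P.lf 277398 0 0) P.nil)))))) (P.cons (P.cons (P.lf 0 36166026 0) (P.cons (P.lf 0 36749214 0) (P.cons (P.lf 0 708486 0) (P.cons (P.lf 0 70194 0) (P.cons (P.lf 263358 0 0) P.nil))))) (P.cons (P.cons (P.lf 0 10958616 0) (P.cons (P.lf 0 8719710 0) (P.cons (P.lf 3077328 0 0) (P.cons (P.lf 602412 0 0) P.nil)))) (P.cons (P.cons (P.lf 620424 0 0) (P.cons (P.lf 616992 0 0) (P.cons (P.lf 0 6156 0) P.nil))) (P.cons (P.cons (P.lf 82368 0 0) (P.cons (P.lf 67404 0 0) P.nil)) (P.cons (P.cons (P.lf 0 4266 0) P.nil) P.nil)))))) 529188)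
 EL.nil))))))
noncomputable def S241_256_216_364_3 : EL := (EL.cons 0 (TM.mk (P.cons (P.lf 25864470 0 0) (P.cons (P.lf 0 51618062 0) (P.cons (P.lf 25587627 0 0) (P.cons (P.lf 220688 0 0) (P.cons (P.lf 0 54283 0) (P.cons (P.lf 0 527 0) P.nil)))))) 119)
 (EL.cons 1 (TM.mk (P.cons (P.lf 235171578 0 0) (P.cons (P.lf 0 233658247 0) (P.cons (P.lf 0 2264585 0) (P.cons (P.lf 745863 0 0) (P.cons (P.lf 6716 0 0) (P.cons (P.lf 0 1310 0) P.nil)))))) 72)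
 (EL.cons 5 (TM.mk (P.cons (P.lf 2138287390 0 0) (P.cons (P.lf 18353086 0 0) (P.cons (P.lf 0 9097822 0) (P.cons (P.lf 0 78466 0) (P.cons (P.lf 19296 0 0) (P.cons (P.lf 186 0 0) P.nil)))))) 140)
 EL.nil)))
noncomputable def S241_256_216_364_4 : EL := (EL.cons 0 (TM.mk (P.cons (P.cons (P.lf 14697442 0 0) (P.cons (P.lf 0 2429050 0) (P.cons (P.lf 0 1047433 0) (P.lf 116381 0 0)))) (P.cons (P.cons (P.lf 0 30261009 0) (P.cons (P.lf 4816416 0 0) (P.cons (P.lf 2076892 0 0) (P.lf 0 230765 0)))) (P.cons (P.cons (P.lf 16275561 0 0) (P.cons (P.lf 0 2325204 0) (P.cons (P.lf 0 1002654 0) (P.lf 111404 0 0)))) (P.cons (P.cons (P.lf 0 547073 0) (P.cons (P.lf 0 82267 0) (P.cons (P.lf 0 35474 0) P.nil))) (P.cons (P.cons (P.lf 0 174928 0) (P.cons (P.lf 19652 0 0) P.nil)) (P.cons (P.cons (P.lf 9170 0 0) P.nil) P.nil)))))) 16037)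
 (EL.cons 1 (TM.mk (P.cons (P.cons (P.lf 133635873 0 0) (P.cons (P.lf 0 22086048 0) (P.cons (P.lf 0 9523753 0) (P.lf 1058193 0 0)))) (P.cons (P.cons (P.lf 0 141223985 0) (P.cons (P.lf 21659576 0 0) (P.cons (P.lf 9339853 0 0) (P.lf 0 1037760 0)))) (P.cons (P.cons (P.lf 6026291 0 0) (P.cons (P.lf 635540 0 0) (P.cons (P.lf 274051 0 0) (P.lf 0 30448 0)))) (P.cons (P.cons (P.lf 1665451 0 0) (P.cons (P.lf 0 204928 0) (P.cons (P.lf 0 88366 0) P.nil))) (P.cons (P.cons (P.lf 0 94723 0) (P.cons (P.lf 0 5137 0) P.nil)) (P.cons (P.cons (P.lf 0 9423 0) P.nil) P.nil)))))) 15169)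
 (EL.cons 5 (TM.mk (P.cons (P.cons (P.lf 1215078398 0 0) (P.cons (P.lf 0 200816462 0) (P.cons (P.lf 0 86594324 0) (P.lf 9621588 0 0)))) (P.cons (P.cons (P.lf 0 66384516 0) (P.cons (P.lf 0 4309054 0) (P.cons (P.lf 0 1858112 0) (P.lf 206454 0 0)))) (P.cons (P.cons (P.lf 0 15654038 0) (P.cons (P.lf 2108304 0 0) (P.cons (P.lf 909124 0 0) (P.lf 0 101012 0)))) (P.cons (P.cons (P.lf 985872 0 0) (P.cons (P.lf 45882 0 0) (P.cons (P.lf 19784 0 0) P.nil))) (P.cons (P.cons (P.lf 98274 0 0) (P.cons (P.lf 0 11048 0) P.nil)) (P.cons (P.cons (P.lf 0 5540 0) P.nil) P.nil)))))) 8990)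
 EL.nil)))
noncomputable def S241_256_216_364_5 : EL := (EL.cons 0 (TM.mk (P.cons (P.cons (P.lf 8351797 0 0) (P.cons (P.lf 0 2760609 0) (P.cons (P.lf 0 962281 0) (P.cons (P.lf 329004 0 0) (P.cons (P.lf 20557 0 0) (P.cons (P.lf 0 9425 0) P.nil)))))) (P.cons (P.cons (P.lf 0 17723745 0) (P.cons (P.lf 5648359 0 0) (P.cons (P.lf 1986240 0 0) (P.cons (P.lf 0 658193 0) (P.cons (P.lf 0 40498 0) P.nil))))) (P.cons (P.cons (P.lf 10268094 0 0) (P.cons (P.lf 0 2966305 0) (P.cons (P.lf 0 1068006 0) (P.cons (P.lf 324177 0 0) P.nil)))) (P.cons (P.cons (P.lf 0 751081 0) (P.cons (P.lf 27508 0 0) (P.cons (P.lf 25254 0 0) P.nil))) (P.cons (P.cons (P.lf 0 165436 0) (P.cons (P.lf 53080 0 0) P.nil)) (P.cons (P.cons (P.lf 19481 0 0) P.nil) P.nil)))))) 104690)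
 (EL.cons 1 (TM.mk (P.cons (P.cons (P.lf 75938371 0 0) (P.cons (P.lf 0 25100726 0) (P.cons (P.lf 0 8749511 0) (P.cons (P.lf 2991472 0 0) (P.cons (P.lf 186922 0 0) (P.cons (P.lf 0 85706 0) P.nil)))))) (P.cons (P.cons (P.lf 0 85050901 0) (P.cons (P.lf 26202832 0 0) (P.cons (P.lf 9291510 0 0) (P.cons (P.lf 0 2986706 0) (P.cons (P.lf 0 180905 0) P.nil))))) (P.cons (P.cons (P.lf 7883589 0 0) (P.cons (P.lf 0 630900 0) (P.cons (P.lf 0 371105 0) (P.cons (P.lf 0 55198 0) P.nil)))) (P.cons (P.cons (P.lf 1428043 0 0) (P.cons (P.lf 0 493880 0) (P.cons (P.lf 0 181734 0) P.nil))) (P.cons (P.cons (P.lf 0 191139 0) (P.cons (P.lf 18262 0 0) P.nil)) (P.cons (P.cons (P.lf 0 9898 0) P.nil) P.nil)))))) 206551)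
 (EL.cons 5 (TM.mk (P.cons (P.cons (P.lf 690466362 0 0) (P.cons (P.lf 0 228227268 0) (P.cons (P.lf 0 79554570 0) (P.cons (P.lf 27199852 0 0) (P.cons (P.lf 1699596 0 0) (P.cons (P.lf 0 779290 0) P.nil)))))) (P.cons (P.cons (P.lf 0 81372116 0) (P.cons (P.lf 9530616 0 0) (P.cons (P.lf 4757202 0 0) (P.cons (P.lf 101778 0 0) (P.cons (P.lf 58350 0 0) P.nil))))) (P.cons (P.cons (P.lf 0 12093648 0) (P.cons (P.lf 4551076 0 0) (P.cons (P.lf 1649842 0 0) (P.cons (P.lf 0 487672 0) P.nil)))) (P.cons (P.cons (P.lf 1875342 0 0) (P.cons (P.lf 0 207732 0) (P.cons (P.lf 0 100560 0) P.nil))) (P.cons (P.cons (P.lf 88306 0 0) (P.cons (P.lf 0 45150 0) P.nil)) (P.cons (P.cons (P.lf 0 19382 0) P.nil) P.nil)))))) 220928)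
 EL.nil)))
noncomputable def S241_256_216_364_6 : EL := (EL.cons 12 (TM.mk (P.lf 8589934592 0 0) 0)
 (EL.cons 3 (TM.mk (P.cons (P.lf 0 235676745 0) (P.cons (P.lf 235171578 0 0) (P.cons (P.lf 756663 0 0) (P.cons (P.lf 0 250417 0) (P.cons (P.lf 0 1346 0) (P.cons (P.lf 262 0 0) P.nil)))))) 37)
 (EL.cons 7 (TM.mk (P.cons (P.lf 0 2142880586 0) (P.cons (P.lf 0 9196255 0) (P.cons (P.lf 4578416 0 0) (P.cons (P.lf 19669 0 0) (P.cons (P.lf 0 4863 0) (P.cons (P.lf 0 31 0) P.nil)))))) 53)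
 EL.nil)))
noncomputable def S241_256_216_364_7 : EL := (EL.cons 12 (TM.mk (P.cons (P.cons (P.lf 4881216638 0 0) (P.cons (P.lf 0 806720504 0) (P.cons (P.lf 0 347866984 0) (P.lf 38651880 0 0)))) (P.cons (P.cons (P.lf 0 308575942 0) (P.cons (P.lf 0 10386208 0) (P.cons (P.lf 0 4478648 0) (P.lf 497624 0 0)))) (P.cons (P.cons (P.lf 0 39468696 0) (P.cons (P.lf 5126264 0 0) (P.cons (P.lf 2210504 0 0) (P.lf 0 245608 0)))) (P.cons (P.cons (P.lf 3165430 0 0) (P.cons (P.lf 66528 0 0) (P.cons (P.lf 28688 0 0) P.nil))) (P.cons (P.cons (P.lf 144322 0 0) (P.cons (P.lf 0 16248 0) P.nil)) (P.cons (P.cons (P.lf 0 9126 0) P.nil) P.nil)))))) 12800)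
 (EL.cons 3 (TM.mk (P.cons (P.cons (P.lf 0 2106690078 0) (P.cons (P.lf 0 44266984 0) (P.cons (P.lf 0 19088424 0) (P.lf 2120934 0 0)))) (P.cons (P.cons (P.lf 0 366793058 0) (P.cons (P.lf 43602180 0 0) (P.cons (P.lf 18801750 0 0) (P.lf 0 2089080 0)))) (P.cons (P.cons (P.lf 54810620 0 0) (P.cons (P.lf 992112 0 0) (P.cons (P.lf 427808 0 0) (P.lf 0 47532 0)))) (P.cons (P.cons (P.lf 3026870 0 0) (P.cons (P.lf 0 322242 0) (P.cons (P.lf 0 138954 0) P.nil))) (P.cons (P.cons (P.lf 0 261757 0) (P.cons (P.lf 0 6294 0) P.nil)) (P.cons (P.cons (P.lf 0 12499 0) P.nil) P.nil)))))) 44157)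
 (EL.cons 7 (TM.mk (P.cons (P.cons (P.lf 0 1140544508 0) (P.cons (P.lf 203844391 0 0) (P.cons (P.lf 87900001 0 0) (P.lf 0 9766670 0)))) (P.cons (P.cons (P.lf 14343243 0 0) (P.cons (P.lf 0 1705036 0) (P.cons (P.lf 0 735231 0) (P.lf 81690 0 0)))) (P.cons (P.cons (P.lf 0 9330361 0) (P.cons (P.lf 815550 0 0) (P.cons (P.lf 351676 0 0) (P.lf 0 39075 0)))) (P.cons (P.cons (P.lf 1329026 0 0) (P.cons (P.lf 36686 0 0) (P.cons (P.lf 15818 0 0) P.nil))) (P.cons (P.cons (P.lf 91853 0 0) (P.cons (P.lf 0 8825 0) P.nil)) (P.cons (P.cons (P.lf 0 6994 0) P.nil) P.nil)))))) 27029)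
 (EL.cons 10 (TM.mk (P.cons (P.cons (P.lf 0 1266953259 0) (P.cons (P.lf 0 1180284168 0) (P.cons (P.lf 121135551 0 0) (P.cons (P.lf 25192824 0 0) (P.lf 0 2099400 0))))) (P.cons (P.cons (P.lf 0 10874355 0) (P.cons (P.lf 0 10130469 0) (P.cons (P.lf 1039713 0 0) (P.cons (P.lf 216231 0 0) (P.lf 0 18018 0))))) (P.cons (P.cons (P.lf 5390535 0 0) (P.cons (P.lf 5021781 0 0) (P.cons (P.lf 0 515397 0) (P.cons (P.lf 0 107187 0) P.nil)))) (P.cons (P.cons (P.lf 46491 0 0) (P.cons (P.lf 43311 0 0) (P.cons (P.lf 0 4443 0) P.nil))) (P.cons (P.cons (P.lf 0 11433 0) (P.cons (P.lf 0 10650 0) P.nil)) (P.cons (P.cons (P.lf 0 108 0) P.nil) P.nil)))))) 11667)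
 EL.nil))))
noncomputable def S241_256_216_364_8 : EL := (EL.cons 12 (TM.mk (P.cons (P.cons (P.lf 2773743572 0 0) (P.cons (P.lf 0 916835280 0) (P.cons (P.lf 0 319586862 0) (P.cons (P.lf 109267334 0 0) (P.cons (P.lf 6827630 0 0) (P.cons (P.lf 0 3130572 0) P.nil)))))) (P.cons (P.cons (P.lf 0 350695574 0) (P.cons (P.lf 46155696 0 0) (P.cons (P.lf 21853692 0 0) (P.cons (P.lf 0 528988 0) (P.cons (P.lf 175806 0 0) P.nil))))) (P.cons (P.cons (P.lf 0 33771082 0) (P.cons (P.lf 13985564 0 0) (P.cons (P.lf 5080430 0 0) (P.cons (P.lf 0 1489640 0) P.nil)))) (P.cons (P.cons (P.lf 6433166 0 0) (P.cons (P.lf 0 791808 0) (P.cons (P.lf 0 366328 0) P.nil))) (P.cons (P.cons (P.lf 117946 0 0) (P.cons (P.lf 0 105116 0) P.nil)) (P.cons (P.cons (P.lf 0 49828 0) P.nil) P.nil)))))) 742704)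
 (EL.cons 3 (TM.mk (P.cons (P.cons (P.lf 0 2318145062 0) (P.cons (P.lf 320234092 0 0) (P.cons (P.lf 148481841 0 0) (P.cons (P.lf 0 6379758 0) (P.cons (P.lf 936626 0 0) (P.cons (P.lf 0 429456 0) P.nil)))))) (P.cons (P.cons (P.lf 0 351062210 0) (P.cons (P.lf 153090133 0 0) (P.cons (P.lf 55910790 0 0) (P.cons (P.lf 0 16048297 0) (P.cons (P.lf 0 910500 0) P.nil))))) (P.cons (P.cons (P.lf 116434465 0 0) (P.cons (P.lf 0 14319963 0) (P.cons (P.lf 0 6605710 0) (P.cons (P.lf 314592 0 0) P.nil)))) (P.cons (P.cons (P.lf 2532933 0 0) (P.cons (P.lf 0 2477718 0) (P.cons (P.lf 0 931565 0) P.nil))) (P.cons (P.cons (P.lf 0 1539455 0) (P.cons (P.lf 165845 0 0) P.nil)) (P.cons (P.cons (P.lf 3046 0 0) P.nil) P.nil)))))) 1479489)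
 (EL.cons 7 (TM.mk (P.cons (P.cons (P.lf 0 604275663 0) (P.cons (P.lf 217178612 0 0) (P.cons (P.lf 74262045 0 0) (P.cons (P.lf 0 27126046 0) (P.cons (P.lf 0 1747198 0) (P.cons (P.lf 801113 0 0) P.nil)))))) (P.cons (P.cons (P.lf 13728103 0 0) (P.cons (P.lf 0 5986506 0) (P.cons (P.lf 0 2186361 0) (P.cons (P.lf 627553 0 0) (P.cons (P.lf 35606 0 0) P.nil))))) (P.cons (P.cons (P.lf 0 11431890 0) (P.cons (P.lf 3559647 0 0) (P.cons (P.lf 1353840 0 0) (P.cons (P.lf 0 326753 0) P.nil)))) (P.cons (P.cons (P.lf 2957640 0 0) (P.cons (P.lf 0 283668 0) (P.cons (P.lf 0 138500 0) P.nil))) (P.cons (P.cons (P.lf 123575 0 0) (P.cons (P.lf 0 76781 0) P.nil)) (P.cons (P.cons (P.lf 0 46574 0) P.nil) P.nil)))))) 578958)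
 (EL.cons 10 (TM.mk (P.cons (P.cons (P.lf 0 1439888334 0) (P.cons (P.lf 0 1103418306 0) (P.cons (P.lf 461977788 0 0) (P.cons (P.lf 90073062 0 0) (P.cons (P.lf 0 27550950 0) (P.cons (P.lf 0 555996 0) P.nil)))))) (P.cons (P.cons (P.lf 78666768 0 0) (P.cons (P.lf 78391674 0 0) (P.cons (P.lf 0 562572 0) (P.cons (P.lf 0 245862 0) (P.cons (P.lf 0 409620 0) P.nil))))) (P.cons (P.cons (P.lf 18550296 0 0) (P.cons (P.lf 14782938 0 0) (P.cons (P.lf 0 5178420 0) (P.cons (P.lf 0 1013916 0) P.nil)))) (P.cons (P.cons (P.lf 0 1168272 0) (P.cons (P.lf 0 1142724 0) (P.cons (P.lf 37602 0 0) P.nil))) (P.cons (P.cons (P.lf 0 116454 0) (P.cons (P.lf 0 95394 0) P.nil)) (P.cons (P.cons (P.lf 6570 0 0) P.nil) P.nil)))))) 964404)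
 EL.nil))))
noncomputable def S241_256_216_364_9 : EL := (EL.cons 3 (TM.mk (P.cons (P.lf 0 235676745 0) (P.cons (P.lf 235171578 0 0) (P.cons (P.lf 756663 0 0) (P.cons (P.lf 0 250417 0) (P.cons (P.lf 0 1346 0) (P.cons (P.lf 262 0 0) P.nil)))))) 37)
 (EL.cons 7 (TM.mk (P.cons (P.lf 0 2142880586 0) (P.cons (P.lf 0 9196255 0) (P.cons (P.lf 4578416 0 0) (P.cons (P.lf 19669 0 0) (P.cons (P.lf 0 4863 0) (P.cons (P.lf 0 31 0) P.nil)))))) 53)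
 EL.nil))
noncomputable def S241_256_216_364_10 : EL := (EL.cons 3 (TM.mk (P.cons (P.cons (P.lf 0 133922934 0) (P.cons (P.lf 22133492 0 0) (P.cons (P.lf 9544212 0 0) (P.lf 0 1060467 0)))) (P.cons (P.cons (P.lf 142102081 0 0) (P.cons (P.lf 0 21801090 0) (P.cons (P.lf 0 9400875 0) (P.lf 1044540 0 0)))) (P.cons (P.cons (P.lf 0 6935209 0) (P.cons (P.lf 0 496056 0) (P.cons (P.lf 0 213904 0) (P.lf 23766 0 0)))) (P.cons (P.cons (P.lf 0 1336885 0) (P.cons (P.lf 161121 0 0) (P.cons (P.lf 69477 0 0) P.nil))) (P.cons (P.cons (P.lf 87455 0 0) (P.cons (P.lf 3147 0 0) P.nil)) (P.cons (P.cons (P.lf 5828 0 0) P.nil) P.nil)))))) 10961)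
 (EL.cons 7 (TM.mk (P.cons (P.cons (P.lf 0 1217688476 0) (P.cons (P.lf 201247831 0 0) (P.cons (P.lf 86780335 0 0) (P.lf 0 9642257 0)))) (P.cons (P.cons (P.lf 71752872 0 0) (P.cons (P.lf 3454649 0 0) (P.cons (P.lf 1489683 0 0) (P.lf 0 165519 0)))) (P.cons (P.cons (P.lf 12778058 0 0) (P.cons (P.lf 0 1697679 0) (P.cons (P.lf 0 732059 0) (P.lf 81339 0 0)))) (P.cons (P.cons (P.lf 0 900700 0) (P.cons (P.lf 0 29467 0) (P.cons (P.lf 0 12706 0) P.nil))) (P.cons (P.cons (P.lf 0 63898 0) (P.cons (P.lf 7147 0 0) P.nil)) (P.cons (P.cons (P.lf 3875 0 0) P.nil) P.nil)))))) 5695)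
 EL.nil))
noncomputable def S241_256_216_364_11 : EL := (EL.cons 3 (TM.mk (P.cons (P.cons (P.lf 0 76101494 0) (P.cons (P.lf 25154644 0 0) (P.cons (P.lf 8768307 0 0) (P.cons (P.lf 0 2997900 0) (P.cons (P.lf 0 187324 0) (P.cons (P.lf 85890 0 0) P.nil)))))) (P.cons (P.cons (P.lf 85560190 0 0) (P.cons (P.lf 0 26367071 0) (P.cons (P.lf 0 9349098 0) (P.cons (P.lf 3005987 0 0) (P.cons (P.lf 182100 0 0) P.nil))))) (P.cons (P.cons (P.lf 0 8430305 0) (P.cons (P.lf 799155 0 0) (P.cons (P.lf 430760 0 0) (P.cons (P.lf 36012 0 0) P.nil)))) (P.cons (P.cons (P.lf 0 1212825 0) (P.cons (P.lf 435408 0 0) (P.cons (P.lf 160381 0 0) P.nil))) (P.cons (P.cons (P.lf 179701 0 0) (P.cons (P.lf 0 18763 0) P.nil)) (P.cons (P.cons (P.lf 6286 0 0) P.nil) P.nil)))))) 193181)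
 (EL.cons 7 (TM.mk (P.cons (P.cons (P.lf 0 691949535 0) (P.cons (P.lf 228717518 0 0) (P.cons (P.lf 79725459 0 0) (P.cons (P.lf 0 27258280 0) (P.cons (P.lf 0 1703248 0) (P.cons (P.lf 780965 0 0) P.nil)))))) (P.cons (P.cons (P.lf 84516439 0 0) (P.cons (P.lf 0 10532640 0) (P.cons (P.lf 0 5109567 0) (P.cons (P.lf 14983 0 0) (P.cons (P.lf 0 51166 0) P.nil))))) (P.cons (P.cons (P.lf 10278522 0 0) (P.cons (P.lf 0 4026981 0) (P.cons (P.lf 0 1461120 0) (P.cons (P.lf 430417 0 0) P.nil)))) (P.cons (P.cons (P.lf 0 1749258 0) (P.cons (P.lf 205056 0 0) (P.cons (P.lf 96862 0 0) P.nil))) (P.cons (P.cons (P.lf 0 56683 0) (P.cons (P.lf 35149 0 0) P.nil)) (P.cons (P.cons (P.lf 15844 0 0) P.nil) P.nil)))))) 202880)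
 EL.nil))
noncomputable def S241_256_216_364_12 : EL := (EL.cons 4 (TM.mk (P.cons (P.lf 235676745 0 0) (P.cons (P.lf 0 235171578 0) (P.cons (P.lf 0 756663 0) (P.cons (P.lf 250417 0 0) (P.cons (P.lf 1346 0 0) (P.cons (P.lf 0 262 0) P.nil)))))) 37)
 (EL.cons 8 (TM.mk (P.cons (P.lf 2142880586 0 0) (P.cons (P.lf 9196255 0 0) (P.cons (P.lf 0 4578416 0) (P.cons (P.lf 0 19669 0) (P.cons (P.lf 4863 0 0) (P.cons (P.lf 31 0 0) P.nil)))))) 53)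
 EL.nil))
noncomputable def S241_256_216_364_13 : EL := (EL.cons 4 (TM.mk (P.cons (P.cons (P.lf 133922934 0 0) (P.cons (P.lf 0 22133492 0) (P.cons (P.lf 0 9544212 0) (P.lf 1060467 0 0)))) (P.cons (P.cons (P.lf 0 142102081 0) (P.cons (P.lf 21801090 0 0) (P.cons (P.lf 9400875 0 0) (P.lf 0 1044540 0)))) (P.cons (P.cons (P.lf 6935209 0 0) (P.cons (P.lf 496056 0 0) (P.cons (P.lf 213904 0 0) (P.lf 0 23766 0)))) (P.cons (P.cons (P.lf 1336885 0 0) (P.cons (P.lf 0 161121 0) (P.cons (P.lf 0 69477 0) P.nil))) (P.cons (P.cons (P.lf 0 87455 0) (P.cons (P.lf 0 3147 0) P.nil)) (P.cons (P.cons (P.lf 0 5828 0) P.nil) P.nil)))))) 10961)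
 (EL.cons 8 (TM.mk (P.cons (P.cons (P.lf 1217688476 0 0) (P.cons (P.lf 0 201247831 0) (P.cons (P.lf 0 86780335 0) (P.lf 9642257 0 0)))) (P.cons (P.cons (P.lf 0 71752872 0) (P.cons (P.lf 0 3454649 0) (P.cons (P.lf 0 1489683 0) (P.lf 165519 0 0)))) (P.cons (P.cons (P.lf 0 12778058 0) (P.cons (P.lf 1697679 0 0) (P.cons (P.lf 732059 0 0) (P.lf 0 81339 0)))) (P.cons (P.cons (P.lf 900700 0 0) (P.cons (P.lf 29467 0 0) (P.cons (P.lf 12706 0 0) P.nil))) (P.cons (P.cons (P.lf 63898 0 0) (P.cons (P.lf 0 7147 0) P.nil)) (P.cons (P.cons (P.lf 0 3875 0) P.nil) P.nil)))))) 5695)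
 EL.nil))
noncomputable def S241_256_216_364_14 : EL := (EL.cons 4 (TM.mk (P.cons (P.cons (P.lf 76101494 0 0) (P.cons (P.lf 0 25154644 0) (P.cons (P.lf 0 8768307 0) (P.cons (P.lf 2997900 0 0) (P.cons (P.lf 187324 0 0) (P.cons (P.lf 0 85890 0) P.nil)))))) (P.cons (P.cons (P.lf 0 85560190 0) (P.cons (P.lf 26367071 0 0) (P.cons (P.lf 9349098 0 0) (P.cons (P.lf 0 3005987 0) (P.cons (P.lf 0 182100 0) P.nil))))) (P.cons (P.cons (P.lf 8430305 0 0) (P.cons (P.lf 0 799155 0) (P.cons (P.lf 0 430760 0) (P.cons (P.lf 0 36012 0) P.nil)))) (P.cons (P.cons (P.lf 1212825 0 0) (P.cons (P.lf 0 435408 0) (P.cons (P.lf 0 160381 0) P.nil))) (P.cons (P.cons (P.lf 0 179701 0) (P.cons (P.lf 18763 0 0) P.nil)) (P.cons (P.cons (P.lf 0 6286 0) P.nil) P.nil)))))) 193181)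
 (EL.cons 8 (TM.mk (P.cons (P.cons (P.lf 691949535 0 0) (P.cons (P.lf 0 228717518 0) (P.cons (P.lf 0 79725459 0) (P.cons (P.lf 27258280 0 0) (P.cons (P.lf 1703248 0 0) (P.cons (P.lf 0 780965 0) P.nil)))))) (P.cons (P.cons (P.lf 0 84516439 0) (P.cons (P.lf 10532640 0 0) (P.cons (P.lf 5109567 0 0) (P.cons (P.lf 0 14983 0) (P.cons (P.lf 51166 0 0) P.nil))))) (P.cons (P.cons (P.lf 0 10278522 0) (P.cons (P.lf 4026981 0 0) (P.cons (P.lf 1461120 0 0) (P.cons (P.lf 0 430417 0) P.nil)))) (P.cons (P.cons (P.lf 1749258 0 0) (P.cons (P.lf 0 205056 0) (P.cons (P.lf 0 96862 0) P.nil))) (P.cons (P.cons (P.lf 56683 0 0) (P.cons (P.lf 0 35149 0) P.nil)) (P.cons (P.cons (P.lf 0 15844 0) P.nil) P.nil)))))) 202880)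
 EL.nil))
noncomputable def S241_256_216_364_15 : EL := (EL.cons 4 (TM.mk (P.cons (P.lf 0 13794384 0) (P.cons (P.lf 27529633 0 0) (P.cons (P.lf 0 13646734 0) (P.cons (P.lf 0 117700 0) (P.cons (P.lf 28950 0 0) (P.cons (P.lf 281 0 0) P.nil)))))) 67)
 (EL.cons 8 (TM.mk (P.cons (P.lf 0 125424842 0) (P.cons (P.lf 124617732 0 0) (P.cons (P.lf 1207779 0 0) (P.cons (P.lf 0 397794 0) (P.cons (P.lf 0 3582 0) (P.cons (P.lf 699 0 0) P.nil)))))) 35)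
 EL.nil))
noncomputable def S241_256_216_364_16 : EL := (EL.cons 4 (TM.mk (P.cons (P.cons (P.lf 0 7838636 0) (P.cons (P.lf 1295493 0 0) (P.cons (P.lf 558630 0 0) (P.lf 0 62070 0)))) (P.cons (P.cons (P.lf 16139205 0 0) (P.cons (P.lf 0 2568755 0) (P.cons (P.lf 0 1107675 0) (P.lf 123075 0 0)))) (P.cons (P.cons (P.lf 0 8680299 0) (P.cons (P.lf 1240109 0 0) (P.cons (P.lf 534749 0 0) (P.lf 0 59415 0)))) (P.cons (P.cons (P.lf 291772 0 0) (P.cons (P.lf 43875 0 0) (P.cons (P.lf 18919 0 0) P.nil))) (P.cons (P.cons (P.lf 93295 0 0) (P.cons (P.lf 0 10481 0) P.nil)) (P.cons (P.cons (P.lf 0 4890 0) P.nil) P.nil)))))) 8562)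
 (EL.cons 8 (TM.mk (P.cons (P.cons (P.lf 0 71272466 0) (P.cons (P.lf 11779226 0 0) (P.cons (P.lf 5079335 0 0) (P.lf 0 564370 0)))) (P.cons (P.cons (P.lf 75319459 0 0) (P.cons (P.lf 0 11551774 0) (P.cons (P.lf 0 4981255 0) (P.lf 553472 0 0)))) (P.cons (P.cons (P.lf 0 3214022 0) (P.cons (P.lf 0 338955 0) (P.cons (P.lf 0 146161 0) (P.lf 16239 0 0)))) (P.cons (P.cons (P.lf 0 888241 0) (P.cons (P.lf 109295 0 0) (P.cons (P.lf 47129 0 0) P.nil))) (P.cons (P.cons (P.lf 50519 0 0) (P.cons (P.lf 2740 0 0) P.nil)) (P.cons (P.cons (P.lf 5026 0 0) P.nil) P.nil)))))) 8080)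
 EL.nil))
noncomputable def S241_256_216_364_17 : EL := (EL.cons 4 (TM.mk (P.cons (P.cons (P.lf 0 4454292 0) (P.cons (P.lf 1472325 0 0) (P.cons (P.lf 513216 0 0) (P.cons (P.lf 0 175469 0) (P.cons (P.lf 0 10964 0) (P.cons (P.lf 5026 0 0) P.nil)))))) (P.cons (P.cons (P.lf 9452664 0 0) (P.cons (P.lf 0 3012458 0) (P.cons (P.lf 0 1059328 0) (P.cons (P.lf 351036 0 0) (P.cons (P.lf 21599 0 0) P.nil))))) (P.cons (P.cons (P.lf 0 5476317 0) (P.cons (P.lf 1582029 0 0) (P.cons (P.lf 569603 0 0) (P.cons (P.lf 0 172894 0) P.nil)))) (P.cons (P.cons (P.lf 400576 0 0) (P.cons (P.lf 0 14670 0) (P.cons (P.lf 0 13469 0) P.nil))) (P.cons (P.cons (P.lf 88232 0 0) (P.cons (P.lf 0 28309 0) P.nil)) (P.cons (P.cons (P.lf 0 10390 0) P.nil) P.nil)))))) 55845)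
 (EL.cons 8 (TM.mk (P.cons (P.cons (P.lf 0 40500465 0) (P.cons (P.lf 13387054 0 0) (P.cons (P.lf 4666406 0 0) (P.cons (P.lf 0 1595452 0) (P.cons (P.lf 0 99692 0) (P.cons (P.lf 45710 0 0) P.nil)))))) (P.cons (P.cons (P.lf 45360481 0 0) (P.cons (P.lf 0 13974844 0) (P.cons (P.lf 0 4955472 0) (P.cons (P.lf 1592910 0 0) (P.cons (P.lf 96483 0 0) P.nil))))) (P.cons (P.cons (P.lf 0 4204581 0) (P.cons (P.lf 336480 0 0) (P.cons (P.lf 197923 0 0) (P.cons (P.lf 29439 0 0) P.nil)))) (P.cons (P.cons (P.lf 0 761623 0) (P.cons (P.lf 263403 0 0) (P.cons (P.lf 96925 0 0) P.nil))) (P.cons (P.cons (P.lf 101941 0 0) (P.cons (P.lf 0 9740 0) P.nil)) (P.cons (P.cons (P.lf 5279 0 0) P.nil) P.nil)))))) 110149)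
 EL.nil))
noncomputable def S241_256_216_364_18 : EL := (EL.cons 4 (TM.mk (P.cons (P.lf 807398 0 0) (P.cons (P.lf 0 2417003 0) (P.cons (P.lf 2404045 0 0) (P.cons (P.lf 0 784123 0) (P.cons (P.lf 0 12840 0) (P.cons (P.lf 2490 0 0) P.nil)))))) 58)
 (EL.cons 8 (TM.mk (P.cons (P.lf 7341235 0 0) (P.cons (P.lf 0 14619494 0) (P.cons (P.lf 7184097 0 0) (P.cons (P.lf 125042 0 0) (P.cons (P.lf 0 30504 0) (P.cons (P.lf 0 449 0) P.nil)))))) 91)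
 EL.nil))
noncomputable def S241_256_216_364_19 : EL := (EL.cons 4 (TM.mk (P.cons (P.cons (P.lf 458802 0 0) (P.cons (P.lf 0 75825 0) (P.cons (P.lf 0 32697 0) (P.lf 3632 0 0)))) (P.cons (P.cons (P.lf 0 1402461 0) (P.cons (P.lf 226015 0 0) (P.cons (P.lf 97459 0 0) (P.lf 0 10828 0)))) (P.cons (P.cons (P.lf 1449210 0 0) (P.cons (P.lf 0 222370 0) (P.cons (P.lf 0 95888 0) (P.lf 10653 0 0)))) (P.cons (P.cons (P.lf 0 520533 0) (P.cons (P.lf 69297 0 0) (P.cons (P.lf 29881 0 0) P.nil))) (P.cons (P.cons (P.lf 8948 0 0) (P.cons (P.lf 3568 0 0) P.nil)) (P.cons (P.cons (P.lf 6323 0 0) P.nil) P.nil)))))) 7188)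
 (EL.cons 8 (TM.mk (P.cons (P.cons (P.lf 4171645 0 0) (P.cons (P.lf 0 689449 0) (P.cons (P.lf 0 297297 0) (P.lf 33033 0 0)))) (P.cons (P.cons (P.lf 0 8571223 0) (P.cons (P.lf 1364107 0 0) (P.cons (P.lf 588218 0 0) (P.lf 0 65357 0)))) (P.cons (P.cons (P.lf 4573796 0 0) (P.cons (P.lf 0 652633 0) (P.cons (P.lf 0 281423 0) (P.lf 31268 0 0)))) (P.cons (P.cons (P.lf 0 117140 0) (P.cons (P.lf 0 29097 0) (P.cons (P.lf 0 12546 0) P.nil))) (P.cons (P.cons (P.lf 0 60098 0) (P.cons (P.lf 6873 0 0) P.nil)) (P.cons (P.cons (P.lf 2659 0 0) P.nil) P.nil)))))) 5856)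
 EL.nil))
noncomputable def S241_256_216_364_20 : EL := (EL.cons 4 (TM.mk (P.cons (P.cons (P.lf 260713 0 0) (P.cons (P.lf 0 86175 0) (P.cons (P.lf 0 30038 0) (P.cons (P.lf 10270 0 0) (P.cons (P.lf 641 0 0) (P.cons (P.lf 0 293 0) P.nil)))))) (P.cons (P.cons (P.lf 0 813428 0) (P.cons (P.lf 262313 0 0) (P.cons (P.lf 91978 0 0) (P.cons (P.lf 0 30794 0) (P.cons (P.lf 0 1904 0) P.nil))))) (P.cons (P.cons (P.lf 871784 0 0) (P.cons (P.lf 0 268264 0) (P.cons (P.lf 0 95113 0) (P.cons (P.lf 30588 0 0) P.nil)))) (P.cons (P.cons (P.lf 0 341238 0) (P.cons (P.lf 92599 0 0) (P.cons (P.lf 33825 0 0) P.nil))) (P.cons (P.cons (P.lf 16616 0 0) (P.cons (P.lf 1283 0 0) P.nil)) (P.cons (P.cons (P.lf 6173 0 0) P.nil) P.nil)))))) 24266)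
 (EL.cons 8 (TM.mk (P.cons (P.cons (P.lf 2370530 0 0) (P.cons (P.lf 0 783556 0) (P.cons (P.lf 0 273128 0) (P.cons (P.lf 93382 0 0) (P.cons (P.lf 5834 0 0) (P.cons (P.lf 0 2675 0) P.nil)))))) (P.cons (P.cons (P.lf 0 5020441 0) (P.cons (P.lf 1599838 0 0) (P.cons (P.lf 562591 0 0) (P.cons (P.lf 0 186417 0) (P.cons (P.lf 0 11469 0) P.nil))))) (P.cons (P.cons (P.lf 2887788 0 0) (P.cons (P.lf 0 833386 0) (P.cons (P.lf 0 300134 0) (P.cons (P.lf 91011 0 0) P.nil)))) (P.cons (P.cons (P.lf 0 189949 0) (P.cons (P.lf 776 0 0) (P.cons (P.lf 4665 0 0) P.nil))) (P.cons (P.cons (P.lf 0 54046 0) (P.cons (P.lf 16882 0 0) P.nil)) (P.cons (P.cons (P.lf 5745 0 0) P.nil) P.nil)))))) 31998)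
 EL.nil))
noncomputable def S241_256_216_364_21 : EL := (EL.cons 4 (TM.mk (P.cons (P.cons (P.lf 1972767144 0 0) (P.cons (P.lf 66400476 0 0) (P.cons (P.lf 28632636 0 0) (P.lf 0 3181401 0)))) (P.cons (P.cons (P.lf 508895139 0 0) (P.cons (P.lf 0 65403270 0) (P.cons (P.lf 0 28202625 0) (P.lf 3133620 0 0)))) (P.cons (P.cons (P.lf 0 61745829 0) (P.cons (P.lf 0 1488168 0) (P.cons (P.lf 0 641712 0) (P.lf 71298 0 0)))) (P.cons (P.cons (P.lf 0 4363755 0) (P.cons (P.lf 483363 0 0) (P.cons (P.lf 208431 0 0) P.nil))) (P.cons (P.cons (P.lf 349212 0 0) (P.cons (P.lf 9441 0 0) P.nil)) (P.cons (P.cons (P.lf 18327 0 0) P.nil) P.nil)))))) 33177)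
 (EL.cons 8 (TM.mk (P.cons (P.cons (P.lf 0 77143968 0) (P.cons (P.lf 0 2596560 0) (P.cons (P.lf 0 1119666 0) (P.lf 124413 0 0)))) (P.cons (P.cons (P.lf 57409629 0 0) (P.cons (P.lf 5159685 0 0) (P.cons (P.lf 2224914 0 0) (P.lf 0 247209 0)))) (P.cons (P.cons (P.lf 22108419 0 0) (P.cons (P.lf 0 2513229 0) (P.cons (P.lf 0 1083735 0) (P.lf 120414 0 0)))) (P.cons (P.cons (P.lf 0 2229726 0) (P.cons (P.lf 0 66153 0) (P.cons (P.lf 0 28524 0) P.nil))) (P.cons (P.cons (P.lf 0 155751 0) (P.cons (P.lf 15972 0 0) P.nil)) (P.cons (P.cons (P.lf 10869 0 0) P.nil) P.nil)))))) 21315)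
 (EL.cons 11 (TM.mk (P.cons (P.cons (P.lf 1266953259 0 0) (P.cons (P.lf 1180284168 0 0) (P.cons (P.lf 0 121135551 0) (P.cons (P.lf 0 25192824 0) (P.lf 2099400 0 0))))) (P.cons (P.cons (P.lf 10874355 0 0) (P.cons (P.lf 10130469 0 0) (P.cons (P.lf 0 1039713 0) (P.cons (P.lf 0 216231 0) (P.lf 18018 0 0))))) (P.cons (P.cons (P.lf 0 5390535 0) (P.cons (P.lf 0 5021781 0) (P.cons (P.lf 515397 0 0) (P.cons (P.lf 107187 0 0) P.nil)))) (P.cons (P.cons (P.lf 0 46491 0) (P.cons (P.lf 0 43311 0) (P.cons (P.lf 4443 0 0) P.nil))) (P.cons (P.cons (P.lf 11433 0 0) (P.cons (P.lf 10650 0 0) P.nil)) (P.cons (P.cons (P.lf 108 0 0) P.nil) P.nil)))))) 11667)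
 EL.nil)))
noncomputable def S241_256_216_364_22 : EL := (EL.cons 4 (TM.mk (P.cons (P.cons (P.lf 1121021784 0 0) (P.cons (P.lf 0 147539724 0) (P.cons (P.lf 0 69856767 0) (P.cons (P.lf 1690929 0 0) (P.cons (P.lf 0 561975 0) (P.cons (P.lf 257673 0 0) P.nil)))))) (P.cons (P.cons (P.lf 218311200 0 0) (P.cons (P.lf 0 89728602 0) (P.cons (P.lf 0 32629944 0) (P.cons (P.lf 9527142 0 0) (P.cons (P.lf 546300 0 0) P.nil))))) (P.cons (P.cons (P.lf 0 62432385 0) (P.cons (P.lf 7559559 0 0) (P.cons (P.lf 3518235 0 0) (P.cons (P.lf 0 139290 0) P.nil)))) (P.cons (P.cons (P.lf 0 1872879 0) (P.cons (P.lf 1456563 0 0) (P.cons (P.lf 545973 0 0) P.nil))) (P.cons (P.cons (P.lf 859578 0 0) (P.cons (P.lf 0 92304 0) P.nil)) (P.cons (P.cons (P.lf 1620 0 0) P.nil) P.nil)))))) 643143)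
 (EL.cons 8 (TM.mk (P.cons (P.cons (P.lf 0 43836936 0) (P.cons (P.lf 5769453 0 0) (P.cons (P.lf 2731707 0 0) (P.cons (P.lf 0 66117 0) (P.cons (P.lf 21975 0 0) (P.cons (P.lf 0 10074 0) P.nil)))))) (P.cons (P.cons (P.lf 35394168 0 0) (P.cons (P.lf 0 2273067 0) (P.cons (P.lf 0 1461603 0) (P.cons (P.lf 0 306285 0) (P.cons (P.lf 0 43386 0) P.nil))))) (P.cons (P.cons (P.lf 10855206 0 0) (P.cons (P.lf 0 3793314 0) (P.cons (P.lf 0 1407480 0) (P.cons (P.lf 378585 0 0) P.nil)))) (P.cons (P.cons (P.lf 0 2353449 0) (P.cons (P.lf 244362 0 0) (P.cons (P.lf 117681 0 0) P.nil))) (P.cons (P.cons (P.lf 0 90129 0) (P.cons (P.lf 55965 0 0) P.nil)) (P.cons (P.cons (P.lf 31209 0 0) P.nil) P.nil)))))) 188028)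
 (EL.cons 11 (TM.mk (P.cons (P.cons (P.lf 719944167 0 0) (P.cons (P.lf 551709153 0 0) (P.cons (P.lf 0 230988894 0) (P.cons (P.lf 0 45036531 0) (P.cons (P.lf 13775475 0 0) (P.cons (P.lf 277998 0 0) P.nil)))))) (P.cons (P.cons (P.lf 0 39333384 0) (P.cons (P.lf 0 39195837 0) (P.cons (P.lf 281286 0 0) (P.cons (P.lf 122931 0 0) (P.cons (P.lf 204810 0 0) P.nil))))) (P.cons (P.cons (P.lf 0 9275148 0) (P.cons (P.lf 0 7391469 0) (P.cons (P.lf 2589210 0 0) (P.cons (P.lf 506958 0 0) P.nil)))) (P.cons (P.cons (P.lf 584136 0 0) (P.cons (P.lf 571362 0 0) (P.cons (P.lf 0 18801 0) P.nil))) (P.cons (P.cons (P.lf 58227 0 0) (P.cons (P.lf 47697 0 0) P.nil)) (P.cons (P.cons (P.lf 0 3285 0) P.nil) P.nil)))))) 482202)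
 EL.nil)))
noncomputable def S241_256_216_364_23 : EL := (EL.cons 4 (TM.mk (P.cons (P.cons (P.lf 0 115467939 0) (P.cons (P.lf 0 3886482 0) (P.cons (P.lf 0 1675893 0) (P.lf 186210 0 0)))) (P.cons (P.cons (P.lf 85434321 0 0) (P.cons (P.lf 7706268 0 0) (P.cons (P.lf 3323028 0 0) (P.lf 0 369225 0)))) (P.cons (P.cons (P.lf 33707034 0 0) (P.cons (P.lf 0 3720327 0) (P.cons (P.lf 0 1604247 0) (P.lf 178248 0 0)))) (P.cons (P.cons (P.lf 0 3377937 0) (P.cons (P.lf 0 131628 0) (P.cons (P.lf 0 56757 0) P.nil))) (P.cons (P.cons (P.lf 0 319218 0) (P.cons (P.lf 31443 0 0) P.nil)) (P.cons (P.cons (P.lf 22299 0 0) P.nil) P.nil)))))) 25584)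
 (EL.cons 8 (TM.mk (P.cons (P.cons (P.lf 4515309 0 0) (P.cons (P.lf 151977 0 0) (P.cons (P.lf 65535 0 0) (P.lf 0 7281 0)))) (P.cons (P.cons (P.lf 0 7865871 0) (P.cons (P.lf 0 453654 0) (P.cons (P.lf 0 195618 0) (P.lf 21735 0 0)))) (P.cons (P.cons (P.lf 2044512 0 0) (P.cons (P.lf 447966 0 0) (P.cons (P.lf 193167 0 0) (P.lf 0 21462 0)))) (P.cons (P.cons (P.lf 1437345 0 0) (P.cons (P.lf 0 141783 0) (P.cons (P.lf 0 61137 0) P.nil))) (P.cons (P.cons (P.lf 0 120501 0) (P.cons (P.lf 0 5589 0) P.nil)) (P.cons (P.cons (P.lf 0 11550 0) P.nil) P.nil)))))) 13713)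
 (EL.cons 11 (TM.mk (P.cons (P.cons (P.lf 0 74155980 0) (P.cons (P.lf 0 69083154 0) (P.cons (P.lf 7090179 0 0) (P.cons (P.lf 1474557 0 0) (P.lf 0 122877 0))))) (P.cons (P.cons (P.lf 73360542 0 0) (P.cons (P.lf 68342133 0 0) (P.cons (P.lf 0 7014126 0) (P.cons (P.lf 0 1458741 0) (P.lf 121560 0 0))))) (P.cons (P.cons (P.lf 1188720 0 0) (P.cons (P.lf 1107402 0 0) (P.cons (P.lf 0 113655 0) (P.cons (P.lf 0 23637 0) P.nil)))) (P.cons (P.cons (P.lf 0 388866 0) (P.cons (P.lf 0 362262 0) (P.cons (P.lf 37179 0 0) P.nil))) (P.cons (P.cons (P.lf 0 5496 0) (P.cons (P.lf 0 5121 0) P.nil)) (P.cons (P.cons (P.lf 1065 0 0) P.nil) P.nil)))))) 12498)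
 EL.nil)))
noncomputable def S241_256_216_364_24 : EL := (EL.cons 4 (TM.mk (P.cons (P.cons (P.lf 0 65614473 0) (P.cons (P.lf 8635638 0 0) (P.cons (P.lf 4088781 0 0) (P.cons (P.lf 0 98970 0) (P.cons (P.lf 32892 0 0) (P.cons (P.lf 0 15081 0) P.nil)))))) (P.cons (P.cons (P.lf 52695867 0 0) (P.cons (P.lf 0 3365229 0) (P.cons (P.lf 0 2170155 0) (P.cons (P.lf 0 458871 0) (P.cons (P.lf 0 64797 0) P.nil))))) (P.cons (P.cons (P.lf 16615461 0 0) (P.cons (P.lf 0 5710836 0) (P.cons (P.lf 0 2124819 0) (P.cons (P.lf 564906 0 0) P.nil)))) (P.cons (P.cons (P.lf 0 3565464 0) (P.cons (P.lf 348579 0 0) (P.cons (P.lf 171738 0 0) P.nil))) (P.cons (P.cons (P.lf 0 185382 0) (P.cons (P.lf 97521 0 0) P.nil)) (P.cons (P.cons (P.lf 53640 0 0) P.nil) P.nil)))))) 292098)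
 (EL.cons 8 (TM.mk (P.cons (P.cons (P.lf 2565816 0 0) (P.cons (P.lf 0 337689 0) (P.cons (P.lf 0 159888 0) (P.cons (P.lf 3867 0 0) (P.cons (P.lf 0 1284 0) (P.cons (P.lf 588 0 0) P.nil)))))) (P.cons (P.cons (P.lf 0 4631970 0) (P.cons (P.lf 470010 0 0) (P.cons (P.lf 245094 0 0) (P.cons (P.lf 14064 0 0) (P.cons (P.lf 3822 0 0) P.nil))))) (P.cons (P.cons (P.lf 1423608 0 0) (P.cons (P.lf 90348 0 0) (P.cons (P.lf 0 2469 0) (P.cons (P.lf 0 40059 0) P.nil)))) (P.cons (P.cons (P.lf 781128 0 0) (P.cons (P.lf 0 236637 0) (P.cons (P.lf 0 89535 0) P.nil))) (P.cons (P.cons (P.lf 0 132324 0) (P.cons (P.lf 10422 0 0) P.nil)) (P.cons (P.cons (P.lf 0 8220 0) P.nil) P.nil)))))) 69324)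
 (EL.cons 11 (TM.mk (P.cons (P.cons (P.lf 0 42139017 0) (P.cons (P.lf 0 32292060 0) (P.cons (P.lf 13519998 0 0) (P.cons (P.lf 2636031 0 0) (P.cons (P.lf 0 806289 0) (P.cons (P.lf 0 16269 0) P.nil)))))) (P.cons (P.cons (P.lf 44350914 0 0) (P.cons (P.lf 34517013 0 0) (P.cons (P.lf 0 13507482 0) (P.cons (P.lf 0 2637576 0) (P.cons (P.lf 792573 0 0) P.nil))))) (P.cons (P.cons (P.lf 0 1619109 0) (P.cons (P.lf 0 1752945 0) (P.cons (P.lf 0 178527 0) (P.cons (P.lf 0 30954 0) P.nil)))) (P.cons (P.cons (P.lf 0 628074 0) (P.cons (P.lf 0 506820 0) (P.cons (P.lf 166740 0 0) P.nil))) (P.cons (P.cons (P.lf 31170 0 0) (P.cons (P.lf 31440 0 0) P.nil)) (P.cons (P.cons (P.lf 4338 0 0) P.nil) P.nil)))))) 246108)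
 EL.nil)))
noncomputable def S241_256_216_364_25 : EL := (EL.cons 4 (TM.mk (P.cons (P.cons (P.lf 6758448 0 0) (P.cons (P.lf 227478 0 0) (P.cons (P.lf 98091 0 0) (P.lf 0 10899 0)))) (P.cons (P.cons (P.lf 0 11744514 0) (P.cons (P.lf 0 678045 0) (P.cons (P.lf 0 292380 0) (P.lf 32484 0 0)))) (P.cons (P.cons (P.lf 2995227 0 0) (P.cons (P.lf 667110 0 0) (P.cons (P.lf 287664 0 0) (P.lf 0 31962 0)))) (P.cons (P.cons (P.lf 2189625 0 0) (P.cons (P.lf 0 207891 0) (P.cons (P.lf 0 89643 0) P.nil))) (P.cons (P.cons (P.lf 0 177546 0) (P.cons (P.lf 0 10704 0) P.nil)) (P.cons (P.cons (P.lf 0 22716 0) P.nil) P.nil)))))) 22023)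
 (EL.cons 8 (TM.mk (P.cons (P.cons (P.lf 0 264285 0) (P.cons (P.lf 0 8895 0) (P.cons (P.lf 0 3834 0) (P.lf 426 0 0)))) (P.cons (P.cons (P.lf 724113 0 0) (P.cons (P.lf 35427 0 0) (P.cons (P.lf 15276 0 0) (P.lf 0 1695 0)))) (P.cons (P.cons (P.lf 0 578226 0) (P.cons (P.lf 0 52686 0) (P.cons (P.lf 0 22719 0) (P.lf 2523 0 0)))) (P.cons (P.cons (P.lf 33522 0 0) (P.cons (P.lf 34365 0 0) (P.cons (P.lf 14817 0 0) P.nil))) (P.cons (P.cons (P.lf 91872 0 0) (P.cons (P.lf 0 7839 0) P.nil)) (P.cons (P.cons (P.lf 0 6216 0) P.nil) P.nil)))))) 7944)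
 (EL.cons 11 (TM.mk (P.cons (P.cons (P.lf 4340418 0 0) (P.cons (P.lf 4043502 0 0) (P.cons (P.lf 0 414993 0) (P.cons (P.lf 0 86307 0) (P.lf 7191 0 0))))) (P.cons (P.cons (P.lf 0 8624979 0) (P.cons (P.lf 0 8034966 0) (P.cons (P.lf 824646 0 0) (P.cons (P.lf 171504 0 0) (P.lf 0 14289 0))))) (P.cons (P.cons (P.lf 4201146 0 0) (P.cons (P.lf 3913755 0 0) (P.cons (P.lf 0 401676 0) (P.cons (P.lf 0 83538 0) P.nil)))) (P.cons (P.cons (P.lf 110586 0 0) (P.cons (P.lf 103020 0 0) (P.cons (P.lf 0 10572 0) P.nil))) (P.cons (P.cons (P.lf 0 26703 0) (P.cons (P.lf 0 24876 0) P.nil)) (P.cons (P.cons (P.lf 0 558 0) P.nil) P.nil)))))) 13806)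
 EL.nil)))
noncomputable def S241_256_216_364_26 : EL := (EL.cons 4 (TM.mk (P.cons (P.cons (P.lf 3840477 0 0) (P.cons (P.lf 0 505449 0) (P.cons (P.lf 0 239319 0) (P.cons (P.lf 5790 0 0) (P.cons (P.lf 0 1923 0) (P.cons (P.lf 882 0 0) P.nil)))))) (P.cons (P.cons (P.lf 0 6916584 0) (P.cons (P.lf 701337 0 0) (P.cons (P.lf 365826 0 0) (P.cons (P.lf 21075 0 0) (P.cons (P.lf 5712 0 0) P.nil))))) (P.cons (P.cons (P.lf 2092878 0 0) (P.cons (P.lf 139335 0 0) (P.cons (P.lf 0 1611 0) (P.cons (P.lf 0 59883 0) P.nil)))) (P.cons (P.cons (P.lf 1193106 0 0) (P.cons (P.lf 0 355116 0) (P.cons (P.lf 0 134814 0) P.nil))) (P.cons (P.cons (P.lf 0 197523 0) (P.cons (P.lf 13782 0 0) P.nil)) (P.cons (P.cons (P.lf 0 15690 0) P.nil) P.nil)))))) 107328)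
 (EL.cons 8 (TM.mk (P.cons (P.cons (P.lf 0 150177 0) (P.cons (P.lf 19764 0 0) (P.cons (P.lf 9357 0 0) (P.cons (P.lf 0 225 0) (P.cons (P.lf 75 0 0) (P.cons (P.lf 0 33 0) P.nil)))))) (P.cons (P.cons (P.lf 420969 0 0) (P.cons (P.lf 0 47232 0) (P.cons (P.lf 0 23682 0) (P.cons (P.lf 0 597 0) (P.cons (P.lf 0 297 0) P.nil))))) (P.cons (P.cons (P.lf 0 353373 0) (P.cons (P.lf 22098 0 0) (P.cons (P.lf 14427 0 0) (P.cons (P.lf 3165 0 0) P.nil)))) (P.cons (P.cons (P.lf 36396 0 0) (P.cons (P.lf 19236 0 0) (P.cons (P.lf 5151 0 0) P.nil))) (P.cons (P.cons (P.lf 53922 0 0) (P.cons (P.lf 0 14442 0) P.nil)) (P.cons (P.cons (P.lf 0 7185 0) P.nil) P.nil)))))) 22008)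
 (EL.cons 11 (TM.mk (P.cons (P.cons (P.lf 2466435 0 0) (P.cons (P.lf 1890084 0 0) (P.cons (P.lf 0 791337 0) (P.cons (P.lf 0 154287 0) (P.cons (P.lf 47190 0 0) (P.cons (P.lf 951 0 0) P.nil)))))) (P.cons (P.cons (P.lf 0 5057049 0) (P.cons (P.lf 0 3906345 0) (P.cons (P.lf 1580247 0 0) (P.cons (P.lf 308337 0 0) (P.cons (P.lf 0 93480 0) P.nil))))) (P.cons (P.cons (P.lf 2677185 0 0) (P.cons (P.lf 2112516 0 0) (P.cons (P.lf 0 775920 0) (P.cons (P.lf 0 151740 0) P.nil)))) (P.cons (P.cons (P.lf 0 46845 0) (P.cons (P.lf 0 64221 0) (P.cons (P.lf 0 23565 0) P.nil))) (P.cons (P.cons (P.lf 0 41553 0) (P.cons (P.lf 0 33906 0) P.nil)) (P.cons (P.cons (P.lf 1530 0 0) P.nil) P.nil)))))) 103734)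
 EL.nil)))
noncomputable def S241_256_216_364_27 : EL := (EL.cons 13 (TM.mk (P.lf 0 4294967296 0) 0)
 EL.nil)
noncomputable def S241_256_216_364_28 : EL := (EL.cons 13 (TM.mk (P.cons (P.cons (P.lf 0 2440608319 0) (P.cons (P.lf 403360252 0 0) (P.cons (P.lf 173933492 0 0) (P.lf 0 19325940 0)))) (P.cons (P.cons (P.lf 154287971 0 0) (P.cons (P.lf 5193104 0 0) (P.cons (P.lf 2239324 0 0) (P.lf 0 248812 0)))) (P.cons (P.cons (P.lf 19734348 0 0) (P.cons (P.lf 0 2563132 0) (P.cons (P.lf 0 1105252 0) (P.lf 122804 0 0)))) (P.cons (P.cons (P.lf 0 1582715 0) (P.cons (P.lf 0 33264 0) (P.cons (P.lf 0 14344 0) P.nil))) (P.cons (P.cons (P.lf 0 72161 0) (P.cons (P.lf 8124 0 0) P.nil)) (P.cons (P.cons (P.lf 4563 0 0) P.nil) P.nil)))))) 6400)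
 EL.nil)
noncomputable def S241_256_216_364_29 : EL := (EL.cons 13 (TM.mk (P.cons (P.cons (P.lf 0 1386871786 0) (P.cons (P.lf 458417640 0 0) (P.cons (P.lf 159793431 0 0) (P.cons (P.lf 0 54633667 0) (P.cons (P.lf 0 3413815 0) (P.cons (P.lf 1565286 0 0) P.nil)))))) (P.cons (P.cons (P.lf 175347787 0 0) (P.cons (P.lf 0 23077848 0) (P.cons (P.lf 0 10926846 0) (P.cons (P.lf 264494 0 0) (P.cons (P.lf 0 87903 0) P.nil))))) (P.cons (P.cons (P.lf 16885541 0 0) (P.cons (P.lf 0 6992782 0) (P.cons (P.lf 0 2540215 0) (P.cons (P.lf 744820 0 0) P.nil)))) (P.cons (P.cons (P.lf 0 3216583 0) (P.cons (P.lf 395904 0 0) (P.cons (P.lf 183164 0 0) P.nil))) (P.cons (P.cons (P.lf 0 58973 0) (P.cons (P.lf 52558 0 0) P.nil)) (P.cons (P.cons (P.lf 24914 0 0) P.nil) P.nil)))))) 371352)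
 EL.nil)
noncomputable def S241_256_216_364_30 : EL := (EL.cons 13 (TM.mk (P.cons (P.lf 251388528 0 0) (P.cons (P.lf 0 250849684 0) (P.cons (P.lf 0 807108 0) (P.cons (P.lf 267112 0 0) (P.cons (P.lf 1436 0 0) (P.cons (P.lf 0 280 0) P.nil)))))) 32)
 EL.nil)
noncomputable def S241_256_216_364_31 : EL := (EL.cons 13 (TM.mk (P.cons (P.cons (P.lf 142851130 0 0) (P.cons (P.lf 0 23609059 0) (P.cons (P.lf 0 10180493 0) (P.lf 1131165 0 0)))) (P.cons (P.cons (P.lf 0 151575554 0) (P.cons (P.lf 23254497 0 0) (P.cons (P.lf 10027601 0 0) (P.lf 0 1114177 0)))) (P.cons (P.cons (P.lf 7397557 0 0) (P.cons (P.lf 529127 0 0) (P.cons (P.lf 228165 0 0) (P.lf 0 25351 0)))) (P.cons (P.cons (P.lf 1426011 0 0) (P.cons (P.lf 0 171863 0) (P.cons (P.lf 0 74109 0) P.nil))) (P.cons (P.cons (P.lf 0 93286 0) (P.cons (P.lf 0 3357 0) P.nil)) (P.cons (P.cons (P.lf 0 6217 0) P.nil) P.nil)))))) 11672)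
 EL.nil)
noncomputable def S241_256_216_364_32 : EL := (EL.cons 13 (TM.mk (P.cons (P.cons (P.lf 81174927 0 0) (P.cons (P.lf 0 26831621 0) (P.cons (P.lf 0 9352861 0) (P.cons (P.lf 3197760 0 0) (P.cons (P.lf 199813 0 0) (P.cons (P.lf 0 91617 0) P.nil)))))) (P.cons (P.cons (P.lf 0 91264203 0) (P.cons (P.lf 28124876 0 0) (P.cons (P.lf 9972372 0 0) (P.cons (P.lf 0 3206387 0) (P.cons (P.lf 0 194240 0) P.nil))))) (P.cons (P.cons (P.lf 8992326 0 0) (P.cons (P.lf 0 852433 0) (P.cons (P.lf 0 459478 0) (P.cons (P.lf 0 38413 0) P.nil)))) (P.cons (P.cons (P.lf 1293681 0 0) (P.cons (P.lf 0 464436 0) (P.cons (P.lf 0 171074 0) P.nil))) (P.cons (P.cons (P.lf 0 191682 0) (P.cons (P.lf 20014 0 0) P.nil)) (P.cons (P.cons (P.lf 0 6706 0) P.nil) P.nil)))))) 206037)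
 EL.nil)
noncomputable def S241_256_216_364_33 : EL := (EL.cons 14 (TM.mk (P.lf 8589934592 0 0) 0)
 EL.nil)
noncomputable def S241_256_216_364_34 : EL := (EL.cons 14 (TM.mk (P.cons (P.cons (P.lf 4881216638 0 0) (P.cons (P.lf 0 806720504 0) (P.cons (P.lf 0 347866984 0) (P.lf 38651880 0 0)))) (P.cons (P.cons (P.lf 0 308575942 0) (P.cons (P.lf 0 10386208 0) (P.cons (P.lf 0 4478648 0) (P.lf 497624 0 0)))) (P.cons (P.cons (P.lf 0 39468696 0) (P.cons (P.lf 5126264 0 0) (P.cons (P.lf 2210504 0 0) (P.lf 0 245608 0)))) (P.cons (P.cons (P.lf 3165430 0 0) (P.cons (P.lf 66528 0 0) (P.cons (P.lf 28688 0 0) P.nil))) (P.cons (P.cons (P.lf 144322 0 0) (P.cons (P.lf 0 16248 0) P.nil)) (P.cons (P.cons (P.lf 0 9126 0) P.nil) P.nil)))))) 12800)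
 EL.nil)
noncomputable def S241_256_216_364_35 : EL := (EL.cons 14 (TM.mk (P.cons (P.cons (P.lf 2773743572 0 0) (P.cons (P.lf 0 916835280 0) (P.cons (P.lf 0 319586862 0) (P.cons (P.lf 109267334 0 0) (P.cons (P.lf 6827630 0 0) (P.cons (P.lf 0 3130572 0) P.nil)))))) (P.cons (P.cons (P.lf 0 350695574 0) (P.cons (P.lf 46155696 0 0) (P.cons (P.lf 21853692 0 0) (P.cons (P.lf 0 528988 0) (P.cons (P.lf 175806 0 0) P.nil))))) (P.cons (P.cons (P.lf 0 33771082 0) (P.cons (P.lf 13985564 0 0) (P.cons (P.lf 5080430 0 0) (P.cons (P.lf 0 1489640 0) P.nil)))) (P.cons (P.cons (P.lf 6433166 0 0) (P.cons (P.lf 0 791808 0) (P.cons (P.lf 0 366328 0) P.nil))) (P.cons (P.cons (P.lf 117946 0 0) (P.cons (P.lf 0 105116 0) P.nil)) (P.cons (P.cons (P.lf 0 49828 0) P.nil) P.nil)))))) 742704)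
 EL.nil)
noncomputable def S241_256_216_364_36 : EL := (EL.cons 14 (TM.mk (P.cons (P.lf 0 502777056 0) (P.cons (P.lf 501699368 0 0) (P.cons (P.lf 1614216 0 0) (P.cons (P.lf 0 534224 0) (P.cons (P.lf 0 2872 0) (P.cons (P.lf 560 0 0) P.nil)))))) 64)
 EL.nil)
noncomputable def S241_256_216_364_37 : EL := (EL.cons 14 (TM.mk (P.cons (P.cons (P.lf 0 285702260 0) (P.cons (P.lf 47218118 0 0) (P.cons (P.lf 20360986 0 0) (P.lf 0 2262330 0)))) (P.cons (P.cons (P.lf 303151108 0 0) (P.cons (P.lf 0 46508994 0) (P.cons (P.lf 0 20055202 0) (P.lf 2228354 0 0)))) (P.cons (P.cons (P.lf 0 14795114 0) (P.cons (P.lf 0 1058254 0) (P.cons (P.lf 0 456330 0) (P.lf 50702 0 0)))) (P.cons (P.cons (P.lf 0 2852022 0) (P.cons (P.lf 343726 0 0) (P.cons (P.lf 148218 0 0) P.nil))) (P.cons (P.cons (P.lf 186572 0 0) (P.cons (P.lf 6714 0 0) P.nil)) (P.cons (P.cons (P.lf 12434 0 0) P.nil) P.nil))))))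 23344)
 EL.nil)
noncomputable def S241_256_216_364_38 : EL := (EL.cons 14 (TM.mk (P.cons (P.cons (P.lf 0 162349854 0) (P.cons (P.lf 53663242 0 0) (P.cons (P.lf 18705722 0 0) (P.cons (P.lf 0 6395520 0) (P.cons (P.lf 0 399626 0) (P.cons (P.lf 183234 0 0) P.nil)))))) (P.cons (P.cons (P.lf 182528406 0 0) (P.cons (P.lf 0 56249752 0) (P.cons (P.lf 0 19944744 0) (P.cons (P.lf 6412774 0 0) (P.cons (P.lf 388480 0 0) P.nil))))) (P.cons (P.cons (P.lf 0 17984652 0) (P.cons (P.lf 1704866 0 0) (P.cons (P.lf 918956 0 0) (P.cons (P.lf 76826 0 0) P.nil)))) (P.cons (P.cons (P.lf 0 2587362 0) (P.cons (P.lf 928872 0 0) (P.cons (P.lf 342148 0 0) P.nil))) (P.cons (P.cons (P.lf 383364 0 0) (P.cons (P.lf 0 40028 0) P.nil)) (P.cons (P.cons (P.lf 13412 0 0) P.nil) P.nil)))))) 412074)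
 EL.nil)
noncomputable def S241_256_216_364_39 : EL := (EL.cons 14 (TM.mk (P.cons (P.lf 29428020 0 0) (P.cons (P.lf 0 58729884 0) (P.cons (P.lf 29113034 0 0) (P.cons (P.lf 251094 0 0) (P.cons (P.lf 0 61762 0) (P.cons (P.lf 0 600 0) P.nil)))))) 128)
 EL.nil)
noncomputable def S241_256_216_364_40 : EL := (EL.cons 14 (TM.mk (P.cons (P.cons (P.lf 16722424 0 0) (P.cons (P.lf 0 2763720 0) (P.cons (P.lf 0 1191746 0) (P.lf 132416 0 0)))) (P.cons (P.cons (P.lf 0 34430304 0) (P.cons (P.lf 5480012 0 0) (P.cons (P.lf 2363042 0 0) (P.lf 0 262560 0)))) (P.cons (P.cons (P.lf 18517972 0 0) (P.cons (P.lf 0 2645566 0) (P.cons (P.lf 0 1140798 0) (P.lf 126754 0 0)))) (P.cons (P.cons (P.lf 0 622448 0) (P.cons (P.lf 0 93602 0) (P.cons (P.lf 0 40362 0) P.nil))) (P.cons (P.cons (P.lf 0 199030 0) (P.cons (P.lf 22360 0 0) P.nil)) (P.cons (P.cons (P.lf 10434 0 0) P.nil) P.nil)))))) 18226)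
 EL.nil)
noncomputable def S241_256_216_364_41 : EL := (EL.cons 14 (TM.mk (P.cons (P.cons (P.lf 9502490 0 0) (P.cons (P.lf 0 3140960 0) (P.cons (P.lf 0 1094862 0) (P.cons (P.lf 374334 0 0) (P.cons (P.lf 23390 0 0) (P.cons (P.lf 0 10724 0) P.nil)))))) (P.cons (P.cons (P.lf 0 20165684 0) (P.cons (P.lf 6426578 0 0) (P.cons (P.lf 2259900 0 0) (P.cons (P.lf 0 748878 0) (P.cons (P.lf 0 46078 0) P.nil))))) (P.cons (P.cons (P.lf 11682810 0 0) (P.cons (P.lf 0 3374996 0) (P.cons (P.lf 0 1215154 0) (P.cons (P.lf 368842 0 0) P.nil)))) (P.cons (P.cons (P.lf 0 854564 0) (P.cons (P.lf 31298 0 0) (P.cons (P.lf 28734 0 0) P.nil))) (P.cons (P.cons (P.lf 0 188230 0) (P.cons (P.lf 60394 0 0) P.nil)) (P.cons (P.cons (P.lf 22166 0 0) P.nil) P.nil)))))) 119090)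
 EL.nil)
noncomputable def S241_256_216_364_42 : EL := (EL.cons 14 (TM.mk (P.cons (P.lf 0 1722450 0) (P.cons (P.lf 5156274 0 0) (P.cons (P.lf 0 5128630 0) (P.cons (P.lf 1672796 0 0) (P.cons (P.lf 27392 0 0) (P.cons (P.lf 0 5312 0) P.nil)))))) 110)
 EL.nil)
noncomputable def S241_256_216_364_43 : EL := (EL.cons 14 (TM.mk (P.cons (P.cons (P.lf 0 978778 0) (P.cons (P.lf 161762 0 0) (P.cons (P.lf 69754 0 0) (P.lf 0 7750 0)))) (P.cons (P.cons (P.lf 2991918 0 0) (P.cons (P.lf 0 482166 0) (P.cons (P.lf 0 207914 0) (P.lf 23100 0 0)))) (P.cons (P.cons (P.lf 0 3091650 0) (P.cons (P.lf 474390 0 0) (P.cons (P.lf 204562 0 0) (P.lf 0 22728 0)))) (P.cons (P.cons (P.lf 1110472 0 0) (P.cons (P.lf 0 147834 0) (P.cons (P.lf 0 63748 0) P.nil))) (P.cons (P.cons (P.lf 0 19090 0) (P.cons (P.lf 0 7612 0) P.nil)) (P.cons (P.cons (P.lf 0 13490 0) P.nil) P.nil)))))) 15294)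
 EL.nil)
noncomputable def S241_256_216_364_44 : EL := (EL.cons 14 (TM.mk (P.cons (P.cons (P.lf 0 556188 0) (P.cons (P.lf 183842 0 0) (P.cons (P.lf 64082 0 0) (P.cons (P.lf 0 21910 0) (P.cons (P.lf 0 1368 0) (P.cons (P.lf 626 0 0) P.nil)))))) (P.cons (P.cons (P.lf 1735314 0 0) (P.cons (P.lf 0 559602 0) (P.cons (P.lf 0 196220 0) (P.cons (P.lf 65694 0 0) (P.cons (P.lf 4062 0 0) P.nil))))) (P.cons (P.cons (P.lf 0 1859806 0) (P.cons (P.lf 572298 0 0) (P.cons (P.lf 202908 0 0) (P.cons (P.lf 0 65256 0) P.nil)))) (P.cons (P.cons (P.lf 727976 0 0) (P.cons (P.lf 0 197546 0) (P.cons (P.lf 0 72160 0) P.nil))) (P.cons (P.cons (P.lf 0 35448 0) (P.cons (P.lf 0 2738 0) P.nil)) (P.cons (P.cons (P.lf 0 13170 0) P.nil) P.nil)))))) 51722)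
 EL.nil)
noncomputable def S241_256_216_364_45 : EL := (EL.cons 14 (TM.mk (P.cons (P.cons (P.lf 1576175362 0 0) (P.cons (P.lf 0 781485278 0) (P.cons (P.lf 0 207828904 0) (P.cons (P.lf 141714924 0 0) (P.cons (P.lf 2434854 0 0) (P.cons (P.lf 0 8283196 0) P.nil)))))) (P.cons (P.cons (P.lf 0 298923300 0) (P.cons (P.lf 88745016 0 0) (P.cons (P.lf 33428648 0 0) (P.cons (P.lf 0 8700242 0) (P.cons (P.lf 0 791614 0) P.nil))))) (P.cons (P.cons (P.lf 0 19337026 0) (P.cons (P.lf 15752794 0 0) (P.cons (P.lf 3918180 0 0) (P.cons (P.lf 0 3101768 0) P.nil)))) (P.cons (P.cons (P.lf 7502292 0 0) (P.cons (P.lf 0 2253418 0) (P.cons (P.lf 0 854854 0) P.nil))) (P.cons (P.cons (P.lf 0 91536 0) (P.cons (P.lf 0 140914 0) P.nil)) (P.cons (P.cons (P.lf 0 83394 0) P.nil) P.nil)))))) 3395636)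
 EL.nil)
noncomputable def S241_256_216_364_46 : EL := (EL.cons 15 (TM.mk (P.lf 4294967296 0 0) 0)
 EL.nil)
noncomputable def S241_256_216_364_47 : EL := (EL.cons 15 (TM.mk (P.cons (P.cons (P.lf 2440608319 0 0) (P.cons (P.lf 0 403360252 0) (P.cons (P.lf 0 173933492 0) (P.lf 19325940 0 0)))) (P.cons (P.cons (P.lf 0 154287971 0) (P.cons (P.lf 0 5193104 0) (P.cons (P.lf 0 2239324 0) (P.lf 248812 0 0)))) (P.cons (P.cons (P.lf 0 19734348 0) (P.cons (P.lf 2563132 0 0) (P.cons (P.lf 1105252 0 0) (P.lf 0 122804 0)))) (P.cons (P.cons (P.lf 1582715 0 0) (P.cons (P.lf 33264 0 0) (P.cons (P.lf 14344 0 0) P.nil))) (P.cons (P.cons (P.lf 72161 0 0) (P.cons (P.lf 0 8124 0) P.nil)) (P.cons (P.cons (P.lf 0 4563 0) P.nil) P.nil)))))) 6400)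
 EL.nil)
noncomputable def S241_256_216_364_48 : EL := (EL.cons 15 (TM.mk (P.cons (P.cons (P.lf 1386871786 0 0) (P.cons (P.lf 0 458417640 0) (P.cons (P.lf 0 159793431 0) (P.cons (P.lf 54633667 0 0) (P.cons (P.lf 3413815 0 0) (P.cons (P.lf 0 1565286 0) P.nil)))))) (P.cons (P.cons (P.lf 0 175347787 0) (P.cons (P.lf 23077848 0 0) (P.cons (P.lf 10926846 0 0) (P.cons (P.lf 0 264494 0) (P.cons (P.lf 87903 0 0) P.nil))))) (P.cons (P.cons (P.lf 0 16885541 0) (P.cons (P.lf 6992782 0 0) (P.cons (P.lf 2540215 0 0) (P.cons (P.lf 0 744820 0) P.nil)))) (P.cons (P.cons (P.lf 3216583 0 0) (P.cons (P.lf 0 395904 0) (P.cons (P.lf 0 183164 0) P.nil))) (P.cons (P.cons (P.lf 58973 0 0) (P.cons (P.lf 0 52558 0) P.nil)) (P.cons (P.cons (P.lf 0 24914 0) P.nil) P.nil)))))) 371352)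
 EL.nil)
noncomputable def S241_256_216_364 : SL := (SL.cons S241_256_216_364_0 (SL.cons S241_256_216_364_1 (SL.cons S241_256_216_364_2 (SL.cons S241_256_216_364_3 (SL.cons S241_256_216_364_4 (SL.cons S241_256_216_364_5 (SL.cons S241_256_216_364_6 (SL.cons S241_256_216_364_7 (SL.cons S241_256_216_364_8 (SL.cons S241_256_216_364_9 (SL.cons S241_256_216_364_10 (SL.cons S241_256_216_364_11 (SL.cons S241_256_216_364_12 (SL.cons S241_256_216_364_13 (SL.cons S241_256_216_364_14 (SL.cons S241_256_216_364_15 (SL.cons S241_256_216_364_16 (SL.cons S241_256_216_364_17 (SL.cons S241_256_216_364_18 (SL.cons S241_256_216_364_19 (SL.cons S241_256_216_364_20 (SL.cons S241_256_216_364_21 (SL.cons S241_256_216_364_22 (SL.cons S241_256_216_364_23 (SL.cons S241_256_216_364_24 (SL.cons S241_256_216_364_25 (SL.cons S241_256_216_364_26 (SL.cons S241_256_216_364_27 (SL.cons S241_256_216_364_28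 (SL.cons S241_256_216_364_29 (SL.cons S241_256_216_364_30 (SL.cons S241_256_216_364_31 (SL.cons S241_256_216_364_32 (SL.cons S241_256_216_364_33 (SL.cons S241_256_216_364_34 (SL.cons S241_256_216_364_35 (SL.cons S241_256_216_364_36 (SL.cons S241_256_216_364_37 (SL.cons S241_256_216_364_38 (SL.cons S241_256_216_364_39 (SL.cons S241_256_216_364_40 (SL.cons S241_256_216_364_41 (SL.cons S241_256_216_364_42 (SL.cons S241_256_216_364_43 (SL.cons S241_256_216_364_44 (SL.cons S241_256_216_364_45 (SL.cons S241_256_216_364_46 (SL.cons S241_256_216_364_47 (SL.cons S241_256_216_364_48 SL.nil)))))))))))))))))))))))))))))))))))))))))))))))))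
noncomputable def S241_256_290_364_0 : EL := (EL.cons 0 (TM.mk (P.cons (P.lf 8429852393 0 0) (P.cons (P.lf 51618062 0 0) (P.cons (P.lf 0 25587627 0) (P.cons (P.lf 0 220688 0) (P.cons (P.lf 54283 0 0) (P.cons (P.lf 527 0 0) P.nil)))))) 119)
 (EL.cons 1 (TM.mk (P.cons (P.lf 0 235171578 0) (P.cons (P.lf 233658247 0 0) (P.cons (P.lf 2264585 0 0) (P.cons (P.lf 0 745863 0) (P.cons (P.lf 0 6716 0) (P.cons (P.lf 1310 0 0) P.nil)))))) 72)
 (EL.cons 5 (TM.mk (P.cons (P.lf 4304163554 0 0) (P.cons (P.lf 0 18353086 0) (P.cons (P.lf 9097822 0 0) (P.cons (P.lf 78466 0 0) (P.cons (P.lf 0 19296 0) (P.cons (P.lf 0 186 0) P.nil)))))) 147)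
 (EL.cons 9 (TM.mk (P.lf 6442450944 0 0) 2)
 EL.nil))))
noncomputable def S241_256_290_364_1 : EL := (EL.cons 0 (TM.mk (P.cons (P.cons (P.lf 4534690272 0 0) (P.cons (P.lf 0 547227153 0) (P.cons (P.lf 0 70467050 0) (P.lf 4697801 0 0)))) (P.cons (P.cons (P.lf 0 451430030 0) (P.cons (P.lf 0 20573072 0) (P.cons (P.lf 0 2649207 0) (P.lf 176608 0 0)))) (P.cons (P.cons (P.lf 0 109694024 0) (P.cons (P.lf 10009009 0 0) (P.cons (P.lf 1288861 0 0) (P.lf 0 85918 0)))) (P.cons (P.cons (P.lf 10234134 0 0) (P.cons (P.lf 275251 0 0) (P.cons (P.lf 35432 0 0) P.nil))) (P.cons (P.cons (P.lf 858589 0 0) (P.cons (P.lf 0 65998 0) P.nil)) (P.cons (P.cons (P.lf 0 61410 0) P.nil) P.nil)))))) 19456)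
 (EL.cons 1 (TM.mk (P.cons (P.cons (P.lf 879543789 0 0) (P.cons (P.lf 38420796 0 0) (P.cons (P.lf 4947485 0 0) (P.lf 0 329827 0)))) (P.cons (P.cons (P.lf 374392809 0 0) (P.cons (P.lf 0 37479680 0) (P.cons (P.lf 0 4826299 0) (P.lf 321749 0 0)))) (P.cons (P.cons (P.lf 0 40972028 0) (P.cons (P.lf 0 1401428 0) (P.cons (P.lf 0 180458 0) (P.lf 12024 0 0)))) (P.cons (P.cons (P.lf 0 5485567 0) (P.cons (P.lf 450141 0 0) (P.cons (P.lf 57959 0 0) P.nil))) (P.cons (P.cons (P.lf 449188 0 0) (P.cons (P.lf 12612 0 0) P.nil)) (P.cons (P.cons (P.lf 33597 0 0) P.nil) P.nil)))))) 12316)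
 (EL.cons 5 (TM.mk (P.cons (P.cons (P.lf 2124028652 0 0) (P.cons (P.lf 0 283809742 0) (P.cons (P.lf 0 36546498 0) (P.lf 2436436 0 0)))) (P.cons (P.cons (P.lf 0 107094074 0) (P.cons (P.lf 1155918 0 0) (P.cons (P.lf 148844 0 0) (P.lf 0 9918 0)))) (P.cons (P.cons (P.lf 8076224 0 0) (P.cons (P.lf 0 518916 0) (P.cons (P.lf 0 66816 0) (P.lf 4452 0 0)))) (P.cons (P.cons (P.lf 0 914149 0) (P.cons (P.lf 0 58414 0) (P.cons (P.lf 0 7514 0) P.nil))) (P.cons (P.cons (P.lf 0 190904 0) (P.cons (P.lf 13822 0 0) P.nil)) (P.cons (P.cons (P.lf 13951 0 0) P.nil) P.nil)))))) 11881)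
 (EL.cons 9 (TM.mk (P.cons (P.cons (P.lf 3296790844 0 0) (P.cons (P.lf 0 422099466 0) (P.cons (P.lf 0 54354216 0) (P.lf 3623610 0 0)))) (P.cons (P.cons (P.lf 0 236119882 0) (P.cons (P.lf 0 5434362 0) (P.cons (P.lf 0 699786 0) (P.lf 46650 0 0)))) (P.cons (P.cons (P.lf 0 27287724 0) (P.cons (P.lf 2682210 0 0) (P.cons (P.lf 345384 0 0) (P.lf 0 23022 0)))) (P.cons (P.cons (P.lf 2404102 0 0) (P.cons (P.lf 34806 0 0) (P.cons (P.lf 4476 0 0) P.nil))) (P.cons (P.cons (P.lf 100903 0 0) (P.cons (P.lf 0 8502 0) P.nil)) (P.cons (P.cons (P.lf 0 6952 0) P.nil) P.nil)))))) 2533)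
 (EL.cons 2 (TM.mk (P.cons (P.cons (P.lf 100076599 0 0) (P.cons (P.lf 28569605 0 0) (P.cons (P.lf 0 2136960 0) (P.cons (P.lf 0 143997 0) (P.lf 7197 0 0))))) (P.cons (P.cons (P.lf 0 99003124 0) (P.cons (P.lf 0 28263152 0) (P.cons (P.lf 2114038 0 0) (P.cons (P.lf 142453 0 0) (P.lf 0 7121 0))))) (P.cons (P.cons (P.lf 0 1604227 0) (P.cons (P.lf 0 457970 0) (P.cons (P.lf 34253 0 0) (P.cons (P.lf 2306 0 0) P.nil)))) (P.cons (P.cons (P.lf 524790 0 0) (P.cons (P.lf 149813 0 0) (P.cons (P.lf 0 11205 0) P.nil))) (P.cons (P.cons (P.lf 7416 0 0) (P.cons (P.lf 2117 0 0) P.nil)) (P.cons (P.cons (P.lf 0 1437 0) P.nil) P.nil)))))) 1708)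
 (EL.cons 6 (TM.mk (P.cons (P.cons (P.lf 909942159 0 0) (P.cons (P.lf 259767921 0 0) (P.cons (P.lf 0 19430220 0) (P.cons (P.lf 0 1309311 0) (P.lf 65463 0 0))))) (P.cons (P.cons (P.lf 11715153 0 0) (P.cons (P.lf 3344409 0 0) (P.cons (P.lf 0 250155 0) (P.cons (P.lf 0 16854 0) (P.lf 840 0 0))))) (P.cons (P.cons (P.lf 0 5782188 0) (P.cons (P.lf 0 1650681 0) (P.cons (P.lf 123465 0 0) (P.cons (P.lf 8316 0 0) P.nil)))) (P.cons (P.cons (P.lf 0 75042 0) (P.cons (P.lf 0 21420 0) (P.cons (P.lf 1599 0 0) P.nil))) (P.cons (P.cons (P.lf 18330 0 0) (P.cons (P.lf 5232 0 0) P.nil)) (P.cons (P.cons (P.lf 249 0 0) P.nil) P.nil)))))) 1302)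
 EL.nil))))))
noncomputable def S241_256_290_364_2 : EL := (EL.cons 0 (TM.mk (P.cons (P.cons (P.lf 2433568630 0 0) (P.cons (P.lf 0 589008781 0) (P.cons (P.lf 0 40326911 0) (P.cons (P.lf 14204477 0 0) (P.cons (P.lf 0 20874 0) (P.cons (P.lf 0 78543 0) P.nil)))))) (P.cons (P.cons (P.lf 0 491728358 0) (P.cons (P.lf 40814277 0 0) (P.cons (P.lf 7721376 0 0) (P.cons (P.lf 284624 0 0) (P.cons (P.lf 0 1440 0) P.nil))))) (P.cons (P.cons (P.lf 0 83734880 0) (P.cons (P.lf 24587887 0 0) (P.cons (P.lf 1991722 0 0) (P.cons (P.lf 0 513544 0) P.nil)))) (P.cons (P.cons (P.lf 19139082 0 0) (P.cons (P.lf 0 1574183 0) (P.cons (P.lf 0 260267 0) P.nil))) (P.cons (P.cons (P.lf 672363 0 0) (P.cons (P.lf 0 341259 0) P.nil)) (P.cons (P.cons (P.lf 0 254024 0) P.nil) P.nil)))))) 217888)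
 (EL.cons 1 (TM.mk (P.cons (P.cons (P.lf 961760289 0 0) (P.cons (P.lf 0 91700146 0) (P.cons (P.lf 0 15833357 0) (P.cons (P.lf 0 249394 0) (P.cons (P.lf 2361 0 0) (P.cons (P.lf 8891 0 0) P.nil)))))) (P.cons (P.cons (P.lf 248695126 0 0) (P.cons (P.lf 0 75123844 0) (P.cons (P.lf 0 5804388 0) (P.cons (P.lf 1641438 0 0) (P.cons (P.lf 0 2265 0) P.nil))))) (P.cons (P.cons (P.lf 0 69359417 0) (P.cons (P.lf 5933800 0 0) (P.cons (P.lf 994745 0 0) (P.cons (P.lf 8460 0 0) P.nil)))) (P.cons (P.cons (P.lf 0 3983946 0) (P.cons (P.lf 1700457 0 0) (P.cons (P.lf 146743 0 0) P.nil))) (P.cons (P.cons (P.lf 1336201 0 0) (P.cons (P.lf 0 103121 0) P.nil)) (P.cons (P.cons (P.lf 19964 0 0) P.nil) P.nil)))))) 118895)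
 (EL.cons 5 (TM.mk (P.cons (P.cons (P.lf 1046737536 0 0) (P.cons (P.lf 0 280176162 0) (P.cons (P.lf 0 17365389 0) (P.cons (P.lf 7224697 0 0) (P.cons (P.lf 0 10987 0) (P.cons (P.lf 0 41367 0) P.nil)))))) (P.cons (P.cons (P.lf 0 99043361 0) (P.cons (P.lf 14250650 0 0) (P.cons (P.lf 1765439 0 0) (P.cons (P.lf 0 140262 0) (P.cons (P.lf 29 0 0) P.nil))))) (P.cons (P.cons (P.lf 7928609 0 0) (P.cons (P.lf 0 1127281 0) (P.cons (P.lf 0 120699 0) (P.cons (P.lf 15956 0 0) P.nil)))) (P.cons (P.cons (P.lf 0 1749515 0) (P.cons (P.lf 72409 0 0) (P.cons (P.lf 19488 0 0) P.nil))) (P.cons (P.cons (P.lf 0 190731 0) (P.cons (P.lf 63238 0 0) P.nil)) (P.cons (P.cons (P.lf 50779 0 0) P.nil) P.nil)))))) 115533)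
 (EL.cons 9 (TM.mk (P.cons (P.cons (P.lf 1687064436 0 0) (P.cons (P.lf 0 432001318 0) (P.cons (P.lf 0 27973981 0) (P.cons (P.lf 10831023 0 0) (P.cons (P.lf 0 16245 0) (P.cons (P.lf 0 61143 0) P.nil)))))) (P.cons (P.cons (P.lf 0 241658919 0) (P.cons (P.lf 25378576 0 0) (P.cons (P.lf 3980131 0 0) (P.cons (P.lf 0 34474 0) (P.cons (P.lf 0 417 0) P.nil))))) (P.cons (P.cons (P.lf 0 19273912 0) (P.cons (P.lf 6719175 0 0) (P.cons (P.lf 518343 0 0) (P.cons (P.lf 0 147013 0) P.nil)))) (P.cons (P.cons (P.lf 4460722 0 0) (P.cons (P.lf 0 429976 0) (P.cons (P.lf 0 64459 0) P.nil))) (P.cons (P.cons (P.lf 42627 0 0) (P.cons (P.lf 0 51252 0) P.nil)) (P.cons (P.cons (P.lf 0 34876 0) P.nil) P.nil)))))) 42881)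
 (EL.cons 2 (TM.mk (P.cons (P.cons (P.lf 102424252 0 0) (P.cons (P.lf 16126076 0 0) (P.cons (P.lf 0 7619428 0) (P.cons (P.lf 0 236851 0) (P.cons (P.lf 94432 0 0) (P.cons (P.lf 0 916 0) P.nil)))))) (P.cons (P.cons (P.lf 0 108661336 0) (P.cons (P.lf 0 18216123 0) (P.cons (P.lf 7624400 0 0) (P.cons (P.lf 243714 0 0) (P.cons (P.lf 0 92823 0) P.nil))))) (P.cons (P.cons (P.lf 4767418 0 0) (P.cons (P.lf 1821555 0 0) (P.cons (P.lf 88987 0 0) (P.cons (P.lf 0 3712 0) P.nil)))) (P.cons (P.cons (P.lf 1568058 0 0) (P.cons (P.lf 300228 0 0) (P.cons (P.lf 0 94545 0) P.nil))) (P.cons (P.cons (P.lf 0 88036 0) (P.cons (P.lf 0 29655 0) P.nil)) (P.cons (P.cons (P.lf 0 10974 0) P.nil) P.nil)))))) 34919)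
 (EL.cons 6 (TM.mk (P.cons (P.cons (P.lf 931288104 0 0) (P.cons (P.lf 146625690 0 0) (P.cons (P.lf 0 69279366 0) (P.cons (P.lf 0 2153598 0) (P.cons (P.lf 858642 0 0) (P.cons (P.lf 0 8340 0) P.nil)))))) (P.cons (P.cons (P.lf 0 54709926 0) (P.cons (P.lf 0 18688680 0) (P.cons (P.lf 0 103602 0) (P.cons (P.lf 57768 0 0) (P.cons (P.lf 16446 0 0) P.nil))))) (P.cons (P.cons (P.lf 0 14484888 0) (P.cons (P.lf 0 2639508 0) (P.cons (P.lf 928842 0 0) (P.cons (P.lf 31038 0 0) P.nil)))) (P.cons (P.cons (P.lf 926910 0 0) (P.cons (P.lf 303786 0 0) (P.cons (P.lf 0 3564 0) P.nil))) (P.cons (P.cons (P.lf 110484 0 0) (P.cons (P.lf 22170 0 0) P.nil)) (P.cons (P.cons (P.lf 0 6360 0) P.nil) P.nil)))))) 31074)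
 EL.nil))))))
noncomputable def S241_256_290_364_3 : EL := (EL.cons 0 (TM.mk (P.cons (P.lf 25864470 0 0) (P.cons (P.lf 0 51618062 0) (P.cons (P.lf 25587627 0 0) (P.cons (P.lf 220688 0 0) (P.cons (P.lf 0 54283 0) (P.cons (P.lf 0 527 0) P.nil)))))) 119)
 (EL.cons 1 (TM.mk (P.cons (P.lf 235171578 0 0) (P.cons (P.lf 0 233658247 0) (P.cons (P.lf 0 2264585 0) (P.cons (P.lf 745863 0 0) (P.cons (P.lf 6716 0 0) (P.cons (P.lf 0 1310 0) P.nil)))))) 72)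
 (EL.cons 5 (TM.mk (P.cons (P.lf 2138287390 0 0) (P.cons (P.lf 18353086 0 0) (P.cons (P.lf 0 9097822 0) (P.cons (P.lf 0 78466 0) (P.cons (P.lf 19296 0 0) (P.cons (P.lf 186 0 0) P.nil)))))) 140)
 EL.nil)))
noncomputable def S241_256_290_364_4 : EL := (EL.cons 0 (TM.mk (P.cons (P.cons (P.lf 13235605 0 0) (P.cons (P.lf 0 1694599 0) (P.cons (P.lf 0 218214 0) (P.lf 14547 0 0)))) (P.cons (P.cons (P.lf 0 27362422 0) (P.cons (P.lf 3360118 0 0) (P.cons (P.lf 432685 0 0) (P.lf 0 28845 0)))) (P.cons (P.cons (P.lf 14876219 0 0) (P.cons (P.lf 0 1622151 0) (P.cons (P.lf 0 208886 0) (P.lf 13925 0 0)))) (P.cons (P.cons (P.lf 0 596583 0) (P.cons (P.lf 0 57392 0) (P.cons (P.lf 0 7389 0) P.nil))) (P.cons (P.cons (P.lf 0 163102 0) (P.cons (P.lf 13709 0 0) P.nil)) (P.cons (P.cons (P.lf 9495 0 0) P.nil) P.nil)))))) 3995)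
 (EL.cons 1 (TM.mk (P.cons (P.cons (P.lf 120344184 0 0) (P.cons (P.lf 0 15408078 0) (P.cons (P.lf 0 1984113 0) (P.lf 132271 0 0)))) (P.cons (P.cons (P.lf 0 128188953 0) (P.cons (P.lf 15110553 0 0) (P.cons (P.lf 1945801 0 0) (P.lf 0 129718 0)))) (P.cons (P.cons (P.lf 6408768 0 0) (P.cons (P.lf 443377 0 0) (P.cons (P.lf 57093 0 0) (P.lf 0 3804 0)))) (P.cons (P.cons (P.lf 1542121 0 0) (P.cons (P.lf 0 142965 0) (P.cons (P.lf 0 18408 0) P.nil))) (P.cons (P.cons (P.lf 0 97815 0) (P.cons (P.lf 0 3583 0) P.nil)) (P.cons (P.cons (P.lf 0 8833 0) P.nil) P.nil)))))) 3433)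
 (EL.cons 5 (TM.mk (P.cons (P.cons (P.lf 1094224286 0 0) (P.cons (P.lf 0 140097296 0) (P.cons (P.lf 0 18040482 0) (P.lf 1202696 0 0)))) (P.cons (P.cons (P.lf 0 68977766 0) (P.cons (P.lf 0 3006162 0) (P.cons (P.lf 0 387104 0) (P.lf 25806 0 0)))) (P.cons (P.cons (P.lf 0 14385230 0) (P.cons (P.lf 1470834 0 0) (P.cons (P.lf 189396 0 0) (P.lf 0 12624 0)))) (P.cons (P.cons (P.lf 1013484 0 0) (P.cons (P.lf 32008 0 0) (P.cons (P.lf 4118 0 0) P.nil))) (P.cons (P.cons (P.lf 91624 0 0) (P.cons (P.lf 0 7708 0) P.nil)) (P.cons (P.cons (P.lf 0 5694 0) P.nil) P.nil)))))) 2346)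
 EL.nil)))
noncomputable def S241_256_290_364_5 : EL := (EL.cons 0 (TM.mk (P.cons (P.cons (P.lf 6773046 0 0) (P.cons (P.lf 0 1734352 0) (P.cons (P.lf 0 112306 0) (P.cons (P.lf 43483 0 0) (P.cons (P.lf 0 65 0) (P.cons (P.lf 0 244 0) P.nil)))))) (P.cons (P.cons (P.lf 0 14487245 0) (P.cons (P.lf 3563158 0 0) (P.cons (P.lf 240110 0 0) (P.cons (P.lf 0 86916 0) (P.cons (P.lf 128 0 0) P.nil))))) (P.cons (P.cons (P.lf 8559386 0 0) (P.cons (P.lf 0 1892151 0) (P.cons (P.lf 0 140913 0) (P.cons (P.lf 42702 0 0) P.nil)))) (P.cons (P.cons (P.lf 0 729676 0) (P.cons (P.lf 30436 0 0) (P.cons (P.lf 10436 0 0) P.nil))) (P.cons (P.cons (P.lf 0 134611 0) (P.cons (P.lf 34433 0 0) P.nil)) (P.cons (P.cons (P.lf 18472 0 0) P.nil) P.nil)))))) 11076)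
 (EL.cons 1 (TM.mk (P.cons (P.cons (P.lf 61583641 0 0) (P.cons (P.lf 0 15769530 0) (P.cons (P.lf 0 1021145 0) (P.cons (P.lf 395368 0 0) (P.cons (P.lf 0 590 0) (P.cons (P.lf 0 2229 0) P.nil)))))) (P.cons (P.cons (P.lf 0 70008733 0) (P.cons (P.lf 16594458 0 0) (P.cons (P.lf 1159861 0 0) (P.cons (P.lf 0 394081 0) (P.cons (P.lf 571 0 0) P.nil))))) (P.cons (P.cons (P.lf 7468029 0 0) (P.cons (P.lf 0 523316 0) (P.cons (P.lf 0 115597 0) (P.cons (P.lf 0 7921 0) P.nil)))) (P.cons (P.cons (P.lf 1142130 0 0) (P.cons (P.lf 0 318324 0) (P.cons (P.lf 0 25788 0) P.nil))) (P.cons (P.cons (P.lf 0 179670 0) (P.cons (P.lf 13848 0 0) P.nil)) (P.cons (P.cons (P.lf 0 7213 0) P.nil) P.nil)))))) 20193)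
 (EL.cons 5 (TM.mk (P.cons (P.cons (P.lf 559946616 0 0) (P.cons (P.lf 0 143383780 0) (P.cons (P.lf 0 9284728 0) (P.cons (P.lf 3594878 0 0) (P.cons (P.lf 0 5390 0) (P.cons (P.lf 0 20292 0) P.nil)))))) (P.cons (P.cons (P.lf 0 75401950 0) (P.cons (P.lf 7192622 0 0) (P.cons (P.lf 1241336 0 0) (P.cons (P.lf 19412 0 0) (P.cons (P.lf 0 182 0) P.nil))))) (P.cons (P.cons (P.lf 0 9467974 0) (P.cons (P.lf 2912488 0 0) (P.cons (P.lf 222882 0 0) (P.cons (P.lf 0 64186 0) P.nil)))) (P.cons (P.cons (P.lf 1746346 0 0) (P.cons (P.lf 0 154146 0) (P.cons (P.lf 0 25196 0) P.nil))) (P.cons (P.cons (P.lf 62070 0 0) (P.cons (P.lf 0 29326 0) P.nil)) (P.cons (P.cons (P.lf 0 18192 0) P.nil) P.nil)))))) 18088)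
 EL.nil)))
noncomputable def S241_256_290_364_6 : EL := (EL.cons 12 (TM.mk (P.lf 8589934592 0 0) 0)
 (EL.cons 3 (TM.mk (P.cons (P.lf 0 235676745 0) (P.cons (P.lf 235171578 0 0) (P.cons (P.lf 756663 0 0) (P.cons (P.lf 0 250417 0) (P.cons (P.lf 0 1346 0) (P.cons (P.lf 262 0 0) P.nil)))))) 37)
 (EL.cons 7 (TM.mk (P.cons (P.lf 0 2142880586 0) (P.cons (P.lf 0 9196255 0) (P.cons (P.lf 4578416 0 0) (P.cons (P.lf 19669 0 0) (P.cons (P.lf 0 4863 0) (P.cons (P.lf 0 31 0) P.nil)))))) 53)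
 EL.nil)))
noncomputable def S241_256_290_364_7 : EL := (EL.cons 12 (TM.mk (P.cons (P.cons (P.lf 4395721126 0 0) (P.cons (P.lf 0 562799288 0) (P.cons (P.lf 0 72472288 0) (P.lf 4831480 0 0)))) (P.cons (P.cons (P.lf 0 314826510 0) (P.cons (P.lf 0 7245816 0) (P.cons (P.lf 0 933048 0) (P.lf 62200 0 0)))) (P.cons (P.cons (P.lf 0 36383632 0) (P.cons (P.lf 3576280 0 0) (P.cons (P.lf 460512 0 0) (P.lf 0 30696 0)))) (P.cons (P.cons (P.lf 3205470 0 0) (P.cons (P.lf 46408 0 0) (P.cons (P.lf 5968 0 0) P.nil))) (P.cons (P.cons (P.lf 134538 0 0) (P.cons (P.lf 0 11336 0) P.nil)) (P.cons (P.cons (P.lf 0 9270 0) P.nil) P.nil)))))) 3352)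
 (EL.cons 3 (TM.mk (P.cons (P.cons (P.lf 0 2133330562 0) (P.cons (P.lf 0 30882354 0) (P.cons (P.lf 0 3976754 0) (P.lf 265114 0 0)))) (P.cons (P.cons (P.lf 0 340552666 0) (P.cons (P.lf 30418560 0 0) (P.cons (P.lf 3917030 0 0) (P.lf 0 261134 0)))) (P.cons (P.cons (P.lf 55407688 0 0) (P.cons (P.lf 692134 0 0) (P.cons (P.lf 89126 0 0) (P.lf 0 5940 0)))) (P.cons (P.cons (P.lf 2832938 0 0) (P.cons (P.lf 0 224808 0) (P.cons (P.lf 0 28948 0) P.nil))) (P.cons (P.cons (P.lf 0 265547 0) (P.cons (P.lf 0 4390 0) P.nil)) (P.cons (P.cons (P.lf 0 11769 0) P.nil) P.nil)))))) 9562)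
 (EL.cons 7 (TM.mk (P.cons (P.cons (P.lf 0 1017868145 0) (P.cons (P.lf 142209696 0 0) (P.cons (P.lf 18312501 0 0) (P.lf 0 1220838 0)))) (P.cons (P.cons (P.lf 13317126 0 0) (P.cons (P.lf 0 1189497 0) (P.cons (P.lf 0 153172 0) (P.lf 10211 0 0)))) (P.cons (P.cons (P.lf 0 8839549 0) (P.cons (P.lf 568962 0 0) (P.cons (P.lf 73262 0 0) (P.lf 0 4882 0)))) (P.cons (P.cons (P.lf 1351102 0 0) (P.cons (P.lf 25590 0 0) (P.cons (P.lf 3292 0 0) P.nil))) (P.cons (P.cons (P.lf 86541 0 0) (P.cons (P.lf 0 6156 0) P.nil)) (P.cons (P.cons (P.lf 0 7123 0) P.nil) P.nil)))))) 7001)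
 (EL.cons 10 (TM.mk (P.cons (P.cons (P.lf 0 1823793564 0) (P.cons (P.lf 0 520651848 0) (P.cons (P.lf 38943921 0 0) (P.cons (P.lf 2624250 0 0) (P.lf 0 131211 0))))) (P.cons (P.cons (P.lf 0 15653760 0) (P.cons (P.lf 0 4468794 0) (P.cons (P.lf 334257 0 0) (P.cons (P.lf 22524 0 0) (P.lf 0 1125 0))))) (P.cons (P.cons (P.lf 7759737 0 0) (P.cons (P.lf 2215227 0 0) (P.cons (P.lf 0 165693 0) (P.cons (P.lf 0 11163 0) P.nil)))) (P.cons (P.cons (P.lf 66924 0 0) (P.cons (P.lf 19104 0 0) (P.cons (P.lf 0 1428 0) P.nil))) (P.cons (P.cons (P.lf 0 16455 0) (P.cons (P.lf 0 4698 0) P.nil)) (P.cons (P.cons (P.lf 0 156 0) P.nil) P.nil)))))) 1350)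
 EL.nil))))
noncomputable def S241_256_290_364_8 : EL := (EL.cons 12 (TM.mk (P.cons (P.cons (P.lf 2249419248 0 0) (P.cons (P.lf 0 576001758 0) (P.cons (P.lf 0 37298642 0) (P.cons (P.lf 14441364 0 0) (P.cons (P.lf 0 21660 0) (P.cons (P.lf 0 81524 0) P.nil)))))) (P.cons (P.cons (P.lf 0 322211892 0) (P.cons (P.lf 33838102 0 0) (P.cons (P.lf 5306842 0 0) (P.cons (P.lf 0 45966 0) (P.cons (P.lf 0 556 0) P.nil))))) (P.cons (P.cons (P.lf 0 25698550 0) (P.cons (P.lf 8958900 0 0) (P.cons (P.lf 691124 0 0) (P.cons (P.lf 0 196018 0) P.nil)))) (P.cons (P.cons (P.lf 5947630 0 0) (P.cons (P.lf 0 573302 0) (P.cons (P.lf 0 85946 0) P.nil))) (P.cons (P.cons (P.lf 56836 0 0) (P.cons (P.lf 0 68336 0) P.nil)) (P.cons (P.cons (P.lf 0 46502 0) P.nil) P.nil)))))) 57146)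
 (EL.cons 3 (TM.mk (P.cons (P.cons (P.lf 0 2121659533 0) (P.cons (P.lf 232134850 0 0) (P.cons (P.lf 34950669 0 0) (P.cons (P.lf 0 690062 0) (P.cons (P.lf 0 2971 0) (P.cons (P.lf 0 11181 0) P.nil)))))) (P.cons (P.cons (P.lf 0 262589701 0) (P.cons (P.lf 98317779 0 0) (P.cons (P.lf 7743164 0 0) (P.cons (P.lf 0 2110440 0) (P.cons (P.lf 2885 0 0) P.nil))))) (P.cons (P.cons (P.lf 107660489 0 0) (P.cons (P.lf 0 10351880 0) (P.cons (P.lf 0 1542680 0) (P.cons (P.lf 34869 0 0) P.nil)))) (P.cons (P.cons (P.lf 1091368 0 0) (P.cons (P.lf 0 1613630 0) (P.cons (P.lf 0 141177 0) P.nil))) (P.cons (P.cons (P.lf 0 1437840 0) (P.cons (P.lf 119891 0 0) P.nil)) (P.cons (P.cons (P.lf 14483 0 0) P.nil) P.nil)))))) 145833)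
 (EL.cons 7 (TM.mk (P.cons (P.cons (P.lf 0 480596464 0) (P.cons (P.lf 135232265 0 0) (P.cons (P.lf 7977965 0 0) (P.cons (P.lf 0 3591124 0) (P.cons (P.lf 5541 0 0) (P.cons (P.lf 20859 0 0) P.nil)))))) (P.cons (P.cons (P.lf 10268427 0 0) (P.cons (P.lf 0 3844663 0) (P.cons (P.lf 0 302791 0) (P.cons (P.lf 82527 0 0) (P.cons (P.lf 0 109 0) P.nil))))) (P.cons (P.cons (P.lf 0 9355237 0) (P.cons (P.lf 2331264 0 0) (P.cons (P.lf 212038 0 0) (P.cons (P.lf 0 42709 0) P.nil)))) (P.cons (P.cons (P.lf 2781061 0 0) (P.cons (P.lf 0 211489 0) (P.cons (P.lf 0 35111 0) P.nil))) (P.cons (P.cons (P.lf 78724 0 0) (P.cons (P.lf 0 50415 0) P.nil)) (P.cons (P.cons (P.lf 0 43885 0) P.nil) P.nil)))))) 66044)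
 (EL.cons 10 (TM.mk (P.cons (P.cons (P.lf 0 1866577164 0) (P.cons (P.lf 0 293881308 0) (P.cons (P.lf 138856374 0 0) (P.cons (P.lf 4316460 0 0) (P.cons (P.lf 0 1720980 0) (P.cons (P.lf 16716 0 0) P.nil)))))) (P.cons (P.cons (P.lf 117665388 0 0) (P.cons (P.lf 38718858 0 0) (P.cons (P.lf 0 388254 0) (P.cons (P.lf 0 134316 0) (P.cons (P.lf 0 25578 0) P.nil))))) (P.cons (P.cons (P.lf 24538974 0 0) (P.cons (P.lf 4496298 0 0) (P.cons (P.lf 0 1563336 0) (P.cons (P.lf 0 52422 0) P.nil)))) (P.cons (P.cons (P.lf 0 1728852 0) (P.cons (P.lf 0 548148 0) (P.cons (P.lf 14298 0 0) P.nil))) (P.cons (P.cons (P.lf 0 156288 0) (P.cons (P.lf 0 31464 0) P.nil)) (P.cons (P.cons (P.lf 9714 0 0) P.nil) P.nil)))))) 51216)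
 EL.nil))))
noncomputable def S241_256_290_364_9 : EL := (EL.cons 3 (TM.mk (P.cons (P.lf 0 235676745 0) (P.cons (P.lf 235171578 0 0) (P.cons (P.lf 756663 0 0) (P.cons (P.lf 0 250417 0) (P.cons (P.lf 0 1346 0) (P.cons (P.lf 262 0 0) P.nil)))))) 37)
 (EL.cons 7 (TM.mk (P.cons (P.lf 0 2142880586 0) (P.cons (P.lf 0 9196255 0) (P.cons (P.lf 4578416 0 0) (P.cons (P.lf 19669 0 0) (P.cons (P.lf 0 4863 0) (P.cons (P.lf 0 31 0) P.nil)))))) 53)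
 EL.nil))
noncomputable def S241_256_290_364_10 : EL := (EL.cons 3 (TM.mk (P.cons (P.cons (P.lf 0 120602692 0) (P.cons (P.lf 15441177 0 0) (P.cons (P.lf 1988377 0 0) (P.lf 0 132557 0)))) (P.cons (P.cons (P.lf 128981885 0 0) (P.cons (P.lf 0 15209280 0) (P.cons (P.lf 0 1958515 0) (P.lf 130567 0 0)))) (P.cons (P.cons (P.lf 0 7233743 0) (P.cons (P.lf 0 346067 0) (P.cons (P.lf 0 44563 0) (P.lf 2970 0 0)))) (P.cons (P.cons (P.lf 0 1239919 0) (P.cons (P.lf 112404 0 0) (P.cons (P.lf 14474 0 0) P.nil))) (P.cons (P.cons (P.lf 89350 0 0) (P.cons (P.lf 2195 0 0) P.nil)) (P.cons (P.cons (P.lf 5463 0 0) P.nil) P.nil)))))) 2313)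
 (EL.cons 7 (TM.mk (P.cons (P.cons (P.lf 0 1096574759 0) (P.cons (P.lf 140398236 0 0) (P.cons (P.lf 18079236 0 0) (P.lf 0 1205280 0)))) (P.cons (P.cons (P.lf 73831929 0 0) (P.cons (P.lf 2410095 0 0) (P.cons (P.lf 310349 0 0) (P.lf 0 20689 0)))) (P.cons (P.cons (P.lf 11756369 0 0) (P.cons (P.lf 0 1184367 0) (P.cons (P.lf 0 152509 0) (P.lf 10166 0 0)))) (P.cons (P.cons (P.lf 0 918434 0) (P.cons (P.lf 0 20556 0) (P.cons (P.lf 0 2645 0) P.nil))) (P.cons (P.cons (P.lf 0 59595 0) (P.cons (P.lf 4986 0 0) P.nil)) (P.cons (P.cons (P.lf 3956 0 0) P.nil) P.nil)))))) 1468)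
 EL.nil))
noncomputable def S241_256_290_364_11 : EL := (EL.cons 3 (TM.mk (P.cons (P.cons (P.lf 0 61715929 0) (P.cons (P.lf 15803404 0 0) (P.cons (P.lf 1023339 0 0) (P.cons (P.lf 0 396218 0) (P.cons (P.lf 593 0 0) (P.cons (P.lf 2235 0 0) P.nil)))))) (P.cons (P.cons (P.lf 70423973 0 0) (P.cons (P.lf 0 16697925 0) (P.cons (P.lf 0 1166746 0) (P.cons (P.lf 396630 0 0) (P.cons (P.lf 0 577 0) P.nil))))) (P.cons (P.cons (P.lf 0 7918159 0) (P.cons (P.lf 629866 0 0) (P.cons (P.lf 123040 0 0) (P.cons (P.lf 5391 0 0) P.nil)))) (P.cons (P.cons (P.lf 0 960704 0) (P.cons (P.lf 280774 0 0) (P.cons (P.lf 22833 0 0) P.nil))) (P.cons (P.cons (P.lf 168048 0 0) (P.cons (P.lf 0 13927 0) P.nil)) (P.cons (P.cons (P.lf 4223 0 0) P.nil) P.nil)))))) 17585)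
 (EL.cons 7 (TM.mk (P.cons (P.cons (P.lf 0 561149422 0) (P.cons (P.lf 143691779 0 0) (P.cons (P.lf 9304673 0 0) (P.cons (P.lf 0 3602602 0) (P.cons (P.lf 5403 0 0) (P.cons (P.lf 20337 0 0) P.nil)))))) (P.cons (P.cons (P.lf 77972115 0 0) (P.cons (P.lf 0 7824733 0) (P.cons (P.lf 0 1283935 0) (P.cons (P.lf 0 3993 0) (P.cons (P.lf 161 0 0) P.nil))))) (P.cons (P.cons (P.lf 7954757 0 0) (P.cons (P.lf 0 2578158 0) (P.cons (P.lf 0 197972 0) (P.cons (P.lf 56645 0 0) P.nil)))) (P.cons (P.cons (P.lf 0 1622795 0) (P.cons (P.lf 150143 0 0) (P.cons (P.lf 23443 0 0) P.nil))) (P.cons (P.cons (P.lf 0 36254 0) (P.cons (P.lf 22839 0 0) P.nil)) (P.cons (P.cons (P.lf 14825 0 0) P.nil) P.nil)))))) 16060)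
 EL.nil))
noncomputable def S241_256_290_364_12 : EL := (EL.cons 4 (TM.mk (P.cons (P.lf 235676745 0 0) (P.cons (P.lf 0 235171578 0) (P.cons (P.lf 0 756663 0) (P.cons (P.lf 250417 0 0) (P.cons (P.lf 1346 0 0) (P.cons (P.lf 0 262 0) P.nil)))))) 37)
 (EL.cons 8 (TM.mk (P.cons (P.lf 2142880586 0 0) (P.cons (P.lf 9196255 0 0) (P.cons (P.lf 0 4578416 0) (P.cons (P.lf 0 19669 0) (P.cons (P.lf 4863 0 0) (P.cons (P.lf 31 0 0) P.nil)))))) 53)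
 EL.nil))
noncomputable def S241_256_290_364_13 : EL := (EL.cons 4 (TM.mk (P.cons (P.cons (P.lf 120602692 0 0) (P.cons (P.lf 0 15441177 0) (P.cons (P.lf 0 1988377 0) (P.lf 132557 0 0)))) (P.cons (P.cons (P.lf 0 128981885 0) (P.cons (P.lf 15209280 0 0) (P.cons (P.lf 1958515 0 0) (P.lf 0 130567 0)))) (P.cons (P.cons (P.lf 7233743 0 0) (P.cons (P.lf 346067 0 0) (P.cons (P.lf 44563 0 0) (P.lf 0 2970 0)))) (P.cons (P.cons (P.lf 1239919 0 0) (P.cons (P.lf 0 112404 0) (P.cons (P.lf 0 14474 0) P.nil))) (P.cons (P.cons (P.lf 0 89350 0) (P.cons (P.lf 0 2195 0) P.nil)) (P.cons (P.cons (P.lf 0 5463 0) P.nil) P.nil)))))) 2313)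
 (EL.cons 8 (TM.mk (P.cons (P.cons (P.lf 1096574759 0 0) (P.cons (P.lf 0 140398236 0) (P.cons (P.lf 0 18079236 0) (P.lf 1205280 0 0)))) (P.cons (P.cons (P.lf 0 73831929 0) (P.cons (P.lf 0 2410095 0) (P.cons (P.lf 0 310349 0) (P.lf 20689 0 0)))) (P.cons (P.cons (P.lf 0 11756369 0) (P.cons (P.lf 1184367 0 0) (P.cons (P.lf 152509 0 0) (P.lf 0 10166 0)))) (P.cons (P.cons (P.lf 918434 0 0) (P.cons (P.lf 20556 0 0) (P.cons (P.lf 2645 0 0) P.nil))) (P.cons (P.cons (P.lf 59595 0 0) (P.cons (P.lf 0 4986 0) P.nil)) (P.cons (P.cons (P.lf 0 3956 0) P.nil) P.nil)))))) 1468)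
 EL.nil))
noncomputable def S241_256_290_364_14 : EL := (EL.cons 4 (TM.mk (P.cons (P.cons (P.lf 61715929 0 0) (P.cons (P.lf 0 15803404 0) (P.cons (P.lf 0 1023339 0) (P.cons (P.lf 396218 0 0) (P.cons (P.lf 0 593 0) (P.cons (P.lf 0 2235 0) P.nil)))))) (P.cons (P.cons (P.lf 0 70423973 0) (P.cons (P.lf 16697925 0 0) (P.cons (P.lf 1166746 0 0) (P.cons (P.lf 0 396630 0) (P.cons (P.lf 577 0 0) P.nil))))) (P.cons (P.cons (P.lf 7918159 0 0) (P.cons (P.lf 0 629866 0) (P.cons (P.lf 0 123040 0) (P.cons (P.lf 0 5391 0) P.nil)))) (P.cons (P.cons (P.lf 960704 0 0) (P.cons (P.lf 0 280774 0) (P.cons (P.lf 0 22833 0) P.nil))) (P.cons (P.cons (P.lf 0 168048 0) (P.cons (P.lf 13927 0 0) P.nil)) (P.cons (P.cons (P.lf 0 4223 0) P.nil) P.nil)))))) 17585)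
 (EL.cons 8 (TM.mk (P.cons (P.cons (P.lf 561149422 0 0) (P.cons (P.lf 0 143691779 0) (P.cons (P.lf 0 9304673 0) (P.cons (P.lf 3602602 0 0) (P.cons (P.lf 0 5403 0) (P.cons (P.lf 0 20337 0) P.nil)))))) (P.cons (P.cons (P.lf 0 77972115 0) (P.cons (P.lf 7824733 0 0) (P.cons (P.lf 1283935 0 0) (P.cons (P.lf 3993 0 0) (P.cons (P.lf 0 161 0) P.nil))))) (P.cons (P.cons (P.lf 0 7954757 0) (P.cons (P.lf 2578158 0 0) (P.cons (P.lf 197972 0 0) (P.cons (P.lf 0 56645 0) P.nil)))) (P.cons (P.cons (P.lf 1622795 0 0) (P.cons (P.lf 0 150143 0) (P.cons (P.lf 0 23443 0) P.nil))) (P.cons (P.cons (P.lf 36254 0 0) (P.cons (P.lf 0 22839 0) P.nil)) (P.cons (P.cons (P.lf 0 14825 0) P.nil) P.nil)))))) 16060)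
 EL.nil))
noncomputable def S241_256_290_364_15 : EL := (EL.cons 4 (TM.mk (P.cons (P.lf 0 13794384 0) (P.cons (P.lf 27529633 0 0) (P.cons (P.lf 0 13646734 0) (P.cons (P.lf 0 117700 0) (P.cons (P.lf 28950 0 0) (P.cons (P.lf 281 0 0) P.nil)))))) 67)
 (EL.cons 8 (TM.mk (P.cons (P.lf 0 125424842 0) (P.cons (P.lf 124617732 0 0) (P.cons (P.lf 1207779 0 0) (P.cons (P.lf 0 397794 0) (P.cons (P.lf 0 3582 0) (P.cons (P.lf 699 0 0) P.nil)))))) 35)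
 EL.nil))
noncomputable def S241_256_290_364_16 : EL := (EL.cons 4 (TM.mk (P.cons (P.cons (P.lf 0 7058989 0) (P.cons (P.lf 903786 0 0) (P.cons (P.lf 116381 0 0) (P.lf 0 7758 0)))) (P.cons (P.cons (P.lf 14593291 0 0) (P.cons (P.lf 0 1792063 0) (P.cons (P.lf 0 230765 0) (P.lf 15384 0 0)))) (P.cons (P.cons (P.lf 0 7933983 0) (P.cons (P.lf 865147 0 0) (P.cons (P.lf 111405 0 0) (P.lf 0 7426 0)))) (P.cons (P.cons (P.lf 318178 0 0) (P.cons (P.lf 30609 0 0) (P.cons (P.lf 3941 0 0) P.nil))) (P.cons (P.cons (P.lf 86987 0 0) (P.cons (P.lf 0 7311 0) P.nil)) (P.cons (P.cons (P.lf 0 5064 0) P.nil) P.nil)))))) 2139)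
 (EL.cons 8 (TM.mk (P.cons (P.cons (P.lf 0 64183565 0) (P.cons (P.lf 8217642 0 0) (P.cons (P.lf 1058194 0 0) (P.lf 0 70545 0)))) (P.cons (P.cons (P.lf 68367442 0 0) (P.cons (P.lf 0 8058962 0) (P.cons (P.lf 0 1037761 0) (P.lf 69183 0 0)))) (P.cons (P.cons (P.lf 0 3418010 0) (P.cons (P.lf 0 236468 0) (P.cons (P.lf 0 30450 0) (P.lf 2029 0 0)))) (P.cons (P.cons (P.lf 0 822465 0) (P.cons (P.lf 76248 0 0) (P.cons (P.lf 9818 0 0) P.nil))) (P.cons (P.cons (P.lf 52168 0 0) (P.cons (P.lf 1911 0 0) P.nil)) (P.cons (P.cons (P.lf 4711 0 0) P.nil) P.nil)))))) 1821)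
 EL.nil))
noncomputable def S241_256_290_364_17 : EL := (EL.cons 4 (TM.mk (P.cons (P.cons (P.lf 0 3612291 0) (P.cons (P.lf 924988 0 0) (P.cons (P.lf 59896 0 0) (P.cons (P.lf 0 23190 0) (P.cons (P.lf 34 0 0) (P.cons (P.lf 130 0 0) P.nil)))))) (P.cons (P.cons (P.lf 7726530 0 0) (P.cons (P.lf 0 1900350 0) (P.cons (P.lf 0 128058 0) (P.cons (P.lf 46355 0 0) (P.cons (P.lf 0 68 0) P.nil))))) (P.cons (P.cons (P.lf 0 4565006 0) (P.cons (P.lf 1009147 0 0) (P.cons (P.lf 75153 0 0) (P.cons (P.lf 0 22774 0) P.nil)))) (P.cons (P.cons (P.lf 389160 0 0) (P.cons (P.lf 0 16232 0) (P.cons (P.lf 0 5565 0) P.nil))) (P.cons (P.cons (P.lf 71792 0 0) (P.cons (P.lf 0 18364 0) P.nil)) (P.cons (P.cons (P.lf 0 9852 0) P.nil) P.nil)))))) 5917)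
 (EL.cons 8 (TM.mk (P.cons (P.cons (P.lf 0 32844609 0) (P.cons (P.lf 8410416 0 0) (P.cons (P.lf 544611 0 0) (P.cons (P.lf 0 210863 0) (P.cons (P.lf 315 0 0) (P.cons (P.lf 1189 0 0) P.nil)))))) (P.cons (P.cons (P.lf 37337991 0 0) (P.cons (P.lf 0 8850378 0) (P.cons (P.lf 0 618593 0) (P.cons (P.lf 210177 0 0) (P.cons (P.lf 0 305 0) P.nil))))) (P.cons (P.cons (P.lf 0 3982949 0) (P.cons (P.lf 279102 0 0) (P.cons (P.lf 61652 0 0) (P.cons (P.lf 4225 0 0) P.nil)))) (P.cons (P.cons (P.lf 0 609136 0) (P.cons (P.lf 169773 0 0) (P.cons (P.lf 13754 0 0) P.nil))) (P.cons (P.cons (P.lf 95824 0 0) (P.cons (P.lf 0 7386 0) P.nil)) (P.cons (P.cons (P.lf 3847 0 0) P.nil) P.nil)))))) 10758)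
 EL.nil))
noncomputable def S241_256_290_364_18 : EL := (EL.cons 4 (TM.mk (P.cons (P.lf 807398 0 0) (P.cons (P.lf 0 2417003 0) (P.cons (P.lf 2404045 0 0) (P.cons (P.lf 0 784123 0) (P.cons (P.lf 0 12840 0) (P.cons (P.lf 2490 0 0) P.nil)))))) 58)
 (EL.cons 8 (TM.mk (P.cons (P.lf 7341235 0 0) (P.cons (P.lf 0 14619494 0) (P.cons (P.lf 7184097 0 0) (P.cons (P.lf 125042 0 0) (P.cons (P.lf 0 30504 0) (P.cons (P.lf 0 449 0) P.nil)))))) 91)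
 EL.nil))
noncomputable def S241_256_290_364_19 : EL := (EL.cons 4 (TM.mk (P.cons (P.cons (P.lf 413169 0 0) (P.cons (P.lf 0 52899 0) (P.cons (P.lf 0 6811 0) (P.lf 453 0 0)))) (P.cons (P.cons (P.lf 0 1266442 0) (P.cons (P.lf 157677 0 0) (P.cons (P.lf 20303 0 0) (P.lf 0 1352 0)))) (P.cons (P.cons (P.lf 1315384 0 0) (P.cons (P.lf 0 155133 0) (P.cons (P.lf 0 19976 0) (P.lf 1331 0 0)))) (P.cons (P.cons (P.lf 0 478829 0) (P.cons (P.lf 48344 0 0) (P.cons (P.lf 6225 0 0) P.nil))) (P.cons (P.cons (P.lf 11095 0 0) (P.cons (P.lf 2489 0 0) P.nil)) (P.cons (P.cons (P.lf 5924 0 0) P.nil) P.nil)))))) 2000)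
 (EL.cons 8 (TM.mk (P.cons (P.cons (P.lf 3756724 0 0) (P.cons (P.lf 0 480986 0) (P.cons (P.lf 0 61936 0) (P.lf 4129 0 0)))) (P.cons (P.cons (P.lf 0 7750284 0) (P.cons (P.lf 951654 0 0) (P.cons (P.lf 122545 0 0) (P.lf 0 8169 0)))) (P.cons (P.cons (P.lf 4181031 0 0) (P.cons (P.lf 0 455302 0) (P.cons (P.lf 0 58629 0) (P.lf 3908 0 0)))) (P.cons (P.cons (P.lf 0 134651 0) (P.cons (P.lf 0 20299 0) (P.cons (P.lf 0 2613 0) P.nil))) (P.cons (P.cons (P.lf 0 55962 0) (P.cons (P.lf 4795 0 0) P.nil)) (P.cons (P.cons (P.lf 2801 0 0) P.nil) P.nil)))))) 1536)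
 EL.nil))
noncomputable def S241_256_290_364_20 : EL := (EL.cons 4 (TM.mk (P.cons (P.cons (P.lf 211430 0 0) (P.cons (P.lf 0 54139 0) (P.cons (P.lf 0 3505 0) (P.cons (P.lf 1356 0 0) (P.cons (P.lf 0 1 0) (P.cons (P.lf 0 7 0) P.nil)))))) (P.cons (P.cons (P.lf 0 663218 0) (P.cons (P.lf 165253 0 0) (P.cons (P.lf 10993 0 0) (P.cons (P.lf 0 4066 0) (P.cons (P.lf 5 0 0) P.nil))))) (P.cons (P.cons (P.lf 717786 0 0) (P.cons (P.lf 0 169883 0) (P.cons (P.lf 0 11866 0) (P.cons (P.lf 4035 0 0) P.nil)))) (P.cons (P.cons (P.lf 0 287722 0) (P.cons (P.lf 59475 0 0) (P.cons (P.lf 4686 0 0) P.nil))) (P.cons (P.cons (P.lf 17190 0 0) (P.cons (P.lf 434 0 0) P.nil)) (P.cons (P.cons (P.lf 5123 0 0) P.nil) P.nil)))))) 4594)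
 (EL.cons 8 (TM.mk (P.cons (P.cons (P.lf 1922425 0 0) (P.cons (P.lf 0 492269 0) (P.cons (P.lf 0 31876 0) (P.cons (P.lf 12341 0 0) (P.cons (P.lf 0 18 0) (P.cons (P.lf 0 69 0) P.nil)))))) (P.cons (P.cons (P.lf 0 4103733 0) (P.cons (P.lf 1009235 0 0) (P.cons (P.lf 68014 0 0) (P.cons (P.lf 0 24617 0) (P.cons (P.lf 36 0 0) P.nil))))) (P.cons (P.cons (P.lf 2407697 0 0) (P.cons (P.lf 0 531666 0) (P.cons (P.lf 0 39635 0) (P.cons (P.lf 11988 0 0) P.nil)))) (P.cons (P.cons (P.lf 0 187913 0) (P.cons (P.lf 4177 0 0) (P.cons (P.lf 2645 0 0) P.nil))) (P.cons (P.cons (P.lf 0 44244 0) (P.cons (P.lf 10947 0 0) P.nil)) (P.cons (P.cons (P.lf 5490 0 0) P.nil) P.nil)))))) 3631)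
 EL.nil))
noncomputable def S241_256_290_364_21 : EL := (EL.cons 4 (TM.mk (P.cons (P.cons (P.lf 2012727870 0 0) (P.cons (P.lf 46323531 0 0) (P.cons (P.lf 5965131 0 0) (P.lf 0 397671 0)))) (P.cons (P.cons (P.lf 469534551 0 0) (P.cons (P.lf 0 45627840 0) (P.cons (P.lf 0 5875545 0) (P.lf 391701 0 0)))) (P.cons (P.cons (P.lf 0 62641431 0) (P.cons (P.lf 0 1038201 0) (P.cons (P.lf 0 133689 0) (P.lf 8910 0 0)))) (P.cons (P.cons (P.lf 0 4072857 0) (P.cons (P.lf 337212 0 0) (P.cons (P.lf 43422 0 0) P.nil))) (P.cons (P.cons (P.lf 354897 0 0) (P.cons (P.lf 6585 0 0) P.nil)) (P.cons (P.cons (P.lf 17232 0 0) P.nil) P.nil)))))) 7230)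
 (EL.cons 8 (TM.mk (P.cons (P.cons (P.lf 0 78706614 0) (P.cons (P.lf 0 1811460 0) (P.cons (P.lf 0 233265 0) (P.lf 15558 0 0)))) (P.cons (P.cons (P.lf 60514803 0 0) (P.cons (P.lf 3599592 0 0) (P.cons (P.lf 463521 0 0) (P.lf 0 30900 0)))) (P.cons (P.cons (P.lf 20595918 0 0) (P.cons (P.lf 0 1753329 0) (P.cons (P.lf 0 225771 0) (P.lf 15048 0 0)))) (P.cons (P.cons (P.lf 0 2269536 0) (P.cons (P.lf 0 46146 0) (P.cons (P.lf 0 5937 0) P.nil))) (P.cons (P.cons (P.lf 0 146136 0) (P.cons (P.lf 11142 0 0) P.nil)) (P.cons (P.cons (P.lf 11079 0 0) P.nil) P.nil)))))) 5514)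
 (EL.cons 11 (TM.mk (P.cons (P.cons (P.lf 1823793564 0 0) (P.cons (P.lf 520651848 0 0) (P.cons (P.lf 0 38943921 0) (P.cons (P.lf 0 2624250 0) (P.lf 131211 0 0))))) (P.cons (P.cons (P.lf 15653760 0 0) (P.cons (P.lf 4468794 0 0) (P.cons (P.lf 0 334257 0) (P.cons (P.lf 0 22524 0) (P.lf 1125 0 0))))) (P.cons (P.cons (P.lf 0 7759737 0) (P.cons (P.lf 0 2215227 0) (P.cons (P.lf 165693 0 0) (P.cons (P.lf 11163 0 0) P.nil)))) (P.cons (P.cons (P.lf 0 66924 0) (P.cons (P.lf 0 19104 0) (P.cons (P.lf 1428 0 0) P.nil))) (P.cons (P.cons (P.lf 16455 0 0) (P.cons (P.lf 4698 0 0) P.nil)) (P.cons (P.cons (P.lf 156 0 0) P.nil) P.nil)))))) 1350)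
 EL.nil)))
noncomputable def S241_256_290_364_22 : EL := (EL.cons 4 (TM.mk (P.cons (P.cons (P.lf 1029971802 0 0) (P.cons (P.lf 0 108165723 0) (P.cons (P.lf 0 16963665 0) (P.cons (P.lf 146922 0 0) (P.cons (P.lf 1782 0 0) (P.cons (P.lf 6708 0 0) P.nil)))))) (P.cons (P.cons (P.lf 166506837 0 0) (P.cons (P.lf 0 57507852 0) (P.cons (P.lf 0 4454955 0) (P.cons (P.lf 1253535 0 0) (P.cons (P.lf 0 1731 0) P.nil))))) (P.cons (P.cons (P.lf 0 57789324 0) (P.cons (P.lf 5490873 0 0) (P.cons (P.lf 832860 0 0) (P.cons (P.lf 0 14739 0) P.nil)))) (P.cons (P.cons (P.lf 0 1026036 0) (P.cons (P.lf 947202 0 0) (P.cons (P.lf 82005 0 0) P.nil))) (P.cons (P.cons (P.lf 802944 0 0) (P.cons (P.lf 0 66909 0) P.nil)) (P.cons (P.cons (P.lf 0 5130 0) P.nil) P.nil)))))) 64113)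
 (EL.cons 8 (TM.mk (P.cons (P.cons (P.lf 0 40276479 0) (P.cons (P.lf 4229757 0 0) (P.cons (P.lf 663354 0 0) (P.cons (P.lf 0 5739 0) (P.cons (P.lf 0 69 0) (P.cons (P.lf 0 261 0) P.nil)))))) (P.cons (P.cons (P.lf 33851844 0 0) (P.cons (P.lf 0 1990035 0) (P.cons (P.lf 0 490572 0) (P.cons (P.lf 0 43260 0) (P.cons (P.lf 135 0 0) P.nil))))) (P.cons (P.cons (P.lf 8654997 0 0) (P.cons (P.lf 0 2454711 0) (P.cons (P.lf 0 205005 0) (P.cons (P.lf 49677 0 0) P.nil)))) (P.cons (P.cons (P.lf 0 2201928 0) (P.cons (P.lf 180816 0 0) (P.cons (P.lf 29277 0 0) P.nil))) (P.cons (P.cons (P.lf 0 57489 0) (P.cons (P.lf 36627 0 0) P.nil)) (P.cons (P.cons (P.lf 29355 0 0) P.nil) P.nil)))))) 24981)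
 (EL.cons 11 (TM.mk (P.cons (P.cons (P.lf 933288582 0 0) (P.cons (P.lf 146940654 0 0) (P.cons (P.lf 0 69428187 0) (P.cons (P.lf 0 2158230 0) (P.cons (P.lf 860490 0 0) (P.cons (P.lf 0 8358 0) P.nil)))))) (P.cons (P.cons (P.lf 0 58832694 0) (P.cons (P.lf 0 19359429 0) (P.cons (P.lf 194127 0 0) (P.cons (P.lf 67158 0 0) (P.cons (P.lf 12789 0 0) P.nil))))) (P.cons (P.cons (P.lf 0 12269487 0) (P.cons (P.lf 0 2248149 0) (P.cons (P.lf 781668 0 0) (P.cons (P.lf 26211 0 0) P.nil)))) (P.cons (P.cons (P.lf 864426 0 0) (P.cons (P.lf 274074 0 0) (P.cons (P.lf 0 7149 0) P.nil))) (P.cons (P.cons (P.lf 78144 0 0) (P.cons (P.lf 15732 0 0) P.nil)) (P.cons (P.cons (P.lf 0 4857 0) P.nil) P.nil)))))) 25608)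
 EL.nil)))
noncomputable def S241_256_290_364_23 : EL := (EL.cons 4 (TM.mk (P.cons (P.cons (P.lf 0 117806877 0) (P.cons (P.lf 0 2711358 0) (P.cons (P.lf 0 349143 0) (P.lf 23274 0 0)))) (P.cons (P.cons (P.lf 90072057 0 0) (P.cons (P.lf 5376189 0 0) (P.cons (P.lf 692295 0 0) (P.lf 0 46152 0)))) (P.cons (P.cons (P.lf 31468089 0 0) (P.cons (P.lf 0 2595444 0) (P.cons (P.lf 0 334218 0) (P.lf 22281 0 0)))) (P.cons (P.cons (P.lf 0 3457155 0) (P.cons (P.lf 0 91827 0) (P.cons (P.lf 0 11823 0) P.nil))) (P.cons (P.cons (P.lf 0 300294 0) (P.cons (P.lf 21936 0 0) P.nil)) (P.cons (P.cons (P.lf 22821 0 0) P.nil) P.nil)))))) 6486)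
 (EL.cons 8 (TM.mk (P.cons (P.cons (P.lf 4606773 0 0) (P.cons (P.lf 106026 0 0) (P.cons (P.lf 13653 0 0) (P.lf 0 909 0)))) (P.cons (P.cons (P.lf 0 8138886 0) (P.cons (P.lf 0 316485 0) (P.cons (P.lf 0 40752 0) (P.lf 2715 0 0)))) (P.cons (P.cons (P.lf 2314107 0 0) (P.cons (P.lf 312519 0 0) (P.cons (P.lf 40242 0 0) (P.lf 0 2682 0)))) (P.cons (P.cons (P.lf 1352019 0 0) (P.cons (P.lf 0 98913 0) (P.cons (P.lf 0 12735 0) P.nil))) (P.cons (P.cons (P.lf 0 123864 0) (P.cons (P.lf 0 3900 0) P.nil)) (P.cons (P.cons (P.lf 0 10914 0) P.nil) P.nil)))))) 3645)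
 (EL.cons 11 (TM.mk (P.cons (P.cons (P.lf 0 106748373 0) (P.cons (P.lf 0 30474246 0) (P.cons (P.lf 2279424 0 0) (P.cons (P.lf 153597 0 0) (P.lf 0 7677 0))))) (P.cons (P.cons (P.lf 105603333 0 0) (P.cons (P.lf 30147363 0 0) (P.cons (P.lf 0 2254974 0) (P.cons (P.lf 0 151950 0) (P.lf 7596 0 0))))) (P.cons (P.cons (P.lf 1711176 0 0) (P.cons (P.lf 488502 0 0) (P.cons (P.lf 0 36537 0) (P.cons (P.lf 0 2460 0) P.nil)))) (P.cons (P.cons (P.lf 0 559776 0) (P.cons (P.lf 0 159801 0) (P.cons (P.lf 11952 0 0) P.nil))) (P.cons (P.cons (P.lf 0 7911 0) (P.cons (P.lf 0 2259 0) P.nil)) (P.cons (P.cons (P.lf 1533 0 0) P.nil) P.nil)))))) 1800)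
 EL.nil)))
noncomputable def S241_256_290_364_24 : EL := (EL.cons 4 (TM.mk (P.cons (P.cons (P.lf 0 60285228 0) (P.cons (P.lf 6331041 0 0) (P.cons (P.lf 992898 0 0) (P.cons (P.lf 0 8598 0) (P.cons (P.lf 0 102 0) (P.cons (P.lf 0 390 0) P.nil)))))) (P.cons (P.cons (P.lf 50410206 0 0) (P.cons (P.lf 0 2951481 0) (P.cons (P.lf 0 730017 0) (P.cons (P.lf 0 64788 0) (P.cons (P.lf 204 0 0) P.nil))))) (P.cons (P.cons (P.lf 13300929 0 0) (P.cons (P.lf 0 3700485 0) (P.cons (P.lf 0 312129 0) (P.cons (P.lf 74103 0 0) P.nil)))) (P.cons (P.cons (P.lf 0 3347922 0) (P.cons (P.lf 261174 0 0) (P.cons (P.lf 44061 0 0) P.nil))) (P.cons (P.cons (P.lf 0 128481 0) (P.cons (P.lf 63882 0 0) P.nil)) (P.cons (P.cons (P.lf 50607 0 0) P.nil) P.nil)))))) 40149)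
 (EL.cons 8 (TM.mk (P.cons (P.cons (P.lf 2357418 0 0) (P.cons (P.lf 0 247569 0) (P.cons (P.lf 0 38826 0) (P.cons (P.lf 336 0 0) (P.cons (P.lf 3 0 0) (P.cons (P.lf 15 0 0) P.nil)))))) (P.cons (P.cons (P.lf 0 4333746 0) (P.cons (P.lf 363519 0 0) (P.cons (P.lf 67455 0 0) (P.cons (P.lf 2196 0 0) (P.cons (P.lf 0 12 0) P.nil))))) (P.cons (P.cons (P.lf 1462977 0 0) (P.cons (P.lf 28242 0 0) (P.cons (P.lf 0 16527 0) (P.cons (P.lf 0 5433 0) P.nil)))) (P.cons (P.cons (P.lf 643245 0 0) (P.cons (P.lf 0 154587 0) (P.cons (P.lf 0 13818 0) P.nil))) (P.cons (P.cons (P.lf 0 125703 0) (P.cons (P.lf 8076 0 0) P.nil)) (P.cons (P.cons (P.lf 0 6039 0) P.nil) P.nil)))))) 12987)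
 (EL.cons 11 (TM.mk (P.cons (P.cons (P.lf 0 54626268 0) (P.cons (P.lf 0 8600574 0) (P.cons (P.lf 4063695 0 0) (P.cons (P.lf 126321 0 0) (P.cons (P.lf 0 50364 0) (P.cons (P.lf 489 0 0) P.nil)))))) (P.cons (P.cons (P.lf 57952713 0 0) (P.cons (P.lf 9715266 0 0) (P.cons (P.lf 0 4066347 0) (P.cons (P.lf 0 129981 0) (P.cons (P.lf 49506 0 0) P.nil))))) (P.cons (P.cons (P.lf 0 2542623 0) (P.cons (P.lf 0 971496 0) (P.cons (P.lf 0 47460 0) (P.cons (P.lf 1980 0 0) P.nil)))) (P.cons (P.cons (P.lf 0 836298 0) (P.cons (P.lf 0 160122 0) (P.cons (P.lf 50424 0 0) P.nil))) (P.cons (P.cons (P.lf 46953 0 0) (P.cons (P.lf 15816 0 0) P.nil)) (P.cons (P.cons (P.lf 5853 0 0) P.nil) P.nil)))))) 18612)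
 EL.nil)))
noncomputable def S241_256_290_364_25 : EL := (EL.cons 4 (TM.mk (P.cons (P.cons (P.lf 6895347 0 0) (P.cons (P.lf 158697 0 0) (P.cons (P.lf 20433 0 0) (P.lf 0 1362 0)))) (P.cons (P.cons (P.lf 0 12152571 0) (P.cons (P.lf 0 473031 0) (P.cons (P.lf 0 60912 0) (P.lf 4059 0 0)))) (P.cons (P.cons (P.lf 3396705 0 0) (P.cons (P.lf 465402 0 0) (P.cons (P.lf 59928 0 0) (P.lf 0 3993 0)))) (P.cons (P.cons (P.lf 2064510 0 0) (P.cons (P.lf 0 145032 0) (P.cons (P.lf 0 18675 0) P.nil))) (P.cons (P.cons (P.lf 0 183987 0) (P.cons (P.lf 0 7467 0) P.nil)) (P.cons (P.cons (P.lf 0 21516 0) P.nil) P.nil)))))) 6426)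
 (EL.cons 8 (TM.mk (P.cons (P.cons (P.lf 0 269637 0) (P.cons (P.lf 0 6204 0) (P.cons (P.lf 0 798 0) (P.lf 51 0 0)))) (P.cons (P.cons (P.lf 745437 0 0) (P.cons (P.lf 24714 0 0) (P.cons (P.lf 3180 0 0) (P.lf 0 210 0)))) (P.cons (P.cons (P.lf 0 609936 0) (P.cons (P.lf 0 36756 0) (P.cons (P.lf 0 4731 0) (P.lf 315 0 0)))) (P.cons (P.cons (P.lf 54204 0 0) (P.cons (P.lf 23976 0 0) (P.cons (P.lf 3087 0 0) P.nil))) (P.cons (P.cons (P.lf 87153 0 0) (P.cons (P.lf 0 5469 0) P.nil)) (P.cons (P.cons (P.lf 0 6480 0) P.nil) P.nil)))))) 2460)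
 (EL.cons 11 (TM.mk (P.cons (P.cons (P.lf 6248082 0 0) (P.cons (P.lf 1783686 0 0) (P.cons (P.lf 0 133416 0) (P.cons (P.lf 0 8988 0) (P.lf 447 0 0))))) (P.cons (P.cons (P.lf 0 12415755 0) (P.cons (P.lf 0 3544416 0) (P.cons (P.lf 265116 0 0) (P.cons (P.lf 17862 0 0) (P.lf 0 891 0))))) (P.cons (P.cons (P.lf 6047595 0 0) (P.cons (P.lf 1726452 0 0) (P.cons (P.lf 0 129135 0) (P.cons (P.lf 0 8700 0) P.nil)))) (P.cons (P.cons (P.lf 159189 0 0) (P.cons (P.lf 45444 0 0) (P.cons (P.lf 0 3399 0) P.nil))) (P.cons (P.cons (P.lf 0 38439 0) (P.cons (P.lf 0 10974 0) P.nil)) (P.cons (P.cons (P.lf 0 804 0) P.nil) P.nil)))))) 2124)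
 EL.nil)))
noncomputable def S241_256_290_364_26 : EL := (EL.cons 4 (TM.mk (P.cons (P.cons (P.lf 3528549 0 0) (P.cons (P.lf 0 370560 0) (P.cons (P.lf 0 58113 0) (P.cons (P.lf 501 0 0) (P.cons (P.lf 6 0 0) (P.cons (P.lf 21 0 0) P.nil)))))) (P.cons (P.cons (P.lf 0 6471543 0) (P.cons (P.lf 542520 0 0) (P.cons (P.lf 100719 0 0) (P.cons (P.lf 3288 0 0) (P.cons (P.lf 0 18 0) P.nil))))) (P.cons (P.cons (P.lf 2154387 0 0) (P.cons (P.lf 45399 0 0) (P.cons (P.lf 0 24180 0) (P.cons (P.lf 0 8121 0) P.nil)))) (P.cons (P.cons (P.lf 986025 0 0) (P.cons (P.lf 0 232362 0) (P.cons (P.lf 0 21006 0) P.nil))) (P.cons (P.cons (P.lf 0 188631 0) (P.cons (P.lf 10998 0 0) P.nil)) (P.cons (P.cons (P.lf 0 11943 0) P.nil) P.nil)))))) 20949)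
 (EL.cons 8 (TM.mk (P.cons (P.cons (P.lf 0 137982 0) (P.cons (P.lf 14490 0 0) (P.cons (P.lf 2271 0 0) (P.cons (P.lf 0 18 0) (P.cons (P.lf 0 0 0) (P.cons (P.lf 0 0 0) P.nil)))))) (P.cons (P.cons (P.lf 391344 0 0) (P.cons (P.lf 0 35736 0) (P.cons (P.lf 0 6216 0) (P.cons (P.lf 0 108 0) (P.cons (P.lf 0 0 0) P.nil))))) (P.cons (P.cons (P.lf 0 338301 0) (P.cons (P.lf 19530 0 0) (P.cons (P.lf 4899 0 0) (P.cons (P.lf 444 0 0) P.nil)))) (P.cons (P.cons (P.lf 46833 0 0) (P.cons (P.lf 10779 0 0) (P.cons (P.lf 0 141 0) P.nil))) (P.cons (P.cons (P.lf 45468 0 0) (P.cons (P.lf 0 9516 0) P.nil)) (P.cons (P.cons (P.lf 0 6954 0) P.nil) P.nil)))))) 5661)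
 (EL.cons 11 (TM.mk (P.cons (P.cons (P.lf 3197325 0 0) (P.cons (P.lf 503397 0 0) (P.cons (P.lf 0 237849 0) (P.cons (P.lf 0 7392 0) (P.cons (P.lf 2946 0 0) (P.cons (P.lf 0 27 0) P.nil)))))) (P.cons (P.cons (P.lf 0 6582501 0) (P.cons (P.lf 0 1070964 0) (P.cons (P.lf 475347 0 0) (P.cons (P.lf 14985 0 0) (P.cons (P.lf 0 5838 0) P.nil))))) (P.cons (P.cons (P.lf 3523311 0 0) (P.cons (P.lf 622671 0 0) (P.cons (P.lf 0 233955 0) (P.cons (P.lf 0 7683 0) P.nil)))) (P.cons (P.cons (P.lf 0 85266 0) (P.cons (P.lf 0 45006 0) (P.cons (P.lf 0 6738 0) P.nil))) (P.cons (P.cons (P.lf 0 55656 0) (P.cons (P.lf 0 11061 0) P.nil)) (P.cons (P.cons (P.lf 2376 0 0) P.nil) P.nil)))))) 11259)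
 EL.nil)))
noncomputable def S241_256_290_364_27 : EL := (EL.cons 13 (TM.mk (P.lf 0 4294967296 0) 0)
 EL.nil)
noncomputable def S241_256_290_364_28 : EL := (EL.cons 13 (TM.mk (P.cons (P.cons (P.lf 0 2197860563 0) (P.cons (P.lf 281399644 0 0) (P.cons (P.lf 36236144 0 0) (P.lf 0 2415740 0)))) (P.cons (P.cons (P.lf 157413255 0 0) (P.cons (P.lf 3622908 0 0) (P.cons (P.lf 466524 0 0) (P.lf 0 31100 0)))) (P.cons (P.cons (P.lf 18191816 0 0) (P.cons (P.lf 0 1788140 0) (P.cons (P.lf 0 230256 0) (P.lf 15348 0 0)))) (P.cons (P.cons (P.lf 0 1602735 0) (P.cons (P.lf 0 23204 0) (P.cons (P.lf 0 2984 0) P.nil))) (P.cons (P.cons (P.lf 0 67269 0) (P.cons (P.lf 5668 0 0) P.nil)) (P.cons (P.cons (P.lf 4635 0 0) P.nil) P.nil)))))) 1676)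
 EL.nil)
noncomputable def S241_256_290_364_29 : EL := (EL.cons 13 (TM.mk (P.cons (P.cons (P.lf 0 1124709624 0) (P.cons (P.lf 288000879 0 0) (P.cons (P.lf 18649321 0 0) (P.cons (P.lf 0 7220682 0) (P.cons (P.lf 10830 0 0) (P.cons (P.lf 40762 0 0) P.nil)))))) (P.cons (P.cons (P.lf 161105946 0 0) (P.cons (P.lf 0 16919051 0) (P.cons (P.lf 0 2653421 0) (P.cons (P.lf 22983 0 0) (P.cons (P.lf 278 0 0) P.nil))))) (P.cons (P.cons (P.lf 12849275 0 0) (P.cons (P.lf 0 4479450 0) (P.cons (P.lf 0 345562 0) (P.cons (P.lf 98009 0 0) P.nil)))) (P.cons (P.cons (P.lf 0 2973815 0) (P.cons (P.lf 286651 0 0) (P.cons (P.lf 42973 0 0) P.nil))) (P.cons (P.cons (P.lf 0 28418 0) (P.cons (P.lf 34168 0 0) P.nil)) (P.cons (P.cons (P.lf 23251 0 0) P.nil) P.nil)))))) 28573)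
 EL.nil)
noncomputable def S241_256_290_364_30 : EL := (EL.cons 13 (TM.mk (P.cons (P.lf 251388528 0 0) (P.cons (P.lf 0 250849684 0) (P.cons (P.lf 0 807108 0) (P.cons (P.lf 267112 0 0) (P.cons (P.lf 1436 0 0) (P.cons (P.lf 0 280 0) P.nil)))))) 32)
 EL.nil)
noncomputable def S241_256_290_364_31 : EL := (EL.cons 13 (TM.mk (P.cons (P.cons (P.lf 128642872 0 0) (P.cons (P.lf 0 16470589 0) (P.cons (P.lf 0 2120936 0) (P.lf 141395 0 0)))) (P.cons (P.cons (P.lf 0 137580678 0) (P.cons (P.lf 16223232 0 0) (P.cons (P.lf 2089083 0 0) (P.lf 0 139272 0)))) (P.cons (P.cons (P.lf 7715993 0 0) (P.cons (P.lf 369139 0 0) (P.cons (P.lf 47534 0 0) (P.lf 0 3168 0)))) (P.cons (P.cons (P.lf 1322581 0 0) (P.cons (P.lf 0 119898 0) (P.cons (P.lf 0 15439 0) P.nil))) (P.cons (P.cons (P.lf 0 95307 0) (P.cons (P.lf 0 2342 0) P.nil)) (P.cons (P.cons (P.lf 0 5828 0) P.nil) P.nil)))))) 2447)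
 EL.nil)
noncomputable def S241_256_290_364_32 : EL := (EL.cons 13 (TM.mk (P.cons (P.cons (P.lf 65830325 0 0) (P.cons (P.lf 0 16856965 0) (P.cons (P.lf 0 1091562 0) (P.cons (P.lf 422633 0 0) (P.cons (P.lf 0 633 0) (P.cons (P.lf 0 2385 0) P.nil)))))) (P.cons (P.cons (P.lf 0 75118905 0) (P.cons (P.lf 17811121 0 0) (P.cons (P.lf 1244530 0 0) (P.cons (P.lf 0 423072 0) (P.cons (P.lf 616 0 0) P.nil))))) (P.cons (P.cons (P.lf 8446037 0 0) (P.cons (P.lf 0 671858 0) (P.cons (P.lf 0 131243 0) (P.cons (P.lf 0 5751 0) P.nil)))) (P.cons (P.cons (P.lf 1024751 0 0) (P.cons (P.lf 0 299493 0) (P.cons (P.lf 0 24356 0) P.nil))) (P.cons (P.cons (P.lf 0 179252 0) (P.cons (P.lf 14856 0 0) P.nil)) (P.cons (P.cons (P.lf 0 4505 0) P.nil) P.nil)))))) 18734)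
 EL.nil)
noncomputable def S241_256_290_364_33 : EL := (EL.cons 14 (TM.mk (P.lf 8589934592 0 0) 0)
 EL.nil)
noncomputable def S241_256_290_364_34 : EL := (EL.cons 14 (TM.mk (P.cons (P.cons (P.lf 4395721126 0 0) (P.cons (P.lf 0 562799288 0) (P.cons (P.lf 0 72472288 0) (P.lf 4831480 0 0)))) (P.cons (P.cons (P.lf 0 314826510 0) (P.cons (P.lf 0 7245816 0) (P.cons (P.lf 0 933048 0) (P.lf 62200 0 0)))) (P.cons (P.cons (P.lf 0 36383632 0) (P.cons (P.lf 3576280 0 0) (P.cons (P.lf 460512 0 0) (P.lf 0 30696 0)))) (P.cons (P.cons (P.lf 3205470 0 0) (P.cons (P.lf 46408 0 0) (P.cons (P.lf 5968 0 0) P.nil))) (P.cons (P.cons (P.lf 134538 0 0) (P.cons (P.lf 0 11336 0) P.nil)) (P.cons (P.cons (P.lf 0 9270 0) P.nil) P.nil)))))) 3352)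
 EL.nil)
noncomputable def S241_256_290_364_35 : EL := (EL.cons 14 (TM.mk (P.cons (P.cons (P.lf 2249419248 0 0) (P.cons (P.lf 0 576001758 0) (P.cons (P.lf 0 37298642 0) (P.cons (P.lf 14441364 0 0) (P.cons (P.lf 0 21660 0) (P.cons (P.lf 0 81524 0) P.nil)))))) (P.cons (P.cons (P.lf 0 322211892 0) (P.cons (P.lf 33838102 0 0) (P.cons (P.lf 5306842 0 0) (P.cons (P.lf 0 45966 0) (P.cons (P.lf 0 556 0) P.nil))))) (P.cons (P.cons (P.lf 0 25698550 0) (P.cons (P.lf 8958900 0 0) (P.cons (P.lf 691124 0 0) (P.cons (P.lf 0 196018 0) P.nil)))) (P.cons (P.cons (P.lf 5947630 0 0) (P.cons (P.lf 0 573302 0) (P.cons (P.lf 0 85946 0) P.nil))) (P.cons (P.cons (P.lf 56836 0 0) (P.cons (P.lf 0 68336 0) P.nil)) (P.cons (P.cons (P.lf 0 46502 0) P.nil) P.nil)))))) 57146)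
 EL.nil)
noncomputable def S241_256_290_364_36 : EL := (EL.cons 14 (TM.mk (P.cons (P.lf 0 502777056 0) (P.cons (P.lf 501699368 0 0) (P.cons (P.lf 1614216 0 0) (P.cons (P.lf 0 534224 0) (P.cons (P.lf 0 2872 0) (P.cons (P.lf 560 0 0) P.nil)))))) 64)
 EL.nil)
noncomputable def S241_256_290_364_37 : EL := (EL.cons 14 (TM.mk (P.cons (P.cons (P.lf 0 257285744 0) (P.cons (P.lf 32941178 0 0) (P.cons (P.lf 4241872 0 0) (P.lf 0 282790 0)))) (P.cons (P.cons (P.lf 275161356 0 0) (P.cons (P.lf 0 32446464 0) (P.cons (P.lf 0 4178166 0) (P.lf 278544 0 0)))) (P.cons (P.cons (P.lf 0 15431986 0) (P.cons (P.lf 0 738278 0) (P.cons (P.lf 0 95068 0) (P.lf 6336 0 0)))) (P.cons (P.cons (P.lf 0 2645162 0) (P.cons (P.lf 239796 0 0) (P.cons (P.lf 30878 0 0) P.nil))) (P.cons (P.cons (P.lf 190614 0 0) (P.cons (P.lf 4684 0 0) P.nil)) (P.cons (P.cons (P.lf 11656 0 0) P.nil) P.nil)))))) 4894)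
 EL.nil)
noncomputable def S241_256_290_364_38 : EL := (EL.cons 14 (TM.mk (P.cons (P.cons (P.lf 0 131660650 0) (P.cons (P.lf 33713930 0 0) (P.cons (P.lf 2183124 0 0) (P.cons (P.lf 0 845266 0) (P.cons (P.lf 1266 0 0) (P.cons (P.lf 4770 0 0) P.nil)))))) (P.cons (P.cons (P.lf 150237810 0 0) (P.cons (P.lf 0 35622242 0) (P.cons (P.lf 0 2489060 0) (P.cons (P.lf 846144 0 0) (P.cons (P.lf 0 1232 0) P.nil))))) (P.cons (P.cons (P.lf 0 16892074 0) (P.cons (P.lf 1343716 0 0) (P.cons (P.lf 262486 0 0) (P.cons (P.lf 11502 0 0) P.nil)))) (P.cons (P.cons (P.lf 0 2049502 0) (P.cons (P.lf 598986 0 0) (P.cons (P.lf 48712 0 0) P.nil))) (P.cons (P.cons (P.lf 358504 0 0) (P.cons (P.lf 0 29712 0) P.nil)) (P.cons (P.cons (P.lf 9010 0 0) P.nil) P.nil)))))) 37468)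
 EL.nil)
noncomputable def S241_256_290_364_39 : EL := (EL.cons 14 (TM.mk (P.cons (P.lf 29428020 0 0) (P.cons (P.lf 0 58729884 0) (P.cons (P.lf 29113034 0 0) (P.cons (P.lf 251094 0 0) (P.cons (P.lf 0 61762 0) (P.cons (P.lf 0 600 0) P.nil)))))) 128)
 EL.nil)
noncomputable def S241_256_290_364_40 : EL := (EL.cons 14 (TM.mk (P.cons (P.cons (P.lf 15059178 0 0) (P.cons (P.lf 0 1928078 0) (P.cons (P.lf 0 248280 0) (P.lf 16552 0 0)))) (P.cons (P.cons (P.lf 0 31132356 0) (P.cons (P.lf 3823068 0 0) (P.cons (P.lf 492300 0 0) (P.lf 0 32820 0)))) (P.cons (P.cons (P.lf 16925832 0 0) (P.cons (P.lf 0 1845648 0) (P.cons (P.lf 0 237666 0) (P.lf 15844 0 0)))) (P.cons (P.cons (P.lf 0 678780 0) (P.cons (P.lf 0 65300 0) (P.cons (P.lf 0 8408 0) P.nil))) (P.cons (P.cons (P.lf 0 185574 0) (P.cons (P.lf 15598 0 0) P.nil)) (P.cons (P.cons (P.lf 10804 0 0) P.nil) P.nil)))))) 4524)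
 EL.nil)
noncomputable def S241_256_290_364_41 : EL := (EL.cons 14 (TM.mk (P.cons (P.cons (P.lf 7706222 0 0) (P.cons (P.lf 0 1973308 0) (P.cons (P.lf 0 127780 0) (P.cons (P.lf 49474 0 0) (P.cons (P.lf 0 74 0) (P.cons (P.lf 0 278 0) P.nil)))))) (P.cons (P.cons (P.lf 0 16483266 0) (P.cons (P.lf 4054082 0 0) (P.cons (P.lf 273192 0 0) (P.cons (P.lf 0 98892 0) (P.cons (P.lf 146 0 0) P.nil))))) (P.cons (P.cons (P.lf 9738680 0 0) (P.cons (P.lf 0 2152848 0) (P.cons (P.lf 0 160328 0) (P.cons (P.lf 48586 0 0) P.nil)))) (P.cons (P.cons (P.lf 0 830210 0) (P.cons (P.lf 34630 0 0) (P.cons (P.lf 11874 0 0) P.nil))) (P.cons (P.cons (P.lf 0 153158 0) (P.cons (P.lf 39178 0 0) P.nil)) (P.cons (P.cons (P.lf 21018 0 0) P.nil) P.nil)))))) 12578)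
 EL.nil)
noncomputable def S241_256_290_364_42 : EL := (EL.cons 14 (TM.mk (P.cons (P.lf 0 1722450 0) (P.cons (P.lf 5156274 0 0) (P.cons (P.lf 0 5128630 0) (P.cons (P.lf 1672796 0 0) (P.cons (P.lf 27392 0 0) (P.cons (P.lf 0 5312 0) P.nil)))))) 110)
 EL.nil)
noncomputable def S241_256_290_364_43 : EL := (EL.cons 14 (TM.mk (P.cons (P.cons (P.lf 0 881428 0) (P.cons (P.lf 112852 0 0) (P.cons (P.lf 14532 0 0) (P.lf 0 968 0)))) (P.cons (P.cons (P.lf 2701744 0 0) (P.cons (P.lf 0 336378 0) (P.cons (P.lf 0 43314 0) (P.lf 2886 0 0)))) (P.cons (P.cons (P.lf 0 2806154 0) (P.cons (P.lf 330952 0 0) (P.cons (P.lf 42616 0 0) (P.lf 0 2840 0)))) (P.cons (P.cons (P.lf 1021502 0 0) (P.cons (P.lf 0 103134 0) (P.cons (P.lf 0 13280 0) P.nil))) (P.cons (P.cons (P.lf 0 23670 0) (P.cons (P.lf 0 5310 0) P.nil)) (P.cons (P.cons (P.lf 0 12638 0) P.nil) P.nil)))))) 4228)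
 EL.nil)
noncomputable def S241_256_290_364_44 : EL := (EL.cons 14 (TM.mk (P.cons (P.cons (P.lf 0 451052 0) (P.cons (P.lf 115498 0 0) (P.cons (P.lf 7478 0 0) (P.cons (P.lf 0 2894 0) (P.cons (P.lf 4 0 0) (P.cons (P.lf 16 0 0) P.nil)))))) (P.cons (P.cons (P.lf 1414866 0 0) (P.cons (P.lf 0 352540 0) (P.cons (P.lf 0 23452 0) (P.cons (P.lf 8676 0 0) (P.cons (P.lf 0 12 0) P.nil))))) (P.cons (P.cons (P.lf 0 1531278 0) (P.cons (P.lf 362418 0 0) (P.cons (P.lf 25316 0 0) (P.cons (P.lf 0 8610 0) P.nil)))) (P.cons (P.cons (P.lf 613808 0 0) (P.cons (P.lf 0 126880 0) (P.cons (P.lf 0 9998 0) P.nil))) (P.cons (P.cons (P.lf 0 36672 0) (P.cons (P.lf 0 926 0) P.nil)) (P.cons (P.cons (P.lf 0 10930 0) P.nil) P.nil)))))) 9754)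
 EL.nil)
noncomputable def S241_256_290_364_45 : EL := (EL.cons 14 (TM.mk (P.cons (P.cons (P.lf 1151093712 0 0) (P.cons (P.lf 0 442135454 0) (P.cons (P.lf 0 326150 0) (P.cons (P.lf 15958682 0 0) (P.cons (P.lf 0 966552 0) (P.cons (P.lf 0 183118 0) P.nil)))))) (P.cons (P.cons (P.lf 0 247327892 0) (P.cons (P.lf 57640162 0 0) (P.cons (P.lf 4825666 0 0) (P.cons (P.lf 0 1256904 0) (P.cons (P.lf 0 34520 0) P.nil))))) (P.cons (P.cons (P.lf 0 10869098 0) (P.cons (P.lf 8676096 0 0) (P.cons (P.lf 0 165766 0) (P.cons (P.lf 0 360044 0) P.nil)))) (P.cons (P.cons (P.lf 6189614 0 0) (P.cons (P.lf 0 1469990 0) (P.cons (P.lf 0 127824 0) P.nil))) (P.cons (P.cons (P.lf 0 165058 0) (P.cons (P.lf 0 72446 0) P.nil)) (P.cons (P.cons (P.lf 0 68134 0) P.nil) P.nil)))))) 182584)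
 EL.nil)
noncomputable def S241_256_290_364_46 : EL := (EL.cons 15 (TM.mk (P.lf 4294967296 0 0) 0)
 EL.nil)
noncomputable def S241_256_290_364_47 : EL := (EL.cons 15 (TM.mk (P.cons (P.cons (P.lf 2197860563 0 0) (P.cons (P.lf 0 281399644 0) (P.cons (P.lf 0 36236144 0) (P.lf 2415740 0 0)))) (P.cons (P.cons (P.lf 0 157413255 0) (P.cons (P.lf 0 3622908 0) (P.cons (P.lf 0 466524 0) (P.lf 31100 0 0)))) (P.cons (P.cons (P.lf 0 18191816 0) (P.cons (P.lf 1788140 0 0) (P.cons (P.lf 230256 0 0) (P.lf 0 15348 0)))) (P.cons (P.cons (P.lf 1602735 0 0) (P.cons (P.lf 23204 0 0) (P.cons (P.lf 2984 0 0) P.nil))) (P.cons (P.cons (P.lf 67269 0 0) (P.cons (P.lf 0 5668 0) P.nil)) (P.cons (P.cons (P.lf 0 4635 0) P.nil) P.nil)))))) 1676)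
 EL.nil)
noncomputable def S241_256_290_364_48 : EL := (EL.cons 15 (TM.mk (P.cons (P.cons (P.lf 1124709624 0 0) (P.cons (P.lf 0 288000879 0) (P.cons (P.lf 0 18649321 0) (P.cons (P.lf 7220682 0 0) (P.cons (P.lf 0 10830 0) (P.cons (P.lf 0 40762 0) P.nil)))))) (P.cons (P.cons (P.lf 0 161105946 0) (P.cons (P.lf 16919051 0 0) (P.cons (P.lf 2653421 0 0) (P.cons (P.lf 0 22983 0) (P.cons (P.lf 0 278 0) P.nil))))) (P.cons (P.cons (P.lf 0 12849275 0) (P.cons (P.lf 4479450 0 0) (P.cons (P.lf 345562 0 0) (P.cons (P.lf 0 98009 0) P.nil)))) (P.cons (P.cons (P.lf 2973815 0 0) (P.cons (P.lf 0 286651 0) (P.cons (P.lf 0 42973 0) P.nil))) (P.cons (P.cons (P.lf 28418 0 0) (P.cons (P.lf 0 34168 0) P.nil)) (P.cons (P.cons (P.lf 0 23251 0) P.nil) P.nil)))))) 28573)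
 EL.nil)
noncomputable def S241_256_290_364 : SL := (SL.cons S241_256_290_364_0 (SL.cons S241_256_290_364_1 (SL.cons S241_256_290_364_2 (SL.cons S241_256_290_364_3 (SL.cons S241_256_290_364_4 (SL.cons S241_256_290_364_5 (SL.cons S241_256_290_364_6 (SL.cons S241_256_290_364_7 (SL.cons S241_256_290_364_8 (SL.cons S241_256_290_364_9 (SL.cons S241_256_290_364_10 (SL.cons S241_256_290_364_11 (SL.cons S241_256_290_364_12 (SL.cons S241_256_290_364_13 (SL.cons S241_256_290_364_14 (SL.cons S241_256_290_364_15 (SL.cons S241_256_290_364_16 (SL.cons S241_256_290_364_17 (SL.cons S241_256_290_364_18 (SL.cons S241_256_290_364_19 (SL.cons S241_256_290_364_20 (SL.cons S241_256_290_364_21 (SL.cons S241_256_290_364_22 (SL.cons S241_256_290_364_23 (SL.cons S241_256_290_364_24 (SL.cons S241_256_290_364_25 (SL.cons S241_256_290_364_26 (SL.cons S241_256_290_364_27 (SL.cons S241_256_290_364_28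 (SL.cons S241_256_290_364_29 (SL.cons S241_256_290_364_30 (SL.cons S241_256_290_364_31 (SL.cons S241_256_290_364_32 (SL.cons S241_256_290_364_33 (SL.cons S241_256_290_364_34 (SL.cons S241_256_290_364_35 (SL.cons S241_256_290_364_36 (SL.cons S241_256_290_364_37 (SL.cons S241_256_290_364_38 (SL.cons S241_256_290_364_39 (SL.cons S241_256_290_364_40 (SL.cons S241_256_290_364_41 (SL.cons S241_256_290_364_42 (SL.cons S241_256_290_364_43 (SL.cons S241_256_290_364_44 (SL.cons S241_256_290_364_45 (SL.cons S241_256_290_364_46 (SL.cons S241_256_290_364_47 (SL.cons S241_256_290_364_48 SL.nil)))))))))))))))))))))))))))))))))))))))))))))))))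
noncomputable def S241_256_364_512_0 : EL := (EL.cons 0 (TM.mk (P.cons (P.lf 8429852393 0 0) (P.cons (P.lf 51618062 0 0) (P.cons (P.lf 0 25587627 0) (P.cons (P.lf 0 220688 0) (P.cons (P.lf 54283 0 0) (P.cons (P.lf 527 0 0) P.nil)))))) 119)
 (EL.cons 1 (TM.mk (P.cons (P.lf 0 235171578 0) (P.cons (P.lf 233658247 0 0) (P.cons (P.lf 2264585 0 0) (P.cons (P.lf 0 745863 0) (P.cons (P.lf 0 6716 0) (P.cons (P.lf 1310 0 0) P.nil)))))) 72)
 (EL.cons 5 (TM.mk (P.cons (P.lf 4304163554 0 0) (P.cons (P.lf 0 18353086 0) (P.cons (P.lf 9097822 0 0) (P.cons (P.lf 78466 0 0) (P.cons (P.lf 0 19296 0) (P.cons (P.lf 0 186 0) P.nil)))))) 147)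
 (EL.cons 9 (TM.mk (P.lf 6442450944 0 0) 2)
 EL.nil))))
noncomputable def S241_256_364_512_1 : EL := (EL.cons 0 (TM.mk (P.cons (P.cons (P.lf 2385646076 0 0) (P.cons (P.lf 0 1686377500 0) (P.cons (P.lf 0 112747273 0) (P.lf 37582419 0 0)))) (P.cons (P.cons (P.lf 0 532223656 0) (P.cons (P.lf 0 63399593 0) (P.cons (P.lf 0 4238741 0) (P.lf 1412911 0 0)))) (P.cons (P.cons (P.lf 0 70387096 0) (P.cons (P.lf 30844551 0 0) (P.cons (P.lf 2062187 0 0) (P.lf 0 687390 0)))) (P.cons (P.cons (P.lf 11315139 0 0) (P.cons (P.lf 848265 0 0) (P.cons (P.lf 56706 0 0) P.nil))) (P.cons (P.cons (P.lf 599385 0 0) (P.cons (P.lf 0 203389 0) P.nil)) (P.cons (P.cons (P.lf 0 67954 0) P.nil) P.nil)))))) 48960)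
 (EL.cons 1 (TM.mk (P.cons (P.cons (P.lf 1030428115 0 0) (P.cons (P.lf 118400505 0 0) (P.cons (P.lf 7915978 0 0) (P.lf 0 2638655 0)))) (P.cons (P.cons (P.lf 227204401 0 0) (P.cons (P.lf 0 115500287 0) (P.cons (P.lf 0 7722077 0) (P.lf 2574020 0 0)))) (P.cons (P.cons (P.lf 0 46475676 0) (P.cons (P.lf 0 4318761 0) (P.cons (P.lf 0 288739 0) (P.lf 96240 0 0)))) (P.cons (P.cons (P.lf 0 3717763 0) (P.cons (P.lf 1387207 0 0) (P.cons (P.lf 92740 0 0) P.nil))) (P.cons (P.cons (P.lf 498745 0 0) (P.cons (P.lf 38881 0 0) P.nil)) (P.cons (P.cons (P.lf 24181 0 0) P.nil) P.nil)))))) 48774)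
 (EL.cons 5 (TM.mk (P.cons (P.cons (P.lf 1009464648 0 0) (P.cons (P.lf 0 874610050 0) (P.cons (P.lf 0 58474390 0) (P.lf 19491468 0 0)))) (P.cons (P.cons (P.lf 0 102554594 0) (P.cons (P.lf 3562174 0 0) (P.cons (P.lf 238152 0 0) (P.lf 0 79380 0)))) (P.cons (P.cons (P.lf 6038348 0 0) (P.cons (P.lf 0 1599132 0) (P.cons (P.lf 0 106912 0) (P.lf 35636 0 0)))) (P.cons (P.cons (P.lf 0 1143563 0) (P.cons (P.lf 0 180020 0) (P.cons (P.lf 0 12028 0) P.nil))) (P.cons (P.cons (P.lf 0 136598 0) (P.cons (P.lf 42612 0 0) P.nil)) (P.cons (P.cons (P.lf 15757 0 0) P.nil) P.nil)))))) 28285)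
 (EL.cons 9 (TM.mk (P.cons (P.cons (P.lf 1639142074 0 0) (P.cons (P.lf 0 1300774356 0) (P.cons (P.lf 0 86966742 0) (P.lf 28988910 0 0)))) (P.cons (P.cons (P.lf 0 257461474 0) (P.cons (P.lf 0 16746966 0) (P.cons (P.lf 0 1119660 0) (P.lf 373218 0 0)))) (P.cons (P.cons (P.lf 0 16754262 0) (P.cons (P.lf 8265714 0 0) (P.cons (P.lf 552624 0 0) (P.lf 0 184206 0)))) (P.cons (P.cons (P.lf 2540812 0 0) (P.cons (P.lf 107274 0 0) (P.cons (P.lf 7170 0 0) P.nil))) (P.cons (P.cons (P.lf 67507 0 0) (P.cons (P.lf 0 26202 0) P.nil)) (P.cons (P.cons (P.lf 0 7408 0) P.nil) P.nil)))))) 5989)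
 (EL.cons 2 (TM.mk (P.cons (P.cons (P.lf 163247976 0 0) (P.cons (P.lf 25274885 0 0) (P.cons (P.lf 0 12176642 0) (P.cons (P.lf 0 460797 0) (P.lf 115197 0 0))))) (P.cons (P.cons (P.lf 0 161496891 0) (P.cons (P.lf 0 25003771 0) (P.cons (P.lf 12046027 0 0) (P.cons (P.lf 455855 0 0) (P.lf 0 113962 0))))) (P.cons (P.cons (P.lf 0 2616865 0) (P.cons (P.lf 0 405154 0) (P.cons (P.lf 195190 0 0) (P.cons (P.lf 7385 0 0) P.nil)))) (P.cons (P.cons (P.lf 856054 0 0) (P.cons (P.lf 132536 0 0) (P.cons (P.lf 0 63852 0) P.nil))) (P.cons (P.cons (P.lf 12099 0 0) (P.cons (P.lf 1873 0 0) P.nil)) (P.cons (P.cons (P.lf 0 2345 0) P.nil) P.nil)))))) 6636)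
 (EL.cons 6 (TM.mk (P.cons (P.cons (P.lf 1484325171 0 0) (P.cons (P.lf 229810809 0 0) (P.cons (P.lf 0 110715600 0) (P.cons (P.lf 0 4189803 0) (P.lf 1047450 0 0))))) (P.cons (P.cons (P.lf 19110114 0 0) (P.cons (P.lf 2958723 0 0) (P.cons (P.lf 0 1425420 0) (P.cons (P.lf 0 53940 0) (P.lf 13482 0 0))))) (P.cons (P.cons (P.lf 0 9432084 0) (P.cons (P.lf 0 1460322 0) (P.cons (P.lf 703536 0 0) (P.cons (P.lf 26622 0 0) P.nil)))) (P.cons (P.cons (P.lf 0 122415 0) (P.cons (P.lf 0 18951 0) (P.cons (P.lf 9129 0 0) P.nil))) (P.cons (P.cons (P.lf 29904 0 0) (P.cons (P.lf 4629 0 0) P.nil)) (P.cons (P.cons (P.lf 408 0 0) P.nil) P.nil)))))) 9990)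
 EL.nil))))))
noncomputable def S241_256_364_512_2 : EL := (EL.cons 0 (TM.mk (P.cons (P.cons (P.lf 668255720 0 0) (P.cons (P.lf 0 955384027 0) (P.cons (P.lf 273453065 0 0) (P.cons (P.lf 66397478 0 0) (P.cons (P.lf 0 13527463 0) (P.cons (P.lf 0 1005233 0) P.nil)))))) (P.cons (P.cons (P.lf 0 293417520 0) (P.cons (P.lf 185456746 0 0) (P.cons (P.lf 35815087 0 0) (P.cons (P.lf 0 1002013 0) (P.cons (P.lf 0 939005 0) P.nil))))) (P.cons (P.cons (P.lf 0 5287797 0) (P.cons (P.lf 47344496 0 0) (P.cons (P.lf 0 7988317 0) (P.cons (P.lf 0 2546518 0) P.nil)))) (P.cons (P.cons (P.lf 12069369 0 0) (P.cons (P.lf 0 6244217 0) (P.cons (P.lf 0 964054 0) P.nil))) (P.cons (P.cons (P.lf 0 461403 0) (P.cons (P.lf 0 727682 0) P.nil)) (P.cons (P.cons (P.lf 0 171616 0) P.nil) P.nil)))))) 1524037)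
 (EL.cons 1 (TM.mk (P.cons (P.cons (P.lf 539563766 0 0) (P.cons (P.lf 0 380013802 0) (P.cons (P.lf 0 63631472 0) (P.cons (P.lf 3357721 0 0) (P.cons (P.lf 1532877 0 0) (P.cons (P.lf 113905 0 0) P.nil)))))) (P.cons (P.cons (P.lf 13347968 0 0) (P.cons (P.lf 0 137851299 0) (P.cons (P.lf 27530068 0 0) (P.cons (P.lf 7985691 0 0) (P.cons (P.lf 0 1473598 0) P.nil))))) (P.cons (P.cons (P.lf 0 42499237 0) (P.cons (P.lf 23868847 0 0) (P.cons (P.lf 3786239 0 0) (P.cons (P.lf 0 239039 0) P.nil)))) (P.cons (P.cons (P.lf 1580317 0 0) (P.cons (P.lf 3492384 0 0) (P.cons (P.lf 0 452300 0) P.nil))) (P.cons (P.cons (P.lf 878089 0 0) (P.cons (P.lf 0 401165 0) P.nil)) (P.cons (P.cons (P.lf 0 39702 0) P.nil) P.nil)))))) 632069)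
 (EL.cons 5 (TM.mk (P.cons (P.cons (P.lf 235048054 0 0) (P.cons (P.lf 0 410469985 0) (P.cons (P.lf 150271298 0 0) (P.cons (P.lf 32910834 0 0) (P.cons (P.lf 0 7126660 0) (P.cons (P.lf 0 529577 0) P.nil)))))) (P.cons (P.cons (P.lf 0 44152896 0) (P.cons (P.lf 42230384 0 0) (P.cons (P.lf 2162130 0 0) (P.cons (P.lf 0 1029562 0) (P.cons (P.lf 26503 0 0) P.nil))))) (P.cons (P.cons (P.lf 3878713 0 0) (P.cons (P.lf 0 2882032 0) (P.cons (P.lf 39534 0 0) (P.cons (P.lf 95276 0 0) P.nil)))) (P.cons (P.cons (P.lf 0 1308363 0) (P.cons (P.lf 469188 0 0) (P.cons (P.lf 127895 0 0) P.nil))) (P.cons (P.cons (P.lf 22206 0 0) (P.cons (P.lf 139310 0 0) P.nil)) (P.cons (P.cons (P.lf 35650 0 0) P.nil) P.nil)))))) 921193)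
 (EL.cons 9 (TM.mk (P.cons (P.cons (P.lf 417044190 0 0) (P.cons (P.lf 0 661907709 0) (P.cons (P.lf 218381520 0 0) (P.cons (P.lf 49869544 0 0) (P.cons (P.lf 0 10532148 0) (P.cons (P.lf 0 782643 0) P.nil)))))) (P.cons (P.cons (P.lf 0 131010988 0) (P.cons (P.lf 95444614 0 0) (P.cons (P.lf 13143856 0 0) (P.cons (P.lf 0 1222800 0) (P.cons (P.lf 0 271192 0) P.nil))))) (P.cons (P.cons (P.lf 1763487 0 0) (P.cons (P.lf 12310188 0 0) (P.cons (P.lf 0 2471244 0) (P.cons (P.lf 0 714835 0) P.nil)))) (P.cons (P.cons (P.lf 2632018 0 0) (P.cons (P.lf 0 1544971 0) (P.cons (P.lf 0 189585 0) P.nil))) (P.cons (P.cons (P.lf 0 125155 0) (P.cons (P.lf 0 105367 0) P.nil)) (P.cons (P.cons (P.lf 0 22380 0) P.nil) P.nil)))))) 441649)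
 (EL.cons 2 (TM.mk (P.cons (P.cons (P.lf 83069820 0 0) (P.cons (P.lf 0 53060439 0) (P.cons (P.lf 0 20809878 0) (P.cons (P.lf 5469361 0 0) (P.cons (P.lf 800898 0 0) (P.cons (P.lf 0 143656 0) P.nil)))))) (P.cons (P.cons (P.lf 0 95226615 0) (P.cons (P.lf 49622433 0 0) (P.cons (P.lf 21371748 0 0) (P.cons (P.lf 0 5300426 0) (P.cons (P.lf 0 791955 0) P.nil))))) (P.cons (P.cons (P.lf 10727190 0 0) (P.cons (P.lf 3976070 0 0) (P.cons (P.lf 0 286891 0) (P.cons (P.lf 0 230602 0) P.nil)))) (P.cons (P.cons (P.lf 1613508 0 0) (P.cons (P.lf 0 491231 0) (P.cons (P.lf 0 284625 0) P.nil))) (P.cons (P.cons (P.lf 0 172614 0) (P.cons (P.lf 0 49483 0) P.nil)) (P.cons (P.cons (P.lf 0 12436 0) P.nil) P.nil)))))) 359937)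
 (EL.cons 6 (TM.mk (P.cons (P.cons (P.lf 755308764 0 0) (P.cons (P.lf 0 482449788 0) (P.cons (P.lf 0 189212934 0) (P.cons (P.lf 49729956 0 0) (P.cons (P.lf 7282146 0 0) (P.cons (P.lf 0 1306218 0) P.nil)))))) (P.cons (P.cons (P.lf 0 108912696 0) (P.cons (P.lf 0 32296260 0) (P.cons (P.lf 4702362 0 0) (P.cons (P.lf 1642830 0 0) (P.cons (P.lf 96924 0 0) P.nil))))) (P.cons (P.cons (P.lf 0 14047266 0) (P.cons (P.lf 5343378 0 0) (P.cons (P.lf 2714442 0 0) (P.cons (P.lf 0 610854 0) P.nil)))) (P.cons (P.cons (P.lf 1762974 0 0) (P.cons (P.lf 469890 0 0) (P.cons (P.lf 0 87840 0) P.nil))) (P.cons (P.cons (P.lf 120234 0 0) (P.cons (P.lf 0 28458 0) P.nil)) (P.cons (P.cons (P.lf 0 11994 0) P.nil) P.nil)))))) 294342)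
 EL.nil))))))
noncomputable def S241_256_364_512_3 : EL := (EL.cons 0 (TM.mk (P.cons (P.lf 25864470 0 0) (P.cons (P.lf 0 51618062 0) (P.cons (P.lf 25587627 0 0) (P.cons (P.lf 220688 0 0) (P.cons (P.lf 0 54283 0) (P.cons (P.lf 0 527 0) P.nil)))))) 119)
 (EL.cons 1 (TM.mk (P.cons (P.lf 235171578 0 0) (P.cons (P.lf 0 233658247 0) (P.cons (P.lf 0 2264585 0) (P.cons (P.lf 745863 0 0) (P.cons (P.lf 6716 0 0) (P.cons (P.lf 0 1310 0) P.nil)))))) 72)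
 (EL.cons 5 (TM.mk (P.cons (P.lf 2138287390 0 0) (P.cons (P.lf 18353086 0 0) (P.cons (P.lf 0 9097822 0) (P.cons (P.lf 0 78466 0) (P.cons (P.lf 19296 0 0) (P.cons (P.lf 186 0 0) P.nil)))))) 140)
 EL.nil)))
noncomputable def S241_256_364_512_4 : EL := (EL.cons 0 (TM.mk (P.cons (P.cons (P.lf 6580654 0 0) (P.cons (P.lf 0 5222209 0) (P.cons (P.lf 0 349143 0) (P.lf 116381 0 0)))) (P.cons (P.cons (P.lf 0 14166725 0) (P.cons (P.lf 10354800 0 0) (P.cons (P.lf 692296 0 0) (P.lf 0 230765 0)))) (P.cons (P.cons (P.lf 8505780 0 0) (P.cons (P.lf 0 4998949 0) (P.cons (P.lf 0 334218 0) (P.lf 111404 0 0)))) (P.cons (P.cons (P.lf 0 821975 0) (P.cons (P.lf 0 176867 0) (P.cons (P.lf 0 11824 0) P.nil))) (P.cons (P.cons (P.lf 0 109258 0) (P.cons (P.lf 42250 0 0) P.nil)) (P.cons (P.cons (P.lf 10981 0 0) P.nil) P.nil)))))) 10231)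
 (EL.cons 1 (TM.mk (P.cons (P.cons (P.lf 59834311 0 0) (P.cons (P.lf 0 47482728 0) (P.cons (P.lf 0 3174583 0) (P.lf 1058193 0 0)))) (P.cons (P.cons (P.lf 0 68847504 0) (P.cons (P.lf 46565855 0 0) (P.cons (P.lf 3113283 0 0) (P.lf 0 1037760 0)))) (P.cons (P.cons (P.lf 8149985 0 0) (P.cons (P.lf 1366348 0 0) (P.cons (P.lf 91350 0 0) (P.lf 0 30448 0)))) (P.cons (P.cons (P.lf 980670 0 0) (P.cons (P.lf 0 440576 0) (P.cons (P.lf 0 29454 0) P.nil))) (P.cons (P.cons (P.lf 0 111894 0) (P.cons (P.lf 0 11045 0) P.nil)) (P.cons (P.cons (P.lf 0 6151 0) P.nil) P.nil)))))) 14608)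
 (EL.cons 5 (TM.mk (P.cons (P.cons (P.lf 544040902 0 0) (P.cons (P.lf 0 431734664 0) (P.cons (P.lf 0 28864772 0) (P.lf 9621588 0 0)))) (P.cons (P.cons (P.lf 0 80783432 0) (P.cons (P.lf 0 9264028 0) (P.cons (P.lf 0 619368 0) (P.lf 206454 0 0)))) (P.cons (P.cons (P.lf 0 8609030 0) (P.cons (P.lf 4532640 0 0) (P.cons (P.lf 303040 0 0) (P.lf 0 101012 0)))) (P.cons (P.cons (P.lf 1139194 0 0) (P.cons (P.lf 98642 0 0) (P.cons (P.lf 6592 0 0) P.nil))) (P.cons (P.cons (P.lf 61348 0 0) (P.cons (P.lf 0 23754 0) P.nil)) (P.cons (P.cons (P.lf 0 6372 0) P.nil) P.nil)))))) 5700)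
 EL.nil)))
noncomputable def S241_256_364_512_5 : EL := (EL.cons 0 (TM.mk (P.cons (P.cons (P.lf 1674304 0 0) (P.cons (P.lf 0 2657355 0) (P.cons (P.lf 876733 0 0) (P.cons (P.lf 200209 0 0) (P.cons (P.lf 0 42282 0) (P.cons (P.lf 0 3141 0) P.nil)))))) (P.cons (P.cons (P.lf 0 3867400 0) (P.cons (P.lf 5686502 0 0) (P.cons (P.lf 0 1696942 0) (P.cons (P.lf 0 404472 0) (P.cons (P.lf 83295 0 0) P.nil))))) (P.cons (P.cons (P.lf 2713146 0 0) (P.cons (P.lf 0 3344210 0) (P.cons (P.lf 752116 0 0) (P.cons (P.lf 204994 0 0) P.nil)))) (P.cons (P.cons (P.lf 0 509614 0) (P.cons (P.lf 251571 0 0) (P.cons (P.lf 78721 0 0) P.nil))) (P.cons (P.cons (P.lf 0 22587 0) (P.cons (P.lf 69693 0 0) P.nil)) (P.cons (P.cons (P.lf 12496 0 0) P.nil) P.nil)))))) 102159)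
 (EL.cons 1 (TM.mk (P.cons (P.cons (P.lf 15223543 0 0) (P.cons (P.lf 0 24161902 0) (P.cons (P.lf 7971673 0 0) (P.cons (P.lf 1820407 0 0) (P.cons (P.lf 0 384459 0) (P.cons (P.lf 0 28567 0) P.nil)))))) (P.cons (P.cons (P.lf 0 19907930 0) (P.cons (P.lf 27490477 0 0) (P.cons (P.lf 0 7440579 0) (P.cons (P.lf 0 1853330 0) (P.cons (P.lf 372084 0 0) P.nil))))) (P.cons (P.cons (P.lf 4669353 0 0) (P.cons (P.lf 0 2779603 0) (P.cons (P.lf 0 643680 0) (P.cons (P.lf 723 0 0) P.nil)))) (P.cons (P.cons (P.lf 126451 0 0) (P.cons (P.lf 0 613050 0) (P.cons (P.lf 103368 0 0) P.nil))) (P.cons (P.cons (P.lf 0 115380 0) (P.cons (P.lf 58218 0 0) P.nil)) (P.cons (P.cons (P.lf 2778 0 0) P.nil) P.nil)))))) 126400)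
 (EL.cons 5 (TM.mk (P.cons (P.cons (P.lf 138419420 0 0) (P.cons (P.lf 0 219691064 0) (P.cons (P.lf 72482110 0 0) (P.cons (P.lf 16551994 0 0) (P.cons (P.lf 0 3495680 0) (P.cons (P.lf 0 259762 0) P.nil)))))) (P.cons (P.cons (P.lf 0 42295252 0) (P.cons (P.lf 29793002 0 0) (P.cons (P.lf 4984642 0 0) (P.cons (P.lf 0 263786 0) (P.cons (P.lf 0 120012 0) P.nil))))) (P.cons (P.cons (P.lf 0 376846 0) (P.cons (P.lf 5292448 0 0) (P.cons (P.lf 0 1091166 0) (P.cons (P.lf 0 311164 0) P.nil)))) (P.cons (P.cons (P.lf 1058534 0 0) (P.cons (P.lf 0 604436 0) (P.cons (P.lf 0 91184 0) P.nil))) (P.cons (P.cons (P.lf 0 33686 0) (P.cons (P.lf 0 59902 0) P.nil)) (P.cons (P.cons (P.lf 0 11902 0) P.nil) P.nil)))))) 182088)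
 EL.nil)))
noncomputable def S241_256_364_512_6 : EL := (EL.cons 12 (TM.mk (P.lf 8589934592 0 0) 0)
 (EL.cons 3 (TM.mk (P.cons (P.lf 0 235676745 0) (P.cons (P.lf 235171578 0 0) (P.cons (P.lf 756663 0 0) (P.cons (P.lf 0 250417 0) (P.cons (P.lf 0 1346 0) (P.cons (P.lf 262 0 0) P.nil)))))) 37)
 (EL.cons 7 (TM.mk (P.cons (P.lf 0 2142880586 0) (P.cons (P.lf 0 9196255 0) (P.cons (P.lf 4578416 0 0) (P.cons (P.lf 19669 0 0) (P.cons (P.lf 0 4863 0) (P.cons (P.lf 0 31 0) P.nil)))))) 53)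
 EL.nil)))
noncomputable def S241_256_364_512_7 : EL := (EL.cons 12 (TM.mk (P.cons (P.cons (P.lf 2185522766 0 0) (P.cons (P.lf 0 1734365808 0) (P.cons (P.lf 0 115955656 0) (P.lf 38651880 0 0)))) (P.cons (P.cons (P.lf 0 343281966 0) (P.cons (P.lf 0 22329288 0) (P.cons (P.lf 0 1492880 0) (P.lf 497624 0 0)))) (P.cons (P.cons (P.lf 0 22339016 0) (P.cons (P.lf 11020952 0 0) (P.cons (P.lf 736832 0 0) (P.lf 0 245608 0)))) (P.cons (P.cons (P.lf 3387750 0 0) (P.cons (P.lf 143032 0 0) (P.cons (P.lf 9560 0 0) P.nil))) (P.cons (P.cons (P.lf 90010 0 0) (P.cons (P.lf 0 34936 0) P.nil)) (P.cons (P.cons (P.lf 0 9878 0) P.nil) P.nil)))))) 7960)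
 (EL.cons 3 (TM.mk (P.cons (P.cons (P.lf 0 2254610264 0) (P.cons (P.lf 0 95169450 0) (P.cons (P.lf 0 6362806 0) (P.lf 2120934 0 0)))) (P.cons (P.cons (P.lf 0 221094352 0) (P.cons (P.lf 93740190 0 0) (P.cons (P.lf 6267248 0 0) (P.lf 0 2089080 0)))) (P.cons (P.cons (P.lf 58125820 0 0) (P.cons (P.lf 2132942 0 0) (P.cons (P.lf 142602 0 0) (P.lf 0 47532 0)))) (P.cons (P.cons (P.lf 1950074 0 0) (P.cons (P.lf 0 692790 0) (P.cons (P.lf 0 46318 0) P.nil))) (P.cons (P.cons (P.lf 0 282797 0) (P.cons (P.lf 0 13534 0) P.nil)) (P.cons (P.cons (P.lf 0 8453 0) P.nil) P.nil)))))) 42722)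
 (EL.cons 7 (TM.mk (P.cons (P.cons (P.lf 0 459389064 0) (P.cons (P.lf 438244390 0 0) (P.cons (P.lf 29300001 0 0) (P.lf 0 9766670 0)))) (P.cons (P.cons (P.lf 8645773 0 0) (P.cons (P.lf 0 3665655 0) (P.cons (P.lf 0 245076 0) (P.lf 81690 0 0)))) (P.cons (P.cons (P.lf 0 6605147 0) (P.cons (P.lf 1753356 0 0) (P.cons (P.lf 117226 0 0) (P.lf 0 39075 0)))) (P.cons (P.cons (P.lf 1451614 0 0) (P.cons (P.lf 78869 0 0) (P.cons (P.lf 5270 0 0) P.nil))) (P.cons (P.cons (P.lf 62364 0 0) (P.cons (P.lf 0 18971 0) P.nil)) (P.cons (P.cons (P.lf 0 7683 0) P.nil) P.nil)))))) 16892)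
 (EL.cons 10 (TM.mk (P.cons (P.cons (P.lf 0 2975027220 0) (P.cons (P.lf 0 460608921 0) (P.cons (P.lf 221906853 0 0) (P.cons (P.lf 8397606 0 0) (P.lf 0 2099400 0))))) (P.cons (P.cons (P.lf 0 25534887 0) (P.cons (P.lf 0 3953442 0) (P.cons (P.lf 1904643 0 0) (P.cons (P.lf 72075 0 0) (P.lf 0 18018 0))))) (P.cons (P.cons (P.lf 12657918 0 0) (P.cons (P.lf 1959762 0 0) (P.cons (P.lf 0 944151 0) (P.cons (P.lf 0 35727 0) P.nil)))) (P.cons (P.cons (P.lf 109170 0 0) (P.cons (P.lf 16902 0 0) (P.cons (P.lf 0 8142 0) P.nil))) (P.cons (P.cons (P.lf 0 26844 0) (P.cons (P.lf 0 4155 0) P.nil)) (P.cons (P.cons (P.lf 0 258 0) P.nil) P.nil)))))) 11826)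
 EL.nil))))
noncomputable def S241_256_364_512_8 : EL := (EL.cons 12 (TM.mk (P.cons (P.cons (P.lf 556058920 0 0) (P.cons (P.lf 0 882543612 0) (P.cons (P.lf 291175360 0 0) (P.cons (P.lf 66492726 0 0) (P.cons (P.lf 0 14042864 0) (P.cons (P.lf 0 1043524 0) P.nil)))))) (P.cons (P.cons (P.lf 0 174681318 0) (P.cons (P.lf 127259486 0 0) (P.cons (P.lf 17525142 0 0) (P.cons (P.lf 0 1630400 0) (P.cons (P.lf 0 361590 0) P.nil))))) (P.cons (P.cons (P.lf 2351316 0 0) (P.cons (P.lf 16413584 0 0) (P.cons (P.lf 0 3294992 0) (P.cons (P.lf 0 953114 0) P.nil)))) (P.cons (P.cons (P.lf 3509358 0 0) (P.cons (P.lf 0 2059962 0) (P.cons (P.lf 0 252780 0) P.nil))) (P.cons (P.cons (P.lf 0 166874 0) (P.cons (P.lf 0 140490 0) P.nil)) (P.cons (P.cons (P.lf 0 29840 0) P.nil) P.nil)))))) 588836)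
 (EL.cons 3 (TM.mk (P.cons (P.cons (P.lf 0 1132017225 0) (P.cons (P.lf 837800659 0 0) (P.cons (P.lf 104051788 0 0) (P.cons (P.lf 0 12247657 0) (P.cons (P.lf 0 1926425 0) (P.cons (P.lf 0 143150 0) P.nil)))))) (P.cons (P.cons (P.lf 47681735 0 0) (P.cons (P.lf 183962806 0 0) (P.cons (P.lf 0 34399148 0) (P.cons (P.lf 0 10344067 0) (P.cons (P.lf 1872690 0 0) P.nil))))) (P.cons (P.cons (P.lf 63773594 0 0) (P.cons (P.lf 0 36975857 0) (P.cons (P.lf 0 4463198 0) (P.cons (P.lf 557797 0 0) P.nil)))) (P.cons (P.cons (P.lf 0 4218394 0) (P.cons (P.lf 0 3360528 0) (P.cons (P.lf 407873 0 0) P.nil))) (P.cons (P.cons (P.lf 0 929600 0) (P.cons (P.lf 428189 0 0) P.nil)) (P.cons (P.cons (P.lf 58024 0 0) P.nil) P.nil)))))) 849371)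
 (EL.cons 7 (TM.mk (P.cons (P.cons (P.lf 0 95046434 0) (P.cons (P.lf 188348115 0 0) (P.cons (P.lf 0 77019092 0) (P.cons (P.lf 0 16179958 0) (P.cons (P.lf 3593586 0 0) (P.cons (P.lf 267035 0 0) P.nil)))))) (P.cons (P.cons (P.lf 0 1864565 0) (P.cons (P.lf 0 7193765 0) (P.cons (P.lf 1345154 0 0) (P.cons (P.lf 404492 0 0) (P.cons (P.lf 0 73227 0) P.nil))))) (P.cons (P.cons (P.lf 0 1559541 0) (P.cons (P.lf 5050522 0 0) (P.cons (P.lf 0 499489 0) (P.cons (P.lf 0 224493 0) P.nil)))) (P.cons (P.cons (P.lf 1829073 0 0) (P.cons (P.lf 0 842340 0) (P.cons (P.lf 0 131102 0) P.nil))) (P.cons (P.cons (P.lf 0 91148 0) (P.cons (P.lf 0 111230 0) P.nil)) (P.cons (P.cons (P.lf 0 30011 0) P.nil) P.nil)))))) 446203)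
 (EL.cons 10 (TM.mk (P.cons (P.cons (P.lf 0 1513862448 0) (P.cons (P.lf 966972252 0 0) (P.cons (P.lf 379238760 0 0) (P.cons (P.lf 0 99673560 0) (P.cons (P.lf 0 14595582 0) (P.cons (P.lf 2618058 0 0) P.nil)))))) (P.cons (P.cons (P.lf 224790096 0 0) (P.cons (P.lf 60581478 0 0) (P.cons (P.lf 0 11052450 0) (P.cons (P.lf 0 2864970 0) (P.cons (P.lf 0 131628 0) P.nil))))) (P.cons (P.cons (P.lf 23955714 0 0) (P.cons (P.lf 0 8903700 0) (P.cons (P.lf 0 4582854 0) (P.cons (P.lf 1023678 0 0) P.nil)))) (P.cons (P.cons (P.lf 0 3169956 0) (P.cons (P.lf 0 765276 0) (P.cons (P.lf 175596 0 0) P.nil))) (P.cons (P.cons (P.lf 0 170706 0) (P.cons (P.lf 39672 0 0) P.nil)) (P.cons (P.cons (P.lf 17736 0 0) P.nil) P.nil)))))) 508692)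
 EL.nil))))
noncomputable def S241_256_364_512_9 : EL := (EL.cons 3 (TM.mk (P.cons (P.lf 0 235676745 0) (P.cons (P.lf 235171578 0 0) (P.cons (P.lf 756663 0 0) (P.cons (P.lf 0 250417 0) (P.cons (P.lf 0 1346 0) (P.cons (P.lf 262 0 0) P.nil)))))) 37)
 (EL.cons 7 (TM.mk (P.cons (P.lf 0 2142880586 0) (P.cons (P.lf 0 9196255 0) (P.cons (P.lf 4578416 0 0) (P.cons (P.lf 19669 0 0) (P.cons (P.lf 0 4863 0) (P.cons (P.lf 0 31 0) P.nil)))))) 53)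
 EL.nil))
noncomputable def S241_256_364_512_10 : EL := (EL.cons 3 (TM.mk (P.cons (P.cons (P.lf 0 59962841 0) (P.cons (P.lf 47584725 0 0) (P.cons (P.lf 3181403 0 0) (P.lf 0 1060467 0)))) (P.cons (P.cons (P.lf 69252728 0 0) (P.cons (P.lf 0 46870095 0) (P.cons (P.lf 0 3133624 0) (P.lf 1044540 0 0)))) (P.cons (P.cons (P.lf 0 8592809 0) (P.cons (P.lf 0 1066471 0) (P.cons (P.lf 0 71301 0) (P.lf 23766 0 0)))) (P.cons (P.cons (P.lf 0 798487 0) (P.cons (P.lf 346395 0 0) (P.cons (P.lf 23159 0 0) P.nil))) (P.cons (P.cons (P.lf 97975 0 0) (P.cons (P.lf 6767 0 0) P.nil)) (P.cons (P.cons (P.lf 3805 0 0) P.nil) P.nil)))))) 10603)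
 (EL.cons 7 (TM.mk (P.cons (P.cons (P.lf 0 545209542 0) (P.cons (P.lf 432662062 0 0) (P.cons (P.lf 28926777 0 0) (P.lf 0 9642257 0)))) (P.cons (P.cons (P.lf 83296750 0 0) (P.cons (P.lf 7427142 0 0) (P.cons (P.lf 496560 0 0) (P.lf 0 165519 0)))) (P.cons (P.cons (P.lf 7105174 0 0) (P.cons (P.lf 0 3649839 0) (P.cons (P.lf 0 244019 0) (P.lf 81339 0 0)))) (P.cons (P.cons (P.lf 0 999170 0) (P.cons (P.lf 0 63352 0) (P.cons (P.lf 0 4234 0) P.nil))) (P.cons (P.cons (P.lf 0 40011 0) (P.cons (P.lf 15367 0 0) P.nil)) (P.cons (P.cons (P.lf 4308 0 0) P.nil) P.nil)))))) 3568)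
 EL.nil))
noncomputable def S241_256_364_512_11 : EL := (EL.cons 3 (TM.mk (P.cons (P.cons (P.lf 0 15256245 0) (P.cons (P.lf 24213805 0 0) (P.cons (P.lf 0 7988798 0) (P.cons (P.lf 0 1824319 0) (P.cons (P.lf 385285 0 0) (P.cons (P.lf 28630 0 0) P.nil)))))) (P.cons (P.cons (P.lf 20016167 0 0) (P.cons (P.lf 0 27653444 0) (P.cons (P.lf 7490848 0 0) (P.cons (P.lf 1865141 0 0) (P.cons (P.lf 0 374538 0) P.nil))))) (P.cons (P.cons (P.lf 0 4797880 0) (P.cons (P.lf 2955985 0 0) (P.cons (P.lf 595846 0 0) (P.cons (P.lf 0 12629 0) P.nil)))) (P.cons (P.cons (P.lf 0 63508 0) (P.cons (P.lf 542820 0 0) (P.cons (P.lf 0 90217 0) P.nil))) (P.cons (P.cons (P.lf 105868 0 0) (P.cons (P.lf 0 54667 0) P.nil)) (P.cons (P.cons (P.lf 0 3464 0) P.nil) P.nil)))))) 114517)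
 (EL.cons 7 (TM.mk (P.cons (P.cons (P.lf 0 138716756 0) (P.cons (P.lf 220162977 0 0) (P.cons (P.lf 0 72637808 0) (P.cons (P.lf 0 16587550 0) (P.cons (P.lf 3503190 0 0) (P.cons (P.lf 260321 0 0) P.nil)))))) (P.cons (P.cons (P.lf 42981415 0 0) (P.cons (P.lf 0 30801839 0) (P.cons (P.lf 0 4683622 0) (P.cons (P.lf 335540 0 0) (P.cons (P.lf 105237 0 0) P.nil))))) (P.cons (P.cons (P.lf 0 103179 0) (P.cons (P.lf 0 4701236 0) (P.cons (P.lf 958415 0 0) (P.cons (P.lf 274953 0 0) P.nil)))) (P.cons (P.cons (P.lf 0 969807 0) (P.cons (P.lf 562122 0 0) (P.cons (P.lf 76594 0 0) P.nil))) (P.cons (P.cons (P.lf 38410 0 0) (P.cons (P.lf 46792 0 0) P.nil)) (P.cons (P.cons (P.lf 9595 0 0) P.nil) P.nil)))))) 164241)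
 EL.nil))
noncomputable def S241_256_364_512_12 : EL := (EL.cons 4 (TM.mk (P.cons (P.lf 235676745 0 0) (P.cons (P.lf 0 235171578 0) (P.cons (P.lf 0 756663 0) (P.cons (P.lf 250417 0 0) (P.cons (P.lf 1346 0 0) (P.cons (P.lf 0 262 0) P.nil)))))) 37)
 (EL.cons 8 (TM.mk (P.cons (P.lf 2142880586 0 0) (P.cons (P.lf 9196255 0 0) (P.cons (P.lf 0 4578416 0) (P.cons (P.lf 0 19669 0) (P.cons (P.lf 4863 0 0) (P.cons (P.lf 31 0 0) P.nil)))))) 53)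
 EL.nil))
noncomputable def S241_256_364_512_13 : EL := (EL.cons 4 (TM.mk (P.cons (P.cons (P.lf 59962841 0 0) (P.cons (P.lf 0 47584725 0) (P.cons (P.lf 0 3181403 0) (P.lf 1060467 0 0)))) (P.cons (P.cons (P.lf 0 69252728 0) (P.cons (P.lf 46870095 0 0) (P.cons (P.lf 3133624 0 0) (P.lf 0 1044540 0)))) (P.cons (P.cons (P.lf 8592809 0 0) (P.cons (P.lf 1066471 0 0) (P.cons (P.lf 71301 0 0) (P.lf 0 23766 0)))) (P.cons (P.cons (P.lf 798487 0 0) (P.cons (P.lf 0 346395 0) (P.cons (P.lf 0 23159 0) P.nil))) (P.cons (P.cons (P.lf 0 97975 0) (P.cons (P.lf 0 6767 0) P.nil)) (P.cons (P.cons (P.lf 0 3805 0) P.nil) P.nil)))))) 10603)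
 (EL.cons 8 (TM.mk (P.cons (P.cons (P.lf 545209542 0 0) (P.cons (P.lf 0 432662062 0) (P.cons (P.lf 0 28926777 0) (P.lf 9642257 0 0)))) (P.cons (P.cons (P.lf 0 83296750 0) (P.cons (P.lf 0 7427142 0) (P.cons (P.lf 0 496560 0) (P.lf 165519 0 0)))) (P.cons (P.cons (P.lf 0 7105174 0) (P.cons (P.lf 3649839 0 0) (P.cons (P.lf 244019 0 0) (P.lf 0 81339 0)))) (P.cons (P.cons (P.lf 999170 0 0) (P.cons (P.lf 63352 0 0) (P.cons (P.lf 4234 0 0) P.nil))) (P.cons (P.cons (P.lf 40011 0 0) (P.cons (P.lf 0 15367 0) P.nil)) (P.cons (P.cons (P.lf 0 4308 0) P.nil) P.nil)))))) 3568)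
 EL.nil))
noncomputable def S241_256_364_512_14 : EL := (EL.cons 4 (TM.mk (P.cons (P.cons (P.lf 15256245 0 0) (P.cons (P.lf 0 24213805 0) (P.cons (P.lf 7988798 0 0) (P.cons (P.lf 1824319 0 0) (P.cons (P.lf 0 385285 0) (P.cons (P.lf 0 28630 0) P.nil)))))) (P.cons (P.cons (P.lf 0 20016167 0) (P.cons (P.lf 27653444 0 0) (P.cons (P.lf 0 7490848 0) (P.cons (P.lf 0 1865141 0) (P.cons (P.lf 374538 0 0) P.nil))))) (P.cons (P.cons (P.lf 4797880 0 0) (P.cons (P.lf 0 2955985 0) (P.cons (P.lf 0 595846 0) (P.cons (P.lf 12629 0 0) P.nil)))) (P.cons (P.cons (P.lf 63508 0 0) (P.cons (P.lf 0 542820 0) (P.cons (P.lf 90217 0 0) P.nil))) (P.cons (P.cons (P.lf 0 105868 0) (P.cons (P.lf 54667 0 0) P.nil)) (P.cons (P.cons (P.lf 3464 0 0) P.nil) P.nil)))))) 114517)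
 (EL.cons 8 (TM.mk (P.cons (P.cons (P.lf 138716756 0 0) (P.cons (P.lf 0 220162977 0) (P.cons (P.lf 72637808 0 0) (P.cons (P.lf 16587550 0 0) (P.cons (P.lf 0 3503190 0) (P.cons (P.lf 0 260321 0) P.nil)))))) (P.cons (P.cons (P.lf 0 42981415 0) (P.cons (P.lf 30801839 0 0) (P.cons (P.lf 4683622 0 0) (P.cons (P.lf 0 335540 0) (P.cons (P.lf 0 105237 0) P.nil))))) (P.cons (P.cons (P.lf 103179 0 0) (P.cons (P.lf 4701236 0 0) (P.cons (P.lf 0 958415 0) (P.cons (P.lf 0 274953 0) P.nil)))) (P.cons (P.cons (P.lf 969807 0 0) (P.cons (P.lf 0 562122 0) (P.cons (P.lf 0 76594 0) P.nil))) (P.cons (P.cons (P.lf 0 38410 0) (P.cons (P.lf 0 46792 0) P.nil)) (P.cons (P.cons (P.lf 0 9595 0) P.nil) P.nil)))))) 164241)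
 EL.nil))
noncomputable def S241_256_364_512_15 : EL := (EL.cons 4 (TM.mk (P.cons (P.lf 0 13794384 0) (P.cons (P.lf 27529633 0 0) (P.cons (P.lf 0 13646734 0) (P.cons (P.lf 0 117700 0) (P.cons (P.lf 28950 0 0) (P.cons (P.lf 281 0 0) P.nil)))))) 67)
 (EL.cons 8 (TM.mk (P.cons (P.lf 0 125424842 0) (P.cons (P.lf 124617732 0 0) (P.cons (P.lf 1207779 0 0) (P.cons (P.lf 0 397794 0) (P.cons (P.lf 0 3582 0) (P.cons (P.lf 699 0 0) P.nil)))))) 35)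
 EL.nil))
noncomputable def S241_256_364_512_16 : EL := (EL.cons 4 (TM.mk (P.cons (P.cons (P.lf 0 3509682 0) (P.cons (P.lf 2785178 0 0) (P.cons (P.lf 186210 0 0) (P.lf 0 62070 0)))) (P.cons (P.cons (P.lf 7555587 0 0) (P.cons (P.lf 0 5522560 0) (P.cons (P.lf 0 369225 0) (P.lf 123075 0 0)))) (P.cons (P.cons (P.lf 0 4536416 0) (P.cons (P.lf 2666106 0 0) (P.cons (P.lf 178249 0 0) (P.lf 0 59415 0)))) (P.cons (P.cons (P.lf 438387 0 0) (P.cons (P.lf 94329 0 0) (P.cons (P.lf 6306 0 0) P.nil))) (P.cons (P.cons (P.lf 58271 0 0) (P.cons (P.lf 0 22533 0) P.nil)) (P.cons (P.cons (P.lf 0 5856 0) P.nil) P.nil)))))) 5465)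
 (EL.cons 8 (TM.mk (P.cons (P.cons (P.lf 0 31911633 0) (P.cons (P.lf 25324122 0 0) (P.cons (P.lf 1693111 0 0) (P.lf 0 564370 0)))) (P.cons (P.cons (P.lf 36718669 0 0) (P.cons (P.lf 0 24835123 0) (P.cons (P.lf 0 1660418 0) (P.lf 553472 0 0)))) (P.cons (P.cons (P.lf 0 4346659 0) (P.cons (P.lf 0 728719 0) (P.cons (P.lf 0 48720 0) (P.lf 16239 0 0)))) (P.cons (P.cons (P.lf 0 523024 0) (P.cons (P.lf 234974 0 0) (P.cons (P.lf 15709 0 0) P.nil))) (P.cons (P.cons (P.lf 59677 0 0) (P.cons (P.lf 5891 0 0) P.nil)) (P.cons (P.cons (P.lf 3281 0 0) P.nil) P.nil)))))) 7781)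
 EL.nil))
noncomputable def S241_256_364_512_17 : EL := (EL.cons 4 (TM.mk (P.cons (P.cons (P.lf 0 892962 0) (P.cons (P.lf 1417256 0 0) (P.cons (P.lf 0 467591 0) (P.cons (P.lf 0 106778 0) (P.cons (P.lf 22550 0 0) (P.cons (P.lf 1675 0 0) P.nil)))))) (P.cons (P.cons (P.lf 2062613 0 0) (P.cons (P.lf 0 3032801 0) (P.cons (P.lf 905036 0 0) (P.cons (P.lf 215718 0 0) (P.cons (P.lf 0 44424 0) P.nil))))) (P.cons (P.cons (P.lf 0 1447011 0) (P.cons (P.lf 1783578 0 0) (P.cons (P.lf 0 401129 0) (P.cons (P.lf 0 109330 0) P.nil)))) (P.cons (P.cons (P.lf 271794 0 0) (P.cons (P.lf 0 134171 0) (P.cons (P.lf 0 41985 0) P.nil))) (P.cons (P.cons (P.lf 12046 0 0) (P.cons (P.lf 0 37170 0) P.nil)) (P.cons (P.cons (P.lf 0 6664 0) P.nil) P.nil)))))) 54495)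
 (EL.cons 8 (TM.mk (P.cons (P.cons (P.lf 0 8119223 0) (P.cons (P.lf 12886348 0 0) (P.cons (P.lf 0 4251559 0) (P.cons (P.lf 0 970884 0) (P.cons (P.lf 205045 0 0) (P.cons (P.lf 15236 0 0) P.nil)))))) (P.cons (P.cons (P.lf 10617563 0 0) (P.cons (P.lf 0 14661588 0) (P.cons (P.lf 3968309 0 0) (P.cons (P.lf 988443 0 0) (P.cons (P.lf 0 198445 0) P.nil))))) (P.cons (P.cons (P.lf 0 2490322 0) (P.cons (P.lf 1482455 0 0) (P.cons (P.lf 343296 0 0) (P.cons (P.lf 0 386 0) P.nil)))) (P.cons (P.cons (P.lf 0 67441 0) (P.cons (P.lf 326960 0 0) (P.cons (P.lf 0 55130 0) P.nil))) (P.cons (P.cons (P.lf 61536 0 0) (P.cons (P.lf 0 31050 0) P.nil)) (P.cons (P.cons (P.lf 0 1482 0) P.nil) P.nil)))))) 67402)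
 EL.nil))
noncomputable def S241_256_364_512_18 : EL := (EL.cons 4 (TM.mk (P.cons (P.lf 807398 0 0) (P.cons (P.lf 0 2417003 0) (P.cons (P.lf 2404045 0 0) (P.cons (P.lf 0 784123 0) (P.cons (P.lf 0 12840 0) (P.cons (P.lf 2490 0 0) P.nil)))))) 58)
 (EL.cons 8 (TM.mk (P.cons (P.lf 7341235 0 0) (P.cons (P.lf 0 14619494 0) (P.cons (P.lf 7184097 0 0) (P.cons (P.lf 125042 0 0) (P.cons (P.lf 0 30504 0) (P.cons (P.lf 0 449 0) P.nil)))))) 91)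
 EL.nil))
noncomputable def S241_256_364_512_19 : EL := (EL.cons 4 (TM.mk (P.cons (P.cons (P.lf 205425 0 0) (P.cons (P.lf 0 163019 0) (P.cons (P.lf 0 10898 0) (P.lf 3632 0 0)))) (P.cons (P.cons (P.lf 0 647220 0) (P.cons (P.lf 485910 0 0) (P.cons (P.lf 32486 0 0) (P.lf 0 10828 0)))) (P.cons (P.cons (P.lf 706148 0 0) (P.cons (P.lf 0 478073 0) (P.cons (P.lf 0 31962 0) (P.lf 10653 0 0)))) (P.cons (P.cons (P.lf 0 288972 0) (P.cons (P.lf 148982 0 0) (P.cons (P.lf 9960 0 0) P.nil))) (P.cons (P.cons (P.lf 20872 0 0) (P.cons (P.lf 7671 0 0) P.nil)) (P.cons (P.cons (P.lf 4107 0 0) P.nil) P.nil)))))) 6779)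
 (EL.cons 8 (TM.mk (P.cons (P.cons (P.lf 1867818 0 0) (P.cons (P.lf 0 1482244 0) (P.cons (P.lf 0 99099 0) (P.lf 33033 0 0)))) (P.cons (P.cons (P.lf 0 4012993 0) (P.cons (P.lf 2932691 0 0) (P.cons (P.lf 196072 0 0) (P.lf 0 65357 0)))) (P.cons (P.cons (P.lf 2392989 0 0) (P.cons (P.lf 0 1403095 0) (P.cons (P.lf 0 93807 0) (P.lf 31268 0 0)))) (P.cons (P.cons (P.lf 0 214370 0) (P.cons (P.lf 0 62556 0) (P.cons (P.lf 0 4182 0) P.nil))) (P.cons (P.cons (P.lf 0 37129 0) (P.cons (P.lf 14777 0 0) P.nil)) (P.cons (P.cons (P.lf 3450 0 0) P.nil) P.nil)))))) 3812)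
 EL.nil))
noncomputable def S241_256_364_512_20 : EL := (EL.cons 4 (TM.mk (P.cons (P.cons (P.lf 52265 0 0) (P.cons (P.lf 0 82952 0) (P.cons (P.lf 27368 0 0) (P.cons (P.lf 6249 0 0) (P.cons (P.lf 0 1319 0) (P.cons (P.lf 0 97 0) P.nil)))))) (P.cons (P.cons (P.lf 0 172880 0) (P.cons (P.lf 260287 0 0) (P.cons (P.lf 0 80281 0) (P.cons (P.lf 0 18862 0) (P.cons (P.lf 3916 0 0) P.nil))))) (P.cons (P.cons (P.lf 204994 0 0) (P.cons (P.lf 0 281260 0) (P.cons (P.lf 76249 0 0) (P.cons (P.lf 18977 0 0) P.nil)))) (P.cons (P.cons (P.lf 0 99977 0) (P.cons (P.lf 111365 0 0) (P.cons (P.lf 0 20771 0) P.nil))) (P.cons (P.cons (P.lf 14768 0 0) (P.cons (P.lf 0 5136 0) P.nil)) (P.cons (P.cons (P.lf 1233 0 0) P.nil) P.nil)))))) 20950)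
 (EL.cons 8 (TM.mk (P.cons (P.cons (P.lf 475225 0 0) (P.cons (P.lf 0 754249 0) (P.cons (P.lf 248847 0 0) (P.cons (P.lf 56826 0 0) (P.cons (P.lf 0 12001 0) (P.cons (P.lf 0 891 0) P.nil)))))) (P.cons (P.cons (P.lf 0 1095663 0) (P.cons (P.lf 1610790 0 0) (P.cons (P.lf 0 480583 0) (P.cons (P.lf 0 114559 0) (P.cons (P.lf 23590 0 0) P.nil))))) (P.cons (P.cons (P.lf 764359 0 0) (P.cons (P.lf 0 940664 0) (P.cons (P.lf 210878 0 0) (P.cons (P.lf 57570 0 0) P.nil)))) (P.cons (P.cons (P.lf 0 139000 0) (P.cons (P.lf 63889 0 0) (P.cons (P.lf 24286 0 0) P.nil))) (P.cons (P.cons (P.lf 0 8666 0) (P.cons (P.lf 22099 0 0) P.nil)) (P.cons (P.cons (P.lf 3818 0 0) P.nil) P.nil)))))) 30948)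
 EL.nil))
noncomputable def S241_256_364_512_21 : EL := (EL.cons 4 (TM.mk (P.cons (P.cons (P.lf 2194647423 0 0) (P.cons (P.lf 142754175 0 0) (P.cons (P.lf 9544209 0 0) (P.lf 0 3181401 0)))) (P.cons (P.cons (P.lf 290347080 0 0) (P.cons (P.lf 0 140610285 0) (P.cons (P.lf 0 9400872 0) (P.lf 3133620 0 0)))) (P.cons (P.cons (P.lf 0 66718629 0) (P.cons (P.lf 0 3199413 0) (P.cons (P.lf 0 213903 0) (P.lf 71298 0 0)))) (P.cons (P.cons (P.lf 0 2748561 0) (P.cons (P.lf 1039185 0 0) (P.cons (P.lf 69477 0 0) P.nil))) (P.cons (P.cons (P.lf 380772 0 0) (P.cons (P.lf 20301 0 0) P.nil)) (P.cons (P.cons (P.lf 12258 0 0) P.nil) P.nil)))))) 32100)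
 (EL.cons 8 (TM.mk (P.cons (P.cons (P.lf 0 85820478 0) (P.cons (P.lf 0 5582328 0) (P.cons (P.lf 0 373224 0) (P.lf 124413 0 0)))) (P.cons (P.cons (P.lf 74650977 0 0) (P.cons (P.lf 11092797 0 0) (P.cons (P.lf 741636 0 0) (P.lf 0 247209 0)))) (P.cons (P.cons (P.lf 13710321 0 0) (P.cons (P.lf 0 5403195 0) (P.cons (P.lf 0 361245 0) (P.lf 120414 0 0)))) (P.cons (P.cons (P.lf 0 2450784 0) (P.cons (P.lf 0 142221 0) (P.cons (P.lf 0 9504 0) P.nil))) (P.cons (P.cons (P.lf 0 102375 0) (P.cons (P.lf 34338 0 0) P.nil)) (P.cons (P.cons (P.lf 11991 0 0) P.nil) P.nil)))))) 13305)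
 (EL.cons 11 (TM.mk (P.cons (P.cons (P.lf 2975027220 0 0) (P.cons (P.lf 460608921 0 0) (P.cons (P.lf 0 221906853 0) (P.cons (P.lf 0 8397606 0) (P.lf 2099400 0 0))))) (P.cons (P.cons (P.lf 25534887 0 0) (P.cons (P.lf 3953442 0 0) (P.cons (P.lf 0 1904643 0) (P.cons (P.lf 0 72075 0) (P.lf 18018 0 0))))) (P.cons (P.cons (P.lf 0 12657918 0) (P.cons (P.lf 0 1959762 0) (P.cons (P.lf 944151 0 0) (P.cons (P.lf 35727 0 0) P.nil)))) (P.cons (P.cons (P.lf 0 109170 0) (P.cons (P.lf 0 16902 0) (P.cons (P.lf 8142 0 0) P.nil))) (P.cons (P.cons (P.lf 26844 0 0) (P.cons (P.lf 4155 0 0) P.nil)) (P.cons (P.cons (P.lf 258 0 0) P.nil) P.nil)))))) 11826)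
 EL.nil)))
noncomputable def S241_256_364_512_22 : EL := (EL.cons 4 (TM.mk (P.cons (P.cons (P.lf 558380490 0 0) (P.cons (P.lf 0 406793427 0) (P.cons (P.lf 0 56020293 0) (P.cons (P.lf 5211669 0 0) (P.cons (P.lf 1155855 0 0) (P.cons (P.lf 85890 0 0) P.nil)))))) (P.cons (P.cons (P.lf 0 13832784 0) (P.cons (P.lf 0 105808125 0) (P.cons (P.lf 20944998 0 0) (P.cons (P.lf 6104604 0 0) (P.cons (P.lf 0 1123614 0) P.nil))))) (P.cons (P.cons (P.lf 0 34285737 0) (P.cons (P.lf 19965921 0 0) (P.cons (P.lf 2529522 0 0) (P.cons (P.lf 0 285213 0) P.nil)))) (P.cons (P.cons (P.lf 2077443 0 0) (P.cons (P.lf 1951674 0 0) (P.cons (P.lf 0 249045 0) P.nil))) (P.cons (P.cons (P.lf 517734 0 0) (P.cons (P.lf 0 241428 0) P.nil)) (P.cons (P.cons (P.lf 0 30744 0) P.nil) P.nil)))))) 367416)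
 (EL.cons 8 (TM.mk (P.cons (P.cons (P.lf 0 21835161 0) (P.cons (P.lf 15907431 0 0) (P.cons (P.lf 2190642 0 0) (P.cons (P.lf 0 203796 0) (P.cons (P.lf 0 45198 0) (P.cons (P.lf 0 3357 0) P.nil)))))) (P.cons (P.cons (P.lf 22422990 0 0) (P.cons (P.lf 0 11804037 0) (P.cons (P.lf 0 3014388 0) (P.cons (P.lf 0 34476 0) (P.cons (P.lf 89232 0 0) P.nil))))) (P.cons (P.cons (P.lf 728181 0 0) (P.cons (P.lf 0 4875879 0) (P.cons (P.lf 728952 0 0) (P.cons (P.lf 249723 0 0) P.nil)))) (P.cons (P.cons (P.lf 0 1399440 0) (P.cons (P.lf 702231 0 0) (P.cons (P.lf 103848 0 0) P.nil))) (P.cons (P.cons (P.lf 64779 0 0) (P.cons (P.lf 79011 0 0) P.nil)) (P.cons (P.cons (P.lf 19803 0 0) P.nil) P.nil)))))) 140970)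
 (EL.cons 11 (TM.mk (P.cons (P.cons (P.lf 756931224 0 0) (P.cons (P.lf 0 483486126 0) (P.cons (P.lf 0 189619380 0) (P.cons (P.lf 49836780 0 0) (P.cons (P.lf 7297791 0 0) (P.cons (P.lf 0 1309029 0) P.nil)))))) (P.cons (P.cons (P.lf 0 112395048 0) (P.cons (P.lf 0 30290739 0) (P.cons (P.lf 5526225 0 0) (P.cons (P.lf 1432485 0 0) (P.cons (P.lf 65814 0 0) P.nil))))) (P.cons (P.cons (P.lf 0 11977857 0) (P.cons (P.lf 4451850 0 0) (P.cons (P.lf 2291427 0 0) (P.cons (P.lf 0 511839 0) P.nil)))) (P.cons (P.cons (P.lf 1584978 0 0) (P.cons (P.lf 382638 0 0) (P.cons (P.lf 0 87798 0) P.nil))) (P.cons (P.cons (P.lf 85353 0 0) (P.cons (P.lf 0 19836 0) P.nil)) (P.cons (P.cons (P.lf 0 8868 0) P.nil) P.nil)))))) 254346)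
 EL.nil)))
noncomputable def S241_256_364_512_23 : EL := (EL.cons 4 (TM.mk (P.cons (P.cons (P.lf 0 128454804 0) (P.cons (P.lf 0 8355537 0) (P.cons (P.lf 0 558630 0) (P.lf 186210 0 0)))) (P.cons (P.cons (P.lf 111185172 0 0) (P.cons (P.lf 16567680 0 0) (P.cons (P.lf 1107675 0 0) (P.lf 0 369225 0)))) (P.cons (P.cons (P.lf 21275385 0 0) (P.cons (P.lf 0 7998321 0) (P.cons (P.lf 0 534747 0) (P.lf 178248 0 0)))) (P.cons (P.cons (P.lf 0 3817785 0) (P.cons (P.lf 0 282987 0) (P.cons (P.lf 0 18918 0) P.nil))) (P.cons (P.cons (P.lf 0 214146 0) (P.cons (P.lf 67599 0 0) P.nil)) (P.cons (P.cons (P.lf 25200 0 0) P.nil) P.nil)))))) 16476)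
 (EL.cons 8 (TM.mk (P.cons (P.cons (P.lf 5023152 0 0) (P.cons (P.lf 326736 0 0) (P.cons (P.lf 21843 0 0) (P.lf 0 7281 0)))) (P.cons (P.cons (P.lf 0 9381780 0) (P.cons (P.lf 0 975309 0) (P.cons (P.lf 0 65205 0) (P.lf 21735 0 0)))) (P.cons (P.cons (P.lf 3541419 0 0) (P.cons (P.lf 963084 0 0) (P.cons (P.lf 64389 0 0) (P.lf 0 21462 0)))) (P.cons (P.cons (P.lf 963570 0 0) (P.cons (P.lf 0 304818 0) (P.cons (P.lf 0 20379 0) P.nil))) (P.cons (P.cons (P.lf 0 139182 0) (P.cons (P.lf 0 12018 0) P.nil)) (P.cons (P.cons (P.lf 0 8022 0) P.nil) P.nil)))))) 12729)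
 (EL.cons 11 (TM.mk (P.cons (P.cons (P.lf 0 174131175 0) (P.cons (P.lf 0 26959878 0) (P.cons (P.lf 12988419 0 0) (P.cons (P.lf 491517 0 0) (P.lf 0 122877 0))))) (P.cons (P.cons (P.lf 172263351 0 0) (P.cons (P.lf 26670690 0 0) (P.cons (P.lf 0 12849096 0) (P.cons (P.lf 0 486246 0) (P.lf 121560 0 0))))) (P.cons (P.cons (P.lf 2791323 0 0) (P.cons (P.lf 432165 0 0) (P.cons (P.lf 0 208203 0) (P.cons (P.lf 0 7878 0) P.nil)))) (P.cons (P.cons (P.lf 0 913125 0) (P.cons (P.lf 0 141372 0) (P.cons (P.lf 68109 0 0) P.nil))) (P.cons (P.cons (P.lf 0 12906 0) (P.cons (P.lf 0 1998 0) P.nil)) (P.cons (P.cons (P.lf 2502 0 0) P.nil) P.nil)))))) 7056)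
 EL.nil)))
noncomputable def S241_256_364_512_24 : EL := (EL.cons 4 (TM.mk (P.cons (P.cons (P.lf 0 32682540 0) (P.cons (P.lf 23810004 0 0) (P.cons (P.lf 3278919 0 0) (P.cons (P.lf 0 305043 0) (P.cons (P.lf 0 67653 0) (P.cons (P.lf 0 5025 0) P.nil)))))) (P.cons (P.cons (P.lf 33422133 0 0) (P.cons (P.lf 0 17565918 0) (P.cons (P.lf 0 4497822 0) (P.cons (P.lf 0 52917 0) (P.cons (P.lf 133272 0 0) P.nil))))) (P.cons (P.cons (P.lf 1303794 0 0) (P.cons (P.lf 0 7424844 0) (P.cons (P.lf 1064718 0 0) (P.cons (P.lf 374214 0 0) P.nil)))) (P.cons (P.cons (P.lf 0 2161395 0) (P.cons (P.lf 1057299 0 0) (P.cons (P.lf 169734 0 0) P.nil))) (P.cons (P.cons (P.lf 85260 0 0) (P.cons (P.lf 138585 0 0) P.nil)) (P.cons (P.cons (P.lf 34599 0 0) P.nil) P.nil)))))) 224598)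
 (EL.cons 8 (TM.mk (P.cons (P.cons (P.lf 1278030 0 0) (P.cons (P.lf 0 931077 0) (P.cons (P.lf 0 128220 0) (P.cons (P.lf 11928 0 0) (P.cons (P.lf 2643 0 0) (P.cons (P.lf 195 0 0) P.nil)))))) (P.cons (P.cons (P.lf 0 2587731 0) (P.cons (P.lf 1619982 0 0) (P.cons (P.lf 304380 0 0) (P.cons (P.lf 0 9882 0) (P.cons (P.lf 0 7860 0) P.nil))))) (P.cons (P.cons (P.lf 1262901 0 0) (P.cons (P.lf 0 401040 0) (P.cons (P.lf 0 218310 0) (P.cons (P.lf 0 16668 0) P.nil)))) (P.cons (P.cons (P.lf 130011 0 0) (P.cons (P.lf 0 329088 0) (P.cons (P.lf 35793 0 0) P.nil))) (P.cons (P.cons (P.lf 0 86775 0) (P.cons (P.lf 36201 0 0) P.nil)) (P.cons (P.cons (P.lf 2307 0 0) P.nil) P.nil)))))) 51351)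
 (EL.cons 11 (TM.mk (P.cons (P.cons (P.lf 0 44303904 0) (P.cons (P.lf 28298901 0 0) (P.cons (P.lf 11098602 0 0) (P.cons (P.lf 0 2916993 0) (P.cons (P.lf 0 427146 0) (P.cons (P.lf 76617 0 0) P.nil)))))) (P.cons (P.cons (P.lf 50787528 0 0) (P.cons (P.lf 0 26465298 0) (P.cons (P.lf 0 11398266 0) (P.cons (P.lf 2826894 0 0) (P.cons (P.lf 422376 0 0) P.nil))))) (P.cons (P.cons (P.lf 0 5721168 0) (P.cons (P.lf 0 2120571 0) (P.cons (P.lf 153009 0 0) (P.cons (P.lf 122988 0 0) P.nil)))) (P.cons (P.cons (P.lf 0 860538 0) (P.cons (P.lf 261990 0 0) (P.cons (P.lf 151800 0 0) P.nil))) (P.cons (P.cons (P.lf 92061 0 0) (P.cons (P.lf 26391 0 0) P.nil)) (P.cons (P.cons (P.lf 6633 0 0) P.nil) P.nil)))))) 191955)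
 EL.nil)))
noncomputable def S241_256_364_512_25 : EL := (EL.cons 4 (TM.mk (P.cons (P.cons (P.lf 7518582 0 0) (P.cons (P.lf 489057 0 0) (P.cons (P.lf 32697 0 0) (P.lf 0 10899 0)))) (P.cons (P.cons (P.lf 0 14010240 0) (P.cons (P.lf 0 1457730 0) (P.cons (P.lf 0 97458 0) (P.lf 32484 0 0)))) (P.cons (P.cons (P.lf 5224416 0 0) (P.cons (P.lf 1434222 0 0) (P.cons (P.lf 95886 0 0) (P.lf 0 31962 0)))) (P.cons (P.cons (P.lf 1494939 0 0) (P.cons (P.lf 0 446949 0) (P.cons (P.lf 0 29880 0) P.nil))) (P.cons (P.cons (P.lf 0 213318 0) (P.cons (P.lf 0 23013 0) P.nil)) (P.cons (P.cons (P.lf 0 16065 0) P.nil) P.nil)))))) 20928)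
 (EL.cons 8 (TM.mk (P.cons (P.cons (P.lf 0 294009 0) (P.cons (P.lf 0 19122 0) (P.cons (P.lf 0 1278 0) (P.lf 426 0 0)))) (P.cons (P.cons (P.lf 842502 0 0) (P.cons (P.lf 76167 0 0) (P.cons (P.lf 5091 0 0) (P.lf 0 1695 0)))) (P.cons (P.cons (P.lf 0 754284 0) (P.cons (P.lf 0 113271 0) (P.cons (P.lf 0 7572 0) (P.lf 2523 0 0)))) (P.cons (P.cons (P.lf 148362 0 0) (P.cons (P.lf 73887 0 0) (P.cons (P.lf 4938 0 0) P.nil))) (P.cons (P.cons (P.lf 65670 0 0) (P.cons (P.lf 0 16857 0) P.nil)) (P.cons (P.cons (P.lf 0 7695 0) P.nil) P.nil)))))) 5478)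
 (EL.cons 11 (TM.mk (P.cons (P.cons (P.lf 10192062 0 0) (P.cons (P.lf 1577985 0 0) (P.cons (P.lf 0 760224 0) (P.cons (P.lf 0 28767 0) (P.lf 7191 0 0))))) (P.cons (P.cons (P.lf 0 20252955 0) (P.cons (P.lf 0 3135666 0) (P.cons (P.lf 1510665 0 0) (P.cons (P.lf 57168 0 0) (P.lf 0 14289 0))))) (P.cons (P.cons (P.lf 9865023 0 0) (P.cons (P.lf 1527351 0 0) (P.cons (P.lf 0 735828 0) (P.cons (P.lf 0 27846 0) P.nil)))) (P.cons (P.cons (P.lf 259674 0 0) (P.cons (P.lf 40203 0 0) (P.cons (P.lf 0 19368 0) P.nil))) (P.cons (P.cons (P.lf 0 62706 0) (P.cons (P.lf 0 9708 0) P.nil)) (P.cons (P.cons (P.lf 0 1314 0) P.nil) P.nil)))))) 13998)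
 EL.nil)))
noncomputable def S241_256_364_512_26 : EL := (EL.cons 4 (TM.mk (P.cons (P.cons (P.lf 1912938 0 0) (P.cons (P.lf 0 1393620 0) (P.cons (P.lf 0 191916 0) (P.cons (P.lf 17853 0 0) (P.cons (P.lf 3957 0 0) (P.cons (P.lf 294 0 0) P.nil)))))) (P.cons (P.cons (P.lf 0 3865068 0) (P.cons (P.lf 2418783 0 0) (P.cons (P.lf 454767 0 0) (P.cons (P.lf 0 14718 0) (P.cons (P.lf 0 11751 0) P.nil))))) (P.cons (P.cons (P.lf 1869579 0 0) (P.cons (P.lf 0 586887 0) (P.cons (P.lf 0 324399 0) (P.cons (P.lf 0 25050 0) P.nil)))) (P.cons (P.cons (P.lf 210969 0 0) (P.cons (P.lf 0 500316 0) (P.cons (P.lf 51201 0 0) P.nil))) (P.cons (P.cons (P.lf 0 133047 0) (P.cons (P.lf 53328 0 0) P.nil)) (P.cons (P.cons (P.lf 2451 0 0) P.nil) P.nil)))))) 80631)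
 (EL.cons 8 (TM.mk (P.cons (P.cons (P.lf 0 74802 0) (P.cons (P.lf 54495 0 0) (P.cons (P.lf 7503 0 0) (P.cons (P.lf 0 696 0) (P.cons (P.lf 0 153 0) (P.cons (P.lf 0 9 0) P.nil)))))) (P.cons (P.cons (P.lf 226104 0 0) (P.cons (P.lf 0 149199 0) (P.cons (P.lf 0 25302 0) (P.cons (P.lf 1275 0 0) (P.cons (P.lf 612 0 0) P.nil))))) (P.cons (P.cons (P.lf 0 224814 0) (P.cons (P.lf 117912 0 0) (P.cons (P.lf 30531 0 0) (P.cons (P.lf 399 0 0) P.nil)))) (P.cons (P.cons (P.lf 65583 0 0) (P.cons (P.lf 0 3798 0) (P.cons (P.lf 0 14778 0) P.nil))) (P.cons (P.cons (P.lf 13068 0 0) (P.cons (P.lf 0 21513 0) P.nil)) (P.cons (P.cons (P.lf 0 5256 0) P.nil) P.nil)))))) 18690)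
 (EL.cons 11 (TM.mk (P.cons (P.cons (P.lf 2593149 0 0) (P.cons (P.lf 0 1656360 0) (P.cons (P.lf 0 649611 0) (P.cons (P.lf 170733 0 0) (P.cons (P.lf 24999 0 0) (P.cons (P.lf 0 4482 0) P.nil)))))) (P.cons (P.cons (P.lf 0 5560233 0) (P.cons (P.lf 3201849 0 0) (P.cons (P.lf 1315368 0 0) (P.cons (P.lf 0 335829 0) (P.cons (P.lf 0 49668 0) P.nil))))) (P.cons (P.cons (P.lf 3292809 0 0) (P.cons (P.lf 0 1416279 0) (P.cons (P.lf 0 672591 0) (P.cons (P.lf 157356 0 0) P.nil)))) (P.cons (P.cons (P.lf 0 271479 0) (P.cons (P.lf 0 145920 0) (P.cons (P.lf 0 2778 0) P.nil))) (P.cons (P.cons (P.lf 0 59865 0) (P.cons (P.lf 14994 0 0) P.nil)) (P.cons (P.cons (P.lf 5160 0 0) P.nil) P.nil)))))) 73197)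
 EL.nil)))
noncomputable def S241_256_364_512_27 : EL := (EL.cons 13 (TM.mk (P.lf 0 4294967296 0) 0)
 EL.nil)
noncomputable def S241_256_364_512_28 : EL := (EL.cons 13 (TM.mk (P.cons (P.cons (P.lf 0 1092761383 0) (P.cons (P.lf 867182904 0 0) (P.cons (P.lf 57977828 0 0) (P.lf 0 19325940 0)))) (P.cons (P.cons (P.lf 171640983 0 0) (P.cons (P.lf 11164644 0 0) (P.cons (P.lf 746440 0 0) (P.lf 0 248812 0)))) (P.cons (P.cons (P.lf 11169508 0 0) (P.cons (P.lf 0 5510476 0) (P.cons (P.lf 0 368416 0) (P.lf 122804 0 0)))) (P.cons (P.cons (P.lf 0 1693875 0) (P.cons (P.lf 0 71516 0) (P.cons (P.lf 0 4780 0) P.nil))) (P.cons (P.cons (P.lf 0 45005 0) (P.cons (P.lf 17468 0 0) P.nil)) (P.cons (P.cons (P.lf 4939 0 0) P.nil) P.nil)))))) 3980)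
 EL.nil)
noncomputable def S241_256_364_512_29 : EL := (EL.cons 13 (TM.mk (P.cons (P.cons (P.lf 0 278029460 0) (P.cons (P.lf 441271806 0 0) (P.cons (P.lf 0 145587680 0) (P.cons (P.lf 0 33246363 0) (P.cons (P.lf 7021432 0 0) (P.cons (P.lf 521762 0 0) P.nil)))))) (P.cons (P.cons (P.lf 87340659 0 0) (P.cons (P.lf 0 63629743 0) (P.cons (P.lf 0 8762571 0) (P.cons (P.lf 815200 0 0) (P.cons (P.lf 180795 0 0) P.nil))))) (P.cons (P.cons (P.lf 0 1175658 0) (P.cons (P.lf 0 8206792 0) (P.cons (P.lf 1647496 0 0) (P.cons (P.lf 476557 0 0) P.nil)))) (P.cons (P.cons (P.lf 0 1754679 0) (P.cons (P.lf 1029981 0 0) (P.cons (P.lf 126390 0 0) P.nil))) (P.cons (P.cons (P.lf 83437 0 0) (P.cons (P.lf 70245 0 0) P.nil)) (P.cons (P.cons (P.lf 14920 0 0) P.nil) P.nil)))))) 294418)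
 EL.nil)
noncomputable def S241_256_364_512_30 : EL := (EL.cons 13 (TM.mk (P.cons (P.lf 251388528 0 0) (P.cons (P.lf 0 250849684 0) (P.cons (P.lf 0 807108 0) (P.cons (P.lf 267112 0 0) (P.cons (P.lf 1436 0 0) (P.cons (P.lf 0 280 0) P.nil)))))) 32)
 EL.nil)
noncomputable def S241_256_364_512_31 : EL := (EL.cons 13 (TM.mk (P.cons (P.cons (P.lf 63960364 0 0) (P.cons (P.lf 0 50757041 0) (P.cons (P.lf 0 3393497 0) (P.lf 1131165 0 0)))) (P.cons (P.cons (P.lf 0 73869577 0) (P.cons (P.lf 49994768 0 0) (P.cons (P.lf 3342533 0 0) (P.lf 0 1114177 0)))) (P.cons (P.cons (P.lf 9165663 0 0) (P.cons (P.lf 1137570 0 0) (P.cons (P.lf 76055 0 0) (P.lf 0 25351 0)))) (P.cons (P.cons (P.lf 851720 0 0) (P.cons (P.lf 0 369489 0) (P.cons (P.lf 0 24703 0) P.nil))) (P.cons (P.cons (P.lf 0 104507 0) (P.cons (P.lf 0 7219 0) P.nil)) (P.cons (P.cons (P.lf 0 4059 0) P.nil) P.nil)))))) 11290)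
 EL.nil)
noncomputable def S241_256_364_512_32 : EL := (EL.cons 13 (TM.mk (P.cons (P.cons (P.lf 16273329 0 0) (P.cons (P.lf 0 25828059 0) (P.cons (P.lf 8521385 0 0) (P.cons (P.lf 1945941 0 0) (P.cons (P.lf 0 410971 0) (P.cons (P.lf 0 30539 0) P.nil)))))) (P.cons (P.cons (P.lf 0 21350579 0) (P.cons (P.lf 29497007 0 0) (P.cons (P.lf 0 7990238 0) (P.cons (P.lf 0 1989484 0) (P.cons (P.lf 399508 0 0) P.nil))))) (P.cons (P.cons (P.lf 5117739 0 0) (P.cons (P.lf 0 3153051 0) (P.cons (P.lf 0 635570 0) (P.cons (P.lf 13471 0 0) P.nil)))) (P.cons (P.cons (P.lf 67742 0 0) (P.cons (P.lf 0 579008 0) (P.cons (P.lf 96232 0 0) P.nil))) (P.cons (P.cons (P.lf 0 112926 0) (P.cons (P.lf 58312 0 0) P.nil)) (P.cons (P.cons (P.lf 3695 0 0) P.nil) P.nil)))))) 122129)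
 EL.nil)
noncomputable def S241_256_364_512_33 : EL := (EL.cons 14 (TM.mk (P.lf 8589934592 0 0) 0)
 EL.nil)
noncomputable def S241_256_364_512_34 : EL := (EL.cons 14 (TM.mk (P.cons (P.cons (P.lf 2185522766 0 0) (P.cons (P.lf 0 1734365808 0) (P.cons (P.lf 0 115955656 0) (P.lf 38651880 0 0)))) (P.cons (P.cons (P.lf 0 343281966 0) (P.cons (P.lf 0 22329288 0) (P.cons (P.lf 0 1492880 0) (P.lf 497624 0 0)))) (P.cons (P.cons (P.lf 0 22339016 0) (P.cons (P.lf 11020952 0 0) (P.cons (P.lf 736832 0 0) (P.lf 0 245608 0)))) (P.cons (P.cons (P.lf 3387750 0 0) (P.cons (P.lf 143032 0 0) (P.cons (P.lf 9560 0 0) P.nil))) (P.cons (P.cons (P.lf 90010 0 0) (P.cons (P.lf 0 34936 0) P.nil)) (P.cons (P.cons (P.lf 0 9878 0) P.nil) P.nil)))))) 7960)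
 EL.nil)
noncomputable def S241_256_364_512_35 : EL := (EL.cons 14 (TM.mk (P.cons (P.cons (P.lf 556058920 0 0) (P.cons (P.lf 0 882543612 0) (P.cons (P.lf 291175360 0 0) (P.cons (P.lf 66492726 0 0) (P.cons (P.lf 0 14042864 0) (P.cons (P.lf 0 1043524 0) P.nil)))))) (P.cons (P.cons (P.lf 0 174681318 0) (P.cons (P.lf 127259486 0 0) (P.cons (P.lf 17525142 0 0) (P.cons (P.lf 0 1630400 0) (P.cons (P.lf 0 361590 0) P.nil))))) (P.cons (P.cons (P.lf 2351316 0 0) (P.cons (P.lf 16413584 0 0) (P.cons (P.lf 0 3294992 0) (P.cons (P.lf 0 953114 0) P.nil)))) (P.cons (P.cons (P.lf 3509358 0 0) (P.cons (P.lf 0 2059962 0) (P.cons (P.lf 0 252780 0) P.nil))) (P.cons (P.cons (P.lf 0 166874 0) (P.cons (P.lf 0 140490 0) P.nil)) (P.cons (P.cons (P.lf 0 29840 0) P.nil) P.nil)))))) 588836)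
 EL.nil)
noncomputable def S241_256_364_512_36 : EL := (EL.cons 14 (TM.mk (P.cons (P.lf 0 502777056 0) (P.cons (P.lf 501699368 0 0) (P.cons (P.lf 1614216 0 0) (P.cons (P.lf 0 534224 0) (P.cons (P.lf 0 2872 0) (P.cons (P.lf 560 0 0) P.nil)))))) 64)
 EL.nil)
noncomputable def S241_256_364_512_37 : EL := (EL.cons 14 (TM.mk (P.cons (P.cons (P.lf 0 127920728 0) (P.cons (P.lf 101514082 0 0) (P.cons (P.lf 6786994 0 0) (P.lf 0 2262330 0)))) (P.cons (P.cons (P.lf 147739154 0 0) (P.cons (P.lf 0 99989536 0) (P.cons (P.lf 0 6685066 0) (P.lf 2228354 0 0)))) (P.cons (P.cons (P.lf 0 18331326 0) (P.cons (P.lf 0 2275140 0) (P.cons (P.lf 0 152110 0) (P.lf 50702 0 0)))) (P.cons (P.cons (P.lf 0 1703440 0) (P.cons (P.lf 738978 0 0) (P.cons (P.lf 49406 0 0) P.nil))) (P.cons (P.cons (P.lf 209014 0 0) (P.cons (P.lf 14438 0 0) P.nil)) (P.cons (P.cons (P.lf 8118 0 0) P.nil) P.nil))))))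 22580)
 EL.nil)
noncomputable def S241_256_364_512_38 : EL := (EL.cons 14 (TM.mk (P.cons (P.cons (P.lf 0 32546658 0) (P.cons (P.lf 51656118 0 0) (P.cons (P.lf 0 17042770 0) (P.cons (P.lf 0 3891882 0) (P.cons (P.lf 821942 0 0) (P.cons (P.lf 61078 0 0) P.nil)))))) (P.cons (P.cons (P.lf 42701158 0 0) (P.cons (P.lf 0 58994014 0) (P.cons (P.lf 15980476 0 0) (P.cons (P.lf 3978968 0 0) (P.cons (P.lf 0 799016 0) P.nil))))) (P.cons (P.cons (P.lf 0 10235478 0) (P.cons (P.lf 6306102 0 0) (P.cons (P.lf 1271140 0 0) (P.cons (P.lf 0 26942 0) P.nil)))) (P.cons (P.cons (P.lf 0 135484 0) (P.cons (P.lf 1158016 0 0) (P.cons (P.lf 0 192464 0) P.nil))) (P.cons (P.cons (P.lf 225852 0 0) (P.cons (P.lf 0 116624 0) P.nil)) (P.cons (P.cons (P.lf 0 7390 0) P.nil) P.nil)))))) 244258)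
 EL.nil)
noncomputable def S241_256_364_512_39 : EL := (EL.cons 14 (TM.mk (P.cons (P.lf 29428020 0 0) (P.cons (P.lf 0 58729884 0) (P.cons (P.lf 29113034 0 0) (P.cons (P.lf 251094 0 0) (P.cons (P.lf 0 61762 0) (P.cons (P.lf 0 600 0) P.nil)))))) 128)
 EL.nil)
noncomputable def S241_256_364_512_40 : EL := (EL.cons 14 (TM.mk (P.cons (P.cons (P.lf 7487322 0 0) (P.cons (P.lf 0 5941714 0) (P.cons (P.lf 0 397248 0) (P.lf 132416 0 0)))) (P.cons (P.cons (P.lf 0 16118586 0) (P.cons (P.lf 11781462 0 0) (P.cons (P.lf 787680 0 0) (P.lf 0 262560 0)))) (P.cons (P.cons (P.lf 9677688 0 0) (P.cons (P.lf 0 5687694 0) (P.cons (P.lf 0 380266 0) (P.lf 126754 0 0)))) (P.cons (P.cons (P.lf 0 935226 0) (P.cons (P.lf 0 201236 0) (P.cons (P.lf 0 13454 0) P.nil))) (P.cons (P.cons (P.lf 0 124312 0) (P.cons (P.lf 48072 0 0) P.nil)) (P.cons (P.cons (P.lf 12494 0 0) P.nil) P.nil)))))) 11620)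
 EL.nil)
noncomputable def S241_256_364_512_41 : EL := (EL.cons 14 (TM.mk (P.cons (P.cons (P.lf 1904986 0 0) (P.cons (P.lf 0 3023480 0) (P.cons (P.lf 997528 0 0) (P.cons (P.lf 227794 0 0) (P.cons (P.lf 0 48108 0) (P.cons (P.lf 0 3574 0) P.nil)))))) (P.cons (P.cons (P.lf 0 4400242 0) (P.cons (P.lf 6469976 0 0) (P.cons (P.lf 0 1930744 0) (P.cons (P.lf 0 460200 0) (P.cons (P.lf 94772 0 0) P.nil))))) (P.cons (P.cons (P.lf 3086958 0 0) (P.cons (P.lf 0 3804968 0) (P.cons (P.lf 855742 0 0) (P.cons (P.lf 233238 0 0) P.nil)))) (P.cons (P.cons (P.lf 0 579828 0) (P.cons (P.lf 286232 0 0) (P.cons (P.lf 89568 0 0) P.nil))) (P.cons (P.cons (P.lf 0 25700 0) (P.cons (P.lf 79296 0 0) P.nil)) (P.cons (P.cons (P.lf 14218 0 0) P.nil) P.nil)))))) 116210)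
 EL.nil)
noncomputable def S241_256_364_512_42 : EL := (EL.cons 14 (TM.mk (P.cons (P.lf 0 1722450 0) (P.cons (P.lf 5156274 0 0) (P.cons (P.lf 0 5128630 0) (P.cons (P.lf 1672796 0 0) (P.cons (P.lf 27392 0 0) (P.cons (P.lf 0 5312 0) P.nil)))))) 110)
 EL.nil)
noncomputable def S241_256_364_512_43 : EL := (EL.cons 14 (TM.mk (P.cons (P.cons (P.lf 0 438240 0) (P.cons (P.lf 347774 0 0) (P.cons (P.lf 23250 0 0) (P.lf 0 7750 0)))) (P.cons (P.cons (P.lf 1380736 0 0) (P.cons (P.lf 0 1036608 0) (P.cons (P.lf 0 69304 0) (P.lf 23100 0 0)))) (P.cons (P.cons (P.lf 0 1506450 0) (P.cons (P.lf 1019890 0 0) (P.cons (P.lf 68186 0 0) (P.lf 0 22728 0)))) (P.cons (P.cons (P.lf 616474 0 0) (P.cons (P.lf 0 317830 0) (P.cons (P.lf 0 21248 0) P.nil))) (P.cons (P.cons (P.lf 0 44528 0) (P.cons (P.lf 0 16366 0) P.nil)) (P.cons (P.cons (P.lf 0 8762 0) P.nil) P.nil)))))) 14422)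
 EL.nil)
noncomputable def S241_256_364_512_44 : EL := (EL.cons 14 (TM.mk (P.cons (P.cons (P.lf 0 111500 0) (P.cons (P.lf 176966 0 0) (P.cons (P.lf 0 58386 0) (P.cons (P.lf 0 13332 0) (P.cons (P.lf 2814 0 0) (P.cons (P.lf 208 0 0) P.nil)))))) (P.cons (P.cons (P.lf 368812 0 0) (P.cons (P.lf 0 555280 0) (P.cons (P.lf 171268 0 0) (P.cons (P.lf 40240 0 0) (P.cons (P.lf 0 8356 0) P.nil))))) (P.cons (P.cons (P.lf 0 437322 0) (P.cons (P.lf 600022 0 0) (P.cons (P.lf 0 162666 0) (P.cons (P.lf 0 40486 0) P.nil)))) (P.cons (P.cons (P.lf 213286 0 0) (P.cons (P.lf 0 237580 0) (P.cons (P.lf 44312 0 0) P.nil))) (P.cons (P.cons (P.lf 0 31506 0) (P.cons (P.lf 10958 0 0) P.nil)) (P.cons (P.cons (P.lf 0 2632 0) P.nil) P.nil)))))) 44648)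
 EL.nil)
noncomputable def S241_256_364_512_45 : EL := (EL.cons 14 (TM.mk (P.cons (P.cons (P.lf 141477144 0 0) (P.cons (P.lf 0 336816154 0) (P.cons (P.lf 244768530 0 0) (P.cons (P.lf 0 27457086 0) (P.cons (P.lf 0 24899968 0) (P.cons (P.lf 2982454 0 0) P.nil)))))) (P.cons (P.cons (P.lf 0 66665814 0) (P.cons (P.lf 101471634 0 0) (P.cons (P.lf 0 28316446 0) (P.cons (P.lf 0 9685726 0) (P.cons (P.lf 859864 0 0) P.nil))))) (P.cons (P.cons (P.lf 6132990 0 0) (P.cons (P.lf 2078280 0 0) (P.cons (P.lf 0 7026748 0) (P.cons (P.lf 308214 0 0) P.nil)))) (P.cons (P.cons (P.lf 1472492 0 0) (P.cons (P.lf 0 2788600 0) (P.cons (P.lf 596310 0 0) P.nil))) (P.cons (P.cons (P.lf 0 251882 0) (P.cons (P.lf 67250 0 0) P.nil)) (P.cons (P.cons (P.lf 0 11592 0) P.nil) P.nil)))))) 2392424)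
 EL.nil)
noncomputable def S241_256_364_512_46 : EL := (EL.cons 15 (TM.mk (P.lf 4294967296 0 0) 0)
 EL.nil)
noncomputable def S241_256_364_512_47 : EL := (EL.cons 15 (TM.mk (P.cons (P.cons (P.lf 1092761383 0 0) (P.cons (P.lf 0 867182904 0) (P.cons (P.lf 0 57977828 0) (P.lf 19325940 0 0)))) (P.cons (P.cons (P.lf 0 171640983 0) (P.cons (P.lf 0 11164644 0) (P.cons (P.lf 0 746440 0) (P.lf 248812 0 0)))) (P.cons (P.cons (P.lf 0 11169508 0) (P.cons (P.lf 5510476 0 0) (P.cons (P.lf 368416 0 0) (P.lf 0 122804 0)))) (P.cons (P.cons (P.lf 1693875 0 0) (P.cons (P.lf 71516 0 0) (P.cons (P.lf 4780 0 0) P.nil))) (P.cons (P.cons (P.lf 45005 0 0) (P.cons (P.lf 0 17468 0) P.nil)) (P.cons (P.cons (P.lf 0 4939 0) P.nil) P.nil)))))) 3980)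
 EL.nil)
noncomputable def S241_256_364_512_48 : EL := (EL.cons 15 (TM.mk (P.cons (P.cons (P.lf 278029460 0 0) (P.cons (P.lf 0 441271806 0) (P.cons (P.lf 145587680 0 0) (P.cons (P.lf 33246363 0 0) (P.cons (P.lf 0 7021432 0) (P.cons (P.lf 0 521762 0) P.nil)))))) (P.cons (P.cons (P.lf 0 87340659 0) (P.cons (P.lf 63629743 0 0) (P.cons (P.lf 8762571 0 0) (P.cons (P.lf 0 815200 0) (P.cons (P.lf 0 180795 0) P.nil))))) (P.cons (P.cons (P.lf 1175658 0 0) (P.cons (P.lf 8206792 0 0) (P.cons (P.lf 0 1647496 0) (P.cons (P.lf 0 476557 0) P.nil)))) (P.cons (P.cons (P.lf 1754679 0 0) (P.cons (P.lf 0 1029981 0) (P.cons (P.lf 0 126390 0) P.nil))) (P.cons (P.cons (P.lf 0 83437 0) (P.cons (P.lf 0 70245 0) P.nil)) (P.cons (P.cons (P.lf 0 14920 0) P.nil) P.nil)))))) 294418)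
 EL.nil)
noncomputable def S241_256_364_512 : SL := (SL.cons S241_256_364_512_0 (SL.cons S241_256_364_512_1 (SL.cons S241_256_364_512_2 (SL.cons S241_256_364_512_3 (SL.cons S241_256_364_512_4 (SL.cons S241_256_364_512_5 (SL.cons S241_256_364_512_6 (SL.cons S241_256_364_512_7 (SL.cons S241_256_364_512_8 (SL.cons S241_256_364_512_9 (SL.cons S241_256_364_512_10 (SL.cons S241_256_364_512_11 (SL.cons S241_256_364_512_12 (SL.cons S241_256_364_512_13 (SL.cons S241_256_364_512_14 (SL.cons S241_256_364_512_15 (SL.cons S241_256_364_512_16 (SL.cons S241_256_364_512_17 (SL.cons S241_256_364_512_18 (SL.cons S241_256_364_512_19 (SL.cons S241_256_364_512_20 (SL.cons S241_256_364_512_21 (SL.cons S241_256_364_512_22 (SL.cons S241_256_364_512_23 (SL.cons S241_256_364_512_24 (SL.cons S241_256_364_512_25 (SL.cons S241_256_364_512_26 (SL.cons S241_256_364_512_27 (SL.cons S241_256_364_512_28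 (SL.cons S241_256_364_512_29 (SL.cons S241_256_364_512_30 (SL.cons S241_256_364_512_31 (SL.cons S241_256_364_512_32 (SL.cons S241_256_364_512_33 (SL.cons S241_256_364_512_34 (SL.cons S241_256_364_512_35 (SL.cons S241_256_364_512_36 (SL.cons S241_256_364_512_37 (SL.cons S241_256_364_512_38 (SL.cons S241_256_364_512_39 (SL.cons S241_256_364_512_40 (SL.cons S241_256_364_512_41 (SL.cons S241_256_364_512_42 (SL.cons S241_256_364_512_43 (SL.cons S241_256_364_512_44 (SL.cons S241_256_364_512_45 (SL.cons S241_256_364_512_46 (SL.cons S241_256_364_512_47 (SL.cons S241_256_364_512_48 SL.nil)))))))))))))))))))))))))))))))))))))))))))))))))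
noncomputable def S241_256_512_660_0 : EL := (EL.cons 0 (TM.mk (P.cons (P.lf 8429852393 0 0) (P.cons (P.lf 51618062 0 0) (P.cons (P.lf 0 25587627 0) (P.cons (P.lf 0 220688 0) (P.cons (P.lf 54283 0 0) (P.cons (P.lf 527 0 0) P.nil)))))) 119)
 (EL.cons 1 (TM.mk (P.cons (P.lf 0 235171578 0) (P.cons (P.lf 233658247 0 0) (P.cons (P.lf 2264585 0 0) (P.cons (P.lf 0 745863 0) (P.cons (P.lf 0 6716 0) (P.cons (P.lf 1310 0 0) P.nil)))))) 72)
 (EL.cons 5 (TM.mk (P.cons (P.lf 4304163554 0 0) (P.cons (P.lf 0 18353086 0) (P.cons (P.lf 9097822 0 0) (P.cons (P.lf 78466 0 0) (P.cons (P.lf 0 19296 0) (P.cons (P.lf 0 186 0) P.nil)))))) 147)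
 (EL.cons 9 (TM.mk (P.lf 6442450944 0 0) 2)
 EL.nil))))
noncomputable def S241_256_512_660_1 : EL := (EL.cons 0 (TM.mk (P.cons (P.cons (P.lf 0 1137438607 0) (P.cons (P.lf 0 1686377500 0) (P.cons (P.lf 112747273 0 0) (P.lf 37582419 0 0)))) (P.cons (P.cons (P.lf 0 664674516 0) (P.cons (P.lf 0 63399593 0) (P.cons (P.lf 4238741 0 0) (P.lf 1412911 0 0)))) (P.cons (P.cons (P.lf 0 5948396 0) (P.cons (P.lf 30844551 0 0) (P.cons (P.lf 0 2062187 0) (P.lf 0 687390 0)))) (P.cons (P.cons (P.lf 13087303 0 0) (P.cons (P.lf 848265 0 0) (P.cons (P.lf 0 56706 0) P.nil))) (P.cons (P.cons (P.lf 174459 0 0) (P.cons (P.lf 0 203389 0) P.nil)) (P.cons (P.cons (P.lf 0 78667 0) P.nil) P.nil)))))) 47466)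
 (EL.cons 1 (TM.mk (P.cons (P.cons (P.lf 1277783769 0 0) (P.cons (P.lf 118400505 0 0) (P.cons (P.lf 0 7915978 0) (P.lf 0 2638655 0)))) (P.cons (P.cons (P.lf 0 14092274 0) (P.cons (P.lf 0 115500287 0) (P.cons (P.lf 7722077 0 0) (P.lf 2574020 0 0)))) (P.cons (P.cons (P.lf 0 55498205 0) (P.cons (P.lf 0 4318761 0) (P.cons (P.lf 288739 0 0) (P.lf 96240 0 0)))) (P.cons (P.cons (P.lf 0 819674 0) (P.cons (P.lf 1387207 0 0) (P.cons (P.lf 0 92740 0) P.nil))) (P.cons (P.cons (P.lf 579990 0 0) (P.cons (P.lf 38881 0 0) P.nil)) (P.cons (P.cons (P.lf 8748 0 0) P.nil) P.nil)))))) 48911)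
 (EL.cons 5 (TM.mk (P.cons (P.cons (P.lf 0 817721316 0) (P.cons (P.lf 0 874610050 0) (P.cons (P.lf 58474390 0 0) (P.lf 19491468 0 0)))) (P.cons (P.cons (P.lf 0 95112688 0) (P.cons (P.lf 3562174 0 0) (P.cons (P.lf 0 238152 0) (P.lf 0 79380 0)))) (P.cons (P.cons (P.lf 2697522 0 0) (P.cons (P.lf 0 1599132 0) (P.cons (P.lf 106912 0 0) (P.lf 35636 0 0)))) (P.cons (P.cons (P.lf 0 1519675 0) (P.cons (P.lf 0 180020 0) (P.cons (P.lf 12028 0 0) P.nil))) (P.cons (P.cons (P.lf 0 47560 0) (P.cons (P.lf 42612 0 0) P.nil)) (P.cons (P.cons (P.lf 18713 0 0) P.nil) P.nil)))))) 27825)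
 (EL.cons 9 (TM.mk (P.cons (P.cons (P.lf 0 1078362288 0) (P.cons (P.lf 0 1300774356 0) (P.cons (P.lf 86966742 0 0) (P.lf 28988910 0 0)))) (P.cons (P.cons (P.lf 0 292448290 0) (P.cons (P.lf 0 16746966 0) (P.cons (P.lf 1119660 0 0) (P.lf 373218 0 0)))) (P.cons (P.cons (P.lf 514000 0 0) (P.cons (P.lf 8265714 0 0) (P.cons (P.lf 0 552624 0) (P.lf 0 184206 0)))) (P.cons (P.cons (P.lf 2764924 0 0) (P.cons (P.lf 107274 0 0) (P.cons (P.lf 0 7170 0) P.nil))) (P.cons (P.cons (P.lf 12763 0 0) (P.cons (P.lf 0 26202 0) P.nil)) (P.cons (P.cons (P.lf 0 8152 0) P.nil) P.nil)))))) 5989)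
 (EL.cons 2 (TM.mk (P.cons (P.cons (P.lf 163247976 0 0) (P.cons (P.lf 0 25274885 0) (P.cons (P.lf 0 12176642 0) (P.cons (P.lf 460797 0 0) (P.lf 115197 0 0))))) (P.cons (P.cons (P.lf 0 161496891 0) (P.cons (P.lf 25003771 0 0) (P.cons (P.lf 12046027 0 0) (P.cons (P.lf 0 455855 0) (P.lf 0 113962 0))))) (P.cons (P.cons (P.lf 0 2616865 0) (P.cons (P.lf 405154 0 0) (P.cons (P.lf 195190 0 0) (P.cons (P.lf 0 7385 0) P.nil)))) (P.cons (P.cons (P.lf 856054 0 0) (P.cons (P.lf 0 132536 0) (P.cons (P.lf 0 63852 0) P.nil))) (P.cons (P.cons (P.lf 12099 0 0) (P.cons (P.lf 0 1873 0) P.nil)) (P.cons (P.cons (P.lf 0 2345 0) P.nil) P.nil)))))) 6636)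
 (EL.cons 6 (TM.mk (P.cons (P.cons (P.lf 1484325171 0 0) (P.cons (P.lf 0 229810809 0) (P.cons (P.lf 0 110715600 0) (P.cons (P.lf 4189803 0 0) (P.lf 1047450 0 0))))) (P.cons (P.cons (P.lf 19110114 0 0) (P.cons (P.lf 0 2958723 0) (P.cons (P.lf 0 1425420 0) (P.cons (P.lf 53940 0 0) (P.lf 13482 0 0))))) (P.cons (P.cons (P.lf 0 9432084 0) (P.cons (P.lf 1460322 0 0) (P.cons (P.lf 703536 0 0) (P.cons (P.lf 0 26622 0) P.nil)))) (P.cons (P.cons (P.lf 0 122415 0) (P.cons (P.lf 18951 0 0) (P.cons (P.lf 9129 0 0) P.nil))) (P.cons (P.cons (P.lf 29904 0 0) (P.cons (P.lf 0 4629 0) P.nil)) (P.cons (P.cons (P.lf 408 0 0) P.nil) P.nil)))))) 9990)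
 EL.nil))))))
noncomputable def S241_256_512_660_2 : EL := (EL.cons 0 (TM.mk (P.cons (P.cons (P.lf 144595552 0 0) (P.cons (P.lf 454068390 0 0) (P.cons (P.lf 306969847 0 0) (P.cons (P.lf 0 55225229 0) (P.cons (P.lf 0 13527463 0) (P.cons (P.lf 1005233 0 0) P.nil)))))) (P.cons (P.cons (P.lf 196227372 0 0) (P.cons (P.lf 283295033 0 0) (P.cons (P.lf 4475439 0 0) (P.cons (P.lf 0 9444528 0) (P.cons (P.lf 0 939005 0) P.nil))))) (P.cons (P.cons (P.lf 44941226 0 0) (P.cons (P.lf 741272 0 0) (P.cons (P.lf 0 11203216 0) (P.cons (P.lf 1474886 0 0) P.nil)))) (P.cons (P.cons (P.lf 0 3361294 0) (P.cons (P.lf 0 8528008 0) (P.cons (P.lf 23584 0 0) P.nil))) (P.cons (P.cons (P.lf 0 1426877 0) (P.cons (P.lf 0 196577 0) P.nil)) (P.cons (P.cons (P.lf 2892 0 0) P.nil) P.nil)))))) 1496872)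
 (EL.cons 1 (TM.mk (P.cons (P.cons (P.lf 0 421171862 0) (P.cons (P.lf 0 539727321 0) (P.cons (P.lf 0 2139732 0) (P.cons (P.lf 17139522 0 0) (P.cons (P.lf 1532877 0 0) (P.cons (P.lf 0 113905 0) P.nil)))))) (P.cons (P.cons (P.lf 0 114262374 0) (P.cons (P.lf 15686070 0 0) (P.cons (P.lf 35697748 0 0) (P.cons (P.lf 0 5263142 0) (P.cons (P.lf 0 1473598 0) P.nil))))) (P.cons (P.cons (P.lf 16926398 0 0) (P.cons (P.lf 33021100 0 0) (P.cons (P.lf 0 17285 0) (P.cons (P.lf 0 1028782 0) P.nil)))) (P.cons (P.cons (P.lf 5883244 0 0) (P.cons (P.lf 626927 0 0) (P.cons (P.lf 0 727699 0) P.nil))) (P.cons (P.cons (P.lf 0 102765 0) (P.cons (P.lf 0 537833 0) P.nil)) (P.cons (P.cons (P.lf 0 95377 0) P.nil) P.nil)))))) 547237)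
 (EL.cons 5 (TM.mk (P.cons (P.cons (P.lf 153155407 0 0) (P.cons (P.lf 332071683 0 0) (P.cons (P.lf 155512840 0 0) (P.cons (P.lf 0 31163649 0) (P.cons (P.lf 0 7126660 0) (P.cons (P.lf 529577 0 0) P.nil)))))) (P.cons (P.cons (P.lf 41186160 0 0) (P.cons (P.lf 39467258 0 0) (P.cons (P.lf 0 3299988 0) (P.cons (P.lf 0 791141 0) (P.cons (P.lf 26503 0 0) P.nil))))) (P.cons (P.cons (P.lf 0 1128670 0) (P.cons (P.lf 0 1911686 0) (P.cons (P.lf 360032 0 0) (P.cons (P.lf 11556 0 0) P.nil)))) (P.cons (P.cons (P.lf 93202 0 0) (P.cons (P.lf 872570 0 0) (P.cons (P.lf 38198 0 0) P.nil))) (P.cons (P.cons (P.lf 218040 0 0) (P.cons (P.lf 48160 0 0) P.nil)) (P.cons (P.cons (P.lf 1257 0 0) P.nil) P.nil)))))) 913870)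
 (EL.cons 9 (TM.mk (P.cons (P.cons (P.lf 180500439 0 0) (P.cons (P.lf 435457257 0 0) (P.cons (P.lf 233521470 0 0) (P.cons (P.lf 0 44822895 0) (P.cons (P.lf 0 10532148 0) (P.cons (P.lf 782643 0 0) P.nil)))))) (P.cons (P.cons (P.lf 97902244 0 0) (P.cons (P.lf 123700912 0 0) (P.cons (P.lf 0 1507702 0) (P.cons (P.lf 0 3661051 0) (P.cons (P.lf 0 271192 0) P.nil))))) (P.cons (P.cons (P.lf 13103311 0 0) (P.cons (P.lf 0 1454232 0) (P.cons (P.lf 0 3197047 0) (P.cons (P.lf 472902 0 0) P.nil)))) (P.cons (P.cons (P.lf 0 972271 0) (P.cons (P.lf 0 1905523 0) (P.cons (P.lf 41106 0 0) P.nil))) (P.cons (P.cons (P.lf 0 255252 0) (P.cons (P.lf 0 19176 0) P.nil)) (P.cons (P.cons (P.lf 2011 0 0) P.nil) P.nil)))))) 437260)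
 (EL.cons 2 (TM.mk (P.cons (P.cons (P.lf 0 54650148 0) (P.cons (P.lf 0 57460516 0) (P.cons (P.lf 18690058 0 0) (P.cons (P.lf 5549580 0 0) (P.cons (P.lf 0 780840 0) (P.cons (P.lf 0 143656 0) P.nil)))))) (P.cons (P.cons (P.lf 39242998 0 0) (P.cons (P.lf 58290103 0 0) (P.cons (P.lf 0 17195940 0) (P.cons (P.lf 0 5458455 0) (P.cons (P.lf 752450 0 0) P.nil))))) (P.cons (P.cons (P.lf 15564048 0 0) (P.cons (P.lf 0 94466 0) (P.cons (P.lf 0 1674163 0) (P.cons (P.lf 0 156386 0) P.nil)))) (P.cons (P.cons (P.lf 65351 0 0) (P.cons (P.lf 0 751162 0) (P.cons (P.lf 159401 0 0) P.nil))) (P.cons (P.cons (P.lf 0 220156 0) (P.cons (P.lf 11323 0 0) P.nil)) (P.cons (P.cons (P.lf 0 3470 0) P.nil) P.nil)))))) 357220)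
 (EL.cons 6 (TM.mk (P.cons (P.cons (P.lf 0 496904142 0) (P.cons (P.lf 0 522457314 0) (P.cons (P.lf 169938570 0 0) (P.cons (P.lf 50459352 0 0) (P.cons (P.lf 0 7099794 0) (P.cons (P.lf 0 1306218 0) P.nil)))))) (P.cons (P.cons (P.lf 0 141156210 0) (P.cons (P.lf 6420678 0 0) (P.cons (P.lf 13950234 0 0) (P.cons (P.lf 936960 0 0) (P.cons (P.lf 0 273390 0) P.nil))))) (P.cons (P.cons (P.lf 1659432 0 0) (P.cons (P.lf 7261326 0 0) (P.cons (P.lf 0 1790442 0) (P.cons (P.lf 0 645822 0) P.nil)))) (P.cons (P.cons (P.lf 2174406 0 0) (P.cons (P.lf 0 139710 0) (P.cons (P.lf 0 205842 0) P.nil))) (P.cons (P.cons (P.lf 21876 0 0) (P.cons (P.lf 0 50466 0) P.nil)) (P.cons (P.cons (P.lf 0 14646 0) P.nil) P.nil)))))) 281700)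
 EL.nil))))))
noncomputable def S241_256_512_660_3 : EL := (EL.cons 0 (TM.mk (P.cons (P.lf 25864470 0 0) (P.cons (P.lf 0 51618062 0) (P.cons (P.lf 25587627 0 0) (P.cons (P.lf 220688 0 0) (P.cons (P.lf 0 54283 0) (P.cons (P.lf 0 527 0) P.nil)))))) 119)
 (EL.cons 1 (TM.mk (P.cons (P.lf 235171578 0 0) (P.cons (P.lf 0 233658247 0) (P.cons (P.lf 0 2264585 0) (P.cons (P.lf 745863 0 0) (P.cons (P.lf 6716 0 0) (P.cons (P.lf 0 1310 0) P.nil)))))) 72)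
 (EL.cons 5 (TM.mk (P.cons (P.lf 2138287390 0 0) (P.cons (P.lf 18353086 0 0) (P.cons (P.lf 0 9097822 0) (P.cons (P.lf 0 78466 0) (P.cons (P.lf 19296 0 0) (P.cons (P.lf 186 0 0) P.nil)))))) 140)
 EL.nil)))
noncomputable def S241_256_512_660_4 : EL := (EL.cons 0 (TM.mk (P.cons (P.cons (P.lf 0 4329293 0) (P.cons (P.lf 0 5222209 0) (P.cons (P.lf 349143 0 0) (P.lf 116381 0 0)))) (P.cons (P.cons (P.lf 7465939 0 0) (P.cons (P.lf 10354800 0 0) (P.cons (P.lf 0 692296 0) (P.lf 0 230765 0)))) (P.cons (P.cons (P.lf 0 1937743 0) (P.cons (P.lf 0 4998949 0) (P.cons (P.lf 334218 0 0) (P.lf 111404 0 0)))) (P.cons (P.cons (P.lf 0 1191480 0) (P.cons (P.lf 0 176867 0) (P.cons (P.lf 11824 0 0) P.nil))) (P.cons (P.cons (P.lf 0 20991 0) (P.cons (P.lf 42250 0 0) P.nil)) (P.cons (P.cons (P.lf 13415 0 0) P.nil) P.nil)))))) 9885)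
 (EL.cons 1 (TM.mk (P.cons (P.cons (P.lf 0 39363924 0) (P.cons (P.lf 0 47482728 0) (P.cons (P.lf 3174583 0 0) (P.lf 1058193 0 0)))) (P.cons (P.cons (P.lf 28435250 0 0) (P.cons (P.lf 46565855 0 0) (P.cons (P.lf 0 3113283 0) (P.lf 0 1037760 0)))) (P.cons (P.cons (P.lf 11004487 0 0) (P.cons (P.lf 1366348 0 0) (P.cons (P.lf 0 91350 0) (P.lf 0 30448 0)))) (P.cons (P.cons (P.lf 60238 0 0) (P.cons (P.lf 0 440576 0) (P.cons (P.lf 29454 0 0) P.nil))) (P.cons (P.cons (P.lf 0 134975 0) (P.cons (P.lf 0 11045 0) P.nil)) (P.cons (P.cons (P.lf 0 1756 0) P.nil) P.nil)))))) 14638)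
 (EL.cons 5 (TM.mk (P.cons (P.cons (P.lf 0 357914790 0) (P.cons (P.lf 0 431734664 0) (P.cons (P.lf 28864772 0 0) (P.lf 9621588 0 0)))) (P.cons (P.cons (P.lf 0 100137318 0) (P.cons (P.lf 0 9264028 0) (P.cons (P.lf 619368 0 0) (P.lf 206454 0 0)))) (P.cons (P.cons (P.lf 860308 0 0) (P.cons (P.lf 4532640 0 0) (P.cons (P.lf 0 303040 0) (P.lf 0 101012 0)))) (P.cons (P.cons (P.lf 1345278 0 0) (P.cons (P.lf 98642 0 0) (P.cons (P.lf 0 6592 0) P.nil))) (P.cons (P.cons (P.lf 11718 0 0) (P.cons (P.lf 0 23754 0) P.nil)) (P.cons (P.cons (P.lf 0 7486 0) P.nil) P.nil)))))) 5564)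
 EL.nil)))
noncomputable def S241_256_512_660_5 : EL := (EL.cons 0 (TM.mk (P.cons (P.cons (P.lf 724652 0 0) (P.cons (P.lf 1748227 0 0) (P.cons (P.lf 937516 0 0) (P.cons (P.lf 0 179949 0) (P.cons (P.lf 0 42282 0) (P.cons (P.lf 3141 0 0) P.nil)))))) (P.cons (P.cons (P.lf 0 1053152 0) (P.cons (P.lf 0 2992338 0) (P.cons (P.lf 0 1877067 0) (P.cons (P.lf 344429 0 0) (P.cons (P.lf 83295 0 0) P.nil))))) (P.cons (P.cons (P.lf 0 14906 0) (P.cons (P.lf 732563 0 0) (P.cons (P.lf 926725 0 0) (P.cons (P.lf 0 146791 0) P.nil)))) (P.cons (P.cons (P.lf 286133 0 0) (P.cons (P.lf 510222 0 0) (P.cons (P.lf 27791 0 0) P.nil))) (P.cons (P.cons (P.lf 60639 0 0) (P.cons (P.lf 9982 0 0) P.nil)) (P.cons (P.cons (P.lf 0 2199 0) P.nil) P.nil)))))) 109971)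
 (EL.cons 1 (TM.mk (P.cons (P.cons (P.lf 6588885 0 0) (P.cons (P.lf 15895683 0 0) (P.cons (P.lf 8524335 0 0) (P.cons (P.lf 0 1636188 0) (P.cons (P.lf 0 384459 0) (P.cons (P.lf 28567 0 0) P.nil)))))) (P.cons (P.cons (P.lf 0 2972716 0) (P.cons (P.lf 0 11277886 0) (P.cons (P.lf 0 8524515 0) (P.cons (P.lf 1492018 0 0) (P.cons (P.lf 372084 0 0) P.nil))))) (P.cons (P.cons (P.lf 0 3135901 0) (P.cons (P.lf 0 4692601 0) (P.cons (P.lf 0 144105 0) (P.cons (P.lf 165796 0 0) P.nil)))) (P.cons (P.cons (P.lf 0 524244 0) (P.cons (P.lf 0 9881 0) (P.cons (P.lf 145016 0 0) P.nil))) (P.cons (P.cons (P.lf 32861 0 0) (P.cons (P.lf 83696 0 0) P.nil)) (P.cons (P.cons (P.lf 11253 0 0) P.nil) P.nil)))))) 105368)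
 (EL.cons 5 (TM.mk (P.cons (P.cons (P.lf 59909156 0 0) (P.cons (P.lf 144530826 0 0) (P.cons (P.lf 77507150 0 0) (P.cons (P.lf 0 14876982 0) (P.cons (P.lf 0 3495680 0) (P.cons (P.lf 259762 0 0) P.nil)))))) (P.cons (P.cons (P.lf 33008536 0 0) (P.cons (P.lf 42297578 0 0) (P.cons (P.lf 164834 0 0) (P.cons (P.lf 0 1342814 0) (P.cons (P.lf 0 120012 0) P.nil))))) (P.cons (P.cons (P.lf 4373070 0 0) (P.cons (P.lf 0 745210 0) (P.cons (P.lf 0 1395184 0) (P.cons (P.lf 209826 0 0) P.nil)))) (P.cons (P.cons (P.lf 0 425826 0) (P.cons (P.lf 0 816586 0) (P.cons (P.lf 3820 0 0) P.nil))) (P.cons (P.cons (P.lf 0 106644 0) (P.cons (P.lf 0 9940 0) P.nil)) (P.cons (P.cons (P.lf 1450 0 0) P.nil) P.nil)))))) 183774)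
 EL.nil)))
noncomputable def S241_256_512_660_6 : EL := (EL.cons 12 (TM.mk (P.lf 8589934592 0 0) 0)
 (EL.cons 3 (TM.mk (P.cons (P.lf 0 235676745 0) (P.cons (P.lf 235171578 0 0) (P.cons (P.lf 756663 0 0) (P.cons (P.lf 0 250417 0) (P.cons (P.lf 0 1346 0) (P.cons (P.lf 262 0 0) P.nil)))))) 37)
 (EL.cons 7 (TM.mk (P.cons (P.lf 0 2142880586 0) (P.cons (P.lf 0 9196255 0) (P.cons (P.lf 4578416 0 0) (P.cons (P.lf 19669 0 0) (P.cons (P.lf 0 4863 0) (P.cons (P.lf 0 31 0) P.nil)))))) 53)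
 EL.nil)))
noncomputable def S241_256_512_660_7 : EL := (EL.cons 12 (TM.mk (P.cons (P.cons (P.lf 0 1437816384 0) (P.cons (P.lf 0 1734365808 0) (P.cons (P.lf 115955656 0 0) (P.lf 38651880 0 0)))) (P.cons (P.cons (P.lf 0 389931054 0) (P.cons (P.lf 0 22329288 0) (P.cons (P.lf 1492880 0 0) (P.lf 497624 0 0)))) (P.cons (P.cons (P.lf 685334 0 0) (P.cons (P.lf 11020952 0 0) (P.cons (P.lf 0 736832 0) (P.lf 0 245608 0)))) (P.cons (P.cons (P.lf 3686566 0 0) (P.cons (P.lf 143032 0 0) (P.cons (P.lf 0 9560 0) P.nil))) (P.cons (P.cons (P.lf 17018 0 0) (P.cons (P.lf 0 34936 0) P.nil)) (P.cons (P.cons (P.lf 0 10870 0) P.nil) P.nil)))))) 7960)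
 (EL.cons 3 (TM.mk (P.cons (P.cons (P.lf 0 2453432913 0) (P.cons (P.lf 0 95169450 0) (P.cons (P.lf 6362806 0 0) (P.lf 2120934 0 0)))) (P.cons (P.cons (P.lf 0 25257642 0) (P.cons (P.lf 93740190 0 0) (P.cons (P.lf 0 6267248 0) (P.lf 0 2089080 0)))) (P.cons (P.cons (P.lf 62581849 0 0) (P.cons (P.lf 2132942 0 0) (P.cons (P.lf 0 142602 0) (P.lf 0 47532 0)))) (P.cons (P.cons (P.lf 502730 0 0) (P.cons (P.lf 0 692790 0) (P.cons (P.lf 46318 0 0) P.nil))) (P.cons (P.cons (P.lf 0 311075 0) (P.cons (P.lf 0 13534 0) P.nil)) (P.cons (P.cons (P.lf 0 3013 0) P.nil) P.nil)))))) 42813)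
 (EL.cons 7 (TM.mk (P.cons (P.cons (P.lf 456166388 0 0) (P.cons (P.lf 438244390 0 0) (P.cons (P.lf 0 29300001 0) (P.lf 0 9766670 0)))) (P.cons (P.cons (P.lf 987691 0 0) (P.cons (P.lf 0 3665655 0) (P.cons (P.lf 245076 0 0) (P.lf 81690 0 0)))) (P.cons (P.cons (P.lf 0 2942133 0) (P.cons (P.lf 1753356 0 0) (P.cons (P.lf 0 117226 0) (P.lf 0 39075 0)))) (P.cons (P.cons (P.lf 1616392 0 0) (P.cons (P.lf 78869 0 0) (P.cons (P.lf 0 5270 0) P.nil))) (P.cons (P.cons (P.lf 22722 0 0) (P.cons (P.lf 0 18971 0) P.nil)) (P.cons (P.cons (P.lf 0 8603 0) P.nil) P.nil)))))) 16680)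
 (EL.cons 10 (TM.mk (P.cons (P.cons (P.lf 0 2975027220 0) (P.cons (P.lf 460608921 0 0) (P.cons (P.lf 221906853 0 0) (P.cons (P.lf 0 8397606 0) (P.lf 0 2099400 0))))) (P.cons (P.cons (P.lf 0 25534887 0) (P.cons (P.lf 3953442 0 0) (P.cons (P.lf 1904643 0 0) (P.cons (P.lf 0 72075 0) (P.lf 0 18018 0))))) (P.cons (P.cons (P.lf 12657918 0 0) (P.cons (P.lf 0 1959762 0) (P.cons (P.lf 0 944151 0) (P.cons (P.lf 35727 0 0) P.nil)))) (P.cons (P.cons (P.lf 109170 0 0) (P.cons (P.lf 0 16902 0) (P.cons (P.lf 0 8142 0) P.nil))) (P.cons (P.cons (P.lf 0 26844 0) (P.cons (P.lf 4155 0 0) P.nil)) (P.cons (P.cons (P.lf 0 258 0) P.nil) P.nil)))))) 11826)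
 EL.nil))))
noncomputable def S241_256_512_660_8 : EL := (EL.cons 12 (TM.mk (P.cons (P.cons (P.lf 240667252 0 0) (P.cons (P.lf 580609676 0 0) (P.cons (P.lf 311361960 0 0) (P.cons (P.lf 0 59763860 0) (P.cons (P.lf 0 14042864 0) (P.cons (P.lf 1043524 0 0) P.nil)))))) (P.cons (P.cons (P.lf 130536326 0 0) (P.cons (P.lf 164934550 0 0) (P.cons (P.lf 0 2010270 0) (P.cons (P.lf 0 4881402 0) (P.cons (P.lf 0 361590 0) P.nil))))) (P.cons (P.cons (P.lf 17471082 0 0) (P.cons (P.lf 0 1938976 0) (P.cons (P.lf 0 4262730 0) (P.cons (P.lf 630536 0 0) P.nil)))) (P.cons (P.cons (P.lf 0 1296362 0) (P.cons (P.lf 0 2540698 0) (P.cons (P.lf 54808 0 0) P.nil))) (P.cons (P.cons (P.lf 0 340336 0) (P.cons (P.lf 0 25568 0) P.nil)) (P.cons (P.cons (P.lf 2682 0 0) P.nil) P.nil)))))) 582984)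
 (EL.cons 3 (TM.mk (P.cons (P.cons (P.lf 827933164 0 0) (P.cons (P.lf 1038518835 0 0) (P.cons (P.lf 0 21394556 0) (P.cons (P.lf 0 29567779 0) (P.cons (P.lf 0 1926425 0) (P.cons (P.lf 143150 0 0) P.nil)))))) (P.cons (P.cons (P.lf 228190014 0 0) (P.cons (P.lf 0 11156793 0) (P.cons (P.lf 0 45952549 0) (P.cons (P.lf 6492937 0 0) (P.cons (P.lf 1872690 0 0) P.nil))))) (P.cons (P.cons (P.lf 0 22164405 0) (P.cons (P.lf 0 45295176 0) (P.cons (P.lf 1037241 0 0) (P.cons (P.lf 1275672 0 0) P.nil)))) (P.cons (P.cons (P.lf 0 8478257 0) (P.cons (P.lf 0 717560 0) (P.cons (P.lf 680518 0 0) P.nil))) (P.cons (P.cons (P.lf 65539 0 0) (P.cons (P.lf 524478 0 0) P.nil)) (P.cons (P.cons (P.lf 99179 0 0) P.nil) P.nil)))))) 751103)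
 (EL.cons 7 (TM.mk (P.cons (P.cons (P.lf 0 92671931 0) (P.cons (P.lf 0 186074927 0) (P.cons (P.lf 0 77171075 0) (P.cons (P.lf 16129291 0 0) (P.cons (P.lf 3593586 0 0) (P.cons (P.lf 0 267035 0) P.nil)))))) (P.cons (P.cons (P.lf 0 8923252 0) (P.cons (P.lf 436272 0 0) (P.cons (P.lf 1796946 0 0) (P.cons (P.lf 0 253899 0) (P.cons (P.lf 0 73227 0) P.nil))))) (P.cons (P.cons (P.lf 5337931 0 0) (P.cons (P.lf 1552634 0 0) (P.cons (P.lf 0 940963 0) (P.cons (P.lf 77340 0 0) P.nil)))) (P.cons (P.cons (P.lf 0 257114 0) (P.cons (P.lf 0 1154828 0) (P.cons (P.lf 2419 0 0) P.nil))) (P.cons (P.cons (P.lf 0 247934 0) (P.cons (P.lf 0 38861 0) P.nil)) (P.cons (P.cons (P.lf 0 1570 0) P.nil) P.nil)))))) 439329)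
 (EL.cons 10 (TM.mk (P.cons (P.cons (P.lf 995943060 0 0) (P.cons (P.lf 1047159180 0 0) (P.cons (P.lf 0 340607226 0) (P.cons (P.lf 0 101135490 0) (P.cons (P.lf 14230098 0 0) (P.cons (P.lf 2618058 0 0) P.nil)))))) (P.cons (P.cons (P.lf 278644722 0 0) (P.cons (P.lf 0 17362872 0) (P.cons (P.lf 0 26498676 0) (P.cons (P.lf 0 1443924 0) (P.cons (P.lf 486894 0 0) P.nil))))) (P.cons (P.cons (P.lf 0 2393916 0) (P.cons (P.lf 0 12242010 0) (P.cons (P.lf 2974566 0 0) (P.cons (P.lf 1084542 0 0) P.nil)))) (P.cons (P.cons (P.lf 0 3743406 0) (P.cons (P.lf 305082 0 0) (P.cons (P.lf 340062 0 0) P.nil))) (P.cons (P.cons (P.lf 0 32610 0) (P.cons (P.lf 71148 0 0) P.nil)) (P.cons (P.cons (P.lf 20832 0 0) P.nil) P.nil)))))) 488100)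
 EL.nil))))
noncomputable def S241_256_512_660_9 : EL := (EL.cons 3 (TM.mk (P.cons (P.lf 0 235676745 0) (P.cons (P.lf 235171578 0 0) (P.cons (P.lf 756663 0 0) (P.cons (P.lf 0 250417 0) (P.cons (P.lf 0 1346 0) (P.cons (P.lf 262 0 0) P.nil)))))) 37)
 (EL.cons 7 (TM.mk (P.cons (P.lf 0 2142880586 0) (P.cons (P.lf 0 9196255 0) (P.cons (P.lf 4578416 0 0) (P.cons (P.lf 19669 0 0) (P.cons (P.lf 0 4863 0) (P.cons (P.lf 0 31 0) P.nil)))))) 53)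
 EL.nil))
noncomputable def S241_256_512_660_10 : EL := (EL.cons 3 (TM.mk (P.cons (P.cons (P.lf 39448482 0 0) (P.cons (P.lf 47584725 0 0) (P.cons (P.lf 0 3181403 0) (P.lf 0 1060467 0)))) (P.cons (P.cons (P.lf 0 28665627 0) (P.cons (P.lf 0 46870095 0) (P.cons (P.lf 3133624 0 0) (P.lf 1044540 0 0)))) (P.cons (P.cons (P.lf 0 10820822 0) (P.cons (P.lf 0 1066471 0) (P.cons (P.lf 71301 0 0) (P.lf 23766 0 0)))) (P.cons (P.cons (P.lf 0 74815 0) (P.cons (P.lf 346395 0 0) (P.cons (P.lf 0 23159 0) P.nil))) (P.cons (P.cons (P.lf 112114 0 0) (P.cons (P.lf 6767 0 0) P.nil)) (P.cons (P.cons (P.lf 1085 0 0) P.nil) P.nil)))))) 10625)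
 (EL.cons 7 (TM.mk (P.cons (P.cons (P.lf 358683617 0 0) (P.cons (P.lf 432662062 0 0) (P.cons (P.lf 0 28926777 0) (P.lf 0 9642257 0)))) (P.cons (P.cons (P.lf 98813116 0 0) (P.cons (P.lf 7427142 0 0) (P.cons (P.lf 0 496560 0) (P.lf 0 165519 0)))) (P.cons (P.cons (P.lf 0 519864 0) (P.cons (P.lf 0 3649839 0) (P.cons (P.lf 244019 0 0) (P.lf 81339 0 0)))) (P.cons (P.cons (P.lf 0 1131524 0) (P.cons (P.lf 0 63352 0) (P.cons (P.lf 4234 0 0) P.nil))) (P.cons (P.cons (P.lf 0 7905 0) (P.cons (P.lf 15367 0 0) P.nil)) (P.cons (P.cons (P.lf 4885 0 0) P.nil) P.nil)))))) 3515)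
 EL.nil))
noncomputable def S241_256_512_660_11 : EL := (EL.cons 3 (TM.mk (P.cons (P.cons (P.lf 0 6603038 0) (P.cons (P.lf 0 15929829 0) (P.cons (P.lf 0 8542646 0) (P.cons (P.lf 1639703 0 0) (P.cons (P.lf 385285 0 0) (P.cons (P.lf 0 28630 0) P.nil)))))) (P.cons (P.cons (P.lf 3007440 0 0) (P.cons (P.lf 11370477 0 0) (P.cons (P.lf 8579489 0 0) (P.cons (P.lf 0 1502261 0) (P.cons (P.lf 0 374538 0) P.nil))))) (P.cons (P.cons (P.lf 3115623 0 0) (P.cons (P.lf 4619850 0 0) (P.cons (P.lf 89343 0 0) (P.cons (P.lf 0 156204 0) P.nil)))) (P.cons (P.cons (P.lf 518365 0 0) (P.cons (P.lf 14224 0 0) (P.cons (P.lf 0 127460 0) P.nil))) (P.cons (P.cons (P.lf 0 28457 0) (P.cons (P.lf 0 73926 0) P.nil)) (P.cons (P.cons (P.lf 0 10027 0) P.nil) P.nil)))))) 95407)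
 (EL.cons 7 (TM.mk (P.cons (P.cons (P.lf 0 60037847 0) (P.cons (P.lf 0 144841289 0) (P.cons (P.lf 0 77673641 0) (P.cons (P.lf 14908939 0 0) (P.cons (P.lf 3503190 0 0) (P.cons (P.lf 0 260321 0) P.nil)))))) (P.cons (P.cons (P.lf 0 32821786 0) (P.cons (P.lf 0 41766846 0) (P.cons (P.lf 168150 0 0) (P.cons (P.lf 1281717 0 0) (P.cons (P.lf 105237 0 0) P.nil))))) (P.cons (P.cons (P.lf 0 4369883 0) (P.cons (P.lf 616592 0 0) (P.cons (P.lf 1231505 0 0) (P.cons (P.lf 0 183924 0) P.nil)))) (P.cons (P.cons (P.lf 374818 0 0) (P.cons (P.lf 725128 0 0) (P.cons (P.lf 0 9467 0) P.nil))) (P.cons (P.cons (P.lf 95764 0 0) (P.cons (P.lf 8113 0 0) P.nil)) (P.cons (P.cons (P.lf 0 1030 0) P.nil) P.nil)))))) 164243)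
 EL.nil))
noncomputable def S241_256_512_660_12 : EL := (EL.cons 4 (TM.mk (P.cons (P.lf 235676745 0 0) (P.cons (P.lf 0 235171578 0) (P.cons (P.lf 0 756663 0) (P.cons (P.lf 250417 0 0) (P.cons (P.lf 1346 0 0) (P.cons (P.lf 0 262 0) P.nil)))))) 37)
 (EL.cons 8 (TM.mk (P.cons (P.lf 2142880586 0 0) (P.cons (P.lf 9196255 0 0) (P.cons (P.lf 0 4578416 0) (P.cons (P.lf 0 19669 0) (P.cons (P.lf 4863 0 0) (P.cons (P.lf 31 0 0) P.nil)))))) 53)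
 EL.nil))
noncomputable def S241_256_512_660_13 : EL := (EL.cons 4 (TM.mk (P.cons (P.cons (P.lf 0 39448482 0) (P.cons (P.lf 0 47584725 0) (P.cons (P.lf 3181403 0 0) (P.lf 1060467 0 0)))) (P.cons (P.cons (P.lf 28665627 0 0) (P.cons (P.lf 46870095 0 0) (P.cons (P.lf 0 3133624 0) (P.lf 0 1044540 0)))) (P.cons (P.cons (P.lf 10820822 0 0) (P.cons (P.lf 1066471 0 0) (P.cons (P.lf 0 71301 0) (P.lf 0 23766 0)))) (P.cons (P.cons (P.lf 74815 0 0) (P.cons (P.lf 0 346395 0) (P.cons (P.lf 23159 0 0) P.nil))) (P.cons (P.cons (P.lf 0 112114 0) (P.cons (P.lf 0 6767 0) P.nil)) (P.cons (P.cons (P.lf 0 1085 0) P.nil) P.nil)))))) 10625)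
 (EL.cons 8 (TM.mk (P.cons (P.cons (P.lf 0 358683617 0) (P.cons (P.lf 0 432662062 0) (P.cons (P.lf 28926777 0 0) (P.lf 9642257 0 0)))) (P.cons (P.cons (P.lf 0 98813116 0) (P.cons (P.lf 0 7427142 0) (P.cons (P.lf 496560 0 0) (P.lf 165519 0 0)))) (P.cons (P.cons (P.lf 519864 0 0) (P.cons (P.lf 3649839 0 0) (P.cons (P.lf 0 244019 0) (P.lf 0 81339 0)))) (P.cons (P.cons (P.lf 1131524 0 0) (P.cons (P.lf 63352 0 0) (P.cons (P.lf 0 4234 0) P.nil))) (P.cons (P.cons (P.lf 7905 0 0) (P.cons (P.lf 0 15367 0) P.nil)) (P.cons (P.cons (P.lf 0 4885 0) P.nil) P.nil)))))) 3515)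
 EL.nil))
noncomputable def S241_256_512_660_14 : EL := (EL.cons 4 (TM.mk (P.cons (P.cons (P.lf 6603038 0 0) (P.cons (P.lf 15929829 0 0) (P.cons (P.lf 8542646 0 0) (P.cons (P.lf 0 1639703 0) (P.cons (P.lf 0 385285 0) (P.cons (P.lf 28630 0 0) P.nil)))))) (P.cons (P.cons (P.lf 0 3007440 0) (P.cons (P.lf 0 11370477 0) (P.cons (P.lf 0 8579489 0) (P.cons (P.lf 1502261 0 0) (P.cons (P.lf 374538 0 0) P.nil))))) (P.cons (P.cons (P.lf 0 3115623 0) (P.cons (P.lf 0 4619850 0) (P.cons (P.lf 0 89343 0) (P.cons (P.lf 156204 0 0) P.nil)))) (P.cons (P.cons (P.lf 0 518365 0) (P.cons (P.lf 0 14224 0) (P.cons (P.lf 127460 0 0) P.nil))) (P.cons (P.cons (P.lf 28457 0 0) (P.cons (P.lf 73926 0 0) P.nil)) (P.cons (P.cons (P.lf 10027 0 0) P.nil) P.nil)))))) 95407)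
 (EL.cons 8 (TM.mk (P.cons (P.cons (P.lf 60037847 0 0) (P.cons (P.lf 144841289 0 0) (P.cons (P.lf 77673641 0 0) (P.cons (P.lf 0 14908939 0) (P.cons (P.lf 0 3503190 0) (P.cons (P.lf 260321 0 0) P.nil)))))) (P.cons (P.cons (P.lf 32821786 0 0) (P.cons (P.lf 41766846 0 0) (P.cons (P.lf 0 168150 0) (P.cons (P.lf 0 1281717 0) (P.cons (P.lf 0 105237 0) P.nil))))) (P.cons (P.cons (P.lf 4369883 0 0) (P.cons (P.lf 0 616592 0) (P.cons (P.lf 0 1231505 0) (P.cons (P.lf 183924 0 0) P.nil)))) (P.cons (P.cons (P.lf 0 374818 0) (P.cons (P.lf 0 725128 0) (P.cons (P.lf 9467 0 0) P.nil))) (P.cons (P.cons (P.lf 0 95764 0) (P.cons (P.lf 0 8113 0) P.nil)) (P.cons (P.cons (P.lf 1030 0 0) P.nil) P.nil)))))) 164243)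
 EL.nil))
noncomputable def S241_256_512_660_15 : EL := (EL.cons 4 (TM.mk (P.cons (P.lf 0 13794384 0) (P.cons (P.lf 27529633 0 0) (P.cons (P.lf 0 13646734 0) (P.cons (P.lf 0 117700 0) (P.cons (P.lf 28950 0 0) (P.cons (P.lf 281 0 0) P.nil)))))) 67)
 (EL.cons 8 (TM.mk (P.cons (P.lf 0 125424842 0) (P.cons (P.lf 124617732 0 0) (P.cons (P.lf 1207779 0 0) (P.cons (P.lf 0 397794 0) (P.cons (P.lf 0 3582 0) (P.cons (P.lf 699 0 0) P.nil)))))) 35)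
 EL.nil))
noncomputable def S241_256_512_660_16 : EL := (EL.cons 4 (TM.mk (P.cons (P.cons (P.lf 2308956 0 0) (P.cons (P.lf 2785178 0 0) (P.cons (P.lf 0 186210 0) (P.lf 0 62070 0)))) (P.cons (P.cons (P.lf 0 3981834 0) (P.cons (P.lf 0 5522560 0) (P.cons (P.lf 369225 0 0) (P.lf 123075 0 0)))) (P.cons (P.cons (P.lf 1033463 0 0) (P.cons (P.lf 2666106 0 0) (P.cons (P.lf 0 178249 0) (P.lf 0 59415 0)))) (P.cons (P.cons (P.lf 635456 0 0) (P.cons (P.lf 94329 0 0) (P.cons (P.lf 0 6306 0) P.nil))) (P.cons (P.cons (P.lf 11195 0 0) (P.cons (P.lf 0 22533 0) P.nil)) (P.cons (P.cons (P.lf 0 7155 0) P.nil) P.nil)))))) 5281)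
 (EL.cons 8 (TM.mk (P.cons (P.cons (P.lf 20994093 0 0) (P.cons (P.lf 25324122 0 0) (P.cons (P.lf 0 1693111 0) (P.lf 0 564370 0)))) (P.cons (P.cons (P.lf 0 15165467 0) (P.cons (P.lf 0 24835123 0) (P.cons (P.lf 1660418 0 0) (P.lf 553472 0 0)))) (P.cons (P.cons (P.lf 0 5869060 0) (P.cons (P.lf 0 728719 0) (P.cons (P.lf 48720 0 0) (P.lf 16239 0 0)))) (P.cons (P.cons (P.lf 0 32127 0) (P.cons (P.lf 234974 0 0) (P.cons (P.lf 0 15709 0) P.nil))) (P.cons (P.cons (P.lf 71987 0 0) (P.cons (P.lf 5891 0 0) P.nil)) (P.cons (P.cons (P.lf 937 0 0) P.nil) P.nil)))))) 7797)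
 EL.nil))
noncomputable def S241_256_512_660_17 : EL := (EL.cons 4 (TM.mk (P.cons (P.cons (P.lf 0 386481 0) (P.cons (P.lf 0 932387 0) (P.cons (P.lf 0 500009 0) (P.cons (P.lf 95972 0 0) (P.cons (P.lf 22550 0 0) (P.cons (P.lf 0 1675 0) P.nil)))))) (P.cons (P.cons (P.lf 561681 0 0) (P.cons (P.lf 1595913 0 0) (P.cons (P.lf 1001102 0 0) (P.cons (P.lf 0 183695 0) (P.cons (P.lf 0 44424 0) P.nil))))) (P.cons (P.cons (P.lf 7950 0 0) (P.cons (P.lf 0 390700 0) (P.cons (P.lf 0 494253 0) (P.cons (P.lf 78288 0 0) P.nil)))) (P.cons (P.cons (P.lf 0 152604 0) (P.cons (P.lf 0 272118 0) (P.cons (P.lf 0 14821 0) P.nil))) (P.cons (P.cons (P.lf 0 32340 0) (P.cons (P.lf 0 5324 0) P.nil)) (P.cons (P.cons (P.lf 1172 0 0) P.nil) P.nil)))))) 58661)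
 (EL.cons 8 (TM.mk (P.cons (P.cons (P.lf 0 3514072 0) (P.cons (P.lf 0 8477698 0) (P.cons (P.lf 0 4546312 0) (P.cons (P.lf 872634 0 0) (P.cons (P.lf 205045 0 0) (P.cons (P.lf 0 15236 0) P.nil)))))) (P.cons (P.cons (P.lf 1585449 0 0) (P.cons (P.lf 6014873 0 0) (P.cons (P.lf 4546408 0 0) (P.cons (P.lf 0 795743 0) (P.cons (P.lf 0 198445 0) P.nil))))) (P.cons (P.cons (P.lf 1672481 0 0) (P.cons (P.lf 2502721 0 0) (P.cons (P.lf 76856 0 0) (P.cons (P.lf 0 88425 0) P.nil)))) (P.cons (P.cons (P.lf 279597 0 0) (P.cons (P.lf 5270 0 0) (P.cons (P.lf 0 77342 0) P.nil))) (P.cons (P.cons (P.lf 0 17526 0) (P.cons (P.lf 0 44638 0) P.nil)) (P.cons (P.cons (P.lf 0 6002 0) P.nil) P.nil)))))) 56185)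
 EL.nil))
noncomputable def S241_256_512_660_18 : EL := (EL.cons 4 (TM.mk (P.cons (P.lf 807398 0 0) (P.cons (P.lf 0 2417003 0) (P.cons (P.lf 2404045 0 0) (P.cons (P.lf 0 784123 0) (P.cons (P.lf 0 12840 0) (P.cons (P.lf 2490 0 0) P.nil)))))) 58)
 (EL.cons 8 (TM.mk (P.cons (P.lf 7341235 0 0) (P.cons (P.lf 0 14619494 0) (P.cons (P.lf 7184097 0 0) (P.cons (P.lf 125042 0 0) (P.cons (P.lf 0 30504 0) (P.cons (P.lf 0 449 0) P.nil)))))) 91)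
 EL.nil))
noncomputable def S241_256_512_660_19 : EL := (EL.cons 4 (TM.mk (P.cons (P.cons (P.lf 0 135145 0) (P.cons (P.lf 0 163019 0) (P.cons (P.lf 10898 0 0) (P.lf 3632 0 0)))) (P.cons (P.cons (P.lf 367916 0 0) (P.cons (P.lf 485910 0 0) (P.cons (P.lf 0 32486 0) (P.lf 0 10828 0)))) (P.cons (P.cons (P.lf 0 292616 0) (P.cons (P.lf 0 478073 0) (P.cons (P.lf 31962 0 0) (P.lf 10653 0 0)))) (P.cons (P.cons (P.lf 22274 0 0) (P.cons (P.lf 148982 0 0) (P.cons (P.lf 0 9960 0) P.nil))) (P.cons (P.cons (P.lf 36899 0 0) (P.cons (P.lf 7671 0 0) P.nil)) (P.cons (P.cons (P.lf 1128 0 0) P.nil) P.nil)))))) 6750)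
 (EL.cons 8 (TM.mk (P.cons (P.cons (P.lf 0 1228803 0) (P.cons (P.lf 0 1482244 0) (P.cons (P.lf 99099 0 0) (P.lf 33033 0 0)))) (P.cons (P.cons (P.lf 2113819 0 0) (P.cons (P.lf 2932691 0 0) (P.cons (P.lf 0 196072 0) (P.lf 0 65357 0)))) (P.cons (P.cons (P.lf 0 538279 0) (P.cons (P.lf 0 1403095 0) (P.cons (P.lf 93807 0 0) (P.lf 31268 0 0)))) (P.cons (P.cons (P.lf 0 345060 0) (P.cons (P.lf 0 62556 0) (P.cons (P.lf 4182 0 0) P.nil))) (P.cons (P.cons (P.lf 0 6256 0) (P.cons (P.lf 14777 0 0) P.nil)) (P.cons (P.cons (P.lf 4514 0 0) P.nil) P.nil)))))) 3660)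
 EL.nil))
noncomputable def S241_256_512_660_20 : EL := (EL.cons 4 (TM.mk (P.cons (P.cons (P.lf 22620 0 0) (P.cons (P.lf 54572 0 0) (P.cons (P.lf 29265 0 0) (P.cons (P.lf 0 5616 0) (P.cons (P.lf 0 1319 0) (P.cons (P.lf 97 0 0) P.nil)))))) (P.cons (P.cons (P.lf 0 55448 0) (P.cons (P.lf 0 147866 0) (P.cons (P.lf 0 87798 0) (P.cons (P.lf 16356 0 0) (P.cons (P.lf 3916 0 0) P.nil))))) (P.cons (P.cons (P.lf 32266 0 0) (P.cons (P.lf 115902 0 0) (P.cons (P.lf 87304 0 0) (P.cons (P.lf 0 15292 0) P.nil)))) (P.cons (P.cons (P.lf 9525 0 0) (P.cons (P.lf 0 6533 0) (P.cons (P.lf 0 27780 0) P.nil))) (P.cons (P.cons (P.lf 0 7052 0) (P.cons (P.lf 0 15753 0) P.nil)) (P.cons (P.cons (P.lf 0 1986 0) P.nil) P.nil)))))) 18733)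
 (EL.cons 8 (TM.mk (P.cons (P.cons (P.lf 205681 0 0) (P.cons (P.lf 496207 0 0) (P.cons (P.lf 266099 0 0) (P.cons (P.lf 0 51075 0) (P.cons (P.lf 0 12001 0) (P.cons (P.lf 891 0 0) P.nil)))))) (P.cons (P.cons (P.lf 0 298038 0) (P.cons (P.lf 0 847200 0) (P.cons (P.lf 0 531635 0) (P.cons (P.lf 97541 0 0) (P.cons (P.lf 23590 0 0) P.nil))))) (P.cons (P.cons (P.lf 0 5953 0) (P.cons (P.lf 203221 0 0) (P.cons (P.lf 260182 0 0) (P.cons (P.lf 0 41135 0) P.nil)))) (P.cons (P.cons (P.lf 81833 0 0) (P.cons (P.lf 147521 0 0) (P.cons (P.lf 10152 0 0) P.nil))) (P.cons (P.cons (P.lf 17572 0 0) (P.cons (P.lf 3019 0 0) P.nil)) (P.cons (P.cons (P.lf 0 724 0) P.nil) P.nil)))))) 33091)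
 EL.nil))
noncomputable def S241_256_512_660_21 : EL := (EL.cons 4 (TM.mk (P.cons (P.cons (P.lf 2492881395 0 0) (P.cons (P.lf 142754175 0 0) (P.cons (P.lf 0 9544209 0) (P.lf 0 3181401 0)))) (P.cons (P.cons (P.lf 0 3407985 0) (P.cons (P.lf 0 140610285 0) (P.cons (P.lf 9400872 0 0) (P.lf 3133620 0 0)))) (P.cons (P.cons (P.lf 0 73402671 0) (P.cons (P.lf 0 3199413 0) (P.cons (P.lf 213903 0 0) (P.lf 71298 0 0)))) (P.cons (P.cons (P.lf 0 577545 0) (P.cons (P.lf 1039185 0 0) (P.cons (P.lf 0 69477 0) P.nil))) (P.cons (P.cons (P.lf 423189 0 0) (P.cons (P.lf 20301 0 0) P.nil)) (P.cons (P.cons (P.lf 4098 0 0) P.nil) P.nil)))))) 32169)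
 (EL.cons 8 (TM.mk (P.cons (P.cons (P.lf 0 97482771 0) (P.cons (P.lf 0 5582328 0) (P.cons (P.lf 373224 0 0) (P.lf 124413 0 0)))) (P.cons (P.cons (P.lf 97825425 0 0) (P.cons (P.lf 11092797 0 0) (P.cons (P.lf 0 741636 0) (P.lf 0 247209 0)))) (P.cons (P.cons (P.lf 2422269 0 0) (P.cons (P.lf 0 5403195 0) (P.cons (P.lf 361245 0 0) (P.lf 120414 0 0)))) (P.cons (P.cons (P.lf 0 2747916 0) (P.cons (P.lf 0 142221 0) (P.cons (P.lf 9504 0 0) P.nil))) (P.cons (P.cons (P.lf 0 30627 0) (P.cons (P.lf 34338 0 0) P.nil)) (P.cons (P.cons (P.lf 13488 0 0) P.nil) P.nil)))))) 13146)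
 (EL.cons 11 (TM.mk (P.cons (P.cons (P.lf 2975027220 0 0) (P.cons (P.lf 0 460608921 0) (P.cons (P.lf 0 221906853 0) (P.cons (P.lf 8397606 0 0) (P.lf 2099400 0 0))))) (P.cons (P.cons (P.lf 25534887 0 0) (P.cons (P.lf 0 3953442 0) (P.cons (P.lf 0 1904643 0) (P.cons (P.lf 72075 0 0) (P.lf 18018 0 0))))) (P.cons (P.cons (P.lf 0 12657918 0) (P.cons (P.lf 1959762 0 0) (P.cons (P.lf 944151 0 0) (P.cons (P.lf 0 35727 0) P.nil)))) (P.cons (P.cons (P.lf 0 109170 0) (P.cons (P.lf 16902 0 0) (P.cons (P.lf 8142 0 0) P.nil))) (P.cons (P.cons (P.lf 26844 0 0) (P.cons (P.lf 0 4155 0) P.nil)) (P.cons (P.cons (P.lf 258 0 0) P.nil) P.nil)))))) 11826)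
 EL.nil)))
noncomputable def S241_256_512_660_22 : EL := (EL.cons 4 (TM.mk (P.cons (P.cons (P.lf 0 417268101 0) (P.cons (P.lf 0 527224332 0) (P.cons (P.lf 6425955 0 0) (P.cons (P.lf 15603741 0 0) (P.cons (P.lf 1155855 0 0) (P.cons (P.lf 0 85890 0) P.nil)))))) (P.cons (P.cons (P.lf 0 112591287 0) (P.cons (P.lf 11263635 0 0) (P.cons (P.lf 27266019 0 0) (P.cons (P.lf 0 3997599 0) (P.cons (P.lf 0 1123614 0) P.nil))))) (P.cons (P.cons (P.lf 12640014 0 0) (P.cons (P.lf 24957513 0 0) (P.cons (P.lf 0 473949 0) (P.cons (P.lf 0 715938 0) P.nil)))) (P.cons (P.cons (P.lf 4498311 0 0) (P.cons (P.lf 365892 0 0) (P.cons (P.lf 0 403989 0) P.nil))) (P.cons (P.cons (P.lf 0 46998 0) (P.cons (P.lf 0 299202 0) P.nil)) (P.cons (P.cons (P.lf 0 54603 0) P.nil) P.nil)))))) 327837)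
 (EL.cons 8 (TM.mk (P.cons (P.cons (P.lf 16317042 0 0) (P.cons (P.lf 20616819 0 0) (P.cons (P.lf 0 251283 0) (P.cons (P.lf 0 610176 0) (P.cons (P.lf 0 45198 0) (P.cons (P.lf 3357 0 0) P.nil)))))) (P.cons (P.cons (P.lf 0 11949267 0) (P.cons (P.lf 0 21101559 0) (P.cons (P.lf 0 814398 0) (P.cons (P.lf 767808 0 0) (P.cons (P.lf 89232 0 0) P.nil))))) (P.cons (P.cons (P.lf 0 4853907 0) (P.cons (P.lf 0 468021 0) (P.cons (P.lf 1086234 0 0) (P.cons (P.lf 0 130632 0) P.nil)))) (P.cons (P.cons (P.lf 315966 0 0) (P.cons (P.lf 939978 0 0) (P.cons (P.lf 0 5943 0) P.nil))) (P.cons (P.cons (P.lf 171849 0 0) (P.cons (P.lf 23487 0 0) P.nil)) (P.cons (P.cons (P.lf 270 0 0) P.nil) P.nil)))))) 137532)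
 (EL.cons 11 (TM.mk (P.cons (P.cons (P.lf 0 497971530 0) (P.cons (P.lf 0 523579590 0) (P.cons (P.lf 170303613 0 0) (P.cons (P.lf 50567745 0 0) (P.cons (P.lf 0 7115049 0) (P.cons (P.lf 0 1309029 0) P.nil)))))) (P.cons (P.cons (P.lf 0 139322361 0) (P.cons (P.lf 8681436 0 0) (P.cons (P.lf 13249338 0 0) (P.cons (P.lf 721962 0 0) (P.cons (P.lf 0 243447 0) P.nil))))) (P.cons (P.cons (P.lf 1196958 0 0) (P.cons (P.lf 6121005 0 0) (P.cons (P.lf 0 1487283 0) (P.cons (P.lf 0 542271 0) P.nil)))) (P.cons (P.cons (P.lf 1871703 0 0) (P.cons (P.lf 0 152541 0) (P.cons (P.lf 0 170031 0) P.nil))) (P.cons (P.cons (P.lf 16305 0 0) (P.cons (P.lf 0 35574 0) P.nil)) (P.cons (P.cons (P.lf 0 10416 0) P.nil) P.nil)))))) 244050)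
 EL.nil)))
noncomputable def S241_256_512_660_23 : EL := (EL.cons 4 (TM.mk (P.cons (P.cons (P.lf 0 145910721 0) (P.cons (P.lf 0 8355537 0) (P.cons (P.lf 558630 0 0) (P.lf 186210 0 0)))) (P.cons (P.cons (P.lf 145797438 0 0) (P.cons (P.lf 16567680 0 0) (P.cons (P.lf 0 1107675 0) (P.lf 0 369225 0)))) (P.cons (P.cons (P.lf 4565742 0 0) (P.cons (P.lf 0 7998321 0) (P.cons (P.lf 534747 0 0) (P.lf 178248 0 0)))) (P.cons (P.cons (P.lf 0 4408992 0) (P.cons (P.lf 0 282987 0) (P.cons (P.lf 18918 0 0) P.nil))) (P.cons (P.cons (P.lf 0 72915 0) (P.cons (P.lf 67599 0 0) P.nil)) (P.cons (P.cons (P.lf 29094 0 0) P.nil) P.nil)))))) 15864)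
 (EL.cons 8 (TM.mk (P.cons (P.cons (P.lf 5705757 0 0) (P.cons (P.lf 326736 0 0) (P.cons (P.lf 0 21843 0) (P.lf 0 7281 0)))) (P.cons (P.cons (P.lf 0 11419344 0) (P.cons (P.lf 0 975309 0) (P.cons (P.lf 65205 0 0) (P.lf 21735 0 0)))) (P.cons (P.cons (P.lf 5553444 0 0) (P.cons (P.lf 963084 0 0) (P.cons (P.lf 0 64389 0) (P.lf 0 21462 0)))) (P.cons (P.cons (P.lf 326757 0 0) (P.cons (P.lf 0 304818 0) (P.cons (P.lf 20379 0 0) P.nil))) (P.cons (P.cons (P.lf 0 164295 0) (P.cons (P.lf 0 12018 0) P.nil)) (P.cons (P.cons (P.lf 0 3282 0) P.nil) P.nil)))))) 12795)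
 (EL.cons 11 (TM.mk (P.cons (P.cons (P.lf 0 174131175 0) (P.cons (P.lf 26959878 0 0) (P.cons (P.lf 12988419 0 0) (P.cons (P.lf 0 491517 0) (P.lf 0 122877 0))))) (P.cons (P.cons (P.lf 172263351 0 0) (P.cons (P.lf 0 26670690 0) (P.cons (P.lf 0 12849096 0) (P.cons (P.lf 486246 0 0) (P.lf 121560 0 0))))) (P.cons (P.cons (P.lf 2791323 0 0) (P.cons (P.lf 0 432165 0) (P.cons (P.lf 0 208203 0) (P.cons (P.lf 7878 0 0) P.nil)))) (P.cons (P.cons (P.lf 0 913125 0) (P.cons (P.lf 141372 0 0) (P.cons (P.lf 68109 0 0) P.nil))) (P.cons (P.cons (P.lf 0 12906 0) (P.cons (P.lf 1998 0 0) P.nil)) (P.cons (P.cons (P.lf 2502 0 0) P.nil) P.nil)))))) 7056)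
 EL.nil)))
noncomputable def S241_256_512_660_24 : EL := (EL.cons 4 (TM.mk (P.cons (P.cons (P.lf 24423099 0 0) (P.cons (P.lf 30858942 0 0) (P.cons (P.lf 0 376116 0) (P.cons (P.lf 0 913299 0) (P.cons (P.lf 0 67653 0) (P.cons (P.lf 5025 0 0) P.nil)))))) (P.cons (P.cons (P.lf 0 17780673 0) (P.cons (P.lf 0 31452066 0) (P.cons (P.lf 0 1220595 0) (P.cons (P.lf 1145325 0 0) (P.cons (P.lf 133272 0 0) P.nil))))) (P.cons (P.cons (P.lf 0 7394193 0) (P.cons (P.lf 0 902004 0) (P.cons (P.lf 1621431 0 0) (P.cons (P.lf 0 188643 0) P.nil)))) (P.cons (P.cons (P.lf 479748 0 0) (P.cons (P.lf 1471143 0 0) (P.cons (P.lf 687 0 0) P.nil))) (P.cons (P.cons (P.lf 274992 0 0) (P.cons (P.lf 43047 0 0) P.nil)) (P.cons (P.cons (P.lf 519 0 0) P.nil) P.nil)))))) 216807)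
 (EL.cons 8 (TM.mk (P.cons (P.cons (P.lf 0 955050 0) (P.cons (P.lf 0 1206720 0) (P.cons (P.lf 14706 0 0) (P.cons (P.lf 35712 0 0) (P.cons (P.lf 2643 0 0) (P.cons (P.lf 0 195 0) P.nil)))))) (P.cons (P.cons (P.lf 1652406 0 0) (P.cons (P.lf 2439228 0 0) (P.cons (P.lf 32991 0 0) (P.cons (P.lf 0 80577 0) (P.cons (P.lf 0 7860 0) P.nil))))) (P.cons (P.cons (P.lf 0 410730 0) (P.cons (P.lf 0 1201179 0) (P.cons (P.lf 0 111189 0) (P.cons (P.lf 52374 0 0) P.nil)))) (P.cons (P.cons (P.lf 0 305247 0) (P.cons (P.lf 0 87600 0) (P.cons (P.lf 63651 0 0) P.nil))) (P.cons (P.cons (P.lf 8220 0 0) (P.cons (P.lf 54741 0 0) P.nil)) (P.cons (P.cons (P.lf 10386 0 0) P.nil) P.nil)))))) 43401)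
 (EL.cons 11 (TM.mk (P.cons (P.cons (P.lf 29146746 0 0) (P.cons (P.lf 30645609 0 0) (P.cons (P.lf 0 9968031 0) (P.cons (P.lf 0 2959776 0) (P.cons (P.lf 416448 0 0) (P.cons (P.lf 76617 0 0) P.nil)))))) (P.cons (P.cons (P.lf 0 20929599 0) (P.cons (P.lf 0 31088055 0) (P.cons (P.lf 9171168 0 0) (P.cons (P.lf 2911176 0 0) (P.cons (P.lf 0 401307 0) P.nil))))) (P.cons (P.cons (P.lf 0 8300826 0) (P.cons (P.lf 50382 0 0) (P.cons (P.lf 892887 0 0) (P.cons (P.lf 83406 0 0) P.nil)))) (P.cons (P.cons (P.lf 0 34854 0) (P.cons (P.lf 400620 0 0) (P.cons (P.lf 0 85014 0) P.nil))) (P.cons (P.cons (P.lf 117417 0 0) (P.cons (P.lf 0 6039 0) P.nil)) (P.cons (P.cons (P.lf 1851 0 0) P.nil) P.nil)))))) 190506)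
 EL.nil)))
noncomputable def S241_256_512_660_25 : EL := (EL.cons 4 (TM.mk (P.cons (P.cons (P.lf 8540292 0 0) (P.cons (P.lf 489057 0 0) (P.cons (P.lf 0 32697 0) (P.lf 0 10899 0)))) (P.cons (P.cons (P.lf 0 17055648 0) (P.cons (P.lf 0 1457730 0) (P.cons (P.lf 97458 0 0) (P.lf 32484 0 0)))) (P.cons (P.cons (P.lf 8220714 0 0) (P.cons (P.lf 1434222 0 0) (P.cons (P.lf 0 95886 0) (P.lf 0 31962 0)))) (P.cons (P.cons (P.lf 561198 0 0) (P.cons (P.lf 0 446949 0) (P.cons (P.lf 29880 0 0) P.nil))) (P.cons (P.cons (P.lf 0 261399 0) (P.cons (P.lf 0 23013 0) P.nil)) (P.cons (P.cons (P.lf 0 7131 0) P.nil) P.nil)))))) 20940)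
 (EL.cons 8 (TM.mk (P.cons (P.cons (P.lf 0 333963 0) (P.cons (P.lf 0 19122 0) (P.cons (P.lf 1278 0 0) (P.lf 426 0 0)))) (P.cons (P.cons (P.lf 1001631 0 0) (P.cons (P.lf 76167 0 0) (P.cons (P.lf 0 5091 0) (P.lf 0 1695 0)))) (P.cons (P.cons (P.lf 0 990927 0) (P.cons (P.lf 0 113271 0) (P.cons (P.lf 7572 0 0) (P.lf 2523 0 0)))) (P.cons (P.cons (P.lf 302724 0 0) (P.cons (P.lf 73887 0 0) (P.cons (P.lf 0 4938 0) P.nil))) (P.cons (P.cons (P.lf 30450 0 0) (P.cons (P.lf 0 16857 0) P.nil)) (P.cons (P.cons (P.lf 0 9681 0) P.nil) P.nil)))))) 5178)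
 (EL.cons 11 (TM.mk (P.cons (P.cons (P.lf 10192062 0 0) (P.cons (P.lf 0 1577985 0) (P.cons (P.lf 0 760224 0) (P.cons (P.lf 28767 0 0) (P.lf 7191 0 0))))) (P.cons (P.cons (P.lf 0 20252955 0) (P.cons (P.lf 3135666 0 0) (P.cons (P.lf 1510665 0 0) (P.cons (P.lf 0 57168 0) (P.lf 0 14289 0))))) (P.cons (P.cons (P.lf 9865023 0 0) (P.cons (P.lf 0 1527351 0) (P.cons (P.lf 0 735828 0) (P.cons (P.lf 27846 0 0) P.nil)))) (P.cons (P.cons (P.lf 259674 0 0) (P.cons (P.lf 0 40203 0) (P.cons (P.lf 0 19368 0) P.nil))) (P.cons (P.cons (P.lf 0 62706 0) (P.cons (P.lf 9708 0 0) P.nil)) (P.cons (P.cons (P.lf 0 1314 0) P.nil) P.nil)))))) 13998)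
 EL.nil)))
noncomputable def S241_256_512_660_26 : EL := (EL.cons 4 (TM.mk (P.cons (P.cons (P.lf 0 1429506 0) (P.cons (P.lf 0 1806201 0) (P.cons (P.lf 22014 0 0) (P.cons (P.lf 53454 0 0) (P.cons (P.lf 3957 0 0) (P.cons (P.lf 0 294 0) P.nil)))))) (P.cons (P.cons (P.lf 2467161 0 0) (P.cons (P.lf 3643251 0 0) (P.cons (P.lf 49473 0 0) (P.cons (P.lf 0 120378 0) (P.cons (P.lf 0 11751 0) P.nil))))) (P.cons (P.cons (P.lf 0 601107 0) (P.cons (P.lf 0 1778376 0) (P.cons (P.lf 0 166263 0) (P.cons (P.lf 77760 0 0) P.nil)))) (P.cons (P.cons (P.lf 0 464799 0) (P.cons (P.lf 0 146616 0) (P.cons (P.lf 94452 0 0) P.nil))) (P.cons (P.cons (P.lf 11631 0 0) (P.cons (P.lf 85179 0 0) P.nil)) (P.cons (P.cons (P.lf 16587 0 0) P.nil) P.nil)))))) 66390)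
 (EL.cons 8 (TM.mk (P.cons (P.cons (P.lf 55899 0 0) (P.cons (P.lf 70629 0 0) (P.cons (P.lf 0 858 0) (P.cons (P.lf 0 2088 0) (P.cons (P.lf 0 153 0) (P.cons (P.lf 9 0 0) P.nil)))))) (P.cons (P.cons (P.lf 0 152496 0) (P.cons (P.lf 0 213249 0) (P.cons (P.lf 0 1071 0) (P.cons (P.lf 6801 0 0) (P.cons (P.lf 612 0 0) P.nil))))) (P.cons (P.cons (P.lf 120369 0 0) (P.cons (P.lf 212541 0 0) (P.cons (P.lf 8436 0 0) (P.cons (P.lf 0 7764 0) P.nil)))) (P.cons (P.cons (P.lf 0 5751 0) (P.cons (P.lf 0 64494 0) (P.cons (P.lf 0 10212 0) P.nil))) (P.cons (P.cons (P.lf 0 18489 0) (P.cons (P.lf 0 8697 0) P.nil)) (P.cons (P.cons (P.lf 0 159 0) P.nil) P.nil)))))) 17004)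
 (EL.cons 11 (TM.mk (P.cons (P.cons (P.lf 0 1705986 0) (P.cons (P.lf 0 1793715 0) (P.cons (P.lf 583437 0 0) (P.cons (P.lf 173238 0 0) (P.cons (P.lf 0 24375 0) (P.cons (P.lf 0 4482 0) P.nil)))))) (P.cons (P.cons (P.lf 2927358 0 0) (P.cons (P.lf 3609483 0 0) (P.cons (P.lf 0 1118982 0) (P.cons (P.lf 0 343260 0) (P.cons (P.lf 47811 0 0) P.nil))))) (P.cons (P.cons (P.lf 0 731070 0) (P.cons (P.lf 0 1812900 0) (P.cons (P.lf 481509 0 0) (P.cons (P.lf 164589 0 0) P.nil)))) (P.cons (P.cons (P.lf 0 488517 0) (P.cons (P.lf 0 28251 0) (P.cons (P.lf 59466 0 0) P.nil))) (P.cons (P.cons (P.lf 0 9174 0) (P.cons (P.lf 25683 0 0) P.nil)) (P.cons (P.cons (P.lf 7266 0 0) P.nil) P.nil)))))) 68169)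
 EL.nil)))
noncomputable def S241_256_512_660_27 : EL := (EL.cons 13 (TM.mk (P.lf 0 4294967296 0) 0)
 EL.nil)
noncomputable def S241_256_512_660_28 : EL := (EL.cons 13 (TM.mk (P.cons (P.cons (P.lf 718908192 0 0) (P.cons (P.lf 867182904 0 0) (P.cons (P.lf 0 57977828 0) (P.lf 0 19325940 0)))) (P.cons (P.cons (P.lf 194965527 0 0) (P.cons (P.lf 11164644 0 0) (P.cons (P.lf 0 746440 0) (P.lf 0 248812 0)))) (P.cons (P.cons (P.lf 0 342667 0) (P.cons (P.lf 0 5510476 0) (P.cons (P.lf 368416 0 0) (P.lf 122804 0 0)))) (P.cons (P.cons (P.lf 0 1843283 0) (P.cons (P.lf 0 71516 0) (P.cons (P.lf 4780 0 0) P.nil))) (P.cons (P.cons (P.lf 0 8509 0) (P.cons (P.lf 17468 0 0) P.nil)) (P.cons (P.cons (P.lf 5435 0 0) P.nil) P.nil)))))) 3980)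
 EL.nil)
noncomputable def S241_256_512_660_29 : EL := (EL.cons 13 (TM.mk (P.cons (P.cons (P.lf 0 120333626 0) (P.cons (P.lf 0 290304838 0) (P.cons (P.lf 0 155680980 0) (P.cons (P.lf 29881930 0 0) (P.cons (P.lf 7021432 0 0) (P.cons (P.lf 0 521762 0) P.nil)))))) (P.cons (P.cons (P.lf 0 65268163 0) (P.cons (P.lf 0 82467275 0) (P.cons (P.lf 1005135 0 0) (P.cons (P.lf 2440701 0 0) (P.cons (P.lf 180795 0 0) P.nil))))) (P.cons (P.cons (P.lf 0 8735541 0) (P.cons (P.lf 969488 0 0) (P.cons (P.lf 2131365 0 0) (P.cons (P.lf 0 315268 0) P.nil)))) (P.cons (P.cons (P.lf 648181 0 0) (P.cons (P.lf 1270349 0 0) (P.cons (P.lf 0 27404 0) P.nil))) (P.cons (P.cons (P.lf 170168 0 0) (P.cons (P.lf 12784 0 0) P.nil)) (P.cons (P.cons (P.lf 0 1341 0) P.nil) P.nil)))))) 291492)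
 EL.nil)
noncomputable def S241_256_512_660_30 : EL := (EL.cons 13 (TM.mk (P.cons (P.lf 251388528 0 0) (P.cons (P.lf 0 250849684 0) (P.cons (P.lf 0 807108 0) (P.cons (P.lf 267112 0 0) (P.cons (P.lf 1436 0 0) (P.cons (P.lf 0 280 0) P.nil)))))) 32)
 EL.nil)
noncomputable def S241_256_512_660_31 : EL := (EL.cons 13 (TM.mk (P.cons (P.cons (P.lf 0 42078381 0) (P.cons (P.lf 0 50757041 0) (P.cons (P.lf 3393497 0 0) (P.lf 1131165 0 0)))) (P.cons (P.cons (P.lf 30576669 0 0) (P.cons (P.lf 49994768 0 0) (P.cons (P.lf 0 3342533 0) (P.lf 0 1114177 0)))) (P.cons (P.cons (P.lf 11542211 0 0) (P.cons (P.lf 1137570 0 0) (P.cons (P.lf 0 76055 0) (P.lf 0 25351 0)))) (P.cons (P.cons (P.lf 79803 0 0) (P.cons (P.lf 0 369489 0) (P.cons (P.lf 24703 0 0) P.nil))) (P.cons (P.cons (P.lf 0 119589 0) (P.cons (P.lf 0 7219 0) P.nil)) (P.cons (P.cons (P.lf 0 1158 0) P.nil) P.nil)))))) 11314)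
 EL.nil)
noncomputable def S241_256_512_660_32 : EL := (EL.cons 13 (TM.mk (P.cons (P.cons (P.lf 7043241 0 0) (P.cons (P.lf 16991818 0 0) (P.cons (P.lf 9112156 0 0) (P.cons (P.lf 0 1749017 0) (P.cons (P.lf 0 410971 0) (P.cons (P.lf 30539 0 0) P.nil)))))) (P.cons (P.cons (P.lf 0 3207937 0) (P.cons (P.lf 0 12128509 0) (P.cons (P.lf 0 9151455 0) (P.cons (P.lf 1602412 0 0) (P.cons (P.lf 399508 0 0) P.nil))))) (P.cons (P.cons (P.lf 0 3323332 0) (P.cons (P.lf 0 4927840 0) (P.cons (P.lf 0 95300 0) (P.cons (P.lf 166618 0 0) P.nil)))) (P.cons (P.cons (P.lf 0 552923 0) (P.cons (P.lf 0 15173 0) (P.cons (P.lf 135958 0 0) P.nil))) (P.cons (P.cons (P.lf 30355 0 0) (P.cons (P.lf 78855 0 0) P.nil)) (P.cons (P.cons (P.lf 10696 0 0) P.nil) P.nil)))))) 101745)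
 EL.nil)
noncomputable def S241_256_512_660_33 : EL := (EL.cons 14 (TM.mk (P.lf 8589934592 0 0) 0)
 EL.nil)
noncomputable def S241_256_512_660_34 : EL := (EL.cons 14 (TM.mk (P.cons (P.cons (P.lf 0 1437816384 0) (P.cons (P.lf 0 1734365808 0) (P.cons (P.lf 115955656 0 0) (P.lf 38651880 0 0)))) (P.cons (P.cons (P.lf 0 389931054 0) (P.cons (P.lf 0 22329288 0) (P.cons (P.lf 1492880 0 0) (P.lf 497624 0 0)))) (P.cons (P.cons (P.lf 685334 0 0) (P.cons (P.lf 11020952 0 0) (P.cons (P.lf 0 736832 0) (P.lf 0 245608 0)))) (P.cons (P.cons (P.lf 3686566 0 0) (P.cons (P.lf 143032 0 0) (P.cons (P.lf 0 9560 0) P.nil))) (P.cons (P.cons (P.lf 17018 0 0) (P.cons (P.lf 0 34936 0) P.nil)) (P.cons (P.cons (P.lf 0 10870 0) P.nil) P.nil)))))) 7960)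
 EL.nil)
noncomputable def S241_256_512_660_35 : EL := (EL.cons 14 (TM.mk (P.cons (P.cons (P.lf 240667252 0 0) (P.cons (P.lf 580609676 0 0) (P.cons (P.lf 311361960 0 0) (P.cons (P.lf 0 59763860 0) (P.cons (P.lf 0 14042864 0) (P.cons (P.lf 1043524 0 0) P.nil)))))) (P.cons (P.cons (P.lf 130536326 0 0) (P.cons (P.lf 164934550 0 0) (P.cons (P.lf 0 2010270 0) (P.cons (P.lf 0 4881402 0) (P.cons (P.lf 0 361590 0) P.nil))))) (P.cons (P.cons (P.lf 17471082 0 0) (P.cons (P.lf 0 1938976 0) (P.cons (P.lf 0 4262730 0) (P.cons (P.lf 630536 0 0) P.nil)))) (P.cons (P.cons (P.lf 0 1296362 0) (P.cons (P.lf 0 2540698 0) (P.cons (P.lf 54808 0 0) P.nil))) (P.cons (P.cons (P.lf 0 340336 0) (P.cons (P.lf 0 25568 0) P.nil)) (P.cons (P.cons (P.lf 2682 0 0) P.nil) P.nil)))))) 582984)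
 EL.nil)
noncomputable def S241_256_512_660_36 : EL := (EL.cons 14 (TM.mk (P.cons (P.lf 0 502777056 0) (P.cons (P.lf 501699368 0 0) (P.cons (P.lf 1614216 0 0) (P.cons (P.lf 0 534224 0) (P.cons (P.lf 0 2872 0) (P.cons (P.lf 560 0 0) P.nil)))))) 64)
 EL.nil)
noncomputable def S241_256_512_660_37 : EL := (EL.cons 14 (TM.mk (P.cons (P.cons (P.lf 84156762 0 0) (P.cons (P.lf 101514082 0 0) (P.cons (P.lf 0 6786994 0) (P.lf 0 2262330 0)))) (P.cons (P.cons (P.lf 0 61153338 0) (P.cons (P.lf 0 99989536 0) (P.cons (P.lf 6685066 0 0) (P.lf 2228354 0 0)))) (P.cons (P.cons (P.lf 0 23084422 0) (P.cons (P.lf 0 2275140 0) (P.cons (P.lf 152110 0 0) (P.lf 50702 0 0)))) (P.cons (P.cons (P.lf 0 159606 0) (P.cons (P.lf 738978 0 0) (P.cons (P.lf 0 49406 0) P.nil))) (P.cons (P.cons (P.lf 239178 0 0) (P.cons (P.lf 14438 0 0) P.nil)) (P.cons (P.cons (P.lf 2316 0 0) P.nil) P.nil))))))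 22628)
 EL.nil)
noncomputable def S241_256_512_660_38 : EL := (EL.cons 14 (TM.mk (P.cons (P.cons (P.lf 0 14086482 0) (P.cons (P.lf 0 33983636 0) (P.cons (P.lf 0 18224312 0) (P.cons (P.lf 3498034 0 0) (P.cons (P.lf 821942 0 0) (P.cons (P.lf 0 61078 0) P.nil)))))) (P.cons (P.cons (P.lf 6415874 0 0) (P.cons (P.lf 24257018 0 0) (P.cons (P.lf 18302910 0 0) (P.cons (P.lf 0 3204824 0) (P.cons (P.lf 0 799016 0) P.nil))))) (P.cons (P.cons (P.lf 6646664 0 0) (P.cons (P.lf 9855680 0 0) (P.cons (P.lf 190600 0 0) (P.cons (P.lf 0 333236 0) P.nil)))) (P.cons (P.cons (P.lf 1105846 0 0) (P.cons (P.lf 30346 0 0) (P.cons (P.lf 0 271916 0) P.nil))) (P.cons (P.cons (P.lf 0 60710 0) (P.cons (P.lf 0 157710 0) P.nil)) (P.cons (P.cons (P.lf 0 21392 0) P.nil) P.nil)))))) 203490)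
 EL.nil)
noncomputable def S241_256_512_660_39 : EL := (EL.cons 14 (TM.mk (P.cons (P.lf 29428020 0 0) (P.cons (P.lf 0 58729884 0) (P.cons (P.lf 29113034 0 0) (P.cons (P.lf 251094 0 0) (P.cons (P.lf 0 61762 0) (P.cons (P.lf 0 600 0) P.nil)))))) 128)
 EL.nil)
noncomputable def S241_256_512_660_40 : EL := (EL.cons 14 (TM.mk (P.cons (P.cons (P.lf 0 4925774 0) (P.cons (P.lf 0 5941714 0) (P.cons (P.lf 397248 0 0) (P.lf 132416 0 0)))) (P.cons (P.cons (P.lf 8494580 0 0) (P.cons (P.lf 11781462 0 0) (P.cons (P.lf 0 787680 0) (P.lf 0 262560 0)))) (P.cons (P.cons (P.lf 0 2204722 0) (P.cons (P.lf 0 5687694 0) (P.cons (P.lf 380266 0 0) (P.lf 126754 0 0)))) (P.cons (P.cons (P.lf 0 1355640 0) (P.cons (P.lf 0 201236 0) (P.cons (P.lf 13454 0 0) P.nil))) (P.cons (P.cons (P.lf 0 23884 0) (P.cons (P.lf 48072 0 0) P.nil)) (P.cons (P.cons (P.lf 15264 0 0) P.nil) P.nil)))))) 11226)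
 EL.nil)
noncomputable def S241_256_512_660_41 : EL := (EL.cons 14 (TM.mk (P.cons (P.cons (P.lf 824494 0 0) (P.cons (P.lf 1989094 0 0) (P.cons (P.lf 1066686 0 0) (P.cons (P.lf 0 204742 0) (P.cons (P.lf 0 48108 0) (P.cons (P.lf 3574 0 0) P.nil)))))) (P.cons (P.cons (P.lf 0 1198254 0) (P.cons (P.lf 0 3404616 0) (P.cons (P.lf 0 2135686 0) (P.cons (P.lf 391884 0 0) (P.cons (P.lf 94772 0 0) P.nil))))) (P.cons (P.cons (P.lf 0 16960 0) (P.cons (P.lf 833494 0 0) (P.cons (P.lf 1054408 0 0) (P.cons (P.lf 0 167016 0) P.nil)))) (P.cons (P.cons (P.lf 325556 0 0) (P.cons (P.lf 580520 0 0) (P.cons (P.lf 31620 0 0) P.nil))) (P.cons (P.cons (P.lf 68994 0 0) (P.cons (P.lf 11358 0 0) P.nil)) (P.cons (P.cons (P.lf 0 2502 0) P.nil) P.nil)))))) 125098)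
 EL.nil)
noncomputable def S241_256_512_660_42 : EL := (EL.cons 14 (TM.mk (P.cons (P.lf 0 1722450 0) (P.cons (P.lf 5156274 0 0) (P.cons (P.lf 0 5128630 0) (P.cons (P.lf 1672796 0 0) (P.cons (P.lf 27392 0 0) (P.cons (P.lf 0 5312 0) P.nil)))))) 110)
 EL.nil)
noncomputable def S241_256_512_660_43 : EL := (EL.cons 14 (TM.mk (P.cons (P.cons (P.lf 288310 0 0) (P.cons (P.lf 347774 0 0) (P.cons (P.lf 0 23250 0) (P.lf 0 7750 0)))) (P.cons (P.cons (P.lf 0 784888 0) (P.cons (P.lf 0 1036608 0) (P.cons (P.lf 69304 0 0) (P.lf 23100 0 0)))) (P.cons (P.cons (P.lf 624248 0 0) (P.cons (P.lf 1019890 0 0) (P.cons (P.lf 0 68186 0) (P.lf 0 22728 0)))) (P.cons (P.cons (P.lf 0 47518 0) (P.cons (P.lf 0 317830 0) (P.cons (P.lf 21248 0 0) P.nil))) (P.cons (P.cons (P.lf 0 78718 0) (P.cons (P.lf 0 16366 0) P.nil)) (P.cons (P.cons (P.lf 0 2408 0) P.nil) P.nil)))))) 14360)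
 EL.nil)
noncomputable def S241_256_512_660_44 : EL := (EL.cons 14 (TM.mk (P.cons (P.cons (P.lf 0 48258 0) (P.cons (P.lf 0 116422 0) (P.cons (P.lf 0 62434 0) (P.cons (P.lf 11982 0 0) (P.cons (P.lf 2814 0 0) (P.cons (P.lf 0 208 0) P.nil)))))) (P.cons (P.cons (P.lf 118290 0 0) (P.cons (P.lf 315448 0 0) (P.cons (P.lf 187304 0 0) (P.cons (P.lf 0 34894 0) (P.cons (P.lf 0 8356 0) P.nil))))) (P.cons (P.cons (P.lf 0 68836 0) (P.cons (P.lf 0 247258 0) (P.cons (P.lf 0 186250 0) (P.cons (P.lf 32624 0 0) P.nil)))) (P.cons (P.cons (P.lf 0 20322 0) (P.cons (P.lf 13938 0 0) (P.cons (P.lf 59264 0 0) P.nil))) (P.cons (P.cons (P.lf 15046 0 0) (P.cons (P.lf 33608 0 0) P.nil)) (P.cons (P.cons (P.lf 4238 0 0) P.nil) P.nil)))))) 39918)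
 EL.nil)
noncomputable def S241_256_512_660_45 : EL := (EL.cons 14 (TM.mk (P.cons (P.cons (P.lf 0 40283812 0) (P.cons (P.lf 0 145777030 0) (P.cons (P.lf 0 166097208 0) (P.cons (P.lf 0 43941994 0) (P.cons (P.lf 21232908 0 0) (P.cons (P.lf 3254952 0 0) P.nil)))))) (P.cons (P.cons (P.lf 0 32774510 0) (P.cons (P.lf 0 80945320 0) (P.cons (P.lf 0 46804200 0) (P.cons (P.lf 6055168 0 0) (P.cons (P.lf 2641690 0 0) P.nil))))) (P.cons (P.cons (P.lf 0 8830734 0) (P.cons (P.lf 0 10674230 0) (P.cons (P.lf 1775168 0 0) (P.cons (P.lf 1408636 0 0) P.nil)))) (P.cons (P.cons (P.lf 0 462388 0) (P.cons (P.lf 1163444 0 0) (P.cons (P.lf 1031172 0 0) P.nil))) (P.cons (P.cons (P.lf 173706 0 0) (P.cons (P.lf 287088 0 0) P.nil)) (P.cons (P.cons (P.lf 22348 0 0) P.nil) P.nil)))))) 1972354)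
 EL.nil)
noncomputable def S241_256_512_660_46 : EL := (EL.cons 15 (TM.mk (P.lf 4294967296 0 0) 0)
 EL.nil)
noncomputable def S241_256_512_660_47 : EL := (EL.cons 15 (TM.mk (P.cons (P.cons (P.lf 0 718908192 0) (P.cons (P.lf 0 867182904 0) (P.cons (P.lf 57977828 0 0) (P.lf 19325940 0 0)))) (P.cons (P.cons (P.lf 0 194965527 0) (P.cons (P.lf 0 11164644 0) (P.cons (P.lf 746440 0 0) (P.lf 248812 0 0)))) (P.cons (P.cons (P.lf 342667 0 0) (P.cons (P.lf 5510476 0 0) (P.cons (P.lf 0 368416 0) (P.lf 0 122804 0)))) (P.cons (P.cons (P.lf 1843283 0 0) (P.cons (P.lf 71516 0 0) (P.cons (P.lf 0 4780 0) P.nil))) (P.cons (P.cons (P.lf 8509 0 0) (P.cons (P.lf 0 17468 0) P.nil)) (P.cons (P.cons (P.lf 0 5435 0) P.nil) P.nil)))))) 3980)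
 EL.nil)
noncomputable def S241_256_512_660_48 : EL := (EL.cons 15 (TM.mk (P.cons (P.cons (P.lf 120333626 0 0) (P.cons (P.lf 290304838 0 0) (P.cons (P.lf 155680980 0 0) (P.cons (P.lf 0 29881930 0) (P.cons (P.lf 0 7021432 0) (P.cons (P.lf 521762 0 0) P.nil)))))) (P.cons (P.cons (P.lf 65268163 0 0) (P.cons (P.lf 82467275 0 0) (P.cons (P.lf 0 1005135 0) (P.cons (P.lf 0 2440701 0) (P.cons (P.lf 0 180795 0) P.nil))))) (P.cons (P.cons (P.lf 8735541 0 0) (P.cons (P.lf 0 969488 0) (P.cons (P.lf 0 2131365 0) (P.cons (P.lf 315268 0 0) P.nil)))) (P.cons (P.cons (P.lf 0 648181 0) (P.cons (P.lf 0 1270349 0) (P.cons (P.lf 27404 0 0) P.nil))) (P.cons (P.cons (P.lf 0 170168 0) (P.cons (P.lf 0 12784 0) P.nil)) (P.cons (P.cons (P.lf 1341 0 0) P.nil) P.nil)))))) 291492)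
 EL.nil)
noncomputable def S241_256_512_660 : SL := (SL.cons S241_256_512_660_0 (SL.cons S241_256_512_660_1 (SL.cons S241_256_512_660_2 (SL.cons S241_256_512_660_3 (SL.cons S241_256_512_660_4 (SL.cons S241_256_512_660_5 (SL.cons S241_256_512_660_6 (SL.cons S241_256_512_660_7 (SL.cons S241_256_512_660_8 (SL.cons S241_256_512_660_9 (SL.cons S241_256_512_660_10 (SL.cons S241_256_512_660_11 (SL.cons S241_256_512_660_12 (SL.cons S241_256_512_660_13 (SL.cons S241_256_512_660_14 (SL.cons S241_256_512_660_15 (SL.cons S241_256_512_660_16 (SL.cons S241_256_512_660_17 (SL.cons S241_256_512_660_18 (SL.cons S241_256_512_660_19 (SL.cons S241_256_512_660_20 (SL.cons S241_256_512_660_21 (SL.cons S241_256_512_660_22 (SL.cons S241_256_512_660_23 (SL.cons S241_256_512_660_24 (SL.cons S241_256_512_660_25 (SL.cons S241_256_512_660_26 (SL.cons S241_256_512_660_27 (SL.cons S241_256_512_660_28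 (SL.cons S241_256_512_660_29 (SL.cons S241_256_512_660_30 (SL.cons S241_256_512_660_31 (SL.cons S241_256_512_660_32 (SL.cons S241_256_512_660_33 (SL.cons S241_256_512_660_34 (SL.cons S241_256_512_660_35 (SL.cons S241_256_512_660_36 (SL.cons S241_256_512_660_37 (SL.cons S241_256_512_660_38 (SL.cons S241_256_512_660_39 (SL.cons S241_256_512_660_40 (SL.cons S241_256_512_660_41 (SL.cons S241_256_512_660_42 (SL.cons S241_256_512_660_43 (SL.cons S241_256_512_660_44 (SL.cons S241_256_512_660_45 (SL.cons S241_256_512_660_46 (SL.cons S241_256_512_660_47 (SL.cons S241_256_512_660_48 SL.nil)))))))))))))))))))))))))))))))))))))))))))))))))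
noncomputable def S241_256_586_660_0 : EL := (EL.cons 0 (TM.mk (P.cons (P.lf 8429852393 0 0) (P.cons (P.lf 51618062 0 0) (P.cons (P.lf 0 25587627 0) (P.cons (P.lf 0 220688 0) (P.cons (P.lf 54283 0 0) (P.cons (P.lf 527 0 0) P.nil)))))) 119)
 (EL.cons 1 (TM.mk (P.cons (P.lf 0 235171578 0) (P.cons (P.lf 233658247 0 0) (P.cons (P.lf 2264585 0 0) (P.cons (P.lf 0 745863 0) (P.cons (P.lf 0 6716 0) (P.cons (P.lf 1310 0 0) P.nil)))))) 72)
 (EL.cons 5 (TM.mk (P.cons (P.lf 4304163554 0 0) (P.cons (P.lf 0 18353086 0) (P.cons (P.lf 9097822 0 0) (P.cons (P.lf 78466 0 0) (P.cons (P.lf 0 19296 0) (P.cons (P.lf 0 186 0) P.nil)))))) 147)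
 (EL.cons 9 (TM.mk (P.lf 6442450944 0 0) 2)
 EL.nil))))
noncomputable def S241_256_586_660_1 : EL := (EL.cons 0 (TM.mk (P.cons (P.cons (P.lf 0 1947742731 0) (P.cons (P.lf 0 772721695 0) (P.cons (P.lf 42280228 0 0) (P.lf 4697801 0 0)))) (P.cons (P.cons (P.lf 0 695138020 0) (P.cons (P.lf 0 29050570 0) (P.cons (P.lf 1589519 0 0) (P.lf 176608 0 0)))) (P.cons (P.cons (P.lf 8872407 0 0) (P.cons (P.lf 14133398 0 0) (P.cons (P.lf 0 773308 0) (P.lf 0 85918 0)))) (P.cons (P.cons (P.lf 13494896 0 0) (P.cons (P.lf 388683 0 0) (P.cons (P.lf 0 21250 0) P.nil))) (P.cons (P.cons (P.lf 76725 0 0) (P.cons (P.lf 0 93194 0) P.nil)) (P.cons (P.cons (P.lf 0 81138 0) P.nil) P.nil)))))) 13746)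
 (EL.cons 1 (TM.mk (P.cons (P.cons (P.lf 1334675193 0 0) (P.cons (P.lf 54252762 0 0) (P.cons (P.lf 0 2968488 0) (P.lf 0 329827 0)))) (P.cons (P.cons (P.lf 0 69590141 0) (P.cons (P.lf 0 52923842 0) (P.cons (P.lf 2895778 0 0) (P.lf 321749 0 0)))) (P.cons (P.cons (P.lf 0 57573370 0) (P.cons (P.lf 0 1978912 0) (P.cons (P.lf 108270 0 0) (P.lf 12024 0 0)))) (P.cons (P.cons (P.lf 0 153123 0) (P.cons (P.lf 635636 0 0) (P.cons (P.lf 0 34773 0) P.nil))) (P.cons (P.cons (P.lf 598677 0 0) (P.cons (P.lf 17811 0 0) P.nil)) (P.cons (P.cons (P.lf 5202 0 0) P.nil) P.nil)))))) 12791)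
 (EL.cons 5 (TM.mk (P.cons (P.cons (P.lf 0 1237971306 0) (P.cons (P.lf 0 400758530 0) (P.cons (P.lf 21927894 0 0) (P.lf 2436436 0 0)))) (P.cons (P.cons (P.lf 0 93401062 0) (P.cons (P.lf 1632234 0 0) (P.cons (P.lf 0 89304 0) (P.lf 0 9918 0)))) (P.cons (P.cons (P.lf 1929138 0 0) (P.cons (P.lf 0 732744 0) (P.cons (P.lf 40090 0 0) (P.lf 4452 0 0)))) (P.cons (P.cons (P.lf 0 1606175 0) (P.cons (P.lf 0 82482 0) (P.cons (P.lf 4508 0 0) P.nil))) (P.cons (P.cons (P.lf 0 27084 0) (P.cons (P.lf 19524 0 0) P.nil)) (P.cons (P.cons (P.lf 19397 0 0) P.nil) P.nil)))))) 8957)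
 (EL.cons 9 (TM.mk (P.cons (P.cons (P.lf 0 1703384166 0) (P.cons (P.lf 0 596032956 0) (P.cons (P.lf 32612526 0 0) (P.lf 3623610 0 0)))) (P.cons (P.cons (P.lf 0 300495208 0) (P.cons (P.lf 0 7673688 0) (P.cons (P.lf 419868 0 0) (P.lf 46650 0 0)))) (P.cons (P.cons (P.lf 4485676 0 0) (P.cons (P.lf 3787464 0 0) (P.cons (P.lf 0 207228 0) (P.lf 0 23022 0)))) (P.cons (P.cons (P.lf 2816470 0 0) (P.cons (P.lf 49152 0 0) (P.cons (P.lf 0 2682 0) P.nil))) (P.cons (P.cons (P.lf 169 0 0) (P.cons (P.lf 0 12006 0) P.nil)) (P.cons (P.cons (P.lf 0 8326 0) P.nil) P.nil)))))) 2017)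
 (EL.cons 2 (TM.mk (P.cons (P.cons (P.lf 147631173 0 0) (P.cons (P.lf 0 18524162 0) (P.cons (P.lf 0 2828160 0) (P.cons (P.lf 86397 0 0) (P.lf 7197 0 0))))) (P.cons (P.cons (P.lf 0 146047601 0) (P.cons (P.lf 18325462 0 0) (P.cons (P.lf 2797824 0 0) (P.cons (P.lf 0 85471 0) (P.lf 0 7121 0))))) (P.cons (P.cons (P.lf 0 2366527 0) (P.cons (P.lf 296940 0 0) (P.cons (P.lf 45334 0 0) (P.cons (P.lf 0 1383 0) P.nil)))) (P.cons (P.cons (P.lf 774160 0 0) (P.cons (P.lf 0 97138 0) (P.cons (P.lf 0 14830 0) P.nil))) (P.cons (P.cons (P.lf 10943 0 0) (P.cons (P.lf 0 1372 0) P.nil)) (P.cons (P.cons (P.lf 0 2123 0) P.nil) P.nil)))))) 1323)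
 (EL.cons 6 (TM.mk (P.cons (P.cons (P.lf 1342330056 0 0) (P.cons (P.lf 0 168430164 0) (P.cons (P.lf 0 25714926 0) (P.cons (P.lf 785586 0 0) (P.lf 65463 0 0))))) (P.cons (P.cons (P.lf 17281980 0 0) (P.cons (P.lf 0 2168472 0) (P.cons (P.lf 0 331068 0) (P.cons (P.lf 10110 0 0) (P.lf 840 0 0))))) (P.cons (P.cons (P.lf 0 8529780 0) (P.cons (P.lf 1070280 0 0) (P.cons (P.lf 163401 0 0) (P.cons (P.lf 0 4989 0) P.nil)))) (P.cons (P.cons (P.lf 0 110703 0) (P.cons (P.lf 13890 0 0) (P.cons (P.lf 2118 0 0) P.nil))) (P.cons (P.cons (P.lf 27042 0 0) (P.cons (P.lf 0 3390 0) P.nil)) (P.cons (P.cons (P.lf 369 0 0) P.nil) P.nil)))))) 1395)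
 EL.nil))))))
noncomputable def S241_256_586_660_2 : EL := (EL.cons 0 (TM.mk (P.cons (P.cons (P.lf 440657621 0 0) (P.cons (P.lf 356600568 0 0) (P.cons (P.lf 51313601 0 0) (P.cons (P.lf 0 9918539 0) (P.cons (P.lf 0 649133 0) (P.cons (P.lf 47126 0 0) P.nil)))))) (P.cons (P.cons (P.lf 337756863 0 0) (P.cons (P.lf 140120770 0 0) (P.cons (P.lf 0 2750436 0) (P.cons (P.lf 0 1389868 0) (P.cons (P.lf 0 45048 0) P.nil))))) (P.cons (P.cons (P.lf 42722254 0 0) (P.cons (P.lf 0 4571771 0) (P.cons (P.lf 0 2091670 0) (P.cons (P.lf 284061 0 0) P.nil)))) (P.cons (P.cons (P.lf 0 7585191 0) (P.cons (P.lf 0 4148329 0) (P.cons (P.lf 112209 0 0) P.nil))) (P.cons (P.cons (P.lf 0 1491985 0) (P.cons (P.lf 0 34097 0) P.nil)) (P.cons (P.cons (P.lf 49946 0 0) P.nil) P.nil)))))) 198025)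
 (EL.cons 1 (TM.mk (P.cons (P.cons (P.lf 0 689336067 0) (P.cons (P.lf 0 264142556 0) (P.cons (P.lf 6427170 0 0) (P.cons (P.lf 2484129 0 0) (P.cons (P.lf 73554 0 0) (P.cons (P.lf 0 5334 0) P.nil)))))) (P.cons (P.cons (P.lf 0 98241190 0) (P.cons (P.lf 23368652 0 0) (P.cons (P.lf 6436648 0 0) (P.cons (P.lf 0 986373 0) (P.cons (P.lf 0 70712 0) P.nil))))) (P.cons (P.cons (P.lf 33298763 0 0) (P.cons (P.lf 16095263 0 0) (P.cons (P.lf 0 420758 0) (P.cons (P.lf 0 148163 0) P.nil)))) (P.cons (P.cons (P.lf 6026150 0 0) (P.cons (P.lf 0 14726 0) (P.cons (P.lf 0 143167 0) P.nil))) (P.cons (P.cons (P.lf 0 368751 0) (P.cons (P.lf 0 260842 0) P.nil)) (P.cons (P.cons (P.lf 0 100783 0) P.nil) P.nil)))))) 74965)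
 (EL.cons 5 (TM.mk (P.cons (P.cons (P.lf 353746509 0 0) (P.cons (P.lf 230415231 0 0) (P.cons (P.lf 24705524 0 0) (P.cons (P.lf 0 5484042 0) (P.cons (P.lf 0 341976 0) (P.cons (P.lf 24811 0 0) P.nil)))))) (P.cons (P.cons (P.lf 59997483 0 0) (P.cons (P.lf 17793249 0 0) (P.cons (P.lf 0 1112431 0) (P.cons (P.lf 0 92995 0) (P.cons (P.lf 1265 0 0) P.nil))))) (P.cons (P.cons (P.lf 0 1993621 0) (P.cons (P.lf 0 773712 0) (P.cons (P.lf 91081 0 0) (P.cons (P.lf 0 613 0) P.nil)))) (P.cons (P.cons (P.lf 534775 0 0) (P.cons (P.lf 442333 0 0) (P.cons (P.lf 0 3925 0) P.nil))) (P.cons (P.cons (P.lf 236149 0 0) (P.cons (P.lf 12451 0 0) P.nil)) (P.cons (P.cons (P.lf 0 8329 0) P.nil) P.nil)))))) 105020)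
 (EL.cons 9 (TM.mk (P.cons (P.cons (P.lf 450374809 0 0) (P.cons (P.lf 315182251 0 0) (P.cons (P.lf 37897372 0 0) (P.cons (P.lf 0 7950558 0) (P.cons (P.lf 0 505398 0) (P.cons (P.lf 36685 0 0) P.nil)))))) (P.cons (P.cons (P.lf 158901877 0 0) (P.cons (P.lf 59659371 0 0) (P.cons (P.lf 0 1844431 0) (P.cons (P.lf 0 518079 0) (P.cons (P.lf 0 13012 0) P.nil))))) (P.cons (P.cons (P.lf 11643970 0 0) (P.cons (P.lf 0 2116960 0) (P.cons (P.lf 0 575836 0) (P.cons (P.lf 88557 0 0) P.nil)))) (P.cons (P.cons (P.lf 0 1907799 0) (P.cons (P.lf 0 911134 0) (P.cons (P.lf 31731 0 0) P.nil))) (P.cons (P.cons (P.lf 0 259702 0) (P.cons (P.lf 295 0 0) P.nil)) (P.cons (P.cons (P.lf 8308 0 0) P.nil) P.nil)))))) 38138)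
 (EL.cons 2 (TM.mk (P.cons (P.cons (P.lf 0 78067366 0) (P.cons (P.lf 0 17521053 0) (P.cons (P.lf 6417765 0 0) (P.cons (P.lf 456142 0 0) (P.cons (P.lf 0 69260 0) (P.cons (P.lf 0 3633 0) P.nil)))))) (P.cons (P.cons (P.lf 63458055 0 0) (P.cons (P.lf 18709470 0 0) (P.cons (P.lf 0 6021725 0) (P.cons (P.lf 0 452846 0) (P.cons (P.lf 67005 0 0) P.nil))))) (P.cons (P.cons (P.lf 15081193 0 0) (P.cons (P.lf 0 932940 0) (P.cons (P.lf 0 461778 0) (P.cons (P.lf 0 8797 0) P.nil)))) (P.cons (P.cons (P.lf 0 262906 0) (P.cons (P.lf 0 274083 0) (P.cons (P.lf 60367 0 0) P.nil))) (P.cons (P.cons (P.lf 0 208985 0) (P.cons (P.lf 16790 0 0) P.nil)) (P.cons (P.cons (P.lf 0 1276 0) P.nil) P.nil)))))) 31268)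
 (EL.cons 6 (TM.mk (P.cons (P.cons (P.lf 0 709824186 0) (P.cons (P.lf 0 159309450 0) (P.cons (P.lf 58353288 0 0) (P.cons (P.lf 4147464 0 0) (P.cons (P.lf 0 629790 0) (P.cons (P.lf 0 33084 0) P.nil)))))) (P.cons (P.cons (P.lf 0 134359296 0) (P.cons (P.lf 10463388 0 0) (P.cons (P.lf 3726318 0 0) (P.cons (P.lf 38850 0 0) (P.cons (P.lf 0 21876 0) P.nil))))) (P.cons (P.cons (P.lf 4767624 0 0) (P.cons (P.lf 2517186 0 0) (P.cons (P.lf 0 652698 0) (P.cons (P.lf 0 54438 0) P.nil)))) (P.cons (P.cons (P.lf 2051976 0 0) (P.cons (P.lf 0 175866 0) (P.cons (P.lf 0 54006 0) P.nil))) (P.cons (P.cons (P.lf 0 666 0) (P.cons (P.lf 0 19422 0) P.nil)) (P.cons (P.cons (P.lf 0 13794 0) P.nil) P.nil)))))) 23748)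
 EL.nil))))))
noncomputable def S241_256_586_660_3 : EL := (EL.cons 0 (TM.mk (P.cons (P.lf 25864470 0 0) (P.cons (P.lf 0 51618062 0) (P.cons (P.lf 25587627 0 0) (P.cons (P.lf 220688 0 0) (P.cons (P.lf 0 54283 0) (P.cons (P.lf 0 527 0) P.nil)))))) 119)
 (EL.cons 1 (TM.mk (P.cons (P.lf 235171578 0 0) (P.cons (P.lf 0 233658247 0) (P.cons (P.lf 0 2264585 0) (P.cons (P.lf 745863 0 0) (P.cons (P.lf 6716 0 0) (P.cons (P.lf 0 1310 0) P.nil)))))) 72)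
 (EL.cons 5 (TM.mk (P.cons (P.lf 2138287390 0 0) (P.cons (P.lf 18353086 0 0) (P.cons (P.lf 0 9097822 0) (P.cons (P.lf 0 78466 0) (P.cons (P.lf 19296 0 0) (P.cons (P.lf 186 0 0) P.nil)))))) 140)
 EL.nil)))
noncomputable def S241_256_586_660_4 : EL := (EL.cons 0 (TM.mk (P.cons (P.cons (P.lf 0 6838565 0) (P.cons (P.lf 0 2392889 0) (P.cons (P.lf 130928 0 0) (P.lf 14547 0 0)))) (P.cons (P.cons (P.lf 12441418 0 0) (P.cons (P.lf 4744713 0 0) (P.cons (P.lf 0 259611 0) (P.lf 0 28845 0)))) (P.cons (P.cons (P.lf 0 4339738 0) (P.cons (P.lf 0 2290587 0) (P.cons (P.lf 125330 0 0) (P.lf 13925 0 0)))) (P.cons (P.cons (P.lf 0 1276465 0) (P.cons (P.lf 0 81042 0) (P.cons (P.lf 4433 0 0) P.nil))) (P.cons (P.cons (P.lf 0 689 0) (P.cons (P.lf 19358 0 0) P.nil)) (P.cons (P.cons (P.lf 13976 0 0) P.nil) P.nil)))))) 2810)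
 (EL.cons 1 (TM.mk (P.cons (P.cons (P.lf 0 62179368 0) (P.cons (P.lf 0 21757248 0) (P.cons (P.lf 1190467 0 0) (P.lf 132271 0 0)))) (P.cons (P.cons (P.lf 50810137 0 0) (P.cons (P.lf 21337123 0 0) (P.cons (P.lf 0 1167480 0) (P.lf 0 129718 0)))) (P.cons (P.cons (P.lf 11661018 0 0) (P.cons (P.lf 626079 0 0) (P.cons (P.lf 0 34254 0) (P.lf 0 3804 0)))) (P.cons (P.cons (P.lf 0 151456 0) (P.cons (P.lf 0 201877 0) (P.cons (P.lf 11043 0 0) P.nil))) (P.cons (P.cons (P.lf 0 140283 0) (P.cons (P.lf 0 5060 0) P.nil)) (P.cons (P.cons (P.lf 0 746 0) P.nil) P.nil)))))) 3566)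
 (EL.cons 5 (TM.mk (P.cons (P.cons (P.lf 0 565363230 0) (P.cons (P.lf 0 197826844 0) (P.cons (P.lf 10824288 0 0) (P.lf 1202696 0 0)))) (P.cons (P.cons (P.lf 0 104588682 0) (P.cons (P.lf 0 4244904 0) (P.cons (P.lf 232260 0 0) (P.lf 25806 0 0)))) (P.cons (P.cons (P.lf 3038242 0 0) (P.cons (P.lf 2076918 0 0) (P.cons (P.lf 0 113638 0) (P.lf 0 12624 0)))) (P.cons (P.cons (P.lf 1392676 0 0) (P.cons (P.lf 45198 0 0) (P.cons (P.lf 0 2468 0) P.nil))) (P.cons (P.cons (P.lf 302 0 0) (P.cons (P.lf 0 10884 0) P.nil)) (P.cons (P.cons (P.lf 0 7744 0) P.nil) P.nil)))))) 1714)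
 EL.nil)))
noncomputable def S241_256_586_660_5 : EL := (EL.cons 0 (TM.mk (P.cons (P.cons (P.lf 1808115 0 0) (P.cons (P.lf 1265359 0 0) (P.cons (P.lf 152145 0 0) (P.cons (P.lf 0 31918 0) (P.cons (P.lf 0 2028 0) (P.cons (P.lf 145 0 0) P.nil)))))) (P.cons (P.cons (P.lf 0 2970539 0) (P.cons (P.lf 0 2285782 0) (P.cons (P.lf 0 311044 0) (P.cons (P.lf 61620 0 0) (P.cons (P.lf 3995 0 0) P.nil))))) (P.cons (P.cons (P.lf 562359 0 0) (P.cons (P.lf 765314 0 0) (P.cons (P.lf 162982 0 0) (P.cons (P.lf 0 27070 0) P.nil)))) (P.cons (P.cons (P.lf 545588 0 0) (P.cons (P.lf 261049 0 0) (P.cons (P.lf 0 1284 0) P.nil))) (P.cons (P.cons (P.lf 62136 0 0) (P.cons (P.lf 0 1717 0) P.nil)) (P.cons (P.cons (P.lf 0 6438 0) P.nil) P.nil)))))) 15517)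
 (EL.cons 1 (TM.mk (P.cons (P.cons (P.lf 16440225 0 0) (P.cons (P.lf 11505232 0 0) (P.cons (P.lf 1383382 0 0) (P.cons (P.lf 0 290221 0) (P.cons (P.lf 0 18446 0) (P.cons (P.lf 1336 0 0) P.nil)))))) (P.cons (P.cons (P.lf 0 10533967 0) (P.cons (P.lf 0 9253425 0) (P.cons (P.lf 0 1441809 0) (P.cons (P.lf 269443 0 0) (P.cons (P.lf 17853 0 0) P.nil))))) (P.cons (P.cons (P.lf 0 5496403 0) (P.cons (P.lf 0 2351821 0) (P.cons (P.lf 32551 0 0) (P.cons (P.lf 24815 0 0) P.nil)))) (P.cons (P.cons (P.lf 0 495663 0) (P.cons (P.lf 59036 0 0) (P.cons (P.lf 27076 0 0) P.nil))) (P.cons (P.cons (P.lf 74484 0 0) (P.cons (P.lf 41034 0 0) P.nil)) (P.cons (P.cons (P.lf 11812 0 0) P.nil) P.nil)))))) 12262)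
 (EL.cons 5 (TM.mk (P.cons (P.cons (P.lf 149482048 0 0) (P.cons (P.lf 104610844 0 0) (P.cons (P.lf 12578360 0 0) (P.cons (P.lf 0 2638836 0) (P.cons (P.lf 0 167742 0) (P.cons (P.lf 12174 0 0) P.nil)))))) (P.cons (P.cons (P.lf 54023482 0 0) (P.cons (P.lf 20699178 0 0) (P.cons (P.lf 0 504216 0) (P.cons (P.lf 0 194600 0) (P.cons (P.lf 0 5758 0) P.nil))))) (P.cons (P.cons (P.lf 3681372 0 0) (P.cons (P.lf 0 977764 0) (P.cons (P.lf 0 249894 0) (P.cons (P.lf 39142 0 0) P.nil)))) (P.cons (P.cons (P.lf 0 829918 0) (P.cons (P.lf 0 396528 0) (P.cons (P.lf 11032 0 0) P.nil))) (P.cons (P.cons (P.lf 0 108660 0) (P.cons (P.lf 708 0 0) P.nil)) (P.cons (P.cons (P.lf 5058 0 0) P.nil) P.nil)))))) 18162)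
 EL.nil)))
noncomputable def S241_256_586_660_6 : EL := (EL.cons 12 (TM.mk (P.lf 8589934592 0 0) 0)
 (EL.cons 3 (TM.mk (P.cons (P.lf 0 235676745 0) (P.cons (P.lf 235171578 0 0) (P.cons (P.lf 756663 0 0) (P.cons (P.lf 0 250417 0) (P.cons (P.lf 0 1346 0) (P.cons (P.lf 262 0 0) P.nil)))))) 37)
 (EL.cons 7 (TM.mk (P.cons (P.lf 0 2142880586 0) (P.cons (P.lf 0 9196255 0) (P.cons (P.lf 4578416 0 0) (P.cons (P.lf 19669 0 0) (P.cons (P.lf 0 4863 0) (P.cons (P.lf 0 31 0) P.nil)))))) 53)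
 EL.nil)))
noncomputable def S241_256_586_660_7 : EL := (EL.cons 12 (TM.mk (P.cons (P.cons (P.lf 0 2271178888 0) (P.cons (P.lf 0 794710608 0) (P.cons (P.lf 43483368 0 0) (P.lf 4831480 0 0)))) (P.cons (P.cons (P.lf 0 400660278 0) (P.cons (P.lf 0 10231584 0) (P.cons (P.lf 559824 0 0) (P.lf 62200 0 0)))) (P.cons (P.cons (P.lf 5980902 0 0) (P.cons (P.lf 5049952 0 0) (P.cons (P.lf 0 276304 0) (P.lf 0 30696 0)))) (P.cons (P.cons (P.lf 3755294 0 0) (P.cons (P.lf 65536 0 0) (P.cons (P.lf 0 3576 0) P.nil))) (P.cons (P.cons (P.lf 226 0 0) (P.cons (P.lf 0 16008 0) P.nil)) (P.cons (P.cons (P.lf 0 11102 0) P.nil) P.nil)))))) 2664)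
 (EL.cons 3 (TM.mk (P.cons (P.cons (P.lf 0 2499161821 0) (P.cons (P.lf 0 43607970 0) (P.cons (P.lf 2386050 0 0) (P.lf 265114 0 0)))) (P.cons (P.cons (P.lf 19784504 0 0) (P.cons (P.lf 42953062 0 0) (P.cons (P.lf 0 2350218 0) (P.lf 0 261134 0)))) (P.cons (P.cons (P.lf 63606726 0 0) (P.cons (P.lf 977342 0 0) (P.cons (P.lf 0 53474 0) (P.lf 0 5940 0)))) (P.cons (P.cons (P.lf 169843 0 0) (P.cons (P.lf 0 317446 0) (P.cons (P.lf 17368 0 0) P.nil))) (P.cons (P.cons (P.lf 0 317582 0) (P.cons (P.lf 0 6200 0) P.nil)) (P.cons (P.cons (P.lf 0 1763 0) P.nil) P.nil)))))) 9889)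
 (EL.cons 7 (TM.mk (P.cons (P.cons (P.lf 666742746 0 0) (P.cons (P.lf 200809697 0 0) (P.cons (P.lf 0 10987502 0) (P.lf 0 1220838 0)))) (P.cons (P.cons (P.lf 0 773658 0) (P.cons (P.lf 0 1679652 0) (P.cons (P.lf 91901 0 0) (P.lf 10211 0 0)))) (P.cons (P.cons (P.lf 0 2099648 0) (P.cons (P.lf 803412 0 0) (P.cons (P.lf 0 43957 0) (P.lf 0 4882 0)))) (P.cons (P.cons (P.lf 1654288 0 0) (P.cons (P.lf 36138 0 0) (P.cons (P.lf 0 1973 0) P.nil))) (P.cons (P.cons (P.lf 13607 0 0) (P.cons (P.lf 0 8694 0) P.nil)) (P.cons (P.cons (P.lf 0 8817 0) P.nil) P.nil)))))) 5301)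
 (EL.cons 10 (TM.mk (P.cons (P.cons (P.lf 0 2690426958 0) (P.cons (P.lf 337583934 0 0) (P.cons (P.lf 51540333 0 0) (P.cons (P.lf 0 1574550 0) (P.lf 0 131211 0))))) (P.cons (P.cons (P.lf 0 23092140 0) (P.cons (P.lf 2897508 0 0) (P.cons (P.lf 442374 0 0) (P.cons (P.lf 0 13512 0) (P.lf 0 1125 0))))) (P.cons (P.cons (P.lf 11447022 0 0) (P.cons (P.lf 0 1436325 0) (P.cons (P.lf 0 219288 0) (P.cons (P.lf 6699 0 0) P.nil)))) (P.cons (P.cons (P.lf 98727 0 0) (P.cons (P.lf 0 12387 0) (P.cons (P.lf 0 1890 0) P.nil))) (P.cons (P.cons (P.lf 0 24276 0) (P.cons (P.lf 3045 0 0) P.nil)) (P.cons (P.cons (P.lf 0 234 0) P.nil) P.nil)))))) 1446)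
 EL.nil))))
noncomputable def S241_256_586_660_8 : EL := (EL.cons 12 (TM.mk (P.cons (P.cons (P.lf 600499746 0 0) (P.cons (P.lf 420243002 0 0) (P.cons (P.lf 50529830 0 0) (P.cons (P.lf 0 10600744 0) (P.cons (P.lf 0 673864 0) (P.cons (P.lf 48914 0 0) P.nil)))))) (P.cons (P.cons (P.lf 211869170 0 0) (P.cons (P.lf 79545828 0 0) (P.cons (P.lf 0 2459242 0) (P.cons (P.lf 0 690772 0) (P.cons (P.lf 0 17350 0) P.nil))))) (P.cons (P.cons (P.lf 15525294 0 0) (P.cons (P.lf 0 2822614 0) (P.cons (P.lf 0 767782 0) (P.cons (P.lf 118076 0 0) P.nil)))) (P.cons (P.cons (P.lf 0 2543732 0) (P.cons (P.lf 0 1214846 0) (P.cons (P.lf 42308 0 0) P.nil))) (P.cons (P.cons (P.lf 0 346270 0) (P.cons (P.lf 394 0 0) P.nil)) (P.cons (P.cons (P.lf 11078 0 0) P.nil) P.nil)))))) 50822)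
 (EL.cons 3 (TM.mk (P.cons (P.cons (P.lf 1338032415 0 0) (P.cons (P.lf 497017207 0 0) (P.cons (P.lf 0 17108635 0) (P.cons (P.lf 0 4125383 0) (P.cons (P.lf 0 92441 0) (P.cons (P.lf 6711 0 0) P.nil)))))) (P.cons (P.cons (P.lf 212047434 0 0) (P.cons (P.lf 0 25675564 0) (P.cons (P.lf 0 8399944 0) (P.cons (P.lf 1229054 0 0) (P.cons (P.lf 89861 0 0) P.nil))))) (P.cons (P.cons (P.lf 0 44388432 0) (P.cons (P.lf 0 21631641 0) (P.cons (P.lf 765537 0 0) (P.cons (P.lf 177249 0 0) P.nil)))) (P.cons (P.cons (P.lf 0 8677007 0) (P.cons (P.lf 0 50250 0) (P.cons (P.lf 135551 0 0) P.nil))) (P.cons (P.cons (P.lf 322875 0 0) (P.cons (P.lf 250471 0 0) P.nil)) (P.cons (P.cons (P.lf 103346 0 0) P.nil) P.nil)))))) 92250)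
 (EL.cons 7 (TM.mk (P.cons (P.cons (P.lf 0 202770440 0) (P.cons (P.lf 0 124722016 0) (P.cons (P.lf 0 11990572 0) (P.cons (P.lf 2817203 0 0) (P.cons (P.lf 172442 0 0) (P.cons (P.lf 0 12514 0) P.nil)))))) (P.cons (P.cons (P.lf 0 8292002 0) (P.cons (P.lf 1004026 0 0) (P.cons (P.lf 328480 0 0) (P.cons (P.lf 0 48061 0) (P.cons (P.lf 0 3513 0) P.nil))))) (P.cons (P.cons (P.lf 5890690 0 0) (P.cons (P.lf 342802 0 0) (P.cons (P.lf 0 194527 0) (P.cons (P.lf 17144 0 0) P.nil)))) (P.cons (P.cons (P.lf 0 829281 0) (P.cons (P.lf 0 562090 0) (P.cons (P.lf 15047 0 0) P.nil))) (P.cons (P.cons (P.lf 0 262607 0) (P.cons (P.lf 0 10173 0) P.nil)) (P.cons (P.cons (P.lf 5969 0 0) P.nil) P.nil)))))) 58680)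
 (EL.cons 10 (TM.mk (P.cons (P.cons (P.lf 1422697884 0 0) (P.cons (P.lf 319303320 0 0) (P.cons (P.lf 0 116957274 0) (P.cons (P.lf 0 8312754 0) (P.cons (P.lf 1262286 0 0) (P.cons (P.lf 66312 0 0) P.nil)))))) (P.cons (P.cons (P.lf 263190264 0 0) (P.cons (P.lf 0 22342038 0) (P.cons (P.lf 0 6966726 0) (P.cons (P.lf 0 42204 0) (P.cons (P.lf 38430 0 0) P.nil))))) (P.cons (P.cons (P.lf 0 7645530 0) (P.cons (P.lf 0 4267092 0) (P.cons (P.lf 1088214 0 0) (P.cons (P.lf 91536 0 0) P.nil)))) (P.cons (P.cons (P.lf 0 3504576 0) (P.cons (P.lf 325998 0 0) (P.cons (P.lf 87624 0 0) P.nil))) (P.cons (P.cons (P.lf 0 762 0) (P.cons (P.lf 27486 0 0) P.nil)) (P.cons (P.cons (P.lf 19482 0 0) P.nil) P.nil)))))) 38460)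
 EL.nil))))
noncomputable def S241_256_586_660_9 : EL := (EL.cons 3 (TM.mk (P.cons (P.lf 0 235676745 0) (P.cons (P.lf 235171578 0 0) (P.cons (P.lf 756663 0 0) (P.cons (P.lf 0 250417 0) (P.cons (P.lf 0 1346 0) (P.cons (P.lf 262 0 0) P.nil)))))) 37)
 (EL.cons 7 (TM.mk (P.cons (P.lf 0 2142880586 0) (P.cons (P.lf 0 9196255 0) (P.cons (P.lf 4578416 0 0) (P.cons (P.lf 19669 0 0) (P.cons (P.lf 0 4863 0) (P.cons (P.lf 0 31 0) P.nil)))))) 53)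
 EL.nil))
noncomputable def S241_256_586_660_10 : EL := (EL.cons 3 (TM.mk (P.cons (P.cons (P.lf 62312936 0 0) (P.cons (P.lf 21803985 0 0) (P.cons (P.lf 0 1193025 0) (P.lf 0 132557 0)))) (P.cons (P.cons (P.lf 0 51186700 0) (P.cons (P.lf 0 21476531 0) (P.cons (P.lf 1175109 0 0) (P.lf 130567 0 0)))) (P.cons (P.cons (P.lf 0 11333262 0) (P.cons (P.lf 0 488671 0) (P.cons (P.lf 26737 0 0) (P.lf 2970 0 0)))) (P.cons (P.cons (P.lf 91627 0 0) (P.cons (P.lf 158723 0 0) (P.cons (P.lf 0 8684 0) P.nil))) (P.cons (P.cons (P.lf 115366 0 0) (P.cons (P.lf 3100 0 0) P.nil)) (P.cons (P.cons (P.lf 460 0 0) P.nil) P.nil)))))) 2394)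
 (EL.cons 7 (TM.mk (P.cons (P.cons (P.lf 566577672 0 0) (P.cons (P.lf 198251792 0 0) (P.cons (P.lf 0 10847540 0) (P.lf 0 1205280 0)))) (P.cons (P.cons (P.lf 102381858 0 0) (P.cons (P.lf 3403218 0 0) (P.cons (P.lf 0 186208 0) (P.lf 0 20689 0)))) (P.cons (P.cons (P.lf 0 2273612 0) (P.cons (P.lf 0 1672407 0) (P.cons (P.lf 91505 0 0) (P.lf 10166 0 0)))) (P.cons (P.cons (P.lf 0 1161965 0) (P.cons (P.lf 0 29028 0) (P.cons (P.lf 1585 0 0) P.nil))) (P.cons (P.cons (P.lf 0 520 0) (P.cons (P.lf 7041 0 0) P.nil)) (P.cons (P.cons (P.lf 5019 0 0) P.nil) P.nil)))))) 1103)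
 EL.nil))
noncomputable def S241_256_586_660_11 : EL := (EL.cons 3 (TM.mk (P.cons (P.cons (P.lf 0 16475541 0) (P.cons (P.lf 0 11529947 0) (P.cons (P.lf 0 1386355 0) (P.cons (P.lf 290845 0 0) (P.cons (P.lf 18487 0 0) (P.cons (P.lf 0 1341 0) P.nil)))))) (P.cons (P.cons (P.lf 10627302 0 0) (P.cons (P.lf 9322784 0 0) (P.cons (P.lf 1450856 0 0) (P.cons (P.lf 0 271270 0) (P.cons (P.lf 0 17971 0) P.nil))))) (P.cons (P.cons (P.lf 5427402 0 0) (P.cons (P.lf 2292231 0 0) (P.cons (P.lf 0 41811 0) (P.cons (P.lf 0 23085 0) P.nil)))) (P.cons (P.cons (P.lf 495991 0 0) (P.cons (P.lf 0 49188 0) (P.cons (P.lf 0 23869 0) P.nil))) (P.cons (P.cons (P.lf 0 65043 0) (P.cons (P.lf 0 35903 0) P.nil)) (P.cons (P.cons (P.lf 0 10474 0) P.nil) P.nil)))))) 10406)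
 (EL.cons 7 (TM.mk (P.cons (P.cons (P.lf 0 149803148 0) (P.cons (P.lf 0 104835556 0) (P.cons (P.lf 0 12605380 0) (P.cons (P.lf 2644505 0 0) (P.cons (P.lf 168104 0 0) (P.cons (P.lf 0 12202 0) P.nil)))))) (P.cons (P.cons (P.lf 0 53496644 0) (P.cons (P.lf 0 20293736 0) (P.cons (P.lf 559396 0 0) (P.cons (P.lf 183671 0 0) (P.cons (P.lf 5049 0 0) P.nil))))) (P.cons (P.cons (P.lf 0 3779762 0) (P.cons (P.lf 842968 0 0) (P.cons (P.lf 221099 0 0) (P.cons (P.lf 0 34366 0) P.nil)))) (P.cons (P.cons (P.lf 732249 0 0) (P.cons (P.lf 349442 0 0) (P.cons (P.lf 0 10927 0) P.nil))) (P.cons (P.cons (P.lf 97525 0 0) (P.cons (P.lf 0 357 0) P.nil)) (P.cons (P.cons (P.lf 0 3835 0) P.nil) P.nil)))))) 15290)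
 EL.nil))
noncomputable def S241_256_586_660_12 : EL := (EL.cons 4 (TM.mk (P.cons (P.lf 235676745 0 0) (P.cons (P.lf 0 235171578 0) (P.cons (P.lf 0 756663 0) (P.cons (P.lf 250417 0 0) (P.cons (P.lf 1346 0 0) (P.cons (P.lf 0 262 0) P.nil)))))) 37)
 (EL.cons 8 (TM.mk (P.cons (P.lf 2142880586 0 0) (P.cons (P.lf 9196255 0 0) (P.cons (P.lf 0 4578416 0) (P.cons (P.lf 0 19669 0) (P.cons (P.lf 4863 0 0) (P.cons (P.lf 31 0 0) P.nil)))))) 53)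
 EL.nil))
noncomputable def S241_256_586_660_13 : EL := (EL.cons 4 (TM.mk (P.cons (P.cons (P.lf 0 62312936 0) (P.cons (P.lf 0 21803985 0) (P.cons (P.lf 1193025 0 0) (P.lf 132557 0 0)))) (P.cons (P.cons (P.lf 51186700 0 0) (P.cons (P.lf 21476531 0 0) (P.cons (P.lf 0 1175109 0) (P.lf 0 130567 0)))) (P.cons (P.cons (P.lf 11333262 0 0) (P.cons (P.lf 488671 0 0) (P.cons (P.lf 0 26737 0) (P.lf 0 2970 0)))) (P.cons (P.cons (P.lf 0 91627 0) (P.cons (P.lf 0 158723 0) (P.cons (P.lf 8684 0 0) P.nil))) (P.cons (P.cons (P.lf 0 115366 0) (P.cons (P.lf 0 3100 0) P.nil)) (P.cons (P.cons (P.lf 0 460 0) P.nil) P.nil)))))) 2394)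
 (EL.cons 8 (TM.mk (P.cons (P.cons (P.lf 0 566577672 0) (P.cons (P.lf 0 198251792 0) (P.cons (P.lf 10847540 0 0) (P.lf 1205280 0 0)))) (P.cons (P.cons (P.lf 0 102381858 0) (P.cons (P.lf 0 3403218 0) (P.cons (P.lf 186208 0 0) (P.lf 20689 0 0)))) (P.cons (P.cons (P.lf 2273612 0 0) (P.cons (P.lf 1672407 0 0) (P.cons (P.lf 0 91505 0) (P.lf 0 10166 0)))) (P.cons (P.cons (P.lf 1161965 0 0) (P.cons (P.lf 29028 0 0) (P.cons (P.lf 0 1585 0) P.nil))) (P.cons (P.cons (P.lf 520 0 0) (P.cons (P.lf 0 7041 0) P.nil)) (P.cons (P.cons (P.lf 0 5019 0) P.nil) P.nil)))))) 1103)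
 EL.nil))
noncomputable def S241_256_586_660_14 : EL := (EL.cons 4 (TM.mk (P.cons (P.cons (P.lf 16475541 0 0) (P.cons (P.lf 11529947 0 0) (P.cons (P.lf 1386355 0 0) (P.cons (P.lf 0 290845 0) (P.cons (P.lf 0 18487 0) (P.cons (P.lf 1341 0 0) P.nil)))))) (P.cons (P.cons (P.lf 0 10627302 0) (P.cons (P.lf 0 9322784 0) (P.cons (P.lf 0 1450856 0) (P.cons (P.lf 271270 0 0) (P.cons (P.lf 17971 0 0) P.nil))))) (P.cons (P.cons (P.lf 0 5427402 0) (P.cons (P.lf 0 2292231 0) (P.cons (P.lf 41811 0 0) (P.cons (P.lf 23085 0 0) P.nil)))) (P.cons (P.cons (P.lf 0 495991 0) (P.cons (P.lf 49188 0 0) (P.cons (P.lf 23869 0 0) P.nil))) (P.cons (P.cons (P.lf 65043 0 0) (P.cons (P.lf 35903 0 0) P.nil)) (P.cons (P.cons (P.lf 10474 0 0) P.nil) P.nil)))))) 10406)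
 (EL.cons 8 (TM.mk (P.cons (P.cons (P.lf 149803148 0 0) (P.cons (P.lf 104835556 0 0) (P.cons (P.lf 12605380 0 0) (P.cons (P.lf 0 2644505 0) (P.cons (P.lf 0 168104 0) (P.cons (P.lf 12202 0 0) P.nil)))))) (P.cons (P.cons (P.lf 53496644 0 0) (P.cons (P.lf 20293736 0 0) (P.cons (P.lf 0 559396 0) (P.cons (P.lf 0 183671 0) (P.cons (P.lf 0 5049 0) P.nil))))) (P.cons (P.cons (P.lf 3779762 0 0) (P.cons (P.lf 0 842968 0) (P.cons (P.lf 0 221099 0) (P.cons (P.lf 34366 0 0) P.nil)))) (P.cons (P.cons (P.lf 0 732249 0) (P.cons (P.lf 0 349442 0) (P.cons (P.lf 10927 0 0) P.nil))) (P.cons (P.cons (P.lf 0 97525 0) (P.cons (P.lf 357 0 0) P.nil)) (P.cons (P.cons (P.lf 3835 0 0) P.nil) P.nil)))))) 15290)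
 EL.nil))
noncomputable def S241_256_586_660_15 : EL := (EL.cons 4 (TM.mk (P.cons (P.lf 0 13794384 0) (P.cons (P.lf 27529633 0 0) (P.cons (P.lf 0 13646734 0) (P.cons (P.lf 0 117700 0) (P.cons (P.lf 28950 0 0) (P.cons (P.lf 281 0 0) P.nil)))))) 67)
 (EL.cons 8 (TM.mk (P.cons (P.lf 0 125424842 0) (P.cons (P.lf 124617732 0 0) (P.cons (P.lf 1207779 0 0) (P.cons (P.lf 0 397794 0) (P.cons (P.lf 0 3582 0) (P.cons (P.lf 699 0 0) P.nil)))))) 35)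
 EL.nil))
noncomputable def S241_256_586_660_16 : EL := (EL.cons 4 (TM.mk (P.cons (P.cons (P.lf 3647235 0 0) (P.cons (P.lf 1276207 0 0) (P.cons (P.lf 0 69828 0) (P.lf 0 7758 0)))) (P.cons (P.cons (P.lf 0 6635423 0) (P.cons (P.lf 0 2530514 0) (P.cons (P.lf 138459 0 0) (P.lf 15384 0 0)))) (P.cons (P.cons (P.lf 2314527 0 0) (P.cons (P.lf 1221646 0 0) (P.cons (P.lf 0 66842 0) (P.lf 0 7426 0)))) (P.cons (P.cons (P.lf 680781 0 0) (P.cons (P.lf 43222 0 0) (P.cons (P.lf 0 2364 0) P.nil))) (P.cons (P.cons (P.lf 367 0 0) (P.cons (P.lf 0 10324 0) P.nil)) (P.cons (P.cons (P.lf 0 7454 0) P.nil) P.nil)))))) 1507)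
 (EL.cons 8 (TM.mk (P.cons (P.cons (P.lf 33162330 0 0) (P.cons (P.lf 11603866 0 0) (P.cons (P.lf 0 634916 0) (P.lf 0 70545 0)))) (P.cons (P.cons (P.lf 0 27098740 0) (P.cons (P.lf 0 11379799 0) (P.cons (P.lf 622656 0 0) (P.lf 69183 0 0)))) (P.cons (P.cons (P.lf 0 6219210 0) (P.cons (P.lf 0 333909 0) (P.cons (P.lf 18269 0 0) (P.lf 2029 0 0)))) (P.cons (P.cons (P.lf 80777 0 0) (P.cons (P.lf 107668 0 0) (P.cons (P.lf 0 5890 0) P.nil))) (P.cons (P.cons (P.lf 74818 0 0) (P.cons (P.lf 2699 0 0) P.nil)) (P.cons (P.cons (P.lf 398 0 0) P.nil) P.nil)))))) 1892)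
 EL.nil))
noncomputable def S241_256_586_660_17 : EL := (EL.cons 4 (TM.mk (P.cons (P.cons (P.lf 0 964328 0) (P.cons (P.lf 0 674858 0) (P.cons (P.lf 0 81144 0) (P.cons (P.lf 17023 0 0) (P.cons (P.lf 1081 0 0) (P.cons (P.lf 0 77 0) P.nil)))))) (P.cons (P.cons (P.lf 1584287 0 0) (P.cons (P.lf 1219083 0 0) (P.cons (P.lf 165890 0 0) (P.cons (P.lf 0 32864 0) (P.cons (P.lf 0 2130 0) P.nil))))) (P.cons (P.cons (P.lf 0 299925 0) (P.cons (P.lf 0 408167 0) (P.cons (P.lf 0 86924 0) (P.cons (P.lf 14437 0 0) P.nil)))) (P.cons (P.cons (P.lf 0 290980 0) (P.cons (P.lf 0 139226 0) (P.cons (P.lf 685 0 0) P.nil))) (P.cons (P.cons (P.lf 0 33139 0) (P.cons (P.lf 915 0 0) P.nil)) (P.cons (P.cons (P.lf 3434 0 0) P.nil) P.nil)))))) 8286)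
 (EL.cons 8 (TM.mk (P.cons (P.cons (P.lf 0 8768120 0) (P.cons (P.lf 0 6136124 0) (P.cons (P.lf 0 737804 0) (P.cons (P.lf 154785 0 0) (P.cons (P.lf 9838 0 0) (P.cons (P.lf 0 713 0) P.nil)))))) (P.cons (P.cons (P.lf 5618116 0 0) (P.cons (P.lf 4935160 0 0) (P.cons (P.lf 768965 0 0) (P.cons (P.lf 0 143703 0) (P.cons (P.lf 0 9522 0) P.nil))))) (P.cons (P.cons (P.lf 2931415 0 0) (P.cons (P.lf 1254305 0 0) (P.cons (P.lf 0 17361 0) (P.cons (P.lf 0 13235 0) P.nil)))) (P.cons (P.cons (P.lf 264354 0 0) (P.cons (P.lf 0 31486 0) (P.cons (P.lf 0 14441 0) P.nil))) (P.cons (P.cons (P.lf 0 39725 0) (P.cons (P.lf 0 21885 0) P.nil)) (P.cons (P.cons (P.lf 0 6300 0) P.nil) P.nil)))))) 6528)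
 EL.nil))
noncomputable def S241_256_586_660_18 : EL := (EL.cons 4 (TM.mk (P.cons (P.lf 807398 0 0) (P.cons (P.lf 0 2417003 0) (P.cons (P.lf 2404045 0 0) (P.cons (P.lf 0 784123 0) (P.cons (P.lf 0 12840 0) (P.cons (P.lf 2490 0 0) P.nil)))))) 58)
 (EL.cons 8 (TM.mk (P.cons (P.lf 7341235 0 0) (P.cons (P.lf 0 14619494 0) (P.cons (P.lf 7184097 0 0) (P.cons (P.lf 125042 0 0) (P.cons (P.lf 0 30504 0) (P.cons (P.lf 0 449 0) P.nil)))))) 91)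
 EL.nil))
noncomputable def S241_256_586_660_19 : EL := (EL.cons 4 (TM.mk (P.cons (P.cons (P.lf 0 213475 0) (P.cons (P.lf 0 74697 0) (P.cons (P.lf 4086 0 0) (P.lf 453 0 0)))) (P.cons (P.cons (P.lf 601395 0 0) (P.cons (P.lf 222650 0 0) (P.cons (P.lf 0 12181 0) (P.lf 0 1352 0)))) (P.cons (P.cons (P.lf 0 522330 0) (P.cons (P.lf 0 219060 0) (P.cons (P.lf 11985 0 0) (P.lf 1331 0 0)))) (P.cons (P.cons (P.lf 93859 0 0) (P.cons (P.lf 68265 0 0) (P.cons (P.lf 0 3735 0) P.nil))) (P.cons (P.cons (P.lf 40585 0 0) (P.cons (P.lf 3514 0 0) P.nil)) (P.cons (P.cons (P.lf 444 0 0) P.nil) P.nil)))))) 2025)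
 (EL.cons 8 (TM.mk (P.cons (P.cons (P.lf 0 1941022 0) (P.cons (P.lf 0 679185 0) (P.cons (P.lf 37162 0 0) (P.lf 4129 0 0)))) (P.cons (P.cons (P.lf 3522977 0 0) (P.cons (P.lf 1343799 0 0) (P.cons (P.lf 0 73527 0) (P.lf 0 8169 0)))) (P.cons (P.cons (P.lf 0 1212466 0) (P.cons (P.lf 0 642917 0) (P.cons (P.lf 35177 0 0) (P.lf 3908 0 0)))) (P.cons (P.cons (P.lf 0 375118 0) (P.cons (P.lf 0 28663 0) (P.cons (P.lf 1568 0 0) P.nil))) (P.cons (P.cons (P.lf 844 0 0) (P.cons (P.lf 6771 0 0) P.nil)) (P.cons (P.cons (P.lf 4759 0 0) P.nil) P.nil)))))) 1073)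
 EL.nil))
noncomputable def S241_256_586_660_20 : EL := (EL.cons 4 (TM.mk (P.cons (P.cons (P.lf 56442 0 0) (P.cons (P.lf 39499 0 0) (P.cons (P.lf 4749 0 0) (P.cons (P.lf 0 995 0) (P.cons (P.lf 0 62 0) (P.cons (P.lf 3 0 0) P.nil)))))) (P.cons (P.cons (P.lf 0 149051 0) (P.cons (P.lf 0 110769 0) (P.cons (P.lf 0 14448 0) (P.cons (P.lf 2917 0 0) (P.cons (P.lf 187 0 0) P.nil))))) (P.cons (P.cons (P.lf 109904 0 0) (P.cons (P.lf 94964 0 0) (P.cons (P.lf 14760 0 0) (P.cons (P.lf 0 2760 0) P.nil)))) (P.cons (P.cons (P.lf 0 127 0) (P.cons (P.lf 0 15419 0) (P.cons (P.lf 0 5080 0) P.nil))) (P.cons (P.cons (P.lf 0 15209 0) (P.cons (P.lf 0 8337 0) P.nil)) (P.cons (P.cons (P.lf 0 2173 0) P.nil) P.nil)))))) 3779)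
 (EL.cons 8 (TM.mk (P.cons (P.cons (P.lf 513206 0 0) (P.cons (P.lf 359153 0 0) (P.cons (P.lf 43184 0 0) (P.cons (P.lf 0 9059 0) (P.cons (P.lf 0 575 0) (P.cons (P.lf 41 0 0) P.nil)))))) (P.cons (P.cons (P.lf 0 840939 0) (P.cons (P.lf 0 647243 0) (P.cons (P.lf 0 88100 0) (P.cons (P.lf 17451 0 0) (P.cons (P.lf 1131 0 0) P.nil))))) (P.cons (P.cons (P.lf 154902 0 0) (P.cons (P.lf 213671 0 0) (P.cons (P.lf 45788 0 0) (P.cons (P.lf 0 7589 0) P.nil)))) (P.cons (P.cons (P.lf 157338 0 0) (P.cons (P.lf 76409 0 0) (P.cons (P.lf 22 0 0) P.nil))) (P.cons (P.cons (P.lf 17969 0 0) (P.cons (P.lf 0 626 0) P.nil)) (P.cons (P.cons (P.lf 0 2086 0) P.nil) P.nil)))))) 4865)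
 EL.nil))
noncomputable def S241_256_586_660_21 : EL := (EL.cons 4 (TM.mk (P.cons (P.cons (P.lf 2561474757 0 0) (P.cons (P.lf 65411955 0 0) (P.cons (P.lf 0 3579075 0) (P.lf 0 397671 0)))) (P.cons (P.cons (P.lf 0 70971204 0) (P.cons (P.lf 0 64429593 0) (P.cons (P.lf 3525327 0 0) (P.lf 391701 0 0)))) (P.cons (P.cons (P.lf 0 74939988 0) (P.cons (P.lf 0 1466013 0) (P.cons (P.lf 80211 0 0) (P.lf 8910 0 0)))) (P.cons (P.cons (P.lf 0 78216 0) (P.cons (P.lf 476169 0 0) (P.cons (P.lf 0 26052 0) P.nil))) (P.cons (P.cons (P.lf 432948 0 0) (P.cons (P.lf 9300 0 0) P.nil)) (P.cons (P.cons (P.lf 2223 0 0) P.nil) P.nil)))))) 7476)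
 (EL.cons 8 (TM.mk (P.cons (P.cons (P.lf 0 100165074 0) (P.cons (P.lf 0 2557905 0) (P.cons (P.lf 139962 0 0) (P.lf 15558 0 0)))) (P.cons (P.cons (P.lf 103155516 0 0) (P.cons (P.lf 5082870 0 0) (P.cons (P.lf 0 278109 0) (P.lf 0 30900 0)))) (P.cons (P.cons (P.lf 0 173964 0) (P.cons (P.lf 0 2475819 0) (P.cons (P.lf 135462 0 0) (P.lf 15048 0 0)))) (P.cons (P.cons (P.lf 0 2816253 0) (P.cons (P.lf 0 65166 0) (P.cons (P.lf 3558 0 0) P.nil))) (P.cons (P.cons (P.lf 0 14127 0) (P.cons (P.lf 15735 0 0) P.nil)) (P.cons (P.cons (P.lf 13836 0 0) P.nil) P.nil)))))) 4179)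
 (EL.cons 11 (TM.mk (P.cons (P.cons (P.lf 2690426958 0 0) (P.cons (P.lf 0 337583934 0) (P.cons (P.lf 0 51540333 0) (P.cons (P.lf 1574550 0 0) (P.lf 131211 0 0))))) (P.cons (P.cons (P.lf 23092140 0 0) (P.cons (P.lf 0 2897508 0) (P.cons (P.lf 0 442374 0) (P.cons (P.lf 13512 0 0) (P.lf 1125 0 0))))) (P.cons (P.cons (P.lf 0 11447022 0) (P.cons (P.lf 1436325 0 0) (P.cons (P.lf 219288 0 0) (P.cons (P.lf 0 6699 0) P.nil)))) (P.cons (P.cons (P.lf 0 98727 0) (P.cons (P.lf 12387 0 0) (P.cons (P.lf 1890 0 0) P.nil))) (P.cons (P.cons (P.lf 24276 0 0) (P.cons (P.lf 0 3045 0) P.nil)) (P.cons (P.cons (P.lf 234 0 0) P.nil) P.nil)))))) 1446)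
 EL.nil)))
noncomputable def S241_256_586_660_22 : EL := (EL.cons 4 (TM.mk (P.cons (P.cons (P.lf 0 677253978 0) (P.cons (P.lf 0 254273577 0) (P.cons (P.lf 7861140 0 0) (P.cons (P.lf 2208114 0 0) (P.cons (P.lf 55464 0 0) (P.cons (P.lf 0 4026 0) P.nil)))))) (P.cons (P.cons (P.lf 0 100710066 0) (P.cons (P.lf 17499174 0 0) (P.cons (P.lf 4925400 0 0) (P.cons (P.lf 0 750162 0) (P.cons (P.lf 0 53916 0) P.nil))))) (P.cons (P.cons (P.lf 24907917 0 0) (P.cons (P.lf 11961936 0 0) (P.cons (P.lf 0 403674 0) (P.cons (P.lf 0 100167 0) P.nil)))) (P.cons (P.cons (P.lf 4586499 0 0) (P.cons (P.lf 531 0 0) (P.cons (P.lf 0 79710 0) P.nil))) (P.cons (P.cons (P.lf 0 193959 0) (P.cons (P.lf 0 143187 0) P.nil)) (P.cons (P.cons (P.lf 0 56910 0) P.nil) P.nil)))))) 40911)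
 (EL.cons 8 (TM.mk (P.cons (P.cons (P.lf 26483646 0 0) (P.cons (P.lf 9943230 0 0) (P.cons (P.lf 0 307404 0) (P.cons (P.lf 0 86349 0) (P.cons (P.lf 0 2169 0) (P.cons (P.lf 156 0 0) P.nil)))))) (P.cons (P.cons (P.lf 0 22602321 0) (P.cons (P.lf 0 10648881 0) (P.cons (P.lf 115458 0 0) (P.cons (P.lf 115866 0 0) (P.cons (P.lf 4281 0 0) P.nil))))) (P.cons (P.cons (P.lf 0 4835226 0) (P.cons (P.lf 250083 0 0) (P.cons (P.lf 207813 0 0) (P.cons (P.lf 0 25755 0) P.nil)))) (P.cons (P.cons (P.lf 780765 0 0) (P.cons (P.lf 455766 0 0) (P.cons (P.lf 0 12987 0) P.nil))) (P.cons (P.cons (P.lf 180066 0 0) (P.cons (P.lf 4908 0 0) P.nil)) (P.cons (P.cons (P.lf 0 4902 0) P.nil) P.nil)))))) 21684)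
 (EL.cons 11 (TM.mk (P.cons (P.cons (P.lf 0 711348942 0) (P.cons (P.lf 0 159651660 0) (P.cons (P.lf 58478637 0 0) (P.cons (P.lf 4156377 0 0) (P.cons (P.lf 0 631143 0) (P.cons (P.lf 0 33156 0) P.nil)))))) (P.cons (P.cons (P.lf 0 131595132 0) (P.cons (P.lf 11171019 0 0) (P.cons (P.lf 3483363 0 0) (P.cons (P.lf 21102 0 0) (P.cons (P.lf 0 19215 0) P.nil))))) (P.cons (P.cons (P.lf 3822765 0 0) (P.cons (P.lf 2133546 0 0) (P.cons (P.lf 0 544107 0) (P.cons (P.lf 0 45768 0) P.nil)))) (P.cons (P.cons (P.lf 1752288 0 0) (P.cons (P.lf 0 162999 0) (P.cons (P.lf 0 43812 0) P.nil))) (P.cons (P.cons (P.lf 381 0 0) (P.cons (P.lf 0 13743 0) P.nil)) (P.cons (P.cons (P.lf 0 9741 0) P.nil) P.nil)))))) 19230)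
 EL.nil)))
noncomputable def S241_256_586_660_23 : EL := (EL.cons 4 (TM.mk (P.cons (P.cons (P.lf 0 149925558 0) (P.cons (P.lf 0 3828624 0) (P.cons (P.lf 209484 0 0) (P.lf 23274 0 0)))) (P.cons (P.cons (P.lf 153758208 0 0) (P.cons (P.lf 7591542 0 0) (P.cons (P.lf 0 415377 0) (P.lf 0 46152 0)))) (P.cons (P.cons (P.lf 722550 0 0) (P.cons (P.lf 0 3664941 0) (P.cons (P.lf 200529 0 0) (P.lf 22281 0 0)))) (P.cons (P.cons (P.lf 0 4544967 0) (P.cons (P.lf 0 129669 0) (P.cons (P.lf 7092 0 0) P.nil))) (P.cons (P.cons (P.lf 0 40434 0) (P.cons (P.lf 30975 0 0) P.nil)) (P.cons (P.cons (P.lf 29991 0 0) P.nil) P.nil)))))) 4434)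
 (EL.cons 8 (TM.mk (P.cons (P.cons (P.lf 5862756 0 0) (P.cons (P.lf 149715 0 0) (P.cons (P.lf 0 8190 0) (P.lf 0 909 0)))) (P.cons (P.cons (P.lf 0 11887980 0) (P.cons (P.lf 0 446898 0) (P.cons (P.lf 24450 0 0) (P.lf 2715 0 0)))) (P.cons (P.cons (P.lf 6016206 0 0) (P.cons (P.lf 441297 0 0) (P.cons (P.lf 0 24144 0) (P.lf 0 2682 0)))) (P.cons (P.cons (P.lf 180291 0 0) (P.cons (P.lf 0 139671 0) (P.cons (P.lf 7641 0 0) P.nil))) (P.cons (P.cons (P.lf 0 170070 0) (P.cons (P.lf 0 5505 0) P.nil)) (P.cons (P.cons (P.lf 0 2193 0) P.nil) P.nil)))))) 3792)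
 (EL.cons 11 (TM.mk (P.cons (P.cons (P.lf 0 157473252 0) (P.cons (P.lf 19759107 0 0) (P.cons (P.lf 3016704 0 0) (P.cons (P.lf 0 92157 0) (P.lf 0 7677 0))))) (P.cons (P.cons (P.lf 155784108 0 0) (P.cons (P.lf 0 19547160 0) (P.cons (P.lf 0 2984346 0) (P.cons (P.lf 91170 0 0) (P.lf 7596 0 0))))) (P.cons (P.cons (P.lf 2524296 0 0) (P.cons (P.lf 0 316737 0) (P.cons (P.lf 0 48357 0) (P.cons (P.lf 1476 0 0) P.nil)))) (P.cons (P.cons (P.lf 0 825771 0) (P.cons (P.lf 103614 0 0) (P.cons (P.lf 15819 0 0) P.nil))) (P.cons (P.cons (P.lf 0 11673 0) (P.cons (P.lf 1464 0 0) P.nil)) (P.cons (P.cons (P.lf 2265 0 0) P.nil) P.nil)))))) 1389)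
 EL.nil)))
noncomputable def S241_256_586_660_24 : EL := (EL.cons 4 (TM.mk (P.cons (P.cons (P.lf 39640320 0 0) (P.cons (P.lf 14882874 0 0) (P.cons (P.lf 0 460119 0) (P.cons (P.lf 0 129240 0) (P.cons (P.lf 0 3246 0) (P.cons (P.lf 234 0 0) P.nil)))))) (P.cons (P.cons (P.lf 0 33660696 0) (P.cons (P.lf 0 15875217 0) (P.cons (P.lf 170844 0 0) (P.cons (P.lf 172872 0 0) (P.cons (P.lf 6393 0 0) P.nil))))) (P.cons (P.cons (P.lf 0 7467174 0) (P.cons (P.lf 274119 0 0) (P.cons (P.lf 312774 0 0) (P.cons (P.lf 0 37536 0) P.nil)))) (P.cons (P.cons (P.lf 1209498 0 0) (P.cons (P.lf 717711 0 0) (P.cons (P.lf 0 18474 0) P.nil))) (P.cons (P.cons (P.lf 290397 0 0) (P.cons (P.lf 9654 0 0) P.nil)) (P.cons (P.cons (P.lf 0 8694 0) P.nil) P.nil)))))) 35328)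
 (EL.cons 8 (TM.mk (P.cons (P.cons (P.lf 0 1550112 0) (P.cons (P.lf 0 581985 0) (P.cons (P.lf 17991 0 0) (P.cons (P.lf 5052 0 0) (P.cons (P.lf 126 0 0) (P.cons (P.lf 0 9 0) P.nil)))))) (P.cons (P.cons (P.lf 2869725 0 0) (P.cons (P.lf 1204026 0 0) (P.cons (P.lf 0 24711 0) (P.cons (P.lf 0 11823 0) (P.cons (P.lf 0 375 0) P.nil))))) (P.cons (P.cons (P.lf 0 1032111 0) (P.cons (P.lf 0 634722 0) (P.cons (P.lf 0 5475 0) (P.cons (P.lf 8256 0 0) P.nil)))) (P.cons (P.cons (P.lf 0 333996 0) (P.cons (P.lf 0 14688 0) (P.cons (P.lf 12936 0 0) P.nil))) (P.cons (P.cons (P.lf 35547 0 0) (P.cons (P.lf 27036 0 0) P.nil)) (P.cons (P.cons (P.lf 11259 0 0) P.nil) P.nil)))))) 8133)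
 (EL.cons 11 (TM.mk (P.cons (P.cons (P.lf 41635929 0 0) (P.cons (P.lf 9344562 0 0) (P.cons (P.lf 0 3422808 0) (P.cons (P.lf 0 243276 0) (P.cons (P.lf 36939 0 0) (P.cons (P.lf 1938 0 0) P.nil)))))) (P.cons (P.cons (P.lf 0 33844296 0) (P.cons (P.lf 0 9978384 0) (P.cons (P.lf 3211587 0 0) (P.cons (P.lf 241518 0 0) (P.cons (P.lf 0 35736 0) P.nil))))) (P.cons (P.cons (P.lf 0 8043303 0) (P.cons (P.lf 497568 0 0) (P.cons (P.lf 246282 0 0) (P.cons (P.lf 4692 0 0) P.nil)))) (P.cons (P.cons (P.lf 140217 0 0) (P.cons (P.lf 146178 0 0) (P.cons (P.lf 0 32196 0) P.nil))) (P.cons (P.cons (P.lf 111459 0 0) (P.cons (P.lf 0 8955 0) P.nil)) (P.cons (P.cons (P.lf 681 0 0) P.nil) P.nil)))))) 16665)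
 EL.nil)))
noncomputable def S241_256_586_660_25 : EL := (EL.cons 4 (TM.mk (P.cons (P.cons (P.lf 8775285 0 0) (P.cons (P.lf 224091 0 0) (P.cons (P.lf 0 12261 0) (P.lf 0 1362 0)))) (P.cons (P.cons (P.lf 0 17756088 0) (P.cons (P.lf 0 667950 0) (P.cons (P.lf 36546 0 0) (P.lf 4059 0 0)))) (P.cons (P.cons (P.lf 8909856 0 0) (P.cons (P.lf 657180 0 0) (P.cons (P.lf 0 35958 0) (P.lf 0 3993 0)))) (P.cons (P.cons (P.lf 346440 0 0) (P.cons (P.lf 0 204798 0) (P.cons (P.lf 11205 0 0) P.nil))) (P.cons (P.cons (P.lf 0 272460 0) (P.cons (P.lf 0 10545 0) P.nil)) (P.cons (P.cons (P.lf 0 5076 0) P.nil) P.nil)))))) 6654)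
 (EL.cons 8 (TM.mk (P.cons (P.cons (P.lf 0 343152 0) (P.cons (P.lf 0 8763 0) (P.cons (P.lf 477 0 0) (P.lf 51 0 0)))) (P.cons (P.cons (P.lf 1038231 0 0) (P.cons (P.lf 34899 0 0) (P.cons (P.lf 0 1908 0) (P.lf 0 210 0)))) (P.cons (P.cons (P.lf 0 1045356 0) (P.cons (P.lf 0 51900 0) (P.cons (P.lf 2838 0 0) (P.lf 315 0 0)))) (P.cons (P.cons (P.lf 338226 0 0) (P.cons (P.lf 33855 0 0) (P.cons (P.lf 0 1851 0) P.nil))) (P.cons (P.cons (P.lf 22350 0 0) (P.cons (P.lf 0 7722 0) P.nil)) (P.cons (P.cons (P.lf 0 10140 0) P.nil) P.nil)))))) 1701)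
 (EL.cons 11 (TM.mk (P.cons (P.cons (P.lf 9217059 0 0) (P.cons (P.lf 0 1156518 0) (P.cons (P.lf 0 176568 0) (P.cons (P.lf 5394 0 0) (P.lf 447 0 0))))) (P.cons (P.cons (P.lf 0 18315495 0) (P.cons (P.lf 2298153 0 0) (P.cons (P.lf 350868 0 0) (P.cons (P.lf 0 10716 0) (P.lf 0 891 0))))) (P.cons (P.cons (P.lf 8921304 0 0) (P.cons (P.lf 0 1119408 0) (P.cons (P.lf 0 170904 0) (P.cons (P.lf 5220 0 0) P.nil)))) (P.cons (P.cons (P.lf 234834 0 0) (P.cons (P.lf 0 29466 0) (P.cons (P.lf 0 4497 0) P.nil))) (P.cons (P.cons (P.lf 0 56706 0) (P.cons (P.lf 7113 0 0) P.nil)) (P.cons (P.cons (P.lf 0 1188 0) P.nil) P.nil)))))) 2268)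
 EL.nil)))
noncomputable def S241_256_586_660_26 : EL := (EL.cons 4 (TM.mk (P.cons (P.cons (P.lf 0 2320185 0) (P.cons (P.lf 0 871107 0) (P.cons (P.lf 26931 0 0) (P.cons (P.lf 7563 0 0) (P.cons (P.lf 189 0 0) (P.cons (P.lf 0 12 0) P.nil)))))) (P.cons (P.cons (P.lf 4285404 0 0) (P.cons (P.lf 1798431 0 0) (P.cons (P.lf 0 36873 0) (P.cons (P.lf 0 17664 0) (P.cons (P.lf 0 561 0) P.nil))))) (P.cons (P.cons (P.lf 0 1521459 0) (P.cons (P.lf 0 940446 0) (P.cons (P.lf 0 8415 0) (P.cons (P.lf 12267 0 0) P.nil)))) (P.cons (P.cons (P.lf 0 515706 0) (P.cons (P.lf 0 29904 0) (P.cons (P.lf 19407 0 0) P.nil))) (P.cons (P.cons (P.lf 54321 0 0) (P.cons (P.lf 42384 0 0) P.nil)) (P.cons (P.cons (P.lf 18174 0 0) P.nil) P.nil)))))) 13137)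
 (EL.cons 8 (TM.mk (P.cons (P.cons (P.lf 90729 0 0) (P.cons (P.lf 34062 0 0) (P.cons (P.lf 0 1053 0) (P.cons (P.lf 0 294 0) (P.cons (P.lf 0 6 0) (P.cons (P.lf 0 0 0) P.nil)))))) (P.cons (P.cons (P.lf 0 258501 0) (P.cons (P.lf 0 104463 0) (P.cons (P.lf 2496 0 0) (P.cons (P.lf 987 0 0) (P.cons (P.lf 27 0 0) P.nil))))) (P.cons (P.cons (P.lf 227724 0 0) (P.cons (P.lf 107361 0 0) (P.cons (P.lf 0 1119 0) (P.cons (P.lf 0 1173 0) P.nil)))) (P.cons (P.cons (P.lf 0 40095 0) (P.cons (P.lf 0 35949 0) (P.cons (P.lf 0 1083 0) P.nil))) (P.cons (P.cons (P.lf 0 21957 0) (P.cons (P.lf 0 2634 0) P.nil)) (P.cons (P.cons (P.lf 1416 0 0) P.nil) P.nil)))))) 4761)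
 (EL.cons 11 (TM.mk (P.cons (P.cons (P.lf 0 2436990 0) (P.cons (P.lf 0 546945 0) (P.cons (P.lf 200340 0 0) (P.cons (P.lf 14238 0 0) (P.cons (P.lf 0 2160 0) (P.cons (P.lf 0 111 0) P.nil)))))) (P.cons (P.cons (P.lf 4412703 0 0) (P.cons (P.lf 1129818 0 0) (P.cons (P.lf 0 387888 0) (P.cons (P.lf 0 28344 0) (P.cons (P.lf 4248 0 0) P.nil))))) (P.cons (P.cons (P.lf 0 1498083 0) (P.cons (P.lf 0 610158 0) (P.cons (P.lf 172515 0 0) (P.cons (P.lf 13785 0 0) P.nil)))) (P.cons (P.cons (P.lf 0 486927 0) (P.cons (P.lf 18048 0 0) (P.cons (P.lf 17082 0 0) P.nil))) (P.cons (P.cons (P.lf 2244 0 0) (P.cons (P.lf 9771 0 0) P.nil)) (P.cons (P.cons (P.lf 7008 0 0) P.nil) P.nil)))))) 8904)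
 EL.nil)))
noncomputable def S241_256_586_660_27 : EL := (EL.cons 13 (TM.mk (P.lf 0 4294967296 0) 0)
 EL.nil)
noncomputable def S241_256_586_660_28 : EL := (EL.cons 13 (TM.mk (P.cons (P.cons (P.lf 1135589444 0 0) (P.cons (P.lf 397355304 0 0) (P.cons (P.lf 0 21741684 0) (P.lf 0 2415740 0)))) (P.cons (P.cons (P.lf 200330139 0 0) (P.cons (P.lf 5115792 0 0) (P.cons (P.lf 0 279912 0) (P.lf 0 31100 0)))) (P.cons (P.cons (P.lf 0 2990451 0) (P.cons (P.lf 0 2524976 0) (P.cons (P.lf 138152 0 0) (P.lf 15348 0 0)))) (P.cons (P.cons (P.lf 0 1877647 0) (P.cons (P.lf 0 32768 0) (P.cons (P.lf 1788 0 0) P.nil))) (P.cons (P.cons (P.lf 0 113 0) (P.cons (P.lf 8004 0 0) P.nil)) (P.cons (P.cons (P.lf 5551 0 0) P.nil) P.nil)))))) 1332)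
 EL.nil)
noncomputable def S241_256_586_660_29 : EL := (EL.cons 13 (TM.mk (P.cons (P.cons (P.lf 0 300249873 0) (P.cons (P.lf 0 210121501 0) (P.cons (P.lf 0 25264915 0) (P.cons (P.lf 5300372 0 0) (P.cons (P.lf 336932 0 0) (P.cons (P.lf 0 24457 0) P.nil)))))) (P.cons (P.cons (P.lf 0 105934585 0) (P.cons (P.lf 0 39772914 0) (P.cons (P.lf 1229621 0 0) (P.cons (P.lf 345386 0 0) (P.cons (P.lf 8675 0 0) P.nil))))) (P.cons (P.cons (P.lf 0 7762647 0) (P.cons (P.lf 1411307 0 0) (P.cons (P.lf 383891 0 0) (P.cons (P.lf 0 59038 0) P.nil)))) (P.cons (P.cons (P.lf 1271866 0 0) (P.cons (P.lf 607423 0 0) (P.cons (P.lf 0 21154 0) P.nil))) (P.cons (P.cons (P.lf 173135 0 0) (P.cons (P.lf 0 197 0) P.nil)) (P.cons (P.cons (P.lf 0 5539 0) P.nil) P.nil)))))) 25411)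
 EL.nil)
noncomputable def S241_256_586_660_30 : EL := (EL.cons 13 (TM.mk (P.cons (P.lf 251388528 0 0) (P.cons (P.lf 0 250849684 0) (P.cons (P.lf 0 807108 0) (P.cons (P.lf 267112 0 0) (P.cons (P.lf 1436 0 0) (P.cons (P.lf 0 280 0) P.nil)))))) 32)
 EL.nil)
noncomputable def S241_256_586_660_31 : EL := (EL.cons 13 (TM.mk (P.cons (P.cons (P.lf 0 66467132 0) (P.cons (P.lf 0 23257584 0) (P.cons (P.lf 1272561 0 0) (P.lf 141395 0 0)))) (P.cons (P.cons (P.lf 54599147 0 0) (P.cons (P.lf 22908300 0 0) (P.cons (P.lf 0 1253450 0) (P.lf 0 139272 0)))) (P.cons (P.cons (P.lf 12088813 0 0) (P.cons (P.lf 521250 0 0) (P.cons (P.lf 0 28520 0) (P.lf 0 3168 0)))) (P.cons (P.cons (P.lf 0 97736 0) (P.cons (P.lf 0 169305 0) (P.cons (P.lf 9263 0 0) P.nil))) (P.cons (P.cons (P.lf 0 123058 0) (P.cons (P.lf 0 3307 0) P.nil)) (P.cons (P.cons (P.lf 0 491 0) P.nil) P.nil)))))) 2534)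
 EL.nil)
noncomputable def S241_256_586_660_32 : EL := (EL.cons 13 (TM.mk (P.cons (P.cons (P.lf 17573911 0 0) (P.cons (P.lf 12298611 0 0) (P.cons (P.lf 1478779 0 0) (P.cons (P.lf 0 310235 0) (P.cons (P.lf 0 19720 0) (P.cons (P.lf 1431 0 0) P.nil)))))) (P.cons (P.cons (P.lf 0 11335789 0) (P.cons (P.lf 0 9944303 0) (P.cons (P.lf 0 1547580 0) (P.cons (P.lf 289355 0 0) (P.cons (P.lf 19170 0 0) P.nil))))) (P.cons (P.cons (P.lf 0 5789229 0) (P.cons (P.lf 0 2445047 0) (P.cons (P.lf 44599 0 0) (P.cons (P.lf 24624 0 0) P.nil)))) (P.cons (P.cons (P.lf 0 529058 0) (P.cons (P.lf 52468 0 0) (P.cons (P.lf 25461 0 0) P.nil))) (P.cons (P.cons (P.lf 69380 0 0) (P.cons (P.lf 38297 0 0) P.nil)) (P.cons (P.cons (P.lf 11173 0 0) P.nil) P.nil)))))) 11077)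
 EL.nil)
noncomputable def S241_256_586_660_33 : EL := (EL.cons 14 (TM.mk (P.lf 8589934592 0 0) 0)
 EL.nil)
noncomputable def S241_256_586_660_34 : EL := (EL.cons 14 (TM.mk (P.cons (P.cons (P.lf 0 2271178888 0) (P.cons (P.lf 0 794710608 0) (P.cons (P.lf 43483368 0 0) (P.lf 4831480 0 0)))) (P.cons (P.cons (P.lf 0 400660278 0) (P.cons (P.lf 0 10231584 0) (P.cons (P.lf 559824 0 0) (P.lf 62200 0 0)))) (P.cons (P.cons (P.lf 5980902 0 0) (P.cons (P.lf 5049952 0 0) (P.cons (P.lf 0 276304 0) (P.lf 0 30696 0)))) (P.cons (P.cons (P.lf 3755294 0 0) (P.cons (P.lf 65536 0 0) (P.cons (P.lf 0 3576 0) P.nil))) (P.cons (P.cons (P.lf 226 0 0) (P.cons (P.lf 0 16008 0) P.nil)) (P.cons (P.cons (P.lf 0 11102 0) P.nil) P.nil)))))) 2664)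
 EL.nil)
noncomputable def S241_256_586_660_35 : EL := (EL.cons 14 (TM.mk (P.cons (P.cons (P.lf 600499746 0 0) (P.cons (P.lf 420243002 0 0) (P.cons (P.lf 50529830 0 0) (P.cons (P.lf 0 10600744 0) (P.cons (P.lf 0 673864 0) (P.cons (P.lf 48914 0 0) P.nil)))))) (P.cons (P.cons (P.lf 211869170 0 0) (P.cons (P.lf 79545828 0 0) (P.cons (P.lf 0 2459242 0) (P.cons (P.lf 0 690772 0) (P.cons (P.lf 0 17350 0) P.nil))))) (P.cons (P.cons (P.lf 15525294 0 0) (P.cons (P.lf 0 2822614 0) (P.cons (P.lf 0 767782 0) (P.cons (P.lf 118076 0 0) P.nil)))) (P.cons (P.cons (P.lf 0 2543732 0) (P.cons (P.lf 0 1214846 0) (P.cons (P.lf 42308 0 0) P.nil))) (P.cons (P.cons (P.lf 0 346270 0) (P.cons (P.lf 394 0 0) P.nil)) (P.cons (P.cons (P.lf 11078 0 0) P.nil) P.nil)))))) 50822)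
 EL.nil)
noncomputable def S241_256_586_660_36 : EL := (EL.cons 14 (TM.mk (P.cons (P.lf 0 502777056 0) (P.cons (P.lf 501699368 0 0) (P.cons (P.lf 1614216 0 0) (P.cons (P.lf 0 534224 0) (P.cons (P.lf 0 2872 0) (P.cons (P.lf 560 0 0) P.nil)))))) 64)
 EL.nil)
noncomputable def S241_256_586_660_37 : EL := (EL.cons 14 (TM.mk (P.cons (P.cons (P.lf 132934264 0 0) (P.cons (P.lf 46515168 0 0) (P.cons (P.lf 0 2545122 0) (P.lf 0 282790 0)))) (P.cons (P.cons (P.lf 0 109198294 0) (P.cons (P.lf 0 45816600 0) (P.cons (P.lf 2506900 0 0) (P.lf 278544 0 0)))) (P.cons (P.cons (P.lf 0 24177626 0) (P.cons (P.lf 0 1042500 0) (P.cons (P.lf 57040 0 0) (P.lf 6336 0 0)))) (P.cons (P.cons (P.lf 195472 0 0) (P.cons (P.lf 338610 0 0) (P.cons (P.lf 0 18526 0) P.nil))) (P.cons (P.cons (P.lf 246116 0 0) (P.cons (P.lf 6614 0 0) P.nil)) (P.cons (P.cons (P.lf 982 0 0) P.nil) P.nil)))))) 5068)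
 EL.nil)
noncomputable def S241_256_586_660_38 : EL := (EL.cons 14 (TM.mk (P.cons (P.cons (P.lf 0 35147822 0) (P.cons (P.lf 0 24597222 0) (P.cons (P.lf 0 2957558 0) (P.cons (P.lf 620470 0 0) (P.cons (P.lf 39440 0 0) (P.cons (P.lf 0 2862 0) P.nil)))))) (P.cons (P.cons (P.lf 22671578 0 0) (P.cons (P.lf 19888606 0 0) (P.cons (P.lf 3095160 0 0) (P.cons (P.lf 0 578710 0) (P.cons (P.lf 0 38340 0) P.nil))))) (P.cons (P.cons (P.lf 11578458 0 0) (P.cons (P.lf 4890094 0 0) (P.cons (P.lf 0 89198 0) (P.cons (P.lf 0 49248 0) P.nil)))) (P.cons (P.cons (P.lf 1058116 0 0) (P.cons (P.lf 0 104936 0) (P.cons (P.lf 0 50922 0) P.nil))) (P.cons (P.cons (P.lf 0 138760 0) (P.cons (P.lf 0 76594 0) P.nil)) (P.cons (P.cons (P.lf 0 22346 0) P.nil) P.nil)))))) 22154)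
 EL.nil)
noncomputable def S241_256_586_660_39 : EL := (EL.cons 14 (TM.mk (P.cons (P.lf 29428020 0 0) (P.cons (P.lf 0 58729884 0) (P.cons (P.lf 29113034 0 0) (P.cons (P.lf 251094 0 0) (P.cons (P.lf 0 61762 0) (P.cons (P.lf 0 600 0) P.nil)))))) 128)
 EL.nil)
noncomputable def S241_256_586_660_40 : EL := (EL.cons 14 (TM.mk (P.cons (P.cons (P.lf 0 7780768 0) (P.cons (P.lf 0 2722576 0) (P.cons (P.lf 148968 0 0) (P.lf 16552 0 0)))) (P.cons (P.cons (P.lf 14155570 0 0) (P.cons (P.lf 5398430 0 0) (P.cons (P.lf 0 295380 0) (P.lf 0 32820 0)))) (P.cons (P.cons (P.lf 0 4937658 0) (P.cons (P.lf 0 2606180 0) (P.cons (P.lf 142598 0 0) (P.lf 15844 0 0)))) (P.cons (P.cons (P.lf 0 1452334 0) (P.cons (P.lf 0 92208 0) (P.cons (P.lf 5044 0 0) P.nil))) (P.cons (P.cons (P.lf 0 784 0) (P.cons (P.lf 22026 0 0) P.nil)) (P.cons (P.cons (P.lf 15902 0 0) P.nil) P.nil)))))) 3176)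
 EL.nil)
noncomputable def S241_256_586_660_41 : EL := (EL.cons 14 (TM.mk (P.cons (P.cons (P.lf 2057234 0 0) (P.cons (P.lf 1439698 0 0) (P.cons (P.lf 173108 0 0) (P.cons (P.lf 0 36316 0) (P.cons (P.lf 0 2308 0) (P.cons (P.lf 166 0 0) P.nil)))))) (P.cons (P.cons (P.lf 0 3379814 0) (P.cons (P.lf 0 2600712 0) (P.cons (P.lf 0 353900 0) (P.cons (P.lf 70110 0 0) (P.cons (P.lf 4546 0 0) P.nil))))) (P.cons (P.cons (P.lf 639840 0 0) (P.cons (P.lf 870758 0 0) (P.cons (P.lf 185438 0 0) (P.cons (P.lf 0 30800 0) P.nil)))) (P.cons (P.cons (P.lf 620758 0 0) (P.cons (P.lf 297016 0 0) (P.cons (P.lf 0 1462 0) P.nil))) (P.cons (P.cons (P.lf 70698 0 0) (P.cons (P.lf 0 1954 0) P.nil)) (P.cons (P.cons (P.lf 0 7326 0) P.nil) P.nil)))))) 17630)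
 EL.nil)
noncomputable def S241_256_586_660_42 : EL := (EL.cons 14 (TM.mk (P.cons (P.lf 0 1722450 0) (P.cons (P.lf 5156274 0 0) (P.cons (P.lf 0 5128630 0) (P.cons (P.lf 1672796 0 0) (P.cons (P.lf 27392 0 0) (P.cons (P.lf 0 5312 0) P.nil)))))) 110)
 EL.nil)
noncomputable def S241_256_586_660_43 : EL := (EL.cons 14 (TM.mk (P.cons (P.cons (P.lf 455414 0 0) (P.cons (P.lf 159354 0 0) (P.cons (P.lf 0 8718 0) (P.lf 0 968 0)))) (P.cons (P.cons (P.lf 0 1282978 0) (P.cons (P.lf 0 474988 0) (P.cons (P.lf 25988 0 0) (P.lf 2886 0 0)))) (P.cons (P.cons (P.lf 1114306 0 0) (P.cons (P.lf 467328 0 0) (P.cons (P.lf 0 25570 0) (P.lf 0 2840 0)))) (P.cons (P.cons (P.lf 0 200234 0) (P.cons (P.lf 0 145634 0) (P.cons (P.lf 7968 0 0) P.nil))) (P.cons (P.cons (P.lf 0 86582 0) (P.cons (P.lf 0 7498 0) P.nil)) (P.cons (P.cons (P.lf 0 948 0) P.nil) P.nil)))))) 4280)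
 EL.nil)
noncomputable def S241_256_586_660_44 : EL := (EL.cons 14 (TM.mk (P.cons (P.cons (P.lf 0 120410 0) (P.cons (P.lf 0 84266 0) (P.cons (P.lf 0 10132 0) (P.cons (P.lf 2124 0 0) (P.cons (P.lf 134 0 0) (P.cons (P.lf 0 8 0) P.nil)))))) (P.cons (P.cons (P.lf 317976 0 0) (P.cons (P.lf 236308 0 0) (P.cons (P.lf 30824 0 0) (P.cons (P.lf 0 6224 0) (P.cons (P.lf 0 400 0) P.nil))))) (P.cons (P.cons (P.lf 0 234462 0) (P.cons (P.lf 0 202590 0) (P.cons (P.lf 0 31490 0) (P.cons (P.lf 5890 0 0) P.nil)))) (P.cons (P.cons (P.lf 272 0 0) (P.cons (P.lf 32894 0 0) (P.cons (P.lf 10838 0 0) P.nil))) (P.cons (P.cons (P.lf 32446 0 0) (P.cons (P.lf 17786 0 0) P.nil)) (P.cons (P.cons (P.lf 4636 0 0) P.nil) P.nil)))))) 8016)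
 EL.nil)
noncomputable def S241_256_586_660_45 : EL := (EL.cons 14 (TM.mk (P.cons (P.cons (P.lf 0 158772144 0) (P.cons (P.lf 0 166668388 0) (P.cons (P.lf 0 49199688 0) (P.cons (P.lf 593074 0 0) (P.cons (P.lf 1651070 0 0) (P.cons (P.lf 24168 0 0) P.nil)))))) (P.cons (P.cons (P.lf 0 84027318 0) (P.cons (P.lf 0 60949966 0) (P.cons (P.lf 0 8454850 0) (P.cons (P.lf 1397998 0 0) (P.cons (P.lf 151180 0 0) P.nil))))) (P.cons (P.cons (P.lf 0 13568990 0) (P.cons (P.lf 0 4007030 0) (P.cons (P.lf 839420 0 0) (P.cons (P.lf 82786 0 0) P.nil)))) (P.cons (P.cons (P.lf 358456 0 0) (P.cons (P.lf 1037946 0 0) (P.cons (P.lf 191798 0 0) P.nil))) (P.cons (P.cons (P.lf 313650 0 0) (P.cons (P.lf 134070 0 0) P.nil)) (P.cons (P.cons (P.lf 17466 0 0) P.nil) P.nil)))))) 132460)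
 EL.nil)
noncomputable def S241_256_586_660_46 : EL := (EL.cons 15 (TM.mk (P.lf 4294967296 0 0) 0)
 EL.nil)
noncomputable def S241_256_586_660_47 : EL := (EL.cons 15 (TM.mk (P.cons (P.cons (P.lf 0 1135589444 0) (P.cons (P.lf 0 397355304 0) (P.cons (P.lf 21741684 0 0) (P.lf 2415740 0 0)))) (P.cons (P.cons (P.lf 0 200330139 0) (P.cons (P.lf 0 5115792 0) (P.cons (P.lf 279912 0 0) (P.lf 31100 0 0)))) (P.cons (P.cons (P.lf 2990451 0 0) (P.cons (P.lf 2524976 0 0) (P.cons (P.lf 0 138152 0) (P.lf 0 15348 0)))) (P.cons (P.cons (P.lf 1877647 0 0) (P.cons (P.lf 32768 0 0) (P.cons (P.lf 0 1788 0) P.nil))) (P.cons (P.cons (P.lf 113 0 0) (P.cons (P.lf 0 8004 0) P.nil)) (P.cons (P.cons (P.lf 0 5551 0) P.nil) P.nil)))))) 1332)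
 EL.nil)
noncomputable def S241_256_586_660_48 : EL := (EL.cons 15 (TM.mk (P.cons (P.cons (P.lf 300249873 0 0) (P.cons (P.lf 210121501 0 0) (P.cons (P.lf 25264915 0 0) (P.cons (P.lf 0 5300372 0) (P.cons (P.lf 0 336932 0) (P.cons (P.lf 24457 0 0) P.nil)))))) (P.cons (P.cons (P.lf 105934585 0 0) (P.cons (P.lf 39772914 0 0) (P.cons (P.lf 0 1229621 0) (P.cons (P.lf 0 345386 0) (P.cons (P.lf 0 8675 0) P.nil))))) (P.cons (P.cons (P.lf 7762647 0 0) (P.cons (P.lf 0 1411307 0) (P.cons (P.lf 0 383891 0) (P.cons (P.lf 59038 0 0) P.nil)))) (P.cons (P.cons (P.lf 0 1271866 0) (P.cons (P.lf 0 607423 0) (P.cons (P.lf 21154 0 0) P.nil))) (P.cons (P.cons (P.lf 0 173135 0) (P.cons (P.lf 197 0 0) P.nil)) (P.cons (P.cons (P.lf 5539 0 0) P.nil) P.nil)))))) 25411)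
 EL.nil)
noncomputable def S241_256_586_660 : SL := (SL.cons S241_256_586_660_0 (SL.cons S241_256_586_660_1 (SL.cons S241_256_586_660_2 (SL.cons S241_256_586_660_3 (SL.cons S241_256_586_660_4 (SL.cons S241_256_586_660_5 (SL.cons S241_256_586_660_6 (SL.cons S241_256_586_660_7 (SL.cons S241_256_586_660_8 (SL.cons S241_256_586_660_9 (SL.cons S241_256_586_660_10 (SL.cons S241_256_586_660_11 (SL.cons S241_256_586_660_12 (SL.cons S241_256_586_660_13 (SL.cons S241_256_586_660_14 (SL.cons S241_256_586_660_15 (SL.cons S241_256_586_660_16 (SL.cons S241_256_586_660_17 (SL.cons S241_256_586_660_18 (SL.cons S241_256_586_660_19 (SL.cons S241_256_586_660_20 (SL.cons S241_256_586_660_21 (SL.cons S241_256_586_660_22 (SL.cons S241_256_586_660_23 (SL.cons S241_256_586_660_24 (SL.cons S241_256_586_660_25 (SL.cons S241_256_586_660_26 (SL.cons S241_256_586_660_27 (SL.cons S241_256_586_660_28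 (SL.cons S241_256_586_660_29 (SL.cons S241_256_586_660_30 (SL.cons S241_256_586_660_31 (SL.cons S241_256_586_660_32 (SL.cons S241_256_586_660_33 (SL.cons S241_256_586_660_34 (SL.cons S241_256_586_660_35 (SL.cons S241_256_586_660_36 (SL.cons S241_256_586_660_37 (SL.cons S241_256_586_660_38 (SL.cons S241_256_586_660_39 (SL.cons S241_256_586_660_40 (SL.cons S241_256_586_660_41 (SL.cons S241_256_586_660_42 (SL.cons S241_256_586_660_43 (SL.cons S241_256_586_660_44 (SL.cons S241_256_586_660_45 (SL.cons S241_256_586_660_46 (SL.cons S241_256_586_660_47 (SL.cons S241_256_586_660_48 SL.nil)))))))))))))))))))))))))))))))))))))))))))))))))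
theorem S241_256_216_290_ok : band (seq (shp 5 241 256 216 290) S241_256_216_290) (sok S241_256_216_290) = true := by decide +kernel

theorem S241_256_216_364_ok : band (seq (shp 5 241 256 216 364) S241_256_216_364) (sok S241_256_216_364) = true := by decide +kernel

theorem S241_256_290_364_ok : band (seq (shp 5 241 256 290 364) S241_256_290_364) (sok S241_256_290_364) = true := by decide +kernel

theorem S241_256_364_512_ok : band (seq (shp 5 241 256 364 512) S241_256_364_512) (sok S241_256_364_512) = true := by decide +kernel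

theorem S241_256_512_660_ok : band (seq (shp 5 241 256 512 660) S241_256_512_660) (sok S241_256_512_660) = true := by decide +kernel

theorem S241_256_586_660_ok : band (seq (shp 5 241 256 586 660) S241_256_586_660) (sok S241_256_586_660) = true := by decide +kernel

end Vale.Agent.P098.Ck
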