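import Vale.Agent.P098.CkDefs

namespace Vale.Agent.P098.Ck

noncomputable def S241_256_660_808_0 : EL := (EL.cons 0 (TM.mk (P.cons (P.lf 8429852393 0 0) (P.cons (P.lf 51618062 0 0) (P.cons (P.lf 0 25587627 0) (P.cons (P.lf 0 220688 0) (P.cons (P.lf 54283 0 0) (P.cons (P.lf 527 0 0) P.nil)))))) 119)
 (EL.cons 1 (TM.mk (P.cons (P.lf 0 235171578 0) (P.cons (P.lf 233658247 0 0) (P.cons (P.lf 2264585 0 0) (P.cons (P.lf 0 745863 0) (P.cons (P.lf 0 6716 0) (P.cons (P.lf 1310 0 0) P.nil)))))) 72)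
 (EL.cons 5 (TM.mk (P.cons (P.lf 4304163554 0 0) (P.cons (P.lf 0 18353086 0) (P.cons (P.lf 9097822 0 0) (P.cons (P.lf 78466 0 0) (P.cons (P.lf 0 19296 0) (P.cons (P.lf 0 186 0) P.nil)))))) 147)
 (EL.cons 9 (TM.mk (P.lf 6442450944 0 0) 2)
 EL.nil))))
noncomputable def S241_256_660_808_1 : EL := (EL.cons 0 (TM.mk (P.cons (P.cons (P.lf 0 3758545100 0) (P.cons (P.lf 0 784399291 0) (P.cons (P.lf 338241829 0 0) (P.lf 37582419 0 0)))) (P.cons (P.cons (P.lf 0 763215394 0) (P.cons (P.lf 0 29489592 0) (P.cons (P.lf 12716239 0 0) (P.lf 1412911 0 0)))) (P.cons (P.cons (P.lf 41992747 0 0) (P.cons (P.lf 14346983 0 0) (P.cons (P.lf 0 6186582 0) (P.lf 0 687390 0)))) (P.cons (P.cons (P.lf 14405762 0 0) (P.cons (P.lf 394558 0 0) (P.cons (P.lf 0 170133 0) P.nil))) (P.cons (P.cons (P.lf 0 141676 0) (P.cons (P.lf 0 94602 0) P.nil)) (P.cons (P.cons (P.lf 0 86657 0) P.nil) P.nil))))))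 74087)
 (EL.cons 1 (TM.mk (P.cons (P.cons (P.lf 1461811565 0 0) (P.cons (P.lf 55072642 0 0) (P.cons (P.lf 0 23747945 0) (P.lf 0 2638655 0)))) (P.cons (P.cons (P.lf 0 193612311 0) (P.cons (P.lf 0 53723639 0) (P.cons (P.lf 23166239 0 0) (P.lf 2574020 0 0)))) (P.cons (P.cons (P.lf 0 62210790 0) (P.cons (P.lf 0 2008818 0) (P.cons (P.lf 866220 0 0) (P.lf 96240 0 0)))) (P.cons (P.cons (P.lf 1336436 0 0) (P.cons (P.lf 645241 0 0) (P.cons (P.lf 0 278231 0) P.nil))) (P.cons (P.cons (P.lf 640435 0 0) (P.cons (P.lf 18081 0 0) P.nil)) (P.cons (P.cons (P.lf 0 2720 0) P.nil) P.nil)))))) 51586)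
 (EL.cons 5 (TM.mk (P.cons (P.cons (P.lf 0 2177112132 0) (P.cons (P.lf 0 406814908 0) (P.cons (P.lf 175423180 0 0) (P.lf 19491468 0 0)))) (P.cons (P.cons (P.lf 0 89576054 0) (P.cons (P.lf 1656904 0 0) (P.cons (P.lf 0 714476 0) (P.lf 0 79380 0)))) (P.cons (P.cons (P.lf 212016 0 0) (P.cons (P.lf 0 743814 0) (P.cons (P.lf 320740 0 0) (P.lf 35636 0 0)))) (P.cons (P.cons (P.lf 0 1799483 0) (P.cons (P.lf 0 83736 0) (P.cons (P.lf 36104 0 0) P.nil))) (P.cons (P.cons (P.lf 18661 0 0) (P.cons (P.lf 19820 0 0) P.nil)) (P.cons (P.cons (P.lf 20919 0 0) P.nil) P.nil)))))) 44073)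
 (EL.cons 9 (TM.mk (P.cons (P.cons (P.lf 0 3100132692 0) (P.cons (P.lf 0 605040378 0) (P.cons (P.lf 260900238 0 0) (P.lf 28988910 0 0)))) (P.cons (P.cons (P.lf 0 318477808 0) (P.cons (P.lf 0 7789656 0) (P.cons (P.lf 3358986 0 0) (P.lf 373218 0 0)))) (P.cons (P.cons (P.lf 13361260 0 0) (P.cons (P.lf 3844698 0 0) (P.cons (P.lf 0 1657878 0) (P.lf 0 184206 0)))) (P.cons (P.cons (P.lf 2931664 0 0) (P.cons (P.lf 49896 0 0) (P.cons (P.lf 0 21516 0) P.nil))) (P.cons (P.cons (P.lf 0 27970 0) (P.cons (P.lf 0 12186 0) P.nil)) (P.cons (P.cons (P.lf 0 8716 0) P.nil) P.nil)))))) 9619)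
 (EL.cons 2 (TM.mk (P.cons (P.cons (P.lf 69521231 0 0) (P.cons (P.lf 0 64765456 0) (P.cons (P.lf 0 6647042 0) (P.cons (P.lf 1382397 0 0) (P.lf 115197 0 0))))) (P.cons (P.cons (P.lf 0 68775508 0) (P.cons (P.lf 64070749 0 0) (P.cons (P.lf 6575743 0 0) (P.cons (P.lf 0 1367569 0) (P.lf 0 113962 0))))) (P.cons (P.cons (P.lf 0 1114425 0) (P.cons (P.lf 1038189 0 0) (P.cons (P.lf 106551 0 0) (P.cons (P.lf 0 22159 0) P.nil)))) (P.cons (P.cons (P.lf 364561 0 0) (P.cons (P.lf 0 339620 0) (P.cons (P.lf 0 34855 0) P.nil))) (P.cons (P.cons (P.lf 5152 0 0) (P.cons (P.lf 0 4800 0) P.nil)) (P.cons (P.cons (P.lf 0 998 0) P.nil) P.nil)))))) 11737)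
 (EL.cons 6 (TM.mk (P.cons (P.cons (P.lf 632118792 0 0) (P.cons (P.lf 0 588877131 0) (P.cons (P.lf 0 60437949 0) (P.cons (P.lf 12569409 0 0) (P.lf 1047450 0 0))))) (P.cons (P.cons (P.lf 8138283 0 0) (P.cons (P.lf 0 7581564 0) (P.cons (P.lf 0 778113 0) (P.cons (P.lf 161823 0 0) (P.lf 13482 0 0))))) (P.cons (P.cons (P.lf 0 4016772 0) (P.cons (P.lf 3741993 0 0) (P.cons (P.lf 384048 0 0) (P.cons (P.lf 0 79869 0) P.nil)))) (P.cons (P.cons (P.lf 0 52131 0) (P.cons (P.lf 48564 0 0) (P.cons (P.lf 4983 0 0) P.nil))) (P.cons (P.cons (P.lf 12735 0 0) (P.cons (P.lf 0 11862 0) P.nil)) (P.cons (P.cons (P.lf 174 0 0) P.nil) P.nil)))))) 9840)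
 EL.nil))))))
noncomputable def S241_256_660_808_2 : EL := (EL.cons 0 (TM.mk (P.cons (P.cons (P.lf 1665260152 0 0) (P.cons (P.lf 698951509 0 0) (P.cons (P.lf 0 228413592 0) (P.cons (P.lf 0 96429915 0) (P.cons (P.lf 6577045 0 0) (P.cons (P.lf 3015677 0 0) P.nil)))))) (P.cons (P.cons (P.lf 693115755 0 0) (P.cons (P.lf 165628786 0 0) (P.cons (P.lf 0 66354874 0) (P.cons (P.lf 0 12304791 0) (P.cons (P.lf 456546 0 0) P.nil))))) (P.cons (P.cons (P.lf 19148416 0 0) (P.cons (P.lf 0 15782436 0) (P.cons (P.lf 4392425 0 0) (P.cons (P.lf 2837307 0 0) P.nil)))) (P.cons (P.cons (P.lf 0 17936689 0) (P.cons (P.lf 0 4757013 0) (P.cons (P.lf 1933024 0 0) P.nil))) (P.cons (P.cons (P.lf 0 1425351 0) (P.cons (P.lf 92349 0 0) P.nil)) (P.cons (P.cons (P.lf 164485 0 0) P.nil) P.nil)))))) 1875960)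
 (EL.cons 1 (TM.mk (P.cons (P.cons (P.lf 0 1352403250 0) (P.cons (P.lf 0 306317532 0) (P.cons (P.lf 123817522 0 0) (P.cons (P.lf 21808671 0 0) (P.cons (P.lf 0 745281 0) (P.cons (P.lf 0 341721 0) P.nil)))))) (P.cons (P.cons (P.lf 0 1109892 0) (P.cons (P.lf 60428428 0 0) (P.cons (P.lf 0 18107175 0) (P.cons (P.lf 0 9751741 0) (P.cons (P.lf 716457 0 0) P.nil))))) (P.cons (P.cons (P.lf 73542150 0 0) (P.cons (P.lf 18526552 0 0) (P.cons (P.lf 0 7514946 0) (P.cons (P.lf 0 1296343 0) P.nil)))) (P.cons (P.cons (P.lf 5200938 0 0) (P.cons (P.lf 0 699982 0) (P.cons (P.lf 153461 0 0) P.nil))) (P.cons (P.cons (P.lf 0 1017749 0) (P.cons (P.lf 0 297458 0) P.nil)) (P.cons (P.cons (P.lf 0 102851 0) P.nil) P.nil)))))) 978521)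
 (EL.cons 5 (TM.mk (P.cons (P.cons (P.lf 1098609660 0 0) (P.cons (P.lf 411418927 0 0) (P.cons (P.lf 0 138959274 0) (P.cons (P.lf 0 52871511 0) (P.cons (P.lf 3464974 0 0) (P.cons (P.lf 1588739 0 0) P.nil)))))) (P.cons (P.cons (P.lf 100931805 0 0) (P.cons (P.lf 17401560 0 0) (P.cons (P.lf 0 7646829 0) (P.cons (P.lf 0 710376 0) (P.cons (P.lf 0 12883 0) P.nil))))) (P.cons (P.cons (P.lf 0 3538957 0) (P.cons (P.lf 0 553425 0) (P.cons (P.lf 288894 0 0) (P.cons (P.lf 0 16811 0) P.nil)))) (P.cons (P.cons (P.lf 1682679 0 0) (P.cons (P.lf 545454 0 0) (P.cons (P.lf 0 214306 0) P.nil))) (P.cons (P.cons (P.lf 240200 0 0) (P.cons (P.lf 0 9134 0) P.nil)) (P.cons (P.cons (P.lf 0 32037 0) P.nil) P.nil)))))) 1148284)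
 (EL.cons 9 (TM.mk (P.cons (P.cons (P.lf 1491796024 0 0) (P.cons (P.lf 582295611 0 0) (P.cons (P.lf 0 194270296 0) (P.cons (P.lf 0 76903851 0) (P.cons (P.lf 5120722 0 0) (P.cons (P.lf 2347929 0 0) P.nil)))))) (P.cons (P.cons (P.lf 306505543 0 0) (P.cons (P.lf 67316274 0 0) (P.cons (P.lf 0 27564409 0) (P.cons (P.lf 0 4487110 0) (P.cons (P.lf 131854 0 0) P.nil))))) (P.cons (P.cons (P.lf 2884732 0 0) (P.cons (P.lf 0 5439651 0) (P.cons (P.lf 1632910 0 0) (P.cons (P.lf 875296 0 0) P.nil)))) (P.cons (P.cons (P.lf 0 4142464 0) (P.cons (P.lf 0 1011102 0) (P.cons (P.lf 417330 0 0) P.nil))) (P.cons (P.cons (P.lf 0 235219 0) (P.cons (P.lf 20905 0 0) P.nil)) (P.cons (P.cons (P.lf 23313 0 0) P.nil) P.nil)))))) 549298)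
 (EL.cons 2 (TM.mk (P.cons (P.cons (P.lf 0 66907777 0) (P.cons (P.lf 49272665 0 0) (P.cons (P.lf 24192821 0 0) (P.cons (P.lf 0 4701898 0) (P.cons (P.lf 0 1491738 0) (P.cons (P.lf 30504 0 0) P.nil)))))) (P.cons (P.cons (P.lf 59316626 0 0) (P.cons (P.lf 0 42508991 0) (P.cons (P.lf 0 23047020 0) (P.cons (P.lf 4471380 0 0) (P.cons (P.lf 1446570 0 0) P.nil))))) (P.cons (P.cons (P.lf 8160626 0 0) (P.cons (P.lf 0 7143766 0) (P.cons (P.lf 0 1405248 0) (P.cons (P.lf 280676 0 0) P.nil)))) (P.cons (P.cons (P.lf 0 462673 0) (P.cons (P.lf 284231 0 0) (P.cons (P.lf 244282 0 0) P.nil))) (P.cons (P.cons (P.lf 0 108821 0) (P.cons (P.lf 96868 0 0) P.nil)) (P.cons (P.cons (P.lf 1355 0 0) P.nil) P.nil)))))) 452153)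
 (EL.cons 6 (TM.mk (P.cons (P.cons (P.lf 0 608356086 0) (P.cons (P.lf 448009572 0 0) (P.cons (P.lf 219972192 0 0) (P.cons (P.lf 0 42751800 0) (P.cons (P.lf 0 13563600 0) (P.cons (P.lf 277398 0 0) P.nil)))))) (P.cons (P.cons (P.lf 0 70329000 0) (P.cons (P.lf 62460750 0 0) (P.cons (P.lf 10890654 0 0) (P.cons (P.lf 0 2187798 0) (P.cons (P.lf 0 439830 0) P.nil))))) (P.cons (P.cons (P.lf 5683104 0 0) (P.cons (P.lf 0 3805080 0) (P.cons (P.lf 0 2572926 0) (P.cons (P.lf 497514 0 0) P.nil)))) (P.cons (P.cons (P.lf 1056354 0 0) (P.cons (P.lf 0 945078 0) (P.cons (P.lf 0 154158 0) P.nil))) (P.cons (P.cons (P.lf 0 21840 0) (P.cons (P.lf 11022 0 0) P.nil)) (P.cons (P.cons (P.lf 0 7074 0) P.nil) P.nil)))))) 527910)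
 EL.nil))))))
noncomputable def S241_256_660_808_3 : EL := (EL.cons 0 (TM.mk (P.cons (P.lf 25864470 0 0) (P.cons (P.lf 0 51618062 0) (P.cons (P.lf 25587627 0 0) (P.cons (P.lf 220688 0 0) (P.cons (P.lf 0 54283 0) (P.cons (P.lf 0 527 0) P.nil)))))) 119)
 (EL.cons 1 (TM.mk (P.cons (P.lf 235171578 0 0) (P.cons (P.lf 0 233658247 0) (P.cons (P.lf 0 2264585 0) (P.cons (P.lf 745863 0 0) (P.cons (P.lf 6716 0 0) (P.cons (P.lf 0 1310 0) P.nil)))))) 72)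
 (EL.cons 5 (TM.mk (P.cons (P.lf 2138287390 0 0) (P.cons (P.lf 18353086 0 0) (P.cons (P.lf 0 9097822 0) (P.cons (P.lf 0 78466 0) (P.cons (P.lf 19296 0 0) (P.cons (P.lf 186 0 0) P.nil)))))) 140)
 EL.nil)))
noncomputable def S241_256_660_808_4 : EL := (EL.cons 0 (TM.mk (P.cons (P.cons (P.lf 0 12446084 0) (P.cons (P.lf 0 2429050 0) (P.cons (P.lf 1047433 0 0) (P.lf 116381 0 0)))) (P.cons (P.cons (P.lf 23560222 0 0) (P.cons (P.lf 4816416 0 0) (P.cons (P.lf 0 2076892 0) (P.lf 0 230765 0)))) (P.cons (P.cons (P.lf 0 9707523 0) (P.cons (P.lf 0 2325204 0) (P.cons (P.lf 1002654 0 0) (P.lf 111404 0 0)))) (P.cons (P.cons (P.lf 0 1466383 0) (P.cons (P.lf 0 82267 0) (P.cons (P.lf 35474 0 0) P.nil))) (P.cons (P.cons (P.lf 44676 0 0) (P.cons (P.lf 19652 0 0) P.nil)) (P.cons (P.cons (P.lf 15226 0 0) P.nil) P.nil)))))) 15621)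
 (EL.cons 1 (TM.mk (P.cons (P.cons (P.lf 0 113165486 0) (P.cons (P.lf 0 22086048 0) (P.cons (P.lf 9523753 0 0) (P.lf 1058193 0 0)))) (P.cons (P.cons (P.lf 100811731 0 0) (P.cons (P.lf 21659576 0 0) (P.cons (P.lf 0 9339853 0) (P.lf 0 1037760 0)))) (P.cons (P.cons (P.lf 13128181 0 0) (P.cons (P.lf 635540 0 0) (P.cons (P.lf 0 274051 0) (P.lf 0 30448 0)))) (P.cons (P.cons (P.lf 0 624541 0) (P.cons (P.lf 0 204928 0) (P.cons (P.lf 88366 0 0) P.nil))) (P.cons (P.cons (P.lf 0 152146 0) (P.cons (P.lf 0 5137 0) P.nil)) (P.cons (P.cons (P.lf 1511 0 0) P.nil) P.nil)))))) 15289)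
 (EL.cons 5 (TM.mk (P.cons (P.cons (P.lf 0 1028952288 0) (P.cons (P.lf 0 200816462 0) (P.cons (P.lf 86594324 0 0) (P.lf 9621588 0 0)))) (P.cons (P.cons (P.lf 0 114536234 0) (P.cons (P.lf 0 4309054 0) (P.cons (P.lf 1858112 0 0) (P.lf 206454 0 0)))) (P.cons (P.cons (P.lf 7905316 0 0) (P.cons (P.lf 2108304 0 0) (P.cons (P.lf 0 909124 0) (P.lf 0 101012 0)))) (P.cons (P.cons (P.lf 1498600 0 0) (P.cons (P.lf 45882 0 0) (P.cons (P.lf 0 19784 0) P.nil))) (P.cons (P.cons (P.lf 0 25206 0) (P.cons (P.lf 0 11048 0) P.nil)) (P.cons (P.cons (P.lf 0 8318 0) P.nil) P.nil)))))) 8816)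
 EL.nil)))
noncomputable def S241_256_660_808_5 : EL := (EL.cons 0 (TM.mk (P.cons (P.cons (P.lf 5989104 0 0) (P.cons (P.lf 2337737 0 0) (P.cons (P.lf 0 779934 0) (P.cons (P.lf 0 308743 0) (P.cons (P.lf 20557 0 0) (P.cons (P.lf 9425 0 0) P.nil)))))) (P.cons (P.cons (P.lf 0 10722007 0) (P.cons (P.lf 0 4395200 0) (P.cons (P.lf 1445864 0 0) (P.cons (P.lf 598151 0 0) (P.cons (P.lf 0 40498 0) P.nil))))) (P.cons (P.cons (P.lf 3480802 0 0) (P.cons (P.lf 1751526 0 0) (P.cons (P.lf 0 544180 0) (P.cons (P.lf 0 265974 0) P.nil)))) (P.cons (P.cons (P.lf 1228712 0 0) (P.cons (P.lf 326831 0 0) (P.cons (P.lf 0 127539 0) P.nil))) (P.cons (P.cons (P.lf 41632 0 0) (P.cons (P.lf 0 16018 0) P.nil)) (P.cons (P.cons (P.lf 0 17078 0) P.nil) P.nil)))))) 112149)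
 (EL.cons 1 (TM.mk (P.cons (P.cons (P.lf 54455675 0 0) (P.cons (P.lf 21255787 0 0) (P.cons (P.lf 0 7091531 0) (P.cons (P.lf 0 2807253 0) (P.cons (P.lf 186922 0 0) (P.cons (P.lf 85706 0 0) P.nil)))))) (P.cons (P.cons (P.lf 0 42916747 0) (P.cons (P.lf 0 18661730 0) (P.cons (P.lf 6039701 0 0) (P.cons (P.lf 2625393 0 0) (P.cons (P.lf 0 180905 0) P.nil))))) (P.cons (P.cons (P.lf 0 11535583 0) (P.cons (P.lf 0 2844708 0) (P.cons (P.lf 1127613 0 0) (P.cons (P.lf 221722 0 0) P.nil)))) (P.cons (P.cons (P.lf 0 190867 0) (P.cons (P.lf 204131 0 0) (P.cons (P.lf 0 56790 0) P.nil))) (P.cons (P.cons (P.lf 177678 0 0) (P.cons (P.lf 47745 0 0) P.nil)) (P.cons (P.cons (P.lf 11186 0 0) P.nil) P.nil)))))) 200575)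
 (EL.cons 5 (TM.mk (P.cons (P.cons (P.lf 495135880 0 0) (P.cons (P.lf 193267340 0 0) (P.cons (P.lf 0 64479454 0) (P.cons (P.lf 0 25524840 0) (P.cons (P.lf 1699596 0 0) (P.cons (P.lf 779290 0 0) P.nil)))))) (P.cons (P.cons (P.lf 105980782 0 0) (P.cons (P.lf 24001494 0 0) (P.cons (P.lf 0 9702220 0) (P.cons (P.lf 0 1708378 0) (P.cons (P.lf 58350 0 0) P.nil))))) (P.cons (P.cons (P.lf 0 276042 0) (P.cons (P.lf 0 2435982 0) (P.cons (P.lf 737788 0 0) (P.cons (P.lf 386332 0 0) P.nil)))) (P.cons (P.cons (P.lf 0 1817696 0) (P.cons (P.lf 0 453240 0) (P.cons (P.lf 184456 0 0) P.nil))) (P.cons (P.cons (P.lf 0 93208 0) (P.cons (P.lf 12664 0 0) P.nil)) (P.cons (P.cons (P.lf 13842 0 0) P.nil) P.nil)))))) 221418)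
 EL.nil)))
noncomputable def S241_256_660_808_6 : EL := (EL.cons 12 (TM.mk (P.lf 8589934592 0 0) 0)
 (EL.cons 3 (TM.mk (P.cons (P.lf 0 235676745 0) (P.cons (P.lf 235171578 0 0) (P.cons (P.lf 756663 0 0) (P.cons (P.lf 0 250417 0) (P.cons (P.lf 0 1346 0) (P.cons (P.lf 262 0 0) P.nil)))))) 37)
 (EL.cons 7 (TM.mk (P.cons (P.lf 0 2142880586 0) (P.cons (P.lf 0 9196255 0) (P.cons (P.lf 4578416 0 0) (P.cons (P.lf 19669 0 0) (P.cons (P.lf 0 4863 0) (P.cons (P.lf 0 31 0) P.nil)))))) 53)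
 EL.nil)))
noncomputable def S241_256_660_808_7 : EL := (EL.cons 12 (TM.mk (P.cons (P.cons (P.lf 0 4133510256 0) (P.cons (P.lf 0 806720504 0) (P.cons (P.lf 347866984 0 0) (P.lf 38651880 0 0)))) (P.cons (P.cons (P.lf 0 424637078 0) (P.cons (P.lf 0 10386208 0) (P.cons (P.lf 4478648 0 0) (P.lf 497624 0 0)))) (P.cons (P.cons (P.lf 17815014 0 0) (P.cons (P.lf 5126264 0 0) (P.cons (P.lf 0 2210504 0) (P.lf 0 245608 0)))) (P.cons (P.cons (P.lf 3908886 0 0) (P.cons (P.lf 66528 0 0) (P.cons (P.lf 0 28688 0) P.nil))) (P.cons (P.cons (P.lf 0 37294 0) (P.cons (P.lf 0 16248 0) P.nil)) (P.cons (P.cons (P.lf 0 11622 0) P.nil) P.nil)))))) 12800)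
 (EL.cons 3 (TM.mk (P.cons (P.cons (P.lf 0 2601353097 0) (P.cons (P.lf 0 44266984 0) (P.cons (P.lf 19088424 0 0) (P.lf 2120934 0 0)))) (P.cons (P.cons (P.lf 120441064 0 0) (P.cons (P.lf 43602180 0 0) (P.cons (P.lf 0 18801750 0) (P.lf 0 2089080 0)))) (P.cons (P.cons (P.lf 65897046 0 0) (P.cons (P.lf 992112 0 0) (P.cons (P.lf 0 427808 0) (P.lf 0 47532 0)))) (P.cons (P.cons (P.lf 0 574064 0) (P.cons (P.lf 0 322242 0) (P.cons (P.lf 138954 0 0) P.nil))) (P.cons (P.cons (P.lf 0 332117 0) (P.cons (P.lf 0 6294 0) P.nil)) (P.cons (P.cons (P.lf 1029 0 0) P.nil) P.nil)))))) 44457)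
 (EL.cons 7 (TM.mk (P.cons (P.cons (P.lf 1137321830 0 0) (P.cons (P.lf 203844391 0 0) (P.cons (P.lf 0 87900001 0) (P.lf 0 9766670 0)))) (P.cons (P.cons (P.lf 0 4709779 0) (P.cons (P.lf 0 1705036 0) (P.cons (P.lf 735231 0 0) (P.lf 81690 0 0)))) (P.cons (P.cons (P.lf 0 216922 0) (P.cons (P.lf 815550 0 0) (P.cons (P.lf 0 351676 0) (P.lf 0 39075 0)))) (P.cons (P.cons (P.lf 1738980 0 0) (P.cons (P.lf 36686 0 0) (P.cons (P.lf 0 15818 0) P.nil))) (P.cons (P.cons (P.lf 0 6765 0) (P.cons (P.lf 0 8825 0) P.nil)) (P.cons (P.cons (P.lf 0 9292 0) P.nil) P.nil)))))) 26761)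
 (EL.cons 10 (TM.mk (P.cons (P.cons (P.lf 0 1266953259 0) (P.cons (P.lf 1180284168 0 0) (P.cons (P.lf 121135551 0 0) (P.cons (P.lf 0 25192824 0) (P.lf 0 2099400 0))))) (P.cons (P.cons (P.lf 0 10874355 0) (P.cons (P.lf 10130469 0 0) (P.cons (P.lf 1039713 0 0) (P.cons (P.lf 0 216231 0) (P.lf 0 18018 0))))) (P.cons (P.cons (P.lf 5390535 0 0) (P.cons (P.lf 0 5021781 0) (P.cons (P.lf 0 515397 0) (P.cons (P.lf 107187 0 0) P.nil)))) (P.cons (P.cons (P.lf 46491 0 0) (P.cons (P.lf 0 43311 0) (P.cons (P.lf 0 4443 0) P.nil))) (P.cons (P.cons (P.lf 0 11433 0) (P.cons (P.lf 10650 0 0) P.nil)) (P.cons (P.cons (P.lf 0 108 0) P.nil) P.nil)))))) 11667)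
 EL.nil))))
noncomputable def S241_256_660_808_8 : EL := (EL.cons 12 (TM.mk (P.cons (P.cons (P.lf 1989061366 0 0) (P.cons (P.lf 776394148 0 0) (P.cons (P.lf 0 259027062 0) (P.cons (P.lf 0 102538468 0) (P.cons (P.lf 6827630 0 0) (P.cons (P.lf 3130572 0 0) P.nil)))))) (P.cons (P.cons (P.lf 408674058 0 0) (P.cons (P.lf 89755032 0 0) (P.cons (P.lf 0 36752546 0) (P.cons (P.lf 0 5982814 0) (P.cons (P.lf 175806 0 0) P.nil))))) (P.cons (P.cons (P.lf 3846310 0 0) (P.cons (P.lf 0 7252868 0) (P.cons (P.lf 2177214 0 0) (P.cons (P.lf 1167062 0 0) P.nil)))) (P.cons (P.cons (P.lf 0 5523286 0) (P.cons (P.lf 0 1348136 0) (P.cons (P.lf 556440 0 0) P.nil))) (P.cons (P.cons (P.lf 0 313626 0) (P.cons (P.lf 27874 0 0) P.nil)) (P.cons (P.cons (P.lf 31084 0 0) P.nil) P.nil)))))) 732368)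
 (EL.cons 3 (TM.mk (P.cons (P.cons (P.lf 2558135299 0 0) (P.cons (P.lf 552514547 0 0) (P.cons (P.lf 0 227857213 0) (P.cons (P.lf 0 35435678 0) (P.cons (P.lf 936626 0 0) (P.cons (P.lf 429456 0 0) P.nil)))))) (P.cons (P.cons (P.lf 98035378 0 0) (P.cons (P.lf 0 72711392 0) (P.cons (P.lf 21250575 0 0) (P.cons (P.lf 12197167 0 0) (P.cons (P.lf 0 910500 0) P.nil))))) (P.cons (P.cons (P.lf 0 97375954 0) (P.cons (P.lf 0 23947461 0) (P.cons (P.lf 9895634 0 0) (P.cons (P.lf 1518882 0 0) P.nil)))) (P.cons (P.cons (P.lf 0 8065450 0) (P.cons (P.lf 580841 0 0) (P.cons (P.lf 0 113611 0) P.nil))) (P.cons (P.cons (P.lf 936419 0 0) (P.cons (P.lf 277274 0 0) P.nil)) (P.cons (P.cons (P.lf 105472 0 0) P.nil) P.nil)))))) 1409357)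
 (EL.cons 7 (TM.mk (P.cons (P.cons (P.lf 0 598367991 0) (P.cons (P.lf 0 216121257 0) (P.cons (P.lf 73806097 0 0) (P.cons (P.lf 27075380 0 0) (P.cons (P.lf 0 1747198 0) (P.cons (P.lf 0 801113 0) P.nil)))))) (P.cons (P.cons (P.lf 0 3833624 0) (P.cons (P.lf 2843331 0 0) (P.cons (P.lf 0 830988 0) (P.cons (P.lf 0 476955 0) (P.cons (P.lf 35606 0 0) P.nil))))) (P.cons (P.cons (P.lf 5728763 0 0) (P.cons (P.lf 0 488260 0) (P.cons (P.lf 29424 0 0) (P.cons (P.lf 179595 0 0) P.nil)))) (P.cons (P.cons (P.lf 0 2232726 0) (P.cons (P.lf 0 645291 0) (P.cons (P.lf 262072 0 0) P.nil))) (P.cons (P.cons (P.lf 0 266489 0) (P.cons (P.lf 6968 0 0) P.nil)) (P.cons (P.cons (P.lf 24178 0 0) P.nil) P.nil)))))) 561091)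
 (EL.cons 10 (TM.mk (P.cons (P.cons (P.lf 1219325766 0 0) (P.cons (P.lf 0 897943866 0) (P.cons (P.lf 0 440889426 0) (P.cons (P.lf 85687272 0 0) (P.cons (P.lf 27185472 0 0) (P.cons (P.lf 0 555996 0) P.nil)))))) (P.cons (P.cons (P.lf 135727362 0 0) (P.cons (P.lf 0 121336290 0) (P.cons (P.lf 0 19936008 0) (P.cons (P.lf 4017270 0 0) (P.cons (P.lf 764886 0 0) P.nil))))) (P.cons (P.cons (P.lf 0 9367932 0) (P.cons (P.lf 6228714 0 0) (P.cons (P.lf 4300476 0 0) (P.cons (P.lf 0 831330 0) P.nil)))) (P.cons (P.cons (P.lf 0 1775862 0) (P.cons (P.lf 1600008 0 0) (P.cons (P.lf 243888 0 0) P.nil))) (P.cons (P.cons (P.lf 29868 0 0) (P.cons (P.lf 0 14730 0) P.nil)) (P.cons (P.cons (P.lf 9852 0 0) P.nil) P.nil)))))) 953640)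
 EL.nil))))
noncomputable def S241_256_660_808_9 : EL := (EL.cons 3 (TM.mk (P.cons (P.lf 0 235676745 0) (P.cons (P.lf 235171578 0 0) (P.cons (P.lf 756663 0 0) (P.cons (P.lf 0 250417 0) (P.cons (P.lf 0 1346 0) (P.cons (P.lf 262 0 0) P.nil)))))) 37)
 (EL.cons 7 (TM.mk (P.cons (P.lf 0 2142880586 0) (P.cons (P.lf 0 9196255 0) (P.cons (P.lf 4578416 0 0) (P.cons (P.lf 19669 0 0) (P.cons (P.lf 0 4863 0) (P.cons (P.lf 0 31 0) P.nil)))))) 53)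
 EL.nil))
noncomputable def S241_256_660_808_10 : EL := (EL.cons 3 (TM.mk (P.cons (P.cons (P.lf 113408574 0 0) (P.cons (P.lf 22133492 0 0) (P.cons (P.lf 0 9544212 0) (P.lf 0 1060467 0)))) (P.cons (P.cons (P.lf 0 101514980 0) (P.cons (P.lf 0 21801090 0) (P.cons (P.lf 9400875 0 0) (P.lf 1044540 0 0)))) (P.cons (P.cons (P.lf 0 12478422 0) (P.cons (P.lf 0 496056 0) (P.cons (P.lf 213904 0 0) (P.lf 23766 0 0)))) (P.cons (P.cons (P.lf 463582 0 0) (P.cons (P.lf 161121 0 0) (P.cons (P.lf 0 69477 0) P.nil))) (P.cons (P.cons (P.lf 122635 0 0) (P.cons (P.lf 3147 0 0) P.nil)) (P.cons (P.cons (P.lf 0 936 0) P.nil) P.nil)))))) 11036)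
 (EL.cons 7 (TM.mk (P.cons (P.cons (P.lf 1031162552 0 0) (P.cons (P.lf 201247831 0 0) (P.cons (P.lf 0 86780335 0) (P.lf 0 9642257 0)))) (P.cons (P.cons (P.lf 110356994 0 0) (P.cons (P.lf 3454649 0 0) (P.cons (P.lf 0 1489683 0) (P.lf 0 165519 0)))) (P.cons (P.cons (P.lf 0 6192748 0) (P.cons (P.lf 0 1697679 0) (P.cons (P.lf 732059 0 0) (P.lf 81339 0 0)))) (P.cons (P.cons (P.lf 0 1229994 0) (P.cons (P.lf 0 29467 0) (P.cons (P.lf 12706 0 0) P.nil))) (P.cons (P.cons (P.lf 15981 0 0) (P.cons (P.lf 7147 0 0) P.nil)) (P.cons (P.cons (P.lf 5318 0 0) P.nil) P.nil)))))) 5628)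
 EL.nil))
noncomputable def S241_256_660_808_11 : EL := (EL.cons 3 (TM.mk (P.cons (P.cons (P.lf 0 54572651 0) (P.cons (P.lf 0 21301447 0) (P.cons (P.lf 7106765 0 0) (P.cons (P.lf 2813284 0 0) (P.cons (P.lf 0 187324 0) (P.cons (P.lf 0 85890 0) P.nil)))))) (P.cons (P.cons (P.lf 43243138 0 0) (P.cons (P.lf 18793234 0 0) (P.cons (P.lf 0 6083175 0) (P.cons (P.lf 0 2643107 0) (P.cons (P.lf 182100 0 0) P.nil))))) (P.cons (P.cons (P.lf 11258186 0 0) (P.cons (P.lf 2724657 0 0) (P.cons (P.lf 0 1088746 0) (P.cons (P.lf 0 204846 0) P.nil)))) (P.cons (P.cons (P.lf 234854 0 0) (P.cons (P.lf 0 176305 0) (P.cons (P.lf 48653 0 0) P.nil))) (P.cons (P.cons (P.lf 0 154495 0) (P.cons (P.lf 0 41050 0) P.nil)) (P.cons (P.cons (P.lf 0 10040 0) P.nil) P.nil)))))) 186721)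
 (EL.cons 7 (TM.mk (P.cons (P.cons (P.lf 0 496199469 0) (P.cons (P.lf 0 193682493 0) (P.cons (P.lf 64617961 0 0) (P.cons (P.lf 25579670 0 0) (P.cons (P.lf 0 1703248 0) (P.cons (P.lf 0 780965 0) P.nil)))))) (P.cons (P.cons (P.lf 0 104078978 0) (P.cons (P.lf 0 23221857 0) (P.cons (P.lf 9445752 0 0) (P.cons (P.lf 1602273 0 0) (P.cons (P.lf 0 51166 0) P.nil))))) (P.cons (P.cons (P.lf 0 336871 0) (P.cons (P.lf 2127056 0 0) (P.cons (P.lf 0 641850 0) (P.cons (P.lf 0 339387 0) P.nil)))) (P.cons (P.cons (P.lf 1596120 0 0) (P.cons (P.lf 393693 0 0) (P.cons (P.lf 0 161324 0) P.nil))) (P.cons (P.cons (P.lf 86011 0 0) (P.cons (P.lf 0 9610 0) P.nil)) (P.cons (P.cons (P.lf 0 10592 0) P.nil) P.nil)))))) 201657)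
 EL.nil))
noncomputable def S241_256_660_808_12 : EL := (EL.cons 4 (TM.mk (P.cons (P.lf 235676745 0 0) (P.cons (P.lf 0 235171578 0) (P.cons (P.lf 0 756663 0) (P.cons (P.lf 250417 0 0) (P.cons (P.lf 1346 0 0) (P.cons (P.lf 0 262 0) P.nil)))))) 37)
 (EL.cons 8 (TM.mk (P.cons (P.lf 2142880586 0 0) (P.cons (P.lf 9196255 0 0) (P.cons (P.lf 0 4578416 0) (P.cons (P.lf 0 19669 0) (P.cons (P.lf 4863 0 0) (P.cons (P.lf 31 0 0) P.nil)))))) 53)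
 EL.nil))
noncomputable def S241_256_660_808_13 : EL := (EL.cons 4 (TM.mk (P.cons (P.cons (P.lf 0 113408574 0) (P.cons (P.lf 0 22133492 0) (P.cons (P.lf 9544212 0 0) (P.lf 1060467 0 0)))) (P.cons (P.cons (P.lf 101514980 0 0) (P.cons (P.lf 21801090 0 0) (P.cons (P.lf 0 9400875 0) (P.lf 0 1044540 0)))) (P.cons (P.cons (P.lf 12478422 0 0) (P.cons (P.lf 496056 0 0) (P.cons (P.lf 0 213904 0) (P.lf 0 23766 0)))) (P.cons (P.cons (P.lf 0 463582 0) (P.cons (P.lf 0 161121 0) (P.cons (P.lf 69477 0 0) P.nil))) (P.cons (P.cons (P.lf 0 122635 0) (P.cons (P.lf 0 3147 0) P.nil)) (P.cons (P.cons (P.lf 936 0 0) P.nil) P.nil)))))) 11036)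
 (EL.cons 8 (TM.mk (P.cons (P.cons (P.lf 0 1031162552 0) (P.cons (P.lf 0 201247831 0) (P.cons (P.lf 86780335 0 0) (P.lf 9642257 0 0)))) (P.cons (P.cons (P.lf 0 110356994 0) (P.cons (P.lf 0 3454649 0) (P.cons (P.lf 1489683 0 0) (P.lf 165519 0 0)))) (P.cons (P.cons (P.lf 6192748 0 0) (P.cons (P.lf 1697679 0 0) (P.cons (P.lf 0 732059 0) (P.lf 0 81339 0)))) (P.cons (P.cons (P.lf 1229994 0 0) (P.cons (P.lf 29467 0 0) (P.cons (P.lf 0 12706 0) P.nil))) (P.cons (P.cons (P.lf 0 15981 0) (P.cons (P.lf 0 7147 0) P.nil)) (P.cons (P.cons (P.lf 0 5318 0) P.nil) P.nil)))))) 5628)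
 EL.nil))
noncomputable def S241_256_660_808_14 : EL := (EL.cons 4 (TM.mk (P.cons (P.cons (P.lf 54572651 0 0) (P.cons (P.lf 21301447 0 0) (P.cons (P.lf 0 7106765 0) (P.cons (P.lf 0 2813284 0) (P.cons (P.lf 187324 0 0) (P.cons (P.lf 85890 0 0) P.nil)))))) (P.cons (P.cons (P.lf 0 43243138 0) (P.cons (P.lf 0 18793234 0) (P.cons (P.lf 6083175 0 0) (P.cons (P.lf 2643107 0 0) (P.cons (P.lf 0 182100 0) P.nil))))) (P.cons (P.cons (P.lf 0 11258186 0) (P.cons (P.lf 0 2724657 0) (P.cons (P.lf 1088746 0 0) (P.cons (P.lf 204846 0 0) P.nil)))) (P.cons (P.cons (P.lf 0 234854 0) (P.cons (P.lf 176305 0 0) (P.cons (P.lf 0 48653 0) P.nil))) (P.cons (P.cons (P.lf 154495 0 0) (P.cons (P.lf 41050 0 0) P.nil)) (P.cons (P.cons (P.lf 10040 0 0) P.nil) P.nil)))))) 186721)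
 (EL.cons 8 (TM.mk (P.cons (P.cons (P.lf 496199469 0 0) (P.cons (P.lf 193682493 0 0) (P.cons (P.lf 0 64617961 0) (P.cons (P.lf 0 25579670 0) (P.cons (P.lf 1703248 0 0) (P.cons (P.lf 780965 0 0) P.nil)))))) (P.cons (P.cons (P.lf 104078978 0 0) (P.cons (P.lf 23221857 0 0) (P.cons (P.lf 0 9445752 0) (P.cons (P.lf 0 1602273 0) (P.cons (P.lf 51166 0 0) P.nil))))) (P.cons (P.cons (P.lf 336871 0 0) (P.cons (P.lf 0 2127056 0) (P.cons (P.lf 641850 0 0) (P.cons (P.lf 339387 0 0) P.nil)))) (P.cons (P.cons (P.lf 0 1596120 0) (P.cons (P.lf 0 393693 0) (P.cons (P.lf 161324 0 0) P.nil))) (P.cons (P.cons (P.lf 0 86011 0) (P.cons (P.lf 9610 0 0) P.nil)) (P.cons (P.cons (P.lf 10592 0 0) P.nil) P.nil)))))) 201657)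
 EL.nil))
noncomputable def S241_256_660_808_15 : EL := (EL.cons 4 (TM.mk (P.cons (P.lf 0 13794384 0) (P.cons (P.lf 27529633 0 0) (P.cons (P.lf 0 13646734 0) (P.cons (P.lf 0 117700 0) (P.cons (P.lf 28950 0 0) (P.cons (P.lf 281 0 0) P.nil)))))) 67)
 (EL.cons 8 (TM.mk (P.cons (P.lf 0 125424842 0) (P.cons (P.lf 124617732 0 0) (P.cons (P.lf 1207779 0 0) (P.cons (P.lf 0 397794 0) (P.cons (P.lf 0 3582 0) (P.cons (P.lf 699 0 0) P.nil)))))) 35)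
 EL.nil))
noncomputable def S241_256_660_808_16 : EL := (EL.cons 4 (TM.mk (P.cons (P.cons (P.lf 6637911 0 0) (P.cons (P.lf 1295493 0 0) (P.cons (P.lf 0 558630 0) (P.lf 0 62070 0)))) (P.cons (P.cons (P.lf 0 12565452 0) (P.cons (P.lf 0 2568755 0) (P.cons (P.lf 1107675 0 0) (P.lf 123075 0 0)))) (P.cons (P.cons (P.lf 5177345 0 0) (P.cons (P.lf 1240109 0 0) (P.cons (P.lf 0 534749 0) (P.lf 0 59415 0)))) (P.cons (P.cons (P.lf 782070 0 0) (P.cons (P.lf 43875 0 0) (P.cons (P.lf 0 18919 0) P.nil))) (P.cons (P.cons (P.lf 0 23827 0) (P.cons (P.lf 0 10481 0) P.nil)) (P.cons (P.cons (P.lf 0 8120 0) P.nil) P.nil)))))) 8340)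
 (EL.cons 8 (TM.mk (P.cons (P.cons (P.lf 60354926 0 0) (P.cons (P.lf 11779226 0 0) (P.cons (P.lf 0 5079335 0) (P.lf 0 564370 0)))) (P.cons (P.cons (P.lf 0 53766257 0) (P.cons (P.lf 0 11551774 0) (P.cons (P.lf 4981255 0 0) (P.lf 553472 0 0)))) (P.cons (P.cons (P.lf 0 7001697 0) (P.cons (P.lf 0 338955 0) (P.cons (P.lf 146161 0 0) (P.lf 16239 0 0)))) (P.cons (P.cons (P.lf 333089 0 0) (P.cons (P.lf 109295 0 0) (P.cons (P.lf 0 47129 0) P.nil))) (P.cons (P.cons (P.lf 81145 0 0) (P.cons (P.lf 2740 0 0) P.nil)) (P.cons (P.cons (P.lf 0 806 0) P.nil) P.nil)))))) 8144)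
 EL.nil))
noncomputable def S241_256_660_808_17 : EL := (EL.cons 4 (TM.mk (P.cons (P.cons (P.lf 0 3194189 0) (P.cons (P.lf 0 1246793 0) (P.cons (P.lf 415965 0 0) (P.cons (P.lf 164663 0 0) (P.cons (P.lf 0 10964 0) (P.cons (P.lf 0 5026 0) P.nil)))))) (P.cons (P.cons (P.lf 5718404 0 0) (P.cons (P.lf 2344107 0 0) (P.cons (P.lf 0 771127 0) (P.cons (P.lf 0 319014 0) (P.cons (P.lf 21599 0 0) P.nil))))) (P.cons (P.cons (P.lf 0 1856428 0) (P.cons (P.lf 0 934147 0) (P.cons (P.lf 290229 0 0) (P.cons (P.lf 141853 0 0) P.nil)))) (P.cons (P.cons (P.lf 0 655313 0) (P.cons (P.lf 0 174310 0) (P.cons (P.lf 68021 0 0) P.nil))) (P.cons (P.cons (P.lf 0 22203 0) (P.cons (P.lf 8543 0 0) P.nil)) (P.cons (P.cons (P.lf 9108 0 0) P.nil) P.nil)))))) 59823)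
 (EL.cons 8 (TM.mk (P.cons (P.cons (P.lf 0 29043027 0) (P.cons (P.lf 0 11336420 0) (P.cons (P.lf 3782150 0 0) (P.cons (P.lf 1497202 0 0) (P.cons (P.lf 0 99692 0) (P.cons (P.lf 0 45710 0) P.nil)))))) (P.cons (P.cons (P.lf 22888932 0 0) (P.cons (P.lf 9952923 0 0) (P.cons (P.lf 0 3221174 0) (P.cons (P.lf 0 1400210 0) (P.cons (P.lf 96483 0 0) P.nil))))) (P.cons (P.cons (P.lf 6152311 0 0) (P.cons (P.lf 1517178 0 0) (P.cons (P.lf 0 601394 0) (P.cons (P.lf 0 118252 0) P.nil)))) (P.cons (P.cons (P.lf 101796 0 0) (P.cons (P.lf 0 108870 0) (P.cons (P.lf 30288 0 0) P.nil))) (P.cons (P.cons (P.lf 0 94762 0) (P.cons (P.lf 0 25464 0) P.nil)) (P.cons (P.cons (P.lf 0 5966 0) P.nil) P.nil)))))) 106962)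
 EL.nil))
noncomputable def S241_256_660_808_18 : EL := (EL.cons 4 (TM.mk (P.cons (P.lf 807398 0 0) (P.cons (P.lf 0 2417003 0) (P.cons (P.lf 2404045 0 0) (P.cons (P.lf 0 784123 0) (P.cons (P.lf 0 12840 0) (P.cons (P.lf 2490 0 0) P.nil)))))) 58)
 (EL.cons 8 (TM.mk (P.cons (P.lf 7341235 0 0) (P.cons (P.lf 0 14619494 0) (P.cons (P.lf 7184097 0 0) (P.cons (P.lf 125042 0 0) (P.cons (P.lf 0 30504 0) (P.cons (P.lf 0 449 0) P.nil)))))) 91)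
 EL.nil))
noncomputable def S241_256_660_808_19 : EL := (EL.cons 4 (TM.mk (P.cons (P.cons (P.lf 0 388522 0) (P.cons (P.lf 0 75825 0) (P.cons (P.lf 32697 0 0) (P.lf 3632 0 0)))) (P.cons (P.cons (P.lf 1123157 0 0) (P.cons (P.lf 226015 0 0) (P.cons (P.lf 0 97459 0) (P.lf 0 10828 0)))) (P.cons (P.cons (P.lf 0 1035678 0) (P.cons (P.lf 0 222370 0) (P.cons (P.lf 95888 0 0) (P.lf 10653 0 0)))) (P.cons (P.cons (P.lf 253834 0 0) (P.cons (P.lf 69297 0 0) (P.cons (P.lf 0 29881 0) P.nil))) (P.cons (P.cons (P.lf 48823 0 0) (P.cons (P.lf 3568 0 0) P.nil)) (P.cons (P.cons (P.lf 0 1085 0) P.nil) P.nil)))))) 7210)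
 (EL.cons 8 (TM.mk (P.cons (P.cons (P.lf 0 3532631 0) (P.cons (P.lf 0 689449 0) (P.cons (P.lf 297297 0 0) (P.lf 33033 0 0)))) (P.cons (P.cons (P.lf 6672049 0 0) (P.cons (P.lf 1364107 0 0) (P.cons (P.lf 0 588218 0) (P.lf 0 65357 0)))) (P.cons (P.cons (P.lf 0 2719086 0) (P.cons (P.lf 0 652633 0) (P.cons (P.lf 281423 0 0) (P.lf 31268 0 0)))) (P.cons (P.cons (P.lf 0 442290 0) (P.cons (P.lf 0 29097 0) (P.cons (P.lf 12546 0 0) P.nil))) (P.cons (P.cons (P.lf 16712 0 0) (P.cons (P.lf 6873 0 0) P.nil)) (P.cons (P.cons (P.lf 5305 0 0) P.nil) P.nil)))))) 5667)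
 EL.nil))
noncomputable def S241_256_660_808_20 : EL := (EL.cons 4 (TM.mk (P.cons (P.cons (P.lf 186958 0 0) (P.cons (P.lf 72975 0 0) (P.cons (P.lf 0 24345 0) (P.cons (P.lf 0 9637 0) (P.cons (P.lf 641 0 0) (P.cons (P.lf 293 0 0) P.nil)))))) (P.cons (P.cons (P.lf 0 521261 0) (P.cons (P.lf 0 210021 0) (P.cons (P.lf 69429 0 0) (P.cons (P.lf 28289 0 0) (P.cons (P.lf 0 1904 0) P.nil))))) (P.cons (P.cons (P.lf 442044 0 0) (P.cons (P.lf 191350 0 0) (P.cons (P.lf 0 61947 0) (P.cons (P.lf 0 26903 0) P.nil)))) (P.cons (P.cons (P.lf 0 68795 0) (P.cons (P.lf 0 43838 0) (P.cons (P.lf 12798 0 0) P.nil))) (P.cons (P.cons (P.lf 0 37677 0) (P.cons (P.lf 0 11001 0) P.nil)) (P.cons (P.cons (P.lf 0 1839 0) P.nil) P.nil)))))) 25276)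
 (EL.cons 8 (TM.mk (P.cons (P.cons (P.lf 1699915 0 0) (P.cons (P.lf 663531 0 0) (P.cons (P.lf 0 221372 0) (P.cons (P.lf 0 87632 0) (P.cons (P.lf 5834 0 0) (P.cons (P.lf 2675 0 0) P.nil)))))) (P.cons (P.cons (P.lf 0 3035983 0) (P.cons (P.lf 0 1244663 0) (P.cons (P.lf 409436 0 0) (P.cons (P.lf 169400 0 0) (P.cons (P.lf 0 11469 0) P.nil))))) (P.cons (P.cons (P.lf 971280 0 0) (P.cons (P.lf 490372 0 0) (P.cons (P.lf 0 152223 0) (P.cons (P.lf 0 74577 0) P.nil)))) (P.cons (P.cons (P.lf 359477 0 0) (P.cons (P.lf 97559 0 0) (P.cons (P.lf 0 37737 0) P.nil))) (P.cons (P.cons (P.lf 11234 0 0) (P.cons (P.lf 0 5197 0) P.nil)) (P.cons (P.cons (P.lf 0 5557 0) P.nil) P.nil)))))) 33878)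
 EL.nil))
noncomputable def S241_256_660_808_21 : EL := (EL.cons 4 (TM.mk (P.cons (P.cons (P.lf 2714761671 0 0) (P.cons (P.lf 66400476 0 0) (P.cons (P.lf 0 28632636 0) (P.lf 0 3181401 0)))) (P.cons (P.cons (P.lf 0 221956044 0) (P.cons (P.lf 0 65403270 0) (P.cons (P.lf 28202625 0 0) (P.lf 3133620 0 0)))) (P.cons (P.cons (P.lf 0 78375468 0) (P.cons (P.lf 0 1488168 0) (P.cons (P.lf 641712 0 0) (P.lf 71298 0 0)))) (P.cons (P.cons (P.lf 1037646 0 0) (P.cons (P.lf 483363 0 0) (P.cons (P.lf 0 208431 0) P.nil))) (P.cons (P.cons (P.lf 454752 0 0) (P.cons (P.lf 9441 0 0) P.nil)) (P.cons (P.cons (P.lf 0 1965 0) P.nil) P.nil)))))) 33402)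
 (EL.cons 8 (TM.mk (P.cons (P.cons (P.lf 0 106159278 0) (P.cons (P.lf 0 2596560 0) (P.cons (P.lf 1119666 0 0) (P.lf 124413 0 0)))) (P.cons (P.cons (P.lf 115066773 0 0) (P.cons (P.lf 5159685 0 0) (P.cons (P.lf 0 2224914 0) (P.lf 0 247209 0)))) (P.cons (P.cons (P.lf 0 5975826 0) (P.cons (P.lf 0 2513229 0) (P.cons (P.lf 1083735 0 0) (P.lf 120414 0 0)))) (P.cons (P.cons (P.lf 0 2968974 0) (P.cons (P.lf 0 66153 0) (P.cons (P.lf 28524 0 0) P.nil))) (P.cons (P.cons (P.lf 22746 0 0) (P.cons (P.lf 15972 0 0) P.nil)) (P.cons (P.cons (P.lf 14610 0 0) P.nil) P.nil)))))) 21114)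
 (EL.cons 11 (TM.mk (P.cons (P.cons (P.lf 1266953259 0 0) (P.cons (P.lf 0 1180284168 0) (P.cons (P.lf 0 121135551 0) (P.cons (P.lf 25192824 0 0) (P.lf 2099400 0 0))))) (P.cons (P.cons (P.lf 10874355 0 0) (P.cons (P.lf 0 10130469 0) (P.cons (P.lf 0 1039713 0) (P.cons (P.lf 216231 0 0) (P.lf 18018 0 0))))) (P.cons (P.cons (P.lf 0 5390535 0) (P.cons (P.lf 5021781 0 0) (P.cons (P.lf 515397 0 0) (P.cons (P.lf 0 107187 0) P.nil)))) (P.cons (P.cons (P.lf 0 46491 0) (P.cons (P.lf 43311 0 0) (P.cons (P.lf 4443 0 0) P.nil))) (P.cons (P.cons (P.lf 11433 0 0) (P.cons (P.lf 0 10650 0) P.nil)) (P.cons (P.cons (P.lf 108 0 0) P.nil) P.nil)))))) 11667)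
 EL.nil)))
noncomputable def S241_256_660_808_22 : EL := (EL.cons 4 (TM.mk (P.cons (P.cons (P.lf 0 1306353975 0) (P.cons (P.lf 0 286907997 0) (P.cons (P.lf 117481989 0 0) (P.cons (P.lf 19124481 0 0) (P.cons (P.lf 0 561975 0) (P.cons (P.lf 0 257673 0) P.nil)))))) (P.cons (P.cons (P.lf 0 27396120 0) (P.cons (P.lf 45752313 0 0) (P.cons (P.lf 0 13666875 0) (P.cons (P.lf 0 7420137 0) (P.cons (P.lf 546300 0 0) P.nil))))) (P.cons (P.cons (P.lf 54317070 0 0) (P.cons (P.lf 13336059 0 0) (P.cons (P.lf 0 5492190 0) (P.cons (P.lf 0 861864 0) P.nil)))) (P.cons (P.cons (P.lf 4150152 0 0) (P.cons (P.lf 0 378573 0) (P.cons (P.lf 81132 0 0) P.nil))) (P.cons (P.cons (P.lf 0 545457 0) (P.cons (P.lf 0 159162 0) P.nil)) (P.cons (P.cons (P.lf 0 57756 0) P.nil) P.nil)))))) 611307)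
 (EL.cons 8 (TM.mk (P.cons (P.cons (P.lf 51084261 0 0) (P.cons (P.lf 11219382 0 0) (P.cons (P.lf 0 4594068 0) (P.cons (P.lf 0 747855 0) (P.cons (P.lf 21975 0 0) (P.cons (P.lf 10074 0 0) P.nil)))))) (P.cons (P.cons (P.lf 0 50122677 0) (P.cons (P.lf 0 13032594 0) (P.cons (P.lf 5138370 0 0) (P.cons (P.lf 1039614 0 0) (P.cons (P.lf 0 43386 0) P.nil))))) (P.cons (P.cons (P.lf 0 3032817 0) (P.cons (P.lf 1307658 0 0) (P.cons (P.lf 0 335637 0) (P.cons (P.lf 0 259491 0) P.nil)))) (P.cons (P.cons (P.lf 1914423 0 0) (P.cons (P.lf 519492 0 0) (P.cons (P.lf 0 211698 0) P.nil))) (P.cons (P.cons (P.lf 176250 0 0) (P.cons (P.lf 0 8289 0) P.nil)) (P.cons (P.cons (P.lf 0 17385 0) P.nil) P.nil)))))) 179706)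
 (EL.cons 11 (TM.mk (P.cons (P.cons (P.lf 0 609662883 0) (P.cons (P.lf 448971933 0 0) (P.cons (P.lf 220444713 0 0) (P.cons (P.lf 0 42843636 0) (P.cons (P.lf 0 13592736 0) (P.cons (P.lf 277998 0 0) P.nil)))))) (P.cons (P.cons (P.lf 0 67863681 0) (P.cons (P.lf 60668145 0 0) (P.cons (P.lf 9968004 0 0) (P.cons (P.lf 0 2008635 0) (P.cons (P.lf 0 382443 0) P.nil))))) (P.cons (P.cons (P.lf 4683966 0 0) (P.cons (P.lf 0 3114357 0) (P.cons (P.lf 0 2150238 0) (P.cons (P.lf 415665 0 0) P.nil)))) (P.cons (P.cons (P.lf 887931 0 0) (P.cons (P.lf 0 800004 0) (P.cons (P.lf 0 121944 0) P.nil))) (P.cons (P.cons (P.lf 0 14934 0) (P.cons (P.lf 7365 0 0) P.nil)) (P.cons (P.cons (P.lf 0 4926 0) P.nil) P.nil)))))) 476820)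
 EL.nil)))
noncomputable def S241_256_660_808_23 : EL := (EL.cons 4 (TM.mk (P.cons (P.cons (P.lf 0 158897586 0) (P.cons (P.lf 0 3886482 0) (P.cons (P.lf 1675893 0 0) (P.lf 186210 0 0)))) (P.cons (P.cons (P.lf 171548292 0 0) (P.cons (P.lf 7706268 0 0) (P.cons (P.lf 0 3323028 0) (P.lf 0 369225 0)))) (P.cons (P.cons (P.lf 0 7865904 0) (P.cons (P.lf 0 3720327 0) (P.cons (P.lf 1604247 0 0) (P.lf 178248 0 0)))) (P.cons (P.cons (P.lf 0 4848837 0) (P.cons (P.lf 0 131628 0) (P.cons (P.lf 56757 0 0) P.nil))) (P.cons (P.cons (P.lf 32154 0 0) (P.cons (P.lf 31443 0 0) P.nil)) (P.cons (P.cons (P.lf 31995 0 0) P.nil) P.nil)))))) 24462)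
 (EL.cons 8 (TM.mk (P.cons (P.cons (P.lf 6213603 0 0) (P.cons (P.lf 151977 0 0) (P.cons (P.lf 0 65535 0) (P.lf 0 7281 0)))) (P.cons (P.cons (P.lf 0 12935250 0) (P.cons (P.lf 0 453654 0) (P.cons (P.lf 195618 0 0) (P.lf 21735 0 0)))) (P.cons (P.cons (P.lf 7050351 0 0) (P.cons (P.lf 447966 0 0) (P.cons (P.lf 0 193167 0) (P.lf 0 21462 0)))) (P.cons (P.cons (P.lf 0 147018 0) (P.cons (P.lf 0 141783 0) (P.cons (P.lf 61137 0 0) P.nil))) (P.cons (P.cons (P.lf 0 182979 0) (P.cons (P.lf 0 5589 0) P.nil)) (P.cons (P.cons (P.lf 240 0 0) P.nil) P.nil)))))) 13920)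
 (EL.cons 11 (TM.mk (P.cons (P.cons (P.lf 0 74155980 0) (P.cons (P.lf 69083154 0 0) (P.cons (P.lf 7090179 0 0) (P.cons (P.lf 0 1474557 0) (P.lf 0 122877 0))))) (P.cons (P.cons (P.lf 73360542 0 0) (P.cons (P.lf 0 68342133 0) (P.cons (P.lf 0 7014126 0) (P.cons (P.lf 1458741 0 0) (P.lf 121560 0 0))))) (P.cons (P.cons (P.lf 1188720 0 0) (P.cons (P.lf 0 1107402 0) (P.cons (P.lf 0 113655 0) (P.cons (P.lf 23637 0 0) P.nil)))) (P.cons (P.cons (P.lf 0 388866 0) (P.cons (P.lf 362262 0 0) (P.cons (P.lf 37179 0 0) P.nil))) (P.cons (P.cons (P.lf 0 5496 0) (P.cons (P.lf 5121 0 0) P.nil)) (P.cons (P.cons (P.lf 1065 0 0) P.nil) P.nil)))))) 12498)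
 EL.nil)))
noncomputable def S241_256_660_808_24 : EL := (EL.cons 4 (TM.mk (P.cons (P.cons (P.lf 76462140 0 0) (P.cons (P.lf 16792998 0 0) (P.cons (P.lf 0 6876330 0) (P.cons (P.lf 0 1119372 0) (P.cons (P.lf 32892 0 0) (P.cons (P.lf 15081 0 0) P.nil)))))) (P.cons (P.cons (P.lf 0 74694726 0) (P.cons (P.lf 0 19434927 0) (P.cons (P.lf 7661526 0 0) (P.cons (P.lf 1551282 0 0) (P.cons (P.lf 0 64797 0) P.nil))))) (P.cons (P.cons (P.lf 0 5024802 0) (P.cons (P.lf 1837698 0 0) (P.cons (P.lf 0 454680 0) (P.cons (P.lf 0 379335 0) P.nil)))) (P.cons (P.cons (P.lf 3005598 0 0) (P.cons (P.lf 827496 0 0) (P.cons (P.lf 0 335397 0) P.nil))) (P.cons (P.cons (P.lf 286665 0 0) (P.cons (P.lf 0 13038 0) P.nil)) (P.cons (P.cons (P.lf 0 31149 0) P.nil) P.nil)))))) 278103)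
 (EL.cons 8 (TM.mk (P.cons (P.cons (P.lf 0 2990010 0) (P.cons (P.lf 0 656679 0) (P.cons (P.lf 268893 0 0) (P.cons (P.lf 43770 0 0) (P.cons (P.lf 0 1284 0) (P.cons (P.lf 0 588 0) P.nil)))))) (P.cons (P.cons (P.lf 5917329 0 0) (P.cons (P.lf 1418082 0 0) (P.cons (P.lf 0 569070 0) (P.cons (P.lf 0 104526 0) (P.cons (P.lf 3822 0 0) P.nil))))) (P.cons (P.cons (P.lf 0 2740326 0) (P.cons (P.lf 0 835605 0) (P.cons (P.lf 318891 0 0) (P.cons (P.lf 75765 0 0) P.nil)))) (P.cons (P.cons (P.lf 0 301782 0) (P.cons (P.lf 42819 0 0) (P.cons (P.lf 0 5958 0) P.nil))) (P.cons (P.cons (P.lf 104025 0 0) (P.cons (P.lf 31878 0 0) P.nil)) (P.cons (P.cons (P.lf 11880 0 0) P.nil) P.nil)))))) 63621)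
 (EL.cons 11 (TM.mk (P.cons (P.cons (P.lf 35684148 0 0) (P.cons (P.lf 0 26278755 0) (P.cons (P.lf 0 12902838 0) (P.cons (P.lf 2507679 0 0) (P.cons (P.lf 795594 0 0) (P.cons (P.lf 0 16269 0) P.nil)))))) (P.cons (P.cons (P.lf 0 31635534 0) (P.cons (P.lf 22671462 0 0) (P.cons (P.lf 12291744 0 0) (P.cons (P.lf 0 2384736 0) (P.cons (P.lf 0 771504 0) P.nil))))) (P.cons (P.cons (P.lf 0 4352334 0) (P.cons (P.lf 3810009 0 0) (P.cons (P.lf 749466 0 0) (P.cons (P.lf 0 149694 0) P.nil)))) (P.cons (P.cons (P.lf 246759 0 0) (P.cons (P.lf 0 151590 0) (P.cons (P.lf 0 130284 0) P.nil))) (P.cons (P.cons (P.lf 58038 0 0) (P.cons (P.lf 0 51663 0) P.nil)) (P.cons (P.cons (P.lf 0 723 0) P.nil) P.nil)))))) 241137)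
 EL.nil)))
noncomputable def S241_256_660_808_25 : EL := (EL.cons 4 (TM.mk (P.cons (P.cons (P.lf 9300426 0 0) (P.cons (P.lf 227478 0 0) (P.cons (P.lf 0 98091 0) (P.lf 0 10899 0)))) (P.cons (P.cons (P.lf 0 19321377 0) (P.cons (P.lf 0 678045 0) (P.cons (P.lf 292380 0 0) (P.lf 32484 0 0)))) (P.cons (P.cons (P.lf 10449900 0 0) (P.cons (P.lf 667110 0 0) (P.cons (P.lf 0 287664 0) (P.lf 0 31962 0)))) (P.cons (P.cons (P.lf 0 133485 0) (P.cons (P.lf 0 207891 0) (P.cons (P.lf 89643 0 0) P.nil))) (P.cons (P.cons (P.lf 0 297174 0) (P.cons (P.lf 0 10704 0) P.nil)) (P.cons (P.cons (P.lf 0 483 0) P.nil) P.nil)))))) 22206)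
 (EL.cons 8 (TM.mk (P.cons (P.cons (P.lf 0 363687 0) (P.cons (P.lf 0 8895 0) (P.cons (P.lf 3834 0 0) (P.lf 426 0 0)))) (P.cons (P.cons (P.lf 1120020 0 0) (P.cons (P.lf 35427 0 0) (P.cons (P.lf 0 15276 0) (P.lf 0 1695 0)))) (P.cons (P.cons (P.lf 0 1166985 0) (P.cons (P.lf 0 52686 0) (P.cons (P.lf 22719 0 0) (P.lf 2523 0 0)))) (P.cons (P.cons (P.lf 417567 0 0) (P.cons (P.lf 34365 0 0) (P.cons (P.lf 0 14817 0) P.nil))) (P.cons (P.cons (P.lf 4248 0 0) (P.cons (P.lf 0 7839 0) P.nil)) (P.cons (P.cons (P.lf 0 11160 0) P.nil) P.nil)))))) 7437)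
 (EL.cons 11 (TM.mk (P.cons (P.cons (P.lf 4340418 0 0) (P.cons (P.lf 0 4043502 0) (P.cons (P.lf 0 414993 0) (P.cons (P.lf 86307 0 0) (P.lf 7191 0 0))))) (P.cons (P.cons (P.lf 0 8624979 0) (P.cons (P.lf 8034966 0 0) (P.cons (P.lf 824646 0 0) (P.cons (P.lf 0 171504 0) (P.lf 0 14289 0))))) (P.cons (P.cons (P.lf 4201146 0 0) (P.cons (P.lf 0 3913755 0) (P.cons (P.lf 0 401676 0) (P.cons (P.lf 83538 0 0) P.nil)))) (P.cons (P.cons (P.lf 110586 0 0) (P.cons (P.lf 0 103020 0) (P.cons (P.lf 0 10572 0) P.nil))) (P.cons (P.cons (P.lf 0 26703 0) (P.cons (P.lf 24876 0 0) P.nil)) (P.cons (P.cons (P.lf 0 558 0) P.nil) P.nil)))))) 13806)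
 EL.nil)))
noncomputable def S241_256_660_808_26 : EL := (EL.cons 4 (TM.mk (P.cons (P.cons (P.lf 0 4475400 0) (P.cons (P.lf 0 982908 0) (P.cons (P.lf 402477 0 0) (P.cons (P.lf 65517 0 0) (P.cons (P.lf 0 1923 0) (P.cons (P.lf 0 882 0) P.nil)))))) (P.cons (P.cons (P.lf 8837760 0 0) (P.cons (P.lf 2118345 0 0) (P.cons (P.lf 0 850050 0) (P.cons (P.lf 0 156174 0) (P.cons (P.lf 5712 0 0) P.nil))))) (P.cons (P.cons (P.lf 0 4054104 0) (P.cons (P.lf 0 1239510 0) (P.cons (P.lf 472794 0 0) (P.cons (P.lf 112593 0 0) P.nil)))) (P.cons (P.cons (P.lf 0 488187 0) (P.cons (P.lf 54201 0 0) (P.cons (P.lf 0 5055 0) P.nil))) (P.cons (P.cons (P.lf 162438 0 0) (P.cons (P.lf 50640 0 0) P.nil)) (P.cons (P.cons (P.lf 19470 0 0) P.nil) P.nil)))))) 99261)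
 (EL.cons 8 (TM.mk (P.cons (P.cons (P.lf 175008 0 0) (P.cons (P.lf 38436 0 0) (P.cons (P.lf 0 15738 0) (P.cons (P.lf 0 2562 0) (P.cons (P.lf 75 0 0) (P.cons (P.lf 33 0 0) P.nil)))))) (P.cons (P.cons (P.lf 0 520977 0) (P.cons (P.lf 0 121353 0) (P.cons (P.lf 49011 0 0) (P.cons (P.lf 8673 0 0) (P.cons (P.lf 0 297 0) P.nil))))) (P.cons (P.cons (P.lf 505434 0 0) (P.cons (P.lf 131607 0 0) (P.cons (P.lf 0 51849 0) (P.cons (P.lf 0 10530 0) P.nil)))) (P.cons (P.cons (P.lf 0 141087 0) (P.cons (P.lf 0 51000 0) (P.cons (P.lf 18849 0 0) P.nil))) (P.cons (P.cons (P.lf 0 24594 0) (P.cons (P.lf 390 0 0) P.nil)) (P.cons (P.cons (P.lf 5490 0 0) P.nil) P.nil)))))) 19398)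
 (EL.cons 11 (TM.mk (P.cons (P.cons (P.lf 0 2088627 0) (P.cons (P.lf 1538118 0 0) (P.cons (P.lf 755214 0 0) (P.cons (P.lf 0 146775 0) (P.cons (P.lf 0 46566 0) (P.cons (P.lf 951 0 0) P.nil)))))) (P.cons (P.cons (P.lf 3935808 0 0) (P.cons (P.lf 0 2861805 0) (P.cons (P.lf 0 1473042 0) (P.cons (P.lf 286041 0 0) (P.cons (P.lf 91623 0 0) P.nil))))) (P.cons (P.cons (P.lf 0 1586235 0) (P.cons (P.lf 1096194 0 0) (P.cons (P.lf 671613 0 0) (P.cons (P.lf 0 130047 0) P.nil)))) (P.cons (P.cons (P.lf 0 276807 0) (P.cons (P.lf 237291 0 0) (P.cons (P.lf 54510 0 0) P.nil))) (P.cons (P.cons (P.lf 12150 0 0) (P.cons (P.lf 0 6513 0) P.nil)) (P.cons (P.cons (P.lf 3759 0 0) P.nil) P.nil)))))) 103131)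
 EL.nil)))
noncomputable def S241_256_660_808_27 : EL := (EL.cons 13 (TM.mk (P.lf 0 4294967296 0) 0)
 EL.nil)
noncomputable def S241_256_660_808_28 : EL := (EL.cons 13 (TM.mk (P.cons (P.cons (P.lf 2066755128 0 0) (P.cons (P.lf 403360252 0 0) (P.cons (P.lf 0 173933492 0) (P.lf 0 19325940 0)))) (P.cons (P.cons (P.lf 212318539 0 0) (P.cons (P.lf 5193104 0 0) (P.cons (P.lf 0 2239324 0) (P.lf 0 248812 0)))) (P.cons (P.cons (P.lf 0 8907507 0) (P.cons (P.lf 0 2563132 0) (P.cons (P.lf 1105252 0 0) (P.lf 122804 0 0)))) (P.cons (P.cons (P.lf 0 1954443 0) (P.cons (P.lf 0 33264 0) (P.cons (P.lf 14344 0 0) P.nil))) (P.cons (P.cons (P.lf 18647 0 0) (P.cons (P.lf 8124 0 0) P.nil)) (P.cons (P.cons (P.lf 5811 0 0) P.nil) P.nil)))))) 6400)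
 EL.nil)
noncomputable def S241_256_660_808_29 : EL := (EL.cons 13 (TM.mk (P.cons (P.cons (P.lf 0 994530683 0) (P.cons (P.lf 0 388197074 0) (P.cons (P.lf 129513531 0 0) (P.cons (P.lf 51269234 0 0) (P.cons (P.lf 0 3413815 0) (P.cons (P.lf 0 1565286 0) P.nil)))))) (P.cons (P.cons (P.lf 0 204337029 0) (P.cons (P.lf 0 44877516 0) (P.cons (P.lf 18376273 0 0) (P.cons (P.lf 2991407 0 0) (P.cons (P.lf 0 87903 0) P.nil))))) (P.cons (P.cons (P.lf 0 1923155 0) (P.cons (P.lf 3626434 0 0) (P.cons (P.lf 0 1088607 0) (P.cons (P.lf 0 583531 0) P.nil)))) (P.cons (P.cons (P.lf 2761643 0 0) (P.cons (P.lf 674068 0 0) (P.cons (P.lf 0 278220 0) P.nil))) (P.cons (P.cons (P.lf 156813 0 0) (P.cons (P.lf 0 13937 0) P.nil)) (P.cons (P.cons (P.lf 0 15542 0) P.nil) P.nil)))))) 366184)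
 EL.nil)
noncomputable def S241_256_660_808_30 : EL := (EL.cons 13 (TM.mk (P.cons (P.lf 251388528 0 0) (P.cons (P.lf 0 250849684 0) (P.cons (P.lf 0 807108 0) (P.cons (P.lf 267112 0 0) (P.cons (P.lf 1436 0 0) (P.cons (P.lf 0 280 0) P.nil)))))) 32)
 EL.nil)
noncomputable def S241_256_660_808_31 : EL := (EL.cons 13 (TM.mk (P.cons (P.cons (P.lf 0 120969146 0) (P.cons (P.lf 0 23609059 0) (P.cons (P.lf 10180493 0 0) (P.lf 1131165 0 0)))) (P.cons (P.cons (P.lf 108282646 0 0) (P.cons (P.lf 23254497 0 0) (P.cons (P.lf 0 10027601 0) (P.lf 0 1114177 0)))) (P.cons (P.cons (P.lf 13310317 0 0) (P.cons (P.lf 529127 0 0) (P.cons (P.lf 0 228165 0) (P.lf 0 25351 0)))) (P.cons (P.cons (P.lf 0 494488 0) (P.cons (P.lf 0 171863 0) (P.cons (P.lf 74109 0 0) P.nil))) (P.cons (P.cons (P.lf 0 130811 0) (P.cons (P.lf 0 3357 0) P.nil)) (P.cons (P.cons (P.lf 999 0 0) P.nil) P.nil)))))) 11752)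
 EL.nil)
noncomputable def S241_256_660_808_32 : EL := (EL.cons 13 (TM.mk (P.cons (P.cons (P.lf 58210828 0 0) (P.cons (P.lf 22721544 0 0) (P.cons (P.lf 0 7580550 0) (P.cons (P.lf 0 3000837 0) (P.cons (P.lf 199813 0 0) (P.cons (P.lf 91617 0 0) P.nil)))))) (P.cons (P.cons (P.lf 0 46126014 0) (P.cons (P.lf 0 20046117 0) (P.cons (P.lf 6488720 0 0) (P.cons (P.lf 2819315 0 0) (P.cons (P.lf 0 194240 0) P.nil))))) (P.cons (P.cons (P.lf 0 12008732 0) (P.cons (P.lf 0 2906301 0) (P.cons (P.lf 1161330 0 0) (P.cons (P.lf 218503 0 0) P.nil)))) (P.cons (P.cons (P.lf 0 250511 0) (P.cons (P.lf 188059 0 0) (P.cons (P.lf 0 51897 0) P.nil))) (P.cons (P.cons (P.lf 164795 0 0) (P.cons (P.lf 43787 0 0) P.nil)) (P.cons (P.cons (P.lf 10710 0 0) P.nil) P.nil)))))) 199146)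
 EL.nil)
noncomputable def S241_256_660_808_33 : EL := (EL.cons 14 (TM.mk (P.lf 8589934592 0 0) 0)
 EL.nil)
noncomputable def S241_256_660_808_34 : EL := (EL.cons 14 (TM.mk (P.cons (P.cons (P.lf 0 4133510256 0) (P.cons (P.lf 0 806720504 0) (P.cons (P.lf 347866984 0 0) (P.lf 38651880 0 0)))) (P.cons (P.cons (P.lf 0 424637078 0) (P.cons (P.lf 0 10386208 0) (P.cons (P.lf 4478648 0 0) (P.lf 497624 0 0)))) (P.cons (P.cons (P.lf 17815014 0 0) (P.cons (P.lf 5126264 0 0) (P.cons (P.lf 0 2210504 0) (P.lf 0 245608 0)))) (P.cons (P.cons (P.lf 3908886 0 0) (P.cons (P.lf 66528 0 0) (P.cons (P.lf 0 28688 0) P.nil))) (P.cons (P.cons (P.lf 0 37294 0) (P.cons (P.lf 0 16248 0) P.nil)) (P.cons (P.cons (P.lf 0 11622 0) P.nil) P.nil)))))) 12800)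
 EL.nil)
noncomputable def S241_256_660_808_35 : EL := (EL.cons 14 (TM.mk (P.cons (P.cons (P.lf 1989061366 0 0) (P.cons (P.lf 776394148 0 0) (P.cons (P.lf 0 259027062 0) (P.cons (P.lf 0 102538468 0) (P.cons (P.lf 6827630 0 0) (P.cons (P.lf 3130572 0 0) P.nil)))))) (P.cons (P.cons (P.lf 408674058 0 0) (P.cons (P.lf 89755032 0 0) (P.cons (P.lf 0 36752546 0) (P.cons (P.lf 0 5982814 0) (P.cons (P.lf 175806 0 0) P.nil))))) (P.cons (P.cons (P.lf 3846310 0 0) (P.cons (P.lf 0 7252868 0) (P.cons (P.lf 2177214 0 0) (P.cons (P.lf 1167062 0 0) P.nil)))) (P.cons (P.cons (P.lf 0 5523286 0) (P.cons (P.lf 0 1348136 0) (P.cons (P.lf 556440 0 0) P.nil))) (P.cons (P.cons (P.lf 0 313626 0) (P.cons (P.lf 27874 0 0) P.nil)) (P.cons (P.cons (P.lf 31084 0 0) P.nil) P.nil)))))) 732368)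
 EL.nil)
noncomputable def S241_256_660_808_36 : EL := (EL.cons 14 (TM.mk (P.cons (P.lf 0 502777056 0) (P.cons (P.lf 501699368 0 0) (P.cons (P.lf 1614216 0 0) (P.cons (P.lf 0 534224 0) (P.cons (P.lf 0 2872 0) (P.cons (P.lf 560 0 0) P.nil)))))) 64)
 EL.nil)
noncomputable def S241_256_660_808_37 : EL := (EL.cons 14 (TM.mk (P.cons (P.cons (P.lf 241938292 0 0) (P.cons (P.lf 47218118 0 0) (P.cons (P.lf 0 20360986 0) (P.lf 0 2262330 0)))) (P.cons (P.cons (P.lf 0 216565292 0) (P.cons (P.lf 0 46508994 0) (P.cons (P.lf 20055202 0 0) (P.lf 2228354 0 0)))) (P.cons (P.cons (P.lf 0 26620634 0) (P.cons (P.lf 0 1058254 0) (P.cons (P.lf 456330 0 0) (P.lf 50702 0 0)))) (P.cons (P.cons (P.lf 988976 0 0) (P.cons (P.lf 343726 0 0) (P.cons (P.lf 0 148218 0) P.nil))) (P.cons (P.cons (P.lf 261622 0 0) (P.cons (P.lf 6714 0 0) P.nil)) (P.cons (P.cons (P.lf 0 1998 0) P.nil) P.nil))))))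 23504)
 EL.nil)
noncomputable def S241_256_660_808_38 : EL := (EL.cons 14 (TM.mk (P.cons (P.cons (P.lf 0 116421656 0) (P.cons (P.lf 0 45443088 0) (P.cons (P.lf 15161100 0 0) (P.cons (P.lf 6001674 0 0) (P.cons (P.lf 0 399626 0) (P.cons (P.lf 0 183234 0) P.nil)))))) (P.cons (P.cons (P.lf 92252028 0 0) (P.cons (P.lf 40092234 0 0) (P.cons (P.lf 0 12977440 0) (P.cons (P.lf 0 5638630 0) (P.cons (P.lf 388480 0 0) P.nil))))) (P.cons (P.cons (P.lf 24017464 0 0) (P.cons (P.lf 5812602 0 0) (P.cons (P.lf 0 2322660 0) (P.cons (P.lf 0 437006 0) P.nil)))) (P.cons (P.cons (P.lf 501022 0 0) (P.cons (P.lf 0 376118 0) (P.cons (P.lf 103794 0 0) P.nil))) (P.cons (P.cons (P.lf 0 329590 0) (P.cons (P.lf 0 87574 0) P.nil)) (P.cons (P.cons (P.lf 0 21420 0) P.nil) P.nil)))))) 398292)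
 EL.nil)
noncomputable def S241_256_660_808_39 : EL := (EL.cons 14 (TM.mk (P.cons (P.lf 29428020 0 0) (P.cons (P.lf 0 58729884 0) (P.cons (P.lf 29113034 0 0) (P.cons (P.lf 251094 0 0) (P.cons (P.lf 0 61762 0) (P.cons (P.lf 0 600 0) P.nil)))))) 128)
 EL.nil)
noncomputable def S241_256_660_808_40 : EL := (EL.cons 14 (TM.mk (P.cons (P.cons (P.lf 0 14160878 0) (P.cons (P.lf 0 2763720 0) (P.cons (P.lf 1191746 0 0) (P.lf 132416 0 0)))) (P.cons (P.cons (P.lf 26806298 0 0) (P.cons (P.lf 5480012 0 0) (P.cons (P.lf 0 2363042 0) (P.lf 0 262560 0)))) (P.cons (P.cons (P.lf 0 11045004 0) (P.cons (P.lf 0 2645566 0) (P.cons (P.lf 1140798 0 0) (P.lf 126754 0 0)))) (P.cons (P.cons (P.lf 0 1668418 0) (P.cons (P.lf 0 93602 0) (P.cons (P.lf 40362 0 0) P.nil))) (P.cons (P.cons (P.lf 50832 0 0) (P.cons (P.lf 22360 0 0) P.nil)) (P.cons (P.cons (P.lf 17324 0 0) P.nil) P.nil)))))) 17752)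
 EL.nil)
noncomputable def S241_256_660_808_41 : EL := (EL.cons 14 (TM.mk (P.cons (P.cons (P.lf 6814270 0 0) (P.cons (P.lf 2659826 0 0) (P.cons (P.lf 0 887392 0) (P.cons (P.lf 0 351282 0) (P.cons (P.lf 23390 0 0) (P.cons (P.lf 10724 0 0) P.nil)))))) (P.cons (P.cons (P.lf 0 12199262 0) (P.cons (P.lf 0 5000762 0) (P.cons (P.lf 1645072 0 0) (P.cons (P.lf 680564 0 0) (P.cons (P.lf 0 46078 0) P.nil))))) (P.cons (P.cons (P.lf 3960380 0 0) (P.cons (P.lf 1992848 0 0) (P.cons (P.lf 0 619156 0) (P.cons (P.lf 0 302620 0) P.nil)))) (P.cons (P.cons (P.lf 1398002 0 0) (P.cons (P.lf 371862 0 0) (P.cons (P.lf 0 145112 0) P.nil))) (P.cons (P.cons (P.lf 47368 0 0) (P.cons (P.lf 0 18226 0) P.nil)) (P.cons (P.cons (P.lf 0 19432 0) P.nil) P.nil)))))) 127576)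
 EL.nil)
noncomputable def S241_256_660_808_42 : EL := (EL.cons 14 (TM.mk (P.cons (P.lf 0 1722450 0) (P.cons (P.lf 5156274 0 0) (P.cons (P.lf 0 5128630 0) (P.cons (P.lf 1672796 0 0) (P.cons (P.lf 27392 0 0) (P.cons (P.lf 0 5312 0) P.nil)))))) 110)
 EL.nil)
noncomputable def S241_256_660_808_43 : EL := (EL.cons 14 (TM.mk (P.cons (P.cons (P.lf 828848 0 0) (P.cons (P.lf 161762 0 0) (P.cons (P.lf 0 69754 0) (P.lf 0 7750 0)))) (P.cons (P.cons (P.lf 0 2396070 0) (P.cons (P.lf 0 482166 0) (P.cons (P.lf 207914 0 0) (P.lf 23100 0 0)))) (P.cons (P.cons (P.lf 2209448 0 0) (P.cons (P.lf 474390 0 0) (P.cons (P.lf 0 204562 0) (P.lf 0 22728 0)))) (P.cons (P.cons (P.lf 0 541514 0) (P.cons (P.lf 0 147834 0) (P.cons (P.lf 63748 0 0) P.nil))) (P.cons (P.cons (P.lf 0 104156 0) (P.cons (P.lf 0 7612 0) P.nil)) (P.cons (P.cons (P.lf 2316 0 0) P.nil) P.nil)))))) 15342)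
 EL.nil)
noncomputable def S241_256_660_808_44 : EL := (EL.cons 14 (TM.mk (P.cons (P.cons (P.lf 0 398844 0) (P.cons (P.lf 0 155682 0) (P.cons (P.lf 51938 0 0) (P.cons (P.lf 20560 0 0) (P.cons (P.lf 0 1368 0) (P.cons (P.lf 0 626 0) P.nil)))))) (P.cons (P.cons (P.lf 1112024 0 0) (P.cons (P.lf 448046 0 0) (P.cons (P.lf 0 148116 0) (P.cons (P.lf 0 60350 0) (P.cons (P.lf 4062 0 0) P.nil))))) (P.cons (P.cons (P.lf 0 943028 0) (P.cons (P.lf 0 408214 0) (P.cons (P.lf 132154 0 0) (P.cons (P.lf 57394 0 0) P.nil)))) (P.cons (P.cons (P.lf 146764 0 0) (P.cons (P.lf 93522 0 0) (P.cons (P.lf 0 27304 0) P.nil))) (P.cons (P.cons (P.lf 80378 0 0) (P.cons (P.lf 23470 0 0) P.nil)) (P.cons (P.cons (P.lf 3924 0 0) P.nil) P.nil)))))) 53876)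
 EL.nil)
noncomputable def S241_256_660_808_45 : EL := (EL.cons 14 (TM.mk (P.cons (P.cons (P.lf 0 957144138 0) (P.cons (P.lf 0 560405868 0) (P.cons (P.lf 132281182 0 0) (P.cons (P.lf 114060134 0 0) (P.cons (P.lf 0 651932 0) (P.cons (P.lf 0 7465698 0) P.nil)))))) (P.cons (P.cons (P.lf 0 294983342 0) (P.cons (P.lf 0 122356418 0) (P.cons (P.lf 38709376 0 0) (P.cons (P.lf 17706400 0 0) (P.cons (P.lf 0 910838 0) P.nil))))) (P.cons (P.cons (P.lf 0 17928164 0) (P.cons (P.lf 994994 0 0) (P.cons (P.lf 1124884 0 0) (P.cons (P.lf 0 1255720 0) P.nil)))) (P.cons (P.cons (P.lf 4220382 0 0) (P.cons (P.lf 2320074 0 0) (P.cons (P.lf 0 708008 0) P.nil))) (P.cons (P.cons (P.lf 609266 0 0) (P.cons (P.lf 113492 0 0) P.nil)) (P.cons (P.cons (P.lf 0 13624 0) P.nil) P.nil)))))) 3468956)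
 EL.nil)
noncomputable def S241_256_660_808_46 : EL := (EL.cons 15 (TM.mk (P.lf 4294967296 0 0) 0)
 EL.nil)
noncomputable def S241_256_660_808_47 : EL := (EL.cons 15 (TM.mk (P.cons (P.cons (P.lf 0 2066755128 0) (P.cons (P.lf 0 403360252 0) (P.cons (P.lf 173933492 0 0) (P.lf 19325940 0 0)))) (P.cons (P.cons (P.lf 0 212318539 0) (P.cons (P.lf 0 5193104 0) (P.cons (P.lf 2239324 0 0) (P.lf 248812 0 0)))) (P.cons (P.cons (P.lf 8907507 0 0) (P.cons (P.lf 2563132 0 0) (P.cons (P.lf 0 1105252 0) (P.lf 0 122804 0)))) (P.cons (P.cons (P.lf 1954443 0 0) (P.cons (P.lf 33264 0 0) (P.cons (P.lf 0 14344 0) P.nil))) (P.cons (P.cons (P.lf 0 18647 0) (P.cons (P.lf 0 8124 0) P.nil)) (P.cons (P.cons (P.lf 0 5811 0) P.nil) P.nil)))))) 6400)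
 EL.nil)
noncomputable def S241_256_660_808_48 : EL := (EL.cons 15 (TM.mk (P.cons (P.cons (P.lf 994530683 0 0) (P.cons (P.lf 388197074 0 0) (P.cons (P.lf 0 129513531 0) (P.cons (P.lf 0 51269234 0) (P.cons (P.lf 3413815 0 0) (P.cons (P.lf 1565286 0 0) P.nil)))))) (P.cons (P.cons (P.lf 204337029 0 0) (P.cons (P.lf 44877516 0 0) (P.cons (P.lf 0 18376273 0) (P.cons (P.lf 0 2991407 0) (P.cons (P.lf 87903 0 0) P.nil))))) (P.cons (P.cons (P.lf 1923155 0 0) (P.cons (P.lf 0 3626434 0) (P.cons (P.lf 1088607 0 0) (P.cons (P.lf 583531 0 0) P.nil)))) (P.cons (P.cons (P.lf 0 2761643 0) (P.cons (P.lf 0 674068 0) (P.cons (P.lf 278220 0 0) P.nil))) (P.cons (P.cons (P.lf 0 156813 0) (P.cons (P.lf 13937 0 0) P.nil)) (P.cons (P.cons (P.lf 15542 0 0) P.nil) P.nil)))))) 366184)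
 EL.nil)
noncomputable def S241_256_660_808 : SL := (SL.cons S241_256_660_808_0 (SL.cons S241_256_660_808_1 (SL.cons S241_256_660_808_2 (SL.cons S241_256_660_808_3 (SL.cons S241_256_660_808_4 (SL.cons S241_256_660_808_5 (SL.cons S241_256_660_808_6 (SL.cons S241_256_660_808_7 (SL.cons S241_256_660_808_8 (SL.cons S241_256_660_808_9 (SL.cons S241_256_660_808_10 (SL.cons S241_256_660_808_11 (SL.cons S241_256_660_808_12 (SL.cons S241_256_660_808_13 (SL.cons S241_256_660_808_14 (SL.cons S241_256_660_808_15 (SL.cons S241_256_660_808_16 (SL.cons S241_256_660_808_17 (SL.cons S241_256_660_808_18 (SL.cons S241_256_660_808_19 (SL.cons S241_256_660_808_20 (SL.cons S241_256_660_808_21 (SL.cons S241_256_660_808_22 (SL.cons S241_256_660_808_23 (SL.cons S241_256_660_808_24 (SL.cons S241_256_660_808_25 (SL.cons S241_256_660_808_26 (SL.cons S241_256_660_808_27 (SL.cons S241_256_660_808_28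 (SL.cons S241_256_660_808_29 (SL.cons S241_256_660_808_30 (SL.cons S241_256_660_808_31 (SL.cons S241_256_660_808_32 (SL.cons S241_256_660_808_33 (SL.cons S241_256_660_808_34 (SL.cons S241_256_660_808_35 (SL.cons S241_256_660_808_36 (SL.cons S241_256_660_808_37 (SL.cons S241_256_660_808_38 (SL.cons S241_256_660_808_39 (SL.cons S241_256_660_808_40 (SL.cons S241_256_660_808_41 (SL.cons S241_256_660_808_42 (SL.cons S241_256_660_808_43 (SL.cons S241_256_660_808_44 (SL.cons S241_256_660_808_45 (SL.cons S241_256_660_808_46 (SL.cons S241_256_660_808_47 (SL.cons S241_256_660_808_48 SL.nil)))))))))))))))))))))))))))))))))))))))))))))))))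
noncomputable def S241_256_734_808_0 : EL := (EL.cons 0 (TM.mk (P.cons (P.lf 8429852393 0 0) (P.cons (P.lf 51618062 0 0) (P.cons (P.lf 0 25587627 0) (P.cons (P.lf 0 220688 0) (P.cons (P.lf 54283 0 0) (P.cons (P.lf 527 0 0) P.nil)))))) 119)
 (EL.cons 1 (TM.mk (P.cons (P.lf 0 235171578 0) (P.cons (P.lf 233658247 0 0) (P.cons (P.lf 2264585 0 0) (P.cons (P.lf 0 745863 0) (P.cons (P.lf 0 6716 0) (P.cons (P.lf 1310 0 0) P.nil)))))) 72)
 (EL.cons 5 (TM.mk (P.cons (P.lf 4304163554 0 0) (P.cons (P.lf 0 18353086 0) (P.cons (P.lf 9097822 0 0) (P.cons (P.lf 78466 0 0) (P.cons (P.lf 0 19296 0) (P.cons (P.lf 0 186 0) P.nil)))))) 147)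
 (EL.cons 9 (TM.mk (P.lf 6442450944 0 0) 2)
 EL.nil))))
noncomputable def S241_256_734_808_1 : EL := (EL.cons 0 (TM.mk (P.cons (P.cons (P.lf 0 4061486491 0) (P.cons (P.lf 0 208985322 0) (P.cons (P.lf 98653864 0 0) (P.lf 4697801 0 0)))) (P.cons (P.cons (P.lf 0 774604520 0) (P.cons (P.lf 0 7856818 0) (P.cons (P.lf 3708901 0 0) (P.lf 176608 0 0)))) (P.cons (P.cons (P.lf 47533672 0 0) (P.cons (P.lf 3822421 0 0) (P.cons (P.lf 0 1804414 0) (P.lf 0 85918 0)))) (P.cons (P.cons (P.lf 14558144 0 0) (P.cons (P.lf 105111 0 0) (P.cons (P.lf 0 49614 0) P.nil))) (P.cons (P.cons (P.lf 0 178210 0) (P.cons (P.lf 0 25192 0) P.nil)) (P.cons (P.cons (P.lf 0 87569 0) P.nil) P.nil)))))) 19828)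
 (EL.cons 1 (TM.mk (P.cons (P.cons (P.lf 1483081068 0 0) (P.cons (P.lf 14672849 0 0) (P.cons (P.lf 0 6926481 0) (P.lf 0 329827 0)))) (P.cons (P.cons (P.lf 0 214360818 0) (P.cons (P.lf 0 14313440 0) (P.cons (P.lf 6756818 0 0) (P.lf 321749 0 0)))) (P.cons (P.cons (P.lf 0 62986613 0) (P.cons (P.lf 0 535199 0) (P.cons (P.lf 252645 0 0) (P.lf 12024 0 0)))) (P.cons (P.cons (P.lf 1585634 0 0) (P.cons (P.lf 171907 0 0) (P.cons (P.lf 0 81147 0) P.nil))) (P.cons (P.cons (P.lf 647417 0 0) (P.cons (P.lf 4813 0 0) P.nil)) (P.cons (P.cons (P.lf 0 4046 0) P.nil) P.nil)))))) 12058)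
 (EL.cons 5 (TM.mk (P.cons (P.cons (P.lf 0 2334227354 0) (P.cons (P.lf 0 108386566 0) (P.cons (P.lf 51165090 0 0) (P.lf 2436436 0 0)))) (P.cons (P.cons (P.lf 0 88936144 0) (P.cons (P.lf 441438 0 0) (P.cons (P.lf 0 208384 0) (P.lf 0 9918 0)))) (P.cons (P.cons (P.lf 0 75255 0) (P.cons (P.lf 0 198168 0) (P.cons (P.lf 93542 0 0) (P.lf 4452 0 0)))) (P.cons (P.cons (P.lf 0 1831821 0) (P.cons (P.lf 0 22302 0) (P.cons (P.lf 10526 0 0) P.nil))) (P.cons (P.cons (P.lf 26317 0 0) (P.cons (P.lf 5274 0 0) P.nil)) (P.cons (P.cons (P.lf 21171 0 0) P.nil) P.nil)))))) 13053)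
 (EL.cons 9 (TM.mk (P.cons (P.cons (P.lf 0 3333804210 0) (P.cons (P.lf 0 161199222 0) (P.cons (P.lf 76095900 0 0) (P.lf 3623610 0 0)))) (P.cons (P.cons (P.lf 0 321486238 0) (P.cons (P.lf 0 2075370 0) (P.cons (P.lf 979704 0 0) (P.lf 46650 0 0)))) (P.cons (P.cons (P.lf 14846116 0 0) (P.cons (P.lf 1024332 0 0) (P.cons (P.lf 0 483546 0) (P.lf 0 23022 0)))) (P.cons (P.cons (P.lf 2950936 0 0) (P.cons (P.lf 13290 0 0) (P.cons (P.lf 0 6270 0) P.nil))) (P.cons (P.cons (P.lf 0 32674 0) (P.cons (P.lf 0 3240 0) P.nil)) (P.cons (P.cons (P.lf 0 8776 0) P.nil) P.nil)))))) 2959)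
 (EL.cons 2 (TM.mk (P.cons (P.cons (P.lf 35656740 0 0) (P.cons (P.lf 0 35159051 0) (P.cons (P.lf 0 1100160 0) (P.cons (P.lf 201597 0 0) (P.lf 7197 0 0))))) (P.cons (P.cons (P.lf 0 35274268 0) (P.cons (P.lf 34781914 0 0) (P.cons (P.lf 1088358 0 0) (P.cons (P.lf 0 199437 0) (P.lf 0 7121 0))))) (P.cons (P.cons (P.lf 0 571575 0) (P.cons (P.lf 563596 0 0) (P.cons (P.lf 17634 0 0) (P.cons (P.lf 0 3228 0) P.nil)))) (P.cons (P.cons (P.lf 186977 0 0) (P.cons (P.lf 0 184367 0) (P.cons (P.lf 0 5768 0) P.nil))) (P.cons (P.cons (P.lf 2640 0 0) (P.cons (P.lf 0 2604 0) P.nil)) (P.cons (P.cons (P.lf 0 511 0) P.nil) P.nil)))))) 2001)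
 (EL.cons 6 (TM.mk (P.cons (P.cons (P.lf 324207378 0 0) (P.cons (P.lf 0 319682148 0) (P.cons (P.lf 0 10003161 0) (P.cons (P.lf 1833039 0 0) (P.lf 65463 0 0))))) (P.cons (P.cons (P.lf 4174044 0 0) (P.cons (P.lf 0 4115784 0) (P.cons (P.lf 0 128784 0) (P.cons (P.lf 23598 0 0) (P.lf 840 0 0))))) (P.cons (P.cons (P.lf 0 2060160 0) (P.cons (P.lf 2031405 0 0) (P.cons (P.lf 63561 0 0) (P.cons (P.lf 0 11646 0) P.nil)))) (P.cons (P.cons (P.lf 0 26736 0) (P.cons (P.lf 26364 0 0) (P.cons (P.lf 822 0 0) P.nil))) (P.cons (P.cons (P.lf 6531 0 0) (P.cons (P.lf 0 6438 0) P.nil)) (P.cons (P.cons (P.lf 87 0 0) P.nil) P.nil)))))) 1110)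
 EL.nil))))))
noncomputable def S241_256_734_808_2 : EL := (EL.cons 0 (TM.mk (P.cons (P.cons (P.lf 1946086693 0 0) (P.cons (P.lf 201238912 0 0) (P.cons (P.lf 0 89816556 0) (P.cons (P.lf 0 9414731 0) (P.cons (P.lf 921535 0 0) (P.cons (P.lf 109949 0 0) P.nil)))))) (P.cons (P.cons (P.lf 757838588 0 0) (P.cons (P.lf 45170569 0 0) (P.cons (P.lf 0 20963665 0) (P.cons (P.lf 0 1354891 0) (P.cons (P.lf 63963 0 0) P.nil))))) (P.cons (P.cons (P.lf 12693169 0 0) (P.cons (P.lf 0 4701469 0) (P.cons (P.lf 2048089 0 0) (P.cons (P.lf 267392 0 0) P.nil)))) (P.cons (P.cons (P.lf 0 19791526 0) (P.cons (P.lf 0 1291727 0) (P.cons (P.lf 601370 0 0) P.nil))) (P.cons (P.cons (P.lf 0 1385579 0) (P.cons (P.lf 30252 0 0) P.nil)) (P.cons (P.cons (P.lf 184906 0 0) P.nil) P.nil)))))) 196750)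
 (EL.cons 1 (TM.mk (P.cons (P.cons (P.lf 0 1471939106 0) (P.cons (P.lf 0 83313240 0) (P.cons (P.lf 38741911 0 0) (P.cons (P.lf 2427035 0 0) (P.cons (P.lf 0 104414 0) (P.cons (P.lf 0 12456 0) P.nil)))))) (P.cons (P.cons (P.lf 23413900 0 0) (P.cons (P.lf 17735882 0 0) (P.cons (P.lf 0 7808082 0) (P.cons (P.lf 0 931486 0) (P.cons (P.lf 100383 0 0) P.nil))))) (P.cons (P.cons (P.lf 80767944 0 0) (P.cons (P.lf 5033493 0 0) (P.cons (P.lf 0 2342469 0) (P.cons (P.lf 0 144892 0) P.nil)))) (P.cons (P.cons (P.lf 4908457 0 0) (P.cons (P.lf 0 217026 0) (P.cons (P.lf 91914 0 0) P.nil))) (P.cons (P.cons (P.lf 0 1133686 0) (P.cons (P.lf 0 80694 0) P.nil)) (P.cons (P.cons (P.lf 0 101842 0) P.nil) P.nil)))))) 106354)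
 (EL.cons 5 (TM.mk (P.cons (P.cons (P.lf 1263237965 0 0) (P.cons (P.lf 117525761 0 0) (P.cons (P.lf 0 52750089 0) (P.cons (P.lf 0 5218621 0) (P.cons (P.lf 485479 0 0) (P.cons (P.lf 57910 0 0) P.nil)))))) (P.cons (P.cons (P.lf 107631087 0 0) (P.cons (P.lf 4606819 0 0) (P.cons (P.lf 0 2184866 0) (P.cons (P.lf 0 93975 0) (P.cons (P.lf 0 1796 0) P.nil))))) (P.cons (P.cons (P.lf 0 3745195 0) (P.cons (P.lf 0 137108 0) (P.cons (P.lf 68296 0 0) (P.cons (P.lf 0 268 0) P.nil)))) (P.cons (P.cons (P.lf 1896461 0 0) (P.cons (P.lf 149610 0 0) (P.cons (P.lf 0 69139 0) P.nil))) (P.cons (P.cons (P.lf 235970 0 0) (P.cons (P.lf 0 3396 0) P.nil)) (P.cons (P.cons (P.lf 0 36312 0) P.nil) P.nil)))))) 108449)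
 (EL.cons 9 (TM.mk (P.cons (P.cons (P.lf 1725158733 0 0) (P.cons (P.lf 166832979 0 0) (P.cons (P.lf 0 74721945 0) (P.cons (P.lf 0 7558305 0) (P.cons (P.lf 717481 0 0) (P.cons (P.lf 85600 0 0) P.nil)))))) (P.cons (P.cons (P.lf 332721873 0 0) (P.cons (P.lf 18235981 0 0) (P.cons (P.lf 0 8504644 0) (P.cons (P.lf 0 507979 0) (P.cons (P.lf 18474 0 0) P.nil))))) (P.cons (P.cons (P.lf 677584 0 0) (P.cons (P.lf 0 1595944 0) (P.cons (P.lf 702790 0 0) (P.cons (P.lf 83635 0 0) P.nil)))) (P.cons (P.cons (P.lf 0 4535746 0) (P.cons (P.lf 0 273223 0) (P.cons (P.lf 127648 0 0) P.nil))) (P.cons (P.cons (P.lf 0 226482 0) (P.cons (P.lf 6481 0 0) P.nil)) (P.cons (P.cons (P.lf 25944 0 0) P.nil) P.nil)))))) 40777)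
 (EL.cons 2 (TM.mk (P.cons (P.cons (P.lf 0 36902908 0) (P.cons (P.lf 34603458 0 0) (P.cons (P.lf 3740394 0 0) (P.cons (P.lf 0 944049 0) (P.cons (P.lf 0 83075 0) (P.cons (P.lf 3161 0 0) P.nil)))))) (P.cons (P.cons (P.lf 32948437 0 0) (P.cons (P.lf 0 30746295 0) (P.cons (P.lf 0 3556980 0) (P.cons (P.lf 904336 0 0) (P.cons (P.lf 80493 0 0) P.nil))))) (P.cons (P.cons (P.lf 4276344 0 0) (P.cons (P.lf 0 4153989 0) (P.cons (P.lf 0 223318 0) (P.cons (P.lf 50006 0 0) P.nil)))) (P.cons (P.cons (P.lf 0 266377 0) (P.cons (P.lf 242600 0 0) (P.cons (P.lf 37462 0 0) P.nil))) (P.cons (P.cons (P.lf 0 56705 0) (P.cons (P.lf 55299 0 0) P.nil)) (P.cons (P.cons (P.lf 860 0 0) P.nil) P.nil)))))) 31162)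
 (EL.cons 6 (TM.mk (P.cons (P.cons (P.lf 0 335538114 0) (P.cons (P.lf 314630478 0 0) (P.cons (P.lf 34009398 0 0) (P.cons (P.lf 0 8583744 0) (P.cons (P.lf 0 755406 0) (P.cons (P.lf 28770 0 0) P.nil)))))) (P.cons (P.cons (P.lf 0 36676614 0) (P.cons (P.lf 35746932 0 0) (P.cons (P.lf 1740762 0 0) (P.cons (P.lf 0 379536 0) (P.cons (P.lf 0 25104 0) P.nil))))) (P.cons (P.cons (P.lf 3209796 0 0) (P.cons (P.lf 0 2961492 0) (P.cons (P.lf 0 395760 0) (P.cons (P.lf 102018 0 0) P.nil)))) (P.cons (P.cons (P.lf 549522 0 0) (P.cons (P.lf 0 536514 0) (P.cons (P.lf 0 24720 0) P.nil))) (P.cons (P.cons (P.lf 0 13044 0) (P.cons (P.lf 11592 0 0) P.nil)) (P.cons (P.cons (P.lf 0 3672 0) P.nil) P.nil)))))) 29862)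
 EL.nil))))))
noncomputable def S241_256_734_808_3 : EL := (EL.cons 0 (TM.mk (P.cons (P.lf 25864470 0 0) (P.cons (P.lf 0 51618062 0) (P.cons (P.lf 25587627 0 0) (P.cons (P.lf 220688 0 0) (P.cons (P.lf 0 54283 0) (P.cons (P.lf 0 527 0) P.nil)))))) 119)
 (EL.cons 1 (TM.mk (P.cons (P.lf 235171578 0 0) (P.cons (P.lf 0 233658247 0) (P.cons (P.lf 0 2264585 0) (P.cons (P.lf 745863 0 0) (P.cons (P.lf 6716 0 0) (P.cons (P.lf 0 1310 0) P.nil)))))) 72)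
 (EL.cons 5 (TM.mk (P.cons (P.lf 2138287390 0 0) (P.cons (P.lf 18353086 0 0) (P.cons (P.lf 0 9097822 0) (P.cons (P.lf 0 78466 0) (P.cons (P.lf 19296 0 0) (P.cons (P.lf 186 0 0) P.nil)))))) 140)
 EL.nil)))
noncomputable def S241_256_734_808_4 : EL := (EL.cons 0 (TM.mk (P.cons (P.cons (P.lf 0 13384204 0) (P.cons (P.lf 0 647165 0) (P.cons (P.lf 305500 0 0) (P.lf 14547 0 0)))) (P.cons (P.cons (P.lf 25420362 0 0) (P.cons (P.lf 1283224 0 0) (P.cons (P.lf 0 605759 0) (P.lf 0 28845 0)))) (P.cons (P.cons (P.lf 0 10605536 0) (P.cons (P.lf 0 619497 0) (P.cons (P.lf 292440 0 0) (P.lf 13925 0 0)))) (P.cons (P.cons (P.lf 0 1498155 0) (P.cons (P.lf 0 21918 0) (P.cons (P.lf 10346 0 0) P.nil))) (P.cons (P.cons (P.lf 52266 0 0) (P.cons (P.lf 5234 0 0) P.nil)) (P.cons (P.cons (P.lf 15435 0 0) P.nil) P.nil)))))) 4174)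
 (EL.cons 1 (TM.mk (P.cons (P.cons (P.lf 0 121695298 0) (P.cons (P.lf 0 5884323 0) (P.cons (P.lf 2777760 0 0) (P.lf 132271 0 0)))) (P.cons (P.cons (P.lf 109176836 0 0) (P.cons (P.lf 5770700 0 0) (P.cons (P.lf 0 2724123 0) (P.lf 0 129718 0)))) (P.cons (P.cons (P.lf 13373632 0 0) (P.cons (P.lf 169323 0 0) (P.cons (P.lf 0 79931 0) (P.lf 0 3804 0)))) (P.cons (P.cons (P.lf 0 703687 0) (P.cons (P.lf 0 54598 0) (P.cons (P.lf 25771 0 0) P.nil))) (P.cons (P.cons (P.lf 0 154130 0) (P.cons (P.lf 0 1366 0) P.nil)) (P.cons (P.cons (P.lf 1888 0 0) P.nil) P.nil)))))) 3328)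
 (EL.cons 5 (TM.mk (P.cons (P.cons (P.lf 0 1106509240 0) (P.cons (P.lf 0 53502968 0) (P.cons (P.lf 25256676 0 0) (P.lf 1202696 0 0)))) (P.cons (P.cons (P.lf 0 116200428 0) (P.cons (P.lf 0 1148046 0) (P.cons (P.lf 541948 0 0) (P.lf 25806 0 0)))) (P.cons (P.cons (P.lf 8719562 0 0) (P.cons (P.lf 561708 0 0) (P.cons (P.lf 0 265160 0) (P.lf 0 12624 0)))) (P.cons (P.cons (P.lf 1516322 0 0) (P.cons (P.lf 12222 0 0) (P.cons (P.lf 0 5768 0) P.nil))) (P.cons (P.cons (P.lf 0 29472 0) (P.cons (P.lf 0 2940 0) P.nil)) (P.cons (P.cons (P.lf 0 8414 0) P.nil) P.nil)))))) 2528)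
 EL.nil)))
noncomputable def S241_256_734_808_5 : EL := (EL.cons 0 (TM.mk (P.cons (P.cons (P.lf 6925983 0 0) (P.cons (P.lf 669782 0 0) (P.cons (P.lf 0 299984 0) (P.cons (P.lf 0 30343 0) (P.cons (P.lf 2879 0 0) (P.cons (P.lf 342 0 0) P.nil)))))) (P.cons (P.cons (P.lf 0 12486501 0) (P.cons (P.lf 0 1263482 0) (P.cons (P.lf 564540 0 0) (P.cons (P.lf 58517 0 0) (P.cons (P.lf 0 5674 0) P.nil))))) (P.cons (P.cons (P.lf 4188744 0 0) (P.cons (P.lf 510096 0 0) (P.cons (P.lf 0 225812 0) (P.cons (P.lf 0 25613 0) P.nil)))) (P.cons (P.cons (P.lf 1356934 0 0) (P.cons (P.lf 89833 0 0) (P.cons (P.lf 0 41454 0) P.nil))) (P.cons (P.cons (P.lf 34983 0 0) (P.cons (P.lf 0 4904 0) P.nil)) (P.cons (P.cons (P.lf 0 19016 0) P.nil) P.nil)))))) 16471)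
 (EL.cons 1 (TM.mk (P.cons (P.cons (P.lf 62974215 0 0) (P.cons (P.lf 6089975 0 0) (P.cons (P.lf 0 2727605 0) (P.cons (P.lf 0 275902 0) (P.cons (P.lf 26188 0 0) (P.cons (P.lf 3123 0 0) P.nil)))))) (P.cons (P.cons (P.lf 0 50423486 0) (P.cons (P.lf 0 5385110 0) (P.cons (P.lf 2399606 0 0) (P.cons (P.lf 255585 0 0) (P.cons (P.lf 0 25346 0) P.nil))))) (P.cons (P.cons (P.lf 0 12649008 0) (P.cons (P.lf 0 778291 0) (P.cons (P.lf 360369 0 0) (P.cons (P.lf 24131 0 0) P.nil)))) (P.cons (P.cons (P.lf 0 107370 0) (P.cons (P.lf 60811 0 0) (P.cons (P.lf 0 26490 0) P.nil))) (P.cons (P.cons (P.lf 196316 0 0) (P.cons (P.lf 12990 0 0) P.nil)) (P.cons (P.cons (P.lf 10828 0 0) P.nil) P.nil)))))) 19720)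
 (EL.cons 5 (TM.mk (P.cons (P.cons (P.lf 572590336 0 0) (P.cons (P.lf 55372846 0 0) (P.cons (P.lf 0 24800652 0) (P.cons (P.lf 0 2508644 0) (P.cons (P.lf 238134 0 0) (P.cons (P.lf 28410 0 0) P.nil)))))) (P.cons (P.cons (P.lf 115346934 0 0) (P.cons (P.lf 6527898 0 0) (P.cons (P.lf 0 3035606 0) (P.cons (P.lf 0 190132 0) (P.cons (P.lf 8174 0 0) P.nil))))) (P.cons (P.cons (P.lf 0 1263468 0) (P.cons (P.lf 0 713348 0) (P.cons (P.lf 314550 0 0) (P.cons (P.lf 36984 0 0) P.nil)))) (P.cons (P.cons (P.lf 0 1994380 0) (P.cons (P.lf 0 123014 0) (P.cons (P.lf 57288 0 0) P.nil))) (P.cons (P.cons (P.lf 0 87932 0) (P.cons (P.lf 3902 0 0) P.nil)) (P.cons (P.cons (P.lf 15408 0 0) P.nil) P.nil)))))) 19360)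
 EL.nil)))
noncomputable def S241_256_734_808_6 : EL := (EL.cons 12 (TM.mk (P.lf 8589934592 0 0) 0)
 (EL.cons 3 (TM.mk (P.cons (P.lf 0 235676745 0) (P.cons (P.lf 235171578 0 0) (P.cons (P.lf 756663 0 0) (P.cons (P.lf 0 250417 0) (P.cons (P.lf 0 1346 0) (P.cons (P.lf 262 0 0) P.nil)))))) 37)
 (EL.cons 7 (TM.mk (P.cons (P.lf 0 2142880586 0) (P.cons (P.lf 0 9196255 0) (P.cons (P.lf 4578416 0 0) (P.cons (P.lf 19669 0 0) (P.cons (P.lf 0 4863 0) (P.cons (P.lf 0 31 0) P.nil)))))) 53)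
 EL.nil)))
noncomputable def S241_256_734_808_7 : EL := (EL.cons 12 (TM.mk (P.cons (P.cons (P.lf 0 4445072280 0) (P.cons (P.lf 0 214932296 0) (P.cons (P.lf 101461200 0 0) (P.lf 4831480 0 0)))) (P.cons (P.cons (P.lf 0 428648318 0) (P.cons (P.lf 0 2767160 0) (P.cons (P.lf 1306272 0 0) (P.lf 62200 0 0)))) (P.cons (P.cons (P.lf 19794822 0 0) (P.cons (P.lf 1365776 0 0) (P.cons (P.lf 0 644728 0) (P.lf 0 30696 0)))) (P.cons (P.cons (P.lf 3934582 0 0) (P.cons (P.lf 17720 0 0) (P.cons (P.lf 0 8360 0) P.nil))) (P.cons (P.cons (P.lf 0 43566 0) (P.cons (P.lf 0 4320 0) P.nil)) (P.cons (P.cons (P.lf 0 11702 0) P.nil) P.nil)))))) 3920)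
 (EL.cons 3 (TM.mk (P.cons (P.cons (P.lf 0 2618449367 0) (P.cons (P.lf 0 11793930 0) (P.cons (P.lf 5567456 0 0) (P.lf 265114 0 0)))) (P.cons (P.cons (P.lf 137280582 0 0) (P.cons (P.lf 11616808 0 0) (P.cons (P.lf 0 5483844 0) (P.lf 0 261134 0)))) (P.cons (P.cons (P.lf 66280208 0 0) (P.cons (P.lf 264324 0 0) (P.cons (P.lf 0 124776 0) (P.lf 0 5940 0)))) (P.cons (P.cons (P.lf 0 698518 0) (P.cons (P.lf 0 85854 0) (P.cons (P.lf 40528 0 0) P.nil))) (P.cons (P.cons (P.lf 0 334547 0) (P.cons (P.lf 0 1676 0) P.nil)) (P.cons (P.cons (P.lf 1497 0 0) P.nil) P.nil)))))) 9322)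
 (EL.cons 7 (TM.mk (P.cons (P.cons (P.lf 1216048190 0 0) (P.cons (P.lf 54309698 0 0) (P.cons (P.lf 0 25637501 0) (P.lf 0 1220838 0)))) (P.cons (P.cons (P.lf 0 5368276 0) (P.cons (P.lf 0 454265 0) (P.cons (P.lf 214440 0 0) (P.lf 10211 0 0)))) (P.cons (P.cons (P.lf 98054 0 0) (P.cons (P.lf 217286 0 0) (P.cons (P.lf 0 102570 0) (P.lf 0 4882 0)))) (P.cons (P.cons (P.lf 1753150 0 0) (P.cons (P.lf 9770 0 0) (P.cons (P.lf 0 4612 0) P.nil))) (P.cons (P.cons (P.lf 0 10173 0) (P.cons (P.lf 0 2349 0) P.nil)) (P.cons (P.cons (P.lf 0 9369 0) P.nil) P.nil)))))) 7894)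
 (EL.cons 10 (TM.mk (P.cons (P.cons (P.lf 0 649807602 0) (P.cons (P.lf 640737699 0 0) (P.cons (P.lf 20049300 0 0) (P.cons (P.lf 0 3673953 0) (P.lf 0 131211 0))))) (P.cons (P.cons (P.lf 0 5577348 0) (P.cons (P.lf 5499501 0 0) (P.cons (P.lf 172083 0 0) (P.cons (P.lf 0 31533 0) (P.lf 0 1125 0))))) (P.cons (P.cons (P.lf 2764749 0 0) (P.cons (P.lf 0 2726160 0) (P.cons (P.lf 0 85302 0) (P.cons (P.lf 15630 0 0) P.nil)))) (P.cons (P.cons (P.lf 23844 0 0) (P.cons (P.lf 0 23511 0) (P.cons (P.lf 0 735 0) P.nil))) (P.cons (P.cons (P.lf 0 5862 0) (P.cons (P.lf 5781 0 0) P.nil)) (P.cons (P.cons (P.lf 0 54 0) P.nil) P.nil)))))) 1164)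
 EL.nil))))
noncomputable def S241_256_734_808_8 : EL := (EL.cons 12 (TM.mk (P.cons (P.cons (P.lf 2300211644 0 0) (P.cons (P.lf 222443972 0 0) (P.cons (P.lf 0 99629260 0) (P.cons (P.lf 0 10077740 0) (P.cons (P.lf 956642 0 0) (P.cons (P.lf 114134 0 0) P.nil)))))) (P.cons (P.cons (P.lf 443629164 0 0) (P.cons (P.lf 24314642 0 0) (P.cons (P.lf 0 11339526 0) (P.cons (P.lf 0 677306 0) (P.cons (P.lf 24632 0 0) P.nil))))) (P.cons (P.cons (P.lf 903446 0 0) (P.cons (P.lf 0 2127926 0) (P.cons (P.lf 937054 0 0) (P.cons (P.lf 111514 0 0) P.nil)))) (P.cons (P.cons (P.lf 0 6047662 0) (P.cons (P.lf 0 364298 0) (P.cons (P.lf 170198 0 0) P.nil))) (P.cons (P.cons (P.lf 0 301976 0) (P.cons (P.lf 8642 0 0) P.nil)) (P.cons (P.cons (P.lf 34592 0 0) P.nil) P.nil)))))) 54340)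
 (EL.cons 3 (TM.mk (P.cons (P.cons (P.lf 2773071143 0 0) (P.cons (P.lf 149343773 0 0) (P.cons (P.lf 0 69761649 0) (P.cons (P.lf 0 4053633 0) (P.cons (P.lf 131230 0 0) (P.cons (P.lf 15655 0 0) P.nil)))))) (P.cons (P.cons (P.lf 68446650 0 0) (P.cons (P.lf 0 21451502 0) (P.cons (P.lf 9409245 0 0) (P.cons (P.lf 1159309 0 0) (P.cons (P.lf 0 127570 0) P.nil))))) (P.cons (P.cons (P.lf 0 106688916 0) (P.cons (P.lf 0 6468900 0) (P.cons (P.lf 3023137 0 0) (P.cons (P.lf 174275 0 0) P.nil)))) (P.cons (P.cons (P.lf 0 7820710 0) (P.cons (P.lf 182919 0 0) (P.cons (P.lf 0 76632 0) P.nil))) (P.cons (P.cons (P.lf 1044244 0 0) (P.cons (P.lf 74893 0 0) P.nil)) (P.cons (P.cons (P.lf 104856 0 0) P.nil) P.nil)))))) 131971)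
 (EL.cons 7 (TM.mk (P.cons (P.cons (P.lf 0 684727603 0) (P.cons (P.lf 0 61570458 0) (P.cons (P.lf 27688806 0 0) (P.cons (P.lf 2683366 0 0) (P.cons (P.lf 0 244803 0) (P.cons (P.lf 0 29204 0) P.nil)))))) (P.cons (P.cons (P.lf 0 2676576 0) (P.cons (P.lf 838840 0 0) (P.cons (P.lf 0 367936 0) (P.cons (P.lf 0 45332 0) (P.cons (P.lf 4988 0 0) P.nil))))) (P.cons (P.cons (P.lf 5513169 0 0) (P.cons (P.lf 0 167362 0) (P.cons (P.lf 66143 0 0) (P.cons (P.lf 15895 0 0) P.nil)))) (P.cons (P.cons (P.lf 0 2484365 0) (P.cons (P.lf 0 175248 0) (P.cons (P.lf 81577 0 0) P.nil))) (P.cons (P.cons (P.lf 0 263239 0) (P.cons (P.lf 2622 0 0) P.nil)) (P.cons (P.cons (P.lf 27406 0 0) P.nil) P.nil)))))) 59976)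
 (EL.cons 10 (TM.mk (P.cons (P.cons (P.lf 672517752 0 0) (P.cons (P.lf 0 630612654 0) (P.cons (P.lf 0 68164908 0) (P.cons (P.lf 17204370 0 0) (P.cons (P.lf 1514058 0 0) (P.cons (P.lf 0 57666 0) P.nil)))))) (P.cons (P.cons (P.lf 70624668 0 0) (P.cons (P.lf 0 68941140 0) (P.cons (P.lf 0 3196476 0) (P.cons (P.lf 686880 0 0) (P.cons (P.lf 43830 0 0) P.nil))))) (P.cons (P.cons (P.lf 0 5299596 0) (P.cons (P.lf 4884228 0 0) (P.cons (P.lf 661302 0 0) (P.cons (P.lf 0 170664 0) P.nil)))) (P.cons (P.cons (P.lf 0 921594 0) (P.cons (P.lf 901296 0 0) (P.cons (P.lf 39264 0 0) P.nil))) (P.cons (P.cons (P.lf 17910 0 0) (P.cons (P.lf 0 15870 0) P.nil)) (P.cons (P.cons (P.lf 5106 0 0) P.nil) P.nil)))))) 48342)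
 EL.nil))))
noncomputable def S241_256_734_808_9 : EL := (EL.cons 3 (TM.mk (P.cons (P.lf 0 235676745 0) (P.cons (P.lf 235171578 0 0) (P.cons (P.lf 756663 0 0) (P.cons (P.lf 0 250417 0) (P.cons (P.lf 0 1346 0) (P.cons (P.lf 262 0 0) P.nil)))))) 37)
 (EL.cons 7 (TM.mk (P.cons (P.lf 0 2142880586 0) (P.cons (P.lf 0 9196255 0) (P.cons (P.lf 4578416 0 0) (P.cons (P.lf 19669 0 0) (P.cons (P.lf 0 4863 0) (P.cons (P.lf 0 31 0) P.nil)))))) 53)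
 EL.nil))
noncomputable def S241_256_734_808_10 : EL := (EL.cons 3 (TM.mk (P.cons (P.cons (P.lf 121956709 0 0) (P.cons (P.lf 5896965 0 0) (P.cons (P.lf 0 2783728 0) (P.lf 0 132557 0)))) (P.cons (P.cons (P.lf 0 109934739 0) (P.cons (P.lf 0 5808404 0) (P.cons (P.lf 2741922 0 0) (P.lf 130567 0 0)))) (P.cons (P.cons (P.lf 0 12670003 0) (P.cons (P.lf 0 132162 0) (P.cons (P.lf 62388 0 0) (P.lf 2970 0 0)))) (P.cons (P.cons (P.lf 525809 0 0) (P.cons (P.lf 42927 0 0) (P.cons (P.lf 0 20264 0) P.nil))) (P.cons (P.cons (P.lf 123850 0 0) (P.cons (P.lf 838 0 0) P.nil)) (P.cons (P.cons (P.lf 0 1170 0) P.nil) P.nil)))))) 2253)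
 (EL.cons 7 (TM.mk (P.cons (P.cons (P.lf 1108886102 0 0) (P.cons (P.lf 53617898 0 0) (P.cons (P.lf 0 25310930 0) (P.lf 0 1205280 0)))) (P.cons (P.cons (P.lf 111691208 0 0) (P.cons (P.lf 920410 0 0) (P.cons (P.lf 0 434490 0) (P.lf 0 20689 0)))) (P.cons (P.cons (P.lf 0 6848407 0) (P.cons (P.lf 0 452308 0) (P.cons (P.lf 213516 0 0) (P.lf 10166 0 0)))) (P.cons (P.cons (P.lf 0 1241375 0) (P.cons (P.lf 0 7849 0) (P.cons (P.lf 3704 0 0) P.nil))) (P.cons (P.cons (P.lf 18741 0 0) (P.cons (P.lf 1902 0 0) P.nil)) (P.cons (P.cons (P.lf 5367 0 0) P.nil) P.nil)))))) 1641)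
 EL.nil))
noncomputable def S241_256_734_808_11 : EL := (EL.cons 3 (TM.mk (P.cons (P.cons (P.lf 0 63109489 0) (P.cons (P.lf 0 6103057 0) (P.cons (P.lf 2733465 0 0) (P.cons (P.lf 276495 0 0) (P.cons (P.lf 0 26246 0) (P.cons (P.lf 0 3131 0) P.nil)))))) (P.cons (P.cons (P.lf 50802636 0 0) (P.cons (P.lf 5422870 0 0) (P.cons (P.lf 0 2416491 0) (P.cons (P.lf 0 257321 0) (P.cons (P.lf 25514 0 0) P.nil))))) (P.cons (P.cons (P.lf 12323322 0 0) (P.cons (P.lf 743652 0 0) (P.cons (P.lf 0 344933 0) (P.cons (P.lf 0 22489 0) P.nil)))) (P.cons (P.cons (P.lf 162680 0 0) (P.cons (P.lf 0 52605 0) (P.cons (P.lf 22890 0 0) P.nil))) (P.cons (P.cons (P.lf 0 170498 0) (P.cons (P.lf 0 11141 0) P.nil)) (P.cons (P.cons (P.lf 0 9774 0) P.nil) P.nil)))))) 17079)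
 (EL.cons 7 (TM.mk (P.cons (P.cons (P.lf 0 573820303 0) (P.cons (P.lf 0 55491792 0) (P.cons (P.lf 24853926 0 0) (P.cons (P.lf 2514034 0 0) (P.cons (P.lf 0 238647 0) (P.cons (P.lf 0 28472 0) P.nil)))))) (P.cons (P.cons (P.lf 0 113132136 0) (P.cons (P.lf 0 6303776 0) (P.cons (P.lf 2935466 0 0) (P.cons (P.lf 179752 0 0) (P.cons (P.lf 0 7168 0) P.nil))))) (P.cons (P.cons (P.lf 525687 0 0) (P.cons (P.lf 623372 0 0) (P.cons (P.lf 0 274723 0) (P.cons (P.lf 0 32465 0) P.nil)))) (P.cons (P.cons (P.lf 1749427 0 0) (P.cons (P.lf 106626 0 0) (P.cons (P.lf 0 49733 0) P.nil))) (P.cons (P.cons (P.lf 82001 0 0) (P.cons (P.lf 0 2970 0) P.nil)) (P.cons (P.cons (P.lf 0 11786 0) P.nil) P.nil)))))) 16322)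
 EL.nil))
noncomputable def S241_256_734_808_12 : EL := (EL.cons 4 (TM.mk (P.cons (P.lf 235676745 0 0) (P.cons (P.lf 0 235171578 0) (P.cons (P.lf 0 756663 0) (P.cons (P.lf 250417 0 0) (P.cons (P.lf 1346 0 0) (P.cons (P.lf 0 262 0) P.nil)))))) 37)
 (EL.cons 8 (TM.mk (P.cons (P.lf 2142880586 0 0) (P.cons (P.lf 9196255 0 0) (P.cons (P.lf 0 4578416 0) (P.cons (P.lf 0 19669 0) (P.cons (P.lf 4863 0 0) (P.cons (P.lf 31 0 0) P.nil)))))) 53)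
 EL.nil))
noncomputable def S241_256_734_808_13 : EL := (EL.cons 4 (TM.mk (P.cons (P.cons (P.lf 0 121956709 0) (P.cons (P.lf 0 5896965 0) (P.cons (P.lf 2783728 0 0) (P.lf 132557 0 0)))) (P.cons (P.cons (P.lf 109934739 0 0) (P.cons (P.lf 5808404 0 0) (P.cons (P.lf 0 2741922 0) (P.lf 0 130567 0)))) (P.cons (P.cons (P.lf 12670003 0 0) (P.cons (P.lf 132162 0 0) (P.cons (P.lf 0 62388 0) (P.lf 0 2970 0)))) (P.cons (P.cons (P.lf 0 525809 0) (P.cons (P.lf 0 42927 0) (P.cons (P.lf 20264 0 0) P.nil))) (P.cons (P.cons (P.lf 0 123850 0) (P.cons (P.lf 0 838 0) P.nil)) (P.cons (P.cons (P.lf 1170 0 0) P.nil) P.nil)))))) 2253)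
 (EL.cons 8 (TM.mk (P.cons (P.cons (P.lf 0 1108886102 0) (P.cons (P.lf 0 53617898 0) (P.cons (P.lf 25310930 0 0) (P.lf 1205280 0 0)))) (P.cons (P.cons (P.lf 0 111691208 0) (P.cons (P.lf 0 920410 0) (P.cons (P.lf 434490 0 0) (P.lf 20689 0 0)))) (P.cons (P.cons (P.lf 6848407 0 0) (P.cons (P.lf 452308 0 0) (P.cons (P.lf 0 213516 0) (P.lf 0 10166 0)))) (P.cons (P.cons (P.lf 1241375 0 0) (P.cons (P.lf 7849 0 0) (P.cons (P.lf 0 3704 0) P.nil))) (P.cons (P.cons (P.lf 0 18741 0) (P.cons (P.lf 0 1902 0) P.nil)) (P.cons (P.cons (P.lf 0 5367 0) P.nil) P.nil)))))) 1641)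
 EL.nil))
noncomputable def S241_256_734_808_14 : EL := (EL.cons 4 (TM.mk (P.cons (P.cons (P.lf 63109489 0 0) (P.cons (P.lf 6103057 0 0) (P.cons (P.lf 0 2733465 0) (P.cons (P.lf 0 276495 0) (P.cons (P.lf 26246 0 0) (P.cons (P.lf 3131 0 0) P.nil)))))) (P.cons (P.cons (P.lf 0 50802636 0) (P.cons (P.lf 0 5422870 0) (P.cons (P.lf 2416491 0 0) (P.cons (P.lf 257321 0 0) (P.cons (P.lf 0 25514 0) P.nil))))) (P.cons (P.cons (P.lf 0 12323322 0) (P.cons (P.lf 0 743652 0) (P.cons (P.lf 344933 0 0) (P.cons (P.lf 22489 0 0) P.nil)))) (P.cons (P.cons (P.lf 0 162680 0) (P.cons (P.lf 52605 0 0) (P.cons (P.lf 0 22890 0) P.nil))) (P.cons (P.cons (P.lf 170498 0 0) (P.cons (P.lf 11141 0 0) P.nil)) (P.cons (P.cons (P.lf 9774 0 0) P.nil) P.nil)))))) 17079)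
 (EL.cons 8 (TM.mk (P.cons (P.cons (P.lf 573820303 0 0) (P.cons (P.lf 55491792 0 0) (P.cons (P.lf 0 24853926 0) (P.cons (P.lf 0 2514034 0) (P.cons (P.lf 238647 0 0) (P.cons (P.lf 28472 0 0) P.nil)))))) (P.cons (P.cons (P.lf 113132136 0 0) (P.cons (P.lf 6303776 0 0) (P.cons (P.lf 0 2935466 0) (P.cons (P.lf 0 179752 0) (P.cons (P.lf 7168 0 0) P.nil))))) (P.cons (P.cons (P.lf 0 525687 0) (P.cons (P.lf 0 623372 0) (P.cons (P.lf 274723 0 0) (P.cons (P.lf 32465 0 0) P.nil)))) (P.cons (P.cons (P.lf 0 1749427 0) (P.cons (P.lf 0 106626 0) (P.cons (P.lf 49733 0 0) P.nil))) (P.cons (P.cons (P.lf 0 82001 0) (P.cons (P.lf 2970 0 0) P.nil)) (P.cons (P.cons (P.lf 11786 0 0) P.nil) P.nil)))))) 16322)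
 EL.nil))
noncomputable def S241_256_734_808_15 : EL := (EL.cons 4 (TM.mk (P.cons (P.lf 0 13794384 0) (P.cons (P.lf 27529633 0 0) (P.cons (P.lf 0 13646734 0) (P.cons (P.lf 0 117700 0) (P.cons (P.lf 28950 0 0) (P.cons (P.lf 281 0 0) P.nil)))))) 67)
 (EL.cons 8 (TM.mk (P.cons (P.lf 0 125424842 0) (P.cons (P.lf 124617732 0 0) (P.cons (P.lf 1207779 0 0) (P.cons (P.lf 0 397794 0) (P.cons (P.lf 0 3582 0) (P.cons (P.lf 699 0 0) P.nil)))))) 35)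
 EL.nil))
noncomputable def S241_256_734_808_16 : EL := (EL.cons 4 (TM.mk (P.cons (P.cons (P.lf 7138242 0 0) (P.cons (P.lf 345154 0 0) (P.cons (P.lf 0 162933 0) (P.lf 0 7758 0)))) (P.cons (P.cons (P.lf 0 13557526 0) (P.cons (P.lf 0 684386 0) (P.cons (P.lf 323071 0 0) (P.lf 15384 0 0)))) (P.cons (P.cons (P.lf 5656286 0 0) (P.cons (P.lf 330398 0 0) (P.cons (P.lf 0 155968 0) (P.lf 0 7426 0)))) (P.cons (P.cons (P.lf 799016 0 0) (P.cons (P.lf 11689 0 0) (P.cons (P.lf 0 5518 0) P.nil))) (P.cons (P.cons (P.lf 0 27875 0) (P.cons (P.lf 0 2791 0) P.nil)) (P.cons (P.cons (P.lf 0 8232 0) P.nil) P.nil)))))) 2235)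
 (EL.cons 8 (TM.mk (P.cons (P.cons (P.lf 64904159 0 0) (P.cons (P.lf 3138306 0 0) (P.cons (P.lf 0 1481472 0) (P.lf 0 70545 0)))) (P.cons (P.cons (P.lf 0 58227646 0) (P.cons (P.lf 0 3077707 0) (P.cons (P.lf 1452866 0 0) (P.lf 69183 0 0)))) (P.cons (P.cons (P.lf 0 7132604 0) (P.cons (P.lf 0 90306 0) (P.cons (P.lf 42630 0 0) (P.lf 2029 0 0)))) (P.cons (P.cons (P.lf 375300 0 0) (P.cons (P.lf 29119 0 0) (P.cons (P.lf 0 13745 0) P.nil))) (P.cons (P.cons (P.lf 82203 0 0) (P.cons (P.lf 729 0 0) P.nil)) (P.cons (P.cons (P.lf 0 1007 0) P.nil) P.nil)))))) 1765)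
 EL.nil))
noncomputable def S241_256_734_808_17 : EL := (EL.cons 4 (TM.mk (P.cons (P.cons (P.lf 0 3693857 0) (P.cons (P.lf 0 357217 0) (P.cons (P.lf 159991 0 0) (P.cons (P.lf 16183 0 0) (P.cons (P.lf 0 1535 0) (P.cons (P.lf 0 182 0) P.nil)))))) (P.cons (P.cons (P.lf 6659467 0 0) (P.cons (P.lf 673857 0 0) (P.cons (P.lf 0 301088 0) (P.cons (P.lf 0 31209 0) (P.cons (P.lf 3026 0 0) P.nil))))) (P.cons (P.cons (P.lf 0 2233996 0) (P.cons (P.lf 0 272051 0) (P.cons (P.lf 120433 0 0) (P.cons (P.lf 13660 0 0) P.nil)))) (P.cons (P.cons (P.lf 0 723698 0) (P.cons (P.lf 0 47910 0) (P.cons (P.lf 22109 0 0) P.nil))) (P.cons (P.cons (P.lf 0 18658 0) (P.cons (P.lf 2615 0 0) P.nil)) (P.cons (P.cons (P.lf 10141 0 0) P.nil) P.nil)))))) 8795)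
 (EL.cons 8 (TM.mk (P.cons (P.cons (P.lf 0 33586248 0) (P.cons (P.lf 0 3247987 0) (P.cons (P.lf 1454723 0 0) (P.cons (P.lf 147148 0 0) (P.cons (P.lf 0 13967 0) (P.cons (P.lf 0 1666 0) P.nil)))))) (P.cons (P.cons (P.lf 26892526 0 0) (P.cons (P.lf 2872059 0 0) (P.cons (P.lf 0 1279790 0) (P.cons (P.lf 0 136312 0) (P.cons (P.lf 13518 0 0) P.nil))))) (P.cons (P.cons (P.lf 6746138 0 0) (P.cons (P.lf 415089 0 0) (P.cons (P.lf 0 192197 0) (P.cons (P.lf 0 12870 0) P.nil)))) (P.cons (P.cons (P.lf 57264 0 0) (P.cons (P.lf 0 32433 0) (P.cons (P.lf 14128 0 0) P.nil))) (P.cons (P.cons (P.lf 0 104702 0) (P.cons (P.lf 0 6928 0) P.nil)) (P.cons (P.cons (P.lf 0 5775 0) P.nil) P.nil)))))) 10506)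
 EL.nil))
noncomputable def S241_256_734_808_18 : EL := (EL.cons 4 (TM.mk (P.cons (P.lf 807398 0 0) (P.cons (P.lf 0 2417003 0) (P.cons (P.lf 2404045 0 0) (P.cons (P.lf 0 784123 0) (P.cons (P.lf 0 12840 0) (P.cons (P.lf 2490 0 0) P.nil)))))) 58)
 (EL.cons 8 (TM.mk (P.cons (P.lf 7341235 0 0) (P.cons (P.lf 0 14619494 0) (P.cons (P.lf 7184097 0 0) (P.cons (P.lf 125042 0 0) (P.cons (P.lf 0 30504 0) (P.cons (P.lf 0 449 0) P.nil)))))) 91)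
 EL.nil))
noncomputable def S241_256_734_808_19 : EL := (EL.cons 4 (TM.mk (P.cons (P.cons (P.lf 0 417807 0) (P.cons (P.lf 0 20202 0) (P.cons (P.lf 9536 0 0) (P.lf 453 0 0)))) (P.cons (P.cons (P.lf 1210447 0 0) (P.cons (P.lf 60216 0 0) (P.cons (P.lf 0 28425 0) (P.lf 0 1352 0)))) (P.cons (P.cons (P.lf 0 1121559 0) (P.cons (P.lf 0 59245 0) (P.cons (P.lf 27967 0 0) (P.lf 1331 0 0)))) (P.cons (P.cons (P.lf 280598 0 0) (P.cons (P.lf 18462 0 0) (P.cons (P.lf 0 8715 0) P.nil))) (P.cons (P.cons (P.lf 50201 0 0) (P.cons (P.lf 950 0 0) P.nil)) (P.cons (P.cons (P.lf 0 1341 0) P.nil) P.nil)))))) 1865)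
 (EL.cons 8 (TM.mk (P.cons (P.cons (P.lf 0 3798902 0) (P.cons (P.lf 0 183687 0) (P.cons (P.lf 86711 0 0) (P.lf 4129 0 0)))) (P.cons (P.cons (P.lf 7198879 0 0) (P.cons (P.lf 363435 0 0) (P.cons (P.lf 0 171563 0) (P.lf 0 8169 0)))) (P.cons (P.cons (P.lf 0 2971138 0) (P.cons (P.lf 0 173879 0) (P.cons (P.lf 82081 0 0) (P.lf 3908 0 0)))) (P.cons (P.cons (P.lf 0 453527 0) (P.cons (P.lf 0 7752 0) (P.cons (P.lf 3659 0 0) P.nil))) (P.cons (P.cons (P.lf 19366 0 0) (P.cons (P.lf 1831 0 0) P.nil)) (P.cons (P.cons (P.lf 5397 0 0) P.nil) P.nil)))))) 1546)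
 EL.nil))
noncomputable def S241_256_734_808_20 : EL := (EL.cons 4 (TM.mk (P.cons (P.cons (P.lf 216204 0 0) (P.cons (P.lf 20908 0 0) (P.cons (P.lf 0 9363 0) (P.cons (P.lf 0 946 0) (P.cons (P.lf 89 0 0) (P.cons (P.lf 10 0 0) P.nil)))))) (P.cons (P.cons (P.lf 0 605526 0) (P.cons (P.lf 0 60304 0) (P.cons (P.lf 26967 0 0) (P.cons (P.lf 2771 0 0) (P.cons (P.lf 0 266 0) P.nil))))) (P.cons (P.cons (P.lf 519013 0 0) (P.cons (P.lf 55213 0 0) (P.cons (P.lf 0 24603 0) (P.cons (P.lf 0 2618 0) P.nil)))) (P.cons (P.cons (P.lf 0 86637 0) (P.cons (P.lf 0 12935 0) (P.cons (P.lf 5672 0 0) P.nil))) (P.cons (P.cons (P.lf 0 42007 0) (P.cons (P.lf 0 3044 0) P.nil)) (P.cons (P.cons (P.lf 0 1682 0) P.nil) P.nil)))))) 4782)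
 (EL.cons 8 (TM.mk (P.cons (P.cons (P.lf 1965834 0 0) (P.cons (P.lf 190107 0 0) (P.cons (P.lf 0 85146 0) (P.cons (P.lf 0 8612 0) (P.cons (P.lf 817 0 0) (P.cons (P.lf 97 0 0) P.nil)))))) (P.cons (P.cons (P.lf 0 3535666 0) (P.cons (P.lf 0 357804 0) (P.cons (P.lf 159870 0 0) (P.cons (P.lf 16572 0 0) (P.cons (P.lf 0 1607 0) P.nil))))) (P.cons (P.cons (P.lf 1169501 0 0) (P.cons (P.lf 142837 0 0) (P.cons (P.lf 0 63223 0) (P.cons (P.lf 0 7180 0) P.nil)))) (P.cons (P.cons (P.lf 397801 0 0) (P.cons (P.lf 26883 0 0) (P.cons (P.lf 0 12382 0) P.nil))) (P.cons (P.cons (P.lf 9079 0 0) (P.cons (P.lf 0 1588 0) P.nil)) (P.cons (P.cons (P.lf 0 6196 0) P.nil) P.nil)))))) 5161)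
 EL.nil))
noncomputable def S241_256_734_808_21 : EL := (EL.cons 4 (TM.mk (P.cons (P.cons (P.lf 2740406076 0 0) (P.cons (P.lf 17690895 0 0) (P.cons (P.lf 0 8351184 0) (P.lf 0 397671 0)))) (P.cons (P.cons (P.lf 0 247215321 0) (P.cons (P.lf 0 17425212 0) (P.cons (P.lf 8225766 0 0) (P.lf 391701 0 0)))) (P.cons (P.cons (P.lf 0 78950211 0) (P.cons (P.lf 0 396486 0) (P.cons (P.lf 187164 0 0) (P.lf 8910 0 0)))) (P.cons (P.cons (P.lf 1224327 0 0) (P.cons (P.lf 128781 0 0) (P.cons (P.lf 0 60792 0) P.nil))) (P.cons (P.cons (P.lf 458397 0 0) (P.cons (P.lf 2514 0 0) P.nil)) (P.cons (P.cons (P.lf 0 2667 0) P.nil) P.nil)))))) 7050)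
 (EL.cons 8 (TM.mk (P.cons (P.cons (P.lf 0 107162088 0) (P.cons (P.lf 0 691800 0) (P.cons (P.lf 326571 0 0) (P.lf 15558 0 0)))) (P.cons (P.cons (P.lf 117059484 0 0) (P.cons (P.lf 1374675 0 0) (P.cons (P.lf 0 648930 0) (P.lf 0 30900 0)))) (P.cons (P.cons (P.lf 0 6946461 0) (P.cons (P.lf 0 669594 0) (P.cons (P.lf 316086 0 0) (P.lf 15048 0 0)))) (P.cons (P.cons (P.lf 0 2994525 0) (P.cons (P.lf 0 17619 0) (P.cons (P.lf 8316 0 0) P.nil))) (P.cons (P.cons (P.lf 28914 0 0) (P.cons (P.lf 4251 0 0) P.nil)) (P.cons (P.cons (P.lf 14736 0 0) P.nil) P.nil)))))) 6234)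
 (EL.cons 11 (TM.mk (P.cons (P.cons (P.lf 649807602 0 0) (P.cons (P.lf 0 640737699 0) (P.cons (P.lf 0 20049300 0) (P.cons (P.lf 3673953 0 0) (P.lf 131211 0 0))))) (P.cons (P.cons (P.lf 5577348 0 0) (P.cons (P.lf 0 5499501 0) (P.cons (P.lf 0 172083 0) (P.cons (P.lf 31533 0 0) (P.lf 1125 0 0))))) (P.cons (P.cons (P.lf 0 2764749 0) (P.cons (P.lf 2726160 0 0) (P.cons (P.lf 85302 0 0) (P.cons (P.lf 0 15630 0) P.nil)))) (P.cons (P.cons (P.lf 0 23844 0) (P.cons (P.lf 23511 0 0) (P.cons (P.lf 735 0 0) P.nil))) (P.cons (P.cons (P.lf 5862 0 0) (P.cons (P.lf 0 5781 0) P.nil)) (P.cons (P.cons (P.lf 54 0 0) P.nil) P.nil)))))) 1164)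
 EL.nil)))
noncomputable def S241_256_734_808_22 : EL := (EL.cons 4 (TM.mk (P.cons (P.cons (P.lf 0 1418090316 0) (P.cons (P.lf 0 77723415 0) (P.cons (P.lf 36247557 0 0) (P.cons (P.lf 2165064 0 0) (P.cons (P.lf 0 78738 0) (P.cons (P.lf 0 9393 0) P.nil)))))) (P.cons (P.cons (P.lf 0 8822007 0) (P.cons (P.lf 13437186 0 0) (P.cons (P.lf 0 5912868 0) (P.cons (P.lf 0 708315 0) (P.cons (P.lf 76542 0 0) P.nil))))) (P.cons (P.cons (P.lf 59506119 0 0) (P.cons (P.lf 3606276 0 0) (P.cons (P.lf 0 1684035 0) (P.cons (P.lf 0 98382 0) P.nil)))) (P.cons (P.cons (P.lf 3991695 0 0) (P.cons (P.lf 0 117762 0) (P.cons (P.lf 49761 0 0) P.nil))) (P.cons (P.cons (P.lf 0 607371 0) (P.cons (P.lf 0 43017 0) P.nil)) (P.cons (P.cons (P.lf 0 57315 0) P.nil) P.nil)))))) 57435)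
 (EL.cons 8 (TM.mk (P.cons (P.cons (P.lf 55453650 0 0) (P.cons (P.lf 3039333 0 0) (P.cons (P.lf 0 1417440 0) (P.cons (P.lf 0 84666 0) (P.cons (P.lf 3078 0 0) (P.cons (P.lf 366 0 0) P.nil)))))) (P.cons (P.cons (P.lf 0 55227780 0) (P.cons (P.lf 0 3571308 0) (P.cons (P.lf 1651701 0 0) (P.cons (P.lf 112542 0 0) (P.cons (P.lf 0 6078 0) P.nil))))) (P.cons (P.cons (P.lf 0 2493741 0) (P.cons (P.lf 395367 0 0) (P.cons (P.lf 0 170433 0) (P.cons (P.lf 0 24180 0) P.nil)))) (P.cons (P.cons (P.lf 2116896 0 0) (P.cons (P.lf 140937 0 0) (P.cons (P.lf 0 65655 0) P.nil))) (P.cons (P.cons (P.lf 172620 0 0) (P.cons (P.lf 0 2796 0) P.nil)) (P.cons (P.cons (P.lf 0 19596 0) P.nil) P.nil)))))) 21816)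
 (EL.cons 11 (TM.mk (P.cons (P.cons (P.lf 0 336258876 0) (P.cons (P.lf 315306327 0 0) (P.cons (P.lf 34082454 0 0) (P.cons (P.lf 0 8602185 0) (P.cons (P.lf 0 757029 0) (P.cons (P.lf 28833 0 0) P.nil)))))) (P.cons (P.cons (P.lf 0 35312334 0) (P.cons (P.lf 34470570 0 0) (P.cons (P.lf 1598238 0 0) (P.cons (P.lf 0 343440 0) (P.cons (P.lf 0 21915 0) P.nil))))) (P.cons (P.cons (P.lf 2649798 0 0) (P.cons (P.lf 0 2442114 0) (P.cons (P.lf 0 330651 0) (P.cons (P.lf 85332 0 0) P.nil)))) (P.cons (P.cons (P.lf 460797 0 0) (P.cons (P.lf 0 450648 0) (P.cons (P.lf 0 19632 0) P.nil))) (P.cons (P.cons (P.lf 0 8955 0) (P.cons (P.lf 7935 0 0) P.nil)) (P.cons (P.cons (P.lf 0 2553 0) P.nil) P.nil)))))) 24171)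
 EL.nil)))
noncomputable def S241_256_734_808_23 : EL := (EL.cons 4 (TM.mk (P.cons (P.cons (P.lf 0 160398576 0) (P.cons (P.lf 0 1035462 0) (P.cons (P.lf 488802 0 0) (P.lf 23274 0 0)))) (P.cons (P.cons (P.lf 174524517 0 0) (P.cons (P.lf 2053158 0 0) (P.cons (P.lf 0 969216 0) (P.lf 0 46152 0)))) (P.cons (P.cons (P.lf 0 9302724 0) (P.cons (P.lf 0 991194 0) (P.cons (P.lf 467904 0 0) (P.lf 22281 0 0)))) (P.cons (P.cons (P.lf 0 4899672 0) (P.cons (P.lf 0 35067 0) (P.cons (P.lf 16554 0 0) P.nil))) (P.cons (P.cons (P.lf 44298 0 0) (P.cons (P.lf 8376 0 0) P.nil)) (P.cons (P.cons (P.lf 32328 0 0) P.nil) P.nil)))))) 6291)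
 (EL.cons 8 (TM.mk (P.cons (P.cons (P.lf 6272298 0 0) (P.cons (P.lf 40491 0 0) (P.cons (P.lf 0 19113 0) (P.lf 0 909 0)))) (P.cons (P.cons (P.lf 0 13110456 0) (P.cons (P.lf 0 120864 0) (P.cons (P.lf 57054 0 0) (P.lf 2715 0 0)))) (P.cons (P.cons (P.lf 7223361 0 0) (P.cons (P.lf 119349 0 0) (P.cons (P.lf 0 56340 0) (P.lf 0 2682 0)))) (P.cons (P.cons (P.lf 0 201774 0) (P.cons (P.lf 0 37773 0) (P.cons (P.lf 17832 0 0) P.nil))) (P.cons (P.cons (P.lf 0 185136 0) (P.cons (P.lf 0 1488 0) P.nil)) (P.cons (P.cons (P.lf 648 0 0) P.nil) P.nil)))))) 3654)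
 (EL.cons 11 (TM.mk (P.cons (P.cons (P.lf 0 38033856 0) (P.cons (P.lf 37502988 0 0) (P.cons (P.lf 1173504 0 0) (P.cons (P.lf 0 215037 0) (P.lf 0 7677 0))))) (P.cons (P.cons (P.lf 37625886 0 0) (P.cons (P.lf 0 37100709 0) (P.cons (P.lf 0 1160916 0) (P.cons (P.lf 212733 0 0) (P.lf 7596 0 0))))) (P.cons (P.cons (P.lf 609681 0 0) (P.cons (P.lf 0 601170 0) (P.cons (P.lf 0 18810 0) (P.cons (P.lf 3444 0 0) P.nil)))) (P.cons (P.cons (P.lf 0 199443 0) (P.cons (P.lf 196659 0 0) (P.cons (P.lf 6153 0 0) P.nil))) (P.cons (P.cons (P.lf 0 2817 0) (P.cons (P.lf 2778 0 0) P.nil)) (P.cons (P.cons (P.lf 546 0 0) P.nil) P.nil)))))) 2112)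
 EL.nil)))
noncomputable def S241_256_734_808_24 : EL := (EL.cons 4 (TM.mk (P.cons (P.cons (P.lf 83002176 0 0) (P.cons (P.lf 4549224 0 0) (P.cons (P.lf 0 2121603 0) (P.cons (P.lf 0 126720 0) (P.cons (P.lf 4608 0 0) (P.cons (P.lf 549 0 0) P.nil)))))) (P.cons (P.cons (P.lf 0 82307901 0) (P.cons (P.lf 0 5325963 0) (P.cons (P.lf 2463141 0 0) (P.cons (P.lf 167907 0 0) (P.cons (P.lf 0 9078 0) P.nil))))) (P.cons (P.cons (P.lf 0 4264689 0) (P.cons (P.lf 559119 0 0) (P.cons (P.lf 0 239964 0) (P.cons (P.lf 0 35202 0) P.nil)))) (P.cons (P.cons (P.lf 3328380 0 0) (P.cons (P.lf 224877 0 0) (P.cons (P.lf 0 104634 0) P.nil))) (P.cons (P.cons (P.lf 280890 0 0) (P.cons (P.lf 0 4491 0) P.nil)) (P.cons (P.cons (P.lf 0 35157 0) P.nil) P.nil)))))) 33810)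
 (EL.cons 8 (TM.mk (P.cons (P.cons (P.lf 0 3245754 0) (P.cons (P.lf 0 177894 0) (P.cons (P.lf 82962 0 0) (P.cons (P.lf 4953 0 0) (P.cons (P.lf 0 180 0) (P.cons (P.lf 0 21 0) P.nil)))))) (P.cons (P.cons (P.lf 6471330 0 0) (P.cons (P.lf 386544 0 0) (P.cons (P.lf 0 179460 0) (P.cons (P.lf 0 11532 0) (P.cons (P.lf 534 0 0) P.nil))))) (P.cons (P.cons (P.lf 0 3069222 0) (P.cons (P.lf 0 231153 0) (P.cons (P.lf 106176 0 0) (P.cons (P.lf 7971 0 0) P.nil)))) (P.cons (P.cons (P.lf 0 283377 0) (P.cons (P.lf 13980 0 0) (P.cons (P.lf 0 5712 0) P.nil))) (P.cons (P.cons (P.lf 116481 0 0) (P.cons (P.lf 8688 0 0) P.nil)) (P.cons (P.cons (P.lf 11802 0 0) P.nil) P.nil)))))) 10323)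
 (EL.cons 11 (TM.mk (P.cons (P.cons (P.lf 19681551 0 0) (P.cons (P.lf 0 18455178 0) (P.cons (P.lf 0 1994877 0) (P.cons (P.lf 503493 0 0) (P.cons (P.lf 44307 0 0) (P.cons (P.lf 0 1686 0) P.nil)))))) (P.cons (P.cons (P.lf 0 17572500 0) (P.cons (P.lf 16398024 0 0) (P.cons (P.lf 1897056 0 0) (P.cons (P.lf 0 482313 0) (P.cons (P.lf 0 42930 0) P.nil))))) (P.cons (P.cons (P.lf 0 2280717 0) (P.cons (P.lf 2215461 0 0) (P.cons (P.lf 119103 0 0) (P.cons (P.lf 0 26670 0) P.nil)))) (P.cons (P.cons (P.lf 142068 0 0) (P.cons (P.lf 0 129387 0) (P.cons (P.lf 0 19980 0) P.nil))) (P.cons (P.cons (P.lf 30243 0 0) (P.cons (P.lf 0 29493 0) P.nil)) (P.cons (P.cons (P.lf 0 459 0) P.nil) P.nil)))))) 16608)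
 EL.nil)))
noncomputable def S241_256_734_808_25 : EL := (EL.cons 4 (TM.mk (P.cons (P.cons (P.lf 9388281 0 0) (P.cons (P.lf 60606 0 0) (P.cons (P.lf 0 28608 0) (P.lf 0 1362 0)))) (P.cons (P.cons (P.lf 0 19583244 0) (P.cons (P.lf 0 180648 0) (P.cons (P.lf 85275 0 0) (P.lf 4059 0 0)))) (P.cons (P.cons (P.lf 10707543 0 0) (P.cons (P.lf 177735 0 0) (P.cons (P.lf 0 83901 0) (P.lf 0 3993 0)))) (P.cons (P.cons (P.lf 0 213774 0) (P.cons (P.lf 0 55386 0) (P.cons (P.lf 26145 0 0) P.nil))) (P.cons (P.cons (P.lf 0 301308 0) (P.cons (P.lf 0 2850 0) P.nil)) (P.cons (P.cons (P.lf 282 0 0) P.nil) P.nil)))))) 6114)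
 (EL.cons 8 (TM.mk (P.cons (P.cons (P.lf 0 367122 0) (P.cons (P.lf 0 2370 0) (P.cons (P.lf 1116 0 0) (P.lf 51 0 0)))) (P.cons (P.cons (P.lf 1133703 0 0) (P.cons (P.lf 9438 0 0) (P.cons (P.lf 0 4455 0) (P.lf 0 210 0)))) (P.cons (P.cons (P.lf 0 1187334 0) (P.cons (P.lf 0 14037 0) (P.cons (P.lf 6624 0 0) (P.lf 315 0 0)))) (P.cons (P.cons (P.lf 430839 0 0) (P.cons (P.lf 9156 0 0) (P.cons (P.lf 0 4320 0) P.nil))) (P.cons (P.cons (P.lf 1221 0 0) (P.cons (P.lf 0 2088 0) P.nil)) (P.cons (P.cons (P.lf 0 11331 0) P.nil) P.nil)))))) 2157)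
 (EL.cons 11 (TM.mk (P.cons (P.cons (P.lf 2226156 0 0) (P.cons (P.lf 0 2195085 0) (P.cons (P.lf 0 68685 0) (P.cons (P.lf 12585 0 0) (P.lf 447 0 0))))) (P.cons (P.cons (P.lf 0 4423665 0) (P.cons (P.lf 4361919 0 0) (P.cons (P.lf 136488 0 0) (P.cons (P.lf 0 25011 0) (P.lf 0 891 0))))) (P.cons (P.cons (P.lf 2154723 0 0) (P.cons (P.lf 0 2124648 0) (P.cons (P.lf 0 66480 0) (P.cons (P.lf 12180 0 0) P.nil)))) (P.cons (P.cons (P.lf 56718 0 0) (P.cons (P.lf 0 55926 0) (P.cons (P.lf 0 1749 0) P.nil))) (P.cons (P.cons (P.lf 0 13695 0) (P.cons (P.lf 13503 0 0) P.nil)) (P.cons (P.cons (P.lf 0 285 0) P.nil) P.nil)))))) 1779)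
 EL.nil)))
noncomputable def S241_256_734_808_26 : EL := (EL.cons 4 (TM.mk (P.cons (P.cons (P.lf 0 4858194 0) (P.cons (P.lf 0 266268 0) (P.cons (P.lf 124179 0 0) (P.cons (P.lf 7416 0 0) (P.cons (P.lf 0 267 0) (P.cons (P.lf 0 30 0) P.nil)))))) (P.cons (P.cons (P.lf 9665343 0 0) (P.cons (P.lf 577431 0 0) (P.cons (P.lf 0 268083 0) (P.cons (P.lf 0 17229 0) (P.cons (P.lf 798 0 0) P.nil))))) (P.cons (P.cons (P.lf 0 4542018 0) (P.cons (P.lf 0 342936 0) (P.cons (P.lf 157506 0 0) (P.cons (P.lf 11841 0 0) P.nil)))) (P.cons (P.cons (P.lf 0 464523 0) (P.cons (P.lf 18207 0 0) (P.cons (P.lf 0 7296 0) P.nil))) (P.cons (P.cons (P.lf 182244 0 0) (P.cons (P.lf 13830 0 0) P.nil)) (P.cons (P.cons (P.lf 19386 0 0) P.nil) P.nil)))))) 16617)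
 (EL.cons 8 (TM.mk (P.cons (P.cons (P.lf 189975 0 0) (P.cons (P.lf 10410 0 0) (P.cons (P.lf 0 4854 0) (P.cons (P.lf 0 288 0) (P.cons (P.lf 9 0 0) (P.cons (P.lf 0 0 0) P.nil)))))) (P.cons (P.cons (P.lf 0 568341 0) (P.cons (P.lf 0 33012 0) (P.cons (P.lf 15348 0 0) (P.cons (P.lf 963 0 0) (P.cons (P.lf 0 39 0) P.nil))))) (P.cons (P.cons (P.lf 556995 0 0) (P.cons (P.lf 36072 0 0) (P.cons (P.lf 0 16680 0) (P.cons (P.lf 0 1137 0) P.nil)))) (P.cons (P.cons (P.lf 0 161253 0) (P.cons (P.lf 0 14235 0) (P.cons (P.lf 6495 0 0) P.nil))) (P.cons (P.cons (P.lf 0 24345 0) (P.cons (P.lf 240 0 0) P.nil)) (P.cons (P.cons (P.lf 6246 0 0) P.nil) P.nil)))))) 4302)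
 (EL.cons 11 (TM.mk (P.cons (P.cons (P.lf 0 1151979 0) (P.cons (P.lf 1080198 0 0) (P.cons (P.lf 116760 0 0) (P.cons (P.lf 0 29469 0) (P.cons (P.lf 0 2592 0) (P.cons (P.lf 96 0 0) P.nil)))))) (P.cons (P.cons (P.lf 2178045 0 0) (P.cons (P.lf 0 2037675 0) (P.cons (P.lf 0 227547 0) (P.cons (P.lf 57636 0 0) (P.cons (P.lf 5100 0 0) P.nil))))) (P.cons (P.cons (P.lf 0 889137 0) (P.cons (P.lf 824592 0 0) (P.cons (P.lf 103452 0 0) (P.cons (P.lf 0 26514 0) P.nil)))) (P.cons (P.cons (P.lf 0 146046 0) (P.cons (P.lf 141195 0 0) (P.cons (P.lf 8604 0 0) P.nil))) (P.cons (P.cons (P.lf 7182 0 0) (P.cons (P.lf 0 6426 0) P.nil)) (P.cons (P.cons (P.lf 1968 0 0) P.nil) P.nil)))))) 9774)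
 EL.nil)))
noncomputable def S241_256_734_808_27 : EL := (EL.cons 13 (TM.mk (P.lf 0 4294967296 0) 0)
 EL.nil)
noncomputable def S241_256_734_808_28 : EL := (EL.cons 13 (TM.mk (P.cons (P.cons (P.lf 2222536140 0 0) (P.cons (P.lf 107466148 0 0) (P.cons (P.lf 0 50730600 0) (P.lf 0 2415740 0)))) (P.cons (P.cons (P.lf 214324159 0 0) (P.cons (P.lf 1383580 0 0) (P.cons (P.lf 0 653136 0) (P.lf 0 31100 0)))) (P.cons (P.cons (P.lf 0 9897411 0) (P.cons (P.lf 0 682888 0) (P.cons (P.lf 322364 0 0) (P.lf 15348 0 0)))) (P.cons (P.cons (P.lf 0 1967291 0) (P.cons (P.lf 0 8860 0) (P.cons (P.lf 4180 0 0) P.nil))) (P.cons (P.cons (P.lf 21783 0 0) (P.cons (P.lf 2160 0 0) P.nil)) (P.cons (P.cons (P.lf 5851 0 0) P.nil) P.nil)))))) 1960)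
 EL.nil)
noncomputable def S241_256_734_808_29 : EL := (EL.cons 13 (TM.mk (P.cons (P.cons (P.lf 0 1150105822 0) (P.cons (P.lf 0 111221986 0) (P.cons (P.lf 49814630 0 0) (P.cons (P.lf 5038870 0 0) (P.cons (P.lf 0 478321 0) (P.cons (P.lf 0 57067 0) P.nil)))))) (P.cons (P.cons (P.lf 0 221814582 0) (P.cons (P.lf 0 12157321 0) (P.cons (P.lf 5669763 0 0) (P.cons (P.lf 338653 0 0) (P.cons (P.lf 0 12316 0) P.nil))))) (P.cons (P.cons (P.lf 0 451723 0) (P.cons (P.lf 1063963 0 0) (P.cons (P.lf 0 468527 0) (P.cons (P.lf 0 55757 0) P.nil)))) (P.cons (P.cons (P.lf 3023831 0 0) (P.cons (P.lf 182149 0 0) (P.cons (P.lf 0 85099 0) P.nil))) (P.cons (P.cons (P.lf 150988 0 0) (P.cons (P.lf 0 4321 0) P.nil)) (P.cons (P.cons (P.lf 0 17296 0) P.nil) P.nil)))))) 27170)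
 EL.nil)
noncomputable def S241_256_734_808_30 : EL := (EL.cons 13 (TM.mk (P.cons (P.lf 251388528 0 0) (P.cons (P.lf 0 250849684 0) (P.cons (P.lf 0 807108 0) (P.cons (P.lf 267112 0 0) (P.cons (P.lf 1436 0 0) (P.cons (P.lf 0 280 0) P.nil)))))) 32)
 EL.nil)
noncomputable def S241_256_734_808_31 : EL := (EL.cons 13 (TM.mk (P.cons (P.cons (P.lf 0 130087157 0) (P.cons (P.lf 0 6290096 0) (P.cons (P.lf 2969310 0 0) (P.lf 141395 0 0)))) (P.cons (P.cons (P.lf 117263722 0 0) (P.cons (P.lf 6195631 0 0) (P.cons (P.lf 0 2924717 0) (P.lf 0 139272 0)))) (P.cons (P.cons (P.lf 13514670 0 0) (P.cons (P.lf 140973 0 0) (P.cons (P.lf 0 66548 0) (P.lf 0 3168 0)))) (P.cons (P.cons (P.lf 0 560863 0) (P.cons (P.lf 0 45789 0) (P.cons (P.lf 21615 0 0) P.nil))) (P.cons (P.cons (P.lf 0 132107 0) (P.cons (P.lf 0 894 0) P.nil)) (P.cons (P.cons (P.lf 1248 0 0) P.nil) P.nil)))))) 2383)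
 EL.nil)
noncomputable def S241_256_734_808_32 : EL := (EL.cons 13 (TM.mk (P.cons (P.cons (P.lf 67316789 0 0) (P.cons (P.lf 6509928 0 0) (P.cons (P.lf 0 2915697 0) (P.cons (P.lf 0 294929 0) (P.cons (P.lf 27996 0 0) (P.cons (P.lf 3340 0 0) P.nil)))))) (P.cons (P.cons (P.lf 0 54189479 0) (P.cons (P.lf 0 5784395 0) (P.cons (P.lf 2577591 0 0) (P.cons (P.lf 274476 0 0) (P.cons (P.lf 0 27215 0) P.nil))))) (P.cons (P.cons (P.lf 0 13144877 0) (P.cons (P.lf 0 793229 0) (P.cons (P.lf 367929 0 0) (P.cons (P.lf 23989 0 0) P.nil)))) (P.cons (P.cons (P.lf 0 173526 0) (P.cons (P.lf 56112 0 0) (P.cons (P.lf 0 24416 0) P.nil))) (P.cons (P.cons (P.lf 181865 0 0) (P.cons (P.lf 11884 0 0) P.nil)) (P.cons (P.cons (P.lf 10426 0 0) P.nil) P.nil)))))) 18195)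
 EL.nil)
noncomputable def S241_256_734_808_33 : EL := (EL.cons 14 (TM.mk (P.lf 8589934592 0 0) 0)
 EL.nil)
noncomputable def S241_256_734_808_34 : EL := (EL.cons 14 (TM.mk (P.cons (P.cons (P.lf 0 4445072280 0) (P.cons (P.lf 0 214932296 0) (P.cons (P.lf 101461200 0 0) (P.lf 4831480 0 0)))) (P.cons (P.cons (P.lf 0 428648318 0) (P.cons (P.lf 0 2767160 0) (P.cons (P.lf 1306272 0 0) (P.lf 62200 0 0)))) (P.cons (P.cons (P.lf 19794822 0 0) (P.cons (P.lf 1365776 0 0) (P.cons (P.lf 0 644728 0) (P.lf 0 30696 0)))) (P.cons (P.cons (P.lf 3934582 0 0) (P.cons (P.lf 17720 0 0) (P.cons (P.lf 0 8360 0) P.nil))) (P.cons (P.cons (P.lf 0 43566 0) (P.cons (P.lf 0 4320 0) P.nil)) (P.cons (P.cons (P.lf 0 11702 0) P.nil) P.nil)))))) 3920)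
 EL.nil)
noncomputable def S241_256_734_808_35 : EL := (EL.cons 14 (TM.mk (P.cons (P.cons (P.lf 2300211644 0 0) (P.cons (P.lf 222443972 0 0) (P.cons (P.lf 0 99629260 0) (P.cons (P.lf 0 10077740 0) (P.cons (P.lf 956642 0 0) (P.cons (P.lf 114134 0 0) P.nil)))))) (P.cons (P.cons (P.lf 443629164 0 0) (P.cons (P.lf 24314642 0 0) (P.cons (P.lf 0 11339526 0) (P.cons (P.lf 0 677306 0) (P.cons (P.lf 24632 0 0) P.nil))))) (P.cons (P.cons (P.lf 903446 0 0) (P.cons (P.lf 0 2127926 0) (P.cons (P.lf 937054 0 0) (P.cons (P.lf 111514 0 0) P.nil)))) (P.cons (P.cons (P.lf 0 6047662 0) (P.cons (P.lf 0 364298 0) (P.cons (P.lf 170198 0 0) P.nil))) (P.cons (P.cons (P.lf 0 301976 0) (P.cons (P.lf 8642 0 0) P.nil)) (P.cons (P.cons (P.lf 34592 0 0) P.nil) P.nil)))))) 54340)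
 EL.nil)
noncomputable def S241_256_734_808_36 : EL := (EL.cons 14 (TM.mk (P.cons (P.lf 0 502777056 0) (P.cons (P.lf 501699368 0 0) (P.cons (P.lf 1614216 0 0) (P.cons (P.lf 0 534224 0) (P.cons (P.lf 0 2872 0) (P.cons (P.lf 560 0 0) P.nil)))))) 64)
 EL.nil)
noncomputable def S241_256_734_808_37 : EL := (EL.cons 14 (TM.mk (P.cons (P.cons (P.lf 260174314 0 0) (P.cons (P.lf 12580192 0 0) (P.cons (P.lf 0 5938620 0) (P.lf 0 282790 0)))) (P.cons (P.cons (P.lf 0 234527444 0) (P.cons (P.lf 0 12391262 0) (P.cons (P.lf 5849434 0 0) (P.lf 278544 0 0)))) (P.cons (P.cons (P.lf 0 27029340 0) (P.cons (P.lf 0 281946 0) (P.cons (P.lf 133096 0 0) (P.lf 6336 0 0)))) (P.cons (P.cons (P.lf 1121726 0 0) (P.cons (P.lf 91578 0 0) (P.cons (P.lf 0 43230 0) P.nil))) (P.cons (P.cons (P.lf 264214 0 0) (P.cons (P.lf 1788 0 0) P.nil)) (P.cons (P.cons (P.lf 0 2496 0) P.nil) P.nil)))))) 4766)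
 EL.nil)
noncomputable def S241_256_734_808_38 : EL := (EL.cons 14 (TM.mk (P.cons (P.cons (P.lf 0 134633578 0) (P.cons (P.lf 0 13019856 0) (P.cons (P.lf 5831394 0 0) (P.cons (P.lf 589858 0 0) (P.cons (P.lf 0 55992 0) (P.cons (P.lf 0 6680 0) P.nil)))))) (P.cons (P.cons (P.lf 108378958 0 0) (P.cons (P.lf 11568790 0 0) (P.cons (P.lf 0 5155182 0) (P.cons (P.lf 0 548952 0) (P.cons (P.lf 54430 0 0) P.nil))))) (P.cons (P.cons (P.lf 26289754 0 0) (P.cons (P.lf 1586458 0 0) (P.cons (P.lf 0 735858 0) (P.cons (P.lf 0 47978 0) P.nil)))) (P.cons (P.cons (P.lf 347052 0 0) (P.cons (P.lf 0 112224 0) (P.cons (P.lf 48832 0 0) P.nil))) (P.cons (P.cons (P.lf 0 363730 0) (P.cons (P.lf 0 23768 0) P.nil)) (P.cons (P.cons (P.lf 0 20852 0) P.nil) P.nil)))))) 36390)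
 EL.nil)
noncomputable def S241_256_734_808_39 : EL := (EL.cons 14 (TM.mk (P.cons (P.lf 29428020 0 0) (P.cons (P.lf 0 58729884 0) (P.cons (P.lf 29113034 0 0) (P.cons (P.lf 251094 0 0) (P.cons (P.lf 0 61762 0) (P.cons (P.lf 0 600 0) P.nil)))))) 128)
 EL.nil)
noncomputable def S241_256_734_808_40 : EL := (EL.cons 14 (TM.mk (P.cons (P.cons (P.lf 0 15228250 0) (P.cons (P.lf 0 736330 0) (P.cons (P.lf 347592 0 0) (P.lf 16552 0 0)))) (P.cons (P.cons (P.lf 28922724 0 0) (P.cons (P.lf 1460024 0 0) (P.cons (P.lf 0 689220 0) (P.lf 0 32820 0)))) (P.cons (P.cons (P.lf 0 12066744 0) (P.cons (P.lf 0 704850 0) (P.cons (P.lf 332732 0 0) (P.lf 15844 0 0)))) (P.cons (P.cons (P.lf 0 1704568 0) (P.cons (P.lf 0 24938 0) (P.cons (P.lf 11772 0 0) P.nil))) (P.cons (P.cons (P.lf 59468 0 0) (P.cons (P.lf 5956 0 0) P.nil)) (P.cons (P.cons (P.lf 17562 0 0) P.nil) P.nil)))))) 4728)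
 EL.nil)
noncomputable def S241_256_734_808_41 : EL := (EL.cons 14 (TM.mk (P.cons (P.cons (P.lf 7880230 0 0) (P.cons (P.lf 762064 0 0) (P.cons (P.lf 0 341316 0) (P.cons (P.lf 0 34524 0) (P.cons (P.lf 3276 0 0) (P.cons (P.lf 390 0 0) P.nil)))))) (P.cons (P.cons (P.lf 0 14206864 0) (P.cons (P.lf 0 1437562 0) (P.cons (P.lf 642322 0 0) (P.cons (P.lf 66580 0 0) (P.cons (P.lf 0 6456 0) P.nil))))) (P.cons (P.cons (P.lf 4765860 0 0) (P.cons (P.lf 580376 0 0) (P.cons (P.lf 0 256924 0) (P.cons (P.lf 0 29142 0) P.nil)))) (P.cons (P.cons (P.lf 1543890 0 0) (P.cons (P.lf 102210 0 0) (P.cons (P.lf 0 47166 0) P.nil))) (P.cons (P.cons (P.lf 39804 0 0) (P.cons (P.lf 0 5580 0) P.nil)) (P.cons (P.cons (P.lf 0 21636 0) P.nil) P.nil)))))) 18716)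
 EL.nil)
noncomputable def S241_256_734_808_42 : EL := (EL.cons 14 (TM.mk (P.cons (P.lf 0 1722450 0) (P.cons (P.lf 5156274 0 0) (P.cons (P.lf 0 5128630 0) (P.cons (P.lf 1672796 0 0) (P.cons (P.lf 27392 0 0) (P.cons (P.lf 0 5312 0) P.nil)))))) 110)
 EL.nil)
noncomputable def S241_256_734_808_43 : EL := (EL.cons 14 (TM.mk (P.cons (P.cons (P.lf 891322 0 0) (P.cons (P.lf 43098 0 0) (P.cons (P.lf 0 20344 0) (P.lf 0 968 0)))) (P.cons (P.cons (P.lf 0 2582288 0) (P.cons (P.lf 0 128462 0) (P.cons (P.lf 60642 0 0) (P.lf 2886 0 0)))) (P.cons (P.cons (P.lf 2392660 0 0) (P.cons (P.lf 126390 0 0) (P.cons (P.lf 0 59664 0) (P.lf 0 2840 0)))) (P.cons (P.cons (P.lf 0 598610 0) (P.cons (P.lf 0 39386 0) (P.cons (P.lf 18592 0 0) P.nil))) (P.cons (P.cons (P.lf 0 107096 0) (P.cons (P.lf 0 2028 0) P.nil)) (P.cons (P.cons (P.lf 2862 0 0) P.nil) P.nil)))))) 3940)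
 EL.nil)
noncomputable def S241_256_734_808_44 : EL := (EL.cons 14 (TM.mk (P.cons (P.cons (P.lf 0 461236 0) (P.cons (P.lf 0 44604 0) (P.cons (P.lf 19976 0 0) (P.cons (P.lf 2020 0 0) (P.cons (P.lf 0 190 0) (P.cons (P.lf 0 22 0) P.nil)))))) (P.cons (P.cons (P.lf 1291790 0 0) (P.cons (P.lf 128650 0 0) (P.cons (P.lf 0 57530 0) (P.cons (P.lf 0 5912 0) (P.cons (P.lf 568 0 0) P.nil))))) (P.cons (P.cons (P.lf 0 1107228 0) (P.cons (P.lf 0 117788 0) (P.cons (P.lf 52488 0 0) (P.cons (P.lf 5586 0 0) P.nil)))) (P.cons (P.cons (P.lf 184826 0 0) (P.cons (P.lf 27596 0 0) (P.cons (P.lf 0 12102 0) P.nil))) (P.cons (P.cons (P.lf 89616 0 0) (P.cons (P.lf 6494 0 0) P.nil)) (P.cons (P.cons (P.lf 3590 0 0) P.nil) P.nil)))))) 10156)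
 EL.nil)
noncomputable def S241_256_734_808_45 : EL := (EL.cons 14 (TM.mk (P.cons (P.cons (P.lf 0 1190300916 0) (P.cons (P.lf 0 172663630 0) (P.cons (P.lf 73159008 0 0) (P.cons (P.lf 11629038 0 0) (P.cons (P.lf 0 1294546 0) (P.cons (P.lf 0 258068 0) P.nil)))))) (P.cons (P.cons (P.lf 0 344350182 0) (P.cons (P.lf 0 35523652 0) (P.cons (P.lf 15749274 0 0) (P.cons (P.lf 1756406 0 0) (P.cons (P.lf 0 174092 0) P.nil))))) (P.cons (P.cons (P.lf 0 17304496 0) (P.cons (P.lf 600632 0 0) (P.cons (P.lf 0 162364 0) (P.cons (P.lf 0 125396 0) P.nil)))) (P.cons (P.cons (P.lf 5160336 0 0) (P.cons (P.lf 678932 0 0) (P.cons (P.lf 0 299304 0) P.nil))) (P.cons (P.cons (P.lf 651668 0 0) (P.cons (P.lf 28218 0 0) P.nil)) (P.cons (P.cons (P.lf 0 21736 0) P.nil) P.nil)))))) 186460)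
 EL.nil)
noncomputable def S241_256_734_808_46 : EL := (EL.cons 15 (TM.mk (P.lf 4294967296 0 0) 0)
 EL.nil)
noncomputable def S241_256_734_808_47 : EL := (EL.cons 15 (TM.mk (P.cons (P.cons (P.lf 0 2222536140 0) (P.cons (P.lf 0 107466148 0) (P.cons (P.lf 50730600 0 0) (P.lf 2415740 0 0)))) (P.cons (P.cons (P.lf 0 214324159 0) (P.cons (P.lf 0 1383580 0) (P.cons (P.lf 653136 0 0) (P.lf 31100 0 0)))) (P.cons (P.cons (P.lf 9897411 0 0) (P.cons (P.lf 682888 0 0) (P.cons (P.lf 0 322364 0) (P.lf 0 15348 0)))) (P.cons (P.cons (P.lf 1967291 0 0) (P.cons (P.lf 8860 0 0) (P.cons (P.lf 0 4180 0) P.nil))) (P.cons (P.cons (P.lf 0 21783 0) (P.cons (P.lf 0 2160 0) P.nil)) (P.cons (P.cons (P.lf 0 5851 0) P.nil) P.nil)))))) 1960)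
 EL.nil)
noncomputable def S241_256_734_808_48 : EL := (EL.cons 15 (TM.mk (P.cons (P.cons (P.lf 1150105822 0 0) (P.cons (P.lf 111221986 0 0) (P.cons (P.lf 0 49814630 0) (P.cons (P.lf 0 5038870 0) (P.cons (P.lf 478321 0 0) (P.cons (P.lf 57067 0 0) P.nil)))))) (P.cons (P.cons (P.lf 221814582 0 0) (P.cons (P.lf 12157321 0 0) (P.cons (P.lf 0 5669763 0) (P.cons (P.lf 0 338653 0) (P.cons (P.lf 12316 0 0) P.nil))))) (P.cons (P.cons (P.lf 451723 0 0) (P.cons (P.lf 0 1063963 0) (P.cons (P.lf 468527 0 0) (P.cons (P.lf 55757 0 0) P.nil)))) (P.cons (P.cons (P.lf 0 3023831 0) (P.cons (P.lf 0 182149 0) (P.cons (P.lf 85099 0 0) P.nil))) (P.cons (P.cons (P.lf 0 150988 0) (P.cons (P.lf 4321 0 0) P.nil)) (P.cons (P.cons (P.lf 17296 0 0) P.nil) P.nil)))))) 27170)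
 EL.nil)
noncomputable def S241_256_734_808 : SL := (SL.cons S241_256_734_808_0 (SL.cons S241_256_734_808_1 (SL.cons S241_256_734_808_2 (SL.cons S241_256_734_808_3 (SL.cons S241_256_734_808_4 (SL.cons S241_256_734_808_5 (SL.cons S241_256_734_808_6 (SL.cons S241_256_734_808_7 (SL.cons S241_256_734_808_8 (SL.cons S241_256_734_808_9 (SL.cons S241_256_734_808_10 (SL.cons S241_256_734_808_11 (SL.cons S241_256_734_808_12 (SL.cons S241_256_734_808_13 (SL.cons S241_256_734_808_14 (SL.cons S241_256_734_808_15 (SL.cons S241_256_734_808_16 (SL.cons S241_256_734_808_17 (SL.cons S241_256_734_808_18 (SL.cons S241_256_734_808_19 (SL.cons S241_256_734_808_20 (SL.cons S241_256_734_808_21 (SL.cons S241_256_734_808_22 (SL.cons S241_256_734_808_23 (SL.cons S241_256_734_808_24 (SL.cons S241_256_734_808_25 (SL.cons S241_256_734_808_26 (SL.cons S241_256_734_808_27 (SL.cons S241_256_734_808_28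 (SL.cons S241_256_734_808_29 (SL.cons S241_256_734_808_30 (SL.cons S241_256_734_808_31 (SL.cons S241_256_734_808_32 (SL.cons S241_256_734_808_33 (SL.cons S241_256_734_808_34 (SL.cons S241_256_734_808_35 (SL.cons S241_256_734_808_36 (SL.cons S241_256_734_808_37 (SL.cons S241_256_734_808_38 (SL.cons S241_256_734_808_39 (SL.cons S241_256_734_808_40 (SL.cons S241_256_734_808_41 (SL.cons S241_256_734_808_42 (SL.cons S241_256_734_808_43 (SL.cons S241_256_734_808_44 (SL.cons S241_256_734_808_45 (SL.cons S241_256_734_808_46 (SL.cons S241_256_734_808_47 (SL.cons S241_256_734_808_48 SL.nil)))))))))))))))))))))))))))))))))))))))))))))))))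
noncomputable def S256_270_216_364_0 : EL := (EL.cons 0 (TM.mk (P.cons (P.lf 8433179811 0 0) (P.cons (P.lf 0 44989933 0) (P.cons (P.lf 0 22326853 0) (P.cons (P.lf 167639 0 0) (P.cons (P.lf 41322 0 0) (P.cons (P.lf 0 349 0) P.nil)))))) 89)
 (EL.cons 1 (TM.mk (P.cons (P.lf 219584518 0 0) (P.cons (P.lf 218353558 0 0) (P.cons (P.lf 0 1842607 0) (P.cons (P.lf 0 607822 0) (P.cons (P.lf 4760 0 0) (P.cons (P.lf 933 0 0) P.nil)))))) 67)
 (EL.cons 5 (TM.mk (P.cons (P.lf 4302980472 0 0) (P.cons (P.lf 15996416 0 0) (P.cons (P.lf 7938434 0 0) (P.cons (P.lf 0 59604 0) (P.cons (P.lf 0 14690 0) (P.cons (P.lf 122 0 0) P.nil)))))) 139)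
 (EL.cons 9 (TM.mk (P.lf 6442450944 0 0) 2)
 EL.nil))))
noncomputable def S256_270_216_364_1 : EL := (EL.cons 0 (TM.mk (P.cons (P.cons (P.lf 3809235228 0 0) (P.cons (P.lf 0 786301389 0) (P.cons (P.lf 0 339062034 0) (P.lf 37673562 0 0)))) (P.cons (P.cons (P.lf 0 706929491 0) (P.cons (P.lf 25733408 0 0) (P.cons (P.lf 11096534 0 0) (P.lf 0 1232935 0)))) (P.cons (P.cons (P.lf 0 39086640 0) (P.cons (P.lf 12564357 0 0) (P.cons (P.lf 5417881 0 0) (P.lf 0 601983 0)))) (P.cons (P.cons (P.lf 11678552 0 0) (P.cons (P.lf 0 300187 0) (P.cons (P.lf 0 129444 0) P.nil))) (P.cons (P.cons (P.lf 129432 0 0) (P.cons (P.lf 0 72370 0) P.nil)) (P.cons (P.cons (P.lf 0 61317 0) P.nil) P.nil)))))) 55987)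
 (EL.cons 1 (TM.mk (P.cons (P.cons (P.lf 1448627997 0 0) (P.cons (P.lf 0 51482331 0) (P.cons (P.lf 0 22199760 0) (P.lf 2466636 0 0)))) (P.cons (P.cons (P.lf 188429278 0 0) (P.cons (P.lf 0 50384003 0) (P.cons (P.lf 0 21726149 0) (P.lf 2414013 0 0)))) (P.cons (P.cons (P.lf 0 53944801 0) (P.cons (P.lf 1637077 0 0) (P.cons (P.lf 705920 0 0) (P.lf 0 78428 0)))) (P.cons (P.cons (P.lf 0 1225310 0) (P.cons (P.lf 528400 0 0) (P.cons (P.lf 227850 0 0) P.nil))) (P.cons (P.cons (P.lf 485139 0 0) (P.cons (P.lf 0 12844 0) P.nil)) (P.cons (P.cons (P.lf 2798 0 0) P.nil) P.nil)))))) 39977)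
 (EL.cons 5 (TM.mk (P.cons (P.cons (P.lf 2183083456 0 0) (P.cons (P.lf 0 406707774 0) (P.cons (P.lf 0 175376984 0) (P.lf 19486330 0 0)))) (P.cons (P.cons (P.lf 0 83600306 0) (P.cons (P.lf 0 1452854 0) (P.cons (P.lf 0 626488 0) (P.lf 69602 0 0)))) (P.cons (P.cons (P.lf 128338 0 0) (P.cons (P.lf 0 662070 0) (P.cons (P.lf 0 285486 0) (P.lf 31716 0 0)))) (P.cons (P.cons (P.lf 0 1458241 0) (P.cons (P.lf 63758 0 0) (P.cons (P.lf 27492 0 0) P.nil))) (P.cons (P.cons (P.lf 0 19451 0) (P.cons (P.lf 15200 0 0) P.nil)) (P.cons (P.cons (P.lf 14808 0 0) P.nil) P.nil)))))) 33716)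
 (EL.cons 9 (TM.mk (P.cons (P.cons (P.lf 3121304298 0 0) (P.cons (P.lf 0 605542590 0) (P.cons (P.lf 0 261116796 0) (P.lf 29012976 0 0)))) (P.cons (P.cons (P.lf 0 295546764 0) (P.cons (P.lf 6791286 0 0) (P.cons (P.lf 2928480 0 0) (P.lf 0 325380 0)))) (P.cons (P.cons (P.lf 0 12149232 0) (P.cons (P.lf 3357570 0 0) (P.cons (P.lf 1447818 0 0) (P.lf 0 160866 0)))) (P.cons (P.cons (P.lf 2377162 0 0) (P.cons (P.lf 0 37914 0) (P.cons (P.lf 0 16350 0) P.nil))) (P.cons (P.cons (P.lf 23434 0 0) (P.cons (P.lf 0 9288 0) P.nil)) (P.cons (P.cons (P.lf 0 6157 0) P.nil) P.nil)))))) 7406)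
 (EL.cons 2 (TM.mk (P.cons (P.cons (P.lf 0 64931352 0) (P.cons (P.lf 0 60489562 0) (P.cons (P.lf 6208194 0 0) (P.cons (P.lf 1291131 0 0) (P.lf 0 107592 0))))) (P.cons (P.cons (P.lf 0 64324617 0) (P.cons (P.lf 0 59924331 0) (P.cons (P.lf 6150183 0 0) (P.cons (P.lf 1279065 0 0) (P.lf 0 106588 0))))) (P.cons (P.cons (P.lf 907155 0 0) (P.cons (P.lf 845100 0 0) (P.cons (P.lf 0 86734 0) (P.cons (P.lf 0 18036 0) P.nil)))) (P.cons (P.cons (P.lf 297480 0 0) (P.cons (P.lf 277132 0 0) (P.cons (P.lf 0 28442 0) P.nil))) (P.cons (P.cons (P.lf 0 3656 0) (P.cons (P.lf 0 3405 0) P.nil)) (P.cons (P.cons (P.lf 0 711 0) P.nil) P.nil)))))) 9389)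
 (EL.cons 6 (TM.mk (P.cons (P.cons (P.lf 632643477 0 0) (P.cons (P.lf 589365924 0 0) (P.cons (P.lf 0 60488115 0) (P.cons (P.lf 0 12579843 0) (P.lf 1048317 0 0))))) (P.cons (P.cons (P.lf 0 7095231 0) (P.cons (P.lf 0 6609864 0) (P.cons (P.lf 678384 0 0) (P.cons (P.lf 141084 0 0) (P.lf 0 11754 0))))) (P.cons (P.cons (P.lf 0 3507840 0) (P.cons (P.lf 0 3267876 0) (P.cons (P.lf 335388 0 0) (P.cons (P.lf 69750 0 0) P.nil)))) (P.cons (P.cons (P.lf 39615 0 0) (P.cons (P.lf 36906 0 0) (P.cons (P.lf 0 3786 0) P.nil))) (P.cons (P.cons (P.lf 9705 0 0) (P.cons (P.lf 9042 0 0) P.nil)) (P.cons (P.cons (P.lf 0 114 0) P.nil) P.nil)))))) 8262)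
 EL.nil))))))
noncomputable def S256_270_216_364_2 : EL := (EL.cons 0 (TM.mk (P.cons (P.cons (P.lf 1711547634 0 0) (P.cons (P.lf 0 709921892 0) (P.cons (P.lf 0 232817150 0) (P.cons (P.lf 97237529 0 0) (P.cons (P.lf 6606515 0 0) (P.cons (P.lf 0 3029195 0) P.nil)))))) (P.cons (P.cons (P.lf 0 649066172 0) (P.cons (P.lf 152563740 0 0) (P.cons (P.lf 61360576 0 0) (P.cons (P.lf 0 11127300 0) (P.cons (P.lf 0 398911 0) P.nil))))) (P.cons (P.cons (P.lf 13522737 0 0) (P.cons (P.lf 14574751 0 0) (P.cons (P.lf 4162712 0 0) (P.cons (P.lf 0 2528425 0) P.nil)))) (P.cons (P.cons (P.lf 14886177 0 0) (P.cons (P.lf 0 3845708 0) (P.cons (P.lf 0 1568167 0) P.nil))) (P.cons (P.cons (P.lf 0 1039046 0) (P.cons (P.lf 0 83332 0) P.nil)) (P.cons (P.cons (P.lf 0 121722 0) P.nil) P.nil)))))) 1586951)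
 (EL.cons 1 (TM.mk (P.cons (P.cons (P.lf 1352148871 0 0) (P.cons (P.lf 0 302206843 0) (P.cons (P.lf 0 122577023 0) (P.cons (P.lf 21152842 0 0) (P.cons (P.lf 697326 0 0) (P.cons (P.lf 0 319732 0) P.nil)))))) (P.cons (P.cons (P.lf 8179613 0 0) (P.cons (P.lf 0 58696365 0) (P.cons (P.lf 0 17833174 0) (P.cons (P.lf 9260916 0 0) (P.cons (P.lf 673843 0 0) P.nil))))) (P.cons (P.cons (P.lf 0 64945590 0) (P.cons (P.lf 16009824 0 0) (P.cons (P.lf 6516795 0 0) (P.cons (P.lf 0 1100647 0) P.nil)))) (P.cons (P.cons (P.lf 4004205 0 0) (P.cons (P.lf 633514 0 0) (P.cons (P.lf 151049 0 0) P.nil))) (P.cons (P.cons (P.lf 797960 0 0) (P.cons (P.lf 0 225060 0) P.nil)) (P.cons (P.cons (P.lf 0 70809 0) P.nil) P.nil)))))) 829968)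
 (EL.cons 5 (TM.mk (P.cons (P.cons (P.lf 1105323224 0 0) (P.cons (P.lf 0 412576743 0) (P.cons (P.lf 0 139467848 0) (P.cons (P.lf 52918957 0 0) (P.cons (P.lf 3464132 0 0) (P.cons (P.lf 0 1588357 0) P.nil)))))) (P.cons (P.cons (P.lf 0 93783822 0) (P.cons (P.lf 16179364 0 0) (P.cons (P.lf 7103754 0 0) (P.cons (P.lf 0 665654 0) (P.cons (P.lf 11442 0 0) P.nil))))) (P.cons (P.cons (P.lf 0 2784161 0) (P.cons (P.lf 387301 0 0) (P.cons (P.lf 214314 0 0) (P.cons (P.lf 22230 0 0) P.nil)))) (P.cons (P.cons (P.lf 0 1418981 0) (P.cons (P.lf 441104 0 0) (P.cons (P.lf 174252 0 0) P.nil))) (P.cons (P.cons (P.lf 173959 0 0) (P.cons (P.lf 9693 0 0) P.nil)) (P.cons (P.cons (P.lf 23902 0 0) P.nil) P.nil)))))) 988862)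
 (EL.cons 9 (TM.mk (P.cons (P.cons (P.lf 1512241320 0 0) (P.cons (P.lf 0 586758891 0) (P.cons (P.lf 0 196100542 0) (P.cons (P.lf 77199087 0 0) (P.cons (P.lf 5129226 0 0) (P.cons (P.lf 0 2351829 0) P.nil)))))) (P.cons (P.cons (P.lf 0 286379016 0) (P.cons (P.lf 62139028 0 0) (P.cons (P.lf 25518390 0 0) (P.cons (P.lf 0 4078242 0) (P.cons (P.lf 0 115051 0) P.nil))))) (P.cons (P.cons (P.lf 1785808 0 0) (P.cons (P.lf 4914195 0 0) (P.cons (P.lf 1495038 0 0) (P.cons (P.lf 0 773611 0) P.nil)))) (P.cons (P.cons (P.lf 3418113 0 0) (P.cons (P.lf 0 817279 0) (P.cons (P.lf 0 338214 0) P.nil))) (P.cons (P.cons (P.lf 0 172485 0) (P.cons (P.lf 0 17577 0) P.nil)) (P.cons (P.cons (P.lf 0 17082 0) P.nil) P.nil)))))) 484838)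
 (EL.cons 2 (TM.mk (P.cons (P.cons (P.lf 0 62917205 0) (P.cons (P.lf 0 46407065 0) (P.cons (P.lf 22650181 0 0) (P.cons (P.lf 4402569 0 0) (P.cons (P.lf 0 1395028 0) (P.cons (P.lf 0 28513 0) P.nil)))))) (P.cons (P.cons (P.lf 0 56371854 0) (P.cons (P.lf 0 40560418 0) (P.cons (P.lf 21682366 0 0) (P.cons (P.lf 4207623 0 0) (P.cons (P.lf 0 1357644 0) P.nil))))) (P.cons (P.cons (P.lf 7025681 0 0) (P.cons (P.lf 6171243 0 0) (P.cons (P.lf 0 1181188 0) (P.cons (P.lf 0 236216 0) P.nil)))) (P.cons (P.cons (P.lf 399712 0 0) (P.cons (P.lf 252073 0 0) (P.cons (P.lf 0 202151 0) P.nil))) (P.cons (P.cons (P.lf 0 82198 0) (P.cons (P.lf 0 73372 0) P.nil)) (P.cons (P.cons (P.lf 0 1147 0) P.nil) P.nil)))))) 395600)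
 (EL.cons 6 (TM.mk (P.cons (P.cons (P.lf 613019118 0 0) (P.cons (P.lf 452156430 0 0) (P.cons (P.lf 0 220686762 0) (P.cons (P.lf 0 42895428 0) (P.cons (P.lf 13592178 0 0) (P.cons (P.lf 277860 0 0) P.nil)))))) (P.cons (P.cons (P.lf 0 64920042 0) (P.cons (P.lf 0 57811428 0) (P.cons (P.lf 9842520 0 0) (P.cons (P.lf 1979646 0 0) (P.cons (P.lf 0 389664 0) P.nil))))) (P.cons (P.cons (P.lf 0 5134128 0) (P.cons (P.lf 0 3479028 0) (P.cons (P.lf 2267820 0 0) (P.cons (P.lf 438732 0 0) P.nil)))) (P.cons (P.cons (P.lf 853860 0 0) (P.cons (P.lf 765762 0 0) (P.cons (P.lf 0 122088 0) P.nil))) (P.cons (P.cons (P.lf 18366 0 0) (P.cons (P.lf 9966 0 0) P.nil)) (P.cons (P.cons (P.lf 0 4998 0) P.nil) P.nil)))))) 479280)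
 EL.nil))))))
noncomputable def S256_270_216_364_3 : EL := (EL.cons 0 (TM.mk (P.cons (P.lf 22537052 0 0) (P.cons (P.lf 44989933 0 0) (P.cons (P.lf 22326853 0 0) (P.cons (P.lf 0 167639 0) (P.cons (P.lf 0 41322 0) (P.cons (P.lf 349 0 0) P.nil)))))) 89)
 (EL.cons 1 (TM.mk (P.cons (P.lf 0 219584518 0) (P.cons (P.lf 0 218353558 0) (P.cons (P.lf 1842607 0 0) (P.cons (P.lf 607822 0 0) (P.cons (P.lf 0 4760 0) (P.cons (P.lf 0 933 0) P.nil)))))) 67)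
 (EL.cons 5 (TM.mk (P.cons (P.lf 2139470472 0 0) (P.cons (P.lf 0 15996416 0) (P.cons (P.lf 0 7938434 0) (P.cons (P.lf 59604 0 0) (P.cons (P.lf 14690 0 0) (P.cons (P.lf 0 122 0) P.nil)))))) 132)
 EL.nil)))
noncomputable def S256_270_216_364_4 : EL := (EL.cons 0 (TM.mk (P.cons (P.cons (P.lf 10918981 0 0) (P.cons (P.lf 0 2118315 0) (P.cons (P.lf 0 913440 0) (P.lf 101492 0 0)))) (P.cons (P.cons (P.lf 20763295 0 0) (P.cons (P.lf 0 4204961 0) (P.cons (P.lf 0 1813225 0) (P.lf 201468 0 0)))) (P.cons (P.cons (P.lf 8710730 0 0) (P.cons (P.lf 0 2039385 0) (P.cons (P.lf 0 879405 0) (P.lf 97711 0 0)))) (P.cons (P.cons (P.lf 0 1181986 0) (P.cons (P.lf 62606 0 0) (P.cons (P.lf 26996 0 0) P.nil))) (P.cons (P.cons (P.lf 0 37750 0) (P.cons (P.lf 15045 0 0) P.nil)) (P.cons (P.cons (P.lf 10761 0 0) P.nil) P.nil)))))) 11731)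
 (EL.cons 1 (TM.mk (P.cons (P.cons (P.lf 0 106386545 0) (P.cons (P.lf 20639313 0 0) (P.cons (P.lf 8899905 0 0) (P.lf 0 988876 0)))) (P.cons (P.cons (P.lf 0 95716740 0) (P.cons (P.lf 20292138 0 0) (P.cons (P.lf 8750199 0 0) (P.lf 0 972243 0)))) (P.cons (P.cons (P.lf 11323764 0 0) (P.cons (P.lf 0 517805 0) (P.cons (P.lf 0 223282 0) (P.lf 24808 0 0)))) (P.cons (P.cons (P.lf 540703 0 0) (P.cons (P.lf 0 167692 0) (P.cons (P.lf 0 72309 0) P.nil))) (P.cons (P.cons (P.lf 0 115033 0) (P.cons (P.lf 3648 0 0) P.nil)) (P.cons (P.cons (P.lf 0 1282 0) P.nil) P.nil)))))) 11910)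
 (EL.cons 5 (TM.mk (P.cons (P.cons (P.lf 1036552460 0 0) (P.cons (P.lf 0 201094350 0) (P.cons (P.lf 0 86714152 0) (P.lf 9634904 0 0)))) (P.cons (P.cons (P.lf 0 105898090 0) (P.cons (P.lf 3758858 0 0) (P.cons (P.lf 1620862 0 0) (P.lf 0 180092 0)))) (P.cons (P.cons (P.lf 0 7146892 0) (P.cons (P.lf 1844304 0 0) (P.cons (P.lf 795282 0 0) (P.lf 0 88362 0)))) (P.cons (P.cons (P.lf 1212648 0 0) (P.cons (P.lf 0 34898 0) (P.cons (P.lf 0 15048 0) P.nil))) (P.cons (P.cons (P.lf 21232 0 0) (P.cons (P.lf 0 8444 0) P.nil)) (P.cons (P.cons (P.lf 0 5876 0) P.nil) P.nil)))))) 6708)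
 EL.nil)))
noncomputable def S256_270_216_364_5 : EL := (EL.cons 0 (TM.mk (P.cons (P.cons (P.lf 5290138 0 0) (P.cons (P.lf 0 2052604 0) (P.cons (P.lf 0 686000 0) (P.cons (P.lf 270058 0 0) (P.cons (P.lf 17941 0 0) (P.cons (P.lf 0 8226 0) P.nil)))))) (P.cons (P.cons (P.lf 9558704 0 0) (P.cons (P.lf 0 3880170 0) (P.cons (P.lf 0 1280170 0) (P.cons (P.lf 524840 0 0) (P.cons (P.lf 35416 0 0) P.nil))))) (P.cons (P.cons (P.lf 3247157 0 0) (P.cons (P.lf 0 1582331 0) (P.cons (P.lf 0 496167 0) (P.cons (P.lf 236353 0 0) P.nil)))) (P.cons (P.cons (P.lf 0 1007391 0) (P.cons (P.lf 262074 0 0) (P.cons (P.lf 102795 0 0) P.nil))) (P.cons (P.cons (P.lf 27207 0 0) (P.cons (P.lf 13406 0 0) P.nil)) (P.cons (P.cons (P.lf 12452 0 0) P.nil) P.nil)))))) 90983)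
 (EL.cons 1 (TM.mk (P.cons (P.cons (P.lf 0 51543236 0) (P.cons (P.lf 19999091 0 0) (P.cons (P.lf 6683891 0 0) (P.cons (P.lf 0 2631253 0) (P.cons (P.lf 0 174823 0) (P.cons (P.lf 80158 0 0) P.nil)))))) (P.cons (P.cons (P.lf 0 41493348 0) (P.cons (P.lf 17769031 0 0) (P.cons (P.lf 5776651 0 0) (P.cons (P.lf 0 2477499 0) (P.cons (P.lf 0 169921 0) P.nil))))) (P.cons (P.cons (P.lf 10077871 0 0) (P.cons (P.lf 0 2441386 0) (P.cons (P.lf 0 971934 0) (P.cons (P.lf 186669 0 0) P.nil)))) (P.cons (P.cons (P.lf 0 116259 0) (P.cons (P.lf 0 176285 0) (P.cons (P.lf 0 50343 0) P.nil))) (P.cons (P.cons (P.lf 0 137595 0) (P.cons (P.lf 36000 0 0) P.nil)) (P.cons (P.cons (P.lf 7565 0 0) P.nil) P.nil)))))) 172784)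
 (EL.cons 5 (TM.mk (P.cons (P.cons (P.lf 502199500 0 0) (P.cons (P.lf 0 194856480 0) (P.cons (P.lf 0 65122934 0) (P.cons (P.lf 25637006 0 0) (P.cons (P.lf 1703362 0 0) (P.cons (P.lf 0 781016 0) P.nil)))))) (P.cons (P.cons (P.lf 0 98858322 0) (P.cons (P.lf 22092624 0 0) (P.cons (P.lf 8961300 0 0) (P.cons (P.lf 0 1546024 0) (P.cons (P.lf 0 50942 0) P.nil))))) (P.cons (P.cons (P.lf 0 559274 0) (P.cons (P.lf 2200670 0 0) (P.cons (P.lf 674760 0 0) (P.cons (P.lf 0 341906 0) P.nil)))) (P.cons (P.cons (P.lf 1497554 0 0) (P.cons (P.lf 0 365608 0) (P.cons (P.lf 0 149286 0) P.nil))) (P.cons (P.cons (P.lf 0 67168 0) (P.cons (P.lf 0 10626 0) P.nil)) (P.cons (P.cons (P.lf 0 10120 0) P.nil) P.nil)))))) 192792)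
 EL.nil)))
noncomputable def S256_270_216_364_6 : EL := (EL.cons 12 (TM.mk (P.lf 8589934592 0 0) 0)
 (EL.cons 3 (TM.mk (P.cons (P.lf 219995351 0 0) (P.cons (P.lf 219584520 0 0) (P.cons (P.lf 0 615480 0) (P.cons (P.lf 0 203880 0) (P.cons (P.lf 952 0 0) (P.cons (P.lf 187 0 0) P.nil)))))) 37)
 (EL.cons 7 (TM.mk (P.cons (P.lf 0 2143473316 0) (P.cons (P.lf 8013173 0 0) (P.cons (P.lf 3991622 0 0) (P.cons (P.lf 0 14936 0) (P.cons (P.lf 0 3698 0) (P.cons (P.lf 20 0 0) P.nil)))))) 52)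
 EL.nil)))
noncomputable def S256_270_216_364_7 : EL := (EL.cons 12 (TM.mk (P.cons (P.cons (P.lf 4161739064 0 0) (P.cons (P.lf 0 807390120 0) (P.cons (P.lf 0 348155728 0) (P.lf 38683968 0 0)))) (P.cons (P.cons (P.lf 0 394062352 0) (P.cons (P.lf 9055048 0 0) (P.cons (P.lf 3904640 0 0) (P.lf 0 433840 0)))) (P.cons (P.cons (P.lf 0 16198976 0) (P.cons (P.lf 4476760 0 0) (P.cons (P.lf 1930424 0 0) (P.lf 0 214488 0)))) (P.cons (P.cons (P.lf 3169550 0 0) (P.cons (P.lf 0 50552 0) (P.cons (P.lf 0 21800 0) P.nil))) (P.cons (P.cons (P.lf 31246 0 0) (P.cons (P.lf 0 12384 0) P.nil)) (P.cons (P.cons (P.lf 0 8210 0) P.nil) P.nil)))))) 9850)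
 (EL.cons 3 (TM.mk (P.cons (P.cons (P.lf 0 2593030995 0) (P.cons (P.lf 41355860 0 0) (P.cons (P.lf 17833112 0 0) (P.lf 0 1981456 0)))) (P.cons (P.cons (P.lf 0 120604674 0) (P.cons (P.lf 40814816 0 0) (P.cons (P.lf 17599808 0 0) (P.lf 0 1955532 0)))) (P.cons (P.cons (P.lf 57295920 0 0) (P.cons (P.lf 0 807956 0) (P.cons (P.lf 0 348398 0) (P.lf 38708 0 0)))) (P.cons (P.cons (P.lf 538701 0 0) (P.cons (P.lf 0 263316 0) (P.cons (P.lf 0 113544 0) P.nil))) (P.cons (P.cons (P.lf 0 251710 0) (P.cons (P.lf 4468 0 0) P.nil)) (P.cons (P.cons (P.lf 0 1026 0) P.nil) P.nil)))))) 34908)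
 (EL.cons 7 (TM.mk (P.cons (P.cons (P.lf 0 1137007392 0) (P.cons (P.lf 203734355 0 0) (P.cons (P.lf 87852554 0 0) (P.lf 0 9761396 0)))) (P.cons (P.cons (P.lf 0 4401153 0) (P.cons (P.lf 1489429 0 0) (P.cons (P.lf 642259 0 0) (P.lf 0 71359 0)))) (P.cons (P.cons (P.lf 0 113829 0) (P.cons (P.lf 716623 0 0) (P.cons (P.lf 309013 0 0) (P.lf 0 34333 0)))) (P.cons (P.cons (P.lf 1412051 0 0) (P.cons (P.lf 0 27905 0) (P.cons (P.lf 0 12033 0) P.nil))) (P.cons (P.cons (P.lf 7481 0 0) (P.cons (P.lf 0 6746 0) P.nil)) (P.cons (P.cons (P.lf 0 6577 0) P.nil) P.nil)))))) 20519)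
 (EL.cons 10 (TM.mk (P.cons (P.cons (P.lf 0 1267654245 0) (P.cons (P.lf 0 1180937202 0) (P.cons (P.lf 121202574 0 0) (P.cons (P.lf 25206762 0 0) (P.lf 0 2100561 0))))) (P.cons (P.cons (P.lf 9478011 0 0) (P.cons (P.lf 8829642 0 0) (P.cons (P.lf 0 906207 0) (P.cons (P.lf 0 188466 0) (P.lf 15705 0 0))))) (P.cons (P.cons (P.lf 4703586 0 0) (P.cons (P.lf 4381827 0 0) (P.cons (P.lf 0 449718 0) (P.cons (P.lf 0 93528 0) P.nil)))) (P.cons (P.cons (P.lf 0 35313 0) (P.cons (P.lf 0 32898 0) (P.cons (P.lf 3375 0 0) P.nil))) (P.cons (P.cons (P.lf 0 8703 0) (P.cons (P.lf 0 8106 0) P.nil)) (P.cons (P.cons (P.lf 72 0 0) P.nil) P.nil)))))) 9921)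
 EL.nil))))
noncomputable def S256_270_216_364_8 : EL := (EL.cons 12 (TM.mk (P.cons (P.cons (P.lf 2016321760 0 0) (P.cons (P.lf 0 782345188 0) (P.cons (P.lf 0 261467390 0) (P.cons (P.lf 102932116 0 0) (P.cons (P.lf 6838968 0 0) (P.cons (P.lf 0 3135772 0) P.nil)))))) (P.cons (P.cons (P.lf 0 381838688 0) (P.cons (P.lf 82852038 0 0) (P.cons (P.lf 34024520 0 0) (P.cons (P.lf 0 5437656 0) (P.cons (P.lf 0 153402 0) P.nil))))) (P.cons (P.cons (P.lf 2381078 0 0) (P.cons (P.lf 6552260 0 0) (P.cons (P.lf 1993384 0 0) (P.cons (P.lf 0 1031482 0) P.nil)))) (P.cons (P.cons (P.lf 4557484 0 0) (P.cons (P.lf 0 1089706 0) (P.cons (P.lf 0 450952 0) P.nil))) (P.cons (P.cons (P.lf 0 229980 0) (P.cons (P.lf 0 23436 0) P.nil)) (P.cons (P.cons (P.lf 0 22776 0) P.nil) P.nil)))))) 646422)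
 (EL.cons 3 (TM.mk (P.cons (P.cons (P.lf 0 2564235840 0) (P.cons (P.lf 547560876 0 0) (P.cons (P.lf 226396560 0 0) (P.cons (P.lf 0 34615832 0) (P.cons (P.lf 0 875755 0) (P.cons (P.lf 401545 0 0) P.nil)))))) (P.cons (P.cons (P.lf 79282452 0 0) (P.cons (P.lf 70836569 0 0) (P.cons (P.lf 21063785 0 0) (P.cons (P.lf 0 11571212 0) (P.cons (P.lf 0 854475 0) P.nil))))) (P.cons (P.cons (P.lf 86208427 0 0) (P.cons (P.lf 0 20753269 0) (P.cons (P.lf 0 8597739 0) (P.cons (P.lf 1297296 0 0) P.nil)))) (P.cons (P.cons (P.lf 0 6350690 0) (P.cons (P.lf 0 532315 0) (P.cons (P.lf 0 117224 0) P.nil))) (P.cons (P.cons (P.lf 0 737018 0) (P.cons (P.lf 210006 0 0) P.nil)) (P.cons (P.cons (P.lf 73276 0 0) P.nil) P.nil)))))) 1214403)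
 (EL.cons 7 (TM.mk (P.cons (P.cons (P.lf 0 598598767 0) (P.cons (P.lf 215934062 0 0) (P.cons (P.lf 73750905 0 0) (P.cons (P.lf 0 27044393 0) (P.cons (P.lf 0 1744895 0) (P.cons (P.lf 800059 0 0) P.nil)))))) (P.cons (P.cons (P.lf 2893217 0 0) (P.cons (P.lf 2584990 0 0) (P.cons (P.lf 768668 0 0) (P.cons (P.lf 0 422254 0) (P.cons (P.lf 0 31182 0) P.nil))))) (P.cons (P.cons (P.lf 4595264 0 0) (P.cons (P.lf 537575 0 0) (P.cons (P.lf 71295 0 0) (P.cons (P.lf 0 164181 0) P.nil)))) (P.cons (P.cons (P.lf 1872179 0 0) (P.cons (P.lf 0 522836 0) (P.cons (P.lf 0 213112 0) P.nil))) (P.cons (P.cons (P.lf 0 195939 0) (P.cons (P.lf 0 7381 0) P.nil)) (P.cons (P.cons (P.lf 0 18079 0) P.nil) P.nil)))))) 474286)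
 (EL.cons 10 (TM.mk (P.cons (P.cons (P.lf 0 1228332096 0) (P.cons (P.lf 0 906004794 0) (P.cons (P.lf 442199316 0 0) (P.cons (P.lf 85951374 0 0) (P.cons (P.lf 0 27235218 0) (P.cons (P.lf 0 556770 0) P.nil)))))) (P.cons (P.cons (P.lf 125491014 0 0) (P.cons (P.lf 112452174 0 0) (P.cons (P.lf 0 18068760 0) (P.cons (P.lf 0 3645390 0) (P.cons (P.lf 678972 0 0) P.nil))))) (P.cons (P.cons (P.lf 8469180 0 0) (P.cons (P.lf 5704296 0 0) (P.cons (P.lf 0 3788202 0) (P.cons (P.lf 0 732684 0) P.nil)))) (P.cons (P.cons (P.lf 0 1437006 0) (P.cons (P.lf 0 1297350 0) (P.cons (P.lf 193746 0 0) P.nil))) (P.cons (P.cons (P.lf 0 25158 0) (P.cons (P.lf 0 13428 0) P.nil)) (P.cons (P.cons (P.lf 6960 0 0) P.nil) P.nil)))))) 873594)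
 EL.nil))))
noncomputable def S256_270_216_364_9 : EL := (EL.cons 3 (TM.mk (P.cons (P.lf 219995351 0 0) (P.cons (P.lf 219584520 0 0) (P.cons (P.lf 0 615480 0) (P.cons (P.lf 0 203880 0) (P.cons (P.lf 952 0 0) (P.cons (P.lf 187 0 0) P.nil)))))) 37)
 (EL.cons 7 (TM.mk (P.cons (P.lf 0 2143473316 0) (P.cons (P.lf 8013173 0 0) (P.cons (P.lf 3991622 0 0) (P.cons (P.lf 0 14936 0) (P.cons (P.lf 0 3698 0) (P.cons (P.lf 20 0 0) P.nil)))))) 52)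
 EL.nil))
noncomputable def S256_270_216_364_10 : EL := (EL.cons 3 (TM.mk (P.cons (P.cons (P.lf 106585590 0 0) (P.cons (P.lf 0 20677930 0) (P.cons (P.lf 0 8916556 0) (P.lf 990728 0 0)))) (P.cons (P.cons (P.lf 96294282 0 0) (P.cons (P.lf 0 20407408 0) (P.cons (P.lf 0 8799904 0) (P.lf 977766 0 0)))) (P.cons (P.cons (P.lf 0 10786479 0) (P.cons (P.lf 403978 0 0) (P.cons (P.lf 174199 0 0) (P.lf 0 19354 0)))) (P.cons (P.cons (P.lf 0 403461 0) (P.cons (P.lf 131658 0 0) (P.cons (P.lf 56772 0 0) P.nil))) (P.cons (P.cons (P.lf 92798 0 0) (P.cons (P.lf 0 2234 0) P.nil)) (P.cons (P.cons (P.lf 792 0 0) P.nil) P.nil)))))) 8660)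
 (EL.cons 7 (TM.mk (P.cons (P.cons (P.lf 0 1038491799 0) (P.cons (P.lf 201470588 0 0) (P.cons (P.lf 86876390 0 0) (P.lf 0 9652931 0)))) (P.cons (P.cons (P.lf 102213918 0 0) (P.cons (P.lf 0 3012713 0) (P.cons (P.lf 0 1299116 0) (P.lf 144344 0 0)))) (P.cons (P.cons (P.lf 5608479 0 0) (P.cons (P.lf 0 1483835 0) (P.cons (P.lf 0 639845 0) (P.lf 71093 0 0)))) (P.cons (P.cons (P.lf 0 996370 0) (P.cons (P.lf 22402 0 0) (P.cons (P.lf 9660 0 0) P.nil))) (P.cons (P.cons (P.lf 0 13474 0) (P.cons (P.lf 5455 0 0) P.nil)) (P.cons (P.cons (P.lf 3758 0 0) P.nil) P.nil)))))) 4300)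
 EL.nil))
noncomputable def S256_270_216_364_11 : EL := (EL.cons 3 (TM.mk (P.cons (P.cons (P.lf 51639672 0 0) (P.cons (P.lf 0 20036508 0) (P.cons (P.lf 0 6696396 0) (P.cons (P.lf 2636176 0 0) (P.cons (P.lf 175151 0 0) (P.cons (P.lf 0 80309 0) P.nil)))))) (P.cons (P.cons (P.lf 41764032 0 0) (P.cons (P.lf 0 17877181 0) (P.cons (P.lf 0 5812495 0) (P.cons (P.lf 2491990 0 0) (P.cons (P.lf 170895 0 0) P.nil))))) (P.cons (P.cons (P.lf 0 9844433 0) (P.cons (P.lf 2341811 0 0) (P.cons (P.lf 939555 0 0) (P.cons (P.lf 0 172794 0) P.nil)))) (P.cons (P.cons (P.lf 157090 0 0) (P.cons (P.lf 152219 0 0) (P.cons (P.lf 43174 0 0) P.nil))) (P.cons (P.cons (P.lf 119728 0 0) (P.cons (P.lf 0 30978 0) P.nil)) (P.cons (P.cons (P.lf 0 6842 0) P.nil) P.nil)))))) 161909)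
 (EL.cons 7 (TM.mk (P.cons (P.cons (P.lf 0 503139091 0) (P.cons (P.lf 195221048 0 0) (P.cons (P.lf 65244777 0 0) (P.cons (P.lf 0 25684973 0) (P.cons (P.lf 0 1706549 0) (P.cons (P.lf 782479 0 0) P.nil)))))) (P.cons (P.cons (P.lf 97162343 0 0) (P.cons (P.lf 0 21404144 0) (P.cons (P.lf 0 8734156 0) (P.cons (P.lf 1452896 0 0) (P.cons (P.lf 44658 0 0) P.nil))))) (P.cons (P.cons (P.lf 0 13402 0) (P.cons (P.lf 0 1921261 0) (P.cons (P.lf 0 587175 0) (P.cons (P.lf 300147 0 0) P.nil)))) (P.cons (P.cons (P.lf 0 1315963 0) (P.cons (P.lf 317890 0 0) (P.cons (P.lf 130652 0 0) P.nil))) (P.cons (P.cons (P.lf 62541 0 0) (P.cons (P.lf 8069 0 0) P.nil)) (P.cons (P.cons (P.lf 7751 0 0) P.nil) P.nil)))))) 176748)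
 EL.nil))
noncomputable def S256_270_216_364_12 : EL := (EL.cons 4 (TM.mk (P.cons (P.lf 0 219995351 0) (P.cons (P.lf 0 219584520 0) (P.cons (P.lf 615480 0 0) (P.cons (P.lf 203880 0 0) (P.cons (P.lf 0 952 0) (P.cons (P.lf 0 187 0) P.nil)))))) 37)
 (EL.cons 8 (TM.mk (P.cons (P.lf 2143473316 0 0) (P.cons (P.lf 0 8013173 0) (P.cons (P.lf 0 3991622 0) (P.cons (P.lf 14936 0 0) (P.cons (P.lf 3698 0 0) (P.cons (P.lf 0 20 0) P.nil)))))) 52)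
 EL.nil))
noncomputable def S256_270_216_364_13 : EL := (EL.cons 4 (TM.mk (P.cons (P.cons (P.lf 0 106585590 0) (P.cons (P.lf 20677930 0 0) (P.cons (P.lf 8916556 0 0) (P.lf 0 990728 0)))) (P.cons (P.cons (P.lf 0 96294282 0) (P.cons (P.lf 20407408 0 0) (P.cons (P.lf 8799904 0 0) (P.lf 0 977766 0)))) (P.cons (P.cons (P.lf 10786479 0 0) (P.cons (P.lf 0 403978 0) (P.cons (P.lf 0 174199 0) (P.lf 19354 0 0)))) (P.cons (P.cons (P.lf 403461 0 0) (P.cons (P.lf 0 131658 0) (P.cons (P.lf 0 56772 0) P.nil))) (P.cons (P.cons (P.lf 0 92798 0) (P.cons (P.lf 2234 0 0) P.nil)) (P.cons (P.cons (P.lf 0 792 0) P.nil) P.nil)))))) 8660)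
 (EL.cons 8 (TM.mk (P.cons (P.cons (P.lf 1038491799 0 0) (P.cons (P.lf 0 201470588 0) (P.cons (P.lf 0 86876390 0) (P.lf 9652931 0 0)))) (P.cons (P.cons (P.lf 0 102213918 0) (P.cons (P.lf 3012713 0 0) (P.cons (P.lf 1299116 0 0) (P.lf 0 144344 0)))) (P.cons (P.cons (P.lf 0 5608479 0) (P.cons (P.lf 1483835 0 0) (P.cons (P.lf 639845 0 0) (P.lf 0 71093 0)))) (P.cons (P.cons (P.lf 996370 0 0) (P.cons (P.lf 0 22402 0) (P.cons (P.lf 0 9660 0) P.nil))) (P.cons (P.cons (P.lf 13474 0 0) (P.cons (P.lf 0 5455 0) P.nil)) (P.cons (P.cons (P.lf 0 3758 0) P.nil) P.nil)))))) 4300)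
 EL.nil))
noncomputable def S256_270_216_364_14 : EL := (EL.cons 4 (TM.mk (P.cons (P.cons (P.lf 0 51639672 0) (P.cons (P.lf 20036508 0 0) (P.cons (P.lf 6696396 0 0) (P.cons (P.lf 0 2636176 0) (P.cons (P.lf 0 175151 0) (P.cons (P.lf 80309 0 0) P.nil)))))) (P.cons (P.cons (P.lf 0 41764032 0) (P.cons (P.lf 17877181 0 0) (P.cons (P.lf 5812495 0 0) (P.cons (P.lf 0 2491990 0) (P.cons (P.lf 0 170895 0) P.nil))))) (P.cons (P.cons (P.lf 9844433 0 0) (P.cons (P.lf 0 2341811 0) (P.cons (P.lf 0 939555 0) (P.cons (P.lf 172794 0 0) P.nil)))) (P.cons (P.cons (P.lf 0 157090 0) (P.cons (P.lf 0 152219 0) (P.cons (P.lf 0 43174 0) P.nil))) (P.cons (P.cons (P.lf 0 119728 0) (P.cons (P.lf 30978 0 0) P.nil)) (P.cons (P.cons (P.lf 6842 0 0) P.nil) P.nil)))))) 161909)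
 (EL.cons 8 (TM.mk (P.cons (P.cons (P.lf 503139091 0 0) (P.cons (P.lf 0 195221048 0) (P.cons (P.lf 0 65244777 0) (P.cons (P.lf 25684973 0 0) (P.cons (P.lf 1706549 0 0) (P.cons (P.lf 0 782479 0) P.nil)))))) (P.cons (P.cons (P.lf 0 97162343 0) (P.cons (P.lf 21404144 0 0) (P.cons (P.lf 8734156 0 0) (P.cons (P.lf 0 1452896 0) (P.cons (P.lf 0 44658 0) P.nil))))) (P.cons (P.cons (P.lf 13402 0 0) (P.cons (P.lf 1921261 0 0) (P.cons (P.lf 587175 0 0) (P.cons (P.lf 0 300147 0) P.nil)))) (P.cons (P.cons (P.lf 1315963 0 0) (P.cons (P.lf 0 317890 0) (P.cons (P.lf 0 130652 0) P.nil))) (P.cons (P.cons (P.lf 0 62541 0) (P.cons (P.lf 0 8069 0) P.nil)) (P.cons (P.cons (P.lf 0 7751 0) P.nil) P.nil)))))) 176748)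
 EL.nil))
noncomputable def S256_270_216_364_15 : EL := (EL.cons 4 (TM.mk (P.cons (P.lf 0 12019761 0) (P.cons (P.lf 0 23994630 0) (P.cons (P.lf 0 11907655 0) (P.cons (P.lf 89407 0 0) (P.cons (P.lf 22038 0 0) (P.cons (P.lf 0 186 0) P.nil)))))) 51)
 (EL.cons 8 (TM.mk (P.cons (P.lf 117111743 0 0) (P.cons (P.lf 116455231 0 0) (P.cons (P.lf 0 982724 0) (P.cons (P.lf 0 324172 0) (P.cons (P.lf 2539 0 0) (P.cons (P.lf 498 0 0) P.nil)))))) 32)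
 EL.nil))
noncomputable def S256_270_216_364_16 : EL := (EL.cons 4 (TM.mk (P.cons (P.cons (P.lf 0 5823456 0) (P.cons (P.lf 1129768 0 0) (P.cons (P.lf 487168 0 0) (P.lf 0 54129 0)))) (P.cons (P.cons (P.lf 0 11073757 0) (P.cons (P.lf 2242646 0 0) (P.cons (P.lf 967053 0 0) (P.lf 0 107449 0)))) (P.cons (P.cons (P.lf 0 4645723 0) (P.cons (P.lf 1087672 0 0) (P.cons (P.lf 469016 0 0) (P.lf 0 52112 0)))) (P.cons (P.cons (P.lf 630392 0 0) (P.cons (P.lf 0 33390 0) (P.cons (P.lf 0 14398 0) P.nil))) (P.cons (P.cons (P.lf 20133 0 0) (P.cons (P.lf 0 8024 0) P.nil)) (P.cons (P.cons (P.lf 0 5739 0) P.nil) P.nil)))))) 6265)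
 (EL.cons 8 (TM.mk (P.cons (P.cons (P.lf 56739491 0 0) (P.cons (P.lf 0 11007634 0) (P.cons (P.lf 0 4746616 0) (P.lf 527401 0 0)))) (P.cons (P.cons (P.lf 51048928 0 0) (P.cons (P.lf 0 10822474 0) (P.cons (P.lf 0 4666773 0) (P.lf 518530 0 0)))) (P.cons (P.cons (P.lf 0 6039341 0) (P.cons (P.lf 276163 0 0) (P.cons (P.lf 119084 0 0) (P.lf 0 13231 0)))) (P.cons (P.cons (P.lf 0 288375 0) (P.cons (P.lf 89436 0 0) (P.cons (P.lf 38565 0 0) P.nil))) (P.cons (P.cons (P.lf 61351 0 0) (P.cons (P.lf 0 1946 0) P.nil)) (P.cons (P.cons (P.lf 684 0 0) P.nil) P.nil)))))) 6342)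
 EL.nil))
noncomputable def S256_270_216_364_17 : EL := (EL.cons 4 (TM.mk (P.cons (P.cons (P.lf 0 2821407 0) (P.cons (P.lf 1094722 0 0) (P.cons (P.lf 365866 0 0) (P.cons (P.lf 0 144030 0) (P.cons (P.lf 0 9569 0) (P.cons (P.lf 4387 0 0) P.nil)))))) (P.cons (P.cons (P.lf 0 5097975 0) (P.cons (P.lf 2069424 0 0) (P.cons (P.lf 682757 0 0) (P.cons (P.lf 0 279915 0) (P.cons (P.lf 0 18888 0) P.nil))))) (P.cons (P.cons (P.lf 0 1731817 0) (P.cons (P.lf 843910 0 0) (P.cons (P.lf 264622 0 0) (P.cons (P.lf 0 126055 0) P.nil)))) (P.cons (P.cons (P.lf 537275 0 0) (P.cons (P.lf 0 139772 0) (P.cons (P.lf 0 54824 0) P.nil))) (P.cons (P.cons (P.lf 0 14510 0) (P.cons (P.lf 0 7150 0) P.nil)) (P.cons (P.cons (P.lf 0 6641 0) P.nil) P.nil)))))) 48534)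
 (EL.cons 8 (TM.mk (P.cons (P.cons (P.lf 27489726 0 0) (P.cons (P.lf 0 10666182 0) (P.cons (P.lf 0 3564742 0) (P.cons (P.lf 1403335 0 0) (P.cons (P.lf 93239 0 0) (P.cons (P.lf 0 42751 0) P.nil)))))) (P.cons (P.cons (P.lf 22129786 0 0) (P.cons (P.lf 0 9476817 0) (P.cons (P.lf 0 3080881 0) (P.cons (P.lf 1321333 0 0) (P.cons (P.lf 90625 0 0) P.nil))))) (P.cons (P.cons (P.lf 0 5374865 0) (P.cons (P.lf 1302073 0 0) (P.cons (P.lf 518365 0 0) (P.cons (P.lf 0 99557 0) P.nil)))) (P.cons (P.cons (P.lf 62005 0 0) (P.cons (P.lf 94019 0 0) (P.cons (P.lf 26850 0 0) P.nil))) (P.cons (P.cons (P.lf 73384 0 0) (P.cons (P.lf 0 19200 0) P.nil)) (P.cons (P.cons (P.lf 0 4035 0) P.nil) P.nil)))))) 92140)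
 EL.nil))
noncomputable def S256_270_216_364_18 : EL := (EL.cons 4 (TM.mk (P.cons (P.lf 0 656716 0) (P.cons (P.lf 0 1966470 0) (P.cons (P.lf 0 1957287 0) (P.cons (P.lf 0 640215 0) (P.cons (P.lf 9111 0 0) (P.cons (P.lf 1774 0 0) P.nil)))))) 41)
 (EL.cons 8 (TM.mk (P.cons (P.lf 6398568 0 0) (P.cons (P.lf 12749317 0 0) (P.cons (P.lf 6279222 0 0) (P.cons (P.lf 0 95034 0) (P.cons (P.lf 0 23258 0) (P.cons (P.lf 297 0 0) P.nil)))))) 65)
 EL.nil))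
noncomputable def S256_270_216_364_19 : EL := (EL.cons 4 (TM.mk (P.cons (P.cons (P.lf 0 318172 0) (P.cons (P.lf 61725 0 0) (P.cons (P.lf 26616 0 0) (P.lf 0 2956 0)))) (P.cons (P.cons (P.lf 0 922608 0) (P.cons (P.lf 184140 0 0) (P.cons (P.lf 79403 0 0) (P.lf 0 8821 0)))) (P.cons (P.cons (P.lf 0 856835 0) (P.cons (P.lf 181554 0 0) (P.cons (P.lf 78287 0 0) (P.lf 0 8698 0)))) (P.cons (P.cons (P.lf 0 216920 0) (P.cons (P.lf 57090 0 0) (P.cons (P.lf 24617 0 0) P.nil))) (P.cons (P.cons (P.lf 36747 0 0) (P.cons (P.lf 0 2538 0) P.nil)) (P.cons (P.cons (P.lf 919 0 0) P.nil) P.nil)))))) 5474)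
 (EL.cons 8 (TM.mk (P.cons (P.cons (P.lf 3100043 0 0) (P.cons (P.lf 0 601417 0) (P.cons (P.lf 0 259337 0) (P.lf 28815 0 0)))) (P.cons (P.cons (P.lf 5883385 0 0) (P.cons (P.lf 0 1191596 0) (P.cons (P.lf 0 513829 0) (P.lf 57091 0 0)))) (P.cons (P.cons (P.lf 2445281 0 0) (P.cons (P.lf 0 573425 0) (P.cons (P.lf 0 247267 0) (P.lf 27474 0 0)))) (P.cons (P.cons (P.lf 0 355783 0) (P.cons (P.lf 22158 0 0) (P.cons (P.lf 9554 0 0) P.nil))) (P.cons (P.cons (P.lf 0 14022 0) (P.cons (P.lf 5273 0 0) P.nil)) (P.cons (P.cons (P.lf 3747 0 0) P.nil) P.nil)))))) 4250)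
 EL.nil))
noncomputable def S256_270_216_364_20 : EL := (EL.cons 4 (TM.mk (P.cons (P.cons (P.lf 0 154151 0) (P.cons (P.lf 59811 0 0) (P.cons (P.lf 19989 0 0) (P.cons (P.lf 0 7868 0) (P.cons (P.lf 0 522 0) (P.cons (P.lf 239 0 0) P.nil)))))) (P.cons (P.cons (P.lf 0 432398 0) (P.cons (P.lf 172765 0 0) (P.cons (P.lf 57255 0 0) (P.cons (P.lf 0 23147 0) (P.cons (P.lf 0 1553 0) P.nil))))) (P.cons (P.cons (P.lf 0 372203 0) (P.cons (P.lf 158795 0 0) (P.cons (P.lf 51635 0 0) (P.cons (P.lf 0 22129 0) P.nil)))) (P.cons (P.cons (P.lf 0 64166 0) (P.cons (P.lf 38012 0 0) (P.cons (P.lf 11311 0 0) P.nil))) (P.cons (P.cons (P.lf 29028 0 0) (P.cons (P.lf 0 8246 0) P.nil)) (P.cons (P.cons (P.lf 0 1149 0) P.nil) P.nil)))))) 19653)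
 (EL.cons 8 (TM.mk (P.cons (P.cons (P.lf 1501940 0 0) (P.cons (P.lf 0 582761 0) (P.cons (P.lf 0 194764 0) (P.cons (P.lf 76673 0 0) (P.cons (P.lf 5093 0 0) (P.cons (P.lf 0 2335 0) P.nil)))))) (P.cons (P.cons (P.lf 2708228 0 0) (P.cons (P.lf 0 1099453 0) (P.cons (P.lf 0 362729 0) (P.cons (P.lf 148722 0 0) (P.cons (P.lf 10036 0 0) P.nil))))) (P.cons (P.cons (P.lf 908968 0 0) (P.cons (P.lf 0 444041 0) (P.cons (P.lf 0 139146 0) (P.cons (P.lf 66404 0 0) P.nil)))) (P.cons (P.cons (P.lf 0 294501 0) (P.cons (P.lf 78133 0 0) (P.cons (P.lf 30387 0 0) P.nil))) (P.cons (P.cons (P.lf 7098 0 0) (P.cons (P.lf 4356 0 0) P.nil)) (P.cons (P.cons (P.lf 4050 0 0) P.nil) P.nil)))))) 27362)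
 EL.nil))
noncomputable def S256_270_216_364_21 : EL := (EL.cons 4 (TM.mk (P.cons (P.cons (P.lf 2699616585 0 0) (P.cons (P.lf 0 62033790 0) (P.cons (P.lf 0 26749668 0) (P.lf 2972184 0 0)))) (P.cons (P.cons (P.lf 216898956 0 0) (P.cons (P.lf 0 61222224 0) (P.cons (P.lf 0 26399712 0) (P.lf 2933298 0 0)))) (P.cons (P.cons (P.lf 0 68082399 0) (P.cons (P.lf 1211934 0 0) (P.cons (P.lf 522597 0 0) (P.lf 0 58062 0)))) (P.cons (P.cons (P.lf 0 942162 0) (P.cons (P.lf 394974 0 0) (P.cons (P.lf 170316 0 0) P.nil))) (P.cons (P.cons (P.lf 344508 0 0) (P.cons (P.lf 0 6702 0) P.nil)) (P.cons (P.cons (P.lf 1818 0 0) P.nil) P.nil)))))) 26229)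
 (EL.cons 8 (TM.mk (P.cons (P.cons (P.lf 98515593 0 0) (P.cons (P.lf 0 2263767 0) (P.cons (P.lf 0 976164 0) (P.lf 108465 0 0)))) (P.cons (P.cons (P.lf 106615071 0 0) (P.cons (P.lf 0 4502142 0) (P.cons (P.lf 0 1941375 0) (P.lf 215703 0 0)))) (P.cons (P.cons (P.lf 5722308 0 0) (P.cons (P.lf 0 2200458 0) (P.cons (P.lf 0 948858 0) (P.lf 105426 0 0)))) (P.cons (P.cons (P.lf 0 2408421 0) (P.cons (P.lf 50307 0 0) (P.cons (P.lf 21693 0 0) P.nil))) (P.cons (P.cons (P.lf 0 20955 0) (P.cons (P.lf 12201 0 0) P.nil)) (P.cons (P.cons (P.lf 10335 0 0) P.nil) P.nil)))))) 16200)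
 (EL.cons 11 (TM.mk (P.cons (P.cons (P.lf 1267654245 0 0) (P.cons (P.lf 1180937202 0 0) (P.cons (P.lf 0 121202574 0) (P.cons (P.lf 0 25206762 0) (P.lf 2100561 0 0))))) (P.cons (P.cons (P.lf 0 9478011 0) (P.cons (P.lf 0 8829642 0) (P.cons (P.lf 906207 0 0) (P.cons (P.lf 188466 0 0) (P.lf 0 15705 0))))) (P.cons (P.cons (P.lf 0 4703586 0) (P.cons (P.lf 0 4381827 0) (P.cons (P.lf 449718 0 0) (P.cons (P.lf 93528 0 0) P.nil)))) (P.cons (P.cons (P.lf 35313 0 0) (P.cons (P.lf 32898 0 0) (P.cons (P.lf 0 3375 0) P.nil))) (P.cons (P.cons (P.lf 8703 0 0) (P.cons (P.lf 8106 0 0) P.nil)) (P.cons (P.cons (P.lf 0 72 0) P.nil) P.nil)))))) 9921)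
 EL.nil)))
noncomputable def S256_270_216_364_22 : EL := (EL.cons 4 (TM.mk (P.cons (P.cons (P.lf 1307937756 0 0) (P.cons (P.lf 0 283798692 0) (P.cons (P.lf 0 116546478 0) (P.cons (P.lf 18626004 0 0) (P.cons (P.lf 525453 0 0) (P.cons (P.lf 0 240927 0) P.nil)))))) (P.cons (P.cons (P.lf 0 18759210 0) (P.cons (P.lf 0 44356875 0) (P.cons (P.lf 0 13438140 0) (P.cons (P.lf 7031601 0 0) (P.cons (P.lf 512685 0 0) P.nil))))) (P.cons (P.cons (P.lf 0 48026430 0) (P.cons (P.lf 11547540 0 0) (P.cons (P.lf 4768647 0 0) (P.cons (P.lf 0 735045 0) P.nil)))) (P.cons (P.cons (P.lf 3253890 0 0) (P.cons (P.lf 342267 0 0) (P.cons (P.lf 80199 0 0) P.nil))) (P.cons (P.cons (P.lf 428373 0 0) (P.cons (P.lf 0 120492 0) P.nil)) (P.cons (P.cons (P.lf 0 40059 0) P.nil) P.nil)))))) 526236)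
 (EL.cons 8 (TM.mk (P.cons (P.cons (P.lf 47729838 0 0) (P.cons (P.lf 0 10356507 0) (P.cons (P.lf 0 4253064 0) (P.cons (P.lf 679710 0 0) (P.cons (P.lf 19173 0 0) (P.cons (P.lf 0 8790 0) P.nil)))))) (P.cons (P.cons (P.lf 47134563 0 0) (P.cons (P.lf 0 11994567 0) (P.cons (P.lf 0 4751412 0) (P.cons (P.lf 937575 0 0) (P.cons (P.lf 37920 0 0) P.nil))))) (P.cons (P.cons (P.lf 0 2304333 0) (P.cons (P.lf 0 1229418 0) (P.cons (P.lf 0 329235 0) (P.cons (P.lf 232164 0 0) P.nil)))) (P.cons (P.cons (P.lf 0 1594071 0) (P.cons (P.lf 420363 0 0) (P.cons (P.lf 171882 0 0) P.nil))) (P.cons (P.cons (P.lf 129240 0 0) (P.cons (P.lf 7725 0 0) P.nil)) (P.cons (P.cons (P.lf 12915 0 0) P.nil) P.nil)))))) 148758)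
 (EL.cons 11 (TM.mk (P.cons (P.cons (P.lf 614166048 0 0) (P.cons (P.lf 453002397 0 0) (P.cons (P.lf 0 221099658 0) (P.cons (P.lf 0 42975687 0) (P.cons (P.lf 13617609 0 0) (P.cons (P.lf 278385 0 0) P.nil)))))) (P.cons (P.cons (P.lf 0 62745507 0) (P.cons (P.lf 0 56226087 0) (P.cons (P.lf 9034380 0 0) (P.cons (P.lf 1822695 0 0) (P.cons (P.lf 0 339486 0) P.nil))))) (P.cons (P.cons (P.lf 0 4234590 0) (P.cons (P.lf 0 2852148 0) (P.cons (P.lf 1894101 0 0) (P.cons (P.lf 366342 0 0) P.nil)))) (P.cons (P.cons (P.lf 718503 0 0) (P.cons (P.lf 648675 0 0) (P.cons (P.lf 0 96873 0) P.nil))) (P.cons (P.cons (P.lf 12579 0 0) (P.cons (P.lf 6714 0 0) P.nil)) (P.cons (P.cons (P.lf 0 3480 0) P.nil) P.nil)))))) 436797)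
 EL.nil)))
noncomputable def S256_270_216_364_23 : EL := (EL.cons 4 (TM.mk (P.cons (P.cons (P.lf 147497430 0 0) (P.cons (P.lf 0 3389304 0) (P.cons (P.lf 0 1461504 0) (P.lf 162387 0 0)))) (P.cons (P.cons (P.lf 159072570 0 0) (P.cons (P.lf 0 6727938 0) (P.cons (P.lf 0 2901162 0) (P.lf 322350 0 0)))) (P.cons (P.cons (P.lf 7696023 0 0) (P.cons (P.lf 0 3263019 0) (P.cons (P.lf 0 1407048 0) (P.lf 156339 0 0)))) (P.cons (P.cons (P.lf 0 3934155 0) (P.cons (P.lf 100170 0 0) (P.cons (P.lf 43194 0 0) P.nil))) (P.cons (P.cons (P.lf 0 32493 0) (P.cons (P.lf 24072 0 0) P.nil)) (P.cons (P.cons (P.lf 22653 0 0) P.nil) P.nil)))))) 18432)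
 (EL.cons 8 (TM.mk (P.cons (P.cons (P.lf 5382540 0 0) (P.cons (P.lf 0 123684 0) (P.cons (P.lf 0 53334 0) (P.lf 5925 0 0)))) (P.cons (P.cons (P.lf 11197554 0 0) (P.cons (P.lf 0 369432 0) (P.cons (P.lf 0 159303 0) (P.lf 17700 0 0)))) (P.cons (P.cons (P.lf 6111777 0 0) (P.cons (P.lf 0 365400 0) (P.cons (P.lf 0 157563 0) (P.lf 17505 0 0)))) (P.cons (P.cons (P.lf 159189 0 0) (P.cons (P.lf 0 116448 0) (P.cons (P.lf 0 50214 0) P.nil))) (P.cons (P.cons (P.lf 0 138735 0) (P.cons (P.lf 3972 0 0) P.nil)) (P.cons (P.cons (P.lf 0 468 0) P.nil) P.nil)))))) 10620)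
 (EL.cons 11 (TM.mk (P.cons (P.cons (P.lf 69260109 0 0) (P.cons (P.lf 64522200 0 0) (P.cons (P.lf 0 6622074 0) (P.cons (P.lf 0 1377207 0) (P.lf 114765 0 0))))) (P.cons (P.cons (P.lf 68612925 0 0) (P.cons (P.lf 63919287 0 0) (P.cons (P.lf 0 6560196 0) (P.cons (P.lf 0 1364337 0) (P.lf 113694 0 0))))) (P.cons (P.cons (P.lf 0 967632 0) (P.cons (P.lf 0 901440 0) (P.cons (P.lf 92517 0 0) (P.cons (P.lf 19239 0 0) P.nil)))) (P.cons (P.cons (P.lf 0 317313 0) (P.cons (P.lf 0 295608 0) (P.cons (P.lf 30339 0 0) P.nil))) (P.cons (P.cons (P.lf 3900 0 0) (P.cons (P.lf 3633 0 0) P.nil)) (P.cons (P.cons (P.lf 759 0 0) P.nil) P.nil)))))) 9993)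
 EL.nil)))
noncomputable def S256_270_216_364_24 : EL := (EL.cons 4 (TM.mk (P.cons (P.cons (P.lf 71461056 0 0) (P.cons (P.lf 0 15505746 0) (P.cons (P.lf 0 6367683 0) (P.cons (P.lf 1017657 0 0) (P.cons (P.lf 28707 0 0) (P.cons (P.lf 0 13161 0) P.nil)))))) (P.cons (P.cons (P.lf 70302669 0 0) (P.cons (P.lf 0 17900292 0) (P.cons (P.lf 0 7090005 0) (P.cons (P.lf 1399938 0 0) (P.cons (P.lf 56664 0 0) P.nil))))) (P.cons (P.cons (P.lf 0 3846939 0) (P.cons (P.lf 0 1744677 0) (P.cons (P.lf 0 454482 0) (P.cons (P.lf 340455 0 0) P.nil)))) (P.cons (P.cons (P.lf 0 2504670 0) (P.cons (P.lf 669588 0 0) (P.cons (P.lf 272391 0 0) P.nil))) (P.cons (P.cons (P.lf 209454 0 0) (P.cons (P.lf 12495 0 0) P.nil)) (P.cons (P.cons (P.lf 23160 0 0) P.nil) P.nil)))))) 229239)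
 (EL.cons 8 (TM.mk (P.cons (P.cons (P.lf 2607786 0 0) (P.cons (P.lf 0 565842 0) (P.cons (P.lf 0 232371 0) (P.cons (P.lf 37134 0 0) (P.cons (P.lf 1047 0 0) (P.cons (P.lf 0 480 0) P.nil)))))) (P.cons (P.cons (P.lf 5178180 0 0) (P.cons (P.lf 0 1220124 0) (P.cons (P.lf 0 491538 0) (P.cons (P.lf 88293 0 0) (P.cons (P.lf 3117 0 0) P.nil))))) (P.cons (P.cons (P.lf 2437257 0 0) (P.cons (P.lf 0 719703 0) (P.cons (P.lf 0 276453 0) (P.cons (P.lf 63708 0 0) P.nil)))) (P.cons (P.cons (P.lf 0 222381 0) (P.cons (P.lf 0 41718 0) (P.cons (P.lf 0 7620 0) P.nil))) (P.cons (P.cons (P.lf 0 81891 0) (P.cons (P.lf 24138 0 0) P.nil)) (P.cons (P.cons (P.lf 8127 0 0) P.nil) P.nil)))))) 50079)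
 (EL.cons 11 (TM.mk (P.cons (P.cons (P.lf 33555843 0 0) (P.cons (P.lf 24750435 0 0) (P.cons (P.lf 0 12080097 0) (P.cons (P.lf 0 2348037 0) (P.cons (P.lf 744015 0 0) (P.cons (P.lf 15207 0 0) P.nil)))))) (P.cons (P.cons (P.lf 30064989 0 0) (P.cons (P.lf 21632223 0 0) (P.cons (P.lf 0 11563929 0) (P.cons (P.lf 0 2244066 0) (P.cons (P.lf 724077 0 0) P.nil))))) (P.cons (P.cons (P.lf 0 3747030 0) (P.cons (P.lf 0 3291330 0) (P.cons (P.lf 629967 0 0) (P.cons (P.lf 125982 0 0) P.nil)))) (P.cons (P.cons (P.lf 0 213180 0) (P.cons (P.lf 0 134439 0) (P.cons (P.lf 107814 0 0) P.nil))) (P.cons (P.cons (P.lf 43839 0 0) (P.cons (P.lf 39132 0 0) P.nil)) (P.cons (P.cons (P.lf 612 0 0) P.nil) P.nil)))))) 210975)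
 EL.nil)))
noncomputable def S256_270_216_364_25 : EL := (EL.cons 4 (TM.mk (P.cons (P.cons (P.lf 8058732 0 0) (P.cons (P.lf 0 185178 0) (P.cons (P.lf 0 79851 0) (P.lf 8871 0 0)))) (P.cons (P.cons (P.lf 16734840 0 0) (P.cons (P.lf 0 552423 0) (P.cons (P.lf 0 238209 0) (P.lf 26466 0 0)))) (P.cons (P.cons (P.lf 9072864 0 0) (P.cons (P.lf 0 544665 0) (P.cons (P.lf 0 234864 0) (P.lf 26094 0 0)))) (P.cons (P.cons (P.lf 172965 0 0) (P.cons (P.lf 0 171273 0) (P.cons (P.lf 0 73854 0) P.nil))) (P.cons (P.cons (P.lf 0 225516 0) (P.cons (P.lf 7614 0 0) P.nil)) (P.cons (P.cons (P.lf 0 276 0) P.nil) P.nil)))))) 16794)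
 (EL.cons 8 (TM.mk (P.cons (P.cons (P.lf 294081 0 0) (P.cons (P.lf 0 6756 0) (P.cons (P.lf 0 2913 0) (P.lf 321 0 0)))) (P.cons (P.cons (P.lf 905328 0 0) (P.cons (P.lf 0 26928 0) (P.cons (P.lf 0 11610 0) (P.lf 1290 0 0)))) (P.cons (P.cons (P.lf 943755 0 0) (P.cons (P.lf 0 40092 0) (P.cons (P.lf 0 17286 0) (P.lf 1920 0 0)))) (P.cons (P.cons (P.lf 340014 0 0) (P.cons (P.lf 0 26226 0) (P.cons (P.lf 0 11307 0) P.nil))) (P.cons (P.cons (P.lf 0 396 0) (P.cons (P.lf 0 6057 0) P.nil)) (P.cons (P.cons (P.lf 0 7920 0) P.nil) P.nil)))))) 5529)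
 (EL.cons 11 (TM.mk (P.cons (P.cons (P.lf 3784125 0 0) (P.cons (P.lf 3525261 0 0) (P.cons (P.lf 0 361806 0) (P.cons (P.lf 0 75243 0) (P.lf 6270 0 0))))) (P.cons (P.cons (P.lf 7525824 0 0) (P.cons (P.lf 7011000 0 0) (P.cons (P.lf 0 719556 0) (P.cons (P.lf 0 149646 0) (P.lf 12468 0 0))))) (P.cons (P.cons (P.lf 3678309 0 0) (P.cons (P.lf 3426684 0 0) (P.cons (P.lf 0 351687 0) (P.cons (P.lf 0 73140 0) P.nil)))) (P.cons (P.cons (P.lf 0 84099 0) (P.cons (P.lf 0 78345 0) (P.cons (P.lf 8040 0 0) P.nil))) (P.cons (P.cons (P.lf 0 20400 0) (P.cons (P.lf 0 19005 0) P.nil)) (P.cons (P.cons (P.lf 369 0 0) P.nil) P.nil)))))) 11235)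
 EL.nil)))
noncomputable def S256_270_216_364_26 : EL := (EL.cons 4 (TM.mk (P.cons (P.cons (P.lf 3904377 0 0) (P.cons (P.lf 0 847176 0) (P.cons (P.lf 0 347907 0) (P.cons (P.lf 55599 0 0) (P.cons (P.lf 1566 0 0) (P.cons (P.lf 0 717 0) P.nil)))))) (P.cons (P.cons (P.lf 7738173 0 0) (P.cons (P.lf 0 1823604 0) (P.cons (P.lf 0 734628 0) (P.cons (P.lf 131982 0 0) (P.cons (P.lf 4659 0 0) P.nil))))) (P.cons (P.cons (P.lf 3612807 0 0) (P.cons (P.lf 0 1069134 0) (P.cons (P.lf 0 410505 0) (P.cons (P.lf 94788 0 0) P.nil)))) (P.cons (P.cons (P.lf 0 360999 0) (P.cons (P.lf 0 55038 0) (P.cons (P.lf 0 8496 0) P.nil))) (P.cons (P.cons (P.lf 0 128100 0) (P.cons (P.lf 38367 0 0) P.nil)) (P.cons (P.cons (P.lf 13284 0 0) P.nil) P.nil)))))) 77901)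
 (EL.cons 8 (TM.mk (P.cons (P.cons (P.lf 142479 0 0) (P.cons (P.lf 0 30915 0) (P.cons (P.lf 0 12693 0) (P.cons (P.lf 2028 0 0) (P.cons (P.lf 57 0 0) (P.cons (P.lf 0 24 0) P.nil)))))) (P.cons (P.cons (P.lf 425130 0 0) (P.cons (P.lf 0 97521 0) (P.cons (P.lf 0 39528 0) (P.cons (P.lf 6849 0 0) (P.cons (P.lf 225 0 0) P.nil))))) (P.cons (P.cons (P.lf 415152 0 0) (P.cons (P.lf 0 105774 0) (P.cons (P.lf 0 41874 0) (P.cons (P.lf 8289 0 0) P.nil)))) (P.cons (P.cons (P.lf 119838 0 0) (P.cons (P.lf 0 41310 0) (P.cons (P.lf 0 15405 0) P.nil))) (P.cons (P.cons (P.lf 0 17235 0) (P.cons (P.lf 0 783 0) P.nil)) (P.cons (P.cons (P.lf 0 4110 0) P.nil) P.nil)))))) 14562)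
 (EL.cons 11 (TM.mk (P.cons (P.cons (P.lf 1833369 0 0) (P.cons (P.lf 1352274 0 0) (P.cons (P.lf 0 660012 0) (P.cons (P.lf 0 128286 0) (P.cons (P.lf 40650 0 0) (P.cons (P.lf 831 0 0) P.nil)))))) (P.cons (P.cons (P.lf 3472590 0 0) (P.cons (P.lf 2531655 0 0) (P.cons (P.lf 0 1290591 0) (P.cons (P.lf 0 250656 0) (P.cons (P.lf 80133 0 0) P.nil))))) (P.cons (P.cons (P.lf 1429722 0 0) (P.cons (P.lf 996090 0 0) (P.cons (P.lf 0 594363 0) (P.cons (P.lf 0 115134 0) P.nil)))) (P.cons (P.cons (P.lf 0 222282 0) (P.cons (P.lf 0 191394 0) (P.cons (P.lf 42624 0 0) P.nil))) (P.cons (P.cons (P.lf 0 10170 0) (P.cons (P.lf 0 5778 0) P.nil)) (P.cons (P.cons (P.lf 2655 0 0) P.nil) P.nil)))))) 86031)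
 EL.nil)))
noncomputable def S256_270_216_364_27 : EL := (EL.cons 13 (TM.mk (P.lf 0 4294967296 0) 0)
 EL.nil)
noncomputable def S256_270_216_364_28 : EL := (EL.cons 13 (TM.mk (P.cons (P.cons (P.lf 0 2080869532 0) (P.cons (P.lf 403695060 0 0) (P.cons (P.lf 174077864 0 0) (P.lf 0 19341984 0)))) (P.cons (P.cons (P.lf 197031176 0 0) (P.cons (P.lf 0 4527524 0) (P.cons (P.lf 0 1952320 0) (P.lf 216920 0 0)))) (P.cons (P.cons (P.lf 8099488 0 0) (P.cons (P.lf 0 2238380 0) (P.cons (P.lf 0 965212 0) (P.lf 107244 0 0)))) (P.cons (P.cons (P.lf 0 1584775 0) (P.cons (P.lf 25276 0 0) (P.cons (P.lf 10900 0 0) P.nil))) (P.cons (P.cons (P.lf 0 15623 0) (P.cons (P.lf 6192 0 0) P.nil)) (P.cons (P.cons (P.lf 4105 0 0) P.nil) P.nil)))))) 4925)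
 EL.nil)
noncomputable def S256_270_216_364_29 : EL := (EL.cons 13 (TM.mk (P.cons (P.cons (P.lf 0 1008160880 0) (P.cons (P.lf 391172594 0 0) (P.cons (P.lf 130733695 0 0) (P.cons (P.lf 0 51466058 0) (P.cons (P.lf 0 3419484 0) (P.cons (P.lf 1567886 0 0) P.nil)))))) (P.cons (P.cons (P.lf 190919344 0 0) (P.cons (P.lf 0 41426019 0) (P.cons (P.lf 0 17012260 0) (P.cons (P.lf 2718828 0 0) (P.cons (P.lf 76701 0 0) P.nil))))) (P.cons (P.cons (P.lf 0 1190539 0) (P.cons (P.lf 0 3276130 0) (P.cons (P.lf 0 996692 0) (P.cons (P.lf 515741 0 0) P.nil)))) (P.cons (P.cons (P.lf 0 2278742 0) (P.cons (P.lf 544853 0 0) (P.cons (P.lf 225476 0 0) P.nil))) (P.cons (P.cons (P.lf 114990 0 0) (P.cons (P.lf 11718 0 0) P.nil)) (P.cons (P.cons (P.lf 11388 0 0) P.nil) P.nil)))))) 323211)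
 EL.nil)
noncomputable def S256_270_216_364_30 : EL := (EL.cons 13 (TM.mk (P.cons (P.lf 0 234661708 0) (P.cons (P.lf 0 234223488 0) (P.cons (P.lf 656512 0 0) (P.cons (P.lf 217472 0 0) (P.cons (P.lf 0 1016 0) (P.cons (P.lf 0 200 0) P.nil)))))) 32)
 EL.nil)
noncomputable def S256_270_216_364_31 : EL := (EL.cons 13 (TM.mk (P.cons (P.cons (P.lf 0 113691296 0) (P.cons (P.lf 22056459 0 0) (P.cons (P.lf 9510994 0 0) (P.lf 0 1056777 0)))) (P.cons (P.cons (P.lf 0 102713901 0) (P.cons (P.lf 21767902 0 0) (P.cons (P.lf 9386565 0 0) (P.lf 0 1042951 0)))) (P.cons (P.cons (P.lf 11505578 0 0) (P.cons (P.lf 0 430910 0) (P.cons (P.lf 0 185813 0) (P.lf 20645 0 0)))) (P.cons (P.cons (P.lf 430359 0 0) (P.cons (P.lf 0 140436 0) (P.cons (P.lf 0 60557 0) P.nil))) (P.cons (P.cons (P.lf 0 98985 0) (P.cons (P.lf 2383 0 0) P.nil)) (P.cons (P.cons (P.lf 0 845 0) P.nil) P.nil)))))) 9218)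
 EL.nil)
noncomputable def S256_270_216_364_32 : EL := (EL.cons 13 (TM.mk (P.cons (P.cons (P.lf 0 55082317 0) (P.cons (P.lf 21372276 0 0) (P.cons (P.lf 7142823 0 0) (P.cons (P.lf 0 2811922 0) (P.cons (P.lf 0 186828 0) (P.cons (P.lf 85663 0 0) P.nil)))))) (P.cons (P.cons (P.lf 0 44548301 0) (P.cons (P.lf 19068994 0 0) (P.cons (P.lf 6199995 0 0) (P.cons (P.lf 0 2658123 0) (P.cons (P.lf 0 182288 0) P.nil))))) (P.cons (P.cons (P.lf 10500729 0 0) (P.cons (P.lf 0 2497932 0) (P.cons (P.lf 0 1002192 0) (P.cons (P.lf 184314 0 0) P.nil)))) (P.cons (P.cons (P.lf 0 167563 0) (P.cons (P.lf 0 162367 0) (P.cons (P.lf 0 46053 0) P.nil))) (P.cons (P.cons (P.lf 0 127710 0) (P.cons (P.lf 33044 0 0) P.nil)) (P.cons (P.cons (P.lf 7299 0 0) P.nil) P.nil)))))) 172680)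
 EL.nil)
noncomputable def S256_270_216_364_33 : EL := (EL.cons 14 (TM.mk (P.lf 8589934592 0 0) 0)
 EL.nil)
noncomputable def S256_270_216_364_34 : EL := (EL.cons 14 (TM.mk (P.cons (P.cons (P.lf 4161739064 0 0) (P.cons (P.lf 0 807390120 0) (P.cons (P.lf 0 348155728 0) (P.lf 38683968 0 0)))) (P.cons (P.cons (P.lf 0 394062352 0) (P.cons (P.lf 9055048 0 0) (P.cons (P.lf 3904640 0 0) (P.lf 0 433840 0)))) (P.cons (P.cons (P.lf 0 16198976 0) (P.cons (P.lf 4476760 0 0) (P.cons (P.lf 1930424 0 0) (P.lf 0 214488 0)))) (P.cons (P.cons (P.lf 3169550 0 0) (P.cons (P.lf 0 50552 0) (P.cons (P.lf 0 21800 0) P.nil))) (P.cons (P.cons (P.lf 31246 0 0) (P.cons (P.lf 0 12384 0) P.nil)) (P.cons (P.cons (P.lf 0 8210 0) P.nil) P.nil)))))) 9850)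
 EL.nil)
noncomputable def S256_270_216_364_35 : EL := (EL.cons 14 (TM.mk (P.cons (P.cons (P.lf 2016321760 0 0) (P.cons (P.lf 0 782345188 0) (P.cons (P.lf 0 261467390 0) (P.cons (P.lf 102932116 0 0) (P.cons (P.lf 6838968 0 0) (P.cons (P.lf 0 3135772 0) P.nil)))))) (P.cons (P.cons (P.lf 0 381838688 0) (P.cons (P.lf 82852038 0 0) (P.cons (P.lf 34024520 0 0) (P.cons (P.lf 0 5437656 0) (P.cons (P.lf 0 153402 0) P.nil))))) (P.cons (P.cons (P.lf 2381078 0 0) (P.cons (P.lf 6552260 0 0) (P.cons (P.lf 1993384 0 0) (P.cons (P.lf 0 1031482 0) P.nil)))) (P.cons (P.cons (P.lf 4557484 0 0) (P.cons (P.lf 0 1089706 0) (P.cons (P.lf 0 450952 0) P.nil))) (P.cons (P.cons (P.lf 0 229980 0) (P.cons (P.lf 0 23436 0) P.nil)) (P.cons (P.cons (P.lf 0 22776 0) P.nil) P.nil)))))) 646422)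
 EL.nil)
noncomputable def S256_270_216_364_36 : EL := (EL.cons 14 (TM.mk (P.cons (P.lf 469323416 0 0) (P.cons (P.lf 468446976 0 0) (P.cons (P.lf 0 1313024 0) (P.cons (P.lf 0 434944 0) (P.cons (P.lf 2032 0 0) (P.cons (P.lf 400 0 0) P.nil)))))) 64)
 EL.nil)
noncomputable def S256_270_216_364_37 : EL := (EL.cons 14 (TM.mk (P.cons (P.cons (P.lf 227382592 0 0) (P.cons (P.lf 0 44112918 0) (P.cons (P.lf 0 19021988 0) (P.lf 2113554 0 0)))) (P.cons (P.cons (P.lf 205427802 0 0) (P.cons (P.lf 0 43535804 0) (P.cons (P.lf 0 18773130 0) (P.lf 2085902 0 0)))) (P.cons (P.cons (P.lf 0 23011156 0) (P.cons (P.lf 861820 0 0) (P.cons (P.lf 371626 0 0) (P.lf 0 41290 0)))) (P.cons (P.cons (P.lf 0 860718 0) (P.cons (P.lf 280872 0 0) (P.cons (P.lf 121114 0 0) P.nil))) (P.cons (P.cons (P.lf 197970 0 0) (P.cons (P.lf 0 4766 0) P.nil)) (P.cons (P.cons (P.lf 1690 0 0) P.nil) P.nil))))))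 18436)
 EL.nil)
noncomputable def S256_270_216_364_38 : EL := (EL.cons 14 (TM.mk (P.cons (P.cons (P.lf 110164634 0 0) (P.cons (P.lf 0 42744552 0) (P.cons (P.lf 0 14285646 0) (P.cons (P.lf 5623844 0 0) (P.cons (P.lf 373656 0 0) (P.cons (P.lf 0 171326 0) P.nil)))))) (P.cons (P.cons (P.lf 89096602 0 0) (P.cons (P.lf 0 38137988 0) (P.cons (P.lf 0 12399990 0) (P.cons (P.lf 5316246 0 0) (P.cons (P.lf 364576 0 0) P.nil))))) (P.cons (P.cons (P.lf 0 21001458 0) (P.cons (P.lf 4995864 0 0) (P.cons (P.lf 2004384 0 0) (P.cons (P.lf 0 368628 0) P.nil)))) (P.cons (P.cons (P.lf 335126 0 0) (P.cons (P.lf 324734 0 0) (P.cons (P.lf 92106 0 0) P.nil))) (P.cons (P.cons (P.lf 255420 0 0) (P.cons (P.lf 0 66088 0) P.nil)) (P.cons (P.cons (P.lf 0 14598 0) P.nil) P.nil)))))) 345360)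
 EL.nil)
noncomputable def S256_270_216_364_39 : EL := (EL.cons 14 (TM.mk (P.cons (P.lf 25642158 0 0) (P.cons (P.lf 51188546 0 0) (P.cons (P.lf 25402998 0 0) (P.cons (P.lf 0 190736 0) (P.cons (P.lf 0 47016 0) (P.cons (P.lf 398 0 0) P.nil)))))) 94)
 EL.nil)
noncomputable def S256_270_216_364_40 : EL := (EL.cons 14 (TM.mk (P.cons (P.cons (P.lf 12423374 0 0) (P.cons (P.lf 0 2410172 0) (P.cons (P.lf 0 1039292 0) (P.lf 115476 0 0)))) (P.cons (P.cons (P.lf 23624016 0 0) (P.cons (P.lf 0 4784312 0) (P.cons (P.lf 0 2063048 0) (P.lf 229226 0 0)))) (P.cons (P.cons (P.lf 9910876 0 0) (P.cons (P.lf 0 2320368 0) (P.cons (P.lf 0 1000568 0) (P.lf 111174 0 0)))) (P.cons (P.cons (P.lf 0 1344838 0) (P.cons (P.lf 71232 0 0) (P.cons (P.lf 30716 0 0) P.nil))) (P.cons (P.cons (P.lf 0 42952 0) (P.cons (P.lf 17118 0 0) P.nil)) (P.cons (P.cons (P.lf 12244 0 0) P.nil) P.nil)))))) 13326)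
 EL.nil)
noncomputable def S256_270_216_364_41 : EL := (EL.cons 14 (TM.mk (P.cons (P.cons (P.lf 6019002 0 0) (P.cons (P.lf 0 2335408 0) (P.cons (P.lf 0 780516 0) (P.cons (P.lf 307266 0 0) (P.cons (P.lf 20414 0 0) (P.cons (P.lf 0 9360 0) P.nil)))))) (P.cons (P.cons (P.lf 10875682 0 0) (P.cons (P.lf 0 4414772 0) (P.cons (P.lf 0 1456550 0) (P.cons (P.lf 597152 0 0) (P.cons (P.lf 40296 0 0) P.nil))))) (P.cons (P.cons (P.lf 3694544 0 0) (P.cons (P.lf 0 1800342 0) (P.cons (P.lf 0 564528 0) (P.cons (P.lf 268918 0 0) P.nil)))) (P.cons (P.cons (P.lf 0 1146188 0) (P.cons (P.lf 298182 0 0) (P.cons (P.lf 116958 0 0) P.nil))) (P.cons (P.cons (P.lf 30956 0 0) (P.cons (P.lf 15254 0 0) P.nil)) (P.cons (P.cons (P.lf 14168 0 0) P.nil) P.nil)))))) 103494)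
 EL.nil)
noncomputable def S256_270_216_364_42 : EL := (EL.cons 14 (TM.mk (P.cons (P.lf 1400996 0 0) (P.cons (P.lf 4195138 0 0) (P.cons (P.lf 4175546 0 0) (P.cons (P.lf 1365792 0 0) (P.cons (P.lf 0 19438 0) (P.cons (P.lf 0 3786 0) P.nil)))))) 74)
 EL.nil)
noncomputable def S256_270_216_364_43 : EL := (EL.cons 14 (TM.mk (P.cons (P.cons (P.lf 678768 0 0) (P.cons (P.lf 0 131682 0) (P.cons (P.lf 0 56782 0) (P.lf 6308 0 0)))) (P.cons (P.cons (P.lf 1968232 0 0) (P.cons (P.lf 0 392834 0) (P.cons (P.lf 0 169394 0) (P.lf 18820 0 0)))) (P.cons (P.cons (P.lf 1827916 0 0) (P.cons (P.lf 0 387316 0) (P.cons (P.lf 0 167014 0) (P.lf 18556 0 0)))) (P.cons (P.cons (P.lf 462764 0 0) (P.cons (P.lf 0 121794 0) (P.cons (P.lf 0 52518 0) P.nil))) (P.cons (P.cons (P.lf 0 78394 0) (P.cons (P.lf 5416 0 0) P.nil)) (P.cons (P.cons (P.lf 0 1962 0) P.nil) P.nil)))))) 11638)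
 EL.nil)
noncomputable def S256_270_216_364_44 : EL := (EL.cons 14 (TM.mk (P.cons (P.cons (P.lf 328856 0 0) (P.cons (P.lf 0 127598 0) (P.cons (P.lf 0 42644 0) (P.cons (P.lf 16786 0 0) (P.cons (P.lf 1114 0 0) (P.cons (P.lf 0 510 0) P.nil)))))) (P.cons (P.cons (P.lf 922450 0 0) (P.cons (P.lf 0 368566 0) (P.cons (P.lf 0 122144 0) (P.cons (P.lf 49382 0 0) (P.cons (P.lf 3314 0 0) P.nil))))) (P.cons (P.cons (P.lf 794034 0 0) (P.cons (P.lf 0 338764 0) (P.cons (P.lf 0 110156 0) (P.cons (P.lf 47210 0 0) P.nil)))) (P.cons (P.cons (P.lf 136888 0 0) (P.cons (P.lf 0 81094 0) (P.cons (P.lf 0 24132 0) P.nil))) (P.cons (P.cons (P.lf 0 61928 0) (P.cons (P.lf 17592 0 0) P.nil)) (P.cons (P.cons (P.lf 2452 0 0) P.nil) P.nil)))))) 41880)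
 EL.nil)
noncomputable def S256_270_216_364_45 : EL := (EL.cons 14 (TM.mk (P.cons (P.cons (P.lf 976888116 0 0) (P.cons (P.lf 0 568557856 0) (P.cons (P.lf 0 134866596 0) (P.cons (P.lf 115234878 0 0) (P.cons (P.lf 712784 0 0) (P.cons (P.lf 0 7511462 0) P.nil)))))) (P.cons (P.cons (P.lf 0 277495648 0) (P.cons (P.lf 114046504 0 0) (P.cons (P.lf 36259864 0 0) (P.cons (P.lf 0 16365248 0) (P.cons (P.lf 0 853712 0) P.nil))))) (P.cons (P.cons (P.lf 14868020 0 0) (P.cons (P.lf 1273546 0 0) (P.cons (P.lf 0 855218 0) (P.cons (P.lf 0 1156226 0) P.nil)))) (P.cons (P.cons (P.lf 3562890 0 0) (P.cons (P.lf 0 1910178 0) (P.cons (P.lf 0 588016 0) P.nil))) (P.cons (P.cons (P.lf 0 458544 0) (P.cons (P.lf 81006 0 0) P.nil)) (P.cons (P.cons (P.lf 0 11516 0) P.nil) P.nil)))))) 3183124)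
 EL.nil)
noncomputable def S256_270_216_364_46 : EL := (EL.cons 15 (TM.mk (P.lf 4294967296 0 0) 0)
 EL.nil)
noncomputable def S256_270_216_364_47 : EL := (EL.cons 15 (TM.mk (P.cons (P.cons (P.lf 2080869532 0 0) (P.cons (P.lf 0 403695060 0) (P.cons (P.lf 0 174077864 0) (P.lf 19341984 0 0)))) (P.cons (P.cons (P.lf 0 197031176 0) (P.cons (P.lf 4527524 0 0) (P.cons (P.lf 1952320 0 0) (P.lf 0 216920 0)))) (P.cons (P.cons (P.lf 0 8099488 0) (P.cons (P.lf 2238380 0 0) (P.cons (P.lf 965212 0 0) (P.lf 0 107244 0)))) (P.cons (P.cons (P.lf 1584775 0 0) (P.cons (P.lf 0 25276 0) (P.cons (P.lf 0 10900 0) P.nil))) (P.cons (P.cons (P.lf 15623 0 0) (P.cons (P.lf 0 6192 0) P.nil)) (P.cons (P.cons (P.lf 0 4105 0) P.nil) P.nil)))))) 4925)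
 EL.nil)
noncomputable def S256_270_216_364_48 : EL := (EL.cons 15 (TM.mk (P.cons (P.cons (P.lf 1008160880 0 0) (P.cons (P.lf 0 391172594 0) (P.cons (P.lf 0 130733695 0) (P.cons (P.lf 51466058 0 0) (P.cons (P.lf 3419484 0 0) (P.cons (P.lf 0 1567886 0) P.nil)))))) (P.cons (P.cons (P.lf 0 190919344 0) (P.cons (P.lf 41426019 0 0) (P.cons (P.lf 17012260 0 0) (P.cons (P.lf 0 2718828 0) (P.cons (P.lf 0 76701 0) P.nil))))) (P.cons (P.cons (P.lf 1190539 0 0) (P.cons (P.lf 3276130 0 0) (P.cons (P.lf 996692 0 0) (P.cons (P.lf 0 515741 0) P.nil)))) (P.cons (P.cons (P.lf 2278742 0 0) (P.cons (P.lf 0 544853 0) (P.cons (P.lf 0 225476 0) P.nil))) (P.cons (P.cons (P.lf 0 114990 0) (P.cons (P.lf 0 11718 0) P.nil)) (P.cons (P.cons (P.lf 0 11388 0) P.nil) P.nil)))))) 323211)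
 EL.nil)
noncomputable def S256_270_216_364 : SL := (SL.cons S256_270_216_364_0 (SL.cons S256_270_216_364_1 (SL.cons S256_270_216_364_2 (SL.cons S256_270_216_364_3 (SL.cons S256_270_216_364_4 (SL.cons S256_270_216_364_5 (SL.cons S256_270_216_364_6 (SL.cons S256_270_216_364_7 (SL.cons S256_270_216_364_8 (SL.cons S256_270_216_364_9 (SL.cons S256_270_216_364_10 (SL.cons S256_270_216_364_11 (SL.cons S256_270_216_364_12 (SL.cons S256_270_216_364_13 (SL.cons S256_270_216_364_14 (SL.cons S256_270_216_364_15 (SL.cons S256_270_216_364_16 (SL.cons S256_270_216_364_17 (SL.cons S256_270_216_364_18 (SL.cons S256_270_216_364_19 (SL.cons S256_270_216_364_20 (SL.cons S256_270_216_364_21 (SL.cons S256_270_216_364_22 (SL.cons S256_270_216_364_23 (SL.cons S256_270_216_364_24 (SL.cons S256_270_216_364_25 (SL.cons S256_270_216_364_26 (SL.cons S256_270_216_364_27 (SL.cons S256_270_216_364_28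 (SL.cons S256_270_216_364_29 (SL.cons S256_270_216_364_30 (SL.cons S256_270_216_364_31 (SL.cons S256_270_216_364_32 (SL.cons S256_270_216_364_33 (SL.cons S256_270_216_364_34 (SL.cons S256_270_216_364_35 (SL.cons S256_270_216_364_36 (SL.cons S256_270_216_364_37 (SL.cons S256_270_216_364_38 (SL.cons S256_270_216_364_39 (SL.cons S256_270_216_364_40 (SL.cons S256_270_216_364_41 (SL.cons S256_270_216_364_42 (SL.cons S256_270_216_364_43 (SL.cons S256_270_216_364_44 (SL.cons S256_270_216_364_45 (SL.cons S256_270_216_364_46 (SL.cons S256_270_216_364_47 (SL.cons S256_270_216_364_48 SL.nil)))))))))))))))))))))))))))))))))))))))))))))))))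
noncomputable def S256_270_364_512_0 : EL := (EL.cons 0 (TM.mk (P.cons (P.lf 8433179811 0 0) (P.cons (P.lf 0 44989933 0) (P.cons (P.lf 0 22326853 0) (P.cons (P.lf 167639 0 0) (P.cons (P.lf 41322 0 0) (P.cons (P.lf 0 349 0) P.nil)))))) 89)
 (EL.cons 1 (TM.mk (P.cons (P.lf 219584518 0 0) (P.cons (P.lf 218353558 0 0) (P.cons (P.lf 0 1842607 0) (P.cons (P.lf 0 607822 0) (P.cons (P.lf 4760 0 0) (P.cons (P.lf 933 0 0) P.nil)))))) 67)
 (EL.cons 5 (TM.mk (P.cons (P.lf 4302980472 0 0) (P.cons (P.lf 15996416 0 0) (P.cons (P.lf 7938434 0 0) (P.cons (P.lf 0 59604 0) (P.cons (P.lf 0 14690 0) (P.cons (P.lf 122 0 0) P.nil)))))) 139)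
 (EL.cons 9 (TM.mk (P.lf 6442450944 0 0) 2)
 EL.nil))))
noncomputable def S256_270_364_512_1 : EL := (EL.cons 0 (TM.mk (P.cons (P.cons (P.lf 1181772803 0 0) (P.cons (P.lf 0 1690466802 0) (P.cons (P.lf 0 113020675 0) (P.lf 37673562 0 0)))) (P.cons (P.cons (P.lf 0 620940082 0) (P.cons (P.lf 55324181 0 0) (P.cons (P.lf 3698839 0 0) (P.lf 0 1232935 0)))) (P.cons (P.cons (P.lf 2897771 0 0) (P.cons (P.lf 27012078 0 0) (P.cons (P.lf 1805953 0 0) (P.lf 0 601983 0)))) (P.cons (P.cons (P.lf 10675429 0 0) (P.cons (P.lf 0 645391 0) (P.cons (P.lf 0 43143 0) P.nil))) (P.cons (P.cons (P.lf 0 112416 0) (P.cons (P.lf 0 155598 0) P.nil)) (P.cons (P.cons (P.lf 0 56021 0) P.nil) P.nil)))))) 35396)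
 (EL.cons 1 (TM.mk (P.cons (P.cons (P.lf 1276597395 0 0) (P.cons (P.lf 0 110681701 0) (P.cons (P.lf 0 7399918 0) (P.lf 2466636 0 0)))) (P.cons (P.cons (P.lf 20068791 0 0) (P.cons (P.lf 0 108320407 0) (P.cons (P.lf 0 7242045 0) (P.lf 2414013 0 0)))) (P.cons (P.cons (P.lf 0 48474413 0) (P.cons (P.lf 3519554 0 0) (P.cons (P.lf 235303 0 0) (P.lf 0 78428 0)))) (P.cons (P.cons (P.lf 540370 0 0) (P.cons (P.lf 1136012 0 0) (P.cons (P.lf 75945 0 0) P.nil))) (P.cons (P.cons (P.lf 442192 0 0) (P.cons (P.lf 0 27623 0) P.nil)) (P.cons (P.cons (P.lf 0 5405 0) P.nil) P.nil)))))) 38071)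
 (EL.cons 5 (TM.mk (P.cons (P.cons (P.lf 824050624 0 0) (P.cons (P.lf 0 874379732 0) (P.cons (P.lf 0 58458994 0) (P.lf 19486330 0 0)))) (P.cons (P.cons (P.lf 0 88455118 0) (P.cons (P.lf 0 3123498 0) (P.cons (P.lf 0 208828 0) (P.lf 69602 0 0)))) (P.cons (P.cons (P.lf 0 2084024 0) (P.cons (P.lf 0 1423394 0) (P.cons (P.lf 0 95160 0) (P.lf 31716 0 0)))) (P.cons (P.cons (P.lf 0 1245183 0) (P.cons (P.lf 137076 0 0) (P.cons (P.lf 9160 0 0) P.nil))) (P.cons (P.cons (P.lf 31338 0 0) (P.cons (P.lf 32676 0 0) P.nil)) (P.cons (P.cons (P.lf 13346 0 0) P.nil) P.nil)))))) 21192)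
 (EL.cons 9 (TM.mk (P.cons (P.cons (P.lf 1097855742 0 0) (P.cons (P.lf 0 1301854050 0) (P.cons (P.lf 0 87038928 0) (P.lf 29012976 0 0)))) (P.cons (P.cons (P.lf 0 272853354 0) (P.cons (P.lf 14600568 0 0) (P.cons (P.lf 976158 0 0) (P.lf 0 325380 0)))) (P.cons (P.cons (P.lf 0 929736 0) (P.cons (P.lf 7218432 0 0) (P.cons (P.lf 482604 0 0) (P.lf 0 160866 0)))) (P.cons (P.cons (P.lf 2250454 0 0) (P.cons (P.lf 0 81522 0) (P.cons (P.lf 0 5448 0) P.nil))) (P.cons (P.cons (P.lf 0 7614 0) (P.cons (P.lf 0 19974 0) P.nil)) (P.cons (P.cons (P.lf 0 5785 0) P.nil) P.nil)))))) 4616)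
 (EL.cons 2 (TM.mk (P.cons (P.cons (P.lf 0 152470141 0) (P.cons (P.lf 0 23606206 0) (P.cons (P.lf 11372723 0 0) (P.cons (P.lf 430377 0 0) (P.lf 0 107592 0))))) (P.cons (P.cons (P.lf 0 151045419 0) (P.cons (P.lf 0 23385622 0) (P.cons (P.lf 11266455 0 0) (P.cons (P.lf 426355 0 0) (P.lf 0 106588 0))))) (P.cons (P.cons (P.lf 2130159 0 0) (P.cons (P.lf 329802 0 0) (P.cons (P.lf 0 158886 0) (P.cons (P.lf 0 6010 0) P.nil)))) (P.cons (P.cons (P.lf 698540 0 0) (P.cons (P.lf 108151 0 0) (P.cons (P.lf 0 52101 0) P.nil))) (P.cons (P.cons (P.lf 0 8583 0) (P.cons (P.lf 0 1327 0) P.nil)) (P.cons (P.cons (P.lf 0 1673 0) P.nil) P.nil)))))) 5257)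
 (EL.cons 6 (TM.mk (P.cons (P.cons (P.lf 1485557223 0 0) (P.cons (P.lf 230001564 0 0) (P.cons (P.lf 0 110807499 0) (P.cons (P.lf 0 4193280 0) (P.lf 1048317 0 0))))) (P.cons (P.cons (P.lf 0 16660845 0) (P.cons (P.lf 0 2579517 0) (P.cons (P.lf 1242726 0 0) (P.cons (P.lf 47025 0 0) (P.lf 0 11754 0))))) (P.cons (P.cons (P.lf 0 8237022 0) (P.cons (P.lf 0 1275297 0) (P.cons (P.lf 614397 0 0) (P.cons (P.lf 23250 0 0) P.nil)))) (P.cons (P.cons (P.lf 93027 0 0) (P.cons (P.lf 14400 0 0) (P.cons (P.lf 0 6936 0) P.nil))) (P.cons (P.cons (P.lf 22794 0 0) (P.cons (P.lf 3528 0 0) P.nil)) (P.cons (P.cons (P.lf 0 270 0) P.nil) P.nil)))))) 8391)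
 EL.nil))))))
noncomputable def S256_270_364_512_2 : EL := (EL.cons 0 (TM.mk (P.cons (P.cons (P.lf 157876089 0 0) (P.cons (P.lf 0 472955497 0) (P.cons (P.lf 307218421 0 0) (P.cons (P.lf 55848226 0 0) (P.cons (P.lf 0 13588077 0) (P.cons (P.lf 0 1009734 0) P.nil)))))) (P.cons (P.cons (P.lf 0 188694821 0) (P.cons (P.lf 264394609 0 0) (P.cons (P.lf 0 2783332 0) (P.cons (P.lf 0 8628089 0) (P.cons (P.lf 820482 0 0) P.nil))))) (P.cons (P.cons (P.lf 38530053 0 0) (P.cons (P.lf 844364 0 0) (P.cons (P.lf 0 9751878 0) (P.cons (P.lf 0 1330335 0) P.nil)))) (P.cons (P.cons (P.lf 3042033 0 0) (P.cons (P.lf 0 6972754 0) (P.cons (P.lf 0 49535 0) P.nil))) (P.cons (P.cons (P.lf 0 1081181 0) (P.cons (P.lf 124938 0 0) P.nil)) (P.cons (P.cons (P.lf 0 6788 0) P.nil) P.nil)))))) 1259096)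
 (EL.cons 1 (TM.mk (P.cons (P.cons (P.lf 428712385 0 0) (P.cons (P.lf 0 538534653 0) (P.cons (P.lf 0 239828 0) (P.cons (P.lf 16784094 0 0) (P.cons (P.lf 0 1434249 0) (P.cons (P.lf 0 106574 0) P.nil)))))) (P.cons (P.cons (P.lf 0 104465394 0) (P.cons (P.lf 0 18756832 0) (P.cons (P.lf 33306700 0 0) (P.cons (P.lf 5039314 0 0) (P.cons (P.lf 0 1385946 0) P.nil))))) (P.cons (P.cons (P.lf 0 15767132 0) (P.cons (P.lf 28861739 0 0) (P.cons (P.lf 141744 0 0) (P.cons (P.lf 0 882265 0) P.nil)))) (P.cons (P.cons (P.lf 4757554 0 0) (P.cons (P.lf 0 392618 0) (P.cons (P.lf 0 590695 0) P.nil))) (P.cons (P.cons (P.lf 102145 0 0) (P.cons (P.lf 0 411471 0) P.nil)) (P.cons (P.cons (P.lf 0 67696 0) P.nil) P.nil)))))) 452823)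
 (EL.cons 5 (TM.mk (P.cons (P.cons (P.lf 155896162 0 0) (P.cons (P.lf 0 334694600 0) (P.cons (P.lf 155294447 0 0) (P.cons (P.lf 31216341 0 0) (P.cons (P.lf 0 7124937 0) (P.cons (P.lf 0 529448 0) P.nil)))))) (P.cons (P.cons (P.lf 0 38301362 0) (P.cons (P.lf 36609125 0 0) (P.cons (P.lf 3034740 0 0) (P.cons (P.lf 0 737366 0) (P.cons (P.lf 0 23532 0) P.nil))))) (P.cons (P.cons (P.lf 0 961897 0) (P.cons (P.lf 1512193 0 0) (P.cons (P.lf 319709 0 0) (P.cons (P.lf 0 4484 0) P.nil)))) (P.cons (P.cons (P.lf 0 123081 0) (P.cons (P.lf 719172 0 0) (P.cons (P.lf 0 25650 0) P.nil))) (P.cons (P.cons (P.lf 165591 0 0) (P.cons (P.lf 0 31621 0) P.nil)) (P.cons (P.cons (P.lf 158 0 0) P.nil) P.nil)))))) 786181)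
 (EL.cons 9 (TM.mk (P.cons (P.cons (P.lf 187085200 0 0) (P.cons (P.lf 0 443696958 0) (P.cons (P.lf 233406757 0 0) (P.cons (P.lf 45064849 0 0) (P.cons (P.lf 0 10549641 0) (P.cons (P.lf 0 783942 0) P.nil)))))) (P.cons (P.cons (P.lf 0 92993682 0) (P.cons (P.lf 115249479 0 0) (P.cons (P.lf 1804510 0 0) (P.cons (P.lf 0 3357460 0) (P.cons (P.lf 236629 0 0) P.nil))))) (P.cons (P.cons (P.lf 11239125 0 0) (P.cons (P.lf 1599193 0 0) (P.cons (P.lf 0 2777313 0) (P.cons (P.lf 0 421302 0) P.nil)))) (P.cons (P.cons (P.lf 845751 0 0) (P.cons (P.lf 0 1552951 0) (P.cons (P.lf 0 38160 0) P.nil))) (P.cons (P.cons (P.lf 0 193084 0) (P.cons (P.lf 11290 0 0) P.nil)) (P.cons (P.cons (P.lf 0 1975 0) P.nil) P.nil)))))) 387845)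
 (EL.cons 2 (TM.mk (P.cons (P.cons (P.lf 0 51964762 0) (P.cons (P.lf 53575155 0 0) (P.cons (P.lf 17536269 0 0) (P.cons (P.lf 0 5185006 0) (P.cons (P.lf 0 730518 0) (P.cons (P.lf 134285 0 0) P.nil)))))) (P.cons (P.cons (P.lf 0 38564229 0) (P.cons (P.lf 54383006 0 0) (P.cons (P.lf 16255878 0 0) (P.cons (P.lf 0 5113215 0) (P.cons (P.lf 0 706792 0) P.nil))))) (P.cons (P.cons (P.lf 13564282 0 0) (P.cons (P.lf 212889 0 0) (P.cons (P.lf 0 1430116 0) (P.cons (P.lf 124998 0 0) P.nil)))) (P.cons (P.cons (P.lf 0 5281 0) (P.cons (P.lf 0 608090 0) (P.cons (P.lf 0 134223 0) P.nil))) (P.cons (P.cons (P.lf 0 167872 0) (P.cons (P.lf 0 9810 0) P.nil)) (P.cons (P.cons (P.lf 2070 0 0) P.nil) P.nil)))))) 310887)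
 (EL.cons 6 (TM.mk (P.cons (P.cons (P.lf 506306538 0 0) (P.cons (P.lf 0 521997030 0) (P.cons (P.lf 0 170860566 0) (P.cons (P.lf 50518944 0 0) (P.cons (P.lf 7117644 0 0) (P.cons (P.lf 0 1308390 0) P.nil)))))) (P.cons (P.cons (P.lf 0 131512206 0) (P.cons (P.lf 0 6894474 0) (P.cons (P.lf 12794856 0 0) (P.cons (P.lf 0 793992 0) (P.cons (P.lf 0 244434 0) P.nil))))) (P.cons (P.cons (P.lf 0 1824852 0) (P.cons (P.lf 6299904 0 0) (P.cons (P.lf 1595328 0 0) (P.cons (P.lf 0 564384 0) P.nil)))) (P.cons (P.cons (P.lf 1772082 0 0) (P.cons (P.lf 124494 0 0) (P.cons (P.lf 0 165396 0) P.nil))) (P.cons (P.cons (P.lf 0 12882 0) (P.cons (P.lf 0 38028 0) P.nil)) (P.cons (P.cons (P.lf 0 10428 0) P.nil) P.nil)))))) 249510)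
 EL.nil))))))
noncomputable def S256_270_364_512_3 : EL := (EL.cons 0 (TM.mk (P.cons (P.lf 22537052 0 0) (P.cons (P.lf 44989933 0 0) (P.cons (P.lf 22326853 0 0) (P.cons (P.lf 0 167639 0) (P.cons (P.lf 0 41322 0) (P.cons (P.lf 349 0 0) P.nil)))))) 89)
 (EL.cons 1 (TM.mk (P.cons (P.lf 0 219584518 0) (P.cons (P.lf 0 218353558 0) (P.cons (P.lf 1842607 0 0) (P.cons (P.lf 607822 0 0) (P.cons (P.lf 0 4760 0) (P.cons (P.lf 0 933 0) P.nil)))))) 67)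
 (EL.cons 5 (TM.mk (P.cons (P.lf 2139470472 0 0) (P.cons (P.lf 0 15996416 0) (P.cons (P.lf 0 7938434 0) (P.cons (P.lf 59604 0 0) (P.cons (P.lf 14690 0 0) (P.cons (P.lf 0 122 0) P.nil)))))) 132)
 EL.nil)))
noncomputable def S256_270_364_512_4 : EL := (EL.cons 0 (TM.mk (P.cons (P.cons (P.lf 3840530 0 0) (P.cons (P.lf 0 4554159 0) (P.cons (P.lf 0 304479 0) (P.lf 101492 0 0)))) (P.cons (P.cons (P.lf 6712219 0 0) (P.cons (P.lf 0 9040234 0) (P.cons (P.lf 0 604408 0) (P.lf 201468 0 0)))) (P.cons (P.cons (P.lf 1896025 0 0) (P.cons (P.lf 0 4384471 0) (P.cons (P.lf 0 293134 0) (P.lf 97711 0 0)))) (P.cons (P.cons (P.lf 0 972782 0) (P.cons (P.lf 134597 0 0) (P.cons (P.lf 8998 0 0) P.nil))) (P.cons (P.cons (P.lf 12524 0 0) (P.cons (P.lf 32345 0 0) P.nil)) (P.cons (P.cons (P.lf 9558 0 0) P.nil) P.nil)))))) 7335)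
 (EL.cons 1 (TM.mk (P.cons (P.cons (P.lf 0 37419318 0) (P.cons (P.lf 44372396 0 0) (P.cons (P.lf 2966634 0 0) (P.lf 0 988876 0)))) (P.cons (P.cons (P.lf 0 27909615 0) (P.cons (P.lf 43626005 0 0) (P.cons (P.lf 2916731 0 0) (P.lf 0 972243 0)))) (P.cons (P.cons (P.lf 9593486 0 0) (P.cons (P.lf 0 1113230 0) (P.cons (P.lf 0 74426 0) (P.lf 24808 0 0)))) (P.cons (P.cons (P.lf 0 19651 0) (P.cons (P.lf 0 360523 0) (P.cons (P.lf 0 24101 0) P.nil))) (P.cons (P.cons (P.lf 0 102834 0) (P.cons (P.lf 7846 0 0) P.nil)) (P.cons (P.cons (P.lf 1051 0 0) P.nil) P.nil)))))) 11445)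
 (EL.cons 5 (TM.mk (P.cons (P.cons (P.lf 364586390 0 0) (P.cons (P.lf 0 432332092 0) (P.cons (P.lf 0 28904714 0) (P.lf 9634904 0 0)))) (P.cons (P.cons (P.lf 0 93337682 0) (P.cons (P.lf 8081160 0 0) (P.cons (P.lf 540286 0 0) (P.lf 0 180092 0)))) (P.cons (P.cons (P.lf 0 984052 0) (P.cons (P.lf 3965066 0 0) (P.cons (P.lf 265092 0 0) (P.lf 0 88362 0)))) (P.cons (P.cons (P.lf 1096028 0 0) (P.cons (P.lf 0 75030 0) (P.cons (P.lf 0 5014 0) P.nil))) (P.cons (P.cons (P.lf 0 6990 0) (P.cons (P.lf 0 18156 0) P.nil)) (P.cons (P.cons (P.lf 0 5326 0) P.nil) P.nil)))))) 4204)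
 EL.nil)))
noncomputable def S256_270_364_512_5 : EL := (EL.cons 0 (TM.mk (P.cons (P.cons (P.lf 654463 0 0) (P.cons (P.lf 0 1552144 0) (P.cons (P.lf 816505 0 0) (P.cons (P.lf 157645 0 0) (P.cons (P.lf 0 36903 0) (P.cons (P.lf 0 2742 0) P.nil)))))) (P.cons (P.cons (P.lf 981170 0 0) (P.cons (P.lf 0 2695325 0) (P.cons (P.lf 1636273 0 0) (P.cons (P.lf 302957 0 0) (P.cons (P.lf 0 72843 0) P.nil))))) (P.cons (P.cons (P.lf 38267 0 0) (P.cons (P.lf 0 727245 0) (P.cons (P.lf 811775 0 0) (P.cons (P.lf 131255 0 0) P.nil)))) (P.cons (P.cons (P.lf 0 245700 0) (P.cons (P.lf 416685 0 0) (P.cons (P.lf 0 19348 0) P.nil))) (P.cons (P.cons (P.lf 45399 0 0) (P.cons (P.lf 0 5415 0) P.nil)) (P.cons (P.cons (P.lf 1889 0 0) P.nil) P.nil)))))) 89579)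
 (EL.cons 1 (TM.mk (P.cons (P.cons (P.lf 0 6376610 0) (P.cons (P.lf 15122968 0 0) (P.cons (P.lf 0 7955435 0) (P.cons (P.lf 0 1535988 0) (P.cons (P.lf 359572 0 0) (P.cons (P.lf 26718 0 0) P.nil)))))) (P.cons (P.cons (P.lf 0 3171268 0) (P.cons (P.lf 11110025 0 0) (P.cons (P.lf 0 7972344 0) (P.cons (P.lf 0 1412941 0) (P.cons (P.lf 349490 0 0) P.nil))))) (P.cons (P.cons (P.lf 2822261 0 0) (P.cons (P.lf 0 4087550 0) (P.cons (P.lf 100256 0 0) (P.cons (P.lf 141041 0 0) P.nil)))) (P.cons (P.cons (P.lf 0 418698 0) (P.cons (P.lf 0 10168 0) (P.cons (P.lf 117967 0 0) P.nil))) (P.cons (P.cons (P.lf 0 27780 0) (P.cons (P.lf 63905 0 0) P.nil)) (P.cons (P.cons (P.lf 7953 0 0) P.nil) P.nil)))))) 89431)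
 (EL.cons 5 (TM.mk (P.cons (P.cons (P.lf 62129034 0 0) (P.cons (P.lf 0 147347110 0) (P.cons (P.lf 77511938 0 0) (P.cons (P.lf 14965564 0 0) (P.cons (P.lf 0 3503424 0) (P.cons (P.lf 0 260338 0) P.nil)))))) (P.cons (P.cons (P.lf 0 31346752 0) (P.cons (P.lf 39374830 0 0) (P.cons (P.lf 19714 0 0) (P.cons (P.lf 0 1226870 0) (P.cons (P.lf 104774 0 0) P.nil))))) (P.cons (P.cons (P.lf 3732766 0 0) (P.cons (P.lf 791640 0 0) (P.cons (P.lf 0 1214402 0) (P.cons (P.lf 0 187102 0) P.nil)))) (P.cons (P.cons (P.lf 369276 0 0) (P.cons (P.lf 0 665804 0) (P.cons (P.lf 0 5838 0) P.nil))) (P.cons (P.cons (P.lf 0 80504 0) (P.cons (P.lf 5688 0 0) P.nil)) (P.cons (P.cons (P.lf 0 1330 0) P.nil) P.nil)))))) 160304)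
 EL.nil)))
noncomputable def S256_270_364_512_6 : EL := (EL.cons 12 (TM.mk (P.lf 8589934592 0 0) 0)
 (EL.cons 3 (TM.mk (P.cons (P.lf 219995351 0 0) (P.cons (P.lf 219584520 0 0) (P.cons (P.lf 0 615480 0) (P.cons (P.lf 0 203880 0) (P.cons (P.lf 952 0 0) (P.cons (P.lf 187 0 0) P.nil)))))) 37)
 (EL.cons 7 (TM.mk (P.cons (P.lf 0 2143473316 0) (P.cons (P.lf 8013173 0 0) (P.cons (P.lf 3991622 0 0) (P.cons (P.lf 0 14936 0) (P.cons (P.lf 0 3698 0) (P.cons (P.lf 20 0 0) P.nil)))))) 52)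
 EL.nil)))
noncomputable def S256_270_364_512_7 : EL := (EL.cons 12 (TM.mk (P.cons (P.cons (P.lf 1463807656 0 0) (P.cons (P.lf 0 1735805400 0) (P.cons (P.lf 0 116051904 0) (P.lf 38683968 0 0)))) (P.cons (P.cons (P.lf 0 363804472 0) (P.cons (P.lf 19467424 0 0) (P.cons (P.lf 1301544 0 0) (P.lf 0 433840 0)))) (P.cons (P.cons (P.lf 0 1239648 0) (P.cons (P.lf 9624576 0 0) (P.cons (P.lf 643472 0 0) (P.lf 0 214488 0)))) (P.cons (P.cons (P.lf 3000606 0 0) (P.cons (P.lf 0 108696 0) (P.cons (P.lf 0 7264 0) P.nil))) (P.cons (P.cons (P.lf 0 10152 0) (P.cons (P.lf 0 26632 0) P.nil)) (P.cons (P.cons (P.lf 0 7714 0) P.nil) P.nil)))))) 6130)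
 (EL.cons 3 (TM.mk (P.cons (P.cons (P.lf 0 2454838474 0) (P.cons (P.lf 88910830 0 0) (P.cons (P.lf 5944370 0 0) (P.lf 0 1981456 0)))) (P.cons (P.cons (P.lf 15779919 0 0) (P.cons (P.lf 87747640 0 0) (P.cons (P.lf 5866600 0 0) (P.lf 0 1955532 0)))) (P.cons (P.cons (P.lf 54596094 0 0) (P.cons (P.lf 0 1737022 0) (P.cons (P.lf 0 116130 0) (P.lf 38708 0 0)))) (P.cons (P.cons (P.lf 0 341185 0) (P.cons (P.lf 0 566104 0) (P.cons (P.lf 0 37846 0) P.nil))) (P.cons (P.cons (P.lf 0 236774 0) (P.cons (P.lf 9608 0 0) P.nil)) (P.cons (P.cons (P.lf 1858 0 0) P.nil) P.nil)))))) 33737)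
 (EL.cons 7 (TM.mk (P.cons (P.cons (P.lf 0 456219634 0) (P.cons (P.lf 438007831 0 0) (P.cons (P.lf 29284187 0 0) (P.lf 0 9761396 0)))) (P.cons (P.cons (P.lf 575851 0 0) (P.cons (P.lf 3202122 0 0) (P.cons (P.lf 214086 0 0) (P.lf 0 71359 0)))) (P.cons (P.cons (P.lf 2280810 0 0) (P.cons (P.lf 1540666 0 0) (P.cons (P.lf 103003 0 0) (P.lf 0 34333 0)))) (P.cons (P.cons (P.lf 1318800 0 0) (P.cons (P.lf 0 59996 0) (P.cons (P.lf 0 4011 0) P.nil))) (P.cons (P.cons (P.lf 0 15060 0) (P.cons (P.lf 0 14503 0) P.nil)) (P.cons (P.cons (P.lf 0 6120 0) P.nil) P.nil)))))) 12759)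
 (EL.cons 10 (TM.mk (P.cons (P.cons (P.lf 0 2976673257 0) (P.cons (P.lf 0 460863771 0) (P.cons (P.lf 222029631 0 0) (P.cons (P.lf 8402253 0 0) (P.lf 0 2100561 0))))) (P.cons (P.cons (P.lf 22256022 0 0) (P.cons (P.lf 3445791 0 0) (P.cons (P.lf 0 1660071 0) (P.cons (P.lf 0 62820 0) (P.lf 15705 0 0))))) (P.cons (P.cons (P.lf 11044845 0 0) (P.cons (P.lf 1710018 0 0) (P.cons (P.lf 0 823833 0) (P.cons (P.lf 0 31176 0) P.nil)))) (P.cons (P.cons (P.lf 0 82926 0) (P.cons (P.lf 0 12837 0) (P.cons (P.lf 6183 0 0) P.nil))) (P.cons (P.cons (P.lf 0 20436 0) (P.cons (P.lf 0 3162 0) P.nil)) (P.cons (P.cons (P.lf 168 0 0) P.nil) P.nil)))))) 10059)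
 EL.nil))))
noncomputable def S256_270_364_512_8 : EL := (EL.cons 12 (TM.mk (P.cons (P.cons (P.lf 249446934 0 0) (P.cons (P.lf 0 591595944 0) (P.cons (P.lf 311209010 0 0) (P.cons (P.lf 60086466 0 0) (P.cons (P.lf 0 14066188 0) (P.cons (P.lf 0 1045256 0) P.nil)))))) (P.cons (P.cons (P.lf 0 123991576 0) (P.cons (P.lf 153665972 0 0) (P.cons (P.lf 2406014 0 0) (P.cons (P.lf 0 4476614 0) (P.cons (P.lf 315506 0 0) P.nil))))) (P.cons (P.cons (P.lf 14985500 0 0) (P.cons (P.lf 2132258 0 0) (P.cons (P.lf 0 3703084 0) (P.cons (P.lf 0 561736 0) P.nil)))) (P.cons (P.cons (P.lf 1127668 0 0) (P.cons (P.lf 0 2070602 0) (P.cons (P.lf 0 50880 0) P.nil))) (P.cons (P.cons (P.lf 0 257446 0) (P.cons (P.lf 15054 0 0) P.nil)) (P.cons (P.cons (P.lf 0 2634 0) P.nil) P.nil)))))) 517098)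
 (EL.cons 3 (TM.mk (P.cons (P.cons (P.lf 0 843044820 0) (P.cons (P.lf 1037573536 0 0) (P.cons (P.lf 24453250 0 0) (P.cons (P.lf 0 29129272 0) (P.cons (P.lf 1801230 0 0) (P.cons (P.lf 133845 0 0) P.nil)))))) (P.cons (P.cons (P.lf 210113683 0 0) (P.cons (P.lf 16058096 0 0) (P.cons (P.lf 0 42751512 0) (P.cons (P.lf 0 6217962 0) (P.cons (P.lf 1757465 0 0) P.nil))))) (P.cons (P.cons (P.lf 20782975 0 0) (P.cons (P.lf 0 39569934 0) (P.cons (P.lf 0 1021818 0) (P.cons (P.lf 1098962 0 0) P.nil)))) (P.cons (P.cons (P.lf 0 6875335 0) (P.cons (P.lf 469315 0 0) (P.cons (P.lf 550501 0 0) P.nil))) (P.cons (P.cons (P.lf 0 74859 0) (P.cons (P.lf 400544 0 0) P.nil)) (P.cons (P.cons (P.lf 70391 0 0) P.nil) P.nil)))))) 631990)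
 (EL.cons 7 (TM.mk (P.cons (P.cons (P.lf 0 93243165 0) (P.cons (P.lf 186039285 0 0) (P.cons (P.lf 0 77055460 0) (P.cons (P.lf 0 16112720 0) (P.cons (P.lf 3588856 0 0) (P.cons (P.lf 266682 0 0) P.nil)))))) (P.cons (P.cons (P.lf 7667566 0 0) (P.cons (P.lf 585991 0 0) (P.cons (P.lf 0 1560100 0) (P.cons (P.lf 0 226907 0) (P.cons (P.lf 64132 0 0) P.nil))))) (P.cons (P.cons (P.lf 4599376 0 0) (P.cons (P.lf 0 1150455 0) (P.cons (P.lf 0 818799 0) (P.cons (P.lf 0 73557 0) P.nil)))) (P.cons (P.cons (P.lf 262838 0 0) (P.cons (P.lf 0 946789 0) (P.cons (P.lf 0 6274 0) P.nil))) (P.cons (P.cons (P.lf 0 188383 0) (P.cons (P.lf 25597 0 0) P.nil)) (P.cons (P.cons (P.lf 255 0 0) P.nil) P.nil)))))) 369091)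
 (EL.cons 10 (TM.mk (P.cons (P.cons (P.lf 0 1014507630 0) (P.cons (P.lf 1045947330 0 0) (P.cons (P.lf 342360486 0 0) (P.cons (P.lf 0 101226930 0) (P.cons (P.lf 0 14261922 0) (P.cons (P.lf 2621682 0 0) P.nil)))))) (P.cons (P.cons (P.lf 259723878 0 0) (P.cons (P.lf 17724924 0 0) (P.cons (P.lf 0 24357708 0) (P.cons (P.lf 1212534 0 0) (P.cons (P.lf 436476 0 0) P.nil))))) (P.cons (P.cons (P.lf 2738250 0 0) (P.cons (P.lf 0 10609344 0) (P.cons (P.lf 0 2650134 0) (P.cons (P.lf 946914 0 0) P.nil)))) (P.cons (P.cons (P.lf 0 3049836 0) (P.cons (P.lf 0 263406 0) (P.cons (P.lf 273762 0 0) P.nil))) (P.cons (P.cons (P.lf 19452 0 0) (P.cons (P.lf 53538 0 0) P.nil)) (P.cons (P.cons (P.lf 14820 0 0) P.nil) P.nil)))))) 436500)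
 EL.nil))))
noncomputable def S256_270_364_512_9 : EL := (EL.cons 3 (TM.mk (P.cons (P.lf 219995351 0 0) (P.cons (P.lf 219584520 0 0) (P.cons (P.lf 0 615480 0) (P.cons (P.lf 0 203880 0) (P.cons (P.lf 952 0 0) (P.cons (P.lf 187 0 0) P.nil)))))) 37)
 (EL.cons 7 (TM.mk (P.cons (P.lf 0 2143473316 0) (P.cons (P.lf 8013173 0 0) (P.cons (P.lf 3991622 0 0) (P.cons (P.lf 0 14936 0) (P.cons (P.lf 0 3698 0) (P.cons (P.lf 20 0 0) P.nil)))))) 52)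
 EL.nil))
noncomputable def S256_270_364_512_10 : EL := (EL.cons 3 (TM.mk (P.cons (P.cons (P.lf 37489328 0 0) (P.cons (P.lf 0 44455415 0) (P.cons (P.lf 0 2972185 0) (P.lf 990728 0 0)))) (P.cons (P.cons (P.lf 28101984 0 0) (P.cons (P.lf 0 43873820 0) (P.cons (P.lf 0 2933300 0) (P.lf 977766 0 0)))) (P.cons (P.cons (P.lf 0 9436566 0) (P.cons (P.lf 868511 0 0) (P.cons (P.lf 58065 0 0) (P.lf 0 19354 0)))) (P.cons (P.cons (P.lf 36482 0 0) (P.cons (P.lf 283052 0 0) (P.cons (P.lf 18923 0 0) P.nil))) (P.cons (P.cons (P.lf 85330 0 0) (P.cons (P.lf 0 4804 0) P.nil)) (P.cons (P.cons (P.lf 0 650 0) P.nil) P.nil)))))) 8368)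
 (EL.cons 7 (TM.mk (P.cons (P.cons (P.lf 0 365268514 0) (P.cons (P.lf 433140964 0 0) (P.cons (P.lf 28958795 0 0) (P.lf 0 9652931 0)))) (P.cons (P.cons (P.lf 92146792 0 0) (P.cons (P.lf 0 6477024 0) (P.cons (P.lf 0 433038 0) (P.lf 144344 0 0)))) (P.cons (P.cons (P.lf 650166 0 0) (P.cons (P.lf 0 3190094 0) (P.cons (P.lf 0 213281 0) (P.lf 71093 0 0)))) (P.cons (P.cons (P.lf 0 921507 0) (P.cons (P.lf 48166 0 0) (P.cons (P.lf 3219 0 0) P.nil))) (P.cons (P.cons (P.lf 4758 0 0) (P.cons (P.lf 11729 0 0) P.nil)) (P.cons (P.cons (P.lf 3471 0 0) P.nil) P.nil)))))) 2675)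
 EL.nil))
noncomputable def S256_270_364_512_11 : EL := (EL.cons 3 (TM.mk (P.cons (P.cons (P.lf 6388542 0 0) (P.cons (P.lf 0 15151262 0) (P.cons (P.lf 7970320 0 0) (P.cons (P.lf 1538864 0 0) (P.cons (P.lf 0 360246 0) (P.cons (P.lf 0 26769 0) P.nil)))))) (P.cons (P.cons (P.lf 3201085 0 0) (P.cons (P.lf 0 11187454 0) (P.cons (P.lf 8017056 0 0) (P.cons (P.lf 1421340 0 0) (P.cons (P.lf 0 351493 0) P.nil))))) (P.cons (P.cons (P.lf 0 2803679 0) (P.cons (P.lf 4025160 0 0) (P.cons (P.lf 0 55632 0) (P.cons (P.lf 0 133126 0) P.nil)))) (P.cons (P.cons (P.lf 414917 0 0) (P.cons (P.lf 4507 0 0) (P.cons (P.lf 0 103523 0) P.nil))) (P.cons (P.cons (P.lf 24129 0 0) (P.cons (P.lf 0 56410 0) P.nil)) (P.cons (P.cons (P.lf 0 7093 0) P.nil) P.nil)))))) 81642)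
 (EL.cons 7 (TM.mk (P.cons (P.cons (P.lf 0 62245275 0) (P.cons (P.lf 147622791 0 0) (P.cons (P.lf 0 77656960 0) (P.cons (P.lf 0 14993564 0) (P.cons (P.lf 3509980 0 0) (P.cons (P.lf 260826 0 0) P.nil)))))) (P.cons (P.cons (P.lf 31172704 0 0) (P.cons (P.lf 0 38896625 0) (P.cons (P.lf 0 310066 0) (P.cons (P.lf 1173115 0 0) (P.cons (P.lf 0 91850 0) P.nil))))) (P.cons (P.cons (P.lf 0 3739130 0) (P.cons (P.lf 0 663627 0) (P.cons (P.lf 1070901 0 0) (P.cons (P.lf 163917 0 0) P.nil)))) (P.cons (P.cons (P.lf 0 325462 0) (P.cons (P.lf 591107 0 0) (P.cons (P.lf 9818 0 0) P.nil))) (P.cons (P.cons (P.lf 72365 0 0) (P.cons (P.lf 0 4709 0) P.nil)) (P.cons (P.cons (P.lf 969 0 0) P.nil) P.nil)))))) 144399)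
 EL.nil))
noncomputable def S256_270_364_512_12 : EL := (EL.cons 4 (TM.mk (P.cons (P.lf 0 219995351 0) (P.cons (P.lf 0 219584520 0) (P.cons (P.lf 615480 0 0) (P.cons (P.lf 203880 0 0) (P.cons (P.lf 0 952 0) (P.cons (P.lf 0 187 0) P.nil)))))) 37)
 (EL.cons 8 (TM.mk (P.cons (P.lf 2143473316 0 0) (P.cons (P.lf 0 8013173 0) (P.cons (P.lf 0 3991622 0) (P.cons (P.lf 14936 0 0) (P.cons (P.lf 3698 0 0) (P.cons (P.lf 0 20 0) P.nil)))))) 52)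
 EL.nil))
noncomputable def S256_270_364_512_13 : EL := (EL.cons 4 (TM.mk (P.cons (P.cons (P.lf 0 37489328 0) (P.cons (P.lf 44455415 0 0) (P.cons (P.lf 2972185 0 0) (P.lf 0 990728 0)))) (P.cons (P.cons (P.lf 0 28101984 0) (P.cons (P.lf 43873820 0 0) (P.cons (P.lf 2933300 0 0) (P.lf 0 977766 0)))) (P.cons (P.cons (P.lf 9436566 0 0) (P.cons (P.lf 0 868511 0) (P.cons (P.lf 0 58065 0) (P.lf 19354 0 0)))) (P.cons (P.cons (P.lf 0 36482 0) (P.cons (P.lf 0 283052 0) (P.cons (P.lf 0 18923 0) P.nil))) (P.cons (P.cons (P.lf 0 85330 0) (P.cons (P.lf 4804 0 0) P.nil)) (P.cons (P.cons (P.lf 650 0 0) P.nil) P.nil)))))) 8368)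
 (EL.cons 8 (TM.mk (P.cons (P.cons (P.lf 365268514 0 0) (P.cons (P.lf 0 433140964 0) (P.cons (P.lf 0 28958795 0) (P.lf 9652931 0 0)))) (P.cons (P.cons (P.lf 0 92146792 0) (P.cons (P.lf 6477024 0 0) (P.cons (P.lf 433038 0 0) (P.lf 0 144344 0)))) (P.cons (P.cons (P.lf 0 650166 0) (P.cons (P.lf 3190094 0 0) (P.cons (P.lf 213281 0 0) (P.lf 0 71093 0)))) (P.cons (P.cons (P.lf 921507 0 0) (P.cons (P.lf 0 48166 0) (P.cons (P.lf 0 3219 0) P.nil))) (P.cons (P.cons (P.lf 0 4758 0) (P.cons (P.lf 0 11729 0) P.nil)) (P.cons (P.cons (P.lf 0 3471 0) P.nil) P.nil)))))) 2675)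
 EL.nil))
noncomputable def S256_270_364_512_14 : EL := (EL.cons 4 (TM.mk (P.cons (P.cons (P.lf 0 6388542 0) (P.cons (P.lf 15151262 0 0) (P.cons (P.lf 0 7970320 0) (P.cons (P.lf 0 1538864 0) (P.cons (P.lf 360246 0 0) (P.cons (P.lf 26769 0 0) P.nil)))))) (P.cons (P.cons (P.lf 0 3201085 0) (P.cons (P.lf 11187454 0 0) (P.cons (P.lf 0 8017056 0) (P.cons (P.lf 0 1421340 0) (P.cons (P.lf 351493 0 0) P.nil))))) (P.cons (P.cons (P.lf 2803679 0 0) (P.cons (P.lf 0 4025160 0) (P.cons (P.lf 55632 0 0) (P.cons (P.lf 133126 0 0) P.nil)))) (P.cons (P.cons (P.lf 0 414917 0) (P.cons (P.lf 0 4507 0) (P.cons (P.lf 103523 0 0) P.nil))) (P.cons (P.cons (P.lf 0 24129 0) (P.cons (P.lf 56410 0 0) P.nil)) (P.cons (P.cons (P.lf 7093 0 0) P.nil) P.nil)))))) 81642)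
 (EL.cons 8 (TM.mk (P.cons (P.cons (P.lf 62245275 0 0) (P.cons (P.lf 0 147622791 0) (P.cons (P.lf 77656960 0 0) (P.cons (P.lf 14993564 0 0) (P.cons (P.lf 0 3509980 0) (P.cons (P.lf 0 260826 0) P.nil)))))) (P.cons (P.cons (P.lf 0 31172704 0) (P.cons (P.lf 38896625 0 0) (P.cons (P.lf 310066 0 0) (P.cons (P.lf 0 1173115 0) (P.cons (P.lf 91850 0 0) P.nil))))) (P.cons (P.cons (P.lf 3739130 0 0) (P.cons (P.lf 663627 0 0) (P.cons (P.lf 0 1070901 0) (P.cons (P.lf 0 163917 0) P.nil)))) (P.cons (P.cons (P.lf 325462 0 0) (P.cons (P.lf 0 591107 0) (P.cons (P.lf 0 9818 0) P.nil))) (P.cons (P.cons (P.lf 0 72365 0) (P.cons (P.lf 4709 0 0) P.nil)) (P.cons (P.cons (P.lf 0 969 0) P.nil) P.nil)))))) 144399)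
 EL.nil))
noncomputable def S256_270_364_512_15 : EL := (EL.cons 4 (TM.mk (P.cons (P.lf 0 12019761 0) (P.cons (P.lf 0 23994630 0) (P.cons (P.lf 0 11907655 0) (P.cons (P.lf 89407 0 0) (P.cons (P.lf 22038 0 0) (P.cons (P.lf 0 186 0) P.nil)))))) 51)
 (EL.cons 8 (TM.mk (P.cons (P.lf 117111743 0 0) (P.cons (P.lf 116455231 0 0) (P.cons (P.lf 0 982724 0) (P.cons (P.lf 0 324172 0) (P.cons (P.lf 2539 0 0) (P.cons (P.lf 498 0 0) P.nil)))))) 32)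
 EL.nil))
noncomputable def S256_270_364_512_16 : EL := (EL.cons 4 (TM.mk (P.cons (P.cons (P.lf 0 2048282 0) (P.cons (P.lf 2428885 0 0) (P.cons (P.lf 162389 0 0) (P.lf 0 54129 0)))) (P.cons (P.cons (P.lf 0 3579850 0) (P.cons (P.lf 4821458 0 0) (P.cons (P.lf 322350 0 0) (P.lf 0 107449 0)))) (P.cons (P.cons (P.lf 0 1011213 0) (P.cons (P.lf 2338384 0 0) (P.cons (P.lf 156338 0 0) (P.lf 0 52112 0)))) (P.cons (P.cons (P.lf 518817 0 0) (P.cons (P.lf 0 71785 0) (P.cons (P.lf 0 4799 0) P.nil))) (P.cons (P.cons (P.lf 0 6679 0) (P.cons (P.lf 0 17250 0) P.nil)) (P.cons (P.cons (P.lf 0 5098 0) P.nil) P.nil)))))) 3920)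
 (EL.cons 8 (TM.mk (P.cons (P.cons (P.lf 19956970 0 0) (P.cons (P.lf 0 23665278 0) (P.cons (P.lf 0 1582205 0) (P.lf 527401 0 0)))) (P.cons (P.cons (P.lf 14885128 0 0) (P.cons (P.lf 0 23267203 0) (P.cons (P.lf 0 1555590 0) (P.lf 518530 0 0)))) (P.cons (P.cons (P.lf 0 5116526 0) (P.cons (P.lf 593723 0 0) (P.cons (P.lf 39694 0 0) (P.lf 0 13231 0)))) (P.cons (P.cons (P.lf 10481 0 0) (P.cons (P.lf 192279 0 0) (P.cons (P.lf 12854 0 0) P.nil))) (P.cons (P.cons (P.lf 54845 0 0) (P.cons (P.lf 0 4185 0) P.nil)) (P.cons (P.cons (P.lf 0 561 0) P.nil) P.nil)))))) 6094)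
 EL.nil))
noncomputable def S256_270_364_512_17 : EL := (EL.cons 4 (TM.mk (P.cons (P.cons (P.lf 0 349047 0) (P.cons (P.lf 827810 0 0) (P.cons (P.lf 0 435469 0) (P.cons (P.lf 0 84077 0) (P.cons (P.lf 19681 0 0) (P.cons (P.lf 1462 0 0) P.nil)))))) (P.cons (P.cons (P.lf 0 523290 0) (P.cons (P.lf 1437507 0 0) (P.cons (P.lf 0 872679 0) (P.cons (P.lf 0 161577 0) (P.cons (P.lf 38850 0 0) P.nil))))) (P.cons (P.cons (P.lf 0 20409 0) (P.cons (P.lf 387864 0 0) (P.cons (P.lf 0 432946 0) (P.cons (P.lf 0 70003 0) P.nil)))) (P.cons (P.cons (P.lf 131040 0 0) (P.cons (P.lf 0 222232 0) (P.cons (P.lf 10319 0 0) P.nil))) (P.cons (P.cons (P.lf 0 24212 0) (P.cons (P.lf 2888 0 0) P.nil)) (P.cons (P.cons (P.lf 0 1007 0) P.nil) P.nil)))))) 47785)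
 (EL.cons 8 (TM.mk (P.cons (P.cons (P.lf 3400859 0 0) (P.cons (P.lf 0 8065583 0) (P.cons (P.lf 4242899 0 0) (P.cons (P.lf 819194 0 0) (P.cons (P.lf 0 191772 0) (P.cons (P.lf 0 14250 0) P.nil)))))) (P.cons (P.cons (P.lf 1691343 0 0) (P.cons (P.lf 0 5925347 0) (P.cons (P.lf 4251917 0 0) (P.cons (P.lf 753569 0 0) (P.cons (P.lf 0 186395 0) P.nil))))) (P.cons (P.cons (P.lf 0 1505206 0) (P.cons (P.lf 2180027 0 0) (P.cons (P.lf 0 53470 0) (P.cons (P.lf 0 75222 0) P.nil)))) (P.cons (P.cons (P.lf 223306 0 0) (P.cons (P.lf 5423 0 0) (P.cons (P.lf 0 62916 0) P.nil))) (P.cons (P.cons (P.lf 14816 0 0) (P.cons (P.lf 0 34083 0) P.nil)) (P.cons (P.cons (P.lf 0 4242 0) P.nil) P.nil)))))) 47685)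
 EL.nil))
noncomputable def S256_270_364_512_18 : EL := (EL.cons 4 (TM.mk (P.cons (P.lf 0 656716 0) (P.cons (P.lf 0 1966470 0) (P.cons (P.lf 0 1957287 0) (P.cons (P.lf 0 640215 0) (P.cons (P.lf 9111 0 0) (P.cons (P.lf 1774 0 0) P.nil)))))) 41)
 (EL.cons 8 (TM.mk (P.cons (P.lf 6398568 0 0) (P.cons (P.lf 12749317 0 0) (P.cons (P.lf 6279222 0 0) (P.cons (P.lf 0 95034 0) (P.cons (P.lf 0 23258 0) (P.cons (P.lf 297 0 0) P.nil)))))) 65)
 EL.nil))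
noncomputable def S256_270_364_512_19 : EL := (EL.cons 4 (TM.mk (P.cons (P.cons (P.lf 0 111910 0) (P.cons (P.lf 132705 0 0) (P.cons (P.lf 8871 0 0) (P.lf 0 2956 0)))) (P.cons (P.cons (P.lf 0 307291 0) (P.cons (P.lf 395884 0 0) (P.cons (P.lf 26467 0 0) (P.lf 0 8821 0)))) (P.cons (P.cons (P.lf 0 250160 0) (P.cons (P.lf 390324 0 0) (P.cons (P.lf 26095 0 0) (P.lf 0 8698 0)))) (P.cons (P.cons (P.lf 0 26147 0) (P.cons (P.lf 122739 0 0) (P.cons (P.lf 8205 0 0) P.nil))) (P.cons (P.cons (P.lf 28262 0 0) (P.cons (P.lf 0 5458 0) P.nil)) (P.cons (P.cons (P.lf 0 671 0) P.nil) P.nil)))))) 5149)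
 (EL.cons 8 (TM.mk (P.cons (P.cons (P.lf 1090377 0 0) (P.cons (P.lf 0 1292986 0) (P.cons (P.lf 0 86445 0) (P.lf 28815 0 0)))) (P.cons (P.cons (P.lf 1901611 0 0) (P.cons (P.lf 0 2561808 0) (P.cons (P.lf 0 171276 0) (P.lf 57091 0 0)))) (P.cons (P.cons (P.lf 529152 0 0) (P.cons (P.lf 0 1232806 0) (P.cons (P.lf 0 82422 0) (P.lf 27474 0 0)))) (P.cons (P.cons (P.lf 0 281739 0) (P.cons (P.lf 47638 0 0) (P.cons (P.lf 3184 0 0) P.nil))) (P.cons (P.cons (P.lf 3601 0 0) (P.cons (P.lf 11338 0 0) P.nil)) (P.cons (P.cons (P.lf 3221 0 0) P.nil) P.nil)))))) 2706)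
 EL.nil))
noncomputable def S256_270_364_512_20 : EL := (EL.cons 4 (TM.mk (P.cons (P.cons (P.lf 0 19070 0) (P.cons (P.lf 45227 0 0) (P.cons (P.lf 0 23791 0) (P.cons (P.lf 0 4592 0) (P.cons (P.lf 1075 0 0) (P.cons (P.lf 79 0 0) P.nil)))))) (P.cons (P.cons (P.lf 0 47625 0) (P.cons (P.lf 123684 0 0) (P.cons (P.lf 0 71428 0) (P.cons (P.lf 0 13412 0) (P.cons (P.lf 3195 0 0) P.nil))))) (P.cons (P.cons (P.lf 0 29598 0) (P.cons (P.lf 99458 0 0) (P.cons (P.lf 0 71178 0) (P.cons (P.lf 0 12622 0) P.nil)))) (P.cons (P.cons (P.lf 6143 0 0) (P.cons (P.lf 8747 0 0) (P.cons (P.lf 0 22890 0) P.nil))) (P.cons (P.cons (P.lf 5851 0 0) (P.cons (P.lf 0 12092 0) P.nil)) (P.cons (P.cons (P.lf 0 1394 0) P.nil) P.nil)))))) 14625)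
 (EL.cons 8 (TM.mk (P.cons (P.cons (P.lf 185810 0 0) (P.cons (P.lf 0 440674 0) (P.cons (P.lf 231816 0 0) (P.cons (P.lf 44757 0 0) (P.cons (P.lf 0 10477 0) (P.cons (P.lf 0 778 0) P.nil)))))) (P.cons (P.cons (P.lf 277872 0 0) (P.cons (P.lf 0 763591 0) (P.cons (P.lf 463693 0 0) (P.cons (P.lf 85846 0 0) (P.cons (P.lf 0 20642 0) P.nil))))) (P.cons (P.cons (P.lf 9477 0 0) (P.cons (P.lf 0 202793 0) (P.cons (P.lf 228305 0 0) (P.cons (P.lf 36860 0 0) P.nil)))) (P.cons (P.cons (P.lf 0 70315 0) (P.cons (P.lf 120496 0 0) (P.cons (P.lf 0 7218 0) P.nil))) (P.cons (P.cons (P.lf 13132 0 0) (P.cons (P.lf 0 1601 0) P.nil)) (P.cons (P.cons (P.lf 618 0 0) P.nil) P.nil)))))) 26828)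
 EL.nil))
noncomputable def S256_270_364_512_21 : EL := (EL.cons 4 (TM.mk (P.cons (P.cons (P.lf 2492327802 0 0) (P.cons (P.lf 0 133366245 0) (P.cons (P.lf 0 8916555 0) (P.lf 2972184 0 0)))) (P.cons (P.cons (P.lf 12322065 0 0) (P.cons (P.lf 0 131621460 0) (P.cons (P.lf 0 8799900 0) (P.lf 2933298 0 0)))) (P.cons (P.cons (P.lf 0 64032660 0) (P.cons (P.lf 2605533 0 0) (P.cons (P.lf 174195 0 0) (P.lf 0 58062 0)))) (P.cons (P.cons (P.lf 377667 0 0) (P.cons (P.lf 849156 0 0) (P.cons (P.lf 56769 0 0) P.nil))) (P.cons (P.cons (P.lf 322104 0 0) (P.cons (P.lf 0 14412 0) P.nil)) (P.cons (P.cons (P.lf 0 2508 0) P.nil) P.nil)))))) 25350)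
 (EL.cons 8 (TM.mk (P.cons (P.cons (P.lf 90951120 0 0) (P.cons (P.lf 0 4866867 0) (P.cons (P.lf 0 325392 0) (P.lf 108465 0 0)))) (P.cons (P.cons (P.lf 91570941 0 0) (P.cons (P.lf 0 9679146 0) (P.cons (P.lf 0 647124 0) (P.lf 215703 0 0)))) (P.cons (P.cons (P.lf 0 1630644 0) (P.cons (P.lf 0 4730760 0) (P.cons (P.lf 0 316284 0) (P.lf 105426 0 0)))) (P.cons (P.cons (P.lf 0 2240307 0) (P.cons (P.lf 108162 0 0) (P.cons (P.lf 7230 0 0) P.nil))) (P.cons (P.cons (P.lf 19818 0 0) (P.cons (P.lf 26232 0 0) P.nil)) (P.cons (P.cons (P.lf 9591 0 0) P.nil) P.nil)))))) 10065)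
 (EL.cons 11 (TM.mk (P.cons (P.cons (P.lf 2976673257 0 0) (P.cons (P.lf 460863771 0 0) (P.cons (P.lf 0 222029631 0) (P.cons (P.lf 0 8402253 0) (P.lf 2100561 0 0))))) (P.cons (P.cons (P.lf 0 22256022 0) (P.cons (P.lf 0 3445791 0) (P.cons (P.lf 1660071 0 0) (P.cons (P.lf 62820 0 0) (P.lf 0 15705 0))))) (P.cons (P.cons (P.lf 0 11044845 0) (P.cons (P.lf 0 1710018 0) (P.cons (P.lf 823833 0 0) (P.cons (P.lf 31176 0 0) P.nil)))) (P.cons (P.cons (P.lf 82926 0 0) (P.cons (P.lf 12837 0 0) (P.cons (P.lf 0 6183 0) P.nil))) (P.cons (P.cons (P.lf 20436 0 0) (P.cons (P.lf 3162 0 0) P.nil)) (P.cons (P.cons (P.lf 0 168 0) P.nil) P.nil)))))) 10059)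
 EL.nil)))
noncomputable def S256_270_364_512_22 : EL := (EL.cons 4 (TM.mk (P.cons (P.cons (P.lf 424716681 0 0) (P.cons (P.lf 0 526362399 0) (P.cons (P.lf 0 8241465 0) (P.cons (P.lf 15334068 0 0) (P.cons (P.lf 0 1080738 0) (P.cons (P.lf 0 80307 0) P.nil)))))) (P.cons (P.cons (P.lf 0 103456299 0) (P.cons (P.lf 0 13622775 0) (P.cons (P.lf 25384284 0 0) (P.cons (P.lf 3819651 0 0) (P.cons (P.lf 0 1054479 0) P.nil))))) (P.cons (P.cons (P.lf 0 11793327 0) (P.cons (P.lf 21797547 0 0) (P.cons (P.lf 483093 0 0) (P.cons (P.lf 0 616044 0) P.nil)))) (P.cons (P.cons (P.lf 3645126 0 0) (P.cons (P.lf 0 232404 0) (P.cons (P.lf 0 327012 0) P.nil))) (P.cons (P.cons (P.lf 49494 0 0) (P.cons (P.lf 0 228477 0) P.nil)) (P.cons (P.cons (P.lf 0 38742 0) P.nil) P.nil)))))) 275163)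
 (EL.cons 8 (TM.mk (P.cons (P.cons (P.lf 15498945 0 0) (P.cons (P.lf 0 19208247 0) (P.cons (P.lf 0 300750 0) (P.cons (P.lf 559578 0 0) (P.cons (P.lf 0 39438 0) (P.cons (P.lf 0 2928 0) P.nil)))))) (P.cons (P.cons (P.lf 11752569 0 0) (P.cons (P.lf 0 19741308 0) (P.cons (P.lf 625017 0 0) (P.cons (P.lf 700011 0 0) (P.cons (P.lf 0 77991 0) P.nil))))) (P.cons (P.cons (P.lf 0 4169253 0) (P.cons (P.lf 243414 0 0) (P.cons (P.lf 944850 0 0) (P.cons (P.lf 118737 0 0) P.nil)))) (P.cons (P.cons (P.lf 0 294150 0) (P.cons (P.lf 768948 0 0) (P.cons (P.lf 8046 0 0) P.nil))) (P.cons (P.cons (P.lf 130374 0 0) (P.cons (P.lf 0 15153 0) P.nil)) (P.cons (P.cons (P.lf 357 0 0) P.nil) P.nil)))))) 112335)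
 (EL.cons 11 (TM.mk (P.cons (P.cons (P.lf 507253815 0 0) (P.cons (P.lf 0 522973665 0) (P.cons (P.lf 0 171180243 0) (P.cons (P.lf 50613465 0 0) (P.cons (P.lf 7130961 0 0) (P.cons (P.lf 0 1310841 0) P.nil)))))) (P.cons (P.cons (P.lf 0 129861939 0) (P.cons (P.lf 0 8862462 0) (P.cons (P.lf 12178854 0 0) (P.cons (P.lf 0 606267 0) (P.cons (P.lf 0 218238 0) P.nil))))) (P.cons (P.cons (P.lf 0 1369125 0) (P.cons (P.lf 5304672 0 0) (P.cons (P.lf 1325067 0 0) (P.cons (P.lf 0 473457 0) P.nil)))) (P.cons (P.cons (P.lf 1524918 0 0) (P.cons (P.lf 131703 0 0) (P.cons (P.lf 0 136881 0) P.nil))) (P.cons (P.cons (P.lf 0 9726 0) (P.cons (P.lf 0 26769 0) P.nil)) (P.cons (P.cons (P.lf 0 7410 0) P.nil) P.nil)))))) 218250)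
 EL.nil)))
noncomputable def S256_270_364_512_23 : EL := (EL.cons 4 (TM.mk (P.cons (P.cons (P.lf 136171908 0 0) (P.cons (P.lf 0 7286655 0) (P.cons (P.lf 0 487167 0) (P.lf 162387 0 0)))) (P.cons (P.cons (P.lf 136590846 0 0) (P.cons (P.lf 0 14464374 0) (P.cons (P.lf 0 967053 0) (P.lf 322350 0 0)))) (P.cons (P.cons (P.lf 0 3207507 0) (P.cons (P.lf 0 7015155 0) (P.cons (P.lf 0 469014 0) (P.lf 156339 0 0)))) (P.cons (P.cons (P.lf 0 3599427 0) (P.cons (P.lf 215358 0 0) (P.cons (P.lf 14397 0 0) P.nil))) (P.cons (P.cons (P.lf 47946 0 0) (P.cons (P.lf 51753 0 0) P.nil)) (P.cons (P.cons (P.lf 20730 0 0) P.nil) P.nil)))))) 11748)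
 (EL.cons 8 (TM.mk (P.cons (P.cons (P.lf 4969245 0 0) (P.cons (P.lf 0 265908 0) (P.cons (P.lf 0 17778 0) (P.lf 5925 0 0)))) (P.cons (P.cons (P.lf 9963075 0 0) (P.cons (P.lf 0 794244 0) (P.cons (P.lf 0 53100 0) (P.lf 17700 0 0)))) (P.cons (P.cons (P.lf 4890771 0 0) (P.cons (P.lf 0 785574 0) (P.cons (P.lf 0 52521 0) (P.lf 17505 0 0)))) (P.cons (P.cons (P.lf 0 229929 0) (P.cons (P.lf 0 250353 0) (P.cons (P.lf 0 16737 0) P.nil))) (P.cons (P.cons (P.lf 0 125454 0) (P.cons (P.lf 8541 0 0) P.nil)) (P.cons (P.cons (P.lf 2055 0 0) P.nil) P.nil)))))) 9822)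
 (EL.cons 11 (TM.mk (P.cons (P.cons (P.lf 162634818 0 0) (P.cons (P.lf 25179954 0 0) (P.cons (P.lf 0 12130905 0) (P.cons (P.lf 0 459069 0) (P.lf 114765 0 0))))) (P.cons (P.cons (P.lf 161115114 0 0) (P.cons (P.lf 24944664 0 0) (P.cons (P.lf 0 12017553 0) (P.cons (P.lf 0 454779 0) (P.lf 113694 0 0))))) (P.cons (P.cons (P.lf 0 2272170 0) (P.cons (P.lf 0 351789 0) (P.cons (P.lf 169479 0 0) (P.cons (P.lf 6411 0 0) P.nil)))) (P.cons (P.cons (P.lf 0 745110 0) (P.cons (P.lf 0 115362 0) (P.cons (P.lf 55575 0 0) P.nil))) (P.cons (P.cons (P.lf 9156 0 0) (P.cons (P.lf 1416 0 0) P.nil)) (P.cons (P.cons (P.lf 1785 0 0) P.nil) P.nil)))))) 5586)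
 EL.nil)))
noncomputable def S256_270_364_512_24 : EL := (EL.cons 4 (TM.mk (P.cons (P.cons (P.lf 23205006 0 0) (P.cons (P.lf 0 28758564 0) (P.cons (P.lf 0 450282 0) (P.cons (P.lf 837798 0 0) (P.cons (P.lf 0 59046 0) (P.cons (P.lf 0 4386 0) P.nil)))))) (P.cons (P.cons (P.lf 17509185 0 0) (P.cons (P.lf 0 29449158 0) (P.cons (P.lf 937461 0 0) (P.cons (P.lf 1044924 0 0) (P.cons (P.lf 0 116550 0) P.nil))))) (P.cons (P.cons (P.lf 0 6351192 0) (P.cons (P.lf 528486 0 0) (P.cons (P.lf 1411968 0 0) (P.cons (P.lf 172299 0 0) P.nil)))) (P.cons (P.cons (P.lf 0 449676 0) (P.cons (P.lf 1204752 0 0) (P.cons (P.lf 5013 0 0) P.nil))) (P.cons (P.cons (P.lf 208629 0 0) (P.cons (P.lf 0 27921 0) P.nil)) (P.cons (P.cons (P.lf 615 0 0) P.nil) P.nil)))))) 176133)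
 (EL.cons 8 (TM.mk (P.cons (P.cons (P.lf 846807 0 0) (P.cons (P.lf 0 1049469 0) (P.cons (P.lf 0 16431 0) (P.cons (P.lf 30573 0 0) (P.cons (P.lf 0 2154 0) (P.cons (P.lf 0 159 0) P.nil)))))) (P.cons (P.cons (P.lf 1487343 0 0) (P.cons (P.lf 0 2126103 0) (P.cons (P.lf 17745 0 0) (P.cons (P.lf 68760 0 0) (P.cons (P.lf 0 6411 0) P.nil))))) (P.cons (P.cons (P.lf 410757 0 0) (P.cons (P.lf 0 1060344 0) (P.cons (P.lf 85752 0 0) (P.cons (P.lf 44574 0 0) P.nil)))) (P.cons (P.cons (P.lf 0 246018 0) (P.cons (P.lf 59277 0 0) (P.cons (P.lf 51885 0 0) P.nil))) (P.cons (P.cons (P.lf 0 8871 0) (P.cons (P.lf 42063 0 0) P.nil)) (P.cons (P.cons (P.lf 7389 0 0) P.nil) P.nil)))))) 33438)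
 (EL.cons 11 (TM.mk (P.cons (P.cons (P.lf 27714540 0 0) (P.cons (P.lf 0 28573416 0) (P.cons (P.lf 0 9352677 0) (P.cons (P.lf 2765337 0 0) (P.cons (P.lf 389610 0 0) (P.cons (P.lf 0 71619 0) P.nil)))))) (P.cons (P.cons (P.lf 20567589 0 0) (P.cons (P.lf 0 29004270 0) (P.cons (P.lf 0 8669802 0) (P.cons (P.lf 2727048 0 0) (P.cons (P.lf 376956 0 0) P.nil))))) (P.cons (P.cons (P.lf 0 7234284 0) (P.cons (P.lf 0 113541 0) (P.cons (P.lf 762729 0 0) (P.cons (P.lf 0 66666 0) P.nil)))) (P.cons (P.cons (P.lf 2817 0 0) (P.cons (P.lf 324315 0 0) (P.cons (P.lf 71586 0 0) P.nil))) (P.cons (P.cons (P.lf 89532 0 0) (P.cons (P.lf 5232 0 0) P.nil)) (P.cons (P.cons (P.lf 0 1104 0) P.nil) P.nil)))))) 165795)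
 EL.nil)))
noncomputable def S256_270_364_512_25 : EL := (EL.cons 4 (TM.mk (P.cons (P.cons (P.lf 7439946 0 0) (P.cons (P.lf 0 398115 0) (P.cons (P.lf 0 26616 0) (P.lf 8871 0 0)))) (P.cons (P.cons (P.lf 14888889 0 0) (P.cons (P.lf 0 1187655 0) (P.cons (P.lf 0 79401 0) (P.lf 26466 0 0)))) (P.cons (P.cons (P.lf 7252836 0 0) (P.cons (P.lf 0 1170975 0) (P.cons (P.lf 0 78288 0) (P.lf 26094 0 0)))) (P.cons (P.cons (P.lf 0 399351 0) (P.cons (P.lf 0 368220 0) (P.cons (P.lf 0 24618 0) P.nil))) (P.cons (P.cons (P.lf 0 200064 0) (P.cons (P.lf 16374 0 0) P.nil)) (P.cons (P.cons (P.lf 4497 0 0) P.nil) P.nil)))))) 15885)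
 (EL.cons 8 (TM.mk (P.cons (P.cons (P.lf 271500 0 0) (P.cons (P.lf 0 14526 0) (P.cons (P.lf 0 969 0) (P.lf 321 0 0)))) (P.cons (P.cons (P.lf 815340 0 0) (P.cons (P.lf 0 57894 0) (P.cons (P.lf 0 3870 0) (P.lf 1290 0 0)))) (P.cons (P.cons (P.lf 809784 0 0) (P.cons (P.lf 0 86193 0) (P.cons (P.lf 0 5760 0) (P.lf 1920 0 0)))) (P.cons (P.cons (P.lf 252378 0 0) (P.cons (P.lf 0 56382 0) (P.cons (P.lf 0 3768 0) P.nil))) (P.cons (P.cons (P.lf 0 20643 0) (P.cons (P.lf 0 13023 0) P.nil)) (P.cons (P.cons (P.lf 0 6939 0) P.nil) P.nil)))))) 3759)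
 (EL.cons 11 (TM.mk (P.cons (P.cons (P.lf 8885784 0 0) (P.cons (P.lf 1375740 0 0) (P.cons (P.lf 0 662787 0) (P.cons (P.lf 0 25080 0) (P.lf 6270 0 0))))) (P.cons (P.cons (P.lf 17671947 0 0) (P.cons (P.lf 2736060 0 0) (P.cons (P.lf 0 1318146 0) (P.cons (P.lf 0 49881 0) (P.lf 12468 0 0))))) (P.cons (P.cons (P.lf 8637312 0 0) (P.cons (P.lf 1337271 0 0) (P.cons (P.lf 0 644253 0) (P.cons (P.lf 0 24378 0) P.nil)))) (P.cons (P.cons (P.lf 0 197481 0) (P.cons (P.lf 0 30573 0) (P.cons (P.lf 14730 0 0) P.nil))) (P.cons (P.cons (P.lf 0 47904 0) (P.cons (P.lf 0 7416 0) P.nil)) (P.cons (P.cons (P.lf 870 0 0) P.nil) P.nil)))))) 11400)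
 EL.nil)))
noncomputable def S256_270_364_512_26 : EL := (EL.cons 4 (TM.mk (P.cons (P.cons (P.lf 1267836 0 0) (P.cons (P.lf 0 1571265 0) (P.cons (P.lf 0 24600 0) (P.cons (P.lf 45774 0 0) (P.cons (P.lf 0 3225 0) (P.cons (P.lf 0 237 0) P.nil)))))) (P.cons (P.cons (P.lf 2222109 0 0) (P.cons (P.lf 0 3177327 0) (P.cons (P.lf 26664 0 0) (P.cons (P.lf 102777 0 0) (P.cons (P.lf 0 9588 0) P.nil))))) (P.cons (P.cons (P.lf 604299 0 0) (P.cons (P.lf 0 1572720 0) (P.cons (P.lf 128337 0 0) (P.cons (P.lf 66270 0 0) P.nil)))) (P.cons (P.cons (P.lf 0 374778 0) (P.cons (P.lf 100599 0 0) (P.cons (P.lf 77154 0 0) P.nil))) (P.cons (P.cons (P.lf 0 13032 0) (P.cons (P.lf 65577 0 0) P.nil)) (P.cons (P.cons (P.lf 11805 0 0) P.nil) P.nil)))))) 51393)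
 (EL.cons 8 (TM.mk (P.cons (P.cons (P.lf 46266 0 0) (P.cons (P.lf 0 57339 0) (P.cons (P.lf 0 897 0) (P.cons (P.lf 1668 0 0) (P.cons (P.lf 0 117 0) (P.cons (P.lf 0 6 0) P.nil)))))) (P.cons (P.cons (P.lf 127443 0 0) (P.cons (P.lf 0 173394 0) (P.cons (P.lf 72 0 0) (P.cons (P.lf 5424 0 0) (P.cons (P.lf 0 465 0) P.nil))))) (P.cons (P.cons (P.lf 103422 0 0) (P.cons (P.lf 0 173718 0) (P.cons (P.lf 5655 0 0) (P.cons (P.lf 6180 0 0) P.nil)))) (P.cons (P.cons (P.lf 8688 0 0) (P.cons (P.lf 0 54207 0) (P.cons (P.lf 7509 0 0) P.nil))) (P.cons (P.cons (P.lf 0 14037 0) (P.cons (P.lf 5799 0 0) P.nil)) (P.cons (P.cons (P.lf 0 60 0) P.nil) P.nil)))))) 12600)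
 (EL.cons 11 (TM.mk (P.cons (P.cons (P.lf 1514223 0 0) (P.cons (P.lf 0 1561149 0) (P.cons (P.lf 0 510996 0) (P.cons (P.lf 151086 0 0) (P.cons (P.lf 21285 0 0) (P.cons (P.lf 0 3912 0) P.nil)))))) (P.cons (P.cons (P.lf 2635134 0 0) (P.cons (P.lf 0 3142923 0) (P.cons (P.lf 0 983727 0) (P.cons (P.lf 299799 0 0) (P.cons (P.lf 41841 0 0) P.nil))))) (P.cons (P.cons (P.lf 722148 0 0) (P.cons (P.lf 0 1583565 0) (P.cons (P.lf 0 429699 0) (P.cons (P.lf 144651 0 0) P.nil)))) (P.cons (P.cons (P.lf 0 398910 0) (P.cons (P.lf 17406 0 0) (P.cons (P.lf 47304 0 0) P.nil))) (P.cons (P.cons (P.lf 5115 0 0) (P.cons (P.lf 19449 0 0) P.nil)) (P.cons (P.cons (P.lf 5193 0 0) P.nil) P.nil)))))) 56196)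
 EL.nil)))
noncomputable def S256_270_364_512_27 : EL := (EL.cons 13 (TM.mk (P.lf 0 4294967296 0) 0)
 EL.nil)
noncomputable def S256_270_364_512_28 : EL := (EL.cons 13 (TM.mk (P.cons (P.cons (P.lf 0 731903828 0) (P.cons (P.lf 867902700 0 0) (P.cons (P.lf 58025952 0 0) (P.lf 0 19341984 0)))) (P.cons (P.cons (P.lf 181902236 0 0) (P.cons (P.lf 0 9733712 0) (P.cons (P.lf 0 650772 0) (P.lf 216920 0 0)))) (P.cons (P.cons (P.lf 619824 0 0) (P.cons (P.lf 0 4812288 0) (P.cons (P.lf 0 321736 0) (P.lf 107244 0 0)))) (P.cons (P.cons (P.lf 0 1500303 0) (P.cons (P.lf 54348 0 0) (P.cons (P.lf 3632 0 0) P.nil))) (P.cons (P.cons (P.lf 5076 0 0) (P.cons (P.lf 13316 0 0) P.nil)) (P.cons (P.cons (P.lf 3857 0 0) P.nil) P.nil)))))) 3065)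
 EL.nil)
noncomputable def S256_270_364_512_29 : EL := (EL.cons 13 (TM.mk (P.cons (P.cons (P.lf 0 124723467 0) (P.cons (P.lf 295797972 0 0) (P.cons (P.lf 0 155604505 0) (P.cons (P.lf 0 30043233 0) (P.cons (P.lf 7033094 0 0) (P.cons (P.lf 522628 0 0) P.nil)))))) (P.cons (P.cons (P.lf 61995788 0 0) (P.cons (P.lf 0 76832986 0) (P.cons (P.lf 0 1203007 0) (P.cons (P.lf 2238307 0 0) (P.cons (P.lf 0 157753 0) P.nil))))) (P.cons (P.cons (P.lf 0 7492750 0) (P.cons (P.lf 0 1066129 0) (P.cons (P.lf 1851542 0 0) (P.cons (P.lf 280868 0 0) P.nil)))) (P.cons (P.cons (P.lf 0 563834 0) (P.cons (P.lf 1035301 0 0) (P.cons (P.lf 25440 0 0) P.nil))) (P.cons (P.cons (P.lf 128723 0 0) (P.cons (P.lf 0 7527 0) P.nil)) (P.cons (P.cons (P.lf 1317 0 0) P.nil) P.nil)))))) 258549)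
 EL.nil)
noncomputable def S256_270_364_512_30 : EL := (EL.cons 13 (TM.mk (P.cons (P.lf 0 234661708 0) (P.cons (P.lf 0 234223488 0) (P.cons (P.lf 656512 0 0) (P.cons (P.lf 217472 0 0) (P.cons (P.lf 0 1016 0) (P.cons (P.lf 0 200 0) P.nil)))))) 32)
 EL.nil)
noncomputable def S256_270_364_512_31 : EL := (EL.cons 13 (TM.mk (P.cons (P.cons (P.lf 0 39988617 0) (P.cons (P.lf 47419110 0 0) (P.cons (P.lf 3170331 0 0) (P.lf 0 1056777 0)))) (P.cons (P.cons (P.lf 0 29975450 0) (P.cons (P.lf 46798742 0 0) (P.cons (P.lf 3128854 0 0) (P.lf 0 1042951 0)))) (P.cons (P.cons (P.lf 10065671 0 0) (P.cons (P.lf 0 926412 0) (P.cons (P.lf 0 61937 0) (P.lf 20645 0 0)))) (P.cons (P.cons (P.lf 0 38915 0) (P.cons (P.lf 0 301923 0) (P.cons (P.lf 0 20185 0) P.nil))) (P.cons (P.cons (P.lf 0 91019 0) (P.cons (P.lf 5125 0 0) P.nil)) (P.cons (P.cons (P.lf 694 0 0) P.nil) P.nil)))))) 8906)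
 EL.nil)
noncomputable def S256_270_364_512_32 : EL := (EL.cons 13 (TM.mk (P.cons (P.cons (P.lf 0 6814445 0) (P.cons (P.lf 16161347 0 0) (P.cons (P.lf 0 8501675 0) (P.cons (P.lf 0 1641455 0) (P.cons (P.lf 384263 0 0) (P.cons (P.lf 28554 0 0) P.nil)))))) (P.cons (P.cons (P.lf 0 3414491 0) (P.cons (P.lf 11933285 0 0) (P.cons (P.lf 0 8551527 0) (P.cons (P.lf 0 1516096 0) (P.cons (P.lf 374926 0 0) P.nil))))) (P.cons (P.cons (P.lf 2990591 0 0) (P.cons (P.lf 0 4293505 0) (P.cons (P.lf 59341 0 0) (P.cons (P.lf 142002 0 0) P.nil)))) (P.cons (P.cons (P.lf 0 442579 0) (P.cons (P.lf 0 4808 0) (P.cons (P.lf 110425 0 0) P.nil))) (P.cons (P.cons (P.lf 0 25738 0) (P.cons (P.lf 60171 0 0) P.nil)) (P.cons (P.cons (P.lf 7566 0 0) P.nil) P.nil)))))) 87062)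
 EL.nil)
noncomputable def S256_270_364_512_33 : EL := (EL.cons 14 (TM.mk (P.lf 8589934592 0 0) 0)
 EL.nil)
noncomputable def S256_270_364_512_34 : EL := (EL.cons 14 (TM.mk (P.cons (P.cons (P.lf 1463807656 0 0) (P.cons (P.lf 0 1735805400 0) (P.cons (P.lf 0 116051904 0) (P.lf 38683968 0 0)))) (P.cons (P.cons (P.lf 0 363804472 0) (P.cons (P.lf 19467424 0 0) (P.cons (P.lf 1301544 0 0) (P.lf 0 433840 0)))) (P.cons (P.cons (P.lf 0 1239648 0) (P.cons (P.lf 9624576 0 0) (P.cons (P.lf 643472 0 0) (P.lf 0 214488 0)))) (P.cons (P.cons (P.lf 3000606 0 0) (P.cons (P.lf 0 108696 0) (P.cons (P.lf 0 7264 0) P.nil))) (P.cons (P.cons (P.lf 0 10152 0) (P.cons (P.lf 0 26632 0) P.nil)) (P.cons (P.cons (P.lf 0 7714 0) P.nil) P.nil)))))) 6130)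
 EL.nil)
noncomputable def S256_270_364_512_35 : EL := (EL.cons 14 (TM.mk (P.cons (P.cons (P.lf 249446934 0 0) (P.cons (P.lf 0 591595944 0) (P.cons (P.lf 311209010 0 0) (P.cons (P.lf 60086466 0 0) (P.cons (P.lf 0 14066188 0) (P.cons (P.lf 0 1045256 0) P.nil)))))) (P.cons (P.cons (P.lf 0 123991576 0) (P.cons (P.lf 153665972 0 0) (P.cons (P.lf 2406014 0 0) (P.cons (P.lf 0 4476614 0) (P.cons (P.lf 315506 0 0) P.nil))))) (P.cons (P.cons (P.lf 14985500 0 0) (P.cons (P.lf 2132258 0 0) (P.cons (P.lf 0 3703084 0) (P.cons (P.lf 0 561736 0) P.nil)))) (P.cons (P.cons (P.lf 1127668 0 0) (P.cons (P.lf 0 2070602 0) (P.cons (P.lf 0 50880 0) P.nil))) (P.cons (P.cons (P.lf 0 257446 0) (P.cons (P.lf 15054 0 0) P.nil)) (P.cons (P.cons (P.lf 0 2634 0) P.nil) P.nil)))))) 517098)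
 EL.nil)
noncomputable def S256_270_364_512_36 : EL := (EL.cons 14 (TM.mk (P.cons (P.lf 469323416 0 0) (P.cons (P.lf 468446976 0 0) (P.cons (P.lf 0 1313024 0) (P.cons (P.lf 0 434944 0) (P.cons (P.lf 2032 0 0) (P.cons (P.lf 400 0 0) P.nil)))))) 64)
 EL.nil)
noncomputable def S256_270_364_512_37 : EL := (EL.cons 14 (TM.mk (P.cons (P.cons (P.lf 79977234 0 0) (P.cons (P.lf 0 94838220 0) (P.cons (P.lf 0 6340662 0) (P.lf 2113554 0 0)))) (P.cons (P.cons (P.lf 59950900 0 0) (P.cons (P.lf 0 93597484 0) (P.cons (P.lf 0 6257708 0) (P.lf 2085902 0 0)))) (P.cons (P.cons (P.lf 0 20131342 0) (P.cons (P.lf 1852824 0 0) (P.cons (P.lf 123874 0 0) (P.lf 0 41290 0)))) (P.cons (P.cons (P.lf 77830 0 0) (P.cons (P.lf 603846 0 0) (P.cons (P.lf 40370 0 0) P.nil))) (P.cons (P.cons (P.lf 182038 0 0) (P.cons (P.lf 0 10250 0) P.nil)) (P.cons (P.cons (P.lf 0 1388 0) P.nil) P.nil)))))) 17812)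
 EL.nil)
noncomputable def S256_270_364_512_38 : EL := (EL.cons 14 (TM.mk (P.cons (P.cons (P.lf 13628890 0 0) (P.cons (P.lf 0 32322694 0) (P.cons (P.lf 17003350 0 0) (P.cons (P.lf 3282910 0 0) (P.cons (P.lf 0 768526 0) (P.cons (P.lf 0 57108 0) P.nil)))))) (P.cons (P.cons (P.lf 6828982 0 0) (P.cons (P.lf 0 23866570 0) (P.cons (P.lf 17103054 0 0) (P.cons (P.lf 3032192 0 0) (P.cons (P.lf 0 749852 0) P.nil))))) (P.cons (P.cons (P.lf 0 5981182 0) (P.cons (P.lf 8587010 0 0) (P.cons (P.lf 0 118682 0) (P.cons (P.lf 0 284004 0) P.nil)))) (P.cons (P.cons (P.lf 885158 0 0) (P.cons (P.lf 9616 0 0) (P.cons (P.lf 0 220850 0) P.nil))) (P.cons (P.cons (P.lf 51476 0 0) (P.cons (P.lf 0 120342 0) P.nil)) (P.cons (P.cons (P.lf 0 15132 0) P.nil) P.nil)))))) 174124)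
 EL.nil)
noncomputable def S256_270_364_512_39 : EL := (EL.cons 14 (TM.mk (P.cons (P.lf 25642158 0 0) (P.cons (P.lf 51188546 0 0) (P.cons (P.lf 25402998 0 0) (P.cons (P.lf 0 190736 0) (P.cons (P.lf 0 47016 0) (P.cons (P.lf 398 0 0) P.nil)))))) 94)
 EL.nil)
noncomputable def S256_270_364_512_40 : EL := (EL.cons 14 (TM.mk (P.cons (P.cons (P.lf 4369670 0 0) (P.cons (P.lf 0 5181622 0) (P.cons (P.lf 0 346430 0) (P.lf 115476 0 0)))) (P.cons (P.cons (P.lf 7637014 0 0) (P.cons (P.lf 0 10285778 0) (P.cons (P.lf 0 687682 0) (P.lf 229226 0 0)))) (P.cons (P.cons (P.lf 2157256 0 0) (P.cons (P.lf 0 4988554 0) (P.cons (P.lf 0 333522 0) (P.lf 111174 0 0)))) (P.cons (P.cons (P.lf 0 1106810 0) (P.cons (P.lf 153142 0 0) (P.cons (P.lf 10238 0 0) P.nil))) (P.cons (P.cons (P.lf 14250 0 0) (P.cons (P.lf 36802 0 0) P.nil)) (P.cons (P.cons (P.lf 10876 0 0) P.nil) P.nil)))))) 8324)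
 EL.nil)
noncomputable def S256_270_364_512_41 : EL := (EL.cons 14 (TM.mk (P.cons (P.cons (P.lf 744634 0 0) (P.cons (P.lf 0 1765996 0) (P.cons (P.lf 929002 0 0) (P.cons (P.lf 179366 0 0) (P.cons (P.lf 0 41988 0) (P.cons (P.lf 0 3120 0) P.nil)))))) (P.cons (P.cons (P.lf 1116354 0 0) (P.cons (P.lf 0 3066682 0) (P.cons (P.lf 1861716 0 0) (P.cons (P.lf 344698 0 0) (P.cons (P.lf 0 82880 0) P.nil))))) (P.cons (P.cons (P.lf 43540 0 0) (P.cons (P.lf 0 827444 0) (P.cons (P.lf 923620 0 0) (P.cons (P.lf 149340 0 0) P.nil)))) (P.cons (P.cons (P.lf 0 279552 0) (P.cons (P.lf 474096 0 0) (P.cons (P.lf 0 22014 0) P.nil))) (P.cons (P.cons (P.lf 51654 0 0) (P.cons (P.lf 0 6162 0) P.nil)) (P.cons (P.cons (P.lf 2150 0 0) P.nil) P.nil)))))) 101896)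
 EL.nil)
noncomputable def S256_270_364_512_42 : EL := (EL.cons 14 (TM.mk (P.cons (P.lf 1400996 0 0) (P.cons (P.lf 4195138 0 0) (P.cons (P.lf 4175546 0 0) (P.cons (P.lf 1365792 0 0) (P.cons (P.lf 0 19438 0) (P.cons (P.lf 0 3786 0) P.nil)))))) 74)
 EL.nil)
noncomputable def S256_270_364_512_43 : EL := (EL.cons 14 (TM.mk (P.cons (P.cons (P.lf 238742 0 0) (P.cons (P.lf 0 283104 0) (P.cons (P.lf 0 18926 0) (P.lf 6308 0 0)))) (P.cons (P.cons (P.lf 655556 0 0) (P.cons (P.lf 0 844554 0) (P.cons (P.lf 0 56464 0) (P.lf 18820 0 0)))) (P.cons (P.cons (P.lf 533676 0 0) (P.cons (P.lf 0 832692 0) (P.cons (P.lf 0 55670 0) (P.lf 18556 0 0)))) (P.cons (P.cons (P.lf 55782 0 0) (P.cons (P.lf 0 261844 0) (P.cons (P.lf 0 17506 0) P.nil))) (P.cons (P.cons (P.lf 0 60294 0) (P.cons (P.lf 11644 0 0) P.nil)) (P.cons (P.cons (P.lf 1432 0 0) P.nil) P.nil)))))) 10946)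
 EL.nil)
noncomputable def S256_270_364_512_44 : EL := (EL.cons 14 (TM.mk (P.cons (P.cons (P.lf 40684 0 0) (P.cons (P.lf 0 96486 0) (P.cons (P.lf 50756 0 0) (P.cons (P.lf 9798 0 0) (P.cons (P.lf 0 2294 0) (P.cons (P.lf 0 170 0) P.nil)))))) (P.cons (P.cons (P.lf 101600 0 0) (P.cons (P.lf 0 263860 0) (P.cons (P.lf 152380 0 0) (P.cons (P.lf 28614 0 0) (P.cons (P.lf 0 6818 0) P.nil))))) (P.cons (P.cons (P.lf 63144 0 0) (P.cons (P.lf 0 212178 0) (P.cons (P.lf 151848 0 0) (P.cons (P.lf 26928 0 0) P.nil)))) (P.cons (P.cons (P.lf 0 13106 0) (P.cons (P.lf 0 18662 0) (P.cons (P.lf 48834 0 0) P.nil))) (P.cons (P.cons (P.lf 0 12484 0) (P.cons (P.lf 25798 0 0) P.nil)) (P.cons (P.cons (P.lf 2974 0 0) P.nil) P.nil)))))) 31154)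
 EL.nil)
noncomputable def S256_270_364_512_45 : EL := (EL.cons 14 (TM.mk (P.cons (P.cons (P.lf 42508162 0 0) (P.cons (P.lf 0 151220476 0) (P.cons (P.lf 169209294 0 0) (P.cons (P.lf 0 43532090 0) (P.cons (P.lf 0 21407646 0) (P.cons (P.lf 3254012 0 0) P.nil)))))) (P.cons (P.cons (P.lf 0 31694038 0) (P.cons (P.lf 76862518 0 0) (P.cons (P.lf 0 43450182 0) (P.cons (P.lf 0 5825246 0) (P.cons (P.lf 2426832 0 0) P.nil))))) (P.cons (P.cons (P.lf 7769016 0 0) (P.cons (P.lf 0 9089086 0) (P.cons (P.lf 0 1725884 0) (P.cons (P.lf 1205322 0 0) P.nil)))) (P.cons (P.cons (P.lf 0 337476 0) (P.cons (P.lf 0 1007980 0) (P.cons (P.lf 836972 0 0) P.nil))) (P.cons (P.cons (P.lf 0 137400 0) (P.cons (P.lf 216494 0 0) P.nil)) (P.cons (P.cons (P.lf 15448 0 0) P.nil) P.nil)))))) 1820230)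
 EL.nil)
noncomputable def S256_270_364_512_46 : EL := (EL.cons 15 (TM.mk (P.lf 4294967296 0 0) 0)
 EL.nil)
noncomputable def S256_270_364_512_47 : EL := (EL.cons 15 (TM.mk (P.cons (P.cons (P.lf 731903828 0 0) (P.cons (P.lf 0 867902700 0) (P.cons (P.lf 0 58025952 0) (P.lf 19341984 0 0)))) (P.cons (P.cons (P.lf 0 181902236 0) (P.cons (P.lf 9733712 0 0) (P.cons (P.lf 650772 0 0) (P.lf 0 216920 0)))) (P.cons (P.cons (P.lf 0 619824 0) (P.cons (P.lf 4812288 0 0) (P.cons (P.lf 321736 0 0) (P.lf 0 107244 0)))) (P.cons (P.cons (P.lf 1500303 0 0) (P.cons (P.lf 0 54348 0) (P.cons (P.lf 0 3632 0) P.nil))) (P.cons (P.cons (P.lf 0 5076 0) (P.cons (P.lf 0 13316 0) P.nil)) (P.cons (P.cons (P.lf 0 3857 0) P.nil) P.nil)))))) 3065)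
 EL.nil)
noncomputable def S256_270_364_512_48 : EL := (EL.cons 15 (TM.mk (P.cons (P.cons (P.lf 124723467 0 0) (P.cons (P.lf 0 295797972 0) (P.cons (P.lf 155604505 0 0) (P.cons (P.lf 30043233 0 0) (P.cons (P.lf 0 7033094 0) (P.cons (P.lf 0 522628 0) P.nil)))))) (P.cons (P.cons (P.lf 0 61995788 0) (P.cons (P.lf 76832986 0 0) (P.cons (P.lf 1203007 0 0) (P.cons (P.lf 0 2238307 0) (P.cons (P.lf 157753 0 0) P.nil))))) (P.cons (P.cons (P.lf 7492750 0 0) (P.cons (P.lf 1066129 0 0) (P.cons (P.lf 0 1851542 0) (P.cons (P.lf 0 280868 0) P.nil)))) (P.cons (P.cons (P.lf 563834 0 0) (P.cons (P.lf 0 1035301 0) (P.cons (P.lf 0 25440 0) P.nil))) (P.cons (P.cons (P.lf 0 128723 0) (P.cons (P.lf 7527 0 0) P.nil)) (P.cons (P.cons (P.lf 0 1317 0) P.nil) P.nil)))))) 258549)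
 EL.nil)
noncomputable def S256_270_364_512 : SL := (SL.cons S256_270_364_512_0 (SL.cons S256_270_364_512_1 (SL.cons S256_270_364_512_2 (SL.cons S256_270_364_512_3 (SL.cons S256_270_364_512_4 (SL.cons S256_270_364_512_5 (SL.cons S256_270_364_512_6 (SL.cons S256_270_364_512_7 (SL.cons S256_270_364_512_8 (SL.cons S256_270_364_512_9 (SL.cons S256_270_364_512_10 (SL.cons S256_270_364_512_11 (SL.cons S256_270_364_512_12 (SL.cons S256_270_364_512_13 (SL.cons S256_270_364_512_14 (SL.cons S256_270_364_512_15 (SL.cons S256_270_364_512_16 (SL.cons S256_270_364_512_17 (SL.cons S256_270_364_512_18 (SL.cons S256_270_364_512_19 (SL.cons S256_270_364_512_20 (SL.cons S256_270_364_512_21 (SL.cons S256_270_364_512_22 (SL.cons S256_270_364_512_23 (SL.cons S256_270_364_512_24 (SL.cons S256_270_364_512_25 (SL.cons S256_270_364_512_26 (SL.cons S256_270_364_512_27 (SL.cons S256_270_364_512_28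 (SL.cons S256_270_364_512_29 (SL.cons S256_270_364_512_30 (SL.cons S256_270_364_512_31 (SL.cons S256_270_364_512_32 (SL.cons S256_270_364_512_33 (SL.cons S256_270_364_512_34 (SL.cons S256_270_364_512_35 (SL.cons S256_270_364_512_36 (SL.cons S256_270_364_512_37 (SL.cons S256_270_364_512_38 (SL.cons S256_270_364_512_39 (SL.cons S256_270_364_512_40 (SL.cons S256_270_364_512_41 (SL.cons S256_270_364_512_42 (SL.cons S256_270_364_512_43 (SL.cons S256_270_364_512_44 (SL.cons S256_270_364_512_45 (SL.cons S256_270_364_512_46 (SL.cons S256_270_364_512_47 (SL.cons S256_270_364_512_48 SL.nil)))))))))))))))))))))))))))))))))))))))))))))))))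
noncomputable def S256_270_512_660_0 : EL := (EL.cons 0 (TM.mk (P.cons (P.lf 8433179811 0 0) (P.cons (P.lf 0 44989933 0) (P.cons (P.lf 0 22326853 0) (P.cons (P.lf 167639 0 0) (P.cons (P.lf 41322 0 0) (P.cons (P.lf 0 349 0) P.nil)))))) 89)
 (EL.cons 1 (TM.mk (P.cons (P.lf 219584518 0 0) (P.cons (P.lf 218353558 0 0) (P.cons (P.lf 0 1842607 0) (P.cons (P.lf 0 607822 0) (P.cons (P.lf 4760 0 0) (P.cons (P.lf 933 0 0) P.nil)))))) 67)
 (EL.cons 5 (TM.mk (P.cons (P.lf 4302980472 0 0) (P.cons (P.lf 15996416 0 0) (P.cons (P.lf 7938434 0 0) (P.cons (P.lf 0 59604 0) (P.cons (P.lf 0 14690 0) (P.cons (P.lf 122 0 0) P.nil)))))) 139)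
 (EL.cons 9 (TM.mk (P.lf 6442450944 0 0) 2)
 EL.nil))))
noncomputable def S256_270_512_660_1 : EL := (EL.cons 0 (TM.mk (P.cons (P.cons (P.lf 0 2349855036 0) (P.cons (P.lf 0 1690466802 0) (P.cons (P.lf 113020675 0 0) (P.lf 37673562 0 0)))) (P.cons (P.cons (P.lf 0 505359906 0) (P.cons (P.lf 55324181 0 0) (P.cons (P.lf 0 3698839 0) (P.lf 0 1232935 0)))) (P.cons (P.cons (P.lf 59329878 0 0) (P.cons (P.lf 27012078 0 0) (P.cons (P.lf 0 1805953 0) (P.lf 0 601983 0)))) (P.cons (P.cons (P.lf 9327107 0 0) (P.cons (P.lf 0 645391 0) (P.cons (P.lf 43143 0 0) P.nil))) (P.cons (P.cons (P.lf 0 437492 0) (P.cons (P.lf 0 155598 0) P.nil)) (P.cons (P.cons (P.lf 0 48927 0) P.nil) P.nil)))))) 36392)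
 (EL.cons 1 (TM.mk (P.cons (P.cons (P.lf 1045367424 0 0) (P.cons (P.lf 0 110681701 0) (P.cons (P.lf 7399918 0 0) (P.lf 2466636 0 0)))) (P.cons (P.cons (P.lf 0 206228090 0) (P.cons (P.lf 0 108320407 0) (P.cons (P.lf 7242045 0 0) (P.lf 2414013 0 0)))) (P.cons (P.cons (P.lf 0 41121544 0) (P.cons (P.lf 3519554 0 0) (P.cons (P.lf 0 235303 0) (P.lf 0 78428 0)))) (P.cons (P.cons (P.lf 2913679 0 0) (P.cons (P.lf 1136012 0 0) (P.cons (P.lf 0 75945 0) P.nil))) (P.cons (P.cons (P.lf 384471 0 0) (P.cons (P.lf 0 27623 0) P.nil)) (P.cons (P.cons (P.lf 0 16446 0) P.nil) P.nil)))))) 37988)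
 (EL.cons 5 (TM.mk (P.cons (P.cons (P.lf 0 1002654174 0) (P.cons (P.lf 0 874379732 0) (P.cons (P.lf 58458994 0 0) (P.lf 19486330 0 0)))) (P.cons (P.cons (P.lf 0 94980566 0) (P.cons (P.lf 0 3123498 0) (P.cons (P.lf 208828 0 0) (P.lf 69602 0 0)))) (P.cons (P.cons (P.lf 0 5057705 0) (P.cons (P.lf 0 1423394 0) (P.cons (P.lf 95160 0 0) (P.lf 31716 0 0)))) (P.cons (P.cons (P.lf 0 958801 0) (P.cons (P.lf 137076 0 0) (P.cons (P.lf 0 9160 0) P.nil))) (P.cons (P.cons (P.lf 99620 0 0) (P.cons (P.lf 32676 0 0) P.nil)) (P.cons (P.cons (P.lf 11382 0 0) P.nil) P.nil)))))) 21500)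
 (EL.cons 9 (TM.mk (P.cons (P.cons (P.lf 0 1621904272 0) (P.cons (P.lf 0 1301854050 0) (P.cons (P.lf 87038928 0 0) (P.lf 29012976 0 0)))) (P.cons (P.cons (P.lf 0 242350662 0) (P.cons (P.lf 14600568 0 0) (P.cons (P.lf 0 976158 0) (P.lf 0 325380 0)))) (P.cons (P.cons (P.lf 14150602 0 0) (P.cons (P.lf 7218432 0 0) (P.cons (P.lf 0 482604 0) (P.lf 0 160866 0)))) (P.cons (P.cons (P.lf 2080138 0 0) (P.cons (P.lf 0 81522 0) (P.cons (P.lf 5448 0 0) P.nil))) (P.cons (P.cons (P.lf 0 49338 0) (P.cons (P.lf 0 19974 0) P.nil)) (P.cons (P.cons (P.lf 0 5305 0) P.nil) P.nil)))))) 4616)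
 (EL.cons 2 (TM.mk (P.cons (P.cons (P.lf 0 152470141 0) (P.cons (P.lf 23606206 0 0) (P.cons (P.lf 11372723 0 0) (P.cons (P.lf 0 430377 0) (P.lf 0 107592 0))))) (P.cons (P.cons (P.lf 0 151045419 0) (P.cons (P.lf 23385622 0 0) (P.cons (P.lf 11266455 0 0) (P.cons (P.lf 0 426355 0) (P.lf 0 106588 0))))) (P.cons (P.cons (P.lf 2130159 0 0) (P.cons (P.lf 0 329802 0) (P.cons (P.lf 0 158886 0) (P.cons (P.lf 6010 0 0) P.nil)))) (P.cons (P.cons (P.lf 698540 0 0) (P.cons (P.lf 0 108151 0) (P.cons (P.lf 0 52101 0) P.nil))) (P.cons (P.cons (P.lf 0 8583 0) (P.cons (P.lf 1327 0 0) P.nil)) (P.cons (P.cons (P.lf 0 1673 0) P.nil) P.nil)))))) 5257)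
 (EL.cons 6 (TM.mk (P.cons (P.cons (P.lf 1485557223 0 0) (P.cons (P.lf 0 230001564 0) (P.cons (P.lf 0 110807499 0) (P.cons (P.lf 4193280 0 0) (P.lf 1048317 0 0))))) (P.cons (P.cons (P.lf 0 16660845 0) (P.cons (P.lf 2579517 0 0) (P.cons (P.lf 1242726 0 0) (P.cons (P.lf 0 47025 0) (P.lf 0 11754 0))))) (P.cons (P.cons (P.lf 0 8237022 0) (P.cons (P.lf 1275297 0 0) (P.cons (P.lf 614397 0 0) (P.cons (P.lf 0 23250 0) P.nil)))) (P.cons (P.cons (P.lf 93027 0 0) (P.cons (P.lf 0 14400 0) (P.cons (P.lf 0 6936 0) P.nil))) (P.cons (P.cons (P.lf 22794 0 0) (P.cons (P.lf 0 3528 0) P.nil)) (P.cons (P.cons (P.lf 0 270 0) P.nil) P.nil)))))) 8391)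
 EL.nil))))))
noncomputable def S256_270_512_660_2 : EL := (EL.cons 0 (TM.mk (P.cons (P.cons (P.lf 648674630 0 0) (P.cons (P.lf 942811691 0 0) (P.cons (P.lf 275804941 0 0) (P.cons (P.lf 0 66319386 0) (P.cons (P.lf 0 13588077 0) (P.cons (P.lf 1009734 0 0) P.nil)))))) (P.cons (P.cons (P.lf 274364722 0 0) (P.cons (P.lf 178906232 0 0) (P.cons (P.lf 0 32421396 0) (P.cons (P.lf 0 1251260 0) (P.cons (P.lf 820482 0 0) P.nil))))) (P.cons (P.cons (P.lf 0 2514663 0) (P.cons (P.lf 0 40137699 0) (P.cons (P.lf 0 7124825 0) (P.cons (P.lf 2206017 0 0) P.nil)))) (P.cons (P.cons (P.lf 0 9706632 0) (P.cons (P.lf 0 5231932 0) (P.cons (P.lf 766419 0 0) P.nil))) (P.cons (P.cons (P.lf 0 393146 0) (P.cons (P.lf 533723 0 0) P.nil)) (P.cons (P.cons (P.lf 119295 0 0) P.nil) P.nil)))))) 1277748)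
 (EL.cons 1 (TM.mk (P.cons (P.cons (P.lf 0 540265228 0) (P.cons (P.lf 0 389096780 0) (P.cons (P.lf 61779449 0 0) (P.cons (P.lf 3888992 0 0) (P.cons (P.lf 0 1434249 0) (P.cons (P.lf 106574 0 0) P.nil)))))) (P.cons (P.cons (P.lf 7189940 0 0) (P.cons (P.lf 125647849 0 0) (P.cons (P.lf 26160214 0 0) (P.cons (P.lf 0 7421466 0) (P.cons (P.lf 0 1385946 0) P.nil))))) (P.cons (P.cons (P.lf 36725933 0 0) (P.cons (P.lf 21391449 0 0) (P.cons (P.lf 0 3218058 0) (P.cons (P.lf 0 237655 0) P.nil)))) (P.cons (P.cons (P.lf 1473759 0 0) (P.cons (P.lf 0 2751055 0) (P.cons (P.lf 0 380513 0) P.nil))) (P.cons (P.cons (P.lf 0 655826 0) (P.cons (P.lf 0 314152 0) P.nil)) (P.cons (P.cons (P.lf 0 30635 0) P.nil) P.nil)))))) 516083)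
 (EL.cons 5 (TM.mk (P.cons (P.cons (P.lf 232121390 0 0) (P.cons (P.lf 407667290 0 0) (P.cons (P.lf 150415650 0 0) (P.cons (P.lf 0 32842628 0) (P.cons (P.lf 0 7124937 0) (P.cons (P.lf 529448 0 0) P.nil)))))) (P.cons (P.cons (P.lf 40742936 0 0) (P.cons (P.lf 39062373 0 0) (P.cons (P.lf 0 2024485 0) (P.cons (P.lf 0 949047 0) (P.cons (P.lf 0 23532 0) P.nil))))) (P.cons (P.cons (P.lf 3151449 0 0) (P.cons (P.lf 2425624 0 0) (P.cons (P.lf 56423 0 0) (P.cons (P.lf 0 83281 0) P.nil)))) (P.cons (P.cons (P.lf 1057652 0 0) (P.cons (P.lf 411175 0 0) (P.cons (P.lf 0 101197 0) P.nil))) (P.cons (P.cons (P.lf 25795 0 0) (P.cons (P.lf 0 102186 0) P.nil)) (P.cons (P.cons (P.lf 0 24813 0) P.nil) P.nil)))))) 790664)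
 (EL.cons 9 (TM.mk (P.cons (P.cons (P.lf 408318742 0 0) (P.cons (P.lf 655490484 0 0) (P.cons (P.lf 219246736 0 0) (P.cons (P.lf 0 49784856 0) (P.cons (P.lf 0 10549641 0) (P.cons (P.lf 783942 0 0) P.nil)))))) (P.cons (P.cons (P.lf 122024854 0 0) (P.cons (P.lf 90594237 0 0) (P.cons (P.lf 0 11957721 0) (P.cons (P.lf 0 1229949 0) (P.cons (P.lf 236629 0 0) P.nil))))) (P.cons (P.cons (P.lf 1991787 0 0) (P.cons (P.lf 0 10451947 0) (P.cons (P.lf 0 2185438 0) (P.cons (P.lf 618592 0 0) P.nil)))) (P.cons (P.cons (P.lf 0 2111988 0) (P.cons (P.lf 0 1278580 0) (P.cons (P.lf 151149 0 0) P.nil))) (P.cons (P.cons (P.lf 0 100576 0) (P.cons (P.lf 77268 0 0) P.nil)) (P.cons (P.cons (P.lf 15520 0 0) P.nil) P.nil)))))) 390850)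
 (EL.cons 2 (TM.mk (P.cons (P.cons (P.lf 76769533 0 0) (P.cons (P.lf 49734753 0 0) (P.cons (P.lf 0 19386455 0) (P.cons (P.lf 0 5114992 0) (P.cons (P.lf 748018 0 0) (P.cons (P.lf 134285 0 0) P.nil)))))) (P.cons (P.cons (P.lf 87523351 0 0) (P.cons (P.lf 46802902 0 0) (P.cons (P.lf 0 19907730 0) (P.cons (P.lf 0 4975020 0) (P.cons (P.lf 741341 0 0) P.nil))))) (P.cons (P.cons (P.lf 9621641 0 0) (P.cons (P.lf 0 3376873 0) (P.cons (P.lf 0 299317 0) (P.cons (P.lf 190445 0 0) P.nil)))) (P.cons (P.cons (P.lf 0 1273972 0) (P.cons (P.lf 0 410034 0) (P.cons (P.lf 229646 0 0) P.nil))) (P.cons (P.cons (P.lf 0 134077 0) (P.cons (P.lf 36933 0 0) P.nil)) (P.cons (P.cons (P.lf 8493 0 0) P.nil) P.nil)))))) 313042)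
 (EL.cons 6 (TM.mk (P.cons (P.cons (P.lf 0 747986010 0) (P.cons (P.lf 0 484578984 0) (P.cons (P.lf 188887404 0 0) (P.cons (P.lf 49836756 0 0) (P.cons (P.lf 0 7288188 0) (P.cons (P.lf 0 1308390 0) P.nil)))))) (P.cons (P.cons (P.lf 0 103377882 0) (P.cons (P.lf 29472402 0 0) (P.cons (P.lf 4725558 0 0) (P.cons (P.lf 0 1457016 0) (P.cons (P.lf 78678 0 0) P.nil))))) (P.cons (P.cons (P.lf 11926812 0 0) (P.cons (P.lf 4735872 0 0) (P.cons (P.lf 0 2348826 0) (P.cons (P.lf 0 535872 0) P.nil)))) (P.cons (P.cons (P.lf 1458996 0 0) (P.cons (P.lf 0 375750 0) (P.cons (P.lf 0 75600 0) P.nil))) (P.cons (P.cons (P.lf 0 88170 0) (P.cons (P.lf 0 22386 0) P.nil)) (P.cons (P.cons (P.lf 0 8676 0) P.nil) P.nil)))))) 259284)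
 EL.nil))))))
noncomputable def S256_270_512_660_3 : EL := (EL.cons 0 (TM.mk (P.cons (P.lf 22537052 0 0) (P.cons (P.lf 44989933 0 0) (P.cons (P.lf 22326853 0 0) (P.cons (P.lf 0 167639 0) (P.cons (P.lf 0 41322 0) (P.cons (P.lf 349 0 0) P.nil)))))) 89)
 (EL.cons 1 (TM.mk (P.cons (P.lf 0 219584518 0) (P.cons (P.lf 0 218353558 0) (P.cons (P.lf 1842607 0 0) (P.cons (P.lf 607822 0 0) (P.cons (P.lf 0 4760 0) (P.cons (P.lf 0 933 0) P.nil)))))) 67)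
 (EL.cons 5 (TM.mk (P.cons (P.lf 2139470472 0 0) (P.cons (P.lf 0 15996416 0) (P.cons (P.lf 0 7938434 0) (P.cons (P.lf 59604 0 0) (P.cons (P.lf 14690 0 0) (P.cons (P.lf 0 122 0) P.nil)))))) 132)
 EL.nil)))
noncomputable def S256_270_512_660_4 : EL := (EL.cons 0 (TM.mk (P.cons (P.cons (P.lf 0 5673761 0) (P.cons (P.lf 0 4554159 0) (P.cons (P.lf 304479 0 0) (P.lf 101492 0 0)))) (P.cons (P.cons (P.lf 0 12174129 0) (P.cons (P.lf 0 9040234 0) (P.cons (P.lf 604408 0 0) (P.lf 201468 0 0)))) (P.cons (P.cons (P.lf 0 7263762 0) (P.cons (P.lf 0 4384471 0) (P.cons (P.lf 293134 0 0) (P.lf 97711 0 0)))) (P.cons (P.cons (P.lf 0 691586 0) (P.cons (P.lf 134597 0 0) (P.cons (P.lf 0 8998 0) P.nil))) (P.cons (P.cons (P.lf 80101 0 0) (P.cons (P.lf 32345 0 0) P.nil)) (P.cons (P.cons (P.lf 7943 0 0) P.nil) P.nil)))))) 7560)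
 (EL.cons 1 (TM.mk (P.cons (P.cons (P.lf 55280988 0 0) (P.cons (P.lf 44372396 0 0) (P.cons (P.lf 0 2966634 0) (P.lf 0 988876 0)))) (P.cons (P.cons (P.lf 63231373 0 0) (P.cons (P.lf 43626005 0 0) (P.cons (P.lf 0 2916731 0) (P.lf 0 972243 0)))) (P.cons (P.cons (P.lf 7267783 0 0) (P.cons (P.lf 0 1113230 0) (P.cons (P.lf 74426 0 0) (P.lf 24808 0 0)))) (P.cons (P.cons (P.lf 0 772839 0) (P.cons (P.lf 0 360523 0) (P.cons (P.lf 24101 0 0) P.nil))) (P.cons (P.cons (P.lf 0 86439 0) (P.cons (P.lf 7846 0 0) P.nil)) (P.cons (P.cons (P.lf 4196 0 0) P.nil) P.nil)))))) 11428)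
 (EL.cons 5 (TM.mk (P.cons (P.cons (P.lf 0 538617418 0) (P.cons (P.lf 0 432332092 0) (P.cons (P.lf 28904714 0 0) (P.lf 9634904 0 0)))) (P.cons (P.cons (P.lf 0 76454974 0) (P.cons (P.lf 8081160 0 0) (P.cons (P.lf 0 540286 0) (P.lf 0 180092 0)))) (P.cons (P.cons (P.lf 7299538 0 0) (P.cons (P.lf 3965066 0 0) (P.cons (P.lf 0 265092 0) (P.lf 0 88362 0)))) (P.cons (P.cons (P.lf 939276 0 0) (P.cons (P.lf 0 75030 0) (P.cons (P.lf 5014 0 0) P.nil))) (P.cons (P.cons (P.lf 0 44924 0) (P.cons (P.lf 0 18156 0) P.nil)) (P.cons (P.cons (P.lf 0 4592 0) P.nil) P.nil)))))) 4296)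
 EL.nil)))
noncomputable def S256_270_512_660_5 : EL := (EL.cons 0 (TM.mk (P.cons (P.cons (P.lf 1428384 0 0) (P.cons (P.lf 2293043 0 0) (P.cons (P.lf 766970 0 0) (P.cons (P.lf 0 174157 0) (P.cons (P.lf 0 36903 0) (P.cons (P.lf 2742 0 0) P.nil)))))) (P.cons (P.cons (P.lf 3278302 0 0) (P.cons (P.lf 4894440 0 0) (P.cons (P.lf 1489246 0 0) (P.cons (P.lf 0 351966 0) (P.cons (P.lf 0 72843 0) P.nil))))) (P.cons (P.cons (P.lf 2274173 0 0) (P.cons (P.lf 2867744 0 0) (P.cons (P.lf 668666 0 0) (P.cons (P.lf 0 178957 0) P.nil)))) (P.cons (P.cons (P.lf 418783 0 0) (P.cons (P.lf 219441 0 0) (P.cons (P.lf 0 61876 0) P.nil))) (P.cons (P.cons (P.lf 0 13990 0) (P.cons (P.lf 0 51440 0) P.nil)) (P.cons (P.cons (P.lf 0 8778 0) P.nil) P.nil)))))) 83430)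
 (EL.cons 1 (TM.mk (P.cons (P.cons (P.lf 0 13917135 0) (P.cons (P.lf 0 22341738 0) (P.cons (P.lf 0 7472805 0) (P.cons (P.lf 1696865 0 0) (P.cons (P.lf 359572 0 0) (P.cons (P.lf 0 26718 0) P.nil)))))) (P.cons (P.cons (P.lf 0 17998215 0) (P.cons (P.lf 0 25304308 0) (P.cons (P.lf 0 7023346 0) (P.cons (P.lf 1729275 0 0) (P.cons (P.lf 349490 0 0) P.nil))))) (P.cons (P.cons (P.lf 0 4086883 0) (P.cons (P.lf 0 2526781 0) (P.cons (P.lf 542476 0 0) (P.cons (P.lf 6361 0 0) P.nil)))) (P.cons (P.cons (P.lf 77900 0 0) (P.cons (P.lf 485578 0 0) (P.cons (P.lf 86182 0 0) P.nil))) (P.cons (P.cons (P.lf 86788 0 0) (P.cons (P.lf 45772 0 0) P.nil)) (P.cons (P.cons (P.lf 2313 0 0) P.nil) P.nil)))))) 104842)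
 (EL.cons 5 (TM.mk (P.cons (P.cons (P.lf 135598376 0 0) (P.cons (P.lf 217681522 0 0) (P.cons (P.lf 72809542 0 0) (P.cons (P.lf 0 16533028 0) (P.cons (P.lf 0 3503424 0) (P.cons (P.lf 260338 0 0) P.nil)))))) (P.cons (P.cons (P.lf 39509330 0 0) (P.cons (P.lf 28457832 0 0) (P.cons (P.lf 0 4515416 0) (P.cons (P.lf 0 284838 0) (P.cons (P.lf 104774 0 0) P.nil))))) (P.cons (P.cons (P.lf 0 144666 0) (P.cons (P.lf 0 4503624 0) (P.cons (P.lf 0 966226 0) (P.cons (P.lf 269826 0 0) P.nil)))) (P.cons (P.cons (P.lf 0 852896 0) (P.cons (P.lf 0 504216 0) (P.cons (P.lf 72382 0 0) P.nil))) (P.cons (P.cons (P.lf 0 28548 0) (P.cons (P.lf 44046 0 0) P.nil)) (P.cons (P.cons (P.lf 8294 0 0) P.nil) P.nil)))))) 158854)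
 EL.nil)))
noncomputable def S256_270_512_660_6 : EL := (EL.cons 12 (TM.mk (P.lf 8589934592 0 0) 0)
 (EL.cons 3 (TM.mk (P.cons (P.lf 219995351 0 0) (P.cons (P.lf 219584520 0 0) (P.cons (P.lf 0 615480 0) (P.cons (P.lf 0 203880 0) (P.cons (P.lf 952 0 0) (P.cons (P.lf 187 0 0) P.nil)))))) 37)
 (EL.cons 7 (TM.mk (P.cons (P.lf 0 2143473316 0) (P.cons (P.lf 8013173 0 0) (P.cons (P.lf 3991622 0 0) (P.cons (P.lf 0 14936 0) (P.cons (P.lf 0 3698 0) (P.cons (P.lf 20 0 0) P.nil)))))) 52)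
 EL.nil)))
noncomputable def S256_270_512_660_7 : EL := (EL.cons 12 (TM.mk (P.cons (P.cons (P.lf 0 2162539030 0) (P.cons (P.lf 0 1735805400 0) (P.cons (P.lf 116051904 0 0) (P.lf 38683968 0 0)))) (P.cons (P.cons (P.lf 0 323134216 0) (P.cons (P.lf 19467424 0 0) (P.cons (P.lf 0 1301544 0) (P.lf 0 433840 0)))) (P.cons (P.cons (P.lf 18867470 0 0) (P.cons (P.lf 9624576 0 0) (P.cons (P.lf 0 643472 0) (P.lf 0 214488 0)))) (P.cons (P.cons (P.lf 2773518 0 0) (P.cons (P.lf 0 108696 0) (P.cons (P.lf 7264 0 0) P.nil))) (P.cons (P.cons (P.lf 0 65784 0) (P.cons (P.lf 0 26632 0) P.nil)) (P.cons (P.cons (P.lf 0 7074 0) P.nil) P.nil)))))) 6130)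
 (EL.cons 3 (TM.mk (P.cons (P.cons (P.lf 0 2269090979 0) (P.cons (P.lf 88910830 0 0) (P.cons (P.lf 0 5944370 0) (P.lf 0 1981456 0)))) (P.cons (P.cons (P.lf 199097340 0 0) (P.cons (P.lf 87747640 0 0) (P.cons (P.lf 0 5866600 0) (P.lf 0 1955532 0)))) (P.cons (P.cons (P.lf 50967200 0 0) (P.cons (P.lf 0 1737022 0) (P.cons (P.lf 116130 0 0) (P.lf 38708 0 0)))) (P.cons (P.cons (P.lf 0 1523863 0) (P.cons (P.lf 0 566104 0) (P.cons (P.lf 37846 0 0) P.nil))) (P.cons (P.cons (P.lf 0 216698 0) (P.cons (P.lf 9608 0 0) P.nil)) (P.cons (P.cons (P.lf 5739 0 0) P.nil) P.nil)))))) 33689)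
 (EL.cons 7 (TM.mk (P.cons (P.cons (P.lf 458841604 0 0) (P.cons (P.lf 438007831 0 0) (P.cons (P.lf 0 29284187 0) (P.lf 0 9761396 0)))) (P.cons (P.cons (P.lf 7265549 0 0) (P.cons (P.lf 3202122 0 0) (P.cons (P.lf 0 214086 0) (P.lf 0 71359 0)))) (P.cons (P.cons (P.lf 5499482 0 0) (P.cons (P.lf 1540666 0 0) (P.cons (P.lf 0 103003 0) (P.lf 0 34333 0)))) (P.cons (P.cons (P.lf 1193456 0 0) (P.cons (P.lf 0 59996 0) (P.cons (P.lf 4011 0 0) P.nil))) (P.cons (P.cons (P.lf 0 45360 0) (P.cons (P.lf 0 14503 0) P.nil)) (P.cons (P.cons (P.lf 0 5514 0) P.nil) P.nil)))))) 12903)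
 (EL.cons 10 (TM.mk (P.cons (P.cons (P.lf 0 2976673257 0) (P.cons (P.lf 460863771 0 0) (P.cons (P.lf 222029631 0 0) (P.cons (P.lf 0 8402253 0) (P.lf 0 2100561 0))))) (P.cons (P.cons (P.lf 22256022 0 0) (P.cons (P.lf 0 3445791 0) (P.cons (P.lf 0 1660071 0) (P.cons (P.lf 62820 0 0) (P.lf 15705 0 0))))) (P.cons (P.cons (P.lf 11044845 0 0) (P.cons (P.lf 0 1710018 0) (P.cons (P.lf 0 823833 0) (P.cons (P.lf 31176 0 0) P.nil)))) (P.cons (P.cons (P.lf 0 82926 0) (P.cons (P.lf 12837 0 0) (P.cons (P.lf 6183 0 0) P.nil))) (P.cons (P.cons (P.lf 0 20436 0) (P.cons (P.lf 3162 0 0) P.nil)) (P.cons (P.cons (P.lf 168 0 0) P.nil) P.nil)))))) 10059)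
 EL.nil))))
noncomputable def S256_270_512_660_8 : EL := (EL.cons 12 (TM.mk (P.cons (P.cons (P.lf 544424990 0 0) (P.cons (P.lf 873987312 0 0) (P.cons (P.lf 292328982 0 0) (P.cons (P.lf 0 66379808 0) (P.cons (P.lf 0 14066188 0) (P.cons (P.lf 1045256 0 0) P.nil)))))) (P.cons (P.cons (P.lf 162699806 0 0) (P.cons (P.lf 120792316 0 0) (P.cons (P.lf 0 15943628 0) (P.cons (P.lf 0 1639932 0) (P.cons (P.lf 315506 0 0) P.nil))))) (P.cons (P.cons (P.lf 2655716 0 0) (P.cons (P.lf 0 13935930 0) (P.cons (P.lf 0 2913918 0) (P.cons (P.lf 824790 0 0) P.nil)))) (P.cons (P.cons (P.lf 0 2815984 0) (P.cons (P.lf 0 1704774 0) (P.cons (P.lf 201532 0 0) P.nil))) (P.cons (P.cons (P.lf 0 134102 0) (P.cons (P.lf 103024 0 0) P.nil)) (P.cons (P.cons (P.lf 20694 0 0) P.nil) P.nil)))))) 521104)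
 (EL.cons 3 (TM.mk (P.cons (P.cons (P.lf 1128556281 0 0) (P.cons (P.lf 849899520 0 0) (P.cons (P.lf 0 101738798 0) (P.cons (P.lf 0 12934741 0) (P.cons (P.lf 1801230 0 0) (P.cons (P.lf 0 133845 0) P.nil)))))) (P.cons (P.cons (P.lf 52385708 0 0) (P.cons (P.lf 0 167055829 0) (P.cons (P.lf 0 32656154 0) (P.cons (P.lf 9583068 0 0) (P.cons (P.lf 1757465 0 0) P.nil))))) (P.cons (P.cons (P.lf 0 54797503 0) (P.cons (P.lf 0 32785534 0) (P.cons (P.lf 3815690 0 0) (P.cons (P.lf 513537 0 0) P.nil)))) (P.cons (P.cons (P.lf 0 3629128 0) (P.cons (P.lf 2638372 0 0) (P.cons (P.lf 342730 0 0) P.nil))) (P.cons (P.cons (P.lf 690384 0 0) (P.cons (P.lf 332049 0 0) P.nil)) (P.cons (P.cons (P.lf 43045 0 0) P.nil) P.nil)))))) 705376)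
 (EL.cons 7 (TM.mk (P.cons (P.cons (P.lf 0 95177133 0) (P.cons (P.lf 0 187890728 0) (P.cons (P.lf 0 76931675 0) (P.cons (P.lf 16153987 0 0) (P.cons (P.lf 3588856 0 0) (P.cons (P.lf 0 266682 0) P.nil)))))) (P.cons (P.cons (P.lf 1911680 0 0) (P.cons (P.lf 0 6096276 0) (P.cons (P.lf 0 1191700 0) (P.cons (P.lf 349706 0 0) (P.cons (P.lf 64132 0 0) P.nil))))) (P.cons (P.cons (P.lf 0 1042060 0) (P.cons (P.lf 0 4250257 0) (P.cons (P.lf 0 457717 0) (P.cons (P.lf 193914 0 0) P.nil)))) (P.cons (P.cons (P.lf 0 1466266 0) (P.cons (P.lf 0 708536 0) (P.cons (P.lf 104388 0 0) P.nil))) (P.cons (P.cons (P.lf 0 76682 0) (P.cons (P.lf 81338 0 0) P.nil)) (P.cons (P.cons (P.lf 20786 0 0) P.nil) P.nil)))))) 373890)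
 (EL.cons 10 (TM.mk (P.cons (P.cons (P.lf 1498770918 0 0) (P.cons (P.lf 970971216 0 0) (P.cons (P.lf 0 378481614 0) (P.cons (P.lf 0 99859998 0) (P.cons (P.lf 14603652 0 0) (P.cons (P.lf 2621682 0 0) P.nil)))))) (P.cons (P.cons (P.lf 212745612 0 0) (P.cons (P.lf 0 55425210 0) (P.cons (P.lf 0 10883718 0) (P.cons (P.lf 2546172 0 0) (P.cons (P.lf 0 103068 0) P.nil))))) (P.cons (P.cons (P.lf 0 20311884 0) (P.cons (P.lf 0 7888506 0) (P.cons (P.lf 3960948 0 0) (P.cons (P.lf 897312 0 0) P.nil)))) (P.cons (P.cons (P.lf 0 2613654 0) (P.cons (P.lf 613440 0 0) (P.cons (P.lf 148668 0 0) P.nil))) (P.cons (P.cons (P.lf 125010 0 0) (P.cons (P.lf 31170 0 0) P.nil)) (P.cons (P.cons (P.lf 12780 0 0) P.nil) P.nil)))))) 452532)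
 EL.nil))))
noncomputable def S256_270_512_660_9 : EL := (EL.cons 3 (TM.mk (P.cons (P.lf 219995351 0 0) (P.cons (P.lf 219584520 0 0) (P.cons (P.lf 0 615480 0) (P.cons (P.lf 0 203880 0) (P.cons (P.lf 952 0 0) (P.cons (P.lf 187 0 0) P.nil)))))) 37)
 (EL.cons 7 (TM.mk (P.cons (P.lf 0 2143473316 0) (P.cons (P.lf 8013173 0 0) (P.cons (P.lf 3991622 0 0) (P.cons (P.lf 0 14936 0) (P.cons (P.lf 0 3698 0) (P.cons (P.lf 20 0 0) P.nil)))))) 52)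
 EL.nil))
noncomputable def S256_270_512_660_10 : EL := (EL.cons 3 (TM.mk (P.cons (P.cons (P.lf 0 55384418 0) (P.cons (P.lf 0 44455415 0) (P.cons (P.lf 2972185 0 0) (P.lf 990728 0 0)))) (P.cons (P.cons (P.lf 0 63556725 0) (P.cons (P.lf 0 43873820 0) (P.cons (P.lf 2933300 0 0) (P.lf 977766 0 0)))) (P.cons (P.cons (P.lf 0 7622119 0) (P.cons (P.lf 868511 0 0) (P.cons (P.lf 0 58065 0) (P.lf 0 19354 0)))) (P.cons (P.cons (P.lf 627821 0 0) (P.cons (P.lf 283052 0 0) (P.cons (P.lf 0 18923 0) P.nil))) (P.cons (P.cons (P.lf 75292 0 0) (P.cons (P.lf 0 4804 0) P.nil)) (P.cons (P.cons (P.lf 0 2592 0) P.nil) P.nil)))))) 8356)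
 (EL.cons 7 (TM.mk (P.cons (P.cons (P.lf 539625145 0 0) (P.cons (P.lf 433140964 0 0) (P.cons (P.lf 0 28958795 0) (P.lf 0 9652931 0)))) (P.cons (P.cons (P.lf 78615356 0 0) (P.cons (P.lf 0 6477024 0) (P.cons (P.lf 433038 0 0) (P.lf 144344 0 0)))) (P.cons (P.cons (P.lf 0 6014398 0) (P.cons (P.lf 0 3190094 0) (P.cons (P.lf 213281 0 0) (P.lf 71093 0 0)))) (P.cons (P.cons (P.lf 0 820879 0) (P.cons (P.lf 48166 0 0) (P.cons (P.lf 0 3219 0) P.nil))) (P.cons (P.cons (P.lf 29262 0 0) (P.cons (P.lf 11729 0 0) P.nil)) (P.cons (P.cons (P.lf 3093 0 0) P.nil) P.nil)))))) 2711)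
 EL.nil))
noncomputable def S256_270_512_660_11 : EL := (EL.cons 3 (TM.mk (P.cons (P.cons (P.lf 13943175 0 0) (P.cons (P.lf 22383540 0 0) (P.cons (P.lf 7486786 0 0) (P.cons (P.lf 0 1700041 0) (P.cons (P.lf 0 360246 0) (P.cons (P.lf 26769 0 0) P.nil)))))) (P.cons (P.cons (P.lf 18084014 0 0) (P.cons (P.lf 25435331 0 0) (P.cons (P.lf 7064476 0 0) (P.cons (P.lf 0 1738866 0) (P.cons (P.lf 0 351493 0) P.nil))))) (P.cons (P.cons (P.lf 4188101 0 0) (P.cons (P.lf 2668280 0 0) (P.cons (P.lf 0 503140 0) (P.cons (P.lf 0 16041 0) P.nil)))) (P.cons (P.cons (P.lf 0 28810 0) (P.cons (P.lf 0 429302 0) (P.cons (P.lf 0 75122 0) P.nil))) (P.cons (P.cons (P.lf 0 79410 0) (P.cons (P.lf 0 42711 0) P.nil)) (P.cons (P.cons (P.lf 0 2729 0) P.nil) P.nil)))))) 95586)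
 (EL.cons 7 (TM.mk (P.cons (P.cons (P.lf 0 135852075 0) (P.cons (P.lf 0 218088794 0) (P.cons (P.lf 0 72945767 0) (P.cons (P.lf 16563961 0 0) (P.cons (P.lf 3509980 0 0) (P.cons (P.lf 0 260826 0) P.nil)))))) (P.cons (P.cons (P.lf 0 40091122 0) (P.cons (P.lf 0 29326380 0) (P.cons (P.lf 4251164 0 0) (P.cons (P.lf 347294 0 0) (P.cons (P.lf 0 91850 0) P.nil))))) (P.cons (P.cons (P.lf 0 257926 0) (P.cons (P.lf 3996287 0 0) (P.cons (P.lf 848087 0 0) (P.cons (P.lf 0 238188 0) P.nil)))) (P.cons (P.cons (P.lf 779816 0 0) (P.cons (P.lf 467008 0 0) (P.cons (P.lf 0 60924 0) P.nil))) (P.cons (P.cons (P.lf 31552 0 0) (P.cons (P.lf 0 34360 0) P.nil)) (P.cons (P.cons (P.lf 0 6670 0) P.nil) P.nil)))))) 144260)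
 EL.nil))
noncomputable def S256_270_512_660_12 : EL := (EL.cons 4 (TM.mk (P.cons (P.lf 0 219995351 0) (P.cons (P.lf 0 219584520 0) (P.cons (P.lf 615480 0 0) (P.cons (P.lf 203880 0 0) (P.cons (P.lf 0 952 0) (P.cons (P.lf 0 187 0) P.nil)))))) 37)
 (EL.cons 8 (TM.mk (P.cons (P.lf 2143473316 0 0) (P.cons (P.lf 0 8013173 0) (P.cons (P.lf 0 3991622 0) (P.cons (P.lf 14936 0 0) (P.cons (P.lf 3698 0 0) (P.cons (P.lf 0 20 0) P.nil)))))) 52)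
 EL.nil))
noncomputable def S256_270_512_660_13 : EL := (EL.cons 4 (TM.mk (P.cons (P.cons (P.lf 55384418 0 0) (P.cons (P.lf 44455415 0 0) (P.cons (P.lf 0 2972185 0) (P.lf 0 990728 0)))) (P.cons (P.cons (P.lf 63556725 0 0) (P.cons (P.lf 43873820 0 0) (P.cons (P.lf 0 2933300 0) (P.lf 0 977766 0)))) (P.cons (P.cons (P.lf 7622119 0 0) (P.cons (P.lf 0 868511 0) (P.cons (P.lf 58065 0 0) (P.lf 19354 0 0)))) (P.cons (P.cons (P.lf 0 627821 0) (P.cons (P.lf 0 283052 0) (P.cons (P.lf 18923 0 0) P.nil))) (P.cons (P.cons (P.lf 0 75292 0) (P.cons (P.lf 4804 0 0) P.nil)) (P.cons (P.cons (P.lf 2592 0 0) P.nil) P.nil)))))) 8356)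
 (EL.cons 8 (TM.mk (P.cons (P.cons (P.lf 0 539625145 0) (P.cons (P.lf 0 433140964 0) (P.cons (P.lf 28958795 0 0) (P.lf 9652931 0 0)))) (P.cons (P.cons (P.lf 0 78615356 0) (P.cons (P.lf 6477024 0 0) (P.cons (P.lf 0 433038 0) (P.lf 0 144344 0)))) (P.cons (P.cons (P.lf 6014398 0 0) (P.cons (P.lf 3190094 0 0) (P.cons (P.lf 0 213281 0) (P.lf 0 71093 0)))) (P.cons (P.cons (P.lf 820879 0 0) (P.cons (P.lf 0 48166 0) (P.cons (P.lf 3219 0 0) P.nil))) (P.cons (P.cons (P.lf 0 29262 0) (P.cons (P.lf 0 11729 0) P.nil)) (P.cons (P.cons (P.lf 0 3093 0) P.nil) P.nil)))))) 2711)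
 EL.nil))
noncomputable def S256_270_512_660_14 : EL := (EL.cons 4 (TM.mk (P.cons (P.cons (P.lf 0 13943175 0) (P.cons (P.lf 0 22383540 0) (P.cons (P.lf 0 7486786 0) (P.cons (P.lf 1700041 0 0) (P.cons (P.lf 360246 0 0) (P.cons (P.lf 0 26769 0) P.nil)))))) (P.cons (P.cons (P.lf 0 18084014 0) (P.cons (P.lf 0 25435331 0) (P.cons (P.lf 0 7064476 0) (P.cons (P.lf 1738866 0 0) (P.cons (P.lf 351493 0 0) P.nil))))) (P.cons (P.cons (P.lf 0 4188101 0) (P.cons (P.lf 0 2668280 0) (P.cons (P.lf 503140 0 0) (P.cons (P.lf 16041 0 0) P.nil)))) (P.cons (P.cons (P.lf 28810 0 0) (P.cons (P.lf 429302 0 0) (P.cons (P.lf 75122 0 0) P.nil))) (P.cons (P.cons (P.lf 79410 0 0) (P.cons (P.lf 42711 0 0) P.nil)) (P.cons (P.cons (P.lf 2729 0 0) P.nil) P.nil)))))) 95586)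
 (EL.cons 8 (TM.mk (P.cons (P.cons (P.lf 135852075 0 0) (P.cons (P.lf 218088794 0 0) (P.cons (P.lf 72945767 0 0) (P.cons (P.lf 0 16563961 0) (P.cons (P.lf 0 3509980 0) (P.cons (P.lf 260826 0 0) P.nil)))))) (P.cons (P.cons (P.lf 40091122 0 0) (P.cons (P.lf 29326380 0 0) (P.cons (P.lf 0 4251164 0) (P.cons (P.lf 0 347294 0) (P.cons (P.lf 91850 0 0) P.nil))))) (P.cons (P.cons (P.lf 257926 0 0) (P.cons (P.lf 0 3996287 0) (P.cons (P.lf 0 848087 0) (P.cons (P.lf 238188 0 0) P.nil)))) (P.cons (P.cons (P.lf 0 779816 0) (P.cons (P.lf 0 467008 0) (P.cons (P.lf 60924 0 0) P.nil))) (P.cons (P.cons (P.lf 0 31552 0) (P.cons (P.lf 34360 0 0) P.nil)) (P.cons (P.cons (P.lf 6670 0 0) P.nil) P.nil)))))) 144260)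
 EL.nil))
noncomputable def S256_270_512_660_15 : EL := (EL.cons 4 (TM.mk (P.cons (P.lf 0 12019761 0) (P.cons (P.lf 0 23994630 0) (P.cons (P.lf 0 11907655 0) (P.cons (P.lf 89407 0 0) (P.cons (P.lf 22038 0 0) (P.cons (P.lf 0 186 0) P.nil)))))) 51)
 (EL.cons 8 (TM.mk (P.cons (P.lf 117111743 0 0) (P.cons (P.lf 116455231 0 0) (P.cons (P.lf 0 982724 0) (P.cons (P.lf 0 324172 0) (P.cons (P.lf 2539 0 0) (P.cons (P.lf 498 0 0) P.nil)))))) 32)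
 EL.nil))
noncomputable def S256_270_512_660_16 : EL := (EL.cons 4 (TM.mk (P.cons (P.cons (P.lf 3026006 0 0) (P.cons (P.lf 2428885 0 0) (P.cons (P.lf 0 162389 0) (P.lf 0 54129 0)))) (P.cons (P.cons (P.lf 6492869 0 0) (P.cons (P.lf 4821458 0 0) (P.cons (P.lf 0 322350 0) (P.lf 0 107449 0)))) (P.cons (P.cons (P.lf 3874006 0 0) (P.cons (P.lf 2338384 0 0) (P.cons (P.lf 0 156338 0) (P.lf 0 52112 0)))) (P.cons (P.cons (P.lf 368846 0 0) (P.cons (P.lf 0 71785 0) (P.cons (P.lf 4799 0 0) P.nil))) (P.cons (P.cons (P.lf 0 42720 0) (P.cons (P.lf 0 17250 0) P.nil)) (P.cons (P.cons (P.lf 0 4236 0) P.nil) P.nil)))))) 4040)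
 (EL.cons 8 (TM.mk (P.cons (P.cons (P.lf 0 29483194 0) (P.cons (P.lf 0 23665278 0) (P.cons (P.lf 1582205 0 0) (P.lf 527401 0 0)))) (P.cons (P.cons (P.lf 0 33723399 0) (P.cons (P.lf 0 23267203 0) (P.cons (P.lf 1555590 0 0) (P.lf 518530 0 0)))) (P.cons (P.cons (P.lf 0 3876151 0) (P.cons (P.lf 593723 0 0) (P.cons (P.lf 0 39694 0) (P.lf 0 13231 0)))) (P.cons (P.cons (P.lf 412181 0 0) (P.cons (P.lf 192279 0 0) (P.cons (P.lf 0 12854 0) P.nil))) (P.cons (P.cons (P.lf 46101 0 0) (P.cons (P.lf 0 4185 0) P.nil)) (P.cons (P.cons (P.lf 0 2238 0) P.nil) P.nil)))))) 6085)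
 EL.nil))
noncomputable def S256_270_512_660_17 : EL := (EL.cons 4 (TM.mk (P.cons (P.cons (P.lf 0 761805 0) (P.cons (P.lf 0 1222956 0) (P.cons (P.lf 0 409050 0) (P.cons (P.lf 92883 0 0) (P.cons (P.lf 19681 0 0) (P.cons (P.lf 0 1462 0) P.nil)))))) (P.cons (P.cons (P.lf 0 1748428 0) (P.cons (P.lf 0 2610368 0) (P.cons (P.lf 0 794265 0) (P.cons (P.lf 187715 0 0) (P.cons (P.lf 38850 0 0) P.nil))))) (P.cons (P.cons (P.lf 0 1212892 0) (P.cons (P.lf 0 1529463 0) (P.cons (P.lf 0 356622 0) (P.cons (P.lf 95444 0 0) P.nil)))) (P.cons (P.cons (P.lf 0 223350 0) (P.cons (P.lf 0 117035 0) (P.cons (P.lf 33000 0 0) P.nil))) (P.cons (P.cons (P.lf 7461 0 0) (P.cons (P.lf 27435 0 0) P.nil)) (P.cons (P.cons (P.lf 4681 0 0) P.nil) P.nil)))))) 44506)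
 (EL.cons 8 (TM.mk (P.cons (P.cons (P.lf 7422472 0 0) (P.cons (P.lf 11915594 0 0) (P.cons (P.lf 3985496 0 0) (P.cons (P.lf 0 904995 0) (P.cons (P.lf 0 191772 0) (P.cons (P.lf 14250 0 0) P.nil)))))) (P.cons (P.cons (P.lf 9599048 0 0) (P.cons (P.lf 13495631 0 0) (P.cons (P.lf 3745785 0 0) (P.cons (P.lf 0 922280 0) (P.cons (P.lf 0 186395 0) P.nil))))) (P.cons (P.cons (P.lf 2179671 0 0) (P.cons (P.lf 1347617 0 0) (P.cons (P.lf 0 289321 0) (P.cons (P.lf 0 3393 0) P.nil)))) (P.cons (P.cons (P.lf 0 41547 0) (P.cons (P.lf 0 258975 0) (P.cons (P.lf 0 45964 0) P.nil))) (P.cons (P.cons (P.lf 0 46287 0) (P.cons (P.lf 0 24412 0) P.nil)) (P.cons (P.cons (P.lf 0 1234 0) P.nil) P.nil)))))) 55904)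
 EL.nil))
noncomputable def S256_270_512_660_18 : EL := (EL.cons 4 (TM.mk (P.cons (P.lf 0 656716 0) (P.cons (P.lf 0 1966470 0) (P.cons (P.lf 0 1957287 0) (P.cons (P.lf 0 640215 0) (P.cons (P.lf 9111 0 0) (P.cons (P.lf 1774 0 0) P.nil)))))) 41)
 (EL.cons 8 (TM.mk (P.cons (P.lf 6398568 0 0) (P.cons (P.lf 12749317 0 0) (P.cons (P.lf 6279222 0 0) (P.cons (P.lf 0 95034 0) (P.cons (P.lf 0 23258 0) (P.cons (P.lf 297 0 0) P.nil)))))) 65)
 EL.nil))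
noncomputable def S256_270_512_660_19 : EL := (EL.cons 4 (TM.mk (P.cons (P.cons (P.lf 165330 0 0) (P.cons (P.lf 132705 0 0) (P.cons (P.lf 0 8871 0) (P.lf 0 2956 0)))) (P.cons (P.cons (P.lf 519767 0 0) (P.cons (P.lf 395884 0 0) (P.cons (P.lf 0 26467 0) (P.lf 0 8821 0)))) (P.cons (P.cons (P.lf 565283 0 0) (P.cons (P.lf 390324 0 0) (P.cons (P.lf 0 26095 0) (P.lf 0 8698 0)))) (P.cons (P.cons (P.lf 230272 0 0) (P.cons (P.lf 122739 0 0) (P.cons (P.lf 0 8205 0) P.nil))) (P.cons (P.cons (P.lf 16860 0 0) (P.cons (P.lf 0 5458 0) P.nil)) (P.cons (P.cons (P.lf 0 2811 0) P.nil) P.nil)))))) 5165)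
 (EL.cons 8 (TM.mk (P.cons (P.cons (P.lf 0 1610856 0) (P.cons (P.lf 0 1292986 0) (P.cons (P.lf 86445 0 0) (P.lf 28815 0 0)))) (P.cons (P.cons (P.lf 0 3450374 0) (P.cons (P.lf 0 2561808 0) (P.cons (P.lf 171276 0 0) (P.lf 57091 0 0)))) (P.cons (P.cons (P.lf 0 2046357 0) (P.cons (P.lf 0 1232806 0) (P.cons (P.lf 82422 0 0) (P.lf 27474 0 0)))) (P.cons (P.cons (P.lf 0 182215 0) (P.cons (P.lf 47638 0 0) (P.cons (P.lf 0 3184 0) P.nil))) (P.cons (P.cons (P.lf 27289 0 0) (P.cons (P.lf 11338 0 0) P.nil)) (P.cons (P.cons (P.lf 2515 0 0) P.nil) P.nil)))))) 2805)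
 EL.nil))
noncomputable def S256_270_512_660_20 : EL := (EL.cons 4 (TM.mk (P.cons (P.cons (P.lf 0 41622 0) (P.cons (P.lf 0 66817 0) (P.cons (P.lf 0 22349 0) (P.cons (P.lf 5074 0 0) (P.cons (P.lf 1075 0 0) (P.cons (P.lf 0 79 0) P.nil)))))) (P.cons (P.cons (P.lf 0 137071 0) (P.cons (P.lf 0 209313 0) (P.cons (P.lf 0 65702 0) (P.cons (P.lf 15320 0 0) (P.cons (P.lf 3195 0 0) P.nil))))) (P.cons (P.cons (P.lf 0 161500 0) (P.cons (P.lf 0 225732 0) (P.cons (P.lf 0 62736 0) (P.cons (P.lf 15436 0 0) P.nil)))) (P.cons (P.cons (P.lf 0 78041 0) (P.cons (P.lf 0 89341 0) (P.cons (P.lf 0 17502 0) P.nil))) (P.cons (P.cons (P.lf 0 11498 0) (P.cons (P.lf 0 4517 0) P.nil)) (P.cons (P.cons (P.lf 757 0 0) P.nil) P.nil)))))) 16168)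
 (EL.cons 8 (TM.mk (P.cons (P.cons (P.lf 405537 0 0) (P.cons (P.lf 651025 0 0) (P.cons (P.lf 217753 0 0) (P.cons (P.lf 0 49445 0) (P.cons (P.lf 0 10477 0) (P.cons (P.lf 778 0 0) P.nil)))))) (P.cons (P.cons (P.lf 929237 0 0) (P.cons (P.lf 1387162 0 0) (P.cons (P.lf 422002 0 0) (P.cons (P.lf 0 99743 0) (P.cons (P.lf 0 20642 0) P.nil))))) (P.cons (P.cons (P.lf 641433 0 0) (P.cons (P.lf 807783 0 0) (P.cons (P.lf 187857 0 0) (P.cons (P.lf 0 50342 0) P.nil)))) (P.cons (P.cons (P.lf 114753 0 0) (P.cons (P.lf 56675 0 0) (P.cons (P.lf 0 19063 0) P.nil))) (P.cons (P.cons (P.lf 0 5611 0) (P.cons (P.lf 0 16342 0) P.nil)) (P.cons (P.cons (P.lf 0 2692 0) P.nil) P.nil)))))) 25137)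
 EL.nil))
noncomputable def S256_270_512_660_21 : EL := (EL.cons 4 (TM.mk (P.cons (P.cons (P.lf 2213706561 0 0) (P.cons (P.lf 0 133366245 0) (P.cons (P.lf 8916555 0 0) (P.lf 2972184 0 0)))) (P.cons (P.cons (P.lf 0 262654065 0) (P.cons (P.lf 0 131621460 0) (P.cons (P.lf 8799900 0 0) (P.lf 2933298 0 0)))) (P.cons (P.cons (P.lf 0 58589319 0) (P.cons (P.lf 2605533 0 0) (P.cons (P.lf 0 174195 0) (P.lf 0 58062 0)))) (P.cons (P.cons (P.lf 2151684 0 0) (P.cons (P.lf 849156 0 0) (P.cons (P.lf 0 56769 0) P.nil))) (P.cons (P.cons (P.lf 291990 0 0) (P.cons (P.lf 0 14412 0) P.nil)) (P.cons (P.cons (P.lf 0 8331 0) P.nil) P.nil)))))) 25314)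
 (EL.cons 8 (TM.mk (P.cons (P.cons (P.lf 80783541 0 0) (P.cons (P.lf 0 4866867 0) (P.cons (P.lf 325392 0 0) (P.lf 108465 0 0)))) (P.cons (P.cons (P.lf 71349807 0 0) (P.cons (P.lf 0 9679146 0) (P.cons (P.lf 647124 0 0) (P.lf 215703 0 0)))) (P.cons (P.cons (P.lf 0 11513880 0) (P.cons (P.lf 0 4730760 0) (P.cons (P.lf 316284 0 0) (P.lf 105426 0 0)))) (P.cons (P.cons (P.lf 0 2014335 0) (P.cons (P.lf 108162 0 0) (P.cons (P.lf 0 7230 0) P.nil))) (P.cons (P.cons (P.lf 74622 0 0) (P.cons (P.lf 26232 0 0) P.nil)) (P.cons (P.cons (P.lf 8607 0 0) P.nil) P.nil)))))) 10173)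
 (EL.cons 11 (TM.mk (P.cons (P.cons (P.lf 2976673257 0 0) (P.cons (P.lf 0 460863771 0) (P.cons (P.lf 0 222029631 0) (P.cons (P.lf 8402253 0 0) (P.lf 2100561 0 0))))) (P.cons (P.cons (P.lf 0 22256022 0) (P.cons (P.lf 3445791 0 0) (P.cons (P.lf 1660071 0 0) (P.cons (P.lf 0 62820 0) (P.lf 0 15705 0))))) (P.cons (P.cons (P.lf 0 11044845 0) (P.cons (P.lf 1710018 0 0) (P.cons (P.lf 823833 0 0) (P.cons (P.lf 0 31176 0) P.nil)))) (P.cons (P.cons (P.lf 82926 0 0) (P.cons (P.lf 0 12837 0) (P.cons (P.lf 0 6183 0) P.nil))) (P.cons (P.cons (P.lf 20436 0 0) (P.cons (P.lf 0 3162 0) P.nil)) (P.cons (P.cons (P.lf 0 168 0) P.nil) P.nil)))))) 10059)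
 EL.nil)))
noncomputable def S256_270_512_660_22 : EL := (EL.cons 4 (TM.mk (P.cons (P.cons (P.lf 0 557306553 0) (P.cons (P.lf 0 413757990 0) (P.cons (P.lf 54612792 0 0) (P.cons (P.lf 5617350 0 0) (P.cons (P.lf 0 1080738 0) (P.cons (P.lf 80307 0 0) P.nil)))))) (P.cons (P.cons (P.lf 0 17150847 0) (P.cons (P.lf 96245580 0 0) (P.cons (P.lf 19860315 0 0) (P.cons (P.lf 0 5660967 0) (P.cons (P.lf 0 1054479 0) P.nil))))) (P.cons (P.cons (P.lf 29492802 0 0) (P.cons (P.lf 17726907 0 0) (P.cons (P.lf 0 2159415 0) (P.cons (P.lf 0 264789 0) P.nil)))) (P.cons (P.cons (P.lf 1800159 0 0) (P.cons (P.lf 0 1533837 0) (P.cons (P.lf 0 208926 0) P.nil))) (P.cons (P.cons (P.lf 0 384897 0) (P.cons (P.lf 0 187380 0) P.nil)) (P.cons (P.cons (P.lf 0 22887 0) P.nil) P.nil)))))) 304884)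
 (EL.cons 8 (TM.mk (P.cons (P.cons (P.lf 0 20337471 0) (P.cons (P.lf 0 15099033 0) (P.cons (P.lf 1992954 0 0) (P.cons (P.lf 204987 0 0) (P.cons (P.lf 0 39438 0) (P.cons (P.lf 2928 0 0) P.nil)))))) (P.cons (P.cons (P.lf 0 21001401 0) (P.cons (P.lf 0 11615052 0) (P.cons (P.lf 2721432 0 0) (P.cons (P.lf 0 1206 0) (P.cons (P.lf 0 77991 0) P.nil))))) (P.cons (P.cons (P.lf 392067 0 0) (P.cons (P.lf 4123272 0 0) (P.cons (P.lf 652902 0 0) (P.cons (P.lf 0 216051 0) P.nil)))) (P.cons (P.cons (P.lf 1123041 0 0) (P.cons (P.lf 587772 0 0) (P.cons (P.lf 0 82656 0) P.nil))) (P.cons (P.cons (P.lf 54117 0 0) (P.cons (P.lf 0 57849 0) P.nil)) (P.cons (P.cons (P.lf 0 13728 0) P.nil) P.nil)))))) 114804)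
 (EL.cons 11 (TM.mk (P.cons (P.cons (P.lf 0 749385459 0) (P.cons (P.lf 0 485485608 0) (P.cons (P.lf 189240807 0 0) (P.cons (P.lf 49929999 0 0) (P.cons (P.lf 0 7301826 0) (P.cons (P.lf 0 1310841 0) P.nil)))))) (P.cons (P.cons (P.lf 0 106372806 0) (P.cons (P.lf 27712605 0 0) (P.cons (P.lf 5441859 0 0) (P.cons (P.lf 0 1273086 0) (P.cons (P.lf 51534 0 0) P.nil))))) (P.cons (P.cons (P.lf 10155942 0 0) (P.cons (P.lf 3944253 0 0) (P.cons (P.lf 0 1980474 0) (P.cons (P.lf 0 448656 0) P.nil)))) (P.cons (P.cons (P.lf 1306827 0 0) (P.cons (P.lf 0 306720 0) (P.cons (P.lf 0 74334 0) P.nil))) (P.cons (P.cons (P.lf 0 62505 0) (P.cons (P.lf 0 15585 0) P.nil)) (P.cons (P.cons (P.lf 0 6390 0) P.nil) P.nil)))))) 226266)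
 EL.nil)))
noncomputable def S256_270_512_660_23 : EL := (EL.cons 4 (TM.mk (P.cons (P.cons (P.lf 120949035 0 0) (P.cons (P.lf 0 7286655 0) (P.cons (P.lf 487167 0 0) (P.lf 162387 0 0)))) (P.cons (P.cons (P.lf 106372689 0 0) (P.cons (P.lf 0 14464374 0) (P.cons (P.lf 967053 0 0) (P.lf 322350 0 0)))) (P.cons (P.cons (P.lf 0 17863173 0) (P.cons (P.lf 0 7015155 0) (P.cons (P.lf 469014 0 0) (P.lf 156339 0 0)))) (P.cons (P.cons (P.lf 0 3149514 0) (P.cons (P.lf 215358 0 0) (P.cons (P.lf 0 14397 0) P.nil))) (P.cons (P.cons (P.lf 156072 0 0) (P.cons (P.lf 51753 0 0) P.nil)) (P.cons (P.cons (P.lf 18144 0 0) P.nil) P.nil)))))) 12159)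
 (EL.cons 8 (TM.mk (P.cons (P.cons (P.lf 4413723 0 0) (P.cons (P.lf 0 265908 0) (P.cons (P.lf 17778 0 0) (P.lf 5925 0 0)))) (P.cons (P.cons (P.lf 8303781 0 0) (P.cons (P.lf 0 794244 0) (P.cons (P.lf 53100 0 0) (P.lf 17700 0 0)))) (P.cons (P.cons (P.lf 3249591 0 0) (P.cons (P.lf 0 785574 0) (P.cons (P.lf 52521 0 0) (P.lf 17505 0 0)))) (P.cons (P.cons (P.lf 0 752955 0) (P.cons (P.lf 0 250353 0) (P.cons (P.lf 16737 0 0) P.nil))) (P.cons (P.cons (P.lf 0 107607 0) (P.cons (P.lf 8541 0 0) P.nil)) (P.cons (P.cons (P.lf 5451 0 0) P.nil) P.nil)))))) 9780)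
 (EL.cons 11 (TM.mk (P.cons (P.cons (P.lf 162634818 0 0) (P.cons (P.lf 0 25179954 0) (P.cons (P.lf 0 12130905 0) (P.cons (P.lf 459069 0 0) (P.lf 114765 0 0))))) (P.cons (P.cons (P.lf 161115114 0 0) (P.cons (P.lf 0 24944664 0) (P.cons (P.lf 0 12017553 0) (P.cons (P.lf 454779 0 0) (P.lf 113694 0 0))))) (P.cons (P.cons (P.lf 0 2272170 0) (P.cons (P.lf 351789 0 0) (P.cons (P.lf 169479 0 0) (P.cons (P.lf 0 6411 0) P.nil)))) (P.cons (P.cons (P.lf 0 745110 0) (P.cons (P.lf 115362 0 0) (P.cons (P.lf 55575 0 0) P.nil))) (P.cons (P.cons (P.lf 9156 0 0) (P.cons (P.lf 0 1416 0) P.nil)) (P.cons (P.cons (P.lf 1785 0 0) P.nil) P.nil)))))) 5586)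
 EL.nil)))
noncomputable def S256_270_512_660_24 : EL := (EL.cons 4 (TM.mk (P.cons (P.cons (P.lf 0 30449244 0) (P.cons (P.lf 0 22606260 0) (P.cons (P.lf 2983848 0 0) (P.cons (P.lf 306912 0 0) (P.cons (P.lf 0 59046 0) (P.cons (P.lf 4386 0 0) P.nil)))))) (P.cons (P.cons (P.lf 0 31329441 0) (P.cons (P.lf 0 17305530 0) (P.cons (P.lf 4063371 0 0) (P.cons (P.lf 0 2955 0) (P.cons (P.lf 0 116550 0) P.nil))))) (P.cons (P.cons (P.lf 761256 0 0) (P.cons (P.lf 6280473 0 0) (P.cons (P.lf 956739 0 0) (P.cons (P.lf 0 324042 0) P.nil)))) (P.cons (P.cons (P.lf 1737564 0 0) (P.cons (P.lf 889161 0 0) (P.cons (P.lf 0 134976 0) P.nil))) (P.cons (P.cons (P.lf 73368 0 0) (P.cons (P.lf 0 101565 0) P.nil)) (P.cons (P.cons (P.lf 0 24039 0) P.nil) P.nil)))))) 181695)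
 (EL.cons 8 (TM.mk (P.cons (P.cons (P.lf 0 1111167 0) (P.cons (P.lf 0 824955 0) (P.cons (P.lf 108885 0 0) (P.cons (P.lf 11199 0 0) (P.cons (P.lf 0 2154 0) (P.cons (P.lf 159 0 0) P.nil)))))) (P.cons (P.cons (P.lf 0 2256531 0) (P.cons (P.lf 0 1458021 0) (P.cons (P.lf 257373 0 0) (P.cons (P.lf 11112 0 0) (P.cons (P.lf 0 6411 0) P.nil))))) (P.cons (P.cons (P.lf 0 1120767 0) (P.cons (P.lf 0 405831 0) (P.cons (P.lf 183777 0 0) (P.cons (P.lf 0 11901 0) P.nil)))) (P.cons (P.cons (P.lf 86979 0 0) (P.cons (P.lf 259512 0 0) (P.cons (P.lf 30570 0 0) P.nil))) (P.cons (P.cons (P.lf 65199 0 0) (P.cons (P.lf 28845 0 0) P.nil)) (P.cons (P.cons (P.lf 2001 0 0) P.nil) P.nil)))))) 39447)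
 (EL.cons 11 (TM.mk (P.cons (P.cons (P.lf 0 40943751 0) (P.cons (P.lf 0 26525202 0) (P.cons (P.lf 10339443 0 0) (P.cons (P.lf 2727996 0 0) (P.cons (P.lf 0 398943 0) (P.cons (P.lf 0 71619 0) P.nil)))))) (P.cons (P.cons (P.lf 0 46679121 0) (P.cons (P.lf 0 24961548 0) (P.cons (P.lf 10617456 0 0) (P.cons (P.lf 2653344 0 0) (P.cons (P.lf 0 395382 0) P.nil))))) (P.cons (P.cons (P.lf 0 5131542 0) (P.cons (P.lf 1800999 0 0) (P.cons (P.lf 159636 0 0) (P.cons (P.lf 0 101571 0) P.nil)))) (P.cons (P.cons (P.lf 679452 0 0) (P.cons (P.lf 218685 0 0) (P.cons (P.lf 0 122478 0) P.nil))) (P.cons (P.cons (P.lf 71508 0 0) (P.cons (P.lf 0 19698 0) P.nil)) (P.cons (P.cons (P.lf 0 4530 0) P.nil) P.nil)))))) 166944)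
 EL.nil)))
noncomputable def S256_270_512_660_25 : EL := (EL.cons 4 (TM.mk (P.cons (P.cons (P.lf 6608223 0 0) (P.cons (P.lf 0 398115 0) (P.cons (P.lf 26616 0 0) (P.lf 8871 0 0)))) (P.cons (P.cons (P.lf 12407706 0 0) (P.cons (P.lf 0 1187655 0) (P.cons (P.lf 79401 0 0) (P.lf 26466 0 0)))) (P.cons (P.cons (P.lf 4806501 0 0) (P.cons (P.lf 0 1170975 0) (P.cons (P.lf 78288 0 0) (P.lf 26094 0 0)))) (P.cons (P.cons (P.lf 0 1168617 0) (P.cons (P.lf 0 368220 0) (P.cons (P.lf 24618 0 0) P.nil))) (P.cons (P.cons (P.lf 0 165855 0) (P.cons (P.lf 16374 0 0) P.nil)) (P.cons (P.cons (P.lf 10917 0 0) P.nil) P.nil)))))) 15876)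
 (EL.cons 8 (TM.mk (P.cons (P.cons (P.lf 241149 0 0) (P.cons (P.lf 0 14526 0) (P.cons (P.lf 969 0 0) (P.lf 321 0 0)))) (P.cons (P.cons (P.lf 694386 0 0) (P.cons (P.lf 0 57894 0) (P.cons (P.lf 3870 0 0) (P.lf 1290 0 0)))) (P.cons (P.cons (P.lf 629712 0 0) (P.cons (P.lf 0 86193 0) (P.cons (P.lf 5760 0 0) (P.lf 1920 0 0)))) (P.cons (P.cons (P.lf 134583 0 0) (P.cons (P.lf 0 56382 0) (P.cons (P.lf 3768 0 0) P.nil))) (P.cons (P.cons (P.lf 0 47856 0) (P.cons (P.lf 0 13023 0) P.nil)) (P.cons (P.cons (P.lf 0 5616 0) P.nil) P.nil)))))) 3963)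
 (EL.cons 11 (TM.mk (P.cons (P.cons (P.lf 8885784 0 0) (P.cons (P.lf 0 1375740 0) (P.cons (P.lf 0 662787 0) (P.cons (P.lf 25080 0 0) (P.lf 6270 0 0))))) (P.cons (P.cons (P.lf 17671947 0 0) (P.cons (P.lf 0 2736060 0) (P.cons (P.lf 0 1318146 0) (P.cons (P.lf 49881 0 0) (P.lf 12468 0 0))))) (P.cons (P.cons (P.lf 8637312 0 0) (P.cons (P.lf 0 1337271 0) (P.cons (P.lf 0 644253 0) (P.cons (P.lf 24378 0 0) P.nil)))) (P.cons (P.cons (P.lf 0 197481 0) (P.cons (P.lf 30573 0 0) (P.cons (P.lf 14730 0 0) P.nil))) (P.cons (P.cons (P.lf 0 47904 0) (P.cons (P.lf 7416 0 0) P.nil)) (P.cons (P.cons (P.lf 870 0 0) P.nil) P.nil)))))) 11400)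
 EL.nil)))
noncomputable def S256_270_512_660_26 : EL := (EL.cons 4 (TM.mk (P.cons (P.cons (P.lf 0 1663635 0) (P.cons (P.lf 0 1235124 0) (P.cons (P.lf 163026 0 0) (P.cons (P.lf 16767 0 0) (P.cons (P.lf 0 3225 0) (P.cons (P.lf 237 0 0) P.nil)))))) (P.cons (P.cons (P.lf 0 3372258 0) (P.cons (P.lf 0 2178330 0) (P.cons (P.lf 384729 0 0) (P.cons (P.lf 16575 0 0) (P.cons (P.lf 0 9588 0) P.nil))))) (P.cons (P.cons (P.lf 0 1662285 0) (P.cons (P.lf 0 597147 0) (P.cons (P.lf 273408 0 0) (P.cons (P.lf 0 17910 0) P.nil)))) (P.cons (P.cons (P.lf 142779 0 0) (P.cons (P.lf 394872 0 0) (P.cons (P.lf 44028 0 0) P.nil))) (P.cons (P.cons (P.lf 100227 0 0) (P.cons (P.lf 42849 0 0) P.nil)) (P.cons (P.cons (P.lf 2373 0 0) P.nil) P.nil)))))) 61683)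
 (EL.cons 8 (TM.mk (P.cons (P.cons (P.lf 0 60708 0) (P.cons (P.lf 0 45072 0) (P.cons (P.lf 5949 0 0) (P.cons (P.lf 609 0 0) (P.cons (P.lf 0 117 0) (P.cons (P.lf 6 0 0) P.nil)))))) (P.cons (P.cons (P.lf 0 183885 0) (P.cons (P.lf 0 124647 0) (P.cons (P.lf 19998 0 0) (P.cons (P.lf 1215 0 0) (P.cons (P.lf 0 465 0) P.nil))))) (P.cons (P.cons (P.lf 0 184122 0) (P.cons (P.lf 0 101559 0) (P.cons (P.lf 24060 0 0) (P.cons (P.lf 0 45 0) P.nil)))) (P.cons (P.cons (P.lf 0 55965 0) (P.cons (P.lf 0 7686 0) (P.cons (P.lf 11646 0 0) P.nil))) (P.cons (P.cons (P.lf 8589 0 0) (P.cons (P.lf 15864 0 0) P.nil)) (P.cons (P.cons (P.lf 3705 0 0) P.nil) P.nil)))))) 13815)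
 (EL.cons 11 (TM.mk (P.cons (P.cons (P.lf 0 2237019 0) (P.cons (P.lf 0 1449240 0) (P.cons (P.lf 564909 0 0) (P.cons (P.lf 149046 0 0) (P.cons (P.lf 0 21795 0) (P.cons (P.lf 0 3912 0) P.nil)))))) (P.cons (P.cons (P.lf 0 4783221 0) (P.cons (P.lf 0 2810346 0) (P.cons (P.lf 1143954 0 0) (P.cons (P.lf 293736 0 0) (P.cons (P.lf 0 43356 0) P.nil))))) (P.cons (P.cons (P.lf 0 2819727 0) (P.cons (P.lf 0 1258806 0) (P.cons (P.lf 586155 0 0) (P.cons (P.lf 138732 0 0) P.nil)))) (P.cons (P.cons (P.lf 0 233514 0) (P.cons (P.lf 115320 0 0) (P.cons (P.lf 0 132 0) P.nil))) (P.cons (P.cons (P.lf 44097 0 0) (P.cons (P.lf 11829 0 0) P.nil)) (P.cons (P.cons (P.lf 3792 0 0) P.nil) P.nil)))))) 60087)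
 EL.nil)))
noncomputable def S256_270_512_660_27 : EL := (EL.cons 13 (TM.mk (P.lf 0 4294967296 0) 0)
 EL.nil)
noncomputable def S256_270_512_660_28 : EL := (EL.cons 13 (TM.mk (P.cons (P.cons (P.lf 1081269515 0 0) (P.cons (P.lf 867902700 0 0) (P.cons (P.lf 0 58025952 0) (P.lf 0 19341984 0)))) (P.cons (P.cons (P.lf 161567108 0 0) (P.cons (P.lf 0 9733712 0) (P.cons (P.lf 650772 0 0) (P.lf 216920 0 0)))) (P.cons (P.cons (P.lf 0 9433735 0) (P.cons (P.lf 0 4812288 0) (P.cons (P.lf 321736 0 0) (P.lf 107244 0 0)))) (P.cons (P.cons (P.lf 0 1386759 0) (P.cons (P.lf 54348 0 0) (P.cons (P.lf 0 3632 0) P.nil))) (P.cons (P.cons (P.lf 32892 0 0) (P.cons (P.lf 13316 0 0) P.nil)) (P.cons (P.cons (P.lf 3537 0 0) P.nil) P.nil)))))) 3065)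
 EL.nil)
noncomputable def S256_270_512_660_29 : EL := (EL.cons 13 (TM.mk (P.cons (P.cons (P.lf 0 272212495 0) (P.cons (P.lf 0 436993656 0) (P.cons (P.lf 0 146164491 0) (P.cons (P.lf 33189904 0 0) (P.cons (P.lf 7033094 0 0) (P.cons (P.lf 0 522628 0) P.nil)))))) (P.cons (P.cons (P.lf 0 81349903 0) (P.cons (P.lf 0 60396158 0) (P.cons (P.lf 7971814 0 0) (P.cons (P.lf 819966 0 0) (P.cons (P.lf 0 157753 0) P.nil))))) (P.cons (P.cons (P.lf 0 1327858 0) (P.cons (P.lf 6967965 0 0) (P.cons (P.lf 1456959 0 0) (P.cons (P.lf 0 412395 0) P.nil)))) (P.cons (P.cons (P.lf 1407992 0 0) (P.cons (P.lf 852387 0 0) (P.cons (P.lf 0 100766 0) P.nil))) (P.cons (P.cons (P.lf 67051 0 0) (P.cons (P.lf 0 51512 0) P.nil)) (P.cons (P.cons (P.lf 0 10347 0) P.nil) P.nil)))))) 260552)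
 EL.nil)
noncomputable def S256_270_512_660_30 : EL := (EL.cons 13 (TM.mk (P.cons (P.lf 0 234661708 0) (P.cons (P.lf 0 234223488 0) (P.cons (P.lf 656512 0 0) (P.cons (P.lf 217472 0 0) (P.cons (P.lf 0 1016 0) (P.cons (P.lf 0 200 0) P.nil)))))) 32)
 EL.nil)
noncomputable def S256_270_512_660_31 : EL := (EL.cons 13 (TM.mk (P.cons (P.cons (P.lf 59076713 0 0) (P.cons (P.lf 47419110 0 0) (P.cons (P.lf 0 3170331 0) (P.lf 0 1056777 0)))) (P.cons (P.cons (P.lf 67793841 0 0) (P.cons (P.lf 46798742 0 0) (P.cons (P.lf 0 3128854 0) (P.lf 0 1042951 0)))) (P.cons (P.cons (P.lf 8130261 0 0) (P.cons (P.lf 0 926412 0) (P.cons (P.lf 61937 0 0) (P.lf 20645 0 0)))) (P.cons (P.cons (P.lf 0 669676 0) (P.cons (P.lf 0 301923 0) (P.cons (P.lf 20185 0 0) P.nil))) (P.cons (P.cons (P.lf 0 80312 0) (P.cons (P.lf 5125 0 0) P.nil)) (P.cons (P.cons (P.lf 2765 0 0) P.nil) P.nil)))))) 8893)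
 EL.nil)
noncomputable def S256_270_512_660_32 : EL := (EL.cons 13 (TM.mk (P.cons (P.cons (P.lf 0 14872720 0) (P.cons (P.lf 0 23875776 0) (P.cons (P.lf 0 7985906 0) (P.cons (P.lf 1813378 0 0) (P.cons (P.lf 384263 0 0) (P.cons (P.lf 0 28554 0) P.nil)))))) (P.cons (P.cons (P.lf 0 19289615 0) (P.cons (P.lf 0 27131020 0) (P.cons (P.lf 0 7535442 0) (P.cons (P.lf 1854791 0 0) (P.cons (P.lf 374926 0 0) P.nil))))) (P.cons (P.cons (P.lf 0 4467308 0) (P.cons (P.lf 0 2846166 0) (P.cons (P.lf 536683 0 0) (P.cons (P.lf 17111 0 0) P.nil)))) (P.cons (P.cons (P.lf 30731 0 0) (P.cons (P.lf 457923 0 0) (P.cons (P.lf 80131 0 0) P.nil))) (P.cons (P.cons (P.lf 84705 0 0) (P.cons (P.lf 45559 0 0) P.nil)) (P.cons (P.cons (P.lf 2911 0 0) P.nil) P.nil)))))) 101935)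
 EL.nil)
noncomputable def S256_270_512_660_33 : EL := (EL.cons 14 (TM.mk (P.lf 8589934592 0 0) 0)
 EL.nil)
noncomputable def S256_270_512_660_34 : EL := (EL.cons 14 (TM.mk (P.cons (P.cons (P.lf 0 2162539030 0) (P.cons (P.lf 0 1735805400 0) (P.cons (P.lf 116051904 0 0) (P.lf 38683968 0 0)))) (P.cons (P.cons (P.lf 0 323134216 0) (P.cons (P.lf 19467424 0 0) (P.cons (P.lf 0 1301544 0) (P.lf 0 433840 0)))) (P.cons (P.cons (P.lf 18867470 0 0) (P.cons (P.lf 9624576 0 0) (P.cons (P.lf 0 643472 0) (P.lf 0 214488 0)))) (P.cons (P.cons (P.lf 2773518 0 0) (P.cons (P.lf 0 108696 0) (P.cons (P.lf 7264 0 0) P.nil))) (P.cons (P.cons (P.lf 0 65784 0) (P.cons (P.lf 0 26632 0) P.nil)) (P.cons (P.cons (P.lf 0 7074 0) P.nil) P.nil)))))) 6130)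
 EL.nil)
noncomputable def S256_270_512_660_35 : EL := (EL.cons 14 (TM.mk (P.cons (P.cons (P.lf 544424990 0 0) (P.cons (P.lf 873987312 0 0) (P.cons (P.lf 292328982 0 0) (P.cons (P.lf 0 66379808 0) (P.cons (P.lf 0 14066188 0) (P.cons (P.lf 1045256 0 0) P.nil)))))) (P.cons (P.cons (P.lf 162699806 0 0) (P.cons (P.lf 120792316 0 0) (P.cons (P.lf 0 15943628 0) (P.cons (P.lf 0 1639932 0) (P.cons (P.lf 315506 0 0) P.nil))))) (P.cons (P.cons (P.lf 2655716 0 0) (P.cons (P.lf 0 13935930 0) (P.cons (P.lf 0 2913918 0) (P.cons (P.lf 824790 0 0) P.nil)))) (P.cons (P.cons (P.lf 0 2815984 0) (P.cons (P.lf 0 1704774 0) (P.cons (P.lf 201532 0 0) P.nil))) (P.cons (P.cons (P.lf 0 134102 0) (P.cons (P.lf 103024 0 0) P.nil)) (P.cons (P.cons (P.lf 20694 0 0) P.nil) P.nil)))))) 521104)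
 EL.nil)
noncomputable def S256_270_512_660_36 : EL := (EL.cons 14 (TM.mk (P.cons (P.lf 469323416 0 0) (P.cons (P.lf 468446976 0 0) (P.cons (P.lf 0 1313024 0) (P.cons (P.lf 0 434944 0) (P.cons (P.lf 2032 0 0) (P.cons (P.lf 400 0 0) P.nil)))))) 64)
 EL.nil)
noncomputable def S256_270_512_660_37 : EL := (EL.cons 14 (TM.mk (P.cons (P.cons (P.lf 0 118153426 0) (P.cons (P.lf 0 94838220 0) (P.cons (P.lf 6340662 0 0) (P.lf 2113554 0 0)))) (P.cons (P.cons (P.lf 0 135587682 0) (P.cons (P.lf 0 93597484 0) (P.cons (P.lf 6257708 0 0) (P.lf 2085902 0 0)))) (P.cons (P.cons (P.lf 0 16260522 0) (P.cons (P.lf 1852824 0 0) (P.cons (P.lf 0 123874 0) (P.lf 0 41290 0)))) (P.cons (P.cons (P.lf 1339352 0 0) (P.cons (P.lf 603846 0 0) (P.cons (P.lf 0 40370 0) P.nil))) (P.cons (P.cons (P.lf 160624 0 0) (P.cons (P.lf 0 10250 0) P.nil)) (P.cons (P.cons (P.lf 0 5530 0) P.nil) P.nil))))))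 17786)
 EL.nil)
noncomputable def S256_270_512_660_38 : EL := (EL.cons 14 (TM.mk (P.cons (P.cons (P.lf 29745440 0 0) (P.cons (P.lf 47751552 0 0) (P.cons (P.lf 15971812 0 0) (P.cons (P.lf 0 3626756 0) (P.cons (P.lf 0 768526 0) (P.cons (P.lf 57108 0 0) P.nil)))))) (P.cons (P.cons (P.lf 38579230 0 0) (P.cons (P.lf 54262040 0 0) (P.cons (P.lf 15070884 0 0) (P.cons (P.lf 0 3709582 0) (P.cons (P.lf 0 749852 0) P.nil))))) (P.cons (P.cons (P.lf 8934616 0 0) (P.cons (P.lf 5692332 0 0) (P.cons (P.lf 0 1073366 0) (P.cons (P.lf 0 34222 0) P.nil)))) (P.cons (P.cons (P.lf 0 61462 0) (P.cons (P.lf 0 915846 0) (P.cons (P.lf 0 160262 0) P.nil))) (P.cons (P.cons (P.lf 0 169410 0) (P.cons (P.lf 0 91118 0) P.nil)) (P.cons (P.cons (P.lf 0 5822 0) P.nil) P.nil)))))) 203870)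
 EL.nil)
noncomputable def S256_270_512_660_39 : EL := (EL.cons 14 (TM.mk (P.cons (P.lf 25642158 0 0) (P.cons (P.lf 51188546 0 0) (P.cons (P.lf 25402998 0 0) (P.cons (P.lf 0 190736 0) (P.cons (P.lf 0 47016 0) (P.cons (P.lf 398 0 0) P.nil)))))) 94)
 EL.nil)
noncomputable def S256_270_512_660_40 : EL := (EL.cons 14 (TM.mk (P.cons (P.cons (P.lf 0 6455480 0) (P.cons (P.lf 0 5181622 0) (P.cons (P.lf 346430 0 0) (P.lf 115476 0 0)))) (P.cons (P.cons (P.lf 0 13851454 0) (P.cons (P.lf 0 10285778 0) (P.cons (P.lf 687682 0 0) (P.lf 229226 0 0)))) (P.cons (P.cons (P.lf 0 8264548 0) (P.cons (P.lf 0 4988554 0) (P.cons (P.lf 333522 0 0) (P.lf 111174 0 0)))) (P.cons (P.cons (P.lf 0 786872 0) (P.cons (P.lf 153142 0 0) (P.cons (P.lf 0 10238 0) P.nil))) (P.cons (P.cons (P.lf 91138 0 0) (P.cons (P.lf 36802 0 0) P.nil)) (P.cons (P.cons (P.lf 9038 0 0) P.nil) P.nil)))))) 8580)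
 EL.nil)
noncomputable def S256_270_512_660_41 : EL := (EL.cons 14 (TM.mk (P.cons (P.cons (P.lf 1625184 0 0) (P.cons (P.lf 2608974 0 0) (P.cons (P.lf 872642 0 0) (P.cons (P.lf 0 198152 0) (P.cons (P.lf 0 41988 0) (P.cons (P.lf 3120 0 0) P.nil)))))) (P.cons (P.cons (P.lf 3729980 0 0) (P.cons (P.lf 5568786 0 0) (P.cons (P.lf 1694432 0 0) (P.cons (P.lf 0 400460 0) (P.cons (P.lf 0 82880 0) P.nil))))) (P.cons (P.cons (P.lf 2587504 0 0) (P.cons (P.lf 3262856 0 0) (P.cons (P.lf 760794 0 0) (P.cons (P.lf 0 203614 0) P.nil)))) (P.cons (P.cons (P.lf 476482 0 0) (P.cons (P.lf 249676 0 0) (P.cons (P.lf 0 70402 0) P.nil))) (P.cons (P.cons (P.lf 0 15918 0) (P.cons (P.lf 0 58528 0) P.nil)) (P.cons (P.cons (P.lf 0 9988 0) P.nil) P.nil)))))) 94900)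
 EL.nil)
noncomputable def S256_270_512_660_42 : EL := (EL.cons 14 (TM.mk (P.cons (P.lf 1400996 0 0) (P.cons (P.lf 4195138 0 0) (P.cons (P.lf 4175546 0 0) (P.cons (P.lf 1365792 0 0) (P.cons (P.lf 0 19438 0) (P.cons (P.lf 0 3786 0) P.nil)))))) 74)
 EL.nil)
noncomputable def S256_270_512_660_43 : EL := (EL.cons 14 (TM.mk (P.cons (P.cons (P.lf 0 352704 0) (P.cons (P.lf 0 283104 0) (P.cons (P.lf 18926 0 0) (P.lf 6308 0 0)))) (P.cons (P.cons (P.lf 0 1108838 0) (P.cons (P.lf 0 844554 0) (P.cons (P.lf 56464 0 0) (P.lf 18820 0 0)))) (P.cons (P.cons (P.lf 0 1205938 0) (P.cons (P.lf 0 832692 0) (P.cons (P.lf 55670 0 0) (P.lf 18556 0 0)))) (P.cons (P.cons (P.lf 0 491248 0) (P.cons (P.lf 0 261844 0) (P.cons (P.lf 17506 0 0) P.nil))) (P.cons (P.cons (P.lf 0 35968 0) (P.cons (P.lf 11644 0 0) P.nil)) (P.cons (P.cons (P.lf 5998 0 0) P.nil) P.nil)))))) 10980)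
 EL.nil)
noncomputable def S256_270_512_660_44 : EL := (EL.cons 14 (TM.mk (P.cons (P.cons (P.lf 88794 0 0) (P.cons (P.lf 142544 0 0) (P.cons (P.lf 47678 0 0) (P.cons (P.lf 0 10826 0) (P.cons (P.lf 0 2294 0) (P.cons (P.lf 170 0 0) P.nil)))))) (P.cons (P.cons (P.lf 292420 0 0) (P.cons (P.lf 446536 0 0) (P.cons (P.lf 140166 0 0) (P.cons (P.lf 0 32684 0) (P.cons (P.lf 0 6818 0) P.nil))))) (P.cons (P.cons (P.lf 344534 0 0) (P.cons (P.lf 481562 0 0) (P.cons (P.lf 133838 0 0) (P.cons (P.lf 0 32932 0) P.nil)))) (P.cons (P.cons (P.lf 166488 0 0) (P.cons (P.lf 190596 0 0) (P.cons (P.lf 37338 0 0) P.nil))) (P.cons (P.cons (P.lf 24530 0 0) (P.cons (P.lf 9638 0 0) P.nil)) (P.cons (P.cons (P.lf 0 1616 0) P.nil) P.nil)))))) 34446)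
 EL.nil)
noncomputable def S256_270_512_660_45 : EL := (EL.cons 14 (TM.mk (P.cons (P.cons (P.lf 0 137060448 0) (P.cons (P.lf 0 330042968 0) (P.cons (P.lf 0 242849714 0) (P.cons (P.lf 0 28101364 0) (P.cons (P.lf 24840204 0 0) (P.cons (P.lf 2998940 0 0) P.nil)))))) (P.cons (P.cons (P.lf 0 61440166 0) (P.cons (P.lf 0 94930868 0) (P.cons (P.lf 0 27295600 0) (P.cons (P.lf 8998934 0 0) (P.cons (P.lf 870800 0 0) P.nil))))) (P.cons (P.cons (P.lf 0 5593178 0) (P.cons (P.lf 1326224 0 0) (P.cons (P.lf 6014988 0 0) (P.cons (P.lf 306578 0 0) P.nil)))) (P.cons (P.cons (P.lf 1142176 0 0) (P.cons (P.lf 2251392 0 0) (P.cons (P.lf 505262 0 0) P.nil))) (P.cons (P.cons (P.lf 193886 0 0) (P.cons (P.lf 59836 0 0) P.nil)) (P.cons (P.cons (P.lf 0 7186 0) P.nil) P.nil)))))) 2154400)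
 EL.nil)
noncomputable def S256_270_512_660_46 : EL := (EL.cons 15 (TM.mk (P.lf 4294967296 0 0) 0)
 EL.nil)
noncomputable def S256_270_512_660_47 : EL := (EL.cons 15 (TM.mk (P.cons (P.cons (P.lf 0 1081269515 0) (P.cons (P.lf 0 867902700 0) (P.cons (P.lf 58025952 0 0) (P.lf 19341984 0 0)))) (P.cons (P.cons (P.lf 0 161567108 0) (P.cons (P.lf 9733712 0 0) (P.cons (P.lf 0 650772 0) (P.lf 0 216920 0)))) (P.cons (P.cons (P.lf 9433735 0 0) (P.cons (P.lf 4812288 0 0) (P.cons (P.lf 0 321736 0) (P.lf 0 107244 0)))) (P.cons (P.cons (P.lf 1386759 0 0) (P.cons (P.lf 0 54348 0) (P.cons (P.lf 3632 0 0) P.nil))) (P.cons (P.cons (P.lf 0 32892 0) (P.cons (P.lf 0 13316 0) P.nil)) (P.cons (P.cons (P.lf 0 3537 0) P.nil) P.nil)))))) 3065)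
 EL.nil)
noncomputable def S256_270_512_660_48 : EL := (EL.cons 15 (TM.mk (P.cons (P.cons (P.lf 272212495 0 0) (P.cons (P.lf 436993656 0 0) (P.cons (P.lf 146164491 0 0) (P.cons (P.lf 0 33189904 0) (P.cons (P.lf 0 7033094 0) (P.cons (P.lf 522628 0 0) P.nil)))))) (P.cons (P.cons (P.lf 81349903 0 0) (P.cons (P.lf 60396158 0 0) (P.cons (P.lf 0 7971814 0) (P.cons (P.lf 0 819966 0) (P.cons (P.lf 157753 0 0) P.nil))))) (P.cons (P.cons (P.lf 1327858 0 0) (P.cons (P.lf 0 6967965 0) (P.cons (P.lf 0 1456959 0) (P.cons (P.lf 412395 0 0) P.nil)))) (P.cons (P.cons (P.lf 0 1407992 0) (P.cons (P.lf 0 852387 0) (P.cons (P.lf 100766 0 0) P.nil))) (P.cons (P.cons (P.lf 0 67051 0) (P.cons (P.lf 51512 0 0) P.nil)) (P.cons (P.cons (P.lf 10347 0 0) P.nil) P.nil)))))) 260552)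
 EL.nil)
noncomputable def S256_270_512_660 : SL := (SL.cons S256_270_512_660_0 (SL.cons S256_270_512_660_1 (SL.cons S256_270_512_660_2 (SL.cons S256_270_512_660_3 (SL.cons S256_270_512_660_4 (SL.cons S256_270_512_660_5 (SL.cons S256_270_512_660_6 (SL.cons S256_270_512_660_7 (SL.cons S256_270_512_660_8 (SL.cons S256_270_512_660_9 (SL.cons S256_270_512_660_10 (SL.cons S256_270_512_660_11 (SL.cons S256_270_512_660_12 (SL.cons S256_270_512_660_13 (SL.cons S256_270_512_660_14 (SL.cons S256_270_512_660_15 (SL.cons S256_270_512_660_16 (SL.cons S256_270_512_660_17 (SL.cons S256_270_512_660_18 (SL.cons S256_270_512_660_19 (SL.cons S256_270_512_660_20 (SL.cons S256_270_512_660_21 (SL.cons S256_270_512_660_22 (SL.cons S256_270_512_660_23 (SL.cons S256_270_512_660_24 (SL.cons S256_270_512_660_25 (SL.cons S256_270_512_660_26 (SL.cons S256_270_512_660_27 (SL.cons S256_270_512_660_28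 (SL.cons S256_270_512_660_29 (SL.cons S256_270_512_660_30 (SL.cons S256_270_512_660_31 (SL.cons S256_270_512_660_32 (SL.cons S256_270_512_660_33 (SL.cons S256_270_512_660_34 (SL.cons S256_270_512_660_35 (SL.cons S256_270_512_660_36 (SL.cons S256_270_512_660_37 (SL.cons S256_270_512_660_38 (SL.cons S256_270_512_660_39 (SL.cons S256_270_512_660_40 (SL.cons S256_270_512_660_41 (SL.cons S256_270_512_660_42 (SL.cons S256_270_512_660_43 (SL.cons S256_270_512_660_44 (SL.cons S256_270_512_660_45 (SL.cons S256_270_512_660_46 (SL.cons S256_270_512_660_47 (SL.cons S256_270_512_660_48 SL.nil)))))))))))))))))))))))))))))))))))))))))))))))))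
noncomputable def S256_270_660_808_0 : EL := (EL.cons 0 (TM.mk (P.cons (P.lf 8433179811 0 0) (P.cons (P.lf 0 44989933 0) (P.cons (P.lf 0 22326853 0) (P.cons (P.lf 167639 0 0) (P.cons (P.lf 41322 0 0) (P.cons (P.lf 0 349 0) P.nil)))))) 89)
 (EL.cons 1 (TM.mk (P.cons (P.lf 219584518 0 0) (P.cons (P.lf 218353558 0 0) (P.cons (P.lf 0 1842607 0) (P.cons (P.lf 0 607822 0) (P.cons (P.lf 4760 0 0) (P.cons (P.lf 933 0 0) P.nil)))))) 67)
 (EL.cons 5 (TM.mk (P.cons (P.lf 4302980472 0 0) (P.cons (P.lf 15996416 0 0) (P.cons (P.lf 7938434 0 0) (P.cons (P.lf 0 59604 0) (P.cons (P.lf 0 14690 0) (P.cons (P.lf 122 0 0) P.nil)))))) 139)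
 (EL.cons 9 (TM.mk (P.lf 6442450944 0 0) 2)
 EL.nil))))
noncomputable def S256_270_660_808_1 : EL := (EL.cons 0 (TM.mk (P.cons (P.cons (P.lf 0 4977317467 0) (P.cons (P.lf 0 786301389 0) (P.cons (P.lf 339062034 0 0) (P.lf 37673562 0 0)))) (P.cons (P.cons (P.lf 0 419370497 0) (P.cons (P.lf 25733408 0 0) (P.cons (P.lf 0 11096534 0) (P.lf 0 1232935 0)))) (P.cons (P.cons (P.lf 101314292 0 0) (P.cons (P.lf 12564357 0 0) (P.cons (P.lf 0 5417881 0) (P.lf 0 601983 0)))) (P.cons (P.cons (P.lf 8323983 0 0) (P.cons (P.lf 0 300187 0) (P.cons (P.lf 129444 0 0) P.nil))) (P.cons (P.cons (P.lf 0 679351 0) (P.cons (P.lf 0 72370 0) P.nil)) (P.cons (P.cons (P.lf 0 43630 0) P.nil) P.nil)))))) 57552)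
 (EL.cons 1 (TM.mk (P.cons (P.cons (P.lf 873336818 0 0) (P.cons (P.lf 0 51482331 0) (P.cons (P.lf 22199760 0 0) (P.lf 2466636 0 0)))) (P.cons (P.cons (P.lf 0 374588573 0) (P.cons (P.lf 0 50384003 0) (P.cons (P.lf 21726149 0 0) (P.lf 2414013 0 0)))) (P.cons (P.cons (P.lf 0 35651160 0) (P.cons (P.lf 1637077 0 0) (P.cons (P.lf 0 705920 0) (P.lf 0 78428 0)))) (P.cons (P.cons (P.lf 4679373 0 0) (P.cons (P.lf 528400 0 0) (P.cons (P.lf 0 227850 0) P.nil))) (P.cons (P.cons (P.lf 341520 0 0) (P.cons (P.lf 0 12844 0) P.nil)) (P.cons (P.cons (P.lf 0 24662 0) P.nil) P.nil)))))) 39667)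
 (EL.cons 5 (TM.mk (P.cons (P.cons (P.lf 0 2361687006 0) (P.cons (P.lf 0 406707774 0) (P.cons (P.lf 175376984 0 0) (P.lf 19486330 0 0)))) (P.cons (P.cons (P.lf 0 99835372 0) (P.cons (P.lf 0 1452854 0) (P.cons (P.lf 626488 0 0) (P.lf 69602 0 0)))) (P.cons (P.cons (P.lf 0 7270065 0) (P.cons (P.lf 0 662070 0) (P.cons (P.lf 285486 0 0) (P.lf 31716 0 0)))) (P.cons (P.cons (P.lf 0 745743 0) (P.cons (P.lf 63758 0 0) (P.cons (P.lf 0 27492 0) P.nil))) (P.cons (P.cons (P.lf 150424 0 0) (P.cons (P.lf 15200 0 0) P.nil)) (P.cons (P.cons (P.lf 9918 0 0) P.nil) P.nil)))))) 34134)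
 (EL.cons 9 (TM.mk (P.cons (P.cons (P.lf 0 3645352828 0) (P.cons (P.lf 0 605542590 0) (P.cons (P.lf 261116796 0 0) (P.lf 29012976 0 0)))) (P.cons (P.cons (P.lf 0 219657252 0) (P.cons (P.lf 6791286 0 0) (P.cons (P.lf 0 2928480 0) (P.lf 0 325380 0)))) (P.cons (P.cons (P.lf 25370098 0 0) (P.cons (P.lf 3357570 0 0) (P.cons (P.lf 0 1447818 0) (P.lf 0 160866 0)))) (P.cons (P.cons (P.lf 1953430 0 0) (P.cons (P.lf 0 37914 0) (P.cons (P.lf 16350 0 0) P.nil))) (P.cons (P.cons (P.lf 0 80388 0) (P.cons (P.lf 0 9288 0) P.nil)) (P.cons (P.cons (P.lf 0 4933 0) P.nil) P.nil)))))) 7406)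
 (EL.cons 2 (TM.mk (P.cons (P.cons (P.lf 0 64931352 0) (P.cons (P.lf 60489562 0 0) (P.cons (P.lf 6208194 0 0) (P.cons (P.lf 0 1291131 0) (P.lf 0 107592 0))))) (P.cons (P.cons (P.lf 0 64324617 0) (P.cons (P.lf 59924331 0 0) (P.cons (P.lf 6150183 0 0) (P.cons (P.lf 0 1279065 0) (P.lf 0 106588 0))))) (P.cons (P.cons (P.lf 907155 0 0) (P.cons (P.lf 0 845100 0) (P.cons (P.lf 0 86734 0) (P.cons (P.lf 18036 0 0) P.nil)))) (P.cons (P.cons (P.lf 297480 0 0) (P.cons (P.lf 0 277132 0) (P.cons (P.lf 0 28442 0) P.nil))) (P.cons (P.cons (P.lf 0 3656 0) (P.cons (P.lf 3405 0 0) P.nil)) (P.cons (P.cons (P.lf 0 711 0) P.nil) P.nil)))))) 9389)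
 (EL.cons 6 (TM.mk (P.cons (P.cons (P.lf 632643477 0 0) (P.cons (P.lf 0 589365924 0) (P.cons (P.lf 0 60488115 0) (P.cons (P.lf 12579843 0 0) (P.lf 1048317 0 0))))) (P.cons (P.cons (P.lf 0 7095231 0) (P.cons (P.lf 6609864 0 0) (P.cons (P.lf 678384 0 0) (P.cons (P.lf 0 141084 0) (P.lf 0 11754 0))))) (P.cons (P.cons (P.lf 0 3507840 0) (P.cons (P.lf 3267876 0 0) (P.cons (P.lf 335388 0 0) (P.cons (P.lf 0 69750 0) P.nil)))) (P.cons (P.cons (P.lf 39615 0 0) (P.cons (P.lf 0 36906 0) (P.cons (P.lf 0 3786 0) P.nil))) (P.cons (P.cons (P.lf 9705 0 0) (P.cons (P.lf 0 9042 0) P.nil)) (P.cons (P.cons (P.lf 0 114 0) P.nil) P.nil)))))) 8262)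
 EL.nil))))))
noncomputable def S256_270_660_808_2 : EL := (EL.cons 0 (TM.mk (P.cons (P.cons (P.lf 2932635293 0 0) (P.cons (P.lf 928470139 0 0) (P.cons (P.lf 0 327057618 0) (P.cons (P.lf 0 107708678 0) (P.cons (P.lf 6606515 0 0) (P.cons (P.lf 3029195 0 0) P.nil)))))) (P.cons (P.cons (P.lf 503007998 0 0) (P.cons (P.lf 53632589 0 0) (P.cons (P.lf 0 27553603 0) (P.cons (P.lf 1247951 0 0) (P.cons (P.lf 0 398911 0) P.nil))))) (P.cons (P.cons (P.lf 0 88594946 0) (P.cons (P.lf 0 32851607 0) (P.cons (P.lf 12043904 0 0) (P.cons (P.lf 3404104 0 0) P.nil)))) (P.cons (P.cons (P.lf 0 16832042 0) (P.cons (P.lf 0 1831160 0) (P.cons (P.lf 879747 0 0) P.nil))) (P.cons (P.cons (P.lf 672757 0 0) (P.cons (P.lf 389701 0 0) P.nil)) (P.cons (P.cons (P.lf 191984 0 0) P.nil) P.nil)))))) 1623066)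
 (EL.cons 1 (TM.mk (P.cons (P.cons (P.lf 0 1058629750 0) (P.cons (P.lf 0 129270354 0) (P.cons (P.lf 63480807 0 0) (P.cons (P.lf 0 479754 0) (P.cons (P.lf 697326 0 0) (P.cons (P.lf 319732 0 0) P.nil)))))) (P.cons (P.cons (P.lf 285973756 0 0) (P.cons (P.lf 108415492 0 0) (P.cons (P.lf 0 39272625 0) (P.cons (P.lf 0 11643070 0) (P.cons (P.lf 673843 0 0) P.nil))))) (P.cons (P.cons (P.lf 65655143 0 0) (P.cons (P.lf 7364863 0 0) (P.cons (P.lf 0 3562617 0) (P.cons (P.lf 0 19270 0) P.nil)))) (P.cons (P.cons (P.lf 0 4165761 0) (P.cons (P.lf 0 2095763 0) (P.cons (P.lf 781591 0 0) P.nil))) (P.cons (P.cons (P.lf 0 1087860 0) (P.cons (P.lf 0 112447 0) P.nil)) (P.cons (P.cons (P.lf 21396 0 0) P.nil) P.nil)))))) 865942)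
 (EL.cons 5 (TM.mk (P.cons (P.cons (P.lf 1294968586 0 0) (P.cons (P.lf 446519172 0 0) (P.cons (P.lf 0 154104208 0) (P.cons (P.lf 0 54545229 0) (P.cons (P.lf 3464132 0 0) (P.cons (P.lf 1588357 0 0) P.nil)))))) (P.cons (P.cons (P.lf 102875290 0 0) (P.cons (P.lf 19018384 0 0) (P.cons (P.lf 0 8073914 0) (P.cons (P.lf 0 1020757 0) (P.cons (P.lf 11442 0 0) P.nil))))) (P.cons (P.cons (P.lf 7449693 0 0) (P.cons (P.lf 1444341 0 0) (P.cons (P.lf 0 575504 0) (P.cons (P.lf 0 109985 0) P.nil)))) (P.cons (P.cons (P.lf 1518662 0 0) (P.cons (P.lf 84666 0 0) (P.cons (P.lf 0 52449 0) P.nil))) (P.cons (P.cons (P.lf 0 173820 0) (P.cons (P.lf 0 71938 0) P.nil)) (P.cons (P.cons (P.lf 0 38280 0) P.nil) P.nil)))))) 1004842)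
 (EL.cons 9 (TM.mk (P.cons (P.cons (P.lf 2062661766 0 0) (P.cons (P.lf 685272238 0 0) (P.cons (P.lf 0 238580608 0) (P.cons (P.lf 0 81919093 0) (P.cons (P.lf 5129226 0 0) (P.cons (P.lf 2351829 0 0) P.nil)))))) (P.cons (P.cons (P.lf 248578744 0 0) (P.cons (P.lf 33606832 0 0) (P.cons (P.lf 0 15768304 0) (P.cons (P.lf 0 509167 0) (P.cons (P.lf 0 115051 0) P.nil))))) (P.cons (P.cons (P.lf 0 21221211 0) (P.cons (P.lf 0 9031953 0) (P.cons (P.lf 3270660 0 0) (P.cons (P.lf 970900 0 0) P.nil)))) (P.cons (P.cons (P.lf 0 3940633 0) (P.cons (P.lf 0 499776 0) (P.cons (P.lf 229713 0 0) P.nil))) (P.cons (P.cons (P.lf 57672 0 0) (P.cons (P.lf 58770 0 0) P.nil)) (P.cons (P.cons (P.lf 26449 0 0) P.nil) P.nil)))))) 489922)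
 (EL.cons 2 (TM.mk (P.cons (P.cons (P.lf 73480635 0 0) (P.cons (P.lf 0 56247873 0) (P.cons (P.lf 0 23660167 0) (P.cons (P.lf 4612618 0 0) (P.cons (P.lf 1412533 0 0) (P.cons (P.lf 0 28513 0) P.nil)))))) (P.cons (P.cons (P.lf 77221715 0 0) (P.cons (P.lf 0 59983993 0) (P.cons (P.lf 0 23675861 0) (P.cons (P.lf 4622214 0 0) (P.cons (P.lf 1392193 0 0) P.nil))))) (P.cons (P.cons (P.lf 2848336 0 0) (P.cons (P.lf 0 3027318 0) (P.cons (P.lf 237116 0 0) (P.cons (P.lf 0 39875 0) P.nil)))) (P.cons (P.cons (P.lf 0 944499 0) (P.cons (P.lf 759594 0 0) (P.cons (P.lf 254238 0 0) P.nil))) (P.cons (P.cons (P.lf 0 46389 0) (P.cons (P.lf 46417 0 0) P.nil)) (P.cons (P.cons (P.lf 5653 0 0) P.nil) P.nil)))))) 402108)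
 (EL.cons 6 (TM.mk (P.cons (P.cons (P.lf 0 715941402 0) (P.cons (P.lf 548038062 0 0) (P.cons (P.lf 230527332 0 0) (P.cons (P.lf 0 44941992 0) (P.cons (P.lf 0 13762722 0) (P.cons (P.lf 277860 0 0) P.nil)))))) (P.cons (P.cons (P.lf 0 35110890 0) (P.cons (P.lf 35376636 0 0) (P.cons (P.lf 0 278400 0) (P.cons (P.lf 0 9414 0) (P.cons (P.lf 223908 0 0) P.nil))))) (P.cons (P.cons (P.lf 9436176 0 0) (P.cons (P.lf 0 7486788 0) (P.cons (P.lf 0 2679144 0) (P.cons (P.lf 524280 0 0) P.nil)))) (P.cons (P.cons (P.lf 522132 0 0) (P.cons (P.lf 0 516102 0) (P.cons (P.lf 0 9462 0) P.nil))) (P.cons (P.cons (P.lf 0 61398 0) (P.cons (P.lf 50058 0 0) P.nil)) (P.cons (P.cons (P.lf 0 3132 0) P.nil) P.nil)))))) 480384)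
 EL.nil))))))
noncomputable def S256_270_660_808_3 : EL := (EL.cons 0 (TM.mk (P.cons (P.lf 22537052 0 0) (P.cons (P.lf 44989933 0 0) (P.cons (P.lf 22326853 0 0) (P.cons (P.lf 0 167639 0) (P.cons (P.lf 0 41322 0) (P.cons (P.lf 349 0 0) P.nil)))))) 89)
 (EL.cons 1 (TM.mk (P.cons (P.lf 0 219584518 0) (P.cons (P.lf 0 218353558 0) (P.cons (P.lf 1842607 0 0) (P.cons (P.lf 607822 0 0) (P.cons (P.lf 0 4760 0) (P.cons (P.lf 0 933 0) P.nil)))))) 67)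
 (EL.cons 5 (TM.mk (P.cons (P.lf 2139470472 0 0) (P.cons (P.lf 0 15996416 0) (P.cons (P.lf 0 7938434 0) (P.cons (P.lf 59604 0 0) (P.cons (P.lf 14690 0 0) (P.cons (P.lf 0 122 0) P.nil)))))) 132)
 EL.nil)))
noncomputable def S256_270_660_808_4 : EL := (EL.cons 0 (TM.mk (P.cons (P.cons (P.lf 0 12752212 0) (P.cons (P.lf 0 2118315 0) (P.cons (P.lf 913440 0 0) (P.lf 101492 0 0)))) (P.cons (P.cons (P.lf 0 26225205 0) (P.cons (P.lf 0 4204961 0) (P.cons (P.lf 1813225 0 0) (P.lf 201468 0 0)))) (P.cons (P.cons (P.lf 0 14078469 0) (P.cons (P.lf 0 2039385 0) (P.cons (P.lf 879405 0 0) (P.lf 97711 0 0)))) (P.cons (P.cons (P.lf 0 482382 0) (P.cons (P.lf 62606 0 0) (P.cons (P.lf 0 26996 0) P.nil))) (P.cons (P.cons (P.lf 130378 0 0) (P.cons (P.lf 15045 0 0) P.nil)) (P.cons (P.cons (P.lf 6741 0 0) P.nil) P.nil)))))) 11991)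
 (EL.cons 1 (TM.mk (P.cons (P.cons (P.lf 124248217 0 0) (P.cons (P.lf 20639313 0 0) (P.cons (P.lf 0 8899905 0) (P.lf 0 988876 0)))) (P.cons (P.cons (P.lf 131038496 0 0) (P.cons (P.lf 20292138 0 0) (P.cons (P.lf 0 8750199 0) (P.lf 0 972243 0)))) (P.cons (P.cons (P.lf 5537503 0 0) (P.cons (P.lf 0 517805 0) (P.cons (P.lf 223282 0 0) (P.lf 24808 0 0)))) (P.cons (P.cons (P.lf 0 1333198 0) (P.cons (P.lf 0 167692 0) (P.cons (P.lf 72309 0 0) P.nil))) (P.cons (P.cons (P.lf 0 74238 0) (P.cons (P.lf 3648 0 0) P.nil)) (P.cons (P.cons (P.lf 6534 0 0) P.nil) P.nil)))))) 11835)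
 (EL.cons 5 (TM.mk (P.cons (P.cons (P.lf 0 1210583488 0) (P.cons (P.lf 0 201094350 0) (P.cons (P.lf 86714152 0 0) (P.lf 9634904 0 0)))) (P.cons (P.cons (P.lf 0 63894566 0) (P.cons (P.lf 3758858 0 0) (P.cons (P.lf 0 1620862 0) (P.lf 0 180092 0)))) (P.cons (P.cons (P.lf 13462376 0 0) (P.cons (P.lf 1844304 0 0) (P.cons (P.lf 0 795282 0) (P.lf 0 88362 0)))) (P.cons (P.cons (P.lf 822656 0 0) (P.cons (P.lf 0 34898 0) (P.cons (P.lf 15048 0 0) P.nil))) (P.cons (P.cons (P.lf 0 73150 0) (P.cons (P.lf 0 8444 0) P.nil)) (P.cons (P.cons (P.lf 0 4040 0) P.nil) P.nil)))))) 6820)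
 EL.nil)))
noncomputable def S256_270_660_808_5 : EL := (EL.cons 0 (TM.mk (P.cons (P.cons (P.lf 7215625 0 0) (P.cons (P.lf 2397225 0 0) (P.cons (P.lf 0 834604 0) (P.cons (P.lf 0 286569 0) (P.cons (P.lf 17941 0 0) (P.cons (P.lf 8226 0 0) P.nil)))))) (P.cons (P.cons (P.lf 15273882 0 0) (P.cons (P.lf 4903062 0 0) (P.cons (P.lf 0 1721253 0) (P.cons (P.lf 0 573850 0) (P.cons (P.lf 35416 0 0) P.nil))))) (P.cons (P.cons (P.lf 8810003 0 0) (P.cons (P.lf 2577960 0 0) (P.cons (P.lf 0 925495 0) (P.cons (P.lf 0 284055 0) P.nil)))) (P.cons (P.cons (P.lf 645816 0 0) (P.cons (P.lf 33813 0 0) (P.cons (P.lf 0 24793 0) P.nil))) (P.cons (P.cons (P.lf 0 120557 0) (P.cons (P.lf 0 39854 0) P.nil)) (P.cons (P.cons (P.lf 0 14090 0) P.nil) P.nil)))))) 84943)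
 (EL.cons 1 (TM.mk (P.cons (P.cons (P.lf 0 70303770 0) (P.cons (P.lf 0 23356820 0) (P.cons (P.lf 8131781 0 0) (P.cons (P.lf 2792128 0 0) (P.cons (P.lf 0 174823 0) (P.cons (P.lf 0 80158 0) P.nil)))))) (P.cons (P.cons (P.lf 0 78382215 0) (P.cons (P.lf 0 24371340 0) (P.cons (P.lf 8623642 0 0) (P.cons (P.lf 2793830 0 0) (P.cons (P.lf 0 169921 0) P.nil))))) (P.cons (P.cons (P.lf 0 7111815 0) (P.cons (P.lf 0 635191 0) (P.cons (P.lf 354718 0 0) (P.cons (P.lf 0 39262 0) P.nil)))) (P.cons (P.cons (P.lf 1119262 0 0) (P.cons (P.lf 397417 0 0) (P.cons (P.lf 0 145698 0) P.nil))) (P.cons (P.cons (P.lf 147451 0 0) (P.cons (P.lf 15015 0 0) P.nil)) (P.cons (P.cons (P.lf 0 6466 0) P.nil) P.nil)))))) 177192)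
 (EL.cons 5 (TM.mk (P.cons (P.cons (P.lf 684988364 0 0) (P.cons (P.lf 227571730 0 0) (P.cons (P.lf 0 79230120 0) (P.cons (P.lf 0 27204472 0) (P.cons (P.lf 1703362 0 0) (P.cons (P.lf 781016 0 0) P.nil)))))) (P.cons (P.cons (P.lf 77428866 0 0) (P.cons (P.lf 9458964 0 0) (P.cons (P.lf 0 4644098 0) (P.cons (P.lf 34314 0 0) (P.cons (P.lf 0 50942 0) P.nil))))) (P.cons (P.cons (P.lf 0 10206180 0) (P.cons (P.lf 0 3927258 0) (P.cons (P.lf 1419284 0 0) (P.cons (P.lf 424630 0 0) P.nil)))) (P.cons (P.cons (P.lf 0 1543168 0) (P.cons (P.lf 0 178614 0) (P.cons (P.lf 85386 0 0) P.nil))) (P.cons (P.cons (P.lf 62088 0 0) (P.cons (P.lf 33760 0 0) P.nil)) (P.cons (P.cons (P.lf 13826 0 0) P.nil) P.nil)))))) 192024)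
 EL.nil)))
noncomputable def S256_270_660_808_6 : EL := (EL.cons 12 (TM.mk (P.lf 8589934592 0 0) 0)
 (EL.cons 3 (TM.mk (P.cons (P.lf 219995351 0 0) (P.cons (P.lf 219584520 0 0) (P.cons (P.lf 0 615480 0) (P.cons (P.lf 0 203880 0) (P.cons (P.lf 952 0 0) (P.cons (P.lf 187 0 0) P.nil)))))) 37)
 (EL.cons 7 (TM.mk (P.cons (P.lf 0 2143473316 0) (P.cons (P.lf 8013173 0 0) (P.cons (P.lf 3991622 0 0) (P.cons (P.lf 0 14936 0) (P.cons (P.lf 0 3698 0) (P.cons (P.lf 20 0 0) P.nil)))))) 52)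
 EL.nil)))
noncomputable def S256_270_660_808_7 : EL := (EL.cons 12 (TM.mk (P.cons (P.cons (P.lf 0 4860470438 0) (P.cons (P.lf 0 807390120 0) (P.cons (P.lf 348155728 0 0) (P.lf 38683968 0 0)))) (P.cons (P.cons (P.lf 0 292876336 0) (P.cons (P.lf 9055048 0 0) (P.cons (P.lf 0 3904640 0) (P.lf 0 433840 0)))) (P.cons (P.cons (P.lf 33826798 0 0) (P.cons (P.lf 4476760 0 0) (P.cons (P.lf 0 1930424 0) (P.lf 0 214488 0)))) (P.cons (P.cons (P.lf 2604574 0 0) (P.cons (P.lf 0 50552 0) (P.cons (P.lf 21800 0 0) P.nil))) (P.cons (P.cons (P.lf 0 107184 0) (P.cons (P.lf 0 12384 0) P.nil)) (P.cons (P.cons (P.lf 0 6578 0) P.nil) P.nil)))))) 9850)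
 (EL.cons 3 (TM.mk (P.cons (P.cons (P.lf 0 2130898455 0) (P.cons (P.lf 41355860 0 0) (P.cons (P.lf 0 17833112 0) (P.lf 0 1981456 0)))) (P.cons (P.cons (P.lf 335481933 0 0) (P.cons (P.lf 40814816 0 0) (P.cons (P.lf 0 17599808 0) (P.lf 0 1955532 0)))) (P.cons (P.cons (P.lf 48267377 0 0) (P.cons (P.lf 0 807956 0) (P.cons (P.lf 348398 0 0) (P.lf 38708 0 0)))) (P.cons (P.cons (P.lf 0 2403753 0) (P.cons (P.lf 0 263316 0) (P.cons (P.lf 113544 0 0) P.nil))) (P.cons (P.cons (P.lf 0 201760 0) (P.cons (P.lf 4468 0 0) P.nil)) (P.cons (P.cons (P.lf 8628 0 0) P.nil) P.nil)))))) 34724)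
 (EL.cons 7 (TM.mk (P.cons (P.cons (P.lf 1139629362 0 0) (P.cons (P.lf 203734355 0 0) (P.cons (P.lf 0 87852554 0) (P.lf 0 9761396 0)))) (P.cons (P.cons (P.lf 12242553 0 0) (P.cons (P.lf 1489429 0 0) (P.cons (P.lf 0 642259 0) (P.lf 0 71359 0)))) (P.cons (P.cons (P.lf 7894119 0 0) (P.cons (P.lf 716623 0 0) (P.cons (P.lf 0 309013 0) (P.lf 0 34333 0)))) (P.cons (P.cons (P.lf 1100205 0 0) (P.cons (P.lf 0 27905 0) (P.cons (P.lf 12033 0 0) P.nil))) (P.cons (P.cons (P.lf 0 67908 0) (P.cons (P.lf 0 6746 0) P.nil)) (P.cons (P.cons (P.lf 0 5059 0) P.nil) P.nil)))))) 20691)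
 (EL.cons 10 (TM.mk (P.cons (P.cons (P.lf 0 1267654245 0) (P.cons (P.lf 1180937202 0 0) (P.cons (P.lf 121202574 0 0) (P.cons (P.lf 0 25206762 0) (P.lf 0 2100561 0))))) (P.cons (P.cons (P.lf 9478011 0 0) (P.cons (P.lf 0 8829642 0) (P.cons (P.lf 0 906207 0) (P.cons (P.lf 188466 0 0) (P.lf 15705 0 0))))) (P.cons (P.cons (P.lf 4703586 0 0) (P.cons (P.lf 0 4381827 0) (P.cons (P.lf 0 449718 0) (P.cons (P.lf 93528 0 0) P.nil)))) (P.cons (P.cons (P.lf 0 35313 0) (P.cons (P.lf 32898 0 0) (P.cons (P.lf 3375 0 0) P.nil))) (P.cons (P.cons (P.lf 0 8703 0) (P.cons (P.lf 8106 0 0) P.nil)) (P.cons (P.cons (P.lf 72 0 0) P.nil) P.nil)))))) 9921)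
 EL.nil))))
noncomputable def S256_270_660_808_8 : EL := (EL.cons 12 (TM.mk (P.cons (P.cons (P.lf 2750215688 0 0) (P.cons (P.lf 913696318 0 0) (P.cons (P.lf 0 318107478 0) (P.cons (P.lf 0 109225458 0) (P.cons (P.lf 6838968 0 0) (P.cons (P.lf 3135772 0 0) P.nil)))))) (P.cons (P.cons (P.lf 331438326 0 0) (P.cons (P.lf 44809110 0 0) (P.cons (P.lf 0 21024406 0) (P.cons (P.lf 0 678890 0) (P.cons (P.lf 0 153402 0) P.nil))))) (P.cons (P.cons (P.lf 0 28294948 0) (P.cons (P.lf 0 12042604 0) (P.cons (P.lf 4360880 0 0) (P.cons (P.lf 1294534 0 0) P.nil)))) (P.cons (P.cons (P.lf 0 5254178 0) (P.cons (P.lf 0 666368 0) (P.cons (P.lf 306284 0 0) P.nil))) (P.cons (P.cons (P.lf 76896 0 0) (P.cons (P.lf 78360 0 0) P.nil)) (P.cons (P.cons (P.lf 35266 0 0) P.nil) P.nil)))))) 653200)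
 (EL.cons 3 (TM.mk (P.cons (P.cons (P.lf 2341031001 0 0) (P.cons (P.lf 330375724 0 0) (P.cons (P.lf 0 152179599 0) (P.cons (P.lf 0 7448175 0) (P.cons (P.lf 0 875755 0) (P.cons (P.lf 0 401545 0) P.nil)))))) (P.cons (P.cons (P.lf 0 313138614 0) (P.cons (P.lf 0 141071437 0) (P.cons (P.lf 51349854 0 0) (P.cons (P.lf 14936318 0 0) (P.cons (P.lf 0 854475 0) P.nil))))) (P.cons (P.cons (P.lf 0 101832900 0) (P.cons (P.lf 0 12902050 0) (P.cons (P.lf 5914805 0 0) (P.cons (P.lf 315201 0 0) P.nil)))) (P.cons (P.cons (P.lf 1725750 0 0) (P.cons (P.lf 1977815 0 0) (P.cons (P.lf 0 740537 0) P.nil))) (P.cons (P.cons (P.lf 1166883 0 0) (P.cons (P.lf 130746 0 0) P.nil)) (P.cons (P.cons (P.lf 5207 0 0) P.nil) P.nil)))))) 1266002)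
 (EL.cons 7 (TM.mk (P.cons (P.cons (P.lf 0 603410383 0) (P.cons (P.lf 0 216795243 0) (P.cons (P.lf 74122260 0 0) (P.cons (P.lf 27085661 0 0) (P.cons (P.lf 0 1744895 0) (P.cons (P.lf 0 800059 0) P.nil)))))) (P.cons (P.cons (P.lf 0 11427193 0) (P.cons (P.lf 0 5148040 0) (P.cons (P.lf 1873883 0 0) (P.cons (P.lf 545053 0 0) (P.cons (P.lf 0 31182 0) P.nil))))) (P.cons (P.cons (P.lf 0 9440407 0) (P.cons (P.lf 0 3049653 0) (P.cons (P.lf 1154530 0 0) (P.cons (P.lf 284539 0 0) P.nil)))) (P.cons (P.cons (P.lf 0 2429777 0) (P.cons (P.lf 0 247118 0) (P.cons (P.lf 118896 0 0) P.nil))) (P.cons (P.cons (P.lf 81980 0 0) (P.cons (P.lf 57122 0 0) P.nil)) (P.cons (P.cons (P.lf 33012 0 0) P.nil) P.nil)))))) 486153)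
 (EL.cons 10 (TM.mk (P.cons (P.cons (P.lf 1434561792 0 0) (P.cons (P.lf 0 1098126834 0) (P.cons (P.lf 0 461917284 0) (P.cons (P.lf 90052164 0 0) (P.cons (P.lf 27576948 0 0) (P.cons (P.lf 0 556770 0) P.nil)))))) (P.cons (P.cons (P.lf 75716136 0 0) (P.cons (P.lf 0 74990898 0) (P.cons (P.lf 0 1168992 0) (P.cons (P.lf 355524 0 0) (P.cons (P.lf 0 345564 0) P.nil))))) (P.cons (P.cons (P.lf 0 15953136 0) (P.cons (P.lf 12676290 0 0) (P.cons (P.lf 4503756 0 0) (P.cons (P.lf 0 881496 0) P.nil)))) (P.cons (P.cons (P.lf 0 974862 0) (P.cons (P.lf 949530 0 0) (P.cons (P.lf 36846 0 0) P.nil))) (P.cons (P.cons (P.lf 86682 0 0) (P.cons (P.lf 0 70740 0) P.nil)) (P.cons (P.cons (P.lf 4788 0 0) P.nil) P.nil)))))) 882132)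
 EL.nil))))
noncomputable def S256_270_660_808_9 : EL := (EL.cons 3 (TM.mk (P.cons (P.lf 219995351 0 0) (P.cons (P.lf 219584520 0 0) (P.cons (P.lf 0 615480 0) (P.cons (P.lf 0 203880 0) (P.cons (P.lf 952 0 0) (P.cons (P.lf 187 0 0) P.nil)))))) 37)
 (EL.cons 7 (TM.mk (P.cons (P.lf 0 2143473316 0) (P.cons (P.lf 8013173 0 0) (P.cons (P.lf 3991622 0 0) (P.cons (P.lf 0 14936 0) (P.cons (P.lf 0 3698 0) (P.cons (P.lf 20 0 0) P.nil)))))) 52)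
 EL.nil))
noncomputable def S256_270_660_808_10 : EL := (EL.cons 3 (TM.mk (P.cons (P.cons (P.lf 0 124480680 0) (P.cons (P.lf 0 20677930 0) (P.cons (P.lf 8916556 0 0) (P.lf 990728 0 0)))) (P.cons (P.cons (P.lf 0 131749023 0) (P.cons (P.lf 0 20407408 0) (P.cons (P.lf 8799904 0 0) (P.lf 977766 0 0)))) (P.cons (P.cons (P.lf 0 6272206 0) (P.cons (P.lf 403978 0 0) (P.cons (P.lf 0 174199 0) (P.lf 0 19354 0)))) (P.cons (P.cons (P.lf 1067766 0 0) (P.cons (P.lf 131658 0 0) (P.cons (P.lf 0 56772 0) P.nil))) (P.cons (P.cons (P.lf 67823 0 0) (P.cons (P.lf 0 2234 0) P.nil)) (P.cons (P.cons (P.lf 0 4035 0) P.nil) P.nil)))))) 8614)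
 (EL.cons 7 (TM.mk (P.cons (P.cons (P.lf 1212848430 0 0) (P.cons (P.lf 201470588 0 0) (P.cons (P.lf 0 86876390 0) (P.lf 0 9652931 0)))) (P.cons (P.cons (P.lf 68548230 0 0) (P.cons (P.lf 0 3012713 0) (P.cons (P.lf 1299116 0 0) (P.lf 144344 0 0)))) (P.cons (P.cons (P.lf 0 10972710 0) (P.cons (P.lf 0 1483835 0) (P.cons (P.lf 639845 0 0) (P.lf 71093 0 0)))) (P.cons (P.cons (P.lf 0 746016 0) (P.cons (P.lf 22402 0 0) (P.cons (P.lf 0 9660 0) P.nil))) (P.cons (P.cons (P.lf 47496 0 0) (P.cons (P.lf 5455 0 0) P.nil)) (P.cons (P.cons (P.lf 2807 0 0) P.nil) P.nil)))))) 4343)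
 EL.nil))
noncomputable def S256_270_660_808_11 : EL := (EL.cons 3 (TM.mk (P.cons (P.cons (P.lf 70435305 0 0) (P.cons (P.lf 23400520 0 0) (P.cons (P.lf 0 8146995 0) (P.cons (P.lf 0 2797353 0) (P.cons (P.lf 175151 0 0) (P.cons (P.lf 80309 0 0) P.nil)))))) (P.cons (P.cons (P.lf 78792180 0 0) (P.cons (P.lf 24504419 0 0) (P.cons (P.lf 0 8670234 0) (P.cons (P.lf 0 2809516 0) (P.cons (P.lf 170895 0 0) P.nil))))) (P.cons (P.cons (P.lf 7550844 0 0) (P.cons (P.lf 771566 0 0) (P.cons (P.lf 0 402967 0) (P.cons (P.lf 23625 0 0) P.nil)))) (P.cons (P.cons (P.lf 0 946890 0) (P.cons (P.lf 0 349807 0) (P.cons (P.lf 128377 0 0) P.nil))) (P.cons (P.cons (P.lf 0 137877 0) (P.cons (P.lf 0 15126 0) P.nil)) (P.cons (P.cons (P.lf 4013 0 0) P.nil) P.nil)))))) 166738)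
 (EL.cons 7 (TM.mk (P.cons (P.cons (P.lf 0 686269945 0) (P.cons (P.lf 0 227997507 0) (P.cons (P.lf 79378356 0 0) (P.cons (P.lf 27255371 0 0) (P.cons (P.lf 0 1706549 0) (P.cons (P.lf 0 782479 0) P.nil)))))) (P.cons (P.cons (P.lf 0 80139289 0) (P.cons (P.lf 0 10329010 0) (P.cons (P.lf 4949537 0 0) (P.cons (P.lf 67513 0 0) (P.cons (P.lf 44658 0 0) P.nil))))) (P.cons (P.cons (P.lf 8647697 0 0) (P.cons (P.lf 3471411 0 0) (P.cons (P.lf 0 1255616 0) (P.cons (P.lf 0 374417 0) P.nil)))) (P.cons (P.cons (P.lf 1433929 0 0) (P.cons (P.lf 174280 0 0) (P.cons (P.lf 0 81576 0) P.nil))) (P.cons (P.cons (P.lf 0 38998 0) (P.cons (P.lf 0 26242 0) P.nil)) (P.cons (P.cons (P.lf 0 11256 0) P.nil) P.nil)))))) 177347)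
 EL.nil))
noncomputable def S256_270_660_808_12 : EL := (EL.cons 4 (TM.mk (P.cons (P.lf 0 219995351 0) (P.cons (P.lf 0 219584520 0) (P.cons (P.lf 615480 0 0) (P.cons (P.lf 203880 0 0) (P.cons (P.lf 0 952 0) (P.cons (P.lf 0 187 0) P.nil)))))) 37)
 (EL.cons 8 (TM.mk (P.cons (P.lf 2143473316 0 0) (P.cons (P.lf 0 8013173 0) (P.cons (P.lf 0 3991622 0) (P.cons (P.lf 14936 0 0) (P.cons (P.lf 3698 0 0) (P.cons (P.lf 0 20 0) P.nil)))))) 52)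
 EL.nil))
noncomputable def S256_270_660_808_13 : EL := (EL.cons 4 (TM.mk (P.cons (P.cons (P.lf 124480680 0 0) (P.cons (P.lf 20677930 0 0) (P.cons (P.lf 0 8916556 0) (P.lf 0 990728 0)))) (P.cons (P.cons (P.lf 131749023 0 0) (P.cons (P.lf 20407408 0 0) (P.cons (P.lf 0 8799904 0) (P.lf 0 977766 0)))) (P.cons (P.cons (P.lf 6272206 0 0) (P.cons (P.lf 0 403978 0) (P.cons (P.lf 174199 0 0) (P.lf 19354 0 0)))) (P.cons (P.cons (P.lf 0 1067766 0) (P.cons (P.lf 0 131658 0) (P.cons (P.lf 56772 0 0) P.nil))) (P.cons (P.cons (P.lf 0 67823 0) (P.cons (P.lf 2234 0 0) P.nil)) (P.cons (P.cons (P.lf 4035 0 0) P.nil) P.nil)))))) 8614)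
 (EL.cons 8 (TM.mk (P.cons (P.cons (P.lf 0 1212848430 0) (P.cons (P.lf 0 201470588 0) (P.cons (P.lf 86876390 0 0) (P.lf 9652931 0 0)))) (P.cons (P.cons (P.lf 0 68548230 0) (P.cons (P.lf 3012713 0 0) (P.cons (P.lf 0 1299116 0) (P.lf 0 144344 0)))) (P.cons (P.cons (P.lf 10972710 0 0) (P.cons (P.lf 1483835 0 0) (P.cons (P.lf 0 639845 0) (P.lf 0 71093 0)))) (P.cons (P.cons (P.lf 746016 0 0) (P.cons (P.lf 0 22402 0) (P.cons (P.lf 9660 0 0) P.nil))) (P.cons (P.cons (P.lf 0 47496 0) (P.cons (P.lf 0 5455 0) P.nil)) (P.cons (P.cons (P.lf 0 2807 0) P.nil) P.nil)))))) 4343)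
 EL.nil))
noncomputable def S256_270_660_808_14 : EL := (EL.cons 4 (TM.mk (P.cons (P.cons (P.lf 0 70435305 0) (P.cons (P.lf 0 23400520 0) (P.cons (P.lf 8146995 0 0) (P.cons (P.lf 2797353 0 0) (P.cons (P.lf 0 175151 0) (P.cons (P.lf 0 80309 0) P.nil)))))) (P.cons (P.cons (P.lf 0 78792180 0) (P.cons (P.lf 0 24504419 0) (P.cons (P.lf 8670234 0 0) (P.cons (P.lf 2809516 0 0) (P.cons (P.lf 0 170895 0) P.nil))))) (P.cons (P.cons (P.lf 0 7550844 0) (P.cons (P.lf 0 771566 0) (P.cons (P.lf 402967 0 0) (P.cons (P.lf 0 23625 0) P.nil)))) (P.cons (P.cons (P.lf 946890 0 0) (P.cons (P.lf 349807 0 0) (P.cons (P.lf 0 128377 0) P.nil))) (P.cons (P.cons (P.lf 137877 0 0) (P.cons (P.lf 15126 0 0) P.nil)) (P.cons (P.cons (P.lf 0 4013 0) P.nil) P.nil)))))) 166738)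
 (EL.cons 8 (TM.mk (P.cons (P.cons (P.lf 686269945 0 0) (P.cons (P.lf 227997507 0 0) (P.cons (P.lf 0 79378356 0) (P.cons (P.lf 0 27255371 0) (P.cons (P.lf 1706549 0 0) (P.cons (P.lf 782479 0 0) P.nil)))))) (P.cons (P.cons (P.lf 80139289 0 0) (P.cons (P.lf 10329010 0 0) (P.cons (P.lf 0 4949537 0) (P.cons (P.lf 0 67513 0) (P.cons (P.lf 0 44658 0) P.nil))))) (P.cons (P.cons (P.lf 0 8647697 0) (P.cons (P.lf 0 3471411 0) (P.cons (P.lf 1255616 0 0) (P.cons (P.lf 374417 0 0) P.nil)))) (P.cons (P.cons (P.lf 0 1433929 0) (P.cons (P.lf 0 174280 0) (P.cons (P.lf 81576 0 0) P.nil))) (P.cons (P.cons (P.lf 38998 0 0) (P.cons (P.lf 26242 0 0) P.nil)) (P.cons (P.cons (P.lf 11256 0 0) P.nil) P.nil)))))) 177347)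
 EL.nil))
noncomputable def S256_270_660_808_15 : EL := (EL.cons 4 (TM.mk (P.cons (P.lf 0 12019761 0) (P.cons (P.lf 0 23994630 0) (P.cons (P.lf 0 11907655 0) (P.cons (P.lf 89407 0 0) (P.cons (P.lf 22038 0 0) (P.cons (P.lf 0 186 0) P.nil)))))) 51)
 (EL.cons 8 (TM.mk (P.cons (P.lf 117111743 0 0) (P.cons (P.lf 116455231 0 0) (P.cons (P.lf 0 982724 0) (P.cons (P.lf 0 324172 0) (P.cons (P.lf 2539 0 0) (P.cons (P.lf 498 0 0) P.nil)))))) 32)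
 EL.nil))
noncomputable def S256_270_660_808_16 : EL := (EL.cons 4 (TM.mk (P.cons (P.cons (P.lf 6801180 0 0) (P.cons (P.lf 1129768 0 0) (P.cons (P.lf 0 487168 0) (P.lf 0 54129 0)))) (P.cons (P.cons (P.lf 13986776 0 0) (P.cons (P.lf 2242646 0 0) (P.cons (P.lf 0 967053 0) (P.lf 0 107449 0)))) (P.cons (P.cons (P.lf 7508517 0 0) (P.cons (P.lf 1087672 0 0) (P.cons (P.lf 0 469016 0) (P.lf 0 52112 0)))) (P.cons (P.cons (P.lf 257270 0 0) (P.cons (P.lf 0 33390 0) (P.cons (P.lf 14398 0 0) P.nil))) (P.cons (P.cons (P.lf 0 69535 0) (P.cons (P.lf 0 8024 0) P.nil)) (P.cons (P.cons (P.lf 0 3595 0) P.nil) P.nil)))))) 6404)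
 (EL.cons 8 (TM.mk (P.cons (P.cons (P.lf 0 66265716 0) (P.cons (P.lf 0 11007634 0) (P.cons (P.lf 4746616 0 0) (P.lf 527401 0 0)))) (P.cons (P.cons (P.lf 0 69887198 0) (P.cons (P.lf 0 10822474 0) (P.cons (P.lf 4666773 0 0) (P.lf 518530 0 0)))) (P.cons (P.cons (P.lf 0 2953335 0) (P.cons (P.lf 276163 0 0) (P.cons (P.lf 0 119084 0) (P.lf 0 13231 0)))) (P.cons (P.cons (P.lf 711039 0 0) (P.cons (P.lf 89436 0 0) (P.cons (P.lf 0 38565 0) P.nil))) (P.cons (P.cons (P.lf 39594 0 0) (P.cons (P.lf 0 1946 0) P.nil)) (P.cons (P.cons (P.lf 0 3485 0) P.nil) P.nil)))))) 6302)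
 EL.nil))
noncomputable def S256_270_660_808_17 : EL := (EL.cons 4 (TM.mk (P.cons (P.cons (P.lf 0 3848333 0) (P.cons (P.lf 0 1278520 0) (P.cons (P.lf 445122 0 0) (P.cons (P.lf 152836 0 0) (P.cons (P.lf 0 9569 0) (P.cons (P.lf 0 4387 0) P.nil)))))) (P.cons (P.cons (P.lf 0 8146070 0) (P.cons (P.lf 0 2614966 0) (P.cons (P.lf 918001 0 0) (P.cons (P.lf 306053 0 0) (P.cons (P.lf 0 18888 0) P.nil))))) (P.cons (P.cons (P.lf 0 4698668 0) (P.cons (P.lf 0 1374912 0) (P.cons (P.lf 493597 0 0) (P.cons (P.lf 151496 0 0) P.nil)))) (P.cons (P.cons (P.lf 0 344435 0) (P.cons (P.lf 0 18033 0) (P.cons (P.lf 13223 0 0) P.nil))) (P.cons (P.cons (P.lf 64297 0 0) (P.cons (P.lf 21255 0 0) P.nil)) (P.cons (P.cons (P.lf 7515 0 0) P.nil) P.nil)))))) 45313)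
 (EL.cons 8 (TM.mk (P.cons (P.cons (P.lf 37495344 0 0) (P.cons (P.lf 12456971 0 0) (P.cons (P.lf 0 4336950 0) (P.cons (P.lf 0 1489135 0) (P.cons (P.lf 93239 0 0) (P.cons (P.lf 42751 0 0) P.nil)))))) (P.cons (P.cons (P.lf 41803848 0 0) (P.cons (P.lf 12998048 0 0) (P.cons (P.lf 0 4599276 0) (P.cons (P.lf 0 1490043 0) (P.cons (P.lf 90625 0 0) P.nil))))) (P.cons (P.cons (P.lf 3792968 0 0) (P.cons (P.lf 338769 0 0) (P.cons (P.lf 0 189183 0) (P.cons (P.lf 20940 0 0) P.nil)))) (P.cons (P.cons (P.lf 0 596940 0) (P.cons (P.lf 0 211956 0) (P.cons (P.lf 77706 0 0) P.nil))) (P.cons (P.cons (P.lf 0 78641 0) (P.cons (P.lf 0 8008 0) P.nil)) (P.cons (P.cons (P.lf 3449 0 0) P.nil) P.nil)))))) 94491)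
 EL.nil))
noncomputable def S256_270_660_808_18 : EL := (EL.cons 4 (TM.mk (P.cons (P.lf 0 656716 0) (P.cons (P.lf 0 1966470 0) (P.cons (P.lf 0 1957287 0) (P.cons (P.lf 0 640215 0) (P.cons (P.lf 9111 0 0) (P.cons (P.lf 1774 0 0) P.nil)))))) 41)
 (EL.cons 8 (TM.mk (P.cons (P.lf 6398568 0 0) (P.cons (P.lf 12749317 0 0) (P.cons (P.lf 6279222 0 0) (P.cons (P.lf 0 95034 0) (P.cons (P.lf 0 23258 0) (P.cons (P.lf 297 0 0) P.nil)))))) 65)
 EL.nil))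
noncomputable def S256_270_660_808_19 : EL := (EL.cons 4 (TM.mk (P.cons (P.cons (P.lf 371592 0 0) (P.cons (P.lf 61725 0 0) (P.cons (P.lf 0 26616 0) (P.lf 0 2956 0)))) (P.cons (P.cons (P.lf 1135084 0 0) (P.cons (P.lf 184140 0 0) (P.cons (P.lf 0 79403 0) (P.lf 0 8821 0)))) (P.cons (P.cons (P.lf 1171959 0 0) (P.cons (P.lf 181554 0 0) (P.cons (P.lf 0 78287 0) (P.lf 0 8698 0)))) (P.cons (P.cons (P.lf 421045 0 0) (P.cons (P.lf 57090 0 0) (P.cons (P.lf 0 24617 0) P.nil))) (P.cons (P.cons (P.lf 8376 0 0) (P.cons (P.lf 0 2538 0) P.nil)) (P.cons (P.cons (P.lf 0 4404 0) P.nil) P.nil)))))) 5457)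
 (EL.cons 8 (TM.mk (P.cons (P.cons (P.lf 0 3620522 0) (P.cons (P.lf 0 601417 0) (P.cons (P.lf 259337 0 0) (P.lf 28815 0 0)))) (P.cons (P.cons (P.lf 0 7432148 0) (P.cons (P.lf 0 1191596 0) (P.cons (P.lf 513829 0 0) (P.lf 57091 0 0)))) (P.cons (P.cons (P.lf 0 3962486 0) (P.cons (P.lf 0 573425 0) (P.cons (P.lf 247267 0 0) (P.lf 27474 0 0)))) (P.cons (P.cons (P.lf 0 108171 0) (P.cons (P.lf 22158 0 0) (P.cons (P.lf 0 9554 0) P.nil))) (P.cons (P.cons (P.lf 44913 0 0) (P.cons (P.lf 5273 0 0) P.nil)) (P.cons (P.cons (P.lf 1989 0 0) P.nil) P.nil)))))) 4368)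
 EL.nil))
noncomputable def S256_270_660_808_20 : EL := (EL.cons 4 (TM.mk (P.cons (P.cons (P.lf 0 210258 0) (P.cons (P.lf 0 69853 0) (P.cons (P.lf 24319 0 0) (P.cons (P.lf 8350 0 0) (P.cons (P.lf 0 522 0) (P.cons (P.lf 0 239 0) P.nil)))))) (P.cons (P.cons (P.lf 0 654938 0) (P.cons (P.lf 0 212595 0) (P.cons (P.lf 74430 0 0) (P.cons (P.lf 25056 0 0) (P.cons (P.lf 0 1553 0) P.nil))))) (P.cons (P.cons (P.lf 0 700370 0) (P.cons (P.lf 0 217530 0) (P.cons (P.lf 76962 0 0) (P.cons (P.lf 24944 0 0) P.nil)))) (P.cons (P.cons (P.lf 0 273616 0) (P.cons (P.lf 0 75500 0) (P.cons (P.lf 27477 0 0) P.nil))) (P.cons (P.cons (P.lf 0 14140 0) (P.cons (P.lf 519 0 0) P.nil)) (P.cons (P.cons (P.lf 4204 0 0) P.nil) P.nil)))))) 18892)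
 (EL.cons 8 (TM.mk (P.cons (P.cons (P.lf 2048611 0 0) (P.cons (P.lf 680604 0 0) (P.cons (P.lf 0 236955 0) (P.cons (P.lf 0 81360 0) (P.cons (P.lf 5093 0 0) (P.cons (P.lf 2335 0 0) P.nil)))))) (P.cons (P.cons (P.lf 4328799 0 0) (P.cons (P.lf 1389500 0 0) (P.cons (P.lf 0 487800 0) (P.cons (P.lf 0 162619 0) (P.cons (P.lf 10036 0 0) P.nil))))) (P.cons (P.cons (P.lf 2481250 0 0) (P.cons (P.lf 725445 0 0) (P.cons (P.lf 0 260492 0) (P.cons (P.lf 0 79886 0) P.nil)))) (P.cons (P.cons (P.lf 165943 0 0) (P.cons (P.lf 4276 0 0) (P.cons (P.lf 0 5148 0) P.nil))) (P.cons (P.cons (P.lf 0 39537 0) (P.cons (P.lf 0 12703 0) P.nil)) (P.cons (P.cons (P.lf 0 4189 0) P.nil) P.nil)))))) 25823)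
 EL.nil))
noncomputable def S256_270_660_808_21 : EL := (EL.cons 4 (TM.mk (P.cons (P.cons (P.lf 2006417775 0 0) (P.cons (P.lf 0 62033790 0) (P.cons (P.lf 26749668 0 0) (P.lf 2972184 0 0)))) (P.cons (P.cons (P.lf 0 467230956 0) (P.cons (P.lf 0 61222224 0) (P.cons (P.lf 26399712 0 0) (P.lf 2933298 0 0)))) (P.cons (P.cons (P.lf 0 54539583 0) (P.cons (P.lf 1211934 0 0) (P.cons (P.lf 0 522597 0) (P.lf 0 58062 0)))) (P.cons (P.cons (P.lf 3471519 0 0) (P.cons (P.lf 394974 0 0) (P.cons (P.lf 0 170316 0) P.nil))) (P.cons (P.cons (P.lf 269583 0 0) (P.cons (P.lf 0 6702 0) P.nil)) (P.cons (P.cons (P.lf 0 12663 0) P.nil) P.nil)))))) 26091)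
 (EL.cons 8 (TM.mk (P.cons (P.cons (P.lf 73219068 0 0) (P.cons (P.lf 0 2263767 0) (P.cons (P.lf 976164 0 0) (P.lf 108465 0 0)))) (P.cons (P.cons (P.lf 56305677 0 0) (P.cons (P.lf 0 4502142 0) (P.cons (P.lf 1941375 0 0) (P.lf 215703 0 0)))) (P.cons (P.cons (P.lf 0 18866829 0) (P.cons (P.lf 0 2200458 0) (P.cons (P.lf 948858 0 0) (P.lf 105426 0 0)))) (P.cons (P.cons (P.lf 0 1846221 0) (P.cons (P.lf 50307 0 0) (P.cons (P.lf 0 21693 0) P.nil))) (P.cons (P.cons (P.lf 115404 0 0) (P.cons (P.lf 12201 0 0) P.nil)) (P.cons (P.cons (P.lf 7866 0 0) P.nil) P.nil)))))) 16329)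
 (EL.cons 11 (TM.mk (P.cons (P.cons (P.lf 1267654245 0 0) (P.cons (P.lf 0 1180937202 0) (P.cons (P.lf 0 121202574 0) (P.cons (P.lf 25206762 0 0) (P.lf 2100561 0 0))))) (P.cons (P.cons (P.lf 0 9478011 0) (P.cons (P.lf 8829642 0 0) (P.cons (P.lf 906207 0 0) (P.cons (P.lf 0 188466 0) (P.lf 0 15705 0))))) (P.cons (P.cons (P.lf 0 4703586 0) (P.cons (P.lf 4381827 0 0) (P.cons (P.lf 449718 0 0) (P.cons (P.lf 0 93528 0) P.nil)))) (P.cons (P.cons (P.lf 35313 0 0) (P.cons (P.lf 0 32898 0) (P.cons (P.lf 0 3375 0) P.nil))) (P.cons (P.cons (P.lf 8703 0 0) (P.cons (P.lf 0 8106 0) P.nil)) (P.cons (P.cons (P.lf 0 72 0) P.nil) P.nil)))))) 9921)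
 EL.nil)))
noncomputable def S256_270_660_808_22 : EL := (EL.cons 4 (TM.mk (P.cons (P.cons (P.lf 0 1135297848 0) (P.cons (P.lf 0 153487602 0) (P.cons (P.lf 72016302 0 0) (P.cons (P.lf 2325411 0 0) (P.cons (P.lf 525453 0 0) (P.cons (P.lf 240927 0 0) P.nil)))))) (P.cons (P.cons (P.lf 195965397 0 0) (P.cons (P.lf 82787928 0 0) (P.cons (P.lf 0 30010044 0) (P.cons (P.lf 0 8872917 0) (P.cons (P.lf 512685 0 0) P.nil))))) (P.cons (P.cons (P.lf 54691872 0 0) (P.cons (P.lf 6836808 0 0) (P.cons (P.lf 0 3158886 0) (P.cons (P.lf 0 145788 0) P.nil)))) (P.cons (P.cons (P.lf 0 1336320 0) (P.cons (P.lf 0 1163811 0) (P.cons (P.lf 434457 0 0) P.nil))) (P.cons (P.cons (P.lf 0 652380 0) (P.cons (P.lf 0 72936 0) P.nil)) (P.cons (P.cons (P.lf 0 597 0) P.nil) P.nil)))))) 549621)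
 (EL.cons 8 (TM.mk (P.cons (P.cons (P.lf 0 41429781 0) (P.cons (P.lf 0 5601132 0) (P.cons (P.lf 2628048 0 0) (P.cons (P.lf 84855 0 0) (P.cons (P.lf 19173 0 0) (P.cons (P.lf 8790 0 0) P.nil)))))) (P.cons (P.cons (P.lf 0 34356048 0) (P.cons (P.lf 0 2590485 0) (P.cons (P.lf 1537827 0 0) (P.cons (P.lf 0 238770 0) (P.cons (P.lf 37920 0 0) P.nil))))) (P.cons (P.cons (P.lf 9044052 0 0) (P.cons (P.lf 3260532 0 0) (P.cons (P.lf 0 1205073 0) (P.cons (P.lf 0 329478 0) P.nil)))) (P.cons (P.cons (P.lf 1931853 0 0) (P.cons (P.lf 210699 0 0) (P.cons (P.lf 0 100236 0) P.nil))) (P.cons (P.cons (P.lf 0 60489 0) (P.cons (P.lf 0 41682 0) P.nil)) (P.cons (P.cons (P.lf 0 22134 0) P.nil) P.nil)))))) 154392)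
 (EL.cons 11 (TM.mk (P.cons (P.cons (P.lf 0 717280896 0) (P.cons (P.lf 549063417 0 0) (P.cons (P.lf 230958642 0 0) (P.cons (P.lf 0 45026082 0) (P.cons (P.lf 0 13788474 0) (P.cons (P.lf 278385 0 0) P.nil)))))) (P.cons (P.cons (P.lf 0 37858068 0) (P.cons (P.lf 37495449 0 0) (P.cons (P.lf 584496 0 0) (P.cons (P.lf 0 177762 0) (P.cons (P.lf 172782 0 0) P.nil))))) (P.cons (P.cons (P.lf 7976568 0 0) (P.cons (P.lf 0 6338145 0) (P.cons (P.lf 0 2251878 0) (P.cons (P.lf 440748 0 0) P.nil)))) (P.cons (P.cons (P.lf 487431 0 0) (P.cons (P.lf 0 474765 0) (P.cons (P.lf 0 18423 0) P.nil))) (P.cons (P.cons (P.lf 0 43341 0) (P.cons (P.lf 35370 0 0) P.nil)) (P.cons (P.cons (P.lf 0 2394 0) P.nil) P.nil)))))) 441066)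
 EL.nil)))
noncomputable def S256_270_660_808_23 : EL := (EL.cons 4 (TM.mk (P.cons (P.cons (P.lf 109623516 0 0) (P.cons (P.lf 0 3389304 0) (P.cons (P.lf 1461504 0 0) (P.lf 162387 0 0)))) (P.cons (P.cons (P.lf 83890965 0 0) (P.cons (P.lf 0 6727938 0) (P.cons (P.lf 2901162 0 0) (P.lf 322350 0 0)))) (P.cons (P.cons (P.lf 0 28766703 0) (P.cons (P.lf 0 3263019 0) (P.cons (P.lf 1407048 0 0) (P.lf 156339 0 0)))) (P.cons (P.cons (P.lf 0 2814786 0) (P.cons (P.lf 100170 0 0) (P.cons (P.lf 0 43194 0) P.nil))) (P.cons (P.cons (P.lf 236514 0 0) (P.cons (P.lf 24072 0 0) P.nil)) (P.cons (P.cons (P.lf 16221 0 0) P.nil) P.nil)))))) 19128)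
 (EL.cons 8 (TM.mk (P.cons (P.cons (P.lf 4000428 0 0) (P.cons (P.lf 0 123684 0) (P.cons (P.lf 53334 0 0) (P.lf 5925 0 0)))) (P.cons (P.cons (P.lf 7069299 0 0) (P.cons (P.lf 0 369432 0) (P.cons (P.lf 159303 0 0) (P.lf 17700 0 0)))) (P.cons (P.cons (P.lf 2028588 0 0) (P.cons (P.lf 0 365400 0) (P.cons (P.lf 157563 0 0) (P.lf 17505 0 0)))) (P.cons (P.cons (P.lf 0 1142076 0) (P.cons (P.lf 0 116448 0) (P.cons (P.lf 50214 0 0) P.nil))) (P.cons (P.cons (P.lf 0 94326 0) (P.cons (P.lf 3972 0 0) P.nil)) (P.cons (P.cons (P.lf 7977 0 0) P.nil) P.nil)))))) 10491)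
 (EL.cons 11 (TM.mk (P.cons (P.cons (P.lf 69260109 0 0) (P.cons (P.lf 0 64522200 0) (P.cons (P.lf 0 6622074 0) (P.cons (P.lf 1377207 0 0) (P.lf 114765 0 0))))) (P.cons (P.cons (P.lf 68612925 0 0) (P.cons (P.lf 0 63919287 0) (P.cons (P.lf 0 6560196 0) (P.cons (P.lf 1364337 0 0) (P.lf 113694 0 0))))) (P.cons (P.cons (P.lf 0 967632 0) (P.cons (P.lf 901440 0 0) (P.cons (P.lf 92517 0 0) (P.cons (P.lf 0 19239 0) P.nil)))) (P.cons (P.cons (P.lf 0 317313 0) (P.cons (P.lf 295608 0 0) (P.cons (P.lf 30339 0 0) P.nil))) (P.cons (P.cons (P.lf 3900 0 0) (P.cons (P.lf 0 3633 0) P.nil)) (P.cons (P.cons (P.lf 759 0 0) P.nil) P.nil)))))) 9993)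
 EL.nil)))
noncomputable def S256_270_660_808_24 : EL := (EL.cons 4 (TM.mk (P.cons (P.cons (P.lf 0 62028627 0) (P.cons (P.lf 0 8386014 0) (P.cons (P.lf 3934713 0 0) (P.cons (P.lf 127050 0 0) (P.cons (P.lf 28707 0 0) (P.cons (P.lf 13161 0 0) P.nil)))))) (P.cons (P.cons (P.lf 0 51205941 0) (P.cons (P.lf 0 3847116 0) (P.cons (P.lf 2287722 0 0) (P.cons (P.lf 0 357969 0) (P.cons (P.lf 56664 0 0) P.nil))))) (P.cons (P.cons (P.lf 13848561 0 0) (P.cons (P.lf 4911789 0 0) (P.cons (P.lf 0 1820178 0) (P.cons (P.lf 0 492198 0) P.nil)))) (P.cons (P.cons (P.lf 2937105 0 0) (P.cons (P.lf 304371 0 0) (P.cons (P.lf 0 147588 0) P.nil))) (P.cons (P.cons (P.lf 0 127068 0) (P.cons (P.lf 0 72723 0) P.nil)) (P.cons (P.cons (P.lf 0 38181 0) P.nil) P.nil)))))) 238701)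
 (EL.cons 8 (TM.mk (P.cons (P.cons (P.lf 0 2263575 0) (P.cons (P.lf 0 306024 0) (P.cons (P.lf 143586 0 0) (P.cons (P.lf 4635 0 0) (P.cons (P.lf 1047 0 0) (P.cons (P.lf 480 0 0) P.nil)))))) (P.cons (P.cons (P.lf 0 4136439 0) (P.cons (P.lf 0 446988 0) (P.cons (P.lf 227340 0 0) (P.cons (P.lf 0 8418 0) (P.cons (P.lf 3117 0 0) P.nil))))) (P.cons (P.cons (P.lf 0 1373118 0) (P.cons (P.lf 37728 0 0) (P.cons (P.lf 17619 0 0) (P.cons (P.lf 0 31035 0) P.nil)))) (P.cons (P.cons (P.lf 606108 0 0) (P.cons (P.lf 190002 0 0) (P.cons (P.lf 0 71562 0) P.nil))) (P.cons (P.cons (P.lf 102393 0 0) (P.cons (P.lf 8844 0 0) P.nil)) (P.cons (P.cons (P.lf 0 5271 0) P.nil) P.nil)))))) 54117)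
 (EL.cons 11 (TM.mk (P.cons (P.cons (P.lf 0 39189672 0) (P.cons (P.lf 29998866 0 0) (P.cons (P.lf 12618756 0 0) (P.cons (P.lf 0 2460063 0) (P.cons (P.lf 0 753351 0) (P.cons (P.lf 15207 0 0) P.nil)))))) (P.cons (P.cons (P.lf 0 41184915 0) (P.cons (P.lf 31991463 0 0) (P.cons (P.lf 12627126 0 0) (P.cons (P.lf 0 2465181 0) (P.cons (P.lf 0 742503 0) P.nil))))) (P.cons (P.cons (P.lf 0 1519113 0) (P.cons (P.lf 1614570 0 0) (P.cons (P.lf 0 126462 0) (P.cons (P.lf 21267 0 0) P.nil)))) (P.cons (P.cons (P.lf 503733 0 0) (P.cons (P.lf 0 405117 0) (P.cons (P.lf 0 135594 0) P.nil))) (P.cons (P.cons (P.lf 24741 0 0) (P.cons (P.lf 0 24756 0) P.nil)) (P.cons (P.cons (P.lf 0 3015 0) P.nil) P.nil)))))) 214446)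
 EL.nil)))
noncomputable def S256_270_660_808_25 : EL := (EL.cons 4 (TM.mk (P.cons (P.cons (P.lf 5989437 0 0) (P.cons (P.lf 0 185178 0) (P.cons (P.lf 79851 0 0) (P.lf 8871 0 0)))) (P.cons (P.cons (P.lf 10561755 0 0) (P.cons (P.lf 0 552423 0) (P.cons (P.lf 238209 0 0) (P.lf 26466 0 0)))) (P.cons (P.cons (P.lf 2986476 0 0) (P.cons (P.lf 0 544665 0) (P.cons (P.lf 234864 0 0) (P.lf 26094 0 0)))) (P.cons (P.cons (P.lf 0 1740936 0) (P.cons (P.lf 0 171273 0) (P.cons (P.lf 73854 0 0) P.nil))) (P.cons (P.cons (P.lf 0 140403 0) (P.cons (P.lf 7614 0 0) P.nil)) (P.cons (P.cons (P.lf 15696 0 0) P.nil) P.nil)))))) 16668)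
 (EL.cons 8 (TM.mk (P.cons (P.cons (P.lf 218568 0 0) (P.cons (P.lf 0 6756 0) (P.cons (P.lf 2913 0 0) (P.lf 321 0 0)))) (P.cons (P.cons (P.lf 604401 0 0) (P.cons (P.lf 0 26928 0) (P.cons (P.lf 11610 0 0) (P.lf 1290 0 0)))) (P.cons (P.cons (P.lf 495741 0 0) (P.cons (P.lf 0 40092 0) (P.cons (P.lf 17286 0 0) (P.lf 1920 0 0)))) (P.cons (P.cons (P.lf 46944 0 0) (P.cons (P.lf 0 26226 0) (P.cons (P.lf 11307 0 0) P.nil))) (P.cons (P.cons (P.lf 0 68103 0) (P.cons (P.lf 0 6057 0) P.nil)) (P.cons (P.cons (P.lf 0 4632 0) P.nil) P.nil)))))) 5847)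
 (EL.cons 11 (TM.mk (P.cons (P.cons (P.lf 3784125 0 0) (P.cons (P.lf 0 3525261 0) (P.cons (P.lf 0 361806 0) (P.cons (P.lf 75243 0 0) (P.lf 6270 0 0))))) (P.cons (P.cons (P.lf 7525824 0 0) (P.cons (P.lf 0 7011000 0) (P.cons (P.lf 0 719556 0) (P.cons (P.lf 149646 0 0) (P.lf 12468 0 0))))) (P.cons (P.cons (P.lf 3678309 0 0) (P.cons (P.lf 0 3426684 0) (P.cons (P.lf 0 351687 0) (P.cons (P.lf 73140 0 0) P.nil)))) (P.cons (P.cons (P.lf 0 84099 0) (P.cons (P.lf 78345 0 0) (P.cons (P.lf 8040 0 0) P.nil))) (P.cons (P.cons (P.lf 0 20400 0) (P.cons (P.lf 19005 0 0) P.nil)) (P.cons (P.cons (P.lf 369 0 0) P.nil) P.nil)))))) 11235)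
 EL.nil)))
noncomputable def S256_270_660_808_26 : EL := (EL.cons 4 (TM.mk (P.cons (P.cons (P.lf 0 3389022 0) (P.cons (P.lf 0 458181 0) (P.cons (P.lf 214977 0 0) (P.cons (P.lf 6939 0 0) (P.cons (P.lf 1566 0 0) (P.cons (P.lf 717 0 0) P.nil)))))) (P.cons (P.cons (P.lf 0 6180402 0) (P.cons (P.lf 0 667518 0) (P.cons (P.lf 339570 0 0) (P.cons (P.lf 0 12627 0) (P.cons (P.lf 4659 0 0) P.nil))))) (P.cons (P.cons (P.lf 0 2026365 0) (P.cons (P.lf 59844 0 0) (P.cons (P.lf 24708 0 0) (P.cons (P.lf 0 46431 0) P.nil)))) (P.cons (P.cons (P.lf 926661 0 0) (P.cons (P.lf 285501 0 0) (P.cons (P.lf 0 107874 0) P.nil))) (P.cons (P.cons (P.lf 153690 0 0) (P.cons (P.lf 12066 0 0) P.nil)) (P.cons (P.cons (P.lf 0 10179 0) P.nil) P.nil)))))) 83526)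
 (EL.cons 8 (TM.mk (P.cons (P.cons (P.lf 0 123672 0) (P.cons (P.lf 0 16719 0) (P.cons (P.lf 7845 0 0) (P.cons (P.lf 252 0 0) (P.cons (P.lf 57 0 0) (P.cons (P.lf 24 0 0) P.nil)))))) (P.cons (P.cons (P.lf 0 349443 0) (P.cons (P.lf 0 41109 0) (P.cons (P.lf 20250 0 0) (P.cons (P.lf 0 207 0) (P.cons (P.lf 225 0 0) P.nil))))) (P.cons (P.cons (P.lf 0 300252 0) (P.cons (P.lf 0 22266 0) (P.cons (P.lf 13338 0 0) (P.cons (P.lf 0 2154 0) P.nil)))) (P.cons (P.cons (P.lf 0 41019 0) (P.cons (P.lf 12522 0 0) (P.cons (P.lf 0 2988 0) P.nil))) (P.cons (P.cons (P.lf 39066 0 0) (P.cons (P.lf 10860 0 0) P.nil)) (P.cons (P.cons (P.lf 5271 0 0) P.nil) P.nil)))))) 16368)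
 (EL.cons 11 (TM.mk (P.cons (P.cons (P.lf 0 2141181 0) (P.cons (P.lf 1639029 0 0) (P.cons (P.lf 689442 0 0) (P.cons (P.lf 0 134409 0) (P.cons (P.lf 0 41160 0) (P.cons (P.lf 831 0 0) P.nil)))))) (P.cons (P.cons (P.lf 0 4387380 0) (P.cons (P.lf 3383868 0 0) (P.cons (P.lf 1378056 0 0) (P.cons (P.lf 0 268845 0) (P.cons (P.lf 0 81651 0) P.nil))))) (P.cons (P.cons (P.lf 0 2323002 0) (P.cons (P.lf 1828263 0 0) (P.cons (P.lf 679773 0 0) (P.cons (P.lf 0 132897 0) P.nil)))) (P.cons (P.cons (P.lf 0 47040 0) (P.cons (P.lf 59505 0 0) (P.cons (P.lf 0 16872 0) P.nil))) (P.cons (P.cons (P.lf 31128 0 0) (P.cons (P.lf 0 25305 0) P.nil)) (P.cons (P.cons (P.lf 1170 0 0) P.nil) P.nil)))))) 86529)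
 EL.nil)))
noncomputable def S256_270_660_808_27 : EL := (EL.cons 13 (TM.mk (P.lf 0 4294967296 0) 0)
 EL.nil)
noncomputable def S256_270_660_808_28 : EL := (EL.cons 13 (TM.mk (P.cons (P.cons (P.lf 2430235219 0 0) (P.cons (P.lf 403695060 0 0) (P.cons (P.lf 0 174077864 0) (P.lf 0 19341984 0)))) (P.cons (P.cons (P.lf 146438168 0 0) (P.cons (P.lf 0 4527524 0) (P.cons (P.lf 1952320 0 0) (P.lf 216920 0 0)))) (P.cons (P.cons (P.lf 0 16913399 0) (P.cons (P.lf 0 2238380 0) (P.cons (P.lf 965212 0 0) (P.lf 107244 0 0)))) (P.cons (P.cons (P.lf 0 1302287 0) (P.cons (P.lf 25276 0 0) (P.cons (P.lf 0 10900 0) P.nil))) (P.cons (P.cons (P.lf 53592 0 0) (P.cons (P.lf 6192 0 0) P.nil)) (P.cons (P.cons (P.lf 3289 0 0) P.nil) P.nil)))))) 4925)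
 EL.nil)
noncomputable def S256_270_660_808_29 : EL := (EL.cons 13 (TM.mk (P.cons (P.cons (P.lf 0 1375107844 0) (P.cons (P.lf 0 456848159 0) (P.cons (P.lf 159053739 0 0) (P.cons (P.lf 54612729 0 0) (P.cons (P.lf 0 3419484 0) (P.cons (P.lf 0 1567886 0) P.nil)))))) (P.cons (P.cons (P.lf 0 165719163 0) (P.cons (P.lf 0 22404555 0) (P.cons (P.lf 10512203 0 0) (P.cons (P.lf 339445 0 0) (P.cons (P.lf 76701 0 0) P.nil))))) (P.cons (P.cons (P.lf 14147474 0 0) (P.cons (P.lf 6021302 0 0) (P.cons (P.lf 0 2180440 0) (P.cons (P.lf 0 647267 0) P.nil)))) (P.cons (P.cons (P.lf 2627089 0 0) (P.cons (P.lf 333184 0 0) (P.cons (P.lf 0 153142 0) P.nil))) (P.cons (P.cons (P.lf 0 38448 0) (P.cons (P.lf 0 39180 0) P.nil)) (P.cons (P.cons (P.lf 0 17633 0) P.nil) P.nil)))))) 326600)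
 EL.nil)
noncomputable def S256_270_660_808_30 : EL := (EL.cons 13 (TM.mk (P.cons (P.lf 0 234661708 0) (P.cons (P.lf 0 234223488 0) (P.cons (P.lf 656512 0 0) (P.cons (P.lf 217472 0 0) (P.cons (P.lf 0 1016 0) (P.cons (P.lf 0 200 0) P.nil)))))) 32)
 EL.nil)
noncomputable def S256_270_660_808_31 : EL := (EL.cons 13 (TM.mk (P.cons (P.cons (P.lf 132779392 0 0) (P.cons (P.lf 22056459 0 0) (P.cons (P.lf 0 9510994 0) (P.lf 0 1056777 0)))) (P.cons (P.cons (P.lf 140532292 0 0) (P.cons (P.lf 21767902 0 0) (P.cons (P.lf 0 9386565 0) (P.lf 0 1042951 0)))) (P.cons (P.cons (P.lf 6690354 0 0) (P.cons (P.lf 0 430910 0) (P.cons (P.lf 185813 0 0) (P.lf 20645 0 0)))) (P.cons (P.cons (P.lf 0 1138951 0) (P.cons (P.lf 0 140436 0) (P.cons (P.lf 60557 0 0) P.nil))) (P.cons (P.cons (P.lf 0 72345 0) (P.cons (P.lf 2383 0 0) P.nil)) (P.cons (P.cons (P.lf 4305 0 0) P.nil) P.nil)))))) 9169)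
 EL.nil)
noncomputable def S256_270_660_808_32 : EL := (EL.cons 13 (TM.mk (P.cons (P.cons (P.lf 0 75130992 0) (P.cons (P.lf 0 24960555 0) (P.cons (P.lf 8690129 0 0) (P.cons (P.lf 2983844 0 0) (P.cons (P.lf 0 186828 0) (P.cons (P.lf 0 85663 0) P.nil)))))) (P.cons (P.cons (P.lf 0 84044993 0) (P.cons (P.lf 0 26138047 0) (P.cons (P.lf 9248250 0 0) (P.cons (P.lf 2996818 0 0) (P.cons (P.lf 0 182288 0) P.nil))))) (P.cons (P.cons (P.lf 0 8054234 0) (P.cons (P.lf 0 823004 0) (P.cons (P.lf 429832 0 0) (P.cons (P.lf 0 25200 0) P.nil)))) (P.cons (P.cons (P.lf 1010017 0 0) (P.cons (P.lf 373128 0 0) (P.cons (P.lf 0 136936 0) P.nil))) (P.cons (P.cons (P.lf 147069 0 0) (P.cons (P.lf 16135 0 0) P.nil)) (P.cons (P.cons (P.lf 0 4281 0) P.nil) P.nil)))))) 177831)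
 EL.nil)
noncomputable def S256_270_660_808_33 : EL := (EL.cons 14 (TM.mk (P.lf 8589934592 0 0) 0)
 EL.nil)
noncomputable def S256_270_660_808_34 : EL := (EL.cons 14 (TM.mk (P.cons (P.cons (P.lf 0 4860470438 0) (P.cons (P.lf 0 807390120 0) (P.cons (P.lf 348155728 0 0) (P.lf 38683968 0 0)))) (P.cons (P.cons (P.lf 0 292876336 0) (P.cons (P.lf 9055048 0 0) (P.cons (P.lf 0 3904640 0) (P.lf 0 433840 0)))) (P.cons (P.cons (P.lf 33826798 0 0) (P.cons (P.lf 4476760 0 0) (P.cons (P.lf 0 1930424 0) (P.lf 0 214488 0)))) (P.cons (P.cons (P.lf 2604574 0 0) (P.cons (P.lf 0 50552 0) (P.cons (P.lf 21800 0 0) P.nil))) (P.cons (P.cons (P.lf 0 107184 0) (P.cons (P.lf 0 12384 0) P.nil)) (P.cons (P.cons (P.lf 0 6578 0) P.nil) P.nil)))))) 9850)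
 EL.nil)
noncomputable def S256_270_660_808_35 : EL := (EL.cons 14 (TM.mk (P.cons (P.cons (P.lf 2750215688 0 0) (P.cons (P.lf 913696318 0 0) (P.cons (P.lf 0 318107478 0) (P.cons (P.lf 0 109225458 0) (P.cons (P.lf 6838968 0 0) (P.cons (P.lf 3135772 0 0) P.nil)))))) (P.cons (P.cons (P.lf 331438326 0 0) (P.cons (P.lf 44809110 0 0) (P.cons (P.lf 0 21024406 0) (P.cons (P.lf 0 678890 0) (P.cons (P.lf 0 153402 0) P.nil))))) (P.cons (P.cons (P.lf 0 28294948 0) (P.cons (P.lf 0 12042604 0) (P.cons (P.lf 4360880 0 0) (P.cons (P.lf 1294534 0 0) P.nil)))) (P.cons (P.cons (P.lf 0 5254178 0) (P.cons (P.lf 0 666368 0) (P.cons (P.lf 306284 0 0) P.nil))) (P.cons (P.cons (P.lf 76896 0 0) (P.cons (P.lf 78360 0 0) P.nil)) (P.cons (P.cons (P.lf 35266 0 0) P.nil) P.nil)))))) 653200)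
 EL.nil)
noncomputable def S256_270_660_808_36 : EL := (EL.cons 14 (TM.mk (P.cons (P.lf 469323416 0 0) (P.cons (P.lf 468446976 0 0) (P.cons (P.lf 0 1313024 0) (P.cons (P.lf 0 434944 0) (P.cons (P.lf 2032 0 0) (P.cons (P.lf 400 0 0) P.nil)))))) 64)
 EL.nil)
noncomputable def S256_270_660_808_37 : EL := (EL.cons 14 (TM.mk (P.cons (P.cons (P.lf 0 265558784 0) (P.cons (P.lf 0 44112918 0) (P.cons (P.lf 19021988 0 0) (P.lf 2113554 0 0)))) (P.cons (P.cons (P.lf 0 281064584 0) (P.cons (P.lf 0 43535804 0) (P.cons (P.lf 18773130 0 0) (P.lf 2085902 0 0)))) (P.cons (P.cons (P.lf 0 13380708 0) (P.cons (P.lf 861820 0 0) (P.cons (P.lf 0 371626 0) (P.lf 0 41290 0)))) (P.cons (P.cons (P.lf 2277902 0 0) (P.cons (P.lf 280872 0 0) (P.cons (P.lf 0 121114 0) P.nil))) (P.cons (P.cons (P.lf 144690 0 0) (P.cons (P.lf 0 4766 0) P.nil)) (P.cons (P.cons (P.lf 0 8610 0) P.nil) P.nil))))))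 18338)
 EL.nil)
noncomputable def S256_270_660_808_38 : EL := (EL.cons 14 (TM.mk (P.cons (P.cons (P.lf 150261984 0 0) (P.cons (P.lf 49921110 0 0) (P.cons (P.lf 0 17380258 0) (P.cons (P.lf 0 5967688 0) (P.cons (P.lf 373656 0 0) (P.cons (P.lf 171326 0 0) P.nil)))))) (P.cons (P.cons (P.lf 168089986 0 0) (P.cons (P.lf 52276094 0 0) (P.cons (P.lf 0 18496500 0) (P.cons (P.lf 0 5993636 0) (P.cons (P.lf 364576 0 0) P.nil))))) (P.cons (P.cons (P.lf 16108468 0 0) (P.cons (P.lf 1646008 0 0) (P.cons (P.lf 0 859664 0) (P.cons (P.lf 50400 0 0) P.nil)))) (P.cons (P.cons (P.lf 0 2020034 0) (P.cons (P.lf 0 746256 0) (P.cons (P.lf 273872 0 0) P.nil))) (P.cons (P.cons (P.lf 0 294138 0) (P.cons (P.lf 0 32270 0) P.nil)) (P.cons (P.cons (P.lf 8562 0 0) P.nil) P.nil)))))) 355662)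
 EL.nil)
noncomputable def S256_270_660_808_39 : EL := (EL.cons 14 (TM.mk (P.cons (P.lf 25642158 0 0) (P.cons (P.lf 51188546 0 0) (P.cons (P.lf 25402998 0 0) (P.cons (P.lf 0 190736 0) (P.cons (P.lf 0 47016 0) (P.cons (P.lf 398 0 0) P.nil)))))) 94)
 EL.nil)
noncomputable def S256_270_660_808_40 : EL := (EL.cons 14 (TM.mk (P.cons (P.cons (P.lf 0 14509184 0) (P.cons (P.lf 0 2410172 0) (P.cons (P.lf 1039292 0 0) (P.lf 115476 0 0)))) (P.cons (P.cons (P.lf 0 29838456 0) (P.cons (P.lf 0 4784312 0) (P.cons (P.lf 2063048 0 0) (P.lf 229226 0 0)))) (P.cons (P.cons (P.lf 0 16018170 0) (P.cons (P.lf 0 2320368 0) (P.cons (P.lf 1000568 0 0) (P.lf 111174 0 0)))) (P.cons (P.cons (P.lf 0 548844 0) (P.cons (P.lf 71232 0 0) (P.cons (P.lf 0 30716 0) P.nil))) (P.cons (P.cons (P.lf 148342 0 0) (P.cons (P.lf 17118 0 0) P.nil)) (P.cons (P.cons (P.lf 7670 0 0) P.nil) P.nil)))))) 13622)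
 EL.nil)
noncomputable def S256_270_660_808_41 : EL := (EL.cons 14 (TM.mk (P.cons (P.cons (P.lf 8209778 0 0) (P.cons (P.lf 2727510 0 0) (P.cons (P.lf 0 949594 0) (P.cons (P.lf 0 326052 0) (P.cons (P.lf 20414 0 0) (P.cons (P.lf 9360 0 0) P.nil)))))) (P.cons (P.cons (P.lf 17378284 0 0) (P.cons (P.lf 5578596 0 0) (P.cons (P.lf 0 1958404 0) (P.cons (P.lf 0 652914 0) (P.cons (P.lf 40296 0 0) P.nil))))) (P.cons (P.cons (P.lf 10023826 0 0) (P.cons (P.lf 2933146 0 0) (P.cons (P.lf 0 1053008 0) (P.cons (P.lf 0 323192 0) P.nil)))) (P.cons (P.cons (P.lf 734796 0 0) (P.cons (P.lf 38472 0 0) (P.cons (P.lf 0 28210 0) P.nil))) (P.cons (P.cons (P.lf 0 137168 0) (P.cons (P.lf 0 45346 0) P.nil)) (P.cons (P.cons (P.lf 0 16032 0) P.nil) P.nil)))))) 96622)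
 EL.nil)
noncomputable def S256_270_660_808_42 : EL := (EL.cons 14 (TM.mk (P.cons (P.lf 1400996 0 0) (P.cons (P.lf 4195138 0 0) (P.cons (P.lf 4175546 0 0) (P.cons (P.lf 1365792 0 0) (P.cons (P.lf 0 19438 0) (P.cons (P.lf 0 3786 0) P.nil)))))) 74)
 EL.nil)
noncomputable def S256_270_660_808_43 : EL := (EL.cons 14 (TM.mk (P.cons (P.cons (P.lf 0 792730 0) (P.cons (P.lf 0 131682 0) (P.cons (P.lf 56782 0 0) (P.lf 6308 0 0)))) (P.cons (P.cons (P.lf 0 2421514 0) (P.cons (P.lf 0 392834 0) (P.cons (P.lf 169394 0 0) (P.lf 18820 0 0)))) (P.cons (P.cons (P.lf 0 2500180 0) (P.cons (P.lf 0 387316 0) (P.cons (P.lf 167014 0 0) (P.lf 18556 0 0)))) (P.cons (P.cons (P.lf 0 898230 0) (P.cons (P.lf 0 121794 0) (P.cons (P.lf 52518 0 0) P.nil))) (P.cons (P.cons (P.lf 0 17870 0) (P.cons (P.lf 5416 0 0) P.nil)) (P.cons (P.cons (P.lf 9396 0 0) P.nil) P.nil)))))) 11602)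
 EL.nil)
noncomputable def S256_270_660_808_44 : EL := (EL.cons 14 (TM.mk (P.cons (P.cons (P.lf 448552 0 0) (P.cons (P.lf 149020 0 0) (P.cons (P.lf 0 51882 0) (P.cons (P.lf 0 17814 0) (P.cons (P.lf 1114 0 0) (P.cons (P.lf 510 0 0) P.nil)))))) (P.cons (P.cons (P.lf 1397202 0 0) (P.cons (P.lf 453536 0 0) (P.cons (P.lf 0 158784 0) (P.cons (P.lf 0 53454 0) (P.cons (P.lf 3314 0 0) P.nil))))) (P.cons (P.cons (P.lf 1494124 0 0) (P.cons (P.lf 464064 0 0) (P.cons (P.lf 0 164186 0) (P.cons (P.lf 0 53214 0) P.nil)))) (P.cons (P.cons (P.lf 583716 0 0) (P.cons (P.lf 161068 0 0) (P.cons (P.lf 0 58618 0) P.nil))) (P.cons (P.cons (P.lf 30166 0 0) (P.cons (P.lf 0 1108 0) P.nil)) (P.cons (P.cons (P.lf 0 8970 0) P.nil) P.nil)))))) 40258)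
 EL.nil)
noncomputable def S256_270_660_808_45 : EL := (EL.cons 14 (TM.mk (P.cons (P.cons (P.lf 0 1556163426 0) (P.cons (P.lf 0 775499608 0) (P.cons (P.lf 205583166 0 0) (P.cons (P.lf 141121190 0 0) (P.cons (P.lf 0 2381692 0) (P.cons (P.lf 0 8276682 0) P.nil)))))) (P.cons (P.cons (P.lf 0 281308228 0) (P.cons (P.lf 0 84760840 0) (P.cons (P.lf 31676996 0 0) (P.cons (P.lf 8503532 0 0) (P.cons (P.lf 0 749592 0) P.nil))))) (P.cons (P.cons (P.lf 15539966 0 0) (P.cons (P.lf 13326634 0 0) (P.cons (P.lf 0 3263584 0) (P.cons (P.lf 0 2663940 0) P.nil)))) (P.cons (P.cons (P.lf 6076802 0 0) (P.cons (P.lf 1861724 0 0) (P.cons (P.lf 0 700922 0) P.nil))) (P.cons (P.cons (P.lf 90386 0 0) (P.cons (P.lf 0 100284 0) P.nil)) (P.cons (P.cons (P.lf 0 58088 0) P.nil) P.nil)))))) 3107494)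
 EL.nil)
noncomputable def S256_270_660_808_46 : EL := (EL.cons 15 (TM.mk (P.lf 4294967296 0 0) 0)
 EL.nil)
noncomputable def S256_270_660_808_47 : EL := (EL.cons 15 (TM.mk (P.cons (P.cons (P.lf 0 2430235219 0) (P.cons (P.lf 0 403695060 0) (P.cons (P.lf 174077864 0 0) (P.lf 19341984 0 0)))) (P.cons (P.cons (P.lf 0 146438168 0) (P.cons (P.lf 4527524 0 0) (P.cons (P.lf 0 1952320 0) (P.lf 0 216920 0)))) (P.cons (P.cons (P.lf 16913399 0 0) (P.cons (P.lf 2238380 0 0) (P.cons (P.lf 0 965212 0) (P.lf 0 107244 0)))) (P.cons (P.cons (P.lf 1302287 0 0) (P.cons (P.lf 0 25276 0) (P.cons (P.lf 10900 0 0) P.nil))) (P.cons (P.cons (P.lf 0 53592 0) (P.cons (P.lf 0 6192 0) P.nil)) (P.cons (P.cons (P.lf 0 3289 0) P.nil) P.nil)))))) 4925)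
 EL.nil)
noncomputable def S256_270_660_808_48 : EL := (EL.cons 15 (TM.mk (P.cons (P.cons (P.lf 1375107844 0 0) (P.cons (P.lf 456848159 0 0) (P.cons (P.lf 0 159053739 0) (P.cons (P.lf 0 54612729 0) (P.cons (P.lf 3419484 0 0) (P.cons (P.lf 1567886 0 0) P.nil)))))) (P.cons (P.cons (P.lf 165719163 0 0) (P.cons (P.lf 22404555 0 0) (P.cons (P.lf 0 10512203 0) (P.cons (P.lf 0 339445 0) (P.cons (P.lf 0 76701 0) P.nil))))) (P.cons (P.cons (P.lf 0 14147474 0) (P.cons (P.lf 0 6021302 0) (P.cons (P.lf 2180440 0 0) (P.cons (P.lf 647267 0 0) P.nil)))) (P.cons (P.cons (P.lf 0 2627089 0) (P.cons (P.lf 0 333184 0) (P.cons (P.lf 153142 0 0) P.nil))) (P.cons (P.cons (P.lf 38448 0 0) (P.cons (P.lf 39180 0 0) P.nil)) (P.cons (P.cons (P.lf 17633 0 0) P.nil) P.nil)))))) 326600)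
 EL.nil)
noncomputable def S256_270_660_808 : SL := (SL.cons S256_270_660_808_0 (SL.cons S256_270_660_808_1 (SL.cons S256_270_660_808_2 (SL.cons S256_270_660_808_3 (SL.cons S256_270_660_808_4 (SL.cons S256_270_660_808_5 (SL.cons S256_270_660_808_6 (SL.cons S256_270_660_808_7 (SL.cons S256_270_660_808_8 (SL.cons S256_270_660_808_9 (SL.cons S256_270_660_808_10 (SL.cons S256_270_660_808_11 (SL.cons S256_270_660_808_12 (SL.cons S256_270_660_808_13 (SL.cons S256_270_660_808_14 (SL.cons S256_270_660_808_15 (SL.cons S256_270_660_808_16 (SL.cons S256_270_660_808_17 (SL.cons S256_270_660_808_18 (SL.cons S256_270_660_808_19 (SL.cons S256_270_660_808_20 (SL.cons S256_270_660_808_21 (SL.cons S256_270_660_808_22 (SL.cons S256_270_660_808_23 (SL.cons S256_270_660_808_24 (SL.cons S256_270_660_808_25 (SL.cons S256_270_660_808_26 (SL.cons S256_270_660_808_27 (SL.cons S256_270_660_808_28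 (SL.cons S256_270_660_808_29 (SL.cons S256_270_660_808_30 (SL.cons S256_270_660_808_31 (SL.cons S256_270_660_808_32 (SL.cons S256_270_660_808_33 (SL.cons S256_270_660_808_34 (SL.cons S256_270_660_808_35 (SL.cons S256_270_660_808_36 (SL.cons S256_270_660_808_37 (SL.cons S256_270_660_808_38 (SL.cons S256_270_660_808_39 (SL.cons S256_270_660_808_40 (SL.cons S256_270_660_808_41 (SL.cons S256_270_660_808_42 (SL.cons S256_270_660_808_43 (SL.cons S256_270_660_808_44 (SL.cons S256_270_660_808_45 (SL.cons S256_270_660_808_46 (SL.cons S256_270_660_808_47 (SL.cons S256_270_660_808_48 SL.nil)))))))))))))))))))))))))))))))))))))))))))))))))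
theorem S241_256_660_808_ok : band (seq (shp 5 241 256 660 808) S241_256_660_808) (sok S241_256_660_808) = true := by decide +kernel

theorem S241_256_734_808_ok : band (seq (shp 5 241 256 734 808) S241_256_734_808) (sok S241_256_734_808) = true := by decide +kernel

theorem S256_270_216_364_ok : band (seq (shp 5 256 270 216 364) S256_270_216_364) (sok S256_270_216_364) = true := by decide +kernel

theorem S256_270_364_512_ok : band (seq (shp 5 256 270 364 512) S256_270_364_512) (sok S256_270_364_512) = true := by decide +kernel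

theorem S256_270_512_660_ok : band (seq (shp 5 256 270 512 660) S256_270_512_660) (sok S256_270_512_660) = true := by decide +kernel

theorem S256_270_660_808_ok : band (seq (shp 5 256 270 660 808) S256_270_660_808) (sok S256_270_660_808) = true := by decide +kernel

end Vale.Agent.P098.Ck
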